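-- KEEP
import Claimed.Agent.R289.Tr.LinkMF
import Claimed.Agent.R289.Tr.LinkME
import Claimed.Agent.R289.Exit.ParEngF

/-!
# Row 289 (S0537), THE WALL, ROAD E, E10 = LINK BOUND, file Tr/LinkRv : THE THREE HARD FIELDS OF `PvyrGeo` (296, `Tr/LinkMF`) AT THE THICK RETURN OF RECORD (182, `Exit/ParEngF`)      (helper215; prefix `pvmu_rv_`)

CONSUMER: 296 `Exit/GoodFM` (pattern of record of `f`: FIT, WINDOW).      Hypothesis `h : PvefNdg 𝔓 m t`, everything RELATIVE TO THE CENTRE OF THE PIN (`zc = 0`).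
* sec. 1  integers (template of `pvef_in_z`): **`pvmu_rv_in_cls`** (a block of the polyline, in the frame `(ν, λ)` of the exit side `a`: in front of `ep'` | `|λ| ≥ K + 2` | `ν ≤ -(K + 2)`, `K = ν_b (em')` | `|λ - λ (ep')| ≥ 7` | a case excluded by the reals),
          `pvmu_rv_in_back` (the two blocks behind the first door are not on the polyline), `pvmu_rv_east_ne`
* sec. 2  model free: the centres of the extended word `pvmvX l` (`pvmu_rv_X_C0 _C _Cn`), **`pvmu_rv_X_simple`**, **`pvmu_rv_X_back`**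
* sec. 3  AT THE MODEL: **`pvmu_rv_simple`**, **`pvmu_rv_back`**
* sec. 4  AT THE MODEL: **`pvmu_rv_front`** (WEAK FRONT, `W ≤ 3 ρ h / 16`, on `pvefBlocks ∪ ` the block of the plug), **`pvmu_rv_front'`** (the field of `PvyrGeo` verbatim), **`pvmu_rv_geo`** (ALL THE FIELDS of `PvyrGeo`, pin at `zc`)
-/

set_option autoImplicit false
set_option linter.unusedSectionVars false
set_option linter.unusedVariables false

namespace Claimed.Agent.R289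

open Complex Set Metric

/-! ## 1. integers -/

set_option linter.unusedSimpArgs false in
set_option maxHeartbeats 4000000 in
/-- **WHERE THE BLOCKS OF THE THICK RETURN ARE, IN THE FRAME OF THE EXIT SIDE `a`** -/
theorem pvmu_rv_in_cls {B M : ℤ} {a b : ℕ} {ep em : ℤ × ℤ} (h : PvefOKb B M a b ep em) : ∀ x, PvxrIn (ep - pvxrE a) (pvxrE a) (pvxrCorners M a b ep em 0) x →
    pvxrDot ep (pvxrE a) ≤ pvxrDot x (pvxrE a) ∨ pvxrDot em (pvxrE b) + 2 ≤ pvxrDot x (pvxrE (a + 1)) ∨ pvxrDot x (pvxrE (a + 1)) ≤ -(pvxrDot em (pvxrE b) + 2) ∨ pvxrDot x (pvxrE a) ≤ -(pvxrDot em (pvxrE b) + 2) ∨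
      7 ≤ pvxrDot x (pvxrE (a + 1)) - pvxrDot ep (pvxrE (a + 1)) ∨ pvxrDot x (pvxrE (a + 1)) - pvxrDot ep (pvxrE (a + 1)) ≤ -7 ∨ (a = b ∧ 13 ≤ pvxrDot ep (pvxrE a) - pvxrDot em (pvxrE a)) := by
  obtain ⟨⟨a4, b4, n0, B0, ep_n, ep_l, em_n, em_l, ep_M, em_M, sep⟩, em_M2, far, cor⟩ := h
  rw [abs_le] at ep_l em_l
  obtain ⟨p1, p2⟩ := ep
  obtain ⟨m1, m2⟩ := em
  simp only [le_abs] at far cor
  have r1 : List.range 1 = [0] := rfl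
  have r2 : List.range 2 = [0, 1] := rfl
  have r3 : List.range 3 = [0, 1, 2] := rfl
  have r4 : List.range 4 = [0, 1, 2, 3] := rfl
  interval_cases a <;> interval_cases b <;>
  simp only [pvxrDot, pvxrE, Nat.reduceMod, Nat.reduceAdd, lt_abs, Nat.reduceEqDiff, forall_const, false_imp_iff, OfNat.zero_ne_ofNat, OfNat.ofNat_ne_zero, OfNat.one_ne_ofNat, OfNat.ofNat_ne_one, zero_ne_one, one_ne_zero, IsEmpty.forall_iff] at ep_n ep_l em_n em_l ep_M em_M em_M2 sep cor <;>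
  simp only [pvxrDot, pvxrCorners, pvxrNc, pvxrProj, pvxrRo, pvxrMan, pvxrE, pvxrUo, Nat.reduceMod, Nat.reduceAdd, Nat.reduceSub, Prod.mk_add_mk, Prod.mk_sub_mk, true_and, false_and, if_false, Nat.reduceEqDiff, OfNat.zero_ne_ofNat, OfNat.ofNat_ne_zero, OfNat.one_ne_ofNat, OfNat.ofNat_ne_one, zero_ne_one, one_ne_zero, Nat.add_zero] <;>
  (try split_ifs) <;>
  simp only [Nat.reduceAdd, Nat.add_zero, Nat.zero_add, r1, r2, r3, r4, List.range_zero, List.nil_append, List.cons_append, List.map_cons, List.map_nil, pvxrCor, Nat.reduceMod, PvxrIn, PvxrLeg, pvccRotI, and_true, abs_le] <;>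
  (intro x hx) <;> omega

set_option linter.unusedSimpArgs false in
set_option maxHeartbeats 4000000 in
/-- the two blocks behind the first door are not blocks of the polyline -/
theorem pvmu_rv_in_back {B M : ℤ} {a b : ℕ} {ep em : ℤ × ℤ} (h : PvefOKb B M a b ep em) : ∀ x, PvxrIn (ep - pvxrE a) (pvxrE a) (pvxrCorners M a b ep em 0) x →
    ¬ (x.1 = (ep - pvxrE a).1 ∧ x.2 = (ep - pvxrE a).2) ∧ ¬ (x.1 = (ep - pvxrE a - pvxrE a).1 ∧ x.2 = (ep - pvxrE a - pvxrE a).2) := by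
  obtain ⟨⟨a4, b4, n0, B0, ep_n, ep_l, em_n, em_l, ep_M, em_M, sep⟩, em_M2, far, cor⟩ := h
  rw [abs_le] at ep_l em_l
  obtain ⟨p1, p2⟩ := ep
  obtain ⟨m1, m2⟩ := em
  simp only [le_abs] at far cor
  have r1 : List.range 1 = [0] := rfl
  have r2 : List.range 2 = [0, 1] := rfl
  have r3 : List.range 3 = [0, 1, 2] := rfl
  have r4 : List.range 4 = [0, 1, 2, 3] := rfl
  interval_cases a <;> interval_cases b <;>
  simp only [pvxrDot, pvxrE, Nat.reduceMod, Nat.reduceAdd, lt_abs, Nat.reduceEqDiff, forall_const, false_imp_iff, OfNat.zero_ne_ofNat, OfNat.ofNat_ne_zero, OfNat.one_ne_ofNat, OfNat.ofNat_ne_one, zero_ne_one, one_ne_zero, IsEmpty.forall_iff] at ep_n ep_l em_n em_l ep_M em_M em_M2 sep cor <;>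
  simp only [pvxrDot, pvxrCorners, pvxrNc, pvxrProj, pvxrRo, pvxrMan, pvxrE, pvxrUo, Nat.reduceMod, Nat.reduceAdd, Nat.reduceSub, Prod.mk_add_mk, Prod.mk_sub_mk, true_and, false_and, if_false, Nat.reduceEqDiff, OfNat.zero_ne_ofNat, OfNat.ofNat_ne_zero, OfNat.one_ne_ofNat, OfNat.ofNat_ne_one, zero_ne_one, one_ne_zero, Nat.add_zero] <;>
  (try split_ifs) <;>
  simp only [Nat.reduceAdd, Nat.add_zero, Nat.zero_add, r1, r2, r3, r4, List.range_zero, List.nil_append, List.cons_append, List.map_cons, List.map_nil, pvxrCor, Nat.reduceMod, PvxrIn, PvxrLeg, pvccRotI, and_true, abs_le] <;>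
  (intro x hx) <;> omega

/-- the east neighbour of the block of the plug is not the block behind the first door -/
theorem pvmu_rv_east_ne {B M : ℤ} {a b : ℕ} {ep em : ℤ × ℤ} (h : PvefOKb B M a b ep em) : em + pvxrUo b 1 + (1, 0) ≠ ep - pvxrE a := by
  obtain ⟨⟨a4, b4, n0, B0, ep_n, ep_l, em_n, em_l, ep_M, em_M, sep⟩, em_M2, far, cor⟩ := h
  obtain ⟨p1, p2⟩ := ep
  obtain ⟨m1, m2⟩ := em
  simp only [le_abs] at cor
  intro e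
  interval_cases a <;> interval_cases b <;>
  simp only [pvxrDot, pvxrE, pvxrUo, Nat.reduceMod, Nat.reduceAdd, Prod.mk_add_mk, Prod.mk_sub_mk, Prod.mk.injEq] at cor e <;> omega

/-! ## 2. model free: the centres of the extended word -/

theorem pvmu_rv_X_C0 (z d : ℂ) (l : List PvtTurn) : pvccC (z - d) d (pvmvX l) 0 = z - d / 2 := by
  unfold pvccC
  rw [pvccZ_zero, pvccD_zero]
  ring

theorem pvmu_rv_X_C (z d : ℂ) (l : List PvtTurn) {j : ℕ} (hj : j ≤ l.length) : pvccC (z - d) d (pvmvX l) (j + 1) = pvccC z d l j := by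
  unfold pvccC
  rw [pvmv_X_Z z d l hj, pvmv_X_D d l hj]

theorem pvmu_rv_X_Cn (z d : ℂ) (l : List PvtTurn) : pvccC (z - d) d (pvmvX l) (l.length + 2) = pvccC z d l l.length + pvccD d l l.length := by
  have hlt : l.length + 1 < (pvmvX l).length := by rw [pvmv_X_length]; omega
  unfold pvccC
  rw [show l.length + 2 = (l.length + 1) + 1 from rfl, pvccZ_succ (z - d) d (pvmvX l) hlt, pvccD_succ d (pvmvX l) hlt, pvmv_X_Tn, pvmv_X_Z z d l le_rfl, pvmv_X_D d l le_rfl]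
  simp only [PvtTurn.mid, PvtTurn.rot, mul_one]
  ring

/-- **the extended word is cell-simple** as soon as the word is, the block behind the first door and the block beyond the block which follows the word are new and distinct -/
theorem pvmu_rv_X_simple {z d : ℂ} {l : List PvtTurn} (hS : PvccSimple l l.length) (p1 : ∀ j ≤ l.length, pvccC z d l j ≠ z - d / 2)
    (p3 : ∀ j ≤ l.length, pvccC z d l j ≠ pvccC z d l l.length + pvccD d l l.length) (p4 : pvccC z d l l.length + pvccD d l l.length ≠ z - d / 2) : PvccSimple (pvmvX l) (pvmvX l).length := by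
  have key : ∀ j k, j ≤ l.length + 2 → k ≤ l.length + 2 → j < k → pvccC (z - d) d (pvmvX l) j ≠ pvccC (z - d) d (pvmvX l) k := by
    intro j k hj hk hjk e
    obtain ⟨k', rfl⟩ : ∃ k', k = k' + 1 := ⟨k - 1, by omega⟩
    rcases Nat.eq_zero_or_pos j with rfl | hj0
    · rw [pvmu_rv_X_C0] at e
      rcases (show k' ≤ l.length ∨ k' = l.length + 1 by omega) with hk' | rfl
      · rw [pvmu_rv_X_C z d l hk'] at e
        exact p1 k' hk' e.symm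
      · rw [pvmu_rv_X_Cn] at e
        exact p4 e.symm
    · obtain ⟨j', rfl⟩ : ∃ j', j = j' + 1 := ⟨j - 1, by omega⟩
      have hj' : j' ≤ l.length := by omega
      rw [pvmu_rv_X_C z d l hj'] at e
      rcases (show k' ≤ l.length ∨ k' = l.length + 1 by omega) with hk' | rfl
      · rw [pvmu_rv_X_C z d l hk', pvccC_cov z d l j', pvccC_cov z d l k'] at e
        by_cases hd : d = 0
        · subst hd
          refine p4 ?_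
          unfold pvccC pvccZ pvccD
          rw [pvtDir_eq_mul_one, pvtDisp, pvtAcc_eq_mul_one]
          simp
        · have := hS j' k' hj' hk' (mul_left_cancel₀ hd (add_left_cancel e))
          omega
      · rw [pvmu_rv_X_Cn] at e
        exact p3 j' hj' e
  intro j k hj hk e
  rw [pvmv_X_length] at hj hk
  have e' : pvccC (z - d) d (pvmvX l) j = pvccC (z - d) d (pvmvX l) k := by rw [pvccC_cov (z - d) d _ j, pvccC_cov (z - d) d _ k, e]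
  rcases lt_trichotomy j k with h | h | h
  · exact absurd e' (key j k hj hk h)
  · exact h
  · exact absurd e'.symm (key k j hk hj h)

/-- **no block of the extended word is the block behind its first door** -/
theorem pvmu_rv_X_back {z d : ℂ} {l : List PvtTurn} (hd : d ≠ 0) (p2 : ∀ j ≤ l.length, pvccC z d l j ≠ z - d / 2 - d) : ∀ k, k < (pvmvX l).length → pvccC 0 1 (pvmvX l) k ≠ -(1 / 2) := by
  intro k hk e
  rw [pvmv_X_length] at hk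
  have e' : pvccC (z - d) d (pvmvX l) k = z - d / 2 - d := by
    rw [pvccC_cov (z - d) d _ k, e]
    ring
  rcases Nat.eq_zero_or_pos k with rfl | hk0
  · rw [pvmu_rv_X_C0] at e'
    exact hd (by linear_combination e')
  · obtain ⟨k', rfl⟩ : ∃ k', k = k' + 1 := ⟨k - 1, by omega⟩
    rw [pvmu_rv_X_C z d l (by omega)] at e'
    exact p2 k' (by omega) e'

/-! ## 3. AT THE MODEL: `simple`, `back` -/

theorem pvmu_rv_ctr_inj {δ : ℝ} (hδ : 0 < δ) {n : ℤ} (hn : 0 ≤ n) (em : ℤ × ℤ) {x y : ℤ × ℤ} (e : pvefCtr δ n em x = pvefCtr δ n em y) : x = y := by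
  have h1 := pvef_ctr_add δ n em x (y - x)
  rw [add_sub_cancel, ← e] at h1
  have hn' : (0 : ℝ) ≤ (n : ℝ) := by exact_mod_cast hn
  have hg : (((2 * (n : ℝ) + 1) * δ : ℝ) : ℂ) ≠ 0 := by
    rw [Ne, Complex.ofReal_eq_zero]
    positivity
  have h2 : pvtZ (y - x) = 0 := by
    have : (((2 * (n : ℝ) + 1) * δ : ℝ) : ℂ) * pvtZ (y - x) = 0 := by linear_combination -h1
    exact (mul_eq_zero.1 this).resolve_left hg
  have h3 : y - x = (0, 0) := pvtZ_injective (by rw [h2]; simp [pvtZ])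
  have h4 : y - x = 0 := h3
  exact (sub_eq_zero.1 h4).symm

theorem pvmu_rv_Z_neg (v : ℤ × ℤ) : pvtZ (-v) = -pvtZ v := by
  simp only [pvtZ, Prod.fst_neg, Prod.snd_neg]
  push_cast
  ring

section model

variable {τ : Type} {c : ℝ} {𝔓 : PvxPar τ c}

/-- the block behind the first door -/
theorem pvmu_rv_Bm1 (m : ℕ) (t : τ) : pvefZ 𝔓 m t - pvefD 𝔓 m t / 2 =
    pvefCtr (pvlmDel c m) (pvxrNw 𝔓 m) (pvxrEm 𝔓 m t) (pvefEp (pvxrNw 𝔓 m) (pvxrEm 𝔓 m t) (pvxrEp 𝔓 m t) - pvxrE (pvxrA 𝔓 t)) := by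
  rw [sub_eq_add_neg (pvefEp _ _ _), pvef_ctr_add, pvmu_rv_Z_neg, pvxr_Z_E]
  have e : pvefZ 𝔓 m t = pvefCtr (pvlmDel c m) (pvxrNw 𝔓 m) (pvxrEm 𝔓 m t) (pvefEp (pvxrNw 𝔓 m) (pvxrEm 𝔓 m t) (pvxrEp 𝔓 m t)) - (((2 * (pvxrNw 𝔓 m : ℝ) + 1) * pvlmDel c m : ℝ) : ℂ) * I ^ pvxrA 𝔓 t / 2 := rfl
  have e2 : pvefD 𝔓 m t = (((2 * (pvxrNw 𝔓 m : ℝ) + 1) * pvlmDel c m : ℝ) : ℂ) * I ^ pvxrA 𝔓 t := rfl
  rw [e, e2]
  ring

/-- the second block behind the first door -/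
theorem pvmu_rv_Bm2 (m : ℕ) (t : τ) : pvefZ 𝔓 m t - pvefD 𝔓 m t / 2 - pvefD 𝔓 m t =
    pvefCtr (pvlmDel c m) (pvxrNw 𝔓 m) (pvxrEm 𝔓 m t) (pvefEp (pvxrNw 𝔓 m) (pvxrEm 𝔓 m t) (pvxrEp 𝔓 m t) - pvxrE (pvxrA 𝔓 t) - pvxrE (pvxrA 𝔓 t)) := by
  rw [sub_eq_add_neg (pvefEp _ _ _ - _), pvef_ctr_add, pvmu_rv_Z_neg, pvxr_Z_E, ← pvmu_rv_Bm1]
  have e2 : pvefD 𝔓 m t = (((2 * (pvxrNw 𝔓 m : ℝ) + 1) * pvlmDel c m : ℝ) : ℂ) * I ^ pvxrA 𝔓 t := rfl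
  rw [e2]
  ring

/-- the east neighbour of the block of the plug -/
theorem pvmu_rv_Be {m : ℕ} {t : τ} (h : PvefNdg 𝔓 m t) : pvccC (pvefZ 𝔓 m t) (pvefD 𝔓 m t) (pvefW 𝔓 m t) (pvefW 𝔓 m t).length + pvccD (pvefD 𝔓 m t) (pvefW 𝔓 m t) (pvefW 𝔓 m t).length =
    pvefCtr (pvlmDel c m) (pvxrNw 𝔓 m) (pvxrEm 𝔓 m t) (pvefU (pvxrB 𝔓 t) (pvxrEm 𝔓 m t) (pvxrNw 𝔓 m) + (1, 0)) := by
  have h2 : pvefV (pvxrM 𝔓 m t) (pvxrA 𝔓 t) (pvxrB 𝔓 t) (pvxrEp 𝔓 m t) (pvxrEm 𝔓 m t) (pvxrNw 𝔓 m) (pvefW 𝔓 m t).length = pvefU (pvxrB 𝔓 t) (pvxrEm 𝔓 m t) (pvxrNw 𝔓 m) :=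
    pvef_V_last (pvef_ok_of_ndg h)
  rw [pvef_W_C, h2, pvef_last_dir h, pvef_ctr_add]
  have e : pvtZ (1, 0) = 1 := by simp [pvtZ]
  rw [e, mul_one]
  rfl

/-- **`PvyrGeo.simple` at the thick return of record** -/
theorem pvmu_rv_simple {m : ℕ} {t : τ} (h : PvefNdg 𝔓 m t) : PvccSimple (pvmvX (pvefW 𝔓 m t)) (pvmvX (pvefW 𝔓 m t)).length := by
  have ok := pvef_ok_of_ndg h
  have hn := pvef_n0 h
  have hd := pvlm_Del_pos c m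
  refine pvmu_rv_X_simple (z := pvefZ 𝔓 m t) (d := pvefD 𝔓 m t) (pvef_W_simple h) ?_ ?_ ?_
  · intro j hj e
    rw [pvef_W_C, pvmu_rv_Bm1] at e
    have e' := pvmu_rv_ctr_inj hd hn _ e
    exact (pvmu_rv_in_back (pvef_okb ok) _ (pvef_path_in ok (pvef_V_mem ok hj))).1 ⟨by rw [e'], by rw [e']⟩
  · intro j hj e
    rw [pvmu_rv_Be h, pvef_W_C] at e
    have e' := pvmu_rv_ctr_inj hd hn _ e
    have hin := pvef_path_in ok (pvef_V_mem ok hj)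
    rw [e'] at hin
    have := (pvef_in_u (pvef_okb ok) _ hin (by simp [pvefU]) (by simp [pvefU])).2
    simp [pvefU] at this
  · intro e
    rw [pvmu_rv_Be h, pvmu_rv_Bm1] at e
    exact pvmu_rv_east_ne (pvef_okb ok) (pvmu_rv_ctr_inj hd hn _ e)

/-- **`PvyrGeo.back` at the thick return of record** -/
theorem pvmu_rv_back {m : ℕ} {t : τ} (h : PvefNdg 𝔓 m t) : ∀ k, k < (pvmvX (pvefW 𝔓 m t)).length → pvccC 0 1 (pvmvX (pvefW 𝔓 m t)) k ≠ -(1 / 2) := by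
  have ok := pvef_ok_of_ndg h
  have hn := pvef_n0 h
  have hd := pvlm_Del_pos c m
  refine pvmu_rv_X_back (z := pvefZ 𝔓 m t) (d := pvefD 𝔓 m t) (pvef_D_ne hn t) ?_
  intro j hj e
  rw [pvef_W_C, pvmu_rv_Bm2] at e
  have e' := pvmu_rv_ctr_inj hd hn _ e
  exact (pvmu_rv_in_back (pvef_okb ok) _ (pvef_path_in ok (pvef_V_mem ok hj))).2 ⟨by rw [e'], by rw [e']⟩

end model

/-! ## 4. AT THE MODEL: the weak front -/

/-- the centre of the block `x` in the ABSOLUTE frame of direction `I ^ a` -/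
theorem pvmu_rv_ctr0 (δ : ℝ) (n : ℤ) (em x : ℤ × ℤ) {a : ℕ} (ha : a < 4) :
    (pvefCtr δ n em x * (starRingEnd ℂ) (I ^ a)).re = (pvefCtr δ n em 0 * (starRingEnd ℂ) (I ^ a)).re + (2 * (n : ℝ) + 1) * δ * ((pvxrDot x (pvxrE a) : ℤ) : ℝ) ∧
      (pvefCtr δ n em x * (starRingEnd ℂ) (I ^ a)).im = (pvefCtr δ n em 0 * (starRingEnd ℂ) (I ^ a)).im + (2 * (n : ℝ) + 1) * δ * ((pvxrDot x (pvxrE (a + 1)) : ℤ) : ℝ) := by
  have e := pvef_ctr_add δ n em 0 x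
  rw [zero_add] at e
  obtain ⟨d1, d2⟩ := pvef_x_dot ha x
  have key : pvefCtr δ n em x * (starRingEnd ℂ) (I ^ a) = pvefCtr δ n em 0 * (starRingEnd ℂ) (I ^ a) + (((2 * (n : ℝ) + 1) * δ : ℝ) : ℂ) * (pvtZ x * (starRingEnd ℂ) (I ^ a)) := by
    rw [e]
    ring
  rw [key, add_re, add_im, Complex.re_ofReal_mul, Complex.im_ofReal_mul, d1, d2]
  exact ⟨rfl, rfl⟩

/-- the centre of the block of the centre of the pin -/
theorem pvmu_rv_O {δ : ℝ} (hδ : 0 < δ) {n : ℤ} (hn : 0 ≤ n) (em : ℤ × ℤ) : pvccN (pvefCtr δ n em 0) ≤ (2 * (n : ℝ) + 1) * δ / 2 := by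
  obtain ⟨h1, h2⟩ := pvef_cc_near hn em 0
  simp only [Prod.fst_zero, Prod.snd_zero, mul_zero, sub_zero] at h1 h2
  have g1 : |((pvefCc n em 0).1 : ℝ)| ≤ (n : ℝ) := by exact_mod_cast h1
  have g2 : |((pvefCc n em 0).2 : ℝ)| ≤ (n : ℝ) := by exact_mod_cast h2
  rw [abs_le] at g1 g2
  unfold pvccN pvefCtr
  simp only [pvtCtr]
  refine max_le ?_ ?_ <;> rw [abs_le] <;> constructor <;> nlinarith [g1.1, g1.2, g2.1, g2.2]

/-- **the numbers of the weak front** -/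
theorem pvmu_rv_num {Δ r δ W R₀ sp sm oaR oaI obR ypI ν lm νp lp K S L Sc Lc : ℝ}
    (hδ : 0 < δ) (hfine : 1024 * δ ≤ r) (hΔ1 : r / 16 + δ ≤ Δ) (hΔ2 : Δ < r / 16 + 3 * δ) (hW : W ≤ 3 * r / 16) (hR : 0 ≤ R₀)
    (hsp : |sp - R₀| ≤ r / 10) (hsm : |sm - R₀| ≤ r / 10) (o1 : |oaR| ≤ Δ / 2) (o2 : |oaI| ≤ Δ / 2) (o3 : |obR| ≤ Δ / 2) (hy : |ypI| ≤ sp)
    (hS : |S - (oaR + Δ * ν - sp)| ≤ Δ / 2) (hL : |L - (oaI + Δ * lm - ypI)| ≤ Δ / 2) (hSc : Sc = oaR + Δ * νp - sp) (hLc : Lc = oaI + Δ * lp - ypI)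
    (c2 : Sc ≤ 13 * r / 32 + 2 * δ) (c3 : |Lc| ≤ r / 32 + 2 * δ) (hem : |obR + Δ * K - sm - 3 * r / 8| ≤ δ)
    (hcls : νp ≤ ν ∨ K + 2 ≤ lm ∨ lm ≤ -(K + 2) ∨ ν ≤ -(K + 2) ∨ 7 ≤ lm - lp ∨ lm - lp ≤ -7 ∨ (obR = oaR ∧ 13 ≤ νp - K)) :
    Sc - Δ / 2 ≤ S ∨ W < L ∨ L < -W ∨ S < -W := by
  have hΔ : 0 < Δ := by linarith
  rw [abs_le] at hsp hsm o1 o2 o3 hy hS hL c3 hem
  rcases hcls with h | h | h | h | h | h | ⟨h0, h⟩
  · left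
    have := mul_le_mul_of_nonneg_left h hΔ.le
    linarith [hS.1]
  · right; left
    have := mul_le_mul_of_nonneg_left h hΔ.le
    linarith [hL.1, o2.1, hy.2, hsp.2, hsm.1, hem.1, o3.2]
  · right; right; left
    have := mul_le_mul_of_nonneg_left h hΔ.le
    linarith [hL.2, o2.2, hy.1, hsp.2, hsm.1, hem.1, o3.2]
  · right; right; right
    have := mul_le_mul_of_nonneg_left h hΔ.le
    linarith [hS.2, o1.2, hsp.1, hsm.1, hem.1, o3.2]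
  · right; left
    have := mul_le_mul_of_nonneg_left h hΔ.le
    linarith [hL.1, c3.1]
  · right; right; left
    have := mul_le_mul_of_nonneg_left h hΔ.le
    linarith [hL.2, c3.2]
  · exfalso
    have := mul_le_mul_of_nonneg_left h hΔ.le
    linarith [hem.1, hsp.2, hsm.1]

section model4

variable {τ : Type} {c : ℝ} {𝔓 : PvxPar τ c}

/-- the two tip cells in their absolute frames -/
theorem pvmu_rv_tips {m : ℕ} {t : τ} (h : PvefNdg 𝔓 m t) :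
    |(pvegYp 𝔓 m t * (starRingEnd ℂ) (I ^ pvxrA 𝔓 t)).re - pvlmH m * (2 * (𝔓.ty t).b2 + (𝔓.ty t).k * 𝔓.num.rho1)| ≤ pvegR 𝔓 m / 10 ∧
      |(pvegYm 𝔓 m t * (starRingEnd ℂ) (I ^ pvxrB 𝔓 t)).re - pvlmH m * (2 * (𝔓.ty t).b2 + (𝔓.ty t).k * 𝔓.num.rho1)| ≤ pvegR 𝔓 m / 10 ∧
      |(pvegYp 𝔓 m t * (starRingEnd ℂ) (I ^ pvxrA 𝔓 t)).im| ≤ (pvegYp 𝔓 m t * (starRingEnd ℂ) (I ^ pvxrA 𝔓 t)).re := by
  have hH := pvlm_H_pos m
  have e1 : (pvegYp 𝔓 m t * (starRingEnd ℂ) (I ^ pvxrA 𝔓 t)).re = pvlmH m * pvccN (𝔓.ty t).yp := by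
    unfold pvegYp
    rw [mul_assoc, Complex.re_ofReal_mul]
    congr 1
    exact pvxr_side_dom _
  have e2 : (pvegYm 𝔓 m t * (starRingEnd ℂ) (I ^ pvxrB 𝔓 t)).re = pvlmH m * pvccN (𝔓.ty t).ym := by
    unfold pvegYm
    rw [mul_assoc, Complex.re_ofReal_mul]
    congr 1
    exact pvxr_side_dom _
  have e3 : pvccN (pvegYp 𝔓 m t) = pvlmH m * pvccN (𝔓.ty t).yp := pvccN_real_mul hH.le _
  have n1 := abs_le.1 h.nd_p
  have n2 := abs_le.1 h.nd_m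
  refine ⟨?_, ?_, ?_⟩
  · rw [e1, abs_le]
    unfold pvegR
    constructor <;> nlinarith [n1.1, n1.2]
  · rw [e2, abs_le]
    unfold pvegR
    constructor <;> nlinarith [n2.1, n2.2]
  · rw [e1, ← e3]
    exact pveg_im_le_N (pvef_I_pow _) _

/-- **THE WEAK FRONT OF THE THICK RETURN OF RECORD**: a point of a block of `f`, or of the block of the plug, is in front of the first door or off the square `W ≤ 3 ρ h / 16` of the exit mouth -/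
theorem pvmu_rv_front {m : ℕ} {t : τ} (h : PvefNdg 𝔓 m t) {W : ℝ} (hW : W ≤ 3 * pvegR 𝔓 m / 16) {w : ℂ}
    (hw : w ∈ pvefBlocks (pvehDl 𝔓 m) (pvefZ 𝔓 m t) (pvefD 𝔓 m t) (pvefW 𝔓 m t) ∪ pvehSq ((pvxrGam 𝔓 m).zu t) (pvehDl 𝔓 m / 2)) :
    pvegS (pvegYp 𝔓 m t) (I ^ pvxrA 𝔓 t) (pvefZ 𝔓 m t) ≤ pvegS (pvegYp 𝔓 m t) (I ^ pvxrA 𝔓 t) w ∨ W < pvegL (pvegYp 𝔓 m t) (I ^ pvxrA 𝔓 t) w ∨
      pvegL (pvegYp 𝔓 m t) (I ^ pvxrA 𝔓 t) w < -W ∨ pvegS (pvegYp 𝔓 m t) (I ^ pvxrA 𝔓 t) w < -W := by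
  have ok := pvef_ok_of_ndg h
  have hn := pvef_n0 h
  have hd := pvlm_Del_pos c m
  obtain ⟨d1, d2, d3⟩ := pvef_Dl_bounds h
  have hua := pvef_I_pow (pvxrA 𝔓 t)
  have hub := pvef_I_pow (pvxrB 𝔓 t)
  have a4 : pvxrA 𝔓 t < 4 := pvxr_side_lt _
  have b4 : pvxrB 𝔓 t < 4 := pvxr_side_lt _
  -- the block of `w`
  obtain ⟨j, hj, hwj⟩ : ∃ j, j ≤ (pvefW 𝔓 m t).length ∧
      w ∈ pvehSq (pvefCtr (pvlmDel c m) (pvxrNw 𝔓 m) (pvxrEm 𝔓 m t) (pvefV (pvxrM 𝔓 m t) (pvxrA 𝔓 t) (pvxrB 𝔓 t) (pvxrEp 𝔓 m t) (pvxrEm 𝔓 m t) (pvxrNw 𝔓 m) j)) (pvehDl 𝔓 m / 2) := by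
    rcases hw with hw | hw
    · unfold pvefBlocks at hw
      simp only [mem_iUnion, exists_prop, Finset.mem_range] at hw
      obtain ⟨j, hj, hw⟩ := hw
      refine ⟨j, hj.le, ?_⟩
      unfold pvefBl at hw
      rwa [pvef_W_C] at hw
    · refine ⟨(pvefW 𝔓 m t).length, le_rfl, ?_⟩
      have e : pvefV (pvxrM 𝔓 m t) (pvxrA 𝔓 t) (pvxrB 𝔓 t) (pvxrEp 𝔓 m t) (pvxrEm 𝔓 m t) (pvxrNw 𝔓 m) (pvefW 𝔓 m t).length = pvefU (pvxrB 𝔓 t) (pvxrEm 𝔓 m t) (pvxrNw 𝔓 m) :=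
        pvef_V_last ok
      rw [e, ← pvef_zu h]
      exact hw
  have hcls := pvmu_rv_in_cls (pvef_okb ok) _ (pvef_path_in ok (pvef_V_mem ok hj))
  set x := pvefV (pvxrM 𝔓 m t) (pvxrA 𝔓 t) (pvxrB 𝔓 t) (pvxrEp 𝔓 m t) (pvxrEm 𝔓 m t) (pvxrNw 𝔓 m) j with hx
  set ep' := pvefEp (pvxrNw 𝔓 m) (pvxrEm 𝔓 m t) (pvxrEp 𝔓 m t) with hep
  set em' := pvefEm (pvxrNw 𝔓 m) (pvxrEm 𝔓 m t) with hem
  have eΔ : (2 * (pvxrNw 𝔓 m : ℝ) + 1) * pvlmDel c m = pvehDl 𝔓 m := rfl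
  obtain ⟨x1, x2⟩ := pvmu_rv_ctr0 (pvlmDel c m) (pvxrNw 𝔓 m) (pvxrEm 𝔓 m t) x a4
  obtain ⟨p1, p2⟩ := pvmu_rv_ctr0 (pvlmDel c m) (pvxrNw 𝔓 m) (pvxrEm 𝔓 m t) ep' a4
  obtain ⟨q1, -⟩ := pvmu_rv_ctr0 (pvlmDel c m) (pvxrNw 𝔓 m) (pvxrEm 𝔓 m t) em' b4
  rw [eΔ] at x1 x2 p1 p2 q1
  have hO := pvmu_rv_O hd hn (pvxrEm 𝔓 m t)
  rw [eΔ] at hO
  obtain ⟨t1, t2, t3⟩ := pvmu_rv_tips h
  obtain ⟨m1, -, -, -⟩ := pvef_x_em h
  obtain ⟨-, c2, c3⟩ := pvef_C0_frame h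
  obtain ⟨w1, w2⟩ := pvef_x_SL hua (pvegYp 𝔓 m t) w (pvefCtr (pvlmDel c m) (pvxrNw 𝔓 m) (pvxrEm 𝔓 m t) x)
  have hwj' : pvccN (w - pvefCtr (pvlmDel c m) (pvxrNw 𝔓 m) (pvxrEm 𝔓 m t) x) ≤ pvehDl 𝔓 m / 2 := hwj
  have hZ : pvegS (pvegYp 𝔓 m t) (I ^ pvxrA 𝔓 t) (pvefZ 𝔓 m t) = pvegS (pvegYp 𝔓 m t) (I ^ pvxrA 𝔓 t) (pvefC0 𝔓 m t) - pvehDl 𝔓 m / 2 := by
    have := (pvef_q217_pt (𝔓 := 𝔓) m t 0).1
    rw [mul_zero, add_zero] at this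
    rw [this]
    simp
    ring
  have sS : ∀ v : ℂ, pvegS (pvegYp 𝔓 m t) (I ^ pvxrA 𝔓 t) v = (v * (starRingEnd ℂ) (I ^ pvxrA 𝔓 t)).re - (pvegYp 𝔓 m t * (starRingEnd ℂ) (I ^ pvxrA 𝔓 t)).re := by
    intro v
    unfold pvegS
    rw [sub_mul, sub_re]
  have sL : ∀ v : ℂ, pvegL (pvegYp 𝔓 m t) (I ^ pvxrA 𝔓 t) v = (v * (starRingEnd ℂ) (I ^ pvxrA 𝔓 t)).im - (pvegYp 𝔓 m t * (starRingEnd ℂ) (I ^ pvxrA 𝔓 t)).im := by
    intro v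
    unfold pvegL
    rw [sub_mul, sub_im]
  have sM : pvegS (pvegYm 𝔓 m t) (I ^ pvxrB 𝔓 t) (pvtCtr (pvlmDel c m) (pvxrEm 𝔓 m t)) =
      (pvefCtr (pvlmDel c m) (pvxrNw 𝔓 m) (pvxrEm 𝔓 m t) em' * (starRingEnd ℂ) (I ^ pvxrB 𝔓 t)).re - (pvegYm 𝔓 m t * (starRingEnd ℂ) (I ^ pvxrB 𝔓 t)).re := by
    unfold pvegS
    rw [sub_mul, sub_re, pvefCtr, hem, pvef_cc_em]
  rw [hZ]
  refine pvmu_rv_num (Δ := pvehDl 𝔓 m) (r := pvegR 𝔓 m) (δ := pvlmDel c m) (R₀ := pvlmH m * (2 * (𝔓.ty t).b2 + (𝔓.ty t).k * 𝔓.num.rho1))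
    (sp := (pvegYp 𝔓 m t * (starRingEnd ℂ) (I ^ pvxrA 𝔓 t)).re) (sm := (pvegYm 𝔓 m t * (starRingEnd ℂ) (I ^ pvxrB 𝔓 t)).re)
    (oaR := (pvefCtr (pvlmDel c m) (pvxrNw 𝔓 m) (pvxrEm 𝔓 m t) 0 * (starRingEnd ℂ) (I ^ pvxrA 𝔓 t)).re) (oaI := (pvefCtr (pvlmDel c m) (pvxrNw 𝔓 m) (pvxrEm 𝔓 m t) 0 * (starRingEnd ℂ) (I ^ pvxrA 𝔓 t)).im)
    (obR := (pvefCtr (pvlmDel c m) (pvxrNw 𝔓 m) (pvxrEm 𝔓 m t) 0 * (starRingEnd ℂ) (I ^ pvxrB 𝔓 t)).re) (ypI := (pvegYp 𝔓 m t * (starRingEnd ℂ) (I ^ pvxrA 𝔓 t)).im)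
    (ν := ((pvxrDot x (pvxrE (pvxrA 𝔓 t)) : ℤ) : ℝ)) (lm := ((pvxrDot x (pvxrE (pvxrA 𝔓 t + 1)) : ℤ) : ℝ)) (νp := ((pvxrDot ep' (pvxrE (pvxrA 𝔓 t)) : ℤ) : ℝ)) (lp := ((pvxrDot ep' (pvxrE (pvxrA 𝔓 t + 1)) : ℤ) : ℝ))
    (K := ((pvxrDot em' (pvxrE (pvxrB 𝔓 t)) : ℤ) : ℝ)) (Lc := pvegL (pvegYp 𝔓 m t) (I ^ pvxrA 𝔓 t) (pvefC0 𝔓 m t))
    hd (pvef_fine h) d1 d2 hW (mul_nonneg (pvlm_H_pos m).le (add_nonneg (mul_nonneg (by norm_num) h.b2) (mul_nonneg (Nat.cast_nonneg _) h.rho1))) t1 t2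
    ((pveg_re_le_N hua _).trans hO) ((pveg_im_le_N hua _).trans hO) ((pveg_re_le_N hub _).trans hO) t3 ?_ ?_ ?_ ?_ c2 c3 ?_ ?_
  · rw [← x1, ← sS]
    exact w1.trans hwj'
  · rw [← x2, ← sL]
    exact w2.trans hwj'
  · rw [← p1, ← sS]
    rfl
  · rw [← p2, ← sL]
    rfl
  · rw [← q1, ← sM]
    exact m1
  · rcases hcls with k | k | k | k | k | k | ⟨k0, k⟩
    · exact Or.inl (by exact_mod_cast k)
    · exact Or.inr (Or.inl (by exact_mod_cast k))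
    · exact Or.inr (Or.inr (Or.inl (by exact_mod_cast k)))
    · exact Or.inr (Or.inr (Or.inr (Or.inl (by exact_mod_cast k))))
    · exact Or.inr (Or.inr (Or.inr (Or.inr (Or.inl (by exact_mod_cast k)))))
    · exact Or.inr (Or.inr (Or.inr (Or.inr (Or.inr (Or.inl (by exact_mod_cast k))))))
    · refine Or.inr (Or.inr (Or.inr (Or.inr (Or.inr (Or.inr ⟨by rw [k0], ?_⟩)))))
      rw [← k0]
      exact_mod_cast k

end model4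

section model5

variable {τ : Type} {c : ℝ} {𝔓 : PvxPar τ c}

/-- the full lanes of the word lie in its blocks -/
theorem pvmu_rv_lanes_blocks {m : ℕ} (hn : 0 ≤ pvxrNw 𝔓 m) (t : τ) :
    pvfeLanes (-(1 / 2)) (1 / 2) (pvefZ 𝔓 m t) (pvefD 𝔓 m t) (pvefW 𝔓 m t) ⊆ pvefBlocks (pvehDl 𝔓 m) (pvefZ 𝔓 m t) (pvefD 𝔓 m t) (pvefW 𝔓 m t) := by
  intro w h
  unfold pvfeLanes at h
  simp only [mem_iUnion, exists_prop] at h
  obtain ⟨j, hj, hw⟩ := h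
  unfold pvefBlocks
  simp only [mem_iUnion, exists_prop]
  exact ⟨j, hj, pvef_lane_sub (pveh_Dl_pos hn) _ (pvef_I_pow _) _ j le_rfl le_rfl hw⟩

/-- the cap beyond the last door lies in the block of the plug -/
theorem pvmu_rv_cap_plug {m : ℕ} {t : τ} (h : PvefNdg 𝔓 m t) {c₀ : ℝ} (hc : c₀ ≤ 1) :
    pvccPl (pvccZ (pvefZ 𝔓 m t) (pvefD 𝔓 m t) (pvefW 𝔓 m t) (pvefW 𝔓 m t).length) (pvccD (pvefD 𝔓 m t) (pvefW 𝔓 m t) (pvefW 𝔓 m t).length) (pvljRect 0 c₀ (-(1 / 2)) (1 / 2)) ⊆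
      pvehSq ((pvxrGam 𝔓 m).zu t) (pvehDl 𝔓 m / 2) := by
  have hΔ := pveh_Dl_pos (𝔓 := 𝔓) (pvef_n0 h)
  rw [pvef_last_door h, pvef_last_dir h]
  rintro _ ⟨v, ⟨a1, a2, a3, a4⟩, rfl⟩
  rw [pveh_mem_sq]
  simp only [add_re, sub_re, add_im, sub_im, Complex.re_ofReal_mul, Complex.im_ofReal_mul, Complex.div_ofNat_re, Complex.div_ofNat_im, ofReal_re, ofReal_im]
  refine ⟨⟨?_, ?_⟩, ?_, ?_⟩ <;> nlinarith

/-- **`PvyrGeo.front` at the thick return of record, verbatim** (relative to the centre of the pin) -/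
theorem pvmu_rv_front' {m : ℕ} {t : τ} (h : PvefNdg 𝔓 m t) (sd : Bool) {W c₀ : ℝ} (hW : W ≤ 3 * pvegR 𝔓 m / 16) (hc : c₀ ≤ 1) :
    ∀ w ∈ pvfeLanes (-(1 / 2)) (1 / 2) (pvefZ 𝔓 m t) (pvefD 𝔓 m t) (pvefW 𝔓 m t) ∪
        pvccPl (pvccZ (pvefZ 𝔓 m t) (pvefD 𝔓 m t) (pvefW 𝔓 m t) (pvefW 𝔓 m t).length) (pvccD (pvefD 𝔓 m t) (pvefW 𝔓 m t) (pvefW 𝔓 m t).length) (pvljRect 0 c₀ (-(1 / 2)) (1 / 2)),
      pvge2S (pvegYp 𝔓 m t) (I ^ pvxrA 𝔓 t) (pvefZ 𝔓 m t) ≤ pvge2S (pvegYp 𝔓 m t) (I ^ pvxrA 𝔓 t) w ∨ W < pvge2T (pvegYp 𝔓 m t) (I ^ pvxrA 𝔓 t) sd w ∨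
        pvge2T (pvegYp 𝔓 m t) (I ^ pvxrA 𝔓 t) sd w < -W ∨ pvge2S (pvegYp 𝔓 m t) (I ^ pvxrA 𝔓 t) w < -W := by
  intro w hw
  have hw' : w ∈ pvefBlocks (pvehDl 𝔓 m) (pvefZ 𝔓 m t) (pvefD 𝔓 m t) (pvefW 𝔓 m t) ∪ pvehSq ((pvxrGam 𝔓 m).zu t) (pvehDl 𝔓 m / 2) := by
    rcases hw with hw | hw
    · exact Or.inl (pvmu_rv_lanes_blocks (pvef_n0 h) t hw)
    · exact Or.inr (pvmu_rv_cap_plug h hc hw)
  have eT : pvge2T (pvegYp 𝔓 m t) (I ^ pvxrA 𝔓 t) sd w = pvge2Sg sd * pvegL (pvegYp 𝔓 m t) (I ^ pvxrA 𝔓 t) w := rfl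
  rw [eT]
  rcases pvmu_rv_front h hW hw' with k | k | k | k
  · exact Or.inl k
  · cases sd
    · exact Or.inr (Or.inr (Or.inl (by simp only [pvge2Sg, Bool.false_eq_true, if_false]; linarith)))
    · exact Or.inr (Or.inl (by simp only [pvge2Sg, if_true]; linarith))
  · cases sd
    · exact Or.inr (Or.inl (by simp only [pvge2Sg, Bool.false_eq_true, if_false]; linarith))
    · exact Or.inr (Or.inr (Or.inl (by simp only [pvge2Sg, if_true]; linarith)))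
  · exact Or.inr (Or.inr (Or.inr k))

/-- **THE GEOMETRY OF THE THICK RETURN OF RECORD** of the pin `(zc, t)` of level `m`: all the fields of `PvyrGeo` -/
theorem pvmu_rv_geo {m : ℕ} {t : τ} (h : PvefNdg 𝔓 m t) (zc : ℂ) (sd : Bool) {W c₀ : ℝ} (hW : W ≤ 3 * pvegR 𝔓 m / 16) (hc : c₀ ≤ 1) :
    PvyrGeo (zc + pvegYp 𝔓 m t) (I ^ pvxrA 𝔓 t) sd (zc + pvefZ 𝔓 m t) (pvefD 𝔓 m t) (pvefW 𝔓 m t) (pvehDl 𝔓 m)
      (pvge2S (pvegYp 𝔓 m t) (I ^ pvxrA 𝔓 t) (pvefZ 𝔓 m t)) (pvge2T (pvegYp 𝔓 m t) (I ^ pvxrA 𝔓 t) sd (pvefZ 𝔓 m t)) c₀ W where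
  hu := pvmv_norm_I _
  hl := pvef_W_pos h
  Δ0 := pveh_Dl_pos (pvef_n0 h)
  hD := rfl
  hZ := by
    have e := pvmv_P_of (pvmv_norm_I (pvxrA 𝔓 t)) (pvegYp 𝔓 m t) sd (pvefZ 𝔓 m t)
    unfold pvge2P at e ⊢
    rw [add_assoc, e]
  simple := pvmu_rv_simple h
  back := pvmu_rv_back h
  front := by
    intro w hw
    rw [pvmv_S_sh, pvmv_T_sh]
    refine pvmu_rv_front' h sd hW hc (w - zc) ?_
    rcases hw with hw | hw
    · exact Or.inl (pvmv_lanes_sh hw)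
    · have e : pvccZ (zc + pvefZ 𝔓 m t) (pvefD 𝔓 m t) (pvefW 𝔓 m t) (pvefW 𝔓 m t).length = zc + pvccZ (pvefZ 𝔓 m t) (pvefD 𝔓 m t) (pvefW 𝔓 m t) (pvefW 𝔓 m t).length := by
        unfold pvccZ
        ring
      rw [e] at hw
      exact Or.inr (pvmv_pl_sh hw)

end model5

end Claimed.Agent.R289
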