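import Claimed.Agent.R289.Tr.FrcM
import Claimed.Agent.R289.Tr.PlugFrcR

/-!
# Row 289 (S0537), THE WALL, cell kit, file Tr/FrcEnd : THE TWO ENDS `ep em : PvnkEnd` OF A SMALL PLUG AT THE SIDE EVENTS `S⁺ S⁻` OF 174      (helper91; prefix `pvhn_`, defs `pvhn*`)

= sec. 5 announced in the header of `Tr/FrcM.lean` (174), typed and proved here.      ON: `Tr/FrcM` (174: `pvhfS`, `PvhfGeo`, `pvhf_S_iff0`, `PvhfIs.mono`), `Tr/ForceS` (68: `pvfv_edge_joined`, `pvfv_reg_eq`), `Tr/ForceI` (272: `PvnkEnd`, `.Ok`, `.Up`),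
`Tr/PlugFrcR` (52: `PvjoRc`, `PvjoMono`, `pvjo_end_up`, `pvjoAt`, `pvjo_at_ok`, `pvjo_at_up`).
CONSUMERS: 291 `Tr/KitEnd` (road P: the kit ends `en eu` of `PvydGeo` are placed, scaled, colour-framed copies of `ep em`), every user of `PvjoIn` (fields `Op Om okp okm monop monom`).

GENERIC in the plug `𝔭`, in the truncation `𝔱` and in the state region `O` (NO numeral: valid at `pvhfT r`, `pvhfTw r Es`, `pvhfT0`, `pvjoT r` of 52, every `r`).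

* sec. 1  **`pvhn_join_joined`** : a `Join` of the Delaunay plane through sites of the colour `β` placed in a room `Nn` deep in a window with mesh ⟹ a path of the continuum in `pvlnReg β η ∩ cthickening ρ Nn`.
* sec. 2  `pvhnFt 𝔭 σ β η` (the foot of the lane `(σ, β)` of a gate of record), **`pvhnEnd 𝔭 𝔱 O σ : PvnkEnd`**, `pvhn_lane`, **`pvhn_ok`** (`PvnkEnd.Ok`), `pvhn_ft_site`, `pvhn_ft_uniq`.
* sec. 3  **`pvhn_mono`** (`PvjoMono`, zones = the two rooms), `pvhn_up`, `pvhn_up_at`, `pvhn_zone` (`Z_i ⊆ A_i`).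
* sec. 4  THE RECORD: `pvhnIn` (a `PvjoIn` with these ends and zones, the layout being a parameter), the six fields `Op Om okp okm monop monom`, `pvhn_Hf` (`I.Hf = pvhfH 𝔭 𝔱`).
* sec. 5  the regions `A X Y` of the ends at the rooms of record, in rectangles, every `r`: `pvhn_A_rect`, `pvhn_X_rect`, `pvhn_Y_eq`;   `pvhn_ok_w`, `pvhn_mono_w` (windows of one's choice).
-/

set_option autoImplicit false
set_option linter.unusedSectionVars false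
set_option linter.unusedVariables false

namespace Claimed.Agent.R289

open MeasureTheory ProbabilityTheory Set Filter Topology Metric Relation Claims.C0465
open scoped ENNReal

/-! ## 1. from the Delaunay plane to the continuum -/

/-- **a `Join` of the Delaunay plane through sites of the colour `β` placed in `Nn` (deep in a window with mesh `ρ`) is a path of the continuum** in the region of the colour `β`, within `ρ` of `Nn` -/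
theorem pvhn_join_joined {ρ : ℝ} {E Nn : Set ℂ} {η : Conf PvPt} (hρ : 0 < ρ) (hn : CfOK η) (hm : PvtrMesh ρ E (cfSites η)) (hN : Nn ⊆ pvtrCore (3 * ρ) E) (β : Bool)
    {a v : ↥(cfSites η)} (hj : (pvkiT η).Join univ (pvldCol (pvkiS η) {u | (u : ℂ) ∈ Nn} β) a v) :
    (a : ℂ) ∈ Nn ∧ (v : ℂ) ∈ Nn ∧ JoinedIn (pvlnReg β η ∩ cthickening ρ Nn) (a : ℂ) (v : ℂ) := by
  obtain ⟨ha0, hrt⟩ := hj
  rw [pvfv_reg_eq hn]
  have hball : ∀ x ∈ Nn, closedBall x ρ ⊆ cthickening ρ Nn := fun x hx => closedBall_subset_cthickening hx ρ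
  have hA : ∀ u : ↥(cfSites η), u ∈ pvldCol (pvkiS η) {u | (u : ℂ) ∈ Nn} β → (u : ℂ) ∈ {w | w ∈ cfSites η ∧ cfCol η w = β} := fun u hu => ⟨u.2, hu.2⟩
  have key : v ∈ pvldCol (pvkiS η) {u | (u : ℂ) ∈ Nn} β ∧ JoinedIn (vorUn (cfSites η) {w | w ∈ cfSites η ∧ cfCol η w = β} ∩ cthickening ρ Nn) (a : ℂ) (v : ℂ) := by
    induction hrt with
    | refl => exact ⟨ha0, JoinedIn.refl ⟨⟨_, hA a ha0, pvfv_self_cell _ _⟩, hball _ ha0.1 (mem_closedBall_self hρ.le)⟩⟩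
    | @tail u w _ hstep ih =>
      obtain ⟨hu, hJ⟩ := ih
      obtain ⟨⟨d, -, hs, ht⟩, hwX⟩ := hstep
      have hface := delb_plane_face d
      have e1 : (delbPl (cfSites η)).toMap.src d = u := hs
      have e2 : (delbPl (cfSites η)).toMap.tgt d = w := ht
      rw [e1, e2] at hface
      have hret := pvtr_of_mesh_vertex hρ hm (hN hu.1) hface
      exact ⟨hwX, hJ.trans (pvfv_edge_joined hret hface (hA u hu) (hA w hwX) (hball _ hu.1) (hball _ hwX.1))⟩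
  exact ⟨ha0.1, key.1.1, key.2⟩

/-! ## 2. the ends -/

/-- **the foot of the lane of side `σ` and colour `β`** of a gate of record of the plug `𝔭` (reference frame); at most one point at a nice configuration: `pvhn_ft_uniq` -/
def pvhnFt (𝔭 : PvkdPlug) (σ β : Bool) (η : Conf PvPt) : Set ℂ := {x | ∃ g, PvkdGate 𝔭 η 0 1 g ∧ x = ((pvkdFoot g σ β : ↥(cfSites η)) : ℂ)}

/-- **THE END OF SIDE `σ` OF THE SMALL PLUG `𝔭`** (`true` = exit, `false` = entrance), reference frame, black rim, state region `O` -/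
noncomputable def pvhnEnd (𝔭 : PvkdPlug) (𝔱 : PvhfTr) (O : Set ℂ) (σ : Bool) : PvnkEnd where
  O := O
  E := 𝔱.Es σ
  L := pvhfS 𝔭 𝔱 σ
  c := true
  A₁ := cthickening 𝔭.ρ (𝔱.Ln σ true)
  A₂ := cthickening 𝔭.ρ (𝔱.Ln σ false)
  X₁ := ball 0 𝔭.b ∩ 𝔱.Ln σ true
  X₂ := ball 0 𝔭.b ∩ 𝔱.Ln σ false
  Y₁ := 𝔱.Dr σ true ∩ 𝔱.Ln σ true
  Y₂ := 𝔱.Dr σ false ∩ 𝔱.Ln σ false
  S₁ := pvhnFt 𝔭 σ true
  S₂ := pvhnFt 𝔭 σ false

theorem pvhn_eqns_cite : True := by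
  have := @pvhnFt.eq_1; have := @pvhnEnd.eq_1
  trivial

section ends

variable {𝔭 : PvkdPlug} {𝔱 : PvhfTr} {O : Set ℂ}

/-- the starting points are sites -/
theorem pvhn_ft_site {σ β : Bool} {η : Conf PvPt} {x : ℂ} (hx : x ∈ pvhnFt 𝔭 σ β η) : x ∈ cfSites η := by
  obtain ⟨g, -, rfl⟩ := hx
  exact (pvkdFoot g σ β : ↥(cfSites η)).2

/-- the starting points lie on the rim of the gate of record -/
theorem pvhn_ft_ball {σ β : Bool} {η : Conf PvPt} {x : ℂ} (hx : x ∈ pvhnFt 𝔭 σ β η) : x ∈ ball (0 : ℂ) 𝔭.b := by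
  obtain ⟨g, hg, rfl⟩ := hx
  obtain ⟨k, hk⟩ := pvhf_foot_rim g σ β
  rw [hk]
  exact hg.least.reg.rim k

/-- the foot is unique -/
theorem pvhn_ft_uniq (hZ : Disjoint 𝔭.Zm 𝔭.Zp) {σ β : Bool} {η : Conf PvPt} (hN : PvatNice (cfSites η)) {x y : ℂ} (hx : x ∈ pvhnFt 𝔭 σ β η) (hy : y ∈ pvhnFt 𝔭 σ β η) : x = y := by
  obtain ⟨g, hg, rfl⟩ := hx
  obtain ⟨g₂, hg₂, rfl⟩ := hy
  obtain rfl := pvkx_uniq hN hZ hg hg₂
  rfl

/-- the foot of THE gate of record -/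
theorem pvhn_ft_eq (hZ : Disjoint 𝔭.Zm 𝔭.Zp) {σ β : Bool} {η : Conf PvPt} (hN : PvatNice (cfSites η)) {g : (pvkiT η).Gate (pvkiS η)} (hg : PvkdGate 𝔭 η 0 1 g) {x : ℂ}
    (hx : x ∈ pvhnFt 𝔭 σ β η) : x = ((pvkdFoot g σ β : ↥(cfSites η)) : ℂ) := pvhn_ft_uniq hZ hN hx ⟨g, hg, rfl⟩

/-- **a lane of the side event in the continuum form** -/
theorem pvhn_lane (hG : PvhfGeo 𝔭 𝔱) (σ β : Bool) {η : Conf PvPt} (hn : CfOK η) (hm : PvtrMesh 𝔭.ρ (𝔱.Es σ) (cfSites η)) {a : ↥(cfSites η)}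
    (hl : PvhfLn η 0 1 (𝔱.Ln σ β) (𝔱.Dr σ β) β a) :
    (a : ℂ) ∈ 𝔱.Ln σ β ∧ ∃ y ∈ 𝔱.Dr σ β ∩ 𝔱.Ln σ β, JoinedIn (pvlnReg β η ∩ cthickening 𝔭.ρ (𝔱.Ln σ β)) (a : ℂ) y := by
  unfold PvhfLn at hl
  simp only [pvhf_at_id] at hl
  obtain ⟨v, hv, hj⟩ := hl
  obtain ⟨h1, h2, h3⟩ := pvhn_join_joined (hG.wf σ).ρ0 hn hm (pvhf_room_core hG σ β) β hj
  exact ⟨h1, v, ⟨hv, h2⟩, h3⟩

/-- **the two lanes at once, from ONE gate of record** -/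
theorem pvhn_lanes (hG : PvhfGeo 𝔭 𝔱) (σ : Bool) {η : Conf PvPt} (hn : CfOK η) (hη : η ∈ pvhfS 𝔭 𝔱 σ) :
    ∃ g, PvkdGate 𝔭 η 0 1 g ∧ ∀ β, ((pvkdFoot g σ β : ↥(cfSites η)) : ℂ) ∈ ball (0 : ℂ) 𝔭.b ∩ 𝔱.Ln σ β ∧
      ∃ y ∈ 𝔱.Dr σ β ∩ 𝔱.Ln σ β, JoinedIn (pvlnReg β η ∩ cthickening 𝔭.ρ (𝔱.Ln σ β)) ((pvkdFoot g σ β : ↥(cfSites η)) : ℂ) y := by
  obtain ⟨⟨-, hm⟩, g, hg, hb, hw⟩ := (pvhf_S_iff0 hG σ hn.del).1 hη
  refine ⟨g, hg, fun β => ?_⟩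
  have hl : PvhfLn η 0 1 (𝔱.Ln σ β) (𝔱.Dr σ β) β (pvkdFoot g σ β) := by
    cases β
    · exact hw
    · exact hb
  obtain ⟨h1, y, hy, hj⟩ := pvhn_lane hG σ β hn hm hl
  exact ⟨⟨pvhn_ft_ball ⟨g, hg, rfl⟩, h1⟩, y, hy, hj⟩

/-- **`PvnkEnd.Ok`** -/
theorem pvhn_ok (hG : PvhfGeo 𝔭 𝔱) (mO : MeasurableSet O) (σ : Bool) : (pvhnEnd 𝔭 𝔱 O σ).Ok where
  mO := mO
  mE := (hG.wf σ).wE.1
  mL := (pvhf_S_is hG σ).meas (hG.wf σ)
  rL := pvhf_rS hG σ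
  path₁ := by
    intro η hη hn
    obtain ⟨g, hg, h⟩ := pvhn_lanes hG σ hn hη
    obtain ⟨hx, y, hy, hj⟩ := h true
    exact ⟨_, ⟨g, hg, rfl⟩, y, hy, hx, hj⟩
  path₂ := by
    intro η hη hn
    obtain ⟨g, hg, h⟩ := pvhn_lanes hG σ hn hη
    obtain ⟨hx, y, hy, hj⟩ := h false
    exact ⟨_, ⟨g, hg, rfl⟩, y, hy, hx, hj⟩

/-! ## 3. monotonicity, up-ness -/

/-- **`PvjoMono`**: the side event survives every recolouring which keeps the colours in `O ⊇ Ew`, black in the black room, white in the white room -/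
theorem pvhn_mono (hG : PvhfGeo 𝔭 𝔱) (hO : 𝔭.Ew ⊆ O) (σ : Bool) : PvjoMono (pvhfS 𝔭 𝔱 σ) true O (𝔱.Ln σ true) (𝔱.Ln σ false) := by
  intro η η' hr hη
  exact (pvhf_S_is hG σ).mono (hG.wf σ) hr.Y hr.ok.del (fun a ha => hr.fz a (hO ha)) hr.k₁ hr.k₂ hη

/-- in the words of the end -/
theorem pvhn_mono_end (hG : PvhfGeo 𝔭 𝔱) (hO : 𝔭.Ew ⊆ O) (σ : Bool) :
    PvjoMono (pvhnEnd 𝔭 𝔱 O σ).L (pvhnEnd 𝔭 𝔱 O σ).c (pvhnEnd 𝔭 𝔱 O σ).O (𝔱.Ln σ true) (𝔱.Ln σ false) := pvhn_mono hG hO σ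

/-- the zones of the recolourings lie in the sets in which the side paths run -/
theorem pvhn_zone (𝔭 : PvkdPlug) (𝔱 : PvhfTr) (O : Set ℂ) (σ : Bool) : 𝔱.Ln σ true ⊆ (pvhnEnd 𝔭 𝔱 O σ).A₁ ∧ 𝔱.Ln σ false ⊆ (pvhnEnd 𝔭 𝔱 O σ).A₂ :=
  ⟨self_subset_cthickening _, self_subset_cthickening _⟩

/-- **quenched up-ness of the end at every regular state** -/
theorem pvhn_up (hG : PvhfGeo 𝔭 𝔱) (hO : 𝔭.Ew ⊆ O) (σ : Bool) {K₁ K₂ : Set ℂ} (hd : Disjoint K₁ K₂) (h₁ : 𝔱.Ln σ true ⊆ O ∪ K₁) (h₂ : 𝔱.Ln σ false ⊆ O ∪ K₂)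
    {ε : ℝ} {st : Conf PvPt} (hst : st ∈ pvnkRg ε O) : (pvhnEnd 𝔭 𝔱 O σ).Up ε K₁ K₂ st :=
  pvjo_end_up (e := pvhnEnd 𝔭 𝔱 O σ) (pvhn_mono_end hG hO σ) hd h₁ h₂ hst

/-- **quenched up-ness of the placed end at every regular state** -/
theorem pvhn_up_at (hG : PvhfGeo 𝔭 𝔱) (hO : 𝔭.Ew ⊆ O) (σ : Bool) (z : ℂ) {d : ℂ} (hd0 : d ≠ 0) {K₁ K₂ : Set ℂ} (hd : Disjoint K₁ K₂)
    (h₁ : pvkdAt z d (𝔱.Ln σ true) ⊆ pvkdAt z d O ∪ K₁) (h₂ : pvkdAt z d (𝔱.Ln σ false) ⊆ pvkdAt z d O ∪ K₂)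
    {ε : ℝ} {st : Conf PvPt} (hst : st ∈ pvnkRg ε (pvkdAt z d O)) : (pvjoAt (pvhnEnd 𝔭 𝔱 O σ) z d).Up ε K₁ K₂ st :=
  pvjo_at_up (e := pvhnEnd 𝔭 𝔱 O σ) (pvhn_mono_end hG hO σ) z hd0 hd h₁ h₂ hst

/-- the placed end is well formed -/
theorem pvhn_ok_at (hG : PvhfGeo 𝔭 𝔱) (mO : MeasurableSet O) (σ : Bool) (z : ℂ) {d : ℂ} (hd : ‖d‖ = 1) : (pvjoAt (pvhnEnd 𝔭 𝔱 O σ) z d).Ok :=
  pvjo_at_ok (pvhn_ok hG mO σ) z hd

end ends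

/-! ## 4. the record of 52 -/

/-- **the datum `PvjoIn` of 52 with the ends of this file**; the layout `(s, L₁, L₂, K₁, K₂, Et)` is a parameter -/
noncomputable def pvhnIn (𝔭 : PvkdPlug) (𝔱 : PvhfTr) (O : Set ℂ) (s : ℝ) (L₁ L₂ : PvtTurn → List (ℤ × ℤ)) (K₁ K₂ Et : PvtTurn → Set ℂ) : PvjoIn where
  ep := pvhnEnd 𝔭 𝔱 O true
  em := pvhnEnd 𝔭 𝔱 O false
  Zp₁ := 𝔱.Ln true true
  Zp₂ := 𝔱.Ln true false
  Zm₁ := 𝔱.Ln false true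
  Zm₂ := 𝔱.Ln false false
  s := s
  L₁ := L₁
  L₂ := L₂
  K₁ := K₁
  K₂ := K₂
  Et := Et

theorem pvhn_eqns_cite2 : True := by
  have := @pvhnIn.eq_1
  trivial

section record

variable {𝔭 : PvkdPlug} {𝔱 : PvhfTr} {O : Set ℂ} {s : ℝ} {L₁ L₂ : PvtTurn → List (ℤ × ℤ)} {K₁ K₂ Et : PvtTurn → Set ℂ}

/-- **`Hf` of the record is `pvhfH` of 174** -/
theorem pvhn_Hf (𝔭 : PvkdPlug) (𝔱 : PvhfTr) (O : Set ℂ) (s : ℝ) (L₁ L₂ : PvtTurn → List (ℤ × ℤ)) (K₁ K₂ Et : PvtTurn → Set ℂ) :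
    (pvhnIn 𝔭 𝔱 O s L₁ L₂ K₁ K₂ Et).Hf = pvhfH 𝔭 𝔱 := by
  funext i
  unfold PvjoIn.Hf pvhfH
  by_cases h : i.1 < 2
  · rw [if_pos h, decide_eq_true h]
    rfl
  · rw [if_neg h, decide_eq_false h]
    rfl

/-- **the six fields `Op Om okp okm monop monom` of `PvjoIn.Ok`** -/
theorem pvhn_in_fields (hG : PvhfGeo 𝔭 𝔱) (mO : MeasurableSet O) (hO : 𝔭.Ew ⊆ O) :
    (pvhnIn 𝔭 𝔱 O s L₁ L₂ K₁ K₂ Et).ep.O = O ∧ (pvhnIn 𝔭 𝔱 O s L₁ L₂ K₁ K₂ Et).em.O = O ∧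
    (pvhnIn 𝔭 𝔱 O s L₁ L₂ K₁ K₂ Et).ep.Ok ∧ (pvhnIn 𝔭 𝔱 O s L₁ L₂ K₁ K₂ Et).em.Ok ∧
    PvjoMono (pvhnIn 𝔭 𝔱 O s L₁ L₂ K₁ K₂ Et).ep.L (pvhnIn 𝔭 𝔱 O s L₁ L₂ K₁ K₂ Et).ep.c (pvhnIn 𝔭 𝔱 O s L₁ L₂ K₁ K₂ Et).ep.O
      (pvhnIn 𝔭 𝔱 O s L₁ L₂ K₁ K₂ Et).Zp₁ (pvhnIn 𝔭 𝔱 O s L₁ L₂ K₁ K₂ Et).Zp₂ ∧
    PvjoMono (pvhnIn 𝔭 𝔱 O s L₁ L₂ K₁ K₂ Et).em.L (pvhnIn 𝔭 𝔱 O s L₁ L₂ K₁ K₂ Et).em.c (pvhnIn 𝔭 𝔱 O s L₁ L₂ K₁ K₂ Et).em.O
      (pvhnIn 𝔭 𝔱 O s L₁ L₂ K₁ K₂ Et).Zm₁ (pvhnIn 𝔭 𝔱 O s L₁ L₂ K₁ K₂ Et).Zm₂ :=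
  ⟨rfl, rfl, pvhn_ok hG mO true, pvhn_ok hG mO false, pvhn_mono hG hO true, pvhn_mono hG hO false⟩

end record

/-! ## 5. the regions of the ends at the rooms of record (`pvhfT r`, hence `pvhfTw r Es`, `pvjoT r` of 52: same rooms, same targets), in rectangles -/

section rect

/-- the closed `t`-neighbourhood of a rectangle lies in the enlarged rectangle -/
theorem pvhn_cth_rsw {x0 x1 y0 y1 t : ℝ} (ht : 0 ≤ t) : cthickening t (rswRect x0 x1 y0 y1) ⊆ rswRect (x0 - t) (x1 + t) (y0 - t) (y1 + t) := by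
  rw [(rsw_rect_compact x0 x1 y0 y1).cthickening_eq_biUnion_closedBall ht]
  intro w hw
  simp only [mem_iUnion] at hw
  obtain ⟨u, hu, hw⟩ := hw
  rw [mem_closedBall, dist_eq_norm] at hw
  have a1 := abs_le.1 ((Complex.abs_re_le_norm (w - u)).trans hw)
  have a2 := abs_le.1 ((Complex.abs_im_le_norm (w - u)).trans hw)
  rw [Complex.sub_re] at a1
  rw [Complex.sub_im] at a2
  exact ⟨by linarith [hu.1, a1.1], by linarith [hu.2.1, a1.2], by linarith [hu.2.2.1, a2.1], by linarith [hu.2.2.2, a2.2]⟩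

theorem pvhn_cth_rect (σ : Bool) {x0 x1 y0 y1 t : ℝ} (ht : 0 ≤ t) : cthickening t (pvkdRect σ x0 x1 y0 y1) ⊆ pvkdRect σ (x0 - t) (x1 + t) (y0 - t) (y1 + t) := by
  cases σ
  · have h := pvhn_cth_rsw (x0 := -x1) (x1 := -x0) (y0 := y0) (y1 := y1) ht
    have e : pvkdRect false (x0 - t) (x1 + t) (y0 - t) (y1 + t) = rswRect (-x1 - t) (-x0 + t) (y0 - t) (y1 + t) := by
      unfold pvkdRect
      rw [if_neg Bool.false_ne_true]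
      congr 1 <;> ring
    rw [e]
    exact h
  · exact pvhn_cth_rsw ht

/-- **`A₁ A₂` of the ends at the rooms of record** : two enlarged rectangles -/
theorem pvhn_A_rect {r t : ℝ} (ht : 0 ≤ t) (σ β : Bool) : cthickening t ((pvhfT r).Ln σ β) ⊆
    if β then pvkdRect σ (r / 2 - t) (3 * r + t) (-(r / 2) - t) (3 * r / 2 + t) ∪ pvkdRect σ (2 * r - t) (5 * r + t) (r / 2 - t) (3 * r / 2 + t)
    else pvkdRect σ (r / 2 - t) (3 * r + t) (-(3 * r / 2) - t) (r / 2 + t) ∪ pvkdRect σ (2 * r - t) (5 * r + t) (-(3 * r / 2) - t) (-(r / 2) + t) := by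
  cases β
  · show cthickening t (pvkdRect σ (r / 2) (3 * r) (-(3 * r / 2)) (r / 2) ∪ pvkdRect σ (2 * r) (5 * r) (-(3 * r / 2)) (-(r / 2))) ⊆ _
    rw [cthickening_union]
    exact union_subset_union (pvhn_cth_rect σ ht) (pvhn_cth_rect σ ht)
  · show cthickening t (pvkdRect σ (r / 2) (3 * r) (-(r / 2)) (3 * r / 2) ∪ pvkdRect σ (2 * r) (5 * r) (r / 2) (3 * r / 2)) ⊆ _
    rw [cthickening_union]
    exact union_subset_union (pvhn_cth_rect σ ht) (pvhn_cth_rect σ ht)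

/-- **`X₁ X₂`** : the feet lie in `|x| ∈ [r/2, 2r]`, `y` in the band of the room -/
theorem pvhn_X_rect {r : ℝ} (hr : 0 < r) (σ β : Bool) : ball (0 : ℂ) (2 * r) ∩ (pvhfT r).Ln σ β ⊆
    if β then pvkdRect σ (r / 2) (2 * r) (-(r / 2)) (3 * r / 2) else pvkdRect σ (r / 2) (2 * r) (-(3 * r / 2)) (r / 2) := by
  rintro w ⟨hw, hL⟩
  have h1 : ‖w‖ < 2 * r := by simpa using hw
  have h3 := abs_le.1 ((Complex.abs_re_le_norm w).trans h1.le)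
  cases σ <;> cases β <;> simp only [pvhfT, pvkdRect, rswRect, if_true, if_false, mem_union, mem_ofPred_eq, Bool.false_eq_true] at hL ⊢ <;>
    rcases hL with hL | hL <;> exact ⟨by linarith [hL.1, h3.1], by linarith [hL.2.1, h3.2], by linarith [hL.2.2.1], by linarith [hL.2.2.2]⟩

/-- **`Y₁ Y₂`** : the doors are the targets -/
theorem pvhn_Y_rect (r : ℝ) (σ β : Bool) : (pvhfT r).Dr σ β ∩ (pvhfT r).Ln σ β ⊆ (pvhfT r).Dr σ β := inter_subset_left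

/-- the targets of record lie in the rooms of record: `Y_i = Dr` -/
theorem pvhn_Y_eq {r : ℝ} (hr : 0 < r) (σ β : Bool) : (pvhfT r).Dr σ β ∩ (pvhfT r).Ln σ β = (pvhfT r).Dr σ β := by
  refine inter_eq_left.2 fun w hw => ?_
  cases σ <;> cases β <;> simp only [pvhfT, pvkdRect, rswRect, if_true, if_false, mem_union, mem_ofPred_eq, Bool.false_eq_true] at hw ⊢ <;>
    exact Or.inr ⟨by linarith [hw.1], by linarith [hw.2.1], hw.2.2.1, hw.2.2.2⟩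

/-- **the ends at the plug of record, lanes cut at `5r`, windows of one's choice** -/
theorem pvhn_ok_w {r : ℝ} (hr : 0 < r) {Es : Bool → Set ℂ} (hE : PvhfWin r (5 * r) Es) {O : Set ℂ} (mO : MeasurableSet O) (σ : Bool) : (pvhnEnd (pvkdP r) (pvhfTw r Es) O σ).Ok :=
  pvhn_ok (pvhf_geo_w hr hE) mO σ

theorem pvhn_mono_w {r : ℝ} (hr : 0 < r) {Es : Bool → Set ℂ} (hE : PvhfWin r (5 * r) Es) {O : Set ℂ} (hO : pvwSq 0 (3 * r) ⊆ O) (σ : Bool) :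
    PvjoMono (pvhfS (pvkdP r) (pvhfTw r Es) σ) true O ((pvhfT r).Ln σ true) ((pvhfT r).Ln σ false) :=
  pvhn_mono (pvhf_geo_w hr hE) hO σ

end rect

end Claimed.Agent.R289
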