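import Claimed.Agent.R289.Exit.FrcE
import Claimed.Agent.R289.Tr.LinkQ
import Claimed.Agent.R289.Tr.FrcDoor

/-!
# Row 289 (S0537), THE WALL, ROAD E, box TR-FRCPAT, file Tr/FrcPat : E10, **THE PATTERN HALF OF `PvjeTest.Ok`, GENERIC**      (helper248; prefix `pvjp_`, `pvjp`, `Pvjp`)

MODEL FREE.   CONSUMERS: the integrators of `exit_pvgu_o _i _e _f` (35 190 116 54 196 284) = the hypotheses `hT` and `hG` of `pvje_cut` (`Exit/FrcE`, 35).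
A TEST OF RECORD = a pattern of 21 (`PvkqFit dl M K F`: finitely many routes with a colour, pairwise disjoint regions) `∩` ONE mesh clause (`pvkqMs μ Lm`, ANY list of cells, colour blind) + the door half of 77 (`Tr/FrcDoor`).
* sec. 1  `pvjpRm c F` = THE ROOMS OF THE COLOUR `c` (union of the regions of the routes of the colour `c`);   `pvjp_rm_sub`, `pvjp_rm_union`, **`pvjp_rm_disj`**, `pvjp_rm_two` (a pattern of two routes: `pvge2Pat` of 298)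
* sec. 2  THE MIXED ORDER: `pvjp_rt_up` (one route), **`pvjp_pat_up`** (a pattern, ANY set of sites), `pvjp_ms_blind`, `pvjp_ms_up` (the mesh clause, ANY order), **`pvjp_patM_up`**;   `PvjpBlind ℬ` (sees only the sites: `pvjp_blind_ms`, `pvjp_blind_mesh` = `pvrgMesh r E` of 256), **`pvjp_patB_up`**, **`pvjp_up_field`** (= the field `up` VERBATIM at a test `pvkqPat δ F ∩ ℬ`: `pvj0T` of 35)
* sec. 3  `pvjpT dl F μ Lm ℋ Cd t b : PvjeTest`;   **`PvjpDoor E ε ℋ Cd b Kb Kw`** = the door half of the contract (`mH rH thr loc` + the `ℋ` half of `up`, GUARDED as in `PvjeTest.Ok.up`, at the order `pvlhSg Y Kb Kw`);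
          **`pvjp_ok`** : door half + fit + window `⊆ M ∪ K` + rooms `⊆ Kb`, `Kw`   ⟹   `(pvjpT ..).Ok E ε`;   **`pvjp_door_of_end`** : `PvdpEnd` of 77 (v2, guarded order) ⟹ `PvjpDoor`
* sec. 4  **`pvjp_cost`** = the hypothesis `hG` of `pvje_cut` at the test of record, ONE `q`, threshold `t = ((q^(15 K (2M+1)²)/2)^(number of routes))/2`, tile and `θ` arbitrary
* sec. 5  **`pvjp_cut`** = `pvje_cut` AT THE TEST OF RECORD, ONE CALL: what is left to an integrator = `[Wf]`, the door half, `PvkqFit`, two inclusions of windows, two inclusions of rooms, `Mc`, `U`, DET;   constant `t₀ (b - θ)`, `t₀ = pvjpT0 q₀ M K (number of routes)`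
0 sorry
-/

set_option autoImplicit false

namespace Claimed.Agent.R289

open Set MeasureTheory Filter Topology Claims.C0465
open scoped ENNReal

/-! ## 1. the rooms of a colour -/

section rooms

/-- **THE ROOMS OF THE COLOUR `c`** of a pattern -/
def pvjpRm (c : Bool) (F : List (Bool × List (Set ℂ × ℂ × ℂ))) : Set ℂ := ⋃ x ∈ {x | x ∈ F ∧ x.1 = c}, pvkqRtR x.2

theorem pvjp_eqns_cite : True := by
  have := @pvjpRm.eq_1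
  trivial

theorem pvjp_mem_rm {c : Bool} {F : List (Bool × List (Set ℂ × ℂ × ℂ))} {v : ℂ} : v ∈ pvjpRm c F ↔ ∃ x ∈ F, x.1 = c ∧ v ∈ pvkqRtR x.2 := by
  simp only [pvjpRm, mem_iUnion, mem_ofPred_eq, exists_prop, and_assoc]

theorem pvjp_rt_sub_rm {F : List (Bool × List (Set ℂ × ℂ × ℂ))} {x : Bool × List (Set ℂ × ℂ × ℂ)} (hx : x ∈ F) : pvkqRtR x.2 ⊆ pvjpRm x.1 F :=
  fun _ hv => pvjp_mem_rm.2 ⟨x, hx, rfl, hv⟩

theorem pvjp_rm_sub (c : Bool) (F : List (Bool × List (Set ℂ × ℂ × ℂ))) : pvjpRm c F ⊆ pvkqPatR F := fun v hv => by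
  obtain ⟨x, hx, -, hv⟩ := pvjp_mem_rm.1 hv
  exact mem_biUnion (show x ∈ {x | x ∈ F} from hx) hv

theorem pvjp_rm_union (F : List (Bool × List (Set ℂ × ℂ × ℂ))) : pvjpRm true F ∪ pvjpRm false F = pvkqPatR F := by
  refine Subset.antisymm (union_subset (pvjp_rm_sub _ _) (pvjp_rm_sub _ _)) fun v hv => ?_
  obtain ⟨x, hx, hv⟩ := mem_iUnion₂.1 hv
  cases h : x.1
  · exact Or.inr (pvjp_mem_rm.2 ⟨x, hx, h, hv⟩)
  · exact Or.inl (pvjp_mem_rm.2 ⟨x, hx, h, hv⟩)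

/-- **the rooms of the two colours are disjoint** -/
theorem pvjp_rm_disj {δ : ℝ} {M K : ℕ} {F : List (Bool × List (Set ℂ × ℂ × ℂ))} (h : PvkqFit δ M K F) : Disjoint (pvjpRm true F) (pvjpRm false F) := by
  refine disjoint_left.2 fun v hb hw => ?_
  obtain ⟨x, hx, hx1, hvx⟩ := pvjp_mem_rm.1 hb
  obtain ⟨y, hy, hy1, hvy⟩ := pvjp_mem_rm.1 hw
  have hne : x ≠ y := fun e => by
    rw [e, hy1] at hx1
    exact Bool.false_ne_true hx1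
  have : Std.Symm fun x y : Bool × List (Set ℂ × ℂ × ℂ) => Disjoint (pvkqRtR x.2) (pvkqRtR y.2) := ⟨fun _ _ h => h.symm⟩
  exact disjoint_left.1 (h.disj.forall hx hy hne) hvx hvy

/-- the rooms of a pattern of two routes of opposite colours (`pvge2Pat` of 298) -/
theorem pvjp_rm_two (c : Bool) (ℓ ℓ' : List (Set ℂ × ℂ × ℂ)) : pvjpRm c [(c, ℓ), (!c, ℓ')] = pvkqRtR ℓ ∧ pvjpRm (!c) [(c, ℓ), (!c, ℓ')] = pvkqRtR ℓ' := by
  constructor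
  · ext v
    rw [pvjp_mem_rm]
    constructor
    · rintro ⟨x, hx, hx1, hv⟩
      simp only [List.mem_cons, List.not_mem_nil, or_false] at hx
      rcases hx with rfl | rfl
      · exact hv
      · cases c <;> simp at hx1
    · intro hv
      exact ⟨(c, ℓ), List.mem_cons_self, rfl, hv⟩
  · ext v
    rw [pvjp_mem_rm]
    constructor
    · rintro ⟨x, hx, hx1, hv⟩
      simp only [List.mem_cons, List.not_mem_nil, or_false] at hx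
      rcases hx with rfl | rfl
      · cases c <;> simp at hx1
      · exact hv
    · intro hv
      exact ⟨(!c, ℓ'), List.mem_cons_of_mem _ List.mem_cons_self, rfl, hv⟩

end rooms

/-! ## 2. the mixed order -/

section order

/-- one route -/
theorem pvjp_rt_up {δ : ℝ} {ℓ : List (Set ℂ × ℂ × ℂ)} (hr : PvkqRoute δ ℓ) (c : Bool) (Y : Set ℂ) {Kb Kw : Set ℂ} (hd : Disjoint Kb Kw) (h : Y ∩ pvkqRtR ℓ ⊆ cond c Kb Kw) :
    PvlhUp (pvlhSg Y Kb Kw) (pvlhCp Y (pvkqRtEv δ c ℓ)) := by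
  cases c
  · exact pvlh_up_white_cp' hd (pvlhf_lane_dec Y δ _) (pvkq_RtEv_reads hr false) h
  · exact pvlh_up_black_cp' Kb Kw (pvlhf_lane_inc Y δ _) (pvkq_RtEv_reads hr true) h

/-- **THE COPY SECTION OF A PATTERN IS UP** in the mixed order "black up on `Kb`, white up on `Kw`" as soon as the sites in the black rooms lie in `Kb` and the sites in the white rooms lie in `Kw`;   ANY set of sites -/
theorem pvjp_pat_up {δ : ℝ} {M K : ℕ} {F : List (Bool × List (Set ℂ × ℂ × ℂ))} (h : PvkqFit δ M K F) (Y : Set ℂ) {Kb Kw : Set ℂ} (hd : Disjoint Kb Kw)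
    (hb : Y ∩ pvjpRm true F ⊆ Kb) (hw : Y ∩ pvjpRm false F ⊆ Kw) : PvlhUp (pvlhSg Y Kb Kw) (pvlhCp Y (pvkqPat δ F)) := by
  intro c c' hle hc x hx
  refine pvjp_rt_up (h.route x hx) x.1 Y hd ?_ c c' hle (hc x hx)
  intro v hv
  have hv' : v ∈ Y ∩ pvjpRm x.1 F := ⟨hv.1, pvjp_rt_sub_rm hx hv.2⟩
  cases hx1 : x.1
  · rw [hx1] at hv'
    exact hw hv'
  · rw [hx1] at hv'
    exact hb hv'

/-- the mesh clause does not see the colours -/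
theorem pvjp_ms_blind (μ : ℝ) (Lm : List (ℤ × ℤ)) (Y : Set ℂ) (c c' : ℂ → Bool) (h : cfOf Y c ∈ pvkqMs μ Lm) : cfOf Y c' ∈ pvkqMs μ Lm := by
  have h' : cfOf (Y ∩ pvlnW μ Lm) c ∈ pvlnCore true [] (Lm.map (pvlnCtr μ)) (μ / 2) := by
    have := h
    unfold pvkqMs pvlnLoc at this
    rwa [mem_preimage, pvay_of_restr] at this
  show Conf.restr (pvlnW μ Lm ×ˢ univ) (cfOf Y c') ∈ pvlnCore true [] (Lm.map (pvlnCtr μ)) (μ / 2)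
  rw [pvay_of_restr]
  exact ⟨⟨fun e he => absurd he List.not_mem_nil, pvlhf_lf_congr h'.1.2⟩, pvlhf_G_congr h'.2⟩

theorem pvjp_ms_up (s : ℂ → Option Bool) (μ : ℝ) (Lm : List (ℤ × ℤ)) (Y : Set ℂ) : PvlhUp s (pvlhCp Y (pvkqMs μ Lm)) :=
  fun c c' _ hc => pvjp_ms_blind μ Lm Y c c' hc

/-- **pattern `∩` mesh clause** -/
theorem pvjp_patM_up {δ : ℝ} {M K : ℕ} {F : List (Bool × List (Set ℂ × ℂ × ℂ))} (h : PvkqFit δ M K F) (μ : ℝ) (Lm : List (ℤ × ℤ)) (Y : Set ℂ) {Kb Kw : Set ℂ} (hd : Disjoint Kb Kw)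
    (hb : Y ∩ pvjpRm true F ⊆ Kb) (hw : Y ∩ pvjpRm false F ⊆ Kw) : PvlhUp (pvlhSg Y Kb Kw) (pvlhCp Y (pvkqPat δ F ∩ pvkqMs μ Lm)) :=
  fun c c' hle hc => ⟨pvjp_pat_up h Y hd hb hw c c' hle hc.1, pvjp_ms_up _ μ Lm Y c c' hle hc.2⟩

/-- an event which sees only the sites -/
def PvjpBlind (ℬ : Set (Conf PvPt)) : Prop := ∀ (Y : Set ℂ) (c c' : ℂ → Bool), cfOf Y c ∈ ℬ → cfOf Y c' ∈ ℬ

theorem pvjp_eqns_cite1 : True := by
  have := @PvjpBlind.eq_1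
  trivial

theorem pvjp_blind_ms (μ : ℝ) (Lm : List (ℤ × ℤ)) : PvjpBlind (pvkqMs μ Lm) := fun Y c c' h => pvjp_ms_blind μ Lm Y c c' h

/-- the mesh certificate of 256 -/
theorem pvjp_blind_mesh (r : ℝ) (E : Set ℂ) : PvjpBlind (pvrgMesh r E) := fun Y c c' h => by
  have h' : PvtrMesh r E (cfSites (cfOf Y c)) := h
  show PvtrMesh r E (cfSites (cfOf Y c'))
  rw [cfOf_sites] at h' ⊢
  exact h'

theorem PvjpBlind.inter {ℬ ℬ' : Set (Conf PvPt)} (h : PvjpBlind ℬ) (h' : PvjpBlind ℬ') : PvjpBlind (ℬ ∩ ℬ') := fun Y c c' hc => ⟨h Y c c' hc.1, h' Y c c' hc.2⟩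

theorem PvjpBlind.up {ℬ : Set (Conf PvPt)} (h : PvjpBlind ℬ) (s : ℂ → Option Bool) (Y : Set ℂ) : PvlhUp s (pvlhCp Y ℬ) := fun c c' _ hc => h Y c c' hc

/-- **pattern `∩` ANY colour blind clause** (`pvrgMesh r E` in the tests `pvj0T` of 35) -/
theorem pvjp_patB_up {δ : ℝ} {M K : ℕ} {F : List (Bool × List (Set ℂ × ℂ × ℂ))} (h : PvkqFit δ M K F) {ℬ : Set (Conf PvPt)} (hB : PvjpBlind ℬ) (Y : Set ℂ) {Kb Kw : Set ℂ} (hd : Disjoint Kb Kw)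
    (hb : Y ∩ pvjpRm true F ⊆ Kb) (hw : Y ∩ pvjpRm false F ⊆ Kw) : PvlhUp (pvlhSg Y Kb Kw) (pvlhCp Y (pvkqPat δ F ∩ ℬ)) :=
  fun c c' hle hc => ⟨pvjp_pat_up h Y hd hb hw c c' hle hc.1, hB.up _ Y c c' hle hc.2⟩

/-- **THE FIELD `up` OF `PvjeTest.Ok` FROM ITS TWO HALVES**, any test whose pattern is `pvkqPat δ F ∩ ℬ`, `ℬ` colour blind -/
theorem pvjp_up_field {E : PvjeEnd} {ℋ : Set (Conf PvPt)} {Kb Kw : Set ℂ} (hd : Disjoint Kb Kw) {δ : ℝ} {M K : ℕ} {F : List (Bool × List (Set ℂ × ℂ × ℂ))} (h : PvkqFit δ M K F)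
    {ℬ : Set (Conf PvPt)} (hB : PvjpBlind ℬ) (hb : pvjpRm true F ⊆ Kb) (hw : pvjpRm false F ⊆ Kw)
    (hdoor : ∀ (η₀ : Conf PvPt) (Y Fz : Set ℂ) (σ : ℂ → Bool), Y.Countable → (∃ η, PvatNice (cfSites η) ∧ cfSites η ∩ E.Wn (E.Hu η₀) = Y ∩ E.Wn (E.Hu η₀)) → Fz ⊆ Y → (∀ v ∈ Y, v ∈ E.D → v ∈ Fz) →
      (∀ v ∈ Fz, v ∉ E.K ∧ v ∉ E.y η₀) → PvlhUp (pvlhSg Y Kb Kw) (pvlhSec Y Fz σ ℋ)) :
    ∀ (η₀ : Conf PvPt) (Y Fz : Set ℂ) (σ : ℂ → Bool), Y.Countable → (∃ η, PvatNice (cfSites η) ∧ cfSites η ∩ E.Wn (E.Hu η₀) = Y ∩ E.Wn (E.Hu η₀)) → Fz ⊆ Y → (∀ v ∈ Y, v ∈ E.D → v ∈ Fz) →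
      (∀ v ∈ Fz, v ∉ E.K ∧ v ∉ E.y η₀) → ∃ s : ℂ → Option Bool, {z | s z ≠ none}.Countable ∧ PvlhUp s (pvlhSec Y Fz σ ℋ) ∧ PvlhUp s (pvlhCp Y (pvkqPat δ F ∩ ℬ)) :=
  fun η₀ Y Fz σ hY hn hF hD hFz => ⟨pvlhSg Y Kb Kw, pvlh_sg_countable hY Kb Kw, hdoor η₀ Y Fz σ hY hn hF hD hFz,
    pvjp_patB_up h hB Y hd (inter_subset_right.trans hb) (inter_subset_right.trans hw)⟩

end order

/-! ## 3. the contract -/

section contract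

/-- **THE TEST OF RECORD**: pattern `F` of mesh `dl`, mesh clause `(μ, Lm)`, side event `ℋ`, plain plug `Cd`, thresholds `t`, `b` -/
noncomputable def pvjpT (dl : ℝ) (F : List (Bool × List (Set ℂ × ℂ × ℂ))) (μ : ℝ) (Lm : List (ℤ × ℤ)) (ℋ Cd : Set (Conf PvPt)) (t b : ℝ≥0∞) : PvjeTest where
  O := pvkqPatR F ∪ pvlnW μ Lm
  𝒦 := pvkqPat dl F ∩ pvkqMs μ Lm
  ℋ := ℋ
  Cd := Cd
  t := t
  b := b

/-- **THE DOOR HALF OF `PvjeTest.Ok`**: `Kb`, `Kw` = the black / white halves of the mixed order of the link -/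
structure PvjpDoor (E : PvjeEnd) (ε : ℝ) (ℋ Cd : Set (Conf PvPt)) (b : ℝ≥0∞) (Kb Kw : Set ℂ) : Prop where
  mH : MeasurableSet ℋ
  rH : Conf.ReadsSet ((E.D ∪ E.K) ×ˢ (univ : Set Bool)) ℋ
  thr : ∀ η ∈ E.G, b ≤ pvtiP (pvP ε) (E.D ×ˢ (univ : Set Bool)) ℋ η
  loc : ∀ᵐ η ∂pvP ε, η ∈ E.G → η ∈ Cd
  up : ∀ (η₀ : Conf PvPt) (Y Fz : Set ℂ) (σ : ℂ → Bool), Y.Countable → (∃ η, PvatNice (cfSites η) ∧ cfSites η ∩ E.Wn (E.Hu η₀) = Y ∩ E.Wn (E.Hu η₀)) → Fz ⊆ Y → (∀ v ∈ Y, v ∈ E.D → v ∈ Fz) →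
    (∀ v ∈ Fz, v ∉ E.K ∧ v ∉ E.y η₀) → PvlhUp (pvlhSg Y Kb Kw) (pvlhSec Y Fz σ ℋ)

theorem pvjp_eqns_cite2 : True := by
  have := @pvjpT.eq_1
  trivial

/-- **THE CONTRACT ON THE TESTS FROM ITS TWO HALVES** -/
theorem pvjp_ok {E : PvjeEnd} {ε : ℝ} {ℋ Cd : Set (Conf PvPt)} {b : ℝ≥0∞} {Kb Kw : Set ℂ} (hdoor : PvjpDoor E ε ℋ Cd b Kb Kw) (hd : Disjoint Kb Kw)
    {dl : ℝ} {M K : ℕ} {F : List (Bool × List (Set ℂ × ℂ × ℂ))} (hfit : PvkqFit dl M K F) (mF : MeasurableSet (pvkqPatR F)) {μ : ℝ} (hμ : 0 < μ) (Lm : List (ℤ × ℤ))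
    (hO : pvkqPatR F ∪ pvlnW μ Lm ⊆ E.M ∪ E.K) (hb : pvjpRm true F ⊆ Kb) (hw : pvjpRm false F ⊆ Kw) (t : ℝ≥0∞) : (pvjpT dl F μ Lm ℋ Cd t b).Ok E ε where
  mO := mF.union (pvln_W_meas μ Lm)
  bO := (hfit.test hμ Lm).2.2
  O_sub := hO
  mK := (hfit.test hμ Lm).1
  rK := (hfit.test hμ Lm).2.1
  mH := hdoor.mH
  rH := hdoor.rH
  thr := hdoor.thr
  loc := hdoor.loc
  up := fun η₀ Y Fz σ hY hn hF hD hFz =>
    ⟨pvlhSg Y Kb Kw, pvlh_sg_countable hY Kb Kw, hdoor.up η₀ Y Fz σ hY hn hF hD hFz,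
      pvjp_patM_up hfit μ Lm Y hd (inter_subset_right.trans hb) (inter_subset_right.trans hw)⟩

/-- **the door end of 77 (`Tr/FrcDoor` v2: GUARDED order, `loc` inside) is a door half**: `Rb`, `Rw` = the rooms of its two lanes -/
theorem pvjp_door_of_end {E : PvjeEnd} {ε : ℝ} {ℋ Cd : Set (Conf PvPt)} {b : ℝ≥0∞} {Rb Rw Kb Kw : Set ℂ} (h : PvdpEnd ε E.D E.K E.G ℋ Cd Rb Rw b)
    (hd : Disjoint Kb Kw) (hb : Rb \ E.D ⊆ Kb) (hw : Rw \ E.D ⊆ Kw) : PvjpDoor E ε ℋ Cd b Kb Kw where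
  mH := h.mH
  rH := h.rH
  thr := fun _ hη => h.thr hη
  loc := h.loc
  up := fun _ _ _ σ _ hn _ hD _ =>
    h.sec σ ((pvdp_ext_of_nice hn).mono (union_subset subset_union_right (subset_union_left.trans' subset_union_right))) hd hb hw (fun v hv => hD v hv.1 hv.2)

/-- larger halves of the order are NOT allowed for free;   smaller usable sets, the same halves: the door half at a sub-end -/
theorem PvjpDoor.thr_mono {E : PvjeEnd} {ε : ℝ} {ℋ Cd : Set (Conf PvPt)} {b b' : ℝ≥0∞} {Kb Kw : Set ℂ} (h : PvjpDoor E ε ℋ Cd b Kb Kw) (hb : b' ≤ b) : PvjpDoor E ε ℋ Cd b' Kb Kw :=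
  ⟨h.mH, h.rH, fun η hη => hb.trans (h.thr η hη), h.loc, h.up⟩

end contract

/-! ## 4. the cost -/

section cost

/-- **THE COST OF THE COPY PATTERN** (`hG` of `pvje_cut`), fixed tile -/
theorem pvjp_cost : ∃ q : ℝ, 0 < q ∧ q ≤ 1 ∧ ∀ (M K : ℕ) (dl : ℝ) (F : List (Bool × List (Set ℂ × ℂ × ℂ))), PvkqFit dl M K F → MeasurableSet (pvkqPatR F) → ∀ (μ : ℝ) (Lm : List (ℤ × ℤ)), 0 < μ →
    ∀ C : Set ℂ, MeasurableSet C → ∀ θ : ℝ≥0∞, θ ≠ 0 → θ ≠ ∞ →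
      PvrgSmall fun ε => (pvayGood2 ε C (pvkqPatR F ∪ pvlnW μ Lm) (pvkqPat dl F ∩ pvkqMs μ Lm) (ENNReal.ofReal ((q ^ (15 * (K * (2 * M + 1) ^ 2)) / 2) ^ F.length) / 2) θ)ᶜ := by
  obtain ⟨q, h0, h1, H⟩ := pvkq_patM_lim
  refine ⟨q, h0, h1, fun M K dl F hF mF μ Lm hμ C hC θ hθ hθ' => ?_⟩
  exact pvrg_test_small hC (mF.union (pvln_W_meas μ Lm)) (hF.test hμ Lm).2.2 (hF.test hμ Lm).1 (hF.test hμ Lm).2.1 (H M K dl F hF μ Lm hμ) hθ hθ'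

/-- the threshold of record is positive and finite -/
theorem pvjp_t_pos {q : ℝ} (hq : 0 < q) (n k : ℕ) : ENNReal.ofReal ((q ^ n / 2) ^ k) / 2 ≠ 0 ∧ ENNReal.ofReal ((q ^ n / 2) ^ k) / 2 ≠ ∞ := by
  constructor
  · exact (ENNReal.div_pos (ENNReal.ofReal_pos.2 (by positivity)).ne' (by norm_num)).ne'
  · exact ENNReal.div_ne_top ENNReal.ofReal_ne_top (by norm_num)

end cost

/-! ## 5. the generic roof at the test of record -/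

section cut

/-- the threshold of record of a pattern of `n` routes of at most `K` legs of `M` cells -/
noncomputable def pvjpT0 (q : ℝ) (M K n : ℕ) : ℝ≥0∞ := ENNReal.ofReal ((q ^ (15 * (K * (2 * M + 1) ^ 2)) / 2) ^ n) / 2

theorem pvjp_eqns_cite3 : True := by
  have := @pvjpT0.eq_1
  trivial

theorem pvjp_T0_pos {q : ℝ} (hq : 0 < q) (M K n : ℕ) : pvjpT0 q M K n ≠ 0 ∧ pvjpT0 q M K n ≠ ∞ := pvjp_t_pos hq _ _

/-- the constant of the link is positive as soon as `θ < b` -/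
theorem pvjp_const_pos {q : ℝ} (hq : 0 < q) (M K n : ℕ) {b θ : ℝ≥0∞} (h : θ < b) : pvjpT0 q M K n * (b - θ) ≠ 0 :=
  mul_ne_zero (pvjp_T0_pos hq M K n).1 (tsub_pos_of_lt h).ne'

/-- **`pvje_cut` AT THE TEST OF RECORD** (conclusion = `PvguFrc 𝔓 m z t fun ε => (E ε).Frc ε (t₀ (b - θ))` of 238, unfolded).      The tile does not depend on `ε`;   door region, side event, plain plug, halves of the order may -/
theorem pvjp_cut : ∃ q₀ : ℝ, 0 < q₀ ∧ q₀ ≤ 1 ∧ ∀ {τ : Type} {c : ℝ} (𝔓 : PvxPar τ c) (m : ℕ) (z : ℂ) (t : τ) {E : ℝ → PvjeEnd} {C : Set ℂ} {ℋ Cd : ℝ → Set (Conf PvPt)} {b θ : ℝ≥0∞} {Kb Kw : ℝ → Set ℂ}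
    {M K : ℕ} {dl : ℝ} {F : List (Bool × List (Set ℂ × ℂ × ℂ))} {μ : ℝ} {Lm : List (ℤ × ℤ)} {Mc : ℝ → Set (Conf PvPt)},
    (∀ᶠ ε in 𝓝[>] (0 : ℝ), (E ε).Wf ε) → (∀ᶠ ε in 𝓝[>] (0 : ℝ), (E ε).K = C) → (∀ᶠ ε in 𝓝[>] (0 : ℝ), PvjpDoor (E ε) ε (ℋ ε) (Cd ε) b (Kb ε) (Kw ε)) → (∀ᶠ ε in 𝓝[>] (0 : ℝ), Disjoint (Kb ε) (Kw ε)) →
    PvkqFit dl M K F → MeasurableSet (pvkqPatR F) → 0 < μ → (∀ᶠ ε in 𝓝[>] (0 : ℝ), pvkqPatR F ∪ pvlnW μ Lm ⊆ (E ε).M ∪ (E ε).K) →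
    (∀ᶠ ε in 𝓝[>] (0 : ℝ), pvjpRm true F ⊆ Kb ε) → (∀ᶠ ε in 𝓝[>] (0 : ℝ), pvjpRm false F ⊆ Kw ε) → θ ≠ 0 → θ ≠ ∞ → (PvrgSmall fun ε => (Mc ε)ᶜ) →
    (∀ᶠ ε in 𝓝[>] (0 : ℝ), ∀ ω ∈ pvxU 𝔓 m z t, pvConf ω ∈ (E ε).U) →
    (∀ᶠ ε in 𝓝[>] (0 : ℝ), ∀ η₀ ∈ (E ε).U, η₀ ∈ Mc ε → CfOK η₀ → PvjeDet (E ε) (pvjpT dl F μ Lm (ℋ ε) (Cd ε) (pvjpT0 q₀ M K F.length) b) η₀) →
    ∃ Cert : ℝ → Set (Conf PvPt), Tendsto (fun ε => ((pvhbUp ε).P {x | pvConf (pvMerge x) ∉ Cert ε}).toReal) (𝓝[>] (0 : ℝ)) (𝓝 0) ∧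
      ∀ᶠ ε in 𝓝[>] (0 : ℝ), ∀ ω ∈ pvxU 𝔓 m z t, pvConf ω ∈ Cert ε → pvConf ω ∈ (E ε).Frc ε (pvjpT0 q₀ M K F.length * (b - θ)) := by
  obtain ⟨q₀, h0, h1, H⟩ := pvjp_cost
  refine ⟨q₀, h0, h1, ?_⟩
  intro τ c 𝔓 m z t E C ℋ Cd b θ Kb Kw M K dl F μ Lm Mc hE hC hdoor hd hfit mF hμ hO hb hw hθ hθ' hM hU hD
  have mC : MeasurableSet C := by
    obtain ⟨ε, h1, h2⟩ := (hE.and hC).exists
    rw [← h2]
    exact h1.mK
  refine pvje_cut 𝔓 m z t (E := E) (T := fun ε => pvjpT dl F μ Lm (ℋ ε) (Cd ε) (pvjpT0 q₀ M K F.length) b) (θ := θ) (Mc := Mc) hE ?_ (Eventually.of_forall fun _ => le_rfl) ?_ hM hU hD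
  · filter_upwards [hdoor, hd, hO, hb, hw] with ε a1 a2 a3 a4 a5
    exact pvjp_ok a1 a2 hfit mF hμ Lm a3 a4 a5 _
  · refine (H M K dl F hfit mF μ Lm hμ C mC θ hθ hθ').mono ?_
    filter_upwards [hC] with ε hε
    rw [hε]
    exact Subset.rfl

end cut

end Claimed.Agent.R289
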