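-- KEEP
import Claimed.Agent.R289.Tr.FrcPat
import Claimed.Agent.R289.Tr.PlugFrcR

/-!
# Row 289 (S0537), THE WALL, ROAD E, E10, file Tr/FrcUp : **THE FIELD `up` OF `PvjeTest.Ok`, MODEL FREE, GUARDED**      (helper232; prefix `pvut_`)      0 sorry

CONSUMERS: the integrators of the five hybrid ends (o 35, i 116, e 54, f 196, r 233): the field `up` of `PvjeTest.Ok` (35, `Exit/FrcDefs`) / of `PvjpDoor` (248, `Tr/FrcPat`) / the (UP) half of `PvifTest.Ok.det` (196).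
WHY.   The side events `S⁺ S⁻` of 174 are monotone under recolourings ONLY AT GOOD SETS OF SITES (`PvjoMono` of 52 asks `CfOK`; `PvhfIs.mono` asks `DelGood`): the unguarded order `PvdpUp` of 77 (ALL sets of sites) is not available for them.
The guard of `PvjeTest.Ok.up` ("the window of `Y` extends to a nice set of sites") + the reader of the side event do it.
* sec. 1  colour frame: `pvut_rc_fl`;   **`pvut_mono_pl`** : `PvjoMono L b F Z₁ Z₂ ⟹ PvjoMono (pvdpPl z a c L) (b == c) (z + a F) (z + a Z₁) (z + a Z₂)` (frame, scale, colour: the ONE map of 77);   `pvut_mono_inter`, `pvut_mesh_sites`, `pvut_mono_mesh` (the exact mesh reader of 52 is colour blind), `pvut_mono_sub`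
* sec. 2  **`pvut_sec`** : `ℋ` read in `Es ⊆ Wn`, `PvjoMono ℋ b O Z₁ Z₂`, `O ⊆ D`, `Z₁ \ D`, `Z₂ \ D` in the halves of the order, the sites of `Y ∩ D` frozen, the window of `Y` extends to a nice set of sites   ⟹   `PvlhUp (pvlhSg Y Kb Kw) (pvlhSec Y Fz σ ℋ)`
* sec. 3  `pvut_cp_mesh` (copy section of the mesh clause, any order),   **`pvut_up`** = THE FIELD `up` VERBATIM at `ℋ := pvdpPl zu a col S`, `𝒦 := pvkqPat dl F ∩ pvjoMesh μ C`: what is left = two inclusions of regions and ONE disjointness (`sep`);   `pvut_door_up` = the field `up` of `PvjpDoor` of 248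
-/

set_option autoImplicit false

namespace Claimed.Agent.R289

open Set MeasureTheory Claims.C0465
open scoped ENNReal

/-! ## 1. recolourings: colour frame, placing, mesh -/

theorem pvut_sites_flip (η : Conf PvPt) : cfSites (cfFlip η) = cfSites η := by
  ext z
  constructor
  · rintro ⟨p, hp, rfl⟩
    exact ⟨_, pvky_mem_flip.1 hp, rfl⟩
  · rintro ⟨p, hp, rfl⟩
    exact ⟨(p.1, !p.2), pvky_mem_flip.2 (by simpa using hp), rfl⟩

theorem pvut_col_iff (η : Conf PvPt) (z : ℂ) : cfCol η z = true ↔ (z, true) ∈ η.pts := by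
  classical
  unfold cfCol
  exact decide_eq_true_iff

theorem pvut_col_off {η : Conf PvPt} {a : ℂ} (ha : a ∉ cfSites η) : cfCol η a = false := by
  rw [Bool.eq_false_iff]
  intro h
  exact ha ⟨_, (pvut_col_iff η a).1 h, rfl⟩

theorem pvut_col_flip {η : Conf PvPt} (h : ∀ p ∈ η.pts, ∀ q ∈ η.pts, p.1 = q.1 → p = q) {z : ℂ} (hz : z ∈ cfSites η) : cfCol (cfFlip η) z = !cfCol η z := by
  obtain ⟨⟨z, β⟩, hp, rfl⟩ := hz
  have e1 : cfCol (cfFlip η) z = true ↔ (z, false) ∈ η.pts := by rw [pvut_col_iff, pvky_mem_flip]; rfl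
  have e2 := pvut_col_iff η z
  show cfCol (cfFlip η) z = !cfCol η z
  cases β
  · have h2 : (z, true) ∉ η.pts := fun h3 => by
      have := h _ h3 _ hp rfl
      simp at this
    rw [e1.2 hp, Bool.eq_false_iff.2 fun h3 => h2 (e2.1 h3)]; rfl
  · have h2 : (z, false) ∉ η.pts := fun h3 => by
      have := h _ h3 _ hp rfl
      simp at this
    rw [e2.2 hp, Bool.eq_false_iff.2 fun h3 => h2 (e1.1 h3)]; rfl

theorem pvut_ok_flip {η : Conf PvPt} (h : CfOK η) : CfOK (cfFlip η) := by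
  refine ⟨by rw [pvut_sites_flip]; exact h.del, fun p hp q hq e => ?_⟩
  have h1 := h.col _ (pvky_mem_flip.1 hp) _ (pvky_mem_flip.1 hq) e
  have h2 : (!p.2) = (!q.2) := congrArg Prod.snd h1
  exact Prod.ext e (by simpa using h2)

/-- a recolouring seen in the colour frame -/
theorem pvut_rc_fl (c : Bool) {b : Bool} {F Z₁ Z₂ : Set ℂ} {η η' : Conf PvPt} (h : PvjoRc (b == c) F Z₁ Z₂ η η') : PvjoRc b F Z₁ Z₂ (pvkyFl c η) (pvkyFl c η') := by
  cases c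
  · have hb : (b == false) = !b := by cases b <;> rfl
    rw [hb] at h
    show PvjoRc b F Z₁ Z₂ (cfFlip η) (cfFlip η')
    have cE : ∀ a ∈ cfSites η, cfCol (cfFlip η) a = !cfCol η a := fun a ha => pvut_col_flip h.ok.col ha
    have cE' : ∀ a ∈ cfSites η, cfCol (cfFlip η') a = !cfCol η' a := fun a ha => pvut_col_flip h.ok'.col (by rw [h.Y]; exact ha)
    refine ⟨pvut_ok_flip h.ok, pvut_ok_flip h.ok', by rw [pvut_sites_flip, pvut_sites_flip, h.Y], fun a ha => ?_, fun a ha hs hc => ?_, fun a ha hs hc => ?_⟩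
    · by_cases hs : a ∈ cfSites η
      · rw [cE a hs, cE' a hs, h.fz a ha]
      · rw [pvut_col_off (by rw [pvut_sites_flip, h.Y]; exact hs), pvut_col_off (by rw [pvut_sites_flip]; exact hs)]
    · rw [pvut_sites_flip] at hs
      rw [cE a hs] at hc
      rw [cE' a hs, h.k₁ a ha hs (by rw [← hc]; simp)]
      simp
    · rw [pvut_sites_flip] at hs
      rw [cE a hs] at hc
      rw [cE' a hs, h.k₂ a ha hs (by rw [Bool.not_not, ← Bool.not_not (cfCol η a), hc, Bool.not_not])]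
      simp
  · have hb : (b == true) = b := by cases b <;> rfl
    rw [hb] at h
    exact h

/-- **MONOTONICITY UNDER RECOLOURINGS, PLACED** (frame, scale, colour in the ONE map of 77) -/
theorem pvut_mono_pl (z : ℂ) {a : ℂ} (ha : a ≠ 0) (c : Bool) {L : Set (Conf PvPt)} {b : Bool} {F Z₁ Z₂ : Set ℂ} (h : PvjoMono L b F Z₁ Z₂) :
    PvjoMono (pvdpPl z a c L) (b == c) (pvthSim z a '' F) (pvthSim z a '' Z₁) (pvthSim z a '' Z₂) :=
  fun _ _ hr hη => pvjo_mono_at (z := z) ha h _ _ (pvut_rc_fl c hr) hη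

theorem pvut_mono_inter {L L' : Set (Conf PvPt)} {b : Bool} {F Z₁ Z₂ : Set ℂ} (h : PvjoMono L b F Z₁ Z₂) (h' : PvjoMono L' b F Z₁ Z₂) : PvjoMono (L ∩ L') b F Z₁ Z₂ :=
  fun η η' hr hη => ⟨h η η' hr hη.1, h' η η' hr hη.2⟩

/-- larger frozen region, larger zones -/
theorem pvut_mono_sub {L : Set (Conf PvPt)} {b : Bool} {F Z₁ Z₂ F' Z₁' Z₂' : Set ℂ} (h : PvjoMono L b F Z₁ Z₂) (hF : F ⊆ F') (h₁ : Z₁ ⊆ Z₁') (h₂ : Z₂ ⊆ Z₂') : PvjoMono L b F' Z₁' Z₂' :=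
  fun η η' hr hη => h η η' ⟨hr.ok, hr.ok', hr.Y, fun a ha => hr.fz a (hF ha), fun a ha => hr.k₁ a (h₁ ha), fun a ha => hr.k₂ a (h₂ ha)⟩ hη

/-- **the exact mesh reader of 52 reads the sites only** -/
theorem pvut_mesh_sites {ρ : ℝ} {E : Set ℂ} {η η' : Conf PvPt} (hY : cfSites η' = cfSites η) (h : η ∈ pvjoMesh ρ E) : η' ∈ pvjoMesh ρ E := by
  rw [pvjo_mesh_iff] at h ⊢
  rw [hY]
  refine ⟨h.1, fun k => ?_⟩
  refine (((h.2 k).image Prod.fst).prod (Set.finite_univ (α := Bool))).subset ?_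
  rintro p ⟨⟨hp, hpE⟩, hk⟩
  obtain ⟨q, hq, hqp⟩ : p.1 ∈ cfSites η := hY ▸ (⟨p, hp, rfl⟩ : p.1 ∈ cfSites η')
  refine ⟨⟨q, ⟨⟨hq, ⟨?_, mem_univ _⟩⟩, ?_⟩, hqp⟩, mem_univ _⟩
  · rw [hqp]; exact hpE.1
  · have hk' : p.1.re ∈ Set.Ico (k.1 : ℝ) (k.1 + 1) ∧ p.1.im ∈ Set.Ico (k.2 : ℝ) (k.2 + 1) := hk
    rw [← hqp] at hk'
    exact hk'

theorem pvut_mono_mesh (ρ : ℝ) (E : Set ℂ) (b : Bool) (F Z₁ Z₂ : Set ℂ) : PvjoMono (pvjoMesh ρ E) b F Z₁ Z₂ := fun _ _ hr hη => pvut_mesh_sites hr.Y hη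

/-! ## 2. the section of a side event is up, GUARDED -/

/-- **GUARDED `ℋ` HALF OF `up`, MODEL FREE** -/
theorem pvut_sec {ℋ : Set (Conf PvPt)} {b : Bool} {O Z₁ Z₂ Es Wn D Kb Kw : Set ℂ} (hr : Conf.ReadsSet (Es ×ˢ (univ : Set Bool)) ℋ) (hm : PvjoMono ℋ b O Z₁ Z₂)
    (hEs : Es ⊆ Wn) (hO : O ⊆ D) (hd : Disjoint Kb Kw) (h₁ : Z₁ \ D ⊆ cond b Kb Kw) (h₂ : Z₂ \ D ⊆ cond b Kw Kb)
    {Y Fz : Set ℂ} (σ : ℂ → Bool) (hn : ∃ η, PvatNice (cfSites η) ∧ cfSites η ∩ Wn = Y ∩ Wn) (hD : ∀ v ∈ Y, v ∈ D → v ∈ Fz) :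
    PvlhUp (pvlhSg Y Kb Kw) (pvlhSec Y Fz σ ℋ) := by
  classical
  intro τ τ' hle hτ
  obtain ⟨η, hN, hW⟩ := hn
  have hYE : cfSites η ∩ Es = Y ∩ Es := by
    ext a
    constructor
    · rintro ⟨h1, h2⟩
      exact ⟨((Set.ext_iff.1 hW a).1 ⟨h1, hEs h2⟩).1, h2⟩
    · rintro ⟨h1, h2⟩
      exact ⟨((Set.ext_iff.1 hW a).2 ⟨h1, hEs h2⟩).1, h2⟩
  have tr : ∀ c : ℂ → Bool, (cfOf Y c ∈ ℋ ↔ cfOf (cfSites η) c ∈ ℋ) := fun c => by
    rw [← hr (cfOf Y c), ← hr (cfOf (cfSites η) c), pvay_of_restr, pvay_of_restr, hYE]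
  have h1 : cfOf (cfSites η) (pvfqMix Fz (σ, τ)) ∈ ℋ := (tr _).1 hτ
  set κ : ℂ → Bool := pvfqMix Fz (σ, τ) with hκ
  set κ' : ℂ → Bool := pvfqMix Fz (σ, τ') with hκ'
  let κ2 : ℂ → Bool := fun a => if a ∈ Wn then κ' a else κ a
  have ok : ∀ c : ℂ → Bool, CfOK (cfOf (cfSites η) c) := fun c =>
    ⟨by rw [cfOf_sites]; exact hN.good, fun p hp q hq e => Prod.ext e (by rw [show p.2 = c p.1 from hp.2, show q.2 = c q.1 from hq.2, e])⟩
  have colE : ∀ (c : ℂ → Bool) (a : ℂ), a ∈ cfSites η → cfCol (cfOf (cfSites η) c) a = c a := fun c a ha => pvdy_cfCol_cfOf c ha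
  have inY : ∀ a, a ∈ cfSites η → a ∈ Wn → a ∈ Y := fun a h1 h2 => ((Set.ext_iff.1 hW a).1 ⟨h1, h2⟩).1
  -- the one-site comparison
  have key : ∀ (β : Bool) (Z K : Set ℂ), Z \ D ⊆ K → (∀ a ∈ Y ∩ K, τ a = β → τ' a = β) → ∀ a ∈ Z, a ∈ cfSites η → κ a = β → κ2 a = β := by
    intro β Z K hZ hK a haZ haY hc
    show (if a ∈ Wn then κ' a else κ a) = β
    by_cases hw : a ∈ Wn
    · rw [if_pos hw]
      by_cases hF : a ∈ Fz
      · rw [hκ', pvfqMix_of_mem hF]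
        rw [hκ, pvfqMix_of_mem hF] at hc
        exact hc
      · rw [hκ', pvfqMix_of_notMem hF]
        rw [hκ, pvfqMix_of_notMem hF] at hc
        have haD : a ∉ D := fun h => hF (hD a (inY a haY hw) h)
        exact hK a ⟨inY a haY hw, hZ ⟨haZ, haD⟩⟩ hc
    · rw [if_neg hw]
      exact hc
  have upB : ∀ a ∈ Y ∩ Kb, τ a = true → τ' a = true := fun a ha hc => by
    have h := (hle a).1 (pvlh_sg_black Kw ha)
    rw [hc] at h
    exact top_le_iff.1 h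
  have upW : ∀ a ∈ Y ∩ Kw, τ a = false → τ' a = false := fun a ha hc => by
    have h := (hle a).2 (pvlh_sg_white hd ha)
    rw [hc] at h
    exact le_bot_iff.1 h
  have rc : PvjoRc b O Z₁ Z₂ (cfOf (cfSites η) κ) (cfOf (cfSites η) κ2) := by
    refine ⟨ok _, ok _, by rw [cfOf_sites, cfOf_sites], fun a ha => ?_, fun a ha hs hc => ?_, fun a ha hs hc => ?_⟩
    · by_cases hs : a ∈ cfSites η
      · rw [colE _ a hs, colE _ a hs]
        show (if a ∈ Wn then κ' a else κ a) = κ a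
        by_cases hw : a ∈ Wn
        · rw [if_pos hw]
          have hF : a ∈ Fz := hD a (inY a hs hw) (hO ha)
          rw [hκ', hκ, pvfqMix_of_mem hF, pvfqMix_of_mem hF]
        · rw [if_neg hw]
      · rw [pvut_col_off (by rw [cfOf_sites]; exact hs), pvut_col_off (by rw [cfOf_sites]; exact hs)]
    · rw [cfOf_sites] at hs
      rw [colE _ a hs] at hc ⊢
      cases b
      · exact key false Z₁ Kw h₁ upW a ha hs hc
      · exact key true Z₁ Kb h₁ upB a ha hs hc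
    · rw [cfOf_sites] at hs
      rw [colE _ a hs] at hc ⊢
      cases b
      · exact key true Z₂ Kb h₂ upB a ha hs hc
      · exact key false Z₂ Kw h₂ upW a ha hs hc
  have h2 : cfOf (cfSites η) κ2 ∈ ℋ := hm _ _ rc h1
  show cfOf Y κ' ∈ ℋ
  rw [tr, ← hr, pvay_of_restr]
  rw [← hr, pvay_of_restr] at h2
  have e : cfOf (cfSites η ∩ Es) κ' = cfOf (cfSites η ∩ Es) κ2 := by
    ext p
    constructor
    · rintro ⟨hp, hc⟩
      refine ⟨hp, ?_⟩
      show p.2 = if p.1 ∈ Wn then κ' p.1 else κ p.1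
      rw [if_pos (hEs hp.2)]
      exact hc
    · rintro ⟨hp, hc⟩
      refine ⟨hp, ?_⟩
      have hc' : p.2 = if p.1 ∈ Wn then κ' p.1 else κ p.1 := hc
      rw [if_pos (hEs hp.2)] at hc'
      exact hc'
  rw [e]
  exact h2

/-! ## 3. the field `up` -/

/-- the copy section of the mesh clause is up in ANY order -/
theorem pvut_cp_mesh (s : ℂ → Option Bool) (μ : ℝ) (C Y : Set ℂ) : PvlhUp s (pvlhCp Y (pvjoMesh μ C)) :=
  fun c c' _ hc => pvut_mesh_sites (η := cfOf Y c) (η' := cfOf Y c') (by rw [cfOf_sites, cfOf_sites]) hc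

/-- **THE `ℋ` HALF OF `up` AT A PLACED SIDE EVENT** (= the field `up` of `PvjpDoor` of 248).      `S` = the side event in the reference frame (black form): read in `Es`, monotone (`Ew` frozen, black kept on `Zb`, white kept on `Zw`) -/
theorem pvut_door_up {E : PvjeEnd} {S : Set (Conf PvPt)} {Es Ew Zb Zw : Set ℂ} (rS : Conf.ReadsSet (Es ×ˢ (univ : Set Bool)) S) (mS : PvjoMono S true Ew Zb Zw)
    (zu : ℂ) {a : ℂ} (ha : a ≠ 0) (col : Bool) (hEs : pvthSim zu a '' Es ⊆ E.D ∪ E.K) (hEw : pvthSim zu a '' Ew ⊆ E.D) {Kb Kw : Set ℂ} (hd : Disjoint Kb Kw)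
    (hb : pvthSim zu a '' (cond col Zb Zw) \ E.D ⊆ Kb) (hw : pvthSim zu a '' (cond col Zw Zb) \ E.D ⊆ Kw) :
    ∀ (η₀ : Conf PvPt) (Y Fz : Set ℂ) (σ : ℂ → Bool), Y.Countable → (∃ η, PvatNice (cfSites η) ∧ cfSites η ∩ E.Wn (E.Hu η₀) = Y ∩ E.Wn (E.Hu η₀)) → Fz ⊆ Y → (∀ v ∈ Y, v ∈ E.D → v ∈ Fz) →
      (∀ v ∈ Fz, v ∉ E.K ∧ v ∉ E.y η₀) → PvlhUp (pvlhSg Y Kb Kw) (pvlhSec Y Fz σ (pvdpPl zu a col S)) := by
  intro η₀ Y Fz σ _ hn _ hD _
  have hm := pvut_mono_pl zu ha col mS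
  refine pvut_sec (pvdp_reads zu a ha col rS) hm (hEs.trans (union_subset (pvje_D_sub E _) (pvje_K_sub E _))) hEw hd ?_ ?_ σ hn hD
  · cases col
    · exact hw
    · exact hb
  · cases col
    · exact hb
    · exact hw

/-- **THE FIELD `up` OF `PvjeTest.Ok`, VERBATIM**, at `ℋ := pvdpPl zu a col S`, `𝒦 := pvkqPat dl F ∩ pvjoMesh μ C`.      LEFT: two inclusions of regions, ONE disjointness:
the rooms of the black routes with the room (off the plug region) of the half lane which is black IN THE PLANE, against the same in white -/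
theorem pvut_up {E : PvjeEnd} {S : Set (Conf PvPt)} {Es Ew Zb Zw : Set ℂ} (rS : Conf.ReadsSet (Es ×ˢ (univ : Set Bool)) S) (mS : PvjoMono S true Ew Zb Zw)
    (zu : ℂ) {a : ℂ} (ha : a ≠ 0) (col : Bool) (hEs : pvthSim zu a '' Es ⊆ E.D ∪ E.K) (hEw : pvthSim zu a '' Ew ⊆ E.D)
    {dl : ℝ} {M K : ℕ} {F : List (Bool × List (Set ℂ × ℂ × ℂ))} (hfit : PvkqFit dl M K F) (μ : ℝ) (C : Set ℂ)
    (sep : Disjoint (pvjpRm true F ∪ pvthSim zu a '' (cond col Zb Zw) \ E.D) (pvjpRm false F ∪ pvthSim zu a '' (cond col Zw Zb) \ E.D)) :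
    ∀ (η₀ : Conf PvPt) (Y Fz : Set ℂ) (σ : ℂ → Bool), Y.Countable → (∃ η, PvatNice (cfSites η) ∧ cfSites η ∩ E.Wn (E.Hu η₀) = Y ∩ E.Wn (E.Hu η₀)) → Fz ⊆ Y → (∀ v ∈ Y, v ∈ E.D → v ∈ Fz) →
      (∀ v ∈ Fz, v ∉ E.K ∧ v ∉ E.y η₀) →
      ∃ s : ℂ → Option Bool, {z | s z ≠ none}.Countable ∧ PvlhUp s (pvlhSec Y Fz σ (pvdpPl zu a col S)) ∧ PvlhUp s (pvlhCp Y (pvkqPat dl F ∩ pvjoMesh μ C)) := by
  intro η₀ Y Fz σ hY hn hF hD hFz
  refine ⟨_, pvlh_sg_countable hY _ _, pvut_door_up rS mS zu ha col hEs hEw sep subset_union_right subset_union_right η₀ Y Fz σ hY hn hF hD hFz, ?_⟩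
  intro c c' hle hc
  exact ⟨pvjp_pat_up hfit Y sep (inter_subset_right.trans subset_union_left) (inter_subset_right.trans subset_union_left) c c' hle hc.1, pvut_cp_mesh _ μ C Y c c' hle hc.2⟩

/-- two frames in one: an event scaled at the centre `0`, then placed -/
theorem pvut_pl_sc (z a s : ℂ) (ha : a ≠ 0) (c : Bool) (S : Set (Conf PvPt)) : pvdpPl z a c (cfMap (pvthInv 0 s) ⁻¹' S) = pvdpPl z (a * s) c S := by
  ext η
  show cfMap (pvthInv 0 s) (pvdpT z a c η) ∈ S ↔ pvdpT z (a * s) c η ∈ S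
  rw [pvdp_T_comp z a 0 s ha, mul_zero, add_zero]

end Claimed.Agent.R289
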