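-- KEEP
import Claimed.Agent.R289.Tr.LinkLoc
import Claimed.Agent.R289.Tr.LinkLocC
import Claimed.Agent.R289.Tr.AtUniq
import Claimed.Agent.R289.Defs.GdReg
import Claimed.Agent.R289.Tr.CycD
import Claimed.Agent.R289.Tr.InstLB
import Claimed.Agent.R289.Exit.FrcDefs

/-!
# Row 289 (S0537), THE WALL, ROAD E, file Tr/FrcCar : (b1) OF `Exit/FrcE` = THE HALF STATE OF THE BASE CONFIGURATION IS CARRIED      (helper71, post of 234 id 90120; prefix `pvfc7_`, `pvfc7`, `Pvfc7`)      0 sorry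

AT THE NAMES OF `Tr/InstL` v2.2.1 (163) AND `Exit/FrcDefs` v3 (35).      THE STATEMENT: the base configuration `η₀` carries `Σ_out(z,t)` (`PvilOut`) / `Σ_in(z,t)` (`PvilIn`) and has a mesh certificate in its own-level box with collar;   `η` is `DelGood`,
has THE SAME SITES in `W := Z⁺ ∩ (box + collar)` (`Z` = base datum = cells of the frozen positions and of the mouth ball; `W = pvilWz 𝔓 m z t Z`: `pvfc7_Wo_eq`) and THE SAME COLOURS ON THE FROZEN POSITIONS `F` ONLY (`Pvfc7Agr W F η₀ η`: nothing on the colours of `W \ F`, nothing off `W`).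
THEN `η` carries the TWIN half state (`PvLocSP` / `PvLocSM` of 22 over the dart relation `pvgeRel` of 29), and **the base data are the same: `pvilFo η = pvilFo η₀`, `pvilZo η = pvilZo η₀`** (mirror `Fi Zi`).
* sec. 1  the outer radius `τ.b` of the gate annulus may be shrunk as long as the open disc keeps its sites: `pvfc7Ty`, `pvfc7_atOut_b`, `pvfc7_atIn_b`
* sec. 2  **`pvfc7_atOut`**, **`pvfc7_atIn`** : transfer along `PvLocP` (22) with ONLY THE SITES OF THE OPEN GATE DISC (both sides) and the black ends of the stub in the patch `Kr`      [`pvlw_atOut` wants `closedBall z (b h) ⊆ Kr`: false at mesh `δ/3` for a cell of the rim of the disc;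
          cure: `pvfc7_pad` (the points which carry no vertex may be added to `Kr`) + `pvfc7_shrink`].      MODEL FREE: 22 74 may use it in `PvsuDet` (no `6 μ ≤ δ`).
* sec. 3  two configurations: `pvfc7_locP` (`PvLocP` of the two planes from `PvgeSame`), recolouring in the plane of `η₀` (`pvwk_atOut_congr`), **`pvfc7_out`**, **`pvfc7_in`** (CORE form);   `pvfc7_fzO pvfc7_huO pvfc7_fzI pvfc7_huI` (the base data read "the" half state, `Z = pvtCells δ F`)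
* sec. 4  `Pvfc7Agr` (`refl symm trans mono sites`), its three sources **`pvfc7_agr_restr`** (same restriction to a window), **`pvfc7_agr_spl`** (splice), **`pvfc7_agr_R`** (hybrid resampling `pvdyR`);   `pvfc7_disc_cover` (the open gate disc lies in `Z⁺`: mesh `μ`, `2 μ ≤ δ`, `μ < b h`);
          **`pvfc7_out_hull`**, **`pvfc7_in_hull`** (HULL form, `3 μ ≤ δ`, mesh of `η₀` read in any `E`)
* sec. 5  boxes      * sec. 6  AT THE MODEL: `pvfc7Wo pvfc7Wi`, **`pvfc7_out_model`**, **`pvfc7_in_model`**, `pvfc7_fo_core pvfc7_fi_core` (`F ⊆` the `δ`-core of `W`), `pvfc7_agr_o pvfc7_agr_i` (one more resampling)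
* sec. 7  THE EXPERIMENTS: `pvfc7_C_o _i _e` (the resampled regions miss `W`: fields `res_off iK_off Di_off` of `PvieEng.Wf`), **`pvfc7_carry_o`**, **`pvfc7_carry_i`**, **`pvfc7_carry_e`** : the configuration `pvdyR e.K e.y (pvdyR (e.K ∪ D) e.y η₀ q) q'` of `pvrgFo pvrgFi pvrgFe`
* sec. 8  **`pvfc7_fin_o`**, **`pvfc7_fin_i`**, **`pvfc7_fin_e`** : AT A FINAL CONFIGURATION `PvjeFin (pvjeO ..) T η₀ η` of 35: twin half state, same `F`, THE HULL CLAUSE of `pvilMo pvilMi pvilMe`;   `pvfc7_fin_agr` (generic end)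
OWED BY THE CONSUMER (numbers of the model): `hb : b h ≤ r_k`, `hr : μ < b h`, `3 μ ≤ δ_m`;   `DelGood` of the resampled configuration (a.e. seed).
-/

set_option autoImplicit false

namespace Claimed.Agent.R289

open Set Metric Claims.C0465
open scoped ComplexConjugate

variable {V D V' D' : Type}

/-! ## 1. the outer radius of the gate annulus may be shrunk -/

section shrink

variable {T : PvMap V D} {pos : V → ℂ} {s : V → Bool} {𝔖 : PvwSt T} {N : PvwNum} {h : ℝ} {z : ℂ} {τ : PvwTy}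

/-- the type with another outer radius of the gate annulus -/
def pvfc7Ty (τ : PvwTy) (b' : ℝ) : PvwTy := { τ with b := b' }

theorem pvfc7_eqns_cite : True := by
  have := @pvfc7Ty.eq_1
  trivial

theorem pvfc7_ty_self (τ : PvwTy) : pvfc7Ty τ τ.b = τ := rfl

theorem pvfc7_gate_b {b₁ b₂ : ℝ} (hb : ∀ v, ‖pos v - z‖ < b₁ * h ↔ ‖pos v - z‖ < b₂ * h) (hg : 𝔖.Gate pos h z (pvfc7Ty τ b₁) s) : 𝔖.Gate pos h z (pvfc7Ty τ b₂) s :=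
  { hg with
    dsc_eq := by
      rw [hg.dsc_eq]
      ext v
      exact hb v
    ann := fun v hv => ⟨(hg.ann v hv).1, (hb v).1 (hg.ann v hv).2⟩
    inside := fun v hv => (hb v).1 (hg.inside v hv) }

theorem pvfc7_O_b {b₁ b₂ : ℝ} (hb : ∀ v, ‖pos v - z‖ < b₁ * h ↔ ‖pos v - z‖ < b₂ * h) : pvwO T pos z (b₁ * h) = pvwO T pos z (b₂ * h) := by
  unfold pvwO
  have e : {v | b₁ * h ≤ ‖pos v - z‖} = {v | b₂ * h ≤ ‖pos v - z‖} := by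
    ext v
    simp only [mem_ofPred_eq]
    rw [← not_lt, ← not_lt, hb v]
  rw [e]

theorem pvfc7_inmost_b {b₁ b₂ : ℝ} (hb : ∀ v, ‖pos v - z‖ < b₁ * h ↔ ‖pos v - z‖ < b₂ * h) (hm : 𝔖.Inmost pos h z (pvfc7Ty τ b₁) s) : 𝔖.Inmost pos h z (pvfc7Ty τ b₂) s := by
  unfold PvwSt.Inmost at hm ⊢
  rw [hm]
  show pvgnRule T s (pvwI T pos z (τ.a * h)) (pvwO T pos z (b₁ * h)) = pvgnRule T s (pvwI T pos z (τ.a * h)) (pvwO T pos z (b₂ * h))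
  rw [pvfc7_O_b hb]

theorem pvfc7_atOut_b {b₁ b₂ : ℝ} (hb : ∀ v, ‖pos v - z‖ < b₁ * h ↔ ‖pos v - z‖ < b₂ * h) (ha : 𝔖.AtOut pos N h z (pvfc7Ty τ b₁) s) : 𝔖.AtOut pos N h z (pvfc7Ty τ b₂) s :=
  ⟨pvfc7_gate_b hb ha.gate, pvfc7_inmost_b hb ha.inmost, ha.stub, ha.good, ha.lev⟩

theorem pvfc7_atIn_b {b₁ b₂ : ℝ} (hb : ∀ v, ‖pos v - z‖ < b₁ * h ↔ ‖pos v - z‖ < b₂ * h) (ha : 𝔖.AtIn pos N h z (pvfc7Ty τ b₁) s) : 𝔖.AtIn pos N h z (pvfc7Ty τ b₂) s :=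
  ⟨pvfc7_gate_b hb ha.gate, pvfc7_inmost_b hb ha.inmost, ha.stub, ha.good, ha.lev⟩

end shrink

/-! ## 2. transfer along a positioned local isomorphism: only the SITES of the OPEN gate disc must lie in the patch -/

section open_disc

variable {T : PvMap V D} {T' : PvMap V' D'} {R : D → D' → Prop} {pos : V → ℂ} {pos' : V' → ℂ} {Kr : Set ℂ} {s : V → Bool} {s' : V' → Bool} {N : PvwNum} {h : ℝ} {z : ℂ} {τ : PvwTy}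

/-- the points which carry no vertex may be added to the patch -/
theorem pvfc7_pad (L : PvLocP T T' R pos pos' Kr) : PvLocP T T' R pos pos' (Kr ∪ {w | (∀ v, pos v ≠ w) ∧ ∀ v', pos' v' ≠ w}) where
  loc := L.loc
  pos_eq := L.pos_eq
  full := fun v hv => L.full v (hv.resolve_right fun h => h.1 v rfl)
  full' := fun v' hv' => L.full' v' (hv'.resolve_right fun h => h.2 v' rfl)

/-- a finite set of reals below `r` lies below some `r' < r` -/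
theorem pvfc7_below {P : Set ℝ} (hP : P.Finite) {r : ℝ} (h : ∀ x ∈ P, x < r) : ∃ r', r' < r ∧ ∀ x ∈ P, x < r' := by
  rcases P.eq_empty_or_nonempty with rfl | hne
  · exact ⟨r - 1, by linarith, fun x hx => absurd hx (notMem_empty x)⟩
  · obtain ⟨x₀, hx₀, hmax⟩ := Set.exists_max_image P id hP hne
    refine ⟨(x₀ + r) / 2, by linarith [h x₀ hx₀], fun x hx => ?_⟩
    have h1 : x ≤ x₀ := hmax x hx
    linarith [h x₀ hx₀]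

/-- **the shrunk radius**: the same sites in the open disc on both sides, the closed shrunk disc lies in the padded patch -/
theorem pvfc7_shrink (L : PvLocP T T' R pos pos' Kr) {𝔖 : PvwSt T} (hg : 𝔖.Gate pos h z τ s) (hK : ∀ v, ‖pos v - z‖ < τ.b * h → pos v ∈ Kr) (hK' : ∀ v', ‖pos' v' - z‖ < τ.b * h → pos' v' ∈ Kr) :
    ∃ b' : ℝ, (∀ v, ‖pos v - z‖ < τ.b * h ↔ ‖pos v - z‖ < b' * h) ∧ (∀ v', ‖pos' v' - z‖ < τ.b * h ↔ ‖pos' v' - z‖ < b' * h) ∧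
      closedBall z (b' * h) ⊆ Kr ∪ {w | (∀ v, pos v ≠ w) ∧ ∀ v', pos' v' ≠ w} := by
  have hr : 0 < τ.b * h := lt_of_le_of_lt (norm_nonneg _) (hg.ann _ ⟨0, rfl⟩).2
  have hh : h ≠ 0 := fun e => by rw [e, mul_zero] at hr; exact lt_irrefl _ hr
  obtain ⟨r', h1, h2⟩ := pvfc7_below (P := (fun v => ‖pos v - z‖) '' 𝔖.core) (hg.core_fin.image _) (r := τ.b * h) (by
    rintro _ ⟨v, hv, rfl⟩
    exact pvwk_core_lt hg hv)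
  have e : r' / h * h = r' := div_mul_cancel₀ _ hh
  have a1 : ∀ v, ‖pos v - z‖ < τ.b * h → ‖pos v - z‖ < r' := fun v hv => h2 _ ⟨v, (pvwk_mem_core hg).2 hv, rfl⟩
  have a2 : ∀ v', ‖pos' v' - z‖ < τ.b * h → ‖pos' v' - z‖ < r' := fun v' hv' => by
    obtain ⟨v, hv⟩ := pvlw_vertex L.symm (hK' v' hv')
    have e1 := pvlw_pos L.symm hv
    rw [e1] at hv' ⊢
    exact a1 v hv'
  refine ⟨r' / h, fun v => ?_, fun v' => ?_, fun w hw => ?_⟩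
  · rw [e]; exact ⟨a1 v, fun hv => hv.trans h1⟩
  · rw [e]; exact ⟨a2 v', fun hv => hv.trans h1⟩
  · rw [e, mem_closedBall_iff_norm] at hw
    by_cases c1 : ∃ v, pos v = w
    · obtain ⟨v, rfl⟩ := c1
      exact Or.inl (hK v (lt_of_le_of_lt hw h1))
    · by_cases c2 : ∃ v', pos' v' = w
      · obtain ⟨v', rfl⟩ := c2
        exact Or.inl (hK' v' (lt_of_le_of_lt hw h1))
      · exact Or.inr ⟨fun v hv => c1 ⟨v, hv⟩, fun v' hv' => c2 ⟨v', hv'⟩⟩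

/-- **THE EXIT HALF STATE HAS A TWIN WHICH IS THE EXIT HALF STATE**, OPEN DISC form -/
theorem pvfc7_atOut (L : PvLocP T T' R pos pos' Kr) (hT : T.IsSph) (hs : ∀ d d', R d d' → s (T.src d) = s' (T'.src d')) {𝔖 : PvwSt T}
    (hK : ∀ v, ‖pos v - z‖ < τ.b * h → pos v ∈ Kr) (hK' : ∀ v', ‖pos' v' - z‖ < τ.b * h → pos' v' ∈ Kr) (hKp : ∀ i, i ≤ 𝔖.np → pos (T.src (𝔖.ep i)) ∈ Kr) (ha : 𝔖.AtOut pos N h z τ s) :
    ∃ 𝔖' : PvwSt T', PvLocSP R 𝔖 𝔖' ∧ 𝔖'.AtOut pos' N h z τ s' := by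
  obtain ⟨b', h1, h2, h3⟩ := pvfc7_shrink L ha.gate hK hK'
  have L' := pvfc7_pad L
  have ha' : 𝔖.AtOut pos N h z (pvfc7Ty τ b') s := pvfc7_atOut_b (τ := τ) (b₁ := τ.b) h1 ha
  obtain ⟨𝔖', G⟩ := pvlw_sp_exists_h L' (τ := pvfc7Ty τ b') h3 ha'.gate fun i hi => Or.inl (hKp i hi)
  exact ⟨𝔖', G, pvfc7_atOut_b (τ := τ) (b₂ := τ.b) (fun v' => (h2 v').symm) (pvlw_atOut L' hT hs G (τ := pvfc7Ty τ b') h3 ha')⟩

/-- **THE ENTRANCE HALF STATE HAS A TWIN WHICH IS THE ENTRANCE HALF STATE**, OPEN DISC form -/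
theorem pvfc7_atIn (L : PvLocP T T' R pos pos' Kr) (hT : T.IsSph) (hs : ∀ d d', R d d' → s (T.src d) = s' (T'.src d')) {𝔖 : PvwSt T}
    (hK : ∀ v, ‖pos v - z‖ < τ.b * h → pos v ∈ Kr) (hK' : ∀ v', ‖pos' v' - z‖ < τ.b * h → pos' v' ∈ Kr) (hKm : ∀ i, i ≤ 𝔖.nm → pos (T.src (𝔖.em i)) ∈ Kr) (ha : 𝔖.AtIn pos N h z τ s) :
    ∃ 𝔖' : PvwSt T', PvLocSM R 𝔖 𝔖' ∧ 𝔖'.AtIn pos' N h z τ s' := by
  obtain ⟨b', h1, h2, h3⟩ := pvfc7_shrink L ha.gate hK hK'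
  have L' := pvfc7_pad L
  have ha' : 𝔖.AtIn pos N h z (pvfc7Ty τ b') s := pvfc7_atIn_b (τ := τ) (b₁ := τ.b) h1 ha
  obtain ⟨𝔖', G⟩ := pvlw_sm_exists_h L' (τ := pvfc7Ty τ b') h3 ha'.gate fun i hi => Or.inl (hKm i hi)
  exact ⟨𝔖', G, pvfc7_atIn_b (τ := τ) (b₂ := τ.b) (fun v' => (h2 v').symm) (pvlw_atIn_h L' hT hs G (τ := pvfc7Ty τ b') h3 (fun i hi => Or.inl (hKm i hi)) ha')⟩

end open_disc

/-! ## 3. two configurations with the same Delaunay triangles at the points of `K`, the same colours ON THE FROZEN POSITIONS ONLY -/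

section conf

variable {η₀ η : Conf PvPt} {K : Set ℂ} {N : PvwNum} {b : Bool} {p : PvilPl}

/-- the dart relation of the two planes (29, `Tr/GeoLoc`) -/
abbrev pvfc7R (η₀ η : Conf PvPt) (K : Set ℂ) : (delbPl (pvieY η₀)).Dart → (delbPl (pvieY η)).Dart → Prop := pvgeRel (delbPl (pvieY η₀)) (delbPl (pvieY η)) K

/-- **the positioned local isomorphism of the two planes** -/
theorem pvfc7_locP (h₀ : DelGood (pvieY η₀)) (h : DelGood (pvieY η)) (hS : PvgeSame (pvieY η₀) (pvieY η) K) :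
    PvLocP (pvieT η₀) (pvieT η) (pvfc7R η₀ η K) (pviePos η₀) (pviePos η) K :=
  ⟨pvge_loc (pvge_del_bpl h₀) (pvge_del_bpl h) hS, pvge_pos_eq, pvge_full (pvge_del_bpl h₀) (pvge_del_bpl h) hS, pvge_full' (pvge_del_bpl h₀) (pvge_del_bpl h) hS⟩

theorem pvfc7_fr_inj {f : ℂ} (hf : ‖f‖ = 1) : Function.Injective fun w : ℂ => conj f * w := by
  have h0 : conj f ≠ 0 := by
    intro h
    rw [map_eq_zero] at h
    rw [h, norm_zero] at hf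
    exact zero_ne_one hf
  exact mul_right_injective₀ h0

theorem pvfc7_fr_norm {f : ℂ} (hf : ‖f‖ = 1) (a b : ℂ) : ‖conj f * a - conj f * b‖ = ‖a - b‖ := by
  rw [← mul_sub, norm_mul, Complex.norm_conj, hf, one_mul]

/-- the colouring of the plane of `η₀` by the colours of `η` -/
noncomputable def pvfc7Col (η₀ η : Conf PvPt) (b : Bool) : ↥(pvieY η₀) → Bool := fun v => cfCol η v.1 == b

theorem pvfc7_eqns_cite2 : True := by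
  have := @pvfc7Col.eq_1
  trivial

theorem pvfc7_col_rel (b : Bool) : ∀ d d', pvfc7R η₀ η K d d' → pvfc7Col η₀ η b ((pvieT η₀).src d) = pvieCol η b ((pvieT η).src d') := by
  intro d d' hd
  have e : (((pvieT η₀).src d : ↥(pvieY η₀)) : ℂ) = (((pvieT η).src d' : ↥(pvieY η)) : ℂ) := hd.1
  show (cfCol η _ == b) = (cfCol η _ == b)
  rw [e]

/-- **(b1), EXIT HALF, CORE FORM**: the exit half state of `η₀` is carried to every good configuration with the same Delaunay triangles at the frozen positions, no new site in the open gate disc off `K`, the same colours on the frozen positions -/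
theorem pvfc7_out (hf : ‖p.fr‖ = 1) (hG : DelGood (pvieY η)) (hS : PvgeSame (pvieY η₀) (pvieY η) K) {𝔖₀ : PvwSt (pvieT η₀)} (h₀ : PvilOut N b p η₀ 𝔖₀)
    (hFK : ∀ v ∈ 𝔖₀.fzOut, pviePos η₀ v ∈ K) (hD : ∀ a ∈ pvieY η, ‖a - p.z‖ < p.ty.b * p.h → a ∈ K) (hcol : ∀ v ∈ 𝔖₀.fzOut, cfCol η (pviePos η₀ v) = cfCol η₀ (pviePos η₀ v)) :
    ∃ 𝔖 : PvwSt (pvieT η), PvLocSP (pvfc7R η₀ η K) 𝔖₀ 𝔖 ∧ PvilOut N b p η 𝔖 ∧ pviePos η '' 𝔖.fzOut = pviePos η₀ '' 𝔖₀.fzOut := by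
  have Lc := pvfc7_locP h₀.good hG hS
  have Lf := pvll_locP_map Lc (pvfc7_fr_inj hf)
  have hT := delb_plane_isSph h₀.good
  -- recolour in the plane of `η₀`
  have hag : PvwAgree 𝔖₀.fzOut (pvieCol η₀ b) (pvfc7Col η₀ η b) := fun v hv => by
    show (cfCol η₀ v.1 == b) = (cfCol η v.1 == b)
    rw [show cfCol η v.1 = cfCol η₀ v.1 from hcol v hv]
  have st1 : 𝔖₀.AtOut (p.pos η₀) N p.h p.zf p.ty (pvfc7Col η₀ η b) := pvwk_atOut_congr hT h₀.st hag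
  have hKp : ∀ i, i ≤ 𝔖₀.np → pviePos η₀ ((pvieT η₀).src (𝔖₀.ep i)) ∈ K := fun i hi => hFK _ (Or.inl (Or.inr ⟨i, hi, rfl⟩))
  obtain ⟨𝔖, G, st⟩ := pvfc7_atOut (s' := pvieCol η b) Lf hT (pvfc7_col_rel b) (𝔖 := 𝔖₀) (N := N) (h := p.h) (z := p.zf) (τ := p.ty)
    (fun v hv => ⟨_, hFK v (Or.inl (Or.inl ((pvwk_mem_core st1.gate).2 hv))), rfl⟩)
    (fun v' hv' => ⟨_, hD v'.1 v'.2 (by rw [← pvfc7_fr_norm hf]; exact hv'), rfl⟩)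
    (fun i hi => ⟨_, hKp i hi, rfl⟩) st1
  refine ⟨𝔖, G, ⟨hG, st, ?_, ?_, ?_, h₀.lev0⟩, ?_⟩
  · rw [G.np, ← Lc.pos_eq _ _ (G.ep _ le_rfl)]
    exact h₀.tip
  · rw [G.np]
    exact pvll_le_all Lc (fun i hi => pvloc_v_src (G.ep i hi)) hKp h₀.mask
  · intro i hi1 hi2
    rw [G.gt.ip] at hi1
    rw [G.gt.inn.n_eq] at hi2
    rw [← pvlw_pos Lc (G.gt.inn.v_rel i hi2)]
    exact h₀.mask_i i hi1 hi2
  · have hset := pvlw_fzOut Lc.loc G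
    ext w
    constructor
    · rintro ⟨v', hv', rfl⟩
      obtain ⟨v, h1, h2⟩ := hset.2 v' hv'
      exact ⟨v, h2, pvlw_pos Lc h1⟩
    · rintro ⟨v, hv, rfl⟩
      obtain ⟨v', h1, h2⟩ := hset.1 v hv
      exact ⟨v', h2, (pvlw_pos Lc h1).symm⟩

/-- **(b1), ENTRANCE HALF, CORE FORM** -/
theorem pvfc7_in (hf : ‖p.fr‖ = 1) (hG : DelGood (pvieY η)) (hS : PvgeSame (pvieY η₀) (pvieY η) K) {𝔖₀ : PvwSt (pvieT η₀)} (h₀ : PvilIn N b p η₀ 𝔖₀)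
    (hFK : ∀ v ∈ 𝔖₀.fzIn, pviePos η₀ v ∈ K) (hD : ∀ a ∈ pvieY η, ‖a - p.z‖ < p.ty.b * p.h → a ∈ K) (hcol : ∀ v ∈ 𝔖₀.fzIn, cfCol η (pviePos η₀ v) = cfCol η₀ (pviePos η₀ v)) :
    ∃ 𝔖 : PvwSt (pvieT η), PvLocSM (pvfc7R η₀ η K) 𝔖₀ 𝔖 ∧ PvilIn N b p η 𝔖 ∧ pviePos η '' 𝔖.fzIn = pviePos η₀ '' 𝔖₀.fzIn := by
  have Lc := pvfc7_locP h₀.good hG hS
  have Lf := pvll_locP_map Lc (pvfc7_fr_inj hf)
  have hT := delb_plane_isSph h₀.good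
  have hag : PvwAgree 𝔖₀.fzIn (pvieCol η₀ b) (pvfc7Col η₀ η b) := fun v hv => by
    show (cfCol η₀ v.1 == b) = (cfCol η v.1 == b)
    rw [show cfCol η v.1 = cfCol η₀ v.1 from hcol v hv]
  have st1 : 𝔖₀.AtIn (p.pos η₀) N p.h p.zf p.ty (pvfc7Col η₀ η b) := pvwk_atIn_congr hT h₀.st hag
  have hKm : ∀ i, i ≤ 𝔖₀.nm → pviePos η₀ ((pvieT η₀).src (𝔖₀.em i)) ∈ K := fun i hi => hFK _ (Or.inl (Or.inr ⟨i, hi, rfl⟩))
  obtain ⟨𝔖, G, st⟩ := pvfc7_atIn (s' := pvieCol η b) Lf hT (pvfc7_col_rel b) (𝔖 := 𝔖₀) (N := N) (h := p.h) (z := p.zf) (τ := p.ty)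
    (fun v hv => ⟨_, hFK v (Or.inl (Or.inl ((pvwk_mem_core st1.gate).2 hv))), rfl⟩)
    (fun v' hv' => ⟨_, hD v'.1 v'.2 (by rw [← pvfc7_fr_norm hf]; exact hv'), rfl⟩)
    (fun i hi => ⟨_, hKm i hi, rfl⟩) st1
  refine ⟨𝔖, G, ⟨hG, st, ?_, ?_, ?_, h₀.lev0⟩, ?_⟩
  · rw [G.nm, ← Lc.pos_eq _ _ (G.em _ le_rfl)]
    exact h₀.tip
  · rw [G.nm]
    exact pvll_le_all Lc (fun i hi => pvloc_v_src (G.em i hi)) hKm h₀.mask
  · intro i hi1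
    rw [G.gt.ip] at hi1
    rw [← pvlw_pos Lc (G.gt.inn.v_rel i (hi1.trans h₀.st.gate.ip_le))]
    exact h₀.mask_i i hi1
  · have hset := pvlw_fzIn Lc.loc G
    ext w
    constructor
    · rintro ⟨v', hv', rfl⟩
      obtain ⟨v, h1, h2⟩ := hset.2 v' hv'
      exact ⟨v, h2, pvlw_pos Lc h1⟩
    · rintro ⟨v, hv, rfl⟩
      obtain ⟨v', h1, h2⟩ := hset.1 v hv
      exact ⟨v', h2, (pvlw_pos Lc h1).symm⟩

/-- the base datum `F` reads "the" exit half state -/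
theorem pvfc7_fzO (hf : ‖p.fr‖ = 1) {𝔖 : PvwSt (pvieT η)} (h : PvilOut N b p η 𝔖) : pvilFzO N b p η = pviePos η '' 𝔖.fzOut := by
  ext v
  constructor
  · rintro ⟨𝔖₁, h₁, u, hu, rfl⟩
    obtain ⟨g1, g2⟩ := pvuq_atOut (delb_plane_isSph h.good) (pvgy_m_simple _) ((pvfc7_fr_inj hf).comp Subtype.val_injective) h₁.st h.st
    exact ⟨u, g1.fzOut g2 ▸ hu, rfl⟩
  · rintro ⟨u, hu, rfl⟩
    exact ⟨𝔖, h, u, hu, rfl⟩

/-- the base datum `Z` = the cells of the base datum `F` and of the mouth ball -/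
theorem pvfc7_huO (hf : ‖p.fr‖ = 1) {𝔖 : PvwSt (pvieT η)} (h : PvilOut N b p η 𝔖) (δ r : ℝ) : pvilHuO δ r N b p η = pvtCells δ (pvilFzO N b p η ∪ closedBall (p.ty.cp p.h p.z) r) := by
  rw [pvfc7_fzO hf h]
  ext q
  constructor
  · rintro ⟨𝔖₁, h₁, hq⟩
    obtain ⟨g1, g2⟩ := pvuq_atOut (T := pvieT η) (delb_plane_isSph h.good) (pvgy_m_simple _) ((pvfc7_fr_inj hf).comp Subtype.val_injective) h₁.st h.st
    rwa [g1.fzOut g2] at hq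
  · exact fun hq => ⟨𝔖, h, hq⟩

/-- the base datum `F` reads "the" entrance half state -/
theorem pvfc7_fzI (hf : ‖p.fr‖ = 1) {𝔖 : PvwSt (pvieT η)} (h : PvilIn N b p η 𝔖) : pvilFzI N b p η = pviePos η '' 𝔖.fzIn := by
  ext v
  constructor
  · rintro ⟨𝔖₁, h₁, u, hu, rfl⟩
    obtain ⟨g1, g2⟩ := pvuq_atIn (delb_plane_isSph h.good) (pvgy_m_simple _) ((pvfc7_fr_inj hf).comp Subtype.val_injective) h₁.st h.st
    exact ⟨u, g1.fzIn g2 ▸ hu, rfl⟩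
  · rintro ⟨u, hu, rfl⟩
    exact ⟨𝔖, h, u, hu, rfl⟩

/-- the base datum `Z` = the cells of the base datum `F` and of the mouth ball, entrance half -/
theorem pvfc7_huI (hf : ‖p.fr‖ = 1) {𝔖 : PvwSt (pvieT η)} (h : PvilIn N b p η 𝔖) (δ r : ℝ) : pvilHuI δ r N b p η = pvtCells δ (pvilFzI N b p η ∪ closedBall (p.ty.cm p.h p.z) r) := by
  rw [pvfc7_fzI hf h]
  ext q
  constructor
  · rintro ⟨𝔖₁, h₁, hq⟩
    obtain ⟨g1, g2⟩ := pvuq_atIn (T := pvieT η) (delb_plane_isSph h.good) (pvgy_m_simple _) ((pvfc7_fr_inj hf).comp Subtype.val_injective) h₁.st h.st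
    rwa [g1.fzIn g2] at hq
  · exact fun hq => ⟨𝔖, h, hq⟩

end conf

/-! ## 4. HULL FORM: the two configurations have the same sites in the fattened hull (inside the region `E` where the mesh of the base configuration is read) -/

section hull

variable {δ μ ϱ : ℝ}

/-- **the open gate disc is covered by the fattened cells of its own sites** (mesh `μ`, `2 μ ≤ δ`, `μ < r`) -/
theorem pvfc7_disc_cover (hδ : 0 < δ) (hμ : 0 < μ) (h2 : 2 * μ ≤ δ) {Y E A : Set ℂ} {z : ℂ} {r : ℝ} (hr : μ < r) (hm : PvtrMesh μ E Y) (hBE : ∀ w, ‖w - z‖ < r → closedBall w μ ⊆ E)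
    (hA : ∀ a ∈ Y, ‖a - z‖ < r → a ∈ A) : ∀ w, ‖w - z‖ < r → w ∈ pvtU δ (pvtN8 (pvtCells δ A)) := by
  intro w hw
  obtain ⟨w', h1, h3⟩ : ∃ w' : ℂ, ‖w' - z‖ + μ < r ∧ ‖w - w'‖ ≤ μ := by
    by_cases hc : ‖w - z‖ ≤ μ
    · exact ⟨z, by rw [sub_self, norm_zero]; linarith, hc⟩
    · push Not at hc
      have hn : 0 < ‖w - z‖ := hμ.trans hc
      set t : ℝ := (‖w - z‖ - μ) / ‖w - z‖ with ht
      have ht0 : 0 ≤ t := div_nonneg (by linarith) hn.le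
      have ht1 : t ≤ 1 := (div_le_one hn).2 (by linarith)
      refine ⟨z + (t : ℂ) * (w - z), ?_, ?_⟩
      · rw [add_sub_cancel_left, norm_mul, Complex.norm_real, Real.norm_of_nonneg ht0, ht, div_mul_cancel₀ _ hn.ne']
        linarith
      · have e : w - (z + (t : ℂ) * (w - z)) = ((1 - t : ℝ) : ℂ) * (w - z) := by push_cast; ring
        rw [e, norm_mul, Complex.norm_real, Real.norm_of_nonneg (by linarith), sub_mul, one_mul, ht, div_mul_cancel₀ _ hn.ne']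
        linarith
  obtain ⟨u, hu, h4⟩ := hm w' (hBE w' (by linarith))
  have hu2 : u ∈ A := by
    refine hA u hu ?_
    have : ‖u - z‖ ≤ ‖w' - u‖ + ‖w' - z‖ := by
      rw [← norm_neg (w' - u)]
      have e : u - z = -(w' - u) + (w' - z) := by ring
      rw [e]; exact norm_add_le _ _
    linarith
  refine pvt_N8_U hδ (pvt_cells_cover hδ hu2) ?_
  have e : w - u = (w - w') + (w' - u) := by ring
  rw [e]
  have := norm_add_le (w - w') (w' - u)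
  linarith

variable {η₀ η η₁ : Conf PvPt} {N : PvwNum} {b : Bool} {p : PvilPl} {E W F : Set ℂ}

/-- **AGREEMENT OF TWO CONFIGURATIONS**: the same SITES in `W`, the same COLOURS on `F`      (nothing on the colours of `W \ F`, nothing off `W`) -/
def Pvfc7Agr (W F : Set ℂ) (η₀ η : Conf PvPt) : Prop := cfSites η₀ ∩ W = cfSites η ∩ W ∧ ∀ a ∈ F, cfCol η a = cfCol η₀ a

/-- the region of agreement of the exit half: the fattened hull, inside the region where the mesh of the base configuration is read -/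
def pvfc7Uo (δ ϱ : ℝ) (N : PvwNum) (b : Bool) (p : PvilPl) (E : Set ℂ) (η₀ : Conf PvPt) : Set ℂ := pvilFat δ (pvilHuO δ ϱ N b p η₀) ∩ E

/-- the region of agreement of the entrance half -/
def pvfc7Ui (δ ϱ : ℝ) (N : PvwNum) (b : Bool) (p : PvilPl) (E : Set ℂ) (η₀ : Conf PvPt) : Set ℂ := pvilFat δ (pvilHuI δ ϱ N b p η₀) ∩ E

theorem pvfc7_eqns_cite3 : True := by
  have := @pvfc7Uo.eq_1; have := @pvfc7Ui.eq_1; have := @Pvfc7Agr.eq_1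
  trivial

theorem Pvfc7Agr.refl (W F : Set ℂ) (η : Conf PvPt) : Pvfc7Agr W F η η := ⟨rfl, fun _ _ => rfl⟩

theorem Pvfc7Agr.symm (h : Pvfc7Agr W F η₀ η) : Pvfc7Agr W F η η₀ := ⟨h.1.symm, fun a ha => (h.2 a ha).symm⟩

theorem Pvfc7Agr.trans (h : Pvfc7Agr W F η₀ η₁) (h' : Pvfc7Agr W F η₁ η) : Pvfc7Agr W F η₀ η := ⟨h.1.trans h'.1, fun a ha => (h'.2 a ha).trans (h.2 a ha)⟩

theorem Pvfc7Agr.mono {W' F' : Set ℂ} (h : Pvfc7Agr W F η₀ η) (hW : W' ⊆ W) (hF : F' ⊆ F) : Pvfc7Agr W' F' η₀ η := by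
  refine ⟨?_, fun a ha => h.2 a (hF ha)⟩
  ext a
  constructor
  · rintro ⟨h1, h2⟩
    exact ⟨(h.1.subset ⟨h1, hW h2⟩).1, h2⟩
  · rintro ⟨h1, h2⟩
    exact ⟨(h.1.symm.subset ⟨h1, hW h2⟩).1, h2⟩

/-- the sites of `F` stay sites -/
theorem Pvfc7Agr.sites (h : Pvfc7Agr W F η₀ η) (hFW : F ⊆ W) (hF : F ⊆ cfSites η₀) : F ⊆ cfSites η := fun _ ha => (h.1.subset ⟨hF ha, hFW ha⟩).1

/-- two configurations with the same restriction to a window which contains `W` and `F` -/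
theorem pvfc7_agr_restr {Wn : Set ℂ} (h : Conf.restr (Wn ×ˢ univ) η₀ = Conf.restr (Wn ×ˢ univ) η) (hW : W ⊆ Wn) (hF : F ⊆ Wn) : Pvfc7Agr W F η₀ η :=
  Pvfc7Agr.mono (W := Wn) (F := Wn) ⟨pvge_conf_sites h, fun a ha => (pvge_conf_col h a ha).symm⟩ hW hF

/-- a splice along a window which contains `W` and `F` -/
theorem pvfc7_agr_spl {Wn : Set ℂ} (hW : W ⊆ Wn) (hF : F ⊆ Wn) (σ ξ : Conf PvPt) : Pvfc7Agr W F σ (Conf.spl (Wn ×ˢ univ) (σ, ξ)) :=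
  pvfc7_agr_restr (pvge_spl_restr Wn σ ξ) hW hF

/-- **a hybrid resampling**: the resampled region misses `W`, the recoloured sites miss `F` -/
theorem pvfc7_agr_R {C : Set ℂ} {yf : Conf PvPt → Set ℂ} (hC : Disjoint C W) (hFW : F ⊆ W) (hF : F ⊆ cfSites η) (hy : Disjoint (yf η) F) (q : (ℂ → Bool) × Conf PvPt) :
    Pvfc7Agr W F η (pvdyR C yf η q) := by
  refine ⟨?_, fun a ha => ?_⟩
  · rw [pvdy_sites_R]
    ext a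
    simp only [mem_inter_iff, mem_union, Set.mem_sdiff]
    constructor
    · rintro ⟨h1, h2⟩
      exact ⟨Or.inl ⟨h1, fun h3 => disjoint_left.1 hC h3 h2⟩, h2⟩
    · rintro ⟨⟨h1, -⟩ | ⟨-, h3⟩, h2⟩
      · exact ⟨h1, h2⟩
      · exact absurd h2 (disjoint_left.1 hC h3)
  · rw [pvdy_cfCol_R yf q (hF ha) (fun h3 => disjoint_left.1 hC h3 (hFW ha)), pvfqMix_of_notMem (fun h3 => disjoint_left.1 hy h3 ha)]

/-- the frozen positions of the exit half lie deep in the region of agreement -/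
theorem pvfc7_fzO_core (hδ : 0 < δ) (hf : ‖p.fr‖ = 1) {𝔖₀ : PvwSt (pvieT η₀)} (h₀ : PvilOut N b p η₀ 𝔖₀) (hFE : ∀ a ∈ pvilFzO N b p η₀, closedBall a δ ⊆ E) :
    pvilFzO N b p η₀ ⊆ pvtrCore δ (pvfc7Uo δ ϱ N b p E η₀) := by
  intro a ha q hq
  refine ⟨?_, hFE a ha hq⟩
  unfold pvilFat
  rw [pvfc7_huO hf h₀ δ ϱ]
  exact pvt_N8_U hδ (pvt_cells_cover hδ (Or.inl ha)) (mem_closedBall_iff_norm.1 hq)

theorem pvfc7_fzI_core (hδ : 0 < δ) (hf : ‖p.fr‖ = 1) {𝔖₀ : PvwSt (pvieT η₀)} (h₀ : PvilIn N b p η₀ 𝔖₀) (hFE : ∀ a ∈ pvilFzI N b p η₀, closedBall a δ ⊆ E) :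
    pvilFzI N b p η₀ ⊆ pvtrCore δ (pvfc7Ui δ ϱ N b p E η₀) := by
  intro a ha q hq
  refine ⟨?_, hFE a ha hq⟩
  unfold pvilFat
  rw [pvfc7_huI hf h₀ δ ϱ]
  exact pvt_N8_U hδ (pvt_cells_cover hδ (Or.inl ha)) (mem_closedBall_iff_norm.1 hq)

theorem pvfc7_core_sub {r : ℝ} (hr : 0 ≤ r) (U : Set ℂ) : pvtrCore r U ⊆ U := fun _ ha => ha (mem_closedBall_self hr)

/-- the frozen positions are sites -/
theorem pvfc7_fzO_sites : pvilFzO N b p η₀ ⊆ cfSites η₀ := by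
  rintro _ ⟨𝔖, -, u, -, rfl⟩
  exact u.2

theorem pvfc7_fzI_sites : pvilFzI N b p η₀ ⊆ cfSites η₀ := by
  rintro _ ⟨𝔖, -, u, -, rfl⟩
  exact u.2

/-- **(b1), EXIT HALF, HULL FORM**: mesh `μ` (`3 μ ≤ δ`) of the BASE configuration read in `E`;   the other configuration is good, has the same sites in `Z⁺ ∩ E`, the same colours on `F`.
Then it carries the twin exit half state: THE SAME BASE DATA `F`, `Z`. -/
theorem pvfc7_out_hull (hδ : 0 < δ) (hμ : 0 < μ) (h3 : 3 * μ ≤ δ) (hf : ‖p.fr‖ = 1) (hG : DelGood (pvieY η)) {𝔖₀ : PvwSt (pvieT η₀)} (h₀ : PvilOut N b p η₀ 𝔖₀)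
    (hm : PvtrMesh μ E (cfSites η₀)) (hFE : ∀ a ∈ pvilFzO N b p η₀, closedBall a δ ⊆ E) (hBE : ∀ w, ‖w - p.z‖ < p.ty.b * p.h → closedBall w μ ⊆ E) (hr : μ < p.ty.b * p.h)
    (hA : Pvfc7Agr (pvfc7Uo δ ϱ N b p E η₀) (pvilFzO N b p η₀) η₀ η) :
    ∃ 𝔖 : PvwSt (pvieT η), PvLocSP (pvfc7R η₀ η (pvtrCore (3 * μ) (pvfc7Uo δ ϱ N b p E η₀))) 𝔖₀ 𝔖 ∧ PvilOut N b p η 𝔖 ∧ pvilFzO N b p η = pvilFzO N b p η₀ ∧ pvilHuO δ ϱ N b p η = pvilHuO δ ϱ N b p η₀ := by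
  obtain ⟨hY, hcol⟩ := hA
  have eF := pvfc7_fzO hf h₀
  have eZ := pvfc7_huO hf h₀ δ ϱ
  have hUE : pvfc7Uo δ ϱ N b p E η₀ ⊆ E := inter_subset_right
  have hS : PvgeSame (pvieY η₀) (pvieY η) (pvtrCore (3 * μ) (pvfc7Uo δ ϱ N b p E η₀)) := pvge_same_core hμ hY fun z hz => hm z (pvtr_core_mono hUE hz)
  have hFK : ∀ a ∈ pvilFzO N b p η₀, a ∈ pvtrCore (3 * μ) (pvfc7Uo δ ϱ N b p E η₀) := fun a ha => pvtr_core_anti h3 (pvfc7_fzO_core hδ hf h₀ hFE ha)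
  -- the sites of the base configuration in the open disc are frozen
  have hcore : ∀ a ∈ cfSites η₀, ‖a - p.z‖ < p.ty.b * p.h → a ∈ pvilFzO N b p η₀ := by
    intro a ha hlt
    rw [eF]
    refine ⟨⟨a, ha⟩, Or.inl (Or.inl ((pvwk_mem_core h₀.st.gate).2 ?_)), rfl⟩
    show ‖conj p.fr * a - conj p.fr * p.z‖ < _
    rw [pvfc7_fr_norm hf]
    exact hlt
  -- the open disc lies in the region of agreement
  have hdisc : ∀ w, ‖w - p.z‖ < p.ty.b * p.h → w ∈ pvfc7Uo δ ϱ N b p E η₀ := by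
    intro w hw
    refine ⟨?_, hBE w hw (mem_closedBall_self hμ.le)⟩
    unfold pvilFat
    rw [eZ]
    exact pvfc7_disc_cover hδ hμ (by linarith) hr hm hBE (fun a ha hlt => Or.inl (hcore a ha hlt)) w hw
  obtain ⟨𝔖, G, h1, h2⟩ := pvfc7_out hf hG hS h₀ (fun v hv => hFK _ (eF ▸ ⟨v, hv, rfl⟩))
    (fun a ha hlt => hFK a (hcore a (hY.symm.subset (⟨ha, hdisc a hlt⟩ : a ∈ cfSites η ∩ pvfc7Uo δ ϱ N b p E η₀)).1 hlt))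
    (fun v hv => hcol _ (eF ▸ ⟨v, hv, rfl⟩))
  have e1 : pvilFzO N b p η = pvilFzO N b p η₀ := by rw [pvfc7_fzO hf h1, h2, eF]
  exact ⟨𝔖, G, h1, e1, by rw [pvfc7_huO hf h1 δ ϱ, e1, eZ]⟩

/-- **(b1), ENTRANCE HALF, HULL FORM** -/
theorem pvfc7_in_hull (hδ : 0 < δ) (hμ : 0 < μ) (h3 : 3 * μ ≤ δ) (hf : ‖p.fr‖ = 1) (hG : DelGood (pvieY η)) {𝔖₀ : PvwSt (pvieT η₀)} (h₀ : PvilIn N b p η₀ 𝔖₀)
    (hm : PvtrMesh μ E (cfSites η₀)) (hFE : ∀ a ∈ pvilFzI N b p η₀, closedBall a δ ⊆ E) (hBE : ∀ w, ‖w - p.z‖ < p.ty.b * p.h → closedBall w μ ⊆ E) (hr : μ < p.ty.b * p.h)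
    (hA : Pvfc7Agr (pvfc7Ui δ ϱ N b p E η₀) (pvilFzI N b p η₀) η₀ η) :
    ∃ 𝔖 : PvwSt (pvieT η), PvLocSM (pvfc7R η₀ η (pvtrCore (3 * μ) (pvfc7Ui δ ϱ N b p E η₀))) 𝔖₀ 𝔖 ∧ PvilIn N b p η 𝔖 ∧ pvilFzI N b p η = pvilFzI N b p η₀ ∧ pvilHuI δ ϱ N b p η = pvilHuI δ ϱ N b p η₀ := by
  obtain ⟨hY, hcol⟩ := hA
  have eF := pvfc7_fzI hf h₀
  have eZ := pvfc7_huI hf h₀ δ ϱ
  have hUE : pvfc7Ui δ ϱ N b p E η₀ ⊆ E := inter_subset_right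
  have hS : PvgeSame (pvieY η₀) (pvieY η) (pvtrCore (3 * μ) (pvfc7Ui δ ϱ N b p E η₀)) := pvge_same_core hμ hY fun z hz => hm z (pvtr_core_mono hUE hz)
  have hFK : ∀ a ∈ pvilFzI N b p η₀, a ∈ pvtrCore (3 * μ) (pvfc7Ui δ ϱ N b p E η₀) := fun a ha => pvtr_core_anti h3 (pvfc7_fzI_core hδ hf h₀ hFE ha)
  have hcore : ∀ a ∈ cfSites η₀, ‖a - p.z‖ < p.ty.b * p.h → a ∈ pvilFzI N b p η₀ := by
    intro a ha hlt
    rw [eF]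
    refine ⟨⟨a, ha⟩, Or.inl (Or.inl ((pvwk_mem_core h₀.st.gate).2 ?_)), rfl⟩
    show ‖conj p.fr * a - conj p.fr * p.z‖ < _
    rw [pvfc7_fr_norm hf]
    exact hlt
  have hdisc : ∀ w, ‖w - p.z‖ < p.ty.b * p.h → w ∈ pvfc7Ui δ ϱ N b p E η₀ := by
    intro w hw
    refine ⟨?_, hBE w hw (mem_closedBall_self hμ.le)⟩
    unfold pvilFat
    rw [eZ]
    exact pvfc7_disc_cover hδ hμ (by linarith) hr hm hBE (fun a ha hlt => Or.inl (hcore a ha hlt)) w hw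
  obtain ⟨𝔖, G, h1, h2⟩ := pvfc7_in hf hG hS h₀ (fun v hv => hFK _ (eF ▸ ⟨v, hv, rfl⟩))
    (fun a ha hlt => hFK a (hcore a (hY.symm.subset (⟨ha, hdisc a hlt⟩ : a ∈ cfSites η ∩ pvfc7Ui δ ϱ N b p E η₀)).1 hlt))
    (fun v hv => hcol _ (eF ▸ ⟨v, hv, rfl⟩))
  have e1 : pvilFzI N b p η = pvilFzI N b p η₀ := by rw [pvfc7_fzI hf h1, h2, eF]
  exact ⟨𝔖, G, h1, e1, by rw [pvfc7_huI hf h1 δ ϱ, e1, eZ]⟩

end hull

/-! ## 5. boxes -/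

section box

variable {η : Conf PvPt} {N : PvwNum} {b : Bool} {p : PvilPl}

theorem pvfc7_pos_std (hfr : p.fr = 1) (η : Conf PvPt) : p.pos η = pviePos η := by
  funext v
  unfold PvilPl.pos
  rw [hfr, map_one, one_mul]

theorem pvfc7_zf_std (hfr : p.fr = 1) : p.zf = p.z := by
  unfold PvilPl.zf
  rw [hfr, map_one, one_mul]

/-- the positions frozen by the exit half state lie in the closed own-level box -/
theorem pvfc7_fzO_box (hfr : p.fr = 1) (hb : p.ty.b * p.h ≤ pvwRad N p.h p.ty p.ty.k) {𝔖 : PvwSt (pvieT η)} (h : PvilOut N b p η 𝔖) :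
    ∀ v ∈ 𝔖.fzOut, pviePos η v ∈ pvwSq p.z (pvwRad N p.h p.ty p.ty.k) := by
  have st := h.st
  rw [pvfc7_pos_std hfr, pvfc7_zf_std hfr] at st
  rintro v ((hv | hv) | hv)
  · exact pvwk_core_sq st.gate hb v hv
  · exact pvwk_banksP_in st.stub (Or.inl hv)
  · exact pvwk_banksP_in st.stub (Or.inr hv)

/-- the positions frozen by the entrance half state lie in the closed own-level box -/
theorem pvfc7_fzI_box (hfr : p.fr = 1) (hb : p.ty.b * p.h ≤ pvwRad N p.h p.ty p.ty.k) {𝔖 : PvwSt (pvieT η)} (h : PvilIn N b p η 𝔖) :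
    ∀ v ∈ 𝔖.fzIn, pviePos η v ∈ pvwSq p.z (pvwRad N p.h p.ty p.ty.k) := by
  have st := h.st
  rw [pvfc7_pos_std hfr, pvfc7_zf_std hfr] at st
  rintro v ((hv | hv) | hv)
  · exact pvwk_core_sq st.gate hb v hv
  · exact pvwk_banksM_in st.stub (Or.inl hv)
  · exact pvwk_banksM_in st.stub (Or.inr hv)

/-- a closed ball of radius `δ` round a point of the closed box lies in the box with the collar `δ` -/
theorem pvfc7_ball_box {z a : ℂ} {r δ : ℝ} (ha : a ∈ pvwSq z r) : closedBall a δ ⊆ pvieSh z (pvwSq 0 (r + δ)) := by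
  intro q hq
  rw [mem_closedBall_iff_norm] at hq
  refine ⟨q - z, ⟨?_, ?_⟩, by ring⟩
  · rw [sub_zero]
    have e : (q - z).re = (q - a).re + (a - z).re := by simp
    rw [e]
    have h1 := abs_add_le (q - a).re (a - z).re
    have h2 := (Complex.abs_re_le_norm (q - a)).trans hq
    linarith [ha.1]
  · rw [sub_zero]
    have e : (q - z).im = (q - a).im + (a - z).im := by simp
    rw [e]
    have h1 := abs_add_le (q - a).im (a - z).im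
    have h2 := (Complex.abs_im_le_norm (q - a)).trans hq
    linarith [ha.2]

theorem pvfc7_disc_sq {z w : ℂ} {r : ℝ} (h : ‖w - z‖ ≤ r) : w ∈ pvwSq z r := ⟨(Complex.abs_re_le_norm _).trans h, (Complex.abs_im_le_norm _).trans h⟩

end box

/-! ## 6. AT THE MODEL -/

section model

variable {τ : Type} {c : ℝ} {𝔓 : PvxPar τ c} {m : ℕ} {z : ℂ} {t : τ} {μ : ℝ} {η₀ η : Conf PvPt}

/-- **the region of agreement of the exit half at the model**: fattened cells of the frozen positions, inside the own-level box with its collar      (the tiles and the doors of a chain miss it: `pvzu_clear_pat` of 148) -/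
def pvfc7Wo (𝔓 : PvxPar τ c) (m : ℕ) (z : ℂ) (t : τ) (η₀ : Conf PvPt) : Set ℂ := pvilFat (pvlmDel c m) (pvilZo 𝔓 m z t η₀) ∩ pvieSh z (pviwBox 𝔓 m t)

/-- the region of agreement of the entrance half at the model -/
def pvfc7Wi (𝔓 : PvxPar τ c) (m : ℕ) (z : ℂ) (t : τ) (η₀ : Conf PvPt) : Set ℂ := pvilFat (pvlmDel c m) (pvilZi 𝔓 m z t η₀) ∩ pvieSh z (pviwBox 𝔓 m t)

theorem pvfc7_eqns_cite4 : True := by
  have := @pvfc7Wo.eq_1; have := @pvfc7Wi.eq_1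
  trivial

theorem pvfc7_pin_fr (𝔓 : PvxPar τ c) (m : ℕ) (z : ℂ) (t : τ) : ‖(pvilPin 𝔓 m z t).fr‖ = 1 := by
  show ‖(1 : ℂ)‖ = 1
  exact norm_one

/-- the closed `δ`-balls round the frozen positions lie in the own-level box with its collar -/
theorem pvfc7_fo_ball (hb : (𝔓.ty t).b * pvlmH m ≤ pviwRad 𝔓 m t) {𝔖₀ : PvwSt (pvieT η₀)} (h₀ : PvilOut 𝔓.num (𝔓.col t) (pvilPin 𝔓 m z t) η₀ 𝔖₀) :
    ∀ a ∈ pvilFo 𝔓 m z t η₀, closedBall a (pvlmDel c m) ⊆ pvieSh z (pviwBox 𝔓 m t) := by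
  intro a ha
  unfold pvilFo at ha
  rw [pvfc7_fzO (pvfc7_pin_fr 𝔓 m z t) h₀] at ha
  obtain ⟨v, hv, rfl⟩ := ha
  exact pvfc7_ball_box (pvfc7_fzO_box rfl hb h₀ v hv)

theorem pvfc7_fi_ball (hb : (𝔓.ty t).b * pvlmH m ≤ pviwRad 𝔓 m t) {𝔖₀ : PvwSt (pvieT η₀)} (h₀ : PvilIn 𝔓.num (𝔓.col t) (pvilPin 𝔓 m z t) η₀ 𝔖₀) :
    ∀ a ∈ pvilFi 𝔓 m z t η₀, closedBall a (pvlmDel c m) ⊆ pvieSh z (pviwBox 𝔓 m t) := by
  intro a ha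
  unfold pvilFi at ha
  rw [pvfc7_fzI (pvfc7_pin_fr 𝔓 m z t) h₀] at ha
  obtain ⟨v, hv, rfl⟩ := ha
  exact pvfc7_ball_box (pvfc7_fzI_box rfl hb h₀ v hv)

/-- `F ⊆` the `δ`-core of the region of agreement -/
theorem pvfc7_fo_core (hb : (𝔓.ty t).b * pvlmH m ≤ pviwRad 𝔓 m t) {𝔖₀ : PvwSt (pvieT η₀)} (h₀ : PvilOut 𝔓.num (𝔓.col t) (pvilPin 𝔓 m z t) η₀ 𝔖₀) :
    pvilFo 𝔓 m z t η₀ ⊆ pvtrCore (pvlmDel c m) (pvfc7Wo 𝔓 m z t η₀) :=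
  pvfc7_fzO_core (pvlm_Del_pos c m) (pvfc7_pin_fr 𝔓 m z t) h₀ (pvfc7_fo_ball hb h₀)

theorem pvfc7_fi_core (hb : (𝔓.ty t).b * pvlmH m ≤ pviwRad 𝔓 m t) {𝔖₀ : PvwSt (pvieT η₀)} (h₀ : PvilIn 𝔓.num (𝔓.col t) (pvilPin 𝔓 m z t) η₀ 𝔖₀) :
    pvilFi 𝔓 m z t η₀ ⊆ pvtrCore (pvlmDel c m) (pvfc7Wi 𝔓 m z t η₀) :=
  pvfc7_fzI_core (pvlm_Del_pos c m) (pvfc7_pin_fr 𝔓 m z t) h₀ (pvfc7_fi_ball hb h₀)

/-- **(b1) AT THE MODEL, EXIT HALF**: the base configuration has mesh `μ` (`3 μ ≤ δ_m`) in its own-level box with collar and carries `Σ_out(z,t)`;   `η` is good, has the same sites in `Z⁺ ∩ box`, the same colours on `F`.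
Then `η` carries the twin `Σ_out(z,t)`, with THE SAME BASE DATA. -/
theorem pvfc7_out_model (hμ : 0 < μ) (h3 : 3 * μ ≤ pvlmDel c m) (hb : (𝔓.ty t).b * pvlmH m ≤ pviwRad 𝔓 m t) (hr : μ < (𝔓.ty t).b * pvlmH m)
    (hm : η₀ ∈ pvrgMesh μ (pvieSh z (pviwBox 𝔓 m t))) {𝔖₀ : PvwSt (pvieT η₀)} (h₀ : PvilOut 𝔓.num (𝔓.col t) (pvilPin 𝔓 m z t) η₀ 𝔖₀) (hG : DelGood (pvieY η))
    (hA : Pvfc7Agr (pvfc7Wo 𝔓 m z t η₀) (pvilFo 𝔓 m z t η₀) η₀ η) :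
    ∃ 𝔖 : PvwSt (pvieT η), PvLocSP (pvfc7R η₀ η (pvtrCore (3 * μ) (pvfc7Wo 𝔓 m z t η₀))) 𝔖₀ 𝔖 ∧ PvilOut 𝔓.num (𝔓.col t) (pvilPin 𝔓 m z t) η 𝔖 ∧
      pvilFo 𝔓 m z t η = pvilFo 𝔓 m z t η₀ ∧ pvilZo 𝔓 m z t η = pvilZo 𝔓 m z t η₀ :=
  pvfc7_out_hull (E := pvieSh z (pviwBox 𝔓 m t)) (pvlm_Del_pos c m) hμ h3 (pvfc7_pin_fr 𝔓 m z t) hG h₀ hm (pvfc7_fo_ball hb h₀)
    (fun _ hw => (closedBall_subset_closedBall (by linarith)).trans (pvfc7_ball_box (δ := pvlmDel c m) (pvfc7_disc_sq (hw.le.trans hb)))) hr hA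

/-- **(b1) AT THE MODEL, ENTRANCE HALF** -/
theorem pvfc7_in_model (hμ : 0 < μ) (h3 : 3 * μ ≤ pvlmDel c m) (hb : (𝔓.ty t).b * pvlmH m ≤ pviwRad 𝔓 m t) (hr : μ < (𝔓.ty t).b * pvlmH m)
    (hm : η₀ ∈ pvrgMesh μ (pvieSh z (pviwBox 𝔓 m t))) {𝔖₀ : PvwSt (pvieT η₀)} (h₀ : PvilIn 𝔓.num (𝔓.col t) (pvilPin 𝔓 m z t) η₀ 𝔖₀) (hG : DelGood (pvieY η))
    (hA : Pvfc7Agr (pvfc7Wi 𝔓 m z t η₀) (pvilFi 𝔓 m z t η₀) η₀ η) :
    ∃ 𝔖 : PvwSt (pvieT η), PvLocSM (pvfc7R η₀ η (pvtrCore (3 * μ) (pvfc7Wi 𝔓 m z t η₀))) 𝔖₀ 𝔖 ∧ PvilIn 𝔓.num (𝔓.col t) (pvilPin 𝔓 m z t) η 𝔖 ∧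
      pvilFi 𝔓 m z t η = pvilFi 𝔓 m z t η₀ ∧ pvilZi 𝔓 m z t η = pvilZi 𝔓 m z t η₀ :=
  pvfc7_in_hull (E := pvieSh z (pviwBox 𝔓 m t)) (pvlm_Del_pos c m) hμ h3 (pvfc7_pin_fr 𝔓 m z t) hG h₀ hm (pvfc7_fi_ball hb h₀)
    (fun _ hw => (closedBall_subset_closedBall (by linarith)).trans (pvfc7_ball_box (δ := pvlmDel c m) (pvfc7_disc_sq (hw.le.trans hb)))) hr hA

/-- **the experiments**: a hybrid resampling whose resampled region misses `Z⁺ ∩ box` and whose recoloured sites miss `F` agrees with the base configuration -/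
theorem pvfc7_agr_o (hb : (𝔓.ty t).b * pvlmH m ≤ pviwRad 𝔓 m t) {𝔖₀ : PvwSt (pvieT η₀)} (h₀ : PvilOut 𝔓.num (𝔓.col t) (pvilPin 𝔓 m z t) η₀ 𝔖₀)
    (hA : Pvfc7Agr (pvfc7Wo 𝔓 m z t η₀) (pvilFo 𝔓 m z t η₀) η₀ η) {C : Set ℂ} {yf : Conf PvPt → Set ℂ} (hC : Disjoint C (pvfc7Wo 𝔓 m z t η₀)) (hy : Disjoint (yf η) (pvilFo 𝔓 m z t η₀))
    (q : (ℂ → Bool) × Conf PvPt) : Pvfc7Agr (pvfc7Wo 𝔓 m z t η₀) (pvilFo 𝔓 m z t η₀) η₀ (pvdyR C yf η q) := by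
  have hFW : pvilFo 𝔓 m z t η₀ ⊆ pvfc7Wo 𝔓 m z t η₀ := (pvfc7_fo_core hb h₀).trans (pvfc7_core_sub (pvlm_Del_pos c m).le _)
  exact hA.trans (pvfc7_agr_R hC hFW (hA.sites hFW pvfc7_fzO_sites) hy q)

theorem pvfc7_agr_i (hb : (𝔓.ty t).b * pvlmH m ≤ pviwRad 𝔓 m t) {𝔖₀ : PvwSt (pvieT η₀)} (h₀ : PvilIn 𝔓.num (𝔓.col t) (pvilPin 𝔓 m z t) η₀ 𝔖₀)
    (hA : Pvfc7Agr (pvfc7Wi 𝔓 m z t η₀) (pvilFi 𝔓 m z t η₀) η₀ η) {C : Set ℂ} {yf : Conf PvPt → Set ℂ} (hC : Disjoint C (pvfc7Wi 𝔓 m z t η₀)) (hy : Disjoint (yf η) (pvilFi 𝔓 m z t η₀))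
    (q : (ℂ → Bool) × Conf PvPt) : Pvfc7Agr (pvfc7Wi 𝔓 m z t η₀) (pvilFi 𝔓 m z t η₀) η₀ (pvdyR C yf η q) := by
  have hFW : pvilFi 𝔓 m z t η₀ ⊆ pvfc7Wi 𝔓 m z t η₀ := (pvfc7_fi_core hb h₀).trans (pvfc7_core_sub (pvlm_Del_pos c m).le _)
  exact hA.trans (pvfc7_agr_R hC hFW (hA.sites hFW pvfc7_fzI_sites) hy q)

end model

/-! ## 7. THE EXPERIMENTS OF THE THREE HYBRID END LINKS -/

section exper

variable {τ : Type} {c : ℝ} {𝔓 : PvxPar τ c} {𝔈 : PvieEng τ} {m : ℕ} {ε : ℝ} {z : ℂ} {t : τ} {μ : ℝ} {η₀ : Conf PvPt} {w : ∀ η : Conf PvPt, (delbPl (pvieY η)).Dart → ℂ}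

theorem pvfc7_off {S : Set ℂ} (h : Disjoint S (pviwBox 𝔓 m t)) (Z : Set (ℤ × ℤ)) : Disjoint (pvieSh z S) (pvilFat (pvlmDel c m) Z ∩ pvieSh z (pviwBox 𝔓 m t)) :=
  ((pvjh_sh_disj z).2 h).mono_right inter_subset_right

/-- the resampled region of the experiment of `κ_out` misses the region of agreement -/
theorem pvfc7_C_o (hK : Disjoint (𝔈.oK m t) (pviwBox 𝔓 m t)) (hD : Disjoint (pviwDo 𝔓 𝔈 m ε t) (pviwBox 𝔓 m t)) :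
    Disjoint ((pvilEoAt 𝔓 𝔈 m ε w z t η₀).K ∪ pvkyDoor (𝔈.kit m ε) (pvieZo 𝔓 m z t) ((𝔓.Γ m).dout t)) (pvfc7Wo 𝔓 m z t η₀) := by
  refine Disjoint.union_left (pvfc7_off hK _) ?_
  have e : pvkyDoor (𝔈.kit m ε) (pvieZo 𝔓 m z t) ((𝔓.Γ m).dout t) = pvieSh z (pviwDo 𝔓 𝔈 m ε t) := (pvjh_sh_sim z _ _ _).symm
  rw [e]
  exact pvfc7_off hD _

/-- the resampled region of the experiment of `κ_in` misses the region of agreement -/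
theorem pvfc7_C_i (hK : Disjoint (𝔈.iK m t) (pviwBox 𝔓 m t)) (hD : Disjoint (pviwDi 𝔓 𝔈 m ε t) (pviwBox 𝔓 m t)) :
    Disjoint ((pvilEiAt 𝔓 𝔈 m ε w z t η₀).K ∪ pvkyDoor (𝔈.kit m ε) (pvieZi 𝔓 m z t) ((𝔓.Γ m).din t)) (pvfc7Wi 𝔓 m z t η₀) := by
  refine Disjoint.union_left (pvfc7_off hK _) ?_
  have e : pvkyDoor (𝔈.kit m ε) (pvieZi 𝔓 m z t) ((𝔓.Γ m).din t) = pvieSh z (pviwDi 𝔓 𝔈 m ε t) := (pvjh_sh_sim z _ _ _).symm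
  rw [e]
  exact pvfc7_off hD _

/-- the resampled region of the experiment of the thick link misses the region of agreement -/
theorem pvfc7_C_e (hK : Disjoint (𝔈.eK m t) (pviwBox 𝔓 m t)) (hD : Disjoint (pviwRo 𝔓 𝔈 m t) (pviwBox 𝔓 m t)) :
    Disjoint ((pvilEeAt 𝔓 𝔈 m ε w z t η₀).K ∪ pvieSh (pvieZu 𝔓 m z t) (𝔈.rO m)) (pvfc7Wi 𝔓 m z t η₀) := by
  refine Disjoint.union_left (pvfc7_off hK _) ?_
  have e : pvieSh (pvieZu 𝔓 m z t) (𝔈.rO m) = pvieSh z (pviwRo 𝔓 𝔈 m t) := (pvjh_sh_sh z _ _).symm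
  rw [e]
  exact pvfc7_off hD _

/-- **(b1) IN THE EXPERIMENT OF `κ_out`**: base `η₀`, seed `q` of the experiment (tile + door plug, mouth `\ F`), seed `q'` of the conditional probability of the link (tile, mouth `\ F`): the twice resampled configuration, if good, carries the twin `Σ_out(z,t)` -/
theorem pvfc7_carry_o (hμ : 0 < μ) (h3 : 3 * μ ≤ pvlmDel c m) (hb : (𝔓.ty t).b * pvlmH m ≤ pviwRad 𝔓 m t) (hr : μ < (𝔓.ty t).b * pvlmH m)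
    (hK : Disjoint (𝔈.oK m t) (pviwBox 𝔓 m t)) (hD : Disjoint (pviwDo 𝔓 𝔈 m ε t) (pviwBox 𝔓 m t))
    (hm : η₀ ∈ pvrgMesh μ (pvieSh z (pviwBox 𝔓 m t))) {𝔖₀ : PvwSt (pvieT η₀)} (h₀ : PvilOut 𝔓.num (𝔓.col t) (pvilPin 𝔓 m z t) η₀ 𝔖₀) (q q' : (ℂ → Bool) × Conf PvPt) {η : Conf PvPt}
    (hη : η = pvdyR (pvilEoAt 𝔓 𝔈 m ε w z t η₀).K (pvilEoAt 𝔓 𝔈 m ε w z t η₀).y
      (pvdyR ((pvilEoAt 𝔓 𝔈 m ε w z t η₀).K ∪ pvkyDoor (𝔈.kit m ε) (pvieZo 𝔓 m z t) ((𝔓.Γ m).dout t)) (pvilEoAt 𝔓 𝔈 m ε w z t η₀).y η₀ q) q') (hG : DelGood (pvieY η)) :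
    ∃ 𝔖 : PvwSt (pvieT η), PvLocSP (pvfc7R η₀ η (pvtrCore (3 * μ) (pvfc7Wo 𝔓 m z t η₀))) 𝔖₀ 𝔖 ∧ PvilOut 𝔓.num (𝔓.col t) (pvilPin 𝔓 m z t) η 𝔖 ∧
      pvilFo 𝔓 m z t η = pvilFo 𝔓 m z t η₀ ∧ pvilZo 𝔓 m z t η = pvilZo 𝔓 m z t η₀ := by
  have hy : ∀ ξ, Disjoint ((pvilEoAt 𝔓 𝔈 m ε w z t η₀).y ξ) (pvilFo 𝔓 m z t η₀) := fun _ => disjoint_sdiff_left
  have hC := pvfc7_C_o (w := w) (z := z) (η₀ := η₀) hK hD
  have a1 := pvfc7_agr_o hb h₀ (Pvfc7Agr.refl _ _ η₀) hC (hy _) q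
  have a2 := pvfc7_agr_o hb h₀ a1 (hC.mono_left subset_union_left) (hy _) q'
  rw [← hη] at a2
  exact pvfc7_out_model hμ h3 hb hr hm h₀ hG a2

/-- **(b1) IN THE EXPERIMENT OF `κ_in`** -/
theorem pvfc7_carry_i (hμ : 0 < μ) (h3 : 3 * μ ≤ pvlmDel c m) (hb : (𝔓.ty t).b * pvlmH m ≤ pviwRad 𝔓 m t) (hr : μ < (𝔓.ty t).b * pvlmH m)
    (hK : Disjoint (𝔈.iK m t) (pviwBox 𝔓 m t)) (hD : Disjoint (pviwDi 𝔓 𝔈 m ε t) (pviwBox 𝔓 m t))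
    (hm : η₀ ∈ pvrgMesh μ (pvieSh z (pviwBox 𝔓 m t))) {𝔖₀ : PvwSt (pvieT η₀)} (h₀ : PvilIn 𝔓.num (𝔓.col t) (pvilPin 𝔓 m z t) η₀ 𝔖₀) (q q' : (ℂ → Bool) × Conf PvPt) {η : Conf PvPt}
    (hη : η = pvdyR (pvilEiAt 𝔓 𝔈 m ε w z t η₀).K (pvilEiAt 𝔓 𝔈 m ε w z t η₀).y
      (pvdyR ((pvilEiAt 𝔓 𝔈 m ε w z t η₀).K ∪ pvkyDoor (𝔈.kit m ε) (pvieZi 𝔓 m z t) ((𝔓.Γ m).din t)) (pvilEiAt 𝔓 𝔈 m ε w z t η₀).y η₀ q) q') (hG : DelGood (pvieY η)) :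
    ∃ 𝔖 : PvwSt (pvieT η), PvLocSM (pvfc7R η₀ η (pvtrCore (3 * μ) (pvfc7Wi 𝔓 m z t η₀))) 𝔖₀ 𝔖 ∧ PvilIn 𝔓.num (𝔓.col t) (pvilPin 𝔓 m z t) η 𝔖 ∧
      pvilFi 𝔓 m z t η = pvilFi 𝔓 m z t η₀ ∧ pvilZi 𝔓 m z t η = pvilZi 𝔓 m z t η₀ := by
  have hy : ∀ ξ, Disjoint ((pvilEiAt 𝔓 𝔈 m ε w z t η₀).y ξ) (pvilFi 𝔓 m z t η₀) := fun _ => disjoint_sdiff_left
  have hC := pvfc7_C_i (w := w) (z := z) (η₀ := η₀) hK hD
  have a1 := pvfc7_agr_i hb h₀ (Pvfc7Agr.refl _ _ η₀) hC (hy _) q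
  have a2 := pvfc7_agr_i hb h₀ a1 (hC.mono_left subset_union_left) (hy _) q'
  rw [← hη] at a2
  exact pvfc7_in_model hμ h3 hb hr hm h₀ hG a2

/-- **(b1) IN THE EXPERIMENT OF THE THICK LINK** -/
theorem pvfc7_carry_e (hμ : 0 < μ) (h3 : 3 * μ ≤ pvlmDel c m) (hb : (𝔓.ty t).b * pvlmH m ≤ pviwRad 𝔓 m t) (hr : μ < (𝔓.ty t).b * pvlmH m)
    (hK : Disjoint (𝔈.eK m t) (pviwBox 𝔓 m t)) (hD : Disjoint (pviwRo 𝔓 𝔈 m t) (pviwBox 𝔓 m t))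
    (hm : η₀ ∈ pvrgMesh μ (pvieSh z (pviwBox 𝔓 m t))) {𝔖₀ : PvwSt (pvieT η₀)} (h₀ : PvilIn 𝔓.num (𝔓.col t) (pvilPin 𝔓 m z t) η₀ 𝔖₀) (q q' : (ℂ → Bool) × Conf PvPt) {η : Conf PvPt}
    (hη : η = pvdyR (pvilEeAt 𝔓 𝔈 m ε w z t η₀).K (pvilEeAt 𝔓 𝔈 m ε w z t η₀).y
      (pvdyR ((pvilEeAt 𝔓 𝔈 m ε w z t η₀).K ∪ pvieSh (pvieZu 𝔓 m z t) (𝔈.rO m)) (pvilEeAt 𝔓 𝔈 m ε w z t η₀).y η₀ q) q') (hG : DelGood (pvieY η)) :
    ∃ 𝔖 : PvwSt (pvieT η), PvLocSM (pvfc7R η₀ η (pvtrCore (3 * μ) (pvfc7Wi 𝔓 m z t η₀))) 𝔖₀ 𝔖 ∧ PvilIn 𝔓.num (𝔓.col t) (pvilPin 𝔓 m z t) η 𝔖 ∧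
      pvilFi 𝔓 m z t η = pvilFi 𝔓 m z t η₀ ∧ pvilZi 𝔓 m z t η = pvilZi 𝔓 m z t η₀ := by
  have hy : ∀ ξ, Disjoint ((pvilEeAt 𝔓 𝔈 m ε w z t η₀).y ξ) (pvilFi 𝔓 m z t η₀) := fun _ => disjoint_sdiff_left
  have hC := pvfc7_C_e (ε := ε) (w := w) (z := z) (η₀ := η₀) hK hD
  have a1 := pvfc7_agr_i hb h₀ (Pvfc7Agr.refl _ _ η₀) hC (hy _) q
  have a2 := pvfc7_agr_i hb h₀ a1 (hC.mono_left subset_union_left) (hy _) q'
  rw [← hη] at a2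
  exact pvfc7_in_model hμ h3 hb hr hm h₀ hG a2

end exper

/-! ## 8. AT THE FINAL CONFIGURATIONS OF `Exit/FrcDefs` (35) -/

section fin

/-- a final configuration agrees with its base on every part `W` of the kept part of the window, colours on `F` -/
theorem pvfc7_fin_agr {E : PvjeEnd} {T : PvjeTest} {η₀ η : Conf PvPt} (hF : PvjeFin E T η₀ η) {W : Set ℂ} (hW : W ⊆ E.Kp (E.Hu η₀)) (hFW : E.Fz η₀ ⊆ W) (hFs : E.Fz η₀ ⊆ cfSites η₀) :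
    Pvfc7Agr W (E.Fz η₀) η₀ η :=
  Pvfc7Agr.mono (W := E.Kp (E.Hu η₀)) (F := E.Fz η₀) ⟨hF.sites.symm, fun a ha => hF.cols a ⟨hFs ha, hW (hFW ha)⟩ fun h => h.2 ha⟩ hW subset_rfl

variable {τ : Type} {c : ℝ} {𝔓 : PvxPar τ c} {𝔈 : PvieEng τ} {m : ℕ} {ε : ℝ} {z : ℂ} {t : τ} {μ : ℝ} {η₀ η : Conf PvPt} {w : ∀ η : Conf PvPt, (delbPl (pvieY η)).Dart → ℂ} {T : PvjeTest}

theorem pvfc7_Wo_eq (𝔓 : PvxPar τ c) (m : ℕ) (z : ℂ) (t : τ) (η₀ : Conf PvPt) : pvfc7Wo 𝔓 m z t η₀ = pvilWz 𝔓 m z t (pvilZo 𝔓 m z t η₀) := by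
  unfold pvfc7Wo pvilWz
  rw [pvza_Bx_eq]

theorem pvfc7_Wi_eq (𝔓 : PvxPar τ c) (m : ℕ) (z : ℂ) (t : τ) (η₀ : Conf PvPt) : pvfc7Wi 𝔓 m z t η₀ = pvilWz 𝔓 m z t (pvilZi 𝔓 m z t η₀) := by
  unfold pvfc7Wi pvilWz
  rw [pvza_Bx_eq]

/-- **(b1) AT A FINAL CONFIGURATION OF THE FIRST LINK**: the twin `Σ_out(z,t)`, the same `F`, THE HULL CLAUSE OF `pvilMo` -/
theorem pvfc7_fin_o (hμ : 0 < μ) (h3 : 3 * μ ≤ pvlmDel c m) (hb : (𝔓.ty t).b * pvlmH m ≤ pviwRad 𝔓 m t) (hr : μ < (𝔓.ty t).b * pvlmH m)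
    (hK : Disjoint (𝔈.oK m t) (pviwBox 𝔓 m t)) (hD : Disjoint (pviwDo 𝔓 𝔈 m ε t) (pviwBox 𝔓 m t))
    (hm : η₀ ∈ pvrgMesh μ (pvieSh z (pviwBox 𝔓 m t))) {𝔖₀ : PvwSt (pvieT η₀)} (h₀ : PvilOut 𝔓.num (𝔓.col t) (pvilPin 𝔓 m z t) η₀ 𝔖₀) (hF : PvjeFin (pvjeO 𝔓 𝔈 w m ε z t) T η₀ η) :
    ∃ 𝔖 : PvwSt (pvieT η), PvLocSP (pvfc7R η₀ η (pvtrCore (3 * μ) (pvfc7Wo 𝔓 m z t η₀))) 𝔖₀ 𝔖 ∧ PvilOut 𝔓.num (𝔓.col t) (pvilPin 𝔓 m z t) η 𝔖 ∧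
      pvilFo 𝔓 m z t η = pvilFo 𝔓 m z t η₀ ∧ pvilZo 𝔓 m z t η = pvilZo 𝔓 m z t η₀ := by
  have hFW : pvilFo 𝔓 m z t η₀ ⊆ pvfc7Wo 𝔓 m z t η₀ := (pvfc7_fo_core hb h₀).trans (pvfc7_core_sub (pvlm_Del_pos c m).le _)
  have hC := pvfc7_C_o (w := w) (z := z) (η₀ := η₀) hK hD
  have hW : pvfc7Wo 𝔓 m z t η₀ ⊆ (pvjeO 𝔓 𝔈 w m ε z t).Kp ((pvjeO 𝔓 𝔈 w m ε z t).Hu η₀) := fun a ha =>
    ⟨Or.inl ((pvfc7_Wo_eq 𝔓 m z t η₀).subset ha), fun h => disjoint_left.1 hC h ha⟩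
  exact pvfc7_out_model hμ h3 hb hr hm h₀ hF.nice.good (pvfc7_fin_agr hF hW hFW pvfc7_fzO_sites)

/-- **(b1) AT A FINAL CONFIGURATION OF THE LAST LINK** -/
theorem pvfc7_fin_i (hμ : 0 < μ) (h3 : 3 * μ ≤ pvlmDel c m) (hb : (𝔓.ty t).b * pvlmH m ≤ pviwRad 𝔓 m t) (hr : μ < (𝔓.ty t).b * pvlmH m)
    (hK : Disjoint (𝔈.iK m t) (pviwBox 𝔓 m t)) (hD : Disjoint (pviwDi 𝔓 𝔈 m ε t) (pviwBox 𝔓 m t))
    (hm : η₀ ∈ pvrgMesh μ (pvieSh z (pviwBox 𝔓 m t))) {𝔖₀ : PvwSt (pvieT η₀)} (h₀ : PvilIn 𝔓.num (𝔓.col t) (pvilPin 𝔓 m z t) η₀ 𝔖₀) (hF : PvjeFin (pvjeI 𝔓 𝔈 w m ε z t) T η₀ η) :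
    ∃ 𝔖 : PvwSt (pvieT η), PvLocSM (pvfc7R η₀ η (pvtrCore (3 * μ) (pvfc7Wi 𝔓 m z t η₀))) 𝔖₀ 𝔖 ∧ PvilIn 𝔓.num (𝔓.col t) (pvilPin 𝔓 m z t) η 𝔖 ∧
      pvilFi 𝔓 m z t η = pvilFi 𝔓 m z t η₀ ∧ pvilZi 𝔓 m z t η = pvilZi 𝔓 m z t η₀ := by
  have hFW : pvilFi 𝔓 m z t η₀ ⊆ pvfc7Wi 𝔓 m z t η₀ := (pvfc7_fi_core hb h₀).trans (pvfc7_core_sub (pvlm_Del_pos c m).le _)
  have hC := pvfc7_C_i (w := w) (z := z) (η₀ := η₀) hK hD
  have hW : pvfc7Wi 𝔓 m z t η₀ ⊆ (pvjeI 𝔓 𝔈 w m ε z t).Kp ((pvjeI 𝔓 𝔈 w m ε z t).Hu η₀) := fun a ha =>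
    ⟨Or.inl ((pvfc7_Wi_eq 𝔓 m z t η₀).subset ha), fun h => disjoint_left.1 hC h ha⟩
  exact pvfc7_in_model hμ h3 hb hr hm h₀ hF.nice.good (pvfc7_fin_agr hF hW hFW pvfc7_fzI_sites)

/-- **(b1) AT A FINAL CONFIGURATION OF THE THICK LINK** -/
theorem pvfc7_fin_e (hμ : 0 < μ) (h3 : 3 * μ ≤ pvlmDel c m) (hb : (𝔓.ty t).b * pvlmH m ≤ pviwRad 𝔓 m t) (hr : μ < (𝔓.ty t).b * pvlmH m)
    (hK : Disjoint (𝔈.eK m t) (pviwBox 𝔓 m t)) (hD : Disjoint (pviwRo 𝔓 𝔈 m t) (pviwBox 𝔓 m t))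
    (hm : η₀ ∈ pvrgMesh μ (pvieSh z (pviwBox 𝔓 m t))) {𝔖₀ : PvwSt (pvieT η₀)} (h₀ : PvilIn 𝔓.num (𝔓.col t) (pvilPin 𝔓 m z t) η₀ 𝔖₀) (hF : PvjeFin (pvjeE 𝔓 𝔈 w m ε z t) T η₀ η) :
    ∃ 𝔖 : PvwSt (pvieT η), PvLocSM (pvfc7R η₀ η (pvtrCore (3 * μ) (pvfc7Wi 𝔓 m z t η₀))) 𝔖₀ 𝔖 ∧ PvilIn 𝔓.num (𝔓.col t) (pvilPin 𝔓 m z t) η 𝔖 ∧
      pvilFi 𝔓 m z t η = pvilFi 𝔓 m z t η₀ ∧ pvilZi 𝔓 m z t η = pvilZi 𝔓 m z t η₀ := by
  have hFW : pvilFi 𝔓 m z t η₀ ⊆ pvfc7Wi 𝔓 m z t η₀ := (pvfc7_fi_core hb h₀).trans (pvfc7_core_sub (pvlm_Del_pos c m).le _)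
  have hC := pvfc7_C_e (ε := ε) (w := w) (z := z) (η₀ := η₀) hK hD
  have hW : pvfc7Wi 𝔓 m z t η₀ ⊆ (pvjeE 𝔓 𝔈 w m ε z t).Kp ((pvjeE 𝔓 𝔈 w m ε z t).Hu η₀) := fun a ha =>
    ⟨Or.inl ((pvfc7_Wi_eq 𝔓 m z t η₀).subset ha), fun h => disjoint_left.1 hC h ha⟩
  exact pvfc7_in_model hμ h3 hb hr hm h₀ hF.nice.good (pvfc7_fin_agr hF hW hFW pvfc7_fzI_sites)

end fin

end Claimed.Agent.R289
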