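-- KEEP
import Claimed.Agent.R289.Tr.HookYB
import Claimed.Agent.R289.Tr.StKit

/-!
# Row 289 (S0537), THE WALL, ROAD E, E10 AT THE HYBRID ENDS, (b3) DET, file Tr/HookT : THE TIP OF A HALF STATE IN A FINAL CONFIGURATION (EXTERIOR OF THE WINDOW ARBITRARY)      (helper66, pen of (b3) for the thick links, post of 24 id 91373; prefix `pvhu_`, `Pvhu`)

WHY.   `PvjeDet.ev` (`Exit/FrcDefs`, 35) is owed for EVERY final configuration `η`: off the window `Z⁺ ∪ mouth ∪ tile ∪ plug` the sites of `η` are ARBITRARY (the success of a special link is `Sure` given the window).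
The tip theorems of 23 (`pvhj_st_exit`, `pvhj_st_ent`, `pvhj_foot_out`, `pvhj_foot_in`) need the mesh on THE BIG MOUTH `closedBall c (r + 3ρ)`, `ρ₂ h ≤ r`, which is not in the window.
CURE.   Two site sets: `Y₀` (base configuration: the state, the mesh of the big mouth = a free certificate) and `Y` (final configuration), which agree on the kept mouth `U`.      The tip theorem is applied on `Y₀`, for the colouring "frozen colours on the frozen sites, copy colours elsewhere";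
the arms are carried `Y → Y₀`, the foot is carried back `Y₀ → Y`: everything lives in `closedBall c (rs + 4ρ)`, inside the core of `U`.
* sec. 1  LOCALITY OF CELLS: `pvhu_vor_iff` (the sites whose cell contains a point of the `μ`-core of `U`), `pvhu_cell_eq`, `pvhu_adj` (Delaunay edges at a site of the `3μ`-core)
* sec. 2  `pvhu_join_tr`, **`pvhu_foot_tr`** (a foot of 23 is carried to the second site set), **`pvhu_arm_tr`** (an arm of 23 is carried to the second site set)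
* sec. 3  **`pvhu_foot_in`**, **`pvhu_foot_out`** : half state on `Y₀` + `PvhjEnd` on `Y₀` + arms on `Y` + the tip dart of `Y` has the end points of the tip dart of `Y₀` ⟹ `PvhjFoot h σ κ K a GN` on `Y`;   any presentation: **`pvhu_foot_in_pl`**, **`pvhu_foot_out_pl`** (`PvhjFootP` = the slots `J₀ J₁` of `pvhj_run_foot_pl`)
0 SORRY.
-/

set_option autoImplicit false
set_option linter.unusedSectionVars false
set_option linter.unusedVariables false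

namespace Claimed.Agent.R289

open Relation Set Metric

/-! ## 1. locality of cells -/

section cells

variable {Y Y' U : Set ℂ} {μ : ℝ}

theorem pvhu_mem (hYY : Y ∩ U = Y' ∩ U) {v : ℂ} (hv : v ∈ Y) (hU : v ∈ U) : v ∈ Y' := by
  have h : v ∈ Y ∩ U := ⟨hv, hU⟩
  rw [hYY] at h
  exact h.1

/-- one direction of `pvhu_vor_iff` -/
theorem pvhu_vor_imp (hYY : Y ∩ U = Y' ∩ U) (hm : PvtrMesh μ U Y) {w : ℂ} (hw : w ∈ pvtrCore μ U) {v : ℂ} (hv : v ∈ Y) (hc : w ∈ vorCell Y v) : v ∈ Y' ∧ w ∈ vorCell Y' v := by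
  obtain ⟨u, hu, huw⟩ := hm w hw
  have hvw : ‖w - v‖ ≤ μ := (hc u hu).trans huw
  have hvU : v ∈ U := hw (by rw [mem_closedBall, dist_eq_norm, norm_sub_rev]; exact hvw)
  have hvY' : v ∈ Y' := pvhu_mem hYY hv hvU
  refine ⟨hvY', fun u' hu' => ?_⟩
  by_cases h1 : ‖w - u'‖ ≤ μ
  · have hU' : u' ∈ U := hw (by rw [mem_closedBall, dist_eq_norm, norm_sub_rev]; exact h1)
    exact hc u' (pvhu_mem hYY.symm hu' hU')
  · exact hvw.trans (not_le.1 h1).le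

/-- **the sites whose cell contains a point of the `μ`-core of `U`** are the same for two site sets which agree on `U`, mesh `μ` read in `U` -/
theorem pvhu_vor_iff (hYY : Y ∩ U = Y' ∩ U) (hm : PvtrMesh μ U Y) {w : ℂ} (hw : w ∈ pvtrCore μ U) (v : ℂ) : (v ∈ Y ∧ w ∈ vorCell Y v) ↔ (v ∈ Y' ∧ w ∈ vorCell Y' v) :=
  ⟨fun h => pvhu_vor_imp hYY hm hw h.1 h.2, fun h => pvhu_vor_imp hYY.symm ((pvtr_mesh_congr hYY).1 hm) hw h.1 h.2⟩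

/-- the cell of a site of the `3μ`-core is small -/
theorem pvhu_cell_ball (hμ : 0 < μ) (hm : PvtrMesh μ U Y) {v : ℂ} (hv : v ∈ pvtrCore (3 * μ) U) : vorCell Y v ⊆ closedBall v μ :=
  vor_cell_subset_ball hμ.le (by linarith : μ < 2 * μ) (hm.dense hv)

/-- the `μ`-ball round a point of the `3μ`-core lies in the `μ`-core -/
theorem pvhu_ball_core (hμ : 0 < μ) {v : ℂ} (hv : v ∈ pvtrCore (3 * μ) U) : closedBall v μ ⊆ pvtrCore μ U := by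
  intro w hw x hx
  refine hv ?_
  rw [mem_closedBall, dist_eq_norm] at hw hx ⊢
  calc ‖x - v‖ = ‖(x - w) + (w - v)‖ := by congr 1; ring
    _ ≤ ‖x - w‖ + ‖w - v‖ := norm_add_le _ _
    _ ≤ 3 * μ := by linarith

theorem pvhu_cell_sub (hμ : 0 < μ) (hYY : Y ∩ U = Y' ∩ U) (hm : PvtrMesh μ U Y) {v : ℂ} (hv : v ∈ pvtrCore (3 * μ) U) (hvY : v ∈ Y) : vorCell Y v ⊆ vorCell Y' v := fun w hw =>
  (pvhu_vor_imp hYY hm (pvhu_ball_core hμ hv (pvhu_cell_ball hμ hm hv hw)) hvY hw).2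

/-- a site of the core is a site of both sets -/
theorem pvhu_site (hμ : 0 < μ) (hYY : Y ∩ U = Y' ∩ U) {v : ℂ} (hv : v ∈ pvtrCore (3 * μ) U) (hvY : v ∈ Y) : v ∈ Y' :=
  pvhu_mem hYY hvY (hv (mem_closedBall_self (by linarith)))

/-- **the cell of a site of the `3μ`-core is the same** -/
theorem pvhu_cell_eq (hμ : 0 < μ) (hYY : Y ∩ U = Y' ∩ U) (hm : PvtrMesh μ U Y) {v : ℂ} (hv : v ∈ pvtrCore (3 * μ) U) (hvY : v ∈ Y) : vorCell Y v = vorCell Y' v :=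
  Subset.antisymm (pvhu_cell_sub hμ hYY hm hv hvY) (pvhu_cell_sub hμ hYY.symm ((pvtr_mesh_congr hYY).1 hm) hv (pvhu_site hμ hYY hv hvY))

/-- **the Delaunay edges at a site of the `3μ`-core are the same** -/
theorem pvhu_adj (hμ : 0 < μ) (hYY : Y ∩ U = Y' ∩ U) (hm : PvtrMesh μ U Y) {a b : ℂ} (ha : a ∈ pvtrCore (3 * μ) U) (h : DelAdj Y a b) : DelAdj Y' a b := by
  obtain ⟨haY, hbY, hne, w, hwa, hwb⟩ := h
  have hw : w ∈ pvtrCore μ U := pvhu_ball_core hμ ha (pvhu_cell_ball hμ hm ha hwa)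
  obtain ⟨a1, a2⟩ := pvhu_vor_imp hYY hm hw haY hwa
  obtain ⟨b1, b2⟩ := pvhu_vor_imp hYY hm hw hbY hwb
  exact ⟨a1, b1, hne, w, a2, b2⟩

end cells

/-! ## 2. joins, feet, arms -/

section tr

variable {Y Y' U : Set ℂ} {μ : ℝ}

theorem pvhu_join_mem {V D : Type} {T : PvMap V D} {A : Set D} {X : Set V} {a v : V} (hv : T.Join A X a v) : v ∈ X := by
  rcases hv.2.cases_tail with e | ⟨u, -, hu⟩
  · exact e ▸ hv.1
  · exact hu.2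

/-- **a join through sites of the core is a join of the second Delaunay map** -/
theorem pvhu_join_tr (h : DelGood Y) (h' : DelGood Y') (hμ : 0 < μ) (hYY : Y ∩ U = Y' ∩ U) (hm : PvtrMesh μ U Y) {X : Set Y} {X' : Set Y'} (hX : ∀ v ∈ X, (v : ℂ) ∈ pvtrCore (3 * μ) U)
    (hXX : ∀ v ∈ X, ∀ v' : Y', (v : ℂ) = v' → v' ∈ X') {a b : Y} (hj : (delMap h).Join univ X a b) {a' : Y'} (ha : (a : ℂ) = a') : ∃ b' : Y', (b : ℂ) = b' ∧ (delMap h').Join univ X' a' b' := by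
  obtain ⟨haX, hch⟩ := hj
  have ha' : a' ∈ X' := hXX a haX a' ha
  induction hch with
  | refl => exact ⟨a', ha, ha', ReflTransGen.refl⟩
  | @tail u w hu huw ih =>
    obtain ⟨u', hu', hj'⟩ := ih
    have huX : u ∈ X := pvhu_join_mem (T := delMap h) (A := univ) ⟨haX, hu⟩
    have hadj : DelAdj Y' u w := pvhu_adj hμ hYY hm (hX u huX) ((dls_edgeIn_univ h u w).1 huw.1)
    refine ⟨⟨w, hadj.2.1⟩, rfl, hj'.1, hj'.2.tail ⟨(dls_edgeIn_univ h' u' ⟨w, hadj.2.1⟩).2 ?_, hXX w huw.2 _ rfl⟩⟩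
    rw [← hu']
    exact hadj

/-- **A FOOT OF 23 IS CARRIED TO THE SECOND SITE SET**: `K` lies over the `3μ`-core of `U`; the twins of the sites of `K` lie in `K'` with the same colour; the two darts have the same end points -/
theorem pvhu_foot_tr (h : DelGood Y) (h' : DelGood Y') (hμ : 0 < μ) (hYY : Y ∩ U = Y' ∩ U) (hm : PvtrMesh μ U Y) {σ : Y → Bool} {σ' : Y' → Bool} {κ : ℂ → Bool} {K : Set Y} {K' : Set Y'}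
    (hK : ∀ v ∈ K, (v : ℂ) ∈ pvtrCore (3 * μ) U) (hKK : ∀ v ∈ K, ∀ v' : Y', (v : ℂ) = v' → v' ∈ K' ∧ σ' v' = σ v) {a : DelDart h} {a' : DelDart h'}
    (es : (((delMap h).src a : Y) : ℂ) = (delMap h').src a') (et : (((delMap h).tgt a : Y) : ℂ) = (delMap h').tgt a') {H : Bool → Set ℂ} (F : PvhjFoot h σ κ K a H) : PvhjFoot h' σ' κ K' a' H := by
  intro β
  obtain ⟨x0, hx0, hj⟩ := F β
  have he : ((pvhiEnd (delMap h) β a : Y) : ℂ) = pvhiEnd (delMap h') β a' := by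
    cases β
    · exact et
    · exact es
  obtain ⟨x1, e1, hj'⟩ := pvhu_join_tr h h' hμ hYY hm (X := pvldCol σ K β) (X' := pvldCol σ' K' β) (fun v hv => hK v hv.1)
    (fun v hv v' e => ⟨(hKK v hv.1 v' e).1, (hKK v hv.1 v' e).2.trans hv.2⟩) hj he
  have hxK : x0 ∈ K := (pvhu_join_mem hj).1
  refine ⟨x1, ⟨by rw [← e1]; exact hx0.1, ?_⟩, hj'⟩
  rw [← e1, ← pvhu_cell_eq hμ hYY hm (hK x0 hxK) x0.2]
  exact hx0.2

/-- the points of the two coloured sets of an arm lie within `rs + μ` of the centre -/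
theorem pvhu_arm_near (hμ : 0 < μ) (hm : PvtrMesh μ U Y) {κ : ℂ → Bool} {β : Bool} {ζ : ℂ} {xB yL yU μ' : ℝ} {c : ℂ} {rs : ℝ} {up : Bool} {GN GC Sg : Set ℂ}
    (hU : closedBall c (rs + 3 * μ) ⊆ U) (A : PvhjArm Y κ β ζ xB yL yU μ' c rs up GN GC Sg) {w : ℂ} (hw : w ∈ GN ∪ GC) : ‖w - c‖ ≤ rs + μ := by
  obtain ⟨v, ⟨hvY, -⟩, hwv⟩ := A.cov hw
  have hn : ‖v - c‖ ≤ rs := A.near ⟨v, hvY⟩ ⟨w, hwv, Or.inl hw⟩
  have hcore : v ∈ pvtrCore (3 * μ) U := by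
    intro x hx
    refine hU ?_
    rw [mem_closedBall, dist_eq_norm] at hx ⊢
    calc ‖x - c‖ = ‖(x - v) + (v - c)‖ := by congr 1; ring
      _ ≤ ‖x - v‖ + ‖v - c‖ := norm_add_le _ _
      _ ≤ rs + 3 * μ := by linarith
  have h1 := pvhu_cell_ball hμ hm hcore hwv
  rw [mem_closedBall, dist_eq_norm] at h1
  calc ‖w - c‖ = ‖(w - v) + (v - c)‖ := by congr 1; ring
    _ ≤ ‖w - v‖ + ‖v - c‖ := norm_add_le _ _
    _ ≤ rs + μ := by linarith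

/-- **AN ARM OF 23 IS CARRIED TO THE SECOND SITE SET** -/
theorem pvhu_arm_tr (hμ : 0 < μ) (hYY : Y ∩ U = Y' ∩ U) (hm : PvtrMesh μ U Y) {κ : ℂ → Bool} {β : Bool} {ζ : ℂ} {xB yL yU μ' : ℝ} {c : ℂ} {rs : ℝ} {up : Bool} {GN GC Sg : Set ℂ}
    (hU : closedBall c (rs + 3 * μ) ⊆ U) (hS : ∀ w ∈ Sg, ‖w - c‖ ≤ rs + μ) (A : PvhjArm Y κ β ζ xB yL yU μ' c rs up GN GC Sg) : PvhjArm Y' κ β ζ xB yL yU μ' c rs up GN GC Sg := by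
  have hcore : ∀ w ∈ GN ∪ GC ∪ Sg, w ∈ pvtrCore μ U := by
    intro w hw x hx
    have h1 : ‖w - c‖ ≤ rs + μ := by
      rcases hw with hw | hw
      · exact pvhu_arm_near hμ hm hU A hw
      · exact hS w hw
    refine hU ?_
    rw [mem_closedBall, dist_eq_norm] at hx ⊢
    calc ‖x - c‖ = ‖(x - w) + (w - c)‖ := by congr 1; ring
      _ ≤ ‖x - w‖ + ‖w - c‖ := norm_add_le _ _
      _ ≤ rs + 3 * μ := by linarith
  have back : ∀ (v : Y') (X : Set ℂ), X ⊆ GN ∪ GC ∪ Sg → (vorCell Y' v ∩ X).Nonempty → ∃ hv : (v : ℂ) ∈ Y, (vorCell Y ((⟨v, hv⟩ : Y) : ℂ) ∩ X).Nonempty := by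
    rintro v X hX ⟨w, hw1, hw2⟩
    obtain ⟨b1, b2⟩ := (pvhu_vor_iff hYY hm (hcore w (hX hw2)) v).2 ⟨v.2, hw1⟩
    exact ⟨b1, w, b2, hw2⟩
  have sN : GN ⊆ GN ∪ GC ∪ Sg := fun w hw => Or.inl (Or.inl hw)
  have sC : GC ⊆ GN ∪ GC ∪ Sg := fun w hw => Or.inl (Or.inr hw)
  have sS : Sg ⊆ GN ∪ GC ∪ Sg := fun w hw => Or.inr hw
  refine ⟨A.cN, A.cC, A.cS, A.nc, fun w hw => ?_, fun v hv => ?_, fun v hv => ?_, fun v hv => ?_, fun v hv => ?_, fun v hv hv' => ?_, A.sc0, A.sn0⟩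
  · obtain ⟨v, ⟨hvY, hvκ⟩, hwv⟩ := A.cov hw
    obtain ⟨b1, b2⟩ := (pvhu_vor_iff hYY hm (hcore w (Or.inl hw)) v).1 ⟨hvY, hwv⟩
    exact ⟨v, ⟨b1, hvκ⟩, b2⟩
  · obtain ⟨b1, b2⟩ := back v _ Subset.rfl hv
    exact A.near ⟨v, b1⟩ b2
  · obtain ⟨b1, b2⟩ := back v _ sS hv
    exact A.sOut ⟨v, b1⟩ b2
  · obtain ⟨b1, b2⟩ := back v _ sN hv
    exact A.nSide ⟨v, b1⟩ b2
  · obtain ⟨b1, b2⟩ := back v _ sC hv
    exact A.cOff ⟨v, b1⟩ b2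
  · obtain ⟨b1, b2⟩ := back v _ sS hv
    obtain ⟨_, b3⟩ := back v _ sC hv'
    exact A.sc ⟨v, b1⟩ b2 b3

end tr

/-! ## 3. the feet of a half state of the base configuration, in the final configuration -/

section foot

variable {Y₀ Y U : Set ℂ} {μ : ℝ} {h₀ : DelGood Y₀} {h : DelGood Y} {𝔖₀ : PvwSt (delMap h₀)} {N : PvwNum} {hh : ℝ} {z : ℂ} {τ : PvwTy} {K₀ : Set Y₀} {K : Set Y} {r r₁ ρ rs rt : ℝ} {ζ : ℂ}
  {σ₀ : Y₀ → Bool} {σ : Y → Bool} {κ : ℂ → Bool} {GN GC Sg : Bool → Set ℂ}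

/-- a point off the closed square is far from the centre -/
theorem pvhu_off_sq {w z : ℂ} {R : ℝ} (hw : w ∉ pvwSq z R) : R < ‖w - z‖ := by
  by_contra hcon
  rw [not_lt] at hcon
  exact hw ⟨(Complex.abs_re_le_norm _).trans hcon, (Complex.abs_im_le_norm _).trans hcon⟩

/-- the core of a half state is far from a point `c` which is close to a site off the box -/
theorem pvhu_core_far {pos : Y₀ → ℂ} {c : ℂ} {R bh d₁ : ℝ} {x v : Y₀} (hx : pos x ∉ pvwSq z R) (hxc : ‖pos x - c‖ ≤ d₁) (hv : ‖pos v - z‖ < bh) : R - d₁ - bh < ‖pos v - c‖ := by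
  have h1 := pvhu_off_sq hx
  have h2 : ‖pos x - z‖ ≤ ‖pos x - c‖ + ‖pos v - c‖ + ‖pos v - z‖ := by
    calc ‖pos x - z‖ = ‖(pos x - c) - (pos v - c) + (pos v - z)‖ := by congr 1; ring
      _ ≤ ‖(pos x - c) - (pos v - c)‖ + ‖pos v - z‖ := norm_add_le _ _
      _ ≤ ‖pos x - c‖ + ‖pos v - c‖ + ‖pos v - z‖ := by linarith [norm_sub_le (pos x - c) (pos v - c)]
  linarith

theorem pvhu_ball_core3 {c : ℂ} {a : ℝ} (hU : closedBall c (a + 3 * μ) ⊆ U) {v : ℂ} (hv : ‖v - c‖ ≤ a) : v ∈ pvtrCore (3 * μ) U := by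
  intro x hx
  refine hU ?_
  rw [mem_closedBall, dist_eq_norm] at hx ⊢
  calc ‖x - c‖ = ‖(x - v) + (v - c)‖ := by congr 1; ring
    _ ≤ ‖x - v‖ + ‖v - c‖ := norm_add_le _ _
    _ ≤ a + 3 * μ := by linarith

open Classical in
/-- **THE FOOT AT THE TIP OF AN ENTRANCE STUB, IN THE FINAL CONFIGURATION.**   `Y₀` = the sites of the base (state `𝔖₀`, colouring `σ₀`, numbers and mesh of the BIG mouth `E`), `Y` = the sites of the final configuration (colouring `σ`, arms of the copy colouring `κ`);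
the two site sets agree on `U ⊇ closedBall c (rs + 4ρ + 3μ)`, mesh `μ` read in `U`;   `a` = a dart of `Y` with the end points of the tip dart;   the bank sites of the small mouth keep their colour, the sites of the small mouth which are not frozen have their copy colour. -/
theorem pvhu_foot_in (hμ : 0 < μ) (hYY : Y₀ ∩ U = Y ∩ U) (hm : PvtrMesh μ U Y₀) (ha : 𝔖₀.AtIn (dlsPos Y₀) N hh z τ σ₀) (E : PvhjEnd Y₀ N hh τ (τ.cm hh z) K₀ r r₁ ρ rs)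
    (ht1 : ‖((delMap h₀).src (𝔖₀.em 𝔖₀.nm) : ℂ) - τ.cm hh z‖ + 2 * ρ ≤ rt) (ht2 : ‖((delMap h₀).tgt (𝔖₀.em 𝔖₀.nm) : ℂ) - τ.cm hh z‖ + 2 * ρ ≤ rt)
    (hζ : ζ ∈ pvtzdDir) (hout : pvwRad N hh τ τ.k + (ζ * z).re < (ζ * (𝔖₀.am : ℂ)).re) (hU : closedBall (τ.cm hh z) (rs + 4 * ρ + 3 * μ) ⊆ U)
    (A : ∀ β, PvhjArm Y κ β ζ (pvwRad N hh τ τ.k + (ζ * z).re) ((ζ * τ.cm hh z).im - rt) ((ζ * τ.cm hh z).im + rt) (2 * ρ) (τ.cm hh z) rs (!β) (GN β) (GC β) (Sg β))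
    (hS : ∀ β, ∀ w ∈ Sg β, ‖w - τ.cm hh z‖ ≤ rs + μ)
    (hσf : ∀ (v : Y₀) (v' : Y), (v : ℂ) = v' → ‖(v : ℂ) - τ.cm hh z‖ < rs + 4 * ρ → v ∈ 𝔖₀.bkM ∪ 𝔖₀.whM → σ v' = σ₀ v)
    (hσκ : ∀ (v : Y₀) (v' : Y), (v : ℂ) = v' → ‖(v : ℂ) - τ.cm hh z‖ < rs + 4 * ρ → v ∉ 𝔖₀.fzIn → σ v' = κ v)
    (hK : ∀ v : Y, ‖(v : ℂ) - τ.cm hh z‖ < rs + 4 * ρ → v ∈ K) {a : DelDart h}
    (es : (((delMap h₀).src (𝔖₀.em 𝔖₀.nm) : Y₀) : ℂ) = (delMap h).src a) (et : (((delMap h₀).tgt (𝔖₀.em 𝔖₀.nm) : Y₀) : ℂ) = (delMap h).tgt a) : PvhjFoot h σ κ K a GN := by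
  have hρ := E.rho
  have g1 : ‖((delMap h₀).src (𝔖₀.em 𝔖₀.nm) : ℂ) - τ.cm hh z‖ ≤ N.rho * hh / 4 := ha.good.tip_m.1
  have h0 : 0 ≤ N.rho * hh / 4 := (norm_nonneg _).trans g1
  have g3 : ‖(𝔖₀.am : ℂ) - τ.cm hh z‖ ≤ N.rho * hh / 4 + 2 * ρ := pvhg_tip_in ha hρ (by linarith [E.r1, E.rr]) E.mesh
  -- the core is far from the small mouth
  have hcore : ∀ v ∈ 𝔖₀.core, rs + 4 * ρ < ‖(v : ℂ) - τ.cm hh z‖ := by
    intro v hv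
    have hv' : ‖dlsPos Y₀ v - z‖ < τ.b * hh := by
      have : v ∈ 𝔖₀.dsc := hv
      rw [ha.gate.dsc_eq] at this
      exact this
    have := pvhu_core_far (pos := dlsPos Y₀) (c := τ.cm hh z) ha.stub.em_out g3 hv'
    have e : dlsPos Y₀ v = (v : ℂ) := rfl
    rw [e] at this
    linarith [E.far, E.r1, E.rr, E.rs1]
  have hfz : ∀ v ∈ 𝔖₀.fzIn, ‖(v : ℂ) - τ.cm hh z‖ < rs + 4 * ρ → v ∈ 𝔖₀.bkM ∪ 𝔖₀.whM := by
    rintro v ((hv | hv) | hv) hn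
    · exact absurd hn (not_lt.2 (hcore v hv).le)
    · exact Or.inl hv
    · exact Or.inr hv
  -- the colouring of the base: frozen colours, copy colours elsewhere
  let σ₁ : Y₀ → Bool := fun v => if v ∈ 𝔖₀.fzIn then σ₀ v else κ v
  have ha₁ : 𝔖₀.AtIn (dlsPos Y₀) N hh z τ σ₁ := pvwk_atIn_congr (dls_isSph h₀) ha fun v hv => by
    show σ₀ v = if v ∈ 𝔖₀.fzIn then σ₀ v else κ v
    rw [if_pos hv]
  have E₁ : PvhjEnd Y₀ N hh τ (τ.cm hh z) {v : Y₀ | ‖(v : ℂ) - τ.cm hh z‖ < rs + 4 * ρ} r r₁ ρ rs :=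
    ⟨E.rho, E.r2, E.r1, E.rr, E.mesh, E.far, E.rs0, E.rs1, E.rs2, fun v hv => hv⟩
  have hU3 : closedBall (τ.cm hh z) (rs + 3 * μ) ⊆ U := (closedBall_subset_closedBall (by linarith)).trans hU
  have A₀ := fun β => pvhu_arm_tr hμ hYY.symm ((pvtr_mesh_congr hYY).1 hm) hU3 (hS β) (A β)
  have F₀ : PvhjFoot h₀ σ₁ κ {v : Y₀ | ‖(v : ℂ) - τ.cm hh z‖ < rs + 4 * ρ} (𝔖₀.em 𝔖₀.nm) GN := by
    refine pvhj_foot_in ha₁ E₁ ht1 ht2 hζ hout A₀ fun v hv hb => ?_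
    show (if v ∈ 𝔖₀.fzIn then σ₀ v else κ v) = κ v
    rw [if_neg fun hf => hb (hfz v hf (by linarith))]
  refine pvhu_foot_tr h₀ h hμ hYY hm (fun v hv => pvhu_ball_core3 hU (le_of_lt hv)) (fun v hv v' e => ⟨hK v' (by rw [← e]; exact hv), ?_⟩) es et F₀
  show σ v' = if v ∈ 𝔖₀.fzIn then σ₀ v else κ v
  by_cases hf : v ∈ 𝔖₀.fzIn
  · rw [if_pos hf]
    exact hσf v v' e hv (hfz v hf hv)
  · rw [if_neg hf]
    exact hσκ v v' e hv hf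

open Classical in
/-- **THE FOOT AT THE TIP OF AN EXIT STUB, IN THE FINAL CONFIGURATION** -/
theorem pvhu_foot_out (hμ : 0 < μ) (hYY : Y₀ ∩ U = Y ∩ U) (hm : PvtrMesh μ U Y₀) (ha : 𝔖₀.AtOut (dlsPos Y₀) N hh z τ σ₀) (E : PvhjEnd Y₀ N hh τ (τ.cp hh z) K₀ r r₁ ρ rs)
    (ht1 : ‖((delMap h₀).src (𝔖₀.ep 𝔖₀.np) : ℂ) - τ.cp hh z‖ + 2 * ρ ≤ rt) (ht2 : ‖((delMap h₀).tgt (𝔖₀.ep 𝔖₀.np) : ℂ) - τ.cp hh z‖ + 2 * ρ ≤ rt)
    (hζ : ζ ∈ pvtzdDir) (hout : pvwRad N hh τ τ.k + (ζ * z).re < (ζ * (𝔖₀.ap : ℂ)).re) (hU : closedBall (τ.cp hh z) (rs + 4 * ρ + 3 * μ) ⊆ U)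
    (A : ∀ β, PvhjArm Y κ β ζ (pvwRad N hh τ τ.k + (ζ * z).re) ((ζ * τ.cp hh z).im - rt) ((ζ * τ.cp hh z).im + rt) (2 * ρ) (τ.cp hh z) rs β (GN β) (GC β) (Sg β))
    (hS : ∀ β, ∀ w ∈ Sg β, ‖w - τ.cp hh z‖ ≤ rs + μ)
    (hσf : ∀ (v : Y₀) (v' : Y), (v : ℂ) = v' → ‖(v : ℂ) - τ.cp hh z‖ < rs + 4 * ρ → v ∈ 𝔖₀.bkP ∪ 𝔖₀.whP → σ v' = σ₀ v)
    (hσκ : ∀ (v : Y₀) (v' : Y), (v : ℂ) = v' → ‖(v : ℂ) - τ.cp hh z‖ < rs + 4 * ρ → v ∉ 𝔖₀.fzOut → σ v' = κ v)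
    (hK : ∀ v : Y, ‖(v : ℂ) - τ.cp hh z‖ < rs + 4 * ρ → v ∈ K) {a : DelDart h}
    (es : (((delMap h₀).src (𝔖₀.ep 𝔖₀.np) : Y₀) : ℂ) = (delMap h).src a) (et : (((delMap h₀).tgt (𝔖₀.ep 𝔖₀.np) : Y₀) : ℂ) = (delMap h).tgt a) : PvhjFoot h σ κ K a GN := by
  have hρ := E.rho
  have g1 : ‖((delMap h₀).src (𝔖₀.ep 𝔖₀.np) : ℂ) - τ.cp hh z‖ ≤ N.rho * hh / 4 := ha.good.tip_p.1
  have h0 : 0 ≤ N.rho * hh / 4 := (norm_nonneg _).trans g1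
  have g3 : ‖(𝔖₀.ap : ℂ) - τ.cp hh z‖ ≤ N.rho * hh / 4 + 2 * ρ := pvhg_tip_out ha hρ (by linarith [E.r1, E.rr]) E.mesh
  have hcore : ∀ v ∈ 𝔖₀.core, rs + 4 * ρ < ‖(v : ℂ) - τ.cp hh z‖ := by
    intro v hv
    have hv' : ‖dlsPos Y₀ v - z‖ < τ.b * hh := by
      have : v ∈ 𝔖₀.dsc := hv
      rw [ha.gate.dsc_eq] at this
      exact this
    have := pvhu_core_far (pos := dlsPos Y₀) (c := τ.cp hh z) ha.stub.ep_out g3 hv'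
    have e : dlsPos Y₀ v = (v : ℂ) := rfl
    rw [e] at this
    linarith [E.far, E.r1, E.rr, E.rs1]
  have hfz : ∀ v ∈ 𝔖₀.fzOut, ‖(v : ℂ) - τ.cp hh z‖ < rs + 4 * ρ → v ∈ 𝔖₀.bkP ∪ 𝔖₀.whP := by
    rintro v ((hv | hv) | hv) hn
    · exact absurd hn (not_lt.2 (hcore v hv).le)
    · exact Or.inl hv
    · exact Or.inr hv
  let σ₁ : Y₀ → Bool := fun v => if v ∈ 𝔖₀.fzOut then σ₀ v else κ v
  have ha₁ : 𝔖₀.AtOut (dlsPos Y₀) N hh z τ σ₁ := pvwk_atOut_congr (dls_isSph h₀) ha fun v hv => by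
    show σ₀ v = if v ∈ 𝔖₀.fzOut then σ₀ v else κ v
    rw [if_pos hv]
  have E₁ : PvhjEnd Y₀ N hh τ (τ.cp hh z) {v : Y₀ | ‖(v : ℂ) - τ.cp hh z‖ < rs + 4 * ρ} r r₁ ρ rs :=
    ⟨E.rho, E.r2, E.r1, E.rr, E.mesh, E.far, E.rs0, E.rs1, E.rs2, fun v hv => hv⟩
  have hU3 : closedBall (τ.cp hh z) (rs + 3 * μ) ⊆ U := (closedBall_subset_closedBall (by linarith)).trans hU
  have A₀ := fun β => pvhu_arm_tr hμ hYY.symm ((pvtr_mesh_congr hYY).1 hm) hU3 (hS β) (A β)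
  have F₀ : PvhjFoot h₀ σ₁ κ {v : Y₀ | ‖(v : ℂ) - τ.cp hh z‖ < rs + 4 * ρ} (𝔖₀.ep 𝔖₀.np) GN := by
    refine pvhj_foot_out ha₁ E₁ ht1 ht2 hζ hout A₀ fun v hv hb => ?_
    show (if v ∈ 𝔖₀.fzOut then σ₀ v else κ v) = κ v
    rw [if_neg fun hf => hb (hfz v hf (by linarith))]
  refine pvhu_foot_tr h₀ h hμ hYY hm (fun v hv => pvhu_ball_core3 hU (le_of_lt hv)) (fun v hv v' e => ⟨hK v' (by rw [← e]; exact hv), ?_⟩) es et F₀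
  show σ v' = if v ∈ 𝔖₀.fzOut then σ₀ v else κ v
  by_cases hf : v ∈ 𝔖₀.fzOut
  · rw [if_pos hf]
    exact hσf v v' e hv (hfz v hf hv)
  · rw [if_neg hf]
    exact hσκ v v' e hv hf

end foot

/-! ### any presentation of the two Delaunay planes (`pvieT η`: `P := delbPl Y`, `hP := delb_pl_eq h`) -/

section pl

variable {Y₀ Y U : Set ℂ} {μ : ℝ} {h₀ : DelGood Y₀} {h : DelGood Y} {P₀ : PlTri ↥Y₀} {P : PlTri ↥Y} {𝔖₀ : PvwSt P₀.toMap} {N : PvwNum} {hh : ℝ} {z : ℂ} {τ : PvwTy} {K₀ : Set Y₀} {K : Set Y} {r r₁ ρ rs rt : ℝ} {ζ : ℂ}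
  {σ₀ : Y₀ → Bool} {σ : Y → Bool} {κ : ℂ → Bool} {GN GC Sg : Bool → Set ℂ}

theorem pvhu_foot_in_pl (hP₀ : P₀ = delPl h₀) (hP : P = delPl h) (hμ : 0 < μ) (hYY : Y₀ ∩ U = Y ∩ U) (hm : PvtrMesh μ U Y₀) (ha : 𝔖₀.AtIn (dlsPos Y₀) N hh z τ σ₀) (E : PvhjEnd Y₀ N hh τ (τ.cm hh z) K₀ r r₁ ρ rs)
    (ht1 : ‖(P₀.toMap.src (𝔖₀.em 𝔖₀.nm) : ℂ) - τ.cm hh z‖ + 2 * ρ ≤ rt) (ht2 : ‖(P₀.toMap.tgt (𝔖₀.em 𝔖₀.nm) : ℂ) - τ.cm hh z‖ + 2 * ρ ≤ rt)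
    (hζ : ζ ∈ pvtzdDir) (hout : pvwRad N hh τ τ.k + (ζ * z).re < (ζ * (𝔖₀.am : ℂ)).re) (hU : closedBall (τ.cm hh z) (rs + 4 * ρ + 3 * μ) ⊆ U)
    (A : ∀ β, PvhjArm Y κ β ζ (pvwRad N hh τ τ.k + (ζ * z).re) ((ζ * τ.cm hh z).im - rt) ((ζ * τ.cm hh z).im + rt) (2 * ρ) (τ.cm hh z) rs (!β) (GN β) (GC β) (Sg β))
    (hS : ∀ β, ∀ w ∈ Sg β, ‖w - τ.cm hh z‖ ≤ rs + μ)
    (hσf : ∀ (v : Y₀) (v' : Y), (v : ℂ) = v' → ‖(v : ℂ) - τ.cm hh z‖ < rs + 4 * ρ → v ∈ 𝔖₀.bkM ∪ 𝔖₀.whM → σ v' = σ₀ v)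
    (hσκ : ∀ (v : Y₀) (v' : Y), (v : ℂ) = v' → ‖(v : ℂ) - τ.cm hh z‖ < rs + 4 * ρ → v ∉ 𝔖₀.fzIn → σ v' = κ v)
    (hK : ∀ v : Y, ‖(v : ℂ) - τ.cm hh z‖ < rs + 4 * ρ → v ∈ K) {a : P.Dart}
    (es : ((P₀.toMap.src (𝔖₀.em 𝔖₀.nm) : Y₀) : ℂ) = P.toMap.src a) (et : ((P₀.toMap.tgt (𝔖₀.em 𝔖₀.nm) : Y₀) : ℂ) = P.toMap.tgt a) : PvhjFootP P σ κ K a GN := by
  subst hP₀
  subst hP
  exact pvhu_foot_in hμ hYY hm ha E ht1 ht2 hζ hout hU A hS hσf hσκ hK es et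

theorem pvhu_foot_out_pl (hP₀ : P₀ = delPl h₀) (hP : P = delPl h) (hμ : 0 < μ) (hYY : Y₀ ∩ U = Y ∩ U) (hm : PvtrMesh μ U Y₀) (ha : 𝔖₀.AtOut (dlsPos Y₀) N hh z τ σ₀) (E : PvhjEnd Y₀ N hh τ (τ.cp hh z) K₀ r r₁ ρ rs)
    (ht1 : ‖(P₀.toMap.src (𝔖₀.ep 𝔖₀.np) : ℂ) - τ.cp hh z‖ + 2 * ρ ≤ rt) (ht2 : ‖(P₀.toMap.tgt (𝔖₀.ep 𝔖₀.np) : ℂ) - τ.cp hh z‖ + 2 * ρ ≤ rt)
    (hζ : ζ ∈ pvtzdDir) (hout : pvwRad N hh τ τ.k + (ζ * z).re < (ζ * (𝔖₀.ap : ℂ)).re) (hU : closedBall (τ.cp hh z) (rs + 4 * ρ + 3 * μ) ⊆ U)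
    (A : ∀ β, PvhjArm Y κ β ζ (pvwRad N hh τ τ.k + (ζ * z).re) ((ζ * τ.cp hh z).im - rt) ((ζ * τ.cp hh z).im + rt) (2 * ρ) (τ.cp hh z) rs β (GN β) (GC β) (Sg β))
    (hS : ∀ β, ∀ w ∈ Sg β, ‖w - τ.cp hh z‖ ≤ rs + μ)
    (hσf : ∀ (v : Y₀) (v' : Y), (v : ℂ) = v' → ‖(v : ℂ) - τ.cp hh z‖ < rs + 4 * ρ → v ∈ 𝔖₀.bkP ∪ 𝔖₀.whP → σ v' = σ₀ v)
    (hσκ : ∀ (v : Y₀) (v' : Y), (v : ℂ) = v' → ‖(v : ℂ) - τ.cp hh z‖ < rs + 4 * ρ → v ∉ 𝔖₀.fzOut → σ v' = κ v)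
    (hK : ∀ v : Y, ‖(v : ℂ) - τ.cp hh z‖ < rs + 4 * ρ → v ∈ K) {a : P.Dart}
    (es : ((P₀.toMap.src (𝔖₀.ep 𝔖₀.np) : Y₀) : ℂ) = P.toMap.src a) (et : ((P₀.toMap.tgt (𝔖₀.ep 𝔖₀.np) : Y₀) : ℂ) = P.toMap.tgt a) : PvhjFootP P σ κ K a GN := by
  subst hP₀
  subst hP
  exact pvhu_foot_out hμ hYY hm ha E ht1 ht2 hζ hout hU A hS hσf hσκ hK es et

end pl

end Claimed.Agent.R289
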