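-- KEEP
import Claimed.Agent.R289.Tr.FrcCar
import Claimed.Agent.R289.Tr.HookT

/-!
# Row 289 (S0537), THE WALL, ROAD E, E10 AT THE HYBRID ENDS, (b3) DET, file Tr/HookCol : THE COLOUR LINES `σ = κ` AT A FINAL CONFIGURATION, THE TIP FOOT AT THE MODEL      (helper235, block of 199 id 95245; prefix `pvhc_`, `Pvhc`)

WHAT.   The tip lemma of 66 (`Tr/HookT`: `pvhu_foot_out_pl`, `pvhu_foot_in_pl`) and the lanes of 23 (`PvhjMid.mid`) ask, at a final configuration `η` over the base `η₀` (`PvjeFin E T η₀ η` of 35):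
`hYY` (same sites on the kept mouth), `hσf` (bank sites keep their colour), `hσκ` (the other sites of the small mouth have their copy colour), `es et` (the tip dart of the carried state has the end points of the tip dart of the base), `σ = κ` on the sites of the lanes.
* sec. 1  GENERIC END: `pvhc_copy` (A SITE OF `M ∪ K` WHICH IS NOT FROZEN IS FRESH), `pvhc_kept` (a frozen position of the kept part keeps its colour), `pvhc_sites` (same sites on every part of the kept part), `pvhc_M_kept`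
* sec. 2  HALF STATES: `pvhc_fz_out`, `pvhc_fz_in` (FROZEN ∩ SMALL MOUTH ⊆ BANKS, from `PvhjEnd`), `pvhc_tip_out`, `pvhc_tip_in` (`es et` from the twins of 71)
* sec. 3  the colour lines for a generic end whose `Fz` is the base datum of a half state in the standard frame: **`pvhc_lines_out`**, **`pvhc_lines_in`**
* sec. 4  AT THE MODEL, ONE STOP: **`pvhc_foot_o`** (`pvjeO`), **`pvhc_foot_i`** (`pvjeI`), **`pvhc_foot_e`** (`pvjeE`): carried half state of 71 + same base data + copy colouring with the pattern + fresh lines + THE FOOT for every family of arms at `η`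
-/

set_option autoImplicit false
set_option linter.unusedSectionVars false
set_option linter.unusedVariables false

namespace Claimed.Agent.R289

open Set Metric Claims.C0465

/-! ## 1. a generic end -/

section gen

variable {E : PvjeEnd} {T : PvjeTest} {η₀ η : Conf PvPt}

/-- **A SITE OF `M ∪ K` WHICH IS NOT FROZEN IS FRESH**: the copy colouring of a final configuration -/
theorem pvhc_copy (hF : PvjeFin E T η₀ η) : ∃ κ : ℂ → Bool, cfOf (cfSites η) κ ∈ T.𝒦 ∧ ∀ v ∈ cfSites η, v ∈ E.M ∪ E.K → v ∉ E.Fz η₀ → cfCol η v = κ v := by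
  obtain ⟨κ, h1, h2⟩ := hF.copy
  refine ⟨κ, h1, fun v hv hMK hfz => h2 v hv ?_⟩
  rcases hMK with h | h
  · exact Or.inr ⟨h, hfz⟩
  · exact Or.inl h

/-- a frozen position of the kept part of the window keeps its colour -/
theorem pvhc_kept (hF : PvjeFin E T η₀ η) {v : ℂ} (hv : v ∈ cfSites η₀) (hK : v ∈ E.Kp (E.Hu η₀)) (hfz : v ∈ E.Fz η₀) : cfCol η v = cfCol η₀ v :=
  hF.cols v ⟨hv, hK⟩ fun h => h.2 hfz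

/-- the same sites on every part of the kept part of the window -/
theorem pvhc_sites (hF : PvjeFin E T η₀ η) {U : Set ℂ} (hU : U ⊆ E.Kp (E.Hu η₀)) : cfSites η₀ ∩ U = cfSites η ∩ U := by
  ext v
  constructor
  · rintro ⟨h1, h2⟩
    exact ⟨(hF.sites.symm.subset ⟨h1, hU h2⟩).1, h2⟩
  · rintro ⟨h1, h2⟩
    exact ⟨(hF.sites.subset ⟨h1, hU h2⟩).1, h2⟩

/-- the mouth is kept -/
theorem pvhc_M_kept (hMK : Disjoint E.M E.K) (hMD : Disjoint E.M E.D) (Z : Set (ℤ × ℤ)) : E.M ⊆ E.Kp Z := fun v hv =>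
  ⟨Or.inr hv, fun h => h.elim (fun h1 => disjoint_left.1 hMK hv h1) fun h1 => disjoint_left.1 hMD hv h1⟩

end gen

/-! ## 2. half states: frozen ∩ small mouth ⊆ banks, the tip dart of the twin -/

section half

variable {Y₀ : Set ℂ} {h₀ : DelGood Y₀} {P₀ : PlTri ↥Y₀} {𝔖₀ : PvwSt P₀.toMap} {N : PvwNum} {hh : ℝ} {z : ℂ} {τ : PvwTy} {K₀ : Set Y₀} {r r₁ ρ rs : ℝ} {σ₀ : Y₀ → Bool}

/-- **FROZEN ∩ SMALL MOUTH ⊆ BANKS**, exit half: the core is far from the tip -/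
theorem pvhc_fz_out (hP₀ : P₀ = delPl h₀) (ha : 𝔖₀.AtOut (dlsPos Y₀) N hh z τ σ₀) (E : PvhjEnd Y₀ N hh τ (τ.cp hh z) K₀ r r₁ ρ rs) :
    ∀ v ∈ 𝔖₀.fzOut, ‖(v : ℂ) - τ.cp hh z‖ < rs + 4 * ρ → v ∈ 𝔖₀.bkP ∪ 𝔖₀.whP := by
  subst hP₀
  have hρ := E.rho
  have g1 : ‖((delMap h₀).src (𝔖₀.ep 𝔖₀.np) : ℂ) - τ.cp hh z‖ ≤ N.rho * hh / 4 := ha.good.tip_p.1
  have h0 : 0 ≤ N.rho * hh / 4 := (norm_nonneg _).trans g1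
  have g3 : ‖(𝔖₀.ap : ℂ) - τ.cp hh z‖ ≤ N.rho * hh / 4 + 2 * ρ := pvhg_tip_out ha hρ (by linarith [E.r1, E.rr]) E.mesh
  rintro v ((hv | hv) | hv) hn
  · exfalso
    have hv' : ‖dlsPos Y₀ v - z‖ < τ.b * hh := by
      have : v ∈ 𝔖₀.dsc := hv
      rw [ha.gate.dsc_eq] at this
      exact this
    have := pvhu_core_far (pos := dlsPos Y₀) (c := τ.cp hh z) ha.stub.ep_out g3 hv'
    have e : dlsPos Y₀ v = (v : ℂ) := rfl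
    rw [e] at this
    linarith [E.far, E.r1, E.rr, E.rs1]
  · exact Or.inl hv
  · exact Or.inr hv

/-- **FROZEN ∩ SMALL MOUTH ⊆ BANKS**, entrance half -/
theorem pvhc_fz_in (hP₀ : P₀ = delPl h₀) (ha : 𝔖₀.AtIn (dlsPos Y₀) N hh z τ σ₀) (E : PvhjEnd Y₀ N hh τ (τ.cm hh z) K₀ r r₁ ρ rs) :
    ∀ v ∈ 𝔖₀.fzIn, ‖(v : ℂ) - τ.cm hh z‖ < rs + 4 * ρ → v ∈ 𝔖₀.bkM ∪ 𝔖₀.whM := by
  subst hP₀
  have hρ := E.rho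
  have g1 : ‖((delMap h₀).src (𝔖₀.em 𝔖₀.nm) : ℂ) - τ.cm hh z‖ ≤ N.rho * hh / 4 := ha.good.tip_m.1
  have h0 : 0 ≤ N.rho * hh / 4 := (norm_nonneg _).trans g1
  have g3 : ‖(𝔖₀.am : ℂ) - τ.cm hh z‖ ≤ N.rho * hh / 4 + 2 * ρ := pvhg_tip_in ha hρ (by linarith [E.r1, E.rr]) E.mesh
  rintro v ((hv | hv) | hv) hn
  · exfalso
    have hv' : ‖dlsPos Y₀ v - z‖ < τ.b * hh := by
      have : v ∈ 𝔖₀.dsc := hv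
      rw [ha.gate.dsc_eq] at this
      exact this
    have := pvhu_core_far (pos := dlsPos Y₀) (c := τ.cm hh z) ha.stub.em_out g3 hv'
    have e : dlsPos Y₀ v = (v : ℂ) := rfl
    rw [e] at this
    linarith [E.far, E.r1, E.rr, E.rs1]
  · exact Or.inl hv
  · exact Or.inr hv

end half

section twin

variable {η₀ η : Conf PvPt} {K : Set ℂ} {𝔖₀ : PvwSt (pvieT η₀)} {𝔖 : PvwSt (pvieT η)}

/-- `es et` of 66: the tip dart of the carried exit half state has the end points of the tip dart of the base -/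
theorem pvhc_tip_out (G : PvLocSP (pvfc7R η₀ η K) 𝔖₀ 𝔖) :
    (((pvieT η₀).src (𝔖₀.ep 𝔖₀.np) : pvieY η₀) : ℂ) = (pvieT η).src (𝔖.ep 𝔖.np) ∧ (((pvieT η₀).tgt (𝔖₀.ep 𝔖₀.np) : pvieY η₀) : ℂ) = (pvieT η).tgt (𝔖.ep 𝔖.np) := by
  have h := G.ep 𝔖₀.np le_rfl
  rw [G.np]
  exact ⟨h.1, h.2.1⟩

/-- `es et` of 66, entrance half -/
theorem pvhc_tip_in (G : PvLocSM (pvfc7R η₀ η K) 𝔖₀ 𝔖) :
    (((pvieT η₀).src (𝔖₀.em 𝔖₀.nm) : pvieY η₀) : ℂ) = (pvieT η).src (𝔖.em 𝔖.nm) ∧ (((pvieT η₀).tgt (𝔖₀.em 𝔖₀.nm) : pvieY η₀) : ℂ) = (pvieT η).tgt (𝔖.em 𝔖.nm) := by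
  have h := G.em 𝔖₀.nm le_rfl
  rw [G.nm]
  exact ⟨h.1, h.2.1⟩

end twin

/-! ## 3. the colour lines -/

/-- the copy colouring seen by a rim of colour `b` -/
def pvhcK (κ : ℂ → Bool) (b : Bool) : ℂ → Bool := fun v => κ v == b

theorem pvhc_eqns_cite : True := by
  have := @pvhcK.eq_1
  trivial

section lines

variable {E : PvjeEnd} {T : PvjeTest} {η₀ η : Conf PvPt} {N : PvwNum} {b : Bool} {p : PvilPl} {𝔖₀ : PvwSt (pvieT η₀)}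

/-- **THE COLOUR LINES, EXIT HALF**: (1) the pattern, (2) the frozen sites keep their colour, (3) a site of the base in `M ∪ K` which is not frozen has its copy colour, (4) the same read at `η`, (5) a site of `M ∪ K` off the own-level box has its copy colour -/
theorem pvhc_lines_out (hF : PvjeFin E T η₀ η) (hfr : p.fr = 1) (h₀ : PvilOut N b p η₀ 𝔖₀) (hFz : E.Fz η₀ = pvilFzO N b p η₀) (hKp : E.Fz η₀ ⊆ E.Kp (E.Hu η₀))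
    (hb : p.ty.b * p.h ≤ pvwRad N p.h p.ty p.ty.k) :
    ∃ κ : ℂ → Bool, cfOf (cfSites η) κ ∈ T.𝒦 ∧
      (∀ (v : pvieY η₀) (v' : pvieY η), (v : ℂ) = v' → v ∈ 𝔖₀.fzOut → pvieCol η b v' = pvieCol η₀ b v) ∧
      (∀ (v : pvieY η₀) (v' : pvieY η), (v : ℂ) = v' → (v : ℂ) ∈ E.M ∪ E.K → v ∉ 𝔖₀.fzOut → pvieCol η b v' = pvhcK κ b v) ∧
      (∀ v' : pvieY η, (v' : ℂ) ∈ E.M ∪ E.K → (v' : ℂ) ∉ E.Fz η₀ → pvieCol η b v' = pvhcK κ b v') ∧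
      ∀ v' : pvieY η, (v' : ℂ) ∈ E.M ∪ E.K → (v' : ℂ) ∉ pvwSq p.z (pvwRad N p.h p.ty p.ty.k) → pvieCol η b v' = pvhcK κ b v' := by
  have hf1 : ‖p.fr‖ = 1 := by rw [hfr]; exact norm_one
  have eF : E.Fz η₀ = pviePos η₀ '' 𝔖₀.fzOut := hFz.trans (pvfc7_fzO hf1 h₀)
  obtain ⟨κ, h1, h2⟩ := pvhc_copy hF
  have L4 : ∀ v' : pvieY η, (v' : ℂ) ∈ E.M ∪ E.K → (v' : ℂ) ∉ E.Fz η₀ → pvieCol η b v' = pvhcK κ b v' := by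
    intro v' hMK hfz
    show (cfCol η v'.1 == b) = (κ v'.1 == b)
    rw [h2 v'.1 v'.2 hMK hfz]
  refine ⟨κ, h1, ?_, ?_, L4, ?_⟩
  · intro v v' e hv
    show (cfCol η v'.1 == b) = (cfCol η₀ v.1 == b)
    have hvF : (v : ℂ) ∈ E.Fz η₀ := by rw [eF]; exact ⟨v, hv, rfl⟩
    rw [← e, pvhc_kept hF v.2 (hKp hvF) hvF]
  · intro v v' e hMK hv
    rw [e]
    refine L4 v' (e ▸ hMK) ?_
    rw [eF, ← e]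
    rintro ⟨u, hu, huv⟩
    exact hv ((Subtype.ext huv : u = v) ▸ hu)
  · intro v' hMK hbox
    refine L4 v' hMK ?_
    rw [eF]
    rintro ⟨u, hu, huv⟩
    exact hbox (huv ▸ pvfc7_fzO_box hfr hb h₀ u hu)

/-- **THE COLOUR LINES, ENTRANCE HALF** -/
theorem pvhc_lines_in (hF : PvjeFin E T η₀ η) (hfr : p.fr = 1) (h₀ : PvilIn N b p η₀ 𝔖₀) (hFz : E.Fz η₀ = pvilFzI N b p η₀) (hKp : E.Fz η₀ ⊆ E.Kp (E.Hu η₀))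
    (hb : p.ty.b * p.h ≤ pvwRad N p.h p.ty p.ty.k) :
    ∃ κ : ℂ → Bool, cfOf (cfSites η) κ ∈ T.𝒦 ∧
      (∀ (v : pvieY η₀) (v' : pvieY η), (v : ℂ) = v' → v ∈ 𝔖₀.fzIn → pvieCol η b v' = pvieCol η₀ b v) ∧
      (∀ (v : pvieY η₀) (v' : pvieY η), (v : ℂ) = v' → (v : ℂ) ∈ E.M ∪ E.K → v ∉ 𝔖₀.fzIn → pvieCol η b v' = pvhcK κ b v) ∧
      (∀ v' : pvieY η, (v' : ℂ) ∈ E.M ∪ E.K → (v' : ℂ) ∉ E.Fz η₀ → pvieCol η b v' = pvhcK κ b v') ∧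
      ∀ v' : pvieY η, (v' : ℂ) ∈ E.M ∪ E.K → (v' : ℂ) ∉ pvwSq p.z (pvwRad N p.h p.ty p.ty.k) → pvieCol η b v' = pvhcK κ b v' := by
  have hf1 : ‖p.fr‖ = 1 := by rw [hfr]; exact norm_one
  have eF : E.Fz η₀ = pviePos η₀ '' 𝔖₀.fzIn := hFz.trans (pvfc7_fzI hf1 h₀)
  obtain ⟨κ, h1, h2⟩ := pvhc_copy hF
  have L4 : ∀ v' : pvieY η, (v' : ℂ) ∈ E.M ∪ E.K → (v' : ℂ) ∉ E.Fz η₀ → pvieCol η b v' = pvhcK κ b v' := by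
    intro v' hMK hfz
    show (cfCol η v'.1 == b) = (κ v'.1 == b)
    rw [h2 v'.1 v'.2 hMK hfz]
  refine ⟨κ, h1, ?_, ?_, L4, ?_⟩
  · intro v v' e hv
    show (cfCol η v'.1 == b) = (cfCol η₀ v.1 == b)
    have hvF : (v : ℂ) ∈ E.Fz η₀ := by rw [eF]; exact ⟨v, hv, rfl⟩
    rw [← e, pvhc_kept hF v.2 (hKp hvF) hvF]
  · intro v v' e hMK hv
    rw [e]
    refine L4 v' (e ▸ hMK) ?_
    rw [eF, ← e]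
    rintro ⟨u, hu, huv⟩
    exact hv ((Subtype.ext huv : u = v) ▸ hu)
  · intro v' hMK hbox
    refine L4 v' hMK ?_
    rw [eF]
    rintro ⟨u, hu, huv⟩
    exact hbox (huv ▸ pvfc7_fzI_box hfr hb h₀ u hu)

end lines

/-! ## 4. at the model: the tip foot, one stop -/

section model

variable {τ : Type} {c : ℝ} {𝔓 : PvxPar τ c} {𝔈 : PvieEng τ} {m : ℕ} {ε : ℝ} {z : ℂ} {t : τ} {μ μ' : ℝ} {η₀ η : Conf PvPt} {w : ∀ η : Conf PvPt, (delbPl (pvieY η)).Dart → ℂ} {T : PvjeTest}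
  {K₀ : Set (pvieY η₀)} {r r₁ ρ rs rt : ℝ} {ζ : ℂ}

theorem pvhc_pin_fr (𝔓 : PvxPar τ c) (m : ℕ) (z : ℂ) (t : τ) : (pvilPin 𝔓 m z t).fr = 1 := rfl

/-- the exit half state of a candidate, in plain words -/
theorem pvhc_st_out {𝔖₀ : PvwSt (pvieT η₀)} (h₀ : PvilOut 𝔓.num (𝔓.col t) (pvilPin 𝔓 m z t) η₀ 𝔖₀) : 𝔖₀.AtOut (dlsPos (pvieY η₀)) 𝔓.num (pvlmH m) z (𝔓.ty t) (pvieCol η₀ (𝔓.col t)) := by
  have st := h₀.st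
  rw [pvfc7_pos_std (pvhc_pin_fr 𝔓 m z t), pvfc7_zf_std (pvhc_pin_fr 𝔓 m z t)] at st
  exact st

/-- the entrance half state of a candidate, in plain words -/
theorem pvhc_st_in {𝔖₀ : PvwSt (pvieT η₀)} (h₀ : PvilIn 𝔓.num (𝔓.col t) (pvilPin 𝔓 m z t) η₀ 𝔖₀) : 𝔖₀.AtIn (dlsPos (pvieY η₀)) 𝔓.num (pvlmH m) z (𝔓.ty t) (pvieCol η₀ (𝔓.col t)) := by
  have st := h₀.st
  rw [pvfc7_pos_std (pvhc_pin_fr 𝔓 m z t), pvfc7_zf_std (pvhc_pin_fr 𝔓 m z t)] at st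
  exact st

/-- **THE FIRST LINK `t → door` AT A FINAL CONFIGURATION, THE END `t`, ONE STOP**: the carried `Σ_out(z,t)` of 71 with the same base data, a copy colouring `κ` which carries the pattern, the fresh lines,
and THE FOOT (slot `J₀` of `pvhj_run_foot_pl`) at the tip dart of the carried state for every family of arms of `κ` AT THE SITES OF `η`.      Certificates AT THE BASE ONLY: mesh `μ` of the own-level box, mesh `μ'` read in the mouth, `PvhjEnd` (mesh of the big mouth). -/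
theorem pvhc_foot_o (hμ : 0 < μ) (h3 : 3 * μ ≤ pvlmDel c m) (hb : (𝔓.ty t).b * pvlmH m ≤ pviwRad 𝔓 m t) (hr : μ < (𝔓.ty t).b * pvlmH m)
    (hK : Disjoint (𝔈.oK m t) (pviwBox 𝔓 m t)) (hD : Disjoint (pviwDo 𝔓 𝔈 m ε t) (pviwBox 𝔓 m t))
    (hm : η₀ ∈ pvrgMesh μ (pvieSh z (pviwBox 𝔓 m t))) {𝔖₀ : PvwSt (pvieT η₀)} (h₀ : PvilOut 𝔓.num (𝔓.col t) (pvilPin 𝔓 m z t) η₀ 𝔖₀) (hF : PvjeFin (pvjeO 𝔓 𝔈 w m ε z t) T η₀ η)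
    (hMK : Disjoint (pvjeO 𝔓 𝔈 w m ε z t).M (pvjeO 𝔓 𝔈 w m ε z t).K) (hMD : Disjoint (pvjeO 𝔓 𝔈 w m ε z t).M (pvjeO 𝔓 𝔈 w m ε z t).D)
    (hμ' : 0 < μ') (hmM : η₀ ∈ pvrgMesh μ' (pvieSh z (𝔈.oM m t)))
    (E : PvhjEnd (pvieY η₀) 𝔓.num (pvlmH m) (𝔓.ty t) ((𝔓.ty t).cp (pvlmH m) z) K₀ r r₁ ρ rs)
    (ht1 : ‖((pvieT η₀).src (𝔖₀.ep 𝔖₀.np) : ℂ) - (𝔓.ty t).cp (pvlmH m) z‖ + 2 * ρ ≤ rt) (ht2 : ‖((pvieT η₀).tgt (𝔖₀.ep 𝔖₀.np) : ℂ) - (𝔓.ty t).cp (pvlmH m) z‖ + 2 * ρ ≤ rt)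
    (hζ : ζ ∈ pvtzdDir) (hout : pviwRad 𝔓 m t + (ζ * z).re < (ζ * (𝔖₀.ap : ℂ)).re)
    (hU : closedBall ((𝔓.ty t).cp (pvlmH m) z) (rs + 4 * ρ + 3 * μ') ⊆ pvieSh z (𝔈.oM m t)) :
    ∃ 𝔖 : PvwSt (pvieT η), PvLocSP (pvfc7R η₀ η (pvtrCore (3 * μ) (pvfc7Wo 𝔓 m z t η₀))) 𝔖₀ 𝔖 ∧ PvilOut 𝔓.num (𝔓.col t) (pvilPin 𝔓 m z t) η 𝔖 ∧
      pvilFo 𝔓 m z t η = pvilFo 𝔓 m z t η₀ ∧ pvilZo 𝔓 m z t η = pvilZo 𝔓 m z t η₀ ∧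
      ∃ κ : ℂ → Bool, cfOf (cfSites η) κ ∈ T.𝒦 ∧
        (∀ v' : pvieY η, (v' : ℂ) ∈ pvieSh z (𝔈.oM m t) ∪ pvieSh z (𝔈.oK m t) → (v' : ℂ) ∉ pvilFo 𝔓 m z t η₀ → pvieCol η (𝔓.col t) v' = pvhcK κ (𝔓.col t) v') ∧
        (∀ v' : pvieY η, (v' : ℂ) ∈ pvieSh z (𝔈.oM m t) ∪ pvieSh z (𝔈.oK m t) → (v' : ℂ) ∉ pvwSq z (pviwRad 𝔓 m t) → pvieCol η (𝔓.col t) v' = pvhcK κ (𝔓.col t) v') ∧
        ∀ (K : Set (pvieY η)) (GN GC Sg : Bool → Set ℂ),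
          (∀ β, PvhjArm (pvieY η) (pvhcK κ (𝔓.col t)) β ζ (pviwRad 𝔓 m t + (ζ * z).re) ((ζ * (𝔓.ty t).cp (pvlmH m) z).im - rt) ((ζ * (𝔓.ty t).cp (pvlmH m) z).im + rt) (2 * ρ) ((𝔓.ty t).cp (pvlmH m) z) rs β (GN β) (GC β) (Sg β)) →
          (∀ β, ∀ x ∈ Sg β, ‖x - (𝔓.ty t).cp (pvlmH m) z‖ ≤ rs + μ') → (∀ v : pvieY η, ‖(v : ℂ) - (𝔓.ty t).cp (pvlmH m) z‖ < rs + 4 * ρ → v ∈ K) →
          PvhjFootP (delbPl (pvieY η)) (pvieCol η (𝔓.col t)) (pvhcK κ (𝔓.col t)) K (𝔖.ep 𝔖.np) GN := by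
  obtain ⟨𝔖, G, hO, eF, eZ⟩ := pvfc7_fin_o hμ h3 hb hr hK hD hm h₀ hF
  have hFW : pvilFo 𝔓 m z t η₀ ⊆ pvfc7Wo 𝔓 m z t η₀ := (pvfc7_fo_core hb h₀).trans (pvfc7_core_sub (pvlm_Del_pos c m).le _)
  have hC := pvfc7_C_o (w := w) (z := z) (η₀ := η₀) hK hD
  have hKp : (pvjeO 𝔓 𝔈 w m ε z t).Fz η₀ ⊆ (pvjeO 𝔓 𝔈 w m ε z t).Kp ((pvjeO 𝔓 𝔈 w m ε z t).Hu η₀) := fun a ha =>
    ⟨Or.inl ((pvfc7_Wo_eq 𝔓 m z t η₀).subset (hFW ha)), fun h => disjoint_left.1 hC h (hFW ha)⟩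
  obtain ⟨κ, k1, k2, k3, k4, k5⟩ := pvhc_lines_out hF (pvhc_pin_fr 𝔓 m z t) h₀ rfl hKp hb
  refine ⟨𝔖, G, hO, eF, eZ, κ, k1, k4, k5, fun K GN GC Sg A hS hKK => ?_⟩
  have st := pvhc_st_out h₀
  have hfz := pvhc_fz_out (delb_pl_eq h₀.good) st E
  have hρ := E.rho
  exact pvhu_foot_out_pl (delb_pl_eq h₀.good) (delb_pl_eq hF.nice.good) hμ' (pvhc_sites hF (pvhc_M_kept hMK hMD _)) hmM st E ht1 ht2 hζ hout hU A hS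
    (fun v v' e _ hv => k2 v v' e (pvwk_banksP_sub_fzOut 𝔖₀ hv))
    (fun v v' e hn hv => k3 v v' e (Or.inl (hU (by rw [mem_closedBall, dist_eq_norm]; linarith))) hv)
    hKK (pvhc_tip_out G).1 (pvhc_tip_out G).2

/-- **THE LAST LINK `door → t` AT A FINAL CONFIGURATION, THE END `t`, ONE STOP** (slot `J₁` of `pvhj_run_foot_pl`) -/
theorem pvhc_foot_i (hμ : 0 < μ) (h3 : 3 * μ ≤ pvlmDel c m) (hb : (𝔓.ty t).b * pvlmH m ≤ pviwRad 𝔓 m t) (hr : μ < (𝔓.ty t).b * pvlmH m)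
    (hK : Disjoint (𝔈.iK m t) (pviwBox 𝔓 m t)) (hD : Disjoint (pviwDi 𝔓 𝔈 m ε t) (pviwBox 𝔓 m t))
    (hm : η₀ ∈ pvrgMesh μ (pvieSh z (pviwBox 𝔓 m t))) {𝔖₀ : PvwSt (pvieT η₀)} (h₀ : PvilIn 𝔓.num (𝔓.col t) (pvilPin 𝔓 m z t) η₀ 𝔖₀) (hF : PvjeFin (pvjeI 𝔓 𝔈 w m ε z t) T η₀ η)
    (hMK : Disjoint (pvjeI 𝔓 𝔈 w m ε z t).M (pvjeI 𝔓 𝔈 w m ε z t).K) (hMD : Disjoint (pvjeI 𝔓 𝔈 w m ε z t).M (pvjeI 𝔓 𝔈 w m ε z t).D)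
    (hμ' : 0 < μ') (hmM : η₀ ∈ pvrgMesh μ' (pvieSh z (𝔈.iM m t)))
    (E : PvhjEnd (pvieY η₀) 𝔓.num (pvlmH m) (𝔓.ty t) ((𝔓.ty t).cm (pvlmH m) z) K₀ r r₁ ρ rs)
    (ht1 : ‖((pvieT η₀).src (𝔖₀.em 𝔖₀.nm) : ℂ) - (𝔓.ty t).cm (pvlmH m) z‖ + 2 * ρ ≤ rt) (ht2 : ‖((pvieT η₀).tgt (𝔖₀.em 𝔖₀.nm) : ℂ) - (𝔓.ty t).cm (pvlmH m) z‖ + 2 * ρ ≤ rt)
    (hζ : ζ ∈ pvtzdDir) (hout : pviwRad 𝔓 m t + (ζ * z).re < (ζ * (𝔖₀.am : ℂ)).re)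
    (hU : closedBall ((𝔓.ty t).cm (pvlmH m) z) (rs + 4 * ρ + 3 * μ') ⊆ pvieSh z (𝔈.iM m t)) :
    ∃ 𝔖 : PvwSt (pvieT η), PvLocSM (pvfc7R η₀ η (pvtrCore (3 * μ) (pvfc7Wi 𝔓 m z t η₀))) 𝔖₀ 𝔖 ∧ PvilIn 𝔓.num (𝔓.col t) (pvilPin 𝔓 m z t) η 𝔖 ∧
      pvilFi 𝔓 m z t η = pvilFi 𝔓 m z t η₀ ∧ pvilZi 𝔓 m z t η = pvilZi 𝔓 m z t η₀ ∧
      ∃ κ : ℂ → Bool, cfOf (cfSites η) κ ∈ T.𝒦 ∧
        (∀ v' : pvieY η, (v' : ℂ) ∈ pvieSh z (𝔈.iM m t) ∪ pvieSh z (𝔈.iK m t) → (v' : ℂ) ∉ pvilFi 𝔓 m z t η₀ → pvieCol η (𝔓.col t) v' = pvhcK κ (𝔓.col t) v') ∧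
        (∀ v' : pvieY η, (v' : ℂ) ∈ pvieSh z (𝔈.iM m t) ∪ pvieSh z (𝔈.iK m t) → (v' : ℂ) ∉ pvwSq z (pviwRad 𝔓 m t) → pvieCol η (𝔓.col t) v' = pvhcK κ (𝔓.col t) v') ∧
        ∀ (K : Set (pvieY η)) (GN GC Sg : Bool → Set ℂ),
          (∀ β, PvhjArm (pvieY η) (pvhcK κ (𝔓.col t)) β ζ (pviwRad 𝔓 m t + (ζ * z).re) ((ζ * (𝔓.ty t).cm (pvlmH m) z).im - rt) ((ζ * (𝔓.ty t).cm (pvlmH m) z).im + rt) (2 * ρ) ((𝔓.ty t).cm (pvlmH m) z) rs (!β) (GN β) (GC β) (Sg β)) →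
          (∀ β, ∀ x ∈ Sg β, ‖x - (𝔓.ty t).cm (pvlmH m) z‖ ≤ rs + μ') → (∀ v : pvieY η, ‖(v : ℂ) - (𝔓.ty t).cm (pvlmH m) z‖ < rs + 4 * ρ → v ∈ K) →
          PvhjFootP (delbPl (pvieY η)) (pvieCol η (𝔓.col t)) (pvhcK κ (𝔓.col t)) K (𝔖.em 𝔖.nm) GN := by
  obtain ⟨𝔖, G, hO, eF, eZ⟩ := pvfc7_fin_i hμ h3 hb hr hK hD hm h₀ hF
  have hFW : pvilFi 𝔓 m z t η₀ ⊆ pvfc7Wi 𝔓 m z t η₀ := (pvfc7_fi_core hb h₀).trans (pvfc7_core_sub (pvlm_Del_pos c m).le _)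
  have hC := pvfc7_C_i (w := w) (z := z) (η₀ := η₀) hK hD
  have hKp : (pvjeI 𝔓 𝔈 w m ε z t).Fz η₀ ⊆ (pvjeI 𝔓 𝔈 w m ε z t).Kp ((pvjeI 𝔓 𝔈 w m ε z t).Hu η₀) := fun a ha =>
    ⟨Or.inl ((pvfc7_Wi_eq 𝔓 m z t η₀).subset (hFW ha)), fun h => disjoint_left.1 hC h (hFW ha)⟩
  obtain ⟨κ, k1, k2, k3, k4, k5⟩ := pvhc_lines_in hF (pvhc_pin_fr 𝔓 m z t) h₀ rfl hKp hb
  refine ⟨𝔖, G, hO, eF, eZ, κ, k1, k4, k5, fun K GN GC Sg A hS hKK => ?_⟩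
  have st := pvhc_st_in h₀
  have hfz := pvhc_fz_in (delb_pl_eq h₀.good) st E
  have hρ := E.rho
  exact pvhu_foot_in_pl (delb_pl_eq h₀.good) (delb_pl_eq hF.nice.good) hμ' (pvhc_sites hF (pvhc_M_kept hMK hMD _)) hmM st E ht1 ht2 hζ hout hU A hS
    (fun v v' e _ hv => k2 v v' e (pvwk_banksM_sub_fzIn 𝔖₀ hv))
    (fun v v' e hn hv => k3 v v' e (Or.inl (hU (by rw [mem_closedBall, dist_eq_norm]; linarith))) hv)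
    hKK (pvhc_tip_in G).1 (pvhc_tip_in G).2

/-- **THE THICK LINK `reference plug → t` AT A FINAL CONFIGURATION, THE END `t`, ONE STOP** (slot `J₁` of `pvhj_run_foot_pl`) -/
theorem pvhc_foot_e (hμ : 0 < μ) (h3 : 3 * μ ≤ pvlmDel c m) (hb : (𝔓.ty t).b * pvlmH m ≤ pviwRad 𝔓 m t) (hr : μ < (𝔓.ty t).b * pvlmH m)
    (hK : Disjoint (𝔈.eK m t) (pviwBox 𝔓 m t)) (hD : Disjoint (pviwRo 𝔓 𝔈 m t) (pviwBox 𝔓 m t))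
    (hm : η₀ ∈ pvrgMesh μ (pvieSh z (pviwBox 𝔓 m t))) {𝔖₀ : PvwSt (pvieT η₀)} (h₀ : PvilIn 𝔓.num (𝔓.col t) (pvilPin 𝔓 m z t) η₀ 𝔖₀) (hF : PvjeFin (pvjeE 𝔓 𝔈 w m ε z t) T η₀ η)
    (hMK : Disjoint (pvjeE 𝔓 𝔈 w m ε z t).M (pvjeE 𝔓 𝔈 w m ε z t).K) (hMD : Disjoint (pvjeE 𝔓 𝔈 w m ε z t).M (pvjeE 𝔓 𝔈 w m ε z t).D)
    (hμ' : 0 < μ') (hmM : η₀ ∈ pvrgMesh μ' (pvieSh z (𝔈.eM m t)))
    (E : PvhjEnd (pvieY η₀) 𝔓.num (pvlmH m) (𝔓.ty t) ((𝔓.ty t).cm (pvlmH m) z) K₀ r r₁ ρ rs)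
    (ht1 : ‖((pvieT η₀).src (𝔖₀.em 𝔖₀.nm) : ℂ) - (𝔓.ty t).cm (pvlmH m) z‖ + 2 * ρ ≤ rt) (ht2 : ‖((pvieT η₀).tgt (𝔖₀.em 𝔖₀.nm) : ℂ) - (𝔓.ty t).cm (pvlmH m) z‖ + 2 * ρ ≤ rt)
    (hζ : ζ ∈ pvtzdDir) (hout : pviwRad 𝔓 m t + (ζ * z).re < (ζ * (𝔖₀.am : ℂ)).re)
    (hU : closedBall ((𝔓.ty t).cm (pvlmH m) z) (rs + 4 * ρ + 3 * μ') ⊆ pvieSh z (𝔈.eM m t)) :
    ∃ 𝔖 : PvwSt (pvieT η), PvLocSM (pvfc7R η₀ η (pvtrCore (3 * μ) (pvfc7Wi 𝔓 m z t η₀))) 𝔖₀ 𝔖 ∧ PvilIn 𝔓.num (𝔓.col t) (pvilPin 𝔓 m z t) η 𝔖 ∧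
      pvilFi 𝔓 m z t η = pvilFi 𝔓 m z t η₀ ∧ pvilZi 𝔓 m z t η = pvilZi 𝔓 m z t η₀ ∧
      ∃ κ : ℂ → Bool, cfOf (cfSites η) κ ∈ T.𝒦 ∧
        (∀ v' : pvieY η, (v' : ℂ) ∈ pvieSh z (𝔈.eM m t) ∪ pvieSh z (𝔈.eK m t) → (v' : ℂ) ∉ pvilFi 𝔓 m z t η₀ → pvieCol η (𝔓.col t) v' = pvhcK κ (𝔓.col t) v') ∧
        (∀ v' : pvieY η, (v' : ℂ) ∈ pvieSh z (𝔈.eM m t) ∪ pvieSh z (𝔈.eK m t) → (v' : ℂ) ∉ pvwSq z (pviwRad 𝔓 m t) → pvieCol η (𝔓.col t) v' = pvhcK κ (𝔓.col t) v') ∧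
        ∀ (K : Set (pvieY η)) (GN GC Sg : Bool → Set ℂ),
          (∀ β, PvhjArm (pvieY η) (pvhcK κ (𝔓.col t)) β ζ (pviwRad 𝔓 m t + (ζ * z).re) ((ζ * (𝔓.ty t).cm (pvlmH m) z).im - rt) ((ζ * (𝔓.ty t).cm (pvlmH m) z).im + rt) (2 * ρ) ((𝔓.ty t).cm (pvlmH m) z) rs (!β) (GN β) (GC β) (Sg β)) →
          (∀ β, ∀ x ∈ Sg β, ‖x - (𝔓.ty t).cm (pvlmH m) z‖ ≤ rs + μ') → (∀ v : pvieY η, ‖(v : ℂ) - (𝔓.ty t).cm (pvlmH m) z‖ < rs + 4 * ρ → v ∈ K) →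
          PvhjFootP (delbPl (pvieY η)) (pvieCol η (𝔓.col t)) (pvhcK κ (𝔓.col t)) K (𝔖.em 𝔖.nm) GN := by
  obtain ⟨𝔖, G, hO, eF, eZ⟩ := pvfc7_fin_e hμ h3 hb hr hK hD hm h₀ hF
  have hFW : pvilFi 𝔓 m z t η₀ ⊆ pvfc7Wi 𝔓 m z t η₀ := (pvfc7_fi_core hb h₀).trans (pvfc7_core_sub (pvlm_Del_pos c m).le _)
  have hC := pvfc7_C_e (ε := ε) (w := w) (z := z) (η₀ := η₀) hK hD
  have hKp : (pvjeE 𝔓 𝔈 w m ε z t).Fz η₀ ⊆ (pvjeE 𝔓 𝔈 w m ε z t).Kp ((pvjeE 𝔓 𝔈 w m ε z t).Hu η₀) := fun a ha =>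
    ⟨Or.inl ((pvfc7_Wi_eq 𝔓 m z t η₀).subset (hFW ha)), fun h => disjoint_left.1 hC h (hFW ha)⟩
  obtain ⟨κ, k1, k2, k3, k4, k5⟩ := pvhc_lines_in hF (pvhc_pin_fr 𝔓 m z t) h₀ rfl hKp hb
  refine ⟨𝔖, G, hO, eF, eZ, κ, k1, k4, k5, fun K GN GC Sg A hS hKK => ?_⟩
  have st := pvhc_st_in h₀
  have hfz := pvhc_fz_in (delb_pl_eq h₀.good) st E
  have hρ := E.rho
  exact pvhu_foot_in_pl (delb_pl_eq h₀.good) (delb_pl_eq hF.nice.good) hμ' (pvhc_sites hF (pvhc_M_kept hMK hMD _)) hmM st E ht1 ht2 hζ hout hU A hS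
    (fun v v' e _ hv => k2 v v' e (pvwk_banksM_sub_fzIn 𝔖₀ hv))
    (fun v v' e hn hv => k3 v v' e (Or.inl (hU (by rw [mem_closedBall, dist_eq_norm]; linarith))) hv)
    hKK (pvhc_tip_in G).1 (pvhc_tip_in G).2

end model

end Claimed.Agent.R289
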