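-- KEEP
import Claimed.Agent.R289.Tr.HookCol
import Claimed.Agent.R289.Tr.LinkQ
import Claimed.Agent.R289.Tr.DomFl
import Claimed.Agent.R289.Tr.ChainY

/-!
# Row 289 (S0537), THE WALL, ROAD E, E10 AT THE HYBRID ENDS, (b3) DET, file Tr/HookColF : LANE EVENTS UNDER THE COLOUR FLIP; ABSOLUTE COLOURS OF A PATTERN ⟷ RELATIVE COPY COLOURING      (helper88, leaf of 66 id 96775; prefix `pvw7_`)

WHY (66).   The pattern `𝒦` of a test is typed in ABSOLUTE colours (`pvkqPat δ F`, `F : List (Bool × route)`); the hooks (`pvhr_tip_rt`, `pvhr_flink_*`, `pvhc_foot_*` of 235) eat the RELATIVE copy colouring `pvhcK κ b = fun v => κ v == b` (`Tr/HookCol`).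
* sec. 1  the flip on the local package of `Tr/Lane`: `pvw7h_reg_flip`, `pvw7h_all_flip`, `pvw7h_G_flip`, `pvw7h_core_flip`, `pvw7h_loc_flip`, **`pvw7h_lane_flip`** (`cfFlip η ∈ pvlnLaneEv δ c L ↔ η ∈ pvlnLaneEv δ (!c) L`), `pvw7_lane_fl` (form `pvkyFl b`)
* sec. 2  routes and patterns: `pvw7h_rt_flip`, `pvw7_rt_fl`, `pvw7Fl` (a pattern with its colours read relative to `b`), `pvw7_pat_fl`
* sec. 3  sections: `pvw7_K_true`, `pvw7_K_false`, `pvw7_cfOf_K` (`cfOf Y (pvhcK κ b) = pvkyFl b (cfOf Y κ)`), **`pvw7_rt_col`**, **`pvw7_pat_col`**, `pvw7_pat_col'`, `pvw7_pat_iff`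
0 SORRY.
-/

set_option autoImplicit false

namespace Claimed.Agent.R289

open Set

/-! ## 1. the local package of a lane under the colour flip -/

theorem pvw7h_reg_flip (c : Bool) (η : Conf PvPt) : pvlnReg c (cfFlip η) = pvlnReg (!c) η := by
  unfold pvlnReg
  rw [pvr_Bk_flip, pvr_Wh_flip]
  cases c <;> rfl

theorem pvw7h_all_flip (c : Bool) (l : List RswTri) (η : Conf PvPt) : cfFlip η ∈ pvlnAll c l ↔ η ∈ pvlnAll (!c) l := by
  unfold pvlnAll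
  simp only [mem_ofPred_eq, pvw7h_reg_flip]

theorem pvw7h_occ_flip (B : Set ℂ) (η : Conf PvPt) : cfFlip η ∈ pvmOcc (B ×ˢ (univ : Set Bool)) ↔ η ∈ pvmOcc (B ×ˢ (univ : Set Bool)) := by
  constructor
  · rintro ⟨p, hp, hB⟩
    exact ⟨(p.1, !p.2), pvky_mem_flip.1 hp, ⟨hB.1, mem_univ _⟩⟩
  · rintro ⟨p, hp, hB⟩
    refine ⟨(p.1, !p.2), pvky_mem_flip.2 ?_, ⟨hB.1, mem_univ _⟩⟩
    simpa using hp

theorem pvw7h_good_flip (ρ : ℝ) (w : ℂ) (L : ℝ) (η : Conf PvPt) : cfFlip η ∈ pvmGood univ ρ w L ↔ η ∈ pvmGood univ ρ w L := by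
  unfold pvmGood pvmGrid
  simp only [mem_iInter, pvw7h_occ_flip]

theorem pvw7h_G_flip (cen : List ℂ) (u : ℝ) (η : Conf PvPt) : cfFlip η ∈ pvlnG cen u ↔ η ∈ pvlnG cen u := by
  unfold pvlnG
  simp only [mem_ofPred_eq, pvw7h_good_flip]

theorem pvw7h_core_flip (c : Bool) (l : List RswTri) (cen : List ℂ) (u : ℝ) (η : Conf PvPt) : cfFlip η ∈ pvlnCore c l cen u ↔ η ∈ pvlnCore (!c) l cen u := by
  unfold pvlnCore
  simp only [mem_inter_iff, pvw7h_all_flip, pvw7h_G_flip, mem_ofPred_eq, pvrm_LF_flip]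

theorem pvw7h_restr_flip (S : Set ℂ) (η : Conf PvPt) : Conf.restr (S ×ˢ (univ : Set Bool)) (cfFlip η) = cfFlip (Conf.restr (S ×ˢ (univ : Set Bool)) η) :=
  pvky_fl_restr false S η

theorem pvw7h_loc_flip (W : Set ℂ) (c : Bool) (l : List RswTri) (cen : List ℂ) (u : ℝ) (η : Conf PvPt) : cfFlip η ∈ pvlnLoc W c l cen u ↔ η ∈ pvlnLoc W (!c) l cen u := by
  unfold pvlnLoc
  rw [mem_preimage, mem_preimage, pvw7h_restr_flip, pvw7h_core_flip]

/-- **A LANE EVENT UNDER THE COLOUR FLIP** -/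
theorem pvw7h_lane_flip (δ : ℝ) (c : Bool) (L : List (ℤ × ℤ)) (η : Conf PvPt) : cfFlip η ∈ pvlnLaneEv δ c L ↔ η ∈ pvlnLaneEv δ (!c) L := by
  unfold pvlnLaneEv
  exact pvw7h_loc_flip _ _ _ _ _ _

/-- the form of `Tr/ChainY`: the configuration seen by the objects typed for black -/
theorem pvw7_lane_fl (δ : ℝ) (b c : Bool) (L : List (ℤ × ℤ)) (η : Conf PvPt) : pvkyFl b η ∈ pvlnLaneEv δ c L ↔ η ∈ pvlnLaneEv δ (c == b) L := by
  cases b
  · have e : (c == false) = !c := by cases c <;> rfl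
    rw [e]
    exact pvw7h_lane_flip δ c L η
  · have e : (c == true) = c := by cases c <;> rfl
    rw [e]
    rfl

/-! ## 2. routes, patterns -/

theorem pvw7h_rt_flip (δ : ℝ) (c : Bool) (ℓ : List (Set ℂ × ℂ × ℂ)) (η : Conf PvPt) : cfFlip η ∈ pvkqRtEv δ c ℓ ↔ η ∈ pvkqRtEv δ (!c) ℓ :=
  pvw7h_lane_flip δ c _ η

theorem pvw7_rt_fl (δ : ℝ) (b c : Bool) (ℓ : List (Set ℂ × ℂ × ℂ)) (η : Conf PvPt) : pvkyFl b η ∈ pvkqRtEv δ c ℓ ↔ η ∈ pvkqRtEv δ (c == b) ℓ :=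
  pvw7_lane_fl δ b c _ η

/-- a list of coloured routes, its colours read relative to `b` -/
def pvw7Fl (b : Bool) (F : List (Bool × List (Set ℂ × ℂ × ℂ))) : List (Bool × List (Set ℂ × ℂ × ℂ)) := F.map fun x => (x.1 == b, x.2)

theorem pvw7_eqns_cite : True := by
  have := @pvw7Fl.eq_1
  trivial

theorem pvw7_beq_beq (a b : Bool) : ((a == b) == b) = a := by cases a <;> cases b <;> rfl

theorem pvw7_Fl_Fl (b : Bool) (F : List (Bool × List (Set ℂ × ℂ × ℂ))) : pvw7Fl b (pvw7Fl b F) = F := by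
  unfold pvw7Fl
  rw [List.map_map]
  conv_rhs => rw [← List.map_id F]
  refine List.map_congr_left fun x _ => ?_
  simp only [Function.comp, pvw7_beq_beq, id]

theorem pvw7_mem_Fl {b : Bool} {F : List (Bool × List (Set ℂ × ℂ × ℂ))} {x : Bool × List (Set ℂ × ℂ × ℂ)} : x ∈ pvw7Fl b F ↔ (x.1 == b, x.2) ∈ F := by
  unfold pvw7Fl
  constructor
  · intro h
    obtain ⟨y, hy, rfl⟩ := List.mem_map.1 h
    simpa only [pvw7_beq_beq] using hy
  · intro h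
    refine List.mem_map.2 ⟨_, h, ?_⟩
    simp only [pvw7_beq_beq]

theorem pvw7_Fl_length (b : Bool) (F : List (Bool × List (Set ℂ × ℂ × ℂ))) : (pvw7Fl b F).length = F.length := by
  unfold pvw7Fl
  exact List.length_map _

/-- **A PATTERN UNDER THE FLIP** -/
theorem pvw7_pat_fl (δ : ℝ) (b : Bool) (F : List (Bool × List (Set ℂ × ℂ × ℂ))) (η : Conf PvPt) : pvkyFl b η ∈ pvkqPat δ (pvw7Fl b F) ↔ η ∈ pvkqPat δ F := by
  unfold pvkqPat
  simp only [mem_ofPred_eq, pvw7_rt_fl]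
  constructor
  · intro h x hx
    have := h (x.1 == b, x.2) (pvw7_mem_Fl.2 (by simpa only [pvw7_beq_beq] using hx))
    simpa only [pvw7_beq_beq] using this
  · intro h x hx
    exact h _ (pvw7_mem_Fl.1 hx)

/-! ## 3. sections: the relative copy colouring -/

theorem pvw7_K_true (κ : ℂ → Bool) : pvhcK κ true = κ := by
  funext v
  unfold pvhcK
  cases κ v <;> rfl

theorem pvw7_K_false (κ : ℂ → Bool) : pvhcK κ false = pvdfN κ := by
  funext v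
  unfold pvhcK pvdfN
  cases κ v <;> rfl

theorem pvw7_K_K (κ : ℂ → Bool) (b : Bool) : pvhcK (pvhcK κ b) b = κ := by
  funext v
  unfold pvhcK
  exact pvw7_beq_beq _ _

/-- the section with the relative copy colouring = the section seen by the objects typed for black -/
theorem pvw7_cfOf_K (Y : Set ℂ) (κ : ℂ → Bool) (b : Bool) : cfOf Y (pvhcK κ b) = pvkyFl b (cfOf Y κ) := by
  cases b
  · rw [pvw7_K_false, ← pvdf_flip_cfOf]
    rfl
  · rw [pvw7_K_true]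
    rfl

/-- **THE LEAF OF 66**: a route event in the ABSOLUTE colour `bt == b` for the copy colouring `κ` = the route event in the colour `bt` for the RELATIVE copy colouring -/
theorem pvw7_rt_col (Y : Set ℂ) (κ : ℂ → Bool) (b bt : Bool) (δ : ℝ) (ℓ : List (Set ℂ × ℂ × ℂ)) : cfOf Y κ ∈ pvkqRtEv δ (bt == b) ℓ ↔ cfOf Y (pvhcK κ b) ∈ pvkqRtEv δ bt ℓ := by
  rw [pvw7_cfOf_K, pvw7_rt_fl]

/-- the same for a bare lane event -/
theorem pvw7_lane_col (Y : Set ℂ) (κ : ℂ → Bool) (b bt : Bool) (δ : ℝ) (L : List (ℤ × ℤ)) : cfOf Y κ ∈ pvlnLaneEv δ (bt == b) L ↔ cfOf Y (pvhcK κ b) ∈ pvlnLaneEv δ bt L := by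
  rw [pvw7_cfOf_K, pvw7_lane_fl]

/-- **COROLLARY**: one route of a pattern -/
theorem pvw7_pat_col {Y : Set ℂ} {κ : ℂ → Bool} {b bt : Bool} {δ : ℝ} {F : List (Bool × List (Set ℂ × ℂ × ℂ))} {ℓ : List (Set ℂ × ℂ × ℂ)} (h : cfOf Y κ ∈ pvkqPat δ F) (hm : (bt == b, ℓ) ∈ F) :
    cfOf Y (pvhcK κ b) ∈ pvkqRtEv δ bt ℓ := by
  have h' : ∀ x ∈ F, cfOf Y κ ∈ pvkqRtEv δ x.1 x.2 := by
    unfold pvkqPat at h
    exact h
  exact (pvw7_rt_col Y κ b bt δ ℓ).1 (h' (bt == b, ℓ) hm)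

/-- the same, the absolute colour `a` of the route given: relative colour `a == b` -/
theorem pvw7_pat_col' {Y : Set ℂ} {κ : ℂ → Bool} {a : Bool} (b : Bool) {δ : ℝ} {F : List (Bool × List (Set ℂ × ℂ × ℂ))} {ℓ : List (Set ℂ × ℂ × ℂ)} (h : cfOf Y κ ∈ pvkqPat δ F) (hm : (a, ℓ) ∈ F) :
    cfOf Y (pvhcK κ b) ∈ pvkqRtEv δ (a == b) ℓ :=
  pvw7_pat_col h (by rwa [pvw7_beq_beq])

/-- the whole pattern -/
theorem pvw7_pat_iff (Y : Set ℂ) (κ : ℂ → Bool) (b : Bool) (δ : ℝ) (F : List (Bool × List (Set ℂ × ℂ × ℂ))) : cfOf Y (pvhcK κ b) ∈ pvkqPat δ (pvw7Fl b F) ↔ cfOf Y κ ∈ pvkqPat δ F := by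
  rw [pvw7_cfOf_K, pvw7_pat_fl]

end Claimed.Agent.R289
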