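-- KEEP
import Claimed.Agent.R289.Tr.KitDict
import Claimed.Agent.R289.Tr.FrcDoor
import Claimed.Agent.R289.Tr.FrcM
import Claimed.Agent.R289.Tr.PlugEv
import Claimed.Agent.R289.Defs.GdReg
import Claimed.Agent.R289.Tr.KitGeo

/-!
# Row 289 (S0537), THE WALL, ROAD E, E10 step (b2), file Tr/DoorSoft : THE SOFT HALF OF A DOOR END = FROM THE UNIT DATUM AT THE PLACED CONFIGURATION TO THE PLANE MAP OF `η` ITSELF      (owner helper173; T16 of 24, RULING 22 (7) of 234; prefix `pvyo_`, `pvyo`, `Pvyo`)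

ON TOP OF `Tr/FrcDoor` OF 77 (placing map `pvdpT z a c η = cfMap (pvthInv z a) (pvkyFl c η)`, `pvdpPl`, `pvdp_P thr sure reads`, `pvdp_Gk`, `pvdp_thr_k`, `PvdpEnd`: `mH rH thr up` of the roofs `pvlhg_forced` (250) / `pvrg_end_of` (256)).      NOTHING OF IT IS RETYPED.
WHAT IS HERE = what DET (b3), (b6) and the field `loc` of `PvjeTest.Ok` (35) eat at a door type end (cell door, reference plug): colour `b`, frame `(z,d)`, `d ^ 4 = 1`, ANY scale `s > 0`, ANY plug `𝔭`, ANY truncation `𝔱` with `PvhfGeo 𝔭 𝔱` (174): no numeral.      0 sorry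
* sec. 1  DETERMINISTIC DICTIONARY (transport along `PvukMor` of 244):
          `pvyo_N_iff` : `pvdpT z (d s) b η ∈ 𝔭.N 0 1 ↔ η ∈ (𝔭.sc s).N z d`;      **`pvyo_door_of_C`** : `pvdpT z (d s) b η ∈ 𝔭.C 0 1`, one colour per site `⟹ ∃ 𝔖, PvilDoor (𝔭.sc s) b η z d 𝔖`;
          `PvyoLn b η L Dr β x` (a lane in the plane map of `η`, black `=` colour `b`, ABSOLUTE regions), **`PvyoSd 𝔭 𝔱 σ b η z d s g`** = `gate black white mesh`;
          **`pvyo_side`** (S1) : `η ∈ pvdpPl z (d s) b (pvhfS 𝔭 𝔱 σ)`, one colour per site, `DelGood` `⟹ ∃ g, PvyoSd 𝔭 𝔱 σ b η z d s g`;      **`PvyoSd.door`** : `PvilDoor (𝔭.sc s) b η z d (pvilStS .. g)` WITH THE SAME GATE `g` (nice `η`);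
          `pvyo_mesh_sim`, **`pvyo_mesh_T`** : a mesh clause of the unit datum (wrapper `Hf i ∩ R μ₁` of R23 (1')) is the mesh `‖a‖ μ₁` of `η` on the placed region, no hypothesis on `η`.
* sec. 2  THE CLAUSE `Sure` IS POINTWISE (the kit of 34 uses `pvtiP = 1`, no `toMeasurable`): `pvyo_sure_ex`, **`pvyo_C_loc`** (the plug is read in `Ew`, deterministic: representative of `Tr/PlugEv`), `pvyo_nice`,
          **`pvyo_door_W`** : `pvtiP μ (W ×ˢ univ) (pvdpPl z (d s) b (𝔤.C 0 1)) η = 1`, placed `Ew ⊆ W` `⟹` EVERY nice `η'` with one colour per site, `= η` on `W`, has `∃ 𝔖, PvilDoor (𝔤.sc s) b η' z d 𝔖`;      `pvyo_door_pt`, `pvyo_door_ae`.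
* sec. 3  AT THE MODEL (`PvkmEng 𝔈 c U`): **`pvyo_door_k`**, `pvyo_door_k_ae` (`pvrgGk`), **`pvyo_door_r`** (`pvrgGr`: ANY scale `S`, window `rO m`; hypotheses `hW hC` = what is read of `rO rG`), `pvyo_glob_sure`.
* sec. 4  AT THE DATUM OF RECORD `pvkgG`: `pvyo_plug_rd`, **`pvyo_rec_door 𝔓 hU hk`** (= `loc` of 35 at the ends `o i`), `pvyo_rec_door_ae`;      at the engine of record: `hU := pvnr_num N hN c nb`, `hk := fun _ => rfl` (NO name of `Exit/EngRec` in this file: it survives the swap `PvnaNb N` of R24).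
-/

set_option autoImplicit false
set_option linter.unusedSectionVars false

namespace Claimed.Agent.R289

open MeasureTheory Set Filter Topology Claims.C0465
open scoped ENNReal

/-! ## 1. THE DETERMINISTIC DICTIONARY: unit datum at the placed configuration ⟹ objects of the plane map of `η` itself, colour `b`, scale `s` -/

section det

variable {z d : ℂ} {s : ℝ} {b : Bool} {η : Conf PvPt}

theorem pvyo_sites (z a : ℂ) (b : Bool) (η : Conf PvPt) : cfSites (pvdpT z a b η) = cfSites (cfMap (pvthInv z a) η) := by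
  have e : ∀ ζ : Conf PvPt, cfSites (cfMap (pvthInv z a) ζ) = pvthInv z a '' cfSites ζ := fun ζ => vorc_sites_image _ ζ
  unfold pvdpT
  rw [e, e, pvuk_sites_fl]

theorem pvyo_ne (hd : ‖d‖ = 1) (hs : 0 < s) : d * (s : ℂ) ≠ 0 := mul_ne_zero (pvth_ne_zero hd) (Complex.ofReal_ne_zero.2 hs.ne')

theorem pvyo_norm (hd : ‖d‖ = 1) (hs : 0 < s) : ‖d * (s : ℂ)‖ = s := by
  rw [norm_mul, hd, one_mul, Complex.norm_real, Real.norm_eq_abs, abs_of_pos hs]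

/-- nice + mesh of the plug -/
theorem pvyo_N_iff (𝔭 : PvkdPlug) (hd : d ^ 4 = 1) (hs : 0 < s) (z : ℂ) (b : Bool) (η : Conf PvPt) : pvdpT z (d * s) b η ∈ 𝔭.N 0 1 ↔ η ∈ (𝔭.sc s).N z d := by
  have hd0 := pvco_ne hd
  have e1 : pvdpT z (d * s) b η ∈ 𝔭.N 0 1 ↔ cfMap (pvthInv z (d * s)) η ∈ 𝔭.N 0 1 := by
    unfold PvkdPlug.N
    simp only [mem_ofPred_eq]
    rw [pvyo_sites]
  have e2 := pvdil_cov_N 𝔭 hs 0 1
  rw [mul_zero] at e2
  rw [e1, pvco_cov_N (𝔭.sc s) z hd, ← pvuk_sc_comp z hd0 s η, e2]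
  exact Iff.rfl

/-- **THE PLUG OF THE UNIT DATUM AT THE PLACED CONFIGURATION IS A DOOR END OF `Tr/InstL`** -/
theorem pvyo_door_of_C (𝔭 : PvkdPlug) (hd : d ^ 4 = 1) (hs : 0 < s) (h1 : ∀ p ∈ η.pts, ∀ q ∈ η.pts, p.1 = q.1 → p = q) (h : pvdpT z (d * s) b η ∈ 𝔭.C 0 1) :
    ∃ 𝔖, PvilDoor (𝔭.sc s) b η z d 𝔖 := by
  have hN := (pvyo_N_iff 𝔭 hd hs z b η).1 h.1
  unfold pvdpT at h
  obtain ⟨-, g, hg⟩ := h
  have hn : ‖d‖ = 1 := pvth_norm_of_pow hd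
  have M := pvuk_mor b h1 z (pvyo_ne hn hs)
  have hg' := pvuk_mor_gate M hn hs hg
  rw [pvuk_vor_zero, mul_one] at hg'
  exact ⟨_, hN, M.gate g, hg', rfl⟩

/-- **a lane** of colour `β` (black `=` the colour `b` of `η`) from the vertex `x` to the target `Dr` through sites of the room `L` (ABSOLUTE regions), in the plane map of `η` -/
def PvyoLn (b : Bool) (η : Conf PvPt) (L Dr : Set ℂ) (β : Bool) (x : ↥(cfSites η)) : Prop :=
  ∃ v : ↥(cfSites η), (v : ℂ) ∈ Dr ∧ (pvkiT η).Join univ (pvldCol (pvukS b η) {u | (u : ℂ) ∈ L} β) x v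

/-- **THE SIDE `σ` OF THE PLUG `𝔭.sc s` PLACED AT `(z,d)`, PLAIN FORM, colour `b`**: the gate of record, its black lane, its white lane (truncation `𝔱`), the mesh of the window of the side event -/
structure PvyoSd (𝔭 : PvkdPlug) (𝔱 : PvhfTr) (σ b : Bool) (η : Conf PvPt) (z d : ℂ) (s : ℝ) (g : (pvkiT η).Gate (pvukS b η)) : Prop where
  gate : PvukGate (𝔭.sc s) b η z d g
  black : PvyoLn b η (pvkdAt z (d * s) (𝔱.Ln σ true)) (pvkdAt z (d * s) (𝔱.Dr σ true)) true (pvkdFoot g σ true)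
  white : PvyoLn b η (pvkdAt z (d * s) (𝔱.Ln σ false)) (pvkdAt z (d * s) (𝔱.Dr σ false)) false (pvkdFoot g σ false)
  mesh : PvtrMesh (s * 𝔭.ρ) (pvkdAt z (d * s) (𝔱.Es σ)) (cfSites η)

theorem pvyo_eqns_cite2 : True := by
  have := @PvyoLn.eq_1
  trivial

section mor

variable {ξ : Conf PvPt} {a c : ℂ}

theorem pvyo_foot (M : PvukMor ξ η b a c) (g : (pvkiT ξ).Gate (pvkiS ξ)) (σ β : Bool) : pvkdFoot (M.gate g) σ β = M.iso.fV (pvkdFoot g σ β) := by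
  unfold pvkdFoot
  cases σ <;> cases β
  · show (pvkiT η).tgt (pvcoGate M.iso M.hs g).aIn = _
    rw [pvco_gate_aIn, M.iso.tgt]; rfl
  · exact pvco_gate_vm M.iso M.hs g
  · show (pvkiT η).tgt (pvcoGate M.iso M.hs g).aOut = _
    rw [pvco_gate_aOut, M.iso.tgt]; rfl
  · exact pvco_gate_vp M.iso M.hs g

theorem pvyo_mk (M : PvukMor ξ η b a c) (S : Set ℂ) : PvcoMk M.iso Subtype.val Subtype.val (pvkdAt 0 1 S) (pvkdAt c a S) := by
  have := M.at' 0 1 S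
  rwa [pvuk_vor_zero, mul_one] at this

theorem pvyo_lane (M : PvukMor ξ η b a c) {L Dr : Set ℂ} {β : Bool} {x : ↥(cfSites ξ)} (h : PvhfLn ξ 0 1 L Dr β x) : PvyoLn b η (pvkdAt c a L) (pvkdAt c a Dr) β (M.iso.fV x) := by
  obtain ⟨v, hv, hj⟩ := h
  refine ⟨M.iso.fV v, (pvyo_mk M Dr v).2 hv, ?_⟩
  have e : {u : ↥(cfSites η) | (u : ℂ) ∈ pvkdAt c a L} = M.iso.fV '' {u : ↥(cfSites ξ) | (u : ℂ) ∈ pvkdAt 0 1 L} := (pvyo_mk M L).set
  rw [e, pvco_col M.iso M.hs, ← pvco_univ M.iso]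
  exact (pvco_join M.iso _ _ _ _).2 hj

theorem pvyo_at_vor (a c : ℂ) (S : Set ℂ) : pvkdAt c a S = vorSim a c '' S := by
  have := pvco_at a c 0 1 S
  rwa [pvuk_vor_zero, mul_one, pvze_at_id] at this

/-- the mesh under a similarity -/
theorem pvyo_mesh_sim (ha : a ≠ 0) (c : ℂ) {ρ : ℝ} {E Y : Set ℂ} (h : PvtrMesh ρ E Y) : PvtrMesh (‖a‖ * ρ) (pvkdAt c a E) (vorSim a c '' Y) := by
  unfold PvtrMesh at h ⊢
  rw [pvyo_at_vor]
  refine ((vorc_dense (vorc_sim_vorSim a c ha)).2 h).mono Subset.rfl ?_ le_rfl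
  intro w' hw'
  obtain ⟨w, rfl⟩ := vorSim_surjective ha c w'
  refine ⟨w, fun u hu => ?_, rfl⟩
  have h1 : vorSim a c u ∈ Metric.closedBall (vorSim a c w) (‖a‖ * ρ) := by
    rw [mem_closedBall_iff_norm, pvco_sub, norm_mul]
    exact mul_le_mul_of_nonneg_left (mem_closedBall_iff_norm.1 hu) (norm_nonneg a)
  exact (vorSim_injective ha c).mem_set_image.1 (hw' h1)

theorem pvyo_mesh (M : PvukMor ξ η b a c) {ρ : ℝ} {E : Set ℂ} (h : PvtrMesh ρ E (cfSites ξ)) : PvtrMesh (‖a‖ * ρ) (pvkdAt c a E) (cfSites η) := by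
  rw [M.Y]
  exact pvyo_mesh_sim M.a0 c h

/-- the sites of `η` are the images of the sites of the placed configuration -/
theorem pvyo_sites_eq (z : ℂ) (ha : a ≠ 0) (b : Bool) (η : Conf PvPt) : cfSites η = vorSim a z '' cfSites (pvdpT z a b η) := by
  have e : cfSites (cfMap (pvthInv z a) η) = pvthInv z a '' cfSites η := vorc_sites_image _ η
  rw [pvyo_sites, e, image_image]
  have : ∀ w, vorSim a z (pvthInv z a w) = w := fun w => by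
    unfold vorSim pvthInv
    field_simp
    ring
  simp only [this, image_id']

/-- **a mesh clause of the unit datum at the placed configuration is a mesh of `η` on the placed region** (no hypothesis on `η`: for the wrapper `Hf i ∩ R μ₁` of R23 (1')) -/
theorem pvyo_mesh_T (z : ℂ) (ha : a ≠ 0) (b : Bool) {ρ : ℝ} {E : Set ℂ} {η : Conf PvPt} (h : PvtrMesh ρ E (cfSites (pvdpT z a b η))) : PvtrMesh (‖a‖ * ρ) (pvkdAt z a E) (cfSites η) := by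
  rw [pvyo_sites_eq z ha b η]
  exact pvyo_mesh_sim ha z h

end mor

/-- **(S1) THE DICTIONARY OF THE PLACED SIDE EVENT**, DETERMINISTIC: at a configuration in general position with one colour per site, the side event of 174 evaluated at the placed configuration gives, IN THE PLANE MAP OF `η`, for the colour `b`:
the gate of record of the scaled plug, its two lanes of the side `σ`, the mesh of the placed window -/
theorem pvyo_side {𝔭 : PvkdPlug} {𝔱 : PvhfTr} (hG : PvhfGeo 𝔭 𝔱) (σ : Bool) (hd : ‖d‖ = 1) (hs : 0 < s) (h1 : ∀ p ∈ η.pts, ∀ q ∈ η.pts, p.1 = q.1 → p = q) (hη : DelGood (cfSites η))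
    (h : pvdpT z (d * s) b η ∈ pvhfS 𝔭 𝔱 σ) : ∃ g, PvyoSd 𝔭 𝔱 σ b η z d s g := by
  unfold pvdpT at h
  have M := pvuk_mor b h1 z (pvyo_ne hd hs)
  have hξ : DelGood (cfSites (cfMap (pvthInv z (d * s)) (pvkyFl b η))) := (pvcv_good_iff M.a0 M.Y).1 hη
  obtain ⟨⟨-, hm⟩, g, hg, hb, hw⟩ := (pvhf_S_iff0 hG σ hξ).1 h
  refine ⟨M.gate g, ?_, ?_, ?_, ?_⟩
  · have hg' := pvuk_mor_gate M hd hs hg
    rwa [pvuk_vor_zero, mul_one] at hg'
  · rw [pvyo_foot]; exact pvyo_lane M hb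
  · rw [pvyo_foot]; exact pvyo_lane M hw
  · have := pvyo_mesh M hm
    rwa [pvyo_norm hd hs] at this

/-- **THE SIDE IN PLAIN FORM CARRIES THE DOOR END OF `Tr/InstL`, WITH THE SAME GATE** (so the feet of the two lanes are the feet of THE gate of the door state: no uniqueness argument in DET) -/
theorem PvyoSd.door {𝔭 : PvkdPlug} {𝔱 : PvhfTr} (hG : PvhfGeo 𝔭 𝔱) {σ : Bool} {g : (pvkiT η).Gate (pvukS b η)} (h : PvyoSd 𝔭 𝔱 σ b η z d s g) (hn : PvatNice (cfSites η)) :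
    PvilDoor (𝔭.sc s) b η z d (pvilStS (𝔭.sc s) η (pvieCol η b) z g) := by
  refine ⟨⟨hn, ?_⟩, g, h.gate, rfl⟩
  show PvtrMesh (s * 𝔭.ρ) (pvkdAt z d (pvdilS s 𝔭.Ew)) (cfSites η)
  rw [pvuk_at_sc]
  exact fun w hw => h.mesh w (pvtr_core_mono (image_mono (hG.wf σ).sub) hw)

end det

/-! ## 2. THE DOOR: a sure plug is a door end, POINTWISE and almost surely -/

section soft

variable {z d : ℂ} {s : ℝ} {b : Bool} {η : Conf PvPt}

/-- a sure event holds for at least one exterior -/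
theorem pvyo_sure_ex {μ : Measure (Conf PvPt)} {W : Set PvPt} {M : Set (Conf PvPt)} {σ : Conf PvPt} (h : pvtiP μ W M σ = 1) : ∃ ξ, Conf.spl W (σ, ξ) ∈ M := by
  by_contra hcon
  have h0 : pvtiP μ W M σ = 0 := by
    unfold pvtiP
    have : ∀ ξ, M.indicator (1 : Conf PvPt → ℝ≥0∞) (Conf.spl W (σ, ξ)) = 0 := fun ξ => indicator_of_notMem (fun hx => hcon ⟨ξ, hx⟩) _
    simp only [this, lintegral_zero]
  rw [h0] at h
  exact zero_ne_one h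

variable {𝔤 : PvkdGeo}

/-- **THE PLUG IS READ IN ITS WINDOW, DETERMINISTIC**: two configurations which agree on the window of the plug, the second one nice -/
theorem pvyo_C_loc (G : PvzeGeo 𝔤) {η η' : Conf PvPt} (h : η ∈ 𝔤.C 0 1) (hr : Conf.restr (𝔤.Ew ×ˢ univ) η' = Conf.restr (𝔤.Ew ×ˢ univ) η)
    (hn : PvatNice (cfSites η')) : η' ∈ 𝔤.C 0 1 := by
  obtain ⟨B, -, h2, h3⟩ := G.lkC.repC
  have hr' : Conf.restr (pvkdAt 0 1 𝔤.Ew ×ˢ univ) η' = Conf.restr (pvkdAt 0 1 𝔤.Ew ×ˢ univ) η := by rw [pvze_at_id]; exact hr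
  have hm : PvtrMesh 𝔤.ρ (pvkdAt 0 1 𝔤.Ew) (cfSites η') := by
    have e1 := pvtr_reads_mesh 𝔤.ρ (pvkdAt 0 1 𝔤.Ew) η'
    have e2 := pvtr_reads_mesh 𝔤.ρ (pvkdAt 0 1 𝔤.Ew) η
    simp only at e1 e2
    rw [← e1, hr', e2]
    exact h.1.2
  have hN' : η' ∈ pvzeN 𝔤.ρ (pvkdAt 0 1 𝔤.Ew) := ⟨hn, hm⟩
  refine ⟨hN', (h3 η' hN').1 ?_⟩
  rw [← h2 η', hr', h2 η]
  exact (h3 η h.1).2 h.2

/-- niceness at the placed configuration -/
theorem pvyo_nice (hd : d ^ 4 = 1) (hs : 0 < s) (z : ℂ) (b : Bool) {η : Conf PvPt} (h : PvatNice (cfSites η)) : PvatNice (cfSites (pvdpT z (d * s) b η)) := by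
  rw [pvyo_sites, ← pvuk_sc_comp z (pvco_ne hd) s η]
  exact (pvdil_fr_inv hs _).symm.nice ((pvco_fr_inv hd z η).nice h)

/-- **(S2) THE DOOR, POINTWISE, ANY WINDOW**: given `η` on a window `W` which contains the placed window of the plug, the placed plug is sure (`pvtiP = 1`: the clause `Sure` of the usable states of 34, of `pvnaRG`).
Then EVERY nice configuration `η'` with one colour per site which agrees with `η` on `W` carries the door end of `Tr/InstL` -/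
theorem pvyo_door_W (G : PvzeGeo 𝔤) (hd : d ^ 4 = 1) (hs : 0 < s) {μ : Measure (Conf PvPt)} {W : Set ℂ} (hW : pvthSim z (d * s) '' 𝔤.Ew ⊆ W)
    (h : pvtiP μ (W ×ˢ univ) (pvdpPl z (d * s) b (𝔤.C 0 1)) η = 1) {η' : Conf PvPt} (hr : Conf.restr (W ×ˢ univ) η' = Conf.restr (W ×ˢ univ) η)
    (hn : PvatNice (cfSites η')) (h1 : ∀ p ∈ η'.pts, ∀ q ∈ η'.pts, p.1 = q.1 → p = q) : ∃ 𝔖, PvilDoor (𝔤.toPvkdPlug.sc s) b η' z d 𝔖 := by
  have ha := pvyo_ne (pvth_norm_of_pow hd) hs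
  obtain ⟨ξ, hξ⟩ := pvyo_sure_ex h
  refine pvyo_door_of_C 𝔤.toPvkdPlug hd hs h1 (pvyo_C_loc G hξ ?_ (pvyo_nice hd hs z b hn))
  have hsub : (pvthSim z (d * s) '' 𝔤.Ew) ×ˢ (univ : Set Bool) ⊆ W ×ˢ univ := prod_mono hW le_rfl
  rw [← pvdp_T_restr z _ ha, ← pvdp_T_restr z _ ha, ← Conf.restr_restr_of_subset hsub η', hr, Conf.restr_spl_of_subset hsub, Conf.restr_restr_of_subset hsub]

/-- **(S2) THE DOOR OF A USABLE STATE OF THE KIT OF 34, POINTWISE** (`pvrgGk` has this form: `pvdp_Gk` of 77) -/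
theorem pvyo_door_pt (G : PvzeGeo 𝔤) (Hf : Fin 4 → Set (Conf PvPt)) (hd : d ^ 4 = 1) (hs : 0 < s) (e : ℝ) (b0 : ℝ≥0∞) (h : η ∈ pvdpPl z (d * s) b ((𝔤.glob Hf).G₀ (pvP e) b0)) {η' : Conf PvPt}
    (hr : Conf.restr ((pvthSim z (d * s) '' 𝔤.O₀) ×ˢ univ) η' = Conf.restr ((pvthSim z (d * s) '' 𝔤.O₀) ×ˢ univ) η)
    (hn : PvatNice (cfSites η')) (h1 : ∀ p ∈ η'.pts, ∀ q ∈ η'.pts, p.1 = q.1 → p = q) : ∃ 𝔖, PvilDoor (𝔤.toPvkdPlug.sc s) b η' z d 𝔖 := by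
  have ha := pvyo_ne (pvth_norm_of_pow hd) hs
  have h3 : η ∈ pvdpPl z (d * s) b (pvpgSure (pvP e) (𝔤.O₀ ×ˢ univ) (𝔤.C 0 1)) := by
    have h4 : pvdpT z (d * s) b η ∈ pvpgSure (pvP e) ((𝔤.glob Hf).pre.O 0 1) (𝔤.C 0 1) := h.1
    have e1 : (𝔤.glob Hf).pre.O 0 1 = 𝔤.O₀ ×ˢ univ := by
      show (pvthSim 0 1 '' 𝔤.O₀) ×ˢ univ = _
      rw [pvdp_sim01]
    rw [e1] at h4
    exact h4
  rw [pvdp_sure z _ ha] at h3
  exact pvyo_door_W G hd hs (image_mono G.EO) h3 hr hn h1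

/-- **(S2) THE DOOR, ALMOST SURELY** -/
theorem pvyo_door_ae (G : PvzeGeo 𝔤) (Hf : Fin 4 → Set (Conf PvPt)) (hd : d ^ 4 = 1) (hs : 0 < s) (e : ℝ) (b0 : ℝ≥0∞) (z : ℂ) (b : Bool) {ε : ℝ} (hε : ε ≠ 0) :
    ∀ᵐ η ∂(pvP ε), η ∈ pvdpPl z (d * s) b ((𝔤.glob Hf).G₀ (pvP e) b0) → ∃ 𝔖, PvilDoor (𝔤.toPvkdPlug.sc s) b η z d 𝔖 := by
  filter_upwards [pvat_nice_ae hε, delgp_ae_conf ε] with η a1 a2 h
  exact pvyo_door_pt G Hf hd hs e b0 h rfl a1 a2.2.2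

end soft

/-! ## 3. AT THE MODEL -/

section model

variable {τ : Type} {c : ℝ} {𝔈 : PvieEng τ} {U : PvkmUnit} {𝔤 : PvkdGeo} {η η' : Conf PvPt}

/-- **(S2) DOOR PLUG OF LEVEL `m`, POINTWISE**.      `hO hC` = what is read of the reference family: its door region, the clause `Sure` of its usable states (BY DEFINITION for the kit of 34, whatever the side events are: `pvyo_glob_sure`) -/
theorem pvyo_door_k (hU : PvkmEng 𝔈 c U) (G : PvzeGeo 𝔤) (hO : ∀ e, (U.kit e).O₀ = 𝔤.O₀) (hC : ∀ e, (U.kit e).G₀ ⊆ pvpgSure (pvP e) (𝔤.O₀ ×ˢ univ) (𝔤.C 0 1))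
    (m : ℕ) (ε : ℝ) (b : Bool) (z : ℂ) {d : ℂ} (hd : d ^ 4 = 1) (h : η ∈ pvrgGk 𝔈 m ε b z d)
    (hr : Conf.restr (pvkyDoor (𝔈.kit m ε) z d ×ˢ univ) η' = Conf.restr (pvkyDoor (𝔈.kit m ε) z d ×ˢ univ) η)
    (hn : PvatNice (cfSites η')) (h1 : ∀ p ∈ η'.pts, ∀ q ∈ η'.pts, p.1 = q.1 → p = q) : ∃ 𝔖, PvilDoor (𝔤.toPvkdPlug.sc (pvlmDel c m)) b η' z d 𝔖 := by
  have hn1 : ‖d‖ = 1 := pvth_norm_of_pow hd
  rw [pvdp_Gk hU m ε b z d (pvth_ne_zero hn1)] at h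
  rw [pvdp_door hU, hO] at hr
  have h3 := pvdp_Pl_mono z (d * pvlmDel c m) b (hC _) h
  rw [pvdp_sure z _ (pvdp_a_ne hn1 c m)] at h3
  exact pvyo_door_W G hd (pvlm_Del_pos c m) (image_mono G.EO) h3 hr hn h1

/-- **(S2) DOOR PLUG OF LEVEL `m`, ALMOST SURELY** -/
theorem pvyo_door_k_ae (hU : PvkmEng 𝔈 c U) (G : PvzeGeo 𝔤) (hO : ∀ e, (U.kit e).O₀ = 𝔤.O₀) (hC : ∀ e, (U.kit e).G₀ ⊆ pvpgSure (pvP e) (𝔤.O₀ ×ˢ univ) (𝔤.C 0 1))
    (m : ℕ) {ε : ℝ} (hε : ε ≠ 0) (b : Bool) (z : ℂ) {d : ℂ} (hd : d ^ 4 = 1) :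
    ∀ᵐ η ∂(pvP ε), η ∈ pvrgGk 𝔈 m ε b z d → ∃ 𝔖, PvilDoor (𝔤.toPvkdPlug.sc (pvlmDel c m)) b η z d 𝔖 := by
  filter_upwards [pvat_nice_ae hε, delgp_ae_conf ε] with η a1 a2 h
  exact pvyo_door_k hU G hO hC m ε b z hd h rfl a1 a2.2.2

/-- **(S2) REFERENCE PLUG, POINTWISE**: ANY scale `S`, the window `rO m` of record.      `hW hC` = what is read of `rO`, `rG` -/
theorem pvyo_door_r (𝔈 : PvieEng τ) (G : PvzeGeo 𝔤) {S : ℝ} (hS : 0 < S) (m : ℕ) (ε : ℝ) (b : Bool) (z : ℂ) (hW : pvthSim 0 S '' 𝔤.Ew ⊆ 𝔈.rO m)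
    (hC : 𝔈.rG m ε ⊆ pvpgSure (pvP ε) (𝔈.rO m ×ˢ univ) (cfMap (pvthInv 0 (S : ℂ)) ⁻¹' 𝔤.C 0 1)) (h : η ∈ pvrgGr 𝔈 m ε b z)
    (hr : Conf.restr (pvieSh z (𝔈.rO m) ×ˢ univ) η' = Conf.restr (pvieSh z (𝔈.rO m) ×ˢ univ) η)
    (hn : PvatNice (cfSites η')) (h1 : ∀ p ∈ η'.pts, ∀ q ∈ η'.pts, p.1 = q.1 → p = q) : ∃ 𝔖, PvilDoor (𝔤.toPvkdPlug.sc S) b η' z 1 𝔖 := by
  rw [pvdp_Gr] at h
  have h3 := pvdp_Pl_mono z 1 b hC h
  rw [pvdp_sure z 1 one_ne_zero, norm_one, one_mul, ← pvdp_sh_eq] at h3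
  have e : pvdpPl z 1 b (cfMap (pvthInv 0 (S : ℂ)) ⁻¹' 𝔤.C 0 1) = pvdpPl z (1 * S) b (𝔤.C 0 1) := by
    ext ζ
    show cfMap (pvthInv 0 (S : ℂ)) (pvdpT z 1 b ζ) ∈ 𝔤.C 0 1 ↔ pvdpT z (1 * S) b ζ ∈ 𝔤.C 0 1
    rw [pvdp_T_comp z 1 0 S one_ne_zero, mul_zero, add_zero]
  rw [e] at h3
  refine pvyo_door_W G (by norm_num) hS ?_ h3 hr hn h1
  rintro _ ⟨w, hw, rfl⟩
  refine ⟨pvthSim 0 S w, hW ⟨w, hw, rfl⟩, ?_⟩
  unfold pvthSim
  ring

/-- BY DEFINITION of the usable states of 34: the plug is sure given the door region, whatever the side events are -/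
theorem pvyo_glob_sure (𝔤 : PvkdGeo) (Hf : Fin 4 → Set (Conf PvPt)) (μ : Measure (Conf PvPt)) (b q : ℝ≥0∞) : ((𝔤.glob Hf).kit μ b q).G₀ ⊆ pvpgSure μ (𝔤.O₀ ×ˢ univ) (𝔤.C 0 1) := by
  intro η hη
  have h1 : η ∈ pvpgSure μ ((𝔤.glob Hf).pre.O 0 1) (𝔤.C 0 1) := hη.1
  have e : (𝔤.glob Hf).pre.O 0 1 = 𝔤.O₀ ×ˢ univ := by
    show (pvthSim 0 1 '' 𝔤.O₀) ×ˢ univ = _
    rw [pvdp_sim01]
  rw [e] at h1
  exact h1

end model

/-! ## 4. AT THE DATUM OF RECORD `pvkgG` (258)      [no name of `Exit/EngRec` here: at the engine of record `hU := pvnr_num N hN c nb`, `hk := fun _ => rfl`] -/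

section rec

variable {τ : Type} {c : ℝ} (𝔓 : PvxPar τ c) {𝔈 : PvieEng τ} {U : PvkmUnit} {Hf : Fin 4 → Set (Conf PvPt)} {b0 q : ℝ≥0∞} {η η' : Conf PvPt}

/-- the door plug of record of level `m` is the plug of the unit datum, scaled -/
theorem pvyo_plug_rd (m : ℕ) : pvkgG.toPvkdPlug.sc (pvlmDel c m) = pvkdP (pvilRd 𝔓 m) := by
  show (pvkdP (1 / 40)).sc (pvlmDel c m) = pvkdP (pvlmDel c m / 40)
  rw [pvdil_P (pvlm_Del_pos c m), mul_one_div]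

/-- **(S2) AT THE DATUM OF RECORD, POINTWISE** = the field `loc` of `PvjeTest.Ok` (35) for the ends `o`, `i` with `Cd := {η | ∃ 𝔖, PvilDoor ..}` -/
theorem pvyo_rec_door (hU : PvkmEng 𝔈 c U) (hk : ∀ e, U.kit e = (pvkgG.glob Hf).kit (pvP e) b0 q) (m : ℕ) (ε : ℝ) (b : Bool) (z : ℂ) {d : ℂ} (hd : d ^ 4 = 1) (h : η ∈ pvrgGk 𝔈 m ε b z d)
    (hr : Conf.restr (pvieDoor 𝔈 m ε z d ×ˢ univ) η' = Conf.restr (pvieDoor 𝔈 m ε z d ×ˢ univ) η)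
    (hn : PvatNice (cfSites η')) (h1 : ∀ p ∈ η'.pts, ∀ q ∈ η'.pts, p.1 = q.1 → p = q) : ∃ 𝔖, PvilDoor (pvkdP (pvilRd 𝔓 m)) b η' z d 𝔖 := by
  rw [← pvyo_plug_rd 𝔓 m]
  exact pvyo_door_k hU pvkgg_ze (fun e => by rw [hk e]; rfl) (fun e => by rw [hk e]; exact pvyo_glob_sure pvkgG Hf (pvP e) b0 q) m ε b z hd h hr hn h1

/-- **(S2) AT THE DATUM OF RECORD, ALMOST SURELY** -/
theorem pvyo_rec_door_ae (hU : PvkmEng 𝔈 c U) (hk : ∀ e, U.kit e = (pvkgG.glob Hf).kit (pvP e) b0 q) (m : ℕ) {ε : ℝ} (hε : ε ≠ 0) (b : Bool) (z : ℂ) {d : ℂ} (hd : d ^ 4 = 1) :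
    ∀ᵐ η ∂(pvP ε), η ∈ pvrgGk 𝔈 m ε b z d → ∃ 𝔖, PvilDoor (pvkdP (pvilRd 𝔓 m)) b η z d 𝔖 := by
  filter_upwards [pvat_nice_ae hε, delgp_ae_conf ε] with η a1 a2 h
  exact pvyo_rec_door 𝔓 hU hk m ε b z hd h rfl a1 a2.2.2

end rec

end Claimed.Agent.R289
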