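import Claimed.Agent.R289.Tr.HookYB
import Claimed.Agent.R289.Tr.PlugLoc

/-!
# Row 289 (S0537), THE WALL, ROAD E, HOOK-DET, file Tr/HookD : THE DOOR END OF A HYBRID LINK, DETERMINISTIC, MODEL FREE      (helper228; piece named by 298, ceded by 139; prefix `pvhr_`, `Pvhr`)

0 sorry.   After the door patch of `Tr/InstL` every hybrid link has ONE TIP END (half state of record) AND ONE DOOR END (gate of a plug of 34), or two door ends.   `pvhj_run` of 23 (`Tr/HookY` sec. 7) has two slots `J₀`, `J₁`: "the end of colour `β` of the dart is joined to a site whose cell meets the lane".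
* sec. 1  `pvhrUn`, `pvhr_path` (a join of the Delaunay map is a continuum path in the union of its cells), `pvhr_turn`, **`pvhr_cross`**, `pvhr_cross_hub` : a site path across a vertical strip meets a continuum path which crosses its horizontal strip (`rsw_meet`).
* sec. 2  **`pvhr_slot`** = THE SLOT AT A DOOR: half lane of 34 in graph form (`Join univ (pvldCol σ room β) foot v`) + a hub of the lane with a cell below and a cell above the room ⟹ the foot is joined to a site of `pvhjV Y κ β (path component of the hub)`;   `pvhr_cell_small`.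
* sec. 3  `pvhr_rt_tail`, **`pvhr_tip_rt`** : a route `C :: arm :: ..` of 21 at a tip ⟹ the arm `PvhjArm` of 23 + ONE preconnected `G` (defined without the C) which contains `GN` and the path component of a hub of EVERY later leg.
* sec. 4  **`pvhr_run_o`** (exit tip → entrance of a door), **`pvhr_run_i`** (exit of a door → entrance tip) : `PvldRun (delMap h) σ K ..`, arms and slots as hypotheses.
* sec. 5  ONE STOP: record `PvhrDoorReg` (4 inequalities at a door), `pvhr_slot_rt`, `pvhr_mid_rt`, **`pvhr_link_o`, `pvhr_link_i`, `pvhr_link_d`** (door → door) : state + numbers `PvhjEnd` + link region + gate + half lanes + ROUTE EVENTS of the copy colouring + `PvhzArmReg` (298) + `PvhrDoorReg` ⟹ the run.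
* sec. 6  FOOT FORM (at a FINAL configuration the mesh of the big mouth cannot be paid: 66): `pvhr_out_stub`, `pvhr_out_door`, `pvhr_out_gt` (OUT, any map, no number), `pvhr_foot_door : PvhjFoot` at a gate edge of a door, `pvhr_feet`,
          **`pvhr_flink_o`, `pvhr_flink_i`** (any presentation `P = delPl h`): `foot : ∀ GN GC, (∀ β, PvhjArm ..) → PvhjFootP P σ κ K tip GN` + OUT + routes + `PvhzArmReg` + `PvhrDoorReg` + half lanes ⟹ `PvldRun P.toMap σ K ..`;   then `pvha_A_pd / _dp` of 112 (`Tr/HookLA`) give `η ∈ L.A N b`.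
-/

set_option autoImplicit false
set_option linter.unusedSectionVars false
set_option linter.unusedVariables false

namespace Claimed.Agent.R289

open Relation Set Metric

variable {Y : Set ℂ}

/-! ## 1. A SITE PATH IS A CONTINUUM PATH IN THE UNION OF ITS CELLS;   CROSSING WITH A CONTINUUM PATH -/

/-- the points of the cells of the sites which are joined to `a` inside `X` -/
def pvhrUn {Y : Set ℂ} (h : DelGood Y) (X : Set Y) (a : Y) : Set ℂ := {w | ∃ v : Y, (delMap h).Join univ X a v ∧ w ∈ vorCell Y v}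

theorem pvhr_eqns_cite : True := by
  have := @pvhrUn.eq_1
  trivial

/-- a join of the Delaunay map is a path in the union of the cells -/
theorem pvhr_path (h : DelGood Y) {X : Set Y} {a b : Y} (hj : (delMap h).Join univ X a b) : JoinedIn (pvhrUn h X a) a b := by
  obtain ⟨ha, hch⟩ := hj
  have self : ∀ v : Y, (delMap h).Join univ X a v → (v : ℂ) ∈ pvhrUn h X a := fun v hv => ⟨v, hv, vor_self_mem Y v⟩
  have key : ∀ v : Y, ReflTransGen (fun u v => (delMap h).EdgeIn univ u v ∧ v ∈ X) a v → JoinedIn (pvhrUn h X a) a v := by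
    intro v hv
    induction hv with
    | refl => exact JoinedIn.refl (self a ⟨ha, ReflTransGen.refl⟩)
    | @tail u w hu huw ih =>
      obtain ⟨-, -, -, z, hzu, hzw⟩ := (dls_edgeIn_univ h u w).1 huw.1
      have ju : (delMap h).Join univ X a u := ⟨ha, hu⟩
      have jw : (delMap h).Join univ X a w := ⟨ha, hu.tail huw⟩
      have s1 : JoinedIn (pvhrUn h X a) u z := JoinedIn.of_segment_subset
        (((vor_convex_cell Y u).segment_subset (vor_self_mem Y u) hzu).trans fun p hp => ⟨u, ju, hp⟩)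
      have s2 : JoinedIn (pvhrUn h X a) z w := JoinedIn.of_segment_subset
        (((vor_convex_cell Y w).segment_subset hzw (vor_self_mem Y w)).trans fun p hp => ⟨w, jw, hp⟩)
      exact (ih.trans s1).trans s2
  exact key b hch

/-- a path turned by `ζ` -/
theorem pvhr_turn (ζ : ℂ) {A : Set ℂ} {a b : ℂ} (hj : JoinedIn A a b) : JoinedIn ((fun w => ζ * w) '' A) (ζ * a) (ζ * b) := by
  obtain ⟨γ, hγ⟩ := hj
  exact ⟨γ.map (continuous_const.mul continuous_id), fun t => ⟨γ t, hγ t, rfl⟩⟩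

theorem pvhr_turn_back {ζ : ℂ} (hζ : ζ ≠ 0) {A : Set ℂ} {a b : ℂ} (hj : JoinedIn ((fun w => ζ * w) '' A) (ζ * a) (ζ * b)) : JoinedIn A a b := by
  have := pvhr_turn ζ⁻¹ hj
  rw [inv_mul_cancel_left₀ hζ, inv_mul_cancel_left₀ hζ, image_image] at this
  simpa [inv_mul_cancel_left₀ hζ] using this

theorem pvhr_im_near {ζ a c : ℂ} {r : ℝ} (hζ : ‖ζ‖ = 1) (ha : ‖a - c‖ ≤ r) : (ζ * c).im - r ≤ (ζ * a).im ∧ (ζ * a).im ≤ (ζ * c).im + r := pvhj_im_near hζ ha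

/-- **CROSSING** (picture turned by `ζ`): a site path `a → b` whose cells lie in the horizontal strip `[y0, y1]`, a continuum path `c → d` from below the strip to above it, inside the vertical strip between `a` and `b`:
a site of the path has a cell which meets the continuum path -/
theorem pvhr_cross (h : DelGood Y) {ζ : ℂ} (hζ : ‖ζ‖ = 1) {X : Set Y} {a b : Y} (hj : (delMap h).Join univ X a b) {ρ y0 y1 : ℝ} (hcell : ∀ v ∈ X, vorCell Y v ⊆ closedBall (v : ℂ) ρ)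
    (hX : ∀ v ∈ X, y0 + ρ ≤ (ζ * (v : ℂ)).im ∧ (ζ * (v : ℂ)).im + ρ ≤ y1) {G : Set ℂ} {c d : ℂ} (hG : JoinedIn G c d) (hc : (ζ * c).im ≤ y0) (hd : y1 ≤ (ζ * d).im)
    (hGx : ∀ w ∈ G, (ζ * (a : ℂ)).re ≤ (ζ * w).re ∧ (ζ * w).re ≤ (ζ * (b : ℂ)).re) :
    ∃ (v : Y) (w : ℂ), (delMap h).Join univ X a v ∧ w ∈ vorCell Y v ∧ JoinedIn G c w := by
  have hζ0 : ζ ≠ 0 := fun e => by rw [e, norm_zero] at hζ; exact zero_ne_one hζ
  obtain ⟨p, k1, k2⟩ := rsw_meet (pvhr_turn ζ (pvhr_path h hj)) (pvhr_turn ζ hG)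
    (by rintro _ ⟨w, hw, rfl⟩; exact hGx w hw)
    (by
      rintro _ ⟨w, ⟨v, hv, hwv⟩, rfl⟩
      have hvX : v ∈ X := by
        rcases hv.2.cases_tail with e | ⟨u, -, hu⟩
        · exact e ▸ hv.1
        · exact hu.2
      have hn : ‖w - (v : ℂ)‖ ≤ ρ := by simpa [dist_eq_norm] using hcell v hvX hwv
      have h1 := pvhr_im_near hζ hn
      have h2 := hX v hvX
      constructor <;> linarith [h1.1, h1.2, h2.1, h2.2])
  obtain ⟨w, ⟨v, hv, hwv⟩, rfl⟩ := k1.target_mem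
  exact ⟨v, w, hv, hwv, pvhr_turn_back hζ0 k2⟩

theorem pvhr_join_mem {V D : Type} {T : PvMap V D} {A : Set D} {X : Set V} {a v : V} (hv : T.Join A X a v) : v ∈ X := by
  rcases hv.2.cases_tail with e | ⟨u, -, hu⟩
  · exact e ▸ hv.1
  · exact hu.2

/-- **CROSSING WITH A HUB**: `x` = hub of two cells `klo` (below the strip) and `khi` (above the strip) in a region `U` which lies in the vertical strip between `a` and `b` -/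
theorem pvhr_cross_hub (h : DelGood Y) {ζ : ℂ} (hζ : ‖ζ‖ = 1) {X : Set Y} {a b : Y} (hj : (delMap h).Join univ X a b) {ρ y0 y1 : ℝ} (hcell : ∀ v ∈ X, vorCell Y v ⊆ closedBall (v : ℂ) ρ)
    (hX : ∀ v ∈ X, y0 + ρ ≤ (ζ * (v : ℂ)).im ∧ (ζ * (v : ℂ)).im + ρ ≤ y1) {B U : Set ℂ} {δ : ℝ} {klo khi : ℤ × ℤ} {x : ℂ} (clo : pvlnC δ klo ⊆ U) (chi : pvlnC δ khi ⊆ U)
    (hlo : PvlnHub B U δ klo x) (hhi : PvlnHub B U δ khi x) (lo : ∀ w ∈ pvlnC δ klo, (ζ * w).im ≤ y0) (hi : ∀ w ∈ pvlnC δ khi, y1 ≤ (ζ * w).im)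
    (hU : ∀ w ∈ U, (ζ * (a : ℂ)).re ≤ (ζ * w).re ∧ (ζ * w).re ≤ (ζ * (b : ℂ)).re) :
    ∃ v : Y, (delMap h).Join univ X a v ∧ (vorCell Y v ∩ pathComponentIn (B ∩ U) x).Nonempty := by
  obtain ⟨c, hc, jc⟩ := pvhz_hub_side clo hlo (j := 0) (by norm_num)
  obtain ⟨d, hd, jd⟩ := pvhz_hub_side chi hhi (j := 0) (by norm_num)
  obtain ⟨v, w, hv, hwv, jw⟩ := pvhr_cross h hζ hj hcell hX (jc.symm.trans jd) (lo c hc.1) (hi d hd.1) fun w hw => hU w hw.2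
  exact ⟨v, hv, w, hwv, jc.trans jw⟩

/-! ## 2. THE SLOT `J₀` / `J₁` OF `pvhj_run` (23) AT A DOOR -/

/-- **THE DOOR END.**   `f` = the foot of the half lane of colour `β` on the gate (`= pvhiEnd β aIn` or `pvhiEnd β aOut`), `v` = its end in the target, `Rm` = its room;   picture turned by `ζ`: the room lies in the strip `[y0 + ρ, y1 - ρ]`, the foot on the left of `xa`, the target on the right of `xb`;
mesh: the cells of the sites of the room have radius `≤ ρ`;   the actual colouring `σ` is the copy colouring `κ` on the sites of the room;   `x` = hub (copy colouring) of a region `U` inside the vertical strip `[xa, xb]`, with a cell below and a cell above the strip.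
THEN the foot is joined, through sites of colour `β` of the room, to a site of colour `β` whose cell meets the path component of the hub. -/
theorem pvhr_slot (h : DelGood Y) {σ : Y → Bool} {κ : ℂ → Bool} {β : Bool} {Rm : Set ℂ} {f v : Y} (hH : (delMap h).Join univ (pvldCol σ {u : Y | (u : ℂ) ∈ Rm} β) f v)
    (hκ : ∀ u : Y, (u : ℂ) ∈ Rm → σ u = κ u) {ζ : ℂ} (hζ : ‖ζ‖ = 1) {ρ xa xb y0 y1 : ℝ} (hcell : ∀ u : Y, (u : ℂ) ∈ Rm → vorCell Y u ⊆ closedBall (u : ℂ) ρ)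
    (hRm : ∀ w ∈ Rm, y0 + ρ ≤ (ζ * w).im ∧ (ζ * w).im + ρ ≤ y1) (hf : (ζ * (f : ℂ)).re ≤ xa) (hv : xb ≤ (ζ * (v : ℂ)).re)
    {U : Set ℂ} {δ : ℝ} {klo khi : ℤ × ℤ} {x : ℂ} (clo : pvlnC δ klo ⊆ U) (chi : pvlnC δ khi ⊆ U)
    (hlo : PvlnHub (pvlnReg β (cfOf Y κ)) U δ klo x) (hhi : PvlnHub (pvlnReg β (cfOf Y κ)) U δ khi x) (lo : ∀ w ∈ pvlnC δ klo, (ζ * w).im ≤ y0) (hi : ∀ w ∈ pvlnC δ khi, y1 ≤ (ζ * w).im)
    (hU : ∀ w ∈ U, xa ≤ (ζ * w).re ∧ (ζ * w).re ≤ xb) :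
    ∃ x0 ∈ pvhjV Y κ β (pathComponentIn (pvlnReg β (cfOf Y κ) ∩ U) x), (delMap h).Join univ (pvldCol σ {u : Y | (u : ℂ) ∈ Rm} β) f x0 := by
  obtain ⟨x0, j0, hm⟩ := pvhr_cross_hub h hζ hH (fun u hu => hcell u hu.1) (fun u hu => hRm _ hu.1) clo chi hlo hhi lo hi fun w hw => ⟨hf.trans (hU w hw).1, (hU w hw).2.trans hv⟩
  have hx0 := pvhr_join_mem j0
  exact ⟨x0, ⟨(hκ x0 hx0.1).symm.trans hx0.2, hm⟩, j0⟩

/-- the cells of the sites deep in a region with a `ρ`-net have radius `≤ ρ` -/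
theorem pvhr_cell_small {T : Set ℂ} {ρ r : ℝ} (hρ : 0 ≤ ρ) (hr : ρ < r) (hd : VorDense Y T ρ) {Rm : Set ℂ} (hRm : ∀ w ∈ Rm, closedBall w r ⊆ T) (u : Y) (hu : (u : ℂ) ∈ Rm) : vorCell Y u ⊆ closedBall (u : ℂ) ρ :=
  pvge_cell_core hρ hr hd (hRm _ hu)

/-! ## 3. ONE TIP OF A ROUTE: THE ROUTE STARTS WITH THE C, THEN THE ARM, THEN GOES AWAY -/

section route

variable {κ : ℂ → Bool} {β : Bool} {δ : ℝ}

/-- the chain of the route without its first leg is a contiguous part of the chain of the route -/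
theorem pvhr_rt_tail {e : Set ℂ × ℂ × ℂ} {t : List (Set ℂ × ℂ × ℂ)} (hr : PvkqRoute δ (e :: t)) : pvkqRt δ t <:+: pvkqRt δ (e :: t) := by
  cases t with
  | nil => exact List.nil_infix
  | cons e' t' =>
    rw [pvkq_rt_eq hr]
    exact (List.suffix_append _ _).isInfix

/-- **ONE TIP OF A ROUTE.**   The route `eC :: eN :: t` of colour `β` starts with the C (from the far side of the ray, round through the box), goes on with the arm `eN` and then away (`t`: middle legs, the leg across the room of the door).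
`R` = the inequalities on the regions of the two legs;   the closing set contains one side of the cell of the FIRST way point of the C and one side of the cell of the LAST way point of the arm.
OUTPUT: the arm of 23 and ONE preconnected set `G` (no point of the C in its definition) covered by the cells of colour `β`, inside the regions of `eN :: t`, which contains `GN` and the path component of the hub of EVERY leg of `eN :: t`. -/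
theorem pvhr_tip_rt (lf : VorLF Y) (κ : ℂ → Bool) (hδ : 0 < δ) {eC eN : Set ℂ × ℂ × ℂ} {t : List (Set ℂ × ℂ × ℂ)} (hr : PvkqRoute δ (eC :: eN :: t)) (hev : cfOf Y κ ∈ pvkqRtEv δ β (eC :: eN :: t))
    {ζ : ℂ} {xB yL yU μ : ℝ} {c : ℂ} {rs ρ : ℝ} {up : Bool} {Sg : Set ℂ} (R : PvhzArmReg ζ xB yL yU μ c rs ρ up eN.1 eC.1 Sg) (hρ : δ / 16 ≤ ρ) (hdS : VorDense Y Sg ρ)
    {jN jS : ℕ} (hjN : jN < 4) (hjS : jS < 4) (hSN : pvhzSd δ (pvkqCell δ eN.2.2) jN ⊆ Sg) (hSS : pvhzSd δ (pvkqCell δ eC.2.1) jS ⊆ Sg) :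
    ∃ GN GC G : Set ℂ, PvhjArm Y κ β ζ xB yL yU μ c rs up GN GC Sg ∧ GN ⊆ G ∧ IsPreconnected G ∧ G ⊆ vorUn Y {v | v ∈ Y ∧ κ v = β} ∧ G ⊆ pvkqRtR (eN :: t) ∧
      ∀ e ∈ eN :: t, ∃ xe : ℂ, (∀ k ∈ pvkqL δ e.1 e.2.1 e.2.2, PvlnHub (pvlnReg β (cfOf Y κ)) (pvkqU δ e.1 e.2.1 e.2.2) δ k xe) ∧ pathComponentIn (pvlnReg β (cfOf Y κ) ∩ pvkqU δ e.1 e.2.1 e.2.2) xe ⊆ G := by
  have hc := pvkq_rt_chain hr
  have hC : eC ∈ eC :: eN :: t := List.mem_cons_self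
  have hN : eN ∈ eC :: eN :: t := List.mem_cons_of_mem _ List.mem_cons_self
  have hway : eC.2.2 = eN.2.1 := (List.isChain_cons_cons.1 hr.2).1
  obtain ⟨xN, xC, hxN, -, A⟩ := pvhz_arm_rt lf κ hδ hr hev hN hC R hρ hdS (k1 := pvkqCell δ eN.2.1) (pvhz_L_head (hr.1 eN hN)) (hway ▸ pvhz_L_last (hr.1 eC hC))
    (pvhz_L_last (hr.1 eN hN)) (pvhz_L_head (hr.1 eC hC)) hjN hjS hSN hSS
  have hin := pvhr_rt_tail hr
  have hne : pvkqRt δ (eN :: t) ≠ [] := pvkq_rt_ne (List.cons_ne_nil _ _)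
  obtain ⟨xm, hxm⟩ := pvhz_hub_infix κ hδ hc hev hin hne
  obtain ⟨k0, hk0⟩ := List.exists_mem_of_ne_nil _ hne
  obtain ⟨m1, m2, m3⟩ := pvhz_mid_ok lf (hxm k0 hk0)
  have hsub : ∀ e ∈ eN :: t, ∀ k ∈ pvkqL δ e.1 e.2.1 e.2.2, k ∈ pvkqRt δ (eN :: t) := fun e he k hk => (pvkq_rt_infix hr.tail e he).subset hk
  refine ⟨_, _, pathComponentIn (pvlnReg β (cfOf Y κ) ∩ pvlnU δ (pvkqRt δ (eN :: t))) xm, A, ?_, m1, m2, m3.trans ((pvhz_U_sub_W hδ _).trans (pvkq_rt_W hr.tail)), fun e he => ?_⟩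
  · have hk := pvhz_L_head (hr.1 eN hN)
    exact pvhz_mid (hsub eN List.mem_cons_self) hk (hxN _ hk) (hxm _ (hsub eN List.mem_cons_self _ hk))
  · have heL : e ∈ eC :: eN :: t := List.mem_cons_of_mem _ he
    obtain ⟨xe, hxe⟩ := pvhz_hub_infix κ hδ hc hev (pvkq_rt_infix hr e heL) (pvkq_L_ne _ _ _ _)
    have hk := pvhz_L_head (hr.1 e heL)
    exact ⟨xe, hxe, pvhz_mid (hsub e he) hk (hxe _ hk) (hxm _ (hsub e he _ hk))⟩

end route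

/-! ## 4. THE RUN OF A HYBRID LINK: ONE TIP, ONE DOOR -/

section run

variable {h : DelGood Y} {𝔖 : PvwSt (delMap h)} {N : PvwNum} {hh : ℝ} {z : ℂ} {τ : PvwTy} {K F : Set Y} {r r₁ ρ rs rt : ℝ} {ζ : ℂ} {σ : Y → Bool} {κ : ℂ → Bool} {GN GC Sg G : Bool → Set ℂ} {X₁ : Bool → Set Y}

/-- **FIRST LINK: EXIT TIP → ENTRANCE OF A DOOR.**   `𝔖` = exit half state of the actual colouring `σ`, `g` = the gate of the door;   arms at the tip (copy colouring `κ`), `G β` = the lane, `J₁` = the door end (`pvhr_slot`). -/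
theorem pvhr_run_o (at_t : 𝔖.AtOut (dlsPos Y) N hh z τ σ) (Et : PvhjEnd Y N hh τ (τ.cp hh z) K r r₁ ρ rs)
    (ht1 : ‖((delMap h).src (𝔖.ep 𝔖.np) : ℂ) - τ.cp hh z‖ + 2 * ρ ≤ rt) (ht2 : ‖((delMap h).tgt (𝔖.ep 𝔖.np) : ℂ) - τ.cp hh z‖ + 2 * ρ ≤ rt) (hK : K.Finite) (hco : ∀ u v, u ∉ K → v ∉ K → (delMap h).Join univ Kᶜ u v)
    (hgp : 𝔖.gp ∉ K) (g : (delMap h).Gate σ) (hdis : g.vm ∉ 𝔖.bkP) (hζ : ζ ∈ pvtzdDir) (hot : pvwRad N hh τ τ.k + (ζ * z).re < (ζ * (𝔖.ap : ℂ)).re)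
    (arm : ∀ β, PvhjArm Y κ β ζ (pvwRad N hh τ τ.k + (ζ * z).re) ((ζ * τ.cp hh z).im - rt) ((ζ * τ.cp hh z).im + rt) (2 * ρ) (τ.cp hh z) rs β (GN β) (GC β) (Sg β))
    (conn : ∀ β, IsPreconnected (G β)) (cov : ∀ β, G β ⊆ vorUn Y {v | v ∈ Y ∧ κ v = β}) (sub : ∀ β, GN β ⊆ G β) (mid : ∀ β, ∀ v : Y, (vorCell Y v ∩ G β).Nonempty → v ∈ F)
    (hF : ∀ v ∈ F, v ∈ K ∧ σ v = κ v) (hκt : ∀ v : Y, ‖(v : ℂ) - τ.cp hh z‖ ≤ rs → v ∉ 𝔖.bkP ∪ 𝔖.whP → σ v = κ v)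
    (J₁ : ∀ β, ∃ x0 ∈ pvhjV Y κ β (G β), (delMap h).Join univ (X₁ β) (pvhiEnd (delMap h) β g.aIn) x0) (hX₁ : ∀ β, X₁ β ⊆ pvldCol σ K β) :
    PvldRun (delMap h) σ K (𝔖.ep 𝔖.np) g.aIn := by
  have st := at_t.stub
  have bt := at_t.gate.bw_p
  have t1 : ‖((delMap h).src (𝔖.ep 𝔖.np) : ℂ) - τ.cp hh z‖ ≤ N.rho * hh / 4 := at_t.good.tip_p.1
  have hK0 : (delMap h).src (𝔖.ep 𝔖.np) ∈ K := Et.inK _ (by linarith [Et.rs0, Et.rho])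
  have hnp : 1 ≤ 𝔖.np := by
    by_contra hcon
    have e : 𝔖.np = 0 := by omega
    rw [e, pvwk_ep_zero st] at hK0
    exact hgp hK0
  refine pvhj_run h (κ := κ) hK (pvwk_ep_bw st bt le_rfl) (pvtg_aIn_bw g) ?_ hco ?_
    (fun β => pvhj_st_exit at_t Et.rho Et.r2 Et.r1 Et.rr Et.mesh Et.far Et.rs0 Et.rs1 Et.rs2 ht1 ht2 hζ hot (arm β)) J₁ ?_ hX₁ conn cov sub (fun β => Subset.rfl) ?_
  · intro e
    exact hdis ⟨𝔖.np, le_rfl, e⟩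
  · refine pvld_out_strand (pvtg_aIn_bw g) bt (st.ep_it _ le_rfl).symm (fun i hi => ?_) ?_
    · rw [← st.ep_it i hi.le]
      constructor
      · intro e
        have h1 := st.ep_ax i hi
        rw [e] at h1
        exact st.ep_out h1
      · intro e
        exact hdis ⟨i, hi.le, by rw [e]; rfl⟩
    · intro hsub
      exact hgp (hsub ⟨𝔖.dp, ⟨0, hnp, (delMap h).sf_refl _⟩, rfl⟩)
  · rintro β v (⟨hv, hc, hn⟩ | ⟨hv, hnb⟩)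
    · exact ⟨Et.inK v hn, hc⟩
    · have hn : ‖(v : ℂ) - τ.cp hh z‖ ≤ rs := (arm β).near v (hv.2.mono (inter_subset_inter_right _ subset_union_left))
      exact ⟨Et.inK v (by linarith [Et.rho]), (hκt v hn hnb).trans hv.1⟩
  · intro β v hv
    obtain ⟨a, b⟩ := hF v (mid β v hv.2)
    exact ⟨a, b.trans hv.1⟩

/-- **LAST LINK: EXIT OF A DOOR → ENTRANCE TIP.**   `g` = the gate of the door with its through strand (`n` steps inside the gate), `g⁻ ∉ K`;   `𝔖` = entrance half state. -/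
theorem pvhr_run_i (at_s : 𝔖.AtIn (dlsPos Y) N hh z τ σ) (Es : PvhjEnd Y N hh τ (τ.cm hh z) K r r₁ ρ rs)
    (ht1 : ‖((delMap h).src (𝔖.em 𝔖.nm) : ℂ) - τ.cm hh z‖ + 2 * ρ ≤ rt) (ht2 : ‖((delMap h).tgt (𝔖.em 𝔖.nm) : ℂ) - τ.cm hh z‖ + 2 * ρ ≤ rt) (hK : K.Finite) (hco : ∀ u v, u ∉ K → v ∉ K → (delMap h).Join univ Kᶜ u v)
    (g : (delMap h).Gate σ) {n : ℕ} (hn1 : 1 ≤ n) (hthru : pvasIt (delMap h) σ g.aIn n = g.aOut) (hfirst : ∀ i, i < n → pvasIt (delMap h) σ g.aIn i ≠ g.aOut) (hins : ∀ i, i < n → pvasIt (delMap h) σ g.aIn i ∈ g.c.Left)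
    (hvm : g.vm ∉ K) (hdis : 𝔖.em 𝔖.nm ∉ g.c.Left) (hne : g.vp ≠ (delMap h).src (𝔖.em 𝔖.nm)) (hζ : ζ ∈ pvtzdDir) (hos : pvwRad N hh τ τ.k + (ζ * z).re < (ζ * (𝔖.am : ℂ)).re)
    (arm : ∀ β, PvhjArm Y κ β ζ (pvwRad N hh τ τ.k + (ζ * z).re) ((ζ * τ.cm hh z).im - rt) ((ζ * τ.cm hh z).im + rt) (2 * ρ) (τ.cm hh z) rs (!β) (GN β) (GC β) (Sg β))
    (conn : ∀ β, IsPreconnected (G β)) (cov : ∀ β, G β ⊆ vorUn Y {v | v ∈ Y ∧ κ v = β}) (sub : ∀ β, GN β ⊆ G β) (mid : ∀ β, ∀ v : Y, (vorCell Y v ∩ G β).Nonempty → v ∈ F)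
    (hF : ∀ v ∈ F, v ∈ K ∧ σ v = κ v) (hκs : ∀ v : Y, ‖(v : ℂ) - τ.cm hh z‖ ≤ rs → v ∉ 𝔖.bkM ∪ 𝔖.whM → σ v = κ v)
    (J₀ : ∀ β, ∃ x0 ∈ pvhjV Y κ β (G β), (delMap h).Join univ (X₁ β) (pvhiEnd (delMap h) β g.aOut) x0) (hX₁ : ∀ β, X₁ β ⊆ pvldCol σ K β) :
    PvldRun (delMap h) σ K g.aOut (𝔖.em 𝔖.nm) := by
  have ss := at_s.stub
  have bs := at_s.gate.bw_m
  refine pvhj_run h (κ := κ) hK (pvtg_aOut_bw g) (pvwk_em_bw ss bs le_rfl) ?_ hco ?_ J₀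
    (fun β => pvhj_st_ent at_s Es.rho Es.r2 Es.r1 Es.rr Es.mesh Es.far Es.rs0 Es.rs1 Es.rs2 ht1 ht2 hζ hos (arm β)) hX₁ ?_ conn cov (fun β => Subset.rfl) sub ?_
  · rw [pvtg_aOut_src]; exact hne
  · refine pvld_out_strand (pvwk_em_bw ss bs le_rfl) (pvtg_aIn_bw g) hthru (fun i hi => ⟨hfirst i hi, fun e => hdis (e ▸ hins i hi)⟩) ?_
    intro hsub
    exact hvm (hsub ⟨g.aIn, ⟨0, hn1, (delMap h).sf_refl _⟩, rfl⟩)
  · rintro β v (⟨hv, hc, hn⟩ | ⟨hv, hnb⟩)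
    · exact ⟨Es.inK v hn, hc⟩
    · have hn : ‖(v : ℂ) - τ.cm hh z‖ ≤ rs := (arm β).near v (hv.2.mono (inter_subset_inter_right _ subset_union_left))
      exact ⟨Es.inK v (by linarith [Es.rho]), (hκs v hn hnb).trans hv.1⟩
  · intro β v hv
    obtain ⟨a, b⟩ := hF v (mid β v hv.2)
    exact ⟨a, b.trans hv.1⟩

end run

/-! ## 5. ONE STOP: ROUTES OF THE COPY COLOURING + HALF LANES OF THE DOOR ⟹ THE RUN -/

/-- **THE DOOR SIDE OF A ROUTE** = what the owner of the explicit family owes at a door: INEQUALITIES (picture turned by `ζ`): the room `Rm` of the half lane lies in the strip `[y0 + ρ, y1 - ρ]`;   the region of the leg `e` (the leg ACROSS the room) lies in the vertical strip `[xa, xb]`;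
its first way point lies `3δ/2` below the strip, its last way point `3δ/2` above. -/
structure PvhrDoorReg (ζ : ℂ) (δ ρ xa xb y0 y1 : ℝ) (Rm : Set ℂ) (e : Set ℂ × ℂ × ℂ) : Prop where
  room : ∀ w ∈ Rm, y0 + ρ ≤ (ζ * w).im ∧ (ζ * w).im + ρ ≤ y1
  col : ∀ w ∈ e.1, xa ≤ (ζ * w).re ∧ (ζ * w).re ≤ xb
  lo : (ζ * e.2.1).im + 3 / 2 * δ ≤ y0
  hi : y1 + 3 / 2 * δ ≤ (ζ * e.2.2).im

/-- the door end, route form: `xe` = a hub of the leg across the room -/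
theorem pvhr_slot_rt (h : DelGood Y) {σ : Y → Bool} {κ : ℂ → Bool} {β : Bool} {Rm : Set ℂ} {f v : Y} (hH : (delMap h).Join univ (pvldCol σ {u : Y | (u : ℂ) ∈ Rm} β) f v)
    (hκ : ∀ u : Y, (u : ℂ) ∈ Rm → σ u = κ u) {ζ : ℂ} (hζ : ‖ζ‖ = 1) {δ ρ xa xb y0 y1 : ℝ} (hcell : ∀ u : Y, (u : ℂ) ∈ Rm → vorCell Y u ⊆ closedBall (u : ℂ) ρ)
    {e : Set ℂ × ℂ × ℂ} (hcore : PvkqCore δ e.1 e.2.1 e.2.2) (D : PvhrDoorReg ζ δ ρ xa xb y0 y1 Rm e) (hf : (ζ * (f : ℂ)).re ≤ xa) (hv : xb ≤ (ζ * (v : ℂ)).re)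
    {xe : ℂ} (hxe : ∀ k ∈ pvkqL δ e.1 e.2.1 e.2.2, PvlnHub (pvlnReg β (cfOf Y κ)) (pvkqU δ e.1 e.2.1 e.2.2) δ k xe) :
    ∃ x0 ∈ pvhjV Y κ β (pathComponentIn (pvlnReg β (cfOf Y κ) ∩ pvkqU δ e.1 e.2.1 e.2.2) xe), (delMap h).Join univ (pvldCol σ {u : Y | (u : ℂ) ∈ Rm} β) f x0 := by
  have hδ := hcore.1
  have m1 := pvhz_L_head hcore
  have m2 := pvhz_L_last hcore
  refine pvhr_slot h hH hκ hζ hcell D.room hf hv (pvln_C_sub_U m1) (pvln_C_sub_U m2) (hxe _ m1) (hxe _ m2) (fun w hw => ?_) (fun w hw => ?_) fun w hw => D.col w (pvhz_L_sub hcore hw)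
  · have := (pvhr_im_near hζ (pvkq_cell_diam hδ hw (pvkq_mem_cell hδ e.2.1))).2
    linarith [D.lo]
  · have := (pvhr_im_near hζ (pvkq_cell_diam hδ hw (pvkq_mem_cell hδ e.2.2))).1
    linarith [D.hi]

/-- **THE LANE OF A ROUTE** (no tip): ONE preconnected set covered by the cells of colour `β`, inside the regions of the route, which contains the path component of a hub of every leg -/
theorem pvhr_mid_rt (lf : VorLF Y) (κ : ℂ → Bool) {β : Bool} {δ : ℝ} (hδ : 0 < δ) {ℓ : List (Set ℂ × ℂ × ℂ)} (hr : PvkqRoute δ ℓ) (hne : ℓ ≠ []) (hev : cfOf Y κ ∈ pvkqRtEv δ β ℓ) :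
    ∃ G : Set ℂ, IsPreconnected G ∧ G ⊆ vorUn Y {v | v ∈ Y ∧ κ v = β} ∧ G ⊆ pvkqRtR ℓ ∧
      ∀ e ∈ ℓ, ∃ xe : ℂ, (∀ k ∈ pvkqL δ e.1 e.2.1 e.2.2, PvlnHub (pvlnReg β (cfOf Y κ)) (pvkqU δ e.1 e.2.1 e.2.2) δ k xe) ∧ pathComponentIn (pvlnReg β (cfOf Y κ) ∩ pvkqU δ e.1 e.2.1 e.2.2) xe ⊆ G := by
  obtain ⟨xm, m1, m2, m3, -, m5⟩ := pvhz_mid_rt lf κ hδ hr hne hev
  refine ⟨_, m1, m2, m3, fun e he => ?_⟩
  obtain ⟨xe, hxe⟩ := pvhz_hub_infix κ hδ (pvkq_rt_chain hr) hev (pvkq_rt_infix hr e he) (pvkq_L_ne _ _ _ _)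
  have hk := pvhz_L_head (hr.1 e he)
  exact ⟨xe, hxe, m5 e he _ hk xe (hxe _ hk)⟩

section link

variable {h : DelGood Y} {𝔖 : PvwSt (delMap h)} {N : PvwNum} {hh : ℝ} {z : ℂ} {τ : PvwTy} {K : Set Y} {r r₁ ρ rs rt : ℝ} {ζ : ℂ} {σ : Y → Bool} {κ : ℂ → Bool} {Sg : Bool → Set ℂ}
  {δ ρl : ℝ} {eC eN eD : Bool → Set ℂ × ℂ × ℂ} {t : Bool → List (Set ℂ × ℂ × ℂ)} {jN jS : Bool → ℕ} {ζd : ℂ} {ρd : ℝ} {xa xb y0 y1 : Bool → ℝ} {Rm : Bool → Set ℂ}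

/-- **HOOK-DET, FIRST LINK, ONE STOP** (exit tip → entrance of a door).   State: `at_t Et hgp hot`;   link region: `hK hco`;   door: gate `g`, half lanes `hH` (graph form of 34), feet `hfoot`, rooms `hRm`;
copy colouring: for each colour ONE route `C :: arm :: ..` with a leg `eD β` across the room of the half lane;   regions: `R` (298), `D`;   `σ = κ` off the banks in the small mouth, at the sites whose cell meets the regions of `arm :: ..`, at the sites of the rooms. -/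
theorem pvhr_link_o (at_t : 𝔖.AtOut (dlsPos Y) N hh z τ σ) (Et : PvhjEnd Y N hh τ (τ.cp hh z) K r r₁ ρ rs)
    (ht1 : ‖((delMap h).src (𝔖.ep 𝔖.np) : ℂ) - τ.cp hh z‖ + 2 * ρ ≤ rt) (ht2 : ‖((delMap h).tgt (𝔖.ep 𝔖.np) : ℂ) - τ.cp hh z‖ + 2 * ρ ≤ rt) (hK : K.Finite) (hco : ∀ u v, u ∉ K → v ∉ K → (delMap h).Join univ Kᶜ u v)
    (hgp : 𝔖.gp ∉ K) (g : (delMap h).Gate σ) (hdis : g.vm ∉ 𝔖.bkP) (hζ : ζ ∈ pvtzdDir) (hot : pvwRad N hh τ τ.k + (ζ * z).re < (ζ * (𝔖.ap : ℂ)).re)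
    (hδ : 0 < δ) (hr : ∀ β, PvkqRoute δ (eC β :: eN β :: t β)) (hev : ∀ β, cfOf Y κ ∈ pvkqRtEv δ β (eC β :: eN β :: t β))
    (R : ∀ β, PvhzArmReg ζ (pvwRad N hh τ τ.k + (ζ * z).re) ((ζ * τ.cp hh z).im - rt) ((ζ * τ.cp hh z).im + rt) (2 * ρ) (τ.cp hh z) rs ρl β (eN β).1 (eC β).1 (Sg β))
    (hρl : δ / 16 ≤ ρl) (hdS : ∀ β, VorDense Y (Sg β) ρl) (hjN : ∀ β, jN β < 4) (hjS : ∀ β, jS β < 4)
    (hSN : ∀ β, pvhzSd δ (pvkqCell δ (eN β).2.2) (jN β) ⊆ Sg β) (hSS : ∀ β, pvhzSd δ (pvkqCell δ (eC β).2.1) (jS β) ⊆ Sg β)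
    (mid : ∀ β, ∀ v : Y, (vorCell Y v ∩ pvkqRtR (eN β :: t β)).Nonempty → v ∈ K ∧ σ v = κ v)
    (hκt : ∀ v : Y, ‖(v : ℂ) - τ.cp hh z‖ ≤ rs → v ∉ 𝔖.bkP ∪ 𝔖.whP → σ v = κ v)
    (hD : ∀ β, eD β ∈ eN β :: t β) (hζd : ‖ζd‖ = 1) (D : ∀ β, PvhrDoorReg ζd δ ρd (xa β) (xb β) (y0 β) (y1 β) (Rm β) (eD β))
    (hH : ∀ β, ∃ v : Y, xb β ≤ (ζd * (v : ℂ)).re ∧ (delMap h).Join univ (pvldCol σ {u : Y | (u : ℂ) ∈ Rm β} β) (pvhiEnd (delMap h) β g.aIn) v)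
    (hfoot : ∀ β, (ζd * ((pvhiEnd (delMap h) β g.aIn : Y) : ℂ)).re ≤ xa β)
    (hRm : ∀ β, ∀ u : Y, (u : ℂ) ∈ Rm β → u ∈ K ∧ σ u = κ u ∧ vorCell Y u ⊆ closedBall (u : ℂ) ρd) :
    PvldRun (delMap h) σ K (𝔖.ep 𝔖.np) g.aIn := by
  have T := fun β => pvhr_tip_rt h.lf κ hδ (hr β) (hev β) (R β) hρl (hdS β) (hjN β) (hjS β) (hSN β) (hSS β)
  choose GN GC G hA hsub hconn hcov hreg hleg using T
  refine pvhr_run_o at_t Et ht1 ht2 hK hco hgp g hdis hζ hot hA hconn hcov hsub (F := {v | v ∈ K ∧ σ v = κ v}) (fun β v hv => mid β v (hv.mono (inter_subset_inter_right _ (hreg β)))) (fun v hv => hv) hκt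
    (X₁ := fun β => pvldCol σ {u : Y | (u : ℂ) ∈ Rm β} β) (fun β => ?_) fun β u hu => ⟨(hRm β u hu.1).1, hu.2⟩
  obtain ⟨xe, hxe, hG⟩ := hleg β (eD β) (hD β)
  obtain ⟨v, hv, hj⟩ := hH β
  obtain ⟨x0, hx0, j0⟩ := pvhr_slot_rt h hj (fun u hu => (hRm β u hu).2.1) hζd (fun u hu => (hRm β u hu).2.2) ((hr β).1 _ (List.mem_cons_of_mem _ (hD β))) (D β) (hfoot β) hv hxe
  exact ⟨x0, pvhj_V_mono κ β hG hx0, j0⟩

/-- **HOOK-DET, LAST LINK, ONE STOP** (exit of a door → entrance tip).   The routes are listed FROM THE TIP: `C :: arm :: ..`, with a leg across the room of the half lane of the exit side of the door. -/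
theorem pvhr_link_i (at_s : 𝔖.AtIn (dlsPos Y) N hh z τ σ) (Es : PvhjEnd Y N hh τ (τ.cm hh z) K r r₁ ρ rs)
    (ht1 : ‖((delMap h).src (𝔖.em 𝔖.nm) : ℂ) - τ.cm hh z‖ + 2 * ρ ≤ rt) (ht2 : ‖((delMap h).tgt (𝔖.em 𝔖.nm) : ℂ) - τ.cm hh z‖ + 2 * ρ ≤ rt) (hK : K.Finite) (hco : ∀ u v, u ∉ K → v ∉ K → (delMap h).Join univ Kᶜ u v)
    (g : (delMap h).Gate σ) {n : ℕ} (hn1 : 1 ≤ n) (hthru : pvasIt (delMap h) σ g.aIn n = g.aOut) (hfirst : ∀ i, i < n → pvasIt (delMap h) σ g.aIn i ≠ g.aOut) (hins : ∀ i, i < n → pvasIt (delMap h) σ g.aIn i ∈ g.c.Left)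
    (hvm : g.vm ∉ K) (hdis : 𝔖.em 𝔖.nm ∉ g.c.Left) (hne : g.vp ≠ (delMap h).src (𝔖.em 𝔖.nm)) (hζ : ζ ∈ pvtzdDir) (hos : pvwRad N hh τ τ.k + (ζ * z).re < (ζ * (𝔖.am : ℂ)).re)
    (hδ : 0 < δ) (hr : ∀ β, PvkqRoute δ (eC β :: eN β :: t β)) (hev : ∀ β, cfOf Y κ ∈ pvkqRtEv δ β (eC β :: eN β :: t β))
    (R : ∀ β, PvhzArmReg ζ (pvwRad N hh τ τ.k + (ζ * z).re) ((ζ * τ.cm hh z).im - rt) ((ζ * τ.cm hh z).im + rt) (2 * ρ) (τ.cm hh z) rs ρl (!β) (eN β).1 (eC β).1 (Sg β))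
    (hρl : δ / 16 ≤ ρl) (hdS : ∀ β, VorDense Y (Sg β) ρl) (hjN : ∀ β, jN β < 4) (hjS : ∀ β, jS β < 4)
    (hSN : ∀ β, pvhzSd δ (pvkqCell δ (eN β).2.2) (jN β) ⊆ Sg β) (hSS : ∀ β, pvhzSd δ (pvkqCell δ (eC β).2.1) (jS β) ⊆ Sg β)
    (mid : ∀ β, ∀ v : Y, (vorCell Y v ∩ pvkqRtR (eN β :: t β)).Nonempty → v ∈ K ∧ σ v = κ v)
    (hκs : ∀ v : Y, ‖(v : ℂ) - τ.cm hh z‖ ≤ rs → v ∉ 𝔖.bkM ∪ 𝔖.whM → σ v = κ v)
    (hD : ∀ β, eD β ∈ eN β :: t β) (hζd : ‖ζd‖ = 1) (D : ∀ β, PvhrDoorReg ζd δ ρd (xa β) (xb β) (y0 β) (y1 β) (Rm β) (eD β))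
    (hH : ∀ β, ∃ v : Y, xb β ≤ (ζd * (v : ℂ)).re ∧ (delMap h).Join univ (pvldCol σ {u : Y | (u : ℂ) ∈ Rm β} β) (pvhiEnd (delMap h) β g.aOut) v)
    (hfoot : ∀ β, (ζd * ((pvhiEnd (delMap h) β g.aOut : Y) : ℂ)).re ≤ xa β)
    (hRm : ∀ β, ∀ u : Y, (u : ℂ) ∈ Rm β → u ∈ K ∧ σ u = κ u ∧ vorCell Y u ⊆ closedBall (u : ℂ) ρd) :
    PvldRun (delMap h) σ K g.aOut (𝔖.em 𝔖.nm) := by
  have T := fun β => pvhr_tip_rt h.lf κ hδ (hr β) (hev β) (R β) hρl (hdS β) (hjN β) (hjS β) (hSN β) (hSS β)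
  choose GN GC G hA hsub hconn hcov hreg hleg using T
  refine pvhr_run_i at_s Es ht1 ht2 hK hco g hn1 hthru hfirst hins hvm hdis hne hζ hos hA hconn hcov hsub (F := {v | v ∈ K ∧ σ v = κ v}) (fun β v hv => mid β v (hv.mono (inter_subset_inter_right _ (hreg β)))) (fun v hv => hv) hκs
    (X₁ := fun β => pvldCol σ {u : Y | (u : ℂ) ∈ Rm β} β) (fun β => ?_) fun β u hu => ⟨(hRm β u hu.1).1, hu.2⟩
  obtain ⟨xe, hxe, hG⟩ := hleg β (eD β) (hD β)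
  obtain ⟨v, hv, hj⟩ := hH β
  obtain ⟨x0, hx0, j0⟩ := pvhr_slot_rt h hj (fun u hu => (hRm β u hu).2.1) hζd (fun u hu => (hRm β u hu).2.2) ((hr β).1 _ (List.mem_cons_of_mem _ (hD β))) (D β) (hfoot β) hv hxe
  exact ⟨x0, pvhj_V_mono κ β hG hx0, j0⟩

end link

section dd

variable {h : DelGood Y} {K : Set Y} {σ : Y → Bool} {κ : ℂ → Bool} {δ : ℝ} {ℓ : Bool → List (Set ℂ × ℂ × ℂ)} {eD eD' : Bool → Set ℂ × ℂ × ℂ} {ζd ζd' : ℂ} {ρd ρd' : ℝ} {xa xb y0 y1 xa' xb' y0' y1' : Bool → ℝ} {Rm Rm' : Bool → Set ℂ}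

/-- **HOOK-DET, LINK DOOR → DOOR, ONE STOP** (two scales allowed): exit of the door `g` → entrance of the door `g'` -/
theorem pvhr_link_d (hK : K.Finite) (hco : ∀ u v, u ∉ K → v ∉ K → (delMap h).Join univ Kᶜ u v)
    (g g' : (delMap h).Gate σ) {n : ℕ} (hn1 : 1 ≤ n) (hthru : pvasIt (delMap h) σ g.aIn n = g.aOut) (hfirst : ∀ i, i < n → pvasIt (delMap h) σ g.aIn i ≠ g.aOut) (hins : ∀ i, i < n → pvasIt (delMap h) σ g.aIn i ∈ g.c.Left)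
    (hvm : g.vm ∉ K) (hdis : g'.aIn ∉ g.c.Left) (hne : g.vp ≠ g'.vm)
    (hδ : 0 < δ) (hr : ∀ β, PvkqRoute δ (ℓ β)) (hev : ∀ β, cfOf Y κ ∈ pvkqRtEv δ β (ℓ β))
    (mid : ∀ β, ∀ v : Y, (vorCell Y v ∩ pvkqRtR (ℓ β)).Nonempty → v ∈ K ∧ σ v = κ v)
    (hD : ∀ β, eD β ∈ ℓ β) (hζd : ‖ζd‖ = 1) (D : ∀ β, PvhrDoorReg ζd δ ρd (xa β) (xb β) (y0 β) (y1 β) (Rm β) (eD β))
    (hH : ∀ β, ∃ v : Y, xb β ≤ (ζd * (v : ℂ)).re ∧ (delMap h).Join univ (pvldCol σ {u : Y | (u : ℂ) ∈ Rm β} β) (pvhiEnd (delMap h) β g.aOut) v)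
    (hfoot : ∀ β, (ζd * ((pvhiEnd (delMap h) β g.aOut : Y) : ℂ)).re ≤ xa β)
    (hRm : ∀ β, ∀ u : Y, (u : ℂ) ∈ Rm β → u ∈ K ∧ σ u = κ u ∧ vorCell Y u ⊆ closedBall (u : ℂ) ρd)
    (hD' : ∀ β, eD' β ∈ ℓ β) (hζd' : ‖ζd'‖ = 1) (D' : ∀ β, PvhrDoorReg ζd' δ ρd' (xa' β) (xb' β) (y0' β) (y1' β) (Rm' β) (eD' β))
    (hH' : ∀ β, ∃ v : Y, xb' β ≤ (ζd' * (v : ℂ)).re ∧ (delMap h).Join univ (pvldCol σ {u : Y | (u : ℂ) ∈ Rm' β} β) (pvhiEnd (delMap h) β g'.aIn) v)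
    (hfoot' : ∀ β, (ζd' * ((pvhiEnd (delMap h) β g'.aIn : Y) : ℂ)).re ≤ xa' β)
    (hRm' : ∀ β, ∀ u : Y, (u : ℂ) ∈ Rm' β → u ∈ K ∧ σ u = κ u ∧ vorCell Y u ⊆ closedBall (u : ℂ) ρd') :
    PvldRun (delMap h) σ K g.aOut g'.aIn := by
  have T := fun β => pvhr_mid_rt h.lf κ hδ (hr β) (List.ne_nil_of_mem (hD β)) (hev β)
  choose G hconn hcov hreg hleg using T
  refine pvhj_run h (κ := κ) hK (pvtg_aOut_bw g) (pvtg_aIn_bw g') ?_ hco ?_ (X₀ := fun β => pvldCol σ {u : Y | (u : ℂ) ∈ Rm β} β) (X₁ := fun β => pvldCol σ {u : Y | (u : ℂ) ∈ Rm' β} β)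
    (H₀ := G) (H₁ := G) (G := G) (fun β => ?_) (fun β => ?_) (fun β u hu => ⟨(hRm β u hu.1).1, hu.2⟩) (fun β u hu => ⟨(hRm' β u hu.1).1, hu.2⟩) hconn hcov (fun β => Subset.rfl) (fun β => Subset.rfl) ?_
  · rw [pvtg_aOut_src]; exact hne
  · refine pvld_out_strand (pvtg_aIn_bw g') (pvtg_aIn_bw g) hthru (fun i hi => ⟨hfirst i hi, fun e => hdis (e ▸ hins i hi)⟩) ?_
    intro hsub
    exact hvm (hsub ⟨g.aIn, ⟨0, hn1, (delMap h).sf_refl _⟩, rfl⟩)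
  · obtain ⟨xe, hxe, hG⟩ := hleg β (eD β) (hD β)
    obtain ⟨v, hv, hj⟩ := hH β
    obtain ⟨x0, hx0, j0⟩ := pvhr_slot_rt h hj (fun u hu => (hRm β u hu).2.1) hζd (fun u hu => (hRm β u hu).2.2) ((hr β).1 _ (hD β)) (D β) (hfoot β) hv hxe
    exact ⟨x0, pvhj_V_mono κ β hG hx0, j0⟩
  · obtain ⟨xe, hxe, hG⟩ := hleg β (eD' β) (hD' β)
    obtain ⟨v, hv, hj⟩ := hH' β
    obtain ⟨x0, hx0, j0⟩ := pvhr_slot_rt h hj (fun u hu => (hRm' β u hu).2.1) hζd' (fun u hu => (hRm' β u hu).2.2) ((hr β).1 _ (hD' β)) (D' β) (hfoot' β) hv hxe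
    exact ⟨x0, pvhj_V_mono κ β hG hx0, j0⟩
  · intro β v hv
    obtain ⟨a, b⟩ := mid β v (hv.2.mono (inter_subset_inter_right _ (hreg β)))
    exact ⟨a, b.trans hv.1⟩

end dd

/-! ## 6. FOOT FORM (hostile line of 66, 12:55Z: at a FINAL configuration the mesh of the big mouth cannot be paid, so the foot at the tip is a HYPOTHESIS = `pvhu_foot_out / _in` of 66, or `pvhj_foot_out / _in` of 23) -/

section out

variable {V D : Type} {T : PvMap V D} {σ : V → Bool} {K : Set V}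

/-- **OUT BEHIND THE TIP OF AN EXIT STUB** (no mesh, no number, any map): the stub is a dual path from the face behind its tip to a face with the vertex `g⁺ ∉ K` -/
theorem pvhr_out_stub {𝔖 : PvwSt T} {pos : V → ℂ} {B : Set ℂ} (st : 𝔖.StubP pos B σ) (bw : pvasBW T σ 𝔖.dp) (hK0 : T.src (𝔖.ep 𝔖.np) ∈ K) (hgp : 𝔖.gp ∉ K) {a₁ : D} (h1 : pvasBW T σ a₁)
    (hdis : T.src a₁ ∉ 𝔖.bkP) : ∃ f, T.src f ∉ K ∧ T.DJoin (pvldBar T σ K (𝔖.ep 𝔖.np) a₁) (T.opp (𝔖.ep 𝔖.np)) f := by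
  have hnp : 1 ≤ 𝔖.np := by
    by_contra hcon
    have e : 𝔖.np = 0 := by omega
    rw [e, pvwk_ep_zero st] at hK0
    exact hgp hK0
  refine pvld_out_strand h1 bw (st.ep_it _ le_rfl).symm (fun i hi => ?_) ?_
  · rw [← st.ep_it i hi.le]
    constructor
    · intro e
      have h1 := st.ep_ax i hi
      rw [e] at h1
      exact st.ep_out h1
    · intro e
      exact hdis ⟨i, hi.le, by rw [e]⟩
  · intro hsub
    exact hgp (hsub ⟨𝔖.dp, ⟨0, hnp, T.sf_refl _⟩, rfl⟩)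

/-- **OUT BEHIND THE EXIT GATE EDGE OF A DOOR** (any map): the through strand is a dual path from the face behind `aOut` to a face with the vertex `g⁻ ∉ K` -/
theorem pvhr_out_door (g : T.Gate σ) {n : ℕ} (hn1 : 1 ≤ n) (hthru : pvasIt T σ g.aIn n = g.aOut) (hfirst : ∀ i, i < n → pvasIt T σ g.aIn i ≠ g.aOut) (hins : ∀ i, i < n → pvasIt T σ g.aIn i ∈ g.c.Left)
    (hvm : g.vm ∉ K) {a₁ : D} (h1 : pvasBW T σ a₁) (hdis : a₁ ∉ g.c.Left) : ∃ f, T.src f ∉ K ∧ T.DJoin (pvldBar T σ K g.aOut a₁) (T.opp g.aOut) f := by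
  refine pvld_out_strand h1 (pvtg_aIn_bw g) hthru (fun i hi => ⟨hfirst i hi, fun e => hdis (e ▸ hins i hi)⟩) ?_
  intro hsub
  exact hvm (hsub ⟨g.aIn, ⟨0, hn1, T.sf_refl _⟩, rfl⟩)

/-- the same from the gate of record of 173 -/
theorem pvhr_out_gt {κ' : Type} {mk : V → κ'} {p : PvzlPg κ'} {g : T.Gate σ} (hg : PvzlGt T mk σ p g) (hvm : g.vm ∉ K) {a₁ : D} (h1 : pvasBW T σ a₁) (hdis : a₁ ∉ g.c.Left) :
    ∃ f, T.src f ∉ K ∧ T.DJoin (pvldBar T σ K g.aOut a₁) (T.opp g.aOut) f := by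
  obtain ⟨n, hn1, hthru, hfirst, hins, -⟩ := hg.thru
  exact pvhr_out_door g hn1 hthru hfirst hins hvm h1 hdis

end out

section feet

variable {h : DelGood Y} {K : Set Y} {ζ : ℂ} {σ : Y → Bool} {κ : ℂ → Bool} {Sg : Bool → Set ℂ} {xB yL yU μ rs : ℝ} {c : ℂ} {up : Bool → Bool}
  {δ ρl : ℝ} {eC eN eD : Bool → Set ℂ × ℂ × ℂ} {t : Bool → List (Set ℂ × ℂ × ℂ)} {jN jS : Bool → ℕ} {ζd : ℂ} {ρd : ℝ} {xa xb y0 y1 : Bool → ℝ} {Rm : Bool → Set ℂ} {at_ ad : DelDart h}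

/-- **THE FOOT AT A DOOR**: `ad` = a gate edge of the door (`aIn` or `aOut`), half lanes `hH` in graph form, for each colour a leg `eD β` across the room of the half lane, whose hub component lies in `G β` -/
theorem pvhr_foot_door (h : DelGood Y) {G : Bool → Set ℂ} (hcore : ∀ β, PvkqCore δ (eD β).1 (eD β).2.1 (eD β).2.2)
    (hleg : ∀ β, ∃ xe : ℂ, (∀ k ∈ pvkqL δ (eD β).1 (eD β).2.1 (eD β).2.2, PvlnHub (pvlnReg β (cfOf Y κ)) (pvkqU δ (eD β).1 (eD β).2.1 (eD β).2.2) δ k xe) ∧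
      pathComponentIn (pvlnReg β (cfOf Y κ) ∩ pvkqU δ (eD β).1 (eD β).2.1 (eD β).2.2) xe ⊆ G β)
    (hζd : ‖ζd‖ = 1) (D : ∀ β, PvhrDoorReg ζd δ ρd (xa β) (xb β) (y0 β) (y1 β) (Rm β) (eD β))
    (hH : ∀ β, ∃ v : Y, xb β ≤ (ζd * (v : ℂ)).re ∧ (delMap h).Join univ (pvldCol σ {u : Y | (u : ℂ) ∈ Rm β} β) (pvhiEnd (delMap h) β ad) v)
    (hfoot : ∀ β, (ζd * ((pvhiEnd (delMap h) β ad : Y) : ℂ)).re ≤ xa β)
    (hRm : ∀ β, ∀ u : Y, (u : ℂ) ∈ Rm β → u ∈ K ∧ σ u = κ u ∧ vorCell Y u ⊆ closedBall (u : ℂ) ρd) : PvhjFoot h σ κ K ad G := by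
  intro β
  obtain ⟨xe, hxe, hG⟩ := hleg β
  obtain ⟨v, hv, hj⟩ := hH β
  obtain ⟨x0, hx0, j0⟩ := pvhr_slot_rt h hj (fun u hu => (hRm β u hu).2.1) hζd (fun u hu => (hRm β u hu).2.2) (hcore β) (D β) (hfoot β) hv hxe
  have hsub : pvldCol σ {u : Y | (u : ℂ) ∈ Rm β} β ⊆ pvldCol σ K β := fun u hu => ⟨(hRm β u hu.1).1, hu.2⟩
  exact ⟨x0, pvhj_V_mono κ β hG hx0, pl_hx_join_mono Subset.rfl hsub j0⟩

/-- **THE TWO FEET AND THE LANES OF A HYBRID LINK** (`at_` = the tip dart, `ad` = the gate edge of the door).   `foot` = the foot at the tip FOR ANY ARMS (66 / 23);   routes listed from the tip `C :: arm :: ..` with a leg across the room of the half lane -/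
theorem pvhr_feet (foot : ∀ GN GC : Bool → Set ℂ, (∀ β, PvhjArm Y κ β ζ xB yL yU μ c rs (up β) (GN β) (GC β) (Sg β)) → PvhjFoot h σ κ K at_ GN)
    (hδ : 0 < δ) (hr : ∀ β, PvkqRoute δ (eC β :: eN β :: t β)) (hev : ∀ β, cfOf Y κ ∈ pvkqRtEv δ β (eC β :: eN β :: t β))
    (R : ∀ β, PvhzArmReg ζ xB yL yU μ c rs ρl (up β) (eN β).1 (eC β).1 (Sg β))
    (hρl : δ / 16 ≤ ρl) (hdS : ∀ β, VorDense Y (Sg β) ρl) (hjN : ∀ β, jN β < 4) (hjS : ∀ β, jS β < 4)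
    (hSN : ∀ β, pvhzSd δ (pvkqCell δ (eN β).2.2) (jN β) ⊆ Sg β) (hSS : ∀ β, pvhzSd δ (pvkqCell δ (eC β).2.1) (jS β) ⊆ Sg β)
    (mid : ∀ β, ∀ v : Y, (vorCell Y v ∩ pvkqRtR (eN β :: t β)).Nonempty → v ∈ K ∧ σ v = κ v)
    (hD : ∀ β, eD β ∈ eN β :: t β) (hζd : ‖ζd‖ = 1) (D : ∀ β, PvhrDoorReg ζd δ ρd (xa β) (xb β) (y0 β) (y1 β) (Rm β) (eD β))
    (hH : ∀ β, ∃ v : Y, xb β ≤ (ζd * (v : ℂ)).re ∧ (delMap h).Join univ (pvldCol σ {u : Y | (u : ℂ) ∈ Rm β} β) (pvhiEnd (delMap h) β ad) v)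
    (hfoot : ∀ β, (ζd * ((pvhiEnd (delMap h) β ad : Y) : ℂ)).re ≤ xa β)
    (hRm : ∀ β, ∀ u : Y, (u : ℂ) ∈ Rm β → u ∈ K ∧ σ u = κ u ∧ vorCell Y u ⊆ closedBall (u : ℂ) ρd) :
    ∃ GN G : Bool → Set ℂ, PvhjFoot h σ κ K at_ GN ∧ PvhjFoot h σ κ K ad G ∧ PvhjMid Y σ κ K G ∧ ∀ β, GN β ⊆ G β := by
  have T := fun β => pvhr_tip_rt h.lf κ hδ (hr β) (hev β) (R β) hρl (hdS β) (hjN β) (hjS β) (hSN β) (hSS β)
  choose GN GC G hA hsub hconn hcov hreg hleg using T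
  exact ⟨GN, G, foot GN GC hA, pvhr_foot_door h (fun β => (hr β).1 _ (List.mem_cons_of_mem _ (hD β))) (fun β => hleg β (eD β) (hD β)) hζd D hH hfoot hRm,
    ⟨hconn, hcov, fun β v hv => mid β v (hv.mono (inter_subset_inter_right _ (hreg β)))⟩, hsub⟩

end feet

section flink

variable {h : DelGood Y} {P : PlTri ↥Y} {K : Set Y} {ζ : ℂ} {σ : Y → Bool} {κ : ℂ → Bool} {Sg : Bool → Set ℂ} {xB yL yU μ rs : ℝ} {c : ℂ} {up : Bool → Bool}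
  {δ ρl : ℝ} {eC eN eD : Bool → Set ℂ × ℂ × ℂ} {t : Bool → List (Set ℂ × ℂ × ℂ)} {jN jS : Bool → ℕ} {ζd : ℂ} {ρd : ℝ} {xa xb y0 y1 : Bool → ℝ} {Rm : Bool → Set ℂ}

/-- **HOOK-DET, FIRST LINK, FOOT FORM, ANY PRESENTATION** (`a₀` = tip dart of an exit stub → entrance of the door `g`).   `hO` = OUT behind the tip: `pvhr_out_stub` -/
theorem pvhr_flink_o (hP : P = delPl h) {a₀ : P.Dart} (h0 : pvasBW P.toMap σ a₀)
    (foot : ∀ GN GC : Bool → Set ℂ, (∀ β, PvhjArm Y κ β ζ xB yL yU μ c rs (up β) (GN β) (GC β) (Sg β)) → PvhjFootP P σ κ K a₀ GN)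
    (hK : K.Finite) (hco : ∀ u v, u ∉ K → v ∉ K → P.toMap.Join univ Kᶜ u v) (g : P.toMap.Gate σ) (hne : P.toMap.src a₀ ≠ g.vm)
    (hO : ∃ f, P.toMap.src f ∉ K ∧ P.toMap.DJoin (pvldBar P.toMap σ K a₀ g.aIn) (P.toMap.opp a₀) f)
    (hδ : 0 < δ) (hr : ∀ β, PvkqRoute δ (eC β :: eN β :: t β)) (hev : ∀ β, cfOf Y κ ∈ pvkqRtEv δ β (eC β :: eN β :: t β))
    (R : ∀ β, PvhzArmReg ζ xB yL yU μ c rs ρl (up β) (eN β).1 (eC β).1 (Sg β))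
    (hρl : δ / 16 ≤ ρl) (hdS : ∀ β, VorDense Y (Sg β) ρl) (hjN : ∀ β, jN β < 4) (hjS : ∀ β, jS β < 4)
    (hSN : ∀ β, pvhzSd δ (pvkqCell δ (eN β).2.2) (jN β) ⊆ Sg β) (hSS : ∀ β, pvhzSd δ (pvkqCell δ (eC β).2.1) (jS β) ⊆ Sg β)
    (mid : ∀ β, ∀ v : Y, (vorCell Y v ∩ pvkqRtR (eN β :: t β)).Nonempty → v ∈ K ∧ σ v = κ v)
    (hD : ∀ β, eD β ∈ eN β :: t β) (hζd : ‖ζd‖ = 1) (D : ∀ β, PvhrDoorReg ζd δ ρd (xa β) (xb β) (y0 β) (y1 β) (Rm β) (eD β))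
    (hH : ∀ β, ∃ v : Y, xb β ≤ (ζd * (v : ℂ)).re ∧ P.toMap.Join univ (pvldCol σ {u : Y | (u : ℂ) ∈ Rm β} β) (pvhiEnd P.toMap β g.aIn) v)
    (hfoot : ∀ β, (ζd * ((pvhiEnd P.toMap β g.aIn : Y) : ℂ)).re ≤ xa β)
    (hRm : ∀ β, ∀ u : Y, (u : ℂ) ∈ Rm β → u ∈ K ∧ σ u = κ u ∧ vorCell Y u ⊆ closedBall (u : ℂ) ρd) :
    PvldRun P.toMap σ K a₀ g.aIn := by
  subst hP
  obtain ⟨GN, G, J₀, J₁, hG, hsub⟩ := pvhr_feet (at_ := a₀) (ad := g.aIn) foot hδ hr hev R hρl hdS hjN hjS hSN hSS mid hD hζd D hH hfoot hRm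
  exact pvhj_run_foot h hK h0 (pvtg_aIn_bw g) hne hco hO J₀ J₁ hG hsub fun _ => Subset.rfl

/-- **HOOK-DET, LAST LINK, FOOT FORM, ANY PRESENTATION** (exit of the door `g` → `a₁` = tip dart of an entrance stub).   `hO` = OUT behind `aOut`: `pvhr_out_gt`, `pvhr_out_door` -/
theorem pvhr_flink_i (hP : P = delPl h) {a₁ : P.Dart} (h1 : pvasBW P.toMap σ a₁)
    (foot : ∀ GN GC : Bool → Set ℂ, (∀ β, PvhjArm Y κ β ζ xB yL yU μ c rs (up β) (GN β) (GC β) (Sg β)) → PvhjFootP P σ κ K a₁ GN)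
    (hK : K.Finite) (hco : ∀ u v, u ∉ K → v ∉ K → P.toMap.Join univ Kᶜ u v) (g : P.toMap.Gate σ) (hne : g.vp ≠ P.toMap.src a₁)
    (hO : ∃ f, P.toMap.src f ∉ K ∧ P.toMap.DJoin (pvldBar P.toMap σ K g.aOut a₁) (P.toMap.opp g.aOut) f)
    (hδ : 0 < δ) (hr : ∀ β, PvkqRoute δ (eC β :: eN β :: t β)) (hev : ∀ β, cfOf Y κ ∈ pvkqRtEv δ β (eC β :: eN β :: t β))
    (R : ∀ β, PvhzArmReg ζ xB yL yU μ c rs ρl (up β) (eN β).1 (eC β).1 (Sg β))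
    (hρl : δ / 16 ≤ ρl) (hdS : ∀ β, VorDense Y (Sg β) ρl) (hjN : ∀ β, jN β < 4) (hjS : ∀ β, jS β < 4)
    (hSN : ∀ β, pvhzSd δ (pvkqCell δ (eN β).2.2) (jN β) ⊆ Sg β) (hSS : ∀ β, pvhzSd δ (pvkqCell δ (eC β).2.1) (jS β) ⊆ Sg β)
    (mid : ∀ β, ∀ v : Y, (vorCell Y v ∩ pvkqRtR (eN β :: t β)).Nonempty → v ∈ K ∧ σ v = κ v)
    (hD : ∀ β, eD β ∈ eN β :: t β) (hζd : ‖ζd‖ = 1) (D : ∀ β, PvhrDoorReg ζd δ ρd (xa β) (xb β) (y0 β) (y1 β) (Rm β) (eD β))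
    (hH : ∀ β, ∃ v : Y, xb β ≤ (ζd * (v : ℂ)).re ∧ P.toMap.Join univ (pvldCol σ {u : Y | (u : ℂ) ∈ Rm β} β) (pvhiEnd P.toMap β g.aOut) v)
    (hfoot : ∀ β, (ζd * ((pvhiEnd P.toMap β g.aOut : Y) : ℂ)).re ≤ xa β)
    (hRm : ∀ β, ∀ u : Y, (u : ℂ) ∈ Rm β → u ∈ K ∧ σ u = κ u ∧ vorCell Y u ⊆ closedBall (u : ℂ) ρd) :
    PvldRun P.toMap σ K g.aOut a₁ := by
  subst hP
  obtain ⟨GN, G, J₁, J₀, hG, hsub⟩ := pvhr_feet (at_ := a₁) (ad := g.aOut) foot hδ hr hev R hρl hdS hjN hjS hSN hSS mid hD hζd D hH hfoot hRm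
  exact pvhj_run_foot h hK (pvtg_aOut_bw g) h1 (fun e => hne ((pvtg_aOut_src g).symm.trans e)) hco hO J₀ J₁ hG (fun _ => Subset.rfl) hsub

end flink

end Claimed.Agent.R289
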