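import Claimed.Agent.R289.Tr.HookGJ
import Claimed.Agent.R289.Tr.HookD
import Claimed.Agent.R289.Tr.KitDict
import Claimed.Agent.R289.Tr.FrcM
import Claimed.Agent.R289.Tr.DoorSoft

/-!
# Row 289 (S0537), THE WALL, ROAD E, E10 AT THE HYBRID ENDS, (b2) PLAIN HALF, file Tr/DoorFoot : DOOR STATE + HALF LANES ⟹ THE FOOT OF 23 AT THE GATE EDGE OF THE DOOR      (helper28; R22 (7) of 234; prefix `pvvx_`, `Pvvx`)

CONSUMERS: (b3) DET (`pvhg_il_link_o/_i/_d(_room)` of 90, `Tr/HookGJ`: the slots `J : PvhjFootP (delbPl (pvieY η)) (pvieCol η b) κ K 𝔖.dp / 𝔖'.dm H`, `hvm`, `hleft`, `htip`, `hdis`, `hne`).      INPUT: `PvilDoor` (`Tr/InstL`) + the conclusion (S1) of 173 (`Tr/DoorSoft`) = the side predicate `pvhfPhi σ S` of 174 in the plane map of `η`, colour `b`.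
WHY NOT `pvhr_slot` OF 228 AS IT IS.   (i) it asks `σ = κ` at ALL the sites of the room: at a hybrid end the colours of the door square are GIVEN, they are not copy colours;   here `σ = κ` is asked ONLY at the sites of the room whose cell meets the crossing set (free from `PvhjMid.mid`).
(ii) it asks the whole room in ONE horizontal strip: the rooms of record are L-shaped (they contain the tube for `|x| ≤ 3r`);   here the lane is CUT at its last site with `x ≤ xm` (`pvvx_cut`): the leg of the copy pattern crosses the NARROW part only.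
* sec. 1  MODEL FREE: `pvvx_cut`, `pvvx_edge_le`, **`pvvx_slot`** (path form), `pvvx_slot_hub`, **`pvvx_slot_rt`** (leg of a route of 21: `PvhrDoorReg` of 228 at the narrow part of the room), **`pvvx_foot`** (any presentation `P = delPl h`).
* sec. 2  THE DOOR: `pvvx_door_gate` (THE gate: the gate of the state is the gate of the side predicate), `pvvx_end_out`, `pvvx_end_in`, **`pvvx_door_foot`** (side `σ`: `dp` for `true`, `dm` for `false`).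
* sec. 3  THE OTHER SLOTS AT A DOOR: positions of `g⁻ g⁺`, the gate lies in the outer disc: `pvvx_gm_pos pvvx_gp_pos pvvx_left_ball pvvx_hvm pvvx_hleft pvvx_ne_gp pvvx_ne_gm`.
* sec. 4  THE NUMBERS OF RECORD (`pvkdP r`, lanes of `pvhfT r`): picture `pvvxZ d σ = ± conj d` (lanes run East; the lane of colour `β` is the upper one iff `β = σ`: `pvvxLo pvvxHi`), `pvvx_rect`, `pvvx_rec_Ln`, `pvvx_rec_Dr`, `pvvx_room_core_at`, **`pvvx_door_foot_rec`** (region form `K = pvgeKV Y Yrᶜ`).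
* sec. 5  ONE STOP FROM THE SIDE RECORD OF 173 (`PvyoSd (pvkdP a) 𝔱 σ b η z d s g`, `Tr/DoorSoft`; any `𝔱` with the lanes of `pvhfT a`: `pvhfTw a Es`, `.fine μ W`, `pvnaT N`: `hL hD := rfl`), `r = s a`: `pvvx_at_Ln`, `pvvx_at_Dr`, `pvvx_room_core_sc`, **`pvvx_sd_foot`**.
-/

set_option autoImplicit false
set_option linter.unusedSectionVars false
set_option linter.unusedVariables false

namespace Claimed.Agent.R289

open Relation Set Metric Claims.C0465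
open scoped ComplexConjugate

/-! ## 1. model free -/

section cut

variable {V D : Type} {T : PvMap V D}

/-- **CUT OF A JOIN AT ITS LAST VERTEX WITH `P`** -/
theorem pvvx_cut {X : Set V} {a b : V} (hj : T.Join univ X a b) (P : V → Prop) (ha : P a) (hb : ¬ P b) :
    ∃ u u₁, T.Join univ X a u ∧ P u ∧ T.EdgeIn univ u u₁ ∧ T.Join univ {x | x ∈ X ∧ ¬ P x} u₁ b := by
  obtain ⟨ha0, hch⟩ := hj
  have key : ∀ c, ReflTransGen (fun u v => T.EdgeIn univ u v ∧ v ∈ X) a c →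
      P c ∨ ∃ u u₁, T.Join univ X a u ∧ P u ∧ T.EdgeIn univ u u₁ ∧ T.Join univ {x | x ∈ X ∧ ¬ P x} u₁ c := by
    intro c hc
    induction hc with
    | refl => exact Or.inl ha
    | @tail c' c hc' hstep ih =>
      by_cases hPc : P c
      · exact Or.inl hPc
      · refine Or.inr ?_
        rcases ih with hP' | ⟨u, u₁, j1, hu, he, j2⟩
        · exact ⟨c', c, ⟨ha0, hc'⟩, hP', hstep.1, ⟨hstep.2, hPc⟩, ReflTransGen.refl⟩
        · exact ⟨u, u₁, j1, hu, he, j2.1, j2.2.tail ⟨hstep.1, hstep.2, hPc⟩⟩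
  rcases key b hch with h | h
  · exact absurd h hb
  · exact h

end cut

variable {Y : Set ℂ}

/-- two Delaunay neighbours with small cells are close -/
theorem pvvx_edge_le (h : DelGood Y) {u w : Y} (he : (delMap h).EdgeIn univ u w) {ρ : ℝ} (hu : vorCell Y u ⊆ closedBall (u : ℂ) ρ) (hw : vorCell Y w ⊆ closedBall (w : ℂ) ρ) :
    ‖(w : ℂ) - u‖ ≤ 2 * ρ := by
  obtain ⟨-, -, -, z, hzu, hzw⟩ := (dls_edgeIn_univ h u w).1 he
  have h1 : ‖z - (u : ℂ)‖ ≤ ρ := by simpa [dist_eq_norm] using hu hzu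
  have h2 : ‖z - (w : ℂ)‖ ≤ ρ := by simpa [dist_eq_norm] using hw hzw
  calc ‖(w : ℂ) - u‖ = ‖(z - (u : ℂ)) - (z - (w : ℂ))‖ := by congr 1; ring
    _ ≤ ‖z - (u : ℂ)‖ + ‖z - (w : ℂ)‖ := norm_sub_le _ _
    _ ≤ 2 * ρ := by linarith

theorem pvvx_re_near {ζ a c : ℂ} {r : ℝ} (hζ : ‖ζ‖ = 1) (ha : ‖a - c‖ ≤ r) : (ζ * a).re ≤ (ζ * c).re + r := by
  have h1 : (ζ * a).re - (ζ * c).re = (ζ * (a - c)).re := by rw [mul_sub, Complex.sub_re]
  have h2 : (ζ * (a - c)).re ≤ ‖ζ * (a - c)‖ := Complex.re_le_norm _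
  rw [norm_mul, hζ, one_mul] at h2
  linarith

/-- **THE SLOT AT A DOOR, PATH FORM.**   `f` = the foot of the half lane of colour `β`, `v` = its end in the target, `Rm` = its room.   Picture turned by `ζ`: foot `x ≤ xm`, target `xb ≤ x`;   BEYOND `xm` the room lies in the strip `[y0 + ρ, y1 - ρ]`;
the cells of the sites of the room have radius `≤ ρ`;   `Gc` carries a path from below the strip to above it inside the vertical strip `[xa, xb]`, `xm + 2ρ ≤ xa`;   `σ = κ` ONLY at the sites of the room whose cell meets `Gc`. -/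
theorem pvvx_slot (h : DelGood Y) {σ : Y → Bool} {κ : ℂ → Bool} {β : Bool} {Rm : Set ℂ} {f v : Y} (hH : (delMap h).Join univ (pvldCol σ {u : Y | (u : ℂ) ∈ Rm} β) f v)
    {ζ : ℂ} (hζ : ‖ζ‖ = 1) {ρ xm xa xb y0 y1 : ℝ} (hcell : ∀ u : Y, (u : ℂ) ∈ Rm → vorCell Y u ⊆ closedBall (u : ℂ) ρ)
    (hRm : ∀ w ∈ Rm, xm < (ζ * w).re → y0 + ρ ≤ (ζ * w).im ∧ (ζ * w).im + ρ ≤ y1) (hf : (ζ * (f : ℂ)).re ≤ xm) (hx : xm + 2 * ρ ≤ xa) (hab : xm < xb) (hv : xb ≤ (ζ * (v : ℂ)).re)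
    {Gc : Set ℂ} {c e : ℂ} (hG : JoinedIn Gc c e) (hc : (ζ * c).im ≤ y0) (he : y1 ≤ (ζ * e).im) (hGx : ∀ w ∈ Gc, xa ≤ (ζ * w).re ∧ (ζ * w).re ≤ xb)
    (hκ : ∀ u : Y, (u : ℂ) ∈ Rm → (vorCell Y u ∩ Gc).Nonempty → σ u = κ u) :
    ∃ x0 ∈ pvhjV Y κ β Gc, (delMap h).Join univ (pvldCol σ {u : Y | (u : ℂ) ∈ Rm} β) f x0 := by
  obtain ⟨u, u₁, j1, hu, hed, j2⟩ := pvvx_cut hH (fun x : Y => (ζ * (x : ℂ)).re ≤ xm) hf (by
    show ¬ (ζ * (v : ℂ)).re ≤ xm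
    linarith)
  have hu₁ := j2.1
  have huX := pvhr_join_mem j1
  have hn := pvvx_edge_le h hed (hcell u huX.1) (hcell u₁ hu₁.1.1)
  have hre := pvvx_re_near hζ hn
  obtain ⟨x0, w, j3, hw, jw⟩ := pvhr_cross h hζ j2 (fun x hx' => hcell x hx'.1.1) (fun x hx' => hRm _ hx'.1.1 (not_le.1 hx'.2)) hG hc he
    fun w hw => ⟨by have := (hGx w hw).1; have hu' : (ζ * (u : ℂ)).re ≤ xm := hu; linarith, (hGx w hw).2.trans hv⟩
  have hx0 := pvhr_join_mem j3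
  have hm : (vorCell Y x0 ∩ Gc).Nonempty := ⟨w, hw, jw.target_mem⟩
  refine ⟨x0, ⟨(hκ x0 hx0.1.1 hm).symm.trans hx0.1.2, hm⟩, ?_⟩
  refine pl_hx_join_trans j1 (pl_hx_join_trans ⟨huX, ReflTransGen.single ⟨hed, hu₁.1⟩⟩ (pvta_join_mono (fun x hx' => hx'.1) j3))

/-- **THE SLOT, HUB FORM**: `x` = hub of a cell below the strip and of a cell above it in a region `U` of the vertical strip -/
theorem pvvx_slot_hub (h : DelGood Y) {σ : Y → Bool} {κ : ℂ → Bool} {β : Bool} {Rm : Set ℂ} {f v : Y} (hH : (delMap h).Join univ (pvldCol σ {u : Y | (u : ℂ) ∈ Rm} β) f v)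
    {ζ : ℂ} (hζ : ‖ζ‖ = 1) {ρ xm xa xb y0 y1 : ℝ} (hcell : ∀ u : Y, (u : ℂ) ∈ Rm → vorCell Y u ⊆ closedBall (u : ℂ) ρ)
    (hRm : ∀ w ∈ Rm, xm < (ζ * w).re → y0 + ρ ≤ (ζ * w).im ∧ (ζ * w).im + ρ ≤ y1) (hf : (ζ * (f : ℂ)).re ≤ xm) (hx : xm + 2 * ρ ≤ xa) (hab : xm < xb) (hv : xb ≤ (ζ * (v : ℂ)).re)
    {B U : Set ℂ} {δ : ℝ} {klo khi : ℤ × ℤ} {x : ℂ} (clo : pvlnC δ klo ⊆ U) (chi : pvlnC δ khi ⊆ U) (hlo : PvlnHub B U δ klo x) (hhi : PvlnHub B U δ khi x)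
    (lo : ∀ w ∈ pvlnC δ klo, (ζ * w).im ≤ y0) (hi : ∀ w ∈ pvlnC δ khi, y1 ≤ (ζ * w).im) (hU : ∀ w ∈ U, xa ≤ (ζ * w).re ∧ (ζ * w).re ≤ xb)
    (hκ : ∀ u : Y, (u : ℂ) ∈ Rm → (vorCell Y u ∩ pathComponentIn (B ∩ U) x).Nonempty → σ u = κ u) :
    ∃ x0 ∈ pvhjV Y κ β (pathComponentIn (B ∩ U) x), (delMap h).Join univ (pvldCol σ {u : Y | (u : ℂ) ∈ Rm} β) f x0 := by
  obtain ⟨c, hc, jc⟩ := pvhz_hub_side clo hlo (j := 0) (by norm_num)
  obtain ⟨d, hd, jd⟩ := pvhz_hub_side chi hhi (j := 0) (by norm_num)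
  have hpc : IsPathConnected (pathComponentIn (B ∩ U) x) := isPathConnected_pathComponentIn jc.source_mem
  exact pvvx_slot h hH hζ hcell hRm hf hx hab hv (hpc.joinedIn c jc d jd) (lo c hc.1) (hi d hd.1) (fun w hw => hU w (pathComponentIn_subset hw).2) hκ

/-- **THE SLOT, ROUTE FORM**: `e` = the leg of a route of 21 ACROSS THE NARROW PART of the room (`PvhrDoorReg` of 228 at `Rm ∩ {xm < x}`), `xe` = a hub of the leg -/
theorem pvvx_slot_rt (h : DelGood Y) {σ : Y → Bool} {κ : ℂ → Bool} {β : Bool} {Rm : Set ℂ} {f v : Y} (hH : (delMap h).Join univ (pvldCol σ {u : Y | (u : ℂ) ∈ Rm} β) f v)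
    {ζ : ℂ} (hζ : ‖ζ‖ = 1) {δ ρ xm xa xb y0 y1 : ℝ} (hcell : ∀ u : Y, (u : ℂ) ∈ Rm → vorCell Y u ⊆ closedBall (u : ℂ) ρ)
    {e : Set ℂ × ℂ × ℂ} (hcore : PvkqCore δ e.1 e.2.1 e.2.2) (D : PvhrDoorReg ζ δ ρ xa xb y0 y1 {w | w ∈ Rm ∧ xm < (ζ * w).re} e)
    (hf : (ζ * (f : ℂ)).re ≤ xm) (hx : xm + 2 * ρ ≤ xa) (hab : xm < xb) (hv : xb ≤ (ζ * (v : ℂ)).re)
    {xe : ℂ} (hxe : ∀ k ∈ pvkqL δ e.1 e.2.1 e.2.2, PvlnHub (pvlnReg β (cfOf Y κ)) (pvkqU δ e.1 e.2.1 e.2.2) δ k xe)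
    (hκ : ∀ u : Y, (u : ℂ) ∈ Rm → (vorCell Y u ∩ pathComponentIn (pvlnReg β (cfOf Y κ) ∩ pvkqU δ e.1 e.2.1 e.2.2) xe).Nonempty → σ u = κ u) :
    ∃ x0 ∈ pvhjV Y κ β (pathComponentIn (pvlnReg β (cfOf Y κ) ∩ pvkqU δ e.1 e.2.1 e.2.2) xe), (delMap h).Join univ (pvldCol σ {u : Y | (u : ℂ) ∈ Rm} β) f x0 := by
  have hδ := hcore.1
  have m1 := pvhz_L_head hcore
  have m2 := pvhz_L_last hcore
  refine pvvx_slot_hub h hH hζ hcell (fun w hw hxw => D.room w ⟨hw, hxw⟩) hf hx hab hv (pvln_C_sub_U m1) (pvln_C_sub_U m2) (hxe _ m1) (hxe _ m2) (fun w hw => ?_) (fun w hw => ?_)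
    (fun w hw => D.col w (pvhz_L_sub hcore hw)) hκ
  · have := (pvhr_im_near hζ (pvkq_cell_diam hδ hw (pvkq_mem_cell hδ e.2.1))).2
    linarith [D.lo]
  · have := (pvhr_im_near hζ (pvkq_cell_diam hδ hw (pvkq_mem_cell hδ e.2.2))).1
    linarith [D.hi]

/-- **WHAT THE COPY PATTERN OWES AT A DOOR, ONE COLOUR** (picture turned by `ζ`): a path of `H` across the narrow part of the room -/
def PvvxCross (ζ : ℂ) (xa xb y0 y1 : ℝ) (H : Set ℂ) : Prop :=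
  ∃ Gc ⊆ H, ∃ c e : ℂ, JoinedIn Gc c e ∧ (ζ * c).im ≤ y0 ∧ y1 ≤ (ζ * e).im ∧ ∀ w ∈ Gc, xa ≤ (ζ * w).re ∧ (ζ * w).re ≤ xb

theorem pvvx_eqns_cite : True := by
  have := @PvvxCross.eq_1
  trivial

theorem PvvxCross.mono {ζ : ℂ} {xa xb y0 y1 : ℝ} {H H' : Set ℂ} (h : PvvxCross ζ xa xb y0 y1 H) (hH : H ⊆ H') : PvvxCross ζ xa xb y0 y1 H' := by
  obtain ⟨Gc, h1, h2⟩ := h
  exact ⟨Gc, h1.trans hH, h2⟩

/-- the crossing of a leg of a route: the path component of a hub of the leg -/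
theorem pvvx_cross_rt {B : Set ℂ} {ζ : ℂ} (hζ : ‖ζ‖ = 1) {δ ρ xa xb y0 y1 : ℝ} {Rm : Set ℂ} {e : Set ℂ × ℂ × ℂ} (hcore : PvkqCore δ e.1 e.2.1 e.2.2) (D : PvhrDoorReg ζ δ ρ xa xb y0 y1 Rm e)
    {xe : ℂ} (hxe : ∀ k ∈ pvkqL δ e.1 e.2.1 e.2.2, PvlnHub B (pvkqU δ e.1 e.2.1 e.2.2) δ k xe) : PvvxCross ζ xa xb y0 y1 (pathComponentIn (B ∩ pvkqU δ e.1 e.2.1 e.2.2) xe) := by
  have hδ := hcore.1
  have m1 := pvhz_L_head hcore
  have m2 := pvhz_L_last hcore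
  obtain ⟨c, hc, jc⟩ := pvhz_hub_side (pvln_C_sub_U m1) (hxe _ m1) (j := 0) (by norm_num)
  obtain ⟨d, hd, jd⟩ := pvhz_hub_side (pvln_C_sub_U m2) (hxe _ m2) (j := 0) (by norm_num)
  have hpc : IsPathConnected (pathComponentIn (B ∩ pvkqU δ e.1 e.2.1 e.2.2) xe) := isPathConnected_pathComponentIn jc.source_mem
  refine ⟨_, Subset.rfl, c, d, hpc.joinedIn c jc d jd, ?_, ?_, fun w hw => D.col w (pvhz_L_sub hcore (pathComponentIn_subset hw).2)⟩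
  · have := (pvhr_im_near hζ (pvkq_cell_diam hδ hc.1 (pvkq_mem_cell hδ e.2.1))).2
    linarith [D.lo]
  · have := (pvhr_im_near hζ (pvkq_cell_diam hδ hd.1 (pvkq_mem_cell hδ e.2.2))).1
    linarith [D.hi]

/-- **THE FOOT OF 23 AT A BICHROMATIC DART WITH TWO HALF LANES**, any presentation of the Delaunay plane -/
theorem pvvx_foot (h : DelGood Y) {P : PlTri ↥Y} (hP : P = delPl h) {σ : Y → Bool} {κ : ℂ → Bool} {K : Set Y} {a : P.Dart} {H : Bool → Set ℂ} {Rm : Bool → Set ℂ}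
    {ζ : ℂ} (hζ : ‖ζ‖ = 1) {ρ xm xa xb : ℝ} {y0 y1 : Bool → ℝ}
    (lane : ∀ β, ∃ v : Y, xb ≤ (ζ * (v : ℂ)).re ∧ P.toMap.Join univ (pvldCol σ {u : Y | (u : ℂ) ∈ Rm β} β) (pvhiEnd P.toMap β a) v)
    (hK : ∀ β, ∀ u : Y, (u : ℂ) ∈ Rm β → u ∈ K) (hcell : ∀ β, ∀ u : Y, (u : ℂ) ∈ Rm β → vorCell Y u ⊆ closedBall (u : ℂ) ρ)
    (hRm : ∀ β, ∀ w ∈ Rm β, xm < (ζ * w).re → y0 β + ρ ≤ (ζ * w).im ∧ (ζ * w).im + ρ ≤ y1 β) (hf : ∀ β, (ζ * ((pvhiEnd P.toMap β a : Y) : ℂ)).re ≤ xm) (hx : xm + 2 * ρ ≤ xa) (hab : xm < xb)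
    (cross : ∀ β, PvvxCross ζ xa xb (y0 β) (y1 β) (H β)) (hκ : ∀ β, ∀ u : Y, (u : ℂ) ∈ Rm β → (vorCell Y u ∩ H β).Nonempty → σ u = κ u) : PvhjFootP P σ κ K a H := by
  subst hP
  intro β
  obtain ⟨v, hv, hj⟩ := lane β
  obtain ⟨Gc, hGc, c, e, hG, hc, he, hGx⟩ := cross β
  obtain ⟨x0, hx0, j0⟩ := pvvx_slot h hj hζ (hcell β) (hRm β) (hf β) hx hab hv hG hc he hGx fun u hu hm => hκ β u hu (hm.mono (inter_subset_inter_right _ hGc))
  exact ⟨x0, pvhj_V_mono κ β hGc hx0, pvta_join_mono (show pvldCol σ {u : Y | (u : ℂ) ∈ Rm β} β ⊆ pvldCol σ K β from fun u hu => ⟨hK β u hu.1, hu.2⟩) j0⟩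

/-- `σ = κ` at the crossing sites is free from the lanes of 23 -/
theorem pvvx_kap_mid {σ : Y → Bool} {κ : ℂ → Bool} {K : Set Y} {G H : Bool → Set ℂ} (hG : PvhjMid Y σ κ K G) (hH : ∀ β, H β ⊆ G β) (β : Bool) (u : Y) (hm : (vorCell Y u ∩ H β).Nonempty) : σ u = κ u :=
  (hG.mid β u (hm.mono (inter_subset_inter_right _ (hH β)))).2

/-- the cells of the sites of the `3ρ`-core of a window with mesh `ρ` have radius `≤ ρ` -/
theorem pvvx_cell_small {E : Set ℂ} {ρ : ℝ} (hρ : 0 < ρ) (hm : PvtrMesh ρ E Y) {u : ℂ} (hu : u ∈ pvtrCore (3 * ρ) E) : vorCell Y u ⊆ closedBall u ρ :=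
  vor_cell_subset_ball hρ.le (by linarith) (hm.dense hu)

/-- a site with a small cell, `ρ`-deep in the room `Yr`, is a site of the link region of the room -/
theorem pvvx_KV {Yr : Set ℂ} {ρ : ℝ} {u : Y} (hc : vorCell Y u ⊆ closedBall (u : ℂ) ρ) (hY : closedBall (u : ℂ) ρ ⊆ Yr) : u ∈ pvgeKV Y Yrᶜ := pvhg_KV_iff.2 (hc.trans hY)

/-! ## 2. the door -/

section gate

variable {V D : Type} {T : PvMap V D} {s : V → Bool}

/-- the end of colour `β` of the gate edge of the side `σ` is the foot of the half lane `(σ, β)` -/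
theorem pvvx_end_foot (g : T.Gate s) (σ β : Bool) : pvhiEnd T β (cond σ g.aOut g.aIn) = pvkdFoot g σ β := by
  cases σ <;> cases β <;> simp [pvhiEnd, pvkdFoot, pvtg_aOut_src, pvtg_aIn_src]

end gate

section door

variable {b : Bool} {η : Conf PvPt} {𝔖 : PvwSt (pvieT η)} {𝔭 : PvkdPlug} {z d : ℂ}

theorem pvvx_good (hd : PvilDoor 𝔭 b η z d 𝔖) : DelGood (pvieY η) := hd.1.1.good

/-- **THE GATE OF THE DOOR STATE IS THE GATE OF RECORD** (whoever produced it) -/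
theorem pvvx_door_gate (hd : PvilDoor 𝔭 b η z d 𝔖) (hZ : Disjoint 𝔭.Zm 𝔭.Zp) {g : (pvkiT η).Gate (pvukS b η)} (hg : PvukGate 𝔭 b η z d g) :
    𝔖.dp = g.aOut ∧ 𝔖.dm = g.aIn ∧ 𝔖.S = g.c ∧ 𝔖.gp = g.vp ∧ 𝔖.gm = g.vm := by
  obtain ⟨g₀, hg₀, e⟩ := pvhg_door_gate hd
  have : g₀ = g := pvuk_uniq hd.1.1.good hZ hg₀ hg
  subst this
  exact e

/-- the feet of the half lanes lie in the outer disc -/
theorem pvvx_foot_ball {g : (pvkiT η).Gate (pvukS b η)} (hg : PvukGate 𝔭 b η z d g) (σ β : Bool) : ((pvkdFoot g σ β : ↥(cfSites η)) : ℂ) ∈ ball z 𝔭.b := by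
  obtain ⟨k, hk⟩ := pvhf_foot_rim g σ β
  rw [hk]
  exact hg.least.reg.rim k

/-- **(b2) PLAIN HALF: THE FOOT OF 23 AT THE GATE EDGE OF A DOOR.**   `σs = true`: exit side, dart `𝔖.dp`;   `σs = false`: entrance side, dart `𝔖.dm`.      `hφ` = (S1) of 173: the side predicate of 174 in the plane map of `η`, colour `b`, marks = positions (`S.p` = the placed plug; rooms `S.Lb S.Lw`, targets `S.Db S.Dw` in ABSOLUTE position).
Picture turned by `ζ` (the lanes run East): outer disc `x ≤ xm`, targets `xb ≤ x`, beyond `xm` the room of colour `β` lies in the strip `[y0 β + ρ, y1 β - ρ]`;   `H β` crosses that strip inside `[xa, xb]`, `xm + 2ρ ≤ xa`. -/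
theorem pvvx_door_foot (σs : Bool) (hd : PvilDoor 𝔭 b η z d 𝔖) (hZ : Disjoint 𝔭.Zm 𝔭.Zp) {S : PvhfSd ℂ} (hS : S.p = 𝔭.pg z d)
    (hφ : pvhfPhi σs S _ _ (pvkiT η) Subtype.val (pvukS b η))
    {κ : ℂ → Bool} {K : Set ↥(pvieY η)} {H : Bool → Set ℂ} {ζ : ℂ} (hζ : ‖ζ‖ = 1) {ρ xm xa xb : ℝ} {y0 y1 : Bool → ℝ}
    (hDr : ∀ β, ∀ w ∈ cond β S.Db S.Dw, xb ≤ (ζ * w).re)
    (hK : ∀ β, ∀ u : ↥(pvieY η), (u : ℂ) ∈ cond β S.Lb S.Lw → u ∈ K)
    (hcell : ∀ β, ∀ u : ↥(pvieY η), (u : ℂ) ∈ cond β S.Lb S.Lw → vorCell (pvieY η) u ⊆ closedBall (u : ℂ) ρ)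
    (hRm : ∀ β, ∀ w ∈ cond β S.Lb S.Lw, xm < (ζ * w).re → y0 β + ρ ≤ (ζ * w).im ∧ (ζ * w).im + ρ ≤ y1 β)
    (hb : (ζ * z).re + 𝔭.b ≤ xm) (hx : xm + 2 * ρ ≤ xa) (hab : xm < xb)
    (cross : ∀ β, PvvxCross ζ xa xb (y0 β) (y1 β) (H β))
    (hκ : ∀ β, ∀ u : ↥(pvieY η), (u : ℂ) ∈ cond β S.Lb S.Lw → (vorCell (pvieY η) u ∩ H β).Nonempty → pvieCol η b u = κ u) :
    PvhjFootP (delbPl (pvieY η)) (pvieCol η b) κ K (cond σs 𝔖.dp 𝔖.dm) H := by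
  obtain ⟨g, hg, hlb, hlw⟩ := hφ
  rw [hS] at hg
  obtain ⟨e1, e2, -⟩ := pvvx_door_gate hd hZ hg
  rw [e1, e2]
  refine pvvx_foot (pvvx_good hd) (delb_pl_eq _) hζ (Rm := fun β => cond β S.Lb S.Lw) (fun β => ?_) hK hcell hRm (fun β => ?_) hx hab cross hκ
  · have e := pvvx_end_foot g σs β
    cases β
    · obtain ⟨v, hv, hj⟩ := hlw
      exact ⟨v, hDr false _ hv, e ▸ hj⟩
    · obtain ⟨v, hv, hj⟩ := hlb
      exact ⟨v, hDr true _ hv, e ▸ hj⟩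
  · have e := pvvx_end_foot g σs β
    have h1 := pvvx_foot_ball hg σs β
    rw [mem_ball, dist_eq_norm] at h1
    have h2 := pvvx_re_near hζ h1.le
    have h3 : (ζ * (((pvhiEnd (pvkiT η) β (cond σs g.aOut g.aIn)) : ↥(cfSites η)) : ℂ)).re ≤ xm := by
      rw [e]
      linarith
    exact h3

/-! ## 3. the other slots at a door -/

theorem pvvx_gm_pos (hd : PvilDoor 𝔭 b η z d 𝔖) : (𝔖.gm : ℂ) ∈ pvkdAt z d 𝔭.Zm := by
  obtain ⟨g, hg, -, -, -, -, e⟩ := pvhg_door_gate hd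
  rw [e]
  exact hg.vm

theorem pvvx_gp_pos (hd : PvilDoor 𝔭 b η z d 𝔖) : (𝔖.gp : ℂ) ∈ pvkdAt z d 𝔭.Zp := by
  obtain ⟨g, hg, -, -, -, e, -⟩ := pvhg_door_gate hd
  rw [e]
  exact hg.vp

/-- the darts inside the gate of a door start in the outer disc -/
theorem pvvx_left_ball (hd : PvilDoor 𝔭 b η z d 𝔖) {a : (delbPl (pvieY η)).Dart} (ha : a ∈ 𝔖.S.Left) : (((pvieT η).src a : ↥(pvieY η)) : ℂ) ∈ ball z 𝔭.b := by
  obtain ⟨g, hg, -, -, e, -, -⟩ := pvhg_door_gate hd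
  rw [e] at ha
  exact hg.least.reg.outer a ha

/-- slot `hvm` of `pvhg_il_link_i_room`, `pvhg_il_link_d_room`: the room of the link misses the room of `g⁻` -/
theorem pvvx_hvm (hd : PvilDoor 𝔭 b η z d 𝔖) {Yr : Set ℂ} (hY : Disjoint (pvkdAt z d 𝔭.Zm) Yr) : ¬ vorCell (pvieY η) 𝔖.gm ⊆ Yr :=
  fun h => disjoint_left.1 hY (pvvx_gm_pos hd) (h (vor_self_mem _ _))

/-- slot `hleft`: a dart which starts off the outer disc is not inside the gate -/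
theorem pvvx_hleft (hd : PvilDoor 𝔭 b η z d 𝔖) {a : (delbPl (pvieY η)).Dart} (ha : 𝔭.b ≤ ‖(((pvieT η).src a : ↥(pvieY η)) : ℂ) - z‖) : a ∉ 𝔖.S.Left := by
  intro h
  have := pvvx_left_ball hd h
  rw [mem_ball, dist_eq_norm] at this
  linarith

/-- slots `htip`, `hne`: a site off the room of `g⁺` is not `g⁺` -/
theorem pvvx_ne_gp (hd : PvilDoor 𝔭 b η z d 𝔖) {v : ↥(pvieY η)} (hv : (v : ℂ) ∉ pvkdAt z d 𝔭.Zp) : 𝔖.gp ≠ v := fun e => hv (e ▸ pvvx_gp_pos hd)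

theorem pvvx_ne_gm (hd : PvilDoor 𝔭 b η z d 𝔖) {v : ↥(pvieY η)} (hv : (v : ℂ) ∉ pvkdAt z d 𝔭.Zm) : 𝔖.gm ≠ v := fun e => hv (e ▸ pvvx_gm_pos hd)

end door

/-! ## 4. the numbers of record: plug `pvkdP r`, lanes of `pvhfT r` (cut at `5r`, targets `[4r, 5r]`) -/

/-- **the picture of the side `σ` of a door of direction `d`**: the half lanes of the side `σ` run EAST -/
noncomputable def pvvxZ (d : ℂ) (σ : Bool) : ℂ := cond σ (conj d) (-(conj d))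

/-- in that picture the lane of colour `β` is the UPPER one iff `β = σ`: lower side of its narrow part -/
noncomputable def pvvxLo (r : ℝ) (σ β : Bool) : ℝ := if β = σ then r / 2 else -(3 * r / 2)
/-- upper side -/
noncomputable def pvvxHi (r : ℝ) (σ β : Bool) : ℝ := if β = σ then 3 * r / 2 else -(r / 2)

theorem pvvx_eqns_cite2 : True := by
  have := @pvvxZ.eq_1; have := @pvvxLo.eq_1; have := @pvvxHi.eq_1
  trivial

section record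

variable {d : ℂ}

theorem pvvx_Z_norm (hd : ‖d‖ = 1) (σ : Bool) : ‖pvvxZ d σ‖ = 1 := by
  cases σ <;> simp [pvvxZ, hd]

theorem pvvx_Z_sim (hd : ‖d‖ = 1) (σ : Bool) (z u : ℂ) : pvvxZ d σ * pvthSim z d u = pvvxZ d σ * z + cond σ u (-u) := by
  have h1 : conj d * d = 1 := by rw [Complex.conj_mul', hd]; norm_num
  cases σ
  · show -(conj d) * (z + d * u) = -(conj d) * z + -u
    linear_combination (-u) * h1
  · show conj d * (z + d * u) = conj d * z + u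
    linear_combination u * h1

/-- a placed rectangle of the side `σ` in the picture of the side `σ` -/
theorem pvvx_rect (hd : ‖d‖ = 1) (σ : Bool) (z : ℂ) {x0 x1 y0 y1 : ℝ} {w : ℂ} (hw : w ∈ pvkdAt z d (pvkdRect σ x0 x1 y0 y1)) :
    (pvvxZ d σ * z).re + x0 ≤ (pvvxZ d σ * w).re ∧ (pvvxZ d σ * w).re ≤ (pvvxZ d σ * z).re + x1 ∧
      (pvvxZ d σ * z).im + cond σ y0 (-y1) ≤ (pvvxZ d σ * w).im ∧ (pvvxZ d σ * w).im ≤ (pvvxZ d σ * z).im + cond σ y1 (-y0) := by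
  obtain ⟨u, hu, rfl⟩ := hw
  rw [pvvx_Z_sim hd]
  cases σ
  · obtain ⟨h1, h2, h3, h4⟩ : u ∈ rswRect (-x1) (-x0) y0 y1 := hu
    simp only [cond_false, Complex.add_re, Complex.add_im, Complex.neg_re, Complex.neg_im]
    refine ⟨?_, ?_, ?_, ?_⟩ <;> linarith
  · obtain ⟨h1, h2, h3, h4⟩ : u ∈ rswRect x0 x1 y0 y1 := hu
    simp only [cond_true, Complex.add_re, Complex.add_im]
    refine ⟨?_, ?_, ?_, ?_⟩ <;> linarith

theorem pvvx_core_at (hd : ‖d‖ = 1) (z : ℂ) (t : ℝ) (E : Set ℂ) : pvkdAt z d (pvtrCore t E) ⊆ pvtrCore t (pvkdAt z d E) := by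
  rw [← pvhf_at_eq z (pvhf_ne_zero hd), ← pvhf_at_eq z (pvhf_ne_zero hd)]
  exact pvhf_core_pre hd z t E

/-- the placed rooms lie deep in the placed window of the side event -/
theorem pvvx_room_core_at {𝔭 : PvkdPlug} {𝔱 : PvhfTr} (hG : PvhfGeo 𝔭 𝔱) (hd : ‖d‖ = 1) (z : ℂ) (σ β : Bool) : pvkdAt z d (𝔱.Ln σ β) ⊆ pvtrCore (3 * 𝔭.ρ) (pvkdAt z d (𝔱.Es σ)) :=
  (image_mono (pvhf_room_core hG σ β)).trans (pvvx_core_at hd z _ _)

/-- the target of record: `4r ≤ x` -/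
theorem pvvx_rec_Dr (hd : ‖d‖ = 1) (σ β : Bool) (z : ℂ) {r : ℝ} {w : ℂ} (hw : w ∈ pvkdAt z d ((pvhfT r).Dr σ β)) : (pvvxZ d σ * z).re + 4 * r ≤ (pvvxZ d σ * w).re := by
  cases β
  · exact (pvvx_rect hd σ z (show w ∈ pvkdAt z d (pvkdRect σ (4 * r) (5 * r) (-(3 * r / 2)) (-(r / 2))) from hw)).1
  · exact (pvvx_rect hd σ z (show w ∈ pvkdAt z d (pvkdRect σ (4 * r) (5 * r) (r / 2) (3 * r / 2)) from hw)).1

/-- the room of record beyond `3r` is the narrow lane -/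
theorem pvvx_rec_Ln (hd : ‖d‖ = 1) (σ β : Bool) (z : ℂ) {r : ℝ} {w : ℂ} (hw : w ∈ pvkdAt z d ((pvhfT r).Ln σ β)) (hx : (pvvxZ d σ * z).re + 3 * r < (pvvxZ d σ * w).re) :
    (pvvxZ d σ * z).im + pvvxLo r σ β ≤ (pvvxZ d σ * w).im ∧ (pvvxZ d σ * w).im ≤ (pvvxZ d σ * z).im + pvvxHi r σ β := by
  unfold pvkdAt at hw
  cases β
  · have hw' : w ∈ pvkdAt z d (pvkdRect σ (r / 2) (3 * r) (-(3 * r / 2)) (r / 2)) ∪ pvkdAt z d (pvkdRect σ (2 * r) (5 * r) (-(3 * r / 2)) (-(r / 2))) := by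
      unfold pvkdAt
      rw [← image_union]
      exact hw
    rcases hw' with h | h
    · have := (pvvx_rect hd σ z h).2.1
      linarith
    · have := pvvx_rect hd σ z h
      cases σ <;> simp [pvvxLo, pvvxHi] at this ⊢ <;> constructor <;> linarith [this.2.2.1, this.2.2.2]
  · have hw' : w ∈ pvkdAt z d (pvkdRect σ (r / 2) (3 * r) (-(r / 2)) (3 * r / 2)) ∪ pvkdAt z d (pvkdRect σ (2 * r) (5 * r) (r / 2) (3 * r / 2)) := by
      unfold pvkdAt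
      rw [← image_union]
      exact hw
    rcases hw' with h | h
    · have := (pvvx_rect hd σ z h).2.1
      linarith
    · have := pvvx_rect hd σ z h
      cases σ <;> simp [pvvxLo, pvvxHi] at this ⊢ <;> constructor <;> linarith [this.2.2.1, this.2.2.2]

variable {b : Bool} {η : Conf PvPt} {𝔖 : PvwSt (pvieT η)} {z : ℂ}

/-- **(b2) PLAIN HALF AT THE NUMBERS OF RECORD, REGION FORM** (`K` = the sites whose cell lies in the room `Yr` of the link).   Picture `ζ = pvvxZ d σs`, origin at the door: `H β` crosses the strip `[Lo - r/16, Hi + r/16]` of the narrow lane of colour `β` at abscissae in `[xa, 4r]`, `25r/8 ≤ xa`. -/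
theorem pvvx_door_foot_rec (σs : Bool) {r : ℝ} (hr : 0 < r) (hd1 : ‖d‖ = 1) (hd : PvilDoor (pvkdP r) b η z d 𝔖)
    (hφ : pvhfPhi σs ⟨(pvkdP r).pg z d, pvkdAt z d ((pvhfT r).Ln σs true), pvkdAt z d ((pvhfT r).Ln σs false), pvkdAt z d ((pvhfT r).Dr σs true), pvkdAt z d ((pvhfT r).Dr σs false)⟩ _ _
      (pvkiT η) Subtype.val (pvukS b η))
    {E : Set ℂ} (hm : PvtrMesh (r / 16) E (cfSites η)) (hE : ∀ β, pvkdAt z d ((pvhfT r).Ln σs β) ⊆ pvtrCore (3 * (r / 16)) E)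
    {Yr : Set ℂ} (hY : ∀ β, ∀ w ∈ pvkdAt z d ((pvhfT r).Ln σs β), closedBall w (r / 16) ⊆ Yr)
    {κ : ℂ → Bool} {H : Bool → Set ℂ} {xa : ℝ} (hxa : 25 * r / 8 ≤ xa)
    (cross : ∀ β, PvvxCross (pvvxZ d σs) ((pvvxZ d σs * z).re + xa) ((pvvxZ d σs * z).re + 4 * r) ((pvvxZ d σs * z).im + pvvxLo r σs β - r / 16) ((pvvxZ d σs * z).im + pvvxHi r σs β + r / 16) (H β))
    (hκ : ∀ β, ∀ u : ↥(pvieY η), (vorCell (pvieY η) u ∩ H β).Nonempty → pvieCol η b u = κ u) :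
    PvhjFootP (delbPl (pvieY η)) (pvieCol η b) κ (pvgeKV (pvieY η) Yrᶜ) (cond σs 𝔖.dp 𝔖.dm) H := by
  have hρ : 0 < r / 16 := by positivity
  have room : ∀ β : Bool, cond β (pvkdAt z d ((pvhfT r).Ln σs true)) (pvkdAt z d ((pvhfT r).Ln σs false)) = pvkdAt z d ((pvhfT r).Ln σs β) := fun β => by cases β <;> rfl
  have targ : ∀ β : Bool, cond β (pvkdAt z d ((pvhfT r).Dr σs true)) (pvkdAt z d ((pvhfT r).Dr σs false)) = pvkdAt z d ((pvhfT r).Dr σs β) := fun β => by cases β <;> rfl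
  have hcell : ∀ β, ∀ u : ↥(pvieY η), (u : ℂ) ∈ pvkdAt z d ((pvhfT r).Ln σs β) → vorCell (pvieY η) u ⊆ closedBall (u : ℂ) (r / 16) := fun β u hu => pvvx_cell_small hρ hm (hE β hu)
  refine pvvx_door_foot σs hd (pvhf_geo hr).ZZ rfl hφ (pvvx_Z_norm hd1 σs) (ρ := r / 16) (xm := (pvvxZ d σs * z).re + 3 * r) (fun β w hw => ?_) (fun β u hu => ?_) (fun β u hu => ?_) (fun β w hw hx => ?_) ?_ ?_ ?_
    cross (fun β u _ hm' => hκ β u hm')
  · exact pvvx_rec_Dr hd1 σs β z (targ β ▸ hw)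
  · have hu' := room β ▸ hu
    exact pvvx_KV (hcell β u hu') (hY β _ hu')
  · exact hcell β u (room β ▸ hu)
  · have := pvvx_rec_Ln hd1 σs β z (room β ▸ hw) hx
    constructor <;> linarith [this.1, this.2]
  · show (pvvxZ d σs * z).re + 2 * r ≤ _
    linarith
  · linarith
  · linarith

end record

/-! ## 5. FROM THE SIDE RECORD OF 173 (`PvyoSd`, `Tr/DoorSoft`): unit plug `pvkdP a`, lanes of `pvhfT a`, scale `s`;   `r = s a` -/

section soft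

variable {d z : ℂ} {a s : ℝ} {b : Bool} {η : Conf PvPt} {𝔖 : PvwSt (pvieT η)}

theorem pvvx_T_sc_Ln (hs : 0 < s) (a : ℝ) (σ β : Bool) : pvdilS s ((pvhfT a).Ln σ β) = (pvhfT (s * a)).Ln σ β := by
  cases β
  · show pvdilS s (pvkdRect σ (a / 2) (3 * a) (-(3 * a / 2)) (a / 2) ∪ pvkdRect σ (2 * a) (5 * a) (-(3 * a / 2)) (-(a / 2))) =
      pvkdRect σ (s * a / 2) (3 * (s * a)) (-(3 * (s * a) / 2)) (s * a / 2) ∪ pvkdRect σ (2 * (s * a)) (5 * (s * a)) (-(3 * (s * a) / 2)) (-(s * a / 2))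
    rw [pvdil_S_union, pvdil_krect hs, pvdil_krect hs]
    congr 2 <;> ring
  · show pvdilS s (pvkdRect σ (a / 2) (3 * a) (-(a / 2)) (3 * a / 2) ∪ pvkdRect σ (2 * a) (5 * a) (a / 2) (3 * a / 2)) =
      pvkdRect σ (s * a / 2) (3 * (s * a)) (-(s * a / 2)) (3 * (s * a) / 2) ∪ pvkdRect σ (2 * (s * a)) (5 * (s * a)) (s * a / 2) (3 * (s * a) / 2)
    rw [pvdil_S_union, pvdil_krect hs, pvdil_krect hs]
    congr 2 <;> ring

theorem pvvx_T_sc_Dr (hs : 0 < s) (a : ℝ) (σ β : Bool) : pvdilS s ((pvhfT a).Dr σ β) = (pvhfT (s * a)).Dr σ β := by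
  cases β
  · show pvdilS s (pvkdRect σ (4 * a) (5 * a) (-(3 * a / 2)) (-(a / 2))) = pvkdRect σ (4 * (s * a)) (5 * (s * a)) (-(3 * (s * a) / 2)) (-(s * a / 2))
    rw [pvdil_krect hs]
    congr 1 <;> ring
  · show pvdilS s (pvkdRect σ (4 * a) (5 * a) (a / 2) (3 * a / 2)) = pvkdRect σ (4 * (s * a)) (5 * (s * a)) (s * a / 2) (3 * (s * a) / 2)
    rw [pvdil_krect hs]
    congr 1 <;> ring

/-- the placed scaled rooms of record -/
theorem pvvx_at_Ln (hs : 0 < s) (a : ℝ) (z d : ℂ) (σ β : Bool) : pvkdAt z (d * s) ((pvhfT a).Ln σ β) = pvkdAt z d ((pvhfT (s * a)).Ln σ β) := by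
  rw [← pvuk_at_sc, pvvx_T_sc_Ln hs]

theorem pvvx_at_Dr (hs : 0 < s) (a : ℝ) (z d : ℂ) (σ β : Bool) : pvkdAt z (d * s) ((pvhfT a).Dr σ β) = pvkdAt z d ((pvhfT (s * a)).Dr σ β) := by
  rw [← pvuk_at_sc, pvvx_T_sc_Dr hs]

/-- the placed scaled rooms lie deep in the placed scaled window of the side event -/
theorem pvvx_room_core_sc {𝔭 : PvkdPlug} {𝔱 : PvhfTr} (hG : PvhfGeo 𝔭 𝔱) (hd : ‖d‖ = 1) (hs : 0 < s) (z : ℂ) (σ β : Bool) :
    pvkdAt z (d * s) (𝔱.Ln σ β) ⊆ pvtrCore (3 * (s * 𝔭.ρ)) (pvkdAt z (d * s) (𝔱.Es σ)) := by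
  rw [← pvuk_at_sc, ← pvuk_at_sc]
  refine (image_mono (pvdil_S_mono s (pvhf_room_core hG σ β))).trans ?_
  have e : pvdilS s (pvtrCore (3 * 𝔭.ρ) (𝔱.Es σ)) = pvtrCore (3 * (s * 𝔭.ρ)) (pvdilS s (𝔱.Es σ)) := by
    have := pvdil_core hs (3 * 𝔭.ρ) (𝔱.Es σ)
    rw [show 3 * (s * 𝔭.ρ) = s * (3 * 𝔭.ρ) by ring]
    exact this.symm
  rw [e]
  exact pvvx_core_at hd z _ _

/-- **(b2), ONE STOP: SIDE RECORD OF 173 ⟹ FOOT OF 23**, region form.   `h` = `pvyo_side` at `η ∈` placed side event;   `hd` = ANY door state of the plug (e.g. `h.door`, or the state of `AtP` / `AtP'`) -/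
theorem pvvx_sd_foot (σs : Bool) (ha : 0 < a) (hs : 0 < s) (hd1 : ‖d‖ = 1) {𝔱 : PvhfTr} (hG : PvhfGeo (pvkdP a) 𝔱) (hL : 𝔱.Ln = (pvhfT a).Ln) (hD : 𝔱.Dr = (pvhfT a).Dr)
    {g : (pvkiT η).Gate (pvukS b η)} (h : PvyoSd (pvkdP a) 𝔱 σs b η z d s g) (hd : PvilDoor (pvkdP (s * a)) b η z d 𝔖)
    {Yr : Set ℂ} (hY : ∀ β, ∀ w ∈ pvkdAt z d ((pvhfT (s * a)).Ln σs β), closedBall w (s * a / 16) ⊆ Yr)
    {κ : ℂ → Bool} {H : Bool → Set ℂ} {xa : ℝ} (hxa : 25 * (s * a) / 8 ≤ xa)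
    (cross : ∀ β, PvvxCross (pvvxZ d σs) ((pvvxZ d σs * z).re + xa) ((pvvxZ d σs * z).re + 4 * (s * a)) ((pvvxZ d σs * z).im + pvvxLo (s * a) σs β - s * a / 16)
      ((pvvxZ d σs * z).im + pvvxHi (s * a) σs β + s * a / 16) (H β))
    (hκ : ∀ β, ∀ u : ↥(pvieY η), (vorCell (pvieY η) u ∩ H β).Nonempty → pvieCol η b u = κ u) :
    PvhjFootP (delbPl (pvieY η)) (pvieCol η b) κ (pvgeKV (pvieY η) Yrᶜ) (cond σs 𝔖.dp 𝔖.dm) H := by
  have hg := h.gate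
  rw [pvdil_P hs] at hg
  have hb := h.black
  have hw := h.white
  rw [hL, hD, pvvx_at_Ln hs, pvvx_at_Dr hs] at hb hw
  have hm : PvtrMesh (s * a / 16) (pvkdAt z (d * s) (𝔱.Es σs)) (cfSites η) := by
    have := h.mesh
    rwa [show s * (pvkdP a).ρ = s * a / 16 from by show s * (a / 16) = _; ring] at this
  refine pvvx_door_foot_rec σs (mul_pos hs ha) hd1 hd ⟨g, hg, hb, hw⟩ hm (fun β => ?_) hY hxa cross hκ
  have := pvvx_room_core_sc hG hd1 hs z σs β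
  rwa [hL, pvvx_at_Ln hs, show 3 * (s * (pvkdP a).ρ) = 3 * (s * a / 16) from by show 3 * (s * (a / 16)) = _; ring] at this

end soft

end Claimed.Agent.R289
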