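import Claimed.Agent.R289.Tr.HookYD
import Claimed.Agent.R289.Tr.HookD

/-!
# Row 289 (S0537), box TR, WB5 HOOK, file Tr/HookYL : HOOK-DET, HYBRID LINKS, ONE STOP, ALL TIP CELLS (CORNERS INCLUDED)      (owner helper23; prefix `pvhj_…D`)

= `pvhr_tip_rt`, `pvhr_link_o`, `pvhr_link_i` of 228 (`Tr/HookD`) WITHOUT the hypothesis `hot` / `hos` (tip apex beyond the side `ζ`): `ζ` = the prescribed side (door normal of the tip cell), `PvhjEndD` of `Tr/HookYD`.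
The inequalities on the regions are asked TWICE: `R₁` = `PvhzArmReg` with the box `{re ≤ re (ζ c) - e₀}`, `R₂` = `PvhzArmReg` with the box `{re ≤ re (ζ c) + e₀}`, `rt + 2ρ < e₀`      (298: `pvge2_armReg` gives both: `hB`, `hB'` hold at `xB = re (ζ Y) ∓ e₀`).
* `pvhj_tip_rtD` : a route `C :: arm :: ..` at a tip ⟹ `PvhjArmT` + the lane `G`
* **`pvhj_link_oD`** (exit tip → entrance of a door), **`pvhj_link_iD`** (exit of a door → entrance tip);   any presentation `P = delPl h`: **`pvhj_link_oD_pl`**, **`pvhj_link_iD_pl`**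
0 SORRY.
-/

set_option autoImplicit false
set_option linter.unusedSectionVars false
set_option linter.unusedVariables false

namespace Claimed.Agent.R289

open Relation Set Metric

variable {Y : Set ℂ}

/-- **ONE TIP OF A ROUTE, PRESCRIBED SIDE** -/
theorem pvhj_tip_rtD (lf : VorLF Y) (κ : ℂ → Bool) {β : Bool} {δ : ℝ} (hδ : 0 < δ) {eC eN : Set ℂ × ℂ × ℂ} {t : List (Set ℂ × ℂ × ℂ)} (hr : PvkqRoute δ (eC :: eN :: t))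
    (hev : cfOf Y κ ∈ pvkqRtEv δ β (eC :: eN :: t)) {ζ c : ℂ} {rt ρ rs ρl e₀ : ℝ} {up : Bool} {Sg : Set ℂ} (hρ0 : 0 ≤ ρ) (he : rt + 2 * ρ < e₀)
    (R₁ : PvhzArmReg ζ ((ζ * c).re - e₀) ((ζ * c).im - rt) ((ζ * c).im + rt) (2 * ρ) c rs ρl up eN.1 eC.1 Sg)
    (R₂ : PvhzArmReg ζ ((ζ * c).re + e₀) ((ζ * c).im - rt) ((ζ * c).im + rt) (2 * ρ) c rs ρl up eN.1 eC.1 Sg) (hρ : δ / 16 ≤ ρl) (hdS : VorDense Y Sg ρl)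
    {jN jS : ℕ} (hjN : jN < 4) (hjS : jS < 4) (hSN : pvhzSd δ (pvkqCell δ eN.2.2) jN ⊆ Sg) (hSS : pvhzSd δ (pvkqCell δ eC.2.1) jS ⊆ Sg) :
    ∃ GN GC G : Set ℂ, PvhjArmT Y κ β ζ c rt ρ rs up GN GC Sg ∧ GN ⊆ G ∧ IsPreconnected G ∧ G ⊆ vorUn Y {v | v ∈ Y ∧ κ v = β} ∧ G ⊆ pvkqRtR (eN :: t) ∧
      ∀ e ∈ eN :: t, ∃ xe : ℂ, (∀ k ∈ pvkqL δ e.1 e.2.1 e.2.2, PvlnHub (pvlnReg β (cfOf Y κ)) (pvkqU δ e.1 e.2.1 e.2.2) δ k xe) ∧ pathComponentIn (pvlnReg β (cfOf Y κ) ∩ pvkqU δ e.1 e.2.1 e.2.2) xe ⊆ G := by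
  have hc := pvkq_rt_chain hr
  have hC : eC ∈ eC :: eN :: t := List.mem_cons_self
  have hN : eN ∈ eC :: eN :: t := List.mem_cons_of_mem _ List.mem_cons_self
  have hway : eC.2.2 = eN.2.1 := (List.isChain_cons_cons.1 hr.2).1
  have hLN := pvkq_rt_infix hr eN hN
  have hLC := pvkq_rt_infix hr eC hC
  have h1N := pvhz_L_head (hr.1 eN hN)
  have h1C : pvkqCell δ eN.2.1 ∈ pvkqL δ eC.1 eC.2.1 eC.2.2 := hway ▸ pvhz_L_last (hr.1 eC hC)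
  have hkN := pvhz_L_last (hr.1 eN hN)
  have hkS := pvhz_L_head (hr.1 eC hC)
  obtain ⟨xN, hxN⟩ := pvhz_hub_infix κ hδ hc hev hLN (List.ne_nil_of_mem h1N)
  obtain ⟨xC, hxC⟩ := pvhz_hub_infix κ hδ hc hev hLC (List.ne_nil_of_mem h1C)
  have hd := pvhz_dense_mono (pvhz_lane_dense κ hδ hc hev) hρ
  have hdN : VorDense Y (pvlnU δ (pvkqL δ eN.1 eN.2.1 eN.2.2)) ρl := fun z hz => hd z (pvhz_U_mono (fun k hk => hLN.subset hk) hz)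
  have hdC : VorDense Y (pvlnU δ (pvkqL δ eC.1 eC.2.1 eC.2.2)) ρl := fun z hz => hd z (pvhz_U_mono (fun k hk => hLC.subset hk) hz)
  have A₁ := pvhz_arm_hubs lf κ (R₁.mono (pvhz_L_sub (hr.1 eN hN)) (pvhz_L_sub (hr.1 eC hC))) hdN hdC hdS (pvln_C_sub_U h1N) (pvln_C_sub_U hkN) (pvln_C_sub_U hkS) (hxN _ h1N) (hxC _ h1C) (hxN _ hkN) (hxC _ hkS)
    hjN hjS hSN hSS
  have A₂ := pvhz_arm_hubs lf κ (R₂.mono (pvhz_L_sub (hr.1 eN hN)) (pvhz_L_sub (hr.1 eC hC))) hdN hdC hdS (pvln_C_sub_U h1N) (pvln_C_sub_U hkN) (pvln_C_sub_U hkS) (hxN _ h1N) (hxC _ h1C) (hxN _ hkN) (hxC _ hkS)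
    hjN hjS hSN hSS
  have hin := pvhr_rt_tail hr
  have hne : pvkqRt δ (eN :: t) ≠ [] := pvkq_rt_ne (List.cons_ne_nil _ _)
  obtain ⟨xm, hxm⟩ := pvhz_hub_infix κ hδ hc hev hin hne
  obtain ⟨k0, hk0⟩ := List.exists_mem_of_ne_nil _ hne
  obtain ⟨m1, m2, m3⟩ := pvhz_mid_ok lf (hxm k0 hk0)
  have hsub : ∀ e ∈ eN :: t, ∀ k ∈ pvkqL δ e.1 e.2.1 e.2.2, k ∈ pvkqRt δ (eN :: t) := fun e he k hk => (pvkq_rt_infix hr.tail e he).subset hk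
  refine ⟨_, _, pathComponentIn (pvlnReg β (cfOf Y κ) ∩ pvlnU δ (pvkqRt δ (eN :: t))) xm, PvhjArmT.of_two A₁ A₂ hρ0 he, ?_, m1, m2, m3.trans ((pvhz_U_sub_W hδ _).trans (pvkq_rt_W hr.tail)), fun e he => ?_⟩
  · exact pvhz_mid (hsub eN List.mem_cons_self) h1N (hxN _ h1N) (hxm _ (hsub eN List.mem_cons_self _ h1N))
  · have heL : e ∈ eC :: eN :: t := List.mem_cons_of_mem _ he
    obtain ⟨xe, hxe⟩ := pvhz_hub_infix κ hδ hc hev (pvkq_rt_infix hr e heL) (pvkq_L_ne _ _ _ _)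
    have hk := pvhz_L_head (hr.1 e heL)
    exact ⟨xe, hxe, pvhz_mid (hsub e he) hk (hxe _ hk) (hxm _ (hsub e he _ hk))⟩

section link

variable {h : DelGood Y} {𝔖 : PvwSt (delMap h)} {N : PvwNum} {hh : ℝ} {z : ℂ} {τ : PvwTy} {K : Set Y} {r r₁ ρ rs rt e₀ : ℝ} {ζ : ℂ} {σ : Y → Bool} {κ : ℂ → Bool} {Sg : Bool → Set ℂ}
  {δ ρl : ℝ} {eC eN eD : Bool → Set ℂ × ℂ × ℂ} {t : Bool → List (Set ℂ × ℂ × ℂ)} {jN jS : Bool → ℕ} {ζd : ℂ} {ρd : ℝ} {xa xb y0 y1 : Bool → ℝ} {Rm : Bool → Set ℂ}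

/-- **HOOK-DET, FIRST LINK, ONE STOP, ALL TIP CELLS** (exit tip → entrance of a door) -/
theorem pvhj_link_oD (at_t : 𝔖.AtOut (dlsPos Y) N hh z τ σ) (Et : PvhjEndD Y N hh τ z (τ.cp hh z) K r r₁ ρ rs rt ζ)
    (ht1 : ‖((delMap h).src (𝔖.ep 𝔖.np) : ℂ) - τ.cp hh z‖ + 2 * ρ ≤ rt) (ht2 : ‖((delMap h).tgt (𝔖.ep 𝔖.np) : ℂ) - τ.cp hh z‖ + 2 * ρ ≤ rt) (hK : K.Finite) (hco : ∀ u v, u ∉ K → v ∉ K → (delMap h).Join univ Kᶜ u v)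
    (hgp : 𝔖.gp ∉ K) (g : (delMap h).Gate σ) (hdis : g.vm ∉ 𝔖.bkP)
    (hδ : 0 < δ) (hr : ∀ β, PvkqRoute δ (eC β :: eN β :: t β)) (hev : ∀ β, cfOf Y κ ∈ pvkqRtEv δ β (eC β :: eN β :: t β)) (he : rt + 2 * ρ < e₀)
    (R₁ : ∀ β, PvhzArmReg ζ ((ζ * τ.cp hh z).re - e₀) ((ζ * τ.cp hh z).im - rt) ((ζ * τ.cp hh z).im + rt) (2 * ρ) (τ.cp hh z) rs ρl β (eN β).1 (eC β).1 (Sg β))
    (R₂ : ∀ β, PvhzArmReg ζ ((ζ * τ.cp hh z).re + e₀) ((ζ * τ.cp hh z).im - rt) ((ζ * τ.cp hh z).im + rt) (2 * ρ) (τ.cp hh z) rs ρl β (eN β).1 (eC β).1 (Sg β))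
    (hρl : δ / 16 ≤ ρl) (hdS : ∀ β, VorDense Y (Sg β) ρl) (hjN : ∀ β, jN β < 4) (hjS : ∀ β, jS β < 4)
    (hSN : ∀ β, pvhzSd δ (pvkqCell δ (eN β).2.2) (jN β) ⊆ Sg β) (hSS : ∀ β, pvhzSd δ (pvkqCell δ (eC β).2.1) (jS β) ⊆ Sg β)
    (mid : ∀ β, ∀ v : Y, (vorCell Y v ∩ pvkqRtR (eN β :: t β)).Nonempty → v ∈ K ∧ σ v = κ v)
    (hκt : ∀ v : Y, ‖(v : ℂ) - τ.cp hh z‖ ≤ rs → v ∉ 𝔖.bkP ∪ 𝔖.whP → σ v = κ v)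
    (hD : ∀ β, eD β ∈ eN β :: t β) (hζd : ‖ζd‖ = 1) (D : ∀ β, PvhrDoorReg ζd δ ρd (xa β) (xb β) (y0 β) (y1 β) (Rm β) (eD β))
    (hH : ∀ β, ∃ v : Y, xb β ≤ (ζd * (v : ℂ)).re ∧ (delMap h).Join univ (pvldCol σ {u : Y | (u : ℂ) ∈ Rm β} β) (pvhiEnd (delMap h) β g.aIn) v)
    (hfoot : ∀ β, (ζd * ((pvhiEnd (delMap h) β g.aIn : Y) : ℂ)).re ≤ xa β)
    (hRm : ∀ β, ∀ u : Y, (u : ℂ) ∈ Rm β → u ∈ K ∧ σ u = κ u ∧ vorCell Y u ⊆ closedBall (u : ℂ) ρd) :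
    PvldRun (delMap h) σ K (𝔖.ep 𝔖.np) g.aIn := by
  have T := fun β => pvhj_tip_rtD h.lf κ hδ (hr β) (hev β) Et.e.rho.le he (R₁ β) (R₂ β) hρl (hdS β) (hjN β) (hjS β) (hSN β) (hSS β)
  choose GN GC G hA hsub hconn hcov hreg hleg using T
  refine pvhj_run_outD at_t Et ht1 ht2 hA hκt hK hco hgp (pvtg_aIn_bw g) hdis (H₁ := G) (G := G) (fun β => ?_) ⟨hconn, hcov, fun β v hv => mid β v (hv.mono (inter_subset_inter_right _ (hreg β)))⟩ hsub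
    fun β => Subset.rfl
  obtain ⟨xe, hxe, hG⟩ := hleg β (eD β) (hD β)
  obtain ⟨v, hv, hj⟩ := hH β
  obtain ⟨x0, hx0, j0⟩ := pvhr_slot_rt h hj (fun u hu => (hRm β u hu).2.1) hζd (fun u hu => (hRm β u hu).2.2) ((hr β).1 _ (List.mem_cons_of_mem _ (hD β))) (D β) (hfoot β) hv hxe
  exact ⟨x0, pvhj_V_mono κ β hG hx0, pl_hx_join_mono Subset.rfl (fun u (hu : u ∈ pvldCol σ {u : Y | (u : ℂ) ∈ Rm β} β) => (⟨(hRm β u hu.1).1, hu.2⟩ : u ∈ pvldCol σ K β)) j0⟩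

/-- **HOOK-DET, LAST LINK, ONE STOP, ALL TIP CELLS** (exit of a door → entrance tip).   The routes are listed FROM THE TIP. -/
theorem pvhj_link_iD (at_s : 𝔖.AtIn (dlsPos Y) N hh z τ σ) (Es : PvhjEndD Y N hh τ z (τ.cm hh z) K r r₁ ρ rs rt ζ)
    (ht1 : ‖((delMap h).src (𝔖.em 𝔖.nm) : ℂ) - τ.cm hh z‖ + 2 * ρ ≤ rt) (ht2 : ‖((delMap h).tgt (𝔖.em 𝔖.nm) : ℂ) - τ.cm hh z‖ + 2 * ρ ≤ rt) (hK : K.Finite) (hco : ∀ u v, u ∉ K → v ∉ K → (delMap h).Join univ Kᶜ u v)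
    (g : (delMap h).Gate σ) {n : ℕ} (hn1 : 1 ≤ n) (hthru : pvasIt (delMap h) σ g.aIn n = g.aOut) (hfirst : ∀ i, i < n → pvasIt (delMap h) σ g.aIn i ≠ g.aOut) (hins : ∀ i, i < n → pvasIt (delMap h) σ g.aIn i ∈ g.c.Left)
    (hvm : g.vm ∉ K) (hdis : 𝔖.em 𝔖.nm ∉ g.c.Left) (hne : g.vp ≠ (delMap h).src (𝔖.em 𝔖.nm))
    (hδ : 0 < δ) (hr : ∀ β, PvkqRoute δ (eC β :: eN β :: t β)) (hev : ∀ β, cfOf Y κ ∈ pvkqRtEv δ β (eC β :: eN β :: t β)) (he : rt + 2 * ρ < e₀)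
    (R₁ : ∀ β, PvhzArmReg ζ ((ζ * τ.cm hh z).re - e₀) ((ζ * τ.cm hh z).im - rt) ((ζ * τ.cm hh z).im + rt) (2 * ρ) (τ.cm hh z) rs ρl (!β) (eN β).1 (eC β).1 (Sg β))
    (R₂ : ∀ β, PvhzArmReg ζ ((ζ * τ.cm hh z).re + e₀) ((ζ * τ.cm hh z).im - rt) ((ζ * τ.cm hh z).im + rt) (2 * ρ) (τ.cm hh z) rs ρl (!β) (eN β).1 (eC β).1 (Sg β))
    (hρl : δ / 16 ≤ ρl) (hdS : ∀ β, VorDense Y (Sg β) ρl) (hjN : ∀ β, jN β < 4) (hjS : ∀ β, jS β < 4)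
    (hSN : ∀ β, pvhzSd δ (pvkqCell δ (eN β).2.2) (jN β) ⊆ Sg β) (hSS : ∀ β, pvhzSd δ (pvkqCell δ (eC β).2.1) (jS β) ⊆ Sg β)
    (mid : ∀ β, ∀ v : Y, (vorCell Y v ∩ pvkqRtR (eN β :: t β)).Nonempty → v ∈ K ∧ σ v = κ v)
    (hκs : ∀ v : Y, ‖(v : ℂ) - τ.cm hh z‖ ≤ rs → v ∉ 𝔖.bkM ∪ 𝔖.whM → σ v = κ v)
    (hD : ∀ β, eD β ∈ eN β :: t β) (hζd : ‖ζd‖ = 1) (D : ∀ β, PvhrDoorReg ζd δ ρd (xa β) (xb β) (y0 β) (y1 β) (Rm β) (eD β))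
    (hH : ∀ β, ∃ v : Y, xb β ≤ (ζd * (v : ℂ)).re ∧ (delMap h).Join univ (pvldCol σ {u : Y | (u : ℂ) ∈ Rm β} β) (pvhiEnd (delMap h) β g.aOut) v)
    (hfoot : ∀ β, (ζd * ((pvhiEnd (delMap h) β g.aOut : Y) : ℂ)).re ≤ xa β)
    (hRm : ∀ β, ∀ u : Y, (u : ℂ) ∈ Rm β → u ∈ K ∧ σ u = κ u ∧ vorCell Y u ⊆ closedBall (u : ℂ) ρd) :
    PvldRun (delMap h) σ K g.aOut (𝔖.em 𝔖.nm) := by
  have T := fun β => pvhj_tip_rtD h.lf κ hδ (hr β) (hev β) Es.e.rho.le he (R₁ β) (R₂ β) hρl (hdS β) (hjN β) (hjS β) (hSN β) (hSS β)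
  choose GN GC G hA hsub hconn hcov hreg hleg using T
  refine pvhj_run_inD at_s Es ht1 ht2 hA hκs hK hco (pvtg_aOut_bw g) (by rw [pvtg_aOut_src]; exact hne) ?_ (H₀ := G) (G := G) (fun β => ?_)
    ⟨hconn, hcov, fun β v hv => mid β v (hv.mono (inter_subset_inter_right _ (hreg β)))⟩ (fun β => Subset.rfl) hsub
  · refine pvld_out_strand (pvwk_em_bw at_s.stub at_s.gate.bw_m le_rfl) (pvtg_aIn_bw g) hthru (fun i hi => ⟨hfirst i hi, fun e => hdis (e ▸ hins i hi)⟩) ?_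
    intro hsub'
    exact hvm (hsub' ⟨g.aIn, ⟨0, hn1, (delMap h).sf_refl _⟩, rfl⟩)
  · obtain ⟨xe, hxe, hG⟩ := hleg β (eD β) (hD β)
    obtain ⟨v, hv, hj⟩ := hH β
    obtain ⟨x0, hx0, j0⟩ := pvhr_slot_rt h hj (fun u hu => (hRm β u hu).2.1) hζd (fun u hu => (hRm β u hu).2.2) ((hr β).1 _ (List.mem_cons_of_mem _ (hD β))) (D β) (hfoot β) hv hxe
    exact ⟨x0, pvhj_V_mono κ β hG hx0, pl_hx_join_mono Subset.rfl (fun u (hu : u ∈ pvldCol σ {u : Y | (u : ℂ) ∈ Rm β} β) => (⟨(hRm β u hu.1).1, hu.2⟩ : u ∈ pvldCol σ K β)) j0⟩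

end link

/-! ### any presentation of the Delaunay plane -/

section pl

variable {h : DelGood Y} {P : PlTri ↥Y} {𝔖 : PvwSt P.toMap} {N : PvwNum} {hh : ℝ} {z : ℂ} {τ : PvwTy} {K : Set Y} {r r₁ ρ rs rt e₀ : ℝ} {ζ : ℂ} {σ : Y → Bool} {κ : ℂ → Bool} {Sg : Bool → Set ℂ}
  {δ ρl : ℝ} {eC eN eD : Bool → Set ℂ × ℂ × ℂ} {t : Bool → List (Set ℂ × ℂ × ℂ)} {jN jS : Bool → ℕ} {ζd : ℂ} {ρd : ℝ} {xa xb y0 y1 : Bool → ℝ} {Rm : Bool → Set ℂ}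

theorem pvhj_link_oD_pl (hP : P = delPl h) (at_t : 𝔖.AtOut (dlsPos Y) N hh z τ σ) (Et : PvhjEndD Y N hh τ z (τ.cp hh z) K r r₁ ρ rs rt ζ)
    (ht1 : ‖(P.toMap.src (𝔖.ep 𝔖.np) : ℂ) - τ.cp hh z‖ + 2 * ρ ≤ rt) (ht2 : ‖(P.toMap.tgt (𝔖.ep 𝔖.np) : ℂ) - τ.cp hh z‖ + 2 * ρ ≤ rt) (hK : K.Finite) (hco : ∀ u v, u ∉ K → v ∉ K → P.toMap.Join univ Kᶜ u v)
    (hgp : 𝔖.gp ∉ K) (g : P.toMap.Gate σ) (hdis : g.vm ∉ 𝔖.bkP)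
    (hδ : 0 < δ) (hr : ∀ β, PvkqRoute δ (eC β :: eN β :: t β)) (hev : ∀ β, cfOf Y κ ∈ pvkqRtEv δ β (eC β :: eN β :: t β)) (he : rt + 2 * ρ < e₀)
    (R₁ : ∀ β, PvhzArmReg ζ ((ζ * τ.cp hh z).re - e₀) ((ζ * τ.cp hh z).im - rt) ((ζ * τ.cp hh z).im + rt) (2 * ρ) (τ.cp hh z) rs ρl β (eN β).1 (eC β).1 (Sg β))
    (R₂ : ∀ β, PvhzArmReg ζ ((ζ * τ.cp hh z).re + e₀) ((ζ * τ.cp hh z).im - rt) ((ζ * τ.cp hh z).im + rt) (2 * ρ) (τ.cp hh z) rs ρl β (eN β).1 (eC β).1 (Sg β))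
    (hρl : δ / 16 ≤ ρl) (hdS : ∀ β, VorDense Y (Sg β) ρl) (hjN : ∀ β, jN β < 4) (hjS : ∀ β, jS β < 4)
    (hSN : ∀ β, pvhzSd δ (pvkqCell δ (eN β).2.2) (jN β) ⊆ Sg β) (hSS : ∀ β, pvhzSd δ (pvkqCell δ (eC β).2.1) (jS β) ⊆ Sg β)
    (mid : ∀ β, ∀ v : Y, (vorCell Y v ∩ pvkqRtR (eN β :: t β)).Nonempty → v ∈ K ∧ σ v = κ v)
    (hκt : ∀ v : Y, ‖(v : ℂ) - τ.cp hh z‖ ≤ rs → v ∉ 𝔖.bkP ∪ 𝔖.whP → σ v = κ v)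
    (hD : ∀ β, eD β ∈ eN β :: t β) (hζd : ‖ζd‖ = 1) (D : ∀ β, PvhrDoorReg ζd δ ρd (xa β) (xb β) (y0 β) (y1 β) (Rm β) (eD β))
    (hH : ∀ β, ∃ v : Y, xb β ≤ (ζd * (v : ℂ)).re ∧ P.toMap.Join univ (pvldCol σ {u : Y | (u : ℂ) ∈ Rm β} β) (pvhiEnd P.toMap β g.aIn) v)
    (hfoot : ∀ β, (ζd * ((pvhiEnd P.toMap β g.aIn : Y) : ℂ)).re ≤ xa β)
    (hRm : ∀ β, ∀ u : Y, (u : ℂ) ∈ Rm β → u ∈ K ∧ σ u = κ u ∧ vorCell Y u ⊆ closedBall (u : ℂ) ρd) :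
    PvldRun P.toMap σ K (𝔖.ep 𝔖.np) g.aIn := by
  subst hP
  exact pvhj_link_oD at_t Et ht1 ht2 hK hco hgp g hdis hδ hr hev he R₁ R₂ hρl hdS hjN hjS hSN hSS mid hκt hD hζd D hH hfoot hRm

theorem pvhj_link_iD_pl (hP : P = delPl h) (at_s : 𝔖.AtIn (dlsPos Y) N hh z τ σ) (Es : PvhjEndD Y N hh τ z (τ.cm hh z) K r r₁ ρ rs rt ζ)
    (ht1 : ‖(P.toMap.src (𝔖.em 𝔖.nm) : ℂ) - τ.cm hh z‖ + 2 * ρ ≤ rt) (ht2 : ‖(P.toMap.tgt (𝔖.em 𝔖.nm) : ℂ) - τ.cm hh z‖ + 2 * ρ ≤ rt) (hK : K.Finite) (hco : ∀ u v, u ∉ K → v ∉ K → P.toMap.Join univ Kᶜ u v)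
    (g : P.toMap.Gate σ) {n : ℕ} (hn1 : 1 ≤ n) (hthru : pvasIt P.toMap σ g.aIn n = g.aOut) (hfirst : ∀ i, i < n → pvasIt P.toMap σ g.aIn i ≠ g.aOut) (hins : ∀ i, i < n → pvasIt P.toMap σ g.aIn i ∈ g.c.Left)
    (hvm : g.vm ∉ K) (hdis : 𝔖.em 𝔖.nm ∉ g.c.Left) (hne : g.vp ≠ P.toMap.src (𝔖.em 𝔖.nm))
    (hδ : 0 < δ) (hr : ∀ β, PvkqRoute δ (eC β :: eN β :: t β)) (hev : ∀ β, cfOf Y κ ∈ pvkqRtEv δ β (eC β :: eN β :: t β)) (he : rt + 2 * ρ < e₀)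
    (R₁ : ∀ β, PvhzArmReg ζ ((ζ * τ.cm hh z).re - e₀) ((ζ * τ.cm hh z).im - rt) ((ζ * τ.cm hh z).im + rt) (2 * ρ) (τ.cm hh z) rs ρl (!β) (eN β).1 (eC β).1 (Sg β))
    (R₂ : ∀ β, PvhzArmReg ζ ((ζ * τ.cm hh z).re + e₀) ((ζ * τ.cm hh z).im - rt) ((ζ * τ.cm hh z).im + rt) (2 * ρ) (τ.cm hh z) rs ρl (!β) (eN β).1 (eC β).1 (Sg β))
    (hρl : δ / 16 ≤ ρl) (hdS : ∀ β, VorDense Y (Sg β) ρl) (hjN : ∀ β, jN β < 4) (hjS : ∀ β, jS β < 4)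
    (hSN : ∀ β, pvhzSd δ (pvkqCell δ (eN β).2.2) (jN β) ⊆ Sg β) (hSS : ∀ β, pvhzSd δ (pvkqCell δ (eC β).2.1) (jS β) ⊆ Sg β)
    (mid : ∀ β, ∀ v : Y, (vorCell Y v ∩ pvkqRtR (eN β :: t β)).Nonempty → v ∈ K ∧ σ v = κ v)
    (hκs : ∀ v : Y, ‖(v : ℂ) - τ.cm hh z‖ ≤ rs → v ∉ 𝔖.bkM ∪ 𝔖.whM → σ v = κ v)
    (hD : ∀ β, eD β ∈ eN β :: t β) (hζd : ‖ζd‖ = 1) (D : ∀ β, PvhrDoorReg ζd δ ρd (xa β) (xb β) (y0 β) (y1 β) (Rm β) (eD β))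
    (hH : ∀ β, ∃ v : Y, xb β ≤ (ζd * (v : ℂ)).re ∧ P.toMap.Join univ (pvldCol σ {u : Y | (u : ℂ) ∈ Rm β} β) (pvhiEnd P.toMap β g.aOut) v)
    (hfoot : ∀ β, (ζd * ((pvhiEnd P.toMap β g.aOut : Y) : ℂ)).re ≤ xa β)
    (hRm : ∀ β, ∀ u : Y, (u : ℂ) ∈ Rm β → u ∈ K ∧ σ u = κ u ∧ vorCell Y u ⊆ closedBall (u : ℂ) ρd) :
    PvldRun P.toMap σ K g.aOut (𝔖.em 𝔖.nm) := by
  subst hP
  exact pvhj_link_iD at_s Es ht1 ht2 hK hco g hn1 hthru hfirst hins hvm hdis hne hδ hr hev he R₁ R₂ hρl hdS hjN hjS hSN hSS mid hκs hD hζd D hH hfoot hRm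

end pl

end Claimed.Agent.R289
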