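import Claimed.Agent.R289.Tr.GoodD
import Claimed.Agent.R289.Tr.HookYL

/-!
# Row 289 (S0537), THE WALL, ROAD E, E10 (b3) DET, file Tr/FrcDetE : THE RUN OF A THIN HYBRID LINK AT A FINAL CONFIGURATION, ONE STOP, FOOT FORM      (helper228; prefix `pvdd_`)

0 sorry.   MODEL FREE GLUE over `Tr/HookD` (228), `Tr/HookY` `Tr/HookYD` `Tr/HookYL` (23), `Tr/GoodE` `Tr/GoodD` (298).
WHY: `PvjeDet.ev` (35, `Exit/FrcDefs`) is owed at EVERY final configuration `η` (exterior of the window arbitrary): at `η` the mesh of the BIG mouth cannot be paid (hostile line of 66), so no `AtOut + PvhjEnd` at the final site set `Y`.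
The foot at the tip is produced AT THE BASE and carried (`pvhj_foot_outU_pl / _inU_pl` of 23, `pvhu_foot_out_pl / _in_pl` of 66, `pvhp_foot_out / _in` of 199): here it is ONE HYPOTHESIS, for ANY arms on the closing sets of record:
    `foot : ∀ GN GC, (∀ β, PvhjArmT Y κ β ζ c rt ρ rs (up β) (GN β) (GC β) (Sg β)) → PvhjFootP P σ κ K tip GN`      (`up = id` at an exit tip, `up = not` at an entrance tip).
* sec. 1  `pvdd_foot_door` (`PvhjFoot` at a gate edge of a door, CUT door record `Pvge4DoorReg` of 298), `pvdd_feet` (the two feet + `PvhjMid` + `GN ⊆ G` from the route events), `pvdd_feet_A` (the same with the arms `PvhjArm` at a true box)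
* sec. 2  **`pvdd_link_o`, `pvdd_link_i`** : any presentation `P = delPl h`, tip dart abstract, OUT abstract (`pvhr_out_stub`, `pvhr_out_gt`, `pvhr_out_door` of `Tr/HookD` sec. 6; `pvhj_out_stubT` of 23) ⟹ `PvldRun P.toMap σ K tip g.aIn`, `PvldRun P.toMap σ K g.aOut tip`
* sec. 3  **`pvdd_pat_o`, `pvdd_pat_i`** = THE SAME ON THE ROUTES OF RECORD `pvge2Rt` OF 298 (`= pvge4_pat_o / _i` in foot form): numbers `Pvge2Num`, `Pvge2Bar`, door in the coordinates `(s, l)` of the frame of the mouth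
* sec. 4  `pvdd_mid_of`, `pvdd_room_of` : the hypotheses `mid`, `hRm` from a mesh and inclusions of regions (sites whose cell meets a region lie in its `ρ`-neighbourhood)
* sec. 5  RELATIVE COLOURS (rim of colour `b`: the plane map carries `pvieCol η b = pvddRel b (cfCol η)`, the pattern is typed in ABSOLUTE colours): `pvdd_rt_flip`, **`pvdd_rel_rt`** (`cfOf Y (pvddRel b τ) ∈ pvkqRtEv δ β ℓ ↔ cfOf Y τ ∈ pvkqRtEv δ (β == b) ℓ`), **`pvdd_rel_pat`** (slot `hev` of sec. 3 from `cfOf Y τ ∈ pvkqPat dl (pvge2Pat ..)`)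
THEN `pvhg_il_Lo / _Li` of 90 (`Tr/HookGI`) or `pvha_A_pd / _dp` of 112 (`Tr/HookLA`) give `η ∈ L.A N b`.
-/

set_option autoImplicit false
set_option linter.unusedSectionVars false
set_option linter.unusedVariables false

namespace Claimed.Agent.R289

open Relation Set Metric

variable {Y : Set ℂ}

/-! ## 1. the two feet and the lanes -/

section feet

variable {h : DelGood Y} {K : Set Y} {ζ c : ℂ} {σ : Y → Bool} {κ : ℂ → Bool} {Sg : Bool → Set ℂ} {rt ρ rs e₀ : ℝ} {up : Bool → Bool}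
  {δ ρl : ℝ} {eC eN eD : Bool → Set ℂ × ℂ × ℂ} {t : Bool → List (Set ℂ × ℂ × ℂ)} {jN jS : Bool → ℕ} {ζd : ℂ} {ρd : ℝ} {xc xa xb y0 y1 : Bool → ℝ} {Rm : Bool → Set ℂ} {at_ ad : DelDart h}

/-- **THE FOOT AT A DOOR, CUT FORM**: `ad` = a gate edge of the door (`aIn` or `aOut`), half lanes `hH` in graph form, for each colour a leg `eD β` across the room of the half lane BEYOND THE CUT `xc β`, whose hub component lies in `G β` -/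
theorem pvdd_foot_door (h : DelGood Y) {ad : DelDart h} {G : Bool → Set ℂ} (hcore : ∀ β, PvkqCore δ (eD β).1 (eD β).2.1 (eD β).2.2)
    (hleg : ∀ β, ∃ xe : ℂ, (∀ k ∈ pvkqL δ (eD β).1 (eD β).2.1 (eD β).2.2, PvlnHub (pvlnReg β (cfOf Y κ)) (pvkqU δ (eD β).1 (eD β).2.1 (eD β).2.2) δ k xe) ∧
      pathComponentIn (pvlnReg β (cfOf Y κ) ∩ pvkqU δ (eD β).1 (eD β).2.1 (eD β).2.2) xe ⊆ G β)
    (hζd : ‖ζd‖ = 1) (D : ∀ β, Pvge4DoorReg ζd δ ρd (xc β) (xa β) (xb β) (y0 β) (y1 β) (Rm β) (eD β))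
    (hH : ∀ β, ∃ v : Y, xb β ≤ (ζd * (v : ℂ)).re ∧ (delMap h).Join univ (pvldCol σ {u : Y | (u : ℂ) ∈ Rm β} β) (pvhiEnd (delMap h) β ad) v)
    (hfoot : ∀ β, (ζd * ((pvhiEnd (delMap h) β ad : Y) : ℂ)).re ≤ xc β)
    (hRm : ∀ β, ∀ u : Y, (u : ℂ) ∈ Rm β → u ∈ K ∧ vorCell Y u ⊆ closedBall (u : ℂ) ρd)
    (hRκ : ∀ β, ∀ u : Y, (u : ℂ) ∈ Rm β → xc β < (ζd * (u : ℂ)).re → σ u = κ u) : PvhjFoot h σ κ K ad G := by
  intro β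
  obtain ⟨xe, hxe, hG⟩ := hleg β
  obtain ⟨v, hv, hj⟩ := hH β
  obtain ⟨x0, hx0, j0⟩ := pvge4_slot_rt h hj hζd (hRκ β) (fun u hu => (hRm β u hu).2) (hcore β) (D β) (hfoot β) hv hxe
  have hsub : pvldCol σ {u : Y | (u : ℂ) ∈ Rm β} β ⊆ pvldCol σ K β := fun u hu => ⟨(hRm β u hu.1).1, hu.2⟩
  exact ⟨x0, pvhj_V_mono κ β hG hx0, pl_hx_join_mono Subset.rfl hsub j0⟩

/-- **THE TWO FEET AND THE LANES OF A THIN HYBRID LINK** (`at_` = the tip dart, `ad` = the gate edge of the door), arms of 23 at the PRESCRIBED side `ζ` (all tip cells, corners included) -/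
theorem pvdd_feet (foot : ∀ GN GC : Bool → Set ℂ, (∀ β, PvhjArmT Y κ β ζ c rt ρ rs (up β) (GN β) (GC β) (Sg β)) → PvhjFoot h σ κ K at_ GN)
    (hδ : 0 < δ) (hr : ∀ β, PvkqRoute δ (eC β :: eN β :: t β)) (hev : ∀ β, cfOf Y κ ∈ pvkqRtEv δ β (eC β :: eN β :: t β)) (hρ0 : 0 ≤ ρ) (he : rt + 2 * ρ < e₀)
    (R₁ : ∀ β, PvhzArmReg ζ ((ζ * c).re - e₀) ((ζ * c).im - rt) ((ζ * c).im + rt) (2 * ρ) c rs ρl (up β) (eN β).1 (eC β).1 (Sg β))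
    (R₂ : ∀ β, PvhzArmReg ζ ((ζ * c).re + e₀) ((ζ * c).im - rt) ((ζ * c).im + rt) (2 * ρ) c rs ρl (up β) (eN β).1 (eC β).1 (Sg β))
    (hρl : δ / 16 ≤ ρl) (hdS : ∀ β, VorDense Y (Sg β) ρl) (hjN : ∀ β, jN β < 4) (hjS : ∀ β, jS β < 4)
    (hSN : ∀ β, pvhzSd δ (pvkqCell δ (eN β).2.2) (jN β) ⊆ Sg β) (hSS : ∀ β, pvhzSd δ (pvkqCell δ (eC β).2.1) (jS β) ⊆ Sg β)
    (mid : ∀ β, ∀ v : Y, (vorCell Y v ∩ pvkqRtR (eN β :: t β)).Nonempty → v ∈ K ∧ σ v = κ v)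
    (hD : ∀ β, eD β ∈ eN β :: t β) (hζd : ‖ζd‖ = 1) (D : ∀ β, Pvge4DoorReg ζd δ ρd (xc β) (xa β) (xb β) (y0 β) (y1 β) (Rm β) (eD β))
    (hH : ∀ β, ∃ v : Y, xb β ≤ (ζd * (v : ℂ)).re ∧ (delMap h).Join univ (pvldCol σ {u : Y | (u : ℂ) ∈ Rm β} β) (pvhiEnd (delMap h) β ad) v)
    (hfoot : ∀ β, (ζd * ((pvhiEnd (delMap h) β ad : Y) : ℂ)).re ≤ xc β)
    (hRm : ∀ β, ∀ u : Y, (u : ℂ) ∈ Rm β → u ∈ K ∧ vorCell Y u ⊆ closedBall (u : ℂ) ρd)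
    (hRκ : ∀ β, ∀ u : Y, (u : ℂ) ∈ Rm β → xc β < (ζd * (u : ℂ)).re → σ u = κ u) :
    ∃ GN G : Bool → Set ℂ, PvhjFoot h σ κ K at_ GN ∧ PvhjFoot h σ κ K ad G ∧ PvhjMid Y σ κ K G ∧ ∀ β, GN β ⊆ G β := by
  have T := fun β => pvhj_tip_rtD h.lf κ hδ (hr β) (hev β) hρ0 he (R₁ β) (R₂ β) hρl (hdS β) (hjN β) (hjS β) (hSN β) (hSS β)
  choose GN GC G hA hsub hconn hcov hreg hleg using T
  exact ⟨GN, G, foot GN GC hA, pvdd_foot_door h (fun β => (hr β).1 _ (List.mem_cons_of_mem _ (hD β))) (fun β => hleg β (eD β) (hD β)) hζd D hH hfoot hRm hRκ,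
    ⟨hconn, hcov, fun β v hv => mid β v (hv.mono (inter_subset_inter_right _ (hreg β)))⟩, hsub⟩

/-- the same with the arms `PvhjArm` at a true box `{re (ζ w) ≤ xB}` (feet of 66 `pvhu_foot_*`, of 199 `pvhp_foot_*`) -/
theorem pvdd_feet_A {xB yL yU μ : ℝ} (foot : ∀ GN GC : Bool → Set ℂ, (∀ β, PvhjArm Y κ β ζ xB yL yU μ c rs (up β) (GN β) (GC β) (Sg β)) → PvhjFoot h σ κ K at_ GN)
    (hδ : 0 < δ) (hr : ∀ β, PvkqRoute δ (eC β :: eN β :: t β)) (hev : ∀ β, cfOf Y κ ∈ pvkqRtEv δ β (eC β :: eN β :: t β))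
    (R : ∀ β, PvhzArmReg ζ xB yL yU μ c rs ρl (up β) (eN β).1 (eC β).1 (Sg β))
    (hρl : δ / 16 ≤ ρl) (hdS : ∀ β, VorDense Y (Sg β) ρl) (hjN : ∀ β, jN β < 4) (hjS : ∀ β, jS β < 4)
    (hSN : ∀ β, pvhzSd δ (pvkqCell δ (eN β).2.2) (jN β) ⊆ Sg β) (hSS : ∀ β, pvhzSd δ (pvkqCell δ (eC β).2.1) (jS β) ⊆ Sg β)
    (mid : ∀ β, ∀ v : Y, (vorCell Y v ∩ pvkqRtR (eN β :: t β)).Nonempty → v ∈ K ∧ σ v = κ v)
    (hD : ∀ β, eD β ∈ eN β :: t β) (hζd : ‖ζd‖ = 1) (D : ∀ β, Pvge4DoorReg ζd δ ρd (xc β) (xa β) (xb β) (y0 β) (y1 β) (Rm β) (eD β))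
    (hH : ∀ β, ∃ v : Y, xb β ≤ (ζd * (v : ℂ)).re ∧ (delMap h).Join univ (pvldCol σ {u : Y | (u : ℂ) ∈ Rm β} β) (pvhiEnd (delMap h) β ad) v)
    (hfoot : ∀ β, (ζd * ((pvhiEnd (delMap h) β ad : Y) : ℂ)).re ≤ xc β)
    (hRm : ∀ β, ∀ u : Y, (u : ℂ) ∈ Rm β → u ∈ K ∧ vorCell Y u ⊆ closedBall (u : ℂ) ρd)
    (hRκ : ∀ β, ∀ u : Y, (u : ℂ) ∈ Rm β → xc β < (ζd * (u : ℂ)).re → σ u = κ u) :
    ∃ GN G : Bool → Set ℂ, PvhjFoot h σ κ K at_ GN ∧ PvhjFoot h σ κ K ad G ∧ PvhjMid Y σ κ K G ∧ ∀ β, GN β ⊆ G β := by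
  have T := fun β => pvhr_tip_rt h.lf κ hδ (hr β) (hev β) (R β) hρl (hdS β) (hjN β) (hjS β) (hSN β) (hSS β)
  choose GN GC G hA hsub hconn hcov hreg hleg using T
  exact ⟨GN, G, foot GN GC hA, pvdd_foot_door h (fun β => (hr β).1 _ (List.mem_cons_of_mem _ (hD β))) (fun β => hleg β (eD β) (hD β)) hζd D hH hfoot hRm hRκ,
    ⟨hconn, hcov, fun β v hv => mid β v (hv.mono (inter_subset_inter_right _ (hreg β)))⟩, hsub⟩

end feet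

/-! ## 2. the two links, any presentation -/

section link

variable {h : DelGood Y} {P : PlTri ↥Y} {K : Set Y} {ζ c : ℂ} {σ : Y → Bool} {κ : ℂ → Bool} {Sg : Bool → Set ℂ} {rt ρ rs e₀ : ℝ} {up : Bool → Bool}
  {δ ρl : ℝ} {eC eN eD : Bool → Set ℂ × ℂ × ℂ} {t : Bool → List (Set ℂ × ℂ × ℂ)} {jN jS : Bool → ℕ} {ζd : ℂ} {ρd : ℝ} {xc xa xb y0 y1 : Bool → ℝ} {Rm : Bool → Set ℂ}

/-- **FIRST LINK AT A FINAL CONFIGURATION** (`a₀` = tip dart of the carried exit stub → entrance of the door `g`) -/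
theorem pvdd_link_o (hP : P = delPl h) {a₀ : P.Dart} (h0 : pvasBW P.toMap σ a₀)
    (foot : ∀ GN GC : Bool → Set ℂ, (∀ β, PvhjArmT Y κ β ζ c rt ρ rs (up β) (GN β) (GC β) (Sg β)) → PvhjFootP P σ κ K a₀ GN)
    (hK : K.Finite) (hco : ∀ u v, u ∉ K → v ∉ K → P.toMap.Join univ Kᶜ u v) (g : P.toMap.Gate σ) (hne : P.toMap.src a₀ ≠ g.vm)
    (hO : ∃ f, P.toMap.src f ∉ K ∧ P.toMap.DJoin (pvldBar P.toMap σ K a₀ g.aIn) (P.toMap.opp a₀) f)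
    (hδ : 0 < δ) (hr : ∀ β, PvkqRoute δ (eC β :: eN β :: t β)) (hev : ∀ β, cfOf Y κ ∈ pvkqRtEv δ β (eC β :: eN β :: t β)) (hρ0 : 0 ≤ ρ) (he : rt + 2 * ρ < e₀)
    (R₁ : ∀ β, PvhzArmReg ζ ((ζ * c).re - e₀) ((ζ * c).im - rt) ((ζ * c).im + rt) (2 * ρ) c rs ρl (up β) (eN β).1 (eC β).1 (Sg β))
    (R₂ : ∀ β, PvhzArmReg ζ ((ζ * c).re + e₀) ((ζ * c).im - rt) ((ζ * c).im + rt) (2 * ρ) c rs ρl (up β) (eN β).1 (eC β).1 (Sg β))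
    (hρl : δ / 16 ≤ ρl) (hdS : ∀ β, VorDense Y (Sg β) ρl) (hjN : ∀ β, jN β < 4) (hjS : ∀ β, jS β < 4)
    (hSN : ∀ β, pvhzSd δ (pvkqCell δ (eN β).2.2) (jN β) ⊆ Sg β) (hSS : ∀ β, pvhzSd δ (pvkqCell δ (eC β).2.1) (jS β) ⊆ Sg β)
    (mid : ∀ β, ∀ v : Y, (vorCell Y v ∩ pvkqRtR (eN β :: t β)).Nonempty → v ∈ K ∧ σ v = κ v)
    (hD : ∀ β, eD β ∈ eN β :: t β) (hζd : ‖ζd‖ = 1) (D : ∀ β, Pvge4DoorReg ζd δ ρd (xc β) (xa β) (xb β) (y0 β) (y1 β) (Rm β) (eD β))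
    (hH : ∀ β, ∃ v : Y, xb β ≤ (ζd * (v : ℂ)).re ∧ P.toMap.Join univ (pvldCol σ {u : Y | (u : ℂ) ∈ Rm β} β) (pvhiEnd P.toMap β g.aIn) v)
    (hfoot : ∀ β, (ζd * ((pvhiEnd P.toMap β g.aIn : Y) : ℂ)).re ≤ xc β)
    (hRm : ∀ β, ∀ u : Y, (u : ℂ) ∈ Rm β → u ∈ K ∧ vorCell Y u ⊆ closedBall (u : ℂ) ρd)
    (hRκ : ∀ β, ∀ u : Y, (u : ℂ) ∈ Rm β → xc β < (ζd * (u : ℂ)).re → σ u = κ u) :
    PvldRun P.toMap σ K a₀ g.aIn := by
  subst hP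
  obtain ⟨GN, G, J₀, J₁, hG, hsub⟩ := pvdd_feet (at_ := a₀) (ad := g.aIn) foot hδ hr hev hρ0 he R₁ R₂ hρl hdS hjN hjS hSN hSS mid hD hζd D hH hfoot hRm hRκ
  exact pvhj_run_foot h hK h0 (pvtg_aIn_bw g) hne hco hO J₀ J₁ hG hsub fun _ => Subset.rfl

/-- **LAST LINK AT A FINAL CONFIGURATION** (exit of the door `g` → `a₁` = tip dart of the carried entrance stub);   the routes are listed FROM THE TIP -/
theorem pvdd_link_i (hP : P = delPl h) {a₁ : P.Dart} (h1 : pvasBW P.toMap σ a₁)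
    (foot : ∀ GN GC : Bool → Set ℂ, (∀ β, PvhjArmT Y κ β ζ c rt ρ rs (up β) (GN β) (GC β) (Sg β)) → PvhjFootP P σ κ K a₁ GN)
    (hK : K.Finite) (hco : ∀ u v, u ∉ K → v ∉ K → P.toMap.Join univ Kᶜ u v) (g : P.toMap.Gate σ) (hne : g.vp ≠ P.toMap.src a₁)
    (hO : ∃ f, P.toMap.src f ∉ K ∧ P.toMap.DJoin (pvldBar P.toMap σ K g.aOut a₁) (P.toMap.opp g.aOut) f)
    (hδ : 0 < δ) (hr : ∀ β, PvkqRoute δ (eC β :: eN β :: t β)) (hev : ∀ β, cfOf Y κ ∈ pvkqRtEv δ β (eC β :: eN β :: t β)) (hρ0 : 0 ≤ ρ) (he : rt + 2 * ρ < e₀)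
    (R₁ : ∀ β, PvhzArmReg ζ ((ζ * c).re - e₀) ((ζ * c).im - rt) ((ζ * c).im + rt) (2 * ρ) c rs ρl (up β) (eN β).1 (eC β).1 (Sg β))
    (R₂ : ∀ β, PvhzArmReg ζ ((ζ * c).re + e₀) ((ζ * c).im - rt) ((ζ * c).im + rt) (2 * ρ) c rs ρl (up β) (eN β).1 (eC β).1 (Sg β))
    (hρl : δ / 16 ≤ ρl) (hdS : ∀ β, VorDense Y (Sg β) ρl) (hjN : ∀ β, jN β < 4) (hjS : ∀ β, jS β < 4)
    (hSN : ∀ β, pvhzSd δ (pvkqCell δ (eN β).2.2) (jN β) ⊆ Sg β) (hSS : ∀ β, pvhzSd δ (pvkqCell δ (eC β).2.1) (jS β) ⊆ Sg β)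
    (mid : ∀ β, ∀ v : Y, (vorCell Y v ∩ pvkqRtR (eN β :: t β)).Nonempty → v ∈ K ∧ σ v = κ v)
    (hD : ∀ β, eD β ∈ eN β :: t β) (hζd : ‖ζd‖ = 1) (D : ∀ β, Pvge4DoorReg ζd δ ρd (xc β) (xa β) (xb β) (y0 β) (y1 β) (Rm β) (eD β))
    (hH : ∀ β, ∃ v : Y, xb β ≤ (ζd * (v : ℂ)).re ∧ P.toMap.Join univ (pvldCol σ {u : Y | (u : ℂ) ∈ Rm β} β) (pvhiEnd P.toMap β g.aOut) v)
    (hfoot : ∀ β, (ζd * ((pvhiEnd P.toMap β g.aOut : Y) : ℂ)).re ≤ xc β)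
    (hRm : ∀ β, ∀ u : Y, (u : ℂ) ∈ Rm β → u ∈ K ∧ vorCell Y u ⊆ closedBall (u : ℂ) ρd)
    (hRκ : ∀ β, ∀ u : Y, (u : ℂ) ∈ Rm β → xc β < (ζd * (u : ℂ)).re → σ u = κ u) :
    PvldRun P.toMap σ K g.aOut a₁ := by
  subst hP
  obtain ⟨GN, G, J₁, J₀, hG, hsub⟩ := pvdd_feet (at_ := a₁) (ad := g.aOut) foot hδ hr hev hρ0 he R₁ R₂ hρl hdS hjN hjS hSN hSS mid hD hζd D hH hfoot hRm hRκ
  exact pvhj_run_foot h hK (pvtg_aOut_bw g) h1 (fun e => hne ((pvtg_aOut_src g).symm.trans e)) hco hO J₀ J₁ hG (fun _ => Subset.rfl) hsub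

end link

/-! ## 3. on the routes of record of 298 -/

section pat

variable {h : DelGood Y} {P : PlTri ↥Y} {K : Set Y} {c u : ℂ} {σ : Y → Bool} {κ : ℂ → Bool} {rt ρ rs e₀ : ℝ} {sd : Bool → Bool}
  {dl ρl ρd t e₁ s₁ x₂ sb t₂ sc : ℝ} {aa ll l0 l1 : Bool → ℝ} {Rm : Bool → Set ℂ}

/-- the regions of the legs after the C of the route of record -/
theorem pvdd_Rt_tail (c u : ℂ) (up : Bool) (a t s₁ x₂ sb t₂ lb : ℝ) :
    pvkqRtR ((pvge2RN c u up a t s₁ x₂, pvge2P c u up s₁ a, pvge2P c u up x₂ a) :: pvge2LegsD c u up a t x₂ sb t₂ lb) ⊆ pvge2RN c u up a t s₁ x₂ ∪ pvge2RH c u up a t x₂ sb t₂ ∪ pvge2RV c u up a t sb t₂ lb := by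
  intro w hw
  simp only [pvkqRtR, pvge2LegsD, List.mem_cons, List.not_mem_nil, or_false, mem_iUnion, mem_ofPred_eq, exists_prop] at hw
  obtain ⟨e, (rfl | rfl | rfl), hw⟩ := hw
  · exact Or.inl (Or.inl hw)
  · exact Or.inl (Or.inr hw)
  · exact Or.inr hw

/-- **THE TWO FEET AND THE LANES ON THE ROUTES OF RECORD.**   Mouth `c` (grid centre of the tip cell), outer normal `u`, the route of the (relative) colour `β` on the side `sd β` of the ray (`sd = id` at an exit tip, `sd = not` at an entrance tip);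
everything at the door in the coordinates `(s, l)` of the frame: the feet of the gate lie beyond the plane `s = sc`, the ends of the half lanes before the bar (`s ≤ sb - t₂`), before the plane the room of colour `β` lies in `l ∈ [l0 β, l1 β]` and carries the copy colouring -/
theorem pvdd_pat_feet {at_ ad : DelDart h} (hu : ‖u‖ = 1)
    (foot : ∀ GN GC : Bool → Set ℂ, (∀ β, PvhjArmT Y κ β ((starRingEnd ℂ) u) c rt ρ rs (sd β) (GN β) (GC β) (pvge2Cl c u (sd β) (aa β) e₁ x₂ dl)) → PvhjFoot h σ κ K at_ GN)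
    (Nn : ∀ β, Pvge2Num (aa β) t e₁ s₁ x₂ dl ρl e₀ rt (2 * ρ) rs) (Bb : ∀ β, Pvge2Bar (aa β) t x₂ sb t₂ (ll β) dl) (hρ0 : 0 ≤ ρ) (he : rt + 2 * ρ < e₀)
    (hev : ∀ β, cfOf Y κ ∈ pvkqRtEv dl β (pvge2Rt c u (sd β) (aa β) t e₁ s₁ x₂ sb t₂ (ll β)))
    (hρl : dl / 16 ≤ ρl) (hdS : ∀ β, VorDense Y (pvge2Cl c u (sd β) (aa β) e₁ x₂ dl) ρl)
    (mid : ∀ β, ∀ v : Y, (vorCell Y v ∩ (pvge2RN c u (sd β) (aa β) t s₁ x₂ ∪ pvge2RH c u (sd β) (aa β) t x₂ sb t₂ ∪ pvge2RV c u (sd β) (aa β) t sb t₂ (ll β))).Nonempty → v ∈ K ∧ σ v = κ v)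
    (hρd : 0 < ρd) (hcut : sb + t₂ + 2 * ρd ≤ sc) (hroom : ∀ β, ∀ w ∈ Rm β, pvge2S c u w < sc → l0 β ≤ pvge2T c u (sd β) w ∧ pvge2T c u (sd β) w ≤ l1 β)
    (hlo : ∀ β, ll β + 3 / 2 * dl + ρd ≤ l0 β) (hhi : ∀ β, l1 β + ρd + 3 / 2 * dl ≤ aa β)
    (hH : ∀ β, ∃ v : Y, pvge2S c u (v : ℂ) ≤ sb - t₂ ∧ (delMap h).Join univ (pvldCol σ {u : Y | (u : ℂ) ∈ Rm β} β) (pvhiEnd (delMap h) β ad) v)
    (hfoot : ∀ β, sc ≤ pvge2S c u ((pvhiEnd (delMap h) β ad : Y) : ℂ))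
    (hRm : ∀ β, ∀ v : Y, (v : ℂ) ∈ Rm β → v ∈ K ∧ vorCell Y v ⊆ closedBall (v : ℂ) ρd)
    (hRκ : ∀ β, ∀ v : Y, (v : ℂ) ∈ Rm β → pvge2S c u (v : ℂ) < sc → σ v = κ v) :
    ∃ GN G : Bool → Set ℂ, PvhjFoot h σ κ K at_ GN ∧ PvhjFoot h σ κ K ad G ∧ PvhjMid Y σ κ K G ∧ ∀ β, GN β ⊆ G β := by
  have ht₂ : 0 ≤ t₂ := by have := (Bb true).core2; have := (Nn true).dl0; linarith
  have he0 : 0 ≤ e₀ := (Nn true).e0
  refine pvdd_feet (ζ := (starRingEnd ℂ) u) (c := c) (up := sd) (δ := dl) (ρl := ρl) (ρd := ρd) (ζd := -(starRingEnd ℂ) u) (Rm := Rm) (e₀ := e₀)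
    (Sg := fun β => pvge2Cl c u (sd β) (aa β) e₁ x₂ dl)
    (eC := fun β => (pvge2RC c u (sd β) (aa β) t e₁ s₁, pvge2P c u (sd β) e₁ (-(aa β)), pvge2P c u (sd β) s₁ (aa β)))
    (eN := fun β => (pvge2RN c u (sd β) (aa β) t s₁ x₂, pvge2P c u (sd β) s₁ (aa β), pvge2P c u (sd β) x₂ (aa β)))
    (t := fun β => pvge2LegsD c u (sd β) (aa β) t x₂ sb t₂ (ll β))
    (eD := fun β => (pvge2RV c u (sd β) (aa β) t sb t₂ (ll β), pvge2P c u (sd β) sb (aa β), pvge2P c u (sd β) sb (ll β)))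
    (jN := fun _ => 0) (jS := fun _ => 0)
    foot (Nn true).dl0 (fun β => pvge2_Rt_route hu (Nn β) (Bb β)) hev hρ0 he
    (fun β => pvge2_armReg hu (Nn β) (by linarith) le_rfl le_rfl le_rfl Subset.rfl Subset.rfl) (fun β => pvge2_armReg hu (Nn β) le_rfl (by linarith) le_rfl le_rfl Subset.rfl Subset.rfl)
    hρl hdS (fun _ => by norm_num) (fun _ => by norm_num)
    (fun β => (pvge2_sd_sub dl _ 0).trans (pvge2_Cl_cellN dl)) (fun β => (pvge2_sd_sub dl _ 0).trans (pvge2_Cl_cellS dl))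
    (fun β v hv => mid β v (hv.mono (inter_subset_inter_right _ (pvdd_Rt_tail _ _ _ _ _ _ _ _ _ _))))
    (fun β => by simp [pvge2LegsD]) (pvge4_turn_norm hu) (fun β => pvge4_doorReg hu hρd ht₂ hcut (hroom β) (hlo β) (hhi β)) (fun β => ?_) (fun β => ?_) hRm (fun β v hv hx => hRκ β v hv ?_)
  · obtain ⟨v, hv, hj⟩ := hH β
    refine ⟨v, ?_, hj⟩
    rw [pvge4_turn_re c u]
    linarith
  · rw [pvge4_turn_re c u]
    have := hfoot β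
    linarith
  · rw [pvge4_turn_re c u] at hx
    linarith

/-- **FIRST LINK AT A FINAL CONFIGURATION, ROUTES OF RECORD, ANY PRESENTATION** -/
theorem pvdd_pat_o (hP : P = delPl h) {a₀ : P.Dart} (h0 : pvasBW P.toMap σ a₀) (hu : ‖u‖ = 1)
    (foot : ∀ GN GC : Bool → Set ℂ, (∀ β, PvhjArmT Y κ β ((starRingEnd ℂ) u) c rt ρ rs (sd β) (GN β) (GC β) (pvge2Cl c u (sd β) (aa β) e₁ x₂ dl)) → PvhjFootP P σ κ K a₀ GN)
    (hK : K.Finite) (hco : ∀ u v, u ∉ K → v ∉ K → P.toMap.Join univ Kᶜ u v) (g : P.toMap.Gate σ) (hne : P.toMap.src a₀ ≠ g.vm)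
    (hO : ∃ f, P.toMap.src f ∉ K ∧ P.toMap.DJoin (pvldBar P.toMap σ K a₀ g.aIn) (P.toMap.opp a₀) f)
    (Nn : ∀ β, Pvge2Num (aa β) t e₁ s₁ x₂ dl ρl e₀ rt (2 * ρ) rs) (Bb : ∀ β, Pvge2Bar (aa β) t x₂ sb t₂ (ll β) dl) (hρ0 : 0 ≤ ρ) (he : rt + 2 * ρ < e₀)
    (hev : ∀ β, cfOf Y κ ∈ pvkqRtEv dl β (pvge2Rt c u (sd β) (aa β) t e₁ s₁ x₂ sb t₂ (ll β)))
    (hρl : dl / 16 ≤ ρl) (hdS : ∀ β, VorDense Y (pvge2Cl c u (sd β) (aa β) e₁ x₂ dl) ρl)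
    (mid : ∀ β, ∀ v : Y, (vorCell Y v ∩ (pvge2RN c u (sd β) (aa β) t s₁ x₂ ∪ pvge2RH c u (sd β) (aa β) t x₂ sb t₂ ∪ pvge2RV c u (sd β) (aa β) t sb t₂ (ll β))).Nonempty → v ∈ K ∧ σ v = κ v)
    (hρd : 0 < ρd) (hcut : sb + t₂ + 2 * ρd ≤ sc) (hroom : ∀ β, ∀ w ∈ Rm β, pvge2S c u w < sc → l0 β ≤ pvge2T c u (sd β) w ∧ pvge2T c u (sd β) w ≤ l1 β)
    (hlo : ∀ β, ll β + 3 / 2 * dl + ρd ≤ l0 β) (hhi : ∀ β, l1 β + ρd + 3 / 2 * dl ≤ aa β)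
    (hH : ∀ β, ∃ v : Y, pvge2S c u (v : ℂ) ≤ sb - t₂ ∧ P.toMap.Join univ (pvldCol σ {u : Y | (u : ℂ) ∈ Rm β} β) (pvhiEnd P.toMap β g.aIn) v)
    (hfoot : ∀ β, sc ≤ pvge2S c u ((pvhiEnd P.toMap β g.aIn : Y) : ℂ))
    (hRm : ∀ β, ∀ v : Y, (v : ℂ) ∈ Rm β → v ∈ K ∧ vorCell Y v ⊆ closedBall (v : ℂ) ρd)
    (hRκ : ∀ β, ∀ v : Y, (v : ℂ) ∈ Rm β → pvge2S c u (v : ℂ) < sc → σ v = κ v) :
    PvldRun P.toMap σ K a₀ g.aIn := by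
  subst hP
  obtain ⟨GN, G, J₀, J₁, hG, hsub⟩ := pvdd_pat_feet (at_ := a₀) (ad := g.aIn) hu foot Nn Bb hρ0 he hev hρl hdS mid hρd hcut hroom hlo hhi hH hfoot hRm hRκ
  exact pvhj_run_foot h hK h0 (pvtg_aIn_bw g) hne hco hO J₀ J₁ hG hsub fun _ => Subset.rfl

/-- **LAST LINK AT A FINAL CONFIGURATION, ROUTES OF RECORD, ANY PRESENTATION** -/
theorem pvdd_pat_i (hP : P = delPl h) {a₁ : P.Dart} (h1 : pvasBW P.toMap σ a₁) (hu : ‖u‖ = 1)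
    (foot : ∀ GN GC : Bool → Set ℂ, (∀ β, PvhjArmT Y κ β ((starRingEnd ℂ) u) c rt ρ rs (sd β) (GN β) (GC β) (pvge2Cl c u (sd β) (aa β) e₁ x₂ dl)) → PvhjFootP P σ κ K a₁ GN)
    (hK : K.Finite) (hco : ∀ u v, u ∉ K → v ∉ K → P.toMap.Join univ Kᶜ u v) (g : P.toMap.Gate σ) (hne : g.vp ≠ P.toMap.src a₁)
    (hO : ∃ f, P.toMap.src f ∉ K ∧ P.toMap.DJoin (pvldBar P.toMap σ K g.aOut a₁) (P.toMap.opp g.aOut) f)
    (Nn : ∀ β, Pvge2Num (aa β) t e₁ s₁ x₂ dl ρl e₀ rt (2 * ρ) rs) (Bb : ∀ β, Pvge2Bar (aa β) t x₂ sb t₂ (ll β) dl) (hρ0 : 0 ≤ ρ) (he : rt + 2 * ρ < e₀)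
    (hev : ∀ β, cfOf Y κ ∈ pvkqRtEv dl β (pvge2Rt c u (sd β) (aa β) t e₁ s₁ x₂ sb t₂ (ll β)))
    (hρl : dl / 16 ≤ ρl) (hdS : ∀ β, VorDense Y (pvge2Cl c u (sd β) (aa β) e₁ x₂ dl) ρl)
    (mid : ∀ β, ∀ v : Y, (vorCell Y v ∩ (pvge2RN c u (sd β) (aa β) t s₁ x₂ ∪ pvge2RH c u (sd β) (aa β) t x₂ sb t₂ ∪ pvge2RV c u (sd β) (aa β) t sb t₂ (ll β))).Nonempty → v ∈ K ∧ σ v = κ v)
    (hρd : 0 < ρd) (hcut : sb + t₂ + 2 * ρd ≤ sc) (hroom : ∀ β, ∀ w ∈ Rm β, pvge2S c u w < sc → l0 β ≤ pvge2T c u (sd β) w ∧ pvge2T c u (sd β) w ≤ l1 β)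
    (hlo : ∀ β, ll β + 3 / 2 * dl + ρd ≤ l0 β) (hhi : ∀ β, l1 β + ρd + 3 / 2 * dl ≤ aa β)
    (hH : ∀ β, ∃ v : Y, pvge2S c u (v : ℂ) ≤ sb - t₂ ∧ P.toMap.Join univ (pvldCol σ {u : Y | (u : ℂ) ∈ Rm β} β) (pvhiEnd P.toMap β g.aOut) v)
    (hfoot : ∀ β, sc ≤ pvge2S c u ((pvhiEnd P.toMap β g.aOut : Y) : ℂ))
    (hRm : ∀ β, ∀ v : Y, (v : ℂ) ∈ Rm β → v ∈ K ∧ vorCell Y v ⊆ closedBall (v : ℂ) ρd)
    (hRκ : ∀ β, ∀ v : Y, (v : ℂ) ∈ Rm β → pvge2S c u (v : ℂ) < sc → σ v = κ v) :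
    PvldRun P.toMap σ K g.aOut a₁ := by
  subst hP
  obtain ⟨GN, G, J₁, J₀, hG, hsub⟩ := pvdd_pat_feet (at_ := a₁) (ad := g.aOut) hu foot Nn Bb hρ0 he hev hρl hdS mid hρd hcut hroom hlo hhi hH hfoot hRm hRκ
  exact pvhj_run_foot h hK (pvtg_aOut_bw g) h1 (fun e => hne ((pvtg_aOut_src g).symm.trans e)) hco hO J₀ J₁ hG (fun _ => Subset.rfl) hsub

end pat

/-! ## 4. the hypotheses `hdS`, `mid`, `hRm` from the mesh of a window, at the link region `K = pvgeKV Y S` -/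

section mesh

variable {W S : Set ℂ} {μ : ℝ} {σ : Y → Bool} {κ : ℂ → Bool}

/-- deep in a window with the mesh `μ` the cells have radius `≤ μ` -/
theorem pvdd_cell_ball (hμ : 0 < μ) (hm : PvtrMesh μ W Y) {v : ℂ} (hv : v ∈ pvtrCore (3 * μ) W) : vorCell Y v ⊆ closedBall v μ := by
  have h1 : v ∈ pvtrCore (μ + 2 * μ) W := by
    have e : μ + 2 * μ = 3 * μ := by ring
    rw [e]; exact hv
  exact pvge_cell_core hμ.le (by linarith : μ < 2 * μ) hm (pvtr_core_core h1)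

/-- a site whose cell is small and far from `S` belongs to the link region -/
theorem pvdd_mem_KV {v : Y} {r : ℝ} (hc : vorCell Y v ⊆ closedBall (v : ℂ) r) (hS : Disjoint (closedBall (v : ℂ) r) S) : v ∈ pvgeKV Y S :=
  ⟨v.2, hS.mono_left hc⟩

/-- **`hdS`** : density on a closing set in the core of the window -/
theorem pvdd_dense_of (hm : PvtrMesh μ W Y) {Sg : Set ℂ} (hS : Sg ⊆ pvtrCore μ W) {ρl : ℝ} (hρ : μ ≤ ρl) : VorDense Y Sg ρl := fun z hz => by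
  obtain ⟨u, hu, hn⟩ := hm z (hS hz)
  exact ⟨u, hu, hn.trans hρ⟩

/-- a site whose cell meets a region in the core of the window lies within `μ` of the region -/
theorem pvdd_meet_nbd (hm : PvtrMesh μ W Y) {Rg : Set ℂ} (hR : Rg ⊆ pvtrCore μ W) {v : ℂ} (hv : (vorCell Y v ∩ Rg).Nonempty) : v ∈ vorNbd Rg μ := by
  have hd : VorDense Y Rg μ := fun z hz => hm z (hR hz)
  exact pvhz_meet_nbd hd Subset.rfl hv

/-- **`mid`** : the sites whose cell meets the region `Rg` lie in the link region and carry the copy colouring -/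
theorem pvdd_mid_of (hμ : 0 < μ) (hm : PvtrMesh μ W Y) {Rg : Set ℂ} (hR : Rg ⊆ pvtrCore (4 * μ) W) (hS : Disjoint (vorNbd Rg (2 * μ)) S) (hκ : ∀ v : Y, (v : ℂ) ∈ vorNbd Rg μ → σ v = κ v) :
    ∀ v : Y, (vorCell Y v ∩ Rg).Nonempty → v ∈ pvgeKV Y S ∧ σ v = κ v := by
  intro v hv
  have hn := pvdd_meet_nbd hm (hR.trans (pvtr_core_anti (by linarith))) hv
  refine ⟨?_, hκ v hn⟩
  obtain ⟨z, hz, hvz⟩ := hn
  have hcore : (v : ℂ) ∈ pvtrCore (3 * μ) W := by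
    intro w hw
    refine hR hz ?_
    rw [mem_closedBall, dist_eq_norm] at hw ⊢
    have e : w - z = (w - (v : ℂ)) + ((v : ℂ) - z) := by ring
    rw [e]
    exact (norm_add_le _ _).trans (by linarith)
  refine pvdd_mem_KV (pvdd_cell_ball hμ hm hcore) (hS.mono_left ?_)
  intro w hw
  refine ⟨z, hz, ?_⟩
  rw [mem_closedBall, dist_eq_norm] at hw
  have e : w - z = (w - (v : ℂ)) + ((v : ℂ) - z) := by ring
  rw [e]
  exact (norm_add_le _ _).trans (by linarith)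

/-- **`hRm`** : the sites of a room lie in the link region, their cells are small -/
theorem pvdd_room_of (hμ : 0 < μ) (hm : PvtrMesh μ W Y) {Rm : Set ℂ} (hR : Rm ⊆ pvtrCore (3 * μ) W) (hS : Disjoint (vorNbd Rm μ) S) :
    ∀ v : Y, (v : ℂ) ∈ Rm → v ∈ pvgeKV Y S ∧ vorCell Y v ⊆ closedBall (v : ℂ) μ := by
  intro v hv
  have hc := pvdd_cell_ball hμ hm (hR hv)
  refine ⟨pvdd_mem_KV hc (hS.mono_left ?_), hc⟩
  intro w hw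
  refine ⟨v, hv, ?_⟩
  rwa [mem_closedBall, dist_eq_norm] at hw

end mesh

/-! ## 5. relative colours -/

theorem pvdd_reg_flip (c : Bool) (η : Conf PvPt) : pvlnReg c (cfFlip η) = pvlnReg (!c) η := by
  unfold pvlnReg
  rw [pvr_Bk_flip, pvr_Wh_flip]
  cases c <;> rfl

theorem pvdd_occ_flip (Q : Set ℂ) (η : Conf PvPt) : cfFlip η ∈ pvmOcc (Q ×ˢ (univ : Set Bool)) ↔ η ∈ pvmOcc (Q ×ˢ (univ : Set Bool)) := by
  constructor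
  · rintro ⟨⟨v, k⟩, hp, hQ⟩
    exact ⟨(v, !k), (pvrm_flip_mem η v k).1 hp, ⟨hQ.1, mem_univ _⟩⟩
  · rintro ⟨⟨v, k⟩, hp, hQ⟩
    exact ⟨(v, !k), (pvrm_flip_mem η v (!k)).2 (by rwa [Bool.not_not]), ⟨hQ.1, mem_univ _⟩⟩

theorem pvdd_good_flip (ρ : ℝ) (w : ℂ) (L : ℝ) (η : Conf PvPt) : cfFlip η ∈ pvmGood univ ρ w L ↔ η ∈ pvmGood univ ρ w L := by
  unfold pvmGood pvmGrid
  simp only [mem_iInter, pvdd_occ_flip]

theorem pvdd_core_flip (c : Bool) (l : List RswTri) (cen : List ℂ) (u : ℝ) (η : Conf PvPt) : cfFlip η ∈ pvlnCore c l cen u ↔ η ∈ pvlnCore (!c) l cen u := by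
  unfold pvlnCore pvlnAll pvlnG
  simp only [mem_inter_iff, mem_ofPred_eq, pvdd_reg_flip, pvrm_LF_flip, pvdd_good_flip]

theorem pvdd_restr_flip (N : Set ℂ) (η : Conf PvPt) : Conf.restr (N ×ˢ (univ : Set Bool)) (cfFlip η) = cfFlip (Conf.restr (N ×ˢ (univ : Set Bool)) η) := by
  ext p
  simp only [cfFlip, Conf.restr, Conf.image, mem_image, mem_inter_iff, mem_prod, mem_univ, and_true]
  constructor
  · rintro ⟨⟨q, hq, rfl⟩, hO⟩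
    exact ⟨q, ⟨hq, hO⟩, rfl⟩
  · rintro ⟨q, ⟨hq, hO⟩, rfl⟩
    exact ⟨⟨q, hq, rfl⟩, hO⟩

theorem pvdd_loc_flip (N : Set ℂ) (c : Bool) (l : List RswTri) (cen : List ℂ) (u : ℝ) (η : Conf PvPt) : cfFlip η ∈ pvlnLoc N c l cen u ↔ η ∈ pvlnLoc N (!c) l cen u := by
  unfold pvlnLoc
  rw [mem_preimage, mem_preimage, pvdd_restr_flip, pvdd_core_flip]

/-- a route event at the flipped configuration -/
theorem pvdd_rt_flip (δ : ℝ) (c : Bool) (ℓ : List (Set ℂ × ℂ × ℂ)) (η : Conf PvPt) : cfFlip η ∈ pvkqRtEv δ c ℓ ↔ η ∈ pvkqRtEv δ (!c) ℓ := by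
  unfold pvkqRtEv pvlnLaneEv
  exact pvdd_loc_flip _ _ _ _ _ _

/-- the colouring seen by a rim of colour `b` (`pvieCol η b v = pvddRel b (cfCol η) v.1` and `pvukS b η v = pvddRel b (cfCol η) v.1` by `rfl`) -/
def pvddRel (b : Bool) (τ : ℂ → Bool) : ℂ → Bool := fun w => τ w == b

theorem pvdd_eqns_cite : True := by
  have := @pvddRel.eq_1
  trivial

theorem pvdd_rel_true (τ : ℂ → Bool) : pvddRel true τ = τ := by
  funext w; simp [pvddRel]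

theorem pvdd_rel_false (Y : Set ℂ) (τ : ℂ → Bool) : cfOf Y (pvddRel false τ) = cfFlip (cfOf Y τ) := by
  ext ⟨v, k⟩
  rw [pvrm_flip_mem]
  simp only [cfOf, mem_ofPred_eq, pvddRel]
  constructor
  · rintro ⟨h1, h2⟩
    exact ⟨h1, by rw [h2]; cases τ v <;> rfl⟩
  · rintro ⟨h1, h2⟩
    exact ⟨h1, by rw [← h2]; cases k <;> rfl⟩

/-- **RELATIVE COLOURS**: the route event of the RELATIVE colour `β` for the colouring seen by a rim of colour `b` = the route event of the ABSOLUTE colour `β == b` -/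
theorem pvdd_rel_rt (δ : ℝ) (b β : Bool) (ℓ : List (Set ℂ × ℂ × ℂ)) (Y : Set ℂ) (τ : ℂ → Bool) : cfOf Y (pvddRel b τ) ∈ pvkqRtEv δ β ℓ ↔ cfOf Y τ ∈ pvkqRtEv δ (β == b) ℓ := by
  cases b
  · rw [pvdd_rel_false, pvdd_rt_flip]
    cases β <;> rfl
  · rw [pvdd_rel_true]
    cases β <;> rfl

/-- **RELATIVE COLOURS, PATTERN OF RECORD**: the two routes of the pattern `pvge2Pat` (absolute colours `col`, `!col`) as routes of the RELATIVE colours `β` : slot `hev` of `pvdd_pat_o/_i` with `κ := pvddRel b τ` -/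
theorem pvdd_rel_pat (dl : ℝ) (c u : ℂ) (up col b : Bool) (a₁ a₂ t e₁ s₁ x₂ sb t₂ lb₁ lb₂ : ℝ) (Y : Set ℂ) (τ : ℂ → Bool)
    (h : cfOf Y τ ∈ pvkqPat dl (pvge2Pat c u up col a₁ a₂ t e₁ s₁ x₂ sb t₂ lb₁ lb₂)) (β : Bool) :
    cfOf Y (pvddRel b τ) ∈ pvkqRtEv dl β (pvge2Rt c u (cond ((β == b) == col) up (!up)) (cond ((β == b) == col) a₁ a₂) t e₁ s₁ x₂ sb t₂ (cond ((β == b) == col) lb₁ lb₂)) := by
  rw [pvdd_rel_rt]
  rw [pvge2_pat_ev] at h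
  cases b <;> cases β <;> cases col <;> first | exact h.1 | exact h.2

end Claimed.Agent.R289
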