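import Claimed.Agent.R289.Tr.HookGI
import Claimed.Agent.R289.Tr.HookY

/-!
# Row 289 (S0537), THE WALL, road E, HOOK-DET, file Tr/HookGJ : **HOOK-DET FOR THE HYBRID LINKS OF `Tr/InstL` v2.1, ONE STOPS**      (helper90; prefix `pvhg_`, `Pvhg` continued)      0 sorry

= `Tr/HookY` v6 of 23 / 298 (tips, feet, lanes ⟹ run) composed with (A) of `Tr/HookGI` (run ⟹ plain success).      CONSUMERS: (b3) DET of `Exit/FrcE` (35; pen 228), the r-link (233).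
23, 298: if you change a signature of `pvhj_run_out_pl`, `pvhj_run_in_pl`, `pvhj_run_foot_pl`, `pvhj_end_K`, `pvhj_K_pl`, `PvhjEnd`: PATCH THIS FILE IN THE SAME COMMIT (permission given; the hypotheses are passed through verbatim).
* sec. 1  **`pvhg_il_link_o`** (pin → door), **`pvhg_il_link_i`** (door → pin), **`pvhg_il_link_d`** (door → door): states + `PvhjEnd` + tip radius + side + arms + `K` + FOOT of the door (`PvhjFootP`) + lanes (`PvhjMid`)  ⟹  `η ∈ L.A N b`.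
          OUT behind a door is PAID HERE by the through strand of its gate of record (`pvhg_out_gate`): `g⁻(door) ∉ K`, the target dart is not inside the gate.
* sec. 2  the same at `K := pvgeKV Y (L.Yin)ᶜ` (sites whose CELL lies in the room): `PvhgEndNum`, `pvhg_end`, **`pvhg_il_link_o_room`, `pvhg_il_link_i_room`, `pvhg_il_link_d_room`**: the room is bounded, without hole, off the core disc of the pin, contains the small mouth with its collar.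
-/

set_option autoImplicit false
set_option linter.unusedSectionVars false
set_option linter.unusedVariables false

namespace Claimed.Agent.R289

open Relation Set Metric Claims.C0465
open scoped ComplexConjugate

/-! ## 1. HOOK-DET FOR THE HYBRID LINKS, ONE STOP: one pin (tip theorems of 23) + one door (ANY foot: 228 `Tr/HookD`) -/

section one

variable {V D : Type} {T : PvMap V D} {κ' : Type} {mk : V → κ'} {s : V → Bool}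

/-- **OUT behind the exit gate edge of a gate of record**: the through strand starts at `g⁻ ∉ K` and stays inside the gate, the target `a₁` is not inside the gate      (`pvdt_out` of 294, same proof) -/
theorem pvhg_out_gate {KT : Set κ'} {g : T.Gate s} {n : ℕ} (ht : PvzlThru T mk s KT g n) {K : Set V} {a₁ : D} (h1 : pvasBW T s a₁) (hm : g.vm ∉ K) (ha : a₁ ∉ g.c.Left) :
    ∃ f, T.src f ∉ K ∧ T.DJoin (pvldBar T s K g.aOut a₁) (T.opp g.aOut) f := by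
  refine pvld_out_strand h1 (pvtg_aIn_bw g) ht.2.1 (fun i hi => ⟨ht.2.2.1 i hi, fun e => ha (e ▸ ht.2.2.2.1 i hi)⟩) fun hsub => hm (hsub ?_)
  rw [pvas_fc_verts s g.aIn ht.1]
  exact Or.inl ⟨0, Nat.zero_le _, rfl⟩

end one

section one2

variable {N : PvwNum} {b : Bool} {η : Conf PvPt} {𝔖 𝔖' : PvwSt (pvieT η)} {L : PvilLk} {K : Set ↥(pvieY η)} {r r₁ ρ rs rt : ℝ} {ζ : ℂ} {κ : ℂ → Bool} {GN GC Sg H G : Bool → Set ℂ}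

/-- **PIN → DOOR (first link), ONE STOP**: exit half state of the pin `L.p`, door state of `L.p'`, numbers at the tip, side, arms of the copy colouring `κ`, link region `K` (finite, co-connected, over the room),
the FOOT of the entry gate edge of the door, the lanes  ⟹  THE PLAIN SUCCESS `η ∈ L.A N b` -/
theorem pvhg_il_link_o (h0 : L.dr = false) (h1 : L.dr' = true) (hf : PvhgFr L.p.fr) (hp : PvilOut N b L.p η 𝔖) (hd : PvilDoor (pvkdP L.p'.h) b η L.p'.z L.p'.fr 𝔖')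
    (E : PvhjEnd (pvieY η) N L.p.h L.p.ty L.p.yP K r r₁ ρ rs)
    (ht1 : ‖((pvieT η).src (𝔖.ep 𝔖.np) : ℂ) - L.p.yP‖ + 2 * ρ ≤ rt) (ht2 : ‖((pvieT η).tgt (𝔖.ep 𝔖.np) : ℂ) - L.p.yP‖ + 2 * ρ ≤ rt) (hζ : ζ ∈ pvtzdDir) (hout : L.p.rk N + (ζ * L.p.z).re < (ζ * (𝔖.ap : ℂ)).re)
    (A : ∀ β, PvhjArm (pvieY η) κ β ζ (L.p.rk N + (ζ * L.p.z).re) ((ζ * L.p.yP).im - rt) ((ζ * L.p.yP).im + rt) (2 * ρ) L.p.yP rs β (GN β) (GC β) (Sg β))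
    (hκ : ∀ v : ↥(pvieY η), ‖(v : ℂ) - L.p.yP‖ ≤ rs → v ∉ 𝔖.bkP ∪ 𝔖.whP → pvieCol η b v = κ v)
    (hK : K.Finite) (hco : ∀ u v, u ∉ K → v ∉ K → (pvieT η).Join univ Kᶜ u v) (hKY : ∀ v ∈ K, pviePos η v ∈ L.Yin) (hgp : 𝔖.gp ∉ K) (hdis : 𝔖'.gm ∉ 𝔖.bkP)
    (J : PvhjFootP (delbPl (pvieY η)) (pvieCol η b) κ K 𝔖'.dm H) (hG : PvhjMid (pvieY η) (pvieCol η b) κ K G) (hGN : ∀ β, GN β ⊆ G β) (hH : ∀ β, H β ⊆ G β) : η ∈ L.A N b := by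
  have a := pvhg_il_out hf hp
  have dd := pvhg_door_data hd
  refine pvhg_il_A ((PvilLk.atP_pin h0 _ _ _ _).2 hp) ((PvilLk.atP'_door h1 _ _ _ _).2 hd) hdis (fun e => by rw [h1] at e; cases e) hKY ?_
  rw [dd.2.2.2.1]
  exact pvhj_run_out_pl (h := hp.good) (delb_pl_eq hp.good) a ⟨E.rho, E.r2, E.r1, E.rr, E.mesh, E.far, E.rs0, E.rs1, E.rs2, E.inK⟩ ht1 ht2 hζ hout A hκ hK hco hgp dd.2.2.2.2.2 hdis J hG hGN hH

/-- **DOOR → PIN (last link, thick link), ONE STOP**: door state of `L.p`, entrance half state of the pin `L.p'`;   OUT is paid by the through strand of the door: `g⁻(door) ∉ K`, the tip dart of the pin is not inside the gate of the door -/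
theorem pvhg_il_link_i (h0 : L.dr = true) (h1 : L.dr' = false) (hf : PvhgFr L.p'.fr) (hd : PvilDoor (pvkdP L.p.h) b η L.p.z L.p.fr 𝔖) (hp : PvilIn N b L.p' η 𝔖')
    (E : PvhjEnd (pvieY η) N L.p'.h L.p'.ty L.p'.yM K r r₁ ρ rs)
    (ht1 : ‖((pvieT η).src (𝔖'.em 𝔖'.nm) : ℂ) - L.p'.yM‖ + 2 * ρ ≤ rt) (ht2 : ‖((pvieT η).tgt (𝔖'.em 𝔖'.nm) : ℂ) - L.p'.yM‖ + 2 * ρ ≤ rt) (hζ : ζ ∈ pvtzdDir) (hout : L.p'.rk N + (ζ * L.p'.z).re < (ζ * (𝔖'.am : ℂ)).re)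
    (A : ∀ β, PvhjArm (pvieY η) κ β ζ (L.p'.rk N + (ζ * L.p'.z).re) ((ζ * L.p'.yM).im - rt) ((ζ * L.p'.yM).im + rt) (2 * ρ) L.p'.yM rs (!β) (GN β) (GC β) (Sg β))
    (hκ : ∀ v : ↥(pvieY η), ‖(v : ℂ) - L.p'.yM‖ ≤ rs → v ∉ 𝔖'.bkM ∪ 𝔖'.whM → pvieCol η b v = κ v)
    (hK : K.Finite) (hco : ∀ u v, u ∉ K → v ∉ K → (pvieT η).Join univ Kᶜ u v) (hKY : ∀ v ∈ K, pviePos η v ∈ L.Yin) (hgm : 𝔖'.gm ∉ K) (hne : 𝔖'.gm ≠ 𝔖.gp)
    (htip : 𝔖.gp ≠ (pvieT η).src (𝔖'.em 𝔖'.nm)) (hvm : 𝔖.gm ∉ K) (hleft : 𝔖'.em 𝔖'.nm ∉ 𝔖.S.Left)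
    (J : PvhjFootP (delbPl (pvieY η)) (pvieCol η b) κ K 𝔖.dp H) (hG : PvhjMid (pvieY η) (pvieCol η b) κ K G) (hH : ∀ β, H β ⊆ G β) (hGN : ∀ β, GN β ⊆ G β) : η ∈ L.A N b := by
  have a := pvhg_il_in hf hp
  have dd := pvhg_door_data hd
  obtain ⟨g, hg, e1, -, e3, -, e5⟩ := pvhg_door_gate hd
  obtain ⟨n, hn⟩ := hg.thru
  refine pvhg_il_A ((PvilLk.atP_door h0 _ _ _ _).2 hd) ((PvilLk.atP'_pin h1 _ _ _ _).2 hp) (pvhg_door_bkP hd hne) (fun _ => hgm) hKY ?_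
  rw [dd.2.2.1]
  have hO : ∃ f, (pvieT η).src f ∉ K ∧ (pvieT η).DJoin (pvldBar (pvieT η) (pvieCol η b) K 𝔖.dp (𝔖'.em 𝔖'.nm)) ((pvieT η).opp 𝔖.dp) f := by
    rw [e1]
    exact pvhg_out_gate hn (pvwk_em_bw a.stub a.gate.bw_m le_rfl) (e5 ▸ hvm) (e3 ▸ hleft)
  exact pvhj_run_in_pl (h := hp.good) (delb_pl_eq hp.good) a ⟨E.rho, E.r2, E.r1, E.rr, E.mesh, E.far, E.rs0, E.rs1, E.rs2, E.inK⟩ ht1 ht2 hζ hout A hκ hK hco dd.2.2.2.2.1 htip hO J hG hH hGN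

/-- **DOOR → DOOR (link into the reference plug), ONE STOP**: two feet -/
theorem pvhg_il_link_d (hgood : DelGood (pvieY η)) (h0 : L.dr = true) (h1 : L.dr' = true) (hd : PvilDoor (pvkdP L.p.h) b η L.p.z L.p.fr 𝔖) (hd' : PvilDoor (pvkdP L.p'.h) b η L.p'.z L.p'.fr 𝔖')
    (hK : K.Finite) (hco : ∀ u v, u ∉ K → v ∉ K → (pvieT η).Join univ Kᶜ u v) (hKY : ∀ v ∈ K, pviePos η v ∈ L.Yin) (hne : 𝔖'.gm ≠ 𝔖.gp) (hvm : 𝔖.gm ∉ K) (hleft : 𝔖'.dm ∉ 𝔖.S.Left)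
    {H' : Bool → Set ℂ} (J : PvhjFootP (delbPl (pvieY η)) (pvieCol η b) κ K 𝔖.dp H) (J' : PvhjFootP (delbPl (pvieY η)) (pvieCol η b) κ K 𝔖'.dm H') (hG : PvhjMid (pvieY η) (pvieCol η b) κ K G)
    (hH : ∀ β, H β ⊆ G β) (hH' : ∀ β, H' β ⊆ G β) : η ∈ L.A N b := by
  have dd := pvhg_door_data hd
  have dd' := pvhg_door_data hd'
  obtain ⟨g, hg, e1, -, e3, -, e5⟩ := pvhg_door_gate hd
  obtain ⟨n, hn⟩ := hg.thru
  refine pvhg_il_A ((PvilLk.atP_door h0 _ _ _ _).2 hd) ((PvilLk.atP'_door h1 _ _ _ _).2 hd') (pvhg_door_bkP hd hne) (fun e => by rw [h1] at e; cases e) hKY ?_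
  rw [dd.2.2.1, dd'.2.2.2.1]
  have hO : ∃ f, (pvieT η).src f ∉ K ∧ (pvieT η).DJoin (pvldBar (pvieT η) (pvieCol η b) K 𝔖.dp 𝔖'.dm) ((pvieT η).opp 𝔖.dp) f := by
    rw [e1]
    exact pvhg_out_gate hn dd'.2.2.2.2.2 (e5 ▸ hvm) (e3 ▸ hleft)
  exact pvhj_run_foot_pl (h := hgood) (delb_pl_eq hgood) hK dd.2.2.2.2.1 dd'.2.2.2.2.2 (fun e => hne e.symm) hco hO J J' hG hH hH'

end one2

/-! ## 2. THE SAME WITH THE LINK REGION OF THE ROOM, `K := pvgeKV Y (L.Yin)ᶜ` = the sites whose CELL lies in the room: only numbers, mesh, regions, sides, arms, feet and lanes are left -/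

section room

variable {Y : Set ℂ}

theorem pvhg_KV_iff {Yr : Set ℂ} {v : Y} : v ∈ pvgeKV Y Yrᶜ ↔ vorCell Y v ⊆ Yr :=
  ⟨fun hv => Set.disjoint_compl_right_iff_subset.1 hv.2, fun hv => ⟨v.2, Set.disjoint_compl_right_iff_subset.2 hv⟩⟩

theorem pvhg_KV_over {Yr : Set ℂ} {v : Y} (hv : v ∈ pvgeKV Y Yrᶜ) : (v : ℂ) ∈ Yr := pvhg_KV_iff.1 hv (vor_self_mem Y v)

theorem pvhg_sph_pl (h : DelGood Y) {P : PlTri ↥Y} (hP : P = delPl h) : P.toMap.IsSph := by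
  subst hP
  exact dls_isSph h

/-- the foot of a dart has its black end in `K` -/
theorem pvhg_foot_src {P : PlTri ↥Y} {σ : Y → Bool} {κ : ℂ → Bool} {K : Set Y} {a : P.Dart} {H : Bool → Set ℂ} (J : PvhjFootP P σ κ K a H) : P.toMap.src a ∈ K := by
  obtain ⟨x0, -, hj⟩ := J true
  exact hj.1.1

/-- **THE NUMBERS AT ONE TIP** (no site, no colour, no region) -/
structure PvhgEndNum (N : PvwNum) (hh : ℝ) (τ : PvwTy) (r r₁ ρ rs : ℝ) : Prop where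
  rho : 0 < ρ
  rho0 : 0 ≤ N.rho * hh
  r2 : N.rho2 * hh ≤ r
  r1 : N.rho * hh / 4 + 2 * ρ ≤ r₁
  rr : 3 * r₁ + 2 * ρ ≤ r
  far : r + 4 * ρ + r₁ + τ.b * hh ≤ pvwRad N hh τ τ.k
  rs0 : N.rho * hh / 4 ≤ rs
  rs1 : rs ≤ r₁
  rs2 : rs + 4 * ρ ≤ N.rho1 * hh / 2

/-- `PvhjEnd` (23) at the link region of a room: numbers + mesh + the small mouth with its collar lies in the room -/
theorem pvhg_end {N : PvwNum} {hh : ℝ} {τ : PvwTy} {r r₁ ρ rs : ℝ} (n : PvhgEndNum N hh τ r r₁ ρ rs) {c : ℂ} {Yr : Set ℂ} (hmesh : VorDense Y (closedBall c (r + 3 * ρ)) ρ)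
    (hball : closedBall c (rs + 5 * ρ) ⊆ Yr) : PvhjEnd Y N hh τ c (pvgeKV Y Yrᶜ) r r₁ ρ rs :=
  pvhj_end_K n.rho n.rho0 n.r2 n.r1 n.rr hmesh n.far n.rs0 n.rs1 n.rs2 (Set.disjoint_compl_right_iff_subset.2 hball)

end room

section one3

variable {N : PvwNum} {b : Bool} {η : Conf PvPt} {𝔖 𝔖' : PvwSt (pvieT η)} {L : PvilLk} {r r₁ ρ rs rt : ℝ} {ζ : ℂ} {κ : ℂ → Bool} {GN GC Sg H G : Bool → Set ℂ}

/-- `g⁺` of a pin lies in the disc of the core -/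
theorem pvhg_il_gp_disc {p : PvilPl} (hf : PvhgFr p.fr) (hp : PvilOut N b p η 𝔖) : ‖pviePos η 𝔖.gp - p.z‖ < p.ty.b * p.h := by
  have a := pvhg_il_out hf hp
  exact a.gate.inside _ (pvwk_gate_ends (pvhg_sph_pl hp.good (delb_pl_eq hp.good)) a.gate).1

/-- `g⁻` of a pin lies in the disc of the core -/
theorem pvhg_il_gm_disc {p : PvilPl} (hf : PvhgFr p.fr) (hp : PvilIn N b p η 𝔖) : ‖pviePos η 𝔖.gm - p.z‖ < p.ty.b * p.h := by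
  have a := pvhg_il_in hf hp
  exact a.gate.inside _ (pvwk_gate_ends (pvhg_sph_pl hp.good (delb_pl_eq hp.good)) a.gate).2.2.1

/-- **PIN → DOOR, ONE STOP, REGION FORM** -/
theorem pvhg_il_link_o_room (h0 : L.dr = false) (h1 : L.dr' = true) (hf : PvhgFr L.p.fr) (hp : PvilOut N b L.p η 𝔖) (hd : PvilDoor (pvkdP L.p'.h) b η L.p'.z L.p'.fr 𝔖')
    (n : PvhgEndNum N L.p.h L.p.ty r r₁ ρ rs) (mesh : VorDense (pvieY η) (closedBall L.p.yP (r + 3 * ρ)) ρ) (ball : closedBall L.p.yP (rs + 5 * ρ) ⊆ L.Yin)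
    (hb : Bornology.IsBounded L.Yin) (hS : IsPreconnected L.Yinᶜ) (hcore : ∀ w ∈ L.Yin, L.p.ty.b * L.p.h ≤ ‖w - L.p.z‖)
    (ht1 : ‖((pvieT η).src (𝔖.ep 𝔖.np) : ℂ) - L.p.yP‖ + 2 * ρ ≤ rt) (ht2 : ‖((pvieT η).tgt (𝔖.ep 𝔖.np) : ℂ) - L.p.yP‖ + 2 * ρ ≤ rt)
    (hζ : ζ ∈ pvtzdDir) (hout : L.p.rk N + (ζ * L.p.z).re < (ζ * (𝔖.ap : ℂ)).re)
    (A : ∀ β, PvhjArm (pvieY η) κ β ζ (L.p.rk N + (ζ * L.p.z).re) ((ζ * L.p.yP).im - rt) ((ζ * L.p.yP).im + rt) (2 * ρ) L.p.yP rs β (GN β) (GC β) (Sg β))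
    (hκ : ∀ v : ↥(pvieY η), ‖(v : ℂ) - L.p.yP‖ ≤ rs → v ∉ 𝔖.bkP ∪ 𝔖.whP → pvieCol η b v = κ v) (hdis : 𝔖'.gm ∉ 𝔖.bkP)
    (J : PvhjFootP (delbPl (pvieY η)) (pvieCol η b) κ (pvgeKV (pvieY η) L.Yinᶜ) 𝔖'.dm H) (hG : PvhjMid (pvieY η) (pvieCol η b) κ (pvgeKV (pvieY η) L.Yinᶜ) G)
    (hGN : ∀ β, GN β ⊆ G β) (hH : ∀ β, H β ⊆ G β) : η ∈ L.A N b := by
  obtain ⟨k1, k2⟩ := pvhj_K_pl (h := hp.good) (delb_pl_eq hp.good) hS (by rw [compl_compl]; exact hb)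
  exact pvhg_il_link_o h0 h1 hf hp hd (pvhg_end n mesh ball) ht1 ht2 hζ hout A hκ k1 k2 (fun v hv => pvhg_KV_over hv)
    (fun hK => absurd (pvhg_il_gp_disc hf hp) (not_lt.2 (hcore _ (pvhg_KV_over hK)))) hdis J hG hGN hH

/-- **DOOR → PIN, ONE STOP, REGION FORM** -/
theorem pvhg_il_link_i_room (h0 : L.dr = true) (h1 : L.dr' = false) (hf : PvhgFr L.p'.fr) (hd : PvilDoor (pvkdP L.p.h) b η L.p.z L.p.fr 𝔖) (hp : PvilIn N b L.p' η 𝔖')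
    (n : PvhgEndNum N L.p'.h L.p'.ty r r₁ ρ rs) (mesh : VorDense (pvieY η) (closedBall L.p'.yM (r + 3 * ρ)) ρ) (ball : closedBall L.p'.yM (rs + 5 * ρ) ⊆ L.Yin)
    (hb : Bornology.IsBounded L.Yin) (hS : IsPreconnected L.Yinᶜ) (hcore : ∀ w ∈ L.Yin, L.p'.ty.b * L.p'.h ≤ ‖w - L.p'.z‖)
    (ht1 : ‖((pvieT η).src (𝔖'.em 𝔖'.nm) : ℂ) - L.p'.yM‖ + 2 * ρ ≤ rt) (ht2 : ‖((pvieT η).tgt (𝔖'.em 𝔖'.nm) : ℂ) - L.p'.yM‖ + 2 * ρ ≤ rt)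
    (hζ : ζ ∈ pvtzdDir) (hout : L.p'.rk N + (ζ * L.p'.z).re < (ζ * (𝔖'.am : ℂ)).re)
    (A : ∀ β, PvhjArm (pvieY η) κ β ζ (L.p'.rk N + (ζ * L.p'.z).re) ((ζ * L.p'.yM).im - rt) ((ζ * L.p'.yM).im + rt) (2 * ρ) L.p'.yM rs (!β) (GN β) (GC β) (Sg β))
    (hκ : ∀ v : ↥(pvieY η), ‖(v : ℂ) - L.p'.yM‖ ≤ rs → v ∉ 𝔖'.bkM ∪ 𝔖'.whM → pvieCol η b v = κ v)
    (htip : 𝔖.gp ≠ (pvieT η).src (𝔖'.em 𝔖'.nm)) (hvm : ¬ vorCell (pvieY η) 𝔖.gm ⊆ L.Yin) (hleft : 𝔖'.em 𝔖'.nm ∉ 𝔖.S.Left)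
    (J : PvhjFootP (delbPl (pvieY η)) (pvieCol η b) κ (pvgeKV (pvieY η) L.Yinᶜ) 𝔖.dp H) (hG : PvhjMid (pvieY η) (pvieCol η b) κ (pvgeKV (pvieY η) L.Yinᶜ) G)
    (hH : ∀ β, H β ⊆ G β) (hGN : ∀ β, GN β ⊆ G β) : η ∈ L.A N b := by
  obtain ⟨k1, k2⟩ := pvhj_K_pl (h := hp.good) (delb_pl_eq hp.good) hS (by rw [compl_compl]; exact hb)
  have hgm : 𝔖'.gm ∉ pvgeKV (pvieY η) L.Yinᶜ := fun hK => absurd (pvhg_il_gm_disc hf hp) (not_lt.2 (hcore _ (pvhg_KV_over hK)))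
  exact pvhg_il_link_i h0 h1 hf hd hp (pvhg_end n mesh ball) ht1 ht2 hζ hout A hκ k1 k2 (fun v hv => pvhg_KV_over hv) hgm (fun e => hgm (e ▸ pvhg_foot_src J)) htip
    (fun hK => hvm (pvhg_KV_iff.1 hK)) hleft J hG hH hGN

/-- **DOOR → DOOR, ONE STOP, REGION FORM** -/
theorem pvhg_il_link_d_room (hgood : DelGood (pvieY η)) (h0 : L.dr = true) (h1 : L.dr' = true) (hd : PvilDoor (pvkdP L.p.h) b η L.p.z L.p.fr 𝔖) (hd' : PvilDoor (pvkdP L.p'.h) b η L.p'.z L.p'.fr 𝔖')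
    (hb : Bornology.IsBounded L.Yin) (hS : IsPreconnected L.Yinᶜ) (hne : 𝔖'.gm ≠ 𝔖.gp) (hvm : ¬ vorCell (pvieY η) 𝔖.gm ⊆ L.Yin) (hleft : 𝔖'.dm ∉ 𝔖.S.Left) {H' : Bool → Set ℂ}
    (J : PvhjFootP (delbPl (pvieY η)) (pvieCol η b) κ (pvgeKV (pvieY η) L.Yinᶜ) 𝔖.dp H) (J' : PvhjFootP (delbPl (pvieY η)) (pvieCol η b) κ (pvgeKV (pvieY η) L.Yinᶜ) 𝔖'.dm H')
    (hG : PvhjMid (pvieY η) (pvieCol η b) κ (pvgeKV (pvieY η) L.Yinᶜ) G) (hH : ∀ β, H β ⊆ G β) (hH' : ∀ β, H' β ⊆ G β) : η ∈ L.A N b := by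
  obtain ⟨k1, k2⟩ := pvhj_K_pl (h := hgood) (delb_pl_eq hgood) hS (by rw [compl_compl]; exact hb)
  exact pvhg_il_link_d hgood h0 h1 hd hd' k1 k2 (fun v hv => pvhg_KV_over hv) hne (fun hK => hvm (pvhg_KV_iff.1 hK)) hleft J J' hG hH hH'

end one3

end Claimed.Agent.R289
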