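import Claimed.Agent.R289.Tr.Cls
import Claimed.Agent.R289.Tr.Geo

/-!
# Row 289 (S0537), THE WALL, ROAD E, file Tr/RegK : THE REGION OF RECORD `K` ON THE DELAUNAY MAP      (helper39; prefix `pvrk`)

`PvwDat.Reg K` (`Tr/Cls`) is consumed by `pvyc_exist`, `pvyc_shield` (39), `pvsd2_exist`, `pvsd2_out` (33), `pvyn_SYn` (268), `pvhg_SYn` (90).      THIS FILE = ITS INSTANCE:

      `K := pvgeKV Y (π.Yin)ᶜ` = the sites whose Voronoi cell lies in `Yin` (29, `Tr/Geo` sec. 9: EXACT co-connectedness, no mesh, no general position).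

* `pvrk_over`      : the sites of `K` lie over `Yin` (hypothesis `hKπ` of `pvyn_SYn`, clause 4 of `SYn` v3)
* `pvrk_mem`       : a site whose `μ`-ball lies in the `μ`-dense region `Yin` is in `K`
* `pvrk_reg`       : `Ok` + `Wf` + [`Yinᶜ` preconnected, `Yin` bounded, right apexes of `g₀` off `Yin`, the three sites of the tip face have their cells in `Yin`] ⟹ `Reg K`
* `pvrk_tip`       : the three sites of the tip face, from `GoodOut.tip_p` + mesh `μ` in the ball `closedBall y⁺ (ρ h / 2) ⊆ Yin`, `16 μ ≤ ρ h`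
* `pvrk_apx`       : the right apexes of `g₀` are off `Yin`, from `Ok.off` + [`Yin` with its `2μ`-collar lies in `Yreg`, mesh `μ` on `Yreg`]
* `pvrk_reg_mesh`  : ONE-STOP: `Ok` + `Wf` + colour-free geometry of the pattern ⟹ `Reg K`
* `pvrk_lane`      : a `Join` through sites whose `μ`-ball lies in `Yin` is a `Join` in `K` (how the lanes of 21/229 and the discs of `pvys_*`, `pvhi_*` enter `K`)
-/

set_option autoImplicit false

namespace Claimed.Agent.R289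

open Relation Set Metric

variable {Y : Set ℂ}

/-- the region of record of a pattern on the Delaunay map -/
def pvrkK (Y : Set ℂ) (π : PvwPat) : Set Y := pvgeKV Y (π.Yin)ᶜ

theorem pvrk_eqns_cite : True := by
  have := @pvrkK.eq_1
  trivial

/-- the sites of `K` lie over `Yin` -/
theorem pvrk_over {π : PvwPat} {v : Y} (hv : v ∈ pvrkK Y π) : dlsPos Y v ∈ π.Yin :=
  Set.disjoint_compl_right_iff_subset.1 hv.2 (vor_self_mem Y v)

/-- membership in `K` = the Voronoi cell lies in `Yin` -/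
theorem pvrk_mem_iff {π : PvwPat} {v : Y} : v ∈ pvrkK Y π ↔ vorCell Y v ⊆ π.Yin := by
  constructor
  · intro hv
    exact Set.disjoint_compl_right_iff_subset.1 hv.2
  · intro hv
    exact ⟨v.2, Set.disjoint_compl_right_iff_subset.2 hv⟩

/-- a site whose `μ'`-ball, `μ < μ'`, lies in a `μ`-dense part `U` of `Yin` is in `K` -/
theorem pvrk_mem {π : PvwPat} {U : Set ℂ} {μ μ' : ℝ} (hμ : 0 ≤ μ) (hμ' : μ < μ') (hU : U ⊆ π.Yin) (hd : VorDense Y U μ) {v : Y} (hv : closedBall (v : ℂ) μ' ⊆ U) : v ∈ pvrkK Y π := by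
  refine pvrk_mem_iff.2 ?_
  have h1 : vorCell Y v ⊆ closedBall (v : ℂ) μ := vor_cell_subset_ball hμ hμ' (hd.mono Subset.rfl hv le_rfl)
  exact h1.trans ((closedBall_subset_closedBall hμ'.le).trans (hv.trans hU))

/-- **`Reg K`**, abstract hypotheses -/
theorem pvrk_reg (h : DelGood Y) (𝔇 : PvwDat (delMap h)) {N : PvwNum} {hh : ℝ} {π : PvwPat} (hOk : 𝔇.Ok (dlsPos Y) N hh π) (hW : π.Wf)
    (hS : IsPreconnected (π.Yin)ᶜ) (hb : Bornology.IsBounded π.Yin) (hapx : ∀ v ∈ 𝔇.apx, dlsPos Y v ∉ π.Yin)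
    (htip : (delMap h).src 𝔇.a0 ∈ pvrkK Y π ∧ (delMap h).tgt 𝔇.a0 ∈ pvrkK Y π ∧ (delMap h).apex 𝔇.a0 ∈ pvrkK Y π) : 𝔇.Reg (pvrkK Y π) := by
  have hover : ∀ v : Y, v ∈ pvrkK Y π → dlsPos Y v ∈ π.Yin := fun v hv => pvrk_mem_iff.1 hv (vor_self_mem Y v)
  refine ⟨?_, ?_, ?_, ?_, htip⟩
  · exact pvge_KV_finite (pvge_K_finite h.lf (by rw [compl_compl]; exact hb))
  · intro u v hu hv
    exact pvge_map_co_join h hS u v hu hv
  · intro v hv hK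
    exact hOk.core_off v hv (hover v hK)
  · intro v hK hfz
    rcases hfz with (hfz | hfz) | hfz
    · exact hfz
    · exact absurd (hW.in_sub (hover v hK)) (hOk.off v hfz)
    · exact absurd (hover v hK) (hapx v hfz)

/-- two Delaunay neighbours, the first one with a `μ'`-ball (`μ < μ'`) in a `μ`-dense set, are at distance `≤ 2μ` -/
theorem pvrk_short {U : Set ℂ} {μ μ' : ℝ} (hμ : 0 ≤ μ) (hμ' : μ < μ') (hd : VorDense Y U μ) {a b : ℂ} (ha : closedBall a μ' ⊆ U) (hab : DelAdj Y a b) : ‖a - b‖ ≤ 2 * μ := by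
  obtain ⟨haY, hbY, -, z, hza, hzb⟩ := hab
  have h1 : vorCell Y a ⊆ closedBall a μ := vor_cell_subset_ball hμ hμ' (hd.mono Subset.rfl ha le_rfl)
  have h2 : ‖z - a‖ ≤ μ := by
    have := h1 hza
    rwa [mem_closedBall, dist_eq_norm] at this
  have h3 : ‖z - b‖ ≤ ‖z - a‖ := hzb a haY
  calc ‖a - b‖ = ‖(z - b) - (z - a)‖ := by ring_nf
    _ ≤ ‖z - b‖ + ‖z - a‖ := norm_sub_le _ _
    _ ≤ 2 * μ := by linarith

/-- **the tip face of `t` lies in `K`** -/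
theorem pvrk_tip (h : DelGood Y) (𝔇 : PvwDat (delMap h)) {N : PvwNum} {hh : ℝ} {π : PvwPat} (hOk : 𝔇.Ok (dlsPos Y) N hh π) {μ : ℝ} (hμ : 0 < μ) (h8 : 16 * μ ≤ N.rho * hh)
    (hball : closedBall (π.tt.cp hh π.zt) (N.rho * hh / 2) ⊆ π.Yin) (hd : VorDense Y (closedBall (π.tt.cp hh π.zt) (N.rho * hh / 2)) μ) :
    (delMap h).src 𝔇.a0 ∈ pvrkK Y π ∧ (delMap h).tgt 𝔇.a0 ∈ pvrkK Y π ∧ (delMap h).apex 𝔇.a0 ∈ pvrkK Y π := by
  obtain ⟨t1, t2⟩ := hOk.st_t.good.tip_p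
  have hin : ∀ v : Y, ‖dlsPos Y v - π.tt.cp hh π.zt‖ ≤ N.rho * hh / 4 + 2 * μ → closedBall (v : ℂ) (2 * μ) ⊆ closedBall (π.tt.cp hh π.zt) (N.rho * hh / 2) := by
    intro v hv w hw
    rw [mem_closedBall, dist_eq_norm] at hw ⊢
    have hv' : ‖(v : ℂ) - π.tt.cp hh π.zt‖ ≤ N.rho * hh / 4 + 2 * μ := hv
    calc ‖w - π.tt.cp hh π.zt‖ = ‖(w - v) + ((v : ℂ) - π.tt.cp hh π.zt)‖ := by ring_nf
      _ ≤ ‖w - v‖ + ‖(v : ℂ) - π.tt.cp hh π.zt‖ := norm_add_le _ _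
      _ ≤ N.rho * hh / 2 := by linarith
  have hK : ∀ v : Y, ‖dlsPos Y v - π.tt.cp hh π.zt‖ ≤ N.rho * hh / 4 + 2 * μ → v ∈ pvrkK Y π := fun v hv =>
    pvrk_mem hμ.le (by linarith) hball hd (hin v hv)
  have t2' : ‖dlsPos Y ((delMap h).tgt 𝔇.a0) - π.tt.cp hh π.zt‖ ≤ N.rho * hh / 4 := t2
  refine ⟨hK _ (by have : ‖dlsPos Y ((delMap h).src 𝔇.a0) - π.tt.cp hh π.zt‖ ≤ N.rho * hh / 4 := t1
                   linarith), hK _ (by linarith), hK _ ?_⟩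
  have hadj : DelAdj Y ((delMap h).tgt 𝔇.a0 : Y) ((delMap h).apex 𝔇.a0 : Y) :=
    (dls_adj_iff h _ _).1 ⟨(delMap h).nxt 𝔇.a0, rfl, rfl⟩
  have hs := pvrk_short hμ.le (show μ < 2 * μ by linarith) hd (hin _ (by linarith)) hadj
  have t3 : ‖(((delMap h).tgt 𝔇.a0 : Y) : ℂ) - π.tt.cp hh π.zt‖ ≤ N.rho * hh / 4 := t2
  show ‖(((delMap h).apex 𝔇.a0 : Y) : ℂ) - π.tt.cp hh π.zt‖ ≤ _
  calc ‖(((delMap h).apex 𝔇.a0 : Y) : ℂ) - π.tt.cp hh π.zt‖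
      = ‖((((delMap h).tgt 𝔇.a0 : Y) : ℂ) - π.tt.cp hh π.zt) - ((((delMap h).tgt 𝔇.a0 : Y) : ℂ) - (((delMap h).apex 𝔇.a0 : Y) : ℂ))‖ := by ring_nf
    _ ≤ _ := norm_sub_le _ _
    _ ≤ N.rho * hh / 4 + 2 * μ := by linarith

/-- the face behind the tip of `s` lies in `K` (mirror) -/
theorem pvrk_tip1 (h : DelGood Y) (𝔇 : PvwDat (delMap h)) {N : PvwNum} {hh : ℝ} {π : PvwPat} (hOk : 𝔇.Ok (dlsPos Y) N hh π) {μ : ℝ} (hμ : 0 < μ) (h8 : 16 * μ ≤ N.rho * hh)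
    (hball : closedBall (π.ts.cm hh π.zs) (N.rho * hh / 2) ⊆ π.Yin) (hd : VorDense Y (closedBall (π.ts.cm hh π.zs) (N.rho * hh / 2)) μ) :
    (delMap h).src 𝔇.a1 ∈ pvrkK Y π ∧ (delMap h).tgt 𝔇.a1 ∈ pvrkK Y π ∧ (delMap h).apex ((delMap h).opp 𝔇.a1) ∈ pvrkK Y π := by
  obtain ⟨t1, t2⟩ := hOk.st_s.good.tip_m
  have hin : ∀ v : Y, ‖dlsPos Y v - π.ts.cm hh π.zs‖ ≤ N.rho * hh / 4 + 2 * μ → closedBall (v : ℂ) (2 * μ) ⊆ closedBall (π.ts.cm hh π.zs) (N.rho * hh / 2) := by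
    intro v hv w hw
    rw [mem_closedBall, dist_eq_norm] at hw ⊢
    have hv' : ‖(v : ℂ) - π.ts.cm hh π.zs‖ ≤ N.rho * hh / 4 + 2 * μ := hv
    calc ‖w - π.ts.cm hh π.zs‖ = ‖(w - v) + ((v : ℂ) - π.ts.cm hh π.zs)‖ := by ring_nf
      _ ≤ ‖w - v‖ + ‖(v : ℂ) - π.ts.cm hh π.zs‖ := norm_add_le _ _
      _ ≤ N.rho * hh / 2 := by linarith
  have hK : ∀ v : Y, ‖dlsPos Y v - π.ts.cm hh π.zs‖ ≤ N.rho * hh / 4 + 2 * μ → v ∈ pvrkK Y π := fun v hv =>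
    pvrk_mem hμ.le (by linarith) hball hd (hin v hv)
  have t1' : ‖dlsPos Y ((delMap h).src 𝔇.a1) - π.ts.cm hh π.zs‖ ≤ N.rho * hh / 4 := t1
  have t2' : ‖dlsPos Y ((delMap h).tgt 𝔇.a1) - π.ts.cm hh π.zs‖ ≤ N.rho * hh / 4 := t2
  refine ⟨hK _ (by linarith), hK _ (by linarith), hK _ ?_⟩
  have hadj : DelAdj Y ((delMap h).tgt ((delMap h).opp 𝔇.a1) : Y) ((delMap h).apex ((delMap h).opp 𝔇.a1) : Y) :=
    (dls_adj_iff h _ _).1 ⟨(delMap h).nxt ((delMap h).opp 𝔇.a1), rfl, rfl⟩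
  have e1 : (delMap h).tgt ((delMap h).opp 𝔇.a1) = (delMap h).src 𝔇.a1 := (delMap h).tgt_opp _
  rw [e1] at hadj
  have hs := pvrk_short hμ.le (show μ < 2 * μ by linarith) hd (hin _ (by linarith)) hadj
  have t3 : ‖(((delMap h).src 𝔇.a1 : Y) : ℂ) - π.ts.cm hh π.zs‖ ≤ N.rho * hh / 4 := t1
  show ‖(((delMap h).apex ((delMap h).opp 𝔇.a1) : Y) : ℂ) - π.ts.cm hh π.zs‖ ≤ _
  calc ‖(((delMap h).apex ((delMap h).opp 𝔇.a1) : Y) : ℂ) - π.ts.cm hh π.zs‖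
      = ‖((((delMap h).src 𝔇.a1 : Y) : ℂ) - π.ts.cm hh π.zs) - ((((delMap h).src 𝔇.a1 : Y) : ℂ) - (((delMap h).apex ((delMap h).opp 𝔇.a1) : Y) : ℂ))‖ := by ring_nf
    _ ≤ _ := norm_sub_le _ _
    _ ≤ N.rho * hh / 4 + 2 * μ := by linarith

/-- **the right apexes of `g₀` are off `Yin`**: `g₀` is off `Yreg`, which contains the `3μ`-collar of `Yin` and is `μ`-dense -/
theorem pvrk_apx (h : DelGood Y) (𝔇 : PvwDat (delMap h)) {N : PvwNum} {hh : ℝ} {π : PvwPat} (hOk : 𝔇.Ok (dlsPos Y) N hh π) {μ : ℝ} (hμ : 0 < μ)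
    (hcol : ∀ z ∈ π.Yin, closedBall z (3 * μ) ⊆ π.Yreg) (hd : VorDense Y π.Yreg μ) : ∀ v ∈ 𝔇.apx, dlsPos Y v ∉ π.Yin := by
  rintro v ⟨i, hi, rfl⟩ hv
  set d := (delMap h).opp (𝔇.g.e i) with hd'
  -- the dart from the apex back to the source of `d`
  have hadj : (delMap h).Adj ((delMap h).apex d) ((delMap h).src d) :=
    ⟨(delMap h).nxt ((delMap h).nxt d), rfl, by rw [(delMap h).tgt_nxt, (delMap h).apex_nxt]⟩
  have hA : DelAdj Y ((delMap h).apex d : Y) ((delMap h).src d : Y) := (dls_adj_iff h _ _).1 hadj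
  have hs := pvrk_short (Y := Y) hμ.le (by linarith : μ < 3 * μ) hd (hcol _ hv) hA
  have hsrc : (delMap h).src d = 𝔇.g.v (i + 1) := by rw [hd', (delMap h).src_opp', 𝔇.g.tgt_e i hi]
  refine hOk.off (𝔇.g.v (i + 1)) ⟨i + 1, by omega, rfl⟩ (hcol _ hv ?_)
  rw [mem_closedBall, dist_eq_norm, ← hsrc, norm_sub_rev]
  have hs' : ‖(((delMap h).apex d : Y) : ℂ) - ((delMap h).src d : Y)‖ ≤ 2 * μ := hs
  show ‖(((delMap h).apex d : Y) : ℂ) - ((delMap h).src d : Y)‖ ≤ 3 * μ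
  linarith

/-- **ONE-STOP**: `Ok` + colour-free geometry of the pattern ⟹ `Reg K` -/
theorem pvrk_reg_mesh (h : DelGood Y) (𝔇 : PvwDat (delMap h)) {N : PvwNum} {hh : ℝ} {π : PvwPat} (hOk : 𝔇.Ok (dlsPos Y) N hh π) (hW : π.Wf)
    (hS : IsPreconnected (π.Yin)ᶜ) (hb : Bornology.IsBounded π.Yin) {μ : ℝ} (hμ : 0 < μ) (h8 : 16 * μ ≤ N.rho * hh)
    (hball : closedBall (π.tt.cp hh π.zt) (N.rho * hh / 2) ⊆ π.Yin) (hcol : ∀ z ∈ π.Yin, closedBall z (3 * μ) ⊆ π.Yreg) (hd : VorDense Y π.Yreg μ) : 𝔇.Reg (pvrkK Y π) :=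
  pvrk_reg h 𝔇 hOk hW hS hb (pvrk_apx h 𝔇 hOk hμ hcol hd)
    (pvrk_tip h 𝔇 hOk hμ h8 hball fun z hz => hd z (hW.in_sub (hball hz)))

/-- **how lanes and discs enter `K`**: a join through sites whose `μ'`-ball lies in a `μ`-dense part of `Yin` is a join in `K` -/
theorem pvrk_lane (h : DelGood Y) {π : PvwPat} {U : Set ℂ} {μ μ' : ℝ} (hμ : 0 ≤ μ) (hμ' : μ < μ') (hU : U ⊆ π.Yin) (hd : VorDense Y U μ) {A : Set (DelDart h)} {X : Set Y}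
    (hX : ∀ v ∈ X, closedBall (v : ℂ) μ' ⊆ U) {a b : Y} (hab : (delMap h).Join A X a b) : (delMap h).Join A (X ∩ pvrkK Y π) a b := by
  have hsub : X ⊆ X ∩ pvrkK Y π := fun v hv => ⟨hv, pvrk_mem hμ hμ' hU hd (hX v hv)⟩
  exact pvt_c_join_mono_set (le_refl A) hsub hab

/-- the coloured form consumed by `pvld_exist` / `pvyc_exist` / `pvsd2_exist` -/
theorem pvrk_lane_col (h : DelGood Y) {π : PvwPat} {U : Set ℂ} {μ μ' : ℝ} (hμ : 0 ≤ μ) (hμ' : μ < μ') (hU : U ⊆ π.Yin) (hd : VorDense Y U μ) {A : Set (DelDart h)} {X : Set Y} {σ : Y → Bool} {β : Bool}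
    (hX : ∀ v ∈ X, closedBall (v : ℂ) μ' ⊆ U ∧ σ v = β) {a b : Y} (hab : (delMap h).Join A X a b) : (delMap h).Join Set.univ (pvldCol σ (pvrkK Y π) β) a b := by
  have hsub : X ⊆ pvldCol σ (pvrkK Y π) β := fun v hv => ⟨pvrk_mem hμ hμ' hU hd (hX v hv).1, (hX v hv).2⟩
  exact pvt_c_join_mono_set (Set.subset_univ A) hsub hab

end Claimed.Agent.R289
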