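import Claimed.Agent.R289.Arm.Strand
import Claimed.Agent.R289.Pl.Hex
import Claimed.Agent.R289.Del.Wind

/-!
# Row 289 (S0537, Cardy for Poisson-Voronoi), box TR, WB5 HOOK, file Tr/Tip : THE TIP OF AN EXPLORED STRAND      (owner helper23; prefix `pvtz_`, defs `pvtz…`, `Pvtz…`)

T5 = (H1) and T6 = (H2) of `origin/helper208:notes/R289/W1_208.md` sec.4 / sec.6, HK2 of `origin/helper165:notes/R289/w1_165.md`.      Deterministic.      Strands of record = `Arm/Strand` (158).

THE POINT.   The box which stops the exploration need NOT be a disc of record, no boundary cycle of the box, no arcs, no "left segment of the boundary".   Only ONE disc of record `M` (the MOUTH, any cycle round the tip) is used.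
The strand `e 0, …, e n` ends in the face of `e n`, in the middle of `M`.   It is prolonged by a SLIT = a `ZMod 2` cochain `χ` whose face sums on `M` are the indicator of the face of `e n`
(geometric instance: the crossings of the horizontal ray issued from a point `z` of the open tip face, `delChi` of 253; `z` is taken OUTSIDE the box, so the ray meets no edge of the box).
`crossings of the strand + χ` is a cocycle on `M`, hence (`pl_inside_h1`) the coboundary of a POTENTIAL `u`:   `{u = u (black tip vertex)}` = LEFT class, the rest = RIGHT class.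

* sec.1  `pvtzX T s d n` crossing cochain of the positions `0..n` of the strand from `d`:  symmetric, face sums `= 1[face of opp d] + 1[face of e n]`, zero off the crossed edges, zero on monochromatic edges, `1` on the crossed edges
* sec.2  **`pvtz_pot`** TIP POTENTIAL (both tips: exit tip `e n`, entrance tip `opp d`);  `PvtzPot`
* sec.3  (H1) the FINAL PIECE `m..n` (inside `M`, off the slit): the black bank lies in the left class, the white bank in the right class (`PvtzFin`, `pvtz_fin_src`, `pvtz_fin_tgt`, `pvtz_fin_ne`); the same for the INITIAL piece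
* sec.4  (H2) **LANDING** `pvtz_land`, `pvtz_land_black`, `pvtz_land_white`: a site path of `M` off the slit from the left class to the right class, read from its first end, meets the explored set first on the black bank
* sec.5  the geometric slit `pvtzChi T pos z`: symmetric, face sums, zero west of `z` (= in the box), coboundary of `1[im ≤ im z]` east of `z` (= outside the box), the tip face
* sec.6  EVALUATION of the potential outside the box: above the ray = left class, below = right class (`pvtz_eval`);   existence of the base point (`pvtz_base`)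
* sec.7  bank walks; **HOOK** `pvtz_hook_black`, `pvtz_hook_white`: a path which is black [white] for the independent copy, off the slit, from one class to the other ⟹ its first end is joined to the black [white] vertex of the tip by a black [white] path
         made of unexplored sites of the path and of the bank of the final piece      (= the pieces `bank . landing` of the BLACK / WHITE LANE of `pvld_exist`, 70)
* sec.8  `PvtzGeo` (geometry of the mouth, invariant under rotations), `PvtzExit` = EXIT TIP of a strand stopped by `{re ≤ xB}`: `.inj .piece .pot .eval`;   `pvtz_chi_ne`, `pvtz_chi_strip` (which edges can be on the slit)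
* sec.9  `PvtzEnt` = ENTRANCE TIP: `.inj .piece .pot .eval`
USE WITH THE STUBS OF RECORD (`PvwSt.Stub`, `Tr/Defs`): the stub stops at the first position `ep np` with an end OUTSIDE the box: take `n := np - 1` here (tip face = the face of `ep (np - 1)`, its apex is that end).
-/

set_option autoImplicit false
set_option linter.unusedSectionVars false
set_option linter.unusedVariables false

namespace Claimed.Agent.R289

open Relation

variable {V D : Type} {T : PvMap V D} {s : V → Bool} {d : D} {n : ℕ}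

/-! ## 1. the crossing cochain of a strand -/

/-- the number (mod 2) of the positions `0..n` of the strand from `d` which cross the edge of `x` -/
noncomputable def pvtzX (T : PvMap V D) (s : V → Bool) (d : D) (n : ℕ) (x : D) : ZMod 2 :=
  ∑ k ∈ Finset.range (n + 1), (plI (x = pvasIt T s d k) + plI (x = T.opp (pvasIt T s d k)))

theorem pvtz_eqns_cite1 : True := by
  have := @pvtzX.eq_1
  trivial

theorem pvtz_X_succ (x : D) : pvtzX T s d (n + 1) x = pvtzX T s d n x + (plI (x = pvasIt T s d (n + 1)) + plI (x = T.opp (pvasIt T s d (n + 1)))) := by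
  unfold pvtzX
  rw [Finset.sum_range_succ]

theorem pvtz_X_zero' (x : D) : pvtzX T s d 0 x = plI (x = d) + plI (x = T.opp d) := by
  unfold pvtzX
  rw [Finset.sum_range_one]
  rfl

theorem pvtz_X_sym : T.Sym (pvtzX T s d n) := by
  intro x
  unfold pvtzX
  refine Finset.sum_congr rfl fun k _ => ?_
  have h1 : (T.opp x = pvasIt T s d k) ↔ (x = T.opp (pvasIt T s d k)) :=
    ⟨fun h => by rw [← h, T.opp_opp], fun h => by rw [h, T.opp_opp]⟩
  have h2 : (T.opp x = T.opp (pvasIt T s d k)) ↔ (x = pvasIt T s d k) :=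
    ⟨fun h => T.opp_injective h, fun h => by rw [h]⟩
  rw [pl_hx_I_congr h1, pl_hx_I_congr h2, add_comm]

/-- the three darts of a face -/
theorem pvtz_I_face (x e : D) : plI (x = e) + plI (T.nxt x = e) + plI (T.nxt (T.nxt x) = e) = plI (T.SF x e) := by
  by_cases h0 : x = e
  · subst h0
    rw [pl_hx_I_pos rfl, pl_hx_I_neg (T.nxt_ne_self x), pl_hx_I_neg (T.nxt2_ne_self x), pl_hx_I_pos (T.sf_refl x)]
    simp
  by_cases h1 : T.nxt x = e
  · subst h1
    rw [pl_hx_I_neg h0, pl_hx_I_pos rfl, pl_hx_I_neg (T.nxt_ne_self (T.nxt x)), pl_hx_I_pos (T.sf_nxt x)]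
    simp
  by_cases h2 : T.nxt (T.nxt x) = e
  · subst h2
    rw [pl_hx_I_neg h0, pl_hx_I_neg h1, pl_hx_I_pos rfl, pl_hx_I_pos (T.sf_nxt2 x)]
    simp
  · rw [pl_hx_I_neg h0, pl_hx_I_neg h1, pl_hx_I_neg h2, pl_hx_I_neg]
    · simp
    · rintro (h | h | h)
      · exact h0 h.symm
      · exact h1 h.symm
      · exact h2 h.symm

/-- **face sums of the crossing cochain**: the strand comes out of the face of `opp d` and ends in the face of its last position -/
theorem pvtz_X_face (T : PvMap V D) (s : V → Bool) (d : D) (n : ℕ) (x : D) :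
    pvtzX T s d n x + pvtzX T s d n (T.nxt x) + pvtzX T s d n (T.nxt (T.nxt x)) = plI (T.SF x (T.opp d)) + plI (T.SF x (pvasIt T s d n)) := by
  induction n with
  | zero =>
    rw [pvtz_X_zero', pvtz_X_zero', pvtz_X_zero', pvas_it_zero, ← pvtz_I_face x (T.opp d), ← pvtz_I_face x d]
    ring
  | succ n ih =>
    rw [pvtz_X_succ, pvtz_X_succ, pvtz_X_succ]
    have h1 := pvtz_I_face (T := T) x (pvasIt T s d (n + 1))
    have h2 := pvtz_I_face (T := T) x (T.opp (pvasIt T s d (n + 1)))
    have h3 : plI (T.SF x (T.opp (pvasIt T s d (n + 1)))) = plI (T.SF x (pvasIt T s d n)) := by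
      refine pl_hx_I_congr ⟨fun h => ?_, fun h => ?_⟩
      · refine T.sf_trans h (T.sf_symm ?_)
        rw [pvas_it_succ]; exact pvas_step_sf s _
      · refine T.sf_trans h ?_
        rw [pvas_it_succ]; exact pvas_step_sf s _
    rw [h3] at h2
    have key : pvtzX T s d n x + (plI (x = pvasIt T s d (n + 1)) + plI (x = T.opp (pvasIt T s d (n + 1)))) +
        (pvtzX T s d n (T.nxt x) + (plI (T.nxt x = pvasIt T s d (n + 1)) + plI (T.nxt x = T.opp (pvasIt T s d (n + 1))))) +
        (pvtzX T s d n (T.nxt (T.nxt x)) + (plI (T.nxt (T.nxt x) = pvasIt T s d (n + 1)) + plI (T.nxt (T.nxt x) = T.opp (pvasIt T s d (n + 1))))) =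
        (pvtzX T s d n x + pvtzX T s d n (T.nxt x) + pvtzX T s d n (T.nxt (T.nxt x))) +
        (plI (x = pvasIt T s d (n + 1)) + plI (T.nxt x = pvasIt T s d (n + 1)) + plI (T.nxt (T.nxt x) = pvasIt T s d (n + 1))) +
        (plI (x = T.opp (pvasIt T s d (n + 1))) + plI (T.nxt x = T.opp (pvasIt T s d (n + 1))) + plI (T.nxt (T.nxt x) = T.opp (pvasIt T s d (n + 1)))) := by ring
    rw [key, ih, h1, h2]
    generalize plI (T.SF x (T.opp d)) = a
    generalize plI (T.SF x (pvasIt T s d n)) = b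
    generalize plI (T.SF x (pvasIt T s d (n + 1))) = c
    revert a b c; decide

/-- an edge with a nonzero crossing number is crossed -/
theorem pvtz_X_ne {x : D} (h : pvtzX T s d n x ≠ 0) : ∃ k, k ≤ n ∧ (x = pvasIt T s d k ∨ x = T.opp (pvasIt T s d k)) := by
  by_contra hcon
  apply h
  unfold pvtzX
  refine Finset.sum_eq_zero fun k hk => ?_
  have hk' : k ≤ n := Nat.lt_succ_iff.1 (Finset.mem_range.1 hk)
  rw [pl_hx_I_neg fun e => hcon ⟨k, hk', Or.inl e⟩, pl_hx_I_neg fun e => hcon ⟨k, hk', Or.inr e⟩, add_zero]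

/-- the two ends of a crossed edge are explored: one on each bank -/
theorem pvtz_X_ne_lay {x : D} (h : pvtzX T s d n x ≠ 0) :
    (T.src x ∈ pvasLayB T s d n ∧ T.tgt x ∈ pvasLayW T s d n) ∨ (T.src x ∈ pvasLayW T s d n ∧ T.tgt x ∈ pvasLayB T s d n) := by
  obtain ⟨k, hk, rfl | rfl⟩ := pvtz_X_ne h
  · exact Or.inl ⟨⟨k, hk, rfl⟩, ⟨k, hk, rfl⟩⟩
  · exact Or.inr ⟨⟨k, hk, (T.src_opp' _).symm⟩, ⟨k, hk, (T.tgt_opp _).symm⟩⟩

/-- monochromatic edges are not crossed -/
theorem pvtz_X_mono (hd : pvasBW T s d) {x : D} (h : s (T.src x) = s (T.tgt x)) : pvtzX T s d n x = 0 := by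
  by_contra hne
  obtain ⟨k, hk, rfl | rfl⟩ := pvtz_X_ne hne
  · have := pvas_it_bw hd k
    rw [this.1, this.2] at h
    exact Bool.false_ne_true h.symm
  · have := pvas_it_bw hd k
    rw [T.src_opp', T.tgt_opp, this.1, this.2] at h
    exact Bool.false_ne_true h

/-- pairwise distinct positions: a crossed edge is crossed once -/
theorem pvtz_X_one (hd : pvasBW T s d) (hinj : ∀ i j, i ≤ n → j ≤ n → pvasIt T s d i = pvasIt T s d j → i = j) {k : ℕ} (hk : k ≤ n) :
    pvtzX T s d n (pvasIt T s d k) = 1 := by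
  unfold pvtzX
  rw [Finset.sum_eq_single k]
  · rw [pl_hx_I_pos rfl, pl_hx_I_neg (T.opp_ne_self _).symm, add_zero]
  · intro j hj hjk
    have hj' : j ≤ n := Nat.lt_succ_iff.1 (Finset.mem_range.1 hj)
    rw [pl_hx_I_neg fun e => hjk (hinj k j hk hj' e).symm, pl_hx_I_neg, add_zero]
    intro e
    exact pvas_bw_not_opp (pvas_it_bw hd j) (e ▸ pvas_it_bw hd k)
  · intro h
    exact absurd (Finset.mem_range.2 (Nat.lt_succ_iff.2 hk)) h

/-- a strand which is stopped at its first exit of a set of darts has pairwise distinct positions -/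
theorem pvtz_inj_of_exit (hd : pvasBW T s d) {A : Set D} (hA : ∀ k, k < n → pvasIt T s d k ∈ A) (hn : pvasIt T s d n ∉ A) :
    ∀ i j, i ≤ n → j ≤ n → pvasIt T s d i = pvasIt T s d j → i = j := by
  have key : ∀ i j, i < j → j ≤ n → pvasIt T s d i ≠ pvasIt T s d j := by
    intro i j hij hj e
    have h0 := pvas_it_return hd hij.le e
    -- period `p = j - i`
    have hper : pvasIt T s d (n - (j - i)) = pvasIt T s d n := by
      have : n = (j - i) + (n - (j - i)) := by omega
      conv_rhs => rw [this, pvas_it_add, h0]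
    exact hn (hper ▸ hA _ (by omega))
  intro i j hi hj e
  rcases Nat.lt_trichotomy i j with h | h | h
  · exact absurd e (key i j h hj)
  · exact h
  · exact absurd e.symm (key j i h hi)

/-! ## 2. the tip potential -/

/-- `u` is a potential of `crossings of the strand + slit` on the edges of the faces of `M` -/
def PvtzPot (T : PvMap V D) (s : V → Bool) (d : D) (n : ℕ) (M : Set D) (χ : D → ZMod 2) (u : V → ZMod 2) : Prop :=
  ∀ x, (x ∈ M ∨ T.opp x ∈ M) → u (T.src x) + u (T.tgt x) = pvtzX T s d n x + χ x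

theorem pvtz_eqns_cite2 : True := by
  have := @PvtzPot.eq_1
  trivial

/-- **TIP POTENTIAL**.   `M` a disc of record, `χ` a slit: a symmetric cochain whose face sums on `M` are `1[face of opp d] + 1[face of e n]` (each tip which lies in `M` is the end of a slit).
Then `crossings + χ` has a potential on the closed disc. -/
theorem pvtz_pot (hT : T.IsSph) (M : T.Cyc) (hfin : M.Left.Finite) (s : V → Bool) (d : D) (n : ℕ) (χ : D → ZMod 2) (hs : T.Sym χ)
    (hχ : ∀ x ∈ M.Left, χ x + χ (T.nxt x) + χ (T.nxt (T.nxt x)) = plI (T.SF x (T.opp d)) + plI (T.SF x (pvasIt T s d n))) :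
    ∃ u : V → ZMod 2, PvtzPot T s d n M.Left χ u := by
  obtain ⟨u, hu⟩ := pl_inside_h1 hT M hfin (fun x => pvtzX T s d n x + χ x) (fun x => by
    show pvtzX T s d n (T.opp x) + χ (T.opp x) = pvtzX T s d n x + χ x
    rw [pvtz_X_sym x, hs x]) (fun x hx => by
    have h1 := pvtz_X_face T s d n x
    have h2 := hχ x hx
    have : pvtzX T s d n x + χ x + (pvtzX T s d n (T.nxt x) + χ (T.nxt x)) + (pvtzX T s d n (T.nxt (T.nxt x)) + χ (T.nxt (T.nxt x))) =
        (pvtzX T s d n x + pvtzX T s d n (T.nxt x) + pvtzX T s d n (T.nxt (T.nxt x))) + (χ x + χ (T.nxt x) + χ (T.nxt (T.nxt x))) := by ring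
    rw [this, h1, h2]
    exact pl_z2_add_self _)
  exact ⟨u, fun x hx => (hu x hx).symm⟩

/-- exit tip only: the strand starts outside the mouth -/
theorem pvtz_pot_exit (hT : T.IsSph) (M : T.Cyc) (hfin : M.Left.Finite) (s : V → Bool) (d : D) (n : ℕ) (h0 : T.opp d ∉ M.Left) (χ : D → ZMod 2) (hs : T.Sym χ)
    (hχ : ∀ x ∈ M.Left, χ x + χ (T.nxt x) + χ (T.nxt (T.nxt x)) = plI (T.SF x (pvasIt T s d n))) :
    ∃ u : V → ZMod 2, PvtzPot T s d n M.Left χ u := by
  refine pvtz_pot hT M hfin s d n χ hs fun x hx => ?_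
  rw [hχ x hx, pl_hx_I_neg (p := T.SF x (T.opp d)), zero_add]
  intro h
  exact h0 (((pl_left_face M).sf T h).2 hx)

/-- entrance tip only: the strand is followed until it is outside the mouth -/
theorem pvtz_pot_ent (hT : T.IsSph) (M : T.Cyc) (hfin : M.Left.Finite) (s : V → Bool) (d : D) (n : ℕ) (hn : pvasIt T s d n ∉ M.Left) (χ : D → ZMod 2) (hs : T.Sym χ)
    (hχ : ∀ x ∈ M.Left, χ x + χ (T.nxt x) + χ (T.nxt (T.nxt x)) = plI (T.SF x (T.opp d))) :
    ∃ u : V → ZMod 2, PvtzPot T s d n M.Left χ u := by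
  refine pvtz_pot hT M hfin s d n χ hs fun x hx => ?_
  rw [hχ x hx, pl_hx_I_neg (p := T.SF x (pvasIt T s d n)), add_zero]
  intro h
  exact hn (((pl_left_face M).sf T h).2 hx)

theorem pvtz_z2_eq {a b : ZMod 2} (h : a + b = 0) : a = b := by revert a b; decide
theorem pvtz_z2_ne {a b : ZMod 2} (h : a + b = 1) : a ≠ b := by revert a b; decide
theorem pvtz_z2_two {a b c : ZMod 2} (h : a ≠ b) (h' : c ≠ b) : c = a := by revert a b c; decide

section pot

variable {M : Set D} {χ : D → ZMod 2} {u : V → ZMod 2}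

/-- an edge which is neither crossed nor on the slit stays in one class -/
theorem PvtzPot.eq (h : PvtzPot T s d n M χ u) {x : D} (hx : x ∈ M ∨ T.opp x ∈ M) (h1 : pvtzX T s d n x = 0) (h2 : χ x = 0) : u (T.src x) = u (T.tgt x) := by
  have := h x hx
  rw [h1, h2, add_zero] at this
  exact pvtz_z2_eq this

/-- the same for an edge given by its ends -/
theorem PvtzPot.eq_edge (h : PvtzPot T s d n M χ u) {a b : V} (hab : T.EdgeIn M a b) (h1 : a ∉ pvasLayB T s d n ∪ pvasLayW T s d n ∨ b ∉ pvasLayB T s d n ∪ pvasLayW T s d n)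
    (h2 : ∀ x, T.src x = a → T.tgt x = b → χ x = 0) : u a = u b := by
  obtain ⟨x, hx, rfl, rfl⟩ := hab
  refine h.eq hx ?_ (h2 x rfl rfl)
  by_contra hne
  rcases pvtz_X_ne_lay hne with ⟨e1, e2⟩ | ⟨e1, e2⟩
  · rcases h1 with h1 | h1
    · exact h1 (Or.inl e1)
    · exact h1 (Or.inr e2)
  · rcases h1 with h1 | h1
    · exact h1 (Or.inr e1)
    · exact h1 (Or.inl e2)

/-! ## 3. (H1) the banks of a piece of the strand inside the mouth, off the slit -/

/-- the positions `m..n'` of the strand: the faces of the positions `m..n'-1` lie in `M` and their edges are off the slit -/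
structure PvtzPiece (T : PvMap V D) (s : V → Bool) (d : D) (M : Set D) (χ : D → ZMod 2) (m n' : ℕ) : Prop where
  mem : ∀ k, m ≤ k → k < n' → pvasIt T s d k ∈ M
  chi : ∀ k, m ≤ k → k < n' → ∀ x, T.SF (pvasIt T s d k) x → χ x = 0

/-- black bank of the positions `m..n'` -/
def pvtzB (T : PvMap V D) (s : V → Bool) (d : D) (m n' : ℕ) : Set V := {v | ∃ k, m ≤ k ∧ k ≤ n' ∧ T.src (pvasIt T s d k) = v}
/-- white bank of the positions `m..n'` -/
def pvtzW (T : PvMap V D) (s : V → Bool) (d : D) (m n' : ℕ) : Set V := {v | ∃ k, m ≤ k ∧ k ≤ n' ∧ T.tgt (pvasIt T s d k) = v}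

theorem pvtz_eqns_cite3 : True := by
  have := @pvtzB.eq_1; have := @pvtzW.eq_1
  trivial

theorem pvtz_piece_step (hM : T.FaceSet M) (hd : pvasBW T s d) (h : PvtzPot T s d n M χ u) {m n' : ℕ} (hp : PvtzPiece T s d M χ m n') {k : ℕ} (hmk : m ≤ k) (hk : k < n') :
    u (T.src (pvasIt T s d (k + 1))) = u (T.src (pvasIt T s d k)) ∧ u (T.tgt (pvasIt T s d (k + 1))) = u (T.tgt (pvasIt T s d k)) := by
  have hbw := pvas_it_bw hd k
  have hin := hp.mem k hmk hk
  rw [pvas_it_succ]
  rcases pvas_step_ends s (pvasIt T s d k) with ⟨a, e1, e2⟩ | ⟨a, e1, e2⟩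
  · refine ⟨?_, by rw [e2]⟩
    rw [e1]
    have := h.eq (x := T.nxt (T.nxt (pvasIt T s d k))) (Or.inl ((hM.nxt2 T _).2 hin))
      (pvtz_X_mono hd (by rw [T.src_nxt2, T.tgt_nxt2, a, hbw.1])) (hp.chi k hmk hk _ (T.sf_nxt2 _))
    rwa [T.src_nxt2, T.tgt_nxt2] at this
  · refine ⟨by rw [e1], ?_⟩
    rw [e2]
    have := h.eq (x := T.nxt (pvasIt T s d k)) (Or.inl ((hM _).2 hin))
      (pvtz_X_mono hd (by rw [T.src_nxt, T.tgt_nxt, a, hbw.2])) (hp.chi k hmk hk _ (T.sf_nxt _))
    rw [T.src_nxt, T.tgt_nxt] at this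
    exact this.symm

/-- **(H1)** the potential is constant on each bank of the piece -/
theorem pvtz_piece_const (hM : T.FaceSet M) (hd : pvasBW T s d) (h : PvtzPot T s d n M χ u) {m n' : ℕ} (hp : PvtzPiece T s d M χ m n') {k : ℕ} (hmk : m ≤ k) (hk : k ≤ n') :
    u (T.src (pvasIt T s d k)) = u (T.src (pvasIt T s d m)) ∧ u (T.tgt (pvasIt T s d k)) = u (T.tgt (pvasIt T s d m)) := by
  induction k, hmk using Nat.le_induction with
  | base => exact ⟨rfl, rfl⟩
  | succ k hmk ih =>
    have h1 := pvtz_piece_step hM hd h hp hmk (Nat.lt_of_succ_le hk)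
    have h2 := ih (Nat.le_of_succ_le hk)
    exact ⟨h1.1.trans h2.1, h1.2.trans h2.2⟩

/-- **(H1)** the two banks of the piece lie in different classes -/
theorem pvtz_piece_ne (hM : T.FaceSet M) (hd : pvasBW T s d) (hinj : ∀ i j, i ≤ n → j ≤ n → pvasIt T s d i = pvasIt T s d j → i = j)
    (h : PvtzPot T s d n M χ u) {m n' : ℕ} (hp : PvtzPiece T s d M χ m n') (hmn : m < n') (hn : n' ≤ n) :
    u (T.src (pvasIt T s d m)) ≠ u (T.tgt (pvasIt T s d m)) := by
  have h1 := h (pvasIt T s d m) (Or.inl (hp.mem m le_rfl hmn))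
  rw [pvtz_X_one hd hinj (hmn.le.trans hn), hp.chi m le_rfl hmn _ (T.sf_refl _), add_zero] at h1
  exact pvtz_z2_ne h1

theorem pvtz_B_const (hM : T.FaceSet M) (hd : pvasBW T s d) (h : PvtzPot T s d n M χ u) {m n' : ℕ} (hp : PvtzPiece T s d M χ m n') {v : V} (hv : v ∈ pvtzB T s d m n') :
    u v = u (T.src (pvasIt T s d m)) := by
  obtain ⟨k, h1, h2, rfl⟩ := hv
  exact (pvtz_piece_const hM hd h hp h1 h2).1

theorem pvtz_W_const (hM : T.FaceSet M) (hd : pvasBW T s d) (h : PvtzPot T s d n M χ u) {m n' : ℕ} (hp : PvtzPiece T s d M χ m n') {v : V} (hv : v ∈ pvtzW T s d m n') :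
    u v = u (T.tgt (pvasIt T s d m)) := by
  obtain ⟨k, h1, h2, rfl⟩ := hv
  exact (pvtz_piece_const hM hd h hp h1 h2).2

/-! ## 4. (H2) LANDING -/

/-- the explored set of the positions `0..n` -/
def pvtzEx (T : PvMap V D) (s : V → Bool) (d : D) (n : ℕ) : Set V := pvasLayB T s d n ∪ pvasLayW T s d n

theorem pvtz_eqns_cite4 : True := by
  have := @pvtzEx.eq_1
  trivial

/-- **LANDING, general form**: a path of the closed mouth inside `X`, off the slit, from the class `β` to the other class.   Read from its first end it reaches an explored site `e` of the class `β` through unexplored sites. -/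
theorem pvtz_land (h : PvtzPot T s d n M χ u) {X : Set V} (hχ : ∀ x, T.src x ∈ X → T.tgt x ∈ X → χ x = 0) {a b : V} (hab : T.Join M X a b) (hne : u b ≠ u a) :
    ∃ e, e ∈ X ∧ e ∈ pvtzEx T s d n ∧ u e = u a ∧ T.Join M ((X \ pvtzEx T s d n) ∪ {e}) a e := by
  obtain ⟨ha, hp⟩ := hab
  by_contra hcon
  have key : ∀ y, ReflTransGen (fun p q => T.EdgeIn M p q ∧ q ∈ X) a y → y ∈ X ∧ u y = u a ∧ T.Join M (X \ pvtzEx T s d n) a y := by
    intro y hy
    induction hy with
    | refl =>
      have hae : a ∉ pvtzEx T s d n := fun hae => hcon ⟨a, ha, hae, rfl, Or.inr rfl, ReflTransGen.refl⟩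
      exact ⟨ha, rfl, ⟨ha, hae⟩, ReflTransGen.refl⟩
    | @tail y y' _ hyy ih =>
      obtain ⟨hyX, hyu, hyJ⟩ := ih
      have hyE : y ∉ pvtzEx T s d n := by
        have : y ∈ X \ pvtzEx T s d n := by
          rcases ReflTransGen.cases_tail hyJ.2 with e | ⟨_, _, hh⟩
          · rw [e]; exact hyJ.1
          · exact hh.2
        exact this.2
      have hu' : u y = u y' := h.eq_edge hyy.1 (Or.inl hyE) fun x e1 e2 => hχ x (e1 ▸ hyX) (e2 ▸ hyy.2)
      have hy'E : y' ∉ pvtzEx T s d n := by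
        intro hE
        refine hcon ⟨y', hyy.2, hE, hu'.symm.trans hyu, Or.inl hyJ.1, ?_⟩
        refine ReflTransGen.tail (ReflTransGen.mono (fun p q hpq => ⟨hpq.1, Or.inl hpq.2⟩) _ _ hyJ.2) ⟨hyy.1, Or.inr rfl⟩
      exact ⟨hyy.2, hu'.symm.trans hyu, hyJ.1, ReflTransGen.tail hyJ.2 ⟨hyy.1, hyy.2, hy'E⟩⟩
  exact hne (key b hp).2.1

/-- **(H2) BLACK LANDING**: `X` meets the explored set only on the banks of the piece `m..n'`; a path in `X` from the class of the black bank to the other class first meets the explored set ON THE BLACK BANK -/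
theorem pvtz_land_black (hM : T.FaceSet M) (hd : pvasBW T s d) (hinj : ∀ i j, i ≤ n → j ≤ n → pvasIt T s d i = pvasIt T s d j → i = j)
    (h : PvtzPot T s d n M χ u) {m n' : ℕ} (hp : PvtzPiece T s d M χ m n') (hmn : m < n') (hn : n' ≤ n)
    {X : Set V} (hχ : ∀ x, T.src x ∈ X → T.tgt x ∈ X → χ x = 0) (hcl : ∀ v ∈ X, v ∈ pvtzEx T s d n → v ∈ pvtzB T s d m n' ∪ pvtzW T s d m n')
    {a b : V} (hab : T.Join M X a b) (ha : u a = u (T.src (pvasIt T s d m))) (hb : u b ≠ u (T.src (pvasIt T s d m))) :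
    ∃ e, e ∈ X ∧ e ∈ pvtzB T s d m n' ∧ T.Join M ((X \ pvtzEx T s d n) ∪ {e}) a e := by
  obtain ⟨e, h1, h2, h3, h4⟩ := pvtz_land h hχ hab (by rw [ha]; exact hb)
  refine ⟨e, h1, ?_, h4⟩
  rcases hcl e h1 h2 with h5 | h5
  · exact h5
  · exfalso
    have h6 := pvtz_W_const hM hd h hp h5
    exact pvtz_piece_ne hM hd hinj h hp hmn hn (by rw [← ha, ← h3, h6])

/-- **(H2) WHITE LANDING** -/
theorem pvtz_land_white (hM : T.FaceSet M) (hd : pvasBW T s d) (hinj : ∀ i j, i ≤ n → j ≤ n → pvasIt T s d i = pvasIt T s d j → i = j)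
    (h : PvtzPot T s d n M χ u) {m n' : ℕ} (hp : PvtzPiece T s d M χ m n') (hmn : m < n') (hn : n' ≤ n)
    {X : Set V} (hχ : ∀ x, T.src x ∈ X → T.tgt x ∈ X → χ x = 0) (hcl : ∀ v ∈ X, v ∈ pvtzEx T s d n → v ∈ pvtzB T s d m n' ∪ pvtzW T s d m n')
    {a b : V} (hab : T.Join M X a b) (ha : u a = u (T.tgt (pvasIt T s d m))) (hb : u b ≠ u (T.tgt (pvasIt T s d m))) :
    ∃ e, e ∈ X ∧ e ∈ pvtzW T s d m n' ∧ T.Join M ((X \ pvtzEx T s d n) ∪ {e}) a e := by
  obtain ⟨e, h1, h2, h3, h4⟩ := pvtz_land h hχ hab (by rw [ha]; exact hb)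
  refine ⟨e, h1, ?_, h4⟩
  rcases hcl e h1 h2 with h5 | h5
  · exfalso
    have h6 := pvtz_B_const hM hd h hp h5
    exact pvtz_piece_ne hM hd hinj h hp hmn hn (by rw [← ha, ← h3, h6])
  · exact h5

end pot

/-! ## 5. the geometric slit: crossings of the horizontal ray issued from `z` -/

/-- the slit cochain of the ray `{z + t : t > 0}` for the positions `pos` (other directions: rotate `pos` and `z`) -/
noncomputable def pvtzChi (T : PvMap V D) (pos : V → ℂ) (z : ℂ) (x : D) : ZMod 2 := ((delwF T pos z x : ℤ) : ZMod 2)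

theorem pvtz_eqns_cite5 : True := by
  have := @pvtzChi.eq_1
  trivial

theorem pvtz_chi_sym (pos : V → ℂ) (z : ℂ) : T.Sym (pvtzChi T pos z) := by
  intro x
  unfold pvtzChi
  rw [delw_F_opp, Int.cast_neg, ZMod.neg_eq_self_mod_two]

theorem pvtz_delTo_rot {a b c z : ℂ} (h : z ∈ delTo b c a) : z ∈ delTo a b c := ⟨h.2.2, h.1, h.2.1⟩

/-- **face sums of the slit**: `1` on the face which contains `z` in its interior, `0` on the other faces -/
theorem pvtz_chi_face {pos : V → ℂ} {z : ℂ} {M : Set D} (hp : DelwPos T pos M) {x0 : D}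
    (hz : z ∈ delTo (pos (T.src x0)) (pos (T.tgt x0)) (pos (T.apex x0)))
    (huniq : ∀ x ∈ M, z ∈ delT (pos (T.src x)) (pos (T.tgt x)) (pos (T.apex x)) → T.SF x x0) :
    ∀ x ∈ M, pvtzChi T pos z x + pvtzChi T pos z (T.nxt x) + pvtzChi T pos z (T.nxt (T.nxt x)) = plI (T.SF x x0) := by
  intro x hx
  have hc : pvtzChi T pos z x + pvtzChi T pos z (T.nxt x) + pvtzChi T pos z (T.nxt (T.nxt x)) = ((delwTau T pos z x : ℤ) : ZMod 2) := by
    unfold pvtzChi delwTau
    push_cast
    rfl
  rw [hc, delw_tau_eq]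
  have htri := delw_tri (hp x hx) z
  by_cases hsf : T.SF x x0
  · rw [pl_hx_I_pos hsf]
    have hz' : z ∈ delTo (pos (T.src x)) (pos (T.tgt x)) (pos (T.apex x)) := by
      rcases hsf with rfl | rfl | rfl
      · exact hz
      · rw [T.src_nxt, T.tgt_nxt, T.apex_nxt] at hz
        exact pvtz_delTo_rot hz
      · rw [T.src_nxt2, T.tgt_nxt2, T.apex_nxt2] at hz
        exact pvtz_delTo_rot (pvtz_delTo_rot hz)
    rw [htri.1 hz']
    simp
  · rw [pl_hx_I_neg hsf]
    by_cases h0 : delChi z (pos (T.src x)) (pos (T.tgt x)) + delChi z (pos (T.tgt x)) (pos (T.apex x)) + delChi z (pos (T.apex x)) (pos (T.src x)) = 0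
    · rw [h0]; simp
    · exact absurd (huniq x hx (htri.2 h0).1) hsf

/-- an edge WEST of the base point does not meet the ray -/
theorem pvtz_chi_west' {a b z : ℂ} (ha : a.re < z.re) (hb : b.re < z.re) : delChi z a b = 0 := by
  unfold delChi delChiR
  rw [if_neg, if_neg]
  · rintro ⟨h1, h2, h3⟩
    unfold vorDet at h3
    nlinarith [mul_nonneg (sub_nonneg.2 h1) (sub_pos.2 ha).le, mul_pos (sub_pos.2 h2) (sub_pos.2 hb)]
  · rintro ⟨h1, h2, h3⟩
    unfold vorDet at h3
    nlinarith [mul_nonneg (sub_nonneg.2 h1) (sub_pos.2 hb).le, mul_pos (sub_pos.2 h2) (sub_pos.2 ha)]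

theorem pvtz_chi_west {pos : V → ℂ} {z : ℂ} {x : D} (ha : (pos (T.src x)).re < z.re) (hb : (pos (T.tgt x)).re < z.re) : pvtzChi T pos z x = 0 := by
  unfold pvtzChi delwF
  rw [pvtz_chi_west' ha hb]
  simp

/-- EAST of the base point the slit is the coboundary of `1[im ≤ im z]` -/
theorem pvtz_chi_east' {a b z : ℂ} (ha : z.re < a.re) (hb : z.re < b.re) : ((delChi z a b : ℤ) : ZMod 2) = plI (a.im ≤ z.im) + plI (b.im ≤ z.im) := by
  unfold delChi
  rcases le_or_gt a.im z.im with h1 | h1 <;> rcases le_or_gt b.im z.im with h2 | h2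
  · rw [delw_chiR_low h1 h2, pl_hx_I_pos h1, pl_hx_I_pos h2]; decide
  · rw [delw_chiR_up h1 h2, pl_hx_I_pos h1, pl_hx_I_neg (not_le.2 h2), if_pos]
    · simp
    · unfold vorDet
      nlinarith [mul_nonneg (sub_nonneg.2 h1) (sub_pos.2 hb).le, mul_pos (sub_pos.2 h2) (sub_pos.2 ha)]
  · rw [delw_chiR_down h2 h1, pl_hx_I_neg (not_le.2 h1), pl_hx_I_pos h2, if_pos]
    · simp
    · unfold vorDet
      nlinarith [mul_nonneg (sub_nonneg.2 h2) (sub_pos.2 ha).le, mul_pos (sub_pos.2 h1) (sub_pos.2 hb)]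
  · rw [delw_chiR_high h1 h2, pl_hx_I_neg (not_le.2 h1), pl_hx_I_neg (not_le.2 h2)]; simp

theorem pvtz_chi_east {pos : V → ℂ} {z : ℂ} {x : D} (ha : z.re < (pos (T.src x)).re) (hb : z.re < (pos (T.tgt x)).re) :
    pvtzChi T pos z x = plI ((pos (T.src x)).im ≤ z.im) + plI ((pos (T.tgt x)).im ≤ z.im) := by
  unfold pvtzChi delwF
  exact pvtz_chi_east' ha hb

/-- an edge strictly above, or weakly below, the ray does not meet it -/
theorem pvtz_chi_high {pos : V → ℂ} {z : ℂ} {x : D} (ha : z.im < (pos (T.src x)).im) (hb : z.im < (pos (T.tgt x)).im) : pvtzChi T pos z x = 0 := by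
  unfold pvtzChi delwF delChi
  rw [delw_chiR_high ha hb]; simp

theorem pvtz_chi_low {pos : V → ℂ} {z : ℂ} {x : D} (ha : (pos (T.src x)).im ≤ z.im) (hb : (pos (T.tgt x)).im ≤ z.im) : pvtzChi T pos z x = 0 := by
  unfold pvtzChi delwF delChi
  rw [delw_chiR_low ha hb]; simp

/-- **the tip face** `p q a` (positively oriented, `z` inside, the ray does not meet the side `p q`): the ray leaves it through the side `a p` iff `a` is not above the ray.   This is the only place where the ORIENTATION enters. -/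
theorem pvtz_chi_tip {p q a z : ℂ} (h : 0 < vorDet p q a) (hz : z ∈ delTo p q a) (hpq : delChi z p q = 0) : ((delChi z a p : ℤ) : ZMod 2) = plI (a.im ≤ z.im) := by
  have hsum := (delw_tri h z).1 hz
  rcases le_or_gt a.im z.im with h1 | h1
  · have h2 : delChi z q a = 0 := by
      unfold delChi delChiR
      rw [if_neg (fun hh => absurd hh.2.1 (not_lt.2 h1)), if_neg (fun hh => absurd hh.2.2 (not_lt.2 hz.2.1.le))]
    rw [hpq, h2, zero_add, zero_add] at hsum
    rw [hsum, pl_hx_I_pos h1]; simp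
  · have h2 : delChi z a p = 0 := by
      unfold delChi delChiR
      rw [if_neg (fun hh => absurd hh.1 (not_le.2 h1)), if_neg (fun hh => absurd hh.2.2 (not_lt.2 hz.2.2.le))]
    rw [h2, pl_hx_I_neg (not_le.2 h1)]; simp

/-! ## 6. evaluation of the potential outside the box; the base point -/

theorem pvtz_z2_move {a b c : ZMod 2} (h : a + b = c) : a = b + c := by revert a b c; decide

/-- **EVALUATION**.   `x0` = the dart `p → q` of the tip face (`x0 = e n`, `p` BLACK, at an exit tip;  `x0 = opp d`, `p` WHITE, at an entrance tip), `p q` west of `z`, `z` in the open tip face.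
`H` = unexplored sites east of `z`.   For every site `y` joined to the apex of the tip face inside `H`:      `u y = u p` if `y` is above the ray, `u y ≠ u p` if not. -/
theorem pvtz_eval {M : Set D} {pos : V → ℂ} {z : ℂ} {u : V → ZMod 2} (hM : T.FaceSet M) (h : PvtzPot T s d n M (pvtzChi T pos z) u) {x0 : D} (hx0 : x0 ∈ M)
    (hpos : 0 < vorDet (pos (T.src x0)) (pos (T.tgt x0)) (pos (T.apex x0))) (hz : z ∈ delTo (pos (T.src x0)) (pos (T.tgt x0)) (pos (T.apex x0)))
    (hp : (pos (T.src x0)).re < z.re) (hq : (pos (T.tgt x0)).re < z.re)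
    {H : Set V} (hH : ∀ v ∈ H, z.re < (pos v).re ∧ v ∉ pvtzEx T s d n) {y : V} (hy : T.Join M H (T.apex x0) y) :
    u y = u (T.src x0) + plI ((pos y).im ≤ z.im) := by
  obtain ⟨ha, hpath⟩ := hy
  have hX : ∀ x, T.src x ∈ H → pvtzX T s d n x = 0 := by
    intro x hx
    by_contra hne
    rcases pvtz_X_ne_lay hne with ⟨e1, _⟩ | ⟨e1, _⟩
    · exact (hH _ hx).2 (Or.inl e1)
    · exact (hH _ hx).2 (Or.inr e1)
  -- the apex
  have h0 : u (T.apex x0) = u (T.src x0) + plI ((pos (T.apex x0)).im ≤ z.im) := by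
    have h1 := h (T.nxt (T.nxt x0)) (Or.inl ((hM.nxt2 T x0).2 hx0))
    rw [T.src_nxt2, T.tgt_nxt2, hX _ (by rw [T.src_nxt2]; exact ha), zero_add] at h1
    have h2 : pvtzChi T pos z (T.nxt (T.nxt x0)) = plI ((pos (T.apex x0)).im ≤ z.im) := by
      unfold pvtzChi delwF
      rw [T.src_nxt2, T.tgt_nxt2]
      exact pvtz_chi_tip hpos hz (pvtz_chi_west' hp hq)
    rw [h2] at h1
    exact pvtz_z2_move h1
  induction hpath with
  | refl => exact h0
  | @tail v w hv hvw ih =>
    have hvH : v ∈ H := by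
      rcases ReflTransGen.cases_tail hv with e | ⟨_, _, hh⟩
      · rw [e]; exact ha
      · exact hh.2
    obtain ⟨x, hx, rfl, rfl⟩ := hvw.1
    have h1 := h x hx
    rw [hX x hvH, zero_add, pvtz_chi_east (hH _ hvH).1 (hH _ hvw.2).1, ih] at h1
    generalize u (T.src x0) = α at h1 ⊢
    generalize plI ((pos (T.src x)).im ≤ z.im) = β at h1 ⊢
    generalize plI ((pos (T.tgt x)).im ≤ z.im) = γ at h1 ⊢
    generalize u (T.tgt x) = δ at h1 ⊢
    revert α β γ δ; decide

/-- **the base point**: the tip face `p q a` has `p q` in the box `{re ≤ xB}` and `a` outside; it contains points outside the box, as close to the box as we like -/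
theorem pvtz_base {p q a : ℂ} (h : 0 < vorDet p q a) {xB x1 : ℝ} (hp : p.re ≤ xB) (hq : q.re ≤ xB) (h1 : xB < x1) (ha : x1 ≤ a.re) :
    ∃ z, z ∈ delTo p q a ∧ xB < z.re ∧ z.re < x1 := by
  set mr : ℝ := (p.re + q.re) / 2 with hmr
  set mi : ℝ := (p.im + q.im) / 2 with hmi
  set xs : ℝ := (xB + x1) / 2 with hxs
  have hden : 0 < a.re - mr := by rw [hmr]; linarith
  set t : ℝ := (a.re - xs) / (a.re - mr) with ht
  have ht0 : 0 < t := div_pos (by rw [hxs]; linarith) hden
  have ht1 : t < 1 := by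
    rw [ht, div_lt_one hden, hxs, hmr]; linarith
  have hre : a.re + t * (mr - a.re) = xs := by
    rw [ht]; field_simp; ring
  refine ⟨⟨a.re + t * (mr - a.re), a.im + t * (mi - a.im)⟩, ⟨?_, ?_, ?_⟩, ?_, ?_⟩
  · have : vorDet p q ⟨a.re + t * (mr - a.re), a.im + t * (mi - a.im)⟩ = (1 - t) * vorDet p q a := by
      unfold vorDet; simp only [hmr, hmi]; ring
    rw [this]; exact mul_pos (by linarith) h
  · have : vorDet q a ⟨a.re + t * (mr - a.re), a.im + t * (mi - a.im)⟩ = t / 2 * vorDet p q a := by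
      unfold vorDet; simp only [hmr, hmi]; ring
    rw [this]; exact mul_pos (by linarith) h
  · have : vorDet a p ⟨a.re + t * (mr - a.re), a.im + t * (mi - a.im)⟩ = t / 2 * vorDet p q a := by
      unfold vorDet; simp only [hmr, hmi]; ring
    rw [this]; exact mul_pos (by linarith) h
  · show xB < a.re + t * (mr - a.re)
    rw [hre, hxs]; linarith
  · show a.re + t * (mr - a.re) < x1
    rw [hre, hxs]; linarith

/-! ## 7. bank walks, HOOK: from a fresh path to a monochromatic connection with the tip -/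

/-- the black bank of the positions `k..k'` is a walk -/
theorem pvtz_B_walk (T : PvMap V D) (s : V → Bool) (d : D) {k k' : ℕ} (h : k ≤ k') :
    T.Join Set.univ (pvtzB T s d k k') (T.src (pvasIt T s d k)) (T.src (pvasIt T s d k')) := by
  refine ⟨⟨k, le_rfl, h, rfl⟩, ?_⟩
  have key : ∀ j, k ≤ j → j ≤ k' → ReflTransGen (fun p q => T.EdgeIn Set.univ p q ∧ q ∈ pvtzB T s d k k') (T.src (pvasIt T s d k)) (T.src (pvasIt T s d j)) := by
    intro j hj
    induction j, hj using Nat.le_induction with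
    | base => intro _; exact ReflTransGen.refl
    | succ j hj ih =>
      intro hj'
      have ih' := ih (Nat.le_of_succ_le hj')
      rcases pvas_layB_step (T := T) s d j with e | ⟨f, _, e1, e2⟩
      · rw [e]; exact ih'
      · exact ReflTransGen.tail ih' ⟨⟨f, Or.inl (Set.mem_univ _), e1, e2⟩, ⟨j + 1, Nat.le_succ_of_le hj, hj', rfl⟩⟩
  exact key k' h le_rfl

/-- the white bank of the positions `k..k'` is a walk -/
theorem pvtz_W_walk (T : PvMap V D) (s : V → Bool) (d : D) {k k' : ℕ} (h : k ≤ k') :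
    T.Join Set.univ (pvtzW T s d k k') (T.tgt (pvasIt T s d k)) (T.tgt (pvasIt T s d k')) := by
  refine ⟨⟨k, le_rfl, h, rfl⟩, ?_⟩
  have key : ∀ j, k ≤ j → j ≤ k' → ReflTransGen (fun p q => T.EdgeIn Set.univ p q ∧ q ∈ pvtzW T s d k k') (T.tgt (pvasIt T s d k)) (T.tgt (pvasIt T s d j)) := by
    intro j hj
    induction j, hj using Nat.le_induction with
    | base => intro _; exact ReflTransGen.refl
    | succ j hj ih =>
      intro hj'
      have ih' := ih (Nat.le_of_succ_le hj')
      rcases pvas_layW_step (T := T) s d j with e | ⟨f, _, e1, e2⟩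
      · rw [e]; exact ih'
      · exact ReflTransGen.tail ih' ⟨⟨f, Or.inl (Set.mem_univ _), e1, e2⟩, ⟨j + 1, Nat.le_succ_of_le hj, hj', rfl⟩⟩
  exact key k' h le_rfl

theorem pvtz_B_mono (T : PvMap V D) (s : V → Bool) (d : D) {k k' m n' : ℕ} (h1 : m ≤ k) (h2 : k' ≤ n') : pvtzB T s d k k' ⊆ pvtzB T s d m n' := by
  rintro v ⟨j, e1, e2, rfl⟩
  exact ⟨j, h1.trans e1, e2.trans h2, rfl⟩

theorem pvtz_W_mono (T : PvMap V D) (s : V → Bool) (d : D) {k k' m n' : ℕ} (h1 : m ≤ k) (h2 : k' ≤ n') : pvtzW T s d k k' ⊆ pvtzW T s d m n' := by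
  rintro v ⟨j, e1, e2, rfl⟩
  exact ⟨j, h1.trans e1, e2.trans h2, rfl⟩

theorem pvtz_B_black (hd : pvasBW T s d) {m n' : ℕ} {v : V} (hv : v ∈ pvtzB T s d m n') : s v = true := by
  obtain ⟨k, _, _, rfl⟩ := hv
  exact (pvas_it_bw hd k).1

theorem pvtz_W_white (hd : pvasBW T s d) {m n' : ℕ} {v : V} (hv : v ∈ pvtzW T s d m n') : s v = false := by
  obtain ⟨k, _, _, rfl⟩ := hv
  exact (pvas_it_bw hd k).2

theorem pvtz_B_sub_ex {m n' : ℕ} (hn : n' ≤ n) : pvtzB T s d m n' ⊆ pvtzEx T s d n := by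
  rintro v ⟨k, _, h2, rfl⟩
  exact Or.inl ⟨k, h2.trans hn, rfl⟩

theorem pvtz_W_sub_ex {m n' : ℕ} (hn : n' ≤ n) : pvtzW T s d m n' ⊆ pvtzEx T s d n := by
  rintro v ⟨k, _, h2, rfl⟩
  exact Or.inr ⟨k, h2.trans hn, rfl⟩

section hook

variable {M : Set D} {χ : D → ZMod 2} {u : V → ZMod 2}

/-- **BLACK HOOK**.   `X` = the sites of a path which is black for the INDEPENDENT COPY (so its unexplored sites are black for `s`).   If it runs, off the slit, from `a` in the class of the black bank to the other class, then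
`a` is joined to the black vertex of EVERY later position `N ≥ n'` by a black path made of unexplored sites of `X` and of the black bank of the positions `m..N`. -/
theorem pvtz_hook_black (hM : T.FaceSet M) (hd : pvasBW T s d) (hinj : ∀ i j, i ≤ n → j ≤ n → pvasIt T s d i = pvasIt T s d j → i = j)
    (h : PvtzPot T s d n M χ u) {m n' : ℕ} (hp : PvtzPiece T s d M χ m n') (hmn : m < n') (hn : n' ≤ n)
    {X : Set V} (hχ : ∀ x, T.src x ∈ X → T.tgt x ∈ X → χ x = 0) (hcl : ∀ v ∈ X, v ∈ pvtzEx T s d n → v ∈ pvtzB T s d m n' ∪ pvtzW T s d m n')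
    (hXb : ∀ v ∈ X, v ∉ pvtzEx T s d n → s v = true)
    {a b : V} (hab : T.Join M X a b) (ha : u a = u (T.src (pvasIt T s d m))) (hb : u b ≠ u (T.src (pvasIt T s d m))) {N : ℕ} (hN : n' ≤ N) :
    T.Join Set.univ ({v | s v = true} ∩ ((X \ pvtzEx T s d n) ∪ pvtzB T s d m N)) a (T.src (pvasIt T s d N)) := by
  obtain ⟨e, _, ⟨k, hk1, hk2, rfl⟩, h3⟩ := pvtz_land_black hM hd hinj h hp hmn hn hχ hcl hab ha hb
  have hkB : T.src (pvasIt T s d k) ∈ pvtzB T s d m N := ⟨k, hk1, hk2.trans hN, rfl⟩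
  refine pl_hx_join_trans (pl_hx_join_mono (Set.subset_univ _) ?_ h3) (pl_hx_join_mono subset_rfl ?_ (pvtz_B_walk T s d (hk2.trans hN)))
  · rintro v (hv | hv)
    · exact ⟨hXb v hv.1 hv.2, Or.inl hv⟩
    · rw [Set.mem_singleton_iff] at hv
      subst hv
      exact ⟨pvtz_B_black hd hkB, Or.inr hkB⟩
  · intro v hv
    have hv' := pvtz_B_mono T s d hk1 le_rfl hv
    exact ⟨pvtz_B_black hd hv', Or.inr hv'⟩

/-- **WHITE HOOK** -/
theorem pvtz_hook_white (hM : T.FaceSet M) (hd : pvasBW T s d) (hinj : ∀ i j, i ≤ n → j ≤ n → pvasIt T s d i = pvasIt T s d j → i = j)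
    (h : PvtzPot T s d n M χ u) {m n' : ℕ} (hp : PvtzPiece T s d M χ m n') (hmn : m < n') (hn : n' ≤ n)
    {X : Set V} (hχ : ∀ x, T.src x ∈ X → T.tgt x ∈ X → χ x = 0) (hcl : ∀ v ∈ X, v ∈ pvtzEx T s d n → v ∈ pvtzB T s d m n' ∪ pvtzW T s d m n')
    (hXw : ∀ v ∈ X, v ∉ pvtzEx T s d n → s v = false)
    {a b : V} (hab : T.Join M X a b) (ha : u a = u (T.tgt (pvasIt T s d m))) (hb : u b ≠ u (T.tgt (pvasIt T s d m))) {N : ℕ} (hN : n' ≤ N) :
    T.Join Set.univ ({v | s v = false} ∩ ((X \ pvtzEx T s d n) ∪ pvtzW T s d m N)) a (T.tgt (pvasIt T s d N)) := by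
  obtain ⟨e, _, ⟨k, hk1, hk2, rfl⟩, h3⟩ := pvtz_land_white hM hd hinj h hp hmn hn hχ hcl hab ha hb
  have hkB : T.tgt (pvasIt T s d k) ∈ pvtzW T s d m N := ⟨k, hk1, hk2.trans hN, rfl⟩
  refine pl_hx_join_trans (pl_hx_join_mono (Set.subset_univ _) ?_ h3) (pl_hx_join_mono subset_rfl ?_ (pvtz_W_walk T s d (hk2.trans hN)))
  · rintro v (hv | hv)
    · exact ⟨hXw v hv.1 hv.2, Or.inl hv⟩
    · rw [Set.mem_singleton_iff] at hv
      subst hv
      exact ⟨pvtz_W_white hd hkB, Or.inr hkB⟩
  · intro v hv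
    have hv' := pvtz_W_mono T s d hk1 le_rfl hv
    exact ⟨pvtz_W_white hd hv', Or.inr hv'⟩

end hook

/-! ## 8. the EXIT TIP of a strand stopped by the half plane `{re ≤ xB}` (the other three sides of a box: rotate `pos`) -/

/-- where the slit can be nonzero: the ordinates of the two ends are on both sides of `im z`, and one end is not west of `z` -/
theorem pvtz_chi_ne {pos : V → ℂ} {z : ℂ} {x : D} (h : pvtzChi T pos z x ≠ 0) :
    (((pos (T.src x)).im ≤ z.im ∧ z.im < (pos (T.tgt x)).im) ∨ ((pos (T.tgt x)).im ≤ z.im ∧ z.im < (pos (T.src x)).im)) ∧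
      (z.re ≤ (pos (T.src x)).re ∨ z.re ≤ (pos (T.tgt x)).re) := by
  constructor
  · rcases le_or_gt (pos (T.src x)).im z.im with h1 | h1 <;> rcases le_or_gt (pos (T.tgt x)).im z.im with h2 | h2
    · exact absurd (pvtz_chi_low h1 h2) h
    · exact Or.inl ⟨h1, h2⟩
    · exact Or.inr ⟨h2, h1⟩
    · exact absurd (pvtz_chi_high h1 h2) h
  · by_contra hcon
    rw [not_or, not_le, not_le] at hcon
    exact h (pvtz_chi_west hcon.1 hcon.2)

/-- edges of length `≤ μ` both ends of which are off the strip `{|im - im z| ≤ μ}` are off the slit -/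
theorem pvtz_chi_strip {pos : V → ℂ} {z : ℂ} {x : D} {μ : ℝ} (hlen : ‖pos (T.src x) - pos (T.tgt x)‖ ≤ μ) (h1 : μ < |(pos (T.src x)).im - z.im|) : pvtzChi T pos z x = 0 := by
  by_contra hne
  have him : |(pos (T.src x)).im - (pos (T.tgt x)).im| ≤ μ := by
    have := Complex.abs_im_le_norm (pos (T.src x) - pos (T.tgt x))
    rw [Complex.sub_im] at this
    exact this.trans hlen
  rw [abs_le] at him
  rcases (pvtz_chi_ne hne).1 with ⟨e1, e2⟩ | ⟨e1, e2⟩
  · rw [lt_abs] at h1
    rcases h1 with h1 | h1 <;> linarith [him.1, him.2]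
  · rw [lt_abs] at h1
    rcases h1 with h1 | h1 <;> linarith [him.1, him.2]

/-- the geometry of the mouth: the faces of `A` are positively oriented triangles which do not overlap -/
structure PvtzGeo (T : PvMap V D) (pos : V → ℂ) (A : Set D) : Prop where
  ori : DelwPos T pos A
  tile : ∀ x ∈ A, ∀ x0 ∈ A, ∀ z, z ∈ delTo (pos (T.src x0)) (pos (T.tgt x0)) (pos (T.apex x0)) → z ∈ delT (pos (T.src x)) (pos (T.tgt x)) (pos (T.apex x)) → T.SF x x0

theorem pvtz_det_mul (ζ a b c : ℂ) : vorDet (ζ * a) (ζ * b) (ζ * c) = Complex.normSq ζ * vorDet a b c := by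
  simp only [vorDet, Complex.mul_re, Complex.mul_im, Complex.normSq_apply]; ring

/-- the geometry of the mouth is invariant under `z ↦ ζ z` (the four sides of a box: `ζ = 1, -i, -1, i`) -/
theorem PvtzGeo.rot {pos : V → ℂ} {A : Set D} (G : PvtzGeo T pos A) {ζ : ℂ} (hζ : ζ ≠ 0) : PvtzGeo T (fun v => ζ * pos v) A := by
  have hN : 0 < Complex.normSq ζ := Complex.normSq_pos.2 hζ
  refine ⟨fun x hx => ?_, fun x hx x0 hx0 z hz hz' => ?_⟩
  · show 0 < vorDet (ζ * pos (T.src x)) (ζ * pos (T.tgt x)) (ζ * pos (T.apex x))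
    rw [pvtz_det_mul]; exact mul_pos hN (G.ori x hx)
  · have hzz : z = ζ * (ζ⁻¹ * z) := by rw [← mul_assoc, mul_inv_cancel₀ hζ, one_mul]
    refine G.tile x hx x0 hx0 (ζ⁻¹ * z) ?_ ?_
    · obtain ⟨h1, h2, h3⟩ := hz
      rw [hzz, pvtz_det_mul] at h1 h2 h3
      exact ⟨(pos_iff_pos_of_mul_pos h1).1 hN, (pos_iff_pos_of_mul_pos h2).1 hN, (pos_iff_pos_of_mul_pos h3).1 hN⟩
    · obtain ⟨h1, h2, h3⟩ := hz'
      rw [hzz, pvtz_det_mul] at h1 h2 h3
      exact ⟨nonneg_of_mul_nonneg_right h1 hN, nonneg_of_mul_nonneg_right h2 hN, nonneg_of_mul_nonneg_right h3 hN⟩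

/-- the data of an exit tip: the positions `0..n` have their ends in `{re ≤ xB}`, the apex of the last one is outside; `M` = mouth -/
structure PvtzExit (T : PvMap V D) (pos : V → ℂ) (s : V → Bool) (d : D) (n : ℕ) (M : T.Cyc) (xB : ℝ) : Prop where
  fin : M.Left.Finite
  geo : PvtzGeo T pos M.Left
  bw : pvasBW T s d
  /-- the strand starts outside the mouth -/
  start : T.opp d ∉ M.Left
  /-- the tip face lies in the mouth -/
  tip : pvasIt T s d n ∈ M.Left
  box : ∀ k, k ≤ n → (pos (T.src (pvasIt T s d k))).re ≤ xB ∧ (pos (T.tgt (pvasIt T s d k))).re ≤ xB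
  out : xB < (pos (T.apex (pvasIt T s d n))).re

namespace PvtzExit

variable {pos : V → ℂ} {M : T.Cyc} {xB : ℝ}

theorem apex_box (E : PvtzExit T pos s d n M xB) {k : ℕ} (hk : k < n) : (pos (T.apex (pvasIt T s d k))).re ≤ xB := by
  rcases pvas_step_ends s (pvasIt T s d k) with ⟨_, e, _⟩ | ⟨_, _, e⟩
  · rw [← e, ← pvas_it_succ]; exact (E.box (k + 1) hk).1
  · rw [← e, ← pvas_it_succ]; exact (E.box (k + 1) hk).2

/-- the positions are pairwise distinct -/
theorem inj (E : PvtzExit T pos s d n M xB) : ∀ i j, i ≤ n → j ≤ n → pvasIt T s d i = pvasIt T s d j → i = j :=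
  pvtz_inj_of_exit (A := {x | (pos (T.apex x)).re ≤ xB}) E.bw (fun _ hk => E.apex_box hk) (not_le.2 E.out)

/-- the explored sites lie in the box -/
theorem ex_box (E : PvtzExit T pos s d n M xB) {v : V} (hv : v ∈ pvtzEx T s d n) : (pos v).re ≤ xB := by
  rcases hv with ⟨k, hk, rfl⟩ | ⟨k, hk, rfl⟩
  · exact (E.box k hk).1
  · exact (E.box k hk).2

/-- every stretch of the strand inside the mouth is a piece off the slit -/
theorem piece (E : PvtzExit T pos s d n M xB) {z : ℂ} (hz : xB < z.re) {m n' : ℕ} (hn : n' ≤ n) (hmem : ∀ k, m ≤ k → k < n' → pvasIt T s d k ∈ M.Left) :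
    PvtzPiece T s d M.Left (pvtzChi T pos z) m n' := by
  refine ⟨hmem, fun k _ hk x hx => ?_⟩
  have hk' : k < n := lt_of_lt_of_le hk hn
  have h1 := (E.box k hk'.le).1
  have h2 := (E.box k hk'.le).2
  have h3 := E.apex_box hk'
  rcases hx with rfl | rfl | rfl
  · exact pvtz_chi_west (by linarith) (by linarith)
  · exact pvtz_chi_west (by rw [T.src_nxt]; linarith) (by rw [T.tgt_nxt]; linarith)
  · exact pvtz_chi_west (by rw [T.src_nxt2]; linarith) (by rw [T.tgt_nxt2]; linarith)

/-- **the potential of an exit tip**: base point `z` in the open tip face, outside the box, west of `x1` -/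
theorem pot (hT : T.IsSph) (E : PvtzExit T pos s d n M xB) {x1 : ℝ} (h1 : xB < x1) :
    ∃ z : ℂ, ∃ u : V → ZMod 2, z ∈ delTo (pos (T.src (pvasIt T s d n))) (pos (T.tgt (pvasIt T s d n))) (pos (T.apex (pvasIt T s d n))) ∧ xB < z.re ∧ z.re < x1 ∧
      z.re < (pos (T.apex (pvasIt T s d n))).re ∧ PvtzPot T s d n M.Left (pvtzChi T pos z) u := by
  obtain ⟨z, hz, hz1, hz2⟩ := pvtz_base (E.geo.ori _ E.tip) (E.box n le_rfl).1 (E.box n le_rfl).2 (lt_min h1 E.out) (min_le_right x1 _)
  obtain ⟨u, hu⟩ := pvtz_pot_exit hT M E.fin s d n E.start (pvtzChi T pos z) (pvtz_chi_sym pos z)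
    (pvtz_chi_face E.geo.ori hz fun x hx hzx => E.geo.tile x hx _ E.tip z hz hzx)
  exact ⟨z, u, hz, hz1, hz2.trans_le (min_le_left _ _), hz2.trans_le (min_le_right _ _), hu⟩

/-- **evaluation at an exit tip**: an unexplored site `y` east of `z`, joined to the apex of the tip face through such sites, is in the class of the BLACK tip vertex iff it is above the ray -/
theorem eval (E : PvtzExit T pos s d n M xB) {z : ℂ} {u : V → ZMod 2} (hz : z ∈ delTo (pos (T.src (pvasIt T s d n))) (pos (T.tgt (pvasIt T s d n))) (pos (T.apex (pvasIt T s d n))))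
    (hz1 : xB < z.re) (hu : PvtzPot T s d n M.Left (pvtzChi T pos z) u) {y : V} (hy : T.Join M.Left {v | z.re < (pos v).re} (T.apex (pvasIt T s d n)) y) :
    u y = u (T.src (pvasIt T s d n)) + plI ((pos y).im ≤ z.im) :=
  pvtz_eval (pl_left_face M) hu E.tip (E.geo.ori _ E.tip) hz (lt_of_le_of_lt (E.box n le_rfl).1 hz1) (lt_of_le_of_lt (E.box n le_rfl).2 hz1)
    (fun v hv => ⟨hv, fun hE => absurd (E.ex_box hE) (not_le.2 (hz1.trans hv))⟩) hy

end PvtzExit

/-! ## 9. the ENTRANCE TIP: the strand comes out of the face of `opp d`, whose apex is outside `{re ≤ xB}` -/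

/-- the data of an entrance tip: the positions `0..n` have their ends in `{re ≤ xB}`, the apex of the face BEHIND the first one is outside; the strand is followed until it is out of the mouth `M` -/
structure PvtzEnt (T : PvMap V D) (pos : V → ℂ) (s : V → Bool) (d : D) (n : ℕ) (M : T.Cyc) (xB : ℝ) : Prop where
  fin : M.Left.Finite
  geo : PvtzGeo T pos M.Left
  bw : pvasBW T s d
  /-- the last position is outside the mouth -/
  stop : pvasIt T s d n ∉ M.Left
  /-- the tip face lies in the mouth -/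
  tip : T.opp d ∈ M.Left
  box : ∀ k, k ≤ n → (pos (T.src (pvasIt T s d k))).re ≤ xB ∧ (pos (T.tgt (pvasIt T s d k))).re ≤ xB
  out : xB < (pos (T.apex (T.opp d))).re

namespace PvtzEnt

variable {pos : V → ℂ} {M : T.Cyc} {xB : ℝ}

theorem apex_box (E : PvtzEnt T pos s d n M xB) {k : ℕ} (hk : k < n) : (pos (T.apex (pvasIt T s d k))).re ≤ xB := by
  rcases pvas_step_ends s (pvasIt T s d k) with ⟨_, e, _⟩ | ⟨_, _, e⟩
  · rw [← e, ← pvas_it_succ]; exact (E.box (k + 1) hk).1
  · rw [← e, ← pvas_it_succ]; exact (E.box (k + 1) hk).2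

/-- the positions are pairwise distinct -/
theorem inj (E : PvtzEnt T pos s d n M xB) : ∀ i j, i ≤ n → j ≤ n → pvasIt T s d i = pvasIt T s d j → i = j := by
  have key : ∀ i j, i < j → j ≤ n → pvasIt T s d i ≠ pvasIt T s d j := by
    intro i j hij hj e
    have h0 := pvas_it_return E.bw hij.le e
    obtain ⟨p, hp⟩ : ∃ p, j - i = p + 1 := ⟨j - i - 1, by omega⟩
    rw [hp] at h0
    have hpn : p < n := by omega
    have hsf : T.SF (pvasIt T s d p) (T.opp d) := by
      have := pvas_step_sf (T := T) s (pvasIt T s d p)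
      rwa [← pvas_it_succ, h0] at this
    have h1 := (E.box p hpn.le).1
    have h2 := (E.box p hpn.le).2
    have h3 := E.apex_box hpn
    have hout := E.out
    rcases hsf with e | e | e
    · rw [e] at hout; linarith
    · rw [e, T.apex_nxt] at hout; linarith
    · rw [e, T.apex_nxt2] at hout; linarith
  intro i j hi hj e
  rcases Nat.lt_trichotomy i j with h | h | h
  · exact absurd e (key i j h hj)
  · exact h
  · exact absurd e.symm (key j i h hi)

theorem ex_box (E : PvtzEnt T pos s d n M xB) {v : V} (hv : v ∈ pvtzEx T s d n) : (pos v).re ≤ xB := by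
  rcases hv with ⟨k, hk, rfl⟩ | ⟨k, hk, rfl⟩
  · exact (E.box k hk).1
  · exact (E.box k hk).2

theorem piece (E : PvtzEnt T pos s d n M xB) {z : ℂ} (hz : xB < z.re) {m n' : ℕ} (hn : n' ≤ n) (hmem : ∀ k, m ≤ k → k < n' → pvasIt T s d k ∈ M.Left) :
    PvtzPiece T s d M.Left (pvtzChi T pos z) m n' := by
  refine ⟨hmem, fun k _ hk x hx => ?_⟩
  have hk' : k < n := lt_of_lt_of_le hk hn
  have h1 := (E.box k hk'.le).1
  have h2 := (E.box k hk'.le).2
  have h3 := E.apex_box hk'
  rcases hx with rfl | rfl | rfl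
  · exact pvtz_chi_west (by linarith) (by linarith)
  · exact pvtz_chi_west (by rw [T.src_nxt]; linarith) (by rw [T.tgt_nxt]; linarith)
  · exact pvtz_chi_west (by rw [T.src_nxt2]; linarith) (by rw [T.tgt_nxt2]; linarith)

/-- **the potential of an entrance tip** -/
theorem pot (hT : T.IsSph) (E : PvtzEnt T pos s d n M xB) {x1 : ℝ} (h1 : xB < x1) :
    ∃ z : ℂ, ∃ u : V → ZMod 2, z ∈ delTo (pos (T.src (T.opp d))) (pos (T.tgt (T.opp d))) (pos (T.apex (T.opp d))) ∧ xB < z.re ∧ z.re < x1 ∧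
      z.re < (pos (T.apex (T.opp d))).re ∧ PvtzPot T s d n M.Left (pvtzChi T pos z) u := by
  have hb := E.box 0 (Nat.zero_le n)
  rw [pvas_it_zero] at hb
  obtain ⟨z, hz, hz1, hz2⟩ := pvtz_base (E.geo.ori _ E.tip) (by rw [T.src_opp']; exact hb.2) (by rw [T.tgt_opp]; exact hb.1) (lt_min h1 E.out) (min_le_right x1 _)
  obtain ⟨u, hu⟩ := pvtz_pot_ent hT M E.fin s d n E.stop (pvtzChi T pos z) (pvtz_chi_sym pos z)
    (pvtz_chi_face E.geo.ori hz fun x hx hzx => E.geo.tile x hx _ E.tip z hz hzx)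
  exact ⟨z, u, hz, hz1, hz2.trans_le (min_le_left _ _), hz2.trans_le (min_le_right _ _), hu⟩

/-- **evaluation at an entrance tip**: an unexplored site `y` east of `z`, joined to the apex of the tip face through such sites, is in the class of the WHITE tip vertex iff it is above the ray -/
theorem eval (E : PvtzEnt T pos s d n M xB) {z : ℂ} {u : V → ZMod 2} (hz : z ∈ delTo (pos (T.src (T.opp d))) (pos (T.tgt (T.opp d))) (pos (T.apex (T.opp d))))
    (hz1 : xB < z.re) (hu : PvtzPot T s d n M.Left (pvtzChi T pos z) u) {y : V} (hy : T.Join M.Left {v | z.re < (pos v).re} (T.apex (T.opp d)) y) :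
    u y = u (T.tgt d) + plI ((pos y).im ≤ z.im) := by
  have hb := E.box 0 (Nat.zero_le n)
  rw [pvas_it_zero] at hb
  have := pvtz_eval (pl_left_face M) hu E.tip (E.geo.ori _ E.tip) hz (by rw [T.src_opp']; exact lt_of_le_of_lt hb.2 hz1) (by rw [T.tgt_opp]; exact lt_of_le_of_lt hb.1 hz1)
    (fun v hv => ⟨hv, fun hE => absurd (E.ex_box hE) (not_le.2 (hz1.trans hv))⟩) hy
  rwa [T.src_opp'] at this

end PvtzEnt

end Claimed.Agent.R289
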