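-- KEEP
import Claimed.Agent.R289.Tr.Cls
import Claimed.Agent.R289.Tr.Tip

/-!
# Row 289 (S0537), wall TR, ROAD E, block Tr/Tip: FROM A RUN IN `K` TO `SYn` OF `Tr/Defs` v2      (helper268; prefix `pvyn_`, record `PvynSt`)

`Tr/Defs` v2 (frozen text) asks in `PvwDat.SYn`
  (3) FIRST HIT of the entry gate edge `s.dm`,
  (4) the ends of the new positions in `YCL ∪ fzY`, `YCL` = the VERTEX components of the two tip apexes in `Yraw` (v3: and over `Yin`).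
Neither follows from `PvldRun T σ K a₀ a₁` + stubs + cylinder alone: a run may cross an edge with BOTH ends frozen (black bank - white bank) which is not a position of a stub, and the fresh sites
seen afterwards are joined to no tip apex through fresh sites.  The two colour-free facts on the datum which repair this:

* `DISJ`  the two stubs have no common position;
* `NFD`   every edge black -> white (for the prescribed colours) with both ends frozen and its two faces in `K` is a position of one of the two stubs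
          (= invariant (ii) of 165 = potential of 23: two explored sites in different classes of the tip potential, no slit between two sites of the convex box, so the edge is crossed by the last piece).

CONTENT
* sec. 1  `pvwComp` as a join: `pvyn_comp_iff`, `pvyn_comp_self`, `pvyn_comp_adj`, `pvyn_comp_mono`, `pvyn_comp_sub`.
* sec. 2  `pvyn_run_comp`: a strand from a frozen position all of whose later positions have a fresh end only sees frozen sites and sites joined to the apex of the first position through fresh sites.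
* sec. 3  `PvynSt` = stub . run . stub at the level of `PvMap`: `pvyn_mid`, `pvyn_tail`, `pvyn_last`, `pvyn_first` (FIRST HIT), `pvyn_no_rep` (no repeated position), `pvyn_not_stub` (a new position is not a stub position).
* sec. 4  on the datum, HALF stubs only (`t.StubP`, `s.StubM`: what `PvwDat.Ok` v2 supplies): `pvyn_stub`, `pvyn_st`, **`pvyn_SYn`**, `pvyn_SY`, `pvyn_YArc`, and the form with `NF` on the run as a hypothesis `pvyn_SYn_of_nf`.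
-/

set_option autoImplicit false
set_option linter.unusedSectionVars false
set_option linter.unusedVariables false

namespace Claimed.Agent.R289

open Relation

variable {V D : Type} {T : PvMap V D}

/-! ## 1. vertex components -/

/-- the component of `a` in `X` is the set of the sites joined to `a` inside `X` -/
theorem pvyn_comp_iff (d₀ : D) {X : Set V} {a v : V} : v ∈ pvwComp T X a ↔ T.Join Set.univ X a v := by
  constructor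
  · rintro ⟨q, h0, h1, hX⟩
    have := pl_pth_join q (A := Set.univ) (X := X) (fun i _ => Or.inl (Set.mem_univ _)) hX (Nat.zero_le q.n) (le_refl q.n)
    rwa [h0, h1] at this
  · intro h
    have : Nonempty D := ⟨d₀⟩
    obtain ⟨p, p0, p1, pX, -⟩ := pl_pth_of_join h
    exact ⟨p, p0, p1, pX⟩

theorem pvyn_comp_self (d₀ : D) {X : Set V} {a : V} (ha : a ∈ X) : a ∈ pvwComp T X a := (pvyn_comp_iff d₀).2 ⟨ha, ReflTransGen.refl⟩

theorem pvyn_comp_adj (d₀ : D) {X : Set V} {a u v : V} (hu : u ∈ pvwComp T X a) (huv : T.Adj u v) (hv : v ∈ X) : v ∈ pvwComp T X a := by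
  obtain ⟨h1, h2⟩ := (pvyn_comp_iff d₀).1 hu
  obtain ⟨d, e1, e2⟩ := huv
  exact (pvyn_comp_iff d₀).2 ⟨h1, h2.tail ⟨⟨d, Or.inl (Set.mem_univ _), e1, e2⟩, hv⟩⟩

theorem pvyn_comp_mono {X X' : Set V} (h : X ⊆ X') (a : V) : pvwComp T X a ⊆ pvwComp T X' a := by
  rintro v ⟨q, h0, h1, hX⟩
  exact ⟨q, h0, h1, fun x hx => h (hX x hx)⟩

theorem pvyn_comp_sub (X : Set V) (a : V) : pvwComp T X a ⊆ X := by
  rintro v ⟨q, -, h1, hX⟩
  exact hX v ⟨q.n, le_rfl, h1⟩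

/-- the two ends of a dart are adjacent to its apex -/
theorem pvyn_adj_apex (d : D) : T.Adj (T.src d) (T.apex d) ∧ T.Adj (T.tgt d) (T.apex d) :=
  ⟨⟨T.rot d, T.src_rot d, T.tgt_rot d⟩, ⟨T.nxt d, T.src_nxt d, T.tgt_nxt d⟩⟩

/-! ## 2. a strand whose positions have a fresh end -/

/-- **RUN-COMP**: the first position is frozen, every later position `0 < i < N` has a fresh end, the crossed faces have their vertices in `K`:
then every end of a position `0 < i < N` is frozen or joined to the apex of the first position inside `K \ Fz` -/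
theorem pvyn_run_comp {s : V → Bool} {a₀ : D} {N : ℕ} {Fz K : Set V} (hK : T.VOf (pvasFc T s a₀ N) ⊆ K) (h0 : T.src a₀ ∈ Fz ∧ T.tgt a₀ ∈ Fz)
    (hNF : ∀ i, 0 < i → i < N → T.src (pvasIt T s a₀ i) ∉ Fz ∨ T.tgt (pvasIt T s a₀ i) ∉ Fz) :
    ∀ i, i + 1 < N → (T.src (pvasIt T s a₀ (i + 1)) ∈ Fz ∨ T.src (pvasIt T s a₀ (i + 1)) ∈ pvwComp T (K \ Fz) (T.apex a₀)) ∧
      (T.tgt (pvasIt T s a₀ (i + 1)) ∈ Fz ∨ T.tgt (pvasIt T s a₀ (i + 1)) ∈ pvwComp T (K \ Fz) (T.apex a₀)) := by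
  have hap : ∀ i, i < N → T.apex (pvasIt T s a₀ i) ∈ K := fun i hi => hK ⟨_, ⟨i, hi, T.sf_nxt2 _⟩, rfl⟩
  intro i
  induction i with
  | zero =>
    intro hi
    have hnf := hNF 1 Nat.one_pos hi
    have e : pvasIt T s a₀ (0 + 1) = pvasStep T s a₀ := by rw [pvas_it_succ]; rfl
    have e' : pvasIt T s a₀ 1 = pvasStep T s a₀ := e
    rw [e'] at hnf
    rw [e]
    have hk : T.apex a₀ ∈ K := hap 0 (by omega)
    rcases pvas_step_ends s a₀ with ⟨-, e1, e2⟩ | ⟨-, e1, e2⟩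
    · rw [e1, e2] at hnf ⊢
      have hf : T.apex a₀ ∉ Fz := hnf.resolve_right (fun h => h h0.2)
      exact ⟨Or.inr (pvyn_comp_self a₀ ⟨hk, hf⟩), Or.inl h0.2⟩
    · rw [e1, e2] at hnf ⊢
      have hf : T.apex a₀ ∉ Fz := hnf.resolve_left (fun h => h h0.1)
      exact ⟨Or.inl h0.1, Or.inr (pvyn_comp_self a₀ ⟨hk, hf⟩)⟩
  | succ i ih =>
    intro hi
    obtain ⟨p1, p2⟩ := ih (by omega)
    have hnf := hNF (i + 1) (Nat.succ_pos i) (by omega)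
    have hk := hap (i + 1) (by omega)
    have hx : T.apex (pvasIt T s a₀ (i + 1)) ∈ Fz ∨ T.apex (pvasIt T s a₀ (i + 1)) ∈ pvwComp T (K \ Fz) (T.apex a₀) := by
      by_cases hf : T.apex (pvasIt T s a₀ (i + 1)) ∈ Fz
      · exact Or.inl hf
      · right
        rcases hnf with h | h
        · exact pvyn_comp_adj a₀ (p1.resolve_left h) (pvyn_adj_apex _).1 ⟨hk, hf⟩
        · exact pvyn_comp_adj a₀ (p2.resolve_left h) (pvyn_adj_apex _).2 ⟨hk, hf⟩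
    rw [pvas_it_succ s a₀ (i + 1)]
    rcases pvas_step_ends s (pvasIt T s a₀ (i + 1)) with ⟨-, e1, e2⟩ | ⟨-, e1, e2⟩
    · rw [e1, e2]; exact ⟨hx, p2⟩
    · rw [e1, e2]; exact ⟨p1, hx⟩

/-! ## 3. stub . run . stub -/

/-- **stub . run . stub** for the colouring `s`: the exit stub `ep 0 = dp, …, ep np`, a run of `N` steps from `ep np` to `em nm` (first hit), the entrance stub `em nm, …, em 0 = dm` listed backwards;
the two stubs have no common position -/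
structure PvynSt (T : PvMap V D) (s : V → Bool) (dp dm : D) (np nm N : ℕ) (ep em : ℕ → D) : Prop where
  bw : pvasBW T s dp
  bwm : pvasBW T s dm
  ep_it : ∀ i, i ≤ np → pvasIt T s dp i = ep i
  em_it : ∀ i, i ≤ nm → (pvasBack T s)^[i] dm = em i
  run : pvasIt T s (ep np) N = em nm
  min : ∀ i, i < N → pvasIt T s (ep np) i ≠ em nm
  disj : ∀ j, j ≤ np → ∀ k, k ≤ nm → ep j ≠ em k

variable {s : V → Bool} {dp dm : D} {np nm N : ℕ} {ep em : ℕ → D}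

theorem pvyn_mid (h : PvynSt T s dp dm np nm N ep em) (i : ℕ) : pvasIt T s dp (np + i) = pvasIt T s (ep np) i := by
  rw [pvas_it_add, h.ep_it np le_rfl]

theorem pvyn_em_zero (h : PvynSt T s dp dm np nm N ep em) : em 0 = dm := (h.em_it 0 (Nat.zero_le _)).symm

theorem pvyn_ep_zero (h : PvynSt T s dp dm np nm N ep em) : ep 0 = dp := (h.ep_it 0 (Nat.zero_le _)).symm

theorem pvyn_em_bw (h : PvynSt T s dp dm np nm N ep em) : ∀ k, k ≤ nm → pvasBW T s (em k) := by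
  intro k
  induction k with
  | zero => intro _; rw [pvyn_em_zero h]; exact h.bwm
  | succ k ih =>
    intro hk
    rw [← h.em_it (k + 1) hk, Function.iterate_succ_apply', h.em_it k (Nat.le_of_succ_le hk)]
    exact pvas_back_bw (ih (Nat.le_of_succ_le hk))

/-- the last `nm` steps run along the entrance stub -/
theorem pvyn_tail (h : PvynSt T s dp dm np nm N ep em) : ∀ i, i ≤ nm → pvasIt T s dp (np + N + i) = em (nm - i) := by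
  intro i
  induction i with
  | zero => intro _; rw [Nat.add_zero, pvyn_mid h, h.run, Nat.sub_zero]
  | succ i ih =>
    intro hi
    have e1 : nm - i = (nm - (i + 1)) + 1 := by omega
    rw [← Nat.add_assoc, pvas_it_succ, ih (Nat.le_of_succ_le hi), e1, ← h.em_it _ (by omega), Function.iterate_succ_apply', h.em_it _ (by omega)]
    exact pvas_step_back (pvyn_em_bw h _ (by omega))

/-- the strand from `dp` is at `dm` after `np + N + nm` steps -/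
theorem pvyn_last (h : PvynSt T s dp dm np nm N ep em) : pvasIt T s dp (np + N + nm) = dm := by
  rw [pvyn_tail h nm le_rfl, Nat.sub_self, pvyn_em_zero h]

/-- backwards along a strand -/
theorem pvyn_back (hb : pvasBW T s dp) (i : ℕ) : ∀ k, k ≤ i → (pvasBack T s)^[k] (pvasIt T s dp i) = pvasIt T s dp (i - k) := by
  intro k
  induction k with
  | zero => intro _; rfl
  | succ k ih =>
    intro hk
    rw [Function.iterate_succ_apply', ih (Nat.le_of_succ_le hk)]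
    have e : i - k = (i - (k + 1)) + 1 := by omega
    rw [e, pvas_it_back hb]

/-- **FIRST HIT**: the strand from `dp` is not at `dm` before the time `np + N + nm` -/
theorem pvyn_first (h : PvynSt T s dp dm np nm N ep em) : ∀ i, i < np + N + nm → pvasIt T s dp i ≠ dm := by
  intro i hi e
  have hb : ∀ k, k ≤ i → k ≤ nm → pvasIt T s dp (i - k) = em k := by
    intro k hk hkm
    rw [← pvyn_back h.bw i k hk, e, h.em_it k hkm]
  rcases Nat.lt_or_ge i nm with hlt | hge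
  · have h1 := hb i le_rfl hlt.le
    rw [Nat.sub_self, h.ep_it 0 (Nat.zero_le _)] at h1
    exact h.disj 0 (Nat.zero_le _) i hlt.le h1
  · have h1 := hb nm hge le_rfl
    rcases Nat.lt_or_ge np (i - nm) with h2 | h2
    · obtain ⟨j, hj⟩ : ∃ j, i - nm = np + j := ⟨i - nm - np, by omega⟩
      rw [hj, pvyn_mid h] at h1
      exact h.min j (by omega) h1
    · rw [h.ep_it _ h2] at h1
      exact h.disj _ h2 nm le_rfl h1

/-- **no repeated position** up to the time `np + N + nm` -/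
theorem pvyn_no_rep (h : PvynSt T s dp dm np nm N ep em) {i j : ℕ} (hij : i < j) (hj : j ≤ np + N + nm) : pvasIt T s dp i ≠ pvasIt T s dp j := by
  intro e
  have e1 : pvasIt T s dp (i + (np + N + nm - j)) = pvasIt T s dp (j + (np + N + nm - j)) := by rw [pvas_it_add, pvas_it_add, e]
  rw [show j + (np + N + nm - j) = np + N + nm by omega, pvyn_last h] at e1
  exact pvyn_first h _ (by omega) e1

/-- **a new position is not a position of a stub** -/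
theorem pvyn_not_stub (h : PvynSt T s dp dm np nm N ep em) {j : ℕ} (h0 : 0 < j) (hj : j < N) :
    (∀ k, k ≤ np → pvasIt T s (ep np) j ≠ ep k) ∧ ∀ k, k ≤ nm → pvasIt T s (ep np) j ≠ em k := by
  constructor
  · intro k hk e
    rw [← pvyn_mid h, ← h.ep_it k hk] at e
    exact pvyn_no_rep h (i := k) (j := np + j) (by omega) (by omega) e.symm
  · intro k hk e
    have e2 := pvyn_tail h (nm - k) (Nat.sub_le _ _)
    rw [show nm - (nm - k) = k by omega] at e2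
    rw [← pvyn_mid h, ← e2] at e
    exact pvyn_no_rep h (i := np + j) (j := np + N + (nm - k)) (by omega) (by omega) e

/-- the positions of the stubs are pairwise distinct -/
theorem pvyn_ep_inj (h : PvynSt T s dp dm np nm N ep em) {i j : ℕ} (hij : i < j) (hj : j ≤ np) : ep i ≠ ep j := by
  rw [← h.ep_it i (by omega), ← h.ep_it j hj]
  exact pvyn_no_rep h hij (by omega)

/-! ## 4. on the datum -/

variable {K : Set V} {𝔇 : PvwDat T}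

/-- the banks of the exit stub of `t` and of the entrance stub of `s` are frozen by `D_Y` -/
theorem pvyn_bank_fz : (∀ i, i ≤ 𝔇.t.np → T.src (𝔇.t.ep i) ∈ 𝔇.fzY ∧ T.tgt (𝔇.t.ep i) ∈ 𝔇.fzY) ∧ ∀ i, i ≤ 𝔇.s.nm → T.src (𝔇.s.em i) ∈ 𝔇.fzY ∧ T.tgt (𝔇.s.em i) ∈ 𝔇.fzY :=
  ⟨fun i hi => ⟨Or.inl (Or.inl (Or.inr ⟨i, hi, rfl⟩)), Or.inl (Or.inr ⟨i, hi, rfl⟩)⟩, fun i hi => ⟨Or.inr (Or.inl (Or.inr ⟨i, hi, rfl⟩)), Or.inr (Or.inr ⟨i, hi, rfl⟩)⟩⟩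

/-- **the HALF stubs of the cylinder are strands of the colouring** (only `D_Y` is read) -/
theorem pvyn_stub {pos : V → ℂ} {Bt Bs : Set ℂ} (ht : 𝔇.t.StubP pos Bt 𝔇.col) (hs : 𝔇.s.StubM pos Bs 𝔇.col) {σ : V → Bool} (hσ : PvwAgree 𝔇.fzY σ 𝔇.col) :
    (∀ i, i ≤ 𝔇.t.np → pvasIt T σ 𝔇.t.dp i = 𝔇.t.ep i) ∧ (∀ i, i ≤ 𝔇.s.nm → (pvasBack T σ)^[i] 𝔇.s.dm = 𝔇.s.em i) := by
  constructor
  · intro i hi
    rw [ht.ep_it i hi]
    refine pvas_it_congr (T := T) (s := 𝔇.col) (s' := σ) (n := 𝔇.t.np) (fun v hv => ?_) i hi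
    rcases hv with ⟨k, hk, rfl⟩ | ⟨k, hk, rfl⟩
    · rw [← ht.ep_it k hk]; exact hσ _ (pvyn_bank_fz.1 k hk).1
    · rw [← ht.ep_it k hk]; exact hσ _ (pvyn_bank_fz.1 k hk).2
  · intro i
    induction i with
    | zero => intro _; rw [hs.em_it 0 (Nat.zero_le _)]; rfl
    | succ i ih =>
      intro hi
      have e1 : 𝔇.s.em (i + 1) = pvasBack T 𝔇.col (𝔇.s.em i) := by
        rw [hs.em_it (i + 1) hi, hs.em_it i (Nat.le_of_succ_le hi), Function.iterate_succ_apply']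
      rw [Function.iterate_succ_apply', ih (Nat.le_of_succ_le hi), e1]
      refine pvyc_back_congr ?_ ?_
      · rw [← e1]; exact hσ _ (pvyn_bank_fz.2 (i + 1) hi).1
      · rw [← e1]; exact hσ _ (pvyn_bank_fz.2 (i + 1) hi).2

/-- **the record `stub . run . stub` on the datum** -/
theorem pvyn_st {pos : V → ℂ} {Bt Bs : Set ℂ} (ht : 𝔇.t.StubP pos Bt 𝔇.col) (hs : 𝔇.s.StubM pos Bs 𝔇.col) (hbt : pvasBW T 𝔇.col 𝔇.t.dp) (hbs : pvasBW T 𝔇.col 𝔇.s.dm)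
    (hdisj : ∀ j, j ≤ 𝔇.t.np → ∀ k, k ≤ 𝔇.s.nm → 𝔇.t.ep j ≠ 𝔇.s.em k) {σ : V → Bool} (hσ : PvwAgree 𝔇.fzY σ 𝔇.col) (h : 𝔇.SY2 K σ) :
    PvynSt T σ 𝔇.t.dp 𝔇.s.dm 𝔇.t.np 𝔇.s.nm (pvasHit T σ 𝔇.a0 {𝔇.a1}) 𝔇.t.ep 𝔇.s.em := by
  obtain ⟨s1, s2⟩ := pvyn_stub ht hs hσ
  obtain ⟨-, r2, -⟩ := pvld_run_hit h
  have e0 : 𝔇.t.ep 0 = 𝔇.t.dp := ht.ep_it 0 (Nat.zero_le _)
  have e1 : 𝔇.s.em 0 = 𝔇.s.dm := hs.em_it 0 (Nat.zero_le _)
  have f0 := pvyn_bank_fz (𝔇 := 𝔇).1 0 (Nat.zero_le _)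
  have f1 := pvyn_bank_fz (𝔇 := 𝔇).2 0 (Nat.zero_le _)
  rw [e0] at f0
  rw [e1] at f1
  exact ⟨⟨by rw [hσ _ f0.1]; exact hbt.1, by rw [hσ _ f0.2]; exact hbt.2⟩, ⟨by rw [hσ _ f1.1]; exact hbs.1, by rw [hσ _ f1.2]; exact hbs.2⟩, s1, s2, r2,
    fun i hi => pvas_hit_min (Z := {𝔇.a1}) hi, hdisj⟩

/-- **`SYn` of `Tr/Defs` v2 from a run in `K`, `NF` on the run as a hypothesis** -/
theorem pvyn_SYn_of_nf {pos : V → ℂ} {Bt Bs : Set ℂ} (ht : 𝔇.t.StubP pos Bt 𝔇.col) (hs : 𝔇.s.StubM pos Bs 𝔇.col) (hbt : pvasBW T 𝔇.col 𝔇.t.dp) (hbs : pvasBW T 𝔇.col 𝔇.s.dm)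
    {π : PvwPat} (hKπ : ∀ v ∈ K, pos v ∈ π.Yin) (hdisj : ∀ j, j ≤ 𝔇.t.np → ∀ k, k ≤ 𝔇.s.nm → 𝔇.t.ep j ≠ 𝔇.s.em k)
    {σ : V → Bool} (hσ : PvwAgree 𝔇.fzY σ 𝔇.col) (h : 𝔇.SY2 K σ)
    (hNF : ∀ i, 0 < i → i < pvasHit T σ 𝔇.a0 {𝔇.a1} → T.src (pvasIt T σ 𝔇.a0 i) ∉ 𝔇.fzY ∨ T.tgt (pvasIt T σ 𝔇.a0 i) ∉ 𝔇.fzY) : 𝔇.SYn pos π σ (𝔇.nY σ) := by
  have st := pvyn_st ht hs hbt hbs hdisj hσ h
  obtain ⟨-, -, r3⟩ := pvld_run_hit h
  refine ⟨?_, pvyn_last st, pvyn_first st, ?_⟩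
  · unfold PvwDat.nY; omega
  · intro i h1 h2
    unfold PvwDat.nY at h2
    obtain ⟨j, rfl⟩ : ∃ j, i = 𝔇.t.np + (j + 1) := ⟨i - 𝔇.t.np - 1, by omega⟩
    rw [pvyn_mid st]
    have hc := pvyn_run_comp (T := T) (s := σ) (a₀ := 𝔇.a0) (Fz := 𝔇.fzY) (K := K) r3 (pvyn_bank_fz.1 _ le_rfl) hNF j (by omega)
    have hsub : pvwComp T (K \ 𝔇.fzY) (T.apex 𝔇.a0) ⊆ 𝔇.YCL pos π := fun v hv =>
      Or.inl (pvyn_comp_mono (X' := 𝔇.Yraw pos π) (fun x hx => ⟨hx.2, hKπ x hx.1⟩) _ hv)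
    exact ⟨hc.1.elim (fun h => Or.inr h) (fun h => Or.inl (hsub h)), hc.2.elim (fun h => Or.inr h) (fun h => Or.inl (hsub h)),
      hKπ _ (r3 ⟨_, ⟨j + 1, by omega, T.sf_refl _⟩, rfl⟩), hKπ _ (r3 ⟨_, ⟨j + 1, by omega, T.sf_nxt _⟩, rfl⟩)⟩

/-- **NFD**: every edge black -> white for the prescribed colours, with both ends frozen by `D_Y` and its two faces in `K`, is a position of one of the two stubs -/
def PvwDat.NFD (𝔇 : PvwDat T) (K : Set V) : Prop :=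
  ∀ d, T.src d ∈ 𝔇.fzY → T.tgt d ∈ 𝔇.fzY → T.src d ∈ K → T.tgt d ∈ K → T.apex d ∈ K → T.apex (T.opp d) ∈ K → 𝔇.col (T.src d) = true → 𝔇.col (T.tgt d) = false →
    (∃ j, j ≤ 𝔇.t.np ∧ d = 𝔇.t.ep j) ∨ ∃ k, k ≤ 𝔇.s.nm ∧ d = 𝔇.s.em k

/-- **DISJ**: the two stubs have no common position -/
def PvwDat.DISJ (𝔇 : PvwDat T) : Prop := ∀ j, j ≤ 𝔇.t.np → ∀ k, k ≤ 𝔇.s.nm → 𝔇.t.ep j ≠ 𝔇.s.em k

theorem pvyn_eqns_cite : True := by
  have := @PvwDat.NFD.eq_1; have := @PvwDat.DISJ.eq_1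
  trivial

/-- the face behind a position `i + 1` of a strand is the face crossed by the step number `i` -/
theorem pvyn_behind (s : V → Bool) (d : D) : T.apex (T.opp (pvasStep T s d)) = T.src d ∨ T.apex (T.opp (pvasStep T s d)) = T.tgt d := by
  rcases pvas_step_cases s d with ⟨-, e⟩ | ⟨-, e⟩
  · left; rw [e, T.opp_opp, T.apex_nxt]
  · right; rw [e, T.opp_opp, T.apex_nxt2]

/-- **NF on the run from NFD** -/
theorem pvyn_nf {pos : V → ℂ} {Bt Bs : Set ℂ} (ht : 𝔇.t.StubP pos Bt 𝔇.col) (hs : 𝔇.s.StubM pos Bs 𝔇.col) (hbt : pvasBW T 𝔇.col 𝔇.t.dp) (hbs : pvasBW T 𝔇.col 𝔇.s.dm)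
    (hdisj : 𝔇.DISJ) (hnfd : 𝔇.NFD K) {σ : V → Bool} (hσ : PvwAgree 𝔇.fzY σ 𝔇.col) (h : 𝔇.SY2 K σ) :
    ∀ i, 0 < i → i < pvasHit T σ 𝔇.a0 {𝔇.a1} → T.src (pvasIt T σ 𝔇.a0 i) ∉ 𝔇.fzY ∨ T.tgt (pvasIt T σ 𝔇.a0 i) ∉ 𝔇.fzY := by
  have st := pvyn_st ht hs hbt hbs hdisj hσ h
  obtain ⟨-, -, r3⟩ := pvld_run_hit h
  intro i h0 hi
  by_contra hcon
  push Not at hcon
  obtain ⟨c1, c2⟩ := hcon
  have hbw : pvasBW T σ (pvasIt T σ 𝔇.a0 i) := by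
    have := pvas_it_bw st.bw (𝔇.t.np + i)
    rwa [pvyn_mid st] at this
  have k1 : T.src (pvasIt T σ 𝔇.a0 i) ∈ K := r3 ⟨_, ⟨i, hi, T.sf_refl _⟩, rfl⟩
  have k2 : T.tgt (pvasIt T σ 𝔇.a0 i) ∈ K := r3 ⟨_, ⟨i, hi, T.sf_nxt _⟩, rfl⟩
  have k3 : T.apex (pvasIt T σ 𝔇.a0 i) ∈ K := r3 ⟨_, ⟨i, hi, T.sf_nxt2 _⟩, rfl⟩
  have k4 : T.apex (T.opp (pvasIt T σ 𝔇.a0 i)) ∈ K := by
    obtain ⟨j, rfl⟩ : ∃ j, i = j + 1 := ⟨i - 1, by omega⟩
    rw [pvas_it_succ]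
    rcases pvyn_behind σ (pvasIt T σ 𝔇.a0 j) with e | e
    · rw [e]; exact r3 ⟨_, ⟨j, by omega, T.sf_refl _⟩, rfl⟩
    · rw [e]; exact r3 ⟨_, ⟨j, by omega, T.sf_nxt _⟩, rfl⟩
  have b1 : 𝔇.col (T.src (pvasIt T σ 𝔇.a0 i)) = true := by rw [← hσ _ c1]; exact hbw.1
  have b2 : 𝔇.col (T.tgt (pvasIt T σ 𝔇.a0 i)) = false := by rw [← hσ _ c2]; exact hbw.2
  obtain ⟨n1, n2⟩ := pvyn_not_stub st h0 hi
  rcases hnfd _ c1 c2 k1 k2 k3 k4 b1 b2 with ⟨j, hj, e⟩ | ⟨k, hk, e⟩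
  · exact n1 j hj e
  · exact n2 k hk e

/-- **THE BRIDGE**: a run in `K` gives `SYn` of `Tr/Defs` v2 (first hit, ends of the new positions in `YCL ∪ fzY`) -/
theorem pvyn_SYn {pos : V → ℂ} {Bt Bs : Set ℂ} (ht : 𝔇.t.StubP pos Bt 𝔇.col) (hs : 𝔇.s.StubM pos Bs 𝔇.col) (hbt : pvasBW T 𝔇.col 𝔇.t.dp) (hbs : pvasBW T 𝔇.col 𝔇.s.dm)
    {π : PvwPat} (hKπ : ∀ v ∈ K, pos v ∈ π.Yin) (hdisj : 𝔇.DISJ) (hnfd : 𝔇.NFD K) {σ : V → Bool} (hσ : PvwAgree 𝔇.fzY σ 𝔇.col) (h : 𝔇.SY2 K σ) : 𝔇.SYn pos π σ (𝔇.nY σ) :=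
  pvyn_SYn_of_nf ht hs hbt hbs hKπ hdisj hσ h (pvyn_nf ht hs hbt hbs hdisj hnfd hσ h)

theorem pvyn_SY {pos : V → ℂ} {Bt Bs : Set ℂ} (ht : 𝔇.t.StubP pos Bt 𝔇.col) (hs : 𝔇.s.StubM pos Bs 𝔇.col) (hbt : pvasBW T 𝔇.col 𝔇.t.dp) (hbs : pvasBW T 𝔇.col 𝔇.s.dm)
    {π : PvwPat} (hKπ : ∀ v ∈ K, pos v ∈ π.Yin) (hdisj : 𝔇.DISJ) (hnfd : 𝔇.NFD K) {σ : V → Bool} (hσ : PvwAgree 𝔇.fzY σ 𝔇.col) (h : 𝔇.SY2 K σ) : 𝔇.SY pos π σ :=
  ⟨_, pvyn_SYn ht hs hbt hbs hKπ hdisj hnfd hσ h⟩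

theorem pvyn_YArc {pos : V → ℂ} {Bt Bs : Set ℂ} (ht : 𝔇.t.StubP pos Bt 𝔇.col) (hs : 𝔇.s.StubM pos Bs 𝔇.col) (hbt : pvasBW T 𝔇.col 𝔇.t.dp) (hbs : pvasBW T 𝔇.col 𝔇.s.dm)
    {π : PvwPat} (hKπ : ∀ v ∈ K, pos v ∈ π.Yin) (hdisj : 𝔇.DISJ) (hnfd : 𝔇.NFD K) {σ : V → Bool} (hσ : PvwAgree 𝔇.fzY σ 𝔇.col) {y : T.Pth} (h : 𝔇.YArc2 K σ y) : 𝔇.YArc pos π σ y :=
  ⟨_, pvyn_SYn ht hs hbt hbs hKπ hdisj hnfd hσ h.1, h.2⟩

/-- the time of `SYn` is unique (first hit) -/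
theorem pvyn_SYn_unique {pos : V → ℂ} {π : PvwPat} {σ : V → Bool} {n n' : ℕ} (h : 𝔇.SYn pos π σ n) (h' : 𝔇.SYn pos π σ n') : n = n' := by
  rcases Nat.lt_trichotomy n n' with hlt | he | hgt
  · exact absurd h.2.1 (h'.2.2.1 n hlt)
  · exact he
  · exact absurd h'.2.1 (h.2.2.1 n' hgt)

/-! ## 5. `NFD` from the tip potentials -/

/-- an edge black -> white, off the slit, in the mouth, whose ends lie in different classes of the tip potential is a POSITION of the strand -/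
theorem pvyn_pos_of_pot {c : V → Bool} {d : D} {n : ℕ} {M : Set D} {χ : D → ZMod 2} {u : V → ZMod 2} (hd : pvasBW T c d) (h : PvtzPot T c d n M χ u) {x : D} (hx : x ∈ M ∨ T.opp x ∈ M)
    (hχ : χ x = 0) (hu : u (T.src x) ≠ u (T.tgt x)) (hb : c (T.src x) = true) : ∃ k, k ≤ n ∧ x = pvasIt T c d k := by
  have h1 := h x hx
  rw [hχ, add_zero] at h1
  have h2 : pvtzX T c d n x ≠ 0 := by
    intro h0
    rw [h0] at h1
    exact hu (pvtz_z2_eq h1)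
  obtain ⟨k, hk, e | e⟩ := pvtz_X_ne h2
  · exact ⟨k, hk, e⟩
  · exfalso
    rw [e, T.src_opp', (pvas_it_bw hd k).2] at hb
    exact Bool.false_ne_true hb

/-- class <-> colour on two explored sites of different colours -/
theorem pvyn_cls_ne {c : V → Bool} {u : V → ZMod 2} {ub : ZMod 2} {β : Bool} {a b : V} (ha : u a = ub ↔ c a = β) (hb : u b = ub ↔ c b = β) (hab : c a ≠ c b) : u a ≠ u b := by
  intro e
  apply hab
  by_cases h : u a = ub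
  · rw [ha.1 h, hb.1 (e ▸ h)]
  · have h1 : c a ≠ β := fun hh => h (ha.2 hh)
    have h2 : c b ≠ β := fun hh => h (e ▸ hb.2 hh)
    revert h1 h2
    cases c a <;> cases c b <;> cases β <;> simp

/-- the entrance stub read FORWARDS from its tip position -/
theorem pvyn_em_fwd {pos : V → ℂ} {Bs : Set ℂ} {𝔖 : PvwSt T} {c : V → Bool} (hs : 𝔖.StubM pos Bs c) (hbs : pvasBW T c 𝔖.dm) : ∀ i, i ≤ 𝔖.nm → pvasIt T c (𝔖.em 𝔖.nm) i = 𝔖.em (𝔖.nm - i) := by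
  have hbw : ∀ k, k ≤ 𝔖.nm → pvasBW T c (𝔖.em k) := by
    intro k
    induction k with
    | zero => intro _; rw [hs.em_it 0 (Nat.zero_le _)]; exact hbs
    | succ k ih =>
      intro hk
      rw [hs.em_it (k + 1) hk, Function.iterate_succ_apply', ← hs.em_it k (Nat.le_of_succ_le hk)]
      exact pvas_back_bw (ih (Nat.le_of_succ_le hk))
  intro i
  induction i with
  | zero => intro _; rfl
  | succ i ih =>
    intro hi
    have e1 : 𝔖.nm - i = (𝔖.nm - (i + 1)) + 1 := by omega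
    rw [pvas_it_succ, ih (Nat.le_of_succ_le hi), e1, hs.em_it _ (by omega), Function.iterate_succ_apply', ← hs.em_it _ (by omega)]
    exact pvas_step_back (hbw _ (by omega))

/-- the tip position of the entrance stub is a position of the prescribed colouring -/
theorem pvyn_em_tip_bw {pos : V → ℂ} {Bs : Set ℂ} {𝔖 : PvwSt T} {c : V → Bool} (hs : 𝔖.StubM pos Bs c) (hbs : pvasBW T c 𝔖.dm) : pvasBW T c (𝔖.em 𝔖.nm) := by
  have hbw : ∀ k, k ≤ 𝔖.nm → pvasBW T c (𝔖.em k) := by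
    intro k
    induction k with
    | zero => intro _; rw [hs.em_it 0 (Nat.zero_le _)]; exact hbs
    | succ k ih =>
      intro hk
      rw [hs.em_it (k + 1) hk, Function.iterate_succ_apply', ← hs.em_it k (Nat.le_of_succ_le hk)]
      exact pvas_back_bw (ih (Nat.le_of_succ_le hk))
  exact hbw _ le_rfl

/-- **PRODUCER OF `NFD`**.   `Mt`, `Ms` = the faces of the two mouths, `ut`, `us` = the tip potentials of the exit stub of `t` (strand from `t.dp`, `t.np` steps) and of the entrance stub of `s`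
(strand from its tip position `s.em s.nm`, `s.nm` steps), class <-> colour on the explored sites of each mouth (`hcls` of 165), and the SPLITTING: a frozen-frozen edge of `K` lies in one of the two mouths, off its slit,
with both ends explored by the stub of that mouth. -/
theorem pvyn_nfd_of_pot {pos : V → ℂ} {Bt Bs : Set ℂ} (ht : 𝔇.t.StubP pos Bt 𝔇.col) (hs : 𝔇.s.StubM pos Bs 𝔇.col) (hbt : pvasBW T 𝔇.col 𝔇.t.dp) (hbs : pvasBW T 𝔇.col 𝔇.s.dm)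
    {Mt Ms : Set D} {χt χs : D → ZMod 2} {ut us : V → ZMod 2} {bt bs : ZMod 2} {βt βs : Bool}
    (pt : PvtzPot T 𝔇.col 𝔇.t.dp 𝔇.t.np Mt χt ut) (ps : PvtzPot T 𝔇.col (𝔇.s.em 𝔇.s.nm) 𝔇.s.nm Ms χs us)
    (ct : ∀ v ∈ pvtzEx T 𝔇.col 𝔇.t.dp 𝔇.t.np, v ∈ T.VOf Mt → (ut v = bt ↔ 𝔇.col v = βt))
    (cs : ∀ v ∈ pvtzEx T 𝔇.col (𝔇.s.em 𝔇.s.nm) 𝔇.s.nm, v ∈ T.VOf Ms → (us v = bs ↔ 𝔇.col v = βs))
    (hMt : T.FaceSet Mt) (hMs : T.FaceSet Ms)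
    (hsplit : ∀ d, T.src d ∈ 𝔇.fzY → T.tgt d ∈ 𝔇.fzY → T.src d ∈ K → T.tgt d ∈ K → T.apex d ∈ K → T.apex (T.opp d) ∈ K →
      (d ∈ Mt ∧ χt d = 0 ∧ T.src d ∈ pvtzEx T 𝔇.col 𝔇.t.dp 𝔇.t.np ∧ T.tgt d ∈ pvtzEx T 𝔇.col 𝔇.t.dp 𝔇.t.np) ∨
        (d ∈ Ms ∧ χs d = 0 ∧ T.src d ∈ pvtzEx T 𝔇.col (𝔇.s.em 𝔇.s.nm) 𝔇.s.nm ∧ T.tgt d ∈ pvtzEx T 𝔇.col (𝔇.s.em 𝔇.s.nm) 𝔇.s.nm)) : 𝔇.NFD K := by
  intro d f1 f2 k1 k2 k3 k4 b1 b2
  have hne : 𝔇.col (T.src d) ≠ 𝔇.col (T.tgt d) := by rw [b1, b2]; exact Bool.false_ne_true.symm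
  rcases hsplit d f1 f2 k1 k2 k3 k4 with ⟨m, x0, e1, e2⟩ | ⟨m, x0, e1, e2⟩
  · left
    have hu := pvyn_cls_ne (ct _ e1 ⟨d, m, rfl⟩) (ct _ e2 ⟨T.nxt d, (hMt d).2 m, rfl⟩) hne
    obtain ⟨k, hk, e⟩ := pvyn_pos_of_pot hbt pt (Or.inl m) x0 hu b1
    exact ⟨k, hk, by rw [e, ht.ep_it k hk]⟩
  · right
    have hu := pvyn_cls_ne (cs _ e1 ⟨d, m, rfl⟩) (cs _ e2 ⟨T.nxt d, (hMs d).2 m, rfl⟩) hne
    obtain ⟨k, hk, e⟩ := pvyn_pos_of_pot (pvyn_em_tip_bw hs hbs) ps (Or.inl m) x0 hu b1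
    exact ⟨𝔇.s.nm - k, Nat.sub_le _ _, by rw [e, pvyn_em_fwd hs hbs k hk]⟩

/-- **PRODUCER OF `DISJ`**: some end of every position of the exit stub of `t` is not an end of a position of the entrance stub of `s` (e.g. the two boxes, or the two frozen sets off the cores, are disjoint) -/
theorem pvyn_disj_of_sep {P : V → Prop} (h1 : ∀ j, j ≤ 𝔇.t.np → P (T.src (𝔇.t.ep j)) ∨ P (T.tgt (𝔇.t.ep j))) (h2 : ∀ k, k ≤ 𝔇.s.nm → ¬ P (T.src (𝔇.s.em k)) ∧ ¬ P (T.tgt (𝔇.s.em k))) : 𝔇.DISJ := by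
  intro j hj k hk e
  rcases h1 j hj with h | h
  · rw [e] at h; exact (h2 k hk).1 h
  · rw [e] at h; exact (h2 k hk).2 h

/-- the entrance stub read forwards from any of its positions -/
theorem pvyn_em_fwd_from {pos : V → ℂ} {Bs : Set ℂ} {𝔖 : PvwSt T} {c : V → Bool} (hs : 𝔖.StubM pos Bs c) (hbs : pvasBW T c 𝔖.dm) {k : ℕ} (hk : k ≤ 𝔖.nm) :
    ∀ i, i ≤ k → pvasIt T c (𝔖.em k) i = 𝔖.em (k - i) := by
  intro i hi
  have h1 := pvyn_em_fwd hs hbs (𝔖.nm - k + i) (by omega)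
  rw [pvas_it_add, pvyn_em_fwd hs hbs (𝔖.nm - k) (Nat.sub_le _ _), show 𝔖.nm - (𝔖.nm - k) = k by omega] at h1
  rw [h1]
  congr 1
  omega

/-- **PRODUCER OF `DISJ`, tip form**: the tip position of `Σ⁺(t)` is not a position of `Σ⁻(s)` and the entry gate edge of `s` is not a position of `Σ⁺(t)` -/
theorem pvyn_disj_of_tip {pos : V → ℂ} {Bt Bs : Set ℂ} (ht : 𝔇.t.StubP pos Bt 𝔇.col) (hs : 𝔇.s.StubM pos Bs 𝔇.col) (hbs : pvasBW T 𝔇.col 𝔇.s.dm)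
    (h1 : ∀ k, k ≤ 𝔇.s.nm → 𝔇.t.ep 𝔇.t.np ≠ 𝔇.s.em k) (h2 : ∀ j, j ≤ 𝔇.t.np → 𝔇.t.ep j ≠ 𝔇.s.dm) : 𝔇.DISJ := by
  intro j hj k hk e
  have hf : ∀ i, j + i ≤ 𝔇.t.np → pvasIt T 𝔇.col (𝔇.t.ep j) i = 𝔇.t.ep (j + i) := by
    intro i hi
    rw [ht.ep_it j hj, ← pvas_it_add, ← ht.ep_it _ hi]
  rcases Nat.lt_or_ge k (𝔇.t.np - j) with hlt | hge
  · have a := hf k (by omega)
    rw [e, pvyn_em_fwd_from hs hbs hk k le_rfl, Nat.sub_self, hs.em_it 0 (Nat.zero_le _)] at a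
    exact h2 _ (by omega) a.symm
  · have a := hf (𝔇.t.np - j) (by omega)
    rw [e, pvyn_em_fwd_from hs hbs hk _ hge, show j + (𝔇.t.np - j) = 𝔇.t.np by omega] at a
    exact h1 _ (by omega) a.symm

/-! ## 6. the junction with the engine: the position form -/

/-- **from the POSITION form to a run**: the strand from `t.dp` hits `s.dm` for the first time after `n ≥ np + nm` steps and its new positions lie over `Yin` (as do the two tip positions):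
then it is a run in `K := {v | pos v ∈ Yin}` and `nY σ = n` -/
theorem pvyn_SY2_of_pos {pos : V → ℂ} {Bt Bs : Set ℂ} (ht : 𝔇.t.StubP pos Bt 𝔇.col) (hs : 𝔇.s.StubM pos Bs 𝔇.col) (hbt : pvasBW T 𝔇.col 𝔇.t.dp) (hdisj : 𝔇.DISJ) {Yin : Set ℂ}
    (h0 : pos (T.src 𝔇.a0) ∈ Yin ∧ pos (T.tgt 𝔇.a0) ∈ Yin) (h1 : pos (T.src 𝔇.a1) ∈ Yin ∧ pos (T.tgt 𝔇.a1) ∈ Yin) {σ : V → Bool} (hσ : PvwAgree 𝔇.fzY σ 𝔇.col) {n : ℕ}
    (hn : 𝔇.t.np + 𝔇.s.nm ≤ n) (hl : pvasIt T σ 𝔇.t.dp n = 𝔇.s.dm) (hf : ∀ i, i < n → pvasIt T σ 𝔇.t.dp i ≠ 𝔇.s.dm)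
    (hp : ∀ i, 𝔇.t.np < i → i + 𝔇.s.nm < n → pos (T.src (pvasIt T σ 𝔇.t.dp i)) ∈ Yin ∧ pos (T.tgt (pvasIt T σ 𝔇.t.dp i)) ∈ Yin) :
    𝔇.SY2 {v | pos v ∈ Yin} σ ∧ 𝔇.nY σ = n := by
  obtain ⟨s1, s2⟩ := pvyn_stub ht hs hσ
  have e0 : 𝔇.t.ep 0 = 𝔇.t.dp := ht.ep_it 0 (Nat.zero_le _)
  have f0 := pvyn_bank_fz (𝔇 := 𝔇).1 0 (Nat.zero_le _)
  rw [e0] at f0
  have hbw : pvasBW T σ 𝔇.t.dp := ⟨by rw [hσ _ f0.1]; exact hbt.1, by rw [hσ _ f0.2]; exact hbt.2⟩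
  obtain ⟨N, rfl⟩ : ∃ N, n = 𝔇.t.np + N + 𝔇.s.nm := ⟨n - 𝔇.t.np - 𝔇.s.nm, by omega⟩
  have mid : ∀ i, pvasIt T σ 𝔇.t.dp (𝔇.t.np + i) = pvasIt T σ 𝔇.a0 i := by
    intro i
    rw [pvas_it_add, s1 _ le_rfl]
    rfl
  have run : pvasIt T σ 𝔇.a0 N = 𝔇.a1 := by
    have h2 := pvyn_back hbw (𝔇.t.np + N + 𝔇.s.nm) 𝔇.s.nm (Nat.le_add_left _ _)
    rw [hl, s2 _ le_rfl, Nat.add_sub_cancel, mid] at h2
    exact h2.symm
  have hN : 1 ≤ N := by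
    rcases Nat.eq_zero_or_pos N with rfl | h
    · exact absurd run (hdisj _ le_rfl _ le_rfl)
    · exact h
  have hmin : ∀ i, i < N → pvasIt T σ 𝔇.a0 i ≠ 𝔇.a1 := by
    intro i hi e
    have e1 : pvasIt T σ 𝔇.t.dp (𝔇.t.np + i + 𝔇.s.nm) = pvasIt T σ 𝔇.t.dp (𝔇.t.np + N + 𝔇.s.nm) := by
      rw [pvas_it_add, pvas_it_add _ _ (𝔇.t.np + N), mid, mid, e, run]
    rw [hl] at e1
    exact hf _ (by omega) e1
  have hP : ∀ j, j ≤ N → pos (T.src (pvasIt T σ 𝔇.a0 j)) ∈ Yin ∧ pos (T.tgt (pvasIt T σ 𝔇.a0 j)) ∈ Yin := by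
    intro j hj
    rcases Nat.eq_zero_or_pos j with rfl | hj0
    · exact h0
    · rcases Nat.lt_or_ge j N with hlt | hge
      · rw [← mid]
        exact hp _ (by omega) (by omega)
      · have : j = N := le_antisymm hj hge
        rw [this, run]
        exact h1
  have hA : ∀ j, j < N → pos (T.apex (pvasIt T σ 𝔇.a0 j)) ∈ Yin := by
    intro j hj
    have h2 := hP (j + 1) hj
    rw [pvas_it_succ] at h2
    rcases pvas_step_ends σ (pvasIt T σ 𝔇.a0 j) with ⟨-, e1, -⟩ | ⟨-, -, e2⟩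
    · rw [← e1]; exact h2.1
    · rw [← e2]; exact h2.2
  have hK : T.VOf (pvasFc T σ 𝔇.a0 N) ⊆ {v | pos v ∈ Yin} := by
    rintro v ⟨f, ⟨i, hi, hsf⟩, rfl⟩
    rcases hsf with rfl | rfl | rfl
    · exact (hP i hi.le).1
    · exact (hP i hi.le).2
    · exact hA i hi
  refine ⟨⟨N, hN, run, hmin, hK⟩, ?_⟩
  unfold PvwDat.nY
  rw [pvas_hit_eq (Z := {𝔇.a1}) run hmin]

/-- **THE JUNCTION**: the position form (= `PvieLk.Run` of `Tr/InstE`, = what CHAIN produces) gives `SYn` of `Tr/Defs` -/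
theorem pvyn_SYn_of_pos {pos : V → ℂ} {Bt Bs : Set ℂ} (ht : 𝔇.t.StubP pos Bt 𝔇.col) (hs : 𝔇.s.StubM pos Bs 𝔇.col) (hbt : pvasBW T 𝔇.col 𝔇.t.dp) (hbs : pvasBW T 𝔇.col 𝔇.s.dm)
    {π : PvwPat} (hdisj : 𝔇.DISJ) (hnfd : 𝔇.NFD {v | pos v ∈ π.Yin})
    (h0 : pos (T.src 𝔇.a0) ∈ π.Yin ∧ pos (T.tgt 𝔇.a0) ∈ π.Yin) (h1 : pos (T.src 𝔇.a1) ∈ π.Yin ∧ pos (T.tgt 𝔇.a1) ∈ π.Yin) {σ : V → Bool} (hσ : PvwAgree 𝔇.fzY σ 𝔇.col) {n : ℕ}
    (hn : 𝔇.t.np + 𝔇.s.nm ≤ n) (hl : pvasIt T σ 𝔇.t.dp n = 𝔇.s.dm) (hf : ∀ i, i < n → pvasIt T σ 𝔇.t.dp i ≠ 𝔇.s.dm)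
    (hp : ∀ i, 𝔇.t.np < i → i + 𝔇.s.nm < n → pos (T.src (pvasIt T σ 𝔇.t.dp i)) ∈ π.Yin ∧ pos (T.tgt (pvasIt T σ 𝔇.t.dp i)) ∈ π.Yin) : 𝔇.SYn pos π σ n := by
  obtain ⟨h2, e⟩ := pvyn_SY2_of_pos ht hs hbt hdisj h0 h1 hσ hn hl hf hp
  rw [← e]
  exact pvyn_SYn ht hs hbt hbs (fun _ hv => hv) hdisj hnfd hσ h2

end Claimed.Agent.R289
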