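import Claimed.Agent.R289.Tr.HookG
import Claimed.Agent.R289.Tr.TipNf
import Claimed.Agent.R289.Tr.C12
import Claimed.Agent.R289.Tr.HookE
import Claimed.Agent.R289.Defs.FitReg
import Claimed.Agent.R289.Tr.RegK

/-!
# Row 289 (S0537), THE WALL, road E, HOOK-DET, file Tr/HookGL : THE GLUE OF `Tr/HookG` IN THE OTHER VOCABULARIES: LINKS OF `Tr/InstE`, `NFD` / `DISJ` OF `Tr/TipNf`, REGIONS OF RECORD OF `Defs/FitReg`      (helper90; prefix `pvhg_`, `Pvhg`, continued)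

* sec.1  `pvhg_pos_of_run` : run of 70 between the tips of two RECORDS (no datum, no pattern, NO tightness) ⟹ arrival at the entry gate edge, FIRST HIT, the three sites of the new faces in `K`;   `pvhg_le_strand` (a loop erasure exists)
* sec.2  `pvhg_nfd_of_tight`, `pvhg_disj_of_run`, **`pvhg_nfd`** : `Ok` + `PvhgGeo` ⟹ `𝔇.NFD K` (268)
* sec.3  **`pvhg_lk_run`, `pvhg_lk_arc`, `pvhg_lk_A`** : two states `PvieAt` + `PvldRun (pvieT η) (pvieCol η b) K (tip) (tip')`, `K` over `L.Yin` ⟹ `η ∈ L.A N b` (161): the last step of every producer of `PvheHookY` (35)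
* sec.4  PRODUCERS OF `PvhgGeo`:   `pvhg_geo_thin` (over `Yin` a frozen site lies in one of the two discs `2 ρ h` + cross clauses),   `pvhg_geo_far` (pins apart: ONE inequality pays `sep`, `gp`, the cross clauses),
         `pvhg_in_adm` (D20 = `PvfeIx.adm` of 209 read on `Yin`),   **`pvhg_geo_rec`** (regions of record `pvfeRegAt`, hulls cover the frozen sites = the two last clauses of `pvxFit` + `pvt_cells_cover`),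
         `pvhg_nfd_rec`, `pvhg_disj_far`,   **`pvhg_SYn_rec`, `pvhg_SYn_rec_pl`** = THE JUNCTION, ONE STOP: position form (`PvieLk.Run`; what CHAIN produces) ⟹ `𝔇.SYn` of `Tr/Defs` v3 at the regions of record.
* sec.5  **`pvhg_SYn_model`** = THE JUNCTION AT THE MODEL (`Defs/TrModel` v4): `π ∈ pvxPatSet` (boxes disjoint (b1), `PvfeIx` (b3)) + `Ok` + the two hull equalities of `pvxFit` + `reg m π = pvfeRegAt ..` + `PvhgNum` + `room` + mesh ⟹ [position form ⟹ `𝔇.SYn (pvxPos ω) (𝔓.reg m π) σ n`];   `pvhg_hull_cover`, `pvhg_rad_mono`.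
  "apart" = `3/2 r_k(t) + 3/2 r_k(s) + ρ h / 2 + ρ₁ h + 2 μ < |z_t - z_s|` (`√2 < 3/2`: (b1) of `pvxPatSet` pays it with the room `ρ h / 2 + ρ₁ h + 2 μ ≤ (r_K(s) + r_K(t)) / 2`).
  `PvhgNum` = the numbers (no site, no colour): `4 ρ ≤ ρ₁ ≤ 2 ρ₂`, `3 (ρ h / 4 + 2 μ) + 2 μ ≤ ρ₂ h`, `ρ₂ h + ρ h / 4 + 6 μ + b h ≤ r_k`.
-/

set_option autoImplicit false
set_option linter.unusedSectionVars false
set_option linter.unusedVariables false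

namespace Claimed.Agent.R289

open Relation Set Metric Claims.C0465

/-! ## 1. the position form, for two records (no datum, no pattern, no `YCL`) -/

section pos

variable {V D : Type} {T : PvMap V D} {𝔗 𝔖 : PvwSt T} {pos : V → ℂ} {Bt Bs : Set ℂ} {σ : V → Bool} {K : Set V} {N : ℕ}

/-- **POSITION FORM OF A RUN** (NO tightness): arrival at the entry gate edge of `𝔖`, FIRST HIT, the ends of the new positions in `K` -/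
theorem pvhg_pos_of_run (ht : 𝔗.StubP pos Bt σ) (hs : 𝔖.StubM pos Bs σ) (hbt : pvasBW T σ 𝔗.dp) (hbs : pvasBW T σ 𝔖.dm) (hgp : pos 𝔗.gp ∉ Bs) (hgK : 𝔗.gp ∉ K)
    (hN : pvasIt T σ (𝔗.ep 𝔗.np) N = 𝔖.em 𝔖.nm) (hK : T.VOf (pvasFc T σ (𝔗.ep 𝔗.np) N) ⊆ K) :
    pvasIt T σ 𝔗.dp (𝔗.np + N + 𝔖.nm) = 𝔖.dm ∧ (∀ i, i < 𝔗.np + N + 𝔖.nm → pvasIt T σ 𝔗.dp i ≠ 𝔖.dm) ∧
      ∀ i, 𝔗.np ≤ i → i + 𝔖.nm < 𝔗.np + N + 𝔖.nm → T.src (pvasIt T σ 𝔗.dp i) ∈ K ∧ T.tgt (pvasIt T σ 𝔗.dp i) ∈ K ∧ T.apex (pvasIt T σ 𝔗.dp i) ∈ K := by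
  let 𝔇 : PvwDat T := ⟨𝔖, 𝔗, PvMap.Pth.nil T 𝔗.gp 𝔗.dp, σ⟩
  obtain ⟨w1, w2, w3⟩ := pvhg_whole (𝔇 := 𝔇) ht hs hbs hN
  have hinj : ∀ i j, i ≤ 𝔗.np + N + 𝔖.nm → j ≤ 𝔗.np + N + 𝔖.nm → pvasIt T σ 𝔗.dp i = pvasIt T σ 𝔗.dp j → i = j := pvhg_inj (𝔇 := 𝔇) ht hs hbt hbs hgp hgK hN hK
  have hend : pvasIt T σ 𝔗.dp (𝔗.np + N + 𝔖.nm) = 𝔖.dm := by
    have := w3 _ le_rfl
    rw [Nat.sub_self, pvwk_em_zero hs] at this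
    exact this
  refine ⟨hend, fun i hi e => ?_, fun i hi1 hi2 => ?_⟩
  · have := hinj i _ hi.le le_rfl (e.trans hend.symm)
    omega
  · obtain ⟨k, rfl⟩ : ∃ k, i = 𝔗.np + k := ⟨i - 𝔗.np, by omega⟩
    have e := w2 k
    change pvasIt T σ 𝔗.dp (𝔗.np + k) = pvasIt T σ (𝔗.ep 𝔗.np) k at e
    rw [e]
    have hk : k < N := by omega
    refine ⟨hK ⟨_, ⟨k, hk, T.sf_refl _⟩, rfl⟩, ?_, ?_⟩
    · have := hK ⟨_, ⟨k, hk, T.sf_nxt _⟩, rfl⟩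
      rwa [T.src_nxt] at this
    · have := hK ⟨_, ⟨k, hk, T.sf_nxt2 _⟩, rfl⟩
      rwa [T.src_nxt2] at this

/-- the black bank walk of a strand has a loop erasure -/
theorem pvhg_le_strand (σ : V → Bool) (a : D) (n : ℕ) : ∃ y : T.Pth, PvwLE T (fun i => T.src (pvasIt T σ a i)) n y := by
  have : Nonempty D := ⟨a⟩
  refine pvwc_le_exists (T := T) (fun i => T.src (pvasIt T σ a i)) n fun i _ => ?_
  rcases pvas_layB_step σ a i with e | ⟨f, -, e1, e2⟩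
  · exact Or.inl e
  · exact Or.inr ⟨f, e1, e2⟩

end pos

/-! ## 2. bridges to `Tr/TipNf` (268) -/

section nf

variable {V D : Type} {T : PvMap V D} {𝔇 : PvwDat T} {K : Set V}

/-- `NFD` of 268 from tightness for the prescribed colours -/
theorem pvhg_nfd_of_tight (h : PvhgTight 𝔇 K 𝔇.col) : 𝔇.NFD K :=
  fun d h1 h2 k1 k2 _ _ c1 c2 => h d ⟨c1, c2⟩ k1 k2 h1 h2

/-- `DISJ` of 268 from one run -/
theorem pvhg_disj_of_run {pos : V → ℂ} {Bt Bs : Set ℂ} {σ : V → Bool} (ht : 𝔇.t.StubP pos Bt σ) (hs : 𝔇.s.StubM pos Bs σ) (hbt : pvasBW T σ 𝔇.t.dp) (hbs : pvasBW T σ 𝔇.s.dm)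
    (hgp : pos 𝔇.t.gp ∉ Bs) (hgK : 𝔇.t.gp ∉ K) (hrun : PvldRun T σ K (𝔇.t.ep 𝔇.t.np) (𝔇.s.em 𝔇.s.nm)) : 𝔇.DISJ := by
  obtain ⟨N, hN1, hN, -, hK⟩ := hrun
  obtain ⟨w1, w2, w3⟩ := pvhg_whole ht hs hbs hN
  have hinj := pvhg_inj ht hs hbt hbs hgp hgK hN hK
  intro j hj k hk e
  have e' := w3 (𝔇.s.nm - k) (Nat.sub_le _ _)
  rw [Nat.sub_sub_self hk, ← e, ← w1 j hj] at e'
  have := hinj _ _ (by omega) (by omega) e'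
  omega

end nf

section nfdel

variable {Y : Set ℂ} {h : DelGood Y} {𝔇 : PvwDat (delMap h)} {N : PvwNum} {hh : ℝ} {π : PvwPat} {K : Set Y} {r r₁ ρ : ℝ}

/-- **`NFD` on the datum of record** -/
theorem pvhg_nfd (hOk : 𝔇.Ok (dlsPos Y) N hh π) (hG : PvhgGeo 𝔇 N hh π K r r₁ ρ) : 𝔇.NFD K :=
  pvhg_nfd_of_tight (pvhg_tight hOk hG fun _ _ => rfl)

end nfdel

/-! ## 3. the link of `Tr/InstE` -/

section lk

variable {L : PvieLk} {N : PvwNum} {b : Bool} {η : Conf PvPt} {𝔖 𝔖' : PvwSt (pvieT η)} {K : Set ↥(pvieY η)}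

/-- **`PvieLk.Run` FROM A RUN OF 70** -/
theorem pvhg_lk_run {Bt Bs : Set ℂ} (ht : 𝔖.StubP (pviePos η) Bt (pvieCol η b)) (hs : 𝔖'.StubM (pviePos η) Bs (pvieCol η b)) (hbt : pvasBW (pvieT η) (pvieCol η b) 𝔖.dp) (hbs : pvasBW (pvieT η) (pvieCol η b) 𝔖'.dm)
    (hgp : pviePos η 𝔖.gp ∉ Bs) (hgK : 𝔖.gp ∉ K) (hKY : ∀ v ∈ K, pviePos η v ∈ L.Yin)
    (hrun : PvldRun (pvieT η) (pvieCol η b) K (𝔖.ep 𝔖.np) (𝔖'.em 𝔖'.nm)) : ∃ n, L.Run b η 𝔖 𝔖' n := by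
  obtain ⟨M, -, hM, -, hK⟩ := hrun
  obtain ⟨a1, a2, a3⟩ := pvhg_pos_of_run ht hs hbt hbs hgp hgK hM hK
  exact ⟨𝔖.np + M + 𝔖'.nm, by omega, a1, a2, fun i h1 h2 => ⟨hKY _ (a3 i h1.le h2).1, hKY _ (a3 i h1.le h2).2.1⟩⟩

/-- **THE LINK SUCCEEDS**: two states of record + a run between the tips -/
theorem pvhg_lk_arc (hp : PvieAt N b L.p η 𝔖) (hp' : PvieAt N b L.p' η 𝔖')
    (hgp : pviePos η 𝔖.gp ∉ pvwSq L.p'.z (pvwRad N L.p'.h L.p'.ty L.p'.ty.k)) (hgK : 𝔖.gp ∉ K) (hKY : ∀ v ∈ K, pviePos η v ∈ L.Yin)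
    (hrun : PvldRun (pvieT η) (pvieCol η b) K (𝔖.ep 𝔖.np) (𝔖'.em 𝔖'.nm)) : ∃ y, L.Arc N b η 𝔖 𝔖' y := by
  obtain ⟨n, hn⟩ := pvhg_lk_run (L := L) hp.st.out.stub hp'.st.inn.stub hp.st.out.gate.bw_p hp'.st.inn.gate.bw_m hgp hgK hKY hrun
  obtain ⟨y, hy⟩ := pvhg_le_strand (T := pvieT η) (pvieCol η b) 𝔖.dp n
  exact ⟨y, hp, hp', n, hn, hy⟩

theorem pvhg_lk_A (hp : PvieAt N b L.p η 𝔖) (hp' : PvieAt N b L.p' η 𝔖')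
    (hgp : pviePos η 𝔖.gp ∉ pvwSq L.p'.z (pvwRad N L.p'.h L.p'.ty L.p'.ty.k)) (hgK : 𝔖.gp ∉ K) (hKY : ∀ v ∈ K, pviePos η v ∈ L.Yin)
    (hrun : PvldRun (pvieT η) (pvieCol η b) K (𝔖.ep 𝔖.np) (𝔖'.em 𝔖'.nm)) : η ∈ L.A N b := by
  obtain ⟨y, hy⟩ := pvhg_lk_arc hp hp' hgp hgK hKY hrun
  exact ⟨𝔖, 𝔖', y, hy⟩

end lk

/-! ## 4. `PvhgGeo` AT THE REGIONS OF RECORD (`Defs/FitReg`, 209) -/

section rec

/-- a point of a closed square is within `3/2` of the half side of the centre (`√2 < 3/2`) -/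
theorem pvhg_sq_le {w z : ℂ} {r : ℝ} (h : w ∈ pvwSq z r) : ‖w - z‖ ≤ 3 / 2 * r := by
  have hr : 0 ≤ r := (abs_nonneg _).trans h.1
  have h1 : ‖w - z‖ ^ 2 = (w - z).re ^ 2 + (w - z).im ^ 2 := by
    rw [Complex.sq_norm, Complex.normSq_apply]; ring
  have h2 : (w - z).re ^ 2 ≤ r ^ 2 := sq_le_sq' (by linarith [(abs_le.1 h.1).1]) (abs_le.1 h.1).2
  have h3 : (w - z).im ^ 2 ≤ r ^ 2 := sq_le_sq' (by linarith [(abs_le.1 h.2).1]) (abs_le.1 h.2).2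
  refine abs_le_of_sq_le_sq' ?_ (by positivity) |>.2
  nlinarith

variable {τ : Type} {Γ : PvtsGeo τ} {ty : τ → PvwTy} {cp cm : τ → Set ℂ} {N : PvwNum} {hh : ℝ} {p : PvtsPat τ} {Z : Set (ℤ × ℤ)}

/-- **D20 READ ON `Yin`**: a point of `Yin` of record which lies in a hull cell lies in one of the two discs of radius `2 ρ h` -/
theorem pvhg_in_adm (hρ : 0 ≤ N.rho * hh) (hIx : PvfeIx Γ ty N hh p Z) {w : ℂ} (hw : w ∈ (pvfeRegAt Γ ty cp cm N hh p).Yin) (hZ : w ∈ pvtU Γ.δ Z) :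
    ‖w - (ty p.tt).cp hh p.zt‖ ≤ 2 * N.rho * hh ∨ ‖w - (ty p.ts).cm hh p.zs‖ ≤ 2 * N.rho * hh := by
  rcases hw with (hw | hw) | hw
  · have h1 := pvfe_lanes_sub_tube (κ := 3) (by norm_num) (by norm_num) (by norm_num) _ _ _ hw
    rcases hIx.adm w h1 (pvt_U_mono pvt_N8_sub hZ) with h2 | h2
    · left; rwa [mem_closedBall, dist_eq_norm] at h2
    · right; rwa [mem_closedBall, dist_eq_norm] at h2
  · left
    rw [mem_closedBall, dist_eq_norm] at hw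
    linarith
  · right
    rw [mem_closedBall, dist_eq_norm] at hw
    linarith

/-- the numbers (NO site, NO colour) -/
structure PvhgNum (N : PvwNum) (hh μ : ℝ) (τt τs : PvwTy) : Prop where
  mu : 0 < μ
  hh0 : 0 < hh
  rho0 : 0 < N.rho
  r1 : 4 * N.rho ≤ N.rho1
  r2 : N.rho1 ≤ 2 * N.rho2
  rr : 3 * (N.rho * hh / 4 + 2 * μ) + 2 * μ ≤ N.rho2 * hh
  far_t : N.rho2 * hh + 4 * μ + (N.rho * hh / 4 + 2 * μ) + τt.b * hh ≤ pvwRad N hh τt τt.k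
  far_s : N.rho2 * hh + 4 * μ + (N.rho * hh / 4 + 2 * μ) + τs.b * hh ≤ pvwRad N hh τs τs.k

variable {Y : Set ℂ} {h : DelGood Y} {𝔇 : PvwDat (delMap h)} {K : Set Y} {μ : ℝ} {π : PvwPat}

/-- the frozen sites of an exit half state are within `3/2 r_k` of the centre -/
theorem pvhg_fzOut_le {𝔖 : PvwSt (delMap h)} {z : ℂ} {t : PvwTy} {s : Y → Bool} (ha : 𝔖.AtOut (dlsPos Y) N hh z t s) (hb : t.b * hh ≤ pvwRad N hh t t.k) (h0 : 0 ≤ pvwRad N hh t t.k)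
    {v : Y} (hv : v ∈ 𝔖.fzOut) : ‖(v : ℂ) - z‖ ≤ 3 / 2 * pvwRad N hh t t.k := by
  rcases hv with (hv | ⟨i, hi, rfl⟩) | ⟨i, hi, rfl⟩
  · have h1 : v ∈ 𝔖.dsc := hv
    rw [ha.gate.dsc_eq] at h1
    have h2 : ‖(v : ℂ) - z‖ < t.b * hh := h1
    linarith
  · exact pvhg_sq_le (ha.stub.ep_in i hi).1
  · exact pvhg_sq_le (ha.stub.ep_in i hi).2

theorem pvhg_fzIn_le {𝔖 : PvwSt (delMap h)} {z : ℂ} {t : PvwTy} {s : Y → Bool} (ha : 𝔖.AtIn (dlsPos Y) N hh z t s) (hb : t.b * hh ≤ pvwRad N hh t t.k) (h0 : 0 ≤ pvwRad N hh t t.k)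
    {v : Y} (hv : v ∈ 𝔖.fzIn) : ‖(v : ℂ) - z‖ ≤ 3 / 2 * pvwRad N hh t t.k := by
  rcases hv with (hv | ⟨i, hi, rfl⟩) | ⟨i, hi, rfl⟩
  · have h1 : v ∈ 𝔖.dsc := hv
    rw [ha.gate.dsc_eq] at h1
    have h2 : ‖(v : ℂ) - z‖ < t.b * hh := h1
    linarith
  · exact pvhg_sq_le (ha.stub.em_in i hi).1
  · exact pvhg_sq_le (ha.stub.em_in i hi).2

/-- **`PvhgGeo` FROM THIN CLAUSES** (any pattern): over `Yin` a frozen site lies in one of the two discs `2 ρ h`; the frozen sites of one half state miss the disc of the other -/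
theorem pvhg_geo_thin (hOk : 𝔇.Ok (dlsPos Y) N hh π) (hn : PvhgNum N hh μ π.tt π.ts)
    (hthin : ∀ v ∈ 𝔇.fzY, (v : ℂ) ∈ π.Yin → ‖(v : ℂ) - π.tt.cp hh π.zt‖ ≤ 2 * N.rho * hh ∨ ‖(v : ℂ) - π.ts.cm hh π.zs‖ ≤ 2 * N.rho * hh)
    (hxt : ∀ v ∈ 𝔇.t.fzOut, 2 * N.rho * hh < ‖(v : ℂ) - π.ts.cm hh π.zs‖) (hxs : ∀ v ∈ 𝔇.s.fzIn, 2 * N.rho * hh < ‖(v : ℂ) - π.tt.cp hh π.zt‖)
    (mesh_t : VorDense Y (closedBall (π.tt.cp hh π.zt) (N.rho2 * hh + 3 * μ)) μ) (mesh_s : VorDense Y (closedBall (π.ts.cm hh π.zs) (N.rho2 * hh + 3 * μ)) μ)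
    (hK : ∀ v ∈ K, (v : ℂ) ∈ π.Yin) (sep : N.rho1 * hh + 2 * μ < ‖π.tt.cp hh π.zt - π.ts.cm hh π.zs‖) (gp : (𝔇.t.gp : ℂ) ∉ pvwSq π.zs (pvwRad N hh π.ts π.ts.k)) :
    PvhgGeo 𝔇 N hh π K (N.rho2 * hh) (N.rho * hh / 4 + 2 * μ) μ where
  rho := hn.mu
  r2 := le_rfl
  r1 := le_rfl
  rr := hn.rr
  mesh_t := mesh_t
  mesh_s := mesh_s
  far_t := hn.far_t
  far_s := hn.far_s
  yin := hK
  near_t := fun v hv hb => by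
    have hf := pvwk_banksP_sub_fzOut 𝔇.t hb
    have h4 : 2 * N.rho * hh ≤ N.rho1 * hh / 2 := by nlinarith [hn.r1, hn.hh0]
    rcases hthin v (Or.inl hf) (hK v hv) with h1 | h1
    · linarith
    · exact absurd h1 (not_le.2 (hxt v hf))
  near_s := fun v hv hb => by
    have hf := pvwk_banksM_sub_fzIn 𝔇.s hb
    have h4 : 2 * N.rho * hh ≤ N.rho1 * hh / 2 := by nlinarith [hn.r1, hn.hh0]
    rcases hthin v (Or.inr hf) (hK v hv) with h1 | h1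
    · exact absurd h1 (not_le.2 (hxs v hf))
    · linarith
  sep := sep
  rho12 := by nlinarith [hn.r2, hn.hh0]
  gp := gp

/-- **`PvhgGeo` FOR TWO PINS WHICH ARE APART** (any pattern): ONE inequality between the centres pays `sep`, `gp` and the two cross clauses -/
theorem pvhg_geo_far (hOk : 𝔇.Ok (dlsPos Y) N hh π) (hn : PvhgNum N hh μ π.tt π.ts)
    (hthin : ∀ v ∈ 𝔇.fzY, (v : ℂ) ∈ π.Yin → ‖(v : ℂ) - π.tt.cp hh π.zt‖ ≤ 2 * N.rho * hh ∨ ‖(v : ℂ) - π.ts.cm hh π.zs‖ ≤ 2 * N.rho * hh)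
    (mesh_t : VorDense Y (closedBall (π.tt.cp hh π.zt) (N.rho2 * hh + 3 * μ)) μ) (mesh_s : VorDense Y (closedBall (π.ts.cm hh π.zs) (N.rho2 * hh + 3 * μ)) μ)
    (hK : ∀ v ∈ K, (v : ℂ) ∈ π.Yin)
    (apart : 3 / 2 * pvwRad N hh π.tt π.tt.k + 3 / 2 * pvwRad N hh π.ts π.ts.k + N.rho * hh / 2 + N.rho1 * hh + 2 * μ < ‖π.zt - π.zs‖) :
    PvhgGeo 𝔇 N hh π K (N.rho2 * hh) (N.rho * hh / 4 + 2 * μ) μ := by
  have hρ : 0 < N.rho * hh := mul_pos hn.rho0 hn.hh0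
  have hρ1 : 4 * (N.rho * hh) ≤ N.rho1 * hh := by nlinarith [hn.r1, hn.hh0]
  have hρ2 : 0 < N.rho2 * hh := by nlinarith [hn.rr, hn.mu]
  have hgt := hOk.st_t.gate
  have hgs := hOk.st_s.gate
  -- `0 ≤ b h` since the disc is inhabited by `g⁺`
  have hbt : 0 ≤ π.tt.b * hh := by
    have h1 := hgt.inside _ (pvwk_gate_ends (dls_isSph h) hgt).1
    exact (norm_nonneg _).trans h1.le
  have hbs : 0 ≤ π.ts.b * hh := by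
    have h1 := hgs.inside _ (pvwk_gate_ends (dls_isSph h) hgs).1
    exact (norm_nonneg _).trans h1.le
  have rt : π.tt.b * hh ≤ pvwRad N hh π.tt π.tt.k := by linarith [hn.far_t, hn.mu]
  have rs : π.ts.b * hh ≤ pvwRad N hh π.ts π.ts.k := by linarith [hn.far_s, hn.mu]
  have ft : ∀ v ∈ 𝔇.t.fzOut, ‖(v : ℂ) - π.zt‖ ≤ 3 / 2 * pvwRad N hh π.tt π.tt.k := fun v hv => pvhg_fzOut_le hOk.st_t rt (hbt.trans rt) hv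
  have fs : ∀ v ∈ 𝔇.s.fzIn, ‖(v : ℂ) - π.zs‖ ≤ 3 / 2 * pvwRad N hh π.ts π.ts.k := fun v hv => pvhg_fzIn_le hOk.st_s rs (hbs.trans rs) hv
  -- the two grid centres are close to the boxes
  have ct : ‖π.tt.cp hh π.zt - π.zt‖ ≤ 3 / 2 * pvwRad N hh π.tt π.tt.k + N.rho * hh / 4 := by
    have h1 := ft _ (pvwk_banksP_sub_fzOut 𝔇.t (Or.inl ⟨𝔇.t.np, le_rfl, rfl⟩))
    have h2 : ‖(((delMap h).src (𝔇.t.ep 𝔇.t.np) : Y) : ℂ) - π.tt.cp hh π.zt‖ ≤ N.rho * hh / 4 := hOk.st_t.good.tip_p.1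
    have h3 := pvhg_tri3 (π.tt.cp hh π.zt) (((delMap h).src (𝔇.t.ep 𝔇.t.np) : Y) : ℂ) π.zt
    have h4 := norm_sub_rev (π.tt.cp hh π.zt) (((delMap h).src (𝔇.t.ep 𝔇.t.np) : Y) : ℂ)
    linarith
  have cs : ‖π.ts.cm hh π.zs - π.zs‖ ≤ 3 / 2 * pvwRad N hh π.ts π.ts.k + N.rho * hh / 4 := by
    have h1 := fs _ (pvwk_banksM_sub_fzIn 𝔇.s (Or.inl ⟨𝔇.s.nm, le_rfl, rfl⟩))
    have h2 : ‖(((delMap h).src (𝔇.s.em 𝔇.s.nm) : Y) : ℂ) - π.ts.cm hh π.zs‖ ≤ N.rho * hh / 4 := hOk.st_s.good.tip_m.1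
    have h3 := pvhg_tri3 (π.ts.cm hh π.zs) (((delMap h).src (𝔇.s.em 𝔇.s.nm) : Y) : ℂ) π.zs
    have h4 := norm_sub_rev (π.ts.cm hh π.zs) (((delMap h).src (𝔇.s.em 𝔇.s.nm) : Y) : ℂ)
    linarith
  refine pvhg_geo_thin hOk hn hthin (fun v hv => ?_) (fun v hv => ?_) mesh_t mesh_s hK ?_ ?_
  · have h1 := pvhg_tri3 π.zt (v : ℂ) π.zs
    have h2 := pvhg_tri3 (v : ℂ) (π.ts.cm hh π.zs) π.zs
    have h3 := norm_sub_rev π.zt (v : ℂ)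
    linarith [ft v hv, hn.mu]
  · have h1 := pvhg_tri3 π.zt (v : ℂ) π.zs
    have h2 := pvhg_tri3 π.zt (π.tt.cp hh π.zt) (v : ℂ)
    have h3 := norm_sub_rev π.zt (π.tt.cp hh π.zt)
    have h4 := norm_sub_rev (π.tt.cp hh π.zt) (v : ℂ)
    linarith [fs v hv, hn.mu]
  · have h1 := pvhg_tri3 π.zt (π.tt.cp hh π.zt) π.zs
    have h2 := pvhg_tri3 (π.tt.cp hh π.zt) (π.ts.cm hh π.zs) π.zs
    have h3 := norm_sub_rev π.zt (π.tt.cp hh π.zt)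
    linarith
  · intro hc
    have h1 := pvhg_sq_le hc
    have h2 : ‖(𝔇.t.gp : ℂ) - π.zt‖ < π.tt.b * hh := hgt.inside _ (pvwk_gate_ends (dls_isSph h) hgt).1
    have h3 := pvhg_tri3 π.zt (𝔇.t.gp : ℂ) π.zs
    have h4 := norm_sub_rev π.zt (𝔇.t.gp : ℂ)
    linarith [hn.mu]

/-- **`PvhgGeo` AT THE REGIONS OF RECORD**: `Ok` + the index predicates of 209 (D20) + the hulls cover the frozen sites (`pvxFit`: `pvt_cells_cover`) + numbers + mesh + pins apart -/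
theorem pvhg_geo_rec {𝔇 : PvwDat (delMap h)} (hOk : 𝔇.Ok (dlsPos Y) N hh (pvfeRegAt Γ ty cp cm N hh p)) (hIx : PvfeIx Γ ty N hh p Z) (hn : PvhgNum N hh μ (ty p.tt) (ty p.ts))
    (hZ : ∀ v ∈ 𝔇.fzY, (v : ℂ) ∈ pvtU Γ.δ Z)
    (mesh_t : VorDense Y (closedBall ((ty p.tt).cp hh p.zt) (N.rho2 * hh + 3 * μ)) μ) (mesh_s : VorDense Y (closedBall ((ty p.ts).cm hh p.zs) (N.rho2 * hh + 3 * μ)) μ)
    (hK : ∀ v ∈ K, (v : ℂ) ∈ (pvfeRegAt Γ ty cp cm N hh p).Yin)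
    (apart : 3 / 2 * pvwRad N hh (ty p.tt) (ty p.tt).k + 3 / 2 * pvwRad N hh (ty p.ts) (ty p.ts).k + N.rho * hh / 2 + N.rho1 * hh + 2 * μ < ‖p.zt - p.zs‖) :
    PvhgGeo 𝔇 N hh (pvfeRegAt Γ ty cp cm N hh p) K (N.rho2 * hh) (N.rho * hh / 4 + 2 * μ) μ :=
  pvhg_geo_far hOk hn (fun v hv hY => pvhg_in_adm (mul_pos hn.rho0 hn.hh0).le hIx hY (hZ v hv)) mesh_t mesh_s hK apart

/-- **`NFD` OF 268 AT THE REGIONS OF RECORD**, `K` = ALL the sites over `Yin` (the hypothesis of the junction `pvyn_SYn_of_pos`) -/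
theorem pvhg_nfd_rec {𝔇 : PvwDat (delMap h)} (hOk : 𝔇.Ok (dlsPos Y) N hh (pvfeRegAt Γ ty cp cm N hh p)) (hIx : PvfeIx Γ ty N hh p Z) (hn : PvhgNum N hh μ (ty p.tt) (ty p.ts))
    (hZ : ∀ v ∈ 𝔇.fzY, (v : ℂ) ∈ pvtU Γ.δ Z)
    (mesh_t : VorDense Y (closedBall ((ty p.tt).cp hh p.zt) (N.rho2 * hh + 3 * μ)) μ) (mesh_s : VorDense Y (closedBall ((ty p.ts).cm hh p.zs) (N.rho2 * hh + 3 * μ)) μ)
    (apart : 3 / 2 * pvwRad N hh (ty p.tt) (ty p.tt).k + 3 / 2 * pvwRad N hh (ty p.ts) (ty p.ts).k + N.rho * hh / 2 + N.rho1 * hh + 2 * μ < ‖p.zt - p.zs‖) :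
    𝔇.NFD {v | dlsPos Y v ∈ (pvfeRegAt Γ ty cp cm N hh p).Yin} :=
  pvhg_nfd hOk (pvhg_geo_rec hOk hIx hn hZ mesh_t mesh_s (fun _ hv => hv) apart)

/-- **`DISJ` OF 268 FOR TWO PINS WHICH ARE APART** -/
theorem pvhg_disj_far (hOk : 𝔇.Ok (dlsPos Y) N hh π) (apart : 3 / 2 * pvwRad N hh π.tt π.tt.k + 3 / 2 * pvwRad N hh π.ts π.ts.k < ‖π.zt - π.zs‖) : 𝔇.DISJ := by
  refine pvyn_disj_of_sep (P := fun v : Y => ‖(v : ℂ) - π.zt‖ ≤ 3 / 2 * pvwRad N hh π.tt π.tt.k) (fun j hj => Or.inl (pvhg_sq_le (hOk.st_t.stub.ep_in j hj).1)) fun k hk => ?_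
  have key : ∀ v : Y, (v : ℂ) ∈ pvwSq π.zs (pvwRad N hh π.ts π.ts.k) → ¬ ‖(v : ℂ) - π.zt‖ ≤ 3 / 2 * pvwRad N hh π.tt π.tt.k := by
    intro v hv hc
    have h1 := pvhg_sq_le hv
    have h2 := pvhg_tri3 π.zt (v : ℂ) π.zs
    have h3 := norm_sub_rev π.zt (v : ℂ)
    linarith
  exact ⟨key _ (hOk.st_s.stub.em_in k hk).1, key _ (hOk.st_s.stub.em_in k hk).2⟩

/-- **THE JUNCTION AT THE REGIONS OF RECORD, ONE STOP**: the position form (`PvieLk.Run`, what CHAIN produces) gives `SYn` of `Tr/Defs` v3 -/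
theorem pvhg_SYn_rec {𝔇 : PvwDat (delMap h)} (hOk : 𝔇.Ok (dlsPos Y) N hh (pvfeRegAt Γ ty cp cm N hh p)) (hIx : PvfeIx Γ ty N hh p Z) (hn : PvhgNum N hh μ (ty p.tt) (ty p.ts))
    (hZ : ∀ v ∈ 𝔇.fzY, (v : ℂ) ∈ pvtU Γ.δ Z)
    (mesh_t : VorDense Y (closedBall ((ty p.tt).cp hh p.zt) (N.rho2 * hh + 3 * μ)) μ) (mesh_s : VorDense Y (closedBall ((ty p.ts).cm hh p.zs) (N.rho2 * hh + 3 * μ)) μ)
    (apart : 3 / 2 * pvwRad N hh (ty p.tt) (ty p.tt).k + 3 / 2 * pvwRad N hh (ty p.ts) (ty p.ts).k + N.rho * hh / 2 + N.rho1 * hh + 2 * μ < ‖p.zt - p.zs‖)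
    {σ : Y → Bool} (hσ : PvwAgree 𝔇.fzY σ 𝔇.col) {n : ℕ}
    (h1 : 𝔇.t.np + 𝔇.s.nm ≤ n) (hl : pvasIt (delMap h) σ 𝔇.t.dp n = 𝔇.s.dm) (hf : ∀ i, i < n → pvasIt (delMap h) σ 𝔇.t.dp i ≠ 𝔇.s.dm)
    (hp : ∀ i, 𝔇.t.np < i → i + 𝔇.s.nm < n → dlsPos Y ((delMap h).src (pvasIt (delMap h) σ 𝔇.t.dp i)) ∈ (pvfeRegAt Γ ty cp cm N hh p).Yin ∧
      dlsPos Y ((delMap h).tgt (pvasIt (delMap h) σ 𝔇.t.dp i)) ∈ (pvfeRegAt Γ ty cp cm N hh p).Yin) :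
    𝔇.SYn (dlsPos Y) (pvfeRegAt Γ ty cp cm N hh p) σ n := by
  have hρ : 0 < N.rho * hh := mul_pos hn.rho0 hn.hh0
  have hρ1 : 0 < N.rho1 * hh := by nlinarith [hn.r1, hn.hh0, hn.rho0]
  have bt : ∀ w : ℂ, ‖w - (ty p.tt).cp hh p.zt‖ ≤ N.rho * hh / 4 → w ∈ (pvfeRegAt Γ ty cp cm N hh p).Yin := fun w hw =>
    Or.inl (Or.inr (by rw [mem_closedBall, dist_eq_norm]; linarith))
  have bs : ∀ w : ℂ, ‖w - (ty p.ts).cm hh p.zs‖ ≤ N.rho * hh / 4 → w ∈ (pvfeRegAt Γ ty cp cm N hh p).Yin := fun w hw =>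
    Or.inr (by rw [mem_closedBall, dist_eq_norm]; linarith)
  exact pvyn_SYn_of_pos hOk.st_t.stub hOk.st_s.stub hOk.st_t.gate.bw_p hOk.st_s.gate.bw_m
    (pvhg_disj_far hOk (by
      have e1 : (pvfeRegAt Γ ty cp cm N hh p).zt = p.zt := rfl
      have e2 : (pvfeRegAt Γ ty cp cm N hh p).zs = p.zs := rfl
      have e3 : (pvfeRegAt Γ ty cp cm N hh p).tt = ty p.tt := rfl
      have e4 : (pvfeRegAt Γ ty cp cm N hh p).ts = ty p.ts := rfl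
      rw [e1, e2, e3, e4]
      linarith [hn.mu]))
    (pvhg_nfd_rec hOk hIx hn hZ mesh_t mesh_s apart)
    ⟨bt _ hOk.st_t.good.tip_p.1, bt _ hOk.st_t.good.tip_p.2⟩ ⟨bs _ hOk.st_s.good.tip_m.1, bs _ hOk.st_s.good.tip_m.2⟩ hσ h1 hl hf hp

/-- the same for any presentation of the Delaunay plane (`P := delbPl Y`, `hP := delb_pl_eq h`: `pvxT ω`, `pvieT η`) -/
theorem pvhg_SYn_rec_pl {P : PlTri ↥Y} (hP : P = delPl h) {𝔇 : PvwDat P.toMap} (hOk : 𝔇.Ok (dlsPos Y) N hh (pvfeRegAt Γ ty cp cm N hh p)) (hIx : PvfeIx Γ ty N hh p Z)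
    (hn : PvhgNum N hh μ (ty p.tt) (ty p.ts)) (hZ : ∀ v ∈ 𝔇.fzY, (v : ℂ) ∈ pvtU Γ.δ Z)
    (mesh_t : VorDense Y (closedBall ((ty p.tt).cp hh p.zt) (N.rho2 * hh + 3 * μ)) μ) (mesh_s : VorDense Y (closedBall ((ty p.ts).cm hh p.zs) (N.rho2 * hh + 3 * μ)) μ)
    (apart : 3 / 2 * pvwRad N hh (ty p.tt) (ty p.tt).k + 3 / 2 * pvwRad N hh (ty p.ts) (ty p.ts).k + N.rho * hh / 2 + N.rho1 * hh + 2 * μ < ‖p.zt - p.zs‖)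
    {σ : Y → Bool} (hσ : PvwAgree 𝔇.fzY σ 𝔇.col) {n : ℕ}
    (h1 : 𝔇.t.np + 𝔇.s.nm ≤ n) (hl : pvasIt P.toMap σ 𝔇.t.dp n = 𝔇.s.dm) (hf : ∀ i, i < n → pvasIt P.toMap σ 𝔇.t.dp i ≠ 𝔇.s.dm)
    (hp : ∀ i, 𝔇.t.np < i → i + 𝔇.s.nm < n → dlsPos Y (P.toMap.src (pvasIt P.toMap σ 𝔇.t.dp i)) ∈ (pvfeRegAt Γ ty cp cm N hh p).Yin ∧
      dlsPos Y (P.toMap.tgt (pvasIt P.toMap σ 𝔇.t.dp i)) ∈ (pvfeRegAt Γ ty cp cm N hh p).Yin) :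
    𝔇.SYn (dlsPos Y) (pvfeRegAt Γ ty cp cm N hh p) σ n := by
  subst hP
  exact pvhg_SYn_rec hOk hIx hn hZ mesh_t mesh_s apart hσ h1 hl hf hp

end rec

/-! ## 5. THE JUNCTION AT THE MODEL (`Defs/TrModel` v4) -/

section model

variable {τ : Type} {c : ℝ} {𝔓 : PvxPar τ c} {x : ℂ} {R : ℝ} {m : ℕ} {ω : PVSample} {π : PvxIx τ} {μ : ℝ}

/-- the two hulls of `pvxFit` cover the frozen sites of `D_Y` -/
theorem pvhg_hull_cover {𝔇 : PvwDat (pvxT ω)}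
    (hZs : (π.Zs : Set (ℤ × ℤ)) = pvxHull (pvlmDel c m) 𝔇.s.fzIn (pvxYs 𝔓 m π.p) (𝔓.num.rho * pvlmH m))
    (hZt : (π.Zt : Set (ℤ × ℤ)) = pvxHull (pvlmDel c m) 𝔇.t.fzOut (pvxYt 𝔓 m π.p) (𝔓.num.rho * pvlmH m)) :
    ∀ v ∈ 𝔇.fzY, (v : ℂ) ∈ pvtU (pvlmDel c m) (↑π.Zs ∪ ↑π.Zt) := by
  have hδ := pvlm_Del_pos c m
  rintro v (hv | hv)
  · refine pvt_U_mono subset_union_right ?_
    rw [hZt]
    exact pvt_cells_cover hδ (Or.inl ⟨v, hv, rfl⟩)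
  · refine pvt_U_mono subset_union_left ?_
    rw [hZs]
    exact pvt_cells_cover hδ (Or.inl ⟨v, hv, rfl⟩)

/-- the box of the level is inside the largest box -/
theorem pvhg_rad_mono {N : PvwNum} {hh : ℝ} (h0 : 0 ≤ N.rho1 * hh) (t : PvwTy) {k K : ℕ} (hk : k ≤ K) : pvwRad N hh t k ≤ pvwRad N hh t K := by
  unfold pvwRad
  have : (k : ℝ) ≤ K := by exact_mod_cast hk
  nlinarith

/-- **THE JUNCTION AT THE MODEL, ONE STOP**: a pattern of `pvxPatSet` (v4: boxes disjoint, `PvfeIx`), a datum with the clauses `Ok` + hull equalities of `pvxFit`, regions `= pvfeRegAt` (lemma at `pvxParOf`), numbers, mesh: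
the position form (`PvieLk.Run`; what CHAIN produces) gives `SYn` of record -/
theorem pvhg_SYn_model (hdel : (𝔓.Γ m).δ = pvlmDel c m) (hreg : 𝔓.reg m π = pvfeRegAt (𝔓.Γ m) 𝔓.ty 𝔓.cp 𝔓.cm 𝔓.num (pvlmH m) π.p) (hπ : π ∈ pvxPatSet 𝔓 x R m)
    (hgood : DelGood (pvxY ω)) {𝔇 : PvwDat (pvxT ω)} (hOk : 𝔇.Ok (pvxPos ω) 𝔓.num (pvlmH m) (𝔓.reg m π))
    (hZs : (π.Zs : Set (ℤ × ℤ)) = pvxHull (pvlmDel c m) 𝔇.s.fzIn (pvxYs 𝔓 m π.p) (𝔓.num.rho * pvlmH m))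
    (hZt : (π.Zt : Set (ℤ × ℤ)) = pvxHull (pvlmDel c m) 𝔇.t.fzOut (pvxYt 𝔓 m π.p) (𝔓.num.rho * pvlmH m))
    (hn : PvhgNum 𝔓.num (pvlmH m) μ (𝔓.ty π.p.tt) (𝔓.ty π.p.ts))
    (room : 𝔓.num.rho * pvlmH m / 2 + 𝔓.num.rho1 * pvlmH m + 2 * μ ≤ (pvwRad 𝔓.num (pvlmH m) (𝔓.ty π.p.ts) 𝔓.num.K + pvwRad 𝔓.num (pvlmH m) (𝔓.ty π.p.tt) 𝔓.num.K) / 2)
    (mesh_t : VorDense (pvxY ω) (closedBall (pvxYt 𝔓 m π.p) (𝔓.num.rho2 * pvlmH m + 3 * μ)) μ) (mesh_s : VorDense (pvxY ω) (closedBall (pvxYs 𝔓 m π.p) (𝔓.num.rho2 * pvlmH m + 3 * μ)) μ)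
    {σ : ↥(pvxY ω) → Bool} (hσ : PvwAgree 𝔇.fzY σ 𝔇.col) {n : ℕ}
    (h1 : 𝔇.t.np + 𝔇.s.nm ≤ n) (hl : pvasIt (pvxT ω) σ 𝔇.t.dp n = 𝔇.s.dm) (hf : ∀ i, i < n → pvasIt (pvxT ω) σ 𝔇.t.dp i ≠ 𝔇.s.dm)
    (hp : ∀ i, 𝔇.t.np < i → i + 𝔇.s.nm < n → pvxPos ω ((pvxT ω).src (pvasIt (pvxT ω) σ 𝔇.t.dp i)) ∈ (𝔓.reg m π).Yin ∧ pvxPos ω ((pvxT ω).tgt (pvasIt (pvxT ω) σ 𝔇.t.dp i)) ∈ (𝔓.reg m π).Yin) :
    𝔇.SYn (pvxPos ω) (𝔓.reg m π) σ n := by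
  obtain ⟨-, hb1, -, -, hIx, -⟩ := hπ
  have hρ1 : 0 ≤ 𝔓.num.rho1 * pvlmH m := by nlinarith [hn.r1, hn.hh0, hn.rho0]
  rw [hreg] at hOk hp ⊢
  have kt : (𝔓.ty π.p.tt).k ≤ 𝔓.num.K := hOk.st_t.lev
  have ks : (𝔓.ty π.p.ts).k ≤ 𝔓.num.K := hOk.st_s.lev
  have rt := pvhg_rad_mono hρ1 (𝔓.ty π.p.tt) kt
  have rs := pvhg_rad_mono hρ1 (𝔓.ty π.p.ts) ks
  have e := norm_sub_rev π.p.zs π.p.zt
  refine pvhg_SYn_rec_pl (h := hgood) (delb_pl_eq hgood) hOk hIx hn ?_ mesh_t mesh_s ?_ hσ h1 hl hf hp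
  · rw [hdel]
    exact pvhg_hull_cover hZs hZt
  · linarith

end model

end Claimed.Agent.R289
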