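import Claimed.Agent.R289.Tr.HookY
import Claimed.Agent.R289.Tr.HookWD

/-!
# Row 289 (S0537), box TR, WB5 HOOK, file Tr/HookYD : HOOK-DET FOR `SY`, CORNER TIP CELLS      (owner helper23; prefix `pvhj_…D`, defs `Pvhj…D`)

The ray of the tip potential points along a PRESCRIBED side `ζ` of the box (the normal of the door), whichever side of the box the tip apex lies beyond (155, 53).   The base point `z` of the ray may then be WEST of the side `{re = xE}` of the box: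
only `xW ≤ re z` is known (`xW` = abscissa of the tip centre minus the radius of the tip face).   The slit vanishes on the edges between sites of the box (`hQ`).
* sec.1  `pvhj_barD` : the barrier;   the back of the C-shape is `μ`-west of `xW` (instead of inside the box)
* sec.2  record **`PvhjArmD Y κ β ζ xW xE yL yU μ c rs up GN GC Sg`**;   `PvhjArmD.of_two` : from two records `PvhjArm` on the same sets (`xB := x₁`, `x₁ + μ < xW`, and `xB := xE`);   `PvhjArmD.mono`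
* sec.3  **`pvhj_tip_exitD`**, **`pvhj_tip_entD`** (potential given)
* sec.4  THE HALF STATES OF RECORD over `pvhw_potD_exit`, `pvhw_potD_ent` of 53 (`Tr/HookWD`): **`pvhj_st_exitD`**, **`pvhj_st_entD`** : NO `hout`;   `ζ` = ANY side of the box which passes within `rt` in front of the tip centre (`hadm`)
* sec.5  record **`PvhjEndD Y N hh τ z c K r r₁ ρ rs rt ζ`** (`PvhjEnd` + `2 rt + 5ρ ≤ r₁`, `rt ≤ Rk`, `ζ ∈ pvtzdDir`, `adm`), abbreviation **`PvhjArmT Y κ β ζ c rt ρ rs up GN GC Sg`** (= `PvhjArmD` at the four abscissas `re | im (ζ c) ∓ rt`, `μ = 2ρ`: NO BOX, NO STATE);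
         feet **`pvhj_foot_outD`**, **`pvhj_foot_inD`**;   hybrid links **`pvhj_run_outD`**, **`pvhj_run_inD`**;   two half states **`pvhj_run_stD`**;   any presentation: `…D_pl`
* sec.6  `adm` IS PAID BY THE STATE when `ζ` is the DOMINANT direction of `c - z` (model: `dout t = I ^ pvxrSide y⁺`): `pvhj_adm_of_dom`, `pvhj_dir_le_sup`, `pvhj_dom_of_sup` (`hy := pvxr_side_dom`), `pvhj_dir_pow`, `pvhj_dir_conj`, **`pvhj_endD_out`**, **`pvhj_endD_in`** (`PvhjEnd` + `2 rt + 5ρ ≤ r₁` + `rt ≤ Rk` + `hdom` ⟹ `PvhjEndD`)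
0 SORRY.
-/

set_option autoImplicit false
set_option linter.unusedSectionVars false
set_option linter.unusedVariables false

namespace Claimed.Agent.R289

open Relation Set Metric

section del

variable {Y : Set ℂ}

/-! ## 1. the barrier -/

/-- **THE BARRIER, PRESCRIBED SIDE.**   `Ex` = explored sites: in `{re ≤ xE}`, no edge between two of them meets the ray (`hExχ`);   `xW ≤ re z`;   the sites of the C-shape are off the strip or `μ`-west of `xW`. -/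
theorem pvhj_barD (h : DelGood Y) {ζ : ℂ} (hζ : ‖ζ‖ = 1) {Ex : Set Y} {xW xE : ℝ} (hEx : ∀ v ∈ Ex, (ζ * (v : ℂ)).re ≤ xE) {z : ℂ} (hzW : xW ≤ z.re)
    (hExχ : ∀ x : DelDart h, (delMap h).src x ∈ Ex → (delMap h).tgt x ∈ Ex → pvtzChi (delMap h) (fun v => ζ * dlsPos Y v) z x = 0)
    {yL yU μ : ℝ} (hzL : yL ≤ z.im) (hzU : z.im ≤ yU) (hμ : 0 ≤ μ)
    {u : Y → ZMod 2} {u0 uβ : ZMod 2} {up : Bool} (hup : uβ = u0 + plI (up = false)) {c : ℂ} {r₁ rs rs' : ℝ}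
    (hval : ∀ y : Y, xE < (ζ * y).re → ‖(y : ℂ) - c‖ ≤ r₁ → u y = u0 + plI ((ζ * y).im ≤ z.im))
    {Mc : (delMap h).Cyc} (hMc : PvaxAt (delMap h) (dlsPos Y) c rs rs' Mc) (hrs : rs ≤ r₁)
    (hedge : ∀ x : DelDart h, ‖((delMap h).src x : ℂ) - c‖ ≤ rs → ‖((delMap h).src x : ℂ) - (delMap h).tgt x‖ ≤ μ)
    (κ : ℂ → Bool) (β : Bool) {GN GC Sg : Set ℂ} (hGN : IsPreconnected GN) (hGC : IsPreconnected GC) (hSg : IsPreconnected Sg) (hNC : (GN ∩ GC).Nonempty)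
    (hcov : GN ∪ GC ⊆ vorUn Y {v | v ∈ Y ∧ κ v = β})
    (hin : ∀ v : Y, (vorCell Y v ∩ (GN ∪ GC ∪ Sg)).Nonempty → ‖(v : ℂ) - c‖ ≤ rs)
    (hSo : ∀ v : Y, (vorCell Y v ∩ Sg).Nonempty → xE < (ζ * v).re)
    (hN : ∀ v : Y, (vorCell Y v ∩ GN).Nonempty → xE < (ζ * v).re ∧ pvhjSide up yL yU μ (ζ * v))
    (hC : ∀ v : Y, (vorCell Y v ∩ GC).Nonempty → (ζ * v).re + μ < xW ∨ pvhjSide true yL yU μ (ζ * v) ∨ pvhjSide false yL yU μ (ζ * v))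
    (hSC : ∀ v : Y, (vorCell Y v ∩ Sg).Nonempty → (vorCell Y v ∩ GC).Nonempty → pvhjSide (!up) yL yU μ (ζ * v))
    (hSC0 : (Sg ∩ GC).Nonempty) (hSN0 : (Sg ∩ GN).Nonempty) :
    ∃ xm x1 : Y, PvhjBar (delMap h) Mc.Left Ex (pvtzChi (delMap h) (fun v => ζ * dlsPos Y v) z) u uβ (pvhjV Y κ β (GN ∪ GC)) (pvhjV Y κ β GN) (pvhjA Y Sg) xm x1 := by
  obtain ⟨pS, hpS1, hpS2⟩ := hSC0
  obtain ⟨pN, hpN1, hpN2⟩ := hSN0
  obtain ⟨xm, hxm1, hxm2⟩ := pvhj_V_exists hcov (Or.inr hpS2 : pS ∈ GN ∪ GC)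
  obtain ⟨x1, hx11, hx12⟩ := pvhj_V_exists hcov (Or.inl hpN2 : pN ∈ GN ∪ GC)
  have hU : IsPreconnected (GN ∪ GC) := by
    obtain ⟨p, hp1, hp2⟩ := hNC
    exact IsPreconnected.union p hp1 hp2 hGN hGC
  have hXin : ∀ v ∈ pvhjV Y κ β (GN ∪ GC), ‖dlsPos Y v - c‖ ≤ rs := fun v hv => hin v (hv.2.mono (inter_subset_inter_right _ subset_union_left))
  have hAin : ∀ v ∈ pvhjA Y Sg, ‖dlsPos Y v - c‖ ≤ rs := fun v hv => hin v (Set.Nonempty.mono (inter_subset_inter_right _ subset_union_right) hv)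
  -- position of the sites of `X`
  have hpos : ∀ v : Y, v ∈ pvhjV Y κ β (GN ∪ GC) → ‖(v : ℂ) - c‖ ≤ rs ∧ ((ζ * (v : ℂ)).re + μ < xW ∨ μ < |(ζ * (v : ℂ)).im - z.im|) := by
    intro v hv
    refine ⟨hXin v hv, ?_⟩
    obtain ⟨p, hp1, hp2 | hp2⟩ := hv.2
    · exact Or.inr (pvhj_side_far hzL hzU (hN v ⟨p, hp1, hp2⟩).2)
    · rcases hC v ⟨p, hp1, hp2⟩ with e | e | e
      · exact Or.inl e
      · exact Or.inr (pvhj_side_far hzL hzU e)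
      · exact Or.inr (pvhj_side_far hzL hzU e)
  -- an edge issued from a site of `X` is off the slit
  have hX0 : ∀ x : DelDart h, (delMap h).src x ∈ pvhjV Y κ β (GN ∪ GC) → pvtzChi (delMap h) (fun v => ζ * dlsPos Y v) z x = 0 := by
    intro x hx
    obtain ⟨e1, e2 | e2⟩ := hpos _ hx
    · have hl := hedge x e1
      have h3 : (ζ * ((delMap h).tgt x : ℂ)).re ≤ (ζ * ((delMap h).src x : ℂ)).re + μ := by
        have h4 : (ζ * ((delMap h).tgt x : ℂ) - ζ * ((delMap h).src x : ℂ)).re ≤ ‖ζ * ((delMap h).tgt x : ℂ) - ζ * ((delMap h).src x : ℂ)‖ := Complex.re_le_norm _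
        rw [pvtzd_norm_mul hζ, norm_sub_rev, Complex.sub_re] at h4
        linarith
      exact pvtz_chi_west (show (ζ * ((delMap h).src x : ℂ)).re < z.re by linarith) (show (ζ * ((delMap h).tgt x : ℂ)).re < z.re by linarith)
    · refine pvtz_chi_strip (μ := μ) ?_ e2
      rw [pvtzd_norm_mul hζ]
      exact hedge x e1
  have hclsU : ∀ v : Y, xE < (ζ * v).re → ‖(v : ℂ) - c‖ ≤ rs → pvhjSide up yL yU μ (ζ * v) → u v = uβ := by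
    intro v h1 h2 h3
    rw [hval v h1 (h2.trans hrs), pvhj_side_cls hzL hzU hμ h3, hup]
  have hclsD : ∀ v : Y, xE < (ζ * v).re → ‖(v : ℂ) - c‖ ≤ rs → pvhjSide (!up) yL yU μ (ζ * v) → u v ≠ uβ := by
    intro v h1 h2 h3
    rw [hval v h1 (h2.trans hrs), pvhj_side_cls hzL hzU hμ h3, hup]
    exact pvhj_z2_ne u0 up
  refine ⟨xm, x1, ?_, ?_, ?_, ?_, ?_, ?_, ?_, ?_⟩
  · -- the slit
    intro x hx1 hx2
    rcases hx1 with hx1 | hx1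
    · exact hX0 x hx1
    · rcases hx2 with hx2 | hx2
      · rw [← pvtz_chi_sym (fun v => ζ * dlsPos Y v) z x]
        exact hX0 _ (by rw [(delMap h).src_opp']; exact hx2)
      · exact hExχ x hx1 hx2
  · intro v hv hE
    exact absurd (hEx v hE) (not_le.2 (hSo v hv))
  · intro v hv
    exact pvhj_in_mouth hMc hXin (pvhj_V_conn h hU hcov (pvhj_V_mono κ β subset_union_left hv) ⟨hxm1, pS, hxm2, Or.inr hpS2⟩)
  · intro v hv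
    exact hclsU v (hN v hv.2).1 (hXin v (pvhj_V_mono κ β subset_union_left hv)) (hN v hv.2).2
  · exact hclsD xm (hSo xm ⟨pS, hxm2, hpS1⟩) (hAin xm ⟨pS, hxm2, hpS1⟩) (hSC xm ⟨pS, hxm2, hpS1⟩ ⟨pS, hxm2, hpS2⟩)
  · exact pvhj_in_mouth hMc hAin (pvhj_A_conn h hSg ⟨pS, hxm2, hpS1⟩ ⟨pN, hx12, hpN1⟩)
  · exact ⟨hx11, pN, hx12, hpN2⟩
  · intro v hv hvX hvu
    obtain ⟨p, hp1, hp2 | hp2⟩ := hvX.2
    · exact ⟨hvX.1, p, hp1, hp2⟩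
    · exact absurd hvu (hclsD v (hSo v hv) (hAin v hv) (hSC v hv ⟨p, hp1, hp2⟩))

/-! ## 2. the record -/

/-- **THE ARM OF A LANE AT A TIP, PRESCRIBED SIDE** (picture rotated by `ζ`): the arm `GN` and the closing set `Sg` are east of `xE`, the sites of the C-shape `GC` are off the strip `[yL - μ, yU + μ]` or `μ`-west of `xW`.
NO BOX: at a tip of centre `c` whose face lies within `rt` of `c`:   `xW = re (ζ c) - rt`, `xE = re (ζ c) + rt`, `yL = im (ζ c) - rt`, `yU = im (ζ c) + rt`. -/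
structure PvhjArmD (Y : Set ℂ) (κ : ℂ → Bool) (β : Bool) (ζ : ℂ) (xW xE yL yU μ : ℝ) (c : ℂ) (rs : ℝ) (up : Bool) (GN GC Sg : Set ℂ) : Prop where
  cN : IsPreconnected GN
  cC : IsPreconnected GC
  cS : IsPreconnected Sg
  nc : (GN ∩ GC).Nonempty
  cov : GN ∪ GC ⊆ vorUn Y {v | v ∈ Y ∧ κ v = β}
  near : ∀ v : Y, (vorCell Y v ∩ (GN ∪ GC ∪ Sg)).Nonempty → ‖(v : ℂ) - c‖ ≤ rs
  sOut : ∀ v : Y, (vorCell Y v ∩ Sg).Nonempty → xE < (ζ * v).re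
  nSide : ∀ v : Y, (vorCell Y v ∩ GN).Nonempty → xE < (ζ * v).re ∧ pvhjSide up yL yU μ (ζ * v)
  cOff : ∀ v : Y, (vorCell Y v ∩ GC).Nonempty → (ζ * v).re + μ < xW ∨ pvhjSide true yL yU μ (ζ * v) ∨ pvhjSide false yL yU μ (ζ * v)
  sc : ∀ v : Y, (vorCell Y v ∩ Sg).Nonempty → (vorCell Y v ∩ GC).Nonempty → pvhjSide (!up) yL yU μ (ζ * v)
  sc0 : (Sg ∩ GC).Nonempty
  sn0 : (Sg ∩ GN).Nonempty

/-- from two records `PvhjArm` ON THE SAME SETS: box `{re ≤ x₁}` with `x₁ + μ < xW` (back of the C) and box `{re ≤ xE}` (arm, closing set) -/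
theorem PvhjArmD.of_two {κ : ℂ → Bool} {β : Bool} {ζ : ℂ} {x₁ xW xE yL yU μ : ℝ} {c : ℂ} {rs : ℝ} {up : Bool} {GN GC Sg : Set ℂ}
    (A₁ : PvhjArm Y κ β ζ x₁ yL yU μ c rs up GN GC Sg) (A₂ : PvhjArm Y κ β ζ xE yL yU μ c rs up GN GC Sg) (hx : x₁ + μ < xW) : PvhjArmD Y κ β ζ xW xE yL yU μ c rs up GN GC Sg :=
  ⟨A₁.cN, A₁.cC, A₁.cS, A₁.nc, A₁.cov, A₁.near, A₂.sOut, A₂.nSide, fun v hv => (A₁.cOff v hv).imp_left fun e => by linarith, A₁.sc, A₁.sc0, A₁.sn0⟩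

theorem PvhjArmD.mono {κ : ℂ → Bool} {β : Bool} {ζ : ℂ} {xW xE xW' xE' yL yU μ : ℝ} {c : ℂ} {rs : ℝ} {up : Bool} {GN GC Sg : Set ℂ}
    (A : PvhjArmD Y κ β ζ xW xE yL yU μ c rs up GN GC Sg) (hW : xW ≤ xW') (hE : xE' ≤ xE) : PvhjArmD Y κ β ζ xW' xE' yL yU μ c rs up GN GC Sg :=
  ⟨A.cN, A.cC, A.cS, A.nc, A.cov, A.near, fun v hv => lt_of_le_of_lt hE (A.sOut v hv), fun v hv => ⟨lt_of_le_of_lt hE (A.nSide v hv).1, (A.nSide v hv).2⟩,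
    fun v hv => (A.cOff v hv).imp_left fun e => by linarith, A.sc, A.sc0, A.sn0⟩

/-! ## 3. the tip theorems (potential given) -/

/-- the faces of the positions `m..n'-1`, `n' ≤ n`, of a strand whose positions `0..n` have their ends in `Q` : a piece, when the slit vanishes on the edges between sites of `Q` -/
theorem pvhj_pieceD {V D : Type} {T : PvMap V D} {s : V → Bool} {d : D} {n : ℕ} {M : Set D} {χ : D → ZMod 2} {Q : Set V} (hQ : ∀ x, T.src x ∈ Q → T.tgt x ∈ Q → χ x = 0)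
    (hbox : ∀ k, k ≤ n → T.src (pvasIt T s d k) ∈ Q ∧ T.tgt (pvasIt T s d k) ∈ Q) {m n' : ℕ} (hn : n' ≤ n) (hmem : ∀ k, m ≤ k → k < n' → pvasIt T s d k ∈ M) :
    PvtzPiece T s d M χ m n' := by
  refine ⟨hmem, fun k _ hk x hx => ?_⟩
  have hk' : k < n := lt_of_lt_of_le hk hn
  have h1 := (hbox k hk'.le).1
  have h2 := (hbox k hk'.le).2
  have h3 : T.apex (pvasIt T s d k) ∈ Q := by
    rcases pvas_step_ends s (pvasIt T s d k) with ⟨_, e, _⟩ | ⟨_, _, e⟩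
    · rw [← e, ← pvas_it_succ]; exact (hbox (k + 1) hk').1
    · rw [← e, ← pvas_it_succ]; exact (hbox (k + 1) hk').2
  rcases hx with rfl | rfl | rfl
  · exact hQ _ h1 h2
  · exact hQ _ (by rw [T.src_nxt]; exact h2) (by rw [T.tgt_nxt]; exact h3)
  · exact hQ _ (by rw [T.src_nxt2]; exact h3) (by rw [T.tgt_nxt2]; exact h1)

theorem pvhj_exD {V D : Type} {T : PvMap V D} {s : V → Bool} {d : D} {n : ℕ} {Q : Set V} (hbox : ∀ k, k ≤ n → T.src (pvasIt T s d k) ∈ Q ∧ T.tgt (pvasIt T s d k) ∈ Q) :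
    pvtzEx T s d n ⊆ Q := by
  rintro v (⟨k, hk, rfl⟩ | ⟨k, hk, rfl⟩)
  · exact (hbox k hk).1
  · exact (hbox k hk).2

/-- **EXIT TIP, PRESCRIBED SIDE** (potential given).   `Q` = the sites of the box. -/
theorem pvhj_tip_exitD (h : DelGood Y) {ζ : ℂ} (hζ : ‖ζ‖ = 1) {s : Y → Bool} {d : DelDart h} {n : ℕ} {M₂ : (delMap h).Cyc} {xW xE : ℝ} {Q : Set Y}
    (hbw : pvasBW (delMap h) s d) (hinj : ∀ i j, i ≤ n → j ≤ n → pvasIt (delMap h) s d i = pvasIt (delMap h) s d j → i = j)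
    (hstart : (delMap h).opp d ∉ M₂.Left) (htip : pvasIt (delMap h) s d n ∈ M₂.Left)
    (hbox : ∀ k, k ≤ n → (delMap h).src (pvasIt (delMap h) s d k) ∈ Q ∧ (delMap h).tgt (pvasIt (delMap h) s d k) ∈ Q) (hQE : ∀ v ∈ Q, (ζ * (v : ℂ)).re ≤ xE)
    {z : ℂ} {u : Y → ZMod 2} (hzW : xW ≤ z.re) (hQ : ∀ x : DelDart h, (delMap h).src x ∈ Q → (delMap h).tgt x ∈ Q → pvtzChi (delMap h) (fun v => ζ * dlsPos Y v) z x = 0)
    (hu : PvtzPot (delMap h) s d n M₂.Left (pvtzChi (delMap h) (fun v => ζ * dlsPos Y v) z) u) {yL yU μ : ℝ} (hzL : yL ≤ z.im) (hzU : z.im ≤ yU) (hμ : 0 ≤ μ) {c : ℂ} {r₁ rs rs' : ℝ}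
    (hval : ∀ y : Y, xE < (ζ * y).re → ‖(y : ℂ) - c‖ ≤ r₁ → u y = u ((delMap h).src (pvasIt (delMap h) s d n)) + plI ((ζ * y).im ≤ z.im))
    {Mc : (delMap h).Cyc} (hMc : PvaxAt (delMap h) (dlsPos Y) c rs rs' Mc) (hrs : rs ≤ r₁) (hsub : Mc.Left ⊆ M₂.Left)
    (hedge : ∀ x : DelDart h, ‖((delMap h).src x : ℂ) - c‖ ≤ rs → ‖((delMap h).src x : ℂ) - (delMap h).tgt x‖ ≤ μ)
    {m : ℕ} (hmn : m ≤ n) (hmem : ∀ k, m ≤ k → k < n → pvasIt (delMap h) s d k ∈ M₂.Left)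
    (hcalm : ∀ v ∈ pvtzEx (delMap h) s d n, ‖(v : ℂ) - c‖ < rs' → v ∈ pvtzB (delMap h) s d m n ∪ pvtzW (delMap h) s d m n)
    {κ : ℂ → Bool} {β : Bool} {GN GC Sg : Set ℂ} (A : PvhjArmD Y κ β ζ xW xE yL yU μ c rs β GN GC Sg) :
    ∃ x0 ∈ pvhjV Y κ β GN, (delMap h).Join Mc.Left ({v | v ∈ pvtzEx (delMap h) s d n ∧ s v = β} ∪ (pvhjV Y κ β (GN ∪ GC) \ pvtzEx (delMap h) s d n))
      (pvhiEnd (delMap h) β (pvasIt (delMap h) s d n)) x0 := by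
  have hp := pvhj_pieceD hQ hbox le_rfl hmem
  have hF := pl_left_face M₂
  have hExQ := pvhj_exD hbox
  have hne : u ((delMap h).src (pvasIt (delMap h) s d n)) ≠ u ((delMap h).tgt (pvasIt (delMap h) s d n)) := by
    have h1 := hu (pvasIt (delMap h) s d n) (Or.inl htip)
    rw [pvtz_X_one hbw hinj le_rfl, hQ _ (hbox n le_rfl).1 (hbox n le_rfl).2, add_zero] at h1
    exact pvtz_z2_ne h1
  have hnem : u ((delMap h).src (pvasIt (delMap h) s d m)) ≠ u ((delMap h).tgt (pvasIt (delMap h) s d m)) := by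
    have h2 := pvtz_piece_const hF hbw hu hp hmn le_rfl
    rw [← h2.1, ← h2.2]; exact hne
  have hup : u (pvhiEnd (delMap h) β (pvasIt (delMap h) s d n)) = u ((delMap h).src (pvasIt (delMap h) s d n)) + plI (β = false) := by
    cases β
    · rw [pl_hx_I_pos (p := false = false) rfl]
      exact pvhj_z2_one hne
    · rw [pl_hx_I_neg (p := true = false) (by intro e; exact Bool.noConfusion e), add_zero]
      rfl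
  obtain ⟨xm, x1, B⟩ := pvhj_barD h hζ (Ex := pvtzEx (delMap h) s d n) (fun v hv => hQE v (hExQ hv)) hzW (fun x h1 h2 => hQ x (hExQ h1) (hExQ h2)) hzL hzU hμ hup hval hMc hrs hedge κ β
    A.cN A.cC A.cS A.nc A.cov A.near A.sOut A.nSide A.cOff A.sc A.sc0 A.sn0
  exact pvhj_exit (dls_isSph h) Mc hMc.fin hsub hu (fun hh => hstart (hsub hh)) hbw hinj β _
    (fun v hv hvM => pvhj_cls hF hbw hu hp hnem hmn le_rfl β (hcalm v hv (hMc.out v hvM))) B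

/-- **ENTRANCE TIP, PRESCRIBED SIDE** (potential given): `d` = the tip position, the stub is listed forwards -/
theorem pvhj_tip_entD (h : DelGood Y) {ζ : ℂ} (hζ : ‖ζ‖ = 1) {s : Y → Bool} {d : DelDart h} {n : ℕ} {M₂ : (delMap h).Cyc} {xW xE : ℝ} {Q : Set Y}
    (hbw : pvasBW (delMap h) s d) (hinj : ∀ i j, i ≤ n → j ≤ n → pvasIt (delMap h) s d i = pvasIt (delMap h) s d j → i = j)
    (hstop : pvasIt (delMap h) s d n ∉ M₂.Left) (htip : (delMap h).opp d ∈ M₂.Left)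
    (hbox : ∀ k, k ≤ n → (delMap h).src (pvasIt (delMap h) s d k) ∈ Q ∧ (delMap h).tgt (pvasIt (delMap h) s d k) ∈ Q) (hQE : ∀ v ∈ Q, (ζ * (v : ℂ)).re ≤ xE)
    {z : ℂ} {u : Y → ZMod 2} (hzW : xW ≤ z.re) (hQ : ∀ x : DelDart h, (delMap h).src x ∈ Q → (delMap h).tgt x ∈ Q → pvtzChi (delMap h) (fun v => ζ * dlsPos Y v) z x = 0)
    (hu : PvtzPot (delMap h) s d n M₂.Left (pvtzChi (delMap h) (fun v => ζ * dlsPos Y v) z) u) {yL yU μ : ℝ} (hzL : yL ≤ z.im) (hzU : z.im ≤ yU) (hμ : 0 ≤ μ) {c : ℂ} {r₁ rs rs' : ℝ}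
    (hval : ∀ y : Y, xE < (ζ * y).re → ‖(y : ℂ) - c‖ ≤ r₁ → u y = u ((delMap h).tgt d) + plI ((ζ * y).im ≤ z.im))
    {Mc : (delMap h).Cyc} (hMc : PvaxAt (delMap h) (dlsPos Y) c rs rs' Mc) (hrs : rs ≤ r₁) (hsub : Mc.Left ⊆ M₂.Left)
    (hedge : ∀ x : DelDart h, ‖((delMap h).src x : ℂ) - c‖ ≤ rs → ‖((delMap h).src x : ℂ) - (delMap h).tgt x‖ ≤ μ)
    {m : ℕ} (hmn : m ≤ n) (hmem : ∀ k, k < m → pvasIt (delMap h) s d k ∈ M₂.Left)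
    (hcalm : ∀ v ∈ pvtzEx (delMap h) s d n, ‖(v : ℂ) - c‖ < rs' → v ∈ pvtzB (delMap h) s d 0 m ∪ pvtzW (delMap h) s d 0 m)
    {κ : ℂ → Bool} {β : Bool} {GN GC Sg : Set ℂ} (A : PvhjArmD Y κ β ζ xW xE yL yU μ c rs (!β) GN GC Sg) :
    ∃ x0 ∈ pvhjV Y κ β GN, (delMap h).Join Mc.Left ({v | v ∈ pvtzEx (delMap h) s d n ∧ s v = β} ∪ (pvhjV Y κ β (GN ∪ GC) \ pvtzEx (delMap h) s d n))
      (pvhiEnd (delMap h) β d) x0 := by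
  have hp := pvhj_pieceD hQ hbox hmn (m := 0) (fun k _ hk => hmem k hk)
  have hF := pl_left_face M₂
  have hExQ := pvhj_exD hbox
  have hne : u ((delMap h).src d) ≠ u ((delMap h).tgt d) := by
    have h1 := hu d (Or.inr htip)
    have hx : pvtzX (delMap h) s d n d = 1 := pvtz_X_one hbw hinj (Nat.zero_le n)
    rw [hx, hQ d (hbox 0 (Nat.zero_le n)).1 (hbox 0 (Nat.zero_le n)).2, add_zero] at h1
    exact pvtz_z2_ne h1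
  have hup : u (pvhiEnd (delMap h) β d) = u ((delMap h).tgt d) + plI ((!β) = false) := by
    cases β
    · rw [pl_hx_I_neg (p := (!false) = false) (by intro e; exact Bool.noConfusion e), add_zero]
      rfl
    · rw [pl_hx_I_pos (p := (!true) = false) rfl]
      exact pvhj_z2_one hne.symm
  obtain ⟨xm, x1, B⟩ := pvhj_barD h hζ (Ex := pvtzEx (delMap h) s d n) (fun v hv => hQE v (hExQ hv)) hzW (fun x h1 h2 => hQ x (hExQ h1) (hExQ h2)) hzL hzU hμ hup hval hMc hrs hedge κ β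
    A.cN A.cC A.cS A.nc A.cov A.near A.sOut A.nSide A.cOff A.sc A.sc0 A.sn0
  exact pvhj_ent (dls_isSph h) Mc hMc.fin hsub hu (fun hh => hstop (hsub hh)) hbw hinj β _
    (fun v hv hvM => pvhj_cls hF hbw hu hp hne (k0 := 0) le_rfl (Nat.zero_le _) β (hcalm v hv (hMc.out v hvM))) B

/-! ## 4. the tips of the half states of record -/

theorem pvhj_re_near {ζ a c : ℂ} {r : ℝ} (hζ : ‖ζ‖ = 1) (ha : ‖a - c‖ ≤ r) : (ζ * c).re - r ≤ (ζ * a).re ∧ (ζ * a).re ≤ (ζ * c).re + r := by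
  have h1 : |(ζ * (a - c)).re| ≤ ‖a - c‖ := by
    calc |(ζ * (a - c)).re| ≤ ‖ζ * (a - c)‖ := Complex.abs_re_le_norm _
      _ = ‖a - c‖ := by rw [norm_mul, hζ, one_mul]
  have h3 : (ζ * a).re = (ζ * (a - c)).re + (ζ * c).re := by
    rw [← Complex.add_re]; congr 1; ring
  have := abs_le.1 (h1.trans ha)
  constructor <;> linarith [this.1, this.2]

/-- **THE ARM AT A TIP OF CENTRE `c`, FACE WITHIN `rt`, MESH `ρ`** : no box, no state -/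
def PvhjArmT (Y : Set ℂ) (κ : ℂ → Bool) (β : Bool) (ζ c : ℂ) (rt ρ rs : ℝ) (up : Bool) (GN GC Sg : Set ℂ) : Prop :=
  PvhjArmD Y κ β ζ ((ζ * c).re - rt) ((ζ * c).re + rt) ((ζ * c).im - rt) ((ζ * c).im + rt) (2 * ρ) c rs up GN GC Sg

theorem pvhj_eqns_citeD : True := by
  have := @PvhjArmT.eq_1
  trivial

/-- `PvhjArmT` from two records `PvhjArm` on the same sets: boxes `{re ≤ re (ζ c) - e₀}` and `{re ≤ re (ζ c) + e₀}`, `rt + 2ρ < e₀` -/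
theorem PvhjArmT.of_two {κ : ℂ → Bool} {β : Bool} {ζ c : ℂ} {rt ρ rs e₀ : ℝ} {up : Bool} {GN GC Sg : Set ℂ}
    (A₁ : PvhjArm Y κ β ζ ((ζ * c).re - e₀) ((ζ * c).im - rt) ((ζ * c).im + rt) (2 * ρ) c rs up GN GC Sg)
    (A₂ : PvhjArm Y κ β ζ ((ζ * c).re + e₀) ((ζ * c).im - rt) ((ζ * c).im + rt) (2 * ρ) c rs up GN GC Sg) (hρ : 0 ≤ ρ) (he : rt + 2 * ρ < e₀) : PvhjArmT Y κ β ζ c rt ρ rs up GN GC Sg :=
  (PvhjArmD.of_two A₁ A₂ (by linarith : (ζ * c).re - e₀ + 2 * ρ < (ζ * c).re - rt)).mono le_rfl (by linarith)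

section st

variable {h : DelGood Y} {𝔖 : PvwSt (delMap h)} {N : PvwNum} {hh : ℝ} {z : ℂ} {τ : PvwTy} {s : Y → Bool} {r r₁ ρ rs rt : ℝ}

/-- **THE EXIT TIP OF A HALF STATE OF RECORD, PRESCRIBED SIDE.** -/
theorem pvhj_st_exitD (ha : 𝔖.AtOut (dlsPos Y) N hh z τ s) (hρ : 0 < ρ) (h2 : N.rho2 * hh ≤ r) (hr1 : N.rho * hh / 4 + 2 * ρ ≤ r₁) (hr : 3 * r₁ + 2 * ρ ≤ r)
    (hmesh : VorDense Y (closedBall (τ.cp hh z) (r + 3 * ρ)) ρ) (hfar : r + 4 * ρ + r₁ + τ.b * hh ≤ pvwRad N hh τ τ.k)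
    (hrs0 : N.rho * hh / 4 ≤ rs) (hrs : rs ≤ r₁) (hrs1 : rs + 4 * ρ ≤ N.rho1 * hh / 2)
    (ht1 : ‖((delMap h).src (𝔖.ep 𝔖.np) : ℂ) - τ.cp hh z‖ + 2 * ρ ≤ rt) (ht2 : ‖((delMap h).tgt (𝔖.ep 𝔖.np) : ℂ) - τ.cp hh z‖ + 2 * ρ ≤ rt)
    (hrt : 2 * rt + 5 * ρ ≤ r₁) (hbig : rt ≤ pvwRad N hh τ τ.k)
    {ζ : ℂ} (hζ : ζ ∈ pvtzdDir) (hadm : pvwRad N hh τ τ.k + (ζ * z).re ≤ (ζ * τ.cp hh z).re + rt)
    {κ : ℂ → Bool} {β : Bool} {GN GC Sg : Set ℂ} (A : PvhjArmT Y κ β ζ (τ.cp hh z) rt ρ rs β GN GC Sg) :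
    ∃ x0 ∈ pvhjV Y κ β GN, (delMap h).Join univ
      ({v | v ∈ 𝔖.bkP ∪ 𝔖.whP ∧ s v = β ∧ ‖(v : ℂ) - τ.cp hh z‖ < rs + 4 * ρ} ∪ (pvhjV Y κ β (GN ∪ GC) \ (𝔖.bkP ∪ 𝔖.whP)))
      (pvhiEnd (delMap h) β (𝔖.ep 𝔖.np)) x0 := by
  obtain ⟨ζ', -, M, hM, E', -⟩ := pvhg_exit ha hρ hr1 hr hmesh hfar
  have hit : ∀ k, k ≤ 𝔖.np → pvasIt (delMap h) s 𝔖.dp k = 𝔖.ep k := fun k hk => (ha.stub.ep_it k hk).symm
  have g1 : ‖((delMap h).src (𝔖.ep 𝔖.np) : ℂ) - τ.cp hh z‖ ≤ N.rho * hh / 4 := ha.good.tip_p.1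
  have g2 : ‖((delMap h).tgt (𝔖.ep 𝔖.np) : ℂ) - τ.cp hh z‖ ≤ N.rho * hh / 4 := ha.good.tip_p.2
  have h0 : 0 ≤ N.rho * hh / 4 := (norm_nonneg _).trans g1
  have t1 : ‖((delMap h).src (𝔖.ep 𝔖.np) : ℂ) - τ.cp hh z‖ ≤ rt := (le_add_of_nonneg_right (by linarith)).trans ht1
  have t2 : ‖((delMap h).tgt (𝔖.ep 𝔖.np) : ℂ) - τ.cp hh z‖ ≤ rt := (le_add_of_nonneg_right (by linarith)).trans ht2
  have t3 : ‖(𝔖.ap : ℂ) - τ.cp hh z‖ ≤ rt := pvhj_ap_near ha hρ (by linarith) hmesh ht1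
  have hζ1 := pvtzd_dir_norm hζ
  have hin : ∀ k, k ≤ 𝔖.np → ((delMap h).src (pvasIt (delMap h) s 𝔖.dp k) : ℂ) ∈ pvwSq z (pvwRad N hh τ τ.k) ∧ ((delMap h).tgt (pvasIt (delMap h) s 𝔖.dp k) : ℂ) ∈ pvwSq z (pvwRad N hh τ τ.k) :=
    fun k hk => by rw [hit k hk]; exact ha.stub.ep_in k hk
  obtain ⟨z₀, u, hz, hu, hQ, hval⟩ := pvhw_potD_exit h hζ hM hρ hr (fun w hw => hmesh w (closedBall_subset_closedBall (by linarith) hw)) E'.start E'.tip hin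
    (by rw [hit _ le_rfl]; exact ha.stub.ep_out) (by rw [hit _ le_rfl]; exact t1) (by rw [hit _ le_rfl]; exact t2) (by rw [hit _ le_rfl]; exact t3) hadm hbig hrt
  rw [hit _ le_rfl] at hz hval
  obtain ⟨Mc, hMc⟩ := dlc_at h (h0.trans hrs0) hρ (fun w hw => hmesh w (closedBall_subset_closedBall (by linarith) hw)) (by linarith : rs + 3 * ρ < rs + 4 * ρ)
  have hsub : Mc.Left ⊆ M.Left := by
    intro x hx
    have h1 := hMc.out _ ⟨x, hx, rfl⟩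
    exact hM.inn _ (by linarith) x rfl
  have hedge : ∀ x : DelDart h, ‖((delMap h).src x : ℂ) - τ.cp hh z‖ ≤ rs → ‖((delMap h).src x : ℂ) - (delMap h).tgt x‖ ≤ 2 * ρ := fun x hx =>
    pvhg_adj_short hρ (pvhg_dense_sub hmesh (by linarith)) (dls_dart_adj x)
  obtain ⟨hzL, hzU⟩ := pvhj_tri_im hz (pvhj_im_near hζ1 t1) (pvhj_im_near hζ1 t2) (pvhj_im_near hζ1 t3)
  have hzW : (ζ * τ.cp hh z).re - rt ≤ z₀.re := pvhw_tri_re_ge hz (pvhj_re_near hζ1 t1).1 (pvhj_re_near hζ1 t2).1 (pvhj_re_near hζ1 t3).1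
  obtain ⟨i₀, hi₀, hl1, hl2⟩ := ha.good.late_p
  have hEx := pvhj_ex_out ha.stub
  have key := pvhj_tip_exitD h hζ1 (Q := {v : Y | (v : ℂ) ∈ pvwSq z (pvwRad N hh τ τ.k)}) E'.bw E'.inj E'.start E'.tip hin (fun v hv => (pvtzd_sq_le hζ hv).trans hadm) hzW hQ hu hzL hzU
    (by linarith : (0 : ℝ) ≤ 2 * ρ) (by rw [hit _ le_rfl]; exact fun y hy hyr => hval y (lt_of_le_of_lt hadm hy) hyr) hMc hrs hsub hedge hi₀
    (fun k hk1 hk2 => by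
      rw [hit k hk2.le]
      refine hM.inn _ ?_ _ rfl
      have a1 : ‖((delMap h).src (𝔖.ep k) : ℂ) - τ.cp hh z‖ < N.rho2 * hh := (hl1 k hk1 hk2.le).1
      show ‖((delMap h).src (𝔖.ep k) : ℂ) - τ.cp hh z‖ ≤ r
      linarith)
    (by
      rintro v (⟨i, hi, rfl⟩ | ⟨i, hi, rfl⟩) hv
      · refine Or.inl ⟨i, ?_, hi, rfl⟩
        by_contra hlt
        have a1 : N.rho1 * hh / 2 < ‖((delMap h).src (𝔖.ep i) : ℂ) - τ.cp hh z‖ := (hl2 i (not_le.1 hlt)).1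
        rw [hit i hi] at hv
        linarith
      · refine Or.inr ⟨i, ?_, hi, rfl⟩
        by_contra hlt
        have a1 : N.rho1 * hh / 2 < ‖((delMap h).tgt (𝔖.ep i) : ℂ) - τ.cp hh z‖ := (hl2 i (not_le.1 hlt)).2
        rw [hit i hi] at hv
        linarith) A
  rw [hit _ le_rfl, hEx] at key
  obtain ⟨x0, hx0, hj⟩ := key
  refine ⟨x0, hx0, ?_⟩
  have hend : pvhiEnd (delMap h) β (𝔖.ep 𝔖.np) ∈ (delMap h).VOf Mc.Left := by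
    rw [pl_VOf_left (dls_isSph h) Mc]
    refine Or.inr (hMc.inn _ ?_)
    cases β
    · exact g2.trans hrs0
    · exact g1.trans hrs0
  refine pl_hx_join_mono (subset_univ _) ?_ (pvhj_join_VOf (pl_left_face Mc) hj hend)
  rintro v ⟨hv | hv, hvM⟩
  · exact Or.inl ⟨hv.1, hv.2, hMc.out v hvM⟩
  · exact Or.inr hv

/-- **THE ENTRANCE TIP OF A HALF STATE OF RECORD, PRESCRIBED SIDE.** -/
theorem pvhj_st_entD (ha : 𝔖.AtIn (dlsPos Y) N hh z τ s) (hρ : 0 < ρ) (h2 : N.rho2 * hh ≤ r) (hr1 : N.rho * hh / 4 + 2 * ρ ≤ r₁) (hr : 3 * r₁ + 2 * ρ ≤ r)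
    (hmesh : VorDense Y (closedBall (τ.cm hh z) (r + 3 * ρ)) ρ) (hfar : r + 4 * ρ + r₁ + τ.b * hh ≤ pvwRad N hh τ τ.k)
    (hrs0 : N.rho * hh / 4 ≤ rs) (hrs : rs ≤ r₁) (hrs1 : rs + 4 * ρ ≤ N.rho1 * hh / 2)
    (ht1 : ‖((delMap h).src (𝔖.em 𝔖.nm) : ℂ) - τ.cm hh z‖ + 2 * ρ ≤ rt) (ht2 : ‖((delMap h).tgt (𝔖.em 𝔖.nm) : ℂ) - τ.cm hh z‖ + 2 * ρ ≤ rt)
    (hrt : 2 * rt + 5 * ρ ≤ r₁) (hbig : rt ≤ pvwRad N hh τ τ.k)
    {ζ : ℂ} (hζ : ζ ∈ pvtzdDir) (hadm : pvwRad N hh τ τ.k + (ζ * z).re ≤ (ζ * τ.cm hh z).re + rt)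
    {κ : ℂ → Bool} {β : Bool} {GN GC Sg : Set ℂ} (A : PvhjArmT Y κ β ζ (τ.cm hh z) rt ρ rs (!β) GN GC Sg) :
    ∃ x0 ∈ pvhjV Y κ β GN, (delMap h).Join univ
      ({v | v ∈ 𝔖.bkM ∪ 𝔖.whM ∧ s v = β ∧ ‖(v : ℂ) - τ.cm hh z‖ < rs + 4 * ρ} ∪ (pvhjV Y κ β (GN ∪ GC) \ (𝔖.bkM ∪ 𝔖.whM)))
      (pvhiEnd (delMap h) β (𝔖.em 𝔖.nm)) x0 := by
  obtain ⟨ζ', -, M, hM, E', -⟩ := pvhg_ent ha hρ hr1 hr hmesh hfar
  have hit : ∀ k, k ≤ 𝔖.nm → pvasIt (delMap h) s (𝔖.em 𝔖.nm) k = 𝔖.em (𝔖.nm - k) := fun k hk => pvwk_em_fwd ha.stub ha.gate.bw_m hk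
  have g1 : ‖((delMap h).src (𝔖.em 𝔖.nm) : ℂ) - τ.cm hh z‖ ≤ N.rho * hh / 4 := ha.good.tip_m.1
  have g2 : ‖((delMap h).tgt (𝔖.em 𝔖.nm) : ℂ) - τ.cm hh z‖ ≤ N.rho * hh / 4 := ha.good.tip_m.2
  have h0 : 0 ≤ N.rho * hh / 4 := (norm_nonneg _).trans g1
  have t1 : ‖((delMap h).src (𝔖.em 𝔖.nm) : ℂ) - τ.cm hh z‖ ≤ rt := (le_add_of_nonneg_right (by linarith)).trans ht1
  have t2 : ‖((delMap h).tgt (𝔖.em 𝔖.nm) : ℂ) - τ.cm hh z‖ ≤ rt := (le_add_of_nonneg_right (by linarith)).trans ht2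
  have t3 : ‖(𝔖.am : ℂ) - τ.cm hh z‖ ≤ rt := pvhj_am_near ha hρ (by linarith) hmesh ht1
  have hζ1 := pvtzd_dir_norm hζ
  have hin : ∀ k, k ≤ 𝔖.nm → ((delMap h).src (pvasIt (delMap h) s (𝔖.em 𝔖.nm) k) : ℂ) ∈ pvwSq z (pvwRad N hh τ τ.k) ∧ ((delMap h).tgt (pvasIt (delMap h) s (𝔖.em 𝔖.nm) k) : ℂ) ∈ pvwSq z (pvwRad N hh τ τ.k) :=
    fun k hk => by rw [hit k hk]; exact ha.stub.em_in _ (Nat.sub_le _ _)
  obtain ⟨z₀, u, hz, hu, hQ, hval⟩ := pvhw_potD_ent h hζ hM hρ hr (fun w hw => hmesh w (closedBall_subset_closedBall (by linarith) hw)) E'.stop E'.tip hin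
    ha.stub.em_out t1 t2 t3 hadm hbig hrt
  obtain ⟨Mc, hMc⟩ := dlc_at h (h0.trans hrs0) hρ (fun w hw => hmesh w (closedBall_subset_closedBall (by linarith) hw)) (by linarith : rs + 3 * ρ < rs + 4 * ρ)
  have hsub : Mc.Left ⊆ M.Left := by
    intro x hx
    have h1 := hMc.out _ ⟨x, hx, rfl⟩
    exact hM.inn _ (by linarith) x rfl
  have hedge : ∀ x : DelDart h, ‖((delMap h).src x : ℂ) - τ.cm hh z‖ ≤ rs → ‖((delMap h).src x : ℂ) - (delMap h).tgt x‖ ≤ 2 * ρ := fun x hx =>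
    pvhg_adj_short hρ (pvhg_dense_sub hmesh (by linarith)) (dls_dart_adj x)
  rw [(delMap h).src_opp', (delMap h).tgt_opp] at hz
  obtain ⟨hzL, hzU⟩ := pvhj_tri_im hz (pvhj_im_near hζ1 t2) (pvhj_im_near hζ1 t1) (pvhj_im_near hζ1 t3)
  have hzW : (ζ * τ.cm hh z).re - rt ≤ z₀.re := pvhw_tri_re_ge hz (pvhj_re_near hζ1 t2).1 (pvhj_re_near hζ1 t1).1 (pvhj_re_near hζ1 t3).1
  obtain ⟨i₀, hi₀, hl1, hl2⟩ := ha.good.late_m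
  have hEx := pvhj_ex_in ha.stub ha.gate.bw_m
  have key := pvhj_tip_entD h hζ1 (Q := {v : Y | (v : ℂ) ∈ pvwSq z (pvwRad N hh τ τ.k)}) E'.bw E'.inj E'.stop E'.tip hin (fun v hv => (pvtzd_sq_le hζ hv).trans hadm) hzW hQ hu hzL hzU
    (by linarith : (0 : ℝ) ≤ 2 * ρ) (fun y hy hyr => hval y (lt_of_le_of_lt hadm hy) hyr) hMc hrs hsub hedge (m := 𝔖.nm - i₀) (Nat.sub_le _ _)
    (fun k hk => by
      rw [hit k (by omega)]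
      refine hM.inn _ ?_ _ rfl
      have a1 : ‖((delMap h).src (𝔖.em (𝔖.nm - k)) : ℂ) - τ.cm hh z‖ < N.rho2 * hh := (hl1 _ (by omega) (Nat.sub_le _ _)).1
      show ‖((delMap h).src (𝔖.em (𝔖.nm - k)) : ℂ) - τ.cm hh z‖ ≤ r
      linarith)
    (by
      rintro v (⟨i, hi, rfl⟩ | ⟨i, hi, rfl⟩) hv
      · refine Or.inl ⟨i, Nat.zero_le _, ?_, rfl⟩
        by_contra hlt
        have a1 : N.rho1 * hh / 2 < ‖((delMap h).src (𝔖.em (𝔖.nm - i)) : ℂ) - τ.cm hh z‖ := (hl2 _ (by omega)).1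
        rw [hit i hi] at hv
        linarith
      · refine Or.inr ⟨i, Nat.zero_le _, ?_, rfl⟩
        by_contra hlt
        have a1 : N.rho1 * hh / 2 < ‖((delMap h).tgt (𝔖.em (𝔖.nm - i)) : ℂ) - τ.cm hh z‖ := (hl2 _ (by omega)).2
        rw [hit i hi] at hv
        linarith) A
  rw [hEx] at key
  obtain ⟨x0, hx0, hj⟩ := key
  refine ⟨x0, hx0, ?_⟩
  have hend : pvhiEnd (delMap h) β (𝔖.em 𝔖.nm) ∈ (delMap h).VOf Mc.Left := by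
    rw [pl_VOf_left (dls_isSph h) Mc]
    refine Or.inr (hMc.inn _ ?_)
    cases β
    · exact g2.trans hrs0
    · exact g1.trans hrs0
  refine pl_hx_join_mono (subset_univ _) ?_ (pvhj_join_VOf (pl_left_face Mc) hj hend)
  rintro v ⟨hv | hv, hvM⟩
  · exact Or.inl ⟨hv.1, hv.2, hMc.out v hvM⟩
  · exact Or.inr hv

end st

/-! ## 5. feet, hybrid links, two half states -/

/-- **THE NUMBERS AT ONE TIP, PRESCRIBED SIDE** (colour-free, state-free): `PvhjEnd` + the tip face radius `rt` + the side `ζ` of the box `pvwSq z Rk`, which passes at most `rt` in front of the tip centre `c` -/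
structure PvhjEndD (Y : Set ℂ) (N : PvwNum) (hh : ℝ) (τ : PvwTy) (z c : ℂ) (K : Set Y) (r r₁ ρ rs rt : ℝ) (ζ : ℂ) : Prop where
  e : PvhjEnd Y N hh τ c K r r₁ ρ rs
  rt1 : 2 * rt + 5 * ρ ≤ r₁
  big : rt ≤ pvwRad N hh τ τ.k
  dir : ζ ∈ pvtzdDir
  adm : pvwRad N hh τ τ.k + (ζ * z).re ≤ (ζ * c).re + rt

section foot

variable {h : DelGood Y} {𝔖 : PvwSt (delMap h)} {N : PvwNum} {hh : ℝ} {z : ℂ} {τ : PvwTy} {K : Set Y} {r r₁ ρ rs rt : ℝ} {ζ : ℂ} {σ : Y → Bool} {κ : ℂ → Bool} {GN GC Sg : Bool → Set ℂ}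

/-- **THE FOOT AT THE TIP OF AN EXIT STUB, PRESCRIBED SIDE** -/
theorem pvhj_foot_outD (ha : 𝔖.AtOut (dlsPos Y) N hh z τ σ) (E : PvhjEndD Y N hh τ z (τ.cp hh z) K r r₁ ρ rs rt ζ)
    (ht1 : ‖((delMap h).src (𝔖.ep 𝔖.np) : ℂ) - τ.cp hh z‖ + 2 * ρ ≤ rt) (ht2 : ‖((delMap h).tgt (𝔖.ep 𝔖.np) : ℂ) - τ.cp hh z‖ + 2 * ρ ≤ rt)
    (A : ∀ β, PvhjArmT Y κ β ζ (τ.cp hh z) rt ρ rs β (GN β) (GC β) (Sg β))
    (hκ : ∀ v : Y, ‖(v : ℂ) - τ.cp hh z‖ ≤ rs → v ∉ 𝔖.bkP ∪ 𝔖.whP → σ v = κ v) : PvhjFoot h σ κ K (𝔖.ep 𝔖.np) GN := by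
  intro β
  obtain ⟨x0, hx0, hj⟩ := pvhj_st_exitD ha E.e.rho E.e.r2 E.e.r1 E.e.rr E.e.mesh E.e.far E.e.rs0 E.e.rs1 E.e.rs2 ht1 ht2 E.rt1 E.big E.dir E.adm (A β)
  refine ⟨x0, hx0, pl_hx_join_mono Subset.rfl ?_ hj⟩
  rintro v (⟨hv, hc, hn⟩ | ⟨hv, hnb⟩)
  · exact ⟨E.e.inK v hn, hc⟩
  · have hn : ‖(v : ℂ) - τ.cp hh z‖ ≤ rs := (A β).near v (hv.2.mono (inter_subset_inter_right _ subset_union_left))
    exact ⟨E.e.inK v (by linarith [E.e.rho]), (hκ v hn hnb).trans hv.1⟩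

/-- **THE FOOT AT THE TIP OF AN ENTRANCE STUB, PRESCRIBED SIDE** -/
theorem pvhj_foot_inD (ha : 𝔖.AtIn (dlsPos Y) N hh z τ σ) (E : PvhjEndD Y N hh τ z (τ.cm hh z) K r r₁ ρ rs rt ζ)
    (ht1 : ‖((delMap h).src (𝔖.em 𝔖.nm) : ℂ) - τ.cm hh z‖ + 2 * ρ ≤ rt) (ht2 : ‖((delMap h).tgt (𝔖.em 𝔖.nm) : ℂ) - τ.cm hh z‖ + 2 * ρ ≤ rt)
    (A : ∀ β, PvhjArmT Y κ β ζ (τ.cm hh z) rt ρ rs (!β) (GN β) (GC β) (Sg β))
    (hκ : ∀ v : Y, ‖(v : ℂ) - τ.cm hh z‖ ≤ rs → v ∉ 𝔖.bkM ∪ 𝔖.whM → σ v = κ v) : PvhjFoot h σ κ K (𝔖.em 𝔖.nm) GN := by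
  intro β
  obtain ⟨x0, hx0, hj⟩ := pvhj_st_entD ha E.e.rho E.e.r2 E.e.r1 E.e.rr E.e.mesh E.e.far E.e.rs0 E.e.rs1 E.e.rs2 ht1 ht2 E.rt1 E.big E.dir E.adm (A β)
  refine ⟨x0, hx0, pl_hx_join_mono Subset.rfl ?_ hj⟩
  rintro v (⟨hv, hc, hn⟩ | ⟨hv, hnb⟩)
  · exact ⟨E.e.inK v hn, hc⟩
  · have hn : ‖(v : ℂ) - τ.cm hh z‖ ≤ rs := (A β).near v (hv.2.mono (inter_subset_inter_right _ subset_union_left))
    exact ⟨E.e.inK v (by linarith [E.e.rho]), (hκ v hn hnb).trans hv.1⟩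

/-- **TIP OF AN EXIT STUB → ANY FOOT, PRESCRIBED SIDE** -/
theorem pvhj_run_outD (ha : 𝔖.AtOut (dlsPos Y) N hh z τ σ) (E : PvhjEndD Y N hh τ z (τ.cp hh z) K r r₁ ρ rs rt ζ)
    (ht1 : ‖((delMap h).src (𝔖.ep 𝔖.np) : ℂ) - τ.cp hh z‖ + 2 * ρ ≤ rt) (ht2 : ‖((delMap h).tgt (𝔖.ep 𝔖.np) : ℂ) - τ.cp hh z‖ + 2 * ρ ≤ rt)
    (A : ∀ β, PvhjArmT Y κ β ζ (τ.cp hh z) rt ρ rs β (GN β) (GC β) (Sg β))
    (hκ : ∀ v : Y, ‖(v : ℂ) - τ.cp hh z‖ ≤ rs → v ∉ 𝔖.bkP ∪ 𝔖.whP → σ v = κ v)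
    (hK : K.Finite) (hco : ∀ u v, u ∉ K → v ∉ K → (delMap h).Join univ Kᶜ u v) (hgp : 𝔖.gp ∉ K)
    {a₁ : DelDart h} (h1 : pvasBW (delMap h) σ a₁) (hdis : (delMap h).src a₁ ∉ 𝔖.bkP) {H₁ G : Bool → Set ℂ} (J₁ : PvhjFoot h σ κ K a₁ H₁) (hG : PvhjMid Y σ κ K G)
    (hH₀ : ∀ β, GN β ⊆ G β) (hH₁ : ∀ β, H₁ β ⊆ G β) : PvldRun (delMap h) σ K (𝔖.ep 𝔖.np) a₁ :=
  pvhj_run_foot h hK (pvwk_ep_bw ha.stub ha.gate.bw_p le_rfl) h1 (fun e => hdis ⟨𝔖.np, le_rfl, e⟩) hco (pvhj_out_stub ha E.e hgp h1 hdis) (pvhj_foot_outD ha E ht1 ht2 A hκ) J₁ hG hH₀ hH₁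

/-- **ANY FOOT → TIP OF AN ENTRANCE STUB, PRESCRIBED SIDE** -/
theorem pvhj_run_inD (ha : 𝔖.AtIn (dlsPos Y) N hh z τ σ) (E : PvhjEndD Y N hh τ z (τ.cm hh z) K r r₁ ρ rs rt ζ)
    (ht1 : ‖((delMap h).src (𝔖.em 𝔖.nm) : ℂ) - τ.cm hh z‖ + 2 * ρ ≤ rt) (ht2 : ‖((delMap h).tgt (𝔖.em 𝔖.nm) : ℂ) - τ.cm hh z‖ + 2 * ρ ≤ rt)
    (A : ∀ β, PvhjArmT Y κ β ζ (τ.cm hh z) rt ρ rs (!β) (GN β) (GC β) (Sg β))
    (hκ : ∀ v : Y, ‖(v : ℂ) - τ.cm hh z‖ ≤ rs → v ∉ 𝔖.bkM ∪ 𝔖.whM → σ v = κ v)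
    (hK : K.Finite) (hco : ∀ u v, u ∉ K → v ∉ K → (delMap h).Join univ Kᶜ u v)
    {a₀ : DelDart h} (h0 : pvasBW (delMap h) σ a₀) (hne : (delMap h).src a₀ ≠ (delMap h).src (𝔖.em 𝔖.nm))
    (hO : ∃ f, (delMap h).src f ∉ K ∧ (delMap h).DJoin (pvldBar (delMap h) σ K a₀ (𝔖.em 𝔖.nm)) ((delMap h).opp a₀) f)
    {H₀ G : Bool → Set ℂ} (J₀ : PvhjFoot h σ κ K a₀ H₀) (hG : PvhjMid Y σ κ K G) (hH₀ : ∀ β, H₀ β ⊆ G β) (hH₁ : ∀ β, GN β ⊆ G β) : PvldRun (delMap h) σ K a₀ (𝔖.em 𝔖.nm) :=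
  pvhj_run_foot h hK h0 (pvwk_em_bw ha.stub ha.gate.bw_m le_rfl) hne hco hO J₀ (pvhj_foot_inD ha E ht1 ht2 A hκ) hG hH₀ hH₁

end foot

section two

variable {h : DelGood Y} {𝔖t 𝔖s : PvwSt (delMap h)} {N : PvwNum} {ht hs : ℝ} {zt zs : ℂ} {τt τs : PvwTy} {K : Set Y} {r r₁ ρ rs rt r' r₁' ρ' rs' rt' : ℝ} {ζt ζs : ℂ} {σ : Y → Bool} {κ : ℂ → Bool}
  {GNt GCt Sgt GNs GCs Sgs G : Bool → Set ℂ}

/-- **TWO HALF STATES (TWO SCALES), PRESCRIBED SIDES** -/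
theorem pvhj_run_stD (at_t : 𝔖t.AtOut (dlsPos Y) N ht zt τt σ) (at_s : 𝔖s.AtIn (dlsPos Y) N hs zs τs σ)
    (Et : PvhjEndD Y N ht τt zt (τt.cp ht zt) K r r₁ ρ rs rt ζt) (Es : PvhjEndD Y N hs τs zs (τs.cm hs zs) K r' r₁' ρ' rs' rt' ζs)
    (ht1 : ‖((delMap h).src (𝔖t.ep 𝔖t.np) : ℂ) - τt.cp ht zt‖ + 2 * ρ ≤ rt) (ht2 : ‖((delMap h).tgt (𝔖t.ep 𝔖t.np) : ℂ) - τt.cp ht zt‖ + 2 * ρ ≤ rt)
    (hs1 : ‖((delMap h).src (𝔖s.em 𝔖s.nm) : ℂ) - τs.cm hs zs‖ + 2 * ρ' ≤ rt') (hs2 : ‖((delMap h).tgt (𝔖s.em 𝔖s.nm) : ℂ) - τs.cm hs zs‖ + 2 * ρ' ≤ rt')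
    (hK : K.Finite) (hco : ∀ u v, u ∉ K → v ∉ K → (delMap h).Join univ Kᶜ u v) (hgp : 𝔖t.gp ∉ K) (hdis : (delMap h).src (𝔖s.em 𝔖s.nm) ∉ 𝔖t.bkP)
    (At : ∀ β, PvhjArmT Y κ β ζt (τt.cp ht zt) rt ρ rs β (GNt β) (GCt β) (Sgt β)) (As : ∀ β, PvhjArmT Y κ β ζs (τs.cm hs zs) rt' ρ' rs' (!β) (GNs β) (GCs β) (Sgs β))
    (hG : PvhjMid Y σ κ K G) (hsub_t : ∀ β, GNt β ⊆ G β) (hsub_s : ∀ β, GNs β ⊆ G β)
    (hκt : ∀ v : Y, ‖(v : ℂ) - τt.cp ht zt‖ ≤ rs → v ∉ 𝔖t.bkP ∪ 𝔖t.whP → σ v = κ v) (hκs : ∀ v : Y, ‖(v : ℂ) - τs.cm hs zs‖ ≤ rs' → v ∉ 𝔖s.bkM ∪ 𝔖s.whM → σ v = κ v) :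
    PvldRun (delMap h) σ K (𝔖t.ep 𝔖t.np) (𝔖s.em 𝔖s.nm) :=
  pvhj_run_outD at_t Et ht1 ht2 At hκt hK hco hgp (pvwk_em_bw at_s.stub at_s.gate.bw_m le_rfl) hdis (pvhj_foot_inD at_s Es hs1 hs2 As hκs) hG hsub_t hsub_s

end two

/-! ### any presentation of the Delaunay plane -/

section pl

variable {h : DelGood Y} {P : PlTri ↥Y} {𝔖 : PvwSt P.toMap} {N : PvwNum} {hh : ℝ} {z : ℂ} {τ : PvwTy} {K : Set Y} {r r₁ ρ rs rt : ℝ} {ζ : ℂ} {σ : Y → Bool} {κ : ℂ → Bool} {GN GC Sg : Bool → Set ℂ}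

theorem pvhj_foot_outD_pl (hP : P = delPl h) (ha : 𝔖.AtOut (dlsPos Y) N hh z τ σ) (E : PvhjEndD Y N hh τ z (τ.cp hh z) K r r₁ ρ rs rt ζ)
    (ht1 : ‖(P.toMap.src (𝔖.ep 𝔖.np) : ℂ) - τ.cp hh z‖ + 2 * ρ ≤ rt) (ht2 : ‖(P.toMap.tgt (𝔖.ep 𝔖.np) : ℂ) - τ.cp hh z‖ + 2 * ρ ≤ rt)
    (A : ∀ β, PvhjArmT Y κ β ζ (τ.cp hh z) rt ρ rs β (GN β) (GC β) (Sg β))
    (hκ : ∀ v : Y, ‖(v : ℂ) - τ.cp hh z‖ ≤ rs → v ∉ 𝔖.bkP ∪ 𝔖.whP → σ v = κ v) : PvhjFootP P σ κ K (𝔖.ep 𝔖.np) GN := by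
  subst hP
  exact pvhj_foot_outD ha E ht1 ht2 A hκ

theorem pvhj_foot_inD_pl (hP : P = delPl h) (ha : 𝔖.AtIn (dlsPos Y) N hh z τ σ) (E : PvhjEndD Y N hh τ z (τ.cm hh z) K r r₁ ρ rs rt ζ)
    (ht1 : ‖(P.toMap.src (𝔖.em 𝔖.nm) : ℂ) - τ.cm hh z‖ + 2 * ρ ≤ rt) (ht2 : ‖(P.toMap.tgt (𝔖.em 𝔖.nm) : ℂ) - τ.cm hh z‖ + 2 * ρ ≤ rt)
    (A : ∀ β, PvhjArmT Y κ β ζ (τ.cm hh z) rt ρ rs (!β) (GN β) (GC β) (Sg β))
    (hκ : ∀ v : Y, ‖(v : ℂ) - τ.cm hh z‖ ≤ rs → v ∉ 𝔖.bkM ∪ 𝔖.whM → σ v = κ v) : PvhjFootP P σ κ K (𝔖.em 𝔖.nm) GN := by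
  subst hP
  exact pvhj_foot_inD ha E ht1 ht2 A hκ

/-- **FIRST LINK** `tip of an exit stub → any foot`, any presentation, prescribed side -/
theorem pvhj_run_outD_pl (hP : P = delPl h) (ha : 𝔖.AtOut (dlsPos Y) N hh z τ σ) (E : PvhjEndD Y N hh τ z (τ.cp hh z) K r r₁ ρ rs rt ζ)
    (ht1 : ‖(P.toMap.src (𝔖.ep 𝔖.np) : ℂ) - τ.cp hh z‖ + 2 * ρ ≤ rt) (ht2 : ‖(P.toMap.tgt (𝔖.ep 𝔖.np) : ℂ) - τ.cp hh z‖ + 2 * ρ ≤ rt)
    (A : ∀ β, PvhjArmT Y κ β ζ (τ.cp hh z) rt ρ rs β (GN β) (GC β) (Sg β))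
    (hκ : ∀ v : Y, ‖(v : ℂ) - τ.cp hh z‖ ≤ rs → v ∉ 𝔖.bkP ∪ 𝔖.whP → σ v = κ v)
    (hK : K.Finite) (hco : ∀ u v, u ∉ K → v ∉ K → P.toMap.Join univ Kᶜ u v) (hgp : 𝔖.gp ∉ K)
    {a₁ : P.Dart} (h1 : pvasBW P.toMap σ a₁) (hdis : P.toMap.src a₁ ∉ 𝔖.bkP) {H₁ G : Bool → Set ℂ} (J₁ : PvhjFootP P σ κ K a₁ H₁) (hG : PvhjMid Y σ κ K G)
    (hH₀ : ∀ β, GN β ⊆ G β) (hH₁ : ∀ β, H₁ β ⊆ G β) : PvldRun P.toMap σ K (𝔖.ep 𝔖.np) a₁ := by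
  subst hP
  exact pvhj_run_outD ha E ht1 ht2 A hκ hK hco hgp h1 hdis J₁ hG hH₀ hH₁

/-- **LAST LINK** `any foot → tip of an entrance stub`, any presentation, prescribed side -/
theorem pvhj_run_inD_pl (hP : P = delPl h) (ha : 𝔖.AtIn (dlsPos Y) N hh z τ σ) (E : PvhjEndD Y N hh τ z (τ.cm hh z) K r r₁ ρ rs rt ζ)
    (ht1 : ‖(P.toMap.src (𝔖.em 𝔖.nm) : ℂ) - τ.cm hh z‖ + 2 * ρ ≤ rt) (ht2 : ‖(P.toMap.tgt (𝔖.em 𝔖.nm) : ℂ) - τ.cm hh z‖ + 2 * ρ ≤ rt)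
    (A : ∀ β, PvhjArmT Y κ β ζ (τ.cm hh z) rt ρ rs (!β) (GN β) (GC β) (Sg β))
    (hκ : ∀ v : Y, ‖(v : ℂ) - τ.cm hh z‖ ≤ rs → v ∉ 𝔖.bkM ∪ 𝔖.whM → σ v = κ v)
    (hK : K.Finite) (hco : ∀ u v, u ∉ K → v ∉ K → P.toMap.Join univ Kᶜ u v)
    {a₀ : P.Dart} (h0 : pvasBW P.toMap σ a₀) (hne : P.toMap.src a₀ ≠ P.toMap.src (𝔖.em 𝔖.nm))
    (hO : ∃ f, P.toMap.src f ∉ K ∧ P.toMap.DJoin (pvldBar P.toMap σ K a₀ (𝔖.em 𝔖.nm)) (P.toMap.opp a₀) f)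
    {H₀ G : Bool → Set ℂ} (J₀ : PvhjFootP P σ κ K a₀ H₀) (hG : PvhjMid Y σ κ K G) (hH₀ : ∀ β, H₀ β ⊆ G β) (hH₁ : ∀ β, GN β ⊆ G β) : PvldRun P.toMap σ K a₀ (𝔖.em 𝔖.nm) := by
  subst hP
  exact pvhj_run_inD ha E ht1 ht2 A hκ hK hco h0 hne hO J₀ hG hH₀ hH₁

end pl

/-! ## 6. `adm` is paid by the state when `ζ` is the DOMINANT direction of `c - z`      (model: `dout t = I ^ pvxrSide y⁺`, `pvxr_side_dom`) -/

/-- a site off the box within `rt` of `c` + `ζ` = a dominant direction of `c - z`  ⟹  the side `ζ` of the box passes at most `rt` in front of `c` -/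
theorem pvhj_adm_of_dom {ζ z c a : ℂ} {Rk rt : ℝ} (hdom : ∀ ζ' ∈ pvtzdDir, (ζ' * (c - z)).re ≤ (ζ * (c - z)).re) (hout : a ∉ pvwSq z Rk) (hn : ‖a - c‖ ≤ rt) : Rk + (ζ * z).re ≤ (ζ * c).re + rt := by
  obtain ⟨ζ', hζ', hlt⟩ := pvtzd_sq_out (zc := z) (r := Rk) (w := a) hout
  have h1 := (pvhj_re_near (pvtzd_dir_norm hζ') hn).2
  have h2 := hdom ζ' hζ'
  have e1 : (ζ' * (c - z)).re = (ζ' * c).re - (ζ' * z).re := by rw [mul_sub, Complex.sub_re]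
  have e2 : (ζ * (c - z)).re = (ζ * c).re - (ζ * z).re := by rw [mul_sub, Complex.sub_re]
  linarith

/-- the four directions against the sup norm -/
theorem pvhj_dir_le_sup {ζ' : ℂ} (hζ' : ζ' ∈ pvtzdDir) (w : ℂ) : (ζ' * w).re ≤ max |w.re| |w.im| := by
  rcases hζ' with rfl | rfl | rfl | rfl
  · simp only [one_mul]; exact (le_abs_self _).trans (le_max_left _ _)
  · simp only [neg_mul, one_mul, Complex.neg_re]; exact (neg_le_abs _).trans (le_max_left _ _)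
  · simp only [Complex.mul_re, Complex.I_re, Complex.I_im, zero_mul, one_mul, zero_sub]; exact (neg_le_abs _).trans (le_max_right _ _)
  · simp only [neg_mul, Complex.neg_re, Complex.mul_re, Complex.I_re, Complex.I_im, zero_mul, one_mul, zero_sub, neg_neg]; exact (le_abs_self _).trans (le_max_right _ _)

/-- `hdom` from `re (ζ y) = ‖y‖_∞` (`pvxr_side_dom`), `c - z = h y`, `0 ≤ h` -/
theorem pvhj_dom_of_sup {ζ y : ℂ} {hh : ℝ} (h0 : 0 ≤ hh) (hy : (ζ * y).re = max |y.re| |y.im|) : ∀ ζ' ∈ pvtzdDir, (ζ' * ((hh : ℂ) * y)).re ≤ (ζ * ((hh : ℂ) * y)).re := by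
  intro ζ' hζ'
  have e : ∀ ξ : ℂ, (ξ * ((hh : ℂ) * y)).re = hh * (ξ * y).re := by
    intro ξ
    rw [show ξ * ((hh : ℂ) * y) = (hh : ℂ) * (ξ * y) by ring, Complex.re_ofReal_mul]
  rw [e, e, hy]
  exact mul_le_mul_of_nonneg_left (pvhj_dir_le_sup hζ' y) h0

/-- the powers of `I` (the door normals of the model) and their conjugates are among the four directions -/
theorem pvhj_dir_pow (k : ℕ) : Complex.I ^ k ∈ pvtzdDir := by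
  induction k with
  | zero => left; simp
  | succ n ih =>
    rw [pow_succ]
    rcases ih with e | e | e | e <;> rw [e]
    · right; right; left; simp
    · right; right; right; simp
    · right; left; simp
    · left; simp

theorem pvhj_dir_conj {ζ : ℂ} (hζ : ζ ∈ pvtzdDir) : (starRingEnd ℂ) ζ ∈ pvtzdDir := by
  rcases hζ with rfl | rfl | rfl | rfl
  · left; simp
  · right; left; simp
  · right; right; right; simp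
  · right; right; left; simp

section endD

variable {h : DelGood Y} {𝔖 : PvwSt (delMap h)} {N : PvwNum} {hh : ℝ} {z : ℂ} {τ : PvwTy} {K : Set Y} {r r₁ ρ rs rt : ℝ} {ζ : ℂ} {s : Y → Bool}

/-- **`PvhjEndD` at an exit tip** from `PvhjEnd` + numbers + `ζ` dominant -/
theorem pvhj_endD_out (ha : 𝔖.AtOut (dlsPos Y) N hh z τ s) (E : PvhjEnd Y N hh τ (τ.cp hh z) K r r₁ ρ rs) (ht1 : ‖((delMap h).src (𝔖.ep 𝔖.np) : ℂ) - τ.cp hh z‖ + 2 * ρ ≤ rt)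
    (hrt : 2 * rt + 5 * ρ ≤ r₁) (hbig : rt ≤ pvwRad N hh τ τ.k) (hζ : ζ ∈ pvtzdDir) (hdom : ∀ ζ' ∈ pvtzdDir, (ζ' * (τ.cp hh z - z)).re ≤ (ζ * (τ.cp hh z - z)).re) :
    PvhjEndD Y N hh τ z (τ.cp hh z) K r r₁ ρ rs rt ζ :=
  ⟨E, hrt, hbig, hζ, pvhj_adm_of_dom hdom ha.stub.ep_out (pvhj_ap_near ha E.rho (by linarith [E.r1, E.rr, E.rho, (norm_nonneg _).trans ha.good.tip_p.1]) E.mesh ht1)⟩

/-- **`PvhjEndD` at an entrance tip** -/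
theorem pvhj_endD_in (ha : 𝔖.AtIn (dlsPos Y) N hh z τ s) (E : PvhjEnd Y N hh τ (τ.cm hh z) K r r₁ ρ rs) (ht1 : ‖((delMap h).src (𝔖.em 𝔖.nm) : ℂ) - τ.cm hh z‖ + 2 * ρ ≤ rt)
    (hrt : 2 * rt + 5 * ρ ≤ r₁) (hbig : rt ≤ pvwRad N hh τ τ.k) (hζ : ζ ∈ pvtzdDir) (hdom : ∀ ζ' ∈ pvtzdDir, (ζ' * (τ.cm hh z - z)).re ≤ (ζ * (τ.cm hh z - z)).re) :
    PvhjEndD Y N hh τ z (τ.cm hh z) K r r₁ ρ rs rt ζ :=
  ⟨E, hrt, hbig, hζ, pvhj_adm_of_dom hdom ha.stub.em_out (pvhj_am_near ha E.rho (by linarith [E.r1, E.rr, E.rho, (norm_nonneg _).trans ha.good.tip_m.1]) E.mesh ht1)⟩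

end endD

end del

end Claimed.Agent.R289
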