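import Claimed.Agent.R289.Tr.HookYD
import Claimed.Agent.R289.Tr.LocalW
import Claimed.Agent.R289.Tr.HookT

/-!
# Row 289 (S0537), box TR, WB5 HOOK, file Tr/HookYT : THE FOOT AT A TIP IS CARRIED FROM THE BASE SITE SET TO THE FINAL SITE SET      (owner helper23; hostile line + plan of helper66; prefix `pvhj_…T`)

THE PROBLEM (66).   DET is owed at EVERY final configuration `η` (arbitrary off the window); the tip theorems need the mesh of the BIG mouth `B(c, ρ₂ h + ..)` (the last piece of the stub wanders there), which is not in the window.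
THE CURE.   Apply the tip theorem at `(Y₀, σ₁)`: `Y₀` = the sites of the base `η₀` (mesh of the big ball = a certificate on `η₀`), `σ₁` = the colouring of `η₀` recoloured in the mouth with the colours of `η`;   carry the join (it lives in `B(c, rs + 4ρ)`) to the plane of `Y`
along a positioned local isomorphism `PvLocP` of 22 whose patch `Kr` contains `closedBall c (rs + 4ρ)`.   The arms are given AT THE FINAL SITE SET `Y` and carried to `Y₀` by locality of the cells.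
* sec.1  `pvhj_joinT` (joins are carried along `PvLocP`), `pvhj_sitesT` (same sites over `Kr`)
* sec.2  `pvhj_cellT` (locality of cells), `PvhjArmD.carry`, `pvhj_V_T`
* sec.3  **`pvhj_foot_outT`**, **`pvhj_foot_inT`** : `PvhjFoot h σ κ K (tip of the carried state) GN`
* sec.4  `pvhj_out_stubT` (OUT behind the tip of an exit stub: `StubP` + `bw` only), **`pvhj_run_outT`**, **`pvhj_run_inT`**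
* sec.5  any presentation `P₀ = delPl h₀`, `P = delPl h` : `pvhj_foot_outT_pl`, `pvhj_foot_inT_pl`, `pvhj_run_outT_pl`, `pvhj_run_inT_pl`
* sec.6  **THE FORMS OF 66** (`Tr/HookT`: `pvhu_foot_in`, `pvhu_foot_out`, `_pl`) AT ALL TIP CELLS: the two site sets agree on `U ⊇ closedBall c (rs + 4ρ + 3μ)`, mesh `μ` read in `U`, `a` = any dart of `Y` with the end points of the tip dart, frozen colours kept, copy colours elsewhere: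
         **`pvhj_foot_inU`**, **`pvhj_foot_outU`**, **`pvhj_foot_inU_pl`**, **`pvhj_foot_outU_pl`** = his statements with `E : PvhjEndD`, `A : PvhjArmT`, WITHOUT `hζ hout hS`
0 SORRY.
-/

set_option autoImplicit false
set_option linter.unusedSectionVars false
set_option linter.unusedVariables false

namespace Claimed.Agent.R289

open Relation Set Metric

/-! ## 1. joins are carried along a positioned local isomorphism -/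

section abs

variable {V D V' D' : Type} {T : PvMap V D} {T' : PvMap V' D'} {R : D → D' → Prop} {pos : V → ℂ} {pos' : V' → ℂ} {Kr : Set ℂ}

/-- **a join through sites placed in `Kr` is carried over** -/
theorem pvhj_joinT (L : PvLocP T T' R pos pos' Kr) {X : Set V} {X' : Set V'} (hX : ∀ v ∈ X, pos v ∈ Kr) (hXX : ∀ v v', pvlocV T T' R v v' → v ∈ X → v' ∈ X') {a b : V} {a' : V'}
    (ha : pvlocV T T' R a a') (h : T.Join univ X a b) : ∃ b', pvlocV T T' R b b' ∧ T'.Join univ X' a' b' := by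
  obtain ⟨haX, hp⟩ := h
  have key : ∀ y, ReflTransGen (fun p q => T.EdgeIn univ p q ∧ q ∈ X) a y → y ∈ X ∧ ∃ y', pvlocV T T' R y y' ∧ ReflTransGen (fun p q => T'.EdgeIn univ p q ∧ q ∈ X') a' y' := by
    intro y hy
    induction hy with
    | refl => exact ⟨haX, a', ha, ReflTransGen.refl⟩
    | @tail y w _ hyw ih =>
      obtain ⟨hyX, y', hyy, hch⟩ := ih
      obtain ⟨x, -, e1, e2⟩ := hyw.1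
      obtain ⟨x', hx⟩ := pvlw_dart_src L (d := x) (by rw [e1]; exact hX y hyX)
      obtain ⟨d, d', hd, f1, f2⟩ := hyy
      have g1 : T'.src x' = y' := by
        rw [← f2]
        exact L.loc.vfn hx hd (by rw [e1, f1])
      have hw : pvlocV T T' R w (T'.tgt x') := ⟨T.nxt x, T'.nxt x', L.loc.iso.nxt hx, by rw [T.src_nxt, e2], by rw [T'.src_nxt]⟩
      exact ⟨hyw.2, T'.tgt x', hw, hch.tail ⟨⟨x', Or.inl (mem_univ _), g1, rfl⟩, hXX _ _ hw hyw.2⟩⟩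
  obtain ⟨-, b', hb, hch⟩ := key b hp
  exact ⟨b', hb, hXX _ _ ha haX, hch⟩

end abs

section del

variable {Y₀ Y : Set ℂ}

/-- the two site sets have the same sites over the patch -/
theorem pvhj_sitesT {h₀ : DelGood Y₀} {h : DelGood Y} {R : DelDart h₀ → DelDart h → Prop} {Kr : Set ℂ} (L : PvLocP (delMap h₀) (delMap h) R (dlsPos Y₀) (dlsPos Y) Kr) {w : ℂ} (hw : w ∈ Kr) :
    w ∈ Y₀ ↔ w ∈ Y := by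
  constructor
  · intro h1
    obtain ⟨v', hv'⟩ := pvlw_vertex L (v := (⟨w, h1⟩ : Y₀)) hw
    have e : w = (v' : ℂ) := pvlw_pos L hv'
    rw [e]; exact v'.2
  · intro h1
    obtain ⟨v', hv'⟩ := pvlw_vertex L.symm (v := (⟨w, h1⟩ : Y)) hw
    have e : w = (v' : ℂ) := pvlw_pos L.symm hv'
    rw [e]; exact v'.2

/-! ## 2. locality of the cells, the arms -/

/-- **locality of a cell at a point `p`**: same sites within `b + ρ` of `c`, `‖p - c‖ ≤ b`, a site within `ρ` of `p` -/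
theorem pvhj_cellT {Y₁ Y₂ : Set ℂ} {c : ℂ} {b ρ : ℝ} (hS : ∀ w, ‖w - c‖ ≤ b + ρ → (w ∈ Y₁ ↔ w ∈ Y₂)) {p v : ℂ} (hp : ‖p - c‖ ≤ b) (hu : ∃ u ∈ Y₁, ‖p - u‖ ≤ ρ) (hv : v ∈ Y₁)
    (hc : p ∈ vorCell Y₁ v) : v ∈ Y₂ ∧ p ∈ vorCell Y₂ v := by
  obtain ⟨u, hu1, hu2⟩ := hu
  have h1 : ‖p - v‖ ≤ ρ := (hc u hu1).trans hu2
  have hn : ∀ w : ℂ, ‖p - w‖ ≤ ρ → ‖w - c‖ ≤ b + ρ := by
    intro w hw
    have := pvhg_tri3 w p c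
    rw [norm_sub_rev w p] at this
    linarith
  refine ⟨(hS v (hn v h1)).1 hv, fun w hw => ?_⟩
  by_cases h2 : ‖p - w‖ ≤ ρ
  · exact hc w ((hS w (hn w h2)).2 hw)
  · exact h1.trans (not_le.1 h2).le

/-- **the arm is carried to a site set with the same sites in `B(c, rs + 3ρ')`** (`ρ'` = mesh of `Y₀` there) -/
theorem PvhjArmD.carry {κ : ℂ → Bool} {β : Bool} {ζ : ℂ} {xW xE yL yU μ : ℝ} {c : ℂ} {rs : ℝ} {up : Bool} {GN GC Sg : Set ℂ} (A : PvhjArmD Y κ β ζ xW xE yL yU μ c rs up GN GC Sg)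
    (lf : VorLF Y) {ρ : ℝ} (hρ : 0 < ρ) (hS : ∀ w, ‖w - c‖ ≤ rs + 3 * ρ → (w ∈ Y₀ ↔ w ∈ Y)) (hd₀ : VorDense Y₀ (closedBall c (rs + 2 * ρ)) ρ) :
    PvhjArmD Y₀ κ β ζ xW xE yL yU μ c rs up GN GC Sg ∧ (∀ p ∈ GN ∪ GC ∪ Sg, ‖p - c‖ ≤ rs + ρ) ∧ VorDense Y (closedBall c (rs + 2 * ρ)) ρ := by
  have hd : VorDense Y (closedBall c (rs + 2 * ρ)) ρ := by
    intro p hp
    obtain ⟨u, hu, hpu⟩ := hd₀ p hp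
    rw [mem_closedBall, dist_eq_norm] at hp
    refine ⟨u, (hS u ?_).1 hu, hpu⟩
    have := pvhg_tri3 u p c
    rw [norm_sub_rev u p] at this
    linarith
  have hne : Y.Nonempty := by
    obtain ⟨p, hp, -⟩ := A.nc
    obtain ⟨v, hv, -⟩ := A.cov (Or.inl hp)
    exact ⟨v, hv.1⟩
  have hG : ∀ p ∈ GN ∪ GC ∪ Sg, ‖p - c‖ ≤ rs + ρ := by
    intro p hp
    obtain ⟨v, hv, hpv⟩ := vor_cover lf hne p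
    have h1 : ‖v - c‖ ≤ rs := A.near ⟨v, hv⟩ ⟨p, hpv, hp⟩
    have h2 : vorCell Y v ⊆ closedBall v ρ := by
      refine pvge_cell_core hρ.le (by linarith : ρ < 2 * ρ) hd (show v ∈ pvtrCore (2 * ρ) (closedBall c (rs + 2 * ρ)) from ?_)
      intro w hw
      rw [mem_closedBall, dist_eq_norm] at hw ⊢
      have := pvhg_tri3 w v c
      linarith
    have h3 := h2 hpv
    rw [mem_closedBall, dist_eq_norm] at h3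
    have := pvhg_tri3 p v c
    linarith
  have hS' : ∀ w, ‖w - c‖ ≤ rs + ρ + ρ → (w ∈ Y₀ ↔ w ∈ Y) := fun w hw => hS w (by linarith)
  have hin : ∀ p, ‖p - c‖ ≤ rs + ρ → p ∈ closedBall c (rs + 2 * ρ) := fun p hp => by rw [mem_closedBall, dist_eq_norm]; linarith
  -- a cell of `Y₀` which meets the sets is a cell of `Y`
  have hm : ∀ (G' : Set ℂ), G' ⊆ GN ∪ GC ∪ Sg → ∀ v : Y₀, (vorCell Y₀ v ∩ G').Nonempty → ∃ hv : (v : ℂ) ∈ Y, (vorCell Y ((⟨v, hv⟩ : Y) : ℂ) ∩ G').Nonempty := by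
    rintro G' hG' v ⟨p, hp1, hp2⟩
    have hp := hG p (hG' hp2)
    obtain ⟨a1, a2⟩ := pvhj_cellT hS' hp (hd₀ p (hin p hp)) v.2 hp1
    exact ⟨a1, p, a2, hp2⟩
  refine ⟨⟨A.cN, A.cC, A.cS, A.nc, ?_, ?_, ?_, ?_, ?_, ?_, A.sc0, A.sn0⟩, hG, hd⟩
  · intro p hp
    obtain ⟨v, hv, hpv⟩ := A.cov hp
    have hp' := hG p (Or.inl hp)
    obtain ⟨a1, a2⟩ := pvhj_cellT (fun w hw => (hS' w hw).symm) hp' (hd p (hin p hp')) hv.1 hpv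
    exact ⟨v, ⟨a1, hv.2⟩, a2⟩
  · intro v hv
    obtain ⟨a1, a2⟩ := hm _ Subset.rfl v hv
    exact A.near ⟨v, a1⟩ a2
  · intro v hv
    obtain ⟨a1, a2⟩ := hm _ subset_union_right v hv
    exact A.sOut ⟨v, a1⟩ a2
  · intro v hv
    obtain ⟨a1, a2⟩ := hm _ (subset_union_left.trans subset_union_left) v hv
    exact A.nSide ⟨v, a1⟩ a2
  · intro v hv
    obtain ⟨a1, a2⟩ := hm _ (subset_union_right.trans subset_union_left) v hv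
    exact A.cOff ⟨v, a1⟩ a2
  · intro v hv hv'
    obtain ⟨a1, a2⟩ := hm _ subset_union_right v hv
    obtain ⟨_, a3⟩ := hm _ (subset_union_right.trans subset_union_left) v hv'
    exact A.sc ⟨v, a1⟩ a2 a3

/-! ## 3. the feet -/

section foot

variable {h₀ : DelGood Y₀} {h : DelGood Y} {R : DelDart h₀ → DelDart h → Prop} {Kr : Set ℂ}

/-- the ends of twin darts are twins -/
theorem pvhj_endT (L : PvLocP (delMap h₀) (delMap h) R (dlsPos Y₀) (dlsPos Y) Kr) {d : DelDart h₀} {d' : DelDart h} (hd : R d d') (β : Bool) :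
    pvlocV (delMap h₀) (delMap h) R (pvhiEnd (delMap h₀) β d) (pvhiEnd (delMap h) β d') := by
  cases β
  · exact ⟨(delMap h₀).nxt d, (delMap h).nxt d', L.loc.iso.nxt hd, by rw [(delMap h₀).src_nxt]; rfl, by rw [(delMap h).src_nxt]; rfl⟩
  · exact ⟨d, d', hd, rfl, rfl⟩

/-- **THE CORE**: a join of the plane of `Y₀` from an end of the tip dart to a site of `pvhjV Y₀ κ β GN`, through sites within `rs + 4ρ` of `c` ⟹ the foot in the plane of `Y` -/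
theorem pvhj_footT (L : PvLocP (delMap h₀) (delMap h) R (dlsPos Y₀) (dlsPos Y) Kr) {c : ℂ} {rs ρ : ℝ} (hρ : 0 < ρ) (hKr : closedBall c (rs + 4 * ρ) ⊆ Kr) {d : DelDart h₀} {d' : DelDart h} (hd : R d d')
    {σ₁ : Y₀ → Bool} {σ : Y → Bool} {κ : ℂ → Bool} {K : Set Y} {β : Bool} {GN : Set ℂ} {X₀ : Set Y₀} (hX₀ : ∀ v ∈ X₀, ‖(v : ℂ) - c‖ < rs + 4 * ρ ∧ σ₁ v = β)
    (hcol : ∀ (v₀ : Y₀) (v : Y), (v₀ : ℂ) = v → ‖(v : ℂ) - c‖ < rs + 4 * ρ → σ₁ v₀ = σ v) (hK : ∀ v : Y, ‖(v : ℂ) - c‖ < rs + 4 * ρ → v ∈ K)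
    (hGN : ∀ p ∈ GN, ‖p - c‖ ≤ rs + ρ) (hd₀ : VorDense Y₀ (closedBall c (rs + 2 * ρ)) ρ)
    {x0 : Y₀} (hx0 : x0 ∈ pvhjV Y₀ κ β GN) (hj : (delMap h₀).Join univ X₀ (pvhiEnd (delMap h₀) β d) x0) :
    ∃ x ∈ pvhjV Y κ β GN, (delMap h).Join univ (pvldCol σ K β) (pvhiEnd (delMap h) β d') x := by
  have hS : ∀ w, ‖w - c‖ ≤ rs + 4 * ρ → (w ∈ Y₀ ↔ w ∈ Y) := fun w hw => pvhj_sitesT L (hKr (by rw [mem_closedBall, dist_eq_norm]; exact hw))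
  obtain ⟨x, hx, hjx⟩ := pvhj_joinT L (X := X₀) (X' := pvldCol σ K β) (fun v hv => hKr (by rw [mem_closedBall, dist_eq_norm]; exact (hX₀ v hv).1.le))
    (fun v v' hvv hv => by
      have e : (v : ℂ) = v' := pvlw_pos L hvv
      have hn : ‖(v' : ℂ) - c‖ < rs + 4 * ρ := by rw [← e]; exact (hX₀ v hv).1
      exact ⟨hK v' hn, by rw [← hcol v v' e hn]; exact (hX₀ v hv).2⟩) (pvhj_endT L hd β) hj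
  refine ⟨x, ?_, hjx⟩
  have e : (x0 : ℂ) = x := pvlw_pos L hx
  obtain ⟨hk, p, hp1, hp2⟩ := hx0
  have hp := hGN p hp2
  obtain ⟨-, a2⟩ := pvhj_cellT (b := rs + ρ) (ρ := ρ) (fun w hw => hS w (by linarith)) hp (hd₀ p (by rw [mem_closedBall, dist_eq_norm]; linarith)) x0.2 hp1
  exact ⟨by rw [← e]; exact hk, p, by rw [← e]; exact a2, hp2⟩

variable {𝔖₀ : PvwSt (delMap h₀)} {𝔖 : PvwSt (delMap h)} {N : PvwNum} {hh : ℝ} {z : ℂ} {τ : PvwTy} {K : Set Y} {K₀ : Set Y₀} {r r₁ ρ rs rt : ℝ} {ζ : ℂ} {σ₁ : Y₀ → Bool} {σ : Y → Bool} {κ : ℂ → Bool}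
  {GN GC Sg : Bool → Set ℂ}

/-- **THE FOOT AT THE TIP OF A CARRIED EXIT STUB.**   State, numbers and BIG MESH at the base `(Y₀, σ₁)`;   arms at the final site set `Y`;   `R` relates the two tip darts. -/
theorem pvhj_foot_outT (L : PvLocP (delMap h₀) (delMap h) R (dlsPos Y₀) (dlsPos Y) Kr) (hKr : closedBall (τ.cp hh z) (rs + 4 * ρ) ⊆ Kr) (hR : R (𝔖₀.ep 𝔖₀.np) (𝔖.ep 𝔖.np))
    (ha : 𝔖₀.AtOut (dlsPos Y₀) N hh z τ σ₁) (E : PvhjEndD Y₀ N hh τ z (τ.cp hh z) K₀ r r₁ ρ rs rt ζ)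
    (ht1 : ‖((delMap h₀).src (𝔖₀.ep 𝔖₀.np) : ℂ) - τ.cp hh z‖ + 2 * ρ ≤ rt) (ht2 : ‖((delMap h₀).tgt (𝔖₀.ep 𝔖₀.np) : ℂ) - τ.cp hh z‖ + 2 * ρ ≤ rt)
    (A : ∀ β, PvhjArmT Y κ β ζ (τ.cp hh z) rt ρ rs β (GN β) (GC β) (Sg β))
    (hcol : ∀ (v₀ : Y₀) (v : Y), (v₀ : ℂ) = v → ‖(v : ℂ) - τ.cp hh z‖ < rs + 4 * ρ → σ₁ v₀ = σ v)
    (hκ : ∀ v : Y₀, ‖(v : ℂ) - τ.cp hh z‖ ≤ rs → v ∉ 𝔖₀.bkP ∪ 𝔖₀.whP → σ₁ v = κ v) (hK : ∀ v : Y, ‖(v : ℂ) - τ.cp hh z‖ < rs + 4 * ρ → v ∈ K) :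
    PvhjFoot h σ κ K (𝔖.ep 𝔖.np) GN := by
  intro β
  have hρ := E.e.rho
  have hS : ∀ w, ‖w - τ.cp hh z‖ ≤ rs + 3 * ρ → (w ∈ Y₀ ↔ w ∈ Y) := fun w hw => pvhj_sitesT L (hKr (by rw [mem_closedBall, dist_eq_norm]; linarith))
  have hd₀ : VorDense Y₀ (closedBall (τ.cp hh z) (rs + 2 * ρ)) ρ := fun w hw => E.e.mesh w (closedBall_subset_closedBall (by linarith [E.e.rs1, E.e.rr, E.rt1, norm_nonneg (((delMap h₀).src (𝔖₀.ep 𝔖₀.np) : ℂ) - τ.cp hh z)]) hw)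
  obtain ⟨A₀, hG, -⟩ := PvhjArmD.carry (A β) h.lf hρ hS hd₀
  obtain ⟨x0, hx0, hj⟩ := pvhj_st_exitD ha hρ E.e.r2 E.e.r1 E.e.rr E.e.mesh E.e.far E.e.rs0 E.e.rs1 E.e.rs2 ht1 ht2 E.rt1 E.big E.dir E.adm A₀
  refine pvhj_footT L hρ hKr hR ?_ hcol hK (fun p hp => hG p (Or.inl (Or.inl hp))) hd₀ hx0 hj
  rintro v (⟨-, hc, hn⟩ | ⟨hv, hnb⟩)
  · exact ⟨hn, hc⟩
  · have hn : ‖(v : ℂ) - τ.cp hh z‖ ≤ rs := A₀.near v (hv.2.mono (inter_subset_inter_right _ subset_union_left))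
    exact ⟨by linarith, (hκ v hn hnb).trans hv.1⟩

/-- **THE FOOT AT THE TIP OF A CARRIED ENTRANCE STUB.** -/
theorem pvhj_foot_inT (L : PvLocP (delMap h₀) (delMap h) R (dlsPos Y₀) (dlsPos Y) Kr) (hKr : closedBall (τ.cm hh z) (rs + 4 * ρ) ⊆ Kr) (hR : R (𝔖₀.em 𝔖₀.nm) (𝔖.em 𝔖.nm))
    (ha : 𝔖₀.AtIn (dlsPos Y₀) N hh z τ σ₁) (E : PvhjEndD Y₀ N hh τ z (τ.cm hh z) K₀ r r₁ ρ rs rt ζ)
    (ht1 : ‖((delMap h₀).src (𝔖₀.em 𝔖₀.nm) : ℂ) - τ.cm hh z‖ + 2 * ρ ≤ rt) (ht2 : ‖((delMap h₀).tgt (𝔖₀.em 𝔖₀.nm) : ℂ) - τ.cm hh z‖ + 2 * ρ ≤ rt)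
    (A : ∀ β, PvhjArmT Y κ β ζ (τ.cm hh z) rt ρ rs (!β) (GN β) (GC β) (Sg β))
    (hcol : ∀ (v₀ : Y₀) (v : Y), (v₀ : ℂ) = v → ‖(v : ℂ) - τ.cm hh z‖ < rs + 4 * ρ → σ₁ v₀ = σ v)
    (hκ : ∀ v : Y₀, ‖(v : ℂ) - τ.cm hh z‖ ≤ rs → v ∉ 𝔖₀.bkM ∪ 𝔖₀.whM → σ₁ v = κ v) (hK : ∀ v : Y, ‖(v : ℂ) - τ.cm hh z‖ < rs + 4 * ρ → v ∈ K) :
    PvhjFoot h σ κ K (𝔖.em 𝔖.nm) GN := by
  intro β
  have hρ := E.e.rho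
  have hS : ∀ w, ‖w - τ.cm hh z‖ ≤ rs + 3 * ρ → (w ∈ Y₀ ↔ w ∈ Y) := fun w hw => pvhj_sitesT L (hKr (by rw [mem_closedBall, dist_eq_norm]; linarith))
  have hd₀ : VorDense Y₀ (closedBall (τ.cm hh z) (rs + 2 * ρ)) ρ := fun w hw => E.e.mesh w (closedBall_subset_closedBall (by linarith [E.e.rs1, E.e.rr, E.rt1, norm_nonneg (((delMap h₀).src (𝔖₀.em 𝔖₀.nm) : ℂ) - τ.cm hh z)]) hw)
  obtain ⟨A₀, hG, -⟩ := PvhjArmD.carry (A β) h.lf hρ hS hd₀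
  obtain ⟨x0, hx0, hj⟩ := pvhj_st_entD ha hρ E.e.r2 E.e.r1 E.e.rr E.e.mesh E.e.far E.e.rs0 E.e.rs1 E.e.rs2 ht1 ht2 E.rt1 E.big E.dir E.adm A₀
  refine pvhj_footT L hρ hKr hR ?_ hcol hK (fun p hp => hG p (Or.inl (Or.inl hp))) hd₀ hx0 hj
  rintro v (⟨-, hc, hn⟩ | ⟨hv, hnb⟩)
  · exact ⟨hn, hc⟩
  · have hn : ‖(v : ℂ) - τ.cm hh z‖ ≤ rs := A₀.near v (hv.2.mono (inter_subset_inter_right _ subset_union_left))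
    exact ⟨by linarith, (hκ v hn hnb).trans hv.1⟩

end foot

/-! ## 4. OUT behind the tip, the runs at the final configuration -/

section run

variable {h₀ : DelGood Y₀} {h : DelGood Y} {R : DelDart h₀ → DelDart h → Prop} {Kr : Set ℂ}
  {𝔖₀ : PvwSt (delMap h₀)} {𝔖 : PvwSt (delMap h)} {N : PvwNum} {hh : ℝ} {z : ℂ} {τ : PvwTy} {K : Set Y} {K₀ : Set Y₀} {r r₁ ρ rs rt : ℝ} {ζ : ℂ} {σ₁ : Y₀ → Bool} {σ : Y → Bool} {κ : ℂ → Bool}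
  {GN GC Sg : Bool → Set ℂ} {B : Set ℂ}

/-- **OUT behind the tip of an exit stub**, from the stub alone -/
theorem pvhj_out_stubT {V D : Type} {T : PvMap V D} {𝔖 : PvwSt T} {pos : V → ℂ} {B : Set ℂ} {σ : V → Bool} {K : Set V} (st : 𝔖.StubP pos B σ) (bw : pvasBW T σ 𝔖.dp) (hK0 : T.src (𝔖.ep 𝔖.np) ∈ K) (hgp : 𝔖.gp ∉ K)
    {a₁ : D} (h1 : pvasBW T σ a₁) (hdis : T.src a₁ ∉ 𝔖.bkP) : ∃ f, T.src f ∉ K ∧ T.DJoin (pvldBar T σ K (𝔖.ep 𝔖.np) a₁) (T.opp (𝔖.ep 𝔖.np)) f := by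
  have hnp : 1 ≤ 𝔖.np := by
    by_contra hcon
    have e : 𝔖.np = 0 := by omega
    rw [e, pvwk_ep_zero st] at hK0
    exact hgp hK0
  refine pvld_out_strand h1 bw (st.ep_it _ le_rfl).symm (fun i hi => ?_) ?_
  · rw [← st.ep_it i hi.le]
    constructor
    · intro e
      have h1 := st.ep_ax i hi
      rw [e] at h1
      exact st.ep_out h1
    · intro e
      exact hdis ⟨i, hi.le, by rw [e]⟩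
  · intro hsub
    exact hgp (hsub ⟨𝔖.dp, ⟨0, hnp, T.sf_refl _⟩, rfl⟩)

/-- **TIP OF A CARRIED EXIT STUB → ANY FOOT, AT THE FINAL CONFIGURATION.**   At `(Y, σ)` only: the stub `st bw`, `g⁺ ∉ K`, the link region, the other foot, the lanes. -/
theorem pvhj_run_outT (L : PvLocP (delMap h₀) (delMap h) R (dlsPos Y₀) (dlsPos Y) Kr) (hKr : closedBall (τ.cp hh z) (rs + 4 * ρ) ⊆ Kr) (hR : R (𝔖₀.ep 𝔖₀.np) (𝔖.ep 𝔖.np))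
    (ha : 𝔖₀.AtOut (dlsPos Y₀) N hh z τ σ₁) (E : PvhjEndD Y₀ N hh τ z (τ.cp hh z) K₀ r r₁ ρ rs rt ζ)
    (ht1 : ‖((delMap h₀).src (𝔖₀.ep 𝔖₀.np) : ℂ) - τ.cp hh z‖ + 2 * ρ ≤ rt) (ht2 : ‖((delMap h₀).tgt (𝔖₀.ep 𝔖₀.np) : ℂ) - τ.cp hh z‖ + 2 * ρ ≤ rt)
    (A : ∀ β, PvhjArmT Y κ β ζ (τ.cp hh z) rt ρ rs β (GN β) (GC β) (Sg β))
    (hcol : ∀ (v₀ : Y₀) (v : Y), (v₀ : ℂ) = v → ‖(v : ℂ) - τ.cp hh z‖ < rs + 4 * ρ → σ₁ v₀ = σ v)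
    (hκ : ∀ v : Y₀, ‖(v : ℂ) - τ.cp hh z‖ ≤ rs → v ∉ 𝔖₀.bkP ∪ 𝔖₀.whP → σ₁ v = κ v) (hKin : ∀ v : Y, ‖(v : ℂ) - τ.cp hh z‖ < rs + 4 * ρ → v ∈ K)
    (st : 𝔖.StubP (dlsPos Y) B σ) (bw : pvasBW (delMap h) σ 𝔖.dp)
    (hK : K.Finite) (hco : ∀ u v, u ∉ K → v ∉ K → (delMap h).Join univ Kᶜ u v) (hgp : 𝔖.gp ∉ K)
    {a₁ : DelDart h} (h1 : pvasBW (delMap h) σ a₁) (hdis : (delMap h).src a₁ ∉ 𝔖.bkP) {H₁ G : Bool → Set ℂ} (J₁ : PvhjFoot h σ κ K a₁ H₁) (hG : PvhjMid Y σ κ K G)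
    (hH₀ : ∀ β, GN β ⊆ G β) (hH₁ : ∀ β, H₁ β ⊆ G β) : PvldRun (delMap h) σ K (𝔖.ep 𝔖.np) a₁ := by
  have hK0 : (delMap h).src (𝔖.ep 𝔖.np) ∈ K := by
    refine hKin _ ?_
    have e : ((delMap h₀).src (𝔖₀.ep 𝔖₀.np) : ℂ) = (delMap h).src (𝔖.ep 𝔖.np) := L.pos_eq _ _ hR
    have t1 : ‖((delMap h₀).src (𝔖₀.ep 𝔖₀.np) : ℂ) - τ.cp hh z‖ ≤ N.rho * hh / 4 := ha.good.tip_p.1
    rw [← e]
    linarith [E.e.rs0, E.e.rho]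
  exact pvhj_run_foot h hK (pvwk_ep_bw st bw le_rfl) h1 (fun e => hdis ⟨𝔖.np, le_rfl, e⟩) hco (pvhj_out_stubT st bw hK0 hgp h1 hdis) (pvhj_foot_outT L hKr hR ha E ht1 ht2 A hcol hκ hKin) J₁ hG hH₀ hH₁

/-- **ANY FOOT → TIP OF A CARRIED ENTRANCE STUB, AT THE FINAL CONFIGURATION.** -/
theorem pvhj_run_inT (L : PvLocP (delMap h₀) (delMap h) R (dlsPos Y₀) (dlsPos Y) Kr) (hKr : closedBall (τ.cm hh z) (rs + 4 * ρ) ⊆ Kr) (hR : R (𝔖₀.em 𝔖₀.nm) (𝔖.em 𝔖.nm))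
    (ha : 𝔖₀.AtIn (dlsPos Y₀) N hh z τ σ₁) (E : PvhjEndD Y₀ N hh τ z (τ.cm hh z) K₀ r r₁ ρ rs rt ζ)
    (ht1 : ‖((delMap h₀).src (𝔖₀.em 𝔖₀.nm) : ℂ) - τ.cm hh z‖ + 2 * ρ ≤ rt) (ht2 : ‖((delMap h₀).tgt (𝔖₀.em 𝔖₀.nm) : ℂ) - τ.cm hh z‖ + 2 * ρ ≤ rt)
    (A : ∀ β, PvhjArmT Y κ β ζ (τ.cm hh z) rt ρ rs (!β) (GN β) (GC β) (Sg β))
    (hcol : ∀ (v₀ : Y₀) (v : Y), (v₀ : ℂ) = v → ‖(v : ℂ) - τ.cm hh z‖ < rs + 4 * ρ → σ₁ v₀ = σ v)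
    (hκ : ∀ v : Y₀, ‖(v : ℂ) - τ.cm hh z‖ ≤ rs → v ∉ 𝔖₀.bkM ∪ 𝔖₀.whM → σ₁ v = κ v) (hKin : ∀ v : Y, ‖(v : ℂ) - τ.cm hh z‖ < rs + 4 * ρ → v ∈ K)
    (hbw : pvasBW (delMap h) σ (𝔖.em 𝔖.nm))
    (hK : K.Finite) (hco : ∀ u v, u ∉ K → v ∉ K → (delMap h).Join univ Kᶜ u v)
    {a₀ : DelDart h} (h0 : pvasBW (delMap h) σ a₀) (hne : (delMap h).src a₀ ≠ (delMap h).src (𝔖.em 𝔖.nm))
    (hO : ∃ f, (delMap h).src f ∉ K ∧ (delMap h).DJoin (pvldBar (delMap h) σ K a₀ (𝔖.em 𝔖.nm)) ((delMap h).opp a₀) f)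
    {H₀ G : Bool → Set ℂ} (J₀ : PvhjFoot h σ κ K a₀ H₀) (hG : PvhjMid Y σ κ K G) (hH₀ : ∀ β, H₀ β ⊆ G β) (hH₁ : ∀ β, GN β ⊆ G β) : PvldRun (delMap h) σ K a₀ (𝔖.em 𝔖.nm) :=
  pvhj_run_foot h hK h0 hbw hne hco hO J₀ (pvhj_foot_inT L hKr hR ha E ht1 ht2 A hcol hκ hKin) hG hH₀ hH₁

end run

/-! ## 5. any presentation of the two Delaunay planes -/

section pl

variable {h₀ : DelGood Y₀} {h : DelGood Y} {P₀ : PlTri ↥Y₀} {P : PlTri ↥Y} {R : P₀.Dart → P.Dart → Prop} {Kr : Set ℂ}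
  {𝔖₀ : PvwSt P₀.toMap} {𝔖 : PvwSt P.toMap} {N : PvwNum} {hh : ℝ} {z : ℂ} {τ : PvwTy} {K : Set Y} {K₀ : Set Y₀} {r r₁ ρ rs rt : ℝ} {ζ : ℂ} {σ₁ : Y₀ → Bool} {σ : Y → Bool} {κ : ℂ → Bool}
  {GN GC Sg : Bool → Set ℂ}

theorem pvhj_foot_outT_pl (hP₀ : P₀ = delPl h₀) (hP : P = delPl h) (L : PvLocP P₀.toMap P.toMap R (dlsPos Y₀) (dlsPos Y) Kr) (hKr : closedBall (τ.cp hh z) (rs + 4 * ρ) ⊆ Kr) (hR : R (𝔖₀.ep 𝔖₀.np) (𝔖.ep 𝔖.np))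
    (ha : 𝔖₀.AtOut (dlsPos Y₀) N hh z τ σ₁) (E : PvhjEndD Y₀ N hh τ z (τ.cp hh z) K₀ r r₁ ρ rs rt ζ)
    (ht1 : ‖(P₀.toMap.src (𝔖₀.ep 𝔖₀.np) : ℂ) - τ.cp hh z‖ + 2 * ρ ≤ rt) (ht2 : ‖(P₀.toMap.tgt (𝔖₀.ep 𝔖₀.np) : ℂ) - τ.cp hh z‖ + 2 * ρ ≤ rt)
    (A : ∀ β, PvhjArmT Y κ β ζ (τ.cp hh z) rt ρ rs β (GN β) (GC β) (Sg β))
    (hcol : ∀ (v₀ : Y₀) (v : Y), (v₀ : ℂ) = v → ‖(v : ℂ) - τ.cp hh z‖ < rs + 4 * ρ → σ₁ v₀ = σ v)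
    (hκ : ∀ v : Y₀, ‖(v : ℂ) - τ.cp hh z‖ ≤ rs → v ∉ 𝔖₀.bkP ∪ 𝔖₀.whP → σ₁ v = κ v) (hK : ∀ v : Y, ‖(v : ℂ) - τ.cp hh z‖ < rs + 4 * ρ → v ∈ K) :
    PvhjFootP P σ κ K (𝔖.ep 𝔖.np) GN := by
  subst hP₀ hP
  exact pvhj_foot_outT L hKr hR ha E ht1 ht2 A hcol hκ hK

theorem pvhj_foot_inT_pl (hP₀ : P₀ = delPl h₀) (hP : P = delPl h) (L : PvLocP P₀.toMap P.toMap R (dlsPos Y₀) (dlsPos Y) Kr) (hKr : closedBall (τ.cm hh z) (rs + 4 * ρ) ⊆ Kr) (hR : R (𝔖₀.em 𝔖₀.nm) (𝔖.em 𝔖.nm))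
    (ha : 𝔖₀.AtIn (dlsPos Y₀) N hh z τ σ₁) (E : PvhjEndD Y₀ N hh τ z (τ.cm hh z) K₀ r r₁ ρ rs rt ζ)
    (ht1 : ‖(P₀.toMap.src (𝔖₀.em 𝔖₀.nm) : ℂ) - τ.cm hh z‖ + 2 * ρ ≤ rt) (ht2 : ‖(P₀.toMap.tgt (𝔖₀.em 𝔖₀.nm) : ℂ) - τ.cm hh z‖ + 2 * ρ ≤ rt)
    (A : ∀ β, PvhjArmT Y κ β ζ (τ.cm hh z) rt ρ rs (!β) (GN β) (GC β) (Sg β))
    (hcol : ∀ (v₀ : Y₀) (v : Y), (v₀ : ℂ) = v → ‖(v : ℂ) - τ.cm hh z‖ < rs + 4 * ρ → σ₁ v₀ = σ v)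
    (hκ : ∀ v : Y₀, ‖(v : ℂ) - τ.cm hh z‖ ≤ rs → v ∉ 𝔖₀.bkM ∪ 𝔖₀.whM → σ₁ v = κ v) (hK : ∀ v : Y, ‖(v : ℂ) - τ.cm hh z‖ < rs + 4 * ρ → v ∈ K) :
    PvhjFootP P σ κ K (𝔖.em 𝔖.nm) GN := by
  subst hP₀ hP
  exact pvhj_foot_inT L hKr hR ha E ht1 ht2 A hcol hκ hK

theorem pvhj_run_outT_pl {B : Set ℂ} (hP₀ : P₀ = delPl h₀) (hP : P = delPl h) (L : PvLocP P₀.toMap P.toMap R (dlsPos Y₀) (dlsPos Y) Kr) (hKr : closedBall (τ.cp hh z) (rs + 4 * ρ) ⊆ Kr) (hR : R (𝔖₀.ep 𝔖₀.np) (𝔖.ep 𝔖.np))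
    (ha : 𝔖₀.AtOut (dlsPos Y₀) N hh z τ σ₁) (E : PvhjEndD Y₀ N hh τ z (τ.cp hh z) K₀ r r₁ ρ rs rt ζ)
    (ht1 : ‖(P₀.toMap.src (𝔖₀.ep 𝔖₀.np) : ℂ) - τ.cp hh z‖ + 2 * ρ ≤ rt) (ht2 : ‖(P₀.toMap.tgt (𝔖₀.ep 𝔖₀.np) : ℂ) - τ.cp hh z‖ + 2 * ρ ≤ rt)
    (A : ∀ β, PvhjArmT Y κ β ζ (τ.cp hh z) rt ρ rs β (GN β) (GC β) (Sg β))
    (hcol : ∀ (v₀ : Y₀) (v : Y), (v₀ : ℂ) = v → ‖(v : ℂ) - τ.cp hh z‖ < rs + 4 * ρ → σ₁ v₀ = σ v)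
    (hκ : ∀ v : Y₀, ‖(v : ℂ) - τ.cp hh z‖ ≤ rs → v ∉ 𝔖₀.bkP ∪ 𝔖₀.whP → σ₁ v = κ v) (hKin : ∀ v : Y, ‖(v : ℂ) - τ.cp hh z‖ < rs + 4 * ρ → v ∈ K)
    (st : 𝔖.StubP (dlsPos Y) B σ) (bw : pvasBW P.toMap σ 𝔖.dp)
    (hK : K.Finite) (hco : ∀ u v, u ∉ K → v ∉ K → P.toMap.Join univ Kᶜ u v) (hgp : 𝔖.gp ∉ K)
    {a₁ : P.Dart} (h1 : pvasBW P.toMap σ a₁) (hdis : P.toMap.src a₁ ∉ 𝔖.bkP) {H₁ G : Bool → Set ℂ} (J₁ : PvhjFootP P σ κ K a₁ H₁) (hG : PvhjMid Y σ κ K G)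
    (hH₀ : ∀ β, GN β ⊆ G β) (hH₁ : ∀ β, H₁ β ⊆ G β) : PvldRun P.toMap σ K (𝔖.ep 𝔖.np) a₁ := by
  subst hP₀ hP
  exact pvhj_run_outT L hKr hR ha E ht1 ht2 A hcol hκ hKin st bw hK hco hgp h1 hdis J₁ hG hH₀ hH₁

theorem pvhj_run_inT_pl (hP₀ : P₀ = delPl h₀) (hP : P = delPl h) (L : PvLocP P₀.toMap P.toMap R (dlsPos Y₀) (dlsPos Y) Kr) (hKr : closedBall (τ.cm hh z) (rs + 4 * ρ) ⊆ Kr) (hR : R (𝔖₀.em 𝔖₀.nm) (𝔖.em 𝔖.nm))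
    (ha : 𝔖₀.AtIn (dlsPos Y₀) N hh z τ σ₁) (E : PvhjEndD Y₀ N hh τ z (τ.cm hh z) K₀ r r₁ ρ rs rt ζ)
    (ht1 : ‖(P₀.toMap.src (𝔖₀.em 𝔖₀.nm) : ℂ) - τ.cm hh z‖ + 2 * ρ ≤ rt) (ht2 : ‖(P₀.toMap.tgt (𝔖₀.em 𝔖₀.nm) : ℂ) - τ.cm hh z‖ + 2 * ρ ≤ rt)
    (A : ∀ β, PvhjArmT Y κ β ζ (τ.cm hh z) rt ρ rs (!β) (GN β) (GC β) (Sg β))
    (hcol : ∀ (v₀ : Y₀) (v : Y), (v₀ : ℂ) = v → ‖(v : ℂ) - τ.cm hh z‖ < rs + 4 * ρ → σ₁ v₀ = σ v)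
    (hκ : ∀ v : Y₀, ‖(v : ℂ) - τ.cm hh z‖ ≤ rs → v ∉ 𝔖₀.bkM ∪ 𝔖₀.whM → σ₁ v = κ v) (hKin : ∀ v : Y, ‖(v : ℂ) - τ.cm hh z‖ < rs + 4 * ρ → v ∈ K)
    (hbw : pvasBW P.toMap σ (𝔖.em 𝔖.nm))
    (hK : K.Finite) (hco : ∀ u v, u ∉ K → v ∉ K → P.toMap.Join univ Kᶜ u v)
    {a₀ : P.Dart} (h0 : pvasBW P.toMap σ a₀) (hne : P.toMap.src a₀ ≠ P.toMap.src (𝔖.em 𝔖.nm))
    (hO : ∃ f, P.toMap.src f ∉ K ∧ P.toMap.DJoin (pvldBar P.toMap σ K a₀ (𝔖.em 𝔖.nm)) (P.toMap.opp a₀) f)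
    {H₀ G : Bool → Set ℂ} (J₀ : PvhjFootP P σ κ K a₀ H₀) (hG : PvhjMid Y σ κ K G) (hH₀ : ∀ β, H₀ β ⊆ G β) (hH₁ : ∀ β, GN β ⊆ G β) : PvldRun P.toMap σ K a₀ (𝔖.em 𝔖.nm) := by
  subst hP₀ hP
  exact pvhj_run_inT L hKr hR ha E ht1 ht2 A hcol hκ hKin hbw hK hco h0 hne hO J₀ hG hH₀ hH₁

end pl

/-! ## 6. the forms of 66, all tip cells -/

section formU

variable {U : Set ℂ} {μ : ℝ} {h₀ : DelGood Y₀} {h : DelGood Y} {𝔖₀ : PvwSt (delMap h₀)} {N : PvwNum} {hh : ℝ} {z : ℂ} {τ : PvwTy} {K₀ : Set Y₀} {K : Set Y} {r r₁ ρ rs rt : ℝ} {ζ : ℂ}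
  {σ₀ : Y₀ → Bool} {σ : Y → Bool} {κ : ℂ → Bool} {GN GC Sg : Bool → Set ℂ}

theorem pvhj_agreeU {c : ℂ} {a : ℝ} (hYY : Y₀ ∩ U = Y ∩ U) (hU : closedBall c a ⊆ U) (w : ℂ) (hw : ‖w - c‖ ≤ a) : w ∈ Y₀ ↔ w ∈ Y := by
  have hwU : w ∈ U := hU (by rw [mem_closedBall, dist_eq_norm]; exact hw)
  constructor
  · intro h1
    have : w ∈ Y ∩ U := hYY ▸ (⟨h1, hwU⟩ : w ∈ Y₀ ∩ U)
    exact this.1
  · intro h1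
    have : w ∈ Y₀ ∩ U := hYY.symm ▸ (⟨h1, hwU⟩ : w ∈ Y ∩ U)
    exact this.1

open Classical in
/-- **THE FOOT AT THE TIP OF AN ENTRANCE STUB, IN THE FINAL CONFIGURATION, ALL TIP CELLS** -/
theorem pvhj_foot_inU (hμ : 0 < μ) (hYY : Y₀ ∩ U = Y ∩ U) (hm : PvtrMesh μ U Y₀) (ha : 𝔖₀.AtIn (dlsPos Y₀) N hh z τ σ₀) (E : PvhjEndD Y₀ N hh τ z (τ.cm hh z) K₀ r r₁ ρ rs rt ζ)
    (ht1 : ‖((delMap h₀).src (𝔖₀.em 𝔖₀.nm) : ℂ) - τ.cm hh z‖ + 2 * ρ ≤ rt) (ht2 : ‖((delMap h₀).tgt (𝔖₀.em 𝔖₀.nm) : ℂ) - τ.cm hh z‖ + 2 * ρ ≤ rt)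
    (hU : closedBall (τ.cm hh z) (rs + 4 * ρ + 3 * μ) ⊆ U) (A : ∀ β, PvhjArmT Y κ β ζ (τ.cm hh z) rt ρ rs (!β) (GN β) (GC β) (Sg β))
    (hσf : ∀ (v : Y₀) (v' : Y), (v : ℂ) = v' → ‖(v : ℂ) - τ.cm hh z‖ < rs + 4 * ρ → v ∈ 𝔖₀.bkM ∪ 𝔖₀.whM → σ v' = σ₀ v)
    (hσκ : ∀ (v : Y₀) (v' : Y), (v : ℂ) = v' → ‖(v : ℂ) - τ.cm hh z‖ < rs + 4 * ρ → v ∉ 𝔖₀.fzIn → σ v' = κ v)
    (hK : ∀ v : Y, ‖(v : ℂ) - τ.cm hh z‖ < rs + 4 * ρ → v ∈ K) {a : DelDart h}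
    (es : (((delMap h₀).src (𝔖₀.em 𝔖₀.nm) : Y₀) : ℂ) = (delMap h).src a) (et : (((delMap h₀).tgt (𝔖₀.em 𝔖₀.nm) : Y₀) : ℂ) = (delMap h).tgt a) : PvhjFoot h σ κ K a GN := by
  have hρ := E.e.rho
  have g1 : ‖((delMap h₀).src (𝔖₀.em 𝔖₀.nm) : ℂ) - τ.cm hh z‖ ≤ N.rho * hh / 4 := ha.good.tip_m.1
  have h0 : 0 ≤ N.rho * hh / 4 := (norm_nonneg _).trans g1
  have g3 : ‖(𝔖₀.am : ℂ) - τ.cm hh z‖ ≤ N.rho * hh / 4 + 2 * ρ := pvhg_tip_in ha hρ (by linarith [E.e.r1, E.e.rr]) E.e.mesh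
  have hcore : ∀ v ∈ 𝔖₀.core, rs + 4 * ρ < ‖(v : ℂ) - τ.cm hh z‖ := by
    intro v hv
    have hv' : ‖dlsPos Y₀ v - z‖ < τ.b * hh := by
      have : v ∈ 𝔖₀.dsc := hv
      rw [ha.gate.dsc_eq] at this
      exact this
    have := pvhu_core_far (pos := dlsPos Y₀) (c := τ.cm hh z) ha.stub.em_out g3 hv'
    have e : dlsPos Y₀ v = (v : ℂ) := rfl
    rw [e] at this
    linarith [E.e.far, E.e.r1, E.e.rr, E.e.rs1]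
  have hfz : ∀ v ∈ 𝔖₀.fzIn, ‖(v : ℂ) - τ.cm hh z‖ < rs + 4 * ρ → v ∈ 𝔖₀.bkM ∪ 𝔖₀.whM := by
    rintro v ((hv | hv) | hv) hn
    · exact absurd hn (not_lt.2 (hcore v hv).le)
    · exact Or.inl hv
    · exact Or.inr hv
  let σ₁ : Y₀ → Bool := fun v => if v ∈ 𝔖₀.fzIn then σ₀ v else κ v
  have ha₁ : 𝔖₀.AtIn (dlsPos Y₀) N hh z τ σ₁ := pvwk_atIn_congr (dls_isSph h₀) ha fun v hv => by
    show σ₀ v = if v ∈ 𝔖₀.fzIn then σ₀ v else κ v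
    rw [if_pos hv]
  have E₁ : PvhjEndD Y₀ N hh τ z (τ.cm hh z) {v : Y₀ | ‖(v : ℂ) - τ.cm hh z‖ < rs + 4 * ρ} r r₁ ρ rs rt ζ :=
    ⟨⟨E.e.rho, E.e.r2, E.e.r1, E.e.rr, E.e.mesh, E.e.far, E.e.rs0, E.e.rs1, E.e.rs2, fun v hv => hv⟩, E.rt1, E.big, E.dir, E.adm⟩
  have hS : ∀ w, ‖w - τ.cm hh z‖ ≤ rs + 3 * ρ → (w ∈ Y₀ ↔ w ∈ Y) := fun w hw => pvhj_agreeU hYY hU w (by linarith)
  have hd₀ : VorDense Y₀ (closedBall (τ.cm hh z) (rs + 2 * ρ)) ρ := fun w hw => E.e.mesh w (closedBall_subset_closedBall (by linarith [E.e.rs1, E.e.rr, E.e.r1]) hw)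
  have A₀ : ∀ β, PvhjArmT Y₀ κ β ζ (τ.cm hh z) rt ρ rs (!β) (GN β) (GC β) (Sg β) := fun β => (PvhjArmD.carry (A β) h.lf hρ hS hd₀).1
  have F₀ : PvhjFoot h₀ σ₁ κ {v : Y₀ | ‖(v : ℂ) - τ.cm hh z‖ < rs + 4 * ρ} (𝔖₀.em 𝔖₀.nm) GN := by
    refine pvhj_foot_inD ha₁ E₁ ht1 ht2 A₀ fun v hv hb => ?_
    show (if v ∈ 𝔖₀.fzIn then σ₀ v else κ v) = κ v
    rw [if_neg fun hf => hb (hfz v hf (by linarith))]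
  refine pvhu_foot_tr h₀ h hμ hYY hm (fun v hv => pvhu_ball_core3 hU (le_of_lt hv)) (fun v hv v' e => ⟨hK v' (by rw [← e]; exact hv), ?_⟩) es et F₀
  show σ v' = if v ∈ 𝔖₀.fzIn then σ₀ v else κ v
  by_cases hf : v ∈ 𝔖₀.fzIn
  · rw [if_pos hf]
    exact hσf v v' e hv (hfz v hf hv)
  · rw [if_neg hf]
    exact hσκ v v' e hv hf

open Classical in
/-- **THE FOOT AT THE TIP OF AN EXIT STUB, IN THE FINAL CONFIGURATION, ALL TIP CELLS** -/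
theorem pvhj_foot_outU (hμ : 0 < μ) (hYY : Y₀ ∩ U = Y ∩ U) (hm : PvtrMesh μ U Y₀) (ha : 𝔖₀.AtOut (dlsPos Y₀) N hh z τ σ₀) (E : PvhjEndD Y₀ N hh τ z (τ.cp hh z) K₀ r r₁ ρ rs rt ζ)
    (ht1 : ‖((delMap h₀).src (𝔖₀.ep 𝔖₀.np) : ℂ) - τ.cp hh z‖ + 2 * ρ ≤ rt) (ht2 : ‖((delMap h₀).tgt (𝔖₀.ep 𝔖₀.np) : ℂ) - τ.cp hh z‖ + 2 * ρ ≤ rt)
    (hU : closedBall (τ.cp hh z) (rs + 4 * ρ + 3 * μ) ⊆ U) (A : ∀ β, PvhjArmT Y κ β ζ (τ.cp hh z) rt ρ rs β (GN β) (GC β) (Sg β))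
    (hσf : ∀ (v : Y₀) (v' : Y), (v : ℂ) = v' → ‖(v : ℂ) - τ.cp hh z‖ < rs + 4 * ρ → v ∈ 𝔖₀.bkP ∪ 𝔖₀.whP → σ v' = σ₀ v)
    (hσκ : ∀ (v : Y₀) (v' : Y), (v : ℂ) = v' → ‖(v : ℂ) - τ.cp hh z‖ < rs + 4 * ρ → v ∉ 𝔖₀.fzOut → σ v' = κ v)
    (hK : ∀ v : Y, ‖(v : ℂ) - τ.cp hh z‖ < rs + 4 * ρ → v ∈ K) {a : DelDart h}
    (es : (((delMap h₀).src (𝔖₀.ep 𝔖₀.np) : Y₀) : ℂ) = (delMap h).src a) (et : (((delMap h₀).tgt (𝔖₀.ep 𝔖₀.np) : Y₀) : ℂ) = (delMap h).tgt a) : PvhjFoot h σ κ K a GN := by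
  have hρ := E.e.rho
  have g1 : ‖((delMap h₀).src (𝔖₀.ep 𝔖₀.np) : ℂ) - τ.cp hh z‖ ≤ N.rho * hh / 4 := ha.good.tip_p.1
  have h0 : 0 ≤ N.rho * hh / 4 := (norm_nonneg _).trans g1
  have g3 : ‖(𝔖₀.ap : ℂ) - τ.cp hh z‖ ≤ N.rho * hh / 4 + 2 * ρ := pvhg_tip_out ha hρ (by linarith [E.e.r1, E.e.rr]) E.e.mesh
  have hcore : ∀ v ∈ 𝔖₀.core, rs + 4 * ρ < ‖(v : ℂ) - τ.cp hh z‖ := by
    intro v hv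
    have hv' : ‖dlsPos Y₀ v - z‖ < τ.b * hh := by
      have : v ∈ 𝔖₀.dsc := hv
      rw [ha.gate.dsc_eq] at this
      exact this
    have := pvhu_core_far (pos := dlsPos Y₀) (c := τ.cp hh z) ha.stub.ep_out g3 hv'
    have e : dlsPos Y₀ v = (v : ℂ) := rfl
    rw [e] at this
    linarith [E.e.far, E.e.r1, E.e.rr, E.e.rs1]
  have hfz : ∀ v ∈ 𝔖₀.fzOut, ‖(v : ℂ) - τ.cp hh z‖ < rs + 4 * ρ → v ∈ 𝔖₀.bkP ∪ 𝔖₀.whP := by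
    rintro v ((hv | hv) | hv) hn
    · exact absurd hn (not_lt.2 (hcore v hv).le)
    · exact Or.inl hv
    · exact Or.inr hv
  let σ₁ : Y₀ → Bool := fun v => if v ∈ 𝔖₀.fzOut then σ₀ v else κ v
  have ha₁ : 𝔖₀.AtOut (dlsPos Y₀) N hh z τ σ₁ := pvwk_atOut_congr (dls_isSph h₀) ha fun v hv => by
    show σ₀ v = if v ∈ 𝔖₀.fzOut then σ₀ v else κ v
    rw [if_pos hv]
  have E₁ : PvhjEndD Y₀ N hh τ z (τ.cp hh z) {v : Y₀ | ‖(v : ℂ) - τ.cp hh z‖ < rs + 4 * ρ} r r₁ ρ rs rt ζ :=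
    ⟨⟨E.e.rho, E.e.r2, E.e.r1, E.e.rr, E.e.mesh, E.e.far, E.e.rs0, E.e.rs1, E.e.rs2, fun v hv => hv⟩, E.rt1, E.big, E.dir, E.adm⟩
  have hS : ∀ w, ‖w - τ.cp hh z‖ ≤ rs + 3 * ρ → (w ∈ Y₀ ↔ w ∈ Y) := fun w hw => pvhj_agreeU hYY hU w (by linarith)
  have hd₀ : VorDense Y₀ (closedBall (τ.cp hh z) (rs + 2 * ρ)) ρ := fun w hw => E.e.mesh w (closedBall_subset_closedBall (by linarith [E.e.rs1, E.e.rr, E.e.r1]) hw)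
  have A₀ : ∀ β, PvhjArmT Y₀ κ β ζ (τ.cp hh z) rt ρ rs β (GN β) (GC β) (Sg β) := fun β => (PvhjArmD.carry (A β) h.lf hρ hS hd₀).1
  have F₀ : PvhjFoot h₀ σ₁ κ {v : Y₀ | ‖(v : ℂ) - τ.cp hh z‖ < rs + 4 * ρ} (𝔖₀.ep 𝔖₀.np) GN := by
    refine pvhj_foot_outD ha₁ E₁ ht1 ht2 A₀ fun v hv hb => ?_
    show (if v ∈ 𝔖₀.fzOut then σ₀ v else κ v) = κ v
    rw [if_neg fun hf => hb (hfz v hf (by linarith))]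
  refine pvhu_foot_tr h₀ h hμ hYY hm (fun v hv => pvhu_ball_core3 hU (le_of_lt hv)) (fun v hv v' e => ⟨hK v' (by rw [← e]; exact hv), ?_⟩) es et F₀
  show σ v' = if v ∈ 𝔖₀.fzOut then σ₀ v else κ v
  by_cases hf : v ∈ 𝔖₀.fzOut
  · rw [if_pos hf]
    exact hσf v v' e hv (hfz v hf hv)
  · rw [if_neg hf]
    exact hσκ v v' e hv hf

end formU

section formUpl

variable {U : Set ℂ} {μ : ℝ} {h₀ : DelGood Y₀} {h : DelGood Y} {P₀ : PlTri ↥Y₀} {P : PlTri ↥Y} {𝔖₀ : PvwSt P₀.toMap} {N : PvwNum} {hh : ℝ} {z : ℂ} {τ : PvwTy} {K₀ : Set Y₀} {K : Set Y} {r r₁ ρ rs rt : ℝ} {ζ : ℂ}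
  {σ₀ : Y₀ → Bool} {σ : Y → Bool} {κ : ℂ → Bool} {GN GC Sg : Bool → Set ℂ}

theorem pvhj_foot_inU_pl (hP₀ : P₀ = delPl h₀) (hP : P = delPl h) (hμ : 0 < μ) (hYY : Y₀ ∩ U = Y ∩ U) (hm : PvtrMesh μ U Y₀) (ha : 𝔖₀.AtIn (dlsPos Y₀) N hh z τ σ₀)
    (E : PvhjEndD Y₀ N hh τ z (τ.cm hh z) K₀ r r₁ ρ rs rt ζ)
    (ht1 : ‖(P₀.toMap.src (𝔖₀.em 𝔖₀.nm) : ℂ) - τ.cm hh z‖ + 2 * ρ ≤ rt) (ht2 : ‖(P₀.toMap.tgt (𝔖₀.em 𝔖₀.nm) : ℂ) - τ.cm hh z‖ + 2 * ρ ≤ rt)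
    (hU : closedBall (τ.cm hh z) (rs + 4 * ρ + 3 * μ) ⊆ U) (A : ∀ β, PvhjArmT Y κ β ζ (τ.cm hh z) rt ρ rs (!β) (GN β) (GC β) (Sg β))
    (hσf : ∀ (v : Y₀) (v' : Y), (v : ℂ) = v' → ‖(v : ℂ) - τ.cm hh z‖ < rs + 4 * ρ → v ∈ 𝔖₀.bkM ∪ 𝔖₀.whM → σ v' = σ₀ v)
    (hσκ : ∀ (v : Y₀) (v' : Y), (v : ℂ) = v' → ‖(v : ℂ) - τ.cm hh z‖ < rs + 4 * ρ → v ∉ 𝔖₀.fzIn → σ v' = κ v)
    (hK : ∀ v : Y, ‖(v : ℂ) - τ.cm hh z‖ < rs + 4 * ρ → v ∈ K) {a : P.Dart}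
    (es : ((P₀.toMap.src (𝔖₀.em 𝔖₀.nm) : Y₀) : ℂ) = P.toMap.src a) (et : ((P₀.toMap.tgt (𝔖₀.em 𝔖₀.nm) : Y₀) : ℂ) = P.toMap.tgt a) : PvhjFootP P σ κ K a GN := by
  subst hP₀
  subst hP
  exact pvhj_foot_inU hμ hYY hm ha E ht1 ht2 hU A hσf hσκ hK es et

theorem pvhj_foot_outU_pl (hP₀ : P₀ = delPl h₀) (hP : P = delPl h) (hμ : 0 < μ) (hYY : Y₀ ∩ U = Y ∩ U) (hm : PvtrMesh μ U Y₀) (ha : 𝔖₀.AtOut (dlsPos Y₀) N hh z τ σ₀)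
    (E : PvhjEndD Y₀ N hh τ z (τ.cp hh z) K₀ r r₁ ρ rs rt ζ)
    (ht1 : ‖(P₀.toMap.src (𝔖₀.ep 𝔖₀.np) : ℂ) - τ.cp hh z‖ + 2 * ρ ≤ rt) (ht2 : ‖(P₀.toMap.tgt (𝔖₀.ep 𝔖₀.np) : ℂ) - τ.cp hh z‖ + 2 * ρ ≤ rt)
    (hU : closedBall (τ.cp hh z) (rs + 4 * ρ + 3 * μ) ⊆ U) (A : ∀ β, PvhjArmT Y κ β ζ (τ.cp hh z) rt ρ rs β (GN β) (GC β) (Sg β))
    (hσf : ∀ (v : Y₀) (v' : Y), (v : ℂ) = v' → ‖(v : ℂ) - τ.cp hh z‖ < rs + 4 * ρ → v ∈ 𝔖₀.bkP ∪ 𝔖₀.whP → σ v' = σ₀ v)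
    (hσκ : ∀ (v : Y₀) (v' : Y), (v : ℂ) = v' → ‖(v : ℂ) - τ.cp hh z‖ < rs + 4 * ρ → v ∉ 𝔖₀.fzOut → σ v' = κ v)
    (hK : ∀ v : Y, ‖(v : ℂ) - τ.cp hh z‖ < rs + 4 * ρ → v ∈ K) {a : P.Dart}
    (es : ((P₀.toMap.src (𝔖₀.ep 𝔖₀.np) : Y₀) : ℂ) = P.toMap.src a) (et : ((P₀.toMap.tgt (𝔖₀.ep 𝔖₀.np) : Y₀) : ℂ) = P.toMap.tgt a) : PvhjFootP P σ κ K a GN := by
  subst hP₀
  subst hP
  exact pvhj_foot_outU hμ hYY hm ha E ht1 ht2 hU A hσf hσκ hK es et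

end formUpl

end del

end Claimed.Agent.R289
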