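-- KEEP
import Claimed.Agent.R289.Tr.HookGJ
import Claimed.Agent.R289.Tr.HookGL
import Claimed.Agent.R289.Tr.HookYD
import Claimed.Agent.R289.Tr.HookYT
import Claimed.Agent.R289.Tr.FrcCar
import Claimed.Agent.R289.Tr.RegT
import Claimed.Agent.R289.Exit.EngAll
import Claimed.Agent.R289.Exit.FrcDefs

/-!
# Row 289 (S0537), THE WALL, ROAD E, E10 AT THE HYBRID ENDS, (b3) DET, file Tr/FrcDetO : THE NUMBERS AND THE REGIONS OF THE TWO THIN ENDS `o`, `i` AT THE MODEL      (helper266, post of 24 id 93150; prefix `pvho_`, `Pvho`)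

PRODUCER of the pure number / geometry hypotheses of the tip theorems of 23 (`PvhjEnd`, `PvhjEndD`, `ht1 ht2`), of the one stops of 90 (`PvhgEndNum`, `ball hb hS hcore` of `pvhg_il_link_o_room / _i_room`), of 298 (`hB hB'`), of 199 / 106 (`Tr/HookO`, `Tr/HookI`).
PARAMETERS: any `𝔓 : PvxPar τ c` with `PvhoNum 𝔓` (inequalities between the numbers; `pvho_num_par` at `pvxParOf`), `PvegLev 𝔓 m` (`PveaPar.lev`), `pviwTyOk 𝔓 t` (`pvea_tyOk`).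
RADII OF RECORD at a tip, `R = ρ h`, mesh `μ` with `0 < μ`, `80 μ ≤ R` (`112 μ ≤ R` where the mesh is carried through the kept mouth):
   big mouth `r = ρ₂ h`,   inner mouth `r₁ = R / 2`,   small mouth `rs = R / 4`,   tip face `rt = R / 10 + 4 μ`,   side `ζ = conj (dout t)` (exit), `ζ = conj (- din t)` (entrance).
ROOMS OF RECORD (124, `Exit/ParEng` v2): `pvegOYa 𝔓 m t`, `pvegIYa 𝔓 m t` = kept mouth `closedBall Y (5 R / 16)` ∪ funnel up to the plane of W-7.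
* sec. 1  `PvhoNum`, **`pvho_endNum`** (`PvhgEndNum` of 90), `pvho_hgNum` (`PvhgNum` of 90 / 268)
* sec. 2  the side: `pvho_dir_o _i`, **`pvho_side_o _i`** (`|r_k + re (ζ z) - re (ζ c)| ≤ R / 10`), `pvho_mesh_ball` (certificate `pvrgMesh` ⟹ `VorDense` of a ball), **`pvho_endD_o _i`** (`PvhjEndD` at ANY site set, ANY `K`)
* sec. 3  the tip dart: **`pvho_tip_o _i`** (`ht1 ht2` from `PvilOut.tip` / `PvilIn.tip` + mesh)
* sec. 4  the rooms: `pvho_Ya_star`, **`pvho_oYa_bdd _co _core _ball`**, mirror `i`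
* sec. 5  the link region `K = pvgeKV Y (room)ᶜ` at a final configuration: **`pvho_K_o _i`** (finite, co-connected), `pvho_gp_o`, `pvho_gm_i`, `pvho_inK_o _i`
* sec. 6  banks and frozen sites: `pvho_bank_o _i` (in the closed own box), `pvho_off_o _i` (a site over tile / door is on no bank), `pvho_fz_o _i` (a frozen site within `R / 2` of the tip centre is on a bank)
* sec. 7  final configurations (`PvjeFin` of 35): `pvho_fin_M` (same sites in the kept mouth), `pvho_fin_mesh`, `pvho_fin_fresh`, `pvho_fin_kept`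
* sec. 8  **`pvho_num_par`** : `PvhoNum (pvxParOf N hN c)`;   `pvho_endD_ty` (the record at the unframed type `pvhgTy τ f o` of `pvhg_il_out / _in`)
* sec. 9  **THE TIP FOOT AT THE MODEL, ALL TIP CELLS**: **`pvho_foot_out`**, **`pvho_foot_in`** (over `pvhj_foot_outU_pl / _inU_pl` of 23 and the twin of 71): `PvjeFin E T η₀ η` + half state of the base + mesh of the big mouth AT THE BASE + twin + copy colouring + arms `PvhjArmT` at the sites of `η`  ⟹  `PvhjFootP` at `η`;   `pvho_M_o _i _e`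
* sec. 10 the certificate of record: `pvho_cert_o _i` (big mouth), `pvho_cert_box` (own box: `hm` of 71), `pvho_mu` (`μ₀ / 8`)
* sec. 11 any room `Yr`: `pvho_sh_co`, `pvho_gp_room`, `pvho_gm_room`, `pvho_inK_room`, `pvho_K_room`
0 SORRY.
-/

set_option autoImplicit false
set_option linter.unusedSectionVars false
set_option linter.unusedVariables false

namespace Claimed.Agent.R289

open Set Metric Complex Claims.C0465

/-! ## 1. the numbers -/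

section num

variable {τ : Type} {c : ℝ}

/-- **the inequalities between the numbers of the wall and the annuli of the types** which the tips use -/
structure PvhoNum (𝔓 : PvxPar τ c) : Prop where
  rho0 : 0 < 𝔓.num.rho
  rho1 : 8 * 𝔓.num.rho ≤ 𝔓.num.rho1
  rho2 : 8 * 𝔓.num.rho1 ≤ 𝔓.num.rho2
  rho3 : 8 * 𝔓.num.rho2 ≤ 1
  b0 : ∀ t, 0 ≤ (𝔓.ty t).b
  gap : ∀ t, (𝔓.ty t).b + 2 ≤ (𝔓.ty t).b2

variable {𝔓 : PvxPar τ c}

/-- the half side of the own box against the core disc: `b h + 4 h ≤ r_k` -/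
theorem pvho_rad (n : PvhoNum 𝔓) (m : ℕ) (t : τ) : (𝔓.ty t).b * pvlmH m + 4 * pvlmH m ≤ pvwRad 𝔓.num (pvlmH m) (𝔓.ty t) (𝔓.ty t).k := by
  have hh := pvlm_H_pos m
  have h1 : 0 ≤ ((𝔓.ty t).k : ℝ) * 𝔓.num.rho1 := mul_nonneg (Nat.cast_nonneg _) (by linarith [n.rho0, n.rho1])
  have h2 := n.b0 t
  have h3 := n.gap t
  unfold pvwRad
  nlinarith

/-- `ρ h ≤ h / 512`, `ρ₁ h ≤ h / 64`, `ρ₂ h ≤ h / 8` -/
theorem pvho_small (n : PvhoNum 𝔓) (m : ℕ) : 8 * (𝔓.num.rho * pvlmH m) ≤ 𝔓.num.rho1 * pvlmH m ∧ 8 * (𝔓.num.rho1 * pvlmH m) ≤ 𝔓.num.rho2 * pvlmH m ∧ 8 * (𝔓.num.rho2 * pvlmH m) ≤ pvlmH m ∧ 0 < 𝔓.num.rho * pvlmH m := by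
  have hh := pvlm_H_pos m
  refine ⟨?_, ?_, ?_, mul_pos n.rho0 hh⟩
  · nlinarith [n.rho1]
  · nlinarith [n.rho2]
  · nlinarith [n.rho3]

/-- **THE NUMBERS AT ONE TIP, RADII OF RECORD** (small mouth `rs ∈ [R / 4, R / 2]`) -/
theorem pvho_endNum (n : PvhoNum 𝔓) (m : ℕ) (t : τ) {μ rs : ℝ} (hμ : 0 < μ) (hμ' : 80 * μ ≤ 𝔓.num.rho * pvlmH m) (hs0 : 𝔓.num.rho * pvlmH m / 4 ≤ rs) (hs1 : rs ≤ 𝔓.num.rho * pvlmH m / 2) :
    PvhgEndNum 𝔓.num (pvlmH m) (𝔓.ty t) (𝔓.num.rho2 * pvlmH m) (𝔓.num.rho * pvlmH m / 2) μ rs := by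
  obtain ⟨s1, s2, s3, s0⟩ := pvho_small n m
  have hr := pvho_rad n m t
  have hh := pvlm_H_pos m
  exact
    { rho := hμ
      rho0 := s0.le
      r2 := le_rfl
      r1 := by linarith
      rr := by linarith
      far := by linarith
      rs0 := hs0
      rs1 := hs1
      rs2 := by linarith }

/-- the numbers of the one stop `pvhg_SYn_model` (90, 268) -/
theorem pvho_hgNum (n : PvhoNum 𝔓) (m : ℕ) (t s : τ) {μ : ℝ} (hμ : 0 < μ) (hμ' : 80 * μ ≤ 𝔓.num.rho * pvlmH m) : PvhgNum 𝔓.num (pvlmH m) μ (𝔓.ty t) (𝔓.ty s) := by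
  obtain ⟨s1, s2, s3, s0⟩ := pvho_small n m
  have hh := pvlm_H_pos m
  exact
    { mu := hμ
      hh0 := hh
      rho0 := n.rho0
      r1 := by linarith [n.rho1, n.rho0]
      r2 := by linarith [n.rho2, n.rho1, n.rho0]
      rr := by linarith
      far_t := by linarith [pvho_rad n m t]
      far_s := by linarith [pvho_rad n m s] }

end num

/-! ## 2. the side of the box, `PvhjEndD` -/

section side

variable {τ : Type} {c : ℝ} {𝔓 : PvxPar τ c}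

theorem pvho_dir_aux {u : ℤ × ℤ} (hu : PvfeDir u) : (starRingEnd ℂ) (pvtZ u) ∈ pvtzdDir := by
  rcases hu with rfl | rfl | rfl | rfl <;> simp [pvtZ, pvtzdDir]

/-- the prescribed side at the exit tip -/
theorem pvho_dir_o {m : ℕ} (hL : PvegLev 𝔓 m) (t : τ) : (starRingEnd ℂ) ((𝔓.Γ m).dout t) ∈ pvtzdDir := by
  obtain ⟨e, u, hu, -, h2, -, -⟩ := hL.doors.out t
  rw [h2]
  exact pvho_dir_aux hu

/-- the prescribed side at the entrance tip -/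
theorem pvho_dir_i {m : ℕ} (hL : PvegLev 𝔓 m) (t : τ) : (starRingEnd ℂ) (-(𝔓.Γ m).din t) ∈ pvtzdDir := by
  obtain ⟨e, u, hu, -, h2, -, -⟩ := hL.doors.inn t
  rw [h2, neg_neg]
  exact pvho_dir_aux hu

theorem pvho_side_aux (y U z : ℂ) {h : ℝ} (hh : 0 < h) {A e : ℝ} (hU : (y * (starRingEnd ℂ) U).re = pvccN y) (hA : |pvccN y - A| ≤ e) :
    |A * h + ((starRingEnd ℂ) U * z).re - ((starRingEnd ℂ) U * (z + (h : ℂ) * y)).re| ≤ e * h := by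
  have h1 : ((starRingEnd ℂ) U * (z + (h : ℂ) * y)).re = ((starRingEnd ℂ) U * z).re + h * pvccN y := by
    rw [← hU, mul_add, Complex.add_re]
    congr 1
    rw [show (starRingEnd ℂ) U * ((h : ℂ) * y) = (h : ℂ) * (y * (starRingEnd ℂ) U) by ring, Complex.re_ofReal_mul]
  rw [h1]
  have h2 : A * h + ((starRingEnd ℂ) U * z).re - (((starRingEnd ℂ) U * z).re + h * pvccN y) = -((pvccN y - A) * h) := by ring
  rw [h2, abs_neg, abs_mul, abs_of_pos hh]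
  exact mul_le_mul_of_nonneg_right hA hh.le

/-- **the side `ζ = conj (dout t)` of the own box passes within `R / 10` of the centre of the exit tip cell** -/
theorem pvho_side_o {m : ℕ} {t : τ} (hL : PvegLev 𝔓 m) (hT : pviwTyOk 𝔓 t) (z : ℂ) :
    |pvwRad 𝔓.num (pvlmH m) (𝔓.ty t) (𝔓.ty t).k + ((starRingEnd ℂ) ((𝔓.Γ m).dout t) * z).re - ((starRingEnd ℂ) ((𝔓.Γ m).dout t) * (𝔓.ty t).cp (pvlmH m) z).re| ≤ 𝔓.num.rho * pvlmH m / 10 := by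
  obtain ⟨e, u, hu, -, h2, -, h4⟩ := hL.doors.out t
  have h := pvho_side_aux (𝔓.ty t).yp ((𝔓.Γ m).dout t) z (pvlm_H_pos m) (by rw [h2]; exact h4) hT.1
  unfold pvwRad PvwTy.cp
  calc _ ≤ 𝔓.num.rho / 10 * pvlmH m := h
    _ = _ := by ring

/-- **the side `ζ = conj (- din t)` of the own box passes within `R / 10` of the centre of the entrance tip cell** -/
theorem pvho_side_i {m : ℕ} {t : τ} (hL : PvegLev 𝔓 m) (hT : pviwTyOk 𝔓 t) (z : ℂ) :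
    |pvwRad 𝔓.num (pvlmH m) (𝔓.ty t) (𝔓.ty t).k + ((starRingEnd ℂ) (-(𝔓.Γ m).din t) * z).re - ((starRingEnd ℂ) (-(𝔓.Γ m).din t) * (𝔓.ty t).cm (pvlmH m) z).re| ≤ 𝔓.num.rho * pvlmH m / 10 := by
  obtain ⟨e, u, hu, -, h2, -, h4⟩ := hL.doors.inn t
  have h := pvho_side_aux (𝔓.ty t).ym (-(𝔓.Γ m).din t) z (pvlm_H_pos m) (by rw [h2, neg_neg]; exact h4) hT.2.1
  unfold pvwRad PvwTy.cm
  calc _ ≤ 𝔓.num.rho / 10 * pvlmH m := h
    _ = _ := by ring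

/-- a mesh certificate of a ball gives the density of the smaller ball -/
theorem pvho_mesh_ball {Y : Set ℂ} {x : ℂ} {μ R R' : ℝ} (hm : PvtrMesh μ (closedBall x R') Y) (hR : R + μ ≤ R') : VorDense Y (closedBall x R) μ := by
  intro w hw
  refine hm w fun v hv => ?_
  rw [mem_closedBall, dist_eq_norm] at hv hw ⊢
  have := pvhg_tri3 v w x
  linarith

theorem pvho_dense_mono {Y : Set ℂ} {x : ℂ} {μ R R' : ℝ} (hm : VorDense Y (closedBall x R') μ) (hR : R ≤ R') : VorDense Y (closedBall x R) μ :=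
  fun w hw => hm w (closedBall_subset_closedBall hR hw)

/-- **`PvhjEndD` AT THE EXIT TIP**: any site set `Y` (base configuration), any `K` which contains the sites of the small mouth (`K = univ` for 23), tip face radius `rt ∈ [R / 10, R / 4 - 5 μ / 2]` -/
theorem pvho_endD_o (n : PvhoNum 𝔓) {m : ℕ} {t : τ} (hL : PvegLev 𝔓 m) (hT : pviwTyOk 𝔓 t) (z : ℂ) {μ rs rt : ℝ} (hμ : 0 < μ) (hμ' : 80 * μ ≤ 𝔓.num.rho * pvlmH m)
    (hs0 : 𝔓.num.rho * pvlmH m / 4 ≤ rs) (hs1 : rs ≤ 𝔓.num.rho * pvlmH m / 2) (ht0 : 𝔓.num.rho * pvlmH m / 10 ≤ rt) (ht1 : 2 * rt + 5 * μ ≤ 𝔓.num.rho * pvlmH m / 2) {Y : Set ℂ} {K : Set Y}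
    (mesh : VorDense Y (closedBall ((𝔓.ty t).cp (pvlmH m) z) (𝔓.num.rho2 * pvlmH m + 3 * μ)) μ) (inK : ∀ v : Y, ‖(v : ℂ) - (𝔓.ty t).cp (pvlmH m) z‖ < rs + 4 * μ → v ∈ K) :
    PvhjEndD Y 𝔓.num (pvlmH m) (𝔓.ty t) z ((𝔓.ty t).cp (pvlmH m) z) K (𝔓.num.rho2 * pvlmH m) (𝔓.num.rho * pvlmH m / 2) μ rs rt ((starRingEnd ℂ) ((𝔓.Γ m).dout t)) := by
  have e := pvho_endNum n m t hμ hμ' hs0 hs1
  obtain ⟨s1, s2, s3, s0⟩ := pvho_small n m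
  have hb : 0 ≤ (𝔓.ty t).b * pvlmH m := mul_nonneg (n.b0 t) (pvlm_H_pos m).le
  refine ⟨⟨e.rho, e.r2, e.r1, e.rr, mesh, e.far, e.rs0, e.rs1, e.rs2, inK⟩, ht1, ?_, pvho_dir_o hL t, ?_⟩
  · linarith [pvho_rad n m t]
  · linarith [(abs_le.1 (pvho_side_o hL hT z)).2]

/-- **`PvhjEndD` AT THE ENTRANCE TIP** -/
theorem pvho_endD_i (n : PvhoNum 𝔓) {m : ℕ} {t : τ} (hL : PvegLev 𝔓 m) (hT : pviwTyOk 𝔓 t) (z : ℂ) {μ rs rt : ℝ} (hμ : 0 < μ) (hμ' : 80 * μ ≤ 𝔓.num.rho * pvlmH m)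
    (hs0 : 𝔓.num.rho * pvlmH m / 4 ≤ rs) (hs1 : rs ≤ 𝔓.num.rho * pvlmH m / 2) (ht0 : 𝔓.num.rho * pvlmH m / 10 ≤ rt) (ht1 : 2 * rt + 5 * μ ≤ 𝔓.num.rho * pvlmH m / 2) {Y : Set ℂ} {K : Set Y}
    (mesh : VorDense Y (closedBall ((𝔓.ty t).cm (pvlmH m) z) (𝔓.num.rho2 * pvlmH m + 3 * μ)) μ) (inK : ∀ v : Y, ‖(v : ℂ) - (𝔓.ty t).cm (pvlmH m) z‖ < rs + 4 * μ → v ∈ K) :
    PvhjEndD Y 𝔓.num (pvlmH m) (𝔓.ty t) z ((𝔓.ty t).cm (pvlmH m) z) K (𝔓.num.rho2 * pvlmH m) (𝔓.num.rho * pvlmH m / 2) μ rs rt ((starRingEnd ℂ) (-(𝔓.Γ m).din t)) := by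
  have e := pvho_endNum n m t hμ hμ' hs0 hs1
  obtain ⟨s1, s2, s3, s0⟩ := pvho_small n m
  have hb : 0 ≤ (𝔓.ty t).b * pvlmH m := mul_nonneg (n.b0 t) (pvlm_H_pos m).le
  refine ⟨⟨e.rho, e.r2, e.r1, e.rr, mesh, e.far, e.rs0, e.rs1, e.rs2, inK⟩, ht1, ?_, pvho_dir_i hL t, ?_⟩
  · linarith [pvho_rad n m t]
  · linarith [(abs_le.1 (pvho_side_i hL hT z)).2]

end side

/-! ## 3. the tip dart -/

section tip

variable {τ : Type} {c : ℝ} {𝔓 : PvxPar τ c}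

/-- a point of a placed tip cell -/
theorem pvho_cell {y : ℂ} {S : Set ℂ} {e : ℝ} (hS : ∀ w ∈ S, ‖w - y‖ ≤ e) {z x : ℂ} {h : ℝ} (hh : 0 < h) (hx : x ∈ pvxPl z h S) : ‖x - (z + (h : ℂ) * y)‖ ≤ e * h := by
  obtain ⟨w, hw, hx⟩ := hx
  have e1 : x - (z + (h : ℂ) * y) = (h : ℂ) * (w - y) := by rw [← hx]; ring
  rw [e1, norm_mul, Complex.norm_real, Real.norm_eq_abs, abs_of_pos hh, mul_comm]
  exact mul_le_mul_of_nonneg_right (hS w hw) hh.le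

/-- a dart whose source lies within `a` of `x`, mesh `μ` on `closedBall x (a + 2 μ)` -/
theorem pvho_dart {η : Conf PvPt} (d : (delbPl (pvieY η)).Dart) {x : ℂ} {a μ : ℝ} (hμ : 0 < μ) (mesh : VorDense (pvieY η) (closedBall x (a + 2 * μ)) μ)
    (hs : ‖((pvieT η).src d : ℂ) - x‖ ≤ a) : ‖((pvieT η).tgt d : ℂ) - x‖ ≤ a + 2 * μ := by
  have hadj : DelAdj (pvieY η) ((pvieT η).src d : ℂ) ((pvieT η).tgt d : ℂ) := d.2.2
  have hS : closedBall ((pvieT η).src d : ℂ) (2 * μ) ⊆ closedBall x (a + 2 * μ) := fun w hw => by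
    rw [mem_closedBall, dist_eq_norm] at hw ⊢
    have := pvhg_tri3 w ((pvieT η).src d : ℂ) x
    linarith
  obtain ⟨-, -, -, q, hqa, hqu⟩ := hadj
  have h2 := vor_cell_subset_ball hμ.le (by linarith : μ < 2 * μ) (mesh.mono subset_rfl hS le_rfl) hqa
  have h2' : ‖q - ((pvieT η).src d : ℂ)‖ ≤ μ := by rwa [mem_closedBall, dist_eq_norm] at h2
  have h3 : ‖q - ((pvieT η).tgt d : ℂ)‖ ≤ μ := vor_site_near mesh hqu (hS (closedBall_subset_closedBall (by linarith) h2))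
  have h4 := pvhg_tri3 ((pvieT η).tgt d : ℂ) q ((pvieT η).src d : ℂ)
  have h5 := pvhg_tri3 ((pvieT η).tgt d : ℂ) ((pvieT η).src d : ℂ) x
  rw [norm_sub_rev] at h3
  linarith

/-- **THE TIP DART OF AN EXIT HALF STATE**: black end in the tip cell, white end one edge further -/
theorem pvho_tip_o {m : ℕ} {t : τ} {z : ℂ} {b : Bool} {η : Conf PvPt} {𝔖 : PvwSt (pvieT η)} (hc : ∀ w ∈ 𝔓.cp t, ‖w - (𝔓.ty t).yp‖ ≤ 𝔓.num.rho / 10)
    (hp : PvilOut 𝔓.num b (pvilPin 𝔓 m z t) η 𝔖) {μ : ℝ} (hμ : 0 < μ) (mesh : VorDense (pvieY η) (closedBall ((𝔓.ty t).cp (pvlmH m) z) (𝔓.num.rho * pvlmH m / 10 + 2 * μ)) μ) :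
    ‖((pvieT η).src (𝔖.ep 𝔖.np) : ℂ) - (𝔓.ty t).cp (pvlmH m) z‖ ≤ 𝔓.num.rho * pvlmH m / 10 ∧ ‖((pvieT η).tgt (𝔖.ep 𝔖.np) : ℂ) - (𝔓.ty t).cp (pvlmH m) z‖ ≤ 𝔓.num.rho * pvlmH m / 10 + 2 * μ := by
  have h1 : ‖((pvieT η).src (𝔖.ep 𝔖.np) : ℂ) - (𝔓.ty t).cp (pvlmH m) z‖ ≤ 𝔓.num.rho * pvlmH m / 10 := by
    have := pvho_cell hc (pvlm_H_pos m) hp.tip
    calc _ ≤ 𝔓.num.rho / 10 * pvlmH m := this
      _ = _ := by ring
  exact ⟨h1, pvho_dart _ hμ mesh h1⟩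

/-- **THE TIP DART OF AN ENTRANCE HALF STATE** -/
theorem pvho_tip_i {m : ℕ} {t : τ} {z : ℂ} {b : Bool} {η : Conf PvPt} {𝔖 : PvwSt (pvieT η)} (hc : ∀ w ∈ 𝔓.cm t, ‖w - (𝔓.ty t).ym‖ ≤ 𝔓.num.rho / 10)
    (hp : PvilIn 𝔓.num b (pvilPin 𝔓 m z t) η 𝔖) {μ : ℝ} (hμ : 0 < μ) (mesh : VorDense (pvieY η) (closedBall ((𝔓.ty t).cm (pvlmH m) z) (𝔓.num.rho * pvlmH m / 10 + 2 * μ)) μ) :
    ‖((pvieT η).src (𝔖.em 𝔖.nm) : ℂ) - (𝔓.ty t).cm (pvlmH m) z‖ ≤ 𝔓.num.rho * pvlmH m / 10 ∧ ‖((pvieT η).tgt (𝔖.em 𝔖.nm) : ℂ) - (𝔓.ty t).cm (pvlmH m) z‖ ≤ 𝔓.num.rho * pvlmH m / 10 + 2 * μ := by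
  have h1 : ‖((pvieT η).src (𝔖.em 𝔖.nm) : ℂ) - (𝔓.ty t).cm (pvlmH m) z‖ ≤ 𝔓.num.rho * pvlmH m / 10 := by
    have := pvho_cell hc (pvlm_H_pos m) hp.tip
    calc _ ≤ 𝔓.num.rho / 10 * pvlmH m := this
      _ = _ := by ring
  exact ⟨h1, pvho_dart _ hμ mesh h1⟩

end tip

/-! ## 4. the rooms -/

section room

theorem pvho_S_comb (Y u x y : ℂ) {a b : ℝ} (hab : a + b = 1) : pvegS Y u (a • x + b • y) = a * pvegS Y u x + b * pvegS Y u y := by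
  unfold pvegS
  have hab' : (a : ℂ) + (b : ℂ) = 1 := by exact_mod_cast hab
  have e : (a • x + b • y - Y) * (starRingEnd ℂ) u = (a : ℂ) * ((x - Y) * (starRingEnd ℂ) u) + (b : ℂ) * ((y - Y) * (starRingEnd ℂ) u) := by
    simp only [Complex.real_smul]
    linear_combination (Y * (starRingEnd ℂ) u) * hab'
  rw [e, Complex.add_re, Complex.re_ofReal_mul, Complex.re_ofReal_mul]

theorem pvho_L_comb (Y u x y : ℂ) {a b : ℝ} (hab : a + b = 1) : pvegL Y u (a • x + b • y) = a * pvegL Y u x + b * pvegL Y u y := by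
  unfold pvegL
  have hab' : (a : ℂ) + (b : ℂ) = 1 := by exact_mod_cast hab
  have e : (a • x + b • y - Y) * (starRingEnd ℂ) u = (a : ℂ) * ((x - Y) * (starRingEnd ℂ) u) + (b : ℂ) * ((y - Y) * (starRingEnd ℂ) u) := by
    simp only [Complex.real_smul]
    linear_combination (Y * (starRingEnd ℂ) u) * hab'
  rw [e, Complex.add_im, Complex.im_ofReal_mul, Complex.im_ofReal_mul]

/-- the funnel is convex -/
theorem pvho_Ra_convex (Y u p : ℂ) (e δ w a : ℝ) : Convex ℝ (pvegRa Y u p e δ w a) := by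
  intro x hx y hy s t hs ht hst
  obtain ⟨x1, x2, x3⟩ := hx
  obtain ⟨y1, y2, y3⟩ := hy
  rw [abs_le] at x3 y3
  have k : ∀ A : ℝ, s * A + t * A = A := fun A => by rw [← add_mul, hst, one_mul]
  refine ⟨?_, ?_, ?_⟩
  · rw [pvho_S_comb Y u x y hst]
    linarith [mul_le_mul_of_nonneg_left x1 hs, mul_le_mul_of_nonneg_left y1 ht, k (e + 2 * δ)]
  · rw [pvho_S_comb Y u x y hst]
    linarith [mul_le_mul_of_nonneg_left x2 hs, mul_le_mul_of_nonneg_left y2 ht, k (pvegS Y u p - a)]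
  · rw [pvho_L_comb Y u x y hst, abs_le]
    constructor
    · linarith [mul_le_mul_of_nonneg_left x3.1 hs, mul_le_mul_of_nonneg_left y3.1 ht, k (-w), k (pvegL Y u p)]
    · linarith [mul_le_mul_of_nonneg_left x3.2 hs, mul_le_mul_of_nonneg_left y3.2 ht, k w, k (pvegL Y u p)]

/-- the point of the frame with the coordinates `(s, l)` -/
theorem pvho_frame {u : ℂ} (hu : u ^ 4 = 1) (Y : ℂ) (s l : ℝ) : pvegS Y u (Y + ((s : ℂ) + (l : ℂ) * I) * u) = s ∧ pvegL Y u (Y + ((s : ℂ) + (l : ℂ) * I) * u) = l := by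
  have h1 := pveg_unit_conj hu
  have e : (Y + ((s : ℂ) + (l : ℂ) * I) * u - Y) * (starRingEnd ℂ) u = (s : ℂ) + (l : ℂ) * I := by linear_combination ((s : ℂ) + (l : ℂ) * I) * h1
  unfold pvegS pvegL
  rw [e]
  simp

variable {Y u p : ℂ} {e δ w rM κ rI rk a : ℝ}

/-- **THE ROOM IS STAR SHAPED** about the foot of the axis of the funnel -/
theorem pvho_Ya_star (H : PvegDoor Y u p e δ w rM κ rI rk) (hκ : e + 17 * δ / 4 ≤ κ) (ha' : a ≤ δ / 4) (hM : e + 3 * δ ≤ rM) :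
    StarConvex ℝ (Y + (((e + 2 * δ : ℝ) : ℂ) + ((pvegL Y u p : ℝ) : ℂ) * I) * u) (pvegYa Y u p e δ w rM a) := by
  obtain ⟨hS, hL⟩ := pvho_frame H.u4 Y (e + 2 * δ) (pvegL Y u p)
  have hδ := H.δ0
  have he := H.e0
  refine StarConvex.union ((convex_closedBall Y rM).starConvex ?_) ((pvho_Ra_convex Y u p e δ w a).starConvex ⟨hS.ge, ?_, ?_⟩)
  · rw [mem_closedBall_iff_norm]
    have hl := abs_le.1 H.lat
    have h2 : ‖Y + (((e + 2 * δ : ℝ) : ℂ) + ((pvegL Y u p : ℝ) : ℂ) * I) * u - Y‖ ^ 2 ≤ rM ^ 2 := by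
      rw [pveg_sq H.u4, hS, hL]
      nlinarith [hl.1, hl.2]
    exact (pow_le_pow_iff_left₀ (norm_nonneg _) (by linarith) (by norm_num)).1 h2
  · rw [hS]
    linarith [H.s_lo]
  · rw [hL, sub_self, abs_zero]
    exact H.w0

theorem pvho_Ya_bdd (H : PvegDoor Y u p e δ w rM κ rI rk) (ha : 0 ≤ a) : Bornology.IsBounded (pvegYa Y u p e δ w rM a) := isBounded_closedBall.subset (pveg_Ya_ball H ha)

end room

section roomP

variable {τ : Type} {c : ℝ} {𝔓 : PvxPar τ c} {m : ℕ} {t : τ}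

theorem pvho_yP (𝔓 : PvxPar τ c) (m : ℕ) (z : ℂ) (t : τ) : (pvilPin 𝔓 m z t).yP = (𝔓.ty t).cp (pvlmH m) z := pvhg_il_yP_std (𝔓.pl m z t)
theorem pvho_yM (𝔓 : PvxPar τ c) (m : ℕ) (z : ℂ) (t : τ) : (pvilPin 𝔓 m z t).yM = (𝔓.ty t).cm (pvlmH m) z := pvhg_il_yM_std (𝔓.pl m z t)

theorem pvho_norm_dir {ζ : ℂ} (hζ : ζ ∈ pvtzdDir) : ‖ζ‖ = 1 := by
  rcases hζ with rfl | rfl | rfl | rfl <;> simp

/-- a point near the centre of the exit tip cell is far from the centre of the pin -/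
theorem pvho_far_o (hL : PvegLev 𝔓 m) (hT : pviwTyOk 𝔓 t) (z w : ℂ) :
    pvwRad 𝔓.num (pvlmH m) (𝔓.ty t) (𝔓.ty t).k - 𝔓.num.rho * pvlmH m / 10 - ‖w - (𝔓.ty t).cp (pvlmH m) z‖ ≤ ‖w - z‖ := by
  have h1 := (abs_le.1 (pvho_side_o hL hT z)).2
  have h2 : ((starRingEnd ℂ) ((𝔓.Γ m).dout t) * ((𝔓.ty t).cp (pvlmH m) z - z)).re ≤ ‖(𝔓.ty t).cp (pvlmH m) z - z‖ := by
    refine (Complex.re_le_norm _).trans ?_
    rw [norm_mul, pvho_norm_dir (pvho_dir_o hL t), one_mul]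
  rw [mul_sub, Complex.sub_re] at h2
  have h3 := pvhg_tri3 ((𝔓.ty t).cp (pvlmH m) z) w z
  rw [norm_sub_rev ((𝔓.ty t).cp (pvlmH m) z) w] at h3
  linarith

/-- a point near the centre of the entrance tip cell is far from the centre of the pin -/
theorem pvho_far_i (hL : PvegLev 𝔓 m) (hT : pviwTyOk 𝔓 t) (z w : ℂ) :
    pvwRad 𝔓.num (pvlmH m) (𝔓.ty t) (𝔓.ty t).k - 𝔓.num.rho * pvlmH m / 10 - ‖w - (𝔓.ty t).cm (pvlmH m) z‖ ≤ ‖w - z‖ := by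
  have h1 := (abs_le.1 (pvho_side_i hL hT z)).2
  have h2 : ((starRingEnd ℂ) (-(𝔓.Γ m).din t) * ((𝔓.ty t).cm (pvlmH m) z - z)).re ≤ ‖(𝔓.ty t).cm (pvlmH m) z - z‖ := by
    refine (Complex.re_le_norm _).trans ?_
    rw [norm_mul, pvho_norm_dir (pvho_dir_i hL t), one_mul]
  rw [mul_sub, Complex.sub_re] at h2
  have h3 := pvhg_tri3 ((𝔓.ty t).cm (pvlmH m) z) w z
  rw [norm_sub_rev ((𝔓.ty t).cm (pvlmH m) z) w] at h3
  linarith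

/-- the inner mouth of the exit tip misses the disc of the core -/
theorem pvho_core_o (n : PvhoNum 𝔓) (hL : PvegLev 𝔓 m) (hT : pviwTyOk 𝔓 t) (z : ℂ) {w : ℂ} (hw : ‖w - (𝔓.ty t).cp (pvlmH m) z‖ ≤ 𝔓.num.rho * pvlmH m / 2) : (𝔓.ty t).b * pvlmH m ≤ ‖w - z‖ := by
  obtain ⟨s1, s2, s3, s0⟩ := pvho_small n m
  linarith [pvho_far_o hL hT z w, pvho_rad n m t, pvlm_H_pos m]

/-- the inner mouth of the entrance tip misses the disc of the core -/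
theorem pvho_core_i (n : PvhoNum 𝔓) (hL : PvegLev 𝔓 m) (hT : pviwTyOk 𝔓 t) (z : ℂ) {w : ℂ} (hw : ‖w - (𝔓.ty t).cm (pvlmH m) z‖ ≤ 𝔓.num.rho * pvlmH m / 2) : (𝔓.ty t).b * pvlmH m ≤ ‖w - z‖ := by
  obtain ⟨s1, s2, s3, s0⟩ := pvho_small n m
  linarith [pvho_far_i hL hT z w, pvho_rad n m t, pvlm_H_pos m]

/-- (hb) the room of the first link is bounded -/
theorem pvho_oYa_bdd (hL : PvegLev 𝔓 m) (hT : pviwTyOk 𝔓 t) (z : ℂ) : Bornology.IsBounded (pvieSh z (pvegOYa 𝔓 m t)) := isBounded_closedBall.subset (pveg_oYa_ball hL hT z)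

/-- (hb) the room of the last link is bounded -/
theorem pvho_iYa_bdd (hL : PvegLev 𝔓 m) (hT : pviwTyOk 𝔓 t) (z : ℂ) : Bornology.IsBounded (pvieSh z (pvegIYa 𝔓 m t)) := isBounded_closedBall.subset (pveg_iYa_ball hL hT z)

/-- (hS) **the room of the first link has no hole** -/
theorem pvho_oYa_co (hL : PvegLev 𝔓 m) (hT : pviwTyOk 𝔓 t) (z : ℂ) : IsPreconnected (pvieSh z (pvegOYa 𝔓 m t))ᶜ := by
  have hR := pveg_R_pos hL
  have hf : 64 * pvlmDel c m ≤ pvegR 𝔓 m := hL.fine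
  have hδ := pvlm_Del_pos c m
  exact pvrt_star ((pvho_Ya_star (pveg_door_o hL hT) (by linarith) (pveg_A_le c m) (by linarith)).add_left z) (pvho_oYa_bdd hL hT z)

/-- (hS) **the room of the last link has no hole** -/
theorem pvho_iYa_co (hL : PvegLev 𝔓 m) (hT : pviwTyOk 𝔓 t) (z : ℂ) : IsPreconnected (pvieSh z (pvegIYa 𝔓 m t))ᶜ := by
  have hR := pveg_R_pos hL
  have hf : 64 * pvlmDel c m ≤ pvegR 𝔓 m := hL.fine
  have hδ := pvlm_Del_pos c m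
  exact pvrt_star ((pvho_Ya_star (pveg_door_i hL hT) (by linarith) (pveg_A_le c m) (by linarith)).add_left z) (pvho_iYa_bdd hL hT z)

/-- (hcore) the room of the first link misses the disc of the core -/
theorem pvho_oYa_core (n : PvhoNum 𝔓) (hL : PvegLev 𝔓 m) (hT : pviwTyOk 𝔓 t) (z : ℂ) : ∀ w ∈ pvieSh z (pvegOYa 𝔓 m t), (𝔓.ty t).b * pvlmH m ≤ ‖w - z‖ := fun w hw =>
  pvho_core_o n hL hT z (by have := pveg_oYa_ball hL hT z hw; rwa [mem_closedBall, dist_eq_norm] at this)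

/-- (hcore) the room of the last link misses the disc of the core -/
theorem pvho_iYa_core (n : PvhoNum 𝔓) (hL : PvegLev 𝔓 m) (hT : pviwTyOk 𝔓 t) (z : ℂ) : ∀ w ∈ pvieSh z (pvegIYa 𝔓 m t), (𝔓.ty t).b * pvlmH m ≤ ‖w - z‖ := fun w hw =>
  pvho_core_i n hL hT z (by have := pveg_iYa_ball hL hT z hw; rwa [mem_closedBall, dist_eq_norm] at this)

/-- (ball) the kept mouth lies in the room of the first link -/
theorem pvho_oYa_ball (𝔓 : PvxPar τ c) (m : ℕ) (t : τ) (z : ℂ) {a : ℝ} (ha : a ≤ 5 * (𝔓.num.rho * pvlmH m) / 16) : closedBall ((𝔓.ty t).cp (pvlmH m) z) a ⊆ pvieSh z (pvegOYa 𝔓 m t) := by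
  have h1 : pvieSh z (closedBall (pvegYp 𝔓 m t) (5 * pvegR 𝔓 m / 16)) ⊆ pvieSh z (pvegOYa 𝔓 m t) := Set.image_mono subset_union_left
  rw [pveg_sh_ball] at h1
  exact (closedBall_subset_closedBall ha).trans h1

/-- (ball) the kept mouth lies in the room of the last link -/
theorem pvho_iYa_ball (𝔓 : PvxPar τ c) (m : ℕ) (t : τ) (z : ℂ) {a : ℝ} (ha : a ≤ 5 * (𝔓.num.rho * pvlmH m) / 16) : closedBall ((𝔓.ty t).cm (pvlmH m) z) a ⊆ pvieSh z (pvegIYa 𝔓 m t) := by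
  have h1 : pvieSh z (closedBall (pvegYm 𝔓 m t) (5 * pvegR 𝔓 m / 16)) ⊆ pvieSh z (pvegIYa 𝔓 m t) := Set.image_mono subset_union_left
  rw [pveg_sh_ball] at h1
  exact (closedBall_subset_closedBall ha).trans h1

/-- the placed mouths are balls round the centres of the tip cells -/
theorem pvho_oM (𝔓 : PvxPar τ c) (m : ℕ) (t : τ) (z : ℂ) : pvieSh z (pvegOM 𝔓 m t) = closedBall ((𝔓.ty t).cp (pvlmH m) z) (5 * (𝔓.num.rho * pvlmH m) / 16) := pveg_sh_ball _ _ _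
theorem pvho_iM (𝔓 : PvxPar τ c) (m : ℕ) (t : τ) (z : ℂ) : pvieSh z (pvegIM 𝔓 m t) = closedBall ((𝔓.ty t).cm (pvlmH m) z) (5 * (𝔓.num.rho * pvlmH m) / 16) := pveg_sh_ball _ _ _

end roomP

/-! ## 5. the link region of the room at a configuration -/

section K

variable {τ : Type} {c : ℝ} {𝔓 : PvxPar τ c} {m : ℕ} {t : τ} {z : ℂ} {b : Bool} {η : Conf PvPt} {𝔖 : PvwSt (pvieT η)}

/-- **(hK hco) first link**: the sites whose cell lies in the room are finitely many, the others are joined off them -/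
theorem pvho_K_o (hL : PvegLev 𝔓 m) (hT : pviwTyOk 𝔓 t) (z : ℂ) (hg : DelGood (pvieY η)) :
    (pvgeKV (pvieY η) (pvieSh z (pvegOYa 𝔓 m t))ᶜ).Finite ∧
      ∀ u v, u ∉ pvgeKV (pvieY η) (pvieSh z (pvegOYa 𝔓 m t))ᶜ → v ∉ pvgeKV (pvieY η) (pvieSh z (pvegOYa 𝔓 m t))ᶜ → (pvieT η).Join univ (pvgeKV (pvieY η) (pvieSh z (pvegOYa 𝔓 m t))ᶜ)ᶜ u v :=
  pvhj_K_pl (h := hg) (delb_pl_eq hg) (pvho_oYa_co hL hT z) (by rw [compl_compl]; exact pvho_oYa_bdd hL hT z)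

/-- **(hK hco) last link** -/
theorem pvho_K_i (hL : PvegLev 𝔓 m) (hT : pviwTyOk 𝔓 t) (z : ℂ) (hg : DelGood (pvieY η)) :
    (pvgeKV (pvieY η) (pvieSh z (pvegIYa 𝔓 m t))ᶜ).Finite ∧
      ∀ u v, u ∉ pvgeKV (pvieY η) (pvieSh z (pvegIYa 𝔓 m t))ᶜ → v ∉ pvgeKV (pvieY η) (pvieSh z (pvegIYa 𝔓 m t))ᶜ → (pvieT η).Join univ (pvgeKV (pvieY η) (pvieSh z (pvegIYa 𝔓 m t))ᶜ)ᶜ u v :=
  pvhj_K_pl (h := hg) (delb_pl_eq hg) (pvho_iYa_co hL hT z) (by rw [compl_compl]; exact pvho_iYa_bdd hL hT z)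

/-- (hgp) `g⁺` of the pin is not in the link region -/
theorem pvho_gp_o (n : PvhoNum 𝔓) (hL : PvegLev 𝔓 m) (hT : pviwTyOk 𝔓 t) (hp : PvilOut 𝔓.num b (pvilPin 𝔓 m z t) η 𝔖) : 𝔖.gp ∉ pvgeKV (pvieY η) (pvieSh z (pvegOYa 𝔓 m t))ᶜ :=
  fun hK => absurd (pvhg_il_gp_disc (Or.inl rfl) hp) (not_lt.2 (pvho_oYa_core n hL hT z _ (pvhg_KV_over hK)))

/-- (hgm) `g⁻` of the pin is not in the link region -/
theorem pvho_gm_i (n : PvhoNum 𝔓) (hL : PvegLev 𝔓 m) (hT : pviwTyOk 𝔓 t) (hp : PvilIn 𝔓.num b (pvilPin 𝔓 m z t) η 𝔖) : 𝔖.gm ∉ pvgeKV (pvieY η) (pvieSh z (pvegIYa 𝔓 m t))ᶜ :=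
  fun hK => absurd (pvhg_il_gm_disc (Or.inl rfl) hp) (not_lt.2 (pvho_iYa_core n hL hT z _ (pvhg_KV_over hK)))

/-- (inK) the sites of the small mouth are in the link region of the first link -/
theorem pvho_inK_o (𝔓 : PvxPar τ c) (m : ℕ) (t : τ) (z : ℂ) {Y : Set ℂ} {μ rs : ℝ} (hμ : 0 < μ) (hrs : rs + 5 * μ ≤ 5 * (𝔓.num.rho * pvlmH m) / 16)
    (mesh : VorDense Y (closedBall ((𝔓.ty t).cp (pvlmH m) z) (rs + 6 * μ)) μ) (v : Y) (hv : ‖(v : ℂ) - (𝔓.ty t).cp (pvlmH m) z‖ < rs + 4 * μ) : v ∈ pvgeKV Y (pvieSh z (pvegOYa 𝔓 m t))ᶜ :=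
  pvhj_inK hμ mesh (by linarith) (Set.disjoint_compl_right_iff_subset.2 (pvho_oYa_ball 𝔓 m t z (by linarith))) v hv

/-- (inK) the sites of the small mouth are in the link region of the last link -/
theorem pvho_inK_i (𝔓 : PvxPar τ c) (m : ℕ) (t : τ) (z : ℂ) {Y : Set ℂ} {μ rs : ℝ} (hμ : 0 < μ) (hrs : rs + 5 * μ ≤ 5 * (𝔓.num.rho * pvlmH m) / 16)
    (mesh : VorDense Y (closedBall ((𝔓.ty t).cm (pvlmH m) z) (rs + 6 * μ)) μ) (v : Y) (hv : ‖(v : ℂ) - (𝔓.ty t).cm (pvlmH m) z‖ < rs + 4 * μ) : v ∈ pvgeKV Y (pvieSh z (pvegIYa 𝔓 m t))ᶜ :=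
  pvhj_inK hμ mesh (by linarith) (Set.disjoint_compl_right_iff_subset.2 (pvho_iYa_ball 𝔓 m t z (by linarith))) v hv

end K

/-! ## 6. banks and frozen sites -/

section bank

variable {τ : Type} {c : ℝ} {𝔓 : PvxPar τ c} {m : ℕ} {t : τ} {z : ℂ} {b : Bool} {η : Conf PvPt} {𝔖 : PvwSt (pvieT η)}

/-- the two banks of the exit stub lie in the closed own box -/
theorem pvho_bank_o (hp : PvilOut 𝔓.num b (pvilPin 𝔓 m z t) η 𝔖) {v : ↥(pvieY η)} (hv : v ∈ 𝔖.bkP ∪ 𝔖.whP) : (v : ℂ) ∈ pvwSq z (pvwRad 𝔓.num (pvlmH m) (𝔓.ty t) (𝔓.ty t).k) := by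
  have a := pvhg_il_out (Or.inl rfl) hp
  rcases hv with ⟨i, hi, rfl⟩ | ⟨i, hi, rfl⟩
  · exact (a.stub.ep_in i hi).1
  · exact (a.stub.ep_in i hi).2

/-- the two banks of the entrance stub lie in the closed own box -/
theorem pvho_bank_i (hp : PvilIn 𝔓.num b (pvilPin 𝔓 m z t) η 𝔖) {v : ↥(pvieY η)} (hv : v ∈ 𝔖.bkM ∪ 𝔖.whM) : (v : ℂ) ∈ pvwSq z (pvwRad 𝔓.num (pvlmH m) (𝔓.ty t) (𝔓.ty t).k) := by
  have a := pvhg_il_in (Or.inl rfl) hp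
  rcases hv with ⟨i, hi, rfl⟩ | ⟨i, hi, rfl⟩
  · exact (a.stub.em_in i hi).1
  · exact (a.stub.em_in i hi).2

/-- a placed region which is off the own box with its collar contains no point of the closed own box -/
theorem pvho_box_off {A : Set ℂ} (hA : Disjoint A (pviwBox 𝔓 m t)) {x : ℂ} (hx : x ∈ pvieSh z A) : x ∉ pvwSq z (pvwRad 𝔓.num (pvlmH m) (𝔓.ty t) (𝔓.ty t).k) := by
  obtain ⟨w, hw, rfl⟩ := hx
  intro hb
  refine Set.disjoint_left.1 hA hw ?_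
  have hδ := pvlm_Del_pos c m
  have h1 : |(z + w - z).re| ≤ pvwRad 𝔓.num (pvlmH m) (𝔓.ty t) (𝔓.ty t).k ∧ |(z + w - z).im| ≤ pvwRad 𝔓.num (pvlmH m) (𝔓.ty t) (𝔓.ty t).k := hb
  rw [add_sub_cancel_left] at h1
  show |(w - 0).re| ≤ pviwRad 𝔓 m t + pvlmDel c m ∧ |(w - 0).im| ≤ pviwRad 𝔓 m t + pvlmDel c m
  rw [sub_zero]
  unfold pviwRad
  exact ⟨by linarith [h1.1], by linarith [h1.2]⟩

/-- **a site over a region off the own box (tile, door region) is on no bank of the exit stub** -/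
theorem pvho_off_o (hp : PvilOut 𝔓.num b (pvilPin 𝔓 m z t) η 𝔖) {A : Set ℂ} (hA : Disjoint A (pviwBox 𝔓 m t)) {v : ↥(pvieY η)} (hv : (v : ℂ) ∈ pvieSh z A) : v ∉ 𝔖.bkP ∪ 𝔖.whP :=
  fun h => pvho_box_off hA hv (pvho_bank_o hp h)

/-- **a site over a region off the own box is on no bank of the entrance stub** -/
theorem pvho_off_i (hp : PvilIn 𝔓.num b (pvilPin 𝔓 m z t) η 𝔖) {A : Set ℂ} (hA : Disjoint A (pviwBox 𝔓 m t)) {v : ↥(pvieY η)} (hv : (v : ℂ) ∈ pvieSh z A) : v ∉ 𝔖.bkM ∪ 𝔖.whM :=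
  fun h => pvho_box_off hA hv (pvho_bank_i hp h)

/-- the placed door square of the first link -/
theorem pvho_sh_sim (z p d : ℂ) (O : Set ℂ) : pvthSim (z + p) d '' O = pvieSh z (pvthSim p d '' O) := by
  unfold pvieSh
  rw [Set.image_image]
  refine Set.image_congr fun w _ => ?_
  unfold pvthSim
  ring

/-- the door region of the first link is off the own box -/
theorem pvho_door_off_o (hL : PvegLev 𝔓 m) (hT : pviwTyOk 𝔓 t) {O : Set ℂ} {r : ℝ} (hO : O ⊆ pvccSq 0 r) (hr : r ≤ pvlmDel c m / 4) : Disjoint (pvthSim ((𝔓.Γ m).pout t) ((𝔓.Γ m).dout t) '' O) (pviwBox 𝔓 m t) :=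
  (pveg_D_off (pveg_door_o hL hT)).mono_left (pveg_sim_sq hO hr _ (pveg_dout4 hL t))

/-- the door region of the last link is off the own box -/
theorem pvho_door_off_i (hL : PvegLev 𝔓 m) (hT : pviwTyOk 𝔓 t) {O : Set ℂ} {r : ℝ} (hO : O ⊆ pvccSq 0 r) (hr : r ≤ pvlmDel c m / 4) : Disjoint (pvthSim ((𝔓.Γ m).pin t) ((𝔓.Γ m).din t) '' O) (pviwBox 𝔓 m t) :=
  (pveg_D_off (pveg_door_i hL hT)).mono_left (pveg_sim_sq hO hr _ (pveg_din4 hL t))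

/-- **(hdis) a site over the door region of the first link is on no bank of the exit stub** -/
theorem pvho_door_o (𝔈 : PvieEng τ) {ε : ℝ} (hL : PvegLev 𝔓 m) (hT : pviwTyOk 𝔓 t) {r : ℝ} (hO : (𝔈.kit m ε).O₀ ⊆ pvccSq 0 r) (hr : r ≤ pvlmDel c m / 4) (hp : PvilOut 𝔓.num b (pvilPin 𝔓 m z t) η 𝔖)
    {v : ↥(pvieY η)} (hv : (v : ℂ) ∈ pvieDoor 𝔈 m ε (pvieZo 𝔓 m z t) ((𝔓.Γ m).dout t)) : v ∉ 𝔖.bkP ∪ 𝔖.whP := by
  refine pvho_off_o hp (pvho_door_off_o hL hT hO hr) ?_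
  rw [← pvho_sh_sim]
  exact hv

/-- **a site over the door region of the last link is on no bank of the entrance stub** -/
theorem pvho_door_i (𝔈 : PvieEng τ) {ε : ℝ} (hL : PvegLev 𝔓 m) (hT : pviwTyOk 𝔓 t) {r : ℝ} (hO : (𝔈.kit m ε).O₀ ⊆ pvccSq 0 r) (hr : r ≤ pvlmDel c m / 4) (hp : PvilIn 𝔓.num b (pvilPin 𝔓 m z t) η 𝔖)
    {v : ↥(pvieY η)} (hv : (v : ℂ) ∈ pvieDoor 𝔈 m ε (pvieZi 𝔓 m z t) ((𝔓.Γ m).din t)) : v ∉ 𝔖.bkM ∪ 𝔖.whM := by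
  refine pvho_off_i hp (pvho_door_off_i hL hT hO hr) ?_
  rw [← pvho_sh_sim]
  exact hv

/-- **a frozen site of `Σ_out` within `R / 2` of the centre of the exit tip cell is on a bank of the stub** -/
theorem pvho_fz_o (n : PvhoNum 𝔓) (hL : PvegLev 𝔓 m) (hT : pviwTyOk 𝔓 t) (hp : PvilOut 𝔓.num b (pvilPin 𝔓 m z t) η 𝔖) {v : ↥(pvieY η)} (hv : v ∈ 𝔖.fzOut)
    (hn : ‖(v : ℂ) - (𝔓.ty t).cp (pvlmH m) z‖ ≤ 𝔓.num.rho * pvlmH m / 2) : v ∈ 𝔖.bkP ∪ 𝔖.whP := by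
  rcases hv with (hv | hv) | hv
  · have a := pvhg_il_out (Or.inl rfl) hp
    have h1 : v ∈ 𝔖.dsc := hv
    rw [a.gate.dsc_eq] at h1
    exact absurd (show ‖(v : ℂ) - z‖ < (𝔓.ty t).b * pvlmH m from h1) (not_lt.2 (pvho_core_o n hL hT z hn))
  · exact Or.inl hv
  · exact Or.inr hv

/-- **a frozen site of `Σ_in` within `R / 2` of the centre of the entrance tip cell is on a bank of the stub** -/
theorem pvho_fz_i (n : PvhoNum 𝔓) (hL : PvegLev 𝔓 m) (hT : pviwTyOk 𝔓 t) (hp : PvilIn 𝔓.num b (pvilPin 𝔓 m z t) η 𝔖) {v : ↥(pvieY η)} (hv : v ∈ 𝔖.fzIn)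
    (hn : ‖(v : ℂ) - (𝔓.ty t).cm (pvlmH m) z‖ ≤ 𝔓.num.rho * pvlmH m / 2) : v ∈ 𝔖.bkM ∪ 𝔖.whM := by
  rcases hv with (hv | hv) | hv
  · have a := pvhg_il_in (Or.inl rfl) hp
    have h1 : v ∈ 𝔖.dsc := hv
    rw [a.gate.dsc_eq] at h1
    exact absurd (show ‖(v : ℂ) - z‖ < (𝔓.ty t).b * pvlmH m from h1) (not_lt.2 (pvho_core_i n hL hT z hn))
  · exact Or.inl hv
  · exact Or.inr hv

end bank

/-! ## 7. final configurations -/

section fin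

variable {E : PvjeEnd} {T : PvjeTest} {ε : ℝ} {η₀ η : Conf PvPt}

/-- the kept mouth lies in the kept part of the window -/
theorem pvho_M_Kp (W : E.Wf ε) (Z : Set (ℤ × ℤ)) : E.M ⊆ E.Kp Z := fun x hx =>
  ⟨Or.inr hx, fun h => h.elim (fun hk => Set.disjoint_left.1 W.MK hx hk) (fun hd => Set.disjoint_left.1 W.MD hx hd)⟩

/-- **a final configuration has the sites of the base in the kept mouth** -/
theorem pvho_fin_M (W : E.Wf ε) (hF : PvjeFin E T η₀ η) : cfSites η ∩ E.M = cfSites η₀ ∩ E.M := by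
  have h := hF.sites
  ext x
  constructor
  · rintro ⟨h1, h2⟩
    have : x ∈ cfSites η ∩ E.Kp (E.Hu η₀) := ⟨h1, pvho_M_Kp W _ h2⟩
    rw [h] at this
    exact ⟨this.1, h2⟩
  · rintro ⟨h1, h2⟩
    have : x ∈ cfSites η₀ ∩ E.Kp (E.Hu η₀) := ⟨h1, pvho_M_Kp W _ h2⟩
    rw [← h] at this
    exact ⟨this.1, h2⟩

/-- the mesh of a ball is carried through the kept mouth -/
theorem pvho_fin_mesh (W : E.Wf ε) (hF : PvjeFin E T η₀ η) {x : ℂ} {R μ : ℝ} (mesh : VorDense (cfSites η₀) (closedBall x R) μ) (hM : closedBall x (R + μ) ⊆ E.M) : VorDense (cfSites η) (closedBall x R) μ := by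
  intro w hw
  obtain ⟨u, hu, huw⟩ := mesh w hw
  have h1 : u ∈ E.M := hM (by
    rw [mem_closedBall, dist_eq_norm] at hw ⊢
    have := pvhg_tri3 u w x
    rw [norm_sub_rev u w] at this
    linarith)
  have h2 : u ∈ cfSites η₀ ∩ E.M := ⟨hu, h1⟩
  rw [← pvho_fin_M W hF] at h2
  exact ⟨u, h2.1, huw⟩

/-- a site of the kept mouth which is not frozen carries the colour of the copy -/
theorem pvho_fin_fresh {κ : ℂ → Bool} (hκ : ∀ v ∈ cfSites η, v ∈ E.K ∪ E.y η₀ → cfCol η v = κ v) {v : ℂ} (hv : v ∈ cfSites η) (hM : v ∈ E.M) (hz : v ∉ E.Fz η₀) : cfCol η v = κ v := hκ v hv (Or.inr ⟨hM, hz⟩)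

/-- a frozen site of the kept mouth keeps its colour -/
theorem pvho_fin_kept (W : E.Wf ε) (hF : PvjeFin E T η₀ η) {v : ℂ} (hv : v ∈ cfSites η₀) (hM : v ∈ E.M) (hz : v ∈ E.Fz η₀) : cfCol η v = cfCol η₀ v :=
  hF.cols v ⟨hv, pvho_M_Kp W _ hM⟩ fun h => h.2 hz

end fin

/-! ## 8. the parameters of record -/

/-- **`PvhoNum` AT THE PARAMETERS OF RECORD** -/
theorem pvho_num_par {N : PvxNums} (hN : N.Ok) (c : ℝ) : PvhoNum (pvxParOf N hN c) where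
  rho0 := hN.rho0
  rho1 := hN.rho1
  rho2 := hN.rho2
  rho3 := hN.rho3
  b0 := fun _ => by
    show 0 ≤ N.b1
    linarith [hN.a1_pos, hN.ab1]
  gap := fun _ => by
    show N.b1 + 2 ≤ N.b2
    linarith [hN.gap, hN.ab2]

/-- the records of 23 do not read the tip centres nor the orientation bit of the type -/
theorem pvho_endD_ty {Y : Set ℂ} {N : PvwNum} {hh : ℝ} {τ : PvwTy} {z x : ℂ} {K : Set Y} {r r₁ ρ rs rt : ℝ} {ζ : ℂ} (E : PvhjEndD Y N hh τ z x K r r₁ ρ rs rt ζ) (f : ℂ) (o : Bool) :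
    PvhjEndD Y N hh (pvhgTy τ f o) z x K r r₁ ρ rs rt ζ :=
  ⟨⟨E.e.rho, E.e.r2, E.e.r1, E.e.rr, E.e.mesh, E.e.far, E.e.rs0, E.e.rs1, E.e.rs2, E.e.inK⟩, E.rt1, E.big, E.dir, E.adm⟩

/-! ## 9. THE TIP FOOT AT THE MODEL (all tip cells, corners included) -/

section foot

variable {τ : Type} {c : ℝ} {𝔓 : PvxPar τ c} {𝔈 : PvieEng τ} {w : ∀ η : Conf PvPt, (delbPl (pvieY η)).Dart → ℂ} {m : ℕ} {ε : ℝ} {z : ℂ} {t : τ} {T : PvjeTest} {η₀ η : Conf PvPt}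

theorem pvho_ty_cp (τ' : PvwTy) (o : Bool) (h : ℝ) (z : ℂ) : (pvhgTy τ' 1 o).cp h z = τ'.cp h z := by simp [PvwTy.cp, pvhgTy]
theorem pvho_ty_cm (τ' : PvwTy) (o : Bool) (h : ℝ) (z : ℂ) : (pvhgTy τ' 1 o).cm h z = τ'.cm h z := by simp [PvwTy.cm, pvhgTy]

/-- **THE FOOT AT THE TIP OF THE CARRIED EXIT HALF STATE, IN A FINAL CONFIGURATION** (any end `E` whose kept mouth is the ball `5 R / 16` round the exit tip centre and whose frozen positions are those of `Σ_out`):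
base `η₀` with its half state `𝔖₀` and the mesh `μ` of the big mouth (free certificate), final configuration `η` with the twin `𝔖` (71), copy colouring `κ₀` (`PvjeFin.copy`), arms of the copy colouring AT THE SITES OF `η`, prescribed side `ζ = conj (dout t)` -/
theorem pvho_foot_out {E : PvjeEnd} (n : PvhoNum 𝔓) (hL : PvegLev 𝔓 m) (hT : pviwTyOk 𝔓 t) (hc : ∀ x ∈ 𝔓.cp t, ‖x - (𝔓.ty t).yp‖ ≤ 𝔓.num.rho / 10)
    (W : E.Wf ε) (hMe : E.M = closedBall ((𝔓.ty t).cp (pvlmH m) z) (5 * (𝔓.num.rho * pvlmH m) / 16)) (hFz : E.Fz η₀ = pvilFo 𝔓 m z t η₀) {μ rs rt : ℝ} (hμ : 0 < μ) (hμ' : 80 * μ ≤ 𝔓.num.rho * pvlmH m)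
    (hs0 : 𝔓.num.rho * pvlmH m / 4 ≤ rs) (hs1 : rs + 7 * μ ≤ 5 * (𝔓.num.rho * pvlmH m) / 16) (ht0 : 𝔓.num.rho * pvlmH m / 10 + 4 * μ ≤ rt) (ht1 : 2 * rt + 5 * μ ≤ 𝔓.num.rho * pvlmH m / 2)
    (mesh : VorDense (pvieY η₀) (closedBall ((𝔓.ty t).cp (pvlmH m) z) (𝔓.num.rho2 * pvlmH m + 3 * μ)) μ)
    {𝔖₀ : PvwSt (pvieT η₀)} (h₀ : PvilOut 𝔓.num (𝔓.col t) (pvilPin 𝔓 m z t) η₀ 𝔖₀) (hF : PvjeFin E T η₀ η)
    {Kr : Set ℂ} {𝔖 : PvwSt (pvieT η)} (tw : PvLocSP (pvfc7R η₀ η Kr) 𝔖₀ 𝔖)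
    {κ₀ : ℂ → Bool} (hκ : ∀ v ∈ cfSites η, v ∈ E.K ∪ E.y η₀ → cfCol η v = κ₀ v)
    {K : Set ↥(pvieY η)} (hK : ∀ v : ↥(pvieY η), ‖(v : ℂ) - (𝔓.ty t).cp (pvlmH m) z‖ < rs + 4 * μ → v ∈ K) {GN GC Sg : Bool → Set ℂ}
    (A : ∀ β, PvhjArmT (pvieY η) (fun v => κ₀ v == 𝔓.col t) β ((starRingEnd ℂ) ((𝔓.Γ m).dout t)) ((𝔓.ty t).cp (pvlmH m) z) rt μ rs β (GN β) (GC β) (Sg β)) :
    PvhjFootP (delbPl (pvieY η)) (pvieCol η (𝔓.col t)) (fun v => κ₀ v == 𝔓.col t) K (𝔖.ep 𝔖.np) GN := by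
  obtain ⟨s1, s2, s3, s0⟩ := pvho_small n m
  have a : 𝔖₀.AtOut (dlsPos (pvieY η₀)) 𝔓.num (pvlmH m) z (pvhgTy (𝔓.ty t) 1 (pvhgO 𝔖₀ (pviePos η₀))) (pvieCol η₀ (𝔓.col t)) := pvhg_il_out (Or.inl rfl) h₀
  have hc' := pvho_ty_cp (𝔓.ty t) (pvhgO 𝔖₀ (pviePos η₀)) (pvlmH m) z
  have E' := pvho_endD_ty (pvho_endD_o n hL hT z hμ hμ' hs0 (by linarith) (by linarith) ht1 mesh (K := univ) (fun _ _ => mem_univ _)) 1 (pvhgO 𝔖₀ (pviePos η₀))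
  have hYY : pvieY η₀ ∩ closedBall ((𝔓.ty t).cp (pvlmH m) z) (5 * (𝔓.num.rho * pvlmH m) / 16) = pvieY η ∩ closedBall ((𝔓.ty t).cp (pvlmH m) z) (5 * (𝔓.num.rho * pvlmH m) / 16) := by
    rw [← hMe]
    exact (pvho_fin_M W hF).symm
  have hm : PvtrMesh μ (closedBall ((𝔓.ty t).cp (pvlmH m) z) (5 * (𝔓.num.rho * pvlmH m) / 16)) (pvieY η₀) := fun x hx =>
    mesh x (closedBall_subset_closedBall (by linarith) (hx (mem_closedBall_self hμ.le)))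
  have tip := pvho_tip_o hc h₀ hμ (pvho_dense_mono mesh (by linarith))
  have inM : ∀ x : ℂ, ‖x - (𝔓.ty t).cp (pvlmH m) z‖ < rs + 4 * μ → x ∈ E.M := fun x hx => by
    rw [hMe, mem_closedBall, dist_eq_norm]
    linarith
  have rel : pvfc7R η₀ η Kr (𝔖₀.ep 𝔖₀.np) (𝔖.ep 𝔖.np) := by
    rw [tw.np]
    exact tw.ep 𝔖₀.np le_rfl
  rw [← hc'] at hYY hm tip inM hK A E'
  have t1 : ‖((delbPl (pvieY η₀)).toMap.src (𝔖₀.ep 𝔖₀.np) : ℂ) - (pvhgTy (𝔓.ty t) 1 (pvhgO 𝔖₀ (pviePos η₀))).cp (pvlmH m) z‖ ≤ 𝔓.num.rho * pvlmH m / 10 := tip.1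
  have t2 : ‖((delbPl (pvieY η₀)).toMap.tgt (𝔖₀.ep 𝔖₀.np) : ℂ) - (pvhgTy (𝔓.ty t) 1 (pvhgO 𝔖₀ (pviePos η₀))).cp (pvlmH m) z‖ ≤ 𝔓.num.rho * pvlmH m / 10 + 2 * μ := tip.2
  refine pvhj_foot_outU_pl (h₀ := h₀.good) (h := hF.nice.good) (delb_pl_eq _) (delb_pl_eq _) hμ hYY hm a E' (by linarith) (by linarith)
    (closedBall_subset_closedBall (by linarith)) A ?_ ?_ hK ?_ ?_
  · intro v v' hvv hn hb
    have h1 : cfCol η (v : ℂ) = cfCol η₀ (v : ℂ) :=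
      pvho_fin_kept W hF v.2 (inM _ hn) (by rw [hFz]; exact ⟨𝔖₀, h₀, v, hb.elim (fun h => Or.inl (Or.inr h)) (fun h => Or.inr h), rfl⟩)
    show (cfCol η (v' : ℂ) == 𝔓.col t) = (cfCol η₀ (v : ℂ) == 𝔓.col t)
    rw [← hvv, h1]
  · intro v v' hvv hn hz
    have h1 : (v : ℂ) ∉ E.Fz η₀ := by
      rw [hFz]
      intro hf
      have hf' : (v : ℂ) ∈ pvilFzO 𝔓.num (𝔓.col t) (pvilPin 𝔓 m z t) η₀ := hf
      rw [pvfc7_fzO (by show ‖(1 : ℂ)‖ = 1; exact norm_one) h₀] at hf'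
      obtain ⟨u, hu, huv⟩ := hf'
      exact hz ((Subtype.ext huv : u = v) ▸ hu)
    have h2 : cfCol η (v : ℂ) = κ₀ (v : ℂ) := pvho_fin_fresh hκ (by rw [hvv]; exact v'.2) (inM _ hn) h1
    show (cfCol η (v' : ℂ) == 𝔓.col t) = (κ₀ (v : ℂ) == 𝔓.col t)
    rw [← hvv, h2]
  · exact rel.1
  · exact rel.2.1

/-- **THE FOOT AT THE TIP OF THE CARRIED ENTRANCE HALF STATE, IN A FINAL CONFIGURATION** (any end `E` whose kept mouth is the ball `5 R / 16` round the entrance tip centre and whose frozen positions are those of `Σ_in`), prescribed side `ζ = conj (- din t)` -/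
theorem pvho_foot_in {E : PvjeEnd} (n : PvhoNum 𝔓) (hL : PvegLev 𝔓 m) (hT : pviwTyOk 𝔓 t) (hc : ∀ x ∈ 𝔓.cm t, ‖x - (𝔓.ty t).ym‖ ≤ 𝔓.num.rho / 10)
    (W : E.Wf ε) (hMe : E.M = closedBall ((𝔓.ty t).cm (pvlmH m) z) (5 * (𝔓.num.rho * pvlmH m) / 16)) (hFz : E.Fz η₀ = pvilFi 𝔓 m z t η₀) {μ rs rt : ℝ} (hμ : 0 < μ) (hμ' : 80 * μ ≤ 𝔓.num.rho * pvlmH m)
    (hs0 : 𝔓.num.rho * pvlmH m / 4 ≤ rs) (hs1 : rs + 7 * μ ≤ 5 * (𝔓.num.rho * pvlmH m) / 16) (ht0 : 𝔓.num.rho * pvlmH m / 10 + 4 * μ ≤ rt) (ht1 : 2 * rt + 5 * μ ≤ 𝔓.num.rho * pvlmH m / 2)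
    (mesh : VorDense (pvieY η₀) (closedBall ((𝔓.ty t).cm (pvlmH m) z) (𝔓.num.rho2 * pvlmH m + 3 * μ)) μ)
    {𝔖₀ : PvwSt (pvieT η₀)} (h₀ : PvilIn 𝔓.num (𝔓.col t) (pvilPin 𝔓 m z t) η₀ 𝔖₀) (hF : PvjeFin E T η₀ η)
    {Kr : Set ℂ} {𝔖 : PvwSt (pvieT η)} (tw : PvLocSM (pvfc7R η₀ η Kr) 𝔖₀ 𝔖)
    {κ₀ : ℂ → Bool} (hκ : ∀ v ∈ cfSites η, v ∈ E.K ∪ E.y η₀ → cfCol η v = κ₀ v)
    {K : Set ↥(pvieY η)} (hK : ∀ v : ↥(pvieY η), ‖(v : ℂ) - (𝔓.ty t).cm (pvlmH m) z‖ < rs + 4 * μ → v ∈ K) {GN GC Sg : Bool → Set ℂ}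
    (A : ∀ β, PvhjArmT (pvieY η) (fun v => κ₀ v == 𝔓.col t) β ((starRingEnd ℂ) (-(𝔓.Γ m).din t)) ((𝔓.ty t).cm (pvlmH m) z) rt μ rs (!β) (GN β) (GC β) (Sg β)) :
    PvhjFootP (delbPl (pvieY η)) (pvieCol η (𝔓.col t)) (fun v => κ₀ v == 𝔓.col t) K (𝔖.em 𝔖.nm) GN := by
  obtain ⟨s1, s2, s3, s0⟩ := pvho_small n m
  have a : 𝔖₀.AtIn (dlsPos (pvieY η₀)) 𝔓.num (pvlmH m) z (pvhgTy (𝔓.ty t) 1 (pvhgO 𝔖₀ (pviePos η₀))) (pvieCol η₀ (𝔓.col t)) := pvhg_il_in (Or.inl rfl) h₀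
  have hc' := pvho_ty_cm (𝔓.ty t) (pvhgO 𝔖₀ (pviePos η₀)) (pvlmH m) z
  have E' := pvho_endD_ty (pvho_endD_i n hL hT z hμ hμ' hs0 (by linarith) (by linarith) ht1 mesh (K := univ) (fun _ _ => mem_univ _)) 1 (pvhgO 𝔖₀ (pviePos η₀))
  have hYY : pvieY η₀ ∩ closedBall ((𝔓.ty t).cm (pvlmH m) z) (5 * (𝔓.num.rho * pvlmH m) / 16) = pvieY η ∩ closedBall ((𝔓.ty t).cm (pvlmH m) z) (5 * (𝔓.num.rho * pvlmH m) / 16) := by
    rw [← hMe]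
    exact (pvho_fin_M W hF).symm
  have hm : PvtrMesh μ (closedBall ((𝔓.ty t).cm (pvlmH m) z) (5 * (𝔓.num.rho * pvlmH m) / 16)) (pvieY η₀) := fun x hx =>
    mesh x (closedBall_subset_closedBall (by linarith) (hx (mem_closedBall_self hμ.le)))
  have tip := pvho_tip_i hc h₀ hμ (pvho_dense_mono mesh (by linarith))
  have inM : ∀ x : ℂ, ‖x - (𝔓.ty t).cm (pvlmH m) z‖ < rs + 4 * μ → x ∈ E.M := fun x hx => by
    rw [hMe, mem_closedBall, dist_eq_norm]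
    linarith
  have rel : pvfc7R η₀ η Kr (𝔖₀.em 𝔖₀.nm) (𝔖.em 𝔖.nm) := by
    rw [tw.nm]
    exact tw.em 𝔖₀.nm le_rfl
  rw [← hc'] at hYY hm tip inM hK A E'
  have t1 : ‖((delbPl (pvieY η₀)).toMap.src (𝔖₀.em 𝔖₀.nm) : ℂ) - (pvhgTy (𝔓.ty t) 1 (pvhgO 𝔖₀ (pviePos η₀))).cm (pvlmH m) z‖ ≤ 𝔓.num.rho * pvlmH m / 10 := tip.1
  have t2 : ‖((delbPl (pvieY η₀)).toMap.tgt (𝔖₀.em 𝔖₀.nm) : ℂ) - (pvhgTy (𝔓.ty t) 1 (pvhgO 𝔖₀ (pviePos η₀))).cm (pvlmH m) z‖ ≤ 𝔓.num.rho * pvlmH m / 10 + 2 * μ := tip.2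
  refine pvhj_foot_inU_pl (h₀ := h₀.good) (h := hF.nice.good) (delb_pl_eq _) (delb_pl_eq _) hμ hYY hm a E' (by linarith) (by linarith)
    (closedBall_subset_closedBall (by linarith)) A ?_ ?_ hK ?_ ?_
  · intro v v' hvv hn hb
    have h1 : cfCol η (v : ℂ) = cfCol η₀ (v : ℂ) :=
      pvho_fin_kept W hF v.2 (inM _ hn) (by rw [hFz]; exact ⟨𝔖₀, h₀, v, hb.elim (fun h => Or.inl (Or.inr h)) (fun h => Or.inr h), rfl⟩)
    show (cfCol η (v' : ℂ) == 𝔓.col t) = (cfCol η₀ (v : ℂ) == 𝔓.col t)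
    rw [← hvv, h1]
  · intro v v' hvv hn hz
    have h1 : (v : ℂ) ∉ E.Fz η₀ := by
      rw [hFz]
      intro hf
      have hf' : (v : ℂ) ∈ pvilFzI 𝔓.num (𝔓.col t) (pvilPin 𝔓 m z t) η₀ := hf
      rw [pvfc7_fzI (by show ‖(1 : ℂ)‖ = 1; exact norm_one) h₀] at hf'
      obtain ⟨u, hu, huv⟩ := hf'
      exact hz ((Subtype.ext huv : u = v) ▸ hu)
    have h2 : cfCol η (v : ℂ) = κ₀ (v : ℂ) := pvho_fin_fresh hκ (by rw [hvv]; exact v'.2) (inM _ hn) h1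
    show (cfCol η (v' : ℂ) == 𝔓.col t) = (κ₀ (v : ℂ) == 𝔓.col t)
    rw [← hvv, h2]
  · exact rel.1
  · exact rel.2.1

/-- the kept mouths of the three ends at an engine whose mouths are those of 124 -/
theorem pvho_M_o (hM : 𝔈.oM m t = pvegOM 𝔓 m t) : (pvjeO 𝔓 𝔈 w m ε z t).M = closedBall ((𝔓.ty t).cp (pvlmH m) z) (5 * (𝔓.num.rho * pvlmH m) / 16) := by
  show pvieSh z (𝔈.oM m t) = _
  rw [hM, pvho_oM]
theorem pvho_M_i (hM : 𝔈.iM m t = pvegIM 𝔓 m t) : (pvjeI 𝔓 𝔈 w m ε z t).M = closedBall ((𝔓.ty t).cm (pvlmH m) z) (5 * (𝔓.num.rho * pvlmH m) / 16) := by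
  show pvieSh z (𝔈.iM m t) = _
  rw [hM, pvho_iM]
theorem pvho_M_e (hM : 𝔈.eM m t = pvegIM 𝔓 m t) : (pvjeE 𝔓 𝔈 w m ε z t).M = closedBall ((𝔓.ty t).cm (pvlmH m) z) (5 * (𝔓.num.rho * pvlmH m) / 16) := by
  show pvieSh z (𝔈.eM m t) = _
  rw [hM, pvho_iM]

end foot

/-! ## 10. the certificate of record (mesh read in `closedBall z (2 r_k + 4 h)`: `pvj0Mc` of 35), the mesh of record -/

section cert

variable {τ : Type} {c : ℝ} {𝔓 : PvxPar τ c} {m : ℕ} {t : τ}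

theorem pvho_norm_le_N (x : ℂ) : ‖x‖ ≤ 2 * pvccN x := by
  have h1 := Complex.norm_le_abs_re_add_abs_im x
  have h2 : |x.re| ≤ pvccN x := le_max_left _ _
  have h3 : |x.im| ≤ pvccN x := le_max_right _ _
  linarith

theorem pvho_cp_le (hT : pviwTyOk 𝔓 t) (m : ℕ) (z : ℂ) : ‖(𝔓.ty t).cp (pvlmH m) z - z‖ ≤ 2 * pviwRad 𝔓 m t + 𝔓.num.rho * pvlmH m / 5 := by
  have hh := pvlm_H_pos m
  have e : (𝔓.ty t).cp (pvlmH m) z - z = (pvlmH m : ℂ) * (𝔓.ty t).yp := by unfold PvwTy.cp; ring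
  rw [e, norm_mul, Complex.norm_real, Real.norm_eq_abs, abs_of_pos hh]
  have h1 := pvho_norm_le_N (𝔓.ty t).yp
  have h2 := (abs_le.1 hT.1).2
  unfold pviwRad pvwRad
  nlinarith

theorem pvho_cm_le (hT : pviwTyOk 𝔓 t) (m : ℕ) (z : ℂ) : ‖(𝔓.ty t).cm (pvlmH m) z - z‖ ≤ 2 * pviwRad 𝔓 m t + 𝔓.num.rho * pvlmH m / 5 := by
  have hh := pvlm_H_pos m
  have e : (𝔓.ty t).cm (pvlmH m) z - z = (pvlmH m : ℂ) * (𝔓.ty t).ym := by unfold PvwTy.cm; ring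
  rw [e, norm_mul, Complex.norm_real, Real.norm_eq_abs, abs_of_pos hh]
  have h1 := pvho_norm_le_N (𝔓.ty t).ym
  have h2 := (abs_le.1 hT.2.1).2
  unfold pviwRad pvwRad
  nlinarith

/-- a mesh certificate of a ball gives the density of any ball inside its core -/
theorem pvho_mesh_ball' {Y : Set ℂ} {x x' : ℂ} {μ R R' : ℝ} (hm : PvtrMesh μ (closedBall x' R') Y) (hR : ‖x - x'‖ + R + μ ≤ R') : VorDense Y (closedBall x R) μ := by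
  intro w hw
  refine hm w fun v hv => ?_
  rw [mem_closedBall, dist_eq_norm] at hv hw ⊢
  have h1 := pvhg_tri3 v w x
  have h2 := pvhg_tri3 v x x'
  linarith

/-- **the certificate of record pays the mesh of the big mouth of the exit tip** -/
theorem pvho_cert_o (n : PvhoNum 𝔓) (hT : pviwTyOk 𝔓 t) (z : ℂ) {μ : ℝ} (hμ' : 80 * μ ≤ 𝔓.num.rho * pvlmH m) {η₀ : Conf PvPt} (hη : η₀ ∈ pvrgMesh μ (closedBall z (2 * pviwRad 𝔓 m t + 4 * pvlmH m))) :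
    VorDense (pvieY η₀) (closedBall ((𝔓.ty t).cp (pvlmH m) z) (𝔓.num.rho2 * pvlmH m + 3 * μ)) μ := by
  obtain ⟨s1, s2, s3, s0⟩ := pvho_small n m
  exact pvho_mesh_ball' hη (by linarith [pvho_cp_le hT m z])

/-- **the certificate of record pays the mesh of the big mouth of the entrance tip** -/
theorem pvho_cert_i (n : PvhoNum 𝔓) (hT : pviwTyOk 𝔓 t) (z : ℂ) {μ : ℝ} (hμ' : 80 * μ ≤ 𝔓.num.rho * pvlmH m) {η₀ : Conf PvPt} (hη : η₀ ∈ pvrgMesh μ (closedBall z (2 * pviwRad 𝔓 m t + 4 * pvlmH m))) :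
    VorDense (pvieY η₀) (closedBall ((𝔓.ty t).cm (pvlmH m) z) (𝔓.num.rho2 * pvlmH m + 3 * μ)) μ := by
  obtain ⟨s1, s2, s3, s0⟩ := pvho_small n m
  exact pvho_mesh_ball' hη (by linarith [pvho_cm_le hT m z])

/-- **the certificate of record pays the mesh of the own box with its collar** (hypothesis `hm` of the carry of 71) -/
theorem pvho_cert_box (n : PvhoNum 𝔓) (hL : PvegLev 𝔓 m) (z : ℂ) {μ : ℝ} {η₀ : Conf PvPt} (hη : η₀ ∈ pvrgMesh μ (closedBall z (2 * pviwRad 𝔓 m t + 4 * pvlmH m))) : η₀ ∈ pvrgMesh μ (pvieSh z (pviwBox 𝔓 m t)) := by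
  refine pvrg_mesh_mono ?_ hη
  rintro _ ⟨x, hx, rfl⟩
  obtain ⟨s1, s2, s3, s0⟩ := pvho_small n m
  have hx' : |(x - 0).re| ≤ pviwRad 𝔓 m t + pvlmDel c m ∧ |(x - 0).im| ≤ pviwRad 𝔓 m t + pvlmDel c m := hx
  rw [sub_zero] at hx'
  have h1 := Complex.norm_le_abs_re_add_abs_im x
  have hf := hL.fine
  have hδ := pvlm_Del_pos c m
  show z + x ∈ closedBall z _
  rw [mem_closedBall, dist_eq_norm, add_sub_cancel_left]
  linarith [hx'.1, hx'.2]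

/-- the mesh of record `μ₀ / 8` -/
theorem pvho_mu (hL : PvegLev 𝔓 m) (h3 : 0 < 𝔓.num.rho3) : 0 < pvilMu 𝔓 m / 8 ∧ 8000 * (pvilMu 𝔓 m / 8) ≤ pvlmDel c m ∧ 512000 * (pvilMu 𝔓 m / 8) ≤ 𝔓.num.rho * pvlmH m := by
  have h1 := pvlm_Del_pos c m
  have h2 : 0 < 𝔓.num.rho3 * pvlmH m := mul_pos h3 (pvlm_H_pos m)
  have h4 := lt_min h1 h2
  have h5 := min_le_left (pvlmDel c m) (𝔓.num.rho3 * pvlmH m)
  have hf := hL.fine
  unfold pvilMu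
  refine ⟨by positivity, by linarith, by linarith⟩

end cert

/-! ## 11. any room between the kept mouth and the inner mouth -/

section anyroom

variable {τ : Type} {c : ℝ} {𝔓 : PvxPar τ c} {m : ℕ} {t : τ} {z : ℂ} {b : Bool} {η : Conf PvPt} {𝔖 : PvwSt (pvieT η)} {Yr : Set ℂ}

theorem pvho_sh_compl (z : ℂ) (S : Set ℂ) : (pvieSh z S)ᶜ = pvieSh z Sᶜ := by
  unfold pvieSh
  exact (Set.image_compl_eq (AddGroup.addLeft_bijective z)).symm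

/-- a placed region has no hole as soon as the region has none -/
theorem pvho_sh_co (z : ℂ) {S : Set ℂ} (hS : IsPreconnected Sᶜ) : IsPreconnected (pvieSh z S)ᶜ := by
  rw [pvho_sh_compl]
  exact hS.image _ (continuous_const.add continuous_id).continuousOn

/-- (hgp) any room in the inner mouth of the exit tip -/
theorem pvho_gp_room (n : PvhoNum 𝔓) (hL : PvegLev 𝔓 m) (hT : pviwTyOk 𝔓 t) (hY : Yr ⊆ closedBall ((𝔓.ty t).cp (pvlmH m) z) (𝔓.num.rho * pvlmH m / 2)) (hp : PvilOut 𝔓.num b (pvilPin 𝔓 m z t) η 𝔖) :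
    𝔖.gp ∉ pvgeKV (pvieY η) Yrᶜ := fun hK =>
  absurd (pvhg_il_gp_disc (Or.inl rfl) hp) (not_lt.2 (pvho_core_o n hL hT z (by have := hY (pvhg_KV_over hK); rwa [mem_closedBall, dist_eq_norm] at this)))

/-- (hgm) any room in the inner mouth of the entrance tip -/
theorem pvho_gm_room (n : PvhoNum 𝔓) (hL : PvegLev 𝔓 m) (hT : pviwTyOk 𝔓 t) (hY : Yr ⊆ closedBall ((𝔓.ty t).cm (pvlmH m) z) (𝔓.num.rho * pvlmH m / 2)) (hp : PvilIn 𝔓.num b (pvilPin 𝔓 m z t) η 𝔖) :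
    𝔖.gm ∉ pvgeKV (pvieY η) Yrᶜ := fun hK =>
  absurd (pvhg_il_gm_disc (Or.inl rfl) hp) (not_lt.2 (pvho_core_i n hL hT z (by have := hY (pvhg_KV_over hK); rwa [mem_closedBall, dist_eq_norm] at this)))

/-- (inK) any room which contains `closedBall x (rs + 5 μ)` -/
theorem pvho_inK_room {Y : Set ℂ} {x : ℂ} {μ rs : ℝ} (hμ : 0 < μ) (hY : closedBall x (rs + 5 * μ) ⊆ Yr) (mesh : VorDense Y (closedBall x (rs + 6 * μ)) μ) (v : Y) (hv : ‖(v : ℂ) - x‖ < rs + 4 * μ) : v ∈ pvgeKV Y Yrᶜ :=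
  pvhj_inK hμ mesh (by linarith) (Set.disjoint_compl_right_iff_subset.2 (by rw [show rs + 4 * μ + μ = rs + 5 * μ by ring]; exact hY)) v hv

/-- (hK hco) any bounded room without hole -/
theorem pvho_K_room (hg : DelGood (pvieY η)) (hb : Bornology.IsBounded Yr) (hS : IsPreconnected Yrᶜ) :
    (pvgeKV (pvieY η) Yrᶜ).Finite ∧ ∀ u v, u ∉ pvgeKV (pvieY η) Yrᶜ → v ∉ pvgeKV (pvieY η) Yrᶜ → (pvieT η).Join univ (pvgeKV (pvieY η) Yrᶜ)ᶜ u v :=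
  pvhj_K_pl (h := hg) (delb_pl_eq hg) hS (by rw [compl_compl]; exact hb)

end anyroom

end Claimed.Agent.R289
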