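-- KEEP
import Claimed.Agent.R289.Tr.HookCol
import Claimed.Agent.R289.Tr.HookYT

/-!
# Row 289 (S0537), THE WALL, ROAD E, E10 AT THE HYBRID ENDS, (b3) DET, file Tr/HookColD : THE TIP FOOT AT THE MODEL IN THE D / U FORM      (helper155; prefix `pvid_`)

WHAT.   `pvhc_foot_o / _i / _e` of 235 (`Tr/HookCol`, sec. 4) rest on the tip lemma of 66 (`pvhu_foot_out_pl / _in_pl`), whose premises `hζ hout hS` (the apex is strictly in front of the side `ζ` of the own-level box) FAIL AT THE CORNER TIP CELLS.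
Here: the same three one-stop statements on the U feet of 23 (`Tr/HookYT`: `pvhj_foot_outU_pl`, `pvhj_foot_inU_pl`), valid at every tip cell:
`PvhjEnd` becomes `PvhjEndD` (prescribed side `ζ`, the side passes at most `rt` in front of the tip centre), the arms become `PvhjArmT` (no box, no state; producer `PvhjArmT.of_two`), the premises `hζ hout hS` are gone.
* **`pvid_foot_o`** (`pvjeO`), **`pvid_foot_i`** (`pvjeI`), **`pvid_foot_e`** (`pvjeE`)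
-/

set_option autoImplicit false
set_option linter.unusedSectionVars false
set_option linter.unusedVariables false

namespace Claimed.Agent.R289

open Set Metric Claims.C0465

section model

variable {τ : Type} {c : ℝ} {𝔓 : PvxPar τ c} {𝔈 : PvieEng τ} {m : ℕ} {ε : ℝ} {z : ℂ} {t : τ} {μ μ' : ℝ} {η₀ η : Conf PvPt} {w : ∀ η : Conf PvPt, (delbPl (pvieY η)).Dart → ℂ} {T : PvjeTest}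
  {K₀ : Set (pvieY η₀)} {r r₁ ρ rs rt : ℝ} {ζ : ℂ}

/-- **THE FIRST LINK `t → door` AT A FINAL CONFIGURATION, THE END `t`, ONE STOP**: the carried `Σ_out(z,t)` of 71 with the same base data, a copy colouring `κ` which carries the pattern, the fresh lines,
and THE FOOT (slot `J₀` of `pvhj_run_foot_pl`) at the tip dart of the carried state for every family of arms of `κ` AT THE SITES OF `η`.      Certificates AT THE BASE ONLY: mesh `μ` of the own-level box, mesh `μ'` read in the mouth, `PvhjEndD` of 23 (mesh of the big mouth + prescribed side `ζ`: VALID AT THE CORNER TIP CELLS). -/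
theorem pvid_foot_o (hμ : 0 < μ) (h3 : 3 * μ ≤ pvlmDel c m) (hb : (𝔓.ty t).b * pvlmH m ≤ pviwRad 𝔓 m t) (hr : μ < (𝔓.ty t).b * pvlmH m)
    (hK : Disjoint (𝔈.oK m t) (pviwBox 𝔓 m t)) (hD : Disjoint (pviwDo 𝔓 𝔈 m ε t) (pviwBox 𝔓 m t))
    (hm : η₀ ∈ pvrgMesh μ (pvieSh z (pviwBox 𝔓 m t))) {𝔖₀ : PvwSt (pvieT η₀)} (h₀ : PvilOut 𝔓.num (𝔓.col t) (pvilPin 𝔓 m z t) η₀ 𝔖₀) (hF : PvjeFin (pvjeO 𝔓 𝔈 w m ε z t) T η₀ η)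
    (hMK : Disjoint (pvjeO 𝔓 𝔈 w m ε z t).M (pvjeO 𝔓 𝔈 w m ε z t).K) (hMD : Disjoint (pvjeO 𝔓 𝔈 w m ε z t).M (pvjeO 𝔓 𝔈 w m ε z t).D)
    (hμ' : 0 < μ') (hmM : η₀ ∈ pvrgMesh μ' (pvieSh z (𝔈.oM m t)))
    (E : PvhjEndD (pvieY η₀) 𝔓.num (pvlmH m) (𝔓.ty t) z ((𝔓.ty t).cp (pvlmH m) z) K₀ r r₁ ρ rs rt ζ)
    (ht1 : ‖((pvieT η₀).src (𝔖₀.ep 𝔖₀.np) : ℂ) - (𝔓.ty t).cp (pvlmH m) z‖ + 2 * ρ ≤ rt) (ht2 : ‖((pvieT η₀).tgt (𝔖₀.ep 𝔖₀.np) : ℂ) - (𝔓.ty t).cp (pvlmH m) z‖ + 2 * ρ ≤ rt)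
    (hU : closedBall ((𝔓.ty t).cp (pvlmH m) z) (rs + 4 * ρ + 3 * μ') ⊆ pvieSh z (𝔈.oM m t)) :
    ∃ 𝔖 : PvwSt (pvieT η), PvLocSP (pvfc7R η₀ η (pvtrCore (3 * μ) (pvfc7Wo 𝔓 m z t η₀))) 𝔖₀ 𝔖 ∧ PvilOut 𝔓.num (𝔓.col t) (pvilPin 𝔓 m z t) η 𝔖 ∧
      pvilFo 𝔓 m z t η = pvilFo 𝔓 m z t η₀ ∧ pvilZo 𝔓 m z t η = pvilZo 𝔓 m z t η₀ ∧
      ∃ κ : ℂ → Bool, cfOf (cfSites η) κ ∈ T.𝒦 ∧
        (∀ v' : pvieY η, (v' : ℂ) ∈ pvieSh z (𝔈.oM m t) ∪ pvieSh z (𝔈.oK m t) → (v' : ℂ) ∉ pvilFo 𝔓 m z t η₀ → pvieCol η (𝔓.col t) v' = pvhcK κ (𝔓.col t) v') ∧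
        (∀ v' : pvieY η, (v' : ℂ) ∈ pvieSh z (𝔈.oM m t) ∪ pvieSh z (𝔈.oK m t) → (v' : ℂ) ∉ pvwSq z (pviwRad 𝔓 m t) → pvieCol η (𝔓.col t) v' = pvhcK κ (𝔓.col t) v') ∧
        ∀ (K : Set (pvieY η)) (GN GC Sg : Bool → Set ℂ),
          (∀ β, PvhjArmT (pvieY η) (pvhcK κ (𝔓.col t)) β ζ ((𝔓.ty t).cp (pvlmH m) z) rt ρ rs β (GN β) (GC β) (Sg β)) →
          (∀ v : pvieY η, ‖(v : ℂ) - (𝔓.ty t).cp (pvlmH m) z‖ < rs + 4 * ρ → v ∈ K) →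
          PvhjFootP (delbPl (pvieY η)) (pvieCol η (𝔓.col t)) (pvhcK κ (𝔓.col t)) K (𝔖.ep 𝔖.np) GN := by
  obtain ⟨𝔖, G, hO, eF, eZ⟩ := pvfc7_fin_o hμ h3 hb hr hK hD hm h₀ hF
  have hFW : pvilFo 𝔓 m z t η₀ ⊆ pvfc7Wo 𝔓 m z t η₀ := (pvfc7_fo_core hb h₀).trans (pvfc7_core_sub (pvlm_Del_pos c m).le _)
  have hC := pvfc7_C_o (w := w) (z := z) (η₀ := η₀) hK hD
  have hKp : (pvjeO 𝔓 𝔈 w m ε z t).Fz η₀ ⊆ (pvjeO 𝔓 𝔈 w m ε z t).Kp ((pvjeO 𝔓 𝔈 w m ε z t).Hu η₀) := fun a ha =>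
    ⟨Or.inl ((pvfc7_Wo_eq 𝔓 m z t η₀).subset (hFW ha)), fun h => disjoint_left.1 hC h (hFW ha)⟩
  obtain ⟨κ, k1, k2, k3, k4, k5⟩ := pvhc_lines_out hF (pvhc_pin_fr 𝔓 m z t) h₀ rfl hKp hb
  refine ⟨𝔖, G, hO, eF, eZ, κ, k1, k4, k5, fun K GN GC Sg A hKK => ?_⟩
  have st := pvhc_st_out h₀
  have hρ := E.e.rho
  exact pvhj_foot_outU_pl (delb_pl_eq h₀.good) (delb_pl_eq hF.nice.good) hμ' (pvhc_sites hF (pvhc_M_kept hMK hMD _)) hmM st E ht1 ht2 hU A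
    (fun v v' e _ hv => k2 v v' e (pvwk_banksP_sub_fzOut 𝔖₀ hv))
    (fun v v' e hn hv => k3 v v' e (Or.inl (hU (by rw [mem_closedBall, dist_eq_norm]; linarith))) hv)
    hKK (pvhc_tip_out G).1 (pvhc_tip_out G).2

/-- **THE LAST LINK `door → t` AT A FINAL CONFIGURATION, THE END `t`, ONE STOP** (slot `J₁` of `pvhj_run_foot_pl`) -/
theorem pvid_foot_i (hμ : 0 < μ) (h3 : 3 * μ ≤ pvlmDel c m) (hb : (𝔓.ty t).b * pvlmH m ≤ pviwRad 𝔓 m t) (hr : μ < (𝔓.ty t).b * pvlmH m)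
    (hK : Disjoint (𝔈.iK m t) (pviwBox 𝔓 m t)) (hD : Disjoint (pviwDi 𝔓 𝔈 m ε t) (pviwBox 𝔓 m t))
    (hm : η₀ ∈ pvrgMesh μ (pvieSh z (pviwBox 𝔓 m t))) {𝔖₀ : PvwSt (pvieT η₀)} (h₀ : PvilIn 𝔓.num (𝔓.col t) (pvilPin 𝔓 m z t) η₀ 𝔖₀) (hF : PvjeFin (pvjeI 𝔓 𝔈 w m ε z t) T η₀ η)
    (hMK : Disjoint (pvjeI 𝔓 𝔈 w m ε z t).M (pvjeI 𝔓 𝔈 w m ε z t).K) (hMD : Disjoint (pvjeI 𝔓 𝔈 w m ε z t).M (pvjeI 𝔓 𝔈 w m ε z t).D)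
    (hμ' : 0 < μ') (hmM : η₀ ∈ pvrgMesh μ' (pvieSh z (𝔈.iM m t)))
    (E : PvhjEndD (pvieY η₀) 𝔓.num (pvlmH m) (𝔓.ty t) z ((𝔓.ty t).cm (pvlmH m) z) K₀ r r₁ ρ rs rt ζ)
    (ht1 : ‖((pvieT η₀).src (𝔖₀.em 𝔖₀.nm) : ℂ) - (𝔓.ty t).cm (pvlmH m) z‖ + 2 * ρ ≤ rt) (ht2 : ‖((pvieT η₀).tgt (𝔖₀.em 𝔖₀.nm) : ℂ) - (𝔓.ty t).cm (pvlmH m) z‖ + 2 * ρ ≤ rt)
    (hU : closedBall ((𝔓.ty t).cm (pvlmH m) z) (rs + 4 * ρ + 3 * μ') ⊆ pvieSh z (𝔈.iM m t)) :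
    ∃ 𝔖 : PvwSt (pvieT η), PvLocSM (pvfc7R η₀ η (pvtrCore (3 * μ) (pvfc7Wi 𝔓 m z t η₀))) 𝔖₀ 𝔖 ∧ PvilIn 𝔓.num (𝔓.col t) (pvilPin 𝔓 m z t) η 𝔖 ∧
      pvilFi 𝔓 m z t η = pvilFi 𝔓 m z t η₀ ∧ pvilZi 𝔓 m z t η = pvilZi 𝔓 m z t η₀ ∧
      ∃ κ : ℂ → Bool, cfOf (cfSites η) κ ∈ T.𝒦 ∧
        (∀ v' : pvieY η, (v' : ℂ) ∈ pvieSh z (𝔈.iM m t) ∪ pvieSh z (𝔈.iK m t) → (v' : ℂ) ∉ pvilFi 𝔓 m z t η₀ → pvieCol η (𝔓.col t) v' = pvhcK κ (𝔓.col t) v') ∧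
        (∀ v' : pvieY η, (v' : ℂ) ∈ pvieSh z (𝔈.iM m t) ∪ pvieSh z (𝔈.iK m t) → (v' : ℂ) ∉ pvwSq z (pviwRad 𝔓 m t) → pvieCol η (𝔓.col t) v' = pvhcK κ (𝔓.col t) v') ∧
        ∀ (K : Set (pvieY η)) (GN GC Sg : Bool → Set ℂ),
          (∀ β, PvhjArmT (pvieY η) (pvhcK κ (𝔓.col t)) β ζ ((𝔓.ty t).cm (pvlmH m) z) rt ρ rs (!β) (GN β) (GC β) (Sg β)) →
          (∀ v : pvieY η, ‖(v : ℂ) - (𝔓.ty t).cm (pvlmH m) z‖ < rs + 4 * ρ → v ∈ K) →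
          PvhjFootP (delbPl (pvieY η)) (pvieCol η (𝔓.col t)) (pvhcK κ (𝔓.col t)) K (𝔖.em 𝔖.nm) GN := by
  obtain ⟨𝔖, G, hO, eF, eZ⟩ := pvfc7_fin_i hμ h3 hb hr hK hD hm h₀ hF
  have hFW : pvilFi 𝔓 m z t η₀ ⊆ pvfc7Wi 𝔓 m z t η₀ := (pvfc7_fi_core hb h₀).trans (pvfc7_core_sub (pvlm_Del_pos c m).le _)
  have hC := pvfc7_C_i (w := w) (z := z) (η₀ := η₀) hK hD
  have hKp : (pvjeI 𝔓 𝔈 w m ε z t).Fz η₀ ⊆ (pvjeI 𝔓 𝔈 w m ε z t).Kp ((pvjeI 𝔓 𝔈 w m ε z t).Hu η₀) := fun a ha =>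
    ⟨Or.inl ((pvfc7_Wi_eq 𝔓 m z t η₀).subset (hFW ha)), fun h => disjoint_left.1 hC h (hFW ha)⟩
  obtain ⟨κ, k1, k2, k3, k4, k5⟩ := pvhc_lines_in hF (pvhc_pin_fr 𝔓 m z t) h₀ rfl hKp hb
  refine ⟨𝔖, G, hO, eF, eZ, κ, k1, k4, k5, fun K GN GC Sg A hKK => ?_⟩
  have st := pvhc_st_in h₀
  have hρ := E.e.rho
  exact pvhj_foot_inU_pl (delb_pl_eq h₀.good) (delb_pl_eq hF.nice.good) hμ' (pvhc_sites hF (pvhc_M_kept hMK hMD _)) hmM st E ht1 ht2 hU A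
    (fun v v' e _ hv => k2 v v' e (pvwk_banksM_sub_fzIn 𝔖₀ hv))
    (fun v v' e hn hv => k3 v v' e (Or.inl (hU (by rw [mem_closedBall, dist_eq_norm]; linarith))) hv)
    hKK (pvhc_tip_in G).1 (pvhc_tip_in G).2

/-- **THE THICK LINK `reference plug → t` AT A FINAL CONFIGURATION, THE END `t`, ONE STOP** (slot `J₁` of `pvhj_run_foot_pl`) -/
theorem pvid_foot_e (hμ : 0 < μ) (h3 : 3 * μ ≤ pvlmDel c m) (hb : (𝔓.ty t).b * pvlmH m ≤ pviwRad 𝔓 m t) (hr : μ < (𝔓.ty t).b * pvlmH m)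
    (hK : Disjoint (𝔈.eK m t) (pviwBox 𝔓 m t)) (hD : Disjoint (pviwRo 𝔓 𝔈 m t) (pviwBox 𝔓 m t))
    (hm : η₀ ∈ pvrgMesh μ (pvieSh z (pviwBox 𝔓 m t))) {𝔖₀ : PvwSt (pvieT η₀)} (h₀ : PvilIn 𝔓.num (𝔓.col t) (pvilPin 𝔓 m z t) η₀ 𝔖₀) (hF : PvjeFin (pvjeE 𝔓 𝔈 w m ε z t) T η₀ η)
    (hMK : Disjoint (pvjeE 𝔓 𝔈 w m ε z t).M (pvjeE 𝔓 𝔈 w m ε z t).K) (hMD : Disjoint (pvjeE 𝔓 𝔈 w m ε z t).M (pvjeE 𝔓 𝔈 w m ε z t).D)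
    (hμ' : 0 < μ') (hmM : η₀ ∈ pvrgMesh μ' (pvieSh z (𝔈.eM m t)))
    (E : PvhjEndD (pvieY η₀) 𝔓.num (pvlmH m) (𝔓.ty t) z ((𝔓.ty t).cm (pvlmH m) z) K₀ r r₁ ρ rs rt ζ)
    (ht1 : ‖((pvieT η₀).src (𝔖₀.em 𝔖₀.nm) : ℂ) - (𝔓.ty t).cm (pvlmH m) z‖ + 2 * ρ ≤ rt) (ht2 : ‖((pvieT η₀).tgt (𝔖₀.em 𝔖₀.nm) : ℂ) - (𝔓.ty t).cm (pvlmH m) z‖ + 2 * ρ ≤ rt)
    (hU : closedBall ((𝔓.ty t).cm (pvlmH m) z) (rs + 4 * ρ + 3 * μ') ⊆ pvieSh z (𝔈.eM m t)) :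
    ∃ 𝔖 : PvwSt (pvieT η), PvLocSM (pvfc7R η₀ η (pvtrCore (3 * μ) (pvfc7Wi 𝔓 m z t η₀))) 𝔖₀ 𝔖 ∧ PvilIn 𝔓.num (𝔓.col t) (pvilPin 𝔓 m z t) η 𝔖 ∧
      pvilFi 𝔓 m z t η = pvilFi 𝔓 m z t η₀ ∧ pvilZi 𝔓 m z t η = pvilZi 𝔓 m z t η₀ ∧
      ∃ κ : ℂ → Bool, cfOf (cfSites η) κ ∈ T.𝒦 ∧
        (∀ v' : pvieY η, (v' : ℂ) ∈ pvieSh z (𝔈.eM m t) ∪ pvieSh z (𝔈.eK m t) → (v' : ℂ) ∉ pvilFi 𝔓 m z t η₀ → pvieCol η (𝔓.col t) v' = pvhcK κ (𝔓.col t) v') ∧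
        (∀ v' : pvieY η, (v' : ℂ) ∈ pvieSh z (𝔈.eM m t) ∪ pvieSh z (𝔈.eK m t) → (v' : ℂ) ∉ pvwSq z (pviwRad 𝔓 m t) → pvieCol η (𝔓.col t) v' = pvhcK κ (𝔓.col t) v') ∧
        ∀ (K : Set (pvieY η)) (GN GC Sg : Bool → Set ℂ),
          (∀ β, PvhjArmT (pvieY η) (pvhcK κ (𝔓.col t)) β ζ ((𝔓.ty t).cm (pvlmH m) z) rt ρ rs (!β) (GN β) (GC β) (Sg β)) →
          (∀ v : pvieY η, ‖(v : ℂ) - (𝔓.ty t).cm (pvlmH m) z‖ < rs + 4 * ρ → v ∈ K) →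
          PvhjFootP (delbPl (pvieY η)) (pvieCol η (𝔓.col t)) (pvhcK κ (𝔓.col t)) K (𝔖.em 𝔖.nm) GN := by
  obtain ⟨𝔖, G, hO, eF, eZ⟩ := pvfc7_fin_e hμ h3 hb hr hK hD hm h₀ hF
  have hFW : pvilFi 𝔓 m z t η₀ ⊆ pvfc7Wi 𝔓 m z t η₀ := (pvfc7_fi_core hb h₀).trans (pvfc7_core_sub (pvlm_Del_pos c m).le _)
  have hC := pvfc7_C_e (ε := ε) (w := w) (z := z) (η₀ := η₀) hK hD
  have hKp : (pvjeE 𝔓 𝔈 w m ε z t).Fz η₀ ⊆ (pvjeE 𝔓 𝔈 w m ε z t).Kp ((pvjeE 𝔓 𝔈 w m ε z t).Hu η₀) := fun a ha =>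
    ⟨Or.inl ((pvfc7_Wi_eq 𝔓 m z t η₀).subset (hFW ha)), fun h => disjoint_left.1 hC h (hFW ha)⟩
  obtain ⟨κ, k1, k2, k3, k4, k5⟩ := pvhc_lines_in hF (pvhc_pin_fr 𝔓 m z t) h₀ rfl hKp hb
  refine ⟨𝔖, G, hO, eF, eZ, κ, k1, k4, k5, fun K GN GC Sg A hKK => ?_⟩
  have st := pvhc_st_in h₀
  have hρ := E.e.rho
  exact pvhj_foot_inU_pl (delb_pl_eq h₀.good) (delb_pl_eq hF.nice.good) hμ' (pvhc_sites hF (pvhc_M_kept hMK hMD _)) hmM st E ht1 ht2 hU A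
    (fun v v' e _ hv => k2 v v' e (pvwk_banksM_sub_fzIn 𝔖₀ hv))
    (fun v v' e hn hv => k3 v v' e (Or.inl (hU (by rw [mem_closedBall, dist_eq_norm]; linarith))) hv)
    hKK (pvhc_tip_in G).1 (pvhc_tip_in G).2

end model

end Claimed.Agent.R289
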