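-- KEEP
import Claimed.Agent.R289.Tr.InstL
import Claimed.Agent.R289.Tr.HookGL

/-!
# Row 289 (S0537), THE WALL, ROAD E, HOOK-DET, file Tr/HookLA : THE LAST STEP OF EVERY DET OF E10 AT THE NAMES OF `Tr/InstL` v2.2      (helper112; prefix `pvha_`, `pvha`)

`pvhg_lk_run pvhg_lk_arc pvhg_lk_A` of 90 (`Tr/HookGL` sec. 3) are typed for `PvieLk` (two FULL marked states).      HERE: the same step for `PvilLk` (HALF states, frames, DOOR ends = kit plugs with EMPTY stubs), the four kinds of links.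
INPUT = what the hooks deliver (23 `pvhj_run_out_pl / _in_pl`, 228 `pvhr_link_o / _i / _d`): `PvldRun (pvieT η) (pvieCol η b) K (tip of 𝔖) (tip of 𝔖')`, `K` over `L.Yin`.      OUTPUT = `L.Arc N b η 𝔖 𝔖' y`, `η ∈ L.A N b`.
* sec. 1  MODEL FREE.   `pvha_no_return0` : A DOOR AT THE START (`np = 0`): `g⁺ ∈ K` (the first face of the run), so `hgK` of 90 FAILS; the first-hit clause of `PvldRun` pays instead.      `pvha_pos` : position form from "no return";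
          **`pvha_pos_of_run`** : `np = 0 ∨ g⁺ ∉ K`.      `pvha_last` : the two ends of the last position of a run lie in `K`.
* sec. 2  stubs of the ends of a link in ABSOLUTE positions: `pvhaBx N p` (own-level box of a pin, pulled back by the frame), `pvha_stp_pin pvha_stm_pin`, `pvha_stp_door pvha_stm_door`.
* sec. 3  **`pvha_run_pd`** (pin → door: `pvilLo`, the return `f`), **`pvha_run_dp`** (door → pin: `pvilLi`, `pvilLe`), **`pvha_run_dd`** (door → door: `pvilLr`), `pvha_run_pp`;   **`pvha_arc_* `, `pvha_A_*`**.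
0 SORRY.
-/

set_option autoImplicit false
set_option linter.unusedSectionVars false
set_option linter.unusedVariables false

namespace Claimed.Agent.R289

open Relation Set Metric Claims.C0465
open scoped ComplexConjugate

/-! ## 1. model free -/

section pos

variable {V D : Type} {T : PvMap V D} {𝔗 𝔖 : PvwSt T} {pos : V → ℂ} {Bt Bs : Set ℂ} {σ : V → Bool} {K : Set V} {N : ℕ}

/-- **NO RETURN, EMPTY EXIT STUB** (a door at the start): from the first-hit clause of the run -/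
theorem pvha_no_return0 (ht : 𝔗.StubP pos Bt σ) (hs : 𝔖.StubM pos Bs σ) (hbs : pvasBW T σ 𝔖.dm) (h0 : 𝔗.np = 0) (hgp : pos 𝔗.gp ∉ Bs)
    (hN : pvasIt T σ (𝔗.ep 𝔗.np) N = 𝔖.em 𝔖.nm) (hF : ∀ i, i < N → pvasIt T σ (𝔗.ep 𝔗.np) i ≠ 𝔖.em 𝔖.nm) :
    ∀ m, 0 < m → m ≤ 𝔗.np + N + 𝔖.nm → pvasIt T σ 𝔗.dp m ≠ 𝔗.dp := by
  let 𝔇 : PvwDat T := ⟨𝔖, 𝔗, PvMap.Pth.nil T 𝔗.gp 𝔗.dp, σ⟩
  obtain ⟨w1, w2, w3⟩ := pvhg_whole (𝔇 := 𝔇) ht hs hbs hN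
  change (∀ i, i ≤ 𝔗.np → pvasIt T σ 𝔗.dp i = 𝔗.ep i) at w1
  change (∀ k, pvasIt T σ 𝔗.dp (𝔗.np + k) = pvasIt T σ (𝔗.ep 𝔗.np) k) at w2
  change (∀ j, j ≤ 𝔖.nm → pvasIt T σ 𝔗.dp (𝔗.np + N + j) = 𝔖.em (𝔖.nm - j)) at w3
  intro m hm0 hm e
  have w2' : ∀ k, pvasIt T σ (𝔗.ep 𝔗.np) k = pvasIt T σ 𝔗.dp k := fun k => by rw [← w2 k, h0, Nat.zero_add]
  rcases Nat.lt_or_ge N m with h1 | h1
  · obtain ⟨j, rfl⟩ : ∃ j, m = 𝔗.np + N + j := ⟨m - (𝔗.np + N), by omega⟩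
    rw [w3 j (by omega)] at e
    have := (hs.em_in (𝔖.nm - j) (Nat.sub_le _ _)).1
    rw [e] at this
    exact hgp this
  · refine hF (N - m) (by omega) ?_
    rw [w2', ← hN, w2']
    conv_rhs => rw [show N = m + (N - m) by omega, pvas_it_add, e]

/-- **POSITION FORM OF A RUN** from "the strand does not return to the exit gate edge" -/
theorem pvha_pos (ht : 𝔗.StubP pos Bt σ) (hs : 𝔖.StubM pos Bs σ) (hbt : pvasBW T σ 𝔗.dp) (hbs : pvasBW T σ 𝔖.dm)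
    (hnr : ∀ m, 0 < m → m ≤ 𝔗.np + N + 𝔖.nm → pvasIt T σ 𝔗.dp m ≠ 𝔗.dp)
    (hN : pvasIt T σ (𝔗.ep 𝔗.np) N = 𝔖.em 𝔖.nm) (hK : T.VOf (pvasFc T σ (𝔗.ep 𝔗.np) N) ⊆ K) :
    pvasIt T σ 𝔗.dp (𝔗.np + N + 𝔖.nm) = 𝔖.dm ∧ (∀ i, i < 𝔗.np + N + 𝔖.nm → pvasIt T σ 𝔗.dp i ≠ 𝔖.dm) ∧
      ∀ i, 𝔗.np ≤ i → i + 𝔖.nm < 𝔗.np + N + 𝔖.nm → T.src (pvasIt T σ 𝔗.dp i) ∈ K ∧ T.tgt (pvasIt T σ 𝔗.dp i) ∈ K ∧ T.apex (pvasIt T σ 𝔗.dp i) ∈ K := by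
  let 𝔇 : PvwDat T := ⟨𝔖, 𝔗, PvMap.Pth.nil T 𝔗.gp 𝔗.dp, σ⟩
  obtain ⟨w1, w2, w3⟩ := pvhg_whole (𝔇 := 𝔇) ht hs hbs hN
  have hend : pvasIt T σ 𝔗.dp (𝔗.np + N + 𝔖.nm) = 𝔖.dm := by
    have := w3 _ le_rfl
    rw [Nat.sub_self, pvwk_em_zero hs] at this
    exact this
  refine ⟨hend, fun i hi e => ?_, fun i hi1 hi2 => ?_⟩
  · exact hnr (𝔗.np + N + 𝔖.nm - i) (by omega) (by omega) (pvas_it_return hbt hi.le (e.trans hend.symm))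
  · obtain ⟨k, rfl⟩ : ∃ k, i = 𝔗.np + k := ⟨i - 𝔗.np, by omega⟩
    have e := w2 k
    change pvasIt T σ 𝔗.dp (𝔗.np + k) = pvasIt T σ (𝔗.ep 𝔗.np) k at e
    rw [e]
    have hk : k < N := by omega
    refine ⟨hK ⟨_, ⟨k, hk, T.sf_refl _⟩, rfl⟩, ?_, ?_⟩
    · have := hK ⟨_, ⟨k, hk, T.sf_nxt _⟩, rfl⟩
      rwa [T.src_nxt] at this
    · have := hK ⟨_, ⟨k, hk, T.sf_nxt2 _⟩, rfl⟩
      rwa [T.src_nxt2] at this

/-- **POSITION FORM OF A RUN**, marked end (`g⁺ ∉ K`) or door (`np = 0`) at the start -/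
theorem pvha_pos_of_run (ht : 𝔗.StubP pos Bt σ) (hs : 𝔖.StubM pos Bs σ) (hbt : pvasBW T σ 𝔗.dp) (hbs : pvasBW T σ 𝔖.dm) (hgp : pos 𝔗.gp ∉ Bs) (hgK : 𝔗.np = 0 ∨ 𝔗.gp ∉ K)
    (hrun : PvldRun T σ K (𝔗.ep 𝔗.np) (𝔖.em 𝔖.nm)) :
    ∃ n, 𝔗.np + 𝔖.nm ≤ n ∧ pvasIt T σ 𝔗.dp n = 𝔖.dm ∧ (∀ i, i < n → pvasIt T σ 𝔗.dp i ≠ 𝔖.dm) ∧
      ∀ i, 𝔗.np ≤ i → i + 𝔖.nm < n → T.src (pvasIt T σ 𝔗.dp i) ∈ K ∧ T.tgt (pvasIt T σ 𝔗.dp i) ∈ K ∧ T.apex (pvasIt T σ 𝔗.dp i) ∈ K := by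
  obtain ⟨M, -, hM, hF, hK⟩ := hrun
  have hnr : ∀ m, 0 < m → m ≤ 𝔗.np + M + 𝔖.nm → pvasIt T σ 𝔗.dp m ≠ 𝔗.dp := by
    rcases hgK with h0 | hgK
    · exact pvha_no_return0 ht hs hbs h0 hgp hM hF
    · exact pvhg_no_return (𝔇 := ⟨𝔖, 𝔗, PvMap.Pth.nil T 𝔗.gp 𝔗.dp, σ⟩) ht hs hbt hbs hgp hgK hM hK
  obtain ⟨a1, a2, a3⟩ := pvha_pos ht hs hbt hbs hnr hM hK
  exact ⟨𝔗.np + M + 𝔖.nm, by omega, a1, a2, a3⟩

/-- the two ends of the LAST position of a run lie in `K` -/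
theorem pvha_last {a₀ a₁ : D} (hrun : PvldRun T σ K a₀ a₁) : T.src a₁ ∈ K ∧ T.tgt a₁ ∈ K := by
  obtain ⟨M, h1, hM, -, hK⟩ := hrun
  obtain ⟨k, rfl⟩ : ∃ k, M = k + 1 := ⟨M - 1, by omega⟩
  rw [pvas_it_succ] at hM
  have hsf := pvas_step_sf (T := T) σ (pvasIt T σ a₀ k)
  rw [hM] at hsf
  constructor
  · have := hK ⟨_, ⟨k, Nat.lt_succ_self k, T.sf_trans hsf (T.sf_nxt _)⟩, rfl⟩
    rwa [T.src_nxt, T.tgt_opp] at this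
  · have := hK ⟨_, ⟨k, Nat.lt_succ_self k, hsf⟩, rfl⟩
    rwa [T.src_opp'] at this

end pos

/-! ## 2. the stubs of the ends of a link, absolute positions -/

/-- the own-level box of a placed pin, pulled back by its frame (ABSOLUTE positions) -/
def pvhaBx (N : PvwNum) (p : PvilPl) : Set ℂ := {w | conj p.fr * w ∈ pvwSq p.zf (pvwRad N p.h p.ty p.ty.k)}

theorem pvha_eqns_cite : True := by
  have := @pvhaBx.eq_1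
  trivial

section ends

variable {N : PvwNum} {b : Bool} {p : PvilPl} {η : Conf PvPt} {𝔖 : PvwSt (pvieT η)}

theorem pvha_stp_pin (h : PvilOut N b p η 𝔖) : 𝔖.StubP (pviePos η) (pvhaBx N p) (pvieCol η b) :=
  ⟨h.st.stub.ep_it, h.st.stub.ep_in, h.st.stub.ep_ax, h.st.stub.ep_out⟩

theorem pvha_stm_pin (h : PvilIn N b p η 𝔖) : 𝔖.StubM (pviePos η) (pvhaBx N p) (pvieCol η b) :=
  ⟨h.st.stub.em_it, h.st.stub.em_in, h.st.stub.em_ax, h.st.stub.em_out⟩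

/-- in the standard frame the box is the box -/
theorem pvha_bx_std {p : PvilPl} (hfr : p.fr = 1) : pvhaBx N p = pvwSq p.z (pvwRad N p.h p.ty p.ty.k) := by
  ext w
  simp [pvhaBx, PvilPl.zf, hfr]

variable {𝔭 : PvkdPlug} {z d : ℂ}

theorem pvha_door_np (h : PvilDoor 𝔭 b η z d 𝔖) : 𝔖.np = 0 := by
  obtain ⟨-, g, -, rfl⟩ := h
  rfl

theorem pvha_door_nm (h : PvilDoor 𝔭 b η z d 𝔖) : 𝔖.nm = 0 := by
  obtain ⟨-, g, -, rfl⟩ := h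
  rfl

theorem pvha_door_bwp (h : PvilDoor 𝔭 b η z d 𝔖) : pvasBW (pvieT η) (pvieCol η b) 𝔖.dp := by
  obtain ⟨-, g, -, rfl⟩ := h
  exact pvtg_aOut_bw g

theorem pvha_door_bwm (h : PvilDoor 𝔭 b η z d 𝔖) : pvasBW (pvieT η) (pvieCol η b) 𝔖.dm := by
  obtain ⟨-, g, -, rfl⟩ := h
  exact pvtg_aIn_bw g

theorem pvha_door_ep (h : PvilDoor 𝔭 b η z d 𝔖) (i : ℕ) : 𝔖.ep i = 𝔖.dp := by
  obtain ⟨-, g, -, rfl⟩ := h
  rfl

theorem pvha_door_em (h : PvilDoor 𝔭 b η z d 𝔖) (i : ℕ) : 𝔖.em i = 𝔖.dm := by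
  obtain ⟨-, g, -, rfl⟩ := h
  rfl

/-- the EMPTY exit stub of a door -/
theorem pvha_stp_door (h : PvilDoor 𝔭 b η z d 𝔖) :
    𝔖.StubP (pviePos η) {w | w = pviePos η ((pvieT η).src 𝔖.dp) ∨ w = pviePos η ((pvieT η).tgt 𝔖.dp)} (pvieCol η b) where
  ep_it := fun i hi => by
    have h0 : i = 0 := by have := pvha_door_np h; omega
    subst h0
    rw [pvha_door_ep h]
    rfl
  ep_in := fun i hi => by
    rw [pvha_door_ep h]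
    exact ⟨Or.inl rfl, Or.inr rfl⟩
  ep_ax := fun i hi => by have := pvha_door_np h; omega
  ep_out := by
    show pviePos η ((pvieT η).apex (𝔖.ep 𝔖.np)) ∉ _
    rw [pvha_door_ep h]
    rintro (e | e)
    · exact (pvieT η).apex_ne_src _ (Subtype.val_injective e)
    · exact (pvieT η).apex_ne_tgt _ (Subtype.val_injective e)

/-- the EMPTY entrance stub of a door -/
theorem pvha_stm_door (h : PvilDoor 𝔭 b η z d 𝔖) :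
    𝔖.StubM (pviePos η) {w | w = pviePos η ((pvieT η).src 𝔖.dm) ∨ w = pviePos η ((pvieT η).tgt 𝔖.dm)} (pvieCol η b) where
  em_it := fun i hi => by
    have h0 : i = 0 := by have := pvha_door_nm h; omega
    subst h0
    rw [pvha_door_em h]
    rfl
  em_in := fun i hi => by
    rw [pvha_door_em h]
    exact ⟨Or.inl rfl, Or.inr rfl⟩
  em_ax := fun i hi => by have := pvha_door_nm h; omega
  em_out := by
    show pviePos η ((pvieT η).apex ((pvieT η).opp (𝔖.em 𝔖.nm))) ∉ _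
    rw [pvha_door_em h]
    rintro (e | e)
    · exact (pvieT η).apex_ne_tgt ((pvieT η).opp 𝔖.dm) (by rw [(pvieT η).tgt_opp]; exact Subtype.val_injective e)
    · exact (pvieT η).apex_ne_src ((pvieT η).opp 𝔖.dm) (by rw [(pvieT η).src_opp']; exact Subtype.val_injective e)

end ends

/-! ## 3. the link of `Tr/InstL` -/

section lk

variable {L : PvilLk} {N : PvwNum} {b : Bool} {η : Conf PvPt} {𝔖 𝔖' : PvwSt (pvieT η)} {K : Set ↥(pvieY η)}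

/-- **`PvilLk.Run` FROM A RUN OF 70**, abstract ends -/
theorem pvha_run {Bt Bs : Set ℂ} (ht : 𝔖.StubP (pviePos η) Bt (pvieCol η b)) (hs : 𝔖'.StubM (pviePos η) Bs (pvieCol η b)) (hbt : pvasBW (pvieT η) (pvieCol η b) 𝔖.dp) (hbs : pvasBW (pvieT η) (pvieCol η b) 𝔖'.dm)
    (hgp : pviePos η 𝔖.gp ∉ Bs) (hgK : 𝔖.np = 0 ∨ 𝔖.gp ∉ K) (hKY : ∀ v ∈ K, pviePos η v ∈ L.Yin)
    (hrun : PvldRun (pvieT η) (pvieCol η b) K (𝔖.ep 𝔖.np) (𝔖'.em 𝔖'.nm)) : ∃ n, L.Run b η 𝔖 𝔖' n := by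
  obtain ⟨n, a0, a1, a2, a3⟩ := pvha_pos_of_run ht hs hbt hbs hgp hgK hrun
  exact ⟨n, a0, a1, a2, fun i h1 h2 => ⟨hKY _ (a3 i h1.le h2).1, hKY _ (a3 i h1.le h2).2.1⟩⟩

/-- the arc from the two end states and the run -/
theorem pvha_arc_of_run (hp : L.AtP N b η 𝔖) (hp' : L.AtP' N b η 𝔖') (h : ∃ n, L.Run b η 𝔖 𝔖' n) : ∃ y, L.Arc N b η 𝔖 𝔖' y := by
  obtain ⟨n, hn⟩ := h
  obtain ⟨y, hy⟩ := pvhg_le_strand (T := pvieT η) (pvieCol η b) 𝔖.dp n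
  exact ⟨y, hp, hp', n, hn, hy⟩

/-- **PIN → DOOR** (`pvilLo`; the thick return `f`) -/
theorem pvha_run_pd (hp : PvilOut N b L.p η 𝔖) (hp' : PvilDoor (pvkdP L.p'.h) b η L.p'.z L.p'.fr 𝔖') (hgK : 𝔖.gp ∉ K) (hKY : ∀ v ∈ K, pviePos η v ∈ L.Yin)
    (hrun : PvldRun (pvieT η) (pvieCol η b) K (𝔖.ep 𝔖.np) (𝔖'.em 𝔖'.nm)) : ∃ n, L.Run b η 𝔖 𝔖' n := by
  have hl := pvha_last hrun
  rw [pvha_door_em hp'] at hl
  refine pvha_run (pvha_stp_pin hp) (pvha_stm_door hp') hp.st.gate.bw_p (pvha_door_bwm hp') ?_ (Or.inr hgK) hKY hrun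
  rintro (e | e)
  · exact hgK (Subtype.val_injective e ▸ hl.1)
  · exact hgK (Subtype.val_injective e ▸ hl.2)

/-- **DOOR → PIN** (`pvilLi`, `pvilLe`): the exit gate vertex of the door is off the own-level box of the pin -/
theorem pvha_run_dp (hp : PvilDoor (pvkdP L.p.h) b η L.p.z L.p.fr 𝔖) (hp' : PvilIn N b L.p' η 𝔖') (hgp : pviePos η 𝔖.gp ∉ pvhaBx N L.p') (hKY : ∀ v ∈ K, pviePos η v ∈ L.Yin)
    (hrun : PvldRun (pvieT η) (pvieCol η b) K (𝔖.ep 𝔖.np) (𝔖'.em 𝔖'.nm)) : ∃ n, L.Run b η 𝔖 𝔖' n :=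
  pvha_run (pvha_stp_door hp) (pvha_stm_pin hp') (pvha_door_bwp hp) hp'.st.gate.bw_m hgp (Or.inl (pvha_door_np hp)) hKY hrun

/-- **DOOR → DOOR** (`pvilLr`): the exit gate vertex of the first door is not an end of the entry gate edge of the second -/
theorem pvha_run_dd (hp : PvilDoor (pvkdP L.p.h) b η L.p.z L.p.fr 𝔖) (hp' : PvilDoor (pvkdP L.p'.h) b η L.p'.z L.p'.fr 𝔖')
    (hne : 𝔖.gp ≠ (pvieT η).src 𝔖'.dm ∧ 𝔖.gp ≠ (pvieT η).tgt 𝔖'.dm) (hKY : ∀ v ∈ K, pviePos η v ∈ L.Yin)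
    (hrun : PvldRun (pvieT η) (pvieCol η b) K (𝔖.ep 𝔖.np) (𝔖'.em 𝔖'.nm)) : ∃ n, L.Run b η 𝔖 𝔖' n := by
  refine pvha_run (pvha_stp_door hp) (pvha_stm_door hp') (pvha_door_bwp hp) (pvha_door_bwm hp') ?_ (Or.inl (pvha_door_np hp)) hKY hrun
  rintro (e | e)
  · exact hne.1 (Subtype.val_injective e)
  · exact hne.2 (Subtype.val_injective e)

/-- PIN → PIN -/
theorem pvha_run_pp (hp : PvilOut N b L.p η 𝔖) (hp' : PvilIn N b L.p' η 𝔖') (hgp : pviePos η 𝔖.gp ∉ pvhaBx N L.p') (hgK : 𝔖.gp ∉ K) (hKY : ∀ v ∈ K, pviePos η v ∈ L.Yin)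
    (hrun : PvldRun (pvieT η) (pvieCol η b) K (𝔖.ep 𝔖.np) (𝔖'.em 𝔖'.nm)) : ∃ n, L.Run b η 𝔖 𝔖' n :=
  pvha_run (pvha_stp_pin hp) (pvha_stm_pin hp') hp.st.gate.bw_p hp'.st.gate.bw_m hgp (Or.inr hgK) hKY hrun

/-- **THE LINK SUCCEEDS, PIN → DOOR** -/
theorem pvha_A_pd (h1 : L.dr = false) (h2 : L.dr' = true) (hp : PvilOut N b L.p η 𝔖) (hp' : PvilDoor (pvkdP L.p'.h) b η L.p'.z L.p'.fr 𝔖') (hgK : 𝔖.gp ∉ K)
    (hKY : ∀ v ∈ K, pviePos η v ∈ L.Yin) (hrun : PvldRun (pvieT η) (pvieCol η b) K (𝔖.ep 𝔖.np) (𝔖'.em 𝔖'.nm)) : η ∈ L.A N b := by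
  obtain ⟨y, hy⟩ := pvha_arc_of_run ((PvilLk.atP_pin h1 N b η 𝔖).2 hp) ((PvilLk.atP'_door h2 N b η 𝔖').2 hp') (pvha_run_pd hp hp' hgK hKY hrun)
  exact ⟨𝔖, 𝔖', y, hy⟩

/-- **THE LINK SUCCEEDS, DOOR → PIN** -/
theorem pvha_A_dp (h1 : L.dr = true) (h2 : L.dr' = false) (hp : PvilDoor (pvkdP L.p.h) b η L.p.z L.p.fr 𝔖) (hp' : PvilIn N b L.p' η 𝔖') (hgp : pviePos η 𝔖.gp ∉ pvhaBx N L.p')
    (hKY : ∀ v ∈ K, pviePos η v ∈ L.Yin) (hrun : PvldRun (pvieT η) (pvieCol η b) K (𝔖.ep 𝔖.np) (𝔖'.em 𝔖'.nm)) : η ∈ L.A N b := by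
  obtain ⟨y, hy⟩ := pvha_arc_of_run ((PvilLk.atP_door h1 N b η 𝔖).2 hp) ((PvilLk.atP'_pin h2 N b η 𝔖').2 hp') (pvha_run_dp hp hp' hgp hKY hrun)
  exact ⟨𝔖, 𝔖', y, hy⟩

/-- **THE LINK SUCCEEDS, DOOR → DOOR** -/
theorem pvha_A_dd (h1 : L.dr = true) (h2 : L.dr' = true) (hp : PvilDoor (pvkdP L.p.h) b η L.p.z L.p.fr 𝔖) (hp' : PvilDoor (pvkdP L.p'.h) b η L.p'.z L.p'.fr 𝔖')
    (hne : 𝔖.gp ≠ (pvieT η).src 𝔖'.dm ∧ 𝔖.gp ≠ (pvieT η).tgt 𝔖'.dm) (hKY : ∀ v ∈ K, pviePos η v ∈ L.Yin)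
    (hrun : PvldRun (pvieT η) (pvieCol η b) K (𝔖.ep 𝔖.np) (𝔖'.em 𝔖'.nm)) : η ∈ L.A N b := by
  obtain ⟨y, hy⟩ := pvha_arc_of_run ((PvilLk.atP_door h1 N b η 𝔖).2 hp) ((PvilLk.atP'_door h2 N b η 𝔖').2 hp') (pvha_run_dd hp hp' hne hKY hrun)
  exact ⟨𝔖, 𝔖', y, hy⟩

end lk

end Claimed.Agent.R289
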