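import Claimed.Agent.R289.Tr.HookD
import Claimed.Agent.R289.Tr.GoodE
import Claimed.Agent.R289.Tr.LinkT

/-!
# Row 289 (S0537), THE WALL, ROAD E, (b3) of E10 THICK, file Tr/HookTR : THE EXPLICIT ROUTES OF THE THICK LINKS, MODEL FREE      (helper165; prefix `pvht_`, `pvht`, `Pvht`)
-/

set_option autoImplicit false
set_option linter.unusedSectionVars false
set_option linter.unusedVariables false

namespace Claimed.Agent.R289

open Relation Set Metric Complex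

/-! ## 1. THE DOOR END WITH A ROOM IN TWO PIECES -/

section slot

variable {Y : Set ℂ}

theorem pvht_edge_short (h : DelGood Y) {u w : Y} {ρ : ℝ} (he : (delMap h).EdgeIn univ u w) (hu : vorCell Y u ⊆ closedBall (u : ℂ) ρ) (hw : vorCell Y w ⊆ closedBall (w : ℂ) ρ) : ‖(w : ℂ) - u‖ ≤ 2 * ρ := by
  obtain ⟨-, -, -, z, hzu, hzw⟩ := (dls_edgeIn_univ h u w).1 he
  have h1 : ‖z - (u : ℂ)‖ ≤ ρ := by simpa [dist_eq_norm] using hu hzu
  have h2 : ‖z - (w : ℂ)‖ ≤ ρ := by simpa [dist_eq_norm] using hw hzw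
  have e : (w : ℂ) - u = (z - u) - (z - w) := by ring
  rw [e]
  exact (norm_sub_le _ _).trans (by linarith)

theorem pvht_re_near {ζ a c : ℂ} {r : ℝ} (hζ : ‖ζ‖ = 1) (ha : ‖a - c‖ ≤ r) : (ζ * a).re ≤ (ζ * c).re + r := by
  have h1 : (ζ * a).re - (ζ * c).re = (ζ * (a - c)).re := by rw [mul_sub, sub_re]
  have h2 := (le_abs_self _).trans (Complex.abs_re_le_norm (ζ * (a - c)))
  rw [norm_mul, hζ, one_mul] at h2
  linarith

/-- **THE FAR PART OF A HALF LANE**: a join `f → v` in the room `Rm`, `v` beyond the abscissa `xs` (picture turned by `ζ`): from some site `f'` of the join, before `xa ≥ xs + 2ρ`, the join stays beyond `xs` -/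
theorem pvht_far (h : DelGood Y) {σ : Y → Bool} {β : Bool} {Rm : Set ℂ} {f v : Y} (hH : (delMap h).Join univ (pvldCol σ {u : Y | (u : ℂ) ∈ Rm} β) f v) {ζ : ℂ} (hζ : ‖ζ‖ = 1) {ρ xs xa : ℝ}
    (hcell : ∀ u : Y, (u : ℂ) ∈ Rm → vorCell Y u ⊆ closedBall (u : ℂ) ρ) (hxs : xs + 2 * ρ ≤ xa) (hf : (ζ * (f : ℂ)).re ≤ xa) (hv : xs < (ζ * (v : ℂ)).re) :
    ∃ f' : Y, (delMap h).Join univ (pvldCol σ {u : Y | (u : ℂ) ∈ Rm} β) f f' ∧ (delMap h).Join univ (pvldCol σ {u : Y | (u : ℂ) ∈ Rm ∩ {w | xs < (ζ * w).re}} β) f' v ∧ (ζ * (f' : ℂ)).re ≤ xa := by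
  obtain ⟨hfX, hch⟩ := hH
  have key : ∀ v : Y, ReflTransGen (fun u v => (delMap h).EdgeIn univ u v ∧ v ∈ pvldCol σ {u : Y | (u : ℂ) ∈ Rm} β) f v → xs < (ζ * (v : ℂ)).re →
      ∃ f' : Y, (delMap h).Join univ (pvldCol σ {u : Y | (u : ℂ) ∈ Rm} β) f f' ∧ (delMap h).Join univ (pvldCol σ {u : Y | (u : ℂ) ∈ Rm ∩ {w | xs < (ζ * w).re}} β) f' v ∧ (ζ * (f' : ℂ)).re ≤ xa := by
    intro v hv
    induction hv with
    | refl => exact fun hx => ⟨f, ⟨hfX, ReflTransGen.refl⟩, ⟨⟨⟨hfX.1, hx⟩, hfX.2⟩, ReflTransGen.refl⟩, hf⟩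
    | @tail u w hu huw ih =>
      intro hx
      have huX : u ∈ pvldCol σ {u : Y | (u : ℂ) ∈ Rm} β := by
        rcases hu.cases_tail with e | ⟨u', -, hu'⟩
        · exact e ▸ hfX
        · exact hu'.2
      by_cases hux : xs < (ζ * (u : ℂ)).re
      · obtain ⟨f', j1, j2, j3⟩ := ih hux
        exact ⟨f', j1, ⟨j2.1, j2.2.tail ⟨huw.1, ⟨huw.2.1, hx⟩, huw.2.2⟩⟩, j3⟩
      · refine ⟨w, ⟨hfX, hu.tail huw⟩, ⟨⟨⟨huw.2.1, hx⟩, huw.2.2⟩, ReflTransGen.refl⟩, ?_⟩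
        have h1 := pvht_re_near hζ (pvht_edge_short h huw.1 (hcell u huX.1) (hcell w huw.2.1))
        push Not at hux
        linarith
  exact key v hch hv

/-- **THE DOOR END, ROUTE FORM, ROOM IN TWO PIECES.**   As `pvhr_slot_rt` of 228, but the record `PvhrDoorReg` is asked only for THE PART OF THE ROOM BEYOND `xs`
(the rooms `Ln σ β` of `pvkdP r` of 34 are L-shaped: near the gate they are `2 r` wide, beyond `3 r` they are the strip of width `r`) -/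
theorem pvht_slot_rt (h : DelGood Y) {σ : Y → Bool} {κ : ℂ → Bool} {β : Bool} {Rm : Set ℂ} {f v : Y} (hH : (delMap h).Join univ (pvldCol σ {u : Y | (u : ℂ) ∈ Rm} β) f v)
    (hκ : ∀ u : Y, (u : ℂ) ∈ Rm → σ u = κ u) {ζ : ℂ} (hζ : ‖ζ‖ = 1) {δ ρ xs xa xb y0 y1 : ℝ} (hcell : ∀ u : Y, (u : ℂ) ∈ Rm → vorCell Y u ⊆ closedBall (u : ℂ) ρ)
    {e : Set ℂ × ℂ × ℂ} (hcore : PvkqCore δ e.1 e.2.1 e.2.2) (D : PvhrDoorReg ζ δ ρ xa xb y0 y1 (Rm ∩ {w | xs < (ζ * w).re}) e) (hxs : xs + 2 * ρ ≤ xa) (hρ : 0 < ρ) (hab : xa ≤ xb)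
    (hf : (ζ * (f : ℂ)).re ≤ xa) (hv : xb ≤ (ζ * (v : ℂ)).re)
    {xe : ℂ} (hxe : ∀ k ∈ pvkqL δ e.1 e.2.1 e.2.2, PvlnHub (pvlnReg β (cfOf Y κ)) (pvkqU δ e.1 e.2.1 e.2.2) δ k xe) :
    ∃ x0 ∈ pvhjV Y κ β (pathComponentIn (pvlnReg β (cfOf Y κ) ∩ pvkqU δ e.1 e.2.1 e.2.2) xe), (delMap h).Join univ (pvldCol σ {u : Y | (u : ℂ) ∈ Rm} β) f x0 := by
  obtain ⟨f', j1, j2, j3⟩ := pvht_far h hH hζ hcell hxs hf (by linarith)
  obtain ⟨x0, hx0, j0⟩ := pvhr_slot_rt h j2 (fun u hu => hκ u hu.1) hζ (fun u hu => hcell u hu.1) hcore D j3 hv hxe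
  refine ⟨x0, hx0, j1.1, j1.2.trans (ReflTransGen.mono (fun a b hab => ⟨hab.1, hab.2.1.1, hab.2.2⟩) _ _ j0.2)⟩

/-- **THE DOOR SIDE OF A ROUTE, THE BAR RUN FROM ABOVE**: as `PvhrDoorReg` of 228, but the FIRST way point of the leg lies `3δ/2` above the strip, the LAST `3δ/2` below      (routes are listed from the tip: the bar of one of the two colours comes from above) -/
structure PvhtDoorRegM (ζ : ℂ) (δ ρ xa xb y0 y1 : ℝ) (Rm : Set ℂ) (e : Set ℂ × ℂ × ℂ) : Prop where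
  room : ∀ w ∈ Rm, y0 + ρ ≤ (ζ * w).im ∧ (ζ * w).im + ρ ≤ y1
  col : ∀ w ∈ e.1, xa ≤ (ζ * w).re ∧ (ζ * w).re ≤ xb
  hi : y1 + 3 / 2 * δ ≤ (ζ * e.2.1).im
  lo : (ζ * e.2.2).im + 3 / 2 * δ ≤ y0

/-- `pvhr_slot_rt` of 228 for a bar run from above -/
theorem pvht_slot_M0 (h : DelGood Y) {σ : Y → Bool} {κ : ℂ → Bool} {β : Bool} {Rm : Set ℂ} {f v : Y} (hH : (delMap h).Join univ (pvldCol σ {u : Y | (u : ℂ) ∈ Rm} β) f v)
    (hκ : ∀ u : Y, (u : ℂ) ∈ Rm → σ u = κ u) {ζ : ℂ} (hζ : ‖ζ‖ = 1) {δ ρ xa xb y0 y1 : ℝ} (hcell : ∀ u : Y, (u : ℂ) ∈ Rm → vorCell Y u ⊆ closedBall (u : ℂ) ρ)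
    {e : Set ℂ × ℂ × ℂ} (hcore : PvkqCore δ e.1 e.2.1 e.2.2) (D : PvhtDoorRegM ζ δ ρ xa xb y0 y1 Rm e) (hf : (ζ * (f : ℂ)).re ≤ xa) (hv : xb ≤ (ζ * (v : ℂ)).re)
    {xe : ℂ} (hxe : ∀ k ∈ pvkqL δ e.1 e.2.1 e.2.2, PvlnHub (pvlnReg β (cfOf Y κ)) (pvkqU δ e.1 e.2.1 e.2.2) δ k xe) :
    ∃ x0 ∈ pvhjV Y κ β (pathComponentIn (pvlnReg β (cfOf Y κ) ∩ pvkqU δ e.1 e.2.1 e.2.2) xe), (delMap h).Join univ (pvldCol σ {u : Y | (u : ℂ) ∈ Rm} β) f x0 := by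
  have hδ := hcore.1
  have m1 := pvhz_L_head hcore
  have m2 := pvhz_L_last hcore
  refine pvhr_slot h hH hκ hζ hcell D.room hf hv (pvln_C_sub_U m2) (pvln_C_sub_U m1) (hxe _ m2) (hxe _ m1) (fun w hw => ?_) (fun w hw => ?_) fun w hw => D.col w (pvhz_L_sub hcore hw)
  · have := (pvhr_im_near hζ (pvkq_cell_diam hδ hw (pvkq_mem_cell hδ e.2.2))).2
    linarith [D.lo]
  · have := (pvhr_im_near hζ (pvkq_cell_diam hδ hw (pvkq_mem_cell hδ e.2.1))).1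
    linarith [D.hi]

/-- **THE DOOR END, ROUTE FORM, ROOM IN TWO PIECES, THE BAR RUN FROM ABOVE** -/
theorem pvht_slot_rtM (h : DelGood Y) {σ : Y → Bool} {κ : ℂ → Bool} {β : Bool} {Rm : Set ℂ} {f v : Y} (hH : (delMap h).Join univ (pvldCol σ {u : Y | (u : ℂ) ∈ Rm} β) f v)
    (hκ : ∀ u : Y, (u : ℂ) ∈ Rm → σ u = κ u) {ζ : ℂ} (hζ : ‖ζ‖ = 1) {δ ρ xs xa xb y0 y1 : ℝ} (hcell : ∀ u : Y, (u : ℂ) ∈ Rm → vorCell Y u ⊆ closedBall (u : ℂ) ρ)
    {e : Set ℂ × ℂ × ℂ} (hcore : PvkqCore δ e.1 e.2.1 e.2.2) (D : PvhtDoorRegM ζ δ ρ xa xb y0 y1 (Rm ∩ {w | xs < (ζ * w).re}) e) (hxs : xs + 2 * ρ ≤ xa) (hρ : 0 < ρ) (hab : xa ≤ xb)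
    (hf : (ζ * (f : ℂ)).re ≤ xa) (hv : xb ≤ (ζ * (v : ℂ)).re)
    {xe : ℂ} (hxe : ∀ k ∈ pvkqL δ e.1 e.2.1 e.2.2, PvlnHub (pvlnReg β (cfOf Y κ)) (pvkqU δ e.1 e.2.1 e.2.2) δ k xe) :
    ∃ x0 ∈ pvhjV Y κ β (pathComponentIn (pvlnReg β (cfOf Y κ) ∩ pvkqU δ e.1 e.2.1 e.2.2) xe), (delMap h).Join univ (pvldCol σ {u : Y | (u : ℂ) ∈ Rm} β) f x0 := by
  obtain ⟨f', j1, j2, j3⟩ := pvht_far h hH hζ hcell hxs hf (by linarith)
  obtain ⟨x0, hx0, j0⟩ := pvht_slot_M0 h j2 (fun u hu => hκ u hu.1) hζ (fun u hu => hcell u hu.1) hcore D j3 hv hxe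
  refine ⟨x0, hx0, j1.1, j1.2.trans (ReflTransGen.mono (fun a b hab => ⟨hab.1, hab.2.1.1, hab.2.2⟩) _ _ j0.2)⟩

end slot

/-! ## 2. THE PATTERN OF A THICK LINK: HEAD OF 298 (C, arm, lane, column) + LANE OF THE CORRIDOR + BAR -/

section pat

/-- **THE ROUTE OF ONE COLOUR OF A THICK LINK**, listed from the tip: the four legs of 298 (C, arm, lane `l = a` to the column `s = s₃`, column down to `l = lam`), the lane `Ln` of the corridor from `(s₃, lam)` to `p`, the bar `Br` from `p` to `q` -/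
noncomputable def pvhtRt (Y u : ℂ) (up : Bool) (a t e₁ s₁ x₂ s₃ t₂ lam : ℝ) (Ln Br : Set ℂ) (p q : ℂ) : List (Set ℂ × ℂ × ℂ) :=
  pvge2Rt Y u up a t e₁ s₁ x₂ s₃ t₂ lam ++ [(Ln, pvge2P Y u up s₃ lam, p), (Br, p, q)]

/-- **THE PATTERN OF A THICK LINK**: colour `c` on the side `up` (inner C), colour `!c` on the other side (outer C) -/
noncomputable def pvhtPat (Y u : ℂ) (up c : Bool) (a₁ a₂ t e₁ s₁ x₂ s₃ t₂ lam₁ lam₂ : ℝ) (Ln₁ Br₁ Ln₂ Br₂ : Set ℂ) (p₁ q₁ p₂ q₂ : ℂ) : List (Bool × List (Set ℂ × ℂ × ℂ)) :=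
  [(c, pvhtRt Y u up a₁ t e₁ s₁ x₂ s₃ t₂ lam₁ Ln₁ Br₁ p₁ q₁), (!c, pvhtRt Y u (!up) a₂ t e₁ s₁ x₂ s₃ t₂ lam₂ Ln₂ Br₂ p₂ q₂)]

/-- the room of the tail of a route: beyond the column, or in the strip of the lane at the column -/
def pvhtBey (Y u : ℂ) (up : Bool) (s₃ t₂ lam : ℝ) : Set ℂ := {v | s₃ + t₂ < pvge2S Y u v} ∪ pvge2R Y u up (s₃ - t₂) (s₃ + t₂) (lam - t₂) (lam + t₂)

theorem pvht_eqns_cite : True := by
  have := @pvhtRt.eq_1; have := @pvhtPat.eq_1; have := @pvhtBey.eq_1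
  trivial

variable {Y u : ℂ} {up : Bool} {a a₁ a₂ t e₁ s₁ x₂ s₃ t₂ lam lam₁ lam₂ dl ρ e₀ b μ rs : ℝ} {Ln Br Ln₁ Br₁ Ln₂ Br₂ : Set ℂ} {p q p₁ q₁ p₂ q₂ : ℂ}

/-- the form `C :: arm :: ..` of `pvhr_tip_rt`, `pvhr_link_i` of 228 -/
theorem pvht_Rt_cons (Y u : ℂ) (up : Bool) (a t e₁ s₁ x₂ s₃ t₂ lam : ℝ) (Ln Br : Set ℂ) (p q : ℂ) : pvhtRt Y u up a t e₁ s₁ x₂ s₃ t₂ lam Ln Br p q =
    (pvge2RC Y u up a t e₁ s₁, pvge2P Y u up e₁ (-a), pvge2P Y u up s₁ a) :: (pvge2RN Y u up a t s₁ x₂, pvge2P Y u up s₁ a, pvge2P Y u up x₂ a) ::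
      [(pvge2RH Y u up a t x₂ s₃ t₂, pvge2P Y u up x₂ a, pvge2P Y u up s₃ a), (pvge2RV Y u up a t s₃ t₂ lam, pvge2P Y u up s₃ a, pvge2P Y u up s₃ lam), (Ln, pvge2P Y u up s₃ lam, p), (Br, p, q)] := rfl

theorem pvht_Rt_R (Y u : ℂ) (up : Bool) (a t e₁ s₁ x₂ s₃ t₂ lam : ℝ) (Ln Br : Set ℂ) (p q : ℂ) :
    pvkqRtR (pvhtRt Y u up a t e₁ s₁ x₂ s₃ t₂ lam Ln Br p q) = pvkqRtR (pvge2Rt Y u up a t e₁ s₁ x₂ s₃ t₂ lam) ∪ (Ln ∪ Br) := by
  unfold pvhtRt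
  rw [pvge2_RtR_append]
  congr 1
  ext v
  simp only [pvkqRtR, List.mem_cons, List.not_mem_nil, or_false, mem_iUnion, mem_ofPred_eq, exists_prop, mem_union]
  constructor
  · rintro ⟨e, (rfl | rfl), hv⟩
    · exact Or.inl hv
    · exact Or.inr hv
  · rintro (hv | hv)
    · exact ⟨_, Or.inl rfl, hv⟩
    · exact ⟨_, Or.inr rfl, hv⟩

theorem pvht_Rt_route (hu : ‖u‖ = 1) (N : Pvge2Num a t e₁ s₁ x₂ dl ρ e₀ b μ rs) (B : Pvge2Bar a t x₂ s₃ t₂ lam dl) (cL : PvkqCore dl Ln (pvge2P Y u up s₃ lam) p) (cB : PvkqCore dl Br p q) :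
    PvkqRoute dl (pvhtRt Y u up a t e₁ s₁ x₂ s₃ t₂ lam Ln Br p q) := by
  have h := pvge2_Rt_route (Y := Y) (up := up) hu N B
  refine ⟨?_, ?_⟩
  · intro e he
    rcases List.mem_append.1 he with he | he
    · exact h.1 e he
    · simp only [List.mem_cons, List.not_mem_nil, or_false] at he
      rcases he with rfl | rfl
      · exact cL
      · exact cB
  · simp [pvht_Rt_cons]

/-- the head of a route misses the room of the tail of the other route -/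
theorem pvht_head_bey (N₁ : Pvge2Num a₁ t e₁ s₁ x₂ dl ρ e₀ b μ rs) (B₁ : Pvge2Bar a₁ t x₂ s₃ t₂ lam₁ dl) (h1 : x₂ + t < s₃ - t₂) (hg : t₂ + t₂ < lam₁ + lam₂) (hl : -a₁ + t < lam₂ - t₂) :
    Disjoint (pvkqRtR (pvge2Rt Y u up a₁ t e₁ s₁ x₂ s₃ t₂ lam₁)) (pvhtBey Y u (!up) s₃ t₂ lam₂) := by
  have ha := N₁.a0; have ht := N₁.t0; have g1 := N₁.core; have g2 := N₁.dl0; have g3 := N₁.ρ0; have g4 := N₁.sepE; have g5 := N₁.sepS; have g6 := N₁.outS; have g7 := N₁.outN; have g8 := N₁.e0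
  have b1 := B₁.core2; have b2 := B₁.hx; have b3 := B₁.hl
  rw [pvge2_Rt_R, Set.disjoint_left]
  simp only [pvge2RC, pvge2RN, pvge2RH, pvge2RV, pvhtBey, pvge2_R_flip]
  rintro v (((((⟨x1, x2, x3, x4⟩ | ⟨x1, x2, x3, x4⟩) | ⟨x1, x2, x3, x4⟩) | ⟨x1, x2, x3, x4⟩) | ⟨x1, x2, x3, x4⟩) | ⟨x1, x2, x3, x4⟩) (y | ⟨y1, y2, y3, y4⟩)
  all_goals first | (simp only [mem_ofPred_eq] at y; linarith) | linarith

theorem pvht_not_not (up : Bool) : (!(!up)) = up := by cases up <;> rfl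

/-- **THE PATTERN OF A THICK LINK FITS** -/
theorem pvht_fit (hu : ‖u‖ = 1) (N₁ : Pvge2Num a₁ t e₁ s₁ x₂ dl ρ e₀ b μ rs) (N₂ : Pvge2Num a₂ t e₁ s₁ x₂ dl ρ e₀ b μ rs) (B₁ : Pvge2Bar a₁ t x₂ s₃ t₂ lam₁ dl) (B₂ : Pvge2Bar a₂ t x₂ s₃ t₂ lam₂ dl)
    (P : Pvge2Pair a₁ a₂ t e₁ s₁ s₃ t₂ lam₁ lam₂) (h1 : x₂ + t < s₃ - t₂) (c : Bool)
    (cL₁ : PvkqCore dl Ln₁ (pvge2P Y u up s₃ lam₁) p₁) (cB₁ : PvkqCore dl Br₁ p₁ q₁) (cL₂ : PvkqCore dl Ln₂ (pvge2P Y u (!up) s₃ lam₂) p₂) (cB₂ : PvkqCore dl Br₂ p₂ q₂)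
    (hb₁ : Ln₁ ∪ Br₁ ⊆ pvhtBey Y u up s₃ t₂ lam₁) (hb₂ : Ln₂ ∪ Br₂ ⊆ pvhtBey Y u (!up) s₃ t₂ lam₂) (hd : Disjoint (Ln₁ ∪ Br₁) (Ln₂ ∪ Br₂))
    {W : ℝ} (w1 : x₂ + t ≤ W) (w2 : s₃ + t₂ ≤ W) (w3 : a₂ + t ≤ W) {M : ℕ} (hM : 3 / 2 * W ≤ M * dl)
    (sL₁ : ∃ z0 : ℂ, Ln₁ ⊆ closedBall z0 (M * dl)) (sB₁ : ∃ z0 : ℂ, Br₁ ⊆ closedBall z0 (M * dl)) (sL₂ : ∃ z0 : ℂ, Ln₂ ⊆ closedBall z0 (M * dl)) (sB₂ : ∃ z0 : ℂ, Br₂ ⊆ closedBall z0 (M * dl)) :
    PvkqFit dl M 6 (pvhtPat Y u up c a₁ a₂ t e₁ s₁ x₂ s₃ t₂ lam₁ lam₂ Ln₁ Br₁ Ln₂ Br₂ p₁ q₁ p₂ q₂) where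
  pos := N₁.dl0
  route := by
    intro x hx
    simp only [pvhtPat, List.mem_cons, List.not_mem_nil, or_false] at hx
    rcases hx with rfl | rfl
    · exact pvht_Rt_route hu N₁ B₁ cL₁ cB₁
    · exact pvht_Rt_route hu N₂ B₂ cL₂ cB₂
  ne := by
    intro x hx
    simp only [pvhtPat, List.mem_cons, List.not_mem_nil, or_false] at hx
    rcases hx with rfl | rfl <;> simp [pvht_Rt_cons]
  legs := by
    intro x hx
    simp only [pvhtPat, List.mem_cons, List.not_mem_nil, or_false] at hx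
    rcases hx with rfl | rfl <;> simp [pvht_Rt_cons]
  size := by
    have p1 := P.nest; have p5 := P.low₁; have p6 := P.low₂; have ha := N₁.a0; have ht := N₁.t0
    intro x hx e he
    simp only [pvhtPat, List.mem_cons, List.not_mem_nil, or_false] at hx
    rcases hx with rfl | rfl
    · rcases List.mem_append.1 he with he | he
      · exact ⟨Y, ((subset_biUnion_of_mem (u := fun e : Set ℂ × ℂ × ℂ => e.1) (show e ∈ {e | e ∈ pvge2Rt Y u up a₁ t e₁ s₁ x₂ s₃ t₂ lam₁} from he)).trans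
          (pvge2_Rt_size hu N₁ B₁ w1 w2 (by linarith) (by linarith))).trans ((pvge2_R_ball hu le_rfl le_rfl le_rfl le_rfl).trans (closedBall_subset_closedBall hM))⟩
      · simp only [List.mem_cons, List.not_mem_nil, or_false] at he
        rcases he with rfl | rfl
        · exact sL₁
        · exact sB₁
    · rcases List.mem_append.1 he with he | he
      · exact ⟨Y, ((subset_biUnion_of_mem (u := fun e : Set ℂ × ℂ × ℂ => e.1) (show e ∈ {e | e ∈ pvge2Rt Y u (!up) a₂ t e₁ s₁ x₂ s₃ t₂ lam₂} from he)).trans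
          (pvge2_Rt_size hu N₂ B₂ w1 w2 w3 (by linarith))).trans ((pvge2_R_ball hu le_rfl le_rfl le_rfl le_rfl).trans (closedBall_subset_closedBall hM))⟩
      · simp only [List.mem_cons, List.not_mem_nil, or_false] at he
        rcases he with rfl | rfl
        · exact sL₂
        · exact sB₂
  disj := by
    simp only [pvhtPat, List.pairwise_cons, List.mem_cons, List.not_mem_nil, or_false, forall_eq, IsEmpty.forall_iff, implies_true, List.Pairwise.nil, and_true]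
    rw [pvht_Rt_R, pvht_Rt_R]
    have k2 : Disjoint (pvkqRtR (pvge2Rt Y u (!up) a₂ t e₁ s₁ x₂ s₃ t₂ lam₂)) (pvhtBey Y u up s₃ t₂ lam₁) := by
      have := pvht_head_bey (Y := Y) (u := u) (up := !up) (lam₂ := lam₁) N₂ B₂ h1 (by linarith [P.gap]) (by linarith [P.low₁, P.nest, N₁.t0])
      rwa [pvht_not_not] at this
    exact Disjoint.union_left (Disjoint.union_right (pvge2_Rt_disj N₁ N₂ B₁ B₂ P) ((pvht_head_bey N₁ B₁ h1 P.gap P.low₂).mono_right hb₂)) (Disjoint.union_right (k2.symm.mono_left hb₁) hd)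

theorem pvht_pat_R (Y u : ℂ) (up c : Bool) (a₁ a₂ t e₁ s₁ x₂ s₃ t₂ lam₁ lam₂ : ℝ) (Ln₁ Br₁ Ln₂ Br₂ : Set ℂ) (p₁ q₁ p₂ q₂ : ℂ) :
    pvkqPatR (pvhtPat Y u up c a₁ a₂ t e₁ s₁ x₂ s₃ t₂ lam₁ lam₂ Ln₁ Br₁ Ln₂ Br₂ p₁ q₁ p₂ q₂) =
      (pvkqRtR (pvge2Rt Y u up a₁ t e₁ s₁ x₂ s₃ t₂ lam₁) ∪ (Ln₁ ∪ Br₁)) ∪ (pvkqRtR (pvge2Rt Y u (!up) a₂ t e₁ s₁ x₂ s₃ t₂ lam₂) ∪ (Ln₂ ∪ Br₂)) := by
  rw [← pvht_Rt_R Y u up a₁ t e₁ s₁ x₂ s₃ t₂ lam₁ Ln₁ Br₁ p₁ q₁, ← pvht_Rt_R Y u (!up) a₂ t e₁ s₁ x₂ s₃ t₂ lam₂ Ln₂ Br₂ p₂ q₂]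
  ext v
  simp only [pvkqPatR, pvhtPat, List.mem_cons, List.not_mem_nil, or_false, mem_iUnion, mem_ofPred_eq, exists_prop, mem_union]
  constructor
  · rintro ⟨e, (rfl | rfl), hv⟩
    · exact Or.inl hv
    · exact Or.inr hv
  · rintro (hv | hv)
    · exact ⟨_, Or.inl rfl, hv⟩
    · exact ⟨_, Or.inr rfl, hv⟩

theorem pvht_pat_ev (dl : ℝ) (Y u : ℂ) (up c : Bool) (a₁ a₂ t e₁ s₁ x₂ s₃ t₂ lam₁ lam₂ : ℝ) (Ln₁ Br₁ Ln₂ Br₂ : Set ℂ) (p₁ q₁ p₂ q₂ : ℂ) :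
    pvkqPat dl (pvhtPat Y u up c a₁ a₂ t e₁ s₁ x₂ s₃ t₂ lam₁ lam₂ Ln₁ Br₁ Ln₂ Br₂ p₁ q₁ p₂ q₂) =
      pvkqRtEv dl c (pvhtRt Y u up a₁ t e₁ s₁ x₂ s₃ t₂ lam₁ Ln₁ Br₁ p₁ q₁) ∩ pvkqRtEv dl (!c) (pvhtRt Y u (!up) a₂ t e₁ s₁ x₂ s₃ t₂ lam₂ Ln₂ Br₂ p₂ q₂) := by
  ext η
  simp [pvkqPat, pvhtPat]

end pat

/-! ## 3. CORRIDORS: LANES WITH TWO CAPS, LONGER WORDS -/

section corr

theorem pvht_lanes_left (a b : ℝ) (z d : ℂ) (l₁ l₂ : List PvtTurn) : pvfeLanes a b z d l₁ ⊆ pvfeLanes a b z d (l₁ ++ l₂) := by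
  intro w hw
  obtain ⟨j, hj, hwj⟩ := mem_iUnion₂.1 hw
  have hj' := Finset.mem_range.1 hj
  refine mem_iUnion₂.2 ⟨j, Finset.mem_range.2 (by rw [List.length_append]; omega), ?_⟩
  unfold pvccK pvccZ pvccD pvccT at *
  rw [List.take_append_of_le_length hj'.le, List.getD_append _ _ _ _ hj']
  exact hwj

theorem pvht_lanes_right (a b : ℝ) (z d : ℂ) (l₁ l₂ : List PvtTurn) : pvfeLanes a b (z + pvtDisp d l₁) (pvtDir d l₁) l₂ ⊆ pvfeLanes a b z d (l₁ ++ l₂) := by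
  intro w hw
  obtain ⟨j, hj, hwj⟩ := mem_iUnion₂.1 hw
  have hj' := Finset.mem_range.1 hj
  refine mem_iUnion₂.2 ⟨l₁.length + j, Finset.mem_range.2 (by rw [List.length_append]; omega), ?_⟩
  unfold pvccK pvccZ pvccD pvccT at *
  have e1 : (l₁ ++ l₂).take (l₁.length + j) = l₁ ++ l₂.take j := List.take_length_add_append j
  have e2 : (l₁ ++ l₂).getD (l₁.length + j) PvtTurn.S = l₂.getD j PvtTurn.S := by
    rw [List.getD_append_right _ _ _ _ (by omega)]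
    congr 1
    omega
  rw [e1, e2, pvtDir_append]
  unfold pvtDisp at *
  rw [pvtAcc_append, ← add_assoc]
  exact hwj

theorem pvht_one_lane (a b : ℝ) (z d : ℂ) : pvccPl z d (pvljRect 0 1 a b) ⊆ pvfeLanes a b z d [PvtTurn.S] := by
  intro w hw
  refine mem_iUnion₂.2 ⟨0, by simp, ?_⟩
  unfold pvccK
  rw [pvccZ_zero, pvccD_zero]
  exact hw

theorem pvht_rep (d : ℂ) (n : ℕ) : pvtDisp d (List.replicate n PvtTurn.S) = n * d ∧ pvtDir d (List.replicate n PvtTurn.S) = d := by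
  induction n with
  | zero => simp [pvtDisp]
  | succ n ih =>
    obtain ⟨i1, i2⟩ := ih
    unfold pvtDisp at *
    rw [List.replicate_succ, pvtAcc_cons, pvtDir_cons]
    simp only [PvtTurn.rot, PvtTurn.mid, mul_one]
    rw [i1, i2]
    exact ⟨by push_cast; ring, rfl⟩

/-- a straight piece of `n + 1` blocks -/
theorem pvht_rep_lanes (a b : ℝ) (z d : ℂ) (n : ℕ) : pvccPl z d (pvljRect 0 (n + 1 : ℕ) a b) ⊆ pvfeLanes a b z d (List.replicate (n + 1) PvtTurn.S) := by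
  induction n with
  | zero => simpa using pvht_one_lane a b z d
  | succ n ih =>
    rw [List.replicate_succ']
    rintro _ ⟨w, ⟨h1, h2, h3, h4⟩, rfl⟩
    rcases le_total w.re ((n + 1 : ℕ) : ℝ) with h | h
    · exact pvht_lanes_left _ _ _ _ _ _ (ih ⟨w, ⟨h1, h, h3, h4⟩, rfl⟩)
    · refine pvht_lanes_right _ _ _ _ _ _ ?_
      rw [(pvht_rep d (n + 1)).1, (pvht_rep d (n + 1)).2]
      refine pvht_one_lane _ _ _ _ ⟨w - ((n + 1 : ℕ) : ℂ), ⟨?_, ?_, ?_, ?_⟩, ?_⟩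
      · simpa using h
      · push_cast at h2 ⊢
        simp only [sub_re, add_re, natCast_re, one_re]
        linarith
      · simpa using h3
      · simpa using h4
      · show z + ((n + 1 : ℕ) : ℂ) * d + d * (w - ((n + 1 : ℕ) : ℂ)) = z + d * w
        ring

/-- **the lane of offsets `[a', b']` of a corridor, with a cap of depth `c₀` behind the first door and a cap of depth `c₁` beyond the last door**      (`pvefLn` of 182 = `c₀ = 3`, `c₁ = 2/5`) -/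
def pvhtLn (a' b' c₀ c₁ : ℝ) (z d : ℂ) (l : List PvtTurn) : Set ℂ :=
  pvccPl z d (pvljRect (-c₀) 0 a' b') ∪ pvfeLanes a' b' z d l ∪ pvccPl (pvccZ z d l l.length) (pvccD d l l.length) (pvljRect 0 c₁ a' b')

/-- the corridor made longer by `n₀ + 1` straight blocks before, `n₁ + 1` straight blocks after -/
def pvhtExt (n₀ n₁ : ℕ) (l : List PvtTurn) : List PvtTurn := List.replicate (n₀ + 1) PvtTurn.S ++ (l ++ List.replicate (n₁ + 1) PvtTurn.S)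

theorem pvht_eqns_cite2 : True := by
  have := @pvhtLn.eq_1; have := @pvhtExt.eq_1
  trivial

/-- a lane with caps lies in the lane of the longer corridor -/
theorem pvht_Ln_ext {a' b' c₀ c₁ : ℝ} (n₀ n₁ : ℕ) (h0 : c₀ ≤ (n₀ + 1 : ℕ)) (h1 : c₁ ≤ (n₁ + 1 : ℕ)) (z d : ℂ) (l : List PvtTurn) :
    pvhtLn a' b' c₀ c₁ z d l ⊆ pvfeLanes a' b' (z - (n₀ + 1 : ℕ) * d) d (pvhtExt n₀ n₁ l) := by
  have e0 : z - ((n₀ + 1 : ℕ) : ℂ) * d + pvtDisp d (List.replicate (n₀ + 1) PvtTurn.S) = z := by rw [(pvht_rep d (n₀ + 1)).1]; ring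
  have hR : pvfeLanes a' b' z d (l ++ List.replicate (n₁ + 1) PvtTurn.S) ⊆ pvfeLanes a' b' (z - (n₀ + 1 : ℕ) * d) d (pvhtExt n₀ n₁ l) := by
    have := pvht_lanes_right a' b' (z - ((n₀ + 1 : ℕ) : ℂ) * d) d (List.replicate (n₀ + 1) PvtTurn.S) (l ++ List.replicate (n₁ + 1) PvtTurn.S)
    rwa [e0, (pvht_rep d (n₀ + 1)).2] at this
  rintro w ((hw | hw) | hw)
  · refine pvht_lanes_left _ _ _ _ _ _ (pvht_rep_lanes a' b' _ d n₀ ?_)
    obtain ⟨v, ⟨v1, v2, v3, v4⟩, rfl⟩ := hw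
    refine ⟨v + ((n₀ + 1 : ℕ) : ℂ), ⟨?_, ?_, ?_, ?_⟩, ?_⟩
    · simp only [add_re, natCast_re]; linarith
    · simp only [add_re, natCast_re]; linarith
    · simpa using v3
    · simpa using v4
    · show z - ((n₀ + 1 : ℕ) : ℂ) * d + d * (v + ((n₀ + 1 : ℕ) : ℂ)) = z + d * v
      ring
  · exact hR (pvht_lanes_left _ _ _ _ _ _ hw)
  · refine hR (pvht_lanes_right _ _ _ _ _ _ (pvht_rep_lanes a' b' _ _ n₁ ?_))
    have e1 : pvccZ z d l l.length = z + pvtDisp d l := by unfold pvccZ; rw [List.take_length]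
    have e2 : pvccD d l l.length = pvtDir d l := by unfold pvccD; rw [List.take_length]
    rw [e1, e2] at hw
    exact pvccPl_mono _ _ (pvlj_rect_mono le_rfl h1 le_rfl le_rfl) hw

theorem pvht_Ln_mono {a' b' c₀ c₁ a'' b'' c₀' c₁' : ℝ} (h1 : a'' ≤ a') (h2 : b' ≤ b'') (h3 : c₀ ≤ c₀') (h4 : c₁ ≤ c₁') (z d : ℂ) (l : List PvtTurn) : pvhtLn a' b' c₀ c₁ z d l ⊆ pvhtLn a'' b'' c₀' c₁' z d l :=
  union_subset_union (union_subset_union (pvccPl_mono _ _ (pvlj_rect_mono (by linarith) le_rfl h1 h2)) (pvlj_lanes_mono h1 h2 z d l)) (pvccPl_mono _ _ (pvlj_rect_mono le_rfl h4 h1 h2))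

/-- **the core of a lane with caps is joined from cap to cap** (J1 of 221) -/
theorem pvht_Ln_core {a' b' c₀ c₁ s o t₀ t₁ dl : ℝ} (ha : -(1 / 2) ≤ a') (hb : b' ≤ 1 / 2) (h1 : a' + s ≤ o) (h2 : o + s ≤ b') (hs0 : 0 ≤ s) (hs : s ≤ 1 / 2) (z : ℂ) {d : ℂ} (hd : d ≠ 0) {l : List PvtTurn} (hl : 0 < l.length)
    (ht₀ : -c₀ + s ≤ t₀) (ht₀' : t₀ ≤ 0) (ht₁ : t₁ + s ≤ c₁) (ht₁' : 0 ≤ t₁) (hdl : 0 < dl) (hsd : 4 * dl = s * ‖d‖) :
    PvkqCore dl (pvhtLn a' b' c₀ c₁ z d l) (pvljPt z d l 0 t₀ o) (pvljPt z d l l.length t₁ o) := by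
  refine ⟨hdl, ?_⟩
  have := pvlj_lanes_through ha hb h1 h2 hs z hd hl (R := pvhtLn a' b' c₀ c₁ z d l) (subset_union_right.trans subset_union_left) (subset_union_left.trans subset_union_left) subset_union_right ht₀ ht₀' ht₁ ht₁' hs0
  rw [← hsd] at this
  exact this

/-- a placed rectangle: core -/
theorem pvht_rect_core {x₀ x₁ y₀ y₁ s t o t' o' dl : ℝ} (z : ℂ) {d : ℂ} (hd : d ≠ 0) (l : List PvtTurn) (h1 : x₀ + s ≤ t) (h2 : t + s ≤ x₁) (h3 : y₀ + s ≤ o) (h4 : o + s ≤ y₁)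
    (h1' : x₀ + s ≤ t') (h2' : t' + s ≤ x₁) (h3' : y₀ + s ≤ o') (h4' : o' + s ≤ y₁) (hdl : 0 < dl) (hsd : 4 * dl = s * ‖d‖) :
    PvkqCore dl (pvccPl z d (pvljRect x₀ x₁ y₀ y₁)) (pvljPt z d l 0 t o) (pvljPt z d l 0 t' o') := by
  refine ⟨hdl, ?_⟩
  have k1 := pvlj_ball_pt z hd l 0 h1 h2 h3 h4
  have k2 := pvlj_ball_pt z hd l 0 h1' h2' h3' h4'
  rw [pvccZ_zero, pvccD_zero, ← hsd] at k1 k2
  exact pvlj_joined_convex (pvlj_pl_convex _ _ (pvlj_rect_convex _ _ _ _)) le_rfl k1 k2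

/-- a lane with caps lies in a ball -/
theorem pvht_Ln_ball {a' b' c₀ c₁ : ℝ} (ha : -(1 / 2) ≤ a') (hb : b' ≤ 1 / 2) (n₀ n₁ : ℕ) (h0 : c₀ ≤ (n₀ + 1 : ℕ)) (h1 : c₁ ≤ (n₁ + 1 : ℕ)) (z d : ℂ) (l : List PvtTurn) :
    pvhtLn a' b' c₀ c₁ z d l ⊆ closedBall (z - (n₀ + 1 : ℕ) * d) ((l.length + n₀ + n₁ + 3 : ℕ) * ‖d‖) := by
  refine (pvht_Ln_ext n₀ n₁ h0 h1 z d l).trans ((pvlj_lanes_ball ha hb _ d _).trans (closedBall_subset_closedBall (le_of_eq ?_)))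
  congr 1
  simp only [pvhtExt, List.length_append, List.length_replicate]
  push_cast
  ring

end corr

/-! ## 4. THE THICK LINK `e` (door → entrance tip), MODEL FREE

Mouth frame `(Y, u)` (`u` = outer normal), corridor `(z, d, l)` from the east door of the block of the plug to the mouth: `‖d‖ = Δ = 640 dl`, last frame `- Δ u`.   The inner C is on the side `up = false` (RIGHT of `u` = LEFT of the travel), as in `pvge3PatI` of 298.
Offsets in units `dl`: unit of the plug `32 dl`, half lanes `[16, 48]`, `[-48, -16]`;   column of the bars `x ∈ [-148, -140]` behind the first door (`= [172, 180]` from the centre of the plug; the region of the plug ends at `160`, the targets begin at `192`);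
left colour: lane `13 ± 4`, bar `13 → 51`;   right colour: lane `-51 ± 4`, bar `-51 → -13`. -/

section thickE

theorem pvht_P_eq {u : ℂ} (hu : ‖u‖ = 1) (Y : ℂ) (up : Bool) (v : ℂ) : pvge2P Y u up (pvge2S Y u v) (pvge2T Y u up v) = v := by
  unfold pvge2P pvge2S pvge2T
  have e1 : ((pvge2Sg up * (pvge2Sg up * ((v - Y) * (starRingEnd ℂ) u).im) : ℝ) : ℂ) = ((((v - Y) * (starRingEnd ℂ) u).im : ℝ) : ℂ) := by
    rw [← mul_assoc, pvge2_sg_sq, one_mul]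
  rw [e1, Complex.re_add_im]
  have := pvge2_u_conj hu
  linear_combination (v - Y) * this

/-- a point of the frame `(Z, - Δ u)` in the frame of the mouth -/
theorem pvht_frame_e {u : ℂ} (hu : ‖u‖ = 1) (Y : ℂ) {Δ : ℝ} {Z D : ℂ} (hD : D = -(Δ : ℂ) * u) (w : ℂ) :
    pvge2S Y u (Z + D * w) = pvge2S Y u Z - Δ * w.re ∧ pvge2T Y u false (Z + D * w) = pvge2T Y u false Z + Δ * w.im := by
  have key : (Z + D * w - Y) * (starRingEnd ℂ) u = (Z - Y) * (starRingEnd ℂ) u - (Δ : ℂ) * w := by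
    have := pvge2_u_conj hu
    rw [hD]
    linear_combination (-(Δ : ℂ) * w) * this
  unfold pvge2S pvge2T
  rw [key]
  constructor
  · simp [Complex.sub_re]
  · simp only [pvge2Sg, Bool.false_eq_true, if_false, Complex.sub_im, Complex.im_ofReal_mul]
    ring

/-- **THE NUMBERS OF A THICK LINK `e`**: `r = ρ h`, `Δ` = side of the blocks, `dl` = mesh of the pattern grid, `(Se, Te)` = the last door of the corridor in the frame `(Y, u, false)` -/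
structure PvhtNumE (r Δ dl Se Te : ℝ) : Prop where
  dl0 : 0 < dl
  hΔ : Δ = 640 * dl
  lo : r ≤ 16 * Δ
  hi : 15 * Δ ≤ r
  s_lo : r / 3 ≤ Se
  s_hi : Se ≤ 7 * r / 20
  lat : |Te| ≤ r / 500

variable {r Δ dl Se Te ρ b μ : ℝ}

theorem PvhtNumE.r0 (R : PvhtNumE r Δ dl Se Te) : 0 < r := by
  have := R.dl0; have := R.hΔ; have := R.hi
  linarith

/-- the inner arm -/
theorem PvhtNumE.num₁ (R : PvhtNumE r Δ dl Se Te) (hρ0 : 0 ≤ ρ) (hρ : ρ ≤ r / 1000) (hb0 : 0 ≤ b + μ) (hb : b + μ ≤ r / 8) :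
    Pvge2Num (27 * r / 200) (r / 200) (23 * r / 200) (23 * r / 200) (3 * r / 20) dl ρ (r / 10) b μ (r / 4) := by
  have h2 := R.dl0; have h3 := R.hΔ; have h4 := R.hi
  refine ⟨h2, by linarith, hρ0, by linarith, hb0, by linarith, by linarith, by linarith, by linarith, by linarith, by linarith, by linarith, ?_, ?_⟩
  · exact pvge2_sq_aux (A := 83 / 500) (B := 83 / 500) (by linarith) (by linarith) (by linarith) (by linarith) (by norm_num)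
  · exact pvge2_sq_aux (A := 83 / 500) (B := 83 / 500) (by linarith) (by linarith) (by linarith) (by linarith) (by norm_num)

/-- the outer arm -/
theorem PvhtNumE.num₂ (R : PvhtNumE r Δ dl Se Te) (hρ0 : 0 ≤ ρ) (hρ : ρ ≤ r / 1000) (hb0 : 0 ≤ b + μ) (hb : b + μ ≤ r / 8) :
    Pvge2Num (4 * r / 25) (r / 200) (23 * r / 200) (23 * r / 200) (3 * r / 20) dl ρ (r / 10) b μ (r / 4) := by
  have h2 := R.dl0; have h3 := R.hΔ; have h4 := R.hi
  refine ⟨h2, by linarith, hρ0, by linarith, hb0, by linarith, by linarith, by linarith, by linarith, by linarith, by linarith, by linarith, ?_, ?_⟩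
  · exact pvge2_sq_aux (A := 83 / 500) (B := 83 / 500) (by linarith) (by linarith) (by linarith) (by linarith) (by norm_num)
  · exact pvge2_sq_aux (A := 83 / 500) (B := 83 / 500) (by linarith) (by linarith) (by linarith) (by linarith) (by norm_num)

theorem PvhtNumE.bar₁ (R : PvhtNumE r Δ dl Se Te) : Pvge2Bar (27 * r / 200) (r / 200) (3 * r / 20) (Se - 3 * Δ / 2) (Δ / 160) (Te + 13 * Δ / 640) dl := by
  have h2 := R.dl0; have h3 := R.hΔ; have h4 := R.hi; have h5 := R.s_lo; have h9 := abs_le.1 R.lat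
  exact ⟨by linarith, by linarith, by linarith [h9.2]⟩

theorem PvhtNumE.bar₂ (R : PvhtNumE r Δ dl Se Te) : Pvge2Bar (4 * r / 25) (r / 200) (3 * r / 20) (Se - 3 * Δ / 2) (Δ / 160) (-Te + 51 * Δ / 640) dl := by
  have h2 := R.dl0; have h3 := R.hΔ; have h4 := R.hi; have h5 := R.s_lo; have h9 := abs_le.1 R.lat
  exact ⟨by linarith, by linarith, by linarith [h9.1]⟩

theorem PvhtNumE.pair (R : PvhtNumE r Δ dl Se Te) : Pvge2Pair (27 * r / 200) (4 * r / 25) (r / 200) (23 * r / 200) (23 * r / 200) (Se - 3 * Δ / 2) (Δ / 160) (Te + 13 * Δ / 640) (-Te + 51 * Δ / 640) := by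
  have h2 := R.dl0; have h3 := R.hΔ; have h4 := R.hi; have h5 := R.s_lo; have h9 := abs_le.1 R.lat
  exact ⟨by linarith, by linarith, by linarith, by linarith, by linarith [h9.1], by linarith [h9.2]⟩

/-- the lane of the left colour -/
def pvhtLnL (z d : ℂ) (l : List PvtTurn) : Set ℂ := pvhtLn (9 / 640) (17 / 640) (148 / 640) (3 / 2 + 1 / 160) z d l
/-- the lane of the right colour -/
def pvhtLnR (z d : ℂ) (l : List PvtTurn) : Set ℂ := pvhtLn (-(55 / 640)) (-(47 / 640)) (148 / 640) (3 / 2 + 1 / 160) z d l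
/-- the bar of the left colour -/
def pvhtBrL (z d : ℂ) : Set ℂ := pvccPl z d (pvljRect (-(148 / 640)) (-(140 / 640)) (9 / 640) (55 / 640))
/-- the bar of the right colour -/
def pvhtBrR (z d : ℂ) : Set ℂ := pvccPl z d (pvljRect (-(148 / 640)) (-(140 / 640)) (-(55 / 640)) (-(9 / 640)))

/-- **THE PATTERN OF RECORD OF A THICK LINK `e`**: colour `c` on the LEFT of the travel -/
noncomputable def pvhtPatE (Y u : ℂ) (c : Bool) (r Δ : ℝ) (z d : ℂ) (l : List PvtTurn) : List (Bool × List (Set ℂ × ℂ × ℂ)) :=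
  pvhtPat Y u false c (27 * r / 200) (4 * r / 25) (r / 200) (23 * r / 200) (23 * r / 200) (3 * r / 20) (pvge2S Y u (pvccZ z d l l.length) - 3 * Δ / 2) (Δ / 160)
    (pvge2T Y u false (pvccZ z d l l.length) + 13 * Δ / 640) (-pvge2T Y u false (pvccZ z d l l.length) + 51 * Δ / 640) (pvhtLnL z d l) (pvhtBrL z d) (pvhtLnR z d l) (pvhtBrR z d)
    (pvljPt z d l 0 (-(144 / 640)) (13 / 640)) (pvljPt z d l 0 (-(144 / 640)) (51 / 640)) (pvljPt z d l 0 (-(144 / 640)) (-(51 / 640))) (pvljPt z d l 0 (-(144 / 640)) (-(13 / 640)))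

theorem pvht_eqns_cite3 : True := by
  have := @pvhtLnL.eq_1; have := @pvhtLnR.eq_1; have := @pvhtBrL.eq_1; have := @pvhtBrR.eq_1; have := @pvhtPatE.eq_1
  trivial

variable {Y u z d : ℂ} {l : List PvtTurn}

/-- the way point in the cap of the mouth -/
theorem pvht_way_e (hu : ‖u‖ = 1) (hD : pvccD d l l.length = -(Δ : ℂ) * u) (t₁ o : ℝ) :
    pvljPt z d l l.length t₁ o = pvge2P Y u false (pvge2S Y u (pvccZ z d l l.length) - Δ * t₁) (pvge2T Y u false (pvccZ z d l l.length) + Δ * o) := by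
  obtain ⟨h1, h2⟩ := pvht_frame_e hu Y (Z := pvccZ z d l l.length) hD ((t₁ : ℂ) + (o : ℂ) * I)
  have e1 : ((t₁ : ℂ) + (o : ℂ) * I).re = t₁ := by simp
  have e2 : ((t₁ : ℂ) + (o : ℂ) * I).im = o := by simp
  rw [e1] at h1
  rw [e2] at h2
  rw [← h1, ← h2]
  exact (pvht_P_eq hu Y false _).symm

theorem pvht_P_flip (Y u : ℂ) (up : Bool) (s lam : ℝ) : pvge2P Y u (!up) s lam = pvge2P Y u up s (-lam) := by
  unfold pvge2P
  rw [pvge2_sg_not, neg_mul, mul_neg]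

theorem pvht_coreL (hu : ‖u‖ = 1) (R : PvhtNumE r Δ dl Se Te) (hd : ‖d‖ = Δ) (hl : 0 < l.length) (hD : pvccD d l l.length = -(Δ : ℂ) * u) :
    PvkqCore dl (pvhtLnL z d l) (pvge2P Y u false (pvge2S Y u (pvccZ z d l l.length) - 3 * Δ / 2) (pvge2T Y u false (pvccZ z d l l.length) + 13 * Δ / 640)) (pvljPt z d l 0 (-(144 / 640)) (13 / 640)) := by
  have h2 := R.dl0; have h3 := R.hΔ
  have hd0 : d ≠ 0 := by rw [← norm_pos_iff, hd]; linarith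
  have h := pvht_Ln_core (a' := 9 / 640) (b' := 17 / 640) (c₀ := 148 / 640) (c₁ := 3 / 2 + 1 / 160) (s := 1 / 160) (o := 13 / 640) (t₀ := -(144 / 640)) (t₁ := 3 / 2) (dl := dl)
    (by norm_num) (by norm_num) (by norm_num) (by norm_num) (by norm_num) (by norm_num) z hd0 hl (by norm_num) (by norm_num) (by norm_num) (by norm_num) h2 (by rw [hd, h3]; ring)
  rw [pvht_way_e (Y := Y) hu hD] at h
  have e1 : Δ * (3 / 2) = 3 * Δ / 2 := by ring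
  have e2 : Δ * (13 / 640) = 13 * Δ / 640 := by ring
  rw [e1, e2] at h
  exact pvge2_core_symm h

theorem pvht_coreR (hu : ‖u‖ = 1) (R : PvhtNumE r Δ dl Se Te) (hd : ‖d‖ = Δ) (hl : 0 < l.length) (hD : pvccD d l l.length = -(Δ : ℂ) * u) :
    PvkqCore dl (pvhtLnR z d l) (pvge2P Y u (!false) (pvge2S Y u (pvccZ z d l l.length) - 3 * Δ / 2) (-pvge2T Y u false (pvccZ z d l l.length) + 51 * Δ / 640)) (pvljPt z d l 0 (-(144 / 640)) (-(51 / 640))) := by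
  have h2 := R.dl0; have h3 := R.hΔ
  have hd0 : d ≠ 0 := by rw [← norm_pos_iff, hd]; linarith
  have h := pvht_Ln_core (a' := -(55 / 640)) (b' := -(47 / 640)) (c₀ := 148 / 640) (c₁ := 3 / 2 + 1 / 160) (s := 1 / 160) (o := -(51 / 640)) (t₀ := -(144 / 640)) (t₁ := 3 / 2) (dl := dl)
    (by norm_num) (by norm_num) (by norm_num) (by norm_num) (by norm_num) (by norm_num) z hd0 hl (by norm_num) (by norm_num) (by norm_num) (by norm_num) h2 (by rw [hd, h3]; ring)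
  rw [pvht_way_e (Y := Y) hu hD] at h
  rw [pvht_P_flip]
  have e1 : Δ * (3 / 2) = 3 * Δ / 2 := by ring
  have e2 : pvge2T Y u false (pvccZ z d l l.length) + Δ * (-(51 / 640)) = -(-pvge2T Y u false (pvccZ z d l l.length) + 51 * Δ / 640) := by ring
  rw [e1, e2] at h
  exact pvge2_core_symm h

theorem pvht_coreBL (R : PvhtNumE r Δ dl Se Te) (hd : ‖d‖ = Δ) : PvkqCore dl (pvhtBrL z d) (pvljPt z d l 0 (-(144 / 640)) (13 / 640)) (pvljPt z d l 0 (-(144 / 640)) (51 / 640)) := by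
  have h2 := R.dl0; have h3 := R.hΔ
  have hd0 : d ≠ 0 := by rw [← norm_pos_iff, hd]; linarith
  exact pvht_rect_core (s := 1 / 160) z hd0 l (by norm_num) (by norm_num) (by norm_num) (by norm_num) (by norm_num) (by norm_num) (by norm_num) (by norm_num) h2 (by rw [hd, h3]; ring)

theorem pvht_coreBR (R : PvhtNumE r Δ dl Se Te) (hd : ‖d‖ = Δ) : PvkqCore dl (pvhtBrR z d) (pvljPt z d l 0 (-(144 / 640)) (-(51 / 640))) (pvljPt z d l 0 (-(144 / 640)) (-(13 / 640))) := by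
  have h2 := R.dl0; have h3 := R.hΔ
  have hd0 : d ≠ 0 := by rw [← norm_pos_iff, hd]; linarith
  exact pvht_rect_core (s := 1 / 160) z hd0 l (by norm_num) (by norm_num) (by norm_num) (by norm_num) (by norm_num) (by norm_num) (by norm_num) (by norm_num) h2 (by rw [hd, h3]; ring)

/-- the block of the plug and the blocks of the corridor -/
def pvhtFar (z d : ℂ) (l : List PvtTurn) : Set ℂ := pvfeLanes (-(1 / 2)) (1 / 2) z d l ∪ pvccPl z d (pvljRect (-1) 0 (-(1 / 2)) (1 / 2))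

theorem pvht_eqns_cite4 : True := by
  have := @pvhtFar.eq_1
  trivial

/-- a lane with caps: the far part, the cap of the mouth -/
theorem pvht_Ln_split {a' b' c₀ c₁ : ℝ} (ha : -(1 / 2) ≤ a') (hb : b' ≤ 1 / 2) (hc : c₀ ≤ 1) (z d : ℂ) (l : List PvtTurn) :
    pvhtLn a' b' c₀ c₁ z d l ⊆ pvhtFar z d l ∪ pvccPl (pvccZ z d l l.length) (pvccD d l l.length) (pvljRect 0 c₁ a' b') := by
  rintro w ((hw | hw) | hw)
  · exact Or.inl (Or.inr (pvccPl_mono _ _ (pvlj_rect_mono (by linarith) le_rfl ha hb) hw))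
  · exact Or.inl (Or.inl (pvlj_lanes_mono ha hb z d l hw))
  · exact Or.inr hw

/-- the cap of the mouth in the frame of the mouth -/
theorem pvht_cap_e (hu : ‖u‖ = 1) (hΔ : 0 ≤ Δ) (hD : pvccD d l l.length = -(Δ : ℂ) * u) {c₁ a' b' : ℝ} :
    pvccPl (pvccZ z d l l.length) (pvccD d l l.length) (pvljRect 0 c₁ a' b') ⊆
      pvge2R Y u false (pvge2S Y u (pvccZ z d l l.length) - Δ * c₁) (pvge2S Y u (pvccZ z d l l.length)) (pvge2T Y u false (pvccZ z d l l.length) + Δ * a') (pvge2T Y u false (pvccZ z d l l.length) + Δ * b') := by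
  rintro _ ⟨w, ⟨w1, w2, w3, w4⟩, rfl⟩
  obtain ⟨h1, h2⟩ := pvht_frame_e hu Y (Z := pvccZ z d l l.length) hD w
  refine ⟨?_, ?_, ?_, ?_⟩
  · show _ ≤ pvge2S Y u (pvccZ z d l l.length + pvccD d l l.length * w)
    rw [h1]; nlinarith
  · show pvge2S Y u (pvccZ z d l l.length + pvccD d l l.length * w) ≤ _
    rw [h1]; nlinarith
  · show _ ≤ pvge2T Y u false (pvccZ z d l l.length + pvccD d l l.length * w)
    rw [h2]; nlinarith
  · show pvge2T Y u false (pvccZ z d l l.length + pvccD d l l.length * w) ≤ _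
    rw [h2]; nlinarith

theorem pvht_BrL_far (z d : ℂ) (l : List PvtTurn) : pvhtBrL z d ⊆ pvhtFar z d l :=
  fun _ hw => Or.inr (pvccPl_mono _ _ (pvlj_rect_mono (by norm_num) (by norm_num) (by norm_num) (by norm_num)) hw)

theorem pvht_BrR_far (z d : ℂ) (l : List PvtTurn) : pvhtBrR z d ⊆ pvhtFar z d l :=
  fun _ hw => Or.inr (pvccPl_mono _ _ (pvlj_rect_mono (by norm_num) (by norm_num) (by norm_num) (by norm_num)) hw)

theorem pvht_beyL (hu : ‖u‖ = 1) (hΔ : 0 < Δ) (hD : pvccD d l l.length = -(Δ : ℂ) * u) (hF : ∀ w ∈ pvhtFar z d l, pvge2S Y u (pvccZ z d l l.length) ≤ pvge2S Y u w) :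
    pvhtLnL z d l ∪ pvhtBrL z d ⊆ pvhtBey Y u false (pvge2S Y u (pvccZ z d l l.length) - 3 * Δ / 2) (Δ / 160) (pvge2T Y u false (pvccZ z d l l.length) + 13 * Δ / 640) := by
  have far : ∀ w ∈ pvhtFar z d l, w ∈ pvhtBey Y u false (pvge2S Y u (pvccZ z d l l.length) - 3 * Δ / 2) (Δ / 160) (pvge2T Y u false (pvccZ z d l l.length) + 13 * Δ / 640) := by
    intro w hw
    refine Or.inl ?_
    have := hF w hw
    show _ < pvge2S Y u w
    linarith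
  rintro w (hw | hw)
  · rcases pvht_Ln_split (by norm_num) (by norm_num) (by norm_num) z d l hw with hw | hw
    · exact far w hw
    · obtain ⟨h1, h2, h3, h4⟩ := pvht_cap_e (Y := Y) hu hΔ.le hD hw
      by_cases hc : pvge2S Y u (pvccZ z d l l.length) - 3 * Δ / 2 + Δ / 160 < pvge2S Y u w
      · exact Or.inl hc
      · exact Or.inr ⟨by linarith, by linarith, by linarith, by linarith⟩
  · exact far w (pvht_BrL_far z d l hw)

theorem pvht_beyR (hu : ‖u‖ = 1) (hΔ : 0 < Δ) (hD : pvccD d l l.length = -(Δ : ℂ) * u) (hF : ∀ w ∈ pvhtFar z d l, pvge2S Y u (pvccZ z d l l.length) ≤ pvge2S Y u w) :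
    pvhtLnR z d l ∪ pvhtBrR z d ⊆ pvhtBey Y u (!false) (pvge2S Y u (pvccZ z d l l.length) - 3 * Δ / 2) (Δ / 160) (-pvge2T Y u false (pvccZ z d l l.length) + 51 * Δ / 640) := by
  have far : ∀ w ∈ pvhtFar z d l, w ∈ pvhtBey Y u (!false) (pvge2S Y u (pvccZ z d l l.length) - 3 * Δ / 2) (Δ / 160) (-pvge2T Y u false (pvccZ z d l l.length) + 51 * Δ / 640) := by
    intro w hw
    refine Or.inl ?_
    have := hF w hw
    show _ < pvge2S Y u w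
    linarith
  rintro w (hw | hw)
  · rcases pvht_Ln_split (by norm_num) (by norm_num) (by norm_num) z d l hw with hw | hw
    · exact far w hw
    · obtain ⟨h1, h2, h3, h4⟩ := pvht_cap_e (Y := Y) hu hΔ.le hD hw
      by_cases hc : pvge2S Y u (pvccZ z d l l.length) - 3 * Δ / 2 + Δ / 160 < pvge2S Y u w
      · exact Or.inl hc
      · refine Or.inr ?_
        rw [pvge2_R_flip]
        exact ⟨by linarith, by linarith, by linarith, by linarith⟩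
  · exact far w (pvht_BrR_far z d l hw)

/-- the tails of the two colours lie in two lanes of the longer corridor -/
theorem pvht_tailL_ext (z d : ℂ) (l : List PvtTurn) : pvhtLnL z d l ∪ pvhtBrL z d ⊆ pvfeLanes (9 / 640) (55 / 640) (z - (0 + 1 : ℕ) * d) d (pvhtExt 0 1 l) := by
  refine Subset.trans ?_ (pvht_Ln_ext (a' := 9 / 640) (b' := 55 / 640) (c₀ := 1) (c₁ := 2) 0 1 (by norm_num) (by norm_num) z d l)
  rintro w (hw | hw)
  · exact pvht_Ln_mono le_rfl (by norm_num) (by norm_num) (by norm_num) z d l hw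
  · exact Or.inl (Or.inl (pvccPl_mono _ _ (pvlj_rect_mono (by norm_num) (by norm_num) le_rfl le_rfl) hw))

theorem pvht_tailR_ext (z d : ℂ) (l : List PvtTurn) : pvhtLnR z d l ∪ pvhtBrR z d ⊆ pvfeLanes (-(55 / 640)) (-(9 / 640)) (z - (0 + 1 : ℕ) * d) d (pvhtExt 0 1 l) := by
  refine Subset.trans ?_ (pvht_Ln_ext (a' := -(55 / 640)) (b' := -(9 / 640)) (c₀ := 1) (c₁ := 2) 0 1 (by norm_num) (by norm_num) z d l)
  rintro w (hw | hw)
  · exact pvht_Ln_mono le_rfl (by norm_num) (by norm_num) (by norm_num) z d l hw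
  · exact Or.inl (Or.inl (pvccPl_mono _ _ (pvlj_rect_mono (by norm_num) (by norm_num) le_rfl le_rfl) hw))

theorem pvht_tail_disj (hd : d ≠ 0) (hS : PvccSimple (pvhtExt 0 1 l) (pvhtExt 0 1 l).length) (hback : ∀ k, k < (pvhtExt 0 1 l).length → pvccC 0 1 (pvhtExt 0 1 l) k ≠ -(1 / 2)) :
    Disjoint (pvhtLnL z d l ∪ pvhtBrL z d) (pvhtLnR z d l ∪ pvhtBrR z d) :=
  ((pvlj_lanes_disj (by norm_num) (by norm_num) (by norm_num) (by norm_num) (Or.inl (by norm_num)) hS hback _ hd).mono (pvht_tailR_ext z d l) (pvht_tailL_ext z d l)).symm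

theorem pvht_tail_ball {M : ℕ} (R : PvhtNumE r Δ dl Se Te) (hd : ‖d‖ = Δ) (hM : (l.length + 4) * 640 ≤ M) {a' b' : ℝ} (ha : -(1 / 2) ≤ a') (hb : b' ≤ 1 / 2) {A : Set ℂ}
    (hA : A ⊆ pvfeLanes a' b' (z - (0 + 1 : ℕ) * d) d (pvhtExt 0 1 l)) : ∃ z0 : ℂ, A ⊆ closedBall z0 (M * dl) := by
  refine ⟨_, hA.trans ((pvlj_lanes_ball ha hb _ d _).trans (closedBall_subset_closedBall ?_))⟩
  have h2 := R.dl0
  have e : ((pvhtExt 0 1 l).length : ℝ) + 1 = (l.length : ℝ) + 4 := by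
    simp only [pvhtExt, List.length_append, List.length_replicate]
    push_cast
    ring
  have hM' : ((l.length : ℝ) + 4) * 640 ≤ M := by exact_mod_cast hM
  rw [e, hd, R.hΔ]
  nlinarith

/-- **THE PATTERN OF RECORD OF A THICK LINK `e` FITS**: `6` legs per colour, `M` free of the level -/
theorem pvht_fit_e (hu : ‖u‖ = 1) (R : PvhtNumE r Δ dl (pvge2S Y u (pvccZ z d l l.length)) (pvge2T Y u false (pvccZ z d l l.length))) (hd : ‖d‖ = Δ) (hl : 0 < l.length) (hD : pvccD d l l.length = -(Δ : ℂ) * u)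
    (hF : ∀ w ∈ pvhtFar z d l, pvge2S Y u (pvccZ z d l l.length) ≤ pvge2S Y u w)
    (hS : PvccSimple (pvhtExt 0 1 l) (pvhtExt 0 1 l).length) (hback : ∀ k, k < (pvhtExt 0 1 l).length → pvccC 0 1 (pvhtExt 0 1 l) k ≠ -(1 / 2))
    (c : Bool) {M : ℕ} (hM : (l.length + 4) * 640 ≤ M) (hM' : 4000 ≤ M) : PvkqFit dl M 6 (pvhtPatE Y u c r Δ z d l) := by
  have h2 := R.dl0; have h3 := R.hΔ; have h4 := R.hi; have h5 := R.s_lo; have h6 := R.s_hi; have h7 := R.lo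
  have hΔ : 0 < Δ := by linarith
  have hd0 : d ≠ 0 := by rw [← norm_pos_iff, hd]; exact hΔ
  have hr := R.r0
  have hMr : (4000 : ℝ) ≤ M := by exact_mod_cast hM'
  exact pvht_fit hu (R.num₁ (ρ := 0) (b := 0) (μ := 0) le_rfl (by linarith) (by norm_num) (by linarith)) (R.num₂ (ρ := 0) (b := 0) (μ := 0) le_rfl (by linarith) (by norm_num) (by linarith)) R.bar₁ R.bar₂ R.pair (by linarith) c
    (pvht_coreL hu R hd hl hD) (pvht_coreBL R hd) (pvht_coreR hu R hd hl hD) (pvht_coreBR R hd) (pvht_beyL hu hΔ hD hF) (pvht_beyR hu hΔ hD hF) (pvht_tail_disj hd0 hS hback)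
    (W := 13 * r / 50) (by linarith) (by linarith) (by linarith) (by nlinarith)
    (pvht_tail_ball R hd hM (by norm_num) (by norm_num) (subset_union_left.trans (pvht_tailL_ext z d l))) (pvht_tail_ball R hd hM (by norm_num) (by norm_num) (subset_union_right.trans (pvht_tailL_ext z d l)))
    (pvht_tail_ball R hd hM (by norm_num) (by norm_num) (subset_union_left.trans (pvht_tailR_ext z d l))) (pvht_tail_ball R hd hM (by norm_num) (by norm_num) (subset_union_right.trans (pvht_tailR_ext z d l)))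

end thickE

end Claimed.Agent.R289
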