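-- KEEP
import Claimed.Agent.R289.Tr.HookCol
import Claimed.Agent.R289.Tr.DoorSoft
import Claimed.Agent.R289.Tr.HookTR
import Claimed.Agent.R289.Tr.HookLA
import Claimed.Agent.R289.Tr.HookGJ

/-!
# Row 289 (S0537), THE WALL, ROAD E, E10 AT THE HYBRID ENDS, (b3) DET, file Tr/HookTA : **ASSEMBLY OF `PvjeDet.ev` FOR A LINK `door type plug → pin`** (thick link `e`; the last link `i` has the same shape)      (helper66, pen of (b3) thick; prefix `pvhu_`, `Pvhu` continued)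

INPUT = what is on main: the tip foot at a final configuration (66 `Tr/HookT`, at the model 235 `Tr/HookCol`: `pvhc_foot_e`), the side of the plug in plain form (173 `Tr/DoorSoft`: `PvyoSd`, `.door`), routes ⟹ arms, lanes (228 `Tr/HookD`: `pvhr_tip_rt`),
the door slot for L-shaped rooms (165 `Tr/HookTR`: `pvht_far`), two feet + lanes ⟹ run (23 `pvhj_run_foot_pl`), run ⟹ plain success (112 `Tr/HookLA`: `pvha_A_dp`).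
* sec. 1  MODEL FREE: `pvhu_slot_rt` (door slot, room in two pieces, THE COPY COLOURS ARE ASKED ONLY BEYOND `xs`: the part of the room inside the region of the plug keeps the colours of the plug), `PvhuDoorReg` (door side of the two routes: inequalities),
          `pvhu_foot_door`, `pvhu_feet`, **`pvhu_flink_i`**, **`pvhu_flink_o`** (= `pvhr_flink_*` of 228 at L-shaped rooms)
* sec. 2  **`PvhuLay`** = ALL THAT DET OWES TO THE REGIONS OF A LINK `door → pin` (no configuration, no state);   **`pvhu_A_dp`** : nice `η` + mesh of the window + side of the plug + entrance half state + route events of the copy colouring + fresh lines + THE FOOT ⟹ `η ∈ L.A N b`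
* sec. 3  AT THE MODEL: **`pvhu_ev_e`** : `PvjeFin (pvjeE 𝔓 𝔈 w m ε z t) T η₀ η` + certificates at the base + mesh of the window at `η` ⟹ `η ∈ pvilMe 𝔓 𝔈 m z t (pvilZi 𝔓 m z t η₀)`
0 SORRY.
-/

set_option autoImplicit false
set_option linter.unusedSectionVars false
set_option linter.unusedVariables false

namespace Claimed.Agent.R289

open Relation Set Metric Claims.C0465
open scoped ComplexConjugate

/-! ## 1. the door end with an L-shaped room -/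

section slot

variable {Y : Set ℂ}

/-- **THE DOOR END, ROUTE FORM, ROOM IN TWO PIECES** (`pvht_slot_rt` of 165), the copy colours asked only BEYOND `xs` -/
theorem pvhu_slot_rt (h : DelGood Y) {σ : Y → Bool} {κ : ℂ → Bool} {β : Bool} {Rm : Set ℂ} {f v : Y} (hH : (delMap h).Join univ (pvldCol σ {u : Y | (u : ℂ) ∈ Rm} β) f v)
    {ζ : ℂ} (hζ : ‖ζ‖ = 1) {δ ρ xs xa xb y0 y1 : ℝ} (hκ : ∀ u : Y, (u : ℂ) ∈ Rm → xs < (ζ * (u : ℂ)).re → σ u = κ u) (hcell : ∀ u : Y, (u : ℂ) ∈ Rm → vorCell Y u ⊆ closedBall (u : ℂ) ρ)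
    {e : Set ℂ × ℂ × ℂ} (hcore : PvkqCore δ e.1 e.2.1 e.2.2) (D : PvhrDoorReg ζ δ ρ xa xb y0 y1 (Rm ∩ {w | xs < (ζ * w).re}) e) (hxs : xs + 2 * ρ ≤ xa) (hρ : 0 < ρ) (hab : xa ≤ xb)
    (hf : (ζ * (f : ℂ)).re ≤ xa) (hv : xb ≤ (ζ * (v : ℂ)).re)
    {xe : ℂ} (hxe : ∀ k ∈ pvkqL δ e.1 e.2.1 e.2.2, PvlnHub (pvlnReg β (cfOf Y κ)) (pvkqU δ e.1 e.2.1 e.2.2) δ k xe) :
    ∃ x0 ∈ pvhjV Y κ β (pathComponentIn (pvlnReg β (cfOf Y κ) ∩ pvkqU δ e.1 e.2.1 e.2.2) xe), (delMap h).Join univ (pvldCol σ {u : Y | (u : ℂ) ∈ Rm} β) f x0 := by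
  obtain ⟨f', j1, j2, j3⟩ := pvht_far h hH hζ hcell hxs hf (by linarith)
  obtain ⟨x0, hx0, j0⟩ := pvhr_slot_rt h j2 (fun u hu => hκ u hu.1 hu.2) hζ (fun u hu => hcell u hu.1) hcore D j3 hv hxe
  exact ⟨x0, hx0, j1.1, j1.2.trans (ReflTransGen.mono (fun a b hab => ⟨hab.1, hab.2.1.1, hab.2.2⟩) _ _ j0.2)⟩

end slot

/-- **THE DOOR SIDE OF THE TWO ROUTES** (inequalities on regions; picture turned by `ζd`).   `B` = the disc of the gate (it contains the feet of the half lanes), `Rm β` = room, `Dr β` = target of the half lane of colour `β`, `eD β` = the leg ACROSS the part of the room beyond `xs β` -/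
structure PvhuDoorReg (ζd : ℂ) (δ ρd : ℝ) (B : Set ℂ) (Rm Dr : Bool → Set ℂ) (eD : Bool → Set ℂ × ℂ × ℂ) (xs xa xb y0 y1 : Bool → ℝ) : Prop where
  nz : ‖ζd‖ = 1
  rho : 0 < ρd
  reg : ∀ β, PvhrDoorReg ζd δ ρd (xa β) (xb β) (y0 β) (y1 β) (Rm β ∩ {w | xs β < (ζd * w).re}) (eD β)
  sa : ∀ β, xs β + 2 * ρd ≤ xa β
  ab : ∀ β, xa β ≤ xb β
  foot : ∀ β, ∀ w ∈ B, (ζd * w).re ≤ xa β
  tgt : ∀ β, ∀ w ∈ Dr β, xb β ≤ (ζd * w).re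

section feet

variable {Y : Set ℂ} {h : DelGood Y} {K : Set Y} {ζ : ℂ} {σ : Y → Bool} {κ : ℂ → Bool} {Sg : Bool → Set ℂ} {xB yL yU μ rs : ℝ} {c : ℂ} {up : Bool → Bool}
  {δ ρl : ℝ} {eC eN eD : Bool → Set ℂ × ℂ × ℂ} {t : Bool → List (Set ℂ × ℂ × ℂ)} {jN jS : Bool → ℕ} {ζd : ℂ} {ρd : ℝ} {xs xa xb y0 y1 : Bool → ℝ} {B : Set ℂ} {Rm Dr : Bool → Set ℂ} {at_ ad : DelDart h}

/-- **THE FOOT AT A DOOR, L-SHAPED ROOMS** -/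
theorem pvhu_foot_door (h : DelGood Y) {ad : DelDart h} {G : Bool → Set ℂ} (hcore : ∀ β, PvkqCore δ (eD β).1 (eD β).2.1 (eD β).2.2)
    (hleg : ∀ β, ∃ xe : ℂ, (∀ k ∈ pvkqL δ (eD β).1 (eD β).2.1 (eD β).2.2, PvlnHub (pvlnReg β (cfOf Y κ)) (pvkqU δ (eD β).1 (eD β).2.1 (eD β).2.2) δ k xe) ∧
      pathComponentIn (pvlnReg β (cfOf Y κ) ∩ pvkqU δ (eD β).1 (eD β).2.1 (eD β).2.2) xe ⊆ G β)
    (D : PvhuDoorReg ζd δ ρd B Rm Dr eD xs xa xb y0 y1)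
    (hH : ∀ β, ∃ v : Y, (v : ℂ) ∈ Dr β ∧ (delMap h).Join univ (pvldCol σ {u : Y | (u : ℂ) ∈ Rm β} β) (pvhiEnd (delMap h) β ad) v)
    (hfoot : ∀ β, ((pvhiEnd (delMap h) β ad : Y) : ℂ) ∈ B)
    (hRm : ∀ β, ∀ u : Y, (u : ℂ) ∈ Rm β → u ∈ K ∧ vorCell Y u ⊆ closedBall (u : ℂ) ρd) (hκ : ∀ β, ∀ u : Y, (u : ℂ) ∈ Rm β → xs β < (ζd * (u : ℂ)).re → σ u = κ u) : PvhjFoot h σ κ K ad G := by
  intro β
  obtain ⟨xe, hxe, hG⟩ := hleg β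
  obtain ⟨v, hv, hj⟩ := hH β
  obtain ⟨x0, hx0, j0⟩ := pvhu_slot_rt h hj D.nz (hκ β) (fun u hu => (hRm β u hu).2) (hcore β) (D.reg β) (D.sa β) D.rho (D.ab β) (D.foot β _ (hfoot β)) (D.tgt β _ hv) hxe
  have hsub : pvldCol σ {u : Y | (u : ℂ) ∈ Rm β} β ⊆ pvldCol σ K β := fun u hu => ⟨(hRm β u hu.1).1, hu.2⟩
  exact ⟨x0, pvhj_V_mono κ β hG hx0, pl_hx_join_mono Subset.rfl hsub j0⟩

/-- **THE TWO FEET AND THE LANES OF A HYBRID LINK, L-SHAPED ROOMS** (`pvhr_feet` of 228) -/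
theorem pvhu_feet (foot : ∀ GN GC : Bool → Set ℂ, (∀ β, PvhjArm Y κ β ζ xB yL yU μ c rs (up β) (GN β) (GC β) (Sg β)) → PvhjFoot h σ κ K at_ GN)
    (hδ : 0 < δ) (hr : ∀ β, PvkqRoute δ (eC β :: eN β :: t β)) (hev : ∀ β, cfOf Y κ ∈ pvkqRtEv δ β (eC β :: eN β :: t β))
    (R : ∀ β, PvhzArmReg ζ xB yL yU μ c rs ρl (up β) (eN β).1 (eC β).1 (Sg β))
    (hρl : δ / 16 ≤ ρl) (hdS : ∀ β, VorDense Y (Sg β) ρl) (hjN : ∀ β, jN β < 4) (hjS : ∀ β, jS β < 4)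
    (hSN : ∀ β, pvhzSd δ (pvkqCell δ (eN β).2.2) (jN β) ⊆ Sg β) (hSS : ∀ β, pvhzSd δ (pvkqCell δ (eC β).2.1) (jS β) ⊆ Sg β)
    (mid : ∀ β, ∀ v : Y, (vorCell Y v ∩ pvkqRtR (eN β :: t β)).Nonempty → v ∈ K ∧ σ v = κ v)
    (hD : ∀ β, eD β ∈ eN β :: t β) (D : PvhuDoorReg ζd δ ρd B Rm Dr eD xs xa xb y0 y1)
    (hH : ∀ β, ∃ v : Y, (v : ℂ) ∈ Dr β ∧ (delMap h).Join univ (pvldCol σ {u : Y | (u : ℂ) ∈ Rm β} β) (pvhiEnd (delMap h) β ad) v)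
    (hfoot : ∀ β, ((pvhiEnd (delMap h) β ad : Y) : ℂ) ∈ B)
    (hRm : ∀ β, ∀ u : Y, (u : ℂ) ∈ Rm β → u ∈ K ∧ vorCell Y u ⊆ closedBall (u : ℂ) ρd) (hκ : ∀ β, ∀ u : Y, (u : ℂ) ∈ Rm β → xs β < (ζd * (u : ℂ)).re → σ u = κ u) :
    ∃ GN G : Bool → Set ℂ, PvhjFoot h σ κ K at_ GN ∧ PvhjFoot h σ κ K ad G ∧ PvhjMid Y σ κ K G ∧ ∀ β, GN β ⊆ G β := by
  have T := fun β => pvhr_tip_rt h.lf κ hδ (hr β) (hev β) (R β) hρl (hdS β) (hjN β) (hjS β) (hSN β) (hSS β)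
  choose GN GC G hA hsub hconn hcov hreg hleg using T
  exact ⟨GN, G, foot GN GC hA, pvhu_foot_door h (fun β => (hr β).1 _ (List.mem_cons_of_mem _ (hD β))) (fun β => hleg β (eD β) (hD β)) D hH hfoot hRm hκ,
    ⟨hconn, hcov, fun β v hv => mid β v (hv.mono (inter_subset_inter_right _ (hreg β)))⟩, hsub⟩

end feet

section flink

variable {Y : Set ℂ} {h : DelGood Y} {P : PlTri ↥Y} {K : Set Y} {ζ : ℂ} {σ : Y → Bool} {κ : ℂ → Bool} {Sg : Bool → Set ℂ} {xB yL yU μ rs : ℝ} {c : ℂ} {up : Bool → Bool}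
  {δ ρl : ℝ} {eC eN eD : Bool → Set ℂ × ℂ × ℂ} {t : Bool → List (Set ℂ × ℂ × ℂ)} {jN jS : Bool → ℕ} {ζd : ℂ} {ρd : ℝ} {xs xa xb y0 y1 : Bool → ℝ} {B : Set ℂ} {Rm Dr : Bool → Set ℂ}

/-- **HOOK-DET, LINK `pin → door`, FOOT FORM, L-SHAPED ROOMS, ANY PRESENTATION** -/
theorem pvhu_flink_o (hP : P = delPl h) {a₀ : P.Dart} (h0 : pvasBW P.toMap σ a₀)
    (foot : ∀ GN GC : Bool → Set ℂ, (∀ β, PvhjArm Y κ β ζ xB yL yU μ c rs (up β) (GN β) (GC β) (Sg β)) → PvhjFootP P σ κ K a₀ GN)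
    (hK : K.Finite) (hco : ∀ u v, u ∉ K → v ∉ K → P.toMap.Join univ Kᶜ u v) (g : P.toMap.Gate σ) (hne : P.toMap.src a₀ ≠ g.vm)
    (hO : ∃ f, P.toMap.src f ∉ K ∧ P.toMap.DJoin (pvldBar P.toMap σ K a₀ g.aIn) (P.toMap.opp a₀) f)
    (hδ : 0 < δ) (hr : ∀ β, PvkqRoute δ (eC β :: eN β :: t β)) (hev : ∀ β, cfOf Y κ ∈ pvkqRtEv δ β (eC β :: eN β :: t β))
    (R : ∀ β, PvhzArmReg ζ xB yL yU μ c rs ρl (up β) (eN β).1 (eC β).1 (Sg β))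
    (hρl : δ / 16 ≤ ρl) (hdS : ∀ β, VorDense Y (Sg β) ρl) (hjN : ∀ β, jN β < 4) (hjS : ∀ β, jS β < 4)
    (hSN : ∀ β, pvhzSd δ (pvkqCell δ (eN β).2.2) (jN β) ⊆ Sg β) (hSS : ∀ β, pvhzSd δ (pvkqCell δ (eC β).2.1) (jS β) ⊆ Sg β)
    (mid : ∀ β, ∀ v : Y, (vorCell Y v ∩ pvkqRtR (eN β :: t β)).Nonempty → v ∈ K ∧ σ v = κ v)
    (hD : ∀ β, eD β ∈ eN β :: t β) (D : PvhuDoorReg ζd δ ρd B Rm Dr eD xs xa xb y0 y1)
    (hH : ∀ β, ∃ v : Y, (v : ℂ) ∈ Dr β ∧ P.toMap.Join univ (pvldCol σ {u : Y | (u : ℂ) ∈ Rm β} β) (pvhiEnd P.toMap β g.aIn) v)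
    (hfoot : ∀ β, ((pvhiEnd P.toMap β g.aIn : Y) : ℂ) ∈ B)
    (hRm : ∀ β, ∀ u : Y, (u : ℂ) ∈ Rm β → u ∈ K ∧ vorCell Y u ⊆ closedBall (u : ℂ) ρd) (hκ : ∀ β, ∀ u : Y, (u : ℂ) ∈ Rm β → xs β < (ζd * (u : ℂ)).re → σ u = κ u) :
    PvldRun P.toMap σ K a₀ g.aIn := by
  subst hP
  obtain ⟨GN, G, J₀, J₁, hG, hsub⟩ := pvhu_feet (at_ := a₀) (ad := g.aIn) foot hδ hr hev R hρl hdS hjN hjS hSN hSS mid hD D hH hfoot hRm hκ
  exact pvhj_run_foot h hK h0 (pvtg_aIn_bw g) hne hco hO J₀ J₁ hG hsub fun _ => Subset.rfl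

/-- **HOOK-DET, LINK `door → pin`, FOOT FORM, L-SHAPED ROOMS, ANY PRESENTATION** -/
theorem pvhu_flink_i (hP : P = delPl h) {a₁ : P.Dart} (h1 : pvasBW P.toMap σ a₁)
    (foot : ∀ GN GC : Bool → Set ℂ, (∀ β, PvhjArm Y κ β ζ xB yL yU μ c rs (up β) (GN β) (GC β) (Sg β)) → PvhjFootP P σ κ K a₁ GN)
    (hK : K.Finite) (hco : ∀ u v, u ∉ K → v ∉ K → P.toMap.Join univ Kᶜ u v) (g : P.toMap.Gate σ) (hne : g.vp ≠ P.toMap.src a₁)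
    (hO : ∃ f, P.toMap.src f ∉ K ∧ P.toMap.DJoin (pvldBar P.toMap σ K g.aOut a₁) (P.toMap.opp g.aOut) f)
    (hδ : 0 < δ) (hr : ∀ β, PvkqRoute δ (eC β :: eN β :: t β)) (hev : ∀ β, cfOf Y κ ∈ pvkqRtEv δ β (eC β :: eN β :: t β))
    (R : ∀ β, PvhzArmReg ζ xB yL yU μ c rs ρl (up β) (eN β).1 (eC β).1 (Sg β))
    (hρl : δ / 16 ≤ ρl) (hdS : ∀ β, VorDense Y (Sg β) ρl) (hjN : ∀ β, jN β < 4) (hjS : ∀ β, jS β < 4)
    (hSN : ∀ β, pvhzSd δ (pvkqCell δ (eN β).2.2) (jN β) ⊆ Sg β) (hSS : ∀ β, pvhzSd δ (pvkqCell δ (eC β).2.1) (jS β) ⊆ Sg β)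
    (mid : ∀ β, ∀ v : Y, (vorCell Y v ∩ pvkqRtR (eN β :: t β)).Nonempty → v ∈ K ∧ σ v = κ v)
    (hD : ∀ β, eD β ∈ eN β :: t β) (D : PvhuDoorReg ζd δ ρd B Rm Dr eD xs xa xb y0 y1)
    (hH : ∀ β, ∃ v : Y, (v : ℂ) ∈ Dr β ∧ P.toMap.Join univ (pvldCol σ {u : Y | (u : ℂ) ∈ Rm β} β) (pvhiEnd P.toMap β g.aOut) v)
    (hfoot : ∀ β, ((pvhiEnd P.toMap β g.aOut : Y) : ℂ) ∈ B)
    (hRm : ∀ β, ∀ u : Y, (u : ℂ) ∈ Rm β → u ∈ K ∧ vorCell Y u ⊆ closedBall (u : ℂ) ρd) (hκ : ∀ β, ∀ u : Y, (u : ℂ) ∈ Rm β → xs β < (ζd * (u : ℂ)).re → σ u = κ u) :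
    PvldRun P.toMap σ K g.aOut a₁ := by
  subst hP
  obtain ⟨GN, G, J₁, J₀, hG, hsub⟩ := pvhu_feet (at_ := a₁) (ad := g.aOut) foot hδ hr hev R hρl hdS hjN hjS hSN hSS mid hD D hH hfoot hRm hκ
  exact pvhj_run_foot h hK (pvtg_aOut_bw g) h1 (fun e => hne ((pvtg_aOut_src g).symm.trans e)) hco hO J₀ J₁ hG (fun _ => Subset.rfl) hsub

end flink

/-! ## 2. a link `door type plug → pin` of `Tr/InstL`: the regions, the plain success -/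

/-- **ALL THAT DET OWES TO THE REGIONS OF A LINK `door → pin`** (no configuration, no state).   `W` = the window (mesh `μ` at the final configuration), `Fr` = the FRESH part (tile ∪ mouth off the own-level box: copy colours),
tip: side `ζ`, box `{re (ζ w) ≤ xB}`, centre `c` of the tip cell, small mouth `rs`, mesh `ρ` of the big mouth at the base, `rt`;   routes of the two colours listed FROM THE TIP `eC β :: eN β :: t β`, closing sets `Sg β`;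
door: rooms `Rm β`, targets `Dr β` of the two half lanes of the exit side, legs `eD β` across the rooms. -/
structure PvhuLay (L : PvilLk) (N : PvwNum) (W Fr : Set ℂ) (μ μ' : ℝ) (ζ : ℂ) (xB : ℝ) (c : ℂ) (rs ρ rt ρl δ : ℝ)
    (eC eN eD : Bool → Set ℂ × ℂ × ℂ) (t : Bool → List (Set ℂ × ℂ × ℂ)) (Sg : Bool → Set ℂ) (jN jS : Bool → ℕ)
    (ζd : ℂ) (Rm Dr : Bool → Set ℂ) (xs xa xb y0 y1 : Bool → ℝ) : Prop where
  mu : 0 < μ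
  rho : 0 ≤ ρ
  bdd : Bornology.IsBounded L.Yin
  co : IsPreconnected L.Yinᶜ
  /-- (Rc) of RULING 22: the room with its collar lies in the window -/
  collar : ∀ v ∈ L.Yin, closedBall v (3 * μ) ⊆ W
  dl : 0 < δ
  route : ∀ β, PvkqRoute δ (eC β :: eN β :: t β)
  arm : ∀ β, PvhzArmReg ζ xB ((ζ * c).im - rt) ((ζ * c).im + rt) (2 * ρ) c rs ρl (!β) (eN β).1 (eC β).1 (Sg β)
  rl : δ / 16 ≤ ρl
  mul : μ ≤ ρl
  sgW : ∀ β, Sg β ⊆ pvtrCore μ W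
  jN4 : ∀ β, jN β < 4
  jS4 : ∀ β, jS β < 4
  sN : ∀ β, pvhzSd δ (pvkqCell δ (eN β).2.2) (jN β) ⊆ Sg β
  sS : ∀ β, pvhzSd δ (pvkqCell δ (eC β).2.1) (jS β) ⊆ Sg β
  sgc : ∀ β, ∀ x ∈ Sg β, ‖x - c‖ ≤ rs + μ'
  /-- the small mouth with its collar lies in the room -/
  mouth : closedBall c (rs + 4 * ρ + μ) ⊆ L.Yin
  /-- arm and middle legs: deep in the room, in the fresh part -/
  mid : ∀ β, ∀ w ∈ pvkqRtR (eN β :: t β), closedBall w (2 * μ) ⊆ L.Yin ∧ closedBall w μ ⊆ Fr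
  leg : ∀ β, eD β ∈ eN β :: t β
  door : PvhuDoorReg ζd δ μ (ball L.p.z (pvkdP L.p.h).b) Rm Dr eD xs xa xb y0 y1
  room : ∀ β, ∀ w ∈ Rm β, closedBall w μ ⊆ L.Yin
  roomF : ∀ β, ∀ w ∈ Rm β, xs β < (ζd * w).re → w ∈ Fr
  /-- the room of `g⁻` of the plug is off the room of the link -/
  gm : ∀ w ∈ pvkdAt L.p.z L.p.fr (pvkdP L.p.h).Zm, w ∉ L.Yin
  offBox : Disjoint (ball L.p.z (pvkdP L.p.h).b) (pvhaBx N L.p')
  offTip : Disjoint (ball L.p.z (pvkdP L.p.h).b) L.p'.cm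

section lk

variable {L : PvilLk} {N : PvwNum} {W Fr : Set ℂ} {μ μ' : ℝ} {ζ : ℂ} {xB : ℝ} {c : ℂ} {rs ρ rt ρl δ : ℝ}
  {eC eN eD : Bool → Set ℂ × ℂ × ℂ} {t : Bool → List (Set ℂ × ℂ × ℂ)} {Sg : Bool → Set ℂ} {jN jS : Bool → ℕ}
  {ζd : ℂ} {Rm Dr : Bool → Set ℂ} {xs xa xb y0 y1 : Bool → ℝ} {b : Bool} {η : Conf PvPt}

theorem pvhu_ball_ball {a c : ℂ} {r s : ℝ} (h : ‖a - c‖ ≤ r) : closedBall a s ⊆ closedBall c (r + s) := by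
  intro x hx
  rw [mem_closedBall, dist_eq_norm] at hx ⊢
  calc ‖x - c‖ = ‖(x - a) + (a - c)‖ := by congr 1; ring
    _ ≤ ‖x - a‖ + ‖a - c‖ := norm_add_le _ _
    _ ≤ r + s := by linarith

/-- the feet of the exit side of a gate of record lie in the outer disc -/
theorem pvhu_foot_rim {κ' V D : Type} {T : PvMap V D} {mk : V → κ'} {s : V → Bool} {KI KO : Set κ'} {g : T.Gate s} (h : PvzlIn T mk KI KO g.c) (β : Bool) : mk (pvhiEnd T β g.aOut) ∈ KO := by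
  cases β
  · show mk (T.tgt g.aOut) ∈ KO
    rw [pvtg_aOut_tgt]; exact h.rim _
  · show mk (T.src g.aOut) ∈ KO
    rw [pvtg_aOut_src]; exact h.rim g.m

theorem pvhu_foot_eq {V D : Type} {T : PvMap V D} {s : V → Bool} (g : T.Gate s) (β : Bool) : pvkdFoot g true β = pvhiEnd T β g.aOut := by
  cases β
  · rfl
  · exact (pvtg_aOut_src g).symm

/-- **THE PLAIN SUCCESS OF A LINK `door type plug → pin`** at ONE configuration `η`: general position, mesh of the window, the gate of record of the plug with the two half lanes of its exit side (173: `PvyoSd`), the entrance half state of the pin,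
a copy colouring `κ` (relative colours) with the two route events, `σ = κ` on the fresh part, THE FOOT at the tip for every family of arms (66 / 235 / 23 / 199) -/
theorem pvhu_A_dp (Λ : PvhuLay L N W Fr μ μ' ζ xB c rs ρ rt ρl δ eC eN eD t Sg jN jS ζd Rm Dr xs xa xb y0 y1) (h0 : L.dr = true) (h1 : L.dr' = false)
    (hgood : DelGood (pvieY η)) (hm : PvtrMesh μ W (pvieY η)) {g : (pvieT η).Gate (pvieCol η b)}
    (hd : PvilDoor (pvkdP L.p.h) b η L.p.z L.p.fr (pvilStS (pvkdP L.p.h) η (pvieCol η b) L.p.z g))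
    (hg : PvzlGt (pvieT η) Subtype.val (pvieCol η b) ((pvkdP L.p.h).pg L.p.z L.p.fr) g)
    (hH : ∀ β, ∃ v : ↥(pvieY η), (v : ℂ) ∈ Dr β ∧ (pvieT η).Join univ (pvldCol (pvieCol η b) {u | (u : ℂ) ∈ Rm β} β) (pvkdFoot g true β) v)
    {𝔖' : PvwSt (pvieT η)} (hp : PvilIn N b L.p' η 𝔖') {κ : ℂ → Bool}
    (hev : ∀ β, cfOf (pvieY η) κ ∈ pvkqRtEv δ β (eC β :: eN β :: t β)) (hfr : ∀ v : ↥(pvieY η), (v : ℂ) ∈ Fr → pvieCol η b v = κ v)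
    (foot : ∀ (K : Set ↥(pvieY η)) (GN GC Sg' : Bool → Set ℂ),
      (∀ β, PvhjArm (pvieY η) κ β ζ xB ((ζ * c).im - rt) ((ζ * c).im + rt) (2 * ρ) c rs (!β) (GN β) (GC β) (Sg' β)) → (∀ β, ∀ x ∈ Sg' β, ‖x - c‖ ≤ rs + μ') →
      (∀ v : ↥(pvieY η), ‖(v : ℂ) - c‖ < rs + 4 * ρ → v ∈ K) → PvhjFootP (delbPl (pvieY η)) (pvieCol η b) κ K (𝔖'.em 𝔖'.nm) GN) :
    η ∈ L.A N b := by
  have hμ := Λ.mu
  obtain ⟨k1, k2⟩ := pvhj_K_pl (h := hgood) (delb_pl_eq hgood) Λ.co (by rw [compl_compl]; exact Λ.bdd)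
  have hcell : ∀ v : ↥(pvieY η), (v : ℂ) ∈ L.Yin → vorCell (pvieY η) v ⊆ closedBall (v : ℂ) μ := fun v hv => pvhu_cell_ball hμ hm (Λ.collar v hv)
  have hinK : ∀ v : ↥(pvieY η), closedBall (v : ℂ) μ ⊆ L.Yin → v ∈ pvgeKV (pvieY η) L.Yinᶜ := fun v hv => pvhg_KV_iff.2 ((hcell v (hv (mem_closedBall_self hμ.le))).trans hv)
  have htip : ((pvieT η).src (𝔖'.em 𝔖'.nm) : ℂ) ∈ L.p'.cm := hp.tip
  have hbw : pvasBW (pvieT η) (pvieCol η b) (𝔖'.em 𝔖'.nm) := pvwk_em_bw hp.st.stub hp.st.gate.bw_m le_rfl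
  have hvp : ((g.vp : ↥(pvieY η)) : ℂ) ∈ ball L.p.z (pvkdP L.p.h).b := by
    have := pvhu_foot_rim hg.least.reg true
    rwa [show pvhiEnd (pvieT η) true g.aOut = g.vp from pvtg_aOut_src g] at this
  have hrun : PvldRun (pvieT η) (pvieCol η b) (pvgeKV (pvieY η) L.Yinᶜ) g.aOut (𝔖'.em 𝔖'.nm) := by
    refine pvhu_flink_i (h := hgood) (delb_pl_eq hgood) hbw (fun GN GC A => foot _ GN GC Sg A Λ.sgc fun v hv => hinK v ?_) k1 k2 g ?_ ?_ Λ.dl Λ.route hev Λ.arm Λ.rl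
      (fun β => VorDense.mono hm Subset.rfl (Λ.sgW β) Λ.mul) Λ.jN4 Λ.jS4 Λ.sN Λ.sS ?_ Λ.leg Λ.door (fun β => ?_) (fun β => pvhu_foot_rim hg.least.reg β) ?_ ?_
    · exact (pvhu_ball_ball hv.le).trans Λ.mouth
    · intro e
      exact disjoint_left.1 Λ.offTip hvp (e ▸ htip)
    · refine pvhr_out_gt hg (fun hK => Λ.gm _ hg.vm (pvhg_KV_over hK)) hbw fun hl => ?_
      exact disjoint_left.1 Λ.offTip (hg.least.reg.outer _ hl) htip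
    · rintro β v ⟨w, hw1, hw2⟩
      obtain ⟨m1, m2⟩ := Λ.mid β w hw2
      have hwY : w ∈ L.Yin := m1 (mem_closedBall_self (by linarith))
      have hwc : w ∈ pvtrCore μ W := (closedBall_subset_closedBall (by linarith)).trans (Λ.collar w hwY)
      have hwv : ‖w - (v : ℂ)‖ ≤ μ := vor_site_near hm hw1 hwc
      have hvw : ‖(v : ℂ) - w‖ ≤ μ := by rwa [norm_sub_rev]
      refine ⟨hinK v (((pvhu_ball_ball hvw).trans (by rw [← two_mul])).trans m1), hfr v (m2 ?_)⟩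
      rwa [mem_closedBall, dist_eq_norm]
    · obtain ⟨v, hv, hj⟩ := hH β
      rw [pvhu_foot_eq] at hj
      exact ⟨v, hv, hj⟩
    · intro β u hu
      exact ⟨hinK u (Λ.room β u hu), hcell u (Λ.room β u hu (mem_closedBall_self hμ.le))⟩
    · intro β u hu hx
      exact hfr u (Λ.roomF β u hu hx)
  refine pvha_A_dp (K := pvgeKV (pvieY η) L.Yinᶜ) h0 h1 hd hp ?_ (fun v hv => pvhg_KV_over hv) hrun
  intro hbx
  refine disjoint_left.1 Λ.offBox ?_ hbx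
  show (((pvieT η).src g.aOut : ↥(pvieY η)) : ℂ) ∈ _
  rw [pvtg_aOut_src]
  exact hvp

end lk

/-! ## 3. at the model: the thick link `reference plug → t` -/

section tip

variable {Y₀ : Set ℂ} {h₀ : DelGood Y₀} {P₀ : PlTri ↥Y₀} {𝔖₀ : PvwSt P₀.toMap} {N : PvwNum} {hh : ℝ} {z : ℂ} {τ : PvwTy} {σ₀ : Y₀ → Bool} {r ρ : ℝ}

/-- `pvhg_tip_in` of 90, any presentation -/
theorem pvhu_tip_in_pl (hP₀ : P₀ = delPl h₀) (ha : 𝔖₀.AtIn (dlsPos Y₀) N hh z τ σ₀) (hρ : 0 < ρ) (h2 : N.rho * hh / 4 ≤ r + ρ) (hmesh : VorDense Y₀ (closedBall (τ.cm hh z) (r + 3 * ρ)) ρ) :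
    ‖(𝔖₀.am : ℂ) - τ.cm hh z‖ ≤ N.rho * hh / 4 + 2 * ρ := by
  subst hP₀
  exact pvhg_tip_in ha hρ h2 hmesh

/-- `pvhg_tip_out` of 90, any presentation -/
theorem pvhu_tip_out_pl (hP₀ : P₀ = delPl h₀) (ha : 𝔖₀.AtOut (dlsPos Y₀) N hh z τ σ₀) (hρ : 0 < ρ) (h2 : N.rho * hh / 4 ≤ r + ρ) (hmesh : VorDense Y₀ (closedBall (τ.cp hh z) (r + 3 * ρ)) ρ) :
    ‖(𝔖₀.ap : ℂ) - τ.cp hh z‖ ≤ N.rho * hh / 4 + 2 * ρ := by
  subst hP₀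
  exact pvhg_tip_out ha hρ h2 hmesh

end tip

section model

variable {τ : Type} {c : ℝ}

/-- **THE NUMBERS AND REGIONS AT THE TIP OF THE THICK LINK** (no configuration): mesh `μ₀` of the own-level box, mesh `μ'` of the mouth, numbers of the big mouth `r r₁ ρ`, small mouth `rs`, `rt`, side `ζ` -/
structure PvhuTipE (𝔓 : PvxPar τ c) (𝔈 : PvieEng τ) (m : ℕ) (z : ℂ) (t : τ) (μ₀ μ' r r₁ ρ rs rt : ℝ) (ζ : ℂ) : Prop where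
  mu0 : 0 < μ₀
  h3 : 3 * μ₀ ≤ pvlmDel c m
  hb : (𝔓.ty t).b * pvlmH m ≤ pviwRad 𝔓 m t
  hr : μ₀ < (𝔓.ty t).b * pvlmH m
  offK : Disjoint (𝔈.eK m t) (pviwBox 𝔓 m t)
  offD : Disjoint (pviwRo 𝔓 𝔈 m t) (pviwBox 𝔓 m t)
  MK : Disjoint (pvieSh z (𝔈.eM m t)) (pvieSh z (𝔈.eK m t))
  MD : Disjoint (pvieSh z (𝔈.eM m t)) (pvieSh (pvieZu 𝔓 m z t) (𝔈.rO m))
  mu' : 0 < μ'
  num : PvhgEndNum 𝔓.num (pvlmH m) (𝔓.ty t) r r₁ ρ rs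
  rt : 𝔓.num.rho * pvlmH m / 4 + 2 * ρ ≤ rt
  dir : ζ ∈ pvtzdDir
  /-- the tip cell faces the side `ζ` of the own-level box -/
  side : ∀ w : ℂ, w ∉ pvwSq z (pviwRad 𝔓 m t) → ‖w - (𝔓.ty t).cm (pvlmH m) z‖ ≤ 𝔓.num.rho * pvlmH m / 4 + 2 * ρ → pviwRad 𝔓 m t + (ζ * z).re < (ζ * w).re
  ball : closedBall ((𝔓.ty t).cm (pvlmH m) z) (rs + 4 * ρ + 3 * μ') ⊆ pvieSh z (𝔈.eM m t)

variable {𝔓 : PvxPar τ c} {𝔈 : PvieEng τ} {m : ℕ} {ε : ℝ} {z : ℂ} {t : τ} {μ₀ μ' r r₁ ρ rs rt ρl δ : ℝ} {ζ : ℂ} {η₀ η : Conf PvPt} {w : ∀ η : Conf PvPt, (delbPl (pvieY η)).Dart → ℂ} {T : PvjeTest}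
  {eC eN eD : Bool → Set ℂ × ℂ × ℂ} {tt : Bool → List (Set ℂ × ℂ × ℂ)} {Sg : Bool → Set ℂ} {jN jS : Bool → ℕ} {ζd : ℂ} {xs xa xb y0 y1 : Bool → ℝ} {𝔭 : PvkdPlug} {𝔱 : PvhfTr} {s : ℝ}

/-- **`PvjeDet.ev` OF THE THICK LINK `e`, THE PLAIN SUCCESS AND THE HULL.**
REGIONS: `Θ` (tip), `Λ` (link; window `:= mouth ∪ tile ∪ region of the plug`, mesh `pvilMu`, fresh part `:= (mouth ∪ tile) \ own-level box`, rooms and targets `:=` the placed truncated rooms of the exit side of the plug `𝔭.sc s = pvkdP (pvilRu 𝔈 m)`).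
TESTS: `hℋ` (the side event is the placed `S⁺` of 174), `hpat` (the copy pattern contains the two routes, relative colours: `pvw7_pat_col` of 88).
CERTIFICATES AT THE BASE: `hm hmM hbig`.      AT `η`: the mesh of the window (leaf (b6)). -/
theorem pvhu_ev_e (Θ : PvhuTipE 𝔓 𝔈 m z t μ₀ μ' r r₁ ρ rs rt ζ)
    (Λ : PvhuLay (pvilLe 𝔓 𝔈 m z t) 𝔓.num (pvieSh z (𝔈.eM m t) ∪ pvieSh z (𝔈.eK m t) ∪ pvieSh (pvieZu 𝔓 m z t) (𝔈.rO m)) ((pvieSh z (𝔈.eM m t) ∪ pvieSh z (𝔈.eK m t)) \ pvwSq z (pviwRad 𝔓 m t))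
      (pvilMu 𝔓 m) μ' ζ (pviwRad 𝔓 m t + (ζ * z).re) ((𝔓.ty t).cm (pvlmH m) z) rs ρ rt ρl δ eC eN eD tt Sg jN jS ζd
      (fun β => pvkdAt (pvieZu 𝔓 m z t) (1 * s) (𝔱.Ln true β)) (fun β => pvkdAt (pvieZu 𝔓 m z t) (1 * s) (𝔱.Dr true β)) xs xa xb y0 y1)
    (hG : PvhfGeo 𝔭 𝔱) (hs : 0 < s) (hsc : 𝔭.sc s = pvkdP (pvilRu 𝔈 m)) (hℋ : ∀ η ∈ T.ℋ, pvdpT (pvieZu 𝔓 m z t) (1 * s) (𝔓.col t) η ∈ pvhfS 𝔭 𝔱 true)
    (hpat : ∀ (Y : Set ℂ) (κ : ℂ → Bool), cfOf Y κ ∈ T.𝒦 → ∀ β, cfOf Y (pvhcK κ (𝔓.col t)) ∈ pvkqRtEv δ β (eC β :: eN β :: tt β))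
    (hm : η₀ ∈ pvrgMesh μ₀ (pvieSh z (pviwBox 𝔓 m t))) (hmM : η₀ ∈ pvrgMesh μ' (pvieSh z (𝔈.eM m t)))
    (hbig : VorDense (cfSites η₀) (closedBall ((𝔓.ty t).cm (pvlmH m) z) (r + 3 * ρ)) ρ)
    {𝔖₀ : PvwSt (pvieT η₀)} (h₀ : PvilIn 𝔓.num (𝔓.col t) (pvilPin 𝔓 m z t) η₀ 𝔖₀) (hF : PvjeFin (pvjeE 𝔓 𝔈 w m ε z t) T η₀ η)
    (hmesh : η ∈ pvilMs 𝔓 m (pvilWne 𝔓 𝔈 m z t (pvilZi 𝔓 m z t η₀))) : η ∈ pvilMe 𝔓 𝔈 m z t (pvilZi 𝔓 m z t η₀) := by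
  have n := Θ.num
  have st := pvhc_st_in h₀
  have E : PvhjEnd (pvieY η₀) 𝔓.num (pvlmH m) (𝔓.ty t) ((𝔓.ty t).cm (pvlmH m) z) univ r r₁ ρ rs := ⟨n.rho, n.r2, n.r1, n.rr, hbig, n.far, n.rs0, n.rs1, n.rs2, fun _ _ => mem_univ _⟩
  have g1 : ‖((pvieT η₀).src (𝔖₀.em 𝔖₀.nm) : ℂ) - (𝔓.ty t).cm (pvlmH m) z‖ ≤ 𝔓.num.rho * pvlmH m / 4 := st.good.tip_m.1
  have g2 : ‖((pvieT η₀).tgt (𝔖₀.em 𝔖₀.nm) : ℂ) - (𝔓.ty t).cm (pvlmH m) z‖ ≤ 𝔓.num.rho * pvlmH m / 4 := st.good.tip_m.2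
  have g3 := pvhu_tip_in_pl (delb_pl_eq h₀.good) st n.rho (r := r) (by linarith [n.r1, n.rr, n.rho, n.rho0]) hbig
  have hout : pviwRad 𝔓 m t + (ζ * z).re < (ζ * (𝔖₀.am : ℂ)).re := Θ.side _ st.stub.em_out g3
  obtain ⟨𝔖', -, hp, -, eZ, κ, hκ, -, hfr, foot⟩ := pvhc_foot_e (K₀ := univ) Θ.mu0 Θ.h3 Θ.hb Θ.hr Θ.offK Θ.offD hm h₀ hF Θ.MK Θ.MD Θ.mu' hmM E (rt := rt) (by linarith [Θ.rt]) (by linarith [Θ.rt]) Θ.dir hout Θ.ball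
  obtain ⟨g, hsd⟩ := pvyo_side hG true (d := 1) norm_one hs hF.one hF.nice.good (hℋ η hF.side)
  have hd := hsd.door hG hF.nice
  have hgate := hsd.gate
  rw [hsc] at hd hgate
  have hW : pvieSh z (𝔈.eM m t) ∪ pvieSh z (𝔈.eK m t) ∪ pvieSh (pvieZu 𝔓 m z t) (𝔈.rO m) ⊆ pvilWne 𝔓 𝔈 m z t (pvilZi 𝔓 m z t η₀) := by
    rintro v ((hv | hv) | hv)
    · exact Or.inl (Or.inl (Or.inr hv))
    · exact Or.inl (Or.inr hv)
    · exact Or.inr hv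
  refine ⟨⟨?_, eZ⟩, hmesh⟩
  refine pvhu_A_dp (η := η) (b := 𝔓.col t) (g := g) (κ := pvhcK κ (𝔓.col t)) Λ rfl rfl hF.nice.good (VorDense.mono hmesh Subset.rfl (pvtr_core_mono hW) le_rfl) hd hgate (fun β => ?_) hp (hpat _ κ hκ)
    (fun v hv => hfr v hv.1 hv.2) foot
  cases β
  · exact hsd.white
  · exact hsd.black

end model

end Claimed.Agent.R289
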