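-- KEEP
import Claimed.Agent.R289.Tr.HookTA
import Claimed.Agent.R289.Tr.HookColD
import Claimed.Agent.R289.Tr.FrcDetE
import Claimed.Agent.R289.Tr.FrcDetO

/-!
# Row 289 (S0537), THE WALL, ROAD E, E10 AT THE HYBRID ENDS, (b3) DET, file Tr/FrcDetA : **ASSEMBLY OF `PvjeDet.ev` FOR THE LINKS `door type plug → pin`, VALID AT ALL TIP CELLS (CORNERS INCLUDED)**      (helper266; prefix `pvho_`, `Pvho` continued)

= `Tr/HookTA` of 66 (same plan, same names of fields) IN THE D / U FORM.   WHY: `PvhuTipE.side` (every point off the own box near the tip centre lies beyond THE side `ζ`) is FALSE at the corner tip cells of the menu `pvxTau N`, and so is `hout` inside `pvhc_foot_e`.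
CHANGES: arms `PvhjArmT` of 23 (two region records `arm1 arm2` at `re (ζ c) ∓ e₀`, `rt + 2ρ < e₀`: `pvge2_armReg` of 298 gives both), run by `pvdd_link_i` of 228 (door record `Pvge4DoorReg` of 298: CUT form, either orientation of the leg: cures (M1) of 298 / 80 too),
tip foot by `pvid_foot_e / _i` of 155 (U feet of 23), ALL THE NUMBERS AT THE TIP PAID by `Tr/FrcDetO` (`PvhjEndD`, `ht1 ht2`, `hU`, meshes from ONE certificate).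
* sec. 1  **`PvhoLay`** = all that DET owes to the regions of a link `door → pin` (no configuration);   **`pvho_A_dp`**
* sec. 2  AT THE MODEL: `PvhoTip` (what is asked of the engine at the tip), **`pvho_ev_e`** (thick link), **`pvho_ev_i`** (last link)
* sec. 3  THE MIRROR `pin → door type plug`: **`PvhoLayO`**, **`pvho_A_pd`** (`pvdd_link_o` of 228, OUT behind the tip `pvhj_out_stubT` of 23, `pvha_A_pd` of 112), **`pvho_ev_o`** (first link)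
-/

set_option autoImplicit false
set_option linter.unusedSectionVars false
set_option linter.unusedVariables false

namespace Claimed.Agent.R289

open Relation Set Metric Claims.C0465
open scoped ComplexConjugate

/-! ## 1. a link `door type plug → pin`: the regions, the plain success -/

/-- **ALL THAT DET OWES TO THE REGIONS OF A LINK `door → pin`** (no configuration, no state), D FORM.   `W` = the window (mesh `μ` at the final configuration), `Fr` = the FRESH part (copy colours),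
tip: prescribed side `ζ`, centre `c` of the tip cell, small mouth `rs`, mesh `ρ` of the big mouth at the base, `rt`, `e₀`;   routes of the two colours listed FROM THE TIP `eC β :: eN β :: t β`, closing sets `Sg β`;
door: rooms `Rm β`, targets `Dr β` of the two half lanes of the exit side, legs `eD β` across the rooms beyond the cut `xc β`. -/
structure PvhoLay (L : PvilLk) (N : PvwNum) (W Fr : Set ℂ) (μ : ℝ) (ζ c : ℂ) (rs ρ rt e₀ ρl δ : ℝ)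
    (eC eN eD : Bool → Set ℂ × ℂ × ℂ) (t : Bool → List (Set ℂ × ℂ × ℂ)) (Sg : Bool → Set ℂ) (jN jS : Bool → ℕ)
    (ζd : ℂ) (Rm Dr : Bool → Set ℂ) (xc xa xb y0 y1 : Bool → ℝ) : Prop where
  mu : 0 < μ
  rho : 0 ≤ ρ
  he : rt + 2 * ρ < e₀
  bdd : Bornology.IsBounded L.Yin
  co : IsPreconnected L.Yinᶜ
  /-- (Rc) of RULING 22: the room with its collar lies in the window -/
  collar : ∀ v ∈ L.Yin, closedBall v (3 * μ) ⊆ W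
  dl : 0 < δ
  route : ∀ β, PvkqRoute δ (eC β :: eN β :: t β)
  arm1 : ∀ β, PvhzArmReg ζ ((ζ * c).re - e₀) ((ζ * c).im - rt) ((ζ * c).im + rt) (2 * ρ) c rs ρl (!β) (eN β).1 (eC β).1 (Sg β)
  arm2 : ∀ β, PvhzArmReg ζ ((ζ * c).re + e₀) ((ζ * c).im - rt) ((ζ * c).im + rt) (2 * ρ) c rs ρl (!β) (eN β).1 (eC β).1 (Sg β)
  rl : δ / 16 ≤ ρl
  mul : μ ≤ ρl
  sgW : ∀ β, Sg β ⊆ pvtrCore μ W
  jN4 : ∀ β, jN β < 4
  jS4 : ∀ β, jS β < 4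
  sN : ∀ β, pvhzSd δ (pvkqCell δ (eN β).2.2) (jN β) ⊆ Sg β
  sS : ∀ β, pvhzSd δ (pvkqCell δ (eC β).2.1) (jS β) ⊆ Sg β
  /-- the small mouth with its collar lies in the room -/
  mouth : closedBall c (rs + 4 * ρ + μ) ⊆ L.Yin
  /-- arm and middle legs: deep in the room, in the fresh part -/
  mid : ∀ β, ∀ w ∈ pvkqRtR (eN β :: t β), closedBall w (2 * μ) ⊆ L.Yin ∧ closedBall w μ ⊆ Fr
  leg : ∀ β, eD β ∈ eN β :: t β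
  nz : ‖ζd‖ = 1
  door : ∀ β, Pvge4DoorReg ζd δ μ (xc β) (xa β) (xb β) (y0 β) (y1 β) (Rm β) (eD β)
  /-- the disc of the gate (it contains the feet of the half lanes) lies before the cut -/
  foot : ∀ β, ∀ w ∈ ball L.p.z (pvkdP L.p.h).b, (ζd * w).re ≤ xc β
  tgt : ∀ β, ∀ w ∈ Dr β, xb β ≤ (ζd * w).re
  room : ∀ β, ∀ w ∈ Rm β, closedBall w μ ⊆ L.Yin
  roomF : ∀ β, ∀ w ∈ Rm β, xc β < (ζd * w).re → w ∈ Fr
  /-- the room of `g⁻` of the plug is off the room of the link -/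
  gm : ∀ w ∈ pvkdAt L.p.z L.p.fr (pvkdP L.p.h).Zm, w ∉ L.Yin
  offBox : Disjoint (ball L.p.z (pvkdP L.p.h).b) (pvhaBx N L.p')
  offTip : Disjoint (ball L.p.z (pvkdP L.p.h).b) L.p'.cm

section lk

variable {L : PvilLk} {N : PvwNum} {W Fr : Set ℂ} {μ : ℝ} {ζ c : ℂ} {rs ρ rt e₀ ρl δ : ℝ}
  {eC eN eD : Bool → Set ℂ × ℂ × ℂ} {t : Bool → List (Set ℂ × ℂ × ℂ)} {Sg : Bool → Set ℂ} {jN jS : Bool → ℕ}
  {ζd : ℂ} {Rm Dr : Bool → Set ℂ} {xc xa xb y0 y1 : Bool → ℝ} {b : Bool} {η : Conf PvPt}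

/-- **THE PLAIN SUCCESS OF A LINK `door type plug → pin`** at ONE configuration `η`, ALL TIP CELLS: general position, mesh of the window, the gate of record of the plug with the two half lanes of its exit side (173: `PvyoSd`), the entrance half state of the pin,
a copy colouring `κ` (relative colours) with the two route events, `σ = κ` on the fresh part, THE FOOT at the tip for every family of arms `PvhjArmT` (155 `pvid_foot_i / _e`, 266 `pvho_foot_in`) -/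
theorem pvho_A_dp (Λ : PvhoLay L N W Fr μ ζ c rs ρ rt e₀ ρl δ eC eN eD t Sg jN jS ζd Rm Dr xc xa xb y0 y1) (h0 : L.dr = true) (h1 : L.dr' = false)
    (hgood : DelGood (pvieY η)) (hm : PvtrMesh μ W (pvieY η)) {g : (pvieT η).Gate (pvieCol η b)}
    (hd : PvilDoor (pvkdP L.p.h) b η L.p.z L.p.fr (pvilStS (pvkdP L.p.h) η (pvieCol η b) L.p.z g))
    (hg : PvzlGt (pvieT η) Subtype.val (pvieCol η b) ((pvkdP L.p.h).pg L.p.z L.p.fr) g)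
    (hH : ∀ β, ∃ v : ↥(pvieY η), (v : ℂ) ∈ Dr β ∧ (pvieT η).Join univ (pvldCol (pvieCol η b) {u | (u : ℂ) ∈ Rm β} β) (pvkdFoot g true β) v)
    {𝔖' : PvwSt (pvieT η)} (hp : PvilIn N b L.p' η 𝔖') {κ : ℂ → Bool}
    (hev : ∀ β, cfOf (pvieY η) κ ∈ pvkqRtEv δ β (eC β :: eN β :: t β)) (hfr : ∀ v : ↥(pvieY η), (v : ℂ) ∈ Fr → pvieCol η b v = κ v)
    (foot : ∀ (K : Set ↥(pvieY η)) (GN GC Sg' : Bool → Set ℂ),
      (∀ β, PvhjArmT (pvieY η) κ β ζ c rt ρ rs (!β) (GN β) (GC β) (Sg' β)) →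
      (∀ v : ↥(pvieY η), ‖(v : ℂ) - c‖ < rs + 4 * ρ → v ∈ K) → PvhjFootP (delbPl (pvieY η)) (pvieCol η b) κ K (𝔖'.em 𝔖'.nm) GN) :
    η ∈ L.A N b := by
  have hμ := Λ.mu
  obtain ⟨k1, k2⟩ := pvhj_K_pl (h := hgood) (delb_pl_eq hgood) Λ.co (by rw [compl_compl]; exact Λ.bdd)
  have hcell : ∀ v : ↥(pvieY η), (v : ℂ) ∈ L.Yin → vorCell (pvieY η) v ⊆ closedBall (v : ℂ) μ := fun v hv => pvhu_cell_ball hμ hm (Λ.collar v hv)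
  have hinK : ∀ v : ↥(pvieY η), closedBall (v : ℂ) μ ⊆ L.Yin → v ∈ pvgeKV (pvieY η) L.Yinᶜ := fun v hv => pvhg_KV_iff.2 ((hcell v (hv (mem_closedBall_self hμ.le))).trans hv)
  have htip : ((pvieT η).src (𝔖'.em 𝔖'.nm) : ℂ) ∈ L.p'.cm := hp.tip
  have hbw : pvasBW (pvieT η) (pvieCol η b) (𝔖'.em 𝔖'.nm) := pvwk_em_bw hp.st.stub hp.st.gate.bw_m le_rfl
  have hvp : ((g.vp : ↥(pvieY η)) : ℂ) ∈ ball L.p.z (pvkdP L.p.h).b := by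
    have := pvhu_foot_rim hg.least.reg true
    rwa [show pvhiEnd (pvieT η) true g.aOut = g.vp from pvtg_aOut_src g] at this
  have hrun : PvldRun (pvieT η) (pvieCol η b) (pvgeKV (pvieY η) L.Yinᶜ) g.aOut (𝔖'.em 𝔖'.nm) := by
    refine pvdd_link_i (h := hgood) (up := fun β => !β) (delb_pl_eq hgood) hbw (fun GN GC A => foot _ GN GC Sg A fun v hv => hinK v ?_) k1 k2 g ?_ ?_ Λ.dl Λ.route hev Λ.rho Λ.he Λ.arm1 Λ.arm2 Λ.rl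
      (fun β => VorDense.mono hm Subset.rfl (Λ.sgW β) Λ.mul) Λ.jN4 Λ.jS4 Λ.sN Λ.sS ?_ Λ.leg Λ.nz Λ.door (fun β => ?_) (fun β => Λ.foot β _ (pvhu_foot_rim hg.least.reg β)) ?_ ?_
    · exact (pvhu_ball_ball hv.le).trans Λ.mouth
    · intro e
      exact disjoint_left.1 Λ.offTip hvp (e ▸ htip)
    · refine pvhr_out_gt hg (fun hK => Λ.gm _ hg.vm (pvhg_KV_over hK)) hbw fun hl => ?_
      exact disjoint_left.1 Λ.offTip (hg.least.reg.outer _ hl) htip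
    · rintro β v ⟨w, hw1, hw2⟩
      obtain ⟨m1, m2⟩ := Λ.mid β w hw2
      have hwY : w ∈ L.Yin := m1 (mem_closedBall_self (by linarith))
      have hwc : w ∈ pvtrCore μ W := (closedBall_subset_closedBall (by linarith)).trans (Λ.collar w hwY)
      have hwv : ‖w - (v : ℂ)‖ ≤ μ := vor_site_near hm hw1 hwc
      have hvw : ‖(v : ℂ) - w‖ ≤ μ := by rwa [norm_sub_rev]
      refine ⟨hinK v (((pvhu_ball_ball hvw).trans (by rw [← two_mul])).trans m1), hfr v (m2 ?_)⟩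
      rwa [mem_closedBall, dist_eq_norm]
    · obtain ⟨v, hv, hj⟩ := hH β
      rw [pvhu_foot_eq] at hj
      exact ⟨v, Λ.tgt β _ hv, hj⟩
    · intro β u hu
      exact ⟨hinK u (Λ.room β u hu), hcell u (Λ.room β u hu (mem_closedBall_self hμ.le))⟩
    · intro β u hu hx
      exact hfr u (Λ.roomF β u hu hx)
  refine pvha_A_dp (K := pvgeKV (pvieY η) L.Yinᶜ) h0 h1 hd hp ?_ (fun v hv => pvhg_KV_over hv) hrun
  intro hbx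
  refine disjoint_left.1 Λ.offBox ?_ hbx
  show (((pvieT η).src g.aOut : ↥(pvieY η)) : ℂ) ∈ _
  rw [pvtg_aOut_src]
  exact hvp

end lk

/-! ## 2. at the model -/

section model

variable {τ : Type} {c : ℝ}

/-- **THE NUMBERS AT A TIP** (no configuration, no region): `μ₀` = the mesh of the certificate at the base, small mouth `rs`, tip face `rt`;   `R = ρ h` -/
structure PvhoTip (𝔓 : PvxPar τ c) (m : ℕ) (t : τ) (μ₀ rs rt : ℝ) : Prop where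
  mu0 : 0 < μ₀
  m80 : 80 * μ₀ ≤ 𝔓.num.rho * pvlmH m
  h3 : 3 * μ₀ ≤ pvlmDel c m
  hr : μ₀ < (𝔓.ty t).b * pvlmH m
  rs0 : 𝔓.num.rho * pvlmH m / 4 ≤ rs
  rs1 : rs + 7 * μ₀ ≤ 5 * (𝔓.num.rho * pvlmH m) / 16
  rt0 : 𝔓.num.rho * pvlmH m / 10 + 4 * μ₀ ≤ rt
  rt1 : 2 * rt + 5 * μ₀ ≤ 𝔓.num.rho * pvlmH m / 2

variable {𝔓 : PvxPar τ c} {𝔈 : PvieEng τ} {m : ℕ} {ε : ℝ} {z : ℂ} {t : τ} {μ₀ rs rt e₀ ρl δ : ℝ} {η₀ η : Conf PvPt} {w : ∀ η : Conf PvPt, (delbPl (pvieY η)).Dart → ℂ} {T : PvjeTest}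
  {eC eN eD : Bool → Set ℂ × ℂ × ℂ} {tt : Bool → List (Set ℂ × ℂ × ℂ)} {Sg : Bool → Set ℂ} {jN jS : Bool → ℕ} {ζd : ℂ} {xc xa xb y0 y1 : Bool → ℝ} {𝔭 : PvkdPlug} {𝔱 : PvhfTr} {s : ℝ}

/-- the certificate of record pays the mesh of the kept mouth of the entrance tip -/
theorem pvho_cert_iM (n : PvhoNum 𝔓) (hT : pviwTyOk 𝔓 t) (z : ℂ) {μ : ℝ} (hη : η₀ ∈ pvrgMesh μ (closedBall z (2 * pviwRad 𝔓 m t + 4 * pvlmH m))) : η₀ ∈ pvrgMesh μ (pvieSh z (pvegIM 𝔓 m t)) := by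
  refine pvrg_mesh_mono ?_ hη
  rw [pvho_iM]
  obtain ⟨s1, s2, s3, s0⟩ := pvho_small n m
  intro x hx
  rw [mem_closedBall, dist_eq_norm] at hx ⊢
  have := pvhg_tri3 x ((𝔓.ty t).cm (pvlmH m) z) z
  linarith [pvho_cm_le hT m z]

/-- the certificate of record pays the mesh of the kept mouth of the exit tip -/
theorem pvho_cert_oM (n : PvhoNum 𝔓) (hT : pviwTyOk 𝔓 t) (z : ℂ) {μ : ℝ} (hη : η₀ ∈ pvrgMesh μ (closedBall z (2 * pviwRad 𝔓 m t + 4 * pvlmH m))) : η₀ ∈ pvrgMesh μ (pvieSh z (pvegOM 𝔓 m t)) := by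
  refine pvrg_mesh_mono ?_ hη
  rw [pvho_oM]
  obtain ⟨s1, s2, s3, s0⟩ := pvho_small n m
  intro x hx
  rw [mem_closedBall, dist_eq_norm] at hx ⊢
  have := pvhg_tri3 x ((𝔓.ty t).cp (pvlmH m) z) z
  linarith [pvho_cp_le hT m z]

/-- **`PvjeDet.ev` OF THE THICK LINK `e`, ALL TIP CELLS.**
NUMBERS: `n hL hT hc Θ`.   ENGINE: `offK offD MK MD hM`.   REGIONS: `Λ` (window `:= mouth ∪ tile ∪ region of the plug`, mesh `pvilMu`, fresh part `:= (mouth ∪ tile) \ own-level box`, side `ζ := conj (- din t)`, rooms and targets `:=` the placed truncated rooms of the exit side of the plug `𝔭.sc s = pvkdP (pvilRu 𝔈 m)`).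
TESTS: `hℋ` (the side event is the placed `S⁺` of 174), `hpat` (the copy pattern contains the two routes, relative colours: `pvw7_pat_col` of 88).
ONE CERTIFICATE AT THE BASE: mesh `μ₀` read in `closedBall z (2 r_k + 4 h)`.      AT `η`: the mesh of the window (leaf (b6)). -/
theorem pvho_ev_e (n : PvhoNum 𝔓) (hL : PvegLev 𝔓 m) (hT : pviwTyOk 𝔓 t) (hc : ∀ x ∈ 𝔓.cm t, ‖x - (𝔓.ty t).ym‖ ≤ 𝔓.num.rho / 10) (Θ : PvhoTip 𝔓 m t μ₀ rs rt)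
    (offK : Disjoint (𝔈.eK m t) (pviwBox 𝔓 m t)) (offD : Disjoint (pviwRo 𝔓 𝔈 m t) (pviwBox 𝔓 m t))
    (MK : Disjoint (pvieSh z (𝔈.eM m t)) (pvieSh z (𝔈.eK m t))) (MD : Disjoint (pvieSh z (𝔈.eM m t)) (pvieSh (pvieZu 𝔓 m z t) (𝔈.rO m))) (hM : 𝔈.eM m t = pvegIM 𝔓 m t)
    (Λ : PvhoLay (pvilLe 𝔓 𝔈 m z t) 𝔓.num (pvieSh z (𝔈.eM m t) ∪ pvieSh z (𝔈.eK m t) ∪ pvieSh (pvieZu 𝔓 m z t) (𝔈.rO m)) ((pvieSh z (𝔈.eM m t) ∪ pvieSh z (𝔈.eK m t)) \ pvwSq z (pviwRad 𝔓 m t))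
      (pvilMu 𝔓 m) ((starRingEnd ℂ) (-(𝔓.Γ m).din t)) ((𝔓.ty t).cm (pvlmH m) z) rs μ₀ rt e₀ ρl δ eC eN eD tt Sg jN jS ζd
      (fun β => pvkdAt (pvieZu 𝔓 m z t) (1 * s) (𝔱.Ln true β)) (fun β => pvkdAt (pvieZu 𝔓 m z t) (1 * s) (𝔱.Dr true β)) xc xa xb y0 y1)
    (hG : PvhfGeo 𝔭 𝔱) (hs : 0 < s) (hsc : 𝔭.sc s = pvkdP (pvilRu 𝔈 m)) (hℋ : ∀ η ∈ T.ℋ, pvdpT (pvieZu 𝔓 m z t) (1 * s) (𝔓.col t) η ∈ pvhfS 𝔭 𝔱 true)
    (hpat : ∀ (Y : Set ℂ) (κ : ℂ → Bool), cfOf Y κ ∈ T.𝒦 → ∀ β, cfOf Y (pvhcK κ (𝔓.col t)) ∈ pvkqRtEv δ β (eC β :: eN β :: tt β))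
    (cert : η₀ ∈ pvrgMesh μ₀ (closedBall z (2 * pviwRad 𝔓 m t + 4 * pvlmH m)))
    {𝔖₀ : PvwSt (pvieT η₀)} (h₀ : PvilIn 𝔓.num (𝔓.col t) (pvilPin 𝔓 m z t) η₀ 𝔖₀) (hF : PvjeFin (pvjeE 𝔓 𝔈 w m ε z t) T η₀ η)
    (hmesh : η ∈ pvilMs 𝔓 m (pvilWne 𝔓 𝔈 m z t (pvilZi 𝔓 m z t η₀))) : η ∈ pvilMe 𝔓 𝔈 m z t (pvilZi 𝔓 m z t η₀) := by
  obtain ⟨s1, s2, s3, s0⟩ := pvho_small n m
  have hbig := pvho_cert_i n hT z Θ.m80 cert
  have E := pvho_endD_i n hL hT z Θ.mu0 Θ.m80 Θ.rs0 (by linarith [Θ.rs1, Θ.mu0]) (by linarith [Θ.rt0, Θ.mu0]) Θ.rt1 hbig (K := univ) (fun _ _ => mem_univ _)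
  have tip := pvho_tip_i hc h₀ Θ.mu0 (pvho_dense_mono hbig (by linarith [Θ.mu0]))
  have hb : (𝔓.ty t).b * pvlmH m ≤ pviwRad 𝔓 m t := by
    have := pvho_rad n m t
    have hh := pvlm_H_pos m
    unfold pviwRad
    linarith
  obtain ⟨𝔖', -, hp, -, eZ, κ, hκ, -, hfr, foot⟩ := pvid_foot_e Θ.mu0 Θ.h3 hb Θ.hr offK offD (pvho_cert_box n hL z cert) h₀ hF MK MD Θ.mu0 (by rw [hM]; exact pvho_cert_iM n hT z cert) E
    (by linarith [tip.1, Θ.rt0, Θ.mu0]) (by linarith [tip.2, Θ.rt0]) (by rw [hM, pvho_iM]; exact closedBall_subset_closedBall (by linarith [Θ.rs1]))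
  obtain ⟨g, hsd⟩ := pvyo_side hG true (d := 1) norm_one hs hF.one hF.nice.good (hℋ η hF.side)
  have hd := hsd.door hG hF.nice
  have hgate := hsd.gate
  rw [hsc] at hd hgate
  have hW : pvieSh z (𝔈.eM m t) ∪ pvieSh z (𝔈.eK m t) ∪ pvieSh (pvieZu 𝔓 m z t) (𝔈.rO m) ⊆ pvilWne 𝔓 𝔈 m z t (pvilZi 𝔓 m z t η₀) := by
    rintro v ((hv | hv) | hv)
    · exact Or.inl (Or.inl (Or.inr hv))
    · exact Or.inl (Or.inr hv)
    · exact Or.inr hv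
  refine ⟨⟨?_, eZ⟩, hmesh⟩
  refine pvho_A_dp (η := η) (b := 𝔓.col t) (g := g) (κ := pvhcK κ (𝔓.col t)) Λ rfl rfl hF.nice.good (VorDense.mono hmesh Subset.rfl (pvtr_core_mono hW) le_rfl) hd hgate (fun β => ?_) hp (hpat _ κ hκ)
    (fun v hv => hfr v hv.1 hv.2) foot
  cases β
  · exact hsd.white
  · exact hsd.black

/-- **`PvjeDet.ev` OF THE LAST LINK `i` (door plug → pin), ALL TIP CELLS.**      Same reading as `pvho_ev_e`; the door plug sits at `pvieZi`, frame `din t`, `𝔭.sc s = pvkdP (pvilRd 𝔓 m)`;   window `:= mouth ∪ tile ∪ door` -/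
theorem pvho_ev_i (n : PvhoNum 𝔓) (hL : PvegLev 𝔓 m) (hT : pviwTyOk 𝔓 t) (hc : ∀ x ∈ 𝔓.cm t, ‖x - (𝔓.ty t).ym‖ ≤ 𝔓.num.rho / 10) (Θ : PvhoTip 𝔓 m t μ₀ rs rt)
    (offK : Disjoint (𝔈.iK m t) (pviwBox 𝔓 m t)) (offD : Disjoint (pviwDi 𝔓 𝔈 m ε t) (pviwBox 𝔓 m t))
    (MK : Disjoint (pvieSh z (𝔈.iM m t)) (pvieSh z (𝔈.iK m t))) (MD : Disjoint (pvieSh z (𝔈.iM m t)) (pvieDoor 𝔈 m ε (pvieZi 𝔓 m z t) ((𝔓.Γ m).din t))) (hM : 𝔈.iM m t = pvegIM 𝔓 m t)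
    (Λ : PvhoLay (pvilLi 𝔓 𝔈 m z t) 𝔓.num (pvieSh z (𝔈.iM m t) ∪ pvieSh z (𝔈.iK m t) ∪ pvieDoor 𝔈 m ε (pvieZi 𝔓 m z t) ((𝔓.Γ m).din t)) ((pvieSh z (𝔈.iM m t) ∪ pvieSh z (𝔈.iK m t)) \ pvwSq z (pviwRad 𝔓 m t))
      (pvilMu 𝔓 m) ((starRingEnd ℂ) (-(𝔓.Γ m).din t)) ((𝔓.ty t).cm (pvlmH m) z) rs μ₀ rt e₀ ρl δ eC eN eD tt Sg jN jS ζd
      (fun β => pvkdAt (pvieZi 𝔓 m z t) ((𝔓.Γ m).din t * s) (𝔱.Ln true β)) (fun β => pvkdAt (pvieZi 𝔓 m z t) ((𝔓.Γ m).din t * s) (𝔱.Dr true β)) xc xa xb y0 y1)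
    (hG : PvhfGeo 𝔭 𝔱) (hs : 0 < s) (hsc : 𝔭.sc s = pvkdP (pvilRd 𝔓 m)) (hℋ : ∀ η ∈ T.ℋ, pvdpT (pvieZi 𝔓 m z t) ((𝔓.Γ m).din t * s) (𝔓.col t) η ∈ pvhfS 𝔭 𝔱 true)
    (hpat : ∀ (Y : Set ℂ) (κ : ℂ → Bool), cfOf Y κ ∈ T.𝒦 → ∀ β, cfOf Y (pvhcK κ (𝔓.col t)) ∈ pvkqRtEv δ β (eC β :: eN β :: tt β))
    (cert : η₀ ∈ pvrgMesh μ₀ (closedBall z (2 * pviwRad 𝔓 m t + 4 * pvlmH m)))
    {𝔖₀ : PvwSt (pvieT η₀)} (h₀ : PvilIn 𝔓.num (𝔓.col t) (pvilPin 𝔓 m z t) η₀ 𝔖₀) (hF : PvjeFin (pvjeI 𝔓 𝔈 w m ε z t) T η₀ η)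
    (hmesh : η ∈ pvilMs 𝔓 m (pvilWni 𝔓 𝔈 m ε z t (pvilZi 𝔓 m z t η₀))) : η ∈ pvilMi 𝔓 𝔈 m ε z t (pvilZi 𝔓 m z t η₀) := by
  obtain ⟨s1, s2, s3, s0⟩ := pvho_small n m
  have hbig := pvho_cert_i n hT z Θ.m80 cert
  have E := pvho_endD_i n hL hT z Θ.mu0 Θ.m80 Θ.rs0 (by linarith [Θ.rs1, Θ.mu0]) (by linarith [Θ.rt0, Θ.mu0]) Θ.rt1 hbig (K := univ) (fun _ _ => mem_univ _)
  have tip := pvho_tip_i hc h₀ Θ.mu0 (pvho_dense_mono hbig (by linarith [Θ.mu0]))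
  have hb : (𝔓.ty t).b * pvlmH m ≤ pviwRad 𝔓 m t := by
    have := pvho_rad n m t
    have hh := pvlm_H_pos m
    unfold pviwRad
    linarith
  obtain ⟨𝔖', -, hp, -, eZ, κ, hκ, -, hfr, foot⟩ := pvid_foot_i Θ.mu0 Θ.h3 hb Θ.hr offK offD (pvho_cert_box n hL z cert) h₀ hF MK MD Θ.mu0 (by rw [hM]; exact pvho_cert_iM n hT z cert) E
    (by linarith [tip.1, Θ.rt0, Θ.mu0]) (by linarith [tip.2, Θ.rt0]) (by rw [hM, pvho_iM]; exact closedBall_subset_closedBall (by linarith [Θ.rs1]))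
  obtain ⟨g, hsd⟩ := pvyo_side hG true (d := (𝔓.Γ m).din t) (by have := pvho_norm_dir (pvho_dir_i hL t); rwa [RCLike.norm_conj, norm_neg] at this) hs hF.one hF.nice.good (hℋ η hF.side)
  have hd := hsd.door hG hF.nice
  have hgate := hsd.gate
  rw [hsc] at hd hgate
  have hW : pvieSh z (𝔈.iM m t) ∪ pvieSh z (𝔈.iK m t) ∪ pvieDoor 𝔈 m ε (pvieZi 𝔓 m z t) ((𝔓.Γ m).din t) ⊆ pvilWni 𝔓 𝔈 m ε z t (pvilZi 𝔓 m z t η₀) := by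
    rintro v ((hv | hv) | hv)
    · exact Or.inl (Or.inl (Or.inr hv))
    · exact Or.inl (Or.inr hv)
    · exact Or.inr hv
  refine ⟨⟨?_, eZ⟩, hmesh⟩
  refine pvho_A_dp (η := η) (b := 𝔓.col t) (g := g) (κ := pvhcK κ (𝔓.col t)) Λ rfl rfl hF.nice.good (VorDense.mono hmesh Subset.rfl (pvtr_core_mono hW) le_rfl) hd hgate (fun β => ?_) hp (hpat _ κ hκ)
    (fun v hv => hfr v hv.1 hv.2) foot
  cases β
  · exact hsd.white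
  · exact hsd.black

end model

/-! ## 3. a link `pin → door type plug` -/

/-- **ALL THAT DET OWES TO THE REGIONS OF A LINK `pin → door`** (no configuration, no state), D FORM.   Same reading as `PvhoLay`; the arms turn the other way (`up β = β`), the door plug is `L.p'` (ENTRANCE side), the OUT behind the tip comes from the stub: `gp` (the room is off the disc of the core), `offBox` -/
structure PvhoLayO (L : PvilLk) (N : PvwNum) (W Fr : Set ℂ) (μ : ℝ) (ζ c : ℂ) (rs ρ rt e₀ ρl δ : ℝ)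
    (eC eN eD : Bool → Set ℂ × ℂ × ℂ) (t : Bool → List (Set ℂ × ℂ × ℂ)) (Sg : Bool → Set ℂ) (jN jS : Bool → ℕ)
    (ζd : ℂ) (Rm Dr : Bool → Set ℂ) (xc xa xb y0 y1 : Bool → ℝ) : Prop where
  mu : 0 < μ
  rho : 0 ≤ ρ
  he : rt + 2 * ρ < e₀
  bdd : Bornology.IsBounded L.Yin
  co : IsPreconnected L.Yinᶜ
  collar : ∀ v ∈ L.Yin, closedBall v (3 * μ) ⊆ W
  dl : 0 < δ
  route : ∀ β, PvkqRoute δ (eC β :: eN β :: t β)
  arm1 : ∀ β, PvhzArmReg ζ ((ζ * c).re - e₀) ((ζ * c).im - rt) ((ζ * c).im + rt) (2 * ρ) c rs ρl β (eN β).1 (eC β).1 (Sg β)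
  arm2 : ∀ β, PvhzArmReg ζ ((ζ * c).re + e₀) ((ζ * c).im - rt) ((ζ * c).im + rt) (2 * ρ) c rs ρl β (eN β).1 (eC β).1 (Sg β)
  rl : δ / 16 ≤ ρl
  mul : μ ≤ ρl
  sgW : ∀ β, Sg β ⊆ pvtrCore μ W
  jN4 : ∀ β, jN β < 4
  jS4 : ∀ β, jS β < 4
  sN : ∀ β, pvhzSd δ (pvkqCell δ (eN β).2.2) (jN β) ⊆ Sg β
  sS : ∀ β, pvhzSd δ (pvkqCell δ (eC β).2.1) (jS β) ⊆ Sg β
  mouth : closedBall c (rs + 4 * ρ + μ) ⊆ L.Yin
  mid : ∀ β, ∀ w ∈ pvkqRtR (eN β :: t β), closedBall w (2 * μ) ⊆ L.Yin ∧ closedBall w μ ⊆ Fr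
  leg : ∀ β, eD β ∈ eN β :: t β
  nz : ‖ζd‖ = 1
  door : ∀ β, Pvge4DoorReg ζd δ μ (xc β) (xa β) (xb β) (y0 β) (y1 β) (Rm β) (eD β)
  foot : ∀ β, ∀ w ∈ ball L.p'.z (pvkdP L.p'.h).b, (ζd * w).re ≤ xc β
  tgt : ∀ β, ∀ w ∈ Dr β, xb β ≤ (ζd * w).re
  room : ∀ β, ∀ w ∈ Rm β, closedBall w μ ⊆ L.Yin
  roomF : ∀ β, ∀ w ∈ Rm β, xc β < (ζd * w).re → w ∈ Fr
  /-- the room of the link is off the disc of the core of the pin -/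
  gp : ∀ w ∈ L.Yin, L.p.ty.b * L.p.h ≤ ‖w - L.p.z‖
  offBox : Disjoint (ball L.p'.z (pvkdP L.p'.h).b) (pvhaBx N L.p)

section lko

variable {L : PvilLk} {N : PvwNum} {W Fr : Set ℂ} {μ : ℝ} {ζ c : ℂ} {rs ρ rt e₀ ρl δ : ℝ}
  {eC eN eD : Bool → Set ℂ × ℂ × ℂ} {t : Bool → List (Set ℂ × ℂ × ℂ)} {Sg : Bool → Set ℂ} {jN jS : Bool → ℕ}
  {ζd : ℂ} {Rm Dr : Bool → Set ℂ} {xc xa xb y0 y1 : Bool → ℝ} {b : Bool} {η : Conf PvPt}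

/-- the feet of the entrance side of a gate of record lie in the outer disc -/
theorem pvho_foot_rim {κ' V D : Type} {T : PvMap V D} {mk : V → κ'} {s : V → Bool} {KI KO : Set κ'} {g : T.Gate s} (h : PvzlIn T mk KI KO g.c) (β : Bool) : mk (pvhiEnd T β g.aIn) ∈ KO := by
  cases β
  · show mk (T.tgt g.aIn) ∈ KO
    rw [pvtg_aIn_tgt]; exact h.rim _
  · exact h.rim 0

theorem pvho_foot_eq {V D : Type} {T : PvMap V D} {s : V → Bool} (g : T.Gate s) (β : Bool) : pvkdFoot g false β = pvhiEnd T β g.aIn := by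
  cases β <;> rfl

/-- **THE PLAIN SUCCESS OF A LINK `pin → door type plug`** at ONE configuration `η`, ALL TIP CELLS -/
theorem pvho_A_pd (Λ : PvhoLayO L N W Fr μ ζ c rs ρ rt e₀ ρl δ eC eN eD t Sg jN jS ζd Rm Dr xc xa xb y0 y1) (h0 : L.dr = false) (h1 : L.dr' = true) (hf : PvhgFr L.p.fr)
    (hgood : DelGood (pvieY η)) (hm : PvtrMesh μ W (pvieY η)) {g : (pvieT η).Gate (pvieCol η b)}
    (hd : PvilDoor (pvkdP L.p'.h) b η L.p'.z L.p'.fr (pvilStS (pvkdP L.p'.h) η (pvieCol η b) L.p'.z g))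
    (hg : PvzlGt (pvieT η) Subtype.val (pvieCol η b) ((pvkdP L.p'.h).pg L.p'.z L.p'.fr) g)
    (hH : ∀ β, ∃ v : ↥(pvieY η), (v : ℂ) ∈ Dr β ∧ (pvieT η).Join univ (pvldCol (pvieCol η b) {u | (u : ℂ) ∈ Rm β} β) (pvkdFoot g false β) v)
    {𝔖 : PvwSt (pvieT η)} (hp : PvilOut N b L.p η 𝔖) (htc : ‖((pvieT η).src (𝔖.ep 𝔖.np) : ℂ) - c‖ ≤ rs + 4 * ρ) {κ : ℂ → Bool}
    (hev : ∀ β, cfOf (pvieY η) κ ∈ pvkqRtEv δ β (eC β :: eN β :: t β)) (hfr : ∀ v : ↥(pvieY η), (v : ℂ) ∈ Fr → pvieCol η b v = κ v)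
    (foot : ∀ (K : Set ↥(pvieY η)) (GN GC Sg' : Bool → Set ℂ),
      (∀ β, PvhjArmT (pvieY η) κ β ζ c rt ρ rs β (GN β) (GC β) (Sg' β)) →
      (∀ v : ↥(pvieY η), ‖(v : ℂ) - c‖ < rs + 4 * ρ → v ∈ K) → PvhjFootP (delbPl (pvieY η)) (pvieCol η b) κ K (𝔖.ep 𝔖.np) GN) :
    η ∈ L.A N b := by
  have hμ := Λ.mu
  obtain ⟨k1, k2⟩ := pvhj_K_pl (h := hgood) (delb_pl_eq hgood) Λ.co (by rw [compl_compl]; exact Λ.bdd)
  have hcell : ∀ v : ↥(pvieY η), (v : ℂ) ∈ L.Yin → vorCell (pvieY η) v ⊆ closedBall (v : ℂ) μ := fun v hv => pvhu_cell_ball hμ hm (Λ.collar v hv)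
  have hinK : ∀ v : ↥(pvieY η), closedBall (v : ℂ) μ ⊆ L.Yin → v ∈ pvgeKV (pvieY η) L.Yinᶜ := fun v hv => pvhg_KV_iff.2 ((hcell v (hv (mem_closedBall_self hμ.le))).trans hv)
  have st := pvha_stp_pin hp
  have hbw : pvasBW (pvieT η) (pvieCol η b) (𝔖.ep 𝔖.np) := pvwk_ep_bw hp.st.stub hp.st.gate.bw_p le_rfl
  have hvm : ((g.vm : ↥(pvieY η)) : ℂ) ∈ ball L.p'.z (pvkdP L.p'.h).b := pvho_foot_rim hg.least.reg true
  have hgK : 𝔖.gp ∉ pvgeKV (pvieY η) L.Yinᶜ := fun hK => absurd (pvhg_il_gp_disc hf hp) (not_lt.2 (Λ.gp _ (pvhg_KV_over hK)))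
  have hbk : ∀ v ∈ 𝔖.bkP, g.vm ≠ v := by
    rintro v ⟨i, hi, rfl⟩ e
    exact disjoint_left.1 Λ.offBox hvm (e ▸ (st.ep_in i hi).1)
  have hrun : PvldRun (pvieT η) (pvieCol η b) (pvgeKV (pvieY η) L.Yinᶜ) (𝔖.ep 𝔖.np) g.aIn := by
    refine pvdd_link_o (h := hgood) (up := fun β => β) (delb_pl_eq hgood) hbw (fun GN GC A => foot _ GN GC Sg A fun v hv => hinK v ?_) k1 k2 g ?_ ?_ Λ.dl Λ.route hev Λ.rho Λ.he Λ.arm1 Λ.arm2 Λ.rl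
      (fun β => VorDense.mono hm Subset.rfl (Λ.sgW β) Λ.mul) Λ.jN4 Λ.jS4 Λ.sN Λ.sS ?_ Λ.leg Λ.nz Λ.door (fun β => ?_) (fun β => Λ.foot β _ (pvho_foot_rim hg.least.reg β)) ?_ ?_
    · exact (pvhu_ball_ball hv.le).trans Λ.mouth
    · intro e
      exact hbk _ ⟨𝔖.np, le_rfl, rfl⟩ e.symm
    · exact pvhj_out_stubT st hp.st.gate.bw_p (hinK _ ((pvhu_ball_ball htc).trans Λ.mouth)) hgK (pvtg_aIn_bw g) fun hb => hbk _ hb rfl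
    · rintro β v ⟨w, hw1, hw2⟩
      obtain ⟨m1, m2⟩ := Λ.mid β w hw2
      have hwY : w ∈ L.Yin := m1 (mem_closedBall_self (by linarith))
      have hwc : w ∈ pvtrCore μ W := (closedBall_subset_closedBall (by linarith)).trans (Λ.collar w hwY)
      have hwv : ‖w - (v : ℂ)‖ ≤ μ := vor_site_near hm hw1 hwc
      have hvw : ‖(v : ℂ) - w‖ ≤ μ := by rwa [norm_sub_rev]
      refine ⟨hinK v (((pvhu_ball_ball hvw).trans (by rw [← two_mul])).trans m1), hfr v (m2 ?_)⟩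
      rwa [mem_closedBall, dist_eq_norm]
    · obtain ⟨v, hv, hj⟩ := hH β
      rw [pvho_foot_eq] at hj
      exact ⟨v, Λ.tgt β _ hv, hj⟩
    · intro β u hu
      exact ⟨hinK u (Λ.room β u hu), hcell u (Λ.room β u hu (mem_closedBall_self hμ.le))⟩
    · intro β u hu hx
      exact hfr u (Λ.roomF β u hu hx)
  exact pvha_A_pd (K := pvgeKV (pvieY η) L.Yinᶜ) h0 h1 hp hd hgK (fun v hv => pvhg_KV_over hv) hrun

end lko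

section modelo

variable {τ : Type} {c : ℝ} {𝔓 : PvxPar τ c} {𝔈 : PvieEng τ} {m : ℕ} {ε : ℝ} {z : ℂ} {t : τ} {μ₀ rs rt e₀ ρl δ : ℝ} {η₀ η : Conf PvPt} {w : ∀ η : Conf PvPt, (delbPl (pvieY η)).Dart → ℂ} {T : PvjeTest}
  {eC eN eD : Bool → Set ℂ × ℂ × ℂ} {tt : Bool → List (Set ℂ × ℂ × ℂ)} {Sg : Bool → Set ℂ} {jN jS : Bool → ℕ} {ζd : ℂ} {xc xa xb y0 y1 : Bool → ℝ} {𝔭 : PvkdPlug} {𝔱 : PvhfTr} {s : ℝ}

/-- **`PvjeDet.ev` OF THE FIRST LINK `o` (pin → door plug), ALL TIP CELLS.**      Same reading as `pvho_ev_i`; the door plug sits at `pvieZo`, frame `dout t`, ENTRANCE side (`S⁻` of 174: `pvhfS 𝔭 𝔱 false`), `𝔭.sc s = pvkdP (pvilRd 𝔓 m)`;   side of the tip `ζ := conj (dout t)`;   window `:= mouth ∪ tile ∪ door` -/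
theorem pvho_ev_o (n : PvhoNum 𝔓) (hL : PvegLev 𝔓 m) (hT : pviwTyOk 𝔓 t) (hc : ∀ x ∈ 𝔓.cp t, ‖x - (𝔓.ty t).yp‖ ≤ 𝔓.num.rho / 10) (Θ : PvhoTip 𝔓 m t μ₀ rs rt)
    (offK : Disjoint (𝔈.oK m t) (pviwBox 𝔓 m t)) (offD : Disjoint (pviwDo 𝔓 𝔈 m ε t) (pviwBox 𝔓 m t))
    (MK : Disjoint (pvieSh z (𝔈.oM m t)) (pvieSh z (𝔈.oK m t))) (MD : Disjoint (pvieSh z (𝔈.oM m t)) (pvieDoor 𝔈 m ε (pvieZo 𝔓 m z t) ((𝔓.Γ m).dout t))) (hM : 𝔈.oM m t = pvegOM 𝔓 m t)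
    (Λ : PvhoLayO (pvilLo 𝔓 𝔈 m z t) 𝔓.num (pvieSh z (𝔈.oM m t) ∪ pvieSh z (𝔈.oK m t) ∪ pvieDoor 𝔈 m ε (pvieZo 𝔓 m z t) ((𝔓.Γ m).dout t)) ((pvieSh z (𝔈.oM m t) ∪ pvieSh z (𝔈.oK m t)) \ pvwSq z (pviwRad 𝔓 m t))
      (pvilMu 𝔓 m) ((starRingEnd ℂ) ((𝔓.Γ m).dout t)) ((𝔓.ty t).cp (pvlmH m) z) rs μ₀ rt e₀ ρl δ eC eN eD tt Sg jN jS ζd
      (fun β => pvkdAt (pvieZo 𝔓 m z t) ((𝔓.Γ m).dout t * s) (𝔱.Ln false β)) (fun β => pvkdAt (pvieZo 𝔓 m z t) ((𝔓.Γ m).dout t * s) (𝔱.Dr false β)) xc xa xb y0 y1)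
    (hG : PvhfGeo 𝔭 𝔱) (hs : 0 < s) (hsc : 𝔭.sc s = pvkdP (pvilRd 𝔓 m)) (hℋ : ∀ η ∈ T.ℋ, pvdpT (pvieZo 𝔓 m z t) ((𝔓.Γ m).dout t * s) (𝔓.col t) η ∈ pvhfS 𝔭 𝔱 false)
    (hpat : ∀ (Y : Set ℂ) (κ : ℂ → Bool), cfOf Y κ ∈ T.𝒦 → ∀ β, cfOf Y (pvhcK κ (𝔓.col t)) ∈ pvkqRtEv δ β (eC β :: eN β :: tt β))
    (cert : η₀ ∈ pvrgMesh μ₀ (closedBall z (2 * pviwRad 𝔓 m t + 4 * pvlmH m)))
    {𝔖₀ : PvwSt (pvieT η₀)} (h₀ : PvilOut 𝔓.num (𝔓.col t) (pvilPin 𝔓 m z t) η₀ 𝔖₀) (hF : PvjeFin (pvjeO 𝔓 𝔈 w m ε z t) T η₀ η)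
    (hmesh : η ∈ pvilMs 𝔓 m (pvilWno 𝔓 𝔈 m ε z t (pvilZo 𝔓 m z t η₀))) : η ∈ pvilMo 𝔓 𝔈 m ε z t (pvilZo 𝔓 m z t η₀) := by
  obtain ⟨s1, s2, s3, s0⟩ := pvho_small n m
  have hbig := pvho_cert_o n hT z Θ.m80 cert
  have E := pvho_endD_o n hL hT z Θ.mu0 Θ.m80 Θ.rs0 (by linarith [Θ.rs1, Θ.mu0]) (by linarith [Θ.rt0, Θ.mu0]) Θ.rt1 hbig (K := univ) (fun _ _ => mem_univ _)
  have tip := pvho_tip_o hc h₀ Θ.mu0 (pvho_dense_mono hbig (by linarith [Θ.mu0]))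
  have hb : (𝔓.ty t).b * pvlmH m ≤ pviwRad 𝔓 m t := by
    have := pvho_rad n m t
    have hh := pvlm_H_pos m
    unfold pviwRad
    linarith
  obtain ⟨𝔖', -, hp, -, eZ, κ, hκ, -, hfr, foot⟩ := pvid_foot_o Θ.mu0 Θ.h3 hb Θ.hr offK offD (pvho_cert_box n hL z cert) h₀ hF MK MD Θ.mu0 (by rw [hM]; exact pvho_cert_oM n hT z cert) E
    (by linarith [tip.1, Θ.rt0, Θ.mu0]) (by linarith [tip.2, Θ.rt0]) (by rw [hM, pvho_oM]; exact closedBall_subset_closedBall (by linarith [Θ.rs1]))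
  obtain ⟨g, hsd⟩ := pvyo_side hG false (d := (𝔓.Γ m).dout t) (by have := pvho_norm_dir (pvho_dir_o hL t); rwa [RCLike.norm_conj] at this) hs hF.one hF.nice.good (hℋ η hF.side)
  have hd := hsd.door hG hF.nice
  have hgate := hsd.gate
  rw [hsc] at hd hgate
  have hW : pvieSh z (𝔈.oM m t) ∪ pvieSh z (𝔈.oK m t) ∪ pvieDoor 𝔈 m ε (pvieZo 𝔓 m z t) ((𝔓.Γ m).dout t) ⊆ pvilWno 𝔓 𝔈 m ε z t (pvilZo 𝔓 m z t η₀) := by
    rintro v ((hv | hv) | hv)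
    · exact Or.inl (Or.inl (Or.inr hv))
    · exact Or.inl (Or.inr hv)
    · exact Or.inr hv
  have htc : ‖((pvieT η).src (𝔖'.ep 𝔖'.np) : ℂ) - (𝔓.ty t).cp (pvlmH m) z‖ ≤ rs + 4 * μ₀ := by
    have h1 := pvho_cell hc (pvlm_H_pos m) hp.tip
    have h2 : ‖((pvieT η).src (𝔖'.ep 𝔖'.np) : ℂ) - (𝔓.ty t).cp (pvlmH m) z‖ ≤ 𝔓.num.rho / 10 * pvlmH m := h1
    have h3 : 𝔓.num.rho / 10 * pvlmH m = 𝔓.num.rho * pvlmH m / 10 := by ring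
    linarith [Θ.rs0, Θ.mu0]
  refine ⟨⟨?_, eZ⟩, hmesh⟩
  refine pvho_A_pd (η := η) (b := 𝔓.col t) (g := g) (κ := pvhcK κ (𝔓.col t)) Λ rfl rfl (Or.inl rfl) hF.nice.good (VorDense.mono hmesh Subset.rfl (pvtr_core_mono hW) le_rfl) hd hgate (fun β => ?_) hp htc (hpat _ κ hκ)
    (fun v hv => hfr v hv.1 hv.2) foot
  cases β
  · exact hsd.white
  · exact hsd.black

end modelo

end Claimed.Agent.R289
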