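-- KEEP
import Claimed.Agent.R289.Tr.FrcCar
import Claimed.Agent.R289.Tr.InstLB
import Claimed.Agent.R289.Exit.FrcDefs
import Claimed.Agent.R289.Exit.EngRec

/-!
# Row 289 (S0537), THE WALL, ROAD E, E10 AT THE HYBRID ENDS, (b1), file Tr/FrcCarF : THE CARRIED HALF STATE IN THE FORM OF THE CONSUMER `PvjeDet.ev`      (helper297, second of 71 `Tr/FrcCar`; prefix `pvjv_carf_`)

PLAN.   `PvjeFin E T η₀ η` of 35 (`Exit/FrcDefs` v3) says: `η` nice, the same sites as `η₀` on the KEPT part `Kp Z = (Wz Z ∪ M) \ (K ∪ D)` of the window, the same colours on the kept sites off `y η₀ = M \ F`.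
The part `Wz Z = pvilWz 𝔓 m z t Z` of the window lies in the own-level box `+ δ`, which the resampled regions `K`, `D` miss (`res_off iK_off Di_off` of `PvieEng.Wf`): `Wz Z ⊆ Kp Z`.      So a final configuration AGREES with its base
(`Pvfc7Agr` of 71) and `pvfc7_out_model`, `pvfc7_in_model` carry the half state: SAME BASE DATA `F`, `Z`.
* sec. 1  `pvjv_carf_Wo`, `pvjv_carf_Wi` (`pvfc7Wo = pvilWz .. (pvilZo ..)`);   the numbers owed by the consumer of 71: `pvjv_carf_hb` (`b h ≤ r_k`), `pvjv_carf_b_gt` (`1 < b`), `pvjv_carf_del_le` (`δ_m ≤ h_m`), `pvjv_carf_hr` (`μ < b h`)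
* sec. 2  `pvjv_carf_agr` : GENERIC, a final configuration agrees with its base on every `W ⊆ Wz Z` off `K ∪ D`
* sec. 3  the regions of the three ends are off the box: `pvjv_carf_off_o _i _e` (from `PvieEng.Wf`)
* sec. 4  **`pvjv_carf_o`**, **`pvjv_carf_i`**, **`pvjv_carf_e`** : `PvjeFin (pvjeO / pvjeI / pvjeE ..) T η₀ η` + mesh `μ` (`3 μ ≤ δ_m`) of `η₀` on the box + the half state at `η₀` ⟹ the twin half state at `η`, `F η = F η₀`, `Z η = Z η₀`;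
          `pvjv_carf_o_U _i_U _e_U` : the same from `η₀ ∈ E.U`, conclusions at the fields of the end (`η ∈ E.U`, `E.Fz η = E.Fz η₀`, `E.Hu η = E.Hu η₀`)
* sec. 5  AT THE PARAMETERS AND THE ENGINE OF RECORD (T12), any weight, any tests: **`pvjv_carf_rec_o`**, **`pvjv_carf_rec_i`**, **`pvjv_carf_rec_e`** : only `m0 ≤ m`, `η₀ ∈ E.U`, `η₀ ∈ pvrgB` (the certificate of the own-level box), `PvjeFin E T η₀ η`;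
          `pvjv_carf_tyOk`, `pvjv_carf_b2` (the two facts on `pvxParOf`)
-/

set_option autoImplicit false

namespace Claimed.Agent.R289

open Set Metric MeasureTheory Claims.C0465
open scoped ENNReal

/-! ## 1. the window, the numbers -/

section num

variable {τ : Type} {c : ℝ} (𝔓 : PvxPar τ c)

theorem pvjv_carf_Wo (m : ℕ) (z : ℂ) (t : τ) (η₀ : Conf PvPt) : pvfc7Wo 𝔓 m z t η₀ = pvilWz 𝔓 m z t (pvilZo 𝔓 m z t η₀) := by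
  unfold pvfc7Wo pvilWz
  rw [pvza_Bx_eq]

theorem pvjv_carf_Wi (m : ℕ) (z : ℂ) (t : τ) (η₀ : Conf PvPt) : pvfc7Wi 𝔓 m z t η₀ = pvilWz 𝔓 m z t (pvilZi 𝔓 m z t η₀) := by
  unfold pvfc7Wi pvilWz
  rw [pvza_Bx_eq]

/-- the gate disc lies in the own-level box      (source of `hb` at the parameters of record: `pvyq_hb` of `Exit/TrV`: `b ≤ b₂`) -/
theorem pvjv_carf_hb (hW : 𝔓.WfB) (hb : ∀ t, (𝔓.ty t).b ≤ 2 * (𝔓.ty t).b2) (m : ℕ) (t : τ) : (𝔓.ty t).b * pvlmH m ≤ pviwRad 𝔓 m t :=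
  pvwk_rad_ge (hb t) (pvlm_H_pos m).le (hW.rho0.trans hW.rho1).le _

theorem pvjv_carf_b_gt (hW : 𝔓.WfB) (t : τ) : 1 < (𝔓.ty t).b := by
  have h1 := 𝔓.𝔐.mc_gt t
  have h2 := 𝔓.𝔐.mc_lt t
  have h3 := 𝔓.𝔐.a3_gt t
  have h4 := hW.a3_le t
  have h5 := hW.ab t
  linarith

theorem pvjv_carf_del_le (c : ℝ) (m : ℕ) : pvlmDel c m ≤ pvlmH m := by
  have h1 : (1 : ℝ) ≤ (pvlmN c m : ℝ) := by exact_mod_cast pvlm_N_pos c m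
  unfold pvlmDel
  exact div_le_self (pvlm_H_pos m).le h1

theorem pvjv_carf_hr (hW : 𝔓.WfB) {μ : ℝ} {m : ℕ} (h3 : 3 * μ ≤ pvlmDel c m) (t : τ) : μ < (𝔓.ty t).b * pvlmH m := by
  have h1 := pvjv_carf_del_le c m
  have h2 := pvlm_H_pos m
  have h4 := pvjv_carf_b_gt 𝔓 hW t
  nlinarith

end num

/-! ## 2. a final configuration agrees with its base -/

/-- GENERIC: `W` a part of the window part `Wz Z` off the resampled regions, `F` frozen positions in `W` -/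
theorem pvjv_carf_agr {E : PvjeEnd} {T : PvjeTest} {η₀ η : Conf PvPt} (hF : PvjeFin E T η₀ η) {W F : Set ℂ} (hW : W ⊆ E.Wz (E.Hu η₀)) (hKD : Disjoint (E.K ∪ E.D) W)
    (hFW : F ⊆ W) (hFs : F ⊆ cfSites η₀) (hFz : F ⊆ E.Fz η₀) : Pvfc7Agr W F η₀ η := by
  have hWK : W ⊆ E.Kp (E.Hu η₀) := fun a ha => ⟨Or.inl (hW ha), fun h => disjoint_left.1 hKD h ha⟩
  refine Pvfc7Agr.mono (W := E.Kp (E.Hu η₀)) (F := F) ⟨hF.sites.symm, fun a ha => ?_⟩ hWK Subset.rfl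
  exact hF.cols a ⟨hFs ha, hWK (hFW ha)⟩ fun h => h.2 (hFz ha)

/-! ## 3. the regions of the three ends are off the box -/

section off

variable {τ : Type} {c : ℝ} {𝔓 : PvxPar τ c} {𝔈 : PvieEng τ} {m0 : ℕ} {Cth : ℝ} {r κs : ℕ → ℝ}

theorem pvjv_carf_Do_mem (m : ℕ) (ε : ℝ) (t : τ) : pviwDo 𝔓 𝔈 m ε t ∈ pviwRes 𝔓 𝔈 m ε t := by
  unfold pviwRes pviwDoors
  refine List.mem_append_left _ (List.mem_append_right _ (List.mem_map.2 ⟨0, List.mem_range.2 (Nat.succ_pos _), ?_⟩))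
  show pvieDoor 𝔈 m ε _ _ = pvieDoor 𝔈 m ε _ _
  rw [pvthx_Z_zero, pvthx_D_zero]

theorem pvjv_carf_off_o (H : PvieEng.Wf 𝔓 𝔈 m0 Cth r κs) {m : ℕ} (hm : m0 ≤ m) (ε : ℝ) {t : τ} (ht : pviwTyOk 𝔓 t) :
    Disjoint (𝔈.oK m t) (pviwBox 𝔓 m t) ∧ Disjoint (pviwDo 𝔓 𝔈 m ε t) (pviwBox 𝔓 m t) :=
  ⟨H.res_off m hm ε t ht _ (by simp [pviwRes]), H.res_off m hm ε t ht _ (pvjv_carf_Do_mem m ε t)⟩

theorem pvjv_carf_off_i (H : PvieEng.Wf 𝔓 𝔈 m0 Cth r κs) {m : ℕ} (hm : m0 ≤ m) (ε : ℝ) {t : τ} (ht : pviwTyOk 𝔓 t) :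
    Disjoint (𝔈.iK m t) (pviwBox 𝔓 m t) ∧ Disjoint (pviwDi 𝔓 𝔈 m ε t) (pviwBox 𝔓 m t) :=
  ⟨H.iK_off m hm t ht, H.Di_off m hm ε t ht⟩

theorem pvjv_carf_off_e (H : PvieEng.Wf 𝔓 𝔈 m0 Cth r κs) {m : ℕ} (hm : m0 ≤ m) (ε : ℝ) {t : τ} (ht : pviwTyOk 𝔓 t) :
    Disjoint (𝔈.eK m t) (pviwBox 𝔓 m t) ∧ Disjoint (pviwRo 𝔓 𝔈 m t) (pviwBox 𝔓 m t) :=
  ⟨H.res_off m hm ε t ht _ (by simp [pviwRes]), H.res_off m hm ε t ht _ (by simp [pviwRes])⟩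

end off

/-! ## 4. the three ends -/

section ends

variable {τ : Type} {c : ℝ} {𝔓 : PvxPar τ c} {𝔈 : PvieEng τ} {w : ∀ η : Conf PvPt, (delbPl (pvieY η)).Dart → ℂ} {m : ℕ} {ε : ℝ} {z : ℂ} {t : τ} {μ : ℝ} {η₀ η : Conf PvPt} {T : PvjeTest}

/-- **(b1) FOR `PvjeDet.ev`, FIRST LINK `t → door`** -/
theorem pvjv_carf_o (hμ : 0 < μ) (h3 : 3 * μ ≤ pvlmDel c m) (hb : (𝔓.ty t).b * pvlmH m ≤ pviwRad 𝔓 m t) (hr : μ < (𝔓.ty t).b * pvlmH m)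
    (hK : Disjoint (𝔈.oK m t) (pviwBox 𝔓 m t)) (hD : Disjoint (pviwDo 𝔓 𝔈 m ε t) (pviwBox 𝔓 m t))
    (hm : η₀ ∈ pvrgMesh μ (pvieSh z (pviwBox 𝔓 m t))) {𝔖₀ : PvwSt (pvieT η₀)} (h₀ : PvilOut 𝔓.num (𝔓.col t) (pvilPin 𝔓 m z t) η₀ 𝔖₀) (hF : PvjeFin (pvjeO 𝔓 𝔈 w m ε z t) T η₀ η) :
    ∃ 𝔖 : PvwSt (pvieT η), PvLocSP (pvfc7R η₀ η (pvtrCore (3 * μ) (pvfc7Wo 𝔓 m z t η₀))) 𝔖₀ 𝔖 ∧ PvilOut 𝔓.num (𝔓.col t) (pvilPin 𝔓 m z t) η 𝔖 ∧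
      pvilFo 𝔓 m z t η = pvilFo 𝔓 m z t η₀ ∧ pvilZo 𝔓 m z t η = pvilZo 𝔓 m z t η₀ := by
  have hC := pvfc7_C_o (w := w) (z := z) (η₀ := η₀) hK hD
  have hA : Pvfc7Agr (pvfc7Wo 𝔓 m z t η₀) (pvilFo 𝔓 m z t η₀) η₀ η :=
    pvjv_carf_agr hF (pvjv_carf_Wo 𝔓 m z t η₀).subset hC ((pvfc7_fo_core hb h₀).trans (pvfc7_core_sub (pvlm_Del_pos c m).le _)) pvfc7_fzO_sites Subset.rfl
  exact pvfc7_out_model hμ h3 hb hr hm h₀ hF.nice.good hA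

/-- **(b1) FOR `PvjeDet.ev`, LAST LINK `door → t`** -/
theorem pvjv_carf_i (hμ : 0 < μ) (h3 : 3 * μ ≤ pvlmDel c m) (hb : (𝔓.ty t).b * pvlmH m ≤ pviwRad 𝔓 m t) (hr : μ < (𝔓.ty t).b * pvlmH m)
    (hK : Disjoint (𝔈.iK m t) (pviwBox 𝔓 m t)) (hD : Disjoint (pviwDi 𝔓 𝔈 m ε t) (pviwBox 𝔓 m t))
    (hm : η₀ ∈ pvrgMesh μ (pvieSh z (pviwBox 𝔓 m t))) {𝔖₀ : PvwSt (pvieT η₀)} (h₀ : PvilIn 𝔓.num (𝔓.col t) (pvilPin 𝔓 m z t) η₀ 𝔖₀) (hF : PvjeFin (pvjeI 𝔓 𝔈 w m ε z t) T η₀ η) :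
    ∃ 𝔖 : PvwSt (pvieT η), PvLocSM (pvfc7R η₀ η (pvtrCore (3 * μ) (pvfc7Wi 𝔓 m z t η₀))) 𝔖₀ 𝔖 ∧ PvilIn 𝔓.num (𝔓.col t) (pvilPin 𝔓 m z t) η 𝔖 ∧
      pvilFi 𝔓 m z t η = pvilFi 𝔓 m z t η₀ ∧ pvilZi 𝔓 m z t η = pvilZi 𝔓 m z t η₀ := by
  have hC := pvfc7_C_i (w := w) (z := z) (η₀ := η₀) hK hD
  have hA : Pvfc7Agr (pvfc7Wi 𝔓 m z t η₀) (pvilFi 𝔓 m z t η₀) η₀ η :=
    pvjv_carf_agr hF (pvjv_carf_Wi 𝔓 m z t η₀).subset hC ((pvfc7_fi_core hb h₀).trans (pvfc7_core_sub (pvlm_Del_pos c m).le _)) pvfc7_fzI_sites Subset.rfl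
  exact pvfc7_in_model hμ h3 hb hr hm h₀ hF.nice.good hA

/-- **(b1) FOR `PvjeDet.ev`, THICK LINK `reference plug → t`** -/
theorem pvjv_carf_e (hμ : 0 < μ) (h3 : 3 * μ ≤ pvlmDel c m) (hb : (𝔓.ty t).b * pvlmH m ≤ pviwRad 𝔓 m t) (hr : μ < (𝔓.ty t).b * pvlmH m)
    (hK : Disjoint (𝔈.eK m t) (pviwBox 𝔓 m t)) (hD : Disjoint (pviwRo 𝔓 𝔈 m t) (pviwBox 𝔓 m t))
    (hm : η₀ ∈ pvrgMesh μ (pvieSh z (pviwBox 𝔓 m t))) {𝔖₀ : PvwSt (pvieT η₀)} (h₀ : PvilIn 𝔓.num (𝔓.col t) (pvilPin 𝔓 m z t) η₀ 𝔖₀) (hF : PvjeFin (pvjeE 𝔓 𝔈 w m ε z t) T η₀ η) :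
    ∃ 𝔖 : PvwSt (pvieT η), PvLocSM (pvfc7R η₀ η (pvtrCore (3 * μ) (pvfc7Wi 𝔓 m z t η₀))) 𝔖₀ 𝔖 ∧ PvilIn 𝔓.num (𝔓.col t) (pvilPin 𝔓 m z t) η 𝔖 ∧
      pvilFi 𝔓 m z t η = pvilFi 𝔓 m z t η₀ ∧ pvilZi 𝔓 m z t η = pvilZi 𝔓 m z t η₀ := by
  have hC := pvfc7_C_e (ε := ε) (w := w) (z := z) (η₀ := η₀) hK hD
  have hA : Pvfc7Agr (pvfc7Wi 𝔓 m z t η₀) (pvilFi 𝔓 m z t η₀) η₀ η :=
    pvjv_carf_agr hF (pvjv_carf_Wi 𝔓 m z t η₀).subset hC ((pvfc7_fi_core hb h₀).trans (pvfc7_core_sub (pvlm_Del_pos c m).le _)) pvfc7_fzI_sites Subset.rfl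
  exact pvfc7_in_model hμ h3 hb hr hm h₀ hF.nice.good hA

variable {m0 : ℕ} {Cth : ℝ} {r κs : ℕ → ℝ}

/-- **THE FORM AT THE FIELDS OF THE END, ALL NUMBERS PAID** (first link): hypotheses = `WfB`, `b ≤ 2 b₂`, `PvieEng.Wf`, level, type, mesh of the base on the box -/
theorem pvjv_carf_o_U (hW : 𝔓.WfB) (hb2 : ∀ t, (𝔓.ty t).b ≤ 2 * (𝔓.ty t).b2) (H : PvieEng.Wf 𝔓 𝔈 m0 Cth r κs) (hm0 : m0 ≤ m) (ht : pviwTyOk 𝔓 t) (hμ : 0 < μ) (h3 : 3 * μ ≤ pvlmDel c m)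
    (hm : η₀ ∈ pvrgMesh μ (pvieSh z (pviwBox 𝔓 m t))) (hU : η₀ ∈ (pvjeO 𝔓 𝔈 w m ε z t).U) (hF : PvjeFin (pvjeO 𝔓 𝔈 w m ε z t) T η₀ η) :
    η ∈ (pvjeO 𝔓 𝔈 w m ε z t).U ∧ (pvjeO 𝔓 𝔈 w m ε z t).Fz η = (pvjeO 𝔓 𝔈 w m ε z t).Fz η₀ ∧ (pvjeO 𝔓 𝔈 w m ε z t).Hu η = (pvjeO 𝔓 𝔈 w m ε z t).Hu η₀ := by
  obtain ⟨𝔖₀, h₀⟩ := hU
  obtain ⟨𝔖, -, h1, h2, h4⟩ := pvjv_carf_o hμ h3 (pvjv_carf_hb 𝔓 hW hb2 m t) (pvjv_carf_hr 𝔓 hW h3 t) (pvjv_carf_off_o H hm0 ε ht).1 (pvjv_carf_off_o H hm0 ε ht).2 hm h₀ hF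
  exact ⟨⟨𝔖, h1⟩, h2, h4⟩

theorem pvjv_carf_i_U (hW : 𝔓.WfB) (hb2 : ∀ t, (𝔓.ty t).b ≤ 2 * (𝔓.ty t).b2) (H : PvieEng.Wf 𝔓 𝔈 m0 Cth r κs) (hm0 : m0 ≤ m) (ht : pviwTyOk 𝔓 t) (hμ : 0 < μ) (h3 : 3 * μ ≤ pvlmDel c m)
    (hm : η₀ ∈ pvrgMesh μ (pvieSh z (pviwBox 𝔓 m t))) (hU : η₀ ∈ (pvjeI 𝔓 𝔈 w m ε z t).U) (hF : PvjeFin (pvjeI 𝔓 𝔈 w m ε z t) T η₀ η) :
    η ∈ (pvjeI 𝔓 𝔈 w m ε z t).U ∧ (pvjeI 𝔓 𝔈 w m ε z t).Fz η = (pvjeI 𝔓 𝔈 w m ε z t).Fz η₀ ∧ (pvjeI 𝔓 𝔈 w m ε z t).Hu η = (pvjeI 𝔓 𝔈 w m ε z t).Hu η₀ := by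
  obtain ⟨𝔖₀, h₀⟩ := hU
  obtain ⟨𝔖, -, h1, h2, h4⟩ := pvjv_carf_i hμ h3 (pvjv_carf_hb 𝔓 hW hb2 m t) (pvjv_carf_hr 𝔓 hW h3 t) (pvjv_carf_off_i H hm0 ε ht).1 (pvjv_carf_off_i H hm0 ε ht).2 hm h₀ hF
  exact ⟨⟨𝔖, h1⟩, h2, h4⟩

theorem pvjv_carf_e_U (hW : 𝔓.WfB) (hb2 : ∀ t, (𝔓.ty t).b ≤ 2 * (𝔓.ty t).b2) (H : PvieEng.Wf 𝔓 𝔈 m0 Cth r κs) (hm0 : m0 ≤ m) (ht : pviwTyOk 𝔓 t) (hμ : 0 < μ) (h3 : 3 * μ ≤ pvlmDel c m)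
    (hm : η₀ ∈ pvrgMesh μ (pvieSh z (pviwBox 𝔓 m t))) (hU : η₀ ∈ (pvjeE 𝔓 𝔈 w m ε z t).U) (hF : PvjeFin (pvjeE 𝔓 𝔈 w m ε z t) T η₀ η) :
    η ∈ (pvjeE 𝔓 𝔈 w m ε z t).U ∧ (pvjeE 𝔓 𝔈 w m ε z t).Fz η = (pvjeE 𝔓 𝔈 w m ε z t).Fz η₀ ∧ (pvjeE 𝔓 𝔈 w m ε z t).Hu η = (pvjeE 𝔓 𝔈 w m ε z t).Hu η₀ := by
  obtain ⟨𝔖₀, h₀⟩ := hU
  obtain ⟨𝔖, -, h1, h2, h4⟩ := pvjv_carf_e hμ h3 (pvjv_carf_hb 𝔓 hW hb2 m t) (pvjv_carf_hr 𝔓 hW h3 t) (pvjv_carf_off_e H hm0 ε ht).1 (pvjv_carf_off_e H hm0 ε ht).2 hm h₀ hF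
  exact ⟨⟨𝔖, h1⟩, h2, h4⟩

end ends

/-! ## 5. at the parameters and the engine of record -/

section rec

variable {c : ℝ} (N : PvxNums) (hN : N.Ok)

theorem pvjv_carf_tyOk (c : ℝ) (t : pvxTau N) : pviwTyOk (pvxParOf N hN c) t := by
  refine ⟨pvxo_nd_p t, pvxo_nd_m t, ?_⟩
  have := pvxo_nd_far t
  show 7 * N.rho / 4 ≤ ‖pvxoYp t - pvxoYm t‖
  linarith

theorem pvjv_carf_b2 (c : ℝ) (t : pvxTau N) : ((pvxParOf N hN c).ty t).b ≤ 2 * ((pvxParOf N hN c).ty t).b2 := by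
  show N.b1 ≤ 2 * N.b2
  linarith [hN.gap, hN.ab2, hN.m_gt, hN.m_lt, hN.B_lt, hN.ab1]

variable (c0 : 0 < c) (nb : PvnaNb N) (w : ∀ η : Conf PvPt, (delbPl (pvieY η)).Dart → ℂ) {m : ℕ} (hm : (pvxParOf N hN c).m0 ≤ m) (ε : ℝ) (z : ℂ) (t : pvxTau N) {T : PvjeTest} {η₀ η : Conf PvPt}

include c0 hm in
/-- **(b1) AT THE FIRST LINK OF RECORD** -/
theorem pvjv_carf_rec_o (hU : η₀ ∈ (pvjeO (pvxParOf N hN c) (pvnaEngRec N hN c nb) w m ε z t).U) (hB : η₀ ∈ pvrgB (pvxParOf N hN c) m z t)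
    (hF : PvjeFin (pvjeO (pvxParOf N hN c) (pvnaEngRec N hN c nb) w m ε z t) T η₀ η) :
    (∃ 𝔖 : PvwSt (pvieT η), PvilOut (pvxParOf N hN c).num ((pvxParOf N hN c).col t) (pvilPin (pvxParOf N hN c) m z t) η 𝔖) ∧
      pvilFo (pvxParOf N hN c) m z t η = pvilFo (pvxParOf N hN c) m z t η₀ ∧ pvilZo (pvxParOf N hN c) m z t η = pvilZo (pvxParOf N hN c) m z t η₀ := by
  obtain ⟨Cth, r, κs, hW⟩ := (pvnr_wf hN c0 nb).wf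
  have hδ := pvlm_Del_pos c m
  exact pvjv_carf_o_U (pvxo_wf N hN c).toWfB (pvjv_carf_b2 N hN c) hW hm (pvjv_carf_tyOk N hN c t) (μ := pvlmDel c m / 3) (by positivity) (by linarith) hB hU hF

include c0 hm in
/-- **(b1) AT THE LAST LINK OF RECORD** -/
theorem pvjv_carf_rec_i (hU : η₀ ∈ (pvjeI (pvxParOf N hN c) (pvnaEngRec N hN c nb) w m ε z t).U) (hB : η₀ ∈ pvrgB (pvxParOf N hN c) m z t)
    (hF : PvjeFin (pvjeI (pvxParOf N hN c) (pvnaEngRec N hN c nb) w m ε z t) T η₀ η) :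
    (∃ 𝔖 : PvwSt (pvieT η), PvilIn (pvxParOf N hN c).num ((pvxParOf N hN c).col t) (pvilPin (pvxParOf N hN c) m z t) η 𝔖) ∧
      pvilFi (pvxParOf N hN c) m z t η = pvilFi (pvxParOf N hN c) m z t η₀ ∧ pvilZi (pvxParOf N hN c) m z t η = pvilZi (pvxParOf N hN c) m z t η₀ := by
  obtain ⟨Cth, r, κs, hW⟩ := (pvnr_wf hN c0 nb).wf
  have hδ := pvlm_Del_pos c m
  exact pvjv_carf_i_U (pvxo_wf N hN c).toWfB (pvjv_carf_b2 N hN c) hW hm (pvjv_carf_tyOk N hN c t) (μ := pvlmDel c m / 3) (by positivity) (by linarith) hB hU hF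

include c0 hm in
/-- **(b1) AT THE THICK LINK OF RECORD** -/
theorem pvjv_carf_rec_e (hU : η₀ ∈ (pvjeE (pvxParOf N hN c) (pvnaEngRec N hN c nb) w m ε z t).U) (hB : η₀ ∈ pvrgB (pvxParOf N hN c) m z t)
    (hF : PvjeFin (pvjeE (pvxParOf N hN c) (pvnaEngRec N hN c nb) w m ε z t) T η₀ η) :
    (∃ 𝔖 : PvwSt (pvieT η), PvilIn (pvxParOf N hN c).num ((pvxParOf N hN c).col t) (pvilPin (pvxParOf N hN c) m z t) η 𝔖) ∧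
      pvilFi (pvxParOf N hN c) m z t η = pvilFi (pvxParOf N hN c) m z t η₀ ∧ pvilZi (pvxParOf N hN c) m z t η = pvilZi (pvxParOf N hN c) m z t η₀ := by
  obtain ⟨Cth, r, κs, hW⟩ := (pvnr_wf hN c0 nb).wf
  have hδ := pvlm_Del_pos c m
  exact pvjv_carf_e_U (pvxo_wf N hN c).toWfB (pvjv_carf_b2 N hN c) hW hm (pvjv_carf_tyOk N hN c t) (μ := pvlmDel c m / 3) (by positivity) (by linarith) hB hU hF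

end rec

end Claimed.Agent.R289
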