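-- KEEP
import Claimed.Agent.R289.Tr.FrcCarF

/-!
# Row 289 (S0537), THE WALL, ROAD E, E10, file Tr/HookF : DET OF THE THICK RETURN `f : t → reference plug`, THE CARRIED EXIT HALF STATE AND THE HULL, IN THE `η`-FORM OF 196      (helper281; prefix `pvhq_`)

CONSUMER: the second half of the field `det` of `PvifTest.Ok` (196, `Exit/FrcF.lean`): `η` has the sites of the base `ω` on `Wn \ (K ∪ D)`, its colours on the kept sites off `y ω = Mo \ F_out ω`.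
* sec. 1  `pvhq_agr` (GENERIC: the `η`-form gives `Pvfc7Agr` of 71 on every `W ⊆ Wn` off `K ∪ D`),   **`pvhq_carry`** (any window `Wn ⊇ pvilWz Z`, any resampled region `C` off the own-level box, any mouth `Mo`):
          the twin `Σ_out(z,t)` at `η`, `F η = F ω`, `Z η = Z ω`
* sec. 2  **`pvhq_carry_f`** : at the regions of the thick return (`C = (z + fK) ∪ (zu + rO)`, window `pvilWnf`), ALL NUMBERS PAID from `𝔓.WfB`, `b ≤ 2 b₂`, `PvieEng.Wf`;   **`pvhq_hull_f`** (the hull clause of `pvilMf` / `pvjtMf`)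
-/

set_option autoImplicit false

namespace Claimed.Agent.R289

open Set Metric MeasureTheory Claims.C0465
open scoped ENNReal

/-! ## 1. generic -/

/-- GENERIC: the `η`-form of 196 gives the agreement of 71 -/
theorem pvhq_agr {η₀ η : Conf PvPt} {Wn C y : Set ℂ} (hs : ∀ a ∈ Wn, a ∉ C → (a ∈ cfSites η ↔ a ∈ cfSites η₀))
    (hc : ∀ a ∈ cfSites η₀, a ∈ Wn → a ∉ C → a ∉ y → cfCol η a = cfCol η₀ a)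
    {W F : Set ℂ} (hW : W ⊆ Wn) (hC : Disjoint C W) (hFW : F ⊆ W) (hFs : F ⊆ cfSites η₀) (hFy : Disjoint F y) : Pvfc7Agr W F η₀ η := by
  refine ⟨?_, fun a ha => hc a (hFs ha) (hW (hFW ha)) (fun h => disjoint_left.1 hC h (hFW ha)) (disjoint_left.1 hFy ha)⟩
  ext a
  constructor
  · rintro ⟨h1, h2⟩
    exact ⟨(hs a (hW h2) fun h => disjoint_left.1 hC h h2).2 h1, h2⟩
  · rintro ⟨h1, h2⟩
    exact ⟨(hs a (hW h2) fun h => disjoint_left.1 hC h h2).1 h1, h2⟩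

section carry

variable {τ : Type} {c : ℝ} {𝔓 : PvxPar τ c} {m : ℕ} {z : ℂ} {t : τ} {μ : ℝ} {η₀ η : Conf PvPt}

/-- **(b1) IN THE `η`-FORM, EXIT HALF**: any window which contains the cut window of the hull, any resampled region off the own-level box, any recoloured mouth -/
theorem pvhq_carry (hμ : 0 < μ) (h3 : 3 * μ ≤ pvlmDel c m) (hb : (𝔓.ty t).b * pvlmH m ≤ pviwRad 𝔓 m t) (hr : μ < (𝔓.ty t).b * pvlmH m)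
    (hm : η₀ ∈ pvrgMesh μ (pvieSh z (pviwBox 𝔓 m t))) {𝔖₀ : PvwSt (pvieT η₀)} (h₀ : PvilOut 𝔓.num (𝔓.col t) (pvilPin 𝔓 m z t) η₀ 𝔖₀) (hG : DelGood (pvieY η))
    {Wn C Mo : Set ℂ} (hW : pvilWz 𝔓 m z t (pvilZo 𝔓 m z t η₀) ⊆ Wn) (hC : Disjoint C (pvieSh z (pviwBox 𝔓 m t)))
    (hs : ∀ a ∈ Wn, a ∉ C → (a ∈ cfSites η ↔ a ∈ cfSites η₀))
    (hc : ∀ a ∈ cfSites η₀, a ∈ Wn → a ∉ C → a ∉ Mo \ pvilFo 𝔓 m z t η₀ → cfCol η a = cfCol η₀ a) :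
    ∃ 𝔖 : PvwSt (pvieT η), PvLocSP (pvfc7R η₀ η (pvtrCore (3 * μ) (pvfc7Wo 𝔓 m z t η₀))) 𝔖₀ 𝔖 ∧ PvilOut 𝔓.num (𝔓.col t) (pvilPin 𝔓 m z t) η 𝔖 ∧
      pvilFo 𝔓 m z t η = pvilFo 𝔓 m z t η₀ ∧ pvilZo 𝔓 m z t η = pvilZo 𝔓 m z t η₀ := by
  have hA : Pvfc7Agr (pvfc7Wo 𝔓 m z t η₀) (pvilFo 𝔓 m z t η₀) η₀ η :=
    pvhq_agr hs hc ((pvjv_carf_Wo 𝔓 m z t η₀).subset.trans hW) (hC.mono_right inter_subset_right)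
      ((pvfc7_fo_core hb h₀).trans (pvfc7_core_sub (pvlm_Del_pos c m).le _)) pvfc7_fzO_sites (disjoint_left.2 fun _ h1 h2 => h2.2 h1)
  exact pvfc7_out_model hμ h3 hb hr hm h₀ hG hA

end carry

/-! ## 2. at the regions of the thick return -/

section ret

variable {τ : Type} {c : ℝ} {𝔓 : PvxPar τ c} {𝔈 : PvieEng τ} {m : ℕ} {z : ℂ} {t : τ} {μ : ℝ} {η₀ η : Conf PvPt} {m0 : ℕ} {Cth : ℝ} {r κs : ℕ → ℝ}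

/-- the resampled region of the experiment of the thick return misses the own-level box -/
theorem pvhq_off_f (H : PvieEng.Wf 𝔓 𝔈 m0 Cth r κs) (hm0 : m0 ≤ m) (ht : pviwTyOk 𝔓 t) :
    Disjoint (pvieSh z (𝔈.fK m t) ∪ pvieSh (pvieZu 𝔓 m z t) (𝔈.rO m)) (pvieSh z (pviwBox 𝔓 m t)) := by
  have e : pvieSh (pvieZu 𝔓 m z t) (𝔈.rO m) = pvieSh z (pviwRo 𝔓 𝔈 m t) := (pvjh_sh_sh z _ _).symm
  have sh : ∀ {A B : Set ℂ}, Disjoint A B → Disjoint (pvieSh z A) (pvieSh z B) := by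
    intro A B h
    rw [disjoint_left]
    rintro _ ⟨a, ha, rfl⟩ ⟨b, hb, hab⟩
    have : b = a := by simpa using hab
    exact disjoint_left.1 h ha (this ▸ hb)
  rw [e]
  exact Disjoint.union_left (sh (H.fK_off m hm0 t ht)) (sh (H.res_off m hm0 0 t ht _ (by simp [pviwRes])))

/-- **(b1) FOR THE THICK RETURN, ALL NUMBERS PAID**: `η` = a final configuration over the base `η₀` in the `η`-form of 196 -/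
theorem pvhq_carry_f (hW : 𝔓.WfB) (hb2 : ∀ t, (𝔓.ty t).b ≤ 2 * (𝔓.ty t).b2) (H : PvieEng.Wf 𝔓 𝔈 m0 Cth r κs) (hm0 : m0 ≤ m) (ht : pviwTyOk 𝔓 t) (hμ : 0 < μ) (h3 : 3 * μ ≤ pvlmDel c m)
    (hm : η₀ ∈ pvrgMesh μ (pvieSh z (pviwBox 𝔓 m t))) {𝔖₀ : PvwSt (pvieT η₀)} (h₀ : PvilOut 𝔓.num (𝔓.col t) (pvilPin 𝔓 m z t) η₀ 𝔖₀) (hG : DelGood (pvieY η))
    (hs : ∀ a ∈ pvilWnf 𝔓 𝔈 m z t (pvilZo 𝔓 m z t η₀), a ∉ pvieSh z (𝔈.fK m t) ∪ pvieSh (pvieZu 𝔓 m z t) (𝔈.rO m) → (a ∈ cfSites η ↔ a ∈ cfSites η₀))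
    (hc : ∀ a ∈ cfSites η₀, a ∈ pvilWnf 𝔓 𝔈 m z t (pvilZo 𝔓 m z t η₀) → a ∉ pvieSh z (𝔈.fK m t) ∪ pvieSh (pvieZu 𝔓 m z t) (𝔈.rO m) →
      a ∉ pvieSh z (𝔈.fM m t) \ pvilFo 𝔓 m z t η₀ → cfCol η a = cfCol η₀ a) :
    ∃ 𝔖 : PvwSt (pvieT η), PvLocSP (pvfc7R η₀ η (pvtrCore (3 * μ) (pvfc7Wo 𝔓 m z t η₀))) 𝔖₀ 𝔖 ∧ PvilOut 𝔓.num (𝔓.col t) (pvilPin 𝔓 m z t) η 𝔖 ∧
      pvilFo 𝔓 m z t η = pvilFo 𝔓 m z t η₀ ∧ pvilZo 𝔓 m z t η = pvilZo 𝔓 m z t η₀ :=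
  pvhq_carry hμ h3 (pvjv_carf_hb 𝔓 hW hb2 m t) (pvjv_carf_hr 𝔓 hW h3 t) hm h₀ hG (fun _ ha => Or.inl (Or.inl (Or.inl ha))) (pvhq_off_f H hm0 ht) hs hc

end ret

/-! ## 3. the thick return as an end of 35; the `η`-form of 196 IS `PvjeFin` -/

/-- **THE CONVERTER**: a regular configuration which satisfies the `η`-form of 196 (hypotheses of `hdet` of `pvlhg_forced`, second half of `PvifTest.Ok.det`) is a final configuration of 35.      GENERIC in the end and in the tests -/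
theorem pvhq_fin {E : PvjeEnd} {T : PvjeTest} {η₀ η : Conf PvPt} {κ : ℂ → Bool} (hN : η ∈ pvjeReg E T)
    (hs : ∀ a ∈ E.Wn (E.Hu η₀), a ∉ E.K ∪ E.D → (a ∈ cfSites η ↔ a ∈ cfSites η₀))
    (hc : ∀ a ∈ cfSites η₀, a ∈ E.Wn (E.Hu η₀) → a ∉ E.K ∪ E.D → a ∉ E.y η₀ → cfCol η a = cfCol η₀ a)
    (hG : η ∈ E.G) (hH : η ∈ T.ℋ) (hK : cfOf (cfSites η) κ ∈ T.𝒦)
    (hκ : ∀ a ∈ cfSites η, a ∈ E.Wn (E.Hu η₀) → (a ∈ E.K ∨ a ∈ E.y η₀) → cfCol η a = κ a) : PvjeFin E T η₀ η where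
  nice := hN.1
  one := hN.2.1
  sites := by
    have hW : E.Kp (E.Hu η₀) ⊆ E.Wn (E.Hu η₀) := fun a ha => Or.inl (Or.inl ha.1)
    ext a
    constructor
    · rintro ⟨h1, h2⟩
      exact ⟨(hs a (hW h2) h2.2).1 h1, h2⟩
    · rintro ⟨h1, h2⟩
      exact ⟨(hs a (hW h2) h2.2).2 h1, h2⟩
  cols := fun a ha hy => hc a ha.1 (Or.inl (Or.inl ha.2.1)) ha.2.2 hy
  use := hG
  plug := hN.2.2 hG
  side := hH
  copy := ⟨κ, hK, fun a ha h => by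
    rcases h with h | h
    · exact hκ a ha (Or.inl (Or.inr h)) (Or.inl h)
    · exact hκ a ha (Or.inl (Or.inl (Or.inr h.1))) (Or.inr h)⟩

section model

variable {τ : Type} {c : ℝ} (𝔓 : PvxPar τ c) (𝔈 : PvieEng τ)

/-- **the thick return `t → reference plug`** as an end of 35 (no value) -/
noncomputable def pvhqF (m : ℕ) (ε : ℝ) (z : ℂ) (t : τ) : PvjeEnd where
  Wz := pvilWz 𝔓 m z t
  K := pvieSh z (𝔈.fK m t)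
  D := pvieSh (pvieZu 𝔓 m z t) (𝔈.rO m)
  M := pvieSh z (𝔈.fM m t)
  G := pvrgGr 𝔈 m ε (𝔓.col t) (pvieZu 𝔓 m z t)
  U := pvilUo 𝔓.num (𝔓.col t) (pvilPin 𝔓 m z t)
  Fz := pvilFo 𝔓 m z t
  Hu := pvilZo 𝔓 m z t
  Pl := pvilMf 𝔓 𝔈 m z t
  X := fun _ => 0

theorem pvhq_F_eqns_cite : True := by
  have := @pvhqF.eq_1
  trivial

variable (m : ℕ) (ε : ℝ) (z : ℂ) (t : τ)

theorem pvhq_F_Wn (Z : Set (ℤ × ℤ)) : (pvhqF 𝔓 𝔈 m ε z t).Wn Z = pvilWnf 𝔓 𝔈 m z t Z := rfl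

theorem pvhq_F_y (η₀ : Conf PvPt) : (pvhqF 𝔓 𝔈 m ε z t).y η₀ = pvieSh z (𝔈.fM m t) \ pvilFo 𝔓 m z t η₀ := rfl

variable {𝔓 𝔈 m ε z t}
variable {μ : ℝ} {η₀ η : Conf PvPt} {T : PvjeTest} {m0 : ℕ} {Cth : ℝ} {r κs : ℕ → ℝ}

/-- **(b1) FOR THE THICK RETURN, AT A FINAL CONFIGURATION OF 35** (mirror of `pvjv_carf_o` of 297) -/
theorem pvhq_carf_f (hW : 𝔓.WfB) (hb2 : ∀ t, (𝔓.ty t).b ≤ 2 * (𝔓.ty t).b2) (H : PvieEng.Wf 𝔓 𝔈 m0 Cth r κs) (hm0 : m0 ≤ m) (ht : pviwTyOk 𝔓 t) (hμ : 0 < μ) (h3 : 3 * μ ≤ pvlmDel c m)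
    (hm : η₀ ∈ pvrgMesh μ (pvieSh z (pviwBox 𝔓 m t))) {𝔖₀ : PvwSt (pvieT η₀)} (h₀ : PvilOut 𝔓.num (𝔓.col t) (pvilPin 𝔓 m z t) η₀ 𝔖₀) (hF : PvjeFin (pvhqF 𝔓 𝔈 m ε z t) T η₀ η) :
    ∃ 𝔖 : PvwSt (pvieT η), PvLocSP (pvfc7R η₀ η (pvtrCore (3 * μ) (pvfc7Wo 𝔓 m z t η₀))) 𝔖₀ 𝔖 ∧ PvilOut 𝔓.num (𝔓.col t) (pvilPin 𝔓 m z t) η 𝔖 ∧
      pvilFo 𝔓 m z t η = pvilFo 𝔓 m z t η₀ ∧ pvilZo 𝔓 m z t η = pvilZo 𝔓 m z t η₀ := by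
  have hb := pvjv_carf_hb 𝔓 hW hb2 m t
  have hA : Pvfc7Agr (pvfc7Wo 𝔓 m z t η₀) (pvilFo 𝔓 m z t η₀) η₀ η :=
    pvjv_carf_agr hF (pvjv_carf_Wo 𝔓 m z t η₀).subset ((pvhq_off_f H hm0 ht).mono_right inter_subset_right)
      ((pvfc7_fo_core hb h₀).trans (pvfc7_core_sub (pvlm_Del_pos c m).le _)) pvfc7_fzO_sites Subset.rfl
  exact pvfc7_out_model hμ h3 hb (pvjv_carf_hr 𝔓 hW h3 t) hm h₀ hF.nice.good hA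

/-- **THE HULL CLAUSE OF `pvilMf`** at a final configuration -/
theorem pvhq_hull_f (hW : 𝔓.WfB) (hb2 : ∀ t, (𝔓.ty t).b ≤ 2 * (𝔓.ty t).b2) (H : PvieEng.Wf 𝔓 𝔈 m0 Cth r κs) (hm0 : m0 ≤ m) (ht : pviwTyOk 𝔓 t) (hμ : 0 < μ) (h3 : 3 * μ ≤ pvlmDel c m)
    (hm : η₀ ∈ pvrgMesh μ (pvieSh z (pviwBox 𝔓 m t))) (hU : η₀ ∈ pvilUo 𝔓.num (𝔓.col t) (pvilPin 𝔓 m z t)) (hF : PvjeFin (pvhqF 𝔓 𝔈 m ε z t) T η₀ η) :
    pvilZo 𝔓 m z t η = pvilZo 𝔓 m z t η₀ := by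
  obtain ⟨𝔖₀, h₀⟩ := hU
  obtain ⟨_, -, -, -, h4⟩ := pvhq_carf_f hW hb2 H hm0 ht hμ h3 hm h₀ hF
  exact h4

end model

end Claimed.Agent.R289
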