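-- KEEP
import Claimed.Agent.R289.Tr.HookT
import Claimed.Agent.R289.Tr.HookGJ
import Claimed.Agent.R289.Tr.HookCol
import Claimed.Agent.R289.Tr.FrcDetE
import Claimed.Agent.R289.Tr.DoorSoft
import Claimed.Agent.R289.Tr.DoorFoot
import Claimed.Agent.R289.Tr.HookTA
import Claimed.Agent.R289.Tr.HookF
import Claimed.Agent.R289.Tr.HookColF
import Claimed.Agent.R289.Tr.FrcDetA
import Claimed.Agent.R289.Defs.GdThick

/-!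
# Row 289 (S0537), THE WALL, ROAD E, E10 AT THE HYBRID ENDS, (b3) DET, file Tr/HookFA : THE ASSEMBLY OF DET.ev FOR AN OUT-TYPE LINK `pin → door type plug` AT A FINAL CONFIGURATION      (helper284, first rope of `pvif_l_detA` of the thick return `f`; prefix `pvj8_`, `Pvj8`)

GLUE over `Tr/HookT` (66: tip foot, two site sets), `Tr/FrcDetE` (228: feet + lanes, cut door of 298, mesh helpers), `Tr/HookGJ` (90: link region of the room, run ⟹ plain success), `Tr/FrcCar` (71: twins, frozen positions), `Tr/DoorSoft` (173: side of a plug in plain form).      0 sorry.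
* sec. 1  `pvj8_out_stub` (OUT behind the tip of a carried exit stub, no number of the big mouth), **`pvj8_link`** = ONE STOP, TWO SITE SETS, MODEL FREE, any presentation: base `Y₀` (half state, numbers, mesh of the BIG mouth, tip) / final `Y` (carried half state, link region, door, routes)  ⟹  `PvldRun`
* sec. 2  `pvj8_A` = AT THE MODEL, raw form (`PvilLk`, pin in the standard frame → door type plug): states + meshes + colour lines + region inclusions  ⟹  `η ∈ L.A N b`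
* sec. 3  **`Pvj8Lay`** = ALL THE REGION DEBTS of a link `pin → door` (MIRROR of `PvhuLay` of 66; door side = CUT record `Pvge4DoorReg` of 298: a bar may run up or down), **`pvj8_A_pd`** (mirror of `pvhu_A_dp`)
* sec. 4  `pvj8_foot` (the tip foot at the model), **`Pvj8Tip`** (mirror of `PvhuTipE`), **`pvj8_ev`** = DET.ev (plain success + hull) IN THE `η`-FORM OF 196, generic in the link `⟨pvilPin, pvilPlug ru zd d, Yin, Mk, false, true⟩` (`f`: `pvjtLf`, `o`: `pvilLo`, by `rfl`)      [NOT INSTANTIABLE AT THE CORNER TIP CELLS: `Pvj8Tip.side` is false there (266): USE sec. 5]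
* sec. 5  **THE D FORM, ALL TIP CELLS** (mirror of `Tr/FrcDetA` of 266): **`Pvj8LayD`**, `pvj8_A_pdD`, `pvj8_footD`, **`pvj8_evD`** (tip numbers := `PvhoTip` of 266, ONE certificate at the base)
-/

set_option autoImplicit false
set_option linter.unusedSectionVars false
set_option linter.unusedVariables false

namespace Claimed.Agent.R289

open Relation Set Metric Claims.C0465

/-! ## 1. one stop, two site sets -/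

section link

variable {Y₀ Y U : Set ℂ} {μ : ℝ} {h₀ : DelGood Y₀} {h : DelGood Y} {P₀ : PlTri ↥Y₀} {P : PlTri ↥Y} {𝔖₀ : PvwSt P₀.toMap} {𝔖 : PvwSt P.toMap} {N N' : PvwNum} {hh hh' : ℝ} {z z' : ℂ} {τ τ' : PvwTy} {K₀ : Set Y₀} {K : Set Y} {r r₁ ρ rs rt : ℝ} {ζ : ℂ}
  {σ₀ : Y₀ → Bool} {σ : Y → Bool} {κ : ℂ → Bool} {Sg : Bool → Set ℂ}
  {δ ρl : ℝ} {eC eN eD : Bool → Set ℂ × ℂ × ℂ} {t : Bool → List (Set ℂ × ℂ × ℂ)} {jN jS : Bool → ℕ} {ζd : ℂ} {ρd : ℝ} {xc xa xb y0 y1 : Bool → ℝ} {Rm : Bool → Set ℂ}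

/-- **OUT behind the tip of an exit stub**, without the numbers of the big mouth -/
theorem pvj8_out_stub {V D : Type} {T : PvMap V D} {𝔖 : PvwSt T} {pos : V → ℂ} {σ : V → Bool} {K : Set V} (ha : 𝔖.AtOut pos N hh z τ σ) (hK0 : T.src (𝔖.ep 𝔖.np) ∈ K) (hgp : 𝔖.gp ∉ K) {a₁ : D} (h1 : pvasBW T σ a₁)
    (hdis : T.src a₁ ∉ 𝔖.bkP) : ∃ f, T.src f ∉ K ∧ T.DJoin (pvldBar T σ K (𝔖.ep 𝔖.np) a₁) (T.opp (𝔖.ep 𝔖.np)) f := by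
  have st := ha.stub
  have hnp : 1 ≤ 𝔖.np := by
    by_contra hcon
    have e : 𝔖.np = 0 := by omega
    rw [e, pvwk_ep_zero st] at hK0
    exact hgp hK0
  refine pvld_out_strand h1 ha.gate.bw_p (st.ep_it _ le_rfl).symm (fun i hi => ?_) ?_
  · rw [← st.ep_it i hi.le]
    constructor
    · intro e
      have h1 := st.ep_ax i hi
      rw [e] at h1
      exact st.ep_out h1
    · intro e
      exact hdis ⟨i, hi.le, by rw [e]⟩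
  · intro hsub
    exact hgp (hsub ⟨𝔖.dp, ⟨0, hnp, T.sf_refl _⟩, rfl⟩)

/-- **HOOK-DET, OUT-TYPE LINK, ONE STOP, AT A FINAL CONFIGURATION** (exit tip → entrance gate edge `a₁` of a door type plug), any presentation.
BASE (`Y₀`, `σ₀`, `𝔖₀`): the half state, the numbers `E` with the mesh of the BIG mouth, the tip.      FINAL (`Y`, `σ`, `𝔖`): the carried half state (same end points of the tip dart), the link region `K`, the door (`a₁`, half lanes `hH`, CUT record of 298), the routes of the copy colouring `κ`. -/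
theorem pvj8_link (hP₀ : P₀ = delPl h₀) (hP : P = delPl h) (hμ : 0 < μ) (hYY : Y₀ ∩ U = Y ∩ U) (hm : PvtrMesh μ U Y₀) (ha₀ : 𝔖₀.AtOut (dlsPos Y₀) N hh z τ σ₀) (E : PvhjEnd Y₀ N hh τ (τ.cp hh z) K₀ r r₁ ρ rs)
    (ht1 : ‖(P₀.toMap.src (𝔖₀.ep 𝔖₀.np) : ℂ) - τ.cp hh z‖ + 2 * ρ ≤ rt) (ht2 : ‖(P₀.toMap.tgt (𝔖₀.ep 𝔖₀.np) : ℂ) - τ.cp hh z‖ + 2 * ρ ≤ rt)
    (hζ : ζ ∈ pvtzdDir) (hout : pvwRad N hh τ τ.k + (ζ * z).re < (ζ * (𝔖₀.ap : ℂ)).re) (hU : closedBall (τ.cp hh z) (rs + 4 * ρ + 3 * μ) ⊆ U)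
    (ha : 𝔖.AtOut (dlsPos Y) N' hh' z' τ' σ)
    (es : ((P₀.toMap.src (𝔖₀.ep 𝔖₀.np) : Y₀) : ℂ) = P.toMap.src (𝔖.ep 𝔖.np)) (et : ((P₀.toMap.tgt (𝔖₀.ep 𝔖₀.np) : Y₀) : ℂ) = P.toMap.tgt (𝔖.ep 𝔖.np))
    (hσf : ∀ (v : Y₀) (v' : Y), (v : ℂ) = v' → ‖(v : ℂ) - τ.cp hh z‖ < rs + 4 * ρ → v ∈ 𝔖₀.bkP ∪ 𝔖₀.whP → σ v' = σ₀ v)
    (hσκ : ∀ (v : Y₀) (v' : Y), (v : ℂ) = v' → ‖(v : ℂ) - τ.cp hh z‖ < rs + 4 * ρ → v ∉ 𝔖₀.fzOut → σ v' = κ v)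
    (hK : K.Finite) (hco : ∀ u v, u ∉ K → v ∉ K → P.toMap.Join univ Kᶜ u v) (hinK : ∀ v : Y, ‖(v : ℂ) - τ.cp hh z‖ < rs + 4 * ρ → v ∈ K) (hgp : 𝔖.gp ∉ K)
    {a₁ : P.Dart} (h1 : pvasBW P.toMap σ a₁) (hdis : P.toMap.src a₁ ∉ 𝔖.bkP)
    (hδ : 0 < δ) (hr : ∀ β, PvkqRoute δ (eC β :: eN β :: t β)) (hev : ∀ β, cfOf Y κ ∈ pvkqRtEv δ β (eC β :: eN β :: t β))
    (R : ∀ β, PvhzArmReg ζ (pvwRad N hh τ τ.k + (ζ * z).re) ((ζ * τ.cp hh z).im - rt) ((ζ * τ.cp hh z).im + rt) (2 * ρ) (τ.cp hh z) rs ρl β (eN β).1 (eC β).1 (Sg β))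
    (hρl : δ / 16 ≤ ρl) (hdS : ∀ β, VorDense Y (Sg β) ρl) (hjN : ∀ β, jN β < 4) (hjS : ∀ β, jS β < 4)
    (hSN : ∀ β, pvhzSd δ (pvkqCell δ (eN β).2.2) (jN β) ⊆ Sg β) (hSS : ∀ β, pvhzSd δ (pvkqCell δ (eC β).2.1) (jS β) ⊆ Sg β)
    (hS : ∀ β, ∀ w ∈ Sg β, ‖w - τ.cp hh z‖ ≤ rs + μ)
    (mid : ∀ β, ∀ v : Y, (vorCell Y v ∩ pvkqRtR (eN β :: t β)).Nonempty → v ∈ K ∧ σ v = κ v)
    (hD : ∀ β, eD β ∈ eN β :: t β) (hζd : ‖ζd‖ = 1) (D : ∀ β, Pvge4DoorReg ζd δ ρd (xc β) (xa β) (xb β) (y0 β) (y1 β) (Rm β) (eD β))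
    (hH : ∀ β, ∃ v : Y, xb β ≤ (ζd * (v : ℂ)).re ∧ P.toMap.Join univ (pvldCol σ {u : Y | (u : ℂ) ∈ Rm β} β) (pvhiEnd P.toMap β a₁) v)
    (hfoot : ∀ β, (ζd * ((pvhiEnd P.toMap β a₁ : Y) : ℂ)).re ≤ xc β)
    (hRm : ∀ β, ∀ u : Y, (u : ℂ) ∈ Rm β → u ∈ K ∧ vorCell Y u ⊆ closedBall (u : ℂ) ρd)
    (hRκ : ∀ β, ∀ u : Y, (u : ℂ) ∈ Rm β → xc β < (ζd * (u : ℂ)).re → σ u = κ u) :
    PvldRun P.toMap σ K (𝔖.ep 𝔖.np) a₁ := by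
  subst hP₀
  subst hP
  obtain ⟨GN, G, J₀, J₁, hG, hsub⟩ := pvdd_feet_A (h := h) (K := K) (σ := σ) (up := id) (at_ := 𝔖.ep 𝔖.np) (ad := a₁)
    (fun GN GC hA => pvhu_foot_out hμ hYY hm ha₀ E ht1 ht2 hζ hout hU hA hS hσf hσκ hinK es et) hδ hr hev R hρl hdS hjN hjS hSN hSS mid hD hζd D hH hfoot hRm hRκ
  have t1 : ‖((delMap h₀).src (𝔖₀.ep 𝔖₀.np) : ℂ) - τ.cp hh z‖ ≤ N.rho * hh / 4 := ha₀.good.tip_p.1
  have hK0 : (delMap h).src (𝔖.ep 𝔖.np) ∈ K := hinK _ (by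
    have es' : (((delMap h₀).src (𝔖₀.ep 𝔖₀.np) : Y₀) : ℂ) = (delMap h).src (𝔖.ep 𝔖.np) := es
    rw [← es']; linarith [E.rs0, E.rho])
  exact pvhj_run_foot h hK (pvwk_ep_bw ha.stub ha.gate.bw_p le_rfl) h1 (fun e => hdis ⟨𝔖.np, le_rfl, e⟩) hco (pvj8_out_stub ha hK0 hgp h1 hdis) J₀ J₁ hG hsub fun _ => Subset.rfl

/-- the two feet and the lanes (`pvdd_feet_A` of 228, exit tip), any presentation -/
theorem pvj8_feet_pl (hP : P = delPl h) {at_ ad : P.Dart} {xB yL yU μa : ℝ} {c : ℂ}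
    (foot : ∀ GN GC : Bool → Set ℂ, (∀ β, PvhjArm Y κ β ζ xB yL yU μa c rs β (GN β) (GC β) (Sg β)) → PvhjFootP P σ κ K at_ GN)
    (hδ : 0 < δ) (hr : ∀ β, PvkqRoute δ (eC β :: eN β :: t β)) (hev : ∀ β, cfOf Y κ ∈ pvkqRtEv δ β (eC β :: eN β :: t β))
    (R : ∀ β, PvhzArmReg ζ xB yL yU μa c rs ρl β (eN β).1 (eC β).1 (Sg β))
    (hρl : δ / 16 ≤ ρl) (hdS : ∀ β, VorDense Y (Sg β) ρl) (hjN : ∀ β, jN β < 4) (hjS : ∀ β, jS β < 4)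
    (hSN : ∀ β, pvhzSd δ (pvkqCell δ (eN β).2.2) (jN β) ⊆ Sg β) (hSS : ∀ β, pvhzSd δ (pvkqCell δ (eC β).2.1) (jS β) ⊆ Sg β)
    (mid : ∀ β, ∀ v : Y, (vorCell Y v ∩ pvkqRtR (eN β :: t β)).Nonempty → v ∈ K ∧ σ v = κ v)
    (hD : ∀ β, eD β ∈ eN β :: t β) (hζd : ‖ζd‖ = 1) (D : ∀ β, Pvge4DoorReg ζd δ ρd (xc β) (xa β) (xb β) (y0 β) (y1 β) (Rm β) (eD β))
    (hH : ∀ β, ∃ v : Y, xb β ≤ (ζd * (v : ℂ)).re ∧ P.toMap.Join univ (pvldCol σ {u : Y | (u : ℂ) ∈ Rm β} β) (pvhiEnd P.toMap β ad) v)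
    (hfoot : ∀ β, (ζd * ((pvhiEnd P.toMap β ad : Y) : ℂ)).re ≤ xc β)
    (hRm : ∀ β, ∀ u : Y, (u : ℂ) ∈ Rm β → u ∈ K ∧ vorCell Y u ⊆ closedBall (u : ℂ) ρd)
    (hRκ : ∀ β, ∀ u : Y, (u : ℂ) ∈ Rm β → xc β < (ζd * (u : ℂ)).re → σ u = κ u) :
    ∃ GN G : Bool → Set ℂ, PvhjFootP P σ κ K at_ GN ∧ PvhjFootP P σ κ K ad G ∧ PvhjMid Y σ κ K G ∧ ∀ β, GN β ⊆ G β := by
  subst hP
  exact pvdd_feet_A (h := h) (K := K) (σ := σ) (up := id) (at_ := at_) (ad := ad) foot hδ hr hev R hρl hdS hjN hjS hSN hSS mid hD hζd D hH hfoot hRm hRκ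

end link

/-! ## 2. at the model: states + meshes + colour lines + region inclusions -/

section model

variable {N : PvwNum} {b : Bool} {ω η : Conf PvPt} {L : PvilLk} {𝔖₀ : PvwSt (pvieT ω)} {𝔖 𝔖' : PvwSt (pvieT η)} {Kc U W Fr : Set ℂ} {μ μ₀ r r₁ ρ rs rt : ℝ} {ζ : ℂ} {κ : ℂ → Bool} {Sg : Bool → Set ℂ}
  {δ ρl : ℝ} {eC eN eD : Bool → Set ℂ × ℂ × ℂ} {t : Bool → List (Set ℂ × ℂ × ℂ)} {jN jS : Bool → ℕ} {ζd : ℂ} {xc xa xb y0 y1 : Bool → ℝ} {Rm : Bool → Set ℂ}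

/-- the exit half state of a pin in the standard frame, in plain words -/
theorem pvj8_st {p : PvilPl} (hfr : p.fr = 1) {η : Conf PvPt} {𝔖 : PvwSt (pvieT η)} (h : PvilOut N b p η 𝔖) : 𝔖.AtOut (dlsPos (pvieY η)) N p.h p.z p.ty (pvieCol η b) := by
  have st := h.st
  rw [pvfc7_pos_std hfr, pvfc7_zf_std hfr] at st
  exact st

/-- **DET.ev OF AN OUT-TYPE HYBRID LINK `pin → door type plug`, AT THE MODEL.**
`ω` = the base (state `𝔖₀`, mesh `ρ` of the BIG mouth, mesh `μ₀` read in the kept mouth `U`), `η` = the final configuration (carried twin `𝔖` of 71, door state `𝔖'`, mesh `μ` read in the window `W`).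
COLOURS: the frozen positions keep their colour (`hcF`), the sites of the fresh region `Fr` (mouth ∪ tile) which are not frozen carry the copy colouring `κ` (relative to `b`).
EVERYTHING ELSE IS STATE FREE: numbers `n`, arm record `R`, cut door record `D`, inclusions of the regions of the routes / of the rooms of the half lanes in the cores of `W`, in the room `L.Yin`, in `Fr` off the own-level box. -/
theorem pvj8_A (h0 : L.dr = false) (h1 : L.dr' = true) (hfr : L.p.fr = 1) (hb : L.p.ty.b * L.p.h ≤ pvwRad N L.p.h L.p.ty L.p.ty.k)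
    (hp₀ : PvilOut N b L.p ω 𝔖₀) (hp : PvilOut N b L.p η 𝔖) (tw : PvLocSP (pvfc7R ω η Kc) 𝔖₀ 𝔖) (hd : PvilDoor (pvkdP L.p'.h) b η L.p'.z L.p'.fr 𝔖')
    (n : PvhgEndNum N L.p.h L.p.ty r r₁ ρ rs) (mesh₀ : VorDense (pvieY ω) (closedBall (L.p.ty.cp L.p.h L.p.z) (r + 3 * ρ)) ρ)
    (ht1 : ‖((pvieT ω).src (𝔖₀.ep 𝔖₀.np) : ℂ) - L.p.ty.cp L.p.h L.p.z‖ + 2 * ρ ≤ rt) (ht2 : ‖((pvieT ω).tgt (𝔖₀.ep 𝔖₀.np) : ℂ) - L.p.ty.cp L.p.h L.p.z‖ + 2 * ρ ≤ rt)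
    (hζ : ζ ∈ pvtzdDir) (hout : pvwRad N L.p.h L.p.ty L.p.ty.k + (ζ * L.p.z).re < (ζ * (𝔖₀.ap : ℂ)).re)
    (hμ₀ : 0 < μ₀) (hYY : pvieY ω ∩ U = pvieY η ∩ U) (hmU : PvtrMesh μ₀ U (pvieY ω)) (hU : closedBall (L.p.ty.cp L.p.h L.p.z) (rs + 4 * ρ + 3 * μ₀) ⊆ U)
    (hμ : 0 < μ) (hmW : PvtrMesh μ W (pvieY η))
    (hcF : ∀ a ∈ pvilFzO N b L.p ω, cfCol η a = cfCol ω a) (hcκ : ∀ a ∈ cfSites η, a ∈ Fr → a ∉ pvilFzO N b L.p ω → (cfCol η a == b) = κ a)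
    (hbd : Bornology.IsBounded L.Yin) (hpc : IsPreconnected L.Yinᶜ) (hcore : ∀ w ∈ L.Yin, L.p.ty.b * L.p.h ≤ ‖w - L.p.z‖)
    (ball : closedBall (L.p.ty.cp L.p.h L.p.z) (rs + 5 * ρ) ⊆ L.Yin) (ball' : closedBall (L.p.ty.cp L.p.h L.p.z) (rs + 4 * ρ + μ₀) ⊆ L.Yin) (ballF : closedBall (L.p.ty.cp L.p.h L.p.z) (rs + 4 * ρ) ⊆ Fr)
    (hδ : 0 < δ) (hr : ∀ β, PvkqRoute δ (eC β :: eN β :: t β)) (hev : ∀ β, cfOf (pvieY η) κ ∈ pvkqRtEv δ β (eC β :: eN β :: t β))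
    (R : ∀ β, PvhzArmReg ζ (pvwRad N L.p.h L.p.ty L.p.ty.k + (ζ * L.p.z).re) ((ζ * L.p.ty.cp L.p.h L.p.z).im - rt) ((ζ * L.p.ty.cp L.p.h L.p.z).im + rt) (2 * ρ) (L.p.ty.cp L.p.h L.p.z) rs ρl β (eN β).1 (eC β).1 (Sg β))
    (hρl : δ / 16 ≤ ρl) (hμl : μ ≤ ρl) (hjN : ∀ β, jN β < 4) (hjS : ∀ β, jS β < 4)
    (hSN : ∀ β, pvhzSd δ (pvkqCell δ (eN β).2.2) (jN β) ⊆ Sg β) (hSS : ∀ β, pvhzSd δ (pvkqCell δ (eC β).2.1) (jS β) ⊆ Sg β)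
    (hS : ∀ β, ∀ w ∈ Sg β, ‖w - L.p.ty.cp L.p.h L.p.z‖ ≤ rs + μ₀) (hSW : ∀ β, Sg β ⊆ pvtrCore μ W)
    (hRW : ∀ β, pvkqRtR (eN β :: t β) ⊆ pvtrCore (4 * μ) W) (hRY : ∀ β, vorNbd (pvkqRtR (eN β :: t β)) (2 * μ) ⊆ L.Yin)
    (hRF : ∀ β, vorNbd (pvkqRtR (eN β :: t β)) μ ⊆ Fr \ pvwSq L.p.z (pvwRad N L.p.h L.p.ty L.p.ty.k))
    (hD : ∀ β, eD β ∈ eN β :: t β) (hζd : ‖ζd‖ = 1) (D : ∀ β, Pvge4DoorReg ζd δ μ (xc β) (xa β) (xb β) (y0 β) (y1 β) (Rm β) (eD β))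
    (hH : ∀ β, ∃ v : pvieY η, xb β ≤ (ζd * (v : ℂ)).re ∧ (pvieT η).Join univ (pvldCol (pvieCol η b) {u : pvieY η | (u : ℂ) ∈ Rm β} β) (pvhiEnd (pvieT η) β 𝔖'.dm) v)
    (hfoot : ∀ β, (ζd * ((pvhiEnd (pvieT η) β 𝔖'.dm : pvieY η) : ℂ)).re ≤ xc β)
    (hRmW : ∀ β, Rm β ⊆ pvtrCore (3 * μ) W) (hRmY : ∀ β, vorNbd (Rm β) μ ⊆ L.Yin)
    (hRmF : ∀ β, ∀ w ∈ Rm β, xc β < (ζd * w).re → w ∈ Fr \ pvwSq L.p.z (pvwRad N L.p.h L.p.ty L.p.ty.k))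
    (hgm : (𝔖'.gm : ℂ) ∉ pvwSq L.p.z (pvwRad N L.p.h L.p.ty L.p.ty.k)) : η ∈ L.A N b := by
  have st₀ := pvj8_st hfr hp₀
  have st := pvj8_st hfr hp
  have hf1 : ‖L.p.fr‖ = 1 := by rw [hfr]; exact norm_one
  have eF : pvilFzO N b L.p ω = pviePos ω '' 𝔖₀.fzOut := pvfc7_fzO hf1 hp₀
  have hFB : ∀ a ∈ pvilFzO N b L.p ω, a ∈ pvwSq L.p.z (pvwRad N L.p.h L.p.ty L.p.ty.k) := by
    rw [eF]
    rintro _ ⟨u, hu, rfl⟩
    exact pvfc7_fzO_box hfr hb hp₀ u hu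
  obtain ⟨k1, k2⟩ := pvhj_K_pl (h := hp.good) (delb_pl_eq hp.good) hpc (by rw [compl_compl]; exact hbd)
  have hκ' : ∀ v : pvieY η, (v : ℂ) ∈ Fr \ pvwSq L.p.z (pvwRad N L.p.h L.p.ty L.p.ty.k) → pvieCol η b v = κ v := fun v hv => hcκ v.1 v.2 hv.1 fun h => hv.2 (hFB _ h)
  have hgp : 𝔖.gp ∉ pvgeKV (pvieY η) L.Yinᶜ := fun hK => absurd (pvhg_il_gp_disc (Or.inl hfr) hp) (not_lt.2 (hcore _ (pvhg_KV_over hK)))
  have dd := pvhg_door_data hd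
  have hdis : 𝔖'.gm ∉ 𝔖.bkP := fun hm => hgm (pvfc7_fzO_box hfr hb hp _ (pvwk_banksP_sub_fzOut 𝔖 (Or.inl hm)))
  have hρ := n.rho
  have hmU' : PvtrMesh μ₀ U (pvieY η) := (pvtr_mesh_congr hYY).1 hmU
  refine pvhg_il_A ((PvilLk.atP_pin h0 _ _ _ _).2 hp) ((PvilLk.atP'_door h1 _ _ _ _).2 hd) hdis (fun e => by rw [h1] at e; cases e) (fun v hv => pvhg_KV_over hv) ?_
  rw [dd.2.2.2.1]
  refine pvj8_link (delb_pl_eq hp₀.good) (delb_pl_eq hp.good) hμ₀ hYY hmU st₀ (pvhg_end n mesh₀ ball) ht1 ht2 hζ hout hU st (pvhc_tip_out tw).1 (pvhc_tip_out tw).2 ?_ ?_ k1 k2 ?_ hgp dd.2.2.2.2.2 hdis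
    hδ hr hev R hρl (fun β => pvdd_dense_of hmW (hSW β) hμl) hjN hjS hSN hSS hS
    (fun β => pvdd_mid_of hμ hmW (hRW β) (Set.disjoint_compl_right_iff_subset.2 (hRY β)) fun v hv => hκ' v (hRF β hv))
    hD hζd D hH hfoot (fun β => pvdd_room_of hμ hmW (hRmW β) (Set.disjoint_compl_right_iff_subset.2 (hRmY β))) fun β u hu hx => hκ' u (hRmF β _ hu hx)
  · intro v v' e _ hv
    show (cfCol η v'.1 == b) = (cfCol ω v.1 == b)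
    rw [← e, hcF v.1 (by rw [eF]; exact ⟨v, pvwk_banksP_sub_fzOut 𝔖₀ hv, rfl⟩)]
  · intro v v' e hn hv
    rw [e]
    refine hcκ v'.1 v'.2 (ballF (by rw [mem_closedBall, dist_eq_norm, ← e]; exact hn.le)) ?_
    rw [eF, ← e]
    rintro ⟨u, hu, huv⟩
    exact hv ((Subtype.ext huv : u = v) ▸ hu)
  · intro v hn
    have hcoreU : (v : ℂ) ∈ pvtrCore (3 * μ₀) U := by
      intro w hw
      refine hU ?_
      rw [mem_closedBall, dist_eq_norm] at hw ⊢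
      have e : w - L.p.ty.cp L.p.h L.p.z = (w - (v : ℂ)) + ((v : ℂ) - L.p.ty.cp L.p.h L.p.z) := by ring
      rw [e]
      exact (norm_add_le _ _).trans (by linarith)
    refine pvhg_KV_iff.2 ((pvhu_cell_ball hμ₀ hmU' hcoreU).trans fun w hw => ball' ?_)
    rw [mem_closedBall, dist_eq_norm] at hw ⊢
    have e : w - L.p.ty.cp L.p.h L.p.z = (w - (v : ℂ)) + ((v : ℂ) - L.p.ty.cp L.p.h L.p.z) := by ring
    rw [e]
    exact (norm_add_le _ _).trans (by linarith)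

end model

/-! ## 3. a link `pin → door type plug` of `Tr/InstL`: the regions (mirror of `PvhuLay` of 66), the plain success -/

/-- **ALL THAT DET OWES TO THE REGIONS OF A LINK `pin → door`** (no configuration, no state; MIRROR of `PvhuLay` of 66, `Tr/HookTA`).   `W` = the window (mesh `μ` at the final configuration), `Fr` = the FRESH part (tile ∪ mouth off the own-level box: copy colours),
tip: side `ζ`, box `{re (ζ w) ≤ xB}`, centre `c` of the tip cell, small mouth `rs`, mesh `ρ` of the big mouth at the base, `rt`;   routes of the two colours listed FROM THE TIP `eC β :: eN β :: t β`, closing sets `Sg β`;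
door: rooms `Rm β`, targets `Dr β` of the two half lanes of the ENTRANCE side, legs `eD β` across the rooms beyond the cut `xc β` (CUT record of 298: a leg may run up or down). -/
structure Pvj8Lay (L : PvilLk) (N : PvwNum) (W Fr : Set ℂ) (μ μ' : ℝ) (ζ : ℂ) (xB : ℝ) (c : ℂ) (rs ρ rt ρl δ : ℝ)
    (eC eN eD : Bool → Set ℂ × ℂ × ℂ) (t : Bool → List (Set ℂ × ℂ × ℂ)) (Sg : Bool → Set ℂ) (jN jS : Bool → ℕ)
    (ζd : ℂ) (Rm Dr : Bool → Set ℂ) (xc xa xb y0 y1 : Bool → ℝ) : Prop where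
  mu : 0 < μ
  rho : 0 ≤ ρ
  bdd : Bornology.IsBounded L.Yin
  co : IsPreconnected L.Yinᶜ
  /-- (Rc) of RULING 22: the room with its collar lies in the window -/
  collar : ∀ v ∈ L.Yin, closedBall v (3 * μ) ⊆ W
  /-- the room is off the disc of the core of the pin -/
  core : ∀ w ∈ L.Yin, L.p.ty.b * L.p.h ≤ ‖w - L.p.z‖
  dl : 0 < δ
  route : ∀ β, PvkqRoute δ (eC β :: eN β :: t β)
  arm : ∀ β, PvhzArmReg ζ xB ((ζ * c).im - rt) ((ζ * c).im + rt) (2 * ρ) c rs ρl β (eN β).1 (eC β).1 (Sg β)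
  rl : δ / 16 ≤ ρl
  mul : μ ≤ ρl
  sgW : ∀ β, Sg β ⊆ pvtrCore μ W
  jN4 : ∀ β, jN β < 4
  jS4 : ∀ β, jS β < 4
  sN : ∀ β, pvhzSd δ (pvkqCell δ (eN β).2.2) (jN β) ⊆ Sg β
  sS : ∀ β, pvhzSd δ (pvkqCell δ (eC β).2.1) (jS β) ⊆ Sg β
  sgc : ∀ β, ∀ x ∈ Sg β, ‖x - c‖ ≤ rs + μ'
  /-- the small mouth with its collar lies in the room -/
  mouth : closedBall c (rs + 4 * ρ + μ) ⊆ L.Yin
  /-- arm and middle legs: deep in the room, in the fresh part -/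
  mid : ∀ β, ∀ w ∈ pvkqRtR (eN β :: t β), closedBall w (2 * μ) ⊆ L.Yin ∧ closedBall w μ ⊆ Fr
  leg : ∀ β, eD β ∈ eN β :: t β
  nz : ‖ζd‖ = 1
  door : ∀ β, Pvge4DoorReg ζd δ μ (xc β) (xa β) (xb β) (y0 β) (y1 β) (Rm β) (eD β)
  /-- the disc of the gate (it contains the feet of the half lanes) lies before the cut -/
  foot : ∀ β, ∀ w ∈ ball L.p'.z (pvkdP L.p'.h).b, (ζd * w).re ≤ xc β
  tgt : ∀ β, ∀ w ∈ Dr β, xb β ≤ (ζd * w).re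
  room : ∀ β, ∀ w ∈ Rm β, closedBall w μ ⊆ L.Yin
  roomF : ∀ β, ∀ w ∈ Rm β, xc β < (ζd * w).re → w ∈ Fr
  /-- the disc of the gate is off the own-level box of the pin -/
  offBox : Disjoint (ball L.p'.z (pvkdP L.p'.h).b) (pvhaBx N L.p)

section lk

variable {L : PvilLk} {N : PvwNum} {W Fr : Set ℂ} {μ μ' : ℝ} {ζ : ℂ} {xB : ℝ} {c : ℂ} {rs ρ rt ρl δ : ℝ}
  {eC eN eD : Bool → Set ℂ × ℂ × ℂ} {t : Bool → List (Set ℂ × ℂ × ℂ)} {Sg : Bool → Set ℂ} {jN jS : Bool → ℕ}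
  {ζd : ℂ} {Rm Dr : Bool → Set ℂ} {xc xa xb y0 y1 : Bool → ℝ} {b : Bool} {η : Conf PvPt}

/-- the feet of the entrance side of a gate of record lie in the outer disc -/
theorem pvj8_foot_rim {κ' V D : Type} {T : PvMap V D} {mk : V → κ'} {s : V → Bool} {KI KO : Set κ'} {g : T.Gate s} (h : PvzlIn T mk KI KO g.c) (β : Bool) : mk (pvhiEnd T β g.aIn) ∈ KO := by
  obtain ⟨k, hk⟩ := pvhf_foot_rim g false β
  rw [← pvvx_end_foot g false β] at hk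
  have e : pvhiEnd T β (cond false g.aOut g.aIn) = pvhiEnd T β g.aIn := rfl
  rw [← e, hk]
  exact h.rim k

/-- **THE PLAIN SUCCESS OF A LINK `pin → door type plug`** at ONE configuration `η`: mesh of the window, the exit half state of the pin, the gate of record of the plug with the two half lanes of its entrance side (173: `PvyoSd`),
a copy colouring `κ` (relative colours) with the two route events, `σ = κ` on the fresh part, THE FOOT at the tip for every family of arms -/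
theorem pvj8_A_pd (Λ : Pvj8Lay L N W Fr μ μ' ζ xB c rs ρ rt ρl δ eC eN eD t Sg jN jS ζd Rm Dr xc xa xb y0 y1) (h0 : L.dr = false) (h1 : L.dr' = true) (hf : PvhgFr L.p.fr)
    (hm : PvtrMesh μ W (pvieY η)) {𝔖 : PvwSt (pvieT η)} (hp : PvilOut N b L.p η 𝔖) {g : (pvieT η).Gate (pvieCol η b)}
    (hd : PvilDoor (pvkdP L.p'.h) b η L.p'.z L.p'.fr (pvilStS (pvkdP L.p'.h) η (pvieCol η b) L.p'.z g))
    (hg : PvzlGt (pvieT η) Subtype.val (pvieCol η b) ((pvkdP L.p'.h).pg L.p'.z L.p'.fr) g)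
    (hH : ∀ β, ∃ v : ↥(pvieY η), (v : ℂ) ∈ Dr β ∧ (pvieT η).Join univ (pvldCol (pvieCol η b) {u | (u : ℂ) ∈ Rm β} β) (pvkdFoot g false β) v)
    {κ : ℂ → Bool} (hev : ∀ β, cfOf (pvieY η) κ ∈ pvkqRtEv δ β (eC β :: eN β :: t β)) (hfr : ∀ v : ↥(pvieY η), (v : ℂ) ∈ Fr → pvieCol η b v = κ v)
    (htipc : ‖((pvieT η).src (𝔖.ep 𝔖.np) : ℂ) - c‖ < rs + 4 * ρ)
    (foot : ∀ (K : Set ↥(pvieY η)) (GN GC Sg' : Bool → Set ℂ),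
      (∀ β, PvhjArm (pvieY η) κ β ζ xB ((ζ * c).im - rt) ((ζ * c).im + rt) (2 * ρ) c rs β (GN β) (GC β) (Sg' β)) → (∀ β, ∀ x ∈ Sg' β, ‖x - c‖ ≤ rs + μ') →
      (∀ v : ↥(pvieY η), ‖(v : ℂ) - c‖ < rs + 4 * ρ → v ∈ K) → PvhjFootP (delbPl (pvieY η)) (pvieCol η b) κ K (𝔖.ep 𝔖.np) GN) :
    η ∈ L.A N b := by
  have hμ := Λ.mu
  have hgood := hp.good
  obtain ⟨k1, k2⟩ := pvhj_K_pl (h := hgood) (delb_pl_eq hgood) Λ.co (by rw [compl_compl]; exact Λ.bdd)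
  have hcell : ∀ v : ↥(pvieY η), (v : ℂ) ∈ L.Yin → vorCell (pvieY η) v ⊆ closedBall (v : ℂ) μ := fun v hv => pvhu_cell_ball hμ hm (Λ.collar v hv)
  have hinK : ∀ v : ↥(pvieY η), closedBall (v : ℂ) μ ⊆ L.Yin → v ∈ pvgeKV (pvieY η) L.Yinᶜ := fun v hv => pvhg_KV_iff.2 ((hcell v (hv (mem_closedBall_self hμ.le))).trans hv)
  have hsm : ∀ v : ↥(pvieY η), ‖(v : ℂ) - c‖ < rs + 4 * ρ → v ∈ pvgeKV (pvieY η) L.Yinᶜ := fun v hv => hinK v ((pvhu_ball_ball hv.le).trans Λ.mouth)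
  have hgp : 𝔖.gp ∉ pvgeKV (pvieY η) L.Yinᶜ := fun hK => absurd (pvhg_il_gp_disc hf hp) (not_lt.2 (Λ.core _ (pvhg_KV_over hK)))
  have hvm : ((g.vm : ↥(pvieY η)) : ℂ) ∈ ball L.p'.z (pvkdP L.p'.h).b := by
    have := pvj8_foot_rim hg.least.reg true
    rwa [show pvhiEnd (pvieT η) true g.aIn = g.vm from pvtg_aIn_src g] at this
  have hdis : (pvieT η).src g.aIn ∉ 𝔖.bkP := by
    rw [pvtg_aIn_src]
    rintro ⟨i, hi, e⟩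
    refine disjoint_left.1 Λ.offBox hvm ?_
    rw [← e]
    exact ((pvha_stp_pin hp).ep_in i hi).1
  have hbw : pvasBW (pvieT η) (pvieCol η b) (𝔖.ep 𝔖.np) := pvwk_ep_bw hp.st.stub hp.st.gate.bw_p le_rfl
  have hrun : PvldRun (pvieT η) (pvieCol η b) (pvgeKV (pvieY η) L.Yinᶜ) (𝔖.ep 𝔖.np) g.aIn := by
    have F : ∃ GN G : Bool → Set ℂ, PvhjFootP (delbPl (pvieY η)) (pvieCol η b) κ (pvgeKV (pvieY η) L.Yinᶜ) (𝔖.ep 𝔖.np) GN ∧ PvhjFootP (delbPl (pvieY η)) (pvieCol η b) κ (pvgeKV (pvieY η) L.Yinᶜ) g.aIn G ∧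
        PvhjMid (pvieY η) (pvieCol η b) κ (pvgeKV (pvieY η) L.Yinᶜ) G ∧ ∀ β, GN β ⊆ G β := by
      refine pvj8_feet_pl (delb_pl_eq hgood) (K := pvgeKV (pvieY η) L.Yinᶜ) (σ := pvieCol η b) (at_ := 𝔖.ep 𝔖.np) (ad := g.aIn)
        (fun GN GC A => foot _ GN GC Sg A Λ.sgc hsm) Λ.dl Λ.route hev Λ.arm Λ.rl
        (fun β => VorDense.mono hm Subset.rfl (Λ.sgW β) Λ.mul) Λ.jN4 Λ.jS4 Λ.sN Λ.sS ?_ Λ.leg Λ.nz Λ.door (fun β => ?_) (fun β => Λ.foot β _ (pvj8_foot_rim hg.least.reg β)) ?_ ?_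
      · rintro β v ⟨w, hw1, hw2⟩
        obtain ⟨m1, m2⟩ := Λ.mid β w hw2
        have hwY : w ∈ L.Yin := m1 (mem_closedBall_self (by linarith))
        have hwc : w ∈ pvtrCore μ W := (closedBall_subset_closedBall (by linarith)).trans (Λ.collar w hwY)
        have hwv : ‖w - (v : ℂ)‖ ≤ μ := vor_site_near hm hw1 hwc
        have hvw : ‖(v : ℂ) - w‖ ≤ μ := by rwa [norm_sub_rev]
        refine ⟨hinK v (((pvhu_ball_ball hvw).trans (by rw [← two_mul])).trans m1), hfr v (m2 ?_)⟩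
        rwa [mem_closedBall, dist_eq_norm]
      · obtain ⟨v, hv, hj⟩ := hH β
        rw [← pvvx_end_foot g false β] at hj
        exact ⟨v, Λ.tgt β _ hv, hj⟩
      · intro β u hu
        exact ⟨hinK u (Λ.room β u hu), hcell u (Λ.room β u hu (mem_closedBall_self hμ.le))⟩
      · intro β u hu hx
        exact hfr u (Λ.roomF β u hu hx)
    obtain ⟨GN, G, J₀, J₁, hG, hsub⟩ := F
    exact pvhj_run_foot_pl (delb_pl_eq hgood) k1 hbw (pvtg_aIn_bw g) (fun e => hdis ⟨𝔖.np, le_rfl, e⟩) k2 (pvj8_out_stub hp.st (hsm _ htipc) hgp (pvtg_aIn_bw g) hdis) J₀ J₁ hG hsub fun _ => Subset.rfl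
  exact pvha_A_pd (K := pvgeKV (pvieY η) L.Yinᶜ) h0 h1 hp hd hgp (fun v hv => pvhg_KV_over hv) hrun

end lk

/-! ## 4. the tip foot at the model; DET.ev in the `η`-form of 196 -/

section foot

variable {N : PvwNum} {b : Bool} {ω η : Conf PvPt} {p : PvilPl} {𝔖₀ : PvwSt (pvieT ω)} {𝔖 : PvwSt (pvieT η)} {Kc U : Set ℂ} {μ' r r₁ ρ rs rt : ℝ} {ζ : ℂ} {κ : ℂ → Bool}

/-- **THE FOOT AT THE TIP OF THE CARRIED EXIT HALF STATE** for every family of arms at the sites of `η` (66 `pvhu_foot_out_pl`), pin in the standard frame.      Certificates AT THE BASE ONLY: mesh `ρ` of the big mouth, mesh `μ'` read in the kept mouth `U`.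
COLOURS: the frozen positions keep their colour, the sites of `U` which are not frozen carry `κ` (relative colours). -/
theorem pvj8_foot (hfr : p.fr = 1) (hp₀ : PvilOut N b p ω 𝔖₀) (hp : PvilOut N b p η 𝔖) (tw : PvLocSP (pvfc7R ω η Kc) 𝔖₀ 𝔖)
    (n : PvhgEndNum N p.h p.ty r r₁ ρ rs) (hbig : VorDense (pvieY ω) (closedBall (p.ty.cp p.h p.z) (r + 3 * ρ)) ρ)
    (hrt : N.rho * p.h / 4 + 2 * ρ ≤ rt) (hζ : ζ ∈ pvtzdDir)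
    (side : ∀ w : ℂ, w ∉ pvwSq p.z (pvwRad N p.h p.ty p.ty.k) → ‖w - p.ty.cp p.h p.z‖ ≤ N.rho * p.h / 4 + 2 * ρ → pvwRad N p.h p.ty p.ty.k + (ζ * p.z).re < (ζ * w).re)
    (hμ' : 0 < μ') (hYY : pvieY ω ∩ U = pvieY η ∩ U) (hmU : PvtrMesh μ' U (pvieY ω)) (hU : closedBall (p.ty.cp p.h p.z) (rs + 4 * ρ + 3 * μ') ⊆ U)
    (hcF : ∀ a ∈ pvilFzO N b p ω, cfCol η a = cfCol ω a) (hcκ : ∀ a ∈ cfSites η, a ∈ U → a ∉ pvilFzO N b p ω → (cfCol η a == b) = κ a) :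
    ‖((pvieT η).src (𝔖.ep 𝔖.np) : ℂ) - p.ty.cp p.h p.z‖ < rs + 4 * ρ ∧
    ∀ (K : Set ↥(pvieY η)) (GN GC Sg' : Bool → Set ℂ),
      (∀ β, PvhjArm (pvieY η) κ β ζ (pvwRad N p.h p.ty p.ty.k + (ζ * p.z).re) ((ζ * p.ty.cp p.h p.z).im - rt) ((ζ * p.ty.cp p.h p.z).im + rt) (2 * ρ) (p.ty.cp p.h p.z) rs β (GN β) (GC β) (Sg' β)) →
      (∀ β, ∀ x ∈ Sg' β, ‖x - p.ty.cp p.h p.z‖ ≤ rs + μ') → (∀ v : ↥(pvieY η), ‖(v : ℂ) - p.ty.cp p.h p.z‖ < rs + 4 * ρ → v ∈ K) →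
      PvhjFootP (delbPl (pvieY η)) (pvieCol η b) κ K (𝔖.ep 𝔖.np) GN := by
  have st := pvj8_st hfr hp₀
  have hf1 : ‖p.fr‖ = 1 := by rw [hfr]; exact norm_one
  have eF : pvilFzO N b p ω = pviePos ω '' 𝔖₀.fzOut := pvfc7_fzO hf1 hp₀
  have hρ := n.rho
  have E : PvhjEnd (pvieY ω) N p.h p.ty (p.ty.cp p.h p.z) univ r r₁ ρ rs := ⟨n.rho, n.r2, n.r1, n.rr, hbig, n.far, n.rs0, n.rs1, n.rs2, fun _ _ => mem_univ _⟩
  have g1 : ‖((pvieT ω).src (𝔖₀.ep 𝔖₀.np) : ℂ) - p.ty.cp p.h p.z‖ ≤ N.rho * p.h / 4 := st.good.tip_p.1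
  have g1' : ‖((delbPl (pvieY ω)).toMap.src (𝔖₀.ep 𝔖₀.np) : ℂ) - p.ty.cp p.h p.z‖ ≤ N.rho * p.h / 4 := st.good.tip_p.1
  have g2' : ‖((delbPl (pvieY ω)).toMap.tgt (𝔖₀.ep 𝔖₀.np) : ℂ) - p.ty.cp p.h p.z‖ ≤ N.rho * p.h / 4 := st.good.tip_p.2
  have g3 := pvhu_tip_out_pl (delb_pl_eq hp₀.good) st n.rho (r := r) (by linarith [n.r1, n.rr, n.rho, n.rho0]) hbig
  have hout : pvwRad N p.h p.ty p.ty.k + (ζ * p.z).re < (ζ * (𝔖₀.ap : ℂ)).re := side _ st.stub.ep_out g3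
  refine ⟨by rw [← (pvhc_tip_out tw).1]; linarith [n.rs0], fun K GN GC Sg' A hS hKK => ?_⟩
  refine pvhu_foot_out_pl (delb_pl_eq hp₀.good) (delb_pl_eq hp.good) hμ' hYY hmU st E (rt := rt) (by linarith) (by linarith) hζ hout hU A hS ?_ ?_ hKK (pvhc_tip_out tw).1 (pvhc_tip_out tw).2
  · intro v v' e _ hv
    show (cfCol η v'.1 == b) = (cfCol ω v.1 == b)
    rw [← e, hcF v.1 (by rw [eF]; exact ⟨v, pvwk_banksP_sub_fzOut 𝔖₀ hv, rfl⟩)]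
  · intro v v' e hn hv
    rw [e]
    refine hcκ v'.1 v'.2 (hU (by rw [mem_closedBall, dist_eq_norm, ← e]; linarith)) ?_
    rw [eF, ← e]
    rintro ⟨u, hu, huv⟩
    exact hv ((Subtype.ext huv : u = v) ▸ hu)

end foot

section evf

variable {τ : Type} {c : ℝ}

/-- **THE NUMBERS AND REGIONS AT THE TIP OF AN OUT-TYPE HYBRID LINK** (no configuration; mirror of `PvhuTipE` of 66): `Mo` = recoloured mouth, `C` = resampled region (tile ∪ region of the plug);   mesh `μ₀` of the own-level box, mesh `μ'` of the mouth, numbers of the big mouth `r r₁ ρ`, small mouth `rs`, `rt`, side `ζ` -/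
structure Pvj8Tip (𝔓 : PvxPar τ c) (m : ℕ) (z : ℂ) (t : τ) (Mo C : Set ℂ) (μ₀ μ' r r₁ ρ rs rt : ℝ) (ζ : ℂ) : Prop where
  mu0 : 0 < μ₀
  h3 : 3 * μ₀ ≤ pvlmDel c m
  hb : (𝔓.ty t).b * pvlmH m ≤ pviwRad 𝔓 m t
  hr : μ₀ < (𝔓.ty t).b * pvlmH m
  offC : Disjoint C (pvieSh z (pviwBox 𝔓 m t))
  MC : Disjoint Mo C
  mu' : 0 < μ'
  num : PvhgEndNum 𝔓.num (pvlmH m) (𝔓.ty t) r r₁ ρ rs
  rt : 𝔓.num.rho * pvlmH m / 4 + 2 * ρ ≤ rt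
  dir : ζ ∈ pvtzdDir
  /-- the tip cell faces the side `ζ` of the own-level box -/
  side : ∀ w : ℂ, w ∉ pvwSq z (pviwRad 𝔓 m t) → ‖w - (𝔓.ty t).cp (pvlmH m) z‖ ≤ 𝔓.num.rho * pvlmH m / 4 + 2 * ρ → pviwRad 𝔓 m t + (ζ * z).re < (ζ * w).re
  ball : closedBall ((𝔓.ty t).cp (pvlmH m) z) (rs + 4 * ρ + 3 * μ') ⊆ Mo

variable {𝔓 : PvxPar τ c} {m : ℕ} {z : ℂ} {t : τ} {Mo Kt Dd Wn Yin Mk : Set ℂ} {ru : ℝ} {zd d : ℂ} {μ μ₀ μ' r r₁ ρ rs rt ρl δ : ℝ} {ζ : ℂ} {ω η : Conf PvPt}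
  {eC eN eD : Bool → Set ℂ × ℂ × ℂ} {tt : Bool → List (Set ℂ × ℂ × ℂ)} {Sg : Bool → Set ℂ} {jN jS : Bool → ℕ} {ζd : ℂ} {xc xa xb y0 y1 : Bool → ℝ} {𝔭 : PvkdPlug} {𝔱 : PvhfTr} {s : ℝ} {τ' : ℂ → Bool}

/-- **DET.ev OF AN OUT-TYPE HYBRID LINK `t → door type plug (zd, d)`, THE PLAIN SUCCESS AND THE HULL, IN THE `η`-FORM OF 196** (thick return `f`: `L = pvjtLf`;   first link `o`: `L = pvilLo`).
REGIONS: `Θ` (tip), `Λ` (link; window `:= mouth ∪ tile ∪ region of the plug`, fresh part `:= (mouth ∪ tile) \ own-level box`, rooms and targets `:=` the placed truncated rooms of the ENTRANCE side of the plug `𝔭.sc s = pvkdP ru`).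
TESTS: `hside` (the side event is the placed `S⁻` of 174), `hpat` (the two routes, relative colours: `pvw7_pat_col` of 88).      CERTIFICATES AT THE BASE: `hm hmM hbig`.      AT `η`: nice, one colour per site, the mesh of the window (leaf (b6)), the three lines `hs hc hk` of `PvifFin`. -/
theorem pvj8_ev (Θ : Pvj8Tip 𝔓 m z t Mo (Kt ∪ Dd) μ₀ μ' r r₁ ρ rs rt ζ)
    (Λ : Pvj8Lay ⟨pvilPin 𝔓 m z t, pvilPlug ru zd d, Yin, Mk, false, true⟩ 𝔓.num (Mo ∪ Kt ∪ Dd) ((Mo ∪ Kt) \ pvwSq z (pviwRad 𝔓 m t))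
      μ μ' ζ (pviwRad 𝔓 m t + (ζ * z).re) ((𝔓.ty t).cp (pvlmH m) z) rs ρ rt ρl δ eC eN eD tt Sg jN jS ζd
      (fun β => pvkdAt zd (d * s) (𝔱.Ln false β)) (fun β => pvkdAt zd (d * s) (𝔱.Dr false β)) xc xa xb y0 y1)
    (hG : PvhfGeo 𝔭 𝔱) (hd1 : ‖d‖ = 1) (hs0 : 0 < s) (hsc : 𝔭.sc s = pvkdP ru) (hside : pvdpT zd (d * s) (𝔓.col t) η ∈ pvhfS 𝔭 𝔱 false)
    (hpat : ∀ β, cfOf (cfSites η) (pvhcK τ' (𝔓.col t)) ∈ pvkqRtEv δ β (eC β :: eN β :: tt β))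
    (hm : ω ∈ pvrgMesh μ₀ (pvieSh z (pviwBox 𝔓 m t))) (hmM : ω ∈ pvrgMesh μ' Mo) (hbig : VorDense (cfSites ω) (closedBall ((𝔓.ty t).cp (pvlmH m) z) (r + 3 * ρ)) ρ)
    {𝔖₀ : PvwSt (pvieT ω)} (h₀ : PvilOut 𝔓.num (𝔓.col t) (pvilPin 𝔓 m z t) ω 𝔖₀)
    (hnice : PvatNice (cfSites η)) (hone : ∀ p ∈ η.pts, ∀ q ∈ η.pts, p.1 = q.1 → p = q)
    (hWz : pvilWz 𝔓 m z t (pvilZo 𝔓 m z t ω) ⊆ Wn) (hWM : Mo ∪ Kt ∪ Dd ⊆ Wn) (hmesh : PvtrMesh μ Wn (cfSites η))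
    (hs : ∀ a ∈ Wn, a ∉ Kt ∪ Dd → (a ∈ cfSites η ↔ a ∈ cfSites ω))
    (hc : ∀ a ∈ cfSites ω, a ∈ Wn → a ∉ Kt ∪ Dd → a ∉ Mo \ pvilFo 𝔓 m z t ω → cfCol η a = cfCol ω a)
    (hk : ∀ a ∈ cfSites η, a ∈ Wn → (a ∈ Kt ∨ a ∈ Mo \ pvilFo 𝔓 m z t ω) → cfCol η a = τ' a) :
    η ∈ PvilLk.A ⟨pvilPin 𝔓 m z t, pvilPlug ru zd d, Yin, Mk, false, true⟩ 𝔓.num (𝔓.col t) ∧ pvilZo 𝔓 m z t η = pvilZo 𝔓 m z t ω := by
  obtain ⟨𝔖, tw, hp, -, eZ⟩ := pvhq_carry Θ.mu0 Θ.h3 Θ.hb Θ.hr hm h₀ hnice.good hWz Θ.offC hs hc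
  have hFB : ∀ a ∈ pvilFo 𝔓 m z t ω, a ∈ pvwSq z (pviwRad 𝔓 m t) := by
    intro a ha
    have eF : pvilFo 𝔓 m z t ω = pviePos ω '' 𝔖₀.fzOut := pvfc7_fzO (pvfc7_pin_fr 𝔓 m z t) h₀
    rw [eF] at ha
    obtain ⟨u, hu, rfl⟩ := ha
    exact pvfc7_fzO_box (pvhc_pin_fr 𝔓 m z t) Θ.hb h₀ u hu
  have hA : Pvfc7Agr (pvfc7Wo 𝔓 m z t ω) (pvilFo 𝔓 m z t ω) ω η :=
    pvhq_agr hs hc ((pvjv_carf_Wo 𝔓 m z t ω).subset.trans hWz) (Θ.offC.mono_right inter_subset_right)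
      ((pvfc7_fo_core Θ.hb h₀).trans (pvfc7_core_sub (pvlm_Del_pos c m).le _)) pvfc7_fzO_sites (disjoint_left.2 fun _ h1 h2 => h2.2 h1)
  have hMW : Mo ⊆ Wn := fun a ha => hWM (Or.inl (Or.inl ha))
  have hYY : pvieY ω ∩ Mo = pvieY η ∩ Mo := by
    ext a
    constructor
    · rintro ⟨h1, h2⟩
      exact ⟨(hs a (hMW h2) (disjoint_left.1 Θ.MC h2)).2 h1, h2⟩
    · rintro ⟨h1, h2⟩
      exact ⟨(hs a (hMW h2) (disjoint_left.1 Θ.MC h2)).1 h1, h2⟩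
  obtain ⟨htip, foot⟩ := pvj8_foot (κ := pvhcK τ' (𝔓.col t)) (pvhc_pin_fr 𝔓 m z t) h₀ hp tw Θ.num hbig Θ.rt Θ.dir Θ.side Θ.mu' hYY hmM Θ.ball hA.2
    (fun a ha hM hF => by
      show (cfCol η a == 𝔓.col t) = (τ' a == 𝔓.col t)
      rw [hk a ha (hMW hM) (Or.inr ⟨hM, hF⟩)])
  obtain ⟨g, hsd⟩ := pvyo_side hG false hd1 hs0 hone hnice.good hside
  have hd := hsd.door hG hnice
  have hgate := hsd.gate
  rw [hsc] at hd hgate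
  refine ⟨?_, eZ⟩
  refine pvj8_A_pd (η := η) (b := 𝔓.col t) (g := g) (κ := pvhcK τ' (𝔓.col t)) Λ rfl rfl (Or.inl rfl) (VorDense.mono hmesh Subset.rfl (pvtr_core_mono hWM) le_rfl) hp hd hgate (fun β => ?_) hpat
    (fun v hv => ?_) htip foot
  · cases β
    · exact hsd.white
    · exact hsd.black
  · show (cfCol η v.1 == 𝔓.col t) = (τ' v.1 == 𝔓.col t)
    rcases hv.1 with h | h
    · rw [hk v.1 v.2 (hMW h) (Or.inr ⟨h, fun hF => hv.2 (hFB _ hF)⟩)]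
    · rw [hk v.1 v.2 (hWM (Or.inl (Or.inr h))) (Or.inl h)]

end evf

/-! ## 5. THE D FORM: VALID AT ALL TIP CELLS (CORNERS INCLUDED)      (`Pvj8Tip.side` is FALSE at the corner tip cells of the menu: 266, 23;   mirror of `Tr/FrcDetA` of 266) -/

/-- **ALL THAT DET OWES TO THE REGIONS OF A LINK `pin → door`** (no configuration, no state), D FORM = `PvhoLay` of 266 mirrored.   `W` = the window (mesh `μ` at the final configuration), `Fr` = the FRESH part (copy colours),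
tip: prescribed side `ζ`, centre `c` of the tip cell, small mouth `rs`, mesh `ρ` of the big mouth at the base, `rt`, `e₀`;   routes of the two colours listed FROM THE TIP `eC β :: eN β :: t β`, closing sets `Sg β`;
door: rooms `Rm β`, targets `Dr β` of the two half lanes of the ENTRANCE side, legs `eD β` across the rooms beyond the cut `xc β`. -/
structure Pvj8LayD (L : PvilLk) (N : PvwNum) (W Fr : Set ℂ) (μ : ℝ) (ζ c : ℂ) (rs ρ rt e₀ ρl δ : ℝ)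
    (eC eN eD : Bool → Set ℂ × ℂ × ℂ) (t : Bool → List (Set ℂ × ℂ × ℂ)) (Sg : Bool → Set ℂ) (jN jS : Bool → ℕ)
    (ζd : ℂ) (Rm Dr : Bool → Set ℂ) (xc xa xb y0 y1 : Bool → ℝ) : Prop where
  mu : 0 < μ
  rho : 0 ≤ ρ
  he : rt + 2 * ρ < e₀
  bdd : Bornology.IsBounded L.Yin
  co : IsPreconnected L.Yinᶜ
  /-- (Rc) of RULING 22: the room with its collar lies in the window -/
  collar : ∀ v ∈ L.Yin, closedBall v (3 * μ) ⊆ W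
  /-- the room is off the disc of the core of the pin -/
  core : ∀ w ∈ L.Yin, L.p.ty.b * L.p.h ≤ ‖w - L.p.z‖
  dl : 0 < δ
  route : ∀ β, PvkqRoute δ (eC β :: eN β :: t β)
  arm1 : ∀ β, PvhzArmReg ζ ((ζ * c).re - e₀) ((ζ * c).im - rt) ((ζ * c).im + rt) (2 * ρ) c rs ρl β (eN β).1 (eC β).1 (Sg β)
  arm2 : ∀ β, PvhzArmReg ζ ((ζ * c).re + e₀) ((ζ * c).im - rt) ((ζ * c).im + rt) (2 * ρ) c rs ρl β (eN β).1 (eC β).1 (Sg β)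
  rl : δ / 16 ≤ ρl
  mul : μ ≤ ρl
  sgW : ∀ β, Sg β ⊆ pvtrCore μ W
  jN4 : ∀ β, jN β < 4
  jS4 : ∀ β, jS β < 4
  sN : ∀ β, pvhzSd δ (pvkqCell δ (eN β).2.2) (jN β) ⊆ Sg β
  sS : ∀ β, pvhzSd δ (pvkqCell δ (eC β).2.1) (jS β) ⊆ Sg β
  /-- the small mouth with its collar lies in the room -/
  mouth : closedBall c (rs + 4 * ρ + μ) ⊆ L.Yin
  /-- arm and middle legs: deep in the room, in the fresh part -/
  mid : ∀ β, ∀ w ∈ pvkqRtR (eN β :: t β), closedBall w (2 * μ) ⊆ L.Yin ∧ closedBall w μ ⊆ Fr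
  leg : ∀ β, eD β ∈ eN β :: t β
  nz : ‖ζd‖ = 1
  door : ∀ β, Pvge4DoorReg ζd δ μ (xc β) (xa β) (xb β) (y0 β) (y1 β) (Rm β) (eD β)
  /-- the disc of the gate (it contains the feet of the half lanes) lies before the cut -/
  foot : ∀ β, ∀ w ∈ ball L.p'.z (pvkdP L.p'.h).b, (ζd * w).re ≤ xc β
  tgt : ∀ β, ∀ w ∈ Dr β, xb β ≤ (ζd * w).re
  room : ∀ β, ∀ w ∈ Rm β, closedBall w μ ⊆ L.Yin
  roomF : ∀ β, ∀ w ∈ Rm β, xc β < (ζd * w).re → w ∈ Fr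
  /-- the disc of the gate is off the own-level box of the pin -/
  offBox : Disjoint (ball L.p'.z (pvkdP L.p'.h).b) (pvhaBx N L.p)

section lkD

variable {L : PvilLk} {N : PvwNum} {W Fr : Set ℂ} {μ : ℝ} {ζ c : ℂ} {rs ρ rt e₀ ρl δ : ℝ}
  {eC eN eD : Bool → Set ℂ × ℂ × ℂ} {t : Bool → List (Set ℂ × ℂ × ℂ)} {Sg : Bool → Set ℂ} {jN jS : Bool → ℕ}
  {ζd : ℂ} {Rm Dr : Bool → Set ℂ} {xc xa xb y0 y1 : Bool → ℝ} {b : Bool} {η : Conf PvPt}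

/-- **THE PLAIN SUCCESS OF A LINK `pin → door type plug`** at ONE configuration `η`, ALL TIP CELLS: mesh of the window, the exit half state of the pin, the gate of record of the plug with the two half lanes of its entrance side (173: `PvyoSd`),
a copy colouring `κ` (relative colours) with the two route events, `σ = κ` on the fresh part, THE FOOT at the tip for every family of arms `PvhjArmT` -/
theorem pvj8_A_pdD (Λ : Pvj8LayD L N W Fr μ ζ c rs ρ rt e₀ ρl δ eC eN eD t Sg jN jS ζd Rm Dr xc xa xb y0 y1) (h0 : L.dr = false) (h1 : L.dr' = true) (hf : PvhgFr L.p.fr)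
    (hm : PvtrMesh μ W (pvieY η)) {𝔖 : PvwSt (pvieT η)} (hp : PvilOut N b L.p η 𝔖) {g : (pvieT η).Gate (pvieCol η b)}
    (hd : PvilDoor (pvkdP L.p'.h) b η L.p'.z L.p'.fr (pvilStS (pvkdP L.p'.h) η (pvieCol η b) L.p'.z g))
    (hg : PvzlGt (pvieT η) Subtype.val (pvieCol η b) ((pvkdP L.p'.h).pg L.p'.z L.p'.fr) g)
    (hH : ∀ β, ∃ v : ↥(pvieY η), (v : ℂ) ∈ Dr β ∧ (pvieT η).Join univ (pvldCol (pvieCol η b) {u | (u : ℂ) ∈ Rm β} β) (pvkdFoot g false β) v)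
    {κ : ℂ → Bool} (hev : ∀ β, cfOf (pvieY η) κ ∈ pvkqRtEv δ β (eC β :: eN β :: t β)) (hfr : ∀ v : ↥(pvieY η), (v : ℂ) ∈ Fr → pvieCol η b v = κ v)
    (htipc : ‖((pvieT η).src (𝔖.ep 𝔖.np) : ℂ) - c‖ < rs + 4 * ρ)
    (foot : ∀ (K : Set ↥(pvieY η)) (GN GC Sg' : Bool → Set ℂ),
      (∀ β, PvhjArmT (pvieY η) κ β ζ c rt ρ rs β (GN β) (GC β) (Sg' β)) →
      (∀ v : ↥(pvieY η), ‖(v : ℂ) - c‖ < rs + 4 * ρ → v ∈ K) → PvhjFootP (delbPl (pvieY η)) (pvieCol η b) κ K (𝔖.ep 𝔖.np) GN) :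
    η ∈ L.A N b := by
  have hμ := Λ.mu
  have hgood := hp.good
  obtain ⟨k1, k2⟩ := pvhj_K_pl (h := hgood) (delb_pl_eq hgood) Λ.co (by rw [compl_compl]; exact Λ.bdd)
  have hcell : ∀ v : ↥(pvieY η), (v : ℂ) ∈ L.Yin → vorCell (pvieY η) v ⊆ closedBall (v : ℂ) μ := fun v hv => pvhu_cell_ball hμ hm (Λ.collar v hv)
  have hinK : ∀ v : ↥(pvieY η), closedBall (v : ℂ) μ ⊆ L.Yin → v ∈ pvgeKV (pvieY η) L.Yinᶜ := fun v hv => pvhg_KV_iff.2 ((hcell v (hv (mem_closedBall_self hμ.le))).trans hv)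
  have hsm : ∀ v : ↥(pvieY η), ‖(v : ℂ) - c‖ < rs + 4 * ρ → v ∈ pvgeKV (pvieY η) L.Yinᶜ := fun v hv => hinK v ((pvhu_ball_ball hv.le).trans Λ.mouth)
  have hgp : 𝔖.gp ∉ pvgeKV (pvieY η) L.Yinᶜ := fun hK => absurd (pvhg_il_gp_disc hf hp) (not_lt.2 (Λ.core _ (pvhg_KV_over hK)))
  have hvm : ((g.vm : ↥(pvieY η)) : ℂ) ∈ ball L.p'.z (pvkdP L.p'.h).b := by
    have := pvj8_foot_rim hg.least.reg true
    rwa [show pvhiEnd (pvieT η) true g.aIn = g.vm from pvtg_aIn_src g] at this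
  have hdis : (pvieT η).src g.aIn ∉ 𝔖.bkP := by
    rw [pvtg_aIn_src]
    rintro ⟨i, hi, e⟩
    refine disjoint_left.1 Λ.offBox hvm ?_
    rw [← e]
    exact ((pvha_stp_pin hp).ep_in i hi).1
  have hbw : pvasBW (pvieT η) (pvieCol η b) (𝔖.ep 𝔖.np) := pvwk_ep_bw hp.st.stub hp.st.gate.bw_p le_rfl
  have hrun : PvldRun (pvieT η) (pvieCol η b) (pvgeKV (pvieY η) L.Yinᶜ) (𝔖.ep 𝔖.np) g.aIn := by
    refine pvdd_link_o (h := hgood) (up := fun β => β) (delb_pl_eq hgood) hbw (fun GN GC A => foot _ GN GC Sg A hsm) k1 k2 g ?_ (pvj8_out_stub hp.st (hsm _ htipc) hgp (pvtg_aIn_bw g) hdis)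
      Λ.dl Λ.route hev Λ.rho Λ.he Λ.arm1 Λ.arm2 Λ.rl
      (fun β => VorDense.mono hm Subset.rfl (Λ.sgW β) Λ.mul) Λ.jN4 Λ.jS4 Λ.sN Λ.sS ?_ Λ.leg Λ.nz Λ.door (fun β => ?_) (fun β => Λ.foot β _ (pvj8_foot_rim hg.least.reg β)) ?_ ?_
    · intro e
      refine hdis ⟨𝔖.np, le_rfl, ?_⟩
      rw [pvtg_aIn_src]
      exact e
    · rintro β v ⟨w, hw1, hw2⟩
      obtain ⟨m1, m2⟩ := Λ.mid β w hw2
      have hwY : w ∈ L.Yin := m1 (mem_closedBall_self (by linarith))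
      have hwc : w ∈ pvtrCore μ W := (closedBall_subset_closedBall (by linarith)).trans (Λ.collar w hwY)
      have hwv : ‖w - (v : ℂ)‖ ≤ μ := vor_site_near hm hw1 hwc
      have hvw : ‖(v : ℂ) - w‖ ≤ μ := by rwa [norm_sub_rev]
      refine ⟨hinK v (((pvhu_ball_ball hvw).trans (by rw [← two_mul])).trans m1), hfr v (m2 ?_)⟩
      rwa [mem_closedBall, dist_eq_norm]
    · obtain ⟨v, hv, hj⟩ := hH β
      rw [← pvvx_end_foot g false β] at hj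
      exact ⟨v, Λ.tgt β _ hv, hj⟩
    · intro β u hu
      exact ⟨hinK u (Λ.room β u hu), hcell u (Λ.room β u hu (mem_closedBall_self hμ.le))⟩
    · intro β u hu hx
      exact hfr u (Λ.roomF β u hu hx)
  exact pvha_A_pd (K := pvgeKV (pvieY η) L.Yinᶜ) h0 h1 hp hd hgp (fun v hv => pvhg_KV_over hv) hrun

end lkD

section evD

variable {τ : Type} {c : ℝ} {𝔓 : PvxPar τ c} {m : ℕ} {z : ℂ} {t : τ} {Kt Dd Wn Yin Mk : Set ℂ} {ru : ℝ} {zd d : ℂ} {μ μ₀ rs rt e₀ ρl δ : ℝ} {ω η : Conf PvPt}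
  {eC eN eD : Bool → Set ℂ × ℂ × ℂ} {tt : Bool → List (Set ℂ × ℂ × ℂ)} {Sg : Bool → Set ℂ} {jN jS : Bool → ℕ} {ζd : ℂ} {xc xa xb y0 y1 : Bool → ℝ} {𝔭 : PvkdPlug} {𝔱 : PvhfTr} {s : ℝ} {τ' : ℂ → Bool}

/-- **THE FOOT AT THE TIP OF THE CARRIED EXIT HALF STATE, ALL TIP CELLS, `η`-FORM** (= `pvho_foot_out` of 266 without `PvjeFin`): kept mouth = the ball `5 R / 16`, same sites there, the frozen positions keep their colour, the other sites of the mouth carry the copy colouring -/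
theorem pvj8_footD (n : PvhoNum 𝔓) (hL : PvegLev 𝔓 m) (hT : pviwTyOk 𝔓 t) (hc : ∀ x ∈ 𝔓.cp t, ‖x - (𝔓.ty t).yp‖ ≤ 𝔓.num.rho / 10) (Θ : PvhoTip 𝔓 m t μ₀ rs rt)
    (mesh : VorDense (pvieY ω) (closedBall ((𝔓.ty t).cp (pvlmH m) z) (𝔓.num.rho2 * pvlmH m + 3 * μ₀)) μ₀)
    {𝔖₀ : PvwSt (pvieT ω)} (h₀ : PvilOut 𝔓.num (𝔓.col t) (pvilPin 𝔓 m z t) ω 𝔖₀) {Kr : Set ℂ} {𝔖 : PvwSt (pvieT η)} (hp : PvilOut 𝔓.num (𝔓.col t) (pvilPin 𝔓 m z t) η 𝔖) (tw : PvLocSP (pvfc7R ω η Kr) 𝔖₀ 𝔖)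
    (hYY : pvieY ω ∩ closedBall ((𝔓.ty t).cp (pvlmH m) z) (5 * (𝔓.num.rho * pvlmH m) / 16) = pvieY η ∩ closedBall ((𝔓.ty t).cp (pvlmH m) z) (5 * (𝔓.num.rho * pvlmH m) / 16))
    (hcF : ∀ a ∈ pvilFo 𝔓 m z t ω, cfCol η a = cfCol ω a)
    (hcκ : ∀ a ∈ cfSites η, a ∈ closedBall ((𝔓.ty t).cp (pvlmH m) z) (5 * (𝔓.num.rho * pvlmH m) / 16) → a ∉ pvilFo 𝔓 m z t ω → cfCol η a = τ' a) :
    ‖((pvieT η).src (𝔖.ep 𝔖.np) : ℂ) - (𝔓.ty t).cp (pvlmH m) z‖ < rs + 4 * μ₀ ∧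
    ∀ (K : Set ↥(pvieY η)) (GN GC Sg' : Bool → Set ℂ),
      (∀ β, PvhjArmT (pvieY η) (pvhcK τ' (𝔓.col t)) β ((starRingEnd ℂ) ((𝔓.Γ m).dout t)) ((𝔓.ty t).cp (pvlmH m) z) rt μ₀ rs β (GN β) (GC β) (Sg' β)) →
      (∀ v : ↥(pvieY η), ‖(v : ℂ) - (𝔓.ty t).cp (pvlmH m) z‖ < rs + 4 * μ₀ → v ∈ K) →
      PvhjFootP (delbPl (pvieY η)) (pvieCol η (𝔓.col t)) (pvhcK τ' (𝔓.col t)) K (𝔖.ep 𝔖.np) GN := by
  obtain ⟨s1, s2, s3, s0⟩ := pvho_small n m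
  have hμ := Θ.mu0
  have a := pvj8_st (pvhc_pin_fr 𝔓 m z t) h₀
  have a' : 𝔖₀.AtOut (dlsPos (pvieY ω)) 𝔓.num (pvlmH m) z (𝔓.ty t) (pvieCol ω (𝔓.col t)) := a
  have E' := pvho_endD_o n hL hT z hμ Θ.m80 Θ.rs0 (by linarith [Θ.rs1]) (by linarith [Θ.rt0]) Θ.rt1 mesh (K := univ) (fun _ _ => mem_univ _)
  have hm : PvtrMesh μ₀ (closedBall ((𝔓.ty t).cp (pvlmH m) z) (5 * (𝔓.num.rho * pvlmH m) / 16)) (pvieY ω) := fun x hx =>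
    mesh x (closedBall_subset_closedBall (by linarith) (hx (mem_closedBall_self hμ.le)))
  have tip := pvho_tip_o hc h₀ hμ (pvho_dense_mono mesh (by linarith))
  have inM : ∀ x : ℂ, ‖x - (𝔓.ty t).cp (pvlmH m) z‖ < rs + 4 * μ₀ → x ∈ closedBall ((𝔓.ty t).cp (pvlmH m) z) (5 * (𝔓.num.rho * pvlmH m) / 16) := fun x hx => by
    rw [mem_closedBall, dist_eq_norm]
    linarith [Θ.rs1]
  have t1 : ‖((delbPl (pvieY ω)).toMap.src (𝔖₀.ep 𝔖₀.np) : ℂ) - (𝔓.ty t).cp (pvlmH m) z‖ ≤ 𝔓.num.rho * pvlmH m / 10 := tip.1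
  have t2 : ‖((delbPl (pvieY ω)).toMap.tgt (𝔖₀.ep 𝔖₀.np) : ℂ) - (𝔓.ty t).cp (pvlmH m) z‖ ≤ 𝔓.num.rho * pvlmH m / 10 + 2 * μ₀ := tip.2
  have eF : pvilFo 𝔓 m z t ω = pviePos ω '' 𝔖₀.fzOut := pvfc7_fzO (pvfc7_pin_fr 𝔓 m z t) h₀
  refine ⟨by rw [← (pvhc_tip_out tw).1]; linarith [tip.1, Θ.rs0], fun K GN GC Sg' A hK => ?_⟩
  refine pvhj_foot_outU_pl (h₀ := h₀.good) (h := hp.good) (delb_pl_eq _) (delb_pl_eq _) hμ hYY hm a' E' (by linarith [Θ.rt0]) (by linarith [Θ.rt0])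
    (closedBall_subset_closedBall (by linarith [Θ.rs1])) A ?_ ?_ hK (pvhc_tip_out tw).1 (pvhc_tip_out tw).2
  · intro v v' e _ hv
    show (cfCol η v'.1 == 𝔓.col t) = (cfCol ω v.1 == 𝔓.col t)
    rw [← e, hcF v.1 (by rw [eF]; exact ⟨v, pvwk_banksP_sub_fzOut 𝔖₀ hv, rfl⟩)]
  · intro v v' e hn hv
    show (cfCol η v'.1 == 𝔓.col t) = (τ' v.1 == 𝔓.col t)
    rw [e, hcκ v'.1 v'.2 (by rw [← e]; exact inM _ hn) ?_]
    rw [eF, ← e]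
    rintro ⟨u, hu, huv⟩
    exact hv ((Subtype.ext huv : u = v) ▸ hu)

/-- **DET.ev OF AN OUT-TYPE HYBRID LINK `t → door type plug (zd, d)`, THE PLAIN SUCCESS AND THE HULL, ALL TIP CELLS, IN THE `η`-FORM OF 196** (thick return `f`: `L = pvjtLf`;   first link `o`: `L = pvilLo`).
NUMBERS: `n hL hT hc Θ` (266).   ENGINE: `offC MC`, recoloured mouth `= z + pvegOM`.   REGIONS: `Λ` (window `:= mouth ∪ tile ∪ region of the plug`, fresh part `:= (mouth ∪ tile) \ own-level box`, side `ζ := conj (dout t)`,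
rooms and targets `:=` the placed truncated rooms of the ENTRANCE side of the plug `𝔭.sc s = pvkdP ru`).      TESTS: `hside` (the placed `S⁻` of 174), `hpat` (the two routes, relative colours: `pvw7_pat_col` of 88).
ONE CERTIFICATE AT THE BASE: mesh `μ₀` read in `closedBall z (2 r_k + 4 h)`.      AT `η`: nice, one colour per site, the mesh of the window (leaf (b6)), the three lines `hs hc hk` of `PvifFin`. -/
theorem pvj8_evD (n : PvhoNum 𝔓) (hL : PvegLev 𝔓 m) (hT : pviwTyOk 𝔓 t) (hcp : ∀ x ∈ 𝔓.cp t, ‖x - (𝔓.ty t).yp‖ ≤ 𝔓.num.rho / 10) (Θ : PvhoTip 𝔓 m t μ₀ rs rt)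
    (offC : Disjoint (Kt ∪ Dd) (pvieSh z (pviwBox 𝔓 m t))) (MC : Disjoint (pvieSh z (pvegOM 𝔓 m t)) (Kt ∪ Dd))
    (Λ : Pvj8LayD ⟨pvilPin 𝔓 m z t, pvilPlug ru zd d, Yin, Mk, false, true⟩ 𝔓.num (pvieSh z (pvegOM 𝔓 m t) ∪ Kt ∪ Dd) ((pvieSh z (pvegOM 𝔓 m t) ∪ Kt) \ pvwSq z (pviwRad 𝔓 m t))
      μ ((starRingEnd ℂ) ((𝔓.Γ m).dout t)) ((𝔓.ty t).cp (pvlmH m) z) rs μ₀ rt e₀ ρl δ eC eN eD tt Sg jN jS ζd
      (fun β => pvkdAt zd (d * s) (𝔱.Ln false β)) (fun β => pvkdAt zd (d * s) (𝔱.Dr false β)) xc xa xb y0 y1)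
    (hG : PvhfGeo 𝔭 𝔱) (hd1 : ‖d‖ = 1) (hs0 : 0 < s) (hsc : 𝔭.sc s = pvkdP ru) (hside : pvdpT zd (d * s) (𝔓.col t) η ∈ pvhfS 𝔭 𝔱 false)
    (hpat : ∀ β, cfOf (cfSites η) (pvhcK τ' (𝔓.col t)) ∈ pvkqRtEv δ β (eC β :: eN β :: tt β))
    (cert : ω ∈ pvrgMesh μ₀ (closedBall z (2 * pviwRad 𝔓 m t + 4 * pvlmH m)))
    {𝔖₀ : PvwSt (pvieT ω)} (h₀ : PvilOut 𝔓.num (𝔓.col t) (pvilPin 𝔓 m z t) ω 𝔖₀)
    (hnice : PvatNice (cfSites η)) (hone : ∀ p ∈ η.pts, ∀ q ∈ η.pts, p.1 = q.1 → p = q)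
    (hWz : pvilWz 𝔓 m z t (pvilZo 𝔓 m z t ω) ⊆ Wn) (hWM : pvieSh z (pvegOM 𝔓 m t) ∪ Kt ∪ Dd ⊆ Wn) (hmesh : PvtrMesh μ Wn (cfSites η))
    (hs : ∀ a ∈ Wn, a ∉ Kt ∪ Dd → (a ∈ cfSites η ↔ a ∈ cfSites ω))
    (hc : ∀ a ∈ cfSites ω, a ∈ Wn → a ∉ Kt ∪ Dd → a ∉ pvieSh z (pvegOM 𝔓 m t) \ pvilFo 𝔓 m z t ω → cfCol η a = cfCol ω a)
    (hk : ∀ a ∈ cfSites η, a ∈ Wn → (a ∈ Kt ∨ a ∈ pvieSh z (pvegOM 𝔓 m t) \ pvilFo 𝔓 m z t ω) → cfCol η a = τ' a) :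
    η ∈ PvilLk.A ⟨pvilPin 𝔓 m z t, pvilPlug ru zd d, Yin, Mk, false, true⟩ 𝔓.num (𝔓.col t) ∧ pvilZo 𝔓 m z t η = pvilZo 𝔓 m z t ω := by
  have hb : (𝔓.ty t).b * pvlmH m ≤ pviwRad 𝔓 m t := by
    have := pvho_rad n m t
    have hh := pvlm_H_pos m
    unfold pviwRad
    linarith
  obtain ⟨𝔖, tw, hp, -, eZ⟩ := pvhq_carry Θ.mu0 Θ.h3 hb Θ.hr (pvho_cert_box n hL z cert) h₀ hnice.good hWz offC hs hc
  have hFB : ∀ a ∈ pvilFo 𝔓 m z t ω, a ∈ pvwSq z (pviwRad 𝔓 m t) := by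
    intro a ha
    have eF : pvilFo 𝔓 m z t ω = pviePos ω '' 𝔖₀.fzOut := pvfc7_fzO (pvfc7_pin_fr 𝔓 m z t) h₀
    rw [eF] at ha
    obtain ⟨u, hu, rfl⟩ := ha
    exact pvfc7_fzO_box (pvhc_pin_fr 𝔓 m z t) hb h₀ u hu
  have hA : Pvfc7Agr (pvfc7Wo 𝔓 m z t ω) (pvilFo 𝔓 m z t ω) ω η :=
    pvhq_agr hs hc ((pvjv_carf_Wo 𝔓 m z t ω).subset.trans hWz) (offC.mono_right inter_subset_right)
      ((pvfc7_fo_core hb h₀).trans (pvfc7_core_sub (pvlm_Del_pos c m).le _)) pvfc7_fzO_sites (disjoint_left.2 fun _ h1 h2 => h2.2 h1)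
  have hMW : pvieSh z (pvegOM 𝔓 m t) ⊆ Wn := fun a ha => hWM (Or.inl (Or.inl ha))
  have hYY : pvieY ω ∩ pvieSh z (pvegOM 𝔓 m t) = pvieY η ∩ pvieSh z (pvegOM 𝔓 m t) := by
    ext a
    constructor
    · rintro ⟨h1, h2⟩
      exact ⟨(hs a (hMW h2) (disjoint_left.1 MC h2)).2 h1, h2⟩
    · rintro ⟨h1, h2⟩
      exact ⟨(hs a (hMW h2) (disjoint_left.1 MC h2)).1 h1, h2⟩
  have eM := pvho_oM 𝔓 m t z
  obtain ⟨htip, foot⟩ := pvj8_footD (τ' := τ') n hL hT hcp Θ (pvho_cert_o n hT z Θ.m80 cert) h₀ hp tw (by rw [← eM]; exact hYY) hA.2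
    (fun a ha hM hF => hk a ha (hMW (by rw [eM]; exact hM)) (Or.inr ⟨by rw [eM]; exact hM, hF⟩))
  obtain ⟨g, hsd⟩ := pvyo_side hG false hd1 hs0 hone hnice.good hside
  have hd := hsd.door hG hnice
  have hgate := hsd.gate
  rw [hsc] at hd hgate
  refine ⟨?_, eZ⟩
  refine pvj8_A_pdD (η := η) (b := 𝔓.col t) (g := g) (κ := pvhcK τ' (𝔓.col t)) Λ rfl rfl (Or.inl rfl) (VorDense.mono hmesh Subset.rfl (pvtr_core_mono hWM) le_rfl) hp hd hgate (fun β => ?_) hpat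
    (fun v hv => ?_) htip foot
  · cases β
    · exact hsd.white
    · exact hsd.black
  · show (cfCol η v.1 == 𝔓.col t) = (τ' v.1 == 𝔓.col t)
    rcases hv.1 with h | h
    · rw [hk v.1 v.2 (hMW h) (Or.inr ⟨h, fun hF => hv.2 (hFB _ hF)⟩)]
    · rw [hk v.1 v.2 (hWM (Or.inl (Or.inr h))) (Or.inl h)]

end evD

end Claimed.Agent.R289
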