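-- KEEP
import Claimed.Agent.R289.Defs.GdReg
import Claimed.Agent.R289.Tr.RegQ
import Claimed.Agent.R289.Tr.LinkQ
import Claimed.Agent.R289.Tr.LinkF

/-!
# Row 289 (S0537), THE WALL, ROAD E, file Tr/RegE : THE FIELD `bad` OF THE GOOD PART, MODEL FREE TOOLS      (helper256, pen of `exit_pvie_gd`: RULING 16 (3) AMENDED of 234; prefix `pvrg_`, `pvrg`, `Pvrg`, continuation of `Defs/GdReg.lean`)

FORM OF RECORD (234 10:39Z, 11:02Z (4); 61 `Exit/AnaGd`; 271 `Exit/AnaDefs`: `PvnaGd τ`, `PvnaBad`, `PvnaGd.Wf` = `bad` + inclusions in NAMED SETS).      Named sets: `Defs/GdReg.lean`.      Top glue at the model: 238 `Exit/GdCut.lean`;   `U ∩ cert ⊆ Frc` at the model: 35 `Exit/FrcE.lean`.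
* sec. 1  SMALL EVENTS OF THE CONFIGURATION: `pvrgUp ε S = (pvhbUp ε).P {x | pvConf (pvMerge x) ∈ S}`, `PvrgSmall S` (`→ 0`, `ε ↓ 0`), `.mono .union .of_le .of_P .of_law .toReal` (shape of the field `bad`), **`pvrg_bad_of_cert`** : `U ∩ Cert ε ⊆ Gd ε`, `Certᶜ` small `⟹` `U \ Gd` small;
          `pvrg_bad2 pvrg_bad3` (intersections of halves), `pvrg_small_inter`, `pvrg_small_null` (a.s. events).
* sec. 2  **`pvrg_mesh_small`** : the mesh certificate `pvrgMesh r E` (bounded `E`) fails with small probability.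
* sec. 4  **E10 FOR AN END LINK WITH AN INTEGRATED PLUG, MODEL FREE** (tile `K`, plug region `D`, CONSTANT fresh set `S`, window `Wn`, success `pvsuSure (pvP ε) (Wn ×ˢ univ) Mev`: the shape of `pvilEo pvilEi pvilEe`):
          `PvrgDet Nc K D S Wn O ℋ 𝒦 Mev η₀` = THE DETERMINISTIC CONTRACT, ONE CONFIGURATION;   `PvrgBase` (nice base), `pvrg_base_ae`;   **`pvrg_end_of`** : `pvayGood2` at the base + nice base + threshold of the plug + one mixed order + `PvrgDet`  `⟹`  `η₀ ∈ pvrgFrc .. (t (b - θ))`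
          (inside: a.e. seed of the plug, `pvayGood2` carried to the resampled base by colour blindness, null set of bad tiles by a triple splice, `Sure` unfolded, ONE call of `pvlhf_forced1` of 250).
* sec. 5  `pvrgCert ε K D O Wn 𝒦 t θ` = the certificate of a link, **`pvrg_cert_small`**, **`pvrg_link_small`** (`PvrgSmall (U \\ Fr)` from `U ∩ cert ∩ mesh ⊆ Fr`), `pvrg_end_of_cert`.
* sec. 3  THE TEST CERTIFICATE = `pvayGood2` of 196 (soft threshold): `pvrg_test_small`;   the patterns of record of 21 as tests: **`pvrg_lane_small`**, **`pvrg_lane2_small`**;   **`pvrg_good2_congr`** : `pvayGood2` is COLOUR BLIND and reads the sites of `O \ C` only (at finite simple windows).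
-/

set_option autoImplicit false

namespace Claimed.Agent.R289

open MeasureTheory Filter Topology Set Claims.C0465
open scoped ENNReal

/-! ## 1. small events of the configuration -/

/-- upper probability (of the wall) of an event of the configuration -/
noncomputable def pvrgUp (ε : ℝ) (S : Set (Conf PvPt)) : ℝ≥0∞ := (pvhbUp ε).P {x | pvConf (pvMerge x) ∈ S}

/-- a family of events of the configuration whose upper probability tends to `0` -/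
def PvrgSmall (S : ℝ → Set (Conf PvPt)) : Prop := Tendsto (fun ε => pvrgUp ε (S ε)) (𝓝[>] (0 : ℝ)) (𝓝 0)

theorem pvrg_eqns_cite1 : True := by
  have := @pvrgUp.eq_1; have := @PvrgSmall.eq_1
  trivial

theorem pvrg_up_mono (ε : ℝ) {S T : Set (Conf PvPt)} (h : S ⊆ T) : pvrgUp ε S ≤ pvrgUp ε T := (pvhbUp ε).P_mono fun _ hx => h hx

theorem pvrg_up_union (ε : ℝ) (S T : Set (Conf PvPt)) : pvrgUp ε (S ∪ T) ≤ pvrgUp ε S + pvrgUp ε T := (pvhbUp ε).P_union_le _ _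

theorem pvrg_up_le (ε : ℝ) (S : Set (Conf PvPt)) : pvrgUp ε S ≤ pvP ε S := pvhb_up_P_conf ε S

theorem pvrg_up_le_law (ε : ℝ) (S : Set (Conf PvPt)) : pvrgUp ε S ≤ pvLaw ε {ω | pvConf ω ∈ S} := pvhb_up_P_law ε {ω | pvConf ω ∈ S}

theorem PvrgSmall.mono {S T : ℝ → Set (Conf PvPt)} (h : PvrgSmall T) (hs : ∀ᶠ ε in 𝓝[>] (0 : ℝ), S ε ⊆ T ε) : PvrgSmall S :=
  tendsto_of_tendsto_of_tendsto_of_le_of_le' tendsto_const_nhds h (Eventually.of_forall fun _ => zero_le) (hs.mono fun ε hε => pvrg_up_mono ε hε)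

theorem PvrgSmall.union {S T : ℝ → Set (Conf PvPt)} (hS : PvrgSmall S) (hT : PvrgSmall T) : PvrgSmall fun ε => S ε ∪ T ε := by
  have h := hS.add hT
  rw [add_zero] at h
  exact tendsto_of_tendsto_of_tendsto_of_le_of_le tendsto_const_nhds h (fun _ => zero_le) fun ε => pvrg_up_union ε _ _

theorem PvrgSmall.of_le {S : ℝ → Set (Conf PvPt)} {f : ℝ → ℝ≥0∞} (hf : Tendsto f (𝓝[>] (0 : ℝ)) (𝓝 0)) (h : ∀ᶠ ε in 𝓝[>] (0 : ℝ), pvrgUp ε (S ε) ≤ f ε) : PvrgSmall S :=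
  tendsto_of_tendsto_of_tendsto_of_le_of_le' tendsto_const_nhds hf (Eventually.of_forall fun _ => zero_le) h

theorem PvrgSmall.of_P {S : ℝ → Set (Conf PvPt)} (h : Tendsto (fun ε => pvP ε (S ε)) (𝓝[>] (0 : ℝ)) (𝓝 0)) : PvrgSmall S :=
  PvrgSmall.of_le h (Eventually.of_forall fun ε => pvrg_up_le ε _)

theorem PvrgSmall.of_law {S : ℝ → Set (Conf PvPt)} (h : Tendsto (fun ε => pvLaw ε {ω | pvConf ω ∈ S ε}) (𝓝[>] (0 : ℝ)) (𝓝 0)) : PvrgSmall S :=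
  PvrgSmall.of_le h (Eventually.of_forall fun ε => pvrg_up_le_law ε _)

/-- the shape of the field `bad` (`toReal`) -/
theorem PvrgSmall.toReal {S : ℝ → Set (Conf PvPt)} (h : PvrgSmall S) : Tendsto (fun ε => ((pvhbUp ε).P (pvMerge ⁻¹' (pvConf ⁻¹' S ε))).toReal) (𝓝[>] (0 : ℝ)) (𝓝 0) := by
  have h2 := (ENNReal.tendsto_toReal ENNReal.zero_ne_top).comp h
  rw [ENNReal.toReal_zero] at h2
  exact h2

/-- **THE GLUE OF THE FIELD `bad`**: a usable candidate with a certificate is good; the certificate fails with small probability -/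
theorem pvrg_bad_of_cert {U : Set (Conf PvPt)} {Gd Ct : ℝ → Set (Conf PvPt)} (hsub : ∀ᶠ ε in 𝓝[>] (0 : ℝ), U ∩ Ct ε ⊆ Gd ε) (hC : PvrgSmall fun ε => (Ct ε)ᶜ) :
    PvrgSmall fun ε => U \ Gd ε :=
  hC.mono (hsub.mono fun _ hε _ hη hc => hη.2 (hε ⟨hη.1, hc⟩))

/-- three halves -/
theorem pvrg_bad3 {U : Set (Conf PvPt)} {O I B : ℝ → Set (Conf PvPt)} (hO : PvrgSmall fun ε => U \ O ε) (hI : PvrgSmall fun ε => U \ I ε) (hB : PvrgSmall fun ε => U \ B ε) :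
    PvrgSmall fun ε => U \ (O ε ∩ I ε ∩ B ε) := by
  refine ((hO.union hI).union hB).mono (Eventually.of_forall fun ε η hη => ?_)
  by_cases h1 : η ∈ O ε
  · by_cases h2 : η ∈ I ε
    · exact Or.inr ⟨hη.1, fun h3 => hη.2 ⟨⟨h1, h2⟩, h3⟩⟩
    · exact Or.inl (Or.inr ⟨hη.1, h2⟩)
  · exact Or.inl (Or.inl ⟨hη.1, h1⟩)

theorem pvrg_bad2 {U : Set (Conf PvPt)} {O I : ℝ → Set (Conf PvPt)} (hO : PvrgSmall fun ε => U \ O ε) (hI : PvrgSmall fun ε => U \ I ε) : PvrgSmall fun ε => U \ (O ε ∩ I ε) := by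
  refine (hO.union hI).mono (Eventually.of_forall fun ε η hη => ?_)
  by_cases h1 : η ∈ O ε
  · exact Or.inr ⟨hη.1, fun h2 => hη.2 ⟨h1, h2⟩⟩
  · exact Or.inl ⟨hη.1, h1⟩

/-- an almost sure event -/
theorem pvrg_small_null {S : ℝ → Set (Conf PvPt)} (h : ∀ᶠ ε in 𝓝[>] (0 : ℝ), ∀ᵐ η ∂pvP ε, η ∈ S ε) : PvrgSmall fun ε => (S ε)ᶜ :=
  PvrgSmall.of_le tendsto_const_nhds (h.mono fun ε hε => (pvrg_up_le ε _).trans (le_of_eq (ae_iff.1 hε)))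

/-- complements of finite intersections -/
theorem pvrg_small_inter {S T : ℝ → Set (Conf PvPt)} (hS : PvrgSmall fun ε => (S ε)ᶜ) (hT : PvrgSmall fun ε => (T ε)ᶜ) : PvrgSmall fun ε => (S ε ∩ T ε)ᶜ :=
  (hS.union hT).mono (Eventually.of_forall fun _ => (compl_inter _ _).subset)

/-! ## 2. the mesh certificate (`pvrgMesh` of `Defs/GdReg`) -/

/-- **the mesh certificate fails with small probability** -/
theorem pvrg_mesh_small {r : ℝ} (hr : 0 < r) {E : Set ℂ} (hE : Bornology.IsBounded E) : PvrgSmall fun _ => (pvrgMesh r E)ᶜ :=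
  PvrgSmall.of_law (pvax_dense (hE.subset (pvtr_core_subset hr.le)) hr)

/-! ## 3. the test certificate -/

/-- **the test certificate of 196 fails with small probability** as soon as the PLAIN quenched estimate holds -/
theorem pvrg_test_small {C O : Set ℂ} (hC : MeasurableSet C) (hOm : MeasurableSet O) (hO : Bornology.IsBounded O) {𝒜 : Set (Conf PvPt)} (hA : MeasurableSet 𝒜)
    (hr : Conf.ReadsSet (O ×ˢ (univ : Set Bool)) 𝒜) {t : ℝ≥0∞} (hlim : Tendsto (fun ε : ℝ => pvGeo ε {g | pvQc 𝒜 g < t}) (𝓝[>] 0) (𝓝 0)) {θ : ℝ≥0∞} (hθ : θ ≠ 0) (hθ' : θ ≠ ∞) :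
    PvrgSmall fun ε => (pvayGood2 ε C O 𝒜 t θ)ᶜ :=
  pvay_forced_lim hC hOm hO hA hr hlim hθ hθ'

/-- **ONE PATTERN OF RECORD OF 21 AS A TEST**: region `R ⊆ closedBall z0 (M δ)`, ANY measurable tile `C`, any threshold `θ` -/
theorem pvrg_lane_small : ∃ q : ℝ, 0 < q ∧ q ≤ 1 ∧ ∀ (M : ℕ) (δ : ℝ) (c : Bool) (R : Set ℂ) (z0 x y : ℂ), MeasurableSet R → R ⊆ Metric.closedBall z0 (M * δ) → PvkqCore δ R x y →
    ∀ (C : Set ℂ), MeasurableSet C → ∀ θ : ℝ≥0∞, θ ≠ 0 → θ ≠ ∞ →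
      PvrgSmall fun ε => (pvayGood2 ε C R (pvkqEv δ c R x y) (ENNReal.ofReal (q ^ (15 * (2 * M + 1) ^ 2) / 2)) θ)ᶜ := by
  obtain ⟨q, h0, h1, hQ⟩ := exit_pvlq_q
  refine ⟨q, h0, h1, fun M δ c R z0 x y hRm hR hc C hC θ hθ hθ' => ?_⟩
  refine pvrg_test_small hC hRm (Metric.isBounded_closedBall.subset hR) (pvkq_Ev_meas hc.1 c R x y) (pvkq_Ev_reads hc c) ?_ hθ hθ'
  refine exit_pvlq_lim_of_unif hc.1 fun θ' hθ0 => ?_
  obtain ⟨U, hU, H⟩ := pvlq_lane h0 h1 hQ ((2 * M + 1) ^ 2) hθ0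
  obtain ⟨s1, s2, -, -, -, -, s7⟩ := pvkq_L_spec hc
  exact ⟨U, hU, fun ε hε hle => H ε hε δ hle c _ s1 s2 (s7 z0 M hR)⟩

/-- **TWO DISJOINT PATTERNS OF RECORD AS ONE TEST** (a black lane and a white lane: the pattern of a link) -/
theorem pvrg_lane2_small : ∃ q : ℝ, 0 < q ∧ q ≤ 1 ∧ ∀ (M : ℕ) (δ : ℝ) (c c' : Bool) (R R' : Set ℂ) (z0 z0' x y x' y' : ℂ), MeasurableSet R → MeasurableSet R' →
    R ⊆ Metric.closedBall z0 (M * δ) → R' ⊆ Metric.closedBall z0' (M * δ) → PvkqCore δ R x y → PvkqCore δ R' x' y' → Disjoint R R' →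
    ∀ (C : Set ℂ), MeasurableSet C → ∀ θ : ℝ≥0∞, θ ≠ 0 → θ ≠ ∞ →
      PvrgSmall fun ε => (pvayGood2 ε C (R ∪ R') (pvkqEv δ c R x y ∩ pvkqEv δ c' R' x' y') (ENNReal.ofReal ((q ^ (15 * (2 * M + 1) ^ 2) / 2) ^ 2)) θ)ᶜ := by
  obtain ⟨q, h0, h1, hQ⟩ := exit_pvlq_q
  refine ⟨q, h0, h1, fun M δ c c' R R' z0 z0' x y x' y' hRm hRm' hR hR' hc hc' hd C hC θ hθ hθ' => ?_⟩
  refine pvrg_test_small hC (hRm.union hRm') ((Metric.isBounded_closedBall.subset hR).union (Metric.isBounded_closedBall.subset hR'))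
    ((pvkq_Ev_meas hc.1 c R x y).inter (pvkq_Ev_meas hc.1 c' R' x' y')) ?_ ?_ hθ hθ'
  · exact ((pvkq_Ev_reads hc c).mono (prod_mono subset_union_left le_rfl)).inter ((pvkq_Ev_reads hc' c').mono (prod_mono subset_union_right le_rfl))
  · refine exit_pvlq_lim_of_unif hc.1 fun θ' hθ0 => ?_
    obtain ⟨U, hU, H⟩ := pvlq_corridor h0 h1 hQ ((2 * M + 1) ^ 2) hθ0
    obtain ⟨s1, s2, -, -, -, s6, s7⟩ := pvkq_L_spec hc
    obtain ⟨t1, t2, -, -, -, t6, t7⟩ := pvkq_L_spec hc'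
    exact ⟨U, hU, fun ε hε hle => H ε hε δ hle c c' _ _ s1 t1 s2 t2 (s7 z0 M hR) (t7 z0' M hR') (hd.mono s6 t6)⟩

/-- **`pvayGood2` IS COLOUR BLIND AND READS THE SITES OF `O \ C` ONLY** (windows finite, one colour per site) -/
theorem pvrg_good2_congr {ε : ℝ} (hε : 0 < ε) {C O : Set ℂ} (hOm : MeasurableSet O) (hO : Bornology.IsBounded O) {𝒜 : Set (Conf PvPt)} (hA : MeasurableSet 𝒜)
    (hr : Conf.ReadsSet (O ×ˢ (univ : Set Bool)) 𝒜) (t θ : ℝ≥0∞) {η η' : Conf PvPt} (hw : PvayWin O η) (hw' : PvayWin O η') (h : cfSites η ∩ (O \ C) = cfSites η' ∩ (O \ C)) :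
    η ∈ pvayGood2 ε C O 𝒜 t θ ↔ η' ∈ pvayGood2 ε C O 𝒜 t θ := by
  have key : pvP ε {η₂ | Conf.spl (Cᶜ ×ˢ (univ : Set Bool)) (η, η₂) ∉ pvayGood O 𝒜 t} = pvP ε {η₂ | Conf.spl (Cᶜ ×ˢ (univ : Set Bool)) (η', η₂) ∉ pvayGood O 𝒜 t} := by
    refine measure_congr ?_
    filter_upwards [dls_ae_conf hε] with η₂ h2
    have hw2 : PvayWin O η₂ := pvay_win_of_ok h2 hO
    have e : pvayQ (cfSites (Conf.spl (Cᶜ ×ˢ (univ : Set Bool)) (η, η₂))) 𝒜 = pvayQ (cfSites (Conf.spl (Cᶜ ×ˢ (univ : Set Bool)) (η', η₂))) 𝒜 := by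
      refine pvay_Q_congr hr ?_
      rw [pvay_sites_spl, pvay_sites_spl]
      ext z
      have hz : z ∈ O → z ∉ C → (z ∈ cfSites η ↔ z ∈ cfSites η') := fun h1 h2 =>
        ⟨fun h3 => (h.subset (⟨h3, h1, h2⟩ : z ∈ cfSites η ∩ (O \ C))).1, fun h3 => (h.symm.subset (⟨h3, h1, h2⟩ : z ∈ cfSites η' ∩ (O \ C))).1⟩
      simp only [pvdyYc, mem_inter_iff, mem_union, Set.mem_sdiff]
      constructor
      · rintro ⟨⟨h1, h2⟩ | h1, h3⟩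
        · exact ⟨Or.inl ⟨(hz h3 h2).1 h1, h2⟩, h3⟩
        · exact ⟨Or.inr h1, h3⟩
      · rintro ⟨⟨h1, h2⟩ | h1, h3⟩
        · exact ⟨Or.inl ⟨(hz h3 h2).2 h1, h2⟩, h3⟩
        · exact ⟨Or.inr h1, h3⟩
    refine propext ?_
    show Conf.spl (Cᶜ ×ˢ (univ : Set Bool)) (η, η₂) ∉ pvayGood O 𝒜 t ↔ Conf.spl (Cᶜ ×ˢ (univ : Set Bool)) (η', η₂) ∉ pvayGood O 𝒜 t
    rw [pvay_good_iff hOm hA hr (hw.spl C hw2), pvay_good_iff hOm hA hr (hw'.spl C hw2), e]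
  unfold pvayGood2
  simp only [mem_ofPred_eq, key]

/-! ## 4. E10 FOR AN END LINK WITH AN INTEGRATED PLUG, MODEL FREE: the contract of ONE configuration gives FORCED -/

theorem pvrg_mem_spl {W : Set ℂ} {σ ξ : Conf PvPt} {x : PvPt} : x ∈ (Conf.spl (W ×ˢ (univ : Set Bool)) (σ, ξ)).pts ↔ (x ∈ σ.pts ∧ x.1 ∈ W) ∨ (x ∈ ξ.pts ∧ x.1 ∉ W) := by
  simp only [Conf.spl, Conf.union, Conf.restr, mem_union, mem_inter_iff, mem_prod, mem_univ, and_true, mem_compl_iff]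

theorem pvrg_sites_spl (W : Set ℂ) (σ ξ : Conf PvPt) : cfSites (Conf.spl (W ×ˢ (univ : Set Bool)) (σ, ξ)) = (cfSites σ ∩ W) ∪ (cfSites ξ \ W) := by
  ext z
  simp only [cfSites, mem_image, mem_union, mem_inter_iff, Set.mem_sdiff]
  constructor
  · rintro ⟨x, hx, rfl⟩
    rcases pvrg_mem_spl.1 hx with ⟨h1, h2⟩ | ⟨h1, h2⟩
    · exact Or.inl ⟨⟨x, h1, rfl⟩, h2⟩
    · exact Or.inr ⟨⟨x, h1, rfl⟩, h2⟩
  · rintro (⟨⟨x, hx, rfl⟩, h2⟩ | ⟨⟨x, hx, rfl⟩, h2⟩)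
    · exact ⟨x, pvrg_mem_spl.2 (Or.inl ⟨hx, h2⟩), rfl⟩
    · exact ⟨x, pvrg_mem_spl.2 (Or.inr ⟨hx, h2⟩), rfl⟩

theorem pvrg_col_spl {W Y : Set ℂ} (μ : ℂ → Bool) (ξ : Conf PvPt) {z : ℂ} (hz : z ∈ W) (hY : z ∈ Y) : cfCol (Conf.spl (W ×ˢ (univ : Set Bool)) (cfOf Y μ, ξ)) z = μ z := by
  classical
  unfold cfCol
  cases h : μ z
  · rw [decide_eq_false_iff_not]
    intro hh
    rcases pvrg_mem_spl.1 hh with ⟨⟨-, h2⟩, -⟩ | ⟨-, h2⟩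
    · have h3 : true = μ z := h2
      rw [h] at h3
      exact Bool.noConfusion h3
    · exact h2 hz
  · rw [decide_eq_true_iff]
    exact pvrg_mem_spl.2 (Or.inl ⟨⟨hY, h.symm⟩, hz⟩)

theorem pvrg_simple_spl {W : Set ℂ} {σ ξ : Conf PvPt} (h : ∀ p ∈ σ.pts, ∀ q ∈ σ.pts, p.1 = q.1 → p = q) (h' : ∀ p ∈ ξ.pts, ∀ q ∈ ξ.pts, p.1 = q.1 → p = q) :
    ∀ p ∈ (Conf.spl (W ×ˢ (univ : Set Bool)) (σ, ξ)).pts, ∀ q ∈ (Conf.spl (W ×ˢ (univ : Set Bool)) (σ, ξ)).pts, p.1 = q.1 → p = q := by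
  intro p hp q hq e
  rcases pvrg_mem_spl.1 hp with ⟨h1, h2⟩ | ⟨h1, h2⟩ <;> rcases pvrg_mem_spl.1 hq with ⟨h3, h4⟩ | ⟨h3, h4⟩
  · exact h p h1 q h3 e
  · exact absurd (e ▸ h2) h4
  · exact absurd (e.symm ▸ h4) h2
  · exact h' p h1 q h3 e

theorem pvrg_simple_cfOf (Y : Set ℂ) (μ : ℂ → Bool) : ∀ p ∈ (cfOf Y μ).pts, ∀ q ∈ (cfOf Y μ).pts, p.1 = q.1 → p = q := by
  rintro ⟨a, b⟩ ⟨-, hb⟩ ⟨a', b'⟩ ⟨-, hb'⟩ e
  have e' : a = a' := e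
  subst e'
  have h1 : b = μ a := hb
  have h2 : b' = μ a := hb'
  rw [h1, h2]

/-- the sites of the four-fold combination: `Y₀` kept off `K ∪ D`, `Y₂` in `D`, `Y₃` in `K`, `Y₄` off the window `Wn` -/
def pvrgY4 (K D Wn Y₀ Y₂ Y₃ Y₄ : Set ℂ) : Set ℂ := (pvdyYc K (pvdyYc (K ∪ D) Y₀ Y₂) Y₃ ∩ Wn) ∪ (Y₄ \ Wn)

/-- **A NICE BASE**: almost every four-fold combination has the a.s. property `Nc` (`DelGood`, ..) -/
def PvrgBase (ε : ℝ) (Nc : Set ℂ → Prop) (K D Wn Y₀ : Set ℂ) : Prop :=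
  ∀ᵐ ω₂ ∂pvP ε, ∀ᵐ ω₃ ∂pvP ε, ∀ᵐ ξ ∂pvP ε, Nc (pvrgY4 K D Wn Y₀ (cfSites ω₂) (cfSites ω₃) (cfSites ξ))

/-- **THE DETERMINISTIC CONTRACT OF AN END LINK = ONE CONFIGURATION `η₂`**: simple, `Nc`, equal to the base `η₀` on the kept part `Wn \ (K ∪ D)` of the window (sites; colours off the fresh set `S`), with the half lanes `ℋ` of the plug;
some colouring `τ` which agrees with `η₂` at the fresh sites of the window `O` of the pattern (the COPY) realises the pattern `𝒦`.      Then the plain event `Mev` holds. -/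
def PvrgDet (Nc : Set ℂ → Prop) (K D S Wn O : Set ℂ) (ℋ 𝒦 Mev : Set (Conf PvPt)) (η₀ : Conf PvPt) : Prop :=
  ∀ η₂ : Conf PvPt, (∀ p ∈ η₂.pts, ∀ q ∈ η₂.pts, p.1 = q.1 → p = q) → Nc (cfSites η₂) →
    (∀ z ∈ Wn, z ∉ K → z ∉ D → (z ∈ cfSites η₂ ↔ z ∈ cfSites η₀)) →
    (∀ z ∈ Wn, z ∉ K → z ∉ D → z ∈ cfSites η₀ → z ∉ S → cfCol η₂ z = cfCol η₀ z) →
    η₂ ∈ ℋ → (∃ τ : ℂ → Bool, (∀ z ∈ O, z ∈ cfSites η₂ → (z ∈ K ∨ z ∈ S) → τ z = cfCol η₂ z) ∧ cfOf (cfSites η₂) τ ∈ 𝒦) → η₂ ∈ Mev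

theorem pvrg_eqns_cite4 : True := by
  have := @pvrgY4.eq_1; have := @PvrgBase.eq_1; have := @PvrgDet.eq_1
  trivial

/-- **almost every configuration is a nice base** -/
theorem pvrg_base_ae (ε : ℝ) {Nc : Set ℂ → Prop} (hN : ∀ᵐ η ∂pvP ε, Nc (cfSites η)) {K D Wn : Set ℂ} (hK : MeasurableSet K) (hD : MeasurableSet D) (hWn : MeasurableSet Wn) :
    ∀ᵐ η₀ ∂pvP ε, PvrgBase ε Nc K D Wn (cfSites η₀) := by
  have m1 : MeasurableSet (Wn ×ˢ (univ : Set Bool)) := hWn.prod MeasurableSet.univ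
  have m2 : MeasurableSet (Kᶜ ×ˢ (univ : Set Bool)) := hK.compl.prod MeasurableSet.univ
  have m3 : MeasurableSet ((K ∪ D)ᶜ ×ˢ (univ : Set Bool)) := (hK.union hD).compl.prod MeasurableSet.univ
  have h1 := pvsu_ae_spl (pv_isPpp ε) m1 hN
  have h2 := pvsu_ae_spl (pv_isPpp ε) m2 h1
  have h3 := pvsu_ae_spl (pv_isPpp ε) m3 h2
  filter_upwards [h3] with η₀ h4
  filter_upwards [h4] with ω₂ h5
  filter_upwards [h5] with ω₃ h6
  filter_upwards [h6] with ξ h7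
  rw [pvrg_sites_spl, pvay_sites_spl, pvay_sites_spl] at h7
  exact h7

/-- a null set of configurations described by the sites is a null set of labelled geometries -/
theorem pvrg_geo_null (ε : ℝ) {P : Set ℂ → Prop} (h : ∀ᵐ η ∂pvP ε, P (cfSites η)) : pvGeo ε {g | ¬ P (pvgSites g)} = 0 := by
  rw [← pvax_sites_eq ε fun Y => ¬ P Y]
  exact le_zero_iff.1 ((pvhb_preimage_le measurable_pvConf rfl {η | ¬ P (cfSites η)}).trans (le_of_eq (ae_iff.1 h)))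

/-- **E10 FOR AN END LINK WITH AN INTEGRATED PLUG** (tile `K`, plug region `D`, fresh set `S`, window `Wn`, success `= Sure_{Wn} Mev`): certificate `pvayGood2` at the base, nice base, threshold of the plug, one mixed order, the contract of one configuration
`⟹` the base is FORCED with the constant `t (b - θ)` -/
theorem pvrg_end_of {ε : ℝ} (hε : 0 < ε) {K D S Wn O : Set ℂ} (hK : MeasurableSet K) (hD : MeasurableSet D) (hWn : MeasurableSet Wn) (hOm : MeasurableSet O) (hO : Bornology.IsBounded O)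
    (hDK : Disjoint D K) (hDS : Disjoint D S) (hOD : Disjoint O D) (hOW : O ⊆ Wn) (hKW : K ⊆ Wn) (hDW : D ⊆ Wn)
    {𝒦 ℋ G Mev : Set (Conf PvPt)} (mP : MeasurableSet 𝒦) (rP : Conf.ReadsSet (O ×ˢ (univ : Set Bool)) 𝒦) (mH : MeasurableSet ℋ) (rH : Conf.ReadsSet ((D ∪ K) ×ˢ (univ : Set Bool)) ℋ)
    {t θ b : ℝ≥0∞} (thr : ∀ η, η ∈ G → b ≤ pvtiP (pvP ε) (D ×ˢ univ) ℋ η)
    {Nc : Set ℂ → Prop} {η₀ : Conf PvPt} (h0 : PvayWin O η₀) (hc0 : (cfSites η₀).Countable) (hg : η₀ ∈ pvayGood2 ε K O 𝒦 t θ) (hb : PvrgBase ε Nc K D Wn (cfSites η₀))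
    (up : ∀ (Y' : Set ℂ) (σ' : ℂ → Bool), Y'.Countable → (∀ z ∈ Wn, z ∉ K → z ∉ D → (z ∈ Y' ↔ z ∈ cfSites η₀)) →
      ∃ s : ℂ → Option Bool, {z | s z ≠ none}.Countable ∧ PvlhUp s (pvlhSec Y' ((Y' \ K) \ S) σ' ℋ) ∧ PvlhUp s (pvlhCp Y' 𝒦))
    (det : PvrgDet Nc K D S Wn O ℋ 𝒦 Mev η₀) :
    η₀ ∈ pvrgFrc ε (K ∪ D) (fun _ => S) G (pvdyQ ε K (fun _ => S) (pvsuSure (pvP ε) (Wn ×ˢ univ) Mev)) (t * (b - θ)) := by
  rw [pvrg_mem_frc]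
  have a1 : ∀ᵐ p ∂pvdyNu ε, CfOK p.2 ∧ PvLF p.2 ∧ ∀ᵐ ω₃ ∂pvP ε, ∀ᵐ ξ ∂pvP ε, Nc (pvrgY4 K D Wn (cfSites η₀) (cfSites p.2) (cfSites ω₃) (cfSites ξ)) :=
    Measure.quasiMeasurePreserving_snd.ae ((dls_ae_conf hε).and ((pvcn_LF_ae ε).and hb))
  filter_upwards [a1] with p hp hG
  obtain ⟨hok, hlf, hb2⟩ := hp
  obtain ⟨η₁, hη₁⟩ : ∃ η₁, η₁ = pvdyR (K ∪ D) (fun _ => S) η₀ p := ⟨_, rfl⟩
  rw [← hη₁] at hG ⊢
  -- the sites and the colours of `η₁`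
  have hs1 : cfSites η₁ = pvdyYc (K ∪ D) (cfSites η₀) (cfSites p.2) := by rw [hη₁, pvdy_sites_R]; rfl
  have hs1' : ∀ z, z ∉ K → z ∉ D → (z ∈ cfSites η₁ ↔ z ∈ cfSites η₀) := by
    intro z h1 h2
    rw [hs1]
    simp only [pvdyYc, mem_union, Set.mem_sdiff, mem_inter_iff]
    tauto
  have hcol1 : ∀ z ∈ cfSites η₀, z ∉ K → z ∉ D → z ∉ S → cfCol η₁ z = cfCol η₀ z := by
    intro z hz h1 h2 h3
    rw [hη₁, pvdy_cfCol_R (fun _ => S) p hz (by simp only [mem_union]; tauto), pvfqMix_of_notMem h3]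
  have hsim1 : ∀ x ∈ η₁.pts, ∀ y ∈ η₁.pts, x.1 = y.1 → x = y := by
    intro x hx y hy e
    rw [hη₁] at hx hy
    rcases pvdy_mem_R.1 hx with ⟨h1, -, h3⟩ | ⟨h1, h3⟩ <;> rcases pvdy_mem_R.1 hy with ⟨h4, -, h6⟩ | ⟨h4, h6⟩
    · exact Prod.ext e (by rw [h3, h6, e])
    · exact absurd (e ▸ h4) h1
    · exact absurd (e.symm ▸ h1) h4
    · exact hok.col x h3 y h6 e
  have e1 : η₁ = cfOf (cfSites η₁) (cfCol η₁) := pvay_conf_of hsim1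
  have hcnt1 : (cfSites η₁).Countable := by
    rw [hs1]; exact pvdy_Yc_countable hc0 (pvdy_countable_of_LF hlf)
  have hfin1 : (cfSites η₁ ∩ O).Finite := by
    refine ((pvay_win_sites_fin h0).union (pvay_win_sites_fin (pvay_win_of_ok hok hO))).subset ?_
    rintro z ⟨hz, hzO⟩
    rw [hs1] at hz
    rcases hz with ⟨h1, -⟩ | ⟨h1, -⟩
    · exact Or.inl ⟨h1, hzO⟩
    · exact Or.inr ⟨h1, hzO⟩
  have hw1 : PvayWin O η₁ := by rw [e1]; exact pvay_win_of hfin1 _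
  have hg1 : cfOf (cfSites η₁) (cfCol η₁) ∈ pvayGood2 ε K O 𝒦 t θ := by
    rw [← e1]
    refine (pvrg_good2_congr hε hOm hO mP rP t θ h0 hw1 ?_).1 hg
    ext z
    simp only [mem_inter_iff, Set.mem_sdiff]
    exact ⟨fun h => ⟨(hs1' z h.2.2 (disjoint_left.1 hOD h.2.1)).2 h.1, h.2⟩, fun h => ⟨(hs1' z h.2.2 (disjoint_left.1 hOD h.2.1)).1 h.1, h.2⟩⟩
  -- the null set of the bad tiles
  have hB0 : pvGeo ε {g | ¬ ∀ᵐ ξ ∂pvP ε, Nc (pvrgY4 K D Wn (cfSites η₀) (cfSites p.2) (pvgSites g) (cfSites ξ))} ≤ 0 :=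
    le_of_eq (pvrg_geo_null ε (P := fun Y₃ => ∀ᵐ ξ ∂pvP ε, Nc (pvrgY4 K D Wn (cfSites η₀) (cfSites p.2) Y₃ (cfSites ξ))) hb2)
  have hFz : pvdyFz K (fun _ => S) (cfSites η₁) (cfCol η₁) = (cfSites η₁ \ K) \ S := rfl
  have hYK : ∀ g : PvGeoT, pvdyYc K (cfSites η₁) (pvgSites g) \ K = cfSites η₁ \ K := by
    intro g
    ext z
    simp only [pvdyYc, mem_union, Set.mem_sdiff, mem_inter_iff]
    tauto
  have key := pvlhf_forced1 (ε := ε) (θ₀ := 0) (b := b) hK hOm hO hD mP rP (fun _ => S) hcnt1 hfin1 (cfCol η₁) hg1 hB0 hDK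
    ((disjoint_left.2 fun z hz hS => disjoint_left.1 hDS hz.2 hS)) mH (pvsu_sure_measurable (μ := pvP ε) (hWn.prod MeasurableSet.univ) Mev) rH (by rw [← e1]; exact thr η₁ hG)
    (fun g _ => by
      rw [hFz, ← hYK g]
      refine up _ _ (pvdy_Yc_countable hcnt1 ((to_countable (pvgAct g)).image _)) fun z _ h2 h3 => ?_
      rw [← hs1' z h2 h3]
      simp only [pvdyYc, mem_union, Set.mem_sdiff, mem_inter_iff]
      tauto)
    (fun g hgB τ hH hP => ?_)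
  · rw [add_zero, ← e1] at key
    exact key
  · -- DET
    have hgB' : ∀ᵐ ξ ∂pvP ε, Nc (pvrgY4 K D Wn (cfSites η₀) (cfSites p.2) (pvgSites g) (cfSites ξ)) := not_not.1 hgB
    show pvtiP (pvP ε) (Wn ×ˢ univ) (toMeasurable (pvP ε) Mev) _ = 1
    refine pvsu_P_of_ae ?_
    filter_upwards [hgB', dls_ae_conf hε] with ξ hN hξ
    refine subset_toMeasurable _ _ ?_
    obtain ⟨Y', hY'⟩ : ∃ Y', Y' = pvdyYc K (cfSites η₁) (pvgSites g) := ⟨_, rfl⟩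
    obtain ⟨μ, hμ⟩ : ∃ μ, μ = pvfqMix (pvdyFz K (fun _ => S) (cfSites η₁) (cfCol η₁)) (cfCol η₁, τ) := ⟨_, rfl⟩
    rw [← hY', ← hμ] at hH ⊢
    rw [← hY'] at hP
    have hsit : cfSites (Conf.spl (Wn ×ˢ (univ : Set Bool)) (cfOf Y' μ, ξ)) = (Y' ∩ Wn) ∪ (cfSites ξ \ Wn) := by rw [pvrg_sites_spl, cfOf_sites]
    have hmemW : ∀ z ∈ Wn, (z ∈ cfSites (Conf.spl (Wn ×ˢ (univ : Set Bool)) (cfOf Y' μ, ξ)) ↔ z ∈ Y') := by
      intro z hz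
      rw [hsit]
      simp only [mem_union, mem_inter_iff, Set.mem_sdiff]
      tauto
    have hY'K : ∀ z, z ∉ K → (z ∈ Y' ↔ z ∈ cfSites η₁) := by
      intro z hz
      rw [hY']
      simp only [pvdyYc, mem_union, Set.mem_sdiff, mem_inter_iff]
      tauto
    refine det _ (pvrg_simple_spl (pvrg_simple_cfOf Y' μ) hξ.col) ?_ ?_ ?_ ?_ ⟨τ, ?_, ?_⟩
    · rw [hsit, hY', hs1]; exact hN
    · intro z hz h1 h2
      rw [hmemW z hz, hY'K z h1, hs1' z h1 h2]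
    · intro z hz h1 h2 h3 h4
      have hz1 : z ∈ cfSites η₁ := (hs1' z h1 h2).2 h3
      rw [pvrg_col_spl μ ξ hz ((hY'K z h1).2 hz1), hμ, pvfqMix_of_mem (show z ∈ pvdyFz K (fun _ => S) (cfSites η₁) (cfCol η₁) from ⟨⟨hz1, h1⟩, h4⟩)]
      exact hcol1 z h3 h1 h2 h4
    · exact ((Conf.readsSet_iff_reads.1 rH).spl_left (prod_mono (union_subset hDW hKW) le_rfl) (cfOf Y' μ) ξ).symm ▸ hH
    · intro z hzO hz hKS
      have hzW := hOW hzO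
      rw [pvrg_col_spl μ ξ hzW ((hmemW z hzW).1 hz), hμ, pvfqMix_of_notMem]
      rintro ⟨⟨-, h1⟩, h2⟩
      rcases hKS with h | h
      · exact h1 h
      · exact h2 h
    · refine (rP _).1 ?_
      rw [pvay_of_restr]
      have e : cfSites (Conf.spl (Wn ×ˢ (univ : Set Bool)) (cfOf Y' μ, ξ)) ∩ O = Y' ∩ O := by
        ext z
        simp only [mem_inter_iff]
        exact ⟨fun h => ⟨(hmemW z (hOW h.2)).1 h.1, h.2⟩, fun h => ⟨(hmemW z (hOW h.2)).2 h.1, h.2⟩⟩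
      rw [e, ← pvay_of_restr]
      exact (rP _).2 hP

/-! ## 5. the certificate of a link and its cost -/

/-- countably many windows at once (`Wn i` = the window at the hull number `i`) -/
theorem pvrg_base_ae_all (ε : ℝ) {Nc : Set ℂ → Prop} (hN : ∀ᵐ η ∂pvP ε, Nc (cfSites η)) {K D : Set ℂ} (hK : MeasurableSet K) (hD : MeasurableSet D) {ι : Type} [Countable ι] {Wn : ι → Set ℂ}
    (hWn : ∀ i, MeasurableSet (Wn i)) : ∀ᵐ η₀ ∂pvP ε, ∀ i, PvrgBase ε Nc K D (Wn i) (cfSites η₀) :=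
  ae_all_iff.2 fun i => pvrg_base_ae ε hN hK hD (hWn i)

/-- **THE CERTIFICATE OF A LINK**: the configuration is good (a.s.), the kept geometry passes the test `(O, 𝒦, t)` with the soft threshold `θ`, the base is nice for all the windows (a.s.) -/
def pvrgCert (ε : ℝ) (K D O : Set ℂ) {ι : Type} (Wn : ι → Set ℂ) (𝒦 : Set (Conf PvPt)) (t θ : ℝ≥0∞) : Set (Conf PvPt) :=
  {η₀ | CfOK η₀ ∧ PvLF η₀ ∧ η₀ ∈ pvayGood2 ε K O 𝒦 t θ ∧ ∀ i, PvrgBase ε DelGood K D (Wn i) (cfSites η₀)}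

theorem pvrg_eqns_cite5 : True := by
  have := @pvrgCert.eq_1
  trivial

/-- **THE COST OF THE CERTIFICATE** `→ 0` from the PLAIN quenched estimate of the pattern;   the plug region and the windows may depend on `ε` -/
theorem pvrg_cert_small {K O : Set ℂ} (hK : MeasurableSet K) (hOm : MeasurableSet O) (hO : Bornology.IsBounded O) {𝒦 : Set (Conf PvPt)} (mP : MeasurableSet 𝒦)
    (rP : Conf.ReadsSet (O ×ˢ (univ : Set Bool)) 𝒦) {t : ℝ≥0∞} (hlim : Tendsto (fun ε : ℝ => pvGeo ε {g | pvQc 𝒦 g < t}) (𝓝[>] 0) (𝓝 0)) {θ : ℝ≥0∞} (hθ : θ ≠ 0) (hθ' : θ ≠ ∞)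
    {D : ℝ → Set ℂ} (hD : ∀ ε, MeasurableSet (D ε)) {ι : Type} [Countable ι] {Wn : ℝ → ι → Set ℂ} (hWn : ∀ ε i, MeasurableSet (Wn ε i)) :
    PvrgSmall fun ε => (pvrgCert ε K (D ε) O (Wn ε) 𝒦 t θ)ᶜ := by
  have h1 : PvrgSmall fun ε => ({η₀ | CfOK η₀ ∧ PvLF η₀ ∧ ∀ i, PvrgBase ε DelGood K (D ε) (Wn ε i) (cfSites η₀)} : Set (Conf PvPt))ᶜ := by
    refine pvrg_small_null ?_
    filter_upwards [self_mem_nhdsWithin] with ε hε
    have hε' : 0 < ε := hε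
    filter_upwards [dls_ae_conf hε', pvcn_LF_ae ε, pvrg_base_ae_all ε ((dls_ae_conf hε').mono fun _ h => h.del) hK (hD ε) (hWn ε)] with η₀ a b c
    exact ⟨a, b, c⟩
  refine (pvrg_small_inter h1 (pvrg_test_small hK hOm hO mP rP hlim hθ hθ')).mono (Eventually.of_forall fun ε η₀ hη₀ hc => hη₀ ?_)
  exact ⟨hc.1.1, hc.1.2.1, hc.2, hc.1.2.2⟩

/-- **THE FIELD `bad` FOR ONE LINK**: cost of the certificate + `U ∩ cert ⊆ Frc` -/
theorem pvrg_link_small {K O : Set ℂ} (hK : MeasurableSet K) (hOm : MeasurableSet O) (hO : Bornology.IsBounded O) {𝒦 : Set (Conf PvPt)} (mP : MeasurableSet 𝒦)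
    (rP : Conf.ReadsSet (O ×ˢ (univ : Set Bool)) 𝒦) {t : ℝ≥0∞} (hlim : Tendsto (fun ε : ℝ => pvGeo ε {g | pvQc 𝒦 g < t}) (𝓝[>] 0) (𝓝 0)) {θ : ℝ≥0∞} (hθ : θ ≠ 0) (hθ' : θ ≠ ∞)
    {D : ℝ → Set ℂ} (hD : ∀ ε, MeasurableSet (D ε)) {ι : Type} [Countable ι] {Wn : ℝ → ι → Set ℂ} (hWn : ∀ ε i, MeasurableSet (Wn ε i))
    {U : Set (Conf PvPt)} {Ms Fr : ℝ → Set (Conf PvPt)} (hMs : PvrgSmall fun ε => (Ms ε)ᶜ) (h : ∀ᶠ ε in 𝓝[>] (0 : ℝ), U ∩ (pvrgCert ε K (D ε) O (Wn ε) 𝒦 t θ ∩ Ms ε) ⊆ Fr ε) :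
    PvrgSmall fun ε => U \ Fr ε :=
  pvrg_bad_of_cert h (pvrg_small_inter (pvrg_cert_small hK hOm hO mP rP hlim hθ hθ' hD hWn) hMs)

/-- `pvrg_end_of` at a base with the certificate -/
theorem pvrg_end_of_cert {ε : ℝ} (hε : 0 < ε) {K D S O : Set ℂ} {ι : Type} {Wn : ι → Set ℂ} (i : ι) (hK : MeasurableSet K) (hD : MeasurableSet D) (hWn : MeasurableSet (Wn i)) (hOm : MeasurableSet O)
    (hO : Bornology.IsBounded O) (hDK : Disjoint D K) (hDS : Disjoint D S) (hOD : Disjoint O D) (hOW : O ⊆ Wn i) (hKW : K ⊆ Wn i) (hDW : D ⊆ Wn i)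
    {𝒦 ℋ G Mev : Set (Conf PvPt)} (mP : MeasurableSet 𝒦) (rP : Conf.ReadsSet (O ×ˢ (univ : Set Bool)) 𝒦) (mH : MeasurableSet ℋ) (rH : Conf.ReadsSet ((D ∪ K) ×ˢ (univ : Set Bool)) ℋ)
    {t θ b : ℝ≥0∞} (thr : ∀ η, η ∈ G → b ≤ pvtiP (pvP ε) (D ×ˢ univ) ℋ η) {η₀ : Conf PvPt} (hc : η₀ ∈ pvrgCert ε K D O Wn 𝒦 t θ)
    (up : ∀ (Y' : Set ℂ) (σ' : ℂ → Bool), Y'.Countable → (∀ z ∈ Wn i, z ∉ K → z ∉ D → (z ∈ Y' ↔ z ∈ cfSites η₀)) →
      ∃ s : ℂ → Option Bool, {z | s z ≠ none}.Countable ∧ PvlhUp s (pvlhSec Y' ((Y' \ K) \ S) σ' ℋ) ∧ PvlhUp s (pvlhCp Y' 𝒦))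
    (det : PvrgDet DelGood K D S (Wn i) O ℋ 𝒦 Mev η₀) :
    η₀ ∈ pvrgFrc ε (K ∪ D) (fun _ => S) G (pvdyQ ε K (fun _ => S) (pvsuSure (pvP ε) (Wn i ×ˢ univ) Mev)) (t * (b - θ)) :=
  pvrg_end_of hε hK hD hWn hOm hO hDK hDS hOD hOW hKW hDW mP rP mH rH thr (pvay_win_of_ok hc.1 hO) (pvdy_countable_of_LF hc.2.1) hc.2.2.1 (hc.2.2.2 i) up det

end Claimed.Agent.R289
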