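-- KEEP
import Claimed.Agent.R289.Tr.HookD
import Claimed.Agent.R289.Tr.GoodE

/-!
# Row 289 (S0537), THE WALL, ROAD E, E10 / HOOK-DET, file Tr/GoodD : THE DOOR END OF THE EXPLICIT FAMILY, MODEL FREE      (helper298; prefix `pvge4_`, `Pvge4`)

`Tr/HookD` (228) × `Tr/GoodE` (298).      THREE MISFITS of `PvhrDoorReg` / `pvhr_link_o`, `pvhr_link_i` AT THE MODEL, cured here (same proofs, weaker hypotheses):
* (M1) one turn `ζd` serves both colours, the two bars come from OPPOSITE lateral sides: the leg across the room runs upwards for one colour, DOWNWARDS for the other: `Pvge4DoorReg.ends` = either orientation;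
* (M2) the room `Ln σ β` of a half lane of 34 contains the tube part `|y| ≤ q/2` near the gate: a strip which holds the WHOLE room sends the black bar into the white room (no mixed order any more);
* (M3) `σ = κ` on the WHOLE room is false inside the region of the door (kept colours; the copy colouring rules on tile ∪ recoloured mouth only).
CURE: **the half lane is cut at the abscissa `xc`** (graph intermediate value, `pvge4_join_cut`): strip and `σ = κ` are asked BEYOND `xc` only; `xc + 2ρ ≤ xa`.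
* sec. 1  `pvge4_join_cut`, `Pvge4DoorReg`, **`pvge4_slot_rt`**
* sec. 2  **`pvge4_link_o`, `pvge4_link_i`** = `pvhr_link_o`, `pvhr_link_i` of 228 with the cut door record
* sec. 3  **`pvge4_doorReg`** : the record for the bar `pvge2RV` of `Tr/GoodE`, frame `(Y, u, up)`, turn `ζd = - conj u`
* sec. 4  ONE STOP ON THE ROUTES `pvge2Rt` : **`pvge4_pat_o`, `pvge4_pat_i`** (everything at the door in the coordinates `(s, l)` of the frame of the mouth)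
* sec. 5  ONE STOP AT THE NUMBERS OF RECORD (`Pvge2Rec`, `pvge2PatRec`) : `pvge4Lane`, `pvge4_lane_nbd`, **`pvge4_rec_o`, `pvge4_rec_i`**
-/

set_option autoImplicit false
set_option linter.unusedSectionVars false
set_option linter.unusedVariables false

namespace Claimed.Agent.R289

open Set Metric Complex Filter Topology Relation Claims.C0465
open scoped ENNReal

/-! ## 1. the cut of a half lane, the slot -/

/-- **GRAPH INTERMEDIATE VALUE**: a join `f → v` in `X`, a height `φ` with `φ f ≤ xc < φ v`, steps which start below `xc` end below `xc + e`: the join splits at a vertex `f'` of height `≤ xc + e`, after which it stays above `xc` -/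
theorem pvge4_join_cut {V D : Type} {T : PvMap V D} {A : Set D} {X : Set V} {f v : V} (hj : T.Join A X f v) {φ : V → ℝ} {xc e : ℝ}
    (hstep : ∀ u w, u ∈ X → w ∈ X → T.EdgeIn A u w → φ u ≤ xc → φ w ≤ xc + e) (hf : φ f ≤ xc) (hv : xc < φ v) :
    ∃ f', T.Join A X f f' ∧ φ f' ≤ xc + e ∧ T.Join A (X ∩ {u | xc < φ u}) f' v := by
  obtain ⟨hfX, hch⟩ := hj
  have key : ∀ v : V, ReflTransGen (fun u v => T.EdgeIn A u v ∧ v ∈ X) f v → v ∈ X ∧ (φ v ≤ xc ∨ ∃ f', T.Join A X f f' ∧ φ f' ≤ xc + e ∧ T.Join A (X ∩ {u | xc < φ u}) f' v) := by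
    intro v hv
    induction hv with
    | refl => exact ⟨hfX, Or.inl hf⟩
    | @tail u w hu huw ih =>
      refine ⟨huw.2, ?_⟩
      by_cases hw : φ w ≤ xc
      · exact Or.inl hw
      · have hw' : xc < φ w := not_le.1 hw
        rcases ih.2 with h | ⟨f', j1, h2, j3⟩
        · exact Or.inr ⟨w, ⟨hfX, hu.tail huw⟩, hstep u w ih.1 huw.2 huw.1 h, ⟨huw.2, hw'⟩, ReflTransGen.refl⟩
        · exact Or.inr ⟨f', j1, h2, j3.1, j3.2.tail ⟨huw.1, huw.2, hw'⟩⟩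
  rcases (key v hch).2 with h | h
  · exact absurd hv (not_lt.2 h)
  · exact h

theorem pvge4_join_mono {V D : Type} {T : PvMap V D} {A : Set D} {X X' : Set V} (hX : X ⊆ X') {a b : V} (h : T.Join A X a b) : T.Join A X' a b :=
  ⟨hX h.1, ReflTransGen.mono (fun _ _ hh => ⟨hh.1, hX hh.2⟩) _ _ h.2⟩

theorem pvge4_join_trans {V D : Type} {T : PvMap V D} {A : Set D} {X : Set V} {a b c : V} (h : T.Join A X a b) (h' : T.Join A X b c) : T.Join A X a c := ⟨h.1, h.2.trans h'.2⟩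

/-- **THE DOOR SIDE OF A ROUTE, CUT FORM** (picture turned by `ζ`): beyond the abscissa `xc` the room `Rm` of the half lane lies in the strip `[y0 + ρ, y1 - ρ]`;   the region of the leg `e` ACROSS the room lies in the vertical strip `[xa, xb]`, `xc + 2ρ ≤ xa`;
one of its way points lies `3δ/2` below the strip, the other one `3δ/2` above -/
structure Pvge4DoorReg (ζ : ℂ) (δ ρ xc xa xb y0 y1 : ℝ) (Rm : Set ℂ) (e : Set ℂ × ℂ × ℂ) : Prop where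
  ρ0 : 0 < ρ
  cut : xc + 2 * ρ ≤ xa
  ab : xa ≤ xb
  room : ∀ w ∈ Rm, xc < (ζ * w).re → y0 + ρ ≤ (ζ * w).im ∧ (ζ * w).im + ρ ≤ y1
  col : ∀ w ∈ e.1, xa ≤ (ζ * w).re ∧ (ζ * w).re ≤ xb
  ends : ((ζ * e.2.1).im + 3 / 2 * δ ≤ y0 ∧ y1 + 3 / 2 * δ ≤ (ζ * e.2.2).im) ∨ ((ζ * e.2.2).im + 3 / 2 * δ ≤ y0 ∧ y1 + 3 / 2 * δ ≤ (ζ * e.2.1).im)

/-- the record of 228 is a special case (no cut needed: `xc` = anything `≤ xa - 2ρ`) -/
theorem pvge4_of_hr {ζ : ℂ} {δ ρ xa xb y0 y1 : ℝ} {Rm : Set ℂ} {e : Set ℂ × ℂ × ℂ} (D : PvhrDoorReg ζ δ ρ xa xb y0 y1 Rm e) (hρ : 0 < ρ) (hab : xa ≤ xb) : Pvge4DoorReg ζ δ ρ (xa - 2 * ρ) xa xb y0 y1 Rm e :=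
  ⟨hρ, by linarith, hab, fun w hw _ => D.room w hw, D.col, Or.inl ⟨D.lo, D.hi⟩⟩

variable {Y : Set ℂ}

theorem pvge4_re_near {ζ a c : ℂ} {r : ℝ} (hζ : ‖ζ‖ = 1) (ha : ‖a - c‖ ≤ r) : (ζ * a).re ≤ (ζ * c).re + r := by
  have h1 : (ζ * a).re - (ζ * c).re = (ζ * (a - c)).re := by rw [mul_sub, sub_re]
  have h2 : (ζ * (a - c)).re ≤ ‖ζ * (a - c)‖ := Complex.re_le_norm _
  rw [norm_mul, hζ, one_mul] at h2
  linarith

/-- **THE DOOR END, ROUTE FORM, CUT**: `xe` = a hub of the leg across the room -/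
theorem pvge4_slot_rt (h : DelGood Y) {σ : Y → Bool} {κ : ℂ → Bool} {β : Bool} {Rm : Set ℂ} {f v : Y} (hH : (delMap h).Join univ (pvldCol σ {u : Y | (u : ℂ) ∈ Rm} β) f v)
    {ζ : ℂ} (hζ : ‖ζ‖ = 1) {δ ρ xc xa xb y0 y1 : ℝ} (hκ : ∀ u : Y, (u : ℂ) ∈ Rm → xc < (ζ * (u : ℂ)).re → σ u = κ u) (hcell : ∀ u : Y, (u : ℂ) ∈ Rm → vorCell Y u ⊆ closedBall (u : ℂ) ρ)
    {e : Set ℂ × ℂ × ℂ} (hcore : PvkqCore δ e.1 e.2.1 e.2.2) (D : Pvge4DoorReg ζ δ ρ xc xa xb y0 y1 Rm e) (hf : (ζ * (f : ℂ)).re ≤ xc) (hv : xb ≤ (ζ * (v : ℂ)).re)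
    {xe : ℂ} (hxe : ∀ k ∈ pvkqL δ e.1 e.2.1 e.2.2, PvlnHub (pvlnReg β (cfOf Y κ)) (pvkqU δ e.1 e.2.1 e.2.2) δ k xe) :
    ∃ x0 ∈ pvhjV Y κ β (pathComponentIn (pvlnReg β (cfOf Y κ) ∩ pvkqU δ e.1 e.2.1 e.2.2) xe), (delMap h).Join univ (pvldCol σ {u : Y | (u : ℂ) ∈ Rm} β) f x0 := by
  have hδ := hcore.1
  have m1 := pvhz_L_head hcore
  have m2 := pvhz_L_last hcore
  have hρ := D.ρ0
  obtain ⟨f', j1, h2, j3⟩ := pvge4_join_cut hH (φ := fun u : Y => (ζ * (u : ℂ)).re) (xc := xc) (e := 2 * ρ) (fun u w hu hw huw hux => by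
      obtain ⟨-, -, -, z, hzu, hzw⟩ := (dls_edgeIn_univ h u w).1 huw
      have n1 : ‖z - (u : ℂ)‖ ≤ ρ := by simpa [dist_eq_norm] using hcell u hu.1 hzu
      have n2 : ‖z - (w : ℂ)‖ ≤ ρ := by simpa [dist_eq_norm] using hcell w hw.1 hzw
      have n3 : ‖(w : ℂ) - (u : ℂ)‖ ≤ 2 * ρ := by
        have e1 : (w : ℂ) - (u : ℂ) = (z - (u : ℂ)) - (z - (w : ℂ)) := by ring
        rw [e1]
        exact (norm_sub_le _ _).trans (by linarith)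
      have := pvge4_re_near hζ n3
      show (ζ * (w : ℂ)).re ≤ xc + 2 * ρ
      have hux' : (ζ * (u : ℂ)).re ≤ xc := hux
      linarith) hf (by have := D.cut; have := D.ab; show xc < (ζ * (v : ℂ)).re; linarith)
  have j3' : (delMap h).Join univ (pvldCol σ {u : Y | (u : ℂ) ∈ Rm ∩ {w | xc < (ζ * w).re}} β) f' v :=
    pvge4_join_mono (X' := pvldCol σ {u : Y | (u : ℂ) ∈ Rm ∩ {w | xc < (ζ * w).re}} β) (fun u hu => ⟨⟨hu.1.1, hu.2⟩, hu.1.2⟩) j3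
  have hf' : (ζ * (f' : ℂ)).re ≤ xa := h2.trans D.cut
  have fin : ∀ x0, (delMap h).Join univ (pvldCol σ {u : Y | (u : ℂ) ∈ Rm ∩ {w | xc < (ζ * w).re}} β) f' x0 → (delMap h).Join univ (pvldCol σ {u : Y | (u : ℂ) ∈ Rm} β) f x0 := fun x0 j0 =>
    pvge4_join_trans j1 (pvge4_join_mono (X' := pvldCol σ {u : Y | (u : ℂ) ∈ Rm} β) (fun u hu => ⟨hu.1.1, hu.2⟩) j0)
  have below : ∀ p : ℂ, (ζ * p).im + 3 / 2 * δ ≤ y0 → ∀ w ∈ pvlnC δ (pvkqCell δ p), (ζ * w).im ≤ y0 := fun p hp w hw => by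
    have := (pvhr_im_near hζ (pvkq_cell_diam hδ hw (pvkq_mem_cell hδ p))).2
    linarith
  have above : ∀ p : ℂ, y1 + 3 / 2 * δ ≤ (ζ * p).im → ∀ w ∈ pvlnC δ (pvkqCell δ p), y1 ≤ (ζ * w).im := fun p hp w hw => by
    have := (pvhr_im_near hζ (pvkq_cell_diam hδ hw (pvkq_mem_cell hδ p))).1
    linarith
  rcases D.ends with ⟨lo, hi⟩ | ⟨lo, hi⟩
  · obtain ⟨x0, hx0, j0⟩ := pvhr_slot h j3' (fun u hu => hκ u hu.1 hu.2) hζ (fun u hu => hcell u hu.1) (fun w hw => D.room w hw.1 hw.2) hf' hv (pvln_C_sub_U m1) (pvln_C_sub_U m2) (hxe _ m1) (hxe _ m2)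
      (below _ lo) (above _ hi) fun w hw => D.col w (pvhz_L_sub hcore hw)
    exact ⟨x0, hx0, fin x0 j0⟩
  · obtain ⟨x0, hx0, j0⟩ := pvhr_slot h j3' (fun u hu => hκ u hu.1 hu.2) hζ (fun u hu => hcell u hu.1) (fun w hw => D.room w hw.1 hw.2) hf' hv (pvln_C_sub_U m2) (pvln_C_sub_U m1) (hxe _ m2) (hxe _ m1)
      (below _ lo) (above _ hi) fun w hw => D.col w (pvhz_L_sub hcore hw)
    exact ⟨x0, hx0, fin x0 j0⟩

/-! ## 2. the two one-stop links of 228 with the cut door record -/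

section link

variable {h : DelGood Y} {𝔖 : PvwSt (delMap h)} {N : PvwNum} {hh : ℝ} {z : ℂ} {τ : PvwTy} {K : Set Y} {r r₁ ρ rs rt : ℝ} {ζ : ℂ} {σ : Y → Bool} {κ : ℂ → Bool} {Sg : Bool → Set ℂ}
  {δ ρl : ℝ} {eC eN eD : Bool → Set ℂ × ℂ × ℂ} {t : Bool → List (Set ℂ × ℂ × ℂ)} {jN jS : Bool → ℕ} {ζd : ℂ} {ρd : ℝ} {xc xa xb y0 y1 : Bool → ℝ} {Rm : Bool → Set ℂ}

/-- **HOOK-DET, FIRST LINK, ONE STOP, CUT DOOR** (exit tip → entrance of a door) -/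
theorem pvge4_link_o (at_t : 𝔖.AtOut (dlsPos Y) N hh z τ σ) (Et : PvhjEnd Y N hh τ (τ.cp hh z) K r r₁ ρ rs)
    (ht1 : ‖((delMap h).src (𝔖.ep 𝔖.np) : ℂ) - τ.cp hh z‖ + 2 * ρ ≤ rt) (ht2 : ‖((delMap h).tgt (𝔖.ep 𝔖.np) : ℂ) - τ.cp hh z‖ + 2 * ρ ≤ rt) (hK : K.Finite) (hco : ∀ u v, u ∉ K → v ∉ K → (delMap h).Join univ Kᶜ u v)
    (hgp : 𝔖.gp ∉ K) (g : (delMap h).Gate σ) (hdis : g.vm ∉ 𝔖.bkP) (hζ : ζ ∈ pvtzdDir) (hot : pvwRad N hh τ τ.k + (ζ * z).re < (ζ * (𝔖.ap : ℂ)).re)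
    (hδ : 0 < δ) (hr : ∀ β, PvkqRoute δ (eC β :: eN β :: t β)) (hev : ∀ β, cfOf Y κ ∈ pvkqRtEv δ β (eC β :: eN β :: t β))
    (R : ∀ β, PvhzArmReg ζ (pvwRad N hh τ τ.k + (ζ * z).re) ((ζ * τ.cp hh z).im - rt) ((ζ * τ.cp hh z).im + rt) (2 * ρ) (τ.cp hh z) rs ρl β (eN β).1 (eC β).1 (Sg β))
    (hρl : δ / 16 ≤ ρl) (hdS : ∀ β, VorDense Y (Sg β) ρl) (hjN : ∀ β, jN β < 4) (hjS : ∀ β, jS β < 4)
    (hSN : ∀ β, pvhzSd δ (pvkqCell δ (eN β).2.2) (jN β) ⊆ Sg β) (hSS : ∀ β, pvhzSd δ (pvkqCell δ (eC β).2.1) (jS β) ⊆ Sg β)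
    (mid : ∀ β, ∀ v : Y, (vorCell Y v ∩ pvkqRtR (eN β :: t β)).Nonempty → v ∈ K ∧ σ v = κ v)
    (hκt : ∀ v : Y, ‖(v : ℂ) - τ.cp hh z‖ ≤ rs → v ∉ 𝔖.bkP ∪ 𝔖.whP → σ v = κ v)
    (hD : ∀ β, eD β ∈ eN β :: t β) (hζd : ‖ζd‖ = 1) (D : ∀ β, Pvge4DoorReg ζd δ ρd (xc β) (xa β) (xb β) (y0 β) (y1 β) (Rm β) (eD β))
    (hH : ∀ β, ∃ v : Y, xb β ≤ (ζd * (v : ℂ)).re ∧ (delMap h).Join univ (pvldCol σ {u : Y | (u : ℂ) ∈ Rm β} β) (pvhiEnd (delMap h) β g.aIn) v)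
    (hfoot : ∀ β, (ζd * ((pvhiEnd (delMap h) β g.aIn : Y) : ℂ)).re ≤ xc β)
    (hRm : ∀ β, ∀ u : Y, (u : ℂ) ∈ Rm β → u ∈ K ∧ vorCell Y u ⊆ closedBall (u : ℂ) ρd)
    (hRκ : ∀ β, ∀ u : Y, (u : ℂ) ∈ Rm β → xc β < (ζd * (u : ℂ)).re → σ u = κ u) :
    PvldRun (delMap h) σ K (𝔖.ep 𝔖.np) g.aIn := by
  have T := fun β => pvhr_tip_rt h.lf κ hδ (hr β) (hev β) (R β) hρl (hdS β) (hjN β) (hjS β) (hSN β) (hSS β)
  choose GN GC G hA hsub hconn hcov hreg hleg using T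
  refine pvhr_run_o at_t Et ht1 ht2 hK hco hgp g hdis hζ hot hA hconn hcov hsub (F := {v | v ∈ K ∧ σ v = κ v}) (fun β v hv => mid β v (hv.mono (inter_subset_inter_right _ (hreg β)))) (fun v hv => hv) hκt
    (X₁ := fun β => pvldCol σ {u : Y | (u : ℂ) ∈ Rm β} β) (fun β => ?_) fun β u hu => ⟨(hRm β u hu.1).1, hu.2⟩
  obtain ⟨xe, hxe, hG⟩ := hleg β (eD β) (hD β)
  obtain ⟨v, hv, hj⟩ := hH β
  obtain ⟨x0, hx0, j0⟩ := pvge4_slot_rt h hj hζd (hRκ β) (fun u hu => (hRm β u hu).2) ((hr β).1 _ (List.mem_cons_of_mem _ (hD β))) (D β) (hfoot β) hv hxe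
  exact ⟨x0, pvhj_V_mono κ β hG hx0, j0⟩

/-- **HOOK-DET, LAST LINK, ONE STOP, CUT DOOR** (exit of a door → entrance tip).   The routes are listed FROM THE TIP. -/
theorem pvge4_link_i (at_s : 𝔖.AtIn (dlsPos Y) N hh z τ σ) (Es : PvhjEnd Y N hh τ (τ.cm hh z) K r r₁ ρ rs)
    (ht1 : ‖((delMap h).src (𝔖.em 𝔖.nm) : ℂ) - τ.cm hh z‖ + 2 * ρ ≤ rt) (ht2 : ‖((delMap h).tgt (𝔖.em 𝔖.nm) : ℂ) - τ.cm hh z‖ + 2 * ρ ≤ rt) (hK : K.Finite) (hco : ∀ u v, u ∉ K → v ∉ K → (delMap h).Join univ Kᶜ u v)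
    (g : (delMap h).Gate σ) {n : ℕ} (hn1 : 1 ≤ n) (hthru : pvasIt (delMap h) σ g.aIn n = g.aOut) (hfirst : ∀ i, i < n → pvasIt (delMap h) σ g.aIn i ≠ g.aOut) (hins : ∀ i, i < n → pvasIt (delMap h) σ g.aIn i ∈ g.c.Left)
    (hvm : g.vm ∉ K) (hdis : 𝔖.em 𝔖.nm ∉ g.c.Left) (hne : g.vp ≠ (delMap h).src (𝔖.em 𝔖.nm)) (hζ : ζ ∈ pvtzdDir) (hos : pvwRad N hh τ τ.k + (ζ * z).re < (ζ * (𝔖.am : ℂ)).re)
    (hδ : 0 < δ) (hr : ∀ β, PvkqRoute δ (eC β :: eN β :: t β)) (hev : ∀ β, cfOf Y κ ∈ pvkqRtEv δ β (eC β :: eN β :: t β))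
    (R : ∀ β, PvhzArmReg ζ (pvwRad N hh τ τ.k + (ζ * z).re) ((ζ * τ.cm hh z).im - rt) ((ζ * τ.cm hh z).im + rt) (2 * ρ) (τ.cm hh z) rs ρl (!β) (eN β).1 (eC β).1 (Sg β))
    (hρl : δ / 16 ≤ ρl) (hdS : ∀ β, VorDense Y (Sg β) ρl) (hjN : ∀ β, jN β < 4) (hjS : ∀ β, jS β < 4)
    (hSN : ∀ β, pvhzSd δ (pvkqCell δ (eN β).2.2) (jN β) ⊆ Sg β) (hSS : ∀ β, pvhzSd δ (pvkqCell δ (eC β).2.1) (jS β) ⊆ Sg β)
    (mid : ∀ β, ∀ v : Y, (vorCell Y v ∩ pvkqRtR (eN β :: t β)).Nonempty → v ∈ K ∧ σ v = κ v)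
    (hκs : ∀ v : Y, ‖(v : ℂ) - τ.cm hh z‖ ≤ rs → v ∉ 𝔖.bkM ∪ 𝔖.whM → σ v = κ v)
    (hD : ∀ β, eD β ∈ eN β :: t β) (hζd : ‖ζd‖ = 1) (D : ∀ β, Pvge4DoorReg ζd δ ρd (xc β) (xa β) (xb β) (y0 β) (y1 β) (Rm β) (eD β))
    (hH : ∀ β, ∃ v : Y, xb β ≤ (ζd * (v : ℂ)).re ∧ (delMap h).Join univ (pvldCol σ {u : Y | (u : ℂ) ∈ Rm β} β) (pvhiEnd (delMap h) β g.aOut) v)
    (hfoot : ∀ β, (ζd * ((pvhiEnd (delMap h) β g.aOut : Y) : ℂ)).re ≤ xc β)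
    (hRm : ∀ β, ∀ u : Y, (u : ℂ) ∈ Rm β → u ∈ K ∧ vorCell Y u ⊆ closedBall (u : ℂ) ρd)
    (hRκ : ∀ β, ∀ u : Y, (u : ℂ) ∈ Rm β → xc β < (ζd * (u : ℂ)).re → σ u = κ u) :
    PvldRun (delMap h) σ K g.aOut (𝔖.em 𝔖.nm) := by
  have T := fun β => pvhr_tip_rt h.lf κ hδ (hr β) (hev β) (R β) hρl (hdS β) (hjN β) (hjS β) (hSN β) (hSS β)
  choose GN GC G hA hsub hconn hcov hreg hleg using T
  refine pvhr_run_i at_s Es ht1 ht2 hK hco g hn1 hthru hfirst hins hvm hdis hne hζ hos hA hconn hcov hsub (F := {v | v ∈ K ∧ σ v = κ v}) (fun β v hv => mid β v (hv.mono (inter_subset_inter_right _ (hreg β)))) (fun v hv => hv) hκs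
    (X₁ := fun β => pvldCol σ {u : Y | (u : ℂ) ∈ Rm β} β) (fun β => ?_) fun β u hu => ⟨(hRm β u hu.1).1, hu.2⟩
  obtain ⟨xe, hxe, hG⟩ := hleg β (eD β) (hD β)
  obtain ⟨v, hv, hj⟩ := hH β
  obtain ⟨x0, hx0, j0⟩ := pvge4_slot_rt h hj hζd (hRκ β) (fun u hu => (hRm β u hu).2) ((hr β).1 _ (List.mem_cons_of_mem _ (hD β))) (D β) (hfoot β) hv hxe
  exact ⟨x0, pvhj_V_mono κ β hG hx0, j0⟩

end link

/-! ## 3. the cut door record of the bar of `Tr/GoodE` -/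

section frame

variable {Yc u : ℂ} {up : Bool} {a t sb t₂ lb sc l0 l1 ρd dl : ℝ}

theorem pvge4_turn_re (Yc u v : ℂ) : (-(starRingEnd ℂ) u * v).re = -((starRingEnd ℂ) u * Yc).re - pvge2S Yc u v := by
  rw [neg_mul, neg_re, pvge2_zeta_re Yc u v]; ring

theorem pvge4_turn_im (Yc u : ℂ) (up : Bool) (v : ℂ) : (-(starRingEnd ℂ) u * v).im = -((starRingEnd ℂ) u * Yc).im - pvge2Sg up * pvge2T Yc u up v := by
  rw [neg_mul, neg_im, pvge2_zeta_im Yc u up v]; ring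

theorem pvge4_turn_norm (hu : ‖u‖ = 1) : ‖-(starRingEnd ℂ) u‖ = 1 := by
  rw [norm_neg, RCLike.norm_conj, hu]

/-- **THE CUT DOOR RECORD OF THE BAR**, frame `(Yc, u, up)`, turn `ζd = - conj u` (the half lane runs from the door TOWARDS the mouth): beyond the plane `s = sc` the room lies in `l ∈ [l0, l1]`; the bar `s ∈ [sb - t₂, sb + t₂]` runs from `l = a` to `l = lb` -/
theorem pvge4_doorReg (hu : ‖u‖ = 1) {Rm : Set ℂ} (hρ : 0 < ρd) (ht₂ : 0 ≤ t₂) (hcut : sb + t₂ + 2 * ρd ≤ sc)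
    (hroom : ∀ w ∈ Rm, pvge2S Yc u w < sc → l0 ≤ pvge2T Yc u up w ∧ pvge2T Yc u up w ≤ l1) (hlo : lb + 3 / 2 * dl + ρd ≤ l0) (hhi : l1 + ρd + 3 / 2 * dl ≤ a) :
    Pvge4DoorReg (-(starRingEnd ℂ) u) dl ρd (-((starRingEnd ℂ) u * Yc).re - sc) (-((starRingEnd ℂ) u * Yc).re - (sb + t₂)) (-((starRingEnd ℂ) u * Yc).re - (sb - t₂))
      (-((starRingEnd ℂ) u * Yc).im - pvge2Sg up * ((l0 + l1) / 2) - (l1 - l0) / 2 - ρd) (-((starRingEnd ℂ) u * Yc).im - pvge2Sg up * ((l0 + l1) / 2) + (l1 - l0) / 2 + ρd) Rm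
      (pvge2RV Yc u up a t sb t₂ lb, pvge2P Yc u up sb a, pvge2P Yc u up sb lb) where
  ρ0 := hρ
  cut := by linarith
  ab := by linarith
  room := by
    intro w hw hx
    rw [pvge4_turn_re Yc u w] at hx
    obtain ⟨h1, h2⟩ := hroom w hw (by linarith)
    rw [pvge4_turn_im Yc u up w]
    cases up <;> simp only [pvge2Sg, if_true, if_false, Bool.false_eq_true] <;> constructor <;> linarith
  col := by
    intro w hw
    rw [pvge4_turn_re Yc u w]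
    have h1 : sb - t₂ ≤ pvge2S Yc u w := hw.1
    have h2 : pvge2S Yc u w ≤ sb + t₂ := hw.2.1
    constructor <;> linarith
  ends := by
    show ((-(starRingEnd ℂ) u * pvge2P Yc u up sb a).im + 3 / 2 * dl ≤ _ ∧ _ ≤ (-(starRingEnd ℂ) u * pvge2P Yc u up sb lb).im) ∨ ((-(starRingEnd ℂ) u * pvge2P Yc u up sb lb).im + 3 / 2 * dl ≤ _ ∧ _ ≤ (-(starRingEnd ℂ) u * pvge2P Yc u up sb a).im)
    rw [pvge4_turn_im Yc u up, pvge4_turn_im Yc u up, pvge2_T_P hu, pvge2_T_P hu]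
    cases up
    · right
      simp only [pvge2Sg, if_false, Bool.false_eq_true]
      constructor <;> linarith
    · left
      simp only [pvge2Sg, if_true]
      constructor <;> linarith

end frame

/-! ## 4. ONE STOP ON THE ROUTES OF `Tr/GoodE` -/

section pat

variable {h : DelGood Y} {𝔖 : PvwSt (delMap h)} {N : PvwNum} {hh : ℝ} {z : ℂ} {τ : PvwTy} {K : Set Y} {r r₁ ρ rs rt : ℝ} {u : ℂ} {σ : Y → Bool} {κ : ℂ → Bool}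
  {dl ρl ρd t e₁ s₁ x₂ sb t₂ e₀ sc : ℝ} {aa ll l0 l1 : Bool → ℝ} {Rm : Bool → Set ℂ}

/-- **FIRST LINK ON THE ROUTES OF RECORD.**   Mouth `Yc = τ.cp hh z`, outer normal `u`, the route of the (relative) colour `β` on the side `β` of the ray: `pvge2Rt Yc u β (aa β) ..  (ll β)`;   everything at the door in the coordinates `(s, l)` of the frame:
the feet of the gate lie beyond the plane `s = sc`, the ends of the half lanes before the bar (`s ≤ sb - t₂`), before the plane the room of colour `β` lies in `l ∈ [l0 β, l1 β]` and carries the copy colouring. -/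
theorem pvge4_pat_o (at_t : 𝔖.AtOut (dlsPos Y) N hh z τ σ) (Et : PvhjEnd Y N hh τ (τ.cp hh z) K r r₁ ρ rs)
    (ht1 : ‖((delMap h).src (𝔖.ep 𝔖.np) : ℂ) - τ.cp hh z‖ + 2 * ρ ≤ rt) (ht2 : ‖((delMap h).tgt (𝔖.ep 𝔖.np) : ℂ) - τ.cp hh z‖ + 2 * ρ ≤ rt) (hK : K.Finite) (hco : ∀ u v, u ∉ K → v ∉ K → (delMap h).Join univ Kᶜ u v)
    (hgp : 𝔖.gp ∉ K) (g : (delMap h).Gate σ) (hdis : g.vm ∉ 𝔖.bkP) (hu : ‖u‖ = 1) (hζ : (starRingEnd ℂ) u ∈ pvtzdDir) (hot : pvwRad N hh τ τ.k + ((starRingEnd ℂ) u * z).re < ((starRingEnd ℂ) u * (𝔖.ap : ℂ)).re)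
    (Nn : ∀ β, Pvge2Num (aa β) t e₁ s₁ x₂ dl ρl e₀ rt (2 * ρ) rs) (Bb : ∀ β, Pvge2Bar (aa β) t x₂ sb t₂ (ll β) dl)
    (hB : pvwRad N hh τ τ.k + ((starRingEnd ℂ) u * z).re ≤ ((starRingEnd ℂ) u * τ.cp hh z).re + e₀) (hB' : ((starRingEnd ℂ) u * τ.cp hh z).re - e₀ ≤ pvwRad N hh τ τ.k + ((starRingEnd ℂ) u * z).re)
    (hev : ∀ β, cfOf Y κ ∈ pvkqRtEv dl β (pvge2Rt (τ.cp hh z) u β (aa β) t e₁ s₁ x₂ sb t₂ (ll β)))
    (hρl : dl / 16 ≤ ρl) (hdS : ∀ β, VorDense Y (pvge2Cl (τ.cp hh z) u β (aa β) e₁ x₂ dl) ρl)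
    (mid : ∀ β, ∀ v : Y, (vorCell Y v ∩ (pvge2RN (τ.cp hh z) u β (aa β) t s₁ x₂ ∪ pvge2RH (τ.cp hh z) u β (aa β) t x₂ sb t₂ ∪ pvge2RV (τ.cp hh z) u β (aa β) t sb t₂ (ll β))).Nonempty → v ∈ K ∧ σ v = κ v)
    (hκt : ∀ v : Y, ‖(v : ℂ) - τ.cp hh z‖ ≤ rs → v ∉ 𝔖.bkP ∪ 𝔖.whP → σ v = κ v)
    (hρd : 0 < ρd) (hcut : sb + t₂ + 2 * ρd ≤ sc) (hroom : ∀ β, ∀ w ∈ Rm β, pvge2S (τ.cp hh z) u w < sc → l0 β ≤ pvge2T (τ.cp hh z) u β w ∧ pvge2T (τ.cp hh z) u β w ≤ l1 β)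
    (hlo : ∀ β, ll β + 3 / 2 * dl + ρd ≤ l0 β) (hhi : ∀ β, l1 β + ρd + 3 / 2 * dl ≤ aa β)
    (hH : ∀ β, ∃ v : Y, pvge2S (τ.cp hh z) u (v : ℂ) ≤ sb - t₂ ∧ (delMap h).Join univ (pvldCol σ {u : Y | (u : ℂ) ∈ Rm β} β) (pvhiEnd (delMap h) β g.aIn) v)
    (hfoot : ∀ β, sc ≤ pvge2S (τ.cp hh z) u ((pvhiEnd (delMap h) β g.aIn : Y) : ℂ))
    (hRm : ∀ β, ∀ v : Y, (v : ℂ) ∈ Rm β → v ∈ K ∧ vorCell Y v ⊆ closedBall (v : ℂ) ρd)
    (hRκ : ∀ β, ∀ v : Y, (v : ℂ) ∈ Rm β → pvge2S (τ.cp hh z) u (v : ℂ) < sc → σ v = κ v) :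
    PvldRun (delMap h) σ K (𝔖.ep 𝔖.np) g.aIn := by
  have ht₂ : 0 ≤ t₂ := by have := (Bb true).core2; have := (Nn true).dl0; linarith
  refine pvge4_link_o (ζ := (starRingEnd ℂ) u) (δ := dl) (ρl := ρl) (ρd := ρd) (ζd := -(starRingEnd ℂ) u) (Rm := Rm)
    (Sg := fun β => pvge2Cl (τ.cp hh z) u β (aa β) e₁ x₂ dl)
    (eC := fun β => (pvge2RC (τ.cp hh z) u β (aa β) t e₁ s₁, pvge2P (τ.cp hh z) u β e₁ (-(aa β)), pvge2P (τ.cp hh z) u β s₁ (aa β)))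
    (eN := fun β => (pvge2RN (τ.cp hh z) u β (aa β) t s₁ x₂, pvge2P (τ.cp hh z) u β s₁ (aa β), pvge2P (τ.cp hh z) u β x₂ (aa β)))
    (t := fun β => pvge2LegsD (τ.cp hh z) u β (aa β) t x₂ sb t₂ (ll β))
    (eD := fun β => (pvge2RV (τ.cp hh z) u β (aa β) t sb t₂ (ll β), pvge2P (τ.cp hh z) u β sb (aa β), pvge2P (τ.cp hh z) u β sb (ll β)))
    (jN := fun _ => 0) (jS := fun _ => 0)
    at_t Et ht1 ht2 hK hco hgp g hdis hζ hot (Nn true).dl0 (fun β => pvge2_Rt_route hu (Nn β) (Bb β)) hev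
    (fun β => pvge2_armReg hu (Nn β) hB hB' le_rfl le_rfl Subset.rfl Subset.rfl) hρl hdS (fun _ => by norm_num) (fun _ => by norm_num)
    (fun β => (pvge2_sd_sub dl _ 0).trans (pvge2_Cl_cellN dl)) (fun β => (pvge2_sd_sub dl _ 0).trans (pvge2_Cl_cellS dl)) (fun β v hv => mid β v (hv.mono (inter_subset_inter_right _ ?_))) hκt
    (fun β => by simp [pvge2LegsD]) (pvge4_turn_norm hu) (fun β => pvge4_doorReg hu hρd ht₂ hcut (hroom β) (hlo β) (hhi β)) (fun β => ?_) (fun β => ?_) hRm (fun β v hv hx => hRκ β v hv ?_)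
  · intro w hw
    simp only [pvkqRtR, pvge2LegsD, List.mem_cons, List.not_mem_nil, or_false, mem_iUnion, mem_ofPred_eq, exists_prop] at hw
    obtain ⟨e, (rfl | rfl | rfl), hw⟩ := hw
    · exact Or.inl (Or.inl hw)
    · exact Or.inl (Or.inr hw)
    · exact Or.inr hw
  · obtain ⟨v, hv, hj⟩ := hH β
    refine ⟨v, ?_, hj⟩
    rw [pvge4_turn_re (τ.cp hh z) u]
    linarith
  · rw [pvge4_turn_re (τ.cp hh z) u]
    have := hfoot β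
    linarith
  · rw [pvge4_turn_re (τ.cp hh z) u] at hx
    linarith

/-- **LAST LINK ON THE ROUTES OF RECORD.**   Mouth `Yc = τ.cm hh z`, outer normal `u`, the route of the (relative) colour `β` on the side `!β` of the ray. -/
theorem pvge4_pat_i (at_s : 𝔖.AtIn (dlsPos Y) N hh z τ σ) (Es : PvhjEnd Y N hh τ (τ.cm hh z) K r r₁ ρ rs)
    (ht1 : ‖((delMap h).src (𝔖.em 𝔖.nm) : ℂ) - τ.cm hh z‖ + 2 * ρ ≤ rt) (ht2 : ‖((delMap h).tgt (𝔖.em 𝔖.nm) : ℂ) - τ.cm hh z‖ + 2 * ρ ≤ rt) (hK : K.Finite) (hco : ∀ u v, u ∉ K → v ∉ K → (delMap h).Join univ Kᶜ u v)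
    (g : (delMap h).Gate σ) {n : ℕ} (hn1 : 1 ≤ n) (hthru : pvasIt (delMap h) σ g.aIn n = g.aOut) (hfirst : ∀ i, i < n → pvasIt (delMap h) σ g.aIn i ≠ g.aOut) (hins : ∀ i, i < n → pvasIt (delMap h) σ g.aIn i ∈ g.c.Left)
    (hvm : g.vm ∉ K) (hdis : 𝔖.em 𝔖.nm ∉ g.c.Left) (hne : g.vp ≠ (delMap h).src (𝔖.em 𝔖.nm)) (hu : ‖u‖ = 1) (hζ : (starRingEnd ℂ) u ∈ pvtzdDir)
    (hos : pvwRad N hh τ τ.k + ((starRingEnd ℂ) u * z).re < ((starRingEnd ℂ) u * (𝔖.am : ℂ)).re)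
    (Nn : ∀ β, Pvge2Num (aa β) t e₁ s₁ x₂ dl ρl e₀ rt (2 * ρ) rs) (Bb : ∀ β, Pvge2Bar (aa β) t x₂ sb t₂ (ll β) dl)
    (hB : pvwRad N hh τ τ.k + ((starRingEnd ℂ) u * z).re ≤ ((starRingEnd ℂ) u * τ.cm hh z).re + e₀) (hB' : ((starRingEnd ℂ) u * τ.cm hh z).re - e₀ ≤ pvwRad N hh τ τ.k + ((starRingEnd ℂ) u * z).re)
    (hev : ∀ β, cfOf Y κ ∈ pvkqRtEv dl β (pvge2Rt (τ.cm hh z) u (!β) (aa β) t e₁ s₁ x₂ sb t₂ (ll β)))
    (hρl : dl / 16 ≤ ρl) (hdS : ∀ β, VorDense Y (pvge2Cl (τ.cm hh z) u (!β) (aa β) e₁ x₂ dl) ρl)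
    (mid : ∀ β, ∀ v : Y, (vorCell Y v ∩ (pvge2RN (τ.cm hh z) u (!β) (aa β) t s₁ x₂ ∪ pvge2RH (τ.cm hh z) u (!β) (aa β) t x₂ sb t₂ ∪ pvge2RV (τ.cm hh z) u (!β) (aa β) t sb t₂ (ll β))).Nonempty → v ∈ K ∧ σ v = κ v)
    (hκs : ∀ v : Y, ‖(v : ℂ) - τ.cm hh z‖ ≤ rs → v ∉ 𝔖.bkM ∪ 𝔖.whM → σ v = κ v)
    (hρd : 0 < ρd) (hcut : sb + t₂ + 2 * ρd ≤ sc) (hroom : ∀ β, ∀ w ∈ Rm β, pvge2S (τ.cm hh z) u w < sc → l0 β ≤ pvge2T (τ.cm hh z) u (!β) w ∧ pvge2T (τ.cm hh z) u (!β) w ≤ l1 β)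
    (hlo : ∀ β, ll β + 3 / 2 * dl + ρd ≤ l0 β) (hhi : ∀ β, l1 β + ρd + 3 / 2 * dl ≤ aa β)
    (hH : ∀ β, ∃ v : Y, pvge2S (τ.cm hh z) u (v : ℂ) ≤ sb - t₂ ∧ (delMap h).Join univ (pvldCol σ {u : Y | (u : ℂ) ∈ Rm β} β) (pvhiEnd (delMap h) β g.aOut) v)
    (hfoot : ∀ β, sc ≤ pvge2S (τ.cm hh z) u ((pvhiEnd (delMap h) β g.aOut : Y) : ℂ))
    (hRm : ∀ β, ∀ v : Y, (v : ℂ) ∈ Rm β → v ∈ K ∧ vorCell Y v ⊆ closedBall (v : ℂ) ρd)
    (hRκ : ∀ β, ∀ v : Y, (v : ℂ) ∈ Rm β → pvge2S (τ.cm hh z) u (v : ℂ) < sc → σ v = κ v) :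
    PvldRun (delMap h) σ K g.aOut (𝔖.em 𝔖.nm) := by
  have ht₂ : 0 ≤ t₂ := by have := (Bb true).core2; have := (Nn true).dl0; linarith
  refine pvge4_link_i (ζ := (starRingEnd ℂ) u) (δ := dl) (ρl := ρl) (ρd := ρd) (ζd := -(starRingEnd ℂ) u) (Rm := Rm)
    (Sg := fun β => pvge2Cl (τ.cm hh z) u (!β) (aa β) e₁ x₂ dl)
    (eC := fun β => (pvge2RC (τ.cm hh z) u (!β) (aa β) t e₁ s₁, pvge2P (τ.cm hh z) u (!β) e₁ (-(aa β)), pvge2P (τ.cm hh z) u (!β) s₁ (aa β)))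
    (eN := fun β => (pvge2RN (τ.cm hh z) u (!β) (aa β) t s₁ x₂, pvge2P (τ.cm hh z) u (!β) s₁ (aa β), pvge2P (τ.cm hh z) u (!β) x₂ (aa β)))
    (t := fun β => pvge2LegsD (τ.cm hh z) u (!β) (aa β) t x₂ sb t₂ (ll β))
    (eD := fun β => (pvge2RV (τ.cm hh z) u (!β) (aa β) t sb t₂ (ll β), pvge2P (τ.cm hh z) u (!β) sb (aa β), pvge2P (τ.cm hh z) u (!β) sb (ll β)))
    (jN := fun _ => 0) (jS := fun _ => 0)
    at_s Es ht1 ht2 hK hco g hn1 hthru hfirst hins hvm hdis hne hζ hos (Nn true).dl0 (fun β => pvge2_Rt_route hu (Nn β) (Bb β)) hev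
    (fun β => pvge2_armReg hu (Nn β) hB hB' le_rfl le_rfl Subset.rfl Subset.rfl) hρl hdS (fun _ => by norm_num) (fun _ => by norm_num)
    (fun β => (pvge2_sd_sub dl _ 0).trans (pvge2_Cl_cellN dl)) (fun β => (pvge2_sd_sub dl _ 0).trans (pvge2_Cl_cellS dl)) (fun β v hv => mid β v (hv.mono (inter_subset_inter_right _ ?_))) hκs
    (fun β => by simp [pvge2LegsD]) (pvge4_turn_norm hu) (fun β => pvge4_doorReg hu hρd ht₂ hcut (hroom β) (hlo β) (hhi β)) (fun β => ?_) (fun β => ?_) hRm (fun β v hv hx => hRκ β v hv ?_)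
  · intro w hw
    simp only [pvkqRtR, pvge2LegsD, List.mem_cons, List.not_mem_nil, or_false, mem_iUnion, mem_ofPred_eq, exists_prop] at hw
    obtain ⟨e, (rfl | rfl | rfl), hw⟩ := hw
    · exact Or.inl (Or.inl hw)
    · exact Or.inl (Or.inr hw)
    · exact Or.inr hw
  · obtain ⟨v, hv, hj⟩ := hH β
    refine ⟨v, ?_, hj⟩
    rw [pvge4_turn_re (τ.cm hh z) u]
    linarith
  · rw [pvge4_turn_re (τ.cm hh z) u]
    have := hfoot β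
    linarith
  · rw [pvge4_turn_re (τ.cm hh z) u] at hx
    linarith

end pat

/-! ## 5. ONE STOP AT THE NUMBERS OF RECORD -/

/-- **the lane of record of one side** (arm of the lane, lane, bar: the route WITHOUT its C): `a` = `27 r / 200` or `4 r / 25`, `lm` = lateral coordinate of the door in the frame of the side -/
def pvge4Lane (Yc u : ℂ) (up : Bool) (r q Sp a lm : ℝ) : Set ℂ :=
  pvge2RN Yc u up a (r / 200) (23 * r / 200) (3 * r / 20) ∪ pvge2RH Yc u up a (r / 200) (3 * r / 20) (Sp - 29 * q / 8) (q / 8) ∪ pvge2RV Yc u up a (r / 200) (Sp - 29 * q / 8) (q / 8) (lm + q / 4)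

theorem pvge4_eqns_cite : True := by
  have := @pvge4Lane.eq_1
  trivial

section lane

variable {Yc u : ℂ} {up : Bool} {r δ q dl ρ b μ Sp lam : ℝ}

/-- **WHERE THE SITES OF THE LANE OF RECORD ARE**: a point within `ρ' ≤ q/8` of the lane of the relative colour `β` lies (i) in front of the side of the box (`s > r/10 + 2δ`), (ii) farther than `r/8` from the centre of the mouth (off the tip face and its banks),
(iii) before the plane `s = Sp - 27q/8` (off the door region), (iv) laterally within `r/5` of the door -/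
theorem pvge4_lane_nbd (hu : ‖u‖ = 1) (R : Pvge2Rec r δ q dl ρ b μ Sp lam) (β : Bool) {ρ' : ℝ} (hρ' : ρ' ≤ q / 8) {v w : ℂ}
    (hw : w ∈ pvge4Lane Yc u (if β then up else !up) r q Sp (pvge2Aa r β) (pvge2Lm lam β)) (hv : ‖v - w‖ ≤ ρ') :
    r / 10 + 2 * δ < pvge2S Yc u v ∧ r / 8 < ‖v - Yc‖ ∧ pvge2S Yc u v ≤ Sp - 27 * q / 8 ∧ |pvge2T Yc u up v - lam| ≤ r / 5 ∧ ‖v - Yc‖ ≤ r / 2 := by
  have h1 := R.δ0; have h3 := R.fine; have h8 := R.s_lo; have h8' := R.s_hi; have h9 := abs_le.1 R.lat; have h10 := R.qδ; have h11 := R.q0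
  have hS := abs_le.1 ((pvge2_S_lip hu Yc v w).trans hv)
  have hT := abs_le.1 ((pvge2_T_lip hu Yc up v w).trans hv)
  have hn := pvge2_norm_sq hu Yc up v
  have key : ∀ s l : ℝ, pvge2S Yc u w = s → pvge2T Yc u up w = l → 11 * r / 100 ≤ s → s ≤ Sp - 7 * q / 2 → |l| ≤ 33 * r / 200 → (13 * r / 100 ≤ |l| ∨ 37 * r / 100 ≤ s) →
      r / 10 + 2 * δ < pvge2S Yc u v ∧ r / 8 < ‖v - Yc‖ ∧ pvge2S Yc u v ≤ Sp - 27 * q / 8 ∧ |pvge2T Yc u up v - lam| ≤ r / 5 ∧ ‖v - Yc‖ ≤ r / 2 := by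
    intro s l es el a1 a2 a3 a4
    rw [es] at hS; rw [el] at hT
    have a3' := abs_le.1 a3
    refine ⟨by linarith [hS.1], ?_, by linarith [hS.2], ?_, ?_⟩
    · have hr : 0 ≤ r / 8 := by linarith
      refine lt_of_pow_lt_pow_left₀ 2 (norm_nonneg _) ?_
      rw [hn]
      rcases a4 with a4 | a4
      · have : 129 * r / 1000 ≤ |pvge2T Yc u up v| := by
          rcases le_abs'.1 a4 with a5 | a5
          · exact le_trans (by linarith [hT.2]) (neg_le_abs _)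
          · exact le_trans (by linarith [hT.1]) (le_abs_self _)
        have h2 : (129 * r / 1000) ^ 2 ≤ pvge2T Yc u up v ^ 2 := by
          rw [← sq_abs (pvge2T Yc u up v)]
          exact pow_le_pow_left₀ (by linarith) this 2
        nlinarith [sq_nonneg (pvge2S Yc u v)]
      · have : 36 * r / 100 ≤ pvge2S Yc u v := by linarith [hS.1]
        have h2 : (36 * r / 100) ^ 2 ≤ pvge2S Yc u v ^ 2 := pow_le_pow_left₀ (by linarith) this 2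
        nlinarith [sq_nonneg (pvge2T Yc u up v)]
    · rw [abs_le]
      constructor <;> linarith [hT.1, hT.2, a3'.1, a3'.2, h9.1, h9.2]
    · have hr : 0 ≤ r / 2 := by linarith
      refine le_of_sq_le_sq ?_ hr |> fun h => h
      rw [hn]
      have b1 : |pvge2S Yc u v| ≤ 38 * r / 100 := by rw [abs_le]; constructor <;> linarith [hS.1, hS.2]
      have b2 : |pvge2T Yc u up v| ≤ 17 * r / 100 := by rw [abs_le]; constructor <;> linarith [hT.1, hT.2, a3'.1, a3'.2]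
      have c1 : pvge2S Yc u v ^ 2 ≤ (38 * r / 100) ^ 2 := by rw [← sq_abs (pvge2S Yc u v)]; exact pow_le_pow_left₀ (abs_nonneg _) b1 2
      have c2 : pvge2T Yc u up v ^ 2 ≤ (17 * r / 100) ^ 2 := by rw [← sq_abs (pvge2T Yc u up v)]; exact pow_le_pow_left₀ (abs_nonneg _) b2 2
      nlinarith
  cases β
  · simp only [Bool.false_eq_true, if_false, pvge2Aa, pvge2Lm, pvge4Lane, pvge2RN, pvge2RH, pvge2RV, pvge2_R_flip] at hw
    rcases hw with (⟨x1, x2, x3, x4⟩ | ⟨x1, x2, x3, x4⟩) | ⟨x1, x2, x3, x4⟩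
    · exact key _ _ rfl rfl (by linarith) (by linarith) (by rw [abs_le]; constructor <;> linarith) (Or.inl (le_trans (by linarith) (neg_le_abs _)))
    · exact key _ _ rfl rfl (by linarith) (by linarith) (by rw [abs_le]; constructor <;> linarith) (Or.inl (le_trans (by linarith) (neg_le_abs _)))
    · exact key _ _ rfl rfl (by linarith) (by linarith) (by rw [abs_le]; constructor <;> linarith [h9.1, h9.2]) (Or.inr (by linarith))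
  · simp only [if_true, pvge2Aa, pvge2Lm, pvge4Lane, pvge2RN, pvge2RH, pvge2RV] at hw
    rcases hw with (⟨x1, x2, x3, x4⟩ | ⟨x1, x2, x3, x4⟩) | ⟨x1, x2, x3, x4⟩
    · exact key _ _ rfl rfl (by linarith) (by linarith) (by rw [abs_le]; constructor <;> linarith) (Or.inl (le_trans (by linarith) (le_abs_self _)))
    · exact key _ _ rfl rfl (by linarith) (by linarith) (by rw [abs_le]; constructor <;> linarith) (Or.inl (le_trans (by linarith) (le_abs_self _)))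
    · exact key _ _ rfl rfl (by linarith) (by linarith) (by rw [abs_le]; constructor <;> linarith [h9.1, h9.2]) (Or.inr (by linarith))

end lane

section rec

variable {h : DelGood Y} {𝔖 : PvwSt (delMap h)} {N : PvwNum} {hh : ℝ} {z : ℂ} {τ : PvwTy} {K : Set Y} {r r₁ ρ rt : ℝ} {u : ℂ} {σ : Y → Bool} {κ : ℂ → Bool}
  {R₀ δ q dl ρl Sp lam : ℝ} {Rm : Bool → Set ℂ}

/-- **FIRST LINK AT THE NUMBERS OF RECORD.**   `R₀ = ρ h` (radius of reference of the mouth), small mouth `R₀/4`, side of the box within `R₀/10` of the centre, door of unit `q` at `(Sp, lam)` (frame of the side `true` = LEFT of `u`), RELATIVE colours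
(`true` = the colour of the left bank), `κ` carries `pvge2PatRec Yc u true true R₀ q Sp lam`;   cut plane `s = Sp - 13q/4`, mesh `q/16` in the rooms, ends of the half lanes at `s ≤ Sp - 15q/4` (targets `4q`). -/
theorem pvge4_rec_o (at_t : 𝔖.AtOut (dlsPos Y) N hh z τ σ) (Et : PvhjEnd Y N hh τ (τ.cp hh z) K r r₁ ρ (R₀ / 4))
    (ht1 : ‖((delMap h).src (𝔖.ep 𝔖.np) : ℂ) - τ.cp hh z‖ + 2 * ρ ≤ rt) (ht2 : ‖((delMap h).tgt (𝔖.ep 𝔖.np) : ℂ) - τ.cp hh z‖ + 2 * ρ ≤ rt) (hK : K.Finite) (hco : ∀ u v, u ∉ K → v ∉ K → (delMap h).Join univ Kᶜ u v)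
    (hgp : 𝔖.gp ∉ K) (g : (delMap h).Gate σ) (hdis : g.vm ∉ 𝔖.bkP) (hu : ‖u‖ = 1) (hζ : (starRingEnd ℂ) u ∈ pvtzdDir) (hot : pvwRad N hh τ τ.k + ((starRingEnd ℂ) u * z).re < ((starRingEnd ℂ) u * (𝔖.ap : ℂ)).re)
    (Rc : Pvge2Rec R₀ δ q dl ρl rt (2 * ρ) Sp lam)
    (hB : pvwRad N hh τ τ.k + ((starRingEnd ℂ) u * z).re ≤ ((starRingEnd ℂ) u * τ.cp hh z).re + R₀ / 10) (hB' : ((starRingEnd ℂ) u * τ.cp hh z).re - R₀ / 10 ≤ pvwRad N hh τ τ.k + ((starRingEnd ℂ) u * z).re)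
    (hev : cfOf Y κ ∈ pvkqPat dl (pvge2PatRec (τ.cp hh z) u true true R₀ q Sp lam))
    (hρl : dl / 16 ≤ ρl) (hdS : ∀ β, VorDense Y (pvge2Cl (τ.cp hh z) u β (pvge2Aa R₀ β) (23 * R₀ / 200) (3 * R₀ / 20) dl) ρl)
    (mid : ∀ β, ∀ v : Y, (vorCell Y v ∩ pvge4Lane (τ.cp hh z) u β R₀ q Sp (pvge2Aa R₀ β) (pvge2Lm lam β)).Nonempty → v ∈ K ∧ σ v = κ v)
    (hκt : ∀ v : Y, ‖(v : ℂ) - τ.cp hh z‖ ≤ R₀ / 4 → v ∉ 𝔖.bkP ∪ 𝔖.whP → σ v = κ v)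
    (hroom : ∀ β, ∀ w ∈ Rm β, pvge2S (τ.cp hh z) u w < Sp - 13 * q / 4 → pvge2Lm lam β + q / 2 ≤ pvge2T (τ.cp hh z) u β w ∧ pvge2T (τ.cp hh z) u β w ≤ pvge2Lm lam β + 3 * q / 2)
    (hH : ∀ β, ∃ v : Y, pvge2S (τ.cp hh z) u (v : ℂ) ≤ Sp - 15 * q / 4 ∧ (delMap h).Join univ (pvldCol σ {u : Y | (u : ℂ) ∈ Rm β} β) (pvhiEnd (delMap h) β g.aIn) v)
    (hfoot : ∀ β, Sp - 13 * q / 4 ≤ pvge2S (τ.cp hh z) u ((pvhiEnd (delMap h) β g.aIn : Y) : ℂ))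
    (hRm : ∀ β, ∀ v : Y, (v : ℂ) ∈ Rm β → v ∈ K ∧ vorCell Y v ⊆ closedBall (v : ℂ) (q / 16))
    (hRκ : ∀ β, ∀ v : Y, (v : ℂ) ∈ Rm β → pvge2S (τ.cp hh z) u (v : ℂ) < Sp - 13 * q / 4 → σ v = κ v) :
    PvldRun (delMap h) σ K (𝔖.ep 𝔖.np) g.aIn := by
  have h1 := Rc.δ0; have h3 := Rc.fine; have h4 := Rc.mesh; have h5 := Rc.dl0; have h9 := abs_le.1 Rc.lat; have h10 := Rc.qδ; have h11 := Rc.q0
  refine pvge4_pat_o (aa := pvge2Aa R₀) (ll := fun β => pvge2Lm lam β + q / 4) (l0 := fun β => pvge2Lm lam β + q / 2) (l1 := fun β => pvge2Lm lam β + 3 * q / 2) (sc := Sp - 13 * q / 4) (ρd := q / 16)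
    at_t Et ht1 ht2 hK hco hgp g hdis hu hζ hot (fun β => (Rc.num β).mono_e (by linarith) (by linarith)) Rc.bar hB hB' (fun β => ?_) hρl hdS mid hκt (by linarith) (by linarith) hroom (fun β => by show pvge2Lm lam β + q / 4 + 3 / 2 * dl + q / 16 ≤ pvge2Lm lam β + q / 2; linarith) (fun β => ?_)
    (fun β => ?_) hfoot hRm hRκ
  · have := pvge2_patRec_ev hev β
    cases β <;> exact this
  · show pvge2Lm lam β + 3 * q / 2 + q / 16 + 3 / 2 * dl ≤ pvge2Aa R₀ β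
    cases β <;> simp only [pvge2Lm, pvge2Aa, if_true, if_false, Bool.false_eq_true] <;> linarith [h9.1, h9.2]
  · obtain ⟨v, hv, hj⟩ := hH β
    exact ⟨v, by linarith, hj⟩

/-- **LAST LINK AT THE NUMBERS OF RECORD.**   `u` = OUTER normal of the entrance mouth, door at `(Sp, lam)` in the frame of the side `false` (= RIGHT of `u` = left of the direction of travel), `κ` carries `pvge2PatRec Yc u false true R₀ q Sp lam`. -/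
theorem pvge4_rec_i (at_s : 𝔖.AtIn (dlsPos Y) N hh z τ σ) (Es : PvhjEnd Y N hh τ (τ.cm hh z) K r r₁ ρ (R₀ / 4))
    (ht1 : ‖((delMap h).src (𝔖.em 𝔖.nm) : ℂ) - τ.cm hh z‖ + 2 * ρ ≤ rt) (ht2 : ‖((delMap h).tgt (𝔖.em 𝔖.nm) : ℂ) - τ.cm hh z‖ + 2 * ρ ≤ rt) (hK : K.Finite) (hco : ∀ u v, u ∉ K → v ∉ K → (delMap h).Join univ Kᶜ u v)
    (g : (delMap h).Gate σ) {n : ℕ} (hn1 : 1 ≤ n) (hthru : pvasIt (delMap h) σ g.aIn n = g.aOut) (hfirst : ∀ i, i < n → pvasIt (delMap h) σ g.aIn i ≠ g.aOut) (hins : ∀ i, i < n → pvasIt (delMap h) σ g.aIn i ∈ g.c.Left)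
    (hvm : g.vm ∉ K) (hdis : 𝔖.em 𝔖.nm ∉ g.c.Left) (hne : g.vp ≠ (delMap h).src (𝔖.em 𝔖.nm)) (hu : ‖u‖ = 1) (hζ : (starRingEnd ℂ) u ∈ pvtzdDir)
    (hos : pvwRad N hh τ τ.k + ((starRingEnd ℂ) u * z).re < ((starRingEnd ℂ) u * (𝔖.am : ℂ)).re)
    (Rc : Pvge2Rec R₀ δ q dl ρl rt (2 * ρ) Sp lam)
    (hB : pvwRad N hh τ τ.k + ((starRingEnd ℂ) u * z).re ≤ ((starRingEnd ℂ) u * τ.cm hh z).re + R₀ / 10) (hB' : ((starRingEnd ℂ) u * τ.cm hh z).re - R₀ / 10 ≤ pvwRad N hh τ τ.k + ((starRingEnd ℂ) u * z).re)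
    (hev : cfOf Y κ ∈ pvkqPat dl (pvge2PatRec (τ.cm hh z) u false true R₀ q Sp lam))
    (hρl : dl / 16 ≤ ρl) (hdS : ∀ β, VorDense Y (pvge2Cl (τ.cm hh z) u (!β) (pvge2Aa R₀ β) (23 * R₀ / 200) (3 * R₀ / 20) dl) ρl)
    (mid : ∀ β, ∀ v : Y, (vorCell Y v ∩ pvge4Lane (τ.cm hh z) u (!β) R₀ q Sp (pvge2Aa R₀ β) (pvge2Lm lam β)).Nonempty → v ∈ K ∧ σ v = κ v)
    (hκs : ∀ v : Y, ‖(v : ℂ) - τ.cm hh z‖ ≤ R₀ / 4 → v ∉ 𝔖.bkM ∪ 𝔖.whM → σ v = κ v)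
    (hroom : ∀ β, ∀ w ∈ Rm β, pvge2S (τ.cm hh z) u w < Sp - 13 * q / 4 → pvge2Lm lam β + q / 2 ≤ pvge2T (τ.cm hh z) u (!β) w ∧ pvge2T (τ.cm hh z) u (!β) w ≤ pvge2Lm lam β + 3 * q / 2)
    (hH : ∀ β, ∃ v : Y, pvge2S (τ.cm hh z) u (v : ℂ) ≤ Sp - 15 * q / 4 ∧ (delMap h).Join univ (pvldCol σ {u : Y | (u : ℂ) ∈ Rm β} β) (pvhiEnd (delMap h) β g.aOut) v)
    (hfoot : ∀ β, Sp - 13 * q / 4 ≤ pvge2S (τ.cm hh z) u ((pvhiEnd (delMap h) β g.aOut : Y) : ℂ))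
    (hRm : ∀ β, ∀ v : Y, (v : ℂ) ∈ Rm β → v ∈ K ∧ vorCell Y v ⊆ closedBall (v : ℂ) (q / 16))
    (hRκ : ∀ β, ∀ v : Y, (v : ℂ) ∈ Rm β → pvge2S (τ.cm hh z) u (v : ℂ) < Sp - 13 * q / 4 → σ v = κ v) :
    PvldRun (delMap h) σ K g.aOut (𝔖.em 𝔖.nm) := by
  have h1 := Rc.δ0; have h3 := Rc.fine; have h4 := Rc.mesh; have h5 := Rc.dl0; have h9 := abs_le.1 Rc.lat; have h10 := Rc.qδ; have h11 := Rc.q0
  refine pvge4_pat_i (aa := pvge2Aa R₀) (ll := fun β => pvge2Lm lam β + q / 4) (l0 := fun β => pvge2Lm lam β + q / 2) (l1 := fun β => pvge2Lm lam β + 3 * q / 2) (sc := Sp - 13 * q / 4) (ρd := q / 16)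
    at_s Es ht1 ht2 hK hco g hn1 hthru hfirst hins hvm hdis hne hu hζ hos (fun β => (Rc.num β).mono_e (by linarith) (by linarith)) Rc.bar hB hB' (fun β => ?_) hρl hdS mid hκs (by linarith) (by linarith) hroom
    (fun β => by show pvge2Lm lam β + q / 4 + 3 / 2 * dl + q / 16 ≤ pvge2Lm lam β + q / 2; linarith) (fun β => ?_) (fun β => ?_) hfoot hRm hRκ
  · have := pvge2_patRec_ev hev β
    cases β <;> exact this
  · show pvge2Lm lam β + 3 * q / 2 + q / 16 + 3 / 2 * dl ≤ pvge2Aa R₀ β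
    cases β <;> simp only [pvge2Lm, pvge2Aa, if_true, if_false, Bool.false_eq_true] <;> linarith [h9.1, h9.2]
  · obtain ⟨v, hv, hj⟩ := hH β
    exact ⟨v, by linarith, hj⟩

end rec

end Claimed.Agent.R289
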