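-- KEEP
import Claimed.Agent.R289.Tr.FrcPat
import Claimed.Agent.R289.Tr.PlugFrcR

/-!
# Row 289 (S0537), THE WALL, ROAD E, E10, file Tr/FrcPatM : THE PATTERN HALF OF `PvjeTest.Ok` AND THE COST, MESH CLAUSE ON THE WHOLE WINDOW `O` (EVENT `pvjoMesh` OF 52)      (helper127; prefix `pvjw_`, `pvjw`)

WHY.   `pvrgMesh ρ O = {η | PvtrMesh ρ O (cfSites η)}` IS NOT MEASURABLE (a configuration is ANY set of points; the σ-algebra is generated by the voids): a test `𝒦 = pattern ∩ pvrgMesh ρ O` fails `PvjeTest.Ok.mK` and `hA` of `pvrg_test_small`.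
`pvjoMesh ρ O` (52, `Tr/PlugFrcR`: mesh + local finiteness of the restriction to `O`) is measurable, an exact reader of `O`, colour blind, of probability `→ 1`.      MODEL FREE, 0 sorry.
* sec. 1  `pvjw_blind`, `pvjw_ms_up`;   **`pvjwT O dl F ρ ℋ Cd t b : PvjeTest`** `= ⟨O, pvkqPat dl F ∩ pvjoMesh ρ O, ℋ, Cd, t, b⟩`;   **`pvjw_ok`** : door half `PvjpDoor` (248 / 77) + `PvkqFit` + `pvkqPatR F ⊆ O ⊆ M ∪ K` + rooms `⊆ Kb`, `Kw` ⟹ `(pvjwT ..).Ok E ε`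
* sec. 2  `pvjw_with`, `pvjw_with_lim` (a measurable COLOUR BLIND event of high probability inside the test: THE SAME THRESHOLD, no `/ 2`);   **`pvjw_cost`** = `hG` of `pvje_cut` at `pvjwT`, ONE `q`, threshold of the pattern alone
-/

set_option autoImplicit false

namespace Claimed.Agent.R289

open Set MeasureTheory Filter Topology Claims.C0465
open scoped ENNReal

/-! ## 1. pattern `∩` the mesh event of 52 (exact reader, measurable) -/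

/-- the mesh event of 52 does not see the colours -/
theorem pvjw_blind (ρ : ℝ) (E Y : Set ℂ) (c c' : ℂ → Bool) (h : cfOf Y c ∈ pvjoMesh ρ E) : cfOf Y c' ∈ pvjoMesh ρ E := by
  rw [pvjo_mesh_iff, cfOf_sites, pvay_of_restr] at h ⊢
  exact ⟨h.1, pvlhf_lf_congr h.2⟩

theorem pvjw_ms_up (s : ℂ → Option Bool) (ρ : ℝ) (E Y : Set ℂ) : PvlhUp s (pvlhCp Y (pvjoMesh ρ E)) :=
  fun c c' _ hc => pvjw_blind ρ E Y c c' hc

/-- **THE TEST**: window `O`, pattern `F` of mesh `dl`, mesh `ρ` of the WHOLE window (event of 52) -/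
noncomputable def pvjwT (O : Set ℂ) (dl : ℝ) (F : List (Bool × List (Set ℂ × ℂ × ℂ))) (ρ : ℝ) (ℋ Cd : Set (Conf PvPt)) (t b : ℝ≥0∞) : PvjeTest where
  O := O
  𝒦 := pvkqPat dl F ∩ pvjoMesh ρ O
  ℋ := ℋ
  Cd := Cd
  t := t
  b := b

theorem pvjw_patm_eqns_cite : True := by
  have := @pvjwT.eq_1
  trivial

/-- **THE CONTRACT ON THE TESTS FROM ITS TWO HALVES**, mesh clause on the whole window -/
theorem pvjw_ok {E : PvjeEnd} {ε : ℝ} {ℋ Cd : Set (Conf PvPt)} {b : ℝ≥0∞} {Kb Kw : Set ℂ} (hdoor : PvjpDoor E ε ℋ Cd b Kb Kw) (hd : Disjoint Kb Kw)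
    {dl : ℝ} {M K : ℕ} {F : List (Bool × List (Set ℂ × ℂ × ℂ))} (hfit : PvkqFit dl M K F) {O : Set ℂ} (mO : MeasurableSet O) (bO : Bornology.IsBounded O) (hFO : pvkqPatR F ⊆ O)
    (hO : O ⊆ E.M ∪ E.K) (hb : pvjpRm true F ⊆ Kb) (hw : pvjpRm false F ⊆ Kw) (ρ : ℝ) (t : ℝ≥0∞) : (pvjwT O dl F ρ ℋ Cd t b).Ok E ε where
  mO := mO
  bO := bO
  O_sub := hO
  mK := hfit.meas.inter (pvjo_mesh_meas ρ mO)
  rK := fun η => by
    have h1 := (hfit.reads.mono (Set.prod_mono hFO (Subset.refl (univ : Set Bool)))) η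
    have h2 := pvjo_mesh_reads ρ O η
    show (Conf.restr (O ×ˢ univ) η ∈ pvkqPat dl F ∧ Conf.restr (O ×ˢ univ) η ∈ pvjoMesh ρ O) ↔ (η ∈ pvkqPat dl F ∧ η ∈ pvjoMesh ρ O)
    rw [h1, h2]
  mH := hdoor.mH
  rH := hdoor.rH
  thr := hdoor.thr
  loc := hdoor.loc
  up := fun η₀ Y Fz σ hY hn hF hD hFz =>
    ⟨pvlhSg Y Kb Kw, pvlh_sg_countable hY Kb Kw, hdoor.up η₀ Y Fz σ hY hn hF hD hFz,
      fun c c' hle hc => ⟨pvjp_pat_up hfit Y hd (inter_subset_right.trans hb) (inter_subset_right.trans hw) c c' hle hc.1, pvjw_ms_up _ ρ O Y c c' hle hc.2⟩⟩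

/-! ## 2. the cost: a colour blind event of high probability inside the test does not lower the threshold -/

/-- a measurable event which does not see the colours may be put inside the test AT THE SAME THRESHOLD -/
theorem pvjw_with (ε : ℝ) (𝒜 : Set (Conf PvPt)) {ℳ : Set (Conf PvPt)} (hM : MeasurableSet ℳ) (hb : ∀ (g : PvGeoT) (c c' : PvColT), pvConf (pvMerge (g, c)) ∈ ℳ → pvConf (pvMerge (g, c')) ∈ ℳ) (t : ℝ≥0∞) :
    pvGeo ε {g | pvQc (𝒜 ∩ ℳ) g < t} ≤ pvGeo ε {g | pvQc 𝒜 g < t} + pvP ε ℳᶜ := by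
  have hsub : {g | pvQc (𝒜 ∩ ℳ) g < t} ⊆ {g | pvQc 𝒜 g < t} ∪ {g | 1 ≤ pvQc ℳᶜ g} := by
    intro g hg
    by_cases h : ∃ c, pvConf (pvMerge (g, c)) ∈ ℳ
    · obtain ⟨c, hc⟩ := h
      left
      have e : pvQc (𝒜 ∩ ℳ) g = pvQc 𝒜 g := by
        rw [pvqu_Qc_eq, pvqu_Qc_eq]
        congr 1
        ext c'
        exact ⟨fun h => h.1, fun h => ⟨h, hb g c c' hc⟩⟩
      have hg' : pvQc (𝒜 ∩ ℳ) g < t := hg
      rw [e] at hg'
      exact hg'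
    · right
      push Not at h
      have e : pvQc ℳᶜ g = pvQc univ g := by
        rw [pvqu_Qc_eq, pvqu_Qc_eq]
        congr 1
        ext c'
        exact ⟨fun _ => mem_univ _, fun _ => h c'⟩
      show 1 ≤ pvQc ℳᶜ g
      rw [e, pvqu_Qc_univ]
  have hmk := meas_ge_le_lintegral_div (μ := pvGeo ε) (pvqu_Qc_meas hM.compl).aemeasurable one_ne_zero ENNReal.one_ne_top
  rw [pvqu_Qc_lintegral ε hM.compl, div_one] at hmk
  exact (measure_mono hsub).trans ((measure_union_le _ _).trans (add_le_add le_rfl hmk))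

theorem pvjw_with_lim {𝒜 ℳ : Set (Conf PvPt)} (hM : MeasurableSet ℳ) (hb : ∀ (g : PvGeoT) (c c' : PvColT), pvConf (pvMerge (g, c)) ∈ ℳ → pvConf (pvMerge (g, c')) ∈ ℳ) {t : ℝ≥0∞}
    (hA : Tendsto (fun ε : ℝ => pvGeo ε {g | pvQc 𝒜 g < t}) (𝓝[>] (0 : ℝ)) (𝓝 0)) (hP : Tendsto (fun ε : ℝ => pvP ε ℳᶜ) (𝓝[>] (0 : ℝ)) (𝓝 0)) :
    Tendsto (fun ε : ℝ => pvGeo ε {g | pvQc (𝒜 ∩ ℳ) g < t}) (𝓝[>] (0 : ℝ)) (𝓝 0) := by
  have hlim : Tendsto (fun ε : ℝ => pvGeo ε {g | pvQc 𝒜 g < t} + pvP ε ℳᶜ) (𝓝[>] (0 : ℝ)) (𝓝 0) := by simpa using hA.add hP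
  exact tendsto_of_tendsto_of_tendsto_of_le_of_le tendsto_const_nhds hlim (fun _ => zero_le) fun ε => pvjw_with ε 𝒜 hM hb t

/-- **THE COST OF THE TEST** (`hG` of `pvje_cut`): ONE `q`, THE THRESHOLD OF THE PATTERN ALONE, any tile, any `θ` -/
theorem pvjw_cost : ∃ q : ℝ, 0 < q ∧ q ≤ 1 ∧ ∀ (M K : ℕ) (dl : ℝ) (F : List (Bool × List (Set ℂ × ℂ × ℂ))), PvkqFit dl M K F → ∀ O : Set ℂ, MeasurableSet O → Bornology.IsBounded O → pvkqPatR F ⊆ O →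
    ∀ ρ : ℝ, 0 < ρ → ∀ C : Set ℂ, MeasurableSet C → ∀ θ : ℝ≥0∞, θ ≠ 0 → θ ≠ ∞ →
      PvrgSmall fun ε => (pvayGood2 ε C O (pvkqPat dl F ∩ pvjoMesh ρ O) (ENNReal.ofReal ((q ^ (15 * (K * (2 * M + 1) ^ 2)) / 2) ^ F.length)) θ)ᶜ := by
  obtain ⟨q, h0, h1, H⟩ := pvkq_pat_lim
  refine ⟨q, h0, h1, fun M K dl F hF O mO bO hFO ρ hρ C hC θ hθ hθ' => ?_⟩
  refine pvrg_test_small hC mO bO (hF.meas.inter (pvjo_mesh_meas ρ mO)) (fun η => ?_) (pvjw_with_lim (pvjo_mesh_meas ρ mO) (pvjo_mesh_blind ρ O) (H M K dl F hF).1 (pvjo_mesh_lim hρ bO)) hθ hθ'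
  have h1 := (hF.reads.mono (Set.prod_mono hFO (Subset.refl (univ : Set Bool)))) η
  have h2 := pvjo_mesh_reads ρ O η
  show (Conf.restr (O ×ˢ univ) η ∈ pvkqPat dl F ∧ Conf.restr (O ×ˢ univ) η ∈ pvjoMesh ρ O) ↔ (η ∈ pvkqPat dl F ∧ η ∈ pvjoMesh ρ O)
  rw [h1, h2]

end Claimed.Agent.R289
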