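import Claimed.Agent.R289.Tr.Hook
import Claimed.Agent.R289.Tr.Lane
import Claimed.Agent.R289.Cr.Inst
import Claimed.Agent.R289.Del.Plane

/-!
# Row 289 (S0537), THE WALL, file Tr/HookGd : PRODUCERS OF `PvhkGeo` / `PvhkGood` (`Tr/Hook` of 5)      (helper167, post Z2 of 82; prefix `pvja_`, `Pvja`)

`PvhkGeo O σ ℰ` (the section of `ℰ` at the frozen state does not look at the colours) and `PvhkGood O σ ℰ g` (the section holds at the geometry `g`) are the two hypotheses on the mesh event of the abstract bridges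
`pvhk_bridge`, `pvhk_bridge_net` (5) and `pvfp_bridge`, `PvfpConn.Ok.geo`, `PvfpConn.Up` (272, `Tr/ForceP`).      They had no producer.   NOTE: `Tr/ForceI` of 272 takes `E := univ` (`pvja_geo_univ`, `pvja_good_univ`).
* sec. 1  `PvjaBlind ℰ` (COLOUR BLIND: `ℰ` is a property of the set of sites), calculus (`univ inter union compl iInter restr`), `pvja_sites_spl`.
* sec. 2  **`pvja_geo`** : blind + state region `K ×ˢ univ`  ⟹  `PvhkGeo`;   `pvja_conn_geo` (the field `geo` of `PvfpConn.Ok`).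
* sec. 3  `pvja_good_iff` (one colouring decides), `pvja_good_sites` (`PvhkGood` = a property of `cfSites σ ∩ K ∪ pvgSites g \ K`), `pvja_Qc_good`, `pvja_Qc_bad` (the quenched probability of the section is `1` or `0`),
          **`pvja_bad_eq`** : `pvGeo ε {g | ¬ PvhkGood O σ ℰ g} = P(ℰᶜ | σ)`,   `pvja_good_ae`.
* sec. 4  AT THE MODEL: the events of record which are blind: `pvja_blind_del` (`DelGood`), `pvja_blind_fine` (`L9Fine`), `pvja_blind_occ`, `pvja_blind_grid`, `pvja_blind_G` (`pvlnG` of 229), `pvja_blind_quench` (ANY function of the sites, e.g. QBX-good geometry).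
* sec. 5  an event read OFF the state region: `pvja_good_off` (`PvhkGood` does not see the state), **`pvja_bad_off`** : `pvGeo ε {g | ¬ PvhkGood ..} = pvP ε ℰᶜ`, uniformly in `σ`.
-/

set_option autoImplicit false

namespace Claimed.Agent.R289

open MeasureTheory Set Filter Topology Claims.C0465
open scoped ENNReal

/-! ## 1. colour blind events -/

/-- **COLOUR BLIND**: the event is a property of the set of sites -/
def PvjaBlind (ℰ : Set (Conf PvPt)) : Prop := ∀ η η' : Conf PvPt, cfSites η = cfSites η' → η ∈ ℰ → η' ∈ ℰ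

theorem pvja_eqns_cite : True := by
  have := @PvjaBlind.eq_1
  trivial

theorem PvjaBlind.iff {ℰ : Set (Conf PvPt)} (h : PvjaBlind ℰ) {η η' : Conf PvPt} (e : cfSites η = cfSites η') : η ∈ ℰ ↔ η' ∈ ℰ :=
  ⟨h η η' e, h η' η e.symm⟩

/-- any property of the set of sites -/
theorem pvja_blind_sites (p : Set ℂ → Prop) : PvjaBlind {η | p (cfSites η)} := fun η η' e h => by
  show p (cfSites η')
  rw [← e]; exact h

theorem pvja_blind_univ : PvjaBlind univ := fun _ _ _ _ => mem_univ _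

theorem PvjaBlind.inter {ℰ ℱ : Set (Conf PvPt)} (h : PvjaBlind ℰ) (h' : PvjaBlind ℱ) : PvjaBlind (ℰ ∩ ℱ) :=
  fun η η' e hη => ⟨h η η' e hη.1, h' η η' e hη.2⟩

theorem PvjaBlind.union {ℰ ℱ : Set (Conf PvPt)} (h : PvjaBlind ℰ) (h' : PvjaBlind ℱ) : PvjaBlind (ℰ ∪ ℱ) :=
  fun η η' e hη => hη.elim (fun x => Or.inl (h η η' e x)) fun x => Or.inr (h' η η' e x)

theorem PvjaBlind.compl {ℰ : Set (Conf PvPt)} (h : PvjaBlind ℰ) : PvjaBlind ℰᶜ :=
  fun η η' e hη hη' => hη (h η' η e.symm hη')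

theorem pvja_blind_iInter {ι : Sort*} {ℰ : ι → Set (Conf PvPt)} (h : ∀ i, PvjaBlind (ℰ i)) : PvjaBlind (⋂ i, ℰ i) :=
  fun η η' e hη => mem_iInter.2 fun i => h i η η' e (mem_iInter.1 hη i)

theorem pvja_blind_forall {ι : Type*} (l : Set ι) {ℰ : ι → Set (Conf PvPt)} (h : ∀ i ∈ l, PvjaBlind (ℰ i)) : PvjaBlind {η | ∀ i ∈ l, η ∈ ℰ i} :=
  fun η η' e hη i hi => h i hi η η' e (hη i hi)

/-- the sites of a restriction to a colour blind window -/
theorem pvja_sites_restr (K : Set ℂ) (η : Conf PvPt) : cfSites (Conf.restr (K ×ˢ univ) η) = cfSites η ∩ K := by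
  ext z
  constructor
  · rintro ⟨p, ⟨hp, hK⟩, rfl⟩
    exact ⟨⟨p, hp, rfl⟩, hK.1⟩
  · rintro ⟨⟨p, hp, rfl⟩, hK⟩
    exact ⟨p, ⟨hp, hK, mem_univ _⟩, rfl⟩

theorem PvjaBlind.restr {ℰ : Set (Conf PvPt)} (h : PvjaBlind ℰ) (K : Set ℂ) : PvjaBlind (Conf.restr (K ×ˢ (univ : Set Bool)) ⁻¹' ℰ) :=
  fun η η' e hη => h _ _ (by rw [pvja_sites_restr, pvja_sites_restr, e]) hη

/-- the sites of a splice along a colour blind state region -/
theorem pvja_sites_spl (K : Set ℂ) (σ η : Conf PvPt) : cfSites (Conf.spl (K ×ˢ univ) (σ, η)) = cfSites σ ∩ K ∪ cfSites η \ K := by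
  ext z
  constructor
  · rintro ⟨p, hp | hp, rfl⟩
    · exact Or.inl ⟨⟨p, hp.1, rfl⟩, hp.2.1⟩
    · exact Or.inr ⟨⟨p, hp.1, rfl⟩, fun hK => hp.2 ⟨hK, mem_univ _⟩⟩
  · rintro (⟨⟨p, hp, rfl⟩, hK⟩ | ⟨⟨p, hp, rfl⟩, hK⟩)
    · exact ⟨p, Or.inl ⟨hp, hK, mem_univ _⟩, rfl⟩
    · exact ⟨p, Or.inr ⟨hp, fun h => hK h.1⟩, rfl⟩

/-! ## 2. `PvhkGeo` -/

/-- **PRODUCER OF `PvhkGeo`**: a colour blind event, a colour blind state region, ANY state -/
theorem pvja_geo (K : Set ℂ) (σ : Conf PvPt) {ℰ : Set (Conf PvPt)} (h : PvjaBlind ℰ) : PvhkGeo (K ×ˢ univ) σ ℰ := by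
  intro g c c' hc
  refine h _ _ ?_ hc
  rw [pvja_sites_spl, pvja_sites_spl, pvqu_cfSites, pvqu_cfSites]

theorem pvja_geo_univ (O : Set PvPt) (σ : Conf PvPt) : PvhkGeo O σ univ := fun _ _ _ _ => mem_univ _

theorem pvja_good_univ (O : Set PvPt) (σ : Conf PvPt) (g : PvGeoT) : PvhkGood O σ univ g := fun _ => mem_univ _

theorem pvja_geo_inter {O : Set PvPt} {σ : Conf PvPt} {ℰ ℱ : Set (Conf PvPt)} (h : PvhkGeo O σ ℰ) (h' : PvhkGeo O σ ℱ) : PvhkGeo O σ (ℰ ∩ ℱ) :=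
  fun g c c' hc => ⟨h g c c' hc.1, h' g c c' hc.2⟩

theorem pvja_geo_compl {O : Set PvPt} {σ : Conf PvPt} {ℰ : Set (Conf PvPt)} (h : PvhkGeo O σ ℰ) : PvhkGeo O σ ℰᶜ :=
  fun g c c' hc hc' => hc (h g c' c hc')

theorem pvja_good_inter {O : Set PvPt} {σ : Conf PvPt} {ℰ ℱ : Set (Conf PvPt)} {g : PvGeoT} : PvhkGood O σ (ℰ ∩ ℱ) g ↔ PvhkGood O σ ℰ g ∧ PvhkGood O σ ℱ g :=
  ⟨fun h => ⟨fun c => (h c).1, fun c => (h c).2⟩, fun h c => ⟨h.1 c, h.2 c⟩⟩

theorem pvja_good_mono {O : Set PvPt} {σ : Conf PvPt} {ℰ ℱ : Set (Conf PvPt)} (hs : ℰ ⊆ ℱ) {g : PvGeoT} (h : PvhkGood O σ ℰ g) : PvhkGood O σ ℱ g := fun c => hs (h c)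

/-! ## 3. `PvhkGood` -/

/-- one colouring decides -/
theorem pvja_good_iff {O : Set PvPt} {σ : Conf PvPt} {ℰ : Set (Conf PvPt)} (h : PvhkGeo O σ ℰ) (g : PvGeoT) (c : PvColT) :
    PvhkGood O σ ℰ g ↔ pvConf (pvMerge (g, c)) ∈ pvhkSec O σ ℰ := ⟨fun hg => hg c, fun hc c' => h g c c' hc⟩

/-- `PvhkGood` for a property of the sites -/
theorem pvja_good_sites (K : Set ℂ) (σ : Conf PvPt) (p : Set ℂ → Prop) (g : PvGeoT) :
    PvhkGood (K ×ˢ univ) σ {η | p (cfSites η)} g ↔ p (cfSites σ ∩ K ∪ pvgSites g \ K) := by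
  have e : ∀ c, cfSites (Conf.spl (K ×ˢ univ) (σ, pvConf (pvMerge (g, c)))) = cfSites σ ∩ K ∪ pvgSites g \ K := fun c => by
    rw [pvja_sites_spl, pvqu_cfSites]
  constructor
  · intro h
    have := h (fun _ => true)
    change p (cfSites _) at this
    rwa [e] at this
  · intro h c
    show p (cfSites _)
    rw [e]; exact h

/-- at a good geometry the section has quenched probability `1` -/
theorem pvja_Qc_good {O : Set PvPt} {σ : Conf PvPt} {ℰ : Set (Conf PvPt)} {g : PvGeoT} (h : PvhkGood O σ ℰ g) : pvQc (pvhkSec O σ ℰ) g = 1 := by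
  rw [pvqu_Qc_eq]
  have : {c | pvConf (pvMerge (g, c)) ∈ pvhkSec O σ ℰ} = univ := eq_univ_of_forall h
  rw [this, measure_univ]

/-- at a bad geometry the section has quenched probability `0` -/
theorem pvja_Qc_bad {O : Set PvPt} {σ : Conf PvPt} {ℰ : Set (Conf PvPt)} (hgeo : PvhkGeo O σ ℰ) {g : PvGeoT} (h : ¬ PvhkGood O σ ℰ g) : pvQc (pvhkSec O σ ℰ) g = 0 := by
  rw [pvqu_Qc_eq]
  have : {c | pvConf (pvMerge (g, c)) ∈ pvhkSec O σ ℰ} = ∅ := by
    ext c
    simp only [mem_ofPred_eq, mem_empty_iff_false, iff_false]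
    exact fun hc => h ((pvja_good_iff hgeo g c).2 hc)
  rw [this, measure_empty]

/-- the good geometries form a measurable set -/
theorem pvja_good_meas {O : Set PvPt} (hO : MeasurableSet O) (σ : Conf PvPt) {ℰ : Set (Conf PvPt)} (mE : MeasurableSet ℰ) (hgeo : PvhkGeo O σ ℰ) :
    MeasurableSet {g | PvhkGood O σ ℰ g} := by
  have e : {g | PvhkGood O σ ℰ g} = pvQc (pvhkSec O σ ℰ) ⁻¹' {1} := by
    ext g
    constructor
    · exact fun h => pvja_Qc_good h
    · intro h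
      by_contra hn
      have h0 := pvja_Qc_bad hgeo hn
      rw [mem_preimage, mem_singleton_iff, h0] at h
      exact zero_ne_one h
  rw [e]
  exact pvqu_Qc_meas (pvhk_sec_meas hO σ mE) (measurableSet_singleton _)

/-- **the bad geometries have the conditional probability of `ℰᶜ` given the state** -/
theorem pvja_bad_eq (ε : ℝ) {O : Set PvPt} (hO : MeasurableSet O) (σ : Conf PvPt) {ℰ : Set (Conf PvPt)} (mE : MeasurableSet ℰ) (hgeo : PvhkGeo O σ ℰ) :
    pvGeo ε {g | ¬ PvhkGood O σ ℰ g} = pvtiP (pvP ε) O ℰᶜ σ := by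
  rw [pvhk_P_eq ε hO σ mE.compl]
  have e : (fun g => pvQc (pvhkSec O σ ℰᶜ) g) = {g | ¬ PvhkGood O σ ℰ g}.indicator 1 := by
    funext g
    by_cases hg : PvhkGood O σ ℰ g
    · rw [indicator_of_notMem (by simpa using hg)]
      refine pvja_Qc_bad (pvja_geo_compl hgeo) fun hn => ?_
      exact hn (fun _ => true) (hg _)
    · rw [indicator_of_mem (show g ∈ {g | ¬ PvhkGood O σ ℰ g} from hg)]
      refine pvja_Qc_good fun c hc => hg ((pvja_good_iff hgeo g c).2 hc)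
  rw [e]
  exact (lintegral_indicator_one (pvja_good_meas hO σ mE hgeo).compl).symm

/-- an event which is sure given the state holds at almost every geometry -/
theorem pvja_good_ae (ε : ℝ) {O : Set PvPt} (hO : MeasurableSet O) (σ : Conf PvPt) {ℰ : Set (Conf PvPt)} (mE : MeasurableSet ℰ) (hgeo : PvhkGeo O σ ℰ)
    (h : pvtiP (pvP ε) O ℰᶜ σ = 0) : ∀ᵐ g ∂(pvGeo ε), PvhkGood O σ ℰ g := by
  rw [ae_iff, pvja_bad_eq ε hO σ mE hgeo, h]

/-! ## 4. the blind events of record -/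

theorem pvja_blind_del : PvjaBlind {η | DelGood (cfSites η)} := pvja_blind_sites DelGood

theorem pvja_blind_fine (K : Set ℂ) (μ : ℝ) : PvjaBlind {η | L9Fine (cfSites η) K μ} := pvja_blind_sites fun Y => L9Fine Y K μ

/-- ANY function of the sites above a level (e.g. the quenched probability of a lane: QBX-good geometry) -/
theorem pvja_blind_quench {β : Type*} [LE β] (f : Set ℂ → β) (q : β) : PvjaBlind {η | q ≤ f (cfSites η)} := pvja_blind_sites fun Y => q ≤ f Y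

theorem pvja_blind_occ (B : Set ℂ) : PvjaBlind (pvmOcc (B ×ˢ (univ : Set Bool))) := by
  intro η η' e hη
  obtain ⟨p, hp, hB⟩ := hη
  have : p.1 ∈ cfSites η' := by rw [← e]; exact ⟨p, hp, rfl⟩
  obtain ⟨p', hp', e'⟩ := this
  exact ⟨p', hp', by rw [e']; exact hB.1, mem_univ _⟩

theorem pvja_blind_grid (δ : ℝ) (w : ℂ) (N : ℕ) : PvjaBlind (pvmGrid univ δ w N) := by
  unfold pvmGrid
  exact pvja_blind_iInter fun k => pvja_blind_iInter fun _ => pvja_blind_occ _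

theorem pvja_blind_mesh (ρ : ℝ) (w : ℂ) (L : ℝ) : PvjaBlind (pvmGood univ ρ w L) := pvja_blind_grid _ _ _

/-- the mesh event of the lanes of 229 -/
theorem pvja_blind_G (cen : List ℂ) (u : ℝ) : PvjaBlind (pvlnG cen u) :=
  pvja_blind_forall {w | w ∈ cen} fun w _ => pvja_blind_mesh _ w u

/-! ## 5. events read off the state region -/

/-- an event read off the state region: `PvhkGood` does not see the state -/
theorem pvja_good_off {O W : Set PvPt} (hW : Disjoint W O) (σ : Conf PvPt) {ℰ : Set (Conf PvPt)} (h : Conf.ReadsSet W ℰ) (g : PvGeoT) :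
    PvhkGood O σ ℰ g ↔ ∀ c, pvConf (pvMerge (g, c)) ∈ ℰ := by
  have e : ∀ η, Conf.spl O (σ, η) ∈ ℰ ↔ η ∈ ℰ := fun η => by rw [← h (Conf.spl O (σ, η)), Conf.restr_spl_of_disjoint hW, h]
  exact ⟨fun hg c => (e _).1 (hg c), fun hg c => (e _).2 (hg c)⟩

/-- **the bad geometries of an event read off the state region**: the same number for all states -/
theorem pvja_bad_off (ε : ℝ) {O W : Set PvPt} (hO : MeasurableSet O) (hW : Disjoint W O) (σ : Conf PvPt) {ℰ : Set (Conf PvPt)} (mE : MeasurableSet ℰ) (hgeo : PvhkGeo O σ ℰ)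
    (h : Conf.ReadsSet W ℰ) : pvGeo ε {g | ¬ PvhkGood O σ ℰ g} = pvP ε ℰᶜ := by
  rw [pvja_bad_eq ε hO σ mE hgeo]
  exact pvhk_P_of_disjoint _ hW σ mE.compl fun η => not_congr (h η)

end Claimed.Agent.R289
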