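import Claimed.Agent.R289.Tr.RegE
import Claimed.Agent.R289.Tr.HookGd
import Claimed.Agent.R289.Tr.StateP
import Claimed.Agent.R289.Tr.DenseS

/-!
# Row 289 (S0537), THE WALL, ROAD E, E10, file Tr/PatMs : A COPY PATTERN WITH A COLOUR BLIND CLAUSE (MESH OF THE TILE)      (helper98; prefix `pvpz_`)      0 sorry

WHY.   Since `Tr/InstL` v2.2 the plain events `pvilMo Mi Me Mr` contain the mesh of their window, so `PvjeDet.ev` (35) owes the mesh of the resampled TILE at every final configuration.   RULING 22 (3) of 234: the tile pays through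
"a geometry clause INSIDE the copy pattern": `T.𝒦 := (pattern of 21 / 298) ∩ ℳ`, `ℳ` = finitely many sites + mesh `ρ` in `E`.      The leaves `[hG cost]`, `[Ok].mK rK up` of `pvje_cut` are then owed AT `T.𝒦`, not at the bare pattern.   MODEL FREE.
* sec. 1  `pvpz_Qc_inter` : at a geometry which has the blind clause the quenched probability does not see it;   `pvpz_geo_le` (outer measures);   **`pvpz_lim`** : `pvGeo ε {pvQc 𝒜 < t} → 0`, `pvP ε ℳᶜ → 0`, `ℳ` blind ⟹ `pvGeo ε {pvQc (𝒜 ∩ ℳ) < t} → 0`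
* sec. 2  **`pvpz_good2_small`** : the certificate `pvayGood2` (196) of `𝒜 ∩ ℳ` costs `o(1)` (= hypothesis `hG` of `pvje_cut`)
* sec. 3  the clause of record `pvpzMs ρ E` (`= pvurMs ρ E` of 31 by `rfl`): blind, Borel, exact reader, `P → 1`;   **`pvpz_pat_small`** : ONE `q`; pattern which fits `∩` mesh of ANY bounded Borel `E`, window `pvkqPatR F ∪ E`
* sec. 4  `[Ok].up`: `pvpz_up_blind` (the copy section of a blind clause is an up-set of EVERY mixed order), `pvpz_up_inter`;   `pvpz_sec_blind` (the same for the frozen section)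
-/

set_option autoImplicit false

namespace Claimed.Agent.R289

open Set MeasureTheory Filter Topology Claims.C0465
open scoped ENNReal

/-! ## 1. the quenched probability does not see a blind clause -/

theorem pvpz_Qc_inter (𝒜 : Set (Conf PvPt)) {ℳ : Set (Conf PvPt)} (hB : PvjaBlind ℳ) {g : PvGeoT} {c₀ : PvColT} (h : pvConf (pvMerge (g, c₀)) ∈ ℳ) : pvQc (𝒜 ∩ ℳ) g = pvQc 𝒜 g := by
  rw [pvqu_Qc_eq, pvqu_Qc_eq]
  congr 1
  ext c
  simp only [mem_ofPred_eq, mem_inter_iff, and_iff_left_iff_imp]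
  intro _
  exact hB _ _ (by rw [pvqu_cfSites, pvqu_cfSites]) h

/-- an event of the site set: labelled geometry against configuration (OUTER measures) -/
theorem pvpz_geo_le (ε : ℝ) (Φ : Set ℂ → Prop) : pvGeo ε {g | Φ (pvgSites g)} ≤ pvP ε {η | Φ (cfSites η)} := by
  rw [← pvax_sites_eq]
  exact Measure.le_map_apply measurable_pvConf.aemeasurable _

theorem pvpz_bad_le (ε : ℝ) {ℳ : Set (Conf PvPt)} (hB : PvjaBlind ℳ) : pvGeo ε {g | ∀ c, pvConf (pvMerge (g, c)) ∉ ℳ} ≤ pvP ε ℳᶜ := by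
  refine le_trans (measure_mono ?_) ((pvpz_geo_le ε fun Y => ∀ η : Conf PvPt, cfSites η = Y → η ∉ ℳ).trans (measure_mono ?_))
  · intro g hg η hη hm
    exact hg (fun _ => true) (hB η _ (by rw [pvqu_cfSites, hη]) hm)
  · intro η hη
    exact hη η rfl

/-- **THE QUENCHED ESTIMATE OF A PATTERN WITH A BLIND CLAUSE** -/
theorem pvpz_lim {𝒜 ℳ : Set (Conf PvPt)} (hB : PvjaBlind ℳ) {t : ℝ≥0∞} (hA : Tendsto (fun ε : ℝ => pvGeo ε {g | pvQc 𝒜 g < t}) (𝓝[>] 0) (𝓝 0))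
    (hM : Tendsto (fun ε : ℝ => pvP ε ℳᶜ) (𝓝[>] 0) (𝓝 0)) : Tendsto (fun ε : ℝ => pvGeo ε {g | pvQc (𝒜 ∩ ℳ) g < t}) (𝓝[>] 0) (𝓝 0) := by
  have h0 : Tendsto (fun ε : ℝ => pvGeo ε {g | pvQc 𝒜 g < t} + pvP ε ℳᶜ) (𝓝[>] 0) (𝓝 0) := by
    simpa using hA.add hM
  refine tendsto_of_tendsto_of_tendsto_of_le_of_le tendsto_const_nhds h0 (fun _ => zero_le) fun ε => ?_
  refine le_trans (measure_mono ?_) ((measure_union_le _ _).trans (add_le_add le_rfl (pvpz_bad_le ε hB)))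
  intro g hg
  by_cases h : ∃ c, pvConf (pvMerge (g, c)) ∈ ℳ
  · obtain ⟨c, hc⟩ := h
    refine Or.inl ?_
    have h1 : pvQc (𝒜 ∩ ℳ) g < t := hg
    rw [pvpz_Qc_inter 𝒜 hB hc] at h1
    exact h1
  · exact Or.inr fun c hc => h ⟨c, hc⟩

/-! ## 2. the certificate -/

/-- **THE CERTIFICATE OF A PATTERN WITH A BLIND CLAUSE IS CHEAP** (`hG` of `pvje_cut`) -/
theorem pvpz_good2_small {C O : Set ℂ} (hC : MeasurableSet C) (hOm : MeasurableSet O) (hO : Bornology.IsBounded O) {𝒜 ℳ : Set (Conf PvPt)} (mA : MeasurableSet 𝒜) (mM : MeasurableSet ℳ)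
    (rA : Conf.ReadsSet (O ×ˢ (univ : Set Bool)) 𝒜) (rM : Conf.ReadsSet (O ×ˢ (univ : Set Bool)) ℳ) (hB : PvjaBlind ℳ) {t : ℝ≥0∞}
    (hA : Tendsto (fun ε : ℝ => pvGeo ε {g | pvQc 𝒜 g < t}) (𝓝[>] 0) (𝓝 0)) (hM : Tendsto (fun ε : ℝ => pvP ε ℳᶜ) (𝓝[>] 0) (𝓝 0)) {θ : ℝ≥0∞} (hθ : θ ≠ 0) (hθ' : θ ≠ ∞) :
    PvrgSmall fun ε => (pvayGood2 ε C O (𝒜 ∩ ℳ) t θ)ᶜ :=
  pvrg_test_small hC hOm hO (mA.inter mM) (rA.inter rM) (pvpz_lim hB hA hM) hθ hθ'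

/-! ## 3. the clause of record: finitely many points and mesh `ρ` in `E` -/

/-- **finitely many points and mesh `ρ` in `E`**      (`= pvurMs ρ E` of 31, `Exit/RefPlug`, by `rfl`) -/
def pvpzMs (ρ : ℝ) (E : Set ℂ) : Set (Conf PvPt) := {η | PvtnFin E η ∧ PvtrMesh ρ E (cfSites η)}

theorem pvpz_eqns_cite : True := by
  have := @pvpzMs.eq_1
  trivial

theorem pvpz_Ms_mesh {ρ : ℝ} {E : Set ℂ} {η : Conf PvPt} (h : η ∈ pvpzMs ρ E) : PvtrMesh ρ E (cfSites η) := h.2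

theorem pvpz_Ms_meas {E : Set ℂ} (mE : MeasurableSet E) (bE : Bornology.IsBounded E) (ρ : ℝ) : MeasurableSet (pvpzMs ρ E) := pvsp_mesh_meas mE bE ρ

theorem pvpz_fin_iff (E : Set ℂ) (η : Conf PvPt) : PvtnFin E η ↔ (cfSites η ∩ E).Finite := by
  unfold PvtnFin
  constructor
  · intro h
    refine (h.image Prod.fst).subset ?_
    rintro z ⟨⟨p, hp, rfl⟩, hz⟩
    exact ⟨p, ⟨hp, hz, mem_univ _⟩, rfl⟩
  · intro h
    refine (h.prod (Set.finite_univ : (univ : Set Bool).Finite)).subset ?_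
    rintro ⟨z, b⟩ ⟨hp, hz, -⟩
    exact ⟨⟨⟨(z, b), hp, rfl⟩, hz⟩, mem_univ _⟩

theorem pvpz_Ms_blind (ρ : ℝ) (E : Set ℂ) : PvjaBlind (pvpzMs ρ E) := by
  rintro η η' e ⟨h1, h2⟩
  refine ⟨?_, ?_⟩
  · rw [pvpz_fin_iff] at h1 ⊢
    rw [← e]; exact h1
  · rw [← e]; exact h2

theorem pvpz_Ms_reads (ρ : ℝ) (E : Set ℂ) : Conf.ReadsSet (E ×ˢ (univ : Set Bool)) (pvpzMs ρ E) := fun η => by
  have h1 : PvtrMesh ρ E (cfSites (Conf.restr (E ×ˢ univ) η)) = PvtrMesh ρ E (cfSites η) := pvtr_reads_mesh ρ E η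
  have h2 : PvtnFin E (Conf.restr (E ×ˢ univ) η) ↔ PvtnFin E η := by
    rw [pvpz_fin_iff, pvpz_fin_iff, pvay_sites_restr, inter_assoc, inter_self]
  show (PvtnFin E (Conf.restr (E ×ˢ univ) η) ∧ PvtrMesh ρ E (cfSites (Conf.restr (E ×ˢ univ) η))) ↔ (PvtnFin E η ∧ PvtrMesh ρ E (cfSites η))
  rw [h1, h2]

theorem pvpz_Ms_lim {ρ : ℝ} (hρ : 0 < ρ) {E : Set ℂ} (bE : Bornology.IsBounded E) : Tendsto (fun ε : ℝ => pvP ε (pvpzMs ρ E)ᶜ) (𝓝[>] 0) (𝓝 0) := by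
  have h1 : Tendsto (fun ε : ℝ => pvP ε {η : Conf PvPt | ¬ PvtrMesh ρ E (cfSites η)}) (𝓝[>] 0) (𝓝 0) := pvds_mesh_lim hρ bE
  refine tendsto_of_tendsto_of_tendsto_of_le_of_le tendsto_const_nhds h1 (fun _ => zero_le) fun ε => ?_
  have h2 : ∀ᵐ η ∂pvP ε, PvtnFin E η := pvtn_fin_ae bE ε
  have h3 : (pvpzMs ρ E)ᶜ ⊆ {η : Conf PvPt | ¬ PvtrMesh ρ E (cfSites η)} ∪ {η | ¬ PvtnFin E η} := by
    intro η hη
    by_cases h : PvtnFin E η
    · exact Or.inl fun hm => hη ⟨h, hm⟩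
    · exact Or.inr h
  calc pvP ε (pvpzMs ρ E)ᶜ ≤ pvP ε ({η : Conf PvPt | ¬ PvtrMesh ρ E (cfSites η)} ∪ {η | ¬ PvtnFin E η}) := measure_mono h3
    _ ≤ pvP ε {η : Conf PvPt | ¬ PvtrMesh ρ E (cfSites η)} + pvP ε {η | ¬ PvtnFin E η} := measure_union_le _ _
    _ = pvP ε {η : Conf PvPt | ¬ PvtrMesh ρ E (cfSites η)} := by rw [ae_iff.1 h2, add_zero]

/-- **CERT FOR A PATTERN OF 21 / 298 WITH THE MESH OF A REGION** (tile, or tile and mouth): ONE `q` (that of `pvkq_pat_lim`, `pvge2_cert_lim`), window `pvkqPatR F ∪ E` -/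
theorem pvpz_pat_small : ∃ q : ℝ, 0 < q ∧ q ≤ 1 ∧ ∀ (M K : ℕ) (dl : ℝ) (F : List (Bool × List (Set ℂ × ℂ × ℂ))), PvkqFit dl M K F → MeasurableSet (pvkqPatR F) →
    ∀ (ρ : ℝ) (E : Set ℂ), 0 < ρ → MeasurableSet E → Bornology.IsBounded E → ∀ C : Set ℂ, MeasurableSet C → ∀ θ : ℝ≥0∞, θ ≠ 0 → θ ≠ ∞ →
      PvrgSmall fun ε => (pvayGood2 ε C (pvkqPatR F ∪ E) (pvkqPat dl F ∩ pvpzMs ρ E) (ENNReal.ofReal ((q ^ (15 * (K * (2 * M + 1) ^ 2)) / 2) ^ F.length)) θ)ᶜ := by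
  obtain ⟨q, h0, h1, H⟩ := pvkq_pat_lim
  refine ⟨q, h0, h1, fun M K dl F hF hm ρ E hρ mE bE C hC θ hθ hθ' => ?_⟩
  exact pvpz_good2_small hC (hm.union mE) (hF.bdd.union bE) hF.meas (pvpz_Ms_meas mE bE ρ) (hF.reads.mono (prod_mono subset_union_left le_rfl))
    ((pvpz_Ms_reads ρ E).mono (prod_mono subset_union_right le_rfl)) (pvpz_Ms_blind ρ E) (H M K dl F hF).1 (pvpz_Ms_lim hρ bE) hθ hθ'

/-! ## 4. the mixed order -/

/-- the copy section of a blind clause is an up-set of every mixed order -/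
theorem pvpz_up_blind {ℳ : Set (Conf PvPt)} (hB : PvjaBlind ℳ) (s : ℂ → Option Bool) (Y : Set ℂ) : PvlhUp s (pvlhCp Y ℳ) := fun c c' _ h =>
  hB _ _ (by rw [cfOf_sites, cfOf_sites]) h

theorem pvpz_up_inter {𝒦 ℳ : Set (Conf PvPt)} (hB : PvjaBlind ℳ) {s : ℂ → Option Bool} {Y : Set ℂ} (h : PvlhUp s (pvlhCp Y 𝒦)) : PvlhUp s (pvlhCp Y (𝒦 ∩ ℳ)) :=
  h.inter (pvpz_up_blind hB s Y)

/-- the frozen section of a blind clause -/
theorem pvpz_sec_blind {ℳ : Set (Conf PvPt)} (hB : PvjaBlind ℳ) (s : ℂ → Option Bool) (Y Fz : Set ℂ) (σ : ℂ → Bool) : PvlhUp s (pvlhSec Y Fz σ ℳ) := fun c c' _ h =>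
  hB _ _ (by rw [cfOf_sites, cfOf_sites]) h

end Claimed.Agent.R289
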