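import Claimed.Agent.R289.Tr.CellNum
import Claimed.Agent.R289.Tr.Bes
import Claimed.Agent.R289.Defs.TrModel

/-!
# Row 289 (S0537), THE WALL, roof NUM, file Tr/BuNum : THE NUMBERS, BOTTOM-UP = ONE REFERENCE FAMILY AT `δ = 1`  ⟹  `PvcnFam δ` FOR EVERY SEQUENCE OF MESHES OF CELLS  ⟹  the fields `W A CA A_bdd cell_a rel_lim` of `PvxAna 𝔓`      (helper258, second rope of NUM: post Y (c) of 82; prefix `pvkm_`, `Pvkm`)

WHAT THE CLOSED KITS GIVE.      `Tr/CellNum` (52) reduces the numbers of the wall to ONE data term `F : PvcnFam δ` (kits, fields, cut points of ALL levels `m` and meshes `ε`, constants `β' q C_B` UNIFORM in `(m, ε)`).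
`Tr/Bes` §6 (223) has the scaled kit `kit.sc s` with `pvbe_sc_wf`, `pvbe_sc_fld`, `pvbe_sc_forced`, `pvbe_sc_k`.      HERE the WHOLE record is scaled:
* §1  words of the scaled kit: `pvkm_sc_A`, `pvkm_G_pull`, `pvkm_A_pull`, `pvkm_Z`, `pvkm_Ev_pull`, `pvkm_Xj_pull`, `pvkm_Y_pull` (pull back by `w ↦ w / s`), `pvkm_lintegral_pull` (change of variables, NO measurability)
* §2  **`PvcnOk.sc`** : `PvcnOk kit e XQ XV f β' q B r`, `0 < s`  ⟹  `PvcnOk (kit.sc s) (s e) (pvthX XQ 0 s) (pvthX XV 0 s) (pvkmF f s) β' q (s² B) (s r)`;   `pvkm_tail_sc` (the closed sum on HEX scales by `s²`)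
* §3  **`PvkmUnit`** = ONE reference family at `δ = 1`, indexed by the mesh `e` only;   **`PvkmUnit.fam`** : `(∀ m, 0 < δ m) → PvcnFam δ`, `kit m ε = (kit (ε / δ m)).sc (δ m)`;   `PvkmUnit.A_eq` : the scalar of level `m` at the mesh `ε` is the reference scalar at the mesh `ε / δ m`
* §4  **`Q` ALONE** (ruling H2 of 73, records of 52 283): `PvcnOkQ.sc`, **`PvkmUnitQ`**, **`PvkmUnitQ.fam`** : `PvcnFamQ δ`;   `PvkmUnit.ofFam`, `PvkmUnitQ.ofFam` : a family at `δ ≡ 1` (e.g. `PvpgFam.toFam` of 34, `PvcqFamQ.toFam` of 52) IS a reference family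
* §5  AT THE MODEL (`Defs/TrModel`, 187): `PvkmNum 𝔓` = the fields `W A CA A_bdd cell_a rel_lim` of `PvxAna 𝔓`;   `PvkmNum.ofFam`, **`PvkmUnit.num`**, **`pvkmNumQ : PvtyNumQ τ c`**   (uses of `𝔓.Wf`: the field `del` ONLY, with `pvlm_Del_pos`)
CONSEQUENCE FOR THE INSTANCE (KitI 244, Plug 47, Adm 127, KIT_294): it may be typed at `δ = 1` only, mesh `e ↓ 0`: no `m`, no `δ_m` in any leaf;   the uniformity of `β' q C_B` in `m` is a THEOREM.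
-/

set_option autoImplicit false
set_option linter.unusedSectionVars false

namespace Claimed.Agent.R289

open MeasureTheory ProbabilityTheory Set Filter Topology Claims.C0465
open scoped ENNReal NNReal

/-! ## 1. words of the scaled kit -/

section words

variable {s : ℝ}

theorem pvkm_inv_sc (hs : 0 < s) (z d : ℂ) : pvthInv z d ∘ pvthInv 0 (s : ℂ) = pvthInv ((s : ℂ) * z) (d * s) := by
  rw [pvth_inv_comp 0 s z d (pvbe_sc_ne hs), zero_add, mul_comm d]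

theorem pvkm_inv_sc' (z d : ℂ) (hd : d ≠ 0) : pvthInv 0 (s : ℂ) ∘ pvthInv z d = pvthInv z (d * s) := by
  rw [pvth_inv_comp z d 0 s hd, mul_zero, add_zero]

theorem pvkm_sc_A (kit : PvthKit) (s : ℝ) (z d : ℂ) (hd : d ≠ 0) (τ : PvtTurn) : (kit.sc s).A z d τ = kit.A z (d * s) τ := by
  ext η
  show cfMap (pvthInv 0 s) (cfMap (pvthInv z d) η) ∈ kit.A₀ τ ↔ cfMap (pvthInv z (d * s)) η ∈ kit.A₀ τ
  rw [pvci_cfMap_comp, pvkm_inv_sc' z d hd]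

theorem pvkm_G_pull (hs : 0 < s) (kit : PvthKit) (z d : ℂ) (hd : d ≠ 0) (η : Conf PvPt) :
    η ∈ (kit.sc s).G ((s : ℂ) * z) d ↔ cfMap (pvthInv 0 s) η ∈ kit.G z d := by
  rw [pvbe_sc_G kit s _ d hd]
  show cfMap (pvthInv ((s : ℂ) * z) (d * s)) η ∈ kit.G₀ ↔ cfMap (pvthInv z d) (cfMap (pvthInv 0 s) η) ∈ kit.G₀
  rw [pvci_cfMap_comp, pvkm_inv_sc hs]

theorem pvkm_A_pull (hs : 0 < s) (kit : PvthKit) (z d : ℂ) (hd : d ≠ 0) (τ : PvtTurn) (η : Conf PvPt) :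
    η ∈ (kit.sc s).A ((s : ℂ) * z) d τ ↔ cfMap (pvthInv 0 s) η ∈ kit.A z d τ := by
  rw [pvkm_sc_A kit s _ d hd]
  show cfMap (pvthInv ((s : ℂ) * z) (d * s)) η ∈ kit.A₀ τ ↔ cfMap (pvthInv z d) (cfMap (pvthInv 0 s) η) ∈ kit.A₀ τ
  rw [pvci_cfMap_comp, pvkm_inv_sc hs]

theorem pvkm_Z (s δ : ℝ) (z d : ℂ) (l : List PvtTurn) (j : ℕ) : pvthZ (s * δ) ((s : ℂ) * z) d l j = (s : ℂ) * pvthZ δ z d l j := by
  unfold pvthZ
  push_cast
  ring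

theorem pvkm_X_pull (hs : 0 < s) (X₀ : PvtTurn → Conf PvPt → ℂ) (z d : ℂ) (hd : d ≠ 0) (τ : PvtTurn) (η : Conf PvPt) :
    pvthX (pvthX X₀ 0 s) ((s : ℂ) * z) d τ η = (s : ℂ) * pvthX X₀ z d τ (cfMap (pvthInv 0 s) η) := by
  unfold pvthX
  rw [pvci_cfMap_comp, pvci_cfMap_comp, pvkm_inv_sc' _ d hd, pvkm_inv_sc hs]
  ring

theorem pvkm_Ev_pull (hs : 0 < s) (kit : PvthKit) (z : ℂ) {d : ℂ} (hd : d ≠ 0) (l : List PvtTurn) (η : Conf PvPt) :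
    η ∈ (kit.sc s).Ev ((s : ℂ) * z) d l ↔ cfMap (pvthInv 0 s) η ∈ kit.Ev z d l := by
  have e : ∀ j, pvthZ (kit.sc s).δ ((s : ℂ) * z) d l j = (s : ℂ) * pvthZ kit.δ z d l j := fun j => pvkm_Z s kit.δ z d l j
  unfold PvthKit.Ev
  simp only [Set.mem_ofPred_eq]
  refine forall₂_congr fun j _ => ?_
  rw [e, pvkm_G_pull hs kit _ _ (pvthD_ne_zero hd l j), pvkm_A_pull hs kit _ _ (pvthD_ne_zero hd l j)]

theorem pvkm_Xj_pull (hs : 0 < s) (kit : PvthKit) (X₀ : PvtTurn → Conf PvPt → ℂ) (z : ℂ) {d : ℂ} (hd : d ≠ 0) (l : List PvtTurn) (j : ℕ) (η : Conf PvPt) :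
    (kit.sc s).Xj (pvthX X₀ 0 s) ((s : ℂ) * z) d l j η = (s : ℂ) * kit.Xj X₀ z d l j (cfMap (pvthInv 0 s) η) := by
  have e : pvthZ (kit.sc s).δ ((s : ℂ) * z) d l j = (s : ℂ) * pvthZ kit.δ z d l j := pvkm_Z s kit.δ z d l j
  unfold PvthKit.Xj
  rw [e, pvkm_X_pull hs X₀ _ _ (pvthD_ne_zero hd l j)]

theorem pvkm_Y_pull (hs : 0 < s) (kit : PvthKit) (X₀ : PvtTurn → Conf PvPt → ℂ) (z : ℂ) {d : ℂ} (hd : d ≠ 0) (l : List PvtTurn) (η : Conf PvPt) :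
    (kit.sc s).Y (pvthX X₀ 0 s) ((s : ℂ) * z) d l η = (s : ℂ) * kit.Y X₀ z d l (cfMap (pvthInv 0 s) η) := by
  unfold PvthKit.Y
  rw [Finset.mul_sum]
  exact Finset.sum_congr rfl fun j _ => pvkm_Xj_pull hs kit X₀ z hd l j η

/-- change of variables `η ↦ η / s`, for ANY function -/
theorem pvkm_lintegral_pull (hs : 0 < s) (ε : ℝ) (F : Conf PvPt → ℝ≥0∞) : ∫⁻ η, F (cfMap (pvthInv 0 s) η) ∂(pvP (s * ε)) = ∫⁻ η, F η ∂(pvP ε) :=
  pvci_lintegral_T (pvciAff (s : ℂ) 0 (pvbe_sc_ne hs)) (pvbe_sc_law hs ε) F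

theorem pvkm_enorm_sq (s : ℝ) : ‖(s : ℂ)‖ₑ ^ 2 = ENNReal.ofReal (s ^ 2) := by
  rw [← ofReal_norm, Complex.norm_real, Real.norm_eq_abs, ← ENNReal.ofReal_pow (abs_nonneg _), sq_abs]

/-- the second moment of a cell of a word on the event of the word scales by `s²` -/
theorem pvkm_cell_sc (hs : 0 < s) (kit : PvthKit) (ε : ℝ) (X₀ : PvtTurn → Conf PvPt → ℂ) (z : ℂ) {d : ℂ} (hd : d ≠ 0) (l : List PvtTurn) (j : ℕ) :
    ∫⁻ η, ‖(kit.sc s).Xj (pvthX X₀ 0 s) ((s : ℂ) * z) d l j η‖ₑ ^ 2 * ((kit.sc s).Ev ((s : ℂ) * z) d l).indicator 1 η ∂(pvP (s * ε))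
      = ENNReal.ofReal (s ^ 2) * ∫⁻ η, ‖kit.Xj X₀ z d l j η‖ₑ ^ 2 * (kit.Ev z d l).indicator 1 η ∂(pvP ε) := by
  rw [← pvkm_lintegral_pull hs ε, ← lintegral_const_mul' _ _ ENNReal.ofReal_ne_top]
  refine lintegral_congr fun η => ?_
  have e : ((kit.sc s).Ev ((s : ℂ) * z) d l).indicator (1 : Conf PvPt → ℝ≥0∞) η = (kit.Ev z d l).indicator 1 (cfMap (pvthInv 0 s) η) := by
    by_cases h : η ∈ (kit.sc s).Ev ((s : ℂ) * z) d l
    · rw [Set.indicator_of_mem h, Set.indicator_of_mem ((pvkm_Ev_pull hs kit z hd l η).1 h)]; rfl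
    · rw [Set.indicator_of_notMem h, Set.indicator_of_notMem fun h' => h ((pvkm_Ev_pull hs kit z hd l η).2 h')]
  rw [e, pvkm_Xj_pull hs kit X₀ z hd, enorm_mul, mul_pow, pvkm_enorm_sq s, mul_assoc]

/-- the second moment of the sum along a word on the event of the word scales by `s²` -/
theorem pvkm_sum_sc (hs : 0 < s) (kit : PvthKit) (ε : ℝ) (X₀ : PvtTurn → Conf PvPt → ℂ) (z : ℂ) {d : ℂ} (hd : d ≠ 0) (l : List PvtTurn) :
    ∫⁻ η, ‖(kit.sc s).Y (pvthX X₀ 0 s) ((s : ℂ) * z) d l η‖ₑ ^ 2 * ((kit.sc s).Ev ((s : ℂ) * z) d l).indicator 1 η ∂(pvP (s * ε))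
      = ENNReal.ofReal (s ^ 2) * ∫⁻ η, ‖kit.Y X₀ z d l η‖ₑ ^ 2 * (kit.Ev z d l).indicator 1 η ∂(pvP ε) := by
  rw [← pvkm_lintegral_pull hs ε, ← lintegral_const_mul' _ _ ENNReal.ofReal_ne_top]
  refine lintegral_congr fun η => ?_
  have e : ((kit.sc s).Ev ((s : ℂ) * z) d l).indicator (1 : Conf PvPt → ℝ≥0∞) η = (kit.Ev z d l).indicator 1 (cfMap (pvthInv 0 s) η) := by
    by_cases h : η ∈ (kit.sc s).Ev ((s : ℂ) * z) d l
    · rw [Set.indicator_of_mem h, Set.indicator_of_mem ((pvkm_Ev_pull hs kit z hd l η).1 h)]; rfl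
    · rw [Set.indicator_of_notMem h, Set.indicator_of_notMem fun h' => h ((pvkm_Ev_pull hs kit z hd l η).2 h')]
  rw [e, pvkm_Y_pull hs kit X₀ z hd, enorm_mul, mul_pow, pvkm_enorm_sq s, mul_assoc]

end words

/-! ## 2. the whole record `PvcnOk` at the scale `s` -/

/-- the cut point at the scale `s` -/
noncomputable def pvkmF (f : Conf PvPt → ℂ) (s : ℝ) (η : Conf PvPt) : ℂ := (s : ℂ) * f (cfMap (pvthInv 0 s) η)

theorem pvkm_eqns_cite : True := by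
  have := @pvkmF.eq_1
  trivial

section record

variable {kit : PvthKit} {ε s r : ℝ} {XQ XV : PvtTurn → Conf PvPt → ℂ} {f : Conf PvPt → ℂ} {β' q B : ℝ≥0∞}

theorem pvkm_sim_sq (hs : 0 < s) (c : ℂ) (r : ℝ) : pvthSim 0 s '' pvccSq c r = pvccSq ((s : ℂ) * c) (s * r) := by
  have hf : pvthSim 0 (s : ℂ) = fun w : ℂ => (s : ℂ) * w := by
    funext w; simp [pvthSim]
  have h0 := pvbe_sc_ne hs
  rw [hf, ← pvcc_preimage_sq hs c r, Set.image_preimage_eq]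
  intro w
  exact ⟨w / s, by field_simp⟩

theorem pvkm_sim_inj (hs : 0 < s) : Function.Injective (pvthSim 0 (s : ℂ)) := by
  intro a b h
  simp only [pvthSim, zero_add] at h
  exact mul_left_cancel₀ (pvbe_sc_ne hs) h

/-- the containment hypotheses of 166 at the scale `s` -/
theorem pvkm_ref_sc (hs : 0 < s) (R : PvccKitRef kit r) : PvccKitRef (kit.sc s) (s * r) where
  δ0 := mul_pos hs R.δ0
  r_le := by
    show s * r ≤ s * kit.δ / 4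
    have := mul_le_mul_of_nonneg_left R.r_le hs.le
    linarith
  O_sub := by
    have h := Set.image_mono (f := pvthSim 0 (s : ℂ)) R.O_sub
    rw [pvkm_sim_sq hs, mul_zero] at h
    exact h
  K_cell := fun τ => by
    have h := Set.image_mono (f := pvthSim 0 (s : ℂ)) (R.K_cell τ)
    rw [pvkm_sim_sq hs] at h
    show pvthSim 0 (s : ℂ) '' kit.K₀ τ ⊆ pvccSq (((s * kit.δ : ℝ) : ℂ) * (1 / 2)) (s * kit.δ * (1 / 2))
    rw [Complex.ofReal_mul, mul_assoc, mul_assoc]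
    exact h
  K_off := fun τ v hv => by
    have h := (Set.disjoint_image_iff (pvkm_sim_inj hs)).2 (R.K_off τ v hv)
    rw [pvkm_sim_sq hs] at h
    show Disjoint (pvthSim 0 (s : ℂ) '' kit.K₀ τ) (pvccSq (((s * kit.δ : ℝ) : ℂ) * (1 / 2 + v / 2)) (s * r))
    rw [Complex.ofReal_mul, mul_assoc]
    exact h

/-- the door weight of the scaled kit is the image of the door weight -/
theorem pvkm_g_map (hs : 0 < s) (kit : PvthKit) (ε : ℝ) : ∃ Φ : Conf PvPt ≃ᵐ Conf PvPt, (∀ η, cfMap (pvthInv 0 s) (Φ η) = η) ∧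
    (pvP (s * ε)).withDensity ((kit.sc s).g (pvP (s * ε)) 0 1) = ((pvP ε).withDensity (kit.g (pvP ε) 0 1)).map Φ := by
  have h0 := pvbe_sc_ne hs
  obtain ⟨Φ, hΦ, hΦs⟩ := pvth_equiv (pvciAff (s : ℂ) 0 h0)
  refine ⟨Φ, fun η => ?_, ?_⟩
  · rw [pvth_cfMap_inv 0 s h0, ← hΦs, Φ.symm_apply_apply]
  · have h1 := pvci_withDensity_map Φ (pvP ε) (kit.g (pvP ε) 0 1)
    have h2 : (pvP ε).map Φ = pvP (s * ε) := by
      rw [show (Φ : Conf PvPt → Conf PvPt) = Conf.image (pvciAff (s : ℂ) 0 h0) from funext hΦ]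
      exact pvbe_sc_law hs ε
    rw [h2] at h1
    have h3 : (kit.sc s).g (pvP (s * ε)) 0 1 = fun y => kit.g (pvP ε) 0 1 (Φ.symm y) := by
      funext y
      have e := pvbe_sc_g hs kit ε 0 1 one_ne_zero y
      rw [mul_zero] at e
      rw [e, hΦs, pvth_cfMap_inv 0 s h0]
    rw [h3, h1]

/-- (V) at the scale `s` -/
theorem pvkm_V_sc (hs : 0 < s) (hV : PvcnV kit ε XV f) : PvcnV (kit.sc s) (s * ε) (pvthX XV 0 s) (pvkmF f s) where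
  meas := (hV.meas.comp (measurable_cfMap (pvth_measurable_inv 0 s))).const_mul _
  reads := by
    rw [pvbe_sc_O, one_mul, pvth_O_place kit 0 s (pvbe_sc_ne hs)]
    exact (pvci_T_reads (pvciAff (s : ℂ) 0 (pvbe_sc_ne hs)).toEquiv hV.reads).comp (fun x => (s : ℂ) * x)
  int := by
    obtain ⟨Φ, hΦ, e⟩ := pvkm_g_map hs kit ε
    rw [e, Φ.measurableEmbedding.integrable_map_iff]
    have : pvkmF f s ∘ Φ = fun η => (s : ℂ) * f η := by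
      funext η
      show (s : ℂ) * f (cfMap (pvthInv 0 s) (Φ η)) = _
      rw [hΦ]
    rw [this]
    exact hV.int.const_mul _
  tel := fun τ η h1 h2 h3 => by
    have hr := pvt_rot_ne_zero τ
    have ez : (kit.sc s).zo 0 1 τ = (s : ℂ) * kit.zo 0 1 τ := by
      rw [pvbe_sc_zo, one_mul, pvth_zo_place, zero_add]
    rw [ez] at h2 ⊢
    have g1 : cfMap (pvthInv 0 s) η ∈ kit.G₀ := h1
    have g2 : cfMap (pvthInv 0 s) η ∈ kit.G (kit.zo 0 1 τ) τ.rot := (pvkm_G_pull hs kit _ _ hr η).1 h2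
    have g3 : cfMap (pvthInv 0 s) η ∈ kit.A₀ τ := h3
    have key := hV.tel τ _ g1 g2 g3
    show (s : ℂ) * XV τ (cfMap (pvthInv 0 s) η) = _
    unfold pvkmF
    rw [key, pvci_cfMap_comp, pvci_cfMap_comp, pvkm_inv_sc hs, pvkm_inv_sc' _ _ hr]
    ring

/-- the mean of the cut point scales as a length -/
theorem pvkm_F_mean (hs : 0 < s) (kit : PvthKit) (ε : ℝ) (f : Conf PvPt → ℂ) :
    ∫ η, pvkmF f s η ∂((pvP (s * ε)).withDensity ((kit.sc s).g (pvP (s * ε)) 0 1)) = (s : ℂ) * ∫ η, f η ∂((pvP ε).withDensity (kit.g (pvP ε) 0 1)) := by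
  obtain ⟨Φ, hΦ, e⟩ := pvkm_g_map hs kit ε
  rw [e, integral_map_equiv, ← integral_const_mul]
  refine integral_congr_ae (ae_of_all _ fun η => ?_)
  show (s : ℂ) * f (cfMap (pvthInv 0 s) (Φ η)) = _
  rw [hΦ]

/-- **THE WHOLE RECORD AT THE SCALE `s`**: mesh `s ε`, Bessel constant `s² B`, same `β'`, `q` -/
theorem PvcnOk.sc (H : PvcnOk kit ε XQ XV f β' q B r) (hs : 0 < s) :
    PvcnOk (kit.sc s) (s * ε) (pvthX XQ 0 s) (pvthX XV 0 s) (pvkmF f s) β' q (ENNReal.ofReal (s ^ 2) * B) (s * r) where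
  wf := pvbe_sc_wf hs H.wf
  ref := pvkm_ref_sc hs H.ref
  fQ := pvbe_sc_fld hs H.wf H.fQ
  fV := pvbe_sc_fld hs H.wf H.fV
  frc := pvbe_sc_forced hs H.wf H.frc
  B_fin := ENNReal.mul_ne_top ENNReal.ofReal_ne_top H.B_fin
  besQ := fun j hj => by
    have e := pvkm_cell_sc hs kit ε XQ 0 one_ne_zero pvcnHex j
    rw [mul_zero] at e
    rw [e]
    exact mul_le_mul_right (H.besQ j hj) _
  besV := fun j hj => by
    have e := pvkm_cell_sc hs kit ε XV 0 one_ne_zero pvcnHex j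
    rw [mul_zero] at e
    rw [e]
    exact mul_le_mul_right (H.besV j hj) _
  V := pvkm_V_sc hs H.V

/-- (T) at the scale `s` -/
theorem pvkm_tail_sc (hs : 0 < s) (kit : PvthKit) (ε : ℝ) (XQ : PvtTurn → Conf PvPt → ℂ) :
    ∫⁻ η, ‖(kit.sc s).Y (pvthX XQ 0 s) 0 1 pvcnHex η‖ₑ ^ 2 * ((kit.sc s).Ev 0 1 pvcnHex).indicator 1 η ∂(pvP (s * ε))
      = ENNReal.ofReal (s ^ 2) * ∫⁻ η, ‖kit.Y XQ 0 1 pvcnHex η‖ₑ ^ 2 * (kit.Ev 0 1 pvcnHex).indicator 1 η ∂(pvP ε) := by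
  have e := pvkm_sum_sc hs kit ε XQ 0 one_ne_zero pvcnHex
  rwa [mul_zero] at e

/-- the field of record commutes with the scaling -/
theorem pvkm_Y_sc (XQ XV : PvtTurn → Conf PvPt → ℂ) (a : ℂ) (s : ℝ) : pvcnY (pvthX XQ 0 s) (pvthX XV 0 s) a = pvthX (pvcnY XQ XV a) 0 s := by
  funext τ η
  simp only [pvcnY, pvthX]
  ring

end record

/-! ## 3. ONE REFERENCE FAMILY AT `δ = 1` -/

/-- **THE INPUT OF THE NUMBERS, REDUCED**: kits with cells of side `1`, fields and cut points, indexed by the mesh `e` only -/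
structure PvkmUnit where
  kit : ℝ → PvthKit
  XQ : ℝ → PvtTurn → Conf PvPt → ℂ
  XV : ℝ → PvtTurn → Conf PvPt → ℂ
  f : ℝ → Conf PvPt → ℂ
  r : ℝ → ℝ
  β' : ℝ≥0∞
  q : ℝ≥0∞
  CB : ℝ
  CB0 : 0 ≤ CB
  kδ : ∀ e, (kit e).δ = 1
  ok : ∀ᶠ e in 𝓝[>] (0 : ℝ), PvcnOk (kit e) e (XQ e) (XV e) (f e) β' q (ENNReal.ofReal CB) (r e)
  /-- (T) -/
  tail : Tendsto (fun e => ∫⁻ η, ‖(kit e).Y (XQ e) 0 1 pvcnHex η‖ₑ ^ 2 * ((kit e).Ev 0 1 pvcnHex).indicator 1 η ∂(pvP e)) (𝓝[>] (0 : ℝ)) (𝓝 0)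

theorem pvkm_tendsto_div {s : ℝ} (hs : 0 < s) : Tendsto (fun ε : ℝ => ε / s) (𝓝[>] (0 : ℝ)) (𝓝[>] (0 : ℝ)) := by
  refine tendsto_nhdsWithin_iff.2 ⟨?_, ?_⟩
  · have h : Tendsto (fun ε : ℝ => ε / s) (𝓝 0) (𝓝 0) := (continuous_id.div_const s).tendsto' 0 0 (by simp)
    exact h.mono_left nhdsWithin_le_nhds
  · filter_upwards [self_mem_nhdsWithin] with ε hε
    exact div_pos hε hs

namespace PvkmUnit

variable (U : PvkmUnit) {δ : ℕ → ℝ}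

/-- **THE FAMILY OF ALL LEVELS**: the reference family at the mesh `ε / δ m`, scaled by `δ m` -/
noncomputable def fam (hδ : ∀ m, 0 < δ m) : PvcnFam δ where
  kit m ε := (U.kit (ε / δ m)).sc (δ m)
  XQ m ε := pvthX (U.XQ (ε / δ m)) 0 (δ m)
  XV m ε := pvthX (U.XV (ε / δ m)) 0 (δ m)
  f m ε := pvkmF (U.f (ε / δ m)) (δ m)
  r m ε := δ m * U.r (ε / δ m)
  β' := U.β'
  q := U.q
  CB := U.CB
  CB0 := U.CB0
  kδ m ε := by
    show δ m * (U.kit (ε / δ m)).δ = δ m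
    rw [U.kδ, mul_one]
  ok m := by
    filter_upwards [(pvkm_tendsto_div (hδ m)).eventually U.ok] with ε H
    have h := H.sc (hδ m)
    have e1 : δ m * (ε / δ m) = ε := mul_div_cancel₀ ε (hδ m).ne'
    have e2 : ENNReal.ofReal (δ m ^ 2) * ENNReal.ofReal U.CB = ENNReal.ofReal (U.CB * δ m ^ 2) := by
      rw [← ENNReal.ofReal_mul (by positivity), mul_comm]
    rw [e1, e2] at h
    exact h
  tail m := by
    have h1 := (ENNReal.Tendsto.const_mul (a := ENNReal.ofReal (δ m ^ 2)) (U.tail.comp (pvkm_tendsto_div (hδ m))) (Or.inr ENNReal.ofReal_ne_top))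
    rw [mul_zero] at h1
    refine h1.congr fun ε => ?_
    have e := pvkm_tail_sc (hδ m) (U.kit (ε / δ m)) (ε / δ m) (U.XQ (ε / δ m))
    rw [mul_div_cancel₀ ε (hδ m).ne'] at e
    exact e.symm

/-- the three cell means of the reference family -/
noncomputable def W₁ (e : ℝ) (a : ℂ) : PvtW := (U.kit e).W (pvP e) (pvcnY (U.XQ e) (U.XV e) a)

/-- the reference scalar -/
noncomputable def A₁ (e : ℝ) : ℂ := ((U.kit e).W (pvP e) (U.XQ e)).a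

/-- the cell means of level `m` are `δ m` times the reference cell means at the mesh `ε / δ m` -/
theorem W_eq (hδ : ∀ m, 0 < δ m) (m : ℕ) : ∀ᶠ ε in 𝓝[>] (0 : ℝ), ∀ a : ℂ, (U.fam hδ).W m ε a =
    ⟨δ m * (U.W₁ (ε / δ m) a).a, δ m * (U.W₁ (ε / δ m) a).bL, δ m * (U.W₁ (ε / δ m) a).bR⟩ := by
  filter_upwards [(pvkm_tendsto_div (hδ m)).eventually U.ok] with ε H a
  have e1 : δ m * (ε / δ m) = ε := mul_div_cancel₀ ε (hδ m).ne'
  have k : ∀ τ, ((U.kit (ε / δ m)).sc (δ m)).k (pvP ε) (pvthX (pvcnY (U.XQ (ε / δ m)) (U.XV (ε / δ m)) a) 0 (δ m)) τ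
      = δ m * (U.kit (ε / δ m)).k (pvP (ε / δ m)) (pvcnY (U.XQ (ε / δ m)) (U.XV (ε / δ m)) a) τ := fun τ => by
    have := pvbe_sc_k (ε := ε / δ m) (hδ m) H.wf (pvcn_fld H.fQ H.fV a) τ
    rwa [e1] at this
  show ((U.kit (ε / δ m)).sc (δ m)).W (pvP ε) (pvcnY (pvthX (U.XQ (ε / δ m)) 0 (δ m)) (pvthX (U.XV (ε / δ m)) 0 (δ m)) a) = _
  rw [pvkm_Y_sc]
  unfold PvthKit.W W₁
  rw [k, k, k]
  rfl

/-- the scalar of level `m` at the mesh `ε` is the reference scalar at the mesh `ε / δ m` -/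
theorem A_eq (hδ : ∀ m, 0 < δ m) (m : ℕ) : ∀ᶠ ε in 𝓝[>] (0 : ℝ), (U.fam hδ).A m ε = U.A₁ (ε / δ m) := by
  filter_upwards [(pvkm_tendsto_div (hδ m)).eventually U.ok] with ε H
  have e1 : δ m * (ε / δ m) = ε := mul_div_cancel₀ ε (hδ m).ne'
  have k := pvbe_sc_k (ε := ε / δ m) (hδ m) H.wf H.fQ PvtTurn.S
  rw [e1] at k
  have h0 : (δ m : ℂ) ≠ 0 := pvbe_sc_ne (hδ m)
  show ((U.kit (ε / δ m)).sc (δ m)).k (pvP ε) (pvthX (U.XQ (ε / δ m)) 0 (δ m)) PvtTurn.S / (δ m : ℂ) = (U.kit (ε / δ m)).k (pvP (ε / δ m)) (U.XQ (ε / δ m)) PvtTurn.S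
  rw [k]
  field_simp

end PvkmUnit

theorem pvkm_eqns_cite2 : True := by
  have := @PvkmUnit.fam.eq_1; have := @PvkmUnit.W₁.eq_1; have := @PvkmUnit.A₁.eq_1
  trivial

/-! ## 4. `Q` ALONE -/

section qonly

variable {kit : PvthKit} {ε s r : ℝ} {XQ : PvtTurn → Conf PvPt → ℂ} {β' q B : ℝ≥0∞}

/-- **THE RECORD FOR `Q` AT THE SCALE `s`** -/
theorem PvcnOkQ.sc (H : PvcnOkQ kit ε XQ β' q B r) (hs : 0 < s) : PvcnOkQ (kit.sc s) (s * ε) (pvthX XQ 0 s) β' q (ENNReal.ofReal (s ^ 2) * B) (s * r) where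
  wf := pvbe_sc_wf hs H.wf
  ref := pvkm_ref_sc hs H.ref
  fQ := pvbe_sc_fld hs H.wf H.fQ
  frc := pvbe_sc_forced hs H.wf H.frc
  B_fin := ENNReal.mul_ne_top ENNReal.ofReal_ne_top H.B_fin
  besQ := fun j hj => by
    have e := pvkm_cell_sc hs kit ε XQ 0 one_ne_zero pvcnHex j
    rw [mul_zero] at e
    rw [e]
    exact mul_le_mul_right (H.besQ j hj) _

end qonly

/-- **THE INPUT OF THE NUMBERS, REDUCED, `Q` ONLY**: kits with cells of side `1` and the field `Q`, indexed by the mesh `e` only -/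
structure PvkmUnitQ where
  kit : ℝ → PvthKit
  XQ : ℝ → PvtTurn → Conf PvPt → ℂ
  r : ℝ → ℝ
  β' : ℝ≥0∞
  q : ℝ≥0∞
  CB : ℝ
  CB0 : 0 ≤ CB
  kδ : ∀ e, (kit e).δ = 1
  ok : ∀ᶠ e in 𝓝[>] (0 : ℝ), PvcnOkQ (kit e) e (XQ e) β' q (ENNReal.ofReal CB) (r e)
  /-- (T) -/
  tail : Tendsto (fun e => ∫⁻ η, ‖(kit e).Y (XQ e) 0 1 pvcnHex η‖ₑ ^ 2 * ((kit e).Ev 0 1 pvcnHex).indicator 1 η ∂(pvP e)) (𝓝[>] (0 : ℝ)) (𝓝 0)

/-- forget `V` -/
def PvkmUnit.toQ (U : PvkmUnit) : PvkmUnitQ where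
  kit := U.kit
  XQ := U.XQ
  r := U.r
  β' := U.β'
  q := U.q
  CB := U.CB
  CB0 := U.CB0
  kδ := U.kδ
  ok := U.ok.mono fun _ H => H.toQ
  tail := U.tail

/-- a family at `δ ≡ 1` is a reference family (its level `0`) -/
def PvkmUnit.ofFam (F : PvcnFam (fun _ => (1 : ℝ))) : PvkmUnit where
  kit := F.kit 0
  XQ := F.XQ 0
  XV := F.XV 0
  f := F.f 0
  r := F.r 0
  β' := F.β'
  q := F.q
  CB := F.CB
  CB0 := F.CB0
  kδ := F.kδ 0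
  ok := by
    have h := F.ok 0
    simp only [one_pow, mul_one] at h
    exact h
  tail := F.tail 0

/-- a family at `δ ≡ 1` is a reference family (its level `0`), `Q` only -/
def PvkmUnitQ.ofFam (F : PvcnFamQ (fun _ => (1 : ℝ))) : PvkmUnitQ where
  kit := F.kit 0
  XQ := F.XQ 0
  r := F.r 0
  β' := F.β'
  q := F.q
  CB := F.CB
  CB0 := F.CB0
  kδ := F.kδ 0
  ok := by
    have h := F.ok 0
    simp only [one_pow, mul_one] at h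
    exact h
  tail := F.tail 0

namespace PvkmUnitQ

variable (U : PvkmUnitQ) {δ : ℕ → ℝ}

/-- **THE FAMILY OF ALL LEVELS, `Q` ONLY** -/
noncomputable def fam (hδ : ∀ m, 0 < δ m) : PvcnFamQ δ where
  kit m ε := (U.kit (ε / δ m)).sc (δ m)
  XQ m ε := pvthX (U.XQ (ε / δ m)) 0 (δ m)
  r m ε := δ m * U.r (ε / δ m)
  β' := U.β'
  q := U.q
  CB := U.CB
  CB0 := U.CB0
  kδ m ε := by
    show δ m * (U.kit (ε / δ m)).δ = δ m
    rw [U.kδ, mul_one]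
  ok m := by
    filter_upwards [(pvkm_tendsto_div (hδ m)).eventually U.ok] with ε H
    have h := H.sc (hδ m)
    have e1 : δ m * (ε / δ m) = ε := mul_div_cancel₀ ε (hδ m).ne'
    have e2 : ENNReal.ofReal (δ m ^ 2) * ENNReal.ofReal U.CB = ENNReal.ofReal (U.CB * δ m ^ 2) := by
      rw [← ENNReal.ofReal_mul (by positivity), mul_comm]
    rw [e1, e2] at h
    exact h
  tail m := by
    have h1 := (ENNReal.Tendsto.const_mul (a := ENNReal.ofReal (δ m ^ 2)) (U.tail.comp (pvkm_tendsto_div (hδ m))) (Or.inr ENNReal.ofReal_ne_top))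
    rw [mul_zero] at h1
    refine h1.congr fun ε => ?_
    have e := pvkm_tail_sc (hδ m) (U.kit (ε / δ m)) (ε / δ m) (U.XQ (ε / δ m))
    rw [mul_div_cancel₀ ε (hδ m).ne'] at e
    exact e.symm

/-- the three cell means of `Q` of the reference family -/
noncomputable def W₁ (e : ℝ) : PvtW := (U.kit e).W (pvP e) (U.XQ e)

/-- the cell means of level `m` are `δ m` times the reference cell means at the mesh `ε / δ m` -/
theorem W_eq (hδ : ∀ m, 0 < δ m) (m : ℕ) : ∀ᶠ ε in 𝓝[>] (0 : ℝ), (U.fam hδ).W m ε =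
    ⟨δ m * (U.W₁ (ε / δ m)).a, δ m * (U.W₁ (ε / δ m)).bL, δ m * (U.W₁ (ε / δ m)).bR⟩ := by
  filter_upwards [(pvkm_tendsto_div (hδ m)).eventually U.ok] with ε H
  have e1 : δ m * (ε / δ m) = ε := mul_div_cancel₀ ε (hδ m).ne'
  have k : ∀ τ, ((U.kit (ε / δ m)).sc (δ m)).k (pvP ε) (pvthX (U.XQ (ε / δ m)) 0 (δ m)) τ = δ m * (U.kit (ε / δ m)).k (pvP (ε / δ m)) (U.XQ (ε / δ m)) τ := fun τ => by
    have := pvbe_sc_k (ε := ε / δ m) (hδ m) H.wf H.fQ τ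
    rwa [e1] at this
  show ((U.kit (ε / δ m)).sc (δ m)).W (pvP ε) (pvthX (U.XQ (ε / δ m)) 0 (δ m)) = _
  unfold PvthKit.W W₁
  rw [k, k, k]
  rfl

end PvkmUnitQ

theorem pvkm_eqns_cite3 : True := by
  have := @PvkmUnit.toQ.eq_1; have := @PvkmUnit.ofFam.eq_1; have := @PvkmUnitQ.ofFam.eq_1; have := @PvkmUnitQ.fam.eq_1; have := @PvkmUnitQ.W₁.eq_1
  trivial

/-! ## 5. AT THE MODEL (`Defs/TrModel`, 187) -/

section model

variable {τ : Type} {c : ℝ} {𝔓 : PvxPar τ c}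

/-- **THE NUMBERS HALF OF `PvxAna 𝔓`** (form with the scalar `a`): the fields `W A CA A_bdd cell_a rel_lim`, verbatim -/
structure PvkmNum (𝔓 : PvxPar τ c) where
  W : ℕ → ℝ → ℂ → PvtW
  A : ℕ → ℝ → ℂ
  CA : ℝ
  A_bdd : ∀ m, ∀ᶠ ε in 𝓝[>] (0 : ℝ), ‖A m ε‖ ≤ CA
  cell_a : ∀ m, ∀ᶠ ε in 𝓝[>] (0 : ℝ), ∀ a : ℂ, (𝔓.Γ m).a (W m ε a) = A m ε - a
  rel_lim : ∀ m (a : ℂ), Tendsto (fun ε => (W m ε a).rel) (𝓝[>] (0 : ℝ)) (𝓝 0)

/-- from the exit of chapter E (52) -/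
noncomputable def PvkmNum.ofFam (F : PvcnFam (fun m => (𝔓.Γ m).δ)) : PvkmNum 𝔓 where
  W := F.W
  A := F.A
  CA := F.CA
  A_bdd := F.A_bdd
  cell_a := F.cell_a
  rel_lim := F.rel_lim

/-- the ONLY use of `𝔓.Wf` under NUM: the field `del` -/
theorem pvkm_del_pos (h : 𝔓.Wf) (m : ℕ) : 0 < (𝔓.Γ m).δ := by
  rw [h.del]
  exact pvlm_Del_pos c m

/-- the family of all levels at the meshes of cells of the parameters -/
noncomputable def PvkmUnit.famP (U : PvkmUnit) (h : 𝔓.Wf) : PvcnFam (fun m => (𝔓.Γ m).δ) := U.fam (pvkm_del_pos h)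

/-- **THE NUMBERS OF THE WALL AT THE MODEL FROM ONE REFERENCE FAMILY** (form with the scalar `a`) -/
noncomputable def PvkmUnit.num (U : PvkmUnit) (h : 𝔓.Wf) : PvkmNum 𝔓 := PvkmNum.ofFam (U.famP h)

/-- what `W` is, for the producers of `n1`, `cyc1`: the three means of the field of record of the reference kit at the mesh `ε / δ_m`, scaled by `δ_m = pvlmDel c m` -/
theorem PvkmUnit.num_W (U : PvkmUnit) (h : 𝔓.Wf) (m : ℕ) (ε : ℝ) (a : ℂ) : (U.num h).W m ε a =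
    ((U.kit (ε / (𝔓.Γ m).δ)).sc (𝔓.Γ m).δ).W (pvP ε) (pvthX (pvcnY (U.XQ (ε / (𝔓.Γ m).δ)) (U.XV (ε / (𝔓.Γ m).δ)) a) 0 (𝔓.Γ m).δ) := by
  rw [← pvkm_Y_sc]
  rfl

theorem PvkmUnit.num_A (U : PvkmUnit) (h : 𝔓.Wf) (m : ℕ) : ∀ᶠ ε in 𝓝[>] (0 : ℝ), (U.num h).A m ε = U.A₁ (ε / pvlmDel c m) := by
  have := U.A_eq (pvkm_del_pos h) m
  simp only [h.del] at this
  exact this

theorem PvkmUnit.num_CA (U : PvkmUnit) (h : 𝔓.Wf) : (U.num h).CA = Real.sqrt ((((U.β' * U.q)⁻¹) ^ 8).toReal * U.CB) := rfl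

/-- the numbers of the hub (`pvnoNum` of 52) at the reference family are the numbers of the model -/
theorem pvkm_hub (U : PvkmUnit) (h : 𝔓.Wf) (c0 : 0 < c) (kin0 : ℕ → ℝ → ℂ → ℂ) :
    (pvnoNum c0 𝔓.𝔐 𝔓.Γ (U.famP h) kin0).W = (U.num h).W ∧ (pvnoNum c0 𝔓.𝔐 𝔓.Γ (U.famP h) kin0).A = (U.num h).A ∧ (pvnoNum c0 𝔓.𝔐 𝔓.Γ (U.famP h) kin0).CA = (U.num h).CA :=
  ⟨rfl, rfl, rfl⟩

/-- the family of all levels at the meshes of cells of the parameters, `Q` only -/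
noncomputable def PvkmUnitQ.famP (U : PvkmUnitQ) (h : 𝔓.Wf) : PvcnFamQ (fun m => (𝔓.Γ m).δ) := U.fam (pvkm_del_pos h)

/-- **THE NUMBERS OF THE WALL AT THE MODEL, `Q` ONLY** (record `PvtyNumQ` of 283, target of record of ruling H2): a DEF; the roofs `n1`, `cyc1` speak of the SAME `W` -/
noncomputable def pvkmNumQ (c0 : 0 < c) (h : 𝔓.Wf) (U : PvkmUnitQ) (kin0 : ℕ → ℝ → ℂ) : PvtyNumQ τ c := pvnoNumQ c0 𝔓.𝔐 𝔓.Γ (U.famP h) kin0

theorem pvkm_Q_M (c0 : 0 < c) (h : 𝔓.Wf) (U : PvkmUnitQ) (kin0 : ℕ → ℝ → ℂ) : (pvkmNumQ c0 h U kin0).𝔐 = 𝔓.𝔐 := rfl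
theorem pvkm_Q_h (c0 : 0 < c) (h : 𝔓.Wf) (U : PvkmUnitQ) (kin0 : ℕ → ℝ → ℂ) : (pvkmNumQ c0 h U kin0).h = pvlmH := rfl
theorem pvkm_Q_r (c0 : 0 < c) (h : 𝔓.Wf) (U : PvkmUnitQ) (kin0 : ℕ → ℝ → ℂ) : (pvkmNumQ c0 h U kin0).r = pvlmR c := rfl
theorem pvkm_Q_G (c0 : 0 < c) (h : 𝔓.Wf) (U : PvkmUnitQ) (kin0 : ℕ → ℝ → ℂ) : (pvkmNumQ c0 h U kin0).Γ = 𝔓.Γ := rfl
theorem pvkm_Q_kin0 (c0 : 0 < c) (h : 𝔓.Wf) (U : PvkmUnitQ) (kin0 : ℕ → ℝ → ℂ) : (pvkmNumQ c0 h U kin0).kin0 = kin0 := rfl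
theorem pvkm_Q_CA (c0 : 0 < c) (h : 𝔓.Wf) (U : PvkmUnitQ) (kin0 : ℕ → ℝ → ℂ) : (pvkmNumQ c0 h U kin0).CA = Real.sqrt ((((U.β' * U.q)⁻¹) ^ 8).toReal * U.CB) := rfl

/-- what `W` is, for the producers of `n1`, `cyc1` -/
theorem pvkm_Q_W (c0 : 0 < c) (h : 𝔓.Wf) (U : PvkmUnitQ) (kin0 : ℕ → ℝ → ℂ) (m : ℕ) (ε : ℝ) : (pvkmNumQ c0 h U kin0).W m ε =
    ((U.kit (ε / (𝔓.Γ m).δ)).sc (𝔓.Γ m).δ).W (pvP ε) (pvthX (U.XQ (ε / (𝔓.Γ m).δ)) 0 (𝔓.Γ m).δ) := rfl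

/-- `W` of level `m` is `δ_m` times the reference cell means at the mesh `ε / δ_m`, `δ_m = pvlmDel c m` -/
theorem pvkm_Q_W_eq (c0 : 0 < c) (h : 𝔓.Wf) (U : PvkmUnitQ) (kin0 : ℕ → ℝ → ℂ) (m : ℕ) : ∀ᶠ ε in 𝓝[>] (0 : ℝ), (pvkmNumQ c0 h U kin0).W m ε =
    ⟨pvlmDel c m * (U.W₁ (ε / pvlmDel c m)).a, pvlmDel c m * (U.W₁ (ε / pvlmDel c m)).bL, pvlmDel c m * (U.W₁ (ε / pvlmDel c m)).bR⟩ := by
  have := U.W_eq (pvkm_del_pos h) m
  simp only [h.del] at this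
  exact this

end model

theorem pvkm_eqns_cite4 : True := by
  have := @PvkmNum.ofFam.eq_1; have := @PvkmUnit.famP.eq_1; have := @PvkmUnit.num.eq_1; have := @PvkmUnitQ.famP.eq_1; have := @pvkmNumQ.eq_1
  trivial

end Claimed.Agent.R289
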