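-- KEEP
import Claimed.Agent.R289.Tr.FrcDetO
import Claimed.Agent.R289.Exit.ParEngY

/-!
# Row 289 (S0537), THE WALL, ROAD E, E10 AT THE HYBRID ENDS, (b3) DET, file Tr/FrcDetOY : sec. 4, 5 OF `Tr/FrcDetO` (266) AT THE ROOMS OF RECORD `pvegOYc pvegIYc`      (helper245; prefix `pvey_`)      0 sorry

R25 (1) of 234: the rooms of the two thin ends are `oY iY := pvegOYc / pvegIYc` (`Exit/ParEngY`: collar (Rc)), not `pvegOYa / pvegIYa`.   SAME STATEMENTS as 266, room swapped;   `h0 : 0 ≤ pvilMu 𝔓 m` (`pvey_mu_nonneg`).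
THE ONLY NUMERAL WHICH MOVES: the ball part of the room is `closedBall c (5 R / 16 - 3 μ₀)`: `_ball` asks `a ≤ 5 R / 16 - 3 μ₀`, `inK` asks `rs + 5 μ ≤ 5 R / 16 - 3 μ₀`.
* `pvey_sh_oYc_bdd _co _core _ball` (placed rooms: bounded, no hole, off the disc of the core, contain the inner mouth), mirror `iYc`
* `pvey_K_o _i` (link region `pvgeKV Y (room)ᶜ`: finite, co-connected), `pvey_gp_o`, `pvey_gm_i`, `pvey_inK_o _i`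
* `pvey_sh_oYc_mem_fun _neck`, mirror: membership tests for placed points, in the frame of the door
-/

set_option autoImplicit false
set_option linter.unusedSectionVars false
set_option linter.unusedVariables false

namespace Claimed.Agent.R289

open Set Metric Complex Claims.C0465

section roomP

variable {τ : Type} {c : ℝ} {𝔓 : PvxPar τ c} {m : ℕ} {t : τ}

theorem pvey_sh_oYc_sub (hL : PvegLev 𝔓 m) (h0 : 0 ≤ pvilMu 𝔓 m) (t : τ) (z : ℂ) : pvieSh z (pvegOYc 𝔓 m t) ⊆ pvieSh z (pvegOYa 𝔓 m t) := Set.image_mono (pvey_oYc_sub_oYa hL h0 t)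
theorem pvey_sh_iYc_sub (hL : PvegLev 𝔓 m) (h0 : 0 ≤ pvilMu 𝔓 m) (t : τ) (z : ℂ) : pvieSh z (pvegIYc 𝔓 m t) ⊆ pvieSh z (pvegIYa 𝔓 m t) := Set.image_mono (pvey_iYc_sub_iYa hL h0 t)

/-- (hb) the room of the first link is bounded -/
theorem pvey_sh_oYc_bdd (hL : PvegLev 𝔓 m) (h0 : 0 ≤ pvilMu 𝔓 m) (hT : pviwTyOk 𝔓 t) (z : ℂ) : Bornology.IsBounded (pvieSh z (pvegOYc 𝔓 m t)) := (pvho_oYa_bdd hL hT z).subset (pvey_sh_oYc_sub hL h0 t z)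

/-- (hb) the room of the last link is bounded -/
theorem pvey_sh_iYc_bdd (hL : PvegLev 𝔓 m) (h0 : 0 ≤ pvilMu 𝔓 m) (hT : pviwTyOk 𝔓 t) (z : ℂ) : Bornology.IsBounded (pvieSh z (pvegIYc 𝔓 m t)) := (pvho_iYa_bdd hL hT z).subset (pvey_sh_iYc_sub hL h0 t z)

theorem pvey_star_aux {Y u p : ℂ} {R δ μ rk : ℝ} (H : PvegDoor Y u p (R / 10) δ (R / 5) (5 * R / 16) (3 * R / 8) (R / 2) rk) (hf : 64 * δ ≤ R) (h0 : 0 ≤ μ) (hμ : μ ≤ δ / 1000) :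
    StarConvex ℝ (pveyQ Y u p (R / 10) δ (3 * μ)) (pvegYc Y u p (R / 10) δ (R / 5) (5 * R / 16) (δ / 160) (3 * (δ / 40)) (3 * μ)) := by
  have hδ := H.δ0
  refine pvey_star H.u4 (by linarith [H.s_lo]) (by linarith) (by linarith) (by linarith) ?_ (by linarith)
  have a1 : 0 ≤ R / 10 + 2 * δ + 3 * μ := by linarith
  have a2 : R / 10 + 2 * δ + 3 * μ ≤ R / 5 := by linarith
  have a3 : (R / 10 + 2 * δ + 3 * μ) ^ 2 ≤ (R / 5) ^ 2 := pow_le_pow_left₀ a1 a2 2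
  have a4 : pvegL Y u p ^ 2 ≤ (R / 64) ^ 2 := by
    rw [← sq_abs (pvegL Y u p)]
    exact pow_le_pow_left₀ (abs_nonneg _) (H.lat.trans (by linarith)) 2
  have a5 : (R / 4) ^ 2 ≤ (5 * R / 16 - 3 * μ) ^ 2 := pow_le_pow_left₀ (by linarith) (by linarith) 2
  nlinarith [sq_nonneg R]

/-- (hS) **the placed room of the first link has no hole** -/
theorem pvey_sh_oYc_co (hL : PvegLev 𝔓 m) (h0 : 0 ≤ pvilMu 𝔓 m) (hT : pviwTyOk 𝔓 t) (z : ℂ) : IsPreconnected (pvieSh z (pvegOYc 𝔓 m t))ᶜ :=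
  pvrt_star ((pvey_star_aux (pveg_door_o hL hT) hL.fine h0 (pvey_mu_le m)).add_left z) (pvey_sh_oYc_bdd hL h0 hT z)

/-- (hS) **the placed room of the last link has no hole** -/
theorem pvey_sh_iYc_co (hL : PvegLev 𝔓 m) (h0 : 0 ≤ pvilMu 𝔓 m) (hT : pviwTyOk 𝔓 t) (z : ℂ) : IsPreconnected (pvieSh z (pvegIYc 𝔓 m t))ᶜ :=
  pvrt_star ((pvey_star_aux (pveg_door_i hL hT) hL.fine h0 (pvey_mu_le m)).add_left z) (pvey_sh_iYc_bdd hL h0 hT z)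

/-- (hcore) the room of the first link misses the disc of the core -/
theorem pvey_sh_oYc_core (n : PvhoNum 𝔓) (hL : PvegLev 𝔓 m) (h0 : 0 ≤ pvilMu 𝔓 m) (hT : pviwTyOk 𝔓 t) (z : ℂ) : ∀ w ∈ pvieSh z (pvegOYc 𝔓 m t), (𝔓.ty t).b * pvlmH m ≤ ‖w - z‖ :=
  fun w hw => pvho_oYa_core n hL hT z w (pvey_sh_oYc_sub hL h0 t z hw)

/-- (hcore) the room of the last link misses the disc of the core -/
theorem pvey_sh_iYc_core (n : PvhoNum 𝔓) (hL : PvegLev 𝔓 m) (h0 : 0 ≤ pvilMu 𝔓 m) (hT : pviwTyOk 𝔓 t) (z : ℂ) : ∀ w ∈ pvieSh z (pvegIYc 𝔓 m t), (𝔓.ty t).b * pvlmH m ≤ ‖w - z‖ :=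
  fun w hw => pvho_iYa_core n hL hT z w (pvey_sh_iYc_sub hL h0 t z hw)

/-- (ball) the inner mouth lies in the room of the first link -/
theorem pvey_sh_oYc_ball (𝔓 : PvxPar τ c) (m : ℕ) (t : τ) (z : ℂ) {a : ℝ} (ha : a ≤ 5 * (𝔓.num.rho * pvlmH m) / 16 - 3 * pvilMu 𝔓 m) : closedBall ((𝔓.ty t).cp (pvlmH m) z) a ⊆ pvieSh z (pvegOYc 𝔓 m t) := by
  have h1 : pvieSh z (closedBall (pvegYp 𝔓 m t) (5 * pvegR 𝔓 m / 16 - 3 * pvilMu 𝔓 m)) ⊆ pvieSh z (pvegOYc 𝔓 m t) := Set.image_mono (subset_union_left.trans subset_union_left)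
  rw [pveg_sh_ball] at h1
  exact (closedBall_subset_closedBall ha).trans h1

/-- (ball) the inner mouth lies in the room of the last link -/
theorem pvey_sh_iYc_ball (𝔓 : PvxPar τ c) (m : ℕ) (t : τ) (z : ℂ) {a : ℝ} (ha : a ≤ 5 * (𝔓.num.rho * pvlmH m) / 16 - 3 * pvilMu 𝔓 m) : closedBall ((𝔓.ty t).cm (pvlmH m) z) a ⊆ pvieSh z (pvegIYc 𝔓 m t) := by
  have h1 : pvieSh z (closedBall (pvegYm 𝔓 m t) (5 * pvegR 𝔓 m / 16 - 3 * pvilMu 𝔓 m)) ⊆ pvieSh z (pvegIYc 𝔓 m t) := Set.image_mono (subset_union_left.trans subset_union_left)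
  rw [pveg_sh_ball] at h1
  exact (closedBall_subset_closedBall ha).trans h1

/-- a placed point of the funnel (frame of the exit door, absolute point `v`) -/
theorem pvey_sh_oYc_mem_fun (𝔓 : PvxPar τ c) (m : ℕ) (t : τ) (z : ℂ) {v : ℂ}
    (h1 : pvegR 𝔓 m / 10 + 2 * pvlmDel c m + 3 * pvilMu 𝔓 m ≤ pvegS (pvegYp 𝔓 m t) ((𝔓.Γ m).dout t) (v - z))
    (h2 : pvegS (pvegYp 𝔓 m t) ((𝔓.Γ m).dout t) (v - z) ≤ pvegS (pvegYp 𝔓 m t) ((𝔓.Γ m).dout t) ((𝔓.Γ m).pout t) - pvegA c m - 3 * pvilMu 𝔓 m)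
    (h3 : |pvegL (pvegYp 𝔓 m t) ((𝔓.Γ m).dout t) (v - z) - pvegL (pvegYp 𝔓 m t) ((𝔓.Γ m).dout t) ((𝔓.Γ m).pout t)| ≤ pvegR 𝔓 m / 5 - 3 * pvilMu 𝔓 m) : v ∈ pvieSh z (pvegOYc 𝔓 m t) :=
  ⟨v - z, pvey_mem_fun h1 h2 h3, by ring⟩

/-- a placed point of the neck, up to the plane of W-7 -/
theorem pvey_sh_oYc_mem_neck (𝔓 : PvxPar τ c) (m : ℕ) (t : τ) (z : ℂ) {v : ℂ}
    (h1 : pvegR 𝔓 m / 10 + 2 * pvlmDel c m + 3 * pvilMu 𝔓 m ≤ pvegS (pvegYp 𝔓 m t) ((𝔓.Γ m).dout t) (v - z))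
    (h2 : pvegS (pvegYp 𝔓 m t) ((𝔓.Γ m).dout t) (v - z) ≤ pvegS (pvegYp 𝔓 m t) ((𝔓.Γ m).dout t) ((𝔓.Γ m).pout t) - pvegA c m)
    (h3 : |pvegL (pvegYp 𝔓 m t) ((𝔓.Γ m).dout t) (v - z) - pvegL (pvegYp 𝔓 m t) ((𝔓.Γ m).dout t) ((𝔓.Γ m).pout t)| ≤ 3 * (pvlmDel c m / 40) - 3 * pvilMu 𝔓 m) : v ∈ pvieSh z (pvegOYc 𝔓 m t) :=
  ⟨v - z, pvey_mem_neck h1 h2 h3, by ring⟩

theorem pvey_sh_iYc_mem_fun (𝔓 : PvxPar τ c) (m : ℕ) (t : τ) (z : ℂ) {v : ℂ}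
    (h1 : pvegR 𝔓 m / 10 + 2 * pvlmDel c m + 3 * pvilMu 𝔓 m ≤ pvegS (pvegYm 𝔓 m t) (-(𝔓.Γ m).din t) (v - z))
    (h2 : pvegS (pvegYm 𝔓 m t) (-(𝔓.Γ m).din t) (v - z) ≤ pvegS (pvegYm 𝔓 m t) (-(𝔓.Γ m).din t) ((𝔓.Γ m).pin t) - pvegA c m - 3 * pvilMu 𝔓 m)
    (h3 : |pvegL (pvegYm 𝔓 m t) (-(𝔓.Γ m).din t) (v - z) - pvegL (pvegYm 𝔓 m t) (-(𝔓.Γ m).din t) ((𝔓.Γ m).pin t)| ≤ pvegR 𝔓 m / 5 - 3 * pvilMu 𝔓 m) : v ∈ pvieSh z (pvegIYc 𝔓 m t) :=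
  ⟨v - z, pvey_mem_fun h1 h2 h3, by ring⟩

theorem pvey_sh_iYc_mem_neck (𝔓 : PvxPar τ c) (m : ℕ) (t : τ) (z : ℂ) {v : ℂ}
    (h1 : pvegR 𝔓 m / 10 + 2 * pvlmDel c m + 3 * pvilMu 𝔓 m ≤ pvegS (pvegYm 𝔓 m t) (-(𝔓.Γ m).din t) (v - z))
    (h2 : pvegS (pvegYm 𝔓 m t) (-(𝔓.Γ m).din t) (v - z) ≤ pvegS (pvegYm 𝔓 m t) (-(𝔓.Γ m).din t) ((𝔓.Γ m).pin t) - pvegA c m)
    (h3 : |pvegL (pvegYm 𝔓 m t) (-(𝔓.Γ m).din t) (v - z) - pvegL (pvegYm 𝔓 m t) (-(𝔓.Γ m).din t) ((𝔓.Γ m).pin t)| ≤ 3 * (pvlmDel c m / 40) - 3 * pvilMu 𝔓 m) : v ∈ pvieSh z (pvegIYc 𝔓 m t) :=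
  ⟨v - z, pvey_mem_neck h1 h2 h3, by ring⟩

end roomP

/-! ## the link region of the room at a configuration -/

section K

variable {τ : Type} {c : ℝ} {𝔓 : PvxPar τ c} {m : ℕ} {t : τ} {z : ℂ} {b : Bool} {η : Conf PvPt} {𝔖 : PvwSt (pvieT η)}

/-- **(hK hco) first link**: the sites whose cell lies in the room are finitely many, the others are joined off them -/
theorem pvey_K_o (hL : PvegLev 𝔓 m) (h0 : 0 ≤ pvilMu 𝔓 m) (hT : pviwTyOk 𝔓 t) (z : ℂ) (hg : DelGood (pvieY η)) :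
    (pvgeKV (pvieY η) (pvieSh z (pvegOYc 𝔓 m t))ᶜ).Finite ∧
      ∀ u v, u ∉ pvgeKV (pvieY η) (pvieSh z (pvegOYc 𝔓 m t))ᶜ → v ∉ pvgeKV (pvieY η) (pvieSh z (pvegOYc 𝔓 m t))ᶜ → (pvieT η).Join univ (pvgeKV (pvieY η) (pvieSh z (pvegOYc 𝔓 m t))ᶜ)ᶜ u v :=
  pvhj_K_pl (h := hg) (delb_pl_eq hg) (pvey_sh_oYc_co hL h0 hT z) (by rw [compl_compl]; exact pvey_sh_oYc_bdd hL h0 hT z)

/-- **(hK hco) last link** -/
theorem pvey_K_i (hL : PvegLev 𝔓 m) (h0 : 0 ≤ pvilMu 𝔓 m) (hT : pviwTyOk 𝔓 t) (z : ℂ) (hg : DelGood (pvieY η)) :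
    (pvgeKV (pvieY η) (pvieSh z (pvegIYc 𝔓 m t))ᶜ).Finite ∧
      ∀ u v, u ∉ pvgeKV (pvieY η) (pvieSh z (pvegIYc 𝔓 m t))ᶜ → v ∉ pvgeKV (pvieY η) (pvieSh z (pvegIYc 𝔓 m t))ᶜ → (pvieT η).Join univ (pvgeKV (pvieY η) (pvieSh z (pvegIYc 𝔓 m t))ᶜ)ᶜ u v :=
  pvhj_K_pl (h := hg) (delb_pl_eq hg) (pvey_sh_iYc_co hL h0 hT z) (by rw [compl_compl]; exact pvey_sh_iYc_bdd hL h0 hT z)

/-- (hgp) `g⁺` of the pin is not in the link region -/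
theorem pvey_gp_o (n : PvhoNum 𝔓) (hL : PvegLev 𝔓 m) (h0 : 0 ≤ pvilMu 𝔓 m) (hT : pviwTyOk 𝔓 t) (hp : PvilOut 𝔓.num b (pvilPin 𝔓 m z t) η 𝔖) : 𝔖.gp ∉ pvgeKV (pvieY η) (pvieSh z (pvegOYc 𝔓 m t))ᶜ :=
  fun hK => absurd (pvhg_il_gp_disc (Or.inl rfl) hp) (not_lt.2 (pvey_sh_oYc_core n hL h0 hT z _ (pvhg_KV_over hK)))

/-- (hgm) `g⁻` of the pin is not in the link region -/
theorem pvey_gm_i (n : PvhoNum 𝔓) (hL : PvegLev 𝔓 m) (h0 : 0 ≤ pvilMu 𝔓 m) (hT : pviwTyOk 𝔓 t) (hp : PvilIn 𝔓.num b (pvilPin 𝔓 m z t) η 𝔖) : 𝔖.gm ∉ pvgeKV (pvieY η) (pvieSh z (pvegIYc 𝔓 m t))ᶜ :=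
  fun hK => absurd (pvhg_il_gm_disc (Or.inl rfl) hp) (not_lt.2 (pvey_sh_iYc_core n hL h0 hT z _ (pvhg_KV_over hK)))

/-- (inK) the sites of the small mouth are in the link region of the first link -/
theorem pvey_inK_o (𝔓 : PvxPar τ c) (m : ℕ) (t : τ) (z : ℂ) {Y : Set ℂ} {μ rs : ℝ} (hμ : 0 < μ) (hrs : rs + 5 * μ ≤ 5 * (𝔓.num.rho * pvlmH m) / 16 - 3 * pvilMu 𝔓 m)
    (mesh : VorDense Y (closedBall ((𝔓.ty t).cp (pvlmH m) z) (rs + 6 * μ)) μ) (v : Y) (hv : ‖(v : ℂ) - (𝔓.ty t).cp (pvlmH m) z‖ < rs + 4 * μ) : v ∈ pvgeKV Y (pvieSh z (pvegOYc 𝔓 m t))ᶜ :=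
  pvhj_inK hμ mesh (by linarith) (Set.disjoint_compl_right_iff_subset.2 (pvey_sh_oYc_ball 𝔓 m t z (by linarith))) v hv

/-- (inK) the sites of the small mouth are in the link region of the last link -/
theorem pvey_inK_i (𝔓 : PvxPar τ c) (m : ℕ) (t : τ) (z : ℂ) {Y : Set ℂ} {μ rs : ℝ} (hμ : 0 < μ) (hrs : rs + 5 * μ ≤ 5 * (𝔓.num.rho * pvlmH m) / 16 - 3 * pvilMu 𝔓 m)
    (mesh : VorDense Y (closedBall ((𝔓.ty t).cm (pvlmH m) z) (rs + 6 * μ)) μ) (v : Y) (hv : ‖(v : ℂ) - (𝔓.ty t).cm (pvlmH m) z‖ < rs + 4 * μ) : v ∈ pvgeKV Y (pvieSh z (pvegIYc 𝔓 m t))ᶜ :=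
  pvhj_inK hμ mesh (by linarith) (Set.disjoint_compl_right_iff_subset.2 (pvey_sh_iYc_ball 𝔓 m t z (by linarith))) v hv

end K

end Claimed.Agent.R289
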