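-- KEEP
import Claimed.Agent.R289.Tr.GoodD
import Claimed.Agent.R289.Tr.DoorSoft
import Claimed.Agent.R289.Tr.FrcDetE

/-!
# Row 289 (S0537), THE WALL, ROAD E, E10 / HOOK-DET, file Tr/GoodH : THE DOOR OF 173 READ IN THE FRAME OF THE MOUTH      (helper298; prefix `pvge5_`, `Pvge5`)

`Tr/DoorSoft` (173: `PvyoSd 𝔭 𝔱 σ b η p d s g` = gate of record + black lane + white lane + mesh, in the plane map of `η`, RELATIVE colours `pvukS b η = pvieCol η b`) × `Tr/GoodD` (298: one stops `pvge4_pat_*`, `pvge4_rec_*`; 228: `pvdd_pat_*`).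
FRAME `(Yc, u)` of the mouth, door at `p`, direction of travel `d`, scale `s`, unit `q = s r₀`:   first link `o`: `d conj u = 1`, ENTRANCE side `σ = false`, the colour `β` on the side `β` of `u`;   last link `i`: `d conj u = -1`, EXIT side `σ = true`, the colour `β` on the side `!β`.
* sec. 1  `pvge5_S_at`, `pvge5_T_at` (a placed point in the frame)
* sec. 2  `Pvge5Side r₀ σ Ln Dr` = what is read of the rooms and targets (beyond `13 r₀/4` the room of `β` is the strip `[r₀/2, 3r₀/2]` on its side; targets beyond `4 r₀`);   instances `pvge5_side_T` (`pvhfT r₀`, `pvhfTw r₀ Es`), `pvge5_side_P` (`pvkdP r₀`, no truncation)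
* sec. 3  `pvge5_room pvge5_tgt pvge5_box` (generic side), `pvge5_core_at`;   **`pvge5_room_o pvge5_room_i`** (`hroom`), **`pvge5_lane_o pvge5_lane_i`** (`hH`), **`pvge5_foot_o pvge5_foot_i`** (`hfoot`) VERBATIM for `Rm β := pvkdAt p (d * s) (𝔱.Ln σ β)`, `sc = Sp - 13q/4`, `sb - t₂ = Sp - 15q/4`;   `pvge5_room_core`, **`pvge5_cell`** (cell half of `hRm`, radius `s ρ = q/16`)
-/

set_option autoImplicit false
set_option linter.unusedSectionVars false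
set_option linter.unusedVariables false

namespace Claimed.Agent.R289

open Set Metric Complex Filter Topology Claims.C0465
open scoped ENNReal

/-! ## 1. a placed point in the frame -/

theorem pvge5_S_at (Yc u p a w : ℂ) : pvge2S Yc u (pvthSim p a w) = pvge2S Yc u p + (a * (starRingEnd ℂ) u * w).re := by
  unfold pvge2S pvthSim
  rw [← add_re]
  congr 1
  ring

theorem pvge5_T_at (Yc u : ℂ) (up : Bool) (p a w : ℂ) : pvge2T Yc u up (pvthSim p a w) = pvge2T Yc u up p + pvge2Sg up * (a * (starRingEnd ℂ) u * w).im := by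
  unfold pvge2T pvthSim
  rw [← mul_add, ← add_im]
  congr 2
  ring

/-- `a = d s`, `d conj u = k` real -/
theorem pvge5_coef {u d : ℂ} {s k : ℝ} (hk : d * (starRingEnd ℂ) u = (k : ℂ)) (w : ℂ) : d * (s : ℂ) * (starRingEnd ℂ) u * w = ((k * s : ℝ) : ℂ) * w := by
  have : d * (s : ℂ) * (starRingEnd ℂ) u * w = (d * (starRingEnd ℂ) u) * (s : ℂ) * w := by ring
  rw [this, hk]
  push_cast
  ring

/-! ## 2. what is read of the rooms and of the targets -/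

/-- the sign of a side of a door: `+1` = exit -/
def pvge5E (σ : Bool) : ℝ := if σ then 1 else -1

/-- **THE SIDE `σ` OF A DOOR OF UNIT `r₀`, REFERENCE FRAME**: beyond `|x| = 13 r₀ / 4` the room of the colour `β` lies in the strip `y ∈ ± [r₀/2, 3r₀/2]` (`+` = black); the targets lie beyond `|x| = 4 r₀` -/
structure Pvge5Side (r₀ : ℝ) (σ : Bool) (Ln Dr : Bool → Set ℂ) : Prop where
  room : ∀ β, ∀ w ∈ Ln β, 13 * r₀ / 4 < pvge5E σ * w.re → r₀ / 2 ≤ pvge2Sg β * w.im ∧ pvge2Sg β * w.im ≤ 3 * r₀ / 2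
  tgt : ∀ β, ∀ w ∈ Dr β, 4 * r₀ ≤ pvge5E σ * w.re
  box : ∀ β, ∀ w ∈ Ln β, r₀ / 2 ≤ pvge5E σ * w.re ∧ pvge5E σ * w.re ≤ 7 * r₀ ∧ |w.im| ≤ 3 * r₀ / 2

theorem pvge5_eqns_cite : True := by
  have := @pvge5E.eq_1
  trivial

/-- the truncation of record of 174 -/
theorem pvge5_side_T {r₀ : ℝ} (hr : 0 < r₀) (σ : Bool) : Pvge5Side r₀ σ ((pvhfT r₀).Ln σ) ((pvhfT r₀).Dr σ) where
  room := by
    intro β w hw hx
    cases σ <;> cases β <;> simp only [pvhfT, pvkdRect, rswRect, if_true, if_false, Bool.false_eq_true, mem_union, mem_ofPred_eq, pvge5E, pvge2Sg] at hw hx ⊢ <;>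
      rcases hw with ⟨h1, h2, h3, h4⟩ | ⟨h1, h2, h3, h4⟩ <;> constructor <;> linarith
  tgt := by
    intro β w hw
    cases σ <;> cases β <;> simp only [pvhfT, pvkdRect, rswRect, if_true, if_false, Bool.false_eq_true, mem_ofPred_eq, pvge5E] at hw ⊢ <;>
      obtain ⟨h1, h2, h3, h4⟩ := hw <;> linarith
  box := by
    intro β w hw
    rw [abs_le]
    cases σ <;> cases β <;> simp only [pvhfT, pvkdRect, rswRect, if_true, if_false, Bool.false_eq_true, mem_union, mem_ofPred_eq, pvge5E] at hw ⊢ <;>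
      rcases hw with ⟨h1, h2, h3, h4⟩ | ⟨h1, h2, h3, h4⟩ <;> refine ⟨?_, ?_, ?_, ?_⟩ <;> linarith

/-- the same with windows of one's choice (125: `pvk2T = pvhfTw pvkgG.a pvk2Es`) -/
theorem pvge5_side_Tw {r₀ : ℝ} (hr : 0 < r₀) (Es : Bool → Set ℂ) (σ : Bool) : Pvge5Side r₀ σ ((pvhfTw r₀ Es).Ln σ) ((pvhfTw r₀ Es).Dr σ) := pvge5_side_T hr σ

/-- no truncation: the lanes of 34 as typed -/
theorem pvge5_side_P {r₀ : ℝ} (hr : 0 < r₀) (σ : Bool) : Pvge5Side r₀ σ ((pvkdP r₀).Ln σ) ((pvkdP r₀).Dr σ) where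
  room := by
    intro β w hw hx
    cases σ <;> cases β <;> simp only [pvkdP, pvkdRect, rswRect, if_true, if_false, Bool.false_eq_true, mem_union, mem_ofPred_eq, pvge5E, pvge2Sg] at hw hx ⊢ <;>
      rcases hw with ⟨h1, h2, h3, h4⟩ | ⟨h1, h2, h3, h4⟩ <;> constructor <;> linarith
  tgt := by
    intro β w hw
    cases σ <;> cases β <;> simp only [pvkdP, pvkdRect, rswRect, if_true, if_false, Bool.false_eq_true, mem_ofPred_eq, pvge5E] at hw ⊢ <;>
      obtain ⟨h1, h2, h3, h4⟩ := hw <;> linarith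
  box := by
    intro β w hw
    rw [abs_le]
    cases σ <;> cases β <;> simp only [pvkdP, pvkdRect, rswRect, if_true, if_false, Bool.false_eq_true, mem_union, mem_ofPred_eq, pvge5E] at hw ⊢ <;>
      rcases hw with ⟨h1, h2, h3, h4⟩ | ⟨h1, h2, h3, h4⟩ <;> refine ⟨?_, ?_, ?_, ?_⟩ <;> linarith

/-! ## 3. the three hypotheses of the one stops -/

section frame

variable {Yc u p d : ℂ} {s r₀ : ℝ} {σ : Bool} {Ln Dr : Bool → Set ℂ}

/-- **the room in the frame, generic**: `d conj u = - (sign of the side)`, the colour `β` on the side `sd β` of `u` with `Sg (sd β) * (- sign) = Sg β` -/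
theorem pvge5_room (G : Pvge5Side r₀ σ Ln Dr) (hs : 0 < s) (hk : d * (starRingEnd ℂ) u = ((-pvge5E σ : ℝ) : ℂ)) {sd : Bool → Bool} (hsd : ∀ β, pvge2Sg (sd β) * (-pvge5E σ) = pvge2Sg β) (β : Bool) :
    ∀ w ∈ pvkdAt p (d * s) (Ln β), pvge2S Yc u w < pvge2S Yc u p - 13 * (s * r₀) / 4 →
      pvge2T Yc u (sd β) p + s * r₀ / 2 ≤ pvge2T Yc u (sd β) w ∧ pvge2T Yc u (sd β) w ≤ pvge2T Yc u (sd β) p + 3 * (s * r₀) / 2 := by
  rintro _ ⟨w, hw, rfl⟩ hx
  rw [pvge5_S_at, pvge5_coef hk, re_ofReal_mul] at hx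
  rw [pvge5_T_at, pvge5_coef hk, im_ofReal_mul]
  have h1 : 13 * r₀ / 4 < pvge5E σ * w.re := by
    have : s * (13 * r₀ / 4) < s * (pvge5E σ * w.re) := by nlinarith
    exact lt_of_mul_lt_mul_left this hs.le
  obtain ⟨h2, h3⟩ := G.room β w hw h1
  have e : pvge2Sg (sd β) * (-pvge5E σ * s * w.im) = s * (pvge2Sg β * w.im) := by rw [← hsd β]; ring
  rw [e]
  constructor <;> nlinarith

/-- **the targets in the frame** -/
theorem pvge5_tgt (G : Pvge5Side r₀ σ Ln Dr) (hs : 0 < s) (hk : d * (starRingEnd ℂ) u = ((-pvge5E σ : ℝ) : ℂ)) (β : Bool) :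
    ∀ w ∈ pvkdAt p (d * s) (Dr β), pvge2S Yc u w ≤ pvge2S Yc u p - 4 * (s * r₀) := by
  rintro _ ⟨w, hw, rfl⟩
  rw [pvge5_S_at, pvge5_coef hk, re_ofReal_mul]
  have := G.tgt β w hw
  nlinarith

/-- **the bounding box of a room in the frame** -/
theorem pvge5_box (G : Pvge5Side r₀ σ Ln Dr) (hs : 0 < s) (hk : d * (starRingEnd ℂ) u = ((-pvge5E σ : ℝ) : ℂ)) (up β : Bool) :
    ∀ w ∈ pvkdAt p (d * s) (Ln β), pvge2S Yc u p - 7 * (s * r₀) ≤ pvge2S Yc u w ∧ pvge2S Yc u w ≤ pvge2S Yc u p - s * r₀ / 2 ∧ |pvge2T Yc u up w - pvge2T Yc u up p| ≤ 3 * (s * r₀) / 2 := by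
  rintro _ ⟨w, hw, rfl⟩
  rw [pvge5_S_at, pvge5_T_at, pvge5_coef hk, re_ofReal_mul, im_ofReal_mul]
  obtain ⟨h1, h2, h3⟩ := G.box β w hw
  refine ⟨by nlinarith, by nlinarith, ?_⟩
  have e : pvge2T Yc u up p + pvge2Sg up * (-pvge5E σ * s * w.im) - pvge2T Yc u up p = (pvge2Sg up * -pvge5E σ) * (s * w.im) := by ring
  have e1 : |pvge2Sg up * -pvge5E σ| = 1 := by cases up <;> cases σ <;> simp [pvge2Sg, pvge5E]
  rw [e, abs_mul, e1, one_mul, abs_mul, abs_of_pos hs]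
  nlinarith

/-- the core of a placed region -/
theorem pvge5_core_at {a : ℂ} (ha : a ≠ 0) (p : ℂ) (r : ℝ) (E : Set ℂ) : pvkdAt p a (pvtrCore r E) ⊆ pvtrCore (‖a‖ * r) (pvkdAt p a E) := by
  rintro _ ⟨w, hw, rfl⟩ v hv
  refine ⟨(v - p) / a, hw ?_, ?_⟩
  · rw [mem_closedBall, dist_eq_norm] at hv ⊢
    have e : (v - p) / a - w = (v - pvthSim p a w) / a := by
      unfold pvthSim
      field_simp
      ring
    rw [e, norm_div, div_le_iff₀ (norm_pos_iff.2 ha), mul_comm]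
    exact hv
  · unfold pvthSim
    field_simp
    ring

end frame

section door

variable {Yc u p d : ℂ} {s r₀ q Sp lam : ℝ} {𝔭 : PvkdPlug} {𝔱 : PvhfTr} {b : Bool} {η : Conf PvPt}

/-- the foot of an entrance lane = the end of colour `β` of the entrance dart of the gate -/
theorem pvge5_ft_in {V D : Type} {T : PvMap V D} {sc : V → Bool} (g : T.Gate sc) (β : Bool) : pvkdFoot g false β = pvhiEnd T β g.aIn := by
  cases β <;> rfl

/-- the foot of an exit lane = the end of colour `β` of the exit dart of the gate -/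
theorem pvge5_ft_out {V D : Type} {T : PvMap V D} {sc : V → Bool} (g : T.Gate sc) (β : Bool) : pvkdFoot g true β = pvhiEnd T β g.aOut := by
  cases β
  · rfl
  · exact (pvtg_aOut_src g).symm

theorem pvge5_k_o (hk : d * (starRingEnd ℂ) u = 1) : d * (starRingEnd ℂ) u = ((-pvge5E false : ℝ) : ℂ) := by
  rw [hk]; simp [pvge5E]

theorem pvge5_k_i (hk : d * (starRingEnd ℂ) u = -1) : d * (starRingEnd ℂ) u = ((-pvge5E true : ℝ) : ℂ) := by
  rw [hk]; simp [pvge5E]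

theorem pvge5_Lm_o (Yc u p : ℂ) (β : Bool) : pvge2T Yc u β p = pvge2Lm (pvge2T Yc u true p) β := by
  cases β
  · have := pvge2_T_flip Yc u true p
    simpa [pvge2Lm] using this
  · rfl

theorem pvge5_Lm_i (Yc u p : ℂ) (β : Bool) : pvge2T Yc u (!β) p = pvge2Lm (pvge2T Yc u false p) β := by
  cases β
  · have := pvge2_T_flip Yc u false p
    simpa [pvge2Lm] using this
  · rfl

/-- **`hroom`, FIRST LINK** -/
theorem pvge5_room_o (G : Pvge5Side r₀ false (𝔱.Ln false) (𝔱.Dr false)) (hs : 0 < s) (hk : d * (starRingEnd ℂ) u = 1) (hq : q = s * r₀) (hSp : pvge2S Yc u p = Sp) (hlam : pvge2T Yc u true p = lam) :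
    ∀ β, ∀ w ∈ pvkdAt p (d * s) (𝔱.Ln false β), pvge2S Yc u w < Sp - 13 * q / 4 → pvge2Lm lam β + q / 2 ≤ pvge2T Yc u β w ∧ pvge2T Yc u β w ≤ pvge2Lm lam β + 3 * q / 2 := by
  intro β w hw hx
  subst hq hSp hlam
  have := pvge5_room (Yc := Yc) (p := p) G hs (pvge5_k_o hk) (sd := id) (fun β => by simp [pvge5E]) β w hw hx
  rw [← pvge5_Lm_o]
  exact this

/-- **`hroom`, LAST LINK** -/
theorem pvge5_room_i (G : Pvge5Side r₀ true (𝔱.Ln true) (𝔱.Dr true)) (hs : 0 < s) (hk : d * (starRingEnd ℂ) u = -1) (hq : q = s * r₀) (hSp : pvge2S Yc u p = Sp) (hlam : pvge2T Yc u false p = lam) :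
    ∀ β, ∀ w ∈ pvkdAt p (d * s) (𝔱.Ln true β), pvge2S Yc u w < Sp - 13 * q / 4 → pvge2Lm lam β + q / 2 ≤ pvge2T Yc u (!β) w ∧ pvge2T Yc u (!β) w ≤ pvge2Lm lam β + 3 * q / 2 := by
  intro β w hw hx
  subst hq hSp hlam
  have := pvge5_room (Yc := Yc) (p := p) G hs (pvge5_k_i hk) (sd := fun β => !β) (fun β => by rw [pvge2_sg_not]; simp [pvge5E]) β w hw hx
  rw [← pvge5_Lm_i]
  exact this

/-- **`hH`, FIRST LINK**: the two entrance lanes of the door end before the bars -/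
theorem pvge5_lane_o {g : (pvkiT η).Gate (pvukS b η)} (H : PvyoSd 𝔭 𝔱 false b η p d s g) (G : Pvge5Side r₀ false (𝔱.Ln false) (𝔱.Dr false)) (hs : 0 < s) (hr : 0 < r₀) (hk : d * (starRingEnd ℂ) u = 1)
    (hq : q = s * r₀) (hSp : pvge2S Yc u p = Sp) :
    ∀ β, ∃ v : ↥(cfSites η), pvge2S Yc u (v : ℂ) ≤ Sp - 15 * q / 4 ∧
      (pvkiT η).Join univ (pvldCol (pvukS b η) {w : ↥(cfSites η) | (w : ℂ) ∈ pvkdAt p (d * s) (𝔱.Ln false β)} β) (pvhiEnd (pvkiT η) β g.aIn) v := by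
  intro β
  subst hq hSp
  have hq0 : 0 < s * r₀ := mul_pos hs hr
  have key : PvyoLn b η (pvkdAt p (d * s) (𝔱.Ln false β)) (pvkdAt p (d * s) (𝔱.Dr false β)) β (pvkdFoot g false β) := by
    cases β
    · exact H.white
    · exact H.black
  obtain ⟨v, hv, hj⟩ := key
  rw [pvge5_ft_in] at hj
  exact ⟨v, by have := pvge5_tgt (Yc := Yc) G hs (pvge5_k_o hk) β v hv; linarith, hj⟩

/-- **`hH`, LAST LINK**: the two exit lanes of the door end before the bars -/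
theorem pvge5_lane_i {g : (pvkiT η).Gate (pvukS b η)} (H : PvyoSd 𝔭 𝔱 true b η p d s g) (G : Pvge5Side r₀ true (𝔱.Ln true) (𝔱.Dr true)) (hs : 0 < s) (hr : 0 < r₀) (hk : d * (starRingEnd ℂ) u = -1)
    (hq : q = s * r₀) (hSp : pvge2S Yc u p = Sp) :
    ∀ β, ∃ v : ↥(cfSites η), pvge2S Yc u (v : ℂ) ≤ Sp - 15 * q / 4 ∧
      (pvkiT η).Join univ (pvldCol (pvukS b η) {w : ↥(cfSites η) | (w : ℂ) ∈ pvkdAt p (d * s) (𝔱.Ln true β)} β) (pvhiEnd (pvkiT η) β g.aOut) v := by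
  intro β
  subst hq hSp
  have hq0 : 0 < s * r₀ := mul_pos hs hr
  have key : PvyoLn b η (pvkdAt p (d * s) (𝔱.Ln true β)) (pvkdAt p (d * s) (𝔱.Dr true β)) β (pvkdFoot g true β) := by
    cases β
    · exact H.white
    · exact H.black
  obtain ⟨v, hv, hj⟩ := key
  rw [pvge5_ft_out] at hj
  exact ⟨v, by have := pvge5_tgt (Yc := Yc) G hs (pvge5_k_i hk) β v hv; linarith, hj⟩

/-- the feet of a gate of record lie in the outer disc -/
theorem pvge5_foot_ball {σ : Bool} {g : (pvkiT η).Gate (pvukS b η)} (H : PvyoSd 𝔭 𝔱 σ b η p d s g) (σ' β : Bool) : ‖((pvkdFoot g σ' β : ↥(cfSites η)) : ℂ) - p‖ < s * 𝔭.b := by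
  obtain ⟨k, hk⟩ := pvhf_foot_rim g σ' β
  rw [hk]
  have := H.gate.least.reg.rim k
  simpa [PvkdPlug.pg, PvkdPlug.sc, dist_eq_norm] using this

/-- **`hfoot`, FIRST LINK** -/
theorem pvge5_foot_o {g : (pvkiT η).Gate (pvukS b η)} (H : PvyoSd 𝔭 𝔱 false b η p d s g) (hu : ‖u‖ = 1) (hb : 𝔭.b = 2 * r₀) (hs : 0 < s) (hr : 0 < r₀) (hq : q = s * r₀) (hSp : pvge2S Yc u p = Sp) :
    ∀ β, Sp - 13 * q / 4 ≤ pvge2S Yc u ((pvhiEnd (pvkiT η) β g.aIn : ↥(cfSites η)) : ℂ) := by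
  intro β
  subst hq hSp
  have hq0 : 0 < s * r₀ := mul_pos hs hr
  have h1 := pvge5_foot_ball H false β
  rw [pvge5_ft_in, hb] at h1
  have h2 := abs_le.1 (pvge2_S_lip hu Yc ((pvhiEnd (pvkiT η) β g.aIn : ↥(cfSites η)) : ℂ) p)
  nlinarith [h2.1]

/-- **`hfoot`, LAST LINK** -/
theorem pvge5_foot_i {g : (pvkiT η).Gate (pvukS b η)} (H : PvyoSd 𝔭 𝔱 true b η p d s g) (hu : ‖u‖ = 1) (hb : 𝔭.b = 2 * r₀) (hs : 0 < s) (hr : 0 < r₀) (hq : q = s * r₀) (hSp : pvge2S Yc u p = Sp) :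
    ∀ β, Sp - 13 * q / 4 ≤ pvge2S Yc u ((pvhiEnd (pvkiT η) β g.aOut : ↥(cfSites η)) : ℂ) := by
  intro β
  subst hq hSp
  have hq0 : 0 < s * r₀ := mul_pos hs hr
  have h1 := pvge5_foot_ball H true β
  rw [pvge5_ft_out, hb] at h1
  have h2 := abs_le.1 (pvge2_S_lip hu Yc ((pvhiEnd (pvkiT η) β g.aOut : ↥(cfSites η)) : ℂ) p)
  nlinarith [h2.1]

/-- the placed rooms lie in the `3ρ`-core of the placed window of the side event -/
theorem pvge5_room_core (hG : PvhfGeo 𝔭 𝔱) (hd : ‖d‖ = 1) (hs : 0 < s) (p : ℂ) (σ β : Bool) : pvkdAt p (d * s) (𝔱.Ln σ β) ⊆ pvtrCore (3 * (s * 𝔭.ρ)) (pvkdAt p (d * s) (𝔱.Es σ)) := by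
  have h1 : pvkdAt p (d * s) (𝔱.Ln σ β) ⊆ pvkdAt p (d * s) (pvtrCore (3 * 𝔭.ρ) (𝔱.Es σ)) := image_mono (pvhf_room_core hG σ β)
  have h2 := pvge5_core_at (pvyo_ne hd hs) p (3 * 𝔭.ρ) (𝔱.Es σ)
  rw [pvyo_norm hd hs] at h2
  have e : s * (3 * 𝔭.ρ) = 3 * (s * 𝔭.ρ) := by ring
  rw [e] at h2
  exact h1.trans h2

/-- **the cell half of `hRm`**: the cells of the sites of the rooms have radius `≤ s ρ` (`= q / 16` at the plug of record) -/
theorem pvge5_cell {σ : Bool} {g : (pvkiT η).Gate (pvukS b η)} (H : PvyoSd 𝔭 𝔱 σ b η p d s g) (hG : PvhfGeo 𝔭 𝔱) (hd : ‖d‖ = 1) (hs : 0 < s) (hρ : 0 < 𝔭.ρ) (β : Bool) :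
    ∀ v : ℂ, v ∈ pvkdAt p (d * s) (𝔱.Ln σ β) → vorCell (cfSites η) v ⊆ closedBall v (s * 𝔭.ρ) :=
  fun v hv => pvdd_cell_ball (mul_pos hs hρ) H.mesh (pvge5_room_core hG hd hs p σ β hv)

end door

end Claimed.Agent.R289
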