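-- KEEP
import Claimed.Agent.R289.Tr.FrcDetE
import Claimed.Agent.R289.Tr.HookColD
import Claimed.Agent.R289.Tr.HookColF
import Claimed.Agent.R289.Tr.HookLA
import Claimed.Agent.R289.Tr.HookGJ
import Claimed.Agent.R289.Tr.HookT
import Claimed.Agent.R289.Tr.DoorSoft
import Claimed.Agent.R289.Tr.FrcDetO

/-!
# Row 289 (S0537), THE WALL, ROAD E, E10 AT THE HYBRID ENDS, (b3) DET, file Tr/HookIQ : **`PvjeDet.ev` OF THE LAST LINK `door plug → t` ON THE ROUTES OF RECORD, T ARMS (ALL TIP CELLS)**      (helper267, post of 24 id 97022; prefix `pvzqi_`, `Pvzqi`)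

ROAD: `pvid_foot_i` (155: carried half state, copy colouring, THE FOOT on the U feet of 23) + `pvdd_pat_i` (228: routes of record `pvge2Rt` of 298, CUT door in the coordinates `(s, l)` of the frame of the mouth) + `pvyo_side` (173: gate of record + two half lanes of the exit side)
+ `pvhr_out_gt` (228) + `pvha_A_dp` (112).      NO box side premise (`hout`, `side`): valid at the corner tip cells.
* sec. 1  `pvzqi_rec_i` : `pvdd_pat_i` AT THE NUMBERS OF RECORD `Pvge2Rec` (= `pvge4_rec_i` of 298 in foot form, any presentation)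
* sec. 2  **`PvzqiLay`** = all that DET owes to the regions of a link `door → pin` in the frame `(c, u)` of the mouth (no configuration, no state);   **`pvzqi_A_dp`** : nice `η` + mesh of the window + side of the plug + entrance half state + pattern of the copy colouring + fresh lines + THE FOOT ⟹ `η ∈ L.A N b`
* sec. 3  AT THE MODEL: **`pvzqi_ev_i`** : `PvjeFin (pvjeI 𝔓 𝔈 w m ε z t) T η₀ η` + certificate at the base + mesh of the window at `η` ⟹ `η ∈ pvilMi 𝔓 𝔈 m ε z t (pvilZi 𝔓 m z t η₀)`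
-/

set_option autoImplicit false
set_option linter.unusedSectionVars false
set_option linter.unusedVariables false

namespace Claimed.Agent.R289

open Relation Set Metric Claims.C0465
open scoped ComplexConjugate

/-! ## 1. the run at the numbers of record, foot form -/

section rec

variable {Y : Set ℂ} {h : DelGood Y} {P : PlTri ↥Y} {K : Set Y} {c u : ℂ} {σ : Y → Bool} {κ : ℂ → Bool} {rt ρ R₀ δ q dl ρl Sp lam : ℝ} {Rm : Bool → Set ℂ}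

/-- **LAST LINK AT A FINAL CONFIGURATION, NUMBERS OF RECORD, FOOT FORM, ANY PRESENTATION.**   `u` = OUTER normal of the entrance mouth, door of unit `q` at `(Sp, lam)` in the frame of the side `false`, `κ` carries `pvge2PatRec c u false true R₀ q Sp lam` (relative colours);
cut plane `s = Sp - 13q/4`, cells of the rooms in balls `q/16`, ends of the half lanes at `s ≤ Sp - 15q/4` -/
theorem pvzqi_rec_i (hP : P = delPl h) {a₁ : P.Dart} (h1 : pvasBW P.toMap σ a₁) (hu : ‖u‖ = 1)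
    (foot : ∀ GN GC : Bool → Set ℂ, (∀ β, PvhjArmT Y κ β ((starRingEnd ℂ) u) c rt ρ (R₀ / 4) (!β) (GN β) (GC β) (pvge2Cl c u (!β) (pvge2Aa R₀ β) (23 * R₀ / 200) (3 * R₀ / 20) dl)) → PvhjFootP P σ κ K a₁ GN)
    (hK : K.Finite) (hco : ∀ u v, u ∉ K → v ∉ K → P.toMap.Join univ Kᶜ u v) (g : P.toMap.Gate σ) (hne : g.vp ≠ P.toMap.src a₁)
    (hO : ∃ f, P.toMap.src f ∉ K ∧ P.toMap.DJoin (pvldBar P.toMap σ K g.aOut a₁) (P.toMap.opp g.aOut) f)
    (Rc : Pvge2Rec R₀ δ q dl ρl rt (2 * ρ) Sp lam) (hρ0 : 0 ≤ ρ) (he : rt + 2 * ρ < 21 * R₀ / 200)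
    (hev : cfOf Y κ ∈ pvkqPat dl (pvge2PatRec c u false true R₀ q Sp lam))
    (hρl : dl / 16 ≤ ρl) (hdS : ∀ β, VorDense Y (pvge2Cl c u (!β) (pvge2Aa R₀ β) (23 * R₀ / 200) (3 * R₀ / 20) dl) ρl)
    (mid : ∀ β, ∀ v : Y, (vorCell Y v ∩ pvge4Lane c u (!β) R₀ q Sp (pvge2Aa R₀ β) (pvge2Lm lam β)).Nonempty → v ∈ K ∧ σ v = κ v)
    (hroom : ∀ β, ∀ w ∈ Rm β, pvge2S c u w < Sp - 13 * q / 4 → pvge2Lm lam β + q / 2 ≤ pvge2T c u (!β) w ∧ pvge2T c u (!β) w ≤ pvge2Lm lam β + 3 * q / 2)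
    (hH : ∀ β, ∃ v : Y, pvge2S c u (v : ℂ) ≤ Sp - 15 * q / 4 ∧ P.toMap.Join univ (pvldCol σ {u : Y | (u : ℂ) ∈ Rm β} β) (pvhiEnd P.toMap β g.aOut) v)
    (hfoot : ∀ β, Sp - 13 * q / 4 ≤ pvge2S c u ((pvhiEnd P.toMap β g.aOut : Y) : ℂ))
    (hRm : ∀ β, ∀ v : Y, (v : ℂ) ∈ Rm β → v ∈ K ∧ vorCell Y v ⊆ closedBall (v : ℂ) (q / 16))
    (hRκ : ∀ β, ∀ v : Y, (v : ℂ) ∈ Rm β → pvge2S c u (v : ℂ) < Sp - 13 * q / 4 → σ v = κ v) :
    PvldRun P.toMap σ K g.aOut a₁ := by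
  have h1' := Rc.δ0; have h3 := Rc.fine; have h4 := Rc.mesh; have h5 := Rc.dl0; have h9 := abs_le.1 Rc.lat; have h10 := Rc.qδ; have h11 := Rc.q0
  refine pvdd_pat_i (sd := fun β => !β) (aa := pvge2Aa R₀) (ll := fun β => pvge2Lm lam β + q / 4) (l0 := fun β => pvge2Lm lam β + q / 2) (l1 := fun β => pvge2Lm lam β + 3 * q / 2) (sc := Sp - 13 * q / 4) (ρd := q / 16)
    hP h1 hu foot hK hco g hne hO Rc.num Rc.bar hρ0 he (fun β => ?_) hρl hdS mid (by linarith) (by linarith) hroom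
    (fun β => by show pvge2Lm lam β + q / 4 + 3 / 2 * dl + q / 16 ≤ pvge2Lm lam β + q / 2; linarith) (fun β => ?_) (fun β => ?_) hfoot hRm hRκ
  · have := pvge2_patRec_ev hev β
    cases β <;> exact this
  · show pvge2Lm lam β + 3 * q / 2 + q / 16 + 3 / 2 * dl ≤ pvge2Aa R₀ β
    cases β <;> simp only [pvge2Lm, pvge2Aa, if_true, if_false, Bool.false_eq_true] <;> linarith [h9.1, h9.2]
  · obtain ⟨v, hv, hj⟩ := hH β
    exact ⟨v, by linarith, hj⟩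

end rec

/-! ## 2. a link `door type plug → pin` of `Tr/InstL`: the regions in the frame of the mouth, the plain success -/

/-- **ALL THAT DET OWES TO THE REGIONS OF A LINK `door → pin` ON THE ROUTES OF RECORD** (no configuration, no state).   `W` = the window (mesh `μ` at the final configuration), `Fr` = the FRESH part (tile ∪ mouth off the own-level box: copy colours),
mouth: centre `c` of the tip cell, OUTER normal `u`, radius of reference `R₀`, mesh `ρ` of the big mouth at the base, tip face `rt`;   door of unit `q` at `(Sp, lam)` (frame of the side `false`), rooms `Rm β`, targets `Dr β` of the two half lanes of the exit side -/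
structure PvzqiLay (L : PvilLk) (N : PvwNum) (W Fr : Set ℂ) (μ : ℝ) (c u : ℂ) (R₀ δ q dl ρl rt ρ Sp lam : ℝ) (Rm Dr : Bool → Set ℂ) : Prop where
  mu : 0 < μ
  rho : 0 ≤ ρ
  nu : ‖u‖ = 1
  num : Pvge2Rec R₀ δ q dl ρl rt (2 * ρ) Sp lam
  he : rt + 2 * ρ < 21 * R₀ / 200
  rl : dl / 16 ≤ ρl
  mul : μ ≤ ρl
  muq : μ ≤ q / 16
  bdd : Bornology.IsBounded L.Yin
  co : IsPreconnected L.Yinᶜ
  /-- (Rc) of RULING 22: the room with its collar lies in the window -/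
  collar : ∀ v ∈ L.Yin, closedBall v (3 * μ) ⊆ W
  /-- the closing sets lie in the core of the window -/
  cl : ∀ β, pvge2Cl c u (!β) (pvge2Aa R₀ β) (23 * R₀ / 200) (3 * R₀ / 20) dl ⊆ pvtrCore μ W
  /-- the small mouth with its collar lies in the room -/
  mouth : closedBall c (R₀ / 4 + 4 * ρ + μ) ⊆ L.Yin
  /-- the lanes: deep in the room, in the fresh part -/
  mid : ∀ β, ∀ w ∈ pvge4Lane c u (!β) R₀ q Sp (pvge2Aa R₀ β) (pvge2Lm lam β), closedBall w (2 * μ) ⊆ L.Yin ∧ closedBall w μ ⊆ Fr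
  room : ∀ β, ∀ w ∈ Rm β, closedBall w μ ⊆ L.Yin
  roomF : ∀ β, ∀ w ∈ Rm β, pvge2S c u w < Sp - 13 * q / 4 → w ∈ Fr
  roomL : ∀ β, ∀ w ∈ Rm β, pvge2S c u w < Sp - 13 * q / 4 → pvge2Lm lam β + q / 2 ≤ pvge2T c u (!β) w ∧ pvge2T c u (!β) w ≤ pvge2Lm lam β + 3 * q / 2
  tgt : ∀ β, ∀ w ∈ Dr β, pvge2S c u w ≤ Sp - 15 * q / 4
  /-- the disc of the gate lies beyond the cut plane -/
  gate : ∀ w ∈ ball L.p.z (pvkdP L.p.h).b, Sp - 13 * q / 4 ≤ pvge2S c u w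
  /-- the room of `g⁻` of the plug is off the room of the link -/
  gm : ∀ w ∈ pvkdAt L.p.z L.p.fr (pvkdP L.p.h).Zm, w ∉ L.Yin
  offBox : Disjoint (ball L.p.z (pvkdP L.p.h).b) (pvhaBx N L.p')
  offTip : Disjoint (ball L.p.z (pvkdP L.p.h).b) L.p'.cm

section lk

variable {L : PvilLk} {N : PvwNum} {W Fr : Set ℂ} {μ : ℝ} {c u : ℂ} {R₀ δ q dl ρl rt ρ Sp lam : ℝ} {Rm Dr : Bool → Set ℂ} {b : Bool} {η : Conf PvPt}

theorem pvzqi_ball_ball {a c : ℂ} {r s : ℝ} (h : ‖a - c‖ ≤ r) : closedBall a s ⊆ closedBall c (r + s) := by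
  intro x hx
  rw [mem_closedBall, dist_eq_norm] at hx ⊢
  calc ‖x - c‖ = ‖(x - a) + (a - c)‖ := by congr 1; ring
    _ ≤ ‖x - a‖ + ‖a - c‖ := norm_add_le _ _
    _ ≤ r + s := by linarith

/-- the feet of the exit side of a gate of record lie in the outer disc -/
theorem pvzqi_foot_rim {κ' V D : Type} {T : PvMap V D} {mk : V → κ'} {s : V → Bool} {KI KO : Set κ'} {g : T.Gate s} (h : PvzlIn T mk KI KO g.c) (β : Bool) : mk (pvhiEnd T β g.aOut) ∈ KO := by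
  cases β
  · show mk (T.tgt g.aOut) ∈ KO
    rw [pvtg_aOut_tgt]; exact h.rim _
  · show mk (T.src g.aOut) ∈ KO
    rw [pvtg_aOut_src]; exact h.rim g.m

theorem pvzqi_foot_eq {V D : Type} {T : PvMap V D} {s : V → Bool} (g : T.Gate s) (β : Bool) : pvkdFoot g true β = pvhiEnd T β g.aOut := by
  cases β
  · rfl
  · exact (pvtg_aOut_src g).symm

/-- **THE PLAIN SUCCESS OF A LINK `door type plug → pin` ON THE ROUTES OF RECORD** at ONE configuration `η`: general position, mesh of the window, the gate of record of the plug with the two half lanes of its exit side (173: `PvyoSd`), the entrance half state of the pin,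
a copy colouring `κ` (relative colours) with the pattern of record, `σ = κ` on the fresh part, THE FOOT at the tip for every family of T arms (23 / 155 / 266) -/
theorem pvzqi_A_dp (Λ : PvzqiLay L N W Fr μ c u R₀ δ q dl ρl rt ρ Sp lam Rm Dr) (h0 : L.dr = true) (h1 : L.dr' = false)
    (hgood : DelGood (pvieY η)) (hm : PvtrMesh μ W (pvieY η)) {g : (pvieT η).Gate (pvieCol η b)}
    (hd : PvilDoor (pvkdP L.p.h) b η L.p.z L.p.fr (pvilStS (pvkdP L.p.h) η (pvieCol η b) L.p.z g))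
    (hg : PvzlGt (pvieT η) Subtype.val (pvieCol η b) ((pvkdP L.p.h).pg L.p.z L.p.fr) g)
    (hH : ∀ β, ∃ v : ↥(pvieY η), (v : ℂ) ∈ Dr β ∧ (pvieT η).Join univ (pvldCol (pvieCol η b) {u | (u : ℂ) ∈ Rm β} β) (pvkdFoot g true β) v)
    {𝔖' : PvwSt (pvieT η)} (hp : PvilIn N b L.p' η 𝔖') {κ : ℂ → Bool}
    (hev : cfOf (pvieY η) κ ∈ pvkqPat dl (pvge2PatRec c u false true R₀ q Sp lam)) (hfr : ∀ v : ↥(pvieY η), (v : ℂ) ∈ Fr → pvieCol η b v = κ v)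
    (foot : ∀ (K : Set ↥(pvieY η)) (GN GC Sg' : Bool → Set ℂ),
      (∀ β, PvhjArmT (pvieY η) κ β ((starRingEnd ℂ) u) c rt ρ (R₀ / 4) (!β) (GN β) (GC β) (Sg' β)) →
      (∀ v : ↥(pvieY η), ‖(v : ℂ) - c‖ < R₀ / 4 + 4 * ρ → v ∈ K) → PvhjFootP (delbPl (pvieY η)) (pvieCol η b) κ K (𝔖'.em 𝔖'.nm) GN) :
    η ∈ L.A N b := by
  have hμ := Λ.mu
  obtain ⟨k1, k2⟩ := pvhj_K_pl (h := hgood) (delb_pl_eq hgood) Λ.co (by rw [compl_compl]; exact Λ.bdd)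
  have hcell : ∀ v : ↥(pvieY η), (v : ℂ) ∈ L.Yin → vorCell (pvieY η) v ⊆ closedBall (v : ℂ) μ := fun v hv => pvhu_cell_ball hμ hm (Λ.collar v hv)
  have hinK : ∀ v : ↥(pvieY η), closedBall (v : ℂ) μ ⊆ L.Yin → v ∈ pvgeKV (pvieY η) L.Yinᶜ := fun v hv => pvhg_KV_iff.2 ((hcell v (hv (mem_closedBall_self hμ.le))).trans hv)
  have htip : ((pvieT η).src (𝔖'.em 𝔖'.nm) : ℂ) ∈ L.p'.cm := hp.tip
  have hbw : pvasBW (pvieT η) (pvieCol η b) (𝔖'.em 𝔖'.nm) := pvwk_em_bw hp.st.stub hp.st.gate.bw_m le_rfl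
  have hvp : ((g.vp : ↥(pvieY η)) : ℂ) ∈ ball L.p.z (pvkdP L.p.h).b := by
    have := pvzqi_foot_rim hg.least.reg true
    rwa [show pvhiEnd (pvieT η) true g.aOut = g.vp from pvtg_aOut_src g] at this
  have hrun : PvldRun (pvieT η) (pvieCol η b) (pvgeKV (pvieY η) L.Yinᶜ) g.aOut (𝔖'.em 𝔖'.nm) := by
    refine pvzqi_rec_i (h := hgood) (Rm := Rm) (delb_pl_eq hgood) hbw Λ.nu (fun GN GC A => foot _ GN GC _ A fun v hv => hinK v ?_) k1 k2 g ?_ ?_ Λ.num Λ.rho Λ.he hev Λ.rl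
      (fun β => VorDense.mono hm Subset.rfl (Λ.cl β) Λ.mul) ?_ Λ.roomL (fun β => ?_) (fun β => Λ.gate _ (pvzqi_foot_rim hg.least.reg β)) ?_ ?_
    · exact (pvzqi_ball_ball hv.le).trans Λ.mouth
    · intro e
      exact disjoint_left.1 Λ.offTip hvp (e ▸ htip)
    · refine pvhr_out_gt hg (fun hK => Λ.gm _ hg.vm (pvhg_KV_over hK)) hbw fun hl => ?_
      exact disjoint_left.1 Λ.offTip (hg.least.reg.outer _ hl) htip
    · rintro β v ⟨w, hw1, hw2⟩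
      obtain ⟨m1, m2⟩ := Λ.mid β w hw2
      have hwY : w ∈ L.Yin := m1 (mem_closedBall_self (by linarith))
      have hwc : w ∈ pvtrCore μ W := (closedBall_subset_closedBall (by linarith)).trans (Λ.collar w hwY)
      have hwv : ‖w - (v : ℂ)‖ ≤ μ := vor_site_near hm hw1 hwc
      have hvw : ‖(v : ℂ) - w‖ ≤ μ := by rwa [norm_sub_rev]
      refine ⟨hinK v (((pvzqi_ball_ball hvw).trans (by rw [← two_mul])).trans m1), hfr v (m2 ?_)⟩
      rwa [mem_closedBall, dist_eq_norm]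
    · obtain ⟨v, hv, hj⟩ := hH β
      rw [pvzqi_foot_eq] at hj
      exact ⟨v, Λ.tgt β _ hv, hj⟩
    · intro β u hu
      exact ⟨hinK u (Λ.room β u hu), (hcell u (Λ.room β u hu (mem_closedBall_self hμ.le))).trans (closedBall_subset_closedBall Λ.muq)⟩
    · intro β u hu hx
      exact hfr u (Λ.roomF β u hu hx)
  refine pvha_A_dp (K := pvgeKV (pvieY η) L.Yinᶜ) h0 h1 hd hp ?_ (fun v hv => pvhg_KV_over hv) hrun
  intro hbx
  refine disjoint_left.1 Λ.offBox ?_ hbx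
  show (((pvieT η).src g.aOut : ↥(pvieY η)) : ℂ) ∈ _
  rw [pvtg_aOut_src]
  exact hvp

end lk

/-! ## 3. at the model: the last link `door plug → t` -/

section model

variable {τ : Type} {c : ℝ} {𝔓 : PvxPar τ c} {𝔈 : PvieEng τ} {m : ℕ} {ε : ℝ} {z : ℂ} {t : τ} {μb δ' q dl ρl rt Sp lam : ℝ} {η₀ η : Conf PvPt} {w : ∀ η : Conf PvPt, (delbPl (pvieY η)).Dart → ℂ} {T : PvjeTest}
  {𝔭 : PvkdPlug} {𝔱 : PvhfTr} {s : ℝ}

/-- **`PvjeDet.ev` OF THE LAST LINK `i`: THE PLAIN SUCCESS AND THE HULL, ALL TIP CELLS.**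
NUMBERS: `n hL hT hc` (266), mesh `μb` of the certificate of record at the base, tip face `rt ∈ [R/10 + 4 μb, R/4 - 5 μb/2]`.
REGIONS: `hK hD hMK hMD hM` (engine), `Λ` (link; window `:= mouth ∪ tile ∪ region of the door plug`, mesh `pvilMu`, fresh part `:= (mouth ∪ tile) \ own-level box`, rooms and targets `:=` the placed truncated rooms of the exit side of the plug `𝔭.sc s = pvkdP (pvilRd 𝔓 m)`).
TESTS: `hℋ` (the side event is the placed `S⁺` of 174), `hpat` (the copy pattern contains the pattern of record, relative colours: `pvw7_pat_col` of 88).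
CERTIFICATE AT THE BASE: `hMc`.      AT `η`: the mesh of the window (leaf (b6): 206 / 46). -/
theorem pvzqi_ev_i (n : PvhoNum 𝔓) (hL : PvegLev 𝔓 m) (hT : pviwTyOk 𝔓 t) (hc : ∀ x ∈ 𝔓.cm t, ‖x - (𝔓.ty t).ym‖ ≤ 𝔓.num.rho / 10)
    (hb : (𝔓.ty t).b * pvlmH m ≤ pviwRad 𝔓 m t) (hK : Disjoint (𝔈.iK m t) (pviwBox 𝔓 m t)) (hD : Disjoint (pviwDi 𝔓 𝔈 m ε t) (pviwBox 𝔓 m t))
    (hMK : Disjoint (pvjeI 𝔓 𝔈 w m ε z t).M (pvjeI 𝔓 𝔈 w m ε z t).K) (hMD : Disjoint (pvjeI 𝔓 𝔈 w m ε z t).M (pvjeI 𝔓 𝔈 w m ε z t).D) (hM : 𝔈.iM m t = pvegIM 𝔓 m t)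
    (hμ : 0 < μb) (h3 : 3 * μb ≤ pvlmDel c m) (hμ' : 112 * μb ≤ 𝔓.num.rho * pvlmH m) (hr : μb < (𝔓.ty t).b * pvlmH m)
    (ht0 : 𝔓.num.rho * pvlmH m / 10 + 4 * μb ≤ rt) (ht1 : 2 * rt + 5 * μb ≤ 𝔓.num.rho * pvlmH m / 2)
    (Λ : PvzqiLay (pvilLi 𝔓 𝔈 m z t) 𝔓.num (pvieSh z (𝔈.iM m t) ∪ pvieSh z (𝔈.iK m t) ∪ pvieDoor 𝔈 m ε (pvieZi 𝔓 m z t) ((𝔓.Γ m).din t)) ((pvieSh z (𝔈.iM m t) ∪ pvieSh z (𝔈.iK m t)) \ pvwSq z (pviwRad 𝔓 m t))
      (pvilMu 𝔓 m) ((𝔓.ty t).cm (pvlmH m) z) (-(𝔓.Γ m).din t) (𝔓.num.rho * pvlmH m) δ' q dl ρl rt μb Sp lam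
      (fun β => pvkdAt (pvieZi 𝔓 m z t) ((𝔓.Γ m).din t * s) (𝔱.Ln true β)) (fun β => pvkdAt (pvieZi 𝔓 m z t) ((𝔓.Γ m).din t * s) (𝔱.Dr true β)))
    (hG : PvhfGeo 𝔭 𝔱) (hs : 0 < s) (hsc : 𝔭.sc s = pvkdP (pvilRd 𝔓 m)) (hℋ : ∀ η ∈ T.ℋ, pvdpT (pvieZi 𝔓 m z t) ((𝔓.Γ m).din t * s) (𝔓.col t) η ∈ pvhfS 𝔭 𝔱 true)
    (hpat : ∀ (Y : Set ℂ) (κ : ℂ → Bool), cfOf Y κ ∈ T.𝒦 → cfOf Y (pvhcK κ (𝔓.col t)) ∈ pvkqPat dl (pvge2PatRec ((𝔓.ty t).cm (pvlmH m) z) (-(𝔓.Γ m).din t) false true (𝔓.num.rho * pvlmH m) q Sp lam))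
    (hMc : η₀ ∈ pvrgMesh μb (closedBall z (2 * pviwRad 𝔓 m t + 4 * pvlmH m)))
    {𝔖₀ : PvwSt (pvieT η₀)} (h₀ : PvilIn 𝔓.num (𝔓.col t) (pvilPin 𝔓 m z t) η₀ 𝔖₀) (hF : PvjeFin (pvjeI 𝔓 𝔈 w m ε z t) T η₀ η)
    (hmesh : η ∈ pvilMs 𝔓 m (pvilWni 𝔓 𝔈 m ε z t (pvilZi 𝔓 m z t η₀))) : η ∈ pvilMi 𝔓 𝔈 m ε z t (pvilZi 𝔓 m z t η₀) := by
  obtain ⟨s1, s2, s3, s0⟩ := pvho_small n m
  have hbig := pvho_cert_i n hT z (by linarith) hMc
  have hbox := pvho_cert_box (t := t) n hL z hMc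
  have hMe : pvieSh z (𝔈.iM m t) = closedBall ((𝔓.ty t).cm (pvlmH m) z) (5 * (𝔓.num.rho * pvlmH m) / 16) := by rw [hM, pvho_iM]
  have hmM : η₀ ∈ pvrgMesh μb (pvieSh z (𝔈.iM m t)) := by
    refine pvrg_mesh_mono ?_ hMc
    rw [hMe]
    intro x hx
    rw [mem_closedBall, dist_eq_norm] at hx ⊢
    have h1 := pvhg_tri3 x ((𝔓.ty t).cm (pvlmH m) z) z
    have h2 := pvho_cm_le hT m z
    linarith
  have E := pvho_endD_i n hL hT z hμ (by linarith) (le_refl (𝔓.num.rho * pvlmH m / 4)) (by linarith) (by linarith) ht1 hbig (K := univ) (fun _ _ => mem_univ _)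
  have tip := pvho_tip_i hc h₀ hμ (pvho_dense_mono hbig (by linarith))
  obtain ⟨𝔖', -, hp, -, eZ, κ, hκ, -, hfr, foot⟩ := pvid_foot_i hμ h3 hb hr hK hD hbox h₀ hF hMK hMD hμ hmM E (by linarith [tip.1]) (by linarith [tip.2])
    (by rw [hMe]; exact closedBall_subset_closedBall (by linarith))
  have hd1 : ‖(𝔓.Γ m).din t‖ = 1 := pveg_norm_unit (pveg_din4 hL t)
  obtain ⟨g, hsd⟩ := pvyo_side hG true hd1 hs hF.one hF.nice.good (hℋ η hF.side)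
  have hd := hsd.door hG hF.nice
  have hgate := hsd.gate
  rw [hsc] at hd hgate
  have hW : pvieSh z (𝔈.iM m t) ∪ pvieSh z (𝔈.iK m t) ∪ pvieDoor 𝔈 m ε (pvieZi 𝔓 m z t) ((𝔓.Γ m).din t) ⊆ pvilWni 𝔓 𝔈 m ε z t (pvilZi 𝔓 m z t η₀) := by
    rintro v ((hv | hv) | hv)
    · exact Or.inl (Or.inl (Or.inr hv))
    · exact Or.inl (Or.inr hv)
    · exact Or.inr hv
  refine ⟨⟨?_, eZ⟩, hmesh⟩
  refine pvzqi_A_dp (η := η) (b := 𝔓.col t) (g := g) (κ := pvhcK κ (𝔓.col t)) Λ rfl rfl hF.nice.good (VorDense.mono hmesh Subset.rfl (pvtr_core_mono hW) le_rfl) hd hgate (fun β => ?_) hp (hpat _ κ hκ)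
    (fun v hv => hfr v hv.1 hv.2) foot
  cases β
  · exact hsd.white
  · exact hsd.black

end model

end Claimed.Agent.R289
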