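-- KEEP
import Claimed.Agent.R289.Tr.GoodE

/-!
# Row 289 (S0537), THE WALL, ROAD E, E10 DET, file Tr/PatCol : THE COLOUR DICTIONARY OF THE COPY PATTERN      (helper137, order of 106 id 97262; prefix `pvw8_`; the prefix pvw7 is the one of 88, `Tr/HookColF`: same flips in the form `pvhcK`)

WHY.   The copy pattern `T.𝒦` of a hybrid link is typed in ACTUAL colours (`pvge3PatO / I = pvge3PatOb / Ib` at `b = col t`); the hooks (`pvhj_tip_rtD`, `pvge4_pat_*`, `PvhjFootP`) want the RELATIVE colouring `κ v := (τ v == b)`, with `σ = pvieCol η b`.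
* sec. 1  THE FLIP: `pvw8_flip_restr`, `pvw8_reg_flip`, `pvw8_good_flip`, `pvw8_loc_flip`, **`pvw8_lane_flip`** : `cfFlip η ∈ pvlnLaneEv δ (!c) L ↔ η ∈ pvlnLaneEv δ c L`, `pvw8_rt_flip`, `pvw8_pat_flip`
* sec. 2  THE RELATIVE COLOURING: `pvw8_of_rel` (`cfOf Y (τ · == b) = η` or `cfFlip η`),   **(FL1) `pvw8_lane_rel`**,   **(FL2) `pvw8_rt_rel`**,   `pvw8_pat_rel` (ANY list of routes: the colours of the routes become `x.1 == b`),   all with their `_iff`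
* sec. 3  **(FL3) `pvw8_patRec_rel`** (+ `pvw8_pat2_rel` for `pvge2Pat`): the pattern of record at the colour `b` in actual colours = the pattern of record at the colour `true` in relative colours
0 SORRY.
-/

set_option autoImplicit false

namespace Claimed.Agent.R289

open Set

/-! ## 1. the flip -/

theorem pvw8_flip_restr (N : Set ℂ) (η : Conf PvPt) : cfFlip (Conf.restr (N ×ˢ (univ : Set Bool)) η) = Conf.restr (N ×ˢ (univ : Set Bool)) (cfFlip η) := by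
  ext p
  simp only [cfFlip, Conf.restr, Conf.image, mem_image, mem_inter_iff, mem_prod, mem_univ, and_true]
  constructor
  · rintro ⟨q, ⟨hq, hO⟩, rfl⟩
    exact ⟨⟨q, hq, rfl⟩, hO⟩
  · rintro ⟨⟨q, hq, rfl⟩, hO⟩
    exact ⟨q, ⟨hq, hO⟩, rfl⟩

theorem pvw8_reg_flip (c : Bool) (η : Conf PvPt) : pvlnReg (!c) (cfFlip η) = pvlnReg c η := by
  unfold pvlnReg
  rw [pvr_Bk_flip, pvr_Wh_flip]
  cases c <;> rfl

theorem pvw8_occ_flip (Q : Set ℂ) (η : Conf PvPt) : cfFlip η ∈ pvmOcc (Q ×ˢ (univ : Set Bool)) ↔ η ∈ pvmOcc (Q ×ˢ (univ : Set Bool)) := by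
  constructor
  · rintro ⟨p, hp, hq⟩
    exact ⟨(p.1, !p.2), (pvrm_flip_mem η p.1 p.2).1 hp, ⟨hq.1, mem_univ _⟩⟩
  · rintro ⟨p, hp, hq⟩
    refine ⟨(p.1, !p.2), (pvrm_flip_mem η p.1 (!p.2)).2 ?_, ⟨hq.1, mem_univ _⟩⟩
    rw [Bool.not_not]
    exact hp

theorem pvw8_good_flip (ρ : ℝ) (w : ℂ) (L : ℝ) (η : Conf PvPt) : cfFlip η ∈ pvmGood univ ρ w L ↔ η ∈ pvmGood univ ρ w L := by
  unfold pvmGood pvmGrid
  simp only [mem_iInter]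
  exact forall_congr' fun k => forall_congr' fun _ => pvw8_occ_flip _ η

theorem pvw8_core_flip (c : Bool) (l : List RswTri) (cen : List ℂ) (u : ℝ) (η : Conf PvPt) : cfFlip η ∈ pvlnCore (!c) l cen u ↔ η ∈ pvlnCore c l cen u := by
  unfold pvlnCore pvlnAll pvlnG
  simp only [mem_inter_iff, mem_ofPred_eq, pvw8_reg_flip, pvrm_LF_flip, pvw8_good_flip]

theorem pvw8_loc_flip (N : Set ℂ) (c : Bool) (l : List RswTri) (cen : List ℂ) (u : ℝ) (η : Conf PvPt) : cfFlip η ∈ pvlnLoc N (!c) l cen u ↔ η ∈ pvlnLoc N c l cen u := by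
  unfold pvlnLoc
  rw [mem_preimage, mem_preimage, ← pvw8_flip_restr]
  exact pvw8_core_flip c l cen u _

/-- **the lane event under the flip of all colours** -/
theorem pvw8_lane_flip (δ : ℝ) (c : Bool) (L : List (ℤ × ℤ)) (η : Conf PvPt) : cfFlip η ∈ pvlnLaneEv δ (!c) L ↔ η ∈ pvlnLaneEv δ c L :=
  pvw8_loc_flip _ c _ _ _ η

theorem pvw8_rt_flip (δ : ℝ) (c : Bool) (ℓ : List (Set ℂ × ℂ × ℂ)) (η : Conf PvPt) : cfFlip η ∈ pvkqRtEv δ (!c) ℓ ↔ η ∈ pvkqRtEv δ c ℓ :=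
  pvw8_lane_flip δ c _ η

theorem pvw8_pat_flip (δ : ℝ) (F : List (Bool × List (Set ℂ × ℂ × ℂ))) (η : Conf PvPt) : cfFlip η ∈ pvkqPat δ (F.map fun x => (!x.1, x.2)) ↔ η ∈ pvkqPat δ F := by
  unfold pvkqPat
  simp only [mem_ofPred_eq, List.mem_map, forall_exists_index, and_imp, forall_apply_eq_imp_iff₂]
  exact forall_congr' fun x => forall_congr' fun _ => pvw8_rt_flip δ x.1 x.2 η

/-! ## 2. the relative colouring -/

theorem pvw8_of_true (Y : Set ℂ) (τ : ℂ → Bool) : cfOf Y (fun v => τ v == true) = cfOf Y τ := by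
  congr 1
  funext v
  cases τ v <;> rfl

theorem pvw8_of_false (Y : Set ℂ) (τ : ℂ → Bool) : cfOf Y (fun v => τ v == false) = cfFlip (cfOf Y τ) := by
  ext p
  obtain ⟨v, c⟩ := p
  rw [pvrm_flip_mem]
  show (v ∈ Y ∧ c = (τ v == false)) ↔ (v ∈ Y ∧ (!c) = τ v)
  cases τ v <;> cases c <;> simp

/-- **(FL1), iff form** -/
theorem pvw8_lane_rel_iff (dl : ℝ) (b c : Bool) (L : List (ℤ × ℤ)) (Y : Set ℂ) (τ : ℂ → Bool) : cfOf Y (fun v => τ v == b) ∈ pvlnLaneEv dl (c == b) L ↔ cfOf Y τ ∈ pvlnLaneEv dl c L := by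
  cases b
  · rw [pvw8_of_false]
    have h : (c == false) = !c := by cases c <;> rfl
    rw [h]
    exact pvw8_lane_flip dl c L _
  · rw [pvw8_of_true]
    have h : (c == true) = c := by cases c <;> rfl
    rw [h]

/-- **(FL1) A LANE IN ACTUAL COLOURS IS A LANE IN RELATIVE COLOURS** -/
theorem pvw8_lane_rel (dl : ℝ) (b c : Bool) (L : List (ℤ × ℤ)) (Y : Set ℂ) (τ : ℂ → Bool) (h : cfOf Y τ ∈ pvlnLaneEv dl c L) : cfOf Y (fun v => τ v == b) ∈ pvlnLaneEv dl (c == b) L :=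
  (pvw8_lane_rel_iff dl b c L Y τ).2 h

/-- **(FL2), iff form** -/
theorem pvw8_rt_rel_iff (dl : ℝ) (b c : Bool) (ℓ : List (Set ℂ × ℂ × ℂ)) (Y : Set ℂ) (τ : ℂ → Bool) : cfOf Y (fun v => τ v == b) ∈ pvkqRtEv dl (c == b) ℓ ↔ cfOf Y τ ∈ pvkqRtEv dl c ℓ :=
  pvw8_lane_rel_iff dl b c _ Y τ

/-- **(FL2) A ROUTE IN ACTUAL COLOURS IS A ROUTE IN RELATIVE COLOURS** -/
theorem pvw8_rt_rel (dl : ℝ) (b c : Bool) (ℓ : List (Set ℂ × ℂ × ℂ)) (Y : Set ℂ) (τ : ℂ → Bool) (h : cfOf Y τ ∈ pvkqRtEv dl c ℓ) : cfOf Y (fun v => τ v == b) ∈ pvkqRtEv dl (c == b) ℓ :=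
  (pvw8_rt_rel_iff dl b c ℓ Y τ).2 h

/-- ANY pattern: the colours of the routes become relative -/
theorem pvw8_pat_rel_iff (dl : ℝ) (b : Bool) (F : List (Bool × List (Set ℂ × ℂ × ℂ))) (Y : Set ℂ) (τ : ℂ → Bool) :
    cfOf Y (fun v => τ v == b) ∈ pvkqPat dl (F.map fun x => (x.1 == b, x.2)) ↔ cfOf Y τ ∈ pvkqPat dl F := by
  unfold pvkqPat
  simp only [mem_ofPred_eq, List.mem_map, forall_exists_index, and_imp, forall_apply_eq_imp_iff₂]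
  exact forall_congr' fun x => forall_congr' fun _ => pvw8_rt_rel_iff dl b x.1 x.2 Y τ

theorem pvw8_pat_rel (dl : ℝ) (b : Bool) (F : List (Bool × List (Set ℂ × ℂ × ℂ))) (Y : Set ℂ) (τ : ℂ → Bool) (h : cfOf Y τ ∈ pvkqPat dl F) :
    cfOf Y (fun v => τ v == b) ∈ pvkqPat dl (F.map fun x => (x.1 == b, x.2)) :=
  (pvw8_pat_rel_iff dl b F Y τ).2 h

/-! ## 3. the patterns of 298 -/

theorem pvw8_pat2_map (Yc u : ℂ) (up b : Bool) (a₁ a₂ t e₁ s₁ x₂ sb t₂ lb₁ lb₂ : ℝ) :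
    ((pvge2Pat Yc u up b a₁ a₂ t e₁ s₁ x₂ sb t₂ lb₁ lb₂).map fun x => (x.1 == b, x.2)) = pvge2Pat Yc u up true a₁ a₂ t e₁ s₁ x₂ sb t₂ lb₁ lb₂ := by
  unfold pvge2Pat
  cases b <;> rfl

theorem pvw8_pat2_rel_iff (dl : ℝ) (Yc u : ℂ) (up b : Bool) (a₁ a₂ t e₁ s₁ x₂ sb t₂ lb₁ lb₂ : ℝ) (Y : Set ℂ) (τ : ℂ → Bool) :
    cfOf Y (fun v => τ v == b) ∈ pvkqPat dl (pvge2Pat Yc u up true a₁ a₂ t e₁ s₁ x₂ sb t₂ lb₁ lb₂) ↔ cfOf Y τ ∈ pvkqPat dl (pvge2Pat Yc u up b a₁ a₂ t e₁ s₁ x₂ sb t₂ lb₁ lb₂) := by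
  rw [← pvw8_pat2_map Yc u up b]
  exact pvw8_pat_rel_iff dl b _ Y τ

theorem pvw8_pat2_rel {dl : ℝ} {Yc u : ℂ} {up b : Bool} {a₁ a₂ t e₁ s₁ x₂ sb t₂ lb₁ lb₂ : ℝ} {Y : Set ℂ} {τ : ℂ → Bool}
    (h : cfOf Y τ ∈ pvkqPat dl (pvge2Pat Yc u up b a₁ a₂ t e₁ s₁ x₂ sb t₂ lb₁ lb₂)) : cfOf Y (fun v => τ v == b) ∈ pvkqPat dl (pvge2Pat Yc u up true a₁ a₂ t e₁ s₁ x₂ sb t₂ lb₁ lb₂) :=
  (pvw8_pat2_rel_iff dl Yc u up b a₁ a₂ t e₁ s₁ x₂ sb t₂ lb₁ lb₂ Y τ).2 h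

/-- **(FL3), iff form** -/
theorem pvw8_patRec_rel_iff (dl : ℝ) (Yc u : ℂ) (up b : Bool) (r q Sp lam : ℝ) (Y : Set ℂ) (τ : ℂ → Bool) :
    cfOf Y (fun v => τ v == b) ∈ pvkqPat dl (pvge2PatRec Yc u up true r q Sp lam) ↔ cfOf Y τ ∈ pvkqPat dl (pvge2PatRec Yc u up b r q Sp lam) :=
  pvw8_pat2_rel_iff dl Yc u up b _ _ _ _ _ _ _ _ _ _ Y τ

/-- **(FL3) THE PATTERN OF RECORD AT THE COLOUR `b` IN ACTUAL COLOURS IS THE PATTERN OF RECORD AT THE COLOUR `true` IN RELATIVE COLOURS** (then `pvge2_patRec_ev` of 298 gives the routes by relative colour) -/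
theorem pvw8_patRec_rel {dl : ℝ} {Yc u : ℂ} {up b : Bool} {r q Sp lam : ℝ} {Y : Set ℂ} {τ : ℂ → Bool} (h : cfOf Y τ ∈ pvkqPat dl (pvge2PatRec Yc u up b r q Sp lam)) :
    cfOf Y (fun v => τ v == b) ∈ pvkqPat dl (pvge2PatRec Yc u up true r q Sp lam) :=
  (pvw8_patRec_rel_iff dl Yc u up b r q Sp lam Y τ).2 h

end Claimed.Agent.R289
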