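-- KEEP
import Claimed.Agent.R289.Tr.HookGJ
import Claimed.Agent.R289.Tr.HookD

/-!
# Row 289 (S0537), THE WALL, ROAD E, E10 (b3) DET, file Tr/HookO : THE TIP FOOT AT A FINAL CONFIGURATION      (helper199, post T16 of 24; prefix `pvhp_`, `Pvhp`)

THE POINT (hostile line of 66, 12:55Z; found independently).   `PvjeDet.ev` (35, `Exit/FrcDefs`) is owed at EVERY final configuration `η`: the exterior of the window is ARBITRARY.   The tip theorems of 23 (`Tr/HookY`: `pvhj_foot_out`, `pvhj_foot_in`) ask the mesh of the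
BIG mouth `closedBall c (r + 3ρ)`, `ρ₂ h ≤ r` (`PvhjEnd.mesh`), which is not in the window: they cannot be applied at `η`.      CURE: apply them at the BASE site set `Y₀` (mesh of the big ball = a free certificate), recoloured, and carry the foot to the final site set `Y`:
the foot lives in `B(c, rs + 4ρ)`, inside the recoloured mouth `closedBall c rM`, where the two site sets agree.
* sec. 1  `PvhpSame Y₀ Y c rM ρ` (same sites in `closedBall c rM`, mesh `ρ` of `Y₀` in `closedBall c (rM - ρ)`), `.symm`, **`pvhp_cell`** (a point of `closedBall c (rM - ρ)` has the same owners), `pvhp_adj` (`DelAdj`), `pvhp_V` (`pvhjV`)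
* sec. 2  `pvhp_edge`, **`pvhp_join`** (a `Join` of `delbPl Y₀` inside `closedBall c (rM - 3ρ)` is a `Join` of `delbPl Y`)
* sec. 3  **`pvhp_arm`** : `PvhjArm Y ..` ⟹ `PvhjArm Y₀ ..`, THE SAME `GN GC Sg ⊆ closedBall c (rM - ρ)`
* sec. 4  **`pvhp_foot_out`**, **`pvhp_foot_in`** : half state at `(Y₀, σ₀)` + `PvhjEnd Y₀` + arms AT `Y` + a dart of `delbPl Y` with the two positions of the tip dart + the same colours in `B(c, rs + 4ρ)`  ⟹  `PvhjFootP (delbPl Y) σ κ K (dart) GN`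
-/

set_option autoImplicit false
set_option linter.unusedSectionVars false
set_option linter.unusedVariables false

namespace Claimed.Agent.R289

open Relation Set Metric Claims.C0465

/-! ## 1. two site sets which agree in a ball -/

/-- the two site sets have the same sites in `closedBall c rM`; `Y₀` has mesh `ρ` in `closedBall c (rM - ρ)` -/
structure PvhpSame (Y₀ Y : Set ℂ) (c : ℂ) (rM ρ : ℝ) : Prop where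
  eq : Y ∩ closedBall c rM = Y₀ ∩ closedBall c rM
  dense : VorDense Y₀ (closedBall c (rM - ρ)) ρ

section cell

variable {Y₀ Y : Set ℂ} {c : ℂ} {rM ρ : ℝ}

theorem pvhp_tri (a b c : ℂ) : ‖a - c‖ ≤ ‖a - b‖ + ‖b - c‖ := by
  calc ‖a - c‖ = ‖(a - b) + (b - c)‖ := by congr 1; ring
    _ ≤ _ := norm_add_le _ _

theorem PvhpSame.symm (S : PvhpSame Y₀ Y c rM ρ) : PvhpSame Y Y₀ c rM ρ where
  eq := S.eq.symm
  dense := fun w hw => by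
    obtain ⟨u, hu, h1⟩ := S.dense w hw
    rw [mem_closedBall, dist_eq_norm] at hw
    refine ⟨u, (S.eq.symm.subset ⟨hu, ?_⟩).1, h1⟩
    rw [mem_closedBall, dist_eq_norm]
    have := pvhp_tri u w c
    rw [norm_sub_rev u w] at this
    linarith

/-- **a point of `closedBall c (rM - ρ)` has the same owners in the two site sets**, at distance `≤ ρ` -/
theorem pvhp_cell (S : PvhpSame Y₀ Y c rM ρ) {w v : ℂ} (hw : ‖w - c‖ ≤ rM - ρ) (hv : v ∈ Y₀) (hc : w ∈ vorCell Y₀ v) : v ∈ Y ∧ w ∈ vorCell Y v ∧ ‖w - v‖ ≤ ρ := by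
  obtain ⟨u, hu, h1⟩ := S.dense w (by rw [mem_closedBall, dist_eq_norm]; exact hw)
  have h2 : ‖w - v‖ ≤ ρ := (hc u hu).trans h1
  have h3 : ‖v - c‖ ≤ rM := by
    have := pvhp_tri v w c
    rw [norm_sub_rev v w] at this
    linarith
  refine ⟨(S.eq.symm.subset ⟨hv, by rw [mem_closedBall, dist_eq_norm]; exact h3⟩).1, fun u' hu' => ?_, h2⟩
  by_cases h4 : ‖u' - c‖ ≤ rM
  · exact hc u' (S.eq.subset ⟨hu', by rw [mem_closedBall, dist_eq_norm]; exact h4⟩).1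
  · have := pvhp_tri u' w c
    rw [norm_sub_rev u' w] at this
    linarith

/-- Delaunay neighbours -/
theorem pvhp_adj (S : PvhpSame Y₀ Y c rM ρ) (hρ : 0 < ρ) {a b : ℂ} (ha : ‖a - c‖ ≤ rM - 3 * ρ) (h : DelAdj Y₀ a b) : DelAdj Y a b := by
  obtain ⟨ha0, hb0, hne, w, hwa, hwb⟩ := h
  have hd : VorDense Y₀ (closedBall a (2 * ρ)) ρ := S.dense.mono Subset.rfl (fun x hx => by
    rw [mem_closedBall, dist_eq_norm] at hx ⊢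
    have := pvhp_tri x a c
    linarith) le_rfl
  have h1 := vor_cell_subset_ball hρ.le (by linarith) hd hwa
  rw [mem_closedBall, dist_eq_norm] at h1
  have hw : ‖w - c‖ ≤ rM - ρ := by
    have := pvhp_tri w a c
    linarith
  obtain ⟨a1, a2, -⟩ := pvhp_cell S hw ha0 hwa
  obtain ⟨b1, b2, -⟩ := pvhp_cell S hw hb0 hwb
  exact ⟨a1, b1, hne, w, a2, b2⟩

/-- the sites of copy colour `β` whose cell meets `G` -/
theorem pvhp_V (S : PvhpSame Y₀ Y c rM ρ) {κ : ℂ → Bool} {β : Bool} {G : Set ℂ} (hG : G ⊆ closedBall c (rM - ρ)) {x : Y₀} (hx : x ∈ pvhjV Y₀ κ β G) :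
    ∃ hxY : (x : ℂ) ∈ Y, (⟨x, hxY⟩ : Y) ∈ pvhjV Y κ β G := by
  obtain ⟨h1, w, hw, hwG⟩ := hx
  have h2 := hG hwG
  rw [mem_closedBall, dist_eq_norm] at h2
  obtain ⟨a1, a2, -⟩ := pvhp_cell S h2 x.2 hw
  exact ⟨a1, h1, w, a2, hwG⟩

end cell

/-! ## 2. joins -/

section join

variable {Y₀ Y : Set ℂ} {c : ℂ} {rM ρ : ℝ}

/-- the edges of the total plane map are the Delaunay adjacencies -/
theorem pvhp_edge (h : DelGood Y) (a b : Y) : (delbPl Y).toMap.EdgeIn univ a b ↔ DelAdj Y a b := by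
  constructor
  · rintro ⟨d, -, rfl, rfl⟩
    exact d.2.2
  · intro hab
    exact ⟨⟨(a, b), h, hab⟩, Or.inl (mem_univ _), rfl, rfl⟩

/-- **a join of the base plane inside `closedBall c (rM - 3ρ)` is a join of the final plane** -/
theorem pvhp_join (h₀ : DelGood Y₀) (h : DelGood Y) (S : PvhpSame Y₀ Y c rM ρ) (hρ : 0 < ρ) {X₀ : Set Y₀} {X : Set Y}
    (hX : ∀ v : Y₀, v ∈ X₀ → ‖(v : ℂ) - c‖ ≤ rM - 3 * ρ ∧ ∃ hv : (v : ℂ) ∈ Y, (⟨v, hv⟩ : Y) ∈ X) {a b : Y₀} (hj : (delbPl Y₀).toMap.Join univ X₀ a b) :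
    ∃ (ha : (a : ℂ) ∈ Y) (hb : (b : ℂ) ∈ Y), (delbPl Y).toMap.Join univ X ⟨a, ha⟩ ⟨b, hb⟩ := by
  obtain ⟨ha, hch⟩ := hj
  obtain ⟨-, haY, haX⟩ := hX a ha
  refine ⟨haY, ?_⟩
  have key : ∀ v : Y₀, ReflTransGen (fun u v => (delbPl Y₀).toMap.EdgeIn univ u v ∧ v ∈ X₀) a v → v ∈ X₀ ∧
      ∃ hv : (v : ℂ) ∈ Y, ReflTransGen (fun u v => (delbPl Y).toMap.EdgeIn univ u v ∧ v ∈ X) (⟨a, haY⟩ : Y) ⟨v, hv⟩ := by
    intro v hv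
    induction hv with
    | refl => exact ⟨ha, haY, ReflTransGen.refl⟩
    | @tail u v _ huv ih =>
      obtain ⟨huX, huY, hu⟩ := ih
      obtain ⟨-, hvY, hvX⟩ := hX v huv.2
      refine ⟨huv.2, hvY, hu.tail ⟨(pvhp_edge h _ _).2 ?_, hvX⟩⟩
      exact pvhp_adj S hρ (hX u huX).1 ((pvhp_edge h₀ u v).1 huv.1)
  obtain ⟨-, hbY, hb⟩ := key b hch
  exact ⟨hbY, haX, hb⟩

end join

/-! ## 3. the arms -/

section arm

variable {Y₀ Y : Set ℂ} {c' : ℂ} {rM ρ : ℝ} {κ : ℂ → Bool} {β : Bool} {ζ : ℂ} {xB yL yU μ : ℝ} {c : ℂ} {rs : ℝ} {up : Bool} {GN GC Sg : Set ℂ}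

/-- **an arm at the final sites is an arm at the base sites**: the same three sets -/
theorem pvhp_arm (S : PvhpSame Y₀ Y c' rM ρ) (A : PvhjArm Y κ β ζ xB yL yU μ c rs up GN GC Sg) (hreg : GN ∪ GC ∪ Sg ⊆ closedBall c' (rM - ρ)) :
    PvhjArm Y₀ κ β ζ xB yL yU μ c rs up GN GC Sg := by
  have tr : ∀ (X : Set ℂ), X ⊆ GN ∪ GC ∪ Sg → ∀ v : Y₀, (vorCell Y₀ v ∩ X).Nonempty → ∃ hv : (v : ℂ) ∈ Y, (vorCell Y ((⟨v, hv⟩ : Y) : ℂ) ∩ X).Nonempty := by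
    rintro X hX v ⟨w, hw, hwX⟩
    have h2 := hreg (hX hwX)
    rw [mem_closedBall, dist_eq_norm] at h2
    obtain ⟨a1, a2, -⟩ := pvhp_cell S h2 v.2 hw
    exact ⟨a1, w, a2, hwX⟩
  have sN : GN ⊆ GN ∪ GC ∪ Sg := fun _ h => Or.inl (Or.inl h)
  have sC : GC ⊆ GN ∪ GC ∪ Sg := fun _ h => Or.inl (Or.inr h)
  have sS : Sg ⊆ GN ∪ GC ∪ Sg := fun _ h => Or.inr h
  refine ⟨A.cN, A.cC, A.cS, A.nc, ?_, ?_, ?_, ?_, ?_, ?_, A.sc0, A.sn0⟩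
  · intro w hw
    obtain ⟨v, ⟨hv, hk⟩, hc⟩ := A.cov hw
    have h2 := hreg (Or.inl hw)
    rw [mem_closedBall, dist_eq_norm] at h2
    obtain ⟨a1, a2, -⟩ := pvhp_cell S.symm h2 hv hc
    exact ⟨v, ⟨a1, hk⟩, a2⟩
  · intro v hv
    obtain ⟨h1, h2⟩ := tr _ Subset.rfl v hv
    exact A.near ⟨v, h1⟩ h2
  · intro v hv
    obtain ⟨h1, h2⟩ := tr _ sS v hv
    exact A.sOut ⟨v, h1⟩ h2
  · intro v hv
    obtain ⟨h1, h2⟩ := tr _ sN v hv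
    exact A.nSide ⟨v, h1⟩ h2
  · intro v hv
    obtain ⟨h1, h2⟩ := tr _ sC v hv
    exact A.cOff ⟨v, h1⟩ h2
  · intro v hv hv'
    obtain ⟨h1, h2⟩ := tr _ sS v hv
    obtain ⟨_, h3⟩ := tr _ sC v hv'
    exact A.sc ⟨v, h1⟩ h2 h3

end arm

/-! ## 4. the feet -/

section foot

variable {Y₀ Y : Set ℂ} {N : PvwNum} {hh : ℝ} {z : ℂ} {τ : PvwTy} {K : Set Y} {r r₁ ρ rs rt rM : ℝ} {ζ : ℂ} {σ₀ : Y₀ → Bool} {σ : Y → Bool} {κ : ℂ → Bool} {GN GC Sg : Bool → Set ℂ}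
  {𝔖₀ : PvwSt (delbPl Y₀).toMap}

/-- the carrying step, common to the two tips -/
theorem pvhp_foot_carry (h₀ : DelGood Y₀) (h : DelGood Y) {c : ℂ} (S : PvhpSame Y₀ Y c rM ρ) (hρ : 0 < ρ) (hrM : rs + 7 * ρ ≤ rM) (hreg : ∀ β, GN β ⊆ closedBall c (rM - ρ))
    (hσ : ∀ (v : Y₀) (hv : (v : ℂ) ∈ Y), ‖(v : ℂ) - c‖ < rs + 4 * ρ → σ ⟨v, hv⟩ = σ₀ v) (hK : ∀ v : Y, ‖(v : ℂ) - c‖ < rs + 4 * ρ → v ∈ K)
    {a₀ : (delbPl Y₀).Dart} {a : (delbPl Y).Dart} (hs : (((delbPl Y).toMap.src a : Y) : ℂ) = ((delbPl Y₀).toMap.src a₀ : Y₀)) (ht : (((delbPl Y).toMap.tgt a : Y) : ℂ) = ((delbPl Y₀).toMap.tgt a₀ : Y₀))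
    (J : PvhjFootP (delbPl Y₀) σ₀ κ {v : Y₀ | ‖(v : ℂ) - c‖ < rs + 4 * ρ} a₀ GN) : PvhjFootP (delbPl Y) σ κ K a GN := by
  intro β
  obtain ⟨x0, hx0, hj⟩ := J β
  obtain ⟨hxY, hxV⟩ := pvhp_V S (hreg β) hx0
  obtain ⟨ha, hb, hj'⟩ := pvhp_join h₀ h S hρ (X := pvldCol σ K β) (fun v hv => by
    have h1 : ‖(v : ℂ) - c‖ < rs + 4 * ρ := hv.1
    have h2 : (v : ℂ) ∈ Y := (S.eq.symm.subset ⟨v.2, by rw [mem_closedBall, dist_eq_norm]; linarith⟩).1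
    exact ⟨by linarith, h2, hK ⟨v, h2⟩ h1, (hσ v h2 h1).trans hv.2⟩) hj
  refine ⟨⟨x0, hxY⟩, hxV, ?_⟩
  have e : (⟨(pvhiEnd (delbPl Y₀).toMap β a₀ : Y₀), ha⟩ : Y) = pvhiEnd (delbPl Y).toMap β a := by
    apply Subtype.ext
    unfold pvhiEnd
    by_cases hβ : β = true
    · simp only [if_pos hβ]; exact hs.symm
    · simp only [if_neg hβ]; exact ht.symm
  rw [e] at hj'
  exact hj'

/-- **THE FOOT AT THE TIP OF AN EXIT STUB, AT A FINAL SITE SET** -/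
theorem pvhp_foot_out (h₀ : DelGood Y₀) (h : DelGood Y) (hY : Y ∩ closedBall (τ.cp hh z) rM = Y₀ ∩ closedBall (τ.cp hh z) rM)
    (ha : 𝔖₀.AtOut (dlsPos Y₀) N hh z τ σ₀) (E : PvhjEnd Y₀ N hh τ (τ.cp hh z) {v : Y₀ | ‖(v : ℂ) - τ.cp hh z‖ < rs + 4 * ρ} r r₁ ρ rs)
    (ht1 : ‖((delbPl Y₀).toMap.src (𝔖₀.ep 𝔖₀.np) : ℂ) - τ.cp hh z‖ + 2 * ρ ≤ rt) (ht2 : ‖((delbPl Y₀).toMap.tgt (𝔖₀.ep 𝔖₀.np) : ℂ) - τ.cp hh z‖ + 2 * ρ ≤ rt)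
    (hζ : ζ ∈ pvtzdDir) (hout : pvwRad N hh τ τ.k + (ζ * z).re < (ζ * (𝔖₀.ap : ℂ)).re)
    (A : ∀ β, PvhjArm Y κ β ζ (pvwRad N hh τ τ.k + (ζ * z).re) ((ζ * τ.cp hh z).im - rt) ((ζ * τ.cp hh z).im + rt) (2 * ρ) (τ.cp hh z) rs β (GN β) (GC β) (Sg β))
    (hreg : ∀ β, GN β ∪ GC β ∪ Sg β ⊆ closedBall (τ.cp hh z) (rM - ρ))
    (hκ : ∀ v : Y₀, ‖(v : ℂ) - τ.cp hh z‖ ≤ rs → v ∉ 𝔖₀.bkP ∪ 𝔖₀.whP → σ₀ v = κ v)
    (hrM : rs + 7 * ρ ≤ rM) (hrM' : rM ≤ r + 4 * ρ)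
    (hσ : ∀ (v : Y₀) (hv : (v : ℂ) ∈ Y), ‖(v : ℂ) - τ.cp hh z‖ < rs + 4 * ρ → σ ⟨v, hv⟩ = σ₀ v) (hK : ∀ v : Y, ‖(v : ℂ) - τ.cp hh z‖ < rs + 4 * ρ → v ∈ K)
    {a : (delbPl Y).Dart} (hs : (((delbPl Y).toMap.src a : Y) : ℂ) = ((delbPl Y₀).toMap.src (𝔖₀.ep 𝔖₀.np) : Y₀)) (ht : (((delbPl Y).toMap.tgt a : Y) : ℂ) = ((delbPl Y₀).toMap.tgt (𝔖₀.ep 𝔖₀.np) : Y₀)) :
    PvhjFootP (delbPl Y) σ κ K a GN := by
  have S : PvhpSame Y₀ Y (τ.cp hh z) rM ρ := ⟨hY, E.mesh.mono Subset.rfl (closedBall_subset_closedBall (by linarith)) le_rfl⟩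
  exact pvhp_foot_carry h₀ h S E.rho hrM (fun β => (subset_union_left.trans subset_union_left).trans (hreg β)) hσ hK hs ht
    (pvhj_foot_out_pl (delb_pl_eq h₀) ha E ht1 ht2 hζ hout (fun β => pvhp_arm S (A β) (hreg β)) hκ)

/-- **THE FOOT AT THE TIP OF AN ENTRANCE STUB, AT A FINAL SITE SET** -/
theorem pvhp_foot_in (h₀ : DelGood Y₀) (h : DelGood Y) (hY : Y ∩ closedBall (τ.cm hh z) rM = Y₀ ∩ closedBall (τ.cm hh z) rM)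
    (ha : 𝔖₀.AtIn (dlsPos Y₀) N hh z τ σ₀) (E : PvhjEnd Y₀ N hh τ (τ.cm hh z) {v : Y₀ | ‖(v : ℂ) - τ.cm hh z‖ < rs + 4 * ρ} r r₁ ρ rs)
    (ht1 : ‖((delbPl Y₀).toMap.src (𝔖₀.em 𝔖₀.nm) : ℂ) - τ.cm hh z‖ + 2 * ρ ≤ rt) (ht2 : ‖((delbPl Y₀).toMap.tgt (𝔖₀.em 𝔖₀.nm) : ℂ) - τ.cm hh z‖ + 2 * ρ ≤ rt)
    (hζ : ζ ∈ pvtzdDir) (hout : pvwRad N hh τ τ.k + (ζ * z).re < (ζ * (𝔖₀.am : ℂ)).re)
    (A : ∀ β, PvhjArm Y κ β ζ (pvwRad N hh τ τ.k + (ζ * z).re) ((ζ * τ.cm hh z).im - rt) ((ζ * τ.cm hh z).im + rt) (2 * ρ) (τ.cm hh z) rs (!β) (GN β) (GC β) (Sg β))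
    (hreg : ∀ β, GN β ∪ GC β ∪ Sg β ⊆ closedBall (τ.cm hh z) (rM - ρ))
    (hκ : ∀ v : Y₀, ‖(v : ℂ) - τ.cm hh z‖ ≤ rs → v ∉ 𝔖₀.bkM ∪ 𝔖₀.whM → σ₀ v = κ v)
    (hrM : rs + 7 * ρ ≤ rM) (hrM' : rM ≤ r + 4 * ρ)
    (hσ : ∀ (v : Y₀) (hv : (v : ℂ) ∈ Y), ‖(v : ℂ) - τ.cm hh z‖ < rs + 4 * ρ → σ ⟨v, hv⟩ = σ₀ v) (hK : ∀ v : Y, ‖(v : ℂ) - τ.cm hh z‖ < rs + 4 * ρ → v ∈ K)
    {a : (delbPl Y).Dart} (hs : (((delbPl Y).toMap.src a : Y) : ℂ) = ((delbPl Y₀).toMap.src (𝔖₀.em 𝔖₀.nm) : Y₀)) (ht : (((delbPl Y).toMap.tgt a : Y) : ℂ) = ((delbPl Y₀).toMap.tgt (𝔖₀.em 𝔖₀.nm) : Y₀)) :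
    PvhjFootP (delbPl Y) σ κ K a GN := by
  have S : PvhpSame Y₀ Y (τ.cm hh z) rM ρ := ⟨hY, E.mesh.mono Subset.rfl (closedBall_subset_closedBall (by linarith)) le_rfl⟩
  exact pvhp_foot_carry h₀ h S E.rho hrM (fun β => (subset_union_left.trans subset_union_left).trans (hreg β)) hσ hK hs ht
    (pvhj_foot_in_pl (delb_pl_eq h₀) ha E ht1 ht2 hζ hout (fun β => pvhp_arm S (A β) (hreg β)) hκ)

end foot

end Claimed.Agent.R289
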