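-- KEEP
import Claimed.Agent.R289.Tr.HookO
import Claimed.Agent.R289.Tr.GoodD
import Claimed.Agent.R289.Tr.FrcCarF
import Claimed.Agent.R289.Tr.HookLA
import Claimed.Agent.R289.Tr.HookCol
import Claimed.Agent.R289.Tr.HookYT
import Claimed.Agent.R289.Tr.HookYL
import Claimed.Agent.R289.Tr.DoorSoft

/-!
# Row 289 (S0537), THE WALL, ROAD E, E10 (b3) DET, file Tr/HookOE : `PvjeDet.ev` OF THE FIRST LINK `t → door`, THE ASSEMBLY      (helper199, post T16 of 24; prefix `pvhp_`, `Pvhp`)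

GENERIC IN `𝔓 𝔈 w T m ε z t`.   0 sorry.      CONSUMER: `exit_pvj0_ev` (`Exit/FrcO`, 35).
**`pvhp_ev_o X H HT ..`** : `∀ η, PvjeFin (pvjeO 𝔓 𝔈 w m ε z t) T η₀ η → η ∈ pvilMo 𝔓 𝔈 m ε z t (pvilZo 𝔓 m z t η₀)`   from
  `H : X.Ok 𝔓 𝔈 m ε z t` (DETERMINISTIC record: numbers, regions, routes; no configuration, no test),   `HT : X.OkT 𝔓 m z t T` (the pattern contains the routes of the two relative colours; the side event is the placed `S⁻` of 174),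
  three mesh certificates of the base (own-level box, mouth, big mouth), `η₀ ∈ pvilUo`, and (b6) the mesh of the window at the final configurations (206 `Exit/MeshW`, 256 `Tr/MeshCv`).
**`pvhp_link_o`** : the same for one final configuration: the plain link `Lo.A` and the hull.
TWO TRAPS AVOIDED: (T1) no `hout` (a tip cell may sit at a corner of the own-level box): forms of 23 (`Tr/HookYD YL YT`);   (T2) `σ = κ` on the room of a half lane BEYOND THE CUT only: `Pvge4DoorReg` of 298 (`Tr/GoodD`).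
* sec. 1  `pvhp_owner_near`, `pvhp_arm_reg` (the regions of an arm lie in `closedBall c (rs + 2ρ)`)      * sec. 2  `pvhp_foot_out_any` (`pvhp_foot_out` for any arms, no `hreg`)
* sec. 3  `pvhp_flink_o` (foot form + cut door, side form)      * sec. 4  **`pvhp_flink_oD`** (foot form + cut door, ALL tip cells)
* sec. 5  `pvhp_K_of_ball`, `pvhp_owner` (sites of the link region `pvgeKV Y (room)ᶜ` from the mesh of the window)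
* sec. 6  `pvhp_edge_len`, `pvhp_endD_out`, **`pvhp_foot_oD`** (= `pvhc_foot_o` of 235 at all tip cells)
* sec. 7  `PvhpDat`, `pvhpW`, `pvhpFr`, **`PvhpDat.Ok`**, **`PvhpDat.OkT`**, `pvhp_feet_tube`, **`pvhp_link_o`**, **`pvhp_ev_o`**
TOOLS: 71 297 (carry), 235 (colour lines), 23 (tip, run), 228 (routes, OUT), 298 (cut door), 173 (door dictionary `pvyo_side`, `PvyoSd.door`), 112 (`pvha_A_pd`).
-/

set_option autoImplicit false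
set_option linter.unusedSectionVars false
set_option linter.unusedVariables false

namespace Claimed.Agent.R289

open Relation Set Metric Claims.C0465

/-! ## 1. the regions of an arm lie in the small mouth -/

section reg

variable {Y : Set ℂ} {c : ℂ} {rs ρ : ℝ}

/-- a point whose owner lies within `rs` of `c` lies within `rs + 2ρ` of `c` (mesh `ρ` on the sphere of radius `rs + 2ρ`) -/
theorem pvhp_owner_near (hρ : 0 < ρ) (hrs : 0 ≤ rs) (hd : VorDense Y (closedBall c (rs + 2 * ρ)) ρ) {x v : ℂ} (hx : x ∈ vorCell Y v) (hv : ‖v - c‖ ≤ rs) : ‖x - c‖ ≤ rs + 2 * ρ := by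
  by_contra hcon
  rw [not_le] at hcon
  have hn : 0 < ‖x - c‖ := by linarith
  set s : ℝ := (rs + 2 * ρ) / ‖x - c‖ with hs
  have hs0 : 0 ≤ s := div_nonneg (by linarith) hn.le
  have hs1 : s ≤ 1 := (div_le_one hn).2 hcon.le
  set p : ℂ := c + (s : ℂ) * (x - c) with hp
  have h1 : ‖p - c‖ = rs + 2 * ρ := by
    rw [hp, add_sub_cancel_left, norm_mul, Complex.norm_real, Real.norm_of_nonneg hs0, hs, div_mul_cancel₀ _ hn.ne']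
  have h2 : ‖x - p‖ = ‖x - c‖ - (rs + 2 * ρ) := by
    have e : x - p = ((1 - s : ℝ) : ℂ) * (x - c) := by rw [hp]; push_cast; ring
    rw [e, norm_mul, Complex.norm_real, Real.norm_of_nonneg (by linarith), sub_mul, one_mul, hs, div_mul_cancel₀ _ hn.ne']
  obtain ⟨u, hu, h3⟩ := hd p (by rw [mem_closedBall, dist_eq_norm, h1])
  have h4 := hx u hu
  have h5 := pvhp_tri x p u
  have h6 := pvhp_tri x v c
  linarith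

/-- **the regions of an arm lie in `closedBall c (rs + 2ρ)`** -/
theorem pvhp_arm_reg (lf : VorLF Y) (hρ : 0 < ρ) (hrs : 0 ≤ rs) (hd : VorDense Y (closedBall c (rs + 2 * ρ)) ρ) {κ : ℂ → Bool} {β up : Bool} {ζ : ℂ} {xB yL yU μ : ℝ} {GN GC Sg : Set ℂ}
    (A : PvhjArm Y κ β ζ xB yL yU μ c rs up GN GC Sg) : GN ∪ GC ∪ Sg ⊆ closedBall c (rs + 2 * ρ) := by
  intro x hx
  have hne : Y.Nonempty := by
    obtain ⟨u, hu, -⟩ := hd c (mem_closedBall_self (by linarith))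
    exact ⟨u, hu⟩
  obtain ⟨v, hv, hxv⟩ := vor_cover lf hne x
  rw [mem_closedBall, dist_eq_norm]
  exact pvhp_owner_near hρ hrs hd hxv (A.near ⟨v, hv⟩ ⟨x, hxv, hx⟩)

end reg

/-! ## 2. the tip foot at a final site set, FOR ANY ARMS -/

section foot

variable {Y₀ Y : Set ℂ} {N : PvwNum} {hh : ℝ} {z : ℂ} {τ : PvwTy} {r r₁ ρ rs rt rM : ℝ} {ζ : ℂ} {κ : ℂ → Bool} {Sg : Bool → Set ℂ}
  {𝔖₀ : PvwSt (delbPl Y₀).toMap} {σ₀ : Y₀ → Bool} {σ : Y → Bool} {K : Set Y}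

/-- **THE FOOT AT THE TIP OF AN EXIT STUB, AT A FINAL SITE SET, ANY ARMS** (= the hypothesis `foot` of `pvhr_flink_o` of 228, of `pvhp_flink_o` below) -/
theorem pvhp_foot_out_any (h₀ : DelGood Y₀) (h : DelGood Y) (hY : Y ∩ closedBall (τ.cp hh z) rM = Y₀ ∩ closedBall (τ.cp hh z) rM)
    (ha : 𝔖₀.AtOut (dlsPos Y₀) N hh z τ σ₀) (E : PvhjEnd Y₀ N hh τ (τ.cp hh z) {v : Y₀ | ‖(v : ℂ) - τ.cp hh z‖ < rs + 4 * ρ} r r₁ ρ rs) (hrs : 0 ≤ rs)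
    (ht1 : ‖((delbPl Y₀).toMap.src (𝔖₀.ep 𝔖₀.np) : ℂ) - τ.cp hh z‖ + 2 * ρ ≤ rt) (ht2 : ‖((delbPl Y₀).toMap.tgt (𝔖₀.ep 𝔖₀.np) : ℂ) - τ.cp hh z‖ + 2 * ρ ≤ rt)
    (hζ : ζ ∈ pvtzdDir) (hout : pvwRad N hh τ τ.k + (ζ * z).re < (ζ * (𝔖₀.ap : ℂ)).re)
    (hκ : ∀ v : Y₀, ‖(v : ℂ) - τ.cp hh z‖ ≤ rs → v ∉ 𝔖₀.bkP ∪ 𝔖₀.whP → σ₀ v = κ v)
    (hrM : rs + 7 * ρ ≤ rM) (hrM' : rM ≤ r + 4 * ρ)
    (hσ : ∀ (v : Y₀) (hv : (v : ℂ) ∈ Y), ‖(v : ℂ) - τ.cp hh z‖ < rs + 4 * ρ → σ ⟨v, hv⟩ = σ₀ v) (hK : ∀ v : Y, ‖(v : ℂ) - τ.cp hh z‖ < rs + 4 * ρ → v ∈ K)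
    {a : (delbPl Y).Dart} (hs : (((delbPl Y).toMap.src a : Y) : ℂ) = ((delbPl Y₀).toMap.src (𝔖₀.ep 𝔖₀.np) : Y₀)) (ht : (((delbPl Y).toMap.tgt a : Y) : ℂ) = ((delbPl Y₀).toMap.tgt (𝔖₀.ep 𝔖₀.np) : Y₀))
    (GN GC : Bool → Set ℂ)
    (A : ∀ β, PvhjArm Y κ β ζ (pvwRad N hh τ τ.k + (ζ * z).re) ((ζ * τ.cp hh z).im - rt) ((ζ * τ.cp hh z).im + rt) (2 * ρ) (τ.cp hh z) rs β (GN β) (GC β) (Sg β)) :
    PvhjFootP (delbPl Y) σ κ K a GN := by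
  have S : PvhpSame Y₀ Y (τ.cp hh z) rM ρ := ⟨hY, E.mesh.mono Subset.rfl (closedBall_subset_closedBall (by linarith)) le_rfl⟩
  have hρ := E.rho
  have hd : VorDense Y (closedBall (τ.cp hh z) (rs + 2 * ρ)) ρ := S.symm.dense.mono Subset.rfl (closedBall_subset_closedBall (by linarith)) le_rfl
  exact pvhp_foot_out h₀ h hY ha E ht1 ht2 hζ hout A (fun β => (pvhp_arm_reg h.lf hρ hrs hd (A β)).trans (closedBall_subset_closedBall (by linarith))) hκ hrM hrM' hσ hK hs ht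

end foot

/-! ## 3. foot form of the first link with the CUT door record of 298 -/

section flink

variable {Y : Set ℂ} {h : DelGood Y} {P : PlTri ↥Y} {K : Set Y} {ζ : ℂ} {σ : Y → Bool} {κ : ℂ → Bool} {Sg : Bool → Set ℂ} {xB yL yU μ rs : ℝ} {c : ℂ} {up : Bool → Bool}
  {δ ρl : ℝ} {eC eN eD : Bool → Set ℂ × ℂ × ℂ} {t : Bool → List (Set ℂ × ℂ × ℂ)} {jN jS : Bool → ℕ} {ζd : ℂ} {ρd : ℝ} {xc xa xb y0 y1 : Bool → ℝ} {Rm : Bool → Set ℂ}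

/-- **HOOK-DET, FIRST LINK, FOOT FORM, CUT DOOR** (`pvhr_flink_o` of 228 × `pvge4_slot_rt` of 298): `σ = κ` on the room of a half lane is asked BEYOND the abscissa `xc` only -/
theorem pvhp_flink_o (hP : P = delPl h) {a₀ : P.Dart} (h0 : pvasBW P.toMap σ a₀)
    (foot : ∀ GN GC : Bool → Set ℂ, (∀ β, PvhjArm Y κ β ζ xB yL yU μ c rs (up β) (GN β) (GC β) (Sg β)) → PvhjFootP P σ κ K a₀ GN)
    (hK : K.Finite) (hco : ∀ u v, u ∉ K → v ∉ K → P.toMap.Join univ Kᶜ u v) (g : P.toMap.Gate σ) (hne : P.toMap.src a₀ ≠ g.vm)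
    (hO : ∃ f, P.toMap.src f ∉ K ∧ P.toMap.DJoin (pvldBar P.toMap σ K a₀ g.aIn) (P.toMap.opp a₀) f)
    (hδ : 0 < δ) (hr : ∀ β, PvkqRoute δ (eC β :: eN β :: t β)) (hev : ∀ β, cfOf Y κ ∈ pvkqRtEv δ β (eC β :: eN β :: t β))
    (R : ∀ β, PvhzArmReg ζ xB yL yU μ c rs ρl (up β) (eN β).1 (eC β).1 (Sg β))
    (hρl : δ / 16 ≤ ρl) (hdS : ∀ β, VorDense Y (Sg β) ρl) (hjN : ∀ β, jN β < 4) (hjS : ∀ β, jS β < 4)
    (hSN : ∀ β, pvhzSd δ (pvkqCell δ (eN β).2.2) (jN β) ⊆ Sg β) (hSS : ∀ β, pvhzSd δ (pvkqCell δ (eC β).2.1) (jS β) ⊆ Sg β)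
    (mid : ∀ β, ∀ v : Y, (vorCell Y v ∩ pvkqRtR (eN β :: t β)).Nonempty → v ∈ K ∧ σ v = κ v)
    (hD : ∀ β, eD β ∈ eN β :: t β) (hζd : ‖ζd‖ = 1) (D : ∀ β, Pvge4DoorReg ζd δ ρd (xc β) (xa β) (xb β) (y0 β) (y1 β) (Rm β) (eD β))
    (hH : ∀ β, ∃ v : Y, xb β ≤ (ζd * (v : ℂ)).re ∧ P.toMap.Join univ (pvldCol σ {u : Y | (u : ℂ) ∈ Rm β} β) (pvhiEnd P.toMap β g.aIn) v)
    (hfoot : ∀ β, (ζd * ((pvhiEnd P.toMap β g.aIn : Y) : ℂ)).re ≤ xc β)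
    (hRm : ∀ β, ∀ u : Y, (u : ℂ) ∈ Rm β → u ∈ K ∧ vorCell Y u ⊆ closedBall (u : ℂ) ρd)
    (hRκ : ∀ β, ∀ u : Y, (u : ℂ) ∈ Rm β → xc β < (ζd * (u : ℂ)).re → σ u = κ u) :
    PvldRun P.toMap σ K a₀ g.aIn := by
  subst hP
  have T := fun β => pvhr_tip_rt h.lf κ hδ (hr β) (hev β) (R β) hρl (hdS β) (hjN β) (hjS β) (hSN β) (hSS β)
  choose GN GC G hA hsub hconn hcov hreg hleg using T
  have J₁ : PvhjFoot h σ κ K g.aIn G := by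
    intro β
    obtain ⟨xe, hxe, hG⟩ := hleg β (eD β) (hD β)
    obtain ⟨v, hv, hj⟩ := hH β
    obtain ⟨x0, hx0, j0⟩ := pvge4_slot_rt h hj hζd (hRκ β) (fun u hu => (hRm β u hu).2) ((hr β).1 _ (List.mem_cons_of_mem _ (hD β))) (D β) (hfoot β) hv hxe
    have hs : pvldCol σ {u : Y | (u : ℂ) ∈ Rm β} β ⊆ pvldCol σ K β := fun u hu => ⟨(hRm β u hu.1).1, hu.2⟩
    exact ⟨x0, pvhj_V_mono κ β hG hx0, pl_hx_join_mono Subset.rfl hs j0⟩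
  exact pvhj_run_foot h hK h0 (pvtg_aIn_bw g) hne hco hO (foot GN GC hA) J₁
    ⟨hconn, hcov, fun β v hv => mid β v (hv.mono (inter_subset_inter_right _ (hreg β)))⟩ hsub fun _ => Subset.rfl

end flink

/-! ## 4. the same at ALL TIP CELLS (corners included): the forms of 23 -/

section flinkD

variable {Y : Set ℂ} {h : DelGood Y} {P : PlTri ↥Y} {K : Set Y} {ζ : ℂ} {σ : Y → Bool} {κ : ℂ → Bool} {Sg : Bool → Set ℂ} {rt ρ rs e₀ : ℝ} {c : ℂ} {up : Bool → Bool}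
  {δ ρl : ℝ} {eC eN eD : Bool → Set ℂ × ℂ × ℂ} {t : Bool → List (Set ℂ × ℂ × ℂ)} {jN jS : Bool → ℕ} {ζd : ℂ} {ρd : ℝ} {xc xa xb y0 y1 : Bool → ℝ} {Rm : Bool → Set ℂ}

/-- **HOOK-DET, FIRST LINK, FOOT FORM, CUT DOOR, PRESCRIBED SIDE** (no `hout`): `pvhj_tip_rtD` of 23 × `pvge4_slot_rt` of 298 × `pvhj_run_foot` of 23 -/
theorem pvhp_flink_oD (hP : P = delPl h) {a₀ : P.Dart} (h0 : pvasBW P.toMap σ a₀)
    (foot : ∀ GN GC : Bool → Set ℂ, (∀ β, PvhjArmT Y κ β ζ c rt ρ rs (up β) (GN β) (GC β) (Sg β)) → PvhjFootP P σ κ K a₀ GN)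
    (hK : K.Finite) (hco : ∀ u v, u ∉ K → v ∉ K → P.toMap.Join univ Kᶜ u v) (g : P.toMap.Gate σ) (hne : P.toMap.src a₀ ≠ g.vm)
    (hO : ∃ f, P.toMap.src f ∉ K ∧ P.toMap.DJoin (pvldBar P.toMap σ K a₀ g.aIn) (P.toMap.opp a₀) f)
    (hδ : 0 < δ) (hr : ∀ β, PvkqRoute δ (eC β :: eN β :: t β)) (hev : ∀ β, cfOf Y κ ∈ pvkqRtEv δ β (eC β :: eN β :: t β)) (hρ0 : 0 ≤ ρ) (he : rt + 2 * ρ < e₀)
    (R₁ : ∀ β, PvhzArmReg ζ ((ζ * c).re - e₀) ((ζ * c).im - rt) ((ζ * c).im + rt) (2 * ρ) c rs ρl (up β) (eN β).1 (eC β).1 (Sg β))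
    (R₂ : ∀ β, PvhzArmReg ζ ((ζ * c).re + e₀) ((ζ * c).im - rt) ((ζ * c).im + rt) (2 * ρ) c rs ρl (up β) (eN β).1 (eC β).1 (Sg β))
    (hρl : δ / 16 ≤ ρl) (hdS : ∀ β, VorDense Y (Sg β) ρl) (hjN : ∀ β, jN β < 4) (hjS : ∀ β, jS β < 4)
    (hSN : ∀ β, pvhzSd δ (pvkqCell δ (eN β).2.2) (jN β) ⊆ Sg β) (hSS : ∀ β, pvhzSd δ (pvkqCell δ (eC β).2.1) (jS β) ⊆ Sg β)
    (mid : ∀ β, ∀ v : Y, (vorCell Y v ∩ pvkqRtR (eN β :: t β)).Nonempty → v ∈ K ∧ σ v = κ v)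
    (hD : ∀ β, eD β ∈ eN β :: t β) (hζd : ‖ζd‖ = 1) (D : ∀ β, Pvge4DoorReg ζd δ ρd (xc β) (xa β) (xb β) (y0 β) (y1 β) (Rm β) (eD β))
    (hH : ∀ β, ∃ v : Y, xb β ≤ (ζd * (v : ℂ)).re ∧ P.toMap.Join univ (pvldCol σ {u : Y | (u : ℂ) ∈ Rm β} β) (pvhiEnd P.toMap β g.aIn) v)
    (hfoot : ∀ β, (ζd * ((pvhiEnd P.toMap β g.aIn : Y) : ℂ)).re ≤ xc β)
    (hRm : ∀ β, ∀ u : Y, (u : ℂ) ∈ Rm β → u ∈ K ∧ vorCell Y u ⊆ closedBall (u : ℂ) ρd)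
    (hRκ : ∀ β, ∀ u : Y, (u : ℂ) ∈ Rm β → xc β < (ζd * (u : ℂ)).re → σ u = κ u) :
    PvldRun P.toMap σ K a₀ g.aIn := by
  subst hP
  have T := fun β => pvhj_tip_rtD h.lf κ hδ (hr β) (hev β) hρ0 he (R₁ β) (R₂ β) hρl (hdS β) (hjN β) (hjS β) (hSN β) (hSS β)
  choose GN GC G hA hsub hconn hcov hreg hleg using T
  have J₁ : PvhjFoot h σ κ K g.aIn G := by
    intro β
    obtain ⟨xe, hxe, hG⟩ := hleg β (eD β) (hD β)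
    obtain ⟨v, hv, hj⟩ := hH β
    obtain ⟨x0, hx0, j0⟩ := pvge4_slot_rt h hj hζd (hRκ β) (fun u hu => (hRm β u hu).2) ((hr β).1 _ (List.mem_cons_of_mem _ (hD β))) (D β) (hfoot β) hv hxe
    have hs : pvldCol σ {u : Y | (u : ℂ) ∈ Rm β} β ⊆ pvldCol σ K β := fun u hu => ⟨(hRm β u hu.1).1, hu.2⟩
    exact ⟨x0, pvhj_V_mono κ β hG hx0, pl_hx_join_mono Subset.rfl hs j0⟩
  exact pvhj_run_foot h hK h0 (pvtg_aIn_bw g) hne hco hO (foot GN GC hA) J₁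
    ⟨hconn, hcov, fun β v hv => mid β v (hv.mono (inter_subset_inter_right _ (hreg β)))⟩ hsub fun _ => Subset.rfl

end flinkD

/-! ## 5. sites of the link region from the mesh of the window -/

section kv

variable {Y W Yr : Set ℂ} {μ : ℝ}

theorem pvhp_ball_ball {a b : ℂ} {r s : ℝ} (h : ‖a - b‖ ≤ s) : closedBall a r ⊆ closedBall b (r + s) := by
  intro x hx
  rw [mem_closedBall, dist_eq_norm] at hx ⊢
  have := pvhp_tri x a b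
  linarith

/-- a site with a collar `3μ` in the window and `μ` in the room: small cell, site of the link region -/
theorem pvhp_K_of_ball (hμ : 0 < μ) (hms : PvtrMesh μ W Y) {v : Y} (h1 : closedBall (v : ℂ) (3 * μ) ⊆ W) (h2 : closedBall (v : ℂ) μ ⊆ Yr) :
    v ∈ pvgeKV Y Yrᶜ ∧ vorCell Y v ⊆ closedBall (v : ℂ) μ := by
  have hd : VorDense Y (closedBall (v : ℂ) (2 * μ)) μ := fun w hw => hms w (by
    rw [mem_closedBall, dist_eq_norm] at hw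
    exact (pvhp_ball_ball hw).trans ((closedBall_subset_closedBall (by linarith)).trans h1))
  have hc := vor_cell_subset_ball hμ.le (by linarith) hd
  exact ⟨pvhg_KV_iff.2 (hc.trans h2), hc⟩

/-- the owner of a point with a collar `μ` in the window lies within `μ` -/
theorem pvhp_owner (hms : PvtrMesh μ W Y) {v x : ℂ} (hx : x ∈ vorCell Y v) (h1 : closedBall x μ ⊆ W) : ‖v - x‖ ≤ μ := by
  obtain ⟨u, hu, h⟩ := hms x h1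
  rw [norm_sub_rev]
  exact (hx u hu).trans h

end kv

/-! ## 6. the tip of the first link at the model, ALL TIP CELLS -/

section tip

variable {Y : Set ℂ}

/-- a Delaunay edge at a site with mesh `ρ` around it has length `≤ 2ρ` -/
theorem pvhp_edge_len {a b : ℂ} {ρ : ℝ} (hρ : 0 < ρ) (hd : VorDense Y (closedBall a (2 * ρ)) ρ) (h : DelAdj Y a b) : ‖b - a‖ ≤ 2 * ρ := by
  obtain ⟨ha, hb, hne, w, hwa, hwb⟩ := h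
  have h1 := vor_cell_subset_ball hρ.le (by linarith) hd hwa
  rw [mem_closedBall, dist_eq_norm] at h1
  have h2 : ‖w - b‖ ≤ ‖w - a‖ := hwb a ha
  have h3 := pvhp_tri b w a
  rw [norm_sub_rev b w] at h3
  linarith

variable {Y₀ : Set ℂ} {h₀ : DelGood Y₀} {P₀ : PlTri ↥Y₀} {𝔖₀ : PvwSt P₀.toMap} {N : PvwNum} {hh : ℝ} {z : ℂ} {τ : PvwTy} {K₀ : Set Y₀} {r r₁ ρ rs rt : ℝ} {ζ : ℂ} {σ₀ : Y₀ → Bool}

/-- `pvhj_endD_out` of 23, any presentation -/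
theorem pvhp_endD_out (hP₀ : P₀ = delPl h₀) (ha : 𝔖₀.AtOut (dlsPos Y₀) N hh z τ σ₀) (E : PvhjEnd Y₀ N hh τ (τ.cp hh z) K₀ r r₁ ρ rs) (ht1 : ‖(P₀.toMap.src (𝔖₀.ep 𝔖₀.np) : ℂ) - τ.cp hh z‖ + 2 * ρ ≤ rt)
    (hrt : 2 * rt + 5 * ρ ≤ r₁) (hbig : rt ≤ pvwRad N hh τ τ.k) (hζ : ζ ∈ pvtzdDir) (hdom : ∀ ζ' ∈ pvtzdDir, (ζ' * (τ.cp hh z - z)).re ≤ (ζ * (τ.cp hh z - z)).re) :
    PvhjEndD Y₀ N hh τ z (τ.cp hh z) K₀ r r₁ ρ rs rt ζ := by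
  subst hP₀
  exact pvhj_endD_out ha E ht1 hrt hbig hζ hdom

end tip

section model

variable {τ : Type} {c : ℝ} {𝔓 : PvxPar τ c} {𝔈 : PvieEng τ} {w : ∀ η : Conf PvPt, (delbPl (pvieY η)).Dart → ℂ} {m : ℕ} {ε : ℝ} {z : ℂ} {t : τ} {η₀ η : Conf PvPt} {T : PvjeTest}
  {μ μ' r r₁ ρ rs rt : ℝ} {ζ : ℂ} {K₀ : Set (pvieY η₀)}

/-- **THE FIRST LINK `t → door` AT A FINAL CONFIGURATION, THE END `t`, ONE STOP, ALL TIP CELLS** = `pvhc_foot_o` of 235 over `pvhj_foot_outU_pl` of 23: no `hout`, arms `PvhjArmT` -/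
theorem pvhp_foot_oD (hμ : 0 < μ) (h3 : 3 * μ ≤ pvlmDel c m) (hb : (𝔓.ty t).b * pvlmH m ≤ pviwRad 𝔓 m t) (hr : μ < (𝔓.ty t).b * pvlmH m)
    (hK : Disjoint (𝔈.oK m t) (pviwBox 𝔓 m t)) (hD : Disjoint (pviwDo 𝔓 𝔈 m ε t) (pviwBox 𝔓 m t))
    (hm : η₀ ∈ pvrgMesh μ (pvieSh z (pviwBox 𝔓 m t))) {𝔖₀ : PvwSt (pvieT η₀)} (h₀ : PvilOut 𝔓.num (𝔓.col t) (pvilPin 𝔓 m z t) η₀ 𝔖₀) (hF : PvjeFin (pvjeO 𝔓 𝔈 w m ε z t) T η₀ η)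
    (hMK : Disjoint (pvjeO 𝔓 𝔈 w m ε z t).M (pvjeO 𝔓 𝔈 w m ε z t).K) (hMD : Disjoint (pvjeO 𝔓 𝔈 w m ε z t).M (pvjeO 𝔓 𝔈 w m ε z t).D)
    (hμ' : 0 < μ') (hmM : η₀ ∈ pvrgMesh μ' (pvieSh z (𝔈.oM m t)))
    (E : PvhjEndD (pvieY η₀) 𝔓.num (pvlmH m) (𝔓.ty t) z ((𝔓.ty t).cp (pvlmH m) z) K₀ r r₁ ρ rs rt ζ)
    (ht1 : ‖((pvieT η₀).src (𝔖₀.ep 𝔖₀.np) : ℂ) - (𝔓.ty t).cp (pvlmH m) z‖ + 2 * ρ ≤ rt) (ht2 : ‖((pvieT η₀).tgt (𝔖₀.ep 𝔖₀.np) : ℂ) - (𝔓.ty t).cp (pvlmH m) z‖ + 2 * ρ ≤ rt)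
    (hU : closedBall ((𝔓.ty t).cp (pvlmH m) z) (rs + 4 * ρ + 3 * μ') ⊆ pvieSh z (𝔈.oM m t)) :
    ∃ 𝔖 : PvwSt (pvieT η), PvLocSP (pvfc7R η₀ η (pvtrCore (3 * μ) (pvfc7Wo 𝔓 m z t η₀))) 𝔖₀ 𝔖 ∧ PvilOut 𝔓.num (𝔓.col t) (pvilPin 𝔓 m z t) η 𝔖 ∧
      pvilFo 𝔓 m z t η = pvilFo 𝔓 m z t η₀ ∧ pvilZo 𝔓 m z t η = pvilZo 𝔓 m z t η₀ ∧
      ∃ κ : ℂ → Bool, cfOf (cfSites η) κ ∈ T.𝒦 ∧
        (∀ v' : pvieY η, (v' : ℂ) ∈ pvieSh z (𝔈.oM m t) ∪ pvieSh z (𝔈.oK m t) → (v' : ℂ) ∉ pvwSq z (pviwRad 𝔓 m t) → pvieCol η (𝔓.col t) v' = pvhcK κ (𝔓.col t) v') ∧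
        ∀ (K : Set (pvieY η)) (GN GC Sg : Bool → Set ℂ),
          (∀ β, PvhjArmT (pvieY η) (pvhcK κ (𝔓.col t)) β ζ ((𝔓.ty t).cp (pvlmH m) z) rt ρ rs β (GN β) (GC β) (Sg β)) →
          (∀ v : pvieY η, ‖(v : ℂ) - (𝔓.ty t).cp (pvlmH m) z‖ < rs + 4 * ρ → v ∈ K) →
          PvhjFootP (delbPl (pvieY η)) (pvieCol η (𝔓.col t)) (pvhcK κ (𝔓.col t)) K (𝔖.ep 𝔖.np) GN := by
  obtain ⟨𝔖, G, hO, eF, eZ⟩ := pvfc7_fin_o hμ h3 hb hr hK hD hm h₀ hF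
  have hFW : pvilFo 𝔓 m z t η₀ ⊆ pvfc7Wo 𝔓 m z t η₀ := (pvfc7_fo_core hb h₀).trans (pvfc7_core_sub (pvlm_Del_pos c m).le _)
  have hC := pvfc7_C_o (w := w) (z := z) (η₀ := η₀) hK hD
  have hKp : (pvjeO 𝔓 𝔈 w m ε z t).Fz η₀ ⊆ (pvjeO 𝔓 𝔈 w m ε z t).Kp ((pvjeO 𝔓 𝔈 w m ε z t).Hu η₀) := fun a ha =>
    ⟨Or.inl ((pvfc7_Wo_eq 𝔓 m z t η₀).subset (hFW ha)), fun h => disjoint_left.1 hC h (hFW ha)⟩
  obtain ⟨κ, k1, k2, k3, k4, k5⟩ := pvhc_lines_out hF (pvhc_pin_fr 𝔓 m z t) h₀ rfl hKp hb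
  refine ⟨𝔖, G, hO, eF, eZ, κ, k1, k5, fun K GN GC Sg A hKK => ?_⟩
  have st := pvhc_st_out h₀
  have hρ := E.e.rho
  exact pvhj_foot_outU_pl (delb_pl_eq h₀.good) (delb_pl_eq hF.nice.good) hμ' (pvhc_sites hF (pvhc_M_kept hMK hMD _)) hmM st E ht1 ht2 hU A
    (fun v v' e _ hv => k2 v v' e (pvwk_banksP_sub_fzOut 𝔖₀ hv))
    (fun v v' e hn hv => k3 v v' e (Or.inl (hU (by rw [mem_closedBall, dist_eq_norm]; linarith))) hv)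
    hKK (pvhc_tip_out G).1 (pvhc_tip_out G).2

end model

/-! ## 7. THE FIRST LINK AT A FINAL CONFIGURATION: data, contract, theorem -/

/-- **THE DATA OF DET FOR THE FIRST LINK** (numbers at the tip, routes of the two relative colours listed from the tip `C :: arm :: ..`, closing sets, door side in the picture turned by `ζd`, unit plug, truncation, scale) -/
structure PvhpDat where
  r : ℝ
  r₁ : ℝ
  /-- mesh of the base certificates -/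
  ρ : ℝ
  rs : ℝ
  rt : ℝ
  e₀ : ℝ
  /-- mesh of the window at the final configuration -/
  μw : ℝ
  ζ : ℂ
  dl : ℝ
  ρl : ℝ
  eC : Bool → Set ℂ × ℂ × ℂ
  eN : Bool → Set ℂ × ℂ × ℂ
  eD : Bool → Set ℂ × ℂ × ℂ
  tl : Bool → List (Set ℂ × ℂ × ℂ)
  Sg : Bool → Set ℂ
  jN : Bool → ℕ
  jS : Bool → ℕ
  ζd : ℂ
  xc : Bool → ℝ
  xa : Bool → ℝ
  xb : Bool → ℝ
  y0 : Bool → ℝ
  y1 : Bool → ℝ
  𝔭 : PvkdPlug
  𝔱 : PvhfTr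
  s : ℝ

section rec

variable {τ : Type} {c : ℝ} (𝔓 : PvxPar τ c) (𝔈 : PvieEng τ)

/-- mouth `∪` tile `∪` door: the part of the window of the first link which does not depend on the hull -/
def pvhpW (m : ℕ) (ε : ℝ) (z : ℂ) (t : τ) : Set ℂ := pvieSh z (𝔈.oM m t) ∪ pvieSh z (𝔈.oK m t) ∪ pvieDoor 𝔈 m ε (pvieZo 𝔓 m z t) ((𝔓.Γ m).dout t)

/-- the FRESH region: mouth `∪` tile, off the own-level box -/
def pvhpFr (m : ℕ) (z : ℂ) (t : τ) : Set ℂ := (pvieSh z (𝔈.oM m t) ∪ pvieSh z (𝔈.oK m t)) \ pvwSq z (pviwRad 𝔓 m t)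

theorem pvhp_eqns_cite : True := by
  have := @pvhpW.eq_1; have := @pvhpFr.eq_1
  trivial

/-- **THE CONTRACT, DETERMINISTIC** (no configuration, no test): numbers, regions, routes -/
structure PvhpDat.Ok (X : PvhpDat) (m : ℕ) (ε : ℝ) (z : ℂ) (t : τ) : Prop where
  /-- (b1) the carry of 71 -/
  ρ0 : 0 < X.ρ
  h3 : 3 * X.ρ ≤ pvlmDel c m
  hb : (𝔓.ty t).b * pvlmH m ≤ pviwRad 𝔓 m t
  hr : X.ρ < (𝔓.ty t).b * pvlmH m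
  hK : Disjoint (𝔈.oK m t) (pviwBox 𝔓 m t)
  hD : Disjoint (pviwDo 𝔓 𝔈 m ε t) (pviwBox 𝔓 m t)
  MK : Disjoint (pvieSh z (𝔈.oM m t)) (pvieSh z (𝔈.oK m t))
  MD : Disjoint (pvieSh z (𝔈.oM m t)) (pvieDoor 𝔈 m ε (pvieZo 𝔓 m z t) ((𝔓.Γ m).dout t))
  /-- the numbers at the tip -/
  num : PvhgEndNum 𝔓.num (pvlmH m) (𝔓.ty t) X.r X.r₁ X.ρ X.rs
  rt1 : 2 * X.rt + 5 * X.ρ ≤ X.r₁
  big : X.rt ≤ pviwRad 𝔓 m t
  dir : X.ζ ∈ pvtzdDir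
  dom : ∀ ζ' ∈ pvtzdDir, (ζ' * ((𝔓.ty t).cp (pvlmH m) z - z)).re ≤ (X.ζ * ((𝔓.ty t).cp (pvlmH m) z - z)).re
  /-- the tip cell -/
  tip : ∀ p ∈ (pvilPin 𝔓 m z t).cp, ‖p - (𝔓.ty t).cp (pvlmH m) z‖ + 4 * X.ρ ≤ X.rt
  /-- the small mouth with its collars -/
  μw0 : 0 < X.μw
  mouth : closedBall ((𝔓.ty t).cp (pvlmH m) z) (X.rs + 4 * X.ρ + 3 * X.ρ) ⊆ pvieSh z (𝔈.oM m t)
  mouthW : closedBall ((𝔓.ty t).cp (pvlmH m) z) (X.rs + 4 * X.ρ + 3 * X.μw) ⊆ pvhpW 𝔓 𝔈 m ε z t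
  mouthY : closedBall ((𝔓.ty t).cp (pvlmH m) z) (X.rs + 4 * X.ρ + X.μw) ⊆ pvieSh z (𝔈.oY m t)
  /-- the room -/
  bd : Bornology.IsBounded (pvieSh z (𝔈.oY m t))
  co : IsPreconnected (pvieSh z (𝔈.oY m t))ᶜ
  core : ∀ x ∈ pvieSh z (𝔈.oY m t), (𝔓.ty t).b * pvlmH m ≤ ‖x - z‖
  /-- the routes -/
  dl0 : 0 < X.dl
  route : ∀ β, PvkqRoute X.dl (X.eC β :: X.eN β :: X.tl β)
  he : X.rt + 2 * X.ρ < X.e₀
  R₁ : ∀ β, PvhzArmReg X.ζ ((X.ζ * (𝔓.ty t).cp (pvlmH m) z).re - X.e₀) ((X.ζ * (𝔓.ty t).cp (pvlmH m) z).im - X.rt) ((X.ζ * (𝔓.ty t).cp (pvlmH m) z).im + X.rt) (2 * X.ρ) ((𝔓.ty t).cp (pvlmH m) z) X.rs X.ρl β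
    (X.eN β).1 (X.eC β).1 (X.Sg β)
  R₂ : ∀ β, PvhzArmReg X.ζ ((X.ζ * (𝔓.ty t).cp (pvlmH m) z).re + X.e₀) ((X.ζ * (𝔓.ty t).cp (pvlmH m) z).im - X.rt) ((X.ζ * (𝔓.ty t).cp (pvlmH m) z).im + X.rt) (2 * X.ρ) ((𝔓.ty t).cp (pvlmH m) z) X.rs X.ρl β
    (X.eN β).1 (X.eC β).1 (X.Sg β)
  ρl : X.dl / 16 ≤ X.ρl
  μl : X.μw ≤ X.ρl
  jN : ∀ β, X.jN β < 4
  jS : ∀ β, X.jS β < 4
  SN : ∀ β, pvhzSd X.dl (pvkqCell X.dl (X.eN β).2.2) (X.jN β) ⊆ X.Sg β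
  SS : ∀ β, pvhzSd X.dl (pvkqCell X.dl (X.eC β).2.1) (X.jS β) ⊆ X.Sg β
  /-- collars: closing sets, lanes -/
  SgW : ∀ β, ∀ x ∈ X.Sg β, closedBall x X.μw ⊆ pvhpW 𝔓 𝔈 m ε z t
  rtW : ∀ β, ∀ x ∈ pvkqRtR (X.eN β :: X.tl β), closedBall x (4 * X.μw) ⊆ pvhpW 𝔓 𝔈 m ε z t
  rtY : ∀ β, ∀ x ∈ pvkqRtR (X.eN β :: X.tl β), closedBall x (2 * X.μw) ⊆ pvieSh z (𝔈.oY m t)
  rtF : ∀ β, ∀ x ∈ pvkqRtR (X.eN β :: X.tl β), closedBall x X.μw ⊆ pvhpFr 𝔓 𝔈 m z t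
  /-- the door side -/
  d1 : ‖(𝔓.Γ m).dout t‖ = 1
  s0 : 0 < X.s
  sc : X.𝔭.sc X.s = pvkdP (pvilRd 𝔓 m)
  geo : PvhfGeo X.𝔭 X.𝔱
  eD : ∀ β, X.eD β ∈ X.eN β :: X.tl β
  ζd : ‖X.ζd‖ = 1
  door : ∀ β, Pvge4DoorReg X.ζd X.dl X.μw (X.xc β) (X.xa β) (X.xb β) (X.y0 β) (X.y1 β) (pvkdAt (pvieZo 𝔓 m z t) ((𝔓.Γ m).dout t * X.s) (X.𝔱.Ln false β)) (X.eD β)
  /-- the targets of the truncated half lanes lie beyond the bars -/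
  tgt : ∀ β, ∀ x ∈ pvkdAt (pvieZo 𝔓 m z t) ((𝔓.Γ m).dout t * X.s) (X.𝔱.Dr false β), X.xb β ≤ (X.ζd * x).re
  /-- the tube of the gate lies before the cut, off the own-level box -/
  tube : ∀ β, ∀ x ∈ pvkdAt (pvieZo 𝔓 m z t) ((𝔓.Γ m).dout t) (X.𝔭.sc X.s).Tb, (X.ζd * x).re ≤ X.xc β
  tubeB : ∀ x ∈ pvkdAt (pvieZo 𝔓 m z t) ((𝔓.Γ m).dout t) (X.𝔭.sc X.s).Tb, x ∉ pvwSq z (pviwRad 𝔓 m t)
  /-- collars of the rooms of the half lanes; beyond the cut they are fresh -/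
  rmW : ∀ β, ∀ x ∈ pvkdAt (pvieZo 𝔓 m z t) ((𝔓.Γ m).dout t * X.s) (X.𝔱.Ln false β), closedBall x (3 * X.μw) ⊆ pvhpW 𝔓 𝔈 m ε z t
  rmY : ∀ β, ∀ x ∈ pvkdAt (pvieZo 𝔓 m z t) ((𝔓.Γ m).dout t * X.s) (X.𝔱.Ln false β), closedBall x X.μw ⊆ pvieSh z (𝔈.oY m t)
  rmF : ∀ β, ∀ x ∈ pvkdAt (pvieZo 𝔓 m z t) ((𝔓.Γ m).dout t * X.s) (X.𝔱.Ln false β), X.xc β < (X.ζd * x).re → x ∈ pvhpFr 𝔓 𝔈 m z t

/-- **THE CONTRACT ON THE TESTS, DET SIDE**: the copy pattern contains the routes of the two RELATIVE colours, the side event is the placed entrance side event of 174 -/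
structure PvhpDat.OkT (X : PvhpDat) (m : ℕ) (z : ℂ) (t : τ) (T : PvjeTest) : Prop where
  pat : ∀ (Y : Set ℂ) (κ : ℂ → Bool), cfOf Y κ ∈ T.𝒦 → ∀ β, cfOf Y (pvhcK κ (𝔓.col t)) ∈ pvkqRtEv X.dl β (X.eC β :: X.eN β :: X.tl β)
  side : T.ℋ ⊆ pvdpPl (pvieZo 𝔓 m z t) ((𝔓.Γ m).dout t * X.s) (𝔓.col t) (pvhfS X.𝔭 X.𝔱 false)

end rec

section main

variable {τ : Type} {c : ℝ} {𝔓 : PvxPar τ c} {𝔈 : PvieEng τ} {w : ∀ η : Conf PvPt, (delbPl (pvieY η)).Dart → ℂ} {m : ℕ} {ε : ℝ} {z : ℂ} {t : τ} {η₀ η : Conf PvPt} {T : PvjeTest}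

theorem pvhp_W_sub (𝔓 : PvxPar τ c) (𝔈 : PvieEng τ) (m : ℕ) (ε : ℝ) (z : ℂ) (t : τ) (Z : Set (ℤ × ℤ)) : pvhpW 𝔓 𝔈 m ε z t ⊆ pvilWno 𝔓 𝔈 m ε z t Z := by
  rintro x ((h | h) | h)
  · exact Or.inl (Or.inl (Or.inr h))
  · exact Or.inl (Or.inr h)
  · exact Or.inr h

/-- the two feet of the entrance gate edge of a gate of record lie in the tube -/
theorem pvhp_feet_tube {V D κ' : Type} {T : PvMap V D} {mk : V → κ'} {s : V → Bool} {p : PvzlPg κ'} {g : T.Gate s} (h : PvzlGt T mk s p g) : mk (T.src g.aIn) ∈ p.KT ∧ mk (T.tgt g.aIn) ∈ p.KT := by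
  obtain ⟨N, hN⟩ := h.thru
  have hs := hN.2.2.2.2
  rw [pvas_fc_verts s g.aIn hN.1] at hs
  exact ⟨hs (Or.inl ⟨0, Nat.zero_le _, rfl⟩), hs (Or.inr ⟨0, Nat.zero_le _, rfl⟩)⟩

/-- **`PvjeDet.ev` OF THE FIRST LINK, THE LINK AND THE HULL**: at every final configuration over a base with the exit half state and the three mesh certificates, given the mesh of the window at the final configuration ((b6): 206 256) -/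
theorem pvhp_link_o (X : PvhpDat) (H : X.Ok 𝔓 𝔈 m ε z t) (HT : X.OkT 𝔓 m z t T)
    (hm : η₀ ∈ pvrgMesh X.ρ (pvieSh z (pviwBox 𝔓 m t))) (hmM : η₀ ∈ pvrgMesh X.ρ (pvieSh z (𝔈.oM m t)))
    (hmB : VorDense (pvieY η₀) (closedBall ((𝔓.ty t).cp (pvlmH m) z) (X.r + 3 * X.ρ)) X.ρ)
    {𝔖₀ : PvwSt (pvieT η₀)} (h₀ : PvilOut 𝔓.num (𝔓.col t) (pvilPin 𝔓 m z t) η₀ 𝔖₀) (hF : PvjeFin (pvjeO 𝔓 𝔈 w m ε z t) T η₀ η)
    (hms : PvtrMesh X.μw (pvilWno 𝔓 𝔈 m ε z t (pvilZo 𝔓 m z t η₀)) (cfSites η)) :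
    η ∈ (pvilLo 𝔓 𝔈 m z t).A 𝔓.num (𝔓.col t) ∧ pvilZo 𝔓 m z t η = pvilZo 𝔓 m z t η₀ := by
  have hρ := H.ρ0
  have hμw := H.μw0
  have n := H.num
  have st := pvhc_st_out h₀
  -- the tip of the base
  have E0 : PvhjEnd (pvieY η₀) 𝔓.num (pvlmH m) (𝔓.ty t) ((𝔓.ty t).cp (pvlmH m) z) {v : pvieY η₀ | ‖(v : ℂ) - (𝔓.ty t).cp (pvlmH m) z‖ < X.rs + 4 * X.ρ} X.r X.r₁ X.ρ X.rs :=
    ⟨n.rho, n.r2, n.r1, n.rr, hmB, n.far, n.rs0, n.rs1, n.rs2, fun v hv => hv⟩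
  have t0 : ‖((pvieT η₀).src (𝔖₀.ep 𝔖₀.np) : ℂ) - (𝔓.ty t).cp (pvlmH m) z‖ + 4 * X.ρ ≤ X.rt := H.tip _ h₀.tip
  have ht1 : ‖((pvieT η₀).src (𝔖₀.ep 𝔖₀.np) : ℂ) - (𝔓.ty t).cp (pvlmH m) z‖ + 2 * X.ρ ≤ X.rt := by linarith
  have ht2 : ‖((pvieT η₀).tgt (𝔖₀.ep 𝔖₀.np) : ℂ) - (𝔓.ty t).cp (pvlmH m) z‖ + 2 * X.ρ ≤ X.rt := by
    have hd : VorDense (pvieY η₀) (closedBall ((pvieT η₀).src (𝔖₀.ep 𝔖₀.np) : ℂ) (2 * X.ρ)) X.ρ :=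
      hmB.mono Subset.rfl ((pvhp_ball_ball (le_refl _)).trans (closedBall_subset_closedBall (by linarith [H.rt1, n.rr, n.r1, n.rho0]))) le_rfl
    have h1 := pvhp_edge_len hρ hd (𝔖₀.ep 𝔖₀.np).2.2
    have h2 := pvhp_tri ((pvieT η₀).tgt (𝔖₀.ep 𝔖₀.np) : ℂ) ((pvieT η₀).src (𝔖₀.ep 𝔖₀.np) : ℂ) ((𝔓.ty t).cp (pvlmH m) z)
    have h1' : ‖((pvieT η₀).tgt (𝔖₀.ep 𝔖₀.np) : ℂ) - ((pvieT η₀).src (𝔖₀.ep 𝔖₀.np) : ℂ)‖ ≤ 2 * X.ρ := h1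
    linarith
  have E := pvhp_endD_out (delb_pl_eq h₀.good) st E0 ht1 H.rt1 H.big H.dir H.dom
  obtain ⟨𝔖, G, hO, -, eZ, κ, k1, k5, foot⟩ := pvhp_foot_oD (w := w) hρ H.h3 H.hb H.hr H.hK H.hD hm h₀ hF H.MK H.MD hρ hmM E ht1 ht2 H.mouth
  refine ⟨?_, eZ⟩
  have hgood := hF.nice.good
  have stη := pvhc_st_out hO
  have hW := pvhp_W_sub 𝔓 𝔈 m ε z t (pvilZo 𝔓 m z t η₀)
  -- the door
  obtain ⟨g, hsd⟩ := pvyo_side H.geo false H.d1 H.s0 hF.one hgood (HT.side hF.side)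
  have hd := hsd.door H.geo hF.nice
  rw [H.sc] at hd
  have hft := pvhp_feet_tube hsd.gate
  -- the link region
  obtain ⟨kf, kc⟩ := pvhj_K_pl (h := hgood) (delb_pl_eq hgood) H.co (by rw [compl_compl]; exact H.bd)
  have hKK : ∀ v : pvieY η, ‖(v : ℂ) - (𝔓.ty t).cp (pvlmH m) z‖ < X.rs + 4 * X.ρ → v ∈ pvgeKV (pvieY η) (pvieSh z (𝔈.oY m t))ᶜ := fun v hv =>
    (pvhp_K_of_ball hμw hms (((pvhp_ball_ball hv.le).trans (closedBall_subset_closedBall (by linarith))).trans (H.mouthW.trans hW))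
      (((pvhp_ball_ball hv.le).trans (closedBall_subset_closedBall (by linarith))).trans H.mouthY)).1
  have hgK : 𝔖.gp ∉ pvgeKV (pvieY η) (pvieSh z (𝔈.oY m t))ᶜ := fun hK =>
    absurd (pvhg_il_gp_disc (pvhg_il_fr_std _) hO) (not_lt.2 (H.core _ (pvhg_KV_over hK)))
  have hdis : g.vm ∉ 𝔖.bkP := fun hv => H.tubeB _ hft.1 (pvwk_banksP_in stη.stub (Or.inl hv))
  have hK0 : (pvieT η).src (𝔖.ep 𝔖.np) ∈ pvgeKV (pvieY η) (pvieSh z (𝔈.oY m t))ᶜ := hKK _ (by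
    have := stη.good.tip_p.1
    have e : dlsPos (pvieY η) ((pvieT η).src (𝔖.ep 𝔖.np)) = (((pvieT η).src (𝔖.ep 𝔖.np) : pvieY η) : ℂ) := rfl
    rw [e] at this
    linarith [n.rs0])
  have hrun : PvldRun (pvieT η) (pvieCol η (𝔓.col t)) (pvgeKV (pvieY η) (pvieSh z (𝔈.oY m t))ᶜ) (𝔖.ep 𝔖.np) g.aIn := by
    refine pvhp_flink_oD (h := hgood) (up := fun β => β) (delb_pl_eq hgood) (pvwk_ep_bw stη.stub stη.gate.bw_p le_rfl) (fun GN GC A => foot _ GN GC X.Sg A hKK) kf kc g (fun e => hdis ⟨𝔖.np, le_rfl, e⟩)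
      (pvhr_out_stub stη.stub stη.gate.bw_p hK0 hgK (pvtg_aIn_bw g) hdis) H.dl0 H.route (HT.pat _ κ k1) hρ.le H.he H.R₁ H.R₂ H.ρl
      (fun β => pvhz_dense_mono (fun x hx => hms x ((H.SgW β x hx).trans hW)) H.μl) H.jN H.jS H.SN H.SS ?_ H.eD H.ζd H.door ?_ ?_ ?_ ?_
    · -- the lanes
      rintro β v ⟨x, hxv, hx⟩
      have h1 : ‖(v : ℂ) - x‖ ≤ X.μw := pvhp_owner hms hxv (((closedBall_subset_closedBall (by linarith)).trans (H.rtW β x hx)).trans hW)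
      refine ⟨(pvhp_K_of_ball hμw hms (((pvhp_ball_ball h1).trans (closedBall_subset_closedBall (by linarith))).trans ((H.rtW β x hx).trans hW))
        (((pvhp_ball_ball h1).trans (closedBall_subset_closedBall (by linarith))).trans (H.rtY β x hx))).1, ?_⟩
      have h2 := H.rtF β x hx (by rw [mem_closedBall, dist_eq_norm]; exact h1)
      exact k5 v h2.1 h2.2
    · -- the half lanes
      intro β
      cases β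
      · obtain ⟨v, hv, hj⟩ := hsd.white
        exact ⟨v, H.tgt false _ hv, hj⟩
      · obtain ⟨v, hv, hj⟩ := hsd.black
        exact ⟨v, H.tgt true _ hv, hj⟩
    · intro β
      cases β
      · exact H.tube false _ hft.2
      · exact H.tube true _ hft.1
    · intro β u hu
      exact pvhp_K_of_ball hμw hms ((H.rmW β _ hu).trans hW) (H.rmY β _ hu)
    · intro β u hu hx
      have h2 := H.rmF β _ hu hx
      exact k5 u h2.1 h2.2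
  exact pvha_A_pd (L := pvilLo 𝔓 𝔈 m z t) rfl rfl hO hd hgK (fun v hv => pvhg_KV_over hv) hrun

/-- **`PvjeDet.ev` OF THE FIRST LINK** -/
theorem pvhp_ev_o (X : PvhpDat) (H : X.Ok 𝔓 𝔈 m ε z t) (HT : X.OkT 𝔓 m z t T) (hμ : X.μw = pvilMu 𝔓 m)
    (hm : η₀ ∈ pvrgMesh X.ρ (pvieSh z (pviwBox 𝔓 m t))) (hmM : η₀ ∈ pvrgMesh X.ρ (pvieSh z (𝔈.oM m t)))
    (hmB : VorDense (pvieY η₀) (closedBall ((𝔓.ty t).cp (pvlmH m) z) (X.r + 3 * X.ρ)) X.ρ)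
    (hU : η₀ ∈ pvilUo 𝔓.num (𝔓.col t) (pvilPin 𝔓 m z t))
    (hms : ∀ η, PvjeFin (pvjeO 𝔓 𝔈 w m ε z t) T η₀ η → η ∈ pvilMs 𝔓 m (pvilWno 𝔓 𝔈 m ε z t (pvilZo 𝔓 m z t η₀))) :
    ∀ η, PvjeFin (pvjeO 𝔓 𝔈 w m ε z t) T η₀ η → η ∈ pvilMo 𝔓 𝔈 m ε z t (pvilZo 𝔓 m z t η₀) := by
  intro η hF
  obtain ⟨𝔖₀, h₀⟩ := hU
  have h1 : PvtrMesh X.μw (pvilWno 𝔓 𝔈 m ε z t (pvilZo 𝔓 m z t η₀)) (cfSites η) := by rw [hμ]; exact hms η hF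
  obtain ⟨a, b⟩ := pvhp_link_o X H HT hm hmM hmB h₀ hF h1
  exact ⟨⟨a, b⟩, hms η hF⟩

end main

end Claimed.Agent.R289
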