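-- KEEP
import Claimed.Agent.R289.Exit.ParRec2
import Claimed.Agent.R289.Tr.FrcDetOY
import Claimed.Agent.R289.Tr.GoodH
import Claimed.Agent.R289.Tr.HookLA

/-!
# Row 289 (S0537), THE WALL, ROAD E, E10 (b3) DET, LINK o, file Tr/HookOL : THE REGIONS OF THE FIRST LINK `t → door plug` AT THE ROOM OF RECORD `pvegOYc`      (helper71; prefix `pvhw8_`; MIRROR of `Tr/HookIL`)

0 sorry.   MODEL LEVEL (`𝔓 : PvxPar τ c`, `PvegLev 𝔓 m`, `pviwTyOk 𝔓 t`, `10000 δ ≤ R`): NO LINE NAMES THE ENGINE.      CONSUMERS: every rope of `PvjeDet.ev` at `o` (199 `PvhpDat.Ok`: `SgW rtW rtY rtF rmW rmY rmF tube`; 266 / 44 `PvhoLayO`; 19 mirror of `PviyRoom`).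
NOTATION: `cc = z + pvegYp 𝔓 m t` (`= (𝔓.ty t).cp h z` by `rfl`: `pvhw8_cc`), `u = dout t`, `R = pvegR 𝔓 m`, `δ = pvlmDel c m`, `q = pvge3Q c m = δ/40`, `dl = pvge3Dl c m`, `Sp = pvegS Yp u pout`, `lam = pvge2Sg true * pvegL Yp u pout`, `zo = pvieZo 𝔓 m z t`,
`Yr = pvieSh z (pvegOYc 𝔓 m t)`, `Fr = (z + oM ∪ z + oK) \ pvilBx` (`oM = pvegOM`, `oK = pvegOKa 𝔓 O₀`, `O₀ m ⊆ pvccSq 0 (13 q / 4)`), lane `β` `= pvge4Lane cc u β R q Sp (pvge2Aa R β) (pvge2Lm lam β)`.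
* sec. 0  `pvhw8_nbd_of_core`, `pvhw8_disj_of_core`
* sec. 1  the frame: `pvhw8_S`, `pvhw8_T`, **`pvhw8_off_box`**, **`pvhw8_fr_of`** (a point of the funnel before the door region lies in `Fr`)
* sec. 2  lanes: `pvhw8_lane_pat`, **`pvhw8_lane_core`** (`⊆ pvtrCore σ Yr`, `σ ≤ δ/16`), **`pvhw8_lane_fr`** (`vorNbd lane σ ⊆ Fr`, `σ ≤ q/8`)      closing sets: **`pvhw8_Cl_core`** (`σ ≤ δ`)
* sec. 3  rooms of the ENTRANCE half lanes, ANY truncation with `Pvge5Side r₀ false Ln Dr` (298), scale `s`, `q = s r₀`: **`pvhw8_room_core`** (`σ ≤ δ/160`), **`pvhw8_room_fr`**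
* sec. 4  the door: **`pvhw8_front_off`**, `pvhw8_Zp_off` (`g⁺` side off `Yr`), **`pvhw8_door_far`** (within `δ/4` of the door: off `pvilBx`, off `pvhaBx`, farther than `R/4` from `cc`), `pvhw8_door_cm` (off the exit tip cell)
* sec. 5  `pvhw8_bdd`, `pvhw8_co`, `pvhw8_mouth`, **`pvhw8_win`** (`Yr ⊆ pvilWno`), `pvhw8_core_win`
* sec. 6  frozen positions: **`pvhw8_Fi_box`** (`pvilFo ⊆` closed own box), **`pvhw8_fresh`** (`Fr ⊆ K ∪ (M \ Fo)`)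
-/

set_option autoImplicit false
set_option linter.unusedSectionVars false
set_option linter.unusedVariables false

namespace Claimed.Agent.R289

open Set Metric Complex Claims.C0465

/-! ## 0. cores and neighbourhoods -/

theorem pvhw8_nbd_of_core {A S : Set ℂ} {σ : ℝ} (h : A ⊆ pvtrCore σ S) : vorNbd A σ ⊆ S := by
  rintro w ⟨x, hx, hw⟩
  exact h hx (by rw [mem_closedBall, dist_eq_norm]; exact hw)

theorem pvhw8_disj_of_core {A S : Set ℂ} {σ : ℝ} (h : A ⊆ pvtrCore σ S) : Disjoint (vorNbd A σ) Sᶜ :=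
  Set.disjoint_compl_right_iff_subset.2 (pvhw8_nbd_of_core h)

/-! ## 1. the frame -/

section frame

variable {τ : Type} {c : ℝ} {𝔓 : PvxPar τ c} {m : ℕ} {t : τ}

/-- the centre of the exit tip cell -/
theorem pvhw8_cc (𝔓 : PvxPar τ c) (m : ℕ) (t : τ) (z : ℂ) : (𝔓.ty t).cp (pvlmH m) z = z + pvegYp 𝔓 m t := rfl

theorem pvhw8_S (z Y u v : ℂ) : pvge2S (z + Y) u v = pvegS Y u (v - z) := by
  have := pvge3_S_sh z Y u (v - z)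
  rwa [add_sub_cancel] at this

theorem pvhw8_L (z Y u v : ℂ) : pvegL (z + Y) u v = pvegL Y u (v - z) := by
  have := pvge3_L_sh z Y u (v - z)
  rwa [add_sub_cancel] at this

theorem pvhw8_T (z Y u : ℂ) (up : Bool) (v : ℂ) : pvge2T (z + Y) u up v = pvge2Sg up * pvegL Y u (v - z) := by
  rw [pvge3_T, pvhw8_L]

theorem pvhw8_bx (𝔓 : PvxPar τ c) (m : ℕ) (z : ℂ) (t : τ) {v : ℂ} : v ∈ pvilBx 𝔓 m z t ↔ v - z ∈ pviwBox 𝔓 m t := by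
  unfold pvilBx pviwBox pviwRad pvwSq
  simp only [mem_ofPred_eq, sub_zero]

/-- **in front of the side of the box**: off the own-level box with its collar -/
theorem pvhw8_off_box (hL : PvegLev 𝔓 m) (hT : pviwTyOk 𝔓 t) {z v : ℂ} (h1 : pvegR 𝔓 m / 10 + 2 * pvlmDel c m ≤ pvegS (pvegYp 𝔓 m t) ((𝔓.Γ m).dout t) (v - z)) : v ∉ pvilBx 𝔓 m z t := by
  rw [pvhw8_bx]
  intro hb
  have H := pveg_door_o hL hT
  have h2 := pveg_sq_zero H.u4 hb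
  rw [pveg_S_zero (pvegYp 𝔓 m t)] at h2
  have := H.out
  have := H.δ0
  linarith

/-- **a placed point of the funnel before the door region lies in (mouth ∪ tile) minus the own-level box** -/
theorem pvhw8_fr_of (hL : PvegLev 𝔓 m) (hT : pviwTyOk 𝔓 t) {O₀ : ℕ → Set ℂ} {s : ℝ} (hO : O₀ m ⊆ pvccSq 0 s) (hs : pvegA c m ≤ s) {z v : ℂ}
    (h1 : pvegR 𝔓 m / 10 + 2 * pvlmDel c m ≤ pvegS (pvegYp 𝔓 m t) ((𝔓.Γ m).dout t) (v - z))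
    (h2 : pvegS (pvegYp 𝔓 m t) ((𝔓.Γ m).dout t) (v - z) ≤ pvegS (pvegYp 𝔓 m t) ((𝔓.Γ m).dout t) ((𝔓.Γ m).pout t) - s)
    (h3 : |pvegL (pvegYp 𝔓 m t) ((𝔓.Γ m).dout t) (v - z) - pvegL (pvegYp 𝔓 m t) ((𝔓.Γ m).dout t) ((𝔓.Γ m).pout t)| ≤ pvegR 𝔓 m / 5) :
    v ∈ (pvieSh z (pvegOM 𝔓 m t) ∪ pvieSh z (pvegOKa 𝔓 O₀ m t)) \ pvilBx 𝔓 m z t := by
  refine ⟨?_, pvhw8_off_box hL hT h1⟩
  by_cases hM : v - z ∈ pvegOM 𝔓 m t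
  · exact Or.inl (pvge3_mem_sh.2 hM)
  · refine Or.inr (pvge3_mem_sh.2 ⟨⟨⟨h1, by linarith, h3⟩, hM⟩, fun hd => ?_⟩)
    have := pvge3_O_front (Y := pvegYp 𝔓 m t) (Or.inl (pvge3_dd_o hL hT)) hO _ hd
    linarith

end frame

/-! ## 2. the lanes and the closing sets -/

section lane

variable {τ : Type} {c : ℝ} {𝔓 : PvxPar τ c} {m : ℕ} {t : τ}

/-- the lane of the relative colour `β` is a part of the pattern of record (any absolute colour `b`) -/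
theorem pvhw8_lane_pat (𝔓 : PvxPar τ c) (b β : Bool) (m : ℕ) (z : ℂ) (t : τ) :
    pvge4Lane (z + pvegYp 𝔓 m t) ((𝔓.Γ m).dout t) β (pvegR 𝔓 m) (pvge3Q c m) (pvegS (pvegYp 𝔓 m t) ((𝔓.Γ m).dout t) ((𝔓.Γ m).pout t)) (pvge2Aa (pvegR 𝔓 m) β)
      (pvge2Lm (pvge2Sg true * pvegL (pvegYp 𝔓 m t) ((𝔓.Γ m).dout t) ((𝔓.Γ m).pout t)) β) ⊆ pvkqPatR (pvge3PatOb 𝔓 b m z t) := by
  unfold pvge3PatOb pvge2PatRec
  rw [pvge2_pat_R, pvge2_Rt_R, pvge2_Rt_R]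
  cases β
  · simp only [pvge4Lane, pvge2Aa, pvge2Lm, Bool.false_eq_true, if_false]
    rintro v ((hv | hv) | hv)
    · exact Or.inr (Or.inl (Or.inl (Or.inr hv)))
    · exact Or.inr (Or.inl (Or.inr hv))
    · exact Or.inr (Or.inr hv)
  · simp only [pvge4Lane, pvge2Aa, pvge2Lm, if_true]
    rintro v ((hv | hv) | hv)
    · exact Or.inl (Or.inl (Or.inl (Or.inr hv)))
    · exact Or.inl (Or.inl (Or.inr hv))
    · exact Or.inl (Or.inr hv)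

/-- **(2) THE LANES LIE IN THE `σ`-CORE OF THE ROOM**, `σ ≤ δ/16` -/
theorem pvhw8_lane_core (hL : PvegLev 𝔓 m) (hT : pviwTyOk 𝔓 t) (hf : 10000 * pvlmDel c m ≤ pvegR 𝔓 m) {σ : ℝ} (hσ : σ ≤ pvlmDel c m / 16) (β : Bool) (z : ℂ) :
    pvge4Lane (z + pvegYp 𝔓 m t) ((𝔓.Γ m).dout t) β (pvegR 𝔓 m) (pvge3Q c m) (pvegS (pvegYp 𝔓 m t) ((𝔓.Γ m).dout t) ((𝔓.Γ m).pout t)) (pvge2Aa (pvegR 𝔓 m) β)
      (pvge2Lm (pvge2Sg true * pvegL (pvegYp 𝔓 m t) ((𝔓.Γ m).dout t) ((𝔓.Γ m).pout t)) β) ⊆ pvtrCore σ (pvieSh z (pvegOYc 𝔓 m t)) :=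
  (pvhw8_lane_pat 𝔓 true β m z t).trans (pvz7_pat_ob hL hT hf hσ true z)

/-- **(2) WHERE THE SITES OF THE LANES ARE**: within `σ ≤ q/8` of a lane: in (mouth ∪ tile) minus the own-level box, farther than `R/8` from the centre of the mouth, within `R/2` -/
theorem pvhw8_lane_fr (hL : PvegLev 𝔓 m) (hT : pviwTyOk 𝔓 t) (hf : 10000 * pvlmDel c m ≤ pvegR 𝔓 m) {O₀ : ℕ → Set ℂ} (hO : O₀ m ⊆ pvccSq 0 (13 * pvge3Q c m / 4)) {σ : ℝ} (hσ : σ ≤ pvge3Q c m / 8) (β : Bool) (z : ℂ) :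
    vorNbd (pvge4Lane (z + pvegYp 𝔓 m t) ((𝔓.Γ m).dout t) β (pvegR 𝔓 m) (pvge3Q c m) (pvegS (pvegYp 𝔓 m t) ((𝔓.Γ m).dout t) ((𝔓.Γ m).pout t)) (pvge2Aa (pvegR 𝔓 m) β)
      (pvge2Lm (pvge2Sg true * pvegL (pvegYp 𝔓 m t) ((𝔓.Γ m).dout t) ((𝔓.Γ m).pout t)) β)) σ ⊆
      ((pvieSh z (pvegOM 𝔓 m t) ∪ pvieSh z (pvegOKa 𝔓 O₀ m t)) \ pvilBx 𝔓 m z t) ∩ {v | pvegR 𝔓 m / 8 < ‖v - (z + pvegYp 𝔓 m t)‖ ∧ ‖v - (z + pvegYp 𝔓 m t)‖ ≤ pvegR 𝔓 m / 2} := by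
  rintro v ⟨w, hw, hv⟩
  have hδ := pvlm_Del_pos c m
  have R := pvge3_rec_o hL hT hf (ρ := 0) (b := 0) (μ := 0) le_rfl hδ.le (by norm_num) (by have := pveg_R_pos hL; linarith)
  have hw' : w ∈ pvge4Lane (z + pvegYp 𝔓 m t) ((𝔓.Γ m).dout t) (if β then true else !true) (pvegR 𝔓 m) (pvge3Q c m) (pvegS (pvegYp 𝔓 m t) ((𝔓.Γ m).dout t) ((𝔓.Γ m).pout t)) (pvge2Aa (pvegR 𝔓 m) β)
      (pvge2Lm (pvge2Sg true * pvegL (pvegYp 𝔓 m t) ((𝔓.Γ m).dout t) ((𝔓.Γ m).pout t)) β) := by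
    cases β <;> exact hw
  obtain ⟨a1, a2, a3, a4, a5⟩ := pvge4_lane_nbd (pvge3_u_o hL hT) R β hσ hw' hv
  rw [pvhw8_S] at a1 a3
  rw [pvhw8_T, ← mul_sub, abs_mul, pvge2_sg_abs, one_mul] at a4
  have hq : pvge3Q c m = pvlmDel c m / 40 := rfl
  exact ⟨pvhw8_fr_of hL hT hO (by unfold pvegA; rw [hq]; linarith) a1.le (by rw [hq] at a3 ⊢; linarith) a4, a2, a5⟩

/-- **(3) THE CLOSING SETS LIE IN THE `σ`-CORE OF THE ROOM**, `σ ≤ δ` (they lie in the small mouth `R/4` with their `σ`-neighbourhood) -/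
theorem pvhw8_Cl_core (hL : PvegLev 𝔓 m) (hT : pviwTyOk 𝔓 t) (hf : 10000 * pvlmDel c m ≤ pvegR 𝔓 m) {σ : ℝ} (h0 : 0 ≤ σ) (hσ : σ ≤ pvlmDel c m) (β : Bool) (z : ℂ) :
    pvge2Cl (z + pvegYp 𝔓 m t) ((𝔓.Γ m).dout t) β (pvge2Aa (pvegR 𝔓 m) β) (23 * pvegR 𝔓 m / 200) (3 * pvegR 𝔓 m / 20) (pvge3Dl c m) ⊆ pvtrCore σ (pvieSh z (pvegOYc 𝔓 m t)) := by
  intro v hv x hx
  have hδ := pvlm_Del_pos c m
  have hμ := pvey_mu_le (𝔓 := 𝔓) m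
  have R := pvge3_rec_o hL hT hf (ρ := σ) (b := 0) (μ := 0) h0 hσ (by norm_num) (by have := pveg_R_pos hL; linarith)
  have hn := pvge2_arm_near (Y := z + pvegYp 𝔓 m t) (up := β) (pvge3_u_o hL hT) (R.num β) (v := x) ⟨v, Or.inr hv, by rwa [mem_closedBall, dist_eq_norm] at hx⟩
  exact pvz7_mouth_o (𝔓 := 𝔓) (m := m) (t := t) z (a := pvegR 𝔓 m / 4) (by linarith) (by rw [mem_closedBall, dist_eq_norm]; exact hn)

end lane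

/-! ## 3. the rooms of the half lanes of the door -/

section room

variable {τ : Type} {c : ℝ} {𝔓 : PvxPar τ c} {m : ℕ} {t : τ} {r₀ s : ℝ} {Ln Dr : Bool → Set ℂ}

theorem pvhw8_sim_scale (p d : ℂ) (s : ℝ) (w : ℂ) : pvthSim p (d * s) w = pvthSim p d ((s : ℂ) * w) := by
  unfold pvthSim
  ring

/-- **(4) THE ROOMS OF THE ENTRANCE HALF LANES LIE IN THE `σ`-CORE OF THE ROOM**, `σ ≤ δ/160`, any truncation (`Pvge5Side` of 298: `pvge5_side_T _Tw _P`) -/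
theorem pvhw8_room_core (hL : PvegLev 𝔓 m) (hT : pviwTyOk 𝔓 t) (G : Pvge5Side r₀ false Ln Dr) (hs : 0 < s) (hq : pvge3Q c m = s * r₀) {σ : ℝ} (hσ : σ ≤ pvlmDel c m / 160) (β : Bool) (z : ℂ) :
    pvkdAt (pvieZo 𝔓 m z t) ((𝔓.Γ m).dout t * s) (Ln β) ⊆ pvtrCore σ (pvieSh z (pvegOYc 𝔓 m t)) := by
  rintro _ ⟨w, hw, rfl⟩
  show closedBall _ σ ⊆ _
  have hf : 64 * pvlmDel c m ≤ pvegR 𝔓 m := hL.fine
  have hδ := pvlm_Del_pos c m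
  have hμ := pvey_mu_le (𝔓 := 𝔓) m
  obtain ⟨a1, a2, a3⟩ := G.box β w hw
  simp only [pvge5E, Bool.false_eq_true, if_false, neg_mul, one_mul] at a1 a2
  have hq' : s * r₀ = pvlmDel c m / 40 := hq.symm
  have b1 : s * (r₀ / 2) ≤ s * (-w.re) := mul_le_mul_of_nonneg_left a1 hs.le
  have b2 : s * (-w.re) ≤ s * (7 * r₀) := mul_le_mul_of_nonneg_left a2 hs.le
  have b3 : s * |w.im| ≤ s * (3 * r₀ / 2) := mul_le_mul_of_nonneg_left a3 hs.le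
  rw [pvhw8_sim_scale]
  refine pvz7_door_o hL hT z ?_ ?_ ?_
  · rw [re_ofReal_mul]; linarith
  · rw [re_ofReal_mul]; unfold pvegA; linarith
  · rw [im_ofReal_mul, abs_mul, abs_of_pos hs]; linarith

/-- **(4) BEFORE THE CUT PLANE `s = Sp - 13 q / 4` THE ROOMS LIE IN (mouth ∪ tile) MINUS THE OWN-LEVEL BOX** -/
theorem pvhw8_room_fr (hL : PvegLev 𝔓 m) (hT : pviwTyOk 𝔓 t) {O₀ : ℕ → Set ℂ} (hO : O₀ m ⊆ pvccSq 0 (13 * pvge3Q c m / 4)) (G : Pvge5Side r₀ false Ln Dr) (hs : 0 < s) (hq : pvge3Q c m = s * r₀) (β : Bool) (z : ℂ) :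
    ∀ v ∈ pvkdAt (pvieZo 𝔓 m z t) ((𝔓.Γ m).dout t * s) (Ln β), pvge2S (z + pvegYp 𝔓 m t) ((𝔓.Γ m).dout t) v < pvegS (pvegYp 𝔓 m t) ((𝔓.Γ m).dout t) ((𝔓.Γ m).pout t) - 13 * pvge3Q c m / 4 →
      v ∈ (pvieSh z (pvegOM 𝔓 m t) ∪ pvieSh z (pvegOKa 𝔓 O₀ m t)) \ pvilBx 𝔓 m z t := by
  intro v hv hx
  have hf : 64 * pvlmDel c m ≤ pvegR 𝔓 m := hL.fine
  have hδ := pvlm_Del_pos c m
  have D := pveg_door_o hL hT
  obtain ⟨a1, a2, a3⟩ := pvge5_box (Yc := z + pvegYp 𝔓 m t) G hs (pvge5_k_o (pvge3_dd_o hL hT)) true β v hv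
  have eS : pvge2S (z + pvegYp 𝔓 m t) ((𝔓.Γ m).dout t) (pvieZo 𝔓 m z t) = pvegS (pvegYp 𝔓 m t) ((𝔓.Γ m).dout t) ((𝔓.Γ m).pout t) := pvge3_S_sh _ _ _ _
  have eT : pvge2T (z + pvegYp 𝔓 m t) ((𝔓.Γ m).dout t) true (pvieZo 𝔓 m z t) = pvge2Sg true * pvegL (pvegYp 𝔓 m t) ((𝔓.Γ m).dout t) ((𝔓.Γ m).pout t) := by
    rw [pvge3_T]; unfold pvieZo; rw [pvge3_L_sh]
  rw [eS, pvhw8_S] at a1
  rw [eT, pvhw8_T, ← mul_sub, abs_mul, pvge2_sg_abs, one_mul] at a3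
  rw [pvhw8_S] at hx
  have hq' : s * r₀ = pvlmDel c m / 40 := hq.symm
  have hq2 : pvge3Q c m = pvlmDel c m / 40 := rfl
  exact pvhw8_fr_of hL hT hO (by unfold pvegA; rw [hq2]; linarith) (by rw [hq'] at a1; linarith [D.s_lo]) hx.le (by rw [hq'] at a3; linarith)

end room

/-! ## 4. the door -/

section door

variable {τ : Type} {c : ℝ} {𝔓 : PvxPar τ c} {m : ℕ} {t : τ}

/-- **(5) EVERYTHING BEYOND THE PLANE OF THE DOOR IS OFF THE ROOM** (W-7) -/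
theorem pvhw8_front_off (hL : PvegLev 𝔓 m) (h0 : 0 ≤ pvilMu 𝔓 m) (hT : pviwTyOk 𝔓 t) (z : ℂ) {a : ℝ} (ha : 0 ≤ a) {Zm : Set ℂ} (hZ : ∀ w ∈ Zm, 0 ≤ w.re) :
    Disjoint (pvkdAt (pvieZo 𝔓 m z t) ((𝔓.Γ m).dout t * a) Zm) (pvieSh z (pvegOYc 𝔓 m t)) := by
  rw [Set.disjoint_left]
  rintro _ ⟨w, hw, rfl⟩ hY
  have h1 := pvz7_back_o hL h0 hT z hY
  have h2 := pveg_unit_conj (pveg_dout4 hL t)
  have e : (pvthSim (pvieZo 𝔓 m z t) ((𝔓.Γ m).dout t * a) w - pvieZo 𝔓 m z t) * (starRingEnd ℂ) ((𝔓.Γ m).dout t) = (a : ℂ) * w := by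
    unfold pvthSim
    linear_combination ((a : ℂ) * w) * h2
  rw [e, re_ofReal_mul] at h1
  have := pveg_A_pos c m
  nlinarith [hZ w hw]

/-- (5) the region of `g⁺` of the door plug `pvkdP r` placed at `(zo, dout)` is off the room -/
theorem pvhw8_Zp_off (hL : PvegLev 𝔓 m) (h0 : 0 ≤ pvilMu 𝔓 m) (hT : pviwTyOk 𝔓 t) (z : ℂ) {r : ℝ} (hr : 0 ≤ r) :
    Disjoint (pvkdAt (pvieZo 𝔓 m z t) ((𝔓.Γ m).dout t) (pvkdP r).Zp) (pvieSh z (pvegOYc 𝔓 m t)) := by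
  have h := pvhw8_front_off hL h0 hT z (a := 1) zero_le_one (Zm := (pvkdP r).Zp) (fun w hw => by
    have hw' : w ∈ rswRect (r / 2) (2 * r) (-(r / 2)) (r / 2) := hw
    have := hw'.1
    linarith)
  rwa [ofReal_one, mul_one] at h

/-- **(5) ROUND THE DOOR** (within `δ/4`): in front of the side of the box, farther than `R/4` from the centre of the mouth -/
theorem pvhw8_door_far (hL : PvegLev 𝔓 m) (hT : pviwTyOk 𝔓 t) (z : ℂ) {v : ℂ} (hv : ‖v - pvieZo 𝔓 m z t‖ ≤ pvlmDel c m / 4) :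
    v ∉ pvilBx 𝔓 m z t ∧ v ∉ pvhaBx 𝔓.num (pvilPin 𝔓 m z t) ∧ pvegR 𝔓 m / 4 < ‖v - (z + pvegYp 𝔓 m t)‖ := by
  have hf : 64 * pvlmDel c m ≤ pvegR 𝔓 m := hL.fine
  have hδ := pvlm_Del_pos c m
  have D := pveg_door_o hL hT
  have e0 : v - z - (𝔓.Γ m).pout t = v - pvieZo 𝔓 m z t := by unfold pvieZo; ring
  have h0 := pvey_S_lip D.u4 (pvegYp 𝔓 m t) ((𝔓.Γ m).pout t) (v - z)
  rw [e0] at h0
  have h1 := abs_le.1 (h0.trans hv)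
  have hS : 3 * pvegR 𝔓 m / 8 - 9 * pvlmDel c m / 4 ≤ pvegS (pvegYp 𝔓 m t) ((𝔓.Γ m).dout t) (v - z) := by linarith [h1.1, D.s_lo]
  have hb := pvhw8_off_box hL hT (z := z) (v := v) (by linarith)
  refine ⟨hb, fun hB => hb ?_, ?_⟩
  · rw [pvha_bx_std (N := 𝔓.num) (p := pvilPin 𝔓 m z t) rfl] at hB
    have hB' : |(v - z).re| ≤ pvwRad 𝔓.num (pvlmH m) (𝔓.ty t) (𝔓.ty t).k ∧ |(v - z).im| ≤ pvwRad 𝔓.num (pvlmH m) (𝔓.ty t) (𝔓.ty t).k := hB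
    exact ⟨by linarith [hB'.1], by linarith [hB'.2]⟩
  · have h2 := pveg_S_le_norm D.u4 (pvegYp 𝔓 m t) (v - z)
    have e : v - z - pvegYp 𝔓 m t = v - (z + pvegYp 𝔓 m t) := by ring
    rw [e] at h2
    linarith

/-- (5) round the door: off the placed exit tip cell -/
theorem pvhw8_door_cm (hL : PvegLev 𝔓 m) (hT : pviwTyOk 𝔓 t) (hc : ∀ w ∈ 𝔓.cp t, ‖w - (𝔓.ty t).yp‖ ≤ 𝔓.num.rho / 10) (z : ℂ) {v : ℂ} (hv : ‖v - pvieZo 𝔓 m z t‖ ≤ pvlmDel c m / 4) :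
    v ∉ pvxPl z (pvlmH m) (𝔓.cp t) := by
  intro hx
  have h1 := pvho_cell hc (pvlm_H_pos m) hx
  have h2 := (pvhw8_door_far hL hT z hv).2.2
  have hR := pveg_R_pos hL
  have e : 𝔓.num.rho / 10 * pvlmH m = pvegR 𝔓 m / 10 := by unfold pvegR; ring
  rw [e] at h1
  have h1' : ‖v - (z + pvegYp 𝔓 m t)‖ ≤ pvegR 𝔓 m / 10 := h1
  linarith

end door

/-! ## 5. the room, the window -/

section win

variable {τ : Type} {c : ℝ} {𝔓 : PvxPar τ c} {m : ℕ} {t : τ}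

/-- (1) -/
theorem pvhw8_bdd (hL : PvegLev 𝔓 m) (h0 : 0 ≤ pvilMu 𝔓 m) (hT : pviwTyOk 𝔓 t) (z : ℂ) : Bornology.IsBounded (pvieSh z (pvegOYc 𝔓 m t)) := (pvz7_hole_o hL h0 hT z).2
/-- (1) -/
theorem pvhw8_co (hL : PvegLev 𝔓 m) (h0 : 0 ≤ pvilMu 𝔓 m) (hT : pviwTyOk 𝔓 t) (z : ℂ) : IsPreconnected (pvieSh z (pvegOYc 𝔓 m t))ᶜ := (pvz7_hole_o hL h0 hT z).1

/-- (6) the small mouth `rs = R/4` with `5 μ`, `μ ≤ δ` -/
theorem pvhw8_mouth (hf : 10000 * pvlmDel c m ≤ pvegR 𝔓 m) (t : τ) (z : ℂ) {μ : ℝ} (hμ : μ ≤ pvlmDel c m) : closedBall (z + pvegYp 𝔓 m t) (pvegR 𝔓 m / 4 + 5 * μ) ⊆ pvieSh z (pvegOYc 𝔓 m t) := by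
  have hδ := pvlm_Del_pos c m
  have h1 := pvey_mu_le (𝔓 := 𝔓) m
  exact pvz7_mouth_o (𝔓 := 𝔓) (m := m) (t := t) z (by linarith)

/-- **(W) THE ROOM LIES IN THE WINDOW OF THE FIRST LINK** (any engine whose mouth, tile and door region are those of 124) -/
theorem pvhw8_win (hL : PvegLev 𝔓 m) (h0 : 0 ≤ pvilMu 𝔓 m) {𝔈 : PvieEng τ} {O₀ : ℕ → Set ℂ} {ε : ℝ} (hM : 𝔈.oM m t = pvegOM 𝔓 m t) (hK : 𝔈.oK m t = pvegOKa 𝔓 O₀ m t) (hO : (𝔈.kit m ε).O₀ = O₀ m) (z : ℂ) (Z : Set (ℤ × ℤ)) :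
    pvieSh z (pvegOYc 𝔓 m t) ⊆ pvilWno 𝔓 𝔈 m ε z t Z := by
  rintro _ ⟨w, hw, rfl⟩
  unfold pvilWno
  rw [hM, hK]
  rcases pvey_oYc_sub hL h0 O₀ t hw with (h | h) | h
  · exact Or.inl (Or.inl (Or.inr ⟨w, h, rfl⟩))
  · exact Or.inl (Or.inr ⟨w, h, rfl⟩)
  · refine Or.inr ?_
    unfold pvieDoor pvieZo
    rw [hO, ← pvge3_sh_sim]
    exact ⟨w, h, rfl⟩

/-- a core of the room is a core of the window -/
theorem pvhw8_core_win {W : Set ℂ} {z : ℂ} (hW : pvieSh z (pvegOYc 𝔓 m t) ⊆ W) {A : Set ℂ} {σ σ' : ℝ} (h : A ⊆ pvtrCore σ (pvieSh z (pvegOYc 𝔓 m t))) (hσ : σ' ≤ σ) : A ⊆ pvtrCore σ' W :=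
  h.trans ((pvtr_core_anti hσ).trans (pvtr_core_mono hW))

end win

/-! ## 6. the frozen positions -/

section fz

variable {τ : Type} {c : ℝ} {𝔓 : PvxPar τ c} {m : ℕ} {t : τ}

/-- **the frozen positions of `Σ_out(z,t)` lie in the closed own box** -/
theorem pvhw8_Fi_box (n : PvhoNum 𝔓) (z : ℂ) (η₀ : Conf PvPt) : pvilFo 𝔓 m z t η₀ ⊆ pvwSq z (pvwRad 𝔓.num (pvlmH m) (𝔓.ty t) (𝔓.ty t).k) := by
  rintro x ⟨𝔖, h, v, hv, rfl⟩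
  rcases hv with (hv | hv) | hv
  · have a := pvhg_il_out (Or.inl rfl) h
    have h1 : v ∈ 𝔖.dsc := hv
    rw [a.gate.dsc_eq] at h1
    have h2 : ‖(v : ℂ) - z‖ < (𝔓.ty t).b * pvlmH m := h1
    have h3 := pvho_rad n m t
    have hh := pvlm_H_pos m
    have h4 : ‖(v : ℂ) - z‖ ≤ pvwRad 𝔓.num (pvlmH m) (𝔓.ty t) (𝔓.ty t).k := by linarith
    exact ⟨(Complex.abs_re_le_norm _).trans h4, (Complex.abs_im_le_norm _).trans h4⟩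
  · exact pvho_bank_o h (Or.inl hv)
  · exact pvho_bank_o h (Or.inr hv)

/-- **`Fr ⊆ K ∪ y`**: a point of (mouth ∪ tile) off the own-level box is resampled or recoloured -/
theorem pvhw8_fresh (n : PvhoNum 𝔓) (z : ℂ) (η₀ : Conf PvPt) {M K : Set ℂ} {v : ℂ} (hv : v ∈ (M ∪ K) \ pvilBx 𝔓 m z t) : v ∈ K ∪ (M \ pvilFo 𝔓 m z t η₀) := by
  rcases hv.1 with h | h
  · refine Or.inr ⟨h, fun hF => hv.2 ?_⟩
    have hb := pvhw8_Fi_box n z η₀ hF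
    have hδ := pvlm_Del_pos c m
    exact ⟨by linarith [hb.1], by linarith [hb.2]⟩
  · exact Or.inl h

end fz

end Claimed.Agent.R289
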