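-- KEEP
import Claimed.Agent.R289.Tr.FrcDetE
import Claimed.Agent.R289.Tr.FrcDetO
import Claimed.Agent.R289.Tr.DoorFoot
import Claimed.Agent.R289.Tr.PatCol
import Claimed.Agent.R289.Tr.HookTA
import Claimed.Agent.R289.Tr.FrcCar
import Claimed.Agent.R289.Tr.GoodH
import Claimed.Agent.R289.Exit.FrcIDefs

/-!
# Row 289 (S0537), THE WALL, ROAD E, E10 AT THE HYBRID ENDS, (b3) DET, file Tr/HookI : **THE PLAIN SUCCESS OF THE LAST LINK `door plug → t` IN A FINAL CONFIGURATION** (the conjunct `η ∈ (pvilLi ..).A` of `exit_pvii_ev`)      (helper106; prefix `pvhl_`, `Pvhl`)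

ROAD = THE CORNER-SAFE ONE (arms in the T form of 23: no premise `hout`, which is false at the corner tip cells):
* sec. 1  MODEL FREE: **`pvhl_rec_i`** = `pvdd_pat_i` of 228 (`Tr/FrcDetE`) at the numbers of record `Pvge2Rec` of 298 (routes, arm regions, legs, slots: PAID INSIDE)
* sec. 2  **`PvhlLay`** = ALL THAT DET OWES TO THE REGIONS (no configuration, no state; the room, the window, the fresh part are VARIABLES: survives every patch of the rooms);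
          **`pvhl_A_dp`** : nice `η` + mesh of the window + side of the plug (173) + entrance half state + pattern of record of the copy colouring + fresh lines + THE FOOT (T form) ⟹ `η ∈ L.A N b`
* sec. 3  AT THE MODEL: **`pvhl_A_i`** : `PvjeFin (pvjeI 𝔓 𝔈 w m ε z t) T η₀ η` + `η₀ ∈ pviiMc` ⟹ `η ∈ (pvilLi 𝔓 𝔈 m z t).A ..` and the hull of the base (v2: NO mesh of the whole window; lanes: mesh clause `pviiMs` of the copy pattern; rooms: mesh of the side event)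
          (carry + hull: `pvfc7_fin_i` of 71;   foot: `pvho_foot_in` of 266;   door: `pvyo_side`, `.door` of 173;   colours: `pvw8_patRec_rel` of 137;   last step: `pvha_A_dp` of 112)
0 SORRY.
WHAT IS LEFT FOR `exit_pvii_ev` AT THE ENGINE OF RECORD: the instance `Λ : PvhlLay ..` + `mouth` (pure regions), the lines `hG hs hsc hℋ` of the side event of record, `Wf hM hb hr hK hD` (on main at 116 / 266 / 71), `hmesh` (46).
-/

set_option autoImplicit false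
set_option linter.unusedSectionVars false
set_option linter.unusedVariables false

namespace Claimed.Agent.R289

open Relation Set Metric Claims.C0465
open scoped ComplexConjugate

/-! ## 1. the run of a link `door → pin` at the numbers of record, arms in the T form -/

section rec

variable {Y : Set ℂ} {h : DelGood Y} {P : PlTri ↥Y} {K : Set Y} {σ : Y → Bool} {κ : ℂ → Bool} {c u : ℂ} {R₀ δ q dl ρl rt ρ Sp lam : ℝ} {Rm : Bool → Set ℂ}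

/-- **LAST LINK AT THE NUMBERS OF RECORD, CORNER SAFE** (`pvdd_pat_i` of 228 at `Pvge2Rec` of 298) -/
theorem pvhl_rec_i (hP : P = delPl h) {a₁ : P.Dart} (h1 : pvasBW P.toMap σ a₁) (hu : ‖u‖ = 1)
    (foot : ∀ GN GC : Bool → Set ℂ, (∀ β, PvhjArmT Y κ β ((starRingEnd ℂ) u) c rt ρ (R₀ / 4) (!β) (GN β) (GC β) (pvge2Cl c u (!β) (pvge2Aa R₀ β) (23 * R₀ / 200) (3 * R₀ / 20) dl)) → PvhjFootP P σ κ K a₁ GN)
    (hK : K.Finite) (hco : ∀ u v, u ∉ K → v ∉ K → P.toMap.Join univ Kᶜ u v) (g : P.toMap.Gate σ) (hne : g.vp ≠ P.toMap.src a₁)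
    (hO : ∃ f, P.toMap.src f ∉ K ∧ P.toMap.DJoin (pvldBar P.toMap σ K g.aOut a₁) (P.toMap.opp g.aOut) f)
    (Rc : Pvge2Rec R₀ δ q dl ρl rt (2 * ρ) Sp lam) (hρ0 : 0 ≤ ρ) (he : rt + 2 * ρ < 21 * R₀ / 200)
    (hev : cfOf Y κ ∈ pvkqPat dl (pvge2PatRec c u false true R₀ q Sp lam))
    (hρl : dl / 16 ≤ ρl) (hdS : ∀ β, VorDense Y (pvge2Cl c u (!β) (pvge2Aa R₀ β) (23 * R₀ / 200) (3 * R₀ / 20) dl) ρl)
    (mid : ∀ β, ∀ v : Y, (vorCell Y v ∩ pvge4Lane c u (!β) R₀ q Sp (pvge2Aa R₀ β) (pvge2Lm lam β)).Nonempty → v ∈ K ∧ σ v = κ v)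
    (hroom : ∀ β, ∀ w ∈ Rm β, pvge2S c u w < Sp - 13 * q / 4 → pvge2Lm lam β + q / 2 ≤ pvge2T c u (!β) w ∧ pvge2T c u (!β) w ≤ pvge2Lm lam β + 3 * q / 2)
    (hH : ∀ β, ∃ v : Y, pvge2S c u (v : ℂ) ≤ Sp - 15 * q / 4 ∧ P.toMap.Join univ (pvldCol σ {u : Y | (u : ℂ) ∈ Rm β} β) (pvhiEnd P.toMap β g.aOut) v)
    (hfoot : ∀ β, Sp - 13 * q / 4 ≤ pvge2S c u ((pvhiEnd P.toMap β g.aOut : Y) : ℂ))
    (hRm : ∀ β, ∀ v : Y, (v : ℂ) ∈ Rm β → v ∈ K ∧ vorCell Y v ⊆ closedBall (v : ℂ) (q / 16))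
    (hRκ : ∀ β, ∀ v : Y, (v : ℂ) ∈ Rm β → pvge2S c u (v : ℂ) < Sp - 13 * q / 4 → σ v = κ v) :
    PvldRun P.toMap σ K g.aOut a₁ := by
  have h1' := Rc.δ0; have h3 := Rc.fine; have h4 := Rc.mesh; have h5 := Rc.dl0; have h9 := abs_le.1 Rc.lat; have h10 := Rc.qδ; have h11 := Rc.q0
  refine pvdd_pat_i (sd := fun β => !β) (aa := pvge2Aa R₀) (ll := fun β => pvge2Lm lam β + q / 4) (l0 := fun β => pvge2Lm lam β + q / 2) (l1 := fun β => pvge2Lm lam β + 3 * q / 2) (sc := Sp - 13 * q / 4) (ρd := q / 16)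
    hP h1 hu foot hK hco g hne hO Rc.num Rc.bar hρ0 he (fun β => ?_) hρl hdS mid (by linarith) (by linarith) hroom
    (fun β => by show pvge2Lm lam β + q / 4 + 3 / 2 * dl + q / 16 ≤ pvge2Lm lam β + q / 2; linarith) (fun β => ?_) (fun β => ?_) hfoot hRm hRκ
  · have := pvge2_patRec_ev hev β
    cases β <;> exact this
  · show pvge2Lm lam β + 3 * q / 2 + q / 16 + 3 / 2 * dl ≤ pvge2Aa R₀ β
    cases β <;> simp only [pvge2Lm, pvge2Aa, if_true, if_false, Bool.false_eq_true] <;> linarith [h9.1, h9.2]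
  · obtain ⟨v, hv, hj⟩ := hH β
    exact ⟨v, by linarith, hj⟩

end rec

/-! ## 2. a link `door type plug → pin` of `Tr/InstL` at the pattern of record: the regions, the plain success -/

/-- **ALL THAT DET OWES TO THE REGIONS OF A LINK `door → pin` AT THE PATTERN OF RECORD** (no configuration, no state).   `W` = the window of the copy pattern (mouth ∪ tile: mesh `μ` at the final configuration), `Fr` = the FRESH part (copy colours),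
frame of the mouth: centre `c`, OUTER normal `u`;   numbers of record `R₀ q dl Sp lam` (`Pvge2Rec`);   `Rm β`, `Dr β` = placed room and target of the half lane of colour `β` of the exit side of the plug. -/
structure PvhlLay (L : PvilLk) (N : PvwNum) (W Fr : Set ℂ) (μ : ℝ) (c u : ℂ) (R₀ q dl Sp lam : ℝ) (Rm Dr : Bool → Set ℂ) : Prop where
  mu : 0 < μ
  bdd : Bornology.IsBounded L.Yin
  co : IsPreconnected L.Yinᶜ
  /-- the lanes of record: deep in the window, deep in the room, in the fresh part -/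
  laneW : ∀ β, pvge4Lane c u (!β) R₀ q Sp (pvge2Aa R₀ β) (pvge2Lm lam β) ⊆ pvtrCore (4 * μ) W
  laneY : ∀ β, vorNbd (pvge4Lane c u (!β) R₀ q Sp (pvge2Aa R₀ β) (pvge2Lm lam β)) (2 * μ) ⊆ L.Yin
  laneF : ∀ β, vorNbd (pvge4Lane c u (!β) R₀ q Sp (pvge2Aa R₀ β) (pvge2Lm lam β)) μ ⊆ Fr
  /-- the closing sets of the arms -/
  clW : ∀ β, pvge2Cl c u (!β) (pvge2Aa R₀ β) (23 * R₀ / 200) (3 * R₀ / 20) dl ⊆ pvtrCore μ W
  /-- the rooms of the two half lanes of the plug (their cells have radius `q / 16`: mesh of the side event) -/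
  roomY : ∀ β, vorNbd (Rm β) (q / 16) ⊆ L.Yin
  roomF : ∀ β, ∀ w ∈ Rm β, pvge2S c u w < Sp - 13 * q / 4 → w ∈ Fr
  roomT : ∀ β, ∀ w ∈ Rm β, pvge2S c u w < Sp - 13 * q / 4 → pvge2Lm lam β + q / 2 ≤ pvge2T c u (!β) w ∧ pvge2T c u (!β) w ≤ pvge2Lm lam β + 3 * q / 2
  tgt : ∀ β, ∀ w ∈ Dr β, pvge2S c u w ≤ Sp - 15 * q / 4
  ftS : ∀ w ∈ ball L.p.z (pvkdP L.p.h).b, Sp - 13 * q / 4 ≤ pvge2S c u w
  /-- the room of `g⁻` of the plug is off the room of the link -/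
  gm : ∀ w ∈ pvkdAt L.p.z L.p.fr (pvkdP L.p.h).Zm, w ∉ L.Yin
  offBox : Disjoint (ball L.p.z (pvkdP L.p.h).b) (pvhaBx N L.p')
  offTip : Disjoint (ball L.p.z (pvkdP L.p.h).b) L.p'.cm

section lk

variable {L : PvilLk} {N : PvwNum} {W Fr : Set ℂ} {μ : ℝ} {c u : ℂ} {R₀ δ q dl ρl rt ρ Sp lam : ℝ} {Rm Dr : Bool → Set ℂ} {b : Bool} {η : Conf PvPt}

/-- **THE PLAIN SUCCESS OF A LINK `door type plug → pin` AT THE PATTERN OF RECORD** at ONE configuration `η`: general position, mesh of the window, the gate of record of the plug with the two half lanes of its exit side (173: `PvyoSd`), the entrance half state of the pin,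
a copy colouring `κ` (relative colours) with the pattern of record, `σ = κ` on the fresh part, THE FOOT at the tip for the arms of record IN THE T FORM (23 / 266 / 155: valid at the corner tip cells) -/
theorem pvhl_A_dp (Λ : PvhlLay L N W Fr μ c u R₀ q dl Sp lam Rm Dr) (h0 : L.dr = true) (h1 : L.dr' = false) (hu : ‖u‖ = 1)
    (Rc : Pvge2Rec R₀ δ q dl ρl rt (2 * ρ) Sp lam) (hρ0 : 0 ≤ ρ) (he : rt + 2 * ρ < 21 * R₀ / 200) (hρl : dl / 16 ≤ ρl) (hμl : μ ≤ ρl)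
    (hgood : DelGood (pvieY η)) (hm : PvtrMesh μ W (pvieY η)) {g : (pvieT η).Gate (pvieCol η b)}
    (hd : PvilDoor (pvkdP L.p.h) b η L.p.z L.p.fr (pvilStS (pvkdP L.p.h) η (pvieCol η b) L.p.z g))
    (hg : PvzlGt (pvieT η) Subtype.val (pvieCol η b) ((pvkdP L.p.h).pg L.p.z L.p.fr) g)
    (hH : ∀ β, ∃ v : ↥(pvieY η), (v : ℂ) ∈ Dr β ∧ (pvieT η).Join univ (pvldCol (pvieCol η b) {u | (u : ℂ) ∈ Rm β} β) (pvkdFoot g true β) v)
    (hcell : ∀ β, ∀ v : ℂ, v ∈ Rm β → vorCell (pvieY η) v ⊆ closedBall v (q / 16))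
    {𝔖' : PvwSt (pvieT η)} (hp : PvilIn N b L.p' η 𝔖') {κ : ℂ → Bool}
    (hev : cfOf (pvieY η) κ ∈ pvkqPat dl (pvge2PatRec c u false true R₀ q Sp lam)) (hfr : ∀ v : ↥(pvieY η), (v : ℂ) ∈ Fr → pvieCol η b v = κ v)
    (foot : ∀ GN GC : Bool → Set ℂ,
      (∀ β, PvhjArmT (pvieY η) κ β ((starRingEnd ℂ) u) c rt ρ (R₀ / 4) (!β) (GN β) (GC β) (pvge2Cl c u (!β) (pvge2Aa R₀ β) (23 * R₀ / 200) (3 * R₀ / 20) dl)) →
      PvhjFootP (delbPl (pvieY η)) (pvieCol η b) κ (pvgeKV (pvieY η) L.Yinᶜ) (𝔖'.em 𝔖'.nm) GN) :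
    η ∈ L.A N b := by
  have hμ := Λ.mu
  obtain ⟨k1, k2⟩ := pvhj_K_pl (h := hgood) (delb_pl_eq hgood) Λ.co (by rw [compl_compl]; exact Λ.bdd)
  have htip : ((pvieT η).src (𝔖'.em 𝔖'.nm) : ℂ) ∈ L.p'.cm := hp.tip
  have hbw : pvasBW (pvieT η) (pvieCol η b) (𝔖'.em 𝔖'.nm) := pvwk_em_bw hp.st.stub hp.st.gate.bw_m le_rfl
  have hvp : ((g.vp : ↥(pvieY η)) : ℂ) ∈ ball L.p.z (pvkdP L.p.h).b := by
    have := pvhu_foot_rim hg.least.reg true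
    rwa [show pvhiEnd (pvieT η) true g.aOut = g.vp from pvtg_aOut_src g] at this
  have hrun : PvldRun (pvieT η) (pvieCol η b) (pvgeKV (pvieY η) L.Yinᶜ) g.aOut (𝔖'.em 𝔖'.nm) := by
    refine pvhl_rec_i (h := hgood) (Rm := Rm) (delb_pl_eq hgood) hbw hu foot k1 k2 g ?_ ?_ Rc hρ0 he hev hρl (fun β => pvdd_dense_of hm (Λ.clW β) hμl) (fun β => ?_) Λ.roomT (fun β => ?_) (fun β => ?_) (fun β => ?_) (fun β v hv hs => hfr v (Λ.roomF β v hv hs))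
    · intro e
      exact disjoint_left.1 Λ.offTip hvp (e ▸ htip)
    · refine pvhr_out_gt hg (fun hK => Λ.gm _ hg.vm (pvhg_KV_over hK)) hbw fun hl => ?_
      exact disjoint_left.1 Λ.offTip (hg.least.reg.outer _ hl) htip
    · exact pvdd_mid_of hμ hm (Λ.laneW β) (Set.disjoint_compl_right_iff_subset.2 (Λ.laneY β)) (fun v hv => hfr v (Λ.laneF β hv))
    · obtain ⟨v, hv, hj⟩ := hH β
      rw [pvhu_foot_eq] at hj
      exact ⟨v, Λ.tgt β _ hv, hj⟩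
    · exact Λ.ftS _ (pvhu_foot_rim hg.least.reg β)
    · intro v hv
      refine ⟨pvdd_mem_KV (hcell β v hv) (Set.disjoint_compl_right_iff_subset.2 fun x hx => Λ.roomY β ⟨v, hv, ?_⟩), hcell β v hv⟩
      rwa [mem_closedBall, dist_eq_norm] at hx
  refine pvha_A_dp (K := pvgeKV (pvieY η) L.Yinᶜ) h0 h1 hd hp ?_ (fun v hv => pvhg_KV_over hv) hrun
  intro hbx
  refine disjoint_left.1 Λ.offBox ?_ hbx
  show (((pvieT η).src g.aOut : ↥(pvieY η)) : ℂ) ∈ _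
  rw [pvtg_aOut_src]
  exact hvp

end lk

/-! ## 3. at the model: the last link `door plug → t` -/

section model

variable {τ : Type} {c : ℝ} {𝔓 : PvxPar τ c} {𝔈 : PvieEng τ} {m : ℕ} {ε : ℝ} {z : ℂ} {t : τ} {η₀ η : Conf PvPt} {w : ∀ η : Conf PvPt, (delbPl (pvieY η)).Dart → ℂ} {T : PvjeTest}
  {𝔭 : PvkdPlug} {𝔱 : PvhfTr} {s : ℝ}

/-- the fresh colours off the own-level box -/
theorem pvhl_fresh {E : PvjeEnd} (hFz : E.Fz η₀ = pvilFi 𝔓 m z t η₀) (hb : (𝔓.ty t).b * pvlmH m ≤ pviwRad 𝔓 m t) {𝔖₀ : PvwSt (pvieT η₀)} (h₀ : PvilIn 𝔓.num (𝔓.col t) (pvilPin 𝔓 m z t) η₀ 𝔖₀)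
    {κ₀ : ℂ → Bool} (hκ : ∀ v ∈ cfSites η, v ∈ E.K ∪ E.y η₀ → cfCol η v = κ₀ v) (v : ↥(pvieY η)) (hv : (v : ℂ) ∈ (E.M ∪ E.K) \ pvwSq z (pviwRad 𝔓 m t)) :
    pvieCol η (𝔓.col t) v = (κ₀ v == 𝔓.col t) := by
  show (cfCol η (v : ℂ) == 𝔓.col t) = (κ₀ v == 𝔓.col t)
  rw [hκ v v.2 ?_]
  rcases hv.1 with h | h
  · refine Or.inr ⟨h, fun hz => hv.2 ?_⟩
    rw [hFz] at hz
    have hz' : (v : ℂ) ∈ pvilFzI 𝔓.num (𝔓.col t) (pvilPin 𝔓 m z t) η₀ := hz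
    rw [pvfc7_fzI (by show ‖(1 : ℂ)‖ = 1; exact norm_one) h₀] at hz'
    obtain ⟨x, hx, e⟩ := hz'
    rw [← e]
    exact pvfc7_fzI_box rfl hb h₀ x hx
  · exact Or.inl h

/-- **`PvjeDet.ev` OF THE LAST LINK `i`: THE PLAIN SUCCESS AND THE HULL.**
REGIONS: `Λ` (window `:= pviiO` = mouth ∪ tile, mesh `pviiRho = pvilMu / 8` (clause of the copy pattern), fresh part `:= (mouth ∪ tile) \ own-level box`, rooms and targets `:=` the placed truncated rooms of the exit side of the plug `𝔭.sc s = pvkdP (pvilRd 𝔓 m)`), `mouth`.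
TESTS: `hℋ` (the side event is the placed `S⁺` of 174), `hpat` (the copy pattern is the pattern of record of 298 with the mesh clause of 116).
CERTIFICATE AT THE BASE: `hMc` (`pviiMc`).      NO MESH OF THE WHOLE WINDOW IS USED. -/
theorem pvhl_A_i (n : PvhoNum 𝔓) (hL : PvegLev 𝔓 m) (hT : pviwTyOk 𝔓 t) (hf : 10000 * pvlmDel c m ≤ pvegR 𝔓 m) (h3 : 0 < 𝔓.num.rho3)
    (hc : ∀ x ∈ 𝔓.cm t, ‖x - (𝔓.ty t).ym‖ ≤ 𝔓.num.rho / 10) (Wf : (pvjeI 𝔓 𝔈 w m ε z t).Wf ε) (hM : 𝔈.iM m t = pvegIM 𝔓 m t)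
    (hb : (𝔓.ty t).b * pvlmH m ≤ pviwRad 𝔓 m t) (hr : pvilMu 𝔓 m / 20 < (𝔓.ty t).b * pvlmH m)
    (hK : Disjoint (𝔈.iK m t) (pviwBox 𝔓 m t)) (hD : Disjoint (pviwDi 𝔓 𝔈 m ε t) (pviwBox 𝔓 m t))
    (Λ : PvhlLay (pvilLi 𝔓 𝔈 m z t) 𝔓.num (pviiO 𝔈 m z t) (pviiO 𝔈 m z t \ pvwSq z (pviwRad 𝔓 m t))
      (pviiRho 𝔓 m) (z + pvegYm 𝔓 m t) (-(𝔓.Γ m).din t) (pvegR 𝔓 m) (pvge3Q c m) (pvge3Dl c m) (pvegS (pvegYm 𝔓 m t) (-(𝔓.Γ m).din t) ((𝔓.Γ m).pin t)) (pvge2Sg false * pvegL (pvegYm 𝔓 m t) (-(𝔓.Γ m).din t) ((𝔓.Γ m).pin t))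
      (fun β => pvkdAt (pvieZi 𝔓 m z t) ((𝔓.Γ m).din t * s) (𝔱.Ln true β)) (fun β => pvkdAt (pvieZi 𝔓 m z t) ((𝔓.Γ m).din t * s) (𝔱.Dr true β)))
    (mouth : closedBall (z + pvegYm 𝔓 m t) (pvegR 𝔓 m / 4 + 5 * (pvilMu 𝔓 m / 20)) ⊆ pvieSh z (𝔈.iY m t))
    (hG : PvhfGeo 𝔭 𝔱) (hs : 0 < s) (hρ : 0 < 𝔭.ρ) (hρq : s * 𝔭.ρ ≤ pvge3Q c m / 16) (hsc : 𝔭.sc s = pvkdP (pvilRd 𝔓 m))
    (hℋ : ∀ η ∈ T.ℋ, pvdpT (pvieZi 𝔓 m z t) ((𝔓.Γ m).din t * s) (𝔓.col t) η ∈ pvhfS 𝔭 𝔱 true)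
    (hpat : T.𝒦 ⊆ pvkqPat (pvge3Dl c m) (pvge3PatI 𝔓 m z t) ∩ pviiMs 𝔓 𝔈 m z t) (hMc : η₀ ∈ pviiMc 𝔓 m z t)
    {𝔖₀ : PvwSt (pvieT η₀)} (h₀ : PvilIn 𝔓.num (𝔓.col t) (pvilPin 𝔓 m z t) η₀ 𝔖₀) (hF : PvjeFin (pvjeI 𝔓 𝔈 w m ε z t) T η₀ η) :
    η ∈ (pvilLi 𝔓 𝔈 m z t).A 𝔓.num (𝔓.col t) ∧ pvilZi 𝔓 m z t η = pvilZi 𝔓 m z t η₀ := by
  obtain ⟨m1, m2, m3⟩ := pvho_mu hL h3
  have hδ := pvlm_Del_pos c m
  have hR : pvegR 𝔓 m = 𝔓.num.rho * pvlmH m := rfl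
  have hμ0 : 0 < pvilMu 𝔓 m / 20 := by linarith
  obtain ⟨𝔖, tw, hp, -, eZ⟩ := pvfc7_fin_i hμ0 (by linarith) hb hr hK hD (pvho_cert_box n hL z hMc) h₀ hF
  obtain ⟨κ₀, hκ, hcol⟩ := hF.copy
  have hdn : ‖(𝔓.Γ m).din t‖ = 1 := by rw [← norm_neg]; exact pvge3_u_i hL hT
  obtain ⟨g, hsd⟩ := pvyo_side hG true hdn hs hF.one hF.nice.good (hℋ η hF.side)
  have hd := hsd.door hG hF.nice
  have hgate := hsd.gate
  rw [hsc] at hd hgate
  have hmO : PvtrMesh (pviiRho 𝔓 m) (pviiO 𝔈 m z t) (pvieY η) := by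
    have := (hpat hκ).2.2
    rwa [cfOf_sites] at this
  have mesh0 := pvho_cert_i n hT z (μ := pvilMu 𝔓 m / 20) (by linarith) hMc
  have hMe := pvho_M_i (w := w) (ε := ε) (z := z) hM
  refine ⟨?_, eZ⟩
  refine pvhl_A_dp (η := η) (b := 𝔓.col t) (g := g) (κ := fun v => κ₀ v == 𝔓.col t) (δ := pvlmDel c m) (ρl := pvlmDel c m / 1000) (rt := pvegR 𝔓 m / 10 + 4 * (pvilMu 𝔓 m / 20)) (ρ := pvilMu 𝔓 m / 20)
    Λ rfl rfl (pvge3_u_i hL hT) (pvge3_rec_i hL hT hf (by linarith) (by linarith) (by linarith) (by linarith)) hμ0.le (by linarith) (by unfold pvge3Dl; linarith) (by unfold pviiRho; linarith)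
    hF.nice.good hmO hd hgate (fun β => ?_) (fun β v hv => (pvge5_cell hsd hG hdn hs hρ β v hv).trans (closedBall_subset_closedBall hρq)) hp (pvw8_patRec_rel (hpat hκ).1) (pvhl_fresh rfl hb h₀ hcol) (fun GN GC A => ?_)
  · cases β
    · exact hsd.white
    · exact hsd.black
  · refine pvho_foot_in n hL hT hc Wf hMe rfl hμ0 (by linarith) (rs := pvegR 𝔓 m / 4) le_rfl (by linarith) le_rfl (by linarith) mesh0 h₀ hF tw hcol (fun v hv => ?_) A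
    refine pvho_inK_room hμ0 mouth (pvho_fin_mesh Wf hF (pvho_dense_mono mesh0 ?_) ?_) v hv
    · obtain ⟨s1, s2, s3, s0⟩ := pvho_small n m
      linarith
    · rw [hMe]
      exact closedBall_subset_closedBall (by linarith)

end model

end Claimed.Agent.R289
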