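-- KEEP
import Claimed.Agent.R289.Tr.HookI
import Claimed.Agent.R289.Tr.FrcDetA
import Claimed.Agent.R289.Exit.FrcODefs

/-!
# Row 289 (S0537), THE WALL, ROAD E, E10 AT THE HYBRID ENDS, (b3) DET, file Tr/HookOM : **THE PLAIN SUCCESS OF THE FIRST LINK `t → door plug` IN A FINAL CONFIGURATION** = THE MIRROR OF `Tr/HookI` OF 106      (helper26; prefix `pvo3_`, `Pvo3`)

ROAD = THE CORNER-SAFE ONE (arms in the T form of 23), routes / arm regions / legs / slots PAID INSIDE by `Pvge2Rec` of 298: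
* sec. 1  MODEL FREE: **`pvo3_rec_o`** = `pvdd_pat_o` of 228 at the numbers of record
* sec. 2  **`Pvo3Lay`** = ALL THAT DET OWES TO THE REGIONS (17 lines, no configuration, no state, no route);   **`pvo3_A_pd`**
* sec. 3  AT THE MODEL: **`pvo3_ev_o`** : `PvjeFin (pvjeO 𝔓 𝔈 w m ε z t) T η₀ η` + certificate + mesh of the window at `η` ⟹ `η ∈ pvilMo ..`;   **`pvo3_link_o`** (only `η ∈ Lo.A`)
0 SORRY.
-/

set_option autoImplicit false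
set_option linter.unusedSectionVars false
set_option linter.unusedVariables false

namespace Claimed.Agent.R289

open Relation Set Metric Claims.C0465
open scoped ComplexConjugate

/-! ## 1. the run of a link `pin → door` at the numbers of record, arms in the T form -/

section rec

variable {Y : Set ℂ} {h : DelGood Y} {P : PlTri ↥Y} {K : Set Y} {σ : Y → Bool} {κ : ℂ → Bool} {c u : ℂ} {R₀ δ q dl ρl rt ρ Sp lam : ℝ} {Rm : Bool → Set ℂ}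

/-- **FIRST LINK AT THE NUMBERS OF RECORD, CORNER SAFE** (`pvdd_pat_o` of 228 at `Pvge2Rec` of 298) -/
theorem pvo3_rec_o (hP : P = delPl h) {a₀ : P.Dart} (h0 : pvasBW P.toMap σ a₀) (hu : ‖u‖ = 1)
    (foot : ∀ GN GC : Bool → Set ℂ, (∀ β, PvhjArmT Y κ β ((starRingEnd ℂ) u) c rt ρ (R₀ / 4) β (GN β) (GC β) (pvge2Cl c u β (pvge2Aa R₀ β) (23 * R₀ / 200) (3 * R₀ / 20) dl)) → PvhjFootP P σ κ K a₀ GN)
    (hK : K.Finite) (hco : ∀ u v, u ∉ K → v ∉ K → P.toMap.Join univ Kᶜ u v) (g : P.toMap.Gate σ) (hne : P.toMap.src a₀ ≠ g.vm)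
    (hO : ∃ f, P.toMap.src f ∉ K ∧ P.toMap.DJoin (pvldBar P.toMap σ K a₀ g.aIn) (P.toMap.opp a₀) f)
    (Rc : Pvge2Rec R₀ δ q dl ρl rt (2 * ρ) Sp lam) (hρ0 : 0 ≤ ρ) (he : rt + 2 * ρ < 21 * R₀ / 200)
    (hev : cfOf Y κ ∈ pvkqPat dl (pvge2PatRec c u true true R₀ q Sp lam))
    (hρl : dl / 16 ≤ ρl) (hdS : ∀ β, VorDense Y (pvge2Cl c u β (pvge2Aa R₀ β) (23 * R₀ / 200) (3 * R₀ / 20) dl) ρl)
    (mid : ∀ β, ∀ v : Y, (vorCell Y v ∩ pvge4Lane c u β R₀ q Sp (pvge2Aa R₀ β) (pvge2Lm lam β)).Nonempty → v ∈ K ∧ σ v = κ v)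
    (hroom : ∀ β, ∀ w ∈ Rm β, pvge2S c u w < Sp - 13 * q / 4 → pvge2Lm lam β + q / 2 ≤ pvge2T c u β w ∧ pvge2T c u β w ≤ pvge2Lm lam β + 3 * q / 2)
    (hH : ∀ β, ∃ v : Y, pvge2S c u (v : ℂ) ≤ Sp - 15 * q / 4 ∧ P.toMap.Join univ (pvldCol σ {u : Y | (u : ℂ) ∈ Rm β} β) (pvhiEnd P.toMap β g.aIn) v)
    (hfoot : ∀ β, Sp - 13 * q / 4 ≤ pvge2S c u ((pvhiEnd P.toMap β g.aIn : Y) : ℂ))
    (hRm : ∀ β, ∀ v : Y, (v : ℂ) ∈ Rm β → v ∈ K ∧ vorCell Y v ⊆ closedBall (v : ℂ) (q / 16))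
    (hRκ : ∀ β, ∀ v : Y, (v : ℂ) ∈ Rm β → pvge2S c u (v : ℂ) < Sp - 13 * q / 4 → σ v = κ v) :
    PvldRun P.toMap σ K a₀ g.aIn := by
  have h1' := Rc.δ0; have h3 := Rc.fine; have h4 := Rc.mesh; have h5 := Rc.dl0; have h9 := abs_le.1 Rc.lat; have h10 := Rc.qδ; have h11 := Rc.q0
  refine pvdd_pat_o (sd := fun β => β) (aa := pvge2Aa R₀) (ll := fun β => pvge2Lm lam β + q / 4) (l0 := fun β => pvge2Lm lam β + q / 2) (l1 := fun β => pvge2Lm lam β + 3 * q / 2) (sc := Sp - 13 * q / 4) (ρd := q / 16)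
    hP h0 hu foot hK hco g hne hO Rc.num Rc.bar hρ0 he (fun β => ?_) hρl hdS mid (by linarith) (by linarith) hroom
    (fun β => by show pvge2Lm lam β + q / 4 + 3 / 2 * dl + q / 16 ≤ pvge2Lm lam β + q / 2; linarith) (fun β => ?_) (fun β => ?_) hfoot hRm hRκ
  · have := pvge2_patRec_ev hev β
    cases β <;> exact this
  · show pvge2Lm lam β + 3 * q / 2 + q / 16 + 3 / 2 * dl ≤ pvge2Aa R₀ β
    cases β <;> simp only [pvge2Lm, pvge2Aa, if_true, if_false, Bool.false_eq_true] <;> linarith [h9.1, h9.2]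
  · obtain ⟨v, hv, hj⟩ := hH β
    exact ⟨v, by linarith, hj⟩

end rec

/-! ## 2. a link `pin → door type plug` of `Tr/InstL` at the pattern of record: the regions, the plain success -/

/-- **ALL THAT DET OWES TO THE REGIONS OF A LINK `pin → door` AT THE PATTERN OF RECORD** (no configuration, no state).   `W` = the window (mesh `μ` at the final configuration), `Fr` = the FRESH part (copy colours),
frame of the mouth: centre `c`, OUTER normal `u`;   numbers of record `R₀ q dl Sp lam` (`Pvge2Rec`);   `Rm β`, `Dr β` = placed room and target of the half lane of colour `β` of the ENTRANCE side of the plug. -/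
structure Pvo3Lay (L : PvilLk) (N : PvwNum) (W Fr : Set ℂ) (μ : ℝ) (c u : ℂ) (R₀ q dl Sp lam : ℝ) (Rm Dr : Bool → Set ℂ) : Prop where
  mu : 0 < μ
  muq : μ ≤ q / 16
  bdd : Bornology.IsBounded L.Yin
  co : IsPreconnected L.Yinᶜ
  /-- the lanes of record: deep in the window, deep in the room, in the fresh part -/
  laneW : ∀ β, pvge4Lane c u β R₀ q Sp (pvge2Aa R₀ β) (pvge2Lm lam β) ⊆ pvtrCore (4 * μ) W
  laneY : ∀ β, vorNbd (pvge4Lane c u β R₀ q Sp (pvge2Aa R₀ β) (pvge2Lm lam β)) (2 * μ) ⊆ L.Yin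
  laneF : ∀ β, vorNbd (pvge4Lane c u β R₀ q Sp (pvge2Aa R₀ β) (pvge2Lm lam β)) μ ⊆ Fr
  /-- the closing sets of the arms -/
  clW : ∀ β, pvge2Cl c u β (pvge2Aa R₀ β) (23 * R₀ / 200) (3 * R₀ / 20) dl ⊆ pvtrCore μ W
  /-- the rooms of the two half lanes of the plug -/
  roomW : ∀ β, Rm β ⊆ pvtrCore (3 * μ) W
  roomY : ∀ β, vorNbd (Rm β) μ ⊆ L.Yin
  roomF : ∀ β, ∀ w ∈ Rm β, pvge2S c u w < Sp - 13 * q / 4 → w ∈ Fr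
  roomT : ∀ β, ∀ w ∈ Rm β, pvge2S c u w < Sp - 13 * q / 4 → pvge2Lm lam β + q / 2 ≤ pvge2T c u β w ∧ pvge2T c u β w ≤ pvge2Lm lam β + 3 * q / 2
  tgt : ∀ β, ∀ w ∈ Dr β, pvge2S c u w ≤ Sp - 15 * q / 4
  ftS : ∀ w ∈ ball L.p'.z (pvkdP L.p'.h).b, Sp - 13 * q / 4 ≤ pvge2S c u w
  /-- the room of the link is off the disc of the core of the pin -/
  gp : ∀ w ∈ L.Yin, L.p.ty.b * L.p.h ≤ ‖w - L.p.z‖
  offBox : Disjoint (ball L.p'.z (pvkdP L.p'.h).b) (pvhaBx N L.p)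

section lk

variable {L : PvilLk} {N : PvwNum} {W Fr : Set ℂ} {μ : ℝ} {c u : ℂ} {R₀ δ q dl ρl rt ρ Sp lam : ℝ} {Rm Dr : Bool → Set ℂ} {b : Bool} {η : Conf PvPt}

/-- **THE PLAIN SUCCESS OF A LINK `pin → door type plug` AT THE PATTERN OF RECORD** at ONE configuration `η` -/
theorem pvo3_A_pd (Λ : Pvo3Lay L N W Fr μ c u R₀ q dl Sp lam Rm Dr) (h0 : L.dr = false) (h1 : L.dr' = true) (hf : PvhgFr L.p.fr) (hu : ‖u‖ = 1)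
    (Rc : Pvge2Rec R₀ δ q dl ρl rt (2 * ρ) Sp lam) (hρ0 : 0 ≤ ρ) (he : rt + 2 * ρ < 21 * R₀ / 200) (hρl : dl / 16 ≤ ρl) (hμl : μ ≤ ρl)
    (hgood : DelGood (pvieY η)) (hm : PvtrMesh μ W (pvieY η)) {g : (pvieT η).Gate (pvieCol η b)}
    (hd : PvilDoor (pvkdP L.p'.h) b η L.p'.z L.p'.fr (pvilStS (pvkdP L.p'.h) η (pvieCol η b) L.p'.z g))
    (hg : PvzlGt (pvieT η) Subtype.val (pvieCol η b) ((pvkdP L.p'.h).pg L.p'.z L.p'.fr) g)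
    (hH : ∀ β, ∃ v : ↥(pvieY η), (v : ℂ) ∈ Dr β ∧ (pvieT η).Join univ (pvldCol (pvieCol η b) {u | (u : ℂ) ∈ Rm β} β) (pvkdFoot g false β) v)
    {𝔖 : PvwSt (pvieT η)} (hp : PvilOut N b L.p η 𝔖) (htK : (pvieT η).src (𝔖.ep 𝔖.np) ∈ pvgeKV (pvieY η) L.Yinᶜ) {κ : ℂ → Bool}
    (hev : cfOf (pvieY η) κ ∈ pvkqPat dl (pvge2PatRec c u true true R₀ q Sp lam)) (hfr : ∀ v : ↥(pvieY η), (v : ℂ) ∈ Fr → pvieCol η b v = κ v)
    (foot : ∀ GN GC : Bool → Set ℂ,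
      (∀ β, PvhjArmT (pvieY η) κ β ((starRingEnd ℂ) u) c rt ρ (R₀ / 4) β (GN β) (GC β) (pvge2Cl c u β (pvge2Aa R₀ β) (23 * R₀ / 200) (3 * R₀ / 20) dl)) →
      PvhjFootP (delbPl (pvieY η)) (pvieCol η b) κ (pvgeKV (pvieY η) L.Yinᶜ) (𝔖.ep 𝔖.np) GN) :
    η ∈ L.A N b := by
  have hμ := Λ.mu
  obtain ⟨k1, k2⟩ := pvhj_K_pl (h := hgood) (delb_pl_eq hgood) Λ.co (by rw [compl_compl]; exact Λ.bdd)
  have st := pvha_stp_pin hp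
  have hbw : pvasBW (pvieT η) (pvieCol η b) (𝔖.ep 𝔖.np) := pvwk_ep_bw hp.st.stub hp.st.gate.bw_p le_rfl
  have hvm : ((g.vm : ↥(pvieY η)) : ℂ) ∈ ball L.p'.z (pvkdP L.p'.h).b := pvho_foot_rim hg.least.reg true
  have hgK : 𝔖.gp ∉ pvgeKV (pvieY η) L.Yinᶜ := fun hK => absurd (pvhg_il_gp_disc hf hp) (not_lt.2 (Λ.gp _ (pvhg_KV_over hK)))
  have hbk : ∀ v ∈ 𝔖.bkP, g.vm ≠ v := by
    rintro v ⟨i, hi, rfl⟩ e
    exact disjoint_left.1 Λ.offBox hvm (e ▸ (st.ep_in i hi).1)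
  have hrun : PvldRun (pvieT η) (pvieCol η b) (pvgeKV (pvieY η) L.Yinᶜ) (𝔖.ep 𝔖.np) g.aIn := by
    refine pvo3_rec_o (h := hgood) (Rm := Rm) (delb_pl_eq hgood) hbw hu foot k1 k2 g ?_ ?_ Rc hρ0 he hev hρl (fun β => pvdd_dense_of hm (Λ.clW β) hμl) (fun β => ?_) Λ.roomT (fun β => ?_) (fun β => ?_) (fun β => ?_) (fun β v hv hs => hfr v (Λ.roomF β v hv hs))
    · intro e
      exact hbk _ ⟨𝔖.np, le_rfl, rfl⟩ e.symm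
    · exact pvhj_out_stubT st hp.st.gate.bw_p htK hgK (pvtg_aIn_bw g) fun hb => hbk _ hb rfl
    · exact pvdd_mid_of hμ hm (Λ.laneW β) (Set.disjoint_compl_right_iff_subset.2 (Λ.laneY β)) (fun v hv => hfr v (Λ.laneF β hv))
    · obtain ⟨v, hv, hj⟩ := hH β
      rw [pvho_foot_eq] at hj
      exact ⟨v, Λ.tgt β _ hv, hj⟩
    · exact Λ.ftS _ (pvho_foot_rim hg.least.reg β)
    · intro v hv
      obtain ⟨a1, a2⟩ := pvdd_room_of hμ hm (Λ.roomW β) (Set.disjoint_compl_right_iff_subset.2 (Λ.roomY β)) v hv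
      exact ⟨a1, a2.trans (closedBall_subset_closedBall Λ.muq)⟩
  exact pvha_A_pd (K := pvgeKV (pvieY η) L.Yinᶜ) h0 h1 hp hd hgK (fun v hv => pvhg_KV_over hv) hrun

end lk

/-! ## 3. at the model: the first link `t → door plug` -/

section model

variable {τ : Type} {c : ℝ} {𝔓 : PvxPar τ c} {𝔈 : PvieEng τ} {m : ℕ} {ε : ℝ} {z : ℂ} {t : τ} {η₀ η : Conf PvPt} {w : ∀ η : Conf PvPt, (delbPl (pvieY η)).Dart → ℂ} {T : PvjeTest}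
  {𝔭 : PvkdPlug} {𝔱 : PvhfTr} {s : ℝ}

/-- the fresh colours off the own-level box -/
theorem pvo3_fresh {E : PvjeEnd} (hFz : E.Fz η₀ = pvilFo 𝔓 m z t η₀) (hb : (𝔓.ty t).b * pvlmH m ≤ pviwRad 𝔓 m t) {𝔖₀ : PvwSt (pvieT η₀)} (h₀ : PvilOut 𝔓.num (𝔓.col t) (pvilPin 𝔓 m z t) η₀ 𝔖₀)
    {κ₀ : ℂ → Bool} (hκ : ∀ v ∈ cfSites η, v ∈ E.K ∪ E.y η₀ → cfCol η v = κ₀ v) (v : ↥(pvieY η)) (hv : (v : ℂ) ∈ (E.M ∪ E.K) \ pvwSq z (pviwRad 𝔓 m t)) :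
    pvieCol η (𝔓.col t) v = (κ₀ v == 𝔓.col t) := by
  show (cfCol η (v : ℂ) == 𝔓.col t) = (κ₀ v == 𝔓.col t)
  rw [hκ v v.2 ?_]
  rcases hv.1 with h | h
  · refine Or.inr ⟨h, fun hz => hv.2 ?_⟩
    rw [hFz] at hz
    have hz' : (v : ℂ) ∈ pvilFzO 𝔓.num (𝔓.col t) (pvilPin 𝔓 m z t) η₀ := hz
    rw [pvfc7_fzO (by show ‖(1 : ℂ)‖ = 1; exact norm_one) h₀] at hz'
    obtain ⟨x, hx, e⟩ := hz'
    rw [← e]
    exact pvfc7_fzO_box rfl hb h₀ x hx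
  · exact Or.inl h

/-- **`PvjeDet.ev` OF THE FIRST LINK `o`: THE PLAIN SUCCESS AND THE HULL.**
REGIONS: `Λ` (window `:= mouth ∪ tile ∪ region of the door plug`, mesh `pvilMu`, fresh part `:= (mouth ∪ tile) \ own-level box`, rooms and targets `:=` the placed truncated rooms of the ENTRANCE side of the plug `𝔭.sc s = pvkdP (pvilRd 𝔓 m)`), `mouth`.
TESTS: `hℋ` (the side event is the placed `S⁻` of 174), `hpat` (the copy pattern is the pattern of record of 298).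
CERTIFICATE AT THE BASE: `hMc`.      AT `η`: the mesh of the window (leaf (b6)). -/
theorem pvo3_link_o (n : PvhoNum 𝔓) (hL : PvegLev 𝔓 m) (hT : pviwTyOk 𝔓 t) (hf : 10000 * pvlmDel c m ≤ pvegR 𝔓 m) (h3 : 0 < 𝔓.num.rho3)
    (hc : ∀ x ∈ 𝔓.cp t, ‖x - (𝔓.ty t).yp‖ ≤ 𝔓.num.rho / 10) (Wf : (pvjeO 𝔓 𝔈 w m ε z t).Wf ε) (hM : 𝔈.oM m t = pvegOM 𝔓 m t)
    (hb : (𝔓.ty t).b * pvlmH m ≤ pviwRad 𝔓 m t) (hr : pvilMu 𝔓 m / 20 < (𝔓.ty t).b * pvlmH m)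
    (hK : Disjoint (𝔈.oK m t) (pviwBox 𝔓 m t)) (hD : Disjoint (pviwDo 𝔓 𝔈 m ε t) (pviwBox 𝔓 m t))
    (Λ : Pvo3Lay (pvilLo 𝔓 𝔈 m z t) 𝔓.num (pvieSh z (𝔈.oM m t) ∪ pvieSh z (𝔈.oK m t) ∪ pvieDoor 𝔈 m ε (pvieZo 𝔓 m z t) ((𝔓.Γ m).dout t)) ((pvieSh z (𝔈.oM m t) ∪ pvieSh z (𝔈.oK m t)) \ pvwSq z (pviwRad 𝔓 m t))
      (pvilMu 𝔓 m) (z + pvegYp 𝔓 m t) ((𝔓.Γ m).dout t) (pvegR 𝔓 m) (pvge3Q c m) (pvge3Dl c m) (pvegS (pvegYp 𝔓 m t) ((𝔓.Γ m).dout t) ((𝔓.Γ m).pout t)) (pvge2Sg true * pvegL (pvegYp 𝔓 m t) ((𝔓.Γ m).dout t) ((𝔓.Γ m).pout t))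
      (fun β => pvkdAt (pvieZo 𝔓 m z t) ((𝔓.Γ m).dout t * s) (𝔱.Ln false β)) (fun β => pvkdAt (pvieZo 𝔓 m z t) ((𝔓.Γ m).dout t * s) (𝔱.Dr false β)))
    (mouth : closedBall (z + pvegYp 𝔓 m t) (pvegR 𝔓 m / 4 + 5 * (pvilMu 𝔓 m / 20)) ⊆ pvieSh z (𝔈.oY m t))
    (hG : PvhfGeo 𝔭 𝔱) (hs : 0 < s) (hsc : 𝔭.sc s = pvkdP (pvilRd 𝔓 m)) (hℋ : ∀ η ∈ T.ℋ, pvdpT (pvieZo 𝔓 m z t) ((𝔓.Γ m).dout t * s) (𝔓.col t) η ∈ pvhfS 𝔭 𝔱 false)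
    (hpat : T.𝒦 ⊆ pvkqPat (pvge3Dl c m) (pvge3PatO 𝔓 m z t)) (hMc : η₀ ∈ pvj0Mc 𝔓 m z t)
    {𝔖₀ : PvwSt (pvieT η₀)} (h₀ : PvilOut 𝔓.num (𝔓.col t) (pvilPin 𝔓 m z t) η₀ 𝔖₀) (hF : PvjeFin (pvjeO 𝔓 𝔈 w m ε z t) T η₀ η)
    (hmesh : η ∈ pvilMs 𝔓 m (pvilWno 𝔓 𝔈 m ε z t (pvilZo 𝔓 m z t η₀))) :
    η ∈ (pvilLo 𝔓 𝔈 m z t).A 𝔓.num (𝔓.col t) ∧ pvilZo 𝔓 m z t η = pvilZo 𝔓 m z t η₀ := by
  obtain ⟨m1, m2, m3⟩ := pvho_mu hL h3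
  have hδ := pvlm_Del_pos c m
  have hR : pvegR 𝔓 m = 𝔓.num.rho * pvlmH m := rfl
  have hμ0 : 0 < pvilMu 𝔓 m / 20 := by linarith
  obtain ⟨𝔖, tw, hp, -, eZ⟩ := pvfc7_fin_o hμ0 (by linarith) hb hr hK hD (pvho_cert_box n hL z hMc) h₀ hF
  obtain ⟨κ₀, hκ, hcol⟩ := hF.copy
  have hdn : ‖(𝔓.Γ m).dout t‖ = 1 := pvge3_u_o hL hT
  obtain ⟨g, hsd⟩ := pvyo_side hG false hdn hs hF.one hF.nice.good (hℋ η hF.side)
  have hd := hsd.door hG hF.nice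
  have hgate := hsd.gate
  rw [hsc] at hd hgate
  have hW : pvieSh z (𝔈.oM m t) ∪ pvieSh z (𝔈.oK m t) ∪ pvieDoor 𝔈 m ε (pvieZo 𝔓 m z t) ((𝔓.Γ m).dout t) ⊆ pvilWno 𝔓 𝔈 m ε z t (pvilZo 𝔓 m z t η₀) := by
    rintro v ((hv | hv) | hv)
    · exact Or.inl (Or.inl (Or.inr hv))
    · exact Or.inl (Or.inr hv)
    · exact Or.inr hv
  have mesh0 := pvho_cert_o n hT z (μ := pvilMu 𝔓 m / 20) (by linarith) hMc
  have hMe := pvho_M_o (w := w) (ε := ε) (z := z) hM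
  have hinK : ∀ v : ↥(pvieY η), ‖(v : ℂ) - (𝔓.ty t).cp (pvlmH m) z‖ < pvegR 𝔓 m / 4 + 4 * (pvilMu 𝔓 m / 20) → v ∈ pvgeKV (pvieY η) (pvilLo 𝔓 𝔈 m z t).Yinᶜ := by
    intro v hv
    refine pvho_inK_room hμ0 mouth (pvho_fin_mesh Wf hF (pvho_dense_mono mesh0 ?_) ?_) v hv
    · obtain ⟨s1, s2, s3, s0⟩ := pvho_small n m
      linarith
    · rw [hMe]
      exact closedBall_subset_closedBall (by linarith)
  have htK : (pvieT η).src (𝔖.ep 𝔖.np) ∈ pvgeKV (pvieY η) (pvilLo 𝔓 𝔈 m z t).Yinᶜ := by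
    refine hinK _ ?_
    have h1 := pvho_cell hc (pvlm_H_pos m) hp.tip
    have h2 : ‖((pvieT η).src (𝔖.ep 𝔖.np) : ℂ) - (𝔓.ty t).cp (pvlmH m) z‖ ≤ 𝔓.num.rho / 10 * pvlmH m := h1
    have h3 : 𝔓.num.rho / 10 * pvlmH m = 𝔓.num.rho * pvlmH m / 10 := by ring
    have h4 : 0 < pvegR 𝔓 m := by linarith
    linarith
  refine ⟨?_, eZ⟩
  refine pvo3_A_pd (η := η) (b := 𝔓.col t) (g := g) (κ := fun v => κ₀ v == 𝔓.col t) (δ := pvlmDel c m) (ρl := pvlmDel c m / 1000) (rt := pvegR 𝔓 m / 10 + 4 * (pvilMu 𝔓 m / 20)) (ρ := pvilMu 𝔓 m / 20)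
    Λ rfl rfl (Or.inl rfl) (pvge3_u_o hL hT) (pvge3_rec_o hL hT hf (by linarith) (by linarith) (by linarith) (by linarith)) hμ0.le (by linarith) (by unfold pvge3Dl; linarith) (by linarith)
    hF.nice.good (VorDense.mono hmesh Subset.rfl (pvtr_core_mono hW) le_rfl) hd hgate (fun β => ?_) hp htK (pvw8_patRec_rel (hpat hκ)) (pvo3_fresh rfl hb h₀ hcol) (fun GN GC A => ?_)
  · cases β
    · exact hsd.white
    · exact hsd.black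
  · exact pvho_foot_out n hL hT hc Wf hMe rfl hμ0 (by linarith) (rs := pvegR 𝔓 m / 4) le_rfl (by linarith) le_rfl (by linarith) mesh0 h₀ hF tw hcol hinK A

end model

end Claimed.Agent.R289
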