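-- KEEP
import Claimed.Agent.R289.Tr.HookOL
import Claimed.Agent.R289.Tr.HookOM

/-!
# Row 289 (S0537), THE WALL, ROAD E, E10 (b3) DET, LINK o, file Tr/HookOLay : **THE REGION RECORD OF THE FIRST LINK IS PAID**: `Pvo3Lay` (26, `Tr/HookOM`) AT THE ROOM OF RECORD `pvegOYc`      (helper71; prefix `pvhw8_`)

0 sorry.   ANY ENGINE `𝔈` with the four equations `hM : 𝔈.oM m t = pvegOM 𝔓 m t`, `hK : 𝔈.oK m t = pvegOKa 𝔓 O₀ m t`, `hY : 𝔈.oY m t = pvegOYc 𝔓 m t`, `hO : (𝔈.kit m ε).O₀ = O₀ m` (`rfl` at the engine of record after L2), door region `O₀ m ⊆ pvccSq 0 (13 q / 4)`,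
ANY truncation of the entrance side with `Pvge5Side r₀ false Ln Dr` (298: `pvge5_side_T _Tw _P`), scale `s`, `q = s r₀`.
* **`pvhw8_lay`** : `Pvo3Lay ..` VERBATIM the hypothesis `Λ` of `pvo3_link_o`;   `pvhw8_lay_mouth` : its hypothesis `mouth`
-/

set_option autoImplicit false
set_option linter.unusedSectionVars false
set_option linter.unusedVariables false

namespace Claimed.Agent.R289

open Set Metric Complex Claims.C0465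

section lay

variable {τ : Type} {c : ℝ} {𝔓 : PvxPar τ c} {m : ℕ} {t : τ} {𝔈 : PvieEng τ} {O₀ : ℕ → Set ℂ} {ε : ℝ} {r₀ s : ℝ} {Ln Dr : Bool → Set ℂ}

/-- the room lies in mouth ∪ tile ∪ door region -/
theorem pvhw8_win3 (hL : PvegLev 𝔓 m) (h0 : 0 ≤ pvilMu 𝔓 m) (hM : 𝔈.oM m t = pvegOM 𝔓 m t) (hK : 𝔈.oK m t = pvegOKa 𝔓 O₀ m t) (hO : (𝔈.kit m ε).O₀ = O₀ m) (z : ℂ) :
    pvieSh z (pvegOYc 𝔓 m t) ⊆ pvieSh z (𝔈.oM m t) ∪ pvieSh z (𝔈.oK m t) ∪ pvieDoor 𝔈 m ε (pvieZo 𝔓 m z t) ((𝔓.Γ m).dout t) := by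
  rintro _ ⟨w, hw, rfl⟩
  rw [hM, hK]
  rcases pvey_oYc_sub hL h0 O₀ t hw with (h | h) | h
  · exact Or.inl (Or.inl ⟨w, h, rfl⟩)
  · exact Or.inl (Or.inr ⟨w, h, rfl⟩)
  · refine Or.inr ?_
    unfold pvieDoor pvieZo
    rw [hO, ← pvge3_sh_sim]
    exact ⟨w, h, rfl⟩

/-- off the box with its collar ⟹ off the box -/
theorem pvhw8_fr_mono (𝔓 : PvxPar τ c) (m : ℕ) (z : ℂ) (t : τ) (A : Set ℂ) : A \ pvilBx 𝔓 m z t ⊆ A \ pvwSq z (pviwRad 𝔓 m t) := by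
  rintro v ⟨h1, h2⟩
  refine ⟨h1, fun hb => h2 ?_⟩
  have hδ := pvlm_Del_pos c m
  have hb' : |(v - z).re| ≤ pvwRad 𝔓.num (pvlmH m) (𝔓.ty t) (𝔓.ty t).k ∧ |(v - z).im| ≤ pvwRad 𝔓.num (pvlmH m) (𝔓.ty t) (𝔓.ty t).k := hb
  exact ⟨by linarith [hb'.1], by linarith [hb'.2]⟩

/-- the disc of the gate of the door plug -/
theorem pvhw8_gate_ball (𝔓 : PvxPar τ c) (m : ℕ) (z : ℂ) (t : τ) {w : ℂ} (hw : w ∈ ball (pvieZo 𝔓 m z t) (pvkdP (pvilRd 𝔓 m)).b) : ‖w - pvieZo 𝔓 m z t‖ < pvlmDel c m / 20 := by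
  rw [mem_ball, dist_eq_norm] at hw
  have e : (pvkdP (pvilRd 𝔓 m)).b = 2 * (pvlmDel c m / 40) := rfl
  rw [e] at hw
  linarith

/-- (ftS) the disc of the gate lies beyond the cut plane -/
theorem pvhw8_gate_cut (hL : PvegLev 𝔓 m) (hT : pviwTyOk 𝔓 t) (z : ℂ) {w : ℂ} (hw : w ∈ ball (pvieZo 𝔓 m z t) (pvkdP (pvilRd 𝔓 m)).b) :
    pvegS (pvegYp 𝔓 m t) ((𝔓.Γ m).dout t) ((𝔓.Γ m).pout t) - 13 * pvge3Q c m / 4 ≤ pvge2S (z + pvegYp 𝔓 m t) ((𝔓.Γ m).dout t) w := by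
  have h1 := pvhw8_gate_ball 𝔓 m z t hw
  have hδ := pvlm_Del_pos c m
  have h2 := abs_le.1 (pvge2_S_lip (pvge3_u_o hL hT) (z + pvegYp 𝔓 m t) w (pvieZo 𝔓 m z t))
  have eS : pvge2S (z + pvegYp 𝔓 m t) ((𝔓.Γ m).dout t) (pvieZo 𝔓 m z t) = pvegS (pvegYp 𝔓 m t) ((𝔓.Γ m).dout t) ((𝔓.Γ m).pout t) := pvge3_S_sh _ _ _ _
  rw [eS] at h2
  have hq : pvge3Q c m = pvlmDel c m / 40 := rfl
  rw [hq]
  linarith [h2.1]

/-- (roomT) before the cut plane the rooms are strips -/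
theorem pvhw8_room_strip (hL : PvegLev 𝔓 m) (hT : pviwTyOk 𝔓 t) (G : Pvge5Side r₀ false Ln Dr) (hs : 0 < s) (hq : pvge3Q c m = s * r₀) (z : ℂ) (β : Bool) :
    ∀ w ∈ pvkdAt (pvieZo 𝔓 m z t) ((𝔓.Γ m).dout t * s) (Ln β), pvge2S (z + pvegYp 𝔓 m t) ((𝔓.Γ m).dout t) w < pvegS (pvegYp 𝔓 m t) ((𝔓.Γ m).dout t) ((𝔓.Γ m).pout t) - 13 * pvge3Q c m / 4 →
      pvge2Lm (pvge2Sg true * pvegL (pvegYp 𝔓 m t) ((𝔓.Γ m).dout t) ((𝔓.Γ m).pout t)) β + pvge3Q c m / 2 ≤ pvge2T (z + pvegYp 𝔓 m t) ((𝔓.Γ m).dout t) β w ∧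
      pvge2T (z + pvegYp 𝔓 m t) ((𝔓.Γ m).dout t) β w ≤ pvge2Lm (pvge2Sg true * pvegL (pvegYp 𝔓 m t) ((𝔓.Γ m).dout t) ((𝔓.Γ m).pout t)) β + 3 * pvge3Q c m / 2 := by
  intro w hw hx
  have eS : pvge2S (z + pvegYp 𝔓 m t) ((𝔓.Γ m).dout t) (pvieZo 𝔓 m z t) = pvegS (pvegYp 𝔓 m t) ((𝔓.Γ m).dout t) ((𝔓.Γ m).pout t) := pvge3_S_sh _ _ _ _
  have eT : pvge2T (z + pvegYp 𝔓 m t) ((𝔓.Γ m).dout t) true (pvieZo 𝔓 m z t) = pvge2Sg true * pvegL (pvegYp 𝔓 m t) ((𝔓.Γ m).dout t) ((𝔓.Γ m).pout t) := by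
    rw [pvge3_T]; unfold pvieZo; rw [pvge3_L_sh]
  have h := pvge5_room (Yc := z + pvegYp 𝔓 m t) (p := pvieZo 𝔓 m z t) G hs (pvge5_k_o (pvge3_dd_o hL hT)) (sd := fun β => β) (fun β => by simp [pvge5E]) β w hw (by rw [eS, ← hq]; exact hx)
  rw [pvge5_Lm_o, eT, ← hq] at h
  exact h

/-- (tgt) the targets lie before the bars -/
theorem pvhw8_tgt (hL : PvegLev 𝔓 m) (hT : pviwTyOk 𝔓 t) (G : Pvge5Side r₀ false Ln Dr) (hs : 0 < s) (hq : pvge3Q c m = s * r₀) (z : ℂ) (β : Bool) :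
    ∀ w ∈ pvkdAt (pvieZo 𝔓 m z t) ((𝔓.Γ m).dout t * s) (Dr β), pvge2S (z + pvegYp 𝔓 m t) ((𝔓.Γ m).dout t) w ≤ pvegS (pvegYp 𝔓 m t) ((𝔓.Γ m).dout t) ((𝔓.Γ m).pout t) - 15 * pvge3Q c m / 4 := by
  intro w hw
  have eS : pvge2S (z + pvegYp 𝔓 m t) ((𝔓.Γ m).dout t) (pvieZo 𝔓 m z t) = pvegS (pvegYp 𝔓 m t) ((𝔓.Γ m).dout t) ((𝔓.Γ m).pout t) := pvge3_S_sh _ _ _ _
  have h := pvge5_tgt (Yc := z + pvegYp 𝔓 m t) (p := pvieZo 𝔓 m z t) G hs (pvge5_k_o (pvge3_dd_o hL hT)) β w hw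
  rw [eS, ← hq] at h
  have := pvge3_q_pos c m
  linarith

/-- **THE REGION RECORD OF 26 AT THE ROOM OF RECORD**: VERBATIM the hypothesis `Λ` of `pvo3_link_o` -/
theorem pvhw8_lay (n : PvhoNum 𝔓) (hL : PvegLev 𝔓 m) (hT : pviwTyOk 𝔓 t) (hf : 10000 * pvlmDel c m ≤ pvegR 𝔓 m) (hμ0 : 0 < pvilMu 𝔓 m)
    (hM : 𝔈.oM m t = pvegOM 𝔓 m t) (hK : 𝔈.oK m t = pvegOKa 𝔓 O₀ m t) (hY : 𝔈.oY m t = pvegOYc 𝔓 m t) (hO : (𝔈.kit m ε).O₀ = O₀ m) (hO' : O₀ m ⊆ pvccSq 0 (13 * pvge3Q c m / 4))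
    (G : Pvge5Side r₀ false Ln Dr) (hs : 0 < s) (hq : pvge3Q c m = s * r₀) (z : ℂ) :
    Pvo3Lay (pvilLo 𝔓 𝔈 m z t) 𝔓.num (pvieSh z (𝔈.oM m t) ∪ pvieSh z (𝔈.oK m t) ∪ pvieDoor 𝔈 m ε (pvieZo 𝔓 m z t) ((𝔓.Γ m).dout t)) ((pvieSh z (𝔈.oM m t) ∪ pvieSh z (𝔈.oK m t)) \ pvwSq z (pviwRad 𝔓 m t))
      (pvilMu 𝔓 m) (z + pvegYp 𝔓 m t) ((𝔓.Γ m).dout t) (pvegR 𝔓 m) (pvge3Q c m) (pvge3Dl c m) (pvegS (pvegYp 𝔓 m t) ((𝔓.Γ m).dout t) ((𝔓.Γ m).pout t)) (pvge2Sg true * pvegL (pvegYp 𝔓 m t) ((𝔓.Γ m).dout t) ((𝔓.Γ m).pout t))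
      (fun β => pvkdAt (pvieZo 𝔓 m z t) ((𝔓.Γ m).dout t * s) (Ln β)) (fun β => pvkdAt (pvieZo 𝔓 m z t) ((𝔓.Γ m).dout t * s) (Dr β)) := by
  have hδ := pvlm_Del_pos c m
  have hμ := pvey_mu_le (𝔓 := 𝔓) m
  have hq2 : pvge3Q c m = pvlmDel c m / 40 := rfl
  have hW := pvhw8_win3 (ε := ε) hL hμ0.le hM hK hO z
  have eY : (pvilLo 𝔓 𝔈 m z t).Yin = pvieSh z (pvegOYc 𝔓 m t) := by
    show pvieSh z (𝔈.oY m t) = _
    rw [hY]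
  exact
    { mu := hμ0
      muq := by rw [hq2]; linarith
      bdd := by rw [eY]; exact pvhw8_bdd hL hμ0.le hT z
      co := by rw [eY]; exact pvhw8_co hL hμ0.le hT z
      laneW := fun β => pvhw8_core_win hW (pvhw8_lane_core hL hT hf (σ := 4 * pvilMu 𝔓 m) (by linarith) β z) le_rfl
      laneY := fun β => by rw [eY]; exact pvhw8_nbd_of_core (pvhw8_lane_core hL hT hf (by linarith) β z)
      laneF := fun β v hv => by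
        rw [hM, hK]
        exact pvhw8_fr_mono 𝔓 m z t _ (pvhw8_lane_fr hL hT hf hO' (by rw [hq2]; linarith) β z hv).1
      clW := fun β => pvhw8_core_win hW (pvhw8_Cl_core hL hT hf hμ0.le (by linarith) β z) le_rfl
      roomW := fun β => pvhw8_core_win hW (pvhw8_room_core hL hT G hs hq (σ := 3 * pvilMu 𝔓 m) (by linarith) β z) le_rfl
      roomY := fun β => by rw [eY]; exact pvhw8_nbd_of_core (pvhw8_room_core hL hT G hs hq (by linarith) β z)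
      roomF := fun β w hw hx => by
        rw [hM, hK]
        exact pvhw8_fr_mono 𝔓 m z t _ (pvhw8_room_fr hL hT hO' G hs hq β z w hw hx)
      roomT := fun β => pvhw8_room_strip hL hT G hs hq z β
      tgt := fun β => pvhw8_tgt hL hT G hs hq z β
      ftS := fun w hw => pvhw8_gate_cut hL hT z hw
      gp := fun w hw => by
        rw [eY] at hw
        exact pvey_sh_oYc_core n hL hμ0.le hT z w hw
      offBox := Set.disjoint_left.2 fun w hw => (pvhw8_door_far hL hT z (by have := pvhw8_gate_ball 𝔓 m z t hw; linarith)).2.1 }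

/-- the hypothesis `mouth` of `pvo3_link_o` -/
theorem pvhw8_lay_mouth (hf : 10000 * pvlmDel c m ≤ pvegR 𝔓 m) (hμ0 : 0 ≤ pvilMu 𝔓 m) (hY : 𝔈.oY m t = pvegOYc 𝔓 m t) (z : ℂ) :
    closedBall (z + pvegYp 𝔓 m t) (pvegR 𝔓 m / 4 + 5 * (pvilMu 𝔓 m / 20)) ⊆ pvieSh z (𝔈.oY m t) := by
  rw [hY]
  have hδ := pvlm_Del_pos c m
  have hμ := pvey_mu_le (𝔓 := 𝔓) m
  exact pvhw8_mouth hf t z (by linarith)

end lay

end Claimed.Agent.R289
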