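-- KEEP
import Claimed.Agent.R289.Tr.HookTA
import Claimed.Agent.R289.Tr.HookColD
import Claimed.Agent.R289.Tr.HookYL
import Claimed.Agent.R289.Tr.HookColF

/-!
# Row 289 (S0537), THE WALL, ROAD E, E10 AT THE HYBRID ENDS, (b3) DET, file Tr/HookTM : **ASSEMBLY OF `PvjeDet.ev` FOR A LINK `door type plug → pin`, D / U FORM = ALL TIP CELLS, CORNERS INCLUDED**      (helper66, pen of (b3) thick; prefix `pvhu_…D`, `Pvhu…D`)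

`Tr/HookTA` v1 asked `PvhuTipE.side` (the apex of the tip lies strictly in front of the side `ζ` of the own-level box): FALSE at corner tip cells (155, 23).      HERE: the same assembly on the D / U feet
(23 `Tr/HookYD` `PvhjEndD`, `PvhjArmT`, `Tr/HookYL` `pvhj_tip_rtD`; at the model 155 `Tr/HookColD` `pvid_foot_e`): `ζ` = a DOMINANT direction of `c - z` (door normal of the tip cell), the inequalities of the arm are asked TWICE (boxes `re (ζ c) ∓ e₀`).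
ALSO: the bar across a half lane may be run from below (`PvhrDoorReg` of 228) OR from above (`PvhtDoorRegM` of 165).
* sec. 1  `pvhu_slot_rtM`, **`PvhuDoorRegD`**, `pvhu_foot_doorD`, `pvhu_feetD`, `pvhu_flink_oD`, `pvhu_flink_iD`
* sec. 2  **`PvhuLayD`** = ALL THAT DET OWES TO THE REGIONS OF A LINK `door → pin`;   **`pvhu_A_dpD`**
* sec. 3  **`PvhuTipD`** (numbers and regions at the tip of `e`), **`pvhu_ev_eD`** : `PvjeFin (pvjeE 𝔓 𝔈 w m ε z t) T η₀ η` + certificates at the base + mesh of the window at `η` ⟹ `η ∈ pvilMe 𝔓 𝔈 m z t (pvilZi 𝔓 m z t η₀)`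
0 SORRY.
-/

set_option autoImplicit false
set_option linter.unusedSectionVars false
set_option linter.unusedVariables false

namespace Claimed.Agent.R289

open Relation Set Metric Claims.C0465
open scoped ComplexConjugate

/-! ## 1. the two ends, model free -/

section slot

variable {Y : Set ℂ}

/-- **THE DOOR END, ROUTE FORM, ROOM IN TWO PIECES, BAR RUN FROM ABOVE**, the copy colours asked only BEYOND `xs` -/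
theorem pvhu_slot_rtM (h : DelGood Y) {σ : Y → Bool} {κ : ℂ → Bool} {β : Bool} {Rm : Set ℂ} {f v : Y} (hH : (delMap h).Join univ (pvldCol σ {u : Y | (u : ℂ) ∈ Rm} β) f v)
    {ζ : ℂ} (hζ : ‖ζ‖ = 1) {δ ρ xs xa xb y0 y1 : ℝ} (hκ : ∀ u : Y, (u : ℂ) ∈ Rm → xs < (ζ * (u : ℂ)).re → σ u = κ u) (hcell : ∀ u : Y, (u : ℂ) ∈ Rm → vorCell Y u ⊆ closedBall (u : ℂ) ρ)
    {e : Set ℂ × ℂ × ℂ} (hcore : PvkqCore δ e.1 e.2.1 e.2.2) (D : PvhtDoorRegM ζ δ ρ xa xb y0 y1 (Rm ∩ {w | xs < (ζ * w).re}) e) (hxs : xs + 2 * ρ ≤ xa) (hρ : 0 < ρ) (hab : xa ≤ xb)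
    (hf : (ζ * (f : ℂ)).re ≤ xa) (hv : xb ≤ (ζ * (v : ℂ)).re)
    {xe : ℂ} (hxe : ∀ k ∈ pvkqL δ e.1 e.2.1 e.2.2, PvlnHub (pvlnReg β (cfOf Y κ)) (pvkqU δ e.1 e.2.1 e.2.2) δ k xe) :
    ∃ x0 ∈ pvhjV Y κ β (pathComponentIn (pvlnReg β (cfOf Y κ) ∩ pvkqU δ e.1 e.2.1 e.2.2) xe), (delMap h).Join univ (pvldCol σ {u : Y | (u : ℂ) ∈ Rm} β) f x0 := by
  obtain ⟨f', j1, j2, j3⟩ := pvht_far h hH hζ hcell hxs hf (by linarith)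
  obtain ⟨x0, hx0, j0⟩ := pvht_slot_M0 h j2 (fun u hu => hκ u hu.1 hu.2) hζ (fun u hu => hcell u hu.1) hcore D j3 hv hxe
  exact ⟨x0, hx0, j1.1, j1.2.trans (ReflTransGen.mono (fun a b hab => ⟨hab.1, hab.2.1.1, hab.2.2⟩) _ _ j0.2)⟩

end slot

/-- **THE DOOR SIDE OF THE TWO ROUTES** (inequalities on regions; picture turned by `ζd`).   `B` = the disc of the gate (it contains the feet of the half lanes), `Rm β` = room, `Dr β` = target of the half lane of colour `β`,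
`eD β` = the leg ACROSS the part of the room beyond `xs β`, run from below OR from above -/
structure PvhuDoorRegD (ζd : ℂ) (δ ρd : ℝ) (B : Set ℂ) (Rm Dr : Bool → Set ℂ) (eD : Bool → Set ℂ × ℂ × ℂ) (xs xa xb y0 y1 : Bool → ℝ) : Prop where
  nz : ‖ζd‖ = 1
  rho : 0 < ρd
  reg : ∀ β, PvhrDoorReg ζd δ ρd (xa β) (xb β) (y0 β) (y1 β) (Rm β ∩ {w | xs β < (ζd * w).re}) (eD β) ∨ PvhtDoorRegM ζd δ ρd (xa β) (xb β) (y0 β) (y1 β) (Rm β ∩ {w | xs β < (ζd * w).re}) (eD β)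
  sa : ∀ β, xs β + 2 * ρd ≤ xa β
  ab : ∀ β, xa β ≤ xb β
  foot : ∀ β, ∀ w ∈ B, (ζd * w).re ≤ xa β
  tgt : ∀ β, ∀ w ∈ Dr β, xb β ≤ (ζd * w).re

section feet

variable {Y : Set ℂ} {h : DelGood Y} {K : Set Y} {ζ : ℂ} {σ : Y → Bool} {κ : ℂ → Bool} {Sg : Bool → Set ℂ} {rt ρ e₀ rs : ℝ} {c : ℂ} {up : Bool → Bool}
  {δ ρl : ℝ} {eC eN eD : Bool → Set ℂ × ℂ × ℂ} {t : Bool → List (Set ℂ × ℂ × ℂ)} {jN jS : Bool → ℕ} {ζd : ℂ} {ρd : ℝ} {xs xa xb y0 y1 : Bool → ℝ} {B : Set ℂ} {Rm Dr : Bool → Set ℂ} {at_ ad : DelDart h}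

/-- **THE FOOT AT A DOOR, L-SHAPED ROOMS, BARS RUN EITHER WAY** -/
theorem pvhu_foot_doorD (h : DelGood Y) {ad : DelDart h} {G : Bool → Set ℂ} (hcore : ∀ β, PvkqCore δ (eD β).1 (eD β).2.1 (eD β).2.2)
    (hleg : ∀ β, ∃ xe : ℂ, (∀ k ∈ pvkqL δ (eD β).1 (eD β).2.1 (eD β).2.2, PvlnHub (pvlnReg β (cfOf Y κ)) (pvkqU δ (eD β).1 (eD β).2.1 (eD β).2.2) δ k xe) ∧
      pathComponentIn (pvlnReg β (cfOf Y κ) ∩ pvkqU δ (eD β).1 (eD β).2.1 (eD β).2.2) xe ⊆ G β)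
    (D : PvhuDoorRegD ζd δ ρd B Rm Dr eD xs xa xb y0 y1)
    (hH : ∀ β, ∃ v : Y, (v : ℂ) ∈ Dr β ∧ (delMap h).Join univ (pvldCol σ {u : Y | (u : ℂ) ∈ Rm β} β) (pvhiEnd (delMap h) β ad) v)
    (hfoot : ∀ β, ((pvhiEnd (delMap h) β ad : Y) : ℂ) ∈ B)
    (hRm : ∀ β, ∀ u : Y, (u : ℂ) ∈ Rm β → u ∈ K ∧ vorCell Y u ⊆ closedBall (u : ℂ) ρd) (hκ : ∀ β, ∀ u : Y, (u : ℂ) ∈ Rm β → xs β < (ζd * (u : ℂ)).re → σ u = κ u) : PvhjFoot h σ κ K ad G := by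
  intro β
  obtain ⟨xe, hxe, hG⟩ := hleg β
  obtain ⟨v, hv, hj⟩ := hH β
  have hsub : pvldCol σ {u : Y | (u : ℂ) ∈ Rm β} β ⊆ pvldCol σ K β := fun u hu => ⟨(hRm β u hu.1).1, hu.2⟩
  rcases D.reg β with R | R
  · obtain ⟨x0, hx0, j0⟩ := pvhu_slot_rt h hj D.nz (hκ β) (fun u hu => (hRm β u hu).2) (hcore β) R (D.sa β) D.rho (D.ab β) (D.foot β _ (hfoot β)) (D.tgt β _ hv) hxe
    exact ⟨x0, pvhj_V_mono κ β hG hx0, pl_hx_join_mono Subset.rfl hsub j0⟩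
  · obtain ⟨x0, hx0, j0⟩ := pvhu_slot_rtM h hj D.nz (hκ β) (fun u hu => (hRm β u hu).2) (hcore β) R (D.sa β) D.rho (D.ab β) (D.foot β _ (hfoot β)) (D.tgt β _ hv) hxe
    exact ⟨x0, pvhj_V_mono κ β hG hx0, pl_hx_join_mono Subset.rfl hsub j0⟩

/-- **THE TWO FEET AND THE LANES OF A HYBRID LINK, ALL TIP CELLS** -/
theorem pvhu_feetD (foot : ∀ GN GC : Bool → Set ℂ, (∀ β, PvhjArmT Y κ β ζ c rt ρ rs (up β) (GN β) (GC β) (Sg β)) → PvhjFoot h σ κ K at_ GN)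
    (hδ : 0 < δ) (hr : ∀ β, PvkqRoute δ (eC β :: eN β :: t β)) (hev : ∀ β, cfOf Y κ ∈ pvkqRtEv δ β (eC β :: eN β :: t β)) (hρ0 : 0 ≤ ρ) (he : rt + 2 * ρ < e₀)
    (R₁ : ∀ β, PvhzArmReg ζ ((ζ * c).re - e₀) ((ζ * c).im - rt) ((ζ * c).im + rt) (2 * ρ) c rs ρl (up β) (eN β).1 (eC β).1 (Sg β))
    (R₂ : ∀ β, PvhzArmReg ζ ((ζ * c).re + e₀) ((ζ * c).im - rt) ((ζ * c).im + rt) (2 * ρ) c rs ρl (up β) (eN β).1 (eC β).1 (Sg β))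
    (hρl : δ / 16 ≤ ρl) (hdS : ∀ β, VorDense Y (Sg β) ρl) (hjN : ∀ β, jN β < 4) (hjS : ∀ β, jS β < 4)
    (hSN : ∀ β, pvhzSd δ (pvkqCell δ (eN β).2.2) (jN β) ⊆ Sg β) (hSS : ∀ β, pvhzSd δ (pvkqCell δ (eC β).2.1) (jS β) ⊆ Sg β)
    (mid : ∀ β, ∀ v : Y, (vorCell Y v ∩ pvkqRtR (eN β :: t β)).Nonempty → v ∈ K ∧ σ v = κ v)
    (hD : ∀ β, eD β ∈ eN β :: t β) (D : PvhuDoorRegD ζd δ ρd B Rm Dr eD xs xa xb y0 y1)
    (hH : ∀ β, ∃ v : Y, (v : ℂ) ∈ Dr β ∧ (delMap h).Join univ (pvldCol σ {u : Y | (u : ℂ) ∈ Rm β} β) (pvhiEnd (delMap h) β ad) v)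
    (hfoot : ∀ β, ((pvhiEnd (delMap h) β ad : Y) : ℂ) ∈ B)
    (hRm : ∀ β, ∀ u : Y, (u : ℂ) ∈ Rm β → u ∈ K ∧ vorCell Y u ⊆ closedBall (u : ℂ) ρd) (hκ : ∀ β, ∀ u : Y, (u : ℂ) ∈ Rm β → xs β < (ζd * (u : ℂ)).re → σ u = κ u) :
    ∃ GN G : Bool → Set ℂ, PvhjFoot h σ κ K at_ GN ∧ PvhjFoot h σ κ K ad G ∧ PvhjMid Y σ κ K G ∧ ∀ β, GN β ⊆ G β := by
  have T := fun β => pvhj_tip_rtD h.lf κ hδ (hr β) (hev β) hρ0 he (R₁ β) (R₂ β) hρl (hdS β) (hjN β) (hjS β) (hSN β) (hSS β)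
  choose GN GC G hA hsub hconn hcov hreg hleg using T
  exact ⟨GN, G, foot GN GC hA, pvhu_foot_doorD h (fun β => (hr β).1 _ (List.mem_cons_of_mem _ (hD β))) (fun β => hleg β (eD β) (hD β)) D hH hfoot hRm hκ,
    ⟨hconn, hcov, fun β v hv => mid β v (hv.mono (inter_subset_inter_right _ (hreg β)))⟩, hsub⟩

end feet

section flink

variable {Y : Set ℂ} {h : DelGood Y} {P : PlTri ↥Y} {K : Set Y} {ζ : ℂ} {σ : Y → Bool} {κ : ℂ → Bool} {Sg : Bool → Set ℂ} {rt ρ e₀ rs : ℝ} {c : ℂ} {up : Bool → Bool}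
  {δ ρl : ℝ} {eC eN eD : Bool → Set ℂ × ℂ × ℂ} {t : Bool → List (Set ℂ × ℂ × ℂ)} {jN jS : Bool → ℕ} {ζd : ℂ} {ρd : ℝ} {xs xa xb y0 y1 : Bool → ℝ} {B : Set ℂ} {Rm Dr : Bool → Set ℂ}

/-- **HOOK-DET, LINK `pin → door`, FOOT FORM, ALL TIP CELLS, ANY PRESENTATION** -/
theorem pvhu_flink_oD (hP : P = delPl h) {a₀ : P.Dart} (h0 : pvasBW P.toMap σ a₀)
    (foot : ∀ GN GC : Bool → Set ℂ, (∀ β, PvhjArmT Y κ β ζ c rt ρ rs (up β) (GN β) (GC β) (Sg β)) → PvhjFootP P σ κ K a₀ GN)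
    (hK : K.Finite) (hco : ∀ u v, u ∉ K → v ∉ K → P.toMap.Join univ Kᶜ u v) (g : P.toMap.Gate σ) (hne : P.toMap.src a₀ ≠ g.vm)
    (hO : ∃ f, P.toMap.src f ∉ K ∧ P.toMap.DJoin (pvldBar P.toMap σ K a₀ g.aIn) (P.toMap.opp a₀) f)
    (hδ : 0 < δ) (hr : ∀ β, PvkqRoute δ (eC β :: eN β :: t β)) (hev : ∀ β, cfOf Y κ ∈ pvkqRtEv δ β (eC β :: eN β :: t β)) (hρ0 : 0 ≤ ρ) (he : rt + 2 * ρ < e₀)
    (R₁ : ∀ β, PvhzArmReg ζ ((ζ * c).re - e₀) ((ζ * c).im - rt) ((ζ * c).im + rt) (2 * ρ) c rs ρl (up β) (eN β).1 (eC β).1 (Sg β))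
    (R₂ : ∀ β, PvhzArmReg ζ ((ζ * c).re + e₀) ((ζ * c).im - rt) ((ζ * c).im + rt) (2 * ρ) c rs ρl (up β) (eN β).1 (eC β).1 (Sg β))
    (hρl : δ / 16 ≤ ρl) (hdS : ∀ β, VorDense Y (Sg β) ρl) (hjN : ∀ β, jN β < 4) (hjS : ∀ β, jS β < 4)
    (hSN : ∀ β, pvhzSd δ (pvkqCell δ (eN β).2.2) (jN β) ⊆ Sg β) (hSS : ∀ β, pvhzSd δ (pvkqCell δ (eC β).2.1) (jS β) ⊆ Sg β)
    (mid : ∀ β, ∀ v : Y, (vorCell Y v ∩ pvkqRtR (eN β :: t β)).Nonempty → v ∈ K ∧ σ v = κ v)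
    (hD : ∀ β, eD β ∈ eN β :: t β) (D : PvhuDoorRegD ζd δ ρd B Rm Dr eD xs xa xb y0 y1)
    (hH : ∀ β, ∃ v : Y, (v : ℂ) ∈ Dr β ∧ P.toMap.Join univ (pvldCol σ {u : Y | (u : ℂ) ∈ Rm β} β) (pvhiEnd P.toMap β g.aIn) v)
    (hfoot : ∀ β, ((pvhiEnd P.toMap β g.aIn : Y) : ℂ) ∈ B)
    (hRm : ∀ β, ∀ u : Y, (u : ℂ) ∈ Rm β → u ∈ K ∧ vorCell Y u ⊆ closedBall (u : ℂ) ρd) (hκ : ∀ β, ∀ u : Y, (u : ℂ) ∈ Rm β → xs β < (ζd * (u : ℂ)).re → σ u = κ u) :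
    PvldRun P.toMap σ K a₀ g.aIn := by
  subst hP
  obtain ⟨GN, G, J₀, J₁, hG, hsub⟩ := pvhu_feetD (at_ := a₀) (ad := g.aIn) foot hδ hr hev hρ0 he R₁ R₂ hρl hdS hjN hjS hSN hSS mid hD D hH hfoot hRm hκ
  exact pvhj_run_foot h hK h0 (pvtg_aIn_bw g) hne hco hO J₀ J₁ hG hsub fun _ => Subset.rfl

/-- **HOOK-DET, LINK `door → pin`, FOOT FORM, ALL TIP CELLS, ANY PRESENTATION** -/
theorem pvhu_flink_iD (hP : P = delPl h) {a₁ : P.Dart} (h1 : pvasBW P.toMap σ a₁)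
    (foot : ∀ GN GC : Bool → Set ℂ, (∀ β, PvhjArmT Y κ β ζ c rt ρ rs (up β) (GN β) (GC β) (Sg β)) → PvhjFootP P σ κ K a₁ GN)
    (hK : K.Finite) (hco : ∀ u v, u ∉ K → v ∉ K → P.toMap.Join univ Kᶜ u v) (g : P.toMap.Gate σ) (hne : g.vp ≠ P.toMap.src a₁)
    (hO : ∃ f, P.toMap.src f ∉ K ∧ P.toMap.DJoin (pvldBar P.toMap σ K g.aOut a₁) (P.toMap.opp g.aOut) f)
    (hδ : 0 < δ) (hr : ∀ β, PvkqRoute δ (eC β :: eN β :: t β)) (hev : ∀ β, cfOf Y κ ∈ pvkqRtEv δ β (eC β :: eN β :: t β)) (hρ0 : 0 ≤ ρ) (he : rt + 2 * ρ < e₀)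
    (R₁ : ∀ β, PvhzArmReg ζ ((ζ * c).re - e₀) ((ζ * c).im - rt) ((ζ * c).im + rt) (2 * ρ) c rs ρl (up β) (eN β).1 (eC β).1 (Sg β))
    (R₂ : ∀ β, PvhzArmReg ζ ((ζ * c).re + e₀) ((ζ * c).im - rt) ((ζ * c).im + rt) (2 * ρ) c rs ρl (up β) (eN β).1 (eC β).1 (Sg β))
    (hρl : δ / 16 ≤ ρl) (hdS : ∀ β, VorDense Y (Sg β) ρl) (hjN : ∀ β, jN β < 4) (hjS : ∀ β, jS β < 4)
    (hSN : ∀ β, pvhzSd δ (pvkqCell δ (eN β).2.2) (jN β) ⊆ Sg β) (hSS : ∀ β, pvhzSd δ (pvkqCell δ (eC β).2.1) (jS β) ⊆ Sg β)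
    (mid : ∀ β, ∀ v : Y, (vorCell Y v ∩ pvkqRtR (eN β :: t β)).Nonempty → v ∈ K ∧ σ v = κ v)
    (hD : ∀ β, eD β ∈ eN β :: t β) (D : PvhuDoorRegD ζd δ ρd B Rm Dr eD xs xa xb y0 y1)
    (hH : ∀ β, ∃ v : Y, (v : ℂ) ∈ Dr β ∧ P.toMap.Join univ (pvldCol σ {u : Y | (u : ℂ) ∈ Rm β} β) (pvhiEnd P.toMap β g.aOut) v)
    (hfoot : ∀ β, ((pvhiEnd P.toMap β g.aOut : Y) : ℂ) ∈ B)
    (hRm : ∀ β, ∀ u : Y, (u : ℂ) ∈ Rm β → u ∈ K ∧ vorCell Y u ⊆ closedBall (u : ℂ) ρd) (hκ : ∀ β, ∀ u : Y, (u : ℂ) ∈ Rm β → xs β < (ζd * (u : ℂ)).re → σ u = κ u) :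
    PvldRun P.toMap σ K g.aOut a₁ := by
  subst hP
  obtain ⟨GN, G, J₁, J₀, hG, hsub⟩ := pvhu_feetD (at_ := a₁) (ad := g.aOut) foot hδ hr hev hρ0 he R₁ R₂ hρl hdS hjN hjS hSN hSS mid hD D hH hfoot hRm hκ
  exact pvhj_run_foot h hK (pvtg_aOut_bw g) h1 (fun e => hne ((pvtg_aOut_src g).symm.trans e)) hco hO J₀ J₁ hG (fun _ => Subset.rfl) hsub

end flink

/-! ## 2. a link `door type plug → pin` of `Tr/InstL`: the regions, the plain success -/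

/-- **ALL THAT DET OWES TO THE REGIONS OF A LINK `door → pin`, ALL TIP CELLS** (no configuration, no state).   `W` = the window (mesh `μ` at the final configuration), `Fr` = the FRESH part (tile ∪ mouth off the own-level box: copy colours),
tip: side `ζ`, centre `c` of the tip cell, small mouth `rs`, mesh `ρ` of the big mouth at the base, radius `rt` of the tip face, `e₀` = half width of the band `|re (ζ (w - c))| ≤ e₀` which the arms and closing sets leave on the east, the backs of the C on the west;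
routes of the two colours listed FROM THE TIP `eC β :: eN β :: t β`, closing sets `Sg β`;      door: rooms `Rm β`, targets `Dr β` of the two half lanes of the exit side, legs `eD β` across the rooms. -/
structure PvhuLayD (L : PvilLk) (N : PvwNum) (W Fr : Set ℂ) (μ : ℝ) (ζ c : ℂ) (rs ρ rt e₀ ρl δ : ℝ)
    (eC eN eD : Bool → Set ℂ × ℂ × ℂ) (t : Bool → List (Set ℂ × ℂ × ℂ)) (Sg : Bool → Set ℂ) (jN jS : Bool → ℕ)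
    (ζd : ℂ) (Rm Dr : Bool → Set ℂ) (xs xa xb y0 y1 : Bool → ℝ) : Prop where
  mu : 0 < μ
  rho : 0 ≤ ρ
  bdd : Bornology.IsBounded L.Yin
  /-- (Rd) of RULING 22: no hole -/
  co : IsPreconnected L.Yinᶜ
  /-- (Rc) of RULING 22: the room with its collar lies in the window -/
  collar : ∀ v ∈ L.Yin, closedBall v (3 * μ) ⊆ W
  dl : 0 < δ
  route : ∀ β, PvkqRoute δ (eC β :: eN β :: t β)
  e0 : rt + 2 * ρ < e₀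
  arm₁ : ∀ β, PvhzArmReg ζ ((ζ * c).re - e₀) ((ζ * c).im - rt) ((ζ * c).im + rt) (2 * ρ) c rs ρl (!β) (eN β).1 (eC β).1 (Sg β)
  arm₂ : ∀ β, PvhzArmReg ζ ((ζ * c).re + e₀) ((ζ * c).im - rt) ((ζ * c).im + rt) (2 * ρ) c rs ρl (!β) (eN β).1 (eC β).1 (Sg β)
  rl : δ / 16 ≤ ρl
  mul : μ ≤ ρl
  sgW : ∀ β, Sg β ⊆ pvtrCore μ W
  jN4 : ∀ β, jN β < 4
  jS4 : ∀ β, jS β < 4
  sN : ∀ β, pvhzSd δ (pvkqCell δ (eN β).2.2) (jN β) ⊆ Sg β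
  sS : ∀ β, pvhzSd δ (pvkqCell δ (eC β).2.1) (jS β) ⊆ Sg β
  /-- the small mouth with its collar lies in the room -/
  mouth : closedBall c (rs + 4 * ρ + μ) ⊆ L.Yin
  /-- arm and middle legs: deep in the room, in the fresh part -/
  mid : ∀ β, ∀ w ∈ pvkqRtR (eN β :: t β), closedBall w (2 * μ) ⊆ L.Yin ∧ closedBall w μ ⊆ Fr
  leg : ∀ β, eD β ∈ eN β :: t β
  door : PvhuDoorRegD ζd δ μ (ball L.p.z (pvkdP L.p.h).b) Rm Dr eD xs xa xb y0 y1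
  room : ∀ β, ∀ w ∈ Rm β, closedBall w μ ⊆ L.Yin
  roomF : ∀ β, ∀ w ∈ Rm β, xs β < (ζd * w).re → w ∈ Fr
  /-- the room of `g⁻` of the plug is off the room of the link -/
  gm : ∀ w ∈ pvkdAt L.p.z L.p.fr (pvkdP L.p.h).Zm, w ∉ L.Yin
  offBox : Disjoint (ball L.p.z (pvkdP L.p.h).b) (pvhaBx N L.p')
  offTip : Disjoint (ball L.p.z (pvkdP L.p.h).b) L.p'.cm

section lk

variable {L : PvilLk} {N : PvwNum} {W Fr : Set ℂ} {μ : ℝ} {ζ c : ℂ} {rs ρ rt e₀ ρl δ : ℝ}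
  {eC eN eD : Bool → Set ℂ × ℂ × ℂ} {t : Bool → List (Set ℂ × ℂ × ℂ)} {Sg : Bool → Set ℂ} {jN jS : Bool → ℕ}
  {ζd : ℂ} {Rm Dr : Bool → Set ℂ} {xs xa xb y0 y1 : Bool → ℝ} {b : Bool} {η : Conf PvPt}

/-- **THE PLAIN SUCCESS OF A LINK `door type plug → pin`, ALL TIP CELLS** at ONE configuration `η`: general position, mesh of the window, the gate of record of the plug with the two half lanes of its exit side (173: `PvyoSd`), the entrance half state of the pin,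
a copy colouring `κ` (relative colours) with the two route events, `σ = κ` on the fresh part, THE FOOT at the tip for every family of arms (23 / 155) -/
theorem pvhu_A_dpD (Λ : PvhuLayD L N W Fr μ ζ c rs ρ rt e₀ ρl δ eC eN eD t Sg jN jS ζd Rm Dr xs xa xb y0 y1) (h0 : L.dr = true) (h1 : L.dr' = false)
    (hgood : DelGood (pvieY η)) (hm : PvtrMesh μ W (pvieY η)) {g : (pvieT η).Gate (pvieCol η b)}
    (hd : PvilDoor (pvkdP L.p.h) b η L.p.z L.p.fr (pvilStS (pvkdP L.p.h) η (pvieCol η b) L.p.z g))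
    (hg : PvzlGt (pvieT η) Subtype.val (pvieCol η b) ((pvkdP L.p.h).pg L.p.z L.p.fr) g)
    (hH : ∀ β, ∃ v : ↥(pvieY η), (v : ℂ) ∈ Dr β ∧ (pvieT η).Join univ (pvldCol (pvieCol η b) {u | (u : ℂ) ∈ Rm β} β) (pvkdFoot g true β) v)
    {𝔖' : PvwSt (pvieT η)} (hp : PvilIn N b L.p' η 𝔖') {κ : ℂ → Bool}
    (hev : ∀ β, cfOf (pvieY η) κ ∈ pvkqRtEv δ β (eC β :: eN β :: t β)) (hfr : ∀ v : ↥(pvieY η), (v : ℂ) ∈ Fr → pvieCol η b v = κ v)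
    (foot : ∀ (K : Set ↥(pvieY η)) (GN GC Sg' : Bool → Set ℂ),
      (∀ β, PvhjArmT (pvieY η) κ β ζ c rt ρ rs (!β) (GN β) (GC β) (Sg' β)) →
      (∀ v : ↥(pvieY η), ‖(v : ℂ) - c‖ < rs + 4 * ρ → v ∈ K) → PvhjFootP (delbPl (pvieY η)) (pvieCol η b) κ K (𝔖'.em 𝔖'.nm) GN) :
    η ∈ L.A N b := by
  have hμ := Λ.mu
  obtain ⟨k1, k2⟩ := pvhj_K_pl (h := hgood) (delb_pl_eq hgood) Λ.co (by rw [compl_compl]; exact Λ.bdd)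
  have hcell : ∀ v : ↥(pvieY η), (v : ℂ) ∈ L.Yin → vorCell (pvieY η) v ⊆ closedBall (v : ℂ) μ := fun v hv => pvhu_cell_ball hμ hm (Λ.collar v hv)
  have hinK : ∀ v : ↥(pvieY η), closedBall (v : ℂ) μ ⊆ L.Yin → v ∈ pvgeKV (pvieY η) L.Yinᶜ := fun v hv => pvhg_KV_iff.2 ((hcell v (hv (mem_closedBall_self hμ.le))).trans hv)
  have htip : ((pvieT η).src (𝔖'.em 𝔖'.nm) : ℂ) ∈ L.p'.cm := hp.tip
  have hbw : pvasBW (pvieT η) (pvieCol η b) (𝔖'.em 𝔖'.nm) := pvwk_em_bw hp.st.stub hp.st.gate.bw_m le_rfl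
  have hvp : ((g.vp : ↥(pvieY η)) : ℂ) ∈ ball L.p.z (pvkdP L.p.h).b := by
    have := pvhu_foot_rim hg.least.reg true
    rwa [show pvhiEnd (pvieT η) true g.aOut = g.vp from pvtg_aOut_src g] at this
  have hrun : PvldRun (pvieT η) (pvieCol η b) (pvgeKV (pvieY η) L.Yinᶜ) g.aOut (𝔖'.em 𝔖'.nm) := by
    refine pvhu_flink_iD (h := hgood) (delb_pl_eq hgood) hbw (fun GN GC A => foot _ GN GC Sg A fun v hv => hinK v ?_) k1 k2 g ?_ ?_ Λ.dl Λ.route hev Λ.rho Λ.e0 Λ.arm₁ Λ.arm₂ Λ.rl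
      (fun β => VorDense.mono hm Subset.rfl (Λ.sgW β) Λ.mul) Λ.jN4 Λ.jS4 Λ.sN Λ.sS ?_ Λ.leg Λ.door (fun β => ?_) (fun β => pvhu_foot_rim hg.least.reg β) ?_ ?_
    · exact (pvhu_ball_ball hv.le).trans Λ.mouth
    · intro e
      exact disjoint_left.1 Λ.offTip hvp (e ▸ htip)
    · refine pvhr_out_gt hg (fun hK => Λ.gm _ hg.vm (pvhg_KV_over hK)) hbw fun hl => ?_
      exact disjoint_left.1 Λ.offTip (hg.least.reg.outer _ hl) htip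
    · rintro β v ⟨w, hw1, hw2⟩
      obtain ⟨m1, m2⟩ := Λ.mid β w hw2
      have hwY : w ∈ L.Yin := m1 (mem_closedBall_self (by linarith))
      have hwc : w ∈ pvtrCore μ W := (closedBall_subset_closedBall (by linarith)).trans (Λ.collar w hwY)
      have hwv : ‖w - (v : ℂ)‖ ≤ μ := vor_site_near hm hw1 hwc
      have hvw : ‖(v : ℂ) - w‖ ≤ μ := by rwa [norm_sub_rev]
      refine ⟨hinK v (((pvhu_ball_ball hvw).trans (by rw [← two_mul])).trans m1), hfr v (m2 ?_)⟩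
      rwa [mem_closedBall, dist_eq_norm]
    · obtain ⟨v, hv, hj⟩ := hH β
      rw [pvhu_foot_eq] at hj
      exact ⟨v, hv, hj⟩
    · intro β u hu
      exact ⟨hinK u (Λ.room β u hu), hcell u (Λ.room β u hu (mem_closedBall_self hμ.le))⟩
    · intro β u hu hx
      exact hfr u (Λ.roomF β u hu hx)
  refine pvha_A_dp (K := pvgeKV (pvieY η) L.Yinᶜ) h0 h1 hd hp ?_ (fun v hv => pvhg_KV_over hv) hrun
  intro hbx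
  refine disjoint_left.1 Λ.offBox ?_ hbx
  show (((pvieT η).src g.aOut : ↥(pvieY η)) : ℂ) ∈ _
  rw [pvtg_aOut_src]
  exact hvp

end lk

/-! ## 3. at the model: the thick link `reference plug → t` -/

section tip

variable {Y₀ : Set ℂ} {h₀ : DelGood Y₀} {P₀ : PlTri ↥Y₀} {𝔖₀ : PvwSt P₀.toMap} {N : PvwNum} {hh : ℝ} {z : ℂ} {τ : PvwTy} {σ₀ : Y₀ → Bool} {K : Set Y₀} {r r₁ ρ rs rt : ℝ} {ζ : ℂ}

/-- `pvhj_endD_in` of 23, any presentation -/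
theorem pvhu_endD_in_pl (hP₀ : P₀ = delPl h₀) (ha : 𝔖₀.AtIn (dlsPos Y₀) N hh z τ σ₀) (E : PvhjEnd Y₀ N hh τ (τ.cm hh z) K r r₁ ρ rs) (ht1 : ‖(P₀.toMap.src (𝔖₀.em 𝔖₀.nm) : ℂ) - τ.cm hh z‖ + 2 * ρ ≤ rt)
    (hrt : 2 * rt + 5 * ρ ≤ r₁) (hbig : rt ≤ pvwRad N hh τ τ.k) (hζ : ζ ∈ pvtzdDir) (hdom : ∀ ζ' ∈ pvtzdDir, (ζ' * (τ.cm hh z - z)).re ≤ (ζ * (τ.cm hh z - z)).re) :
    PvhjEndD Y₀ N hh τ z (τ.cm hh z) K r r₁ ρ rs rt ζ := by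
  subst hP₀
  exact pvhj_endD_in ha E ht1 hrt hbig hζ hdom

/-- `pvhj_endD_out` of 23, any presentation -/
theorem pvhu_endD_out_pl (hP₀ : P₀ = delPl h₀) (ha : 𝔖₀.AtOut (dlsPos Y₀) N hh z τ σ₀) (E : PvhjEnd Y₀ N hh τ (τ.cp hh z) K r r₁ ρ rs) (ht1 : ‖(P₀.toMap.src (𝔖₀.ep 𝔖₀.np) : ℂ) - τ.cp hh z‖ + 2 * ρ ≤ rt)
    (hrt : 2 * rt + 5 * ρ ≤ r₁) (hbig : rt ≤ pvwRad N hh τ τ.k) (hζ : ζ ∈ pvtzdDir) (hdom : ∀ ζ' ∈ pvtzdDir, (ζ' * (τ.cp hh z - z)).re ≤ (ζ * (τ.cp hh z - z)).re) :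
    PvhjEndD Y₀ N hh τ z (τ.cp hh z) K r r₁ ρ rs rt ζ := by
  subst hP₀
  exact pvhj_endD_out ha E ht1 hrt hbig hζ hdom

/-- the far end of a dart whose near end lies deep in a meshed ball, any presentation      (165) -/
theorem pvhu_edge_pl (hP₀ : P₀ = delPl h₀) (d : P₀.Dart) {c : ℂ} {R : ℝ} (hρ : 0 < ρ) (hmesh : VorDense Y₀ (closedBall c R) ρ) (hs : ‖(P₀.toMap.src d : ℂ) - c‖ + 2 * ρ ≤ R) :
    ‖(P₀.toMap.tgt d : ℂ) - c‖ ≤ ‖(P₀.toMap.src d : ℂ) - c‖ + 2 * ρ := by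
  subst hP₀
  have h1 : ‖(((delMap h₀).src d : Y₀) : ℂ) - (((delMap h₀).tgt d : Y₀) : ℂ)‖ ≤ 2 * ρ := pvhg_adj_short hρ (pvhg_dense_sub hmesh hs) (dls_dart_adj d)
  show ‖(((delMap h₀).tgt d : Y₀) : ℂ) - c‖ ≤ ‖(((delMap h₀).src d : Y₀) : ℂ) - c‖ + 2 * ρ
  have e : (((delMap h₀).tgt d : Y₀) : ℂ) - c = ((((delMap h₀).src d : Y₀) : ℂ) - c) - ((((delMap h₀).src d : Y₀) : ℂ) - (((delMap h₀).tgt d : Y₀) : ℂ)) := by ring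
  calc ‖(((delMap h₀).tgt d : Y₀) : ℂ) - c‖ = ‖((((delMap h₀).src d : Y₀) : ℂ) - c) - ((((delMap h₀).src d : Y₀) : ℂ) - (((delMap h₀).tgt d : Y₀) : ℂ))‖ := by rw [← e]
    _ ≤ _ := (norm_sub_le _ _).trans (by linarith)

end tip

section model

variable {τ : Type} {c : ℝ}

/-- **THE NUMBERS AND REGIONS AT THE TIP OF THE THICK LINK, ALL TIP CELLS** (no configuration): mesh `μ₀` of the own-level box, mesh `μ'` of the mouth, numbers of the big mouth `r r₁ ρ`, small mouth `rs`, radius `rt` of the tip face, side `ζ` = a dominant direction of `c⁻ - z` -/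
structure PvhuTipD (𝔓 : PvxPar τ c) (𝔈 : PvieEng τ) (m : ℕ) (z : ℂ) (t : τ) (μ₀ μ' r r₁ ρ rs rt : ℝ) (ζ : ℂ) : Prop where
  mu0 : 0 < μ₀
  h3 : 3 * μ₀ ≤ pvlmDel c m
  hb : (𝔓.ty t).b * pvlmH m ≤ pviwRad 𝔓 m t
  hr : μ₀ < (𝔓.ty t).b * pvlmH m
  offK : Disjoint (𝔈.eK m t) (pviwBox 𝔓 m t)
  offD : Disjoint (pviwRo 𝔓 𝔈 m t) (pviwBox 𝔓 m t)
  MK : Disjoint (pvieSh z (𝔈.eM m t)) (pvieSh z (𝔈.eK m t))
  MD : Disjoint (pvieSh z (𝔈.eM m t)) (pvieSh (pvieZu 𝔓 m z t) (𝔈.rO m))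
  mu' : 0 < μ'
  num : PvhgEndNum 𝔓.num (pvlmH m) (𝔓.ty t) r r₁ ρ rs
  /-- THE TIP CELL (side `ρ h / 10` at the record) lies within `rt - 4ρ` of its centre.      [165: `ρ h / 4 + 2ρ ≤ rt` contradicts `arm₁ arm₂` at every C-shape inside the mouth `5 ρ h / 16`: the black end of the tip dart is read in the tip cell (`PvilIn.tip`), the white end is `2ρ` further] -/
  rt0 : ∀ w ∈ (pvilPin 𝔓 m z t).cm, ‖w - (𝔓.ty t).cm (pvlmH m) z‖ + 4 * ρ ≤ rt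
  rt1 : 2 * rt + 5 * ρ ≤ r₁
  big : rt ≤ pviwRad 𝔓 m t
  dir : ζ ∈ pvtzdDir
  /-- `ζ` is a dominant direction of (centre of the tip cell) - (centre of the pin)      [`pvhj_dom_of_sup`, `pvxr_side_dom`] -/
  dom : ∀ ζ' ∈ pvtzdDir, (ζ' * ((𝔓.ty t).cm (pvlmH m) z - z)).re ≤ (ζ * ((𝔓.ty t).cm (pvlmH m) z - z)).re
  ball : closedBall ((𝔓.ty t).cm (pvlmH m) z) (rs + 4 * ρ + 3 * μ') ⊆ pvieSh z (𝔈.eM m t)

variable {𝔓 : PvxPar τ c} {𝔈 : PvieEng τ} {m : ℕ} {ε : ℝ} {z : ℂ} {t : τ} {μ₀ μ' r r₁ ρ rs rt e₀ ρl δ : ℝ} {ζ : ℂ} {η₀ η : Conf PvPt} {w : ∀ η : Conf PvPt, (delbPl (pvieY η)).Dart → ℂ} {T : PvjeTest}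
  {eC eN eD : Bool → Set ℂ × ℂ × ℂ} {tt : Bool → List (Set ℂ × ℂ × ℂ)} {Sg : Bool → Set ℂ} {jN jS : Bool → ℕ} {ζd : ℂ} {xs xa xb y0 y1 : Bool → ℝ} {𝔭 : PvkdPlug} {𝔱 : PvhfTr} {s : ℝ}

/-- **`PvjeDet.ev` OF THE THICK LINK `e`, THE PLAIN SUCCESS AND THE HULL, ALL TIP CELLS.**
REGIONS: `Θ` (tip), `Λ` (link; window `:= mouth ∪ tile ∪ region of the plug`, mesh `pvilMu`, fresh part `:= (mouth ∪ tile) \ own-level box`, rooms and targets `:=` the placed truncated rooms of the exit side of the plug `𝔭.sc s = pvkdP (pvilRu 𝔈 m)`).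
TESTS: `hℋ` (the side event is the placed `S⁺` of 174), `hpat` (the copy pattern contains the two routes, relative colours: `pvw7_pat_col` of 88).
CERTIFICATES AT THE BASE: `hm hmM hbig`.      AT `η`: the mesh of the window (leaf (b6)). -/
theorem pvhu_ev_eD (Θ : PvhuTipD 𝔓 𝔈 m z t μ₀ μ' r r₁ ρ rs rt ζ)
    (Λ : PvhuLayD (pvilLe 𝔓 𝔈 m z t) 𝔓.num (pvieSh z (𝔈.eM m t) ∪ pvieSh z (𝔈.eK m t) ∪ pvieSh (pvieZu 𝔓 m z t) (𝔈.rO m)) ((pvieSh z (𝔈.eM m t) ∪ pvieSh z (𝔈.eK m t)) \ pvwSq z (pviwRad 𝔓 m t))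
      (pvilMu 𝔓 m) ζ ((𝔓.ty t).cm (pvlmH m) z) rs ρ rt e₀ ρl δ eC eN eD tt Sg jN jS ζd
      (fun β => pvkdAt (pvieZu 𝔓 m z t) (1 * s) (𝔱.Ln true β)) (fun β => pvkdAt (pvieZu 𝔓 m z t) (1 * s) (𝔱.Dr true β)) xs xa xb y0 y1)
    (hG : PvhfGeo 𝔭 𝔱) (hs : 0 < s) (hsc : 𝔭.sc s = pvkdP (pvilRu 𝔈 m)) (hℋ : ∀ η ∈ T.ℋ, pvdpT (pvieZu 𝔓 m z t) (1 * s) (𝔓.col t) η ∈ pvhfS 𝔭 𝔱 true)
    (hpat : ∀ (Y : Set ℂ) (κ : ℂ → Bool), cfOf Y κ ∈ T.𝒦 → ∀ β, cfOf Y (pvhcK κ (𝔓.col t)) ∈ pvkqRtEv δ β (eC β :: eN β :: tt β))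
    (hm : η₀ ∈ pvrgMesh μ₀ (pvieSh z (pviwBox 𝔓 m t))) (hmM : η₀ ∈ pvrgMesh μ' (pvieSh z (𝔈.eM m t)))
    (hbig : VorDense (cfSites η₀) (closedBall ((𝔓.ty t).cm (pvlmH m) z) (r + 3 * ρ)) ρ)
    {𝔖₀ : PvwSt (pvieT η₀)} (h₀ : PvilIn 𝔓.num (𝔓.col t) (pvilPin 𝔓 m z t) η₀ 𝔖₀) (hF : PvjeFin (pvjeE 𝔓 𝔈 w m ε z t) T η₀ η)
    (hmesh : η ∈ pvilMs 𝔓 m (pvilWne 𝔓 𝔈 m z t (pvilZi 𝔓 m z t η₀))) : η ∈ pvilMe 𝔓 𝔈 m z t (pvilZi 𝔓 m z t η₀) := by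
  have n := Θ.num
  have st := pvhc_st_in h₀
  have E : PvhjEnd (pvieY η₀) 𝔓.num (pvlmH m) (𝔓.ty t) ((𝔓.ty t).cm (pvlmH m) z) univ r r₁ ρ rs := ⟨n.rho, n.r2, n.r1, n.rr, hbig, n.far, n.rs0, n.rs1, n.rs2, fun _ _ => mem_univ _⟩
  have g0 : ‖((pvieT η₀).src (𝔖₀.em 𝔖₀.nm) : ℂ) - (𝔓.ty t).cm (pvlmH m) z‖ ≤ 𝔓.num.rho * pvlmH m / 4 := st.good.tip_m.1
  have g1 : ‖((pvieT η₀).src (𝔖₀.em 𝔖₀.nm) : ℂ) - (𝔓.ty t).cm (pvlmH m) z‖ + 4 * ρ ≤ rt := Θ.rt0 _ h₀.tip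
  have g2 : ‖((pvieT η₀).tgt (𝔖₀.em 𝔖₀.nm) : ℂ) - (𝔓.ty t).cm (pvlmH m) z‖ ≤ ‖((pvieT η₀).src (𝔖₀.em 𝔖₀.nm) : ℂ) - (𝔓.ty t).cm (pvlmH m) z‖ + 2 * ρ :=
    pvhu_edge_pl (delb_pl_eq h₀.good) _ n.rho hbig (show ‖((pvieT η₀).src (𝔖₀.em 𝔖₀.nm) : ℂ) - (𝔓.ty t).cm (pvlmH m) z‖ + 2 * ρ ≤ r + 3 * ρ by linarith [n.r1, n.rr, n.rho, n.rho0, g0])
  have g1' : ‖((pvieT η₀).src (𝔖₀.em 𝔖₀.nm) : ℂ) - (𝔓.ty t).cm (pvlmH m) z‖ + 2 * ρ ≤ rt := by linarith [n.rho]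
  have ED := pvhu_endD_in_pl (delb_pl_eq h₀.good) st E (rt := rt) g1' Θ.rt1 Θ.big Θ.dir Θ.dom
  obtain ⟨𝔖', -, hp, -, eZ, κ, hκ, -, hfr, foot⟩ := pvid_foot_e Θ.mu0 Θ.h3 Θ.hb Θ.hr Θ.offK Θ.offD hm h₀ hF Θ.MK Θ.MD Θ.mu' hmM ED g1' (by linarith) Θ.ball
  obtain ⟨g, hsd⟩ := pvyo_side hG true (d := 1) norm_one hs hF.one hF.nice.good (hℋ η hF.side)
  have hd := hsd.door hG hF.nice
  have hgate := hsd.gate
  rw [hsc] at hd hgate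
  have hW : pvieSh z (𝔈.eM m t) ∪ pvieSh z (𝔈.eK m t) ∪ pvieSh (pvieZu 𝔓 m z t) (𝔈.rO m) ⊆ pvilWne 𝔓 𝔈 m z t (pvilZi 𝔓 m z t η₀) := by
    rintro v ((hv | hv) | hv)
    · exact Or.inl (Or.inl (Or.inr hv))
    · exact Or.inl (Or.inr hv)
    · exact Or.inr hv
  refine ⟨⟨?_, eZ⟩, hmesh⟩
  refine pvhu_A_dpD (η := η) (b := 𝔓.col t) (g := g) (κ := pvhcK κ (𝔓.col t)) Λ rfl rfl hF.nice.good (VorDense.mono hmesh Subset.rfl (pvtr_core_mono hW) le_rfl) hd hgate (fun β => ?_) hp (hpat _ κ hκ)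
    (fun v hv => hfr v hv.1 hv.2) foot
  cases β
  · exact hsd.white
  · exact hsd.black

end model

end Claimed.Agent.R289
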