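import Claimed.Agent.R289.Tr.HookTE
import Claimed.Agent.R289.Tr.HookTM
import Claimed.Agent.R289.Tr.LinkME
import Claimed.Agent.R289.Tr.FrcDetO

/-!
# Row 289 (S0537), THE WALL, ROAD E, E10 (b3) DET OF LINK e, file Tr/HookTD : **THE DATA OF `PvetDet` (ONE DEF PER DATUM)** AND THE FIELDS OF 165      (helper165, pen of the data by order of 66 14:33Z; prefix `pvhtd`, `pvhtd_`)

`PvetDet 𝔓 𝔈 (pvetRtE 𝔓 m z t) m z t r r₁ ρ rs rt e₀ ρl ζ eC eN eD tt Sg jN jS ζd xs xa xb y0 y1` (66, `Exit/FrcT`) IS TO BE PAID AT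
  `r := pvhtdR 𝔓 m` `r₁ := pvhtdR1 𝔓 m` `ρ := pvhtdRho 𝔓 m` `rs := pvhtdRs 𝔓 m` `rt := pvhtdRt 𝔓 m` `e₀ := pvhtdE0 𝔓 m` `ρl := pvhtdRl 𝔓 m` `ζ := pvhtdZe 𝔓 t`
  `eC := pvhtdC 𝔓 m z t` `eN := pvhtdN 𝔓 m z t` `eD := pvhtdD 𝔓 m z t` `tt := pvhtdT 𝔓 m z t` `Sg := pvhtdSg 𝔓 m z t` `jN := fun _ => 0` `jS := fun _ => 0`
  `ζd := 1` `xs := fun _ => pvhtdXs 𝔓 m z t` `xa := fun _ => pvhtdXa 𝔓 m z t` `xb := fun _ => pvhtdXb 𝔓 m z t` `y0 := pvhtdY0 𝔓 m z t` `y1 := pvhtdY1 𝔓 m z t`.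
PICTURE (`R = pvegR = ρ h`, `Δ = pvehDl ∈ [R/16, R/14]`, `dl = Δ/512`, `μ = pvilMu ≤ δ/1000 ≤ R/1024000`, `u = I ^ pvxrB 𝔓 t`, `Y = z + pvegYm 𝔓 m t = c⁻`):
* tip: big mouth `r = ρ₂ h`, `r₁ = R/2`, mesh at the base `ρ = μ/40`, small mouth `rs = R/4`, tip face `rt = R/10 + 4ρ`, half band `e₀ = 21R/200`, mesh of the lanes `ρl = dl/16`
* `β` = colour RELATIVE to the strand; the route of `β` is on the side `!β` of the frame `(Y, u)` and on the side `β` of the corridor (offsets `> 0` for `β = true`), arm `a = pvhtdA β = 27R/200 (true), 4R/25 (false)`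
* door: frame `1`, abscissae counted from `Z = pvehZ Δ (z + zu) = z + zu + Δ/2`: cut `xs = re (z+zu) + 13Δ/80` (east side of `rO` of U4), bar `[xa, xb] = re Z - Δ (51/160 ± 1/128)`,
  the room of the half lane of `β` beyond the cut has the lateral offsets `[Δ/40, 3Δ/40]` on the side `β`; `[y0, y1]` = that interval fattened by `μ`
-/

set_option autoImplicit false
set_option linter.unusedSectionVars false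
set_option linter.unusedVariables false

namespace Claimed.Agent.R289

open Relation Set Metric Complex

/-! ## 1. THE DATA -/

section data

variable {τ : Type} {c : ℝ} (𝔓 : PvxPar τ c) (m : ℕ) (z : ℂ) (t : τ)

/-- `r` : the big mouth -/
noncomputable def pvhtdR : ℝ := 𝔓.num.rho2 * pvlmH m
/-- `r₁` -/
noncomputable def pvhtdR1 : ℝ := 𝔓.num.rho * pvlmH m / 2
/-- `ρ` : mesh of the big mouth at the base -/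
noncomputable def pvhtdRho : ℝ := pvilMu 𝔓 m / 40
/-- `rs` : the small mouth -/
noncomputable def pvhtdRs : ℝ := pvegR 𝔓 m / 4
/-- `rt` : radius of the tip face -/
noncomputable def pvhtdRt : ℝ := pvegR 𝔓 m / 10 + 4 * (pvilMu 𝔓 m / 40)
/-- `e₀` : half width of the band -/
noncomputable def pvhtdE0 : ℝ := 21 * pvegR 𝔓 m / 200
/-- `ρl` : mesh of the lanes -/
noncomputable def pvhtdRl : ℝ := pvehDl 𝔓 m / 8192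
/-- `ζ` : the side of the tip cell -/
noncomputable def pvhtdZe : ℂ := (starRingEnd ℂ) (I ^ pvxrB 𝔓 t)
/-- the half width of the C of the colour `β` -/
noncomputable def pvhtdA (β : Bool) : ℝ := if β then 27 * pvegR 𝔓 m / 200 else 4 * pvegR 𝔓 m / 25
/-- the lateral coordinate (frame of the mouth, side `!β`) of the line of the lane of the colour `β` -/
noncomputable def pvhtdLb (β : Bool) : ℝ := if β then pvmvLam 𝔓 m t false + pvehDl 𝔓 m * (21 / 256) else -pvmvLam 𝔓 m t false + pvehDl 𝔓 m * (21 / 256)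
/-- the first door of the corridor -/
noncomputable def pvhtdZ : ℂ := pvehZ (pvehDl 𝔓 m) (z + (pvxrGam 𝔓 m).zu t)

/-- `eC β` : the C -/
noncomputable def pvhtdC (β : Bool) : Set ℂ × ℂ × ℂ :=
  (pvge2RC (z + pvegYm 𝔓 m t) (I ^ pvxrB 𝔓 t) (!β) (pvhtdA 𝔓 m β) (pvegR 𝔓 m / 200) (23 * pvegR 𝔓 m / 200) (23 * pvegR 𝔓 m / 200),
    pvge2P (z + pvegYm 𝔓 m t) (I ^ pvxrB 𝔓 t) (!β) (23 * pvegR 𝔓 m / 200) (-pvhtdA 𝔓 m β), pvge2P (z + pvegYm 𝔓 m t) (I ^ pvxrB 𝔓 t) (!β) (23 * pvegR 𝔓 m / 200) (pvhtdA 𝔓 m β))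
/-- `eN β` : the arm of the lane -/
noncomputable def pvhtdN (β : Bool) : Set ℂ × ℂ × ℂ :=
  (pvge2RN (z + pvegYm 𝔓 m t) (I ^ pvxrB 𝔓 t) (!β) (pvhtdA 𝔓 m β) (pvegR 𝔓 m / 200) (23 * pvegR 𝔓 m / 200) (3 * pvegR 𝔓 m / 20),
    pvge2P (z + pvegYm 𝔓 m t) (I ^ pvxrB 𝔓 t) (!β) (23 * pvegR 𝔓 m / 200) (pvhtdA 𝔓 m β), pvge2P (z + pvegYm 𝔓 m t) (I ^ pvxrB 𝔓 t) (!β) (3 * pvegR 𝔓 m / 20) (pvhtdA 𝔓 m β))
/-- `tt β` : lane and bar of the mouth, corridor leg, bar in front of the plug -/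
noncomputable def pvhtdT (β : Bool) : List (Set ℂ × ℂ × ℂ) :=
  pvmvMid (z + pvegYm 𝔓 m t) (I ^ pvxrB 𝔓 t) (!β) (pvhtdA 𝔓 m β) (pvegR 𝔓 m / 200) (3 * pvegR 𝔓 m / 20) (pvmvSc 𝔓 m t - pvehDl 𝔓 m / 2 - pvehDl 𝔓 m * (1 / 2)) (pvehDl 𝔓 m / 100) (pvhtdLb 𝔓 m t β)
    (19 / 256) (23 / 256) (21 / 256) (51 / 160) (1 / 128) (1 / 100) (21 / 64) (51 / 100) (pvhtdZ 𝔓 m z t) (pvehDl 𝔓 m : ℂ) (pvxrLe (pvxrB 𝔓 t))
/-- `eD β` : the bar in front of the plug -/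
noncomputable def pvhtdD (β : Bool) : Set ℂ × ℂ × ℂ :=
  (pvmvBar (!(!β)) (23 / 256) (51 / 160) (1 / 128) (1 / 100) (pvhtdZ 𝔓 m z t) (pvehDl 𝔓 m : ℂ), pvljPt (pvhtdZ 𝔓 m z t) (pvehDl 𝔓 m : ℂ) (pvxrLe (pvxrB 𝔓 t)) 0 (-(51 / 160)) (pvge2Sg (!(!β)) * (21 / 256)),
    pvljPt (pvhtdZ 𝔓 m z t) (pvehDl 𝔓 m : ℂ) (pvxrLe (pvxrB 𝔓 t)) 0 (-(51 / 160)) (pvge2Sg (!(!β)) * (1 / 100)))
/-- `Sg β` : the closing set -/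
noncomputable def pvhtdSg (β : Bool) : Set ℂ :=
  pvge2Cl (z + pvegYm 𝔓 m t) (I ^ pvxrB 𝔓 t) (!β) (pvhtdA 𝔓 m β) (23 * pvegR 𝔓 m / 200) (3 * pvegR 𝔓 m / 20) (pvehDl 𝔓 m / 512)

/-- `xs` : the cut = the east side of the region `rO` of the reference plug (U4: `pvccSq 0 (13 Δ / 80)`) -/
noncomputable def pvhtdXs : ℝ := ((1 : ℂ) * pvhtdZ 𝔓 m z t).re - pvehDl 𝔓 m * (27 / 80)
/-- `xa` : west side of the bar -/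
noncomputable def pvhtdXa : ℝ := ((1 : ℂ) * pvhtdZ 𝔓 m z t).re - pvehDl 𝔓 m * (51 / 160 + 1 / 128)
/-- `xb` : east side of the bar -/
noncomputable def pvhtdXb : ℝ := ((1 : ℂ) * pvhtdZ 𝔓 m z t).re - pvehDl 𝔓 m * (51 / 160 - 1 / 128)
/-- `y0 β` -/
noncomputable def pvhtdY0 (β : Bool) : ℝ := ((1 : ℂ) * pvhtdZ 𝔓 m z t).im + pvmvLo (!(!β)) (pvehDl 𝔓 m / 40 - pvilMu 𝔓 m) (3 * pvehDl 𝔓 m / 40 + pvilMu 𝔓 m)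
/-- `y1 β` -/
noncomputable def pvhtdY1 (β : Bool) : ℝ := ((1 : ℂ) * pvhtdZ 𝔓 m z t).im + pvmvHi (!(!β)) (pvehDl 𝔓 m / 40 - pvilMu 𝔓 m) (3 * pvehDl 𝔓 m / 40 + pvilMu 𝔓 m)

theorem pvhtd_eqns_cite : True := by
  have := @pvhtdR.eq_1; have := @pvhtdR1.eq_1; have := @pvhtdRho.eq_1; have := @pvhtdRs.eq_1; have := @pvhtdRt.eq_1; have := @pvhtdE0.eq_1; have := @pvhtdRl.eq_1; have := @pvhtdZe.eq_1
  have := @pvhtdA.eq_1; have := @pvhtdLb.eq_1; have := @pvhtdZ.eq_1; have := @pvhtdC.eq_1; have := @pvhtdN.eq_1; have := @pvhtdT.eq_1; have := @pvhtdD.eq_1; have := @pvhtdSg.eq_1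
  have := @pvhtdXs.eq_1; have := @pvhtdXa.eq_1; have := @pvhtdXb.eq_1; have := @pvhtdY0.eq_1; have := @pvhtdY1.eq_1
  trivial

/-- **`mem`** : the two routes are the routes of the pattern of record, colours relative to the strand -/
theorem pvhtd_mem (β : Bool) : (β == 𝔓.col t, pvhtdC 𝔓 m z t β :: pvhtdN 𝔓 m z t β :: pvhtdT 𝔓 m z t β) ∈ pvmvPatE 𝔓 m z t false (𝔓.col t) := by
  cases β
  · refine List.mem_cons_of_mem _ (List.mem_singleton.2 ?_)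
    cases 𝔓.col t <;> rfl
  · refine List.mem_cons.2 (Or.inl ?_)
    cases 𝔓.col t <;> rfl

/-- **`leg`** -/
theorem pvhtd_leg (β : Bool) : pvhtdD 𝔓 m z t β ∈ pvhtdN 𝔓 m z t β :: pvhtdT 𝔓 m z t β := by
  refine List.mem_cons_of_mem _ ?_
  unfold pvhtdT pvmvMid pvhtdD
  simp

end data

/-! ## 2. the numbers -/

section nums

variable {τ : Type} {c : ℝ} {𝔓 : PvxPar τ c} {m : ℕ} {z : ℂ} {t : τ}

theorem pvhtd_mu_le (𝔓 : PvxPar τ c) (m : ℕ) : 1000 * pvilMu 𝔓 m ≤ pvlmDel c m := by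
  have : min (pvlmDel c m) (𝔓.num.rho3 * pvlmH m) ≤ pvlmDel c m := min_le_left _ _
  unfold pvilMu
  linarith

theorem pvhtd_mu_pos (h3 : 0 < 𝔓.num.rho3) (m : ℕ) : 0 < pvilMu 𝔓 m := by
  have := lt_min (pvlm_Del_pos c m) (mul_pos h3 (pvlm_H_pos m))
  unfold pvilMu
  linarith

/-- `0 < δ`, `1024 δ ≤ R`, `R ≤ 16 Δ`, `14 Δ ≤ R`, `1000 μ ≤ δ` -/
theorem pvhtd_basic (h : PvxrNdg 𝔓 m t) : 0 < pvlmDel c m ∧ 1024 * pvlmDel c m ≤ pvegR 𝔓 m ∧ pvegR 𝔓 m ≤ 16 * pvehDl 𝔓 m ∧ 14 * pvehDl 𝔓 m ≤ pvegR 𝔓 m ∧ 1000 * pvilMu 𝔓 m ≤ pvlmDel c m := by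
  have hf := pvmv_fine h
  obtain ⟨d1, d2⟩ := pvmv_Dl_bounds h
  exact ⟨pvlm_Del_pos c m, hf, d1, by linarith [pvlm_Del_pos c m], pvhtd_mu_le 𝔓 m⟩

/-- the centre of the tip cell -/
theorem pvhtd_cm (𝔓 : PvxPar τ c) (m : ℕ) (z : ℂ) (t : τ) : (𝔓.ty t).cm (pvlmH m) z = z + pvegYm 𝔓 m t := rfl

/-- **THE NUMBERS OF THE ARMS OF 298 AT THE DATA** (`e₀ = 21R/200`, `b = rt`, edges `2ρ`, mesh `ρl`) -/
theorem pvhtd_num (h : PvxrNdg 𝔓 m t) (hμ : 0 ≤ pvilMu 𝔓 m) (β : Bool) :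
    Pvge2Num (pvhtdA 𝔓 m β) (pvegR 𝔓 m / 200) (23 * pvegR 𝔓 m / 200) (23 * pvegR 𝔓 m / 200) (3 * pvegR 𝔓 m / 20) (pvehDl 𝔓 m / 512) (pvhtdRl 𝔓 m) (pvhtdE0 𝔓 m) (pvhtdRt 𝔓 m) (2 * pvhtdRho 𝔓 m) (pvhtdRs 𝔓 m) := by
  obtain ⟨b1, b2, b3, b4, b5⟩ := pvhtd_basic h
  unfold pvhtdRl pvhtdE0 pvhtdRt pvhtdRho pvhtdRs pvhtdA
  cases β <;> simp only [if_true, Bool.false_eq_true, if_false]
  · refine ⟨by linarith, by linarith, by linarith, by linarith, by linarith, by linarith, by linarith, by linarith, by linarith, by linarith, by linarith, by linarith, ?_, ?_⟩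
    · exact pvmv_sq_aux (A := 83 / 500) (B := 83 / 500) (by linarith) (by linarith) (by linarith) (by linarith) (by norm_num)
    · exact pvmv_sq_aux (A := 83 / 500) (B := 83 / 500) (by linarith) (by linarith) (by linarith) (by linarith) (by norm_num)
  · refine ⟨by linarith, by linarith, by linarith, by linarith, by linarith, by linarith, by linarith, by linarith, by linarith, by linarith, by linarith, by linarith, ?_, ?_⟩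
    · exact pvmv_sq_aux (A := 83 / 500) (B := 83 / 500) (by linarith) (by linarith) (by linarith) (by linarith) (by norm_num)
    · exact pvmv_sq_aux (A := 83 / 500) (B := 83 / 500) (by linarith) (by linarith) (by linarith) (by linarith) (by norm_num)

/-- the record of 21 at the data -/
theorem pvhtd_rec (h : PvxrNdg 𝔓 m t) (hμ : 0 ≤ pvilMu 𝔓 m) (up : Bool) : PvmvRec (pvegR 𝔓 m) (pvehDl 𝔓 m) (pvhtdRl 𝔓 m) (pvhtdRt 𝔓 m) (2 * pvhtdRho 𝔓 m) (pvmvSc 𝔓 m t) (pvmvLam 𝔓 m t up) := by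
  obtain ⟨b1, b2, b3, b4, b5⟩ := pvhtd_basic h
  refine pvmv_rec_e h up ?_ ?_ ?_ ?_ <;> (try unfold pvhtdRl) <;> (try unfold pvhtdRt pvhtdRho) <;> linarith

end nums

/-! ## 3. the fields of `PvhuLayD` which are pure facts on the pattern -/

section lay

variable {τ : Type} {c : ℝ} {𝔓 : PvxPar τ c} {m : ℕ} {z : ℂ} {t : τ}

/-- **`dl`** -/
theorem pvhtd_dl (h : PvxrNdg 𝔓 m t) : 0 < pvehDl 𝔓 m / 512 := by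
  obtain ⟨b1, b2, b3, b4, b5⟩ := pvhtd_basic h
  linarith

/-- **`route`** -/
theorem pvhtd_route (h : PvxrNdg 𝔓 m t) (hμ : 0 ≤ pvilMu 𝔓 m) (z : ℂ) (β : Bool) : PvkqRoute (pvehDl 𝔓 m / 512) (pvhtdC 𝔓 m z t β :: pvhtdN 𝔓 m z t β :: pvhtdT 𝔓 m z t β) := by
  have hΔ : 0 < pvehDl 𝔓 m := by have := pvhtd_dl h; linarith
  have G := pvmv_geo_model h z false
  have R := pvhtd_rec h hμ false
  cases β
  · exact pvmv_route G.flip (pvhtd_num h hμ false) (pvmv_num_rec hΔ) R.flip.arm₂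
  · exact pvmv_route G (pvhtd_num h hμ true) (pvmv_num_rec hΔ) R.arm₁

/-- **`e0`** -/
theorem pvhtd_e0 (h : PvxrNdg 𝔓 m t) : pvhtdRt 𝔓 m + 2 * pvhtdRho 𝔓 m < pvhtdE0 𝔓 m := by
  obtain ⟨b1, b2, b3, b4, b5⟩ := pvhtd_basic h
  unfold pvhtdRt pvhtdRho pvhtdE0
  linarith

/-- the arm record at every abscissa of the band -/
theorem pvhtd_arm (h : PvxrNdg 𝔓 m t) (hμ : 0 ≤ pvilMu 𝔓 m) (z : ℂ) (β : Bool) {xB : ℝ} (hB : xB ≤ (pvhtdZe 𝔓 t * (𝔓.ty t).cm (pvlmH m) z).re + pvhtdE0 𝔓 m) (hB' : (pvhtdZe 𝔓 t * (𝔓.ty t).cm (pvlmH m) z).re - pvhtdE0 𝔓 m ≤ xB) :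
    PvhzArmReg (pvhtdZe 𝔓 t) xB ((pvhtdZe 𝔓 t * (𝔓.ty t).cm (pvlmH m) z).im - pvhtdRt 𝔓 m) ((pvhtdZe 𝔓 t * (𝔓.ty t).cm (pvlmH m) z).im + pvhtdRt 𝔓 m) (2 * pvhtdRho 𝔓 m) ((𝔓.ty t).cm (pvlmH m) z) (pvhtdRs 𝔓 m) (pvhtdRl 𝔓 m) (!β)
      (pvhtdN 𝔓 m z t β).1 (pvhtdC 𝔓 m z t β).1 (pvhtdSg 𝔓 m z t β) :=
  pvge2_armReg (pvmv_norm_I _) (pvhtd_num h hμ β) hB hB' le_rfl le_rfl Subset.rfl Subset.rfl

theorem pvhtd_E0_nonneg (h : PvxrNdg 𝔓 m t) : 0 ≤ pvhtdE0 𝔓 m := by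
  have := pvmv_R_pos h
  unfold pvhtdE0
  linarith

/-- **`arm₁`** -/
theorem pvhtd_arm₁ (h : PvxrNdg 𝔓 m t) (hμ : 0 ≤ pvilMu 𝔓 m) (z : ℂ) (β : Bool) :
    PvhzArmReg (pvhtdZe 𝔓 t) ((pvhtdZe 𝔓 t * (𝔓.ty t).cm (pvlmH m) z).re - pvhtdE0 𝔓 m) ((pvhtdZe 𝔓 t * (𝔓.ty t).cm (pvlmH m) z).im - pvhtdRt 𝔓 m) ((pvhtdZe 𝔓 t * (𝔓.ty t).cm (pvlmH m) z).im + pvhtdRt 𝔓 m) (2 * pvhtdRho 𝔓 m)
      ((𝔓.ty t).cm (pvlmH m) z) (pvhtdRs 𝔓 m) (pvhtdRl 𝔓 m) (!β) (pvhtdN 𝔓 m z t β).1 (pvhtdC 𝔓 m z t β).1 (pvhtdSg 𝔓 m z t β) :=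
  pvhtd_arm h hμ z β (by linarith [pvhtd_E0_nonneg h]) le_rfl

/-- **`arm₂`** -/
theorem pvhtd_arm₂ (h : PvxrNdg 𝔓 m t) (hμ : 0 ≤ pvilMu 𝔓 m) (z : ℂ) (β : Bool) :
    PvhzArmReg (pvhtdZe 𝔓 t) ((pvhtdZe 𝔓 t * (𝔓.ty t).cm (pvlmH m) z).re + pvhtdE0 𝔓 m) ((pvhtdZe 𝔓 t * (𝔓.ty t).cm (pvlmH m) z).im - pvhtdRt 𝔓 m) ((pvhtdZe 𝔓 t * (𝔓.ty t).cm (pvlmH m) z).im + pvhtdRt 𝔓 m) (2 * pvhtdRho 𝔓 m)
      ((𝔓.ty t).cm (pvlmH m) z) (pvhtdRs 𝔓 m) (pvhtdRl 𝔓 m) (!β) (pvhtdN 𝔓 m z t β).1 (pvhtdC 𝔓 m z t β).1 (pvhtdSg 𝔓 m z t β) :=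
  pvhtd_arm h hμ z β le_rfl (by linarith [pvhtd_E0_nonneg h])

/-- **`rl`** -/
theorem pvhtd_rl (𝔓 : PvxPar τ c) (m : ℕ) : pvehDl 𝔓 m / 512 / 16 ≤ pvhtdRl 𝔓 m := by
  unfold pvhtdRl
  linarith

/-- **`mul`** -/
theorem pvhtd_mul (h : PvxrNdg 𝔓 m t) : pvilMu 𝔓 m ≤ pvhtdRl 𝔓 m := by
  obtain ⟨b1, b2, b3, b4, b5⟩ := pvhtd_basic h
  unfold pvhtdRl
  linarith

/-- **`sN`** -/
theorem pvhtd_sN (𝔓 : PvxPar τ c) (m : ℕ) (z : ℂ) (t : τ) (β : Bool) : pvhzSd (pvehDl 𝔓 m / 512) (pvkqCell (pvehDl 𝔓 m / 512) (pvhtdN 𝔓 m z t β).2.2) 0 ⊆ pvhtdSg 𝔓 m z t β :=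
  (pvge2_sd_sub _ _ _).trans (pvge2_Cl_cellN _)

/-- **`sS`** -/
theorem pvhtd_sS (𝔓 : PvxPar τ c) (m : ℕ) (z : ℂ) (t : τ) (β : Bool) : pvhzSd (pvehDl 𝔓 m / 512) (pvkqCell (pvehDl 𝔓 m / 512) (pvhtdC 𝔓 m z t β).2.1) 0 ⊆ pvhtdSg 𝔓 m z t β :=
  (pvge2_sd_sub _ _ _).trans (pvge2_Cl_cellS _)

/-- the closing sets lie in the small mouth (for `sgW`) -/
theorem pvhtd_Sg_near (h : PvxrNdg 𝔓 m t) (hμ : 0 ≤ pvilMu 𝔓 m) (z : ℂ) (β : Bool) : ∀ w ∈ pvhtdSg 𝔓 m z t β, ‖w - (𝔓.ty t).cm (pvlmH m) z‖ ≤ pvhtdRs 𝔓 m := by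
  intro w hw
  have hl : 0 ≤ pvhtdRl 𝔓 m := hμ.trans (pvhtd_mul h)
  exact (pvhtd_arm₁ h hμ z β).near w ⟨w, Or.inr hw, by rw [sub_self, norm_zero]; exact hl⟩

/-- **`sgW`** over ONE line: the mouth `closedBall c⁻ (R/4 + μ)` lies in the window -/
theorem pvhtd_sgW (h : PvxrNdg 𝔓 m t) (hμ : 0 ≤ pvilMu 𝔓 m) (z : ℂ) {W : Set ℂ} (hW : closedBall ((𝔓.ty t).cm (pvlmH m) z) (pvhtdRs 𝔓 m + pvilMu 𝔓 m) ⊆ W) (β : Bool) : pvhtdSg 𝔓 m z t β ⊆ pvtrCore (pvilMu 𝔓 m) W := by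
  intro w hw
  have h1 := pvhtd_Sg_near h hμ z β w hw
  refine Subset.trans ?_ hW
  intro x hx
  rw [mem_closedBall, dist_eq_norm] at hx ⊢
  calc ‖x - (𝔓.ty t).cm (pvlmH m) z‖ = ‖(x - w) + (w - (𝔓.ty t).cm (pvlmH m) z)‖ := by congr 1; ring
    _ ≤ ‖x - w‖ + ‖w - (𝔓.ty t).cm (pvlmH m) z‖ := norm_add_le _ _
    _ ≤ _ := by linarith

end lay

/-! ## 4. the door -/

section door

variable {τ : Type} {c : ℝ} {𝔓 : PvxPar τ c} {m : ℕ} {z : ℂ} {t : τ}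

/-- the cut record of 298 is one of the two records of 66 on the part of the room beyond the cut -/
theorem pvhtd_of_ge4 {ζ : ℂ} {δ ρ xc xa xb y0 y1 : ℝ} {Rm : Set ℂ} {e : Set ℂ × ℂ × ℂ} (D : Pvge4DoorReg ζ δ ρ xc xa xb y0 y1 Rm e) :
    PvhrDoorReg ζ δ ρ xa xb y0 y1 (Rm ∩ {w | xc < (ζ * w).re}) e ∨ PvhtDoorRegM ζ δ ρ xa xb y0 y1 (Rm ∩ {w | xc < (ζ * w).re}) e := by
  rcases D.ends with ⟨e1, e2⟩ | ⟨e1, e2⟩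
  · exact Or.inl ⟨fun w hw => D.room w hw.1 hw.2, D.col, e1, e2⟩
  · exact Or.inr ⟨fun w hw => D.room w hw.1 hw.2, D.col, e2, e1⟩

/-- **THE DOOR RECORD IN THE WORDS OF 298** over THE ROOM LINE: beyond the cut the room of the half lane of `β` has the lateral offsets `[Δ/40, 3Δ/40]` on the side `β` -/
theorem pvhtd_door4 (h : PvxrNdg 𝔓 m t) (hμ : 0 < pvilMu 𝔓 m) (z : ℂ) (β : Bool) {Rm : Set ℂ}
    (hroom : ∀ w ∈ Rm, pvhtdXs 𝔓 m z t < ((1 : ℂ) * w).re → pvehDl 𝔓 m / 40 ≤ pvge2Sg (!(!β)) * (((1 : ℂ) * w).im - ((1 : ℂ) * pvhtdZ 𝔓 m z t).im) ∧ pvge2Sg (!(!β)) * (((1 : ℂ) * w).im - ((1 : ℂ) * pvhtdZ 𝔓 m z t).im) ≤ 3 * pvehDl 𝔓 m / 40) :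
    Pvge4DoorReg 1 (pvehDl 𝔓 m / 512) (pvilMu 𝔓 m) (pvhtdXs 𝔓 m z t) (pvhtdXa 𝔓 m z t) (pvhtdXb 𝔓 m z t) (pvhtdY0 𝔓 m z t β) (pvhtdY1 𝔓 m z t β) Rm (pvhtdD 𝔓 m z t β) := by
  obtain ⟨b1, b2, b3, b4, b5⟩ := pvhtd_basic h
  have hΔ : 0 < pvehDl 𝔓 m := by linarith
  exact pvht_e_doorReg (ζd := 1) (z := pvhtdZ 𝔓 m z t) (d := (pvehDl 𝔓 m : ℂ)) (Δ := pvehDl 𝔓 m) (one_mul _) hΔ (!(!β)) (pvxrLe (pvxrB 𝔓 t)) hμ (by norm_num)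
    (by unfold pvhtdXs; linarith) hroom (by linarith) (by linarith)

/-- **`door`** over the three lines of the plug: THE ROOM LINE, `foot`, `tgt` -/
theorem pvhtd_door (h : PvxrNdg 𝔓 m t) (hμ : 0 < pvilMu 𝔓 m) (z : ℂ) {B : Set ℂ} {Rm Dr : Bool → Set ℂ}
    (hroom : ∀ β, ∀ w ∈ Rm β, pvhtdXs 𝔓 m z t < w.re → pvehDl 𝔓 m / 40 ≤ pvge2Sg β * (w.im - (pvhtdZ 𝔓 m z t).im) ∧ pvge2Sg β * (w.im - (pvhtdZ 𝔓 m z t).im) ≤ 3 * pvehDl 𝔓 m / 40)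
    (hfoot : ∀ w ∈ B, w.re ≤ pvhtdXa 𝔓 m z t) (htgt : ∀ β, ∀ w ∈ Dr β, pvhtdXb 𝔓 m z t ≤ w.re) :
    PvhuDoorRegD 1 (pvehDl 𝔓 m / 512) (pvilMu 𝔓 m) B Rm Dr (pvhtdD 𝔓 m z t) (fun _ => pvhtdXs 𝔓 m z t) (fun _ => pvhtdXa 𝔓 m z t) (fun _ => pvhtdXb 𝔓 m z t) (pvhtdY0 𝔓 m z t) (pvhtdY1 𝔓 m z t) := by
  have D : ∀ β, Pvge4DoorReg 1 (pvehDl 𝔓 m / 512) (pvilMu 𝔓 m) (pvhtdXs 𝔓 m z t) (pvhtdXa 𝔓 m z t) (pvhtdXb 𝔓 m z t) (pvhtdY0 𝔓 m z t β) (pvhtdY1 𝔓 m z t β) (Rm β) (pvhtdD 𝔓 m z t β) := fun β =>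
    pvhtd_door4 h hμ z β (fun w hw hx => by
      rw [one_mul] at hx
      rw [one_mul, one_mul, Bool.not_not]
      exact hroom β w hw hx)
  exact
    { nz := norm_one
      rho := hμ
      reg := fun β => pvhtd_of_ge4 (D β)
      sa := fun β => (D β).cut
      ab := fun β => (D β).ab
      foot := fun β w hw => by rw [one_mul]; exact hfoot w hw
      tgt := fun β w hw => by rw [one_mul]; exact htgt β w hw }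

end door

/-! ## 5. the three lines of the plug at the scale `s = 2 Δ` of U4 (unit `u = Δ/20`), rooms and targets of `pvhfT (1/40)` (`= pvk2T = pvetTn = pvnaT`, fields `Ln Dr`, by `rfl`) -/

section plug

variable {τ : Type} {c : ℝ} {𝔓 : PvxPar τ c} {m : ℕ} {z : ℂ} {t : τ}

theorem pvhtd_Z_re (𝔓 : PvxPar τ c) (m : ℕ) (z : ℂ) (t : τ) : (pvhtdZ 𝔓 m z t).re = (z + (pvxrGam 𝔓 m).zu t).re + pvehDl 𝔓 m / 2 := by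
  unfold pvhtdZ pvehZ
  simp

theorem pvhtd_Z_im (𝔓 : PvxPar τ c) (m : ℕ) (z : ℂ) (t : τ) : (pvhtdZ 𝔓 m z t).im = (z + (pvxrGam 𝔓 m).zu t).im := by
  unfold pvhtdZ pvehZ
  simp

theorem pvhtd_at_re (zu : ℂ) (s : ℝ) (v : ℂ) : (pvthSim zu (1 * (s : ℂ)) v).re = zu.re + s * v.re := by
  unfold pvthSim
  simp

theorem pvhtd_at_im (zu : ℂ) (s : ℝ) (v : ℂ) : (pvthSim zu (1 * (s : ℂ)) v).im = zu.im + s * v.im := by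
  unfold pvthSim
  simp

/-- **THE ROOM LINE** -/
theorem pvhtd_line_room (h : PvxrNdg 𝔓 m t) (z : ℂ) {s : ℝ} (hs : s = 2 * pvehDl 𝔓 m) (β : Bool) :
    ∀ w ∈ pvkdAt (z + (pvxrGam 𝔓 m).zu t) (1 * (s : ℂ)) ((pvhfT (1 / 40)).Ln true β), pvhtdXs 𝔓 m z t < w.re →
      pvehDl 𝔓 m / 40 ≤ pvge2Sg β * (w.im - (pvhtdZ 𝔓 m z t).im) ∧ pvge2Sg β * (w.im - (pvhtdZ 𝔓 m z t).im) ≤ 3 * pvehDl 𝔓 m / 40 := by
  have hΔ : 0 < pvehDl 𝔓 m := by have := pvhtd_dl h; linarith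
  rintro _ ⟨v, hv, rfl⟩ hx
  rw [pvhtd_at_re] at hx
  rw [pvhtd_at_im, pvhtd_Z_im]
  unfold pvhtdXs at hx
  rw [one_mul, pvhtd_Z_re] at hx
  subst hs
  have hvx : 13 / 160 < v.re := by nlinarith
  cases β
  · have hv' : v ∈ rswRect (1 / 40 / 2) (3 * (1 / 40)) (-(3 * (1 / 40) / 2)) (1 / 40 / 2) ∪ rswRect (2 * (1 / 40)) (5 * (1 / 40)) (-(3 * (1 / 40) / 2)) (-(1 / 40 / 2)) := hv
    rcases hv' with ⟨-, h2, -, -⟩ | ⟨-, -, h3, h4⟩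
    · exfalso; linarith
    · simp only [pvge2Sg, Bool.false_eq_true, if_false]
      constructor <;> nlinarith
  · have hv' : v ∈ rswRect (1 / 40 / 2) (3 * (1 / 40)) (-(1 / 40 / 2)) (3 * (1 / 40) / 2) ∪ rswRect (2 * (1 / 40)) (5 * (1 / 40)) (1 / 40 / 2) (3 * (1 / 40) / 2) := hv
    rcases hv' with ⟨-, h2, -, -⟩ | ⟨-, -, h3, h4⟩
    · exfalso; linarith
    · simp only [pvge2Sg, if_true]
      constructor <;> nlinarith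

/-- **`tgt`** -/
theorem pvhtd_line_tgt (h : PvxrNdg 𝔓 m t) (z : ℂ) {s : ℝ} (hs : s = 2 * pvehDl 𝔓 m) (β : Bool) :
    ∀ w ∈ pvkdAt (z + (pvxrGam 𝔓 m).zu t) (1 * (s : ℂ)) ((pvhfT (1 / 40)).Dr true β), pvhtdXb 𝔓 m z t ≤ w.re := by
  have hΔ : 0 < pvehDl 𝔓 m := by have := pvhtd_dl h; linarith
  rintro _ ⟨v, hv, rfl⟩
  rw [pvhtd_at_re]
  unfold pvhtdXb
  rw [one_mul, pvhtd_Z_re]
  subst hs
  have hvx : 4 * (1 / 40) ≤ v.re := by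
    cases β
    · exact (show v ∈ rswRect (4 * (1 / 40)) (5 * (1 / 40)) (-(3 * (1 / 40) / 2)) (-(1 / 40 / 2)) from hv).1
    · exact (show v ∈ rswRect (4 * (1 / 40)) (5 * (1 / 40)) (1 / 40 / 2) (3 * (1 / 40) / 2) from hv).1
  nlinarith

/-- **`foot`** : the disc of the gate (radius `2u = Δ/10`) is west of the bar, even of the cut -/
theorem pvhtd_line_foot (h : PvxrNdg 𝔓 m t) (z : ℂ) {b : ℝ} (hb : b ≤ pvehDl 𝔓 m / 10) : ∀ w ∈ ball (z + (pvxrGam 𝔓 m).zu t) b, w.re ≤ pvhtdXs 𝔓 m z t ∧ w.re ≤ pvhtdXa 𝔓 m z t := by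
  have hΔ : 0 < pvehDl 𝔓 m := by have := pvhtd_dl h; linarith
  intro w hw
  rw [mem_ball, dist_eq_norm] at hw
  have h1 : (w - (z + (pvxrGam 𝔓 m).zu t)).re ≤ ‖w - (z + (pvxrGam 𝔓 m).zu t)‖ := Complex.re_le_norm _
  rw [sub_re] at h1
  unfold pvhtdXs pvhtdXa
  rw [one_mul, pvhtd_Z_re]
  constructor <;> linarith

/-- beyond the cut a point of a room is off the closed square `13 Δ / 80` round the plug, and within `Δ/4` east, `3Δ/40` lateral (for `roomF`) -/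
theorem pvhtd_line_east (h : PvxrNdg 𝔓 m t) (z : ℂ) {s : ℝ} (hs : s = 2 * pvehDl 𝔓 m) (β : Bool) :
    ∀ w ∈ pvkdAt (z + (pvxrGam 𝔓 m).zu t) (1 * (s : ℂ)) ((pvhfT (1 / 40)).Ln true β), pvhtdXs 𝔓 m z t < w.re →
      13 * pvehDl 𝔓 m / 80 < (w - (z + (pvxrGam 𝔓 m).zu t)).re ∧ (w - (z + (pvxrGam 𝔓 m).zu t)).re ≤ pvehDl 𝔓 m / 4 ∧ |(w - (z + (pvxrGam 𝔓 m).zu t)).im| ≤ 3 * pvehDl 𝔓 m / 40 := by
  have hΔ : 0 < pvehDl 𝔓 m := by have := pvhtd_dl h; linarith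
  intro w hw hx
  obtain ⟨l1, l2⟩ := pvhtd_line_room h z hs β w hw hx
  rw [pvhtd_Z_im] at l1 l2
  obtain ⟨v, hv, rfl⟩ := hw
  have hx' := hx
  unfold pvhtdXs at hx'
  rw [one_mul, pvhtd_Z_re] at hx'
  rw [sub_re, sub_im]
  refine ⟨by linarith, ?_, ?_⟩
  · rw [pvhtd_at_re]
    subst hs
    have hvx : v.re ≤ 5 * (1 / 40) := by
      cases β
      · rcases (show v ∈ rswRect (1 / 40 / 2) (3 * (1 / 40)) (-(3 * (1 / 40) / 2)) (1 / 40 / 2) ∪ rswRect (2 * (1 / 40)) (5 * (1 / 40)) (-(3 * (1 / 40) / 2)) (-(1 / 40 / 2)) from hv) with ⟨-, h2, -, -⟩ | ⟨-, h2, -, -⟩ <;> linarith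
      · rcases (show v ∈ rswRect (1 / 40 / 2) (3 * (1 / 40)) (-(1 / 40 / 2)) (3 * (1 / 40) / 2) ∪ rswRect (2 * (1 / 40)) (5 * (1 / 40)) (1 / 40 / 2) (3 * (1 / 40) / 2) from hv) with ⟨-, h2, -, -⟩ | ⟨-, h2, -, -⟩ <;> linarith
    nlinarith
  · cases β <;> simp only [pvge2Sg, if_true, Bool.false_eq_true, if_false] at l1 l2 <;> rw [abs_le] <;> constructor <;> linarith

/-- **`door` AT THE SCALE OF U4**: no hypothesis left but the numbers `s = 2Δ`, `b ≤ Δ/10` -/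
theorem pvhtd_door_u4 (h : PvxrNdg 𝔓 m t) (hμ : 0 < pvilMu 𝔓 m) (z : ℂ) {s b : ℝ} (hs : s = 2 * pvehDl 𝔓 m) (hb : b ≤ pvehDl 𝔓 m / 10) :
    PvhuDoorRegD 1 (pvehDl 𝔓 m / 512) (pvilMu 𝔓 m) (ball (z + (pvxrGam 𝔓 m).zu t) b) (fun β => pvkdAt (z + (pvxrGam 𝔓 m).zu t) (1 * (s : ℂ)) ((pvhfT (1 / 40)).Ln true β))
      (fun β => pvkdAt (z + (pvxrGam 𝔓 m).zu t) (1 * (s : ℂ)) ((pvhfT (1 / 40)).Dr true β)) (pvhtdD 𝔓 m z t) (fun _ => pvhtdXs 𝔓 m z t) (fun _ => pvhtdXa 𝔓 m z t) (fun _ => pvhtdXb 𝔓 m z t) (pvhtdY0 𝔓 m z t) (pvhtdY1 𝔓 m z t) :=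
  pvhtd_door h hμ z (pvhtd_line_room h z hs) (fun w hw => (pvhtd_line_foot h z hb w hw).2) (pvhtd_line_tgt h z hs)

end plug

/-! ## 6. the names of 21 (`Tr/LinkME` sec. 6) are the same functions;   `ζ`;   THE ASSEMBLY OF `PvhuLayD` OVER THE REGION FIELDS -/

section asm

variable {τ : Type} {c : ℝ} {𝔓 : PvxPar τ c} {m : ℕ} {z : ℂ} {t : τ}

theorem pvhtd_C_eq (𝔓 : PvxPar τ c) (m : ℕ) (z : ℂ) (t : τ) : pvhtdC 𝔓 m z t = pvmvDC 𝔓 m z t := by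
  funext β
  cases β <;> rfl
theorem pvhtd_N_eq (𝔓 : PvxPar τ c) (m : ℕ) (z : ℂ) (t : τ) : pvhtdN 𝔓 m z t = pvmvDN 𝔓 m z t := by
  funext β
  cases β <;> rfl
theorem pvhtd_D_eq (𝔓 : PvxPar τ c) (m : ℕ) (z : ℂ) (t : τ) : pvhtdD 𝔓 m z t = pvmvDD 𝔓 m z t := by
  funext β
  cases β <;> rfl
theorem pvhtd_T_eq (𝔓 : PvxPar τ c) (m : ℕ) (z : ℂ) (t : τ) : pvhtdT 𝔓 m z t = pvmvDT 𝔓 m z t := by
  funext β
  cases β <;> rfl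

/-- `ζ` in the words of 266 / 66 -/
theorem pvhtd_Ze_eq (hΓ : 𝔓.Γ m = pvxrGam 𝔓 m) (t : τ) : (starRingEnd ℂ) (-(𝔓.Γ m).din t) = pvhtdZe 𝔓 t := by
  rw [hΓ, pvxr_gam_din, neg_neg]
  rfl

/-- **`PvhuLayD` AT THE DATA, OVER THE REGION FIELDS** (`bdd co collar mouthW mouth mid door room roomF gm offBox offTip`): every pattern field is paid here -/
theorem pvhtd_lay (h : PvxrNdg 𝔓 m t) (hμ : 0 < pvilMu 𝔓 m) (z : ℂ) {L : PvilLk} {N : PvwNum} {W Fr : Set ℂ} {Rm Dr : Bool → Set ℂ}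
    (bdd : Bornology.IsBounded L.Yin) (co : IsPreconnected L.Yinᶜ) (collar : ∀ v ∈ L.Yin, closedBall v (3 * pvilMu 𝔓 m) ⊆ W)
    (mouthW : closedBall ((𝔓.ty t).cm (pvlmH m) z) (pvhtdRs 𝔓 m + pvilMu 𝔓 m) ⊆ W)
    (mouth : closedBall ((𝔓.ty t).cm (pvlmH m) z) (pvhtdRs 𝔓 m + 4 * pvhtdRho 𝔓 m + pvilMu 𝔓 m) ⊆ L.Yin)
    (mid : ∀ β, ∀ w ∈ pvkqRtR (pvhtdN 𝔓 m z t β :: pvhtdT 𝔓 m z t β), closedBall w (2 * pvilMu 𝔓 m) ⊆ L.Yin ∧ closedBall w (pvilMu 𝔓 m) ⊆ Fr)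
    (door : PvhuDoorRegD 1 (pvehDl 𝔓 m / 512) (pvilMu 𝔓 m) (ball L.p.z (pvkdP L.p.h).b) Rm Dr (pvhtdD 𝔓 m z t) (fun _ => pvhtdXs 𝔓 m z t) (fun _ => pvhtdXa 𝔓 m z t) (fun _ => pvhtdXb 𝔓 m z t) (pvhtdY0 𝔓 m z t) (pvhtdY1 𝔓 m z t))
    (room : ∀ β, ∀ w ∈ Rm β, closedBall w (pvilMu 𝔓 m) ⊆ L.Yin) (roomF : ∀ β, ∀ w ∈ Rm β, pvhtdXs 𝔓 m z t < ((1 : ℂ) * w).re → w ∈ Fr)
    (gm : ∀ w ∈ pvkdAt L.p.z L.p.fr (pvkdP L.p.h).Zm, w ∉ L.Yin) (offBox : Disjoint (ball L.p.z (pvkdP L.p.h).b) (pvhaBx N L.p')) (offTip : Disjoint (ball L.p.z (pvkdP L.p.h).b) L.p'.cm) :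
    PvhuLayD L N W Fr (pvilMu 𝔓 m) (pvhtdZe 𝔓 t) ((𝔓.ty t).cm (pvlmH m) z) (pvhtdRs 𝔓 m) (pvhtdRho 𝔓 m) (pvhtdRt 𝔓 m) (pvhtdE0 𝔓 m) (pvhtdRl 𝔓 m) (pvehDl 𝔓 m / 512)
      (pvhtdC 𝔓 m z t) (pvhtdN 𝔓 m z t) (pvhtdD 𝔓 m z t) (pvhtdT 𝔓 m z t) (pvhtdSg 𝔓 m z t) (fun _ => 0) (fun _ => 0) 1 Rm Dr
      (fun _ => pvhtdXs 𝔓 m z t) (fun _ => pvhtdXa 𝔓 m z t) (fun _ => pvhtdXb 𝔓 m z t) (pvhtdY0 𝔓 m z t) (pvhtdY1 𝔓 m z t) where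
  mu := hμ
  rho := by unfold pvhtdRho; linarith
  bdd := bdd
  co := co
  collar := collar
  dl := pvhtd_dl h
  route := pvhtd_route h hμ.le z
  e0 := pvhtd_e0 h
  arm₁ := pvhtd_arm₁ h hμ.le z
  arm₂ := pvhtd_arm₂ h hμ.le z
  rl := pvhtd_rl 𝔓 m
  mul := pvhtd_mul h
  sgW := pvhtd_sgW h hμ.le z mouthW
  jN4 := fun _ => by norm_num
  jS4 := fun _ => by norm_num
  sN := pvhtd_sN 𝔓 m z t
  sS := pvhtd_sS 𝔓 m z t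
  mouth := mouth
  mid := mid
  leg := pvhtd_leg 𝔓 m z t
  door := door
  room := room
  roomF := roomF
  gm := gm
  offBox := offBox
  offTip := offTip

end asm

end Claimed.Agent.R289
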