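import Claimed.Agent.R289.Tr.FrcDetE
import Claimed.Agent.R289.Tr.LinkM

/-!
# Row 289 (S0537), THE WALL, ROAD E, E10 (b3) DET, file Tr/HookTE : THE RUN OF THE THICK LINK `reference plug → t` AT A FINAL CONFIGURATION, ON THE ROUTES OF 21      (helper165; prefix `pvht_e_`, `PvhtE`)

0 sorry.   MODEL FREE, NUMERAL FREE GLUE: `pvdd_feet_A`, `pvdd_feet` of 228 (`Tr/FrcDetE`, cut door record `Pvge4DoorReg` of 298) on the routes `pvge2LegsO ++ pvmvMid` of 21 (`Tr/LinkM`).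
* sec. 1  the frame `(z, d)` of the first door turned by `ζd` (`ζd * d = Δ`): `pvht_e_pl_re _im`, `pvht_e_pt_re _im`;   **`pvht_e_doorReg`** : the bar in front of the plug is a leg ACROSS the room of a half lane (`Pvge4DoorReg`), both sides
* sec. 2  `pvhtERg` (the region of the legs after the C), **`pvht_e_feet`** (arms `PvhjArm` at a true box: feet of 66 / 235 / 199), **`pvht_e_feetT`** (arms `PvhjArmT` of 23)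
* sec. 3  **`pvht_e_run`, `pvht_e_runT`** : `PvldRun P.toMap σ K g.aOut a₁`, any presentation
-/

set_option autoImplicit false
set_option linter.unusedSectionVars false
set_option linter.unusedVariables false

namespace Claimed.Agent.R289

open Relation Set Metric Complex

/-! ## 1. the bar in front of the plug is a leg across the room of a half lane -/

section door

variable {ζd z d : ℂ} {Δ : ℝ}

theorem pvht_e_pl (hζ : ζd * d = (Δ : ℂ)) (v : ℂ) : ζd * (z + d * v) = ζd * z + (Δ : ℂ) * v := by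
  rw [mul_add, ← mul_assoc, hζ]

theorem pvht_e_pl_re (hζ : ζd * d = (Δ : ℂ)) (v : ℂ) : (ζd * (z + d * v)).re = (ζd * z).re + Δ * v.re := by
  rw [pvht_e_pl hζ]; simp

theorem pvht_e_pl_im (hζ : ζd * d = (Δ : ℂ)) (v : ℂ) : (ζd * (z + d * v)).im = (ζd * z).im + Δ * v.im := by
  rw [pvht_e_pl hζ]; simp

theorem pvht_e_pt_re (hζ : ζd * d = (Δ : ℂ)) (l : List PvtTurn) (t o : ℝ) : (ζd * pvljPt z d l 0 t o).re = (ζd * z).re + Δ * t := by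
  unfold pvljPt
  rw [pvccZ_zero, pvccD_zero, pvht_e_pl_re hζ]; simp

theorem pvht_e_pt_im (hζ : ζd * d = (Δ : ℂ)) (l : List PvtTurn) (t o : ℝ) : (ζd * pvljPt z d l 0 t o).im = (ζd * z).im + Δ * o := by
  unfold pvljPt
  rw [pvccZ_zero, pvccD_zero, pvht_e_pl_im hζ]; simp

/-- **THE DOOR RECORD OF THE BAR IN FRONT OF THE PLUG** (side `pos` of the corridor): beyond the cut `xc` the room `Rm` of the half lane lies at the lateral offsets `[l0, l1]` (absolute lengths, on the side `pos` of the axis of the first door);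
the bar runs from the line `u₀` of the lane to the offset `ob` -/
theorem pvht_e_doorReg (hζ : ζd * d = (Δ : ℂ)) (hΔ : 0 < Δ) (pos : Bool) {dl ρd xc l0 l1 b₀ u₀ tb wb ob : ℝ} {Rm : Set ℂ} (l : List PvtTurn) (hρ : 0 < ρd) (hw : 0 ≤ wb)
    (hcut : xc + 2 * ρd ≤ (ζd * z).re - Δ * (tb + wb))
    (hroom : ∀ w ∈ Rm, xc < (ζd * w).re → l0 ≤ pvge2Sg pos * ((ζd * w).im - (ζd * z).im) ∧ pvge2Sg pos * ((ζd * w).im - (ζd * z).im) ≤ l1)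
    (hlo : Δ * ob + 3 / 2 * dl + ρd ≤ l0) (hhi : l1 + ρd + 3 / 2 * dl ≤ Δ * u₀) :
    Pvge4DoorReg ζd dl ρd xc ((ζd * z).re - Δ * (tb + wb)) ((ζd * z).re - Δ * (tb - wb)) ((ζd * z).im + pvmvLo pos (l0 - ρd) (l1 + ρd)) ((ζd * z).im + pvmvHi pos (l0 - ρd) (l1 + ρd)) Rm
      (pvmvBar pos b₀ tb wb ob z d, pvljPt z d l 0 (-tb) (pvge2Sg pos * u₀), pvljPt z d l 0 (-tb) (pvge2Sg pos * ob)) where
  ρ0 := hρ
  cut := hcut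
  ab := by nlinarith
  room := by
    intro w hw hx
    obtain ⟨h1, h2⟩ := hroom w hw hx
    cases pos <;> simp only [pvmvLo, pvmvHi, pvge2Sg, if_true, Bool.false_eq_true, if_false] at h1 h2 ⊢ <;> constructor <;> linarith
  col := by
    rintro _ ⟨v, ⟨h1, h2, -, -⟩, rfl⟩
    show _ ≤ (ζd * (z + d * v)).re ∧ (ζd * (z + d * v)).re ≤ _
    rw [pvht_e_pl_re hζ]
    constructor <;> nlinarith
  ends := by
    show ((ζd * pvljPt z d l 0 (-tb) (pvge2Sg pos * u₀)).im + 3 / 2 * dl ≤ _ ∧ _ + 3 / 2 * dl ≤ (ζd * pvljPt z d l 0 (-tb) (pvge2Sg pos * ob)).im) ∨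
      ((ζd * pvljPt z d l 0 (-tb) (pvge2Sg pos * ob)).im + 3 / 2 * dl ≤ _ ∧ _ + 3 / 2 * dl ≤ (ζd * pvljPt z d l 0 (-tb) (pvge2Sg pos * u₀)).im)
    rw [pvht_e_pt_im hζ, pvht_e_pt_im hζ]
    cases pos <;> simp only [pvmvLo, pvmvHi, pvge2Sg, if_true, Bool.false_eq_true, if_false]
    · left; constructor <;> linarith
    · right; constructor <;> linarith

end door

/-! ## 2. the two feet and the lanes on the routes of 21 -/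

/-- **the region of the legs after the C** of the route of one colour: arm of the lane, lane and bar of the mouth, corridor leg, bar in front of the plug -/
def pvhtERg (c u : ℂ) (sd : Bool) (a t s₁ x₂ sb t₂ lb a₀ b₀ tb wb ob c₀ c₁ : ℝ) (z d : ℂ) (l : List PvtTurn) : Set ℂ :=
  pvge2RN c u sd a t s₁ x₂ ∪ pvmvRH c u sd a t x₂ sb t₂ ∪ pvmvRV c u sd a t sb t₂ lb ∪ pvmvLeg (!sd) a₀ b₀ c₀ c₁ z d l ∪ pvmvBar (!sd) b₀ tb wb ob z d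

theorem pvht_e_eqns_cite : True := by
  have := @pvhtERg.eq_1
  trivial

theorem pvht_e_tail (c u : ℂ) (sd : Bool) (a t s₁ x₂ sb t₂ lb a₀ b₀ u₀ tb wb ob c₀ c₁ : ℝ) (z d : ℂ) (l : List PvtTurn) :
    pvkqRtR ((pvge2RN c u sd a t s₁ x₂, pvge2P c u sd s₁ a, pvge2P c u sd x₂ a) :: pvmvMid c u sd a t x₂ sb t₂ lb a₀ b₀ u₀ tb wb ob c₀ c₁ z d l) ⊆ pvhtERg c u sd a t s₁ x₂ sb t₂ lb a₀ b₀ tb wb ob c₀ c₁ z d l := by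
  intro w hw
  simp only [pvkqRtR, pvmvMid, List.mem_cons, List.not_mem_nil, or_false, mem_iUnion, mem_ofPred_eq, exists_prop] at hw
  obtain ⟨e, (rfl | rfl | rfl | rfl | rfl), hw⟩ := hw
  · exact Or.inl (Or.inl (Or.inl (Or.inl hw)))
  · exact Or.inl (Or.inl (Or.inl (Or.inr hw)))
  · exact Or.inl (Or.inl (Or.inr hw))
  · exact Or.inl (Or.inr hw)
  · exact Or.inr hw

section feet

variable {Y : Set ℂ} {h : DelGood Y} {K : Set Y} {c u : ℂ} {σ : Y → Bool} {κ : ℂ → Bool} {sd : Bool → Bool} {z d : ℂ} {l : List PvtTurn} {Δ Sn c₀ : ℝ} {lam aa : Bool → ℝ}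
  {dl ρl ρd t e₁ s₁ x₂ t₂ e₀ b μ rs a₀ b₀ u₀ s₀ tb wb ob t₁ c₁ l0 l1 : ℝ} {ζd : ℂ} {xc : Bool → ℝ} {Rm : Bool → Set ℂ}

/-- **THE TWO FEET AND THE LANES OF THE THICK LINK, ROUTES OF 21, ARMS AT A TRUE BOX** (`at_` = tip dart, `ad` = gate edge of the plug).   Mouth `c`, outer normal `u`, route of the (relative) colour `β` on the side `sd β` of the ray and on the side `! sd β` of the corridor `(z, d, l)`;
door side in the picture turned by `ζd` (`ζd * d = Δ`): feet of the gate before the cut `xc β`, ends of the half lanes beyond the bar, beyond the cut the room of colour `β` lies at the lateral offsets `[l0, l1]` on the side `! sd β` and carries the copy colouring -/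
theorem pvht_e_feet {at_ ad : DelDart h} {xB yL yU : ℝ} (G : ∀ β, PvmvGeo c u (sd β) z d l Δ Sn (lam β) c₀)
    (foot : ∀ GN GC : Bool → Set ℂ, (∀ β, PvhjArm Y κ β ((starRingEnd ℂ) u) xB yL yU μ c rs (sd β) (GN β) (GC β) (pvge2Cl c u (sd β) (aa β) e₁ x₂ dl)) → PvhjFoot h σ κ K at_ GN)
    (Nn : ∀ β, Pvge2Num (aa β) t e₁ s₁ x₂ dl ρl e₀ b μ rs) (hB : xB ≤ ((starRingEnd ℂ) u * c).re + e₀) (hB' : ((starRingEnd ℂ) u * c).re - e₀ ≤ xB)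
    (hL : ((starRingEnd ℂ) u * c).im - b ≤ yL) (hU : yU ≤ ((starRingEnd ℂ) u * c).im + b)
    (Nc : PvmvNum Δ dl a₀ b₀ u₀ s₀ tb wb ob c₀ t₁ c₁) (A : ∀ β, PvmvArm Δ dl u₀ t₁ c₁ (aa β) t e₁ s₁ x₂ t₂ Sn (lam β))
    (hev : ∀ β, cfOf Y κ ∈ pvkqRtEv dl β (pvge2LegsO c u (sd β) (aa β) t e₁ s₁ x₂ ++ pvmvMid c u (sd β) (aa β) t x₂ (Sn - Δ * t₁) t₂ (lam β + Δ * u₀) a₀ b₀ u₀ tb wb ob c₀ c₁ z d l))
    (hρl : dl / 16 ≤ ρl) (hdS : ∀ β, VorDense Y (pvge2Cl c u (sd β) (aa β) e₁ x₂ dl) ρl)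
    (mid : ∀ β, ∀ v : Y, (vorCell Y v ∩ pvhtERg c u (sd β) (aa β) t s₁ x₂ (Sn - Δ * t₁) t₂ (lam β + Δ * u₀) a₀ b₀ tb wb ob c₀ c₁ z d l).Nonempty → v ∈ K ∧ σ v = κ v)
    (hζd : ‖ζd‖ = 1) (hζ : ζd * d = (Δ : ℂ)) (hρd : 0 < ρd) (hcut : ∀ β, xc β + 2 * ρd ≤ (ζd * z).re - Δ * (tb + wb))
    (hroom : ∀ β, ∀ w ∈ Rm β, xc β < (ζd * w).re → l0 ≤ pvge2Sg (!sd β) * ((ζd * w).im - (ζd * z).im) ∧ pvge2Sg (!sd β) * ((ζd * w).im - (ζd * z).im) ≤ l1)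
    (hlo : Δ * ob + 3 / 2 * dl + ρd ≤ l0) (hhi : l1 + ρd + 3 / 2 * dl ≤ Δ * u₀)
    (hH : ∀ β, ∃ v : Y, (ζd * z).re - Δ * (tb - wb) ≤ (ζd * (v : ℂ)).re ∧ (delMap h).Join univ (pvldCol σ {u : Y | (u : ℂ) ∈ Rm β} β) (pvhiEnd (delMap h) β ad) v)
    (hfoot : ∀ β, (ζd * ((pvhiEnd (delMap h) β ad : Y) : ℂ)).re ≤ xc β)
    (hRm : ∀ β, ∀ v : Y, (v : ℂ) ∈ Rm β → v ∈ K ∧ vorCell Y v ⊆ closedBall (v : ℂ) ρd)
    (hRκ : ∀ β, ∀ v : Y, (v : ℂ) ∈ Rm β → xc β < (ζd * (v : ℂ)).re → σ v = κ v) :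
    ∃ GN G : Bool → Set ℂ, PvhjFoot h σ κ K at_ GN ∧ PvhjFoot h σ κ K ad G ∧ PvhjMid Y σ κ K G ∧ ∀ β, GN β ⊆ G β := by
  have hu := (G true).hu
  refine pvdd_feet_A (ζ := (starRingEnd ℂ) u) (c := c) (up := sd) (δ := dl) (ρl := ρl) (ρd := ρd) (ζd := ζd) (Rm := Rm) (xc := xc)
    (Sg := fun β => pvge2Cl c u (sd β) (aa β) e₁ x₂ dl)
    (eC := fun β => (pvge2RC c u (sd β) (aa β) t e₁ s₁, pvge2P c u (sd β) e₁ (-(aa β)), pvge2P c u (sd β) s₁ (aa β)))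
    (eN := fun β => (pvge2RN c u (sd β) (aa β) t s₁ x₂, pvge2P c u (sd β) s₁ (aa β), pvge2P c u (sd β) x₂ (aa β)))
    (t := fun β => pvmvMid c u (sd β) (aa β) t x₂ (Sn - Δ * t₁) t₂ (lam β + Δ * u₀) a₀ b₀ u₀ tb wb ob c₀ c₁ z d l)
    (eD := fun β => (pvmvBar (!sd β) b₀ tb wb ob z d, pvljPt z d l 0 (-tb) (pvge2Sg (!sd β) * u₀), pvljPt z d l 0 (-tb) (pvge2Sg (!sd β) * ob)))
    (jN := fun _ => 0) (jS := fun _ => 0)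
    foot (Nn true).dl0 (fun β => pvmv_route (G β) (Nn β) Nc (A β)) hev
    (fun β => pvge2_armReg hu (Nn β) hB hB' hL hU Subset.rfl Subset.rfl)
    hρl hdS (fun _ => by norm_num) (fun _ => by norm_num)
    (fun β => (pvge2_sd_sub dl _ 0).trans (pvge2_Cl_cellN dl)) (fun β => (pvge2_sd_sub dl _ 0).trans (pvge2_Cl_cellS dl))
    (fun β v hv => mid β v (hv.mono (inter_subset_inter_right _ (pvht_e_tail _ _ _ _ _ _ _ _ _ _ _ _ _ _ _ _ _ _ _ _ _))))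
    (fun β => by simp [pvmvMid]) hζd (fun β => pvht_e_doorReg hζ (G true).Δ0 (!sd β) l hρd Nc.w0 (hcut β) (hroom β) hlo hhi) hH hfoot hRm hRκ

/-- the same with the arms `PvhjArmT` of 23 (prescribed side, all tip cells) -/
theorem pvht_e_feetT {at_ ad : DelDart h} {rt ρ : ℝ} (G : ∀ β, PvmvGeo c u (sd β) z d l Δ Sn (lam β) c₀)
    (foot : ∀ GN GC : Bool → Set ℂ, (∀ β, PvhjArmT Y κ β ((starRingEnd ℂ) u) c rt ρ rs (sd β) (GN β) (GC β) (pvge2Cl c u (sd β) (aa β) e₁ x₂ dl)) → PvhjFoot h σ κ K at_ GN)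
    (Nn : ∀ β, Pvge2Num (aa β) t e₁ s₁ x₂ dl ρl e₀ rt (2 * ρ) rs) (hρ0 : 0 ≤ ρ) (he : rt + 2 * ρ < e₀)
    (Nc : PvmvNum Δ dl a₀ b₀ u₀ s₀ tb wb ob c₀ t₁ c₁) (A : ∀ β, PvmvArm Δ dl u₀ t₁ c₁ (aa β) t e₁ s₁ x₂ t₂ Sn (lam β))
    (hev : ∀ β, cfOf Y κ ∈ pvkqRtEv dl β (pvge2LegsO c u (sd β) (aa β) t e₁ s₁ x₂ ++ pvmvMid c u (sd β) (aa β) t x₂ (Sn - Δ * t₁) t₂ (lam β + Δ * u₀) a₀ b₀ u₀ tb wb ob c₀ c₁ z d l))
    (hρl : dl / 16 ≤ ρl) (hdS : ∀ β, VorDense Y (pvge2Cl c u (sd β) (aa β) e₁ x₂ dl) ρl)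
    (mid : ∀ β, ∀ v : Y, (vorCell Y v ∩ pvhtERg c u (sd β) (aa β) t s₁ x₂ (Sn - Δ * t₁) t₂ (lam β + Δ * u₀) a₀ b₀ tb wb ob c₀ c₁ z d l).Nonempty → v ∈ K ∧ σ v = κ v)
    (hζd : ‖ζd‖ = 1) (hζ : ζd * d = (Δ : ℂ)) (hρd : 0 < ρd) (hcut : ∀ β, xc β + 2 * ρd ≤ (ζd * z).re - Δ * (tb + wb))
    (hroom : ∀ β, ∀ w ∈ Rm β, xc β < (ζd * w).re → l0 ≤ pvge2Sg (!sd β) * ((ζd * w).im - (ζd * z).im) ∧ pvge2Sg (!sd β) * ((ζd * w).im - (ζd * z).im) ≤ l1)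
    (hlo : Δ * ob + 3 / 2 * dl + ρd ≤ l0) (hhi : l1 + ρd + 3 / 2 * dl ≤ Δ * u₀)
    (hH : ∀ β, ∃ v : Y, (ζd * z).re - Δ * (tb - wb) ≤ (ζd * (v : ℂ)).re ∧ (delMap h).Join univ (pvldCol σ {u : Y | (u : ℂ) ∈ Rm β} β) (pvhiEnd (delMap h) β ad) v)
    (hfoot : ∀ β, (ζd * ((pvhiEnd (delMap h) β ad : Y) : ℂ)).re ≤ xc β)
    (hRm : ∀ β, ∀ v : Y, (v : ℂ) ∈ Rm β → v ∈ K ∧ vorCell Y v ⊆ closedBall (v : ℂ) ρd)
    (hRκ : ∀ β, ∀ v : Y, (v : ℂ) ∈ Rm β → xc β < (ζd * (v : ℂ)).re → σ v = κ v) :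
    ∃ GN G : Bool → Set ℂ, PvhjFoot h σ κ K at_ GN ∧ PvhjFoot h σ κ K ad G ∧ PvhjMid Y σ κ K G ∧ ∀ β, GN β ⊆ G β := by
  have hu := (G true).hu
  have he0 : 0 ≤ e₀ := (Nn true).e0
  refine pvdd_feet (ζ := (starRingEnd ℂ) u) (c := c) (up := sd) (δ := dl) (ρl := ρl) (ρd := ρd) (ζd := ζd) (Rm := Rm) (xc := xc) (e₀ := e₀)
    (Sg := fun β => pvge2Cl c u (sd β) (aa β) e₁ x₂ dl)
    (eC := fun β => (pvge2RC c u (sd β) (aa β) t e₁ s₁, pvge2P c u (sd β) e₁ (-(aa β)), pvge2P c u (sd β) s₁ (aa β)))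
    (eN := fun β => (pvge2RN c u (sd β) (aa β) t s₁ x₂, pvge2P c u (sd β) s₁ (aa β), pvge2P c u (sd β) x₂ (aa β)))
    (t := fun β => pvmvMid c u (sd β) (aa β) t x₂ (Sn - Δ * t₁) t₂ (lam β + Δ * u₀) a₀ b₀ u₀ tb wb ob c₀ c₁ z d l)
    (eD := fun β => (pvmvBar (!sd β) b₀ tb wb ob z d, pvljPt z d l 0 (-tb) (pvge2Sg (!sd β) * u₀), pvljPt z d l 0 (-tb) (pvge2Sg (!sd β) * ob)))
    (jN := fun _ => 0) (jS := fun _ => 0)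
    foot (Nn true).dl0 (fun β => pvmv_route (G β) (Nn β) Nc (A β)) hev hρ0 he
    (fun β => pvge2_armReg hu (Nn β) (by linarith) le_rfl le_rfl le_rfl Subset.rfl Subset.rfl) (fun β => pvge2_armReg hu (Nn β) le_rfl (by linarith) le_rfl le_rfl Subset.rfl Subset.rfl)
    hρl hdS (fun _ => by norm_num) (fun _ => by norm_num)
    (fun β => (pvge2_sd_sub dl _ 0).trans (pvge2_Cl_cellN dl)) (fun β => (pvge2_sd_sub dl _ 0).trans (pvge2_Cl_cellS dl))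
    (fun β v hv => mid β v (hv.mono (inter_subset_inter_right _ (pvht_e_tail _ _ _ _ _ _ _ _ _ _ _ _ _ _ _ _ _ _ _ _ _))))
    (fun β => by simp [pvmvMid]) hζd (fun β => pvht_e_doorReg hζ (G true).Δ0 (!sd β) l hρd Nc.w0 (hcut β) (hroom β) hlo hhi) hH hfoot hRm hRκ

end feet

/-! ## 3. the run, any presentation -/

section run

variable {Y : Set ℂ} {h : DelGood Y} {P : PlTri ↥Y} {K : Set Y} {c u : ℂ} {σ : Y → Bool} {κ : ℂ → Bool} {sd : Bool → Bool} {z d : ℂ} {l : List PvtTurn} {Δ Sn c₀ : ℝ} {lam aa : Bool → ℝ}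
  {dl ρl ρd t e₁ s₁ x₂ t₂ e₀ b μ rs a₀ b₀ u₀ s₀ tb wb ob t₁ c₁ l0 l1 : ℝ} {ζd : ℂ} {xc : Bool → ℝ} {Rm : Bool → Set ℂ}

/-- **THE THICK LINK AT A FINAL CONFIGURATION, ROUTES OF 21, ANY PRESENTATION** (exit of the plug `g` → `a₁` = tip dart of the carried entrance stub), arms at a true box.   `hO` : `pvhr_out_gt` -/
theorem pvht_e_run (hP : P = delPl h) {a₁ : P.Dart} (h1 : pvasBW P.toMap σ a₁) {xB yL yU : ℝ} (G : ∀ β, PvmvGeo c u (sd β) z d l Δ Sn (lam β) c₀)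
    (foot : ∀ GN GC : Bool → Set ℂ, (∀ β, PvhjArm Y κ β ((starRingEnd ℂ) u) xB yL yU μ c rs (sd β) (GN β) (GC β) (pvge2Cl c u (sd β) (aa β) e₁ x₂ dl)) → PvhjFootP P σ κ K a₁ GN)
    (hK : K.Finite) (hco : ∀ u v, u ∉ K → v ∉ K → P.toMap.Join univ Kᶜ u v) (g : P.toMap.Gate σ) (hne : g.vp ≠ P.toMap.src a₁)
    (hO : ∃ f, P.toMap.src f ∉ K ∧ P.toMap.DJoin (pvldBar P.toMap σ K g.aOut a₁) (P.toMap.opp g.aOut) f)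
    (Nn : ∀ β, Pvge2Num (aa β) t e₁ s₁ x₂ dl ρl e₀ b μ rs) (hB : xB ≤ ((starRingEnd ℂ) u * c).re + e₀) (hB' : ((starRingEnd ℂ) u * c).re - e₀ ≤ xB)
    (hL : ((starRingEnd ℂ) u * c).im - b ≤ yL) (hU : yU ≤ ((starRingEnd ℂ) u * c).im + b)
    (Nc : PvmvNum Δ dl a₀ b₀ u₀ s₀ tb wb ob c₀ t₁ c₁) (A : ∀ β, PvmvArm Δ dl u₀ t₁ c₁ (aa β) t e₁ s₁ x₂ t₂ Sn (lam β))
    (hev : ∀ β, cfOf Y κ ∈ pvkqRtEv dl β (pvge2LegsO c u (sd β) (aa β) t e₁ s₁ x₂ ++ pvmvMid c u (sd β) (aa β) t x₂ (Sn - Δ * t₁) t₂ (lam β + Δ * u₀) a₀ b₀ u₀ tb wb ob c₀ c₁ z d l))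
    (hρl : dl / 16 ≤ ρl) (hdS : ∀ β, VorDense Y (pvge2Cl c u (sd β) (aa β) e₁ x₂ dl) ρl)
    (mid : ∀ β, ∀ v : Y, (vorCell Y v ∩ pvhtERg c u (sd β) (aa β) t s₁ x₂ (Sn - Δ * t₁) t₂ (lam β + Δ * u₀) a₀ b₀ tb wb ob c₀ c₁ z d l).Nonempty → v ∈ K ∧ σ v = κ v)
    (hζd : ‖ζd‖ = 1) (hζ : ζd * d = (Δ : ℂ)) (hρd : 0 < ρd) (hcut : ∀ β, xc β + 2 * ρd ≤ (ζd * z).re - Δ * (tb + wb))
    (hroom : ∀ β, ∀ w ∈ Rm β, xc β < (ζd * w).re → l0 ≤ pvge2Sg (!sd β) * ((ζd * w).im - (ζd * z).im) ∧ pvge2Sg (!sd β) * ((ζd * w).im - (ζd * z).im) ≤ l1)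
    (hlo : Δ * ob + 3 / 2 * dl + ρd ≤ l0) (hhi : l1 + ρd + 3 / 2 * dl ≤ Δ * u₀)
    (hH : ∀ β, ∃ v : Y, (ζd * z).re - Δ * (tb - wb) ≤ (ζd * (v : ℂ)).re ∧ P.toMap.Join univ (pvldCol σ {u : Y | (u : ℂ) ∈ Rm β} β) (pvhiEnd P.toMap β g.aOut) v)
    (hfoot : ∀ β, (ζd * ((pvhiEnd P.toMap β g.aOut : Y) : ℂ)).re ≤ xc β)
    (hRm : ∀ β, ∀ v : Y, (v : ℂ) ∈ Rm β → v ∈ K ∧ vorCell Y v ⊆ closedBall (v : ℂ) ρd)
    (hRκ : ∀ β, ∀ v : Y, (v : ℂ) ∈ Rm β → xc β < (ζd * (v : ℂ)).re → σ v = κ v) :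
    PvldRun P.toMap σ K g.aOut a₁ := by
  subst hP
  obtain ⟨GN, G, J₁, J₀, hG, hsub⟩ := pvht_e_feet (at_ := a₁) (ad := g.aOut) G foot Nn hB hB' hL hU Nc A hev hρl hdS mid hζd hζ hρd hcut hroom hlo hhi hH hfoot hRm hRκ
  exact pvhj_run_foot h hK (pvtg_aOut_bw g) h1 (fun e => hne ((pvtg_aOut_src g).symm.trans e)) hco hO J₀ J₁ hG (fun _ => Subset.rfl) hsub

/-- the same with the arms `PvhjArmT` of 23 -/
theorem pvht_e_runT (hP : P = delPl h) {a₁ : P.Dart} (h1 : pvasBW P.toMap σ a₁) {rt ρ : ℝ} (G : ∀ β, PvmvGeo c u (sd β) z d l Δ Sn (lam β) c₀)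
    (foot : ∀ GN GC : Bool → Set ℂ, (∀ β, PvhjArmT Y κ β ((starRingEnd ℂ) u) c rt ρ rs (sd β) (GN β) (GC β) (pvge2Cl c u (sd β) (aa β) e₁ x₂ dl)) → PvhjFootP P σ κ K a₁ GN)
    (hK : K.Finite) (hco : ∀ u v, u ∉ K → v ∉ K → P.toMap.Join univ Kᶜ u v) (g : P.toMap.Gate σ) (hne : g.vp ≠ P.toMap.src a₁)
    (hO : ∃ f, P.toMap.src f ∉ K ∧ P.toMap.DJoin (pvldBar P.toMap σ K g.aOut a₁) (P.toMap.opp g.aOut) f)
    (Nn : ∀ β, Pvge2Num (aa β) t e₁ s₁ x₂ dl ρl e₀ rt (2 * ρ) rs) (hρ0 : 0 ≤ ρ) (he : rt + 2 * ρ < e₀)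
    (Nc : PvmvNum Δ dl a₀ b₀ u₀ s₀ tb wb ob c₀ t₁ c₁) (A : ∀ β, PvmvArm Δ dl u₀ t₁ c₁ (aa β) t e₁ s₁ x₂ t₂ Sn (lam β))
    (hev : ∀ β, cfOf Y κ ∈ pvkqRtEv dl β (pvge2LegsO c u (sd β) (aa β) t e₁ s₁ x₂ ++ pvmvMid c u (sd β) (aa β) t x₂ (Sn - Δ * t₁) t₂ (lam β + Δ * u₀) a₀ b₀ u₀ tb wb ob c₀ c₁ z d l))
    (hρl : dl / 16 ≤ ρl) (hdS : ∀ β, VorDense Y (pvge2Cl c u (sd β) (aa β) e₁ x₂ dl) ρl)
    (mid : ∀ β, ∀ v : Y, (vorCell Y v ∩ pvhtERg c u (sd β) (aa β) t s₁ x₂ (Sn - Δ * t₁) t₂ (lam β + Δ * u₀) a₀ b₀ tb wb ob c₀ c₁ z d l).Nonempty → v ∈ K ∧ σ v = κ v)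
    (hζd : ‖ζd‖ = 1) (hζ : ζd * d = (Δ : ℂ)) (hρd : 0 < ρd) (hcut : ∀ β, xc β + 2 * ρd ≤ (ζd * z).re - Δ * (tb + wb))
    (hroom : ∀ β, ∀ w ∈ Rm β, xc β < (ζd * w).re → l0 ≤ pvge2Sg (!sd β) * ((ζd * w).im - (ζd * z).im) ∧ pvge2Sg (!sd β) * ((ζd * w).im - (ζd * z).im) ≤ l1)
    (hlo : Δ * ob + 3 / 2 * dl + ρd ≤ l0) (hhi : l1 + ρd + 3 / 2 * dl ≤ Δ * u₀)
    (hH : ∀ β, ∃ v : Y, (ζd * z).re - Δ * (tb - wb) ≤ (ζd * (v : ℂ)).re ∧ P.toMap.Join univ (pvldCol σ {u : Y | (u : ℂ) ∈ Rm β} β) (pvhiEnd P.toMap β g.aOut) v)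
    (hfoot : ∀ β, (ζd * ((pvhiEnd P.toMap β g.aOut : Y) : ℂ)).re ≤ xc β)
    (hRm : ∀ β, ∀ v : Y, (v : ℂ) ∈ Rm β → v ∈ K ∧ vorCell Y v ⊆ closedBall (v : ℂ) ρd)
    (hRκ : ∀ β, ∀ v : Y, (v : ℂ) ∈ Rm β → xc β < (ζd * (v : ℂ)).re → σ v = κ v) :
    PvldRun P.toMap σ K g.aOut a₁ := by
  subst hP
  obtain ⟨GN, G, J₁, J₀, hG, hsub⟩ := pvht_e_feetT (at_ := a₁) (ad := g.aOut) G foot Nn hρ0 he Nc A hev hρl hdS mid hζd hζ hρd hcut hroom hlo hhi hH hfoot hRm hRκ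
  exact pvhj_run_foot h hK (pvtg_aOut_bw g) h1 (fun e => hne ((pvtg_aOut_src g).symm.trans e)) hco hO J₀ J₁ hG (fun _ => Subset.rfl) hsub

end run

end Claimed.Agent.R289
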