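-- KEEP
import Claimed.Agent.R289.Tr.FrcPat
import Claimed.Agent.R289.Tr.PlugFrcR
import Claimed.Agent.R289.Tr.LinkG

/-!
# Row 289 (S0537), THE WALL, ROAD E, box TR-UPMIX, file Tr/UpMix : E10, **FIELD `up` (ONE MIXED ORDER), ONE TEXT FOR ALL THE ENDS**      (helper17, post of 24 id 97012; prefix `pvub_`, `pvub`, `Pvub`)      0 sorry

GLUE over 174 (`Tr/FrcM`: `PvhfGeo`, `pvhfS`), 77 (`Tr/FrcDoor`: `PvhfIs.pvdp_up`, `PvdpUp.pl .sec`, `PvdpExt`), 248 (`Tr/FrcPat`: `pvjpRm`, `pvjp_patB_up`), 250 (`Tr/LinkH`).   MODEL FREE, generic in the placed side event `pvdpPl z a c (pvhfS 𝔭 𝔱 sg)`.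
* sec. 1  **`PvubGeo 𝔭 𝔱 sg z a c D W F`** = THE CONTRACT (regions only): `a0 : a ≠ 0`, `ew` : placed window of the plug `⊆ D` (frozen), `es` : placed window of the side event `⊆ W` (window of the guard),
          `ll` : off `D` the two placed lane rooms are disjoint, `off β` : off `D` the placed room of the lane `β` misses the routes of the OTHER colour `!(β == c)`;
          `pvubK ..  κ` = the half of colour `κ` of the order (routes of colour `κ` `∪` lane room of that colour off `D`), `PvubGeo.disj`, `pvub_pl`, `PvubGeo.sec`,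
          **`PvubGeo.up`** : `PvhfGeo 𝔭 𝔱 → PvkqFit δ M K F → PvjpBlind ℬ → Y.Countable → PvdpExt W Y → (∀ v ∈ Y, v ∈ D → v ∈ Fz) → ∃ s, countable ∧ PvlhUp s (pvlhSec Y Fz σ (pvdpPl z a c (pvhfS 𝔭 𝔱 sg))) ∧ PvlhUp s (pvlhCp Y (pvkqPat δ F ∩ ℬ))`
* sec. 2  THE FORMS OF THE CONSUMERS: **`PvubGeo.field`** = field `up` of `PvjeTest.Ok` VERBATIM (`W := E.D ∪ E.K`; o i e), **`PvubGeo.up_rg`** = the (UP) half of `PvifTest.Ok.det` (guard `PvlhgRg`; f),
          `pvub_pl_comp` (`pvdpPl z a c (cfMap (pvthInv z' a') ⁻¹' S) = pvdpPl (z + a z') (a a') c S`: `pvetS` of 54), `pvub_blind_mesh : PvjpBlind (pvjoMesh ρ E)`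
* sec. 3  THE TRUNCATION OF RECORD: `pvubOut r sg β` = the outer rectangle `|x| ∈ [3r, 5r]`, `y ∈ ±[r/2, 3r/2]` of the lane `β`;   **`pvub_geo_rec`** : at `pvkdP r`, ANY truncation with `𝔱.Ln = (pvhfT r).Ln` (`pvhfT`, `pvhfTw`, `.fine`):
          `PvubGeo` from THREE REGION LINES: placed `pvwSq 0 (3r) ⊆ D`, placed `𝔱.Es sg ⊆ W`, `∀ β, Disjoint (pvjpRm (!(β == c)) F) (placed pvubOut r sg β)`.
-/

set_option autoImplicit false

namespace Claimed.Agent.R289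

open Set MeasureTheory Filter Topology Claims.C0465
open scoped ENNReal

/-! ## 1. the geometry which a placed side event and a pattern owe to each other -/

/-- the colour which the frame `(z, a, c)` gives to the colour `β` of the reference frame -/
def pvubCl (c β : Bool) : Bool := β == c

/-- **THE CONTRACT**: frame `(z, a, c)`, side `sg` of the plug `𝔭` with the truncation `𝔱`, frozen region `D`, window `W` of the guard, pattern `F` -/
structure PvubGeo (𝔭 : PvkdPlug) (𝔱 : PvhfTr) (sg : Bool) (z a : ℂ) (c : Bool) (D W : Set ℂ) (F : List (Bool × List (Set ℂ × ℂ × ℂ))) : Prop where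
  a0 : a ≠ 0
  /-- the window of the plug is frozen -/
  ew : pvthSim z a '' 𝔭.Ew ⊆ D
  /-- the window of the side event lies in the window of the guard -/
  es : pvthSim z a '' 𝔱.Es sg ⊆ W
  /-- off the frozen region the two lane rooms are disjoint -/
  ll : Disjoint (pvthSim z a '' 𝔱.Ln sg true \ D) (pvthSim z a '' 𝔱.Ln sg false \ D)
  /-- off the frozen region the room of the lane `β` misses the routes of the other colour -/
  off : ∀ β, Disjoint (pvjpRm (!pvubCl c β) F) (pvthSim z a '' 𝔱.Ln sg β \ D)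

/-- the half of colour `κ` of the mixed order -/
def pvubK (𝔱 : PvhfTr) (sg : Bool) (z a : ℂ) (c : Bool) (D : Set ℂ) (F : List (Bool × List (Set ℂ × ℂ × ℂ))) (κ : Bool) : Set ℂ :=
  pvjpRm κ F ∪ (pvthSim z a '' 𝔱.Ln sg (pvubCl c κ) \ D)

theorem pvub_eqns_cite : True := by
  have := @pvubCl.eq_1; have := @pvubK.eq_1
  trivial

theorem pvub_cl_cl (c β : Bool) : pvubCl c (pvubCl c β) = β := by cases c <;> cases β <;> rfl

section core

variable {𝔭 : PvkdPlug} {𝔱 : PvhfTr} {sg : Bool} {z a : ℂ} {c : Bool} {D W : Set ℂ} {F : List (Bool × List (Set ℂ × ℂ × ℂ))}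

/-- the two halves of the order are disjoint -/
theorem PvubGeo.disj (h : PvubGeo 𝔭 𝔱 sg z a c D W F) {δ : ℝ} {M K : ℕ} (fit : PvkqFit δ M K F) : Disjoint (pvubK 𝔱 sg z a c D F true) (pvubK 𝔱 sg z a c D F false) := by
  unfold pvubK
  rw [disjoint_union_left, disjoint_union_right, disjoint_union_right]
  refine ⟨⟨pvjp_rm_disj fit, ?_⟩, ?_, ?_⟩
  · have := h.off (pvubCl c false)
    rw [pvub_cl_cl] at this
    exact this
  · have := h.off (pvubCl c true)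
    rw [pvub_cl_cl] at this
    exact this.symm
  · cases c
    · exact h.ll.symm
    · exact h.ll

/-- **the placed side event is up** in the label free order: window = placed `Es`, frozen = placed `Ew`, rooms = the placed lane rooms (the colour `false` swaps them) -/
theorem pvub_pl (hG : PvhfGeo 𝔭 𝔱) (sg : Bool) (z : ℂ) {a : ℂ} (ha : a ≠ 0) (c : Bool) :
    PvdpUp (pvthSim z a '' 𝔱.Es sg) (pvthSim z a '' 𝔭.Ew) (pvthSim z a '' 𝔱.Ln sg (pvubCl c true)) (pvthSim z a '' 𝔱.Ln sg (pvubCl c false)) (pvdpPl z a c (pvhfS 𝔭 𝔱 sg)) := by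
  have h := ((pvhf_S_is hG sg).pvdp_up (hG.wf sg)).pl z a ha c
  cases c
  · exact h
  · exact h

/-- **THE DOOR HALF**: the section of the placed side event is up in the order of the link -/
theorem PvubGeo.sec (h : PvubGeo 𝔭 𝔱 sg z a c D W F) (hG : PvhfGeo 𝔭 𝔱) {δ : ℝ} {M K : ℕ} (fit : PvkqFit δ M K F) {Y Fz : Set ℂ} (σ : ℂ → Bool) (hext : PvdpExt W Y) (hD : ∀ v ∈ Y, v ∈ D → v ∈ Fz) :
    PvlhUp (pvlhSg Y (pvubK 𝔱 sg z a c D F true) (pvubK 𝔱 sg z a c D F false)) (pvlhSec Y Fz σ (pvdpPl z a c (pvhfS 𝔭 𝔱 sg))) := by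
  refine (pvub_pl hG sg z h.a0 c).sec σ (hext.mono h.es) (h.disj fit) (fun v hv => hD v hv.1 (h.ew hv.2)) (fun v hv => ?_) (fun v hv => ?_)
  · by_cases hvD : v ∈ D
    · exact Or.inl (hD v hv.1 hvD)
    · exact Or.inr (Or.inr ⟨hv.2, hvD⟩)
  · by_cases hvD : v ∈ D
    · exact Or.inl (hD v hv.1 hvD)
    · exact Or.inr (Or.inr ⟨hv.2, hvD⟩)

/-- **ONE MIXED ORDER, THE ONE TEXT**: section of the placed side event + copy section of `pattern ∩ colour blind clause` -/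
theorem PvubGeo.up (h : PvubGeo 𝔭 𝔱 sg z a c D W F) (hG : PvhfGeo 𝔭 𝔱) {δ : ℝ} {M K : ℕ} (fit : PvkqFit δ M K F) {ℬ : Set (Conf PvPt)} (hB : PvjpBlind ℬ)
    {Y Fz : Set ℂ} (σ : ℂ → Bool) (hY : Y.Countable) (hext : PvdpExt W Y) (hD : ∀ v ∈ Y, v ∈ D → v ∈ Fz) :
    ∃ s : ℂ → Option Bool, {z | s z ≠ none}.Countable ∧ PvlhUp s (pvlhSec Y Fz σ (pvdpPl z a c (pvhfS 𝔭 𝔱 sg))) ∧ PvlhUp s (pvlhCp Y (pvkqPat δ F ∩ ℬ)) :=
  ⟨_, pvlh_sg_countable hY _ _, h.sec hG fit σ hext hD, pvjp_patB_up fit hB Y (h.disj fit) (inter_subset_right.trans subset_union_left) (inter_subset_right.trans subset_union_left)⟩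

end core

/-! ## 2. the forms of the consumers -/

section forms

variable {𝔭 : PvkdPlug} {𝔱 : PvhfTr} {sg : Bool} {z a : ℂ} {c : Bool} {F : List (Bool × List (Set ℂ × ℂ × ℂ))}

/-- **THE FIELD `up` OF `PvjeTest.Ok` VERBATIM** (ends `o i e` of 35): `T.ℋ = pvdpPl z a c (pvhfS 𝔭 𝔱 sg)`, `T.𝒦 = pvkqPat δ F ∩ ℬ` -/
theorem PvubGeo.field {E : PvjeEnd} (h : PvubGeo 𝔭 𝔱 sg z a c E.D (E.D ∪ E.K) F) (hG : PvhfGeo 𝔭 𝔱) {δ : ℝ} {M K : ℕ} (fit : PvkqFit δ M K F) {ℬ : Set (Conf PvPt)} (hB : PvjpBlind ℬ) :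
    ∀ (η₀ : Conf PvPt) (Y Fz : Set ℂ) (σ : ℂ → Bool), Y.Countable → (∃ η, PvatNice (cfSites η) ∧ cfSites η ∩ E.Wn (E.Hu η₀) = Y ∩ E.Wn (E.Hu η₀)) → Fz ⊆ Y → (∀ v ∈ Y, v ∈ E.D → v ∈ Fz) →
      (∀ v ∈ Fz, v ∉ E.K ∧ v ∉ E.y η₀) → ∃ s : ℂ → Option Bool, {z | s z ≠ none}.Countable ∧ PvlhUp s (pvlhSec Y Fz σ (pvdpPl z a c (pvhfS 𝔭 𝔱 sg))) ∧ PvlhUp s (pvlhCp Y (pvkqPat δ F ∩ ℬ)) :=
  fun _ _ _ σ hY hn _ hD _ =>
    h.up hG fit hB σ hY ((pvdp_ext_of_nice hn).mono (union_subset subset_union_right (subset_union_left.trans' subset_union_right))) hD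

/-- **THE (UP) HALF OF `PvifTest.Ok.det`** (end `f` of 196): guard `PvlhgRg Wn 𝒩 Y`, `𝒩` = nice configurations -/
theorem PvubGeo.up_rg {D W : Set ℂ} (h : PvubGeo 𝔭 𝔱 sg z a c D W F) (hG : PvhfGeo 𝔭 𝔱) {δ : ℝ} {M K : ℕ} (fit : PvkqFit δ M K F) {ℬ : Set (Conf PvPt)} (hB : PvjpBlind ℬ)
    {Wn : Set ℂ} (hW : W ⊆ Wn) {𝒩 : Set (Conf PvPt)} (hN : ∀ η ∈ 𝒩, PvatNice (cfSites η)) {Y Fz : Set ℂ} (σ : ℂ → Bool) (hY : Y.Countable) (hr : PvlhgRg Wn 𝒩 Y) (hD : ∀ v ∈ Y, v ∈ D → v ∈ Fz) :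
    ∃ s : ℂ → Option Bool, {z | s z ≠ none}.Countable ∧ PvlhUp s (pvlhSec Y Fz σ (pvdpPl z a c (pvhfS 𝔭 𝔱 sg))) ∧ PvlhUp s (pvlhCp Y (pvkqPat δ F ∩ ℬ)) := by
  obtain ⟨η, hη, e⟩ := hr
  exact h.up hG fit hB σ hY ((pvdp_ext_of_nice ⟨η, hN η hη, e⟩).mono hW) hD

/-- a side event which is first scaled, then placed (`pvetS` of 54: `pvdpPl zu 1 c (cfMap (pvthInv 0 s) ⁻¹' S)`) -/
theorem pvub_pl_comp (z a z' a' : ℂ) (ha : a ≠ 0) (c : Bool) (S : Set (Conf PvPt)) : pvdpPl z a c (cfMap (pvthInv z' a') ⁻¹' S) = pvdpPl (z + a * z') (a * a') c S := by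
  ext η
  show cfMap (pvthInv z' a') (pvdpT z a c η) ∈ S ↔ pvdpT (z + a * z') (a * a') c η ∈ S
  rw [pvdp_T_comp z a z' a' ha]

/-- the exact mesh reader of 52 sees only the sites -/
theorem pvub_blind_mesh (ρ : ℝ) (E : Set ℂ) : PvjpBlind (pvjoMesh ρ E) := fun Y c c' h => by
  rw [pvjo_mesh_iff, cfOf_sites, pvay_of_restr] at h ⊢
  exact ⟨h.1, pvlhf_lf_congr h.2⟩

end forms

/-! ## 3. the truncation of record: what is left of the contract -/

/-- the part of the room of the lane `β` beyond the window `[-3r, 3r]²` of the plug -/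
noncomputable def pvubOut (r : ℝ) (sg β : Bool) : Set ℂ := if β then pvkdRect sg (3 * r) (5 * r) (r / 2) (3 * r / 2) else pvkdRect sg (3 * r) (5 * r) (-(3 * r / 2)) (-(r / 2))

theorem pvub_eqns_cite2 : True := by
  have := @pvubOut.eq_1
  trivial

section record

variable {r : ℝ}

theorem pvub_room_out (hr : 0 < r) (sg β : Bool) : (pvhfT r).Ln sg β ⊆ pvwSq 0 (3 * r) ∪ pvubOut r sg β := by
  intro w hw
  by_cases hq : w ∈ pvwSq 0 (3 * r)
  · exact Or.inl hq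
  refine Or.inr ?_
  have hq' : ¬ (|w.re| ≤ 3 * r ∧ |w.im| ≤ 3 * r) := by
    intro h
    refine hq ?_
    show |(w - 0).re| ≤ 3 * r ∧ |(w - 0).im| ≤ 3 * r
    rwa [sub_zero]
  cases sg <;> cases β <;> simp only [pvhfT, pvubOut, pvkdRect, rswRect, if_true, if_false, Bool.false_eq_true, mem_union, mem_ofPred_eq] at hw ⊢
  all_goals
    rcases hw with ⟨h1, h2, h3, h4⟩ | ⟨h1, h2, h3, h4⟩
    · exact absurd ⟨abs_le.2 ⟨by linarith, by linarith⟩, abs_le.2 ⟨by linarith, by linarith⟩⟩ hq'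
    · refine ⟨?_, ?_, h3, h4⟩
      all_goals
        by_contra hc
        exact hq' ⟨abs_le.2 ⟨by linarith, by linarith⟩, abs_le.2 ⟨by linarith, by linarith⟩⟩

theorem pvub_out_disj (hr : 0 < r) (sg : Bool) : Disjoint (pvubOut r sg true) (pvubOut r sg false) := by
  refine disjoint_left.2 fun w h1 h2 => ?_
  cases sg <;> simp only [pvubOut, pvkdRect, rswRect, if_true, if_false, Bool.false_eq_true, mem_ofPred_eq] at h1 h2 <;> linarith [h1.2.2.1, h2.2.2.2]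

theorem pvub_sim_inj {a : ℂ} (ha : a ≠ 0) (z : ℂ) : Function.Injective (pvthSim z a) := fun u v h => by
  unfold pvthSim at h
  exact mul_left_cancel₀ ha (add_left_cancel h)

/-- off a frozen region which contains the placed window of the plug, the placed room lies in the placed outer rectangle -/
theorem pvub_room_off (hr : 0 < r) (sg β : Bool) (z a : ℂ) {D : Set ℂ} (hD : pvthSim z a '' pvwSq 0 (3 * r) ⊆ D) : pvthSim z a '' (pvhfT r).Ln sg β \ D ⊆ pvthSim z a '' pvubOut r sg β := by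
  rintro _ ⟨⟨w, hw, rfl⟩, hn⟩
  rcases pvub_room_out hr sg β hw with h | h
  · exact absurd (hD ⟨w, h, rfl⟩) hn
  · exact ⟨w, h, rfl⟩

/-- **THE CONTRACT AT THE PLUG OF RECORD `pvkdP r`**, any truncation with the rooms of record (`pvhfT r`, `pvhfTw r Es`, `.fine μ W`): what is left = three region lines -/
theorem pvub_geo_rec (hr : 0 < r) {𝔱 : PvhfTr} (hL : 𝔱.Ln = (pvhfT r).Ln) (sg : Bool) (z : ℂ) {a : ℂ} (ha : a ≠ 0) (c : Bool) {D W : Set ℂ} {F : List (Bool × List (Set ℂ × ℂ × ℂ))}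
    (ew : pvthSim z a '' pvwSq 0 (3 * r) ⊆ D) (es : pvthSim z a '' 𝔱.Es sg ⊆ W) (off : ∀ β, Disjoint (pvjpRm (!pvubCl c β) F) (pvthSim z a '' pvubOut r sg β)) :
    PvubGeo (pvkdP r) 𝔱 sg z a c D W F where
  a0 := ha
  ew := ew
  es := es
  ll := by
    rw [hL]
    refine Disjoint.mono (pvub_room_off hr sg true z a ew) (pvub_room_off hr sg false z a ew) ?_
    exact (disjoint_image_iff (pvub_sim_inj ha z)).2 (pvub_out_disj hr sg)
  off := fun β => by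
    rw [hL]
    exact (off β).mono_right (pvub_room_off hr sg β z a ew)

end record

end Claimed.Agent.R289
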