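import Claimed.Agent.R289.Tr.SoftE
import Claimed.Agent.R289.Tr.Sure
import Claimed.Agent.R289.Tr.Hub

/-!
# Row 289 (S0537), THE WALL, ROAD E, box TR-BLIND, file Tr/Blind : GENERIC GEOMETRY AND THE COLOUR BLINDNESS OF THE SOFT LINKS      (owner helper141; prefix `pvbq_`, `pvbq`, `Pvbq`)

WHY.   The soft localisation (251 `Tr/Sure`: `pvsuSure`, `pvsuLoc`) reads the window `Wn ×ˢ univ` BY DEFINITION: sites AND colours.   The engine (`PvjbIn.chain`, `PvjbIn.enl` of 93, `PvueWin.fresh` of `Tr/SoftE`, the design of 193) needs more: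
the link does NOT see the colours of the kept sites of the window which are neither frozen nor fresh.      The PLAIN event has this property (deterministic, owed by the model);   the SOFT event is defined through `toMeasurable` / `AEMeasurable.mk`,
which are arbitrary on null sets: at ONE fixed `(Y, σ)` nothing can be said.      It is true at ALMOST EVERY GEOMETRY, FOR ALL COLOURINGS AT ONCE.   MODEL FREE.
* sec. 1  **`pvbq_all_col`** : a null event which is read in a BOUNDED window fails at a.e. geometry for ALL the colourings of the sites (every colouring of the finitely many sites of the window has positive probability).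
* sec. 2  `pvbqB C Y τ ω₂`, `pvbqZ C Wn Y τ ω₂ ξ`, **`pvbqGen ε C Wn p Y`** = GENERIC GEOMETRY (colour blind: a property of the SET `Y`);   **`pvbq_gen_ae`** (a.e. geometry is generic), `pvbq_gen_law`, **`pvbq_gen_up`** (`(pvhbUp ε).P (not generic) = 0`: goes into the bad set `G ε`),
          `pvbq_gen_congr`, **`pvbq_gen_Yc`** (`Gen (Y \ C ∪ Y₂ ∩ C) ↔ Gen Y` for EVERY `Y₂`: the clause `rd_guard` of 159 is free), `pvbq_gen_mono`, `pvbq_gen_and`, `pvbq_gen_all`.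
* sec. 3  two configurations: `pvbq_sure_ae`, **`pvbq_sure_of`**, **`pvbq_loc_of`** (soft blindness from plain blindness along the splice).
* sec. 4  at a generic geometry: `pvbq_sure_iff`, `pvbq_loc_eq`;   **`PvbqBlind ε C A X Y Fz y₀ σ`** = THE LINK SEES THE COLOURS OF `Fz` (frozen) AND OF `y₀` (fresh) ONLY;   **`pvbq_blind`** (form of `Tr/InstL` v2), **`pvbq_blind'`** (form of ruling 20 (4)).
* sec. 5  consequences in the names of `Tr/DomY`, `Tr/ChainY`, `Tr/SoftE`: **`PvbqBlind.R`** (`∀ κ, ∀ᵐ ω₂`: change of the base colouring AND of the fresh set), `PvbqBlind.R_ae`, `PvbqBlind.phi_ae`, **`PvkyAg.pvbq_base`** (the SAME funnel represents the link at the other base),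
          `pvbq_forced_iff`, **`pvbq_forced_base`**, `pvbq_sq_base` (`pvueForced`, `pvueSq` at two bases with the same funnel), `PvkyChain.pvbq_Ev_congr`, `PvkyChain.pvbq_base`, `PvkyChain.pvbq_K` (`κ_out`, `κ_in`).
* sec. 6  **`PvbqEnd ε C D e Y Fz σ`** = A BLIND END;   **`pvbq_end`** (`A := Sure_Wn M`, `X := Loc_Wn (1_M F)`), **`pvbq_end'`** (ruling 20 (4)): generic geometry + `PvbqPlain` ⟹ blind end;
          **`PvkyChain.pvbq_all`** = the field `chain` of `PvjbIn` (SAME funnels for every `σ' = σ` on the frozen sites, ANY larger fresh set), **`PvkyChain.pvbq_enl`** = the field `enl`;   `pvbq_gen_up_all` (countably many windows).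
HOW TO USE (N1).   `Rg ε Y := ∀ k, pvbqGen ε C (Wn k) (p k) Y` (`k` = the countably many windows), `p k ζ := pvbqOk (pvP ε) (M k) ((M k).indicator (F k)) ζ ∧ Nice ζ`;   `pvbq_ok_ae` + [MEAS] + `Nice` a.s. ⟹ `pvbq_gen_up_all`;   `pvbq_gen_Yc` = `rd_guard`.
The chain at ONE base `cfOf Y σ` in the SMALL experiment: `pvue_chain_own`.   Then `PvkyChain.pvbq_all`, `.pvbq_enl`.      OWED BY THE MODEL: `PvbqPlain` only (deterministic; tools `pvbq_mem_Z`, `pvbq_Z_sites`, `pvbq_Z_pts`).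
-/

set_option autoImplicit false
set_option linter.unusedSectionVars false

namespace Claimed.Agent.R289

open MeasureTheory ProbabilityTheory Set Claims.C0465
open scoped ENNReal

/-! ## 1. a null event of a bounded window fails for ALL colourings at a.e. geometry -/

/-- **ALL COLOURINGS AT ONCE**: `𝒜` null (NO measurability), read in the bounded window `O` -/
theorem pvbq_all_col (ε : ℝ) {O : Set ℂ} (hO : Bornology.IsBounded O) {𝒜 : Set (Conf PvPt)} (hr : Conf.Reads (O ×ˢ univ) fun η => η ∈ 𝒜) (h0 : pvP ε 𝒜 = 0) :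
    ∀ᵐ g ∂(pvGeo ε), ∀ σ : ℂ → Bool, cfOf (pvgSites g) σ ∉ 𝒜 := by
  have h1 : ∀ᵐ g ∂(pvGeo ε), ∀ᵐ c ∂pvCol, pvConf (pvMerge (g, c)) ∉ 𝒜 := pvqu_Qc_ae ε (p := fun η => η ∉ 𝒜) (by
    show pvP ε {η | ¬ η ∉ 𝒜} = 0
    simpa using h0)
  filter_upwards [pvqu_ok_ae ε, h1] with g hg h2 σ hσ
  have hV : (((hg.sites_finite hO).toFinset : Finset ℂ) : Set ℂ) = pvgSites g ∩ O := Set.Finite.coe_toFinset _
  set V : Finset ℂ := (hg.sites_finite hO).toFinset with hVdef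
  have e1 := pvqu_loc_sites (𝒜 := 𝒜) (fun η => iff_of_eq (hr η)) hg hV
  have e2 : pvQc 𝒜 g = 0 := by
    rw [pvqu_Qc_eq]
    have : {c | pvConf (pvMerge (g, c)) ∈ 𝒜} = {c | ¬ pvConf (pvMerge (g, c)) ∉ 𝒜} := by ext c; simp
    rw [this]
    exact h2
  rw [e2] at e1
  have hx : (fun z : V => σ z) ∈ {x : V → Bool | cfOf (pvgSites g) (cfExt V x) ∈ 𝒜} := by
    show cfOf (pvgSites g) (cfExt V fun z : V => σ z) ∈ 𝒜
    have e3 : Conf.restr (O ×ˢ univ) (cfOf (pvgSites g) σ) = Conf.restr (O ×ˢ univ) (cfOf (pvgSites g) (cfExt V fun z : V => σ z)) := by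
      refine cfOf_restr_congr fun z hz => ?_
      have hzV : z ∈ V := by
        have : z ∈ (V : Set ℂ) := by rw [hV]; exact hz
        exact this
      unfold cfExt
      rw [dif_pos hzV]
    exact (hr.congr e3) ▸ hσ
  have h3 : pvBits V {fun z : V => σ z} ≤ 0 := by
    rw [e1]
    exact measure_mono (singleton_subset_iff.2 hx)
  rw [pvqu_bits_singleton] at h3
  exact absurd (le_antisymm h3 zero_le) (pow_ne_zero _ (by simp))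

/-- an almost sure property of the geometry, on the samples -/
theorem pvbq_geo_law (ε : ℝ) {Φ : Set ℂ → Prop} (h : ∀ᵐ g ∂(pvGeo ε), Φ (pvgSites g)) : ∀ᵐ ω ∂(pvLaw ε), Φ (cfSites (pvConf ω)) := by
  filter_upwards [pvqu_ae_geo ε h] with ω hω
  have e := pvqu_cfSites (pvGeoOf ω) (pvColOf ω)
  rw [pvqu_merge_of] at e
  rw [e]
  exact hω

/-- an almost sure property of the geometry, for the upper probability of the transport machine -/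
theorem pvbq_geo_up (ε : ℝ) {Φ : Set ℂ → Prop} (h : ∀ᵐ g ∂(pvGeo ε), Φ (pvgSites g)) : (pvhbUp ε).P {q | ¬ Φ (cfSites (pvConf (pvMerge q)))} = 0 := by
  refine le_antisymm ((pvup_iter_P_le (pvGeo ε) pvCol _).trans (le_of_eq ?_)) zero_le
  have e : {q : PvGeoT × PvColT | ¬ Φ (cfSites (pvConf (pvMerge q)))} = {g | ¬ Φ (pvgSites g)} ×ˢ (univ : Set PvColT) := by
    ext ⟨g, c⟩
    simp only [mem_ofPred_eq, mem_prod, mem_univ, and_true]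
    rw [pvqu_cfSites]
  rw [e, Measure.prod_prod, measure_univ, mul_one]
  exact h

/-! ## 2. generic geometry -/

/-- the configuration of the experiment: sites `Y` coloured by `τ` off `C`, the independent configuration `ω₂` inside `C` -/
def pvbqB (C Y : Set ℂ) (τ : ℂ → Bool) (ω₂ : Conf PvPt) : Conf PvPt := Conf.spl (Cᶜ ×ˢ univ) (cfOf Y τ, ω₂)

/-- ... completed off the window `Wn` by the independent configuration `ξ` -/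
def pvbqZ (C Wn Y : Set ℂ) (τ : ℂ → Bool) (ω₂ ξ : Conf PvPt) : Conf PvPt := Conf.spl (Wn ×ˢ univ) (pvbqB C Y τ ω₂, ξ)

/-- **GENERIC GEOMETRY** for the almost sure property `p`, the resampled region `C`, the window `Wn`: for EVERY colouring of the kept sites, `p` holds at almost every completion.      A property of the SET `Y` -/
def pvbqGen (ε : ℝ) (C Wn : Set ℂ) (p : Conf PvPt → Prop) (Y : Set ℂ) : Prop :=
  ∀ τ : ℂ → Bool, ∀ᵐ ω₂ ∂(pvP ε), ∀ᵐ ξ ∂(pvP ε), p (pvbqZ C Wn Y τ ω₂ ξ)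

theorem pvbq_eqns_cite : True := by
  have := @pvbqB.eq_1; have := @pvbqZ.eq_1; have := @pvbqGen.eq_1
  trivial

section gen

variable {ε : ℝ} {C C' Wn Y Y' : Set ℂ} {p p' : Conf PvPt → Prop}

theorem pvbq_mem_B {τ : ℂ → Bool} {ω₂ : Conf PvPt} {x : PvPt} : x ∈ (pvbqB C Y τ ω₂).pts ↔ (x.1 ∉ C ∧ x.1 ∈ Y ∧ x.2 = τ x.1) ∨ (x.1 ∈ C ∧ x ∈ ω₂.pts) := by
  simp only [pvbqB, Conf.spl, Conf.union, Conf.restr, cfOf, mem_union, mem_inter_iff, mem_ofPred_eq, mem_prod, mem_compl_iff, mem_univ, and_true, not_not]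
  tauto

theorem pvbq_R_eq (C : Set ℂ) (yf : Conf PvPt → Set ℂ) (Y : Set ℂ) (σ κ : ℂ → Bool) (ω₂ : Conf PvPt) :
    pvdyR C yf (cfOf Y σ) (κ, ω₂) = pvbqB C Y (pvfqMix (yf (cfOf Y σ)) (κ, σ)) ω₂ := pvdy_R_cfOf C yf Y σ κ ω₂

/-- through the window only `C ∩ Wn`, the sites of `Wn \ C` and their colours are seen -/
theorem pvbq_restr_B (hC : C ∩ Wn = C' ∩ Wn) (hY : ∀ z ∈ Wn, z ∉ C → (z ∈ Y ↔ z ∈ Y')) {τ τ' : ℂ → Bool} (hτ : ∀ z ∈ Y, z ∈ Wn → z ∉ C → τ z = τ' z) (ω₂ : Conf PvPt) :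
    Conf.restr (Wn ×ˢ univ) (pvbqB C Y τ ω₂) = Conf.restr (Wn ×ˢ univ) (pvbqB C' Y' τ' ω₂) := by
  ext x
  simp only [Conf.restr, mem_inter_iff, pvbq_mem_B, mem_prod, mem_univ, and_true]
  refine and_congr_left fun hW => ?_
  have hCC : x.1 ∈ C ↔ x.1 ∈ C' := by
    have := Set.ext_iff.1 hC x.1
    simp only [mem_inter_iff, hW, and_true] at this
    exact this
  by_cases hx : x.1 ∈ C
  · have hx' := hCC.1 hx
    simp only [hx, hx', not_true_eq_false, false_and, true_and, false_or]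
  · have hx' : x.1 ∉ C' := fun h => hx (hCC.2 h)
    simp only [hx, hx', not_false_eq_true, true_and, false_and, or_false]
    rw [← hY _ hW hx]
    refine and_congr_right fun hy => ?_
    rw [hτ _ hy hW hx]

theorem pvbq_Z_congr (hC : C ∩ Wn = C' ∩ Wn) (hY : ∀ z ∈ Wn, z ∉ C → (z ∈ Y ↔ z ∈ Y')) {τ τ' : ℂ → Bool} (hτ : ∀ z ∈ Y, z ∈ Wn → z ∉ C → τ z = τ' z) (ω₂ ξ : Conf PvPt) :
    pvbqZ C Wn Y τ ω₂ ξ = pvbqZ C' Wn Y' τ' ω₂ ξ := by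
  unfold pvbqZ
  rw [← Conf.spl_restr, pvbq_restr_B hC hY hτ, Conf.spl_restr]

theorem pvbq_restr_Z (C Wn Y : Set ℂ) (τ : ℂ → Bool) (ω₂ ξ : Conf PvPt) : Conf.restr (Wn ×ˢ univ) (pvbqZ C Wn Y τ ω₂ ξ) = Conf.restr (Wn ×ˢ univ) (pvbqB C Y τ ω₂) :=
  Conf.restr_spl _ _

/-- genericity depends on `C ∩ Wn` and on the sites of `Wn \ C` only -/
theorem pvbq_gen_congr (hC : C ∩ Wn = C' ∩ Wn) (hY : ∀ z ∈ Wn, z ∉ C → (z ∈ Y ↔ z ∈ Y')) : pvbqGen ε C Wn p Y ↔ pvbqGen ε C' Wn p Y' := by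
  unfold pvbqGen
  refine forall_congr' fun τ => ?_
  simp_rw [pvbq_Z_congr (τ := τ) (τ' := τ) hC hY (fun _ _ _ _ => rfl)]

/-- **the clause `rd_guard` of 159 is free**: the geometry inside `C` is not seen -/
theorem pvbq_gen_Yc (ε : ℝ) (C Wn : Set ℂ) (p : Conf PvPt → Prop) (Y Y₂ : Set ℂ) : pvbqGen ε C Wn p (Y \ C ∪ Y₂ ∩ C) ↔ pvbqGen ε C Wn p Y :=
  pvbq_gen_congr rfl fun z _ hz => by
    simp only [mem_union, mem_sdiff, mem_inter_iff, hz, not_false_eq_true, and_true, and_false, or_false]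

theorem pvbq_gen_mono (h : ∀ ζ, p ζ → p' ζ) (hG : pvbqGen ε C Wn p Y) : pvbqGen ε C Wn p' Y :=
  fun τ => (hG τ).mono fun _ h2 => h2.mono fun _ h3 => h _ h3

theorem pvbq_gen_and (hG : pvbqGen ε C Wn p Y) (hG' : pvbqGen ε C Wn p' Y) : pvbqGen ε C Wn (fun ζ => p ζ ∧ p' ζ) Y := fun τ => by
  filter_upwards [hG τ, hG' τ] with ω₂ h1 h2
  filter_upwards [h1, h2] with ξ h3 h4
  exact ⟨h3, h4⟩

theorem pvbq_gen_all {ι : Type*} [Countable ι] {P : ι → Conf PvPt → Prop} (hG : ∀ i, pvbqGen ε C Wn (P i) Y) : pvbqGen ε C Wn (fun ζ => ∀ i, P i ζ) Y := fun τ => by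
  have h1 : ∀ᵐ ω₂ ∂(pvP ε), ∀ i, ∀ᵐ ξ ∂(pvP ε), P i (pvbqZ C Wn Y τ ω₂ ξ) := ae_all_iff.2 fun i => hG i τ
  filter_upwards [h1] with ω₂ h2
  exact ae_all_iff.2 h2

/-- **ALMOST EVERY GEOMETRY IS GENERIC** -/
theorem pvbq_gen_ae' (ε : ℝ) (hC : MeasurableSet C) (hW : MeasurableSet Wn) (hb : Bornology.IsBounded (Wn \ C)) (hp : ∀ᵐ η ∂(pvP ε), p η) :
    ∀ᵐ g ∂(pvGeo ε), pvbqGen ε C Wn p (pvgSites g) := by
  have := (pv_isPpp ε).prob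
  have hW' : MeasurableSet (Wn ×ˢ (univ : Set Bool)) := hW.prod MeasurableSet.univ
  have hC' : MeasurableSet (Cᶜ ×ˢ (univ : Set Bool)) := hC.compl.prod MeasurableSet.univ
  set N : Set (Conf PvPt) := toMeasurable (pvP ε) {η | ¬ p η} with hN
  have mN : MeasurableSet N := measurableSet_toMeasurable _ _
  have N0 : pvP ε N = 0 := by rw [hN, measure_toMeasurable]; exact hp
  have m0 : Measurable (N.indicator (1 : Conf PvPt → ℝ≥0∞)) := measurable_one.indicator mN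
  let f₁ : Conf PvPt → ℝ≥0∞ := fun η => ∫⁻ ξ, N.indicator 1 (Conf.spl (Wn ×ˢ univ) (η, ξ)) ∂(pvP ε)
  have m1 : Measurable f₁ := (m0.comp (Conf.measurable_spl hW')).lintegral_prod_right'
  let f₂ : Conf PvPt → ℝ≥0∞ := fun η => ∫⁻ ω₂, f₁ (Conf.spl (Cᶜ ×ˢ univ) (η, ω₂)) ∂(pvP ε)
  have m2 : Measurable f₂ := (m1.comp (Conf.measurable_spl hC')).lintegral_prod_right'
  have i2 : ∫⁻ η, f₂ η ∂(pvP ε) = 0 := by
    rw [← (pv_isPpp ε).lintegral_spl hC' m1, ← (pv_isPpp ε).lintegral_spl hW' m0, lintegral_indicator_one mN, N0]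
  have r1 : Conf.Reads (Wn ×ˢ univ) f₁ := fun η => by
    show ∫⁻ ξ, N.indicator 1 (Conf.spl (Wn ×ˢ univ) (Conf.restr (Wn ×ˢ univ) η, ξ)) ∂(pvP ε) = _
    simp_rw [Conf.spl_restr]
    rfl
  have r2 : Conf.Reads ((Wn \ C) ×ˢ univ) f₂ := fun η => by
    show ∫⁻ ω₂, f₁ (Conf.spl (Cᶜ ×ˢ univ) (Conf.restr ((Wn \ C) ×ˢ univ) η, ω₂)) ∂(pvP ε) = ∫⁻ ω₂, f₁ (Conf.spl (Cᶜ ×ˢ univ) (η, ω₂)) ∂(pvP ε)
    refine lintegral_congr fun ω₂ => r1.congr ?_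
    ext x
    simp only [Conf.restr, Conf.spl, Conf.union, mem_inter_iff, mem_union, mem_compl_iff, mem_prod, mem_sdiff, mem_univ, and_true]
    tauto
  have a0 : pvP ε {η | f₂ η ≠ 0} = 0 := (lintegral_eq_zero_iff m2).1 i2
  filter_upwards [pvbq_all_col ε hb (𝒜 := {η | f₂ η ≠ 0}) (r2.comp (· ≠ 0)) a0] with g hg τ
  have h1 : f₂ (cfOf (pvgSites g) τ) = 0 := not_not.1 (hg τ)
  have h2 : ∀ᵐ ω₂ ∂(pvP ε), f₁ (Conf.spl (Cᶜ ×ˢ univ) (cfOf (pvgSites g) τ, ω₂)) = 0 :=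
    (lintegral_eq_zero_iff (m1.comp ((Conf.measurable_spl hC').comp measurable_prodMk_left))).1 h1
  filter_upwards [h2] with ω₂ h3
  have h4 : ∀ᵐ ξ ∂(pvP ε), N.indicator (1 : Conf PvPt → ℝ≥0∞) (Conf.spl (Wn ×ˢ univ) (Conf.spl (Cᶜ ×ˢ univ) (cfOf (pvgSites g) τ, ω₂), ξ)) = 0 :=
    (lintegral_eq_zero_iff (m0.comp ((Conf.measurable_spl hW').comp measurable_prodMk_left))).1 h3
  filter_upwards [h4] with ξ h5
  by_contra hn
  have h6 : Conf.spl (Wn ×ˢ univ) (Conf.spl (Cᶜ ×ˢ univ) (cfOf (pvgSites g) τ, ω₂), ξ) ∈ N := subset_toMeasurable _ _ hn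
  rw [indicator_of_mem h6] at h5
  exact one_ne_zero h5

theorem pvbq_gen_ae (ε : ℝ) (hC : MeasurableSet C) (hW : MeasurableSet Wn) (hb : Bornology.IsBounded Wn) (hp : ∀ᵐ η ∂(pvP ε), p η) :
    ∀ᵐ g ∂(pvGeo ε), pvbqGen ε C Wn p (pvgSites g) := pvbq_gen_ae' ε hC hW (hb.subset sdiff_subset) hp

/-- the primed forms ask only that the part of the window OFF the resampled set `C` be bounded (247: the windows of record contain the tile) -/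
theorem pvbq_gen_law' (ε : ℝ) (hC : MeasurableSet C) (hW : MeasurableSet Wn) (hb : Bornology.IsBounded (Wn \ C)) (hp : ∀ᵐ η ∂(pvP ε), p η) :
    ∀ᵐ ω ∂(pvLaw ε), pvbqGen ε C Wn p (cfSites (pvConf ω)) := pvbq_geo_law ε (pvbq_gen_ae' ε hC hW hb hp)

theorem pvbq_gen_up' (ε : ℝ) (hC : MeasurableSet C) (hW : MeasurableSet Wn) (hb : Bornology.IsBounded (Wn \ C)) (hp : ∀ᵐ η ∂(pvP ε), p η) :
    (pvhbUp ε).P {q | ¬ pvbqGen ε C Wn p (cfSites (pvConf (pvMerge q)))} = 0 := pvbq_geo_up ε (pvbq_gen_ae' ε hC hW hb hp)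

theorem pvbq_gen_law (ε : ℝ) (hC : MeasurableSet C) (hW : MeasurableSet Wn) (hb : Bornology.IsBounded Wn) (hp : ∀ᵐ η ∂(pvP ε), p η) :
    ∀ᵐ ω ∂(pvLaw ε), pvbqGen ε C Wn p (cfSites (pvConf ω)) := pvbq_geo_law ε (pvbq_gen_ae ε hC hW hb hp)

/-- **the geometries which are not generic are negligible for the transport machine** (`cfSites (pvConf ω) = pvxY ω` by `rfl`) -/
theorem pvbq_gen_up (ε : ℝ) (hC : MeasurableSet C) (hW : MeasurableSet Wn) (hb : Bornology.IsBounded Wn) (hp : ∀ᵐ η ∂(pvP ε), p η) :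
    (pvhbUp ε).P {q | ¬ pvbqGen ε C Wn p (cfSites (pvConf (pvMerge q)))} = 0 := pvbq_geo_up ε (pvbq_gen_ae ε hC hW hb hp)

end gen

/-! ## 3. two configurations: soft blindness from plain blindness along the splice -/

section soft

variable {E : Type*} [MeasurableSpace E] {μ : Measure (Conf E)} {W : Set E} {M : Set (Conf E)} {η η' : Conf E}

/-- `Sure` = almost every completion lies in the measurable hull -/
theorem pvbq_sure_ae [IsProbabilityMeasure μ] (hW : MeasurableSet W) : η ∈ pvsuSure μ W M ↔ ∀ᵐ ξ ∂μ, Conf.spl W (η, ξ) ∈ toMeasurable μ M := by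
  refine ⟨fun h => ?_, fun h => pvsu_P_of_ae h⟩
  have mS : MeasurableSet ((fun ξ : Conf E => Conf.spl W (η, ξ)) ⁻¹' toMeasurable μ M) := pvsu_sec_measurable hW η (measurableSet_toMeasurable μ M)
  have h1 : μ ((fun ξ : Conf E => Conf.spl W (η, ξ)) ⁻¹' toMeasurable μ M) = 1 := by
    rw [← lintegral_indicator_one mS]
    exact h
  exact (prob_compl_eq_zero_iff mS).2 h1

/-- **SOFT BLINDNESS OF `Sure`**: at `η` the hull is the plain event for a.e. completion;   the plain event passes from `η` to `η'` for a.e. completion -/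
theorem pvbq_sure_of [IsProbabilityMeasure μ] (hW : MeasurableSet W) (hη : η ∈ pvsuSure μ W M) (h1 : ∀ᵐ ξ ∂μ, Conf.spl W (η, ξ) ∈ toMeasurable μ M → Conf.spl W (η, ξ) ∈ M)
    (h2 : ∀ᵐ ξ ∂μ, Conf.spl W (η, ξ) ∈ M → Conf.spl W (η', ξ) ∈ M) : η' ∈ pvsuSure μ W M := by
  refine (pvbq_sure_ae hW).2 ?_
  filter_upwards [(pvbq_sure_ae hW).1 hη, h1, h2] with ξ a b c
  exact subset_toMeasurable _ _ (c (b a))

/-- on `Sure` almost every completion is a PLAIN success -/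
theorem pvbq_sure_plain [IsProbabilityMeasure μ] (hW : MeasurableSet W) (hη : η ∈ pvsuSure μ W M) (h1 : ∀ᵐ ξ ∂μ, Conf.spl W (η, ξ) ∈ toMeasurable μ M → Conf.spl W (η, ξ) ∈ M) :
    ∀ᵐ ξ ∂μ, Conf.spl W (η, ξ) ∈ M := by
  filter_upwards [(pvbq_sure_ae hW).1 hη, h1] with ξ a b
  exact b a

/-- **SOFT BLINDNESS OF `Loc`** -/
theorem pvbq_loc_of {F : Conf E → ℂ} (h1 : ∀ᵐ ξ ∂μ, pvsuMk μ F (Conf.spl W (η, ξ)) = F (Conf.spl W (η, ξ))) (h1' : ∀ᵐ ξ ∂μ, pvsuMk μ F (Conf.spl W (η', ξ)) = F (Conf.spl W (η', ξ)))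
    (h2 : ∀ᵐ ξ ∂μ, F (Conf.spl W (η, ξ)) = F (Conf.spl W (η', ξ))) : pvsuLoc μ W F η = pvsuLoc μ W F η' := by
  unfold pvsuLoc
  refine integral_congr_ae ?_
  filter_upwards [h1, h1', h2] with ξ a b c
  rw [a, b, c]

/-- the almost sure property which makes the soft objects plain -/
def pvbqOk (μ : Measure (Conf E)) (M : Set (Conf E)) (F : Conf E → ℂ) (ζ : Conf E) : Prop := (ζ ∈ toMeasurable μ M → ζ ∈ M) ∧ pvsuMk μ F ζ = F ζ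

theorem pvbq_ok_ae {F : Conf E → ℂ} (hM : NullMeasurableSet M μ) (hF : AEMeasurable F μ) : ∀ᵐ ζ ∂μ, pvbqOk μ M F ζ := by
  filter_upwards [pvsu_toMeasurable_iff hM, pvsu_mk_ae hF] with ζ a b
  exact ⟨a.1, b⟩

end soft

theorem pvbq_eqns_cite2 : True := by
  have := @pvbqOk.eq_1.{0}
  trivial

/-! ## 4. at a generic geometry -/

section blind

variable {ε : ℝ} {C Wn Y Fz y₀ : Set ℂ} {p : Conf PvPt → Prop} {M : Set (Conf PvPt)} {F : Conf PvPt → ℂ} {τ τ' σ : ℂ → Bool}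

theorem pvbq_sure_imp (hW : MeasurableSet Wn) (hG : pvbqGen ε C Wn p Y) (h1 : ∀ ζ, p ζ → ζ ∈ toMeasurable (pvP ε) M → ζ ∈ M)
    (hP : ∀ ω₂ ξ, p (pvbqZ C Wn Y τ ω₂ ξ) → p (pvbqZ C Wn Y τ' ω₂ ξ) → pvbqZ C Wn Y τ ω₂ ξ ∈ M → pvbqZ C Wn Y τ' ω₂ ξ ∈ M) :
    ∀ᵐ ω₂ ∂(pvP ε), pvbqB C Y τ ω₂ ∈ pvsuSure (pvP ε) (Wn ×ˢ univ) M → pvbqB C Y τ' ω₂ ∈ pvsuSure (pvP ε) (Wn ×ˢ univ) M := by
  have := (pv_isPpp ε).prob
  filter_upwards [hG τ, hG τ'] with ω₂ a a' hη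
  refine pvbq_sure_of (hW.prod MeasurableSet.univ) hη (a.mono fun ξ h => h1 _ h) ?_
  filter_upwards [a, a'] with ξ c c'
  exact hP ω₂ ξ c c'

theorem pvbq_loc_eq (hG : pvbqGen ε C Wn p Y) (h1 : ∀ ζ, p ζ → pvsuMk (pvP ε) F ζ = F ζ)
    (hP : ∀ ω₂ ξ, p (pvbqZ C Wn Y τ ω₂ ξ) → p (pvbqZ C Wn Y τ' ω₂ ξ) → F (pvbqZ C Wn Y τ ω₂ ξ) = F (pvbqZ C Wn Y τ' ω₂ ξ)) :
    ∀ᵐ ω₂ ∂(pvP ε), pvsuLoc (pvP ε) (Wn ×ˢ univ) F (pvbqB C Y τ ω₂) = pvsuLoc (pvP ε) (Wn ×ˢ univ) F (pvbqB C Y τ' ω₂) := by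
  filter_upwards [hG τ, hG τ'] with ω₂ a a'
  refine pvbq_loc_of (a.mono fun ξ h => h1 _ h) (a'.mono fun ξ h => h1 _ h) ?_
  filter_upwards [a, a'] with ξ c c'
  exact hP ω₂ ξ c c'

/-- **THE LINK `(A, X)` SEES THE COLOURS OF `Fz` (frozen: those of `σ`) AND OF `y₀` (fresh) ONLY**, at the site set `Y`, in the experiments which resample `C` -/
def PvbqBlind (ε : ℝ) (C : Set ℂ) (A : Set (Conf PvPt)) (X : Conf PvPt → ℂ) (Y Fz y₀ : Set ℂ) (σ : ℂ → Bool) : Prop :=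
  ∀ τ τ' : ℂ → Bool, (∀ z ∈ Y, z ∈ Fz → τ z = σ z) → (∀ z ∈ Y, z ∈ Fz → τ' z = σ z) → (∀ z ∈ Y, z ∈ y₀ → τ z = τ' z) →
    ∀ᵐ ω₂ ∂(pvP ε), (pvbqB C Y τ ω₂ ∈ A ↔ pvbqB C Y τ' ω₂ ∈ A) ∧ X (pvbqB C Y τ ω₂) = X (pvbqB C Y τ' ω₂)

/-- **PLAIN COLOUR BLINDNESS** (OWED BY THE MODEL; deterministic, on nice configurations `p`): the plain success `M` and the plain value `F` on `M` do not see the colours of the kept sites which are neither frozen nor fresh -/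
def PvbqPlain (C Wn : Set ℂ) (p : Conf PvPt → Prop) (M : Set (Conf PvPt)) (F : Conf PvPt → ℂ) (Y Fz y₀ : Set ℂ) (σ : ℂ → Bool) : Prop :=
  ∀ τ τ' : ℂ → Bool, (∀ z ∈ Y, z ∈ Fz → τ z = σ z) → (∀ z ∈ Y, z ∈ Fz → τ' z = σ z) → (∀ z ∈ Y, z ∈ y₀ → τ z = τ' z) → ∀ ω₂ ξ : Conf PvPt,
    p (pvbqZ C Wn Y τ ω₂ ξ) → p (pvbqZ C Wn Y τ' ω₂ ξ) → pvbqZ C Wn Y τ ω₂ ξ ∈ M → pvbqZ C Wn Y τ' ω₂ ξ ∈ M ∧ F (pvbqZ C Wn Y τ' ω₂ ξ) = F (pvbqZ C Wn Y τ ω₂ ξ)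

theorem pvbq_eqns_cite3 : True := by
  have := @PvbqBlind.eq_1; have := @PvbqPlain.eq_1
  trivial

theorem pvbq_mem_Z {ω₂ ξ : Conf PvPt} {x : PvPt} : x ∈ (pvbqZ C Wn Y τ ω₂ ξ).pts ↔ (x.1 ∈ Wn ∧ x ∈ (pvbqB C Y τ ω₂).pts) ∨ (x.1 ∉ Wn ∧ x ∈ ξ.pts) := by
  simp only [pvbqZ, Conf.spl, Conf.union, Conf.restr, mem_union, mem_inter_iff, mem_prod, mem_compl_iff, mem_univ, and_true]
  tauto

/-- the two completions have the same sites -/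
theorem pvbq_Z_sites (C Wn Y : Set ℂ) (τ τ' : ℂ → Bool) (ω₂ ξ : Conf PvPt) : cfSites (pvbqZ C Wn Y τ ω₂ ξ) = cfSites (pvbqZ C Wn Y τ' ω₂ ξ) := by
  have key : ∀ τ τ' : ℂ → Bool, cfSites (pvbqZ C Wn Y τ ω₂ ξ) ⊆ cfSites (pvbqZ C Wn Y τ' ω₂ ξ) := by
    rintro τ τ' _ ⟨x, hx, rfl⟩
    rcases pvbq_mem_Z.1 hx with ⟨hW, hB⟩ | h
    · rcases pvbq_mem_B.1 hB with ⟨h1, h2, -⟩ | h
      · exact ⟨(x.1, τ' x.1), pvbq_mem_Z.2 (Or.inl ⟨hW, pvbq_mem_B.2 (Or.inl ⟨h1, h2, rfl⟩)⟩), rfl⟩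
      · exact ⟨x, pvbq_mem_Z.2 (Or.inl ⟨hW, pvbq_mem_B.2 (Or.inr h)⟩), rfl⟩
    · exact ⟨x, pvbq_mem_Z.2 (Or.inr h), rfl⟩
  exact Subset.antisymm (key τ τ') (key τ' τ)

/-- the two completions have the same points over every position at which the two colourings agree (in particular off `Y ∩ Wn \ C`) -/
theorem pvbq_Z_pts (ω₂ ξ : Conf PvPt) {x : PvPt} (hx : x.1 ∈ Y → x.1 ∈ Wn → x.1 ∉ C → τ x.1 = τ' x.1) : x ∈ (pvbqZ C Wn Y τ ω₂ ξ).pts ↔ x ∈ (pvbqZ C Wn Y τ' ω₂ ξ).pts := by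
  rw [pvbq_mem_Z, pvbq_mem_Z, pvbq_mem_B, pvbq_mem_B]
  by_cases h1 : x.1 ∈ Y <;> by_cases h2 : x.1 ∈ Wn <;> by_cases h3 : x.1 ∈ C <;> simp only [h1, h2, h3, true_and, false_and, not_true_eq_false, not_false_eq_true, or_false, false_or]
  rw [hx h1 h2 h3]

theorem PvbqPlain.iff (hP : PvbqPlain C Wn p M F Y Fz y₀ σ) (a : ∀ z ∈ Y, z ∈ Fz → τ z = σ z) (a' : ∀ z ∈ Y, z ∈ Fz → τ' z = σ z) (e : ∀ z ∈ Y, z ∈ y₀ → τ z = τ' z) (ω₂ ξ : Conf PvPt)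
    (c : p (pvbqZ C Wn Y τ ω₂ ξ)) (c' : p (pvbqZ C Wn Y τ' ω₂ ξ)) : (pvbqZ C Wn Y τ ω₂ ξ ∈ M ↔ pvbqZ C Wn Y τ' ω₂ ξ ∈ M) :=
  ⟨fun h => (hP τ τ' a a' e ω₂ ξ c c' h).1, fun h => (hP τ' τ a' a (fun z h1 h2 => (e z h1 h2).symm) ω₂ ξ c' c h).1⟩

theorem PvbqPlain.ind (hP : PvbqPlain C Wn p M F Y Fz y₀ σ) (a : ∀ z ∈ Y, z ∈ Fz → τ z = σ z) (a' : ∀ z ∈ Y, z ∈ Fz → τ' z = σ z) (e : ∀ z ∈ Y, z ∈ y₀ → τ z = τ' z) (ω₂ ξ : Conf PvPt)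
    (c : p (pvbqZ C Wn Y τ ω₂ ξ)) (c' : p (pvbqZ C Wn Y τ' ω₂ ξ)) : M.indicator F (pvbqZ C Wn Y τ ω₂ ξ) = M.indicator F (pvbqZ C Wn Y τ' ω₂ ξ) := by
  by_cases h : pvbqZ C Wn Y τ ω₂ ξ ∈ M
  · have h2 := hP τ τ' a a' e ω₂ ξ c c' h
    rw [indicator_of_mem h, indicator_of_mem h2.1, h2.2]
  · rw [indicator_of_notMem h, indicator_of_notMem fun h' => h ((hP.iff a a' e ω₂ ξ c c').2 h')]

/-- **SOFT BLINDNESS AT A GENERIC GEOMETRY, form of `Tr/InstL` v2**: `A := Sure_Wn M`, `X := Loc_Wn (1_M F)` -/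
theorem pvbq_blind (hW : MeasurableSet Wn) (hG : pvbqGen ε C Wn p Y) (h1 : ∀ ζ, p ζ → pvbqOk (pvP ε) M (M.indicator F) ζ) (hP : PvbqPlain C Wn p M F Y Fz y₀ σ) :
    PvbqBlind ε C (pvsuSure (pvP ε) (Wn ×ˢ univ) M) (pvsuLoc (pvP ε) (Wn ×ˢ univ) (M.indicator F)) Y Fz y₀ σ := by
  intro τ τ' a a' e
  have e' : ∀ z ∈ Y, z ∈ y₀ → τ' z = τ z := fun z h1 h2 => (e z h1 h2).symm
  filter_upwards [pvbq_sure_imp hW hG (fun ζ h => (h1 ζ h).1) (fun ω₂ ξ c c' => (hP.iff a a' e ω₂ ξ c c').1),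
    pvbq_sure_imp hW hG (fun ζ h => (h1 ζ h).1) (fun ω₂ ξ c c' => (hP.iff a' a e' ω₂ ξ c c').1),
    pvbq_loc_eq hG (fun ζ h => (h1 ζ h).2) (fun ω₂ ξ c c' => hP.ind a a' e ω₂ ξ c c')] with ω₂ i1 i2 i3
  exact ⟨⟨i1, i2⟩, i3⟩

/-- **SOFT BLINDNESS AT A GENERIC GEOMETRY, form of ruling 20 (4)**: `X := Loc_Wn (1_M F)`, `A := Sure_Wn (M ∩ {F = X})` -/
theorem pvbq_blind' (hW : MeasurableSet Wn) (hG : pvbqGen ε C Wn p Y)
    (h1 : ∀ ζ, p ζ → pvbqOk (pvP ε) (M ∩ {η | F η = pvsuLoc (pvP ε) (Wn ×ˢ univ) (M.indicator F) η}) (M.indicator F) ζ) (hP : PvbqPlain C Wn p M F Y Fz y₀ σ) :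
    PvbqBlind ε C (pvsuSure (pvP ε) (Wn ×ˢ univ) (M ∩ {η | F η = pvsuLoc (pvP ε) (Wn ×ˢ univ) (M.indicator F) η})) (pvsuLoc (pvP ε) (Wn ×ˢ univ) (M.indicator F)) Y Fz y₀ σ := by
  have := (pv_isPpp ε).prob
  have hW' : MeasurableSet (Wn ×ˢ (univ : Set Bool)) := hW.prod MeasurableSet.univ
  have rX := pvsu_loc_reads (pvP ε) (Wn ×ˢ (univ : Set Bool)) (M.indicator F)
  have key : ∀ τ τ' : ℂ → Bool, (∀ z ∈ Y, z ∈ Fz → τ z = σ z) → (∀ z ∈ Y, z ∈ Fz → τ' z = σ z) → (∀ z ∈ Y, z ∈ y₀ → τ z = τ' z) →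
      ∀ᵐ ω₂ ∂(pvP ε), (pvbqB C Y τ ω₂ ∈ pvsuSure (pvP ε) (Wn ×ˢ univ) (M ∩ {η | F η = pvsuLoc (pvP ε) (Wn ×ˢ univ) (M.indicator F) η}) →
        pvbqB C Y τ' ω₂ ∈ pvsuSure (pvP ε) (Wn ×ˢ univ) (M ∩ {η | F η = pvsuLoc (pvP ε) (Wn ×ˢ univ) (M.indicator F) η})) ∧
        pvsuLoc (pvP ε) (Wn ×ˢ univ) (M.indicator F) (pvbqB C Y τ ω₂) = pvsuLoc (pvP ε) (Wn ×ˢ univ) (M.indicator F) (pvbqB C Y τ' ω₂) := by
    intro τ τ' a a' e
    filter_upwards [hG τ, hG τ', pvbq_loc_eq hG (fun ζ h => (h1 ζ h).2) (fun ω₂ ξ c c' => hP.ind a a' e ω₂ ξ c c')] with ω₂ g g' i3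
    refine ⟨fun hη => pvbq_sure_of hW' hη (g.mono fun ξ h => (h1 _ h).1) ?_, i3⟩
    filter_upwards [g, g'] with ξ c c' hm
    have h2 := hP τ τ' a a' e ω₂ ξ c c' hm.1
    refine ⟨h2.1, ?_⟩
    have h3 : F (pvbqZ C Wn Y τ ω₂ ξ) = pvsuLoc (pvP ε) (Wn ×ˢ univ) (M.indicator F) (pvbqZ C Wn Y τ ω₂ ξ) := hm.2
    show F (pvbqZ C Wn Y τ' ω₂ ξ) = pvsuLoc (pvP ε) (Wn ×ˢ univ) (M.indicator F) (pvbqZ C Wn Y τ' ω₂ ξ)
    rw [h2.2, h3, rX.congr (pvbq_restr_Z C Wn Y τ ω₂ ξ), rX.congr (pvbq_restr_Z C Wn Y τ' ω₂ ξ), i3]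
  intro τ τ' a a' e
  filter_upwards [key τ τ' a a' e, key τ' τ a' a fun z h1 h2 => (e z h1 h2).symm] with ω₂ i1 i2
  exact ⟨⟨i1.1, i2.1⟩, i1.2⟩

/-- blindness depends on `C ∩ Wn` only, for a link which reads the window `Wn` -/
theorem PvbqBlind.congr_C {C' : Set ℂ} {A : Set (Conf PvPt)} {X : Conf PvPt → ℂ} (h : PvbqBlind ε C A X Y Fz y₀ σ) (hC : C ∩ Wn = C' ∩ Wn)
    (rA : Conf.Reads (Wn ×ˢ univ) fun η => η ∈ A) (rX : Conf.Reads (Wn ×ˢ univ) X) : PvbqBlind ε C' A X Y Fz y₀ σ := by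
  intro τ τ' a a' e
  filter_upwards [h τ τ' a a' e] with ω₂ h2
  have e1 : ∀ t : ℂ → Bool, Conf.restr (Wn ×ˢ univ) (pvbqB C Y t ω₂) = Conf.restr (Wn ×ˢ univ) (pvbqB C' Y t ω₂) :=
    fun t => pvbq_restr_B hC (fun _ _ _ => Iff.rfl) (fun _ _ _ _ => rfl) ω₂
  rw [← iff_of_eq (rA.congr (e1 τ)), ← iff_of_eq (rA.congr (e1 τ')), ← rX.congr (e1 τ), ← rX.congr (e1 τ')]
  exact h2

end blind

/-! ## 5. consequences in the names of `Tr/DomY`, `Tr/ChainY`, `Tr/SoftE` -/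

section cons

variable {ε : ℝ} {b : Bool} {C Y Fz y₀ : Set ℂ} {A : Set (Conf PvPt)} {X : Conf PvPt → ℂ} {σ σ' : ℂ → Bool} {yf yf' : Conf PvPt → Set ℂ}

/-- **CHANGE OF THE BASE COLOURING AND OF THE FRESH SET**, for EVERY `κ`, a.e. `ω₂`: the frozen sites keep their colours and are not recoloured, the fresh sites of the link are recoloured in both experiments -/
theorem PvbqBlind.R (h : PvbqBlind ε C A X Y Fz y₀ σ) (hσ : ∀ z ∈ Y, z ∈ Fz → σ' z = σ z) (d : ∀ z ∈ Y, z ∈ Fz → z ∉ yf (cfOf Y σ)) (d' : ∀ z ∈ Y, z ∈ Fz → z ∉ yf' (cfOf Y σ'))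
    (s : ∀ z ∈ Y, z ∈ y₀ → z ∈ yf (cfOf Y σ)) (s' : ∀ z ∈ Y, z ∈ y₀ → z ∈ yf' (cfOf Y σ')) (κ : ℂ → Bool) :
    ∀ᵐ ω₂ ∂(pvP ε), (pvdyR C yf (cfOf Y σ) (κ, ω₂) ∈ A ↔ pvdyR C yf' (cfOf Y σ') (κ, ω₂) ∈ A) ∧ X (pvdyR C yf (cfOf Y σ) (κ, ω₂)) = X (pvdyR C yf' (cfOf Y σ') (κ, ω₂)) := by
  simp_rw [pvbq_R_eq]
  refine h _ _ (fun z h1 h2 => ?_) (fun z h1 h2 => ?_) fun z h1 h2 => ?_
  · rw [pvfqMix_of_notMem (d z h1 h2)]
  · rw [pvfqMix_of_notMem (d' z h1 h2)]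
    exact hσ z h1 h2
  · rw [pvfqMix_of_mem (s z h1 h2), pvfqMix_of_mem (s' z h1 h2)]

/-- the same for almost every seed -/
theorem PvbqBlind.R_ae (h : PvbqBlind ε C A X Y Fz y₀ σ) (hC : MeasurableSet C) (hY : Y.Countable) (mA : MeasurableSet A) (mX : Measurable X)
    (hσ : ∀ z ∈ Y, z ∈ Fz → σ' z = σ z) (d : ∀ z ∈ Y, z ∈ Fz → z ∉ yf (cfOf Y σ)) (d' : ∀ z ∈ Y, z ∈ Fz → z ∉ yf' (cfOf Y σ'))
    (s : ∀ z ∈ Y, z ∈ y₀ → z ∈ yf (cfOf Y σ)) (s' : ∀ z ∈ Y, z ∈ y₀ → z ∈ yf' (cfOf Y σ')) :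
    ∀ᵐ p ∂pvdyNu ε, (pvdyR C yf (cfOf Y σ) p ∈ A ↔ pvdyR C yf' (cfOf Y σ') p ∈ A) ∧ X (pvdyR C yf (cfOf Y σ) p) = X (pvdyR C yf' (cfOf Y σ') p) := by
  have := (pv_isPpp ε).prob
  have m1 : Measurable (pvdyR C yf (cfOf Y σ)) := pvdy_measurable_R hC yf (by rw [cfOf_sites]; exact hY)
  have m2 : Measurable (pvdyR C yf' (cfOf Y σ')) := pvdy_measurable_R hC yf' (by rw [cfOf_sites]; exact hY)
  have a1 : MeasurableSet {p | pvdyR C yf (cfOf Y σ) p ∈ A} := m1 mA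
  have a2 : MeasurableSet {p | pvdyR C yf' (cfOf Y σ') p ∈ A} := m2 mA
  have a3 : MeasurableSet {p | X (pvdyR C yf (cfOf Y σ) p) = X (pvdyR C yf' (cfOf Y σ') p)} := measurableSet_eq_fun (mX.comp m1) (mX.comp m2)
  have mS : MeasurableSet {p | (pvdyR C yf (cfOf Y σ) p ∈ A ↔ pvdyR C yf' (cfOf Y σ') p ∈ A) ∧ X (pvdyR C yf (cfOf Y σ) p) = X (pvdyR C yf' (cfOf Y σ') p)} := by
    have e : {p | (pvdyR C yf (cfOf Y σ) p ∈ A ↔ pvdyR C yf' (cfOf Y σ') p ∈ A) ∧ X (pvdyR C yf (cfOf Y σ) p) = X (pvdyR C yf' (cfOf Y σ') p)}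
        = (({p | pvdyR C yf (cfOf Y σ) p ∈ A} ∩ {p | pvdyR C yf' (cfOf Y σ') p ∈ A}) ∪ ({p | pvdyR C yf (cfOf Y σ) p ∈ A}ᶜ ∩ {p | pvdyR C yf' (cfOf Y σ') p ∈ A}ᶜ))
          ∩ {p | X (pvdyR C yf (cfOf Y σ) p) = X (pvdyR C yf' (cfOf Y σ') p)} := by
      ext p
      simp only [mem_ofPred_eq, mem_inter_iff, mem_union, mem_compl_iff]
      tauto
    rw [e]
    exact ((a1.inter a2).union (a1.compl.inter a2.compl)).inter a3
  unfold pvdyNu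
  rw [Measure.ae_prod_iff_ae_ae mS]
  exact Filter.Eventually.of_forall fun κ => h.R hσ d d' s s' κ

/-- the same along the experiment map of 218 -/
theorem PvbqBlind.phi_ae (h : PvbqBlind ε C A X Y Fz y₀ σ) (b : Bool) (hC : MeasurableSet C) (hY : Y.Countable) (mA : MeasurableSet A) (mX : Measurable X)
    (hσ : ∀ z ∈ Y, z ∈ Fz → σ' z = σ z) (d : ∀ z ∈ Y, z ∈ Fz → z ∉ yf (cfOf Y σ)) (d' : ∀ z ∈ Y, z ∈ Fz → z ∉ yf' (cfOf Y σ'))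
    (s : ∀ z ∈ Y, z ∈ y₀ → z ∈ yf (cfOf Y σ)) (s' : ∀ z ∈ Y, z ∈ y₀ → z ∈ yf' (cfOf Y σ')) :
    ∀ᵐ x ∂(pvkeLaw ℂ (pvP ε)), (pvkyPhi b C yf (cfOf Y σ) x ∈ A ↔ pvkyPhi b C yf' (cfOf Y σ') x ∈ A) ∧ X (pvkyPhi b C yf (cfOf Y σ) x) = X (pvkyPhi b C yf' (cfOf Y σ') x) :=
  pvky_ae_T b ε (h.R_ae hC hY mA mX hσ d d' s s')

end cons

section funnel

variable {ε : ℝ} {b : Bool} {ω ω' : Conf PvPt} {C : Set ℂ} {yf yf' : Conf PvPt → Set ℂ} {e : PvkyEnd} {f : PvkeFun ℂ}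

/-- **THE SAME FUNNEL REPRESENTS THE LINK AT THE OTHER BASE / IN THE OTHER EXPERIMENT**, as soon as success and value agree for almost every seed;   `e.y` constant = (L2) -/
theorem PvkyAg.pvbq_base (h : PvkyAg ε b ω C yf e f) (cst : ∀ η, e.y η = e.y ω) (ysub : e.y ω ⊆ yf' ω')
    (hae : ∀ᵐ x ∂(pvkeLaw ℂ (pvP ε)), (pvkyPhi b C yf ω x ∈ e.A ↔ pvkyPhi b C yf' ω' x ∈ e.A) ∧ e.X (pvkyPhi b C yf ω x) = e.X (pvkyPhi b C yf' ω' x)) : PvkyAg ε b ω' C yf' e f where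
  U_eq := by rw [cst ω']; exact h.U_eq
  K_eq := h.K_eq
  sub := h.sub
  ysub := by rw [cst ω']; exact ysub
  yC := by rw [cst ω']; exact h.yC
  ae := by
    filter_upwards [h.ae, hae] with x h1 h2
    exact ⟨h2.1.symm.trans h1.1, h2.2.symm.trans h1.2.1, fun z _ _ => by rw [cst, cst ω']⟩

variable {kit : PvthKit} {z d : ℂ} {q : ℝ≥0∞}

/-- the forced base configurations, read on the funnel -/
theorem pvbq_forced_iff (hk : kit.WF) (hd : d ≠ 0) (h : PvkyAg ε b ω (e.K ∪ pvkyDoor kit z d) e.y e f) (mK : MeasurableSet f.K) (mA : MeasurableSet f.A) :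
    ω ∈ pvueForced kit ε b e z d q ↔ ∀ᵐ x ∂(pvkeLaw ℂ (pvP ε)), x.2 ∈ kit.G z d → q ≤ pvueP (pvP ε) f x := by
  have hO : kit.O z d ⊆ (e.K ∪ pvkyDoor kit z d) ×ˢ univ := prod_mono subset_union_right subset_rfl
  refine ⟨fun hQ => pvue_ae_of_Q h mK mA (pvth_rG hk z d hd) hO hQ, fun hb => ?_⟩
  refine pvky_ae_phi b ε _ e.y (P := fun η => pvkyFl b η ∈ kit.G z d → q ≤ pvdyQ ε e.K e.y e.A η) ω ?_
  filter_upwards [hb, h.Q_ae mK mA] with x h1 h2 h3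
  have e1 : (pvkyFl b (pvkyPhi b (e.K ∪ pvkyDoor kit z d) e.y ω x) ∈ kit.G z d) = (x.2 ∈ kit.G z d) := pvky_reads_phi (pvth_rG hk z d hd) hO x
  rw [h2]
  exact h1 (e1 ▸ h3)

/-- **`pvueForced` AT TWO BASES WITH THE SAME FUNNEL** -/
theorem pvbq_forced_base (hk : kit.WF) (hd : d ≠ 0) (h : PvkyAg ε b ω (e.K ∪ pvkyDoor kit z d) e.y e f) (h' : PvkyAg ε b ω' (e.K ∪ pvkyDoor kit z d) e.y e f)
    (mK : MeasurableSet f.K) (mA : MeasurableSet f.A) : ω ∈ pvueForced kit ε b e z d q ↔ ω' ∈ pvueForced kit ε b e z d q :=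
  (pvbq_forced_iff hk hd h mK mA).trans (pvbq_forced_iff hk hd h' mK mA).symm

/-- `pvueSq` at two bases with the same funnel -/
theorem pvbq_sq_base (h : PvkyAg ε b ω (e.K ∪ pvkyDoor kit z d) e.y e f) (h' : PvkyAg ε b ω' (e.K ∪ pvkyDoor kit z d) e.y e f) : ω ∈ pvueSq kit ε e z d ↔ ω' ∈ pvueSq kit ε e z d := by
  unfold pvueSq
  simp only [mem_ofPred_eq]
  rw [← pvue_sq_ag h, ← pvue_sq_ag h']

end funnel

section chain

variable {kit : PvthKit} {ε : ℝ} {b : Bool} {X₀ : PvtTurn → Conf PvPt → ℂ} {z d : ℂ} {l : List PvtTurn} {ω ω' : Conf PvPt} {C : Set ℂ} {yf yf' : Conf PvPt → Set ℂ}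
  {eo ei : PvkyEnd} {fo fi : PvkeFun ℂ} {β' q qo qi : ℝ≥0∞}

/-- event and closing sum of the chain at two configurations which agree inside `C` and for the two end links -/
theorem PvkyChain.pvbq_Ev_congr (H : PvkyChain kit ε b X₀ z d l ω C yf eo ei fo fi β' q qo qi) {η η' : Conf PvPt} (hC : Conf.restr (C ×ˢ univ) η = Conf.restr (C ×ˢ univ) η')
    (ho : (η ∈ eo.A ↔ η' ∈ eo.A) ∧ eo.X η = eo.X η') (hi : (η ∈ ei.A ↔ η' ∈ ei.A) ∧ ei.X η = ei.X η') :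
    (η ∈ pvkyEv kit b z d l eo ei ↔ η' ∈ pvkyEv kit b z d l eo ei) ∧ pvkyYc kit b z d l eo ei X₀ η = pvkyYc kit b z d l eo ei X₀ η' := by
  have hfl : Conf.restr (C ×ˢ univ) (pvkyFl b η) = Conf.restr (C ×ˢ univ) (pvkyFl b η') := by rw [pvky_fl_restr, pvky_fl_restr, hC]
  have rd : ∀ {β : Type} {W : Set PvPt} {g : Conf PvPt → β}, Conf.Reads W g → W ⊆ C ×ˢ univ → g (pvkyFl b η) = g (pvkyFl b η') := by
    intro β W g hg hW
    refine hg.congr ?_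
    rw [← Conf.restr_restr_of_subset hW, hfl, Conf.restr_restr_of_subset hW]
  constructor
  · unfold pvkyEv
    simp only [mem_ofPred_eq]
    rw [ho.1, hi.1]
    refine and_congr (forall₂_congr fun j hj => ?_) (and_congr_left fun _ => forall₂_congr fun j hj => ?_)
    · exact iff_of_eq (rd (pvth_rG H.ch.wf _ _ (pvthx_D_ne H.ch.dir l j)) (H.CO j hj))
    · exact iff_of_eq (rd (pvth_rA H.ch.wf _ _ (pvthx_D_ne H.ch.dir l j) _) (H.cell_sub hj))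
  · unfold pvkyYc PvthKit.Y
    have e1 : ∀ j ∈ Finset.range l.length, kit.Xj X₀ z d l j (pvkyFl b η) = kit.Xj X₀ z d l j (pvkyFl b η') :=
      fun j hj => rd (pvth_X_reads H.ch.fld _ (pvthx_D_ne H.ch.dir l j) _) (H.cell_sub (Finset.mem_range.1 hj))
    rw [ho.2, hi.2, Finset.sum_congr rfl e1]

/-- the chain record at another base / in another experiment, with THE SAME FUNNELS -/
theorem PvkyChain.pvbq_base (H : PvkyChain kit ε b X₀ z d l ω C yf eo ei fo fi β' q qo qi) (ao : PvkyAg ε b ω' C yf' eo fo) (ai : PvkyAg ε b ω' C yf' ei fi)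
    (lo : PvkyAg ε b ω' (eo.K ∪ pvkyDoor kit z d) eo.y eo fo) (li : PvkyAg ε b ω' (ei.K ∪ pvkyDoor kit (pvthZ kit.δ z d l l.length) (pvthD d l l.length)) ei.y ei fi) :
    PvkyChain kit ε b X₀ z d l ω' C yf' eo ei fo fi β' q qo qi := ⟨H.ch, H.CO, H.CK, ao, ai, lo, li⟩

/-- two chain records with the same funnels have the same `κ_out`, `κ_in` -/
theorem PvkyChain.pvbq_K (H : PvkyChain kit ε b X₀ z d l ω C yf eo ei fo fi β' q qo qi) (H' : PvkyChain kit ε b X₀ z d l ω' C yf' eo ei fo fi β' q qo qi) :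
    pvkyK kit ε b eo z d ω' = pvkyK kit ε b eo z d ω ∧
      pvkyK kit ε b ei (pvthZ kit.δ z d l l.length) (pvthD d l l.length) ω' = pvkyK kit ε b ei (pvthZ kit.δ z d l l.length) (pvthD d l l.length) ω :=
  ⟨H'.K_out.trans H.K_out.symm, H'.K_in.trans H.K_in.symm⟩

end chain

/-! ## 6. blind ends: the assembled statements (fields `chain`, `enl` of `PvjbIn`) -/

/-- **A BLIND END** at the site set `Y`, base colouring `σ`, frozen sites `Fz`, in the experiment of the whole chain (`C`) and in its own experiment (`e.K ∪ D`) -/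
structure PvbqEnd (ε : ℝ) (C D : Set ℂ) (e : PvkyEnd) (Y Fz : Set ℂ) (σ : ℂ → Bool) : Prop where
  mA : MeasurableSet e.A
  mX : Measurable e.X
  mKD : MeasurableSet (e.K ∪ D)
  cst : ∀ η η', e.y η = e.y η'
  dis : ∀ z ∈ Y, z ∈ Fz → z ∉ e.y (cfOf Y σ)
  bl : PvbqBlind ε C e.A e.X Y Fz (e.y (cfOf Y σ)) σ
  bl' : PvbqBlind ε (e.K ∪ D) e.A e.X Y Fz (e.y (cfOf Y σ)) σ

section ends

variable {ε : ℝ} {C D Wn Y Fz : Set ℂ} {e : PvkyEnd} {σ : ℂ → Bool} {p : Conf PvPt → Prop} {M : Set (Conf PvPt)} {F : Conf PvPt → ℂ}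

/-- **a soft end of `Tr/InstL` v2 is blind at a generic geometry** -/
theorem pvbq_end (hW : MeasurableSet Wn) (mKD : MeasurableSet (e.K ∪ D)) (eA : e.A = pvsuSure (pvP ε) (Wn ×ˢ univ) M) (eX : e.X = pvsuLoc (pvP ε) (Wn ×ˢ univ) (M.indicator F))
    (cst : ∀ η η', e.y η = e.y η') (dis : ∀ z ∈ Y, z ∈ Fz → z ∉ e.y (cfOf Y σ)) (win : C ∩ Wn = (e.K ∪ D) ∩ Wn)
    (hG : pvbqGen ε C Wn p Y) (h1 : ∀ ζ, p ζ → pvbqOk (pvP ε) M (M.indicator F) ζ) (hP : PvbqPlain C Wn p M F Y Fz (e.y (cfOf Y σ)) σ) : PvbqEnd ε C D e Y Fz σ := by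
  have := (pv_isPpp ε).prob
  have hW' : MeasurableSet (Wn ×ˢ (univ : Set Bool)) := hW.prod MeasurableSet.univ
  have B : PvbqBlind ε C e.A e.X Y Fz (e.y (cfOf Y σ)) σ := by rw [eA, eX]; exact pvbq_blind hW hG h1 hP
  refine ⟨by rw [eA]; exact pvsu_sure_measurable hW' M, by rw [eX]; exact pvsu_loc_measurable hW' _, mKD, cst, dis, B, B.congr_C win ?_ ?_⟩
  · rw [eA]; exact pvsu_sure_reads _ _ _
  · rw [eX]; exact pvsu_loc_reads _ _ _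

/-- **a soft end in the form of ruling 20 (4) is blind at a generic geometry** -/
theorem pvbq_end' (hW : MeasurableSet Wn) (mKD : MeasurableSet (e.K ∪ D)) (eX : e.X = pvsuLoc (pvP ε) (Wn ×ˢ univ) (M.indicator F)) (eA : e.A = pvsuSure (pvP ε) (Wn ×ˢ univ) (M ∩ {η | F η = e.X η}))
    (cst : ∀ η η', e.y η = e.y η') (dis : ∀ z ∈ Y, z ∈ Fz → z ∉ e.y (cfOf Y σ)) (win : C ∩ Wn = (e.K ∪ D) ∩ Wn)
    (hG : pvbqGen ε C Wn p Y) (h1 : ∀ ζ, p ζ → pvbqOk (pvP ε) (M ∩ {η | F η = e.X η}) (M.indicator F) ζ) (hP : PvbqPlain C Wn p M F Y Fz (e.y (cfOf Y σ)) σ) : PvbqEnd ε C D e Y Fz σ := by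
  have := (pv_isPpp ε).prob
  have hW' : MeasurableSet (Wn ×ˢ (univ : Set Bool)) := hW.prod MeasurableSet.univ
  have B : PvbqBlind ε C e.A e.X Y Fz (e.y (cfOf Y σ)) σ := by
    rw [eA, eX]
    rw [eX] at h1
    exact pvbq_blind' hW hG h1 hP
  refine ⟨by rw [eA]; exact pvsu_sure_measurable hW' _, by rw [eX]; exact pvsu_loc_measurable hW' _, mKD, cst, dis, B, B.congr_C win ?_ ?_⟩
  · rw [eA]; exact pvsu_sure_reads _ _ _
  · rw [eX]; exact pvsu_loc_reads _ _ _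

end ends

section top

variable {kit : PvthKit} {ε : ℝ} {b : Bool} {X₀ : PvtTurn → Conf PvPt → ℂ} {z d : ℂ} {l : List PvtTurn} {C Y Fo Fi : Set ℂ} {σ σ' : ℂ → Bool} {yf yf' : Conf PvPt → Set ℂ}
  {eo ei : PvkyEnd} {fo fi : PvkeFun ℂ} {β' q qo qi : ℝ≥0∞}

/-- **THE FIELD `chain` OF `PvjbIn`: THE SAME FUNNELS AT EVERY BASE COLOURING WHICH KEEPS THE FROZEN COLOURS, IN EVERY EXPERIMENT WHICH RECOLOURS THE FRESH SITES OF THE TWO ENDS AND NO FROZEN SITE** -/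
theorem PvkyChain.pvbq_all (H : PvkyChain kit ε b X₀ z d l (cfOf Y σ) C yf eo ei fo fi β' q qo qi) (hC : MeasurableSet C) (hY : Y.Countable)
    (Bo : PvbqEnd ε C (pvkyDoor kit z d) eo Y Fo σ) (Bi : PvbqEnd ε C (pvkyDoor kit (pvthZ kit.δ z d l l.length) (pvthD d l l.length)) ei Y Fi σ)
    (hσo : ∀ v ∈ Y, v ∈ Fo → σ' v = σ v) (hσi : ∀ v ∈ Y, v ∈ Fi → σ' v = σ v)
    (fo₁ : ∀ v ∈ Y, v ∈ Fo → v ∉ yf (cfOf Y σ)) (fo₂ : ∀ v ∈ Y, v ∈ Fo → v ∉ yf' (cfOf Y σ')) (fi₁ : ∀ v ∈ Y, v ∈ Fi → v ∉ yf (cfOf Y σ)) (fi₂ : ∀ v ∈ Y, v ∈ Fi → v ∉ yf' (cfOf Y σ'))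
    (so : eo.y (cfOf Y σ) ⊆ yf' (cfOf Y σ')) (si : ei.y (cfOf Y σ) ⊆ yf' (cfOf Y σ')) :
    PvkyChain kit ε b X₀ z d l (cfOf Y σ') C yf' eo ei fo fi β' q qo qi := by
  refine H.pvbq_base ?_ ?_ ?_ ?_
  · exact H.ag_o.pvbq_base (fun η => Bo.cst _ _) so (Bo.bl.phi_ae b hC hY Bo.mA Bo.mX hσo fo₁ fo₂ (fun v _ hv => H.ag_o.ysub hv) fun v _ hv => so hv)
  · exact H.ag_i.pvbq_base (fun η => Bi.cst _ _) si (Bi.bl.phi_ae b hC hY Bi.mA Bi.mX hσi fi₁ fi₂ (fun v _ hv => H.ag_i.ysub hv) fun v _ hv => si hv)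
  · refine H.loc_o.pvbq_base (fun η => Bo.cst _ _) (by rw [Bo.cst (cfOf Y σ') (cfOf Y σ)]) (Bo.bl'.phi_ae b Bo.mKD hY Bo.mA Bo.mX hσo Bo.dis ?_ (fun v _ hv => hv) ?_)
    · intro v h1 h2
      rw [Bo.cst (cfOf Y σ') (cfOf Y σ)]
      exact Bo.dis v h1 h2
    · intro v _ hv
      rw [Bo.cst (cfOf Y σ') (cfOf Y σ)]
      exact hv
  · refine H.loc_i.pvbq_base (fun η => Bi.cst _ _) (by rw [Bi.cst (cfOf Y σ') (cfOf Y σ)]) (Bi.bl'.phi_ae b Bi.mKD hY Bi.mA Bi.mX hσi Bi.dis ?_ (fun v _ hv => hv) ?_)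
    · intro v h1 h2
      rw [Bi.cst (cfOf Y σ') (cfOf Y σ)]
      exact Bi.dis v h1 h2
    · intro v _ hv
      rw [Bi.cst (cfOf Y σ') (cfOf Y σ)]
      exact hv

/-- **THE FIELD `enl` OF `PvjbIn`** (two sided; also with a change of the base colouring): for EVERY `κ`, a.e. `ω₂` -/
theorem PvkyChain.pvbq_enl (H : PvkyChain kit ε b X₀ z d l (cfOf Y σ) C yf eo ei fo fi β' q qo qi)
    (Bo : PvbqEnd ε C (pvkyDoor kit z d) eo Y Fo σ) (Bi : PvbqEnd ε C (pvkyDoor kit (pvthZ kit.δ z d l l.length) (pvthD d l l.length)) ei Y Fi σ)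
    (hσo : ∀ v ∈ Y, v ∈ Fo → σ' v = σ v) (hσi : ∀ v ∈ Y, v ∈ Fi → σ' v = σ v)
    (fo₁ : ∀ v ∈ Y, v ∈ Fo → v ∉ yf (cfOf Y σ)) (fo₂ : ∀ v ∈ Y, v ∈ Fo → v ∉ yf' (cfOf Y σ')) (fi₁ : ∀ v ∈ Y, v ∈ Fi → v ∉ yf (cfOf Y σ)) (fi₂ : ∀ v ∈ Y, v ∈ Fi → v ∉ yf' (cfOf Y σ'))
    (so : eo.y (cfOf Y σ) ⊆ yf' (cfOf Y σ')) (si : ei.y (cfOf Y σ) ⊆ yf' (cfOf Y σ')) (κ : ℂ → Bool) :
    ∀ᵐ ω₂ ∂(pvP ε), (pvdyR C yf (cfOf Y σ) (κ, ω₂) ∈ pvkyEv kit b z d l eo ei ↔ pvdyR C yf' (cfOf Y σ') (κ, ω₂) ∈ pvkyEv kit b z d l eo ei) ∧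
      pvkyYc kit b z d l eo ei X₀ (pvdyR C yf (cfOf Y σ) (κ, ω₂)) = pvkyYc kit b z d l eo ei X₀ (pvdyR C yf' (cfOf Y σ') (κ, ω₂)) := by
  filter_upwards [Bo.bl.R hσo fo₁ fo₂ (fun v _ hv => H.ag_o.ysub hv) (fun v _ hv => so hv) κ, Bi.bl.R hσi fi₁ fi₂ (fun v _ hv => H.ag_i.ysub hv) (fun v _ hv => si hv) κ] with ω₂ ho hi
  exact H.pvbq_Ev_congr (by rw [pvky_restr_R subset_rfl, pvky_restr_R subset_rfl]) ho hi

end top

/-- countably many windows at once: the bad geometries are negligible for the transport machine -/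
theorem pvbq_gen_up_all (ε : ℝ) {ι : Type*} [Countable ι] {Cs Ws : ι → Set ℂ} {P : ι → Conf PvPt → Prop} (hC : ∀ i, MeasurableSet (Cs i)) (hW : ∀ i, MeasurableSet (Ws i))
    (hb : ∀ i, Bornology.IsBounded (Ws i)) (hp : ∀ i, ∀ᵐ η ∂(pvP ε), P i η) : (pvhbUp ε).P {q | ¬ ∀ i, pvbqGen ε (Cs i) (Ws i) (P i) (cfSites (pvConf (pvMerge q)))} = 0 :=
  pvbq_geo_up ε (Φ := fun Y => ∀ i, pvbqGen ε (Cs i) (Ws i) (P i) Y) (ae_all_iff.2 fun i => pvbq_gen_ae ε (hC i) (hW i) (hb i) (hp i))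

theorem pvbq_gen_up_all' (ε : ℝ) {ι : Type*} [Countable ι] {Cs Ws : ι → Set ℂ} {P : ι → Conf PvPt → Prop} (hC : ∀ i, MeasurableSet (Cs i)) (hW : ∀ i, MeasurableSet (Ws i))
    (hb : ∀ i, Bornology.IsBounded (Ws i \ Cs i)) (hp : ∀ i, ∀ᵐ η ∂(pvP ε), P i η) : (pvhbUp ε).P {q | ¬ ∀ i, pvbqGen ε (Cs i) (Ws i) (P i) (cfSites (pvConf (pvMerge q)))} = 0 :=
  pvbq_geo_up ε (Φ := fun Y => ∀ i, pvbqGen ε (Cs i) (Ws i) (P i) Y) (ae_all_iff.2 fun i => pvbq_gen_ae' ε (hC i) (hW i) (hb i) (hp i))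

end Claimed.Agent.R289
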