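-- KEEP
import Claimed.Agent.R289.Tr.CycDI
import Claimed.Agent.R289.Tr.SimpleE

/-!
# Row 289 (S0537), THE WALL, ROAD E, file Tr/PatWin : THE TWO WINDOW ENDS `PvueWin` (141) OF THE CHAIN OF A PATTERN (N1) AT `Tr/InstL` v2.2      (helper180, post of 24 12:58Z + 93 13:05Z; consumers 93 `Exit/N1Y`, 214; prefix `pvjh_pw_`)

0 sorry.      Experiment `(C, yf) := (pvieCc 𝔓 𝔈 m ε π, fun _ => pvilYfc 𝔓 𝔈 m π η)`;   NO state of the base is used: the separation is the one of the own-level boxes.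
* sec. 1  THE NAMES OF 161 ARE THE NAMES OF 218: `pvjh_pw_tiles` (`pvieTiles = pvkyiTiles`), **`pvjh_pw_C`** (`pvieCc = pvkyiC`), **`pvjh_pw_simple`** (`PvieSimple → PvkyiSimple`), under the door equations `pvyj_door` of 93 (`(𝔓.Γ m).Ok π`)
* sec. 2  `pvjh_pw_far` (plane), **`pvjh_pw_far_o`, `pvjh_pw_far_i`** : the own-level box with collar of one pin misses the mouth of the other pin   [`sep` of `PvfeIx`, `pviwTyOk`, (W2) of `Defs/InstWf` v5.1]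
* sec. 3  **`pvjh_pw_o`, `pvjh_pw_i`** : the two `PvueWin` at ANY base data `(Z, F)`, `(Z', F')` with `Z, Z' ⊆ Z₀`, `Z₀` cleared by the tiles (`pvzu_clear_pat` of 148);   `pvjh_pw_oAt`, `pvjh_pw_iAt` : at the base data of the base, words of `pvkyi_chain` (218);   **`pvjh_pw_oL`, `pvjh_pw_iL`** : shapes `wo wi` of `pvkyl_chain` (218, `Tr/ChainL`);
          **`pvjh_pw_chain`** : `PvkyChain` at the names of `Tr/InstL` at one base, from the two `PvkyiGd`;   **`pvjh_pw_chain_pat`** : the same on `pvxPatSet`, base with the hulls of the index (all the geometry discharged: 148 `pvzu_simple_pat_end`, `pvzu_clear_pat_end`, abstract end links `PvzuEo PvzuEi`)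
* sec. 4  `pvjh_Mh_of_wf` : `PvjhMh` of `Tr/CycDI` from `Defs/InstWf` v5.1.
-/

set_option autoImplicit false

namespace Claimed.Agent.R289

open Set MeasureTheory Metric Claims.C0465
open scoped ENNReal ComplexConjugate

section pw

variable {τ : Type} {c : ℝ} {𝔓 : PvxPar τ c} {𝔈 : PvieEng τ} {m : ℕ} {ε : ℝ} {π : PvtsPat τ}

/-! ## 1. the names of 161 are the names of 218 -/

theorem pvjh_pw_tiles (hZ : pvieZi 𝔓 m π.zs π.ts = pvthZ (𝔈.kit m ε).δ (pvieZo 𝔓 m π.zt π.tt) ((𝔓.Γ m).dout π.tt) π.l π.l.length)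
    (hD : (𝔓.Γ m).din π.ts = pvthD ((𝔓.Γ m).dout π.tt) π.l π.l.length) :
    pvieTiles 𝔓 𝔈 m ε π = pvkyiTiles (𝔈.kit m ε) (pvieZo 𝔓 m π.zt π.tt) ((𝔓.Γ m).dout π.tt) π.l (pvieSh π.zt (𝔈.oK m π.tt)) (pvieSh π.zs (𝔈.iK m π.ts)) := by
  unfold pvieTiles pvkyiTiles
  rw [hZ, hD]
  rfl

/-- **the resampled region of the chain of a pattern, in the words of 218** -/
theorem pvjh_pw_C (hZ : pvieZi 𝔓 m π.zs π.ts = pvthZ (𝔈.kit m ε).δ (pvieZo 𝔓 m π.zt π.tt) ((𝔓.Γ m).dout π.tt) π.l π.l.length)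
    (hD : (𝔓.Γ m).din π.ts = pvthD ((𝔓.Γ m).dout π.tt) π.l π.l.length) :
    pvieCc 𝔓 𝔈 m ε π = pvkyiC (𝔈.kit m ε) (pvieZo 𝔓 m π.zt π.tt) ((𝔓.Γ m).dout π.tt) π.l (pvieSh π.zt (𝔈.oK m π.tt)) (pvieSh π.zs (𝔈.iK m π.ts)) := by
  unfold pvieCc pvkyiC
  rw [pvjh_pw_tiles hZ hD]

/-- **the list of 161 is the list of 218** -/
theorem pvjh_pw_simple (hZ : pvieZi 𝔓 m π.zs π.ts = pvthZ (𝔈.kit m ε).δ (pvieZo 𝔓 m π.zt π.tt) ((𝔓.Γ m).dout π.tt) π.l π.l.length)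
    (hD : (𝔓.Γ m).din π.ts = pvthD ((𝔓.Γ m).dout π.tt) π.l π.l.length) (hs : PvieSimple 𝔓 𝔈 m ε π) :
    PvkyiSimple (𝔈.kit m ε) (pvieZo 𝔓 m π.zt π.tt) ((𝔓.Γ m).dout π.tt) π.l (pvieSh π.zt (𝔈.oM m π.tt)) (pvieSh π.zs (𝔈.iM m π.ts)) (pvieSh π.zt (𝔈.oK m π.tt)) (pvieSh π.zs (𝔈.iK m π.ts)) := by
  unfold PvieSimple at hs
  unfold PvkyiSimple
  rw [← pvjh_pw_tiles hZ hD]
  exact hs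

/-! ## 2. the own-level box of one pin misses the mouth of the other pin -/

/-- plane lemma -/
theorem pvjh_pw_far {N : PvwNum} {h δ : ℝ} {Ta Tb : PvwTy} {za zb yb : ℂ} (hh : 0 < h) (hρ0 : 0 < N.rho) (hρ1 : N.rho ≤ 1) (h1 : 0 ≤ N.rho1) (hka : Ta.k ≤ N.K) (hkb : Tb.k ≤ N.K)
    (hδ0 : 0 < δ) (fine : 64 * δ ≤ N.rho * h) (hya : -(N.rho / 10) ≤ 2 * Ta.b2 + Ta.k * N.rho1) (hyb : |pvccN yb - (2 * Tb.b2 + Tb.k * N.rho1)| ≤ N.rho / 10)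
    (sep : 2 * (pvwRad N h Ta N.K + pvwRad N h Tb N.K) + 8 * h ≤ ‖za - zb‖) :
    Disjoint (pvwSq za (pvwRad N h Ta Ta.k + δ)) (closedBall (zb + (h : ℂ) * yb) (N.rho * h / 2)) := by
  rw [Set.disjoint_left]
  intro v hv hv'
  have hR : 0 < N.rho * h := mul_pos hρ0 hh
  have rK : ∀ T : PvwTy, T.k ≤ N.K → pvwRad N h T T.k ≤ pvwRad N h T N.K := by
    intro T hT
    unfold pvwRad
    have : (T.k : ℝ) * N.rho1 ≤ N.K * N.rho1 := mul_le_mul_of_nonneg_right (by exact_mod_cast hT) h1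
    nlinarith
  have nN : pvccN ((h : ℂ) * yb) = h * pvccN yb := by
    unfold pvccN
    rw [Complex.re_ofReal_mul, Complex.im_ofReal_mul, abs_mul, abs_mul, abs_of_pos hh, mul_max_of_nonneg _ _ hh.le]
  have hb := abs_le.1 hyb
  have h0 : 0 ≤ pvccN yb := (abs_nonneg _).trans (le_max_left _ _)
  refine pvzu_box_far (h := h) (ρh := N.rho * h) (δ := δ) (ra := pvwRad N h Ta Ta.k) (rb := pvwRad N h Tb Tb.k) (za := za) (zb := zb) (Yb := (h : ℂ) * yb) (v := v)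
    sep (rK _ hka) (rK _ hkb) ?_ ?_ ?_ (by nlinarith) hδ0 fine ?_ ?_
  · rw [nN]
    unfold pvwRad
    nlinarith [hb.2]
  · unfold pvwRad
    nlinarith
  · unfold pvwRad
    nlinarith [hb.1]
  · have : ‖v - (zb + (h : ℂ) * yb)‖ ≤ N.rho * h / 2 := by simpa [dist_eq_norm] using hv'
    linarith
  · refine ⟨v - za, ?_, by ring⟩
    simpa [pvwSq] using hv

theorem pvjh_pw_lo {t : τ} (ht : pviwTyOk 𝔓 t) : -(𝔓.num.rho / 10) ≤ 2 * (𝔓.ty t).b2 + (𝔓.ty t).k * 𝔓.num.rho1 := by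
  have h0 : 0 ≤ pvccN (𝔓.ty t).yp := (abs_nonneg _).trans (le_max_left _ _)
  have := (abs_le.1 ht.1).2
  linarith

/-- **the own-level box (with collar) of `t` misses the entrance mouth of `s`** -/
theorem pvjh_pw_far_o {m0 : ℕ} {Cth : ℝ} {r κs : ℕ → ℝ} (H : PvieEng.Wf 𝔓 𝔈 m0 Cth r κs) (hm : m0 ≤ m) (hB : 𝔓.WfB) (hTt : pviwTyOk 𝔓 π.tt) (hTs : pviwTyOk 𝔓 π.ts)
    (fine : 64 * pvlmDel c m ≤ 𝔓.num.rho * pvlmH m)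
    (sep : 2 * (pvwRad 𝔓.num (pvlmH m) (𝔓.ty π.ts) 𝔓.num.K + pvwRad 𝔓.num (pvlmH m) (𝔓.ty π.tt) 𝔓.num.K) + 8 * pvlmH m ≤ ‖π.zs - π.zt‖) :
    Disjoint (pvilBx 𝔓 m π.zt π.tt) (pvieSh π.zs (𝔈.iM m π.ts)) := by
  refine Disjoint.mono_right (pvjh_sh_ball π.zs _ _ (H.iM_half m hm π.ts hTs)) ?_
  exact pvjh_pw_far (pvlm_H_pos m) hB.rho0 (by linarith [hB.rho1, hB.rho2, hB.rho3]) (by linarith [hB.rho0, hB.rho1]) (hB.lev _) (hB.lev _) (pvlm_Del_pos c m) fine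
    (pvjh_pw_lo hTt) hTs.2.1 (by rw [norm_sub_rev, add_comm (pvwRad _ _ _ _)]; exact sep)

/-- **the own-level box (with collar) of `s` misses the exit mouth of `t`** -/
theorem pvjh_pw_far_i {m0 : ℕ} {Cth : ℝ} {r κs : ℕ → ℝ} (H : PvieEng.Wf 𝔓 𝔈 m0 Cth r κs) (hm : m0 ≤ m) (hB : 𝔓.WfB) (hTt : pviwTyOk 𝔓 π.tt) (hTs : pviwTyOk 𝔓 π.ts)
    (fine : 64 * pvlmDel c m ≤ 𝔓.num.rho * pvlmH m)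
    (sep : 2 * (pvwRad 𝔓.num (pvlmH m) (𝔓.ty π.ts) 𝔓.num.K + pvwRad 𝔓.num (pvlmH m) (𝔓.ty π.tt) 𝔓.num.K) + 8 * pvlmH m ≤ ‖π.zs - π.zt‖) :
    Disjoint (pvilBx 𝔓 m π.zs π.ts) (pvieSh π.zt (𝔈.oM m π.tt)) := by
  refine Disjoint.mono_right (pvjh_sh_ball π.zt _ _ (H.oM_half m hm π.tt hTt)) ?_
  exact pvjh_pw_far (pvlm_H_pos m) hB.rho0 (by linarith [hB.rho1, hB.rho2, hB.rho3]) (by linarith [hB.rho0, hB.rho1]) (hB.lev _) (hB.lev _) (pvlm_Del_pos c m) fine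
    (pvjh_pw_lo hTs) hTt.1 sep

/-! ## 3. the two window ends -/

theorem pvjh_pw_fat_mono {δ : ℝ} {Z Z' : Set (ℤ × ℤ)} (h : Z ⊆ Z') : pvilFat δ Z ⊆ pvilFat δ Z' := by
  unfold pvilFat pvtU
  refine iUnion₂_subset fun q hq => ?_
  obtain ⟨q0, h0, h1⟩ := hq
  exact subset_iUnion₂_of_subset q ⟨q0, h h0, h1⟩ subset_rfl

/-- the carried part of a window misses the resampled region of the chain -/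
theorem pvjh_pw_Wz_C {z : ℂ} {t : τ} {Z Z₀ : Set (ℤ × ℤ)} (hc : ∀ S ∈ pvieTiles 𝔓 𝔈 m ε π, Disjoint S (pvieSh z (pviwBox 𝔓 m t) ∩ pvtU (pvlmDel c m) (pvtN8 Z₀))) (hZ : Z ⊆ Z₀) :
    Disjoint (pvilWz 𝔓 m z t Z) (pvieCc 𝔓 𝔈 m ε π) := by
  rw [Set.disjoint_left]
  rintro v ⟨h1, h2⟩ ⟨S, hS, hv⟩
  rw [pvjh_Bx_eq] at h2
  exact Set.disjoint_left.1 (hc S hS) hv ⟨h2, pvjh_pw_fat_mono hZ h1⟩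

theorem pvjh_pw_C_meas {m0 : ℕ} {Cth : ℝ} {r κs : ℕ → ℝ} (H : PvieEng.Wf 𝔓 𝔈 m0 Cth r κs) (hk : (𝔈.kit m ε).WF) (hd : (𝔓.Γ m).dout π.tt ^ 4 = 1)
    (hZ : pvieZi 𝔓 m π.zs π.ts = pvthZ (𝔈.kit m ε).δ (pvieZo 𝔓 m π.zt π.tt) ((𝔓.Γ m).dout π.tt) π.l π.l.length)
    (hD : (𝔓.Γ m).din π.ts = pvthD ((𝔓.Γ m).dout π.tt) π.l π.l.length) : MeasurableSet (pvieCc 𝔓 𝔈 m ε π) := by
  rw [pvjh_pw_C hZ hD]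
  exact pvkyi_measurable_C hk hd (pvjh_sh_meas _ (H.m_oK m _)) (pvjh_sh_meas _ (H.m_iK m _))

theorem pvjh_Wni_meas {m0 : ℕ} {Cth : ℝ} {r κs : ℕ → ℝ} (H : PvieEng.Wf 𝔓 𝔈 m0 Cth r κs) (hk : (𝔈.kit m ε).WF) (z : ℂ) {t : τ} (hd : (𝔓.Γ m).din t ≠ 0) (Z : Set (ℤ × ℤ)) :
    MeasurableSet (pvilWni 𝔓 𝔈 m ε z t Z) :=
  (((pvjh_Wz_meas 𝔓 m z t Z).union (pvjh_sh_meas z (H.m_iM m t))).union (pvjh_sh_meas z (H.m_iK m t))).union (pvkyi_measurable_door hk _ hd)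

variable {η : Conf PvPt}

/-- **THE FIRST LINK OF THE CHAIN OF A PATTERN IS A WINDOW END**, any base data, any weight -/
theorem pvjh_pw_o {m0 : ℕ} {Cth : ℝ} {r κs : ℕ → ℝ} (H : PvieEng.Wf 𝔓 𝔈 m0 Cth r κs) (hk : (𝔈.kit m ε).WF) (hd : (𝔓.Γ m).dout π.tt ^ 4 = 1)
    (hZ : pvieZi 𝔓 m π.zs π.ts = pvthZ (𝔈.kit m ε).δ (pvieZo 𝔓 m π.zt π.tt) ((𝔓.Γ m).dout π.tt) π.l π.l.length)
    (hD : (𝔓.Γ m).din π.ts = pvthD ((𝔓.Γ m).dout π.tt) π.l π.l.length) (hs : PvieSimple 𝔓 𝔈 m ε π)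
    {Z Z₀ : Set (ℤ × ℤ)} (hc : ∀ S ∈ pvieTiles 𝔓 𝔈 m ε π, Disjoint S (pvieSh π.zt (pviwBox 𝔓 m π.tt) ∩ pvtU (pvlmDel c m) (pvtN8 Z₀))) (hZ₀ : Z ⊆ Z₀)
    (far : Disjoint (pvilBx 𝔓 m π.zt π.tt) (pvieSh π.zs (𝔈.iM m π.ts))) (cnt : (cfSites η).Countable) (F F' : Set ℂ) (w : ∀ η : Conf PvPt, (delbPl (pvieY η)).Dart → ℂ) :
    PvueWin η (pvieCc 𝔓 𝔈 m ε π) (fun _ => (pvieSh π.zt (𝔈.oM m π.tt) \ F) ∪ (pvieSh π.zs (𝔈.iM m π.ts) \ F')) (pvilEo 𝔓 𝔈 m ε w π.zt π.tt Z F)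
      (pvkyDoor (𝔈.kit m ε) (pvieZo 𝔓 m π.zt π.tt) ((𝔓.Γ m).dout π.tt)) (pvilWno 𝔓 𝔈 m ε π.zt π.tt Z) := by
  have S := pvjh_pw_simple hZ hD hs
  have mW := pvjh_Wno_meas H hk π.zt π.tt Z
  have eC := pvjh_pw_C (𝔓 := 𝔓) (𝔈 := 𝔈) (m := m) (ε := ε) (π := π) hZ hD
  refine pvkyi_win (M := pvieSh π.zt (𝔈.oM m π.tt)) (M' := pvieSh π.zs (𝔈.iM m π.ts)) (F := F) (F' := F') (Zp := pvilWz 𝔓 m π.zt π.tt Z)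
    (pvjh_pw_C_meas H hk hd hZ hD) cnt (pvjh_sh_meas _ (H.m_oK m _)) (pvjh_fin_meas (pvjh_SA_meas ε mW _ _)) (pvjh_Loc_meas ε mW _ _)
    (pvjh_fin_reads (pvjh_SA_reads ε _ _ _)) (pvjh_Loc_reads ε _ _ _) rfl ?_ ?_ ?_ S.Mo_Mi ?_ subset_union_left subset_rfl
  · rw [eC]
    exact pvkyi_sub_o
  · rintro v ⟨hC, hv⟩
    exact absurd hC (Set.disjoint_left.1 (pvjh_pw_Wz_C hc hZ₀) hv)
  · rw [eC]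
    exact S.Mo_C
  · intro v _ hv hv'
    exact absurd hv' (Set.disjoint_left.1 far hv.2)

/-- **THE LAST LINK OF THE CHAIN OF A PATTERN IS A WINDOW END**, any base data, any weight -/
theorem pvjh_pw_i {m0 : ℕ} {Cth : ℝ} {r κs : ℕ → ℝ} (H : PvieEng.Wf 𝔓 𝔈 m0 Cth r κs) (hk : (𝔈.kit m ε).WF) (hd : (𝔓.Γ m).dout π.tt ^ 4 = 1)
    (hZ : pvieZi 𝔓 m π.zs π.ts = pvthZ (𝔈.kit m ε).δ (pvieZo 𝔓 m π.zt π.tt) ((𝔓.Γ m).dout π.tt) π.l π.l.length)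
    (hD : (𝔓.Γ m).din π.ts = pvthD ((𝔓.Γ m).dout π.tt) π.l π.l.length) (hs : PvieSimple 𝔓 𝔈 m ε π)
    {Z Z₀ : Set (ℤ × ℤ)} (hc : ∀ S ∈ pvieTiles 𝔓 𝔈 m ε π, Disjoint S (pvieSh π.zs (pviwBox 𝔓 m π.ts) ∩ pvtU (pvlmDel c m) (pvtN8 Z₀))) (hZ₀ : Z ⊆ Z₀)
    (far : Disjoint (pvilBx 𝔓 m π.zs π.ts) (pvieSh π.zt (𝔈.oM m π.tt))) (cnt : (cfSites η).Countable) (F F' : Set ℂ) (w : ∀ η : Conf PvPt, (delbPl (pvieY η)).Dart → ℂ) :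
    PvueWin η (pvieCc 𝔓 𝔈 m ε π) (fun _ => (pvieSh π.zt (𝔈.oM m π.tt) \ F) ∪ (pvieSh π.zs (𝔈.iM m π.ts) \ F')) (pvilEi 𝔓 𝔈 m ε w π.zs π.ts Z F')
      (pvkyDoor (𝔈.kit m ε) (pvthZ (𝔈.kit m ε).δ (pvieZo 𝔓 m π.zt π.tt) ((𝔓.Γ m).dout π.tt) π.l π.l.length) (pvthD ((𝔓.Γ m).dout π.tt) π.l π.l.length))
      (pvilWni 𝔓 𝔈 m ε π.zs π.ts Z) := by
  have S := pvjh_pw_simple hZ hD hs
  have hdi : (𝔓.Γ m).din π.ts ≠ 0 := by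
    rw [hD]
    exact pvthx_D_ne hd _ _
  have mW := pvjh_Wni_meas H hk π.zs hdi Z
  have eC := pvjh_pw_C (𝔓 := 𝔓) (𝔈 := 𝔈) (m := m) (ε := ε) (π := π) hZ hD
  have eW : pvilWni 𝔓 𝔈 m ε π.zs π.ts Z = pvilWz 𝔓 m π.zs π.ts Z ∪ pvieSh π.zs (𝔈.iM m π.ts) ∪ (pvilEi 𝔓 𝔈 m ε w π.zs π.ts Z F').K ∪
      pvkyDoor (𝔈.kit m ε) (pvthZ (𝔈.kit m ε).δ (pvieZo 𝔓 m π.zt π.tt) ((𝔓.Γ m).dout π.tt) π.l π.l.length) (pvthD ((𝔓.Γ m).dout π.tt) π.l π.l.length) := by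
    rw [← hZ, ← hD]
    rfl
  rw [eW]
  rw [eW] at mW
  refine pvkyi_win (M := pvieSh π.zs (𝔈.iM m π.ts)) (M' := pvieSh π.zt (𝔈.oM m π.tt)) (F := F') (F' := F) (Zp := pvilWz 𝔓 m π.zs π.ts Z)
    (pvjh_pw_C_meas H hk hd hZ hD) cnt (pvjh_sh_meas _ (H.m_iK m _)) ?_ ?_ ?_ ?_ rfl ?_ ?_ ?_ S.Mo_Mi.symm ?_ subset_union_right ?_
  · rw [← eW] at mW
    exact pvjh_fin_meas (pvjh_SA_meas ε mW _ _)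
  · rw [← eW] at mW
    exact pvjh_Loc_meas ε mW _ _
  · rw [← eW]
    exact pvjh_fin_reads (pvjh_SA_reads ε _ _ _)
  · rw [← eW]
    exact pvjh_Loc_reads ε _ _ _
  · rw [eC]
    exact pvkyi_sub_i
  · rintro v ⟨hC, hv⟩
    exact absurd hC (Set.disjoint_left.1 (pvjh_pw_Wz_C hc hZ₀) hv)
  · rw [eC]
    exact S.Mi_C
  · intro v _ hv hv'
    exact absurd hv' (Set.disjoint_left.1 far hv.2)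
  · rintro v (hv | hv)
    exacts [Or.inr hv, Or.inl hv]

/-- a window end reads the choice of the fresh sites AT THE BASE only -/
theorem PvueWin.pvjh_yf {ω : Conf PvPt} {C : Set ℂ} {yf yf' : Conf PvPt → Set ℂ} {e : PvkyEnd} {D Wn : Set ℂ} (h : PvueWin ω C yf e D Wn) (hy : yf' ω = yf ω) : PvueWin ω C yf' e D Wn where
  mC := h.mC
  cnt := h.cnt
  mK := h.mK
  mA := h.mA
  mX := h.mX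
  rA := h.rA
  rX := h.rX
  cst := h.cst
  sub := h.sub
  win := h.win
  ysub := by rw [hy]; exact h.ysub
  yC := h.yC
  fresh := by rw [hy]; exact h.fresh

/-- **THE FIRST LINK AT THE BASE DATA OF THE BASE, IN THE WORDS OF `pvkyi_chain`** (218) -/
theorem pvjh_pw_oAt {m0 : ℕ} {Cth : ℝ} {r κs : ℕ → ℝ} (H : PvieEng.Wf 𝔓 𝔈 m0 Cth r κs) (hk : (𝔈.kit m ε).WF) (hd : (𝔓.Γ m).dout π.tt ^ 4 = 1)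
    (hZ : pvieZi 𝔓 m π.zs π.ts = pvthZ (𝔈.kit m ε).δ (pvieZo 𝔓 m π.zt π.tt) ((𝔓.Γ m).dout π.tt) π.l π.l.length)
    (hD : (𝔓.Γ m).din π.ts = pvthD ((𝔓.Γ m).dout π.tt) π.l π.l.length) (hs : PvieSimple 𝔓 𝔈 m ε π)
    {Z₀ : Set (ℤ × ℤ)} (hc : ∀ S ∈ pvieTiles 𝔓 𝔈 m ε π, Disjoint S (pvieSh π.zt (pviwBox 𝔓 m π.tt) ∩ pvtU (pvlmDel c m) (pvtN8 Z₀))) (hZ₀ : pvilZo 𝔓 m π.zt π.tt η ⊆ Z₀)
    (far : Disjoint (pvilBx 𝔓 m π.zt π.tt) (pvieSh π.zs (𝔈.iM m π.ts))) (cnt : (cfSites η).Countable) {yf : Conf PvPt → Set ℂ} (hyf : yf η = pvilYfc 𝔓 𝔈 m π η)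
    (w w' : ∀ η : Conf PvPt, (delbPl (pvieY η)).Dart → ℂ) :
    PvueWin η (pvkyiC (𝔈.kit m ε) (pvieZo 𝔓 m π.zt π.tt) ((𝔓.Γ m).dout π.tt) π.l (pvilEoAt 𝔓 𝔈 m ε w π.zt π.tt η).K (pvilEiAt 𝔓 𝔈 m ε w' π.zs π.ts η).K) yf (pvilEoAt 𝔓 𝔈 m ε w π.zt π.tt η)
      (pvkyDoor (𝔈.kit m ε) (pvieZo 𝔓 m π.zt π.tt) ((𝔓.Γ m).dout π.tt)) (pvilWno 𝔓 𝔈 m ε π.zt π.tt (pvilZo 𝔓 m π.zt π.tt η)) := by
  have h := pvjh_pw_o H hk hd hZ hD hs hc hZ₀ far cnt (pvilFo 𝔓 m π.zt π.tt η) (pvilFi 𝔓 m π.zs π.ts η) w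
  rw [pvjh_pw_C hZ hD] at h
  exact h.pvjh_yf hyf

/-- **THE LAST LINK AT THE BASE DATA OF THE BASE, IN THE WORDS OF `pvkyi_chain`** (218) -/
theorem pvjh_pw_iAt {m0 : ℕ} {Cth : ℝ} {r κs : ℕ → ℝ} (H : PvieEng.Wf 𝔓 𝔈 m0 Cth r κs) (hk : (𝔈.kit m ε).WF) (hd : (𝔓.Γ m).dout π.tt ^ 4 = 1)
    (hZ : pvieZi 𝔓 m π.zs π.ts = pvthZ (𝔈.kit m ε).δ (pvieZo 𝔓 m π.zt π.tt) ((𝔓.Γ m).dout π.tt) π.l π.l.length)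
    (hD : (𝔓.Γ m).din π.ts = pvthD ((𝔓.Γ m).dout π.tt) π.l π.l.length) (hs : PvieSimple 𝔓 𝔈 m ε π)
    {Z₀ : Set (ℤ × ℤ)} (hc : ∀ S ∈ pvieTiles 𝔓 𝔈 m ε π, Disjoint S (pvieSh π.zs (pviwBox 𝔓 m π.ts) ∩ pvtU (pvlmDel c m) (pvtN8 Z₀))) (hZ₀ : pvilZi 𝔓 m π.zs π.ts η ⊆ Z₀)
    (far : Disjoint (pvilBx 𝔓 m π.zs π.ts) (pvieSh π.zt (𝔈.oM m π.tt))) (cnt : (cfSites η).Countable) {yf : Conf PvPt → Set ℂ} (hyf : yf η = pvilYfc 𝔓 𝔈 m π η)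
    (w w' : ∀ η : Conf PvPt, (delbPl (pvieY η)).Dart → ℂ) :
    PvueWin η (pvkyiC (𝔈.kit m ε) (pvieZo 𝔓 m π.zt π.tt) ((𝔓.Γ m).dout π.tt) π.l (pvilEoAt 𝔓 𝔈 m ε w π.zt π.tt η).K (pvilEiAt 𝔓 𝔈 m ε w' π.zs π.ts η).K) yf (pvilEiAt 𝔓 𝔈 m ε w' π.zs π.ts η)
      (pvkyDoor (𝔈.kit m ε) (pvthZ (𝔈.kit m ε).δ (pvieZo 𝔓 m π.zt π.tt) ((𝔓.Γ m).dout π.tt) π.l π.l.length) (pvthD ((𝔓.Γ m).dout π.tt) π.l π.l.length))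
      (pvilWni 𝔓 𝔈 m ε π.zs π.ts (pvilZi 𝔓 m π.zs π.ts η)) := by
  have h := pvjh_pw_i H hk hd hZ hD hs hc hZ₀ far cnt (pvilFo 𝔓 m π.zt π.tt η) (pvilFi 𝔓 m π.zs π.ts η) w'
  rw [pvjh_pw_C hZ hD] at h
  exact h.pvjh_yf hyf

/-- **THE FIRST LINK, IN THE SHAPE `wo` OF `pvkyl_chain`** (218, `Tr/ChainL`) -/
theorem pvjh_pw_oL {m0 : ℕ} {Cth : ℝ} {r κs : ℕ → ℝ} (H : PvieEng.Wf 𝔓 𝔈 m0 Cth r κs) (hk : (𝔈.kit m ε).WF) (hd : (𝔓.Γ m).dout π.tt ^ 4 = 1)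
    (hZ : pvieZi 𝔓 m π.zs π.ts = pvthZ (𝔈.kit m ε).δ (pvieZo 𝔓 m π.zt π.tt) ((𝔓.Γ m).dout π.tt) π.l π.l.length)
    (hD : (𝔓.Γ m).din π.ts = pvthD ((𝔓.Γ m).dout π.tt) π.l π.l.length) (hs : PvieSimple 𝔓 𝔈 m ε π)
    {Z₀ : Set (ℤ × ℤ)} (hc : ∀ S ∈ pvieTiles 𝔓 𝔈 m ε π, Disjoint S (pvieSh π.zt (pviwBox 𝔓 m π.tt) ∩ pvtU (pvlmDel c m) (pvtN8 Z₀))) (hZ₀ : pvilZo 𝔓 m π.zt π.tt η ⊆ Z₀)
    (far : Disjoint (pvilBx 𝔓 m π.zt π.tt) (pvieSh π.zs (𝔈.iM m π.ts))) (cnt : (cfSites η).Countable) {yf : Conf PvPt → Set ℂ} (hyf : yf η = pvilYfc 𝔓 𝔈 m π η)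
    (w : ∀ η : Conf PvPt, (delbPl (pvieY η)).Dart → ℂ) :
    PvueWin η (pvieCc 𝔓 𝔈 m ε π) yf (pvilEoAt 𝔓 𝔈 m ε w π.zt π.tt η) (pvieDoor 𝔈 m ε (pvieZo 𝔓 m π.zt π.tt) ((𝔓.Γ m).dout π.tt)) (pvilWno 𝔓 𝔈 m ε π.zt π.tt (pvilZo 𝔓 m π.zt π.tt η)) :=
  (pvjh_pw_o H hk hd hZ hD hs hc hZ₀ far cnt (pvilFo 𝔓 m π.zt π.tt η) (pvilFi 𝔓 m π.zs π.ts η) w).pvjh_yf hyf

/-- **THE LAST LINK, IN THE SHAPE `wi` OF `pvkyl_chain`** (218, `Tr/ChainL`) -/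
theorem pvjh_pw_iL {m0 : ℕ} {Cth : ℝ} {r κs : ℕ → ℝ} (H : PvieEng.Wf 𝔓 𝔈 m0 Cth r κs) (hk : (𝔈.kit m ε).WF) (hd : (𝔓.Γ m).dout π.tt ^ 4 = 1)
    (hZ : pvieZi 𝔓 m π.zs π.ts = pvthZ (𝔈.kit m ε).δ (pvieZo 𝔓 m π.zt π.tt) ((𝔓.Γ m).dout π.tt) π.l π.l.length)
    (hD : (𝔓.Γ m).din π.ts = pvthD ((𝔓.Γ m).dout π.tt) π.l π.l.length) (hs : PvieSimple 𝔓 𝔈 m ε π)
    {Z₀ : Set (ℤ × ℤ)} (hc : ∀ S ∈ pvieTiles 𝔓 𝔈 m ε π, Disjoint S (pvieSh π.zs (pviwBox 𝔓 m π.ts) ∩ pvtU (pvlmDel c m) (pvtN8 Z₀))) (hZ₀ : pvilZi 𝔓 m π.zs π.ts η ⊆ Z₀)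
    (far : Disjoint (pvilBx 𝔓 m π.zs π.ts) (pvieSh π.zt (𝔈.oM m π.tt))) (cnt : (cfSites η).Countable) {yf : Conf PvPt → Set ℂ} (hyf : yf η = pvilYfc 𝔓 𝔈 m π η)
    (w : ∀ η : Conf PvPt, (delbPl (pvieY η)).Dart → ℂ) :
    PvueWin η (pvieCc 𝔓 𝔈 m ε π) yf (pvilEiAt 𝔓 𝔈 m ε w π.zs π.ts η) (pvieDoor 𝔈 m ε (pvieZi 𝔓 m π.zs π.ts) ((𝔓.Γ m).din π.ts)) (pvilWni 𝔓 𝔈 m ε π.zs π.ts (pvilZi 𝔓 m π.zs π.ts η)) := by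
  have h := (pvjh_pw_i H hk hd hZ hD hs hc hZ₀ far cnt (pvilFo 𝔓 m π.zt π.tt η) (pvilFi 𝔓 m π.zs π.ts η) w).pvjh_yf hyf
  rw [← hZ, ← hD] at h
  exact h

/-- **THE CHAIN RECORD OF 218 AT THE NAMES OF `Tr/InstL`, AT ONE BASE**: list of 161, cell kit of 52, clearance of 148, the two good bases `PvkyiGd` -/
theorem pvjh_pw_chain {m0 : ℕ} {Cth : ℝ} {r κs : ℕ → ℝ} (H : PvieEng.Wf 𝔓 𝔈 m0 Cth r κs) (hd : (𝔓.Γ m).dout π.tt ^ 4 = 1)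
    (hZ : pvieZi 𝔓 m π.zs π.ts = pvthZ (𝔈.kit m ε).δ (pvieZo 𝔓 m π.zt π.tt) ((𝔓.Γ m).dout π.tt) π.l π.l.length)
    (hD : (𝔓.Γ m).din π.ts = pvthD ((𝔓.Γ m).dout π.tt) π.l π.l.length) (hs : PvieSimple 𝔓 𝔈 m ε π)
    {Z₀ : Set (ℤ × ℤ)} (hc : ∀ S ∈ pvieTiles 𝔓 𝔈 m ε π, Disjoint S (pvieSh π.zt (pviwBox 𝔓 m π.tt) ∩ pvtU (pvlmDel c m) (pvtN8 Z₀)) ∧ Disjoint S (pvieSh π.zs (pviwBox 𝔓 m π.ts) ∩ pvtU (pvlmDel c m) (pvtN8 Z₀)))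
    (hZo : pvilZo 𝔓 m π.zt π.tt η ⊆ Z₀) (hZi : pvilZi 𝔓 m π.zs π.ts η ⊆ Z₀)
    (far_o : Disjoint (pvilBx 𝔓 m π.zt π.tt) (pvieSh π.zs (𝔈.iM m π.ts))) (far_i : Disjoint (pvilBx 𝔓 m π.zs π.ts) (pvieSh π.zt (𝔈.oM m π.tt)))
    (cnt : (cfSites η).Countable) {yf : Conf PvPt → Set ℂ} (hyf : yf η = pvilYfc 𝔓 𝔈 m π η)
    {b : Bool} {β' q B qo qi : ℝ≥0∞} {r' : ℝ} (hk : PvcnOkQ (𝔈.kit m ε) ε (𝔈.XQ m ε) β' q B r') (qo0 : qo ≠ 0) (qo1 : qo ≤ 1) (qi0 : qi ≠ 0) (qi1 : qi ≤ 1)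
    (go : PvkyiGd (𝔈.kit m ε) ε b (pvilEoAt 𝔓 𝔈 m ε pvilQ π.zt π.tt η) (pvieZo 𝔓 m π.zt π.tt) ((𝔓.Γ m).dout π.tt) qo η)
    (gi : PvkyiGd (𝔈.kit m ε) ε b (pvilEiAt 𝔓 𝔈 m ε pvilQ π.zs π.ts η) (pvieZi 𝔓 m π.zs π.ts) ((𝔓.Γ m).din π.ts) qi η) :
    PvkyChain (𝔈.kit m ε) ε b (𝔈.XQ m ε) (pvieZo 𝔓 m π.zt π.tt) ((𝔓.Γ m).dout π.tt) π.l η (pvieCc 𝔓 𝔈 m ε π) yf (pvilEoAt 𝔓 𝔈 m ε pvilQ π.zt π.tt η) (pvilEiAt 𝔓 𝔈 m ε pvilQ π.zs π.ts η)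
      (pvkyiFun (𝔈.kit m ε) ε b (pvieCc 𝔓 𝔈 m ε π) yf η (pvilEoAt 𝔓 𝔈 m ε pvilQ π.zt π.tt η) (pvieZo 𝔓 m π.zt π.tt) ((𝔓.Γ m).dout π.tt) qo)
      (pvkyiFun (𝔈.kit m ε) ε b (pvieCc 𝔓 𝔈 m ε π) yf η (pvilEiAt 𝔓 𝔈 m ε pvilQ π.zs π.ts η) (pvieZi 𝔓 m π.zs π.ts) ((𝔓.Γ m).din π.ts) qi) β' q qo qi := by
  rw [pvjh_pw_C hZ hD]
  rw [hZ, hD] at gi ⊢
  exact pvkyi_chain (pvjh_pw_simple (by rw [hZ]) (by rw [hD]) hs) hk hd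
    (pvjh_pw_oAt H hk.wf hd hZ hD hs (fun S hS => (hc S hS).1) hZo far_o cnt hyf pvilQ pvilQ)
    (pvjh_pw_iAt H hk.wf hd hZ hD hs (fun S hS => (hc S hS).2) hZi far_i cnt hyf pvilQ pvilQ)
    sdiff_subset sdiff_subset qo0 qo1 qi0 qi1 go gi

/-- the last door of the word of a pattern is the entrance door of `s`      (= `pvyj_door` of 93, `Exit/N1Y`) -/
theorem pvjh_pw_door (hdel : (𝔓.Γ m).δ = pvlmDel c m) (hπ : (𝔓.Γ m).Ok π) (hδ : (𝔈.kit m ε).δ = pvlmDel c m) :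
    pvieZi 𝔓 m π.zs π.ts = pvthZ (𝔈.kit m ε).δ (pvieZo 𝔓 m π.zt π.tt) ((𝔓.Γ m).dout π.tt) π.l π.l.length ∧
      (𝔓.Γ m).din π.ts = pvthD ((𝔓.Γ m).dout π.tt) π.l π.l.length := by
  rw [pvkyi_Z_last, pvkyi_D_last, hδ, ← hdel, hπ.1, hπ.2]
  refine ⟨?_, rfl⟩
  unfold pvieZi pvieZo
  ring

/-- **THE CHAIN RECORD ON `pvxPatSet`, AT ONE BASE WHOSE HULLS ARE THOSE OF THE INDEX**.      `Et Es` = the abstract end links of 148 (`Tr/SimpleE` v2; at the engine of record: `pvzu_eo_of_a`, `pvzu_ei_of_a`, see `Tr/PatWinR`) -/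
theorem pvjh_pw_chain_pat {m0 : ℕ} {Cth : ℝ} {r κs : ℕ → ℝ} (H : PvieEng.Wf 𝔓 𝔈 m0 Cth r κs) (hm : m0 ≤ m) (hB : 𝔓.WfB) (hL : PvegLev 𝔓 m) (hT : ∀ t, pviwTyOk 𝔓 t)
    (Et : ∀ t, PvzuEo 𝔓 𝔈 m ε t) (Es : ∀ t, PvzuEi 𝔓 𝔈 m ε t)
    {x : ℂ} {R₀ : ℝ} {ϖ : PvxIx τ} (hπ : ϖ ∈ pvxPatSet 𝔓 x R₀ m) (hZo : pvilZo 𝔓 m ϖ.p.zt ϖ.p.tt η = ↑ϖ.Zt) (hZi : pvilZi 𝔓 m ϖ.p.zs ϖ.p.ts η = ↑ϖ.Zs)
    (cnt : (cfSites η).Countable) {yf : Conf PvPt → Set ℂ} (hyf : yf η = pvilYfc 𝔓 𝔈 m ϖ.p η)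
    {b : Bool} {β' q B qo qi : ℝ≥0∞} {r' : ℝ} (hk : PvcnOkQ (𝔈.kit m ε) ε (𝔈.XQ m ε) β' q B r') (qo0 : qo ≠ 0) (qo1 : qo ≤ 1) (qi0 : qi ≠ 0) (qi1 : qi ≤ 1)
    (go : PvkyiGd (𝔈.kit m ε) ε b (pvilEoAt 𝔓 𝔈 m ε pvilQ ϖ.p.zt ϖ.p.tt η) (pvieZo 𝔓 m ϖ.p.zt ϖ.p.tt) ((𝔓.Γ m).dout ϖ.p.tt) qo η)
    (gi : PvkyiGd (𝔈.kit m ε) ε b (pvilEiAt 𝔓 𝔈 m ε pvilQ ϖ.p.zs ϖ.p.ts η) (pvieZi 𝔓 m ϖ.p.zs ϖ.p.ts) ((𝔓.Γ m).din ϖ.p.ts) qi η) :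
    PvkyChain (𝔈.kit m ε) ε b (𝔈.XQ m ε) (pvieZo 𝔓 m ϖ.p.zt ϖ.p.tt) ((𝔓.Γ m).dout ϖ.p.tt) ϖ.p.l η (pvieCc 𝔓 𝔈 m ε ϖ.p) yf (pvilEoAt 𝔓 𝔈 m ε pvilQ ϖ.p.zt ϖ.p.tt η) (pvilEiAt 𝔓 𝔈 m ε pvilQ ϖ.p.zs ϖ.p.ts η)
      (pvkyiFun (𝔈.kit m ε) ε b (pvieCc 𝔓 𝔈 m ε ϖ.p) yf η (pvilEoAt 𝔓 𝔈 m ε pvilQ ϖ.p.zt ϖ.p.tt η) (pvieZo 𝔓 m ϖ.p.zt ϖ.p.tt) ((𝔓.Γ m).dout ϖ.p.tt) qo)
      (pvkyiFun (𝔈.kit m ε) ε b (pvieCc 𝔓 𝔈 m ε ϖ.p) yf η (pvilEiAt 𝔓 𝔈 m ε pvilQ ϖ.p.zs ϖ.p.ts η) (pvieZi 𝔓 m ϖ.p.zs ϖ.p.ts) ((𝔓.Γ m).din ϖ.p.ts) qi) β' q qo qi := by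
  obtain ⟨hZ, hD⟩ := pvjh_pw_door (𝔈 := 𝔈) (ε := ε) hL.del hπ.1.1 (H.kit_del m ε)
  have sep := (pvzu_pat_ix hπ).sep
  exact pvjh_pw_chain H (pveg_dout4 hL _) hZ hD (pvzu_simple_pat_end hB hL.del hL.doors (H.kit_ref m ε) (H.kit_del m ε) Et Es hπ)
    (pvzu_clear_pat_end hB hL (H.kit_ref m ε) (H.kit_del m ε) Et Es hπ) (by rw [hZo]; exact subset_union_right) (by rw [hZi]; exact subset_union_left)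
    (pvjh_pw_far_o H hm hB (hT _) (hT _) hL.fine sep) (pvjh_pw_far_i H hm hB (hT _) (hT _) hL.fine sep) cnt hyf hk qo0 qo1 qi0 qi1 go gi

/-! ## 4. the line owed to `Tr/CycDI` -/

/-- `PvjhMh` of `Tr/CycDI` from (W2) of `Defs/InstWf` v5.1 -/
theorem pvjh_Mh_of_wf {m0 : ℕ} {Cth : ℝ} {r κs : ℕ → ℝ} (H : PvieEng.Wf 𝔓 𝔈 m0 Cth r κs) (hm : m0 ≤ m) {t : τ} (ht : pviwTyOk 𝔓 t) : PvjhMh 𝔓 𝔈 m t :=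
  ⟨H.oM_half m hm t ht, H.eM_half m hm t ht⟩

end pw

end Claimed.Agent.R289
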