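-- KEEP
import Claimed.Agent.R289.Tr.PatWin
import Claimed.Agent.R289.Exit.EngRec
import Claimed.Agent.R289.Exit.ParGr

/-!
# Row 289 (S0537), THE WALL, ROAD E, file Tr/PatWinR : THE CHAIN OF A PATTERN (N1) AT THE BINDERS OF RECORD `c0 hE hR hm hπ`      (helper180; prefix `pvjh_pr_`)

0 sorry.      `Tr/PatWin` at `𝔓 := pvxParOf N hN c`, `𝔈` = the engine of record (`hR : PvnaRec N hN c 𝔈`, Ana v4).
* **`pvjh_pr_ends`** (`PvzuEo PvzuEi` of 148 at the engine of record, regions v2 of 124), `pvjh_pr_door`, `pvjh_pr_simple` (`PvieSimple`), `pvjh_pr_ksimple` (`PvkyiSimple`), `pvjh_pr_clear`, `pvjh_pr_far`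
* **`pvjh_pr_o`, `pvjh_pr_i`** : the two `PvueWin` at the base data of a base whose hulls are those of the index (= the guard `pvn1aS` of 159)
* **`pvjh_pr_oL`, `pvjh_pr_iL`** : the same in the shapes `wo wi` of `pvkyl_chain` / `pvkyl_chain_D` (218, `Tr/ChainL`)
* **`pvjh_pr_chain`** : `PvkyChain` at such a base from `PvcnOkQ` and the two `PvkyiGd`.
-/

set_option autoImplicit false

namespace Claimed.Agent.R289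

open Set MeasureTheory Metric Claims.C0465
open scoped ENNReal

section pr

variable {c : ℝ} {N : PvxNums} {hN : N.Ok} {𝔈 : PvieEng (pvxTau N)} {m : ℕ} {ε : ℝ} {x : ℂ} {R₀ : ℝ} {π : PvxIx (pvxTau N)} {η : Conf PvPt}

/-- **the end links of the engine of record are end links in the sense of 148** (`Tr/SimpleE` v2) -/
theorem pvjh_pr_ends (c0 : 0 < c) (hE : PvnaWf (pvxParOf N hN c) 𝔈) (hR : PvnaRec N hN c 𝔈) (hm : (pvxParOf N hN c).m0 ≤ m) (ε : ℝ) :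
    (∀ t, PvzuEo (pvxParOf N hN c) 𝔈 m ε t) ∧ ∀ t, PvzuEi (pvxParOf N hN c) 𝔈 m ε t := by
  obtain ⟨Cth, r, κs, H⟩ := hE.wf
  obtain ⟨nb, rfl⟩ := hR
  have hL := pvqh_lev (hN := hN) c0 hm
  have hO : ((pvnaEngRec N hN c nb).kit m ε).O₀ = (pvnaInRec N hN c nb).O0 m := (pvnr_kit_O N hN c nb m ε).trans (pvnr_O0 N hN c nb m).symm
  exact ⟨fun t => pvzu_eo_of_a (O₀ := (pvnaInRec N hN c nb).O0) hL (pvqh_tyOk hN c t) (H.kit_ref m ε) (H.kit_del m ε) hO (pvnr_oM N hN c nb m t).subset (pvnr_oK N hN c nb m t).subset,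
    fun t => pvzu_ei_of_a (O₀ := (pvnaInRec N hN c nb).O0) hL (pvqh_tyOk hN c t) (H.kit_ref m ε) (H.kit_del m ε) hO (pvnr_iM N hN c nb m t).subset (pvnr_iK N hN c nb m t).subset⟩

theorem pvjh_pr_door (c0 : 0 < c) (hE : PvnaWf (pvxParOf N hN c) 𝔈) (hm : (pvxParOf N hN c).m0 ≤ m) (hπ : π ∈ pvxPatSet (pvxParOf N hN c) x R₀ m) (ε : ℝ) :
    pvieZi (pvxParOf N hN c) m π.p.zs π.p.ts = pvthZ (𝔈.kit m ε).δ (pvieZo (pvxParOf N hN c) m π.p.zt π.p.tt) (((pvxParOf N hN c).Γ m).dout π.p.tt) π.p.l π.p.l.length ∧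
      ((pvxParOf N hN c).Γ m).din π.p.ts = pvthD (((pvxParOf N hN c).Γ m).dout π.p.tt) π.p.l π.p.l.length := by
  obtain ⟨Cth, r, κs, H⟩ := hE.wf
  exact pvjh_pw_door (pvqh_lev (hN := hN) c0 hm).del hπ.1.1 (H.kit_del m ε)

/-- **`PvieSimple` on `pvxPatSet` at the engine of record** -/
theorem pvjh_pr_simple (c0 : 0 < c) (hE : PvnaWf (pvxParOf N hN c) 𝔈) (hR : PvnaRec N hN c 𝔈) (hm : (pvxParOf N hN c).m0 ≤ m) (hπ : π ∈ pvxPatSet (pvxParOf N hN c) x R₀ m) (ε : ℝ) :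
    PvieSimple (pvxParOf N hN c) 𝔈 m ε π.p := by
  obtain ⟨Cth, r, κs, H⟩ := hE.wf
  have hL := pvqh_lev (hN := hN) c0 hm
  exact pvzu_simple_pat_end (pvxo_wf N hN c).toWfB hL.del hL.doors (H.kit_ref m ε) (H.kit_del m ε) (pvjh_pr_ends c0 hE hR hm ε).1 (pvjh_pr_ends c0 hE hR hm ε).2 hπ

/-- the same in the words of 218 -/
theorem pvjh_pr_ksimple (c0 : 0 < c) (hE : PvnaWf (pvxParOf N hN c) 𝔈) (hR : PvnaRec N hN c 𝔈) (hm : (pvxParOf N hN c).m0 ≤ m) (hπ : π ∈ pvxPatSet (pvxParOf N hN c) x R₀ m) (ε : ℝ) :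
    PvkyiSimple (𝔈.kit m ε) (pvieZo (pvxParOf N hN c) m π.p.zt π.p.tt) (((pvxParOf N hN c).Γ m).dout π.p.tt) π.p.l (pvieSh π.p.zt (𝔈.oM m π.p.tt)) (pvieSh π.p.zs (𝔈.iM m π.p.ts))
      (pvieSh π.p.zt (𝔈.oK m π.p.tt)) (pvieSh π.p.zs (𝔈.iK m π.p.ts)) :=
  pvjh_pw_simple (pvjh_pr_door c0 hE hm hπ ε).1 (pvjh_pr_door c0 hE hm hπ ε).2 (pvjh_pr_simple c0 hE hR hm hπ ε)

/-- **the clearance of 148 at the engine of record** -/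
theorem pvjh_pr_clear (c0 : 0 < c) (hE : PvnaWf (pvxParOf N hN c) 𝔈) (hR : PvnaRec N hN c 𝔈) (hm : (pvxParOf N hN c).m0 ≤ m) (hπ : π ∈ pvxPatSet (pvxParOf N hN c) x R₀ m) (ε : ℝ) :
    ∀ S ∈ pvieTiles (pvxParOf N hN c) 𝔈 m ε π.p, Disjoint S (pvieSh π.p.zt (pviwBox (pvxParOf N hN c) m π.p.tt) ∩ pvtU (pvlmDel c m) (pvtN8 (↑π.Zs ∪ ↑π.Zt))) ∧
      Disjoint S (pvieSh π.p.zs (pviwBox (pvxParOf N hN c) m π.p.ts) ∩ pvtU (pvlmDel c m) (pvtN8 (↑π.Zs ∪ ↑π.Zt))) := by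
  obtain ⟨Cth, r, κs, H⟩ := hE.wf
  exact pvzu_clear_pat_end (pvxo_wf N hN c).toWfB (pvqh_lev (hN := hN) c0 hm) (H.kit_ref m ε) (H.kit_del m ε) (pvjh_pr_ends c0 hE hR hm ε).1 (pvjh_pr_ends c0 hE hR hm ε).2 hπ

/-- the own-level box with collar of one pin misses the mouth of the other pin -/
theorem pvjh_pr_far (c0 : 0 < c) (hE : PvnaWf (pvxParOf N hN c) 𝔈) (hm : (pvxParOf N hN c).m0 ≤ m) (hπ : π ∈ pvxPatSet (pvxParOf N hN c) x R₀ m) :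
    Disjoint (pvilBx (pvxParOf N hN c) m π.p.zt π.p.tt) (pvieSh π.p.zs (𝔈.iM m π.p.ts)) ∧ Disjoint (pvilBx (pvxParOf N hN c) m π.p.zs π.p.ts) (pvieSh π.p.zt (𝔈.oM m π.p.tt)) := by
  obtain ⟨Cth, r, κs, H⟩ := hE.wf
  have hL := pvqh_lev (hN := hN) c0 hm
  have sep := (pvzu_pat_ix hπ).sep
  exact ⟨pvjh_pw_far_o H hm (pvxo_wf N hN c).toWfB (pvqh_tyOk hN c _) (pvqh_tyOk hN c _) hL.fine sep, pvjh_pw_far_i H hm (pvxo_wf N hN c).toWfB (pvqh_tyOk hN c _) (pvqh_tyOk hN c _) hL.fine sep⟩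

/-- **THE FIRST LINK IS A WINDOW END OF THE EXPERIMENT OF THE CHAIN**, at the binders of record, base with the hull of the index, any weights -/
theorem pvjh_pr_o (c0 : 0 < c) (hE : PvnaWf (pvxParOf N hN c) 𝔈) (hR : PvnaRec N hN c 𝔈) (hm : (pvxParOf N hN c).m0 ≤ m) (hπ : π ∈ pvxPatSet (pvxParOf N hN c) x R₀ m)
    (hk : (𝔈.kit m ε).WF) (hZo : pvilZo (pvxParOf N hN c) m π.p.zt π.p.tt η = ↑π.Zt) (cnt : (cfSites η).Countable) {yf : Conf PvPt → Set ℂ} (hyf : yf η = pvilYfc (pvxParOf N hN c) 𝔈 m π.p η)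
    (w w' : ∀ η : Conf PvPt, (delbPl (pvieY η)).Dart → ℂ) :
    PvueWin η (pvkyiC (𝔈.kit m ε) (pvieZo (pvxParOf N hN c) m π.p.zt π.p.tt) (((pvxParOf N hN c).Γ m).dout π.p.tt) π.p.l (pvilEoAt (pvxParOf N hN c) 𝔈 m ε w π.p.zt π.p.tt η).K
        (pvilEiAt (pvxParOf N hN c) 𝔈 m ε w' π.p.zs π.p.ts η).K) yf (pvilEoAt (pvxParOf N hN c) 𝔈 m ε w π.p.zt π.p.tt η)
      (pvkyDoor (𝔈.kit m ε) (pvieZo (pvxParOf N hN c) m π.p.zt π.p.tt) (((pvxParOf N hN c).Γ m).dout π.p.tt)) (pvilWno (pvxParOf N hN c) 𝔈 m ε π.p.zt π.p.tt (pvilZo (pvxParOf N hN c) m π.p.zt π.p.tt η)) := by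
  obtain ⟨Cth, r, κs, H⟩ := hE.wf
  exact pvjh_pw_oAt H hk (pveg_dout4 (pvqh_lev (hN := hN) c0 hm) _) (pvjh_pr_door c0 hE hm hπ ε).1 (pvjh_pr_door c0 hE hm hπ ε).2 (pvjh_pr_simple c0 hE hR hm hπ ε)
    (fun S hS => (pvjh_pr_clear c0 hE hR hm hπ ε S hS).1) (by rw [hZo]; exact subset_union_right) (pvjh_pr_far c0 hE hm hπ).1 cnt hyf w w'

/-- **THE LAST LINK IS A WINDOW END OF THE EXPERIMENT OF THE CHAIN**, at the binders of record -/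
theorem pvjh_pr_i (c0 : 0 < c) (hE : PvnaWf (pvxParOf N hN c) 𝔈) (hR : PvnaRec N hN c 𝔈) (hm : (pvxParOf N hN c).m0 ≤ m) (hπ : π ∈ pvxPatSet (pvxParOf N hN c) x R₀ m)
    (hk : (𝔈.kit m ε).WF) (hZi : pvilZi (pvxParOf N hN c) m π.p.zs π.p.ts η = ↑π.Zs) (cnt : (cfSites η).Countable) {yf : Conf PvPt → Set ℂ} (hyf : yf η = pvilYfc (pvxParOf N hN c) 𝔈 m π.p η)
    (w w' : ∀ η : Conf PvPt, (delbPl (pvieY η)).Dart → ℂ) :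
    PvueWin η (pvkyiC (𝔈.kit m ε) (pvieZo (pvxParOf N hN c) m π.p.zt π.p.tt) (((pvxParOf N hN c).Γ m).dout π.p.tt) π.p.l (pvilEoAt (pvxParOf N hN c) 𝔈 m ε w π.p.zt π.p.tt η).K
        (pvilEiAt (pvxParOf N hN c) 𝔈 m ε w' π.p.zs π.p.ts η).K) yf (pvilEiAt (pvxParOf N hN c) 𝔈 m ε w' π.p.zs π.p.ts η)
      (pvkyDoor (𝔈.kit m ε) (pvthZ (𝔈.kit m ε).δ (pvieZo (pvxParOf N hN c) m π.p.zt π.p.tt) (((pvxParOf N hN c).Γ m).dout π.p.tt) π.p.l π.p.l.length) (pvthD (((pvxParOf N hN c).Γ m).dout π.p.tt) π.p.l π.p.l.length))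
      (pvilWni (pvxParOf N hN c) 𝔈 m ε π.p.zs π.p.ts (pvilZi (pvxParOf N hN c) m π.p.zs π.p.ts η)) := by
  obtain ⟨Cth, r, κs, H⟩ := hE.wf
  exact pvjh_pw_iAt H hk (pveg_dout4 (pvqh_lev (hN := hN) c0 hm) _) (pvjh_pr_door c0 hE hm hπ ε).1 (pvjh_pr_door c0 hE hm hπ ε).2 (pvjh_pr_simple c0 hE hR hm hπ ε)
    (fun S hS => (pvjh_pr_clear c0 hE hR hm hπ ε S hS).2) (by rw [hZi]; exact subset_union_left) (pvjh_pr_far c0 hE hm hπ).2 cnt hyf w w'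

/-- **`wo` OF `pvkyl_chain` (218, `Tr/ChainL`) AT THE BINDERS OF RECORD** -/
theorem pvjh_pr_oL (c0 : 0 < c) (hE : PvnaWf (pvxParOf N hN c) 𝔈) (hR : PvnaRec N hN c 𝔈) (hm : (pvxParOf N hN c).m0 ≤ m) (hπ : π ∈ pvxPatSet (pvxParOf N hN c) x R₀ m)
    (hk : (𝔈.kit m ε).WF) (hZo : pvilZo (pvxParOf N hN c) m π.p.zt π.p.tt η = ↑π.Zt) (cnt : (cfSites η).Countable) {yf : Conf PvPt → Set ℂ} (hyf : yf η = pvilYfc (pvxParOf N hN c) 𝔈 m π.p η)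
    (w : ∀ η : Conf PvPt, (delbPl (pvieY η)).Dart → ℂ) :
    PvueWin η (pvieCc (pvxParOf N hN c) 𝔈 m ε π.p) yf (pvilEoAt (pvxParOf N hN c) 𝔈 m ε w π.p.zt π.p.tt η)
      (pvieDoor 𝔈 m ε (pvieZo (pvxParOf N hN c) m π.p.zt π.p.tt) (((pvxParOf N hN c).Γ m).dout π.p.tt)) (pvilWno (pvxParOf N hN c) 𝔈 m ε π.p.zt π.p.tt (pvilZo (pvxParOf N hN c) m π.p.zt π.p.tt η)) := by
  obtain ⟨Cth, r, κs, H⟩ := hE.wf
  exact pvjh_pw_oL H hk (pveg_dout4 (pvqh_lev (hN := hN) c0 hm) _) (pvjh_pr_door c0 hE hm hπ ε).1 (pvjh_pr_door c0 hE hm hπ ε).2 (pvjh_pr_simple c0 hE hR hm hπ ε)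
    (fun S hS => (pvjh_pr_clear c0 hE hR hm hπ ε S hS).1) (by rw [hZo]; exact subset_union_right) (pvjh_pr_far c0 hE hm hπ).1 cnt hyf w

/-- **`wi` OF `pvkyl_chain` (218, `Tr/ChainL`) AT THE BINDERS OF RECORD** -/
theorem pvjh_pr_iL (c0 : 0 < c) (hE : PvnaWf (pvxParOf N hN c) 𝔈) (hR : PvnaRec N hN c 𝔈) (hm : (pvxParOf N hN c).m0 ≤ m) (hπ : π ∈ pvxPatSet (pvxParOf N hN c) x R₀ m)
    (hk : (𝔈.kit m ε).WF) (hZi : pvilZi (pvxParOf N hN c) m π.p.zs π.p.ts η = ↑π.Zs) (cnt : (cfSites η).Countable) {yf : Conf PvPt → Set ℂ} (hyf : yf η = pvilYfc (pvxParOf N hN c) 𝔈 m π.p η)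
    (w : ∀ η : Conf PvPt, (delbPl (pvieY η)).Dart → ℂ) :
    PvueWin η (pvieCc (pvxParOf N hN c) 𝔈 m ε π.p) yf (pvilEiAt (pvxParOf N hN c) 𝔈 m ε w π.p.zs π.p.ts η)
      (pvieDoor 𝔈 m ε (pvieZi (pvxParOf N hN c) m π.p.zs π.p.ts) (((pvxParOf N hN c).Γ m).din π.p.ts)) (pvilWni (pvxParOf N hN c) 𝔈 m ε π.p.zs π.p.ts (pvilZi (pvxParOf N hN c) m π.p.zs π.p.ts η)) := by
  obtain ⟨Cth, r, κs, H⟩ := hE.wf
  exact pvjh_pw_iL H hk (pveg_dout4 (pvqh_lev (hN := hN) c0 hm) _) (pvjh_pr_door c0 hE hm hπ ε).1 (pvjh_pr_door c0 hE hm hπ ε).2 (pvjh_pr_simple c0 hE hR hm hπ ε)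
    (fun S hS => (pvjh_pr_clear c0 hE hR hm hπ ε S hS).2) (by rw [hZi]; exact subset_union_left) (pvjh_pr_far c0 hE hm hπ).2 cnt hyf w

/-- **THE CHAIN RECORD OF 218 AT THE BINDERS OF RECORD**, at one base whose hulls are those of the index -/
theorem pvjh_pr_chain (c0 : 0 < c) (hE : PvnaWf (pvxParOf N hN c) 𝔈) (hR : PvnaRec N hN c 𝔈) (hm : (pvxParOf N hN c).m0 ≤ m) (hπ : π ∈ pvxPatSet (pvxParOf N hN c) x R₀ m)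
    (hZo : pvilZo (pvxParOf N hN c) m π.p.zt π.p.tt η = ↑π.Zt) (hZi : pvilZi (pvxParOf N hN c) m π.p.zs π.p.ts η = ↑π.Zs)
    (cnt : (cfSites η).Countable) {yf : Conf PvPt → Set ℂ} (hyf : yf η = pvilYfc (pvxParOf N hN c) 𝔈 m π.p η)
    {b : Bool} {β' q B qo qi : ℝ≥0∞} {r' : ℝ} (hk : PvcnOkQ (𝔈.kit m ε) ε (𝔈.XQ m ε) β' q B r') (qo0 : qo ≠ 0) (qo1 : qo ≤ 1) (qi0 : qi ≠ 0) (qi1 : qi ≤ 1)
    (go : PvkyiGd (𝔈.kit m ε) ε b (pvilEoAt (pvxParOf N hN c) 𝔈 m ε pvilQ π.p.zt π.p.tt η) (pvieZo (pvxParOf N hN c) m π.p.zt π.p.tt) (((pvxParOf N hN c).Γ m).dout π.p.tt) qo η)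
    (gi : PvkyiGd (𝔈.kit m ε) ε b (pvilEiAt (pvxParOf N hN c) 𝔈 m ε pvilQ π.p.zs π.p.ts η) (pvieZi (pvxParOf N hN c) m π.p.zs π.p.ts) (((pvxParOf N hN c).Γ m).din π.p.ts) qi η) :
    PvkyChain (𝔈.kit m ε) ε b (𝔈.XQ m ε) (pvieZo (pvxParOf N hN c) m π.p.zt π.p.tt) (((pvxParOf N hN c).Γ m).dout π.p.tt) π.p.l η (pvieCc (pvxParOf N hN c) 𝔈 m ε π.p) yf
      (pvilEoAt (pvxParOf N hN c) 𝔈 m ε pvilQ π.p.zt π.p.tt η) (pvilEiAt (pvxParOf N hN c) 𝔈 m ε pvilQ π.p.zs π.p.ts η)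
      (pvkyiFun (𝔈.kit m ε) ε b (pvieCc (pvxParOf N hN c) 𝔈 m ε π.p) yf η (pvilEoAt (pvxParOf N hN c) 𝔈 m ε pvilQ π.p.zt π.p.tt η) (pvieZo (pvxParOf N hN c) m π.p.zt π.p.tt) (((pvxParOf N hN c).Γ m).dout π.p.tt) qo)
      (pvkyiFun (𝔈.kit m ε) ε b (pvieCc (pvxParOf N hN c) 𝔈 m ε π.p) yf η (pvilEiAt (pvxParOf N hN c) 𝔈 m ε pvilQ π.p.zs π.p.ts η) (pvieZi (pvxParOf N hN c) m π.p.zs π.p.ts) (((pvxParOf N hN c).Γ m).din π.p.ts) qi)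
      β' q qo qi := by
  obtain ⟨Cth, r, κs, H⟩ := hE.wf
  exact pvjh_pw_chain_pat H hm (pvxo_wf N hN c).toWfB (pvqh_lev (hN := hN) c0 hm) (pvqh_tyOk hN c) (pvjh_pr_ends c0 hE hR hm ε).1 (pvjh_pr_ends c0 hE hR hm ε).2 hπ hZo hZi cnt hyf hk
    qo0 qo1 qi0 qi1 go gi

end pr

end Claimed.Agent.R289
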