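-- KEEP
import Claimed.Agent.R289.Tr.InstL
import Claimed.Agent.R289.Tr.LinkLocD
import Claimed.Agent.R289.Tr.AtUniq
import Claimed.Agent.R289.Tr.PlugClose

/-!
# Row 289 (S0537, Cardy for Poisson-Voronoi), THE WALL, ROAD E, file Tr/BlindL : PLAIN COLOUR BLINDNESS OF THE LINKS OF `Tr/InstL` v2.2      (helper197; asked by 141 id 89393, (CYL-W) of 234 id 87981; prefix `pvbw_`, `Pvbw`, `pvbw`)

DETERMINISTIC, ONE CONFIGURATION, 0 sorry.      `ζ ∈ L.A N b` (plain success of the link),  `ζ'` = `ζ` RECOLOURED OFF `pvbwRd L N b ζ` = (what its two ends read) `∪ L.Yin`   ⟹   `ζ' ∈ L.A N b`, the same value `L.X`, the same base data `pvilFzO pvilFzI pvilHuO pvilHuI`.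
WHAT AN END READS: a MARKED end (pin) = the frozen positions of its half state (`pvilFzO`, `pvilFzI`);   a DOOR end (kit plug `pvkdP r` at `(z,d)`) = `pvbwDk` = open disc `B(z, 2r)` `∪` placed tube.      NO HYPOTHESIS on a door end (`r`, `d` arbitrary); a marked end needs `fr ≠ 0`.
* sec. 1  MODEL FREE: a run reads the banks of the two stubs and the sites over `Yin` (`pvbw_run_it`, `pvbw_run`, `pvbw_link`);   the gate of record reads `KO ∪ KT` (**`pvbw_gt_congr`**: same circuit, same gate edges, SAME inner arc);   `pvbw_gate_one` (THE gate of `pvkdP r`, all `r z d`)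
* sec. 2  THE `(Y, s)`-FORMS (sites, colouring) of `PvilOut PvilIn PvilDoor PvilLk.AtP AtP' Arc val`: `PvbwOut PvbwIn PvbwDoor PvbwAtP PvbwAtP' PvbwArc pvbwVal`, dictionary by `Iff` / `rfl`
          (two configurations with the same sites have DIFFERENT types of states: everything is proved at fixed `Y`, then transported by `subst`)
* sec. 3  at fixed sites: congruence (`pvbw_out_congr pvbw_in_congr pvbw_door_congr pvbw_atP_congr pvbw_atP'_congr pvbw_arc_congr`), uniqueness (`pvbw_out_unique pvbw_in_unique pvbw_door_unique pvbw_atP_unique pvbw_val_unique`)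
* sec. 4  AT THE NAMES OF `Tr/InstL`: `pvbw_X` (`L.X = L.val` at ANY witness), `pvbw_X_off`;   half states **`pvbw_plain_out`, `pvbw_plain_in`**;   links **`pvbw_plain`**
* sec. 5  AT THE DATA OF RECORD: **`pvbw_Mo pvbw_Mi pvbw_Me pvbw_Mr`** (no hypothesis but the two configurations)
* sec. 6  THE FINER READING SET (158, 170: (POCKET)): `pvbwRn L N b ζ` = the vertices of THE run (`pvbw_Rn_eq`: at any witness), `pvbwRf = pvbwRo ∪ pvbwRi ∪ pvbwRn`;   **`pvbw_plain_f`**, **`pvbw_Mo_f pvbw_Mi_f pvbw_Me_f`** (sets read `pvbwSoF pvbwSiF pvbwSeF`): NOTHING is asked at the sites over `Yin` which the run does not visit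
-/

set_option autoImplicit false
set_option linter.unusedSectionVars false

namespace Claimed.Agent.R289

open Set Claims.C0465
open scoped ComplexConjugate

/-! ## 1. model free: what a run reads, what a gate of record reads -/

section core

variable {V D : Type} {T : PvMap V D} {pos : V → ℂ} {Yin : Set ℂ} {s s' : V → Bool}

/-- **a run reads the ends of its first `np` positions, of its last `nm` positions, and the sites over `Yin`** -/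
theorem pvbw_run_it {a b : D} {np nm n : ℕ} (ha : pvasBW T s a) (h : PvllRun T pos s Yin a b np nm n)
    (hP : ∀ i, i ≤ np → s' (T.src (pvasIt T s a i)) = s (T.src (pvasIt T s a i)) ∧ s' (T.tgt (pvasIt T s a i)) = s (T.tgt (pvasIt T s a i)))
    (hM : ∀ j, j ≤ nm → s' (T.src ((pvasBack T s)^[j] b)) = s (T.src ((pvasBack T s)^[j] b)) ∧ s' (T.tgt ((pvasBack T s)^[j] b)) = s (T.tgt ((pvasBack T s)^[j] b)))
    (hY : ∀ v, pos v ∈ Yin → s' v = s v) : ∀ i, i ≤ n → pvasIt T s' a i = pvasIt T s a i := by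
  have key : ∀ i, i ≤ n → s' (T.src (pvasIt T s a i)) = s (T.src (pvasIt T s a i)) ∧ s' (T.tgt (pvasIt T s a i)) = s (T.tgt (pvasIt T s a i)) := by
    intro i hi
    obtain ⟨h1, h2, -, h4⟩ := h
    by_cases c1 : i ≤ np
    · exact hP i c1
    by_cases c2 : i + nm < n
    · exact ⟨hY _ (h4 i (by omega) c2).1, hY _ (h4 i (by omega) c2).2⟩
    · have e : i = n - (n - i) := by omega
      rw [e, pvll_tail ha h2 (n - i) (by omega)]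
      exact hM _ (by omega)
  refine pvas_it_congr ?_
  rintro v (⟨i, hi, rfl⟩ | ⟨i, hi, rfl⟩)
  · exact (key i hi).1
  · exact (key i hi).2

/-- the run is kept -/
theorem pvbw_run {a b : D} {np nm n : ℕ} (h : PvllRun T pos s Yin a b np nm n) (e : ∀ i, i ≤ n → pvasIt T s' a i = pvasIt T s a i) : PvllRun T pos s' Yin a b np nm n := by
  obtain ⟨h1, h2, h3, h4⟩ := h
  refine ⟨h1, by rw [e n le_rfl]; exact h2, fun i hi => by rw [e i hi.le]; exact h3 i hi, fun i a1 a2 => ?_⟩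
  rw [e i (by omega)]
  exact h4 i a1 a2

/-- **what a run reads of its EXIT end**: `s'` has the colours of `s` at the ends of the positions of the stub -/
structure PvbwRP (T : PvMap V D) (s s' : V → Bool) (𝔖 : PvwSt T) : Prop where
  bw : pvasBW T s 𝔖.dp
  ag : ∀ i, i ≤ 𝔖.np → s' (T.src (pvasIt T s 𝔖.dp i)) = s (T.src (pvasIt T s 𝔖.dp i)) ∧ s' (T.tgt (pvasIt T s 𝔖.dp i)) = s (T.tgt (pvasIt T s 𝔖.dp i))

/-- **what a run reads of its ENTRANCE end** -/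
def PvbwRM (T : PvMap V D) (s s' : V → Bool) (𝔖 : PvwSt T) : Prop :=
  ∀ j, j ≤ 𝔖.nm → s' (T.src ((pvasBack T s)^[j] 𝔖.dm)) = s (T.src ((pvasBack T s)^[j] 𝔖.dm)) ∧ s' (T.tgt ((pvasBack T s)^[j] 𝔖.dm)) = s (T.tgt ((pvasBack T s)^[j] 𝔖.dm))

theorem pvbw_eqns_cite0 : True := by
  have := @PvbwRM.eq_1
  trivial

/-- **THE LINK BETWEEN TWO ENDS OF ANY KIND READS ITS TWO ENDS AND THE SITES OVER `Yin`** -/
theorem pvbw_link {𝔖 𝔖' : PvwSt T} {n : ℕ} (hp : PvbwRP T s s' 𝔖) (hm : PvbwRM T s s' 𝔖') (h : PvllRun T pos s Yin 𝔖.dp 𝔖'.dm 𝔖.np 𝔖'.nm n) (hY : ∀ v, pos v ∈ Yin → s' v = s v) :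
    PvllRun T pos s' Yin 𝔖.dp 𝔖'.dm 𝔖.np 𝔖'.nm n ∧ ∀ i, i ≤ n → pvasIt T s' 𝔖.dp i = pvasIt T s 𝔖.dp i :=
  have e := pvbw_run_it (s' := s') hp.bw h hp.ag hm hY
  ⟨pvbw_run h e, e⟩

/-- a marked exit end: the banks of the stub are frozen -/
theorem pvbw_rp_stub {𝔖 : PvwSt T} {posP : V → ℂ} {B : Set ℂ} (hb : pvasBW T s 𝔖.dp) (hp : 𝔖.StubP posP B s) (hO : PvwAgree 𝔖.fzOut s s') : PvbwRP T s s' 𝔖 :=
  ⟨hb, fun i hi => by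
    rw [← hp.ep_it i hi]
    exact ⟨(hO _ (pvwk_banksP_sub_fzOut 𝔖 (Or.inl ⟨i, hi, rfl⟩))).symm, (hO _ (pvwk_banksP_sub_fzOut 𝔖 (Or.inr ⟨i, hi, rfl⟩))).symm⟩⟩

/-- a marked entrance end -/
theorem pvbw_rm_stub {𝔖 : PvwSt T} {posM : V → ℂ} {B : Set ℂ} (hm : 𝔖.StubM posM B s) (hI : PvwAgree 𝔖.fzIn s s') : PvbwRM T s s' 𝔖 := fun j hj => by
  rw [← hm.em_it j hj]
  exact ⟨(hI _ (pvwk_banksM_sub_fzIn 𝔖 (Or.inl ⟨j, hj, rfl⟩))).symm, (hI _ (pvwk_banksM_sub_fzIn 𝔖 (Or.inr ⟨j, hj, rfl⟩))).symm⟩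

/-! ### the gate of record -/

theorem pvbw_step_congr {a : D} (h : s' (T.apex a) = s (T.apex a)) : pvasStep T s' a = pvasStep T s a := by
  unfold pvasStep
  rw [h]

/-- the apex of a position before `N` lies in the layers of the positions `0..N` -/
theorem pvbw_apex_lay (a : D) {i N : ℕ} (hi : i < N) : T.apex (pvasIt T s a i) ∈ pvasLayB T s a N ∨ T.apex (pvasIt T s a i) ∈ pvasLayW T s a N := by
  rcases pvas_step_ends s (pvasIt T s a i) with ⟨-, e, -⟩ | ⟨-, -, e⟩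
  · exact Or.inl ⟨i + 1, hi, by rw [pvas_it_succ]; exact e⟩
  · exact Or.inr ⟨i + 1, hi, by rw [pvas_it_succ]; exact e⟩

/-- the bank walk reads the apices of its positions -/
theorem pvbw_bank_congr : ∀ (m : ℕ) (a : D), (∀ i, i < m → s' (T.apex (pvasIt T s a i)) = s (T.apex (pvasIt T s a i))) → pvtBank T s' a m = pvtBank T s a m
  | 0, _, _ => rfl
  | m + 1, a, h => by
    have h0 : s' (T.apex a) = s (T.apex a) := h 0 (Nat.succ_pos m)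
    have ih := pvbw_bank_congr m (pvasStep T s a) fun i hi => by
      have := h (i + 1) (by omega)
      rwa [pvas_it_succ'] at this
    simp only [pvtBank]
    rw [pvbw_step_congr h0, h0, ih]

/-- **the arc of a piece of strand reads the layers of its positions** -/
theorem pvbw_arc_eq [DecidableEq V] {a : D} {N : ℕ} (h : ∀ v, v ∈ pvasLayB T s a N ∨ v ∈ pvasLayW T s a N → s' v = s v) : pvtArc T s' a N = pvtArc T s a N := by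
  have hb : pvtBank T s' a N = pvtBank T s a N := pvbw_bank_congr N a fun i hi => h _ (pvbw_apex_lay a hi)
  have hi : pvasIt T s' a N = pvasIt T s a N := pvas_it_congr h N le_rfl
  unfold pvtArc
  simp only [hb, hi]

variable {κ : Type} {mk : V → κ}

/-- **THE GATE OF RECORD READS THE SITES MARKED `KO ∪ KT`**: same circuit, same exit index, same time, SAME inner arc -/
theorem pvbw_gt_congr [DecidableEq V] (hT : T.IsSph) {p : PvzlPg κ} {g : T.Gate s} (hg : PvzlGt T mk s p g) (hs : ∀ v, mk v ∈ p.KO ∪ p.KT → s' v = s v) :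
    ∃ g' : T.Gate s', PvzlGt T mk s' p g' ∧ g'.c = g.c ∧ g'.aOut = g.aOut ∧ g'.aIn = g.aIn ∧ pvtArc T s' g'.aIn g'.len = pvtArc T s g.aIn g.len := by
  obtain ⟨N, hN⟩ := hg.thru
  have hrim : ∀ k, s' (T.src (g.c.e k)) = s (T.src (g.c.e k)) := fun k => hs _ (Or.inl (hg.least.reg.rim k))
  have hlay : ∀ v, v ∈ pvasLayB T s g.aIn N ∨ v ∈ pvasLayW T s g.aIn N → s' v = s v := by
    intro v hv
    refine hs v (Or.inr (hN.2.2.2.2 ?_))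
    rw [pvas_fc_verts s g.aIn hN.1]
    exact hv
  have hit := pvas_it_congr hlay
  let g' : T.Gate s' := ⟨g.c, g.m, g.hm, g.hmn, fun i hi => by rw [hrim]; exact g.col i hi⟩
  have hN' : PvzlThru T mk s' p.KT g' N := by
    refine ⟨hN.1, (hit N le_rfl).trans hN.2.1, fun i hi => ?_, fun i hi => ?_, ?_⟩
    · exact (hit i hi.le).symm ▸ hN.2.2.1 i hi
    · exact (hit i hi.le).symm ▸ hN.2.2.2.1 i hi
    · rw [pvas_fc_verts s' _ hN.1]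
      have hsub := hN.2.2.2.2
      rw [pvas_fc_verts s g.aIn hN.1] at hsub
      rintro v (⟨i, hi, rfl⟩ | ⟨i, hi, rfl⟩)
      · exact hsub (Or.inl ⟨i, hi, congrArg T.src (hit i hi).symm⟩)
      · exact hsub (Or.inr ⟨i, hi, congrArg T.tgt (hit i hi).symm⟩)
  have hg' : PvzlGt T mk s' p g' :=
    ⟨⟨hg.least.reg, fun g₂ h₂ => hg.least.least ⟨g₂.c, g₂.m, g₂.hm, g₂.hmn, fun i hi => by rw [← hs _ (Or.inl (h₂.rim i))]; exact g₂.col i hi⟩ h₂⟩, hg.vm, hg.vp, N, hN'⟩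
  refine ⟨g', hg', rfl, rfl, rfl, ?_⟩
  rw [(hN'.len hT).1, (hN.len hT).1]
  exact pvbw_arc_eq hlay

/-- **THE GATE OF RECORD OF THE PLUG `pvkdP r` IS ONE OBJECT**: all `r`, all frames -/
theorem pvbw_gate_one (hT : T.IsSph) {mk : V → ℂ} (hmk : Function.Injective mk) {r : ℝ} {z d : ℂ} {g g₂ : T.Gate s}
    (h : PvzlGt T mk s ((pvkdP r).pg z d) g) (h₂ : PvzlGt T mk s ((pvkdP r).pg z d) g₂) : g = g₂ := by
  by_cases hd : d = 0 ∨ r ≤ 0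
  · exfalso
    obtain ⟨u, hu, e1⟩ := h.vm
    obtain ⟨u', hu', e2⟩ := h.vp
    have e0 : d * u = d * u' := by
      rcases hd with rfl | hr
      · rw [zero_mul, zero_mul]
      · have a1 : -(2 * r) ≤ u.re := hu.1
        have a2 : u.re ≤ -(r / 2) := hu.2.1
        have a3 : -(r / 2) ≤ u.im := hu.2.2.1
        have a4 : u.im ≤ r / 2 := hu.2.2.2
        have b1 : r / 2 ≤ u'.re := hu'.1
        have b2 : u'.re ≤ 2 * r := hu'.2.1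
        have b3 : -(r / 2) ≤ u'.im := hu'.2.2.1
        have b4 : u'.im ≤ r / 2 := hu'.2.2.2
        have : u = u' := Complex.ext (by linarith) (by linarith)
        rw [this]
    have e3 : g.vm = g.vp := by
      apply hmk
      rw [← e1, ← e2]
      unfold pvthSim
      rw [e0]
    have := g.c.inj 0 g.m (pl_cyc_pos g.c) (by have := g.hmn; omega) e3
    have := g.hm
    omega
  · push Not at hd
    have hD : Disjoint ((pvkdP r).pg z d).Km ((pvkdP r).pg z d).Kp := by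
      refine Set.disjoint_left.2 ?_
      rintro _ ⟨u, hu, rfl⟩ ⟨u', hu', e⟩
      have e' : u' = u := by
        unfold pvthSim at e
        exact mul_left_cancel₀ hd.1 (add_left_cancel e)
      have a2 : u.re ≤ -(r / 2) := hu.2.1
      have b1 : r / 2 ≤ u'.re := hu'.1
      rw [e'] at b1
      linarith [hd.2]
    obtain ⟨he, hn, hm⟩ := PvzlGt.unique hT hD h h₂
    exact pvkx_gate_ext he hn hm

end core

/-! ## 2. the `(Y, s)`-forms -/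

/-- the plane map of a set of sites      (`pvieT η = pvbwT (cfSites η)` by `rfl`) -/
noncomputable abbrev pvbwT (Y : Set ℂ) : PvMap ↥Y (delbPl Y).Dart := (delbPl Y).toMap

/-- the colouring seen by a rim of colour `b`      (`pvieCol η b = pvbwC (cfSites η) (cfCol η) b` by `rfl`) -/
def pvbwC (Y : Set ℂ) (σ : ℂ → Bool) (b : Bool) : ↥Y → Bool := fun v => σ v.1 == b

/-- the positions in the frame of the plug -/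
noncomputable def pvbwPos (p : PvilPl) (Y : Set ℂ) : ↥Y → ℂ := fun v => conj p.fr * v.1

/-- `PvilOut` in `(Y, s)`-form -/
structure PvbwOut (N : PvwNum) (p : PvilPl) (Y : Set ℂ) (s : ↥Y → Bool) (𝔖 : PvwSt (pvbwT Y)) : Prop where
  good : DelGood Y
  st : 𝔖.AtOut (pvbwPos p Y) N p.h p.zf p.ty s
  tip : (((pvbwT Y).src (𝔖.ep 𝔖.np) : ↥Y) : ℂ) ∈ p.cp
  mask : ∀ y : (pvbwT Y).Pth, PvwLE (pvbwT Y) (fun i => (pvbwT Y).src (𝔖.ep i)) 𝔖.np y → ∀ v ∈ y.verts, (v : ℂ) ∈ p.Mp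
  mask_i : ∀ i, 𝔖.ip ≤ i → i ≤ 𝔖.inn.n → (N.m - 1) * p.h < ‖((𝔖.inn.v i : ↥Y) : ℂ) - p.z‖ → ((𝔖.inn.v i : ↥Y) : ℂ) ∈ p.Mp
  lev0 : p.lev

/-- `PvilIn` in `(Y, s)`-form -/
structure PvbwIn (N : PvwNum) (p : PvilPl) (Y : Set ℂ) (s : ↥Y → Bool) (𝔖 : PvwSt (pvbwT Y)) : Prop where
  good : DelGood Y
  st : 𝔖.AtIn (pvbwPos p Y) N p.h p.zf p.ty s
  tip : (((pvbwT Y).src (𝔖.em 𝔖.nm) : ↥Y) : ℂ) ∈ p.cm
  mask : ∀ y : (pvbwT Y).Pth, PvwLE (pvbwT Y) (fun i => (pvbwT Y).src (𝔖.em i)) 𝔖.nm y → ∀ v ∈ y.verts, (v : ℂ) ∈ p.Mm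
  mask_i : ∀ i, i ≤ 𝔖.ip → (N.m - 1) * p.h < ‖((𝔖.inn.v i : ↥Y) : ℂ) - p.z‖ → ((𝔖.inn.v i : ↥Y) : ℂ) ∈ p.Mm
  lev0 : p.lev

/-- `pvilStS` in `(Y, s)`-form -/
noncomputable def pvbwSt (𝔭 : PvkdPlug) (Y : Set ℂ) (s : ↥Y → Bool) (z : ℂ) (g : (pvbwT Y).Gate s) : PvwSt (pvbwT Y) where
  dsc := {v | ‖(v : ℂ) - z‖ < 𝔭.b}
  S := g.c
  dp := g.aOut
  dm := g.aIn
  inn := pvtArc (pvbwT Y) s g.aIn g.len
  ip := 0
  np := 0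
  ep := fun _ => g.aOut
  nm := 0
  em := fun _ => g.aIn

/-- `PvilDoorS` in `(Y, s)`-form -/
def PvbwDoor (𝔭 : PvkdPlug) (Y : Set ℂ) (s : ↥Y → Bool) (z d : ℂ) (𝔖 : PvwSt (pvbwT Y)) : Prop :=
  (PvatNice Y ∧ PvtrMesh 𝔭.ρ (pvkdAt z d 𝔭.Ew) Y) ∧ ∃ g : (pvbwT Y).Gate s, PvzlGt (pvbwT Y) Subtype.val s (𝔭.pg z d) g ∧ 𝔖 = pvbwSt 𝔭 Y s z g

/-- `PvilLk.AtP` in `(Y, s)`-form -/
def PvbwAtP (L : PvilLk) (N : PvwNum) (Y : Set ℂ) (s : ↥Y → Bool) (𝔖 : PvwSt (pvbwT Y)) : Prop :=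
  if L.dr then PvbwDoor (pvkdP L.p.h) Y s L.p.z L.p.fr 𝔖 else PvbwOut N L.p Y s 𝔖

/-- `PvilLk.AtP'` in `(Y, s)`-form -/
def PvbwAtP' (L : PvilLk) (N : PvwNum) (Y : Set ℂ) (s : ↥Y → Bool) (𝔖 : PvwSt (pvbwT Y)) : Prop :=
  if L.dr' then PvbwDoor (pvkdP L.p'.h) Y s L.p'.z L.p'.fr 𝔖 else PvbwIn N L.p' Y s 𝔖

/-- `PvilLk.Arc` in `(Y, s)`-form -/
structure PvbwArc (L : PvilLk) (N : PvwNum) (Y : Set ℂ) (s : ↥Y → Bool) (𝔖 𝔖' : PvwSt (pvbwT Y)) (y : (pvbwT Y).Pth) : Prop where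
  at_p : PvbwAtP L N Y s 𝔖
  at_p' : PvbwAtP' L N Y s 𝔖'
  run : ∃ n, PvllRun (pvbwT Y) Subtype.val s L.Yin 𝔖.dp 𝔖'.dm 𝔖.np 𝔖'.nm n ∧ PvwLE (pvbwT Y) (fun i => (pvbwT Y).src (pvasIt (pvbwT Y) s 𝔖.dp i)) n y

/-- `PvilLk.val` in `Y`-form      (`pvllV` of 74) -/
noncomputable def pvbwVal (L : PvilLk) (N : PvwNum) (Y : Set ℂ) (w : (delbPl Y).Dart → ℂ) (𝔖 𝔖' : PvwSt (pvbwT Y)) (y : (pvbwT Y).Pth) : ℂ :=
  pvllV L.dr L.dr' (L.ball N) (L.msk N) (pvbwT Y) Subtype.val w 𝔖 𝔖' y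

/-- **WHAT A DOOR END READS**: the open disc of the gate and the placed tube of the kit plug `pvkdP p.h` at `(p.z, p.fr)` -/
def pvbwDk (p : PvilPl) : Set ℂ := Metric.ball p.z (pvkdP p.h).b ∪ pvkdAt p.z p.fr (pvkdP p.h).Tb

theorem pvbw_eqns_cite : True := by
  have := @pvbwC.eq_1; have := @pvbwPos.eq_1; have := @pvbwSt.eq_1; have := @PvbwDoor.eq_1; have := @PvbwAtP.eq_1; have := @PvbwAtP'.eq_1; have := @pvbwVal.eq_1; have := @pvbwDk.eq_1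
  trivial

section dict

variable {N : PvwNum} {b : Bool} {p : PvilPl} {L : PvilLk} {η : Conf PvPt}

theorem pvbw_out_iff (𝔖 : PvwSt (pvieT η)) : PvilOut N b p η 𝔖 ↔ PvbwOut N p (cfSites η) (pvbwC (cfSites η) (cfCol η) b) 𝔖 :=
  ⟨fun h => ⟨h.good, h.st, h.tip, h.mask, h.mask_i, h.lev0⟩, fun h => ⟨h.good, h.st, h.tip, h.mask, h.mask_i, h.lev0⟩⟩

theorem pvbw_in_iff (𝔖 : PvwSt (pvieT η)) : PvilIn N b p η 𝔖 ↔ PvbwIn N p (cfSites η) (pvbwC (cfSites η) (cfCol η) b) 𝔖 :=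
  ⟨fun h => ⟨h.good, h.st, h.tip, h.mask, h.mask_i, h.lev0⟩, fun h => ⟨h.good, h.st, h.tip, h.mask, h.mask_i, h.lev0⟩⟩

theorem pvbw_door_iff (𝔭 : PvkdPlug) (z d : ℂ) (𝔖 : PvwSt (pvieT η)) : PvilDoor 𝔭 b η z d 𝔖 ↔ PvbwDoor 𝔭 (cfSites η) (pvbwC (cfSites η) (cfCol η) b) z d 𝔖 := Iff.rfl

theorem pvbw_atP_iff (𝔖 : PvwSt (pvieT η)) : L.AtP N b η 𝔖 ↔ PvbwAtP L N (cfSites η) (pvbwC (cfSites η) (cfCol η) b) 𝔖 := by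
  unfold PvilLk.AtP PvbwAtP
  split_ifs
  · exact Iff.rfl
  · exact pvbw_out_iff 𝔖

theorem pvbw_atP'_iff (𝔖 : PvwSt (pvieT η)) : L.AtP' N b η 𝔖 ↔ PvbwAtP' L N (cfSites η) (pvbwC (cfSites η) (cfCol η) b) 𝔖 := by
  unfold PvilLk.AtP' PvbwAtP'
  split_ifs
  · exact Iff.rfl
  · exact pvbw_in_iff 𝔖

theorem pvbw_arc_iff (𝔖 𝔖' : PvwSt (pvieT η)) (y : (pvieT η).Pth) : L.Arc N b η 𝔖 𝔖' y ↔ PvbwArc L N (cfSites η) (pvbwC (cfSites η) (cfCol η) b) 𝔖 𝔖' y :=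
  ⟨fun h => ⟨(pvbw_atP_iff 𝔖).1 h.at_p, (pvbw_atP'_iff 𝔖').1 h.at_p', h.run⟩, fun h => ⟨(pvbw_atP_iff 𝔖).2 h.at_p, (pvbw_atP'_iff 𝔖').2 h.at_p', h.run⟩⟩

theorem pvbw_val_eq (w : (delbPl (pvieY η)).Dart → ℂ) (𝔖 𝔖' : PvwSt (pvieT η)) (y : (pvieT η).Pth) : L.val N η w 𝔖 𝔖' y = pvbwVal L N (cfSites η) w 𝔖 𝔖' y := rfl

end dict

/-! ## 3. at fixed sites: congruence, uniqueness -/

section fixed

variable {N : PvwNum} {p : PvilPl} {L : PvilLk} {Y : Set ℂ} {s s' : ↥Y → Bool} {𝔖 𝔖' 𝔖₁ 𝔖₁' : PvwSt (pvbwT Y)} {y y₁ : (pvbwT Y).Pth}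

theorem pvbw_pos_inj (hfr : p.fr ≠ 0) : Function.Injective (pvbwPos p Y) := fun u v h =>
  Subtype.ext (mul_left_cancel₀ (by simpa using hfr) h)

/-- **(cyl)** the exit half state is read on its frozen set -/
theorem pvbw_out_congr (h : PvbwOut N p Y s 𝔖) (hs : PvwAgree 𝔖.fzOut s s') : PvbwOut N p Y s' 𝔖 :=
  ⟨h.good, pvwk_atOut_congr (delb_plane_isSph h.good) h.st hs, h.tip, h.mask, h.mask_i, h.lev0⟩

/-- **(cyl)** the entrance half state is read on its frozen set -/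
theorem pvbw_in_congr (h : PvbwIn N p Y s 𝔖) (hs : PvwAgree 𝔖.fzIn s s') : PvbwIn N p Y s' 𝔖 :=
  ⟨h.good, pvwk_atIn_congr (delb_plane_isSph h.good) h.st hs, h.tip, h.mask, h.mask_i, h.lev0⟩

/-- **(cyl)** the state of a kit plug is read on the disc of its gate and on its tube: THE SAME STATE -/
theorem pvbw_door_congr {𝔭 : PvkdPlug} {z d : ℂ} (h : PvbwDoor 𝔭 Y s z d 𝔖) (hs : ∀ v : ↥Y, (v : ℂ) ∈ Metric.ball z 𝔭.b ∪ pvkdAt z d 𝔭.Tb → s' v = s v) : PvbwDoor 𝔭 Y s' z d 𝔖 := by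
  obtain ⟨hN, g, hg, rfl⟩ := h
  obtain ⟨g', hg', e1, e2, e3, e4⟩ := pvbw_gt_congr (delb_plane_isSph hN.1.good) hg hs
  refine ⟨hN, g', hg', ?_⟩
  unfold pvbwSt
  rw [e1, e2, e4, e3]

theorem pvbw_out_unique (hfr : p.fr ≠ 0) (h : PvbwOut N p Y s 𝔖) (h₁ : PvbwOut N p Y s 𝔖₁) : PvuqG 𝔖 𝔖₁ ∧ PvuqP 𝔖 𝔖₁ :=
  pvuq_atOut (delb_plane_isSph h.good) (pvgy_m_simple Y) (pvbw_pos_inj hfr) h.st h₁.st

theorem pvbw_in_unique (hfr : p.fr ≠ 0) (h : PvbwIn N p Y s 𝔖) (h₁ : PvbwIn N p Y s 𝔖₁) : PvuqG 𝔖 𝔖₁ ∧ PvuqM 𝔖 𝔖₁ :=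
  pvuq_atIn (delb_plane_isSph h.good) (pvgy_m_simple Y) (pvbw_pos_inj hfr) h.st h₁.st

/-- **THE state of the kit plug `pvkdP r`**: one object, all `r z d` -/
theorem pvbw_door_unique {r : ℝ} {z d : ℂ} (h : PvbwDoor (pvkdP r) Y s z d 𝔖) (h₁ : PvbwDoor (pvkdP r) Y s z d 𝔖₁) : 𝔖 = 𝔖₁ := by
  obtain ⟨hN, g, hg, rfl⟩ := h
  obtain ⟨-, g₁, hg₁, rfl⟩ := h₁
  rw [pvbw_gate_one (delb_plane_isSph hN.1.good) Subtype.val_injective hg hg₁]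

theorem pvbw_eq_refl {V D : Type} {T : PvMap V D} (𝔖 : PvwSt T) : PvllEq 𝔖 𝔖 := ⟨rfl, rfl, rfl, fun _ _ => rfl, rfl⟩

/-- what the exit end of `L` reads, `(Y, s)`-form -/
def pvbwFzO (N : PvwNum) (p : PvilPl) (Y : Set ℂ) (s : ↥Y → Bool) : Set ℂ := {v | ∃ 𝔖 : PvwSt (pvbwT Y), PvbwOut N p Y s 𝔖 ∧ ∃ u ∈ 𝔖.fzOut, (u : ℂ) = v}
def pvbwFzI (N : PvwNum) (p : PvilPl) (Y : Set ℂ) (s : ↥Y → Bool) : Set ℂ := {v | ∃ 𝔖 : PvwSt (pvbwT Y), PvbwIn N p Y s 𝔖 ∧ ∃ u ∈ 𝔖.fzIn, (u : ℂ) = v}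
/-- **what the exit end of `L` reads** -/
def pvbwRdP (L : PvilLk) (N : PvwNum) (Y : Set ℂ) (s : ↥Y → Bool) : Set ℂ := if L.dr then pvbwDk L.p else pvbwFzO N L.p Y s
/-- **what the entrance end of `L` reads** -/
def pvbwRdM (L : PvilLk) (N : PvwNum) (Y : Set ℂ) (s : ↥Y → Bool) : Set ℂ := if L.dr' then pvbwDk L.p' else pvbwFzI N L.p' Y s

/-- **the exit end of a link is read on `pvbwRdP`**: the same state, and the run does not see the change -/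
theorem pvbw_atP_congr (h : PvbwAtP L N Y s 𝔖) (hs : ∀ v : ↥Y, (v : ℂ) ∈ pvbwRdP L N Y s → s' v = s v) : PvbwAtP L N Y s' 𝔖 ∧ PvbwRP (pvbwT Y) s s' 𝔖 := by
  unfold PvbwAtP at h ⊢
  unfold pvbwRdP at hs
  split_ifs at h hs ⊢
  · refine ⟨pvbw_door_congr h hs, ?_⟩
    obtain ⟨-, g, hg, rfl⟩ := h
    refine ⟨pvtg_aOut_bw g, fun i hi => ?_⟩
    obtain rfl : i = 0 := Nat.le_zero.1 hi
    refine ⟨hs _ (Or.inl ?_), hs _ (Or.inl ?_)⟩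
    · show (((pvbwT Y).src g.aOut : ↥Y) : ℂ) ∈ _
      rw [pvtg_aOut_src]
      exact hg.least.reg.rim g.m
    · show (((pvbwT Y).tgt g.aOut : ↥Y) : ℂ) ∈ _
      rw [pvtg_aOut_tgt]
      exact hg.least.reg.rim _
  · have hO : PvwAgree 𝔖.fzOut s s' := fun v hv => (hs v ⟨𝔖, h, v, hv, rfl⟩).symm
    exact ⟨pvbw_out_congr h hO, pvbw_rp_stub h.st.gate.bw_p h.st.stub hO⟩

/-- **the entrance end of a link is read on `pvbwRdM`** -/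
theorem pvbw_atP'_congr (h : PvbwAtP' L N Y s 𝔖) (hs : ∀ v : ↥Y, (v : ℂ) ∈ pvbwRdM L N Y s → s' v = s v) : PvbwAtP' L N Y s' 𝔖 ∧ PvbwRM (pvbwT Y) s s' 𝔖 := by
  unfold PvbwAtP' at h ⊢
  unfold pvbwRdM at hs
  split_ifs at h hs ⊢
  · refine ⟨pvbw_door_congr h hs, ?_⟩
    obtain ⟨-, g, hg, rfl⟩ := h
    intro j hj
    obtain rfl : j = 0 := Nat.le_zero.1 hj
    refine ⟨hs _ (Or.inl ?_), hs _ (Or.inl ?_)⟩
    · exact hg.least.reg.rim 0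
    · show (((pvbwT Y).tgt g.aIn : ↥Y) : ℂ) ∈ _
      rw [pvtg_aIn_tgt]
      exact hg.least.reg.rim _
  · have hI : PvwAgree 𝔖.fzIn s s' := fun v hv => (hs v ⟨𝔖, h, v, hv, rfl⟩).symm
    exact ⟨pvbw_in_congr h hI, pvbw_rm_stub h.st.stub hI⟩

theorem pvbw_atP_unique (hfr : L.dr = false → L.p.fr ≠ 0) (h : PvbwAtP L N Y s 𝔖) (h₁ : PvbwAtP L N Y s 𝔖₁) : PvllEq 𝔖 𝔖₁ := by
  unfold PvbwAtP at h h₁
  split_ifs at h h₁ with c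
  · rw [pvbw_door_unique h h₁]
    exact pvbw_eq_refl _
  · exact pvll_eq_of_uq (pvbw_out_unique (hfr (by simpa using c)) h h₁).1

theorem pvbw_atP'_unique (hfr' : L.dr' = false → L.p'.fr ≠ 0) (h : PvbwAtP' L N Y s 𝔖) (h₁ : PvbwAtP' L N Y s 𝔖₁) : PvllEq 𝔖 𝔖₁ := by
  unfold PvbwAtP' at h h₁
  split_ifs at h h₁ with c
  · rw [pvbw_door_unique h h₁]
    exact pvbw_eq_refl _
  · exact pvll_eq_of_uq (pvbw_in_unique (hfr' (by simpa using c)) h h₁).1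

theorem pvbw_atP'_ip (h : PvbwAtP' L N Y s 𝔖) : 𝔖.ip ≤ 𝔖.inn.n := by
  unfold PvbwAtP' at h
  split_ifs at h
  · obtain ⟨-, g, -, rfl⟩ := h
    exact Nat.zero_le _
  · exact h.st.gate.ip_le

/-- **THE SUCCESS OF A LINK IS READ ON (its two ends) `∪` (sites over `Yin`)**: the same witnesses -/
theorem pvbw_arc_congr (h : PvbwArc L N Y s 𝔖 𝔖' y) (hs : ∀ v : ↥Y, (v : ℂ) ∈ pvbwRdP L N Y s ∪ pvbwRdM L N Y s ∪ L.Yin → s' v = s v) : PvbwArc L N Y s' 𝔖 𝔖' y := by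
  obtain ⟨n, r, l⟩ := h.run
  obtain ⟨a1, a2⟩ := pvbw_atP_congr h.at_p fun v hv => hs v (Or.inl (Or.inl hv))
  obtain ⟨b1, b2⟩ := pvbw_atP'_congr h.at_p' fun v hv => hs v (Or.inl (Or.inr hv))
  obtain ⟨r', e⟩ := pvbw_link a2 b2 r fun v hv => hs v (Or.inr hv)
  exact ⟨a1, b1, n, r', pvwk_le_congr (fun i hi => by rw [e i hi]) l⟩

/-- **the value of a link is the same at all witnesses** -/
theorem pvbw_val_unique (hfr : L.dr = false → L.p.fr ≠ 0) (hfr' : L.dr' = false → L.p'.fr ≠ 0) (h : PvbwArc L N Y s 𝔖 𝔖' y) (h₁ : PvbwArc L N Y s 𝔖₁ 𝔖₁' y₁) (w : (delbPl Y).Dart → ℂ) :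
    pvbwVal L N Y w 𝔖 𝔖' y = pvbwVal L N Y w 𝔖₁ 𝔖₁' y₁ := by
  obtain ⟨n, r1, l1⟩ := h.run
  obtain ⟨n₁, r2, l2⟩ := h₁.run
  exact pvll_v_unique (pvgy_m_simple Y) (pvbw_atP_unique hfr h.at_p h₁.at_p) (pvbw_atP'_unique hfr' h.at_p' h₁.at_p') (pvbw_atP'_ip h.at_p') ⟨r1, l1⟩ ⟨r2, l2⟩ _ _ _ _ w

/-- the half state exists -/
def PvbwUo (N : PvwNum) (p : PvilPl) (Y : Set ℂ) (s : ↥Y → Bool) : Prop := ∃ 𝔖 : PvwSt (pvbwT Y), PvbwOut N p Y s 𝔖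
def PvbwUi (N : PvwNum) (p : PvilPl) (Y : Set ℂ) (s : ↥Y → Bool) : Prop := ∃ 𝔖 : PvwSt (pvbwT Y), PvbwIn N p Y s 𝔖
/-- the link succeeds -/
def PvbwA (L : PvilLk) (N : PvwNum) (Y : Set ℂ) (s : ↥Y → Bool) : Prop := ∃ (𝔖 𝔖' : PvwSt (pvbwT Y)) (y : (pvbwT Y).Pth), PvbwArc L N Y s 𝔖 𝔖' y
/-- `pvilHuO` in `(Y, s)`-form -/
def pvbwHuO (δ r : ℝ) (N : PvwNum) (p : PvilPl) (Y : Set ℂ) (s : ↥Y → Bool) : Set (ℤ × ℤ) :=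
  {q | ∃ 𝔖 : PvwSt (pvbwT Y), PvbwOut N p Y s 𝔖 ∧ q ∈ pvtCells δ (Subtype.val '' 𝔖.fzOut ∪ Metric.closedBall (p.ty.cp p.h p.z) r)}
def pvbwHuI (δ r : ℝ) (N : PvwNum) (p : PvilPl) (Y : Set ℂ) (s : ↥Y → Bool) : Set (ℤ × ℤ) :=
  {q | ∃ 𝔖 : PvwSt (pvbwT Y), PvbwIn N p Y s 𝔖 ∧ q ∈ pvtCells δ (Subtype.val '' 𝔖.fzIn ∪ Metric.closedBall (p.ty.cm p.h p.z) r)}

theorem pvbw_eqns_cite2 : True := by
  have := @PvbwUo.eq_1; have := @PvbwUi.eq_1; have := @PvbwA.eq_1; have := @pvbwFzO.eq_1; have := @pvbwFzI.eq_1; have := @pvbwHuO.eq_1; have := @pvbwHuI.eq_1; have := @pvbwRdP.eq_1; have := @pvbwRdM.eq_1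
  trivial

/-- the base data read "the" half state -/
theorem pvbw_fzO_eq (hfr : p.fr ≠ 0) (h : PvbwOut N p Y s 𝔖) : pvbwFzO N p Y s = Subtype.val '' 𝔖.fzOut := by
  ext v
  constructor
  · rintro ⟨𝔖₁, h₁, u, hu, rfl⟩
    obtain ⟨g, q⟩ := pvbw_out_unique hfr h h₁
    exact ⟨u, by rw [g.fzOut q]; exact hu, rfl⟩
  · rintro ⟨u, hu, rfl⟩
    exact ⟨𝔖, h, u, hu, rfl⟩

theorem pvbw_fzI_eq (hfr : p.fr ≠ 0) (h : PvbwIn N p Y s 𝔖) : pvbwFzI N p Y s = Subtype.val '' 𝔖.fzIn := by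
  ext v
  constructor
  · rintro ⟨𝔖₁, h₁, u, hu, rfl⟩
    obtain ⟨g, q⟩ := pvbw_in_unique hfr h h₁
    exact ⟨u, by rw [g.fzIn q]; exact hu, rfl⟩
  · rintro ⟨u, hu, rfl⟩
    exact ⟨𝔖, h, u, hu, rfl⟩

theorem pvbw_huO_eq (hfr : p.fr ≠ 0) (h : PvbwOut N p Y s 𝔖) (δ r : ℝ) : pvbwHuO δ r N p Y s = pvtCells δ (Subtype.val '' 𝔖.fzOut ∪ Metric.closedBall (p.ty.cp p.h p.z) r) := by
  ext v
  constructor
  · rintro ⟨𝔖₁, h₁, hq⟩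
    obtain ⟨g, q⟩ := pvbw_out_unique hfr h h₁
    rw [g.fzOut q]
    exact hq
  · exact fun hq => ⟨𝔖, h, hq⟩

theorem pvbw_huI_eq (hfr : p.fr ≠ 0) (h : PvbwIn N p Y s 𝔖) (δ r : ℝ) : pvbwHuI δ r N p Y s = pvtCells δ (Subtype.val '' 𝔖.fzIn ∪ Metric.closedBall (p.ty.cm p.h p.z) r) := by
  ext v
  constructor
  · rintro ⟨𝔖₁, h₁, hq⟩
    obtain ⟨g, q⟩ := pvbw_in_unique hfr h h₁
    rw [g.fzIn q]
    exact hq
  · exact fun hq => ⟨𝔖, h, hq⟩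

/-- **BLINDNESS OF THE EXIT HALF STATE, fixed sites** -/
theorem pvbw_out_blind (hfr : p.fr ≠ 0) (hU : PvbwUo N p Y s) (hs : ∀ v : ↥Y, (v : ℂ) ∈ pvbwFzO N p Y s → s' v = s v) :
    PvbwUo N p Y s' ∧ pvbwFzO N p Y s' = pvbwFzO N p Y s ∧ ∀ δ r, pvbwHuO δ r N p Y s' = pvbwHuO δ r N p Y s := by
  obtain ⟨𝔖, h⟩ := hU
  have h' : PvbwOut N p Y s' 𝔖 := pvbw_out_congr h fun v hv => (hs v ⟨𝔖, h, v, hv, rfl⟩).symm
  exact ⟨⟨𝔖, h'⟩, by rw [pvbw_fzO_eq hfr h, pvbw_fzO_eq hfr h'], fun δ r => by rw [pvbw_huO_eq hfr h, pvbw_huO_eq hfr h']⟩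

/-- **BLINDNESS OF THE ENTRANCE HALF STATE, fixed sites** -/
theorem pvbw_in_blind (hfr : p.fr ≠ 0) (hU : PvbwUi N p Y s) (hs : ∀ v : ↥Y, (v : ℂ) ∈ pvbwFzI N p Y s → s' v = s v) :
    PvbwUi N p Y s' ∧ pvbwFzI N p Y s' = pvbwFzI N p Y s ∧ ∀ δ r, pvbwHuI δ r N p Y s' = pvbwHuI δ r N p Y s := by
  obtain ⟨𝔖, h⟩ := hU
  have h' : PvbwIn N p Y s' 𝔖 := pvbw_in_congr h fun v hv => (hs v ⟨𝔖, h, v, hv, rfl⟩).symm
  exact ⟨⟨𝔖, h'⟩, by rw [pvbw_fzI_eq hfr h, pvbw_fzI_eq hfr h'], fun δ r => by rw [pvbw_huI_eq hfr h, pvbw_huI_eq hfr h']⟩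

end fixed

/-! ## 4. at the names of `Tr/InstL` -/

/-- **what the exit end of `L` reads in `ζ`**: a door its disc and its tube, a marked end the frozen positions of `Σ_out` -/
def pvbwRo (L : PvilLk) (N : PvwNum) (b : Bool) (ζ : Conf PvPt) : Set ℂ := if L.dr then pvbwDk L.p else pvilFzO N b L.p ζ
/-- **what the entrance end of `L` reads in `ζ`** -/
def pvbwRi (L : PvilLk) (N : PvwNum) (b : Bool) (ζ : Conf PvPt) : Set ℂ := if L.dr' then pvbwDk L.p' else pvilFzI N b L.p' ζ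
/-- **WHAT THE LINK `L` READS IN `ζ`** -/
def pvbwRd (L : PvilLk) (N : PvwNum) (b : Bool) (ζ : Conf PvPt) : Set ℂ := pvbwRo L N b ζ ∪ pvbwRi L N b ζ ∪ L.Yin

theorem pvbw_eqns_cite3 : True := by
  have := @pvbwRo.eq_1; have := @pvbwRi.eq_1; have := @pvbwRd.eq_1
  trivial

section inst

variable {N : PvwNum} {b : Bool} {p : PvilPl} {L : PvilLk} {η ζ ζ' : Conf PvPt}

theorem pvbw_Uo_iff : η ∈ pvilUo N b p ↔ PvbwUo N p (cfSites η) (pvbwC (cfSites η) (cfCol η) b) :=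
  ⟨fun ⟨𝔖, h⟩ => ⟨𝔖, (pvbw_out_iff 𝔖).1 h⟩, fun ⟨𝔖, h⟩ => ⟨𝔖, (pvbw_out_iff 𝔖).2 h⟩⟩

theorem pvbw_Ui_iff : η ∈ pvilUi N b p ↔ PvbwUi N p (cfSites η) (pvbwC (cfSites η) (cfCol η) b) :=
  ⟨fun ⟨𝔖, h⟩ => ⟨𝔖, (pvbw_in_iff 𝔖).1 h⟩, fun ⟨𝔖, h⟩ => ⟨𝔖, (pvbw_in_iff 𝔖).2 h⟩⟩

theorem pvbw_A_iff : η ∈ L.A N b ↔ PvbwA L N (cfSites η) (pvbwC (cfSites η) (cfCol η) b) :=
  ⟨fun ⟨𝔖, 𝔖', y, h⟩ => ⟨𝔖, 𝔖', y, (pvbw_arc_iff 𝔖 𝔖' y).1 h⟩, fun ⟨𝔖, 𝔖', y, h⟩ => ⟨𝔖, 𝔖', y, (pvbw_arc_iff 𝔖 𝔖' y).2 h⟩⟩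

theorem pvbw_FzO (N : PvwNum) (b : Bool) (p : PvilPl) (η : Conf PvPt) : pvilFzO N b p η = pvbwFzO N p (cfSites η) (pvbwC (cfSites η) (cfCol η) b) :=
  Set.ext fun _ => ⟨fun ⟨𝔖, h, hu⟩ => ⟨𝔖, (pvbw_out_iff 𝔖).1 h, hu⟩, fun ⟨𝔖, h, hu⟩ => ⟨𝔖, (pvbw_out_iff 𝔖).2 h, hu⟩⟩

theorem pvbw_FzI (N : PvwNum) (b : Bool) (p : PvilPl) (η : Conf PvPt) : pvilFzI N b p η = pvbwFzI N p (cfSites η) (pvbwC (cfSites η) (cfCol η) b) :=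
  Set.ext fun _ => ⟨fun ⟨𝔖, h, hu⟩ => ⟨𝔖, (pvbw_in_iff 𝔖).1 h, hu⟩, fun ⟨𝔖, h, hu⟩ => ⟨𝔖, (pvbw_in_iff 𝔖).2 h, hu⟩⟩

theorem pvbw_HuO (δ r : ℝ) (N : PvwNum) (b : Bool) (p : PvilPl) (η : Conf PvPt) : pvilHuO δ r N b p η = pvbwHuO δ r N p (cfSites η) (pvbwC (cfSites η) (cfCol η) b) :=
  Set.ext fun _ => ⟨fun ⟨𝔖, h, hu⟩ => ⟨𝔖, (pvbw_out_iff 𝔖).1 h, hu⟩, fun ⟨𝔖, h, hu⟩ => ⟨𝔖, (pvbw_out_iff 𝔖).2 h, hu⟩⟩

theorem pvbw_HuI (δ r : ℝ) (N : PvwNum) (b : Bool) (p : PvilPl) (η : Conf PvPt) : pvilHuI δ r N b p η = pvbwHuI δ r N p (cfSites η) (pvbwC (cfSites η) (cfCol η) b) :=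
  Set.ext fun _ => ⟨fun ⟨𝔖, h, hu⟩ => ⟨𝔖, (pvbw_in_iff 𝔖).1 h, hu⟩, fun ⟨𝔖, h, hu⟩ => ⟨𝔖, (pvbw_in_iff 𝔖).2 h, hu⟩⟩

theorem pvbw_Ro (L : PvilLk) (N : PvwNum) (b : Bool) (η : Conf PvPt) : pvbwRo L N b η = pvbwRdP L N (cfSites η) (pvbwC (cfSites η) (cfCol η) b) := by
  unfold pvbwRo pvbwRdP
  rw [pvbw_FzO]

theorem pvbw_Ri (L : PvilLk) (N : PvwNum) (b : Bool) (η : Conf PvPt) : pvbwRi L N b η = pvbwRdM L N (cfSites η) (pvbwC (cfSites η) (cfCol η) b) := by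
  unfold pvbwRi pvbwRdM
  rw [pvbw_FzI]

/-- **`L.X` IS `L.val` AT ANY WITNESS** -/
theorem pvbw_X (hfr : L.dr = false → L.p.fr ≠ 0) (hfr' : L.dr' = false → L.p'.fr ≠ 0) {𝔖 𝔖' : PvwSt (pvieT η)} {y : (pvieT η).Pth} (h : L.Arc N b η 𝔖 𝔖' y)
    (w : ∀ η : Conf PvPt, (delbPl (pvieY η)).Dart → ℂ) : L.X N b w η = L.val N η (w η) 𝔖 𝔖' y := by
  have hex : ∃ (𝔖 𝔖' : PvwSt (pvieT η)) (y : (pvieT η).Pth), L.Arc N b η 𝔖 𝔖' y := ⟨𝔖, 𝔖', y, h⟩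
  unfold PvilLk.X
  rw [dif_pos hex]
  exact pvbw_val_unique hfr hfr' ((pvbw_arc_iff _ _ _).1 hex.choose_spec.choose_spec.choose_spec) ((pvbw_arc_iff _ _ _).1 h) (w η)

theorem pvbw_X_off (h : η ∉ L.A N b) (w : ∀ η : Conf PvPt, (delbPl (pvieY η)).Dart → ℂ) : L.X N b w η = 0 := by
  unfold PvilLk.X
  exact dif_neg h

/-- `L.X` in `(Y, s)`-form: the value at any witness -/
theorem pvbw_X_form (hfr : L.dr = false → L.p.fr ≠ 0) (hfr' : L.dr' = false → L.p'.fr ≠ 0) (W : ∀ Y : Set ℂ, (delbPl Y).Dart → ℂ) {𝔖 𝔖' : PvwSt (pvbwT (cfSites η))} {y : (pvbwT (cfSites η)).Pth}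
    (h : PvbwArc L N (cfSites η) (pvbwC (cfSites η) (cfCol η) b) 𝔖 𝔖' y) : L.X N b (fun η => W (cfSites η)) η = pvbwVal L N (cfSites η) (W (cfSites η)) 𝔖 𝔖' y :=
  pvbw_X hfr hfr' ((pvbw_arc_iff 𝔖 𝔖' y).2 h) _

theorem pvbw_col_agree {Y : Set ℂ} {σ σ' : ℂ → Bool} (b : Bool) {v : ↥Y} (h : σ' v.1 = σ v.1) : pvbwC Y σ' b v = pvbwC Y σ b v := by
  unfold pvbwC
  rw [h]

/-- **PLAIN COLOUR BLINDNESS OF THE EXIT HALF STATE**: `ζ'` = `ζ` recoloured off the frozen positions of `Σ_out` -/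
theorem pvbw_plain_out (hfr : p.fr ≠ 0) (hS : cfSites ζ' = cfSites ζ) (hc : ∀ v ∈ pvilFzO N b p ζ, cfCol ζ' v = cfCol ζ v) (hζ : ζ ∈ pvilUo N b p) :
    ζ' ∈ pvilUo N b p ∧ pvilFzO N b p ζ' = pvilFzO N b p ζ ∧ ∀ δ r, pvilHuO δ r N b p ζ' = pvilHuO δ r N b p ζ := by
  simp only [pvbw_Uo_iff, pvbw_FzO, pvbw_HuO] at hc hζ ⊢
  rw [hS]
  exact pvbw_out_blind hfr hζ fun v hv => pvbw_col_agree b (hc _ hv)

/-- **PLAIN COLOUR BLINDNESS OF THE ENTRANCE HALF STATE** -/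
theorem pvbw_plain_in (hfr : p.fr ≠ 0) (hS : cfSites ζ' = cfSites ζ) (hc : ∀ v ∈ pvilFzI N b p ζ, cfCol ζ' v = cfCol ζ v) (hζ : ζ ∈ pvilUi N b p) :
    ζ' ∈ pvilUi N b p ∧ pvilFzI N b p ζ' = pvilFzI N b p ζ ∧ ∀ δ r, pvilHuI δ r N b p ζ' = pvilHuI δ r N b p ζ := by
  simp only [pvbw_Ui_iff, pvbw_FzI, pvbw_HuI] at hc hζ ⊢
  rw [hS]
  exact pvbw_in_blind hfr hζ fun v hv => pvbw_col_agree b (hc _ hv)

theorem pvbw_A_Uo (hd : L.dr = false) (h : η ∈ L.A N b) : η ∈ pvilUo N b L.p := by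
  obtain ⟨𝔖, _, _, h⟩ := h
  exact ⟨𝔖, (PvilLk.atP_pin hd N b η 𝔖).1 h.at_p⟩

theorem pvbw_A_Ui (hd : L.dr' = false) (h : η ∈ L.A N b) : η ∈ pvilUi N b L.p' := by
  obtain ⟨_, 𝔖', _, h⟩ := h
  exact ⟨𝔖', (PvilLk.atP'_pin hd N b η 𝔖').1 h.at_p'⟩

/-- the transport of the success and of the value -/
theorem pvbw_X_transport (hfr : L.dr = false → L.p.fr ≠ 0) (hfr' : L.dr' = false → L.p'.fr ≠ 0) (W : ∀ Y : Set ℂ, (delbPl Y).Dart → ℂ) (hS : cfSites ζ' = cfSites ζ)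
    (hc : ∀ v ∈ cfSites ζ, v ∈ pvbwRd L N b ζ → cfCol ζ' v = cfCol ζ v) (hζ : ζ ∈ L.A N b) :
    ζ' ∈ L.A N b ∧ L.X N b (fun η => W (cfSites η)) ζ' = L.X N b (fun η => W (cfSites η)) ζ := by
  have key : ∀ (Y' : Set ℂ) (_ : Y' = cfSites ζ), ∃ (𝔖 𝔖' : PvwSt (pvbwT Y')) (y : (pvbwT Y').Pth), PvbwArc L N Y' (pvbwC Y' (cfCol ζ') b) 𝔖 𝔖' y ∧
      pvbwVal L N Y' (W Y') 𝔖 𝔖' y = L.X N b (fun η => W (cfSites η)) ζ := by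
    rintro _ rfl
    obtain ⟨𝔖, 𝔖', y, h⟩ := pvbw_A_iff.1 hζ
    refine ⟨𝔖, 𝔖', y, pvbw_arc_congr h fun v hv => pvbw_col_agree b (hc _ v.2 ?_), (pvbw_X_form hfr hfr' W h).symm⟩
    unfold pvbwRd
    rw [pvbw_Ro, pvbw_Ri]
    exact hv
  obtain ⟨𝔖, 𝔖', y, h, e⟩ := key _ hS
  exact ⟨pvbw_A_iff.2 ⟨𝔖, 𝔖', y, h⟩, (pvbw_X_form hfr hfr' W h).trans e⟩

/-- **PLAIN COLOUR BLINDNESS OF A LINK**.      `ζ'` has the sites of `ζ`, and the colours of `ζ` at the sites of `pvbwRd L N b ζ` (what the two ends read, the sites over `L.Yin`).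
Then the link succeeds in `ζ'`, with the same value (any weight read from the sites: `pvilQ`, `pvilV`), the same base data at its marked ends, and it reads the same set. -/
theorem pvbw_plain (hfr : L.dr = false → L.p.fr ≠ 0) (hfr' : L.dr' = false → L.p'.fr ≠ 0) (W : ∀ Y : Set ℂ, (delbPl Y).Dart → ℂ) (hS : cfSites ζ' = cfSites ζ)
    (hc : ∀ v ∈ cfSites ζ, v ∈ pvbwRd L N b ζ → cfCol ζ' v = cfCol ζ v) (hζ : ζ ∈ L.A N b) :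
    ζ' ∈ L.A N b ∧ L.X N b (fun η => W (cfSites η)) ζ' = L.X N b (fun η => W (cfSites η)) ζ ∧
      (L.dr = false → pvilFzO N b L.p ζ' = pvilFzO N b L.p ζ ∧ ∀ δ r, pvilHuO δ r N b L.p ζ' = pvilHuO δ r N b L.p ζ) ∧
      (L.dr' = false → pvilFzI N b L.p' ζ' = pvilFzI N b L.p' ζ ∧ ∀ δ r, pvilHuI δ r N b L.p' ζ' = pvilHuI δ r N b L.p' ζ) ∧ pvbwRd L N b ζ' = pvbwRd L N b ζ := by
  have hsub : ∀ v ∈ pvilFzO N b L.p ζ, v ∈ cfSites ζ := by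
    rintro v ⟨𝔖, -, u, -, rfl⟩
    exact u.2
  have hsub' : ∀ v ∈ pvilFzI N b L.p' ζ, v ∈ cfSites ζ := by
    rintro v ⟨𝔖, -, u, -, rfl⟩
    exact u.2
  obtain ⟨a1, a2⟩ := pvbw_X_transport hfr hfr' W hS hc hζ
  have b1 : L.dr = false → pvilFzO N b L.p ζ' = pvilFzO N b L.p ζ ∧ ∀ δ r, pvilHuO δ r N b L.p ζ' = pvilHuO δ r N b L.p ζ := fun hd =>
    (pvbw_plain_out (hfr hd) hS (fun v hv => hc v (hsub v hv) (Or.inl (Or.inl (by unfold pvbwRo; rw [hd]; exact hv)))) (pvbw_A_Uo hd hζ)).2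
  have c1 : L.dr' = false → pvilFzI N b L.p' ζ' = pvilFzI N b L.p' ζ ∧ ∀ δ r, pvilHuI δ r N b L.p' ζ' = pvilHuI δ r N b L.p' ζ := fun hd =>
    (pvbw_plain_in (hfr' hd) hS (fun v hv => hc v (hsub' v hv) (Or.inl (Or.inr (by unfold pvbwRi; rw [hd]; exact hv)))) (pvbw_A_Ui hd hζ)).2
  refine ⟨a1, a2, b1, c1, ?_⟩
  have e1 : pvbwRo L N b ζ' = pvbwRo L N b ζ := by
    unfold pvbwRo
    split_ifs with c
    · rfl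
    · exact (b1 (by simpa using c)).1
  have e2 : pvbwRi L N b ζ' = pvbwRi L N b ζ := by
    unfold pvbwRi
    split_ifs with c
    · rfl
    · exact (c1 (by simpa using c)).1
  unfold pvbwRd
  rw [e1, e2]

/-- the weight of `Q` is read from the sites -/
theorem pvbw_Q : pvilQ = fun η => (fun Y : Set ℂ => (pvbwT Y).qpart Subtype.val) (cfSites η) := rfl
/-- the weight of `V` is read from the sites -/
theorem pvbw_V : pvilV = fun η => (fun Y : Set ℂ => (pvbwT Y).side Subtype.val) (cfSites η) := rfl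

/-- a door end reads inside the window of its kit plug -/
theorem pvbw_Dk_sub {r : ℝ} (hr : 0 ≤ r) {z d : ℂ} (hd : ‖d‖ = 1) : pvbwDk (pvilPlug r z d) ⊆ pvkdAt z d (pvkdP r).Ew := by
  have hdd : d * conj d = 1 := by
    rw [Complex.mul_conj, Complex.normSq_eq_norm_sq, hd]
    norm_num
  rintro w (hw | ⟨u, hu, rfl⟩)
  · refine ⟨conj d * (w - z), ?_, ?_⟩
    · have hn : ‖conj d * (w - z)‖ < 2 * r := by
        rw [norm_mul, RCLike.norm_conj, hd, one_mul]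
        exact mem_ball_iff_norm.1 hw
      have h1 := Complex.abs_re_le_norm (conj d * (w - z))
      have h2 := Complex.abs_im_le_norm (conj d * (w - z))
      show |(conj d * (w - z) - 0).re| ≤ 3 * r ∧ |(conj d * (w - z) - 0).im| ≤ 3 * r
      rw [sub_zero]
      exact ⟨by linarith, by linarith⟩
    · unfold pvthSim
      rw [← mul_assoc, hdd, one_mul]
      ring
  · refine ⟨u, ?_, rfl⟩
    have a1 : -(2 * r) ≤ u.re := hu.1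
    have a2 : u.re ≤ 2 * r := hu.2.1
    have a3 : -(r / 2) ≤ u.im := hu.2.2.1
    have a4 : u.im ≤ r / 2 := hu.2.2.2
    show |(u - 0).re| ≤ 3 * r ∧ |(u - 0).im| ≤ 3 * r
    rw [sub_zero]
    exact ⟨abs_le.2 ⟨by linarith, by linarith⟩, abs_le.2 ⟨by linarith, by linarith⟩⟩

end inst

/-! ## 5. at the data of record -/

section record

variable {τ : Type} {c : ℝ} (𝔓 : PvxPar τ c) (𝔈 : PvieEng τ)

/-- **what the first link `t → door` reads**: frozen positions of `Σ_out(z,t)`, the door, the sites over its room -/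
noncomputable def pvbwSo (m : ℕ) (z : ℂ) (t : τ) (ζ : Conf PvPt) : Set ℂ :=
  pvilFo 𝔓 m z t ζ ∪ pvbwDk (pvilPlug (pvilRd 𝔓 m) (pvieZo 𝔓 m z t) ((𝔓.Γ m).dout t)) ∪ pvieSh z (𝔈.oY m t)
/-- **what the last link `door → t` reads** -/
noncomputable def pvbwSi (m : ℕ) (z : ℂ) (t : τ) (ζ : Conf PvPt) : Set ℂ :=
  pvbwDk (pvilPlug (pvilRd 𝔓 m) (pvieZi 𝔓 m z t) ((𝔓.Γ m).din t)) ∪ pvilFi 𝔓 m z t ζ ∪ pvieSh z (𝔈.iY m t)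
/-- **what the thick link `reference plug → t` reads** -/
noncomputable def pvbwSe (m : ℕ) (z : ℂ) (t : τ) (ζ : Conf PvPt) : Set ℂ :=
  pvbwDk (pvilPlug (pvilRu 𝔈 m) (pvieZu 𝔓 m z t) 1) ∪ pvilFi 𝔓 m z t ζ ∪ pvieSh z (𝔈.eY m t)
/-- **what the link `door → reference plug` reads** (a DETERMINISTIC set) -/
noncomputable def pvbwSr (m : ℕ) : Set ℂ :=
  pvbwDk (pvilPlug (pvilRd 𝔓 m) (𝔓.Γ m).pin0 (𝔓.Γ m).din0) ∪ pvbwDk (pvilPlug (pvilRu 𝔈 m) 0 1) ∪ 𝔈.rY m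

theorem pvbw_eqns_cite4 : True := by
  have := @pvbwSo.eq_1; have := @pvbwSi.eq_1; have := @pvbwSe.eq_1; have := @pvbwSr.eq_1
  trivial

variable {𝔓 𝔈} {ζ ζ' : Conf PvPt} {m : ℕ} {ε : ℝ} {z : ℂ} {t : τ} {Z : Set (ℤ × ℤ)}

theorem pvbw_Rd_o : pvbwRd (pvilLo 𝔓 𝔈 m z t) 𝔓.num (𝔓.col t) ζ = pvbwSo 𝔓 𝔈 m z t ζ := rfl
theorem pvbw_Rd_i : pvbwRd (pvilLi 𝔓 𝔈 m z t) 𝔓.num (𝔓.col t) ζ = pvbwSi 𝔓 𝔈 m z t ζ := rfl
theorem pvbw_Rd_e : pvbwRd (pvilLe 𝔓 𝔈 m z t) 𝔓.num (𝔓.col t) ζ = pvbwSe 𝔓 𝔈 m z t ζ := rfl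
theorem pvbw_Rd_r : pvbwRd (pvilLr 𝔓 𝔈 m) 𝔓.num true ζ = pvbwSr 𝔓 𝔈 m := rfl

theorem pvbw_Ms {Wn : Set ℂ} (hS : cfSites ζ' = cfSites ζ) (h : ζ ∈ pvilMs 𝔓 m Wn) : ζ' ∈ pvilMs 𝔓 m Wn := by
  show PvtrMesh (pvilMu 𝔓 m) Wn (cfSites ζ')
  rw [hS]
  exact h

/-- **PLAIN COLOUR BLINDNESS OF THE FIRST LINK AT THE DATA OF RECORD** -/
theorem pvbw_Mo (W : ∀ Y : Set ℂ, (delbPl Y).Dart → ℂ) (hS : cfSites ζ' = cfSites ζ) (hc : ∀ v ∈ cfSites ζ, v ∈ pvbwSo 𝔓 𝔈 m z t ζ → cfCol ζ' v = cfCol ζ v) (hζ : ζ ∈ pvilMo 𝔓 𝔈 m ε z t Z) :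
    ζ' ∈ pvilMo 𝔓 𝔈 m ε z t Z ∧ (pvilLo 𝔓 𝔈 m z t).X 𝔓.num (𝔓.col t) (fun η => W (cfSites η)) ζ' = (pvilLo 𝔓 𝔈 m z t).X 𝔓.num (𝔓.col t) (fun η => W (cfSites η)) ζ ∧
      pvilFo 𝔓 m z t ζ' = pvilFo 𝔓 m z t ζ ∧ pvbwSo 𝔓 𝔈 m z t ζ' = pvbwSo 𝔓 𝔈 m z t ζ := by
  obtain ⟨⟨h1, h2⟩, h3⟩ := hζ
  obtain ⟨a1, a2, a3, -, a5⟩ := pvbw_plain (L := pvilLo 𝔓 𝔈 m z t) (fun _ => one_ne_zero) (fun h => absurd (show true = false from h) (by decide)) W hS hc h1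
  exact ⟨⟨⟨a1, ((a3 rfl).2 _ _).trans h2⟩, pvbw_Ms hS h3⟩, a2, (a3 rfl).1, a5⟩

/-- **PLAIN COLOUR BLINDNESS OF THE LAST LINK AT THE DATA OF RECORD** -/
theorem pvbw_Mi (W : ∀ Y : Set ℂ, (delbPl Y).Dart → ℂ) (hS : cfSites ζ' = cfSites ζ) (hc : ∀ v ∈ cfSites ζ, v ∈ pvbwSi 𝔓 𝔈 m z t ζ → cfCol ζ' v = cfCol ζ v) (hζ : ζ ∈ pvilMi 𝔓 𝔈 m ε z t Z) :
    ζ' ∈ pvilMi 𝔓 𝔈 m ε z t Z ∧ (pvilLi 𝔓 𝔈 m z t).X 𝔓.num (𝔓.col t) (fun η => W (cfSites η)) ζ' = (pvilLi 𝔓 𝔈 m z t).X 𝔓.num (𝔓.col t) (fun η => W (cfSites η)) ζ ∧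
      pvilFi 𝔓 m z t ζ' = pvilFi 𝔓 m z t ζ ∧ pvbwSi 𝔓 𝔈 m z t ζ' = pvbwSi 𝔓 𝔈 m z t ζ := by
  obtain ⟨⟨h1, h2⟩, h3⟩ := hζ
  obtain ⟨a1, a2, -, a4, a5⟩ := pvbw_plain (L := pvilLi 𝔓 𝔈 m z t) (fun h => absurd (show true = false from h) (by decide)) (fun _ => one_ne_zero) W hS hc h1
  exact ⟨⟨⟨a1, ((a4 rfl).2 _ _).trans h2⟩, pvbw_Ms hS h3⟩, a2, (a4 rfl).1, a5⟩

/-- **PLAIN COLOUR BLINDNESS OF THE THICK LINK AT THE DATA OF RECORD** -/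
theorem pvbw_Me (W : ∀ Y : Set ℂ, (delbPl Y).Dart → ℂ) (hS : cfSites ζ' = cfSites ζ) (hc : ∀ v ∈ cfSites ζ, v ∈ pvbwSe 𝔓 𝔈 m z t ζ → cfCol ζ' v = cfCol ζ v) (hζ : ζ ∈ pvilMe 𝔓 𝔈 m z t Z) :
    ζ' ∈ pvilMe 𝔓 𝔈 m z t Z ∧ (pvilLe 𝔓 𝔈 m z t).X 𝔓.num (𝔓.col t) (fun η => W (cfSites η)) ζ' = (pvilLe 𝔓 𝔈 m z t).X 𝔓.num (𝔓.col t) (fun η => W (cfSites η)) ζ ∧
      pvilFi 𝔓 m z t ζ' = pvilFi 𝔓 m z t ζ ∧ pvbwSe 𝔓 𝔈 m z t ζ' = pvbwSe 𝔓 𝔈 m z t ζ := by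
  obtain ⟨⟨h1, h2⟩, h3⟩ := hζ
  obtain ⟨a1, a2, -, a4, a5⟩ := pvbw_plain (L := pvilLe 𝔓 𝔈 m z t) (fun h => absurd (show true = false from h) (by decide)) (fun _ => one_ne_zero) W hS hc h1
  exact ⟨⟨⟨a1, ((a4 rfl).2 _ _).trans h2⟩, pvbw_Ms hS h3⟩, a2, (a4 rfl).1, a5⟩

/-- **PLAIN COLOUR BLINDNESS OF THE LINK INTO THE REFERENCE PLUG** (an `iff`: the set read is deterministic) -/
theorem pvbw_Mr (W : ∀ Y : Set ℂ, (delbPl Y).Dart → ℂ) (hS : cfSites ζ' = cfSites ζ) (hc : ∀ v ∈ cfSites ζ, v ∈ pvbwSr 𝔓 𝔈 m → cfCol ζ' v = cfCol ζ v) :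
    (ζ' ∈ pvilMr 𝔓 𝔈 m ε ↔ ζ ∈ pvilMr 𝔓 𝔈 m ε) ∧ (pvilLr 𝔓 𝔈 m).X 𝔓.num true (fun η => W (cfSites η)) ζ' = (pvilLr 𝔓 𝔈 m).X 𝔓.num true (fun η => W (cfSites η)) ζ := by
  have f1 : ζ ∈ (pvilLr 𝔓 𝔈 m).A 𝔓.num true → ζ' ∈ (pvilLr 𝔓 𝔈 m).A 𝔓.num true ∧ _ := fun h =>
    ⟨(pvbw_plain (L := pvilLr 𝔓 𝔈 m) (fun h => absurd (show true = false from h) (by decide)) (fun h => absurd (show true = false from h) (by decide)) W hS hc h).1,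
      (pvbw_plain (L := pvilLr 𝔓 𝔈 m) (fun h => absurd (show true = false from h) (by decide)) (fun h => absurd (show true = false from h) (by decide)) W hS hc h).2.1⟩
  have f2 : ζ' ∈ (pvilLr 𝔓 𝔈 m).A 𝔓.num true → ζ ∈ (pvilLr 𝔓 𝔈 m).A 𝔓.num true := fun h =>
    (pvbw_plain (L := pvilLr 𝔓 𝔈 m) (fun h => absurd (show true = false from h) (by decide)) (fun h => absurd (show true = false from h) (by decide)) W hS.symm (fun v hv hr => (hc v (hS ▸ hv) hr).symm) h).1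
  refine ⟨⟨fun h => ⟨f2 h.1, pvbw_Ms hS.symm h.2⟩, fun h => ⟨(f1 h.1).1, pvbw_Ms hS h.2⟩⟩, ?_⟩
  by_cases h : ζ ∈ (pvilLr 𝔓 𝔈 m).A 𝔓.num true
  · exact (f1 h).2
  · exact (pvbw_X_off (fun h' => h (f2 h')) _).trans (pvbw_X_off h _).symm

end record

/-! ## 6. THE FINER READING SET: the two ends and the vertices of THE run      (asked by 158, 170: (POCKET)) -/

/-- the vertices of THE run, `(Y, s)`-form -/
def pvbwRnY (L : PvilLk) (N : PvwNum) (Y : Set ℂ) (s : ↥Y → Bool) : Set ℂ :=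
  {v | ∃ (𝔖 𝔖' : PvwSt (pvbwT Y)) (y : (pvbwT Y).Pth) (n i : ℕ), PvbwArc L N Y s 𝔖 𝔖' y ∧ PvllRun (pvbwT Y) Subtype.val s L.Yin 𝔖.dp 𝔖'.dm 𝔖.np 𝔖'.nm n ∧ i ≤ n ∧
    ((((pvbwT Y).src (pvasIt (pvbwT Y) s 𝔖.dp i) : ↥Y) : ℂ) = v ∨ (((pvbwT Y).tgt (pvasIt (pvbwT Y) s 𝔖.dp i) : ↥Y) : ℂ) = v)}

/-- **THE VERTICES OF THE RUN OF `ζ`**: the positions of the two ends of the positions `0 .. n` of the strand from the exit gate edge of the end `p` to the entry gate edge of the end `p'`      (`∅` off `L.A N b`) -/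
def pvbwRn (L : PvilLk) (N : PvwNum) (b : Bool) (ζ : Conf PvPt) : Set ℂ :=
  {v | ∃ (𝔖 𝔖' : PvwSt (pvieT ζ)) (y : (pvieT ζ).Pth) (n i : ℕ), L.Arc N b ζ 𝔖 𝔖' y ∧ L.Run b ζ 𝔖 𝔖' n ∧ i ≤ n ∧
    (pviePos ζ ((pvieT ζ).src (pvasIt (pvieT ζ) (pvieCol ζ b) 𝔖.dp i)) = v ∨ pviePos ζ ((pvieT ζ).tgt (pvasIt (pvieT ζ) (pvieCol ζ b) 𝔖.dp i)) = v)}

/-- **THE FINER SET READ BY THE LINK `L` IN `ζ`**: what the two ends read, the vertices of the run -/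
def pvbwRf (L : PvilLk) (N : PvwNum) (b : Bool) (ζ : Conf PvPt) : Set ℂ := pvbwRo L N b ζ ∪ pvbwRi L N b ζ ∪ pvbwRn L N b ζ

theorem pvbw_eqns_cite5 : True := by
  have := @pvbwRnY.eq_1; have := @pvbwRn.eq_1; have := @pvbwRf.eq_1
  trivial

section finer

variable {N : PvwNum} {L : PvilLk} {Y : Set ℂ} {s s' : ↥Y → Bool} {𝔖 𝔖' : PvwSt (pvbwT Y)} {y : (pvbwT Y).Pth}

/-- the time of a run is the first hit -/
theorem pvbw_run_time {V D : Type} {T : PvMap V D} {pos : V → ℂ} {Yin : Set ℂ} {σ : V → Bool} {a b : D} {np nm n np' nm' n' : ℕ}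
    (h : PvllRun T pos σ Yin a b np nm n) (h' : PvllRun T pos σ Yin a b np' nm' n') : n = n' := by
  obtain ⟨-, a1, a2, -⟩ := h
  obtain ⟨-, b1, b2, -⟩ := h'
  rcases lt_trichotomy n n' with hlt | he | hlt
  · exact absurd a1 (b2 n hlt)
  · exact he
  · exact absurd b1 (a2 n' hlt)

/-- the vertices of the run at ANY witness -/
theorem pvbw_rn_eq (hfr : L.dr = false → L.p.fr ≠ 0) (hfr' : L.dr' = false → L.p'.fr ≠ 0) (h : PvbwArc L N Y s 𝔖 𝔖' y) {n : ℕ}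
    (r : PvllRun (pvbwT Y) Subtype.val s L.Yin 𝔖.dp 𝔖'.dm 𝔖.np 𝔖'.nm n) :
    pvbwRnY L N Y s = {v | ∃ i, i ≤ n ∧ ((((pvbwT Y).src (pvasIt (pvbwT Y) s 𝔖.dp i) : ↥Y) : ℂ) = v ∨ (((pvbwT Y).tgt (pvasIt (pvbwT Y) s 𝔖.dp i) : ↥Y) : ℂ) = v)} := by
  ext v
  constructor
  · rintro ⟨𝔖₁, 𝔖₁', y₁, n₁, i, h₁, r₁, hi, hv⟩
    have e1 := pvbw_atP_unique hfr h.at_p h₁.at_p
    have e2 := pvbw_atP'_unique hfr' h.at_p' h₁.at_p'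
    rw [← e1.dp, ← e2.dm] at r₁
    rw [← e1.dp] at hv
    obtain rfl := pvbw_run_time r r₁
    exact ⟨i, hi, hv⟩
  · rintro ⟨i, hi, hv⟩
    exact ⟨𝔖, 𝔖', y, n, i, h, r, hi, hv⟩

/-- **THE SUCCESS OF A LINK IS READ ON (its two ends) `∪` (the vertices of its run)**: the same witnesses, the same positions -/
theorem pvbw_arc_congr_f (h : PvbwArc L N Y s 𝔖 𝔖' y) (hs : ∀ v : ↥Y, (v : ℂ) ∈ pvbwRdP L N Y s ∪ pvbwRdM L N Y s ∪ pvbwRnY L N Y s → s' v = s v) :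
    PvbwArc L N Y s' 𝔖 𝔖' y ∧ ∃ n, PvllRun (pvbwT Y) Subtype.val s L.Yin 𝔖.dp 𝔖'.dm 𝔖.np 𝔖'.nm n ∧ PvllRun (pvbwT Y) Subtype.val s' L.Yin 𝔖.dp 𝔖'.dm 𝔖.np 𝔖'.nm n ∧
      ∀ i, i ≤ n → pvasIt (pvbwT Y) s' 𝔖.dp i = pvasIt (pvbwT Y) s 𝔖.dp i := by
  obtain ⟨n, r, l⟩ := h.run
  have a1 := (pvbw_atP_congr h.at_p fun v hv => hs v (Or.inl (Or.inl hv))).1
  have b1 := (pvbw_atP'_congr h.at_p' fun v hv => hs v (Or.inl (Or.inr hv))).1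
  have e : ∀ i, i ≤ n → pvasIt (pvbwT Y) s' 𝔖.dp i = pvasIt (pvbwT Y) s 𝔖.dp i := by
    refine pvas_it_congr ?_
    rintro v (⟨i, hi, rfl⟩ | ⟨i, hi, rfl⟩)
    · exact hs _ (Or.inr ⟨𝔖, 𝔖', y, n, i, h, r, hi, Or.inl rfl⟩)
    · exact hs _ (Or.inr ⟨𝔖, 𝔖', y, n, i, h, r, hi, Or.inr rfl⟩)
  exact ⟨⟨a1, b1, n, pvbw_run r e, pvwk_le_congr (fun i hi => by rw [e i hi]) l⟩, n, r, pvbw_run r e, e⟩

/-- the run has the same vertices -/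
theorem pvbw_rn_congr (hfr : L.dr = false → L.p.fr ≠ 0) (hfr' : L.dr' = false → L.p'.fr ≠ 0) (h : PvbwArc L N Y s 𝔖 𝔖' y)
    (hs : ∀ v : ↥Y, (v : ℂ) ∈ pvbwRdP L N Y s ∪ pvbwRdM L N Y s ∪ pvbwRnY L N Y s → s' v = s v) : pvbwRnY L N Y s' = pvbwRnY L N Y s := by
  obtain ⟨h', n, r, r', e⟩ := pvbw_arc_congr_f h hs
  rw [pvbw_rn_eq hfr hfr' h r, pvbw_rn_eq hfr hfr' h' r']
  ext v
  constructor
  · rintro ⟨i, hi, hv⟩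
    rw [e i hi] at hv
    exact ⟨i, hi, hv⟩
  · rintro ⟨i, hi, hv⟩
    rw [← e i hi] at hv
    exact ⟨i, hi, hv⟩

end finer

section finerI

variable {N : PvwNum} {b : Bool} {L : PvilLk} {η ζ ζ' : Conf PvPt}

theorem pvbw_Rn (L : PvilLk) (N : PvwNum) (b : Bool) (η : Conf PvPt) : pvbwRn L N b η = pvbwRnY L N (cfSites η) (pvbwC (cfSites η) (cfCol η) b) :=
  Set.ext fun _ => ⟨fun ⟨𝔖, 𝔖', y, n, i, h, r, hv⟩ => ⟨𝔖, 𝔖', y, n, i, (pvbw_arc_iff 𝔖 𝔖' y).1 h, r, hv⟩, fun ⟨𝔖, 𝔖', y, n, i, h, r, hv⟩ => ⟨𝔖, 𝔖', y, n, i, (pvbw_arc_iff 𝔖 𝔖' y).2 h, r, hv⟩⟩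

/-- the vertices of the run are sites -/
theorem pvbw_Rn_sites : pvbwRn L N b η ⊆ cfSites η := by
  rintro v ⟨𝔖, 𝔖', y, n, i, -, -, -, rfl | rfl⟩
  · exact Subtype.property _
  · exact Subtype.property _

/-- the vertices of the run at a witness, in the names of `Tr/InstL` -/
theorem pvbw_Rn_eq (hfr : L.dr = false → L.p.fr ≠ 0) (hfr' : L.dr' = false → L.p'.fr ≠ 0) {𝔖 𝔖' : PvwSt (pvieT η)} {y : (pvieT η).Pth} (h : L.Arc N b η 𝔖 𝔖' y) {n : ℕ} (r : L.Run b η 𝔖 𝔖' n) :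
    pvbwRn L N b η = {v | ∃ i, i ≤ n ∧ (pviePos η ((pvieT η).src (pvasIt (pvieT η) (pvieCol η b) 𝔖.dp i)) = v ∨ pviePos η ((pvieT η).tgt (pvasIt (pvieT η) (pvieCol η b) 𝔖.dp i)) = v)} := by
  rw [pvbw_Rn]
  exact pvbw_rn_eq hfr hfr' ((pvbw_arc_iff 𝔖 𝔖' y).1 h) r

/-- the transport of the success, of the value and of the vertices of the run -/
theorem pvbw_X_transport_f (hfr : L.dr = false → L.p.fr ≠ 0) (hfr' : L.dr' = false → L.p'.fr ≠ 0) (W : ∀ Y : Set ℂ, (delbPl Y).Dart → ℂ) (hS : cfSites ζ' = cfSites ζ)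
    (hc : ∀ v ∈ cfSites ζ, v ∈ pvbwRf L N b ζ → cfCol ζ' v = cfCol ζ v) (hζ : ζ ∈ L.A N b) :
    ζ' ∈ L.A N b ∧ L.X N b (fun η => W (cfSites η)) ζ' = L.X N b (fun η => W (cfSites η)) ζ ∧ pvbwRn L N b ζ' = pvbwRn L N b ζ := by
  have key : ∀ (Y' : Set ℂ) (_ : Y' = cfSites ζ), (∃ (𝔖 𝔖' : PvwSt (pvbwT Y')) (y : (pvbwT Y').Pth), PvbwArc L N Y' (pvbwC Y' (cfCol ζ') b) 𝔖 𝔖' y ∧
      pvbwVal L N Y' (W Y') 𝔖 𝔖' y = L.X N b (fun η => W (cfSites η)) ζ) ∧ pvbwRnY L N Y' (pvbwC Y' (cfCol ζ') b) = pvbwRn L N b ζ := by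
    rintro _ rfl
    obtain ⟨𝔖, 𝔖', y, h⟩ := pvbw_A_iff.1 hζ
    have hs : ∀ v : ↥(cfSites ζ), (v : ℂ) ∈ pvbwRdP L N (cfSites ζ) (pvbwC (cfSites ζ) (cfCol ζ) b) ∪ pvbwRdM L N (cfSites ζ) (pvbwC (cfSites ζ) (cfCol ζ) b) ∪
        pvbwRnY L N (cfSites ζ) (pvbwC (cfSites ζ) (cfCol ζ) b) → pvbwC (cfSites ζ) (cfCol ζ') b v = pvbwC (cfSites ζ) (cfCol ζ) b v := by
      intro v hv
      refine pvbw_col_agree b (hc _ v.2 ?_)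
      unfold pvbwRf
      rw [pvbw_Ro, pvbw_Ri, pvbw_Rn]
      exact hv
    refine ⟨⟨𝔖, 𝔖', y, (pvbw_arc_congr_f h hs).1, (pvbw_X_form hfr hfr' W h).symm⟩, ?_⟩
    rw [pvbw_Rn]
    exact pvbw_rn_congr hfr hfr' h hs
  obtain ⟨⟨𝔖, 𝔖', y, h, e⟩, e2⟩ := key _ hS
  exact ⟨pvbw_A_iff.2 ⟨𝔖, 𝔖', y, h⟩, (pvbw_X_form hfr hfr' W h).trans e, by rw [pvbw_Rn]; exact e2⟩

/-- **PLAIN COLOUR BLINDNESS OF A LINK, FINER FORM**.      `ζ'` has the sites of `ζ`, and the colours of `ζ` at the sites of `pvbwRf L N b ζ` (what the two ends read, the vertices of THE run): nothing is asked at the other sites over `L.Yin`. -/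
theorem pvbw_plain_f (hfr : L.dr = false → L.p.fr ≠ 0) (hfr' : L.dr' = false → L.p'.fr ≠ 0) (W : ∀ Y : Set ℂ, (delbPl Y).Dart → ℂ) (hS : cfSites ζ' = cfSites ζ)
    (hc : ∀ v ∈ cfSites ζ, v ∈ pvbwRf L N b ζ → cfCol ζ' v = cfCol ζ v) (hζ : ζ ∈ L.A N b) :
    ζ' ∈ L.A N b ∧ L.X N b (fun η => W (cfSites η)) ζ' = L.X N b (fun η => W (cfSites η)) ζ ∧
      (L.dr = false → pvilFzO N b L.p ζ' = pvilFzO N b L.p ζ ∧ ∀ δ r, pvilHuO δ r N b L.p ζ' = pvilHuO δ r N b L.p ζ) ∧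
      (L.dr' = false → pvilFzI N b L.p' ζ' = pvilFzI N b L.p' ζ ∧ ∀ δ r, pvilHuI δ r N b L.p' ζ' = pvilHuI δ r N b L.p' ζ) ∧ pvbwRn L N b ζ' = pvbwRn L N b ζ ∧ pvbwRf L N b ζ' = pvbwRf L N b ζ := by
  have hsub : ∀ v ∈ pvilFzO N b L.p ζ, v ∈ cfSites ζ := by
    rintro v ⟨𝔖, -, u, -, rfl⟩
    exact u.2
  have hsub' : ∀ v ∈ pvilFzI N b L.p' ζ, v ∈ cfSites ζ := by
    rintro v ⟨𝔖, -, u, -, rfl⟩
    exact u.2
  obtain ⟨a1, a2, a3⟩ := pvbw_X_transport_f hfr hfr' W hS hc hζ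
  have b1 : L.dr = false → pvilFzO N b L.p ζ' = pvilFzO N b L.p ζ ∧ ∀ δ r, pvilHuO δ r N b L.p ζ' = pvilHuO δ r N b L.p ζ := fun hd =>
    (pvbw_plain_out (hfr hd) hS (fun v hv => hc v (hsub v hv) (Or.inl (Or.inl (by unfold pvbwRo; rw [hd]; exact hv)))) (pvbw_A_Uo hd hζ)).2
  have c1 : L.dr' = false → pvilFzI N b L.p' ζ' = pvilFzI N b L.p' ζ ∧ ∀ δ r, pvilHuI δ r N b L.p' ζ' = pvilHuI δ r N b L.p' ζ := fun hd =>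
    (pvbw_plain_in (hfr' hd) hS (fun v hv => hc v (hsub' v hv) (Or.inl (Or.inr (by unfold pvbwRi; rw [hd]; exact hv)))) (pvbw_A_Ui hd hζ)).2
  refine ⟨a1, a2, b1, c1, a3, ?_⟩
  have e1 : pvbwRo L N b ζ' = pvbwRo L N b ζ := by
    unfold pvbwRo
    split_ifs with c
    · rfl
    · exact (b1 (by simpa using c)).1
  have e2 : pvbwRi L N b ζ' = pvbwRi L N b ζ := by
    unfold pvbwRi
    split_ifs with c
    · rfl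
    · exact (c1 (by simpa using c)).1
  unfold pvbwRf
  rw [e1, e2, a3]

end finerI

section finerR

variable {τ : Type} {c : ℝ} (𝔓 : PvxPar τ c) (𝔈 : PvieEng τ)

/-- the finer set read by the first link: frozen positions of `Σ_out(z,t)`, the door, the vertices of the run -/
noncomputable def pvbwSoF (m : ℕ) (z : ℂ) (t : τ) (ζ : Conf PvPt) : Set ℂ :=
  pvilFo 𝔓 m z t ζ ∪ pvbwDk (pvilPlug (pvilRd 𝔓 m) (pvieZo 𝔓 m z t) ((𝔓.Γ m).dout t)) ∪ pvbwRn (pvilLo 𝔓 𝔈 m z t) 𝔓.num (𝔓.col t) ζ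
/-- the finer set read by the last link -/
noncomputable def pvbwSiF (m : ℕ) (z : ℂ) (t : τ) (ζ : Conf PvPt) : Set ℂ :=
  pvbwDk (pvilPlug (pvilRd 𝔓 m) (pvieZi 𝔓 m z t) ((𝔓.Γ m).din t)) ∪ pvilFi 𝔓 m z t ζ ∪ pvbwRn (pvilLi 𝔓 𝔈 m z t) 𝔓.num (𝔓.col t) ζ
/-- the finer set read by the thick link -/
noncomputable def pvbwSeF (m : ℕ) (z : ℂ) (t : τ) (ζ : Conf PvPt) : Set ℂ :=
  pvbwDk (pvilPlug (pvilRu 𝔈 m) (pvieZu 𝔓 m z t) 1) ∪ pvilFi 𝔓 m z t ζ ∪ pvbwRn (pvilLe 𝔓 𝔈 m z t) 𝔓.num (𝔓.col t) ζ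

theorem pvbw_eqns_cite6 : True := by
  have := @pvbwSoF.eq_1; have := @pvbwSiF.eq_1; have := @pvbwSeF.eq_1
  trivial

variable {𝔓 𝔈} {ζ ζ' : Conf PvPt} {m : ℕ} {ε : ℝ} {z : ℂ} {t : τ} {Z : Set (ℤ × ℤ)}

/-- **THE FIRST LINK, FINER FORM** -/
theorem pvbw_Mo_f (W : ∀ Y : Set ℂ, (delbPl Y).Dart → ℂ) (hS : cfSites ζ' = cfSites ζ) (hc : ∀ v ∈ cfSites ζ, v ∈ pvbwSoF 𝔓 𝔈 m z t ζ → cfCol ζ' v = cfCol ζ v) (hζ : ζ ∈ pvilMo 𝔓 𝔈 m ε z t Z) :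
    ζ' ∈ pvilMo 𝔓 𝔈 m ε z t Z ∧ (pvilLo 𝔓 𝔈 m z t).X 𝔓.num (𝔓.col t) (fun η => W (cfSites η)) ζ' = (pvilLo 𝔓 𝔈 m z t).X 𝔓.num (𝔓.col t) (fun η => W (cfSites η)) ζ ∧
      pvilFo 𝔓 m z t ζ' = pvilFo 𝔓 m z t ζ ∧ pvbwSoF 𝔓 𝔈 m z t ζ' = pvbwSoF 𝔓 𝔈 m z t ζ := by
  obtain ⟨⟨h1, h2⟩, h3⟩ := hζ
  obtain ⟨a1, a2, a3, -, -, a6⟩ := pvbw_plain_f (L := pvilLo 𝔓 𝔈 m z t) (fun _ => one_ne_zero) (fun h => absurd (show true = false from h) (by decide)) W hS hc h1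
  exact ⟨⟨⟨a1, ((a3 rfl).2 _ _).trans h2⟩, pvbw_Ms hS h3⟩, a2, (a3 rfl).1, a6⟩

/-- **THE LAST LINK, FINER FORM** -/
theorem pvbw_Mi_f (W : ∀ Y : Set ℂ, (delbPl Y).Dart → ℂ) (hS : cfSites ζ' = cfSites ζ) (hc : ∀ v ∈ cfSites ζ, v ∈ pvbwSiF 𝔓 𝔈 m z t ζ → cfCol ζ' v = cfCol ζ v) (hζ : ζ ∈ pvilMi 𝔓 𝔈 m ε z t Z) :
    ζ' ∈ pvilMi 𝔓 𝔈 m ε z t Z ∧ (pvilLi 𝔓 𝔈 m z t).X 𝔓.num (𝔓.col t) (fun η => W (cfSites η)) ζ' = (pvilLi 𝔓 𝔈 m z t).X 𝔓.num (𝔓.col t) (fun η => W (cfSites η)) ζ ∧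
      pvilFi 𝔓 m z t ζ' = pvilFi 𝔓 m z t ζ ∧ pvbwSiF 𝔓 𝔈 m z t ζ' = pvbwSiF 𝔓 𝔈 m z t ζ := by
  obtain ⟨⟨h1, h2⟩, h3⟩ := hζ
  obtain ⟨a1, a2, -, a4, -, a6⟩ := pvbw_plain_f (L := pvilLi 𝔓 𝔈 m z t) (fun h => absurd (show true = false from h) (by decide)) (fun _ => one_ne_zero) W hS hc h1
  exact ⟨⟨⟨a1, ((a4 rfl).2 _ _).trans h2⟩, pvbw_Ms hS h3⟩, a2, (a4 rfl).1, a6⟩

/-- **THE THICK LINK, FINER FORM** -/
theorem pvbw_Me_f (W : ∀ Y : Set ℂ, (delbPl Y).Dart → ℂ) (hS : cfSites ζ' = cfSites ζ) (hc : ∀ v ∈ cfSites ζ, v ∈ pvbwSeF 𝔓 𝔈 m z t ζ → cfCol ζ' v = cfCol ζ v) (hζ : ζ ∈ pvilMe 𝔓 𝔈 m z t Z) :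
    ζ' ∈ pvilMe 𝔓 𝔈 m z t Z ∧ (pvilLe 𝔓 𝔈 m z t).X 𝔓.num (𝔓.col t) (fun η => W (cfSites η)) ζ' = (pvilLe 𝔓 𝔈 m z t).X 𝔓.num (𝔓.col t) (fun η => W (cfSites η)) ζ ∧
      pvilFi 𝔓 m z t ζ' = pvilFi 𝔓 m z t ζ ∧ pvbwSeF 𝔓 𝔈 m z t ζ' = pvbwSeF 𝔓 𝔈 m z t ζ := by
  obtain ⟨⟨h1, h2⟩, h3⟩ := hζ
  obtain ⟨a1, a2, -, a4, -, a6⟩ := pvbw_plain_f (L := pvilLe 𝔓 𝔈 m z t) (fun h => absurd (show true = false from h) (by decide)) (fun _ => one_ne_zero) W hS hc h1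
  exact ⟨⟨⟨a1, ((a4 rfl).2 _ _).trans h2⟩, pvbw_Ms hS h3⟩, a2, (a4 rfl).1, a6⟩

end finerR

end Claimed.Agent.R289
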