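-- KEEP
import Claimed.Agent.R289.Tr.Blind
import Claimed.Agent.R289.Tr.BlindL
import Claimed.Agent.R289.Defs.InstWf
import Claimed.Agent.R289.Tr.FrcCar
import Claimed.Agent.R289.Tr.InstLB
import Claimed.Agent.R289.Tr.AtCylL

/-!
# Row 289 (S0537, Cardy for Poisson-Voronoi), THE WALL, ROAD E, file Tr/BlindP : `PvbqPlain` OF 141 AT THE DATA OF RECORD, REDUCED TO ONE STATEMENT ON THE FROZEN POSITIONS      (helper197; prefix `pvbw_pl_`, continuation of `Tr/BlindL`)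

`PvbqPlain C Wn p M F Y Fz y₀ σ` (`Tr/Blind` of 141, "OWED BY THE MODEL") for the three end links `o i e` of `Tr/InstL` v2.2.1, `y₀ = mouth \ Fz`:
* sec. 1  GLUE, model free: `pvbw_pl_col` (the two completions have the same colour where the two colourings agree), **`pvbw_pl_of`** : (fixed geometry blindness with the set read `S ζ`) + (`S ζ ∩ Y ∩ Wn \ C ⊆ Fz ∪ y₀`) ⟹ `PvbqPlain`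
* sec. 2  (GEO): the door and the room of a link are resampled, fresh or frozen: `pvbw_pl_sh_door`, `pvbw_pl_geo`
* sec. 3  **`pvbw_pl_o`, `pvbw_pl_i`, `pvbw_pl_e`** : `PvbqPlain` from (FZ) ALONE:   `ζ = pvbqZ C Wn Y τ ω₂ ξ`, `τ = σ` on `Y ∩ Fz`, `p ζ`, `ζ ∈ M`   ⟹   the kept frozen positions of `ζ` (in `Y ∩ Wn \ C`) lie in `Fz ∪ mouth`      [(FZ) = carry of the base half state + uniqueness: pen 111]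
* sec. 4  the regions from `PvieEng.Wf`: `pvbw_pl_o_wf`, `pvbw_pl_i_wf`, `pvbw_pl_e_wf`
* sec. 5  **(FZ) PROVED** from the carry of 71 / 297 (`Tr/FrcCar`: `pvfc7_out_model`, `pvfc7_in_model`): `pvbw_pl_agr` (the completion agrees with the base on `Z⁺ ∩ box` and on `F`), `pvbw_pl_fz_o`, `pvbw_pl_fz_i` (`pvilFo ζ = pvilFo (cfOf Y σ)`, `pvilZo ζ = pvilZo (cfOf Y σ)`)
* sec. 7  **BLIND ENDS `PvbqEnd` OF 141 AT THE ENDS OF RECORD** `pvilEoAt pvilEiAt pvilEeAt .. (cfOf Y σ)`: **`pvbw_end_o`, `pvbw_end_i`, `pvbw_end_e`** (`pvbq_end'` + sec. 6 + `Z` finite)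
* sec. 6  **THE INSTANCES, NOTHING OWED BUT NUMBERS AND THE BASE**: **`pvbw_pl_o_top`, `pvbw_pl_i_top`, `pvbw_pl_e_top`** : `PvbqPlain C (window of record at Z) p M X Y F (mouth \ F) σ` at `(Z, F)` = base data of `cfOf Y σ`
-/

set_option autoImplicit false
set_option linter.unusedSectionVars false

namespace Claimed.Agent.R289

open Set Claims.C0465

/-! ## 1. glue -/

section glue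

variable {C Wn Y Fz y₀ : Set ℂ} {p : Conf PvPt → Prop} {M : Set (Conf PvPt)} {F : Conf PvPt → ℂ} {σ τ τ' : ℂ → Bool}

/-- the two completions have the same colour at every position at which the two colourings agree (in particular off `Y ∩ Wn \ C`) -/
theorem pvbw_pl_col (ω₂ ξ : Conf PvPt) {v : ℂ} (h : v ∈ Y → v ∈ Wn → v ∉ C → τ v = τ' v) : cfCol (pvbqZ C Wn Y τ' ω₂ ξ) v = cfCol (pvbqZ C Wn Y τ ω₂ ξ) v := by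
  unfold cfCol
  exact decide_eq_decide.2 (pvbq_Z_pts ω₂ ξ (x := (v, true)) h).symm

/-- **`PvbqPlain` FROM BLINDNESS AT FIXED GEOMETRY**: `S ζ` = the set read by `(M, F)` in `ζ` -/
theorem pvbw_pl_of (S : Conf PvPt → Set ℂ)
    (hB : ∀ ζ ζ' : Conf PvPt, cfSites ζ' = cfSites ζ → (∀ v ∈ cfSites ζ, v ∈ S ζ → cfCol ζ' v = cfCol ζ v) → ζ ∈ M → ζ' ∈ M ∧ F ζ' = F ζ)
    (hG : ∀ τ : ℂ → Bool, (∀ z ∈ Y, z ∈ Fz → τ z = σ z) → ∀ ω₂ ξ : Conf PvPt, p (pvbqZ C Wn Y τ ω₂ ξ) → pvbqZ C Wn Y τ ω₂ ξ ∈ M →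
      ∀ v ∈ S (pvbqZ C Wn Y τ ω₂ ξ), v ∈ Y → v ∈ Wn → v ∉ C → v ∈ Fz ∪ y₀) : PvbqPlain C Wn p M F Y Fz y₀ σ := by
  intro τ τ' a a' e ω₂ ξ c _ hM
  refine hB _ _ (pvbq_Z_sites C Wn Y τ' τ ω₂ ξ) (fun v _ hv => pvbw_pl_col ω₂ ξ fun h1 h2 h3 => ?_) hM
  rcases hG τ a ω₂ ξ c hM v hv h1 h2 h3 with h | h
  · rw [a v h1 h, a' v h1 h]
  · exact e v h1 h

end glue

/-! ## 2. (GEO) -/

theorem pvbw_pl_sh_sim (z q d : ℂ) (O : Set ℂ) : pvieSh z (pvthSim q d '' O) = pvthSim (z + q) d '' O := by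
  unfold pvieSh
  rw [image_image]
  refine image_congr fun w _ => ?_
  unfold pvthSim
  ring

theorem pvbw_pl_sh_mono (z : ℂ) {A B : Set ℂ} (h : A ⊆ B) : pvieSh z A ⊆ pvieSh z B := image_mono h

theorem pvbw_pl_sh_union (z : ℂ) (A B : Set ℂ) : pvieSh z (A ∪ B) = pvieSh z A ∪ pvieSh z B := image_union _ _ _

/-- **(GEO)**: a kept site of the door or of the room is fresh or frozen -/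
theorem pvbw_pl_geo {C Fz Dk Do Mo Ko Yo : Set ℂ} (hD : Dk ⊆ Do) (hY : Yo ⊆ Mo ∪ Ko ∪ Do) (hC : Ko ∪ Do ⊆ C) {v : ℂ} (hv : v ∈ Dk ∪ Yo) (h3 : v ∉ C) : v ∈ Fz ∪ Mo \ Fz := by
  have hM : v ∈ Mo := by
    rcases hv with h | h
    · exact absurd (hC (Or.inr (hD h))) h3
    · rcases hY h with (h | h) | h
      · exact h
      · exact absurd (hC (Or.inl h)) h3
      · exact absurd (hC (Or.inr h)) h3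
  by_cases hF : v ∈ Fz
  · exact Or.inl hF
  · exact Or.inr ⟨hM, hF⟩

/-! ## 3. the three end links -/

section links

variable {τ : Type} {c : ℝ} {𝔓 : PvxPar τ c} {𝔈 : PvieEng τ} {C Wn Y Fz : Set ℂ} {p : Conf PvPt → Prop} {σ : ℂ → Bool} {m : ℕ} {ε : ℝ} {z : ℂ} {t : τ} {Z : Set (ℤ × ℤ)}

/-- **`PvbqPlain` OF THE FIRST LINK** from (FZ) -/
theorem pvbw_pl_o (W : ∀ Y : Set ℂ, (delbPl Y).Dart → ℂ) {Do : Set ℂ} (hD : pvbwDk (pvilPlug (pvilRd 𝔓 m) (pvieZo 𝔓 m z t) ((𝔓.Γ m).dout t)) ⊆ Do)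
    (hY : pvieSh z (𝔈.oY m t) ⊆ pvieSh z (𝔈.oM m t) ∪ pvieSh z (𝔈.oK m t) ∪ Do) (hC : pvieSh z (𝔈.oK m t) ∪ Do ⊆ C)
    (hF : ∀ τ' : ℂ → Bool, (∀ v ∈ Y, v ∈ Fz → τ' v = σ v) → ∀ ω₂ ξ : Conf PvPt, p (pvbqZ C Wn Y τ' ω₂ ξ) → pvbqZ C Wn Y τ' ω₂ ξ ∈ pvilMo 𝔓 𝔈 m ε z t Z →
      ∀ v ∈ pvilFo 𝔓 m z t (pvbqZ C Wn Y τ' ω₂ ξ), v ∈ Y → v ∈ Wn → v ∉ C → v ∈ Fz ∪ pvieSh z (𝔈.oM m t)) :
    PvbqPlain C Wn p (pvilMo 𝔓 𝔈 m ε z t Z) ((pvilLo 𝔓 𝔈 m z t).X 𝔓.num (𝔓.col t) fun η => W (cfSites η)) Y Fz (pvieSh z (𝔈.oM m t) \ Fz) σ := by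
  refine pvbw_pl_of (pvbwSo 𝔓 𝔈 m z t) (fun ζ ζ' hS hc hζ => ⟨(pvbw_Mo W hS hc hζ).1, (pvbw_Mo W hS hc hζ).2.1⟩) ?_
  rintro τ' a ω₂ ξ c hM v ((hv | hv) | hv) h1 h2 h3
  · rcases hF τ' a ω₂ ξ c hM v hv h1 h2 h3 with h | h
    · exact Or.inl h
    · by_cases hz : v ∈ Fz
      · exact Or.inl hz
      · exact Or.inr ⟨h, hz⟩
  · exact pvbw_pl_geo hD hY hC (Or.inl hv) h3
  · exact pvbw_pl_geo hD hY hC (Or.inr hv) h3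

/-- **`PvbqPlain` OF THE LAST LINK** from (FZ) -/
theorem pvbw_pl_i (W : ∀ Y : Set ℂ, (delbPl Y).Dart → ℂ) {Do : Set ℂ} (hD : pvbwDk (pvilPlug (pvilRd 𝔓 m) (pvieZi 𝔓 m z t) ((𝔓.Γ m).din t)) ⊆ Do)
    (hY : pvieSh z (𝔈.iY m t) ⊆ pvieSh z (𝔈.iM m t) ∪ pvieSh z (𝔈.iK m t) ∪ Do) (hC : pvieSh z (𝔈.iK m t) ∪ Do ⊆ C)
    (hF : ∀ τ' : ℂ → Bool, (∀ v ∈ Y, v ∈ Fz → τ' v = σ v) → ∀ ω₂ ξ : Conf PvPt, p (pvbqZ C Wn Y τ' ω₂ ξ) → pvbqZ C Wn Y τ' ω₂ ξ ∈ pvilMi 𝔓 𝔈 m ε z t Z →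
      ∀ v ∈ pvilFi 𝔓 m z t (pvbqZ C Wn Y τ' ω₂ ξ), v ∈ Y → v ∈ Wn → v ∉ C → v ∈ Fz ∪ pvieSh z (𝔈.iM m t)) :
    PvbqPlain C Wn p (pvilMi 𝔓 𝔈 m ε z t Z) ((pvilLi 𝔓 𝔈 m z t).X 𝔓.num (𝔓.col t) fun η => W (cfSites η)) Y Fz (pvieSh z (𝔈.iM m t) \ Fz) σ := by
  refine pvbw_pl_of (pvbwSi 𝔓 𝔈 m z t) (fun ζ ζ' hS hc hζ => ⟨(pvbw_Mi W hS hc hζ).1, (pvbw_Mi W hS hc hζ).2.1⟩) ?_
  rintro τ' a ω₂ ξ c hM v ((hv | hv) | hv) h1 h2 h3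
  · exact pvbw_pl_geo hD hY hC (Or.inl hv) h3
  · rcases hF τ' a ω₂ ξ c hM v hv h1 h2 h3 with h | h
    · exact Or.inl h
    · by_cases hz : v ∈ Fz
      · exact Or.inl hz
      · exact Or.inr ⟨h, hz⟩
  · exact pvbw_pl_geo hD hY hC (Or.inr hv) h3

/-- **`PvbqPlain` OF THE THICK LINK** from (FZ) -/
theorem pvbw_pl_e (W : ∀ Y : Set ℂ, (delbPl Y).Dart → ℂ) {Do : Set ℂ} (hD : pvbwDk (pvilPlug (pvilRu 𝔈 m) (pvieZu 𝔓 m z t) 1) ⊆ Do)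
    (hY : pvieSh z (𝔈.eY m t) ⊆ pvieSh z (𝔈.eM m t) ∪ pvieSh z (𝔈.eK m t) ∪ Do) (hC : pvieSh z (𝔈.eK m t) ∪ Do ⊆ C)
    (hF : ∀ τ' : ℂ → Bool, (∀ v ∈ Y, v ∈ Fz → τ' v = σ v) → ∀ ω₂ ξ : Conf PvPt, p (pvbqZ C Wn Y τ' ω₂ ξ) → pvbqZ C Wn Y τ' ω₂ ξ ∈ pvilMe 𝔓 𝔈 m z t Z →
      ∀ v ∈ pvilFi 𝔓 m z t (pvbqZ C Wn Y τ' ω₂ ξ), v ∈ Y → v ∈ Wn → v ∉ C → v ∈ Fz ∪ pvieSh z (𝔈.eM m t)) :
    PvbqPlain C Wn p (pvilMe 𝔓 𝔈 m z t Z) ((pvilLe 𝔓 𝔈 m z t).X 𝔓.num (𝔓.col t) fun η => W (cfSites η)) Y Fz (pvieSh z (𝔈.eM m t) \ Fz) σ := by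
  refine pvbw_pl_of (pvbwSe 𝔓 𝔈 m z t) (fun ζ ζ' hS hc hζ => ⟨(pvbw_Me W hS hc hζ).1, (pvbw_Me W hS hc hζ).2.1⟩) ?_
  rintro τ' a ω₂ ξ c hM v ((hv | hv) | hv) h1 h2 h3
  · exact pvbw_pl_geo hD hY hC (Or.inl hv) h3
  · rcases hF τ' a ω₂ ξ c hM v hv h1 h2 h3 with h | h
    · exact Or.inl h
    · by_cases hz : v ∈ Fz
      · exact Or.inl hz
      · exact Or.inr ⟨h, hz⟩
  · exact pvbw_pl_geo hD hY hC (Or.inr hv) h3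

end links

/-! ## 4. the regions from `PvieEng.Wf` -/

section wf

variable {τ : Type} {c : ℝ} {𝔓 : PvxPar τ c} {𝔈 : PvieEng τ} {C Wn Y Fz : Set ℂ} {p : Conf PvPt → Prop} {σ : ℂ → Bool} {m m0 : ℕ} {ε Cth : ℝ} {r κs : ℕ → ℝ} {z : ℂ} {t : τ} {Z : Set (ℤ × ℤ)}

theorem pvbw_pl_sq_mono {a b : ℝ} (h : a ≤ b) (w : ℂ) : pvwSq w a ⊆ pvwSq w b := fun _ hv => ⟨hv.1.trans h, hv.2.trans h⟩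

/-- a door plug of level `m` reads inside the region of its door -/
theorem pvbw_pl_door (hE : PvieEng.Wf 𝔓 𝔈 m0 Cth r κs) (hm : m0 ≤ m) (ε : ℝ) (q : ℂ) {d : ℂ} (hd : ‖d‖ = 1) : pvbwDk (pvilPlug (pvilRd 𝔓 m) q d) ⊆ pvieDoor 𝔈 m ε q d := by
  have h0 := pvlm_Del_pos c m
  refine (pvbw_Dk_sub (by unfold pvilRd; positivity) hd).trans (image_mono ((pvbw_pl_sq_mono ?_ 0).trans (hE.dp_win m hm ε)))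
  unfold pvilRd
  linarith

/-- the reference plug of level `m` reads inside its region -/
theorem pvbw_pl_ref (hE : PvieEng.Wf 𝔓 𝔈 m0 Cth r κs) (hm : m0 ≤ m) (q : ℂ) : pvbwDk (pvilPlug (pvilRu 𝔈 m) q 1) ⊆ pvieSh q (𝔈.rO m) := by
  refine (pvbw_Dk_sub (hE.rp_h m hm).le norm_one).trans ?_
  rintro _ ⟨u, hu, rfl⟩
  exact ⟨u, hE.rp_win m hm hu, by unfold pvthSim; rw [one_mul]⟩

theorem pvbw_pl_sh_sh (z q : ℂ) (O : Set ℂ) : pvieSh z (pvieSh q O) = pvieSh (z + q) O := by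
  unfold pvieSh
  rw [image_image]
  exact image_congr fun w _ => (add_assoc _ _ _).symm

/-- **`PvbqPlain` OF THE FIRST LINK, regions of `PvieEng.Wf`**: (FZ) alone is owed -/
theorem pvbw_pl_o_wf (hE : PvieEng.Wf 𝔓 𝔈 m0 Cth r κs) (hm : m0 ≤ m) (ht : pviwTyOk 𝔓 t) (hd : ‖(𝔓.Γ m).dout t‖ = 1) (W : ∀ Y : Set ℂ, (delbPl Y).Dart → ℂ)
    (hC : pvieSh z (𝔈.oK m t) ∪ pvieDoor 𝔈 m ε (pvieZo 𝔓 m z t) ((𝔓.Γ m).dout t) ⊆ C)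
    (hF : ∀ τ' : ℂ → Bool, (∀ v ∈ Y, v ∈ Fz → τ' v = σ v) → ∀ ω₂ ξ : Conf PvPt, p (pvbqZ C Wn Y τ' ω₂ ξ) → pvbqZ C Wn Y τ' ω₂ ξ ∈ pvilMo 𝔓 𝔈 m ε z t Z →
      ∀ v ∈ pvilFo 𝔓 m z t (pvbqZ C Wn Y τ' ω₂ ξ), v ∈ Y → v ∈ Wn → v ∉ C → v ∈ Fz ∪ pvieSh z (𝔈.oM m t)) :
    PvbqPlain C Wn p (pvilMo 𝔓 𝔈 m ε z t Z) ((pvilLo 𝔓 𝔈 m z t).X 𝔓.num (𝔓.col t) fun η => W (cfSites η)) Y Fz (pvieSh z (𝔈.oM m t) \ Fz) σ := by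
  refine pvbw_pl_o W (pvbw_pl_door hE hm ε _ hd) ?_ hC hF
  have := pvbw_pl_sh_mono z (hE.oY_sub m hm ε t ht)
  rw [pvbw_pl_sh_union, pvbw_pl_sh_union] at this
  unfold pviwDo pvieDoor at this
  rw [pvbw_pl_sh_sim] at this
  exact this

/-- **`PvbqPlain` OF THE LAST LINK, regions of `PvieEng.Wf`** -/
theorem pvbw_pl_i_wf (hE : PvieEng.Wf 𝔓 𝔈 m0 Cth r κs) (hm : m0 ≤ m) (ht : pviwTyOk 𝔓 t) (hd : ‖(𝔓.Γ m).din t‖ = 1) (W : ∀ Y : Set ℂ, (delbPl Y).Dart → ℂ)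
    (hC : pvieSh z (𝔈.iK m t) ∪ pvieDoor 𝔈 m ε (pvieZi 𝔓 m z t) ((𝔓.Γ m).din t) ⊆ C)
    (hF : ∀ τ' : ℂ → Bool, (∀ v ∈ Y, v ∈ Fz → τ' v = σ v) → ∀ ω₂ ξ : Conf PvPt, p (pvbqZ C Wn Y τ' ω₂ ξ) → pvbqZ C Wn Y τ' ω₂ ξ ∈ pvilMi 𝔓 𝔈 m ε z t Z →
      ∀ v ∈ pvilFi 𝔓 m z t (pvbqZ C Wn Y τ' ω₂ ξ), v ∈ Y → v ∈ Wn → v ∉ C → v ∈ Fz ∪ pvieSh z (𝔈.iM m t)) :
    PvbqPlain C Wn p (pvilMi 𝔓 𝔈 m ε z t Z) ((pvilLi 𝔓 𝔈 m z t).X 𝔓.num (𝔓.col t) fun η => W (cfSites η)) Y Fz (pvieSh z (𝔈.iM m t) \ Fz) σ := by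
  refine pvbw_pl_i W (pvbw_pl_door hE hm ε _ hd) ?_ hC hF
  have := pvbw_pl_sh_mono z (hE.iY_sub m hm ε t ht)
  rw [pvbw_pl_sh_union, pvbw_pl_sh_union] at this
  unfold pviwDi pvieDoor at this
  rw [pvbw_pl_sh_sim] at this
  exact this

/-- **`PvbqPlain` OF THE THICK LINK, regions of `PvieEng.Wf`** -/
theorem pvbw_pl_e_wf (hE : PvieEng.Wf 𝔓 𝔈 m0 Cth r κs) (hm : m0 ≤ m) (ht : pviwTyOk 𝔓 t) (W : ∀ Y : Set ℂ, (delbPl Y).Dart → ℂ)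
    (hC : pvieSh z (𝔈.eK m t) ∪ pvieSh (pvieZu 𝔓 m z t) (𝔈.rO m) ⊆ C)
    (hF : ∀ τ' : ℂ → Bool, (∀ v ∈ Y, v ∈ Fz → τ' v = σ v) → ∀ ω₂ ξ : Conf PvPt, p (pvbqZ C Wn Y τ' ω₂ ξ) → pvbqZ C Wn Y τ' ω₂ ξ ∈ pvilMe 𝔓 𝔈 m z t Z →
      ∀ v ∈ pvilFi 𝔓 m z t (pvbqZ C Wn Y τ' ω₂ ξ), v ∈ Y → v ∈ Wn → v ∉ C → v ∈ Fz ∪ pvieSh z (𝔈.eM m t)) :
    PvbqPlain C Wn p (pvilMe 𝔓 𝔈 m z t Z) ((pvilLe 𝔓 𝔈 m z t).X 𝔓.num (𝔓.col t) fun η => W (cfSites η)) Y Fz (pvieSh z (𝔈.eM m t) \ Fz) σ := by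
  refine pvbw_pl_e W (pvbw_pl_ref hE hm _) ?_ hC hF
  have := pvbw_pl_sh_mono z (hE.eY_sub m hm t ht)
  rw [pvbw_pl_sh_union, pvbw_pl_sh_union] at this
  unfold pviwRo at this
  rw [pvbw_pl_sh_sh] at this
  exact this

end wf

/-! ## 5. (FZ): the completions carry the half state of the base -/

section fz

variable {τ : Type} {c : ℝ} {𝔓 : PvxPar τ c} {𝔈 : PvieEng τ} {C Wn Y : Set ℂ} {σ τ' : ℂ → Bool} {m : ℕ} {μ : ℝ} {z : ℂ} {t : τ}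

/-- **the completion agrees with the base**: same sites in `W ⊆ Wn \ C`, same colours on `F ⊆ Y ∩ W` -/
theorem pvbw_pl_agr {W F : Set ℂ} (hW : W ⊆ Wn) (hC : Disjoint C W) (hFW : F ⊆ W) (hFY : F ⊆ Y) (a : ∀ v ∈ Y, v ∈ F → τ' v = σ v) (ω₂ ξ : Conf PvPt) :
    Pvfc7Agr W F (cfOf Y σ) (pvbqZ C Wn Y τ' ω₂ ξ) := by
  have hnC : ∀ v ∈ W, v ∉ C := fun v hv hc => Set.disjoint_left.1 hC hc hv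
  refine ⟨?_, fun v hv => ?_⟩
  · rw [cfOf_sites]
    ext v
    constructor
    · rintro ⟨hv, hw⟩
      exact ⟨⟨(v, τ' v), pvbq_mem_Z.2 (Or.inl ⟨hW hw, pvbq_mem_B.2 (Or.inl ⟨hnC v hw, hv, rfl⟩)⟩), rfl⟩, hw⟩
    · rintro ⟨⟨x, hx, rfl⟩, hw⟩
      refine ⟨?_, hw⟩
      rcases pvbq_mem_Z.1 hx with ⟨-, hB⟩ | ⟨h, -⟩
      · rcases pvbq_mem_B.1 hB with ⟨-, h, -⟩ | ⟨h, -⟩
        · exact h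
        · exact absurd h (hnC _ hw)
      · exact absurd (hW hw) h
  · rw [pvdy_cfCol_cfOf σ (hFY hv), ← a v (hFY hv) hv]
    have e : ((v, true) : PvPt) ∈ (pvbqZ C Wn Y τ' ω₂ ξ).pts ↔ τ' v = true := by
      rw [pvbq_mem_Z, pvbq_mem_B]
      constructor
      · rintro (⟨-, ⟨-, -, h⟩ | ⟨h, -⟩⟩ | ⟨h, -⟩)
        · exact h.symm
        · exact absurd h (hnC v (hFW hv))
        · exact absurd (hW (hFW hv)) h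
      · exact fun h => Or.inl ⟨hW (hFW hv), Or.inl ⟨hnC v (hFW hv), hFY hv, h.symm⟩⟩
    unfold cfCol
    by_cases h : τ' v = true
    · rw [h]
      simp only [decide_eq_true_eq]
      exact e.2 h
    · rw [Bool.not_eq_true _ |>.mp h]
      exact (decide_eq_false_iff_not).2 fun h' => h (e.1 h')

/-- **(FZ), EXIT HALF**: every good completion has the base data of the base -/
theorem pvbw_pl_fz_o (hμ : 0 < μ) (h3 : 3 * μ ≤ pvlmDel c m) (hb : (𝔓.ty t).b * pvlmH m ≤ pviwRad 𝔓 m t) (hr : μ < (𝔓.ty t).b * pvlmH m)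
    (hm : cfOf Y σ ∈ pvrgMesh μ (pvieSh z (pviwBox 𝔓 m t))) (h₀ : cfOf Y σ ∈ pvilUo 𝔓.num (𝔓.col t) (pvilPin 𝔓 m z t))
    (hW : pvfc7Wo 𝔓 m z t (cfOf Y σ) ⊆ Wn) (hC : Disjoint C (pvfc7Wo 𝔓 m z t (cfOf Y σ))) (a : ∀ v ∈ Y, v ∈ pvilFo 𝔓 m z t (cfOf Y σ) → τ' v = σ v) (ω₂ ξ : Conf PvPt)
    (hG : DelGood (cfSites (pvbqZ C Wn Y τ' ω₂ ξ))) :
    pvilFo 𝔓 m z t (pvbqZ C Wn Y τ' ω₂ ξ) = pvilFo 𝔓 m z t (cfOf Y σ) ∧ pvilZo 𝔓 m z t (pvbqZ C Wn Y τ' ω₂ ξ) = pvilZo 𝔓 m z t (cfOf Y σ) := by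
  obtain ⟨𝔖₀, h₀⟩ := h₀
  have hFW : pvilFo 𝔓 m z t (cfOf Y σ) ⊆ pvfc7Wo 𝔓 m z t (cfOf Y σ) := (pvfc7_fo_core hb h₀).trans (pvfc7_core_sub (pvlm_Del_pos c m).le _)
  have hFY : pvilFo 𝔓 m z t (cfOf Y σ) ⊆ Y := fun v hv => by
    have := pvfc7_fzO_sites hv
    rwa [cfOf_sites] at this
  obtain ⟨-, -, -, e1, e2⟩ := pvfc7_out_model hμ h3 hb hr hm h₀ hG (pvbw_pl_agr hW hC hFW hFY a ω₂ ξ)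
  exact ⟨e1, e2⟩

/-- **(FZ), ENTRANCE HALF** -/
theorem pvbw_pl_fz_i (hμ : 0 < μ) (h3 : 3 * μ ≤ pvlmDel c m) (hb : (𝔓.ty t).b * pvlmH m ≤ pviwRad 𝔓 m t) (hr : μ < (𝔓.ty t).b * pvlmH m)
    (hm : cfOf Y σ ∈ pvrgMesh μ (pvieSh z (pviwBox 𝔓 m t))) (h₀ : cfOf Y σ ∈ pvilUi 𝔓.num (𝔓.col t) (pvilPin 𝔓 m z t))
    (hW : pvfc7Wi 𝔓 m z t (cfOf Y σ) ⊆ Wn) (hC : Disjoint C (pvfc7Wi 𝔓 m z t (cfOf Y σ))) (a : ∀ v ∈ Y, v ∈ pvilFi 𝔓 m z t (cfOf Y σ) → τ' v = σ v) (ω₂ ξ : Conf PvPt)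
    (hG : DelGood (cfSites (pvbqZ C Wn Y τ' ω₂ ξ))) :
    pvilFi 𝔓 m z t (pvbqZ C Wn Y τ' ω₂ ξ) = pvilFi 𝔓 m z t (cfOf Y σ) ∧ pvilZi 𝔓 m z t (pvbqZ C Wn Y τ' ω₂ ξ) = pvilZi 𝔓 m z t (cfOf Y σ) := by
  obtain ⟨𝔖₀, h₀⟩ := h₀
  have hFW : pvilFi 𝔓 m z t (cfOf Y σ) ⊆ pvfc7Wi 𝔓 m z t (cfOf Y σ) := (pvfc7_fi_core hb h₀).trans (pvfc7_core_sub (pvlm_Del_pos c m).le _)
  have hFY : pvilFi 𝔓 m z t (cfOf Y σ) ⊆ Y := fun v hv => by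
    have := pvfc7_fzI_sites hv
    rwa [cfOf_sites] at this
  obtain ⟨-, -, -, e1, e2⟩ := pvfc7_in_model hμ h3 hb hr hm h₀ hG (pvbw_pl_agr hW hC hFW hFY a ω₂ ξ)
  exact ⟨e1, e2⟩

/-- the region of agreement of 71 is the part `pvilWz` of the windows of record at the base hull -/
theorem pvbw_pl_Wo (𝔓 : PvxPar τ c) (m : ℕ) (z : ℂ) (t : τ) (η₀ : Conf PvPt) : pvfc7Wo 𝔓 m z t η₀ = pvilWz 𝔓 m z t (pvilZo 𝔓 m z t η₀) := by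
  unfold pvfc7Wo pvilWz
  rw [pvza_Bx_eq]

theorem pvbw_pl_Wi (𝔓 : PvxPar τ c) (m : ℕ) (z : ℂ) (t : τ) (η₀ : Conf PvPt) : pvfc7Wi 𝔓 m z t η₀ = pvilWz 𝔓 m z t (pvilZi 𝔓 m z t η₀) := by
  unfold pvfc7Wi pvilWz
  rw [pvza_Bx_eq]

end fz

/-! ## 6. the instances -/

section top

variable {τ : Type} {c : ℝ} {𝔓 : PvxPar τ c} {𝔈 : PvieEng τ} {C Y : Set ℂ} {p : Conf PvPt → Prop} {σ : ℂ → Bool} {m m0 : ℕ} {ε Cth μ : ℝ} {r κs : ℕ → ℝ} {z : ℂ} {t : τ}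

/-- **`PvbqPlain` OF THE FIRST LINK AT THE BASE DATA OF `cfOf Y σ`** -/
theorem pvbw_pl_o_top (hE : PvieEng.Wf 𝔓 𝔈 m0 Cth r κs) (hm0 : m0 ≤ m) (ht : pviwTyOk 𝔓 t) (hd : ‖(𝔓.Γ m).dout t‖ = 1) (W : ∀ Y : Set ℂ, (delbPl Y).Dart → ℂ)
    (hμ : 0 < μ) (h3 : 3 * μ ≤ pvlmDel c m) (hb : (𝔓.ty t).b * pvlmH m ≤ pviwRad 𝔓 m t) (hr : μ < (𝔓.ty t).b * pvlmH m)
    (hm : cfOf Y σ ∈ pvrgMesh μ (pvieSh z (pviwBox 𝔓 m t))) (h₀ : cfOf Y σ ∈ pvilUo 𝔓.num (𝔓.col t) (pvilPin 𝔓 m z t)) (hp : ∀ ζ, p ζ → DelGood (cfSites ζ))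
    (hC : pvieSh z (𝔈.oK m t) ∪ pvieDoor 𝔈 m ε (pvieZo 𝔓 m z t) ((𝔓.Γ m).dout t) ⊆ C) (hCW : Disjoint C (pvilWz 𝔓 m z t (pvilZo 𝔓 m z t (cfOf Y σ)))) :
    PvbqPlain C (pvilWno 𝔓 𝔈 m ε z t (pvilZo 𝔓 m z t (cfOf Y σ))) p (pvilMo 𝔓 𝔈 m ε z t (pvilZo 𝔓 m z t (cfOf Y σ))) ((pvilLo 𝔓 𝔈 m z t).X 𝔓.num (𝔓.col t) fun η => W (cfSites η)) Y
      (pvilFo 𝔓 m z t (cfOf Y σ)) (pvieSh z (𝔈.oM m t) \ pvilFo 𝔓 m z t (cfOf Y σ)) σ := by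
  refine pvbw_pl_o_wf hE hm0 ht hd W hC fun τ' a ω₂ ξ c _ v hv _ _ _ => Or.inl ?_
  rw [(pvbw_pl_fz_o hμ h3 hb hr hm h₀ ?_ ?_ a ω₂ ξ (hp _ c)).1] at hv
  · exact hv
  · rw [pvbw_pl_Wo]
    exact fun v hv => Or.inl (Or.inl (Or.inl hv))
  · rw [pvbw_pl_Wo]
    exact hCW

/-- **`PvbqPlain` OF THE LAST LINK AT THE BASE DATA OF `cfOf Y σ`** -/
theorem pvbw_pl_i_top (hE : PvieEng.Wf 𝔓 𝔈 m0 Cth r κs) (hm0 : m0 ≤ m) (ht : pviwTyOk 𝔓 t) (hd : ‖(𝔓.Γ m).din t‖ = 1) (W : ∀ Y : Set ℂ, (delbPl Y).Dart → ℂ)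
    (hμ : 0 < μ) (h3 : 3 * μ ≤ pvlmDel c m) (hb : (𝔓.ty t).b * pvlmH m ≤ pviwRad 𝔓 m t) (hr : μ < (𝔓.ty t).b * pvlmH m)
    (hm : cfOf Y σ ∈ pvrgMesh μ (pvieSh z (pviwBox 𝔓 m t))) (h₀ : cfOf Y σ ∈ pvilUi 𝔓.num (𝔓.col t) (pvilPin 𝔓 m z t)) (hp : ∀ ζ, p ζ → DelGood (cfSites ζ))
    (hC : pvieSh z (𝔈.iK m t) ∪ pvieDoor 𝔈 m ε (pvieZi 𝔓 m z t) ((𝔓.Γ m).din t) ⊆ C) (hCW : Disjoint C (pvilWz 𝔓 m z t (pvilZi 𝔓 m z t (cfOf Y σ)))) :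
    PvbqPlain C (pvilWni 𝔓 𝔈 m ε z t (pvilZi 𝔓 m z t (cfOf Y σ))) p (pvilMi 𝔓 𝔈 m ε z t (pvilZi 𝔓 m z t (cfOf Y σ))) ((pvilLi 𝔓 𝔈 m z t).X 𝔓.num (𝔓.col t) fun η => W (cfSites η)) Y
      (pvilFi 𝔓 m z t (cfOf Y σ)) (pvieSh z (𝔈.iM m t) \ pvilFi 𝔓 m z t (cfOf Y σ)) σ := by
  refine pvbw_pl_i_wf hE hm0 ht hd W hC fun τ' a ω₂ ξ c _ v hv _ _ _ => Or.inl ?_
  rw [(pvbw_pl_fz_i hμ h3 hb hr hm h₀ ?_ ?_ a ω₂ ξ (hp _ c)).1] at hv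
  · exact hv
  · rw [pvbw_pl_Wi]
    exact fun v hv => Or.inl (Or.inl (Or.inl hv))
  · rw [pvbw_pl_Wi]
    exact hCW

/-- **`PvbqPlain` OF THE THICK LINK AT THE BASE DATA OF `cfOf Y σ`** -/
theorem pvbw_pl_e_top (hE : PvieEng.Wf 𝔓 𝔈 m0 Cth r κs) (hm0 : m0 ≤ m) (ht : pviwTyOk 𝔓 t) (W : ∀ Y : Set ℂ, (delbPl Y).Dart → ℂ)
    (hμ : 0 < μ) (h3 : 3 * μ ≤ pvlmDel c m) (hb : (𝔓.ty t).b * pvlmH m ≤ pviwRad 𝔓 m t) (hr : μ < (𝔓.ty t).b * pvlmH m)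
    (hm : cfOf Y σ ∈ pvrgMesh μ (pvieSh z (pviwBox 𝔓 m t))) (h₀ : cfOf Y σ ∈ pvilUi 𝔓.num (𝔓.col t) (pvilPin 𝔓 m z t)) (hp : ∀ ζ, p ζ → DelGood (cfSites ζ))
    (hC : pvieSh z (𝔈.eK m t) ∪ pvieSh (pvieZu 𝔓 m z t) (𝔈.rO m) ⊆ C) (hCW : Disjoint C (pvilWz 𝔓 m z t (pvilZi 𝔓 m z t (cfOf Y σ)))) :
    PvbqPlain C (pvilWne 𝔓 𝔈 m z t (pvilZi 𝔓 m z t (cfOf Y σ))) p (pvilMe 𝔓 𝔈 m z t (pvilZi 𝔓 m z t (cfOf Y σ))) ((pvilLe 𝔓 𝔈 m z t).X 𝔓.num (𝔓.col t) fun η => W (cfSites η)) Y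
      (pvilFi 𝔓 m z t (cfOf Y σ)) (pvieSh z (𝔈.eM m t) \ pvilFi 𝔓 m z t (cfOf Y σ)) σ := by
  refine pvbw_pl_e_wf hE hm0 ht W hC fun τ' a ω₂ ξ c _ v hv _ _ _ => Or.inl ?_
  rw [(pvbw_pl_fz_i hμ h3 hb hr hm h₀ ?_ ?_ a ω₂ ξ (hp _ c)).1] at hv
  · exact hv
  · rw [pvbw_pl_Wi]
    exact fun v hv => Or.inl (Or.inl (Or.inl hv))
  · rw [pvbw_pl_Wi]
    exact hCW

end top

/-! ## 7. blind ends at the ends of record -/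

section ends

variable {τ : Type} {c : ℝ} {𝔓 : PvxPar τ c} {𝔈 : PvieEng τ} {C Y : Set ℂ} {p : Conf PvPt → Prop} {σ : ℂ → Bool} {m m0 : ℕ} {ε Cth μ : ℝ} {r κs : ℕ → ℝ} {z : ℂ} {t : τ}

theorem pvbw_end_fin {Z : Set (ℤ × ℤ)} (h : Z.Finite) (A : Set (Conf PvPt)) : pvilFin Z A = A := by
  unfold pvilFin
  exact if_pos h

/-- **THE FIRST LINK AT THE BASE DATA OF `cfOf Y σ` IS A BLIND END** at a generic geometry -/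
theorem pvbw_end_o (hE : PvieEng.Wf 𝔓 𝔈 m0 Cth r κs) (hm0 : m0 ≤ m) (ht : pviwTyOk 𝔓 t) (hd : ‖(𝔓.Γ m).dout t‖ = 1) (W : ∀ Y : Set ℂ, (delbPl Y).Dart → ℂ)
    (hμ : 0 < μ) (h3 : 3 * μ ≤ pvlmDel c m) (hb : (𝔓.ty t).b * pvlmH m ≤ pviwRad 𝔓 m t) (hr : μ < (𝔓.ty t).b * pvlmH m)
    (hm : cfOf Y σ ∈ pvrgMesh μ (pvieSh z (pviwBox 𝔓 m t))) (h₀ : cfOf Y σ ∈ pvilUo 𝔓.num (𝔓.col t) (pvilPin 𝔓 m z t)) (hp : ∀ ζ, p ζ → DelGood (cfSites ζ))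
    (hC : pvieSh z (𝔈.oK m t) ∪ pvieDoor 𝔈 m ε (pvieZo 𝔓 m z t) ((𝔓.Γ m).dout t) ⊆ C) (hCW : Disjoint C (pvilWz 𝔓 m z t (pvilZo 𝔓 m z t (cfOf Y σ))))
    (mW : MeasurableSet (pvilWno 𝔓 𝔈 m ε z t (pvilZo 𝔓 m z t (cfOf Y σ)))) (mKD : MeasurableSet (pvieSh z (𝔈.oK m t) ∪ pvkyDoor (𝔈.kit m ε) (pvieZo 𝔓 m z t) ((𝔓.Γ m).dout t)))
    (win : C ∩ pvilWno 𝔓 𝔈 m ε z t (pvilZo 𝔓 m z t (cfOf Y σ)) =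
      (pvieSh z (𝔈.oK m t) ∪ pvkyDoor (𝔈.kit m ε) (pvieZo 𝔓 m z t) ((𝔓.Γ m).dout t)) ∩ pvilWno 𝔓 𝔈 m ε z t (pvilZo 𝔓 m z t (cfOf Y σ)))
    (hG : pvbqGen ε C (pvilWno 𝔓 𝔈 m ε z t (pvilZo 𝔓 m z t (cfOf Y σ))) p Y)
    (h1 : ∀ ζ, p ζ → pvbqOk (pvP ε) (pvilMo 𝔓 𝔈 m ε z t (pvilZo 𝔓 m z t (cfOf Y σ)) ∩
        {η | (pvilLo 𝔓 𝔈 m z t).X 𝔓.num (𝔓.col t) (fun η => W (cfSites η)) η = (pvilEoAt 𝔓 𝔈 m ε (fun η => W (cfSites η)) z t (cfOf Y σ)).X η})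
      ((pvilMo 𝔓 𝔈 m ε z t (pvilZo 𝔓 m z t (cfOf Y σ))).indicator ((pvilLo 𝔓 𝔈 m z t).X 𝔓.num (𝔓.col t) fun η => W (cfSites η))) ζ) :
    PvbqEnd ε C (pvkyDoor (𝔈.kit m ε) (pvieZo 𝔓 m z t) ((𝔓.Γ m).dout t)) (pvilEoAt 𝔓 𝔈 m ε (fun η => W (cfSites η)) z t (cfOf Y σ)) Y (pvilFo 𝔓 m z t (cfOf Y σ)) σ :=
  pvbq_end' mW mKD rfl (pvbw_end_fin (pvkfl_Zo_finite 𝔓 m z t (pvlm_Del_pos c m) _) _) (fun _ _ => rfl) (fun _ _ hz h => h.2 hz) win hG h1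
    (pvbw_pl_o_top hE hm0 ht hd W hμ h3 hb hr hm h₀ hp hC hCW)

/-- **THE LAST LINK AT THE BASE DATA OF `cfOf Y σ` IS A BLIND END** at a generic geometry -/
theorem pvbw_end_i (hE : PvieEng.Wf 𝔓 𝔈 m0 Cth r κs) (hm0 : m0 ≤ m) (ht : pviwTyOk 𝔓 t) (hd : ‖(𝔓.Γ m).din t‖ = 1) (W : ∀ Y : Set ℂ, (delbPl Y).Dart → ℂ)
    (hμ : 0 < μ) (h3 : 3 * μ ≤ pvlmDel c m) (hb : (𝔓.ty t).b * pvlmH m ≤ pviwRad 𝔓 m t) (hr : μ < (𝔓.ty t).b * pvlmH m)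
    (hm : cfOf Y σ ∈ pvrgMesh μ (pvieSh z (pviwBox 𝔓 m t))) (h₀ : cfOf Y σ ∈ pvilUi 𝔓.num (𝔓.col t) (pvilPin 𝔓 m z t)) (hp : ∀ ζ, p ζ → DelGood (cfSites ζ))
    (hC : pvieSh z (𝔈.iK m t) ∪ pvieDoor 𝔈 m ε (pvieZi 𝔓 m z t) ((𝔓.Γ m).din t) ⊆ C) (hCW : Disjoint C (pvilWz 𝔓 m z t (pvilZi 𝔓 m z t (cfOf Y σ))))
    (mW : MeasurableSet (pvilWni 𝔓 𝔈 m ε z t (pvilZi 𝔓 m z t (cfOf Y σ)))) (mKD : MeasurableSet (pvieSh z (𝔈.iK m t) ∪ pvkyDoor (𝔈.kit m ε) (pvieZi 𝔓 m z t) ((𝔓.Γ m).din t)))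
    (win : C ∩ pvilWni 𝔓 𝔈 m ε z t (pvilZi 𝔓 m z t (cfOf Y σ)) =
      (pvieSh z (𝔈.iK m t) ∪ pvkyDoor (𝔈.kit m ε) (pvieZi 𝔓 m z t) ((𝔓.Γ m).din t)) ∩ pvilWni 𝔓 𝔈 m ε z t (pvilZi 𝔓 m z t (cfOf Y σ)))
    (hG : pvbqGen ε C (pvilWni 𝔓 𝔈 m ε z t (pvilZi 𝔓 m z t (cfOf Y σ))) p Y)
    (h1 : ∀ ζ, p ζ → pvbqOk (pvP ε) (pvilMi 𝔓 𝔈 m ε z t (pvilZi 𝔓 m z t (cfOf Y σ)) ∩
        {η | (pvilLi 𝔓 𝔈 m z t).X 𝔓.num (𝔓.col t) (fun η => W (cfSites η)) η = (pvilEiAt 𝔓 𝔈 m ε (fun η => W (cfSites η)) z t (cfOf Y σ)).X η})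
      ((pvilMi 𝔓 𝔈 m ε z t (pvilZi 𝔓 m z t (cfOf Y σ))).indicator ((pvilLi 𝔓 𝔈 m z t).X 𝔓.num (𝔓.col t) fun η => W (cfSites η))) ζ) :
    PvbqEnd ε C (pvkyDoor (𝔈.kit m ε) (pvieZi 𝔓 m z t) ((𝔓.Γ m).din t)) (pvilEiAt 𝔓 𝔈 m ε (fun η => W (cfSites η)) z t (cfOf Y σ)) Y (pvilFi 𝔓 m z t (cfOf Y σ)) σ :=
  pvbq_end' mW mKD rfl (pvbw_end_fin (pvkfl_Zi_finite 𝔓 m z t (pvlm_Del_pos c m) _) _) (fun _ _ => rfl) (fun _ _ hz h => h.2 hz) win hG h1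
    (pvbw_pl_i_top hE hm0 ht hd W hμ h3 hb hr hm h₀ hp hC hCW)

/-- **THE THICK LINK AT THE BASE DATA OF `cfOf Y σ` IS A BLIND END** at a generic geometry (`D` = the region of the reference plug) -/
theorem pvbw_end_e (hE : PvieEng.Wf 𝔓 𝔈 m0 Cth r κs) (hm0 : m0 ≤ m) (ht : pviwTyOk 𝔓 t) (W : ∀ Y : Set ℂ, (delbPl Y).Dart → ℂ)
    (hμ : 0 < μ) (h3 : 3 * μ ≤ pvlmDel c m) (hb : (𝔓.ty t).b * pvlmH m ≤ pviwRad 𝔓 m t) (hr : μ < (𝔓.ty t).b * pvlmH m)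
    (hm : cfOf Y σ ∈ pvrgMesh μ (pvieSh z (pviwBox 𝔓 m t))) (h₀ : cfOf Y σ ∈ pvilUi 𝔓.num (𝔓.col t) (pvilPin 𝔓 m z t)) (hp : ∀ ζ, p ζ → DelGood (cfSites ζ))
    (hC : pvieSh z (𝔈.eK m t) ∪ pvieSh (pvieZu 𝔓 m z t) (𝔈.rO m) ⊆ C) (hCW : Disjoint C (pvilWz 𝔓 m z t (pvilZi 𝔓 m z t (cfOf Y σ))))
    (mW : MeasurableSet (pvilWne 𝔓 𝔈 m z t (pvilZi 𝔓 m z t (cfOf Y σ)))) (mKD : MeasurableSet (pvieSh z (𝔈.eK m t) ∪ pvieSh (pvieZu 𝔓 m z t) (𝔈.rO m)))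
    (win : C ∩ pvilWne 𝔓 𝔈 m z t (pvilZi 𝔓 m z t (cfOf Y σ)) = (pvieSh z (𝔈.eK m t) ∪ pvieSh (pvieZu 𝔓 m z t) (𝔈.rO m)) ∩ pvilWne 𝔓 𝔈 m z t (pvilZi 𝔓 m z t (cfOf Y σ)))
    (hG : pvbqGen ε C (pvilWne 𝔓 𝔈 m z t (pvilZi 𝔓 m z t (cfOf Y σ))) p Y)
    (h1 : ∀ ζ, p ζ → pvbqOk (pvP ε) (pvilMe 𝔓 𝔈 m z t (pvilZi 𝔓 m z t (cfOf Y σ)) ∩
        {η | (pvilLe 𝔓 𝔈 m z t).X 𝔓.num (𝔓.col t) (fun η => W (cfSites η)) η = (pvilEeAt 𝔓 𝔈 m ε (fun η => W (cfSites η)) z t (cfOf Y σ)).X η})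
      ((pvilMe 𝔓 𝔈 m z t (pvilZi 𝔓 m z t (cfOf Y σ))).indicator ((pvilLe 𝔓 𝔈 m z t).X 𝔓.num (𝔓.col t) fun η => W (cfSites η))) ζ) :
    PvbqEnd ε C (pvieSh (pvieZu 𝔓 m z t) (𝔈.rO m)) (pvilEeAt 𝔓 𝔈 m ε (fun η => W (cfSites η)) z t (cfOf Y σ)) Y (pvilFi 𝔓 m z t (cfOf Y σ)) σ :=
  pvbq_end' mW mKD rfl (pvbw_end_fin (pvkfl_Zi_finite 𝔓 m z t (pvlm_Del_pos c m) _) _) (fun _ _ => rfl) (fun _ _ hz h => h.2 hz) win hG h1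
    (pvbw_pl_e_top hE hm0 ht W hμ h3 hb hr hm h₀ hp hC hCW)

end ends

end Claimed.Agent.R289
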