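-- KEEP CAPOK
import Claimed.Agent.R289.Tr.BlindP
import Claimed.Agent.R289.Tr.FrcCar
import Claimed.Agent.R289.Tr.InstLB
import Claimed.Agent.R289.Tr.AtCylL

/-!
# Row 289 (S0537, Cardy for Poisson-Voronoi), THE WALL, ROAD E, file Tr/PlainR : (FZ) AND `PvbqPlain` OF 141 AT THE DATA OF RECORD, NO MODEL HYPOTHESIS LEFT      (helper255, RACE[PvbqPlain]; prefix `pvkfp_`)      0 sorry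

`Tr/BlindP` (197) reduces `PvbqPlain` at the three end links `o i e` of `Tr/InstL` v2.2.1 to (FZ): the frozen positions of the completion `ζ = pvbqZ C Wn Y τ ω₂ ξ ∈ M(Z)` are those of the base `cfOf Y σ`.
(FZ) = the carry of 71 (`Tr/FrcCar`, CORE form `pvfc7_out pvfc7_in`).      NO CHAIN ARGUMENT, NO MESH OF THE BASE, NO DENSITY HYPOTHESIS: `ζ ∈ M(Z)` carries ITS OWN half state with the SAME hull `Z`, so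
the sites of `ζ` in the open gate disc are frozen IN `ζ`, hence their `δ`-balls lie in `pvilWz Z` (38 `pvza_ballO_Wz`);   the mesh of the window is a clause of `M(Z)`, and it is read in `pvilWz Z`, where the two configurations have the same sites.
* sec. 1  two configurations: **`pvkfp_fo`**, **`pvkfp_fi`** (`F η = F η₀`: both carry the half state, same hull, same sites in `pvilWz Z`, same colours on `F η₀`, mesh `μ` (`3 μ ≤ δ`) of `η` read in `pvilWz Z`)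
* sec. 2  the completions of 141: `pvkfp_agr` (`Pvfc7Agr W F (cfOf Y σ) (pvbqZ C Wn Y τ ω₂ ξ)`), `pvkfp_Mu_pos`, `pvkfp_Mu_le`, `pvkfp_Uo_of_Mo` ..;   **`pvkfp_FZ_o`, `pvkfp_FZ_i`, `pvkfp_FZ_e`** = (FZ) as an EQUALITY
* sec. 3  **`pvkfp_plain_o`, `pvkfp_plain_i`, `pvkfp_plain_e`** : `PvbqPlain C Wn p M(Z₀) X Y F₀ (mouth \ F₀) σ`, `Z₀ F₀` = base data of `cfOf Y σ`, ANY `p`, any weight read from the sites (`pvilQ pvilV`: `pvbw_Q pvbw_V` of 197)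
HYPOTHESES LEFT (regions and numbers only; the base need NOT be assumed to carry the half state: `pvkfp_base_o _i`, the hull of a half state is not empty):   `pvilWz Z₀ ⊆ Wn` (true for `pvilWno pvilWni pvilWne`: `pvkfp_Wz_o _i _e`);   `C` misses `pvilWz Z₀` (`pvza_off_Wz` of 38);   tile and door `⊆ C`;   numbers `b h ≤ r_k`, `0 < ρ''`.
-/

set_option autoImplicit false
set_option linter.unusedSectionVars false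

namespace Claimed.Agent.R289

open Set Metric Claims.C0465

/-! ## 1. two configurations which carry the half state with the same hull -/

section two

variable {τ : Type} {c : ℝ} {𝔓 : PvxPar τ c} {m : ℕ} {z : ℂ} {t : τ} {μ : ℝ} {η₀ η : Conf PvPt}

theorem pvkfp_mesh_mono {ρ : ℝ} {E E' Y : Set ℂ} (h : PvtrMesh ρ E' Y) (hE : E ⊆ E') : PvtrMesh ρ E Y := VorDense.mono h Subset.rfl (pvtr_core_mono hE) le_rfl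

/-- **(FZ), EXIT HALF, TWO CONFIGURATIONS** -/
theorem pvkfp_fo (hμ : 0 < μ) (h3 : 3 * μ ≤ pvlmDel c m) (hb : (𝔓.ty t).b * pvlmH m ≤ pviwRad 𝔓 m t)
    (h₀ : η₀ ∈ pvilUo 𝔓.num (𝔓.col t) (pvilPin 𝔓 m z t)) (h : η ∈ pvilUo 𝔓.num (𝔓.col t) (pvilPin 𝔓 m z t)) (hZ : pvilZo 𝔓 m z t η = pvilZo 𝔓 m z t η₀)
    (hm : PvtrMesh μ (pvilWz 𝔓 m z t (pvilZo 𝔓 m z t η₀)) (cfSites η)) (hA : Pvfc7Agr (pvilWz 𝔓 m z t (pvilZo 𝔓 m z t η₀)) (pvilFo 𝔓 m z t η₀) η₀ η) :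
    pvilFo 𝔓 m z t η = pvilFo 𝔓 m z t η₀ := by
  obtain ⟨𝔖₀, h₀⟩ := h₀
  obtain ⟨𝔖, h⟩ := h
  have hf := pvfc7_pin_fr 𝔓 m z t
  have hδ := pvlm_Del_pos c m
  have eF₀ : pvilFo 𝔓 m z t η₀ = pviePos η₀ '' 𝔖₀.fzOut := pvfc7_fzO hf h₀
  have eF : pvilFo 𝔓 m z t η = pviePos η '' 𝔖.fzOut := pvfc7_fzO hf h
  have hS : PvgeSame (pvieY η₀) (pvieY η) (pvtrCore (3 * μ) (pvilWz 𝔓 m z t (pvilZo 𝔓 m z t η₀))) := pvge_same_core hμ hA.1 ((pvtr_mesh_congr hA.1).2 hm)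
  obtain ⟨𝔖₁, -, h1, h2⟩ := pvfc7_out hf h.good hS h₀
    (fun v hv => pvtr_core_anti h3 (pvza_ballO_Wz hb hδ (eF₀ ▸ ⟨v, hv, rfl⟩ : pviePos η₀ v ∈ pvilFo 𝔓 m z t η₀)))
    (fun a ha hlt => by
      have ha2 : a ∈ pvilFo 𝔓 m z t η := by
        rw [eF]
        refine ⟨⟨a, ha⟩, Or.inl (Or.inl ((pvwk_mem_core h.st.gate).2 ?_)), rfl⟩
        show ‖(starRingEnd ℂ) (pvilPin 𝔓 m z t).fr * a - (starRingEnd ℂ) (pvilPin 𝔓 m z t).fr * (pvilPin 𝔓 m z t).z‖ < _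
        rw [pvfc7_fr_norm hf]
        exact hlt
      have := pvza_ballO_Wz hb hδ ha2
      rw [hZ] at this
      exact pvtr_core_anti h3 this)
    (fun v hv => hA.2 _ (eF₀ ▸ ⟨v, hv, rfl⟩))
  have e1 : pvilFo 𝔓 m z t η = pviePos η '' 𝔖₁.fzOut := pvfc7_fzO hf h1
  rw [e1, h2, eF₀]

/-- **(FZ), ENTRANCE HALF, TWO CONFIGURATIONS** -/
theorem pvkfp_fi (hμ : 0 < μ) (h3 : 3 * μ ≤ pvlmDel c m) (hb : (𝔓.ty t).b * pvlmH m ≤ pviwRad 𝔓 m t)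
    (h₀ : η₀ ∈ pvilUi 𝔓.num (𝔓.col t) (pvilPin 𝔓 m z t)) (h : η ∈ pvilUi 𝔓.num (𝔓.col t) (pvilPin 𝔓 m z t)) (hZ : pvilZi 𝔓 m z t η = pvilZi 𝔓 m z t η₀)
    (hm : PvtrMesh μ (pvilWz 𝔓 m z t (pvilZi 𝔓 m z t η₀)) (cfSites η)) (hA : Pvfc7Agr (pvilWz 𝔓 m z t (pvilZi 𝔓 m z t η₀)) (pvilFi 𝔓 m z t η₀) η₀ η) :
    pvilFi 𝔓 m z t η = pvilFi 𝔓 m z t η₀ := by
  obtain ⟨𝔖₀, h₀⟩ := h₀
  obtain ⟨𝔖, h⟩ := h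
  have hf := pvfc7_pin_fr 𝔓 m z t
  have hδ := pvlm_Del_pos c m
  have eF₀ : pvilFi 𝔓 m z t η₀ = pviePos η₀ '' 𝔖₀.fzIn := pvfc7_fzI hf h₀
  have eF : pvilFi 𝔓 m z t η = pviePos η '' 𝔖.fzIn := pvfc7_fzI hf h
  have hS : PvgeSame (pvieY η₀) (pvieY η) (pvtrCore (3 * μ) (pvilWz 𝔓 m z t (pvilZi 𝔓 m z t η₀))) := pvge_same_core hμ hA.1 ((pvtr_mesh_congr hA.1).2 hm)
  obtain ⟨𝔖₁, -, h1, h2⟩ := pvfc7_in hf h.good hS h₀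
    (fun v hv => pvtr_core_anti h3 (pvza_ballI_Wz hb hδ (eF₀ ▸ ⟨v, hv, rfl⟩ : pviePos η₀ v ∈ pvilFi 𝔓 m z t η₀)))
    (fun a ha hlt => by
      have ha2 : a ∈ pvilFi 𝔓 m z t η := by
        rw [eF]
        refine ⟨⟨a, ha⟩, Or.inl (Or.inl ((pvwk_mem_core h.st.gate).2 ?_)), rfl⟩
        show ‖(starRingEnd ℂ) (pvilPin 𝔓 m z t).fr * a - (starRingEnd ℂ) (pvilPin 𝔓 m z t).fr * (pvilPin 𝔓 m z t).z‖ < _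
        rw [pvfc7_fr_norm hf]
        exact hlt
      have := pvza_ballI_Wz hb hδ ha2
      rw [hZ] at this
      exact pvtr_core_anti h3 this)
    (fun v hv => hA.2 _ (eF₀ ▸ ⟨v, hv, rfl⟩))
  have e1 : pvilFi 𝔓 m z t η = pviePos η '' 𝔖₁.fzIn := pvfc7_fzI hf h1
  rw [e1, h2, eF₀]

end two

/-! ## 2. the completions of 141 -/

section compl

variable {C Wn Y W F : Set ℂ} {σ τ' : ℂ → Bool}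

/-- **the completion agrees with the base**: same sites in `W ⊆ Wn \ C`, same colours on `F ⊆ Y ∩ W` -/
theorem pvkfp_agr (hW : W ⊆ Wn) (hC : Disjoint C W) (hFW : F ⊆ W) (hFY : F ⊆ Y) (hτ : ∀ v ∈ Y, v ∈ F → τ' v = σ v) (ω₂ ξ : Conf PvPt) :
    Pvfc7Agr W F (cfOf Y σ) (pvbqZ C Wn Y τ' ω₂ ξ) := by
  have a1 : Pvfc7Agr W F (cfOf Y σ) (cfOf Y τ') :=
    ⟨by rw [cfOf_sites, cfOf_sites], fun a ha => by rw [pvdy_cfCol_cfOf _ (hFY ha), pvdy_cfCol_cfOf _ (hFY ha)]; exact hτ a (hFY ha) ha⟩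
  have hWC : W ⊆ Cᶜ := fun a ha hc => Set.disjoint_left.1 hC hc ha
  have a2 : Pvfc7Agr W F (cfOf Y τ') (pvbqB C Y τ' ω₂) := pvfc7_agr_spl hWC (hFW.trans hWC) _ _
  have a3 : Pvfc7Agr W F (pvbqB C Y τ' ω₂) (pvbqZ C Wn Y τ' ω₂ ξ) := pvfc7_agr_spl hW (hFW.trans hW) _ _
  exact (a1.trans a2).trans a3

variable {τ : Type} {c : ℝ} {𝔓 : PvxPar τ c} {𝔈 : PvieEng τ} {m : ℕ} {ε : ℝ} {z : ℂ} {t : τ} {Z : Set (ℤ × ℤ)} {ζ : Conf PvPt}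

theorem pvkfp_Mu_pos (hρ : 0 < 𝔓.num.rho3) (m : ℕ) : 0 < pvilMu 𝔓 m := by
  unfold pvilMu
  exact div_pos (lt_min (pvlm_Del_pos c m) (mul_pos hρ (pvlm_H_pos m))) (by norm_num)

theorem pvkfp_Mu_le (𝔓 : PvxPar τ c) (m : ℕ) : 3 * pvilMu 𝔓 m ≤ pvlmDel c m := by
  unfold pvilMu
  have h1 := min_le_left (pvlmDel c m) (𝔓.num.rho3 * pvlmH m)
  have h2 := pvlm_Del_pos c m
  linarith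

theorem pvkfp_Uo_of_Mo (h : ζ ∈ pvilMo 𝔓 𝔈 m ε z t Z) : ζ ∈ pvilUo 𝔓.num (𝔓.col t) (pvilPin 𝔓 m z t) := by
  obtain ⟨𝔖, 𝔖', y, ha⟩ := h.1.1
  exact ⟨𝔖, ha.at_p⟩

theorem pvkfp_Ui_of_Mi (h : ζ ∈ pvilMi 𝔓 𝔈 m ε z t Z) : ζ ∈ pvilUi 𝔓.num (𝔓.col t) (pvilPin 𝔓 m z t) := by
  obtain ⟨𝔖, 𝔖', y, ha⟩ := h.1.1
  exact ⟨𝔖', ha.at_p'⟩

theorem pvkfp_Ui_of_Me (h : ζ ∈ pvilMe 𝔓 𝔈 m z t Z) : ζ ∈ pvilUi 𝔓.num (𝔓.col t) (pvilPin 𝔓 m z t) := by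
  obtain ⟨𝔖, 𝔖', y, ha⟩ := h.1.1
  exact ⟨𝔖', ha.at_p'⟩

theorem pvkfp_Wz_o (𝔓 : PvxPar τ c) (𝔈 : PvieEng τ) (m : ℕ) (ε : ℝ) (z : ℂ) (t : τ) (Z : Set (ℤ × ℤ)) : pvilWz 𝔓 m z t Z ⊆ pvilWno 𝔓 𝔈 m ε z t Z := fun _ h => Or.inl (Or.inl (Or.inl h))
theorem pvkfp_Wz_i (𝔓 : PvxPar τ c) (𝔈 : PvieEng τ) (m : ℕ) (ε : ℝ) (z : ℂ) (t : τ) (Z : Set (ℤ × ℤ)) : pvilWz 𝔓 m z t Z ⊆ pvilWni 𝔓 𝔈 m ε z t Z := fun _ h => Or.inl (Or.inl (Or.inl h))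
theorem pvkfp_Wz_e (𝔓 : PvxPar τ c) (𝔈 : PvieEng τ) (m : ℕ) (z : ℂ) (t : τ) (Z : Set (ℤ × ℤ)) : pvilWz 𝔓 m z t Z ⊆ pvilWne 𝔓 𝔈 m z t Z := fun _ h => Or.inl (Or.inl (Or.inl h))

/-- the hull of an exit half state is not empty -/
theorem pvkfp_Zo_ne (h : ζ ∈ pvilUo 𝔓.num (𝔓.col t) (pvilPin 𝔓 m z t)) : (pvilZo 𝔓 m z t ζ).Nonempty := by
  rw [pvkfl_Zo_eq 𝔓 m z t h]
  obtain ⟨𝔖, h𝔖⟩ := h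
  have hv : pviePos ζ ((pvieT ζ).src (𝔖.ep 0)) ∈ pvilFo 𝔓 m z t ζ := ⟨𝔖, h𝔖, _, Or.inl (Or.inr ⟨0, Nat.zero_le _, rfl⟩), rfl⟩
  obtain ⟨q, hq, -⟩ := Set.mem_iUnion₂.1 (pvt_cells_cover (pvlm_Del_pos c m) (mem_union_left (Metric.closedBall ((𝔓.ty t).cp (pvlmH m) z) (𝔓.num.rho * pvlmH m)) hv))
  exact ⟨q, hq⟩

/-- the hull of an entrance half state is not empty -/
theorem pvkfp_Zi_ne (h : ζ ∈ pvilUi 𝔓.num (𝔓.col t) (pvilPin 𝔓 m z t)) : (pvilZi 𝔓 m z t ζ).Nonempty := by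
  rw [pvkfl_Zi_eq 𝔓 m z t h]
  obtain ⟨𝔖, h𝔖⟩ := h
  have hv : pviePos ζ ((pvieT ζ).src (𝔖.em 0)) ∈ pvilFi 𝔓 m z t ζ := ⟨𝔖, h𝔖, _, Or.inl (Or.inr ⟨0, Nat.zero_le _, rfl⟩), rfl⟩
  obtain ⟨q, hq, -⟩ := Set.mem_iUnion₂.1 (pvt_cells_cover (pvlm_Del_pos c m) (mem_union_left (Metric.closedBall ((𝔓.ty t).cm (pvlmH m) z) (𝔓.num.rho * pvlmH m)) hv))
  exact ⟨q, hq⟩

/-- a configuration whose hull is the hull of the base: the base carries the half state -/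
theorem pvkfp_base_o {η₀ : Conf PvPt} (h : ζ ∈ pvilUo 𝔓.num (𝔓.col t) (pvilPin 𝔓 m z t)) (hZ : pvilZo 𝔓 m z t ζ = pvilZo 𝔓 m z t η₀) : η₀ ∈ pvilUo 𝔓.num (𝔓.col t) (pvilPin 𝔓 m z t) := by
  by_contra hn
  have e : pvilZo 𝔓 m z t η₀ = ∅ := pvkfl_HuO_empty _ _ hn
  have := pvkfp_Zo_ne h
  rw [hZ, e] at this
  exact this.ne_empty rfl

theorem pvkfp_base_i {η₀ : Conf PvPt} (h : ζ ∈ pvilUi 𝔓.num (𝔓.col t) (pvilPin 𝔓 m z t)) (hZ : pvilZi 𝔓 m z t ζ = pvilZi 𝔓 m z t η₀) : η₀ ∈ pvilUi 𝔓.num (𝔓.col t) (pvilPin 𝔓 m z t) := by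
  by_contra hn
  have e : pvilZi 𝔓 m z t η₀ = ∅ := pvkfl_HuI_empty _ _ hn
  have := pvkfp_Zi_ne h
  rw [hZ, e] at this
  exact this.ne_empty rfl

theorem pvkfp_Fo_Y (Y : Set ℂ) (σ : ℂ → Bool) : pvilFo 𝔓 m z t (cfOf Y σ) ⊆ Y := fun a ha => by
  have := pvfc7_fzO_sites ha
  rwa [cfOf_sites] at this

theorem pvkfp_Fi_Y (Y : Set ℂ) (σ : ℂ → Bool) : pvilFi 𝔓 m z t (cfOf Y σ) ⊆ Y := fun a ha => by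
  have := pvfc7_fzI_sites ha
  rwa [cfOf_sites] at this

/-- the exit half in a completion, from the three facts which `M(Z₀)` provides -/
theorem pvkfp_FZ_out (hρ : 0 < 𝔓.num.rho3) (hb : (𝔓.ty t).b * pvlmH m ≤ pviwRad 𝔓 m t) (hW : pvilWz 𝔓 m z t (pvilZo 𝔓 m z t (cfOf Y σ)) ⊆ Wn) (hC : Disjoint C (pvilWz 𝔓 m z t (pvilZo 𝔓 m z t (cfOf Y σ))))
    (hτ : ∀ v ∈ Y, v ∈ pvilFo 𝔓 m z t (cfOf Y σ) → τ' v = σ v) (ω₂ ξ : Conf PvPt) (hU : pvbqZ C Wn Y τ' ω₂ ξ ∈ pvilUo 𝔓.num (𝔓.col t) (pvilPin 𝔓 m z t))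
    (hZ : pvilZo 𝔓 m z t (pvbqZ C Wn Y τ' ω₂ ξ) = pvilZo 𝔓 m z t (cfOf Y σ)) (hm : PvtrMesh (pvilMu 𝔓 m) (pvilWz 𝔓 m z t (pvilZo 𝔓 m z t (cfOf Y σ))) (cfSites (pvbqZ C Wn Y τ' ω₂ ξ))) :
    pvilFo 𝔓 m z t (pvbqZ C Wn Y τ' ω₂ ξ) = pvilFo 𝔓 m z t (cfOf Y σ) :=
  pvkfp_fo (pvkfp_Mu_pos hρ m) (pvkfp_Mu_le 𝔓 m) hb (pvkfp_base_o hU hZ) hU hZ hm (pvkfp_agr hW hC (pvza_Fo_Wz hb (pvlm_Del_pos c m) z _) (pvkfp_Fo_Y Y σ) hτ ω₂ ξ)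

/-- the entrance half in a completion -/
theorem pvkfp_FZ_in (hρ : 0 < 𝔓.num.rho3) (hb : (𝔓.ty t).b * pvlmH m ≤ pviwRad 𝔓 m t) (hW : pvilWz 𝔓 m z t (pvilZi 𝔓 m z t (cfOf Y σ)) ⊆ Wn) (hC : Disjoint C (pvilWz 𝔓 m z t (pvilZi 𝔓 m z t (cfOf Y σ))))
    (hτ : ∀ v ∈ Y, v ∈ pvilFi 𝔓 m z t (cfOf Y σ) → τ' v = σ v) (ω₂ ξ : Conf PvPt) (hU : pvbqZ C Wn Y τ' ω₂ ξ ∈ pvilUi 𝔓.num (𝔓.col t) (pvilPin 𝔓 m z t))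
    (hZ : pvilZi 𝔓 m z t (pvbqZ C Wn Y τ' ω₂ ξ) = pvilZi 𝔓 m z t (cfOf Y σ)) (hm : PvtrMesh (pvilMu 𝔓 m) (pvilWz 𝔓 m z t (pvilZi 𝔓 m z t (cfOf Y σ))) (cfSites (pvbqZ C Wn Y τ' ω₂ ξ))) :
    pvilFi 𝔓 m z t (pvbqZ C Wn Y τ' ω₂ ξ) = pvilFi 𝔓 m z t (cfOf Y σ) :=
  pvkfp_fi (pvkfp_Mu_pos hρ m) (pvkfp_Mu_le 𝔓 m) hb (pvkfp_base_i hU hZ) hU hZ hm (pvkfp_agr hW hC (pvza_Fi_Wz hb (pvlm_Del_pos c m) z _) (pvkfp_Fi_Y Y σ) hτ ω₂ ξ)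

/-- **(FZ) OF THE FIRST LINK**, as an equality -/
theorem pvkfp_FZ_o (hρ : 0 < 𝔓.num.rho3) (hb : (𝔓.ty t).b * pvlmH m ≤ pviwRad 𝔓 m t) (hW : pvilWz 𝔓 m z t (pvilZo 𝔓 m z t (cfOf Y σ)) ⊆ Wn) (hC : Disjoint C (pvilWz 𝔓 m z t (pvilZo 𝔓 m z t (cfOf Y σ))))
    (hτ : ∀ v ∈ Y, v ∈ pvilFo 𝔓 m z t (cfOf Y σ) → τ' v = σ v) (ω₂ ξ : Conf PvPt) (hM : pvbqZ C Wn Y τ' ω₂ ξ ∈ pvilMo 𝔓 𝔈 m ε z t (pvilZo 𝔓 m z t (cfOf Y σ))) :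
    pvilFo 𝔓 m z t (pvbqZ C Wn Y τ' ω₂ ξ) = pvilFo 𝔓 m z t (cfOf Y σ) :=
  pvkfp_FZ_out hρ hb hW hC hτ ω₂ ξ (pvkfp_Uo_of_Mo hM) hM.1.2 (pvkfp_mesh_mono hM.2 (pvkfp_Wz_o 𝔓 𝔈 m ε z t _))

/-- **(FZ) OF THE LAST LINK** -/
theorem pvkfp_FZ_i (hρ : 0 < 𝔓.num.rho3) (hb : (𝔓.ty t).b * pvlmH m ≤ pviwRad 𝔓 m t) (hW : pvilWz 𝔓 m z t (pvilZi 𝔓 m z t (cfOf Y σ)) ⊆ Wn) (hC : Disjoint C (pvilWz 𝔓 m z t (pvilZi 𝔓 m z t (cfOf Y σ))))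
    (hτ : ∀ v ∈ Y, v ∈ pvilFi 𝔓 m z t (cfOf Y σ) → τ' v = σ v) (ω₂ ξ : Conf PvPt) (hM : pvbqZ C Wn Y τ' ω₂ ξ ∈ pvilMi 𝔓 𝔈 m ε z t (pvilZi 𝔓 m z t (cfOf Y σ))) :
    pvilFi 𝔓 m z t (pvbqZ C Wn Y τ' ω₂ ξ) = pvilFi 𝔓 m z t (cfOf Y σ) :=
  pvkfp_FZ_in hρ hb hW hC hτ ω₂ ξ (pvkfp_Ui_of_Mi hM) hM.1.2 (pvkfp_mesh_mono hM.2 (pvkfp_Wz_i 𝔓 𝔈 m ε z t _))

/-- **(FZ) OF THE THICK LINK** -/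
theorem pvkfp_FZ_e (hρ : 0 < 𝔓.num.rho3) (hb : (𝔓.ty t).b * pvlmH m ≤ pviwRad 𝔓 m t) (hW : pvilWz 𝔓 m z t (pvilZi 𝔓 m z t (cfOf Y σ)) ⊆ Wn) (hC : Disjoint C (pvilWz 𝔓 m z t (pvilZi 𝔓 m z t (cfOf Y σ))))
    (hτ : ∀ v ∈ Y, v ∈ pvilFi 𝔓 m z t (cfOf Y σ) → τ' v = σ v) (ω₂ ξ : Conf PvPt) (hM : pvbqZ C Wn Y τ' ω₂ ξ ∈ pvilMe 𝔓 𝔈 m z t (pvilZi 𝔓 m z t (cfOf Y σ))) :
    pvilFi 𝔓 m z t (pvbqZ C Wn Y τ' ω₂ ξ) = pvilFi 𝔓 m z t (cfOf Y σ) :=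
  pvkfp_FZ_in hρ hb hW hC hτ ω₂ ξ (pvkfp_Ui_of_Me hM) hM.1.2 (pvkfp_mesh_mono hM.2 (pvkfp_Wz_e 𝔓 𝔈 m z t _))

end compl

/-! ## 3. `PvbqPlain` at the base data -/

section plain

variable {τ : Type} {c : ℝ} {𝔓 : PvxPar τ c} {𝔈 : PvieEng τ} {C Wn Y : Set ℂ} {p : Conf PvPt → Prop} {σ : ℂ → Bool} {m m0 : ℕ} {ε Cth : ℝ} {r κs : ℕ → ℝ} {z : ℂ} {t : τ}

/-- **`PvbqPlain` OF THE FIRST LINK AT THE BASE DATA OF `cfOf Y σ`** -/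
theorem pvkfp_plain_o (hE : PvieEng.Wf 𝔓 𝔈 m0 Cth r κs) (hm : m0 ≤ m) (ht : pviwTyOk 𝔓 t) (hd : ‖(𝔓.Γ m).dout t‖ = 1) (W : ∀ Y : Set ℂ, (delbPl Y).Dart → ℂ)
    (hρ : 0 < 𝔓.num.rho3) (hb : (𝔓.ty t).b * pvlmH m ≤ pviwRad 𝔓 m t) (hW : pvilWz 𝔓 m z t (pvilZo 𝔓 m z t (cfOf Y σ)) ⊆ Wn) (hCW : Disjoint C (pvilWz 𝔓 m z t (pvilZo 𝔓 m z t (cfOf Y σ))))
    (hC : pvieSh z (𝔈.oK m t) ∪ pvieDoor 𝔈 m ε (pvieZo 𝔓 m z t) ((𝔓.Γ m).dout t) ⊆ C) :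
    PvbqPlain C Wn p (pvilMo 𝔓 𝔈 m ε z t (pvilZo 𝔓 m z t (cfOf Y σ))) ((pvilLo 𝔓 𝔈 m z t).X 𝔓.num (𝔓.col t) fun η => W (cfSites η)) Y (pvilFo 𝔓 m z t (cfOf Y σ))
      (pvieSh z (𝔈.oM m t) \ pvilFo 𝔓 m z t (cfOf Y σ)) σ :=
  pvbw_pl_o_wf hE hm ht hd W hC fun τ' a ω₂ ξ _ hM v hv _ _ _ => Or.inl (by rwa [pvkfp_FZ_o hρ hb hW hCW a ω₂ ξ hM] at hv)

/-- **`PvbqPlain` OF THE LAST LINK AT THE BASE DATA OF `cfOf Y σ`** -/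
theorem pvkfp_plain_i (hE : PvieEng.Wf 𝔓 𝔈 m0 Cth r κs) (hm : m0 ≤ m) (ht : pviwTyOk 𝔓 t) (hd : ‖(𝔓.Γ m).din t‖ = 1) (W : ∀ Y : Set ℂ, (delbPl Y).Dart → ℂ)
    (hρ : 0 < 𝔓.num.rho3) (hb : (𝔓.ty t).b * pvlmH m ≤ pviwRad 𝔓 m t) (hW : pvilWz 𝔓 m z t (pvilZi 𝔓 m z t (cfOf Y σ)) ⊆ Wn) (hCW : Disjoint C (pvilWz 𝔓 m z t (pvilZi 𝔓 m z t (cfOf Y σ))))
    (hC : pvieSh z (𝔈.iK m t) ∪ pvieDoor 𝔈 m ε (pvieZi 𝔓 m z t) ((𝔓.Γ m).din t) ⊆ C) :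
    PvbqPlain C Wn p (pvilMi 𝔓 𝔈 m ε z t (pvilZi 𝔓 m z t (cfOf Y σ))) ((pvilLi 𝔓 𝔈 m z t).X 𝔓.num (𝔓.col t) fun η => W (cfSites η)) Y (pvilFi 𝔓 m z t (cfOf Y σ))
      (pvieSh z (𝔈.iM m t) \ pvilFi 𝔓 m z t (cfOf Y σ)) σ :=
  pvbw_pl_i_wf hE hm ht hd W hC fun τ' a ω₂ ξ _ hM v hv _ _ _ => Or.inl (by rwa [pvkfp_FZ_i hρ hb hW hCW a ω₂ ξ hM] at hv)

/-- **`PvbqPlain` OF THE THICK LINK AT THE BASE DATA OF `cfOf Y σ`** -/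
theorem pvkfp_plain_e (hE : PvieEng.Wf 𝔓 𝔈 m0 Cth r κs) (hm : m0 ≤ m) (ht : pviwTyOk 𝔓 t) (W : ∀ Y : Set ℂ, (delbPl Y).Dart → ℂ)
    (hρ : 0 < 𝔓.num.rho3) (hb : (𝔓.ty t).b * pvlmH m ≤ pviwRad 𝔓 m t) (hW : pvilWz 𝔓 m z t (pvilZi 𝔓 m z t (cfOf Y σ)) ⊆ Wn) (hCW : Disjoint C (pvilWz 𝔓 m z t (pvilZi 𝔓 m z t (cfOf Y σ))))
    (hC : pvieSh z (𝔈.eK m t) ∪ pvieSh (pvieZu 𝔓 m z t) (𝔈.rO m) ⊆ C) :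
    PvbqPlain C Wn p (pvilMe 𝔓 𝔈 m z t (pvilZi 𝔓 m z t (cfOf Y σ))) ((pvilLe 𝔓 𝔈 m z t).X 𝔓.num (𝔓.col t) fun η => W (cfSites η)) Y (pvilFi 𝔓 m z t (cfOf Y σ))
      (pvieSh z (𝔈.eM m t) \ pvilFi 𝔓 m z t (cfOf Y σ)) σ :=
  pvbw_pl_e_wf hE hm ht W hC fun τ' a ω₂ ξ _ hM v hv _ _ _ => Or.inl (by rwa [pvkfp_FZ_e hρ hb hW hCW a ω₂ ξ hM] at hv)

end plain

end Claimed.Agent.R289
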