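-- KEEP
import Claimed.Agent.R289.Exit.N1
import Claimed.Agent.R289.Tr.AtUniq
import Claimed.Agent.R289.Tr.InstE
import Claimed.Agent.R289.Tr.DomE
import Claimed.Agent.R289.Tr.C2Dom
import Claimed.Agent.R289.Tr.C12F

/-!
# Row 289 (S0537), THE WALL, ROAD E, file Tr/DomEB : THE FIELD `dom` AT THE SYSTEM OF RECORD `pvxnSys`, LOWER HALF      (helper104, second of 37, post Z of 82; prefix `pvdf_`, `pvdf`, `Pvdf`)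

UPPER HALF = `Tr/DomE` (37): `PvdeRings S b a B a₀ Dc η` a.e. ⟹ `dom` (`pvde_sum_le_rings`, `pvde_dom_sys`).      THIS FILE: `PvdeRings` AT `pvxnSys 𝔓 m π a 𝔎 𝔜 ε` (170, `Exit/N1` sec. 5) from what the kit `𝔎` and the `Y` side `𝔜` owe, in the names of `Tr/Defs` v3, `Tr/C12` v3.
* sec. 1  ANY MAP.   `PvdfSame 𝔇 𝔇'` = same used data (`PvuqG PvuqM PvuqP` of 150 + the arc `g₀`); `fz fzY apx X Yraw YCL Yr0 YC0 NU XCL` are functions of the used data;   `pvdf_states` : two data `Ok` with ONE colouring in both cylinders have the same half states (`pvuq_atIn`, `pvuq_atOut`);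
          **`pvdf_ends`** (GATE RULE: common ends of `g₀`), **`pvdf_same`** (same darts of `g₀` ⟹ same used data)
* sec. 2  `pvdf_one` : a present index has ONE witness with `E(D)` and `WO(D)` (clause `uni`);   **`pvdf_idx`** : the index `(F, N, g, X)` is read from the darts of `g₀`.      ONE clause asked of the kit: `hN : PvdfSame 𝔇 𝔇' → 𝔎.N Y 𝔇 = 𝔎.N Y 𝔇'`
* sec. 3  **`PvdfAt 𝔓 m π a 𝔎 𝔜 ε η`** (ring form of the contract: `w_le`, `ring`), `pvdf_rings` : `PvdfAt ⟹ PvdeRings`, `pvdf_dom_at`, **`pvdf_dom`** = the field `dom` of `PvxnOk` VERBATIM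
* sec. 4  `pvdf_chain_side` (the `V` mass of a closed chain vanishes: `side0`), `pvdf_big_of_gate` (two HEADS of the inner arc `(a₁ - 1) h` apart), `pvdf_inn_in`, `pvdf_y_in` (the arc `y` lives in box(t) ∪ `Yin` ∪ box(s)), `PvdfReg N h π B` (regions of the pattern in `B`: deterministic),
          **`pvdf_ring`** : `Ok + Fit + Cyl + (g₀ on the wall of dm(t)) + YArc y` + `g₀ ⊆ B` ⟹ `PvdeRing` of mass `X(D) + Yof y` (ROUTE FREE);   **`pvdf_ring_of`** : ADAPTER from the record `PvwDat.Ring` of 78 (mass `X(D) + Y(D_Y, σ)`)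
* sec. 5  `PvdfPr η i 𝔇` (witness + `E` + `W`), **`PvdfC2 𝔓 m π a 𝔎 𝔜 ε η`** = THE CONTRACT IN THE NAMES OF RECORD (`w_le fit onwall chain gB`: one field = one owner; all but `w_le` asked only when `w ≠ 0`), `PvdfRg` (the same over `PvwDat.Ring`),
          `PvdfC2.toAt`, `PvdfRg.toAt`, **`pvdf_dom_c2`**, **`pvdf_dom_rg`** = `dom` VERBATIM.      0 sorry.
-/

set_option autoImplicit false

namespace Claimed.Agent.R289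

open MeasureTheory Set Filter Topology Claims.C0465
open scoped ENNReal

/-! ## 1. two data of one colouring -/

section same

variable {V D : Type} {T : PvMap V D}

/-- **SAME USED DATA** of two data: entrance half state of `s`, exit half state of `t`, the arc `g₀` (records carry junk beyond their lengths; the prescription `col` is not compared) -/
structure PvdfSame (𝔇 𝔇' : PvwDat T) : Prop where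
  sg : PvuqG 𝔇.s 𝔇'.s
  sm : PvuqM 𝔇.s 𝔇'.s
  tg : PvuqG 𝔇.t 𝔇'.t
  tp : PvuqP 𝔇.t 𝔇'.t
  gn : 𝔇.g.n = 𝔇'.g.n
  gv : ∀ k, k ≤ 𝔇.g.n → 𝔇.g.v k = 𝔇'.g.v k
  ge : ∀ k, k < 𝔇.g.n → 𝔇.g.e k = 𝔇'.g.e k

variable {𝔇 𝔇' : PvwDat T}

theorem PvdfSame.verts (h : PvdfSame 𝔇 𝔇') : 𝔇.g.verts = 𝔇'.g.verts := by
  ext x
  constructor
  · rintro ⟨k, hk, rfl⟩
    exact ⟨k, h.gn ▸ hk, (h.gv k hk).symm⟩
  · rintro ⟨k, hk, rfl⟩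
    exact ⟨k, h.gn.symm ▸ hk, h.gv k (h.gn.symm ▸ hk)⟩

theorem PvdfSame.apx (h : PvdfSame 𝔇 𝔇') : 𝔇.apx = 𝔇'.apx := by
  ext x
  constructor
  · rintro ⟨k, hk, rfl⟩
    exact ⟨k, h.gn ▸ hk, by rw [h.ge k hk]⟩
  · rintro ⟨k, hk, rfl⟩
    exact ⟨k, h.gn.symm ▸ hk, by rw [h.ge k (h.gn.symm ▸ hk)]⟩

theorem PvdfSame.fzY (h : PvdfSame 𝔇 𝔇') : 𝔇.fzY = 𝔇'.fzY := by
  unfold PvwDat.fzY
  rw [h.tg.fzOut h.tp, h.sg.fzIn h.sm]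

theorem PvdfSame.fz (h : PvdfSame 𝔇 𝔇') : 𝔇.fz = 𝔇'.fz := by
  unfold PvwDat.fz
  rw [h.fzY, h.verts, h.apx]

/-- the classes of sites of `Tr/Defs` sec. 2 are functions of the used data -/
theorem PvdfSame.Yraw (h : PvdfSame 𝔇 𝔇') (pos : V → ℂ) (π : PvwPat) : 𝔇.Yraw pos π = 𝔇'.Yraw pos π := by
  unfold PvwDat.Yraw
  rw [h.fzY]

theorem PvdfSame.YCL (h : PvdfSame 𝔇 𝔇') (pos : V → ℂ) (π : PvwPat) : 𝔇.YCL pos π = 𝔇'.YCL pos π := by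
  unfold PvwDat.YCL
  rw [h.Yraw, h.tp.ap, h.sm.am]

theorem PvdfSame.Yr0 (h : PvdfSame 𝔇 𝔇') (pos : V → ℂ) (π : PvwPat) : 𝔇.Yr0 pos π = 𝔇'.Yr0 pos π := by
  unfold PvwDat.Yr0
  rw [h.Yraw]

theorem PvdfSame.YC0 (h : PvdfSame 𝔇 𝔇') (pos : V → ℂ) (π : PvwPat) : 𝔇.YC0 pos π = 𝔇'.YC0 pos π := by
  unfold PvwDat.YC0
  rw [h.Yr0, h.tp.ap, h.sm.am]

theorem PvdfSame.NU (h : PvdfSame 𝔇 𝔇') (pos : V → ℂ) (π : PvwPat) : 𝔇.NU pos π = 𝔇'.NU pos π := by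
  unfold PvwDat.NU
  rw [h.YC0]

theorem PvdfSame.XCL (h : PvdfSame 𝔇 𝔇') (pos : V → ℂ) (π : PvwPat) : 𝔇.XCL pos π = 𝔇'.XCL pos π := by
  unfold PvwDat.XCL
  rw [h.fz, h.YCL]

theorem PvdfSame.gmass (h : PvdfSame 𝔇 𝔇') (pos : V → ℂ) (w : D → ℂ) (K : Set ℂ) : pvwMass T pos w K 𝔇.g 0 𝔇.g.n = pvwMass T pos w K 𝔇'.g 0 𝔇'.g.n := by
  unfold pvwMass
  rw [← h.gn]
  refine Finset.sum_congr rfl fun k hk => ?_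
  rw [h.ge k (Finset.mem_Ico.1 hk).2]

/-- `X(D)` is a function of the used data -/
theorem PvdfSame.X (h : PvdfSame 𝔇 𝔇') (hip : 𝔇.t.ip ≤ 𝔇.t.inn.n) (pos : V → ℂ) (w : D → ℂ) (N : PvwNum) (hh : ℝ) (π : PvwPat) : 𝔇.X pos w N hh π = 𝔇'.X pos w N hh π := by
  unfold PvwDat.X
  rw [h.sg.mass pos w _ le_rfl, h.sg.mass pos w _ le_rfl, h.gmass, h.tg.mass pos w _ hip, h.sg.inn_n, h.sg.ip, h.tg.ip]

/-- the states of two data which occur for ONE colouring agree (uniqueness of the half states, 150) -/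
theorem pvdf_states (hT : T.IsSph) (hS : T.Simple) {pos : V → ℂ} (hpos : Function.Injective pos) {N : PvwNum} {hh : ℝ} {π : PvwPat} {σ : V → Bool}
    (h1 : 𝔇.Ok pos N hh π) (h2 : 𝔇'.Ok pos N hh π) (c1 : σ ∈ 𝔇.Cyl) (c2 : σ ∈ 𝔇'.Cyl) :
    (PvuqG 𝔇.s 𝔇'.s ∧ PvuqM 𝔇.s 𝔇'.s) ∧ PvuqG 𝔇.t 𝔇'.t ∧ PvuqP 𝔇.t 𝔇'.t := by
  have a1 : 𝔇.s.AtIn pos N hh π.zs π.ts σ := pvwk_atIn_congr hT h1.st_s fun v hv => (c1.1 v (Or.inr hv)).symm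
  have a2 : 𝔇'.s.AtIn pos N hh π.zs π.ts σ := pvwk_atIn_congr hT h2.st_s fun v hv => (c2.1 v (Or.inr hv)).symm
  have b1 : 𝔇.t.AtOut pos N hh π.zt π.tt σ := pvwk_atOut_congr hT h1.st_t fun v hv => (c1.1 v (Or.inl hv)).symm
  have b2 : 𝔇'.t.AtOut pos N hh π.zt π.tt σ := pvwk_atOut_congr hT h2.st_t fun v hv => (c2.1 v (Or.inl hv)).symm
  exact ⟨pvuq_atIn hT hS hpos a1 a2, pvuq_atOut hT hS hpos b1 b2⟩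

/-- GATE RULE: the arcs `g₀` of two data which occur for one colouring have common ends -/
theorem pvdf_ends (hT : T.IsSph) (hS : T.Simple) {pos : V → ℂ} (hpos : Function.Injective pos) {N : PvwNum} {hh : ℝ} {π : PvwPat} {σ : V → Bool}
    (h1 : 𝔇.Ok pos N hh π) (h2 : 𝔇'.Ok pos N hh π) (c1 : σ ∈ 𝔇.Cyl) (c2 : σ ∈ 𝔇'.Cyl) : 𝔇.g.v 0 = 𝔇'.g.v 0 ∧ 𝔇.g.v 𝔇.g.n = 𝔇'.g.v 𝔇'.g.n := by
  obtain ⟨⟨a, -⟩, b, -⟩ := pvdf_states hT hS hpos h1 h2 c1 c2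
  exact ⟨by rw [h1.g0, h2.g0, a.gp], by rw [h1.g1, h2.g1, b.gm]⟩

/-- two data which occur for one colouring and have the same darts of `g₀` have the same used data -/
theorem pvdf_same (hT : T.IsSph) (hS : T.Simple) {pos : V → ℂ} (hpos : Function.Injective pos) {N : PvwNum} {hh : ℝ} {π : PvwPat} {σ : V → Bool}
    (h1 : 𝔇.Ok pos N hh π) (h2 : 𝔇'.Ok pos N hh π) (c1 : σ ∈ 𝔇.Cyl) (c2 : σ ∈ 𝔇'.Cyl) (hl : 𝔇.g.lst = 𝔇'.g.lst) : PvdfSame 𝔇 𝔇' := by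
  obtain ⟨⟨a, a'⟩, b, b'⟩ := pvdf_states hT hS hpos h1 h2 c1 c2
  have hn : 𝔇.g.n = 𝔇'.g.n := by
    have := congrArg List.length hl
    simpa [PvMap.Pth.lst] using this
  have he : ∀ k, k < 𝔇.g.n → 𝔇.g.e k = 𝔇'.g.e k := by
    intro k hk
    have e1 : 𝔇.g.lst[k]? = some (𝔇.g.e k) := by simp [PvMap.Pth.lst, hk]
    have e2 : 𝔇'.g.lst[k]? = some (𝔇'.g.e k) := by simp [PvMap.Pth.lst, hn ▸ hk]
    rw [hl, e2] at e1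
    exact (Option.some.inj e1).symm
  refine ⟨a, a', b, b', hn, fun k hk => ?_, he⟩
  rcases Nat.eq_zero_or_pos k with rfl | hk0
  · exact (pvdf_ends hT hS hpos h1 h2 c1 c2).1
  · obtain ⟨l, rfl⟩ : ∃ l, k = l + 1 := ⟨k - 1, by omega⟩
    rw [← 𝔇.g.tgt_e l (by omega), ← 𝔇'.g.tgt_e l (by omega), he l (by omega)]

end same

/-! ## 2. the system of record: one datum per present index, the index is read from the darts of `g₀` -/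

section sys

variable {τ : Type} {c : ℝ} {𝔓 : PvxPar τ c} {m : ℕ} {π : PvxIx τ} {a : ℂ} {𝔎 : PvxnKit} {𝔜 : PvxnYd}

/-- the colouring of the sites of `η` seen by `pvxnSys` (`true` = the colour of the rim) -/
noncomputable def pvdfCol (η : Conf PvPt) : ↥(cfSites η) → Bool := fun v => cfCol η v

theorem pvdf_col_eq (η : Conf PvPt) : pvieCol η true = pvdfCol η := by
  funext v
  simp [pvieCol, pvdfCol]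

theorem pvdf_fld_eq (η : Conf PvPt) (a : ℂ) : pvieFld η a = pvxnFd (cfSites η) a := rfl

/-- **ONE DATUM**: a present index has a witness which carries BOTH `E(D)` and `WO(D)`      (clause `uni` of `PvxnPA`) -/
theorem pvdf_one {ε : ℝ} {i : PvxnIx} {η : Conf PvPt} (h : (pvxnSys 𝔓 m π a 𝔎 𝔜 ε).Pr η i) :
    ∃ 𝔇, PvxnWit 𝔓 m π a 𝔎 (cfSites η) i (pvdfCol η) 𝔇 ∧ 𝔎.E (cfSites η) 𝔇 (pvdfCol η) ∧ 𝔎.W (cfSites η) 𝔇 (pvdfCol η) := by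
  have hA : PvxnPA 𝔓 m π a 𝔎 i (cfSites η) (cfCol η) := h.1
  have hB : PvxnPW 𝔓 m π a 𝔎 i (cfSites η) (cfCol η) := h.2
  obtain ⟨-, 𝔇₂, hW', hWO⟩ := hB
  obtain ⟨𝔇, hW, hE, hu⟩ := hA.2.1
  exact ⟨𝔇, hW, hE, hu 𝔇₂ hW' _ hWO⟩

theorem pvdf_ofFn {α : Type} {n n' : ℕ} (f f' : ℕ → α) (hn : n = n') (h : ∀ k, k ≤ n → f k = f' k) :
    (List.ofFn fun k : Fin (n + 1) => f k) = List.ofFn fun k : Fin (n' + 1) => f' k := by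
  subst hn
  congr 1
  funext k
  exact h k (Nat.lt_succ_iff.1 k.2)

/-- **THE INDEX IS READ FROM THE DARTS OF `g₀`**: two witnesses for one colouring with the same darts of `g₀` have the same index.      `hN` = the only clause asked of the kit: the class of the read sites is a function of the used data -/
theorem pvdf_idx (hN : ∀ (Y : Set ℂ) (𝔇 𝔇' : PvwDat (delbPl Y).toMap), PvdfSame 𝔇 𝔇' → 𝔎.N Y 𝔇 = 𝔎.N Y 𝔇') {Y : Set ℂ} (hY : DelGood Y) {i j : PvxnIx} {σ : ↥Y → Bool}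
    {𝔇 𝔇' : PvwDat (delbPl Y).toMap} (h1 : PvxnWit 𝔓 m π a 𝔎 Y i σ 𝔇) (h2 : PvxnWit 𝔓 m π a 𝔎 Y j σ 𝔇') (hl : 𝔇.g.lst = 𝔇'.g.lst) : i = j := by
  have hs := pvdf_same (delb_plane_isSph hY) (pvgy_m_simple Y) Subtype.val_injective h1.ok h2.ok h1.cyl h2.cyl hl
  obtain ⟨iF, iN, ig, iX⟩ := i
  obtain ⟨jF, jN, jg, jX⟩ := j
  have a1 := h1.labF; have a2 := h1.labN; have a3 := h1.labg; have a4 := h1.labX
  have b1 := h2.labF; have b2 := h2.labN; have b3 := h2.labg; have b4 := h2.labX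
  simp only at a1 a2 a3 a4 b1 b2 b3 b4
  rw [PvxnIx.mk.injEq]
  refine ⟨?_, ?_, ?_, ?_⟩
  · rw [← a1, ← b1, hs.fz]
  · rw [← a2, ← b2, hN Y 𝔇 𝔇' hs]
  · rw [← a3, ← b3]
    exact pvdf_ofFn (fun k => ((𝔇.g.v k : ↥Y) : ℂ)) (fun k => ((𝔇'.g.v k : ↥Y) : ℂ)) hs.gn fun k hk => by rw [hs.gv k hk]
  · rw [← a4, ← b4]
    exact hs.X h1.ok.st_t.gate.ip_le _ _ _ _ _

/-! ## 3. the contract of `dom` for the kit, ring form; the field `dom` of `PvxnOk` -/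

variable (𝔓 m π a 𝔎 𝔜)

/-- **WHAT `dom` ASKS OF THE KIT AND OF THE `Y` SIDE, at one configuration** (ring form: any route to (C2)).
* `w_le`   thresholds: the weight is bounded by `D_c` as soon as ONE datum is present
* `ring`   (C2) + CHAIN: when the chain succeeds (`w ≠ 0`), the arc `g₀` of a datum with `E(D)` and `WO(D)` is closed to a ring = a full label class inside `B`, of diameter `≥ h_m`, of mass `X(D) + Y` -/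
structure PvdfAt (ε : ℝ) (η : Conf PvPt) : Prop where
  w_le : ∀ i, (pvxnSys 𝔓 m π a 𝔎 𝔜 ε).Pr η i → 𝔜.w ε η ≤ 𝔜.D
  ring : 𝔜.w ε η ≠ 0 → ∀ (i : PvxnIx) (𝔇 : PvwDat (delbPl (cfSites η)).toMap), PvxnWit 𝔓 m π a 𝔎 (cfSites η) i (pvdfCol η) 𝔇 → 𝔎.E (cfSites η) 𝔇 (pvdfCol η) → 𝔎.W (cfSites η) 𝔇 (pvdfCol η) →
    ∃ L₀ : List (pvieT η).Pth, PvdeRing true a 𝔎.B (pvlmH m) η 𝔇.g L₀ (i.X + 𝔜.Y ε η)

variable {𝔓 m π a 𝔎 𝔜}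

/-- the contract of 37 (`PvdeRings`) at the system of record -/
theorem pvdf_rings (hN : ∀ (Y : Set ℂ) (𝔇 𝔇' : PvwDat (delbPl Y).toMap), PvdfSame 𝔇 𝔇' → 𝔎.N Y 𝔇 = 𝔎.N Y 𝔇') {ε : ℝ} {η : Conf PvPt} (hg : DelGood (cfSites η)) (h : PvdfAt 𝔓 m π a 𝔎 𝔜 ε η) :
    PvdeRings (pvxnSys 𝔓 m π a 𝔎 𝔜 ε) true a 𝔎.B (pvlmH m) 𝔜.D η := by
  refine ⟨h.w_le, fun hw => ⟨fun i g _ => ∃ 𝔇 : PvwDat (delbPl (cfSites η)).toMap, PvxnWit 𝔓 m π a 𝔎 (cfSites η) i (pvdfCol η) 𝔇 ∧ 𝔇.g = g, fun i hi => ?_, ?_⟩⟩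
  · obtain ⟨𝔇, hW, hE, hWO⟩ := pvdf_one hi
    obtain ⟨L₀, hL⟩ := h.ring hw i 𝔇 hW hE hWO
    exact ⟨𝔇.g, L₀, ⟨𝔇, hW, rfl⟩, hL⟩
  · rintro i j g L₀ g' L₀' - - ⟨𝔇, hW, rfl⟩ ⟨𝔇', hW', rfl⟩
    obtain ⟨e1, e2⟩ := pvdf_ends (delb_plane_isSph hg) (pvgy_m_simple _) Subtype.val_injective hW.ok hW'.ok hW.cyl hW'.cyl
    exact ⟨e1, e2, fun hl => pvdf_idx hN hg hW hW' hl⟩

/-- the field `dom` for one kit, one mesh -/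
theorem pvdf_dom_at (hB : Bornology.IsBounded 𝔎.B) (hN : ∀ (Y : Set ℂ) (𝔇 𝔇' : PvwDat (delbPl Y).toMap), PvdfSame 𝔇 𝔇' → 𝔎.N Y 𝔇 = 𝔎.N Y 𝔇') {ε : ℝ} (hε : 0 < ε)
    (h : ∀ᵐ η ∂pvP ε, PvdfAt 𝔓 m π a 𝔎 𝔜 ε η) :
    ∀ᵐ ω ∂pvP ε, ∑' i, ((pvxnSys 𝔓 m π a 𝔎 𝔜 ε).A i ∩ (pvxnSys 𝔓 m π a 𝔎 𝔜 ε).WO i).indicator (fun ω => 𝔜.w ε ω * ‖i.X + 𝔜.Y ε ω‖ₑ ^ 2) ω ≤ 𝔜.D * pvclSum ω 𝔎.B (pvlmH m) := by
  filter_upwards [h, pvqf_good_ae ε (ne_of_gt hε)] with η h2 h3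
  exact pvde_sum_le_rings h3.del hB (pvdf_rings hN h3.del h2)

/-- **THE FIELD `dom` OF `PvxnOk`, VERBATIM** (family of kits) -/
theorem pvdf_dom {𝔎s : ℝ → PvxnKit} (hB : ∀ᶠ ε in 𝓝[>] (0 : ℝ), Bornology.IsBounded (𝔎s ε).B)
    (hN : ∀ᶠ ε in 𝓝[>] (0 : ℝ), ∀ (Y : Set ℂ) (𝔇 𝔇' : PvwDat (delbPl Y).toMap), PvdfSame 𝔇 𝔇' → (𝔎s ε).N Y 𝔇 = (𝔎s ε).N Y 𝔇')
    (h : ∀ᶠ ε in 𝓝[>] (0 : ℝ), ∀ᵐ η ∂pvP ε, PvdfAt 𝔓 m π a (𝔎s ε) 𝔜 ε η) :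
    ∀ᶠ ε in 𝓝[>] (0 : ℝ), ∀ᵐ ω ∂pvP ε, ∑' i, ((pvxnSys 𝔓 m π a (𝔎s ε) 𝔜 ε).A i ∩ (pvxnSys 𝔓 m π a (𝔎s ε) 𝔜 ε).WO i).indicator (fun ω => 𝔜.w ε ω * ‖i.X + 𝔜.Y ε ω‖ₑ ^ 2) ω
      ≤ 𝔜.D * pvclSum ω (𝔎s ε).B (pvlmH m) := by
  filter_upwards [hB, hN, h, self_mem_nhdsWithin] with ε h1 h2 h3 hε
  exact pvdf_dom_at h1 h2 hε h3

end sys


/-! ## 4. the ring of a datum (any route to the `g₀` part of (C2)) -/

section ring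

variable {V D : Type} {T : PvMap V D}

theorem pvdf_psum_side (pos : V → ℂ) (p : T.Pth) : p.psum (T.side pos) = pos (p.v p.n) - pos (p.v 0) := by
  unfold PvMap.Pth.psum
  rw [← Finset.sum_range_sub (fun k => pos (p.v k))]
  refine Finset.sum_congr rfl fun k hk => ?_
  have hk' := Finset.mem_range.1 hk
  unfold PvMap.side
  rw [T.src_opp', T.tgt_opp, p.tgt_e k hk', p.src_e k hk']

/-- the `V` mass of a chain of paths is its displacement -/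
theorem pvdf_chain_side (pos : V → ℂ) : ∀ (L : List T.Pth) (u v : V), pvowChain T L u v → (L.map fun p => p.psum (T.side pos)).sum = pos v - pos u
  | [], u, v, h => by
    have e : u = v := h
    simp [e]
  | p :: L, u, v, h => by
    obtain ⟨h1, h2⟩ : p.v 0 = u ∧ pvowChain T L (p.v p.n) v := h
    rw [List.map_cons, List.sum_cons, pvdf_chain_side pos L _ _ h2, pvdf_psum_side, h1]
    ring

/-- two HEADS of darts of the inner arc of a gate are `(a₁ - 1) h` apart: the marked vertex and `g⁺` -/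
theorem pvdf_big_of_gate (𝔖 : PvwSt T) {pos : V → ℂ} {h : ℝ} {z : ℂ} {τ : PvwTy} {s : V → Bool} (hG : 𝔖.Gate pos h z τ s) (hh : 0 < h) (ha : 1 < τ.a) :
    ∃ k k', k < 𝔖.inn.n ∧ k' < 𝔖.inn.n ∧ (τ.a - 1) * h ≤ ‖pos (T.tgt (𝔖.inn.e k)) - pos (T.tgt (𝔖.inn.e k'))‖ := by
  obtain ⟨n, h1, -, jj, a0, a1, a2, -⟩ := hG.strand
  have e0 : 𝔖.inn.v 0 = 𝔖.gm := a0
  have en : 𝔖.inn.v 𝔖.inn.n = 𝔖.gp := by
    rw [(a2 _ le_rfl).2.1, a1]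
    show T.src (pvasIt T s 𝔖.dm n) = 𝔖.gp
    rw [h1]; rfl
  obtain ⟨hgp, hgm, -, -⟩ := pvuq_gate_mem hG
  have hlt : h < τ.a * h := by nlinarith
  have hip0 : 0 < 𝔖.ip := by
    refine Nat.pos_of_ne_zero fun e => ?_
    have := hG.ip_near
    rw [e, e0] at this
    linarith [(hG.ann _ hgm).1]
  have hipn : 𝔖.ip ≤ 𝔖.inn.n := hG.ip_le
  refine ⟨𝔖.inn.n - 1, 𝔖.ip - 1, by omega, by omega, ?_⟩
  rw [𝔖.inn.tgt_e _ (by omega), 𝔖.inn.tgt_e _ (by omega), show 𝔖.inn.n - 1 + 1 = 𝔖.inn.n by omega, show 𝔖.ip - 1 + 1 = 𝔖.ip by omega, en]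
  have t1 := (hG.ann _ hgp).1
  have t2 := hG.ip_near
  have t3 : ‖pos 𝔖.gp - z‖ ≤ ‖pos 𝔖.gp - pos (𝔖.inn.v 𝔖.ip)‖ + ‖pos (𝔖.inn.v 𝔖.ip) - z‖ := by
    have := norm_add_le (pos 𝔖.gp - pos (𝔖.inn.v 𝔖.ip)) (pos (𝔖.inn.v 𝔖.ip) - z)
    simpa using this
  linarith

/-- **WHERE THE INNER ARCS LIVE**: in the open disc `B(z, b h)` of the gate -/
theorem pvdf_inn_in (hT : T.IsSph) {𝔖 : PvwSt T} {pos : V → ℂ} {h : ℝ} {z : ℂ} {τ : PvwTy} {s : V → Bool} (hG : 𝔖.Gate pos h z τ s) {k : ℕ} (hk : k ≤ 𝔖.inn.n) : ‖pos (𝔖.inn.v k) - z‖ < τ.b * h :=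
  hG.inside _ (pvwf_inn_core hT (pvwc_inner_of_gate hT hG fun _ _ => rfl) ⟨k, hk, rfl⟩)

/-- **WHERE THE ARC `y` LIVES**: in the box of `t`, over `Yin`, or in the box of `s` -/
theorem pvdf_y_in (hT : T.IsSph) (𝔇 : PvwDat T) {pos : V → ℂ} {N : PvwNum} {h : ℝ} {π : PvwPat} {σ : V → Bool} (hOk : 𝔇.Ok pos N h π) (hσ : σ ∈ 𝔇.Cyl) {y : T.Pth} (hy : 𝔇.YArc pos π σ y)
    {k : ℕ} (hk : k ≤ y.n) : pos (y.v k) ∈ pvwSq π.zt (pvwRad N h π.tt π.tt.k) ∪ π.Yin ∪ pvwSq π.zs (pvwRad N h π.ts π.ts.k) := by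
  obtain ⟨n, hn, hle⟩ := hy
  obtain ⟨i, hi, e⟩ := pvwc_le_verts hle ⟨k, hk, rfl⟩
  rw [← e]
  rcases Nat.lt_or_ge 𝔇.t.np i with h1 | h1
  · rcases Nat.lt_or_ge (i + 𝔇.s.nm) n with h2 | h2
    · exact Or.inl (Or.inr (hn.2.2.2 i h1 h2).2.2.1)
    · have e2 := pvwf_run_lst hT 𝔇 hOk hσ hn.2.1 (j := n - i) (by omega) (by omega)
      rw [show n - (n - i) = i by omega] at e2
      refine Or.inr ?_
      show pos (T.src (pvasIt T σ 𝔇.t.dp i)) ∈ _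
      rw [e2]
      exact (hOk.st_s.stub.em_in _ (by omega)).1
  · refine Or.inl (Or.inl ?_)
    show pos (T.src (pvasIt T σ 𝔇.t.dp i)) ∈ _
    rw [pvwf_run_fst 𝔇 hOk hσ h1]
    exact (hOk.st_t.stub.ep_in _ h1).1

end ring

section ringE

variable {η : Conf PvPt} {N : PvwNum} {h : ℝ} {π : PvwPat} {B : Set ℂ} {a₀ : ℝ}

/-- **THE REGIONS OF THE PATTERN LIE IN `B`** (deterministic): the two gate discs, the two boxes, the room `Yin` of the new strand -/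
structure PvdfReg (N : PvwNum) (h : ℝ) (π : PvwPat) (B : Set ℂ) : Prop where
  ds : Metric.ball π.zs (π.ts.b * h) ⊆ B
  dt : Metric.ball π.zt (π.tt.b * h) ⊆ B
  bs : pvwSq π.zs (pvwRad N h π.ts π.ts.k) ⊆ B
  bt : pvwSq π.zt (pvwRad N h π.tt π.tt.k) ⊆ B
  yin : π.Yin ⊆ B

/-- the four pieces of the ring lie in `B` -/
theorem pvdf_pieces_in (hg : DelGood (cfSites η)) (𝔇 : PvwDat (pvieT η)) (hOk : 𝔇.Ok (pviePos η) N h π) (hσ : pvieCol η true ∈ 𝔇.Cyl) {y : (pvieT η).Pth} (hy : 𝔇.YArc (pviePos η) π (pvieCol η true) y)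
    (hR : PvdfReg N h π B) (hgB : ∀ k, k ≤ 𝔇.g.n → pviePos η (𝔇.g.v k) ∈ B) :
    ∀ p ∈ [𝔇.g, 𝔇.t.inn, y, 𝔇.s.inn], ∀ k, k < p.n → pviePos η ((pvieT η).tgt (p.e k)) ∈ B := by
  have hT : (pvieT η).IsSph := delb_plane_isSph hg
  intro p hp k hk
  rw [p.tgt_e k hk]
  rcases List.mem_cons.1 hp with rfl | hp
  · exact hgB _ hk
  rcases List.mem_cons.1 hp with rfl | hp
  · exact hR.dt (mem_ball_iff_norm.2 (pvdf_inn_in hT hOk.st_t.gate hk))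
  rcases List.mem_cons.1 hp with rfl | hp
  · rcases pvdf_y_in hT 𝔇 hOk hσ hy (k := k + 1) hk with (h1 | h1) | h1
    · exact hR.bt h1
    · exact hR.yin h1
    · exact hR.bs h1
  obtain rfl := List.mem_singleton.1 hp
  exact hR.ds (mem_ball_iff_norm.2 (pvdf_inn_in hT hOk.st_s.gate hk))

/-- **THE RING OF A DATUM**: `Ok`, `Fit`, `Cyl`, the `g₀` part of (C2) (`g₀` lies on the wall of the entry gate edge of `t`: ANY route), an arc `y` of `SY`; `g₀` and the regions of the pattern inside `B`; gate radius `a₁ ≥ 1 + a₀ / h`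
⟹ `g₀ :: [inner(t), y, inner(s)]` is a ring in the sense of 37, of mass `X(D) + I(t → s; y)` -/
theorem pvdf_ring (hg : DelGood (cfSites η)) (𝔇 : PvwDat (pvieT η)) (hOk : 𝔇.Ok (pviePos η) N h π) (hF : 𝔇.Fit (pviePos η) N h π (pvieCol η true)) (hσ : pvieCol η true ∈ 𝔇.Cyl)
    (hgw : 𝔇.g.OnWall (pvieCol η true) 𝔇.t.dm) {y : (pvieT η).Pth} (hy : 𝔇.YArc (pviePos η) π (pvieCol η true) y) (a : ℂ)
    (hR : PvdfReg N h π B) (hgB : ∀ k, k ≤ 𝔇.g.n → pviePos η (𝔇.g.v k) ∈ B) (hh : 0 < h) (ha : 1 < π.ts.a) (ha₀ : a₀ ≤ (π.ts.a - 1) * h) :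
    PvdeRing true a B a₀ η 𝔇.g [𝔇.t.inn, y, 𝔇.s.inn] (𝔇.X (pviePos η) (pvieFld η a) N h π + 𝔇.Yof (pviePos η) (pvieFld η a) N h π y) := by
  have hT : (pvieT η).IsSph := delb_plane_isSph hg
  have hS : (pvieT η).Simple := (delbPl (pvieY η)).toMap_simple
  obtain ⟨hchain, hnd, hwall, -⟩ := pvwc_ring hT hS 𝔇 hOk hF hσ hgw hy
  obtain ⟨r1, r2, r3⟩ := pvwc_C2_core hT hS 𝔇 hOk hF hσ hgw hy
  have hmem : 𝔇.g.e 0 ∈ pvowDarts [𝔇.g, 𝔇.t.inn, y, 𝔇.s.inn] := pvow_mem_darts.2 ⟨𝔇.g, by simp, 0, hOk.pos_n, rfl⟩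
  refine ⟨hOk.pos_n, hnd, r1, r2, r3 _, Or.inr ?_, fun f hf => ?_, ?_⟩
  · rw [(pvow_ring hT hS hchain hnd hwall hmem).2.2, pvdf_chain_side _ _ _ _ hchain, sub_self]
  · obtain ⟨p, hp, k, hk, rfl⟩ := pvow_mem_darts.1 hf
    exact pvdf_pieces_in hg 𝔇 hOk hσ hy hR hgB p hp k hk
  · obtain ⟨k, k', hk, hk', hkk⟩ := pvdf_big_of_gate 𝔇.s hOk.st_s.gate hh ha
    exact ⟨𝔇.s.inn.e k, 𝔇.s.inn.e k', pvow_mem_darts.2 ⟨𝔇.s.inn, by simp, k, hk, rfl⟩, pvow_mem_darts.2 ⟨𝔇.s.inn, by simp, k', hk', rfl⟩, ha₀.trans hkk⟩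

/-- **ADAPTER**: the record `PvwDat.Ring` of 78 (`Tr/C2Dom`: exit of (C2), any route: `pvc4_ring_core _circuit _nu _model`) is a ring in the sense of 37, of mass `X(D) + Y(D_Y, σ)` -/
theorem pvdf_ring_of (hg : DelGood (cfSites η)) (𝔇 : PvwDat (pvieT η)) (hOk : 𝔇.Ok (pviePos η) N h π) (hσ : pvieCol η true ∈ 𝔇.Cyl) {y : (pvieT η).Pth} (hr : 𝔇.Ring (pviePos η) N h π (pvieCol η true) y) (a : ℂ)
    (hR : PvdfReg N h π B) (hgB : ∀ k, k ≤ 𝔇.g.n → pviePos η (𝔇.g.v k) ∈ B) (hh : 0 < h) (ha : 1 < π.ts.a) (ha₀ : a₀ ≤ (π.ts.a - 1) * h) :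
    PvdeRing true a B a₀ η 𝔇.g [𝔇.t.inn, y, 𝔇.s.inn] (𝔇.X (pviePos η) (pvieFld η a) N h π + 𝔇.Y (pviePos η) (pvieFld η a) N h π (pvieCol η true)) := by
  refine ⟨hr.pos_n, hr.nd, hr.tag, hr.cls, hr.sum _, Or.inr hr.side0, fun f hf => ?_, ?_⟩
  · obtain ⟨p, hp, k, hk, rfl⟩ := pvow_mem_darts.1 hf
    exact pvdf_pieces_in hg 𝔇 hOk hσ hr.arc hR hgB p hp k hk
  · obtain ⟨k, k', hk, hk', hkk⟩ := pvdf_big_of_gate 𝔇.s hOk.st_s.gate hh ha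
    exact ⟨𝔇.s.inn.e k, 𝔇.s.inn.e k', pvow_mem_darts.2 ⟨𝔇.s.inn, by simp, k, hk, rfl⟩, pvow_mem_darts.2 ⟨𝔇.s.inn, by simp, k', hk', rfl⟩, ha₀.trans hkk⟩

end ringE

/-! ## 5. the contract in the names of `Tr/Defs`, `Tr/C12` -/

section c2

variable {τ : Type} {c : ℝ} (𝔓 : PvxPar τ c) (m : ℕ) (π : PvxIx τ) (a : ℂ) (𝔎 : PvxnKit) (𝔜 : PvxnYd)

/-- `𝔇` is a witness of the index `i` at `η` which carries `E(D)` and `WO(D)` -/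
def PvdfPr (η : Conf PvPt) (i : PvxnIx) (𝔇 : PvwDat (delbPl (cfSites η)).toMap) : Prop :=
  PvxnWit 𝔓 m π a 𝔎 (cfSites η) i (pvdfCol η) 𝔇 ∧ 𝔎.E (cfSites η) 𝔇 (pvdfCol η) ∧ 𝔎.W (cfSites η) 𝔇 (pvdfCol η)

/-- **WHAT `dom` ASKS OF THE KIT AND OF THE `Y` SIDE, at one configuration, IN THE NAMES OF RECORD**.      `σ = pvdfCol η`.      Every field but `w_le` is asked ONLY WHEN THE CHAIN SUCCEEDS (`w ≠ 0`), for the data `PvdfPr η i 𝔇`;   `fit`, `onwall` have an arc `y` of `SY` in hand (78, 194: `Col` at the model eats `SYn`).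
* `w_le`    thresholds      [193 93 `w = D_c 1_Ev`: trivial]
* `fit`     `PvwDat.Fit`      [194 `pvwf_fit` : `Ok + Geo + Cyl`]
* `onwall`  the `g₀` part of (C2), any route      [78 `pvc4_onwall_on`, `pvc4_onwall_circuit` (`NBon M`), 194 `pvwc_g_onwall` (faced `NB` + `Col`)]
* `chain`   CHAIN: the links are ONE strand `t → s` with rim arc `y`, and `Y = I(t → s; y)`      [70 `Tr/LinkCat`, 268 `Tr/TipNf`, 227]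
* `gB`      `g₀` lies in `B` -/
structure PvdfC2 (ε : ℝ) (η : Conf PvPt) : Prop where
  w_le : ∀ i, (pvxnSys 𝔓 m π a 𝔎 𝔜 ε).Pr η i → 𝔜.w ε η ≤ 𝔜.D
  fit : 𝔜.w ε η ≠ 0 → ∀ i 𝔇, PvdfPr 𝔓 m π a 𝔎 η i 𝔇 → ∀ y, 𝔇.YArc Subtype.val (𝔓.reg m π) (pvdfCol η) y → 𝔇.Fit Subtype.val 𝔓.num (pvlmH m) (𝔓.reg m π) (pvdfCol η)
  onwall : 𝔜.w ε η ≠ 0 → ∀ i 𝔇, PvdfPr 𝔓 m π a 𝔎 η i 𝔇 → ∀ y, 𝔇.YArc Subtype.val (𝔓.reg m π) (pvdfCol η) y → 𝔇.g.OnWall (pvdfCol η) 𝔇.t.dm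
  chain : 𝔜.w ε η ≠ 0 → ∀ i 𝔇, PvdfPr 𝔓 m π a 𝔎 η i 𝔇 →
    ∃ y, 𝔇.YArc Subtype.val (𝔓.reg m π) (pvdfCol η) y ∧ 𝔜.Y ε η = 𝔇.Yof Subtype.val (pvxnFd (cfSites η) a) 𝔓.num (pvlmH m) (𝔓.reg m π) y
  gB : 𝔜.w ε η ≠ 0 → ∀ i 𝔇, PvdfPr 𝔓 m π a 𝔎 η i 𝔇 → ∀ k, k ≤ 𝔇.g.n → ((𝔇.g.v k : ↥(cfSites η)) : ℂ) ∈ 𝔎.B

/-- the same with the record `PvwDat.Ring` of 78 (`ring` = (C2) + `SY`, `val` = the value half of CHAIN) -/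
structure PvdfRg (ε : ℝ) (η : Conf PvPt) : Prop where
  w_le : ∀ i, (pvxnSys 𝔓 m π a 𝔎 𝔜 ε).Pr η i → 𝔜.w ε η ≤ 𝔜.D
  ring : 𝔜.w ε η ≠ 0 → ∀ i 𝔇, PvdfPr 𝔓 m π a 𝔎 η i 𝔇 → ∃ y, 𝔇.Ring Subtype.val 𝔓.num (pvlmH m) (𝔓.reg m π) (pvdfCol η) y
  val : 𝔜.w ε η ≠ 0 → ∀ i 𝔇, PvdfPr 𝔓 m π a 𝔎 η i 𝔇 → 𝔜.Y ε η = 𝔇.Y Subtype.val (pvxnFd (cfSites η) a) 𝔓.num (pvlmH m) (𝔓.reg m π) (pvdfCol η)
  gB : 𝔜.w ε η ≠ 0 → ∀ i 𝔇, PvdfPr 𝔓 m π a 𝔎 η i 𝔇 → ∀ k, k ≤ 𝔇.g.n → ((𝔇.g.v k : ↥(cfSites η)) : ℂ) ∈ 𝔎.B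

variable {𝔓 m π a 𝔎 𝔜}

/-- the names of record give the ring form -/
theorem PvdfC2.toAt {ε : ℝ} {η : Conf PvPt} (hg : DelGood (cfSites η)) (ha : 2 ≤ (𝔓.reg m π).ts.a) (hR : PvdfReg 𝔓.num (pvlmH m) (𝔓.reg m π) 𝔎.B) (h : PvdfC2 𝔓 m π a 𝔎 𝔜 ε η) : PvdfAt 𝔓 m π a 𝔎 𝔜 ε η := by
  refine ⟨h.w_le, fun hw i 𝔇 hW hE hWO => ?_⟩
  have hP : PvdfPr 𝔓 m π a 𝔎 η i 𝔇 := ⟨hW, hE, hWO⟩
  obtain ⟨y, hy, hY⟩ := h.chain hw i 𝔇 hP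
  have hh : 0 < pvlmH m := pvlm_H_pos m
  refine ⟨[𝔇.t.inn, y, 𝔇.s.inn], ?_⟩
  have key := pvdf_ring (η := η) (N := 𝔓.num) (h := pvlmH m) (π := 𝔓.reg m π) (B := 𝔎.B) (a₀ := pvlmH m) hg 𝔇 hW.ok (by rw [pvdf_col_eq]; exact h.fit hw i 𝔇 hP y hy) (by rw [pvdf_col_eq]; exact hW.cyl)
    (by rw [pvdf_col_eq]; exact h.onwall hw i 𝔇 hP y hy) (y := y) (by rw [pvdf_col_eq]; exact hy) a hR (h.gB hw i 𝔇 hP) hh (by linarith) (by nlinarith)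
  rw [hY, ← hW.labX]
  exact key

theorem PvdfRg.toAt {ε : ℝ} {η : Conf PvPt} (hg : DelGood (cfSites η)) (ha : 2 ≤ (𝔓.reg m π).ts.a) (hR : PvdfReg 𝔓.num (pvlmH m) (𝔓.reg m π) 𝔎.B) (h : PvdfRg 𝔓 m π a 𝔎 𝔜 ε η) : PvdfAt 𝔓 m π a 𝔎 𝔜 ε η := by
  refine ⟨h.w_le, fun hw i 𝔇 hW hE hWO => ?_⟩
  have hP : PvdfPr 𝔓 m π a 𝔎 η i 𝔇 := ⟨hW, hE, hWO⟩
  obtain ⟨y, hy⟩ := h.ring hw i 𝔇 hP
  have hh : 0 < pvlmH m := pvlm_H_pos m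
  refine ⟨[𝔇.t.inn, y, 𝔇.s.inn], ?_⟩
  have key := pvdf_ring_of (η := η) (N := 𝔓.num) (h := pvlmH m) (π := 𝔓.reg m π) (B := 𝔎.B) (a₀ := pvlmH m) hg 𝔇 hW.ok (by rw [pvdf_col_eq]; exact hW.cyl) (y := y) (by rw [pvdf_col_eq]; exact hy) a hR
    (h.gB hw i 𝔇 hP) hh (by linarith) (by nlinarith)
  rw [h.val hw i 𝔇 hP, ← hW.labX]
  rw [pvdf_col_eq] at key
  exact key

/-- **THE FIELD `dom` OF `PvxnOk`, VERBATIM, FROM THE NAMES OF RECORD** -/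
theorem pvdf_dom_c2 {𝔎s : ℝ → PvxnKit} (ha : 2 ≤ (𝔓.reg m π).ts.a) (hB : ∀ᶠ ε in 𝓝[>] (0 : ℝ), Bornology.IsBounded (𝔎s ε).B) (hR : ∀ᶠ ε in 𝓝[>] (0 : ℝ), PvdfReg 𝔓.num (pvlmH m) (𝔓.reg m π) (𝔎s ε).B)
    (hN : ∀ᶠ ε in 𝓝[>] (0 : ℝ), ∀ (Y : Set ℂ) (𝔇 𝔇' : PvwDat (delbPl Y).toMap), PvdfSame 𝔇 𝔇' → (𝔎s ε).N Y 𝔇 = (𝔎s ε).N Y 𝔇')
    (h : ∀ᶠ ε in 𝓝[>] (0 : ℝ), ∀ᵐ η ∂pvP ε, PvdfC2 𝔓 m π a (𝔎s ε) 𝔜 ε η) :
    ∀ᶠ ε in 𝓝[>] (0 : ℝ), ∀ᵐ ω ∂pvP ε, ∑' i, ((pvxnSys 𝔓 m π a (𝔎s ε) 𝔜 ε).A i ∩ (pvxnSys 𝔓 m π a (𝔎s ε) 𝔜 ε).WO i).indicator (fun ω => 𝔜.w ε ω * ‖i.X + 𝔜.Y ε ω‖ₑ ^ 2) ω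
      ≤ 𝔜.D * pvclSum ω (𝔎s ε).B (pvlmH m) := by
  refine pvdf_dom hB hN ?_
  filter_upwards [h, hR, self_mem_nhdsWithin] with ε h1 h4 hε
  filter_upwards [h1, pvqf_good_ae ε (ne_of_gt hε)] with η h2 h3
  exact h2.toAt h3.del ha h4

/-- the same from the rings of 78 -/
theorem pvdf_dom_rg {𝔎s : ℝ → PvxnKit} (ha : 2 ≤ (𝔓.reg m π).ts.a) (hB : ∀ᶠ ε in 𝓝[>] (0 : ℝ), Bornology.IsBounded (𝔎s ε).B) (hR : ∀ᶠ ε in 𝓝[>] (0 : ℝ), PvdfReg 𝔓.num (pvlmH m) (𝔓.reg m π) (𝔎s ε).B)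
    (hN : ∀ᶠ ε in 𝓝[>] (0 : ℝ), ∀ (Y : Set ℂ) (𝔇 𝔇' : PvwDat (delbPl Y).toMap), PvdfSame 𝔇 𝔇' → (𝔎s ε).N Y 𝔇 = (𝔎s ε).N Y 𝔇')
    (h : ∀ᶠ ε in 𝓝[>] (0 : ℝ), ∀ᵐ η ∂pvP ε, PvdfRg 𝔓 m π a (𝔎s ε) 𝔜 ε η) :
    ∀ᶠ ε in 𝓝[>] (0 : ℝ), ∀ᵐ ω ∂pvP ε, ∑' i, ((pvxnSys 𝔓 m π a (𝔎s ε) 𝔜 ε).A i ∩ (pvxnSys 𝔓 m π a (𝔎s ε) 𝔜 ε).WO i).indicator (fun ω => 𝔜.w ε ω * ‖i.X + 𝔜.Y ε ω‖ₑ ^ 2) ω
      ≤ 𝔜.D * pvclSum ω (𝔎s ε).B (pvlmH m) := by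
  refine pvdf_dom hB hN ?_
  filter_upwards [h, hR, self_mem_nhdsWithin] with ε h1 h4 hε
  filter_upwards [h1, pvqf_good_ae ε (ne_of_gt hε)] with η h2 h3
  exact h2.toAt h3.del ha h4

end c2

theorem pvdf_eqns_cite : True := by
  have := @pvdfCol.eq_1; have := @PvdfPr.eq_1
  trivial

end Claimed.Agent.R289
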