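import Claimed.Agent.R289.Exit.N1
import Claimed.Agent.R289.Tr.ChainY

/-!
# Row 289 (S0537), THE WALL, ROAD E, file Tr/JenE : THE FIELDS `jen`, `yh_stab` AND THE CLAUSE `ŷ = K` OF `PvxnOk` (170, `Exit/N1.lean`) FROM THE CHAIN OF `Tr/ChainY` (218)      (helper93, post Z of 82; prefix `pvjb_`, `pvjb`, `Pvjb`)

WHAT.   `Exit/N1` reads the system of N1' on the configuration `ζ = pvxnFl b (pvConf ω)` (BLACK vocabulary), experiment `S.R` = colours of ALL the sites off the finite set `i.N` + geometry of `𝔎.C`.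
`Tr/ChainY` proves TR1 TR2 TR3 at a base configuration `ω` (ACTUAL colours, bit `b` inside), experiment `pvdyR C yf ω` = colours of the fresh sites of the two mouths + geometry of `C`.      THIS FILE = THE ADAPTER, model free in the end links `eo ei`.
* sec. 1  THE COLOUR FLIP OF THE HYBRID EXPERIMENT: `pvjbC b κ`, `pvjb_fl_cfOf`, **`pvjb_fl_R`** (`fl (R (cfOf Y σ) (κ, ω₂)) = R (cfOf Y σᵇ) (κᵇ, fl ω₂)`), `pvjb_lintegral_C`, `pvjb_lintegral_F` (ANY integrand).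
* sec. 2  `pvjb_prod_le` : `∫⁻ f d(μ ⊗ ν) ≤ ∫⁻ ∫⁻ f` for ANY `f` (so `jen` consumes NO measurability: not `mw`, not `mY`).
* sec. 3  **`pvjbYd`** = THE `Y` SIDE OF RECORD: `w = D 1_Ev ∘ fl`, `Y = Y_c ∘ fl` (end links at the hulls of the PATTERN: no index), **`ŷ := κ_out + cell means + κ_in` BY DEFINITION** (end links at the base data of the configuration);
          `pvjb_yh_act` = the clause `ŷ = K` of `act` (an unfolding);   `pvjb_Ev_congr pvjb_Yc_congr pvjb_Ev_meas pvjb_Yc_meas`.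
* sec. 4  at ONE base: **`pvjb_jen_base`** (TR3 + enlargement of the fresh set + flip), `pvjb_hat_funnel` (`ŷ` is a function of the two funnels),
          **`pvjb_jen_plain`** (the same directly from `PvkeChain` on the seed space, for ANY plain event / closing sum on configurations, ONE-SIDED a.e. transfer: 168 (4)).
* sec. 5  **`PvjbIn`** = THE CONTRACT (what the localisation of the links owes: 218 `Tr/ChainI`, 141 `Tr/SoftE`, 74 `Tr/LinkLoc`, 168 178 `Tr/InstL`; forced constants 21 221 35 30), `PvjbIn.of_big`,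
          **`PvjbIn.jen`**, **`PvjbIn.yh_stab`**, **`pvjb_mw`**, **`pvjb_mY`** = the four fields of `PvxnOk` VERBATIM at `pvxnSys 𝔓 m π a 𝔎 (pvjbYd ..)`.
-/

set_option autoImplicit false
set_option linter.unusedSectionVars false
set_option linter.unusedVariables false

namespace Claimed.Agent.R289

open MeasureTheory ProbabilityTheory Filter Topology Set Claims.C0465
open scoped ENNReal

/-! ## 1. the colour flip of the hybrid experiment -/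

/-- the colouring seen by the objects typed for BLACK -/
def pvjbC (b : Bool) (κ : ℂ → Bool) : ℂ → Bool := fun z => κ z == b

theorem pvjb_C_C (b : Bool) (κ : ℂ → Bool) : pvjbC b (pvjbC b κ) = κ := by
  funext z
  unfold pvjbC
  cases b <;> cases κ z <;> rfl

theorem pvjb_measurable_C (b : Bool) : Measurable (pvjbC b) :=
  measurable_pi_lambda _ fun z => (measurable_of_countable fun c : Bool => c == b).comp (measurable_pi_apply z)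

/-- the flip of the seeds as a measurable equivalence -/
def pvjbCE (b : Bool) : (ℂ → Bool) ≃ᵐ (ℂ → Bool) where
  toFun := pvjbC b
  invFun := pvjbC b
  left_inv := pvjb_C_C b
  right_inv := pvjb_C_C b
  measurable_toFun := pvjb_measurable_C b
  measurable_invFun := pvjb_measurable_C b

/-- the flip of the configurations as a measurable equivalence -/
def pvjbFE (b : Bool) : Conf PvPt ≃ᵐ Conf PvPt where
  toFun := pvkyFl b
  invFun := pvkyFl b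
  left_inv := pvky_fl_fl b
  right_inv := pvky_fl_fl b
  measurable_toFun := measurable_pvkyFl b
  measurable_invFun := measurable_pvkyFl b

theorem pvjb_eqns_cite : True := by
  have := @pvjbC.eq_1; have := @pvjbCE.eq_1; have := @pvjbFE.eq_1
  trivial

theorem pvjb_C_map (b : Bool) : (colLaw ℂ).map (pvjbC b) = colLaw ℂ := by
  cases b
  · have e : pvjbC false = pvfFlip (univ : Set ℂ) := by
      funext κ z
      rw [pvf_flip_mem (mem_univ z)]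
      unfold pvjbC
      cases κ z <;> rfl
    rw [e]
    exact pvf_colLaw_flip univ
  · have e : pvjbC true = id := by
      funext κ z
      show (κ z == true) = κ z
      cases κ z <;> rfl
    rw [e]
    exact Measure.map_id

/-- change of variables in the seeds, ANY integrand -/
theorem pvjb_lintegral_C (b : Bool) (F : (ℂ → Bool) → ℝ≥0∞) : ∫⁻ κ, F (pvjbC b κ) ∂(colLaw ℂ) = ∫⁻ κ, F κ ∂(colLaw ℂ) := by
  conv_rhs => rw [← pvjb_C_map b]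
  exact (lintegral_map_equiv F (pvjbCE b)).symm

/-- change of variables in the independent configuration, ANY integrand -/
theorem pvjb_lintegral_F (b : Bool) (ε : ℝ) (F : Conf PvPt → ℝ≥0∞) : ∫⁻ η, F (pvkyFl b η) ∂(pvP ε) = ∫⁻ η, F η ∂(pvP ε) := by
  conv_rhs => rw [← pvky_fl_map b ε]
  exact (lintegral_map_equiv F (pvjbFE b)).symm

theorem pvjb_fl_eq (b : Bool) (ζ : Conf PvPt) : pvxnFl b ζ = pvkyFl b ζ := rfl

theorem pvjb_fl_cfOf (b : Bool) (Y : Set ℂ) (σ : ℂ → Bool) : pvkyFl b (cfOf Y σ) = cfOf Y (pvjbC b σ) := by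
  ext p
  rw [pvky_mem_fl]
  show (p.1 ∈ Y ∧ (p.2 == b) = σ p.1) ↔ (p.1 ∈ Y ∧ p.2 = (σ p.1 == b))
  refine and_congr_right fun _ => ?_
  cases b <;> cases p.2 <;> cases σ p.1 <;> simp

theorem pvjb_C_mix (b : Bool) (N : Set ℂ) (κ σ : ℂ → Bool) : pvjbC b (pvfqMix N (κ, σ)) = pvfqMix N (pvjbC b κ, pvjbC b σ) := by
  funext z
  by_cases h : z ∈ N
  · rw [pvfqMix_of_mem h]
    show (pvfqMix N (κ, σ) z == b) = _
    rw [pvfqMix_of_mem h]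
    rfl
  · rw [pvfqMix_of_notMem h]
    show (pvfqMix N (κ, σ) z == b) = _
    rw [pvfqMix_of_notMem h]
    rfl

theorem pvjb_fl_spl (b : Bool) (C : Set ℂ) (η η' : Conf PvPt) :
    pvkyFl b (Conf.spl (Cᶜ ×ˢ (univ : Set Bool)) (η, η')) = Conf.spl (Cᶜ ×ˢ (univ : Set Bool)) (pvkyFl b η, pvkyFl b η') := by
  ext p
  simp only [pvky_mem_fl, Conf.spl, Conf.union, Conf.restr, mem_union, mem_inter_iff, mem_prod, mem_compl_iff, mem_univ, and_true]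

/-- **THE HYBRID EXPERIMENT COMMUTES WITH THE COLOUR FLIP** (base with one colour per site, CONSTANT fresh set) -/
theorem pvjb_fl_R (b : Bool) (C N : Set ℂ) (Y : Set ℂ) (σ κ : ℂ → Bool) (ω₂ : Conf PvPt) :
    pvkyFl b (pvdyR C (fun _ => N) (cfOf Y σ) (κ, ω₂)) = pvdyR C (fun _ => N) (cfOf Y (pvjbC b σ)) (pvjbC b κ, pvkyFl b ω₂) := by
  rw [pvdy_R_cfOf, pvdy_R_cfOf, pvjb_fl_spl, pvjb_fl_cfOf, pvjb_C_mix]

/-! ## 2. product integral and iterated integral of ANY function -/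

/-- the lower integral against a product measure is at most the iterated lower integral: NO measurability -/
theorem pvjb_prod_le {α β : Type*} [MeasurableSpace α] [MeasurableSpace β] (μ : Measure α) (ν : Measure β) [SFinite ν] (f : α × β → ℝ≥0∞) :
    ∫⁻ p, f p ∂(μ.prod ν) ≤ ∫⁻ x, ∫⁻ y, f (x, y) ∂ν ∂μ := by
  obtain ⟨g, mg, hgf, hg⟩ := exists_measurable_le_lintegral_eq (μ.prod ν) f
  rw [hg, lintegral_prod _ mg.aemeasurable]
  exact lintegral_mono fun x => lintegral_mono fun y => hgf (x, y)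

/-! ## 3. the `Y` side -/

section yside

variable (kit : ℝ → PvthKit) (b : Bool) (X₀ : ℝ → PvtTurn → Conf PvPt → ℂ) (z d : ℂ) (l : List PvtTurn) (zi di : ℂ) (eo ei : ℝ → Conf PvPt → PvkyEnd) (eoR eiR : ℝ → PvkyEnd) (D : ℝ≥0∞)

/-- **THE `Y` SIDE OF N1'** in the names of `Tr/ChainY`, read on the configuration of the BLACK vocabulary (`ζ = fl (actual configuration)`, `fl ∘ fl = id`).
* `eo ε η₀`, `ei ε η₀` = the two end links AT THE BASE DATA of the configuration `η₀` (R18 (3) L2; `pvilEoAt`, `pvilEiAt` of 168);   `eoR ε`, `eiR ε` = the end links at the hulls OF THE PATTERN (no index, no base: R16 (2))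
* weight `D 1_Ev`, closing sum `Y_c` (reference ends);   **`ŷ := κ_out + cell means + κ_in` BY DEFINITION** (168 (3)): the clause `ŷ = K` of `act` is an unfolding, `PvieChainEq` is not consumed -/
noncomputable def pvjbYd : PvxnYd where
  w ε ζ := D * (pvkyEv (kit ε) b z d l (eoR ε) (eiR ε)).indicator 1 (pvkyFl b ζ)
  Y ε ζ := pvkyYc (kit ε) b z d l (eoR ε) (eiR ε) (X₀ ε) (pvkyFl b ζ)
  yh ε _ ζ := pvkyK (kit ε) ε b (eo ε (pvkyFl b ζ)) z d (pvkyFl b ζ) + pvtSum ((kit ε).W (pvP ε) (X₀ ε)) d l + pvkyK (kit ε) ε b (ei ε (pvkyFl b ζ)) zi di (pvkyFl b ζ)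
  D := D

theorem pvjb_eqns_cite2 : True := by
  have := @pvjbYd.eq_1
  trivial

/-- **THE CLAUSE `ŷ = K` OF `act`**: an unfolding -/
theorem pvjb_yh_act (ε : ℝ) (i : PvxnIx) (η : Conf PvPt) :
    (pvjbYd kit b X₀ z d l zi di eo ei eoR eiR D).yh ε i (pvxnFl b η) =
      pvkyK (kit ε) ε b (eo ε η) z d η + pvtSum ((kit ε).W (pvP ε) (X₀ ε)) d l + pvkyK (kit ε) ε b (ei ε η) zi di η := by
  show pvkyK (kit ε) ε b (eo ε (pvkyFl b (pvkyFl b η))) z d (pvkyFl b (pvkyFl b η)) + _ + pvkyK (kit ε) ε b (ei ε (pvkyFl b (pvkyFl b η))) zi di (pvkyFl b (pvkyFl b η)) = _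
  rw [pvky_fl_fl]

end yside

/-- the event `Ev` sees the success events of the end links only -/
theorem pvjb_Ev_congr (kit : PvthKit) (b : Bool) (z d : ℂ) (l : List PvtTurn) {eo eo' ei ei' : PvkyEnd} (h1 : eo.A = eo'.A) (h2 : ei.A = ei'.A) :
    pvkyEv kit b z d l eo ei = pvkyEv kit b z d l eo' ei' := by
  unfold pvkyEv
  rw [h1, h2]

/-- the closing sum sees the values of the end links only -/
theorem pvjb_Yc_congr (kit : PvthKit) (b : Bool) (z d : ℂ) (l : List PvtTurn) (X₀ : PvtTurn → Conf PvPt → ℂ) {eo eo' ei ei' : PvkyEnd} (h1 : eo.X = eo'.X) (h2 : ei.X = ei'.X) :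
    pvkyYc kit b z d l eo ei X₀ = pvkyYc kit b z d l eo' ei' X₀ := by
  funext η
  unfold pvkyYc
  rw [h1, h2]

/-- `Ev` is measurable as soon as the two success events are -/
theorem pvjb_Ev_meas {kit : PvthKit} (hk : kit.WF) (b : Bool) (z d : ℂ) (l : List PvtTurn) {eo ei : PvkyEnd} (ho : MeasurableSet eo.A) (hi : MeasurableSet ei.A) :
    MeasurableSet (pvkyEv kit b z d l eo ei) := by
  have e : pvkyEv kit b z d l eo ei = (⋂ j ∈ Finset.range (l.length + 1), pvkyFl b ⁻¹' kit.G (pvthZ kit.δ z d l j) (pvthD d l j)) ∩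
      (⋂ j ∈ Finset.range l.length, pvkyFl b ⁻¹' kit.A (pvthZ kit.δ z d l j) (pvthD d l j) (pvthL l j)) ∩ ei.A ∩ eo.A := by
    ext η
    simp only [pvkyEv, mem_ofPred_eq, mem_inter_iff, mem_iInter, Finset.mem_range, mem_preimage, Nat.lt_succ_iff, and_assoc]
  rw [e]
  refine (((Finset.measurableSet_biInter _ fun j _ => measurable_pvkyFl b (pvth_mG hk _ _)).inter
    (Finset.measurableSet_biInter _ fun j _ => measurable_pvkyFl b (pvth_mA hk _ _ _))).inter hi).inter ho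

/-- `Y_c` is measurable as soon as the two values are -/
theorem pvjb_Yc_meas {kit : PvthKit} {X₀ : PvtTurn → Conf PvPt → ℂ} (hX : kit.Fld X₀) (b : Bool) (z d : ℂ) (l : List PvtTurn) {eo ei : PvkyEnd} (ho : Measurable eo.X) (hi : Measurable ei.X) :
    Measurable (pvkyYc kit b z d l eo ei X₀) := by
  have hY : Measurable (kit.Y X₀ z d l) := by
    unfold PvthKit.Y
    exact Finset.measurable_sum _ fun j _ => pvth_X_meas hX _ _ _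
  exact (ho.add (hY.comp (measurable_pvkyFl b))).add hi

/-! ## 4. one base configuration -/

section base

variable {kit : PvthKit} {ε : ℝ} {b : Bool} {X₀ : PvtTurn → Conf PvPt → ℂ} {z d : ℂ} {l : List PvtTurn} {C : Set ℂ} {yf : Conf PvPt → Set ℂ}
  {eo ei : PvkyEnd} {fo fi : PvkeFun ℂ} {β' q qo qi : ℝ≥0∞}

/-- `ŷ` is a function of the two funnels -/
theorem pvjb_hat_funnel {ω : Conf PvPt} (H : PvkyChain kit ε b X₀ z d l ω C yf eo ei fo fi β' q qo qi) :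
    pvdyHat ε C yf (pvkyWc kit ε b z d l eo ei) (pvkyYc kit b z d l eo ei X₀) ω =
      fo.k kit (pvP ε) (pvthZ kit.δ z d l 0) (pvthD d l 0) + pvtSum (kit.W (pvP ε) X₀) d l + fi.k kit (pvP ε) (pvthZ kit.δ z d l l.length) (pvthD d l l.length) := by
  rw [H.hat_eq, H.K_out, H.K_in]

/-- **TR3 + ENLARGEMENT OF THE FRESH SET + FLIP**, at the base `fl (cfOf Y σ)`.      `N'` = the (cofinite) set of the sites recoloured by the experiment of 159;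
`enl`: for EVERY seed `κ` and almost every `ω₂`: if the experiment of the chain succeeds, so does the large experiment, with the same closing sum.      NO measurability. -/
theorem pvjb_jen_base {Y : Set ℂ} {σ : ℂ → Bool} (H : PvkyChain kit ε b X₀ z d l (cfOf Y (pvjbC b σ)) C yf eo ei fo fi β' q qo qi) {Dc : ℝ≥0∞}
    (hD : pvkeD kit (pvP ε) l.length q qo qi ≤ Dc) (N' : Set ℂ)
    (enl : ∀ κ : ℂ → Bool, ∀ᵐ ω₂ ∂(pvP ε), pvdyR C yf (cfOf Y (pvjbC b σ)) (κ, ω₂) ∈ pvkyEv kit b z d l eo ei →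
      pvdyR C (fun _ => N') (cfOf Y (pvjbC b σ)) (κ, ω₂) ∈ pvkyEv kit b z d l eo ei ∧
      pvkyYc kit b z d l eo ei X₀ (pvdyR C (fun _ => N') (cfOf Y (pvjbC b σ)) (κ, ω₂)) = pvkyYc kit b z d l eo ei X₀ (pvdyR C yf (cfOf Y (pvjbC b σ)) (κ, ω₂))) (x₀ : ℂ) :
    ‖x₀ + pvdyHat ε C yf (pvkyWc kit ε b z d l eo ei) (pvkyYc kit b z d l eo ei X₀) (pvkyFl b (cfOf Y σ))‖ₑ ^ 2 ≤
      ∫⁻ κ, ∫⁻ ω₂, (Dc * (pvkyEv kit b z d l eo ei).indicator 1 (pvkyFl b (pvdyR C (fun _ => N') (cfOf Y σ) (κ, ω₂)))) *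
        ‖x₀ + pvkyYc kit b z d l eo ei X₀ (pvkyFl b (pvdyR C (fun _ => N') (cfOf Y σ) (κ, ω₂)))‖ₑ ^ 2 ∂(pvP ε) ∂(colLaw ℂ) := by
  have := (pv_isPpp ε).prob
  set ω : Conf PvPt := cfOf Y (pvjbC b σ) with hω
  set Ev := pvkyEv kit b z d l eo ei with hEv
  set Yc := pvkyYc kit b z d l eo ei X₀ with hYc
  rw [pvjb_fl_cfOf]
  -- the integrand, as a function of a configuration
  let G : Conf PvPt → ℝ≥0∞ := fun η => (Dc * Ev.indicator 1 η) * ‖x₀ + Yc η‖ₑ ^ 2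
  have s1 : ‖x₀ + pvdyHat ε C yf (pvkyWc kit ε b z d l eo ei) Yc ω‖ₑ ^ 2 ≤ ∫⁻ p, G (pvdyR C yf ω p) ∂(pvdyNu ε) := by
    refine (H.jensen x₀).trans ?_
    refine (mul_le_mul_left hD _).trans ?_
    refine (lintegral_const_mul_le _ _).trans (le_of_eq (lintegral_congr fun p => ?_))
    show Dc * (‖x₀ + Yc (pvdyR C yf ω p)‖ₑ ^ 2 * Ev.indicator 1 (pvdyR C yf ω p)) = (Dc * Ev.indicator 1 (pvdyR C yf ω p)) * ‖x₀ + Yc (pvdyR C yf ω p)‖ₑ ^ 2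
    ring
  have s2 : ∫⁻ p, G (pvdyR C yf ω p) ∂(pvdyNu ε) ≤ ∫⁻ κ, ∫⁻ ω₂, G (pvdyR C yf ω (κ, ω₂)) ∂(pvP ε) ∂(colLaw ℂ) :=
    pvjb_prod_le (colLaw ℂ) (pvP ε) fun p => G (pvdyR C yf ω p)
  have s3 : ∫⁻ κ, ∫⁻ ω₂, G (pvdyR C yf ω (κ, ω₂)) ∂(pvP ε) ∂(colLaw ℂ) ≤ ∫⁻ κ, ∫⁻ ω₂, G (pvdyR C (fun _ => N') ω (κ, ω₂)) ∂(pvP ε) ∂(colLaw ℂ) := by
    refine lintegral_mono fun κ => lintegral_mono_ae ?_
    filter_upwards [enl κ] with ω₂ h
    by_cases hE : pvdyR C yf ω (κ, ω₂) ∈ Ev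
    · obtain ⟨h1, h2⟩ := h hE
      show (Dc * Ev.indicator 1 _) * ‖x₀ + Yc _‖ₑ ^ 2 ≤ (Dc * Ev.indicator 1 _) * ‖x₀ + Yc _‖ₑ ^ 2
      rw [h2, indicator_of_mem hE, indicator_of_mem h1]
      exact le_rfl
    · show (Dc * Ev.indicator 1 _) * ‖x₀ + Yc _‖ₑ ^ 2 ≤ _
      rw [indicator_of_notMem hE, mul_zero, zero_mul]
      exact zero_le
  have s4 : ∫⁻ κ, ∫⁻ ω₂, G (pvdyR C (fun _ => N') ω (κ, ω₂)) ∂(pvP ε) ∂(colLaw ℂ) =
      ∫⁻ κ, ∫⁻ ω₂, G (pvkyFl b (pvdyR C (fun _ => N') (cfOf Y σ) (κ, ω₂))) ∂(pvP ε) ∂(colLaw ℂ) := by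
    rw [← pvjb_lintegral_C b fun κ => ∫⁻ ω₂, G (pvdyR C (fun _ => N') ω (κ, ω₂)) ∂(pvP ε)]
    refine lintegral_congr fun κ => ?_
    rw [← pvjb_lintegral_F b ε fun ω₂ => G (pvdyR C (fun _ => N') ω (pvjbC b κ, ω₂))]
    refine lintegral_congr fun ω₂ => ?_
    rw [pvjb_fl_R]
  exact s1.trans (s2.trans (s3.trans (le_of_eq s4)))

/-- **TR3 WITH PLAIN EVENT AND PLAIN CLOSING SUM** (168 (4)): directly from the engine on the seed space (`PvkeChain`, no agreement `PvkyAg`).      `Ev`, `Yp` = ANY event and function on configurations;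
`tr` = ONE-SIDED TRANSFER: for EVERY `κ`, almost every `η`: if the seed `(κ, η)` succeeds in the engine, then the experiment of 159 at that seed lies in `Ev` and `Yp` there is the closing sum of the engine. -/
theorem pvjb_jen_plain (H : PvkeChain kit ε X₀ z d l fo fi β' q qo qi) {Dc : ℝ≥0∞} (hD : pvkeD kit (pvP ε) l.length q qo qi ≤ Dc) (b : Bool) (C N' Y : Set ℂ) (σ : ℂ → Bool)
    (Ev : Set (Conf PvPt)) (Yp : Conf PvPt → ℂ)
    (tr : ∀ κ : ℂ → Bool, ∀ᵐ η ∂(pvP ε), (κ, η) ∈ pvkeEv kit z d l fo fi →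
      pvkyPhi b C (fun _ => N') (cfOf Y (pvjbC b σ)) (κ, η) ∈ Ev ∧ Yp (pvkyPhi b C (fun _ => N') (cfOf Y (pvjbC b σ)) (κ, η)) = pvkeY kit z d l fo fi X₀ (κ, η)) (x₀ : ℂ) :
    ‖x₀ + H.yhat‖ₑ ^ 2 ≤ ∫⁻ κ, ∫⁻ ω₂, (Dc * Ev.indicator 1 (pvkyFl b (pvdyR C (fun _ => N') (cfOf Y σ) (κ, ω₂)))) *
        ‖x₀ + Yp (pvkyFl b (pvdyR C (fun _ => N') (cfOf Y σ) (κ, ω₂)))‖ₑ ^ 2 ∂(pvP ε) ∂(colLaw ℂ) := by
  have := (pv_isPpp ε).prob
  let G : Conf PvPt → ℝ≥0∞ := fun η => (Dc * Ev.indicator 1 η) * ‖x₀ + Yp η‖ₑ ^ 2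
  let G0 : PvkeX ℂ PvPt → ℝ≥0∞ := fun x => (Dc * (pvkeEv kit z d l fo fi).indicator 1 x) * ‖x₀ + pvkeY kit z d l fo fi X₀ x‖ₑ ^ 2
  have s1 : ‖x₀ + H.yhat‖ₑ ^ 2 ≤ ∫⁻ x, G0 x ∂(pvkeLaw ℂ (pvP ε)) := by
    refine (H.jensen x₀).trans ?_
    refine (mul_le_mul_left hD _).trans ?_
    refine (lintegral_const_mul_le _ _).trans (le_of_eq (lintegral_congr fun x => ?_))
    show Dc * (‖x₀ + pvkeY kit z d l fo fi X₀ x‖ₑ ^ 2 * (pvkeEv kit z d l fo fi).indicator 1 x) = (Dc * (pvkeEv kit z d l fo fi).indicator 1 x) * ‖x₀ + pvkeY kit z d l fo fi X₀ x‖ₑ ^ 2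
    ring
  have s2 : ∫⁻ x, G0 x ∂(pvkeLaw ℂ (pvP ε)) ≤ ∫⁻ κ, ∫⁻ η, G0 (κ, η) ∂(pvP ε) ∂(colLaw ℂ) := pvjb_prod_le (colLaw ℂ) (pvP ε) G0
  have s3 : ∫⁻ κ, ∫⁻ η, G0 (κ, η) ∂(pvP ε) ∂(colLaw ℂ) ≤ ∫⁻ κ, ∫⁻ η, G (pvkyPhi b C (fun _ => N') (cfOf Y (pvjbC b σ)) (κ, η)) ∂(pvP ε) ∂(colLaw ℂ) := by
    refine lintegral_mono fun κ => lintegral_mono_ae ?_
    filter_upwards [tr κ] with η h
    by_cases hE : (κ, η) ∈ pvkeEv kit z d l fo fi
    · obtain ⟨h1, h2⟩ := h hE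
      show (Dc * (pvkeEv kit z d l fo fi).indicator 1 _) * ‖x₀ + pvkeY kit z d l fo fi X₀ _‖ₑ ^ 2 ≤ (Dc * Ev.indicator 1 _) * ‖x₀ + Yp _‖ₑ ^ 2
      rw [h2, indicator_of_mem hE, indicator_of_mem h1]
      exact le_rfl
    · show (Dc * (pvkeEv kit z d l fo fi).indicator 1 _) * ‖x₀ + pvkeY kit z d l fo fi X₀ _‖ₑ ^ 2 ≤ _
      rw [indicator_of_notMem hE, mul_zero, zero_mul]
      exact zero_le
  have s4 : ∫⁻ κ, ∫⁻ η, G (pvkyPhi b C (fun _ => N') (cfOf Y (pvjbC b σ)) (κ, η)) ∂(pvP ε) ∂(colLaw ℂ) =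
      ∫⁻ κ, ∫⁻ ω₂, G (pvkyFl b (pvdyR C (fun _ => N') (cfOf Y σ) (κ, ω₂))) ∂(pvP ε) ∂(colLaw ℂ) := by
    rw [← pvjb_lintegral_C b fun κ => ∫⁻ η, G (pvkyPhi b C (fun _ => N') (cfOf Y (pvjbC b σ)) (κ, η)) ∂(pvP ε)]
    refine lintegral_congr fun κ => lintegral_congr fun ω₂ => ?_
    rw [pvjb_fl_R]
    rfl
  exact s1.trans (s2.trans (s3.trans (le_of_eq s4)))

end base

/-! ## 5. the contract; the fields of `PvxnOk` -/

section contract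

variable {τ : Type} {c : ℝ} (𝔓 : PvxPar τ c) (m : ℕ) (π : PvxIx τ) (a : ℂ) (𝔎 : PvxnKit)
  (kit : ℝ → PvthKit) (b : Bool) (X₀ : ℝ → PvtTurn → Conf PvPt → ℂ) (z d : ℂ) (l : List PvtTurn) (zi di : ℂ) (eo ei : ℝ → Conf PvPt → PvkyEnd) (eoR eiR : ℝ → PvkyEnd) (D : ℝ≥0∞)

/-- **THE CONTRACT OF THE `Y` SIDE OF N1' FOR ONE PATTERN** = what the localisation of the links + the forced constants owe.      `(Y, σ)` = sites and colours in the BLACK vocabulary; the base of the chain is the ACTUAL configuration `cfOf Y σᵇ`.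
`yf i` = the fresh set of the experiment in which the chain is produced (`fun _ => i.Nᶜ`: then `enl` is trivial, `PvjbIn.of_big`;   or the fresh sites of the two mouths).
* `door`   the last door of the word is the entrance door of `s`
* `chain`  at a present datum of index `i`: two funnels `fo fi` and constants with `D_c ≤ D`, such that at EVERY base with the same frozen colours the record of 218 holds for the end links at the base data (the funnels are functions of the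
           geometry and of the frozen colours), and these end links have the success events and the values of the reference ends (the hulls of the base are those of the pattern)
* `enl`    the colours of the sites off `i.N`, off `yf i`, off `C` are not read: for EVERY seed, almost every `ω₂`, success in the experiment of the chain ⟹ success in the experiment of 159, same closing sum -/
structure PvjbIn (yf : PvxnIx → Conf PvPt → Set ℂ) : Prop where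
  door : ∀ᶠ ε in 𝓝[>] (0 : ℝ), zi = pvthZ (kit ε).δ z d l l.length ∧ di = pvthD d l l.length
  chain : ∀ᶠ ε in 𝓝[>] (0 : ℝ), ∀ Y : Set ℂ, (DelGood Y ∧ ∀ᵐ ω₂ ∂pvP ε, DelGood (Y \ 𝔎.C ∪ cfSites ω₂ ∩ 𝔎.C)) → ∀ (i : PvxnIx) (σ : ℂ → Bool), PvxnPA 𝔓 m π a 𝔎 i Y σ →
    ∃ (fo fi : PvkeFun ℂ) (β' q qo qi : ℝ≥0∞), pvkeD (kit ε) (pvP ε) l.length q qo qi ≤ D ∧
      ∀ σ' : ℂ → Bool, (∀ v ∈ Y, v ∈ i.F → σ' v = σ v) →
        PvkyChain (kit ε) ε b (X₀ ε) z d l (cfOf Y (pvjbC b σ')) 𝔎.C (yf i) (eo ε (cfOf Y (pvjbC b σ'))) (ei ε (cfOf Y (pvjbC b σ'))) fo fi β' q qo qi ∧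
        (eo ε (cfOf Y (pvjbC b σ'))).A = (eoR ε).A ∧ (eo ε (cfOf Y (pvjbC b σ'))).X = (eoR ε).X ∧ (ei ε (cfOf Y (pvjbC b σ'))).A = (eiR ε).A ∧ (ei ε (cfOf Y (pvjbC b σ'))).X = (eiR ε).X
  enl : ∀ᶠ ε in 𝓝[>] (0 : ℝ), ∀ Y : Set ℂ, (DelGood Y ∧ ∀ᵐ ω₂ ∂pvP ε, DelGood (Y \ 𝔎.C ∪ cfSites ω₂ ∩ 𝔎.C)) → ∀ (i : PvxnIx) (σ : ℂ → Bool), PvxnPA 𝔓 m π a 𝔎 i Y σ → PvxnPW 𝔓 m π a 𝔎 i Y σ →
    ∀ κ : ℂ → Bool, ∀ᵐ ω₂ ∂(pvP ε), pvdyR 𝔎.C (yf i) (cfOf Y (pvjbC b σ)) (κ, ω₂) ∈ pvkyEv (kit ε) b z d l (eoR ε) (eiR ε) →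
      pvdyR 𝔎.C (fun _ => i.Nᶜ) (cfOf Y (pvjbC b σ)) (κ, ω₂) ∈ pvkyEv (kit ε) b z d l (eoR ε) (eiR ε) ∧
      pvkyYc (kit ε) b z d l (eoR ε) (eiR ε) (X₀ ε) (pvdyR 𝔎.C (fun _ => i.Nᶜ) (cfOf Y (pvjbC b σ)) (κ, ω₂)) = pvkyYc (kit ε) b z d l (eoR ε) (eiR ε) (X₀ ε) (pvdyR 𝔎.C (yf i) (cfOf Y (pvjbC b σ)) (κ, ω₂))

variable {𝔓 m π a 𝔎 kit b X₀ z d l zi di eo ei eoR eiR D}

/-- the contract when the chain is produced DIRECTLY in the experiment of 159 (design of 193): no clause `enl` -/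
theorem PvjbIn.of_big (door : ∀ᶠ ε in 𝓝[>] (0 : ℝ), zi = pvthZ (kit ε).δ z d l l.length ∧ di = pvthD d l l.length)
    (chain : ∀ᶠ ε in 𝓝[>] (0 : ℝ), ∀ Y : Set ℂ, (DelGood Y ∧ ∀ᵐ ω₂ ∂pvP ε, DelGood (Y \ 𝔎.C ∪ cfSites ω₂ ∩ 𝔎.C)) → ∀ (i : PvxnIx) (σ : ℂ → Bool), PvxnPA 𝔓 m π a 𝔎 i Y σ →
      ∃ (fo fi : PvkeFun ℂ) (β' q qo qi : ℝ≥0∞), pvkeD (kit ε) (pvP ε) l.length q qo qi ≤ D ∧
        ∀ σ' : ℂ → Bool, (∀ v ∈ Y, v ∈ i.F → σ' v = σ v) →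
          PvkyChain (kit ε) ε b (X₀ ε) z d l (cfOf Y (pvjbC b σ')) 𝔎.C (fun _ => i.Nᶜ) (eo ε (cfOf Y (pvjbC b σ'))) (ei ε (cfOf Y (pvjbC b σ'))) fo fi β' q qo qi ∧
          (eo ε (cfOf Y (pvjbC b σ'))).A = (eoR ε).A ∧ (eo ε (cfOf Y (pvjbC b σ'))).X = (eoR ε).X ∧ (ei ε (cfOf Y (pvjbC b σ'))).A = (eiR ε).A ∧ (ei ε (cfOf Y (pvjbC b σ'))).X = (eiR ε).X) :
    PvjbIn 𝔓 m π a 𝔎 kit b X₀ z d l zi di eo ei eoR eiR D fun i _ => i.Nᶜ where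
  door := door
  chain := chain
  enl := Eventually.of_forall fun ε Y _ i σ _ _ κ => Eventually.of_forall fun ω₂ h => ⟨h, rfl⟩

variable {yf : PvxnIx → Conf PvPt → Set ℂ}

/-- **THE FIELD `jen` OF `PvxnOk`, VERBATIM** -/
theorem PvjbIn.jen (h : PvjbIn 𝔓 m π a 𝔎 kit b X₀ z d l zi di eo ei eoR eiR D yf) :
    ∀ᶠ ε in 𝓝[>] (0 : ℝ), ∀ Y, (pvxnSys 𝔓 m π a 𝔎 (pvjbYd kit b X₀ z d l zi di eo ei eoR eiR D) ε).Ok Y → ∀ i σ, cfOf Y σ ∈ (pvxnSys 𝔓 m π a 𝔎 (pvjbYd kit b X₀ z d l zi di eo ei eoR eiR D) ε).A i →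
      cfOf Y σ ∈ (pvxnSys 𝔓 m π a 𝔎 (pvjbYd kit b X₀ z d l zi di eo ei eoR eiR D) ε).WO i →
    ‖i.X + (pvjbYd kit b X₀ z d l zi di eo ei eoR eiR D).yh ε i (cfOf Y σ)‖ₑ ^ 2 ≤
      ∫⁻ κ, ∫⁻ ω₂, (pvjbYd kit b X₀ z d l zi di eo ei eoR eiR D).w ε ((pvxnSys 𝔓 m π a 𝔎 (pvjbYd kit b X₀ z d l zi di eo ei eoR eiR D) ε).R i Y σ κ ω₂) *
        ‖i.X + (pvjbYd kit b X₀ z d l zi di eo ei eoR eiR D).Y ε ((pvxnSys 𝔓 m π a 𝔎 (pvjbYd kit b X₀ z d l zi di eo ei eoR eiR D) ε).R i Y σ κ ω₂)‖ₑ ^ 2 ∂pvP ε ∂colLaw ℂ := by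
  filter_upwards [h.door, h.chain, h.enl] with ε h0 h1 h2 Y hY i σ hA hW
  have hA' := (pvxn_mem_A 𝔓 m π a 𝔎 _).1 hA
  have hW' := (pvxn_mem_W 𝔓 m π a 𝔎 _).1 hW
  obtain ⟨fo, fi, β', q, qo, qi, hD, hch⟩ := h1 Y hY i σ hA'
  obtain ⟨H, a1, a2, a3, a4⟩ := hch σ fun _ _ _ => rfl
  have eE := pvjb_Ev_congr (kit ε) b z d l a1 a3
  have eY := pvjb_Yc_congr (kit ε) b z d l (X₀ ε) a2 a4
  have enl := h2 Y hY i σ hA' hW'
  rw [← eE, ← eY] at enl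
  have key := pvjb_jen_base H hD i.Nᶜ enl i.X
  rw [pvjb_fl_cfOf, H.hat_eq, ← h0.1, ← h0.2, eE, eY] at key
  simp_rw [pvdy_sys_R]
  show ‖i.X + (pvkyK (kit ε) ε b (eo ε (pvkyFl b (cfOf Y σ))) z d (pvkyFl b (cfOf Y σ)) + _ + pvkyK (kit ε) ε b (ei ε (pvkyFl b (cfOf Y σ))) zi di (pvkyFl b (cfOf Y σ)))‖ₑ ^ 2 ≤ _
  rw [pvjb_fl_cfOf]
  exact key

/-- **THE FIELD `yh_stab` OF `PvxnOk`, VERBATIM** -/
theorem PvjbIn.yh_stab (h : PvjbIn 𝔓 m π a 𝔎 kit b X₀ z d l zi di eo ei eoR eiR D yf) :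
    ∀ᶠ ε in 𝓝[>] (0 : ℝ), ∀ Y, (pvxnSys 𝔓 m π a 𝔎 (pvjbYd kit b X₀ z d l zi di eo ei eoR eiR D) ε).Ok Y → ∀ i σ σ', cfOf Y σ ∈ (pvxnSys 𝔓 m π a 𝔎 (pvjbYd kit b X₀ z d l zi di eo ei eoR eiR D) ε).A i →
      (∀ z ∈ Y, z ∈ i.F → σ' z = σ z) → (∀ z ∈ Y, z ∈ i.N → σ' z ≤ σ z) →
      (pvjbYd kit b X₀ z d l zi di eo ei eoR eiR D).yh ε i (cfOf Y σ') = (pvjbYd kit b X₀ z d l zi di eo ei eoR eiR D).yh ε i (cfOf Y σ) := by
  filter_upwards [h.door, h.chain] with ε h0 h1 Y hY i σ σ' hA k1 _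
  obtain ⟨fo, fi, β', q, qo, qi, -, hch⟩ := h1 Y hY i σ ((pvxn_mem_A 𝔓 m π a 𝔎 _).1 hA)
  have H' := (hch σ' k1).1
  have H := (hch σ fun _ _ _ => rfl).1
  show pvkyK (kit ε) ε b (eo ε (pvkyFl b (cfOf Y σ'))) z d (pvkyFl b (cfOf Y σ')) + _ + pvkyK (kit ε) ε b (ei ε (pvkyFl b (cfOf Y σ'))) zi di (pvkyFl b (cfOf Y σ')) =
    pvkyK (kit ε) ε b (eo ε (pvkyFl b (cfOf Y σ))) z d (pvkyFl b (cfOf Y σ)) + _ + pvkyK (kit ε) ε b (ei ε (pvkyFl b (cfOf Y σ))) zi di (pvkyFl b (cfOf Y σ))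
  rw [pvjb_fl_cfOf, pvjb_fl_cfOf, h0.1, h0.2, H'.K_out, H'.K_in, H.K_out, H.K_in]

/-- **THE FIELD `mw` OF `PvxnOk`, VERBATIM**, from the measurability ON CONFIGURATIONS of the reference ends (free for the soft localisations of 251) -/
theorem pvjb_mw (mC : MeasurableSet 𝔎.C) (hk : ∀ᶠ ε in 𝓝[>] (0 : ℝ), (kit ε).WF ∧ MeasurableSet (eoR ε).A ∧ MeasurableSet (eiR ε).A) :
    ∀ᶠ ε in 𝓝[>] (0 : ℝ), ∀ Y, (pvxnSys 𝔓 m π a 𝔎 (pvjbYd kit b X₀ z d l zi di eo ei eoR eiR D) ε).Ok Y → ∀ i σ, cfOf Y σ ∈ (pvxnSys 𝔓 m π a 𝔎 (pvjbYd kit b X₀ z d l zi di eo ei eoR eiR D) ε).A i →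
      cfOf Y σ ∈ (pvxnSys 𝔓 m π a 𝔎 (pvjbYd kit b X₀ z d l zi di eo ei eoR eiR D) ε).WO i →
      Measurable fun p : (ℂ → Bool) × Conf PvPt => (pvjbYd kit b X₀ z d l zi di eo ei eoR eiR D).w ε ((pvxnSys 𝔓 m π a 𝔎 (pvjbYd kit b X₀ z d l zi di eo ei eoR eiR D) ε).R i Y σ p.1 p.2) := by
  filter_upwards [hk] with ε h Y hY i σ _ _
  have mR := (pvxnSys 𝔓 m π a 𝔎 (pvjbYd kit b X₀ z d l zi di eo ei eoR eiR D) ε).measurable_R mC hY.1.lf.countable i σ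
  have mw : Measurable ((pvjbYd kit b X₀ z d l zi di eo ei eoR eiR D).w ε) :=
    ((measurable_const.indicator (pvjb_Ev_meas h.1 b z d l h.2.1 h.2.2)).comp (measurable_pvkyFl b)).const_mul D
  exact mw.comp mR

/-- **THE FIELD `mY` OF `PvxnOk`, VERBATIM** -/
theorem pvjb_mY (mC : MeasurableSet 𝔎.C) (hk : ∀ᶠ ε in 𝓝[>] (0 : ℝ), (kit ε).Fld (X₀ ε) ∧ Measurable (eoR ε).X ∧ Measurable (eiR ε).X) :
    ∀ᶠ ε in 𝓝[>] (0 : ℝ), ∀ Y, (pvxnSys 𝔓 m π a 𝔎 (pvjbYd kit b X₀ z d l zi di eo ei eoR eiR D) ε).Ok Y → ∀ i σ, cfOf Y σ ∈ (pvxnSys 𝔓 m π a 𝔎 (pvjbYd kit b X₀ z d l zi di eo ei eoR eiR D) ε).A i →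
      cfOf Y σ ∈ (pvxnSys 𝔓 m π a 𝔎 (pvjbYd kit b X₀ z d l zi di eo ei eoR eiR D) ε).WO i →
      Measurable fun p : (ℂ → Bool) × Conf PvPt => (pvjbYd kit b X₀ z d l zi di eo ei eoR eiR D).Y ε ((pvxnSys 𝔓 m π a 𝔎 (pvjbYd kit b X₀ z d l zi di eo ei eoR eiR D) ε).R i Y σ p.1 p.2) := by
  filter_upwards [hk] with ε h Y hY i σ _ _
  have mR := (pvxnSys 𝔓 m π a 𝔎 (pvjbYd kit b X₀ z d l zi di eo ei eoR eiR D) ε).measurable_R mC hY.1.lf.countable i σ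
  have mY : Measurable ((pvjbYd kit b X₀ z d l zi di eo ei eoR eiR D).Y ε) := (pvjb_Yc_meas h.1 b z d l h.2.1 h.2.2).comp (measurable_pvkyFl b)
  exact mY.comp mR

end contract

end Claimed.Agent.R289
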