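import Claimed.Agent.R289.Tr.GeoLoc
import Claimed.Agent.R289.Tr.DomY
import Claimed.Agent.R289.Pl.Jordan

/-!
# Row 289 (S0537), THE WALL, ROAD E, file Tr/N1Sys : THE LOCAL FORM OF THE WHITE CIRCUIT OF E6      (helper191, second pen of 170; prefix `pvns`, `Pvns`)

THE KIT OF THE SYSTEM `S ε` OF N1' = `Exit/N1K.lean` (170).      THIS FILE = ONE HALF OF ITS EVENT `W(D) = WO(D) ∩ {…}`.

WHY.   E6 of `W1_208` asks a WHITE CIRCUIT in `A(x; 5R, 6R)`: it keeps the black clusters which hang on `g₀` inside the patch, so that `NBon (NU ∩ patch)` sees every bypass ((C2), `pvc4_C2on` of 78).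
As a `T.Cyc` with `C.Left` finite, `g₀ ⊆ Int C.Left`, `Int C.Left ⊆ patch` the event is GLOBAL in the map: the inside of the circuit CONTAINS the resampled region `C` of the experiment, so `C.Left` in the plane of `Y`
and in the plane of `Y \ C ∪ Y₂ ∩ C` are different sets of darts; no local isomorphism (`PvLoc`, `PvgeSame`) carries `inside` or `finite`: the field `rd` of `PvdmSys.Hyp` is out of reach.
THE DUAL EVENT is weaker, local by construction, and it is all (C2) uses: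
      **`PvnsNoX T pos x R σ`** : NO CHAIN which starts at a site of `closedBall x (5R)` and goes on through BLACK sites of `A(x; 5R, 6R]` reaches a site beyond `6R`.
* sec. 1  `PvnsStep`, `PvnsNoX`;  (C3) `pvns_nox_anti`, `pvns_nox_congr` (decreasing in black, reads the colours of the annulus only; NO DATUM in the event: `uni` is free)
* sec. 2  CONFINEMENT: `pvns_nox_cluster` (a black cluster which meets `closedBall x (5R)` stays in `closedBall x (6R)`);   `pvnsRg`, `pvns_rg_sub`, `pvns_rg_closed`, `pvns_rg_ball` = the hypotheses `h1 h2` (+ the metric half of `h3`) of `pvc4_bead_region` (78)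
* sec. 3  PRODUCERS (QBX, ONE map): `pvns_nox_of_region`, `pvns_nox_of_circuit` (a white `T.Cyc`)
* sec. 4  THE PLANE: `pvns_adj_iff`, `pvns_adj_same`;   **`pvns_nox_same`**, `pvns_nox_same_iff` : invariance under `PvgeSame Y Y' K` as soon as `K` contains everything beyond `5R`;   **`pvns_nox_far`** : `Y \ C = Y' \ C`, collar mesh, `C^{+3ρ} ⊆ closedBall x (5R)`  (= the half of `rd` for this event, ALL `ω₂`)
* sec. 5  configurations: `PvnsNoXc`, `pvns_nox_conf`, `pvns_nox_spl`, `pvns_nox_cfOf`;   **`pvns_nox_rd`** = the clause of the field `rd` of `PvdmSys.Hyp` / `PvxnOk` for this event, VERBATIM in the names of `Tr/Dom` (`Conf.spl (pvdmU C) (cfOf Y σ, ω₂)`)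
-/

set_option autoImplicit false

namespace Claimed.Agent.R289

open Set Relation

/-! ## 1. the event -/

section abs

variable {V D : Type} (T : PvMap V D) (pos : V → ℂ) (x : ℂ) (R : ℝ)

/-- one step of a chain: to a neighbour beyond `5R` which is BLACK if it lies in the patch (the sites beyond `6R` are not read) -/
def PvnsStep (σ : V → Bool) (p q : V) : Prop := T.Adj p q ∧ 5 * R < ‖pos q - x‖ ∧ (‖pos q - x‖ ≤ 6 * R → σ q = true)

/-- **NO BLACK CROSSING OF `A(x; 5R, 6R)`**: the chains which start in `closedBall x (5R)` stay in `closedBall x (6R)` -/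
def PvnsNoX (σ : V → Bool) : Prop := ∀ a v, ‖pos a - x‖ ≤ 5 * R → ReflTransGen (PvnsStep T pos x R σ) a v → ‖pos v - x‖ ≤ 6 * R

/-- the black cluster of a set `S` of sites (`S` itself included, whatever its colours) -/
def pvnsRg (σ : V → Bool) (S : Set V) : Set V := {v | ∃ u ∈ S, ReflTransGen (fun a b => T.Adj a b ∧ σ b = true) u v}

theorem pvns_eqns_cite : True := by
  have := @PvnsStep.eq_1; have := @PvnsNoX.eq_1; have := @pvnsRg.eq_1
  trivial

variable {T pos x R}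

theorem pvns_step_mono {σ σ' : V → Bool} (h : ∀ v, 5 * R < ‖pos v - x‖ → ‖pos v - x‖ ≤ 6 * R → σ' v = true → σ v = true) {p q : V}
    (hs : PvnsStep T pos x R σ' p q) : PvnsStep T pos x R σ p q :=
  ⟨hs.1, hs.2.1, fun h6 => h q hs.2.1 h6 (hs.2.2 h6)⟩

/-- (C3): DECREASING in black; only the colours of the sites of `A(x; 5R, 6R]` are read -/
theorem pvns_nox_anti {σ σ' : V → Bool} (h : ∀ v, 5 * R < ‖pos v - x‖ → ‖pos v - x‖ ≤ 6 * R → σ' v = true → σ v = true) (hn : PvnsNoX T pos x R σ) : PvnsNoX T pos x R σ' :=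
  fun a v ha hc => hn a v ha (ReflTransGen.mono (fun _ _ hs => pvns_step_mono h hs) _ _ hc)

/-- (C3) in the order of `Bool` (form of `PvxnOk.W_mono`): `N` = any set of read sites which contains the annulus -/
theorem pvns_nox_anti_le {σ σ' : V → Bool} {N : Set V} (hN : ∀ v, 5 * R < ‖pos v - x‖ → ‖pos v - x‖ ≤ 6 * R → v ∈ N) (h : ∀ v ∈ N, σ' v ≤ σ v)
    (hn : PvnsNoX T pos x R σ) : PvnsNoX T pos x R σ' :=
  pvns_nox_anti (fun v h5 h6 hb => by
    have := h v (hN v h5 h6)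
    rw [hb] at this
    exact top_le_iff.1 this) hn

theorem pvns_nox_congr {σ σ' : V → Bool} (h : ∀ v, 5 * R < ‖pos v - x‖ → ‖pos v - x‖ ≤ 6 * R → σ' v = σ v) : PvnsNoX T pos x R σ' ↔ PvnsNoX T pos x R σ :=
  ⟨pvns_nox_anti fun v h5 h6 hb => by rw [h v h5 h6]; exact hb, pvns_nox_anti fun v h5 h6 hb => by rw [← h v h5 h6]; exact hb⟩

/-! ## 2. confinement of the black clusters -/

/-- a black chain from a site of `closedBall x (5R)`: either it is back in that ball, or it is the end of a chain of the event -/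
theorem pvns_chain_of_black {σ : V → Bool} {u v : V} (hu : ‖pos u - x‖ ≤ 5 * R) (h : ReflTransGen (fun a b => T.Adj a b ∧ σ b = true) u v) :
    ∃ a, ‖pos a - x‖ ≤ 5 * R ∧ ReflTransGen (PvnsStep T pos x R σ) a v := by
  induction h with
  | refl => exact ⟨u, hu, ReflTransGen.refl⟩
  | @tail b c _ hbc ih =>
    obtain ⟨a, ha, hab⟩ := ih
    by_cases hc : ‖pos c - x‖ ≤ 5 * R
    · exact ⟨c, hc, ReflTransGen.refl⟩
    · exact ⟨a, ha, hab.tail ⟨hbc.1, not_le.1 hc, fun _ => hbc.2⟩⟩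

/-- **CONFINEMENT**: a black cluster which meets `closedBall x (5R)` stays in `closedBall x (6R)` -/
theorem pvns_nox_cluster {σ : V → Bool} (hn : PvnsNoX T pos x R σ) {u v : V} (hu : ‖pos u - x‖ ≤ 5 * R) (h : ReflTransGen (fun a b => T.Adj a b ∧ σ b = true) u v) :
    ‖pos v - x‖ ≤ 6 * R := by
  obtain ⟨a, ha, hav⟩ := pvns_chain_of_black hu h
  exact hn a v ha hav

/-- no edge jumps over the annulus -/
theorem pvns_nox_edge {σ : V → Bool} (hn : PvnsNoX T pos x R σ) {a z : V} (ha : ‖pos a - x‖ ≤ 5 * R) (haz : T.Adj a z) : ‖pos z - x‖ ≤ 6 * R := by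
  by_contra h6
  have h5 : 5 * R < ‖pos z - x‖ := by
    have h0 : 0 ≤ ‖pos a - x‖ := norm_nonneg _
    linarith [not_le.1 h6]
  exact h6 (hn a z ha (ReflTransGen.single ⟨haz, h5, fun h => absurd h h6⟩))

/-- the path form: a path which starts in `closedBall x (5R)` and is black after its first vertex stays in the patch -/
theorem pvns_nox_pth {σ : V → Bool} (hn : PvnsNoX T pos x R σ) (p : T.Pth) (h0 : ‖pos (p.v 0) - x‖ ≤ 5 * R) (hb : ∀ k, 0 < k → k ≤ p.n → σ (p.v k) = true) :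
    ∀ k, k ≤ p.n → ‖pos (p.v k) - x‖ ≤ 6 * R := by
  have key : ∀ k, k ≤ p.n → ReflTransGen (fun a b => T.Adj a b ∧ σ b = true) (p.v 0) (p.v k) := by
    intro k
    induction k with
    | zero => exact fun _ => ReflTransGen.refl
    | succ k ih => exact fun hk => (ih (by omega)).tail ⟨⟨p.e k, p.src_e k (by omega), p.tgt_e k (by omega)⟩, hb (k + 1) (by omega) hk⟩
  exact fun k hk => pvns_nox_cluster hn h0 (key k hk)

/-- `h1` of `pvc4_bead_region` -/
theorem pvns_rg_sub (σ : V → Bool) (S : Set V) : ∀ v ∈ S, v ∈ pvnsRg T σ S := fun v hv => ⟨v, hv, ReflTransGen.refl⟩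

/-- `h2` of `pvc4_bead_region`: the cluster is closed under black neighbours -/
theorem pvns_rg_closed (σ : V → Bool) (S : Set V) : ∀ u ∈ pvnsRg T σ S, ∀ v, T.Adj u v → σ v = true → v ∈ pvnsRg T σ S :=
  fun _ ⟨w, hw, hwu⟩ _ hadj hv => ⟨w, hw, hwu.tail ⟨hadj, hv⟩⟩

/-- the metric half of `h3` of `pvc4_bead_region`: the cluster of a set of sites of `closedBall x (5R)` lies in the patch -/
theorem pvns_rg_ball {σ : V → Bool} (hn : PvnsNoX T pos x R σ) {S : Set V} (hS : ∀ v ∈ S, ‖pos v - x‖ ≤ 5 * R) : ∀ v ∈ pvnsRg T σ S, ‖pos v - x‖ ≤ 6 * R :=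
  fun _ ⟨u, hu, huv⟩ => pvns_nox_cluster hn (hS u hu) huv

/-! ## 3. producers, in ONE map -/

/-- from a REGION `I` with a white rim `Z`: `I` contains the sites of `closedBall x (5R)`, lies in the patch, and one leaves `I` only through `Z` -/
theorem pvns_nox_of_region {σ : V → Bool} {I Z : Set V} (h5 : ∀ v, ‖pos v - x‖ ≤ 5 * R → v ∈ I) (h6 : ∀ v ∈ I, ‖pos v - x‖ ≤ 6 * R)
    (hout : ∀ u ∈ I, ∀ v, T.Adj u v → v ∈ I ∨ v ∈ Z) (hZ : ∀ v ∈ Z, σ v = false ∧ ‖pos v - x‖ ≤ 6 * R) : PvnsNoX T pos x R σ := by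
  intro a v ha hc
  refine h6 v ?_
  induction hc with
  | refl => exact h5 a ha
  | @tail b c _ hbc ih =>
    rcases hout b ih c hbc.1 with h | h
    · exact h
    · have := hbc.2.2 (hZ c h).2
      rw [(hZ c h).1] at this
      exact absurd this Bool.false_ne_true

/-- **from a WHITE CIRCUIT** (the event of E6): white, in the patch, the sites of `closedBall x (5R)` strictly inside, the inside in the patch -/
theorem pvns_nox_of_circuit (hT : T.IsSph) {σ : V → Bool} (C : T.Cyc) (hC : ∀ v ∈ C.verts, σ v = false ∧ ‖pos v - x‖ ≤ 6 * R)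
    (h5 : ∀ v, ‖pos v - x‖ ≤ 5 * R → v ∈ T.Int C.Left) (h6 : ∀ v ∈ T.Int C.Left, ‖pos v - x‖ ≤ 6 * R) : PvnsNoX T pos x R σ := by
  refine pvns_nox_of_region (I := T.Int C.Left) (Z := C.verts) h5 h6 (fun u hu v hadj => ?_) hC
  by_cases hv : v ∈ C.verts
  · exact Or.inr hv
  · exact Or.inl (pl_jordan_sep hT C hu (ReflTransGen.single ⟨hadj, hv⟩))

end abs

/-! ## 4. the plane -/

section plane

variable {Y Y' K C : Set ℂ} {x : ℂ} {R ρ : ℝ}

theorem pvns_adj_iff (h : DelGood Y) (u v : ↥Y) : (delbPl Y).toMap.Adj u v ↔ DelAdj Y u v := by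
  constructor
  · rintro ⟨d, rfl, rfl⟩
    exact d.2.2
  · intro huv
    exact ⟨⟨(u, v), ⟨h, huv⟩⟩, rfl, rfl⟩

/-- an edge with one end in `K` is an edge of both planes -/
theorem pvns_adj_same (h : DelGood Y) (hS : PvgeSame Y Y' K) {p q : ℂ} (hq : q ∈ K) (hpq : DelAdj Y p q) : DelAdj Y' p q := by
  have ht : DelTri Y q p (delApex Y q p) := delp_apex_spec h hpq.symm
  exact ((hS q hq _ _).1 ht).adj.symm

/-- the chains of the event are carried over -/
theorem pvns_chain_same (h : DelGood Y) (h' : DelGood Y') (hS : PvgeSame Y Y' K) (hK : ∀ z : ℂ, 5 * R < ‖z - x‖ → z ∈ K) {σ : ↥Y → Bool} {σ' : ↥Y' → Bool}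
    (hσ : ∀ (v : ↥Y) (v' : ↥Y'), (v : ℂ) = v' → (v : ℂ) ∈ K → σ v = σ' v') {a v : ↥Y} (hc : ReflTransGen (PvnsStep (delbPl Y).toMap Subtype.val x R σ) a v) :
    v = a ∨ ∃ (a' v' : ↥Y'), (a' : ℂ) = a ∧ (v' : ℂ) = v ∧ ReflTransGen (PvnsStep (delbPl Y').toMap Subtype.val x R σ') a' v' := by
  induction hc with
  | refl => exact Or.inl rfl
  | @tail b c _ hbc ih =>
    have hcK : (c : ℂ) ∈ K := hK _ hbc.2.1
    have hadj : DelAdj Y' b c := pvns_adj_same h hS hcK ((pvns_adj_iff h b c).1 hbc.1)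
    have hstep : PvnsStep (delbPl Y').toMap Subtype.val x R σ' ⟨b, hadj.1⟩ ⟨c, hadj.2.1⟩ :=
      ⟨(pvns_adj_iff h' _ _).2 hadj, hbc.2.1, fun h6 => by rw [← hσ c ⟨c, hadj.2.1⟩ rfl hcK]; exact hbc.2.2 h6⟩
    refine Or.inr ?_
    rcases ih with rfl | ⟨a', b', ea, eb, hab⟩
    · exact ⟨⟨b, hadj.1⟩, ⟨c, hadj.2.1⟩, rfl, rfl, ReflTransGen.single hstep⟩
    · have : b' = ⟨b, hadj.1⟩ := Subtype.ext eb
      subst this
      exact ⟨a', ⟨c, hadj.2.1⟩, ea, rfl, hab.tail hstep⟩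

/-- **LOCALITY**: the two planes have the same triangles at the points of `K`, `K` contains everything beyond `5R`, the colours agree on `K` -/
theorem pvns_nox_same (h : DelGood Y) (h' : DelGood Y') (hS : PvgeSame Y Y' K) (hK : ∀ z : ℂ, 5 * R < ‖z - x‖ → z ∈ K) {σ : ↥Y → Bool} {σ' : ↥Y' → Bool}
    (hσ : ∀ (v : ↥Y) (v' : ↥Y'), (v : ℂ) = v' → (v : ℂ) ∈ K → σ v = σ' v') (hn : PvnsNoX (delbPl Y').toMap Subtype.val x R σ') : PvnsNoX (delbPl Y).toMap Subtype.val x R σ := by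
  intro a v ha hc
  rcases pvns_chain_same h h' hS hK hσ hc with rfl | ⟨a', v', ea, ev, hc'⟩
  · have h0 : 0 ≤ ‖((v : ↥Y) : ℂ) - x‖ := norm_nonneg _
    have ha' : ‖((v : ↥Y) : ℂ) - x‖ ≤ 5 * R := ha
    show ‖((v : ↥Y) : ℂ) - x‖ ≤ 6 * R
    linarith
  · have := hn a' v' (by show ‖(a' : ℂ) - x‖ ≤ 5 * R; rw [ea]; exact ha) hc'
    show ‖(v : ℂ) - x‖ ≤ 6 * R
    rw [← ev]
    exact this

theorem pvns_nox_same_iff (h : DelGood Y) (h' : DelGood Y') (hS : PvgeSame Y Y' K) (hK : ∀ z : ℂ, 5 * R < ‖z - x‖ → z ∈ K) {σ : ↥Y → Bool} {σ' : ↥Y' → Bool}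
    (hσ : ∀ (v : ↥Y) (v' : ↥Y'), (v : ℂ) = v' → (v : ℂ) ∈ K → σ v = σ' v') : PvnsNoX (delbPl Y).toMap Subtype.val x R σ ↔ PvnsNoX (delbPl Y').toMap Subtype.val x R σ' :=
  ⟨pvns_nox_same h' h hS.symm hK fun v' v e hv => (hσ v v' e.symm (e ▸ hv)).symm, pvns_nox_same h h' hS hK hσ⟩

/-- **THE HALF OF `rd` FOR THIS EVENT**: the two site sets agree off `C`, the collar of `C` is `ρ`-dense, `C` with its `3ρ`-collar lies in `closedBall x (5R)`, the colours agree off `C` -/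
theorem pvns_nox_far (hρ : 0 < ρ) (h : DelGood Y) (h' : DelGood Y') (hYY : Y \ C = Y' \ C) (hd : VorDense Y (pvgeCollar C ρ) ρ) (hC : ∀ z : ℂ, 5 * R < ‖z - x‖ → z ∈ pvgeFar C ρ)
    {σ σ' : ℂ → Bool} (hσ : ∀ z ∈ pvgeFar C ρ, σ z = σ' z) :
    PvnsNoX (delbPl Y).toMap Subtype.val x R (fun v => σ v) ↔ PvnsNoX (delbPl Y').toMap Subtype.val x R (fun v => σ' v) :=
  pvns_nox_same_iff h h' (pvge_same_far hρ hYY hd) hC fun v v' e hv => by
    show σ v = σ' v'
    rw [← e]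
    exact hσ v hv

end plane

/-! ## 5. configurations -/

section conf

open Claims.C0465

variable {C : Set ℂ} {x : ℂ} {R ρ : ℝ} {η η' : Conf PvPt}

/-- a far point is not in `C` -/
theorem pvns_far_off (hρ : 0 < ρ) {z : ℂ} (hz : z ∈ pvgeFar C ρ) : z ∈ Cᶜ := by
  intro hzC
  have h0 : Metric.infDist z C = 0 := Metric.infDist_zero_of_mem hzC
  have h3 : 3 * ρ ≤ Metric.infDist z C := hz
  rw [h0] at h3
  linarith

/-- the event on a configuration: plane of the sites, `true` = black -/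
def PvnsNoXc (x : ℂ) (R : ℝ) (η : Conf PvPt) : Prop := PvnsNoX (delbPl (cfSites η)).toMap Subtype.val x R (fun v => cfCol η v)

theorem pvns_eqns_cite2 : True := by
  have := @PvnsNoXc.eq_1
  trivial

/-- two configurations which agree off `C` -/
theorem pvns_nox_conf (hρ : 0 < ρ) (hηη : Conf.restr (Cᶜ ×ˢ univ) η = Conf.restr (Cᶜ ×ˢ univ) η') (hd : VorDense (cfSites η) (pvgeCollar C ρ) ρ) (h : DelGood (cfSites η)) (h' : DelGood (cfSites η'))
    (hC : ∀ z : ℂ, 5 * R < ‖z - x‖ → z ∈ pvgeFar C ρ) : PvnsNoXc x R η ↔ PvnsNoXc x R η' :=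
  pvns_nox_far hρ h h' (pvge_conf_sites_off hηη) hd hC fun z hz => pvge_conf_col hηη z (pvns_far_off hρ hz)

/-- **THE SPLICE OF `Tr/Dom`** (`pvdmU C = Cᶜ ×ˢ univ`: `pvdy_U_eq`): everything inside `C` is replaced by `ω`, for EVERY `ω` such that the spliced site set is good -/
theorem pvns_nox_spl (hρ : 0 < ρ) (ω : Conf PvPt) (hd : VorDense (cfSites η) (pvgeCollar C ρ) ρ) (h : DelGood (cfSites η)) (h' : DelGood (cfSites (Conf.spl (Cᶜ ×ˢ univ) (η, ω))))
    (hC : ∀ z : ℂ, 5 * R < ‖z - x‖ → z ∈ pvgeFar C ρ) : PvnsNoXc x R (Conf.spl (Cᶜ ×ˢ univ) (η, ω)) ↔ PvnsNoXc x R η :=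
  (pvns_nox_conf hρ (pvge_spl_restr Cᶜ η ω) hd h h' hC).symm

/-- the event at a fixed set of sites -/
theorem pvns_nox_cfOf {Y : Set ℂ} (h : DelGood Y) (σ : ℂ → Bool) : PvnsNoXc x R (cfOf Y σ) ↔ PvnsNoX (delbPl Y).toMap Subtype.val x R (fun v => σ v) := by
  have e : cfSites (cfOf Y σ) = Y := cfOf_sites Y σ
  refine pvns_nox_same_iff (K := univ) (by rw [e]; exact h) h (by rw [e]; exact PvgeSame.refl _ _) (fun _ _ => mem_univ _) fun v v' ev _ => ?_
  show cfCol (cfOf Y σ) v = σ v'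
  rw [ev]
  exact pvdy_cfCol_cfOf σ v'.2

theorem pvns_sites_spl (η ω₂ : Conf PvPt) : cfSites (Conf.spl (pvdmU C) (η, ω₂)) = cfSites η \ C ∪ cfSites ω₂ ∩ C := by
  rw [pvdy_U_eq]
  ext z
  constructor
  · rintro ⟨p, (⟨h1, h2⟩ | ⟨h1, h2⟩), rfl⟩
    · exact Or.inl ⟨⟨p, h1, rfl⟩, h2.1⟩
    · refine Or.inr ⟨⟨p, h1, rfl⟩, ?_⟩
      by_contra h3
      exact h2 ⟨h3, mem_univ _⟩
  · rintro (⟨⟨p, h1, rfl⟩, h2⟩ | ⟨⟨p, h1, rfl⟩, h2⟩)
    · exact ⟨p, Or.inl ⟨h1, h2, mem_univ _⟩, rfl⟩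
    · exact ⟨p, Or.inr ⟨h1, fun h3 => h3.1 h2⟩, rfl⟩

/-- **THE CLAUSE OF `rd` FOR THIS EVENT**, in the names of `Tr/Dom` and of `pvxnSys.Ok` (170): for EVERY `ω₂` such that the spliced site set is good -/
theorem pvns_nox_rd (hρ : 0 < ρ) {Y : Set ℂ} (σ : ℂ → Bool) (ω₂ : Conf PvPt) (h : DelGood Y) (h' : DelGood (Y \ C ∪ cfSites ω₂ ∩ C)) (hd : VorDense Y (pvgeCollar C ρ) ρ)
    (hC : ∀ z : ℂ, 5 * R < ‖z - x‖ → z ∈ pvgeFar C ρ) : PvnsNoXc x R (Conf.spl (pvdmU C) (cfOf Y σ, ω₂)) ↔ PvnsNoXc x R (cfOf Y σ) := by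
  have e : cfSites (cfOf Y σ) = Y := cfOf_sites Y σ
  have h2 : DelGood (cfSites (Conf.spl (pvdmU C) (cfOf Y σ, ω₂))) := by rw [pvns_sites_spl, e]; exact h'
  rw [pvdy_U_eq] at h2 ⊢
  exact pvns_nox_spl hρ ω₂ (by rw [e]; exact hd) (by rw [e]; exact h) h2 hC

/-- the region fact in the form `C^{+3ρ} ⊆ closedBall x (5R)`: `C` in a smaller ball -/
theorem pvns_far_of_ball {r : ℝ} (hne : C.Nonempty) (hCr : C ⊆ Metric.closedBall x r) (hr : r + 3 * ρ ≤ 5 * R) : ∀ z : ℂ, 5 * R < ‖z - x‖ → z ∈ pvgeFar C ρ := by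
  intro z hz
  show 3 * ρ ≤ Metric.infDist z C
  refine (Metric.le_infDist hne).2 fun y hy => ?_
  have h1 : dist y x ≤ r := hCr hy
  have h2 : dist z x ≤ dist z y + dist y x := dist_triangle _ _ _
  rw [dist_eq_norm z x] at h2
  linarith

end conf

end Claimed.Agent.R289
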