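-- KEEP
import Claimed.Agent.R289.Tr.DomEB
import Claimed.Agent.R289.Tr.N1Sys
import Claimed.Agent.R289.Tr.JenE

/-!
# Row 289 (S0537), THE WALL, ROAD E, file Tr/DomEK : THE CONTRACT `PvdfC2` OF `dom` FROM THE CLAUSES OF A KIT      (helper104, second of 37; prefix `pvdk_`, `Pvdk`)

`Tr/DomEB` : `PvdfC2 𝔓 m π a 𝔎 𝔜 ε η` a.e. ⟹ the field `dom` of `PvxnOk` VERBATIM.      THIS FILE produces the fields `fit onwall gB` (and `hN`, `PvdfReg`) for EVERY kit whose events IMPLY the clauses of record (`Exit/N1K` of 170: `E = NBon (NU ∩ patch)`, `W = WO ∩ {no black crossing of A(x;5R,6R)}`).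
* sec. 1  MODEL FREE.   **`pvdk_onwall_nox`** : `Ok`, the two pins apart, `Col`, `Cyl`, `WO`, finite wall, `PvnsNoX` (191), `g₀ ⊆ closedBall x (5R)`, `NBon (NU ∩ closedBall x (6R))` ⟹ `g₀` lies on the wall of `dm(t)`      (78 `pvc4_bead_region`, `pvc4_onwall_on`; 194 `pvwc_G1nu`, `pvwf_far`)
* sec. 2  `pvdk_wall_ae` : a.s. all the walls of the colouring `pvdfCol η` are finite
* sec. 3  **`PvdkKit 𝔓 x R m π 𝔎`** = what the events of the kit must IMPLY (deterministic, no `ε`, no `η`: `E_nb E_g5 W_wo W_nox geo N_same B_eq`),   **`PvdkY`** = what the `Y` side owes at one `η` (`w_le`, `col`, `chain`),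
          **`pvdk_c2`** : `PvdkKit + PvdkY + finite walls ⟹ PvdfC2`,   **`pvdk_dom`** = the field `dom` of `PvxnOk` VERBATIM.
* sec. 4  AT THE `Y` SIDE OF RECORD `pvjbYd` (93): `pvdk_Y_jb` (`w_le` free; `w ≠ 0 ⟺ fl ζ ∈ pvkyEv`), **`pvdk_dom_jb`** = `dom` VERBATIM from `PvdkKit` + (COL) + (CHAIN) on the chain event.      0 sorry.
-/

set_option autoImplicit false

namespace Claimed.Agent.R289

open MeasureTheory Set Filter Topology Claims.C0465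
open scoped ENNReal

/-! ## 1. the `g₀` part of (C2) with the local form of the white circuit -/

section free

variable {V D : Type} {T : PvMap V D}

/-- **(C2), `g₀` PART, AT THE EVENTS OF THE KIT**: `E = NBon (NU ∩ patch)`, `W = WO ∩ NoX` -/
theorem pvdk_onwall_nox (hT : T.IsSph) (hS : T.Simple) (𝔇 : PvwDat T) {pos : V → ℂ} {N : PvwNum} {h : ℝ} {π : PvwPat} {σ : V → Bool} (hOk : 𝔇.Ok pos N h π)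
    (hs : 𝔇.s.gp ∉ 𝔇.t.ins) (ht : 𝔇.t.gm ∉ 𝔇.s.ins) (hcol : 𝔇.Col pos π) (hσ : σ ∈ 𝔇.Cyl) (hWO : 𝔇.WO pos π σ) (hfin : {d | T.Wall σ 𝔇.s.dp d}.Finite)
    {x : ℂ} {R : ℝ} (hn : PvnsNoX T pos x R σ) (hg5 : ∀ v ∈ 𝔇.g.verts, ‖pos v - x‖ ≤ 5 * R) (hNB : 𝔇.NBon (𝔇.NU pos π ∩ {v | ‖pos v - x‖ ≤ 6 * R}) σ) : 𝔇.g.OnWall σ 𝔇.t.dm := by
  obtain ⟨q, hq, hg⟩ := pvwc_shield hT 𝔇 hOk hσ hWO
  obtain ⟨f1, f2⟩ := pvwf_far 𝔇 hOk hs ht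
  refine pvc4_onwall_on hT hS 𝔇 hOk ⟨hfin, f1, f2⟩ hσ hq hg ?_ hNB
  exact pvc4_bead_region hT 𝔇 q hg (Rg := pvnsRg T σ 𝔇.g.verts) (pvns_rg_sub σ _) (pvns_rg_closed σ _)
    fun v hv hv' => ⟨pvwc_G1nu hT 𝔇 hOk hs ht hcol hσ hq hg hv', pvns_rg_ball hn hg5 v hv⟩

end free

/-! ## 2. finite walls -/

/-- a.s. all the walls of the colouring seen by `pvxnSys` are finite -/
theorem pvdk_wall_ae {ε : ℝ} (hε : 0 < ε) : ∀ᵐ η ∂pvP ε, ∀ d : (delbPl (cfSites η)).Dart, {d' | (delbPl (cfSites η)).toMap.Wall (pvdfCol η) d d'}.Finite := by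
  filter_upwards [pvqf_fin_ae hε] with η h2
  obtain ⟨h, hf⟩ := h2
  intro d
  have := pvin_wall_finP h (delbPl (cfSites η)) (delb_pl_eq h) hf true d
  rw [pvlf_fl_true, pvqf_col_eq'] at this
  exact this

/-! ## 3. the clauses of a kit -/

section kit

variable {τ : Type} {c : ℝ} (𝔓 : PvxPar τ c) (x : ℂ) (R : ℝ) (m : ℕ) (π : PvxIx τ) (a : ℂ) (𝔎 : PvxnKit) (𝔜 : PvxnYd)

/-- **WHAT THE EVENTS OF THE KIT MUST IMPLY** (deterministic; every clause at a good set of sites `Y`, for a datum `Ok` with `σ ∈ Cyl(D)`).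
* `E_nb`    `E(D) ⟹ NBon (NU ∩ patch)`      * `E_g5`  `E(D) ⟹ g₀ ⊆ closedBall x (5R)`      * `geo`  `E(D) ⟹ PvwDat.Geo` (colour free: boxes apart + mesh at the two centres: `pvwf_geo_of_far`)
* `W_wo`    `W(D) ⟹ WO(D)`      * `W_nox`  `W(D) ⟹` no black crossing of `A(x; 5R, 6R)` (191)
* `N_same`  the class of the read sites is a function of the used data      * `B_sub`  the patch lies in `B`;   `reg`  the regions of the pattern lie in `B` -/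
structure PvdkKit : Prop where
  E_nb : ∀ (Y : Set ℂ) (𝔇 : PvwDat (delbPl Y).toMap) (σ : ↥Y → Bool), 𝔎.E Y 𝔇 σ → 𝔇.NBon (𝔇.NU Subtype.val (𝔓.reg m π) ∩ {v | ‖(v : ℂ) - x‖ ≤ 6 * R}) σ
  E_g5 : ∀ (Y : Set ℂ) (𝔇 : PvwDat (delbPl Y).toMap) (σ : ↥Y → Bool), 𝔎.E Y 𝔇 σ → ∀ v ∈ 𝔇.g.verts, ‖(v : ℂ) - x‖ ≤ 5 * R
  geo : ∀ (Y : Set ℂ) (𝔇 : PvwDat (delbPl Y).toMap) (σ : ↥Y → Bool), DelGood Y → 𝔇.Ok Subtype.val 𝔓.num (pvlmH m) (𝔓.reg m π) → 𝔎.E Y 𝔇 σ → 𝔇.Geo Subtype.val 𝔓.num (pvlmH m) (𝔓.reg m π)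
  W_wo : ∀ (Y : Set ℂ) (𝔇 : PvwDat (delbPl Y).toMap) (σ : ↥Y → Bool), 𝔎.W Y 𝔇 σ → 𝔇.WO Subtype.val (𝔓.reg m π) σ
  W_nox : ∀ (Y : Set ℂ) (𝔇 : PvwDat (delbPl Y).toMap) (σ : ↥Y → Bool), 𝔎.W Y 𝔇 σ → PvnsNoX (delbPl Y).toMap Subtype.val x R σ
  N_same : ∀ (Y : Set ℂ) (𝔇 𝔇' : PvwDat (delbPl Y).toMap), PvdfSame 𝔇 𝔇' → 𝔎.N Y 𝔇 = 𝔎.N Y 𝔇'
  B_bdd : Bornology.IsBounded 𝔎.B
  B_sub : Metric.closedBall x (5 * R) ⊆ 𝔎.B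
  reg : PvdfReg 𝔓.num (pvlmH m) (𝔓.reg m π) 𝔎.B

/-- **WHAT THE `Y` SIDE OWES at one configuration**.
* `w_le`   thresholds      [193 93: `w = D_c 1_Ev`]
* `col`    `PvwDat.Col` when the chain succeeds (it reads the mesh of the lanes, INSIDE the resampled region: only `w ≠ 0` knows it)      [194 `pvwm_Col_reg`, 227 `pvc2_Col`, 63]
* `chain`  CHAIN      [268 `Tr/ChainM`, 70 `Tr/LinkRoad`, 227, 90] -/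
structure PvdkY (ε : ℝ) (η : Conf PvPt) : Prop where
  w_le : ∀ i, (pvxnSys 𝔓 m π a 𝔎 𝔜 ε).Pr η i → 𝔜.w ε η ≤ 𝔜.D
  col : 𝔜.w ε η ≠ 0 → ∀ i 𝔇, PvdfPr 𝔓 m π a 𝔎 η i 𝔇 → ∀ y, 𝔇.YArc Subtype.val (𝔓.reg m π) (pvdfCol η) y → 𝔇.Col Subtype.val (𝔓.reg m π)
  chain : 𝔜.w ε η ≠ 0 → ∀ i 𝔇, PvdfPr 𝔓 m π a 𝔎 η i 𝔇 →
    ∃ y, 𝔇.YArc Subtype.val (𝔓.reg m π) (pvdfCol η) y ∧ 𝔜.Y ε η = 𝔇.Yof Subtype.val (pvxnFd (cfSites η) a) 𝔓.num (pvlmH m) (𝔓.reg m π) y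

variable {𝔓 x R m π a 𝔎 𝔜}

/-- the contract of `Tr/DomEB` from the clauses of the kit -/
theorem pvdk_c2 (hK : PvdkKit 𝔓 x R m π 𝔎) {ε : ℝ} {η : Conf PvPt} (hg : DelGood (cfSites η))
    (hfin : ∀ d : (delbPl (cfSites η)).Dart, {d' | (delbPl (cfSites η)).toMap.Wall (pvdfCol η) d d'}.Finite) (hY : PvdkY 𝔓 m π a 𝔎 𝔜 ε η) : PvdfC2 𝔓 m π a 𝔎 𝔜 ε η := by
  have hT : (delbPl (cfSites η)).toMap.IsSph := delb_plane_isSph hg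
  have hS : (delbPl (cfSites η)).toMap.Simple := pvgy_m_simple _
  have hfit : ∀ i 𝔇, PvdfPr 𝔓 m π a 𝔎 η i 𝔇 → 𝔇.Fit Subtype.val 𝔓.num (pvlmH m) (𝔓.reg m π) (pvdfCol η) := fun i 𝔇 hP =>
    pvwf_fit hT hS 𝔇 hP.1.ok (hK.geo _ 𝔇 _ hg hP.1.ok hP.2.1) hP.1.cyl
  refine ⟨hY.w_le, fun _ i 𝔇 hP _ _ => hfit i 𝔇 hP, fun hw i 𝔇 hP y hy => ?_, hY.chain, fun _ i 𝔇 hP k hk => ?_⟩
  · have hF := hfit i 𝔇 hP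
    exact pvdk_onwall_nox hT hS 𝔇 hP.1.ok hF.sep_s hF.sep_t (hY.col hw i 𝔇 hP y hy) hP.1.cyl (hK.W_wo _ 𝔇 _ hP.2.2) (hfin _) (hK.W_nox _ 𝔇 _ hP.2.2) (hK.E_g5 _ 𝔇 _ hP.2.1) (hK.E_nb _ 𝔇 _ hP.2.1)
  · exact hK.B_sub (mem_closedBall_iff_norm.2 (hK.E_g5 _ 𝔇 _ hP.2.1 _ ⟨k, hk, rfl⟩))

/-- **THE FIELD `dom` OF `PvxnOk`, VERBATIM, FROM THE CLAUSES OF THE KITS AND THE DEBTS OF THE `Y` SIDE** -/
theorem pvdk_dom {𝔎s : ℝ → PvxnKit} (ha : 2 ≤ (𝔓.reg m π).ts.a) (hK : ∀ᶠ ε in 𝓝[>] (0 : ℝ), PvdkKit 𝔓 x R m π (𝔎s ε)) (hY : ∀ᶠ ε in 𝓝[>] (0 : ℝ), ∀ᵐ η ∂pvP ε, PvdkY 𝔓 m π a (𝔎s ε) 𝔜 ε η) :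
    ∀ᶠ ε in 𝓝[>] (0 : ℝ), ∀ᵐ ω ∂pvP ε, ∑' i, ((pvxnSys 𝔓 m π a (𝔎s ε) 𝔜 ε).A i ∩ (pvxnSys 𝔓 m π a (𝔎s ε) 𝔜 ε).WO i).indicator (fun ω => 𝔜.w ε ω * ‖i.X + 𝔜.Y ε ω‖ₑ ^ 2) ω
      ≤ 𝔜.D * pvclSum ω (𝔎s ε).B (pvlmH m) := by
  refine pvdf_dom_c2 ha (hK.mono fun ε h => h.B_bdd) (hK.mono fun ε h => h.reg) (hK.mono fun ε h => h.N_same) ?_
  filter_upwards [hK, hY, self_mem_nhdsWithin] with ε h1 h2 hε
  filter_upwards [h2, pvqf_good_ae ε (ne_of_gt hε), pvdk_wall_ae hε] with η k1 k2 k3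
  exact pvdk_c2 h1 k2.del k3 k1

end kit

/-! ## 4. at the `Y` side of record `pvjbYd` (93, `Tr/JenE`): `w = D 1_Ev ∘ fl`, `Y = Y_c ∘ fl` -/

section record

variable {τ : Type} {c : ℝ} {𝔓 : PvxPar τ c} {x : ℂ} {R : ℝ} {m : ℕ} {π : PvxIx τ} {a : ℂ}
variable {kit : ℝ → PvthKit} {b : Bool} {X₀ : ℝ → PvtTurn → Conf PvPt → ℂ} {z d : ℂ} {l : List PvtTurn} {zi di : ℂ} {eo ei : ℝ → Conf PvPt → PvkyEnd} {eoR eiR : ℝ → PvkyEnd} {D : ℝ≥0∞}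

/-- the debts of the `Y` side of record: `w_le` is free, `w ≠ 0` MEANS `fl ζ ∈ Ev` -/
theorem pvdk_Y_jb {𝔎 : PvxnKit} {ε : ℝ} {η : Conf PvPt}
    (hcol : pvkyFl b η ∈ pvkyEv (kit ε) b z d l (eoR ε) (eiR ε) → ∀ i 𝔇, PvdfPr 𝔓 m π a 𝔎 η i 𝔇 → ∀ y, 𝔇.YArc Subtype.val (𝔓.reg m π) (pvdfCol η) y → 𝔇.Col Subtype.val (𝔓.reg m π))
    (hch : pvkyFl b η ∈ pvkyEv (kit ε) b z d l (eoR ε) (eiR ε) → ∀ i 𝔇, PvdfPr 𝔓 m π a 𝔎 η i 𝔇 →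
      ∃ y, 𝔇.YArc Subtype.val (𝔓.reg m π) (pvdfCol η) y ∧
        pvkyYc (kit ε) b z d l (eoR ε) (eiR ε) (X₀ ε) (pvkyFl b η) = 𝔇.Yof Subtype.val (pvxnFd (cfSites η) a) 𝔓.num (pvlmH m) (𝔓.reg m π) y) :
    PvdkY 𝔓 m π a 𝔎 (pvjbYd kit b X₀ z d l zi di eo ei eoR eiR D) ε η := by
  have hEv : (pvjbYd kit b X₀ z d l zi di eo ei eoR eiR D).w ε η ≠ 0 → pvkyFl b η ∈ pvkyEv (kit ε) b z d l (eoR ε) (eiR ε) := by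
    intro hw
    by_contra hn
    refine hw ?_
    show D * (pvkyEv (kit ε) b z d l (eoR ε) (eiR ε)).indicator 1 (pvkyFl b η) = 0
    rw [indicator_of_notMem hn, mul_zero]
  refine ⟨fun _ _ => ?_, fun hw => hcol (hEv hw), fun hw => hch (hEv hw)⟩
  show D * (pvkyEv (kit ε) b z d l (eoR ε) (eiR ε)).indicator 1 (pvkyFl b η) ≤ D
  calc D * (pvkyEv (kit ε) b z d l (eoR ε) (eiR ε)).indicator 1 (pvkyFl b η) ≤ D * 1 := by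
        gcongr
        exact indicator_le_self' (fun _ _ => zero_le) _
    _ = D := mul_one D

/-- **THE FIELD `dom` OF `PvxnOk` AT THE `Y` SIDE OF RECORD, VERBATIM**: kits with the clauses of record + (COL) + (CHAIN) on the chain event -/
theorem pvdk_dom_jb {𝔎s : ℝ → PvxnKit} (ha : 2 ≤ (𝔓.reg m π).ts.a) (hK : ∀ᶠ ε in 𝓝[>] (0 : ℝ), PvdkKit 𝔓 x R m π (𝔎s ε))
    (hcol : ∀ᶠ ε in 𝓝[>] (0 : ℝ), ∀ᵐ η ∂pvP ε, pvkyFl b η ∈ pvkyEv (kit ε) b z d l (eoR ε) (eiR ε) → ∀ i 𝔇, PvdfPr 𝔓 m π a (𝔎s ε) η i 𝔇 →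
      ∀ y, 𝔇.YArc Subtype.val (𝔓.reg m π) (pvdfCol η) y → 𝔇.Col Subtype.val (𝔓.reg m π))
    (hch : ∀ᶠ ε in 𝓝[>] (0 : ℝ), ∀ᵐ η ∂pvP ε, pvkyFl b η ∈ pvkyEv (kit ε) b z d l (eoR ε) (eiR ε) → ∀ i 𝔇, PvdfPr 𝔓 m π a (𝔎s ε) η i 𝔇 →
      ∃ y, 𝔇.YArc Subtype.val (𝔓.reg m π) (pvdfCol η) y ∧
        pvkyYc (kit ε) b z d l (eoR ε) (eiR ε) (X₀ ε) (pvkyFl b η) = 𝔇.Yof Subtype.val (pvxnFd (cfSites η) a) 𝔓.num (pvlmH m) (𝔓.reg m π) y) :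
    ∀ᶠ ε in 𝓝[>] (0 : ℝ), ∀ᵐ ω ∂pvP ε, ∑' i, ((pvxnSys 𝔓 m π a (𝔎s ε) (pvjbYd kit b X₀ z d l zi di eo ei eoR eiR D) ε).A i ∩ (pvxnSys 𝔓 m π a (𝔎s ε) (pvjbYd kit b X₀ z d l zi di eo ei eoR eiR D) ε).WO i).indicator
        (fun ω => (pvjbYd kit b X₀ z d l zi di eo ei eoR eiR D).w ε ω * ‖i.X + (pvjbYd kit b X₀ z d l zi di eo ei eoR eiR D).Y ε ω‖ₑ ^ 2) ω
      ≤ (pvjbYd kit b X₀ z d l zi di eo ei eoR eiR D).D * pvclSum ω (𝔎s ε).B (pvlmH m) := by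
  refine pvdk_dom ha hK ?_
  filter_upwards [hcol, hch] with ε h1 h2
  filter_upwards [h1, h2] with η k1 k2
  exact pvdk_Y_jb k1 k2

end record

end Claimed.Agent.R289
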