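-- KEEP
import Claimed.Agent.R289.Tr.DomEK
import Claimed.Agent.R289.Tr.StabW
import Claimed.Agent.R289.Exit.N1RK
import Claimed.Agent.R289.Exit.N1Guard

/-!
# Row 289 (S0537), THE WALL, ROAD E, file Tr/DomEN : THE FIELD `dom` AT THE KIT OF RECORD `pvknKit` (29), GUARDED (159)      (helper104, second of 37; prefix `pvdk_`, `Pvdk`)

`Tr/DomEK` : `PvdkKit` (`NoX` form of the white circuit, `g₀ ⊆ closedBall x (5R)` and `Geo` from `E`).      RULING 19 (5): the kit of record is `pvknKit` : `E = NBon MU`, `W = WK = WO ∩ {white circuit in gate form, g₀ inside}`, `N = fz ∪ MU`.      THIS FILE = the same road in the CIRCUIT form.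
* sec. 1  MODEL FREE.   **`pvdk_onwall_wk`** : `Ok`, pins apart, `Col`, `Cyl`, `WK`, `NBon MU` ⟹ `g₀` lies on the wall of `dm(t)`   (no finite wall hypothesis, no `g5`);   `pvdk_g_in_wk` : `g₀ ⊆ closedBall x r₂`
* sec. 2  **`PvdkCk 𝔓 x R m π 𝔎`** = what the events of a kit must IMPLY (`E_nb W_wk N_same B_bdd B_sub reg`);   `PvdkCk.of_le` (any kit with a STRONGER `E`, `W`, same `N`, `B`), `PvdkCk.guard` (the guard of 159);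
          **`pvdk_ck_kn`** : `PvdkCk` AT `pvknKit`,   `pvdk_ck_hq` : at the spare kit `pvhqKit` of 27
* sec. 3  `pvdk_c2_ck` : `PvdkCk + Geo + PvdkY ⟹ PvdfC2`;   **`pvdk_dom_ck`** = `dom` VERBATIM
* sec. 3bis  **PARAMETRIC IN THE CLASS `M(D)`** read by `E = NBon M` (kit v2 of 29, `reg.wc S` of 78): `pvdk_onwall_cm`, **`PvdkCm`**, **`PvdkYm`** (`w_le geo cell chain`; (CELL) = the sites of the patch in the open cell of every shield lie in `M`), `pvdk_c2_cm`, **`pvdk_dom_cm`**;   guarded: **`pvdk_dom_gm`** (sec. 5)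
* sec. 4  the deterministic debts: **`pvdk_reg_of`** (`PvdfReg` from `pvxPatSet` + `L h + h ≤ R` + `Yin ⊆ B`), **`pvdk_geo_of`** (`Geo` from `pvxPatSet` + the mesh at the two centres)
* sec. 5  `pvdk_pr_guard` (present data of the guarded kit = `η ∈ S` + present data of the kit), `pvdk_Y_guard`, **`pvdk_dom_gd`** = the field `dom` of `Pvn1aY` (159) VERBATIM, ANY `Y` side, any guarded kits with `PvdkCk`;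
          `pvdk_dom_guard` (at `pvjbYd` of 93), **`pvdk_dom_kn`** (at `(pvknKit ..).guard (S ε)`, every deterministic debt paid from the index): mesh in the guard + (COL) + (CHAIN).      0 sorry.
-/

set_option autoImplicit false

namespace Claimed.Agent.R289

open MeasureTheory Set Filter Topology Claims.C0465
open scoped ENNReal

/-! ## 1. the `g₀` part of (C2) at the events of `pvknKit` -/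

section free

variable {V D : Type} {T : PvMap V D}

/-- the sites strictly inside a cycle are sites of its left side -/
theorem pvdk_int_vof (hne : ∀ v : V, ∃ d, T.src d = v) {L : Set D} {v : V} (hv : v ∈ T.Int L) : v ∈ T.VOf L := by
  obtain ⟨d, rfl⟩ := hne v
  exact ⟨d, hv d rfl, rfl⟩

/-- **(C2), `g₀` PART, AT THE EVENTS OF THE KIT OF RECORD**: `E = NBon MU`, `W = WK` -/
theorem pvdk_onwall_wk (hT : T.IsSph) (hS : T.Simple) (hne : ∀ v : V, ∃ d, T.src d = v) (𝔇 : PvwDat T) {pos : V → ℂ} {N : PvwNum} {h : ℝ} {π : PvwPat} {σ : V → Bool} (hOk : 𝔇.Ok pos N h π)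
    (hs : 𝔇.s.gp ∉ 𝔇.t.ins) (ht : 𝔇.t.gm ∉ 𝔇.s.ins) (hcol : 𝔇.Col pos π) (hσ : σ ∈ 𝔇.Cyl) {x : ℂ} {r₁ r₂ : ℝ} (hW : 𝔇.WK pos π x r₁ r₂ σ) (hNB : 𝔇.NBon (𝔇.MU pos π x r₂) σ) :
    𝔇.g.OnWall σ 𝔇.t.dm := by
  obtain ⟨hWO, w, hw, hg, -⟩ := hW
  exact pvc4_onwall_circuit hT hS 𝔇 hOk hs ht hσ hWO w hw.white hw.fin hg (M := 𝔇.MU pos π x r₂)
    (fun q hq' hq v hv hv' => ⟨pvwc_G1nu hT 𝔇 hOk hs ht hcol hσ hq hq' hv', hw.inside v (pvdk_int_vof hne hv)⟩) hNB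

/-- **THE SAME FOR ANY CLASS `M`** read by `E = NBon M`: (CELL) = the sites of the patch in the open cell of EVERY shield lie in `M` -/
theorem pvdk_onwall_cm (hT : T.IsSph) (hS : T.Simple) (hne : ∀ v : V, ∃ d, T.src d = v) (𝔇 : PvwDat T) {pos : V → ℂ} {N : PvwNum} {h : ℝ} {π : PvwPat} {σ : V → Bool} (hOk : 𝔇.Ok pos N h π)
    (hs : 𝔇.s.gp ∉ 𝔇.t.ins) (ht : 𝔇.t.gm ∉ 𝔇.s.ins) (hσ : σ ∈ 𝔇.Cyl) {x : ℂ} {r₁ r₂ : ℝ} (hW : 𝔇.WK pos π x r₁ r₂ σ) {M : Set V}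
    (hcell : ∀ (q : T.Pth) (hg : 𝔇.g.Glue q), 𝔇.IsShield pos π σ q → ∀ v, ‖pos v - x‖ ≤ r₂ → v ∈ T.Int (𝔇.g.glue q hg).Right → v ∈ M) (hNB : 𝔇.NBon M σ) :
    𝔇.g.OnWall σ 𝔇.t.dm := by
  obtain ⟨hWO, w, hw, hg, -⟩ := hW
  exact pvc4_onwall_circuit hT hS 𝔇 hOk hs ht hσ hWO w hw.white hw.fin hg (fun q hq' hq v hv hv' => hcell q hq' hq v (hw.inside v (pvdk_int_vof hne hv)) hv') hNB

/-- `g₀` lies inside the circuit, hence in the patch -/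
theorem pvdk_g_in_wk (hne : ∀ v : V, ∃ d, T.src d = v) (𝔇 : PvwDat T) {pos : V → ℂ} {π : PvwPat} {σ : V → Bool} {x : ℂ} {r₁ r₂ : ℝ} (hW : 𝔇.WK pos π x r₁ r₂ σ) :
    ∀ v ∈ 𝔇.g.verts, ‖pos v - x‖ ≤ r₂ := by
  obtain ⟨-, w, hw, hg, -⟩ := hW
  exact fun v hv => hw.inside v (pvdk_int_vof hne (hg v hv))

end free

/-! ## 2. the clauses of a kit, circuit form -/

section kit

variable {τ : Type} {c : ℝ} (𝔓 : PvxPar τ c) (x : ℂ) (R : ℝ) (m : ℕ) (π : PvxIx τ) (a : ℂ) (𝔎 : PvxnKit) (𝔜 : PvxnYd)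

/-- **WHAT THE EVENTS OF THE KIT MUST IMPLY, CIRCUIT FORM** (deterministic).
* `E_nb`  `E(D) ⟹ NBon MU`      * `W_wk`  `E(D), W(D) ⟹ WK(D)` at a good set of sites, for a datum `Ok`
* `N_same`  the class of the read sites is a function of the used data      * `B_sub`  the patch `closedBall x (6R)` lies in `B`;   `reg`  the regions of the pattern lie in `B` -/
structure PvdkCk : Prop where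
  E_nb : ∀ (Y : Set ℂ) (𝔇 : PvwDat (delbPl Y).toMap) (σ : ↥Y → Bool), 𝔎.E Y 𝔇 σ → 𝔇.NBon (𝔇.MU Subtype.val (𝔓.reg m π) x (6 * R)) σ
  W_wk : ∀ (Y : Set ℂ) (𝔇 : PvwDat (delbPl Y).toMap) (σ : ↥Y → Bool), DelGood Y → 𝔇.Ok Subtype.val 𝔓.num (pvlmH m) (𝔓.reg m π) → 𝔎.E Y 𝔇 σ → 𝔎.W Y 𝔇 σ →
    𝔇.WK Subtype.val (𝔓.reg m π) x (5 * R) (6 * R) σ
  N_same : ∀ (Y : Set ℂ) (𝔇 𝔇' : PvwDat (delbPl Y).toMap), PvdfSame 𝔇 𝔇' → 𝔎.N Y 𝔇 = 𝔎.N Y 𝔇'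
  B_bdd : Bornology.IsBounded 𝔎.B
  B_sub : Metric.closedBall x (6 * R) ⊆ 𝔎.B
  reg : PvdfReg 𝔓.num (pvlmH m) (𝔓.reg m π) 𝔎.B

variable {𝔓 x R m π a 𝔎 𝔜}

/-- any kit with stronger events, the same read sites and the same `B` -/
theorem PvdkCk.of_le (h : PvdkCk 𝔓 x R m π 𝔎) {𝔎' : PvxnKit} (hE : ∀ (Y : Set ℂ) (𝔇 : PvwDat (delbPl Y).toMap) (σ : ↥Y → Bool), 𝔎'.E Y 𝔇 σ → 𝔎.E Y 𝔇 σ)
    (hW : ∀ (Y : Set ℂ) (𝔇 : PvwDat (delbPl Y).toMap) (σ : ↥Y → Bool), 𝔎'.W Y 𝔇 σ → 𝔎.W Y 𝔇 σ) (hN : 𝔎'.N = 𝔎.N) (hB : 𝔎'.B = 𝔎.B) : PvdkCk 𝔓 x R m π 𝔎' where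
  E_nb Y 𝔇 σ h1 := h.E_nb Y 𝔇 σ (hE Y 𝔇 σ h1)
  W_wk Y 𝔇 σ h0 h1 h2 h3 := h.W_wk Y 𝔇 σ h0 h1 (hE Y 𝔇 σ h2) (hW Y 𝔇 σ h3)
  N_same Y 𝔇 𝔇' h1 := by rw [hN]; exact h.N_same Y 𝔇 𝔇' h1
  B_bdd := by rw [hB]; exact h.B_bdd
  B_sub := by rw [hB]; exact h.B_sub
  reg := by rw [hB]; exact h.reg

/-- the guard of 159 -/
theorem PvdkCk.guard (h : PvdkCk 𝔓 x R m π 𝔎) (S : Set (Conf PvPt)) : PvdkCk 𝔓 x R m π (𝔎.guard S) :=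
  h.of_le (fun _ _ _ h1 => h1.2) (fun _ _ _ h1 => h1) rfl rfl

/-- **THE KIT OF RECORD** (29, `Tr/KitN1`) -/
theorem pvdk_ck_kn {C : Set ℂ} {r : ℝ} {B : Set ℂ} {mB : MeasurableSet B} {q : ℝ≥0∞} (hB : Bornology.IsBounded B) (hsub : Metric.closedBall x (6 * R) ⊆ B)
    (hreg : PvdfReg 𝔓.num (pvlmH m) (𝔓.reg m π) B) : PvdkCk 𝔓 x R m π (pvknKit1 𝔓 x R m π C r B mB q) where
  E_nb _ _ _ h := h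
  W_wk _ _ _ _ _ _ h := h
  N_same _ 𝔇 𝔇' h := by
    show 𝔇.fz ∪ {v | v ∈ 𝔇.NU Subtype.val (𝔓.reg m π) ∧ _} = 𝔇'.fz ∪ {v | v ∈ 𝔇'.NU Subtype.val (𝔓.reg m π) ∧ _}
    rw [h.fz, h.NU]
  B_bdd := hB
  B_sub := hsub
  reg := hreg

/-- the spare kit (27, `Tr/StabE`) -/
theorem pvdk_ck_hq {C : Set ℂ} {r : ℝ} {q : ℝ≥0∞} (hreg : PvdfReg 𝔓.num (pvlmH m) (𝔓.reg m π) (Metric.closedBall x (6 * R))) : PvdkCk 𝔓 x R m π (pvhqKit x R (𝔓.reg m π) C r q) where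
  E_nb _ _ _ h := h.1
  W_wk _ 𝔇 _ hg hOk hE hW := pvhq_WK_of_W (delb_plane_isSph hg) hOk.g0 hE.2 hW
  N_same _ 𝔇 𝔇' h := by
    show 𝔇.fz ∪ {v | v ∈ 𝔇.NU Subtype.val (𝔓.reg m π) ∧ _} ∪ _ ∪ _ = 𝔇'.fz ∪ {v | v ∈ 𝔇'.NU Subtype.val (𝔓.reg m π) ∧ _} ∪ _ ∪ _
    rw [h.fz, h.NU]
  B_bdd := Metric.isBounded_closedBall
  B_sub := Subset.rfl
  reg := hreg

/-! ## 3. the contract of `Tr/DomEB` -/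

/-- the contract of `Tr/DomEB` from the clauses of the kit, circuit form -/
theorem pvdk_c2_ck (hK : PvdkCk 𝔓 x R m π 𝔎) {ε : ℝ} {η : Conf PvPt} (hg : DelGood (cfSites η))
    (hgeo : 𝔜.w ε η ≠ 0 → ∀ i 𝔇, PvdfPr 𝔓 m π a 𝔎 η i 𝔇 → 𝔇.Geo Subtype.val 𝔓.num (pvlmH m) (𝔓.reg m π)) (hY : PvdkY 𝔓 m π a 𝔎 𝔜 ε η) : PvdfC2 𝔓 m π a 𝔎 𝔜 ε η := by
  have hT : (delbPl (cfSites η)).toMap.IsSph := delb_plane_isSph hg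
  have hS : (delbPl (cfSites η)).toMap.Simple := pvgy_m_simple _
  have hfit : 𝔜.w ε η ≠ 0 → ∀ i 𝔇, PvdfPr 𝔓 m π a 𝔎 η i 𝔇 → 𝔇.Fit Subtype.val 𝔓.num (pvlmH m) (𝔓.reg m π) (pvdfCol η) := fun hw i 𝔇 hP =>
    pvwf_fit hT hS 𝔇 hP.1.ok (hgeo hw i 𝔇 hP) hP.1.cyl
  refine ⟨hY.w_le, fun hw i 𝔇 hP _ _ => hfit hw i 𝔇 hP, fun hw i 𝔇 hP y hy => ?_, hY.chain, fun _ i 𝔇 hP k hk => ?_⟩
  · have hF := hfit hw i 𝔇 hP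
    exact pvdk_onwall_wk hT hS (pvkn_dart_at hg) 𝔇 hP.1.ok hF.sep_s hF.sep_t (hY.col hw i 𝔇 hP y hy) hP.1.cyl (hK.W_wk _ 𝔇 _ hg hP.1.ok hP.2.1 hP.2.2) (hK.E_nb _ 𝔇 _ hP.2.1)
  · exact hK.B_sub (mem_closedBall_iff_norm.2 (pvdk_g_in_wk (pvkn_dart_at hg) 𝔇 (hK.W_wk _ 𝔇 _ hg hP.1.ok hP.2.1 hP.2.2) _ ⟨k, hk, rfl⟩))

/-- **THE FIELD `dom` OF `PvxnOk`, VERBATIM, CIRCUIT FORM** -/
theorem pvdk_dom_ck {𝔎s : ℝ → PvxnKit} (ha : 2 ≤ (𝔓.reg m π).ts.a) (hK : ∀ᶠ ε in 𝓝[>] (0 : ℝ), PvdkCk 𝔓 x R m π (𝔎s ε))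
    (hgeo : ∀ᶠ ε in 𝓝[>] (0 : ℝ), ∀ᵐ η ∂pvP ε, 𝔜.w ε η ≠ 0 → ∀ i 𝔇, PvdfPr 𝔓 m π a (𝔎s ε) η i 𝔇 → 𝔇.Geo Subtype.val 𝔓.num (pvlmH m) (𝔓.reg m π))
    (hY : ∀ᶠ ε in 𝓝[>] (0 : ℝ), ∀ᵐ η ∂pvP ε, PvdkY 𝔓 m π a (𝔎s ε) 𝔜 ε η) :
    ∀ᶠ ε in 𝓝[>] (0 : ℝ), ∀ᵐ ω ∂pvP ε, ∑' i, ((pvxnSys 𝔓 m π a (𝔎s ε) 𝔜 ε).A i ∩ (pvxnSys 𝔓 m π a (𝔎s ε) 𝔜 ε).WO i).indicator (fun ω => 𝔜.w ε ω * ‖i.X + 𝔜.Y ε ω‖ₑ ^ 2) ω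
      ≤ 𝔜.D * pvclSum ω (𝔎s ε).B (pvlmH m) := by
  refine pvdf_dom_c2 ha (hK.mono fun ε h => h.B_bdd) (hK.mono fun ε h => h.reg) (hK.mono fun ε h => h.N_same) ?_
  filter_upwards [hK, hgeo, hY, self_mem_nhdsWithin] with ε h1 h2 h3 hε
  filter_upwards [h2, h3, pvqf_good_ae ε (ne_of_gt hε)] with η k1 k2 k3
  exact pvdk_c2_ck h1 k3.del k1 k2

end kit

/-! ## 3bis. THE SAME, PARAMETRIC IN THE CLASS `M(D)` WHICH `E(D) = NBon M(D)` READS (kit v2 of 29: `M = MF`; 78: `M = MU` at the pattern `reg.wc S`) -/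

section param

variable {τ : Type} {c : ℝ} (𝔓 : PvxPar τ c) (x : ℂ) (R : ℝ) (m : ℕ) (π : PvxIx τ) (a : ℂ) (𝔎 : PvxnKit) (𝔜 : PvxnYd) (M : ∀ Y : Set ℂ, PvwDat (delbPl Y).toMap → Set ↥Y)

/-- **WHAT THE EVENTS OF THE KIT MUST IMPLY**, `E(D) ⟹ NBon M(D)` for a class `M(D)` of sites -/
structure PvdkCm : Prop where
  E_nb : ∀ (Y : Set ℂ) (𝔇 : PvwDat (delbPl Y).toMap) (σ : ↥Y → Bool), 𝔎.E Y 𝔇 σ → 𝔇.NBon (M Y 𝔇) σ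
  W_wk : ∀ (Y : Set ℂ) (𝔇 : PvwDat (delbPl Y).toMap) (σ : ↥Y → Bool), DelGood Y → 𝔇.Ok Subtype.val 𝔓.num (pvlmH m) (𝔓.reg m π) → 𝔎.E Y 𝔇 σ → 𝔎.W Y 𝔇 σ →
    𝔇.WK Subtype.val (𝔓.reg m π) x (5 * R) (6 * R) σ
  N_same : ∀ (Y : Set ℂ) (𝔇 𝔇' : PvwDat (delbPl Y).toMap), PvdfSame 𝔇 𝔇' → 𝔎.N Y 𝔇 = 𝔎.N Y 𝔇'
  B_bdd : Bornology.IsBounded 𝔎.B
  B_sub : Metric.closedBall x (6 * R) ⊆ 𝔎.B
  reg : PvdfReg 𝔓.num (pvlmH m) (𝔓.reg m π) 𝔎.B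

/-- **WHAT THE `Y` SIDE (AND THE GUARD) OWE at one configuration**, every line but `w_le` under `w ≠ 0`, for the present data.
* `geo`    `PvwDat.Geo` (mesh at the two centres)      * `cell`  **(CELL)**: the sites of the patch in the open cell of EVERY shield lie in `M(D)`      [`M = MU`: `Col` + `pvwc_G1nu`;   kit v2: 78 `pvc5_cell`, 29 `pvkn_cell_nf`]
* `chain`  CHAIN -/
structure PvdkYm (ε : ℝ) (η : Conf PvPt) : Prop where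
  w_le : ∀ i, (pvxnSys 𝔓 m π a 𝔎 𝔜 ε).Pr η i → 𝔜.w ε η ≤ 𝔜.D
  geo : 𝔜.w ε η ≠ 0 → ∀ i 𝔇, PvdfPr 𝔓 m π a 𝔎 η i 𝔇 → 𝔇.Geo Subtype.val 𝔓.num (pvlmH m) (𝔓.reg m π)
  cell : 𝔜.w ε η ≠ 0 → ∀ i 𝔇, PvdfPr 𝔓 m π a 𝔎 η i 𝔇 → ∀ y, 𝔇.YArc Subtype.val (𝔓.reg m π) (pvdfCol η) y → ∀ (q : (delbPl (cfSites η)).toMap.Pth) (hg : 𝔇.g.Glue q),
    𝔇.IsShield Subtype.val (𝔓.reg m π) (pvdfCol η) q → ∀ v : ↥(cfSites η), ‖(v : ℂ) - x‖ ≤ 6 * R → v ∈ (delbPl (cfSites η)).toMap.Int (𝔇.g.glue q hg).Right → v ∈ M _ 𝔇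
  chain : 𝔜.w ε η ≠ 0 → ∀ i 𝔇, PvdfPr 𝔓 m π a 𝔎 η i 𝔇 →
    ∃ y, 𝔇.YArc Subtype.val (𝔓.reg m π) (pvdfCol η) y ∧ 𝔜.Y ε η = 𝔇.Yof Subtype.val (pvxnFd (cfSites η) a) 𝔓.num (pvlmH m) (𝔓.reg m π) y

variable {𝔓 x R m π a 𝔎 𝔜 M}

theorem PvdkCm.of_le (h : PvdkCm 𝔓 x R m π 𝔎 M) {𝔎' : PvxnKit} (hE : ∀ (Y : Set ℂ) (𝔇 : PvwDat (delbPl Y).toMap) (σ : ↥Y → Bool), 𝔎'.E Y 𝔇 σ → 𝔎.E Y 𝔇 σ)
    (hW : ∀ (Y : Set ℂ) (𝔇 : PvwDat (delbPl Y).toMap) (σ : ↥Y → Bool), 𝔎'.W Y 𝔇 σ → 𝔎.W Y 𝔇 σ) (hN : 𝔎'.N = 𝔎.N) (hB : 𝔎'.B = 𝔎.B) : PvdkCm 𝔓 x R m π 𝔎' M where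
  E_nb Y 𝔇 σ h1 := h.E_nb Y 𝔇 σ (hE Y 𝔇 σ h1)
  W_wk Y 𝔇 σ h0 h1 h2 h3 := h.W_wk Y 𝔇 σ h0 h1 (hE Y 𝔇 σ h2) (hW Y 𝔇 σ h3)
  N_same Y 𝔇 𝔇' h1 := by rw [hN]; exact h.N_same Y 𝔇 𝔇' h1
  B_bdd := by rw [hB]; exact h.B_bdd
  B_sub := by rw [hB]; exact h.B_sub
  reg := by rw [hB]; exact h.reg

theorem PvdkCm.guard (h : PvdkCm 𝔓 x R m π 𝔎 M) (S : Set (Conf PvPt)) : PvdkCm 𝔓 x R m π (𝔎.guard S) M :=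
  h.of_le (fun _ _ _ h1 => h1.2) (fun _ _ _ h1 => h1) rfl rfl

/-- the form of sec. 2 is the case `M = MU` -/
theorem PvdkCk.toCm (h : PvdkCk 𝔓 x R m π 𝔎) : PvdkCm 𝔓 x R m π 𝔎 (fun _ 𝔇 => 𝔇.MU Subtype.val (𝔓.reg m π) x (6 * R)) :=
  ⟨h.E_nb, h.W_wk, h.N_same, h.B_bdd, h.B_sub, h.reg⟩

/-- the contract of `Tr/DomEB` -/
theorem pvdk_c2_cm (hK : PvdkCm 𝔓 x R m π 𝔎 M) {ε : ℝ} {η : Conf PvPt} (hg : DelGood (cfSites η)) (hY : PvdkYm 𝔓 x R m π a 𝔎 𝔜 M ε η) : PvdfC2 𝔓 m π a 𝔎 𝔜 ε η := by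
  have hT : (delbPl (cfSites η)).toMap.IsSph := delb_plane_isSph hg
  have hS : (delbPl (cfSites η)).toMap.Simple := pvgy_m_simple _
  have hfit : 𝔜.w ε η ≠ 0 → ∀ i 𝔇, PvdfPr 𝔓 m π a 𝔎 η i 𝔇 → 𝔇.Fit Subtype.val 𝔓.num (pvlmH m) (𝔓.reg m π) (pvdfCol η) := fun hw i 𝔇 hP =>
    pvwf_fit hT hS 𝔇 hP.1.ok (hY.geo hw i 𝔇 hP) hP.1.cyl
  refine ⟨hY.w_le, fun hw i 𝔇 hP _ _ => hfit hw i 𝔇 hP, fun hw i 𝔇 hP y hy => ?_, hY.chain, fun _ i 𝔇 hP k hk => ?_⟩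
  · have hF := hfit hw i 𝔇 hP
    exact pvdk_onwall_cm hT hS (pvkn_dart_at hg) 𝔇 hP.1.ok hF.sep_s hF.sep_t hP.1.cyl (hK.W_wk _ 𝔇 _ hg hP.1.ok hP.2.1 hP.2.2) (hY.cell hw i 𝔇 hP y hy) (hK.E_nb _ 𝔇 _ hP.2.1)
  · exact hK.B_sub (mem_closedBall_iff_norm.2 (pvdk_g_in_wk (pvkn_dart_at hg) 𝔇 (hK.W_wk _ 𝔇 _ hg hP.1.ok hP.2.1 hP.2.2) _ ⟨k, hk, rfl⟩))

/-- **THE FIELD `dom` OF `PvxnOk`, VERBATIM, PARAMETRIC FORM** -/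
theorem pvdk_dom_cm {𝔎s : ℝ → PvxnKit} {Ms : ℝ → ∀ Y : Set ℂ, PvwDat (delbPl Y).toMap → Set ↥Y} (ha : 2 ≤ (𝔓.reg m π).ts.a) (hK : ∀ᶠ ε in 𝓝[>] (0 : ℝ), PvdkCm 𝔓 x R m π (𝔎s ε) (Ms ε))
    (hY : ∀ᶠ ε in 𝓝[>] (0 : ℝ), ∀ᵐ η ∂pvP ε, PvdkYm 𝔓 x R m π a (𝔎s ε) 𝔜 (Ms ε) ε η) :
    ∀ᶠ ε in 𝓝[>] (0 : ℝ), ∀ᵐ ω ∂pvP ε, ∑' i, ((pvxnSys 𝔓 m π a (𝔎s ε) 𝔜 ε).A i ∩ (pvxnSys 𝔓 m π a (𝔎s ε) 𝔜 ε).WO i).indicator (fun ω => 𝔜.w ε ω * ‖i.X + 𝔜.Y ε ω‖ₑ ^ 2) ω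
      ≤ 𝔜.D * pvclSum ω (𝔎s ε).B (pvlmH m) := by
  refine pvdf_dom_c2 ha (hK.mono fun ε h => h.B_bdd) (hK.mono fun ε h => h.reg) (hK.mono fun ε h => h.N_same) ?_
  filter_upwards [hK, hY, self_mem_nhdsWithin] with ε h1 h2 hε
  filter_upwards [h2, pvqf_good_ae ε (ne_of_gt hε)] with η k1 k2
  exact pvdk_c2_cm h1 k2.del k1

end param

/-! ## 4. the deterministic debts, from the index -/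

section det

variable {τ : Type} {c : ℝ} {𝔓 : PvxPar τ c} {x : ℂ} {R : ℝ} {m : ℕ} {π : PvxIx τ}

theorem pvdk_sq_norm {z w : ℂ} {r : ℝ} (h : w ∈ pvwSq z r) : ‖w - z‖ ≤ 2 * r := by
  have h1 := Complex.norm_le_abs_re_add_abs_im (w - z)
  linarith [h.1, h.2]

/-- the own box lies in the largest box -/
theorem pvdk_rad_le (hW : 𝔓.Wf) (m : ℕ) (t : τ) : pvwRad 𝔓.num (pvlmH m) (𝔓.ty t) (𝔓.ty t).k ≤ pvwRad 𝔓.num (pvlmH m) (𝔓.ty t) 𝔓.num.K := by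
  have hh := pvlm_H_pos m
  have h1 : 0 ≤ 𝔓.num.rho1 := (hW.rho0.trans hW.rho1).le
  unfold pvwRad
  have h2 : ((𝔓.ty t).k : ℝ) ≤ 𝔓.num.K := by exact_mod_cast hW.lev t
  exact mul_le_mul_of_nonneg_right (by nlinarith) hh.le

/-- the gate disc lies in the own box -/
theorem pvdk_b_le_rad (hW : 𝔓.Wf) (hb : ∀ t, (𝔓.ty t).b ≤ 2 * (𝔓.ty t).b2) (m : ℕ) (t : τ) : (𝔓.ty t).b * pvlmH m ≤ pvwRad 𝔓.num (pvlmH m) (𝔓.ty t) (𝔓.ty t).k := by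
  have hh := pvlm_H_pos m
  have h1 : 0 ≤ 𝔓.num.rho1 := (hW.rho0.trans hW.rho1).le
  unfold pvwRad
  have h3 : (0 : ℝ) ≤ ((𝔓.ty t).k : ℝ) * 𝔓.num.rho1 := by positivity
  exact mul_le_mul_of_nonneg_right (by linarith [hb t]) hh.le

theorem pvdk_near {z w : ℂ} {ρ : ℝ} (hz : ‖z - x‖ ≤ 3 * R) (hw : ‖w - z‖ ≤ ρ) (hρ : ρ ≤ R) : w ∈ Metric.closedBall x (6 * R) := by
  rw [mem_closedBall_iff_norm]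
  have h1 : ‖w - x‖ ≤ ‖w - z‖ + ‖z - x‖ := by simpa using norm_add_le (w - z) (z - x)
  have h2 : 0 ≤ ‖w - z‖ := norm_nonneg _
  linarith

/-- **`PvdfReg` FROM THE INDEX**: `pvxPatSet` (centres in `closedBall x (3R)`, boxes small against the patch) + `L h + h ≤ R` (73) + the room of the new strand in `B` ((b5) of R20) -/
theorem pvdk_reg_of (hW : 𝔓.Wf) (hπ : π ∈ pvxPatSet 𝔓 x R m) (hLR : 𝔓.𝔐.L * pvlmH m + pvlmH m ≤ R) {B : Set ℂ} (hsub : Metric.closedBall x (6 * R) ⊆ B) (hyin : (𝔓.reg m π).Yin ⊆ B) :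
    PvdfReg 𝔓.num (pvlmH m) (𝔓.reg m π) B := by
  have hh := pvlm_H_pos m
  obtain ⟨⟨-, -, -, hzs, hzt, -⟩, -, hbs, hbt, -⟩ := hπ
  have hb : ∀ t, (𝔓.ty t).b * pvlmH m ≤ R := fun t => by
    have := mul_le_mul_of_nonneg_right (hW.b_le t) hh.le
    linarith
  refine ⟨fun w hw => hsub ?_, fun w hw => hsub ?_, fun w hw => hsub ?_, fun w hw => hsub ?_, hyin⟩
  · rw [hW.reg_zs, hW.reg_ts, mem_ball_iff_norm] at hw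
    exact pvdk_near hzs hw.le (hb _)
  · rw [hW.reg_zt, hW.reg_tt, mem_ball_iff_norm] at hw
    exact pvdk_near hzt hw.le (hb _)
  · rw [hW.reg_zs, hW.reg_ts] at hw
    exact pvdk_near hzs (pvdk_sq_norm hw) (by linarith [pvdk_rad_le hW m π.p.ts])
  · rw [hW.reg_zt, hW.reg_tt] at hw
    exact pvdk_near hzt (pvdk_sq_norm hw) (by linarith [pvdk_rad_le hW m π.p.tt])

/-- **`Geo` FROM THE INDEX AND THE MESH AT THE TWO CENTRES** (78 `pvc4_geo_model`): `pvxPatSet` (b1), `b ≤ 2 b₂`, mesh `μ`, `2μ ≤ h` -/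
theorem pvdk_geo_of (hW : 𝔓.Wf) (hb : ∀ t, (𝔓.ty t).b ≤ 2 * (𝔓.ty t).b2) (hπ : π ∈ pvxPatSet 𝔓 x R m) {Y : Set ℂ} (𝔇 : PvwDat (delbPl Y).toMap)
    (hOk : 𝔇.Ok Subtype.val 𝔓.num (pvlmH m) (𝔓.reg m π)) {μ R' : ℝ} (hμ : 0 ≤ μ) (hμR : μ < R') (h2μ : 2 * μ ≤ pvlmH m)
    (hds : VorDense Y (Metric.closedBall π.p.zs (𝔓.num.m * pvlmH m + R')) μ) (hdt : VorDense Y (Metric.closedBall π.p.zt (𝔓.num.m * pvlmH m + R')) μ) :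
    𝔇.Geo Subtype.val 𝔓.num (pvlmH m) (𝔓.reg m π) := by
  have hh := pvlm_H_pos m
  obtain ⟨-, hsep, -⟩ := hπ
  refine pvc4_geo_model 𝔇 hOk ?_ ?_ ?_ hμ hμR ?_ ?_ ?_ ?_
  · rw [hW.reg_zs, hW.reg_zt, hW.reg_ts, hW.reg_tt]
    linarith [pvdk_rad_le hW m π.p.ts, pvdk_rad_le hW m π.p.tt]
  · rw [hW.reg_ts]; exact pvdk_b_le_rad hW hb m _
  · rw [hW.reg_tt]; exact pvdk_b_le_rad hW hb m _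
  · rw [hW.reg_zs]; exact hds
  · rw [hW.reg_zt]; exact hdt
  · rw [hW.reg_ts]; exact pvdc_wf_num 𝔓 hW.toWfB _ hh h2μ
  · rw [hW.reg_tt]; exact pvdc_wf_num 𝔓 hW.toWfB _ hh h2μ

end det

/-! ## 5. `dom` at the guarded kit of record -/

section record

variable {τ : Type} {c : ℝ} {𝔓 : PvxPar τ c} {x : ℂ} {R : ℝ} {m : ℕ} {π : PvxIx τ} {a : ℂ}

/-- at a configuration with one colour per site the guard reads the configuration itself -/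
theorem pvdk_cf_self {η : Conf PvPt} (h1 : ∀ p ∈ η.pts, ∀ q ∈ η.pts, p.1 = q.1 → p = q) : pvn1aCf (cfSites η) (pvdfCol η) = η := by
  have h2 : pvn1aCf (cfSites η) (pvdfCol η) = cfOf (cfSites η) (cfCol η) := pvn1a_cf (cfSites η) (cfCol η)
  rw [h2, pvn1a_cfOf_self h1]

/-- **the present data of the guarded kit** = the present data of the kit, at the configurations of the guard -/
theorem pvdk_pr_guard {𝔎 : PvxnKit} {S : Set (Conf PvPt)} {η : Conf PvPt} (h1 : ∀ p ∈ η.pts, ∀ q ∈ η.pts, p.1 = q.1 → p = q) {i : PvxnIx} {𝔇 : PvwDat (delbPl (cfSites η)).toMap} :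
    PvdfPr 𝔓 m π a (𝔎.guard S) η i 𝔇 ↔ η ∈ S ∧ PvdfPr 𝔓 m π a 𝔎 η i 𝔇 := by
  unfold PvdfPr
  rw [pvn1a_wit]
  constructor
  · rintro ⟨hW, ⟨hS, hE⟩, hWO⟩
    rw [pvdk_cf_self h1] at hS
    exact ⟨hS, hW, hE, hWO⟩
  · rintro ⟨hS, hW, hE, hWO⟩
    exact ⟨hW, ⟨by rw [pvdk_cf_self h1]; exact hS, hE⟩, hWO⟩

/-- the debts of ANY `Y` side at the guarded kit, asked at the configurations of the guard for the present data of the UNGUARDED kit -/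
theorem pvdk_Y_guard {𝔎 : PvxnKit} {S : Set (Conf PvPt)} {𝔜 : PvxnYd} {ε : ℝ} {η : Conf PvPt} (h1 : ∀ p ∈ η.pts, ∀ q ∈ η.pts, p.1 = q.1 → p = q) (hw : 𝔜.w ε η ≤ 𝔜.D)
    (hcol : η ∈ S → 𝔜.w ε η ≠ 0 → ∀ i 𝔇, PvdfPr 𝔓 m π a 𝔎 η i 𝔇 → ∀ y, 𝔇.YArc Subtype.val (𝔓.reg m π) (pvdfCol η) y → 𝔇.Col Subtype.val (𝔓.reg m π))
    (hch : η ∈ S → 𝔜.w ε η ≠ 0 → ∀ i 𝔇, PvdfPr 𝔓 m π a 𝔎 η i 𝔇 →
      ∃ y, 𝔇.YArc Subtype.val (𝔓.reg m π) (pvdfCol η) y ∧ 𝔜.Y ε η = 𝔇.Yof Subtype.val (pvxnFd (cfSites η) a) 𝔓.num (pvlmH m) (𝔓.reg m π) y) :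
    PvdkY 𝔓 m π a (𝔎.guard S) 𝔜 ε η :=
  ⟨fun _ _ => hw, fun h0 i 𝔇 hP => hcol ((pvdk_pr_guard h1).1 hP).1 h0 i 𝔇 ((pvdk_pr_guard h1).1 hP).2, fun h0 i 𝔇 hP => hch ((pvdk_pr_guard h1).1 hP).1 h0 i 𝔇 ((pvdk_pr_guard h1).1 hP).2⟩

/-- **THE FIELD `dom` OF `Pvn1aY` (159), VERBATIM, ANY `Y` SIDE `𝔜`, ANY GUARDED KITS WITH THE CLAUSES OF RECORD**: `Geo` is paid by the mesh clause of the guard -/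
theorem pvdk_dom_gd {𝔜 : PvxnYd} {𝔎s : ℝ → PvxnKit} {S : ℝ → Set (Conf PvPt)} (hW : 𝔓.Wf) (hb : ∀ t, (𝔓.ty t).b ≤ 2 * (𝔓.ty t).b2) (hπ : π ∈ pvxPatSet 𝔓 x R m) (ha : 2 ≤ (𝔓.reg m π).ts.a)
    (hK : ∀ᶠ ε in 𝓝[>] (0 : ℝ), PvdkCk 𝔓 x R m π (𝔎s ε))
    (hmesh : ∀ᶠ ε in 𝓝[>] (0 : ℝ), ∃ μ R' : ℝ, 0 ≤ μ ∧ μ < R' ∧ 2 * μ ≤ pvlmH m ∧ ∀ η ∈ S ε,
      VorDense (cfSites η) (Metric.closedBall π.p.zs (𝔓.num.m * pvlmH m + R')) μ ∧ VorDense (cfSites η) (Metric.closedBall π.p.zt (𝔓.num.m * pvlmH m + R')) μ)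
    (hY : ∀ᶠ ε in 𝓝[>] (0 : ℝ), ∀ᵐ η ∂pvP ε, PvdkY 𝔓 m π a ((𝔎s ε).guard (S ε)) 𝔜 ε η) :
    ∀ᶠ ε in 𝓝[>] (0 : ℝ), ∀ᵐ ω ∂pvP ε, ∑' i, ((pvxnSys 𝔓 m π a ((𝔎s ε).guard (S ε)) 𝔜 ε).A i ∩ (pvxnSys 𝔓 m π a ((𝔎s ε).guard (S ε)) 𝔜 ε).WO i).indicator (fun ω => 𝔜.w ε ω * ‖i.X + 𝔜.Y ε ω‖ₑ ^ 2) ω
      ≤ 𝔜.D * pvclSum ω (𝔎s ε).B (pvlmH m) := by
  refine pvdk_dom_ck (𝔎s := fun ε => (𝔎s ε).guard (S ε)) ha (hK.mono fun ε h => h.guard (S ε)) ?_ hY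
  filter_upwards [hmesh, self_mem_nhdsWithin] with ε ⟨μ, R', h0, h1, h2, h3⟩ hε
  filter_upwards [pvqf_good_ae ε (ne_of_gt hε)] with η k1 _ i 𝔇 hP
  obtain ⟨hS, hP'⟩ := (pvdk_pr_guard k1.one).1 hP
  exact pvdk_geo_of hW hb hπ 𝔇 hP'.1.ok h0 h1 h2 (h3 η hS).1 (h3 η hS).2

/-- **THE FIELD `dom` OF `Pvn1aY` (159), VERBATIM, PARAMETRIC FORM: ANY `Y` SIDE, ANY GUARDED KITS `E ⟹ NBon M`**.      The debts (CELL), (CHAIN) are asked at the configurations `η ∈ S ε` with `w ≠ 0`, for the present data of the UNGUARDED kit;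
`Geo` is paid by the mesh clause of the guard. -/
theorem pvdk_dom_gm {𝔜 : PvxnYd} {𝔎s : ℝ → PvxnKit} {Ms : ℝ → ∀ Y : Set ℂ, PvwDat (delbPl Y).toMap → Set ↥Y} {S : ℝ → Set (Conf PvPt)} (hW : 𝔓.Wf) (hb : ∀ t, (𝔓.ty t).b ≤ 2 * (𝔓.ty t).b2)
    (hπ : π ∈ pvxPatSet 𝔓 x R m) (ha : 2 ≤ (𝔓.reg m π).ts.a) (hK : ∀ᶠ ε in 𝓝[>] (0 : ℝ), PvdkCm 𝔓 x R m π (𝔎s ε) (Ms ε))
    (hmesh : ∀ᶠ ε in 𝓝[>] (0 : ℝ), ∃ μ R' : ℝ, 0 ≤ μ ∧ μ < R' ∧ 2 * μ ≤ pvlmH m ∧ ∀ η ∈ S ε,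
      VorDense (cfSites η) (Metric.closedBall π.p.zs (𝔓.num.m * pvlmH m + R')) μ ∧ VorDense (cfSites η) (Metric.closedBall π.p.zt (𝔓.num.m * pvlmH m + R')) μ)
    (hw : ∀ᶠ ε in 𝓝[>] (0 : ℝ), ∀ᵐ η ∂pvP ε, 𝔜.w ε η ≤ 𝔜.D)
    (hcell : ∀ᶠ ε in 𝓝[>] (0 : ℝ), ∀ᵐ η ∂pvP ε, η ∈ S ε → 𝔜.w ε η ≠ 0 → ∀ i 𝔇, PvdfPr 𝔓 m π a (𝔎s ε) η i 𝔇 → ∀ y, 𝔇.YArc Subtype.val (𝔓.reg m π) (pvdfCol η) y →
      ∀ (q : (delbPl (cfSites η)).toMap.Pth) (hg : 𝔇.g.Glue q), 𝔇.IsShield Subtype.val (𝔓.reg m π) (pvdfCol η) q → ∀ v : ↥(cfSites η), ‖(v : ℂ) - x‖ ≤ 6 * R →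
        v ∈ (delbPl (cfSites η)).toMap.Int (𝔇.g.glue q hg).Right → v ∈ Ms ε _ 𝔇)
    (hch : ∀ᶠ ε in 𝓝[>] (0 : ℝ), ∀ᵐ η ∂pvP ε, η ∈ S ε → 𝔜.w ε η ≠ 0 → ∀ i 𝔇, PvdfPr 𝔓 m π a (𝔎s ε) η i 𝔇 →
      ∃ y, 𝔇.YArc Subtype.val (𝔓.reg m π) (pvdfCol η) y ∧ 𝔜.Y ε η = 𝔇.Yof Subtype.val (pvxnFd (cfSites η) a) 𝔓.num (pvlmH m) (𝔓.reg m π) y) :
    ∀ᶠ ε in 𝓝[>] (0 : ℝ), ∀ᵐ ω ∂pvP ε, ∑' i, ((pvxnSys 𝔓 m π a ((𝔎s ε).guard (S ε)) 𝔜 ε).A i ∩ (pvxnSys 𝔓 m π a ((𝔎s ε).guard (S ε)) 𝔜 ε).WO i).indicator (fun ω => 𝔜.w ε ω * ‖i.X + 𝔜.Y ε ω‖ₑ ^ 2) ω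
      ≤ 𝔜.D * pvclSum ω (𝔎s ε).B (pvlmH m) := by
  refine pvdk_dom_cm (𝔎s := fun ε => (𝔎s ε).guard (S ε)) (Ms := Ms) ha (hK.mono fun ε h => h.guard (S ε)) ?_
  filter_upwards [hmesh, hw, hcell, hch, self_mem_nhdsWithin] with ε ⟨μ, R', h0, h1, h2, h3⟩ h4 h5 h6 hε
  filter_upwards [h4, h5, h6, pvqf_good_ae ε (ne_of_gt hε)] with η k4 k5 k6 k1
  refine ⟨fun _ _ => k4, fun _ i 𝔇 hP => ?_, fun hw0 i 𝔇 hP => ?_, fun hw0 i 𝔇 hP => ?_⟩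
  · obtain ⟨hS, hP'⟩ := (pvdk_pr_guard k1.one).1 hP
    exact pvdk_geo_of hW hb hπ 𝔇 hP'.1.ok h0 h1 h2 (h3 η hS).1 (h3 η hS).2
  · obtain ⟨hS, hP'⟩ := (pvdk_pr_guard k1.one).1 hP
    exact k5 hS hw0 i 𝔇 hP'
  · obtain ⟨hS, hP'⟩ := (pvdk_pr_guard k1.one).1 hP
    exact k6 hS hw0 i 𝔇 hP'

variable {kit : ℝ → PvthKit} {b : Bool} {X₀ : ℝ → PvtTurn → Conf PvPt → ℂ} {z d : ℂ} {l : List PvtTurn} {zi di : ℂ} {eo ei : ℝ → Conf PvPt → PvkyEnd} {eoR eiR : ℝ → PvkyEnd} {D : ℝ≥0∞}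

/-- **THE FIELD `dom` OF `Pvn1aY` (159) = OF `PvxnOk` (170), VERBATIM, AT ANY GUARDED KITS WITH THE CLAUSES OF RECORD, `Y` SIDE OF RECORD `pvjbYd` (93)**.
The debts are asked at the configurations `η ∈ S ε` of the guard on which the chain succeeds, for the present data of the UNGUARDED kit:
* `hmesh`  the guard contains the mesh at the two centres      [170 `Exit/N1K` clause `mesh`]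
* `hcol`   (COL)      [194 `pvwm_Col_reg`, 63 `Tr/ColP`]
* `hch`    (CHAIN)      [268 `Tr/ChainM`] -/
theorem pvdk_dom_guard {𝔎s : ℝ → PvxnKit} {S : ℝ → Set (Conf PvPt)} (hW : 𝔓.Wf) (hb : ∀ t, (𝔓.ty t).b ≤ 2 * (𝔓.ty t).b2) (hπ : π ∈ pvxPatSet 𝔓 x R m) (ha : 2 ≤ (𝔓.reg m π).ts.a)
    (hK : ∀ᶠ ε in 𝓝[>] (0 : ℝ), PvdkCk 𝔓 x R m π (𝔎s ε))
    (hmesh : ∀ᶠ ε in 𝓝[>] (0 : ℝ), ∃ μ R' : ℝ, 0 ≤ μ ∧ μ < R' ∧ 2 * μ ≤ pvlmH m ∧ ∀ η ∈ S ε,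
      VorDense (cfSites η) (Metric.closedBall π.p.zs (𝔓.num.m * pvlmH m + R')) μ ∧ VorDense (cfSites η) (Metric.closedBall π.p.zt (𝔓.num.m * pvlmH m + R')) μ)
    (hcol : ∀ᶠ ε in 𝓝[>] (0 : ℝ), ∀ᵐ η ∂pvP ε, η ∈ S ε → pvkyFl b η ∈ pvkyEv (kit ε) b z d l (eoR ε) (eiR ε) → ∀ i 𝔇, PvdfPr 𝔓 m π a (𝔎s ε) η i 𝔇 →
      ∀ y, 𝔇.YArc Subtype.val (𝔓.reg m π) (pvdfCol η) y → 𝔇.Col Subtype.val (𝔓.reg m π))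
    (hch : ∀ᶠ ε in 𝓝[>] (0 : ℝ), ∀ᵐ η ∂pvP ε, η ∈ S ε → pvkyFl b η ∈ pvkyEv (kit ε) b z d l (eoR ε) (eiR ε) → ∀ i 𝔇, PvdfPr 𝔓 m π a (𝔎s ε) η i 𝔇 →
      ∃ y, 𝔇.YArc Subtype.val (𝔓.reg m π) (pvdfCol η) y ∧
        pvkyYc (kit ε) b z d l (eoR ε) (eiR ε) (X₀ ε) (pvkyFl b η) = 𝔇.Yof Subtype.val (pvxnFd (cfSites η) a) 𝔓.num (pvlmH m) (𝔓.reg m π) y) :
    ∀ᶠ ε in 𝓝[>] (0 : ℝ), ∀ᵐ ω ∂pvP ε, ∑' i, ((pvxnSys 𝔓 m π a ((𝔎s ε).guard (S ε)) (pvjbYd kit b X₀ z d l zi di eo ei eoR eiR D) ε).A i ∩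
          (pvxnSys 𝔓 m π a ((𝔎s ε).guard (S ε)) (pvjbYd kit b X₀ z d l zi di eo ei eoR eiR D) ε).WO i).indicator
        (fun ω => (pvjbYd kit b X₀ z d l zi di eo ei eoR eiR D).w ε ω * ‖i.X + (pvjbYd kit b X₀ z d l zi di eo ei eoR eiR D).Y ε ω‖ₑ ^ 2) ω
      ≤ (pvjbYd kit b X₀ z d l zi di eo ei eoR eiR D).D * pvclSum ω (𝔎s ε).B (pvlmH m) := by
  refine pvdk_dom_gd hW hb hπ ha hK hmesh ?_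
  filter_upwards [hcol, hch, self_mem_nhdsWithin] with ε h1 h2 hε
  filter_upwards [h1, h2, pvqf_good_ae ε (ne_of_gt hε)] with η k1 k2 k3
  exact pvdk_Y_jb (fun hEv i 𝔇 hP => k1 ((pvdk_pr_guard k3.one).1 hP).1 hEv i 𝔇 ((pvdk_pr_guard k3.one).1 hP).2)
    (fun hEv i 𝔇 hP => k2 ((pvdk_pr_guard k3.one).1 hP).1 hEv i 𝔇 ((pvdk_pr_guard k3.one).1 hP).2)

/-- **THE SAME AT THE KIT OF RECORD** `pvknKit1 𝔓 x R m π (Cs ε) (rs ε) B mB q` (29), every deterministic debt paid from the index: `B ⊇ closedBall x (6R)` bounded, `Yin ⊆ B`, `L h + h ≤ R` -/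
theorem pvdk_dom_kn {Cs : ℝ → Set ℂ} {rs : ℝ → ℝ} {B : Set ℂ} {mB : MeasurableSet B} {q : ℝ≥0∞} {S : ℝ → Set (Conf PvPt)} (hW : 𝔓.Wf) (hb : ∀ t, (𝔓.ty t).b ≤ 2 * (𝔓.ty t).b2)
    (hπ : π ∈ pvxPatSet 𝔓 x R m) (ha : 2 ≤ (𝔓.reg m π).ts.a) (hLR : 𝔓.𝔐.L * pvlmH m + pvlmH m ≤ R) (hB : Bornology.IsBounded B) (hsub : Metric.closedBall x (6 * R) ⊆ B) (hyin : (𝔓.reg m π).Yin ⊆ B)
    (hmesh : ∀ᶠ ε in 𝓝[>] (0 : ℝ), ∃ μ R' : ℝ, 0 ≤ μ ∧ μ < R' ∧ 2 * μ ≤ pvlmH m ∧ ∀ η ∈ S ε,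
      VorDense (cfSites η) (Metric.closedBall π.p.zs (𝔓.num.m * pvlmH m + R')) μ ∧ VorDense (cfSites η) (Metric.closedBall π.p.zt (𝔓.num.m * pvlmH m + R')) μ)
    (hcol : ∀ᶠ ε in 𝓝[>] (0 : ℝ), ∀ᵐ η ∂pvP ε, η ∈ S ε → pvkyFl b η ∈ pvkyEv (kit ε) b z d l (eoR ε) (eiR ε) → ∀ i 𝔇, PvdfPr 𝔓 m π a (pvknKit1 𝔓 x R m π (Cs ε) (rs ε) B mB q) η i 𝔇 →
      ∀ y, 𝔇.YArc Subtype.val (𝔓.reg m π) (pvdfCol η) y → 𝔇.Col Subtype.val (𝔓.reg m π))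
    (hch : ∀ᶠ ε in 𝓝[>] (0 : ℝ), ∀ᵐ η ∂pvP ε, η ∈ S ε → pvkyFl b η ∈ pvkyEv (kit ε) b z d l (eoR ε) (eiR ε) → ∀ i 𝔇, PvdfPr 𝔓 m π a (pvknKit1 𝔓 x R m π (Cs ε) (rs ε) B mB q) η i 𝔇 →
      ∃ y, 𝔇.YArc Subtype.val (𝔓.reg m π) (pvdfCol η) y ∧
        pvkyYc (kit ε) b z d l (eoR ε) (eiR ε) (X₀ ε) (pvkyFl b η) = 𝔇.Yof Subtype.val (pvxnFd (cfSites η) a) 𝔓.num (pvlmH m) (𝔓.reg m π) y) :
    ∀ᶠ ε in 𝓝[>] (0 : ℝ), ∀ᵐ ω ∂pvP ε, ∑' i, ((pvxnSys 𝔓 m π a ((pvknKit1 𝔓 x R m π (Cs ε) (rs ε) B mB q).guard (S ε)) (pvjbYd kit b X₀ z d l zi di eo ei eoR eiR D) ε).A i ∩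
          (pvxnSys 𝔓 m π a ((pvknKit1 𝔓 x R m π (Cs ε) (rs ε) B mB q).guard (S ε)) (pvjbYd kit b X₀ z d l zi di eo ei eoR eiR D) ε).WO i).indicator
        (fun ω => (pvjbYd kit b X₀ z d l zi di eo ei eoR eiR D).w ε ω * ‖i.X + (pvjbYd kit b X₀ z d l zi di eo ei eoR eiR D).Y ε ω‖ₑ ^ 2) ω
      ≤ (pvjbYd kit b X₀ z d l zi di eo ei eoR eiR D).D * pvclSum ω (pvknKit1 𝔓 x R m π (Cs ε) (rs ε) B mB q).B (pvlmH m) :=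
  pvdk_dom_guard (𝔎s := fun ε => pvknKit1 𝔓 x R m π (Cs ε) (rs ε) B mB q) hW hb hπ ha (Eventually.of_forall fun _ => pvdk_ck_kn hB hsub (pvdk_reg_of hW hπ hLR hsub hyin)) hmesh hcol hch

end record

end Claimed.Agent.R289
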