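import Claimed.Agent.R289.Tr.ChainI
import Claimed.Agent.R289.Tr.Sure
import Claimed.Agent.R289.Tr.Blind

/-!
# Row 289 (S0537), THE WALL, ROAD E, box TR-IRR, file Tr/Irr : THE KEPT COLOURS WHICH THE PLAIN LINK DOES NOT READ ARE IRRELEVANT FOR THE SOFT LINK      (helper218; prefix `pvkyr_`, `pvkyr`, `Pvkyr`)

THE HOLE (Y-STAB).   `yh_stab` of `PvxnOk` (170) and the clause `chain` of `PvjbIn` (93: THE SAME funnels at every base `σ' = σ` on the frozen sites) do NOT follow from `pvue_K_base` (141): the window of an end link contains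
kept sites which are neither frozen nor fresh, and `pvsuSure`, `pvsuLoc` FORMALLY read their colours (they go through `toMeasurable`, `AEMeasurable.mk`: arbitrary on a null set, and the law of the experiment at a FIXED geometry is singular).
THE CURE, MODEL FREE.   The model owes (PI) = a DETERMINISTIC statement on the PLAIN pair `(M, F)` + [MEAS] + one COLOUR FREE clause on the geometry, which holds at almost every geometry and is invariant under the resampling of `C`.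
* sec. 1  any `IsPpp`: **`pvkyrReg μ W D`** = the states on `W` from which the completion a.s. avoids the null set `D`: measurable, reads `W`, a.s. (`pvkyr_reg_ae`), `pvkyr_reg_spec`;   `pvkyr_P_zero`, `pvkyr_P_one`.
* sec. 2  at a regular state `Sure` / `Loc` are the PLAIN conditional statements: `pvkyr_sure_iff`, `pvkyr_loc_eq`;   `pvkyrSA μ W M F = M ∩ {F = Loc (1_M F)}` (7 D1; `pvilSA = Sure (pvkyrSA ..)` by `rfl`), defect set `pvkyrDef`, `pvkyr_def_null`.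
* sec. 3  **`pvkyr_transfer`** : two regular states with the same plain event and value for almost every completion have the same soft success and the same soft value.
* sec. 4  **`pvkyr_null_sites`** (a null event read in a bounded window is avoided, at a.e. geometry, by ALL colourings);   **`PvkyrGeo ε C N Y`** = REGULAR GEOMETRY;   **`pvkyr_geo_ae`** (NA), `pvkyr_geo_ae_law`,
          **`PvkyrGeo.congr`**, `.spl` (reads `Y \ C` only: free for `rd`; no colour: free for `E_mono`), `.mono`, `.union`, `.ae_R` (almost every seed of the experiment avoids `N`).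
* sec. 5  `pvkyrN ε Wn Nice M F` = the irregular states of record of a special link;   **`pvkyr_geo_link`**, **`pvkyr_geo_up`** (`(pvhbUp ε).P = 0`: free in `G ε`);   `pvkyr_mem_spl_R`;   **`pvkyr_agree`** (concrete form);
          **`PvkyrIrr C Wn Y y₀ σ σ' Nice M F`** = (PI) THE DEBT OF THE MODEL;   **`PvkyrIrr.agree`**.
* sec. 6  `PvkyrSame ε C yf e ω ω'` (a.e. seed: same success, same value), `.refl .symm .trans .own .big`;   **`PvkyAg.pvkyr_base`**, **`PvkyChain.pvkyr_base`** (SAME funnels, SAME constants at the base `ω'`), `PvkyAg.pvkyr_K`,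
          **`PvkyrSame.K_eq`** (= `yh_stab` for `κ_out`, `κ_in`), **`PvkyiGd.pvkyr_base`** (the clause `Gd` reads the geometry and the relevant colours only), `PvueWin.pvkyr_sites`.
* sec. 7  `PvkyrSoft ε e Wn M F` (form of `Tr/InstL` v2.1), `.mA .mX .rA .rX`, **`PvkyrSoft.same`**;   **`pvkyr_chain`** : `∃ fo fi, ∀ ω' ∈ 𝔅, PvkyChain .. ω' .. fo fi ..`.
RECORD.   `Tr/Blind` of 141 (`pvbqGen`, `PvbqPlain`, `PvbqBlind`, `PvbqEnd`, `PvkyChain.pvbq_all`) landed first: IT IS OF RECORD for (Y-STAB);   sec. 1-7 = a twin in the names of `Tr/ChainI`.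
* sec. 8  **POCKETS** (flag of 170, N1-A (4)), IN THE NAMES OF `Tr/Blind`.      `e.y ω ⊆ yf ω` is FALSE at `yf := i.Nᶜ`, `e.y := mouth \ F` (a fresh site of the mouth may lie in `i.N`).      CURE: NOTHING MOVES in the chain, in the ends, in `κ_out κ_in`:
          the record `PvkyChain` lives in the SMALL experiment (fresh sites of the two mouths: `ysub` true), the big experiment enters ONLY through the clause `enl` of `PvjbIn`, and `enl` needs blindness at the SMALLER set `y₀ := e.y \ i.N`: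
          `PvbqBlind.pvkyr_mono`, `PvbqPlain.pvkyr_mono` (blind at `y₀` ⟹ blind at every larger set), **`pvkyr_end_pk`** (ONE plain debt `PvbqPlain` at `y₀` ⟹ `PvbqEnd` AND `PvbqBlind` at `y₀`),
          **`PvkyChain.pvkyr_enl`** (= `enl`, fresh sets `yf yf'` not comparable), **`PvkyChain.pvkyr_jb`** (= `chain` and `enl` of `PvjbIn` at one datum).
-/

set_option autoImplicit false
set_option linter.unusedSectionVars false

namespace Claimed.Agent.R289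

open MeasureTheory ProbabilityTheory Set Filter Topology Claims.C0465
open scoped ENNReal

/-! ## 1. regular states of a window -/

section gen

variable {E : Type*} [MeasurableSpace E] {m : Measure E} {μ : Measure (Conf E)} {W : Set E}

/-- **THE REGULAR STATES OF THE WINDOW `W` FOR THE (NULL) SET `D`**: given the state on `W`, the completion a.s. avoids `D` -/
def pvkyrReg (μ : Measure (Conf E)) (W : Set E) (D : Set (Conf E)) : Set (Conf E) := {σ | pvtiP μ W (toMeasurable μ D) σ = 0}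

theorem pvkyr_reg_measurable [SFinite μ] (hW : MeasurableSet W) (D : Set (Conf E)) : MeasurableSet (pvkyrReg μ W D) :=
  pvti_P_measurable hW (measurableSet_toMeasurable μ D) (measurableSet_singleton 0)

theorem pvkyr_reg_reads (μ : Measure (Conf E)) (W : Set E) (D : Set (Conf E)) : Conf.Reads W (fun η => η ∈ pvkyrReg μ W D) := fun η => by
  show (pvtiP μ W (toMeasurable μ D) (Conf.restr W η) = 0) = (pvtiP μ W (toMeasurable μ D) η = 0)
  rw [pvti_P_reads μ W _ η]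

/-- conditional probability zero of a measurable event -/
theorem pvkyr_P_zero (hW : MeasurableSet W) {S : Set (Conf E)} (hS : MeasurableSet S) {σ : Conf E} (h : pvtiP μ W S σ = 0) : ∀ᵐ ξ ∂μ, Conf.spl W (σ, ξ) ∉ S := by
  unfold pvtiP at h
  have hm : Measurable fun ξ => S.indicator (1 : Conf E → ℝ≥0∞) (Conf.spl W (σ, ξ)) := (measurable_one.indicator hS).comp (pvsu_sec_measurable hW σ)
  filter_upwards [(lintegral_eq_zero_iff hm).1 h] with ξ hξ hc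
  rw [Set.indicator_of_mem hc] at hξ
  exact one_ne_zero hξ

/-- conditional probability one of a measurable event -/
theorem pvkyr_P_one [IsProbabilityMeasure μ] (hW : MeasurableSet W) {S : Set (Conf E)} (hS : MeasurableSet S) {σ : Conf E} (h : pvtiP μ W S σ = 1) : ∀ᵐ ξ ∂μ, Conf.spl W (σ, ξ) ∈ S := by
  have e := pvsu_P_compl (μ := μ) hW hS σ
  rw [h] at e
  have e0 : pvtiP μ W Sᶜ σ = 0 := (ENNReal.add_right_inj (a := 1) ENNReal.one_ne_top).1 (e.trans (add_zero 1).symm)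
  filter_upwards [pvkyr_P_zero hW hS.compl e0] with ξ hξ
  exact not_not.1 hξ

/-- what a regular state gives -/
theorem pvkyr_reg_spec (hW : MeasurableSet W) {D : Set (Conf E)} {σ : Conf E} (h : σ ∈ pvkyrReg μ W D) : ∀ᵐ ξ ∂μ, Conf.spl W (σ, ξ) ∉ D := by
  filter_upwards [pvkyr_P_zero hW (measurableSet_toMeasurable μ D) h] with ξ hξ hc
  exact hξ (subset_toMeasurable μ D hc)

/-- almost every state is regular -/
theorem pvkyr_reg_ae (h : IsPpp m μ) (hW : MeasurableSet W) {D : Set (Conf E)} (hD : μ D = 0) : ∀ᵐ σ ∂μ, σ ∈ pvkyrReg μ W D := by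
  have h0 : ∀ᵐ η ∂μ, η ∉ toMeasurable μ D := measure_eq_zero_iff_ae_notMem.1 ((measure_toMeasurable D).trans hD)
  filter_upwards [pvsu_ae_spl h hW h0] with σ hσ
  exact pvsu_P_of_ae_not hσ

theorem pvkyr_reg_null (h : IsPpp m μ) (hW : MeasurableSet W) {D : Set (Conf E)} (hD : μ D = 0) : μ (pvkyrReg μ W D)ᶜ = 0 :=
  measure_eq_zero_iff_ae_notMem.2 ((pvkyr_reg_ae h hW hD).mono fun _ h1 h2 => h2 h1)

/-! ## 2. `Sure` and `Loc` at a regular state are the PLAIN conditional statements -/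

/-- at a state from which the completion a.s. avoids `toMeasurable M \ M`: `Sure` = "the plain event is a.s. sure" -/
theorem pvkyr_sure_iff [IsProbabilityMeasure μ] (hW : MeasurableSet W) {M : Set (Conf E)} {σ : Conf E} (hr : ∀ᵐ ξ ∂μ, Conf.spl W (σ, ξ) ∉ toMeasurable μ M \ M) :
    σ ∈ pvsuSure μ W M ↔ ∀ᵐ ξ ∂μ, Conf.spl W (σ, ξ) ∈ M := by
  constructor
  · intro h
    filter_upwards [pvkyr_P_one hW (measurableSet_toMeasurable μ M) h, hr] with ξ h1 h2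
    by_contra hc
    exact h2 ⟨h1, hc⟩
  · intro h
    exact pvsu_P_of_ae (h.mono fun ξ hξ => subset_toMeasurable μ M hξ)

/-- at a state from which the completion a.s. avoids `{mk G ≠ G}`: `Loc` = the plain conditional mean -/
theorem pvkyr_loc_eq {G : Conf E → ℂ} {σ : Conf E} (hr : ∀ᵐ ξ ∂μ, Conf.spl W (σ, ξ) ∉ {η | pvsuMk μ G η ≠ G η}) :
    pvsuLoc μ W G σ = ∫ ξ, G (Conf.spl W (σ, ξ)) ∂μ := by
  unfold pvsuLoc
  refine integral_congr_ae ?_
  filter_upwards [hr] with ξ hξ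
  exact not_not.1 hξ

/-- the success event of a special link in the form of 7 (D1): the plain event holds and the plain value is the soft value -/
def pvkyrSA (μ : Measure (Conf E)) (W : Set E) (M : Set (Conf E)) (F : Conf E → ℂ) : Set (Conf E) := M ∩ {η | F η = pvsuLoc μ W (M.indicator F) η}

/-- **THE DEFECT SET OF `(M, F)`**: where the measurable versions used by `Sure`, `Loc` differ from the plain objects -/
def pvkyrDef (μ : Measure (Conf E)) (W : Set E) (M : Set (Conf E)) (F : Conf E → ℂ) : Set (Conf E) :=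
  (toMeasurable μ (pvkyrSA μ W M F) \ pvkyrSA μ W M F) ∪ {η | pvsuMk μ (M.indicator F) η ≠ M.indicator F η}

theorem pvkyr_eqns_cite : True := by
  have := @pvkyrReg.eq_1.{0}; have := @pvkyrSA.eq_1.{0}; have := @pvkyrDef.eq_1.{0}
  trivial

theorem pvkyr_SA_null [SFinite μ] (hW : MeasurableSet W) {M : Set (Conf E)} {F : Conf E → ℂ} (hM : NullMeasurableSet M μ) (hF : AEMeasurable (M.indicator F) μ) :
    NullMeasurableSet (pvkyrSA μ W M F) μ := by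
  have e : pvkyrSA μ W M F = M ∩ {η | M.indicator F η = pvsuLoc μ W (M.indicator F) η} := by
    ext η
    simp only [pvkyrSA, mem_inter_iff, mem_ofPred_eq]
    refine and_congr_right fun h => ?_
    rw [Set.indicator_of_mem h]
  rw [e]
  exact hM.inter (nullMeasurableSet_eq_fun hF (pvsu_loc_measurable hW _).aemeasurable)

/-- the defect set is null ([MEAS] of the plain objects) -/
theorem pvkyr_def_null [SFinite μ] (hW : MeasurableSet W) {M : Set (Conf E)} {F : Conf E → ℂ} (hM : NullMeasurableSet M μ) (hF : AEMeasurable (M.indicator F) μ) :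
    μ (pvkyrDef μ W M F) = 0 := by
  refine measure_union_null ?_ ?_
  · have h1 := pvsu_toMeasurable_iff (pvkyr_SA_null hW hM hF)
    exact measure_eq_zero_iff_ae_notMem.2 (h1.mono fun η h2 h3 => h3.2 (h2.1 h3.1))
  · exact measure_eq_zero_iff_ae_notMem.2 ((pvsu_mk_ae hF).mono fun η h2 h3 => h3 h2)

/-! ## 3. transfer between two regular states -/

/-- **IRRELEVANCE, ONE WINDOW**: two states `σ σ'` from which the completion a.s. avoids the defect set, and such that for almost every completion the PLAIN event and (on it) the PLAIN value are the same: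
same soft success, same soft value -/
theorem pvkyr_transfer [IsProbabilityMeasure μ] (hW : MeasurableSet W) {M : Set (Conf E)} {F : Conf E → ℂ} {σ σ' : Conf E}
    (hσ : ∀ᵐ ξ ∂μ, Conf.spl W (σ, ξ) ∉ pvkyrDef μ W M F) (hσ' : ∀ᵐ ξ ∂μ, Conf.spl W (σ', ξ) ∉ pvkyrDef μ W M F)
    (pi : ∀ᵐ ξ ∂μ, (Conf.spl W (σ, ξ) ∈ M ↔ Conf.spl W (σ', ξ) ∈ M) ∧ (Conf.spl W (σ, ξ) ∈ M → F (Conf.spl W (σ, ξ)) = F (Conf.spl W (σ', ξ)))) :
    (σ ∈ pvsuSure μ W (pvkyrSA μ W M F) ↔ σ' ∈ pvsuSure μ W (pvkyrSA μ W M F)) ∧ pvsuLoc μ W (M.indicator F) σ = pvsuLoc μ W (M.indicator F) σ' := by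
  have eL : pvsuLoc μ W (M.indicator F) σ = pvsuLoc μ W (M.indicator F) σ' := by
    rw [pvkyr_loc_eq (hσ.mono fun ξ h hc => h (Or.inr hc)), pvkyr_loc_eq (hσ'.mono fun ξ h hc => h (Or.inr hc))]
    refine integral_congr_ae ?_
    filter_upwards [pi] with ξ hξ
    by_cases hM : Conf.spl W (σ, ξ) ∈ M
    · rw [Set.indicator_of_mem hM, Set.indicator_of_mem (hξ.1.1 hM), hξ.2 hM]
    · rw [Set.indicator_of_notMem hM, Set.indicator_of_notMem fun hc => hM (hξ.1.2 hc)]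
  refine ⟨?_, eL⟩
  rw [pvkyr_sure_iff hW (hσ.mono fun ξ h hc => h (Or.inl hc)), pvkyr_sure_iff hW (hσ'.mono fun ξ h hc => h (Or.inl hc))]
  have key : ∀ᵐ ξ ∂μ, (Conf.spl W (σ, ξ) ∈ pvkyrSA μ W M F ↔ Conf.spl W (σ', ξ) ∈ pvkyrSA μ W M F) := by
    filter_upwards [pi] with ξ hξ
    have r1 : pvsuLoc μ W (M.indicator F) (Conf.spl W (σ, ξ)) = pvsuLoc μ W (M.indicator F) σ := (pvsu_loc_reads μ W _).spl_left subset_rfl σ ξ
    have r2 : pvsuLoc μ W (M.indicator F) (Conf.spl W (σ', ξ)) = pvsuLoc μ W (M.indicator F) σ' := (pvsu_loc_reads μ W _).spl_left subset_rfl σ' ξ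
    simp only [pvkyrSA, mem_inter_iff, mem_ofPred_eq, r1, r2]
    constructor
    · rintro ⟨h1, h2⟩
      exact ⟨hξ.1.1 h1, by rw [← hξ.2 h1, h2, eL]⟩
    · rintro ⟨h1, h2⟩
      exact ⟨hξ.1.2 h1, by rw [hξ.2 (hξ.1.2 h1), h2, eL]⟩
  exact ⟨fun h => by filter_upwards [h, key] with ξ h1 h2 using h2.1 h1, fun h => by filter_upwards [h, key] with ξ h1 h2 using h2.2 h1⟩

end gen

/-! ## 4. regular geometries -/

section geo

variable {ε : ℝ} {C Wn : Set ℂ} {N : Set (Conf PvPt)} {Y Y' : Set ℂ}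

/-- **a null event read in a bounded window is avoided, at almost every geometry, by ALL the colourings** (finitely many colours are read, each colouring of them has positive probability) -/
theorem pvkyr_null_sites (ε : ℝ) {O : Set ℂ} (hO : Bornology.IsBounded O) {𝒜 : Set (Conf PvPt)} (h : Conf.Reads (O ×ˢ univ) fun η => η ∈ 𝒜) (h0 : pvP ε 𝒜 = 0) :
    ∀ᵐ g ∂(pvGeo ε), ∀ σ : ℂ → Bool, cfOf (pvgSites g) σ ∉ 𝒜 := by
  have h1 : ∀ᵐ η ∂(pvP ε), η ∉ 𝒜 := measure_eq_zero_iff_ae_notMem.1 h0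
  have hr : ∀ η, Conf.restr (O ×ˢ univ) η ∈ 𝒜 ↔ η ∈ 𝒜 := fun η => iff_of_eq (h η)
  filter_upwards [pvqu_Qc_ae ε h1, pvqu_ok_ae ε] with g hg ok σ hσ
  have hV : (((ok.sites_finite hO).toFinset : Finset ℂ) : Set ℂ) = pvgSites g ∩ O := Set.Finite.coe_toFinset _
  have e := pvqu_loc_sites hr ok hV
  have z : pvQc 𝒜 g = 0 := by
    rw [pvqu_Qc_eq]
    exact measure_eq_zero_iff_ae_notMem.2 hg
  rw [z, pvqu_bits_apply] at e
  have hc : ({x : (ok.sites_finite hO).toFinset → Bool | cfOf (pvgSites g) (cfExt (ok.sites_finite hO).toFinset x) ∈ 𝒜}.ncard : ℝ≥0∞) = 0 := by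
    rcases mul_eq_zero.1 e.symm with h2 | h2
    · exact h2
    · exact absurd h2 (pow_ne_zero _ (ENNReal.inv_ne_zero.2 ENNReal.ofNat_ne_top))
  have hc' : {x : (ok.sites_finite hO).toFinset → Bool | cfOf (pvgSites g) (cfExt (ok.sites_finite hO).toFinset x) ∈ 𝒜} = ∅ :=
    (Set.ncard_eq_zero (Set.toFinite _)).1 (by exact_mod_cast hc)
  have hx : (fun v : (ok.sites_finite hO).toFinset => σ v) ∈ {x : (ok.sites_finite hO).toFinset → Bool | cfOf (pvgSites g) (cfExt (ok.sites_finite hO).toFinset x) ∈ 𝒜} := by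
    show cfOf (pvgSites g) (cfExt (ok.sites_finite hO).toFinset fun v => σ v) ∈ 𝒜
    rw [← hr] at hσ ⊢
    have e2 : Conf.restr (O ×ˢ univ) (cfOf (pvgSites g) (cfExt (ok.sites_finite hO).toFinset fun v => σ v)) = Conf.restr (O ×ˢ univ) (cfOf (pvgSites g) σ) := by
      refine cfOf_restr_congr fun v hv => ?_
      have hvV : v ∈ (ok.sites_finite hO).toFinset := (ok.sites_finite hO).mem_toFinset.2 hv
      unfold cfExt
      rw [dif_pos hvV]
    rw [e2]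
    exact hσ
  rw [hc'] at hx
  exact hx

/-- the kept states from which the resampling of `C` hits `N` with positive probability -/
def pvkyrBad (ε : ℝ) (C : Set ℂ) (N : Set (Conf PvPt)) : Set (Conf PvPt) := {η | ¬ ∀ᵐ ω₂ ∂pvP ε, Conf.spl (Cᶜ ×ˢ univ) (η, ω₂) ∉ N}

/-- **A REGULAR GEOMETRY** for the resampled region `C` and the (null) set `N`: whatever the colours of the sites, the resampling of `C` a.s. avoids `N`.      No colour;   reads `Y \ C` only (`PvkyrGeo.congr`) -/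
def PvkyrGeo (ε : ℝ) (C : Set ℂ) (N : Set (Conf PvPt)) (Y : Set ℂ) : Prop := ∀ σ : ℂ → Bool, ∀ᵐ ω₂ ∂pvP ε, Conf.spl (Cᶜ ×ˢ univ) (cfOf Y σ, ω₂) ∉ N

theorem pvkyr_eqns_cite2 : True := by
  have := @pvkyrBad.eq_1; have := @PvkyrGeo.eq_1
  trivial

theorem pvkyr_restr_spl_restr (C Wn : Set ℂ) (η ω₂ : Conf PvPt) :
    Conf.restr (Wn ×ˢ univ) (Conf.spl (Cᶜ ×ˢ univ) (Conf.restr (Wn ×ˢ univ) η, ω₂)) = Conf.restr (Wn ×ˢ univ) (Conf.spl (Cᶜ ×ˢ univ) (η, ω₂)) := by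
  ext p
  simp only [Conf.restr, Conf.spl, Conf.union, mem_inter_iff, mem_union, mem_prod, mem_univ, and_true, mem_compl_iff]
  tauto

theorem pvkyr_bad_reads (ε : ℝ) (C : Set ℂ) (rN : Conf.Reads (Wn ×ˢ univ) fun η => η ∈ N) : Conf.Reads (Wn ×ˢ univ) fun η => η ∈ pvkyrBad ε C N := fun η => by
  have e : ∀ ω₂, (Conf.spl (Cᶜ ×ˢ univ) (Conf.restr (Wn ×ˢ univ) η, ω₂) ∈ N) = (Conf.spl (Cᶜ ×ˢ univ) (η, ω₂) ∈ N) := fun ω₂ => rN.congr (pvkyr_restr_spl_restr C Wn η ω₂)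
  show (¬ ∀ᵐ ω₂ ∂pvP ε, Conf.spl (Cᶜ ×ˢ univ) (Conf.restr (Wn ×ˢ univ) η, ω₂) ∉ N) = (¬ ∀ᵐ ω₂ ∂pvP ε, Conf.spl (Cᶜ ×ˢ univ) (η, ω₂) ∉ N)
  simp_rw [e]

theorem pvkyr_bad_null (ε : ℝ) (hC : MeasurableSet C) (hN : pvP ε N = 0) : pvP ε (pvkyrBad ε C N) = 0 := by
  have h0 : ∀ᵐ η ∂(pvP ε), η ∉ N := measure_eq_zero_iff_ae_notMem.1 hN
  exact measure_eq_zero_iff_ae_notMem.2 ((pvsu_ae_spl (pv_isPpp ε) (hC.compl.prod MeasurableSet.univ) h0).mono fun η h1 h2 => h2 h1)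

/-- **(NA) ALMOST EVERY GEOMETRY IS REGULAR**: `N` null, read in a bounded window -/
theorem pvkyr_geo_ae (ε : ℝ) (hC : MeasurableSet C) (hW : Bornology.IsBounded Wn) (rN : Conf.Reads (Wn ×ˢ univ) fun η => η ∈ N) (hN : pvP ε N = 0) :
    ∀ᵐ g ∂(pvGeo ε), PvkyrGeo ε C N (pvgSites g) := by
  filter_upwards [pvkyr_null_sites ε hW (pvkyr_bad_reads ε C rN) (pvkyr_bad_null ε hC hN)] with g hg σ
  exact not_not.1 (hg σ)

/-- the same on the samples -/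
theorem pvkyr_geo_ae_law (ε : ℝ) (hC : MeasurableSet C) (hW : Bornology.IsBounded Wn) (rN : Conf.Reads (Wn ×ˢ univ) fun η => η ∈ N) (hN : pvP ε N = 0) :
    ∀ᵐ ω ∂(pvLaw ε), PvkyrGeo ε C N (cfSites (pvConf ω)) := by
  filter_upwards [pvqu_ae_geo ε (pvkyr_geo_ae ε hC hW rN hN)] with ω hω
  rw [← pvqu_merge_of ω, pvqu_cfSites]
  exact hω

/-- a regular geometry reads the sites off `C` only: the clause is invariant under the resampling of `C` (field `rd` of `PvxnOk`) -/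
theorem PvkyrGeo.congr (h : Y \ C = Y' \ C) : PvkyrGeo ε C N Y ↔ PvkyrGeo ε C N Y' := by
  have e : ∀ (σ : ℂ → Bool) (ω₂ : Conf PvPt), Conf.spl (Cᶜ ×ˢ univ) (cfOf Y σ, ω₂) = Conf.spl (Cᶜ ×ˢ univ) (cfOf Y' σ, ω₂) := by
    intro σ ω₂
    ext p
    have h1 : p.1 ∉ C → (p.1 ∈ Y ↔ p.1 ∈ Y') := fun hp => by
      have h2 : p.1 ∈ Y \ C ↔ p.1 ∈ Y' \ C := by rw [h]
      simpa [hp] using h2
    simp only [Conf.restr, Conf.spl, Conf.union, cfOf, mem_inter_iff, mem_union, mem_prod, mem_univ, and_true, mem_compl_iff, mem_ofPred_eq]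
    by_cases hp : p.1 ∈ C
    · simp [hp]
    · simp [hp, h1 hp]
  unfold PvkyrGeo
  simp_rw [e]

theorem PvkyrGeo.spl (h : PvkyrGeo ε C N Y) (ω₂ : Conf PvPt) : PvkyrGeo ε C N (Y \ C ∪ cfSites ω₂ ∩ C) :=
  (PvkyrGeo.congr (by ext v; simp only [Set.mem_sdiff, mem_union, mem_inter_iff]; tauto)).1 h

theorem PvkyrGeo.mono {N' : Set (Conf PvPt)} (h : PvkyrGeo ε C N Y) (hN : N' ⊆ N) : PvkyrGeo ε C N' Y := fun σ => (h σ).mono fun _ h1 h2 => h1 (hN h2)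

theorem PvkyrGeo.union {N' : Set (Conf PvPt)} (h : PvkyrGeo ε C N Y) (h' : PvkyrGeo ε C N' Y) : PvkyrGeo ε C (N ∪ N') Y := fun σ => by
  filter_upwards [h σ, h' σ] with ω₂ h1 h2 h3
  exact h3.elim h1 h2

/-- along the experiment at a regular geometry: almost every seed avoids `N` -/
theorem PvkyrGeo.ae_R (h : PvkyrGeo ε C N Y) (hC : MeasurableSet C) (hY : Y.Countable) (mN : MeasurableSet N) (yf : Conf PvPt → Set ℂ) (σ : ℂ → Bool) :
    ∀ᵐ p ∂pvdyNu ε, pvdyR C yf (cfOf Y σ) p ∉ N := by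
  have := (pv_isPpp ε).prob
  have hc : (cfSites (cfOf Y σ)).Countable := by rw [cfOf_sites]; exact hY
  have ms : MeasurableSet {p | pvdyR C yf (cfOf Y σ) p ∉ N} := (pvdy_measurable_R hC yf hc) mN.compl
  unfold pvdyNu
  refine (Measure.ae_prod_mem_iff_ae_ae_mem ms).2 (Eventually.of_forall fun κ => ?_)
  filter_upwards [h (pvfqMix (yf (cfOf Y σ)) (κ, σ))] with ω₂ h2
  show pvdyR C yf (cfOf Y σ) (κ, ω₂) ∉ N
  rw [pvdy_R_cfOf]
  exact h2

end geo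

/-! ## 5. irrelevance of the kept colours which the plain objects do not read: a.e. seed agreement of two bases -/

section agree

variable {ε : ℝ} {C Wn Y : Set ℂ} {M Nice : Set (Conf PvPt)} {F : Conf PvPt → ℂ} {yf : Conf PvPt → Set ℂ} {σ σ' : ℂ → Bool}

/-- **THE IRREGULAR STATES OF RECORD OF A SPECIAL LINK** `(Wn, M, F)`: given the state on the window, with positive probability the completion is not nice or lies in the defect set -/
def pvkyrN (ε : ℝ) (Wn : Set ℂ) (Nice M : Set (Conf PvPt)) (F : Conf PvPt → ℂ) : Set (Conf PvPt) :=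
  (pvkyrReg (pvP ε) (Wn ×ˢ univ) (Niceᶜ ∪ pvkyrDef (pvP ε) (Wn ×ˢ univ) M F))ᶜ

theorem pvkyr_N_measurable (ε : ℝ) (hW : MeasurableSet Wn) (Nice M : Set (Conf PvPt)) (F : Conf PvPt → ℂ) : MeasurableSet (pvkyrN ε Wn Nice M F) := by
  have := (pv_isPpp ε).prob
  exact (pvkyr_reg_measurable (hW.prod MeasurableSet.univ) _).compl

theorem pvkyr_N_reads (ε : ℝ) (Wn : Set ℂ) (Nice M : Set (Conf PvPt)) (F : Conf PvPt → ℂ) : Conf.Reads (Wn ×ˢ univ) fun η => η ∈ pvkyrN ε Wn Nice M F := fun η =>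
  congrArg Not (pvkyr_reg_reads (pvP ε) (Wn ×ˢ univ) _ η)

theorem pvkyr_N_null (ε : ℝ) (hW : MeasurableSet Wn) (hN : ∀ᵐ η ∂(pvP ε), η ∈ Nice) (hM : NullMeasurableSet M (pvP ε)) (hF : AEMeasurable (M.indicator F) (pvP ε)) :
    pvP ε (pvkyrN ε Wn Nice M F) = 0 := by
  have := (pv_isPpp ε).prob
  refine pvkyr_reg_null (pv_isPpp ε) (hW.prod MeasurableSet.univ) (measure_union_null ?_ (pvkyr_def_null (hW.prod MeasurableSet.univ) hM hF))
  exact measure_eq_zero_iff_ae_notMem.2 (hN.mono fun η h1 h2 => h2 h1)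

/-- **ALMOST EVERY GEOMETRY IS REGULAR FOR A SPECIAL LINK**: bounded Borel window, `Nice` a.s., [MEAS] of the plain event and of the plain value -/
theorem pvkyr_geo_link (ε : ℝ) (hC : MeasurableSet C) (hW : MeasurableSet Wn) (bW : Bornology.IsBounded Wn) (hN : ∀ᵐ η ∂(pvP ε), η ∈ Nice) (hM : NullMeasurableSet M (pvP ε))
    (hF : AEMeasurable (M.indicator F) (pvP ε)) : ∀ᵐ g ∂(pvGeo ε), PvkyrGeo ε C (pvkyrN ε Wn Nice M F) (pvgSites g) :=
  pvkyr_geo_ae ε hC bW (pvkyr_N_reads ε Wn Nice M F) (pvkyr_N_null ε hW hN hM hF)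

/-- the irregular geometries cost nothing in the bad event `G ε` of `PvxnOk` (field `geo`) -/
theorem pvkyr_geo_up (ε : ℝ) (hC : MeasurableSet C) (hW : MeasurableSet Wn) (bW : Bornology.IsBounded Wn) (hN : ∀ᵐ η ∂(pvP ε), η ∈ Nice) (hM : NullMeasurableSet M (pvP ε))
    (hF : AEMeasurable (M.indicator F) (pvP ε)) : (pvhbUp ε).P {q | ¬ PvkyrGeo ε C (pvkyrN ε Wn Nice M F) (cfSites (pvConf (pvMerge q)))} = 0 := by
  have e : {q : PvGeoT × PvColT | ¬ PvkyrGeo ε C (pvkyrN ε Wn Nice M F) (cfSites (pvConf (pvMerge q)))} = {q | q.1 ∈ {g | ¬ PvkyrGeo ε C (pvkyrN ε Wn Nice M F) (pvgSites g)}} := by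
    ext ⟨g, c⟩
    simp only [mem_ofPred_eq, pvqu_cfSites]
  rw [e]
  exact le_antisymm ((pvhb_up_P_geo ε _).trans (le_of_eq (ae_iff.1 (pvkyr_geo_link ε hC hW bW hN hM hF)))) zero_le

/-- what a state off `pvkyrN` gives -/
theorem pvkyr_N_spec (hW : MeasurableSet Wn) {η : Conf PvPt} (h : η ∉ pvkyrN ε Wn Nice M F) :
    ∀ᵐ ξ ∂(pvP ε), Conf.spl (Wn ×ˢ univ) (η, ξ) ∈ Nice ∧ Conf.spl (Wn ×ˢ univ) (η, ξ) ∉ pvkyrDef (pvP ε) (Wn ×ˢ univ) M F := by
  filter_upwards [pvkyr_reg_spec (hW.prod MeasurableSet.univ) (not_not.1 h)] with ξ hξ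
  exact ⟨by_contra fun hc => hξ (Or.inl hc), fun hc => hξ (Or.inr hc)⟩

/-- the completed experiment, point by point -/
theorem pvkyr_mem_spl_R {p : (ℂ → Bool) × Conf PvPt} {ξ : Conf PvPt} {x : PvPt} : x ∈ (Conf.spl (Wn ×ˢ univ) (pvdyR C yf (cfOf Y σ) p, ξ)).pts ↔
    (x.1 ∈ Wn ∧ ((x.1 ∉ C ∧ x.1 ∈ Y ∧ x.2 = pvfqMix (yf (cfOf Y σ)) (p.1, σ) x.1) ∨ (x.1 ∈ C ∧ x ∈ p.2.pts))) ∨ (x.1 ∉ Wn ∧ x ∈ ξ.pts) := by
  obtain ⟨κ, ω₂⟩ := p
  rw [pvdy_R_cfOf]
  simp only [Conf.restr, Conf.spl, Conf.union, cfOf, mem_inter_iff, mem_union, mem_prod, mem_univ, and_true, mem_compl_iff, mem_ofPred_eq, not_not]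
  tauto

/-- **IRRELEVANCE ALONG THE EXPERIMENT**, concrete form.      `Y` regular;   `pi`: for every seed and every completion such that the two completed experiments (bases `σ`, `σ'`) are nice, the PLAIN event and, on it, the PLAIN value are the same.
Then for ALMOST EVERY seed the soft success and the soft value are the same at the two bases. -/
theorem pvkyr_agree (hC : MeasurableSet C) (hW : MeasurableSet Wn) (hY : Y.Countable) (hg : PvkyrGeo ε C (pvkyrN ε Wn Nice M F) Y)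
    (pi : ∀ (p : (ℂ → Bool) × Conf PvPt) (ξ : Conf PvPt), Conf.spl (Wn ×ˢ univ) (pvdyR C yf (cfOf Y σ) p, ξ) ∈ Nice → Conf.spl (Wn ×ˢ univ) (pvdyR C yf (cfOf Y σ') p, ξ) ∈ Nice →
      (Conf.spl (Wn ×ˢ univ) (pvdyR C yf (cfOf Y σ) p, ξ) ∈ M ↔ Conf.spl (Wn ×ˢ univ) (pvdyR C yf (cfOf Y σ') p, ξ) ∈ M) ∧
      (Conf.spl (Wn ×ˢ univ) (pvdyR C yf (cfOf Y σ) p, ξ) ∈ M → F (Conf.spl (Wn ×ˢ univ) (pvdyR C yf (cfOf Y σ) p, ξ)) = F (Conf.spl (Wn ×ˢ univ) (pvdyR C yf (cfOf Y σ') p, ξ)))) :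
    ∀ᵐ p ∂pvdyNu ε, (pvdyR C yf (cfOf Y σ) p ∈ pvsuSure (pvP ε) (Wn ×ˢ univ) (pvkyrSA (pvP ε) (Wn ×ˢ univ) M F) ↔
        pvdyR C yf (cfOf Y σ') p ∈ pvsuSure (pvP ε) (Wn ×ˢ univ) (pvkyrSA (pvP ε) (Wn ×ˢ univ) M F)) ∧
      pvsuLoc (pvP ε) (Wn ×ˢ univ) (M.indicator F) (pvdyR C yf (cfOf Y σ) p) = pvsuLoc (pvP ε) (Wn ×ˢ univ) (M.indicator F) (pvdyR C yf (cfOf Y σ') p) := by
  have := (pv_isPpp ε).prob
  have mN := pvkyr_N_measurable ε hW Nice M F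
  filter_upwards [hg.ae_R hC hY mN yf σ, hg.ae_R hC hY mN yf σ'] with p h1 h2
  have s1 := pvkyr_N_spec hW h1
  have s2 := pvkyr_N_spec hW h2
  refine pvkyr_transfer (hW.prod MeasurableSet.univ) (s1.mono fun _ h => h.2) (s2.mono fun _ h => h.2) ?_
  filter_upwards [s1, s2] with ξ k1 k2
  exact pi p ξ k1.1 k2.1

/-- **(PI) THE DETERMINISTIC DEBT OF THE MODEL**, no measure, no soft object.      `η η'` nice;  they coincide off `Wn \ C`;  on `Wn \ C` they are the geometry `Y` with colourings `τ τ'` which coincide on the fresh set `y₀` and are `σ σ'` off it.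
Then the PLAIN event and, on it, the PLAIN value are the same. -/
def PvkyrIrr (C Wn Y y₀ : Set ℂ) (σ σ' : ℂ → Bool) (Nice M : Set (Conf PvPt)) (F : Conf PvPt → ℂ) : Prop :=
  ∀ (τ τ' : ℂ → Bool) (η η' : Conf PvPt), (∀ v ∈ y₀, τ' v = τ v) → (∀ v, v ∉ y₀ → τ v = σ v ∧ τ' v = σ' v) → η ∈ Nice → η' ∈ Nice →
    Conf.restr ((Wn \ C) ×ˢ univ) η = Conf.restr ((Wn \ C) ×ˢ univ) (cfOf Y τ) → Conf.restr ((Wn \ C) ×ˢ univ) η' = Conf.restr ((Wn \ C) ×ˢ univ) (cfOf Y τ') →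
    Conf.restr ((Wn \ C)ᶜ ×ˢ univ) η = Conf.restr ((Wn \ C)ᶜ ×ˢ univ) η' → (η ∈ M ↔ η' ∈ M) ∧ (η ∈ M → F η = F η')

theorem pvkyr_eqns_cite3 : True := by
  have := @pvkyrN.eq_1; have := @PvkyrIrr.eq_1
  trivial

/-- **IRRELEVANCE ALONG THE EXPERIMENT** from the deterministic debt (PI) -/
theorem PvkyrIrr.agree {y₀ : Set ℂ} (pi : PvkyrIrr C Wn Y y₀ σ σ' Nice M F) (hC : MeasurableSet C) (hW : MeasurableSet Wn) (hY : Y.Countable) (hg : PvkyrGeo ε C (pvkyrN ε Wn Nice M F) Y)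
    (h1 : yf (cfOf Y σ) = y₀) (h2 : yf (cfOf Y σ') = y₀) :
    ∀ᵐ p ∂pvdyNu ε, (pvdyR C yf (cfOf Y σ) p ∈ pvsuSure (pvP ε) (Wn ×ˢ univ) (pvkyrSA (pvP ε) (Wn ×ˢ univ) M F) ↔
        pvdyR C yf (cfOf Y σ') p ∈ pvsuSure (pvP ε) (Wn ×ˢ univ) (pvkyrSA (pvP ε) (Wn ×ˢ univ) M F)) ∧
      pvsuLoc (pvP ε) (Wn ×ˢ univ) (M.indicator F) (pvdyR C yf (cfOf Y σ) p) = pvsuLoc (pvP ε) (Wn ×ˢ univ) (M.indicator F) (pvdyR C yf (cfOf Y σ') p) := by
  refine pvkyr_agree hC hW hY hg fun p ξ n1 n2 => ?_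
  refine pi (pvfqMix y₀ (p.1, σ)) (pvfqMix y₀ (p.1, σ')) _ _ (fun v hv => by rw [pvfqMix_of_mem hv, pvfqMix_of_mem hv])
    (fun v hv => ⟨by rw [pvfqMix_of_notMem hv], by rw [pvfqMix_of_notMem hv]⟩) n1 n2 ?_ ?_ ?_
  · ext x
    have hx : x ∈ (cfOf Y (pvfqMix y₀ (p.1, σ))).pts ↔ x.1 ∈ Y ∧ x.2 = pvfqMix y₀ (p.1, σ) x.1 := Iff.rfl
    simp only [Conf.restr, mem_inter_iff, pvkyr_mem_spl_R, h1, hx, mem_prod, Set.mem_sdiff, mem_univ, and_true]
    tauto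
  · ext x
    have hx : x ∈ (cfOf Y (pvfqMix y₀ (p.1, σ'))).pts ↔ x.1 ∈ Y ∧ x.2 = pvfqMix y₀ (p.1, σ') x.1 := Iff.rfl
    simp only [Conf.restr, mem_inter_iff, pvkyr_mem_spl_R, h2, hx, mem_prod, Set.mem_sdiff, mem_univ, and_true]
    tauto
  · ext x
    simp only [Conf.restr, mem_inter_iff, pvkyr_mem_spl_R, mem_prod, Set.mem_sdiff, mem_univ, and_true, mem_compl_iff, not_and, not_not]
    tauto

end agree

/-! ## 6. change of the base configuration WITH THE SAME FUNNELS -/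

section base

variable {kit : PvthKit} {ε : ℝ} {b : Bool} {X₀ : PvtTurn → Conf PvPt → ℂ} {z d : ℂ} {l : List PvtTurn} {ω ω' ω'' : Conf PvPt} {C : Set ℂ} {yf : Conf PvPt → Set ℂ}
  {e eo ei : PvkyEnd} {f fo fi : PvkeFun ℂ} {β' q qo qi : ℝ≥0∞} {D Wn Wo Wi : Set ℂ}

/-- **the end link `e` does not distinguish the bases `ω ω'` in the experiment `(C, yf)`**: for almost every seed, same success, same value -/
def PvkyrSame (ε : ℝ) (C : Set ℂ) (yf : Conf PvPt → Set ℂ) (e : PvkyEnd) (ω ω' : Conf PvPt) : Prop :=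
  ∀ᵐ p ∂pvdyNu ε, (pvdyR C yf ω p ∈ e.A ↔ pvdyR C yf ω' p ∈ e.A) ∧ e.X (pvdyR C yf ω p) = e.X (pvdyR C yf ω' p)

theorem pvkyr_eqns_cite4 : True := by
  have := @PvkyrSame.eq_1
  trivial

theorem PvkyrSame.refl (ε : ℝ) (C : Set ℂ) (yf : Conf PvPt → Set ℂ) (e : PvkyEnd) (ω : Conf PvPt) : PvkyrSame ε C yf e ω ω := Eventually.of_forall fun _ => ⟨Iff.rfl, rfl⟩

theorem PvkyrSame.symm (h : PvkyrSame ε C yf e ω ω') : PvkyrSame ε C yf e ω' ω := h.mono fun _ hp => ⟨hp.1.symm, hp.2.symm⟩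

theorem PvkyrSame.trans (h : PvkyrSame ε C yf e ω ω') (h' : PvkyrSame ε C yf e ω' ω'') : PvkyrSame ε C yf e ω ω'' := by
  filter_upwards [h, h'] with p h1 h2
  exact ⟨h1.1.trans h2.1, h1.2.trans h2.2⟩

/-- from the experiment of the chain to the OWN experiment of a window end (same seeds) -/
theorem PvkyrSame.own (h : PvkyrSame ε C yf e ω ω') (w : PvueWin ω C yf e D Wn) (w' : PvueWin ω' C yf e D Wn) : PvkyrSame ε (e.K ∪ D) e.y e ω ω' := by
  filter_upwards [h] with p hp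
  have a1 : (pvdyR C yf ω p ∈ e.A) = (pvdyR (e.K ∪ D) e.y ω p ∈ e.A) := w.pvkyi_own w.rA p
  have a2 : (pvdyR C yf ω' p ∈ e.A) = (pvdyR (e.K ∪ D) e.y ω' p ∈ e.A) := w'.pvkyi_own w'.rA p
  rw [← w.pvkyi_own w.rX p, ← w'.pvkyi_own w'.rX p, ← a1, ← a2]
  exact hp

/-- from the OWN experiment of a window end to the experiment of the chain -/
theorem PvkyrSame.big (h : PvkyrSame ε (e.K ∪ D) e.y e ω ω') (w : PvueWin ω C yf e D Wn) (w' : PvueWin ω' C yf e D Wn) : PvkyrSame ε C yf e ω ω' := by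
  filter_upwards [h] with p hp
  have a1 : (pvdyR C yf ω p ∈ e.A) = (pvdyR (e.K ∪ D) e.y ω p ∈ e.A) := w.pvkyi_own w.rA p
  have a2 : (pvdyR C yf ω' p ∈ e.A) = (pvdyR (e.K ∪ D) e.y ω' p ∈ e.A) := w'.pvkyi_own w'.rA p
  rw [w.pvkyi_own w.rX p, w'.pvkyi_own w'.rX p, a1, a2]
  exact hp

/-- **(B) a funnel which represents the end link at the base `ω` represents it at every base which the end link does not distinguish from `ω`** -/
theorem PvkyAg.pvkyr_base (h : PvkyAg ε b ω C yf e f) (cst : ∀ η, e.y η = e.y ω) (ysub : e.y ω ⊆ yf ω') (hs : PvkyrSame ε C yf e ω ω') : PvkyAg ε b ω' C yf e f where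
  U_eq := by rw [h.U_eq, cst ω']
  K_eq := h.K_eq
  sub := h.sub
  ysub := by rw [cst ω']; exact ysub
  yC := by rw [cst ω']; exact h.yC
  ae := by
    have hs' : ∀ᵐ x ∂(pvkeLaw ℂ (pvP ε)), (pvdyR C yf ω (pvkyT b x) ∈ e.A ↔ pvdyR C yf ω' (pvkyT b x) ∈ e.A) ∧ e.X (pvdyR C yf ω (pvkyT b x)) = e.X (pvdyR C yf ω' (pvkyT b x)) :=
      pvky_ae_T b ε (p := fun p => (pvdyR C yf ω p ∈ e.A ↔ pvdyR C yf ω' p ∈ e.A) ∧ e.X (pvdyR C yf ω p) = e.X (pvdyR C yf ω' p)) hs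
    filter_upwards [h.ae, hs'] with x hx hx'
    exact ⟨hx'.1.symm.trans hx.1, hx'.2.symm.trans hx.2.1, fun v _ _ => by rw [cst, cst ω']⟩

/-- **(B) THE CHAIN RECORD AT ANOTHER BASE, SAME FUNNELS, SAME CONSTANTS** -/
theorem PvkyChain.pvkyr_base (H : PvkyChain kit ε b X₀ z d l ω C yf eo ei fo fi β' q qo qi)
    (wo : PvueWin ω C yf eo (pvkyDoor kit z d) Wo) (wo' : PvueWin ω' C yf eo (pvkyDoor kit z d) Wo)
    (wi : PvueWin ω C yf ei (pvkyDoor kit (pvthZ kit.δ z d l l.length) (pvthD d l l.length)) Wi)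
    (wi' : PvueWin ω' C yf ei (pvkyDoor kit (pvthZ kit.δ z d l l.length) (pvthD d l l.length)) Wi)
    (so : PvkyrSame ε C yf eo ω ω') (si : PvkyrSame ε C yf ei ω ω') : PvkyChain kit ε b X₀ z d l ω' C yf eo ei fo fi β' q qo qi where
  ch := H.ch
  CO := H.CO
  CK := H.CK
  ag_o := H.ag_o.pvkyr_base wo.cst (by rw [← wo.cst ω']; exact wo'.ysub) so
  ag_i := H.ag_i.pvkyr_base wi.cst (by rw [← wi.cst ω']; exact wi'.ysub) si
  loc_o := H.loc_o.pvkyr_base wo.cst (by rw [wo.cst ω']) (so.own wo wo')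
  loc_i := H.loc_i.pvkyr_base wi.cst (by rw [wi.cst ω']) (si.own wi wi')

/-- `κ_out`, `κ_in` of ruling 10bis = the mean of ANY funnel which represents the end link in its own experiment -/
theorem PvkyAg.pvkyr_K (h : PvkyAg ε b ω (e.K ∪ pvkyDoor kit z d) e.y e f) (hk : kit.WF) (hd : d ≠ 0) (mK : MeasurableSet f.K) (mA : MeasurableSet f.A) :
    pvkyK kit ε b e z d ω = f.k kit (pvP ε) z d := by
  unfold pvkyK PvkeFun.k
  refine pvky_hat_of_ae b ε _ _ ω ?_ (h.ae.mono fun _ h => h.2.1)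
  filter_upwards [h.W_ae mK mA] with x hx
  unfold pvkyW1
  have hs : kit.O z d ⊆ (e.K ∪ pvkyDoor kit z d) ×ˢ univ := prod_mono subset_union_right subset_rfl
  rw [hx, pvky_reads_phi (pvth_g_reads hk (pvP ε) z d hd) hs x]

/-- **(Y-STAB) `κ_out`, `κ_in` ARE THE SAME AT TWO BASES WHICH THE END LINK DOES NOT DISTINGUISH** -/
theorem PvkyrSame.K_eq (hs : PvkyrSame ε C yf e ω ω') (hk : kit.WF) (hd : d ≠ 0) (b : Bool) (w : PvueWin ω C yf e (pvkyDoor kit z d) Wn) (w' : PvueWin ω' C yf e (pvkyDoor kit z d) Wn) :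
    pvkyK kit ε b e z d ω' = pvkyK kit ε b e z d ω := by
  have ok : (pvkyFun b C yf ω e).Ok (pvkyDoor kit z d ×ˢ univ) := (w.rd b).ok
  have a : PvkyAg ε b ω (e.K ∪ pvkyDoor kit z d) e.y e (pvkyFun b C yf ω e) := (w.rd b).loc ε
  have a' : PvkyAg ε b ω' (e.K ∪ pvkyDoor kit z d) e.y e (pvkyFun b C yf ω e) := a.pvkyr_base w.cst (by rw [w.cst ω']) (hs.own w w')
  rw [a.pvkyr_K hk hd ok.mK ok.mA, a'.pvkyr_K hk hd ok.mK ok.mA]

/-- **the good bases of an end link are stable**: `PvkyiGd` passes to every base which the end link does not distinguish -/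
theorem PvkyiGd.pvkyr_base (g : PvkyiGd kit ε b e z d q ω) (hk : kit.WF) (hd : d ≠ 0) (w : PvueWin ω C yf e (pvkyDoor kit z d) Wn) (w' : PvueWin ω' C yf e (pvkyDoor kit z d) Wn)
    (hs : PvkyrSame ε C yf e ω ω') : PvkyiGd kit ε b e z d q ω' where
  frc := by
    have ok : (pvkyFun b C yf ω e).Ok (pvkyDoor kit z d ×ˢ univ) := (w.rd b).ok
    have a : PvkyAg ε b ω (e.K ∪ pvkyDoor kit z d) e.y e (pvkyFun b C yf ω e) := (w.rd b).loc ε
    have a' : PvkyAg ε b ω' (e.K ∪ pvkyDoor kit z d) e.y e (pvkyFun b C yf ω e) := a.pvkyr_base w.cst (by rw [w.cst ω']) (hs.own w w')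
    have hO : kit.O z d ⊆ (e.K ∪ pvkyDoor kit z d) ×ˢ univ := prod_mono subset_union_right subset_rfl
    refine pvky_ae_phi b ε _ _ (P := fun η => pvkyFl b η ∈ kit.G z d → q ≤ pvdyQ ε e.K e.y e.A η) ω' ?_
    have g' : ∀ᵐ x ∂(pvkeLaw ℂ (pvP ε)), pvkyFl b (pvdyR (e.K ∪ pvkyDoor kit z d) e.y ω (pvkyT b x)) ∈ kit.G z d →
        q ≤ pvdyQ ε e.K e.y e.A (pvdyR (e.K ∪ pvkyDoor kit z d) e.y ω (pvkyT b x)) :=
      pvky_ae_T b ε (p := fun p => pvkyFl b (pvdyR (e.K ∪ pvkyDoor kit z d) e.y ω p) ∈ kit.G z d → q ≤ pvdyQ ε e.K e.y e.A (pvdyR (e.K ∪ pvkyDoor kit z d) e.y ω p)) g.frc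
    filter_upwards [g', a.Q_ae ok.mK ok.mA, a'.Q_ae ok.mK ok.mA] with x h1 h2 h3 h4
    have e1 : (pvkyFl b (pvkyPhi b (e.K ∪ pvkyDoor kit z d) e.y ω' x) ∈ kit.G z d) = (x.2 ∈ kit.G z d) := pvky_reads_phi (pvth_rG hk z d hd) hO x
    have e2 : (pvkyFl b (pvkyPhi b (e.K ∪ pvkyDoor kit z d) e.y ω x) ∈ kit.G z d) = (x.2 ∈ kit.G z d) := pvky_reads_phi (pvth_rG hk z d hd) hO x
    rw [h3, ← h2]
    exact h1 (e2 ▸ (e1 ▸ h4))
  sq := by
    have e1 : ∫⁻ p, ‖e.X (pvdyR (e.K ∪ pvkyDoor kit z d) e.y ω' p)‖ₑ ^ 2 * e.A.indicator 1 (pvdyR (e.K ∪ pvkyDoor kit z d) e.y ω' p) ∂pvdyNu ε =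
        ∫⁻ p, ‖e.X (pvdyR (e.K ∪ pvkyDoor kit z d) e.y ω p)‖ₑ ^ 2 * e.A.indicator 1 (pvdyR (e.K ∪ pvkyDoor kit z d) e.y ω p) ∂pvdyNu ε := by
      refine lintegral_congr_ae ?_
      filter_upwards [hs.own w w'] with p hp
      rw [hp.2]
      congr 1
      by_cases hA : pvdyR (e.K ∪ pvkyDoor kit z d) e.y ω p ∈ e.A
      · rw [indicator_of_mem hA, indicator_of_mem (hp.1.1 hA)]; rfl
      · rw [indicator_of_notMem hA, indicator_of_notMem fun hh => hA (hp.1.2 hh)]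
    rw [e1]
    exact g.sq

/-- a window end sees the base through its sites and through the fresh set only -/
theorem PvueWin.pvkyr_sites (h : PvueWin ω C yf e D Wn) (hs : cfSites ω' = cfSites ω) (hy : yf ω' = yf ω) : PvueWin ω' C yf e D Wn where
  mC := h.mC
  cnt := by rw [hs]; exact h.cnt
  mK := h.mK
  mA := h.mA
  mX := h.mX
  rA := h.rA
  rX := h.rX
  cst := fun η => by rw [h.cst η, h.cst ω']
  sub := h.sub
  win := h.win
  ysub := by rw [h.cst ω', hy]; exact h.ysub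
  yC := by rw [h.cst ω']; exact h.yC
  fresh := fun v h1 h2 h3 h4 => by rw [h.cst ω']; exact h.fresh v (hs ▸ h1) h2 h3 (hy ▸ h4)

end base

/-! ## 7. soft ends;   the chain record with the same funnels at all the bases of a family -/

/-- **A SOFT END** (form of `Tr/InstL` v2.1): success `= Sure (M ∩ {F = Loc (1_M F)})` (or `∅`: infinite hull), value `= Loc (1_M F)`, at the deterministic window `Wn` -/
structure PvkyrSoft (ε : ℝ) (e : PvkyEnd) (Wn : Set ℂ) (M : Set (Conf PvPt)) (F : Conf PvPt → ℂ) : Prop where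
  A_eq : e.A = pvsuSure (pvP ε) (Wn ×ˢ univ) (pvkyrSA (pvP ε) (Wn ×ˢ univ) M F) ∨ e.A = ∅
  X_eq : e.X = pvsuLoc (pvP ε) (Wn ×ˢ univ) (M.indicator F)

section soft

variable {ε : ℝ} {e : PvkyEnd} {C Wn Y y₀ : Set ℂ} {M Nice : Set (Conf PvPt)} {F : Conf PvPt → ℂ} {yf : Conf PvPt → Set ℂ} {σ σ' : ℂ → Bool}

theorem PvkyrSoft.mA (h : PvkyrSoft ε e Wn M F) (hW : MeasurableSet Wn) : MeasurableSet e.A := by
  have := (pv_isPpp ε).prob
  rcases h.A_eq with h1 | h1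
  · rw [h1]; exact pvsu_sure_measurable (hW.prod MeasurableSet.univ) _
  · rw [h1]; exact MeasurableSet.empty

theorem PvkyrSoft.mX (h : PvkyrSoft ε e Wn M F) (hW : MeasurableSet Wn) : Measurable e.X := by
  have := (pv_isPpp ε).prob
  rw [h.X_eq]; exact pvsu_loc_measurable (hW.prod MeasurableSet.univ) _

theorem PvkyrSoft.rA (h : PvkyrSoft ε e Wn M F) : Conf.Reads (Wn ×ˢ univ) fun η => η ∈ e.A := by
  rcases h.A_eq with h1 | h1
  · rw [h1]; exact pvsu_sure_reads _ _ _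
  · rw [h1]; exact fun _ => rfl

theorem PvkyrSoft.rX (h : PvkyrSoft ε e Wn M F) : Conf.Reads (Wn ×ˢ univ) e.X := by
  rw [h.X_eq]; exact pvsu_loc_reads _ _ _

/-- **a soft end does not distinguish two bases at a regular geometry which differ by colours irrelevant for the PLAIN pair `(M, F)`** -/
theorem PvkyrSoft.same (h : PvkyrSoft ε e Wn M F) (pi : PvkyrIrr C Wn Y y₀ σ σ' Nice M F) (hC : MeasurableSet C) (hW : MeasurableSet Wn) (hY : Y.Countable)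
    (hg : PvkyrGeo ε C (pvkyrN ε Wn Nice M F) Y) (h1 : yf (cfOf Y σ) = y₀) (h2 : yf (cfOf Y σ') = y₀) : PvkyrSame ε C yf e (cfOf Y σ) (cfOf Y σ') := by
  filter_upwards [pi.agree hC hW hY hg h1 h2] with p hp
  rw [h.X_eq]
  refine ⟨?_, hp.2⟩
  rcases h.A_eq with h3 | h3
  · rw [h3]; exact hp.1
  · rw [h3]; exact Iff.rfl

end soft

section asm

variable {kit : PvthKit} {ε : ℝ} {b : Bool} {X₀ : PvtTurn → Conf PvPt → ℂ} {z d : ℂ} {l : List PvtTurn} {ω : Conf PvPt} {yf : Conf PvPt → Set ℂ}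
  {eo ei : PvkyEnd} {Mo Mi Wo Wi : Set ℂ} {β' q B qo qi : ℝ≥0∞} {r : ℝ}

/-- **THE CHAIN RECORD WITH THE SAME FUNNELS AT ALL THE BASES OF A FAMILY `𝔅`** (clause `chain` of `PvjbIn` of 93, hence `jen` and `yh_stab` of `PvxnOk`): the list of 161, the cell kit, window ends at all the bases,
good base AT ONE BASE `ω`, and the two end links do not distinguish `ω` from the bases of the family -/
theorem pvkyr_chain {𝔅 : Set (Conf PvPt)} (hS : PvkyiSimple kit z d l Mo Mi eo.K ei.K) (hk : PvcnOkQ kit ε X₀ β' q B r) (hd : d ^ 4 = 1) (hω : ω ∈ 𝔅)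
    (wo : ∀ ω' ∈ 𝔅, PvueWin ω' (pvkyiC kit z d l eo.K ei.K) yf eo (pvkyDoor kit z d) Wo)
    (wi : ∀ ω' ∈ 𝔅, PvueWin ω' (pvkyiC kit z d l eo.K ei.K) yf ei (pvkyDoor kit (pvthZ kit.δ z d l l.length) (pvthD d l l.length)) Wi)
    (hoM : eo.y ω ⊆ Mo) (hiM : ei.y ω ⊆ Mi) (qo0 : qo ≠ 0) (qo1 : qo ≤ 1) (qi0 : qi ≠ 0) (qi1 : qi ≤ 1)
    (go : PvkyiGd kit ε b eo z d qo ω) (gi : PvkyiGd kit ε b ei (pvthZ kit.δ z d l l.length) (pvthD d l l.length) qi ω)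
    (so : ∀ ω' ∈ 𝔅, PvkyrSame ε (pvkyiC kit z d l eo.K ei.K) yf eo ω ω') (si : ∀ ω' ∈ 𝔅, PvkyrSame ε (pvkyiC kit z d l eo.K ei.K) yf ei ω ω') :
    ∃ fo fi : PvkeFun ℂ, ∀ ω' ∈ 𝔅, PvkyChain kit ε b X₀ z d l ω' (pvkyiC kit z d l eo.K ei.K) yf eo ei fo fi β' q qo qi :=
  ⟨_, _, fun ω' h' => (pvkyi_chain hS hk hd (wo ω hω) (wi ω hω) hoM hiM qo0 qo1 qi0 qi1 go gi).pvkyr_base (wo ω hω) (wo ω' h') (wi ω hω) (wi ω' h') (so ω' h') (si ω' h')⟩

end asm

/-! ## 8. POCKETS: the fresh set of the chain and the fresh set of the big experiment are not comparable -/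

section pocket

variable {ε : ℝ} {C D Wn Y Fz y₀ y₁ : Set ℂ} {A : Set (Conf PvPt)} {X : Conf PvPt → ℂ} {σ : ℂ → Bool} {p : Conf PvPt → Prop} {M : Set (Conf PvPt)} {F : Conf PvPt → ℂ} {e : PvkyEnd}

/-- a link which sees the fresh colours of `y₀` only sees those of every larger set only -/
theorem PvbqBlind.pvkyr_mono (h : PvbqBlind ε C A X Y Fz y₀ σ) (hy : ∀ v ∈ Y, v ∈ y₀ → v ∈ y₁) : PvbqBlind ε C A X Y Fz y₁ σ :=
  fun τ τ' a a' e => h τ τ' a a' fun v h1 h2 => e v h1 (hy v h1 h2)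

theorem PvbqPlain.pvkyr_mono (h : PvbqPlain C Wn p M F Y Fz y₀ σ) (hy : ∀ v ∈ Y, v ∈ y₀ → v ∈ y₁) : PvbqPlain C Wn p M F Y Fz y₁ σ :=
  fun τ τ' a a' e => h τ τ' a a' fun v h1 h2 => e v h1 (hy v h1 h2)

/-- **ONE PLAIN DEBT FOR AN END WITH POCKETS**: `PvbqPlain` at `y₀ ⊆ e.y` (`y₀` = the fresh sites of the mouth which are recoloured by the big experiment too) gives the blind end of 141 AND the blindness at `y₀` -/
theorem pvkyr_end_pk (hW : MeasurableSet Wn) (mKD : MeasurableSet (e.K ∪ D)) (eX : e.X = pvsuLoc (pvP ε) (Wn ×ˢ univ) (M.indicator F)) (eA : e.A = pvsuSure (pvP ε) (Wn ×ˢ univ) (M ∩ {η | F η = e.X η}))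
    (cst : ∀ η η', e.y η = e.y η') (dis : ∀ v ∈ Y, v ∈ Fz → v ∉ e.y (cfOf Y σ)) (win : C ∩ Wn = (e.K ∪ D) ∩ Wn)
    (hG : pvbqGen ε C Wn p Y) (h1 : ∀ ζ, p ζ → pvbqOk (pvP ε) (M ∩ {η | F η = e.X η}) (M.indicator F) ζ) (hy : ∀ v ∈ Y, v ∈ y₀ → v ∈ e.y (cfOf Y σ)) (hP : PvbqPlain C Wn p M F Y Fz y₀ σ) :
    PvbqEnd ε C D e Y Fz σ ∧ PvbqBlind ε C e.A e.X Y Fz y₀ σ := by
  refine ⟨pvbq_end' hW mKD eX eA cst dis win hG h1 (hP.pvkyr_mono hy), ?_⟩
  rw [eA, eX]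
  rw [eX] at h1
  exact pvbq_blind' hW hG h1 hP

end pocket

section pocket2

variable {kit : PvthKit} {ε : ℝ} {b : Bool} {X₀ : PvtTurn → Conf PvPt → ℂ} {z d : ℂ} {l : List PvtTurn} {C Y Fo Fi yo yi : Set ℂ} {σ σ' : ℂ → Bool} {yf yf' : Conf PvPt → Set ℂ}
  {eo ei : PvkyEnd} {fo fi : PvkeFun ℂ} {β' q qo qi : ℝ≥0∞}

/-- **THE FIELD `enl` OF `PvjbIn` WITH POCKETS** (two sided; also with a change of the base colouring): the two experiments recolour the sites of `yo`, `yi`, no frozen site, and ANYTHING else;   for EVERY `κ`, a.e. `ω₂` -/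
theorem PvkyChain.pvkyr_enl (H : PvkyChain kit ε b X₀ z d l (cfOf Y σ) C yf eo ei fo fi β' q qo qi)
    (bo : PvbqBlind ε C eo.A eo.X Y Fo yo σ) (bi : PvbqBlind ε C ei.A ei.X Y Fi yi σ)
    (hσo : ∀ v ∈ Y, v ∈ Fo → σ' v = σ v) (hσi : ∀ v ∈ Y, v ∈ Fi → σ' v = σ v)
    (fo₁ : ∀ v ∈ Y, v ∈ Fo → v ∉ yf (cfOf Y σ)) (fo₂ : ∀ v ∈ Y, v ∈ Fo → v ∉ yf' (cfOf Y σ')) (fi₁ : ∀ v ∈ Y, v ∈ Fi → v ∉ yf (cfOf Y σ)) (fi₂ : ∀ v ∈ Y, v ∈ Fi → v ∉ yf' (cfOf Y σ'))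
    (so : ∀ v ∈ Y, v ∈ yo → v ∈ yf (cfOf Y σ)) (so' : ∀ v ∈ Y, v ∈ yo → v ∈ yf' (cfOf Y σ')) (si : ∀ v ∈ Y, v ∈ yi → v ∈ yf (cfOf Y σ)) (si' : ∀ v ∈ Y, v ∈ yi → v ∈ yf' (cfOf Y σ'))
    (κ : ℂ → Bool) :
    ∀ᵐ ω₂ ∂(pvP ε), (pvdyR C yf (cfOf Y σ) (κ, ω₂) ∈ pvkyEv kit b z d l eo ei ↔ pvdyR C yf' (cfOf Y σ') (κ, ω₂) ∈ pvkyEv kit b z d l eo ei) ∧
      pvkyYc kit b z d l eo ei X₀ (pvdyR C yf (cfOf Y σ) (κ, ω₂)) = pvkyYc kit b z d l eo ei X₀ (pvdyR C yf' (cfOf Y σ') (κ, ω₂)) := by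
  filter_upwards [bo.R hσo fo₁ fo₂ so so' κ, bi.R hσi fi₁ fi₂ si si' κ] with ω₂ ho hi
  exact H.pvbq_Ev_congr (by rw [pvky_restr_R subset_rfl, pvky_restr_R subset_rfl]) ho hi

/-- **THE CLAUSES `chain` AND `enl` OF `PvjbIn` AT ONE DATUM, WITH POCKETS.**      `H` = the record in the SMALL experiment `yf` (constant; e.g. `pvkyi_chain`, `pvue_chain_own`);   `N'` = the fresh set of the big experiment (`i.Nᶜ`);
`Bo Bi` blind ends of 141, `bo bi` blindness at `yo ⊆ eo.y ∩ N'`, `yi ⊆ ei.y ∩ N'` (both from `pvkyr_end_pk`) -/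
theorem PvkyChain.pvkyr_jb (H : PvkyChain kit ε b X₀ z d l (cfOf Y σ) C yf eo ei fo fi β' q qo qi) (hC : MeasurableSet C) (hY : Y.Countable) (cyf : ∀ η, yf η = yf (cfOf Y σ))
    (Bo : PvbqEnd ε C (pvkyDoor kit z d) eo Y Fo σ) (Bi : PvbqEnd ε C (pvkyDoor kit (pvthZ kit.δ z d l l.length) (pvthD d l l.length)) ei Y Fi σ)
    (bo : PvbqBlind ε C eo.A eo.X Y Fo yo σ) (bi : PvbqBlind ε C ei.A ei.X Y Fi yi σ)
    (fo₁ : ∀ v ∈ Y, v ∈ Fo → v ∉ yf (cfOf Y σ)) (fi₁ : ∀ v ∈ Y, v ∈ Fi → v ∉ yf (cfOf Y σ))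
    (so : ∀ v ∈ Y, v ∈ yo → v ∈ eo.y (cfOf Y σ)) (si : ∀ v ∈ Y, v ∈ yi → v ∈ ei.y (cfOf Y σ)) (N' : Set ℂ)
    (foN : ∀ v ∈ Y, v ∈ Fo → v ∉ N') (fiN : ∀ v ∈ Y, v ∈ Fi → v ∉ N') (soN : ∀ v ∈ Y, v ∈ yo → v ∈ N') (siN : ∀ v ∈ Y, v ∈ yi → v ∈ N') :
    (∀ σ' : ℂ → Bool, (∀ v ∈ Y, v ∈ Fo → σ' v = σ v) → (∀ v ∈ Y, v ∈ Fi → σ' v = σ v) → PvkyChain kit ε b X₀ z d l (cfOf Y σ') C yf eo ei fo fi β' q qo qi) ∧
    ∀ κ : ℂ → Bool, ∀ᵐ ω₂ ∂(pvP ε), (pvdyR C yf (cfOf Y σ) (κ, ω₂) ∈ pvkyEv kit b z d l eo ei ↔ pvdyR C (fun _ => N') (cfOf Y σ) (κ, ω₂) ∈ pvkyEv kit b z d l eo ei) ∧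
      pvkyYc kit b z d l eo ei X₀ (pvdyR C yf (cfOf Y σ) (κ, ω₂)) = pvkyYc kit b z d l eo ei X₀ (pvdyR C (fun _ => N') (cfOf Y σ) (κ, ω₂)) := by
  refine ⟨fun σ' h1 h2 => H.pvbq_all hC hY Bo Bi h1 h2 fo₁ (by rw [cyf]; exact fo₁) fi₁ (by rw [cyf]; exact fi₁) (by rw [cyf]; exact H.ag_o.ysub) (by rw [cyf]; exact H.ag_i.ysub), fun κ => ?_⟩
  exact H.pvkyr_enl bo bi (fun _ _ _ => rfl) (fun _ _ _ => rfl) fo₁ foN fi₁ fiN (fun v h1 h2 => H.ag_o.ysub (so v h1 h2)) soN (fun v h1 h2 => H.ag_i.ysub (si v h1 h2)) siN κ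

end pocket2

end Claimed.Agent.R289
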