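import Claimed.Agent.R289.Tr.Top
import Claimed.Agent.R289.Tr.DomY

/-!
# Row 289 (S0537), THE WALL, engine, file Tr/BrHyb : THE BRIDGE BETWEEN THE TWO VOCABULARIES OF THE HYBRID MEAN      (owner helper141; prefix `pvhy_`, `pvhy`, `Pvhy`)

Two records of the SAME conditional mean are on main:
* (a) `pvdyRec pvdyR pvdyNu pvdyHat pvdyQ pvdyW` (193, `Tr/DomY.lean`; RULING 10bis; the fresh set `yf ω : Set ℂ` may be infinite; `PvdmSys.R` of 159 `= pvdyR` by `pvdy_sys_R`);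
* (b) `pvthRec pvthR pvthSeed` (252, `Tr/Hyb.lean`) and `pvl3P pvl3V pvl3Hat`, `Pvl3Sys` (129, `Tr/Top.lean`; the fresh set `F σ : Finset ℂ`).
They coincide at every FUNCTIONAL base configuration (one colour per site: `PvhyFn σ`; every `cfOf Y s`, every `pvConf (pvMerge (g, c))` with `PvgOk g`) whose fresh sites lie off the resampled region.

* §1 `PvhyFn`;  (B1) **`pvhy_rec`** `pvthRec A u σ = pvdyRec A σ u`;  (B2) **`pvhy_R`** `pvthR C F σ (η, u) = pvdyR C (↑F) σ (u, η)`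
* §2 (B3) the seeds: `pvhy_seed`;  change of variables for ANY integrand: `pvhy_lintegral_seed`, `pvhy_withDensity_seed`, `pvhy_integral_seed`
* §3 (B4) **`pvhy_lintegral`**, **`pvhy_hat`** `pvl3Hat = pvdyHat`, **`pvhy_P`** `pvl3P = pvdyQ`, **`pvhy_V`** `pvl3V = pvdyW`
* §4 (B5) ENLARGING THE FRESH SET: `pvhy_R_enlarge`, `pvhy_enlarge`, `pvhy_lintegral_enlarge`, `pvhy_hat_enlarge` (integrands whose section reads only the bits of `F ω`)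
* §5 (B6) `pvhy_lintegral_iter`; `pvhy_sys_hat`, `pvhy_sys_hat_enlarge`; the field `jen` of `PvdmSys.Hyp` (159) for `yh := (Pvl3Sys).hat` (129): **`pvhy_jen`** (weight `Wt`), **`pvhy_jen_Ev`** (weight `D 1_Ev`)
-/

set_option autoImplicit false
set_option linter.unusedSectionVars false

namespace Claimed.Agent.R289

open MeasureTheory Set Claims.C0465
open scoped ENNReal

/-! ## 1. functional configurations, (B1), (B2) -/

/-- one colour per site -/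
def PvhyFn (σ : Conf PvPt) : Prop := cfOf (cfSites σ) (cfCol σ) = σ

theorem pvhy_eqns_cite : True := by
  have := @PvhyFn.eq_1
  trivial

theorem pvhy_fn_cfOf (Y : Set ℂ) (s : ℂ → Bool) : PvhyFn (cfOf Y s) := by
  unfold PvhyFn
  rw [cfOf_sites]
  exact pvdy_cfOf_congr fun z hz => pvdy_cfCol_cfOf s hz

theorem pvhy_fn_conf {g : PvGeoT} (hg : PvgOk g) (c : PvColT) : PvhyFn (pvConf (pvMerge (g, c))) := by
  rw [hg.conf_eq c]
  exact pvhy_fn_cfOf _ _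

/-- (B1) at a fixed geometry -/
theorem pvhy_rec_cfOf (A Y : Set ℂ) (u s : ℂ → Bool) : pvthRec A u (cfOf Y s) = cfOf Y (pvfqMix A (u, s)) := by
  classical
  refine Conf.ext ?_
  show pvthCol A u '' (cfOf Y s).pts = (cfOf Y (pvfqMix A (u, s))).pts
  ext ⟨z, b⟩
  constructor
  · rintro ⟨⟨z', b'⟩, hq, hqe⟩
    obtain ⟨h1, h2⟩ := cfOf_mem.1 hq
    have e1 : z' = z := congrArg Prod.fst hqe
    have e2 : (if z' ∈ A then u z' else b') = b := congrArg Prod.snd hqe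
    subst e1
    refine cfOf_mem.2 ⟨h1, ?_⟩
    rw [← e2, h2]
    by_cases hz : z' ∈ A
    · rw [if_pos hz, pvfqMix_of_mem hz]
    · rw [if_neg hz, pvfqMix_of_notMem hz]
  · intro hq
    obtain ⟨h1, h2⟩ := cfOf_mem.1 hq
    refine ⟨(z, s z), cfOf_mem.2 ⟨h1, rfl⟩, ?_⟩
    show (z, if z ∈ A then u z else s z) = (z, b)
    rw [h2]
    by_cases hz : z ∈ A
    · rw [if_pos hz, pvfqMix_of_mem hz]
    · rw [if_neg hz, pvfqMix_of_notMem hz]

/-- **(B1)** the two recolourings coincide at a functional configuration -/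
theorem pvhy_rec {σ : Conf PvPt} (h : PvhyFn σ) (A : Set ℂ) (u : ℂ → Bool) : pvthRec A u σ = pvdyRec A σ u := by
  conv_lhs => rw [← h]
  rw [pvhy_rec_cfOf]
  rfl

theorem pvhy_fn_rec (A : Set ℂ) (σ : Conf PvPt) (u : ℂ → Bool) : PvhyFn (pvdyRec A σ u) := pvhy_fn_cfOf _ _

theorem pvhy_compl_eq (C : Set ℂ) : ((Prod.fst ⁻¹' C)ᶜ : Set PvPt) = Cᶜ ×ˢ (univ : Set Bool) := by
  ext p
  simp only [mem_compl_iff, mem_preimage, mem_prod, mem_univ, and_true]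

/-- **(B2)** the two hybrid resamplings coincide -/
theorem pvhy_R {C : Set ℂ} {F : Conf PvPt → Finset ℂ} {σ : Conf PvPt} (h : PvhyFn σ) (hd : Disjoint (↑(F σ) : Set ℂ) C) (x : PvthSd) :
    pvthR C F σ x = pvdyR C (fun σ => (↑(F σ) : Set ℂ)) σ (x.2, x.1) := by
  unfold pvthR pvdyR
  rw [pvth_rec_spl hd, pvhy_rec h, pvhy_compl_eq]

/-- (B2) without fresh sites: the plain splice -/
theorem pvhy_R_F0 (C : Set ℂ) (σ : Conf PvPt) (x : PvthSd) : pvthR C pvl3F0 σ x = Conf.spl (Cᶜ ×ˢ (univ : Set Bool)) (σ, x.1) := by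
  classical
  unfold pvthR pvl3F0 pvthRec
  rw [pvhy_compl_eq]
  refine Conf.ext ?_
  show pvthCol _ x.2 '' _ = _
  have e : pvthCol (↑(∅ : Finset ℂ) : Set ℂ) x.2 = id := by
    funext p
    unfold pvthCol
    simp
  rw [e, image_id]

/-! ## 2. (B3) the seeds -/

theorem pvhy_bit : pvthBit = colLaw ℂ := rfl

/-- **(B3)** -/
theorem pvhy_seed (ε : ℝ) : pvthSeed ε = (pvdyNu ε).map Prod.swap := by
  have := (pv_isPpp ε).prob
  unfold pvthSeed pvdyNu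
  rw [pvhy_bit, Measure.prod_swap]

/-- change of variables, ANY integrand -/
theorem pvhy_lintegral_seed (ε : ℝ) (f : PvthSd → ℝ≥0∞) : ∫⁻ x, f x ∂(pvthSeed ε) = ∫⁻ p, f (p.2, p.1) ∂(pvdyNu ε) := by
  rw [pvhy_seed]
  exact lintegral_map_equiv f (MeasurableEquiv.prodComm : (ℂ → Bool) × Conf PvPt ≃ᵐ Conf PvPt × (ℂ → Bool))

theorem pvhy_withDensity_seed (ε : ℝ) (g : PvthSd → ℝ≥0∞) : (pvthSeed ε).withDensity g = ((pvdyNu ε).withDensity fun p => g (p.2, p.1)).map Prod.swap := by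
  ext s hs
  have hs' : MeasurableSet (Prod.swap ⁻¹' s : Set ((ℂ → Bool) × Conf PvPt)) := measurable_swap hs
  rw [withDensity_apply _ hs, Measure.map_apply measurable_swap hs, withDensity_apply _ hs', ← lintegral_indicator hs, ← lintegral_indicator hs', pvhy_lintegral_seed]
  rfl

theorem pvhy_integral_seed (ε : ℝ) (g : PvthSd → ℝ≥0∞) (f : PvthSd → ℂ) :
    ∫ x, f x ∂((pvthSeed ε).withDensity g) = ∫ p, f (p.2, p.1) ∂((pvdyNu ε).withDensity fun p => g (p.2, p.1)) := by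
  rw [pvhy_withDensity_seed]
  exact integral_map_equiv (MeasurableEquiv.prodComm : (ℂ → Bool) × Conf PvPt ≃ᵐ Conf PvPt × (ℂ → Bool)) f

/-! ## 3. (B4) the means, the conditional probabilities, the weights -/

section b4

variable {ε : ℝ} {C : Set ℂ} {F : Conf PvPt → Finset ℂ} {σ : Conf PvPt}

/-- **(B4), integrals**: ANY integrand -/
theorem pvhy_lintegral (ε : ℝ) (h : PvhyFn σ) (hd : Disjoint (↑(F σ) : Set ℂ) C) (f : Conf PvPt → ℝ≥0∞) :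
    ∫⁻ x, f (pvthR C F σ x) ∂(pvthSeed ε) = ∫⁻ p, f (pvdyR C (fun σ => (↑(F σ) : Set ℂ)) σ p) ∂(pvdyNu ε) := by
  rw [pvhy_lintegral_seed]
  exact lintegral_congr fun p => by rw [pvhy_R h hd]

/-- **(B4), THE MEAN OF RECORD**: `pvl3Hat` (129) `= pvdyHat` (193) -/
theorem pvhy_hat (ε : ℝ) (h : PvhyFn σ) (hd : Disjoint (↑(F σ) : Set ℂ) C) (w : Conf PvPt → ℝ≥0∞) (Y : Conf PvPt → ℂ) :
    pvl3Hat ε C F w Y σ = pvdyHat ε C (fun σ => (↑(F σ) : Set ℂ)) w Y σ := by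
  rw [pvdy_hat_eq]
  show ∫ x, Y (pvthR C F σ x) ∂((pvthSeed ε).withDensity fun x => w (pvthR C F σ x)) = _
  rw [pvhy_integral_seed]
  have e : ∀ p : (ℂ → Bool) × Conf PvPt, pvthR C F σ (p.2, p.1) = pvdyR C (fun σ => (↑(F σ) : Set ℂ)) σ p := fun p => pvhy_R h hd (p.2, p.1)
  simp only [e]

/-- **(B4), conditional probability** -/
theorem pvhy_P (ε : ℝ) (hC : MeasurableSet C) (h : PvhyFn σ) (hd : Disjoint (↑(F σ) : Set ℂ) C) {A : Set (Conf PvPt)} (mA : MeasurableSet A) :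
    pvl3P ε C F A σ = pvdyQ ε C (fun σ => (↑(F σ) : Set ℂ)) A σ := by
  unfold pvl3P pvdyQ
  rw [pvhy_lintegral ε h hd]
  have hm : MeasurableSet {p : (ℂ → Bool) × Conf PvPt | pvdyR C (fun σ => (↑(F σ) : Set ℂ)) σ p ∈ A} := by
    have h1 : MeasurableSet {x : PvthSd | pvthR C F σ x ∈ A} := pvth_R_measurable hC F σ mA
    have h2 := measurable_swap (α := ℂ → Bool) (β := Conf PvPt) h1
    have e : {p : (ℂ → Bool) × Conf PvPt | pvdyR C (fun σ => (↑(F σ) : Set ℂ)) σ p ∈ A} = Prod.swap ⁻¹' {x : PvthSd | pvthR C F σ x ∈ A} := by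
      ext p
      show _ ↔ pvthR C F σ (p.2, p.1) ∈ A
      rw [pvhy_R h hd]
      exact Iff.rfl
    rw [e]
    exact h2
  rw [← lintegral_indicator_one hm]
  rfl

/-- **(B4), the weight of a forced link** -/
theorem pvhy_V (ε : ℝ) (hC : MeasurableSet C) (h : PvhyFn σ) (hd : Disjoint (↑(F σ) : Set ℂ) C) {A : Set (Conf PvPt)} (mA : MeasurableSet A) :
    pvl3V ε C F A σ = pvdyW ε C (fun σ => (↑(F σ) : Set ℂ)) A σ := by
  unfold pvl3V pvdyW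
  rw [pvhy_P ε hC h hd mA]

end b4

/-! ## 4. (B5) enlarging the fresh set -/

section b5

variable {C : Set ℂ} {F yf : Conf PvPt → Set ℂ} {ω : Conf PvPt}

theorem pvhy_rec_enlarge {A A' : Set ℂ} (h : A ⊆ A') (ω : Conf PvPt) (κ : ℂ → Bool) : pvdyRec A ω κ = pvdyRec A' ω (pvfqMix A (κ, cfCol ω)) := by
  unfold pvdyRec
  congr 1
  funext z
  by_cases h1 : z ∈ A
  · rw [pvfqMix_of_mem h1, pvfqMix_of_mem (h h1)]
    exact (pvfqMix_of_mem h1 (κ, cfCol ω)).symm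
  · rw [pvfqMix_of_notMem h1]
    by_cases h2 : z ∈ A'
    · rw [pvfqMix_of_mem h2]
      exact (pvfqMix_of_notMem h1 (κ, cfCol ω)).symm
    · rw [pvfqMix_of_notMem h2]

/-- **(B5)** the small experiment is the large one at the seed "`κ` on `F ω`, the old colours elsewhere" -/
theorem pvhy_R_enlarge (C : Set ℂ) (h : F ω ⊆ yf ω) (p : (ℂ → Bool) × Conf PvPt) : pvdyR C F ω p = pvdyR C yf ω (pvfqMix (F ω) (p.1, cfCol ω), p.2) := by
  unfold pvdyR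
  rw [pvhy_rec_enlarge h]

/-- the section `p ↦ f (R ω p)` of the LARGE experiment reads only the bits of `T` -/
def PvhyRd {β : Sort*} (C : Set ℂ) (yf : Conf PvPt → Set ℂ) (ω : Conf PvPt) (T : Set ℂ) (f : Conf PvPt → β) : Prop :=
  ∀ (κ κ' : ℂ → Bool) (ω₂ : Conf PvPt), (∀ z ∈ T, κ z = κ' z) → f (pvdyR C yf ω (κ, ω₂)) = f (pvdyR C yf ω (κ', ω₂))

theorem pvhy_eqns_cite2 : True := by
  have := @PvhyRd.eq_1.{0}
  trivial

theorem PvhyRd.comp {β γ : Sort*} {T : Set ℂ} {f : Conf PvPt → β} (h : PvhyRd C yf ω T f) (φ : β → γ) : PvhyRd C yf ω T fun η => φ (f η) :=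
  fun κ κ' ω₂ hk => congrArg φ (h κ κ' ω₂ hk)

theorem PvhyRd.map₂ {β γ δ : Sort*} {T : Set ℂ} {f : Conf PvPt → β} {g : Conf PvPt → γ} (hf : PvhyRd C yf ω T f) (hg : PvhyRd C yf ω T g) (φ : β → γ → δ) :
    PvhyRd C yf ω T fun η => φ (f η) (g η) :=
  fun κ κ' ω₂ hk => by
    show φ _ _ = φ _ _
    rw [hf κ κ' ω₂ hk, hg κ κ' ω₂ hk]

theorem PvhyRd.mono {β : Sort*} {T T' : Set ℂ} {f : Conf PvPt → β} (h : PvhyRd C yf ω T f) (hT : T ⊆ T') : PvhyRd C yf ω T' f :=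
  fun κ κ' ω₂ hk => h κ κ' ω₂ fun z hz => hk z (hT hz)

/-- a function which does not see the colours of the sites of `yf ω \ T` off `C` -/
theorem pvhy_rd_of_congr {β : Sort*} {T : Set ℂ} {f : Conf PvPt → β}
    (h : ∀ (s s' : ℂ → Bool) (ω₂ : Conf PvPt), (∀ z ∈ cfSites ω, z ∉ C → z ∉ yf ω \ T → s z = s' z) →
      f (Conf.spl (Cᶜ ×ˢ (univ : Set Bool)) (cfOf (cfSites ω) s, ω₂)) = f (Conf.spl (Cᶜ ×ˢ (univ : Set Bool)) (cfOf (cfSites ω) s', ω₂))) :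
    PvhyRd C yf ω T f := fun κ κ' ω₂ hk => by
  refine h _ _ ω₂ fun z _ _ hz => ?_
  by_cases h1 : z ∈ yf ω
  · rw [pvfqMix_of_mem h1, pvfqMix_of_mem h1]
    exact hk z (by by_contra hT; exact hz ⟨h1, hT⟩)
  · rw [pvfqMix_of_notMem h1, pvfqMix_of_notMem h1]

/-- **(B5), pointwise** -/
theorem pvhy_enlarge {β : Sort*} {f : Conf PvPt → β} (h : F ω ⊆ yf ω) (hf : PvhyRd C yf ω (F ω) f) (p : (ℂ → Bool) × Conf PvPt) :
    f (pvdyR C F ω p) = f (pvdyR C yf ω p) := by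
  rw [pvhy_R_enlarge C h]
  exact hf _ _ _ fun z hz => pvfqMix_of_mem hz _

theorem pvhy_lintegral_enlarge (ε : ℝ) {f : Conf PvPt → ℝ≥0∞} (h : F ω ⊆ yf ω) (hf : PvhyRd C yf ω (F ω) f) :
    ∫⁻ p, f (pvdyR C F ω p) ∂(pvdyNu ε) = ∫⁻ p, f (pvdyR C yf ω p) ∂(pvdyNu ε) :=
  lintegral_congr fun p => pvhy_enlarge h hf p

/-- **(B5), the mean**: the mean does not depend on the part of the fresh set which is not read -/
theorem pvhy_hat_enlarge (ε : ℝ) {w : Conf PvPt → ℝ≥0∞} {Y : Conf PvPt → ℂ} (h : F ω ⊆ yf ω) (hw : PvhyRd C yf ω (F ω) w) (hY : PvhyRd C yf ω (F ω) Y) :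
    pvdyHat ε C F w Y ω = pvdyHat ε C yf w Y ω := by
  rw [pvdy_hat_eq, pvdy_hat_eq]
  have e1 : (fun p => w (pvdyR C F ω p)) = fun p => w (pvdyR C yf ω p) := funext fun p => pvhy_enlarge h hw p
  have e2 : (fun p => Y (pvdyR C F ω p)) = fun p => Y (pvdyR C yf ω p) := funext fun p => pvhy_enlarge h hY p
  rw [e1]
  exact congrArg (fun g : (ℂ → Bool) × Conf PvPt → ℂ => ∫ p, g p ∂((pvdyNu ε).withDensity fun p => w (pvdyR C yf ω p))) e2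

theorem pvhy_Q_enlarge (ε : ℝ) {S : Set (Conf PvPt)} (h : F ω ⊆ yf ω) (hS : PvhyRd C yf ω (F ω) fun η => η ∈ S) : pvdyQ ε C F S ω = pvdyQ ε C yf S ω := by
  unfold pvdyQ
  congr 1
  ext p
  exact iff_of_eq (pvhy_enlarge h hS p)

end b5

/-! ## 5. (B6) from `Tr/Top` to the field `jen` of `Tr/Dom` -/

section b6

variable {ε : ℝ} {C : Set ℂ} {F : Conf PvPt → Finset ℂ} {yf : Conf PvPt → Set ℂ}

/-- the integral over the seeds of 252 as the iterated integral of 159 over the LARGE fresh set -/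
theorem pvhy_lintegral_iter (ε : ℝ) {Ys : Set ℂ} {s : ℂ → Bool} (hd : Disjoint (↑(F (cfOf Ys s)) : Set ℂ) C) (hsub : (↑(F (cfOf Ys s)) : Set ℂ) ⊆ yf (cfOf Ys s))
    {f : Conf PvPt → ℝ≥0∞} (hf : PvhyRd C yf (cfOf Ys s) (↑(F (cfOf Ys s)) : Set ℂ) f) (mf : Measurable fun x : PvthSd => f (pvthR C F (cfOf Ys s) x)) :
    ∫⁻ x, f (pvthR C F (cfOf Ys s) x) ∂(pvthSeed ε)
      = ∫⁻ κ, ∫⁻ ω₂, f (Conf.spl (pvdmU C) (cfOf Ys (pvdmOv (yf (cfOf Ys s)) κ s), ω₂)) ∂(pvP ε) ∂(colLaw ℂ) := by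
  have := (pv_isPpp ε).prob
  have hfn := pvhy_fn_cfOf Ys s
  rw [pvhy_lintegral ε hfn hd f]
  have mf' : Measurable fun p : (ℂ → Bool) × Conf PvPt => f (pvdyR C (fun σ => (↑(F σ) : Set ℂ)) (cfOf Ys s) p) := by
    have e : (fun p : (ℂ → Bool) × Conf PvPt => f (pvdyR C (fun σ => (↑(F σ) : Set ℂ)) (cfOf Ys s) p)) = fun p => f (pvthR C F (cfOf Ys s) (p.2, p.1)) :=
      funext fun p => by rw [pvhy_R hfn hd]
    rw [e]
    exact mf.comp measurable_swap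
  unfold pvdyNu
  rw [lintegral_prod _ mf'.aemeasurable]
  refine lintegral_congr fun κ => lintegral_congr fun ω₂ => ?_
  rw [pvhy_enlarge (F := fun σ => (↑(F σ) : Set ℂ)) (yf := yf) hsub hf (κ, ω₂), pvdy_R_cfOf, pvdy_U_eq, pvdy_ov_eq]

end b6

section b6sys

variable {υ ι : Type} [Fintype υ] [Fintype ι] {T : Pvl3Sys υ ι} {ε : ℝ} {B : Set (Conf PvPt)} {q : ι → ℝ≥0∞} {X : ι → Conf PvPt → ℂ}

theorem pvhy_measurableSet_C (h : T.WF B) : MeasurableSet T.C :=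
  (MeasurableSet.iUnion h.mO).union (MeasurableSet.iUnion h.mK)

theorem pvhy_disjoint_Fs (h : T.WF B) {σ : Conf PvPt} (hσ : σ ∈ B) : Disjoint (↑(T.Fs σ) : Set ℂ) T.C := by
  classical
  refine Set.disjoint_left.2 fun z hz hC => ?_
  have hz' : z ∈ T.Fs σ := hz
  unfold Pvl3Sys.Fs at hz'
  obtain ⟨e, -, he⟩ := Finset.mem_biUnion.1 hz'
  exact Set.disjoint_left.1 (h.dF e σ hσ) he hC

/-- **(B4) for a system**: the mean of the experiment of 129 is the mean of 193 -/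
theorem pvhy_sys_hat (h : T.WF B) {σ : Conf PvPt} (hσ : σ ∈ B) (hfn : PvhyFn σ) :
    T.hat ε X σ = pvdyHat ε T.C (fun σ => (↑(T.Fs σ) : Set ℂ)) (T.Wt ε) (fun ω => ∑ e, X e ω) σ :=
  pvhy_hat ε hfn (pvhy_disjoint_Fs h hσ) _ _

/-- (B4) + (B5) for a system: the mean over ANY larger fresh set which is not read -/
theorem pvhy_sys_hat_enlarge (h : T.WF B) {σ : Conf PvPt} (hσ : σ ∈ B) (hfn : PvhyFn σ) {yf : Conf PvPt → Set ℂ} (hsub : (↑(T.Fs σ) : Set ℂ) ⊆ yf σ)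
    (hW : PvhyRd T.C yf σ (↑(T.Fs σ) : Set ℂ) (T.Wt ε)) (hY : PvhyRd T.C yf σ (↑(T.Fs σ) : Set ℂ) fun ω => ∑ e, X e ω) :
    T.hat ε X σ = pvdyHat ε T.C yf (T.Wt ε) (fun ω => ∑ e, X e ω) σ := by
  rw [pvhy_sys_hat h hσ hfn]
  exact pvhy_hat_enlarge (F := fun σ => (↑(T.Fs σ) : Set ℂ)) ε hsub hW hY

/-- **(B6) THE FIELD `jen` OF `PvdmSys.Hyp`** (159) for `yh := T.hat ε X`, `w := T.Wt ε`, `Y := ∑ e, X e`, `C := T.C`, and ANY fresh set `yf ⊇ T.Fs` whose additional bits are not read -/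
theorem pvhy_jen (h : T.WF B) (hF : T.Forced ε B q) (hX : T.Fld B X) {Ys : Set ℂ} {s : ℂ → Bool} (hσ : cfOf Ys s ∈ B) {yf : Conf PvPt → Set ℂ}
    (hsub : (↑(T.Fs (cfOf Ys s)) : Set ℂ) ⊆ yf (cfOf Ys s))
    (hW : PvhyRd T.C yf (cfOf Ys s) (↑(T.Fs (cfOf Ys s)) : Set ℂ) (T.Wt ε)) (hY : PvhyRd T.C yf (cfOf Ys s) (↑(T.Fs (cfOf Ys s)) : Set ℂ) fun ω => ∑ e, X e ω)
    (mW : Measurable fun x : PvthSd => T.Wt ε (pvthR T.C T.Fs (cfOf Ys s) x)) (c : ℂ) :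
    ‖c + T.hat ε X (cfOf Ys s)‖ₑ ^ 2 ≤ ∫⁻ κ, ∫⁻ ω₂, T.Wt ε (Conf.spl (pvdmU T.C) (cfOf Ys (pvdmOv (yf (cfOf Ys s)) κ s), ω₂)) *
      ‖c + ∑ e, X e (Conf.spl (pvdmU T.C) (cfOf Ys (pvdmOv (yf (cfOf Ys s)) κ s), ω₂))‖ₑ ^ 2 ∂(pvP ε) ∂(colLaw ℂ) := by
  refine (pvl3_jensen h hF hX hσ c).trans (le_of_eq ?_)
  have mR := pvth_R_measurable (pvhy_measurableSet_C h) T.Fs (cfOf Ys s)
  have mS : Measurable fun x : PvthSd => ∑ e, X e (pvthR T.C T.Fs (cfOf Ys s) x) := Finset.measurable_sum _ fun e _ => hX.meas e _ hσ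
  have key := pvhy_lintegral_iter (F := T.Fs) (yf := yf) ε (pvhy_disjoint_Fs h hσ) hsub (f := fun ω => T.Wt ε ω * ‖c + ∑ e, X e ω‖ₑ ^ 2)
    (hW.map₂ hY fun a b => a * ‖c + b‖ₑ ^ 2) (mW.mul ((measurable_const.add mS).enorm.pow_const 2))
  rw [← key]
  exact lintegral_congr fun x => mul_comm _ _

/-- (B6) with the BOUNDED weight `D 1_Ev` (`w := D_c 1_Ev`: measurable on `Conf` as soon as the events are) -/
theorem pvhy_jen_Ev (h : T.WF B) (hF : T.Forced ε B q) (hX : T.Fld B X) {Ys : Set ℂ} {s : ℂ → Bool} (hσ : cfOf Ys s ∈ B) {yf : Conf PvPt → Set ℂ}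
    (hsub : (↑(T.Fs (cfOf Ys s)) : Set ℂ) ⊆ yf (cfOf Ys s))
    (hE : PvhyRd T.C yf (cfOf Ys s) (↑(T.Fs (cfOf Ys s)) : Set ℂ) fun ω => ω ∈ T.Ev) (hY : PvhyRd T.C yf (cfOf Ys s) (↑(T.Fs (cfOf Ys s)) : Set ℂ) fun ω => ∑ e, X e ω) (c : ℂ) :
    ‖c + T.hat ε X (cfOf Ys s)‖ₑ ^ 2 ≤ ∫⁻ κ, ∫⁻ ω₂, (T.D ε q * T.Ev.indicator 1 (Conf.spl (pvdmU T.C) (cfOf Ys (pvdmOv (yf (cfOf Ys s)) κ s), ω₂))) *
      ‖c + ∑ e, X e (Conf.spl (pvdmU T.C) (cfOf Ys (pvdmOv (yf (cfOf Ys s)) κ s), ω₂))‖ₑ ^ 2 ∂(pvP ε) ∂(colLaw ℂ) := by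
  classical
  have mR := pvth_R_measurable (pvhy_measurableSet_C h) T.Fs (cfOf Ys s)
  have mS : Measurable fun x : PvthSd => ∑ e, X e (pvthR T.C T.Fs (cfOf Ys s) x) := Finset.measurable_sum _ fun e _ => hX.meas e _ hσ
  have mEv : MeasurableSet {x : PvthSd | pvthR T.C T.Fs (cfOf Ys s) x ∈ T.Ev} := by
    have e : {x : PvthSd | pvthR T.C T.Fs (cfOf Ys s) x ∈ T.Ev} = (⋂ u, pvthR T.C T.Fs (cfOf Ys s) ⁻¹' T.G u) ∩ ⋂ e, {x | pvthR T.C T.Fs (cfOf Ys s) x ∈ T.A e} := by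
      ext ω; simp [Pvl3Sys.Ev]
    rw [e]
    exact (MeasurableSet.iInter fun u => mR (h.mG u)).inter (MeasurableSet.iInter fun e => h.mA e _ hσ)
  have mI : Measurable fun x : PvthSd => T.D ε q * T.Ev.indicator (1 : Conf PvPt → ℝ≥0∞) (pvthR T.C T.Fs (cfOf Ys s) x) := by
    have e : (fun x : PvthSd => T.Ev.indicator (1 : Conf PvPt → ℝ≥0∞) (pvthR T.C T.Fs (cfOf Ys s) x)) = {x : PvthSd | pvthR T.C T.Fs (cfOf Ys s) x ∈ T.Ev}.indicator 1 := by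
      funext x
      by_cases hx : pvthR T.C T.Fs (cfOf Ys s) x ∈ T.Ev
      · rw [indicator_of_mem hx, indicator_of_mem (show x ∈ {x : PvthSd | pvthR T.C T.Fs (cfOf Ys s) x ∈ T.Ev} from hx)]; rfl
      · rw [indicator_of_notMem hx, indicator_of_notMem (show x ∉ {x : PvthSd | pvthR T.C T.Fs (cfOf Ys s) x ∈ T.Ev} from hx)]
    refine measurable_const.mul ?_
    rw [e]
    exact measurable_one.indicator mEv
  have hE' : PvhyRd T.C yf (cfOf Ys s) (↑(T.Fs (cfOf Ys s)) : Set ℂ) fun ω => T.D ε q * T.Ev.indicator (1 : Conf PvPt → ℝ≥0∞) ω := by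
    intro κ κ' ω₂ hk
    have this : (pvdyR T.C yf (cfOf Ys s) (κ, ω₂) ∈ T.Ev) ↔ (pvdyR T.C yf (cfOf Ys s) (κ', ω₂) ∈ T.Ev) := iff_of_eq (hE κ κ' ω₂ hk)
    show _ * _ = _ * _
    congr 1
    by_cases hh : pvdyR T.C yf (cfOf Ys s) (κ, ω₂) ∈ T.Ev
    · rw [indicator_of_mem hh, indicator_of_mem (this.1 hh)]
      rfl
    · rw [indicator_of_notMem hh, indicator_of_notMem (fun h2 => hh (this.2 h2))]
  have key := pvhy_lintegral_iter (F := T.Fs) (yf := yf) ε (pvhy_disjoint_Fs h hσ) hsub (f := fun ω => (T.D ε q * T.Ev.indicator 1 ω) * ‖c + ∑ e, X e ω‖ₑ ^ 2)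
    (hE'.map₂ hY fun a b => a * ‖c + b‖ₑ ^ 2) (mI.mul ((measurable_const.add mS).enorm.pow_const 2))
  rw [← key]
  refine (pvl3_jensen h hF hX hσ c).trans (lintegral_mono fun x => ?_)
  rw [mul_comm]
  exact mul_le_mul_left (pvl3_Wt_le hF (pvl3_B_total h hσ x)) _

end b6sys

end Claimed.Agent.R289
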