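-- KEEP
import Claimed.Agent.R289.Tr.Top
import Claimed.Agent.R289.Tr.BrHyb
import Claimed.Agent.R289.Tr.InstL

/-!
# Row 289 (S0537), THE WALL, ROAD E, file Tr/InstC : THE ADAPTER  ENGINE RECORD (`Tr/Top.lean`)  ⟷  DEFINITIONS OF RECORD (`Tr/InstE.lean`)      (helper129; ruling T6 of 24; prefix `pvic_`, `pvic`, `Pvic`)

* sec. 1  MODEL FREE GLUE: `pvic_up_mono_ok` (the upper expectation of record sees functions up to the null set of bad geometries `¬ PvgOk`), `pvic_up_fl` (WHITE types = BLACK types of the flipped configuration),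
          `PvicAd` = THE ADAPTER RECORD of one candidate (what the equalities `kout = koutD ..` have to give), **`pvic_cyc1_gen`**, **`pvic_thick_gen`**: the fields `cyc1`, `thick` in the shape of `PvnaCyc1`, `PvnaThick` (271, `Exit/AnaDefs.lean`).
* sec. 2  **THE ENGINE RECORD AT THE DEFINITIONS OF RECORD** (`Tr/InstL.lean` of 168 = InstE v2): `pvicFin` (the sites of the base in a region, as a `Finset`), `pvicEnd b e σ` (an end link `PvkyEnd` of 218, colour `b`, as an end link of the engine in BLACK FORM at the black base `σ`),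
          **`pvicLk 𝔓 𝔈 : Pvl3Lk τ`**, **`pvicExp 𝔓 𝔈 hk hΓ : Pvl3Exp τ (pvlmDel c)`**.      BLACK FORM: the base of the engine is `σ = pvkyFl (𝔓.col t) (pvConf ω)`; the base data `(Z, F)` are those of `pvkyFl (𝔓.col t) σ = pvConf ω`.
* sec. 3  MODEL FREE: one colour per site (`pvic_fn_iff pvic_fn_fl pvic_fn_R`), only the SITES of the fresh region matter (`pvic_R_sites`), the flip of the seeds `pvicT b` (law preserving), **`pvic_fl_R`** (flip covariance of `pvdyR`), `pvic_Q_fl pvic_W_fl`,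
          **`pvic_K1`** : `pvl3K1` (engine, black base, finite fresh set) `= pvdyHat` (record, colour `b`, fresh REGION).
* sec. 4  **THE NUMBERS OF RECORD ARE THE NUMBERS OF THE ENGINE**: `pvic_kyK pvic_kyE` (any `PvkyEnd` with a constant fresh region), **`pvic_W pvic_kout pvic_kin pvic_ke pvic_kin0`**;   `pvic_sh_meas pvic_sim_meas pvic_fat_meas`.
-/

set_option autoImplicit false

namespace Claimed.Agent.R289

open MeasureTheory Filter Topology Set Claims.C0465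
open scoped ENNReal

/-! ## 1. model free glue -/

/-- the upper expectation of record sees functions up to the bad geometries -/
theorem pvic_up_mono_ok (ε : ℝ) {F G : PvGeoT × PvColT → ℝ≥0∞} (h : ∀ q : PvGeoT × PvColT, PvgOk q.1 → F q ≤ G q) : (pvhbUp ε).E F ≤ (pvhbUp ε).E G := by
  show pvUpInt (pvGeo ε) (fun g => pvUpInt pvCol fun k => F (g, k)) ≤ pvUpInt (pvGeo ε) (fun g => pvUpInt pvCol fun k => G (g, k))
  refine pvhb_int_mono_ae _ ?_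
  filter_upwards [pvqu_ok_ae ε] with g hg
  exact pvup_int_mono _ fun k => h (g, k) hg

/-- WHITE types are BLACK types of the flipped configuration -/
theorem pvic_up_fl (ε : ℝ) (b : Bool) (f : Conf PvPt → ℝ≥0∞) : (pvhbUp ε).E (fun q => f (pvkyFl b (pvConf (pvMerge q)))) = (pvhbUp ε).E (fun q => f (pvConf (pvMerge q))) := by
  cases b with
  | true => rfl
  | false => exact pvl3_U0_flip_conf ε f

/-- **THE ADAPTER RECORD OF ONE CANDIDATE**.      `S ε` = the samples over which the field is asked (`U ∩ Gd`), `b` = the colour of the type, `B ε` = the base configurations of the engine (BLACK form),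
`K ε` = a number of the model, `Kc ε` = the same number of the engine: at every good geometry the (flipped) configuration of a sample of `S ε` is a base configuration and the two numbers agree. -/
structure PvicAd (b : Bool) (S : ℝ → Set PVSample) (B : ℝ → Set (Conf PvPt)) (K : ℝ → PVSample → ℂ) (Kc : ℝ → Conf PvPt → ℂ) : Prop where
  sub : ∀ᶠ ε in 𝓝[>] (0 : ℝ), ∀ q : PvGeoT × PvColT, PvgOk q.1 → pvMerge q ∈ S ε → pvkyFl b (pvConf (pvMerge q)) ∈ B ε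
  eq : ∀ᶠ ε in 𝓝[>] (0 : ℝ), ∀ q : PvGeoT × PvColT, PvgOk q.1 → pvMerge q ∈ S ε → K ε (pvMerge q) = Kc ε (pvkyFl b (pvConf (pvMerge q)))

/-- one mesh -/
theorem pvic_up_le {ε : ℝ} {b : Bool} {S : Set PVSample} {B : Set (Conf PvPt)} {K : PVSample → ℂ} {Kc : Conf PvPt → ℂ}
    (hs : ∀ q : PvGeoT × PvColT, PvgOk q.1 → pvMerge q ∈ S → pvkyFl b (pvConf (pvMerge q)) ∈ B)
    (he : ∀ q : PvGeoT × PvColT, PvgOk q.1 → pvMerge q ∈ S → K (pvMerge q) = Kc (pvkyFl b (pvConf (pvMerge q)))) :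
    (pvhbUp ε).E ((pvMerge ⁻¹' S).indicator fun q => ‖K (pvMerge q)‖ₑ ^ 2) ≤ (pvl3U0 ε).E ((pvl3Cf ⁻¹' B).indicator fun o => ‖Kc (pvl3Cf o)‖ₑ ^ 2) := by
  have h1 : (pvhbUp ε).E ((pvMerge ⁻¹' S).indicator fun q => ‖K (pvMerge q)‖ₑ ^ 2) ≤ (pvhbUp ε).E (fun q => B.indicator (fun σ => ‖Kc σ‖ₑ ^ 2) (pvkyFl b (pvConf (pvMerge q)))) := by
    refine pvic_up_mono_ok ε fun q hq => ?_
    by_cases hS : pvMerge q ∈ S
    · rw [indicator_of_mem (show q ∈ pvMerge ⁻¹' S from hS), indicator_of_mem (hs q hq hS), he q hq hS]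
    · rw [indicator_of_notMem (show q ∉ pvMerge ⁻¹' S from hS)]
      exact zero_le
  rw [pvic_up_fl] at h1
  refine h1.trans (le_of_eq ?_)
  have e : (fun q : PvGeoT × PvColT => B.indicator (fun σ => ‖Kc σ‖ₑ ^ 2) (pvConf (pvMerge q))) = (pvl3Cf ⁻¹' B).indicator fun o => ‖Kc (pvl3Cf o)‖ₑ ^ 2 := by
    funext q
    by_cases hq : pvl3Cf q ∈ B
    · rw [indicator_of_mem (show q ∈ pvl3Cf ⁻¹' B from hq)]
      exact indicator_of_mem hq _
    · rw [indicator_of_notMem (show q ∉ pvl3Cf ⁻¹' B from hq)]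
      exact indicator_of_notMem hq _
  rw [e]
  rfl

/-- **FIELD `cyc1` FROM THE ENGINE**, in the shape of `PvnaCyc1` -/
theorem pvic_cyc1_gen {τ : Type} {δ : ℕ → ℝ} (E : Pvl3Exp τ δ) (L : Pvl3Lk τ) (a : ℂ) (m : ℕ) (z : ℂ) (t : τ) (b : Bool) (S : ℝ → Set PVSample) (K : ℝ → PVSample → ℂ)
    (B : ℝ → Set (Conf PvPt)) (Bs : ℝ → Conf PvPt → Set (Conf PvPt)) (C : ℝ → Set ℂ) (frz : ℝ → Conf PvPt → Finset ℂ) (Θ : ℝ → Conf PvPt → ℝ≥0∞) (D : ℝ≥0∞) (hD : D ≠ ∞)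
    (hA : PvicAd b S B K fun ε σ => E.koutD L m ε a z t σ + pvtSum (E.W m ε a) ((E.Γ m).dout t) ((E.Γ m).l1 t) + E.kin0 m ε a + E.keD L m ε a z t σ)
    (hok : ∀ᶠ ε in 𝓝[>] (0 : ℝ), Pvl3CycOkF E L a m ε z t (B ε) (Bs ε) (C ε) (frz ε) (Θ ε) D)
    (htail : Tendsto (fun ε => ∫⁻ ω, Θ ε ω ∂(pvP ε)) (𝓝[>] (0 : ℝ)) (𝓝 0)) :
    Tendsto (fun ε => (pvhbUp ε).E ((pvMerge ⁻¹' S ε).indicator fun q => ‖K ε (pvMerge q)‖ₑ ^ 2)) (𝓝[>] (0 : ℝ)) (𝓝 0) := by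
  have h0 := pvl3_cyc1_fam E L a m z t B Bs C frz Θ D hD hok htail
  refine tendsto_of_tendsto_of_tendsto_of_le_of_le' tendsto_const_nhds h0 (Eventually.of_forall fun _ => zero_le) ?_
  filter_upwards [hA.sub, hA.eq] with ε h1 h2
  exact pvic_up_le (ε := ε) (b := b) (S := S ε) (B := B ε) (K := K ε)
    (Kc := fun σ => E.koutD L m ε a z t σ + pvtSum (E.W m ε a) ((E.Γ m).dout t) ((E.Γ m).l1 t) + E.kin0 m ε a + E.keD L m ε a z t σ) h1 h2

/-- **FIELD `thick` FROM THE ENGINE**, in the shape of `PvnaThick` -/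
theorem pvic_thick_gen {τ : Type} {δ : ℕ → ℝ} (E : Pvl3Exp τ δ) (L : Pvl3Lk τ) (a : ℂ) (m : ℕ) (z : ℂ) (t : τ) (b : Bool) (S : ℝ → Set PVSample) (K : ℝ → PVSample → ℂ)
    (B : ℝ → Set (Conf PvPt)) (Bs : ℝ → Conf PvPt → Set (Conf PvPt)) (C : ℝ → Set ℂ) (frz : ℝ → Conf PvPt → Finset ℂ) (Θ : ℝ → Conf PvPt → ℝ≥0∞) (D : ℝ≥0∞) (hD : D ≠ ∞) (M : ℝ≥0∞)
    (hA : PvicAd b S B K fun ε σ => E.keD L m ε a z t σ)
    (hok : ∀ᶠ ε in 𝓝[>] (0 : ℝ), Pvl3ThkOkF E L a m ε z t (B ε) (Bs ε) (C ε) (frz ε) (Θ ε) D)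
    (hbes : ∀ᶠ ε in 𝓝[>] (0 : ℝ), D * ∫⁻ ω, Θ ε ω ∂(pvP ε) ≤ M) :
    ∀ᶠ ε in 𝓝[>] (0 : ℝ), (pvhbUp ε).E ((pvMerge ⁻¹' S ε).indicator fun q => ‖K ε (pvMerge q)‖ₑ ^ 2) ≤ M := by
  filter_upwards [hA.sub, hA.eq, hok, hbes, self_mem_nhdsWithin] with ε h1 h2 h3 h4 h5
  exact (pvic_up_le (ε := ε) (b := b) (S := S ε) (B := B ε) (K := K ε) (Kc := fun σ => E.keD L m ε a z t σ) h1 h2).trans ((pvl3_thick_le_fam E L h5 hD h3).trans h4)

/-! ## 2. the engine record at the definitions of record -/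

open Classical in
/-- the sites of `σ` in the region `S`, as a finite set      (`∅` if there are infinitely many) -/
noncomputable def pvicFin (S : Set ℂ) (σ : Conf PvPt) : Finset ℂ := if h : (cfSites σ ∩ S).Finite then h.toFinset else ∅

/-- **an end link of 218** (colour `b`) **as an end link of the engine, BLACK FORM**, at the black base `σ`: the fresh sites are the CONSTANT finite set of the sites of the base in the fresh region -/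
noncomputable def pvicEnd (b : Bool) (e : PvkyEnd) (σ : Conf PvPt) : Pvl3End where
  K := e.K
  F := fun _ => pvicFin (e.y (pvkyFl b σ)) σ
  A := pvkyFl b ⁻¹' e.A
  XQ := fun ω => e.X (pvkyFl b ω)
  XV := fun _ => 0

/-- no link -/
def pvicNil : Pvl3End := ⟨∅, pvl3F0, ∅, fun _ => 0, fun _ => 0⟩

section model

variable {τ : Type} {c : ℝ} (𝔓 : PvxPar τ c) (𝔈 : PvieEng τ)

/-- **THE BASE-INDEXED END LINKS AT THE DEFINITIONS OF RECORD**, black form      (`thO` = the thick return: not in `Tr/InstL`, not read by `cyc1`; `pvicLkR` for `thick`) -/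
noncomputable def pvicLk : Pvl3Lk τ where
  out m ε z t σ := pvicEnd (𝔓.col t) (pvilEoAt 𝔓 𝔈 m ε pvilQ z t (pvkyFl (𝔓.col t) σ)) σ
  inn m ε z t σ := pvicEnd (𝔓.col t) (pvilEiAt 𝔓 𝔈 m ε pvilQ z t (pvkyFl (𝔓.col t) σ)) σ
  thI m ε z t σ := pvicEnd (𝔓.col t) (pvilEeAt 𝔓 𝔈 m ε pvilQ z t (pvkyFl (𝔓.col t) σ)) σ
  thO _ _ _ _ _ := pvicNil

/-- the same with a thick return -/
noncomputable def pvicLkR (R : ℕ → ℝ → ℂ → τ → Conf PvPt → Pvl3End) : Pvl3Lk τ := { pvicLk 𝔓 𝔈 with thO := R }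

/-- **THE RECORD OF THE EXPERIMENT AT THE DEFINITIONS OF RECORD** (`Q` alone: `XV = 0`, field `a := 0`).      `hk` = `PvieEng.Wf.kit_del`, `hΓ` = `PvxPar.Wf.del`.      The end links are those of `pvicLk` (through `Pvl3Exp.on`). -/
noncomputable def pvicExp (hk : ∀ m ε, (𝔈.kit m ε).δ = pvlmDel c m) (hΓ : ∀ m, (𝔓.Γ m).δ = pvlmDel c m) : Pvl3Exp τ (pvlmDel c) where
  cells := ⟨𝔈.kit, 𝔈.XQ, fun _ _ _ _ => 0, hk⟩
  Γ := 𝔓.Γ
  Γδ := hΓ
  out _ _ _ _ := pvicNil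
  inn _ _ _ _ := pvicNil
  thI _ _ _ _ := pvicNil
  thO _ _ _ _ := pvicNil
  Ou m _ := 𝔈.rO m
  Gu := 𝔈.rG
  Kr m _ := 𝔈.rK m
  Ar m ε := pvilAr 𝔓 𝔈 m ε pvilQ
  XrQ m ε := pvilXr 𝔓 𝔈 m ε pvilQ
  XrV _ _ _ := 0

end model

theorem pvic_eqns_cite : True := by
  have := @pvicFin.eq_1; have := @pvicEnd.eq_1; have := @pvicNil.eq_1; have := @pvicLk.eq_1; have := @pvicLkR.eq_1; have := @pvicExp.eq_1
  trivial

/-! ## 3. flips, finite fresh sets -/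

theorem pvic_fn_iff {σ : Conf PvPt} : PvhyFn σ ↔ ∀ p ∈ σ.pts, ∀ q ∈ σ.pts, p.1 = q.1 → p = q := by
  classical
  constructor
  · intro h p hp q hq e
    rw [← h] at hp hq
    obtain ⟨z, c⟩ := p
    obtain ⟨z', c'⟩ := q
    have h1 := (cfOf_mem.1 hp).2
    have h2 := (cfOf_mem.1 hq).2
    have e' : z = z' := e
    subst e'
    rw [h1, h2]
  · intro h
    unfold PvhyFn
    ext ⟨z, c⟩
    constructor
    · intro hp
      obtain ⟨⟨⟨z', c'⟩, hq, rfl⟩, h2⟩ := cfOf_mem.1 hp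
      have : c = c' := by
        rw [h2]
        unfold cfCol
        cases c'
        · rw [decide_eq_false_iff_not]
          intro ht
          have := h _ ht _ hq rfl
          simp at this
        · rw [decide_eq_true_iff]
          exact hq
      rw [this]
      exact hq
    · intro hp
      refine cfOf_mem.2 ⟨⟨(z, c), hp, rfl⟩, ?_⟩
      unfold cfCol
      cases c
      · symm
        rw [decide_eq_false_iff_not]
        intro ht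
        have := h _ ht _ hp rfl
        simp at this
      · symm
        rw [decide_eq_true_iff]
        exact hp

theorem pvic_fn_fl {σ : Conf PvPt} (h : PvhyFn σ) (b : Bool) : PvhyFn (pvkyFl b σ) := pvic_fn_iff.2 (pvky_fl_one (pvic_fn_iff.1 h))

theorem pvic_sites_fl (b : Bool) (σ : Conf PvPt) : cfSites (pvkyFl b σ) = cfSites σ := by
  ext z
  constructor
  · rintro ⟨p, hp, rfl⟩
    exact ⟨_, pvky_mem_fl.1 hp, rfl⟩
  · rintro ⟨p, hp, rfl⟩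
    refine ⟨(p.1, p.2 == b), pvky_mem_fl.2 ?_, rfl⟩
    have : ((p.2 == b) == b) = p.2 := by cases p.2 <;> cases b <;> rfl
    show (p.1, ((p.2 == b) == b)) ∈ σ.pts
    rw [this]
    exact hp

theorem pvic_mem_fn {σ : Conf PvPt} (h : PvhyFn σ) {z : ℂ} {c : Bool} : (z, c) ∈ σ.pts ↔ z ∈ cfSites σ ∧ c = cfCol σ z := by
  conv_lhs => rw [← h]
  exact cfOf_mem

theorem pvic_col_fl {σ : Conf PvPt} (h : PvhyFn σ) (b : Bool) {z : ℂ} (hz : z ∈ cfSites σ) : cfCol (pvkyFl b σ) z = (cfCol σ z == b) := by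
  have h1 : (z, cfCol σ z) ∈ σ.pts := (pvic_mem_fn h).2 ⟨hz, rfl⟩
  have h2 : (z, (cfCol σ z == b)) ∈ (pvkyFl b σ).pts := by
    rw [pvky_mem_fl]
    have : ((cfCol σ z == b) == b) = cfCol σ z := by cases cfCol σ z <;> cases b <;> rfl
    show (z, ((cfCol σ z == b) == b)) ∈ σ.pts
    rw [this]
    exact h1
  exact ((pvic_mem_fn (pvic_fn_fl h b)).1 h2).2.symm

/-- the resampled configuration has one colour per site as soon as the independent configuration has -/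
theorem pvic_fn_R (C : Set ℂ) (yf : Conf PvPt → Set ℂ) (ω : Conf PvPt) {p : (ℂ → Bool) × Conf PvPt} (h : ∀ x ∈ p.2.pts, ∀ y ∈ p.2.pts, x.1 = y.1 → x = y) : PvhyFn (pvdyR C yf ω p) := by
  refine pvic_fn_iff.2 fun x hx y hy e => ?_
  rcases pvdy_mem_R.1 hx with ⟨a1, -, a3⟩ | ⟨a1, a2⟩ <;> rcases pvdy_mem_R.1 hy with ⟨b1, -, b3⟩ | ⟨b1, b2⟩
  · exact Prod.ext e (by rw [a3, b3, e])
  · exact absurd (e ▸ b1) a1
  · exact absurd (e ▸ a1) b1
  · exact h x a2 y b2 e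

/-- **only the SITES of the fresh region matter** -/
theorem pvic_R_sites {C S S' : Set ℂ} {ω : Conf PvPt} (h : cfSites ω ∩ S' = cfSites ω ∩ S) (p : (ℂ → Bool) × Conf PvPt) : pvdyR C (fun _ => S') ω p = pvdyR C (fun _ => S) ω p := by
  ext x
  rw [pvdy_mem_R, pvdy_mem_R]
  refine or_congr_left (and_congr_right fun _ => and_congr_right fun h2 => ?_)
  have hi : x.1 ∈ S' ↔ x.1 ∈ S := by
    have := Set.ext_iff.1 h x.1
    simp only [mem_inter_iff, h2, true_and] at this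
    exact this
  by_cases h3 : x.1 ∈ S
  · rw [pvfqMix_of_mem h3, pvfqMix_of_mem (hi.2 h3)]
  · rw [pvfqMix_of_notMem h3, pvfqMix_of_notMem fun hh => h3 (hi.1 hh)]

/-- the flip of the seeds -/
def pvicBf (b : Bool) (κ : ℂ → Bool) : ℂ → Bool := fun z => κ z == b

theorem pvic_Bf_Bf (b : Bool) (κ : ℂ → Bool) : pvicBf b (pvicBf b κ) = κ := by
  funext z
  show ((κ z == b) == b) = κ z
  cases κ z <;> cases b <;> rfl

theorem pvic_Bf_meas (b : Bool) : Measurable (pvicBf b) :=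
  measurable_pi_lambda _ fun z => (measurable_of_countable fun c : Bool => c == b).comp (measurable_pi_apply z)

theorem pvic_Bf_map (b : Bool) : (colLaw ℂ).map (pvicBf b) = colLaw ℂ := by
  cases b
  · have e : pvicBf false = pvfFlip univ := by
      funext κ z
      rw [pvf_flip_mem (mem_univ z)]
      show (κ z == false) = !κ z
      cases κ z <;> rfl
    rw [e]
    exact pvf_colLaw_flip univ
  · have e : pvicBf true = id := by
      funext κ z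
      show (κ z == true) = κ z
      cases κ z <;> rfl
    rw [e, Measure.map_id]

/-- the flip of the seeds of the hybrid resampling, as a measurable equivalence -/
def pvicT (b : Bool) : ((ℂ → Bool) × Conf PvPt) ≃ᵐ ((ℂ → Bool) × Conf PvPt) where
  toFun p := (pvicBf b p.1, pvkyFl b p.2)
  invFun p := (pvicBf b p.1, pvkyFl b p.2)
  left_inv p := by simp only [pvic_Bf_Bf, pvky_fl_fl]
  right_inv p := by simp only [pvic_Bf_Bf, pvky_fl_fl]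
  measurable_toFun := ((pvic_Bf_meas b).comp measurable_fst).prodMk ((measurable_pvkyFl b).comp measurable_snd)
  measurable_invFun := ((pvic_Bf_meas b).comp measurable_fst).prodMk ((measurable_pvkyFl b).comp measurable_snd)

theorem pvic_eqns_cite2 : True := by
  have := @pvicBf.eq_1; have := @pvicT.eq_1
  trivial

theorem pvic_T_apply (b : Bool) (p : (ℂ → Bool) × Conf PvPt) : pvicT b p = (pvicBf b p.1, pvkyFl b p.2) := rfl

theorem pvic_T_T (b : Bool) (p : (ℂ → Bool) × Conf PvPt) : pvicT b (pvicT b p) = p := (pvicT b).left_inv p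

theorem pvic_T_map (b : Bool) (ε : ℝ) : (pvdyNu ε).map (pvicT b) = pvdyNu ε := by
  have := (pv_isPpp ε).prob
  have e : (pvicT b : (ℂ → Bool) × Conf PvPt → (ℂ → Bool) × Conf PvPt) = Prod.map (pvicBf b) (pvkyFl b) := rfl
  unfold pvdyNu
  rw [e, ← Measure.map_prod_map _ _ (pvic_Bf_meas b) (measurable_pvkyFl b), pvic_Bf_map, pvky_fl_map]

/-- **FLIP COVARIANCE OF THE HYBRID RESAMPLING** (constant fresh region, one colour per site) -/
theorem pvic_fl_R {ω : Conf PvPt} (h : PvhyFn ω) (b : Bool) (C S : Set ℂ) (p : (ℂ → Bool) × Conf PvPt) :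
    pvkyFl b (pvdyR C (fun _ => S) ω p) = pvdyR C (fun _ => S) (pvkyFl b ω) (pvicT b p) := by
  ext x
  rw [pvky_mem_fl, pvdy_mem_R, pvdy_mem_R, pvic_sites_fl, pvic_T_apply]
  refine or_congr (and_congr_right fun _ => and_congr_right fun h2 => ?_) (and_congr_right fun _ => pvky_mem_fl.symm)
  show (x.2 == b) = pvfqMix S (p.1, cfCol ω) x.1 ↔ x.2 = pvfqMix S (pvicBf b p.1, cfCol (pvkyFl b ω)) x.1
  by_cases h3 : x.1 ∈ S
  · rw [pvfqMix_of_mem h3, pvfqMix_of_mem h3]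
    show (x.2 == b) = p.1 x.1 ↔ x.2 = (p.1 x.1 == b)
    cases x.2 <;> cases b <;> cases p.1 x.1 <;> simp
  · rw [pvfqMix_of_notMem h3, pvfqMix_of_notMem h3]
    show (x.2 == b) = cfCol ω x.1 ↔ x.2 = cfCol (pvkyFl b ω) x.1
    rw [pvic_col_fl h b h2]
    cases x.2 <;> cases b <;> cases cfCol ω x.1 <;> simp


theorem pvic_measure_T (b : Bool) (ε : ℝ) (S : Set ((ℂ → Bool) × Conf PvPt)) : pvdyNu ε {p | pvicT b p ∈ S} = pvdyNu ε S := by
  conv_rhs => rw [← pvic_T_map b ε]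
  exact ((pvicT b).map_apply S).symm

theorem pvic_lintegral_T (b : Bool) (ε : ℝ) (F : (ℂ → Bool) × Conf PvPt → ℝ≥0∞) : ∫⁻ p, F (pvicT b p) ∂(pvdyNu ε) = ∫⁻ p, F p ∂(pvdyNu ε) := by
  conv_rhs => rw [← pvic_T_map b ε]
  exact (lintegral_map_equiv F (pvicT b)).symm

theorem pvic_ae_T (b : Bool) (ε : ℝ) {P : (ℂ → Bool) × Conf PvPt → Prop} (h : ∀ᵐ p ∂(pvdyNu ε), P p) : ∀ᵐ p ∂(pvdyNu ε), P (pvicT b p) := by
  have : pvdyNu ε {p | pvicT b p ∈ {p | ¬ P p}} = 0 := by rw [pvic_measure_T]; exact h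
  exact this

/-- change of variables: weighted means of ANY functions -/
theorem pvic_integral_T (b : Bool) (ε : ℝ) (w : (ℂ → Bool) × Conf PvPt → ℝ≥0∞) (F : (ℂ → Bool) × Conf PvPt → ℂ) :
    ∫ p, F (pvicT b p) ∂((pvdyNu ε).withDensity fun p => w (pvicT b p)) = ∫ p, F p ∂((pvdyNu ε).withDensity w) := by
  have e : ((pvdyNu ε).withDensity fun p => w (pvicT b p)).map (pvicT b) = (pvdyNu ε).withDensity w := by
    ext s hs
    rw [(pvicT b).map_apply, withDensity_apply _ hs, withDensity_apply _ ((pvicT b).measurable hs), ← lintegral_indicator hs, ← lintegral_indicator ((pvicT b).measurable hs),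
      ← pvic_lintegral_T b ε (s.indicator w)]
    rfl
  rw [← e]
  exact (integral_map_equiv (pvicT b) F).symm

/-- flip covariance of the conditional probability -/
theorem pvic_Q_fl (ε : ℝ) {ρ : Conf PvPt} (h : PvhyFn ρ) (b : Bool) (K S : Set ℂ) (A : Set (Conf PvPt)) :
    pvdyQ ε K (fun _ => S) (pvkyFl b ⁻¹' A) ρ = pvdyQ ε K (fun _ => S) A (pvkyFl b ρ) := by
  unfold pvdyQ
  rw [← pvic_measure_T b ε {p | pvdyR K (fun _ => S) (pvkyFl b ρ) p ∈ A}]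
  congr 1
  ext p
  show pvkyFl b (pvdyR K (fun _ => S) ρ p) ∈ A ↔ pvdyR K (fun _ => S) (pvkyFl b ρ) (pvicT b p) ∈ A
  rw [pvic_fl_R h]

/-- flip covariance of the conditioning weight -/
theorem pvic_W_fl (ε : ℝ) {ρ : Conf PvPt} (h : PvhyFn ρ) (b : Bool) (K S : Set ℂ) (A : Set (Conf PvPt)) :
    pvdyW ε K (fun _ => S) (pvkyFl b ⁻¹' A) ρ = pvdyW ε K (fun _ => S) A (pvkyFl b ρ) := by
  unfold pvdyW
  rw [pvic_Q_fl ε h]
  rfl

theorem pvic_Q_sites (ε : ℝ) {K S S' : Set ℂ} {ω : Conf PvPt} (h : cfSites ω ∩ S' = cfSites ω ∩ S) (A : Set (Conf PvPt)) : pvdyQ ε K (fun _ => S') A ω = pvdyQ ε K (fun _ => S) A ω := by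
  unfold pvdyQ
  simp only [pvic_R_sites h]

theorem pvic_W_sites (ε : ℝ) {K S S' : Set ℂ} {ω : Conf PvPt} (h : cfSites ω ∩ S' = cfSites ω ∩ S) (A : Set (Conf PvPt)) : pvdyW ε K (fun _ => S') A ω = pvdyW ε K (fun _ => S) A ω := by
  unfold pvdyW
  rw [pvic_Q_sites ε h]

theorem pvic_fin_coe {S : Set ℂ} {σ : Conf PvPt} (h : (cfSites σ ∩ S).Finite) : (↑(pvicFin S σ) : Set ℂ) = cfSites σ ∩ S := by
  unfold pvicFin
  rw [dif_pos h]
  exact h.coe_toFinset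

/-- **THE MEAN OF ONE HYBRID LINK WITH ONE INTEGRATED REGION PLUG: ENGINE = RECORD**.      `η₀` = the base (colour `b`), `σ = fl η₀` = the black base;   `G` = the usable event of the plug (black form), `gd` = its normalisation. -/
theorem pvic_K1 (ε : ℝ) (b : Bool) {K O S : Set ℂ} {A G : Set (Conf PvPt)} (X : Conf PvPt → ℂ) {η₀ : Conf PvPt} (hfn : PvhyFn η₀) (hfin : (cfSites η₀ ∩ S).Finite)
    (hK : MeasurableSet K) (mA : MeasurableSet A) (hd : Disjoint S (K ∪ O)) :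
    pvl3K1 ε K (fun _ => pvicFin S (pvkyFl b η₀)) (pvkyFl b ⁻¹' A) O G (fun ω => X (pvkyFl b ω)) (pvkyFl b η₀)
      = pvdyHat ε (K ∪ O) (fun _ => S) (fun η => G.indicator 1 (pvkyFl b η) / pvP ε G * pvdyW ε K (fun _ => S) A η) X η₀ := by
  set σ := pvkyFl b η₀ with hσ
  have hfnσ : PvhyFn σ := pvic_fn_fl hfn b
  have hfinσ : (cfSites σ ∩ S).Finite := by rw [hσ, pvic_sites_fl]; exact hfin
  have hco : (↑(pvicFin S σ) : Set ℂ) = cfSites σ ∩ S := pvic_fin_coe hfinσ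
  have hdF : Disjoint (↑(pvicFin S σ) : Set ℂ) (K ∪ O) := by rw [hco]; exact hd.mono_left inter_subset_right
  have hdK : Disjoint (↑(pvicFin S σ) : Set ℂ) K := hdF.mono_right subset_union_left
  unfold pvl3K1
  rw [pvhy_hat (F := fun _ => pvicFin S σ) ε hfnσ hdF, pvdy_hat_eq, pvdy_hat_eq]
  -- the resampled configuration
  have hs0 : cfSites σ ∩ (↑(pvicFin S σ) : Set ℂ) = cfSites σ ∩ S := by rw [hco, ← inter_assoc, inter_self]
  have eR : ∀ p, pvdyR (K ∪ O) (fun _ => (↑(pvicFin S σ) : Set ℂ)) σ p = pvkyFl b (pvdyR (K ∪ O) (fun _ => S) η₀ (pvicT b p)) := by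
    intro p
    rw [pvic_R_sites hs0, pvic_fl_R hfn, pvic_T_T]
  simp only [eR, pvky_fl_fl]
  -- the weights agree for almost every seed
  have hw : ∀ᵐ p ∂(pvdyNu ε), G.indicator 1 (pvkyFl b (pvdyR (K ∪ O) (fun _ => S) η₀ (pvicT b p))) / pvP ε G *
        pvl3V ε K (fun _ => pvicFin S σ) (pvkyFl b ⁻¹' A) (pvkyFl b (pvdyR (K ∪ O) (fun _ => S) η₀ (pvicT b p)))
      = G.indicator 1 (pvkyFl b (pvdyR (K ∪ O) (fun _ => S) η₀ (pvicT b p))) / pvP ε G * pvdyW ε K (fun _ => S) A (pvdyR (K ∪ O) (fun _ => S) η₀ (pvicT b p)) := by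
    refine pvic_ae_T b ε (P := fun p => G.indicator 1 (pvkyFl b (pvdyR (K ∪ O) (fun _ => S) η₀ p)) / pvP ε G *
        pvl3V ε K (fun _ => pvicFin S σ) (pvkyFl b ⁻¹' A) (pvkyFl b (pvdyR (K ∪ O) (fun _ => S) η₀ p))
      = G.indicator 1 (pvkyFl b (pvdyR (K ∪ O) (fun _ => S) η₀ p)) / pvP ε G * pvdyW ε K (fun _ => S) A (pvdyR (K ∪ O) (fun _ => S) η₀ p)) ?_
    filter_upwards [pvky_ae_one ε] with p hp
    have hfr : PvhyFn (pvdyR (K ∪ O) (fun _ => S) η₀ p) := pvic_fn_R _ _ _ hp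
    have hfr' := pvic_fn_fl hfr b
    congr 1
    rw [pvhy_V (F := fun _ => pvicFin S σ) ε hK hfr' hdK ((measurable_pvkyFl b) mA)]
    have hs1 : cfSites (pvkyFl b (pvdyR (K ∪ O) (fun _ => S) η₀ p)) ∩ (↑(pvicFin S σ) : Set ℂ) = cfSites (pvkyFl b (pvdyR (K ∪ O) (fun _ => S) η₀ p)) ∩ S := by
      rw [pvic_sites_fl, pvdy_sites_R, hco, hσ, pvic_sites_fl]
      ext z
      have hz : z ∈ S → z ∉ K ∪ O := fun h1 h2 => Set.disjoint_left.1 hd h1 h2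
      simp only [mem_inter_iff, mem_union, Set.mem_sdiff]
      constructor
      · rintro ⟨h1, -, h3⟩
        exact ⟨h1, h3⟩
      · rintro ⟨h1, h3⟩
        rcases h1 with h1 | h1
        · exact ⟨Or.inl h1, h1.1, h3⟩
        · exact absurd h1.2 (hz h3)
    rw [pvic_W_sites ε hs1, pvic_W_fl ε hfr', pvky_fl_fl]
  rw [withDensity_congr_ae hw]
  exact pvic_integral_T b ε (fun p => G.indicator 1 (pvkyFl b (pvdyR (K ∪ O) (fun _ => S) η₀ p)) / pvP ε G * pvdyW ε K (fun _ => S) A (pvdyR (K ∪ O) (fun _ => S) η₀ p))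
    (fun p => X (pvdyR (K ∪ O) (fun _ => S) η₀ p))


/-! ## 4. the numbers of record are the numbers of the engine -/

/-- an end link of 218 with a constant fresh region and a DOOR plug -/
theorem pvic_kyK (kit : PvthKit) (ε : ℝ) (b : Bool) (e : PvkyEnd) {S : Set ℂ} (hy : e.y = fun _ => S) (z : ℂ) {d : ℂ} (hd : ‖d‖ = 1) {η₀ : Conf PvPt} (hfn : PvhyFn η₀)
    (hfin : (cfSites η₀ ∩ S).Finite) (hK : MeasurableSet e.K) (mA : MeasurableSet e.A) (hdis : Disjoint S (e.K ∪ pvl3Door kit z d)) :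
    pvl3K1 ε (pvicEnd b e (pvkyFl b η₀)).K (pvicEnd b e (pvkyFl b η₀)).F (pvicEnd b e (pvkyFl b η₀)).A (pvl3Door kit z d) (kit.G z d) ((pvicEnd b e (pvkyFl b η₀)).X 0) (pvkyFl b η₀)
      = pvkyK kit ε b e z d η₀ := by
  have eX : (pvicEnd b e (pvkyFl b η₀)).X 0 = fun ω => e.X (pvkyFl b ω) := by
    funext ω
    simp [Pvl3End.X, pvicEnd]
  have eF : (pvicEnd b e (pvkyFl b η₀)).F = fun _ => pvicFin S (pvkyFl b η₀) := by
    simp only [pvicEnd, hy]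
  rw [eX, eF]
  show pvl3K1 ε e.K (fun _ => pvicFin S (pvkyFl b η₀)) (pvkyFl b ⁻¹' e.A) (pvl3Door kit z d) (kit.G z d) (fun ω => e.X (pvkyFl b ω)) (pvkyFl b η₀) = _
  rw [pvic_K1 ε b e.X hfn hfin hK mA hdis, pvth_measure_G kit ε z d hd]
  unfold pvkyK pvkyW1 pvkyDoor pvl3Door PvthKit.g
  rw [hy]

/-- an end link of 218 with a constant fresh region and a TRANSLATED region plug `(O, G)` -/
theorem pvic_kyE (ε : ℝ) (b : Bool) (e : PvkyEnd) {S : Set ℂ} (hy : e.y = fun _ => S) (z : ℂ) (O : Set ℂ) (G : Set (Conf PvPt)) {η₀ : Conf PvPt} (hfn : PvhyFn η₀)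
    (hfin : (cfSites η₀ ∩ S).Finite) (hK : MeasurableSet e.K) (mA : MeasurableSet e.A) (hdis : Disjoint S (e.K ∪ pvieSh z O)) :
    pvl3K1 ε (pvicEnd b e (pvkyFl b η₀)).K (pvicEnd b e (pvkyFl b η₀)).F (pvicEnd b e (pvkyFl b η₀)).A (pvthSim z 1 '' O) (cfMap (pvthInv z 1) ⁻¹' G) ((pvicEnd b e (pvkyFl b η₀)).X 0) (pvkyFl b η₀)
      = pvdyHat ε (e.K ∪ pvieSh z O) e.y (fun η => (cfMap (pvthInv z 1) ⁻¹' G).indicator 1 (pvkyFl b η) / pvP ε G * pvdyW ε e.K e.y e.A η) e.X η₀ := by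
  have eX : (pvicEnd b e (pvkyFl b η₀)).X 0 = fun ω => e.X (pvkyFl b ω) := by
    funext ω
    simp [Pvl3End.X, pvicEnd]
  have eF : (pvicEnd b e (pvkyFl b η₀)).F = fun _ => pvicFin S (pvkyFl b η₀) := by
    simp only [pvicEnd, hy]
  have eO : pvthSim z 1 '' O = pvieSh z O := by
    unfold pvieSh
    refine image_congr fun w _ => ?_
    unfold pvthSim
    rw [one_mul]
  have eG : pvP ε (cfMap (pvthInv z 1) ⁻¹' G) = pvP ε G := pvth_measure_G ⟨0, ∅, fun _ => ∅, G, fun _ => ∅⟩ ε z 1 (by simp)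
  rw [eX, eF, eO]
  show pvl3K1 ε e.K (fun _ => pvicFin S (pvkyFl b η₀)) (pvkyFl b ⁻¹' e.A) (pvieSh z O) (cfMap (pvthInv z 1) ⁻¹' G) (fun ω => e.X (pvkyFl b ω)) (pvkyFl b η₀) = _
  rw [pvic_K1 ε b e.X hfn hfin hK mA hdis, eG, hy]

theorem pvic_SA_meas (ε : ℝ) {Wn : Set ℂ} (mW : MeasurableSet Wn) (M : Set (Conf PvPt)) (F : Conf PvPt → ℂ) : MeasurableSet (pvilSA ε Wn M F) := by
  have := (pv_isPpp ε).prob
  exact pvsu_sure_measurable (mW.prod MeasurableSet.univ) _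

theorem pvic_SA_reads (ε : ℝ) (Wn : Set ℂ) (M : Set (Conf PvPt)) (F : Conf PvPt → ℂ) : Conf.Reads (Wn ×ˢ (univ : Set Bool)) (fun η => η ∈ pvilSA ε Wn M F) :=
  pvsu_sure_reads _ _ _

theorem pvic_fin_meas (Z : Set (ℤ × ℤ)) {A : Set (Conf PvPt)} (mA : MeasurableSet A) : MeasurableSet (pvilFin Z A) := by
  unfold pvilFin
  split_ifs
  · exact mA
  · exact MeasurableSet.empty

theorem pvic_fin_reads (Z : Set (ℤ × ℤ)) {A : Set (Conf PvPt)} {W : Set PvPt} (rA : Conf.Reads W (fun η => η ∈ A)) : Conf.Reads W (fun η => η ∈ pvilFin Z A) := by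
  unfold pvilFin
  split_ifs
  · exact rA
  · intro η
    rfl

section act

variable {τ : Type} {c : ℝ} (𝔓 : PvxPar τ c) (𝔈 : PvieEng τ) (hk : ∀ m ε, (𝔈.kit m ε).δ = pvlmDel c m) (hΓ : ∀ m, (𝔓.Γ m).δ = pvlmDel c m)

/-- **`W`** -/
theorem pvic_W (m : ℕ) (ε : ℝ) : (pvicExp 𝔓 𝔈 hk hΓ).W m ε 0 = pvilW 𝔈 m ε := by
  unfold Pvl3Exp.W Pvl3Cells.W pvilW pvicExp
  congr 1
  funext τ η
  simp [pvcnY]

/-- **`kout`** -/
theorem pvic_kout {m : ℕ} {ε : ℝ} {z : ℂ} {t : τ} {ω : PVSample} (hfn : PvhyFn (pvConf ω)) (hfin : (cfSites (pvConf ω) ∩ (pvieSh z (𝔈.oM m t) \ pvilFo 𝔓 m z t (pvConf ω))).Finite)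
    (mK : MeasurableSet (pvieSh z (𝔈.oK m t))) (mW : MeasurableSet (pvilWno 𝔓 𝔈 m ε z t (pvilZo 𝔓 m z t (pvConf ω))))
    (hdis : Disjoint (pvieSh z (𝔈.oM m t)) (pvieSh z (𝔈.oK m t) ∪ pvieDoor 𝔈 m ε (pvieZo 𝔓 m z t) ((𝔓.Γ m).dout t))) :
    (pvicExp 𝔓 𝔈 hk hΓ).koutD (pvicLk 𝔓 𝔈) m ε 0 z t (pvkyFl (𝔓.col t) (pvConf ω)) = pvilKout 𝔓 𝔈 m ε z t ω := by
  have := (pv_isPpp ε).prob
  have h := pvic_kyK (𝔈.kit m ε) ε (𝔓.col t) (pvilEoAt 𝔓 𝔈 m ε pvilQ z t (pvConf ω)) (S := pvieSh z (𝔈.oM m t) \ pvilFo 𝔓 m z t (pvConf ω)) rfl (pvieZo 𝔓 m z t)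
    ((𝔓.Γ m).dout1 t) hfn hfin mK (pvic_fin_meas _ (pvic_SA_meas ε mW _ _)) (hdis.mono_left sdiff_subset)
  unfold pvilKout pvilKoutW
  rw [← h]
  unfold Pvl3Exp.koutD Pvl3Exp.kout
  simp only [Pvl3Exp.on, pvicLk, pvicExp, pvky_fl_fl]
  rfl

/-- **`ke`** -/
theorem pvic_ke {m : ℕ} {ε : ℝ} {z : ℂ} {t : τ} {ω : PVSample} (hfn : PvhyFn (pvConf ω)) (hfin : (cfSites (pvConf ω) ∩ (pvieSh z (𝔈.eM m t) \ pvilFi 𝔓 m z t (pvConf ω))).Finite)
    (mK : MeasurableSet (pvieSh z (𝔈.eK m t))) (mW : MeasurableSet (pvilWne 𝔓 𝔈 m z t (pvilZi 𝔓 m z t (pvConf ω))))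
    (hdis : Disjoint (pvieSh z (𝔈.eM m t)) (pvieSh z (𝔈.eK m t) ∪ pvieSh (pvieZu 𝔓 m z t) (𝔈.rO m))) :
    (pvicExp 𝔓 𝔈 hk hΓ).keD (pvicLk 𝔓 𝔈) m ε 0 z t (pvkyFl (𝔓.col t) (pvConf ω)) = pvilKe 𝔓 𝔈 m ε z t ω := by
  have := (pv_isPpp ε).prob
  have h := pvic_kyE ε (𝔓.col t) (pvilEeAt 𝔓 𝔈 m ε pvilQ z t (pvConf ω)) (S := pvieSh z (𝔈.eM m t) \ pvilFi 𝔓 m z t (pvConf ω)) rfl (pvieZu 𝔓 m z t) (𝔈.rO m) (𝔈.rG m ε)
    hfn hfin mK (pvic_fin_meas _ (pvic_SA_meas ε mW _ _)) (hdis.mono_left sdiff_subset)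
  unfold pvilKe pvilKeW
  have e2 : pvilW1e 𝔓 𝔈 m ε z t (pvilEeAt 𝔓 𝔈 m ε pvilQ z t (pvConf ω)) = fun η => (cfMap (pvthInv (pvieZu 𝔓 m z t) 1) ⁻¹' 𝔈.rG m ε).indicator 1 (pvkyFl (𝔓.col t) η) / pvP ε (𝔈.rG m ε) *
      pvdyW ε (pvilEeAt 𝔓 𝔈 m ε pvilQ z t (pvConf ω)).K (pvilEeAt 𝔓 𝔈 m ε pvilQ z t (pvConf ω)).y (pvilEeAt 𝔓 𝔈 m ε pvilQ z t (pvConf ω)).A η := rfl
  rw [e2, ← h]
  unfold Pvl3Exp.keD Pvl3Exp.ke
  simp only [Pvl3Exp.on, pvicLk, pvicExp, pvky_fl_fl]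
  rfl


theorem pvic_map_id (η : Conf PvPt) : cfMap (pvthInv 0 1) η = η := by
  have e : (Prod.map (pvthInv 0 1) id : PvPt → PvPt) = id := by
    funext p
    refine Prod.ext ?_ rfl
    show (p.1 - 0) / 1 = p.1
    rw [sub_zero, div_one]
  refine Conf.ext ?_
  show Prod.map (pvthInv 0 1) id '' η.pts = η.pts
  rw [e, image_id]

/-- **`kin0`** -/
theorem pvic_kin0 {m : ℕ} {ε : ℝ} (hd : ‖(𝔓.Γ m).din0‖ = 1) (mK : MeasurableSet (𝔈.rK m)) (mW : MeasurableSet (pvilWnr 𝔓 𝔈 m ε))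
    (hdis : Disjoint (pvieDoor 𝔈 m ε (𝔓.Γ m).pin0 (𝔓.Γ m).din0 ∪ 𝔈.rO m) (𝔈.rK m)) :
    (pvicExp 𝔓 𝔈 hk hΓ).kin0 m ε 0 = pvilKin0 𝔓 𝔈 m ε := by
  have := (pv_isPpp ε).prob
  have mA : MeasurableSet (pvilAr 𝔓 𝔈 m ε pvilQ) := pvic_SA_meas ε mW _ _
  have eWin : pvieOr 𝔓 𝔈 m ε ∪ 𝔈.rK m ×ˢ (univ : Set Bool) = pvilWnr 𝔓 𝔈 m ε ×ˢ (univ : Set Bool) := by
    unfold pvieOr pvilWnr
    ext p
    simp only [mem_union, mem_prod, mem_univ, and_true]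
    tauto
  have rA : Conf.Reads (pvieOr 𝔓 𝔈 m ε ∪ 𝔈.rK m ×ˢ (univ : Set Bool)) (fun η => η ∈ pvilAr 𝔓 𝔈 m ε pvilQ) := by
    rw [eWin]
    exact pvic_SA_reads _ _ _ _
  have hd2 : Disjoint (pvieOr 𝔓 𝔈 m ε) (𝔈.rK m ×ˢ (univ : Set Bool)) := by
    unfold pvieOr
    exact Set.disjoint_left.2 fun p h1 h2 => Set.disjoint_left.1 hdis h1.1 h2.1
  have eV := pvl3_aux_V ε mK mA hd2 rA
  have eX : (pvicExp 𝔓 𝔈 hk hΓ).Xr m ε 0 = pvilXr 𝔓 𝔈 m ε pvilQ := by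
    funext η
    simp [Pvl3Exp.Xr, pvicExp]
  unfold Pvl3Exp.kin0 pvl3K2
  rw [eX]
  show ∫ η, pvilXr 𝔓 𝔈 m ε pvilQ η ∂((pvP ε).withDensity fun ω => ((𝔈.kit m ε).G (𝔓.Γ m).pin0 (𝔓.Γ m).din0).indicator 1 ω / pvP ε ((𝔈.kit m ε).G (𝔓.Γ m).pin0 (𝔓.Γ m).din0) *
    ((𝔈.rG m ε).indicator 1 ω / pvP ε (𝔈.rG m ε)) * pvl3V ε (𝔈.rK m) pvl3F0 (pvilAr 𝔓 𝔈 m ε pvilQ) ω) = _
  rw [eV, pvth_measure_G _ ε _ _ hd]
  unfold pvilKin0 pvilKin0W pvilWr PvthKit.g pvieGr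
  simp only [preimage, pvic_map_id]
  rfl


/-- **`kin`** -/
theorem pvic_kin {m : ℕ} {ε : ℝ} {z : ℂ} {t : τ} {ω : PVSample} (hfn : PvhyFn (pvConf ω)) (hfin : (cfSites (pvConf ω) ∩ (pvieSh z (𝔈.iM m t) \ pvilFi 𝔓 m z t (pvConf ω))).Finite)
    (hd : ‖(𝔓.Γ m).din t‖ = 1) (mK : MeasurableSet (pvieSh z (𝔈.iK m t))) (mW : MeasurableSet (pvilWni 𝔓 𝔈 m ε z t (pvilZi 𝔓 m z t (pvConf ω))))
    (hdis : Disjoint (pvieSh z (𝔈.iM m t)) (pvieSh z (𝔈.iK m t) ∪ pvieDoor 𝔈 m ε (pvieZi 𝔓 m z t) ((𝔓.Γ m).din t))) :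
    (pvicExp 𝔓 𝔈 hk hΓ).kinD (pvicLk 𝔓 𝔈) m ε 0 z t (pvkyFl (𝔓.col t) (pvConf ω)) = pvilKin 𝔓 𝔈 m ε z t ω := by
  have := (pv_isPpp ε).prob
  have h := pvic_kyK (𝔈.kit m ε) ε (𝔓.col t) (pvilEiAt 𝔓 𝔈 m ε pvilQ z t (pvConf ω)) (S := pvieSh z (𝔈.iM m t) \ pvilFi 𝔓 m z t (pvConf ω)) rfl (pvieZi 𝔓 m z t)
    hd hfn hfin mK (pvic_fin_meas _ (pvic_SA_meas ε mW _ _)) (hdis.mono_left sdiff_subset)
  unfold pvilKin pvilKinW
  rw [← h]
  unfold Pvl3Exp.kinD Pvl3Exp.kin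
  simp only [Pvl3Exp.on, pvicLk, pvicExp, pvky_fl_fl]
  rfl

end act

/-! ### measurability of the regions -/

theorem pvic_sh_meas (z : ℂ) {S : Set ℂ} (hS : MeasurableSet S) : MeasurableSet (pvieSh z S) :=
  (MeasurableEquiv.addLeft z).measurableSet_image.2 hS

theorem pvic_sim_meas (z : ℂ) {d : ℂ} (hd : d ≠ 0) {S : Set ℂ} (hS : MeasurableSet S) : MeasurableSet (pvthSim z d '' S) := by
  have e : pvthSim z d '' S = (fun w => z + w) '' ((fun w => d * w) '' S) := by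
    rw [image_image]
    rfl
  rw [e]
  exact (MeasurableEquiv.addLeft z).measurableSet_image.2 ((MeasurableEquiv.mulLeft₀ d hd).measurableSet_image.2 hS)

theorem pvic_fat_meas (δ : ℝ) (Z : Set (ℤ × ℤ)) : MeasurableSet (pvilFat δ Z) :=
  MeasurableSet.biUnion (Set.to_countable _) fun _ _ => pvt_sq_closed.measurableSet

end Claimed.Agent.R289
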