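import Claimed.Agent.R289.Tr.Irr
import Claimed.Agent.R289.Tr.InstL
import Claimed.Agent.R289.Defs.GdReg

/-!
# Row 289 (S0537), THE WALL, ROAD E, box TR-CHAINL, file Tr/ChainL : `Tr/ChainI` AT THE NAMES OF RECORD (`Tr/InstL` v2.2, `Defs/GdReg`)      (helper218; prefix `pvkyl_`, `pvkyl`, `Pvkyl`)

`Tr/ChainI` is model free.   THIS FILE = the dictionary for the chain of ONE pattern `π : PvtsPat τ` (per base inputs (B) of the split of 93 for `exit_pvn1a_Y`).   Nothing here looks inside the windows, the plain events, the numerals of `Tr/InstL`.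
* sec. 1  the last door: `pvkyl_last` (`(𝔓.Γ m).Ok π` + the meshes agree);   `pvkyl_door` (`pvieDoor = pvkyDoor`, `rfl`);   **`pvkyl_tiles`** (`pvieTiles = pvkyiTiles`), **`pvkyl_simple`** (`PvieSimple ↔ PvkyiSimple`), **`pvkyl_Cc`** (`pvieCc = pvkyiC`), `pvkyl_mCc`, `pvkyl_win_cfOf`.
* sec. 2  the fields of the end links at base data: `pvkyl_Eo_K _y _Ei_K _y` (`rfl`), `pvkyl_Eo_sub`, `pvkyl_Ei_sub` (fresh sites in the mouths), `pvkyl_Eo_congr`, `pvkyl_Ei_congr` (same base data ⟹ same end).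
* sec. 3  **`pvkyl_gd_o`**, **`pvkyl_gd_i`** : `pvrgFo` / `pvrgFi` (256, the guard of 159) + `pvueSq` (141; 193 `pvsv_sq_oAt`) `⟹ PvkyiGd`.
* sec. 4  the constant: `pvkyl_D_le`, `pvkyl_D_top`.
* sec. 5  **`pvkyl_chain`** : `PvieSimple + PvcnOkQ + dout ^ 4 = 1 + 2 PvueWin + guard + second moments ⟹ PvkyChain` AT THE NAMES OF `PvyjInL` (93: colour `𝔓.col π.ts`, region `pvieCc`, ends `pvilEoAt`, `pvilEiAt`), funnels of record;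
          **`pvkyl_chain_D`** : the same with `∃ fo fi β' q qo qi, pvkeD .. ≤ D ∧ ..` = the clause `chain` of `PvyjIn` at one base.
* sec. 6  the end links as soft ends: `pvkyl_Eo_eX _eA`, `pvkyl_Ei_eX _eA` (inputs `eX eA` of `pvbq_end'` of 141 at a FINITE hull), `pvkyl_Eo_soft`, `pvkyl_Ei_soft` (`PvkyrSoft`);
          **`pvkyl_end_o`**, **`pvkyl_end_i`** : Borel window + generic geometry + ONE plain debt `PvbqPlain` at `y₀ ⊆ mouth \ F` `⟹ PvbqEnd` AND `PvbqBlind` at `y₀` (POCKETS: `y₀ := (mouth \ F) \ i.N`; then `PvkyChain.pvkyr_jb`).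
-/

set_option autoImplicit false
set_option linter.unusedSectionVars false

namespace Claimed.Agent.R289

open MeasureTheory ProbabilityTheory Set
open scoped ENNReal

section dict

variable {τ : Type} {c : ℝ} {𝔓 : PvxPar τ c} {𝔈 : PvieEng τ} {m : ℕ} {ε : ℝ} {π : PvtsPat τ}

/-! ## 1. the list of the regions -/

/-- the last door of the word of a pattern is the entrance door of `s` -/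
theorem pvkyl_last (hπ : (𝔓.Γ m).Ok π) (hδ : (𝔈.kit m ε).δ = (𝔓.Γ m).δ) :
    pvthZ (𝔈.kit m ε).δ (pvieZo 𝔓 m π.zt π.tt) ((𝔓.Γ m).dout π.tt) π.l π.l.length = pvieZi 𝔓 m π.zs π.ts ∧ pvthD ((𝔓.Γ m).dout π.tt) π.l π.l.length = (𝔓.Γ m).din π.ts := by
  rw [pvkyi_Z_last, pvkyi_D_last, hδ, hπ.1, hπ.2]
  refine ⟨?_, rfl⟩
  unfold pvieZi pvieZo
  ring

theorem pvkyl_door (𝔈 : PvieEng τ) (m : ℕ) (ε : ℝ) (z d : ℂ) : pvieDoor 𝔈 m ε z d = pvkyDoor (𝔈.kit m ε) z d := rfl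

/-- **the list of 161 is the list of `Tr/ChainI`** -/
theorem pvkyl_tiles (hπ : (𝔓.Γ m).Ok π) (hδ : (𝔈.kit m ε).δ = (𝔓.Γ m).δ) :
    pvieTiles 𝔓 𝔈 m ε π = pvkyiTiles (𝔈.kit m ε) (pvieZo 𝔓 m π.zt π.tt) ((𝔓.Γ m).dout π.tt) π.l (pvieSh π.zt (𝔈.oK m π.tt)) (pvieSh π.zs (𝔈.iK m π.ts)) := by
  unfold pvieTiles pvkyiTiles
  rw [(pvkyl_last hπ hδ).1, (pvkyl_last hπ hδ).2]
  rfl

theorem pvkyl_simple (hπ : (𝔓.Γ m).Ok π) (hδ : (𝔈.kit m ε).δ = (𝔓.Γ m).δ) :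
    PvieSimple 𝔓 𝔈 m ε π ↔ PvkyiSimple (𝔈.kit m ε) (pvieZo 𝔓 m π.zt π.tt) ((𝔓.Γ m).dout π.tt) π.l (pvieSh π.zt (𝔈.oM m π.tt)) (pvieSh π.zs (𝔈.iM m π.ts))
      (pvieSh π.zt (𝔈.oK m π.tt)) (pvieSh π.zs (𝔈.iK m π.ts)) := by
  unfold PvieSimple PvkyiSimple
  rw [pvkyl_tiles hπ hδ]

theorem pvkyl_Cc (hπ : (𝔓.Γ m).Ok π) (hδ : (𝔈.kit m ε).δ = (𝔓.Γ m).δ) :
    pvieCc 𝔓 𝔈 m ε π = pvkyiC (𝔈.kit m ε) (pvieZo 𝔓 m π.zt π.tt) ((𝔓.Γ m).dout π.tt) π.l (pvieSh π.zt (𝔈.oK m π.tt)) (pvieSh π.zs (𝔈.iK m π.ts)) := by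
  unfold pvieCc pvkyiC
  rw [pvkyl_tiles hπ hδ]

/-- `C_c` is Borel -/
theorem pvkyl_mCc (hπ : (𝔓.Γ m).Ok π) (hδ : (𝔈.kit m ε).δ = (𝔓.Γ m).δ) (hk : (𝔈.kit m ε).WF) (hd : (𝔓.Γ m).dout π.tt ^ 4 = 1) (mo : MeasurableSet (pvieSh π.zt (𝔈.oK m π.tt)))
    (mi : MeasurableSet (pvieSh π.zs (𝔈.iK m π.ts))) : MeasurableSet (pvieCc 𝔓 𝔈 m ε π) := by
  rw [pvkyl_Cc hπ hδ]
  exact pvkyi_measurable_C hk hd mo mi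

/-- a window end at the base `cfOf Y σ` is a window end at every base `cfOf Y σ'` with the same fresh set -/
theorem pvkyl_win_cfOf {Y C D Wn : Set ℂ} {σ σ' : ℂ → Bool} {yf : Conf PvPt → Set ℂ} {e : PvkyEnd} (h : PvueWin (cfOf Y σ) C yf e D Wn) (hy : yf (cfOf Y σ') = yf (cfOf Y σ)) :
    PvueWin (cfOf Y σ') C yf e D Wn := h.pvkyr_sites (by rw [cfOf_sites, cfOf_sites]) hy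

/-! ## 2. the fields of the end links at base data -/

variable {w : ∀ η : Conf PvPt, (delbPl (pvieY η)).Dart → ℂ} {z : ℂ} {t : τ} {η η' : Conf PvPt}

theorem pvkyl_Eo_K (𝔓 : PvxPar τ c) (𝔈 : PvieEng τ) (m : ℕ) (ε : ℝ) (w : ∀ η : Conf PvPt, (delbPl (pvieY η)).Dart → ℂ) (z : ℂ) (t : τ) (η : Conf PvPt) :
    (pvilEoAt 𝔓 𝔈 m ε w z t η).K = pvieSh z (𝔈.oK m t) := rfl

theorem pvkyl_Ei_K (𝔓 : PvxPar τ c) (𝔈 : PvieEng τ) (m : ℕ) (ε : ℝ) (w : ∀ η : Conf PvPt, (delbPl (pvieY η)).Dart → ℂ) (z : ℂ) (t : τ) (η : Conf PvPt) :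
    (pvilEiAt 𝔓 𝔈 m ε w z t η).K = pvieSh z (𝔈.iK m t) := rfl

theorem pvkyl_Eo_y (𝔓 : PvxPar τ c) (𝔈 : PvieEng τ) (m : ℕ) (ε : ℝ) (w : ∀ η : Conf PvPt, (delbPl (pvieY η)).Dart → ℂ) (z : ℂ) (t : τ) (η ζ : Conf PvPt) :
    (pvilEoAt 𝔓 𝔈 m ε w z t η).y ζ = pvieSh z (𝔈.oM m t) \ pvilFo 𝔓 m z t η := rfl

theorem pvkyl_Ei_y (𝔓 : PvxPar τ c) (𝔈 : PvieEng τ) (m : ℕ) (ε : ℝ) (w : ∀ η : Conf PvPt, (delbPl (pvieY η)).Dart → ℂ) (z : ℂ) (t : τ) (η ζ : Conf PvPt) :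
    (pvilEiAt 𝔓 𝔈 m ε w z t η).y ζ = pvieSh z (𝔈.iM m t) \ pvilFi 𝔓 m z t η := rfl

theorem pvkyl_Eo_sub (𝔓 : PvxPar τ c) (𝔈 : PvieEng τ) (m : ℕ) (ε : ℝ) (w : ∀ η : Conf PvPt, (delbPl (pvieY η)).Dart → ℂ) (z : ℂ) (t : τ) (η ζ : Conf PvPt) :
    (pvilEoAt 𝔓 𝔈 m ε w z t η).y ζ ⊆ pvieSh z (𝔈.oM m t) := sdiff_subset

theorem pvkyl_Ei_sub (𝔓 : PvxPar τ c) (𝔈 : PvieEng τ) (m : ℕ) (ε : ℝ) (w : ∀ η : Conf PvPt, (delbPl (pvieY η)).Dart → ℂ) (z : ℂ) (t : τ) (η ζ : Conf PvPt) :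
    (pvilEiAt 𝔓 𝔈 m ε w z t η).y ζ ⊆ pvieSh z (𝔈.iM m t) := sdiff_subset

/-- two bases with the same base data have the same first link -/
theorem pvkyl_Eo_congr (hZ : pvilZo 𝔓 m z t η' = pvilZo 𝔓 m z t η) (hF : pvilFo 𝔓 m z t η' = pvilFo 𝔓 m z t η) : pvilEoAt 𝔓 𝔈 m ε w z t η' = pvilEoAt 𝔓 𝔈 m ε w z t η := by
  unfold pvilEoAt
  rw [hZ, hF]

/-- two bases with the same base data have the same last link -/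
theorem pvkyl_Ei_congr (hZ : pvilZi 𝔓 m z t η' = pvilZi 𝔓 m z t η) (hF : pvilFi 𝔓 m z t η' = pvilFi 𝔓 m z t η) : pvilEiAt 𝔓 𝔈 m ε w z t η' = pvilEiAt 𝔓 𝔈 m ε w z t η := by
  unfold pvilEiAt
  rw [hZ, hF]

/-- success and value of the first link see the hull only -/
theorem pvkyl_Eo_AX (𝔓 : PvxPar τ c) (𝔈 : PvieEng τ) (m : ℕ) (ε : ℝ) (w : ∀ η : Conf PvPt, (delbPl (pvieY η)).Dart → ℂ) (z : ℂ) (t : τ) (Z : Set (ℤ × ℤ)) (F F' : Set ℂ) :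
    (pvilEo 𝔓 𝔈 m ε w z t Z F).A = (pvilEo 𝔓 𝔈 m ε w z t Z F').A ∧ (pvilEo 𝔓 𝔈 m ε w z t Z F).X = (pvilEo 𝔓 𝔈 m ε w z t Z F').X := ⟨rfl, rfl⟩

theorem pvkyl_Ei_AX (𝔓 : PvxPar τ c) (𝔈 : PvieEng τ) (m : ℕ) (ε : ℝ) (w : ∀ η : Conf PvPt, (delbPl (pvieY η)).Dart → ℂ) (z : ℂ) (t : τ) (Z : Set (ℤ × ℤ)) (F F' : Set ℂ) :
    (pvilEi 𝔓 𝔈 m ε w z t Z F).A = (pvilEi 𝔓 𝔈 m ε w z t Z F').A ∧ (pvilEi 𝔓 𝔈 m ε w z t Z F).X = (pvilEi 𝔓 𝔈 m ε w z t Z F').X := ⟨rfl, rfl⟩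

/-! ## 3. the good bases from the guard -/

/-- **the first link**: the named set of 256 + the second moment of 141 / 193 = the good base of `Tr/ChainI` -/
theorem pvkyl_gd_o {q : ℝ≥0∞} (hF : η ∈ pvrgFo 𝔓 𝔈 q m ε z t) (hS : η ∈ pvueSq (𝔈.kit m ε) ε (pvilEoAt 𝔓 𝔈 m ε pvilQ z t η) (pvieZo 𝔓 m z t) ((𝔓.Γ m).dout t)) :
    PvkyiGd (𝔈.kit m ε) ε (𝔓.col t) (pvilEoAt 𝔓 𝔈 m ε pvilQ z t η) (pvieZo 𝔓 m z t) ((𝔓.Γ m).dout t) q η := ⟨hF, hS⟩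

/-- **the last link** -/
theorem pvkyl_gd_i {q : ℝ≥0∞} (hF : η ∈ pvrgFi 𝔓 𝔈 q m ε z t) (hS : η ∈ pvueSq (𝔈.kit m ε) ε (pvilEiAt 𝔓 𝔈 m ε pvilQ z t η) (pvieZi 𝔓 m z t) ((𝔓.Γ m).din t)) :
    PvkyiGd (𝔈.kit m ε) ε (𝔓.col t) (pvilEiAt 𝔓 𝔈 m ε pvilQ z t η) (pvieZi 𝔓 m z t) ((𝔓.Γ m).din t) q η := ⟨hF, hS⟩

end dict

/-! ## 4. the constant -/

section const

variable {kit : PvthKit} {μ : Measure (Conf PvPt)} {β' q qo qi : ℝ≥0∞}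

/-- `D_c` is bounded by a number which does not see `ε` -/
theorem pvkyl_D_le (hF : kit.Forced μ β' q) (n : ℕ) (qo qi : ℝ≥0∞) : pvkeD kit μ n q qo qi ≤ (β'⁻¹) ^ (n + 1) * ((q⁻¹) ^ n * (qi⁻¹ * qo⁻¹)) := by
  unfold pvkeD
  exact mul_le_mul_left (pow_le_pow_left₀ zero_le (ENNReal.inv_le_inv.2 hF.adm) _) _

theorem pvkyl_D_top (hF : kit.Forced μ β' q) (n : ℕ) (qo0 : qo ≠ 0) (qi0 : qi ≠ 0) : (β'⁻¹) ^ (n + 1) * ((q⁻¹) ^ n * (qi⁻¹ * qo⁻¹)) ≠ ∞ :=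
  ENNReal.mul_ne_top (ENNReal.pow_ne_top (ENNReal.inv_ne_top.2 hF.β0))
    (ENNReal.mul_ne_top (ENNReal.pow_ne_top (ENNReal.inv_ne_top.2 hF.q0)) (ENNReal.mul_ne_top (ENNReal.inv_ne_top.2 qi0) (ENNReal.inv_ne_top.2 qo0)))

end const

/-! ## 5. the chain record at the names of record -/

section chain

variable {τ : Type} {c : ℝ} {𝔓 : PvxPar τ c} {𝔈 : PvieEng τ} {m : ℕ} {ε : ℝ} {π : PvtsPat τ} {η : Conf PvPt} {yf : Conf PvPt → Set ℂ} {Wo Wi : Set ℂ} {β' q B qo qi : ℝ≥0∞} {r : ℝ}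

/-- **THE CHAIN RECORD OF ONE PATTERN AT ONE BASE, AT THE NAMES OF `PvyjInL`** -/
theorem pvkyl_chain (hπ : (𝔓.Γ m).Ok π) (hδ : (𝔈.kit m ε).δ = (𝔓.Γ m).δ) (hc : 𝔓.col π.ts = 𝔓.col π.tt) (hS : PvieSimple 𝔓 𝔈 m ε π)
    (hk : PvcnOkQ (𝔈.kit m ε) ε (𝔈.XQ m ε) β' q B r) (hd : (𝔓.Γ m).dout π.tt ^ 4 = 1)
    (wo : PvueWin η (pvieCc 𝔓 𝔈 m ε π) yf (pvilEoAt 𝔓 𝔈 m ε pvilQ π.zt π.tt η) (pvieDoor 𝔈 m ε (pvieZo 𝔓 m π.zt π.tt) ((𝔓.Γ m).dout π.tt)) Wo)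
    (wi : PvueWin η (pvieCc 𝔓 𝔈 m ε π) yf (pvilEiAt 𝔓 𝔈 m ε pvilQ π.zs π.ts η) (pvieDoor 𝔈 m ε (pvieZi 𝔓 m π.zs π.ts) ((𝔓.Γ m).din π.ts)) Wi)
    (qo0 : qo ≠ 0) (qo1 : qo ≤ 1) (qi0 : qi ≠ 0) (qi1 : qi ≤ 1) (Fo : η ∈ pvrgFo 𝔓 𝔈 qo m ε π.zt π.tt) (Fi : η ∈ pvrgFi 𝔓 𝔈 qi m ε π.zs π.ts)
    (So : η ∈ pvueSq (𝔈.kit m ε) ε (pvilEoAt 𝔓 𝔈 m ε pvilQ π.zt π.tt η) (pvieZo 𝔓 m π.zt π.tt) ((𝔓.Γ m).dout π.tt))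
    (Si : η ∈ pvueSq (𝔈.kit m ε) ε (pvilEiAt 𝔓 𝔈 m ε pvilQ π.zs π.ts η) (pvieZi 𝔓 m π.zs π.ts) ((𝔓.Γ m).din π.ts)) :
    PvkyChain (𝔈.kit m ε) ε (𝔓.col π.ts) (𝔈.XQ m ε) (pvieZo 𝔓 m π.zt π.tt) ((𝔓.Γ m).dout π.tt) π.l η (pvieCc 𝔓 𝔈 m ε π) yf (pvilEoAt 𝔓 𝔈 m ε pvilQ π.zt π.tt η) (pvilEiAt 𝔓 𝔈 m ε pvilQ π.zs π.ts η)
      (pvkyiFun (𝔈.kit m ε) ε (𝔓.col π.ts) (pvieCc 𝔓 𝔈 m ε π) yf η (pvilEoAt 𝔓 𝔈 m ε pvilQ π.zt π.tt η) (pvieZo 𝔓 m π.zt π.tt) ((𝔓.Γ m).dout π.tt) qo)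
      (pvkyiFun (𝔈.kit m ε) ε (𝔓.col π.ts) (pvieCc 𝔓 𝔈 m ε π) yf η (pvilEiAt 𝔓 𝔈 m ε pvilQ π.zs π.ts η) (pvieZi 𝔓 m π.zs π.ts) ((𝔓.Γ m).din π.ts) qi) β' q qo qi := by
  have go := pvkyl_gd_o Fo So
  have gi := pvkyl_gd_i Fi Si
  rw [← hc] at go
  obtain ⟨eZ, eD⟩ := pvkyl_last (𝔈 := 𝔈) (ε := ε) hπ hδ
  rw [← eZ, ← eD] at wi gi ⊢
  rw [pvkyl_Cc hπ hδ] at wo wi ⊢
  exact pvkyi_chain ((pvkyl_simple hπ hδ).1 hS) hk hd wo wi (pvkyl_Eo_sub 𝔓 𝔈 m ε pvilQ π.zt π.tt η η) (pvkyl_Ei_sub 𝔓 𝔈 m ε pvilQ π.zs π.ts η η) qo0 qo1 qi0 qi1 go gi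

/-- **THE CLAUSE `chain` OF `PvyjIn` AT ONE BASE** -/
theorem pvkyl_chain_D (hπ : (𝔓.Γ m).Ok π) (hδ : (𝔈.kit m ε).δ = (𝔓.Γ m).δ) (hc : 𝔓.col π.ts = 𝔓.col π.tt) (hS : PvieSimple 𝔓 𝔈 m ε π)
    (hk : PvcnOkQ (𝔈.kit m ε) ε (𝔈.XQ m ε) β' q B r) (hd : (𝔓.Γ m).dout π.tt ^ 4 = 1)
    (wo : PvueWin η (pvieCc 𝔓 𝔈 m ε π) yf (pvilEoAt 𝔓 𝔈 m ε pvilQ π.zt π.tt η) (pvieDoor 𝔈 m ε (pvieZo 𝔓 m π.zt π.tt) ((𝔓.Γ m).dout π.tt)) Wo)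
    (wi : PvueWin η (pvieCc 𝔓 𝔈 m ε π) yf (pvilEiAt 𝔓 𝔈 m ε pvilQ π.zs π.ts η) (pvieDoor 𝔈 m ε (pvieZi 𝔓 m π.zs π.ts) ((𝔓.Γ m).din π.ts)) Wi)
    (qo0 : qo ≠ 0) (qo1 : qo ≤ 1) (qi0 : qi ≠ 0) (qi1 : qi ≤ 1) (Fo : η ∈ pvrgFo 𝔓 𝔈 qo m ε π.zt π.tt) (Fi : η ∈ pvrgFi 𝔓 𝔈 qi m ε π.zs π.ts)
    (So : η ∈ pvueSq (𝔈.kit m ε) ε (pvilEoAt 𝔓 𝔈 m ε pvilQ π.zt π.tt η) (pvieZo 𝔓 m π.zt π.tt) ((𝔓.Γ m).dout π.tt))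
    (Si : η ∈ pvueSq (𝔈.kit m ε) ε (pvilEiAt 𝔓 𝔈 m ε pvilQ π.zs π.ts η) (pvieZi 𝔓 m π.zs π.ts) ((𝔓.Γ m).din π.ts)) :
    ∃ (fo fi : PvkeFun ℂ) (β₁ q₁ qo₁ qi₁ : ℝ≥0∞), pvkeD (𝔈.kit m ε) (pvP ε) π.l.length q₁ qo₁ qi₁ ≤ (β'⁻¹) ^ (π.l.length + 1) * ((q⁻¹) ^ π.l.length * (qi⁻¹ * qo⁻¹)) ∧
      PvkyChain (𝔈.kit m ε) ε (𝔓.col π.ts) (𝔈.XQ m ε) (pvieZo 𝔓 m π.zt π.tt) ((𝔓.Γ m).dout π.tt) π.l η (pvieCc 𝔓 𝔈 m ε π) yf (pvilEoAt 𝔓 𝔈 m ε pvilQ π.zt π.tt η) (pvilEiAt 𝔓 𝔈 m ε pvilQ π.zs π.ts η)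
        fo fi β₁ q₁ qo₁ qi₁ :=
  ⟨_, _, β', q, qo, qi, pvkyl_D_le hk.frc _ _ _, pvkyl_chain hπ hδ hc hS hk hd wo wi qo0 qo1 qi0 qi1 Fo Fi So Si⟩

end chain

/-! ## 6. the two end links as soft ends: the inputs `eX eA cst` of `pvbq_end'` (141), `pvkyr_end_pk` (pockets), at a FINITE hull -/

section soft

variable {τ : Type} {c : ℝ} (𝔓 : PvxPar τ c) (𝔈 : PvieEng τ) (m : ℕ) (ε : ℝ) (w : ∀ η : Conf PvPt, (delbPl (pvieY η)).Dart → ℂ) (z : ℂ) (t : τ) (Z : Set (ℤ × ℤ)) (F : Set ℂ)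

theorem pvkyl_Eo_eX : (pvilEo 𝔓 𝔈 m ε w z t Z F).X =
    pvsuLoc (pvP ε) (pvilWno 𝔓 𝔈 m ε z t Z ×ˢ univ) ((pvilMo 𝔓 𝔈 m ε z t Z).indicator ((pvilLo 𝔓 𝔈 m z t).X 𝔓.num (𝔓.col t) w)) := rfl

theorem pvkyl_Ei_eX : (pvilEi 𝔓 𝔈 m ε w z t Z F).X =
    pvsuLoc (pvP ε) (pvilWni 𝔓 𝔈 m ε z t Z ×ˢ univ) ((pvilMi 𝔓 𝔈 m ε z t Z).indicator ((pvilLi 𝔓 𝔈 m z t).X 𝔓.num (𝔓.col t) w)) := rfl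

variable {Z}

theorem pvkyl_Eo_eA (hZ : Z.Finite) : (pvilEo 𝔓 𝔈 m ε w z t Z F).A =
    pvsuSure (pvP ε) (pvilWno 𝔓 𝔈 m ε z t Z ×ˢ univ) (pvilMo 𝔓 𝔈 m ε z t Z ∩ {η | (pvilLo 𝔓 𝔈 m z t).X 𝔓.num (𝔓.col t) w η = (pvilEo 𝔓 𝔈 m ε w z t Z F).X η}) := by
  show pvilFin Z _ = _
  unfold pvilFin
  rw [if_pos hZ]
  rfl

theorem pvkyl_Ei_eA (hZ : Z.Finite) : (pvilEi 𝔓 𝔈 m ε w z t Z F).A =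
    pvsuSure (pvP ε) (pvilWni 𝔓 𝔈 m ε z t Z ×ˢ univ) (pvilMi 𝔓 𝔈 m ε z t Z ∩ {η | (pvilLi 𝔓 𝔈 m z t).X 𝔓.num (𝔓.col t) w η = (pvilEi 𝔓 𝔈 m ε w z t Z F).X η}) := by
  show pvilFin Z _ = _
  unfold pvilFin
  rw [if_pos hZ]
  rfl

variable (Z)

/-- the first link is a soft end of `Tr/Irr` (any hull) -/
theorem pvkyl_Eo_soft : PvkyrSoft ε (pvilEo 𝔓 𝔈 m ε w z t Z F) (pvilWno 𝔓 𝔈 m ε z t Z) (pvilMo 𝔓 𝔈 m ε z t Z) ((pvilLo 𝔓 𝔈 m z t).X 𝔓.num (𝔓.col t) w) where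
  A_eq := by
    by_cases hZ : Z.Finite
    · exact Or.inl (pvkyl_Eo_eA 𝔓 𝔈 m ε w z t F hZ)
    · refine Or.inr ?_
      show pvilFin Z _ = _
      unfold pvilFin
      rw [if_neg hZ]
  X_eq := rfl

/-- the last link is a soft end of `Tr/Irr` (any hull) -/
theorem pvkyl_Ei_soft : PvkyrSoft ε (pvilEi 𝔓 𝔈 m ε w z t Z F) (pvilWni 𝔓 𝔈 m ε z t Z) (pvilMi 𝔓 𝔈 m ε z t Z) ((pvilLi 𝔓 𝔈 m z t).X 𝔓.num (𝔓.col t) w) where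
  A_eq := by
    by_cases hZ : Z.Finite
    · exact Or.inl (pvkyl_Ei_eA 𝔓 𝔈 m ε w z t F hZ)
    · refine Or.inr ?_
      show pvilFin Z _ = _
      unfold pvilFin
      rw [if_neg hZ]
  X_eq := rfl

variable {𝔓 𝔈 m ε w z t Z F} {C D Y Fz y₀ : Set ℂ} {σ : ℂ → Bool} {p : Conf PvPt → Prop}

/-- **THE FIRST LINK IS A BLIND END (141), ALSO AT THE SMALLER FRESH SET `y₀` (POCKETS)**: finite hull, Borel window, generic geometry, ONE plain debt -/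
theorem pvkyl_end_o (hZ : Z.Finite) (hW : MeasurableSet (pvilWno 𝔓 𝔈 m ε z t Z)) (mKD : MeasurableSet (pvieSh z (𝔈.oK m t) ∪ D)) (dis : ∀ v ∈ Y, v ∈ Fz → v ∉ pvieSh z (𝔈.oM m t) \ F)
    (win : C ∩ pvilWno 𝔓 𝔈 m ε z t Z = (pvieSh z (𝔈.oK m t) ∪ D) ∩ pvilWno 𝔓 𝔈 m ε z t Z) (hG : pvbqGen ε C (pvilWno 𝔓 𝔈 m ε z t Z) p Y)
    (h1 : ∀ ζ, p ζ → pvbqOk (pvP ε) (pvilMo 𝔓 𝔈 m ε z t Z ∩ {η | (pvilLo 𝔓 𝔈 m z t).X 𝔓.num (𝔓.col t) w η = (pvilEo 𝔓 𝔈 m ε w z t Z F).X η})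
      ((pvilMo 𝔓 𝔈 m ε z t Z).indicator ((pvilLo 𝔓 𝔈 m z t).X 𝔓.num (𝔓.col t) w)) ζ)
    (hy : ∀ v ∈ Y, v ∈ y₀ → v ∈ pvieSh z (𝔈.oM m t) \ F)
    (hP : PvbqPlain C (pvilWno 𝔓 𝔈 m ε z t Z) p (pvilMo 𝔓 𝔈 m ε z t Z) ((pvilLo 𝔓 𝔈 m z t).X 𝔓.num (𝔓.col t) w) Y Fz y₀ σ) :
    PvbqEnd ε C D (pvilEo 𝔓 𝔈 m ε w z t Z F) Y Fz σ ∧ PvbqBlind ε C (pvilEo 𝔓 𝔈 m ε w z t Z F).A (pvilEo 𝔓 𝔈 m ε w z t Z F).X Y Fz y₀ σ :=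
  pvkyr_end_pk hW mKD (pvkyl_Eo_eX 𝔓 𝔈 m ε w z t Z F) (pvkyl_Eo_eA 𝔓 𝔈 m ε w z t F hZ) (fun _ _ => rfl) dis win hG h1 hy hP

/-- **THE LAST LINK IS A BLIND END (141), ALSO AT THE SMALLER FRESH SET `y₀` (POCKETS)** -/
theorem pvkyl_end_i (hZ : Z.Finite) (hW : MeasurableSet (pvilWni 𝔓 𝔈 m ε z t Z)) (mKD : MeasurableSet (pvieSh z (𝔈.iK m t) ∪ D)) (dis : ∀ v ∈ Y, v ∈ Fz → v ∉ pvieSh z (𝔈.iM m t) \ F)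
    (win : C ∩ pvilWni 𝔓 𝔈 m ε z t Z = (pvieSh z (𝔈.iK m t) ∪ D) ∩ pvilWni 𝔓 𝔈 m ε z t Z) (hG : pvbqGen ε C (pvilWni 𝔓 𝔈 m ε z t Z) p Y)
    (h1 : ∀ ζ, p ζ → pvbqOk (pvP ε) (pvilMi 𝔓 𝔈 m ε z t Z ∩ {η | (pvilLi 𝔓 𝔈 m z t).X 𝔓.num (𝔓.col t) w η = (pvilEi 𝔓 𝔈 m ε w z t Z F).X η})
      ((pvilMi 𝔓 𝔈 m ε z t Z).indicator ((pvilLi 𝔓 𝔈 m z t).X 𝔓.num (𝔓.col t) w)) ζ)
    (hy : ∀ v ∈ Y, v ∈ y₀ → v ∈ pvieSh z (𝔈.iM m t) \ F)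
    (hP : PvbqPlain C (pvilWni 𝔓 𝔈 m ε z t Z) p (pvilMi 𝔓 𝔈 m ε z t Z) ((pvilLi 𝔓 𝔈 m z t).X 𝔓.num (𝔓.col t) w) Y Fz y₀ σ) :
    PvbqEnd ε C D (pvilEi 𝔓 𝔈 m ε w z t Z F) Y Fz σ ∧ PvbqBlind ε C (pvilEi 𝔓 𝔈 m ε w z t Z F).A (pvilEi 𝔓 𝔈 m ε w z t Z F).X Y Fz y₀ σ :=
  pvkyr_end_pk hW mKD (pvkyl_Ei_eX 𝔓 𝔈 m ε w z t Z F) (pvkyl_Ei_eA 𝔓 𝔈 m ε w z t F hZ) (fun _ _ => rfl) dis win hG h1 hy hP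

end soft

end Claimed.Agent.R289
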