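-- KEEP
import Claimed.Agent.R289.Tr.Arc
import Claimed.Agent.R289.Tr.LaneDet
import Claimed.Agent.R289.Tr.StKit
import Claimed.Agent.R289.Tr.OneWall
import Claimed.Agent.R289.Tr.Geo
import Claimed.Agent.R289.Del.Bulk
import Claimed.Agent.R289.Tr.C12

/-!
# Row 289 (S0537, Cardy for Poisson-Voronoi), THE WALL, road E, file Tr/DatC2 : T8 = (C1) + (C2) + INJ OF N1'      (helper227; ruling 8 D of 234; prefix `pvc2_`, defs `pvc2…`)

Text: `origin/helper208:notes/R289/W1_208.md` sec. 2 (C1) (C2), `origin/helper78:notes/R289/W2ref_78.md` sec. 5 (proof of T8, repairs G1-G3), FACED form of 6 (`Tr/Arc.lean`), closing of 202 (`Tr/Close.lean`).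

PART A (sec. 1-4) = THE FRAME, NO DATUM, NO GEOMETRY.      `a₀ = dp(s)`, `a₁ = dm(t)` positions (darts black → white);   the strand from `a₁` reaches `a₀` (inner(t), `Σ⁺(t)`, new strand, `Σ⁻(s)`, inner(s));
`g` = the free arc `g₀ : src a₀ → src a₁`, black;   `R` = the complementary black arc `src a₁ → src a₀`, globally faced;   `YC` = the class YCL;   WHITE JOIN off `YC` from `tgt a₁` to `tgt a₀` (white banks + `WO`);
`N_g` = every right apex of `g` is joined by a white path off `YC`, off `g`, to the anchor `ρ` or to the layer `pvc2Lay T YC` (the sites off `YC` which touch `YC`).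
**`pvc2_frame`**: then `g ∪ R` carries ONE label, its tags are the right triangles of `g` and `R`, and the label sum splits.
No sweep, no sector, no finiteness, no converse of "no right bypass":   `Z := g · a₁ · (white path) · opp a₀` has two occupied edges, so the strand `a₁ → a₀` stays on its left (`pvc2_left`);  `YC` hangs on a face of that strand and misses `Z`, so it lies strictly on the left;
a white path from a right apex of `g` to a site touching `YC` therefore meets the white part of `Z` (`pvc2_shield`).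

PART A bis (sec. 4bis) = THE FRAME FOR A SET `U` OF READ SITES (V1 of 145):   `pvc2_shield2` (a white path from a right apex of `g` meets the shield or ends in `Int Z.Right`),   **`pvc2_gfaced_U`** (`g`, shield `q` GIVEN, `q` may meet `Uᶜ`; `g.verts ⊆ U`; G1' : `Int Z.Right ⊆ U`;
`pvtaN g σ U ({ρ} ∪ layer of U)` ⟹ `g.GFaced σ ρ`),   `pvc2_join_left` (a site joined OFF `Z` to a vertex off `Z` of a face crossed by the strand `a₁ → a₀` lies in `Int Z.Left`).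

PART B (sec. 5-9) = THE DATUM OF RECORD, `Tr/Defs` v3 (main e1517fba99, FROZEN), `NB` = THE FACED FORM ON `NU`.      `hins : Disjoint s.ins t.ins` (producers `pvc2_ins_disj`: `(b_s + b_t) h ≤ |z_s - z_t|`; `pvc2_ins_of_core`);   `hπ : π.Wf`.
* `pvc2K` (sites no shield can use), `pvc2Sh` (shield sites: white, frozen by `D_Y` or over `Yout`), **`Pvc2Col 𝔇 pos π`** = THE TWO GEOMETRIC HYPOTHESES OF G1', NO COLOUR: `fz` (no frozen site of `D_Y` over `Ycol`), `col` (every site over `Ycol` is joined to `YCL` inside `pvc2K`);   void if `Ycol = ∅` (`pvc2_col_of_empty`)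
* `pvc2_le_dart`, `pvc2_le_gfaced`, `pvc2_inn_gfaced`, `pvc2_anc`      loop erasures of black banks are globally faced; the anchor of `NB`
* `pvc2_times`      the strand `dm(t) → dp(s)` arrives for the first time after `nt + n + ns` steps;      `pvc2_hang`: `YCL` hangs on it;      `pvc2_nu_join`: `NUᶜ` (class `YC0` + sites over `Ycol`) hangs on `YCL` inside `pvc2K`
* `pvc2_white`, `pvc2_shield_exists`      `Ok + Cyl + WO ⟹` a shield `q` (first dart `dm(t)`, last dart `opp dp(s)`, inner vertices in `pvc2Sh`)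
* **`pvc2_g1U`**    G1' PROVED for EVERY shield: `NUᶜ ⊆ Int Z.Left`, `Int Z.Right ⊆ NU`      (the same debt for the sector form `NBon M`, `M ⊆ NU`, of 78 / 145 / 148);      `pvc2_g1` = the `YCL` part, no hypothesis on `Ycol`
* **`pvc2_C1`**     (C1) `Actual ⟹ NB`, no further hypothesis
* **`pvc2_g_gfaced`, `pvc2_g_onwall`, `pvc2_C2_arc`**      (C2): `Wf, Ok, Cyl, NB, WO, YArc y, hins, Pvc2Col, hdist (G2) ⟹ P' = g₀ · inn t · y · inn s` is ONE label, `lsum` = the four `psum`.      No G3 (finiteness), no sectors.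
PART C (sec. 10-11) = PRODUCERS OF `Pvc2Col`, BRIDGE TO `Tr/C12` v3.
* `pvc2_cross`, `pvc2_cross_ycl`      (any map) THE NEW STRAND CROSSES THE LANES: `Yin ⊆ Ycol ∪ Bt ∪ Bs`, tip darts over `Bt`, `Bs`, no edge `Bt - Bs` ⟹ on `SY` some `YCL` site lies over `Ycol`;      `pvc2_col_of_conn`
* **`pvc2_Col`**      `Pvc2Col ⟹ PvwDat.Col` = `hcol` of `pvwc_C2_arc`, `pvwc_C2`, `pvwc_C2_rim`, `pvwf_C2`, `pvwf_C2_rim` (194)
* **`pvc2_col_plane`, `pvc2_col_model`, `pvc2_Col_model`**      AT THE MODEL (`(delbPl Y).toMap`, `pos = val`, `DelGood Y`): REGIONS `Ycol` preconnected, `vorNbd Ycol r ⊆ Yreg`, off `Yout`, `Yin ⊆ Ycol ∪` the two mouths, mouths `> ρ h + 2 r` apart;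
  GEOMETRY mesh `r` on `Ycol` and round the mouth of `t`, no frozen site of `D_Y` in `vorNbd Ycol r` (FIT);   COLOUR only through `Cyl`, `SY`.      K1 of 29 (`pvge_K1`), `pvge_adj_short`.
-/

set_option autoImplicit false

namespace Claimed.Agent.R289

open Relation

variable {V D : Type} {T : PvMap V D}

/-! ## 0. definitions -/

/-- the LAYER of `YC`: the sites off `YC` which touch `YC` (= the boundary layer of `U = YCᶜ`) -/
def pvc2Lay (T : PvMap V D) (YC : Set V) : Set V := {u | u ∉ YC ∧ ∃ w ∈ YC, T.Adj u w}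

/-- `YC` HANGS on the strand `a, pvasStep a, …` (`N` steps): every site of `YC` is joined inside `YC` to a vertex (in `YC`) of a face crossed by the strand -/
def Pvc2Hang (T : PvMap V D) (σ : V → Bool) (a : D) (N : ℕ) (YC : Set V) : Prop :=
  ∀ v ∈ YC, ∃ f ∈ pvasFc T σ a N, T.src f ∈ YC ∧ ReflTransGen (fun u w => T.Adj u w ∧ w ∈ YC) (T.src f) v

theorem pvc2_eqns_cite : True := by
  have := @pvc2Lay.eq_1; have := @Pvc2Hang.eq_1
  trivial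

/-- the layer is a boundary layer of the complement (hypothesis `hΛ` of `pvta_act`, `pvta_cut`) -/
theorem pvc2_lay_bd (YC : Set V) : ∀ u, u ∈ YCᶜ → u ∉ pvc2Lay T YC → ∀ w, T.Adj u w → w ∈ YCᶜ :=
  fun _ hu hl w hw hc => hl ⟨hu, w, hc, hw⟩

/-! ## 1. the strand stays on the left of a cycle with two occupied edges -/

/-- `Z` a cycle whose only occupied darts are `a₁` and `opp a₀`: the strand from `a₁` stays in `Z.Left` as long as it has not reached `a₀` -/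
theorem pvc2_left (hT : T.IsSph) (Z : T.Cyc) {σ : V → Bool} {a₀ a₁ : D} (h1 : pvasBW T σ a₁) (ha1 : a₁ ∈ Z.darts)
    (hocc : ∀ d ∈ Z.darts, T.Occ σ d → d = a₁ ∨ d = T.opp a₀) :
    ∀ i, (∀ j, j ≤ i → pvasIt T σ a₁ j ≠ a₀) → pvasIt T σ a₁ i ∈ Z.Left := by
  obtain ⟨hR, hL, -, -⟩ := pl_jordan hT Z
  have hF := pl_left_face Z
  intro i
  induction i with
  | zero =>
    intro _
    obtain ⟨j, rfl⟩ := ha1
    exact hL j
  | succ i ih =>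
    intro hne
    have hd := ih fun j hj => hne j (by omega)
    have hbw' : pvasBW T σ (pvasIt T σ a₁ (i + 1)) := pvas_it_bw h1 _
    have hsf : T.SF (pvasIt T σ a₁ i) (T.opp (pvasIt T σ a₁ (i + 1))) := by
      rw [pvas_it_succ]; exact pvas_step_sf σ _
    have he : T.opp (pvasIt T σ a₁ (i + 1)) ∈ Z.Left := (hF.sf T hsf).2 hd
    by_cases hE : T.Edg Z.darts (T.opp (pvasIt T σ a₁ (i + 1)))
    · rcases hE with hE | hE
      · exfalso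
        have ho : T.Occ σ (T.opp (pvasIt T σ a₁ (i + 1))) := pvas_occ_iff.2 (Or.inr (by rw [T.opp_opp]; exact hbw'))
        rcases hocc _ hE ho with e | e
        · rw [← e] at h1
          exact pvas_bw_not_opp hbw' h1
        · exact hne (i + 1) le_rfl (T.opp_injective e)
      · rw [T.opp_opp] at hE
        obtain ⟨j, hj⟩ := hE
        rw [← hj]
        exact hL j
    · rcases pl_edge_side hT Z hE with h | h
      · have := h.2
        rwa [T.opp_opp] at this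
      · have := h.1
        rw [hR] at this
        exact absurd he this

/-- the faces crossed before the first visit of `a₀` lie on the left -/
theorem pvc2_fc_left (hT : T.IsSph) (Z : T.Cyc) {σ : V → Bool} {a₀ a₁ : D} (h1 : pvasBW T σ a₁) (ha1 : a₁ ∈ Z.darts)
    (hocc : ∀ d ∈ Z.darts, T.Occ σ d → d = a₁ ∨ d = T.opp a₀) {N : ℕ} (hN : ∀ i, i < N → pvasIt T σ a₁ i ≠ a₀) : pvasFc T σ a₁ N ⊆ Z.Left := by
  rintro f ⟨i, hi, hsf⟩
  exact ((pl_left_face Z).sf T hsf).2 (pvc2_left hT Z h1 ha1 hocc i fun j hj => hN j (by omega))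

/-! ## 2. the shield -/

/-- **SHIELD**: `Z = g ∪ q`, `g` black.   A white path from a right apex of `g` to a vertex on `Z` or strictly on its left meets an inner vertex of `q` -/
theorem pvc2_shield (hT : T.IsSph) {s : V → Bool} (g q : T.Pth) (hgq : g.Glue q) (hg : pvtaB g s) {k : ℕ} (hk : k < g.n) {a : V}
    (ha : a ∈ (g.glue q hgq).verts ∨ a ∈ T.Int (g.glue q hgq).Left) (hj : T.Join Set.univ {v | s v = false} (g.rap k) a) :
    ∃ j, 0 < j ∧ j < q.n ∧ T.Mono s (g.rap k) (q.v j) := by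
  obtain ⟨hRL, -, hO, -⟩ := pl_jordan hT (g.glue q hgq)
  obtain ⟨-, hdis2, hdis⟩ := pl_jordan_vert_disj hT (g.glue q hgq)
  have hoffR : ∀ c, c ∉ (g.glue q hgq).verts → ∀ d, T.src d = c → ¬ T.Bd (g.glue q hgq).Right d :=
    fun c hc d hd hb => pl_cyc_off _ (hd ▸ hc) (pl_right_bd_sub _ hb)
  have hx0 : s (g.rap k) = false := hj.1
  have key : ∀ b, ReflTransGen (fun u v => T.EdgeIn Set.univ u v ∧ v ∈ {v | s v = false}) (g.rap k) b →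
      (∃ j, 0 < j ∧ j < q.n ∧ T.Mono s (g.rap k) (q.v j)) ∨ (T.Mono s (g.rap k) b ∧ s b = false ∧ b ∈ T.Int (g.glue q hgq).Right) := by
    intro b hb
    induction hb with
    | refl =>
      rcases pl_jordan_vert hT (g.glue q hgq) (g.rap k) with h1 | h1 | h1
      · obtain ⟨j, j0, j1, e⟩ := pvta_white_on g q hgq hg h1 hx0
        exact Or.inl ⟨j, j0, j1, e ▸ ReflTransGen.refl⟩
      · exfalso
        have h2 : T.opp (g.e k) ∈ (g.glue q hgq).Right := by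
          rw [← pl_pth_glue_e1 g q hgq hk]
          exact hO k
        have h3 : T.nxt (T.nxt (T.opp (g.e k))) ∈ (g.glue q hgq).Right := ((pl_right_face _).nxt2 T _).2 h2
        have h4 := h1 (T.nxt (T.nxt (T.opp (g.e k)))) rfl
        rw [hRL] at h3
        exact h3 h4
      · exact Or.inr ⟨ReflTransGen.refl, hx0, h1⟩
    | @tail b c _ hbc ih =>
      rcases ih with ih | ⟨m1, m2, m3⟩
      · exact Or.inl ih
      · obtain ⟨⟨d, -, hd1, hd2⟩, hc⟩ := hbc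
        have hc' : s c = false := hc
        have hadj : T.Adj b c := ⟨d, hd1, hd2⟩
        have hm : T.Mono s (g.rap k) c := m1.tail ⟨hadj, m2.trans hc'.symm⟩
        by_cases hcZ : c ∈ (g.glue q hgq).verts
        · obtain ⟨j, j0, j1, e⟩ := pvta_white_on g q hgq hg hcZ hc'
          exact Or.inl ⟨j, j0, j1, e ▸ hm⟩
        · exact Or.inr ⟨hm, hc', pl_int_adj hT (pl_right_face _) m3 hadj (hoffR c hcZ)⟩
  rcases key a hj.2 with h1 | ⟨-, -, h1⟩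
  · exact h1
  · rcases ha with ha | ha
    · exact absurd h1 (Set.disjoint_left.1 hdis2 ha)
    · exact absurd h1 (Set.disjoint_left.1 hdis ha)

/-! ## 3. the white side of the shield as a simple path -/

theorem pvc2_snoc_v1 (p : T.Pth) (d : D) (hs : T.src d = p.v p.n) (hn : T.tgt d ∉ p.verts) {k : ℕ} (hk : k ≤ p.n) : (p.snoc d hs hn).v k = p.v k := if_pos hk
theorem pvc2_snoc_v2 (p : T.Pth) (d : D) (hs : T.src d = p.v p.n) (hn : T.tgt d ∉ p.verts) : (p.snoc d hs hn).v (p.n + 1) = T.tgt d := if_neg (by omega)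
theorem pvc2_snoc_e2 (p : T.Pth) (d : D) (hs : T.src d = p.v p.n) (hn : T.tgt d ∉ p.verts) : (p.snoc d hs hn).e p.n = d := if_neg (lt_irrefl _)
theorem pvc2_cons_v0 (p : T.Pth) (d : D) (ht : T.tgt d = p.v 0) (hn : T.src d ∉ p.verts) : (pvldCons p d ht hn).v 0 = T.src d := by
  show (if (0 : ℕ) = 0 then T.src d else p.v (0 - 1)) = T.src d
  rw [if_pos rfl]
theorem pvc2_cons_vs (p : T.Pth) (d : D) (ht : T.tgt d = p.v 0) (hn : T.src d ∉ p.verts) (k : ℕ) : (pvldCons p d ht hn).v (k + 1) = p.v k := by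
  show (if k + 1 = 0 then T.src d else p.v (k + 1 - 1)) = p.v k
  rw [if_neg (by omega), Nat.add_sub_cancel]
theorem pvc2_cons_e0 (p : T.Pth) (d : D) (ht : T.tgt d = p.v 0) (hn : T.src d ∉ p.verts) : (pvldCons p d ht hn).e 0 = d := by
  show (if (0 : ℕ) = 0 then d else p.e (0 - 1)) = d
  rw [if_pos rfl]
theorem pvc2_cons_es (p : T.Pth) (d : D) (ht : T.tgt d = p.v 0) (hn : T.src d ∉ p.verts) (k : ℕ) : (pvldCons p d ht hn).e (k + 1) = p.e k := by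
  show (if k + 1 = 0 then d else p.e (k + 1 - 1)) = p.e k
  rw [if_neg (by omega), Nat.add_sub_cancel]

/-- from a white join `tgt a₁ → tgt a₀` to the simple path `a₁ · (white path) · opp a₀` -/
theorem pvc2_mkq {σ : V → Bool} {a₀ a₁ : D} (h0 : pvasBW T σ a₀) (h1 : pvasBW T σ a₁) (hne : T.src a₀ ≠ T.src a₁) {X : Set V} (hX : ∀ v ∈ X, σ v = false)
    (hW : T.Join Set.univ X (T.tgt a₁) (T.tgt a₀)) :
    ∃ q : T.Pth, 2 ≤ q.n ∧ q.v 0 = T.src a₁ ∧ q.v q.n = T.src a₀ ∧ q.e 0 = a₁ ∧ q.e (q.n - 1) = T.opp a₀ ∧ ∀ i, 0 < i → i < q.n → q.v i ∈ X := by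
  have : Nonempty D := ⟨a₀⟩
  obtain ⟨q₀, e0, e1, hv, -⟩ := pl_pth_of_join hW
  have hb : ∀ x, σ x = true → x ∉ q₀.verts := fun x hx hm => by
    rw [hX x (hv hm)] at hx
    exact Bool.false_ne_true hx
  have hs : T.src (T.opp a₀) = q₀.v q₀.n := by rw [T.src_opp', e1]
  have hn : T.tgt (T.opp a₀) ∉ q₀.verts := by rw [T.tgt_opp]; exact hb _ h0.1
  have ht : T.tgt a₁ = (q₀.snoc (T.opp a₀) hs hn).v 0 := by
    rw [pvc2_snoc_v1 _ _ _ _ (Nat.zero_le _), e0]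
  have hn' : T.src a₁ ∉ (q₀.snoc (T.opp a₀) hs hn).verts := by
    rw [pvld_snoc_verts]
    rintro (h | h)
    · exact hb _ h1.1 h
    · rw [Set.mem_singleton_iff, T.tgt_opp] at h
      exact hne h.symm
  have hqn : (pvldCons (q₀.snoc (T.opp a₀) hs hn) a₁ ht hn').n = q₀.n + 1 + 1 := rfl
  refine ⟨pvldCons (q₀.snoc (T.opp a₀) hs hn) a₁ ht hn', by rw [hqn]; omega, pvc2_cons_v0 _ _ _ _, ?_, pvc2_cons_e0 _ _ _ _, ?_, ?_⟩
  · rw [hqn, pvc2_cons_vs, pvc2_snoc_v2, T.tgt_opp]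
  · rw [hqn, show q₀.n + 1 + 1 - 1 = q₀.n + 1 by omega, pvc2_cons_es, pvc2_snoc_e2]
  · intro i hi0 hi
    rw [hqn] at hi
    obtain ⟨k, rfl⟩ : ∃ k, i = k + 1 := ⟨i - 1, by omega⟩
    rw [pvc2_cons_vs, pvc2_snoc_v1 _ _ _ _ (by omega)]
    exact hv ⟨k, by omega, rfl⟩

/-! ## 4. THE FRAME -/

/-- **G1 of 78, abstract**: `Z = g ∪ q`, `g` black off `YC`, `q = a₁ · (white, off YC) · opp a₀`; if `YC` hangs on the strand from `a₁` before its first visit of `a₀` then `YC` lies strictly on the LEFT of `Z` -/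
theorem pvc2_hang_left (hT : T.IsSph) {σ : V → Bool} {a₀ a₁ : D} (h1 : pvasBW T σ a₁) {N : ℕ} (hN : ∀ i, i < N → pvasIt T σ a₁ i ≠ a₀)
    (g q : T.Pth) (hgq : g.Glue q) (hg : pvtaB g σ) (hq2 : 2 ≤ q.n) (qe0 : q.e 0 = a₁) (qe1 : q.e (q.n - 1) = T.opp a₀)
    {YC : Set V} (hqX : ∀ i, 0 < i → i < q.n → σ (q.v i) = false ∧ q.v i ∉ YC) (hYg : ∀ v ∈ g.verts, v ∉ YC) (hang : Pvc2Hang T σ a₁ N YC) :
    ∀ v ∈ YC, v ∈ T.Int (g.glue q hgq).Left := by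
  have ha1 : a₁ ∈ (g.glue q hgq).darts := by
    rw [pl_pth_glue_darts]
    exact Or.inr ⟨0, by omega, qe0⟩
  have hocc : ∀ d ∈ (g.glue q hgq).darts, T.Occ σ d → d = a₁ ∨ d = T.opp a₀ := by
    intro d hd ho
    rw [pl_pth_glue_darts] at hd
    rcases hd with ⟨k, hk, rfl⟩ | ⟨k, hk, rfl⟩
    · exfalso
      apply ho
      rw [g.src_e k hk, g.tgt_e k hk, hg k hk.le, hg (k + 1) hk]
    · rcases Nat.eq_zero_or_pos k with rfl | hk0
      · exact Or.inl qe0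
      · rcases Nat.lt_or_ge (k + 1) q.n with hlt | hge
        · exfalso
          apply ho
          rw [q.src_e k hk, q.tgt_e k hk, (hqX k hk0 hk).1, (hqX (k + 1) (by omega) hlt).1]
        · right
          rw [← qe1]
          congr 1
          omega
  have hfc := pvc2_fc_left hT (g.glue q hgq) h1 ha1 hocc hN
  have hoffZ : ∀ v ∈ YC, v ∉ (g.glue q hgq).verts := by
    intro v hv hZ
    rw [pl_pth_glue_verts] at hZ
    rcases hZ with hZ | ⟨j, hj, rfl⟩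
    · exact hYg v hZ hv
    · rcases Nat.eq_zero_or_pos j with rfl | hj0
      · exact hYg _ ⟨g.n, le_rfl, hgq.h1⟩ hv
      · rcases Nat.lt_or_ge j q.n with hlt | hge
        · exact (hqX j hj0 hlt).2 hv
        · have hjn : j = q.n := le_antisymm hj hge
          subst hjn
          exact hYg _ ⟨0, Nat.zero_le _, hgq.h2.symm⟩ hv
  intro v hv
  obtain ⟨f, hf, hfY, hjoin⟩ := hang v hv
  have h2 : T.src f ∈ T.VOf (g.glue q hgq).Left := ⟨f, hfc hf, rfl⟩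
  rw [pl_VOf_left hT] at h2
  exact pl_jordan_sep hT _ (h2.resolve_left (hoffZ _ hfY)) (ReflTransGen.mono (fun _ _ h => ⟨h.1, hoffZ _ h.2⟩) _ _ hjoin)

/-- **the free arc is globally faced** (the core of (C2)) -/
theorem pvc2_gfaced (hT : T.IsSph) {σ : V → Bool} {a₀ a₁ : D} (h0 : pvasBW T σ a₀) (h1 : pvasBW T σ a₁) {N : ℕ} (hN : ∀ i, i < N → pvasIt T σ a₁ i ≠ a₀)
    (g : T.Pth) (hg0 : g.v 0 = T.src a₀) (hg1 : g.v g.n = T.src a₁) (hgn : 1 ≤ g.n) (hg : pvtaB g σ)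
    {YC : Set V} (hYg : ∀ v ∈ g.verts, v ∉ YC) (hang : Pvc2Hang T σ a₁ N YC)
    (hW : T.Join Set.univ {v | σ v = false ∧ v ∉ YC} (T.tgt a₁) (T.tgt a₀)) {ρ : V} (hρ : T.Mono σ ρ (T.tgt a₀))
    (hNg : pvtaN g σ YCᶜ ({ρ} ∪ pvc2Lay T YC)) : g.GFaced σ ρ := by
  have hne : T.src a₀ ≠ T.src a₁ := by
    intro e
    have := g.inj 0 g.n (Nat.zero_le _) le_rfl (by rw [hg0, hg1, e])
    omega
  obtain ⟨q, hq2, q0, qn, qe0, qe1, hqX⟩ := pvc2_mkq h0 h1 hne (X := {v | σ v = false ∧ v ∉ YC}) (fun v hv => hv.1) hW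
  have hgq : g.Glue q := by
    refine ⟨hg1.trans q0.symm, qn.trans hg0.symm, by omega, fun i j hi hj e => ?_⟩
    rcases Nat.eq_zero_or_pos j with rfl | hj0
    · left
      exact ⟨g.inj i g.n hi le_rfl (by rw [e, q0, hg1]), rfl⟩
    · rcases Nat.lt_or_ge j q.n with hlt | hge
      · exfalso
        have h2 := (hqX j hj0 hlt).1
        rw [← e, hg i hi] at h2
        exact Bool.noConfusion h2
      · right
        have hjn : j = q.n := le_antisymm hj hge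
        subst hjn
        exact ⟨g.inj i 0 hi (Nat.zero_le _) (by rw [e, qn, hg0]), rfl⟩
  have hYL := pvc2_hang_left hT h1 hN g q hgq hg hq2 qe0 qe1 hqX hYg hang
  have hΛ : ∀ a ∈ pvc2Lay T YC, a ∈ (g.glue q hgq).verts ∨ a ∈ T.Int (g.glue q hgq).Left := by
    rintro a ⟨-, w, hw, hadj⟩
    by_cases haZ : a ∈ (g.glue q hgq).verts
    · exact Or.inl haZ
    · exact Or.inr (pl_jordan_sep hT _ (hYL w hw) (ReflTransGen.single ⟨T.adj_symm hadj, haZ⟩))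
  have hσρ : σ ρ = false := (pvt_c_mono_col hρ).trans h0.2
  have hqw : ∀ i, 0 < i → i < q.n → σ (q.v i) = false := fun i h h' => (hqX i h h').1
  have hlast : q.v (q.n - 1) = T.tgt a₀ := by rw [← q.src_e _ (by omega), qe1, T.src_opp']
  refine ⟨fun i hi => by rw [hg i hi, hσρ]; exact Bool.noConfusion, fun k hk => ?_⟩
  obtain ⟨a, ha, hj⟩ := hNg k hk
  have hj' : T.Join Set.univ {v | σ v = false} (g.rap k) a := pvt_c_join_mono_set (le_refl _) (fun v hv => hv.2.2) hj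
  rcases ha with ha | ha
  · rw [Set.mem_singleton_iff] at ha
    rw [← ha]
    exact pvt_c_join_mono hj'
  · obtain ⟨j, j0, j1, hm⟩ := pvc2_shield hT g q hgq hg hk (hΛ a ha) hj'
    have h3 := pvta_inner_mono q hqw j0 (q.n - 1 - j) (by omega)
    rw [show j + (q.n - 1 - j) = q.n - 1 by omega, hlast] at h3
    exact (hm.trans h3).trans (pvt_c_mono_symm hρ)

/-- **(C2), THE FRAME**: `P' = g ∪ R` carries one label; its tags are the right triangles of `g` and of `R`; the sum over the label splits -/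
theorem pvc2_frame (hT : T.IsSph) {σ : V → Bool} {a₀ a₁ : D} (h0 : pvasBW T σ a₀) (h1 : pvasBW T σ a₁) {N : ℕ} (hN : ∀ i, i < N → pvasIt T σ a₁ i ≠ a₀)
    (g R : T.Pth) (hg0 : g.v 0 = T.src a₀) (hg1 : g.v g.n = T.src a₁) (hg : pvtaB g σ) (hgR : g.Glue R)
    {YC : Set V} (hYg : ∀ v ∈ g.verts, v ∉ YC) (hang : Pvc2Hang T σ a₁ N YC)
    (hW : T.Join Set.univ {v | σ v = false ∧ v ∉ YC} (T.tgt a₁) (T.tgt a₀)) {ρ : V} (hρ : T.Mono σ ρ (T.tgt a₀)) (hR : R.GFaced σ ρ)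
    (hNg : pvtaN g σ YCᶜ ({ρ} ∪ pvc2Lay T YC)) :
    T.Tag σ (T.opp (g.e 0)) ∧ (∀ d', T.SameLab σ (T.opp (g.e 0)) d' ↔ (∃ i, i < g.n ∧ d' = T.opp (g.e i)) ∨ ∃ i, i < R.n ∧ d' = T.opp (R.e i)) ∧
      ∀ w : D → ℂ, T.lsum σ w (T.opp (g.e 0)) = g.psum w + R.psum w :=
  pvt_c_close hT σ ρ g R hgR (pvc2_gfaced hT h0 h1 hN g hg0 hg1 (pl_pth_glue_pos hgR).1 hg hYg hang hW hρ hNg) hR

/-- **(C1), THE FRAME** (= `pvta_act` of 6 with `U = YCᶜ` and its layer): the arcs of an actual rim satisfy `N_g`, as soon as their right apexes are off `YC` -/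
theorem pvc2_act (hT : T.IsSph) {c : T.Cyc} {σ : V → Bool} (h : c.IsRim σ) (hb : σ (T.src (c.e 0)) = true) (i m j : ℕ) (hm : m < c.n) (YC : Set V)
    (hU : ∀ k, k < m → T.apex (T.opp (c.e (i + k))) ∉ YC) :
    pvtaB (c.pth i m) σ ∧ pvtaN (c.pth i m) σ YCᶜ ({T.apex (T.opp (c.e j))} ∪ pvc2Lay T YC) :=
  pvta_act hT h hb i m j hm YCᶜ (pvc2Lay T YC) hU (pvc2_lay_bd YC)

/-! ## 4bis. the frame for a set `U` of read sites (V1 of 145; `Tr/Defs` v3) -/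

/-- **SHIELD, two-sided form**: `Z = g ∪ q`, `g` black.   A white path from a right apex of `g` either meets an inner vertex of `q` or ends strictly on the right of `Z` -/
theorem pvc2_shield2 (hT : T.IsSph) {s : V → Bool} (g q : T.Pth) (hgq : g.Glue q) (hg : pvtaB g s) {k : ℕ} (hk : k < g.n) {a : V}
    (hj : T.Join Set.univ {v | s v = false} (g.rap k) a) :
    (∃ j, 0 < j ∧ j < q.n ∧ T.Mono s (g.rap k) (q.v j)) ∨ (T.Mono s (g.rap k) a ∧ s a = false ∧ a ∈ T.Int (g.glue q hgq).Right) := by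
  obtain ⟨hRL, -, hO, -⟩ := pl_jordan hT (g.glue q hgq)
  have hoffR : ∀ c, c ∉ (g.glue q hgq).verts → ∀ d, T.src d = c → ¬ T.Bd (g.glue q hgq).Right d :=
    fun c hc d hd hb => pl_cyc_off _ (hd ▸ hc) (pl_right_bd_sub _ hb)
  have hx0 : s (g.rap k) = false := hj.1
  have key : ∀ b, ReflTransGen (fun u v => T.EdgeIn Set.univ u v ∧ v ∈ {v | s v = false}) (g.rap k) b →
      (∃ j, 0 < j ∧ j < q.n ∧ T.Mono s (g.rap k) (q.v j)) ∨ (T.Mono s (g.rap k) b ∧ s b = false ∧ b ∈ T.Int (g.glue q hgq).Right) := by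
    intro b hb
    induction hb with
    | refl =>
      rcases pl_jordan_vert hT (g.glue q hgq) (g.rap k) with h1 | h1 | h1
      · obtain ⟨j, j0, j1, e⟩ := pvta_white_on g q hgq hg h1 hx0
        exact Or.inl ⟨j, j0, j1, e ▸ ReflTransGen.refl⟩
      · exfalso
        have h2 : T.opp (g.e k) ∈ (g.glue q hgq).Right := by
          rw [← pl_pth_glue_e1 g q hgq hk]
          exact hO k
        have h3 : T.nxt (T.nxt (T.opp (g.e k))) ∈ (g.glue q hgq).Right := ((pl_right_face _).nxt2 T _).2 h2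
        have h4 := h1 (T.nxt (T.nxt (T.opp (g.e k)))) rfl
        rw [hRL] at h3
        exact h3 h4
      · exact Or.inr ⟨ReflTransGen.refl, hx0, h1⟩
    | @tail b c _ hbc ih =>
      rcases ih with ih | ⟨m1, m2, m3⟩
      · exact Or.inl ih
      · obtain ⟨⟨d, -, hd1, hd2⟩, hc⟩ := hbc
        have hc' : s c = false := hc
        have hadj : T.Adj b c := ⟨d, hd1, hd2⟩
        have hm : T.Mono s (g.rap k) c := m1.tail ⟨hadj, m2.trans hc'.symm⟩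
        by_cases hcZ : c ∈ (g.glue q hgq).verts
        · obtain ⟨j, j0, j1, e⟩ := pvta_white_on g q hgq hg hcZ hc'
          exact Or.inl ⟨j, j0, j1, e ▸ hm⟩
        · exact Or.inr ⟨hm, hc', pl_int_adj hT (pl_right_face _) m3 hadj (hoffR c hcZ)⟩
  exact key a hj.2

/-- **the free arc is globally faced, form G1'** (V1 of 145): `U` = the sites which `N_g` reads, target = anchor or the boundary layer of `U`; the shield `q` is GIVEN (it may meet `Uᶜ`);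
`hG1` : no site off `U` strictly on the right of `Z = g ∪ q` -/
theorem pvc2_gfaced_U (hT : T.IsSph) {σ : V → Bool} {a₀ : D} (g q : T.Pth) (hgq : g.Glue q) (hg : pvtaB g σ) (hq2 : 2 ≤ q.n) (qe1 : q.e (q.n - 1) = T.opp a₀)
    (hqw : ∀ i, 0 < i → i < q.n → σ (q.v i) = false) {U : Set V} (hgU : ∀ v ∈ g.verts, v ∈ U) (hG1 : ∀ v ∈ T.Int (g.glue q hgq).Right, v ∈ U)
    {ρ : V} (hρ : T.Mono σ ρ (T.tgt a₀)) (hNg : pvtaN g σ U ({ρ} ∪ {u | u ∈ U ∧ ∃ w, w ∉ U ∧ T.Adj u w})) : g.GFaced σ ρ := by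
  have hlast : q.v (q.n - 1) = T.tgt a₀ := by rw [← q.src_e _ (by omega), qe1, T.src_opp']
  have hσρ : σ ρ = false := by
    rw [pvt_c_mono_col hρ, ← hlast]
    exact hqw _ (by omega) (by omega)
  have toρ : ∀ j, 0 < j → j < q.n → T.Mono σ (q.v j) ρ := by
    intro j j0 j1
    have h3 := pvta_inner_mono q hqw j0 (q.n - 1 - j) (by omega)
    rw [show j + (q.n - 1 - j) = q.n - 1 by omega, hlast] at h3
    exact h3.trans (pvt_c_mono_symm hρ)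
  have hoffR : ∀ c, c ∉ (g.glue q hgq).verts → ∀ d, T.src d = c → ¬ T.Bd (g.glue q hgq).Right d :=
    fun c hc d hd hb => pl_cyc_off _ (hd ▸ hc) (pl_right_bd_sub _ hb)
  refine ⟨fun i hi => by rw [hg i hi, hσρ]; exact Bool.noConfusion, fun k hk => ?_⟩
  obtain ⟨a, ha, hj⟩ := hNg k hk
  have hj' : T.Join Set.univ {v | σ v = false} (g.rap k) a := pvt_c_join_mono_set (le_refl _) (fun v hv => hv.2.2) hj
  rcases ha with ha | ⟨-, w, hwU, hadj⟩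
  · rw [Set.mem_singleton_iff] at ha
    rw [← ha]
    exact pvt_c_join_mono hj'
  · rcases pvc2_shield2 hT g q hgq hg hk hj' with ⟨j, j0, j1, hm⟩ | ⟨hm, hwa, hR⟩
    · exact hm.trans (toρ j j0 j1)
    · have hwZ : w ∈ (g.glue q hgq).verts := by
        by_contra hwZ
        exact hwU (hG1 w (pl_int_adj hT (pl_right_face _) hR hadj (hoffR w hwZ)))
      rw [pl_pth_glue_verts] at hwZ
      rcases hwZ with hwZ | ⟨j, hj, rfl⟩
      · exact absurd (hgU w hwZ) hwU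
      · rcases Nat.eq_zero_or_pos j with rfl | hj0
        · exact absurd (hgU _ ⟨g.n, le_rfl, hgq.h1⟩) hwU
        · rcases Nat.lt_or_ge j q.n with hlt | hge
          · exact (hm.tail ⟨hadj, hwa.trans (hqw j hj0 hlt).symm⟩).trans (toρ j hj0 hlt)
          · have hjn : j = q.n := le_antisymm hj hge
            subst hjn
            exact absurd (hgU _ ⟨0, Nat.zero_le _, hgq.h2.symm⟩) hwU

/-- **G1', abstract**: a site joined off `Z` to a vertex (off `Z`) of a face crossed by the strand from `a₁` before its first visit of `a₀` lies strictly on the LEFT of `Z = g ∪ q` -/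
theorem pvc2_join_left (hT : T.IsSph) {σ : V → Bool} {a₀ a₁ : D} (h1 : pvasBW T σ a₁) {N : ℕ} (hN : ∀ i, i < N → pvasIt T σ a₁ i ≠ a₀)
    (g q : T.Pth) (hgq : g.Glue q) (hg : pvtaB g σ) (hq2 : 2 ≤ q.n) (qe0 : q.e 0 = a₁) (qe1 : q.e (q.n - 1) = T.opp a₀)
    (hqw : ∀ i, 0 < i → i < q.n → σ (q.v i) = false) {f : D} (hf : f ∈ pvasFc T σ a₁ N) (hfZ : T.src f ∉ (g.glue q hgq).verts) {v : V}
    (hj : ReflTransGen (fun u w => T.Adj u w ∧ w ∉ (g.glue q hgq).verts) (T.src f) v) : v ∈ T.Int (g.glue q hgq).Left := by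
  have ha1 : a₁ ∈ (g.glue q hgq).darts := by
    rw [pl_pth_glue_darts]
    exact Or.inr ⟨0, by omega, qe0⟩
  have hocc : ∀ d ∈ (g.glue q hgq).darts, T.Occ σ d → d = a₁ ∨ d = T.opp a₀ := by
    intro d hd ho
    rw [pl_pth_glue_darts] at hd
    rcases hd with ⟨k, hk, rfl⟩ | ⟨k, hk, rfl⟩
    · exfalso
      apply ho
      rw [g.src_e k hk, g.tgt_e k hk, hg k hk.le, hg (k + 1) hk]
    · rcases Nat.eq_zero_or_pos k with rfl | hk0
      · exact Or.inl qe0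
      · rcases Nat.lt_or_ge (k + 1) q.n with hlt | hge
        · exfalso
          apply ho
          rw [q.src_e k hk, q.tgt_e k hk, hqw k hk0 hk, hqw (k + 1) (by omega) hlt]
        · right
          rw [← qe1]
          congr 1
          omega
  have hfc := pvc2_fc_left hT (g.glue q hgq) h1 ha1 hocc hN
  have h2 : T.src f ∈ T.VOf (g.glue q hgq).Left := ⟨f, hfc hf, rfl⟩
  rw [pl_VOf_left hT] at h2
  exact pl_jordan_sep hT _ (h2.resolve_left hfZ) hj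

/-! # PART B -/

/-! ## 5. loop erasures of the black bank of a strand are globally faced -/

/-- the white layer of a strand is `Mono`-connected -/
theorem pvc2_layW_mono {s : V → Bool} {a : D} (ha : pvasBW T s a) (i j : ℕ) : T.Mono s (T.tgt (pvasIt T s a i)) (T.tgt (pvasIt T s a j)) := by
  have key : ∀ i, T.Mono s (T.tgt a) (T.tgt (pvasIt T s a i)) := fun i =>
    pvt_c_join_mono (r := false) (pvt_c_join_mono_set (le_refl _) (fun v hv => pvas_layW_white ha hv) (pvas_layW_join s a (le_refl i)))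
  exact (pvt_c_mono_symm (key i)).trans (key j)

/-- the darts of the loop erasure of the black bank of a strand: `y.e k = rot (a position)`, and the right apex of `y.e k` is the head of that position -/
theorem pvc2_le_dart (hS : T.Simple) {s : V → Bool} {a : D} {n : ℕ} {y : T.Pth} (h : PvwLE T (fun i => T.src (pvasIt T s a i)) n y) {k : ℕ} (hk : k < y.n) :
    ∃ i, i < n ∧ y.e k = T.rot (pvasIt T s a i) ∧ y.rap k = T.tgt (pvasIt T s a i) := by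
  obtain ⟨j, -, hjn, hj, hj'⟩ := h
  obtain ⟨h1, h2, h3⟩ := hj k hk.le
  have h4 := hj' k hk
  simp only at h2 h4 h3
  have hlt : j k < n := by
    rcases Nat.lt_or_ge (j k) n with h | h
    · exact h
    · exfalso
      have e : j k = j y.n := by omega
      have e2 : y.v k = y.v y.n := by rw [h2, (hj y.n le_rfl).2.1, e]
      have := y.inj _ _ hk.le le_rfl e2
      omega
  have hne : y.v (k + 1) ≠ y.v k := fun e => by
    have := y.inj _ _ (by omega) hk.le e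
    omega
  rcases pvas_step_ends s (pvasIt T s a (j k)) with ⟨-, e1, -⟩ | ⟨-, e1, -⟩
  · have e5 : y.e k = T.rot (pvasIt T s a (j k)) := by
      refine hS _ _ ?_ ?_
      · rw [y.src_e k hk, T.src_rot, h2]
      · rw [y.tgt_e k hk, T.tgt_rot, h4, pvas_it_succ, e1]
    refine ⟨j k, hlt, e5, ?_⟩
    unfold PvMap.Pth.rap
    rw [e5]
    unfold PvMap.rot
    rw [T.opp_opp, T.apex_nxt2]
  · exfalso
    apply hne
    rw [h4, h2, pvas_it_succ, e1]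

/-- the ends of a loop erasure -/
theorem pvc2_le_ends {b : ℕ → V} {n : ℕ} {y : T.Pth} (h : PvwLE T b n y) : y.v 0 = b 0 ∧ y.v y.n = b n := by
  obtain ⟨j, h0, hjn, hj, -⟩ := h
  exact ⟨h0, by rw [(hj y.n le_rfl).2.1, hjn]⟩

/-- **the loop erasure of the black bank of a strand is globally faced**, the anchor being any site `Mono`-joined to the white layer -/
theorem pvc2_le_gfaced (hS : T.Simple) {s : V → Bool} {a : D} (ha : pvasBW T s a) {n : ℕ} {y : T.Pth} (h : PvwLE T (fun i => T.src (pvasIt T s a i)) n y)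
    {ρ : V} (hρ : T.Mono s (T.tgt a) ρ) : y.GFaced s ρ := by
  have hσρ : s ρ = false := (pvt_c_mono_col hρ).symm.trans ha.2
  refine ⟨fun i hi => ?_, fun k hk => ?_⟩
  · obtain ⟨j, -, -, hj, -⟩ := h
    rw [(hj i hi).2.1, hσρ, (pvas_it_bw ha _).1]
    exact Bool.noConfusion
  · obtain ⟨i, -, -, e⟩ := pvc2_le_dart hS h hk
    have e' : T.apex (T.opp (y.e k)) = T.tgt (pvasIt T s a i) := e
    rw [e']
    exact (pvc2_layW_mono ha i 0).trans hρ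

/-! ## 6. components hang -/

/-- the component of `a` in `X` is connected from `a` -/
theorem pvc2_comp_join {X : Set V} {a v : V} (hv : v ∈ pvwComp T X a) : a ∈ pvwComp T X a ∧ ReflTransGen (fun u w => T.Adj u w ∧ w ∈ pvwComp T X a) a v := by
  obtain ⟨q, q0, qn, hq⟩ := hv
  have hmem : ∀ k, k ≤ q.n → q.v k ∈ pvwComp T X a := by
    intro k hk
    refine ⟨q.seg 0 k, ?_, ?_, ?_⟩
    · show q.v (0 + 0) = a
      rw [Nat.add_zero, q0]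
    · show q.v (0 + (min k q.n - 0)) = q.v k
      congr 1
      omega
    · rintro x ⟨i, hi, rfl⟩
      have hi' : i ≤ min k q.n - 0 := hi
      exact hq _ ⟨0 + i, by omega, rfl⟩
  have key : ∀ k, k ≤ q.n → ReflTransGen (fun u w => T.Adj u w ∧ w ∈ pvwComp T X a) a (q.v k) := by
    intro k
    induction k with
    | zero => intro _; rw [q0]
    | succ k ih =>
      intro hk
      exact (ih (by omega)).tail ⟨⟨q.e k, q.src_e k hk, q.tgt_e k hk⟩, hmem _ hk⟩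
  refine ⟨q0 ▸ hmem 0 (Nat.zero_le _), qn ▸ key q.n le_rfl⟩

/-- the component of a vertex of a face crossed by the strand hangs on the strand -/
theorem pvc2_hang_comp (σ : V → Bool) (a : D) {N : ℕ} {f : D} (hf : f ∈ pvasFc T σ a N) (X : Set V) : Pvc2Hang T σ a N (pvwComp T X (T.src f)) := by
  intro v hv
  obtain ⟨h1, h2⟩ := pvc2_comp_join hv
  exact ⟨f, hf, h1, h2⟩

theorem pvc2_hang_union {σ : V → Bool} {a : D} {N : ℕ} {Y₁ Y₂ : Set V} (h1 : Pvc2Hang T σ a N Y₁) (h2 : Pvc2Hang T σ a N Y₂) : Pvc2Hang T σ a N (Y₁ ∪ Y₂) := by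
  rintro v (hv | hv)
  · obtain ⟨f, hf, e, hj⟩ := h1 v hv
    exact ⟨f, hf, Or.inl e, ReflTransGen.mono (fun _ _ h => ⟨h.1, Or.inl h.2⟩) _ _ hj⟩
  · obtain ⟨f, hf, e, hj⟩ := h2 v hv
    exact ⟨f, hf, Or.inr e, ReflTransGen.mono (fun _ _ h => ⟨h.1, Or.inr h.2⟩) _ _ hj⟩

/-- the white layer of a strand between two times, as a `Join` -/
theorem pvc2_layW_join (σ : V → Bool) (a : D) {X : Set V} {i j : ℕ} (hij : i ≤ j) (hX : ∀ k, i ≤ k → k ≤ j → T.tgt (pvasIt T σ a k) ∈ X) :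
    T.Join Set.univ X (T.tgt (pvasIt T σ a i)) (T.tgt (pvasIt T σ a j)) := by
  have h := pvas_layW_join (T := T) σ (pvasIt T σ a i) (le_refl (j - i))
  rw [← pvas_it_add, Nat.add_sub_cancel' hij] at h
  refine pvt_c_join_mono_set (Set.subset_univ _) ?_ h
  rintro v ⟨k, hk, rfl⟩
  rw [← pvas_it_add]
  exact hX _ (by omega) (by omega)


/-! ## 7. the datum of record (`Tr/Defs` v3) -/

/-- the sites which no shield can use: not frozen by `D_Y`, not on `g₀`, not over the outer lane -/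
def pvc2K (𝔇 : PvwDat T) (pos : V → ℂ) (π : PvwPat) : Set V := {b | b ∉ 𝔇.fzY ∧ b ∉ 𝔇.g.verts ∧ pos b ∉ π.Yout}

/-- **THE TWO GEOMETRIC HYPOTHESES OF G1'** (no colour):   `fz` the collared lanes miss the frozen sites of `D_Y` (FIT: `c⁺` misses the hulls);
`col` every site over the collared lanes is joined to `YCL` through sites which no shield can use      (model: K1 of 29 on the connected region `Ycol`, margins `≥` mesh; on `SY` the new strand crosses the lanes, its sites there are `YCL` sites) -/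
structure Pvc2Col (𝔇 : PvwDat T) (pos : V → ℂ) (π : PvwPat) : Prop where
  fz : ∀ v ∈ 𝔇.fzY, pos v ∉ π.Ycol
  col : ∀ v, pos v ∈ π.Ycol → ∃ u ∈ 𝔇.YCL pos π, ReflTransGen (fun a b => T.Adj a b ∧ b ∈ pvc2K 𝔇 pos π) u v

/-- the sites of which a shield is made: white, frozen by `D_Y` or over the outer lane -/
def pvc2Sh (𝔇 : PvwDat T) (pos : V → ℂ) (π : PvwPat) (σ : V → Bool) : Set V := {v | σ v = false ∧ (v ∈ 𝔇.fzY ∨ pos v ∈ π.Yout)}

theorem pvc2_eqns_cite2 : True := by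
  have := @pvc2K.eq_1; have := @pvc2Sh.eq_1
  trivial

section datum

variable {𝔇 : PvwDat T} {pos : V → ℂ} {N : PvwNum} {h : ℝ} {π : PvwPat} {σ : V → Bool}

/-- `Ycol = ∅` (v2): nothing to check -/
theorem pvc2_col_of_empty (h0 : π.Ycol = ∅) : Pvc2Col 𝔇 pos π :=
  ⟨fun _ _ => by rw [h0]; exact Set.notMem_empty _, fun v hv => by rw [h0] at hv; exact absurd hv (Set.notMem_empty _)⟩

/-- on the cylinder the two half states are half states of `σ` -/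
theorem pvc2_at (hT : T.IsSph) (hOk : 𝔇.Ok pos N h π) (hσ : σ ∈ 𝔇.Cyl) : 𝔇.s.AtIn pos N h π.zs π.ts σ ∧ 𝔇.t.AtOut pos N h π.zt π.tt σ :=
  ⟨pvwk_atIn_congr hT hOk.st_s fun v hv => (hσ.1 v (Or.inr hv)).symm, pvwk_atOut_congr hT hOk.st_t fun v hv => (hσ.1 v (Or.inl hv)).symm⟩

/-- the inner arc of a gate has at least one dart -/
theorem pvc2_inn_pos {𝔖 : PvwSt T} {z : ℂ} {τ : PvwTy} (hG : 𝔖.Gate pos h z τ σ) : 0 < 𝔖.inn.n ∧ 𝔖.inn.v 0 = 𝔖.gm ∧ 𝔖.inn.v 𝔖.inn.n = 𝔖.gp := by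
  obtain ⟨n, e, -, hle⟩ := hG.strand
  obtain ⟨e0, e1⟩ := pvc2_le_ends hle
  have e1' : 𝔖.inn.v 𝔖.inn.n = 𝔖.gp := by
    rw [e1]
    show T.src (pvasIt T σ 𝔖.dm n) = _
    rw [e]
    rfl
  refine ⟨Nat.pos_of_ne_zero fun h0 => hG.ne ?_, e0, e1'⟩
  rw [← e1', h0, e0]
  rfl

/-- the inner arc of a gate is globally faced; anchor = the head of the exit gate edge -/
theorem pvc2_inn_gfaced (hS : T.Simple) {𝔖 : PvwSt T} {z : ℂ} {τ : PvwTy} (hG : 𝔖.Gate pos h z τ σ) : 𝔖.inn.GFaced σ (T.tgt 𝔖.dp) := by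
  obtain ⟨n, e, -, hle⟩ := hG.strand
  refine pvc2_le_gfaced hS hG.bw_m hle ?_
  have := pvc2_layW_mono hG.bw_m 0 n
  rwa [e] at this

/-- **the anchor** of `NB(D)` is joined to the head of the exit gate edge of `s` -/
theorem pvc2_anc (hS : T.Simple) {z : ℂ} {τ : PvwTy} (hG : 𝔇.s.Gate pos h z τ σ) : T.Mono σ 𝔇.anc (T.tgt 𝔇.s.dp) :=
  (pvc2_inn_gfaced hS hG).2 _ (by have := (pvc2_inn_pos hG).1; omega)

/-- the frozen sites of `D_Y` are off `YCL` -/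
theorem pvc2_fzY_off {v : V} (hv : v ∈ 𝔇.fzY) : v ∉ 𝔇.YCL pos π := by
  rintro (⟨q, -, rfl, hq⟩ | ⟨q, -, rfl, hq⟩)
  · exact (hq _ (pl_pth_lst_mem q)).1 hv
  · exact (hq _ (pl_pth_lst_mem q)).1 hv

/-- far apart gates have disjoint closed insides -/
theorem pvc2_ins_disj {𝔖 𝔖' : PvwSt T} {z z' : ℂ} {τ τ' : PvwTy} {σ' : V → Bool} (hG : 𝔖.Gate pos h z τ σ) (hG' : 𝔖'.Gate pos h z' τ' σ')
    (hz : (τ.b + τ'.b) * h ≤ ‖z - z'‖) : Disjoint 𝔖.ins 𝔖'.ins := by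
  rw [Set.disjoint_left]
  intro v hv hv'
  have h1 := hG.inside v hv
  have h2 := hG'.inside v hv'
  have h3 : ‖z - z'‖ ≤ ‖pos v - z‖ + ‖pos v - z'‖ := by
    have := norm_sub_le (pos v - z') (pos v - z)
    rw [show pos v - z' - (pos v - z) = z - z' by ring] at this
    linarith
  nlinarith

/-- disjoint cores have disjoint closed insides -/
theorem pvc2_ins_of_core {𝔖 𝔖' : PvwSt T} {z z' : ℂ} {τ τ' : PvwTy} {σ' : V → Bool} (hG : 𝔖.Gate pos h z τ σ) (hG' : 𝔖'.Gate pos h z' τ' σ')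
    (hc : Disjoint 𝔖.core 𝔖'.core) : Disjoint 𝔖.ins 𝔖'.ins := hc.mono (pvwk_ins_sub_core hG) (pvwk_ins_sub_core hG')

/-- **TIMES**: the strand from the entry gate edge of `t` runs inner(`t`) (`nt` steps), `Σ⁺(t)`, the new strand, `Σ⁻(s)` (`n` steps), inner(`s`) (`ns` steps) and arrives at the exit gate edge of `s` FOR THE FIRST TIME -/
theorem pvc2_times (hT : T.IsSph) {zs zt : ℂ} {τs τt : PvwTy} (hAs : 𝔇.s.AtIn pos N h zs τs σ) (hAt : 𝔇.t.AtOut pos N h zt τt σ) (hins : Disjoint 𝔇.s.ins 𝔇.t.ins)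
    {n : ℕ} (hSY : 𝔇.SYn pos π σ n) :
    ∃ nt ns, 0 < nt ∧ 0 < ns ∧ pvasIt T σ 𝔇.t.dm nt = 𝔇.t.dp ∧ pvasIt T σ 𝔇.s.dm ns = 𝔇.s.dp ∧ pvasIt T σ 𝔇.t.dm (nt + n + ns) = 𝔇.s.dp ∧
      ∀ i, i < nt + n + ns → pvasIt T σ 𝔇.t.dm i ≠ 𝔇.s.dp := by
  obtain ⟨nt, et, hLt, -⟩ := hAt.gate.strand
  obtain ⟨ns, es, hLs, -⟩ := hAs.gate.strand
  have bwt := hAt.gate.bw_m
  have bws := hAs.gate.bw_m
  obtain ⟨cs1, -, cs3, -⟩ := pvwk_gate_ends hT hAs.gate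
  obtain ⟨-, -, ct3, -⟩ := pvwk_gate_ends hT hAt.gate
  have hd := Set.disjoint_left.1 hins
  refine ⟨nt, ns, Nat.pos_of_ne_zero ?_, Nat.pos_of_ne_zero ?_, et, es, by rw [pvas_it_add, pvas_it_add, et, hSY.2.1, es], fun i hi he => ?_⟩
  · rintro rfl
    exact hAt.gate.ne (by unfold PvwSt.gp PvwSt.gm; rw [← et]; rfl)
  · rintro rfl
    exact hAs.gate.ne (by unfold PvwSt.gp PvwSt.gm; rw [← es]; rfl)
  rcases Nat.lt_or_ge i ns with h1 | h1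
  · have e2 : pvasIt T σ (pvasIt T σ 𝔇.s.dm (ns - i)) i = 𝔇.s.dp := by rw [← pvas_it_add, Nat.sub_add_cancel h1.le, es]
    have e3 : 𝔇.t.dm = pvasIt T σ 𝔇.s.dm (ns - i) := pvas_it_cancel bwt (pvas_it_bw bws _) i (he.trans e2.symm)
    have h4 : 𝔇.t.gm ∈ 𝔇.s.ins := by
      unfold PvwSt.gm
      rw [e3]
      rcases Nat.eq_zero_or_pos i with rfl | h0
      · rw [Nat.sub_zero, es]
        exact cs1
      · exact ⟨_, hLs _ (by omega), rfl⟩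
    exact hd h4 ct3
  · have e2 : pvasIt T σ (pvasIt T σ 𝔇.t.dm (i - ns)) ns = 𝔇.s.dp := by rw [← pvas_it_add, Nat.sub_add_cancel h1, he]
    have e3 : pvasIt T σ 𝔇.t.dm (i - ns) = 𝔇.s.dm := pvas_it_cancel (pvas_it_bw bwt _) bws ns (e2.trans es.symm)
    rcases Nat.lt_or_ge (i - ns) nt with h2 | h2
    · exact hd cs3 ⟨_, hLt _ h2, by rw [e3]; rfl⟩
    · obtain ⟨k, hk⟩ : ∃ k, i - ns = nt + k := ⟨i - ns - nt, by omega⟩
      rw [hk, pvas_it_add, et] at e3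
      exact hSY.2.2.1 k (by omega) e3

/-- **`YCL` hangs on the strand** `dm(t) → dp(s)` -/
theorem pvc2_hang (hT : T.IsSph) {zs zt : ℂ} {τs τt : PvwTy} (hAs : 𝔇.s.AtIn pos N h zs τs σ) (hAt : 𝔇.t.AtOut pos N h zt τt σ) (hins : Disjoint 𝔇.s.ins 𝔇.t.ins)
    {n : ℕ} (hSY : 𝔇.SYn pos π σ n) :
    ∃ M, (∀ i, i < M → pvasIt T σ 𝔇.t.dm i ≠ 𝔇.s.dp) ∧ Pvc2Hang T σ 𝔇.t.dm M (𝔇.YCL pos π) := by
  obtain ⟨nt, ns, ht0, hs0, et, es, -, hfirst⟩ := pvc2_times hT hAs hAt hins hSY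
  have hn := hSY.1
  refine ⟨nt + n + ns, hfirst, pvc2_hang_union ?_ ?_⟩
  · have e : pvasIt T σ 𝔇.t.dm (nt + 𝔇.t.np) = 𝔇.t.ep 𝔇.t.np := by rw [pvas_it_add, et, ← hAt.stub.ep_it _ le_rfl]
    have hf : T.nxt (T.nxt (𝔇.t.ep 𝔇.t.np)) ∈ pvasFc T σ 𝔇.t.dm (nt + n + ns) := ⟨nt + 𝔇.t.np, by omega, e ▸ T.sf_nxt2 _⟩
    exact pvc2_hang_comp σ 𝔇.t.dm hf _
  · have bws := hAs.gate.bw_m
    have e1 : pvasIt T σ 𝔇.t.dp (n - 𝔇.s.nm) = 𝔇.s.em 𝔇.s.nm := by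
      refine pvas_it_cancel (pvas_it_bw hAt.gate.bw_p _) (pvwk_em_bw hAs.stub bws le_rfl) 𝔇.s.nm ?_
      rw [← pvas_it_add, Nat.sub_add_cancel (by omega), hSY.2.1, pvwk_em_fwd_end hAs.stub bws]
    have e2 : pvasIt T σ 𝔇.t.dm (nt - 1 + (n - 𝔇.s.nm) + 1) = 𝔇.s.em 𝔇.s.nm := by
      rw [show nt - 1 + (n - 𝔇.s.nm) + 1 = nt + (n - 𝔇.s.nm) by omega, pvas_it_add, et, e1]
    have h0 : T.opp (𝔇.s.em 𝔇.s.nm) ∈ pvasFc T σ 𝔇.t.dm (nt + n + ns) := by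
      refine ⟨nt - 1 + (n - 𝔇.s.nm), by omega, ?_⟩
      rw [← e2, pvas_it_succ]
      exact pvas_step_sf σ _
    have hf : T.nxt (T.nxt (T.opp (𝔇.s.em 𝔇.s.nm))) ∈ pvasFc T σ 𝔇.t.dm (nt + n + ns) := ((pvas_fc_face σ _ _).nxt2 T _).2 h0
    exact pvc2_hang_comp σ 𝔇.t.dm hf _

/-- **the white join**: white layers of inner(`t`), of `Σ⁺(t)`, the path of `WO`, white layers of `Σ⁻(s)`, of inner(`s`): all its sites are shield sites -/
theorem pvc2_white (hT : T.IsSph) (hOk : 𝔇.Ok pos N h π) (hσ : σ ∈ 𝔇.Cyl) (hWO : 𝔇.WO pos π σ) :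
    T.Join Set.univ (pvc2Sh 𝔇 pos π σ) (T.tgt 𝔇.t.dm) (T.tgt 𝔇.s.dp) := by
  obtain ⟨hAs, hAt⟩ := pvc2_at hT hOk hσ
  obtain ⟨q, hq0, hq1, hqi⟩ := hWO
  obtain ⟨nt, et, hLt, -⟩ := hAt.gate.strand
  obtain ⟨ns, es, hLs, -⟩ := hAs.gate.strand
  have bws := hAs.gate.bw_m
  have hct : ∀ v ∈ 𝔇.t.ins, v ∈ 𝔇.fzY := fun v hv => Or.inl (pvwk_core_sub_fzOut _ (pvwk_ins_sub_core hAt.gate hv))
  have hcs : ∀ v ∈ 𝔇.s.ins, v ∈ 𝔇.fzY := fun v hv => Or.inr (pvwk_core_sub_fzIn _ (pvwk_ins_sub_core hAs.gate hv))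
  have inner : ∀ {𝔖 : PvwSt T} {z : ℂ} {τ : PvwTy} {m : ℕ}, 𝔖.Gate pos h z τ σ → pvasIt T σ 𝔖.dm m = 𝔖.dp → (∀ i, i < m → pvasIt T σ 𝔖.dm i ∈ 𝔖.S.Left) →
      (∀ v ∈ 𝔖.ins, v ∈ 𝔇.fzY) → T.Join Set.univ (pvc2Sh 𝔇 pos π σ) (T.tgt 𝔖.dm) (T.tgt 𝔖.dp) := by
    intro 𝔖 z τ m hG e hL hc
    have := pvc2_layW_join (T := T) σ 𝔖.dm (X := pvc2Sh 𝔇 pos π σ) (Nat.zero_le m) fun k _ hk => ⟨(pvas_it_bw hG.bw_m k).2, Or.inl (hc _ ?_)⟩
    · rwa [e] at this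
    · rcases Nat.lt_or_ge k m with h1 | h1
      · exact (pvwk_vof (pl_left_face _) (hL k h1)).2.1
      · rw [show k = m by omega, e]
        exact (pvwk_gate_ends hT hG).2.1
  have j1 := inner hAt.gate et hLt hct
  have j5 := inner hAs.gate es hLs hcs
  have j2 : T.Join Set.univ (pvc2Sh 𝔇 pos π σ) (T.tgt 𝔇.t.dp) (q.v 0) := by
    obtain ⟨i, hi, e⟩ := hq0
    rw [← e, hAt.stub.ep_it i hi]
    refine pvc2_layW_join (T := T) σ 𝔇.t.dp (Nat.zero_le i) fun k _ hk => ⟨(pvas_it_bw hAt.gate.bw_p k).2, Or.inl (Or.inl (Or.inr ⟨k, by omega, ?_⟩))⟩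
    rw [hAt.stub.ep_it k (by omega)]
  have j4 : T.Join Set.univ (pvc2Sh 𝔇 pos π σ) (q.v q.n) (T.tgt 𝔇.s.dm) := by
    obtain ⟨i, hi, e⟩ := hq1
    have e1 : 𝔇.s.em i = pvasIt T σ (𝔇.s.em 𝔇.s.nm) (𝔇.s.nm - i) := by
      rw [pvwk_em_fwd hAs.stub bws (Nat.sub_le _ _)]
      congr 1
      omega
    have := pvc2_layW_join (T := T) σ (𝔇.s.em 𝔇.s.nm) (X := pvc2Sh 𝔇 pos π σ) (Nat.sub_le 𝔇.s.nm i) fun k _ hk =>
      ⟨(pvas_it_bw (pvwk_em_bw hAs.stub bws le_rfl) k).2, Or.inl (Or.inr (Or.inr ⟨𝔇.s.nm - k, Nat.sub_le _ _, by rw [pvwk_em_fwd hAs.stub bws hk]⟩))⟩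
    rwa [← e1, e, pvwk_em_fwd_end hAs.stub bws] at this
  have j3 : T.Join Set.univ (pvc2Sh 𝔇 pos π σ) (q.v 0) (q.v q.n) := by
    refine pl_pth_join q (fun i _ => Or.inl (Set.mem_univ _)) ?_ (Nat.zero_le _) le_rfl
    rw [pl_pth_verts_eq]
    rintro v ((rfl | rfl) | hv)
    · rcases ReflTransGen.cases_tail j2.2 with e | ⟨_, _, h2⟩
      · rw [e]; exact j2.1
      · exact h2.2
    · exact j4.1
    · obtain ⟨h1, h2, -⟩ := hqi v hv
      exact ⟨h1, Or.inr h2⟩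
  exact pvt_c_join_trans j1 (pvt_c_join_trans j2 (pvt_c_join_trans j3 (pvt_c_join_trans j4 j5)))

/-- the fresh sites over `Yin` cannot be used by a shield -/
theorem pvc2_yraw_K (hπ : π.Wf) (hOk : 𝔇.Ok pos N h π) {v : V} (hv : v ∈ 𝔇.Yraw pos π) : v ∈ pvc2K 𝔇 pos π :=
  ⟨hv.1, fun hg => hOk.off v hg (hπ.in_sub hv.2), fun ho => Set.disjoint_left.1 hπ.disj hv.2 ho⟩

theorem pvc2_ycl_yraw {v : V} (hv : v ∈ 𝔇.YCL pos π) : v ∈ 𝔇.Yraw pos π := by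
  rcases hv with ⟨q, -, rfl, hq⟩ | ⟨q, -, rfl, hq⟩
  · exact hq _ (pl_pth_lst_mem q)
  · exact hq _ (pl_pth_lst_mem q)

/-- the sites over the collared lanes cannot be used by a shield -/
theorem pvc2_col_K (hπ : π.Wf) (hOk : 𝔇.Ok pos N h π) (hC : Pvc2Col 𝔇 pos π) {v : V} (hv : pos v ∈ π.Ycol) : v ∈ pvc2K 𝔇 pos π :=
  ⟨fun hf => hC.fz v hf hv, fun hg => (hOk.off_y v (Or.inl hg)).2 hv, fun ho => Set.disjoint_left.1 hπ.col hv ho⟩

/-- **`NUᶜ` hangs on `YCL`**: every site off `NU` is joined to a site of `YCL` through sites which no shield can use -/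
theorem pvc2_nu_join (hπ : π.Wf) (hOk : 𝔇.Ok pos N h π) (hC : Pvc2Col 𝔇 pos π) {v : V} (hv : v ∉ 𝔇.NU pos π) :
    ∃ u ∈ 𝔇.YCL pos π, ReflTransGen (fun a b => T.Adj a b ∧ b ∈ pvc2K 𝔇 pos π) u v := by
  by_cases hc : pos v ∈ π.Ycol
  · exact hC.col v hc
  have hv0 : v ∈ 𝔇.YC0 pos π := by
    by_contra h0
    exact hv ⟨h0, hc⟩
  obtain ⟨a, ha, hva⟩ := hv0
  obtain ⟨ha0, hj⟩ := pvc2_comp_join hva
  have hsub : ∀ x, x ∈ pvwComp T (𝔇.Yr0 pos π) a → x ∈ 𝔇.Yraw pos π := by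
    rintro x ⟨q, -, rfl, hq⟩
    exact (hq _ (pl_pth_lst_mem q)).1
  have hj' : ReflTransGen (fun a b => T.Adj a b ∧ b ∈ pvc2K 𝔇 pos π) a v :=
    ReflTransGen.mono (fun _ _ hh => ⟨hh.1, pvc2_yraw_K hπ hOk (hsub _ hh.2)⟩) _ _ hj
  have hone : ∀ x, x ∈ 𝔇.Yraw pos π → x ∈ pvwComp T (𝔇.Yraw pos π) x := by
    intro x hx
    refine ⟨PvMap.Pth.nil T x 𝔇.t.dp, rfl, rfl, ?_⟩
    rintro y ⟨i, -, rfl⟩
    exact hx
  rcases ha with rfl | rfl | ⟨w, hw, hadj⟩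
  · exact ⟨_, Or.inl (hone _ (hsub _ ha0)), hj'⟩
  · exact ⟨_, Or.inr (hone _ (hsub _ ha0)), hj'⟩
  · obtain ⟨u, hu, hju⟩ := hC.col w hw
    exact ⟨u, hu, (hju.tail ⟨T.adj_symm hadj, pvc2_yraw_K hπ hOk (hsub _ ha0)⟩).trans hj'⟩

end datum

section datum2

variable {𝔇 : PvwDat T} {pos : V → ℂ} {N : PvwNum} {h : ℝ} {π : PvwPat} {σ : V → Bool}

/-- the vertices of `g₀ ∪ q`, `q` a shield, are not in `pvc2K` -/
theorem pvc2_Z_off (q : T.Pth) (hg : 𝔇.g.Glue q) (hin : ∀ x ∈ q.inner, x ∈ pvc2Sh 𝔇 pos π σ) {v : V} (hv : v ∈ pvc2K 𝔇 pos π) : v ∉ (𝔇.g.glue q hg).verts := by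
  intro hZ
  rw [pl_pth_glue_verts] at hZ
  rcases hZ with hZ | ⟨j, hj, rfl⟩
  · exact hv.2.1 hZ
  · rcases Nat.eq_zero_or_pos j with rfl | hj0
    · exact hv.2.1 ⟨𝔇.g.n, le_rfl, hg.h1⟩
    · rcases Nat.lt_or_ge j q.n with hlt | hge
      · rcases (hin _ ⟨j, hj0, hlt, rfl⟩).2 with h1 | h1
        · exact hv.1 h1
        · exact hv.2.2 h1
      · have hjn : j = q.n := le_antisymm hj hge
        subst hjn
        exact hv.2.1 ⟨0, Nat.zero_le _, hg.h2.symm⟩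

/-- **G1' (V1 of 145; G1 of 78 for `Tr/Defs` v3), PROVED** from the two geometric hypotheses `Pvc2Col`: for EVERY shield `q` (first dart `dm(t)`, last dart `opp dp(s)`, inner vertices white, frozen by `D_Y` or over the outer lane)
every site off `NU` (class `YC0`, sites over the collared lanes) lies strictly on the LEFT of `Z = g₀ ∪ q`; so `Int Z.Right ⊆ NU` -/
theorem pvc2_g1U (hT : T.IsSph) (hπ : π.Wf) (hOk : 𝔇.Ok pos N h π) (hσ : σ ∈ 𝔇.Cyl) (hins : Disjoint 𝔇.s.ins 𝔇.t.ins) (hC : Pvc2Col 𝔇 pos π) {n : ℕ} (hSY : 𝔇.SYn pos π σ n)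
    (q : T.Pth) (hg : 𝔇.g.Glue q) (h2 : 2 ≤ q.n) (hf : q.e 0 = 𝔇.t.dm) (hl : q.e (q.n - 1) = T.opp 𝔇.s.dp) (hin : ∀ x ∈ q.inner, x ∈ pvc2Sh 𝔇 pos π σ) :
    (∀ v, v ∉ 𝔇.NU pos π → v ∈ T.Int (𝔇.g.glue q hg).Left) ∧ ∀ v ∈ T.Int (𝔇.g.glue q hg).Right, v ∈ 𝔇.NU pos π := by
  obtain ⟨hAs, hAt⟩ := pvc2_at hT hOk hσ
  obtain ⟨M, hM, hang⟩ := pvc2_hang hT hAs hAt hins hSY
  have hK : ∀ v ∈ 𝔇.YCL pos π, v ∈ pvc2K 𝔇 pos π := fun v hv => pvc2_yraw_K hπ hOk (pvc2_ycl_yraw hv)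
  have key : ∀ v, v ∉ 𝔇.NU pos π → v ∈ T.Int (𝔇.g.glue q hg).Left := by
    intro v hv
    obtain ⟨u, hu, hj⟩ := pvc2_nu_join hπ hOk hC hv
    obtain ⟨f, hfc, hfY, hjf⟩ := hang u hu
    have hj2 : ReflTransGen (fun a b => T.Adj a b ∧ b ∉ (𝔇.g.glue q hg).verts) (T.src f) v :=
      (ReflTransGen.mono (fun _ _ hh => ⟨hh.1, pvc2_Z_off q hg hin (hK _ hh.2)⟩) _ _ hjf).trans
        (ReflTransGen.mono (fun _ _ hh => ⟨hh.1, pvc2_Z_off q hg hin hh.2⟩) _ _ hj)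
    exact pvc2_join_left hT hAt.gate.bw_m hM 𝔇.g q hg (fun i hi => hσ.2.1 _ ⟨i, hi, rfl⟩) h2 hf hl (fun i h0 h1 => (hin _ ⟨i, h0, h1, rfl⟩).1) hfc
      (pvc2_Z_off q hg hin (hK _ hfY)) hj2
  refine ⟨key, fun v hv => ?_⟩
  by_contra hN
  exact Set.disjoint_left.1 (pl_jordan_vert_disj hT _).2.2 (key v hN) hv

/-- G1 of 78 in the form of v2: no site of `YCL` strictly on the right of `g₀ ∪ q` (no hypothesis on `Ycol`) -/
theorem pvc2_g1 (hT : T.IsSph) (hπ : π.Wf) (hOk : 𝔇.Ok pos N h π) (hσ : σ ∈ 𝔇.Cyl) (hins : Disjoint 𝔇.s.ins 𝔇.t.ins) {n : ℕ} (hSY : 𝔇.SYn pos π σ n)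
    (q : T.Pth) (hg : 𝔇.g.Glue q) (h2 : 2 ≤ q.n) (hf : q.e 0 = 𝔇.t.dm) (hl : q.e (q.n - 1) = T.opp 𝔇.s.dp) (hin : ∀ x ∈ q.inner, x ∈ pvc2Sh 𝔇 pos π σ) :
    (∀ v ∈ 𝔇.YCL pos π, v ∈ T.Int (𝔇.g.glue q hg).Left) ∧ ∀ v ∈ T.Int (𝔇.g.glue q hg).Right, v ∉ 𝔇.YCL pos π := by
  obtain ⟨hAs, hAt⟩ := pvc2_at hT hOk hσ
  obtain ⟨M, hM, hang⟩ := pvc2_hang hT hAs hAt hins hSY
  have hK : ∀ v ∈ 𝔇.YCL pos π, v ∈ pvc2K 𝔇 pos π := fun v hv => pvc2_yraw_K hπ hOk (pvc2_ycl_yraw hv)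
  have key : ∀ v ∈ 𝔇.YCL pos π, v ∈ T.Int (𝔇.g.glue q hg).Left := by
    intro v hv
    obtain ⟨f, hfc, hfY, hjf⟩ := hang v hv
    exact pvc2_join_left hT hAt.gate.bw_m hM 𝔇.g q hg (fun i hi => hσ.2.1 _ ⟨i, hi, rfl⟩) h2 hf hl (fun i h0 h1 => (hin _ ⟨i, h0, h1, rfl⟩).1) hfc
      (pvc2_Z_off q hg hin (hK _ hfY)) (ReflTransGen.mono (fun _ _ hh => ⟨hh.1, pvc2_Z_off q hg hin (hK _ hh.2)⟩) _ _ hjf)
  exact ⟨key, fun v hv hY => Set.disjoint_left.1 (pl_jordan_vert_disj hT _).2.2 (key v hY) hv⟩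

/-- **A SHIELD EXISTS** on `Cyl(D) ∩ WO(D)` -/
theorem pvc2_shield_exists (hT : T.IsSph) (hOk : 𝔇.Ok pos N h π) (hσ : σ ∈ 𝔇.Cyl) (hWO : 𝔇.WO pos π σ) :
    ∃ (q : T.Pth) (_ : 𝔇.g.Glue q), 2 ≤ q.n ∧ q.e 0 = 𝔇.t.dm ∧ q.e (q.n - 1) = T.opp 𝔇.s.dp ∧ ∀ x ∈ q.inner, x ∈ pvc2Sh 𝔇 pos π σ := by
  obtain ⟨hAs, hAt⟩ := pvc2_at hT hOk hσ
  have hgB : pvtaB 𝔇.g σ := fun i hi => hσ.2.1 _ ⟨i, hi, rfl⟩
  have hg0 : 𝔇.g.v 0 = T.src 𝔇.s.dp := hOk.g0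
  have hg1 : 𝔇.g.v 𝔇.g.n = T.src 𝔇.t.dm := hOk.g1
  have hne : T.src 𝔇.s.dp ≠ T.src 𝔇.t.dm := by
    intro e
    have := 𝔇.g.inj 0 𝔇.g.n (Nat.zero_le _) le_rfl (by rw [hg0, hg1, e])
    have := hOk.pos_n
    omega
  obtain ⟨q, hq2, q0, qn, qe0, qe1, hqX⟩ := pvc2_mkq hAs.gate.bw_p hAt.gate.bw_m hne (X := pvc2Sh 𝔇 pos π σ) (fun v hv => hv.1) (pvc2_white hT hOk hσ hWO)
  have hgq : 𝔇.g.Glue q := by
    refine ⟨hg1.trans q0.symm, qn.trans hg0.symm, by have := hOk.pos_n; omega, fun i j hi hj e => ?_⟩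
    rcases Nat.eq_zero_or_pos j with rfl | hj0
    · left
      exact ⟨𝔇.g.inj i 𝔇.g.n hi le_rfl (by rw [e, q0, hg1]), rfl⟩
    · rcases Nat.lt_or_ge j q.n with hlt | hge
      · exfalso
        have h2 := (hqX j hj0 hlt).1
        rw [← e, hgB i hi] at h2
        exact Bool.noConfusion h2
      · right
        have hjn : j = q.n := le_antisymm hj hge
        subst hjn
        exact ⟨𝔇.g.inj i 0 hi (Nat.zero_le _) (by rw [e, qn, hg0]), rfl⟩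
  refine ⟨q, hgq, hq2, qe0, qe1, ?_⟩
  rintro x ⟨i, h0, h1, rfl⟩
  exact hqX i h0 h1

/-- **the free arc of a datum is globally faced** on `Cyl(D) ∩ NB(D) ∩ WO(D) ∩ SY(D)` -/
theorem pvc2_g_gfaced (hT : T.IsSph) (hS : T.Simple) (hπ : π.Wf) (hOk : 𝔇.Ok pos N h π) (hσ : σ ∈ 𝔇.Cyl) (hins : Disjoint 𝔇.s.ins 𝔇.t.ins) (hC : Pvc2Col 𝔇 pos π)
    (hNB : 𝔇.NB pos π σ) (hWO : 𝔇.WO pos π σ) {n : ℕ} (hSY : 𝔇.SYn pos π σ n) : 𝔇.g.GFaced σ 𝔇.anc := by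
  obtain ⟨hAs, hAt⟩ := pvc2_at hT hOk hσ
  obtain ⟨q, hgq, hq2, qe0, qe1, hin⟩ := pvc2_shield_exists hT hOk hσ hWO
  exact pvc2_gfaced_U hT 𝔇.g q hgq (fun i hi => hσ.2.1 _ ⟨i, hi, rfl⟩) hq2 qe1 (fun i h0 h1 => (hin _ ⟨i, h0, h1, rfl⟩).1)
    (fun v hv => hOk.off_y v (Or.inl hv)) (pvc2_g1U hT hπ hOk hσ hins hC hSY q hgq hq2 qe0 qe1 hin).2 (pvc2_anc hS hAs.gate) hNB

/-- **the free arc is a piece of the wall of the entry gate edge of `t`** -/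
theorem pvc2_g_onwall (hT : T.IsSph) (hS : T.Simple) (hπ : π.Wf) (hOk : 𝔇.Ok pos N h π) (hσ : σ ∈ 𝔇.Cyl) (hins : Disjoint 𝔇.s.ins 𝔇.t.ins) (hC : Pvc2Col 𝔇 pos π)
    (hNB : 𝔇.NB pos π σ) (hWO : 𝔇.WO pos π σ) {n : ℕ} (hSY : 𝔇.SYn pos π σ n) : 𝔇.g.OnWall σ 𝔇.t.dm := by
  obtain ⟨hAs, hAt⟩ := pvc2_at hT hOk hσ
  have hc : ∀ i, i ≤ 𝔇.g.n → σ (𝔇.g.v i) = σ (𝔇.g.v 0) := fun i hi => by
    rw [hσ.2.1 _ ⟨i, hi, rfl⟩, hσ.2.1 _ (pl_pth_fst_mem _)]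
  refine pvow_gfaced_onwall hT (pvc2_g_gfaced hT hS hπ hOk hσ hins hC hNB hWO hSY) (pvas_bw_occ hAt.gate.bw_m) ?_ ?_
  · have := pvt_c_mono_symm (pvow_pth_mono hc 𝔇.g.n le_rfl)
    rwa [hOk.g1] at this
  · exact (pvt_c_join_mono (r := false) (pvt_c_join_mono_set (le_refl _) (fun v hv => hv.1) (pvc2_white hT hOk hσ hWO))).trans (pvt_c_mono_symm (pvc2_anc hS hAs.gate))

/-! ## 8. (C1) -/

/-- `N_g` reads of the path its length, its darts and its vertices -/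
theorem pvc2_N_pth {g g' : T.Pth} {s : V → Bool} {U 𝔄 : Set V} (hn : g'.n = g.n) (he : ∀ k, k < g.n → g'.e k = g.e k) (hv : g'.verts = g.verts)
    (h : pvtaN g' s U 𝔄) : pvtaN g s U 𝔄 := by
  intro k hk
  obtain ⟨a, ha, hj⟩ := h k (hn ▸ hk)
  refine ⟨a, ha, ?_⟩
  unfold PvMap.Pth.rap at hj ⊢
  rwa [he k hk, hv] at hj

/-- the vertices of the free arc of an actual datum, on the rim -/
theorem pvc2_act_v {c : T.Cyc} {j : ℕ} (hOk : 𝔇.Ok pos N h π) (hA : 𝔇.Actual pos N h π σ c j) {k : ℕ} (hk : k ≤ 𝔇.g.n) : T.src (c.e (j + 𝔇.s.inn.n + k)) = 𝔇.g.v k := by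
  rcases Nat.lt_or_ge k 𝔇.g.n with h1 | h1
  · rw [hA.arc k h1, 𝔇.g.src_e k h1]
  · have hp := hOk.pos_n
    obtain ⟨m, rfl⟩ : ∃ m, k = m + 1 := ⟨k - 1, by omega⟩
    rw [← Nat.add_assoc, ← c.chain, hA.arc m (by omega), 𝔇.g.tgt_e m (by omega)]

/-- **(C1)**: an actual datum satisfies `NB(D)` (the faced form of record, on `NU`) -/
theorem pvc2_C1 (hT : T.IsSph) {c : T.Cyc} {j : ℕ} (hOk : 𝔇.Ok pos N h π) (hA : 𝔇.Actual pos N h π σ c j) : 𝔇.NB pos π σ := by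
  have hAs := (pvc2_at hT hOk hA.cyl).1
  have hp := (pvc2_inn_pos hAs.gate).1
  have hlen : 𝔇.g.n < c.n := by
    by_contra hcon
    have h1 := pvc2_act_v hOk hA (k := c.n) (by omega)
    have h2 := pvc2_act_v hOk hA (k := 0) (Nat.zero_le _)
    rw [c.per] at h1
    have := 𝔇.g.inj _ _ (by omega) (Nat.zero_le _) (h1.symm.trans h2)
    have := pl_cyc_pos c
    omega
  have h := (pvta_act hT hA.rim hA.black (j + 𝔇.s.inn.n) 𝔇.g.n (j + (𝔇.s.inn.n - 1)) hlen (𝔇.NU pos π) (𝔇.Lam pos π) (fun k hk => by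
    rw [hA.arc k hk]
    exact hOk.off_y _ (Or.inr ⟨k, hk, rfl⟩)) (fun u hu hl w hw => by
      by_contra hwN
      exact hl ⟨hu, w, hwN, hw⟩)).2
  rw [hA.pin_s.run _ (by omega)] at h
  have hn : (c.pth (j + 𝔇.s.inn.n) 𝔇.g.n).n = 𝔇.g.n := by
    show min 𝔇.g.n (c.n - 1) = 𝔇.g.n
    omega
  refine pvc2_N_pth hn (fun k hk => hA.arc k hk) ?_ h
  ext x
  constructor
  · rintro ⟨k, hk, rfl⟩
    exact ⟨k, hn ▸ hk, (pvc2_act_v hOk hA (hn ▸ hk)).symm⟩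
  · rintro ⟨k, hk, rfl⟩
    exact ⟨k, hn.symm ▸ hk, pvc2_act_v hOk hA hk⟩

/-! ## 9. (C2) -/

/-- **(C2) CLOSING for a given arc `y`**, faced form on `NU` (`Tr/Defs` v3): on `Cyl(D) ∩ NB ∩ WO ∩ SY` the circuit `P' = g₀ · inner(t) · y · inner(s)` is a full label class and its label sum is the sum of the four path sums.
`hC` = the two geometric hypotheses of G1' (void if `Ycol = ∅`);   `hdist` = G2 (the four pieces have pairwise distinct heads);   no G3, no sectors -/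
theorem pvc2_C2_arc (hT : T.IsSph) (hS : T.Simple) (hπ : π.Wf) (hOk : 𝔇.Ok pos N h π) (hσ : σ ∈ 𝔇.Cyl) (hins : Disjoint 𝔇.s.ins 𝔇.t.ins) (hC : Pvc2Col 𝔇 pos π)
    (hNB : 𝔇.NB pos π σ) (hWO : 𝔇.WO pos π σ) {y : T.Pth} (hy : 𝔇.YArc pos π σ y)
    (hdist : [𝔇.g, 𝔇.t.inn, y, 𝔇.s.inn].Pairwise fun p p' => ∀ k l, k < p.n → l < p'.n → p.v (k + 1) ≠ p'.v (l + 1)) :
    T.Tag σ (T.opp (𝔇.g.e 0)) ∧ (∀ d', T.SameLab σ (T.opp (𝔇.g.e 0)) d' ↔ T.opp d' ∈ pvowDarts [𝔇.g, 𝔇.t.inn, y, 𝔇.s.inn]) ∧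
      ∀ w : D → ℂ, T.lsum σ w (T.opp (𝔇.g.e 0)) = 𝔇.g.psum w + 𝔇.t.inn.psum w + y.psum w + 𝔇.s.inn.psum w := by
  obtain ⟨hAs, hAt⟩ := pvc2_at hT hOk hσ
  obtain ⟨n, hn, hle⟩ := hy
  obtain ⟨nt, et, -, hlt⟩ := hAt.gate.strand
  obtain ⟨ns, es, -, hls⟩ := hAs.gate.strand
  obtain ⟨-, et0, et1⟩ := pvc2_inn_pos hAt.gate
  obtain ⟨-, es0, es1⟩ := pvc2_inn_pos hAs.gate
  obtain ⟨ey0, ey1⟩ := pvc2_le_ends hle
  have w1 : T.Wall σ 𝔇.t.dm 𝔇.t.dp := et ▸ pvt_s_it_wall hAt.gate.bw_m nt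
  have w2 : T.Wall σ 𝔇.t.dp 𝔇.s.dm := hn.2.1 ▸ pvt_s_it_wall hAt.gate.bw_p n
  have hchain : pvowChain T [𝔇.g, 𝔇.t.inn, y, 𝔇.s.inn] (𝔇.g.v 0) (𝔇.g.v 0) := by
    refine ⟨rfl, by rw [et0, hOk.g1], by rw [ey0, et1]; rfl, ?_, ?_⟩
    · rw [es0, ey1]
      show 𝔇.s.gm = T.src (pvasIt T σ 𝔇.t.dp n)
      rw [hn.2.1]
      rfl
    · rw [es1, hOk.g0]
      exact rfl
  have hwall : ∀ p ∈ [𝔇.g, 𝔇.t.inn, y, 𝔇.s.inn], p.OnWall σ 𝔇.t.dm := by
    intro p hp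
    simp only [List.mem_cons, List.not_mem_nil, or_false] at hp
    rcases hp with rfl | rfl | rfl | rfl
    · exact pvc2_g_onwall hT hS hπ hOk hσ hins hC hNB hWO hn
    · exact pvow_le_onwall hS hAt.gate.bw_m hlt
    · exact pvow_onwall_trans (pvow_le_onwall hS hAt.gate.bw_p hle) w1
    · exact pvow_onwall_trans (pvow_le_onwall hS hAs.gate.bw_m hls) (pl_ra_wall_trans w1 w2)
  have hmem : 𝔇.g.e 0 ∈ pvowDarts [𝔇.g, 𝔇.t.inn, y, 𝔇.s.inn] := pvow_mem_darts.2 ⟨𝔇.g, by simp, 0, hOk.pos_n, rfl⟩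
  obtain ⟨r1, r2, r3⟩ := pvow_ring hT hS hchain (pvow_nodup hdist) hwall hmem
  refine ⟨r1, r2, fun w => ?_⟩
  rw [r3 w]
  simp only [List.map_cons, List.map_nil, List.sum_cons, List.sum_nil]
  ring

end datum2

/-! # PART C : producers of `Pvc2Col` -/

section cross

variable {V D : Type} {T : PvMap V D} {𝔇 : PvwDat T} {pos : V → ℂ} {N : PvwNum} {h : ℝ} {π : PvwPat} {σ : V → Bool}

/-- the strand from the exit gate edge of `t` is at the tip dart of `s` at time `n - nm` -/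
theorem pvc2_tip_s {zs zt : ℂ} {τs τt : PvwTy} (hAs : 𝔇.s.AtIn pos N h zs τs σ) (hAt : 𝔇.t.AtOut pos N h zt τt σ) {n : ℕ} (hSY : 𝔇.SYn pos π σ n) :
    pvasIt T σ 𝔇.t.dp (n - 𝔇.s.nm) = 𝔇.s.em 𝔇.s.nm := by
  have bws := hAs.gate.bw_m
  have hn := hSY.1
  refine pvas_it_cancel (pvas_it_bw hAt.gate.bw_p _) (pvwk_em_bw hAs.stub bws le_rfl) 𝔇.s.nm ?_
  rw [← pvas_it_add, Nat.sub_add_cancel (by omega), hSY.2.1, pvwk_em_fwd_end hAs.stub bws]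

/-- **THE NEW STRAND CROSSES THE LANES** (discrete intermediate value): `Yin ⊆ Ycol ∪ Bt ∪ Bs`, the tip dart of `t` over `Bt`, the black end of the tip dart of `s` not over `Bt`, no edge from `Bt` to `Bs \ Bt`:
some NEW position has an end over `Ycol` -/
theorem pvc2_cross {zs zt : ℂ} {τs τt : PvwTy} (hAs : 𝔇.s.AtIn pos N h zs τs σ) (hAt : 𝔇.t.AtOut pos N h zt τt σ) {n : ℕ} (hSY : 𝔇.SYn pos π σ n)
    {Bt Bs : Set ℂ} (hcov : π.Yin ⊆ π.Ycol ∪ Bt ∪ Bs) (ht : pos (T.src (𝔇.t.ep 𝔇.t.np)) ∈ Bt ∧ pos (T.tgt (𝔇.t.ep 𝔇.t.np)) ∈ Bt)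
    (hs : pos (T.src (𝔇.s.em 𝔇.s.nm)) ∈ Bs ∧ pos (T.tgt (𝔇.s.em 𝔇.s.nm)) ∈ Bs) (hdis : Disjoint Bt Bs) (hfar : ∀ u w, T.Adj u w → pos u ∈ Bt → pos w ∉ Bs) :
    ∃ i, 𝔇.t.np < i ∧ i + 𝔇.s.nm < n ∧ (pos (T.src (pvasIt T σ 𝔇.t.dp i)) ∈ π.Ycol ∨ pos (T.tgt (pvasIt T σ 𝔇.t.dp i)) ∈ π.Ycol) := by
  by_contra hcon0
  have hcon : ∀ i, 𝔇.t.np < i → i + 𝔇.s.nm < n → pos (T.src (pvasIt T σ 𝔇.t.dp i)) ∉ π.Ycol ∧ pos (T.tgt (pvasIt T σ 𝔇.t.dp i)) ∉ π.Ycol :=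
    fun i h1 h2 => ⟨fun hc => hcon0 ⟨i, h1, h2, Or.inl hc⟩, fun hc => hcon0 ⟨i, h1, h2, Or.inr hc⟩⟩
  have hn := hSY.1
  have etip := pvc2_tip_s hAs hAt hSY
  -- both ends of every position between the two tips lie over `Bt ∪ Bs`
  have hU : ∀ i, 𝔇.t.np ≤ i → i + 𝔇.s.nm ≤ n → (pos (T.src (pvasIt T σ 𝔇.t.dp i)) ∈ Bt ∪ Bs) ∧ (pos (T.tgt (pvasIt T σ 𝔇.t.dp i)) ∈ Bt ∪ Bs) := by
    intro i h1 h2
    rcases Nat.eq_or_lt_of_le h1 with e | h1'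
    · rw [← e, ← hAt.stub.ep_it _ le_rfl]
      exact ⟨Or.inl ht.1, Or.inl ht.2⟩
    rcases Nat.eq_or_lt_of_le h2 with e | h2'
    · rw [show i = n - 𝔇.s.nm by omega, etip]
      exact ⟨Or.inr hs.1, Or.inr hs.2⟩
    obtain ⟨-, -, y1, y2⟩ := hSY.2.2.2 i h1' h2'
    obtain ⟨c1, c2⟩ := hcon i h1' h2'
    constructor
    · rcases hcov y1 with (h | h) | h
      · exact absurd h c1
      · exact Or.inl h
      · exact Or.inr h
    · rcases hcov y2 with (h | h) | h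
      · exact absurd h c2
      · exact Or.inl h
      · exact Or.inr h
  have key : ∀ k, 𝔇.t.np + k + 𝔇.s.nm ≤ n → pos (T.src (pvasIt T σ 𝔇.t.dp (𝔇.t.np + k))) ∈ Bt ∧ pos (T.tgt (pvasIt T σ 𝔇.t.dp (𝔇.t.np + k))) ∈ Bt := by
    intro k
    induction k with
    | zero =>
      intro _
      rw [Nat.add_zero, ← hAt.stub.ep_it _ le_rfl]
      exact ht
    | succ k ih =>
      intro hk
      obtain ⟨i1, i2⟩ := ih (by omega)
      obtain ⟨u1, u2⟩ := hU (𝔇.t.np + (k + 1)) (by omega) hk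
      have hadj : T.Adj (T.src (pvasIt T σ 𝔇.t.dp (𝔇.t.np + (k + 1)))) (T.tgt (pvasIt T σ 𝔇.t.dp (𝔇.t.np + (k + 1)))) := ⟨_, rfl, rfl⟩
      have e : pvasIt T σ 𝔇.t.dp (𝔇.t.np + (k + 1)) = pvasStep T σ (pvasIt T σ 𝔇.t.dp (𝔇.t.np + k)) := by
        rw [← Nat.add_assoc, pvas_it_succ]
      rcases pvas_step_ends σ (pvasIt T σ 𝔇.t.dp (𝔇.t.np + k)) with ⟨-, -, e2⟩ | ⟨-, e1, -⟩
      · have t1 : pos (T.tgt (pvasIt T σ 𝔇.t.dp (𝔇.t.np + (k + 1)))) ∈ Bt := by rw [e, e2]; exact i2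
        refine ⟨?_, t1⟩
        rcases u1 with u1 | u1
        · exact u1
        · exact absurd u1 (hfar _ _ (T.adj_symm hadj) t1)
      · have t1 : pos (T.src (pvasIt T σ 𝔇.t.dp (𝔇.t.np + (k + 1)))) ∈ Bt := by rw [e, e1]; exact i1
        refine ⟨t1, ?_⟩
        rcases u2 with u2 | u2
        · exact u2
        · exact absurd u2 (hfar _ _ hadj t1)
  have hlast := (key (n - 𝔇.s.nm - 𝔇.t.np) (by omega)).1
  rw [show 𝔇.t.np + (n - 𝔇.s.nm - 𝔇.t.np) = n - 𝔇.s.nm by omega, etip] at hlast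
  exact Set.disjoint_left.1 hdis hlast hs.1

/-- a `YCL` site over the lanes -/
theorem pvc2_cross_ycl {zs zt : ℂ} {τs τt : PvwTy} (hAs : 𝔇.s.AtIn pos N h zs τs σ) (hAt : 𝔇.t.AtOut pos N h zt τt σ) {n : ℕ} (hSY : 𝔇.SYn pos π σ n)
    {Bt Bs : Set ℂ} (hcov : π.Yin ⊆ π.Ycol ∪ Bt ∪ Bs) (ht : pos (T.src (𝔇.t.ep 𝔇.t.np)) ∈ Bt ∧ pos (T.tgt (𝔇.t.ep 𝔇.t.np)) ∈ Bt)
    (hs : pos (T.src (𝔇.s.em 𝔇.s.nm)) ∈ Bs ∧ pos (T.tgt (𝔇.s.em 𝔇.s.nm)) ∈ Bs) (hdis : Disjoint Bt Bs) (hfar : ∀ u w, T.Adj u w → pos u ∈ Bt → pos w ∉ Bs)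
    (hfz : ∀ v ∈ 𝔇.fzY, pos v ∉ π.Ycol) : ∃ u ∈ 𝔇.YCL pos π, pos u ∈ π.Ycol := by
  obtain ⟨i, h1, h2, hc⟩ := pvc2_cross hAs hAt hSY hcov ht hs hdis hfar
  obtain ⟨y1, y2, -, -⟩ := hSY.2.2.2 i h1 h2
  rcases hc with hc | hc
  · exact ⟨_, y1.resolve_right fun hf => hfz _ hf hc, hc⟩
  · exact ⟨_, y2.resolve_right fun hf => hfz _ hf hc, hc⟩

/-- **`Pvc2Col` from one `YCL` site over the lanes + connectivity of the sites over the lanes** -/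
theorem pvc2_col_of_conn (hfz : ∀ v ∈ 𝔇.fzY, pos v ∉ π.Ycol) {u : V} (hu : u ∈ 𝔇.YCL pos π)
    (hconn : ∀ v, pos v ∈ π.Ycol → ReflTransGen (fun a b => T.Adj a b ∧ b ∈ pvc2K 𝔇 pos π) u v) : Pvc2Col 𝔇 pos π :=
  ⟨hfz, fun v hv => ⟨u, hu, hconn v hv⟩⟩

/-- no site of `pvc2K` is a site where the boundary of a cell of 194 may run -/
theorem pvc2_K_wl {v : V} (hv : v ∈ pvc2K 𝔇 pos π) : v ∉ 𝔇.Wl pos π := by
  rintro (h1 | h1 | h1 | h1 | h1 | h1)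
  · exact hv.2.1 h1
  · exact hv.1 (Or.inl (Or.inl (Or.inl h1)))
  · exact hv.1 (Or.inl (Or.inr h1))
  · exact hv.1 (Or.inr (Or.inr h1))
  · exact hv.1 (Or.inr (Or.inl (Or.inl h1)))
  · exact hv.2.2 h1.1

/-- **BRIDGE to `Tr/C12` v3**: `Pvc2Col ⟹ PvwDat.Col` (the colour-free hypothesis `hcol` of `pvwc_C2_arc`, `pvwc_C2`, `pvwc_C2_rim`, `pvwf_C2`, `pvwf_C2_rim`) -/
theorem pvc2_Col (hπ : π.Wf) (hOk : 𝔇.Ok pos N h π) (hC : Pvc2Col 𝔇 pos π) : 𝔇.Col pos π := by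
  intro w hw
  obtain ⟨u, hu, hj⟩ := pvc2_nu_join hπ hOk hC hw
  have hj' : ReflTransGen (fun a x => T.Adj a x ∧ x ∉ 𝔇.Wl pos π) u w := ReflTransGen.mono (fun _ _ hh => ⟨hh.1, pvc2_K_wl hh.2⟩) _ _ hj
  have one : ∀ a, u ∈ pvwComp T (𝔇.Yraw pos π) a → a ∉ 𝔇.Wl pos π ∧ ReflTransGen (fun a x => T.Adj a x ∧ x ∉ 𝔇.Wl pos π) a w := by
    intro a ha
    obtain ⟨h1, h2⟩ := pvc2_comp_join ha
    have hsub : ∀ x, x ∈ pvwComp T (𝔇.Yraw pos π) a → x ∉ 𝔇.Wl pos π := by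
      rintro x ⟨q, -, rfl, hq⟩
      exact pvc2_K_wl (pvc2_yraw_K hπ hOk (hq _ (pl_pth_lst_mem q)))
    exact ⟨hsub a h1, (ReflTransGen.mono (fun _ _ hh => ⟨hh.1, hsub _ hh.2⟩) _ _ h2).trans hj'⟩
  rcases hu with hu | hu
  · exact ⟨_, Or.inl rfl, one _ hu⟩
  · exact ⟨_, Or.inr rfl, one _ hu⟩

end cross

/-! ## 11. the Delaunay plane -/

section plane

open Set Metric

variable {Y : Set ℂ}

/-- Delaunay chains are chains of the plane map -/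
theorem pvc2_plane_chain (hY : DelGood Y) {W : Set ℂ} {a : ↥Y} {b : ℂ} (hab : PvgeCh Y W a b) :
    ∃ hb : b ∈ Y, ReflTransGen (fun u v : ↥Y => (delbPl Y).toMap.Adj u v ∧ (v : ℂ) ∈ W) a ⟨b, hb⟩ := by
  induction hab with
  | refl => exact ⟨a.2, ReflTransGen.refl⟩
  | @tail u w _ h2 ih =>
    obtain ⟨hu, hj⟩ := ih
    exact ⟨h2.1.2.1, hj.tail ⟨⟨delbD hY h2.1, rfl, rfl⟩, h2.2⟩⟩

/-- **`Pvc2Col` AT THE MODEL** (site set `Y`, plane map, `pos = val`).      REGIONS: `Ycol` preconnected, its `r`-collar inside `Yreg` and off `Yout`, `Yin ⊆ Ycol ∪ Bt ∪ Bs`, `Bt`, `Bs` disjoint.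
GEOMETRY: mesh `r` on `Ycol`; no frozen site of `D_Y` in the `r`-collar of `Ycol` (FIT); the tip darts over `Bt`, `Bs`; no edge from `Bt` to `Bs`.      COLOUR: only through `SY` (the new strand crosses the lanes). -/
theorem pvc2_col_plane (hY : DelGood Y) {𝔇 : PvwDat (delbPl Y).toMap} {N : PvwNum} {h : ℝ} {π : PvwPat} {σ : ↥Y → Bool} (hOk : 𝔇.Ok Subtype.val N h π) (hσ : σ ∈ 𝔇.Cyl)
    {n : ℕ} (hSY : 𝔇.SYn Subtype.val π σ n) {r : ℝ} {Bt Bs : Set ℂ} (hconn : IsPreconnected π.Ycol) (hreg : vorNbd π.Ycol r ⊆ π.Yreg) (hout : Disjoint (vorNbd π.Ycol r) π.Yout)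
    (hcov : π.Yin ⊆ π.Ycol ∪ Bt ∪ Bs) (hdis : Disjoint Bt Bs) (hd : VorDense Y π.Ycol r) (hr : 0 ≤ r) (hfz : ∀ v ∈ 𝔇.fzY, (v : ℂ) ∉ vorNbd π.Ycol r)
    (ht : ((delbPl Y).toMap.src (𝔇.t.ep 𝔇.t.np) : ℂ) ∈ Bt ∧ ((delbPl Y).toMap.tgt (𝔇.t.ep 𝔇.t.np) : ℂ) ∈ Bt)
    (hs : ((delbPl Y).toMap.src (𝔇.s.em 𝔇.s.nm) : ℂ) ∈ Bs ∧ ((delbPl Y).toMap.tgt (𝔇.s.em 𝔇.s.nm) : ℂ) ∈ Bs)
    (hfar : ∀ a b, DelAdj Y a b → a ∈ Bt → b ∉ Bs) : Pvc2Col 𝔇 Subtype.val π := by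
  have hT := delb_plane_isSph hY
  obtain ⟨hAs, hAt⟩ := pvc2_at hT hOk hσ
  have hsub : π.Ycol ⊆ vorNbd π.Ycol r := fun z hz => ⟨z, hz, by rw [sub_self, norm_zero]; exact hr⟩
  have hfz' : ∀ v ∈ 𝔇.fzY, (v : ℂ) ∉ π.Ycol := fun v hv hc => hfz v hv (hsub hc)
  obtain ⟨u, hu, huc⟩ := pvc2_cross_ycl hAs hAt hSY hcov ht hs hdis (fun a b hab => by
    obtain ⟨d, rfl, rfl⟩ := hab
    exact hfar _ _ d.2.2) hfz'
  refine pvc2_col_of_conn hfz' hu fun v hv => ?_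
  obtain ⟨_, hj⟩ := pvc2_plane_chain hY (pvge_K1 hY.lf hconn hd u.2 huc v.2 hv)
  refine ReflTransGen.mono (fun a b hab => ⟨hab.1, fun hf => hfz b hf hab.2.2, fun hg => hOk.off b hg (hreg hab.2.2), fun ho => Set.disjoint_left.1 hout hab.2.2 ho⟩) _ _ hj

/-- no Delaunay edge between two far apart balls, on the mesh event round the first one -/
theorem pvc2_no_edge {U : Set ℂ} {r ρ₀ : ℝ} {y y' : ℂ} (hr : 0 < r) (hm : PvtrMesh r U Y) (hU : closedBall y ρ₀ ⊆ pvtrCore (3 * r) U) (hsep : 2 * ρ₀ + 2 * r < ‖y - y'‖) :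
    ∀ a b, DelAdj Y a b → a ∈ closedBall y ρ₀ → b ∉ closedBall y' ρ₀ := by
  intro a b hab ha hb
  have h1 := pvge_adj_short hr hm (hU ha) hab
  rw [mem_closedBall, dist_eq_norm] at ha hb
  have h2 : ‖y - y'‖ ≤ ‖a - y‖ + ‖a - b‖ + ‖b - y'‖ := by
    have e : y - y' = -(a - y) + (a - b) + (b - y') := by ring
    rw [e]
    refine (norm_add₃_le).trans ?_
    rw [norm_neg]
  linarith

/-- **`Pvc2Col` AT THE MODEL, the mouths of record**: `Bt = closedBall y⁺(t) (ρ h / 2)`, `Bs = closedBall y⁻(s) (ρ h / 2)`; mesh `r` on `Ycol` and round the mouth of `t` -/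
theorem pvc2_col_model (hY : DelGood Y) {𝔇 : PvwDat (delbPl Y).toMap} {N : PvwNum} {h : ℝ} {π : PvwPat} {σ : ↥Y → Bool} (hOk : 𝔇.Ok Subtype.val N h π) (hσ : σ ∈ 𝔇.Cyl)
    {n : ℕ} (hSY : 𝔇.SYn Subtype.val π σ n) {r : ℝ} {U : Set ℂ} (hr : 0 < r) (hρ : 0 ≤ N.rho * h) (hconn : IsPreconnected π.Ycol) (hreg : vorNbd π.Ycol r ⊆ π.Yreg)
    (hout : Disjoint (vorNbd π.Ycol r) π.Yout) (hcov : π.Yin ⊆ π.Ycol ∪ closedBall (π.tt.cp h π.zt) (N.rho * h / 2) ∪ closedBall (π.ts.cm h π.zs) (N.rho * h / 2))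
    (hsep : N.rho * h + 2 * r < ‖π.tt.cp h π.zt - π.ts.cm h π.zs‖) (hd : VorDense Y π.Ycol r) (hm : PvtrMesh r U Y) (hU : closedBall (π.tt.cp h π.zt) (N.rho * h / 2) ⊆ pvtrCore (3 * r) U)
    (hfz : ∀ v ∈ 𝔇.fzY, (v : ℂ) ∉ vorNbd π.Ycol r) : Pvc2Col 𝔇 Subtype.val π := by
  have hle : N.rho * h / 4 ≤ N.rho * h / 2 := by linarith
  refine pvc2_col_plane hY hOk hσ hSY hconn hreg hout hcov ?_ hd hr.le hfz ?_ ?_ (pvc2_no_edge hr hm hU (by linarith))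
  · rw [Set.disjoint_left]
    intro z h1 h2
    rw [mem_closedBall, dist_eq_norm] at h1 h2
    have h3 : ‖π.tt.cp h π.zt - π.ts.cm h π.zs‖ ≤ ‖z - π.tt.cp h π.zt‖ + ‖z - π.ts.cm h π.zs‖ := by
      have e : π.tt.cp h π.zt - π.ts.cm h π.zs = -(z - π.tt.cp h π.zt) + (z - π.ts.cm h π.zs) := by ring
      rw [e]
      refine (norm_add_le _ _).trans ?_
      rw [norm_neg]
    linarith
  · obtain ⟨t1, t2⟩ := hOk.st_t.good.tip_p
    exact ⟨mem_closedBall.2 (by rw [dist_eq_norm]; exact t1.trans hle), mem_closedBall.2 (by rw [dist_eq_norm]; exact t2.trans hle)⟩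
  · obtain ⟨t1, t2⟩ := hOk.st_s.good.tip_m
    exact ⟨mem_closedBall.2 (by rw [dist_eq_norm]; exact t1.trans hle), mem_closedBall.2 (by rw [dist_eq_norm]; exact t2.trans hle)⟩

/-- **`PvwDat.Col` OF `Tr/C12` AT THE MODEL** -/
theorem pvc2_Col_model (hY : DelGood Y) {𝔇 : PvwDat (delbPl Y).toMap} {N : PvwNum} {h : ℝ} {π : PvwPat} {σ : ↥Y → Bool} (hπ : π.Wf) (hOk : 𝔇.Ok Subtype.val N h π) (hσ : σ ∈ 𝔇.Cyl)
    {n : ℕ} (hSY : 𝔇.SYn Subtype.val π σ n) {r : ℝ} {U : Set ℂ} (hr : 0 < r) (hρ : 0 ≤ N.rho * h) (hconn : IsPreconnected π.Ycol) (hreg : vorNbd π.Ycol r ⊆ π.Yreg)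
    (hout : Disjoint (vorNbd π.Ycol r) π.Yout) (hcov : π.Yin ⊆ π.Ycol ∪ closedBall (π.tt.cp h π.zt) (N.rho * h / 2) ∪ closedBall (π.ts.cm h π.zs) (N.rho * h / 2))
    (hsep : N.rho * h + 2 * r < ‖π.tt.cp h π.zt - π.ts.cm h π.zs‖) (hd : VorDense Y π.Ycol r) (hm : PvtrMesh r U Y) (hU : closedBall (π.tt.cp h π.zt) (N.rho * h / 2) ⊆ pvtrCore (3 * r) U)
    (hfz : ∀ v ∈ 𝔇.fzY, (v : ℂ) ∉ vorNbd π.Ycol r) : 𝔇.Col Subtype.val π :=
  pvc2_Col hπ hOk (pvc2_col_model hY hOk hσ hSY hr hρ hconn hreg hout hcov hsep hd hm hU hfz)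

end plane

end Claimed.Agent.R289
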