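-- KEEP
import Claimed.Agent.R289.Tr.DatC2
import Claimed.Agent.R289.Tr.C12F
import Claimed.Agent.R289.Defs.FitReg

/-!
# Row 289 (S0537), THE WALL, file Tr/ColM : `PvwDat.Col` AT THE MODEL WITHOUT A GAP BETWEEN `Ycol` AND `Yout`      (helper194; prefix `pvwm_`)

`pvc2_Col_model` of 227 (`Tr/DatC2`) asks `Disjoint (vorNbd π.Ycol r) π.Yout`.      For the REGIONS OF RECORD (`Defs/FitReg`: `Ycol = cthickening (‖d‖/10) lanes`, `Yout = (.. ∪ closedBall y rO ..) \ cthickening (‖d‖/10) Yin`) this is FALSE: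
where the lanes cross the landing zone `A(y; rI, rO)` the two regions touch.      HERE: no gap.   `Ycol = cthickening ρ L`, `L` closed and preconnected, mesh `ρ` ON `L` ONLY:
* `pvwm_thick_conn` : two sites over `cthickening ρ L` are joined by a Delaunay chain of sites OVER `cthickening ρ L`      [go straight to a nearest point `p` of `L`: a site `u` whose cell meets `[a,p]` at `c` has `|u - c| ≤ |a - c|`, so `|u - p| ≤ |a - p| ≤ ρ`; along `L`: mesh]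
* `pvwm_col_plane`, `pvwm_col_model`, **`pvwm_Col_model`** : `Pvc2Col`, `PvwDat.Col` at the model; FIT is asked in the weak form "no frozen site of `D_Y` OVER `Ycol`".
* sec. 2  `pvwm_lanes_closed`, `pvwm_lanes_preconn` : the lanes `pvfeLanes a b z d l` of 209 are closed and preconnected.      sec. 3  **`pvwm_Col_reg`** : `Col` for the regions of record `pvfeRegAt`.
-/

set_option autoImplicit false

namespace Claimed.Agent.R289

open Relation Set Metric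

variable {Y L : Set ℂ} {ρ : ℝ}

/-- a site whose cell meets the segment from the site `a` to `p` is not farther from `p` than `a` -/
theorem pvwm_seg_near {a p u c : ℂ} (ha : a ∈ Y) (hc : c ∈ vorCell Y u) (hs : c ∈ segment ℝ a p) : dist u p ≤ dist a p := by
  have h1 : ‖c - u‖ ≤ ‖c - a‖ := hc a ha
  have h2 := dist_add_dist_of_mem_segment hs
  have h3 : dist u p ≤ dist u c + dist c p := dist_triangle _ _ _
  rw [dist_comm u c, dist_eq_norm c u] at h3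
  rw [dist_comm a c, dist_eq_norm c a] at h2
  linarith

/-- **the sites over the closed `ρ`-thickening of a closed preconnected set `L` with mesh `ρ` on `L` are Delaunay connected THROUGH SUCH SITES** -/
theorem pvwm_thick_conn (lf : VorLF Y) (hρ : 0 ≤ ρ) (hLc : IsClosed L) (hLp : IsPreconnected L) (hd : VorDense Y L ρ) {a b : ℂ} (ha : a ∈ Y) (haL : a ∈ cthickening ρ L)
    (hb : b ∈ Y) (hbL : b ∈ cthickening ρ L) : PvgeCh Y (Y ∩ cthickening ρ L) a b := by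
  rw [hLc.cthickening_eq_biUnion_closedBall hρ] at haL hbL
  simp only [mem_iUnion, exists_prop] at haL hbL
  obtain ⟨p, hp, hap⟩ := haL
  obtain ⟨p', hp', hbp⟩ := hbL
  have c1 : IsPreconnected (segment ℝ a p ∪ L) :=
    IsPreconnected.union p (right_mem_segment ℝ a p) hp (convex_segment a p).isPreconnected hLp
  have c2 : IsPreconnected (segment ℝ a p ∪ L ∪ segment ℝ b p') :=
    IsPreconnected.union p' (Or.inr hp') (right_mem_segment ℝ b p') c1 (convex_segment b p').isPreconnected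
  refine (pvge_conn lf c2 (pvge_site_meet ha (Or.inl (Or.inl (left_mem_segment ℝ a p)))) (pvge_site_meet hb (Or.inr (left_mem_segment ℝ b p')))).mono ?_
  rintro u ⟨hu, c, hc, hcS⟩
  refine ⟨hu, ?_⟩
  rcases hcS with (hcS | hcS) | hcS
  · exact mem_cthickening_of_dist_le u p ρ L hp ((pvwm_seg_near ha hc hcS).trans hap)
  · refine mem_cthickening_of_dist_le u c ρ L hcS ?_
    rw [dist_comm, dist_eq_norm]
    exact vor_site_near hd hc hcS
  · exact mem_cthickening_of_dist_le u p' ρ L hp' ((pvwm_seg_near hb hc hcS).trans hbp)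

/-- **`Pvc2Col` AT THE MODEL, NO GAP**.      REGIONS: `Ycol = cthickening ρ L`, `L` closed preconnected; `π.Wf`; `Yin ⊆ Ycol ∪ Bt ∪ Bs`, `Bt`, `Bs` disjoint.
GEOMETRY: mesh `ρ` on `L`; no frozen site of `D_Y` over `Ycol`; the tip darts over `Bt`, `Bs`; no edge from `Bt` to `Bs`.      COLOUR: only through `SY`. -/
theorem pvwm_col_plane (hY : DelGood Y) {𝔇 : PvwDat (delbPl Y).toMap} {N : PvwNum} {h : ℝ} {π : PvwPat} {σ : ↥Y → Bool} (hπ : π.Wf) (hOk : 𝔇.Ok Subtype.val N h π) (hσ : σ ∈ 𝔇.Cyl)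
    {n : ℕ} (hSY : 𝔇.SYn Subtype.val π σ n) {Bt Bs : Set ℂ} (hρ : 0 ≤ ρ) (hcol : π.Ycol = cthickening ρ L) (hLc : IsClosed L) (hLp : IsPreconnected L) (hd : VorDense Y L ρ)
    (hcov : π.Yin ⊆ π.Ycol ∪ Bt ∪ Bs) (hdis : Disjoint Bt Bs) (hfz : ∀ v ∈ 𝔇.fzY, (v : ℂ) ∉ π.Ycol)
    (ht : ((delbPl Y).toMap.src (𝔇.t.ep 𝔇.t.np) : ℂ) ∈ Bt ∧ ((delbPl Y).toMap.tgt (𝔇.t.ep 𝔇.t.np) : ℂ) ∈ Bt)
    (hs : ((delbPl Y).toMap.src (𝔇.s.em 𝔇.s.nm) : ℂ) ∈ Bs ∧ ((delbPl Y).toMap.tgt (𝔇.s.em 𝔇.s.nm) : ℂ) ∈ Bs)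
    (hfar : ∀ a b, DelAdj Y a b → a ∈ Bt → b ∉ Bs) : Pvc2Col 𝔇 Subtype.val π := by
  have hT := delb_plane_isSph hY
  obtain ⟨hAs, hAt⟩ := pvc2_at hT hOk hσ
  obtain ⟨u, hu, huc⟩ := pvc2_cross_ycl hAs hAt hSY hcov ht hs hdis (fun a b hab => by
    obtain ⟨d, rfl, rfl⟩ := hab
    exact hfar _ _ d.2.2) hfz
  refine pvc2_col_of_conn hfz hu fun v hv => ?_
  obtain ⟨_, hj⟩ := pvc2_plane_chain hY (pvwm_thick_conn hY.lf hρ hLc hLp hd u.2 (hcol ▸ huc) v.2 (hcol ▸ hv))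
  refine ReflTransGen.mono (fun a b hab => ⟨hab.1, ?_⟩) _ _ hj
  have hb : (b : ℂ) ∈ π.Ycol := by rw [hcol]; exact hab.2.2
  exact ⟨fun hf => hfz b hf hb, fun hg => (hOk.off_y b (Or.inl hg)).2 hb, fun ho => Set.disjoint_left.1 hπ.col hb ho⟩

/-- **`Pvc2Col` AT THE MODEL, NO GAP, the mouths of record** -/
theorem pvwm_col_model (hY : DelGood Y) {𝔇 : PvwDat (delbPl Y).toMap} {N : PvwNum} {h : ℝ} {π : PvwPat} {σ : ↥Y → Bool} (hπ : π.Wf) (hOk : 𝔇.Ok Subtype.val N h π) (hσ : σ ∈ 𝔇.Cyl)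
    {n : ℕ} (hSY : 𝔇.SYn Subtype.val π σ n) {r : ℝ} {U : Set ℂ} (hr : 0 < r) (hρh : 0 ≤ N.rho * h) (hρ : 0 ≤ ρ) (hcol : π.Ycol = cthickening ρ L) (hLc : IsClosed L) (hLp : IsPreconnected L)
    (hd : VorDense Y L ρ) (hcov : π.Yin ⊆ π.Ycol ∪ closedBall (π.tt.cp h π.zt) (N.rho * h / 2) ∪ closedBall (π.ts.cm h π.zs) (N.rho * h / 2))
    (hsep : N.rho * h + 2 * r < ‖π.tt.cp h π.zt - π.ts.cm h π.zs‖) (hm : PvtrMesh r U Y) (hU : closedBall (π.tt.cp h π.zt) (N.rho * h / 2) ⊆ pvtrCore (3 * r) U)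
    (hfz : ∀ v ∈ 𝔇.fzY, (v : ℂ) ∉ π.Ycol) : Pvc2Col 𝔇 Subtype.val π := by
  have hle : N.rho * h / 4 ≤ N.rho * h / 2 := by linarith
  refine pvwm_col_plane hY hπ hOk hσ hSY hρ hcol hLc hLp hd hcov ?_ hfz ?_ ?_ (pvc2_no_edge hr hm hU (by linarith))
  · rw [Set.disjoint_left]
    intro z h1 h2
    rw [mem_closedBall, dist_eq_norm] at h1 h2
    have h3 : ‖π.tt.cp h π.zt - π.ts.cm h π.zs‖ ≤ ‖z - π.tt.cp h π.zt‖ + ‖z - π.ts.cm h π.zs‖ := by
      have e : π.tt.cp h π.zt - π.ts.cm h π.zs = -(z - π.tt.cp h π.zt) + (z - π.ts.cm h π.zs) := by ring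
      rw [e]
      refine (norm_add_le _ _).trans ?_
      rw [norm_neg]
    linarith
  · obtain ⟨t1, t2⟩ := hOk.st_t.good.tip_p
    exact ⟨mem_closedBall.2 (by rw [dist_eq_norm]; exact t1.trans hle), mem_closedBall.2 (by rw [dist_eq_norm]; exact t2.trans hle)⟩
  · obtain ⟨t1, t2⟩ := hOk.st_s.good.tip_m
    exact ⟨mem_closedBall.2 (by rw [dist_eq_norm]; exact t1.trans hle), mem_closedBall.2 (by rw [dist_eq_norm]; exact t2.trans hle)⟩

/-- **`PvwDat.Col` OF `Tr/C12` AT THE MODEL, NO GAP** -/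
theorem pvwm_Col_model (hY : DelGood Y) {𝔇 : PvwDat (delbPl Y).toMap} {N : PvwNum} {h : ℝ} {π : PvwPat} {σ : ↥Y → Bool} (hπ : π.Wf) (hOk : 𝔇.Ok Subtype.val N h π) (hσ : σ ∈ 𝔇.Cyl)
    {n : ℕ} (hSY : 𝔇.SYn Subtype.val π σ n) {r : ℝ} {U : Set ℂ} (hr : 0 < r) (hρh : 0 ≤ N.rho * h) (hρ : 0 ≤ ρ) (hcol : π.Ycol = cthickening ρ L) (hLc : IsClosed L) (hLp : IsPreconnected L)
    (hd : VorDense Y L ρ) (hcov : π.Yin ⊆ π.Ycol ∪ closedBall (π.tt.cp h π.zt) (N.rho * h / 2) ∪ closedBall (π.ts.cm h π.zs) (N.rho * h / 2))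
    (hsep : N.rho * h + 2 * r < ‖π.tt.cp h π.zt - π.ts.cm h π.zs‖) (hm : PvtrMesh r U Y) (hU : closedBall (π.tt.cp h π.zt) (N.rho * h / 2) ⊆ pvtrCore (3 * r) U)
    (hfz : ∀ v ∈ 𝔇.fzY, (v : ℂ) ∉ π.Ycol) : 𝔇.Col Subtype.val π :=
  pvc2_Col hπ hOk (pvwm_col_model hY hπ hOk hσ hSY hr hρh hρ hcol hLc hLp hd hcov hsep hm hU hfz)

/-! ## 2. the lanes of record are closed and preconnected -/

/-- a closed rectangle is convex -/
theorem pvwm_box_convex (p q r s : ℝ) : Convex ℝ {w : ℂ | p ≤ w.re ∧ w.re ≤ q ∧ r ≤ w.im ∧ w.im ≤ s} :=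
  (convex_halfSpace_re_ge p).inter ((convex_halfSpace_re_le q).inter ((convex_halfSpace_im_ge r).inter (convex_halfSpace_im_le s)))

/-- a reference lane is preconnected -/
theorem pvwm_lane_preconn {a b : ℝ} (hab : a ≤ b) (ha : -(1 / 2) ≤ a) (hb : b ≤ 1 / 2) (τ : PvtTurn) : IsPreconnected (pvfeLane a b τ) := by
  cases τ with
  | S => exact (pvwm_box_convex 0 1 a b).isPreconnected
  | L =>
    refine IsPreconnected.union (⟨1 / 2 - a, a⟩ : ℂ) ?_ ?_ (pvwm_box_convex 0 (1 / 2 - a) a b).isPreconnected (pvwm_box_convex (1 / 2 - b) (1 / 2 - a) a (1 / 2)).isPreconnected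
    · exact ⟨by show (0 : ℝ) ≤ 1 / 2 - a; linarith, le_refl _, le_refl _, hab⟩
    · exact ⟨by show 1 / 2 - b ≤ 1 / 2 - a; linarith, le_refl _, le_refl _, by show a ≤ 1 / 2; linarith⟩
  | R =>
    refine IsPreconnected.union (⟨1 / 2 + b, b⟩ : ℂ) ?_ ?_ (pvwm_box_convex 0 (1 / 2 + b) a b).isPreconnected (pvwm_box_convex (1 / 2 + a) (1 / 2 + b) (-(1 / 2)) b).isPreconnected
    · exact ⟨by show (0 : ℝ) ≤ 1 / 2 + b; linarith, le_refl _, hab, le_refl _⟩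
    · exact ⟨by show 1 / 2 + a ≤ 1 / 2 + b; linarith, le_refl _, by show -(1 / 2) ≤ b; linarith, le_refl _⟩

/-- the point of offset `u` of the entrance door lies in the lane -/
theorem pvwm_lane_in {a b u : ℝ} (h1 : a ≤ u) (h2 : u ≤ b) (ha : -(1 / 2) ≤ a) (hb : b ≤ 1 / 2) (τ : PvtTurn) : (⟨0, u⟩ : ℂ) ∈ pvfeLane a b τ := by
  cases τ with
  | S => exact ⟨le_refl _, zero_le_one, h1, h2⟩
  | L => exact Or.inl ⟨le_refl _, by show (0 : ℝ) ≤ 1 / 2 - a; linarith, h1, h2⟩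
  | R => exact Or.inl ⟨le_refl _, by show (0 : ℝ) ≤ 1 / 2 + b; linarith, h1, h2⟩

/-- the point of offset `u` of the exit door lies in the lane -/
theorem pvwm_lane_out {a b u : ℝ} (h1 : a ≤ u) (h2 : u ≤ b) (ha : -(1 / 2) ≤ a) (hb : b ≤ 1 / 2) (τ : PvtTurn) : τ.mid + τ.rot * (⟨0, u⟩ : ℂ) ∈ pvfeLane a b τ := by
  cases τ with
  | S =>
    have e : PvtTurn.S.mid + PvtTurn.S.rot * (⟨0, u⟩ : ℂ) = ⟨1, u⟩ := by
      apply Complex.ext <;> simp [PvtTurn.mid, PvtTurn.rot]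
    rw [e]
    exact ⟨zero_le_one, le_refl _, h1, h2⟩
  | L =>
    have e : PvtTurn.L.mid + PvtTurn.L.rot * (⟨0, u⟩ : ℂ) = ⟨1 / 2 - u, 1 / 2⟩ := by
      apply Complex.ext <;> simp [PvtTurn.mid, PvtTurn.rot] <;> ring
    rw [e]
    exact Or.inr ⟨by show 1 / 2 - b ≤ 1 / 2 - u; linarith, by show 1 / 2 - u ≤ 1 / 2 - a; linarith, by show a ≤ 1 / 2; linarith, le_refl _⟩
  | R =>
    have e : PvtTurn.R.mid + PvtTurn.R.rot * (⟨0, u⟩ : ℂ) = ⟨1 / 2 + u, -(1 / 2)⟩ := by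
      apply Complex.ext <;> simp [PvtTurn.mid, PvtTurn.rot] <;> ring
    rw [e]
    exact Or.inr ⟨by show 1 / 2 + a ≤ 1 / 2 + u; linarith, by show 1 / 2 + u ≤ 1 / 2 + b; linarith, le_refl _, by show -(1 / 2) ≤ b; linarith⟩

/-- a placed lane is preconnected -/
theorem pvwm_K_preconn {a b : ℝ} (hab : a ≤ b) (ha : -(1 / 2) ≤ a) (hb : b ≤ 1 / 2) (z d : ℂ) (l : List PvtTurn) (j : ℕ) : IsPreconnected (pvccK (pvfeLane a b) z d l j) :=
  (pvwm_lane_preconn hab ha hb _).image _ (by fun_prop : Continuous fun w : ℂ => pvccZ z d l j + pvccD d l j * w).continuousOn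

/-- consecutive placed lanes meet on the common door -/
theorem pvwm_K_meet {a b : ℝ} (hab : a ≤ b) (ha : -(1 / 2) ≤ a) (hb : b ≤ 1 / 2) (z d : ℂ) (l : List PvtTurn) {j : ℕ} (hj : j < l.length) :
    (pvccK (pvfeLane a b) z d l j ∩ pvccK (pvfeLane a b) z d l (j + 1)).Nonempty := by
  refine ⟨pvccZ z d l (j + 1) + pvccD d l (j + 1) * (⟨0, a⟩ : ℂ), ⟨_, pvwm_lane_out le_rfl hab ha hb (pvccT l j), ?_⟩, ⟨_, pvwm_lane_in le_rfl hab ha hb _, rfl⟩⟩
  show pvccZ z d l j + pvccD d l j * _ = _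
  rw [pvccZ_succ z d l hj, pvccD_succ d l hj]
  ring

/-- **the lanes of a corridor are preconnected** -/
theorem pvwm_lanes_preconn {a b : ℝ} (hab : a ≤ b) (ha : -(1 / 2) ≤ a) (hb : b ≤ 1 / 2) (z d : ℂ) (l : List PvtTurn) : IsPreconnected (pvfeLanes a b z d l) := by
  have key : ∀ n, n ≤ l.length → IsPreconnected (⋃ j ∈ Finset.range n, pvccK (pvfeLane a b) z d l j) := by
    intro n
    induction n with
    | zero => intro _; simp [isPreconnected_empty]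
    | succ n ih =>
      intro hn
      rw [Finset.range_add_one, Finset.set_biUnion_insert]
      rcases Nat.eq_zero_or_pos n with rfl | hn0
      · simpa using pvwm_K_preconn hab ha hb z d l 0
      · obtain ⟨x, hx1, hx2⟩ := pvwm_K_meet hab ha hb z d l (j := n - 1) (by omega)
        rw [Nat.sub_add_cancel hn0] at hx2
        refine IsPreconnected.union x hx2 ?_ (pvwm_K_preconn hab ha hb z d l n) (ih (by omega))
        simp only [mem_iUnion, Finset.mem_range, exists_prop]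
        exact ⟨n - 1, by omega, hx1⟩
  exact key _ le_rfl

/-- **the lanes of a corridor are closed** -/
theorem pvwm_lanes_closed (a b : ℝ) (z : ℂ) {d : ℂ} (hd : d ≠ 0) (l : List PvtTurn) : IsClosed (pvfeLanes a b z d l) := by
  unfold pvfeLanes
  refine isClosed_biUnion_finset fun j _ => ?_
  have hD : pvccD d l j ≠ 0 := by
    rw [← norm_ne_zero_iff, pvfe_norm_frame]
    exact norm_ne_zero_iff.2 hd
  unfold pvccK
  rw [pvccPl_eq_preimage _ hD]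
  exact (pvfe_lane_closed a b _).preimage (by fun_prop)

/-! ## 3. the regions of record -/

/-- **`PvwDat.Col` AT THE MODEL FOR THE REGIONS OF RECORD** `pvfeRegAt` (`Defs/FitReg`).      GOOD GEOMETRY: mesh `δ/20` ON THE INNER LANES, mesh `r` round the mouth of `t`;   FIT: no frozen site of `D_Y` over `Ycol`;   the two mouths are apart. -/
theorem pvwm_Col_reg {τ : Type} (Γ : PvtsGeo τ) (ty : τ → PvwTy) (cp cm : τ → Set ℂ) (p : PvtsPat τ) (hY : DelGood Y) {𝔇 : PvwDat (delbPl Y).toMap} {N : PvwNum} {h : ℝ} {σ : ↥Y → Bool}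
    (hρh : 0 ≤ N.rho * h) (hOk : 𝔇.Ok Subtype.val N h (pvfeRegAt Γ ty cp cm N h p)) (hσ : σ ∈ 𝔇.Cyl) {n : ℕ} (hSY : 𝔇.SYn Subtype.val (pvfeRegAt Γ ty cp cm N h p) σ n) {r : ℝ} {U : Set ℂ} (hr : 0 < r)
    (hd : VorDense Y (pvfeLanes (-(1 / 10)) (4 / 10) (pvfeZ Γ p) (pvfeD Γ p) p.l) (‖pvfeD Γ p‖ / 20))
    (hsep : N.rho * h + 2 * r < ‖(ty p.tt).cp h p.zt - (ty p.ts).cm h p.zs‖) (hm : PvtrMesh r U Y) (hU : closedBall ((ty p.tt).cp h p.zt) (N.rho * h / 2) ⊆ pvtrCore (3 * r) U)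
    (hfz : ∀ v ∈ 𝔇.fzY, (v : ℂ) ∉ pvfeCol (pvfeZ Γ p) (pvfeD Γ p) p.l) : 𝔇.Col Subtype.val (pvfeRegAt Γ ty cp cm N h p) :=
  pvwm_Col_model hY (pvfe_regAt_wf Γ ty cp cm hρh p) hOk hσ hSY hr hρh (by positivity) rfl (pvwm_lanes_closed _ _ _ (pvfe_D_ne Γ p) _)
    (pvwm_lanes_preconn (by norm_num) (by norm_num) (by norm_num) _ _ _) hd
    (union_subset_union (union_subset_union (self_subset_cthickening _) Subset.rfl) Subset.rfl) hsep hm hU hfz

end Claimed.Agent.R289
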