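-- KEEP
import Claimed.Agent.R289.Tr.C2Dom
import Claimed.Agent.R289.Tr.ColM

/-!
# Row 289 (S0537), THE WALL, ROAD E, file Tr/C2Col : (C2) WHEN THE COLLAR OF THE KIT IS LARGER THAN `Ycol`      (helper78, holder of the lower half of `dom`; prefix `pvc5_`)

WHY.   At the data of record the resampled region `C` (end tiles in the mouth balls, door squares) does NOT lie in `Ycol` (63 L2, 130, 29 12:28Z): `E = NBon (NU ∩ patch)` reads sites of `C`, `rd` / `far` are false.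
KIT v2 of 29: `E := NBon (NF ∩ patch)`, `NF` = the class `NU` READ OFF `Ycol ∪ (pvgeFar C r)ᶜ`.      HERE: `NF` IS `NU` OF `Tr/Defs` AT THE PATTERN `π.wc S` (`Ycol` replaced by `S`), so every lemma typed for a general pattern applies.
* sec. 1  `PvwPat.wc π S`;   what does not read `Ycol` (`rfl`);   **`pvc5_nu_anti`** : `S ⊆ S' ⟹ NU (π.wc S') ⊆ NU (π.wc S)`;   `pvc5_nu_of`;   **`pvc5_ok_wc`**, `pvc5_ok_of_wc` (`Ok π ⟺ Ok (π.wc S)` when `g₀` and its right apexes are not over `Yin ∪ S`)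
* sec. 2  `pvc5_off_cell` (a site joined to a tip apex off `Wl` is not in the open cell), **`pvc5_cell`** : `Col` at `π.wc S'`, `S ⊆ S'` ⟹ `Int Z.Right ⊆ NU (π.wc S)`;
          **`pvc5_onwall_circuit`**, `pvc5_onwall_region`, **`pvc5_ring`** = (C2) for `E = NBon (NU (π.wc S) ∩ P)`
* sec. 3  AT THE MODEL `(delbPl Y).toMap`: `pvc5_apex_near` (mesh round a site ⟹ its faces are small), `pvc5_hin_model`, **`pvc5_Col_model`** (194 `pvwm_Col_model` at `π.wc (cthickening ρ L)`), **`pvc5_cell_model`**, **`pvc5_onwall_model`**.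
* sec. 4  THE REGIONS OF RECORD `pvfeRegAt`: skeleton `pvc5L Γ p Gt Gs` = inner lanes ∪ one piece of each inner mouth (closed, preconnected, `⊆ Yin`); `pvc5_reg_out` (`cthickening ρ L` misses `Yout`: FREE for `ρ ≤ δ/10`), `pvc5_reg_col`, `pvc5_reg_cov`, **`pvc5_Col_reg`**.      0 sorry.
-/

set_option autoImplicit false

namespace Claimed.Agent.R289

open Relation Set Metric

/-! ## 1. the pattern with another collar -/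

/-- the pattern `π` with the collar `Ycol` replaced by `S` -/
def PvwPat.wc (π : PvwPat) (S : Set ℂ) : PvwPat := { π with Ycol := S }

theorem pvc5_wc_cite : True := by
  have := @PvwPat.wc.eq_1
  trivial

theorem pvc5_wc_col (π : PvwPat) (S : Set ℂ) : (π.wc S).Ycol = S := rfl
theorem pvc5_wc_self (π : PvwPat) : π.wc π.Ycol = π := rfl
theorem pvc5_wc_wc (π : PvwPat) (S S' : Set ℂ) : (π.wc S).wc S' = π.wc S' := rfl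

theorem pvc5_wc_wf {π : PvwPat} (h : π.Wf) {S : Set ℂ} (hS : Disjoint S π.Yout) : (π.wc S).Wf := ⟨h.disj, hS, h.in_sub, h.out_sub⟩

section free

variable {V D : Type} {T : PvMap V D} (𝔇 : PvwDat T) (pos : V → ℂ) (π : PvwPat) (S : Set ℂ)

theorem pvc5_yraw : 𝔇.Yraw pos (π.wc S) = 𝔇.Yraw pos π := rfl
theorem pvc5_ycl : 𝔇.YCL pos (π.wc S) = 𝔇.YCL pos π := rfl
theorem pvc5_xcl : 𝔇.XCL pos (π.wc S) = 𝔇.XCL pos π := rfl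
theorem pvc5_wl : 𝔇.Wl pos (π.wc S) = 𝔇.Wl pos π := rfl
theorem pvc5_sh (σ : V → Bool) : 𝔇.Sh pos (π.wc S) σ = 𝔇.Sh pos π σ := rfl
theorem pvc5_wo (σ : V → Bool) : 𝔇.WO pos (π.wc S) σ ↔ 𝔇.WO pos π σ := Iff.rfl
theorem pvc5_syn (σ : V → Bool) (n : ℕ) : 𝔇.SYn pos (π.wc S) σ n ↔ 𝔇.SYn pos π σ n := Iff.rfl
theorem pvc5_sy (σ : V → Bool) : 𝔇.SY pos (π.wc S) σ ↔ 𝔇.SY pos π σ := Iff.rfl
theorem pvc5_yarc (σ : V → Bool) (y : T.Pth) : 𝔇.YArc pos (π.wc S) σ y ↔ 𝔇.YArc pos π σ y := Iff.rfl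

theorem pvc5_shield {σ : V → Bool} {q : T.Pth} : 𝔇.IsShield pos (π.wc S) σ q ↔ 𝔇.IsShield pos π σ q :=
  ⟨fun h => ⟨h.two, h.fst, h.lst, h.inn⟩, fun h => ⟨h.two, h.fst, h.lst, h.inn⟩⟩

/-- `NU` at the collar `S`, unfolded -/
theorem pvc5_nu_iff {v : V} : v ∈ 𝔇.NU pos (π.wc S) ↔ v ∉ 𝔇.YC0 pos (π.wc S) ∧ pos v ∉ S := Iff.rfl

/-- `YC0` at the collar `S`, unfolded (= the class `YF` of the kit v2 of 29 for `S = Ycol ∪ (pvgeFar C r)ᶜ`) -/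
theorem pvc5_yc0_iff {v : V} : v ∈ 𝔇.YC0 pos (π.wc S) ↔
    ∃ a, (a = 𝔇.t.ap ∨ a = 𝔇.s.am ∨ ∃ w, pos w ∈ S ∧ T.Adj a w) ∧ v ∈ pvwComp T {u | u ∈ 𝔇.Yraw pos π ∧ pos u ∉ S} a := Iff.rfl

variable {𝔇 pos π S}

/-- a site which is neither over `Yin` nor over `S` is in `NU (π.wc S)` -/
theorem pvc5_nu_of {v : V} (h1 : pos v ∉ π.Yin) (h2 : pos v ∉ S) : v ∈ 𝔇.NU pos (π.wc S) := ⟨fun hc => h1 (pvwk_yc0_sub hc).1.2, h2⟩

/-- a frozen site of `D_Y` which is not over `S` is in `NU (π.wc S)` -/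
theorem pvc5_nu_of_fz {v : V} (h1 : v ∈ 𝔇.fzY) (h2 : pos v ∉ S) : v ∈ 𝔇.NU pos (π.wc S) := ⟨fun hc => (pvwk_yc0_sub hc).1.1 h1, h2⟩

/-- **a larger collar: the class `YC0` off the larger collar does not shrink** -/
theorem pvc5_yc0_mono {S' : Set ℂ} (hS : S ⊆ S') {v : V} (hv : v ∈ 𝔇.YC0 pos (π.wc S)) (hc : pos v ∉ S') : v ∈ 𝔇.YC0 pos (π.wc S') := by
  classical
  obtain ⟨a, ha, q, h0, hn, hq⟩ := hv
  by_cases hall : ∀ i, i ≤ q.n → pos (q.v i) ∉ S'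
  · refine ⟨a, ?_, q, h0, hn, fun x ⟨i, hi, hx⟩ => ⟨(hq x ⟨i, hi, hx⟩).1, hx ▸ hall i hi⟩⟩
    rcases ha with h | h | ⟨w, hw, hadj⟩
    · exact Or.inl h
    · exact Or.inr (Or.inl h)
    · exact Or.inr (Or.inr ⟨w, hS hw, hadj⟩)
  · have hex : ∃ i, i ≤ q.n ∧ pos (q.v i) ∈ S' := by
      by_contra hne
      exact hall fun i hi hc => hne ⟨i, hi, hc⟩
    obtain ⟨j, ⟨hj, hjc⟩, hmax⟩ : ∃ j, (j ≤ q.n ∧ pos (q.v j) ∈ S') ∧ ∀ k, (k ≤ q.n ∧ pos (q.v k) ∈ S') → k ≤ j := by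
      have hfin : {i | i ≤ q.n ∧ pos (q.v i) ∈ S'}.Finite := (Set.finite_Iic q.n).subset fun i hi => hi.1
      obtain ⟨j, hj, hm⟩ := hfin.exists_maximal (by obtain ⟨i, hi⟩ := hex; exact ⟨i, hi⟩)
      exact ⟨j, hj, fun k hk => by
        by_contra hlt
        exact hlt (hm hk (by omega))⟩
    have hjn : j < q.n := by
      rcases Nat.lt_or_ge j q.n with h | h
      · exact h
      · have : j = q.n := by omega
        subst this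
        exact absurd (hn ▸ hjc) hc
    refine ⟨q.v (j + 1), Or.inr (Or.inr ⟨q.v j, hjc, T.opp (q.e j), by rw [T.src_opp', q.tgt_e j hjn], by rw [T.tgt_opp, q.src_e j hjn]⟩), q.seg (j + 1) q.n, rfl, ?_, ?_⟩
    · show q.v (j + 1 + (min q.n q.n - (j + 1))) = v
      rw [← hn]; congr 1; omega
    · rintro x ⟨k, hk, rfl⟩
      have hk' : k ≤ min q.n q.n - (j + 1) := hk
      have hle : j + 1 + k ≤ q.n := by omega
      refine ⟨(hq _ ⟨_, hle, rfl⟩).1, fun hcon => ?_⟩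
      have := hmax (j + 1 + k) ⟨hle, hcon⟩
      omega

/-- **`NU` IS ANTITONE IN THE COLLAR** -/
theorem pvc5_nu_anti {S' : Set ℂ} (hS : S ⊆ S') : 𝔇.NU pos (π.wc S') ⊆ 𝔇.NU pos (π.wc S) :=
  fun _ hv => ⟨fun hc => hv.1 (pvc5_yc0_mono hS hc hv.2), fun hc => hv.2 (hS hc)⟩

/-- … in particular `NU (π.wc S) ⊆ NU π` as soon as `Ycol ⊆ S` -/
theorem pvc5_nu_sub (hS : π.Ycol ⊆ S) : 𝔇.NU pos (π.wc S) ⊆ 𝔇.NU pos π := pvc5_nu_anti (π := π) hS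

variable {N : PvwNum} {h : ℝ}

/-- **`Ok` AT ANOTHER COLLAR**: `g₀` and its right apexes are in the new `NU` -/
theorem pvc5_ok_nu (hOk : 𝔇.Ok pos N h π) (hin : ∀ v ∈ 𝔇.g.verts ∪ 𝔇.apx, v ∈ 𝔇.NU pos (π.wc S)) : 𝔇.Ok pos N h (π.wc S) :=
  ⟨hOk.st_s, hOk.st_t, hOk.tip_s, hOk.tip_t, hOk.g0, hOk.g1, hOk.pos_n, hOk.out, hOk.off, hOk.disj, hin, hOk.tip_f, hOk.cons_b, hOk.cons_w, hOk.cons_a, hOk.core_off⟩

/-- **`Ok π ⟹ Ok (π.wc S)`**: the right apexes of `g₀` are not over `Yin` (or frozen by `D_Y`), `g₀` and its apexes are not over `S` -/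
theorem pvc5_ok_wc (hW : π.Wf) (hOk : 𝔇.Ok pos N h π) (hap : ∀ v ∈ 𝔇.apx, pos v ∉ π.Yin ∨ v ∈ 𝔇.fzY) (hS : ∀ v ∈ 𝔇.g.verts ∪ 𝔇.apx, pos v ∉ S) : 𝔇.Ok pos N h (π.wc S) := by
  refine pvc5_ok_nu hOk fun v hv => ?_
  rcases hv with hg | ha
  · exact pvc5_nu_of (fun hc => hOk.off v hg (hW.in_sub hc)) (hS v (Or.inl hg))
  · rcases hap v ha with h1 | h1
    · exact pvc5_nu_of h1 (hS v (Or.inr ha))
    · exact pvc5_nu_of_fz h1 (hS v (Or.inr ha))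

/-- back: `Ok (π.wc S) ⟹ Ok π` -/
theorem pvc5_ok_of_wc (hOk : 𝔇.Ok pos N h (π.wc S)) (hin : ∀ v ∈ 𝔇.g.verts ∪ 𝔇.apx, v ∈ 𝔇.NU pos π) : 𝔇.Ok pos N h π :=
  ⟨hOk.st_s, hOk.st_t, hOk.tip_s, hOk.tip_t, hOk.g0, hOk.g1, hOk.pos_n, hOk.out, hOk.off, hOk.disj, hin, hOk.tip_f, hOk.cons_b, hOk.cons_w, hOk.cons_a, hOk.core_off⟩

theorem pvc5_ok_of_wc' (hS : π.Ycol ⊆ S) (hOk : 𝔇.Ok pos N h (π.wc S)) : 𝔇.Ok pos N h π := pvc5_ok_of_wc hOk fun v hv => pvc5_nu_sub hS (hOk.off_y v hv)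

end free

/-! ## 2. (C2) for `E = NBon (NU (π.wc S) ∩ P)` -/

section c2

variable {V D : Type} {T : PvMap V D}

/-- **a site which is joined to a tip apex off `Wl` is not in the open cell of a shield**      (the proof of `pvwc_G1nu` of 194, one site) -/
theorem pvc5_off_cell (hT : T.IsSph) (𝔇 : PvwDat T) {pos : V → ℂ} {N : PvwNum} {h : ℝ} {π : PvwPat} {σ : V → Bool} (hOk : 𝔇.Ok pos N h π) (hsep : 𝔇.s.gp ∉ 𝔇.t.ins) (hsep' : 𝔇.t.gm ∉ 𝔇.s.ins)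
    (hσ : σ ∈ 𝔇.Cyl) {q : T.Pth} (hq : 𝔇.IsShield pos π σ q) (hg : 𝔇.g.Glue q) {a w : V} (ha : a = 𝔇.t.ap ∨ a = 𝔇.s.am) (h1 : a ∉ 𝔇.Wl pos π)
    (h2 : ReflTransGen (fun u x => T.Adj u x ∧ x ∉ 𝔇.Wl pos π) a w) : w ∉ T.Int (𝔇.g.glue q hg).Right := by
  intro hv
  have hoff := pvwc_cell_wl 𝔇 hq hg
  have hF := pl_left_face (𝔇.g.glue q hg)
  have h3 : a ∈ T.Int (𝔇.g.glue q hg).Left := by
    rcases ha with rfl | rfl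
    · exact pvt_c_int_of_left hT (𝔇.g.glue q hg) ((hF _).2 ((hF _).2 (pvwc_tip_left hT 𝔇 hOk hsep hσ hq hg))) fun hc => h1 (hoff hc)
    · exact pvt_c_int_of_left hT (𝔇.g.glue q hg) ((hF _).2 ((hF _).2 (pvwc_tip_left_back hT 𝔇 hOk hsep' hσ hq hg))) fun hc => h1 (hoff hc)
  have h5 := pl_jordan_sep hT (𝔇.g.glue q hg) h3 (ReflTransGen.mono (fun _ w hw => ⟨hw.1, fun hc => hw.2 (hoff hc)⟩) _ _ h2)
  exact Set.disjoint_left.1 (pl_jordan_vert_disj hT (𝔇.g.glue q hg)).2.2 h5 hv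

/-- **G1 AT A LARGER COLLAR**: `Ok` at `π`, `Col` at `π.wc S'`, `S ⊆ S'`: the open cell of every shield lies in `NU (π.wc S)` -/
theorem pvc5_cell (hT : T.IsSph) (𝔇 : PvwDat T) {pos : V → ℂ} {N : PvwNum} {h : ℝ} {π : PvwPat} {σ : V → Bool} (hOk : 𝔇.Ok pos N h π) (hsep : 𝔇.s.gp ∉ 𝔇.t.ins) (hsep' : 𝔇.t.gm ∉ 𝔇.s.ins)
    {S S' : Set ℂ} (hS : S ⊆ S') (hcol : 𝔇.Col pos (π.wc S')) (hσ : σ ∈ 𝔇.Cyl) {q : T.Pth} (hq : 𝔇.IsShield pos π σ q) (hg : 𝔇.g.Glue q) :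
    T.Int (𝔇.g.glue q hg).Right ⊆ 𝔇.NU pos (π.wc S) := by
  intro v hv
  refine pvc5_nu_anti hS ?_
  by_contra hy
  obtain ⟨a, ha, h1, h2⟩ := hcol v hy
  exact pvc5_off_cell hT 𝔇 hOk hsep hsep' hσ hq hg ha h1 h2 hv

/-- **(C2), `g₀` PART, KIT v2, white circuit**: `E = NBon (NU (π.wc S) ∩ P)`, `W = WO ∩ {white circuit round g₀ inside P}` -/
theorem pvc5_onwall_circuit (hT : T.IsSph) (hS : T.Simple) (𝔇 : PvwDat T) {pos : V → ℂ} {N : PvwNum} {h : ℝ} {π : PvwPat} {σ : V → Bool} (hOk : 𝔇.Ok pos N h π)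
    (hs : 𝔇.s.gp ∉ 𝔇.t.ins) (ht : 𝔇.t.gm ∉ 𝔇.s.ins) {S S' : Set ℂ} (hSS : S ⊆ S') (hcol : 𝔇.Col pos (π.wc S')) (hσ : σ ∈ 𝔇.Cyl) (hWO : 𝔇.WO pos π σ)
    (C : T.Cyc) (hC : ∀ v ∈ C.verts, σ v = false) (hCf : C.Left.Finite) (hCg : ∀ v ∈ 𝔇.g.verts, v ∈ T.Int C.Left) {P : Set V} (hP : ∀ v ∈ T.Int C.Left, v ∈ P)
    (hNB : 𝔇.NBon (𝔇.NU pos (π.wc S) ∩ P) σ) : 𝔇.g.OnWall σ 𝔇.t.dm :=
  pvc4_onwall_circuit hT hS 𝔇 hOk hs ht hσ hWO C hC hCf hCg (M := 𝔇.NU pos (π.wc S) ∩ P)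
    (fun _ hg hq v hv hv' => ⟨pvc5_cell hT 𝔇 hOk hs ht hSS hcol hσ hq hg hv', hP v hv⟩) hNB

/-- the same with a REGION closed under black neighbours instead of the circuit (`PvnsNoX` of 191: `Rg := pvnsRg`), finite wall -/
theorem pvc5_onwall_region (hT : T.IsSph) (hS : T.Simple) (𝔇 : PvwDat T) {pos : V → ℂ} {N : PvwNum} {h : ℝ} {π : PvwPat} {σ : V → Bool} (hOk : 𝔇.Ok pos N h π)
    (hs : 𝔇.s.gp ∉ 𝔇.t.ins) (ht : 𝔇.t.gm ∉ 𝔇.s.ins) {S S' : Set ℂ} (hSS : S ⊆ S') (hcol : 𝔇.Col pos (π.wc S')) (hσ : σ ∈ 𝔇.Cyl) (hWO : 𝔇.WO pos π σ)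
    (hfin : {d | T.Wall σ 𝔇.s.dp d}.Finite) {Rg P : Set V} (h1 : ∀ v ∈ 𝔇.g.verts, v ∈ Rg) (h2 : ∀ u ∈ Rg, ∀ v, T.Adj u v → σ v = true → v ∈ Rg) (hP : ∀ v ∈ Rg, v ∈ P)
    (hNB : 𝔇.NBon (𝔇.NU pos (π.wc S) ∩ P) σ) : 𝔇.g.OnWall σ 𝔇.t.dm := by
  obtain ⟨q, hq, hg⟩ := pvwc_shield hT 𝔇 hOk hσ hWO
  obtain ⟨f1, f2⟩ := pvwf_far 𝔇 hOk hs ht
  exact pvc4_onwall_on hT hS 𝔇 hOk ⟨hfin, f1, f2⟩ hσ hq hg
    (pvc4_bead_region hT 𝔇 q hg (M := 𝔇.NU pos (π.wc S) ∩ P) h1 h2 fun v hv hv' => ⟨pvc5_cell hT 𝔇 hOk hs ht hSS hcol hσ hq hg hv', hP v hv⟩) hNB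

/-- **(C2) AT THE KIT v2, THE RING** (regions, masses and label at the pattern `π` of record) -/
theorem pvc5_ring (hT : T.IsSph) (hS : T.Simple) (𝔇 : PvwDat T) {pos : V → ℂ} {N : PvwNum} {h : ℝ} {π : PvwPat} {σ : V → Bool} (hOk : 𝔇.Ok pos N h π) (hG : 𝔇.Geo pos N h π)
    {S S' : Set ℂ} (hSS : S ⊆ S') (hcol : 𝔇.Col pos (π.wc S')) (hσ : σ ∈ 𝔇.Cyl) (hWO : 𝔇.WO pos π σ)
    (C : T.Cyc) (hC : ∀ v ∈ C.verts, σ v = false) (hCf : C.Left.Finite) (hCg : ∀ v ∈ 𝔇.g.verts, v ∈ T.Int C.Left) {P : Set V} (hP : ∀ v ∈ T.Int C.Left, v ∈ P)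
    (hNB : 𝔇.NBon (𝔇.NU pos (π.wc S) ∩ P) σ) (hSY : 𝔇.SY pos π σ) : ∃ y, 𝔇.Ring pos N h π σ y := by
  have hF := pvwf_fit hT hS 𝔇 hOk hG hσ
  exact pvc4_ring_core hT hS 𝔇 hOk hF hσ (pvc5_onwall_circuit hT hS 𝔇 hOk hF.sep_s hF.sep_t hSS hcol hσ hWO C hC hCf hCg hP hNB) hSY

end c2

/-! ## 3. AT THE MODEL: the plane Delaunay map `(delbPl Y).toMap`, positions `Subtype.val` -/

section model

variable {Y L : Set ℂ} {ρ : ℝ}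

/-- **mesh round a site ⟹ its faces are small**: the head and the apex of a dart which leaves `v` are within `2 μ` of `v` -/
theorem pvc5_face_near {μ R' : ℝ} (hμ : 0 ≤ μ) (hμR : μ < R') (d : (delbPl Y).Dart) (hd : VorDense Y (closedBall (((delbPl Y).toMap.src d : ↥Y) : ℂ) R') μ) :
    ‖(((delbPl Y).toMap.tgt d : ↥Y) : ℂ) - ((delbPl Y).toMap.src d : ↥Y)‖ ≤ 2 * μ ∧ ‖(((delbPl Y).toMap.apex d : ↥Y) : ℂ) - ((delbPl Y).toMap.src d : ↥Y)‖ ≤ 2 * μ := by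
  have ht := delb_plane_face d
  obtain ⟨-, h2, h3⟩ := del_tri_near hμ hμR hd ht (dela_mem_a ht.left.le)
  exact ⟨h2, h3⟩

/-- a right apex of `g₀` is within `2 μ` of a vertex of `g₀` -/
theorem pvc5_apex_near {𝔇 : PvwDat (delbPl Y).toMap} {μ R' : ℝ} (hμ : 0 ≤ μ) (hμR : μ < R') (hd : ∀ v ∈ 𝔇.g.verts, VorDense Y (closedBall (v : ℂ) R') μ) {v : ↥Y} (hv : v ∈ 𝔇.apx) :
    ∃ u ∈ 𝔇.g.verts, ‖(v : ℂ) - u‖ ≤ 2 * μ := by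
  obtain ⟨i, hi, rfl⟩ := hv
  have hs : (delbPl Y).toMap.src ((delbPl Y).toMap.opp (𝔇.g.e i)) = 𝔇.g.v (i + 1) := by rw [(delbPl Y).toMap.src_opp', 𝔇.g.tgt_e i hi]
  have hm : 𝔇.g.v (i + 1) ∈ 𝔇.g.verts := ⟨i + 1, hi, rfl⟩
  refine ⟨_, hm, ?_⟩
  have := (pvc5_face_near hμ hμR ((delbPl Y).toMap.opp (𝔇.g.e i)) (by rw [hs]; exact hd _ hm)).2
  rwa [hs] at this

/-- **`g₀` AND ITS RIGHT APEXES ARE NOT OVER `Yin ∪ S`**: mesh `μ` round `g₀`, the `2 μ`-neighbourhood of `Yin ∪ S` lies in `Yreg` -/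
theorem pvc5_hin_model {𝔇 : PvwDat (delbPl Y).toMap} {N : PvwNum} {h : ℝ} {π : PvwPat} (hOk : 𝔇.Ok Subtype.val N h π) {μ R' : ℝ} (hμ : 0 ≤ μ) (hμR : μ < R')
    (hd : ∀ v ∈ 𝔇.g.verts, VorDense Y (closedBall (v : ℂ) R') μ) {S : Set ℂ} (hreg : ∀ z ∈ π.Yin ∪ S, closedBall z (2 * μ) ⊆ π.Yreg) :
    ∀ v ∈ 𝔇.g.verts ∪ 𝔇.apx, (v : ℂ) ∉ π.Yin ∪ S := by
  rintro v (hv | hv) hc
  · exact hOk.off v hv (hreg _ hc (mem_closedBall_self (by positivity)))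
  · obtain ⟨u, hu, hle⟩ := pvc5_apex_near hμ hμR hd hv
    refine hOk.off u hu (hreg _ hc ?_)
    rw [mem_closedBall, dist_comm, dist_eq_norm]
    exact hle

/-- the sites which are not far from `C` are over the thickening of any `L ⊇ C` -/
theorem pvc5_far_sub {C : Set ℂ} {r : ℝ} (hC : C.Nonempty) (hCL : C ⊆ L) (hr : 3 * r ≤ ρ) : (pvgeFar C r)ᶜ ⊆ cthickening ρ L := by
  intro z hz
  have h1 : infDist z C < 3 * r := not_le.1 hz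
  obtain ⟨c, hc, hlt⟩ := (infDist_lt_iff hC).1 h1
  exact mem_cthickening_of_dist_le z c ρ L (hCL hc) (hlt.le.trans hr)

/-- **`PvwDat.Col` AT THE MODEL FOR THE COLLAR `cthickening ρ L`** (194 `pvwm_Col_model` at the pattern `π.wc (cthickening ρ L)`).
`L` closed, preconnected (at the data of record: the inner lanes + the part of each mouth ball in front of the own box; `C ⊆ L ⊆ Yin`), mesh `ρ` on `L`;   `cthickening ρ L` misses `Yout` (free if `L ⊆ Yin`, `ρ ≤ δ/10`),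
carries no frozen site of `D_Y`, no vertex and no right apex of `g₀`. -/
theorem pvc5_Col_model (hY : DelGood Y) {𝔇 : PvwDat (delbPl Y).toMap} {N : PvwNum} {h : ℝ} {π : PvwPat} {σ : ↥Y → Bool} (hπ : π.Wf) (hOk : 𝔇.Ok Subtype.val N h π) (hσ : σ ∈ 𝔇.Cyl)
    {n : ℕ} (hSY : 𝔇.SYn Subtype.val π σ n) {r : ℝ} {U : Set ℂ} (hr : 0 < r) (hρh : 0 ≤ N.rho * h) (hρ : 0 ≤ ρ) (hLc : IsClosed L) (hLp : IsPreconnected L) (hd : VorDense Y L ρ)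
    (hout : Disjoint (cthickening ρ L) π.Yout) (hcov : π.Yin ⊆ cthickening ρ L ∪ closedBall (π.tt.cp h π.zt) (N.rho * h / 2) ∪ closedBall (π.ts.cm h π.zs) (N.rho * h / 2))
    (hsep : N.rho * h + 2 * r < ‖π.tt.cp h π.zt - π.ts.cm h π.zs‖) (hm : PvtrMesh r U Y) (hU : closedBall (π.tt.cp h π.zt) (N.rho * h / 2) ⊆ pvtrCore (3 * r) U)
    (hfz : ∀ v ∈ 𝔇.fzY, (v : ℂ) ∉ cthickening ρ L) (hin : ∀ v ∈ 𝔇.g.verts ∪ 𝔇.apx, (v : ℂ) ∉ π.Yin ∪ cthickening ρ L) : 𝔇.Col Subtype.val (π.wc (cthickening ρ L)) :=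
  pvwm_Col_model hY (pvc5_wc_wf hπ hout) (pvc5_ok_wc hπ hOk (fun v hv => Or.inl fun hc => hin v (Or.inr hv) (Or.inl hc)) fun v hv hc => hin v hv (Or.inr hc)) hσ hSY hr hρh hρ rfl hLc hLp hd hcov hsep hm hU hfz

/-- **THE OPEN CELL OF A SHIELD LIES IN `NF`** (kit v2 of 29: `NF = NU (π.wc (Ycol ∪ (pvgeFar C r)ᶜ))`), at the model -/
theorem pvc5_cell_model (hY : DelGood Y) {𝔇 : PvwDat (delbPl Y).toMap} {N : PvwNum} {h : ℝ} {π : PvwPat} {σ : ↥Y → Bool} (hOk : 𝔇.Ok Subtype.val N h π)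
    (hs : 𝔇.s.gp ∉ 𝔇.t.ins) (ht : 𝔇.t.gm ∉ 𝔇.s.ins) (hσ : σ ∈ 𝔇.Cyl) (hcol : 𝔇.Col Subtype.val (π.wc (cthickening ρ L))) {C : Set ℂ} {r : ℝ} (hC : C.Nonempty) (hCL : C ⊆ L) (hr : 3 * r ≤ ρ)
    (hYc : π.Ycol ⊆ cthickening ρ L) {q : (delbPl Y).toMap.Pth} (hq : 𝔇.IsShield Subtype.val π σ q) (hg : 𝔇.g.Glue q) :
    (delbPl Y).toMap.Int (𝔇.g.glue q hg).Right ⊆ 𝔇.NU Subtype.val (π.wc (π.Ycol ∪ (pvgeFar C r)ᶜ)) :=
  pvc5_cell (delb_plane_isSph hY) 𝔇 hOk hs ht (union_subset hYc (pvc5_far_sub hC hCL hr)) hcol hσ hq hg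

/-- **(C2), `g₀` PART, AT THE MODEL, KIT v2**: `E = NBon (NF ∩ P)`, `W = WO ∩ {white circuit round g₀ inside P}` -/
theorem pvc5_onwall_model (hY : DelGood Y) {𝔇 : PvwDat (delbPl Y).toMap} {N : PvwNum} {h : ℝ} {π : PvwPat} {σ : ↥Y → Bool} (hOk : 𝔇.Ok Subtype.val N h π)
    (hs : 𝔇.s.gp ∉ 𝔇.t.ins) (ht : 𝔇.t.gm ∉ 𝔇.s.ins) (hσ : σ ∈ 𝔇.Cyl) (hcol : 𝔇.Col Subtype.val (π.wc (cthickening ρ L))) {C : Set ℂ} {r : ℝ} (hC : C.Nonempty) (hCL : C ⊆ L) (hr : 3 * r ≤ ρ)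
    (hYc : π.Ycol ⊆ cthickening ρ L) (hWO : 𝔇.WO Subtype.val π σ) (w : (delbPl Y).toMap.Cyc) (hw : ∀ v ∈ w.verts, σ v = false) (hwf : w.Left.Finite)
    (hwg : ∀ v ∈ 𝔇.g.verts, v ∈ (delbPl Y).toMap.Int w.Left) {P : Set ↥Y} (hP : ∀ v ∈ (delbPl Y).toMap.Int w.Left, v ∈ P)
    (hNB : 𝔇.NBon (𝔇.NU Subtype.val (π.wc (π.Ycol ∪ (pvgeFar C r)ᶜ)) ∩ P) σ) : 𝔇.g.OnWall σ 𝔇.t.dm :=
  pvc5_onwall_circuit (delb_plane_isSph hY) (delbPl Y).toMap_simple 𝔇 hOk hs ht (union_subset hYc (pvc5_far_sub hC hCL hr)) hcol hσ hWO w hw hwf hwg hP hNB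

end model

/-! ## 4. the regions of record `pvfeRegAt` (`Defs/FitReg`): `L` = the inner lanes + one piece `Gt`, `Gs` of each inner mouth -/

section reg

variable {τ : Type} (Γ : PvtsGeo τ) (ty : τ → PvwTy) (cp cm : τ → Set ℂ) (N : PvwNum) (h : ℝ) (p : PvtsPat τ) {Y : Set ℂ} {ρ : ℝ}

/-- **THE SKELETON OF THE COLLAR OF THE KIT**: the inner lanes and the two pieces `Gt`, `Gs` of the inner mouths which contain the end tiles (and the outer halves of the first and of the last door square) -/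
def pvc5L (Gt Gs : Set ℂ) : Set ℂ := pvfeLanes (-(1 / 10)) (4 / 10) (pvfeZ Γ p) (pvfeD Γ p) p.l ∪ Gt ∪ Gs

theorem pvc5_L_cite : True := by
  have := @pvc5L.eq_1
  trivial

variable {Gt Gs : Set ℂ}

theorem pvc5_L_closed (ht : IsClosed Gt) (hs : IsClosed Gs) : IsClosed (pvc5L Γ p Gt Gs) :=
  ((pvwm_lanes_closed _ _ _ (pvfe_D_ne Γ p) _).union ht).union hs

/-- the skeleton is preconnected: each piece is preconnected and meets the lanes -/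
theorem pvc5_L_preconn (ht : IsPreconnected Gt) (hs : IsPreconnected Gs) (hmt : (pvfeLanes (-(1 / 10)) (4 / 10) (pvfeZ Γ p) (pvfeD Γ p) p.l ∩ Gt).Nonempty)
    (hms : (pvfeLanes (-(1 / 10)) (4 / 10) (pvfeZ Γ p) (pvfeD Γ p) p.l ∩ Gs).Nonempty) : IsPreconnected (pvc5L Γ p Gt Gs) := by
  obtain ⟨x, hx1, hx2⟩ := hmt
  obtain ⟨y, hy1, hy2⟩ := hms
  have h1 := IsPreconnected.union x hx1 hx2 (pvwm_lanes_preconn (by norm_num) (by norm_num) (by norm_num) (pvfeZ Γ p) (pvfeD Γ p) p.l) ht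
  exact IsPreconnected.union y (Or.inl hy1) hy2 h1 hs

/-- the skeleton lies in `Yin` -/
theorem pvc5_L_in (ht : Gt ⊆ closedBall ((ty p.tt).cp h p.zt) (N.rho * h / 2)) (hs : Gs ⊆ closedBall ((ty p.ts).cm h p.zs) (N.rho * h / 2)) : pvc5L Γ p Gt Gs ⊆ (pvfeRegAt Γ ty cp cm N h p).Yin :=
  union_subset_union (union_subset_union Subset.rfl ht) hs

/-- `cthickening ρ L` misses `Yout` as soon as `L ⊆ Yin`, `ρ ≤ δ / 10` -/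
theorem pvc5_reg_out {L : Set ℂ} (hL : L ⊆ (pvfeRegAt Γ ty cp cm N h p).Yin) (hρ : ρ ≤ ‖pvfeD Γ p‖ / 10) : Disjoint (cthickening ρ L) (pvfeRegAt Γ ty cp cm N h p).Yout := by
  show Disjoint (cthickening ρ L) (_ \ cthickening (‖pvfeD Γ p‖ / 10) _)
  exact disjoint_sdiff_right.mono_left ((cthickening_mono hρ _).trans (cthickening_subset_of_subset _ hL))

/-- `Ycol ⊆ cthickening ρ L` as soon as `δ / 20 ≤ ρ` -/
theorem pvc5_reg_col (hρ : ‖pvfeD Γ p‖ / 20 ≤ ρ) : (pvfeRegAt Γ ty cp cm N h p).Ycol ⊆ cthickening ρ (pvc5L Γ p Gt Gs) :=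
  (cthickening_mono hρ _).trans (cthickening_subset_of_subset _ (subset_union_left.trans subset_union_left))

theorem pvc5_reg_cov : (pvfeRegAt Γ ty cp cm N h p).Yin ⊆ cthickening ρ (pvc5L Γ p Gt Gs) ∪ closedBall ((ty p.tt).cp h p.zt) (N.rho * h / 2) ∪ closedBall ((ty p.ts).cm h p.zs) (N.rho * h / 2) :=
  union_subset_union (union_subset_union ((subset_union_left.trans subset_union_left).trans (self_subset_cthickening _)) Subset.rfl) Subset.rfl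

variable {Γ ty cp cm N h p}

/-- **`Col` FOR THE COLLAR OF THE KIT v2, REGIONS OF RECORD**.      PIECES: `Gt`, `Gs` closed, preconnected, in the inner mouths, meeting the lanes.      NUMBERS: `δ/20 ≤ ρ ≤ δ/10`.
GOOD GEOMETRY (known on `{w ≠ 0}` ∩ guard): mesh `ρ` on the skeleton, mesh `r` round the mouth of `t`.      FIT: no frozen site of `D_Y`, no vertex, no right apex of `g₀` over `cthickening ρ L`; no right apex over `Yin`. -/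
theorem pvc5_Col_reg (hY : DelGood Y) {𝔇 : PvwDat (delbPl Y).toMap} {σ : ↥Y → Bool} (hρh : 0 ≤ N.rho * h) (hOk : 𝔇.Ok Subtype.val N h (pvfeRegAt Γ ty cp cm N h p)) (hσ : σ ∈ 𝔇.Cyl)
    {n : ℕ} (hSY : 𝔇.SYn Subtype.val (pvfeRegAt Γ ty cp cm N h p) σ n) {r : ℝ} {U : Set ℂ} (hr : 0 < r) (hρ0 : 0 ≤ ρ) (hρ1 : ρ ≤ ‖pvfeD Γ p‖ / 10)
    (ct : IsClosed Gt) (cs : IsClosed Gs) (pt : IsPreconnected Gt) (ps : IsPreconnected Gs)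
    (mt : (pvfeLanes (-(1 / 10)) (4 / 10) (pvfeZ Γ p) (pvfeD Γ p) p.l ∩ Gt).Nonempty) (ms : (pvfeLanes (-(1 / 10)) (4 / 10) (pvfeZ Γ p) (pvfeD Γ p) p.l ∩ Gs).Nonempty)
    (bt : Gt ⊆ closedBall ((ty p.tt).cp h p.zt) (N.rho * h / 2)) (bs : Gs ⊆ closedBall ((ty p.ts).cm h p.zs) (N.rho * h / 2)) (hd : VorDense Y (pvc5L Γ p Gt Gs) ρ)
    (hsep : N.rho * h + 2 * r < ‖(ty p.tt).cp h p.zt - (ty p.ts).cm h p.zs‖) (hm : PvtrMesh r U Y) (hU : closedBall ((ty p.tt).cp h p.zt) (N.rho * h / 2) ⊆ pvtrCore (3 * r) U)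
    (hfz : ∀ v ∈ 𝔇.fzY, (v : ℂ) ∉ cthickening ρ (pvc5L Γ p Gt Gs)) (hin : ∀ v ∈ 𝔇.g.verts ∪ 𝔇.apx, (v : ℂ) ∉ (pvfeRegAt Γ ty cp cm N h p).Yin ∪ cthickening ρ (pvc5L Γ p Gt Gs)) :
    𝔇.Col Subtype.val ((pvfeRegAt Γ ty cp cm N h p).wc (cthickening ρ (pvc5L Γ p Gt Gs))) :=
  pvc5_Col_model hY (pvfe_regAt_wf Γ ty cp cm hρh p) hOk hσ hSY hr hρh hρ0 (pvc5_L_closed Γ p ct cs) (pvc5_L_preconn Γ p pt ps mt ms) hd
    (pvc5_reg_out Γ ty cp cm N h p (pvc5_L_in Γ ty cp cm N h p bt bs) hρ1) (pvc5_reg_cov Γ ty cp cm N h p) hsep hm hU hfz hin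

end reg

end Claimed.Agent.R289
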