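import Claimed.Agent.R289.Tr.C2Col
import Claimed.Agent.R289.Exit.ParEng
import Claimed.Agent.R289.Tr.FitFz

/-!
# Row 289 (S0537), THE WALL, ROAD E, file Tr/C2ColR : THE SKELETON `T₀ = lanes ∪ Nt ∪ Ns` OF THE RESAMPLED REGION, AT THE REGIONS OF RECORD      (helper78; prefix `pvc6_`, `pvc6`)      0 sorry

CONSUMERS: (CELL) of `dom` (63 `Tr/ColP` `T0`, 104 `Tr/DomEN`, 78 `Tr/C2Col` `pvc5L`), (X1) `exit_pvn1a_geo` (292 `Exit/N1CX`: `C ⊆ Yin`), `far` (169 `Exit/N1Far`).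
* sec. 1  **THE NECK** `pvc6N Y u p e δ w := pvegRa Y u p e δ w (-(δ/4))` `= {e + 2δ ≤ S ≤ S(p) + δ/4, |L - L(p)| ≤ w}` in the local frame of 124 (`Exit/ParEng`), GENERIC in `PvegDoor`: closed, convex, contains the door point, the door square `pvccSq p (δ/4)`, every funnel / end tile of 124
          (`pvc6_Ra_sub _Rc_sub _K_sub _Ka_sub`), lies in the inner mouth (`pvc6_N_ball`), is `2δ` away from the own-level box (`pvc6_N_box`, `pvc6_N_off`);   absolute coordinates `pvc6_N_shift`, `pvc6_N_sh`      [= (oN)(iN) of 63]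
* sec. 2  the door squares of half side `1/10` lie in the inner lanes `[-1/10, 4/10]` (`pvc6_door_lanes`; halves `pvc6_door_front`, `pvc6_door_back`; door points `pvc6_first_lanes`, `pvc6_last_lanes`)
* sec. 3  the placed regions of a cell kit: `pvc6_kit_door`, `pvc6_kit_tile`
* sec. 4  AT THE PARAMETERS: `pvc6Nt 𝔓 m p`, `pvc6Ns 𝔓 m p` (absolute), **`pvc6T 𝔓 m p := pvc5L (𝔓.Γ m) p Nt Ns`**;   `pvc6_Nt_ball _sq _door _own _other` (and `Ns`), `pvc6_sep` (the two mouths are `7h` apart), `pvc6_len_pos`,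
          **`pvc6_T_closed`, `pvc6_T_preconn`, `pvc6_T_in`** (`T₀ ⊆ Yin`)
* sec. 5  WHAT STAYS AWAY FROM `T₀`: **`pvc6_T_fz`** (frozen sites of `D_Y`: `> δ`; point form `pvc6_T_off`), `pvc6_T_g` (`g₀`: `> 2δ` from `Yin`), `pvc6_T_out` (`Yout`: `> δ/10` from `Yin`), `pvc6_in_reg_far`, `pvc6_far_of`, `pvc6_T_reg`
* sec. 6  **`pvc6_Cc_sub` : `pvieCc 𝔓 𝔈 m ε p ⊆ pvc6T 𝔓 m p`** from five lines on the engine (mesh of the kit, `O₀ ⊆ pvccSq 0 (δ/10)`, cell tiles in the lanes, end tiles in the necks).      At the engine of record: `Exit/N1CcR`.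
-/

set_option autoImplicit false

namespace Claimed.Agent.R289

open Set Metric Complex

/-! ## 1. the neck of one door (local frame of 124, `Exit/ParEng`) -/

/-- **THE NECK**: the rectangle of the funnel, prolonged `δ/4` beyond the door point -/
def pvc6N (Y u p : ℂ) (e δ w : ℝ) : Set ℂ := pvegRa Y u p e δ w (-(δ / 4))

theorem pvc6_N_cite : True := by
  have := @pvc6N.eq_1
  trivial

theorem pvc6_N_closed (Y u p : ℂ) (e δ w : ℝ) : IsClosed (pvc6N Y u p e δ w) := pveg_Ra_closed _ _ _ _ _ _ _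

theorem pvc6_S_comb (Y u v₁ v₂ : ℂ) {a b : ℝ} (hab : a + b = 1) : pvegS Y u (a • v₁ + b • v₂) = a * pvegS Y u v₁ + b * pvegS Y u v₂ := by
  have e : (a • v₁ + b • v₂ - Y) * (starRingEnd ℂ) u = (a : ℂ) * ((v₁ - Y) * (starRingEnd ℂ) u) + (b : ℂ) * ((v₂ - Y) * (starRingEnd ℂ) u) := by
    have hb : (b : ℂ) = 1 - a := by
      have : b = 1 - a := by linarith
      rw [this]; push_cast; ring
    rw [Complex.real_smul, Complex.real_smul, hb]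
    ring
  unfold pvegS
  rw [e, Complex.add_re, Complex.re_ofReal_mul, Complex.re_ofReal_mul]

theorem pvc6_L_comb (Y u v₁ v₂ : ℂ) {a b : ℝ} (hab : a + b = 1) : pvegL Y u (a • v₁ + b • v₂) = a * pvegL Y u v₁ + b * pvegL Y u v₂ := by
  have e : (a • v₁ + b • v₂ - Y) * (starRingEnd ℂ) u = (a : ℂ) * ((v₁ - Y) * (starRingEnd ℂ) u) + (b : ℂ) * ((v₂ - Y) * (starRingEnd ℂ) u) := by
    have hb : (b : ℂ) = 1 - a := by
      have : b = 1 - a := by linarith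
      rw [this]; push_cast; ring
    rw [Complex.real_smul, Complex.real_smul, hb]
    ring
  unfold pvegL
  rw [e, Complex.add_im, Complex.im_ofReal_mul, Complex.im_ofReal_mul]

theorem pvc6_Ra_convex (Y u p : ℂ) (e δ w a : ℝ) : Convex ℝ (pvegRa Y u p e δ w a) := by
  intro v₁ h₁ v₂ h₂ s t hs ht hst
  obtain ⟨a1, a2, a3⟩ := h₁
  obtain ⟨b1, b2, b3⟩ := h₂
  have a3' := abs_le.1 a3
  have b3' := abs_le.1 b3
  have ht' : t = 1 - s := by linarith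
  refine ⟨?_, ?_, abs_le.2 ⟨?_, ?_⟩⟩
  · rw [pvc6_S_comb Y u v₁ v₂ hst]; subst ht'; nlinarith
  · rw [pvc6_S_comb Y u v₁ v₂ hst]; subst ht'; nlinarith
  · rw [pvc6_L_comb Y u v₁ v₂ hst]; subst ht'; nlinarith [a3'.1, b3'.1]
  · rw [pvc6_L_comb Y u v₁ v₂ hst]; subst ht'; nlinarith [a3'.2, b3'.2]

theorem pvc6_N_preconn (Y u p : ℂ) (e δ w : ℝ) : IsPreconnected (pvc6N Y u p e δ w) := (pvc6_Ra_convex _ _ _ _ _ _ _).isPreconnected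

/-- every funnel of 124 lies in the neck -/
theorem pvc6_Ra_sub (Y u p : ℂ) (e w : ℝ) {δ a : ℝ} (ha : -(δ / 4) ≤ a) : pvegRa Y u p e δ w a ⊆ pvc6N Y u p e δ w :=
  fun _ hv => ⟨hv.1, by linarith [hv.2.1], hv.2.2⟩

theorem pvc6_Rc_sub (Y u p : ℂ) (e w : ℝ) {δ : ℝ} (hδ : 0 ≤ δ) : pvegRc Y u p e δ w ⊆ pvc6N Y u p e δ w :=
  fun _ hv => ⟨hv.1, by linarith [hv.2.1], hv.2.2⟩

theorem pvc6_K_sub (Y u p : ℂ) (e w rM : ℝ) {δ : ℝ} (hδ : 0 ≤ δ) : pvegK Y u p e δ w rM ⊆ pvc6N Y u p e δ w := fun _ hv => pvc6_Rc_sub Y u p e w hδ hv.1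

theorem pvc6_Ka_sub (Y u p : ℂ) (e w rM : ℝ) {δ a : ℝ} (ha : -(δ / 4) ≤ a) (O : Set ℂ) : pvegKa Y u p e δ w rM a O ⊆ pvc6N Y u p e δ w := fun _ hv => pvc6_Ra_sub Y u p e w ha hv.1.1

section door

variable {Y u p : ℂ} {e δ w rM κ rI rk : ℝ}

/-- the door point -/
theorem pvc6_N_door (H : PvegDoor Y u p e δ w rM κ rI rk) (hκ : e + 4 * δ ≤ κ) : p ∈ pvc6N Y u p e δ w :=
  ⟨by linarith [H.s_lo], by linarith [H.δ0], by rw [sub_self, abs_zero]; exact H.w0⟩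

/-- the door square -/
theorem pvc6_N_sq (H : PvegDoor Y u p e δ w rM κ rI rk) (hκ : e + 17 * δ / 4 ≤ κ) (hw : δ / 4 ≤ w) : pvccSq p (δ / 4) ⊆ pvc6N Y u p e δ w := by
  intro v hv
  have h3 := abs_lt.1 (pveg_sq_S H.u4 Y hv)
  have h4 := pveg_sq_L H.u4 Y hv
  exact ⟨by linarith [H.s_lo, h3.1], by linarith [h3.2], by linarith⟩

/-- the neck lies in the inner mouth of `Yin` -/
theorem pvc6_N_ball (H : PvegDoor Y u p e δ w rM κ rI rk) : pvc6N Y u p e δ w ⊆ closedBall Y rI := by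
  intro v hv
  rw [mem_closedBall_iff_norm]
  obtain ⟨h1, h2, h3⟩ := hv
  have hs := pveg_sq H.u4 Y v
  have hl := abs_le.1 H.lat
  have h3' := abs_le.1 h3
  have hδ := H.δ0
  have he := H.e0
  have hw := H.w0
  have hS0 : 0 ≤ pvegS Y u v := by linarith
  have hS1 : pvegS Y u v ≤ κ + 2 * δ := by linarith [H.s_hi]
  have hL : |pvegL Y u v| ≤ w + 2 * δ := abs_le.2 ⟨by linarith [h3'.1, hl.1], by linarith [h3'.2, hl.2]⟩
  have hSS : pvegS Y u v ^ 2 ≤ (κ + 2 * δ) ^ 2 := pow_le_pow_left₀ hS0 hS1 2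
  have hLL : pvegL Y u v ^ 2 ≤ (w + 2 * δ) ^ 2 := by
    rw [← sq_abs (pvegL Y u v)]
    exact pow_le_pow_left₀ (abs_nonneg _) hL 2
  have : ‖v - Y‖ ^ 2 ≤ rI ^ 2 := by linarith [H.n3]
  exact (pow_le_pow_iff_left₀ (norm_nonneg _) H.rI0 (by norm_num)).1 this

/-- **the neck is `2 δ` away from the own-level box** -/
theorem pvc6_N_box (H : PvegDoor Y u p e δ w rM κ rI rk) {v b : ℂ} (hv : v ∈ pvc6N Y u p e δ w) (hb : b ∈ pvwSq 0 rk) : 2 * δ ≤ ‖v - b‖ := by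
  have h1 := pveg_sq_zero H.u4 hb
  rw [pveg_S_zero Y u b] at h1
  have h2 := hv.1
  have h3 := pveg_S_le_norm H.u4 b v
  have h4 : pvegS b u v = pvegS Y u v - pvegS Y u b := (pveg_S_sub Y u v b).symm
  linarith [H.out]

/-- the neck misses the own-level box with its collar -/
theorem pvc6_N_off (H : PvegDoor Y u p e δ w rM κ rI rk) : Disjoint (pvc6N Y u p e δ w) (pvwSq 0 (rk + δ)) := pveg_Ra_off H

end door

/-- the neck in absolute coordinates -/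
theorem pvc6_N_shift (z Y u p : ℂ) (e δ w : ℝ) (v : ℂ) : v ∈ pvc6N (z + Y) u (z + p) e δ w ↔ v - z ∈ pvc6N Y u p e δ w := by
  have e1 : ∀ x : ℂ, pvegS (z + Y) u x = pvegS Y u (x - z) := fun x => by unfold pvegS; congr 2; ring
  have e2 : ∀ x : ℂ, pvegL (z + Y) u x = pvegL Y u (x - z) := fun x => by unfold pvegL; congr 2; ring
  unfold pvc6N pvegRa
  simp only [mem_ofPred_eq, e1, e2, add_sub_cancel_left]

theorem pvc6_N_sh (z Y u p : ℂ) (e δ w : ℝ) : pvieSh z (pvc6N Y u p e δ w) = pvc6N (z + Y) u (z + p) e δ w := by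
  ext v
  rw [pvc6_N_shift]
  constructor
  · rintro ⟨x, hx, rfl⟩
    simpa using hx
  · intro hv
    exact ⟨v - z, hv, by simp⟩

/-! ## 2. the door squares of half side `1/10` lie in the inner lanes -/

/-- the front half of the square of the entrance door -/
theorem pvc6_lane_in (τ : PvtTurn) {w : ℂ} (h1 : 0 ≤ w.re) (h2 : w.re ≤ 1 / 10) (h3 : |w.im| ≤ 1 / 10) : w ∈ pvfeLane (-(1 / 10)) (4 / 10) τ := by
  obtain ⟨h4, h5⟩ := abs_le.1 h3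
  cases τ with
  | S => exact ⟨h1, by linarith, h4, by linarith⟩
  | L => exact Or.inl ⟨h1, by linarith, h4, by linarith⟩
  | R => exact Or.inl ⟨h1, by linarith, h4, by linarith⟩

/-- the back half of the square of the exit door -/
theorem pvc6_lane_out (τ : PvtTurn) {w : ℂ} (h1 : -(1 / 10) ≤ w.re) (h2 : w.re ≤ 0) (h3 : |w.im| ≤ 1 / 10) : τ.mid + τ.rot * w ∈ pvfeLane (-(1 / 10)) (4 / 10) τ := by
  obtain ⟨h4, h5⟩ := abs_le.1 h3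
  cases τ with
  | S =>
    have e1 : (PvtTurn.S.mid + PvtTurn.S.rot * w).re = 1 + w.re := by simp [PvtTurn.mid, PvtTurn.rot]
    have e2 : (PvtTurn.S.mid + PvtTurn.S.rot * w).im = w.im := by simp [PvtTurn.mid, PvtTurn.rot]
    exact ⟨by rw [e1]; linarith, by rw [e1]; linarith, by rw [e2]; exact h4, by rw [e2]; linarith⟩
  | L =>
    have e1 : (PvtTurn.L.mid + PvtTurn.L.rot * w).re = 1 / 2 - w.im := by simp [PvtTurn.mid, PvtTurn.rot]; ring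
    have e2 : (PvtTurn.L.mid + PvtTurn.L.rot * w).im = 1 / 2 + w.re := by simp [PvtTurn.mid, PvtTurn.rot]
    exact Or.inr ⟨by rw [e1]; linarith, by rw [e1]; linarith, by rw [e2]; linarith, by rw [e2]; linarith⟩
  | R =>
    have e1 : (PvtTurn.R.mid + PvtTurn.R.rot * w).re = 1 / 2 + w.im := by simp [PvtTurn.mid, PvtTurn.rot]
    have e2 : (PvtTurn.R.mid + PvtTurn.R.rot * w).im = -(1 / 2) - w.re := by simp [PvtTurn.mid, PvtTurn.rot]; ring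
    exact Or.inr ⟨by rw [e1]; linarith, by rw [e1]; linarith, by rw [e2]; linarith, by rw [e2]; linarith⟩

theorem pvc6_mem_lanes {a b : ℝ} {z d : ℂ} {l : List PvtTurn} {j : ℕ} (hj : j < l.length) {v : ℂ} (hv : v ∈ pvccK (pvfeLane a b) z d l j) : v ∈ pvfeLanes a b z d l := by
  unfold pvfeLanes
  exact mem_iUnion₂.2 ⟨j, Finset.mem_range.2 hj, hv⟩

theorem pvc6_sq_coord {w : ℂ} {r : ℝ} (hw : w ∈ pvccSq 0 r) : |w.re| < r ∧ |w.im| < r := by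
  have h : pvccN (w - 0) < r := hw
  rw [sub_zero] at h
  exact ⟨lt_of_le_of_lt (le_max_left _ _) h, lt_of_le_of_lt (le_max_right _ _) h⟩

/-- the front half of the square of the door `j < |l|` -/
theorem pvc6_door_front (z d : ℂ) {l : List PvtTurn} {j : ℕ} (hj : j < l.length) {w : ℂ} (hw : w ∈ pvccSq 0 (1 / 10)) (h0 : 0 ≤ w.re) :
    pvccZ z d l j + pvccD d l j * w ∈ pvfeLanes (-(1 / 10)) (4 / 10) z d l := by
  obtain ⟨h1, h2⟩ := pvc6_sq_coord hw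
  exact pvc6_mem_lanes hj ⟨w, pvc6_lane_in _ h0 (le_of_lt (abs_lt.1 h1).2) h2.le, rfl⟩

/-- the back half of the square of the door `j + 1 ≤ |l|` -/
theorem pvc6_door_back (z d : ℂ) {l : List PvtTurn} {j : ℕ} (hj : j < l.length) {w : ℂ} (hw : w ∈ pvccSq 0 (1 / 10)) (h0 : w.re ≤ 0) :
    pvccZ z d l (j + 1) + pvccD d l (j + 1) * w ∈ pvfeLanes (-(1 / 10)) (4 / 10) z d l := by
  obtain ⟨h1, h2⟩ := pvc6_sq_coord hw
  refine pvc6_mem_lanes hj ⟨_, pvc6_lane_out (pvccT l j) (le_of_lt (abs_lt.1 h1).1) h0 h2.le, ?_⟩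
  show pvccZ z d l j + pvccD d l j * ((pvccT l j).mid + (pvccT l j).rot * w) = _
  rw [pvccZ_succ z d l hj, pvccD_succ d l hj]
  ring

/-- **the square of an inner door lies in the inner lanes** -/
theorem pvc6_door_lanes (z d : ℂ) {l : List PvtTurn} {j : ℕ} (h0 : 0 < j) (hj : j < l.length) :
    pvccPl (pvccZ z d l j) (pvccD d l j) (pvccSq 0 (1 / 10)) ⊆ pvfeLanes (-(1 / 10)) (4 / 10) z d l := by
  rintro _ ⟨w, hw, rfl⟩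
  rcases le_total 0 w.re with h | h
  · exact pvc6_door_front z d hj hw h
  · obtain ⟨i, rfl⟩ : ∃ i, j = i + 1 := ⟨j - 1, by omega⟩
    exact pvc6_door_back z d (by omega) hw h

/-- the first door point lies in the lanes -/
theorem pvc6_first_lanes (z d : ℂ) {l : List PvtTurn} (hl : 0 < l.length) : z ∈ pvfeLanes (-(1 / 10)) (4 / 10) z d l := by
  have h := pvc6_door_front z d hl (w := 0) (by show pvccN (0 - 0) < 1 / 10; simp [pvccN]) (by simp)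
  simpa using h

/-- the last door point lies in the lanes -/
theorem pvc6_last_lanes (z d : ℂ) {l : List PvtTurn} (hl : 0 < l.length) : pvccZ z d l l.length ∈ pvfeLanes (-(1 / 10)) (4 / 10) z d l := by
  obtain ⟨i, hi⟩ : ∃ i, l.length = i + 1 := ⟨l.length - 1, by omega⟩
  have h := pvc6_door_back z d (l := l) (j := i) (by omega) (w := 0) (by show pvccN (0 - 0) < 1 / 10; simp [pvccN]) (by simp)
  rw [hi]
  simpa using h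

/-! ## 3. the placed regions of a cell kit -/

section kit

variable {kit : PvthKit}

theorem pvc6_kit_O_pre (hδ : 0 < kit.δ) (hO : kit.O₀ ⊆ pvccSq 0 (kit.δ / 10)) : (fun w : ℂ => (kit.δ : ℂ) * w) ⁻¹' kit.O₀ ⊆ pvccSq 0 (1 / 10) := by
  have h := pvcc_preimage_sq hδ 0 (1 / 10)
  rw [mul_zero, show kit.δ * (1 / 10) = kit.δ / 10 by ring] at h
  rw [← h]
  exact preimage_mono hO

/-- an inner door region -/
theorem pvc6_kit_door (hδ : 0 < kit.δ) (hO : kit.O₀ ⊆ pvccSq 0 (kit.δ / 10)) (z d : ℂ) {l : List PvtTurn} {j : ℕ} (h0 : 0 < j) (hj : j < l.length) :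
    pvthSim (pvthZ kit.δ z d l j) (pvthD d l j) '' kit.O₀ ⊆ pvfeLanes (-(1 / 10)) (4 / 10) z (kit.δ * d) l := by
  rw [← pvcc_pl_preimage hδ.ne', pvthZ_eq, pvthD_eq]
  exact (pvccPl_mono _ _ (pvc6_kit_O_pre hδ hO)).trans (pvc6_door_lanes _ _ h0 hj)

/-- a cell tile -/
theorem pvc6_kit_tile (hδ : 0 < kit.δ) (hK : ∀ τ, (fun w : ℂ => (kit.δ : ℂ) * w) ⁻¹' kit.K₀ τ ⊆ pvfeLane (-(1 / 10)) (4 / 10) τ) (z d : ℂ) {l : List PvtTurn} {j : ℕ} (hj : j < l.length) :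
    pvthSim (pvthZ kit.δ z d l j) (pvthD d l j) '' kit.K₀ (pvthL l j) ⊆ pvfeLanes (-(1 / 10)) (4 / 10) z (kit.δ * d) l := by
  rw [← pvcc_pl_preimage hδ.ne', pvthZ_eq, pvthD_eq, pvthL_eq]
  intro v hv
  exact pvc6_mem_lanes hj (pvccPl_mono _ _ (hK _) hv)

end kit

/-! ## 4. the two necks and the skeleton at the parameters -/

section par

variable {τ : Type} {c : ℝ} (𝔓 : PvxPar τ c)

/-- **the neck of the exit mouth of `t`** (absolute) -/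
noncomputable def pvc6Nt (m : ℕ) (p : PvtsPat τ) : Set ℂ :=
  pvc6N (p.zt + pvegYp 𝔓 m p.tt) ((𝔓.Γ m).dout p.tt) (p.zt + (𝔓.Γ m).pout p.tt) (pvegR 𝔓 m / 10) (pvlmDel c m) (pvegR 𝔓 m / 5)

/-- **the neck of the entrance mouth of `s`** (absolute) -/
noncomputable def pvc6Ns (m : ℕ) (p : PvtsPat τ) : Set ℂ :=
  pvc6N (p.zs + pvegYm 𝔓 m p.ts) (-(𝔓.Γ m).din p.ts) (p.zs + (𝔓.Γ m).pin p.ts) (pvegR 𝔓 m / 10) (pvlmDel c m) (pvegR 𝔓 m / 5)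

/-- **THE SKELETON `T₀`** = inner lanes + the two necks -/
noncomputable def pvc6T (m : ℕ) (p : PvtsPat τ) : Set ℂ := pvc5L (𝔓.Γ m) p (pvc6Nt 𝔓 m p) (pvc6Ns 𝔓 m p)

theorem pvc6_par_cite : True := by
  have := @pvc6Nt.eq_1; have := @pvc6Ns.eq_1; have := @pvc6T.eq_1
  trivial

variable {𝔓} {m : ℕ} {p : PvtsPat τ}

theorem pvc6_lev (hW : 𝔓.Wf) (hF : PvfhWf 𝔓) (hfine : 64 * pvlmDel c m ≤ 𝔓.num.rho * pvlmH m) : PvegLev 𝔓 m := ⟨hW.rho0, hW.del m, hF.doors m, hfine⟩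

theorem pvc6_sq_shift (z q : ℂ) (r : ℝ) (v : ℂ) : v ∈ pvccSq (z + q) r ↔ v - z ∈ pvccSq q r := by
  unfold pvccSq
  simp only [mem_ofPred_eq]
  rw [show v - (z + q) = v - z - q by ring]

theorem pvc6_box_shift (z : ℂ) (r : ℝ) (v : ℂ) : v ∈ pvwSq z r ↔ v - z ∈ pvwSq 0 r := by
  unfold pvwSq
  simp only [mem_ofPred_eq, sub_zero]

theorem pvc6_Nt_closed (𝔓 : PvxPar τ c) (m : ℕ) (p : PvtsPat τ) : IsClosed (pvc6Nt 𝔓 m p) := pvc6_N_closed _ _ _ _ _ _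
theorem pvc6_Ns_closed (𝔓 : PvxPar τ c) (m : ℕ) (p : PvtsPat τ) : IsClosed (pvc6Ns 𝔓 m p) := pvc6_N_closed _ _ _ _ _ _
theorem pvc6_Nt_preconn (𝔓 : PvxPar τ c) (m : ℕ) (p : PvtsPat τ) : IsPreconnected (pvc6Nt 𝔓 m p) := pvc6_N_preconn _ _ _ _ _ _
theorem pvc6_Ns_preconn (𝔓 : PvxPar τ c) (m : ℕ) (p : PvtsPat τ) : IsPreconnected (pvc6Ns 𝔓 m p) := pvc6_N_preconn _ _ _ _ _ _

theorem pvc6_Nt_ball (hL : PvegLev 𝔓 m) (hT : pviwTyOk 𝔓 p.tt) : pvc6Nt 𝔓 m p ⊆ closedBall ((𝔓.ty p.tt).cp (pvlmH m) p.zt) (𝔓.num.rho * pvlmH m / 2) := by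
  intro v hv
  have h := pvc6_N_ball (pveg_door_o hL hT) ((pvc6_N_shift _ _ _ _ _ _ _ v).1 hv)
  rw [mem_closedBall_iff_norm] at h ⊢
  rw [show v - (𝔓.ty p.tt).cp (pvlmH m) p.zt = v - p.zt - pvegYp 𝔓 m p.tt by unfold PvwTy.cp pvegYp; ring]
  exact h

theorem pvc6_Ns_ball (hL : PvegLev 𝔓 m) (hT : pviwTyOk 𝔓 p.ts) : pvc6Ns 𝔓 m p ⊆ closedBall ((𝔓.ty p.ts).cm (pvlmH m) p.zs) (𝔓.num.rho * pvlmH m / 2) := by
  intro v hv
  have h := pvc6_N_ball (pveg_door_i hL hT) ((pvc6_N_shift _ _ _ _ _ _ _ v).1 hv)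
  rw [mem_closedBall_iff_norm] at h ⊢
  rw [show v - (𝔓.ty p.ts).cm (pvlmH m) p.zs = v - p.zs - pvegYm 𝔓 m p.ts by unfold PvwTy.cm pvegYm; ring]
  exact h

theorem pvc6_num (hL : PvegLev 𝔓 m) : pvegR 𝔓 m / 10 + 17 * pvlmDel c m / 4 ≤ 3 * pvegR 𝔓 m / 8 ∧ pvlmDel c m / 4 ≤ pvegR 𝔓 m / 5 := by
  have h1 : 64 * pvlmDel c m ≤ pvegR 𝔓 m := hL.fine
  have h2 := pvlm_Del_pos c m
  constructor <;> linarith

/-- the square of the first door lies in the neck of `t` -/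
theorem pvc6_Nt_sq (hL : PvegLev 𝔓 m) (hT : pviwTyOk 𝔓 p.tt) : pvccSq (p.zt + (𝔓.Γ m).pout p.tt) (pvlmDel c m / 4) ⊆ pvc6Nt 𝔓 m p := by
  intro v hv
  exact (pvc6_N_shift _ _ _ _ _ _ _ v).2 (pvc6_N_sq (pveg_door_o hL hT) (pvc6_num hL).1 (pvc6_num hL).2 ((pvc6_sq_shift _ _ _ v).1 hv))

/-- the square of the last door lies in the neck of `s` -/
theorem pvc6_Ns_sq (hL : PvegLev 𝔓 m) (hT : pviwTyOk 𝔓 p.ts) : pvccSq (p.zs + (𝔓.Γ m).pin p.ts) (pvlmDel c m / 4) ⊆ pvc6Ns 𝔓 m p := by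
  intro v hv
  exact (pvc6_N_shift _ _ _ _ _ _ _ v).2 (pvc6_N_sq (pveg_door_i hL hT) (pvc6_num hL).1 (pvc6_num hL).2 ((pvc6_sq_shift _ _ _ v).1 hv))

theorem pvc6_sq_self (q : ℂ) {r : ℝ} (hr : 0 < r) : q ∈ pvccSq q r := by
  show pvccN (q - q) < r
  simpa [pvccN] using hr

theorem pvc6_Nt_door (hL : PvegLev 𝔓 m) (hT : pviwTyOk 𝔓 p.tt) : pvfeZ (𝔓.Γ m) p ∈ pvc6Nt 𝔓 m p :=
  pvc6_Nt_sq hL hT (pvc6_sq_self _ (by have := pvlm_Del_pos c m; linarith))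

theorem pvc6_Ns_door (hL : PvegLev 𝔓 m) (hT : pviwTyOk 𝔓 p.ts) (hΓ : (𝔓.Γ m).Ok p) : pvccZ (pvfeZ (𝔓.Γ m) p) (pvfeD (𝔓.Γ m) p) p.l p.l.length ∈ pvc6Ns 𝔓 m p := by
  rw [pvfe_last_door _ hΓ]
  exact pvc6_Ns_sq hL hT (pvc6_sq_self _ (by have := pvlm_Del_pos c m; linarith))

/-- the neck of `t` is `2 δ` away from the own-level box of `t` -/
theorem pvc6_Nt_own (hL : PvegLev 𝔓 m) (hT : pviwTyOk 𝔓 p.tt) {v b : ℂ} (hv : v ∈ pvc6Nt 𝔓 m p) (hb : b ∈ pvwSq p.zt (pviwRad 𝔓 m p.tt)) : 2 * pvlmDel c m ≤ ‖v - b‖ := by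
  have h := pvc6_N_box (pveg_door_o hL hT) ((pvc6_N_shift _ _ _ _ _ _ _ v).1 hv) ((pvc6_box_shift _ _ b).1 hb)
  rwa [sub_sub_sub_cancel_right] at h

theorem pvc6_Ns_own (hL : PvegLev 𝔓 m) (hT : pviwTyOk 𝔓 p.ts) {v b : ℂ} (hv : v ∈ pvc6Ns 𝔓 m p) (hb : b ∈ pvwSq p.zs (pviwRad 𝔓 m p.ts)) : 2 * pvlmDel c m ≤ ‖v - b‖ := by
  have h := pvc6_N_box (pveg_door_i hL hT) ((pvc6_N_shift _ _ _ _ _ _ _ v).1 hv) ((pvc6_box_shift _ _ b).1 hb)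
  rwa [sub_sub_sub_cancel_right] at h

/-- the grid centres of the tip cells are near the own-level box -/
theorem pvc6_cp_norm (t : τ) (hT : pviwTyOk 𝔓 t) (m : ℕ) (z : ℂ) : ‖(𝔓.ty t).cp (pvlmH m) z - z‖ ≤ 2 * pviwRad 𝔓 m t + 𝔓.num.rho * pvlmH m / 5 := by
  have hh := pvlm_H_pos m
  have h1 := pvffz_norm_le_N (𝔓.ty t).yp
  have h2 := (abs_le.1 hT.1).2
  have e : (𝔓.ty t).cp (pvlmH m) z - z = (pvlmH m : ℂ) * (𝔓.ty t).yp := by unfold PvwTy.cp; ring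
  rw [e, norm_mul, Complex.norm_real, Real.norm_eq_abs, abs_of_pos hh]
  unfold pviwRad pvwRad
  nlinarith

theorem pvc6_cm_norm (t : τ) (hT : pviwTyOk 𝔓 t) (m : ℕ) (z : ℂ) : ‖(𝔓.ty t).cm (pvlmH m) z - z‖ ≤ 2 * pviwRad 𝔓 m t + 𝔓.num.rho * pvlmH m / 5 := by
  have hh := pvlm_H_pos m
  have h1 := pvffz_norm_le_N (𝔓.ty t).ym
  have h2 := (abs_le.1 hT.2.1).2
  have e : (𝔓.ty t).cm (pvlmH m) z - z = (pvlmH m : ℂ) * (𝔓.ty t).ym := by unfold PvwTy.cm; ring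
  rw [e, norm_mul, Complex.norm_real, Real.norm_eq_abs, abs_of_pos hh]
  unfold pviwRad pvwRad
  nlinarith

theorem pvc6_rad_le (hW : 𝔓.Wf) (m : ℕ) (t : τ) : pviwRad 𝔓 m t ≤ pvwRad 𝔓.num (pvlmH m) (𝔓.ty t) 𝔓.num.K := by
  have hh := pvlm_H_pos m
  have h1 : 0 ≤ 𝔓.num.rho1 := (hW.rho0.trans hW.rho1).le
  unfold pviwRad pvwRad
  have h2 : ((𝔓.ty t).k : ℝ) ≤ 𝔓.num.K := by exact_mod_cast hW.lev t
  exact mul_le_mul_of_nonneg_right (by nlinarith) hh.le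

theorem pvc6_rho_h (hW : 𝔓.Wf) (m : ℕ) : 0 < 𝔓.num.rho * pvlmH m ∧ 𝔓.num.rho * pvlmH m ≤ pvlmH m := by
  have hh := pvlm_H_pos m
  have h1 : 𝔓.num.rho ≤ 1 := by linarith [hW.rho1, hW.rho2, hW.rho3]
  exact ⟨mul_pos hW.rho0 hh, by nlinarith⟩

theorem pvc6_tri4 (a b c d e : ℂ) : ‖a - e‖ ≤ ‖a - b‖ + ‖b - c‖ + ‖c - d‖ + ‖d - e‖ := by
  have h : a - e = (a - b) + (b - c) + (c - d) + (d - e) := by ring
  rw [h]
  exact (norm_add_le _ _).trans (add_le_add ((norm_add_le _ _).trans (add_le_add (norm_add_le _ _) le_rfl)) le_rfl)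

variable {Z : Set (ℤ × ℤ)}

/-- **the two mouths are `7 h` apart** -/
theorem pvc6_sep (hW : 𝔓.Wf) (hTt : pviwTyOk 𝔓 p.tt) (hTs : pviwTyOk 𝔓 p.ts) (hI : PvfeIx (𝔓.Γ m) 𝔓.ty 𝔓.num (pvlmH m) p Z) :
    7 * pvlmH m ≤ ‖(𝔓.ty p.tt).cp (pvlmH m) p.zt - (𝔓.ty p.ts).cm (pvlmH m) p.zs‖ := by
  have h1 := hI.sep
  have h2 := pvc6_cp_norm p.tt hTt m p.zt
  have h3 := pvc6_cm_norm p.ts hTs m p.zs
  have h4 := pvc6_rad_le hW m p.tt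
  have h5 := pvc6_rad_le hW m p.ts
  obtain ⟨h6, h7⟩ := pvc6_rho_h hW m
  have h8 := pvc6_tri4 p.zs ((𝔓.ty p.ts).cm (pvlmH m) p.zs) ((𝔓.ty p.tt).cp (pvlmH m) p.zt) p.zt p.zt
  rw [sub_self, norm_zero] at h8
  linarith [norm_sub_rev p.zs ((𝔓.ty p.ts).cm (pvlmH m) p.zs), norm_sub_rev ((𝔓.ty p.ts).cm (pvlmH m) p.zs) ((𝔓.ty p.tt).cp (pvlmH m) p.zt)]

/-- the neck of `t` is far from the own-level box of `s` -/
theorem pvc6_Nt_other (hW : 𝔓.Wf) (hL : PvegLev 𝔓 m) (hTt : pviwTyOk 𝔓 p.tt) (hI : PvfeIx (𝔓.Γ m) 𝔓.ty 𝔓.num (pvlmH m) p Z) {v b : ℂ} (hv : v ∈ pvc6Nt 𝔓 m p)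
    (hb : b ∈ pvwSq p.zs (pviwRad 𝔓 m p.ts)) : 7 * pvlmH m ≤ ‖v - b‖ := by
  have h1 := hI.sep
  have h2 := pvc6_cp_norm p.tt hTt m p.zt
  have h3 := pvffz_sq_norm hb
  have h4 := pvc6_rad_le hW m p.tt
  have h5 := pvc6_rad_le hW m p.ts
  obtain ⟨h6, h7⟩ := pvc6_rho_h hW m
  have h9 := mem_closedBall_iff_norm.1 (pvc6_Nt_ball hL hTt hv)
  have h8 := pvc6_tri4 p.zs b v ((𝔓.ty p.tt).cp (pvlmH m) p.zt) p.zt
  linarith [norm_sub_rev p.zs b, norm_sub_rev b v]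

/-- the neck of `s` is far from the own-level box of `t` -/
theorem pvc6_Ns_other (hW : 𝔓.Wf) (hL : PvegLev 𝔓 m) (hTs : pviwTyOk 𝔓 p.ts) (hI : PvfeIx (𝔓.Γ m) 𝔓.ty 𝔓.num (pvlmH m) p Z) {v b : ℂ} (hv : v ∈ pvc6Ns 𝔓 m p)
    (hb : b ∈ pvwSq p.zt (pviwRad 𝔓 m p.tt)) : 7 * pvlmH m ≤ ‖v - b‖ := by
  have h1 := hI.sep
  have h2 := pvc6_cm_norm p.ts hTs m p.zs
  have h3 := pvffz_sq_norm hb
  have h4 := pvc6_rad_le hW m p.tt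
  have h5 := pvc6_rad_le hW m p.ts
  obtain ⟨h6, h7⟩ := pvc6_rho_h hW m
  have h9 := mem_closedBall_iff_norm.1 (pvc6_Ns_ball hL hTs hv)
  have h8 := pvc6_tri4 p.zt b v ((𝔓.ty p.ts).cm (pvlmH m) p.zs) p.zs
  linarith [norm_sub_rev p.zt b, norm_sub_rev b v, norm_sub_rev p.zt p.zs]

/-- the word of an index is not empty -/
theorem pvc6_len_pos (hW : 𝔓.Wf) (hL : PvegLev 𝔓 m) (hTt : pviwTyOk 𝔓 p.tt) (hTs : pviwTyOk 𝔓 p.ts) (hΓ : (𝔓.Γ m).Ok p) (hI : PvfeIx (𝔓.Γ m) 𝔓.ty 𝔓.num (pvlmH m) p Z) : 0 < p.l.length := by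
  by_contra hc
  have h0 : p.l.length = 0 := by omega
  have h1 := pvc6_Ns_door hL hTs hΓ
  rw [h0, pvccZ_zero] at h1
  have h2 := mem_closedBall_iff_norm.1 (pvc6_Ns_ball hL hTs h1)
  have h3 := mem_closedBall_iff_norm.1 (pvc6_Nt_ball hL hTt (pvc6_Nt_door hL hTt))
  have h4 := pvc6_sep hW hTt hTs hI
  obtain ⟨h6, h7⟩ := pvc6_rho_h hW m
  have h5 := norm_sub_le_norm_sub_add_norm_sub ((𝔓.ty p.tt).cp (pvlmH m) p.zt) (pvfeZ (𝔓.Γ m) p) ((𝔓.ty p.ts).cm (pvlmH m) p.zs)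
  linarith [pvlm_H_pos m, norm_sub_rev ((𝔓.ty p.tt).cp (pvlmH m) p.zt) (pvfeZ (𝔓.Γ m) p)]

theorem pvc6_T_closed (𝔓 : PvxPar τ c) (m : ℕ) (p : PvtsPat τ) : IsClosed (pvc6T 𝔓 m p) := pvc5_L_closed _ _ (pvc6_Nt_closed 𝔓 m p) (pvc6_Ns_closed 𝔓 m p)

/-- **`T₀` IS PRECONNECTED** -/
theorem pvc6_T_preconn (hW : 𝔓.Wf) (hL : PvegLev 𝔓 m) (hTt : pviwTyOk 𝔓 p.tt) (hTs : pviwTyOk 𝔓 p.ts) (hΓ : (𝔓.Γ m).Ok p) (hI : PvfeIx (𝔓.Γ m) 𝔓.ty 𝔓.num (pvlmH m) p Z) :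
    IsPreconnected (pvc6T 𝔓 m p) := by
  have hl := pvc6_len_pos hW hL hTt hTs hΓ hI
  exact pvc5_L_preconn _ _ (pvc6_Nt_preconn 𝔓 m p) (pvc6_Ns_preconn 𝔓 m p) ⟨_, pvc6_first_lanes _ _ hl, pvc6_Nt_door hL hTt⟩ ⟨_, pvc6_last_lanes _ _ hl, pvc6_Ns_door hL hTs hΓ⟩

/-- **`T₀ ⊆ Yin`** -/
theorem pvc6_T_in (hL : PvegLev 𝔓 m) (hTt : pviwTyOk 𝔓 p.tt) (hTs : pviwTyOk 𝔓 p.ts) : pvc6T 𝔓 m p ⊆ (pvfeRegAt (𝔓.Γ m) 𝔓.ty 𝔓.cp 𝔓.cm 𝔓.num (pvlmH m) p).Yin :=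
  pvc5_L_in _ _ _ _ _ _ _ (pvc6_Nt_ball hL hTt) (pvc6_Ns_ball hL hTs)

end par

/-! ## 5. what stays away from `T₀` -/

/-- `pvgeFar` from a lower bound of the distances -/
theorem pvc6_far_of {C : Set ℂ} (hne : C.Nonempty) {y : ℂ} {d₀ r : ℝ} (h : ∀ u ∈ C, d₀ ≤ ‖y - u‖) (hr : 3 * r ≤ d₀) : y ∈ pvgeFar C r := by
  show 3 * r ≤ infDist y C
  refine (le_infDist hne).2 fun u hu => ?_
  rw [dist_eq_norm]
  exact hr.trans (h u hu)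

/-- `Yin` and the complement of `Yreg` are `2 ‖d‖` apart -/
theorem pvc6_in_reg_far {rI rO : ℝ} (hr : rI ≤ rO) {ys yt z d : ℂ} {l : List PvtTurn} {u w : ℂ} (hu : u ∈ pvfeIn rI ys yt z d l) (hw : w ∉ pvfeBody rO 3 ys yt z d l) : 2 * ‖d‖ < ‖w - u‖ := by
  have hd := norm_nonneg d
  have key : ∀ y : ℂ, u ∈ closedBall y rI → w ∉ closedBall y (rO + 3 * ‖d‖) → 2 * ‖d‖ < ‖w - u‖ := by
    intro y h1 h2
    rw [mem_closedBall_iff_norm] at h1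
    rw [mem_closedBall_iff_norm, not_le] at h2
    have := norm_sub_le_norm_sub_add_norm_sub w u y
    linarith
  rcases hu with (hu | hu) | hu
  · obtain ⟨j, hj, hC⟩ := pvfe_mem_tube.1 (pvfe_lanes_sub_tube (κ := 1) (by norm_num) (by norm_num) le_rfl z d l hu)
    have h2 : ¬ ‖w - pvccC z d l j‖ ≤ 3 * ‖d‖ := fun hc => hw (Or.inl (Or.inl (pvfe_mem_tube.2 ⟨j, hj, hc⟩)))
    rw [not_le] at h2
    have := norm_sub_le_norm_sub_add_norm_sub w u (pvccC z d l j)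
    linarith
  · exact key yt hu fun hc => hw (Or.inl (Or.inr hc))
  · exact key ys hu fun hc => hw (Or.inr hc)

section far

variable {τ : Type} {c : ℝ} {𝔓 : PvxPar τ c} {m : ℕ} {p : PvtsPat τ} {Z : Set (ℤ × ℤ)}

/-- **(FZ) FOR `T₀`, POINT FORM**: a point of one of the two own-level boxes which is `2 δ` away from the cell centres is more than `δ` away from `T₀` -/
theorem pvc6_T_off (hW : 𝔓.Wf) (hL : PvegLev 𝔓 m) (hTt : pviwTyOk 𝔓 p.tt) (hTs : pviwTyOk 𝔓 p.ts) (hI : PvfeIx (𝔓.Γ m) 𝔓.ty 𝔓.num (pvlmH m) p Z) {w : ℂ} (hoff : PvffzOff (𝔓.Γ m) p w)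
    (hbox : w ∈ pvwSq p.zs (pviwRad 𝔓 m p.ts) ∨ w ∈ pvwSq p.zt (pviwRad 𝔓 m p.tt)) : ∀ u ∈ pvc6T 𝔓 m p, pvlmDel c m < ‖w - u‖ := by
  have hδ := pvlm_Del_pos c m
  have hh : pvlmDel c m < 7 * pvlmH m := by
    have := hL.fine
    have := (pvc6_rho_h hW m).2
    linarith [pvlm_H_pos m]
  rintro u ((hu | hu) | hu)
  · have h1 := hoff.tube (by rw [hL.del]; exact hδ) (κ := 1) (pvfe_lanes_sub_tube (by norm_num) (by norm_num) le_rfl _ _ _ hu)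
    rw [hL.del] at h1
    linarith
  · rw [norm_sub_rev]
    rcases hbox with hb | hb
    · linarith [pvc6_Nt_other hW hL hTt hI hu hb]
    · linarith [pvc6_Nt_own hL hTt hu hb]
  · rw [norm_sub_rev]
    rcases hbox with hb | hb
    · linarith [pvc6_Ns_own hL hTs hu hb]
    · linarith [pvc6_Ns_other hW hL hTs hI hu hb]

variable {x : ℂ} {R : ℝ} {π : PvxIx τ} {Y : Set ℂ} {𝔇 : PvwDat (delbPl Y).toMap}

/-- **(FZ) FOR `T₀`, DATUM FORM**: the frozen sites of `D_Y` are more than `δ` away from `T₀` -/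
theorem pvc6_T_fz (hW : 𝔓.Wf) (hF : PvfhWf 𝔓) (hfine : 64 * pvlmDel c m ≤ 𝔓.num.rho * pvlmH m) (hT : ∀ t, pviwTyOk 𝔓 t) (hπ : π ∈ pvxPatSet 𝔓 x R m)
    (hok : 𝔇.Ok Subtype.val 𝔓.num (pvlmH m) (𝔓.reg m π)) {Bs Bt : Set ℂ}
    (hZs : (π.Zs : Set (ℤ × ℤ)) = pvtCells (pvlmDel c m) (Subtype.val '' 𝔇.s.fzIn ∪ Bs)) (hZt : (π.Zt : Set (ℤ × ℤ)) = pvtCells (pvlmDel c m) (Subtype.val '' 𝔇.t.fzOut ∪ Bt)) :
    ∀ v ∈ 𝔇.fzY, ∀ u ∈ pvc6T 𝔓 m π.p, pvlmDel c m < ‖(v : ℂ) - u‖ := by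
  intro v hv
  have hf : 32 * pvlmDel c m < 𝔓.num.rho * pvlmH m := by linarith [pvlm_Del_pos c m]
  have hoff := pvffz_model hW hF hf hπ hok hZs hZt hv
  rw [hF.reg_eq] at hok
  refine pvc6_T_off hW (pvc6_lev hW hF hfine) (hT _) (hT _) hπ.2.2.2.2.1 hoff ?_
  rcases hv with hv | hv
  · exact Or.inr (pvffz_out_box (pvffz_num hW hf) (hF.b_b2 _) hok.st_t hv)
  · exact Or.inl (pvffz_in_box (pvffz_num hW hf) (hF.b_b2 _) hok.st_s hv)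

/-- the vertices of `g₀` are more than `2 δ` away from `Yin`, so from `T₀` -/
theorem pvc6_T_g (hW : 𝔓.Wf) (hF : PvfhWf 𝔓) (hok : 𝔇.Ok Subtype.val 𝔓.num (pvlmH m) (𝔓.reg m π)) : ∀ v ∈ 𝔇.g.verts, ∀ u ∈ (𝔓.reg m π).Yin, 2 * pvlmDel c m < ‖(v : ℂ) - u‖ := by
  intro v hv u hu
  have h1 := hok.off v hv
  rw [hF.reg_eq] at h1 hu
  have h2 := pvc6_in_reg_far (by linarith [(pvc6_rho_h hW m).1]) hu h1
  rwa [pvfe_norm_D, hW.del, abs_of_pos (pvlm_Del_pos c m)] at h2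

/-- `Yout` is more than `δ/10` away from `Yin`, so from `T₀` -/
theorem pvc6_T_out (hW : 𝔓.Wf) (hF : PvfhWf 𝔓) : ∀ w ∈ (𝔓.reg m π).Yout, ∀ u ∈ (𝔓.reg m π).Yin, pvlmDel c m / 10 < ‖w - u‖ := by
  intro w hw u hu
  rw [hF.reg_eq] at hw hu
  have h2 := pvfe_in_out_far hu hw
  rwa [pvfe_norm_D, hW.del, abs_of_pos (pvlm_Del_pos c m)] at h2

theorem pvc6_T_reg (hW : 𝔓.Wf) (hF : PvfhWf 𝔓) (hfine : 64 * pvlmDel c m ≤ 𝔓.num.rho * pvlmH m) (hT : ∀ t, pviwTyOk 𝔓 t) : pvc6T 𝔓 m π.p ⊆ (𝔓.reg m π).Yin := by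
  rw [hF.reg_eq]
  exact pvc6_T_in (pvc6_lev hW hF hfine) (hT _) (hT _)

end far

/-! ## 6. **THE RESAMPLED REGION OF THE CHAIN LIES IN `T₀`** -/

section chain

variable {τ : Type} {c : ℝ} {𝔓 : PvxPar τ c} {𝔈 : PvieEng τ} {m : ℕ} {ε : ℝ} {p : PvtsPat τ}

/-- **`C_c ⊆ T₀`** from five lines on the engine: mesh of the kit, door region in the square `δ/10`, cell tiles in the inner lanes, end tiles in the necks -/
theorem pvc6_Cc_sub (hL : PvegLev 𝔓 m) (hTt : pviwTyOk 𝔓 p.tt) (hTs : pviwTyOk 𝔓 p.ts) (hδ : (𝔈.kit m ε).δ = pvlmDel c m) (hO : (𝔈.kit m ε).O₀ ⊆ pvccSq 0 (pvlmDel c m / 10))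
    (hK : ∀ t, (fun w : ℂ => ((pvlmDel c m : ℝ) : ℂ) * w) ⁻¹' (𝔈.kit m ε).K₀ t ⊆ pvfeLane (-(1 / 10)) (4 / 10) t)
    (hoK : 𝔈.oK m p.tt ⊆ pvc6N (pvegYp 𝔓 m p.tt) ((𝔓.Γ m).dout p.tt) ((𝔓.Γ m).pout p.tt) (pvegR 𝔓 m / 10) (pvlmDel c m) (pvegR 𝔓 m / 5))
    (hiK : 𝔈.iK m p.ts ⊆ pvc6N (pvegYm 𝔓 m p.ts) (-(𝔓.Γ m).din p.ts) ((𝔓.Γ m).pin p.ts) (pvegR 𝔓 m / 10) (pvlmDel c m) (pvegR 𝔓 m / 5)) :
    pvieCc 𝔓 𝔈 m ε p ⊆ pvc6T 𝔓 m p := by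
  have hd0 := pvlm_Del_pos c m
  have hk0 : 0 < (𝔈.kit m ε).δ := by rw [hδ]; exact hd0
  have hO' : (𝔈.kit m ε).O₀ ⊆ pvccSq 0 ((𝔈.kit m ε).δ / 10) := by rw [hδ]; exact hO
  have hK' : ∀ t, (fun w : ℂ => (((𝔈.kit m ε).δ : ℝ) : ℂ) * w) ⁻¹' (𝔈.kit m ε).K₀ t ⊆ pvfeLane (-(1 / 10)) (4 / 10) t := by rw [hδ]; exact hK
  have hD : (((𝔈.kit m ε).δ : ℝ) : ℂ) * (𝔓.Γ m).dout p.tt = pvfeD (𝔓.Γ m) p := by rw [hδ, ← hL.del]; rfl
  rintro w ⟨S, hS, hw⟩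
  unfold pvieTiles at hS
  simp only [List.mem_append, List.mem_cons, List.not_mem_nil, or_false, List.mem_map, List.mem_range] at hS
  rcases hS with ((rfl | rfl | rfl) | ⟨j, hj, rfl⟩) | ⟨j, hj, rfl⟩
  · refine Or.inl (Or.inr ?_)
    have h1 : w ∈ pvieSh p.zt (pvc6N (pvegYp 𝔓 m p.tt) ((𝔓.Γ m).dout p.tt) ((𝔓.Γ m).pout p.tt) (pvegR 𝔓 m / 10) (pvlmDel c m) (pvegR 𝔓 m / 5)) := image_mono hoK hw
    rwa [pvc6_N_sh] at h1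
  · refine Or.inr ?_
    have h1 : w ∈ pvieSh p.zs (pvc6N (pvegYm 𝔓 m p.ts) (-(𝔓.Γ m).din p.ts) ((𝔓.Γ m).pin p.ts) (pvegR 𝔓 m / 10) (pvlmDel c m) (pvegR 𝔓 m / 5)) := image_mono hiK hw
    rwa [pvc6_N_sh] at h1
  · exact Or.inr (pvc6_Ns_sq hL hTs (pveg_sim_sq hO (by linarith) _ (pveg_din4 hL _) hw))
  · rcases Nat.eq_zero_or_pos j with rfl | h0
    · have e1 : pvthZ (𝔈.kit m ε).δ (pvieZo 𝔓 m p.zt p.tt) ((𝔓.Γ m).dout p.tt) p.l 0 = p.zt + (𝔓.Γ m).pout p.tt := by rw [pvthZ_eq, pvccZ_zero]; rfl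
      have e2 : pvthD ((𝔓.Γ m).dout p.tt) p.l 0 = (𝔓.Γ m).dout p.tt := by simp [pvthD]
      rw [e1, e2] at hw
      exact Or.inl (Or.inr (pvc6_Nt_sq hL hTt (pveg_sim_sq hO (by linarith) _ (pveg_dout4 hL _) hw)))
    · have h1 := pvc6_kit_door hk0 hO' (pvieZo 𝔓 m p.zt p.tt) ((𝔓.Γ m).dout p.tt) h0 hj hw
      rw [hD] at h1
      exact Or.inl (Or.inl h1)
  · have h1 := pvc6_kit_tile hk0 hK' (pvieZo 𝔓 m p.zt p.tt) ((𝔓.Γ m).dout p.tt) hj hw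
    rw [hD] at h1
    exact Or.inl (Or.inl h1)

end chain

end Claimed.Agent.R289
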