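-- KEEP
import Claimed.Agent.R289.Tr.GeoLoc
import Claimed.Agent.R289.Tr.LocalW
import Claimed.Agent.R289.Tr.StKit
import Claimed.Agent.R289.Tr.AtUniq

/-!
# Row 289 (S0537), THE WALL, ROAD E, E10 AT THE HYBRID ENDS, (b1) of `Exit/FrcE` (35), file Tr/FrcCarG : THE GENERIC CORE OF "THE HALF STATE IS CARRIED"      (helper297, second of 71 `Tr/FrcCar`; prefix `pvjv_car_`)

NO NAME OF `Tr/InstL` INSIDE (the patches of the definitions of record cannot break this file).      Vocabulary: `Tr/Defs` v3 (`AtOut AtIn fzOut fzIn xp xm PvwLE`), `Tr/LocalW` v3 (22: `PvLocP PvLocSP PvLocSM`), `Tr/GeoLoc` (29: `PvgeSame pvgeRel`), `Tr/StKit` (25: a half state is a cylinder).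
PLAN.   The experiment of a hybrid end changes the SITES off the window and the COLOURS of the fresh sites of the mouth.      `pvlw_atOut` asks the same colours on the WHOLE shared part (the star of `K`), which contains fresh sites.      Two steps:
first recolour at fixed geometry (`pvwk_atOut_congr`: only the frozen sites matter), then carry along the local isomorphism.
* sec. 1  (G1) `pvjv_car_frame` (a positioned local isomorphism seen in a frame `w ↦ f w`), `pvjv_car_ball` (discs in a rotated frame), `pvjv_car_pth` (twin path, length `0` allowed)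
* sec. 2  (G2) **`pvjv_car_out`** : `PvLocP` + disc and black ends of the stub in `Kr` + THE SAME COLOURS ON THE FROZEN SITES ONLY ⟹ a twin `𝔖'` (`PvLocSP`) with `AtOut` for the second colouring;   (G3) **`pvjv_car_in`** the mirror
* sec. 3  what a twin keeps: `pvjv_car_fzOut`, `pvjv_car_fzIn` (the same frozen POSITIONS), `pvjv_car_inn` (inner arc), `pvjv_car_le_out`, `pvjv_car_le_in` (the loop erasures of the black banks: every one of `T'` is the twin of one of `T`), `pvjv_car_mask_out`, `pvjv_car_mask_in`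
* sec. 4  two site sets: `pvjv_car_locP` (`PvgeSame` ⟹ `PvLocP` at `Subtype.val`), **`pvjv_car_out_del`**, **`pvjv_car_in_del`** (everything at once on the Delaunay planes `delbPl Y`, `delbPl Y'`, frame `w ↦ c w`, colours as functions on `ℂ`)
-/

set_option autoImplicit false

namespace Claimed.Agent.R289

open Relation Set Metric

/-! ## 1. frames, discs, twin paths -/

section frame

variable {V D V' D' : Type} {T : PvMap V D} {T' : PvMap V' D'} {R : D → D' → Prop} {pos : V → ℂ} {pos' : V' → ℂ} {Kr : Set ℂ}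

/-- (G1) a positioned local isomorphism seen in a frame -/
theorem pvjv_car_frame (L : PvLocP T T' R pos pos' Kr) {f : ℂ → ℂ} (hf : Function.Injective f) : PvLocP T T' R (fun v => f (pos v)) (fun v' => f (pos' v')) (f '' Kr) where
  loc := L.loc
  pos_eq := fun d d' h => congrArg f (L.pos_eq d d' h)
  full := fun v hv => by
    obtain ⟨w, hw, e⟩ := hv
    exact L.full v (hf e ▸ hw)
  full' := fun v hv => by
    obtain ⟨w, hw, e⟩ := hv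
    exact L.full' v (hf e ▸ hw)

theorem pvjv_car_mul_inj {c : ℂ} (hc : ‖c‖ = 1) : Function.Injective fun w : ℂ => c * w := by
  have h0 : c ≠ 0 := fun h => by rw [h, norm_zero] at hc; exact zero_ne_one hc
  exact mul_right_injective₀ h0

/-- a disc in a rotated frame -/
theorem pvjv_car_ball {c z : ℂ} {r : ℝ} {K : Set ℂ} (hc : ‖c‖ = 1) (h : closedBall z r ⊆ K) : closedBall (c * z) r ⊆ (fun w : ℂ => c * w) '' K := by
  have h0 : c ≠ 0 := fun h => by rw [h, norm_zero] at hc; exact zero_ne_one hc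
  intro w hw
  refine ⟨c⁻¹ * w, h ?_, by show c * (c⁻¹ * w) = w; rw [← mul_assoc, mul_inv_cancel₀ h0, one_mul]⟩
  rw [mem_closedBall_iff_norm] at hw ⊢
  have e : c⁻¹ * w - z = c⁻¹ * (w - c * z) := by rw [mul_sub, ← mul_assoc, inv_mul_cancel₀ h0, one_mul]
  rw [e, norm_mul, norm_inv, hc, inv_one, one_mul]
  exact hw

/-- twin path, length `0` allowed -/
theorem pvjv_car_pth (L : PvLoc T T' R) (g : T.Pth) (hg : ∀ k, k < g.n → g.e k ∈ plDom R) (h0 : ∃ v', pvlocV T T' R (g.v 0) v') : ∃ g' : T'.Pth, PvLocPth R g g' := by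
  rcases Nat.eq_zero_or_pos g.n with hn | hn
  · obtain ⟨v', hv⟩ := h0
    obtain ⟨d, d', hR, h1, h2⟩ := hv
    refine ⟨⟨0, fun _ => v', fun _ => d', fun i hi => absurd hi (Nat.not_lt_zero _), fun i hi => absurd hi (Nat.not_lt_zero _), fun i j hi hj _ => by omega⟩, hn.symm, fun k hk => by omega, fun k hk => ?_⟩
    have hk0 : k = 0 := by omega
    subst hk0
    exact ⟨d, d', hR, h1, h2⟩
  · exact pvloc_pth_exists L g hn hg

end frame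

/-! ## 2. the half states are carried: the same colours on the frozen sites only -/

section carry

variable {V D V' D' : Type} {T : PvMap V D} {T' : PvMap V' D'} {R : D → D' → Prop} {pos : V → ℂ} {pos' : V' → ℂ} {Kr : Set ℂ} {s : V → Bool} {s' : V' → Bool}

open Classical in
/-- the colouring of `T` which copies `s'` on the shared vertices -/
noncomputable def pvjvCarCol (T : PvMap V D) (T' : PvMap V' D') (R : D → D' → Prop) (s : V → Bool) (s' : V' → Bool) (v : V) : Bool :=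
  if h : ∃ v', pvlocV T T' R v v' then s' h.choose else s v

theorem pvjv_car_eqns_cite : True := by
  have := @pvjvCarCol.eq_1
  trivial

theorem pvjv_car_col_rel (L : PvLoc T T' R) (s : V → Bool) (s' : V' → Bool) : ∀ d d', R d d' → pvjvCarCol T T' R s s' (T.src d) = s' (T'.src d') := by
  intro d d' h
  have hex : ∃ v', pvlocV T T' R (T.src d) v' := ⟨_, pvloc_v_src h⟩
  unfold pvjvCarCol
  rw [dif_pos hex, pvloc_v_fn L hex.choose_spec (pvloc_v_src h)]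

theorem pvjv_car_col_agree {F : Set V} (hs : ∀ v ∈ F, ∀ v', pvlocV T T' R v v' → s v = s' v') : PvwAgree F s (pvjvCarCol T T' R s s') := by
  intro v hv
  unfold pvjvCarCol
  by_cases hex : ∃ v', pvlocV T T' R v v'
  · rw [dif_pos hex]
    exact hs v hv _ hex.choose_spec
  · rw [dif_neg hex]

/-- **(G2) THE EXIT HALF STATE IS CARRIED**: the two colourings agree ON THE FROZEN SITES ONLY -/
theorem pvjv_car_out (L : PvLocP T T' R pos pos' Kr) (hT : T.IsSph) {𝔖 : PvwSt T} {N : PvwNum} {h : ℝ} {z : ℂ} {τ : PvwTy} (hK : closedBall z (τ.b * h) ⊆ Kr)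
    (hKp : ∀ i, i ≤ 𝔖.np → pos (T.src (𝔖.ep i)) ∈ Kr) (ha : 𝔖.AtOut pos N h z τ s) (hs : ∀ v ∈ 𝔖.fzOut, ∀ v', pvlocV T T' R v v' → s v = s' v') :
    ∃ 𝔖' : PvwSt T', PvLocSP R 𝔖 𝔖' ∧ 𝔖'.AtOut pos' N h z τ s' := by
  have ha1 : 𝔖.AtOut pos N h z τ (pvjvCarCol T T' R s s') := pvwk_atOut_congr hT ha (pvjv_car_col_agree hs)
  obtain ⟨𝔖', G⟩ := pvlw_sp_exists_h L hK ha1.gate hKp
  exact ⟨𝔖', G, pvlw_atOut L hT (pvjv_car_col_rel L.loc s s') G hK ha1⟩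

/-- **(G3) THE ENTRANCE HALF STATE IS CARRIED** -/
theorem pvjv_car_in (L : PvLocP T T' R pos pos' Kr) (hT : T.IsSph) {𝔖 : PvwSt T} {N : PvwNum} {h : ℝ} {z : ℂ} {τ : PvwTy} (hK : closedBall z (τ.b * h) ⊆ Kr)
    (hKm : ∀ i, i ≤ 𝔖.nm → pos (T.src (𝔖.em i)) ∈ Kr) (ha : 𝔖.AtIn pos N h z τ s) (hs : ∀ v ∈ 𝔖.fzIn, ∀ v', pvlocV T T' R v v' → s v = s' v') :
    ∃ 𝔖' : PvwSt T', PvLocSM R 𝔖 𝔖' ∧ 𝔖'.AtIn pos' N h z τ s' := by
  have ha1 : 𝔖.AtIn pos N h z τ (pvjvCarCol T T' R s s') := pvwk_atIn_congr hT ha (pvjv_car_col_agree hs)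
  obtain ⟨𝔖', G⟩ := pvlw_sm_exists_h L hK ha1.gate hKm
  exact ⟨𝔖', G, pvlw_atIn_h L hT (pvjv_car_col_rel L.loc s s') G hK hKm ha1⟩

/-! ## 3. what a twin keeps -/

theorem pvjv_car_img (L : PvLocP T T' R pos pos' Kr) {A : Set V} {A' : Set V'} (h : PvLocSet T T' R A A') : pos' '' A' = pos '' A := by
  ext w
  constructor
  · rintro ⟨v', hv', rfl⟩
    obtain ⟨v, h1, h2⟩ := h.2 v' hv'
    exact ⟨v, h2, pvlw_pos L h1⟩
  · rintro ⟨v, hv, rfl⟩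
    obtain ⟨v', h1, h2⟩ := h.1 v hv
    exact ⟨v', h2, (pvlw_pos L h1).symm⟩

/-- the same frozen positions -/
theorem pvjv_car_fzOut (L : PvLocP T T' R pos pos' Kr) {𝔖 : PvwSt T} {𝔖' : PvwSt T'} (G : PvLocSP R 𝔖 𝔖') : pos' '' 𝔖'.fzOut = pos '' 𝔖.fzOut := pvjv_car_img L (pvlw_fzOut L.loc G)

theorem pvjv_car_fzIn (L : PvLocP T T' R pos pos' Kr) {𝔖 : PvwSt T} {𝔖' : PvwSt T'} (G : PvLocSM R 𝔖 𝔖') : pos' '' 𝔖'.fzIn = pos '' 𝔖.fzIn := pvjv_car_img L (pvlw_fzIn L.loc G)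

/-- the same inner arc, the same mark -/
theorem pvjv_car_inn (L : PvLocP T T' R pos pos' Kr) {𝔖 : PvwSt T} {𝔖' : PvwSt T'} (G : PvLocGt R 𝔖 𝔖') :
    𝔖'.inn.n = 𝔖.inn.n ∧ 𝔖'.ip = 𝔖.ip ∧ ∀ k, k ≤ 𝔖.inn.n → pos' (𝔖'.inn.v k) = pos (𝔖.inn.v k) :=
  ⟨G.inn.n_eq, G.ip, fun k hk => (pvlw_pos L (G.inn.v_rel k hk)).symm⟩

/-- a loop erasure of a walk through vertices placed in `Kr` is the twin of a loop erasure of the twin walk -/
theorem pvjv_car_le (L : PvLocP T T' R pos pos' Kr) {b : ℕ → V} {b' : ℕ → V'} {n : ℕ} (hb : ∀ i, i ≤ n → pvlocV T T' R (b i) (b' i)) (hK : ∀ i, i ≤ n → pos (b i) ∈ Kr)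
    {y' : T'.Pth} (h : PvwLE T' b' n y') : ∃ y : T.Pth, PvLocPth R y y' ∧ PvwLE T b n y := by
  have hv : ∀ k, k ≤ y'.n → ∃ i, i ≤ n ∧ y'.v k = b' i := by
    obtain ⟨j, -, -, h1, -⟩ := h
    exact fun k hk => ⟨j k, (h1 k hk).1, (h1 k hk).2.1⟩
  have hK' : ∀ k, k ≤ y'.n → pos' (y'.v k) ∈ Kr := by
    intro k hk
    obtain ⟨i, hi, e⟩ := hv k hk
    rw [e, ← pvlw_pos L (hb i hi)]
    exact hK i hi
  obtain ⟨y, P⟩ := pvjv_car_pth L.symm.loc y' (fun k hk => pvlw_dart_src L.symm (by rw [y'.src_e k hk]; exact hK' k hk.le)) (pvlw_vertex L.symm (hK' 0 (Nat.zero_le _)))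
  have P' : PvLocPth R y y' := ⟨P.n_eq.symm, fun k hk => P.e_rel k (P.n_eq ▸ hk), fun k hk => by
    obtain ⟨d', d, h1, h2, h3⟩ := P.v_rel k (P.n_eq ▸ hk)
    exact ⟨d, d', h1, h3, h2⟩⟩
  exact ⟨y, P', pvlw_le L.symm.loc (fun i hi => pvloc_v_symm (hb i hi)) P h⟩

/-- the positions of a pair of twin paths -/
theorem pvjv_car_pth_pos (L : PvLocP T T' R pos pos' Kr) {y : T.Pth} {y' : T'.Pth} (P : PvLocPth R y y') {M : Set ℂ} (h : ∀ v ∈ y.verts, pos v ∈ M) : ∀ v' ∈ y'.verts, pos' v' ∈ M := by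
  rintro _ ⟨k, hk, rfl⟩
  rw [P.n_eq] at hk
  rw [← pvlw_pos L (P.v_rel k hk)]
  exact h _ ⟨k, hk, rfl⟩

/-- **the mask of the exit stub is carried** -/
theorem pvjv_car_mask_out (L : PvLocP T T' R pos pos' Kr) {𝔖 : PvwSt T} {𝔖' : PvwSt T'} (G : PvLocSP R 𝔖 𝔖') (hKp : ∀ i, i ≤ 𝔖.np → pos (T.src (𝔖.ep i)) ∈ Kr) {M : Set ℂ}
    (h : ∀ y : T.Pth, PvwLE T (fun i => T.src (𝔖.ep i)) 𝔖.np y → ∀ v ∈ y.verts, pos v ∈ M) :
    ∀ y' : T'.Pth, PvwLE T' (fun i => T'.src (𝔖'.ep i)) 𝔖'.np y' → ∀ v' ∈ y'.verts, pos' v' ∈ M := by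
  intro y' hy'
  rw [G.np] at hy'
  obtain ⟨y, P, hy⟩ := pvjv_car_le L (b := fun i => T.src (𝔖.ep i)) (fun i hi => pvloc_v_src (G.ep i hi)) hKp hy'
  exact pvjv_car_pth_pos L P (h y hy)

/-- **the mask of the entrance stub is carried** -/
theorem pvjv_car_mask_in (L : PvLocP T T' R pos pos' Kr) {𝔖 : PvwSt T} {𝔖' : PvwSt T'} (G : PvLocSM R 𝔖 𝔖') (hKm : ∀ i, i ≤ 𝔖.nm → pos (T.src (𝔖.em i)) ∈ Kr) {M : Set ℂ}
    (h : ∀ y : T.Pth, PvwLE T (fun i => T.src (𝔖.em i)) 𝔖.nm y → ∀ v ∈ y.verts, pos v ∈ M) :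
    ∀ y' : T'.Pth, PvwLE T' (fun i => T'.src (𝔖'.em i)) 𝔖'.nm y' → ∀ v' ∈ y'.verts, pos' v' ∈ M := by
  intro y' hy'
  rw [G.nm] at hy'
  obtain ⟨y, P, hy⟩ := pvjv_car_le L (b := fun i => T.src (𝔖.em i)) (fun i hi => pvloc_v_src (G.em i hi)) hKm hy'
  exact pvjv_car_pth_pos L P (h y hy)

end carry

/-! ## 4. two site sets, the Delaunay planes -/

section del

variable {Y Y' K : Set ℂ}

/-- `PvgeSame` gives the positioned local isomorphism of 22 -/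
theorem pvjv_car_locP (h : DelGood Y) (h' : DelGood Y') (hK : PvgeSame Y Y' K) :
    PvLocP (delbPl Y).toMap (delbPl Y').toMap (pvgeRel (delbPl Y) (delbPl Y') K) Subtype.val Subtype.val K :=
  ⟨pvge_loc (pvge_del_bpl h) (pvge_del_bpl h') hK, pvge_pos_eq, pvge_full (pvge_del_bpl h) (pvge_del_bpl h') hK, pvge_full' (pvge_del_bpl h) (pvge_del_bpl h') hK⟩

/-- **WHAT THE CARRIED EXIT HALF STATE KEEPS** (all in terms of positions) -/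
structure PvjvCarOut (𝔖 : PvwSt (delbPl Y).toMap) (𝔖' : PvwSt (delbPl Y').toMap) : Prop where
  fz : (Subtype.val '' 𝔖'.fzOut : Set ℂ) = Subtype.val '' 𝔖.fzOut
  xp : 𝔖'.xp Subtype.val = 𝔖.xp Subtype.val
  np : 𝔖'.np = 𝔖.np
  ep_src : ∀ i, i ≤ 𝔖.np → (((delbPl Y').toMap.src (𝔖'.ep i) : ↥Y') : ℂ) = ((delbPl Y).toMap.src (𝔖.ep i) : ↥Y)
  ep_tgt : ∀ i, i ≤ 𝔖.np → (((delbPl Y').toMap.tgt (𝔖'.ep i) : ↥Y') : ℂ) = ((delbPl Y).toMap.tgt (𝔖.ep i) : ↥Y)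
  ap : ((𝔖'.ap : ↥Y') : ℂ) = (𝔖.ap : ↥Y)
  inn_n : 𝔖'.inn.n = 𝔖.inn.n
  ip : 𝔖'.ip = 𝔖.ip
  inn_v : ∀ k, k ≤ 𝔖.inn.n → ((𝔖'.inn.v k : ↥Y') : ℂ) = (𝔖.inn.v k : ↥Y)
  mask : ∀ M : Set ℂ, (∀ y : (delbPl Y).toMap.Pth, PvwLE (delbPl Y).toMap (fun i => (delbPl Y).toMap.src (𝔖.ep i)) 𝔖.np y → ∀ v ∈ y.verts, (v : ℂ) ∈ M) →
    ∀ y' : (delbPl Y').toMap.Pth, PvwLE (delbPl Y').toMap (fun i => (delbPl Y').toMap.src (𝔖'.ep i)) 𝔖'.np y' → ∀ v' ∈ y'.verts, (v' : ℂ) ∈ M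

/-- **WHAT THE CARRIED ENTRANCE HALF STATE KEEPS** -/
structure PvjvCarIn (𝔖 : PvwSt (delbPl Y).toMap) (𝔖' : PvwSt (delbPl Y').toMap) : Prop where
  fz : (Subtype.val '' 𝔖'.fzIn : Set ℂ) = Subtype.val '' 𝔖.fzIn
  xm : 𝔖'.xm Subtype.val = 𝔖.xm Subtype.val
  nm : 𝔖'.nm = 𝔖.nm
  em_src : ∀ i, i ≤ 𝔖.nm → (((delbPl Y').toMap.src (𝔖'.em i) : ↥Y') : ℂ) = ((delbPl Y).toMap.src (𝔖.em i) : ↥Y)
  em_tgt : ∀ i, i ≤ 𝔖.nm → (((delbPl Y').toMap.tgt (𝔖'.em i) : ↥Y') : ℂ) = ((delbPl Y).toMap.tgt (𝔖.em i) : ↥Y)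
  am : ((𝔖'.am : ↥Y') : ℂ) = (𝔖.am : ↥Y)
  inn_n : 𝔖'.inn.n = 𝔖.inn.n
  ip : 𝔖'.ip = 𝔖.ip
  inn_v : ∀ k, k ≤ 𝔖.inn.n → ((𝔖'.inn.v k : ↥Y') : ℂ) = (𝔖.inn.v k : ↥Y)
  mask : ∀ M : Set ℂ, (∀ y : (delbPl Y).toMap.Pth, PvwLE (delbPl Y).toMap (fun i => (delbPl Y).toMap.src (𝔖.em i)) 𝔖.nm y → ∀ v ∈ y.verts, (v : ℂ) ∈ M) →
    ∀ y' : (delbPl Y').toMap.Pth, PvwLE (delbPl Y').toMap (fun i => (delbPl Y').toMap.src (𝔖'.em i)) 𝔖'.nm y' → ∀ v' ∈ y'.verts, (v' : ℂ) ∈ M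

/-- **(b1), EXIT HALF, GENERIC FORM**.      `Y`, `Y'` have the same Delaunay triangles at the points of `K`;   the disc of the gate and the black ends of the stub lie in `K`;   the colourings `σ`, `σ'` of the plane agree ON THE FROZEN POSITIONS.
The half state is read in the frame `w ↦ c w` (`‖c‖ = 1`), `z` = the ABSOLUTE centre. -/
theorem pvjv_car_out_del (h : DelGood Y) (h' : DelGood Y') (hK : PvgeSame Y Y' K) {c : ℂ} (hc : ‖c‖ = 1) {σ σ' : ℂ → Bool} {𝔖 : PvwSt (delbPl Y).toMap} {N : PvwNum} {hh : ℝ} {z : ℂ} {τ : PvwTy}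
    (hD : closedBall z (τ.b * hh) ⊆ K) (hKp : ∀ i, i ≤ 𝔖.np → (((delbPl Y).toMap.src (𝔖.ep i) : ↥Y) : ℂ) ∈ K)
    (ha : 𝔖.AtOut (fun v : ↥Y => c * (v : ℂ)) N hh (c * z) τ (fun v : ↥Y => σ v)) (hs : ∀ v ∈ 𝔖.fzOut, σ' (v : ℂ) = σ v) :
    ∃ 𝔖' : PvwSt (delbPl Y').toMap, 𝔖'.AtOut (fun v : ↥Y' => c * (v : ℂ)) N hh (c * z) τ (fun v : ↥Y' => σ' v) ∧ PvjvCarOut 𝔖 𝔖' := by
  have L := pvjv_car_locP h h' hK
  have Lf := pvjv_car_frame L (pvjv_car_mul_inj hc)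
  obtain ⟨𝔖', G, ha'⟩ := pvjv_car_out (s' := fun v : ↥Y' => σ' v) Lf (delb_plane_isSph h) (pvjv_car_ball hc hD) (fun i hi => ⟨_, hKp i hi, rfl⟩) ha (fun v hv v' hvv => by
    show σ (v : ℂ) = σ' (v' : ℂ)
    rw [← pvge_loc_v hvv]
    exact (hs v hv).symm)
  refine ⟨𝔖', ha', pvjv_car_fzOut L G, pvlw_xp L G, G.np, fun i hi => (L.pos_eq _ _ (G.ep i hi)).symm, fun i hi => (pvlw_pos L (pvloc_v_tgt L.loc (G.ep i hi))).symm,
    (pvlw_pos L (pvlw_ap L.loc G)).symm, (pvjv_car_inn L G.gt).1, (pvjv_car_inn L G.gt).2.1, (pvjv_car_inn L G.gt).2.2, fun M hM => pvjv_car_mask_out L G hKp hM⟩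

/-- **(b1), ENTRANCE HALF, GENERIC FORM** -/
theorem pvjv_car_in_del (h : DelGood Y) (h' : DelGood Y') (hK : PvgeSame Y Y' K) {c : ℂ} (hc : ‖c‖ = 1) {σ σ' : ℂ → Bool} {𝔖 : PvwSt (delbPl Y).toMap} {N : PvwNum} {hh : ℝ} {z : ℂ} {τ : PvwTy}
    (hD : closedBall z (τ.b * hh) ⊆ K) (hKm : ∀ i, i ≤ 𝔖.nm → (((delbPl Y).toMap.src (𝔖.em i) : ↥Y) : ℂ) ∈ K)
    (ha : 𝔖.AtIn (fun v : ↥Y => c * (v : ℂ)) N hh (c * z) τ (fun v : ↥Y => σ v)) (hs : ∀ v ∈ 𝔖.fzIn, σ' (v : ℂ) = σ v) :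
    ∃ 𝔖' : PvwSt (delbPl Y').toMap, 𝔖'.AtIn (fun v : ↥Y' => c * (v : ℂ)) N hh (c * z) τ (fun v : ↥Y' => σ' v) ∧ PvjvCarIn 𝔖 𝔖' := by
  have L := pvjv_car_locP h h' hK
  have Lf := pvjv_car_frame L (pvjv_car_mul_inj hc)
  obtain ⟨𝔖', G, ha'⟩ := pvjv_car_in (s' := fun v : ↥Y' => σ' v) Lf (delb_plane_isSph h) (pvjv_car_ball hc hD) (fun i hi => ⟨_, hKm i hi, rfl⟩) ha (fun v hv v' hvv => by
    show σ (v : ℂ) = σ' (v' : ℂ)
    rw [← pvge_loc_v hvv]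
    exact (hs v hv).symm)
  refine ⟨𝔖', ha', pvjv_car_fzIn L G, pvlw_xm L G, G.nm, fun i hi => (L.pos_eq _ _ (G.em i hi)).symm, fun i hi => (pvlw_pos L (pvloc_v_tgt L.loc (G.em i hi))).symm,
    (pvlw_pos L (pvlw_am L G hKm)).symm, (pvjv_car_inn L G.gt).1, (pvjv_car_inn L G.gt).2.1, (pvjv_car_inn L G.gt).2.2, fun M hM => pvjv_car_mask_in L G hKm hM⟩

/-- EVERY exit half state of the second configuration has the frozen positions and the tip of the first one -/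
theorem pvjv_car_out_all (h : DelGood Y) (h' : DelGood Y') (hK : PvgeSame Y Y' K) {c : ℂ} (hc : ‖c‖ = 1) {σ σ' : ℂ → Bool} {𝔖 : PvwSt (delbPl Y).toMap} {N : PvwNum} {hh : ℝ} {z : ℂ} {τ : PvwTy}
    (hD : closedBall z (τ.b * hh) ⊆ K) (hKp : ∀ i, i ≤ 𝔖.np → (((delbPl Y).toMap.src (𝔖.ep i) : ↥Y) : ℂ) ∈ K)
    (ha : 𝔖.AtOut (fun v : ↥Y => c * (v : ℂ)) N hh (c * z) τ (fun v : ↥Y => σ v)) (hs : ∀ v ∈ 𝔖.fzOut, σ' (v : ℂ) = σ v)
    {𝔖'' : PvwSt (delbPl Y').toMap} (ha'' : 𝔖''.AtOut (fun v : ↥Y' => c * (v : ℂ)) N hh (c * z) τ (fun v : ↥Y' => σ' v)) :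
    (Subtype.val '' 𝔖''.fzOut : Set ℂ) = Subtype.val '' 𝔖.fzOut ∧ 𝔖''.xp Subtype.val = 𝔖.xp Subtype.val := by
  obtain ⟨𝔖', ha', C⟩ := pvjv_car_out_del h h' hK hc hD hKp ha hs
  have hinj : Function.Injective fun v : ↥Y' => c * (v : ℂ) := (pvjv_car_mul_inj hc).comp Subtype.val_injective
  obtain ⟨u1, u2⟩ := pvuq_atOut (delb_plane_isSph h') (pvgy_m_simple Y') hinj ha'' ha'
  have e : 𝔖''.fzOut = 𝔖'.fzOut := by unfold PvwSt.fzOut; rw [u1.core, u2.bkP, u2.whP]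
  exact ⟨by rw [e]; exact C.fz, by rw [u2.xp]; exact C.xp⟩

/-- EVERY entrance half state of the second configuration has the frozen positions and the tip of the first one -/
theorem pvjv_car_in_all (h : DelGood Y) (h' : DelGood Y') (hK : PvgeSame Y Y' K) {c : ℂ} (hc : ‖c‖ = 1) {σ σ' : ℂ → Bool} {𝔖 : PvwSt (delbPl Y).toMap} {N : PvwNum} {hh : ℝ} {z : ℂ} {τ : PvwTy}
    (hD : closedBall z (τ.b * hh) ⊆ K) (hKm : ∀ i, i ≤ 𝔖.nm → (((delbPl Y).toMap.src (𝔖.em i) : ↥Y) : ℂ) ∈ K)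
    (ha : 𝔖.AtIn (fun v : ↥Y => c * (v : ℂ)) N hh (c * z) τ (fun v : ↥Y => σ v)) (hs : ∀ v ∈ 𝔖.fzIn, σ' (v : ℂ) = σ v)
    {𝔖'' : PvwSt (delbPl Y').toMap} (ha'' : 𝔖''.AtIn (fun v : ↥Y' => c * (v : ℂ)) N hh (c * z) τ (fun v : ↥Y' => σ' v)) :
    (Subtype.val '' 𝔖''.fzIn : Set ℂ) = Subtype.val '' 𝔖.fzIn ∧ 𝔖''.xm Subtype.val = 𝔖.xm Subtype.val := by
  obtain ⟨𝔖', ha', C⟩ := pvjv_car_in_del h h' hK hc hD hKm ha hs
  have hinj : Function.Injective fun v : ↥Y' => c * (v : ℂ) := (pvjv_car_mul_inj hc).comp Subtype.val_injective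
  obtain ⟨u1, u2⟩ := pvuq_atIn (delb_plane_isSph h') (pvgy_m_simple Y') hinj ha'' ha'
  have e : 𝔖''.fzIn = 𝔖'.fzIn := by unfold PvwSt.fzIn; rw [u1.core, u2.bkM, u2.whM]
  exact ⟨by rw [e]; exact C.fz, by rw [u2.xm]; exact C.xm⟩

end del

end Claimed.Agent.R289
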