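-- KEEP
import Claimed.Agent.R289.Tr.KitN1
import Claimed.Agent.R289.Tr.LinkLoc
import Claimed.Agent.R289.Tr.FrcCarG
import Claimed.Agent.R289.Tr.BlindP

/-!
# Row 289 (S0537, Cardy for Poisson-Voronoi), THE WALL, ROAD E, N1', (POCKET-DET), file Tr/PocketD : THE RUN OF A PLAIN SUCCESS OF AN END LINK NEVER VISITS A POCKET      (helper120, second rope of 158; prefix `pvpd_`, `Pvpd`, `pvpd`)

FLAG (POCKET) of 170 (N1-A (4)): the fresh sites of a mouth may lie in `N(D)` (pockets behind the stubs), so `e.y ⊆ i.Nᶜ` is false.      Cure of 218 (`Tr/Irr` sec. 8, model free) : ONE plain debt `PvbqPlain` at `y₀ := (mouth \ F) \ i.N`.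
197 (`Tr/BlindL` sec. 6): the link reads its two ends and THE VERTICES OF ITS RUN.      THIS FILE: a vertex of the run is frozen by the own half state, or it is not in `N(D)` of the kit v2 of 29 (`PvwDat.NKF`).
TWO MAPS: `T₀` = the plane of the base sites (it carries the datum `𝔇`), `T` = the plane of the completion (it carries the run), `R` = a positioned local isomorphism (22 `Tr/LocalW`) on the star of `Kr`.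
* sec. 1  `PvpdGood` : a vertex of `T` is GOOD: off `K`, or over `Ycol`, or the twin of a frozen site of `D_Y`, or the twin of a site of `YF`;   `pvpd_touch`, **`pvpd_step`** (the apex of a dart with two good ends is good, unless both ends are frozen: NO TUNNEL), `pvpd_ind`
* sec. 2  **`pvpd_out`** (exit end: tip of `Σ⁺(t)` → door), **`pvpd_in`** (entrance end: door → tip of `Σ⁻(s)`): every vertex of the run is good.      NO TUNNEL = the clause TIGHT of 27 (`Exit/N1T`; conclusion of `pvhg_tight_out / _in` of 90) + first hit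
* sec. 3  **`pvpd_good_off`** : a good vertex is frozen by `D_Y` or its position is not the position of a site of `NKF`;   `pvpd_out_off`, `pvpd_in_off` (frozen by the OWN half state)
* sec. 4  two site sets, Delaunay planes, `(Y, s)`-forms of 197: `pvpd_door`, **`pvpd_rn_out`, `pvpd_rn_in`** (`PvgeSame Y₀ Y Kr`; carry of 297 + uniqueness of 111), `pvpd_rn_sub_out`, `pvpd_rn_sub_in`
* sec. 5  `pvpd_same` (LOCALITY IS FREE, 27: base ~ completion on `pvgeFar C r ∩ pvtrCore (3 μ) Wn`), `pvpd_col`;   glue **`pvpd_pl_o`, `pvpd_pl_i`** (`PvbqPlain` at `(mouth \ F) \ Nn` from (FZ) + `hR`);   **`pvpd_R_o`, `pvpd_R_i`** (`hR` at a datum)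
* sec. 6  **`pvpd_pl_o_top`, `pvpd_pl_i_top`** : `PvbqPlain C (window of record) p M X Y F ((mouth \ F) \ val '' 𝔇.NKF ..) σ` at the base data of `cfOf Y σ`, regions of `PvieEng.Wf`
* sec. 7  the cross clauses `pvpd_cross_s`, `pvpd_cross_t` (model free; pins apart)
-/

set_option autoImplicit false
set_option linter.unusedSectionVars false

namespace Claimed.Agent.R289

open Set Metric Claims.C0465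

/-! ## 1. good vertices -/

section core

variable {V₀ D₀ V D : Type} {T₀ : PvMap V₀ D₀} {T : PvMap V D} {R : D₀ → D → Prop} {pos₀ : V₀ → ℂ} {pos : V → ℂ} {Kr K Yn : Set ℂ} {𝔇 : PvwDat T₀} {π : PvwPat}

/-- **GOOD VERTEX** of the map of the completion: off `K`, over the collared lanes, twin of a frozen site of `D_Y`, twin of a site of `YF` -/
def PvpdGood (T₀ : PvMap V₀ D₀) (T : PvMap V D) (R : D₀ → D → Prop) (pos₀ : V₀ → ℂ) (pos : V → ℂ) (𝔇 : PvwDat T₀) (π : PvwPat) (K : Set ℂ) (v : V) : Prop :=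
  pos v ∉ K ∨ pos v ∈ π.Ycol ∨ ∃ v₀, pvlocV T₀ T R v₀ v ∧ (v₀ ∈ 𝔇.fzY ∨ v₀ ∈ 𝔇.YF pos₀ π K)

theorem pvpd_eqns_cite : True := by
  have := @PvpdGood.eq_1
  trivial

/-- a site of `YK` which touches a site off `K`, over `Ycol` or of `YF` is in `YF` -/
theorem pvpd_touch {x₀ w₀ : V₀} (hx : x₀ ∈ 𝔇.YK pos₀ π K) (h1 : T₀.Adj x₀ w₀) (h2 : T₀.Adj w₀ x₀) (hw : pos₀ w₀ ∉ K ∨ pos₀ w₀ ∈ π.Ycol ∨ w₀ ∈ 𝔇.YF pos₀ π K) : x₀ ∈ 𝔇.YF pos₀ π K := by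
  rcases hw with hw | hw | ⟨a, ha, hc⟩
  · exact ⟨x₀, Or.inr (Or.inr ⟨w₀, Or.inr hw, h1⟩), pvkn_comp_self 𝔇.s.dp hx⟩
  · exact ⟨x₀, Or.inr (Or.inr ⟨w₀, Or.inl hw, h1⟩), pvkn_comp_self 𝔇.s.dp hx⟩
  · exact ⟨a, ha, pvkn_comp_tail 𝔇.s.dp hc h2 hx⟩

/-- a good vertex, at its twin -/
theorem pvpd_good_twin (L : PvLocP T₀ T R pos₀ pos Kr) {v : V} {v₀ : V₀} (h : pvlocV T₀ T R v₀ v) (hg : PvpdGood T₀ T R pos₀ pos 𝔇 π K v) :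
    (pos₀ v₀ ∉ K ∨ pos₀ v₀ ∈ π.Ycol ∨ v₀ ∈ 𝔇.YF pos₀ π K) ∨ (v₀ ∈ 𝔇.fzY ∧ pos₀ v₀ ∈ K ∧ pos₀ v₀ ∉ π.Ycol) := by
  have e := pvlw_pos L h
  by_cases h1 : pos₀ v₀ ∈ K
  · by_cases h2 : pos₀ v₀ ∈ π.Ycol
    · exact Or.inl (Or.inr (Or.inl h2))
    · rcases hg with hg | hg | ⟨w₀, hw, hg⟩
      · exact absurd (e ▸ h1) hg
      · exact absurd (e ▸ hg) h2
      · obtain rfl := pvloc_v_inj L.loc hw h
        rcases hg with hg | hg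
        · exact Or.inr ⟨hg, h1, h2⟩
        · exact Or.inl (Or.inr (Or.inr hg))
  · exact Or.inl (Or.inl h1)

/-- **THE STEP**: the apex of a dart with two good ends is good.      `hnt` = NO TUNNEL: if the two ends are frozen (over `K`, off `Ycol`) the apex is a tip apex or it is frozen -/
theorem pvpd_step (L : PvLocP T₀ T R pos₀ pos Kr) {a : D} (hu : PvpdGood T₀ T R pos₀ pos 𝔇 π K (T.src a)) (hv : PvpdGood T₀ T R pos₀ pos 𝔇 π K (T.tgt a))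
    (hx : pos (T.apex a) ∈ π.Yin) (hKr : pos (T.apex a) ∈ K → pos (T.apex a) ∉ π.Ycol → pos (T.apex a) ∈ Kr)
    (hnt : ∀ a₀, R a₀ a → T₀.src a₀ ∈ 𝔇.fzY → T₀.tgt a₀ ∈ 𝔇.fzY → pos₀ (T₀.src a₀) ∈ K → pos₀ (T₀.src a₀) ∉ π.Ycol → pos₀ (T₀.tgt a₀) ∈ K → pos₀ (T₀.tgt a₀) ∉ π.Ycol →
      T₀.apex a₀ = 𝔇.t.ap ∨ T₀.apex a₀ = 𝔇.s.am ∨ T₀.apex a₀ ∈ 𝔇.fzY) : PvpdGood T₀ T R pos₀ pos 𝔇 π K (T.apex a) := by
  by_cases hK : pos (T.apex a) ∈ K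
  swap
  · exact Or.inl hK
  by_cases hc : pos (T.apex a) ∈ π.Ycol
  · exact Or.inr (Or.inl hc)
  obtain ⟨a₀, ha₀⟩ := pvlw_dart_apex L.symm (hKr hK hc)
  have ha₀ : R a₀ a := ha₀
  have tu := pvloc_v_src (T := T₀) (T' := T) ha₀
  have tv := pvloc_v_tgt L.loc ha₀
  have tx := pvloc_v_apex L.loc ha₀
  have ex := pvlw_pos L tx
  refine Or.inr (Or.inr ⟨_, tx, ?_⟩)
  by_cases hf : T₀.apex a₀ ∈ 𝔇.fzY
  · exact Or.inl hf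
  have hYK : T₀.apex a₀ ∈ 𝔇.YK pos₀ π K := ⟨⟨⟨hf, ex ▸ hx⟩, ex ▸ hc⟩, ex ▸ hK⟩
  have axu : T₀.Adj (T₀.apex a₀) (T₀.src a₀) := ⟨T₀.nxt (T₀.nxt a₀), T₀.src_nxt2 a₀, T₀.tgt_nxt2 a₀⟩
  have aux : T₀.Adj (T₀.src a₀) (T₀.apex a₀) := ⟨T₀.opp (T₀.nxt (T₀.nxt a₀)), by rw [T₀.src_opp', T₀.tgt_nxt2], by rw [T₀.tgt_opp, T₀.src_nxt2]⟩
  have avx : T₀.Adj (T₀.tgt a₀) (T₀.apex a₀) := ⟨T₀.nxt a₀, T₀.src_nxt a₀, T₀.tgt_nxt a₀⟩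
  have axv : T₀.Adj (T₀.apex a₀) (T₀.tgt a₀) := ⟨T₀.opp (T₀.nxt a₀), by rw [T₀.src_opp', T₀.tgt_nxt], by rw [T₀.tgt_opp, T₀.src_nxt]⟩
  refine Or.inr ?_
  rcases pvpd_good_twin L tu hu with h1 | ⟨f1, k1, c1⟩
  · exact pvpd_touch hYK axu aux h1
  rcases pvpd_good_twin L tv hv with h2 | ⟨f2, k2, c2⟩
  · exact pvpd_touch hYK axv avx h2
  rcases hnt a₀ ha₀ f1 f2 k1 c1 k2 c2 with e | e | e
  · exact ⟨_, Or.inl e, pvkn_comp_self 𝔇.s.dp hYK⟩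
  · exact ⟨_, Or.inr (Or.inl e), pvkn_comp_self 𝔇.s.dp hYK⟩
  · exact absurd e hf

/-- **THE INDUCTION** along a piece of strand -/
theorem pvpd_ind (L : PvLocP T₀ T R pos₀ pos Kr) {s : V → Bool} {a : D} {lo hi : ℕ}
    (h0 : PvpdGood T₀ T R pos₀ pos 𝔇 π K (T.src (pvasIt T s a lo)) ∧ PvpdGood T₀ T R pos₀ pos 𝔇 π K (T.tgt (pvasIt T s a lo)))
    (hx : ∀ i, lo ≤ i → i < hi → pos (T.apex (pvasIt T s a i)) ∈ π.Yin ∧ (pos (T.apex (pvasIt T s a i)) ∈ K → pos (T.apex (pvasIt T s a i)) ∉ π.Ycol → pos (T.apex (pvasIt T s a i)) ∈ Kr))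
    (hnt : ∀ i, lo ≤ i → i < hi → ∀ a₀, R a₀ (pvasIt T s a i) → T₀.src a₀ ∈ 𝔇.fzY → T₀.tgt a₀ ∈ 𝔇.fzY → pos₀ (T₀.src a₀) ∈ K → pos₀ (T₀.src a₀) ∉ π.Ycol → pos₀ (T₀.tgt a₀) ∈ K → pos₀ (T₀.tgt a₀) ∉ π.Ycol →
      T₀.apex a₀ = 𝔇.t.ap ∨ T₀.apex a₀ = 𝔇.s.am ∨ T₀.apex a₀ ∈ 𝔇.fzY) :
    ∀ i, lo ≤ i → i ≤ hi → PvpdGood T₀ T R pos₀ pos 𝔇 π K (T.src (pvasIt T s a i)) ∧ PvpdGood T₀ T R pos₀ pos 𝔇 π K (T.tgt (pvasIt T s a i)) := by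
  intro i hi1
  induction i, hi1 using Nat.le_induction with
  | base => exact fun _ => h0
  | succ i hi1 ih =>
    intro hi2
    obtain ⟨g1, g2⟩ := ih (by omega)
    have g3 := pvpd_step L g1 g2 (hx i hi1 (by omega)).1 (hx i hi1 (by omega)).2 (hnt i hi1 (by omega))
    rw [pvas_it_succ]
    rcases pvas_step_ends s (pvasIt T s a i) with ⟨-, e1, e2⟩ | ⟨-, e1, e2⟩
    · rw [e1, e2]; exact ⟨g3, g2⟩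
    · rw [e1, e2]; exact ⟨g1, g3⟩

end core

/-! ## 2. the two ends -/

section ends

variable {V₀ D₀ V D : Type} {T₀ : PvMap V₀ D₀} {T : PvMap V D} {R : D₀ → D → Prop} {pos₀ : V₀ → ℂ} {pos : V → ℂ} {Kr K Yn : Set ℂ} {𝔇 : PvwDat T₀} {π : PvwPat} {s : V → Bool} {y : ℂ} {rr : ℝ}

/-- a strand which hits `b` for the first time at `n` does not come back to one of its positions before `n` -/
theorem pvpd_no_return {a b : D} {n i j : ℕ} (ha : pvasBW T s a) (hn : pvasIt T s a n = b) (hf : ∀ k, k < n → pvasIt T s a k ≠ b) (hij : j < i) (hi : i ≤ n)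
    (e : pvasIt T s a j = pvasIt T s a i) : False := by
  have h1 := pvas_it_return ha hij.le e
  have e2 : pvasIt T s a ((i - j) + (n - (i - j))) = pvasIt T s a (n - (i - j)) := by rw [pvas_it_add, h1]
  rw [show (i - j) + (n - (i - j)) = n by omega] at e2
  exact hf _ (by omega) (e2.symm.trans hn)

/-- the apex of a position is an end of the next one -/
theorem pvpd_apex_next {a : D} {i : ℕ} {A : Set ℂ} (h : pos (T.src (pvasIt T s a (i + 1))) ∈ A ∧ pos (T.tgt (pvasIt T s a (i + 1))) ∈ A) : pos (T.apex (pvasIt T s a i)) ∈ A := by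
  rw [pvas_it_succ] at h
  rcases pvas_step_ends s (pvasIt T s a i) with ⟨-, e1, e2⟩ | ⟨-, e1, e2⟩
  · rw [e1] at h; exact h.1
  · rw [e2] at h; exact h.2

/-- **THE EXIT END** (tip of `Σ⁺(t)` → an end off `K`): every vertex of the run is good.      `tight` = the clause TIGHT of 27 at the base;   `hend` : the last `nm + 1` positions (the door) are off `K` -/
theorem pvpd_out (L : PvLocP T₀ T R pos₀ pos Kr) {𝔖 : PvwSt T} (G : PvLocSP R 𝔇.t 𝔖) {b : D} {nm n : ℕ}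
    (hbw : pvasBW T s 𝔖.dp) (hep : ∀ i, i ≤ 𝔖.np → 𝔖.ep i = pvasIt T s 𝔖.dp i) (run : PvllRun T pos s Yn 𝔖.dp b 𝔖.np nm n)
    (hYn : Yn ⊆ π.Yin) (hKr : ∀ w ∈ Yn, w ∈ K → w ∉ π.Ycol → w ∈ Kr ∧ ‖w - y‖ ≤ rr)
    (hcore : ∀ v ∈ 𝔇.t.core, pos₀ v ∉ π.Yin) (hs : ∀ v ∈ 𝔇.s.fzIn, pos₀ v ∉ Yn)
    (tight : ∀ x, T₀.src x ∈ 𝔇.t.bkP → T₀.tgt x ∈ 𝔇.t.whP → ‖pos₀ (T₀.src x) - y‖ ≤ rr → ‖pos₀ (T₀.tgt x) - y‖ ≤ rr → ∃ i, i ≤ 𝔇.t.np ∧ x = 𝔇.t.ep i)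
    (hend : ∀ i, i ≤ n → n ≤ i + nm → pos (T.src (pvasIt T s 𝔖.dp i)) ∉ K ∧ pos (T.tgt (pvasIt T s 𝔖.dp i)) ∉ K) :
    ∀ i, i ≤ n → PvpdGood T₀ T R pos₀ pos 𝔇 π K (T.src (pvasIt T s 𝔖.dp i)) ∧ PvpdGood T₀ T R pos₀ pos 𝔇 π K (T.tgt (pvasIt T s 𝔖.dp i)) := by
  obtain ⟨r1, r2, r3, r4⟩ := run
  have hnp : 𝔖.np = 𝔇.t.np := G.np
  have hst : ∀ i, i ≤ 𝔖.np → PvpdGood T₀ T R pos₀ pos 𝔇 π K (T.src (pvasIt T s 𝔖.dp i)) ∧ PvpdGood T₀ T R pos₀ pos 𝔇 π K (T.tgt (pvasIt T s 𝔖.dp i)) := by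
    intro i hi
    rw [← hep i hi]
    have hR := G.ep i (hnp ▸ hi)
    exact ⟨Or.inr (Or.inr ⟨_, pvloc_v_src hR, Or.inl (Or.inl (pvwk_banksP_sub_fzOut 𝔇.t (Or.inl ⟨i, hnp ▸ hi, rfl⟩)))⟩),
      Or.inr (Or.inr ⟨_, pvloc_v_tgt L.loc hR, Or.inl (Or.inl (pvwk_banksP_sub_fzOut 𝔇.t (Or.inr ⟨i, hnp ▸ hi, rfl⟩)))⟩)⟩
  have hap : ∀ i, 𝔖.np ≤ i → i + 1 + nm < n → pos (T.apex (pvasIt T s 𝔖.dp i)) ∈ Yn := fun i h1 h2 => pvpd_apex_next (r4 (i + 1) (by omega) h2)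
  intro i hi
  by_cases c1 : i ≤ 𝔖.np
  · exact hst i c1
  by_cases c2 : n ≤ i + nm
  · exact ⟨Or.inl (hend i hi c2).1, Or.inl (hend i hi c2).2⟩
  refine pvpd_ind L (lo := 𝔖.np) (hi := i) (hst _ le_rfl) (fun k k1 k2 => ⟨hYn (hap k k1 (by omega)), fun a1 a2 => (hKr _ (hap k k1 (by omega)) a1 a2).1⟩) ?_ i (by omega) le_rfl
  intro k k1 k2 a₀ ha₀ f1 f2 q1 d1 q2 d2
  rcases Nat.eq_or_lt_of_le k1 with rfl | k1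
  · left
    rw [← hep _ le_rfl] at ha₀
    have hR := G.ep 𝔇.t.np le_rfl
    rw [← hnp] at hR
    rw [L.loc.iso.inj ha₀ hR, hnp]
    rfl
  · exfalso
    have hY := r4 k k1 (by omega)
    have eu : pos₀ (T₀.src a₀) = pos (T.src (pvasIt T s 𝔖.dp k)) := L.pos_eq _ _ ha₀
    have ev : pos₀ (T₀.tgt a₀) = pos (T.tgt (pvasIt T s 𝔖.dp k)) := pvlw_pos L (pvloc_v_tgt L.loc ha₀)
    have hb := pvas_it_bw hbw k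
    have hbk : T₀.src a₀ ∈ 𝔇.t.bkP := by
      rcases f1 with ((f | f) | f) | f
      · exact absurd (eu ▸ hYn hY.1) (hcore _ f)
      · exact f
      · obtain ⟨j, hj, e⟩ := f
        have t1 := pvloc_v_tgt L.loc (G.ep j hj)
        rw [e] at t1
        have e2 := pvloc_v_fn L.loc t1 (pvloc_v_src ha₀)
        have hw := (pvas_it_bw hbw j).2
        rw [← hep j (hnp ▸ hj), e2, hb.1] at hw
        exact absurd hw (by decide)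
      · exact absurd (eu ▸ hY.1) (hs _ f)
    have hwh : T₀.tgt a₀ ∈ 𝔇.t.whP := by
      rcases f2 with ((f | f) | f) | f
      · exact absurd (ev ▸ hYn hY.2) (hcore _ f)
      · obtain ⟨j, hj, e⟩ := f
        have t1 := pvloc_v_src (T := T₀) (T' := T) (G.ep j hj)
        rw [e] at t1
        have e2 := pvloc_v_fn L.loc t1 (pvloc_v_tgt L.loc ha₀)
        have hw := (pvas_it_bw hbw j).1
        rw [← hep j (hnp ▸ hj), e2, hb.2] at hw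
        exact absurd hw (by decide)
      · exact f
      · exact absurd (ev ▸ hY.2) (hs _ f)
    obtain ⟨j, hj, rfl⟩ := tight a₀ hbk hwh (eu ▸ (hKr _ hY.1 (eu ▸ q1) (eu ▸ d1)).2) (ev ▸ (hKr _ hY.2 (ev ▸ q2) (ev ▸ d2)).2)
    have e3 := L.loc.iso.fn (G.ep j hj) ha₀
    rw [hep j (hnp ▸ hj)] at e3
    exact pvpd_no_return hbw r2 r3 (show j < k by omega) (by omega) e3

/-- **THE ENTRANCE END** (an end off `K` → tip of `Σ⁻(s)`): every vertex of the run is good.      `hstart` : the first `np + 1` positions (the door) are off `K` -/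
theorem pvpd_in (L : PvLocP T₀ T R pos₀ pos Kr) {𝔖' : PvwSt T} (G : PvLocSM R 𝔇.s 𝔖') {a : D} {np n : ℕ}
    (hbw : pvasBW T s a) (hem : ∀ j, j ≤ 𝔖'.nm → 𝔖'.em j = (pvasBack T s)^[j] 𝔖'.dm) (run : PvllRun T pos s Yn a 𝔖'.dm np 𝔖'.nm n)
    (hYn : Yn ⊆ π.Yin) (hKr : ∀ w ∈ Yn, w ∈ K → w ∉ π.Ycol → w ∈ Kr ∧ ‖w - y‖ ≤ rr)
    (hcore : ∀ v ∈ 𝔇.s.core, pos₀ v ∉ π.Yin) (ht : ∀ v ∈ 𝔇.t.fzOut, pos₀ v ∉ Yn)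
    (tight : ∀ x, T₀.src x ∈ 𝔇.s.bkM → T₀.tgt x ∈ 𝔇.s.whM → ‖pos₀ (T₀.src x) - y‖ ≤ rr → ‖pos₀ (T₀.tgt x) - y‖ ≤ rr → ∃ i, i ≤ 𝔇.s.nm ∧ x = 𝔇.s.em i)
    (hstart : ∀ i, i ≤ np → pos (T.src (pvasIt T s a i)) ∉ K ∧ pos (T.tgt (pvasIt T s a i)) ∉ K) :
    ∀ i, i ≤ n → PvpdGood T₀ T R pos₀ pos 𝔇 π K (T.src (pvasIt T s a i)) ∧ PvpdGood T₀ T R pos₀ pos 𝔇 π K (T.tgt (pvasIt T s a i)) := by
  obtain ⟨r1, r2, r3, r4⟩ := run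
  have hnm : 𝔖'.nm = 𝔇.s.nm := G.nm
  have htl : ∀ j, j ≤ 𝔖'.nm → pvasIt T s a (n - j) = 𝔖'.em j := fun j hj => by rw [hem j hj]; exact pvll_tail hbw r2 j (by omega)
  have hap : ∀ i, np ≤ i → i + 1 + 𝔖'.nm < n → pos (T.apex (pvasIt T s a i)) ∈ Yn := fun i h1 h2 => pvpd_apex_next (r4 (i + 1) (by omega) h2)
  intro i hi
  by_cases c1 : i ≤ np
  · exact ⟨Or.inl (hstart i c1).1, Or.inl (hstart i c1).2⟩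
  by_cases c2 : n ≤ i + 𝔖'.nm
  · have e : i = n - (n - i) := by omega
    have hj : n - i ≤ 𝔖'.nm := by omega
    rw [e, htl _ hj]
    have hR := G.em (n - i) (hnm ▸ hj)
    exact ⟨Or.inr (Or.inr ⟨_, pvloc_v_src hR, Or.inl (Or.inr (pvwk_banksM_sub_fzIn 𝔇.s (Or.inl ⟨n - i, hnm ▸ hj, rfl⟩)))⟩),
      Or.inr (Or.inr ⟨_, pvloc_v_tgt L.loc hR, Or.inl (Or.inr (pvwk_banksM_sub_fzIn 𝔇.s (Or.inr ⟨n - i, hnm ▸ hj, rfl⟩)))⟩)⟩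
  refine pvpd_ind L (lo := np) (hi := i) ⟨Or.inl (hstart np le_rfl).1, Or.inl (hstart np le_rfl).2⟩
    (fun k k1 k2 => ⟨hYn (hap k k1 (by omega)), fun a1 a2 => (hKr _ (hap k k1 (by omega)) a1 a2).1⟩) ?_ i (by omega) le_rfl
  intro k k1 k2 a₀ ha₀ f1 f2 q1 d1 q2 d2
  exfalso
  have eu : pos₀ (T₀.src a₀) = pos (T.src (pvasIt T s a k)) := L.pos_eq _ _ ha₀
  have ev : pos₀ (T₀.tgt a₀) = pos (T.tgt (pvasIt T s a k)) := pvlw_pos L (pvloc_v_tgt L.loc ha₀)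
  rcases Nat.eq_or_lt_of_le k1 with rfl | k1
  · exact (hstart np le_rfl).1 (eu ▸ q1)
  have hY := r4 k k1 (by omega)
  have hb := pvas_it_bw hbw k
  have hbk : T₀.src a₀ ∈ 𝔇.s.bkM := by
    rcases f1 with f | ((f | f) | f)
    · exact absurd (eu ▸ hY.1) (ht _ f)
    · exact absurd (eu ▸ hYn hY.1) (hcore _ f)
    · exact f
    · obtain ⟨j, hj, e⟩ := f
      have t1 := pvloc_v_tgt L.loc (G.em j hj)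
      rw [e] at t1
      have e2 := pvloc_v_fn L.loc t1 (pvloc_v_src ha₀)
      have hw := (pvas_it_bw hbw (n - j)).2
      rw [htl j (hnm ▸ hj), e2, hb.1] at hw
      exact absurd hw (by decide)
  have hwh : T₀.tgt a₀ ∈ 𝔇.s.whM := by
    rcases f2 with f | ((f | f) | f)
    · exact absurd (ev ▸ hY.2) (ht _ f)
    · exact absurd (ev ▸ hYn hY.2) (hcore _ f)
    · obtain ⟨j, hj, e⟩ := f
      have t1 := pvloc_v_src (T := T₀) (T' := T) (G.em j hj)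
      rw [e] at t1
      have e2 := pvloc_v_fn L.loc t1 (pvloc_v_tgt L.loc ha₀)
      have hw := (pvas_it_bw hbw (n - j)).1
      rw [htl j (hnm ▸ hj), e2, hb.2] at hw
      exact absurd hw (by decide)
    · exact f
  obtain ⟨j, hj, rfl⟩ := tight a₀ hbk hwh (eu ▸ (hKr _ hY.1 (eu ▸ q1) (eu ▸ d1)).2) (ev ▸ (hKr _ hY.2 (ev ▸ q2) (ev ▸ d2)).2)
  have e3 := L.loc.iso.fn ha₀ (G.em j hj)
  rw [← htl j (hnm ▸ hj)] at e3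
  exact pvpd_no_return hbw r2 r3 (show k < n - j by omega) (by omega) e3

end ends

/-! ## 3. a good vertex is not read by the `X` side -/

section off

variable {V₀ D₀ V D : Type} {T₀ : PvMap V₀ D₀} {T : PvMap V D} {R : D₀ → D → Prop} {pos₀ : V₀ → ℂ} {pos : V → ℂ} {Kr K Yn : Set ℂ} {𝔇 : PvwDat T₀} {π : PvwPat} {s : V → Bool} {y x : ℂ} {rr r₂ h : ℝ} {N : PvwNum}

/-- **a good vertex is frozen by `D_Y`, or its position is not the position of a site of `N(D)`** (kit v2 of 29) -/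
theorem pvpd_good_off (L : PvLocP T₀ T R pos₀ pos Kr) (hinj : Function.Injective pos₀) (hok : 𝔇.Ok pos₀ N h π) (hwf : π.Wf) (hf : ∀ v ∈ 𝔇.fz, pos₀ v ∈ K) {v : V}
    (hg : PvpdGood T₀ T R pos₀ pos 𝔇 π K v) : pos v ∈ pos₀ '' 𝔇.fzY ∨ pos v ∉ pos₀ '' 𝔇.NKF pos₀ π K x r₂ := by
  by_cases hz : pos v ∈ pos₀ '' 𝔇.fzY
  · exact Or.inl hz
  refine Or.inr ?_
  rintro ⟨w, hw, e⟩
  have hwz : w ∉ 𝔇.fzY := fun h' => hz ⟨w, h', e⟩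
  rcases hg with hg | hg | ⟨v₀, tv, hg⟩
  · exact hg (e ▸ pvkn_farF hf hw)
  · rw [← e] at hg
    rcases hw with ((hw | hw) | hw) | hw
    · exact hwz hw
    · exact (hok.off_y w (Or.inl hw)).2 hg
    · exact (hok.off_y w (Or.inr hw.1)).2 hg
    · exact hw.1.2.1 hg
  · obtain rfl : w = v₀ := hinj (e.trans (pvlw_pos L tv).symm)
    rcases hg with hg | hg
    · exact hwz hg
    · have hy := pvkn_yf_sub hg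
      rcases hw with ((hw | hw) | hw) | hw
      · exact hwz hw
      · exact hok.off w hw (hwf.in_sub hy.1.1.2)
      · exact hw.2 hy.1.1.2
      · exact hw.1.1 hg

/-- frozen by `D_Y` + (own stub, or over the room, or off `K`) ⟹ frozen by the own half state -/
theorem pvpd_split {A B : Set V₀} {N' : Set ℂ} {w : ℂ} (hB : ∀ v ∈ B, pos₀ v ∉ Yn ∧ pos₀ v ∈ K) (h : w ∈ pos₀ '' (A ∪ B) ∨ w ∉ N') (hc : w ∈ pos₀ '' A ∨ w ∈ Yn ∨ w ∉ K) : w ∈ pos₀ '' A ∨ w ∉ N' := by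
  rcases h with ⟨v, hv | hv, rfl⟩ | h
  · exact Or.inl ⟨v, hv, rfl⟩
  · rcases hc with hc | hc | hc
    · exact Or.inl hc
    · exact absurd hc (hB v hv).1
    · exact absurd (hB v hv).2 hc
  · exact Or.inr h

/-- **(POCKET-DET), EXIT END, MODEL FREE**: a vertex of the run is frozen by `Σ_out(t)` or it is not read by the `X` side -/
theorem pvpd_out_off (L : PvLocP T₀ T R pos₀ pos Kr) (hinj : Function.Injective pos₀) (hok : 𝔇.Ok pos₀ N h π) (hwf : π.Wf) (hf : ∀ v ∈ 𝔇.fz, pos₀ v ∈ K)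
    {𝔖 : PvwSt T} (G : PvLocSP R 𝔇.t 𝔖) {b : D} {nm n : ℕ}
    (hbw : pvasBW T s 𝔖.dp) (hep : ∀ i, i ≤ 𝔖.np → 𝔖.ep i = pvasIt T s 𝔖.dp i) (run : PvllRun T pos s Yn 𝔖.dp b 𝔖.np nm n)
    (hYn : Yn ⊆ π.Yin) (hKr : ∀ w ∈ Yn, w ∈ K → w ∉ π.Ycol → w ∈ Kr ∧ ‖w - y‖ ≤ rr) (hs : ∀ v ∈ 𝔇.s.fzIn, pos₀ v ∉ Yn)
    (tight : ∀ x, T₀.src x ∈ 𝔇.t.bkP → T₀.tgt x ∈ 𝔇.t.whP → ‖pos₀ (T₀.src x) - y‖ ≤ rr → ‖pos₀ (T₀.tgt x) - y‖ ≤ rr → ∃ i, i ≤ 𝔇.t.np ∧ x = 𝔇.t.ep i)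
    (hend : ∀ i, i ≤ n → n ≤ i + nm → pos (T.src (pvasIt T s 𝔖.dp i)) ∉ K ∧ pos (T.tgt (pvasIt T s 𝔖.dp i)) ∉ K) :
    ∀ i, i ≤ n → (pos (T.src (pvasIt T s 𝔖.dp i)) ∈ pos₀ '' 𝔇.t.fzOut ∨ pos (T.src (pvasIt T s 𝔖.dp i)) ∉ pos₀ '' 𝔇.NKF pos₀ π K x r₂) ∧
      (pos (T.tgt (pvasIt T s 𝔖.dp i)) ∈ pos₀ '' 𝔇.t.fzOut ∨ pos (T.tgt (pvasIt T s 𝔖.dp i)) ∉ pos₀ '' 𝔇.NKF pos₀ π K x r₂) := by
  intro i hi
  obtain ⟨g1, g2⟩ := pvpd_out L G hbw hep run hYn hKr (fun v hv => hok.core_off v (Or.inr hv)) hs tight hend i hi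
  have hB : ∀ v ∈ 𝔇.s.fzIn, pos₀ v ∉ Yn ∧ pos₀ v ∈ K := fun v hv => ⟨hs v hv, hf v (Or.inl (Or.inl (Or.inr hv)))⟩
  have hnp : 𝔖.np = 𝔇.t.np := G.np
  have cl : (pos (T.src (pvasIt T s 𝔖.dp i)) ∈ pos₀ '' 𝔇.t.fzOut ∨ pos (T.src (pvasIt T s 𝔖.dp i)) ∈ Yn ∨ pos (T.src (pvasIt T s 𝔖.dp i)) ∉ K) ∧
      (pos (T.tgt (pvasIt T s 𝔖.dp i)) ∈ pos₀ '' 𝔇.t.fzOut ∨ pos (T.tgt (pvasIt T s 𝔖.dp i)) ∈ Yn ∨ pos (T.tgt (pvasIt T s 𝔖.dp i)) ∉ K) := by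
    by_cases c1 : i ≤ 𝔖.np
    · rw [← hep i c1]
      have hR := G.ep i (hnp ▸ c1)
      exact ⟨Or.inl ⟨_, pvwk_banksP_sub_fzOut 𝔇.t (Or.inl ⟨i, hnp ▸ c1, rfl⟩), L.pos_eq _ _ hR⟩,
        Or.inl ⟨_, pvwk_banksP_sub_fzOut 𝔇.t (Or.inr ⟨i, hnp ▸ c1, rfl⟩), pvlw_pos L (pvloc_v_tgt L.loc hR)⟩⟩
    by_cases c2 : n ≤ i + nm
    · exact ⟨Or.inr (Or.inr (hend i hi c2).1), Or.inr (Or.inr (hend i hi c2).2)⟩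
    · have := run.2.2.2 i (by omega) (by omega)
      exact ⟨Or.inr (Or.inl this.1), Or.inr (Or.inl this.2)⟩
  exact ⟨pvpd_split hB (pvpd_good_off L hinj hok hwf hf g1) cl.1, pvpd_split hB (pvpd_good_off L hinj hok hwf hf g2) cl.2⟩

/-- **(POCKET-DET), ENTRANCE END, MODEL FREE** -/
theorem pvpd_in_off (L : PvLocP T₀ T R pos₀ pos Kr) (hinj : Function.Injective pos₀) (hok : 𝔇.Ok pos₀ N h π) (hwf : π.Wf) (hf : ∀ v ∈ 𝔇.fz, pos₀ v ∈ K)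
    {𝔖' : PvwSt T} (G : PvLocSM R 𝔇.s 𝔖') {a : D} {np n : ℕ}
    (hbw : pvasBW T s a) (hem : ∀ j, j ≤ 𝔖'.nm → 𝔖'.em j = (pvasBack T s)^[j] 𝔖'.dm) (run : PvllRun T pos s Yn a 𝔖'.dm np 𝔖'.nm n)
    (hYn : Yn ⊆ π.Yin) (hKr : ∀ w ∈ Yn, w ∈ K → w ∉ π.Ycol → w ∈ Kr ∧ ‖w - y‖ ≤ rr) (ht : ∀ v ∈ 𝔇.t.fzOut, pos₀ v ∉ Yn)
    (tight : ∀ x, T₀.src x ∈ 𝔇.s.bkM → T₀.tgt x ∈ 𝔇.s.whM → ‖pos₀ (T₀.src x) - y‖ ≤ rr → ‖pos₀ (T₀.tgt x) - y‖ ≤ rr → ∃ i, i ≤ 𝔇.s.nm ∧ x = 𝔇.s.em i)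
    (hstart : ∀ i, i ≤ np → pos (T.src (pvasIt T s a i)) ∉ K ∧ pos (T.tgt (pvasIt T s a i)) ∉ K) :
    ∀ i, i ≤ n → (pos (T.src (pvasIt T s a i)) ∈ pos₀ '' 𝔇.s.fzIn ∨ pos (T.src (pvasIt T s a i)) ∉ pos₀ '' 𝔇.NKF pos₀ π K x r₂) ∧
      (pos (T.tgt (pvasIt T s a i)) ∈ pos₀ '' 𝔇.s.fzIn ∨ pos (T.tgt (pvasIt T s a i)) ∉ pos₀ '' 𝔇.NKF pos₀ π K x r₂) := by
  intro i hi
  obtain ⟨g1, g2⟩ := pvpd_in L G hbw hem run hYn hKr (fun v hv => hok.core_off v (Or.inl hv)) ht tight hstart i hi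
  have hB : ∀ v ∈ 𝔇.t.fzOut, pos₀ v ∉ Yn ∧ pos₀ v ∈ K := fun v hv => ⟨ht v hv, hf v (Or.inl (Or.inl (Or.inl hv)))⟩
  have hnm : 𝔖'.nm = 𝔇.s.nm := G.nm
  have cl : (pos (T.src (pvasIt T s a i)) ∈ pos₀ '' 𝔇.s.fzIn ∨ pos (T.src (pvasIt T s a i)) ∈ Yn ∨ pos (T.src (pvasIt T s a i)) ∉ K) ∧
      (pos (T.tgt (pvasIt T s a i)) ∈ pos₀ '' 𝔇.s.fzIn ∨ pos (T.tgt (pvasIt T s a i)) ∈ Yn ∨ pos (T.tgt (pvasIt T s a i)) ∉ K) := by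
    by_cases c1 : i ≤ np
    · exact ⟨Or.inr (Or.inr (hstart i c1).1), Or.inr (Or.inr (hstart i c1).2)⟩
    by_cases c2 : n ≤ i + 𝔖'.nm
    · have e : i = n - (n - i) := by omega
      have hj : n - i ≤ 𝔖'.nm := by omega
      rw [e, pvll_tail hbw run.2.1 _ (by omega), ← hem _ hj]
      have hR := G.em (n - i) (hnm ▸ hj)
      exact ⟨Or.inl ⟨_, pvwk_banksM_sub_fzIn 𝔇.s (Or.inl ⟨n - i, hnm ▸ hj, rfl⟩), L.pos_eq _ _ hR⟩,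
        Or.inl ⟨_, pvwk_banksM_sub_fzIn 𝔇.s (Or.inr ⟨n - i, hnm ▸ hj, rfl⟩), pvlw_pos L (pvloc_v_tgt L.loc hR)⟩⟩
    · have := run.2.2.2 i (by omega) (by omega)
      exact ⟨Or.inr (Or.inl this.1), Or.inr (Or.inl this.2)⟩
  have sw : ∀ w : ℂ, w ∈ pos₀ '' 𝔇.fzY ∨ w ∉ pos₀ '' 𝔇.NKF pos₀ π K x r₂ → w ∈ pos₀ '' (𝔇.s.fzIn ∪ 𝔇.t.fzOut) ∨ w ∉ pos₀ '' 𝔇.NKF pos₀ π K x r₂ := fun w hw => by
    rw [Set.union_comm]; exact hw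
  exact ⟨pvpd_split hB (sw _ (pvpd_good_off L hinj hok hwf hf g1)) cl.1, pvpd_split hB (sw _ (pvpd_good_off L hinj hok hwf hf g2)) cl.2⟩

end off

/-! ## 4. two site sets, the Delaunay planes, the `(Y, s)`-forms of 197 -/

section del

variable {Y₀ Y Kr K : Set ℂ} {𝔇 : PvwDat (pvbwT Y₀)} {π : PvwPat} {N : PvwNum} {h : ℝ} {x y : ℂ} {r₂ rr : ℝ} {L : PvilLk} {s : ↥Y → Bool}

theorem pvpd_pos_one {p : PvilPl} (h : p.fr = 1) (Y : Set ℂ) : pvbwPos p Y = Subtype.val := by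
  funext v
  unfold pvbwPos
  rw [h, map_one, one_mul]

theorem pvpd_zf_one {p : PvilPl} (h : p.fr = 1) : p.zf = p.z := by
  unfold PvilPl.zf
  rw [h, map_one, one_mul]

/-- a door end: no stub, the ends of the two gate edges lie in the open disc of the gate -/
theorem pvpd_door {𝔭 : PvkdPlug} {z d : ℂ} {𝔖 : PvwSt (pvbwT Y)} (h : PvbwDoor 𝔭 Y s z d 𝔖) :
    𝔖.np = 0 ∧ 𝔖.nm = 0 ∧ (((pvbwT Y).src 𝔖.dm : ↥Y) : ℂ) ∈ ball z 𝔭.b ∧ (((pvbwT Y).tgt 𝔖.dm : ↥Y) : ℂ) ∈ ball z 𝔭.b ∧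
      (((pvbwT Y).src 𝔖.dp : ↥Y) : ℂ) ∈ ball z 𝔭.b ∧ (((pvbwT Y).tgt 𝔖.dp : ↥Y) : ℂ) ∈ ball z 𝔭.b := by
  obtain ⟨-, g, hg, rfl⟩ := h
  have rim := hg.least.reg.rim
  refine ⟨rfl, rfl, rim 0, ?_, ?_, ?_⟩
  · have e : (pvbwT Y).tgt (g.c.e 0) = (pvbwT Y).src (g.c.e (0 + 1)) := g.c.chain 0
    show (((pvbwT Y).tgt (g.c.e 0) : ↥Y) : ℂ) ∈ ball z 𝔭.b
    rw [e]
    exact rim _
  · have e : (pvbwT Y).tgt (g.c.e (g.m - 1)) = (pvbwT Y).src (g.c.e (g.m - 1 + 1)) := g.c.chain _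
    show (((pvbwT Y).src ((pvbwT Y).opp (g.c.e (g.m - 1))) : ↥Y) : ℂ) ∈ ball z 𝔭.b
    rw [(pvbwT Y).src_opp', e]
    exact rim _
  · show (((pvbwT Y).tgt ((pvbwT Y).opp (g.c.e (g.m - 1))) : ↥Y) : ℂ) ∈ ball z 𝔭.b
    rw [(pvbwT Y).tgt_opp]
    exact rim _

/-- **(POCKET-DET), EXIT END, ON THE DELAUNAY PLANES**: `L` = a link `marked end (standard frame, the pin `t` of the pattern) → door`;   `Y₀` = base sites (datum `𝔇`), `Y` = the sites of the completion, the same triangles at the points of `Kr` -/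
theorem pvpd_rn_out (g₀ : DelGood Y₀) (hS : PvgeSame Y₀ Y Kr) (hok : 𝔇.Ok Subtype.val N h π) (hwf : π.Wf) (hf : ∀ v ∈ 𝔇.fz, (v : ℂ) ∈ K)
    (hdr : L.dr = false) (hdr' : L.dr' = true) (hfr : L.p.fr = 1) (hz : L.p.z = π.zt) (hty : L.p.ty = π.tt) (hh : L.p.h = h)
    (hcol : ∀ v ∈ 𝔇.t.fzOut, ∀ v' : ↥Y, (v : ℂ) = v' → 𝔇.col v = s v')
    (hD : closedBall π.zt (π.tt.b * h) ⊆ Kr) (hKp : ∀ i, i ≤ 𝔇.t.np → (((pvbwT Y₀).src (𝔇.t.ep i) : ↥Y₀) : ℂ) ∈ Kr)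
    (hYn : L.Yin ⊆ π.Yin) (hKr : ∀ w ∈ L.Yin, w ∈ K → w ∉ π.Ycol → w ∈ Kr ∧ ‖w - y‖ ≤ rr) (hs : ∀ v ∈ 𝔇.s.fzIn, (v : ℂ) ∉ L.Yin)
    (tight : ∀ a, (pvbwT Y₀).src a ∈ 𝔇.t.bkP → (pvbwT Y₀).tgt a ∈ 𝔇.t.whP → ‖(((pvbwT Y₀).src a : ↥Y₀) : ℂ) - y‖ ≤ rr → ‖(((pvbwT Y₀).tgt a : ↥Y₀) : ℂ) - y‖ ≤ rr → ∃ i, i ≤ 𝔇.t.np ∧ a = 𝔇.t.ep i)
    (hdoor : ∀ w ∈ ball L.p'.z (pvkdP L.p'.h).b, w ∉ K) :
    ∀ v ∈ pvbwRnY L N Y s, v ∈ pvbwFzO N L.p Y s ∨ v ∉ Subtype.val '' 𝔇.NKF Subtype.val π K x r₂ := by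
  rintro v ⟨𝔖, 𝔖', yy, n, i, arc, run, hi, hv⟩
  have ho : PvbwOut N L.p Y s 𝔖 := by
    have := arc.at_p
    unfold PvbwAtP at this
    rwa [hdr, if_neg (by decide)] at this
  have hd : PvbwDoor (pvkdP L.p'.h) Y s L.p'.z L.p'.fr 𝔖' := by
    have := arc.at_p'
    unfold PvbwAtP' at this
    rwa [hdr', if_pos rfl] at this
  have g := ho.good
  have st : 𝔖.AtOut Subtype.val N h π.zt π.tt s := by
    have := ho.st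
    rwa [pvpd_pos_one hfr, pvpd_zf_one hfr, hz, hty, hh] at this
  have LL := pvjv_car_locP g₀ g hS
  obtain ⟨𝔖₁, G, st₁⟩ := pvjv_car_out (s' := s) LL (delb_plane_isSph g₀) hD hKp hok.st_t (fun v hv v' hvv => hcol v hv v' (pvge_loc_v hvv))
  obtain ⟨u1, u2⟩ := pvuq_del_out g st st₁
  obtain ⟨-, d2, d3, d4, -, -⟩ := pvpd_door hd
  rw [u1.dp, u2.np] at run
  rw [u1.dp] at hv
  have efz : (Subtype.val '' 𝔇.t.fzOut : Set ℂ) ⊆ pvbwFzO N L.p Y s := by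
    rw [← pvjv_car_fzOut LL G]
    rintro _ ⟨u, hu, rfl⟩
    refine ⟨𝔖, ho, u, ?_, rfl⟩
    have e : 𝔖.fzOut = 𝔖₁.fzOut := by unfold PvwSt.fzOut; rw [u1.core, u2.bkP, u2.whP]
    rw [e]
    exact hu
  have key := pvpd_out_off (x := x) (r₂ := r₂) LL Subtype.val_injective hok hwf hf G st₁.gate.bw_p st₁.stub.ep_it run hYn hKr hs tight (fun j hj1 hj2 => by
    obtain rfl : j = n := by omega
    rw [run.2.1]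
    exact ⟨hdoor _ d3, hdoor _ d4⟩) i hi
  rcases hv with rfl | rfl
  · exact key.1.imp_left fun h' => efz h'
  · exact key.2.imp_left fun h' => efz h'

/-- **(POCKET-DET), ENTRANCE END, ON THE DELAUNAY PLANES**: `L` = a link `door → marked end (standard frame, the pin `s` of the pattern)` -/
theorem pvpd_rn_in (g₀ : DelGood Y₀) (hS : PvgeSame Y₀ Y Kr) (hok : 𝔇.Ok Subtype.val N h π) (hwf : π.Wf) (hf : ∀ v ∈ 𝔇.fz, (v : ℂ) ∈ K)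
    (hdr : L.dr = true) (hdr' : L.dr' = false) (hfr : L.p'.fr = 1) (hz : L.p'.z = π.zs) (hty : L.p'.ty = π.ts) (hh : L.p'.h = h)
    (hcol : ∀ v ∈ 𝔇.s.fzIn, ∀ v' : ↥Y, (v : ℂ) = v' → 𝔇.col v = s v')
    (hD : closedBall π.zs (π.ts.b * h) ⊆ Kr) (hKm : ∀ i, i ≤ 𝔇.s.nm → (((pvbwT Y₀).src (𝔇.s.em i) : ↥Y₀) : ℂ) ∈ Kr)
    (hYn : L.Yin ⊆ π.Yin) (hKr : ∀ w ∈ L.Yin, w ∈ K → w ∉ π.Ycol → w ∈ Kr ∧ ‖w - y‖ ≤ rr) (ht : ∀ v ∈ 𝔇.t.fzOut, (v : ℂ) ∉ L.Yin)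
    (tight : ∀ a, (pvbwT Y₀).src a ∈ 𝔇.s.bkM → (pvbwT Y₀).tgt a ∈ 𝔇.s.whM → ‖(((pvbwT Y₀).src a : ↥Y₀) : ℂ) - y‖ ≤ rr → ‖(((pvbwT Y₀).tgt a : ↥Y₀) : ℂ) - y‖ ≤ rr → ∃ i, i ≤ 𝔇.s.nm ∧ a = 𝔇.s.em i)
    (hdoor : ∀ w ∈ ball L.p.z (pvkdP L.p.h).b, w ∉ K) :
    ∀ v ∈ pvbwRnY L N Y s, v ∈ pvbwFzI N L.p' Y s ∨ v ∉ Subtype.val '' 𝔇.NKF Subtype.val π K x r₂ := by
  rintro v ⟨𝔖, 𝔖', yy, n, i, arc, run, hi, hv⟩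
  have hin : PvbwIn N L.p' Y s 𝔖' := by
    have := arc.at_p'
    unfold PvbwAtP' at this
    rwa [hdr', if_neg (by decide)] at this
  have hd : PvbwDoor (pvkdP L.p.h) Y s L.p.z L.p.fr 𝔖 := by
    have := arc.at_p
    unfold PvbwAtP at this
    rwa [hdr, if_pos rfl] at this
  have g := hin.good
  have st : 𝔖'.AtIn Subtype.val N h π.zs π.ts s := by
    have := hin.st
    rwa [pvpd_pos_one hfr, pvpd_zf_one hfr, hz, hty, hh] at this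
  have LL := pvjv_car_locP g₀ g hS
  obtain ⟨𝔖₁, G, st₁⟩ := pvjv_car_in (s' := s) LL (delb_plane_isSph g₀) hD hKm hok.st_s (fun v hv v' hvv => hcol v hv v' (pvge_loc_v hvv))
  obtain ⟨u1, u2⟩ := pvuq_del_in g st st₁
  obtain ⟨d1, -, -, -, d5, d6⟩ := pvpd_door hd
  rw [u1.dm, u2.nm] at run
  have efz : (Subtype.val '' 𝔇.s.fzIn : Set ℂ) ⊆ pvbwFzI N L.p' Y s := by
    rw [← pvjv_car_fzIn LL G]
    rintro _ ⟨u, hu, rfl⟩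
    refine ⟨𝔖', hin, u, ?_, rfl⟩
    have e : 𝔖'.fzIn = 𝔖₁.fzIn := by unfold PvwSt.fzIn; rw [u1.core, u2.bkM, u2.whM]
    rw [e]
    exact hu
  have hbw : pvasBW (pvbwT Y) s 𝔖.dp := by
    obtain ⟨-, gg, hg, rfl⟩ := hd
    exact pvtg_aOut_bw gg
  have key := pvpd_in_off (x := x) (r₂ := r₂) LL Subtype.val_injective hok hwf hf G hbw st₁.stub.em_it run hYn hKr ht tight (fun j hj => by
    obtain rfl : j = 0 := by omega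
    exact ⟨hdoor _ d5, hdoor _ d6⟩) i hi
  rcases hv with rfl | rfl
  · exact key.1.imp_left fun h' => efz h'
  · exact key.2.imp_left fun h' => efz h'

/-- the vertices of the run of a link `marked end → door`: frozen by the half state, in the disc of the door, over the room -/
theorem pvpd_rn_sub_out (hdr : L.dr = false) (hdr' : L.dr' = true) : pvbwRnY L N Y s ⊆ pvbwFzO N L.p Y s ∪ ball L.p'.z (pvkdP L.p'.h).b ∪ L.Yin := by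
  rintro v ⟨𝔖, 𝔖', yy, n, i, arc, run, hi, hv⟩
  have ho : PvbwOut N L.p Y s 𝔖 := by
    have := arc.at_p
    unfold PvbwAtP at this
    rwa [hdr, if_neg (by decide)] at this
  have hd : PvbwDoor (pvkdP L.p'.h) Y s L.p'.z L.p'.fr 𝔖' := by
    have := arc.at_p'
    unfold PvbwAtP' at this
    rwa [hdr', if_pos rfl] at this
  obtain ⟨-, d2, d3, d4, -, -⟩ := pvpd_door hd
  by_cases c1 : i ≤ 𝔖.np
  · rw [← ho.st.stub.ep_it i c1] at hv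
    rcases hv with rfl | rfl
    · exact Or.inl (Or.inl ⟨𝔖, ho, _, pvwk_banksP_sub_fzOut 𝔖 (Or.inl ⟨i, c1, rfl⟩), rfl⟩)
    · exact Or.inl (Or.inl ⟨𝔖, ho, _, pvwk_banksP_sub_fzOut 𝔖 (Or.inr ⟨i, c1, rfl⟩), rfl⟩)
  by_cases c2 : i = n
  · subst c2
    rw [run.2.1] at hv
    rcases hv with rfl | rfl
    · exact Or.inl (Or.inr d3)
    · exact Or.inl (Or.inr d4)
  · have := run.2.2.2 i (by omega) (by omega)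
    rcases hv with rfl | rfl
    · exact Or.inr this.1
    · exact Or.inr this.2

/-- the vertices of the run of a link `door → marked end` -/
theorem pvpd_rn_sub_in (hdr : L.dr = true) (hdr' : L.dr' = false) : pvbwRnY L N Y s ⊆ ball L.p.z (pvkdP L.p.h).b ∪ pvbwFzI N L.p' Y s ∪ L.Yin := by
  rintro v ⟨𝔖, 𝔖', yy, n, i, arc, run, hi, hv⟩
  have hin : PvbwIn N L.p' Y s 𝔖' := by
    have := arc.at_p'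
    unfold PvbwAtP' at this
    rwa [hdr', if_neg (by decide)] at this
  have hd : PvbwDoor (pvkdP L.p.h) Y s L.p.z L.p.fr 𝔖 := by
    have := arc.at_p
    unfold PvbwAtP at this
    rwa [hdr, if_pos rfl] at this
  obtain ⟨d1, -, -, -, d5, d6⟩ := pvpd_door hd
  have hbw : pvasBW (pvbwT Y) s 𝔖.dp := by
    obtain ⟨-, gg, hg, rfl⟩ := hd
    exact pvtg_aOut_bw gg
  by_cases c1 : i = 0
  · subst c1
    rcases hv with rfl | rfl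
    · exact Or.inl (Or.inl d5)
    · exact Or.inl (Or.inl d6)
  by_cases c2 : n ≤ i + 𝔖'.nm
  · have e : i = n - (n - i) := by omega
    have hj : n - i ≤ 𝔖'.nm := by omega
    rw [e, pvll_tail hbw run.2.1 _ (by omega), ← hin.st.stub.em_it _ hj] at hv
    rcases hv with rfl | rfl
    · exact Or.inl (Or.inr ⟨𝔖', hin, _, pvwk_banksM_sub_fzIn 𝔖' (Or.inl ⟨n - i, hj, rfl⟩), rfl⟩)
    · exact Or.inl (Or.inr ⟨𝔖', hin, _, pvwk_banksM_sub_fzIn 𝔖' (Or.inr ⟨n - i, hj, rfl⟩), rfl⟩)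
  · have := run.2.2.2 i (by omega) (by omega)
    rcases hv with rfl | rfl
    · exact Or.inr this.1
    · exact Or.inr this.2

end del

/-! ## 5. `PvbqPlain` of 141 at `y₀ := (mouth \ F) \ N(D)`, names of `Tr/InstL` -/

section glue

variable {C Wn Y : Set ℂ} {τ' : ℂ → Bool} {ω₂ ξ : Conf PvPt}

/-- the sites of the completion in the window -/
theorem pvpd_sites (C Wn Y : Set ℂ) (τ' : ℂ → Bool) (ω₂ ξ : Conf PvPt) : cfSites (pvbqZ C Wn Y τ' ω₂ ξ) ∩ Wn = (Y \ C ∪ cfSites ω₂ ∩ C) ∩ Wn := by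
  ext a
  constructor
  · rintro ⟨⟨x, hx, rfl⟩, hw⟩
    rcases pvbq_mem_Z.1 hx with ⟨-, hB⟩ | ⟨h, -⟩
    · rcases pvbq_mem_B.1 hB with ⟨h1, h2, -⟩ | ⟨h1, h2⟩
      · exact ⟨Or.inl ⟨h2, h1⟩, hw⟩
      · exact ⟨Or.inr ⟨⟨x, h2, rfl⟩, h1⟩, hw⟩
    · exact absurd hw h
  · rintro ⟨⟨h1, h2⟩ | ⟨⟨x, hx, rfl⟩, h2⟩, hw⟩
    · exact ⟨⟨(a, τ' a), pvbq_mem_Z.2 (Or.inl ⟨hw, pvbq_mem_B.2 (Or.inl ⟨h2, h1, rfl⟩)⟩), rfl⟩, hw⟩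
    · exact ⟨⟨x, pvbq_mem_Z.2 (Or.inl ⟨hw, pvbq_mem_B.2 (Or.inr ⟨h2, hx⟩)⟩), rfl⟩, hw⟩

/-- **LOCALITY IS FREE** (27): the base and the completion have the same triangles at the points far from `C` and deep in the window (collar mesh of `PvxnPA`, mesh clause of the plain event; the middle site set needs nothing) -/
theorem pvpd_same {r μ : ℝ} (hr : 0 < r) (hμ : 0 < μ) (hd : VorDense Y (pvgeCollar C r) r) (hm : PvtrMesh μ Wn (cfSites (pvbqZ C Wn Y τ' ω₂ ξ))) :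
    PvgeSame Y (cfSites (pvbqZ C Wn Y τ' ω₂ ξ)) (pvgeFar C r ∩ pvtrCore (3 * μ) Wn) := by
  have h1 : PvgeSame Y (Y \ C ∪ cfSites ω₂ ∩ C) (pvgeFar C r) := by
    refine pvge_same_far hr ?_ hd
    ext a
    constructor
    · rintro ⟨h1, h2⟩
      exact ⟨Or.inl ⟨h1, h2⟩, h2⟩
    · rintro ⟨h1 | h1, h2⟩
      · exact h1
      · exact absurd h1.2 h2
  have h2 : PvgeSame (cfSites (pvbqZ C Wn Y τ' ω₂ ξ)) (Y \ C ∪ cfSites ω₂ ∩ C) (pvtrCore (3 * μ) Wn) := pvge_same_core hμ (pvpd_sites C Wn Y τ' ω₂ ξ) hm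
  exact fun a ha b c => (h1 a ha.1 b c).trans (h2 a ha.2 b c).symm

/-- the colour of a kept site in the completion -/
theorem pvpd_col {v : ℂ} (h1 : v ∈ Y) (h2 : v ∈ Wn) (h3 : v ∉ C) : cfCol (pvbqZ C Wn Y τ' ω₂ ξ) v = τ' v := by
  have e : ((v, true) : PvPt) ∈ (pvbqZ C Wn Y τ' ω₂ ξ).pts ↔ τ' v = true := by
    rw [pvbq_mem_Z, pvbq_mem_B]
    constructor
    · rintro (⟨-, ⟨-, -, h⟩ | ⟨h, -⟩⟩ | ⟨h, -⟩)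
      · exact h.symm
      · exact absurd h h3
      · exact absurd h2 h
    · exact fun h => Or.inl ⟨h2, Or.inl ⟨h3, h1, h.symm⟩⟩
  unfold cfCol
  by_cases h : τ' v = true
  · rw [h]
    simp only [decide_eq_true_eq]
    exact e.2 h
  · rw [Bool.not_eq_true _ |>.mp h]
    exact (decide_eq_false_iff_not).2 fun h' => h (e.1 h')

end glue

section links

variable {τ : Type} {c : ℝ} {𝔓 : PvxPar τ c} {𝔈 : PvieEng τ} {C Wn Y Fz Nn : Set ℂ} {p : Conf PvPt → Prop} {σ : ℂ → Bool} {m : ℕ} {ε : ℝ} {z : ℂ} {t : τ} {Z : Set (ℤ × ℤ)}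

/-- **`PvbqPlain` OF THE FIRST LINK AT `(mouth \ F) \ Nn`** from (FZ) (197: `pvbw_pl_fz_o`) and (POCKET-DET) `hR` -/
theorem pvpd_pl_o (W : ∀ Y : Set ℂ, (delbPl Y).Dart → ℂ) {Do : Set ℂ} (hD : pvbwDk (pvilPlug (pvilRd 𝔓 m) (pvieZo 𝔓 m z t) ((𝔓.Γ m).dout t)) ⊆ Do)
    (hY : pvieSh z (𝔈.oY m t) ⊆ pvieSh z (𝔈.oM m t) ∪ pvieSh z (𝔈.oK m t) ∪ Do) (hC : pvieSh z (𝔈.oK m t) ∪ Do ⊆ C)
    (hF : ∀ τ' : ℂ → Bool, (∀ v ∈ Y, v ∈ Fz → τ' v = σ v) → ∀ ω₂ ξ : Conf PvPt, p (pvbqZ C Wn Y τ' ω₂ ξ) → pvbqZ C Wn Y τ' ω₂ ξ ∈ pvilMo 𝔓 𝔈 m ε z t Z → pvilFo 𝔓 m z t (pvbqZ C Wn Y τ' ω₂ ξ) = Fz)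
    (hR : ∀ τ' : ℂ → Bool, (∀ v ∈ Y, v ∈ Fz → τ' v = σ v) → ∀ ω₂ ξ : Conf PvPt, p (pvbqZ C Wn Y τ' ω₂ ξ) → pvbqZ C Wn Y τ' ω₂ ξ ∈ pvilMo 𝔓 𝔈 m ε z t Z →
      ∀ v ∈ pvbwRn (pvilLo 𝔓 𝔈 m z t) 𝔓.num (𝔓.col t) (pvbqZ C Wn Y τ' ω₂ ξ), v ∈ pvilFo 𝔓 m z t (pvbqZ C Wn Y τ' ω₂ ξ) ∨ v ∉ Nn) :
    PvbqPlain C Wn p (pvilMo 𝔓 𝔈 m ε z t Z) ((pvilLo 𝔓 𝔈 m z t).X 𝔓.num (𝔓.col t) fun η => W (cfSites η)) Y Fz ((pvieSh z (𝔈.oM m t) \ Fz) \ Nn) σ := by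
  refine pvbw_pl_of (pvbwSoF 𝔓 𝔈 m z t) (fun ζ ζ' hS hc hζ => ⟨(pvbw_Mo_f W hS hc hζ).1, (pvbw_Mo_f W hS hc hζ).2.1⟩) ?_
  rintro τ' a ω₂ ξ c hM v ((hv | hv) | hv) h1 h2 h3
  · exact Or.inl (hF τ' a ω₂ ξ c hM ▸ hv)
  · exact absurd (hC (Or.inr (hD hv))) h3
  · rcases hR τ' a ω₂ ξ c hM v hv with h | hN
    · exact Or.inl (hF τ' a ω₂ ξ c hM ▸ h)
    by_cases hz : v ∈ Fz
    · exact Or.inl hz
    refine Or.inr ⟨⟨?_, hz⟩, hN⟩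
    rw [pvbw_Rn] at hv
    rcases pvpd_rn_sub_out rfl rfl hv with (h | h) | h
    · rw [← pvbw_FzO] at h
      exact absurd (hF τ' a ω₂ ξ c hM ▸ h) hz
    · exact absurd (hC (Or.inr (hD (Or.inl h)))) h3
    · rcases hY h with (h | h) | h
      · exact h
      · exact absurd (hC (Or.inl h)) h3
      · exact absurd (hC (Or.inr h)) h3

/-- **`PvbqPlain` OF THE LAST LINK AT `(mouth \ F) \ Nn`** -/
theorem pvpd_pl_i (W : ∀ Y : Set ℂ, (delbPl Y).Dart → ℂ) {Do : Set ℂ} (hD : pvbwDk (pvilPlug (pvilRd 𝔓 m) (pvieZi 𝔓 m z t) ((𝔓.Γ m).din t)) ⊆ Do)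
    (hY : pvieSh z (𝔈.iY m t) ⊆ pvieSh z (𝔈.iM m t) ∪ pvieSh z (𝔈.iK m t) ∪ Do) (hC : pvieSh z (𝔈.iK m t) ∪ Do ⊆ C)
    (hF : ∀ τ' : ℂ → Bool, (∀ v ∈ Y, v ∈ Fz → τ' v = σ v) → ∀ ω₂ ξ : Conf PvPt, p (pvbqZ C Wn Y τ' ω₂ ξ) → pvbqZ C Wn Y τ' ω₂ ξ ∈ pvilMi 𝔓 𝔈 m ε z t Z → pvilFi 𝔓 m z t (pvbqZ C Wn Y τ' ω₂ ξ) = Fz)
    (hR : ∀ τ' : ℂ → Bool, (∀ v ∈ Y, v ∈ Fz → τ' v = σ v) → ∀ ω₂ ξ : Conf PvPt, p (pvbqZ C Wn Y τ' ω₂ ξ) → pvbqZ C Wn Y τ' ω₂ ξ ∈ pvilMi 𝔓 𝔈 m ε z t Z →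
      ∀ v ∈ pvbwRn (pvilLi 𝔓 𝔈 m z t) 𝔓.num (𝔓.col t) (pvbqZ C Wn Y τ' ω₂ ξ), v ∈ pvilFi 𝔓 m z t (pvbqZ C Wn Y τ' ω₂ ξ) ∨ v ∉ Nn) :
    PvbqPlain C Wn p (pvilMi 𝔓 𝔈 m ε z t Z) ((pvilLi 𝔓 𝔈 m z t).X 𝔓.num (𝔓.col t) fun η => W (cfSites η)) Y Fz ((pvieSh z (𝔈.iM m t) \ Fz) \ Nn) σ := by
  refine pvbw_pl_of (pvbwSiF 𝔓 𝔈 m z t) (fun ζ ζ' hS hc hζ => ⟨(pvbw_Mi_f W hS hc hζ).1, (pvbw_Mi_f W hS hc hζ).2.1⟩) ?_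
  rintro τ' a ω₂ ξ c hM v ((hv | hv) | hv) h1 h2 h3
  · exact absurd (hC (Or.inr (hD hv))) h3
  · exact Or.inl (hF τ' a ω₂ ξ c hM ▸ hv)
  · rcases hR τ' a ω₂ ξ c hM v hv with h | hN
    · exact Or.inl (hF τ' a ω₂ ξ c hM ▸ h)
    by_cases hz : v ∈ Fz
    · exact Or.inl hz
    refine Or.inr ⟨⟨?_, hz⟩, hN⟩
    rw [pvbw_Rn] at hv
    rcases pvpd_rn_sub_in rfl rfl hv with (h | h) | h
    · exact absurd (hC (Or.inr (hD (Or.inl h)))) h3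
    · rw [← pvbw_FzI] at h
      exact absurd (hF τ' a ω₂ ξ c hM ▸ h) hz
    · rcases hY h with (h | h) | h
      · exact h
      · exact absurd (hC (Or.inl h)) h3
      · exact absurd (hC (Or.inr h)) h3

variable {π' : PvwPat} {𝔇 : PvwDat (pvbwT Y)} {r r₂ rr : ℝ} {x y : ℂ} {τ' : ℂ → Bool}

/-- **(POCKET-DET) AT THE FIRST LINK**: the datum `𝔇` over the base sites `Y`, the completion `ζ = pvbqZ C Wn Y τ' ω₂ ξ` with the mesh of the window -/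
theorem pvpd_R_o (g₀ : DelGood Y) (hok : 𝔇.Ok Subtype.val 𝔓.num (pvlmH m) π') (hwf : π'.Wf) (hzt : π'.zt = z) (htt : π'.tt = 𝔓.ty t)
    (hr : 0 < r) (hcl : VorDense Y (pvgeCollar C r) r) (hf : ∀ v ∈ 𝔇.fz, (v : ℂ) ∈ pvgeFar C r) (hkt : closedBall z ((𝔓.ty t).b * pvlmH m) ⊆ pvgeFar C r) (hμ : 0 < pvilMu 𝔓 m)
    (hroom : pvieSh z (𝔈.oY m t) ⊆ pvtrCore (3 * pvilMu 𝔓 m) Wn) (hdisc : closedBall z ((𝔓.ty t).b * pvlmH m) ⊆ pvtrCore (3 * pvilMu 𝔓 m) Wn)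
    (hFz : Subtype.val '' 𝔇.t.fzOut = Fz) (hFc : Fz ⊆ pvtrCore (3 * pvilMu 𝔓 m) Wn) (hcol : ∀ v ∈ 𝔇.t.fzOut, 𝔇.col v = (σ v == 𝔓.col t))
    (hYin : pvieSh z (𝔈.oY m t) ⊆ π'.Yin) (hmo : ∀ w ∈ pvieSh z (𝔈.oY m t), w ∉ C → ‖w - y‖ ≤ rr) (hs : ∀ v ∈ 𝔇.s.fzIn, (v : ℂ) ∉ pvieSh z (𝔈.oY m t))
    (tight : ∀ a, (pvbwT Y).src a ∈ 𝔇.t.bkP → (pvbwT Y).tgt a ∈ 𝔇.t.whP → ‖(((pvbwT Y).src a : ↥Y) : ℂ) - y‖ ≤ rr → ‖(((pvbwT Y).tgt a : ↥Y) : ℂ) - y‖ ≤ rr → ∃ i, i ≤ 𝔇.t.np ∧ a = 𝔇.t.ep i)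
    (hdoor : ball (pvieZo 𝔓 m z t) (pvkdP (pvilRd 𝔓 m)).b ⊆ C) (a : ∀ v ∈ Y, v ∈ Fz → τ' v = σ v) (ω₂ ξ : Conf PvPt) (hM : PvtrMesh (pvilMu 𝔓 m) Wn (cfSites (pvbqZ C Wn Y τ' ω₂ ξ))) :
    ∀ v ∈ pvbwRn (pvilLo 𝔓 𝔈 m z t) 𝔓.num (𝔓.col t) (pvbqZ C Wn Y τ' ω₂ ξ),
      v ∈ pvilFo 𝔓 m z t (pvbqZ C Wn Y τ' ω₂ ξ) ∨ v ∉ Subtype.val '' 𝔇.NKF Subtype.val π' (pvgeFar C r) x r₂ := by
  have h0 : (0 : ℝ) ≤ 3 * pvilMu 𝔓 m := by positivity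
  rw [pvbw_Rn]
  unfold pvilFo
  rw [pvbw_FzO]
  refine pvpd_rn_out (Kr := pvgeFar C r ∩ pvtrCore (3 * pvilMu 𝔓 m) Wn) (y := y) (rr := rr) g₀ (pvpd_same hr hμ hcl hM) hok hwf hf rfl rfl rfl hzt.symm htt.symm rfl ?_ ?_ ?_ hYin ?_ hs tight ?_
  · intro v hv v' e
    have hvF : (v : ℂ) ∈ Fz := hFz ▸ ⟨v, hv, rfl⟩
    rw [hcol v hv]
    unfold pvbwC
    rw [← e, pvpd_col v.2 (pvfc7_core_sub h0 _ (hFc hvF)) (pvge_far_notMem hr (hf v (Or.inl (Or.inl (Or.inl hv))))), a _ v.2 hvF]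
  · rw [hzt, htt]
    exact fun w hw => ⟨hkt hw, hdisc hw⟩
  · intro i hi
    have hm : (pvbwT Y).src (𝔇.t.ep i) ∈ 𝔇.t.fzOut := pvwk_banksP_sub_fzOut 𝔇.t (Or.inl ⟨i, hi, rfl⟩)
    exact ⟨hf _ (Or.inl (Or.inl (Or.inl hm))), hFc (hFz ▸ ⟨_, hm, rfl⟩)⟩
  · exact fun w hw hK _ => ⟨⟨hK, hroom hw⟩, hmo w hw (pvge_far_notMem hr hK)⟩
  · exact fun w hw hK => pvge_far_notMem hr hK (hdoor hw)

/-- **(POCKET-DET) AT THE LAST LINK** -/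
theorem pvpd_R_i (g₀ : DelGood Y) (hok : 𝔇.Ok Subtype.val 𝔓.num (pvlmH m) π') (hwf : π'.Wf) (hzs : π'.zs = z) (hts : π'.ts = 𝔓.ty t)
    (hr : 0 < r) (hcl : VorDense Y (pvgeCollar C r) r) (hf : ∀ v ∈ 𝔇.fz, (v : ℂ) ∈ pvgeFar C r) (hks : closedBall z ((𝔓.ty t).b * pvlmH m) ⊆ pvgeFar C r) (hμ : 0 < pvilMu 𝔓 m)
    (hroom : pvieSh z (𝔈.iY m t) ⊆ pvtrCore (3 * pvilMu 𝔓 m) Wn) (hdisc : closedBall z ((𝔓.ty t).b * pvlmH m) ⊆ pvtrCore (3 * pvilMu 𝔓 m) Wn)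
    (hFz : Subtype.val '' 𝔇.s.fzIn = Fz) (hFc : Fz ⊆ pvtrCore (3 * pvilMu 𝔓 m) Wn) (hcol : ∀ v ∈ 𝔇.s.fzIn, 𝔇.col v = (σ v == 𝔓.col t))
    (hYin : pvieSh z (𝔈.iY m t) ⊆ π'.Yin) (hmo : ∀ w ∈ pvieSh z (𝔈.iY m t), w ∉ C → ‖w - y‖ ≤ rr) (ht : ∀ v ∈ 𝔇.t.fzOut, (v : ℂ) ∉ pvieSh z (𝔈.iY m t))
    (tight : ∀ a, (pvbwT Y).src a ∈ 𝔇.s.bkM → (pvbwT Y).tgt a ∈ 𝔇.s.whM → ‖(((pvbwT Y).src a : ↥Y) : ℂ) - y‖ ≤ rr → ‖(((pvbwT Y).tgt a : ↥Y) : ℂ) - y‖ ≤ rr → ∃ i, i ≤ 𝔇.s.nm ∧ a = 𝔇.s.em i)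
    (hdoor : ball (pvieZi 𝔓 m z t) (pvkdP (pvilRd 𝔓 m)).b ⊆ C) (a : ∀ v ∈ Y, v ∈ Fz → τ' v = σ v) (ω₂ ξ : Conf PvPt) (hM : PvtrMesh (pvilMu 𝔓 m) Wn (cfSites (pvbqZ C Wn Y τ' ω₂ ξ))) :
    ∀ v ∈ pvbwRn (pvilLi 𝔓 𝔈 m z t) 𝔓.num (𝔓.col t) (pvbqZ C Wn Y τ' ω₂ ξ),
      v ∈ pvilFi 𝔓 m z t (pvbqZ C Wn Y τ' ω₂ ξ) ∨ v ∉ Subtype.val '' 𝔇.NKF Subtype.val π' (pvgeFar C r) x r₂ := by
  have h0 : (0 : ℝ) ≤ 3 * pvilMu 𝔓 m := by positivity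
  rw [pvbw_Rn]
  unfold pvilFi
  rw [pvbw_FzI]
  refine pvpd_rn_in (Kr := pvgeFar C r ∩ pvtrCore (3 * pvilMu 𝔓 m) Wn) (y := y) (rr := rr) g₀ (pvpd_same hr hμ hcl hM) hok hwf hf rfl rfl rfl hzs.symm hts.symm rfl ?_ ?_ ?_ hYin ?_ ht tight ?_
  · intro v hv v' e
    have hvF : (v : ℂ) ∈ Fz := hFz ▸ ⟨v, hv, rfl⟩
    rw [hcol v hv]
    unfold pvbwC
    rw [← e, pvpd_col v.2 (pvfc7_core_sub h0 _ (hFc hvF)) (pvge_far_notMem hr (hf v (Or.inl (Or.inl (Or.inr hv))))), a _ v.2 hvF]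
  · rw [hzs, hts]
    exact fun w hw => ⟨hks hw, hdisc hw⟩
  · intro i hi
    have hm : (pvbwT Y).src (𝔇.s.em i) ∈ 𝔇.s.fzIn := pvwk_banksM_sub_fzIn 𝔇.s (Or.inl ⟨i, hi, rfl⟩)
    exact ⟨hf _ (Or.inl (Or.inl (Or.inr hm))), hFc (hFz ▸ ⟨_, hm, rfl⟩)⟩
  · exact fun w hw hK _ => ⟨⟨hK, hroom hw⟩, hmo w hw (pvge_far_notMem hr hK)⟩
  · exact fun w hw hK => pvge_far_notMem hr hK (hdoor hw)

end links

/-! ## 6. the instances at the base data of `cfOf Y σ`, regions of `PvieEng.Wf` -/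

section top

variable {τ : Type} {c : ℝ} {𝔓 : PvxPar τ c} {𝔈 : PvieEng τ} {C Y : Set ℂ} {p : Conf PvPt → Prop} {σ : ℂ → Bool} {m m0 : ℕ} {ε Cth μ : ℝ} {r₀ κs : ℕ → ℝ} {z : ℂ} {t : τ}
  {π' : PvwPat} {𝔇 : PvwDat (pvbwT Y)} {r r₂ : ℝ} {x : ℂ}

theorem pvpd_mu_pos (𝔓 : PvxPar τ c) {m : ℕ} (hρ3 : 0 < 𝔓.num.rho3 * pvlmH m) : 0 < pvilMu 𝔓 m := div_pos (lt_min (pvlm_Del_pos c m) hρ3) (by norm_num)

theorem pvpd_mu_le (𝔓 : PvxPar τ c) (m : ℕ) : 3 * pvilMu 𝔓 m ≤ pvlmDel c m := by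
  have h1 := min_le_left (pvlmDel c m) (𝔓.num.rho3 * pvlmH m)
  have h2 := pvlm_Del_pos c m
  unfold pvilMu
  linarith

/-- a point of a shifted mouth -/
theorem pvpd_mouth {M : Set ℂ} {u : ℂ} {ϱ : ℝ} (hM : M ⊆ closedBall u ϱ) {w : ℂ} (hw : w ∈ pvieSh z M) : ‖w - (z + u)‖ ≤ ϱ := by
  obtain ⟨v, hv, rfl⟩ := hw
  have h1 := hM hv
  rw [mem_closedBall_iff_norm] at h1
  have e : z + v - (z + u) = v - u := by ring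
  rw [e]
  exact h1

/-- **(POCKET-DET) = `PvbqPlain` OF THE FIRST LINK AT THE BASE DATA OF `cfOf Y σ`, FRESH SET `(mouth \ F) \ N(D)`**.
First block of hypotheses = `pvbw_pl_o_top` of 197 verbatim;   second block = the datum (`PvxnWit`: `ok far`; `PvxnPA`: collar mesh; `PvknGeo.kt`);   `hroom hdisc` = `PvlyReg` of the link;   `hFz` = `pvza_n1_Fo` of 38;   `tight` = `Pvn1tDat.1` of 27;   `hxs` = cross clause (`pvpd_cross_s`) -/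
theorem pvpd_pl_o_top (hE : PvieEng.Wf 𝔓 𝔈 m0 Cth r₀ κs) (hm0 : m0 ≤ m) (ht : pviwTyOk 𝔓 t) (hd : ‖(𝔓.Γ m).dout t‖ = 1) (W : ∀ Y : Set ℂ, (delbPl Y).Dart → ℂ)
    (hμ : 0 < μ) (h3 : 3 * μ ≤ pvlmDel c m) (hb : (𝔓.ty t).b * pvlmH m ≤ pviwRad 𝔓 m t) (hr' : μ < (𝔓.ty t).b * pvlmH m)
    (hm : cfOf Y σ ∈ pvrgMesh μ (pvieSh z (pviwBox 𝔓 m t))) (h₀ : cfOf Y σ ∈ pvilUo 𝔓.num (𝔓.col t) (pvilPin 𝔓 m z t)) (hp : ∀ ζ, p ζ → DelGood (cfSites ζ))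
    (hC : pvieSh z (𝔈.oK m t) ∪ pvieDoor 𝔈 m ε (pvieZo 𝔓 m z t) ((𝔓.Γ m).dout t) ⊆ C) (hCW : Disjoint C (pvilWz 𝔓 m z t (pvilZo 𝔓 m z t (cfOf Y σ))))
    (g₀ : DelGood Y) (hok : 𝔇.Ok Subtype.val 𝔓.num (pvlmH m) π') (hwf : π'.Wf) (hzt : π'.zt = z) (htt : π'.tt = 𝔓.ty t)
    (hr : 0 < r) (hcl : VorDense Y (pvgeCollar C r) r) (hf : ∀ v ∈ 𝔇.fz, (v : ℂ) ∈ pvgeFar C r) (hkt : closedBall z ((𝔓.ty t).b * pvlmH m) ⊆ pvgeFar C r) (hρ3 : 0 < 𝔓.num.rho3 * pvlmH m)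
    (hroom : pvieSh z (𝔈.oY m t) ⊆ pvtrCore (3 * pvilMu 𝔓 m) (pvilWno 𝔓 𝔈 m ε z t (pvilZo 𝔓 m z t (cfOf Y σ))))
    (hdisc : closedBall z ((𝔓.ty t).b * pvlmH m) ⊆ pvtrCore (3 * pvilMu 𝔓 m) (pvilWno 𝔓 𝔈 m ε z t (pvilZo 𝔓 m z t (cfOf Y σ))))
    (hFz : Subtype.val '' 𝔇.t.fzOut = pvilFo 𝔓 m z t (cfOf Y σ)) (hcol : ∀ v ∈ 𝔇.t.fzOut, 𝔇.col v = (σ v == 𝔓.col t)) (hYin : pvieSh z (𝔈.oY m t) ⊆ π'.Yin)
    (hxs : ∀ v ∈ 𝔇.s.fzIn, 𝔓.num.rho * pvlmH m / 2 < ‖(v : ℂ) - π'.tt.cp (pvlmH m) π'.zt‖) (hρ : 𝔓.num.rho * pvlmH m ≤ 𝔓.num.rho1 * pvlmH m)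
    (tight : ∀ a, (pvbwT Y).src a ∈ 𝔇.t.bkP → (pvbwT Y).tgt a ∈ 𝔇.t.whP → ‖(((pvbwT Y).src a : ↥Y) : ℂ) - π'.tt.cp (pvlmH m) π'.zt‖ ≤ 𝔓.num.rho1 * pvlmH m / 2 →
      ‖(((pvbwT Y).tgt a : ↥Y) : ℂ) - π'.tt.cp (pvlmH m) π'.zt‖ ≤ 𝔓.num.rho1 * pvlmH m / 2 → ∃ i, i ≤ 𝔇.t.np ∧ a = 𝔇.t.ep i) :
    PvbqPlain C (pvilWno 𝔓 𝔈 m ε z t (pvilZo 𝔓 m z t (cfOf Y σ))) p (pvilMo 𝔓 𝔈 m ε z t (pvilZo 𝔓 m z t (cfOf Y σ))) ((pvilLo 𝔓 𝔈 m z t).X 𝔓.num (𝔓.col t) fun η => W (cfSites η)) Y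
      (pvilFo 𝔓 m z t (cfOf Y σ)) ((pvieSh z (𝔈.oM m t) \ pvilFo 𝔓 m z t (cfOf Y σ)) \ Subtype.val '' 𝔇.NKF Subtype.val π' (pvgeFar C r) x r₂) σ := by
  have hY : pvieSh z (𝔈.oY m t) ⊆ pvieSh z (𝔈.oM m t) ∪ pvieSh z (𝔈.oK m t) ∪ pvieDoor 𝔈 m ε (pvieZo 𝔓 m z t) ((𝔓.Γ m).dout t) := by
    have := pvbw_pl_sh_mono z (hE.oY_sub m hm0 ε t ht)
    rw [pvbw_pl_sh_union, pvbw_pl_sh_union] at this
    unfold pviwDo pvieDoor at this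
    rw [pvbw_pl_sh_sim] at this
    exact this
  have hDk := pvbw_pl_door hE hm0 ε (pvieZo 𝔓 m z t) hd
  have hmo0 : ∀ w ∈ pvieSh z (𝔈.oY m t), w ∉ C → ‖w - π'.tt.cp (pvlmH m) π'.zt‖ ≤ 𝔓.num.rho * pvlmH m / 2 := by
    intro w hw hn
    rw [hzt, htt]
    rcases hY hw with (h | h) | h
    · exact pvpd_mouth (hE.oM_half m hm0 t ht) h
    · exact absurd (hC (Or.inl h)) hn
    · exact absurd (hC (Or.inr h)) hn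
  have hFc : pvilFo 𝔓 m z t (cfOf Y σ) ⊆ pvtrCore (3 * pvilMu 𝔓 m) (pvilWno 𝔓 𝔈 m ε z t (pvilZo 𝔓 m z t (cfOf Y σ))) := by
    obtain ⟨𝔖₀, h₀'⟩ := h₀
    have h1 := pvfc7_fo_core hb h₀'
    rw [pvbw_pl_Wo] at h1
    exact fun v hv => (closedBall_subset_closedBall (pvpd_mu_le 𝔓 m)).trans ((h1 hv).trans fun _ h => Or.inl (Or.inl (Or.inl h)))
  refine pvpd_pl_o W hDk hY hC (fun τ' a ω₂ ξ c _ => (pvbw_pl_fz_o hμ h3 hb hr' hm h₀ ?_ ?_ a ω₂ ξ (hp _ c)).1) fun τ' a ω₂ ξ _ hM =>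
    pvpd_R_o g₀ hok hwf hzt htt hr hcl hf hkt (pvpd_mu_pos 𝔓 hρ3) hroom hdisc hFz hFc hcol hYin (fun w hw hn => (hmo0 w hw hn).trans (by linarith))
      (fun v hv hw => absurd (hmo0 _ hw (pvge_far_notMem hr (hf v (Or.inl (Or.inl (Or.inr hv)))))) (not_le.2 (hxs v hv))) tight (fun w hw => hC (Or.inr (hDk (Or.inl hw)))) a ω₂ ξ hM.2
  · rw [pvbw_pl_Wo]
    exact fun v hv => Or.inl (Or.inl (Or.inl hv))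
  · rw [pvbw_pl_Wo]
    exact hCW

/-- **(POCKET-DET) = `PvbqPlain` OF THE LAST LINK AT THE BASE DATA OF `cfOf Y σ`, FRESH SET `(mouth \ F) \ N(D)`** -/
theorem pvpd_pl_i_top (hE : PvieEng.Wf 𝔓 𝔈 m0 Cth r₀ κs) (hm0 : m0 ≤ m) (ht : pviwTyOk 𝔓 t) (hd : ‖(𝔓.Γ m).din t‖ = 1) (W : ∀ Y : Set ℂ, (delbPl Y).Dart → ℂ)
    (hμ : 0 < μ) (h3 : 3 * μ ≤ pvlmDel c m) (hb : (𝔓.ty t).b * pvlmH m ≤ pviwRad 𝔓 m t) (hr' : μ < (𝔓.ty t).b * pvlmH m)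
    (hm : cfOf Y σ ∈ pvrgMesh μ (pvieSh z (pviwBox 𝔓 m t))) (h₀ : cfOf Y σ ∈ pvilUi 𝔓.num (𝔓.col t) (pvilPin 𝔓 m z t)) (hp : ∀ ζ, p ζ → DelGood (cfSites ζ))
    (hC : pvieSh z (𝔈.iK m t) ∪ pvieDoor 𝔈 m ε (pvieZi 𝔓 m z t) ((𝔓.Γ m).din t) ⊆ C) (hCW : Disjoint C (pvilWz 𝔓 m z t (pvilZi 𝔓 m z t (cfOf Y σ))))
    (g₀ : DelGood Y) (hok : 𝔇.Ok Subtype.val 𝔓.num (pvlmH m) π') (hwf : π'.Wf) (hzs : π'.zs = z) (hts : π'.ts = 𝔓.ty t)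
    (hr : 0 < r) (hcl : VorDense Y (pvgeCollar C r) r) (hf : ∀ v ∈ 𝔇.fz, (v : ℂ) ∈ pvgeFar C r) (hks : closedBall z ((𝔓.ty t).b * pvlmH m) ⊆ pvgeFar C r) (hρ3 : 0 < 𝔓.num.rho3 * pvlmH m)
    (hroom : pvieSh z (𝔈.iY m t) ⊆ pvtrCore (3 * pvilMu 𝔓 m) (pvilWni 𝔓 𝔈 m ε z t (pvilZi 𝔓 m z t (cfOf Y σ))))
    (hdisc : closedBall z ((𝔓.ty t).b * pvlmH m) ⊆ pvtrCore (3 * pvilMu 𝔓 m) (pvilWni 𝔓 𝔈 m ε z t (pvilZi 𝔓 m z t (cfOf Y σ))))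
    (hFz : Subtype.val '' 𝔇.s.fzIn = pvilFi 𝔓 m z t (cfOf Y σ)) (hcol : ∀ v ∈ 𝔇.s.fzIn, 𝔇.col v = (σ v == 𝔓.col t)) (hYin : pvieSh z (𝔈.iY m t) ⊆ π'.Yin)
    (hxt : ∀ v ∈ 𝔇.t.fzOut, 𝔓.num.rho * pvlmH m / 2 < ‖(v : ℂ) - π'.ts.cm (pvlmH m) π'.zs‖) (hρ : 𝔓.num.rho * pvlmH m ≤ 𝔓.num.rho1 * pvlmH m)
    (tight : ∀ a, (pvbwT Y).src a ∈ 𝔇.s.bkM → (pvbwT Y).tgt a ∈ 𝔇.s.whM → ‖(((pvbwT Y).src a : ↥Y) : ℂ) - π'.ts.cm (pvlmH m) π'.zs‖ ≤ 𝔓.num.rho1 * pvlmH m / 2 →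
      ‖(((pvbwT Y).tgt a : ↥Y) : ℂ) - π'.ts.cm (pvlmH m) π'.zs‖ ≤ 𝔓.num.rho1 * pvlmH m / 2 → ∃ i, i ≤ 𝔇.s.nm ∧ a = 𝔇.s.em i) :
    PvbqPlain C (pvilWni 𝔓 𝔈 m ε z t (pvilZi 𝔓 m z t (cfOf Y σ))) p (pvilMi 𝔓 𝔈 m ε z t (pvilZi 𝔓 m z t (cfOf Y σ))) ((pvilLi 𝔓 𝔈 m z t).X 𝔓.num (𝔓.col t) fun η => W (cfSites η)) Y
      (pvilFi 𝔓 m z t (cfOf Y σ)) ((pvieSh z (𝔈.iM m t) \ pvilFi 𝔓 m z t (cfOf Y σ)) \ Subtype.val '' 𝔇.NKF Subtype.val π' (pvgeFar C r) x r₂) σ := by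
  have hY : pvieSh z (𝔈.iY m t) ⊆ pvieSh z (𝔈.iM m t) ∪ pvieSh z (𝔈.iK m t) ∪ pvieDoor 𝔈 m ε (pvieZi 𝔓 m z t) ((𝔓.Γ m).din t) := by
    have := pvbw_pl_sh_mono z (hE.iY_sub m hm0 ε t ht)
    rw [pvbw_pl_sh_union, pvbw_pl_sh_union] at this
    unfold pviwDi pvieDoor at this
    rw [pvbw_pl_sh_sim] at this
    exact this
  have hDk := pvbw_pl_door hE hm0 ε (pvieZi 𝔓 m z t) hd
  have hmo0 : ∀ w ∈ pvieSh z (𝔈.iY m t), w ∉ C → ‖w - π'.ts.cm (pvlmH m) π'.zs‖ ≤ 𝔓.num.rho * pvlmH m / 2 := by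
    intro w hw hn
    rw [hzs, hts]
    rcases hY hw with (h | h) | h
    · exact pvpd_mouth (hE.iM_half m hm0 t ht) h
    · exact absurd (hC (Or.inl h)) hn
    · exact absurd (hC (Or.inr h)) hn
  have hFc : pvilFi 𝔓 m z t (cfOf Y σ) ⊆ pvtrCore (3 * pvilMu 𝔓 m) (pvilWni 𝔓 𝔈 m ε z t (pvilZi 𝔓 m z t (cfOf Y σ))) := by
    obtain ⟨𝔖₀, h₀'⟩ := h₀
    have h1 := pvfc7_fi_core hb h₀'
    rw [pvbw_pl_Wi] at h1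
    exact fun v hv => (closedBall_subset_closedBall (pvpd_mu_le 𝔓 m)).trans ((h1 hv).trans fun _ h => Or.inl (Or.inl (Or.inl h)))
  refine pvpd_pl_i W hDk hY hC (fun τ' a ω₂ ξ c _ => (pvbw_pl_fz_i hμ h3 hb hr' hm h₀ ?_ ?_ a ω₂ ξ (hp _ c)).1) fun τ' a ω₂ ξ _ hM =>
    pvpd_R_i g₀ hok hwf hzs hts hr hcl hf hks (pvpd_mu_pos 𝔓 hρ3) hroom hdisc hFz hFc hcol hYin (fun w hw hn => (hmo0 w hw hn).trans (by linarith))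
      (fun v hv hw => absurd (hmo0 _ hw (pvge_far_notMem hr (hf v (Or.inl (Or.inl (Or.inl hv)))))) (not_le.2 (hxt v hv))) tight (fun w hw => hC (Or.inr (hDk (Or.inl hw)))) a ω₂ ξ hM.2
  · rw [pvbw_pl_Wi]
    exact fun v hv => Or.inl (Or.inl (Or.inl hv))
  · rw [pvbw_pl_Wi]
    exact hCW

end top

/-! ## 7. the cross clauses: the frozen sites of one half state miss the mouth of the other (two pins which are apart; argument of 90, `pvhg_geo_far`) -/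

section cross

variable {V D : Type} {T : PvMap V D} {𝔇 : PvwDat T} {pos : V → ℂ} {N : PvwNum} {h ϱ : ℝ} {π : PvwPat}

theorem pvpd_sq_le {w z : ℂ} {r : ℝ} (h : w ∈ pvwSq z r) : ‖w - z‖ ≤ 3 / 2 * r := by
  have hr : 0 ≤ r := (abs_nonneg _).trans h.1
  have h1 : ‖w - z‖ ^ 2 = (w - z).re ^ 2 + (w - z).im ^ 2 := by
    rw [Complex.sq_norm, Complex.normSq_apply]; ring
  have h2 : (w - z).re ^ 2 ≤ r ^ 2 := sq_le_sq' (by linarith [(abs_le.1 h.1).1]) (abs_le.1 h.1).2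
  have h3 : (w - z).im ^ 2 ≤ r ^ 2 := sq_le_sq' (by linarith [(abs_le.1 h.2).1]) (abs_le.1 h.2).2
  refine abs_le_of_sq_le_sq' ?_ (by positivity) |>.2
  nlinarith

theorem pvpd_tri3 (a b c : ℂ) : ‖a - c‖ ≤ ‖a - b‖ + ‖b - c‖ := by
  calc ‖a - c‖ = ‖(a - b) + (b - c)‖ := by congr 1; ring
    _ ≤ _ := norm_add_le _ _

theorem pvpd_fzOut_le {𝔖 : PvwSt T} {z : ℂ} {t : PvwTy} {s : V → Bool} (ha : 𝔖.AtOut pos N h z t s) (hb : t.b * h ≤ 3 / 2 * pvwRad N h t t.k) {v : V} (hv : v ∈ 𝔖.fzOut) :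
    ‖pos v - z‖ ≤ 3 / 2 * pvwRad N h t t.k := by
  rcases hv with (hv | ⟨i, hi, rfl⟩) | ⟨i, hi, rfl⟩
  · have h1 : v ∈ 𝔖.dsc := hv
    rw [ha.gate.dsc_eq] at h1
    have h2 : ‖pos v - z‖ < t.b * h := h1
    linarith
  · exact pvpd_sq_le (ha.stub.ep_in i hi).1
  · exact pvpd_sq_le (ha.stub.ep_in i hi).2

theorem pvpd_fzIn_le {𝔖 : PvwSt T} {z : ℂ} {t : PvwTy} {s : V → Bool} (ha : 𝔖.AtIn pos N h z t s) (hb : t.b * h ≤ 3 / 2 * pvwRad N h t t.k) {v : V} (hv : v ∈ 𝔖.fzIn) :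
    ‖pos v - z‖ ≤ 3 / 2 * pvwRad N h t t.k := by
  rcases hv with (hv | ⟨i, hi, rfl⟩) | ⟨i, hi, rfl⟩
  · have h1 : v ∈ 𝔖.dsc := hv
    rw [ha.gate.dsc_eq] at h1
    have h2 : ‖pos v - z‖ < t.b * h := h1
    linarith
  · exact pvpd_sq_le (ha.stub.em_in i hi).1
  · exact pvpd_sq_le (ha.stub.em_in i hi).2

/-- **the frozen sites of `Σ_in(s)` miss the disc `ϱ` round `y⁺(t)`** -/
theorem pvpd_cross_s (hok : 𝔇.Ok pos N h π) (hbt : π.tt.b * h ≤ 3 / 2 * pvwRad N h π.tt π.tt.k) (hbs : π.ts.b * h ≤ 3 / 2 * pvwRad N h π.ts π.ts.k)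
    (apart : 3 / 2 * pvwRad N h π.tt π.tt.k + 3 / 2 * pvwRad N h π.ts π.ts.k + N.rho * h / 4 + ϱ < ‖π.zt - π.zs‖) : ∀ v ∈ 𝔇.s.fzIn, ϱ < ‖pos v - π.tt.cp h π.zt‖ := by
  intro v hv
  have f1 := pvpd_fzIn_le hok.st_s hbs hv
  have f2 := pvpd_fzOut_le hok.st_t hbt (pvwk_banksP_sub_fzOut 𝔇.t (Or.inl ⟨𝔇.t.np, le_rfl, rfl⟩))
  have f3 := hok.st_t.good.tip_p.1
  have t1 := pvpd_tri3 π.zt (pos (T.src (𝔇.t.ep 𝔇.t.np))) π.zs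
  have t2 := pvpd_tri3 (pos (T.src (𝔇.t.ep 𝔇.t.np))) (π.tt.cp h π.zt) π.zs
  have t3 := pvpd_tri3 (π.tt.cp h π.zt) (pos v) π.zs
  have t4 := norm_sub_rev π.zt (pos (T.src (𝔇.t.ep 𝔇.t.np)))
  have t5 := norm_sub_rev (π.tt.cp h π.zt) (pos v)
  linarith

/-- **the frozen sites of `Σ_out(t)` miss the disc `ϱ` round `y⁻(s)`** -/
theorem pvpd_cross_t (hok : 𝔇.Ok pos N h π) (hbt : π.tt.b * h ≤ 3 / 2 * pvwRad N h π.tt π.tt.k) (hbs : π.ts.b * h ≤ 3 / 2 * pvwRad N h π.ts π.ts.k)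
    (apart : 3 / 2 * pvwRad N h π.tt π.tt.k + 3 / 2 * pvwRad N h π.ts π.ts.k + N.rho * h / 4 + ϱ < ‖π.zt - π.zs‖) : ∀ v ∈ 𝔇.t.fzOut, ϱ < ‖pos v - π.ts.cm h π.zs‖ := by
  intro v hv
  have f1 := pvpd_fzOut_le hok.st_t hbt hv
  have f2 := pvpd_fzIn_le hok.st_s hbs (pvwk_banksM_sub_fzIn 𝔇.s (Or.inl ⟨𝔇.s.nm, le_rfl, rfl⟩))
  have f3 := hok.st_s.good.tip_m.1
  have t1 := pvpd_tri3 π.zt (pos v) π.zs
  have t2 := pvpd_tri3 (pos v) (π.ts.cm h π.zs) π.zs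
  have t3 := pvpd_tri3 (π.ts.cm h π.zs) (pos (T.src (𝔇.s.em 𝔇.s.nm))) π.zs
  have t4 := norm_sub_rev π.zt (pos v)
  have t5 := norm_sub_rev (π.ts.cm h π.zs) (pos (T.src (𝔇.s.em 𝔇.s.nm)))
  linarith

end cross

end Claimed.Agent.R289
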