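import Claimed.Agent.R289.Tr.LinkCat
import Claimed.Agent.R289.Tr.KitI

/-!
# Row 289 (S0537, Cardy for Poisson-Voronoi), THE WALL, file Tr/LinkRoad : OPEN ROADS = RUNS AND DOORS IN ALTERNATION      (owner helper70; node CHAIN; prefix `pvlc_`, defs `Pvlc…`, `pvlc…`; continues `Tr/LinkCat`)

* sec.6  `pvlcAlt`, `pvlc_sum_parity`;  `PvlcRoad T s m st en N L y w` = `m + 2` runs `st r → en r` and `m + 1` doors `en j → st (j + 1)`, each an ARC (`PvlcArc`), the rim arcs of two runs (two doors) are disjoint, a run and a door meet at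
         the two ends of the door only;   `PvlcRoad.chain`, **`pvlc_road`** (ONE arc `st 0 → en (m + 1)`, first hit, time = sum of the times, vertices = union, EVERY sum over its darts = sum over the pieces),
         **`PvlcRoad.pos`** (the positions of the road between the first `np` and the last `nm` ones = positions of the pieces)
* sec.7  GATES (`Tr/GateB`): `pvlc_out`, `pvlc_out_of_disj`, `pvlc_gate_arc` (the inner arc of a through gate is an arc), `pvlc_gate_verts`, **`pvlc_road_gates`**: doors = gates;  hypotheses = those of `PvkiGR` of 244 for an OPEN chain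
* sec.8  VALUES: `pvlc_mass_congr`, `pvlc_mass_split`, `pvlc_mass_psum`, **`pvlc_mass_road`**: the mass of the road off the cut-off balls = first link + cells + last link, each link counting the tags in ITS mask (convention `Mk dr dr'` of 125, RULING 16 (6))
* sec.9  CLOSING: **`pvlc_close`**: two arcs `a → b → a` which meet at their ends only close ONE label, `lsum = psum + psum`
-/

set_option autoImplicit false

namespace Claimed.Agent.R289

open Relation

variable {V D : Type} {T : PvMap V D} {s : V → Bool}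

/-! ## 6. roads -/

/-- alternation of two sequences -/
def pvlcAlt {α : Type} (f g : ℕ → α) (p : ℕ) : α := if p % 2 = 0 then f (p / 2) else g (p / 2)

theorem pvlc_road_eqns_cite : True := by
  have := @pvlcAlt.eq_1
  trivial

theorem pvlc_alt_even {α : Type} (f g : ℕ → α) (r : ℕ) : pvlcAlt f g (2 * r) = f r := by
  unfold pvlcAlt
  rw [if_pos (by omega), show 2 * r / 2 = r by omega]

theorem pvlc_alt_odd {α : Type} (f g : ℕ → α) (j : ℕ) : pvlcAlt f g (2 * j + 1) = g j := by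
  unfold pvlcAlt
  rw [if_neg (by omega), show (2 * j + 1) / 2 = j by omega]

/-- even / odd split of a sum -/
theorem pvlc_sum_parity {M : Type} [AddCommMonoid M] (F : ℕ → M) : ∀ k, ∑ p ∈ Finset.range (2 * k + 1), F p = ∑ r ∈ Finset.range (k + 1), F (2 * r) + ∑ j ∈ Finset.range k, F (2 * j + 1) := by
  intro k
  induction k with
  | zero => simp
  | succ k ih =>
    rw [show 2 * (k + 1) + 1 = 2 * k + 1 + 1 + 1 by ring, Finset.sum_range_succ, Finset.sum_range_succ, ih, Finset.sum_range_succ (fun r => F (2 * r)) (k + 1),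
      Finset.sum_range_succ (fun j => F (2 * j + 1)) k, show 2 * k + 1 + 1 = 2 * (k + 1) by ring]
    abel

/-- **AN OPEN ROAD**: `m + 2` runs and `m + 1` doors in alternation: run `0`, door `0`, run `1`, …, door `m`, run `m + 1` -/
structure PvlcRoad (T : PvMap V D) (s : V → Bool) (m : ℕ) (st en : ℕ → D) (N L : ℕ → ℕ) (y w : ℕ → T.Pth) : Prop where
  run : ∀ r, r ≤ m + 1 → PvlcArc T s (st r) (en r) (N r) (y r)
  door : ∀ j, j ≤ m → PvlcArc T s (en j) (st (j + 1)) (L j) (w j)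
  first_y : ∀ r, r ≤ m → ∀ i, i < N r → pvasIt T s (st r) i ≠ en (m + 1)
  first_w : ∀ j, j ≤ m → ∀ i, i < L j → pvasIt T s (en j) i ≠ en (m + 1)
  yy : ∀ r r', r ≤ m + 1 → r' ≤ m + 1 → r ≠ r' → ∀ v, v ∈ (y r).verts → v ∉ (y r').verts
  ww : ∀ j j', j ≤ m → j' ≤ m → j ≠ j' → ∀ v, v ∈ (w j).verts → v ∉ (w j').verts
  yw : ∀ r j, r ≤ m + 1 → j ≤ m → ∀ v, v ∈ (y r).verts → v ∈ (w j).verts → v = T.src (en j) ∨ v = T.src (st (j + 1))

section road

variable {m : ℕ} {st en : ℕ → D} {N L : ℕ → ℕ} {y w : ℕ → T.Pth}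

/-- a run and a door meet at their junction only -/
theorem PvlcRoad.meet (h : PvlcRoad T s m st en N L y w) {r j : ℕ} (hr : r ≤ m + 1) (hj : j ≤ m) {k l : ℕ} (hk : k ≤ (y r).n) (hl : l ≤ (w j).n) (e : (y r).v k = (w j).v l) :
    (r = j ∧ k = (y r).n ∧ l = 0) ∨ (r = j + 1 ∧ k = 0 ∧ l = (w j).n) := by
  rcases h.yw r j hr hj _ ⟨k, hk, rfl⟩ ⟨l, hl, e.symm⟩ with e1 | e1
  · left
    have hrj : r = j := by
      by_contra hne
      refine h.yy r j hr (by omega) hne _ ⟨k, hk, rfl⟩ ⟨(y j).n, le_rfl, ?_⟩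
      rw [(h.run j (by omega)).vn, e1]
    subst hrj
    refine ⟨rfl, (y r).inj _ _ hk le_rfl (by rw [e1, (h.run r hr).vn]), (w r).inj _ _ hl (Nat.zero_le _) ?_⟩
    rw [← e, e1, (h.door r hj).v0]
  · right
    have hrj : r = j + 1 := by
      by_contra hne
      refine h.yy r (j + 1) hr (by omega) hne _ ⟨k, hk, rfl⟩ ⟨0, Nat.zero_le _, ?_⟩
      rw [(h.run (j + 1) (by omega)).v0, e1]
    subst hrj
    refine ⟨rfl, (y (j + 1)).inj _ _ hk (Nat.zero_le _) (by rw [e1, (h.run (j + 1) hr).v0]), (w j).inj _ _ hl le_rfl ?_⟩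
    rw [← e, e1, (h.door j hj).vn]

/-- a road is a chain of `2 m + 3` arcs -/
theorem PvlcRoad.chain (h : PvlcRoad T s m st en N L y w) : PvlcChain T s (2 * m + 3) (pvlcAlt st en) (pvlcAlt N L) (pvlcAlt y w) where
  arc p hp := by
    rcases Nat.even_or_odd' p with ⟨r, rfl | rfl⟩
    · rw [pvlc_alt_even, pvlc_alt_even, pvlc_alt_even, pvlc_alt_odd]
      exact h.run r (by omega)
    · rw [pvlc_alt_odd, pvlc_alt_odd, pvlc_alt_odd, show 2 * r + 1 + 1 = 2 * (r + 1) by ring, pvlc_alt_even]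
      exact h.door r (by omega)
  first p hp := by
    rw [show 2 * m + 3 = 2 * (m + 1) + 1 by ring, pvlc_alt_odd]
    rcases Nat.even_or_odd' p with ⟨r, rfl | rfl⟩
    · rw [pvlc_alt_even, pvlc_alt_even]
      exact h.first_y r (by omega)
    · rw [pvlc_alt_odd, pvlc_alt_odd]
      exact h.first_w r (by omega)
  dis p q hpq hq k l := by
    rcases Nat.even_or_odd' p with ⟨r, rfl | rfl⟩ <;> rcases Nat.even_or_odd' q with ⟨r', rfl | rfl⟩
    · rw [pvlc_alt_even, pvlc_alt_even]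
      intro hk hl e
      exact absurd ⟨l, hl, e.symm⟩ (h.yy r r' (by omega) (by omega) (by omega) _ ⟨k, hk, rfl⟩)
    · rw [pvlc_alt_even, pvlc_alt_odd]
      intro hk hl e
      rcases h.meet (by omega) (by omega) hk hl e with ⟨e1, e2, e3⟩ | ⟨e1, e2, e3⟩
      · exact ⟨by omega, e2, e3⟩
      · omega
    · rw [pvlc_alt_odd, pvlc_alt_even]
      intro hk hl e
      rcases h.meet (r := r') (j := r) (by omega) (by omega) hl hk e.symm with ⟨e1, e2, e3⟩ | ⟨e1, e2, e3⟩
      · omega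
      · exact ⟨by omega, e3, e2⟩
    · rw [pvlc_alt_odd, pvlc_alt_odd]
      intro hk hl e
      exact absurd ⟨l, hl, e.symm⟩ (h.ww r r' (by omega) (by omega) (by omega) _ ⟨k, hk, rfl⟩)

/-- the time of a road -/
def pvlcTime (m : ℕ) (N L : ℕ → ℕ) : ℕ := ∑ r ∈ Finset.range (m + 2), N r + ∑ j ∈ Finset.range (m + 1), L j

theorem pvlc_road_eqns_cite2 : True := by
  have := @pvlcTime.eq_1
  trivial

theorem pvlc_time_eq (m : ℕ) (N L : ℕ → ℕ) : ∑ p ∈ Finset.range (2 * m + 3), pvlcAlt N L p = pvlcTime m N L := by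
  rw [show 2 * m + 3 = 2 * (m + 1) + 1 by ring, pvlc_sum_parity]
  unfold pvlcTime
  congr 1
  · exact Finset.sum_congr rfl fun r _ => pvlc_alt_even _ _ r
  · exact Finset.sum_congr rfl fun r _ => pvlc_alt_odd _ _ r

/-- **A ROAD IS AN ARC**: one strand `st 0 → en (m + 1)`, first hit, ONE rim arc `x`; its vertices are those of the pieces; every sum over its darts is the sum over the pieces -/
theorem pvlc_road (hT : T.IsSph) (hS : T.Simple) (h : PvlcRoad T s m st en N L y w) :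
    ∃ x : T.Pth, PvlcArc T s (st 0) (en (m + 1)) (pvlcTime m N L) x ∧
      (∀ v, v ∈ x.verts ↔ (∃ r, r ≤ m + 1 ∧ v ∈ (y r).verts) ∨ ∃ j, j ≤ m ∧ v ∈ (w j).verts) ∧
      ∀ f : D → ℂ, ∑ k ∈ Finset.range x.n, f (x.e k) =
        ∑ r ∈ Finset.range (m + 2), ∑ k ∈ Finset.range (y r).n, f ((y r).e k) + ∑ j ∈ Finset.range (m + 1), ∑ k ∈ Finset.range (w j).n, f ((w j).e k) := by
  obtain ⟨x, hx, hv, hf⟩ := pvlc_chain hT hS (2 * m + 2) _ _ _ h.chain
  refine ⟨x, ?_, fun v => ?_, fun f => ?_⟩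
  · have e1 : pvlcAlt st en 0 = st 0 := pvlc_alt_even st en 0
    have e2 : pvlcAlt st en (2 * m + 2 + 1) = en (m + 1) := by rw [show 2 * m + 2 + 1 = 2 * (m + 1) + 1 by ring, pvlc_alt_odd]
    rw [e1, e2, show 2 * m + 2 + 1 = 2 * m + 3 by ring, pvlc_time_eq] at hx
    exact hx
  · rw [hv]
    constructor
    · rintro ⟨p, hp, hvp⟩
      rcases Nat.even_or_odd' p with ⟨r, rfl | rfl⟩
      · rw [pvlc_alt_even] at hvp
        exact Or.inl ⟨r, by omega, hvp⟩
      · rw [pvlc_alt_odd] at hvp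
        exact Or.inr ⟨r, by omega, hvp⟩
    · rintro (⟨r, hr, hvr⟩ | ⟨j, hj, hvj⟩)
      · exact ⟨2 * r, by omega, by rw [pvlc_alt_even]; exact hvr⟩
      · exact ⟨2 * j + 1, by omega, by rw [pvlc_alt_odd]; exact hvj⟩
  · rw [hf, show 2 * m + 2 + 1 = 2 * (m + 1) + 1 by ring, pvlc_sum_parity]
    congr 1
    · exact Finset.sum_congr rfl fun r _ => by rw [pvlc_alt_even]
    · exact Finset.sum_congr rfl fun r _ => by rw [pvlc_alt_odd]

/-- **THE POSITIONS OF A ROAD** but the first `np + 1` and the last `nm` ones are positions of the pieces -/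
theorem PvlcRoad.pos (h : PvlcRoad T s m st en N L y w) (P : D → Prop) (np nm : ℕ)
    (h0 : ∀ i, np < i → i < N 0 → P (pvasIt T s (st 0) i))
    (h1 : ∀ r, 1 ≤ r → r ≤ m → ∀ i, i < N r → P (pvasIt T s (st r) i))
    (h2 : ∀ j, j ≤ m → ∀ i, i < L j → P (pvasIt T s (en j) i))
    (h3 : ∀ i, i + nm < N (m + 1) → P (pvasIt T s (st (m + 1)) i)) :
    ∀ t, np < t → t + nm < pvlcTime m N L → P (pvasIt T s (st 0) t) := by
  intro t ht1 ht2
  have hc := h.chain
  rw [← pvlc_time_eq] at ht2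
  obtain ⟨p, i, hp, hi, e⟩ := pvlc_time_split (pvlcAlt N L) (2 * m + 3) t (by omega)
  have e0 : pvlcAlt st en 0 = st 0 := pvlc_alt_even st en 0
  have hit := hc.it p hp.le i
  rw [e0, ← e] at hit
  rw [hit]
  rcases Nat.even_or_odd' p with ⟨r, rfl | rfl⟩
  · rw [pvlc_alt_even] at hi ⊢
    rcases Nat.eq_zero_or_pos r with rfl | hr0
    · simp only [Nat.mul_zero, Finset.range_zero, Finset.sum_empty, Nat.zero_add] at e
      exact h0 i (by omega) hi
    · rcases Nat.lt_or_ge r (m + 1) with hr | hr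
      · exact h1 r hr0 (by omega) i hi
      · obtain rfl : r = m + 1 := by omega
        refine h3 i ?_
        rw [show 2 * m + 3 = 2 * (m + 1) + 1 by ring, Finset.sum_range_succ, pvlc_alt_even] at ht2
        omega
  · rw [pvlc_alt_odd] at hi ⊢
    exact h2 r (by omega) i hi

end road

/-! ## 7. gates -/

/-- the rim arc of a strand which stays outside a circuit lies on its closed outside -/
theorem pvlc_out (hT : T.IsSph) (c : T.Cyc) {a b : D} {n : ℕ} {y : T.Pth} (h : PvlcArc T s a b n y) (hn : 1 ≤ n) (ho : ∀ i, i < n → pvasIt T s a i ∉ c.Left) : y.verts ⊆ T.VOf c.Right := by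
  intro v hv
  refine pvki_fc_right hT c ho ?_
  rw [pvas_fc_verts s a hn]
  exact Or.inl (pvt_sd_verts h.le hv)

/-- a site off the closed inside of a circuit is on its closed outside -/
theorem pvlc_out_of_not_left (hT : T.IsSph) (c : T.Cyc) {d : D} (h : T.src d ∉ T.VOf c.Left) : T.src d ∈ T.VOf c.Right := by
  refine ⟨d, ?_, rfl⟩
  rw [(pl_jordan hT c).1]
  exact fun hd => h ⟨d, hd, rfl⟩

/-- the rim arc of a strand whose black bank misses the closed inside of a circuit lies on its closed outside -/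
theorem pvlc_out_of_disj (hT : T.IsSph) (c : T.Cyc) {a b : D} {n : ℕ} {y : T.Pth} (h : PvlcArc T s a b n y) (hd : ∀ v ∈ y.verts, v ∉ T.VOf c.Left) : y.verts ⊆ T.VOf c.Right := by
  intro v hv
  obtain ⟨i, -, rfl⟩ := pvt_sd_verts h.le hv
  exact pvlc_out_of_not_left hT c (hd _ hv)

section gates

variable [DecidableEq V]

/-- **the inner arc of a through gate is an arc** -/
theorem pvlc_gate_arc (hT : T.IsSph) (hS : T.Simple) (g : T.Gate s) (hfin : g.c.Left.Finite) (hth : g.Thru) : PvlcArc T s g.aIn g.aOut g.len (pvtArc T s g.aIn g.len) := by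
  obtain ⟨-, h2, h3⟩ := pvtg_len hT g hfin
  have hit : pvasIt T s g.aIn g.len = g.aOut := h3.trans hth
  have hout : pvasOut T g.c.Left s g.aOut := (pvtg_out_iff hT g _).2 (Or.inl rfl)
  have first : ∀ i, i < g.len → pvasIt T s g.aIn i ≠ g.aOut := fun i hi e => hout.1 (e ▸ h2 i hi)
  exact ⟨pvtg_aIn_bw g, hit, first, pvt_sd_le hT hS (pvtg_aIn_bw g) (pvt_sd_inj (pvtg_aIn_bw g) fun k hk0 hk => pvlc_no_return hit first k hk0 hk.le)⟩

omit [DecidableEq V] in
/-- the vertices of the inner arc are black sites of the closed inside -/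
theorem pvlc_gate_verts (hT : T.IsSph) (g : T.Gate s) (hfin : g.c.Left.Finite) {w : T.Pth} (h : PvwLE T (fun i => T.src (pvasIt T s g.aIn i)) g.len w) {v : V} (hv : v ∈ w.verts) :
    v ∈ T.VOf g.c.Left ∧ s v = true := pvtg_bank_sub hT g hfin (pvt_sd_verts h hv)

/-- **DOORS = GATES**: the hypotheses of `PvkiGR` (244) for an OPEN chain -/
theorem pvlc_road_gates (hT : T.IsSph) (hS : T.Simple) {m : ℕ} {st en : ℕ → D} {N : ℕ → ℕ} {y : ℕ → T.Pth} (g : ℕ → T.Gate s)
    (fin : ∀ j, j ≤ m → (g j).c.Left.Finite) (thru : ∀ j, j ≤ m → (g j).Thru) (hst : ∀ j, j ≤ m → st (j + 1) = (g j).aOut) (hen : ∀ j, j ≤ m → en j = (g j).aIn)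
    (run : ∀ r, r ≤ m + 1 → PvlcArc T s (st r) (en r) (N r) (y r))
    (out : ∀ r j, r ≤ m + 1 → j ≤ m → (y r).verts ⊆ T.VOf (g j).c.Right)
    (yy : ∀ r r', r ≤ m + 1 → r' ≤ m + 1 → r ≠ r' → ∀ v, v ∈ (y r).verts → v ∉ (y r').verts)
    (GG : ∀ i j, i ≤ m → j ≤ m → i ≠ j → Disjoint (T.VOf (g i).c.Left) (T.VOf (g j).c.Left))
    (first_y : ∀ r, r ≤ m → ∀ i, i < N r → pvasIt T s (st r) i ≠ en (m + 1)) (hb : ∀ j, j ≤ m → en (m + 1) ∉ (g j).c.Left) :
    PvlcRoad T s m st en N (fun j => (g j).len) y (fun j => pvtArc T s (g j).aIn (g j).len) where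
  run := run
  door j hj := by
    rw [hen j hj, hst j hj]
    exact pvlc_gate_arc hT hS (g j) (fin j hj) (thru j hj)
  first_y := first_y
  first_w j hj i hi e := by
    rw [hen j hj] at e
    exact hb j hj (e ▸ (pvtg_len hT (g j) (fin j hj)).2.1 i hi)
  yy := yy
  ww j j' hj hj' hne v hv hv' :=
    Set.disjoint_left.1 (GG j j' hj hj' hne) (pvlc_gate_verts hT (g j) (fin j hj) (pvlc_gate_arc hT hS (g j) (fin j hj) (thru j hj)).le hv).1
      (pvlc_gate_verts hT (g j') (fin j' hj') (pvlc_gate_arc hT hS (g j') (fin j' hj') (thru j' hj')).le hv').1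
  yw r j hr hj v hv hv' := by
    obtain ⟨h1, h2⟩ := pvlc_gate_verts hT (g j) (fin j hj) (pvlc_gate_arc hT hS (g j) (fin j hj) (thru j hj)).le hv'
    rw [hen j hj, hst j hj, pvtg_aOut_src]
    exact pvtg_meet hT (g j) h1 (out r j hr hj hv) h2

end gates

/-! ## 8. values: every tag is counted once -/

section value

variable (pos : V → ℂ) (u : D → ℂ)

/-- the mass reads the mask on the tags of the window only -/
theorem pvlc_mass_congr {K K' : Set ℂ} (p : T.Pth) {i j : ℕ} (h : ∀ k, i ≤ k → k < j → (T.bary pos (T.opp (p.e k)) ∈ K ↔ T.bary pos (T.opp (p.e k)) ∈ K')) :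
    pvwMass T pos u K p i j = pvwMass T pos u K' p i j := by
  classical
  unfold pvwMass
  refine Finset.sum_congr rfl fun k hk => ?_
  obtain ⟨h1, h2⟩ := Finset.mem_Ico.1 hk
  exact if_congr (h k h1 h2) rfl rfl

/-- a window whose tags are shared by two masks -/
theorem pvlc_mass_split {K K₁ K₂ : Set ℂ} (p : T.Pth) {i j : ℕ}
    (h : ∀ k, i ≤ k → k < j → (T.bary pos (T.opp (p.e k)) ∈ K ↔ T.bary pos (T.opp (p.e k)) ∈ K₁ ∨ T.bary pos (T.opp (p.e k)) ∈ K₂) ∧
      ¬ (T.bary pos (T.opp (p.e k)) ∈ K₁ ∧ T.bary pos (T.opp (p.e k)) ∈ K₂)) :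
    pvwMass T pos u K p i j = pvwMass T pos u K₁ p i j + pvwMass T pos u K₂ p i j := by
  classical
  unfold pvwMass
  rw [← Finset.sum_add_distrib]
  refine Finset.sum_congr rfl fun k hk => ?_
  obtain ⟨h1, h2⟩ := Finset.mem_Ico.1 hk
  obtain ⟨a1, a2⟩ := h k h1 h2
  by_cases c1 : T.bary pos (T.opp (p.e k)) ∈ K₁
  · have c2 : T.bary pos (T.opp (p.e k)) ∉ K₂ := fun c => a2 ⟨c1, c⟩
    rw [if_pos (a1.2 (Or.inl c1)), if_pos c1, if_neg c2, add_zero]
  · by_cases c2 : T.bary pos (T.opp (p.e k)) ∈ K₂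
    · rw [if_pos (a1.2 (Or.inr c2)), if_neg c1, if_pos c2, zero_add]
    · rw [if_neg (fun c => (a1.1 c).elim c1 c2), if_neg c1, if_neg c2, add_zero]

/-- the mass of a whole path as a `psum` -/
theorem pvlc_mass_psum (K : Set ℂ) (p : T.Pth) : pvwMass T pos u K p 0 p.n = p.psum fun d => K.indicator (1 : ℂ → ℂ) (T.bary pos d) * u d := by
  classical
  unfold pvwMass PvMap.Pth.psum
  rw [← Finset.range_eq_Ico]
  refine Finset.sum_congr rfl fun k _ => ?_
  show _ = K.indicator (1 : ℂ → ℂ) (T.bary pos (T.opp (p.e k))) * u (T.opp (p.e k))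
  by_cases c : T.bary pos (T.opp (p.e k)) ∈ K
  · rw [if_pos c, Set.indicator_of_mem c, Pi.one_apply, one_mul]
  · rw [if_neg c, Set.indicator_of_notMem c, zero_mul]

/-- **THE MASS OF A ROAD, LINK BY LINK**      (convention of 125, RULING 16 (6) of 234: a door is cut IN SPACE).      Link `0` = (run `0`, door `0`), link `j + 1` = (door `j`, run `j + 1`, door `j + 1`), link `m + 1` = (door `m`, run `m + 1`), the link `r` counts the tags in
its mask `Mk r`.   If the tags of the run `r` are in `off` iff they are in `Mk r`, and the tags of the door `j` are in `off` iff they are in exactly one of `Mk j`, `Mk (j + 1)` (never in both), every tag of the road in `off` is counted once. -/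
theorem pvlc_mass_road {x : T.Pth} {m : ℕ} {y w : ℕ → T.Pth}
    (hx : ∀ f : D → ℂ, ∑ k ∈ Finset.range x.n, f (x.e k) =
      ∑ r ∈ Finset.range (m + 2), ∑ k ∈ Finset.range (y r).n, f ((y r).e k) + ∑ j ∈ Finset.range (m + 1), ∑ k ∈ Finset.range (w j).n, f ((w j).e k))
    (off : Set ℂ) (Mk : ℕ → Set ℂ)
    (hY : ∀ r, r ≤ m + 1 → ∀ k, k < (y r).n → (T.bary pos (T.opp ((y r).e k)) ∈ off ↔ T.bary pos (T.opp ((y r).e k)) ∈ Mk r))
    (hW : ∀ j, j ≤ m → ∀ k, k < (w j).n → (T.bary pos (T.opp ((w j).e k)) ∈ off ↔ T.bary pos (T.opp ((w j).e k)) ∈ Mk j ∨ T.bary pos (T.opp ((w j).e k)) ∈ Mk (j + 1)) ∧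
      ¬ (T.bary pos (T.opp ((w j).e k)) ∈ Mk j ∧ T.bary pos (T.opp ((w j).e k)) ∈ Mk (j + 1))) :
    pvwMass T pos u off x 0 x.n =
      (pvwMass T pos u (Mk 0) (y 0) 0 (y 0).n + pvwMass T pos u (Mk 0) (w 0) 0 (w 0).n) +
      ∑ j ∈ Finset.range m, (pvwMass T pos u (Mk (j + 1)) (w j) 0 (w j).n + pvwMass T pos u (Mk (j + 1)) (y (j + 1)) 0 (y (j + 1)).n + pvwMass T pos u (Mk (j + 1)) (w (j + 1)) 0 (w (j + 1)).n) +
      (pvwMass T pos u (Mk (m + 1)) (w m) 0 (w m).n + pvwMass T pos u (Mk (m + 1)) (y (m + 1)) 0 (y (m + 1)).n) := by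
  classical
  have e0 : ∀ p : T.Pth, pvwMass T pos u off p 0 p.n = ∑ k ∈ Finset.range p.n, (fun d => if T.bary pos (T.opp d) ∈ off then u (T.opp d) else 0) (p.e k) := by
    intro p
    unfold pvwMass
    rw [← Finset.range_eq_Ico]
  rw [e0 x, hx fun d => if T.bary pos (T.opp d) ∈ off then u (T.opp d) else 0]
  simp only [← e0]
  have eY : ∀ r ∈ Finset.range (m + 2), pvwMass T pos u off (y r) 0 (y r).n = pvwMass T pos u (Mk r) (y r) 0 (y r).n := fun r hr =>
    pvlc_mass_congr pos u (y r) fun k _ hk => hY r (by have := Finset.mem_range.1 hr; omega) k hk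
  have eW : ∀ j ∈ Finset.range (m + 1), pvwMass T pos u off (w j) 0 (w j).n = pvwMass T pos u (Mk j) (w j) 0 (w j).n + pvwMass T pos u (Mk (j + 1)) (w j) 0 (w j).n := fun j hj =>
    pvlc_mass_split pos u (w j) fun k _ hk => hW j (by have := Finset.mem_range.1 hj; omega) k hk
  rw [Finset.sum_congr rfl eY, Finset.sum_congr rfl eW, Finset.sum_add_distrib, Finset.sum_range_succ (fun r => pvwMass T pos u (Mk r) (y r) 0 (y r).n) (m + 1),
    Finset.sum_range_succ' (fun r => pvwMass T pos u (Mk r) (y r) 0 (y r).n) m, Finset.sum_range_succ' (fun j => pvwMass T pos u (Mk j) (w j) 0 (w j).n) m,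
    Finset.sum_range_succ (fun j => pvwMass T pos u (Mk (j + 1)) (w j) 0 (w j).n) m, Finset.sum_add_distrib, Finset.sum_add_distrib]
  ring

end value

/-! ## 9. closing -/

/-- **TWO ARCS `a → b → a` WHICH MEET AT THEIR ENDS ONLY CLOSE ONE LABEL**      (nothing is asked of the erased loops of the banks; with `pvlc_road`: a road from the exit of a gate back to its entrance + the inner arc) -/
theorem pvlc_close (hT : T.IsSph) (hS : T.Simple) {a b : D} {n m : ℕ} {y z : T.Pth} (h1 : PvlcArc T s a b n y) (h2 : PvlcArc T s b a m z)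
    (hd : ∀ k l, k ≤ y.n → l ≤ z.n → y.v k = z.v l → (k = 0 ∧ l = z.n) ∨ (k = y.n ∧ l = 0)) {g : D} (hg : g ∈ pvowDarts [y, z]) :
    T.Tag s (T.opp g) ∧ (∀ d', T.SameLab s (T.opp g) d' ↔ T.opp d' ∈ pvowDarts [y, z]) ∧ ∀ u : D → ℂ, T.lsum s u (T.opp g) = y.psum u + z.psum u := by
  have hc : pvowChain T [y, z] (T.src a) (T.src a) := ⟨h1.v0, by rw [h1.vn]; exact h2.v0, h2.vn⟩
  have hn : ((pvowDarts [y, z]).map T.tgt).Nodup := by
    refine pvow_nodup ?_
    rw [List.pairwise_cons]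
    refine ⟨fun q hq k l hk hl e => ?_, List.pairwise_singleton _ _⟩
    obtain rfl : q = z := by simpa using hq
    rcases hd (k + 1) (l + 1) hk hl e with ⟨e1, -⟩ | ⟨-, e2⟩ <;> omega
  have hw : ∀ p ∈ [y, z], p.OnWall s a := by
    intro p hp
    rcases List.mem_cons.1 hp with rfl | hp
    · exact pvow_le_onwall hS h1.bw h1.le
    · obtain rfl : p = z := by simpa using hp
      refine pvow_onwall_trans (pvow_le_onwall hS h2.bw h2.le) ?_
      rw [← h1.hit]
      exact pvt_s_it_wall h1.bw n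
  obtain ⟨k1, k2, k3⟩ := pvow_ring hT hS hc hn hw hg
  refine ⟨k1, k2, fun u => ?_⟩
  rw [k3]
  simp

end Claimed.Agent.R289
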