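-- KEEP
import Claimed.Agent.R289.Tr.LinkRoad
import Claimed.Agent.R289.Tr.HookGL
import Claimed.Agent.R289.Tr.PlugClose
import Claimed.Agent.R289.Tr.C12F
import Claimed.Agent.R289.Tr.InstL
import Claimed.Agent.R289.Tr.AtUniq
import Claimed.Agent.R289.Tr.LinkRec

/-!
# Row 289 (S0537), THE WALL, ROAD E, file Tr/ChainM : CHAIN = THE LINKS OF A PATTERN ARE ONE STRAND `t → s`      (helper268; post BOX:TR-CHAINM; prefix `pvjm_`, `pvjm`, `Pvjm`)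

TARGET = the field `chain` of `PvdfC2` (104, `Tr/DomEB`): when the chain succeeds, `∃ y, 𝔇.YArc .. y ∧ Y = 𝔇.Yof .. y`.      TOOLS: `pvlc_road_gates`, `pvlc_road`, `PvlcRoad.pos` (70, `Tr/LinkRoad`), `pvki_off_src`, `pvki_off_tgt` (244, `Tr/KitI`),
`pvhg_SYn_rec_pl` (90, `Tr/HookGL`; junction), `pvkx_uniq` (244, `Tr/PlugClose`: ONE gate per door).
* sec. 1  **`PvjmOpen T s pos m a₀ a₁ Y Q`** = OPEN TWIN OF `PvkiCell` (244): `m + 1` doors = gates `g 0 .. g m` (finite, `Thru`, closed inside over the disc `Q j`), `m + 2` runs `st r → en r` (`st 0 = a₀`, `st (j + 1) = aOut (g j)`, `en j = aIn (g j)`, `en (m + 1) = a₁`),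
          time `N r`, FIRST hit; only the BLACK ends of the positions `i < N r` are asked to lie over the room `Y r`;   F1 of 125: `g⁻(j)` not over `Y (j + 1)`, `g⁺(j)` not over `Y j`;   `PvjmGeo m Y Q` (regions only).
          **`pvjm_road`** : `PvlcRoad` (hypotheses `out yy GG first_y hb` of `pvlc_road_gates` PAID from the regions);   **`pvjm_arc`** : ONE arc `a₀ → a₁`.
* sec. 2  a datum: `a₀ = 𝔇.t.dp`, `a₁ = 𝔇.s.dm`;   `PvjmIn` (both ends of the new positions over `Yin`);   **`pvjm_pos`** = the position form of the junction;   **`pvjm_yarc`** : `∃ x, 𝔇.YArc .. x ∧` (sums over the darts of `x` = sums over the pieces).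
* sec. 3  the names of `Tr/PlugK` (34): cells `η ∈ 𝔤.A (Z j) (D j) (L j)`, end links in gate form `PvjmFst`, `PvjmLst`   ⟹ `PvjmOpen`.
-/

set_option autoImplicit false
set_option linter.unusedSectionVars false

namespace Claimed.Agent.R289

open Set

/-! ## 1. an open chain of cells and doors -/

section open_chain

variable {V D : Type} {T : PvMap V D} {s : V → Bool}

/-- the first position of the run `r` -/
def pvjmSt (g : ℕ → T.Gate s) (a₀ : D) (r : ℕ) : D := if r = 0 then a₀ else (g (r - 1)).aOut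

/-- the last position of the run `r` -/
def pvjmEn (g : ℕ → T.Gate s) (m : ℕ) (a₁ : D) (r : ℕ) : D := if r ≤ m then (g r).aIn else a₁

theorem pvjm_eqns_cite : True := by
  have := @pvjmSt.eq_1; have := @pvjmEn.eq_1
  trivial

theorem pvjm_st_zero (g : ℕ → T.Gate s) (a₀ : D) : pvjmSt g a₀ 0 = a₀ := if_pos rfl

theorem pvjm_st_succ (g : ℕ → T.Gate s) (a₀ : D) (j : ℕ) : pvjmSt g a₀ (j + 1) = (g j).aOut := by
  unfold pvjmSt
  rw [if_neg (by omega), Nat.add_sub_cancel]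

theorem pvjm_en_le (g : ℕ → T.Gate s) {m : ℕ} (a₁ : D) {r : ℕ} (hr : r ≤ m) : pvjmEn g m a₁ r = (g r).aIn := if_pos hr

theorem pvjm_en_last (g : ℕ → T.Gate s) (m : ℕ) (a₁ : D) : pvjmEn g m a₁ (m + 1) = a₁ := if_neg (by omega)

/-- **AN OPEN CHAIN OF `m + 1` DOORS AND `m + 2` RUNS** from the position `a₀` to the position `a₁` -/
structure PvjmOpen (T : PvMap V D) (s : V → Bool) (pos : V → ℂ) (m : ℕ) (a₀ a₁ : D) (Y Q : ℕ → Set ℂ) where
  /-- the doors -/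
  g : ℕ → T.Gate s
  /-- the times of the runs -/
  N : ℕ → ℕ
  fin : ∀ j, j ≤ m → (g j).c.Left.Finite
  thru : ∀ j, j ≤ m → (g j).Thru
  gate : ∀ j, j ≤ m → ∀ v ∈ T.VOf (g j).c.Left, pos v ∈ Q j
  bw : pvasBW T s a₀
  hit : ∀ r, r ≤ m + 1 → pvasIt T s (pvjmSt g a₀ r) (N r) = pvjmEn g m a₁ r
  first : ∀ r, r ≤ m + 1 → ∀ i, i < N r → pvasIt T s (pvjmSt g a₀ r) i ≠ pvjmEn g m a₁ r
  /-- the black ends of the positions of the run `r` but the last one lie over the room `Y r` -/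
  room : ∀ r, r ≤ m + 1 → ∀ i, i < N r → pos (T.src (pvasIt T s (pvjmSt g a₀ r) i)) ∈ Y r
  /-- F1: `g⁻` of a door is not in the room of the run which leaves it -/
  vm_off : ∀ j, j ≤ m → pos (g j).vm ∉ Y (j + 1)
  /-- F1: `g⁺` of a door is not in the room of the run which arrives at it -/
  vp_off : ∀ j, j ≤ m → pos (g j).vp ∉ Y j
  a₀_off : ∀ j, j ≤ m → pos (T.src a₀) ∉ Q j
  a₁_off : ∀ j, j ≤ m → pos (T.src a₁) ∉ Q j
  a₁_room : ∀ r, r ≤ m → pos (T.src a₁) ∉ Y r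

/-- the geometry of the rooms and of the door discs (regions only) -/
structure PvjmGeo (m : ℕ) (Y Q : ℕ → Set ℂ) : Prop where
  YY : ∀ i j, i ≤ m + 1 → j ≤ m + 1 → i ≠ j → Disjoint (Y i) (Y j)
  QQ : ∀ i j, i ≤ m → j ≤ m → i ≠ j → Disjoint (Q i) (Q j)
  QY : ∀ j r, j ≤ m → r ≤ m + 1 → r ≠ j → r ≠ j + 1 → Disjoint (Q j) (Y r)

variable {pos : V → ℂ} {m : ℕ} {a₀ a₁ : D} {Y Q : ℕ → Set ℂ} (C : PvjmOpen T s pos m a₀ a₁ Y Q)

namespace PvjmOpen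

/-- the first position of the run `r` -/
def st (r : ℕ) : D := pvjmSt C.g a₀ r
/-- the last position of the run `r` -/
def en (r : ℕ) : D := pvjmEn C.g m a₁ r

end PvjmOpen

theorem pvjm_eqns_cite2 : True := by
  have := @PvjmOpen.st.eq_1; have := @PvjmOpen.en.eq_1
  trivial

theorem pvjm_vm_Q (hT : T.IsSph) {j : ℕ} (hj : j ≤ m) : pos (C.g j).vm ∈ Q j := C.gate j hj _ ⟨_, (pl_jordan hT _).2.1 0, rfl⟩

theorem pvjm_vp_Q (hT : T.IsSph) {j : ℕ} (hj : j ≤ m) : pos (C.g j).vp ∈ Q j := C.gate j hj _ ⟨_, (pl_jordan hT _).2.1 (C.g j).m, rfl⟩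

/-- a dart of the closed inside of a door has its source over the disc -/
theorem pvjm_left_Q {j : ℕ} (hj : j ≤ m) {d : D} (hd : d ∈ (C.g j).c.Left) : pos (T.src d) ∈ Q j := C.gate j hj _ ⟨d, hd, rfl⟩

theorem pvjm_st_bw {r : ℕ} : pvasBW T s (C.st r) := by
  rcases Nat.eq_zero_or_pos r with rfl | hr
  · rw [show C.st 0 = a₀ from pvjm_st_zero C.g a₀]
    exact C.bw
  · obtain ⟨j, rfl⟩ : ∃ j, r = j + 1 := ⟨r - 1, by omega⟩
    rw [show C.st (j + 1) = (C.g j).aOut from pvjm_st_succ C.g a₀ j]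
    exact pvtg_aOut_bw _

/-- the source of the last position of a run: over `Q r`, or the source of `a₁` -/
theorem pvjm_en_src {r : ℕ} : (r ≤ m ∧ T.src (C.en r) = (C.g r).vm) ∨ (m < r ∧ C.en r = a₁) := by
  rcases Nat.lt_or_ge m r with h | h
  · exact Or.inr ⟨h, if_neg (by omega)⟩
  · exact Or.inl ⟨h, by rw [show C.en r = (C.g r).aIn from pvjm_en_le C.g a₁ h]; rfl⟩

/-- the last position of a run is not inside another door -/
theorem pvjm_en_off (hT : T.IsSph) (G : PvjmGeo m Y Q) {r j : ℕ} (hj : j ≤ m) (hrj : r ≠ j) : pos (T.src (C.en r)) ∉ Q j := by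
  rcases pvjm_en_src C (r := r) with ⟨hr, e⟩ | ⟨-, e⟩
  · rw [e]
    exact fun h => Set.disjoint_left.1 (G.QQ r j hr hj hrj) (pvjm_vm_Q C hT hr) h
  · rw [e]
    exact C.a₁_off j hj

/-- the first position of a run is not inside a door but the one it leaves -/
theorem pvjm_st_off (hT : T.IsSph) (G : PvjmGeo m Y Q) {r j : ℕ} (hr : r ≤ m + 1) (hj : j ≤ m) (hrj : r ≠ j + 1) : pos (T.src (C.st r)) ∉ Q j := by
  rcases Nat.eq_zero_or_pos r with rfl | hr0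
  · rw [show C.st 0 = a₀ from pvjm_st_zero C.g a₀]
    exact C.a₀_off j hj
  · obtain ⟨i, rfl⟩ : ∃ i, r = i + 1 := ⟨r - 1, by omega⟩
    rw [show C.st (i + 1) = (C.g i).aOut from pvjm_st_succ C.g a₀ i, pvtg_aOut_src]
    exact fun h => Set.disjoint_left.1 (G.QQ i j (by omega) hj (by omega)) (pvjm_vp_Q C hT (by omega)) h

/-- a run has at least one step -/
theorem pvjm_one (hT : T.IsSph) (G : PvjmGeo m Y Q) {r : ℕ} (hr : r ≤ m + 1) : 1 ≤ C.N r := by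
  by_contra h0
  have e0 : C.N r = 0 := by omega
  have e : C.st r = C.en r := by
    have := C.hit r hr
    rw [e0] at this
    exact this
  rcases pvjm_en_src C (r := r) with ⟨h, e1⟩ | ⟨h, e1⟩
  · refine pvjm_st_off C hT G hr h (by omega) ?_
    rw [e, e1]
    exact pvjm_vm_Q C hT h
  · obtain rfl : r = m + 1 := by omega
    refine C.a₁_off m le_rfl ?_
    rw [← e1, ← e, show C.st (m + 1) = (C.g m).aOut from pvjm_st_succ C.g a₀ m, pvtg_aOut_src]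
    exact pvjm_vp_Q C hT le_rfl

/-- **A RUN NEVER ENTERS A DOOR** -/
theorem pvjm_out (hT : T.IsSph) (G : PvjmGeo m Y Q) {r j : ℕ} (hr : r ≤ m + 1) (hj : j ≤ m) {i : ℕ} (hi : i < C.N r) : pvasIt T s (C.st r) i ∉ (C.g j).c.Left := by
  by_cases h1 : r = j
  · subst h1
    have e : C.en r = (C.g r).aIn := pvjm_en_le C.g a₁ hj
    refine pvki_off_tgt hT (C.g r) (pvjm_st_bw C) (fun h => pvjm_st_off C hT G hr hj (by omega) (pvjm_left_Q C hj h)) (N := C.N r) (fun k hk => e ▸ C.first r hr k hk) ?_ hi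
    rintro ⟨k, hk, ek⟩
    rcases Nat.lt_or_ge k (C.N r) with hlt | hge
    · exact C.vp_off r hj (ek ▸ C.room r hr k hlt)
    · obtain rfl : k = C.N r := by omega
      have e2 : pvasIt T s (C.st r) (C.N r) = (C.g r).aIn := (C.hit r hr).trans e
      rw [e2] at ek
      exact pvtg_ne _ ek
  · by_cases h2 : r = j + 1
    · subst h2
      have e : C.st (j + 1) = (C.g j).aOut := pvjm_st_succ C.g a₀ j
      rw [e]
      refine pvki_off_src hT (C.g j) (C.fin j hj) (a₁ := C.en (j + 1)) (N := C.N (j + 1)) (e ▸ C.hit (j + 1) hr) (fun k hk => e ▸ C.first (j + 1) hr k hk) ?_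
        (fun h => pvjm_en_off C hT G hj (by omega) (pvjm_left_Q C hj h)) hi.le
      rintro ⟨k, hk, ek⟩
      rw [← e] at ek
      rcases Nat.lt_or_ge k (C.N (j + 1)) with hlt | hge
      · exact C.vm_off j hj (ek ▸ C.room (j + 1) hr k hlt)
      · obtain rfl : k = C.N (j + 1) := by omega
        have e2 : pvasIt T s (C.st (j + 1)) (C.N (j + 1)) = C.en (j + 1) := C.hit (j + 1) hr
        rw [e2] at ek
        exact pvjm_en_off C hT G hj (by omega) (ek ▸ pvjm_vm_Q C hT hj)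
    · exact fun h => Set.disjoint_left.1 (G.QY j r hj hr h1 h2) (pvjm_left_Q C hj h) (C.room r hr i hi)

variable [DecidableEq V]

/-- the rim arc of the run `r` -/
def PvjmOpen.y (r : ℕ) : T.Pth := pvtArc T s (C.st r) (C.N r)
/-- the inner arc of the door `j` -/
noncomputable def PvjmOpen.w (j : ℕ) : T.Pth := pvtArc T s (C.g j).aIn (C.g j).len
/-- the time of the whole road -/
noncomputable def PvjmOpen.tm : ℕ := pvlcTime m C.N fun j => (C.g j).len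

theorem pvjm_eqns_cite3 : True := by
  have := @PvjmOpen.y.eq_1; have := @PvjmOpen.w.eq_1; have := @PvjmOpen.tm.eq_1
  trivial

/-- every run is an arc -/
theorem pvjm_run (hT : T.IsSph) (hS : T.Simple) {r : ℕ} (hr : r ≤ m + 1) : PvlcArc T s (C.st r) (C.en r) (C.N r) (C.y r) :=
  ⟨pvjm_st_bw C, C.hit r hr, C.first r hr, pvt_sd_le hT hS (pvjm_st_bw C) (pvt_sd_inj (pvjm_st_bw C) fun k hk0 hk => pvlc_no_return (C.hit r hr) (C.first r hr) k hk0 hk.le)⟩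

/-- where the vertices of the rim arc of a run are -/
theorem pvjm_y_loc (hT : T.IsSph) (hS : T.Simple) {r : ℕ} (hr : r ≤ m + 1) {v : V} (hv : v ∈ (C.y r).verts) : pos v ∈ Y r ∨ v = T.src (C.en r) := by
  obtain ⟨i, hi, rfl⟩ := pvt_sd_verts (pvjm_run C hT hS hr).le hv
  rcases Nat.lt_or_ge i (C.N r) with hlt | hge
  · exact Or.inl (C.room r hr i hlt)
  · obtain rfl : i = C.N r := by omega
    exact Or.inr (by rw [show pvasIt T s (C.st r) (C.N r) = C.en r from C.hit r hr])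

/-- the source of the last position of the run `r'` is not over the room of another run -/
theorem pvjm_en_room (hT : T.IsSph) (G : PvjmGeo m Y Q) {r r' : ℕ} (hr : r ≤ m + 1) (hr' : r' ≤ m + 1) (hne : r ≠ r') : pos (T.src (C.en r')) ∉ Y r := by
  rcases pvjm_en_src C (r := r') with ⟨h, e⟩ | ⟨h, e⟩
  · rw [e]
    by_cases h2 : r = r' + 1
    · subst h2
      exact C.vm_off r' h
    · exact fun hc => Set.disjoint_left.1 (G.QY r' r h hr hne h2) (pvjm_vm_Q C hT h) hc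
  · rw [e]
    exact C.a₁_room r (by omega)

/-- the rim arcs of two runs are disjoint -/
theorem pvjm_yy (hT : T.IsSph) (hS : T.Simple) (G : PvjmGeo m Y Q) {r r' : ℕ} (hr : r ≤ m + 1) (hr' : r' ≤ m + 1) (hne : r ≠ r') {v : V} (hv : v ∈ (C.y r).verts) : v ∉ (C.y r').verts := by
  intro hv'
  rcases pvjm_y_loc C hT hS hr hv with h1 | h1 <;> rcases pvjm_y_loc C hT hS hr' hv' with h2 | h2
  · exact Set.disjoint_left.1 (G.YY r r' hr hr' hne) h1 h2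
  · exact pvjm_en_room C hT G hr hr' hne (h2 ▸ h1)
  · exact pvjm_en_room C hT G hr' hr hne.symm (h1 ▸ h2)
  · rcases pvjm_en_src C (r := r) with ⟨h, e⟩ | ⟨h, e⟩
    · refine pvjm_en_off C hT G (r := r') h hne.symm ?_
      rw [← h2, h1, e]
      exact pvjm_vm_Q C hT h
    · rcases pvjm_en_src C (r := r') with ⟨h', e'⟩ | ⟨h', -⟩
      · refine pvjm_en_off C hT G (r := r) h' hne ?_
        rw [← h1, h2, e']
        exact pvjm_vm_Q C hT h'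
      · omega

/-- **AN OPEN CHAIN OF CELLS AND DOORS IS A ROAD** (70) -/
theorem pvjm_road (hT : T.IsSph) (hS : T.Simple) (G : PvjmGeo m Y Q) : PvlcRoad T s m C.st C.en C.N (fun j => (C.g j).len) C.y C.w := by
  refine pvlc_road_gates hT hS C.g C.fin C.thru (fun j _ => pvjm_st_succ C.g a₀ j) (fun j hj => pvjm_en_le C.g a₁ hj) (fun r hr => pvjm_run C hT hS hr) ?_ ?_ ?_ ?_ ?_
  · exact fun r j hr hj => pvlc_out hT _ (pvjm_run C hT hS hr) (pvjm_one C hT G hr) fun i hi => pvjm_out C hT G hr hj hi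
  · exact fun r r' hr hr' hne v hv => pvjm_yy C hT hS G hr hr' hne hv
  · exact fun i j hi hj hij => Set.disjoint_left.2 fun v h1 h2 => Set.disjoint_left.1 (G.QQ i j hi hj hij) (C.gate i hi v h1) (C.gate j hj v h2)
  · intro r hr i hi e
    have e1 : C.en (m + 1) = a₁ := pvjm_en_last C.g m a₁
    rw [e1] at e
    exact C.a₁_room r hr (e ▸ C.room r (by omega) i hi)
  · intro j hj h
    have e1 : C.en (m + 1) = a₁ := pvjm_en_last C.g m a₁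
    rw [e1] at h
    exact C.a₁_off j hj (pvjm_left_Q C hj h)

/-- **ONE ARC `a₀ → a₁`**: first hit after `C.tm` steps; vertices and sums over the darts = those of the pieces -/
theorem pvjm_arc (hT : T.IsSph) (hS : T.Simple) (G : PvjmGeo m Y Q) :
    ∃ x : T.Pth, PvlcArc T s a₀ a₁ C.tm x ∧ (∀ v, v ∈ x.verts ↔ (∃ r, r ≤ m + 1 ∧ v ∈ (C.y r).verts) ∨ ∃ j, j ≤ m ∧ v ∈ (C.w j).verts) ∧
      ∀ f : D → ℂ, ∑ k ∈ Finset.range x.n, f (x.e k) =
        ∑ r ∈ Finset.range (m + 2), ∑ k ∈ Finset.range (C.y r).n, f ((C.y r).e k) + ∑ j ∈ Finset.range (m + 1), ∑ k ∈ Finset.range (C.w j).n, f ((C.w j).e k) := by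
  obtain ⟨x, h1, h2, h3⟩ := pvlc_road hT hS (pvjm_road C hT hS G)
  have e0 : C.st 0 = a₀ := pvjm_st_zero C.g a₀
  have e1 : C.en (m + 1) = a₁ := pvjm_en_last C.g m a₁
  rw [e0, e1] at h1
  exact ⟨x, h1, h2, h3⟩

end open_chain

/-! ## 2. the chain of a datum -/

section datum

variable {V D : Type} [DecidableEq V] {T : PvMap V D} {s : V → Bool} {pos : V → ℂ} {m : ℕ} {Y Q : ℕ → Set ℂ} {𝔇 : PvwDat T}

/-- both ends of a position lie over `K` -/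
def pvjmOver (T : PvMap V D) (pos : V → ℂ) (K : Set ℂ) (d : D) : Prop := pos (T.src d) ∈ K ∧ pos (T.tgt d) ∈ K

theorem pvjm_eqns_cite4 : True := by
  have := @pvjmOver.eq_1
  trivial

/-- **BOTH ENDS OF THE NEW POSITIONS LIE OVER `K`** (`K = Yin` of the pattern): the first run after the exit stub of `t`, the middle runs, the door discs, the last run before the entrance stub of `s` -/
structure PvjmIn (C : PvjmOpen T s pos m 𝔇.t.dp 𝔇.s.dm Y Q) (K : Set ℂ) : Prop where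
  np : 𝔇.t.np ≤ C.N 0
  nm : 𝔇.s.nm ≤ C.N (m + 1)
  fst : ∀ i, 𝔇.t.np < i → i < C.N 0 → pvjmOver T pos K (pvasIt T s 𝔇.t.dp i)
  mid : ∀ r, 1 ≤ r → r ≤ m → ∀ i, i < C.N r → pvjmOver T pos K (pvasIt T s (C.st r) i)
  door : ∀ j, j ≤ m → Q j ⊆ K
  lst : ∀ i, i + 𝔇.s.nm < C.N (m + 1) → pvjmOver T pos K (pvasIt T s (C.st (m + 1)) i)

variable {C : PvjmOpen T s pos m 𝔇.t.dp 𝔇.s.dm Y Q} {K : Set ℂ}

theorem pvjm_tm_ge (C : PvjmOpen T s pos m 𝔇.t.dp 𝔇.s.dm Y Q) : C.N 0 + C.N (m + 1) ≤ C.tm := by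
  unfold PvjmOpen.tm pvlcTime
  rw [Finset.sum_range_succ, Finset.sum_range_succ']
  omega

/-- **THE POSITION FORM OF THE JUNCTION** (hypotheses `h1 hl hf hp` of `pvhg_SYn_rec_pl` of 90, of `pvyn_SYn_of_pos`) -/
theorem pvjm_pos (hT : T.IsSph) (hS : T.Simple) (G : PvjmGeo m Y Q) (I : PvjmIn C K) :
    𝔇.t.np + 𝔇.s.nm ≤ C.tm ∧ pvasIt T s 𝔇.t.dp C.tm = 𝔇.s.dm ∧ (∀ i, i < C.tm → pvasIt T s 𝔇.t.dp i ≠ 𝔇.s.dm) ∧
      ∀ i, 𝔇.t.np < i → i + 𝔇.s.nm < C.tm → pos (T.src (pvasIt T s 𝔇.t.dp i)) ∈ K ∧ pos (T.tgt (pvasIt T s 𝔇.t.dp i)) ∈ K := by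
  obtain ⟨x, hx, -, -⟩ := pvjm_arc C hT hS G
  refine ⟨by have := pvjm_tm_ge C; have := I.np; have := I.nm; omega, hx.hit, hx.first, ?_⟩
  have e0 : C.st 0 = 𝔇.t.dp := pvjm_st_zero C.g _
  have key := (pvjm_road C hT hS G).pos (pvjmOver T pos K) 𝔇.t.np 𝔇.s.nm (by rw [e0]; exact I.fst) I.mid ?_ I.lst
  · rw [e0] at key
    exact key
  · intro j hj i hi
    have e : C.en j = (C.g j).aIn := pvjm_en_le C.g _ hj
    rw [e]
    have hL := (pvtg_len hT (C.g j) (C.fin j hj)).2.1 i hi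
    exact ⟨I.door j hj (pvjm_left_Q C hj hL), I.door j hj (pvjm_left_Q C hj (((pl_left_face (C.g j).c) _).2 hL))⟩

/-- **CHAIN, STRAND HALF**: the links are ONE strand `t → s` with ONE rim arc `x`; `J` = the junction (90: `pvhg_SYn_rec_pl`) -/
theorem pvjm_yarc (hT : T.IsSph) (hS : T.Simple) (G : PvjmGeo m Y Q) {π : PvwPat} (I : PvjmIn C π.Yin)
    (J : ∀ n, 𝔇.t.np + 𝔇.s.nm ≤ n → pvasIt T s 𝔇.t.dp n = 𝔇.s.dm → (∀ i, i < n → pvasIt T s 𝔇.t.dp i ≠ 𝔇.s.dm) →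
      (∀ i, 𝔇.t.np < i → i + 𝔇.s.nm < n → pos (T.src (pvasIt T s 𝔇.t.dp i)) ∈ π.Yin ∧ pos (T.tgt (pvasIt T s 𝔇.t.dp i)) ∈ π.Yin) → 𝔇.SYn pos π s n) :
    ∃ x : T.Pth, 𝔇.YArc pos π s x ∧ (∀ v, v ∈ x.verts ↔ (∃ r, r ≤ m + 1 ∧ v ∈ (C.y r).verts) ∨ ∃ j, j ≤ m ∧ v ∈ (C.w j).verts) ∧
      ∀ f : D → ℂ, ∑ k ∈ Finset.range x.n, f (x.e k) =
        ∑ r ∈ Finset.range (m + 2), ∑ k ∈ Finset.range (C.y r).n, f ((C.y r).e k) + ∑ j ∈ Finset.range (m + 1), ∑ k ∈ Finset.range (C.w j).n, f ((C.w j).e k) := by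
  obtain ⟨x, hx, h2, h3⟩ := pvjm_arc C hT hS G
  obtain ⟨p1, p2, p3, p4⟩ := pvjm_pos hT hS G I
  exact ⟨x, ⟨C.tm, J _ p1 p2 p3 p4, hx.le⟩, h2, h3⟩

end datum

/-! ## 3. the names of `Tr/PlugK` -/

section plugk

/-- the rooms of the runs of the word `l` started at the door `(z,d)`: the room `Yo` of the first link, the placed rooms of the cells, the room `Yi` of the last link -/
noncomputable def pvjmY (𝔤 : PvkdGeo) (z d : ℂ) (l : List PvtTurn) (Yo Yi : Set ℂ) (r : ℕ) : Set ℂ :=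
  if r = 0 then Yo else if r ≤ l.length then pvkdAt (pvthZ 𝔤.δ z d l (r - 1)) (pvthD d l (r - 1)) (𝔤.Co (pvthL l (r - 1))) else Yi

/-- the door discs -/
noncomputable def pvjmQ (𝔤 : PvkdGeo) (z d : ℂ) (l : List PvtTurn) (j : ℕ) : Set ℂ := Metric.ball (pvthZ 𝔤.δ z d l j) 𝔤.b

theorem pvjm_eqns_cite5 : True := by
  have := @pvjmY.eq_1; have := @pvjmQ.eq_1
  trivial

theorem pvjm_Y_zero (𝔤 : PvkdGeo) (z d : ℂ) (l : List PvtTurn) (Yo Yi : Set ℂ) : pvjmY 𝔤 z d l Yo Yi 0 = Yo := if_pos rfl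

theorem pvjm_Y_succ (𝔤 : PvkdGeo) (z d : ℂ) (l : List PvtTurn) (Yo Yi : Set ℂ) {j : ℕ} (hj : j < l.length) :
    pvjmY 𝔤 z d l Yo Yi (j + 1) = pvkdAt (pvthZ 𝔤.δ z d l j) (pvthD d l j) (𝔤.Co (pvthL l j)) := by
  unfold pvjmY
  rw [if_neg (by omega), if_pos (by omega), Nat.add_sub_cancel]

theorem pvjm_Y_last (𝔤 : PvkdGeo) (z d : ℂ) (l : List PvtTurn) (Yo Yi : Set ℂ) : pvjmY 𝔤 z d l Yo Yi (l.length + 1) = Yi := by
  unfold pvjmY
  rw [if_neg (by omega), if_neg (by omega)]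

/-- **THE FIRST LINK IN GATE FORM**: the strand from the position `a₀` reaches the entrance of THE gate of the door `(z,d)` for the first time after `n` steps; the black ends of the positions `i < n` lie over `Yo` -/
structure PvjmFst (𝔭 : PvkdPlug) (η : Conf PvPt) (a₀ : (delbPl (cfSites η)).Dart) (z d : ℂ) (Yo : Set ℂ) (g : (pvkiT η).Gate (pvkiS η)) (n : ℕ) : Prop where
  gate : PvkdGate 𝔭 η z d g
  bw : pvasBW (pvkiT η) (pvkiS η) a₀
  hit : pvasIt (pvkiT η) (pvkiS η) a₀ n = g.aIn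
  first : ∀ i, i < n → pvasIt (pvkiT η) (pvkiS η) a₀ i ≠ g.aIn
  room : ∀ i, i < n → (((pvkiT η).src (pvasIt (pvkiT η) (pvkiS η) a₀ i) : ↥(cfSites η)) : ℂ) ∈ Yo

/-- **THE LAST LINK IN GATE FORM**: the strand from the exit of THE gate of the door `(z,d)` reaches the position `a₁` for the first time after `n` steps; the black ends of the positions `i < n` lie over `Yi` -/
structure PvjmLst (𝔭 : PvkdPlug) (η : Conf PvPt) (a₁ : (delbPl (cfSites η)).Dart) (z d : ℂ) (Yi : Set ℂ) (g : (pvkiT η).Gate (pvkiS η)) (n : ℕ) : Prop where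
  gate : PvkdGate 𝔭 η z d g
  hit : pvasIt (pvkiT η) (pvkiS η) g.aOut n = a₁
  first : ∀ i, i < n → pvasIt (pvkiT η) (pvkiS η) g.aOut i ≠ a₁
  room : ∀ i, i < n → (((pvkiT η).src (pvasIt (pvkiT η) (pvkiS η) g.aOut i) : ↥(cfSites η)) : ℂ) ∈ Yi

/-- **THE REGIONS OF AN OPEN CHAIN** (no configuration): `P₀`, `P₁` = rooms of the black ends of the first and of the last position (`g⁺(t)`, `g⁻(s)`) -/
structure PvjmRg (𝔤 : PvkdGeo) (z d : ℂ) (l : List PvtTurn) (Yo Yi P₀ P₁ : Set ℂ) : Prop where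
  zz : Disjoint 𝔤.Zm 𝔤.Zp
  geo : PvjmGeo l.length (pvjmY 𝔤 z d l Yo Yi) (pvjmQ 𝔤 z d l)
  zm : ∀ j, j ≤ l.length → Disjoint (pvkdAt (pvthZ 𝔤.δ z d l j) (pvthD d l j) 𝔤.Zm) (pvjmY 𝔤 z d l Yo Yi (j + 1))
  zp : ∀ j, j ≤ l.length → Disjoint (pvkdAt (pvthZ 𝔤.δ z d l j) (pvthD d l j) 𝔤.Zp) (pvjmY 𝔤 z d l Yo Yi j)
  P₀Q : ∀ j, j ≤ l.length → Disjoint P₀ (pvjmQ 𝔤 z d l j)
  P₁Q : ∀ j, j ≤ l.length → Disjoint P₁ (pvjmQ 𝔤 z d l j)
  P₁Y : ∀ r, r ≤ l.length → Disjoint P₁ (pvjmY 𝔤 z d l Yo Yi r)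

variable {𝔤 : PvkdGeo} {z d : ℂ} {l : List PvtTurn} {Yo Yi P₀ P₁ : Set ℂ} {η : Conf PvPt}

/-- the exit door of the cell `j` is the door `j + 1` -/
theorem pvjm_exit (𝔤 : PvkdGeo) (z d : ℂ) (l : List PvtTurn) {j : ℕ} (hj : j < l.length) :
    𝔤.zo (pvthZ 𝔤.δ z d l j) (pvthD d l j) (pvthL l j) = pvthZ 𝔤.δ z d l (j + 1) ∧ pvthD d l j * (pvthL l j).rot = pvthD d l (j + 1) :=
  pvthx_exit153 (𝔤.glob fun _ => ∅).pre z d l hj

/-- **CELLS + TWO END LINKS ⟹ AN OPEN CHAIN**: one gate per door (`pvkx_uniq`) -/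
theorem pvjm_open (hN : PvatNice (cfSites η)) (R : PvjmRg 𝔤 z d l Yo Yi P₀ P₁) {a₀ a₁ : (delbPl (cfSites η)).Dart}
    (h₀ : (((pvkiT η).src a₀ : ↥(cfSites η)) : ℂ) ∈ P₀) (h₁ : (((pvkiT η).src a₁ : ↥(cfSites η)) : ℂ) ∈ P₁)
    (cells : ∀ j, j < l.length → η ∈ 𝔤.A (pvthZ 𝔤.δ z d l j) (pvthD d l j) (pvthL l j))
    {g₀ g₁ : (pvkiT η).Gate (pvkiS η)} {n₀ n₁ : ℕ} (F : PvjmFst 𝔤.toPvkdPlug η a₀ (pvthZ 𝔤.δ z d l 0) (pvthD d l 0) Yo g₀ n₀)
    (E : PvjmLst 𝔤.toPvkdPlug η a₁ (pvthZ 𝔤.δ z d l l.length) (pvthD d l l.length) Yi g₁ n₁) :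
    ∃ C : PvjmOpen (pvkiT η) (pvkiS η) Subtype.val l.length a₀ a₁ (pvjmY 𝔤 z d l Yo Yi) (pvjmQ 𝔤 z d l),
      (∀ j, j ≤ l.length → PvkdGate 𝔤.toPvkdPlug η (pvthZ 𝔤.δ z d l j) (pvthD d l j) (C.g j)) ∧ C.g 0 = g₀ ∧ C.g l.length = g₁ ∧ C.N 0 = n₀ ∧ C.N (l.length + 1) = n₁ ∧
      ∀ j, j < l.length → 𝔤.Link η (pvthZ 𝔤.δ z d l j) (pvthD d l j) (pvthL l j) (C.g j) (C.g (j + 1)) (C.N (j + 1)) := by
  classical
  have hT : (pvkiT η).IsSph := delb_plane_isSph hN.good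
  have hex : ∀ j, j < l.length → ∃ g g' N, 𝔤.Link η (pvthZ 𝔤.δ z d l j) (pvthD d l j) (pvthL l j) g g' N := fun j hj => (cells j hj).2
  have : Nonempty ((pvkiT η).Gate (pvkiS η)) := ⟨g₁⟩
  choose! c0 c1 cN hl using hex
  set g : ℕ → (pvkiT η).Gate (pvkiS η) := fun j => if j < l.length then c0 j else g₁ with hgdef
  set N : ℕ → ℕ := fun r => if r = 0 then n₀ else if r ≤ l.length then cN (r - 1) else n₁ with hNdef
  have hg : ∀ j, j < l.length → g j = c0 j := fun j hj => if_pos hj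
  have hgl : g l.length = g₁ := if_neg (lt_irrefl _)
  have hgate : ∀ j, j ≤ l.length → PvkdGate 𝔤.toPvkdPlug η (pvthZ 𝔤.δ z d l j) (pvthD d l j) (g j) := by
    intro j hj
    rcases Nat.lt_or_ge j l.length with h | h
    · rw [hg j h]
      exact (hl j h).1
    · obtain rfl : j = l.length := by omega
      rw [hgl]
      exact E.gate
  have hg0 : g 0 = g₀ := pvkx_uniq hN R.zz (hgate 0 (Nat.zero_le _)) F.gate
  have hnext : ∀ j, j < l.length → c1 j = g (j + 1) := by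
    intro j hj
    obtain ⟨e1, e2⟩ := pvjm_exit 𝔤 z d l hj
    have h1 := (hl j hj).2.1
    rw [e1, e2] at h1
    exact pvkx_uniq hN R.zz h1 (hgate (j + 1) hj)
  have hN0 : N 0 = n₀ := if_pos rfl
  have hNs : ∀ j, j < l.length → N (j + 1) = cN j := fun j hj => by
    show (if j + 1 = 0 then n₀ else if j + 1 ≤ l.length then cN (j + 1 - 1) else n₁) = cN j
    rw [if_neg (by omega), if_pos (by omega), Nat.add_sub_cancel]
  have hNl : N (l.length + 1) = n₁ := by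
    show (if l.length + 1 = 0 then n₀ else if l.length + 1 ≤ l.length then cN (l.length + 1 - 1) else n₁) = n₁
    rw [if_neg (by omega), if_neg (by omega)]
  have hl' : ∀ j, j < l.length → 𝔤.Link η (pvthZ 𝔤.δ z d l j) (pvthD d l j) (pvthL l j) (g j) (g (j + 1)) (N (j + 1)) := by
    intro j hj
    rw [hg j hj, ← hnext j hj, hNs j hj]
    exact hl j hj
  have key : ∀ r, r ≤ l.length + 1 → pvasIt (pvkiT η) (pvkiS η) (pvjmSt g a₀ r) (N r) = pvjmEn g l.length a₁ r ∧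
      (∀ i, i < N r → pvasIt (pvkiT η) (pvkiS η) (pvjmSt g a₀ r) i ≠ pvjmEn g l.length a₁ r) ∧
      ∀ i, i < N r → (((pvkiT η).src (pvasIt (pvkiT η) (pvkiS η) (pvjmSt g a₀ r) i) : ↥(cfSites η)) : ℂ) ∈ pvjmY 𝔤 z d l Yo Yi r := by
    intro r hr
    rcases Nat.eq_zero_or_pos r with rfl | hr0
    · rw [pvjm_st_zero, pvjm_en_le g a₁ (Nat.zero_le _), hg0, hN0, pvjm_Y_zero]
      exact ⟨F.hit, F.first, F.room⟩
    · obtain ⟨j, rfl⟩ : ∃ j, r = j + 1 := ⟨r - 1, by omega⟩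
      rw [pvjm_st_succ]
      rcases Nat.lt_or_ge j l.length with h | h
      · obtain ⟨-, r2, r3, -⟩ := (hl' j h).2.2
        rw [pvjm_en_le g a₁ h, pvjm_Y_succ 𝔤 z d l Yo Yi h]
        refine ⟨r2, r3, fun i hi => ?_⟩
        have h4 := (pvld_run_lay (hl' j h).2.2.run).1
        rw [(hl' j h).2.2.hit] at h4
        exact (h4 ⟨i, hi.le, rfl⟩).1
      · obtain rfl : j = l.length := by omega
        rw [pvjm_en_last, hgl, hNl, pvjm_Y_last]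
        exact ⟨E.hit, E.first, E.room⟩
  refine ⟨{ g := g, N := N, fin := fun j hj => pvkx_gate_fin hN (hgate j hj), thru := fun j hj => ((hgate j hj).thru.choose_spec.len hT).2,
            gate := fun j hj v hv => pvkx_gate_ball (hgate j hj) hv, bw := F.bw, hit := fun r hr => (key r hr).1, first := fun r hr => (key r hr).2.1, room := fun r hr => (key r hr).2.2,
            vm_off := fun j hj hc => Set.disjoint_left.1 (R.zm j hj) (hgate j hj).vm hc, vp_off := fun j hj hc => Set.disjoint_left.1 (R.zp j hj) (hgate j hj).vp hc,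
            a₀_off := fun j hj hc => Set.disjoint_left.1 (R.P₀Q j hj) h₀ hc, a₁_off := fun j hj hc => Set.disjoint_left.1 (R.P₁Q j hj) h₁ hc,
            a₁_room := fun r hr hc => Set.disjoint_left.1 (R.P₁Y r hr) h₁ hc }, hgate, hg0, hgl, hN0, hNl, hl'⟩

end plugk

/-! ## 4. the two end links of a datum -/

section ends

variable {V D : Type} {T : PvMap V D} {s : V → Bool} {pos : V → ℂ} {N : PvwNum} {h : ℝ} {π : PvwPat} {𝔇 : PvwDat T}

/-- backwards along a strand -/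
theorem pvjm_back_it {a : D} (ha : pvasBW T s a) {n : ℕ} : ∀ j, j ≤ n → (pvasBack T s)^[j] (pvasIt T s a n) = pvasIt T s a (n - j)
  | 0, _ => rfl
  | j + 1, hj => by
    rw [Function.iterate_succ_apply', pvjm_back_it ha j (by omega)]
    have e : n - j = (n - (j + 1)) + 1 := by omega
    rw [e, pvas_it_succ, pvas_back_step (pvas_it_bw ha _)]

/-- the positions of a run which starts at the exit gate edge of `t`: the exit stub lies over the box of `t` -/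
theorem pvjm_fst_stub (hOk : 𝔇.Ok pos N h π) (hσ : s ∈ 𝔇.Cyl) {i : ℕ} (hi : i ≤ 𝔇.t.np) : pvjmOver T pos (pvwSq π.zt (pvwRad N h π.tt π.tt.k)) (pvasIt T s 𝔇.t.dp i) := by
  rw [pvwf_run_fst 𝔇 hOk hσ hi]
  exact hOk.st_t.stub.ep_in i hi

/-- the positions of a run which ends at the entry gate edge of `s`: the entrance stub lies over the box of `s` -/
theorem pvjm_lst_stub (hOk : 𝔇.Ok pos N h π) (hσ : s ∈ 𝔇.Cyl) {a : D} (ha : pvasBW T s a) {n : ℕ} (hn : pvasIt T s a n = 𝔇.s.dm) {i : ℕ} (hi : i ≤ n) (hi' : n ≤ i + 𝔇.s.nm) :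
    pvjmOver T pos (pvwSq π.zs (pvwRad N h π.ts π.ts.k)) (pvasIt T s a i) := by
  have h2 := pvwk_stubM_congr hOk.st_s.stub (s' := s) fun v hv => (hσ.1 v (Or.inr (pvwk_banksM_sub_fzIn 𝔇.s hv))).symm
  have e : pvasIt T s a i = 𝔇.s.em (n - i) := by
    rw [h2.em_it (n - i) (by omega), ← hn, pvjm_back_it ha (n - i) (by omega)]
    congr 1
    omega
  rw [e]
  exact hOk.st_s.stub.em_in (n - i) (by omega)

/-- `g⁺(t)` lies in the gate disc of `t` -/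
theorem pvjm_gp_ball (hOk : 𝔇.Ok pos N h π) : pos (T.src 𝔇.t.dp) ∈ Metric.ball π.zt (π.tt.b * h) :=
  mem_ball_iff_norm.2 (hOk.st_t.gate.ann _ (pvuq_gate_mem hOk.st_t.gate).1).2

/-- `g⁻(s)` lies in the gate disc of `s` -/
theorem pvjm_gm_ball (hOk : 𝔇.Ok pos N h π) : pos (T.src 𝔇.s.dm) ∈ Metric.ball π.zs (π.ts.b * h) :=
  mem_ball_iff_norm.2 (hOk.st_s.gate.ann _ (pvuq_gate_mem hOk.st_s.gate).2.1).2

end ends

/-! ## 5. the links of `Tr/InstL` v2.2, black form -/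

section instl

open scoped ComplexConjugate

variable {η : Conf PvPt} {N : PvwNum}

theorem pvjm_std_pos (q : PviePl) (η : Conf PvPt) : q.std.pos η = Subtype.val := by
  funext v
  show conj (1 : ℂ) * (v : ℂ) = v
  rw [map_one, one_mul]

theorem pvjm_std_zf (q : PviePl) : q.std.zf = q.z := by
  show conj (1 : ℂ) * q.z = q.z
  rw [map_one, one_mul]

/-- **a link `pin → door`, unfolded** -/
theorem pvjm_arc_fst {L : PvilLk} (h1 : L.dr = false) (h2 : L.dr' = true) {𝔖 𝔖' : PvwSt (pvieT η)} {y : (pvieT η).Pth} (hA : L.Arc N true η 𝔖 𝔖' y) :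
    PvilOut N true L.p η 𝔖 ∧ η ∈ (pvkdP L.p'.h).N L.p'.z L.p'.fr ∧ ∃ (g : (pvkiT η).Gate (pvkiS η)) (n : ℕ), PvkdGate (pvkdP L.p'.h) η L.p'.z L.p'.fr g ∧ 𝔖' = pvkdSt (pvkdP L.p'.h) η L.p'.z g ∧
      𝔖.np ≤ n ∧ pvasIt (pvkiT η) (pvkiS η) 𝔖.dp n = g.aIn ∧ (∀ i, i < n → pvasIt (pvkiT η) (pvkiS η) 𝔖.dp i ≠ g.aIn) ∧
      (∀ i, 𝔖.np < i → i < n → pvjmOver (pvkiT η) Subtype.val L.Yin (pvasIt (pvkiT η) (pvkiS η) 𝔖.dp i)) ∧
      PvwLE (pvkiT η) (fun i => (pvkiT η).src (pvasIt (pvkiT η) (pvkiS η) 𝔖.dp i)) n y := by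
  have a1 := (PvilLk.atP_pin h1 N true η 𝔖).1 hA.at_p
  obtain ⟨hN, g, hg, rfl⟩ := (pvil_door_true _ η _ _ 𝔖').1 ((PvilLk.atP'_door h2 N true η 𝔖').1 hA.at_p')
  obtain ⟨n, ⟨r1, r2, r3, r4⟩, r5⟩ := hA.run
  rw [pvkk_col] at r2 r3 r4 r5
  exact ⟨a1, hN, g, n, hg, rfl, r1, r2, r3, fun i hi hi' => r4 i hi hi', r5⟩

/-- **a link `door → pin`, unfolded** -/
theorem pvjm_arc_lst {L : PvilLk} (h1 : L.dr = true) (h2 : L.dr' = false) {𝔖 𝔖' : PvwSt (pvieT η)} {y : (pvieT η).Pth} (hA : L.Arc N true η 𝔖 𝔖' y) :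
    PvilIn N true L.p' η 𝔖' ∧ η ∈ (pvkdP L.p.h).N L.p.z L.p.fr ∧ ∃ (g : (pvkiT η).Gate (pvkiS η)) (n : ℕ), PvkdGate (pvkdP L.p.h) η L.p.z L.p.fr g ∧ 𝔖 = pvkdSt (pvkdP L.p.h) η L.p.z g ∧
      𝔖'.nm ≤ n ∧ pvasIt (pvkiT η) (pvkiS η) g.aOut n = 𝔖'.dm ∧ (∀ i, i < n → pvasIt (pvkiT η) (pvkiS η) g.aOut i ≠ 𝔖'.dm) ∧
      (∀ i, 0 < i → i + 𝔖'.nm < n → pvjmOver (pvkiT η) Subtype.val L.Yin (pvasIt (pvkiT η) (pvkiS η) g.aOut i)) ∧
      PvwLE (pvkiT η) (fun i => (pvkiT η).src (pvasIt (pvkiT η) (pvkiS η) g.aOut i)) n y := by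
  have a1 := (PvilLk.atP'_pin h2 N true η 𝔖').1 hA.at_p'
  obtain ⟨hN, g, hg, rfl⟩ := (pvil_door_true _ η _ _ 𝔖).1 ((PvilLk.atP_door h1 N true η 𝔖).1 hA.at_p)
  obtain ⟨n, ⟨r1, r2, r3, r4⟩, r5⟩ := hA.run
  rw [pvkk_col] at r2 r3 r4 r5
  exact ⟨a1, hN, g, n, hg, rfl, (Nat.zero_add 𝔖'.nm) ▸ (show 0 + 𝔖'.nm ≤ n from r1), r2, r3, fun i hi hi' => r4 i hi hi', r5⟩

variable {𝔇 : PvwDat (pvkiT η)} {h : ℝ} {π : PvwPat}

/-- the exit half state of the pin `t` read by a link IS the one of the datum -/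
theorem pvjm_same_t (hg : DelGood (cfSites η)) (hOk : 𝔇.Ok Subtype.val N h π) (hσ : pvkiS η ∈ 𝔇.Cyl) {q : PviePl} (e1 : q.h = h) (e2 : q.z = π.zt) (e3 : q.ty = π.tt)
    {𝔖 : PvwSt (pvieT η)} (ho : PvilOut N true q.std η 𝔖) : PvuqG 𝔇.t 𝔖 ∧ PvuqP 𝔇.t 𝔖 := by
  have hT : (pvkiT η).IsSph := delb_plane_isSph hg
  have hS : (pvkiT η).Simple := pvgy_m_simple _
  have b1 : 𝔇.t.AtOut Subtype.val N h π.zt π.tt (pvkiS η) := pvwk_atOut_congr hT hOk.st_t fun v hv => (hσ.1 v (Or.inl hv)).symm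
  have b2 := ho.st
  rw [pvjm_std_pos, pvjm_std_zf, pvkk_col] at b2
  have b3 : 𝔖.AtOut Subtype.val N h π.zt π.tt (pvkiS η) := by
    rw [← e1, ← e2, ← e3]
    exact b2
  exact pvuq_atOut hT hS Subtype.val_injective b1 b3

/-- the entrance half state of the pin `s` read by a link IS the one of the datum -/
theorem pvjm_same_s (hg : DelGood (cfSites η)) (hOk : 𝔇.Ok Subtype.val N h π) (hσ : pvkiS η ∈ 𝔇.Cyl) {q : PviePl} (e1 : q.h = h) (e2 : q.z = π.zs) (e3 : q.ty = π.ts)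
    {𝔖 : PvwSt (pvieT η)} (ho : PvilIn N true q.std η 𝔖) : PvuqG 𝔇.s 𝔖 ∧ PvuqM 𝔇.s 𝔖 := by
  have hT : (pvkiT η).IsSph := delb_plane_isSph hg
  have hS : (pvkiT η).Simple := pvgy_m_simple _
  have b1 : 𝔇.s.AtIn Subtype.val N h π.zs π.ts (pvkiS η) := pvwk_atIn_congr hT hOk.st_s fun v hv => (hσ.1 v (Or.inr hv)).symm
  have b2 := ho.st
  rw [pvjm_std_pos, pvjm_std_zf, pvkk_col] at b2
  have b3 : 𝔖.AtIn Subtype.val N h π.zs π.ts (pvkiS η) := by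
    rw [← e1, ← e2, ← e3]
    exact b2
  exact pvuq_atIn hT hS Subtype.val_injective b1 b3

end instl

/-! ## 6. the regions, split: cells / ends -/

section split

/-- the placed room of the cell `i` of the word -/
noncomputable def pvjmC (𝔤 : PvkdGeo) (z d : ℂ) (l : List PvtTurn) (i : ℕ) : Set ℂ := pvkdAt (pvthZ 𝔤.δ z d l i) (pvthD d l i) (𝔤.Co (pvthL l i))

theorem pvjm_eqns_cite6 : True := by
  have := @pvjmC.eq_1
  trivial

/-- **THE REGIONS OF THE CELLS AND OF THE DOORS OF A WORD** (no end link) -/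
structure PvjmRgC (𝔤 : PvkdGeo) (z d : ℂ) (l : List PvtTurn) : Prop where
  zz : Disjoint 𝔤.Zm 𝔤.Zp
  CC : ∀ i j, i < l.length → j < l.length → i ≠ j → Disjoint (pvjmC 𝔤 z d l i) (pvjmC 𝔤 z d l j)
  QQ : ∀ i j, i ≤ l.length → j ≤ l.length → i ≠ j → Disjoint (pvjmQ 𝔤 z d l i) (pvjmQ 𝔤 z d l j)
  QC : ∀ j i, j ≤ l.length → i < l.length → j ≠ i → j ≠ i + 1 → Disjoint (pvjmQ 𝔤 z d l j) (pvjmC 𝔤 z d l i)
  zm : ∀ j, j < l.length → Disjoint (pvkdAt (pvthZ 𝔤.δ z d l j) (pvthD d l j) 𝔤.Zm) (pvjmC 𝔤 z d l j)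
  zp : ∀ j, j < l.length → Disjoint (pvkdAt (pvthZ 𝔤.δ z d l (j + 1)) (pvthD d l (j + 1)) 𝔤.Zp) (pvjmC 𝔤 z d l j)

/-- **THE REGIONS OF THE TWO END LINKS** against each other, the cells and the doors -/
structure PvjmRgE (𝔤 : PvkdGeo) (z d : ℂ) (l : List PvtTurn) (Yo Yi P₀ P₁ : Set ℂ) : Prop where
  oi : Disjoint Yo Yi
  oC : ∀ i, i < l.length → Disjoint Yo (pvjmC 𝔤 z d l i)
  iC : ∀ i, i < l.length → Disjoint Yi (pvjmC 𝔤 z d l i)
  oQ : ∀ j, 1 ≤ j → j ≤ l.length → Disjoint (pvjmQ 𝔤 z d l j) Yo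
  iQ : ∀ j, j < l.length → Disjoint (pvjmQ 𝔤 z d l j) Yi
  zp : Disjoint (pvkdAt (pvthZ 𝔤.δ z d l 0) (pvthD d l 0) 𝔤.Zp) Yo
  zm : Disjoint (pvkdAt (pvthZ 𝔤.δ z d l l.length) (pvthD d l l.length) 𝔤.Zm) Yi
  P₀Q : ∀ j, j ≤ l.length → Disjoint P₀ (pvjmQ 𝔤 z d l j)
  P₁Q : ∀ j, j ≤ l.length → Disjoint P₁ (pvjmQ 𝔤 z d l j)
  P₁o : Disjoint P₁ Yo
  P₁C : ∀ i, i < l.length → Disjoint P₁ (pvjmC 𝔤 z d l i)

variable {𝔤 : PvkdGeo} {z d : ℂ} {l : List PvtTurn} {Yo Yi P₀ P₁ : Set ℂ}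

theorem pvjm_Y_cell (𝔤 : PvkdGeo) (z d : ℂ) (l : List PvtTurn) (Yo Yi : Set ℂ) {j : ℕ} (hj : j < l.length) : pvjmY 𝔤 z d l Yo Yi (j + 1) = pvjmC 𝔤 z d l j :=
  pvjm_Y_succ 𝔤 z d l Yo Yi hj

theorem pvjm_idx {n r : ℕ} (hr : r ≤ n + 1) : r = 0 ∨ (∃ j, j < n ∧ r = j + 1) ∨ r = n + 1 := by
  rcases Nat.eq_zero_or_pos r with h | h
  · exact Or.inl h
  · rcases Nat.lt_or_ge r (n + 1) with h' | h'
    · exact Or.inr (Or.inl ⟨r - 1, by omega, by omega⟩)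
    · exact Or.inr (Or.inr (by omega))

/-- **cells + ends ⟹ the regions of an open chain** -/
theorem pvjm_rg_mk (hC : PvjmRgC 𝔤 z d l) (hE : PvjmRgE 𝔤 z d l Yo Yi P₀ P₁) : PvjmRg 𝔤 z d l Yo Yi P₀ P₁ where
  zz := hC.zz
  geo :=
    { YY := by
        intro i j hi hj hne
        rcases pvjm_idx hi with rfl | ⟨i, hi', rfl⟩ | rfl <;> rcases pvjm_idx hj with rfl | ⟨j, hj', rfl⟩ | rfl
        · exact absurd rfl hne
        · rw [pvjm_Y_zero, pvjm_Y_cell _ _ _ _ _ _ hj']; exact hE.oC j hj'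
        · rw [pvjm_Y_zero, pvjm_Y_last]; exact hE.oi
        · rw [pvjm_Y_zero, pvjm_Y_cell _ _ _ _ _ _ hi']; exact (hE.oC i hi').symm
        · rw [pvjm_Y_cell _ _ _ _ _ _ hi', pvjm_Y_cell _ _ _ _ _ _ hj']; exact hC.CC i j hi' hj' (by omega)
        · rw [pvjm_Y_last, pvjm_Y_cell _ _ _ _ _ _ hi']; exact (hE.iC i hi').symm
        · rw [pvjm_Y_zero, pvjm_Y_last]; exact hE.oi.symm
        · rw [pvjm_Y_last, pvjm_Y_cell _ _ _ _ _ _ hj']; exact hE.iC j hj'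
        · exact absurd rfl hne
      QQ := hC.QQ
      QY := by
        intro j r hj hr h1 h2
        rcases pvjm_idx hr with rfl | ⟨i, hi', rfl⟩ | rfl
        · rw [pvjm_Y_zero]; exact hE.oQ j (by omega) hj
        · rw [pvjm_Y_cell _ _ _ _ _ _ hi']; exact hC.QC j i hj hi' (by omega) (by omega)
        · rw [pvjm_Y_last]; exact hE.iQ j (by omega) }
  zm := by
    intro j hj
    rcases Nat.lt_or_ge j l.length with h | h
    · rw [pvjm_Y_cell _ _ _ _ _ _ h]; exact hC.zm j h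
    · obtain rfl : j = l.length := by omega
      rw [pvjm_Y_last]; exact hE.zm
  zp := by
    intro j hj
    rcases Nat.eq_zero_or_pos j with rfl | h
    · rw [pvjm_Y_zero]; exact hE.zp
    · obtain ⟨i, rfl⟩ : ∃ i, j = i + 1 := ⟨j - 1, by omega⟩
      rw [pvjm_Y_cell _ _ _ _ _ _ (show i < l.length by omega)]; exact hC.zp i (by omega)
  P₀Q := hE.P₀Q
  P₁Q := hE.P₁Q
  P₁Y := by
    intro r hr
    rcases Nat.eq_zero_or_pos r with rfl | h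
    · rw [pvjm_Y_zero]; exact hE.P₁o
    · obtain ⟨i, rfl⟩ : ∃ i, r = i + 1 := ⟨r - 1, by omega⟩
      rw [pvjm_Y_cell _ _ _ _ _ _ (show i < l.length by omega)]; exact hE.P₁C i (by omega)

end split

/-! ## 7. the word of 244 (`PvukDict.word`), every colour -/

section wordb

variable {𝔤 : PvkdGeo} {z d : ℂ} {l : List PvtTurn} {Yo Yi P₀ P₁ : Set ℂ} {η : Conf PvPt} {b : Bool}

theorem pvjm_gateB_ball {𝔭 : PvkdPlug} {z d : ℂ} {g : (pvkiT η).Gate (pvukS b η)} (h : PvukGate 𝔭 b η z d g) {v : ↥(cfSites η)} (hv : v ∈ (pvkiT η).VOf g.c.Left) : (v : ℂ) ∈ Metric.ball z 𝔭.b := by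
  obtain ⟨e, he, rfl⟩ := hv
  exact h.least.reg.outer e he

theorem pvjm_gateB_fin (hN : PvatNice (cfSites η)) {𝔭 : PvkdPlug} {z d : ℂ} {g : (pvkiT η).Gate (pvukS b η)} (h : PvukGate 𝔭 b η z d g) : g.c.Left.Finite := by
  have hT : (pvkiT η).IsSph := delb_plane_isSph hN.good
  have hF : {v : ↥(cfSites η) | (v : ℂ) ∈ Metric.ball z 𝔭.b}.Finite := by
    have h1 := hN.finite (W := Metric.ball z 𝔭.b) Metric.isBounded_ball
    refine Set.Finite.of_finite_image (f := Subtype.val) (h1.subset ?_) Subtype.val_injective.injOn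
    rintro _ ⟨v, hv, rfl⟩
    exact ⟨v.2, hv⟩
  refine (hF.biUnion fun v _ => pl_deg_finite hT v).subset fun e he => ?_
  exact Set.mem_biUnion (pvjm_gateB_ball h ⟨e, he, rfl⟩) rfl

/-- the gates of record of the doors of a word -/
theorem pvjm_wordB_gate (hl : 0 < l.length) {g : ℕ → (pvkiT η).Gate (pvukS b η)} {K : ℕ → ℕ}
    (lk : ∀ j, j < l.length → PvukLink 𝔤 b η (pvthZ 𝔤.δ z d l j) (pvthD d l j) (pvthL l j) (g j) (g (j + 1)) (K j)) {j : ℕ} (hj : j ≤ l.length) :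
    PvukGate 𝔤.toPvkdPlug b η (pvthZ 𝔤.δ z d l j) (pvthD d l j) (g j) := by
  rcases Nat.lt_or_ge j l.length with c | c
  · exact (lk j c).1
  · obtain ⟨i, hi⟩ : ∃ i, l.length = i + 1 := ⟨l.length - 1, by omega⟩
    obtain rfl : j = i + 1 := by omega
    have := (lk i (by omega)).2.1
    rwa [(pvuk_exit 𝔤 z d l (show i < l.length by omega)).1, (pvuk_exit 𝔤 z d l (show i < l.length by omega)).2] at this

/-- both ends of the positions of the run of a cell lie over its room -/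
theorem pvjm_runB_over {g g' : (pvkiT η).Gate (pvukS b η)} {Co : Set ℂ} {K : ℕ} (hr : PvzlRun (pvkiT η) Subtype.val (pvukS b η) Co g g' K) {i : ℕ} (hi : i ≤ K) :
    pvjmOver (pvkiT η) Subtype.val Co (pvasIt (pvkiT η) (pvukS b η) g.aOut i) := by
  have h4 := pvld_run_lay hr.run
  rw [hr.hit] at h4
  exact ⟨(h4.1 ⟨i, hi, rfl⟩).1, (h4.2 ⟨i, hi, rfl⟩).1⟩

/-- **THE WORD OF 244 + TWO END RUNS ⟹ AN OPEN CHAIN**, every colour -/
theorem pvjm_openB (hN : PvatNice (cfSites η)) (R : PvjmRg 𝔤 z d l Yo Yi P₀ P₁) (hl : 0 < l.length) {a₀ a₁ : (delbPl (cfSites η)).Dart}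
    (h₀ : (((pvkiT η).src a₀ : ↥(cfSites η)) : ℂ) ∈ P₀) (h₁ : (((pvkiT η).src a₁ : ↥(cfSites η)) : ℂ) ∈ P₁)
    {g : ℕ → (pvkiT η).Gate (pvukS b η)} {K : ℕ → ℕ}
    (lk : ∀ j, j < l.length → PvukLink 𝔤 b η (pvthZ 𝔤.δ z d l j) (pvthD d l j) (pvthL l j) (g j) (g (j + 1)) (K j))
    {n₀ n₁ : ℕ} (bw : pvasBW (pvkiT η) (pvukS b η) a₀)
    (f1 : pvasIt (pvkiT η) (pvukS b η) a₀ n₀ = (g 0).aIn) (f2 : ∀ i, i < n₀ → pvasIt (pvkiT η) (pvukS b η) a₀ i ≠ (g 0).aIn)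
    (f3 : ∀ i, i < n₀ → (((pvkiT η).src (pvasIt (pvkiT η) (pvukS b η) a₀ i) : ↥(cfSites η)) : ℂ) ∈ Yo)
    (e1 : pvasIt (pvkiT η) (pvukS b η) (g l.length).aOut n₁ = a₁) (e2 : ∀ i, i < n₁ → pvasIt (pvkiT η) (pvukS b η) (g l.length).aOut i ≠ a₁)
    (e3 : ∀ i, i < n₁ → (((pvkiT η).src (pvasIt (pvkiT η) (pvukS b η) (g l.length).aOut i) : ↥(cfSites η)) : ℂ) ∈ Yi) :
    ∃ C : PvjmOpen (pvkiT η) (pvukS b η) Subtype.val l.length a₀ a₁ (pvjmY 𝔤 z d l Yo Yi) (pvjmQ 𝔤 z d l),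
      C.g = g ∧ C.N 0 = n₀ ∧ C.N (l.length + 1) = n₁ ∧ ∀ j, j < l.length → C.N (j + 1) = K j := by
  have hT : (pvkiT η).IsSph := delb_plane_isSph hN.good
  set N : ℕ → ℕ := fun r => if r = 0 then n₀ else if r ≤ l.length then K (r - 1) else n₁ with hNdef
  have hgate : ∀ j, j ≤ l.length → PvukGate 𝔤.toPvkdPlug b η (pvthZ 𝔤.δ z d l j) (pvthD d l j) (g j) := fun j hj => pvjm_wordB_gate hl lk hj
  have hN0 : N 0 = n₀ := if_pos rfl
  have hNs : ∀ j, j < l.length → N (j + 1) = K j := fun j hj => by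
    show (if j + 1 = 0 then n₀ else if j + 1 ≤ l.length then K (j + 1 - 1) else n₁) = K j
    rw [if_neg (by omega), if_pos (by omega), Nat.add_sub_cancel]
  have hNl : N (l.length + 1) = n₁ := by
    show (if l.length + 1 = 0 then n₀ else if l.length + 1 ≤ l.length then K (l.length + 1 - 1) else n₁) = n₁
    rw [if_neg (by omega), if_neg (by omega)]
  have key : ∀ r, r ≤ l.length + 1 → pvasIt (pvkiT η) (pvukS b η) (pvjmSt g a₀ r) (N r) = pvjmEn g l.length a₁ r ∧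
      (∀ i, i < N r → pvasIt (pvkiT η) (pvukS b η) (pvjmSt g a₀ r) i ≠ pvjmEn g l.length a₁ r) ∧
      ∀ i, i < N r → (((pvkiT η).src (pvasIt (pvkiT η) (pvukS b η) (pvjmSt g a₀ r) i) : ↥(cfSites η)) : ℂ) ∈ pvjmY 𝔤 z d l Yo Yi r := by
    intro r hr
    rcases Nat.eq_zero_or_pos r with rfl | hr0
    · rw [pvjm_st_zero, pvjm_en_le g a₁ (Nat.zero_le _), hN0, pvjm_Y_zero]
      exact ⟨f1, f2, f3⟩
    · obtain ⟨j, rfl⟩ : ∃ j, r = j + 1 := ⟨r - 1, by omega⟩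
      rw [pvjm_st_succ]
      rcases Nat.lt_or_ge j l.length with h | h
      · obtain ⟨-, r2, r3, -⟩ := (lk j h).2.2
        rw [pvjm_en_le g a₁ h, pvjm_Y_succ 𝔤 z d l Yo Yi h, hNs j h]
        exact ⟨r2, r3, fun i hi => (pvjm_runB_over (lk j h).2.2 hi.le).1⟩
      · obtain rfl : j = l.length := by omega
        rw [pvjm_en_last, hNl, pvjm_Y_last]
        exact ⟨e1, e2, e3⟩
  exact ⟨{ g := g, N := N, fin := fun j hj => pvjm_gateB_fin hN (hgate j hj), thru := fun j hj => ((hgate j hj).thru.choose_spec.len hT).2,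
            gate := fun j hj v hv => pvjm_gateB_ball (hgate j hj) hv, bw := bw, hit := fun r hr => (key r hr).1, first := fun r hr => (key r hr).2.1, room := fun r hr => (key r hr).2.2,
            vm_off := fun j hj hc => Set.disjoint_left.1 (R.zm j hj) (hgate j hj).vm hc, vp_off := fun j hj hc => Set.disjoint_left.1 (R.zp j hj) (hgate j hj).vp hc,
            a₀_off := fun j hj hc => Set.disjoint_left.1 (R.P₀Q j hj) h₀ hc, a₁_off := fun j hj hc => Set.disjoint_left.1 (R.P₁Q j hj) h₁ hc,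
            a₁_room := fun r hr hc => Set.disjoint_left.1 (R.P₁Y r hr) h₁ hc }, rfl, hN0, hNl, hNs⟩

end wordb

/-! ## 8. CHAIN, deterministic form, every colour -/

section chain

open scoped ComplexConjugate

variable {η : Conf PvPt} {b : Bool} {N : PvwNum}

/-- the exit half state of a plug is a property of what a consumer sees -/
theorem pvjm_out_congr {p : PvilPl} {𝔖 𝔗 : PvwSt (pvieT η)} (h : PvilOut N b p η 𝔖) (st : 𝔗.AtOut (p.pos η) N p.h p.zf p.ty (pvieCol η b)) (G : PvuqG 𝔗 𝔖) (P : PvuqP 𝔗 𝔖) :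
    PvilOut N b p η 𝔗 where
  good := h.good
  st := st
  tip := by rw [P.ep _ le_rfl, P.np]; exact h.tip
  mask := fun y hy => h.mask y (by rw [← P.np]; exact (pvt_sd_le_congr (fun i hi => congrArg _ (P.ep i hi)) y).1 hy)
  mask_i := fun i h1 h2 h3 => by
    rw [G.inn_v i h2] at h3 ⊢
    exact h.mask_i i (G.ip ▸ h1) (G.inn_n ▸ h2) h3
  lev0 := h.lev0

/-- the entrance half state of a plug is a property of what a consumer sees -/
theorem pvjm_in_congr {p : PvilPl} {𝔖 𝔗 : PvwSt (pvieT η)} (h : PvilIn N b p η 𝔖) (st : 𝔗.AtIn (p.pos η) N p.h p.zf p.ty (pvieCol η b)) (G : PvuqG 𝔗 𝔖) (M : PvuqM 𝔗 𝔖) :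
    PvilIn N b p η 𝔗 where
  good := h.good
  st := st
  tip := by rw [M.em _ le_rfl, M.nm]; exact h.tip
  mask := fun y hy => h.mask y (by rw [← M.nm]; exact (pvt_sd_le_congr (fun i hi => congrArg _ (M.em i hi)) y).1 hy)
  mask_i := fun i h1 h3 => by
    rw [G.inn_v i (h1.trans st.gate.ip_le)] at h3 ⊢
    exact h.mask_i i (G.ip ▸ h1) h3
  lev0 := h.lev0

variable {𝔇 : PvwDat (pvieT η)} {h : ℝ} {π : PvwPat}

/-- the exit half state of the pin `t` read by a link IS the one of the datum, every colour -/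
theorem pvjm_sameB_t (hg : DelGood (cfSites η)) (hOk : 𝔇.Ok Subtype.val N h π) (hσ : pvieCol η b ∈ 𝔇.Cyl) {q : PviePl} (e1 : q.h = h) (e2 : q.z = π.zt) (e3 : q.ty = π.tt)
    {𝔖 : PvwSt (pvieT η)} (ho : PvilOut N b q.std η 𝔖) : PvilOut N b q.std η 𝔇.t ∧ PvuqG 𝔇.t 𝔖 ∧ PvuqP 𝔇.t 𝔖 := by
  have hT : (pvieT η).IsSph := delb_plane_isSph hg
  have hS : (pvieT η).Simple := pvlc_T_simple η
  have b1 : 𝔇.t.AtOut Subtype.val N h π.zt π.tt (pvieCol η b) := pvwk_atOut_congr hT hOk.st_t fun v hv => (hσ.1 v (Or.inl hv)).symm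
  have b2 := ho.st
  rw [pvjm_std_pos, pvjm_std_zf] at b2
  have b3 : 𝔖.AtOut Subtype.val N h π.zt π.tt (pvieCol η b) := by
    rw [← e1, ← e2, ← e3]
    exact b2
  obtain ⟨G, P⟩ := pvuq_atOut hT hS Subtype.val_injective b1 b3
  refine ⟨pvjm_out_congr ho ?_ G P, G, P⟩
  rw [pvjm_std_pos, pvjm_std_zf]
  show 𝔇.t.AtOut Subtype.val N q.h q.z q.ty (pvieCol η b)
  rw [e1, e2, e3]
  exact b1

/-- the entrance half state of the pin `s` read by a link IS the one of the datum, every colour -/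
theorem pvjm_sameB_s (hg : DelGood (cfSites η)) (hOk : 𝔇.Ok Subtype.val N h π) (hσ : pvieCol η b ∈ 𝔇.Cyl) {q : PviePl} (e1 : q.h = h) (e2 : q.z = π.zs) (e3 : q.ty = π.ts)
    {𝔖 : PvwSt (pvieT η)} (ho : PvilIn N b q.std η 𝔖) : PvilIn N b q.std η 𝔇.s ∧ PvuqG 𝔇.s 𝔖 ∧ PvuqM 𝔇.s 𝔖 := by
  have hT : (pvieT η).IsSph := delb_plane_isSph hg
  have hS : (pvieT η).Simple := pvlc_T_simple η
  have b1 : 𝔇.s.AtIn Subtype.val N h π.zs π.ts (pvieCol η b) := pvwk_atIn_congr hT hOk.st_s fun v hv => (hσ.1 v (Or.inr hv)).symm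
  have b2 := ho.st
  rw [pvjm_std_pos, pvjm_std_zf] at b2
  have b3 : 𝔖.AtIn Subtype.val N h π.zs π.ts (pvieCol η b) := by
    rw [← e1, ← e2, ← e3]
    exact b2
  obtain ⟨G, M⟩ := pvuq_atIn hT hS Subtype.val_injective b1 b3
  refine ⟨pvjm_in_congr ho ?_ G M, G, M⟩
  rw [pvjm_std_pos, pvjm_std_zf]
  show 𝔇.s.AtIn Subtype.val N q.h q.z q.ty (pvieCol η b)
  rw [e1, e2, e3]
  exact b1

/-- a link `pin → ..` read at another record of the same exit half state -/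
theorem pvjm_arc_t {L : PvilLk} (o1 : L.dr = false) {𝔖 𝔖' 𝔗 : PvwSt (pvieT η)} {y : (pvieT η).Pth} (A : L.Arc N b η 𝔖 𝔖' y) (hT : PvilOut N b L.p η 𝔗) (G : PvuqG 𝔗 𝔖) (P : PvuqP 𝔗 𝔖)
    (u : (delbPl (pvieY η)).Dart → ℂ) : L.Arc N b η 𝔗 𝔖' y ∧ L.val N η u 𝔗 𝔖' y = L.val N η u 𝔖 𝔖' y := by
  refine ⟨⟨(PvilLk.atP_pin o1 N b η 𝔗).2 hT, A.at_p', ?_⟩, ?_⟩
  · obtain ⟨n, hr, hl⟩ := A.run
    refine ⟨n, ?_, by rw [G.dp]; exact hl⟩
    unfold PvilLk.Run at hr ⊢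
    rw [G.dp, P.np]
    exact hr
  · unfold PvilLk.val
    rw [G.mass _ _ _ le_rfl, G.mass _ _ _ le_rfl, G.inn_n, G.ip]

/-- a link `.. → pin` read at another record of the same entrance half state -/
theorem pvjm_arc_s {L : PvilLk} (i2 : L.dr' = false) {𝔖 𝔖' 𝔗 : PvwSt (pvieT η)} {y : (pvieT η).Pth} (A : L.Arc N b η 𝔖 𝔖' y) (hT : PvilIn N b L.p' η 𝔗) (G : PvuqG 𝔗 𝔖') (M : PvuqM 𝔗 𝔖')
    (u : (delbPl (pvieY η)).Dart → ℂ) : L.Arc N b η 𝔖 𝔗 y ∧ L.val N η u 𝔖 𝔗 y = L.val N η u 𝔖 𝔖' y := by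
  refine ⟨⟨A.at_p, (PvilLk.atP'_pin i2 N b η 𝔗).2 hT, ?_⟩, ?_⟩
  · obtain ⟨n, hr, hl⟩ := A.run
    refine ⟨n, ?_, hl⟩
    unfold PvilLk.Run at hr ⊢
    rw [G.dm, M.nm]
    exact hr
  · unfold PvilLk.val
    rw [i2]
    simp only [Bool.false_eq_true, if_false]
    rw [G.mass _ _ _ hT.st.gate.ip_le, G.ip]

/-- the value of a link sees the masked mass of its arc only -/
theorem pvjm_val_y (L : PvilLk) (u : (delbPl (pvieY η)).Dart → ℂ) (𝔖 𝔖' : PvwSt (pvieT η)) {y y' : (pvieT η).Pth}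
    (e : pvwMass (pvieT η) (pviePos η) u (L.msk N) y 0 y.n = pvwMass (pvieT η) (pviePos η) u (L.msk N) y' 0 y'.n) : L.val N η u 𝔖 𝔖' y = L.val N η u 𝔖 𝔖' y' := by
  unfold PvilLk.val
  rw [e]

/-- **CHAIN, DETERMINISTIC FORM**: first link (any witnesses) + the word of 244 + last link (any witnesses) ⟹ ONE rim arc `x` of `SY` of the datum, and `Yof x` = value of the first link + masses of the cells + value of the last link.
`Bt`, `Bs` = rooms of the black banks of the two stubs (they contain `g⁺(t)`, `g⁻(s)`: `P₀ = Bt`, `P₁ = Bs`, 194);   `R` = regions of the strand (`pvjm_rg_mk`, `pvvh_rg` of 194), `G Go Gi` = regions of the tags (70),   `J` = the junction (90) -/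
theorem pvjm_chain (hN : PvatNice (cfSites η)) (hOk : 𝔇.Ok Subtype.val N h π) (hσ : pvieCol η b ∈ 𝔇.Cyl)
    {Lo Li : PvilLk} (o1 : Lo.dr = false) (o2 : Lo.dr' = true) (i1 : Li.dr = true) (i2 : Li.dr' = false)
    {qo qi : PviePl} (po : Lo.p = qo.std) (po1 : qo.h = h) (po2 : qo.z = π.zt) (po3 : qo.ty = π.tt) (pi : Li.p' = qi.std) (pi1 : qi.h = h) (pi2 : qi.z = π.zs) (pi3 : qi.ty = π.ts)
    {𝔤 : PvkdGeo} {z d : ℂ} {l : List PvtTurn} (hl : 0 < l.length)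
    (epo : 𝔤.toPvkdPlug = pvkdP Lo.p'.h) (eZ0 : pvthZ 𝔤.δ z d l 0 = Lo.p'.z) (eD0 : pvthD d l 0 = Lo.p'.fr)
    (epi : 𝔤.toPvkdPlug = pvkdP Li.p.h) (eZm : pvthZ 𝔤.δ z d l l.length = Li.p.z) (eDm : pvthD d l l.length = Li.p.fr)
    (hD0 : pvthD d l 0 ≠ 0) (hDm : pvthD d l l.length ≠ 0)
    {Bt Bs : Set ℂ} (hBt : ∀ i, i ≤ 𝔇.t.np → (((pvieT η).src (𝔇.t.ep i) : ↥(cfSites η)) : ℂ) ∈ Bt) (hBs : ∀ i, i ≤ 𝔇.s.nm → (((pvieT η).src (𝔇.s.em i) : ↥(cfSites η)) : ℂ) ∈ Bs)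
    (R : PvjmRg 𝔤 z d l (Bt ∪ Lo.Yin) (pvkdAt (pvthZ 𝔤.δ z d l l.length) (pvthD d l l.length) 𝔤.Zp ∪ Li.Yin ∪ Bs) Bt Bs)
    (oY : Lo.Yin ⊆ π.Yin) (iY : Li.Yin ⊆ π.Yin) (cY : ∀ i, i < l.length → pvjmC 𝔤 z d l i ⊆ π.Yin) (qY : ∀ j, j ≤ l.length → pvjmQ 𝔤 z d l j ⊆ π.Yin)
    (J : ∀ n, 𝔇.t.np + 𝔇.s.nm ≤ n → pvasIt (pvieT η) (pvieCol η b) 𝔇.t.dp n = 𝔇.s.dm → (∀ i, i < n → pvasIt (pvieT η) (pvieCol η b) 𝔇.t.dp i ≠ 𝔇.s.dm) →
      (∀ i, 𝔇.t.np < i → i + 𝔇.s.nm < n → (((pvieT η).src (pvasIt (pvieT η) (pvieCol η b) 𝔇.t.dp i) : ↥(cfSites η)) : ℂ) ∈ π.Yin ∧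
        (((pvieT η).tgt (pvasIt (pvieT η) (pvieCol η b) 𝔇.t.dp i) : ↥(cfSites η)) : ℂ) ∈ π.Yin) → 𝔇.SYn Subtype.val π (pvieCol η b) n)
    (Mc : ∀ t, Convex ℝ (𝔤.Mk t)) (CM : ∀ t, 𝔤.Co t ⊆ 𝔤.Mk t) {H0 H1 : Set ℂ}
    (G : PvlcReg l.length (Lo.ball N) (Li.ball' N) Lo.Mk Li.Mk H0 H1 (fun j => pvkdAt (pvthZ 𝔤.δ z d l j) (pvthD d l j) (𝔤.Mk (pvthL l j))) fun j => Metric.ball (pvthZ 𝔤.δ z d l j) 𝔤.b)
    (Go : PvlcRoomO N Lo H0) (Gi : PvlcRoomI N Li H1)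
    {g : ℕ → (pvkiT η).Gate (pvukS b η)} {K : ℕ → ℕ}
    (lk : ∀ j, j < l.length → PvukLink 𝔤 b η (pvthZ 𝔤.δ z d l j) (pvthD d l j) (pvthL l j) (g j) (g (j + 1)) (K j))
    {𝔖 𝔖0 𝔖m 𝔖' : PvwSt (pvieT η)} {y0 y1 : (pvieT η).Pth} (Ao : Lo.Arc N b η 𝔖 𝔖0 y0) (Ai : Li.Arc N b η 𝔖m 𝔖' y1) :
    ∃ x : (pvieT η).Pth, 𝔇.YArc Subtype.val π (pvieCol η b) x ∧
      𝔇.Yof Subtype.val (pvilQ η) N h π x = Lo.val N η (pvilQ η) 𝔖 𝔖0 y0 +
        ∑ j ∈ Finset.range l.length, pvukMass b η (pvkdAt (pvthZ 𝔤.δ z d l j) (pvthD d l j) (𝔤.Mk (pvthL l j))) (g j) (g (j + 1)) + Li.val N η (pvilQ η) 𝔖m 𝔖' y1 := by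
  classical
  have hT : (pvieT η).IsSph := delb_plane_isSph hN.good
  have hS : (pvieT η).Simple := pvlc_T_simple η
  have hgate : ∀ j, j ≤ l.length → PvukGate 𝔤.toPvkdPlug b η (pvthZ 𝔤.δ z d l j) (pvthD d l j) (g j) := fun j hj => pvjm_wordB_gate hl lk hj
  -- the first link at the record of the datum
  have ho : PvilOut N b qo.std η 𝔖 := po ▸ (PvilLk.atP_pin o1 N b η 𝔖).1 Ao.at_p
  obtain ⟨hot, Gt, Pt⟩ := pvjm_sameB_t hN.good hOk hσ po1 po2 po3 ho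
  obtain ⟨Ao1, vo1⟩ := pvjm_arc_t o1 Ao (po ▸ hot) Gt Pt (pvilQ η)
  obtain ⟨n₀, hr0, ha0⟩ := pvlc_link_arc Ao1
  -- the last link at the record of the datum
  have hi : PvilIn N b qi.std η 𝔖' := pi ▸ (PvilLk.atP'_pin i2 N b η 𝔖').1 Ai.at_p'
  obtain ⟨hit, Gs, Ms⟩ := pvjm_sameB_s hN.good hOk hσ pi1 pi2 pi3 hi
  obtain ⟨Ai1, vi1⟩ := pvjm_arc_s i2 Ai (pi ▸ hit) Gs Ms (pvilQ η)
  obtain ⟨n₁, hr1, ha1⟩ := pvlc_link_arc Ai1
  rw [← vo1, ← vi1]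
  clear vo1 vi1
  -- the two door states
  obtain ⟨-, g0, hg0, rfl⟩ := (PvilLk.atP'_door o2 N b η 𝔖0).1 Ao.at_p'
  obtain ⟨-, gm, hgm, rfl⟩ := (PvilLk.atP_door i1 N b η 𝔖m).1 Ai.at_p
  obtain rfl : g 0 = g0 := pvuk_uniq hN.good R.zz (hgate 0 (Nat.zero_le _)) (by
    show PvzlGt _ _ _ (𝔤.toPvkdPlug.pg _ _) g0
    rw [epo, eZ0, eD0]; exact hg0)
  obtain rfl : g l.length = gm := pvuk_uniq hN.good R.zz (hgate l.length le_rfl) (by
    show PvzlGt _ _ _ (𝔤.toPvkdPlug.pg _ _) gm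
    rw [epi, eZm, eDm]; exact hgm)
  obtain ⟨r01, -, -, r04⟩ := hr0
  obtain ⟨r11, r12, -, r14⟩ := hr1
  have r01' : 𝔇.t.np ≤ n₀ := r01
  have r11' : 𝔇.s.nm ≤ n₁ := by
    have : 0 + 𝔇.s.nm ≤ n₁ := r11
    omega
  have stub_t : ∀ i, i ≤ 𝔇.t.np → 𝔇.t.ep i = pvasIt (pvieT η) (pvieCol η b) 𝔇.t.dp i := hot.st.stub.ep_it
  have stub_s : ∀ i, i ≤ n₁ → n₁ ≤ i + 𝔇.s.nm → 𝔇.s.em (n₁ - i) = pvasIt (pvieT η) (pvieCol η b) (g l.length).aOut i := by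
    intro i h1 h2
    rw [hit.st.stub.em_it _ (by omega), ← r12]
    show (pvasBack (pvieT η) (pvieCol η b))^[n₁ - i] (pvasIt (pvieT η) (pvieCol η b) (g l.length).aOut n₁) = _
    exact (pvlc_back_it (pvtg_aOut_bw (g l.length)) (n₁ - i) (by omega)).trans (by rw [show n₁ - (n₁ - i) = i by omega]; rfl)
  have hvp : (((pvkiT η).src (g l.length).aOut : ↥(cfSites η)) : ℂ) ∈ pvkdAt (pvthZ 𝔤.δ z d l l.length) (pvthD d l l.length) 𝔤.Zp := by
    rw [pvtg_aOut_src]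
    exact (hgate l.length le_rfl).vp
  have hp0 : (((pvkiT η).src 𝔇.t.dp : ↥(cfSites η)) : ℂ) ∈ Bt := by
    have e : 𝔇.t.ep 0 = 𝔇.t.dp := stub_t 0 (Nat.zero_le _)
    rw [← e]
    exact hBt 0 (Nat.zero_le _)
  have hp1 : (((pvkiT η).src 𝔇.s.dm : ↥(cfSites η)) : ℂ) ∈ Bs := by
    have e : 𝔇.s.em 0 = 𝔇.s.dm := hit.st.stub.em_it 0 (Nat.zero_le _)
    rw [← e]
    exact hBs 0 (Nat.zero_le _)
  -- the open chain
  obtain ⟨C, hCg, hC0, hC1, hCs⟩ := pvjm_openB hN R hl hp0 hp1 lk ha0.bw ha0.hit ha0.first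
    (fun i hi => by
      by_cases c : i ≤ 𝔇.t.np
      · exact Or.inl (stub_t i c ▸ hBt i c)
      · exact Or.inr (r04 i (by omega) (by show i + 0 < n₀; omega)).1)
    ha1.hit ha1.first
    (fun i hi => by
      rcases Nat.eq_zero_or_pos i with rfl | c0
      · exact Or.inl (Or.inl hvp)
      · by_cases c : i + 𝔇.s.nm < n₁
        · exact Or.inl (Or.inr (r14 i c0 c).1)
        · exact Or.inr (stub_s i hi.le (by omega) ▸ hBs (n₁ - i) (by omega)))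
  subst hCg
  have e0 : C.st 0 = 𝔇.t.dp := pvjm_st_zero C.g _
  have es : ∀ j, C.st (j + 1) = (C.g j).aOut := fun j => pvjm_st_succ C.g _ j
  have I : PvjmIn C π.Yin :=
    { np := by rw [hC0]; exact r01'
      nm := by rw [hC1]; exact r11'
      fst := fun i h1 h2 => by
        have := r04 i h1 (by show i + 0 < n₀; rw [hC0] at h2; omega)
        exact ⟨oY this.1, oY this.2⟩
      mid := fun r h1 h2 i hi => by
        obtain ⟨j, rfl⟩ : ∃ j, r = j + 1 := ⟨r - 1, by omega⟩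
        have hj : j < l.length := by omega
        rw [hCs j hj] at hi
        rw [es j]
        have := pvjm_runB_over (lk j hj).2.2 hi.le
        exact ⟨cY j hj this.1, cY j hj this.2⟩
      door := qY
      lst := fun i hi => by
        rw [hC1] at hi
        rw [es l.length]
        rcases Nat.eq_zero_or_pos i with rfl | c0
        · have k1 : (((pvkiT η).src (C.g l.length).aOut : ↥(cfSites η)) : ℂ) ∈ pvjmQ 𝔤 z d l l.length := by
            rw [pvtg_aOut_src]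
            exact pvjm_vp_Q C hT le_rfl
          have k2 : (((pvkiT η).tgt (C.g l.length).aOut : ↥(cfSites η)) : ℂ) ∈ pvjmQ 𝔤 z d l l.length := by
            rw [pvtg_aOut_tgt]
            exact pvjm_left_Q C le_rfl ((pl_jordan hT _).2.1 _)
          exact ⟨qY _ le_rfl k1, qY _ le_rfl k2⟩
        · have := r14 i c0 hi
          exact ⟨iY this.1, iY this.2⟩ }
  obtain ⟨x, hx1, -, hx3⟩ := pvjm_yarc hT hS R.geo I J
  refine ⟨x, hx1, ?_⟩
  -- the arcs of the two end links are those of the chain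
  have q0 : PvlcArc (pvieT η) (pvieCol η b) 𝔇.t.dp (C.g 0).aIn n₀ (C.y 0) := by
    have := pvjm_run C hT hS (Nat.zero_le (l.length + 1))
    rwa [e0, hC0, show C.en 0 = (C.g 0).aIn from pvjm_en_le C.g _ (Nat.zero_le _)] at this
  have q1 : PvlcArc (pvieT η) (pvieCol η b) (C.g l.length).aOut 𝔇.s.dm n₁ (C.y (l.length + 1)) := by
    have := pvjm_run C hT hS (le_refl (l.length + 1))
    rwa [es, hC1, show C.en (l.length + 1) = 𝔇.s.dm from pvjm_en_last C.g _ _] at this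
  have Ao2 : Lo.Arc N b η 𝔇.t (pvilStS (pvkdP Lo.p'.h) η (pvieCol η b) Lo.p'.z (C.g 0)) (C.y 0) := ⟨Ao1.at_p, Ao1.at_p', n₀, ⟨r01, ha0.hit, ha0.first, r04⟩, q0.le⟩
  have Ai2 : Li.Arc N b η (pvilStS (pvkdP Li.p.h) η (pvieCol η b) Li.p.z (C.g l.length)) 𝔇.s (C.y (l.length + 1)) := ⟨Ai1.at_p, Ai1.at_p', n₁, ⟨r11, ha1.hit, ha1.first, r14⟩, q1.le⟩
  rw [pvjm_val_y Lo (pvilQ η) _ _ (pvlc_mass_arc hS _ _ _ ha0 q0), pvjm_val_y Li (pvilQ η) _ _ (pvlc_mass_arc hS _ _ _ ha1 q1)]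
  exact pvlc_value_Q 𝔇 o1 o2 i1 i2 (by rw [po]; exact po2) (by rw [po]; exact po1) (by rw [pi]; exact pi2) (by rw [pi]; exact pi1) hl (pvjm_road C hT hS R.geo)
    (fun j _ => es j) (fun j hj => pvjm_en_le C.g _ hj) hx3 Ao2 Ai2 lk (fun j hj => pvuk_exit 𝔤 z d l hj) epo eZ0 eD0 epi eZm eDm R.zz hD0 hDm Mc CM G Go Gi

end chain

end Claimed.Agent.R289
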