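-- KEEP
import Claimed.Agent.R289.Tr.ChainM
import Claimed.Agent.R289.Tr.InvE
import Claimed.Agent.R289.Tr.DomEN

/-!
# Row 289 (S0537), THE WALL, ROAD E, file Tr/ChainN : (CHAIN) AT THE MODEL = THE HYPOTHESIS `hch` OF `pvdk_dom_guard` / `pvdk_dom_kn` (104), VERBATIM      (helper268; continues `Tr/ChainM`; prefix `pvjm_`, `pvjm`, `Pvjm`)

* sec. 9   the flip: a link of colour `b` of the actual configuration `pvkyFl b ζ` IS a black link of the black configuration `ζ` (`pviq_A_iff`, `pviq_lkX` of 246)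
* sec. 10  the junction at a configuration (`pvhg_SYn_rec_pl` of 90)
* sec. 11  **`PvjmMod`** = the DETERMINISTIC debts at the model (regions; index facts), **`PvjmAe`** = the debts at a mesh `ε` (dictionary of 244, [MEAS] of the two soft ends, the junction `jn`, good index `idx`)
* sec. 12  **`pvjm_hch`** : `PvjmMod` (at the good indices) + eventually `PvjmAe` ⟹ `hch`, any kits `𝔎s`, any hulls `Z Z'`, any frozen sets `F F'`;   **`pvjm_hch_YL`** = `hch` of `pvyj_YL` (93) VERBATIM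
* sec. 13  producers of `jn`: `pvjm_jn_mesh` (numbers of 90 + meshes of the two big mouths), `pvjm_jn_nfd` (the clause `NFD` of 191: no mesh)
-/

set_option autoImplicit false

namespace Claimed.Agent.R289

open Set MeasureTheory Filter Topology Claims.C0465
open scoped ENNReal

/-! ## 9. the flip -/

/-- the actual configuration, colour `b` ⟶ the black configuration, colour black -/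
theorem pvjm_mor_fl (b : Bool) {ζ : Conf PvPt} (h : PviqOne ζ) : PviqMor (pvkyFl b ζ) ζ b true 1 0 := by
  have M := pviq_mor_fl' b h
  refine ⟨M.na, M.Y, fun p hp => ?_⟩
  have := M.col p hp
  revert this
  cases b <;> cases cfCol ζ (vorSim 1 0 p) <;> cases cfCol (pvkyFl _ ζ) p <;> simp

theorem pvjm_lk_id (L : PvilLk) : pviqLk L 0 1 = L := by
  have e : pvthSim 0 1 = id := funext pviq_sim_id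
  unfold pviqLk
  rw [pviq_mv_zero, pviq_mv_zero, e, image_id, image_id]

/-- **a link of colour `b` of `pvkyFl b ζ` is a black link of `ζ`, same value** -/
theorem pvjm_lk_fl (b : Bool) {ζ : Conf PvPt} (h : PviqOne ζ) {L : PvilLk} (H : PviqLkOk L) (N : PvwNum) :
    (pvkyFl b ζ ∈ L.A N b → ζ ∈ L.A N true) ∧ L.X N true pvilQ ζ = L.X N b pvilQ (pvkyFl b ζ) := by
  have M := pvjm_mor_fl b h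
  have a4 : (1 : ℂ) ^ 4 = 1 := one_pow 4
  have h1 := pviq_A_iff (L := L) (N := N) M a4
  have h2 := pviq_lkX (L := L) (N := N) M a4 H (w := pvilQ) (pviq_wQ M)
  rw [pvjm_lk_id] at h1 h2
  exact ⟨h1.2, by rw [h2, one_mul]⟩

/-- an a.e. property is seen through the exchange of the colours -/
theorem pvjm_ae_fl (b : Bool) (ε : ℝ) {p : Conf PvPt → Prop} (h : ∀ᵐ η ∂pvP ε, p η) : ∀ᵐ η ∂pvP ε, p (pvkyFl b η) := by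
  have hq : Measure.QuasiMeasurePreserving (pvkyFl b) (pvP ε) (pvP ε) := ⟨measurable_pvkyFl b, by rw [pvky_fl_map]⟩
  exact hq.ae h

/-- a.s. on a soft end the plain event holds and the plain value is the soft value -/
theorem pvjm_soft (ε : ℝ) {Wn : Set ℂ} {M : Set (Conf PvPt)} {F : Conf PvPt → ℂ} (Z : Set (ℤ × ℤ)) (mW : MeasurableSet Wn) (nM : NullMeasurableSet (M ∩ {η | F η = pvilLoc ε Wn M F η}) (pvP ε)) :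
    ∀ᵐ η ∂pvP ε, η ∈ pvilFin Z (pvilSA ε Wn M F) → η ∈ M ∧ F η = pvilLoc ε Wn M F η := by
  filter_upwards [pvsu_sure_sub (pv_isPpp ε) (mW.prod MeasurableSet.univ) nM] with η h hη
  unfold pvilFin at hη
  by_cases hZ : Z.Finite
  · rw [if_pos hZ] at hη
    exact h hη
  · rw [if_neg hZ] at hη
    exact absurd hη (notMem_empty _)

/-! ## 10. the junction at a configuration -/

section junction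

variable {τ : Type} {c : ℝ} {𝔓 : PvxPar τ c} {x : ℂ} {R : ℝ} {m : ℕ} {π : PvxIx τ} {μ : ℝ}

/-- **THE JUNCTION** (`pvhg_SYn_model` of 90 at a site set `Y`) -/
theorem pvjm_junction (hdel : (𝔓.Γ m).δ = pvlmDel c m) (hreg : 𝔓.reg m π = pvfeRegAt (𝔓.Γ m) 𝔓.ty 𝔓.cp 𝔓.cm 𝔓.num (pvlmH m) π.p) (hπ : π ∈ pvxPatSet 𝔓 x R m)
    {Y : Set ℂ} (hgood : DelGood Y) {𝔇 : PvwDat (delbPl Y).toMap} (hOk : 𝔇.Ok Subtype.val 𝔓.num (pvlmH m) (𝔓.reg m π))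
    (hZs : (π.Zs : Set (ℤ × ℤ)) = pvtCells (pvlmDel c m) (Subtype.val '' 𝔇.s.fzIn ∪ Metric.closedBall (pvxYs 𝔓 m π.p) (𝔓.num.rho * pvlmH m)))
    (hZt : (π.Zt : Set (ℤ × ℤ)) = pvtCells (pvlmDel c m) (Subtype.val '' 𝔇.t.fzOut ∪ Metric.closedBall (pvxYt 𝔓 m π.p) (𝔓.num.rho * pvlmH m)))
    (hn : PvhgNum 𝔓.num (pvlmH m) μ (𝔓.ty π.p.tt) (𝔓.ty π.p.ts))
    (room : 𝔓.num.rho * pvlmH m / 2 + 𝔓.num.rho1 * pvlmH m + 2 * μ ≤ (pvwRad 𝔓.num (pvlmH m) (𝔓.ty π.p.ts) 𝔓.num.K + pvwRad 𝔓.num (pvlmH m) (𝔓.ty π.p.tt) 𝔓.num.K) / 2)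
    (mesh_t : VorDense Y (Metric.closedBall (pvxYt 𝔓 m π.p) (𝔓.num.rho2 * pvlmH m + 3 * μ)) μ) (mesh_s : VorDense Y (Metric.closedBall (pvxYs 𝔓 m π.p) (𝔓.num.rho2 * pvlmH m + 3 * μ)) μ)
    {σ : ↥Y → Bool} (hσ : PvwAgree 𝔇.fzY σ 𝔇.col) {n : ℕ}
    (h1 : 𝔇.t.np + 𝔇.s.nm ≤ n) (hl : pvasIt (delbPl Y).toMap σ 𝔇.t.dp n = 𝔇.s.dm) (hf : ∀ i, i < n → pvasIt (delbPl Y).toMap σ 𝔇.t.dp i ≠ 𝔇.s.dm)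
    (hp : ∀ i, 𝔇.t.np < i → i + 𝔇.s.nm < n → (((delbPl Y).toMap.src (pvasIt (delbPl Y).toMap σ 𝔇.t.dp i) : ↥Y) : ℂ) ∈ (𝔓.reg m π).Yin ∧
      (((delbPl Y).toMap.tgt (pvasIt (delbPl Y).toMap σ 𝔇.t.dp i) : ↥Y) : ℂ) ∈ (𝔓.reg m π).Yin) :
    𝔇.SYn Subtype.val (𝔓.reg m π) σ n := by
  obtain ⟨-, hb1, -, -, hIx, -⟩ := hπ
  have hδ := pvlm_Del_pos c m
  have hρ1 : 0 ≤ 𝔓.num.rho1 * pvlmH m := by nlinarith [hn.r1, hn.hh0, hn.rho0]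
  rw [hreg] at hOk hp ⊢
  have kt : (𝔓.ty π.p.tt).k ≤ 𝔓.num.K := hOk.st_t.lev
  have ks : (𝔓.ty π.p.ts).k ≤ 𝔓.num.K := hOk.st_s.lev
  have rt := pvhg_rad_mono hρ1 (𝔓.ty π.p.tt) kt
  have rs := pvhg_rad_mono hρ1 (𝔓.ty π.p.ts) ks
  have e := norm_sub_rev π.p.zs π.p.zt
  refine pvhg_SYn_rec_pl (h := hgood) (delb_pl_eq hgood) hOk hIx hn ?_ mesh_t mesh_s ?_ hσ h1 hl hf hp
  · rw [hdel]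
    rintro v (hv | hv)
    · refine pvt_U_mono subset_union_right ?_
      rw [hZt]
      exact pvt_cells_cover hδ (Or.inl ⟨v, hv, rfl⟩)
    · refine pvt_U_mono subset_union_left ?_
      rw [hZs]
      exact pvt_cells_cover hδ (Or.inl ⟨v, hv, rfl⟩)
  · linarith

theorem pvjm_disj_pl {Y : Set ℂ} {h : DelGood Y} {P : PlTri ↥Y} (hP : P = delPl h) {𝔇 : PvwDat P.toMap} {N : PvwNum} {hh : ℝ} {ϖ : PvwPat} (hOk : 𝔇.Ok (dlsPos Y) N hh ϖ)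
    (apart : 3 / 2 * pvwRad N hh ϖ.tt ϖ.tt.k + 3 / 2 * pvwRad N hh ϖ.ts ϖ.ts.k < ‖ϖ.zt - ϖ.zs‖) : 𝔇.DISJ := by
  subst hP
  exact pvhg_disj_far hOk apart

/-- **THE JUNCTION FROM THE CLAUSE `NFD`** (191: `NFD` = a deterministic clause of the kit / of the guard): NO mesh, NO number but `0 < ρ h`, `0 ≤ ρ₁ h` -/
theorem pvjm_junction_nfd (hreg : 𝔓.reg m π = pvfeRegAt (𝔓.Γ m) 𝔓.ty 𝔓.cp 𝔓.cm 𝔓.num (pvlmH m) π.p) (hπ : π ∈ pvxPatSet 𝔓 x R m) (hρ : 0 < 𝔓.num.rho * pvlmH m) (hρ1 : 0 ≤ 𝔓.num.rho1 * pvlmH m)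
    {Y : Set ℂ} (hgood : DelGood Y) {𝔇 : PvwDat (delbPl Y).toMap} (hOk : 𝔇.Ok Subtype.val 𝔓.num (pvlmH m) (𝔓.reg m π)) (hnfd : 𝔇.NFD {v | (v : ℂ) ∈ (𝔓.reg m π).Yin})
    {σ : ↥Y → Bool} (hσ : PvwAgree 𝔇.fzY σ 𝔇.col) {n : ℕ}
    (h1 : 𝔇.t.np + 𝔇.s.nm ≤ n) (hl : pvasIt (delbPl Y).toMap σ 𝔇.t.dp n = 𝔇.s.dm) (hf : ∀ i, i < n → pvasIt (delbPl Y).toMap σ 𝔇.t.dp i ≠ 𝔇.s.dm)
    (hp : ∀ i, 𝔇.t.np < i → i + 𝔇.s.nm < n → (((delbPl Y).toMap.src (pvasIt (delbPl Y).toMap σ 𝔇.t.dp i) : ↥Y) : ℂ) ∈ (𝔓.reg m π).Yin ∧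
      (((delbPl Y).toMap.tgt (pvasIt (delbPl Y).toMap σ 𝔇.t.dp i) : ↥Y) : ℂ) ∈ (𝔓.reg m π).Yin) :
    𝔇.SYn Subtype.val (𝔓.reg m π) σ n := by
  obtain ⟨-, hb1, -, -, -⟩ := hπ
  rw [hreg] at hOk hp hnfd ⊢
  have kt : (𝔓.ty π.p.tt).k ≤ 𝔓.num.K := hOk.st_t.lev
  have ks : (𝔓.ty π.p.ts).k ≤ 𝔓.num.K := hOk.st_s.lev
  have rt := pvhg_rad_mono hρ1 (𝔓.ty π.p.tt) kt
  have rs := pvhg_rad_mono hρ1 (𝔓.ty π.p.ts) ks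
  have e := norm_sub_rev π.p.zs π.p.zt
  have e0 := norm_nonneg (π.p.zt - π.p.zs)
  have bt : ∀ w : ℂ, ‖w - (𝔓.ty π.p.tt).cp (pvlmH m) π.p.zt‖ ≤ 𝔓.num.rho * pvlmH m / 4 → w ∈ (pvfeRegAt (𝔓.Γ m) 𝔓.ty 𝔓.cp 𝔓.cm 𝔓.num (pvlmH m) π.p).Yin := fun w hw =>
    Or.inl (Or.inr (by rw [Metric.mem_closedBall, dist_eq_norm]; linarith))
  have bs : ∀ w : ℂ, ‖w - (𝔓.ty π.p.ts).cm (pvlmH m) π.p.zs‖ ≤ 𝔓.num.rho * pvlmH m / 4 → w ∈ (pvfeRegAt (𝔓.Γ m) 𝔓.ty 𝔓.cp 𝔓.cm 𝔓.num (pvlmH m) π.p).Yin := fun w hw =>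
    Or.inr (by rw [Metric.mem_closedBall, dist_eq_norm]; linarith)
  refine pvyn_SYn_of_pos hOk.st_t.stub hOk.st_s.stub hOk.st_t.gate.bw_p hOk.st_s.gate.bw_m (pvjm_disj_pl (h := hgood) (delb_pl_eq hgood) hOk ?_) hnfd
    ⟨bt _ hOk.st_t.good.tip_p.1, bt _ hOk.st_t.good.tip_p.2⟩ ⟨bs _ hOk.st_s.good.tip_m.1, bs _ hOk.st_s.good.tip_m.2⟩ hσ h1 hl hf hp
  show 3 / 2 * pvwRad 𝔓.num (pvlmH m) (𝔓.ty π.p.tt) (𝔓.ty π.p.tt).k + 3 / 2 * pvwRad 𝔓.num (pvlmH m) (𝔓.ty π.p.ts) (𝔓.ty π.p.ts).k < ‖π.p.zt - π.p.zs‖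
  rcases le_or_gt 0 (pvwRad 𝔓.num (pvlmH m) (𝔓.ty π.p.ts) 𝔓.num.K + pvwRad 𝔓.num (pvlmH m) (𝔓.ty π.p.tt) 𝔓.num.K) with c | c
  · linarith
  · linarith

end junction

/-! ## 11. the debts at the model -/

section model

variable {τ : Type} {c : ℝ} (𝔓 : PvxPar τ c) (𝔈 : PvieEng τ)

/-- **THE DETERMINISTIC DEBTS OF (CHAIN) AT THE MODEL**: index facts, regions of the strand (`rgC` cells: 175, `rgE` ends + `stub`: 194), regions of the tags (`reg Go Gi`: 70), rooms inside `Yin`.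
`𝔤` = the geometry of the dictionary of 244 at the level `m`;   `Bt`, `Bs` = rooms of the black banks of the two stubs;   `H0`, `H1` = convex rooms of the tags of the two end links -/
structure PvjmMod (m : ℕ) (π : PvxIx τ) (𝔤 : PvkdGeo) (Bt Bs H0 H1 : Set ℂ) : Prop where
  len : 0 < π.p.l.length
  d4 : (𝔓.Γ m).dout π.p.tt ^ 4 = 1
  δ : 𝔤.δ = pvlmDel c m
  plug : 𝔤.toPvkdPlug = pvkdP (pvilRd 𝔓 m)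
  rgC : PvjmRgC 𝔤 (pvieZo 𝔓 m π.p.zt π.p.tt) ((𝔓.Γ m).dout π.p.tt) π.p.l
  rgE : PvjmRgE 𝔤 (pvieZo 𝔓 m π.p.zt π.p.tt) ((𝔓.Γ m).dout π.p.tt) π.p.l (Bt ∪ pvieSh π.p.zt (𝔈.oY m π.p.tt))
    (pvkdAt (pvthZ 𝔤.δ (pvieZo 𝔓 m π.p.zt π.p.tt) ((𝔓.Γ m).dout π.p.tt) π.p.l π.p.l.length) (pvthD ((𝔓.Γ m).dout π.p.tt) π.p.l π.p.l.length) 𝔤.Zp ∪ pvieSh π.p.zs (𝔈.iY m π.p.ts) ∪ Bs) Bt Bs
  oY : pvieSh π.p.zt (𝔈.oY m π.p.tt) ⊆ (𝔓.reg m π).Yin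
  iY : pvieSh π.p.zs (𝔈.iY m π.p.ts) ⊆ (𝔓.reg m π).Yin
  cY : ∀ i, i < π.p.l.length → pvjmC 𝔤 (pvieZo 𝔓 m π.p.zt π.p.tt) ((𝔓.Γ m).dout π.p.tt) π.p.l i ⊆ (𝔓.reg m π).Yin
  qY : ∀ j, j ≤ π.p.l.length → pvjmQ 𝔤 (pvieZo 𝔓 m π.p.zt π.p.tt) ((𝔓.Γ m).dout π.p.tt) π.p.l j ⊆ (𝔓.reg m π).Yin
  Mc : ∀ t, Convex ℝ (𝔤.Mk t)
  CM : ∀ t, 𝔤.Co t ⊆ 𝔤.Mk t
  reg : PvlcReg π.p.l.length ((pvilLo 𝔓 𝔈 m π.p.zt π.p.tt).ball 𝔓.num) ((pvilLi 𝔓 𝔈 m π.p.zs π.p.ts).ball' 𝔓.num) (pvilLo 𝔓 𝔈 m π.p.zt π.p.tt).Mk (pvilLi 𝔓 𝔈 m π.p.zs π.p.ts).Mk H0 H1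
    (fun j => pvkdAt (pvthZ 𝔤.δ (pvieZo 𝔓 m π.p.zt π.p.tt) ((𝔓.Γ m).dout π.p.tt) π.p.l j) (pvthD ((𝔓.Γ m).dout π.p.tt) π.p.l j) (𝔤.Mk (pvthL π.p.l j)))
    fun j => Metric.ball (pvthZ 𝔤.δ (pvieZo 𝔓 m π.p.zt π.p.tt) ((𝔓.Γ m).dout π.p.tt) π.p.l j) 𝔤.b
  Go : PvlcRoomO 𝔓.num (pvilLo 𝔓 𝔈 m π.p.zt π.p.tt) H0
  Gi : PvlcRoomI 𝔓.num (pvilLi 𝔓 𝔈 m π.p.zs π.p.ts) H1
  /-- (STUB) the black banks of the two stubs of a datum of the pattern -/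
  stub : ∀ (Y : Set ℂ) (𝔇 : PvwDat (delbPl Y).toMap), DelGood Y → 𝔇.Ok Subtype.val 𝔓.num (pvlmH m) (𝔓.reg m π) →
    (π.Zs : Set (ℤ × ℤ)) = pvtCells (pvlmDel c m) (Subtype.val '' 𝔇.s.fzIn ∪ Metric.closedBall (pvxYs 𝔓 m π.p) (𝔓.num.rho * pvlmH m)) →
    (π.Zt : Set (ℤ × ℤ)) = pvtCells (pvlmDel c m) (Subtype.val '' 𝔇.t.fzOut ∪ Metric.closedBall (pvxYt 𝔓 m π.p) (𝔓.num.rho * pvlmH m)) →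
    (∀ i, i ≤ 𝔇.t.np → (((delbPl Y).toMap.src (𝔇.t.ep i) : ↥Y) : ℂ) ∈ Bt) ∧ ∀ i, i ≤ 𝔇.s.nm → (((delbPl Y).toMap.src (𝔇.s.em i) : ↥Y) : ℂ) ∈ Bs

/-- **THE DEBTS OF (CHAIN) AT A MESH `ε`**: the dictionary of the kit (244 `pvuk_eng`, `pvuk_nn`), [MEAS] of the two soft ends at the hulls `Z`, `Z'` (windows Borel; plain event ∩ {plain value = soft value} null measurable);
`jn` = THE JUNCTION at the present data of the kit `𝔎`, on `S` (producers: `pvjm_jn_mesh`: numbers + two meshes in `S`;   `pvjm_jn_nfd`: the clause `NFD`);   `idx` = a present datum makes the index good (`P := PvjxGood 𝔓 m π` of 209; `P := True`) -/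
structure PvjmAe (m : ℕ) (π : PvxIx τ) (𝔤 : PvkdGeo) (𝔎 : PvxnKit) (S : Set (Conf PvPt)) (Z Z' : Set (ℤ × ℤ)) (P : Prop) (ε : ℝ) : Prop where
  dict : PvukDict (𝔈.kit m ε) (𝔈.XQ m ε) 𝔤 ε
  wo : MeasurableSet (pvilWno 𝔓 𝔈 m ε π.p.zt π.p.tt Z)
  wi : MeasurableSet (pvilWni 𝔓 𝔈 m ε π.p.zs π.p.ts Z')
  no : NullMeasurableSet (pvilMo 𝔓 𝔈 m ε π.p.zt π.p.tt Z ∩ {η | (pvilLo 𝔓 𝔈 m π.p.zt π.p.tt).X 𝔓.num (𝔓.col π.p.tt) pvilQ η =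
    pvilLoc ε (pvilWno 𝔓 𝔈 m ε π.p.zt π.p.tt Z) (pvilMo 𝔓 𝔈 m ε π.p.zt π.p.tt Z) ((pvilLo 𝔓 𝔈 m π.p.zt π.p.tt).X 𝔓.num (𝔓.col π.p.tt) pvilQ) η}) (pvP ε)
  ni : NullMeasurableSet (pvilMi 𝔓 𝔈 m ε π.p.zs π.p.ts Z' ∩ {η | (pvilLi 𝔓 𝔈 m π.p.zs π.p.ts).X 𝔓.num (𝔓.col π.p.ts) pvilQ η =
    pvilLoc ε (pvilWni 𝔓 𝔈 m ε π.p.zs π.p.ts Z') (pvilMi 𝔓 𝔈 m ε π.p.zs π.p.ts Z') ((pvilLi 𝔓 𝔈 m π.p.zs π.p.ts).X 𝔓.num (𝔓.col π.p.ts) pvilQ) η}) (pvP ε)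
  jn : ∀ᵐ ζ ∂pvP ε, ζ ∈ S → ∀ i 𝔇, PvdfPr 𝔓 m π 0 𝔎 ζ i 𝔇 → ∀ n, 𝔇.t.np + 𝔇.s.nm ≤ n → pvasIt (delbPl (cfSites ζ)).toMap (pvdfCol ζ) 𝔇.t.dp n = 𝔇.s.dm →
    (∀ i, i < n → pvasIt (delbPl (cfSites ζ)).toMap (pvdfCol ζ) 𝔇.t.dp i ≠ 𝔇.s.dm) →
    (∀ i, 𝔇.t.np < i → i + 𝔇.s.nm < n → (((delbPl (cfSites ζ)).toMap.src (pvasIt (delbPl (cfSites ζ)).toMap (pvdfCol ζ) 𝔇.t.dp i) : ↥(cfSites ζ)) : ℂ) ∈ (𝔓.reg m π).Yin ∧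
      (((delbPl (cfSites ζ)).toMap.tgt (pvasIt (delbPl (cfSites ζ)).toMap (pvdfCol ζ) 𝔇.t.dp i) : ↥(cfSites ζ)) : ℂ) ∈ (𝔓.reg m π).Yin) → 𝔇.SYn Subtype.val (𝔓.reg m π) (pvdfCol ζ) n
  idx : ∀ᵐ ζ ∂pvP ε, ζ ∈ S → ∀ i 𝔇, PvdfPr 𝔓 m π 0 𝔎 ζ i 𝔇 → P

variable {𝔓 𝔈}

/-- the last door of the word of a pattern is the entrance door of `s` -/
theorem pvjm_last_door {m : ℕ} {p : PvtsPat τ} (h : (𝔓.Γ m).Ok p) {δ : ℝ} (hδ : δ = (𝔓.Γ m).δ) :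
    pvthZ δ (pvieZo 𝔓 m p.zt p.tt) ((𝔓.Γ m).dout p.tt) p.l p.l.length = pvieZi 𝔓 m p.zs p.ts ∧ pvthD ((𝔓.Γ m).dout p.tt) p.l p.l.length = (𝔓.Γ m).din p.ts := by
  unfold pvthZ pvthD pvieZo pvieZi
  rw [List.take_length, hδ, h.1, h.2]
  exact ⟨by ring, rfl⟩

theorem pvjm_fd_zero (ζ : Conf PvPt) : pvxnFd (cfSites ζ) 0 = pvilQ ζ := by
  funext e
  unfold pvxnFd
  rw [zero_mul, sub_zero]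
  rfl

/-! ## 12. (CHAIN) -/

/-- the chain event of the pattern at the reference ends `pvilEo .. Z F`, `pvilEi .. Z' F'`, read on the black configuration -/
def pvjmEv (𝔓 : PvxPar τ c) (𝔈 : PvieEng τ) (m : ℕ) (π : PvxIx τ) (Z Z' : Set (ℤ × ℤ)) (F F' : Set ℂ) (ε : ℝ) : Set (Conf PvPt) :=
  {ζ | pvkyFl (𝔓.col π.p.tt) ζ ∈ pvkyEv (𝔈.kit m ε) (𝔓.col π.p.tt) (pvieZo 𝔓 m π.p.zt π.p.tt) ((𝔓.Γ m).dout π.p.tt) π.p.l (pvilEo 𝔓 𝔈 m ε pvilQ π.p.zt π.p.tt Z F) (pvilEi 𝔓 𝔈 m ε pvilQ π.p.zs π.p.ts Z' F')}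

theorem pvjm_eqns_cite7 : True := by
  have := @pvjmEv.eq_1
  trivial

/-- **(CHAIN) AT THE MODEL = THE HYPOTHESIS `hch` OF `pvdk_dom_guard`, `pvdk_dom_kn`, `pvdk_dom_gm` (104), VERBATIM** at `a = 0`, `kit := 𝔈.kit m`, `X₀ := 𝔈.XQ m`, `b := 𝔓.col π.p.tt`, first door `(pvieZo .., dout)`, word `π.p.l`,
reference ends `pvilEo .. Z F`, `pvilEi .. Z' F'` at ANY hulls and frozen sets (93), ANY kits `𝔎s`, ANY guard `S`.      The debts at `ε` are asked on `S ε ∩ {the chain succeeds}`, the deterministic debts at the good indices `P` only (274) -/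
theorem pvjm_hch {x : ℂ} {R : ℝ} {m : ℕ} {π : PvxIx τ} (hW : 𝔓.Wf) (hπ : π ∈ pvxPatSet 𝔓 x R m)
    {𝔤 : PvkdGeo} {Bt Bs H0 H1 : Set ℂ} {P : Prop} (hM : P → PvjmMod 𝔓 𝔈 m π 𝔤 Bt Bs H0 H1) {S : ℝ → Set (Conf PvPt)} {Z Z' : Set (ℤ × ℤ)} {F F' : Set ℂ} {𝔎s : ℝ → PvxnKit}
    (hA : ∀ᶠ ε in 𝓝[>] (0 : ℝ), PvjmAe 𝔓 𝔈 m π 𝔤 (𝔎s ε) (S ε ∩ pvjmEv 𝔓 𝔈 m π Z Z' F F' ε) Z Z' P ε) :
    ∀ᶠ ε in 𝓝[>] (0 : ℝ), ∀ᵐ η ∂pvP ε, η ∈ S ε →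
      pvkyFl (𝔓.col π.p.tt) η ∈ pvkyEv (𝔈.kit m ε) (𝔓.col π.p.tt) (pvieZo 𝔓 m π.p.zt π.p.tt) ((𝔓.Γ m).dout π.p.tt) π.p.l (pvilEo 𝔓 𝔈 m ε pvilQ π.p.zt π.p.tt Z F) (pvilEi 𝔓 𝔈 m ε pvilQ π.p.zs π.p.ts Z' F') →
      ∀ i 𝔇, PvdfPr 𝔓 m π 0 (𝔎s ε) η i 𝔇 → ∃ y, 𝔇.YArc Subtype.val (𝔓.reg m π) (pvdfCol η) y ∧
        pvkyYc (𝔈.kit m ε) (𝔓.col π.p.tt) (pvieZo 𝔓 m π.p.zt π.p.tt) ((𝔓.Γ m).dout π.p.tt) π.p.l (pvilEo 𝔓 𝔈 m ε pvilQ π.p.zt π.p.tt Z F) (pvilEi 𝔓 𝔈 m ε pvilQ π.p.zs π.p.ts Z' F') (𝔈.XQ m ε)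
          (pvkyFl (𝔓.col π.p.tt) η) = 𝔇.Yof Subtype.val (pvxnFd (cfSites η) 0) 𝔓.num (pvlmH m) (𝔓.reg m π) y := by
  by_cases hP : P
  swap
  · filter_upwards [hA] with ε hA
    filter_upwards [hA.idx] with ζ h hS hEv i 𝔇 hPr
    exact absurd (h ⟨hS, hEv⟩ i 𝔇 hPr) hP
  replace hM := hM hP
  have hcol : 𝔓.col π.p.ts = 𝔓.col π.p.tt := hπ.1.2.2.2.2.2.1
  have hδ0 := pvlm_Del_pos c m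
  obtain ⟨eZm, eDm⟩ := pvjm_last_door (𝔓 := 𝔓) (m := m) hπ.1.1 (hM.δ.trans (hW.del m).symm)
  have hd0 : (𝔓.Γ m).dout π.p.tt ≠ 0 := pvth_ne_zero ((𝔓.Γ m).dout1 _)
  have hdi : (𝔓.Γ m).din π.p.ts ≠ 0 := eDm ▸ pvthD_ne_zero hd0 _ _
  have Ho : PviqLkOk (pvilLo 𝔓 𝔈 m π.p.zt π.p.tt) := pviq_Lo_ok 𝔓 𝔈 _ hd0 hδ0
  have Hi : PviqLkOk (pvilLi 𝔓 𝔈 m π.p.zs π.p.ts) := pviq_Li_ok 𝔓 𝔈 _ hdi hδ0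
  filter_upwards [hA, self_mem_nhdsWithin] with ε hA hε
  have hε0 : ε ≠ 0 := ne_of_gt hε
  have s1 := pvjm_ae_fl (𝔓.col π.p.tt) ε (pvjm_soft ε Z hA.wo hA.no)
  have s2 := pvjm_ae_fl (𝔓.col π.p.tt) ε (pvjm_soft ε Z' hA.wi hA.ni)
  filter_upwards [pvat_nice_ae hε0, pviq_ae_one ε, hA.dict.word true (pvieZo 𝔓 m π.p.zt π.p.tt) ((𝔓.Γ m).dout π.p.tt) hM.d4 π.p.l hM.len, s1, s2, hA.jn] with ζ hN h1 hword ho hi hjn hS hEv i 𝔇 hP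
  have hjn' := hjn ⟨hS, hEv⟩ i 𝔇 hP
  obtain ⟨hG, hAk, hei, heo⟩ := hEv
  simp only [pvky_fl_fl] at hG hAk
  have efl : pvkyFl true ζ = ζ := if_pos rfl
  rw [efl] at hword
  obtain ⟨-, g, K, hgK⟩ := hword fun j hj => ⟨hG j hj.le, hAk j hj⟩
  obtain ⟨mo, xo⟩ := ho heo
  obtain ⟨mi, xi⟩ := hi hei
  -- the two end links, black form
  obtain ⟨fo, vo⟩ := pvjm_lk_fl (𝔓.col π.p.tt) h1 Ho 𝔓.num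
  obtain ⟨fi, vi⟩ := pvjm_lk_fl (𝔓.col π.p.tt) h1 Hi 𝔓.num
  obtain ⟨𝔖, 𝔖0, y0, Ao⟩ := fo mo.1.1
  obtain ⟨𝔖m, 𝔖', y1, Ai⟩ := fi (hcol ▸ mi.1.1)
  have hOk := hP.1.ok
  have hσ : pvieCol ζ true ∈ 𝔇.Cyl := by rw [pvdf_col_eq]; exact hP.1.cyl
  obtain ⟨hBt, hBs⟩ := hM.stub (cfSites ζ) 𝔇 hN.good hOk hP.1.hull_s hP.1.hull_t
  obtain ⟨y, hy1, hy2⟩ := pvjm_chain (b := true) (η := ζ) (N := 𝔓.num) (h := pvlmH m) (π := 𝔓.reg m π) (𝔇 := 𝔇) hN hOk hσ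
    (Lo := pvilLo 𝔓 𝔈 m π.p.zt π.p.tt) (Li := pvilLi 𝔓 𝔈 m π.p.zs π.p.ts) rfl rfl rfl rfl (qo := 𝔓.pl m π.p.zt π.p.tt) (qi := 𝔓.pl m π.p.zs π.p.ts)
    rfl rfl (hW.reg_zt m π).symm (hW.reg_tt m π).symm rfl rfl (hW.reg_zs m π).symm (hW.reg_ts m π).symm hM.len hM.plug (pvthx_Z_zero _ _ _ _) (pvthx_D_zero _ _) hM.plug eZm eDm
    (pvthD_ne_zero hd0 _ _) (pvthD_ne_zero hd0 _ _) hBt hBs (pvjm_rg_mk hM.rgC hM.rgE) hM.oY hM.iY hM.cY hM.qY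
    (by rw [pvdf_col_eq]; exact hjn')
    hM.Mc hM.CM hM.reg hM.Go hM.Gi (fun j hj => (hgK j hj).1) Ao Ai
  refine ⟨y, by rw [← pvdf_col_eq]; exact hy1, ?_⟩
  rw [pvjm_fd_zero]
  refine Eq.trans ?_ hy2.symm
  rw [← pviq_X_eq Ho pvilQ Ao, ← pviq_X_eq Hi pvilQ Ai, vo, vi]
  unfold pvkyYc
  rw [pvky_fl_fl]
  congr 1
  · congr 1
    · exact xo.symm
    · unfold PvthKit.Y
      exact Finset.sum_congr rfl fun j hj => (hgK j (Finset.mem_range.1 hj)).2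
  · refine xi.symm.trans ?_
    rw [hcol]

/-- **`hch` OF `pvyj_YL` (93, `Exit/N1Y`), VERBATIM**: colour `𝔓.col π.p.ts`, reference ends at the hulls of the index, `F = ∅` -/
theorem pvjm_hch_YL {x : ℂ} {R : ℝ} {m : ℕ} {π : PvxIx τ} (hW : 𝔓.Wf) (hπ : π ∈ pvxPatSet 𝔓 x R m)
    {𝔤 : PvkdGeo} {Bt Bs H0 H1 : Set ℂ} {P : Prop} (hM : P → PvjmMod 𝔓 𝔈 m π 𝔤 Bt Bs H0 H1) {S : ℝ → Set (Conf PvPt)} {𝔎s : ℝ → PvxnKit}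
    (hA : ∀ᶠ ε in 𝓝[>] (0 : ℝ), PvjmAe 𝔓 𝔈 m π 𝔤 (𝔎s ε) (S ε ∩ pvjmEv 𝔓 𝔈 m π ↑π.Zt ↑π.Zs ∅ ∅ ε) ↑π.Zt ↑π.Zs P ε) :
    ∀ᶠ ε in 𝓝[>] (0 : ℝ), ∀ᵐ η ∂pvP ε, η ∈ S ε → pvkyFl (𝔓.col π.p.ts) η ∈ pvkyEv (𝔈.kit m ε) (𝔓.col π.p.ts) (pvieZo 𝔓 m π.p.zt π.p.tt) ((𝔓.Γ m).dout π.p.tt) π.p.l
        (pvilEo 𝔓 𝔈 m ε pvilQ π.p.zt π.p.tt ↑π.Zt ∅) (pvilEi 𝔓 𝔈 m ε pvilQ π.p.zs π.p.ts ↑π.Zs ∅) → ∀ i 𝔇, PvdfPr 𝔓 m π 0 (𝔎s ε) η i 𝔇 →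
      ∃ y, 𝔇.YArc Subtype.val (𝔓.reg m π) (pvdfCol η) y ∧
        pvkyYc (𝔈.kit m ε) (𝔓.col π.p.ts) (pvieZo 𝔓 m π.p.zt π.p.tt) ((𝔓.Γ m).dout π.p.tt) π.p.l (pvilEo 𝔓 𝔈 m ε pvilQ π.p.zt π.p.tt ↑π.Zt ∅) (pvilEi 𝔓 𝔈 m ε pvilQ π.p.zs π.p.ts ↑π.Zs ∅) (𝔈.XQ m ε)
          (pvkyFl (𝔓.col π.p.ts) η) = 𝔇.Yof Subtype.val (pvxnFd (cfSites η) 0) 𝔓.num (pvlmH m) (𝔓.reg m π) y := by
  rw [show 𝔓.col π.p.ts = 𝔓.col π.p.tt from hπ.1.2.2.2.2.2.1]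
  exact pvjm_hch hW hπ hM hA

/-! ## 13. producers of the field `jn` -/

/-- the junction from the numbers of 90 and the two meshes of the big mouths on `S` -/
theorem pvjm_jn_mesh {x : ℂ} {R : ℝ} {m : ℕ} {π : PvxIx τ} (hW : 𝔓.Wf) (hreg : 𝔓.reg m π = pvfeRegAt (𝔓.Γ m) 𝔓.ty 𝔓.cp 𝔓.cm 𝔓.num (pvlmH m) π.p) (hπ : π ∈ pvxPatSet 𝔓 x R m)
    {𝔎 : PvxnKit} {S : Set (Conf PvPt)} {ε μ : ℝ} (hε : ε ≠ 0) (hn : PvhgNum 𝔓.num (pvlmH m) μ (𝔓.ty π.p.tt) (𝔓.ty π.p.ts))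
    (room : 𝔓.num.rho * pvlmH m / 2 + 𝔓.num.rho1 * pvlmH m + 2 * μ ≤ (pvwRad 𝔓.num (pvlmH m) (𝔓.ty π.p.ts) 𝔓.num.K + pvwRad 𝔓.num (pvlmH m) (𝔓.ty π.p.tt) 𝔓.num.K) / 2)
    (hmesh : ∀ ζ ∈ S, VorDense (cfSites ζ) (Metric.closedBall (pvxYt 𝔓 m π.p) (𝔓.num.rho2 * pvlmH m + 3 * μ)) μ ∧ VorDense (cfSites ζ) (Metric.closedBall (pvxYs 𝔓 m π.p) (𝔓.num.rho2 * pvlmH m + 3 * μ)) μ) :
    ∀ᵐ ζ ∂pvP ε, ζ ∈ S → ∀ i 𝔇, PvdfPr 𝔓 m π 0 𝔎 ζ i 𝔇 → ∀ n, 𝔇.t.np + 𝔇.s.nm ≤ n → pvasIt (delbPl (cfSites ζ)).toMap (pvdfCol ζ) 𝔇.t.dp n = 𝔇.s.dm →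
    (∀ i, i < n → pvasIt (delbPl (cfSites ζ)).toMap (pvdfCol ζ) 𝔇.t.dp i ≠ 𝔇.s.dm) →
    (∀ i, 𝔇.t.np < i → i + 𝔇.s.nm < n → (((delbPl (cfSites ζ)).toMap.src (pvasIt (delbPl (cfSites ζ)).toMap (pvdfCol ζ) 𝔇.t.dp i) : ↥(cfSites ζ)) : ℂ) ∈ (𝔓.reg m π).Yin ∧
      (((delbPl (cfSites ζ)).toMap.tgt (pvasIt (delbPl (cfSites ζ)).toMap (pvdfCol ζ) 𝔇.t.dp i) : ↥(cfSites ζ)) : ℂ) ∈ (𝔓.reg m π).Yin) → 𝔇.SYn Subtype.val (𝔓.reg m π) (pvdfCol ζ) n := by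
  filter_upwards [pvat_nice_ae hε] with ζ hN hS i 𝔇 hP n a1 a2 a3 a4
  exact pvjm_junction (hW.del m) hreg hπ hN.good hP.1.ok hP.1.hull_s hP.1.hull_t hn room (hmesh ζ hS).1 (hmesh ζ hS).2 hP.1.cyl.1 a1 a2 a3 a4

/-- the junction from the clause `NFD` at the present data (191) -/
theorem pvjm_jn_nfd {x : ℂ} {R : ℝ} {m : ℕ} {π : PvxIx τ} (hreg : 𝔓.reg m π = pvfeRegAt (𝔓.Γ m) 𝔓.ty 𝔓.cp 𝔓.cm 𝔓.num (pvlmH m) π.p) (hπ : π ∈ pvxPatSet 𝔓 x R m)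
    (hρ : 0 < 𝔓.num.rho * pvlmH m) (hρ1 : 0 ≤ 𝔓.num.rho1 * pvlmH m) {𝔎 : PvxnKit} {S : Set (Conf PvPt)} {ε : ℝ} (hε : ε ≠ 0)
    (hnfd : ∀ᵐ ζ ∂pvP ε, ζ ∈ S → ∀ i 𝔇, PvdfPr 𝔓 m π 0 𝔎 ζ i 𝔇 → 𝔇.NFD {v | (v : ℂ) ∈ (𝔓.reg m π).Yin}) :
    ∀ᵐ ζ ∂pvP ε, ζ ∈ S → ∀ i 𝔇, PvdfPr 𝔓 m π 0 𝔎 ζ i 𝔇 → ∀ n, 𝔇.t.np + 𝔇.s.nm ≤ n → pvasIt (delbPl (cfSites ζ)).toMap (pvdfCol ζ) 𝔇.t.dp n = 𝔇.s.dm →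
    (∀ i, i < n → pvasIt (delbPl (cfSites ζ)).toMap (pvdfCol ζ) 𝔇.t.dp i ≠ 𝔇.s.dm) →
    (∀ i, 𝔇.t.np < i → i + 𝔇.s.nm < n → (((delbPl (cfSites ζ)).toMap.src (pvasIt (delbPl (cfSites ζ)).toMap (pvdfCol ζ) 𝔇.t.dp i) : ↥(cfSites ζ)) : ℂ) ∈ (𝔓.reg m π).Yin ∧
      (((delbPl (cfSites ζ)).toMap.tgt (pvasIt (delbPl (cfSites ζ)).toMap (pvdfCol ζ) 𝔇.t.dp i) : ↥(cfSites ζ)) : ℂ) ∈ (𝔓.reg m π).Yin) → 𝔇.SYn Subtype.val (𝔓.reg m π) (pvdfCol ζ) n := by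
  filter_upwards [pvat_nice_ae hε, hnfd] with ζ hN hF hS i 𝔇 hP n a1 a2 a3 a4
  exact pvjm_junction_nfd hreg hπ hρ hρ1 hN.good hP.1.ok (hF hS i 𝔇 hP) hP.1.cyl.1 a1 a2 a3 a4

end model

end Claimed.Agent.R289
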