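-- KEEP
import Claimed.Agent.R289.Tr.LinkRec
import Claimed.Agent.R289.Exit.N1Junk
import Claimed.Agent.R289.Exit.ParGr
import Claimed.Agent.R289.Exit.EngRec

/-!
# Row 289 (S0537), THE WALL, ROAD E, file Tr/LinkRegM : `PvlcReg`, `PvlcRoomO`, `PvlcRoomI` AT THE MODEL      (helper274; post BOX:TR-LINKREGM; prefix `pvffm_`, `pvffm`, `Pvffm`)

CONSUMER: the hypotheses `G Go Gi` (and the small ones `epo epi eZ0 eD0 eZm eDm zz hD0 hDm Mc CM`) of `pvlc_value_Q` (70, `Tr/LinkRec`), used by the glue (CHAIN) of 268.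
* `pvffmH0 𝔓 m z t`  room of the tags of the first link `:=` (strictly behind the exit door) `∩` square of half side `r_k + ρ h` round the pin;   `pvffmH1 𝔓 m z t` mirror (in front of the entrance door).
* `PvffmEnd 𝔓 𝔈 m t`  what is asked from the rooms `oY iY` of the engine: W-7 of 208 (`oY` strictly behind the exit door, `iY` in front of the entrance door) + inside the inner mouths.
  PAID at the rooms `pvegOYa pvegIYa` of 124 and at every smaller room (`pvffm_end_a`), hence AT THE ENGINE OF RECORD (`pvffm_end_rec`).      FALSE at the old rooms `pvegOY pvegIY` (they contain the WHOLE door region).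
* `pvffm_roomO`, `pvffm_roomI`      the two rooms.
* **`pvffm_reg`**      `PvlcReg` at the doors, cells and masks of the corridor of an index `π ∈ pvxPatSet`.
  The fields `Mt Ms Qt Qs` (cells and door discs miss the cut-off balls) are FALSE for junk indices (empty hulls: the corridor may cross a core disc): hypothesis **`PvjxGood 𝔓 m π`** of 209 (`Exit/N1Junk`: free under `pvjx_split`).
* sec. 4  index facts: `pvffm_len_pos` (`0 < π.p.l.length`), `pvffm_last_Z`, `pvffm_last_D` (LAST DOOR = entrance door of `s`).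
* sec. 6  `𝔤 := pvkgG.sc δ_m`: `pvffm_ref pvffm_G_del pvffm_G_plug pvffm_G_Mc pvffm_G_CM`;   **`pvffm_value`** = `pvlc_value_Q` with ALL its static hypotheses paid (left: the road, the two end arcs, the links of the cells);
          at `pvxParOf N hN c`: `pvffm_reg_at pvffm_roomO_at pvffm_roomI_at pvffm_len_pos_at`, **`pvffm_value_rec`** (binder `hR : PvnaRec N hN c 𝔈`).
-/

set_option autoImplicit false

namespace Claimed.Agent.R289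

open Set Metric Claims.C0465
open scoped ComplexConjugate

/-! ## 1. cells and doors of a corridor against a gap -/

section gap

variable {τ : Type} {Γ : PvtsGeo τ} {p : PvtsPat τ}

/-- a point with the gap `g` is more than `g - δ / 2` away from every door -/
theorem pvffm_gap_door (δ0 : 0 < Γ.δ) {g : ℝ} {w : ℂ} (hw : PvffzGap Γ p g w) (hl : 0 < p.l.length) {j : ℕ} (hj : j ≤ p.l.length) :
    g - Γ.δ / 2 < ‖w - pvccZ (pvfeZ Γ p) (pvfeD Γ p) p.l j‖ := by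
  have key : ∀ (i : ℕ) (c : ℂ), i < p.l.length → ‖pvccC (pvfeZ Γ p) (pvfeD Γ p) p.l i - c‖ = Γ.δ / 2 → g - Γ.δ / 2 < ‖w - c‖ := by
    intro i c hi hc
    have h1 := hw i hi
    have h2 : ‖w - pvccC (pvfeZ Γ p) (pvfeD Γ p) p.l i‖ ≤ ‖w - c‖ + ‖c - pvccC (pvfeZ Γ p) (pvfeD Γ p) p.l i‖ := by
      have := norm_add_le (w - c) (c - pvccC (pvfeZ Γ p) (pvfeD Γ p) p.l i)
      rwa [sub_add_sub_cancel] at this
    rw [norm_sub_rev c] at h2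
    linarith
  have hfr : ∀ i, ‖pvccD (pvfeD Γ p) p.l i / 2‖ = Γ.δ / 2 := by
    intro i
    rw [norm_div, pvfe_norm_frame, pvfe_norm_D, abs_of_pos δ0]
    simp
  rcases Nat.lt_or_ge j p.l.length with hlt | hge
  · refine key j _ hlt ?_
    unfold pvccC
    rw [add_sub_cancel_left]
    exact hfr j
  · have e : j = (p.l.length - 1) + 1 := by omega
    have hlt : p.l.length - 1 < p.l.length := by omega
    refine key (p.l.length - 1) _ hlt ?_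
    rw [e, ← pvccC_prev _ _ _ hlt, sub_sub_cancel_left, norm_neg]
    exact hfr _

/-- the placed mask of the cell `j` lies within `δ` of the centre of the cell -/
theorem pvffm_cell (j : ℕ) {w : ℂ}
    (hw : w ∈ pvkdAt (pvthZ Γ.δ (pvfeZ Γ p) (Γ.dout p.tt) p.l j) (pvthD (Γ.dout p.tt) p.l j) (pvkxM Γ.δ)) :
    ‖w - pvccC (pvfeZ Γ p) (pvfeD Γ p) p.l j‖ ≤ Γ.δ := by
  obtain ⟨u, hu, rfl⟩ := hw
  have e : pvthSim (pvthZ Γ.δ (pvfeZ Γ p) (Γ.dout p.tt) p.l j) (pvthD (Γ.dout p.tt) p.l j) u - pvccC (pvfeZ Γ p) (pvfeD Γ p) p.l j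
      = pvthD (Γ.dout p.tt) p.l j * (u - ((Γ.δ / 2 : ℝ) : ℂ)) := by
    unfold pvccC pvthSim pvfeD
    rw [← pvthZ_eq, ← pvthD_eq]
    push_cast
    ring
  have hn : ‖pvthD (Γ.dout p.tt) p.l j‖ = 1 := by
    unfold pvthD
    rw [pvt_norm_dir, Γ.dout1]
  rw [e, norm_mul, hn, one_mul]
  obtain ⟨h1, h2, h3, h4⟩ := hu
  have h5 := Complex.norm_le_abs_re_add_abs_im (u - ((Γ.δ / 2 : ℝ) : ℂ))
  rw [Complex.sub_re, Complex.sub_im, Complex.ofReal_re, Complex.ofReal_im, sub_zero] at h5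
  have h6 : |u.re - Γ.δ / 2| ≤ Γ.δ / 2 := abs_le.2 ⟨by linarith, by linarith⟩
  have h7 : |u.im| ≤ Γ.δ / 2 := abs_le.2 ⟨by linarith, by linarith⟩
  linarith

/-- a set of points with the gap `δ` misses the placed masks of the cells -/
theorem pvffm_cell_disj {B : Set ℂ} (hB : ∀ w ∈ B, PvffzGap Γ p Γ.δ w) {j : ℕ} (hj : j < p.l.length) :
    Disjoint (pvkdAt (pvthZ Γ.δ (pvfeZ Γ p) (Γ.dout p.tt) p.l j) (pvthD (Γ.dout p.tt) p.l j) (pvkxM Γ.δ)) B :=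
  Set.disjoint_left.2 fun w h1 h2 => absurd (pvffm_cell j h1) (not_le.2 (hB w h2 j hj))

/-- a set of points with the gap `δ` misses the discs of radius `δ / 2` of the doors -/
theorem pvffm_door_disj (δ0 : 0 < Γ.δ) {B : Set ℂ} (hB : ∀ w ∈ B, PvffzGap Γ p Γ.δ w) (hl : 0 < p.l.length) {b : ℝ} (hb : b ≤ Γ.δ / 2) {j : ℕ} (hj : j ≤ p.l.length) :
    Disjoint (ball (pvthZ Γ.δ (pvfeZ Γ p) (Γ.dout p.tt) p.l j) b) B := by
  refine Set.disjoint_left.2 fun w h1 h2 => ?_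
  have h3 := pvffm_gap_door δ0 (hB w h2) hl hj
  rw [mem_ball_iff_norm, pvthZ_eq] at h1
  unfold pvfeD at h3
  linarith

end gap

/-! ## 2. the rooms: definitions, plane geometry -/

section defs

variable {τ : Type} {c : ℝ} (𝔓 : PvxPar τ c) (𝔈 : PvieEng τ)

/-- **the room of the tags of the first link** `(z,t) → exit door`: strictly behind the door, in the square of half side `r_k + ρ h` -/
noncomputable def pvffmH0 (m : ℕ) (z : ℂ) (t : τ) : Set ℂ :=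
  (pvilHp (pvieZo 𝔓 m z t) ((𝔓.Γ m).dout t))ᶜ ∩ pvwSq z (pviwRad 𝔓 m t + 𝔓.num.rho * pvlmH m)

/-- **the room of the tags of the last link** `entrance door → (z,t)`: in front of the door, in the square of half side `r_k + ρ h` -/
noncomputable def pvffmH1 (m : ℕ) (z : ℂ) (t : τ) : Set ℂ :=
  pvilHp (pvieZi 𝔓 m z t) ((𝔓.Γ m).din t) ∩ pvwSq z (pviwRad 𝔓 m t + 𝔓.num.rho * pvlmH m)

/-- **what the value of a chain asks from the rooms of the two end links of the engine** (W-7 of 208 + inner mouths) -/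
structure PvffmEnd (m : ℕ) (t : τ) : Prop where
  oY_back : ∀ v ∈ 𝔈.oY m t, ((v - (𝔓.Γ m).pout t) * conj ((𝔓.Γ m).dout t)).re < 0
  oY_ball : 𝔈.oY m t ⊆ closedBall ((pvlmH m : ℂ) * (𝔓.ty t).yp) (𝔓.num.rho * pvlmH m / 2)
  iY_front : ∀ v ∈ 𝔈.iY m t, 0 ≤ ((v - (𝔓.Γ m).pin t) * conj ((𝔓.Γ m).din t)).re
  iY_ball : 𝔈.iY m t ⊆ closedBall ((pvlmH m : ℂ) * (𝔓.ty t).ym) (𝔓.num.rho * pvlmH m / 2)

end defs

theorem pvffm_eqns_cite : True := by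
  have := @pvffmH0.eq_1; have := @pvffmH1.eq_1
  trivial

theorem pvffm_lin (d : ℂ) : IsLinearMap ℝ fun w : ℂ => (w * conj d).re :=
  ⟨fun x y => by simp only [add_mul, Complex.add_re], fun a x => by simp only [Complex.real_smul, mul_assoc, Complex.re_ofReal_mul, smul_eq_mul]⟩

theorem pvffm_Hp_convex (z d : ℂ) : Convex ℝ (pvilHp z d) := by
  have h := convex_halfSpace_ge (pvffm_lin d) ((z * conj d).re)
  have e : pvilHp z d = {w : ℂ | (z * conj d).re ≤ (w * conj d).re} := by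
    ext w
    simp only [pvilHp, mem_ofPred_eq, sub_mul, Complex.sub_re, sub_nonneg]
  rw [e]
  exact h

theorem pvffm_Hpc_convex (z d : ℂ) : Convex ℝ (pvilHp z d)ᶜ := by
  have h := convex_halfSpace_lt (pvffm_lin d) ((z * conj d).re)
  have e : (pvilHp z d)ᶜ = {w : ℂ | (w * conj d).re < (z * conj d).re} := by
    ext w
    simp only [pvilHp, mem_compl_iff, mem_ofPred_eq, sub_mul, Complex.sub_re, sub_nonneg, not_le]
  rw [e]
  exact h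

theorem pvffm_sq_convex (z : ℂ) (r : ℝ) : Convex ℝ (pvwSq z r) := by
  intro a ha b hb t u ht hu htu
  have e : t • a + u • b - z = t • (a - z) + u • (b - z) := by
    have h1 : z = (t + u) • z := by rw [htu, one_smul]
    rw [smul_sub, smul_sub]
    nth_rewrite 1 [h1]
    rw [add_smul]; abel
  have key : ∀ x y : ℝ, |x| ≤ r → |y| ≤ r → |t * x + u * y| ≤ r := by
    intro x y hx hy
    calc |t * x + u * y| ≤ |t * x| + |u * y| := abs_add_le _ _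
      _ = t * |x| + u * |y| := by rw [abs_mul, abs_mul, abs_of_nonneg ht, abs_of_nonneg hu]
      _ ≤ t * r + u * r := add_le_add (mul_le_mul_of_nonneg_left hx ht) (mul_le_mul_of_nonneg_left hy hu)
      _ = r := by rw [← add_mul, htu, one_mul]
  constructor
  · rw [e]
    simp only [Complex.add_re, Complex.real_smul, Complex.mul_re, Complex.ofReal_re, Complex.ofReal_im, zero_mul, sub_zero]
    exact key _ _ ha.1 hb.1
  · rw [e]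
    simp only [Complex.add_im, Complex.real_smul, Complex.mul_im, Complex.ofReal_re, Complex.ofReal_im, zero_mul, add_zero]
    exact key _ _ ha.2 hb.2

theorem pvffm_sq_mono (z : ℂ) {r r' : ℝ} (h : r ≤ r') : pvwSq z r ⊆ pvwSq z r' := fun _ hw => ⟨hw.1.trans h, hw.2.trans h⟩

/-- a point within `s` of `z + h y` lies in the square of half side `A h + s`, `A ≥` the sup norm of `y` -/
theorem pvffm_sq_of {h : ℝ} (h0 : 0 ≤ h) {y z v : ℂ} {A s : ℝ} (hy : pvccN y ≤ A) (hv : ‖v - (z + (h : ℂ) * y)‖ ≤ s) : v ∈ pvwSq z (A * h + s) := by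
  have e : v - z = (v - (z + (h : ℂ) * y)) + (h : ℂ) * y := by ring
  have h1 : |y.re| ≤ A := (le_max_left _ _).trans hy
  have h2 : |y.im| ≤ A := (le_max_right _ _).trans hy
  constructor
  · rw [e, Complex.add_re, Complex.re_ofReal_mul]
    calc |(v - (z + (h : ℂ) * y)).re + h * y.re| ≤ |(v - (z + (h : ℂ) * y)).re| + |h * y.re| := abs_add_le _ _
      _ ≤ s + h * A := by
          rw [abs_mul, abs_of_nonneg h0]
          exact add_le_add ((Complex.abs_re_le_norm _).trans hv) (mul_le_mul_of_nonneg_left h1 h0)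
      _ = A * h + s := by ring
  · rw [e, Complex.add_im, Complex.im_ofReal_mul]
    calc |(v - (z + (h : ℂ) * y)).im + h * y.im| ≤ |(v - (z + (h : ℂ) * y)).im| + |h * y.im| := abs_add_le _ _
      _ ≤ s + h * A := by
          rw [abs_mul, abs_of_nonneg h0]
          exact add_le_add ((Complex.abs_im_le_norm _).trans hv) (mul_le_mul_of_nonneg_left h2 h0)
      _ = A * h + s := by ring

/-! ## 3. the two rooms at the parameters -/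

section rooms

variable {τ : Type} {c : ℝ} {𝔓 : PvxPar τ c} {𝔈 : PvieEng τ} {m : ℕ} {t : τ}

/-- a point within `ρ h / 2` of the grid centre of the exit tip cell lies in the square of the rooms -/
theorem pvffm_sq_o (hL : PvegLev 𝔓 m) (hT : pviwTyOk 𝔓 t) {z v : ℂ} (hv : ‖v - (z + (pvlmH m : ℂ) * (𝔓.ty t).yp)‖ ≤ 𝔓.num.rho * pvlmH m / 2) :
    v ∈ pvwSq z (pviwRad 𝔓 m t + 𝔓.num.rho * pvlmH m) := by
  have hh := pvlm_H_pos m
  have h1 : pvccN (𝔓.ty t).yp ≤ 2 * (𝔓.ty t).b2 + (𝔓.ty t).k * 𝔓.num.rho1 + 𝔓.num.rho / 10 := by linarith [(abs_le.1 hT.1).2]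
  refine pvffm_sq_mono z ?_ (pvffm_sq_of hh.le h1 hv)
  have := mul_pos hL.rho0 hh
  unfold pviwRad pvwRad
  nlinarith

theorem pvffm_sq_i (hL : PvegLev 𝔓 m) (hT : pviwTyOk 𝔓 t) {z v : ℂ} (hv : ‖v - (z + (pvlmH m : ℂ) * (𝔓.ty t).ym)‖ ≤ 𝔓.num.rho * pvlmH m / 2) :
    v ∈ pvwSq z (pviwRad 𝔓 m t + 𝔓.num.rho * pvlmH m) := by
  have hh := pvlm_H_pos m
  have h1 : pvccN (𝔓.ty t).ym ≤ 2 * (𝔓.ty t).b2 + (𝔓.ty t).k * 𝔓.num.rho1 + 𝔓.num.rho / 10 := by linarith [(abs_le.1 hT.2.1).2]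
  refine pvffm_sq_mono z ?_ (pvffm_sq_of hh.le h1 hv)
  have := mul_pos hL.rho0 hh
  unfold pviwRad pvwRad
  nlinarith

/-- the door square of the exit door lies in the inner mouth -/
theorem pvffm_door_o (hL : PvegLev 𝔓 m) (hT : pviwTyOk 𝔓 t) (z : ℂ) {u : ℂ} (hu : u ∈ pvccSq 0 (pvlmDel c m / 4)) :
    ‖pvthSim (pvieZo 𝔓 m z t) ((𝔓.Γ m).dout t) u - (z + (pvlmH m : ℂ) * (𝔓.ty t).yp)‖ ≤ 𝔓.num.rho * pvlmH m / 2 := by
  have h := pveg_oY_ball hL hT (O₀ := fun _ => pvccSq 0 (pvlmDel c m / 4)) subset_rfl le_rfl z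
  have h1 : pvthSim (pvieZo 𝔓 m z t) ((𝔓.Γ m).dout t) u ∈ pvieSh z (pvegOY 𝔓 (fun _ => pvccSq 0 (pvlmDel c m / 4)) m t) := by
    refine ⟨pvthSim ((𝔓.Γ m).pout t) ((𝔓.Γ m).dout t) u, ?_, ?_⟩
    · rw [pveg_oY_eq]
      exact Or.inr ⟨u, hu, rfl⟩
    · simp only [pvthSim, pvieZo]; ring
  exact mem_closedBall_iff_norm.1 (h h1)

/-- the door square of the entrance door lies in the inner mouth -/
theorem pvffm_door_i (hL : PvegLev 𝔓 m) (hT : pviwTyOk 𝔓 t) (z : ℂ) {u : ℂ} (hu : u ∈ pvccSq 0 (pvlmDel c m / 4)) :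
    ‖pvthSim (pvieZi 𝔓 m z t) ((𝔓.Γ m).din t) u - (z + (pvlmH m : ℂ) * (𝔓.ty t).ym)‖ ≤ 𝔓.num.rho * pvlmH m / 2 := by
  have h := pveg_iY_ball hL hT (O₀ := fun _ => pvccSq 0 (pvlmDel c m / 4)) subset_rfl le_rfl z
  have h1 : pvthSim (pvieZi 𝔓 m z t) ((𝔓.Γ m).din t) u ∈ pvieSh z (pvegIY 𝔓 (fun _ => pvccSq 0 (pvlmDel c m / 4)) m t) := by
    refine ⟨pvthSim ((𝔓.Γ m).pin t) ((𝔓.Γ m).din t) u, ?_, ?_⟩
    · rw [pveg_iY_eq]
      exact Or.inr ⟨u, hu, rfl⟩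
    · simp only [pvthSim, pvieZi]; ring
  exact mem_closedBall_iff_norm.1 (h h1)

/-- the coordinate along a unit frame of a placed point -/
theorem pvffm_coord {z d : ℂ} (hd : ‖d‖ = 1) (u : ℂ) : ((pvthSim z d u - z) * conj d).re = u.re := by
  have h1 : d * conj d = 1 := by
    rw [Complex.mul_conj, Complex.normSq_eq_norm_sq, hd]; norm_num
  have : (pvthSim z d u - z) * conj d = u * (d * conj d) := by unfold pvthSim; ring
  rw [this, h1, mul_one]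

/-- the own-level box lies in the room of the first link -/
theorem pvffm_box_o (hL : PvegLev 𝔓 m) (hT : pviwTyOk 𝔓 t) {z w : ℂ} (hw : w ∈ pvwSq z (pviwRad 𝔓 m t)) : w ∈ pvffmH0 𝔓 m z t := by
  have hh := pvlm_H_pos m
  have hδ := pvlm_Del_pos c m
  refine ⟨?_, pvffm_sq_mono z (by have := mul_pos hL.rho0 hh; linarith) hw⟩
  have h1 : w - z ∈ pviwBox 𝔓 m t := by
    unfold pviwBox
    refine pvffm_sq_mono 0 (by linarith) ?_
    simpa [pvwSq] using hw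
  have h2 := pveg_box_back_o hL hT h1
  have h3 := pveg_A_pos c m
  show ¬ (0 ≤ ((w - pvieZo 𝔓 m z t) * conj ((𝔓.Γ m).dout t)).re)
  have e : w - pvieZo 𝔓 m z t = w - z - (𝔓.Γ m).pout t := by unfold pvieZo; ring
  rw [e]
  linarith

/-- the own-level box lies in the room of the last link -/
theorem pvffm_box_i (hL : PvegLev 𝔓 m) (hT : pviwTyOk 𝔓 t) {z w : ℂ} (hw : w ∈ pvwSq z (pviwRad 𝔓 m t)) : w ∈ pvffmH1 𝔓 m z t := by
  have hh := pvlm_H_pos m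
  have hδ := pvlm_Del_pos c m
  refine ⟨?_, pvffm_sq_mono z (by have := mul_pos hL.rho0 hh; linarith) hw⟩
  have h1 : w - z ∈ pviwBox 𝔓 m t := by
    unfold pviwBox
    refine pvffm_sq_mono 0 (by linarith) ?_
    simpa [pvwSq] using hw
  have h2 := pveg_box_back_i hL hT h1
  have h3 := pveg_A_pos c m
  show 0 ≤ ((w - pvieZi 𝔓 m z t) * conj ((𝔓.Γ m).din t)).re
  have e : w - pvieZi 𝔓 m z t = w - z - (𝔓.Γ m).pin t := by unfold pvieZi; ring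
  rw [e]
  linarith

/-- the open core disc lies in the own-level box -/
theorem pvffm_disc_box (hρ1 : 0 ≤ 𝔓.num.rho1) (hb : (𝔓.ty t).b ≤ 2 * (𝔓.ty t).b2) {z w : ℂ} (hw : ‖w - z‖ ≤ (𝔓.ty t).b * pvlmH m) : w ∈ pvwSq z (pviwRad 𝔓 m t) := by
  have hh := pvlm_H_pos m
  have h1 : (𝔓.ty t).b * pvlmH m ≤ pviwRad 𝔓 m t := by
    unfold pviwRad pvwRad
    refine mul_le_mul_of_nonneg_right ?_ hh.le
    have : 0 ≤ ((𝔓.ty t).k : ℝ) * 𝔓.num.rho1 := mul_nonneg (Nat.cast_nonneg _) hρ1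
    linarith
  exact ⟨(Complex.abs_re_le_norm _).trans (hw.trans h1), (Complex.abs_im_le_norm _).trans (hw.trans h1)⟩

theorem pvffm_H0_convex (𝔓 : PvxPar τ c) (m : ℕ) (z : ℂ) (t : τ) : Convex ℝ (pvffmH0 𝔓 m z t) := (pvffm_Hpc_convex _ _).inter (pvffm_sq_convex _ _)

theorem pvffm_H1_convex (𝔓 : PvxPar τ c) (m : ℕ) (z : ℂ) (t : τ) : Convex ℝ (pvffmH1 𝔓 m z t) := (pvffm_Hp_convex _ _).inter (pvffm_sq_convex _ _)

/-- the rooms of `g⁻`, `g⁺` of the door plug lie in the door square -/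
theorem pvffm_Zm_sq {δ : ℝ} (δ0 : 0 < δ) : (pvkdP (δ / 40)).Zm ⊆ pvccSq 0 (δ / 4) := by
  rintro u ⟨h1, h2, h3, h4⟩
  show max |(u - 0).re| |(u - 0).im| < δ / 4
  rw [sub_zero]
  exact max_lt (abs_lt.2 ⟨by linarith, by linarith⟩) (abs_lt.2 ⟨by linarith, by linarith⟩)

theorem pvffm_Zp_sq {δ : ℝ} (δ0 : 0 < δ) : (pvkdP (δ / 40)).Zp ⊆ pvccSq 0 (δ / 4) := by
  rintro u ⟨h1, h2, h3, h4⟩
  show max |(u - 0).re| |(u - 0).im| < δ / 4
  rw [sub_zero]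
  exact max_lt (abs_lt.2 ⟨by linarith, by linarith⟩) (abs_lt.2 ⟨by linarith, by linarith⟩)

/-- **`PvlcRoomO` AT THE MODEL** -/
theorem pvffm_roomO (hW : 𝔓.WfB) (hL : PvegLev 𝔓 m) (hT : pviwTyOk 𝔓 t) (hb : (𝔓.ty t).b ≤ 2 * (𝔓.ty t).b2) (hE : PvffmEnd 𝔓 𝔈 m t) (z : ℂ) :
    PvlcRoomO 𝔓.num (pvilLo 𝔓 𝔈 m z t) (pvffmH0 𝔓 m z t) where
  cvx := pvffm_H0_convex 𝔓 m z t
  disc := fun w hw => by
    have hw' : ‖w - z‖ < (𝔓.ty t).b * pvlmH m := by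
      have e : conj (1 : ℂ) * w - conj (1 : ℂ) * z = w - z := by rw [map_one, one_mul, one_mul]
      rw [← e]
      exact hw
    exact pvffm_box_o hL hT (pvffm_disc_box (hW.rho0.trans hW.rho1).le hb hw'.le)
  box := fun w hw => by
    have hw' : w ∈ pvwSq z (pviwRad 𝔓 m t) := by
      have e1 : conj (1 : ℂ) * w = w := by rw [map_one, one_mul]
      have e2 : conj (1 : ℂ) * z = z := by rw [map_one, one_mul]
      rw [← e1, ← e2]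
      exact hw
    exact pvffm_box_o hL hT hw'
  room := by
    rintro _ ⟨v, hv, rfl⟩
    refine ⟨?_, pvffm_sq_o hL hT ?_⟩
    · show ¬ (0 ≤ ((z + v - pvieZo 𝔓 m z t) * conj ((𝔓.Γ m).dout t)).re)
      have e : z + v - pvieZo 𝔓 m z t = v - (𝔓.Γ m).pout t := by unfold pvieZo; ring
      rw [e]
      exact not_le.2 (hE.oY_back v hv)
    · have e : z + v - (z + (pvlmH m : ℂ) * (𝔓.ty t).yp) = v - (pvlmH m : ℂ) * (𝔓.ty t).yp := by ring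
      rw [e]
      exact mem_closedBall_iff_norm.1 (hE.oY_ball hv)
  door := by
    rintro _ ⟨u, hu, rfl⟩
    have hδ := pvlm_Del_pos c m
    refine ⟨?_, pvffm_sq_o hL hT (pvffm_door_o hL hT z (pvffm_Zm_sq hδ hu))⟩
    show ¬ (0 ≤ ((pvthSim (pvieZo 𝔓 m z t) ((𝔓.Γ m).dout t) u - pvieZo 𝔓 m z t) * conj ((𝔓.Γ m).dout t)).re)
    rw [pvffm_coord ((𝔓.Γ m).dout1 t)]
    have h1 : u.re ≤ -(pvlmDel c m / 40 / 2) := hu.2.1
    linarith

/-- **`PvlcRoomI` AT THE MODEL** -/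
theorem pvffm_roomI (hW : 𝔓.WfB) (hL : PvegLev 𝔓 m) (hT : pviwTyOk 𝔓 t) (hb : (𝔓.ty t).b ≤ 2 * (𝔓.ty t).b2) (hE : PvffmEnd 𝔓 𝔈 m t) (z : ℂ) :
    PvlcRoomI 𝔓.num (pvilLi 𝔓 𝔈 m z t) (pvffmH1 𝔓 m z t) where
  cvx := pvffm_H1_convex 𝔓 m z t
  disc := fun w hw => by
    have hw' : ‖w - z‖ < (𝔓.ty t).b * pvlmH m := by
      have e : conj (1 : ℂ) * w - conj (1 : ℂ) * z = w - z := by rw [map_one, one_mul, one_mul]
      rw [← e]
      exact hw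
    exact pvffm_box_i hL hT (pvffm_disc_box (hW.rho0.trans hW.rho1).le hb hw'.le)
  box := fun w hw => by
    have hw' : w ∈ pvwSq z (pviwRad 𝔓 m t) := by
      have e1 : conj (1 : ℂ) * w = w := by rw [map_one, one_mul]
      have e2 : conj (1 : ℂ) * z = z := by rw [map_one, one_mul]
      rw [← e1, ← e2]
      exact hw
    exact pvffm_box_i hL hT hw'
  room := by
    rintro _ ⟨v, hv, rfl⟩
    refine ⟨?_, pvffm_sq_i hL hT ?_⟩
    · show 0 ≤ ((z + v - pvieZi 𝔓 m z t) * conj ((𝔓.Γ m).din t)).re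
      have e : z + v - pvieZi 𝔓 m z t = v - (𝔓.Γ m).pin t := by unfold pvieZi; ring
      rw [e]
      exact hE.iY_front v hv
    · have e : z + v - (z + (pvlmH m : ℂ) * (𝔓.ty t).ym) = v - (pvlmH m : ℂ) * (𝔓.ty t).ym := by ring
      rw [e]
      exact mem_closedBall_iff_norm.1 (hE.iY_ball hv)
  door := by
    rintro _ ⟨u, hu, rfl⟩
    have hδ := pvlm_Del_pos c m
    refine ⟨?_, pvffm_sq_i hL hT (pvffm_door_i hL hT z (pvffm_Zp_sq hδ hu))⟩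
    show 0 ≤ ((pvthSim (pvieZi 𝔓 m z t) ((𝔓.Γ m).din t) u - pvieZi 𝔓 m z t) * conj ((𝔓.Γ m).din t)).re
    rw [pvffm_coord (pveg_norm_unit (pveg_din4 hL t))]
    have h1 : pvlmDel c m / 40 / 2 ≤ u.re := hu.1
    linarith

/-- **the contract on the rooms is paid at the rooms `pvegOYa pvegIYa` of 124**, and at every smaller room -/
theorem pvffm_end_a (hL : PvegLev 𝔓 m) (hT : pviwTyOk 𝔓 t) (ho : 𝔈.oY m t ⊆ pvegOYa 𝔓 m t) (hi : 𝔈.iY m t ⊆ pvegIYa 𝔓 m t) : PvffmEnd 𝔓 𝔈 m t where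
  oY_back := fun v hv => by
    have := pveg_oYa_back hL hT (ho hv)
    have := pveg_A_pos c m
    linarith
  oY_ball := ho.trans (pveg_Ya_ball (pveg_door_o hL hT) (pveg_A_pos c m).le)
  iY_front := fun v hv => by
    have := pveg_iYa_front hL hT (hi hv)
    have := pveg_A_pos c m
    linarith
  iY_ball := hi.trans (pveg_Ya_ball (pveg_door_i hL hT) (pveg_A_pos c m).le)

end rooms

/-! ## 4. index facts -/

section index

variable {τ : Type} {c : ℝ} {𝔓 : PvxPar τ c} {𝔈 : PvieEng τ} {x : ℂ} {R : ℝ} {m : ℕ} {π : PvxIx τ}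

/-- the first door -/
theorem pvffm_first_Z (δ : ℝ) (z d : ℂ) (l : List PvtTurn) : pvthZ δ z d l 0 = z := by
  simp [pvthZ, pvtDisp]

theorem pvffm_first_D (d : ℂ) (l : List PvtTurn) : pvthD d l 0 = d := by
  simp [pvthD]

/-- **LAST DOOR**: the last door of the corridor is the entrance door of `s` -/
theorem pvffm_last_Z (hW : 𝔓.Wf) (hπ : π ∈ pvxPatSet 𝔓 x R m) :
    pvthZ (pvlmDel c m) (pvieZo 𝔓 m π.p.zt π.p.tt) ((𝔓.Γ m).dout π.p.tt) π.p.l π.p.l.length = pvieZi 𝔓 m π.p.zs π.p.ts := by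
  have h := pvfe_last_door (𝔓.Γ m) hπ.1.1
  rw [pvthZ_eq, ← hW.del m]
  exact h

theorem pvffm_last_D (hπ : π ∈ pvxPatSet 𝔓 x R m) : pvthD ((𝔓.Γ m).dout π.p.tt) π.p.l π.p.l.length = (𝔓.Γ m).din π.p.ts := by
  unfold pvthD
  rw [List.take_length]
  exact hπ.1.1.2

theorem pvffm_fine (hL : PvegLev 𝔓 m) : 32 * pvlmDel c m < 𝔓.num.rho * pvlmH m := by
  have := hL.fine
  have := pvlm_Del_pos c m
  linarith

theorem pvffm_rho_lt (hW : 𝔓.WfB) : 𝔓.num.rho < 1 := (hW.rho1.trans hW.rho2).trans hW.rho3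

/-- the square of the rooms of `t` is far from `s` -/
theorem pvffm_far_s (hW : 𝔓.Wf) (hL : PvegLev 𝔓 m) (hπ : π ∈ pvxPatSet 𝔓 x R m) {w : ℂ} (hw : w ∈ pvwSq π.p.zt (pviwRad 𝔓 m π.p.tt + 𝔓.num.rho * pvlmH m)) :
    2 * pvwRad 𝔓.num (pvlmH m) (𝔓.ty π.p.ts) 𝔓.num.K + 6 * pvlmH m < ‖w - π.p.zs‖ := by
  have hh := pvlm_H_pos m
  have h1 := pvffz_sq_norm hw
  have h2 := hπ.2.2.2.2.1.sep
  have h3 := pvffz_rad_mono (pvffz_num hW (pvffm_fine hL)) (𝔓.ty π.p.tt) (hW.lev π.p.tt)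
  have h4 : ‖π.p.zs - π.p.zt‖ ≤ ‖w - π.p.zs‖ + ‖w - π.p.zt‖ := by
    have := norm_sub_le (w - π.p.zt) (w - π.p.zs)
    rw [sub_sub_sub_cancel_left] at this
    linarith
  have h5 : 𝔓.num.rho * pvlmH m < pvlmH m := by
    have := mul_lt_mul_of_pos_right (pvffm_rho_lt hW.toWfB) hh
    linarith
  unfold pviwRad at h1
  linarith

/-- the square of the rooms of `s` is far from `t` -/
theorem pvffm_far_t (hW : 𝔓.Wf) (hL : PvegLev 𝔓 m) (hπ : π ∈ pvxPatSet 𝔓 x R m) {w : ℂ} (hw : w ∈ pvwSq π.p.zs (pviwRad 𝔓 m π.p.ts + 𝔓.num.rho * pvlmH m)) :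
    2 * pvwRad 𝔓.num (pvlmH m) (𝔓.ty π.p.tt) 𝔓.num.K + 6 * pvlmH m < ‖w - π.p.zt‖ := by
  have hh := pvlm_H_pos m
  have h1 := pvffz_sq_norm hw
  have h2 := hπ.2.2.2.2.1.sep
  have h3 := pvffz_rad_mono (pvffz_num hW (pvffm_fine hL)) (𝔓.ty π.p.ts) (hW.lev π.p.ts)
  have h4 : ‖π.p.zs - π.p.zt‖ ≤ ‖w - π.p.zs‖ + ‖w - π.p.zt‖ := by
    have := norm_sub_le (w - π.p.zt) (w - π.p.zs)
    rw [sub_sub_sub_cancel_left] at this
    linarith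
  have h5 : 𝔓.num.rho * pvlmH m < pvlmH m := by
    have := mul_lt_mul_of_pos_right (pvffm_rho_lt hW.toWfB) hh
    linarith
  unfold pviwRad at h1
  linarith

/-- **the corridor of a pattern has a cell** -/
theorem pvffm_len_pos (hW : 𝔓.Wf) (hL : PvegLev 𝔓 m) (hTs : pviwTyOk 𝔓 π.p.ts) (hTt : pviwTyOk 𝔓 π.p.tt) (hπ : π ∈ pvxPatSet 𝔓 x R m) : 0 < π.p.l.length := by
  by_contra h0
  have hl : π.p.l.length = 0 := by omega
  have hh := pvlm_H_pos m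
  have hδ := pvlm_Del_pos c m
  have e1 := pvffm_last_Z hW hπ
  rw [hl, pvffm_first_Z] at e1
  have h00 : (0 : ℂ) ∈ pvccSq 0 (pvlmDel c m / 4) := by
    show pvccN (0 - 0) < pvlmDel c m / 4
    simp only [sub_zero, pvccN, Complex.zero_re, Complex.zero_im, abs_zero, max_self]
    linarith
  have a1 := pvffm_sq_o hL hTt (pvffm_door_o hL hTt π.p.zt h00)
  have a2 := pvffm_sq_i hL hTs (pvffm_door_i hL hTs π.p.zs h00)
  have e2 : pvthSim (pvieZi 𝔓 m π.p.zs π.p.ts) ((𝔓.Γ m).din π.p.ts) 0 = pvthSim (pvieZo 𝔓 m π.p.zt π.p.tt) ((𝔓.Γ m).dout π.p.tt) 0 := by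
    simp only [pvthSim, mul_zero, add_zero, e1]
  rw [e2] at a2
  have b1 := pvffm_far_s hW hL hπ a1
  have b2 := pvffz_sq_norm a2
  have b3 := pvffz_rad_mono (pvffz_num hW (pvffm_fine hL)) (𝔓.ty π.p.ts) (hW.lev π.p.ts)
  have h5 : 𝔓.num.rho * pvlmH m < pvlmH m := by
    have := mul_lt_mul_of_pos_right (pvffm_rho_lt hW.toWfB) hh
    linarith
  unfold pviwRad at b2
  linarith

/-- the cut-off ball of a pin lies in its own-level box, hence in the largest box -/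
theorem pvffm_cut_le (hW : 𝔓.Wf) (hF : PvfhWf 𝔓) (hL : PvegLev 𝔓 m) {t : τ} (hmb : 𝔓.num.m ≤ (𝔓.ty t).b) :
    𝔓.num.m * pvlmH m ≤ pvwRad 𝔓.num (pvlmH m) (𝔓.ty t) 𝔓.num.K := by
  have hh := pvlm_H_pos m
  have h3 := pvffz_rad_mono (pvffz_num hW (pvffm_fine hL)) (𝔓.ty t) (hW.lev t)
  have h1 : 𝔓.num.m * pvlmH m ≤ pvwRad 𝔓.num (pvlmH m) (𝔓.ty t) (𝔓.ty t).k := by
    unfold pvwRad
    refine mul_le_mul_of_nonneg_right ?_ hh.le
    have : 0 ≤ ((𝔓.ty t).k : ℝ) * 𝔓.num.rho1 := mul_nonneg (Nat.cast_nonneg _) (hW.rho0.trans hW.rho1).le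
    linarith [hF.b_b2 t]
  exact h1.trans h3

/-! ## 5. `PvlcReg` at the model -/

/-- **`PvlcReg` AT THE MODEL**: the regions of the value of the chain of an index of `pvxPatSet`, GOOD in the sense of 209 -/
theorem pvffm_reg (𝔈 : PvieEng τ) (hW : 𝔓.Wf) (hF : PvfhWf 𝔓) (hL : PvegLev 𝔓 m) (hTs : pviwTyOk 𝔓 π.p.ts) (hTt : pviwTyOk 𝔓 π.p.tt)
    (hms : 𝔓.num.m ≤ (𝔓.ty π.p.ts).b) (hmt : 𝔓.num.m ≤ (𝔓.ty π.p.tt).b) (hπ : π ∈ pvxPatSet 𝔓 x R m) (hg : PvjxGood 𝔓 m π)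
    {𝔤 : PvkdGeo} (Rf : PvkxRef 𝔤) (hδ : 𝔤.δ = pvlmDel c m) :
    PvlcReg π.p.l.length ((pvilLo 𝔓 𝔈 m π.p.zt π.p.tt).ball 𝔓.num) ((pvilLi 𝔓 𝔈 m π.p.zs π.p.ts).ball' 𝔓.num) (pvilLo 𝔓 𝔈 m π.p.zt π.p.tt).Mk (pvilLi 𝔓 𝔈 m π.p.zs π.p.ts).Mk
      (pvffmH0 𝔓 m π.p.zt π.p.tt) (pvffmH1 𝔓 m π.p.zs π.p.ts)
      (fun j => pvkdAt (pvthZ 𝔤.δ (pvieZo 𝔓 m π.p.zt π.p.tt) ((𝔓.Γ m).dout π.p.tt) π.p.l j) (pvthD ((𝔓.Γ m).dout π.p.tt) π.p.l j) (𝔤.Mk (pvthL π.p.l j)))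
      (fun j => ball (pvthZ 𝔤.δ (pvieZo 𝔓 m π.p.zt π.p.tt) ((𝔓.Γ m).dout π.p.tt) π.p.l j) 𝔤.b) := by
  have hh := pvlm_H_pos m
  have hδ0 := pvlm_Del_pos c m
  have hΓ : (𝔓.Γ m).δ = pvlmDel c m := hW.del m
  have δ0 : 0 < (𝔓.Γ m).δ := by rw [hΓ]; exact hδ0
  have hl := pvffm_len_pos hW hL hTs hTt hπ
  have hd4 := pveg_dout4 hL π.p.tt
  have hBt : ∀ w ∈ (pvilLo 𝔓 𝔈 m π.p.zt π.p.tt).ball 𝔓.num, PvffzGap (𝔓.Γ m) π.p (𝔓.Γ m).δ w := fun w hw =>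
    (hg w (Or.inr (closedBall_subset_closedBall (mul_le_mul_of_nonneg_right hmt hh.le) hw))).mono (by linarith)
  have hBs : ∀ w ∈ (pvilLi 𝔓 𝔈 m π.p.zs π.p.ts).ball' 𝔓.num, PvffzGap (𝔓.Γ m) π.p (𝔓.Γ m).δ w := fun w hw =>
    (hg w (Or.inl (closedBall_subset_closedBall (mul_le_mul_of_nonneg_right hms hh.le) hw))).mono (by linarith)
  have hb2 : 𝔤.b ≤ (𝔓.Γ m).δ / 2 := by
    have := Rf.b4
    rw [hδ] at this
    rw [hΓ]
    linarith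
  have hRs : 0 ≤ pvwRad 𝔓.num (pvlmH m) (𝔓.ty π.p.ts) 𝔓.num.K := by
    have := pvffm_cut_le hW hF hL hms
    have h0 : (𝔓.ty π.p.ts).b * pvlmH m ≤ pvwRad 𝔓.num (pvlmH m) (𝔓.ty π.p.ts) 𝔓.num.K := by
      have h3 := pvffz_rad_mono (pvffz_num hW (pvffm_fine hL)) (𝔓.ty π.p.ts) (hW.lev π.p.ts)
      have h4 : (𝔓.ty π.p.ts).b * pvlmH m ≤ pvwRad 𝔓.num (pvlmH m) (𝔓.ty π.p.ts) (𝔓.ty π.p.ts).k := by
        unfold pvwRad
        refine mul_le_mul_of_nonneg_right ?_ hh.le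
        have : 0 ≤ ((𝔓.ty π.p.ts).k : ℝ) * 𝔓.num.rho1 := mul_nonneg (Nat.cast_nonneg _) (hW.rho0.trans hW.rho1).le
        linarith [hF.b_b2 π.p.ts]
      exact h4.trans h3
    exact (mul_pos ((hW.a0 _).trans (hW.ab _)) hh).le.trans h0
  have hRt : 0 ≤ pvwRad 𝔓.num (pvlmH m) (𝔓.ty π.p.tt) 𝔓.num.K := by
    have h3 := pvffz_rad_mono (pvffz_num hW (pvffm_fine hL)) (𝔓.ty π.p.tt) (hW.lev π.p.tt)
    have h4 : (𝔓.ty π.p.tt).b * pvlmH m ≤ pvwRad 𝔓.num (pvlmH m) (𝔓.ty π.p.tt) (𝔓.ty π.p.tt).k := by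
      unfold pvwRad
      refine mul_le_mul_of_nonneg_right ?_ hh.le
      have : 0 ≤ ((𝔓.ty π.p.tt).k : ℝ) * 𝔓.num.rho1 := mul_nonneg (Nat.cast_nonneg _) (hW.rho0.trans hW.rho1).le
      linarith [hF.b_b2 π.p.tt]
    exact (mul_pos ((hW.a0 _).trans (hW.ab _)) hh).le.trans (h4.trans h3)
  refine
    { H0A := inter_subset_left
      H0s := ?_
      H1A := inter_subset_left
      H1t := ?_
      Mt := ?_
      Ms := ?_
      Qt := ?_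
      Qs := ?_
      Q0 := ?_
      Qm := ?_
      Qj := pvuk_Qj Rf _ hd4 _ }
  · refine Set.disjoint_left.2 fun w h1 h2 => ?_
    have a1 := pvffm_far_s hW hL hπ h1.2
    have a2 : ‖w - π.p.zs‖ ≤ 𝔓.num.m * pvlmH m := mem_closedBall_iff_norm.1 h2
    have a3 := pvffm_cut_le hW hF hL hms
    linarith
  · refine Set.disjoint_left.2 fun w h1 h2 => ?_
    have a1 := pvffm_far_t hW hL hπ h1.2
    have a2 : ‖w - π.p.zt‖ ≤ 𝔓.num.m * pvlmH m := mem_closedBall_iff_norm.1 h2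
    have a3 := pvffm_cut_le hW hF hL hmt
    linarith
  · intro j hj
    show Disjoint (pvkdAt (pvthZ 𝔤.δ (pvieZo 𝔓 m π.p.zt π.p.tt) ((𝔓.Γ m).dout π.p.tt) π.p.l j) (pvthD ((𝔓.Γ m).dout π.p.tt) π.p.l j) (𝔤.Mk (pvthL π.p.l j))) _
    rw [Rf.Mk, hδ, ← hΓ]
    exact pvffm_cell_disj hBt hj
  · intro j hj
    show Disjoint (pvkdAt (pvthZ 𝔤.δ (pvieZo 𝔓 m π.p.zt π.p.tt) ((𝔓.Γ m).dout π.p.tt) π.p.l j) (pvthD ((𝔓.Γ m).dout π.p.tt) π.p.l j) (𝔤.Mk (pvthL π.p.l j))) _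
    rw [Rf.Mk, hδ, ← hΓ]
    exact pvffm_cell_disj hBs hj
  · intro j hj
    show Disjoint (ball (pvthZ 𝔤.δ (pvieZo 𝔓 m π.p.zt π.p.tt) ((𝔓.Γ m).dout π.p.tt) π.p.l j) 𝔤.b) _
    rw [hδ, ← hΓ]
    exact pvffm_door_disj δ0 hBt hl hb2 hj
  · intro j hj
    show Disjoint (ball (pvthZ 𝔤.δ (pvieZo 𝔓 m π.p.zt π.p.tt) ((𝔓.Γ m).dout π.p.tt) π.p.l j) 𝔤.b) _
    rw [hδ, ← hΓ]
    exact pvffm_door_disj δ0 hBs hl hb2 hj
  · have h := pvuk_Q0 Rf (pvieZo 𝔓 m π.p.zt π.p.tt) hd4 π.p.l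
    intro p hp
    have h1 := h p hp
    rw [pvffm_first_Z, pvffm_first_D] at h1
    rw [pvffm_first_Z 𝔤.δ, pvffm_first_D]
    exact h1
  · have h := pvuk_Qm Rf (pvieZo 𝔓 m π.p.zt π.p.tt) hd4 π.p.l hl
    intro p hp
    have h1 := h p hp
    rw [hδ, pvffm_last_Z hW hπ, pvffm_last_D hπ] at h1
    rw [hδ]
    exact h1

end index

/-! ## 6. the value of a chain at the model: the geometry of the cells of level `m`, the parameters of record -/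

section geo

variable (c : ℝ) (m : ℕ)

theorem pvffm_ref : PvkxRef (pvkgG.sc (pvlmDel c m)) := pvuk_ref_sc pvkgg_xref (pvlm_Del_pos c m)

theorem pvffm_G_del : (pvkgG.sc (pvlmDel c m)).δ = pvlmDel c m := mul_one _

/-- `epo epi` of `pvlc_value_Q` -/
theorem pvffm_G_plug {τ : Type} (𝔓 : PvxPar τ c) : (pvkgG.sc (pvlmDel c m)).toPvkdPlug = pvkdP (pvilRd 𝔓 m) := by
  show (pvkdP (1 / 40)).sc (pvlmDel c m) = pvkdP (pvilRd 𝔓 m)
  rw [pvdil_P (pvlm_Del_pos c m)]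
  unfold pvilRd
  congr 1
  ring

/-- `Mc` of `pvlc_value_Q` -/
theorem pvffm_G_Mc (t : PvtTurn) : Convex ℝ ((pvkgG.sc (pvlmDel c m)).Mk t) := by
  rw [(pvffm_ref c m).Mk]
  exact pvkx_M_convex _

/-- `CM` of `pvlc_value_Q` -/
theorem pvffm_G_CM (t : PvtTurn) : (pvkgG.sc (pvlmDel c m)).Co t ⊆ (pvkgG.sc (pvlmDel c m)).Mk t := by
  rw [(pvffm_ref c m).Mk]
  exact (pvffm_ref c m).Co t

end geo

section value

variable {τ : Type} {c : ℝ} {𝔓 : PvxPar τ c} {𝔈 : PvieEng τ} {x : ℂ} {R : ℝ} {m : ℕ} {π : PvxIx τ}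

/-- **THE VALUE OF THE CHAIN OF A PATTERN** = `pvlc_value_Q` of 70 with ALL its static hypotheses paid: what is left = the road, the two end arcs, the links of the cells -/
theorem pvffm_value (hW : 𝔓.Wf) (hF : PvfhWf 𝔓) (hL : PvegLev 𝔓 m) (hTs : pviwTyOk 𝔓 π.p.ts) (hTt : pviwTyOk 𝔓 π.p.tt)
    (hms : 𝔓.num.m ≤ (𝔓.ty π.p.ts).b) (hmt : 𝔓.num.m ≤ (𝔓.ty π.p.tt).b) (hπ : π ∈ pvxPatSet 𝔓 x R m) (hg : PvjxGood 𝔓 m π)
    (hEt : PvffmEnd 𝔓 𝔈 m π.p.tt) (hEs : PvffmEnd 𝔓 𝔈 m π.p.ts)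
    {η : Conf PvPt} {b : Bool} (𝔇 : PvwDat (pvieT η))
    {g : ℕ → (pvkiT η).Gate (pvukS b η)} {st en : ℕ → (delbPl (pvieY η)).Dart} {Nn Ln : ℕ → ℕ} {y w : ℕ → (pvieT η).Pth}
    (Rd : PvlcRoad (pvieT η) (pvieCol η b) π.p.l.length st en Nn Ln y w) (hst : ∀ j, j ≤ π.p.l.length → st (j + 1) = (g j).aOut) (hen : ∀ j, j ≤ π.p.l.length → en j = (g j).aIn)
    {X : (pvieT η).Pth}
    (hx : ∀ f : (delbPl (pvieY η)).Dart → ℂ, ∑ k ∈ Finset.range X.n, f (X.e k) =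
      ∑ r ∈ Finset.range (π.p.l.length + 2), ∑ k ∈ Finset.range (y r).n, f ((y r).e k) + ∑ j ∈ Finset.range (π.p.l.length + 1), ∑ k ∈ Finset.range (w j).n, f ((w j).e k))
    {𝔖0 𝔖m : PvwSt (pvieT η)} (Ao : (pvilLo 𝔓 𝔈 m π.p.zt π.p.tt).Arc 𝔓.num b η 𝔇.t 𝔖0 (y 0)) (Ai : (pvilLi 𝔓 𝔈 m π.p.zs π.p.ts).Arc 𝔓.num b η 𝔖m 𝔇.s (y (π.p.l.length + 1)))
    {K : ℕ → ℕ} (lk : ∀ j, j < π.p.l.length → PvukLink (pvkgG.sc (pvlmDel c m)) b η (pvthZ (pvkgG.sc (pvlmDel c m)).δ (pvieZo 𝔓 m π.p.zt π.p.tt) ((𝔓.Γ m).dout π.p.tt) π.p.l j)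
      (pvthD ((𝔓.Γ m).dout π.p.tt) π.p.l j) (pvthL π.p.l j) (g j) (g (j + 1)) (K j)) :
    𝔇.Yof (pviePos η) (pvilQ η) 𝔓.num (pvlmH m) (𝔓.reg m π) X = (pvilLo 𝔓 𝔈 m π.p.zt π.p.tt).val 𝔓.num η (pvilQ η) 𝔇.t 𝔖0 (y 0) +
      ∑ j ∈ Finset.range π.p.l.length, pvukMass b η (pvkdAt (pvthZ (pvkgG.sc (pvlmDel c m)).δ (pvieZo 𝔓 m π.p.zt π.p.tt) ((𝔓.Γ m).dout π.p.tt) π.p.l j)
        (pvthD ((𝔓.Γ m).dout π.p.tt) π.p.l j) ((pvkgG.sc (pvlmDel c m)).Mk (pvthL π.p.l j))) (g j) (g (j + 1)) +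
      (pvilLi 𝔓 𝔈 m π.p.zs π.p.ts).val 𝔓.num η (pvilQ η) 𝔖m 𝔇.s (y (π.p.l.length + 1)) := by
  have hd0 : (𝔓.Γ m).dout π.p.tt ≠ 0 := by
    rw [← norm_ne_zero_iff, (𝔓.Γ m).dout1]; exact one_ne_zero
  exact pvlc_value_Q 𝔇 (Lo := pvilLo 𝔓 𝔈 m π.p.zt π.p.tt) (Li := pvilLi 𝔓 𝔈 m π.p.zs π.p.ts) rfl rfl rfl rfl (hW.reg_zt m π).symm rfl (hW.reg_zs m π).symm rfl
    (pvffm_len_pos hW hL hTs hTt hπ) Rd hst hen hx Ao Ai lk (fun j hj => pvuk_exit _ _ _ _ hj)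
    (pvffm_G_plug c m 𝔓) (pvffm_first_Z _ _ _ _) (pvffm_first_D _ _) (pvffm_G_plug c m 𝔓) (by rw [pvffm_G_del]; exact pvffm_last_Z hW hπ) (pvffm_last_D hπ)
    (pvffm_ref c m).ZZ (pvthD_ne_zero hd0 _ _) (pvthD_ne_zero hd0 _ _) (pvffm_G_Mc c m) (pvffm_G_CM c m)
    (pvffm_reg 𝔈 hW hF hL hTs hTt hms hmt hπ hg (pvffm_ref c m) (pvffm_G_del c m))
    (pvffm_roomO hW.toWfB hL hTt (hF.b_b2 _) hEt _) (pvffm_roomI hW.toWfB hL hTs (hF.b_b2 _) hEs _)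

end value

section record

variable {c : ℝ} {x : ℂ} {R : ℝ} {m : ℕ} {N : PvxNums}

/-- the cut-off radius is smaller than the radius of the core disc -/
theorem pvffm_cut_at (hN : N.Ok) (c : ℝ) (t : pvxTau N) : (pvxParOf N hN c).num.m ≤ ((pvxParOf N hN c).ty t).b := by
  show N.m ≤ N.b1
  linarith [hN.m_gt, hN.m_lt, hN.B_lt, hN.ab1]

/-- **`PvlcReg` at the parameters of record** -/
theorem pvffm_reg_at (hN : N.Ok) (c0 : 0 < c) (hm : N.m0 ≤ m) (𝔈 : PvieEng (pvxTau N)) {π : PvxIx (pvxTau N)} (hπ : π ∈ pvxPatSet (pvxParOf N hN c) x R m)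
    (hg : PvjxGood (pvxParOf N hN c) m π) :
    PvlcReg π.p.l.length ((pvilLo (pvxParOf N hN c) 𝔈 m π.p.zt π.p.tt).ball (pvxParOf N hN c).num) ((pvilLi (pvxParOf N hN c) 𝔈 m π.p.zs π.p.ts).ball' (pvxParOf N hN c).num)
      (pvilLo (pvxParOf N hN c) 𝔈 m π.p.zt π.p.tt).Mk (pvilLi (pvxParOf N hN c) 𝔈 m π.p.zs π.p.ts).Mk (pvffmH0 (pvxParOf N hN c) m π.p.zt π.p.tt) (pvffmH1 (pvxParOf N hN c) m π.p.zs π.p.ts)
      (fun j => pvkdAt (pvthZ (pvkgG.sc (pvlmDel c m)).δ (pvieZo (pvxParOf N hN c) m π.p.zt π.p.tt) (((pvxParOf N hN c).Γ m).dout π.p.tt) π.p.l j) (pvthD (((pvxParOf N hN c).Γ m).dout π.p.tt) π.p.l j)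
        ((pvkgG.sc (pvlmDel c m)).Mk (pvthL π.p.l j)))
      (fun j => ball (pvthZ (pvkgG.sc (pvlmDel c m)).δ (pvieZo (pvxParOf N hN c) m π.p.zt π.p.tt) (((pvxParOf N hN c).Γ m).dout π.p.tt) π.p.l j) (pvkgG.sc (pvlmDel c m)).b) :=
  pvffm_reg 𝔈 (pvxo_wf N hN c) (pvfhw_par N hN c) (pvqh_lev hN c0 hm) (pvqh_tyOk hN c _) (pvqh_tyOk hN c _) (pvffm_cut_at hN c _) (pvffm_cut_at hN c _) hπ hg (pvffm_ref c m) (pvffm_G_del c m)

/-- **`PvlcRoomO` at the parameters of record** -/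
theorem pvffm_roomO_at (hN : N.Ok) (c0 : 0 < c) (hm : N.m0 ≤ m) {𝔈 : PvieEng (pvxTau N)} {t : pvxTau N} (hE : PvffmEnd (pvxParOf N hN c) 𝔈 m t) (z : ℂ) :
    PvlcRoomO (pvxParOf N hN c).num (pvilLo (pvxParOf N hN c) 𝔈 m z t) (pvffmH0 (pvxParOf N hN c) m z t) :=
  pvffm_roomO (pvxo_wf N hN c).toWfB (pvqh_lev hN c0 hm) (pvqh_tyOk hN c t) ((pvfhw_par N hN c).b_b2 t) hE z

/-- **`PvlcRoomI` at the parameters of record** -/
theorem pvffm_roomI_at (hN : N.Ok) (c0 : 0 < c) (hm : N.m0 ≤ m) {𝔈 : PvieEng (pvxTau N)} {t : pvxTau N} (hE : PvffmEnd (pvxParOf N hN c) 𝔈 m t) (z : ℂ) :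
    PvlcRoomI (pvxParOf N hN c).num (pvilLi (pvxParOf N hN c) 𝔈 m z t) (pvffmH1 (pvxParOf N hN c) m z t) :=
  pvffm_roomI (pvxo_wf N hN c).toWfB (pvqh_lev hN c0 hm) (pvqh_tyOk hN c t) ((pvfhw_par N hN c).b_b2 t) hE z

/-- the contract on the rooms at the parameters of record, for every engine whose rooms of the end links lie in `pvegOYa pvegIYa` -/
theorem pvffm_end_at (hN : N.Ok) (c0 : 0 < c) (hm : N.m0 ≤ m) {𝔈 : PvieEng (pvxTau N)} (t : pvxTau N) (ho : 𝔈.oY m t ⊆ pvegOYa (pvxParOf N hN c) m t) (hi : 𝔈.iY m t ⊆ pvegIYa (pvxParOf N hN c) m t) :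
    PvffmEnd (pvxParOf N hN c) 𝔈 m t := pvffm_end_a (pvqh_lev hN c0 hm) (pvqh_tyOk hN c t) ho hi

/-- **the contract on the rooms AT THE ENGINE OF RECORD** -/
theorem pvffm_end_rec (hN : N.Ok) (c0 : 0 < c) (hm : N.m0 ≤ m) {𝔈 : PvieEng (pvxTau N)} (hR : PvnaRec N hN c 𝔈) (t : pvxTau N) : PvffmEnd (pvxParOf N hN c) 𝔈 m t := by
  obtain ⟨nb, rfl⟩ := hR
  exact pvffm_end_at hN c0 hm t ((pvnr_oY N hN c nb m t).subset.trans (pvey_oYc_sub_oYa (pvqh_lev hN c0 hm) (pvey_mu_nonneg hN.msk0.le m) t))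
    ((pvnr_iY N hN c nb m t).subset.trans (pvey_iYc_sub_iYa (pvqh_lev hN c0 hm) (pvey_mu_nonneg hN.msk0.le m) t))

theorem pvffm_len_pos_at (hN : N.Ok) (c0 : 0 < c) (hm : N.m0 ≤ m) {π : PvxIx (pvxTau N)} (hπ : π ∈ pvxPatSet (pvxParOf N hN c) x R m) : 0 < π.p.l.length :=
  pvffm_len_pos (pvxo_wf N hN c) (pvqh_lev hN c0 hm) (pvqh_tyOk hN c _) (pvqh_tyOk hN c _) hπ

/-- **THE VALUE OF THE CHAIN OF A PATTERN AT THE PARAMETERS AND AT THE ENGINE OF RECORD** -/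
theorem pvffm_value_rec (hN : N.Ok) (c0 : 0 < c) (hm : N.m0 ≤ m) {𝔈 : PvieEng (pvxTau N)} (hR : PvnaRec N hN c 𝔈) {π : PvxIx (pvxTau N)} (hπ : π ∈ pvxPatSet (pvxParOf N hN c) x R m)
    (hg : PvjxGood (pvxParOf N hN c) m π) {η : Conf PvPt} {b : Bool} (𝔇 : PvwDat (pvieT η))
    {g : ℕ → (pvkiT η).Gate (pvukS b η)} {st en : ℕ → (delbPl (pvieY η)).Dart} {Nn Ln : ℕ → ℕ} {y w : ℕ → (pvieT η).Pth}
    (Rd : PvlcRoad (pvieT η) (pvieCol η b) π.p.l.length st en Nn Ln y w) (hst : ∀ j, j ≤ π.p.l.length → st (j + 1) = (g j).aOut) (hen : ∀ j, j ≤ π.p.l.length → en j = (g j).aIn)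
    {X : (pvieT η).Pth}
    (hx : ∀ f : (delbPl (pvieY η)).Dart → ℂ, ∑ k ∈ Finset.range X.n, f (X.e k) =
      ∑ r ∈ Finset.range (π.p.l.length + 2), ∑ k ∈ Finset.range (y r).n, f ((y r).e k) + ∑ j ∈ Finset.range (π.p.l.length + 1), ∑ k ∈ Finset.range (w j).n, f ((w j).e k))
    {𝔖0 𝔖m : PvwSt (pvieT η)} (Ao : (pvilLo (pvxParOf N hN c) 𝔈 m π.p.zt π.p.tt).Arc (pvxParOf N hN c).num b η 𝔇.t 𝔖0 (y 0))
    (Ai : (pvilLi (pvxParOf N hN c) 𝔈 m π.p.zs π.p.ts).Arc (pvxParOf N hN c).num b η 𝔖m 𝔇.s (y (π.p.l.length + 1)))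
    {K : ℕ → ℕ} (lk : ∀ j, j < π.p.l.length → PvukLink (pvkgG.sc (pvlmDel c m)) b η (pvthZ (pvkgG.sc (pvlmDel c m)).δ (pvieZo (pvxParOf N hN c) m π.p.zt π.p.tt) (((pvxParOf N hN c).Γ m).dout π.p.tt) π.p.l j)
      (pvthD (((pvxParOf N hN c).Γ m).dout π.p.tt) π.p.l j) (pvthL π.p.l j) (g j) (g (j + 1)) (K j)) :
    𝔇.Yof (pviePos η) (pvilQ η) (pvxParOf N hN c).num (pvlmH m) ((pvxParOf N hN c).reg m π) X = (pvilLo (pvxParOf N hN c) 𝔈 m π.p.zt π.p.tt).val (pvxParOf N hN c).num η (pvilQ η) 𝔇.t 𝔖0 (y 0) +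
      ∑ j ∈ Finset.range π.p.l.length, pvukMass b η (pvkdAt (pvthZ (pvkgG.sc (pvlmDel c m)).δ (pvieZo (pvxParOf N hN c) m π.p.zt π.p.tt) (((pvxParOf N hN c).Γ m).dout π.p.tt) π.p.l j)
        (pvthD (((pvxParOf N hN c).Γ m).dout π.p.tt) π.p.l j) ((pvkgG.sc (pvlmDel c m)).Mk (pvthL π.p.l j))) (g j) (g (j + 1)) +
      (pvilLi (pvxParOf N hN c) 𝔈 m π.p.zs π.p.ts).val (pvxParOf N hN c).num η (pvilQ η) 𝔖m 𝔇.s (y (π.p.l.length + 1)) :=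
  pvffm_value (pvxo_wf N hN c) (pvfhw_par N hN c) (pvqh_lev hN c0 hm) (pvqh_tyOk hN c _) (pvqh_tyOk hN c _) (pvffm_cut_at hN c _) (pvffm_cut_at hN c _) hπ hg
    (pvffm_end_rec hN c0 hm hR _) (pvffm_end_rec hN c0 hm hR _) 𝔇 Rd hst hen hx Ao Ai lk

end record

end Claimed.Agent.R289
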