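import Claimed.Agent.R289.Tr.ChainG
import Claimed.Agent.R289.Tr.ChainN
import Claimed.Agent.R289.Tr.LinkRegM

/-!
# Row 289 (S0537), THE WALL, ROAD E, file Tr/ChainH : THE TWO ENDS OF THE CHAIN AT THE MODEL      (helper194; prefix `pvvh_`, `pvvh`, `Pvvh`; split of 268: 175 = CELLS `Tr/ChainG`, 194 = ENDS)

* sec. 1  straight links in the frames of the word (`pvthZ pvthD`): `pvvh_first`, `pvvh_last`;   masks of the first link in front of the first door, masks of the last link behind the last door;   `pvvh_M_far`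
* sec. 2  one door at the model: `pvvh_door_o/_i` (the closed disc `δ/4` round the door lies in the inner mouth), `pvvh_mouth_o/_i` (the inner mouth lies in `closedBall z (2 r_k + ρ h)`), `pvvh_box_o/_i`
* sec. 3  **`pvvhBt 𝔓 m π`, `pvvhBs 𝔓 m π`** = own-level box ∩ hull (INDEX ONLY) = rooms of the banks of the two stubs;   **(STUB)** `pvvh_fz_t/_s`, `pvvh_stub_t/_s`, `pvvh_wit_t/_s`;   `pvvh_off` (`PvffzOff` of 274)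
* sec. 4  THE INDEX FACTS: `pvvh_col`, `pvvh_last_Z`, `pvvh_last_D`, `pvvh_len_pos`, `pvvh_back`
* sec. 5  **`pvvh_ends`** (`PvgjEnds` of 175), **`pvvh_rgE`** (`PvjmRgE` of 268) for ANY two rooms `oY iY` (relative to the centres of the pins) which lie in the inner mouths, behind the first door line / in front of the last door line;   `P₀ := Bt`, `P₁ := Bs`
* sec. 6  the instance of record: `𝔤 = pvkgG.sc δ`, `oY = pvegOYa`, `iY = pvegIYa` (124, W-7), (INC-E)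
* sec. 7  `PvjmMod` of 268 (`Tr/ChainN`): `pvvh_rgE_engB` (= field `rgE` VERBATIM, `P₀ P₁ = Bt Bs`), `pvvh_rgE_core`, `pvvh_rgE_eng` (spare: `P₀ P₁` = the open core discs, under `PvjxGood` of 209), `pvvh_mod_stub`;   **`pvvh_mod`**, **`pvvh_mod_rec`** = THE WHOLE RECORD at the parameters and the engine of record
          (cells: 175 `pvgj_model`;   tags: 274 `pvffm_reg pvffm_roomO pvffm_roomI`)
-/

set_option autoImplicit false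

namespace Claimed.Agent.R289

open Set Metric Complex Claims.C0465
open scoped ComplexConjugate

/-! ## 1. straight links in the frames of the word -/

section links

/-- the first `n` letters are `S` -/
theorem pvvh_first (δ : ℝ) (z d : ℂ) (l : List PvtTurn) {n : ℕ} (hn : n ≤ l.length) (hS : ∀ i, i < n → pvccT l i = PvtTurn.S) {i : ℕ} (hi : i ≤ n) :
    pvthD d l i = d ∧ pvthZ δ z d l i = z + ((i * δ : ℝ) : ℂ) * d := by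
  refine ⟨(pvffz_first z d l hn hS i hi).1, ?_⟩
  rw [pvthZ_eq, (pvffz_first z ((δ : ℂ) * d) l hn hS i hi).2]
  push_cast
  ring

/-- the last `n` letters are `S` -/
theorem pvvh_last (δ : ℝ) (z d : ℂ) (l : List PvtTurn) {n : ℕ} (hn : n ≤ l.length) (hS : ∀ i, l.length ≤ i + n → i < l.length → pvccT l i = PvtTurn.S) {k : ℕ} (hk : k ≤ n) :
    pvthD d l (l.length - k) = pvthD d l l.length ∧ pvthZ δ z d l (l.length - k) = pvthZ δ z d l l.length - ((k * δ : ℝ) : ℂ) * pvthD d l l.length := by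
  refine ⟨(pvffz_last z d l hn hS k hk).1, ?_⟩
  rw [pvthZ_eq, pvthZ_eq, (pvffz_last z ((δ : ℂ) * d) l hn hS k hk).2, ← pvthD_eq]
  push_cast
  ring

/-- the masks of the first link lie in front of the first door -/
theorem pvvh_M_first (𝔤 : PvkdGeo) (h0 : 0 ≤ 𝔤.δ) {d : ℂ} (hd : ‖d‖ = 1) (z : ℂ) (l : List PvtTurn) {n : ℕ} (hn : n ≤ l.length) (hS : ∀ i, i < n → pvccT l i = PvtTurn.S) {i : ℕ} (hi : i ≤ n) :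
    pvgjM 𝔤 z d l i ⊆ pvilHp z d := by
  obtain ⟨e1, e2⟩ := pvvh_first 𝔤.δ z d l hn hS hi
  unfold pvgjM
  rw [e1, e2]
  rintro _ ⟨u, hu, rfl⟩
  show 0 ≤ ((z + ((i * 𝔤.δ : ℝ) : ℂ) * d + d * u - z) * conj d).re
  have e : (z + ((i * 𝔤.δ : ℝ) : ℂ) * d + d * u - z) * conj d = ((i * 𝔤.δ : ℝ) : ℂ) + u := by
    linear_combination (((i * 𝔤.δ : ℝ) : ℂ) + u) * pvgj_conj_unit hd
  rw [e, add_re, ofReal_re]
  have := hu.1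
  positivity

/-- the masks of the last link lie behind the last door -/
theorem pvvh_M_last (𝔤 : PvkdGeo) (h0 : 0 ≤ 𝔤.δ) {d : ℂ} (z : ℂ) (l : List PvtTurn) (hd : ‖pvthD d l l.length‖ = 1) {n : ℕ} (hn : n ≤ l.length)
    (hS : ∀ i, l.length ≤ i + n → i < l.length → pvccT l i = PvtTurn.S) {k : ℕ} (hk : k + 1 ≤ n) :
    Disjoint (pvgjM 𝔤 z d l (l.length - (k + 1))) (pvilHp (pvthZ 𝔤.δ z d l l.length) (pvthD d l l.length)) := by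
  obtain ⟨e1, e2⟩ := pvvh_last 𝔤.δ z d l hn hS hk
  unfold pvgjM
  rw [e1, e2, Set.disjoint_left]
  rintro _ ⟨u, hu, rfl⟩ hc
  set D := pvthD d l l.length with hD
  set Z := pvthZ 𝔤.δ z d l l.length with hZ
  have hc' : 0 ≤ ((Z - (((k + 1 : ℕ) * 𝔤.δ : ℝ) : ℂ) * D + D * u - Z) * conj D).re := hc
  have e : (Z - (((k + 1 : ℕ) * 𝔤.δ : ℝ) : ℂ) * D + D * u - Z) * conj D = u - (((k + 1 : ℕ) * 𝔤.δ : ℝ) : ℂ) := by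
    linear_combination (u - (((k + 1 : ℕ) * 𝔤.δ : ℝ) : ℂ)) * pvgj_conj_unit hd
  rw [e, sub_re, ofReal_re] at hc'
  have h1 := hu.2.1
  have h2 : (0 : ℝ) ≤ (k : ℝ) * 𝔤.δ := by positivity
  push_cast at hc'
  nlinarith

/-- a mask whose centre is far from `y` misses the disc round `y` -/
theorem pvvh_M_far {𝔤 : PvkdGeo} (R : PvkxRef 𝔤) {d : ℂ} (hd : d ^ 4 = 1) (z : ℂ) (l : List PvtTurn) (k : ℕ) {y : ℂ} {r rM : ℝ} (h1 : r + 𝔤.δ ≤ rM)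
    (h2 : rM < ‖pvccC z ((𝔤.δ : ℂ) * d) l k - y‖) : Disjoint (closedBall y r) (pvgjM 𝔤 z d l k) := by
  rw [Set.disjoint_left]
  intro w hw hw'
  have a1 := mem_closedBall_iff_norm.1 hw
  have a2 := mem_closedBall_iff_norm.1 (pvgj_M_cball R hd z l k hw')
  have a3 : ‖pvccC z ((𝔤.δ : ℂ) * d) l k - y‖ ≤ ‖w - pvccC z ((𝔤.δ : ℂ) * d) l k‖ + ‖w - y‖ := by
    have := norm_sub_le (w - y) (w - pvccC z ((𝔤.δ : ℂ) * d) l k)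
    rw [sub_sub_sub_cancel_left] at this
    linarith
  linarith

end links

/-! ## 2. one door at the model -/

section door

/-- the door is within `κ + 2 δ` of the centre of the tip cell -/
theorem pvvh_door_near {Y u p : ℂ} {e δ w rM κ rI rk : ℝ} (H : PvegDoor Y u p e δ w rM κ rI rk) : ‖p - Y‖ ≤ κ + 2 * δ := by
  have hs := pveg_sq H.u4 Y p
  have hl := abs_le.1 H.lat
  have hδ := H.δ0
  have hκ0 : 0 ≤ κ := by linarith [H.n2, H.e0]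
  have h0 : 0 ≤ pvegS Y u p := by linarith [H.s_lo, H.n2, H.e0]
  have hκ : 0 ≤ κ + 2 * δ := by linarith
  have a1 : 0 ≤ (κ + δ - pvegS Y u p) * (κ + δ + pvegS Y u p) := mul_nonneg (by linarith [H.s_hi]) (by linarith)
  have a2 : 0 ≤ (δ - pvegL Y u p) * (δ + pvegL Y u p) := mul_nonneg (by linarith [hl.2]) (by linarith [hl.1])
  have a3 : 0 ≤ κ * δ := mul_nonneg hκ0 hδ.le
  have : ‖p - Y‖ ^ 2 ≤ (κ + 2 * δ) ^ 2 := by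
    rw [hs]
    nlinarith
  exact (pow_le_pow_iff_left₀ (norm_nonneg _) hκ (by norm_num)).1 this

variable {τ : Type} {c : ℝ} {𝔓 : PvxPar τ c} {m : ℕ} {t : τ}

/-- the closed disc `δ / 4` round the exit door lies in the inner mouth of the exit tip -/
theorem pvvh_door_o (hL : PvegLev 𝔓 m) (hT : pviwTyOk 𝔓 t) (z : ℂ) :
    closedBall (pvieZo 𝔓 m z t) (pvlmDel c m / 4) ⊆ closedBall ((𝔓.ty t).cp (pvlmH m) z) (𝔓.num.rho * pvlmH m / 2) := by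
  have h1 := pvvh_door_near (pveg_door_o hL hT)
  have hf := hL.fine
  have hδ := pvlm_Del_pos c m
  intro w hw
  rw [mem_closedBall_iff_norm] at hw ⊢
  have e : w - (𝔓.ty t).cp (pvlmH m) z = (w - pvieZo 𝔓 m z t) + ((𝔓.Γ m).pout t - pvegYp 𝔓 m t) := by
    unfold pvieZo PvwTy.cp pvegYp
    ring
  rw [e]
  refine (norm_add_le _ _).trans ?_
  unfold pvegR at h1
  linarith

/-- the closed disc `δ / 4` round the entrance door lies in the inner mouth of the entrance tip -/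
theorem pvvh_door_i (hL : PvegLev 𝔓 m) (hT : pviwTyOk 𝔓 t) (z : ℂ) :
    closedBall (pvieZi 𝔓 m z t) (pvlmDel c m / 4) ⊆ closedBall ((𝔓.ty t).cm (pvlmH m) z) (𝔓.num.rho * pvlmH m / 2) := by
  have h1 := pvvh_door_near (pveg_door_i hL hT)
  have hf := hL.fine
  have hδ := pvlm_Del_pos c m
  intro w hw
  rw [mem_closedBall_iff_norm] at hw ⊢
  have e : w - (𝔓.ty t).cm (pvlmH m) z = (w - pvieZi 𝔓 m z t) + ((𝔓.Γ m).pin t - pvegYm 𝔓 m t) := by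
    unfold pvieZi PvwTy.cm pvegYm
    ring
  rw [e]
  refine (norm_add_le _ _).trans ?_
  unfold pvegR at h1
  linarith

theorem pvvh_tip_aux {y : ℂ} {A ρ h : ℝ} (h0 : 0 < h) (hy : |pvccN y - A| ≤ ρ / 10) : ‖(h : ℂ) * y‖ ≤ 2 * (A * h) + ρ * h / 5 := by
  have h1 := pvffz_norm_le_N y
  have h2 := (abs_le.1 hy).2
  rw [norm_mul, Complex.norm_real, Real.norm_eq_abs, abs_of_pos h0]
  have := mul_nonneg h0.le (show 0 ≤ 2 * (A + ρ / 10) - ‖y‖ by linarith)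
  nlinarith

/-- the inner mouth of the exit tip lies near the pin -/
theorem pvvh_mouth_o (hT : pviwTyOk 𝔓 t) (m : ℕ) (z : ℂ) :
    closedBall ((𝔓.ty t).cp (pvlmH m) z) (𝔓.num.rho * pvlmH m / 2) ⊆ closedBall z (2 * pviwRad 𝔓 m t + 𝔓.num.rho * pvlmH m) := by
  have h1 := pvvh_tip_aux (pvlm_H_pos m) hT.1
  intro w hw
  rw [mem_closedBall_iff_norm] at hw ⊢
  have e : w - z = (w - (𝔓.ty t).cp (pvlmH m) z) + (pvlmH m : ℂ) * (𝔓.ty t).yp := by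
    unfold PvwTy.cp
    ring
  rw [e]
  refine (norm_add_le _ _).trans ?_
  have h3 : 0 ≤ 𝔓.num.rho * pvlmH m := by
    have := (norm_nonneg _).trans hw
    linarith
  unfold pviwRad pvwRad
  linarith

/-- the inner mouth of the entrance tip lies near the pin -/
theorem pvvh_mouth_i (hT : pviwTyOk 𝔓 t) (m : ℕ) (z : ℂ) :
    closedBall ((𝔓.ty t).cm (pvlmH m) z) (𝔓.num.rho * pvlmH m / 2) ⊆ closedBall z (2 * pviwRad 𝔓 m t + 𝔓.num.rho * pvlmH m) := by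
  have h1 := pvvh_tip_aux (pvlm_H_pos m) hT.2.1
  intro w hw
  rw [mem_closedBall_iff_norm] at hw ⊢
  have e : w - z = (w - (𝔓.ty t).cm (pvlmH m) z) + (pvlmH m : ℂ) * (𝔓.ty t).ym := by
    unfold PvwTy.cm
    ring
  rw [e]
  refine (norm_add_le _ _).trans ?_
  have h3 : 0 ≤ 𝔓.num.rho * pvlmH m := by
    have := (norm_nonneg _).trans hw
    linarith
  unfold pviwRad pvwRad
  linarith

theorem pvvh_box_mem {z w : ℂ} (hw : w ∈ pvwSq z (pviwRad 𝔓 m t)) : w - z ∈ pviwBox 𝔓 m t := by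
  have hδ := pvlm_Del_pos c m
  refine ⟨?_, ?_⟩
  · rw [sub_zero]; exact hw.1.trans (by linarith)
  · rw [sub_zero]; exact hw.2.trans (by linarith)

/-- the own-level box lies behind the exit door -/
theorem pvvh_box_o (hL : PvegLev 𝔓 m) (hT : pviwTyOk 𝔓 t) (z : ℂ) : Disjoint (pvwSq z (pviwRad 𝔓 m t)) (pvilHp (pvieZo 𝔓 m z t) ((𝔓.Γ m).dout t)) := by
  rw [Set.disjoint_left]
  intro w hw hc
  have h2 := pveg_box_back_o hL hT (pvvh_box_mem hw)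
  have hc' : 0 ≤ ((w - (z + (𝔓.Γ m).pout t)) * conj ((𝔓.Γ m).dout t)).re := hc
  rw [show w - (z + (𝔓.Γ m).pout t) = w - z - (𝔓.Γ m).pout t by ring] at hc'
  linarith [pveg_A_pos c m]

/-- the own-level box lies in front of the entrance door -/
theorem pvvh_box_i (hL : PvegLev 𝔓 m) (hT : pviwTyOk 𝔓 t) (z : ℂ) : pvwSq z (pviwRad 𝔓 m t) ⊆ pvilHp (pvieZi 𝔓 m z t) ((𝔓.Γ m).din t) := by
  intro w hw
  have h2 := pveg_box_back_i hL hT (pvvh_box_mem hw)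
  show 0 ≤ ((w - (z + (𝔓.Γ m).pin t)) * conj ((𝔓.Γ m).din t)).re
  rw [show w - (z + (𝔓.Γ m).pin t) = w - z - (𝔓.Γ m).pin t by ring]
  linarith [pveg_A_pos c m]

/-- the own-level box lies near the pin -/
theorem pvvh_box_ball (hρ : 0 ≤ 𝔓.num.rho) (m : ℕ) (t : τ) (z : ℂ) : pvwSq z (pviwRad 𝔓 m t) ⊆ closedBall z (2 * pviwRad 𝔓 m t + 𝔓.num.rho * pvlmH m) := by
  intro w hw
  rw [mem_closedBall_iff_norm]
  have := pvffz_sq_norm hw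
  have := mul_nonneg hρ (pvlm_H_pos m).le
  linarith

end door

/-! ## 3. the rooms of the banks of the two stubs, (STUB) -/

section stub

variable {τ : Type} {c : ℝ} {𝔓 : PvxPar τ c} {x : ℂ} {R : ℝ} {m : ℕ} {π : PvxIx τ}

/-- **`Bt`** = the own-level box of `t` ∩ the hull `Zt` of the index -/
noncomputable def pvvhBt (𝔓 : PvxPar τ c) (m : ℕ) (π : PvxIx τ) : Set ℂ := pvwSq π.p.zt (pviwRad 𝔓 m π.p.tt) ∩ pvtU (pvlmDel c m) (π.Zt : Set (ℤ × ℤ))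

/-- **`Bs`** = the own-level box of `s` ∩ the hull `Zs` of the index -/
noncomputable def pvvhBs (𝔓 : PvxPar τ c) (m : ℕ) (π : PvxIx τ) : Set ℂ := pvwSq π.p.zs (pviwRad 𝔓 m π.p.ts) ∩ pvtU (pvlmDel c m) (π.Zs : Set (ℤ × ℤ))

theorem pvvh_eqns_cite : True := by
  have := @pvvhBt.eq_1; have := @pvvhBs.eq_1
  trivial

theorem pvvh_fine (hL : PvegLev 𝔓 m) : 32 * pvlmDel c m < 𝔓.num.rho * pvlmH m := by
  have := hL.fine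
  have := pvlm_Del_pos c m
  linarith

/-- every site frozen by the exit half state of a datum of the index lies in `Bt` -/
theorem pvvh_fz_t (hW : 𝔓.Wf) (hF : PvfhWf 𝔓) (hL : PvegLev 𝔓 m) {Y : Set ℂ} {𝔇 : PvwDat (delbPl Y).toMap} (hok : 𝔇.Ok Subtype.val 𝔓.num (pvlmH m) (𝔓.reg m π)) {B : Set ℂ}
    (hZt : (π.Zt : Set (ℤ × ℤ)) = pvtCells (pvlmDel c m) (Subtype.val '' 𝔇.t.fzOut ∪ B)) {v : ↥Y} (hv : v ∈ 𝔇.t.fzOut) : (v : ℂ) ∈ pvvhBt 𝔓 m π := by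
  rw [hF.reg_eq] at hok
  refine ⟨pvffz_out_box (pvffz_num hW (pvvh_fine hL)) (hF.b_b2 _) hok.st_t hv, ?_⟩
  rw [hZt]
  exact pvt_U_mono (pvt_cells_mono subset_union_left) (pvt_cells_cover (pvlm_Del_pos c m) ⟨v, hv, rfl⟩)

/-- every site frozen by the entrance half state of a datum of the index lies in `Bs` -/
theorem pvvh_fz_s (hW : 𝔓.Wf) (hF : PvfhWf 𝔓) (hL : PvegLev 𝔓 m) {Y : Set ℂ} {𝔇 : PvwDat (delbPl Y).toMap} (hok : 𝔇.Ok Subtype.val 𝔓.num (pvlmH m) (𝔓.reg m π)) {B : Set ℂ}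
    (hZs : (π.Zs : Set (ℤ × ℤ)) = pvtCells (pvlmDel c m) (Subtype.val '' 𝔇.s.fzIn ∪ B)) {v : ↥Y} (hv : v ∈ 𝔇.s.fzIn) : (v : ℂ) ∈ pvvhBs 𝔓 m π := by
  rw [hF.reg_eq] at hok
  refine ⟨pvffz_in_box (pvffz_num hW (pvvh_fine hL)) (hF.b_b2 _) hok.st_s hv, ?_⟩
  rw [hZs]
  exact pvt_U_mono (pvt_cells_mono subset_union_left) (pvt_cells_cover (pvlm_Del_pos c m) ⟨v, hv, rfl⟩)

/-- **(STUB), exit** -/
theorem pvvh_stub_t (hW : 𝔓.Wf) (hF : PvfhWf 𝔓) (hL : PvegLev 𝔓 m) {Y : Set ℂ} {𝔇 : PvwDat (delbPl Y).toMap} (hok : 𝔇.Ok Subtype.val 𝔓.num (pvlmH m) (𝔓.reg m π)) {B : Set ℂ}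
    (hZt : (π.Zt : Set (ℤ × ℤ)) = pvtCells (pvlmDel c m) (Subtype.val '' 𝔇.t.fzOut ∪ B)) (i : ℕ) (hi : i ≤ 𝔇.t.np) : (((delbPl Y).toMap.src (𝔇.t.ep i) : ↥Y) : ℂ) ∈ pvvhBt 𝔓 m π :=
  pvvh_fz_t hW hF hL hok hZt (Or.inl (Or.inr ⟨i, hi, rfl⟩))

/-- **(STUB), entrance** -/
theorem pvvh_stub_s (hW : 𝔓.Wf) (hF : PvfhWf 𝔓) (hL : PvegLev 𝔓 m) {Y : Set ℂ} {𝔇 : PvwDat (delbPl Y).toMap} (hok : 𝔇.Ok Subtype.val 𝔓.num (pvlmH m) (𝔓.reg m π)) {B : Set ℂ}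
    (hZs : (π.Zs : Set (ℤ × ℤ)) = pvtCells (pvlmDel c m) (Subtype.val '' 𝔇.s.fzIn ∪ B)) (i : ℕ) (hi : i ≤ 𝔇.s.nm) : (((delbPl Y).toMap.src (𝔇.s.em i) : ↥Y) : ℂ) ∈ pvvhBs 𝔓 m π :=
  pvvh_fz_s hW hF hL hok hZs (Or.inl (Or.inr ⟨i, hi, rfl⟩))

/-- (STUB) for a witness of `pvxnSys` (170) -/
theorem pvvh_wit_t (hW : 𝔓.Wf) (hF : PvfhWf 𝔓) (hL : PvegLev 𝔓 m) {a : ℂ} {𝔎 : PvxnKit} {Y : Set ℂ} {i : PvxnIx} {σ : ↥Y → Bool} {𝔇 : PvwDat (delbPl Y).toMap} (h : PvxnWit 𝔓 m π a 𝔎 Y i σ 𝔇) :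
    ∀ k, k ≤ 𝔇.t.np → (((delbPl Y).toMap.src (𝔇.t.ep k) : ↥Y) : ℂ) ∈ pvvhBt 𝔓 m π := pvvh_stub_t hW hF hL h.ok h.hull_t

theorem pvvh_wit_s (hW : 𝔓.Wf) (hF : PvfhWf 𝔓) (hL : PvegLev 𝔓 m) {a : ℂ} {𝔎 : PvxnKit} {Y : Set ℂ} {i : PvxnIx} {σ : ↥Y → Bool} {𝔇 : PvwDat (delbPl Y).toMap} (h : PvxnWit 𝔓 m π a 𝔎 Y i σ 𝔇) :
    ∀ k, k ≤ 𝔇.s.nm → (((delbPl Y).toMap.src (𝔇.s.em k) : ↥Y) : ℂ) ∈ pvvhBs 𝔓 m π := pvvh_stub_s hW hF hL h.ok h.hull_s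

/-- the points of `Bt`, `Bs` are more than `2 δ` away from every cell centre of the corridor (`pvffz_pts` of 274) -/
theorem pvvh_off (hW : 𝔓.Wf) (hF : PvfhWf 𝔓) (hL : PvegLev 𝔓 m) (hπ : π ∈ pvxPatSet 𝔓 x R m) {w : ℂ} (hw : w ∈ pvvhBt 𝔓 m π ∪ pvvhBs 𝔓 m π) : PvffzOff (𝔓.Γ m) π.p w := by
  intro i hi
  have hn := pvffz_num hW (pvvh_fine hL)
  rcases hw with hw | hw
  · exact pvffz_pts hn hπ.1.1 (hF.doors m) hπ.2.2.2.2.1 (hW.lev _) (hW.lev _) (Or.inr hw.1) (by rw [hW.del]; exact pvt_U_mono subset_union_right hw.2) hi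
  · exact pvffz_pts hn hπ.1.1 (hF.doors m) hπ.2.2.2.2.1 (hW.lev _) (hW.lev _) (Or.inl hw.1) (by rw [hW.del]; exact pvt_U_mono subset_union_left hw.2) hi

end stub

/-! ## 4. the index facts -/

section index

variable {τ : Type} {c : ℝ} {𝔓 : PvxPar τ c} {x : ℂ} {R : ℝ} {m : ℕ} {π : PvxIx τ}

/-- the two pins of a pattern have the same colour -/
theorem pvvh_col (hπ : π ∈ pvxPatSet 𝔓 x R m) : 𝔓.col π.p.ts = 𝔓.col π.p.tt := hπ.1.2.2.2.2.2.1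

/-- **LAST DOOR** -/
theorem pvvh_last_Z (hW : 𝔓.Wf) (hπ : π ∈ pvxPatSet 𝔓 x R m) :
    pvthZ (pvlmDel c m) (pvieZo 𝔓 m π.p.zt π.p.tt) ((𝔓.Γ m).dout π.p.tt) π.p.l π.p.l.length = pvieZi 𝔓 m π.p.zs π.p.ts := by
  have h := pvfe_last_door (𝔓.Γ m) hπ.1.1
  rw [pvthZ_eq, ← hW.del m]
  exact h

/-- **LAST FRAME** -/
theorem pvvh_last_D (hπ : π ∈ pvxPatSet 𝔓 x R m) : pvthD ((𝔓.Γ m).dout π.p.tt) π.p.l π.p.l.length = (𝔓.Γ m).din π.p.ts := by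
  rw [← hπ.1.1.2]
  exact pvccD_length _ _

/-- the neighbourhoods of the two pins which contain everything at the two ends are disjoint (`PvfeIx.sep`) -/
theorem pvvh_cross (hW : 𝔓.Wf) (hL : PvegLev 𝔓 m) (hπ : π ∈ pvxPatSet 𝔓 x R m) :
    Disjoint (closedBall π.p.zt (2 * pviwRad 𝔓 m π.p.tt + 𝔓.num.rho * pvlmH m)) (closedBall π.p.zs (2 * pviwRad 𝔓 m π.p.ts + 𝔓.num.rho * pvlmH m)) := by
  have hn := pvffz_num hW (pvvh_fine hL)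
  have hsep := hπ.2.2.2.2.1.sep
  have m1 := pvffz_rad_mono hn (𝔓.ty π.p.ts) (hW.lev π.p.ts)
  have m2 := pvffz_rad_mono hn (𝔓.ty π.p.tt) (hW.lev π.p.tt)
  have h0 := pvlm_H_pos m
  have hρ : 𝔓.num.rho * pvlmH m ≤ pvlmH m := by nlinarith [hn.rho_le]
  refine closedBall_disjoint_closedBall ?_
  rw [dist_eq_norm, norm_sub_rev]
  unfold pviwRad
  linarith

/-- the exit door lies near `t` -/
theorem pvvh_Zo_near (hL : PvegLev 𝔓 m) {t : τ} (hT : pviwTyOk 𝔓 t) (z : ℂ) : closedBall (pvieZo 𝔓 m z t) (pvlmDel c m / 4) ⊆ closedBall z (2 * pviwRad 𝔓 m t + 𝔓.num.rho * pvlmH m) :=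
  (pvvh_door_o hL hT z).trans (pvvh_mouth_o hT m z)

/-- the entrance door lies near `s` -/
theorem pvvh_Zi_near (hL : PvegLev 𝔓 m) {t : τ} (hT : pviwTyOk 𝔓 t) (z : ℂ) : closedBall (pvieZi 𝔓 m z t) (pvlmDel c m / 4) ⊆ closedBall z (2 * pviwRad 𝔓 m t + 𝔓.num.rho * pvlmH m) :=
  (pvvh_door_i hL hT z).trans (pvvh_mouth_i hT m z)

/-- **the word of a pattern is not empty** -/
theorem pvvh_len_pos (hW : 𝔓.Wf) (hL : PvegLev 𝔓 m) (hTt : pviwTyOk 𝔓 π.p.tt) (hTs : pviwTyOk 𝔓 π.p.ts) (hπ : π ∈ pvxPatSet 𝔓 x R m) : 0 < π.p.l.length := by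
  by_contra hc
  have h0 : π.p.l.length = 0 := by omega
  have e := pvvh_last_Z hW hπ
  rw [h0, pvthx_Z_zero] at e
  have hδ : 0 ≤ pvlmDel c m / 4 := by have := pvlm_Del_pos c m; linarith
  have a1 := pvvh_Zo_near hL hTt π.p.zt (mem_closedBall_self hδ)
  have a2 := pvvh_Zi_near hL hTs π.p.zs (mem_closedBall_self hδ)
  rw [← e] at a2
  exact Set.disjoint_left.1 (pvvh_cross hW hL hπ) a1 a2

/-- **no cell of the word is the cell behind the first door** -/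
theorem pvvh_back (hW : 𝔓.Wf) (hL : PvegLev 𝔓 m) (hTt : pviwTyOk 𝔓 π.p.tt) (hπ : π ∈ pvxPatSet 𝔓 x R m) : ∀ k, k < π.p.l.length → pvccC 0 1 π.p.l k ≠ -(1 / 2) := by
  intro k hk e
  obtain ⟨nt, ns, h1, -, -, hSt, -, hFt, -, -⟩ := hπ.2.2.2.2.1.lk
  have eC : pvccC (pvfeZ (𝔓.Γ m) π.p) (pvfeD (𝔓.Γ m) π.p) π.p.l k = pvfeZ (𝔓.Γ m) π.p - pvfeD (𝔓.Γ m) π.p / 2 := by
    rw [pvccC_cov, e]
    ring
  by_cases c1 : k < nt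
  · have h2 := pvffz_first_C (pvfeZ (𝔓.Γ m) π.p) (pvfeD (𝔓.Γ m) π.p) π.p.l (show nt ≤ π.p.l.length by omega) hSt c1.le
    rw [eC] at h2
    have h3 : ((k : ℂ) + 1) * pvfeD (𝔓.Γ m) π.p = 0 := by linear_combination (-1 : ℂ) * h2
    rcases mul_eq_zero.1 h3 with h4 | h4
    · exact absurd h4 (by exact_mod_cast Nat.succ_ne_zero k)
    · exact pvfe_D_ne _ _ h4
  · have h2 := hFt k (not_lt.1 c1) hk
    rw [eC] at h2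
    have δ0 := pvlm_Del_pos c m
    have h3 := mem_closedBall_iff_norm.1 (pvvh_door_o hL hTt π.p.zt (mem_closedBall_self (show 0 ≤ pvlmDel c m / 4 by linarith)))
    have h4 : ‖pvfeD (𝔓.Γ m) π.p / 2‖ = pvlmDel c m / 2 := by
      rw [norm_div, pvfe_norm_D, hW.del, abs_of_pos δ0]
      simp
    have h5 : ‖pvfeZ (𝔓.Γ m) π.p - pvfeD (𝔓.Γ m) π.p / 2 - (𝔓.ty π.p.tt).cp (pvlmH m) π.p.zt‖ ≤ ‖pvieZo 𝔓 m π.p.zt π.p.tt - (𝔓.ty π.p.tt).cp (pvlmH m) π.p.zt‖ + ‖pvfeD (𝔓.Γ m) π.p / 2‖ := by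
      have := norm_sub_le (pvieZo 𝔓 m π.p.zt π.p.tt - (𝔓.ty π.p.tt).cp (pvlmH m) π.p.zt) (pvfeD (𝔓.Γ m) π.p / 2)
      rwa [show pvieZo 𝔓 m π.p.zt π.p.tt - (𝔓.ty π.p.tt).cp (pvlmH m) π.p.zt - pvfeD (𝔓.Γ m) π.p / 2 = pvfeZ (𝔓.Γ m) π.p - pvfeD (𝔓.Γ m) π.p / 2 - (𝔓.ty π.p.tt).cp (pvlmH m) π.p.zt by
        unfold pvieZo pvfeZ; ring] at this
    have h6 := mul_pos hL.rho0 (pvlm_H_pos m)
    rw [hW.del] at h2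
    linarith

end index

/-! ## 5. the regions of the two end links -/

section ends

variable {τ : Type} {c : ℝ} {𝔓 : PvxPar τ c} {x : ℂ} {R : ℝ} {m : ℕ} {π : PvxIx τ} {𝔤 : PvkdGeo}

/-- a placed room of `g⁺` lies in the closed disc `δ / 4` round its door -/
theorem pvvh_Zp_ball (hR : PvkxRef 𝔤) (z : ℂ) {d : ℂ} (hd : ‖d‖ = 1) : pvkdAt z d 𝔤.Zp ⊆ closedBall z (𝔤.δ / 4) := by
  rintro _ ⟨u, hu, rfl⟩
  rw [mem_closedBall_iff_norm]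
  have h1 := mem_closedBall_iff_norm.1 (hR.Zpb hu)
  rw [sub_zero] at h1
  unfold pvthSim
  rwa [add_sub_cancel_left, norm_mul, hd, one_mul]

/-- a shifted room behind the exit door line -/
theorem pvvh_sh_hp_o {z : ℂ} {t : τ} {oY : Set ℂ} (o2 : ∀ v ∈ oY, ((v - (𝔓.Γ m).pout t) * conj ((𝔓.Γ m).dout t)).re < 0) : Disjoint (pvieSh z oY) (pvilHp (pvieZo 𝔓 m z t) ((𝔓.Γ m).dout t)) := by
  rw [Set.disjoint_left]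
  rintro _ ⟨v, hv, rfl⟩ hc
  have hc' : 0 ≤ ((z + v - (z + (𝔓.Γ m).pout t)) * conj ((𝔓.Γ m).dout t)).re := hc
  rw [add_sub_add_left_eq_sub] at hc'
  linarith [o2 v hv]

/-- a shifted room in front of the entrance door line -/
theorem pvvh_sh_hp_i {z : ℂ} {t : τ} {iY : Set ℂ} (i2 : ∀ v ∈ iY, 0 ≤ ((v - (𝔓.Γ m).pin t) * conj ((𝔓.Γ m).din t)).re) : pvieSh z iY ⊆ pvilHp (pvieZi 𝔓 m z t) ((𝔓.Γ m).din t) := by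
  rintro _ ⟨v, hv, rfl⟩
  show 0 ≤ ((z + v - (z + (𝔓.Γ m).pin t)) * conj ((𝔓.Γ m).din t)).re
  rw [add_sub_add_left_eq_sub]
  exact i2 v hv

/-- **a room in the inner mouth of the exit tip, behind the first door line, misses every mask of the word** -/
theorem pvvh_room_M_o (hW : 𝔓.Wf) (hL : PvegLev 𝔓 m) (hπ : π ∈ pvxPatSet 𝔓 x R m) (hR : PvkxRef 𝔤) (hδ : 𝔤.δ = pvlmDel c m) {A : Set ℂ}
    (a1 : A ⊆ closedBall ((𝔓.ty π.p.tt).cp (pvlmH m) π.p.zt) (𝔓.num.rho * pvlmH m / 2)) (a2 : Disjoint A (pvilHp (pvieZo 𝔓 m π.p.zt π.p.tt) ((𝔓.Γ m).dout π.p.tt))) {k : ℕ} (hk : k < π.p.l.length) :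
    Disjoint A (pvgjM 𝔤 (pvieZo 𝔓 m π.p.zt π.p.tt) ((𝔓.Γ m).dout π.p.tt) π.p.l k) := by
  obtain ⟨nt, ns, h1, -, -, hSt, -, hFt, -, -⟩ := hπ.2.2.2.2.1.lk
  by_cases c1 : k < nt
  · exact Disjoint.mono_right (pvvh_M_first 𝔤 hR.δ0.le ((𝔓.Γ m).dout1 _) _ _ (show nt ≤ π.p.l.length by omega) hSt c1.le) a2
  · refine Disjoint.mono_left a1 (pvvh_M_far hR (pveg_dout4 hL _) _ _ k (rM := 𝔓.num.rho * pvlmH m + 4 * (𝔓.Γ m).δ) ?_ ?_)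
    · have := mul_pos hL.rho0 (pvlm_H_pos m)
      have := pvlm_Del_pos c m
      rw [hδ, hW.del]
      linarith
    · have := hFt k (not_lt.1 c1) hk
      rw [hδ, ← hW.del m]
      exact this

/-- **a room in the inner mouth of the entrance tip, in front of the last door line, misses every mask of the word** -/
theorem pvvh_room_M_i (hW : 𝔓.Wf) (hL : PvegLev 𝔓 m) (hπ : π ∈ pvxPatSet 𝔓 x R m) (hR : PvkxRef 𝔤) (hδ : 𝔤.δ = pvlmDel c m) {A : Set ℂ}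
    (a1 : A ⊆ closedBall ((𝔓.ty π.p.ts).cm (pvlmH m) π.p.zs) (𝔓.num.rho * pvlmH m / 2)) (a2 : A ⊆ pvilHp (pvieZi 𝔓 m π.p.zs π.p.ts) ((𝔓.Γ m).din π.p.ts)) {k : ℕ} (hk : k < π.p.l.length) :
    Disjoint A (pvgjM 𝔤 (pvieZo 𝔓 m π.p.zt π.p.tt) ((𝔓.Γ m).dout π.p.tt) π.p.l k) := by
  obtain ⟨nt, ns, h1, -, -, -, hSs, -, hFs, -⟩ := hπ.2.2.2.2.1.lk
  by_cases c2 : k + ns < π.p.l.length
  · refine Disjoint.mono_left a1 (pvvh_M_far hR (pveg_dout4 hL _) _ _ k (rM := 𝔓.num.rho * pvlmH m + 4 * (𝔓.Γ m).δ) ?_ ?_)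
    · have := mul_pos hL.rho0 (pvlm_H_pos m)
      have := pvlm_Del_pos c m
      rw [hδ, hW.del]
      linarith
    · have := hFs k c2
      rw [hδ, ← hW.del m]
      exact this
  · obtain ⟨j, hj, hj1⟩ : ∃ j, k = π.p.l.length - (j + 1) ∧ j + 1 ≤ ns := ⟨π.p.l.length - 1 - k, by omega, by omega⟩
    have h2 := pvvh_M_last 𝔤 hR.δ0.le (pvieZo 𝔓 m π.p.zt π.p.tt) π.p.l (pvgj_D_norm (pveg_dout4 hL π.p.tt) _ _) (show ns ≤ π.p.l.length by omega) hSs hj1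
    rw [← hj, hδ, pvvh_last_Z hW hπ, pvvh_last_D hπ] at h2
    exact (Disjoint.mono_right a2 h2).symm

/-- `Bt`, `Bs` miss every mask of the word -/
theorem pvvh_B_M (hW : 𝔓.Wf) (hF : PvfhWf 𝔓) (hL : PvegLev 𝔓 m) (hπ : π ∈ pvxPatSet 𝔓 x R m) (hR : PvkxRef 𝔤) (hδ : 𝔤.δ = pvlmDel c m) {k : ℕ} (hk : k < π.p.l.length) :
    Disjoint (pvvhBt 𝔓 m π ∪ pvvhBs 𝔓 m π) (pvgjM 𝔤 (pvieZo 𝔓 m π.p.zt π.p.tt) ((𝔓.Γ m).dout π.p.tt) π.p.l k) := by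
  rw [Set.disjoint_left]
  intro w hw hw'
  have h1 := pvvh_off hW hF hL hπ hw k hk
  have h2 := mem_closedBall_iff_norm.1 (pvgj_M_cball hR (pveg_dout4 hL _) _ _ k hw')
  rw [hδ, ← hW.del m] at h2
  have h3 : ‖w - pvccC (pvfeZ (𝔓.Γ m) π.p) (pvfeD (𝔓.Γ m) π.p) π.p.l k‖ ≤ (𝔓.Γ m).δ := h2
  have : 0 < (𝔓.Γ m).δ := by rw [hW.del]; exact pvlm_Del_pos c m
  linarith

/-- `Bt`, `Bs` miss every door disc of the word -/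
theorem pvvh_B_Q (hW : 𝔓.Wf) (hF : PvfhWf 𝔓) (hL : PvegLev 𝔓 m) (hTt : pviwTyOk 𝔓 π.p.tt) (hTs : pviwTyOk 𝔓 π.p.ts) (hπ : π ∈ pvxPatSet 𝔓 x R m) (hR : PvkxRef 𝔤) (hδ : 𝔤.δ = pvlmDel c m)
    {j : ℕ} (hj : j ≤ π.p.l.length) : Disjoint (pvvhBt 𝔓 m π ∪ pvvhBs 𝔓 m π) (ball (pvthZ 𝔤.δ (pvieZo 𝔓 m π.p.zt π.p.tt) ((𝔓.Γ m).dout π.p.tt) π.p.l j) 𝔤.b) := by
  rw [Set.disjoint_left]
  intro w hw hw'
  have δ0 : 0 < (𝔓.Γ m).δ := by rw [hW.del]; exact pvlm_Del_pos c m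
  have h1 := (pvvh_off hW hF hL hπ hw).door δ0 (pvvh_len_pos hW hL hTt hTs hπ) hj
  have h2 := mem_ball_iff_norm.1 hw'
  have h4 := hR.b4
  rw [pvthZ_eq, hδ, ← hW.del m] at h2
  rw [hδ, ← hW.del m] at h4
  have h3 : ‖w - pvccZ (pvfeZ (𝔓.Γ m) π.p) (pvfeD (𝔓.Γ m) π.p) π.p.l j‖ < 𝔤.b := h2
  linarith

/-- **THE TWO END ROOMS AT THE MODEL** (`PvgjEnds` of 175), for ANY two rooms `oY`, `iY` (relative to the centres of the pins): in the inner mouths, behind the first door line / in front of the last door line;   `P₀ = Bt`, `P₁ = Bs` -/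
theorem pvvh_ends (hW : 𝔓.Wf) (hF : PvfhWf 𝔓) (hL : PvegLev 𝔓 m) (hTt : pviwTyOk 𝔓 π.p.tt) (hTs : pviwTyOk 𝔓 π.p.ts) (hπ : π ∈ pvxPatSet 𝔓 x R m)
    (hR : PvkxRef 𝔤) (hr : PvgjRef 𝔤.toPvkdPlug) (hδ : 𝔤.δ = pvlmDel c m) {oY iY : Set ℂ}
    (o1 : pvieSh π.p.zt oY ⊆ closedBall ((𝔓.ty π.p.tt).cp (pvlmH m) π.p.zt) (𝔓.num.rho * pvlmH m / 2))
    (o2 : ∀ v ∈ oY, ((v - (𝔓.Γ m).pout π.p.tt) * conj ((𝔓.Γ m).dout π.p.tt)).re < 0)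
    (i1 : pvieSh π.p.zs iY ⊆ closedBall ((𝔓.ty π.p.ts).cm (pvlmH m) π.p.zs) (𝔓.num.rho * pvlmH m / 2))
    (i2 : ∀ v ∈ iY, 0 ≤ ((v - (𝔓.Γ m).pin π.p.ts) * conj ((𝔓.Γ m).din π.p.ts)).re) :
    PvgjEnds 𝔤 (pvieZo 𝔓 m π.p.zt π.p.tt) ((𝔓.Γ m).dout π.p.tt) π.p.l (pvvhBt 𝔓 m π ∪ pvieSh π.p.zt oY)
      (pvkdAt (pvthZ 𝔤.δ (pvieZo 𝔓 m π.p.zt π.p.tt) ((𝔓.Γ m).dout π.p.tt) π.p.l π.p.l.length) (pvthD ((𝔓.Γ m).dout π.p.tt) π.p.l π.p.l.length) 𝔤.Zp ∪ pvieSh π.p.zs iY ∪ pvvhBs 𝔓 m π)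
      (pvvhBt 𝔓 m π) (pvvhBs 𝔓 m π) := by
  have hd4 := pveg_dout4 hL π.p.tt
  have eZ : pvthZ 𝔤.δ (pvieZo 𝔓 m π.p.zt π.p.tt) ((𝔓.Γ m).dout π.p.tt) π.p.l π.p.l.length = pvieZi 𝔓 m π.p.zs π.p.ts := by rw [hδ]; exact pvvh_last_Z hW hπ
  have eD := pvvh_last_D hπ
  have hDn : ‖(𝔓.Γ m).din π.p.ts‖ = 1 := by rw [← eD]; exact pvgj_D_norm hd4 _ _
  have hb4 : 𝔤.b ≤ pvlmDel c m / 4 := by rw [← hδ]; exact hR.b4
  -- the rooms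
  have Ro_hp := pvvh_sh_hp_o (𝔓 := 𝔓) (m := m) (z := π.p.zt) o2
  have Ri_hp := pvvh_sh_hp_i (𝔓 := 𝔓) (m := m) (z := π.p.zs) i2
  have Zp_hp : pvkdAt (pvieZi 𝔓 m π.p.zs π.p.ts) ((𝔓.Γ m).din π.p.ts) 𝔤.Zp ⊆ pvilHp (pvieZi 𝔓 m π.p.zs π.p.ts) ((𝔓.Γ m).din π.p.ts) := pvgj_zp_hp hr hDn
  have Zp_b : pvkdAt (pvieZi 𝔓 m π.p.zs π.p.ts) ((𝔓.Γ m).din π.p.ts) 𝔤.Zp ⊆ closedBall ((𝔓.ty π.p.ts).cm (pvlmH m) π.p.zs) (𝔓.num.rho * pvlmH m / 2) := by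
    have := pvvh_Zp_ball hR (pvieZi 𝔓 m π.p.zs π.p.ts) hDn
    rw [hδ] at this
    exact this.trans (pvvh_door_i hL hTs _)
  -- everything at the end `t` lies near `t`, everything at the end `s` lies near `s`
  have Yo_G : pvvhBt 𝔓 m π ∪ pvieSh π.p.zt oY ⊆ closedBall π.p.zt (2 * pviwRad 𝔓 m π.p.tt + 𝔓.num.rho * pvlmH m) :=
    union_subset (inter_subset_left.trans (pvvh_box_ball hL.rho0.le m _ _)) (o1.trans (pvvh_mouth_o hTt m _))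
  have Yi_G : pvkdAt (pvieZi 𝔓 m π.p.zs π.p.ts) ((𝔓.Γ m).din π.p.ts) 𝔤.Zp ∪ pvieSh π.p.zs iY ∪ pvvhBs 𝔓 m π ⊆ closedBall π.p.zs (2 * pviwRad 𝔓 m π.p.ts + 𝔓.num.rho * pvlmH m) :=
    union_subset (union_subset (Zp_b.trans (pvvh_mouth_i hTs m _)) (i1.trans (pvvh_mouth_i hTs m _))) (inter_subset_left.trans (pvvh_box_ball hL.rho0.le m _ _))
  have Qo_G : ball (pvieZo 𝔓 m π.p.zt π.p.tt) 𝔤.b ⊆ closedBall π.p.zt (2 * pviwRad 𝔓 m π.p.tt + 𝔓.num.rho * pvlmH m) :=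
    (ball_subset_closedBall.trans (closedBall_subset_closedBall hb4)).trans (pvvh_Zo_near hL hTt _)
  have Qi_G : ball (pvieZi 𝔓 m π.p.zs π.p.ts) 𝔤.b ⊆ closedBall π.p.zs (2 * pviwRad 𝔓 m π.p.ts + 𝔓.num.rho * pvlmH m) :=
    (ball_subset_closedBall.trans (closedBall_subset_closedBall hb4)).trans (pvvh_Zi_near hL hTs _)
  have hX := pvvh_cross hW hL hπ
  rw [eZ, eD]
  refine pvgj_ends_hp hd4 hr (pvvh_back hW hL hTt hπ) ?_ ?_ ?_ ?_ (Disjoint.mono Yo_G Yi_G hX) ?_ ?_ subset_union_left subset_union_right ?_ ?_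
  · rw [pvthx_Z_zero, pvthx_D_zero]
    exact Disjoint.union_left (Disjoint.mono_left inter_subset_left (pvvh_box_o hL hTt _)) Ro_hp
  · rw [eZ, eD]
    exact union_subset (union_subset Zp_hp Ri_hp) (inter_subset_left.trans (pvvh_box_i hL hTs _))
  · intro k _ hk
    exact Disjoint.union_left (Disjoint.mono_left subset_union_left (pvvh_B_M hW hF hL hπ hR hδ hk)) (pvvh_room_M_o hW hL hπ hR hδ o1 Ro_hp hk)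
  · intro k hk
    have hk' : k < π.p.l.length := by omega
    exact Disjoint.union_left (pvvh_room_M_i hW hL hπ hR hδ (union_subset Zp_b i1) (union_subset Zp_hp Ri_hp) hk') (Disjoint.mono_left subset_union_right (pvvh_B_M hW hF hL hπ hR hδ hk'))
  · intro _
    rw [eZ]
    exact Disjoint.mono Yo_G Qi_G hX
  · intro _
    rw [pvthx_Z_zero]
    exact (Disjoint.mono Qo_G Yi_G hX).symm
  · exact Disjoint.mono_left subset_union_left (pvvh_B_Q hW hF hL hTt hTs hπ hR hδ (Nat.zero_le _))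
  · exact Disjoint.mono_left subset_union_right (pvvh_B_Q hW hF hL hTt hTs hπ hR hδ le_rfl)

/-- **`PvjmRgE` AT THE MODEL** (268), any two rooms -/
theorem pvvh_rgE (hW : 𝔓.Wf) (hF : PvfhWf 𝔓) (hL : PvegLev 𝔓 m) (hTt : pviwTyOk 𝔓 π.p.tt) (hTs : pviwTyOk 𝔓 π.p.ts) (hπ : π ∈ pvxPatSet 𝔓 x R m)
    (hR : PvkxRef 𝔤) (hr : PvgjRef 𝔤.toPvkdPlug) (hδ : 𝔤.δ = pvlmDel c m) {oY iY : Set ℂ}
    (o1 : pvieSh π.p.zt oY ⊆ closedBall ((𝔓.ty π.p.tt).cp (pvlmH m) π.p.zt) (𝔓.num.rho * pvlmH m / 2))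
    (o2 : ∀ v ∈ oY, ((v - (𝔓.Γ m).pout π.p.tt) * conj ((𝔓.Γ m).dout π.p.tt)).re < 0)
    (i1 : pvieSh π.p.zs iY ⊆ closedBall ((𝔓.ty π.p.ts).cm (pvlmH m) π.p.zs) (𝔓.num.rho * pvlmH m / 2))
    (i2 : ∀ v ∈ iY, 0 ≤ ((v - (𝔓.Γ m).pin π.p.ts) * conj ((𝔓.Γ m).din π.p.ts)).re) :
    PvjmRgE 𝔤 (pvieZo 𝔓 m π.p.zt π.p.tt) ((𝔓.Γ m).dout π.p.tt) π.p.l (pvvhBt 𝔓 m π ∪ pvieSh π.p.zt oY)
      (pvkdAt (pvthZ 𝔤.δ (pvieZo 𝔓 m π.p.zt π.p.tt) ((𝔓.Γ m).dout π.p.tt) π.p.l π.p.l.length) (pvthD ((𝔓.Γ m).dout π.p.tt) π.p.l π.p.l.length) 𝔤.Zp ∪ pvieSh π.p.zs iY ∪ pvvhBs 𝔓 m π)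
      (pvvhBt 𝔓 m π) (pvvhBs 𝔓 m π) :=
  pvgj_rgE hR (pveg_dout4 hL π.p.tt) (pvvh_ends hW hF hL hTt hTs hπ hR hr hδ o1 o2 i1 i2)

/-- **`PvjmRg` AT THE MODEL** = cells of 175 + ends, any two rooms -/
theorem pvvh_rg (hW : 𝔓.Wf) (hF : PvfhWf 𝔓) (hL : PvegLev 𝔓 m) (hTt : pviwTyOk 𝔓 π.p.tt) (hTs : pviwTyOk 𝔓 π.p.ts) (hπ : π ∈ pvxPatSet 𝔓 x R m)
    (hR : PvkxRef 𝔤) (hr : PvgjRef 𝔤.toPvkdPlug) (hδ : 𝔤.δ = pvlmDel c m) {oY iY : Set ℂ}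
    (o1 : pvieSh π.p.zt oY ⊆ closedBall ((𝔓.ty π.p.tt).cp (pvlmH m) π.p.zt) (𝔓.num.rho * pvlmH m / 2))
    (o2 : ∀ v ∈ oY, ((v - (𝔓.Γ m).pout π.p.tt) * conj ((𝔓.Γ m).dout π.p.tt)).re < 0)
    (i1 : pvieSh π.p.zs iY ⊆ closedBall ((𝔓.ty π.p.ts).cm (pvlmH m) π.p.zs) (𝔓.num.rho * pvlmH m / 2))
    (i2 : ∀ v ∈ iY, 0 ≤ ((v - (𝔓.Γ m).pin π.p.ts) * conj ((𝔓.Γ m).din π.p.ts)).re) :
    PvjmRg 𝔤 (pvieZo 𝔓 m π.p.zt π.p.tt) ((𝔓.Γ m).dout π.p.tt) π.p.l (pvvhBt 𝔓 m π ∪ pvieSh π.p.zt oY)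
      (pvkdAt (pvthZ 𝔤.δ (pvieZo 𝔓 m π.p.zt π.p.tt) ((𝔓.Γ m).dout π.p.tt) π.p.l π.p.l.length) (pvthD ((𝔓.Γ m).dout π.p.tt) π.p.l π.p.l.length) 𝔤.Zp ∪ pvieSh π.p.zs iY ∪ pvvhBs 𝔓 m π)
      (pvvhBt 𝔓 m π) (pvvhBs 𝔓 m π) :=
  pvgj_rg hR (pveg_dout4 hL π.p.tt) hπ.2.2.2.2.1.simple (pvvh_ends hW hF hL hTt hTs hπ hR hr hδ o1 o2 i1 i2)

end ends

/-! ## 6. the instance of record -/

section rec

variable {τ : Type} {c : ℝ} {𝔓 : PvxPar τ c} {x : ℂ} {R : ℝ} {m : ℕ} {π : PvxIx τ}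

theorem pvvh_rec_hp (c : ℝ) (m : ℕ) : PvgjRef (pvkgG.sc (pvlmDel c m)).toPvkdPlug := by
  have h0 := pvlm_Del_pos c m
  rw [pvuk_rec_plug h0]
  exact pvgj_ref_P (by positivity)

/-- **`PvjmRg` AT THE GEOMETRY OF RECORD AND THE ROOMS OF RECORD** (`pvegOYa`, `pvegIYa` of 124) -/
theorem pvvh_rg_rec (hW : 𝔓.Wf) (hF : PvfhWf 𝔓) (hL : PvegLev 𝔓 m) (hTt : pviwTyOk 𝔓 π.p.tt) (hTs : pviwTyOk 𝔓 π.p.ts) (hπ : π ∈ pvxPatSet 𝔓 x R m) :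
    PvjmRg (pvkgG.sc (pvlmDel c m)) (pvieZo 𝔓 m π.p.zt π.p.tt) ((𝔓.Γ m).dout π.p.tt) π.p.l (pvvhBt 𝔓 m π ∪ pvieSh π.p.zt (pvegOYa 𝔓 m π.p.tt))
      (pvkdAt (pvthZ (pvkgG.sc (pvlmDel c m)).δ (pvieZo 𝔓 m π.p.zt π.p.tt) ((𝔓.Γ m).dout π.p.tt) π.p.l π.p.l.length) (pvthD ((𝔓.Γ m).dout π.p.tt) π.p.l π.p.l.length) (pvkgG.sc (pvlmDel c m)).Zp
        ∪ pvieSh π.p.zs (pvegIYa 𝔓 m π.p.ts) ∪ pvvhBs 𝔓 m π)
      (pvvhBt 𝔓 m π) (pvvhBs 𝔓 m π) :=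
  pvvh_rg hW hF hL hTt hTs hπ (pvuk_rec_ref c m) (pvvh_rec_hp c m) (pvuk_rec_del _) (pveg_oYa_ball hL hTt _)
    (fun v hv => by linarith [pveg_oYa_back hL hTt hv, pveg_A_pos c m]) (pveg_iYa_ball hL hTs _) (fun v hv => by linarith [pveg_iYa_front hL hTs hv, pveg_A_pos c m])

/-- **`PvjmRgE`** at the geometry of record and the rooms of record -/
theorem pvvh_rgE_rec (hW : 𝔓.Wf) (hF : PvfhWf 𝔓) (hL : PvegLev 𝔓 m) (hTt : pviwTyOk 𝔓 π.p.tt) (hTs : pviwTyOk 𝔓 π.p.ts) (hπ : π ∈ pvxPatSet 𝔓 x R m) :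
    PvjmRgE (pvkgG.sc (pvlmDel c m)) (pvieZo 𝔓 m π.p.zt π.p.tt) ((𝔓.Γ m).dout π.p.tt) π.p.l (pvvhBt 𝔓 m π ∪ pvieSh π.p.zt (pvegOYa 𝔓 m π.p.tt))
      (pvkdAt (pvthZ (pvkgG.sc (pvlmDel c m)).δ (pvieZo 𝔓 m π.p.zt π.p.tt) ((𝔓.Γ m).dout π.p.tt) π.p.l π.p.l.length) (pvthD ((𝔓.Γ m).dout π.p.tt) π.p.l π.p.l.length) (pvkgG.sc (pvlmDel c m)).Zp
        ∪ pvieSh π.p.zs (pvegIYa 𝔓 m π.p.ts) ∪ pvvhBs 𝔓 m π)
      (pvvhBt 𝔓 m π) (pvvhBs 𝔓 m π) :=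
  pvvh_rgE hW hF hL hTt hTs hπ (pvuk_rec_ref c m) (pvvh_rec_hp c m) (pvuk_rec_del _) (pveg_oYa_ball hL hTt _)
    (fun v hv => by linarith [pveg_oYa_back hL hTt hv, pveg_A_pos c m]) (pveg_iYa_ball hL hTs _) (fun v hv => by linarith [pveg_iYa_front hL hTs hv, pveg_A_pos c m])

/-- **(INC-E)** -/
theorem pvvh_inc_o (hF : PvfhWf 𝔓) (hL : PvegLev 𝔓 m) (hTt : pviwTyOk 𝔓 π.p.tt) : pvieSh π.p.zt (pvegOYa 𝔓 m π.p.tt) ⊆ (𝔓.reg m π).Yin := pveg_oYa_reg hL hTt (hF.reg_eq m π)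

theorem pvvh_inc_i (hF : PvfhWf 𝔓) (hL : PvegLev 𝔓 m) (hTs : pviwTyOk 𝔓 π.p.ts) : pvieSh π.p.zs (pvegIYa 𝔓 m π.p.ts) ⊆ (𝔓.reg m π).Yin := pveg_iYa_reg hL hTs (hF.reg_eq m π)

/-- (INC-E) for any room in the inner mouth -/
theorem pvvh_inc_o' (hF : PvfhWf 𝔓) {A : Set ℂ} (a1 : A ⊆ closedBall ((𝔓.ty π.p.tt).cp (pvlmH m) π.p.zt) (𝔓.num.rho * pvlmH m / 2)) : A ⊆ (𝔓.reg m π).Yin := by
  rw [hF.reg_eq]
  exact a1.trans (subset_union_right.trans subset_union_left)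

theorem pvvh_inc_i' (hF : PvfhWf 𝔓) {A : Set ℂ} (a1 : A ⊆ closedBall ((𝔓.ty π.p.ts).cm (pvlmH m) π.p.zs) (𝔓.num.rho * pvlmH m / 2)) : A ⊆ (𝔓.reg m π).Yin := by
  rw [hF.reg_eq]
  exact a1.trans subset_union_right

end rec

/-! ## 7. the record `PvjmMod` of 268 -/

section mod

variable {τ : Type} {c : ℝ} {𝔓 : PvxPar τ c} {𝔈 : PvieEng τ} {x : ℂ} {R : ℝ} {m : ℕ} {π : PvxIx τ} {𝔤 : PvkdGeo}

theorem pvvh_sh_sub {z Y : ℂ} {r : ℝ} {A : Set ℂ} (h : A ⊆ closedBall Y r) : pvieSh z A ⊆ closedBall (z + Y) r := by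
  rw [← pveg_sh_ball]
  exact Set.image_mono h

/-- the open core disc lies near the pin -/
theorem pvvh_core_near (hW : 𝔓.Wf) (hF : PvfhWf 𝔓) (m : ℕ) (t : τ) (z : ℂ) : ball z ((𝔓.ty t).b * pvlmH m) ⊆ closedBall z (2 * pviwRad 𝔓 m t + 𝔓.num.rho * pvlmH m) := fun _ hw =>
  pvvh_box_ball hW.rho0.le m t z (pvffm_disc_box (hW.rho0.trans hW.rho1).le (hF.b_b2 t) (mem_ball_iff_norm.1 hw).le)

/-- **`PvjmRgE` AT THE MODEL, `P₀ P₁` = THE OPEN CORE DISCS**, for a GOOD index (209) -/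
theorem pvvh_rgE_core (hW : 𝔓.Wf) (hF : PvfhWf 𝔓) (hL : PvegLev 𝔓 m) (hTt : pviwTyOk 𝔓 π.p.tt) (hTs : pviwTyOk 𝔓 π.p.ts) (hπ : π ∈ pvxPatSet 𝔓 x R m) (hg : PvjxGood 𝔓 m π)
    (hR : PvkxRef 𝔤) (hr : PvgjRef 𝔤.toPvkdPlug) (hδ : 𝔤.δ = pvlmDel c m) {oY iY : Set ℂ}
    (o1 : pvieSh π.p.zt oY ⊆ closedBall ((𝔓.ty π.p.tt).cp (pvlmH m) π.p.zt) (𝔓.num.rho * pvlmH m / 2))
    (o2 : ∀ v ∈ oY, ((v - (𝔓.Γ m).pout π.p.tt) * conj ((𝔓.Γ m).dout π.p.tt)).re < 0)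
    (i1 : pvieSh π.p.zs iY ⊆ closedBall ((𝔓.ty π.p.ts).cm (pvlmH m) π.p.zs) (𝔓.num.rho * pvlmH m / 2))
    (i2 : ∀ v ∈ iY, 0 ≤ ((v - (𝔓.Γ m).pin π.p.ts) * conj ((𝔓.Γ m).din π.p.ts)).re) :
    PvjmRgE 𝔤 (pvieZo 𝔓 m π.p.zt π.p.tt) ((𝔓.Γ m).dout π.p.tt) π.p.l (pvvhBt 𝔓 m π ∪ pvieSh π.p.zt oY)
      (pvkdAt (pvthZ 𝔤.δ (pvieZo 𝔓 m π.p.zt π.p.tt) ((𝔓.Γ m).dout π.p.tt) π.p.l π.p.l.length) (pvthD ((𝔓.Γ m).dout π.p.tt) π.p.l π.p.l.length) 𝔤.Zp ∪ pvieSh π.p.zs iY ∪ pvvhBs 𝔓 m π)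
      (ball π.p.zt ((𝔓.ty π.p.tt).b * pvlmH m)) (ball π.p.zs ((𝔓.ty π.p.ts).b * pvlmH m)) := by
  have E := pvvh_rgE hW hF hL hTt hTs hπ hR hr hδ o1 o2 i1 i2
  have eδ : 𝔤.δ = (𝔓.Γ m).δ := hδ.trans (hW.del m).symm
  have δ0 : 0 < (𝔓.Γ m).δ := by rw [← eδ]; exact hR.δ0
  have hl := pvvh_len_pos hW hL hTt hTs hπ
  have hB : ∀ w ∈ pvjxD 𝔓 m π, PvffzGap (𝔓.Γ m) π.p (𝔓.Γ m).δ w := fun w hw => (hg w hw).mono (by linarith)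
  have hb : 𝔤.b ≤ (𝔓.Γ m).δ / 2 := by
    have := hR.b4
    rw [eδ] at this
    linarith
  have hQ : ∀ j, j ≤ π.p.l.length → Disjoint (pvjmQ 𝔤 (pvieZo 𝔓 m π.p.zt π.p.tt) ((𝔓.Γ m).dout π.p.tt) π.p.l j) (pvjxD 𝔓 m π) := by
    intro j hj
    unfold pvjmQ
    rw [eδ]
    exact pvffm_door_disj δ0 hB hl hb hj
  have hC : ∀ i, i < π.p.l.length → Disjoint (pvgjM 𝔤 (pvieZo 𝔓 m π.p.zt π.p.tt) ((𝔓.Γ m).dout π.p.tt) π.p.l i) (pvjxD 𝔓 m π) := by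
    intro i hi
    unfold pvgjM
    rw [eδ]
    exact pvffm_cell_disj hB hi
  have ht : ball π.p.zt ((𝔓.ty π.p.tt).b * pvlmH m) ⊆ pvjxD 𝔓 m π := ball_subset_closedBall.trans subset_union_right
  have hs : ball π.p.zs ((𝔓.ty π.p.ts).b * pvlmH m) ⊆ pvjxD 𝔓 m π := ball_subset_closedBall.trans subset_union_left
  have Yo_G : pvvhBt 𝔓 m π ∪ pvieSh π.p.zt oY ⊆ closedBall π.p.zt (2 * pviwRad 𝔓 m π.p.tt + 𝔓.num.rho * pvlmH m) :=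
    union_subset (inter_subset_left.trans (pvvh_box_ball hL.rho0.le m _ _)) (o1.trans (pvvh_mouth_o hTt m _))
  exact
    { oi := E.oi
      oC := E.oC
      iC := E.iC
      oQ := E.oQ
      iQ := E.iQ
      zp := E.zp
      zm := E.zm
      P₀Q := fun j hj => (Disjoint.mono_right ht (hQ j hj)).symm
      P₁Q := fun j hj => (Disjoint.mono_right hs (hQ j hj)).symm
      P₁o := (Disjoint.mono Yo_G (pvvh_core_near hW hF m _ _) (pvvh_cross hW hL hπ)).symm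
      P₁C := fun i hi => (Disjoint.mono (pvgj_C_sub hR _ _ _ i) hs (hC i hi)).symm }

/-- `PvjmRgE` at the open core discs, any engine with the contract `PvffmEnd` of 274 on the rooms of its end links -/
theorem pvvh_rgE_eng (hW : 𝔓.Wf) (hF : PvfhWf 𝔓) (hL : PvegLev 𝔓 m) (hTt : pviwTyOk 𝔓 π.p.tt) (hTs : pviwTyOk 𝔓 π.p.ts) (hπ : π ∈ pvxPatSet 𝔓 x R m) (hg : PvjxGood 𝔓 m π)
    (hR : PvkxRef 𝔤) (hr : PvgjRef 𝔤.toPvkdPlug) (hδ : 𝔤.δ = pvlmDel c m) (hEt : PvffmEnd 𝔓 𝔈 m π.p.tt) (hEs : PvffmEnd 𝔓 𝔈 m π.p.ts) :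
    PvjmRgE 𝔤 (pvieZo 𝔓 m π.p.zt π.p.tt) ((𝔓.Γ m).dout π.p.tt) π.p.l (pvvhBt 𝔓 m π ∪ pvieSh π.p.zt (𝔈.oY m π.p.tt))
      (pvkdAt (pvthZ 𝔤.δ (pvieZo 𝔓 m π.p.zt π.p.tt) ((𝔓.Γ m).dout π.p.tt) π.p.l π.p.l.length) (pvthD ((𝔓.Γ m).dout π.p.tt) π.p.l π.p.l.length) 𝔤.Zp ∪ pvieSh π.p.zs (𝔈.iY m π.p.ts) ∪ pvvhBs 𝔓 m π)
      (ball π.p.zt ((𝔓.ty π.p.tt).b * pvlmH m)) (ball π.p.zs ((𝔓.ty π.p.ts).b * pvlmH m)) :=
  pvvh_rgE_core hW hF hL hTt hTs hπ hg hR hr hδ (pvvh_sh_sub hEt.oY_ball) hEt.oY_back (pvvh_sh_sub hEs.iY_ball) hEs.iY_front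

/-- **the field `rgE` of `PvjmMod`** (`P₀ P₁ = Bt Bs`), any engine with the contract `PvffmEnd` of 274 on the rooms of its end links -/
theorem pvvh_rgE_engB (hW : 𝔓.Wf) (hF : PvfhWf 𝔓) (hL : PvegLev 𝔓 m) (hTt : pviwTyOk 𝔓 π.p.tt) (hTs : pviwTyOk 𝔓 π.p.ts) (hπ : π ∈ pvxPatSet 𝔓 x R m)
    (hR : PvkxRef 𝔤) (hr : PvgjRef 𝔤.toPvkdPlug) (hδ : 𝔤.δ = pvlmDel c m) (hEt : PvffmEnd 𝔓 𝔈 m π.p.tt) (hEs : PvffmEnd 𝔓 𝔈 m π.p.ts) :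
    PvjmRgE 𝔤 (pvieZo 𝔓 m π.p.zt π.p.tt) ((𝔓.Γ m).dout π.p.tt) π.p.l (pvvhBt 𝔓 m π ∪ pvieSh π.p.zt (𝔈.oY m π.p.tt))
      (pvkdAt (pvthZ 𝔤.δ (pvieZo 𝔓 m π.p.zt π.p.tt) ((𝔓.Γ m).dout π.p.tt) π.p.l π.p.l.length) (pvthD ((𝔓.Γ m).dout π.p.tt) π.p.l π.p.l.length) 𝔤.Zp ∪ pvieSh π.p.zs (𝔈.iY m π.p.ts) ∪ pvvhBs 𝔓 m π)
      (pvvhBt 𝔓 m π) (pvvhBs 𝔓 m π) :=
  pvvh_rgE hW hF hL hTt hTs hπ hR hr hδ (pvvh_sh_sub hEt.oY_ball) hEt.oY_back (pvvh_sh_sub hEs.iY_ball) hEs.iY_front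

/-- **the field `stub` of `PvjmMod`** -/
theorem pvvh_mod_stub (hW : 𝔓.Wf) (hF : PvfhWf 𝔓) (hL : PvegLev 𝔓 m) (π : PvxIx τ) :
    ∀ (Y : Set ℂ) (𝔇 : PvwDat (delbPl Y).toMap), DelGood Y → 𝔇.Ok Subtype.val 𝔓.num (pvlmH m) (𝔓.reg m π) →
    (π.Zs : Set (ℤ × ℤ)) = pvtCells (pvlmDel c m) (Subtype.val '' 𝔇.s.fzIn ∪ Metric.closedBall (pvxYs 𝔓 m π.p) (𝔓.num.rho * pvlmH m)) →
    (π.Zt : Set (ℤ × ℤ)) = pvtCells (pvlmDel c m) (Subtype.val '' 𝔇.t.fzOut ∪ Metric.closedBall (pvxYt 𝔓 m π.p) (𝔓.num.rho * pvlmH m)) →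
    (∀ i, i ≤ 𝔇.t.np → (((delbPl Y).toMap.src (𝔇.t.ep i) : ↥Y) : ℂ) ∈ pvvhBt 𝔓 m π) ∧ ∀ i, i ≤ 𝔇.s.nm → (((delbPl Y).toMap.src (𝔇.s.em i) : ↥Y) : ℂ) ∈ pvvhBs 𝔓 m π :=
  fun _ _ _ hok hs ht => ⟨pvvh_stub_t hW hF hL hok ht, pvvh_stub_s hW hF hL hok hs⟩

/-- **THE DETERMINISTIC DEBTS OF (CHAIN) AT THE MODEL ARE PAID** (good index; geometry of record; any engine with `PvffmEnd`) -/
theorem pvvh_mod (hW : 𝔓.Wf) (hF : PvfhWf 𝔓) (hL : PvegLev 𝔓 m) (hTt : pviwTyOk 𝔓 π.p.tt) (hTs : pviwTyOk 𝔓 π.p.ts) (hms : 𝔓.num.m ≤ (𝔓.ty π.p.ts).b) (hmt : 𝔓.num.m ≤ (𝔓.ty π.p.tt).b)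
    (hπ : π ∈ pvxPatSet 𝔓 x R m) (hEt : PvffmEnd 𝔓 𝔈 m π.p.tt) (hEs : PvffmEnd 𝔓 𝔈 m π.p.ts) (hg : PvjxGood 𝔓 m π) :
    PvjmMod 𝔓 𝔈 m π (pvkgG.sc (pvlmDel c m)) (pvvhBt 𝔓 m π) (pvvhBs 𝔓 m π) (pvffmH0 𝔓 m π.p.zt π.p.tt) (pvffmH1 𝔓 m π.p.zs π.p.ts) := by
  have hC := pvgj_model hW hF (show 16 * pvlmDel c m < 𝔓.num.rho * pvlmH m by linarith [pvvh_fine hL, pvlm_Del_pos c m]) hπ
  exact
    { len := pvvh_len_pos hW hL hTt hTs hπ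
      d4 := pveg_dout4 hL _
      δ := pvuk_rec_del _
      plug := pvuk_rec_rd 𝔓 m
      rgC := hC.1
      rgE := pvvh_rgE_engB hW hF hL hTt hTs hπ (pvuk_rec_ref c m) (pvvh_rec_hp c m) (pvuk_rec_del _) hEt hEs
      oY := pvvh_inc_o' hF (pvvh_sh_sub hEt.oY_ball)
      iY := pvvh_inc_i' hF (pvvh_sh_sub hEs.iY_ball)
      cY := hC.2.1
      qY := hC.2.2
      Mc := pvffm_G_Mc c m
      CM := pvffm_G_CM c m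
      reg := pvffm_reg 𝔈 hW hF hL hTs hTt hms hmt hπ hg (pvffm_ref c m) (pvffm_G_del c m)
      Go := pvffm_roomO hW.toWfB hL hTt (hF.b_b2 _) hEt _
      Gi := pvffm_roomI hW.toWfB hL hTs (hF.b_b2 _) hEs _
      stub := pvvh_mod_stub hW hF hL π }

/-- **`hM` OF `pvjm_hch` / `pvjm_hch_YL` (268) AT THE PARAMETERS AND THE ENGINE OF RECORD**, `P := PvjxGood` -/
theorem pvvh_mod_rec {N : PvxNums} (hN : N.Ok) {c : ℝ} (c0 : 0 < c) {m : ℕ} (hm : N.m0 ≤ m) {𝔈 : PvieEng (pvxTau N)} (hR : PvnaRec N hN c 𝔈) {x : ℂ} {R : ℝ} {π : PvxIx (pvxTau N)}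
    (hπ : π ∈ pvxPatSet (pvxParOf N hN c) x R m) (hg : PvjxGood (pvxParOf N hN c) m π) :
    PvjmMod (pvxParOf N hN c) 𝔈 m π (pvkgG.sc (pvlmDel c m)) (pvvhBt (pvxParOf N hN c) m π) (pvvhBs (pvxParOf N hN c) m π)
      (pvffmH0 (pvxParOf N hN c) m π.p.zt π.p.tt) (pvffmH1 (pvxParOf N hN c) m π.p.zs π.p.ts) :=
  pvvh_mod (pvxo_wf N hN c) (pvfhw_par N hN c) (pvqh_lev hN c0 hm) (pvqh_tyOk hN c _) (pvqh_tyOk hN c _) (pvffm_cut_at hN c _) (pvffm_cut_at hN c _) hπ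
    (pvffm_end_rec hN c0 hm hR _) (pvffm_end_rec hN c0 hm hR _) hg

end mod

end Claimed.Agent.R289
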