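import Claimed.Agent.R289.Tr.HookGL
import Claimed.Agent.R289.Tr.AdmOut

/-!
# Row 289 (S0537), THE WALL, road E, CHAIN, file Tr/HookGN : THE JUNCTION WITHOUT THE MESH OF THE `ρ₂ h` BALLS      (helper90; prefix `pvhg_` continued)

WHY.   `pvhg_SYn_rec(_pl)`, `pvhg_SYn_model` (`Tr/HookGL`) ask `mesh_t mesh_s : VorDense Y (closedBall y± (ρ₂ h + 3 μ)) μ` + `PvhgNum`.   On the chain event only the meshes of the WINDOWS are known (`pvdk_mesh_o/_i/_cells` of 104): the hypothesis `J` of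
`pvjm_yarc`, `pvjm_chain` (268, `Tr/ChainM`) could not be paid.      THIS FILE: the same conclusion from the same position premises, NO mesh of the balls, NO `PvhgNum`, NO calm clause.
* sec. 1  `pvhg_inj_first` (first hit ⟹ the positions `0..n` are pairwise distinct), `pvhg_cyc_pos`, `pvhg_side_const` (a strand changes the side of a cycle `black, white…white, black…black` only at its two bichromatic edges),
          `pvhg_sq_box`, `pvhg_hull_sq` (one side of a cycle drawn in a square has all its sites in the square: `pl_jordan_finite` + maximum principle `pvaz_box` of 140)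
* sec. 2  **DYNAMIC NO TUNNEL** `pvhg_tunnel_t`, `pvhg_tunnel_s` : a later (earlier) position of the strand whose two ends lie on the two banks of a stretch drawn in a square ⟹ the apex in front of (behind) the stretch, or the far end of the strand, lies in the square.
* sec. 3  `pvhg_nf_dyn` (no new position has two frozen ends), `pvhg_new_dyn`, **`pvhg_SYn_dyn`** : the junction, model free.
* sec. 4  Delaunay forms: `pvhg_core_dense`, `pvhg_sq_apart`, `pvhg_SYn_dyn_del`, **`pvhg_SYn_dyn_pl`** (dense neighbourhoods at the black sites of the stubs), **`pvhg_SYn_dyn_win`** (meshes of two windows + `pvly_stub_out/_in`).      0 sorry.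
-/

set_option autoImplicit false
set_option linter.unusedSectionVars false
set_option linter.unusedVariables false

namespace Claimed.Agent.R289

open Relation Set

variable {V D : Type} {T : PvMap V D}

/-! ## 1. strands and cycles with two bichromatic edges -/

section jordan

variable {σ : V → Bool}

/-- **first hit ⟹ the positions `0..n` are pairwise distinct** -/
theorem pvhg_inj_first {a b : D} (ha : pvasBW T σ a) {n : ℕ} (hl : pvasIt T σ a n = b) (hf : ∀ i, i < n → pvasIt T σ a i ≠ b) :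
    ∀ i j, i ≤ n → j ≤ n → pvasIt T σ a i = pvasIt T σ a j → i = j := by
  have key : ∀ i j, i < j → j ≤ n → pvasIt T σ a i ≠ pvasIt T σ a j := by
    intro i j hij hj e
    have hr := pvas_it_return ha hij.le e
    have h2 : pvasIt T σ a ((j - i) + (n - (j - i))) = pvasIt T σ a (n - (j - i)) := by rw [pvas_it_add, hr]
    rw [show (j - i) + (n - (j - i)) = n by omega, hl] at h2
    exact hf _ (by omega) h2.symm
  intro i j hi hj e
  rcases Nat.lt_trichotomy i j with h | h | h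
  · exact absurd e (key i j h hj)
  · exact h
  · exact absurd e.symm (key j i h hi)

/-- a position which is an edge of a cycle `black, white … white, black … black` is one of its two bichromatic edges -/
theorem pvhg_cyc_pos (hT : T.IsSph) (c : T.Cyc) {m : ℕ} (hm : 0 < m) (hmn : m < c.n) (hw : ∀ k, 1 ≤ k → k ≤ m → σ (T.src (c.e k)) = false)
    (hb : ∀ k, m < k → k ≤ c.n → σ (T.src (c.e k)) = true) {x : D} (hx : pvasBW T σ x) (hB : T.Bd c.Left x) : x = c.e 0 ∨ x = T.opp (c.e m) := by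
  have hocc := pvld_bdOcc hT c hm hmn hw hb
  have hb0 : σ (T.src (c.e 0)) = true := by
    have h1 := hb c.n hmn le_rfl
    have h2 := c.per 0
    rw [Nat.zero_add] at h2
    rwa [h2] at h1
  by_cases h1 : x ∈ c.Left
  · have h2 : T.opp x ∉ c.Left := fun h => hB ⟨fun _ => h, fun _ => h1⟩
    have h3 : x ∈ pvasBdOcc T c.Left σ := ⟨h1, h2, pvas_bw_occ hx⟩
    rw [hocc] at h3
    rcases h3 with e | e
    · exact Or.inl e
    · exfalso
      have h4 := hw m hm le_rfl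
      rw [← Set.mem_singleton_iff.1 e, hx.1] at h4
      exact Bool.noConfusion h4
  · have h2 : T.opp x ∈ c.Left := by
      by_contra h
      exact hB ⟨fun h' => absurd h' h1, fun h' => absurd h' h⟩
    have h3 : T.opp x ∈ pvasBdOcc T c.Left σ := ⟨h2, by rwa [T.opp_opp], pvas_occ_iff.2 (Or.inr (by rwa [T.opp_opp]))⟩
    rw [hocc] at h3
    rcases h3 with e | e
    · exfalso
      rw [← e, T.src_opp', hx.2] at hb0
      exact Bool.noConfusion hb0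
    · right
      rw [← Set.mem_singleton_iff.1 e, T.opp_opp]

/-- **a strand changes the side of the cycle only at the two bichromatic edges** -/
theorem pvhg_side_const (hT : T.IsSph) (c : T.Cyc) {m : ℕ} (hm : 0 < m) (hmn : m < c.n) (hw : ∀ k, 1 ≤ k → k ≤ m → σ (T.src (c.e k)) = false)
    (hb : ∀ k, m < k → k ≤ c.n → σ (T.src (c.e k)) = true) {a : D} (ha : pvasBW T σ a) {k₀ k₁ : ℕ}
    (hno : ∀ k, k₀ < k → k ≤ k₁ → pvasIt T σ a k ≠ c.e 0 ∧ pvasIt T σ a k ≠ T.opp (c.e m)) :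
    ∀ k, k₀ ≤ k → k ≤ k₁ → (pvasIt T σ a k ∈ c.Left ↔ pvasIt T σ a k₀ ∈ c.Left) := by
  intro k hk
  induction k, hk using Nat.le_induction with
  | base => intro _; exact Iff.rfl
  | succ k hk ih =>
    intro hk1
    rw [← ih (by omega)]
    have h1 : T.opp (pvasIt T σ a (k + 1)) ∈ c.Left ↔ pvasIt T σ a k ∈ c.Left := by
      rw [pvas_it_succ]
      exact pvas_step_opp_mem (pl_left_face c) σ
    rw [← h1]
    by_contra hcon
    rcases pvhg_cyc_pos hT c hm hmn hw hb (pvas_it_bw ha _) hcon with e | e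
    · exact (hno (k + 1) (by omega) hk1).1 e
    · exact (hno (k + 1) (by omega) hk1).2 e

theorem pvhg_sq_box {z w : ℂ} {r : ℝ} : w ∈ pvwSq z r ↔ z.re - r ≤ w.re ∧ w.re ≤ z.re + r ∧ z.im - r ≤ w.im ∧ w.im ≤ z.im + r := by
  unfold pvwSq
  rw [Set.mem_ofPred_eq, abs_le, abs_le, Complex.sub_re, Complex.sub_im]
  constructor
  · rintro ⟨⟨h1, h2⟩, h3, h4⟩
    exact ⟨by linarith, by linarith, by linarith, by linarith⟩
  · rintro ⟨h1, h2, h3, h4⟩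
    exact ⟨⟨by linarith, by linarith⟩, by linarith, by linarith⟩

/-- **one side of a cycle drawn in a square has all its sites in the square** -/
theorem pvhg_hull_sq (hT : T.IsSph) {pos : V → ℂ} (G : PlGeo T pos) (c : T.Cyc) {z : ℂ} {r : ℝ} (hc : ∀ v ∈ c.verts, pos v ∈ pvwSq z r) :
    (∀ v ∈ T.VOf c.Left, pos v ∈ pvwSq z r) ∨ ∀ v ∈ T.VOf c.Right, pos v ∈ pvwSq z r := by
  rcases pl_jordan_finite hT c with hfin | hfin
  · left
    intro v hv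
    exact pvhg_sq_box.2 (pvaz_box hT G c hfin (fun w hw => pvhg_sq_box.1 (hc w hw)) hv)
  · right
    obtain ⟨c', -, -, hv', hL, -⟩ := pl_cyc_rev hT c
    intro v hv
    exact pvhg_sq_box.2 (pvaz_box hT G c' (hL ▸ hfin) (fun w hw => pvhg_sq_box.1 (hc w (hv' ▸ hw))) (hL ▸ hv))

end jordan

/-! ## 2. dynamic NO TUNNEL -/

section tunnel

variable {σ : V → Bool}

/-- **NO TUNNEL, EXIT SIDE**: the positions `0..np` are drawn in a square; a LATER position `i` has its black end on the black bank and its white end on the white bank of `0..np`: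
then the apex in front of the position `np`, or the black end of the last position, lies in the square -/
theorem pvhg_tunnel_t (hT : T.IsSph) {pos : V → ℂ} (G : PlGeo T pos) {a : D} (ha : pvasBW T σ a) {n np i j k : ℕ}
    (hinj : ∀ i j, i ≤ n → j ≤ n → pvasIt T σ a i = pvasIt T σ a j → i = j) (hnp : np < i) (hi : i ≤ n) (hj : j ≤ np) (hk : k ≤ np)
    (e1 : T.src (pvasIt T σ a i) = T.src (pvasIt T σ a j)) (e2 : T.tgt (pvasIt T σ a i) = T.tgt (pvasIt T σ a k))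
    (hne : T.src a ≠ T.src (pvasIt T σ a i)) {z : ℂ} {r : ℝ}
    (hB : ∀ l, l ≤ np → pos (T.src (pvasIt T σ a l)) ∈ pvwSq z r ∧ pos (T.tgt (pvasIt T σ a l)) ∈ pvwSq z r) :
    pos (T.apex (pvasIt T σ a np)) ∈ pvwSq z r ∨ pos (T.src (pvasIt T σ a n)) ∈ pvwSq z r := by
  have hxb : pvasBW T σ (pvasIt T σ a i) := pvas_it_bw ha i
  have jB : T.Join Set.univ (pvldCol σ {v | pos v ∈ pvwSq z r} true) (T.src a) (T.src (pvasIt T σ a i)) := by
    rw [e1]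
    refine pl_hx_join_mono (Set.subset_univ _) ?_ (pvas_layB_join σ a hj)
    rintro v ⟨l, hl, rfl⟩
    exact ⟨(hB l hl).1, (pvas_it_bw ha l).1⟩
  have jW : T.Join Set.univ (pvldCol σ {v | pos v ∈ pvwSq z r} false) (T.tgt a) (T.tgt (pvasIt T σ a i)) := by
    rw [e2]
    refine pl_hx_join_mono (Set.subset_univ _) ?_ (pvas_layW_join σ a hk)
    rintro v ⟨l, hl, rfl⟩
    exact ⟨(hB l hl).2, (pvas_it_bw ha l).2⟩
  obtain ⟨c, m, hm0, hmn, c0, cm, hw, hb, hcK, -⟩ := pvld_cyc ha hxb hne jB jW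
  obtain ⟨hR, hL, hRo, -⟩ := pl_jordan hT c
  have cm' : T.opp (c.e m) = pvasIt T σ a i := by rw [cm, T.opp_opp]
  have s1 := pvhg_side_const hT c hm0 hmn hw hb ha (k₀ := 0) (k₁ := i - 1) (fun l h1 h2 => ⟨fun e => by
      rw [c0] at e
      have := hinj l 0 (by omega) (Nat.zero_le _) e
      omega, fun e => by
      rw [cm'] at e
      have := hinj l i (by omega) hi e
      omega⟩) np (Nat.zero_le _) (by omega)
  have s2 := pvhg_side_const hT c hm0 hmn hw hb ha (k₀ := i) (k₁ := n) (fun l h1 h2 => ⟨fun e => by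
      rw [c0] at e
      have := hinj l 0 h2 (Nat.zero_le _) e
      omega, fun e => by
      rw [cm'] at e
      have := hinj l i h2 hi e
      omega⟩) n hi le_rfl
  have t1 : pvasIt T σ a np ∈ c.Left := s1.2 (by
    have := hL 0
    rwa [c0] at this)
  have t2 : pvasIt T σ a n ∈ c.Right := by
    rw [hR]
    intro h
    have h3 := hRo m
    rw [cm', hR] at h3
    exact h3 (s2.1 h)
  rcases pvhg_hull_sq hT G c (fun v hv => hcK hv) with h | h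
  · left
    exact h _ ⟨T.nxt (T.nxt (pvasIt T σ a np)), (pl_left_face c _).2 ((pl_left_face c _).2 t1), T.src_nxt2 _⟩
  · right
    exact h _ ⟨_, t2, rfl⟩

/-- **NO TUNNEL, ENTRANCE SIDE**: the positions `q..n` are drawn in a square; an EARLIER position `i` has its black end on the black bank and its white end on the white bank of `q..n`:
then the apex behind the position `q`, or the black end of the first position, lies in the square -/
theorem pvhg_tunnel_s (hT : T.IsSph) {pos : V → ℂ} (G : PlGeo T pos) {a : D} (ha : pvasBW T σ a) {n q i j k : ℕ}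
    (hinj : ∀ i j, i ≤ n → j ≤ n → pvasIt T σ a i = pvasIt T σ a j → i = j) (h0 : 0 < i) (hiq : i < q) (hq : q ≤ n) (hj : q ≤ j) (hjn : j ≤ n) (hk : q ≤ k) (hkn : k ≤ n)
    (e1 : T.src (pvasIt T σ a i) = T.src (pvasIt T σ a j)) (e2 : T.tgt (pvasIt T σ a i) = T.tgt (pvasIt T σ a k))
    (hne : T.src (pvasIt T σ a i) ≠ T.src (pvasIt T σ a n)) {z : ℂ} {r : ℝ}
    (hB : ∀ l, q ≤ l → l ≤ n → pos (T.src (pvasIt T σ a l)) ∈ pvwSq z r ∧ pos (T.tgt (pvasIt T σ a l)) ∈ pvwSq z r) :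
    pos (T.apex (T.opp (pvasIt T σ a q))) ∈ pvwSq z r ∨ pos (T.src a) ∈ pvwSq z r := by
  have hxb : pvasBW T σ (pvasIt T σ a i) := pvas_it_bw ha i
  have hnb : pvasBW T σ (pvasIt T σ a n) := pvas_it_bw ha n
  have jB : T.Join Set.univ (pvldCol σ {v | pos v ∈ pvwSq z r} true) (T.src (pvasIt T σ a i)) (T.src (pvasIt T σ a n)) := by
    rw [e1]
    have h1 := pvas_layB_join (T := T) σ (pvasIt T σ a j) (le_refl (n - j))
    rw [← pvas_it_add, show j + (n - j) = n by omega] at h1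
    refine pl_hx_join_mono (Set.subset_univ _) ?_ h1
    rintro v ⟨l, hl, rfl⟩
    rw [← pvas_it_add]
    exact ⟨(hB (j + l) (by omega) (by omega)).1, (pvas_it_bw ha _).1⟩
  have jW : T.Join Set.univ (pvldCol σ {v | pos v ∈ pvwSq z r} false) (T.tgt (pvasIt T σ a i)) (T.tgt (pvasIt T σ a n)) := by
    rw [e2]
    have h1 := pvas_layW_join (T := T) σ (pvasIt T σ a k) (le_refl (n - k))
    rw [← pvas_it_add, show k + (n - k) = n by omega] at h1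
    refine pl_hx_join_mono (Set.subset_univ _) ?_ h1
    rintro v ⟨l, hl, rfl⟩
    rw [← pvas_it_add]
    exact ⟨(hB (k + l) (by omega) (by omega)).2, (pvas_it_bw ha _).2⟩
  obtain ⟨c, m, hm0, hmn, c0, cm, hw, hb, hcK, -⟩ := pvld_cyc hxb hnb hne jB jW
  obtain ⟨hR, hL, hRo, -⟩ := pl_jordan hT c
  have cm' : T.opp (c.e m) = pvasIt T σ a n := by rw [cm, T.opp_opp]
  have s1 := pvhg_side_const hT c hm0 hmn hw hb ha (k₀ := i) (k₁ := n - 1) (fun l h1 h2 => ⟨fun e => by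
      rw [c0] at e
      have := hinj l i (by omega) (by omega) e
      omega, fun e => by
      rw [cm'] at e
      have := hinj l n (by omega) le_rfl e
      omega⟩) (q - 1) (by omega) (by omega)
  have s2 := pvhg_side_const hT c hm0 hmn hw hb ha (k₀ := 0) (k₁ := i - 1) (fun l h1 h2 => ⟨fun e => by
      rw [c0] at e
      have := hinj l i (by omega) (by omega) e
      omega, fun e => by
      rw [cm'] at e
      have := hinj l n (by omega) le_rfl e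
      omega⟩) (i - 1) (Nat.zero_le _) le_rfl
  have t1 : T.opp (pvasIt T σ a q) ∈ c.Left := by
    have h1 : pvasIt T σ a (q - 1) ∈ c.Left := s1.2 (by
      have := hL 0
      rwa [c0] at this)
    have h2 := (pvas_step_opp_mem (pl_left_face c) σ).2 h1
    rwa [← pvas_it_succ, show q - 1 + 1 = q by omega] at h2
  have t2 : a ∈ c.Right := by
    rw [hR]
    intro h
    have h1 : pvasIt T σ a (i - 1) ∈ c.Left := s2.2 h
    have h2 := (pvas_step_opp_mem (pl_left_face c) σ).2 h1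
    rw [← pvas_it_succ, show i - 1 + 1 = i by omega] at h2
    have h3 := hRo 0
    rw [c0, hR] at h3
    exact h3 h2
  rcases pvhg_hull_sq hT G c (fun v hv => hcK hv) with h | h
  · left
    exact h _ ⟨T.nxt (T.nxt (T.opp (pvasIt T σ a q))), (pl_left_face c _).2 ((pl_left_face c _).2 t1), T.src_nxt2 _⟩
  · right
    exact h _ ⟨_, t2, rfl⟩

end tunnel

/-! ## 3. the junction, model free -/

section datum

variable {𝔇 : PvwDat T} {pos : V → ℂ} {N : PvwNum} {h : ℝ} {π : PvwPat} {σ : V → Bool} {n : ℕ}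

theorem pvhg_gp_core (hOk : 𝔇.Ok pos N h π) : 𝔇.t.gp ∈ 𝔇.t.core := by
  obtain ⟨i, hi⟩ := hOk.st_t.gate.dp_on
  have hv : 𝔇.t.gp ∈ 𝔇.t.S.verts := ⟨i + 1, by rw [← 𝔇.t.S.chain, hi, T.tgt_opp]; rfl⟩
  show 𝔇.t.gp ∈ 𝔇.t.dsc
  rw [hOk.st_t.gate.dsc_eq]
  exact (hOk.st_t.gate.ann _ hv).2

theorem pvhg_gm_core (hOk : 𝔇.Ok pos N h π) : 𝔇.s.gm ∈ 𝔇.s.core := by
  obtain ⟨i, hi⟩ := hOk.st_s.gate.dm_on
  have hv : 𝔇.s.gm ∈ 𝔇.s.S.verts := ⟨i, by rw [hi]; rfl⟩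
  show 𝔇.s.gm ∈ 𝔇.s.dsc
  rw [hOk.st_s.gate.dsc_eq]
  exact (hOk.st_s.gate.ann _ hv).2

/-- **NO NEW POSITION HAS TWO FROZEN ENDS** (dynamic form of `NFD` / `PvhgTight`: no mesh, no calm clause).      `hmA hmB` = no edge from the black bank of one stub to the white bank of the other -/
theorem pvhg_nf_dyn (hT : T.IsSph) (G : PlGeo T pos) (hOk : 𝔇.Ok pos N h π) (hσ : PvwAgree 𝔇.fzY σ 𝔇.col)
    (hgp : pos 𝔇.t.gp ∉ pvwSq π.zs (pvwRad N h π.ts π.ts.k)) (hgm : pos 𝔇.s.gm ∉ pvwSq π.zt (pvwRad N h π.tt π.tt.k))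
    (hmA : ∀ j k, j ≤ 𝔇.t.np → k ≤ 𝔇.s.nm → ¬ T.Adj (T.src (𝔇.t.ep j)) (T.tgt (𝔇.s.em k))) (hmB : ∀ j k, j ≤ 𝔇.s.nm → k ≤ 𝔇.t.np → ¬ T.Adj (T.src (𝔇.s.em j)) (T.tgt (𝔇.t.ep k)))
    (h1 : 𝔇.t.np + 𝔇.s.nm ≤ n) (hl : pvasIt T σ 𝔇.t.dp n = 𝔇.s.dm) (hf : ∀ i, i < n → pvasIt T σ 𝔇.t.dp i ≠ 𝔇.s.dm)
    (hp : ∀ i, 𝔇.t.np < i → i + 𝔇.s.nm < n → pos (T.src (pvasIt T σ 𝔇.t.dp i)) ∈ π.Yin ∧ pos (T.tgt (pvasIt T σ 𝔇.t.dp i)) ∈ π.Yin) :
    ∀ i, 𝔇.t.np < i → i + 𝔇.s.nm < n → T.src (pvasIt T σ 𝔇.t.dp i) ∉ 𝔇.fzY ∨ T.tgt (pvasIt T σ 𝔇.t.dp i) ∉ 𝔇.fzY := by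
  have ht := pvhg_stub_t hOk.st_t.stub hσ
  have hs := pvhg_stub_s hOk.st_s.stub hσ
  have hbt := pvhg_bw_t hOk.st_t.stub hOk.st_t.gate.bw_p hσ
  have hbs := pvhg_bw_s hOk.st_s.stub hOk.st_s.gate.bw_m hσ
  have hinj := pvhg_inj_first hbt hl hf
  have hem : ∀ l, l ≤ 𝔇.s.nm → 𝔇.s.em l = pvasIt T σ 𝔇.t.dp (n - l) := fun l hl' => by
    rw [hs.em_it l hl', ← hl]
    exact pvyn_back hbt n l (by omega)
  intro i hi1 hi2
  by_contra hcon
  push Not at hcon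
  obtain ⟨c1, c2⟩ := hcon
  obtain ⟨p1, p2⟩ := hp i hi1 hi2
  have hxb := pvas_it_bw hbt i
  have hsrc : T.src (pvasIt T σ 𝔇.t.dp i) ∈ 𝔇.t.bkP ∨ T.src (pvasIt T σ 𝔇.t.dp i) ∈ 𝔇.s.bkM := by
    rcases c1 with ((c | c) | c) | ((c | c) | c)
    · exact absurd p1 (hOk.core_off _ (Or.inr c))
    · exact Or.inl c
    · have := pvwk_whP_col ht hbt c
      rw [hxb.1] at this
      exact Bool.noConfusion this
    · exact absurd p1 (hOk.core_off _ (Or.inl c))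
    · exact Or.inr c
    · have := pvwk_whM_col hs hbs c
      rw [hxb.1] at this
      exact Bool.noConfusion this
  have htgt : T.tgt (pvasIt T σ 𝔇.t.dp i) ∈ 𝔇.t.whP ∨ T.tgt (pvasIt T σ 𝔇.t.dp i) ∈ 𝔇.s.whM := by
    rcases c2 with ((c | c) | c) | ((c | c) | c)
    · exact absurd p2 (hOk.core_off _ (Or.inr c))
    · have := pvwk_bkP_col ht hbt c
      rw [hxb.2] at this
      exact Bool.noConfusion this
    · exact Or.inl c
    · exact absurd p2 (hOk.core_off _ (Or.inl c))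
    · have := pvwk_bkM_col hs hbs c
      rw [hxb.2] at this
      exact Bool.noConfusion this
    · exact Or.inr c
  rcases hsrc with ⟨j, hj, ej⟩ | ⟨j, hj, ej⟩ <;> rcases htgt with ⟨k, hk, ek⟩ | ⟨k, hk, ek⟩
  · -- both ends on the exit stub of `t`
    have hne : T.src 𝔇.t.dp ≠ T.src (pvasIt T σ 𝔇.t.dp i) := fun e => hOk.core_off _ (Or.inr (pvhg_gp_core hOk)) (by
      show pos (T.src 𝔇.t.dp) ∈ π.Yin
      rw [e]; exact p1)
    rw [ht.ep_it j hj] at ej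
    rw [ht.ep_it k hk] at ek
    rcases pvhg_tunnel_t hT G hbt hinj hi1 (by omega : i ≤ n) hj hk ej.symm ek.symm hne
      (fun l hl' => by rw [← ht.ep_it l hl']; exact ht.ep_in l hl') with r | r
    · rw [← ht.ep_it _ le_rfl] at r
      exact ht.ep_out r
    · rw [hl] at r
      exact hgm r
  · -- black end on the stub of `t`, white end on the stub of `s`
    exact hmA j k hj hk ⟨_, ej.symm, ek.symm⟩
  · -- black end on the stub of `s`, white end on the stub of `t`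
    exact hmB j k hj hk ⟨_, ej.symm, ek.symm⟩
  · -- both ends on the entrance stub of `s`
    have hne : T.src (pvasIt T σ 𝔇.t.dp i) ≠ T.src (pvasIt T σ 𝔇.t.dp n) := fun e => hOk.core_off _ (Or.inl (pvhg_gm_core hOk)) (by
      show pos (T.src 𝔇.s.dm) ∈ π.Yin
      rw [← hl, ← e]; exact p1)
    rw [hem j hj] at ej
    rw [hem k hk] at ek
    rcases pvhg_tunnel_s hT G hbt hinj (by omega : 0 < i) (by omega : i < n - 𝔇.s.nm) (Nat.sub_le _ _) (by omega : n - 𝔇.s.nm ≤ n - j) (Nat.sub_le _ _)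
      (by omega : n - 𝔇.s.nm ≤ n - k) (Nat.sub_le _ _) ej.symm ek.symm hne
      (fun l hl1 hl2 => by
        have e := hem (n - l) (by omega)
        rw [show n - (n - l) = l by omega] at e
        rw [← e]; exact hs.em_in _ (by omega)) with r | r
    · rw [← hem _ le_rfl] at r
      exact hs.em_out r
    · exact hgp r

/-- the ends of the new positions are frozen or joined to the tip apex of `t` through fresh sites over `Yin` -/
theorem pvhg_new_dyn (hOk : 𝔇.Ok pos N h π) (hσ : PvwAgree 𝔇.fzY σ 𝔇.col)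
    (hnf : ∀ i, 𝔇.t.np < i → i + 𝔇.s.nm < n → T.src (pvasIt T σ 𝔇.t.dp i) ∉ 𝔇.fzY ∨ T.tgt (pvasIt T σ 𝔇.t.dp i) ∉ 𝔇.fzY)
    (hp : ∀ i, 𝔇.t.np < i → i + 𝔇.s.nm < n → pos (T.src (pvasIt T σ 𝔇.t.dp i)) ∈ π.Yin ∧ pos (T.tgt (pvasIt T σ 𝔇.t.dp i)) ∈ π.Yin) :
    ∀ i, 𝔇.t.np ≤ i → i + 𝔇.s.nm < n → T.src (pvasIt T σ 𝔇.t.dp i) ∈ pvwComp T (𝔇.Yraw pos π) 𝔇.t.ap ∪ 𝔇.fzY ∧ T.tgt (pvasIt T σ 𝔇.t.dp i) ∈ pvwComp T (𝔇.Yraw pos π) 𝔇.t.ap ∪ 𝔇.fzY := by
  have ht := pvhg_stub_t hOk.st_t.stub hσ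
  intro i hi
  induction i, hi using Nat.le_induction with
  | base =>
    intro _
    rw [← ht.ep_it _ le_rfl]
    exact ⟨Or.inr (Or.inl (pvwk_banksP_sub_fzOut 𝔇.t (Or.inl ⟨_, le_rfl, rfl⟩))), Or.inr (Or.inl (pvwk_banksP_sub_fzOut 𝔇.t (Or.inr ⟨_, le_rfl, rfl⟩)))⟩
  | succ i hi ih =>
    intro hi2
    obtain ⟨i1, i2⟩ := ih (by omega)
    obtain ⟨p1, p2⟩ := hp (i + 1) (by omega) hi2
    rw [pvas_it_succ] at p1 p2 ⊢
    have hyin : pos (T.apex (pvasIt T σ 𝔇.t.dp i)) ∈ π.Yin := by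
      rcases pvas_step_ends σ (pvasIt T σ 𝔇.t.dp i) with ⟨_, e1, e2⟩ | ⟨_, e1, e2⟩
      · rwa [e1] at p1
      · rwa [e2] at p2
    have i3 : T.apex (pvasIt T σ 𝔇.t.dp i) ∈ pvwComp T (𝔇.Yraw pos π) 𝔇.t.ap ∪ 𝔇.fzY := by
      by_cases hfz : T.apex (pvasIt T σ 𝔇.t.dp i) ∈ 𝔇.fzY
      · exact Or.inr hfz
      have hraw : T.apex (pvasIt T σ 𝔇.t.dp i) ∈ 𝔇.Yraw pos π := ⟨hfz, hyin⟩
      left
      rcases Nat.eq_or_lt_of_le hi with rfl | hlt
      · rw [← ht.ep_it _ le_rfl] at hraw ⊢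
        exact pvhg_comp_self 𝔇.t.dp hraw
      · rcases hnf i hlt (by omega) with hn | hn
        · exact pvhg_comp_adj (i1.resolve_right hn) (T.opp (T.nxt (T.nxt (pvasIt T σ 𝔇.t.dp i)))) (by rw [T.src_opp', T.tgt_nxt2]) (by rw [T.tgt_opp, T.src_nxt2]) hraw
        · exact pvhg_comp_adj (i2.resolve_right hn) (T.nxt (pvasIt T σ 𝔇.t.dp i)) (T.src_nxt _) (T.tgt_nxt _) hraw
    rcases pvas_step_ends σ (pvasIt T σ 𝔇.t.dp i) with ⟨_, e1, e2⟩ | ⟨_, e1, e2⟩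
    · rw [e1, e2]; exact ⟨i3, i2⟩
    · rw [e1, e2]; exact ⟨i1, i3⟩

/-- **THE JUNCTION, MODEL FREE, NO MESH**: the position form (the four premises of `J` of `pvjm_yarc`, `pvjm_chain` of 268) gives `SYn` of record -/
theorem pvhg_SYn_dyn (hT : T.IsSph) (G : PlGeo T pos) (hOk : 𝔇.Ok pos N h π) (hσ : PvwAgree 𝔇.fzY σ 𝔇.col)
    (hgp : pos 𝔇.t.gp ∉ pvwSq π.zs (pvwRad N h π.ts π.ts.k)) (hgm : pos 𝔇.s.gm ∉ pvwSq π.zt (pvwRad N h π.tt π.tt.k))
    (hmA : ∀ j k, j ≤ 𝔇.t.np → k ≤ 𝔇.s.nm → ¬ T.Adj (T.src (𝔇.t.ep j)) (T.tgt (𝔇.s.em k))) (hmB : ∀ j k, j ≤ 𝔇.s.nm → k ≤ 𝔇.t.np → ¬ T.Adj (T.src (𝔇.s.em j)) (T.tgt (𝔇.t.ep k)))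
    (h1 : 𝔇.t.np + 𝔇.s.nm ≤ n) (hl : pvasIt T σ 𝔇.t.dp n = 𝔇.s.dm) (hf : ∀ i, i < n → pvasIt T σ 𝔇.t.dp i ≠ 𝔇.s.dm)
    (hp : ∀ i, 𝔇.t.np < i → i + 𝔇.s.nm < n → pos (T.src (pvasIt T σ 𝔇.t.dp i)) ∈ π.Yin ∧ pos (T.tgt (pvasIt T σ 𝔇.t.dp i)) ∈ π.Yin) :
    𝔇.SYn pos π σ n := by
  refine ⟨h1, hl, hf, fun i hi1 hi2 => ?_⟩
  obtain ⟨a1, a2⟩ := pvhg_new_dyn hOk hσ (pvhg_nf_dyn hT G hOk hσ hgp hgm hmA hmB h1 hl hf hp) hp i hi1.le hi2
  exact ⟨a1.imp_left Or.inl, a2.imp_left Or.inl, (hp i hi1 hi2).1, (hp i hi1 hi2).2⟩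

end datum

/-! ## 4. Delaunay forms -/

section del

open Metric

variable {Y : Set ℂ}

/-- a point of the `3 μ`-core of a window which has the mesh `μ` has a dense neighbourhood -/
theorem pvhg_core_dense {W : Set ℂ} {μ : ℝ} {a : ℂ} (ha : a ∈ pvtrCore (3 * μ) W) (hm : PvtrMesh μ W Y) : VorDense Y (closedBall a (2 * μ)) μ := by
  intro z hz
  refine hm z fun q hq => ha ?_
  rw [mem_closedBall, dist_eq_norm] at hz hq ⊢
  calc ‖q - a‖ = ‖(q - z) + (z - a)‖ := by congr 1; ring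
    _ ≤ ‖q - z‖ + ‖z - a‖ := norm_add_le _ _
    _ ≤ 3 * μ := by linarith

/-- two squares whose centres are apart -/
theorem pvhg_sq_apart {zt zs u v : ℂ} {rt rs lam : ℝ} (apart : 3 / 2 * rt + 3 / 2 * rs + lam < ‖zt - zs‖) (hu : u ∈ pvwSq zt rt) (hv : v ∈ pvwSq zs rs) : lam < ‖u - v‖ := by
  have h1 := pvhg_sq_le hu
  have h2 := pvhg_sq_le hv
  have h3 : ‖zt - zs‖ ≤ ‖u - zt‖ + ‖u - v‖ + ‖v - zs‖ := by
    calc ‖zt - zs‖ = ‖(-(u - zt) + (u - v)) + (v - zs)‖ := by congr 1; ring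
      _ ≤ ‖-(u - zt) + (u - v)‖ + ‖v - zs‖ := norm_add_le _ _
      _ ≤ ‖-(u - zt)‖ + ‖u - v‖ + ‖v - zs‖ := by gcongr; exact norm_add_le _ _
      _ = ‖u - zt‖ + ‖u - v‖ + ‖v - zs‖ := by rw [norm_neg]
  linarith

variable {hY : DelGood Y} {N : PvwNum} {h : ℝ} {π : PvwPat} {σ : Y → Bool} {n : ℕ} {μ : ℝ}

/-- **THE JUNCTION IN THE DELAUNAY MAP**: the two pins apart, a dense neighbourhood (radius `2 μ`, mesh `μ`) at the BLACK sites of the two stubs -/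
theorem pvhg_SYn_dyn_del {𝔇 : PvwDat (delMap hY)} (hOk : 𝔇.Ok (dlsPos Y) N h π) (hσ : PvwAgree 𝔇.fzY σ 𝔇.col) (hμ : 0 < μ)
    (apart : 3 / 2 * pvwRad N h π.tt π.tt.k + 3 / 2 * pvwRad N h π.ts π.ts.k + 2 * μ < ‖π.zt - π.zs‖)
    (dt : ∀ j, j ≤ 𝔇.t.np → VorDense Y (closedBall (dlsPos Y ((delMap hY).src (𝔇.t.ep j))) (2 * μ)) μ)
    (ds : ∀ j, j ≤ 𝔇.s.nm → VorDense Y (closedBall (dlsPos Y ((delMap hY).src (𝔇.s.em j))) (2 * μ)) μ)
    (h1 : 𝔇.t.np + 𝔇.s.nm ≤ n) (hl : pvasIt (delMap hY) σ 𝔇.t.dp n = 𝔇.s.dm) (hf : ∀ i, i < n → pvasIt (delMap hY) σ 𝔇.t.dp i ≠ 𝔇.s.dm)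
    (hp : ∀ i, 𝔇.t.np < i → i + 𝔇.s.nm < n → dlsPos Y ((delMap hY).src (pvasIt (delMap hY) σ 𝔇.t.dp i)) ∈ π.Yin ∧ dlsPos Y ((delMap hY).tgt (pvasIt (delMap hY) σ 𝔇.t.dp i)) ∈ π.Yin) :
    𝔇.SYn (dlsPos Y) π σ n := by
  have g0 := (hOk.st_t.stub.ep_in 0 (Nat.zero_le _)).1
  rw [pvwk_ep_zero hOk.st_t.stub] at g0
  have g1 := (hOk.st_s.stub.em_in 0 (Nat.zero_le _)).1
  rw [pvwk_em_zero hOk.st_s.stub] at g1
  refine pvhg_SYn_dyn (dls_isSph hY) (plg_del hY) hOk hσ (fun hc => ?_) (fun hc => ?_) (fun j k hj hk hadj => ?_) (fun j k hj hk hadj => ?_) h1 hl hf hp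
  · have := pvhg_sq_apart apart g0 hc
    rw [show 𝔇.t.gp = (delMap hY).src 𝔇.t.dp from rfl, sub_self, norm_zero] at this
    linarith
  · have := pvhg_sq_apart apart hc g1
    rw [show 𝔇.s.gm = (delMap hY).src 𝔇.s.dm from rfl, sub_self, norm_zero] at this
    linarith
  · have a1 := pvhg_adj_short hμ (dt j hj) ((dls_adj_iff hY _ _).1 hadj)
    have a2 := pvhg_sq_apart apart (hOk.st_t.stub.ep_in j hj).1 (hOk.st_s.stub.em_in k hk).2
    exact absurd a1 (not_le.2 a2)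
  · have a1 := pvhg_adj_short hμ (ds j hj) ((dls_adj_iff hY _ _).1 hadj)
    have a2 := pvhg_sq_apart apart (hOk.st_t.stub.ep_in k hk).2 (hOk.st_s.stub.em_in j hj).1
    rw [norm_sub_rev] at a2
    exact absurd a1 (not_le.2 a2)

/-- the same for any presentation of the Delaunay plane (`P := delbPl Y`, `hP := delb_pl_eq hY`: `pvxT ω`, `pvieT η`, `pvkiT η`) -/
theorem pvhg_SYn_dyn_pl {P : PlTri ↥Y} (hP : P = delPl hY) {𝔇 : PvwDat P.toMap} (hOk : 𝔇.Ok Subtype.val N h π) (hσ : PvwAgree 𝔇.fzY σ 𝔇.col) (hμ : 0 < μ)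
    (apart : 3 / 2 * pvwRad N h π.tt π.tt.k + 3 / 2 * pvwRad N h π.ts π.ts.k + 2 * μ < ‖π.zt - π.zs‖)
    (dt : ∀ j, j ≤ 𝔇.t.np → VorDense Y (closedBall (P.toMap.src (𝔇.t.ep j) : ℂ) (2 * μ)) μ)
    (ds : ∀ j, j ≤ 𝔇.s.nm → VorDense Y (closedBall (P.toMap.src (𝔇.s.em j) : ℂ) (2 * μ)) μ)
    (h1 : 𝔇.t.np + 𝔇.s.nm ≤ n) (hl : pvasIt P.toMap σ 𝔇.t.dp n = 𝔇.s.dm) (hf : ∀ i, i < n → pvasIt P.toMap σ 𝔇.t.dp i ≠ 𝔇.s.dm)
    (hp : ∀ i, 𝔇.t.np < i → i + 𝔇.s.nm < n → (P.toMap.src (pvasIt P.toMap σ 𝔇.t.dp i) : ℂ) ∈ π.Yin ∧ (P.toMap.tgt (pvasIt P.toMap σ 𝔇.t.dp i) : ℂ) ∈ π.Yin) :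
    𝔇.SYn Subtype.val π σ n := by
  subst hP
  exact pvhg_SYn_dyn_del hOk hσ hμ apart dt ds h1 hl hf hp

/-- the same from the meshes of two windows: the black sites of the stubs lie in the `3 μ`-cores (`pvly_stub_out`, `pvly_stub_in` of `Tr/LinkDet`) -/
theorem pvhg_SYn_dyn_win {P : PlTri ↥Y} (hP : P = delPl hY) {𝔇 : PvwDat P.toMap} (hOk : 𝔇.Ok Subtype.val N h π) (hσ : PvwAgree 𝔇.fzY σ 𝔇.col) (hμ : 0 < μ)
    (apart : 3 / 2 * pvwRad N h π.tt π.tt.k + 3 / 2 * pvwRad N h π.ts π.ts.k + 2 * μ < ‖π.zt - π.zs‖) {Wo Wi : Set ℂ} (mo : PvtrMesh μ Wo Y) (mi : PvtrMesh μ Wi Y)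
    (ct : ∀ j, j ≤ 𝔇.t.np → (P.toMap.src (𝔇.t.ep j) : ℂ) ∈ pvtrCore (3 * μ) Wo) (cs : ∀ j, j ≤ 𝔇.s.nm → (P.toMap.src (𝔇.s.em j) : ℂ) ∈ pvtrCore (3 * μ) Wi)
    (h1 : 𝔇.t.np + 𝔇.s.nm ≤ n) (hl : pvasIt P.toMap σ 𝔇.t.dp n = 𝔇.s.dm) (hf : ∀ i, i < n → pvasIt P.toMap σ 𝔇.t.dp i ≠ 𝔇.s.dm)
    (hp : ∀ i, 𝔇.t.np < i → i + 𝔇.s.nm < n → (P.toMap.src (pvasIt P.toMap σ 𝔇.t.dp i) : ℂ) ∈ π.Yin ∧ (P.toMap.tgt (pvasIt P.toMap σ 𝔇.t.dp i) : ℂ) ∈ π.Yin) :
    𝔇.SYn Subtype.val π σ n :=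
  pvhg_SYn_dyn_pl hP hOk hσ hμ apart (fun j hj => pvhg_core_dense (ct j hj) mo) (fun j hj => pvhg_core_dense (cs j hj) mi) h1 hl hf hp

end del

end Claimed.Agent.R289
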