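-- KEEP
import Claimed.Agent.R289.Tr.ChainN
import Claimed.Agent.R289.Tr.HookGN
import Claimed.Agent.R289.Tr.LinkLocC
import Claimed.Agent.R289.Exit.Par

/-!
# Row 289 (S0537), THE WALL, ROAD E, file Tr/ChainJ : THE JUNCTION `jn` OF `PvjmAe` FROM THE MESHES OF THE TWO WINDOWS      (helper268; continues `Tr/ChainN`; prefix `pvjm_`)

`pvhg_SYn_dyn_win` of 90 (`Tr/HookGN`: no tunnel, model free) asks: the meshes of two windows, the black sites of the two stubs in the `3 μ`-cores, the two pins apart.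
On the chain event the soft ends give the plain events `pvilMo`, `pvilMi` (a.s.: `pvjm_soft`), whose third conjunct IS the mesh `pvilMu` of the windows `pvilWno .. Zt`, `pvilWni .. Zs`;
the black sites of the stubs are frozen sites in the own-level box, `hull_t`, `hull_s` of a present datum say that the hulls of the index are the cells of the frozen sites: they lie in the core of `pvilWz`.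

* sec. 14  `pvjm_core_t`, `pvjm_core_s`, `pvjm_apart`, **`pvjm_junction_win`** (deterministic)
* sec. 15  **`pvjm_jn_win`** = the field `jn` VERBATIM on `S ∩ pvjmEv`, **`pvjm_ae_win`** : `dict wo wi no ni idx` + three numbers ⟹ `PvjmAe`
* sec. 16  `pvjm_num_at` : the three numbers at `pvxParOf`
-/

set_option autoImplicit false

namespace Claimed.Agent.R289

open Set MeasureTheory Filter Topology Claims.C0465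
open scoped ENNReal

/-! ## 14. the junction at a configuration, window form -/

section junctionW

variable {τ : Type} {c : ℝ} {𝔓 : PvxPar τ c} {x : ℂ} {R : ℝ} {m : ℕ} {π : PvxIx τ}

/-- a frozen position in the own-level box lies in the core of `pvilWz` -/
theorem pvjm_core_wz {z : ℂ} {t : τ} {A : Set ℂ} {Z : Set (ℤ × ℤ)} (hZ : Z = pvtCells (pvlmDel c m) A) {μ : ℝ} (h3 : 3 * μ ≤ pvlmDel c m) {a : ℂ} (ha : a ∈ A)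
    (hb : a ∈ pvwSq z (pvwRad 𝔓.num (pvlmH m) (𝔓.ty t) (𝔓.ty t).k)) : a ∈ pvtrCore (3 * μ) (pvilWz 𝔓 m z t Z) := by
  unfold pvilWz
  rw [pvll_core_inter]
  refine ⟨pvll_fat_core (pvlm_Del_pos c m) h3 (A := A) ?_ ha, pvll_sq_core h3 hb⟩
  rw [hZ]
  exact subset_rfl

/-- the two pins are apart: clause (b1) of the patterns -/
theorem pvjm_apart (hW : 𝔓.Wf) (hπ : π ∈ pvxPatSet 𝔓 x R m) {μ : ℝ} (hρ1 : 0 ≤ 𝔓.num.rho1 * pvlmH m)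
    (hnum : 4 * μ ≤ pvwRad 𝔓.num (pvlmH m) (𝔓.ty π.p.ts) 𝔓.num.K + pvwRad 𝔓.num (pvlmH m) (𝔓.ty π.p.tt) 𝔓.num.K)
    (kt : (𝔓.reg m π).tt.k ≤ 𝔓.num.K) (ks : (𝔓.reg m π).ts.k ≤ 𝔓.num.K) :
    3 / 2 * pvwRad 𝔓.num (pvlmH m) (𝔓.reg m π).tt (𝔓.reg m π).tt.k + 3 / 2 * pvwRad 𝔓.num (pvlmH m) (𝔓.reg m π).ts (𝔓.reg m π).ts.k + 2 * μ < ‖(𝔓.reg m π).zt - (𝔓.reg m π).zs‖ := by
  obtain ⟨-, hb1, -⟩ := hπ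
  rw [hW.reg_tt] at kt ⊢
  rw [hW.reg_ts] at ks ⊢
  rw [hW.reg_zt, hW.reg_zs]
  have rt := pvhg_rad_mono hρ1 (𝔓.ty π.p.tt) kt
  have rs := pvhg_rad_mono hρ1 (𝔓.ty π.p.ts) ks
  have e := norm_sub_rev π.p.zs π.p.zt
  linarith

/-- **THE JUNCTION FROM THE MESHES OF TWO WINDOWS** which contain `pvilWz` at the hulls of the index (`pvhg_SYn_dyn_win` of 90) -/
theorem pvjm_junction_win (hW : 𝔓.Wf) (hπ : π ∈ pvxPatSet 𝔓 x R m) {μ : ℝ} (hμ : 0 < μ) (h3 : 3 * μ ≤ pvlmDel c m) (hρ1 : 0 ≤ 𝔓.num.rho1 * pvlmH m)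
    (hnum : 4 * μ ≤ pvwRad 𝔓.num (pvlmH m) (𝔓.ty π.p.ts) 𝔓.num.K + pvwRad 𝔓.num (pvlmH m) (𝔓.ty π.p.tt) 𝔓.num.K)
    {Y : Set ℂ} (hgood : DelGood Y) {𝔇 : PvwDat (delbPl Y).toMap} (hOk : 𝔇.Ok Subtype.val 𝔓.num (pvlmH m) (𝔓.reg m π))
    (hZs : (π.Zs : Set (ℤ × ℤ)) = pvtCells (pvlmDel c m) (Subtype.val '' 𝔇.s.fzIn ∪ Metric.closedBall (pvxYs 𝔓 m π.p) (𝔓.num.rho * pvlmH m)))
    (hZt : (π.Zt : Set (ℤ × ℤ)) = pvtCells (pvlmDel c m) (Subtype.val '' 𝔇.t.fzOut ∪ Metric.closedBall (pvxYt 𝔓 m π.p) (𝔓.num.rho * pvlmH m)))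
    {Wo Wi : Set ℂ} (hWo : pvilWz 𝔓 m π.p.zt π.p.tt ↑π.Zt ⊆ Wo) (hWi : pvilWz 𝔓 m π.p.zs π.p.ts ↑π.Zs ⊆ Wi) (mo : PvtrMesh μ Wo Y) (mi : PvtrMesh μ Wi Y)
    {σ : ↥Y → Bool} (hσ : PvwAgree 𝔇.fzY σ 𝔇.col) {n : ℕ}
    (h1 : 𝔇.t.np + 𝔇.s.nm ≤ n) (hl : pvasIt (delbPl Y).toMap σ 𝔇.t.dp n = 𝔇.s.dm) (hf : ∀ i, i < n → pvasIt (delbPl Y).toMap σ 𝔇.t.dp i ≠ 𝔇.s.dm)
    (hp : ∀ i, 𝔇.t.np < i → i + 𝔇.s.nm < n → (((delbPl Y).toMap.src (pvasIt (delbPl Y).toMap σ 𝔇.t.dp i) : ↥Y) : ℂ) ∈ (𝔓.reg m π).Yin ∧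
      (((delbPl Y).toMap.tgt (pvasIt (delbPl Y).toMap σ 𝔇.t.dp i) : ↥Y) : ℂ) ∈ (𝔓.reg m π).Yin) :
    𝔇.SYn Subtype.val (𝔓.reg m π) σ n := by
  refine pvhg_SYn_dyn_win (hY := hgood) (delb_pl_eq hgood) hOk hσ hμ (pvjm_apart hW hπ hρ1 hnum hOk.st_t.lev hOk.st_s.lev) mo mi (fun j hj => ?_) (fun j hj => ?_) h1 hl hf hp
  · have hb := (hOk.st_t.stub.ep_in j hj).1
    rw [hW.reg_zt, hW.reg_tt] at hb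
    exact pvll_core_mono _ hWo (pvjm_core_wz hZt h3 (Or.inl ⟨_, pvwk_banksP_sub_fzOut 𝔇.t (Or.inl ⟨j, hj, rfl⟩), rfl⟩) hb)
  · have hb := (hOk.st_s.stub.em_in j hj).1
    rw [hW.reg_zs, hW.reg_ts] at hb
    exact pvll_core_mono _ hWi (pvjm_core_wz hZs h3 (Or.inl ⟨_, pvwk_banksM_sub_fzIn 𝔇.s (Or.inl ⟨j, hj, rfl⟩), rfl⟩) hb)

end junctionW

/-! ## 15. the field `jn` -/

section modelW

variable {τ : Type} {c : ℝ} {𝔓 : PvxPar τ c} {𝔈 : PvieEng τ}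

theorem pvjm_mu3 (m : ℕ) : 3 * pvilMu 𝔓 m ≤ pvlmDel c m := by
  have h := pvlm_Del_pos c m
  have : pvilMu 𝔓 m ≤ pvlmDel c m / 1000 := by
    unfold pvilMu
    exact div_le_div_of_nonneg_right (min_le_left _ _) (by norm_num)
  linarith

/-- **THE FIELD `jn` OF `PvjmAe`, VERBATIM, ON THE CHAIN EVENT AT THE HULLS OF THE INDEX**: [MEAS] of the two soft ends + three numbers.      No mesh of layer 1, no fat tile, no `PvhgNum`, no room, no `reg = pvfeRegAt` -/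
theorem pvjm_jn_win {x : ℂ} {R : ℝ} {m : ℕ} {π : PvxIx τ} (hW : 𝔓.Wf) (hπ : π ∈ pvxPatSet 𝔓 x R m) (hμ : 0 < pvilMu 𝔓 m) (hρ1 : 0 ≤ 𝔓.num.rho1 * pvlmH m)
    (hnum : 4 * pvilMu 𝔓 m ≤ pvwRad 𝔓.num (pvlmH m) (𝔓.ty π.p.ts) 𝔓.num.K + pvwRad 𝔓.num (pvlmH m) (𝔓.ty π.p.tt) 𝔓.num.K)
    {𝔎 : PvxnKit} {S : Set (Conf PvPt)} {F F' : Set ℂ} {ε : ℝ} (hε : ε ≠ 0)
    (wo : MeasurableSet (pvilWno 𝔓 𝔈 m ε π.p.zt π.p.tt ↑π.Zt)) (wi : MeasurableSet (pvilWni 𝔓 𝔈 m ε π.p.zs π.p.ts ↑π.Zs))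
    (no : NullMeasurableSet (pvilMo 𝔓 𝔈 m ε π.p.zt π.p.tt ↑π.Zt ∩ {η | (pvilLo 𝔓 𝔈 m π.p.zt π.p.tt).X 𝔓.num (𝔓.col π.p.tt) pvilQ η =
      pvilLoc ε (pvilWno 𝔓 𝔈 m ε π.p.zt π.p.tt ↑π.Zt) (pvilMo 𝔓 𝔈 m ε π.p.zt π.p.tt ↑π.Zt) ((pvilLo 𝔓 𝔈 m π.p.zt π.p.tt).X 𝔓.num (𝔓.col π.p.tt) pvilQ) η}) (pvP ε))
    (ni : NullMeasurableSet (pvilMi 𝔓 𝔈 m ε π.p.zs π.p.ts ↑π.Zs ∩ {η | (pvilLi 𝔓 𝔈 m π.p.zs π.p.ts).X 𝔓.num (𝔓.col π.p.ts) pvilQ η =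
      pvilLoc ε (pvilWni 𝔓 𝔈 m ε π.p.zs π.p.ts ↑π.Zs) (pvilMi 𝔓 𝔈 m ε π.p.zs π.p.ts ↑π.Zs) ((pvilLi 𝔓 𝔈 m π.p.zs π.p.ts).X 𝔓.num (𝔓.col π.p.ts) pvilQ) η}) (pvP ε)) :
    ∀ᵐ ζ ∂pvP ε, ζ ∈ S ∩ pvjmEv 𝔓 𝔈 m π ↑π.Zt ↑π.Zs F F' ε → ∀ i 𝔇, PvdfPr 𝔓 m π 0 𝔎 ζ i 𝔇 → ∀ n, 𝔇.t.np + 𝔇.s.nm ≤ n → pvasIt (delbPl (cfSites ζ)).toMap (pvdfCol ζ) 𝔇.t.dp n = 𝔇.s.dm →
    (∀ i, i < n → pvasIt (delbPl (cfSites ζ)).toMap (pvdfCol ζ) 𝔇.t.dp i ≠ 𝔇.s.dm) →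
    (∀ i, 𝔇.t.np < i → i + 𝔇.s.nm < n → (((delbPl (cfSites ζ)).toMap.src (pvasIt (delbPl (cfSites ζ)).toMap (pvdfCol ζ) 𝔇.t.dp i) : ↥(cfSites ζ)) : ℂ) ∈ (𝔓.reg m π).Yin ∧
      (((delbPl (cfSites ζ)).toMap.tgt (pvasIt (delbPl (cfSites ζ)).toMap (pvdfCol ζ) 𝔇.t.dp i) : ↥(cfSites ζ)) : ℂ) ∈ (𝔓.reg m π).Yin) → 𝔇.SYn Subtype.val (𝔓.reg m π) (pvdfCol ζ) n := by
  have s1 := pvjm_ae_fl (𝔓.col π.p.tt) ε (pvjm_soft ε ↑π.Zt wo no)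
  have s2 := pvjm_ae_fl (𝔓.col π.p.tt) ε (pvjm_soft ε ↑π.Zs wi ni)
  filter_upwards [pvat_nice_ae hε, s1, s2] with ζ hN ho hi hS i 𝔇 hP n a1 a2 a3 a4
  obtain ⟨-, -, hei, heo⟩ := hS.2
  have mo : PvtrMesh (pvilMu 𝔓 m) (pvilWno 𝔓 𝔈 m ε π.p.zt π.p.tt ↑π.Zt) (cfSites (pvkyFl (𝔓.col π.p.tt) ζ)) := (ho heo).1.2
  have mi : PvtrMesh (pvilMu 𝔓 m) (pvilWni 𝔓 𝔈 m ε π.p.zs π.p.ts ↑π.Zs) (cfSites (pvkyFl (𝔓.col π.p.tt) ζ)) := (hi hei).1.2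
  rw [pvuk_sites_fl] at mo mi
  exact pvjm_junction_win hW hπ hμ (pvjm_mu3 m) hρ1 hnum hN.good hP.1.ok hP.1.hull_s hP.1.hull_t
    (fun _ h => Or.inl (Or.inl (Or.inl h))) (fun _ h => Or.inl (Or.inl (Or.inl h))) mo mi hP.1.cyl.1 a1 a2 a3 a4

/-- **`PvjmAe` ON THE CHAIN EVENT AT THE HULLS OF THE INDEX WITHOUT THE JUNCTION** -/
theorem pvjm_ae_win {x : ℂ} {R : ℝ} {m : ℕ} {π : PvxIx τ} (hW : 𝔓.Wf) (hπ : π ∈ pvxPatSet 𝔓 x R m) (hμ : 0 < pvilMu 𝔓 m) (hρ1 : 0 ≤ 𝔓.num.rho1 * pvlmH m)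
    (hnum : 4 * pvilMu 𝔓 m ≤ pvwRad 𝔓.num (pvlmH m) (𝔓.ty π.p.ts) 𝔓.num.K + pvwRad 𝔓.num (pvlmH m) (𝔓.ty π.p.tt) 𝔓.num.K)
    {𝔤 : PvkdGeo} {𝔎 : PvxnKit} {S : Set (Conf PvPt)} {F F' : Set ℂ} {P : Prop} {ε : ℝ} (hε : ε ≠ 0) (dict : PvukDict (𝔈.kit m ε) (𝔈.XQ m ε) 𝔤 ε)
    (wo : MeasurableSet (pvilWno 𝔓 𝔈 m ε π.p.zt π.p.tt ↑π.Zt)) (wi : MeasurableSet (pvilWni 𝔓 𝔈 m ε π.p.zs π.p.ts ↑π.Zs))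
    (no : NullMeasurableSet (pvilMo 𝔓 𝔈 m ε π.p.zt π.p.tt ↑π.Zt ∩ {η | (pvilLo 𝔓 𝔈 m π.p.zt π.p.tt).X 𝔓.num (𝔓.col π.p.tt) pvilQ η =
      pvilLoc ε (pvilWno 𝔓 𝔈 m ε π.p.zt π.p.tt ↑π.Zt) (pvilMo 𝔓 𝔈 m ε π.p.zt π.p.tt ↑π.Zt) ((pvilLo 𝔓 𝔈 m π.p.zt π.p.tt).X 𝔓.num (𝔓.col π.p.tt) pvilQ) η}) (pvP ε))
    (ni : NullMeasurableSet (pvilMi 𝔓 𝔈 m ε π.p.zs π.p.ts ↑π.Zs ∩ {η | (pvilLi 𝔓 𝔈 m π.p.zs π.p.ts).X 𝔓.num (𝔓.col π.p.ts) pvilQ η =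
      pvilLoc ε (pvilWni 𝔓 𝔈 m ε π.p.zs π.p.ts ↑π.Zs) (pvilMi 𝔓 𝔈 m ε π.p.zs π.p.ts ↑π.Zs) ((pvilLi 𝔓 𝔈 m π.p.zs π.p.ts).X 𝔓.num (𝔓.col π.p.ts) pvilQ) η}) (pvP ε))
    (idx : ∀ᵐ ζ ∂pvP ε, ζ ∈ S ∩ pvjmEv 𝔓 𝔈 m π ↑π.Zt ↑π.Zs F F' ε → ∀ i 𝔇, PvdfPr 𝔓 m π 0 𝔎 ζ i 𝔇 → P) :
    PvjmAe 𝔓 𝔈 m π 𝔤 𝔎 (S ∩ pvjmEv 𝔓 𝔈 m π ↑π.Zt ↑π.Zs F F' ε) ↑π.Zt ↑π.Zs P ε :=
  ⟨dict, wo, wi, no, ni, pvjm_jn_win hW hπ hμ hρ1 hnum hε wo wi no ni, idx⟩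

end modelW

/-! ## 16. the three numbers at the parameters of record -/

theorem pvjm_num_at {N : PvxNums} (hN : N.Ok) (c : ℝ) (m : ℕ) (t s : pvxTau N) :
    0 < pvilMu (pvxParOf N hN c) m ∧ 0 ≤ (pvxParOf N hN c).num.rho1 * pvlmH m ∧
    4 * pvilMu (pvxParOf N hN c) m ≤ pvwRad (pvxParOf N hN c).num (pvlmH m) ((pvxParOf N hN c).ty s) (pvxParOf N hN c).num.K + pvwRad (pvxParOf N hN c).num (pvlmH m) ((pvxParOf N hN c).ty t) (pvxParOf N hN c).num.K := by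
  have hH := pvlm_H_pos m
  have h3 : (pvxParOf N hN c).num.rho3 = N.rho3 := rfl
  refine ⟨?_, mul_nonneg hN.rho1_pos.le hH.le, ?_⟩
  · unfold pvilMu
    rw [h3]
    exact div_pos (lt_min (pvlm_Del_pos c m) (mul_pos hN.msk0 hH)) (by norm_num)
  · have e1 : pvilMu (pvxParOf N hN c) m ≤ N.rho3 * pvlmH m / 1000 := by
      unfold pvilMu
      rw [h3]
      exact div_le_div_of_nonneg_right (min_le_right _ _) (by norm_num)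
    have e2 : N.rho3 ≤ 1 := by
      have g0 : (0 : ℝ) ≤ (N.g : ℝ) := Nat.cast_nonneg _
      nlinarith [hN.msk, hN.msk0, hN.rho1, hN.rho2, hN.rho3, mul_nonneg g0 hN.msk0.le]
    have e3 : ∀ u : pvxTau N, 2 * N.b2 * pvlmH m ≤ pvwRad (pvxParOf N hN c).num (pvlmH m) ((pvxParOf N hN c).ty u) (pvxParOf N hN c).num.K := by
      intro u
      show 2 * N.b2 * pvlmH m ≤ (2 * N.b2 + (N.K : ℝ) * N.rho1) * pvlmH m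
      have k0 : (0 : ℝ) ≤ (N.K : ℝ) * N.rho1 := mul_nonneg (Nat.cast_nonneg _) hN.rho1_pos.le
      nlinarith
    have e4 : 1 ≤ N.b2 := by linarith [hN.a1_pos, hN.ab1, hN.gap, hN.ab2]
    have e5 : N.rho3 * pvlmH m ≤ pvlmH m := by nlinarith
    have e6 : pvlmH m ≤ N.b2 * pvlmH m := by nlinarith
    linarith [e3 s, e3 t]

end Claimed.Agent.R289
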