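-- KEEP
import Claimed.Agent.R289.Tr.DilK
import Claimed.Agent.R289.Tr.KitGeo
import Claimed.Agent.R289.Tr.MeasL
import Claimed.Agent.R289.Tr.LinkMeas
import Claimed.Agent.R289.Exit.NumI
import Claimed.Agent.R289.Exit.N1K

/-!
# Row 289 (S0537), THE WALL, ROAD E, file Tr/DomEM : **(MESH-C)** = ON THE CHAIN EVENT THE RESAMPLED REGION `C_c` HAS A FINE MESH      (helper104, second of 37 on `dom`; prefix `pvdk_`, `Pvdk`)

WHY.   (CELL) of `dom` (`Tr/DomEN`) = `pvc5_Col_reg` of 78 (`Tr/C2Col`) + `VorDense Y L ρ`, and `pvn1k_mesh_all` of 170 (`Exit/N1K`) : mesh off `C` (guard) + `VorDense Y C μ` ⟹ mesh `2r + μ` on the whole patch.      `VorDense Y C μ` is known on `{w ≠ 0}` ONLY: the chain event contains the meshes of its windows.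
* sec. 1  GENERIC.   `PvdkFat μ κ Q W` (every point of `Q` is within `κ` of the `μ`-core of `W`);   `PvdkFat.dense` (`PvtrMesh μ W Y ⟹ VorDense Y Q (κ + μ)`), `.mono .union .at`, `pvdk_fat_box` (an open box of widths `≥ 4μ`)
* sec. 2  THE CELL OF RECORD: `pvdk_fat_Ea` (the window `pvkgEa τ` is fat in itself), scaled and placed: `pvdk_fat_cell`
* sec. 3  EVENTS ⟹ MESHES, a.e.: `pvdk_mesh_cells` (227 `pvdil_dict_word`), `pvdk_mesh_o`, `pvdk_mesh_i` (251 `pvsu_sure_sub`, 289 `pvml_SAo_null`)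
* sec. 4  **`pvdk_meshC`** : a.e. on the chain event `VorDense (cfSites η) (pvieCc 𝔓 𝔈 m ε p) μ`;   the two END TILES enter through `PvdkFat` (regions of the engine).      0 sorry.
-/

set_option autoImplicit false

namespace Claimed.Agent.R289

open MeasureTheory Set Filter Topology Metric Claims.C0465
open scoped ENNReal

/-! ## 1. fat covers -/

/-- every point of `Q` is within `κ` of the `μ`-core of the window `W` -/
def PvdkFat (μ κ : ℝ) (Q W : Set ℂ) : Prop := ∀ c ∈ Q, ∃ c' ∈ pvtrCore μ W, ‖c - c'‖ ≤ κ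

theorem pvdk_fat_eqns_cite : True := by
  have := @PvdkFat.eq_1
  trivial

section fat

variable {μ κ κ' : ℝ} {Q Q' W W' Y : Set ℂ}

/-- the mesh of the window gives a mesh on `Q` -/
theorem PvdkFat.dense (h : PvdkFat μ κ Q W) (hm : PvtrMesh μ W Y) : VorDense Y Q (κ + μ) := by
  intro c hc
  obtain ⟨c', hc', hle⟩ := h c hc
  obtain ⟨u, hu, hu'⟩ := hm c' hc'
  refine ⟨u, hu, ?_⟩
  have e : c - u = (c - c') + (c' - u) := by ring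
  rw [e]
  exact (norm_add_le _ _).trans (add_le_add hle hu')

theorem PvdkFat.mono (h : PvdkFat μ κ Q W) (hQ : Q' ⊆ Q) (hW : W ⊆ W') (hκ : κ ≤ κ') : PvdkFat μ κ' Q' W' := fun c hc => by
  obtain ⟨c', hc', hle⟩ := h c (hQ hc)
  exact ⟨c', pvtr_core_mono hW hc', hle.trans hκ⟩

theorem PvdkFat.union (h : PvdkFat μ κ Q W) (h' : PvdkFat μ κ Q' W) : PvdkFat μ κ (Q ∪ Q') W := by
  rintro c (hc | hc)
  · exact h c hc
  · exact h' c hc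

/-- similarity `w ↦ z + d w` -/
theorem PvdkFat.at (h : PvdkFat μ κ Q W) (z : ℂ) {d : ℂ} (hd : d ≠ 0) : PvdkFat (‖d‖ * μ) (‖d‖ * κ) (pvkdAt z d Q) (pvkdAt z d W) := by
  rintro _ ⟨c, hc, rfl⟩
  obtain ⟨c', hc', hle⟩ := h c hc
  have h0 : 0 < ‖d‖ := norm_pos_iff.2 hd
  refine ⟨pvthSim z d c', fun w hw => ?_, ?_⟩
  · rw [pvkx_mem_at hd]
    refine hc' ?_
    rw [mem_closedBall, dist_eq_norm] at hw ⊢
    have e : (w - z) / d - c' = (w - pvthSim z d c') / d := by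
      unfold pvthSim
      field_simp
      ring
    rw [e, norm_div, div_le_iff₀ h0]
    linarith
  · have e : pvthSim z d c - pvthSim z d c' = d * (c - c') := by unfold pvthSim; ring
    rw [e, norm_mul]
    exact mul_le_mul_of_nonneg_left hle h0.le

/-- **an open box of widths `≥ 4μ` is fat in itself** (clamp the two coordinates) -/
theorem pvdk_fat_box {x0 x1 y0 y1 : ℝ} (hμ : 0 < μ) (hx : 4 * μ ≤ x1 - x0) (hy : 4 * μ ≤ y1 - y0) : PvdkFat μ (4 * μ) (pvkgB x0 x1 y0 y1) (pvkgB x0 x1 y0 y1) := by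
  rintro c ⟨a1, a2, a3, a4⟩
  set p : ℝ := max (x0 + 2 * μ) (min c.re (x1 - 2 * μ)) with hp
  set q : ℝ := max (y0 + 2 * μ) (min c.im (y1 - 2 * μ)) with hq
  have p1 : x0 + 2 * μ ≤ p := le_max_left _ _
  have p2 : p ≤ x1 - 2 * μ := max_le (by linarith) (min_le_right _ _)
  have q1 : y0 + 2 * μ ≤ q := le_max_left _ _
  have q2 : q ≤ y1 - 2 * μ := max_le (by linarith) (min_le_right _ _)
  have p3 : |c.re - p| ≤ 2 * μ := by
    rw [abs_le]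
    constructor
    · have : p ≤ max (x0 + 2 * μ) c.re := max_le_max le_rfl (min_le_left _ _)
      rcases max_cases (x0 + 2 * μ) c.re with ⟨e, _⟩ | ⟨e, _⟩ <;> rw [e] at this <;> linarith
    · have : min c.re (x1 - 2 * μ) ≤ p := le_max_right _ _
      rcases min_cases c.re (x1 - 2 * μ) with ⟨e, _⟩ | ⟨e, _⟩ <;> rw [e] at this <;> linarith
  have q3 : |c.im - q| ≤ 2 * μ := by
    rw [abs_le]
    constructor
    · have : q ≤ max (y0 + 2 * μ) c.im := max_le_max le_rfl (min_le_left _ _)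
      rcases max_cases (y0 + 2 * μ) c.im with ⟨e, _⟩ | ⟨e, _⟩ <;> rw [e] at this <;> linarith
    · have : min c.im (y1 - 2 * μ) ≤ q := le_max_right _ _
      rcases min_cases c.im (y1 - 2 * μ) with ⟨e, _⟩ | ⟨e, _⟩ <;> rw [e] at this <;> linarith
  refine ⟨⟨p, q⟩, fun w hw => ?_, ?_⟩
  · obtain ⟨b1, b2, b3, b4⟩ := pvkgg_ball_box hw
    simp only at b1 b2 b3 b4
    exact ⟨by linarith, by linarith, by linarith, by linarith⟩
  · have := Complex.norm_le_abs_re_add_abs_im (c - ⟨p, q⟩)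
    simp only [Complex.sub_re, Complex.sub_im] at this
    linarith

end fat

/-! ## 2. the cell of record -/

/-- **the window of the link of record is fat in itself** (four boxes) -/
theorem pvdk_fat_Ea (τ : PvtTurn) : PvdkFat pvkgG.ρ (4 * pvkgG.ρ) (pvkgG.Ea τ) (pvkgG.Ea τ) := by
  rw [pvkgg_Ea]
  have hρ : 0 < pvkgG.ρ := by rw [pvkgg_ρ]; norm_num
  have hO : PvdkFat pvkgG.ρ (4 * pvkgG.ρ) pvkgO pvkgO := pvdk_fat_box hρ (by rw [pvkgg_ρ]; norm_num) (by rw [pvkgg_ρ]; norm_num)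
  have hI : PvdkFat pvkgG.ρ (4 * pvkgG.ρ) pvkgRin pvkgRin := pvdk_fat_box hρ (by rw [pvkgg_ρ]; norm_num) (by rw [pvkgg_ρ]; norm_num)
  have hU : PvdkFat pvkgG.ρ (4 * pvkgG.ρ) pvkgRout pvkgRout := pvdk_fat_box hρ (by rw [pvkgg_ρ]; norm_num) (by rw [pvkgg_ρ]; norm_num)
  have hOx := hO.at τ.mid (pvt_rot_ne_zero τ)
  have hUx := hU.at τ.mid (pvt_rot_ne_zero τ)
  rw [pvt_norm_rot, one_mul, one_mul] at hOx hUx
  unfold pvkgEa pvkgU pvkgOx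
  refine ((hO.mono Subset.rfl ?_ le_rfl).union ((hI.mono Subset.rfl ?_ le_rfl).union (hUx.mono Subset.rfl ?_ le_rfl))).union (hOx.mono Subset.rfl ?_ le_rfl)
  · exact fun w hw => Or.inl (Or.inl hw)
  · exact fun w hw => Or.inl (Or.inr (Or.inl hw))
  · exact fun w hw => Or.inl (Or.inr (Or.inr hw))
  · exact fun w hw => Or.inr hw

/-- the same for the cell of side `δ` placed at `(z, d)`, `‖d‖ = 1` -/
theorem pvdk_fat_cell {δ : ℝ} (hδ : 0 < δ) (z : ℂ) {d : ℂ} (hd : ‖d‖ = 1) (τ : PvtTurn) :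
    PvdkFat (pvkgG.sc δ).ρ (4 * (pvkgG.sc δ).ρ) (pvkdAt z d ((pvkgG.sc δ).Ea τ)) (pvkdAt z d ((pvkgG.sc δ).Ea τ)) := by
  have h1 := (pvdk_fat_Ea τ).at 0 (d := (δ : ℂ)) (by exact_mod_cast hδ.ne')
  rw [Complex.norm_real, Real.norm_eq_abs, abs_of_pos hδ] at h1
  have h2 := h1.at z (d := d) (by rw [← norm_ne_zero_iff, hd]; exact one_ne_zero)
  rw [hd, one_mul, one_mul] at h2
  rw [pvdil_Ea, pvdil_S_sim]
  have e : δ * (4 * pvkgG.ρ) = 4 * (pvkgG.sc δ).ρ := by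
    show δ * (4 * pvkgG.ρ) = 4 * (δ * pvkgG.ρ)
    ring
  rw [e] at h2
  exact h2

/-! ## 3. events ⟹ meshes -/

section events

variable {τ : Type} {c : ℝ} {𝔓 : PvxPar τ c} {𝔈 : PvieEng τ}

/-- an a.e. property holds a.e. at the flipped configuration -/
theorem pvdk_ae_fl (b : Bool) (ε : ℝ) {p : Conf PvPt → Prop} (h : ∀ᵐ η ∂pvP ε, p η) : ∀ᵐ η ∂pvP ε, p (pvkyFl b η) := by
  have hq : Measure.QuasiMeasurePreserving (pvkyFl b) (pvP ε) (pvP ε) := ⟨measurable_pvkyFl b, by rw [pvky_fl_map]⟩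
  exact hq.ae h

/-- **CELLS**: a.e. on the event of a word every window `Ea` of a cell has the mesh of the kit -/
theorem pvdk_mesh_cells (hE : PvnnEng 𝔈 c) (m : ℕ) : ∀ᶠ ε in 𝓝[>] (0 : ℝ), ∀ (z d : ℂ), d ^ 4 = 1 → ∀ l : List PvtTurn, ∀ᵐ η ∂pvP ε, η ∈ (𝔈.kit m ε).Ev z d l → ∀ j < l.length,
    PvtrMesh (pvkgG.sc (pvlmDel c m)).ρ (pvkdAt (pvthZ (pvlmDel c m) z d l j) (pvthD d l j) ((pvkgG.sc (pvlmDel c m)).Ea (pvthL l j))) (cfSites η) := by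
  obtain ⟨Hf, b, q, β', CB, H, hU⟩ := hE
  filter_upwards [pvdil_dict_word H hU m] with ε hε z d hd l
  filter_upwards [hε z d hd l] with η hη hEv j hj
  exact (hη hEv j hj).2.1.1.2

/-- **FIRST LINK**: a.e. on its success the window has the mesh `pvilMu` -/
theorem pvdk_mesh_o (h𝔓 : 𝔓.WfB) (H : PvmlEngB 𝔈) {ε : ℝ} (hε : 0 < ε) {w : ∀ η : Conf PvPt, (delbPl (pvieY η)).Dart → ℂ} (hw : PvmlWm w) (m : ℕ) (z : ℂ) (t : τ) (Z : Set (ℤ × ℤ)) (F : Set ℂ)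
    (hW : MeasurableSet (pvilWno 𝔓 𝔈 m ε z t Z)) : ∀ᵐ η ∂pvP ε, η ∈ (pvilEo 𝔓 𝔈 m ε w z t Z F).A → PvtrMesh (pvilMu 𝔓 m) (pvilWno 𝔓 𝔈 m ε z t Z) (cfSites η) := by
  filter_upwards [pvsu_sure_sub (pv_isPpp ε) (hW.prod MeasurableSet.univ) (pvml_SAo_null h𝔓 H hε hw m z t Z hW)] with η hη hA
  have h1 : η ∈ pvilSA ε (pvilWno 𝔓 𝔈 m ε z t Z) (pvilMo 𝔓 𝔈 m ε z t Z) ((pvilLo 𝔓 𝔈 m z t).X 𝔓.num (𝔓.col t) w) := by
    have h2 : η ∈ pvilFin Z (pvilSA ε (pvilWno 𝔓 𝔈 m ε z t Z) (pvilMo 𝔓 𝔈 m ε z t Z) ((pvilLo 𝔓 𝔈 m z t).X 𝔓.num (𝔓.col t) w)) := hA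
    unfold pvilFin at h2
    split_ifs at h2
    · exact h2
    · exact absurd h2 (notMem_empty _)
  exact (hη h1).1.2

/-- **LAST LINK** -/
theorem pvdk_mesh_i (h𝔓 : 𝔓.WfB) (H : PvmlEngB 𝔈) {ε : ℝ} (hε : 0 < ε) {w : ∀ η : Conf PvPt, (delbPl (pvieY η)).Dart → ℂ} (hw : PvmlWm w) (m : ℕ) (z : ℂ) (t : τ) (Z : Set (ℤ × ℤ)) (F : Set ℂ)
    (hW : MeasurableSet (pvilWni 𝔓 𝔈 m ε z t Z)) : ∀ᵐ η ∂pvP ε, η ∈ (pvilEi 𝔓 𝔈 m ε w z t Z F).A → PvtrMesh (pvilMu 𝔓 m) (pvilWni 𝔓 𝔈 m ε z t Z) (cfSites η) := by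
  filter_upwards [pvsu_sure_sub (pv_isPpp ε) (hW.prod MeasurableSet.univ) (pvml_SAi_null h𝔓 H hε hw m z t Z hW)] with η hη hA
  have h1 : η ∈ pvilSA ε (pvilWni 𝔓 𝔈 m ε z t Z) (pvilMi 𝔓 𝔈 m ε z t Z) ((pvilLi 𝔓 𝔈 m z t).X 𝔓.num (𝔓.col t) w) := by
    have h2 : η ∈ pvilFin Z (pvilSA ε (pvilWni 𝔓 𝔈 m ε z t Z) (pvilMi 𝔓 𝔈 m ε z t Z) ((pvilLi 𝔓 𝔈 m z t).X 𝔓.num (𝔓.col t) w)) := hA
    unfold pvilFin at h2
    split_ifs at h2
    · exact h2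
    · exact absurd h2 (notMem_empty _)
  exact (hη h1).1.2

end events

/-! ## 4. the resampled region of a chain -/

section cover

variable {τ : Type} {c : ℝ} {𝔓 : PvxPar τ c} {𝔈 : PvieEng τ}

theorem pvdk_sites_fl (b : Bool) (η : Conf PvPt) : cfSites (pvkyFl b η) = cfSites η := by
  ext z
  constructor
  · rintro ⟨p, hp, rfl⟩
    exact ⟨_, pvky_mem_fl.1 hp, rfl⟩
  · rintro ⟨p, hp, rfl⟩
    refine ⟨(p.1, p.2 == b), pvky_mem_fl.2 ?_, rfl⟩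
    have e : ((p.2 == b) == b) = p.2 := by cases b <;> cases p.2 <;> rfl
    show (p.1, ((p.2 == b) == b)) ∈ η.pts
    rw [e]
    exact hp

theorem pvdk_sh_at (z : ℂ) (S : Set ℂ) : pvieSh z S = pvkdAt z 1 S := by
  unfold pvieSh pvkdAt
  refine image_congr fun w _ => ?_
  simp [pvthSim]

theorem PvdkFat.sh {μ κ : ℝ} {Q W : Set ℂ} (h : PvdkFat μ κ Q W) (z : ℂ) : PvdkFat μ κ (pvieSh z Q) (pvieSh z W) := by
  have h1 := h.at z (d := 1) one_ne_zero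
  rw [norm_one, one_mul, one_mul] at h1
  rwa [pvdk_sh_at, pvdk_sh_at]

theorem pvdk_sh_union (z : ℂ) (S S' : Set ℂ) : pvieSh z (S ∪ S') = pvieSh z S ∪ pvieSh z S' := image_union _ _ _

theorem pvdk_kit_O (hE : PvnnEng 𝔈 c) (m : ℕ) (ε : ℝ) : (𝔈.kit m ε).O₀ = (pvkgG.sc (pvlmDel c m)).O₀ := by
  obtain ⟨Hf, b, q, β', CB, -, hk, -⟩ := hE.kit
  rw [hk]
  exact (pvdil_S_sim _ _).symm

theorem pvdk_kit_K (hE : PvnnEng 𝔈 c) (m : ℕ) (ε : ℝ) (t : PvtTurn) : (𝔈.kit m ε).K₀ t = (pvkgG.sc (pvlmDel c m)).K₀ t := by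
  obtain ⟨Hf, b, q, β', CB, -, hk, -⟩ := hE.kit
  rw [hk]
  exact (pvdil_S_sim _ _).symm

theorem pvdk_kit_del (hE : PvnnEng 𝔈 c) (m : ℕ) (ε : ℝ) : (𝔈.kit m ε).δ = pvlmDel c m := by
  obtain ⟨U, hU⟩ := hE.num
  exact hU.kδ m ε

/-- a placed door square of side `δ` is fat in itself at every mesh `μ ≤ δ / 40` -/
theorem pvdk_fat_door {δ μ : ℝ} (hδ : 0 < δ) (hμ : 0 < μ) (h : 40 * μ ≤ δ) (z : ℂ) {d : ℂ} (hd : ‖d‖ = 1) :
    PvdkFat μ (4 * μ) (pvkdAt z d (pvkgG.sc δ).O₀) (pvkdAt z d (pvkgG.sc δ).O₀) := by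
  have h0 : 4 * (μ / δ) ≤ 1 / 10 := by
    rw [← mul_div_assoc, div_le_iff₀ hδ]
    linarith
  have hO : PvdkFat (μ / δ) (4 * (μ / δ)) pvkgO pvkgO := pvdk_fat_box (div_pos hμ hδ) (h0.trans (by norm_num)) (h0.trans (by norm_num))
  have h1 := hO.at 0 (d := (δ : ℂ)) (by exact_mod_cast hδ.ne')
  rw [Complex.norm_real, Real.norm_eq_abs, abs_of_pos hδ] at h1
  have h2 := h1.at z (d := d) (by rw [← norm_ne_zero_iff, hd]; exact one_ne_zero)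
  rw [hd, one_mul, one_mul] at h2
  have e1 : δ * (μ / δ) = μ := by field_simp
  have e2 : δ * (4 * (μ / δ)) = 4 * μ := by field_simp
  rw [e1, e2] at h2
  have e3 : (pvkgG.sc δ).O₀ = pvkdAt 0 (δ : ℂ) pvkgO := pvdil_S_sim _ _
  rw [e3]
  exact h2

/-- **(MESH-C)**: a.e. on the chain event (black vocabulary `ζ = fl η`, as in `pvjbYd` of 93) the resampled region `C_c` of the chain has the mesh `μ`.
`hfo hfi` = the two END TILES are fat in `mouth ∪ tile` (regions of the engine, reference position). -/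
theorem pvdk_meshC (h𝔓 : 𝔓.WfB) (hE : PvnnEng 𝔈 c) (HB : PvmlEngB 𝔈) (m : ℕ) (p : PvtsPat τ) (hΓ : (𝔓.Γ m).Ok p) (hd4 : (𝔓.Γ m).dout p.tt ^ 4 = 1)
    {w : ∀ η : Conf PvPt, (delbPl (pvieY η)).Dart → ℂ} (hw : PvmlWm w) (b : Bool) (Zt Zs : Set (ℤ × ℤ)) (Ft Fs : Set ℂ)
    (hWo : ∀ ε, MeasurableSet (pvilWno 𝔓 𝔈 m ε p.zt p.tt Zt)) (hWi : ∀ ε, MeasurableSet (pvilWni 𝔓 𝔈 m ε p.zs p.ts Zs)) (hμ0 : 0 < pvilMu 𝔓 m) {κ μ : ℝ}
    (hfo : PvdkFat (pvilMu 𝔓 m) κ (𝔈.oK m p.tt) (𝔈.oM m p.tt ∪ 𝔈.oK m p.tt)) (hfi : PvdkFat (pvilMu 𝔓 m) κ (𝔈.iK m p.ts) (𝔈.iM m p.ts ∪ 𝔈.iK m p.ts))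
    (h1 : 5 * (pvkgG.sc (pvlmDel c m)).ρ ≤ μ) (h2 : κ + pvilMu 𝔓 m ≤ μ) (h3 : 5 * pvilMu 𝔓 m ≤ μ) :
    ∀ᶠ ε in 𝓝[>] (0 : ℝ), ∀ᵐ η ∂pvP ε,
      pvkyFl b η ∈ pvkyEv (𝔈.kit m ε) b (pvieZo 𝔓 m p.zt p.tt) ((𝔓.Γ m).dout p.tt) p.l (pvilEo 𝔓 𝔈 m ε w p.zt p.tt Zt Ft) (pvilEi 𝔓 𝔈 m ε w p.zs p.ts Zs Fs) →
      VorDense (cfSites η) (pvieCc 𝔓 𝔈 m ε p) μ := by
  have hδ := pvlm_Del_pos c m
  have hμδ : 40 * pvilMu 𝔓 m ≤ pvlmDel c m := by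
    have : pvilMu 𝔓 m ≤ pvlmDel c m / 1000 := div_le_div_of_nonneg_right (min_le_left _ _) (by norm_num)
    linarith
  have hdin : ‖(𝔓.Γ m).din p.ts‖ = 1 := by rw [← hΓ.2, pvt_norm_dir, (𝔓.Γ m).dout1]
  filter_upwards [pvdk_mesh_cells hE m, self_mem_nhdsWithin] with ε hc hε
  filter_upwards [hc _ _ hd4 p.l, pvdk_ae_fl b ε (pvdk_mesh_o h𝔓 HB hε hw m p.zt p.tt Zt Ft (hWo ε)), pvdk_ae_fl b ε (pvdk_mesh_i h𝔓 HB hε hw m p.zs p.ts Zs Fs (hWi ε))] with η k1 k2 k3 hEv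
  obtain ⟨hG, hA, hi, ho⟩ := hEv
  have hEv' : η ∈ (𝔈.kit m ε).Ev (pvieZo 𝔓 m p.zt p.tt) ((𝔓.Γ m).dout p.tt) p.l := fun j hj =>
    ⟨by have := hG j hj.le; rwa [pvky_fl_fl] at this, by have := hA j hj; rwa [pvky_fl_fl] at this⟩
  have m1 := k1 hEv'
  have m2 := k2 ho
  have m3 := k3 hi
  rw [pvdk_sites_fl] at m2 m3
  rintro u ⟨S, hS, hu⟩
  simp only [pvieTiles, List.mem_append, List.mem_cons, List.mem_map, List.mem_range, List.not_mem_nil, or_false] at hS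
  rcases hS with ((rfl | rfl | rfl) | ⟨j, hj, rfl⟩) | ⟨j, hj, rfl⟩
  · -- the first tile
    refine (((hfo.sh p.zt).mono Subset.rfl ?_ le_rfl).dense m2).mono Subset.rfl Subset.rfl h2 u hu
    rw [pvdk_sh_union]
    exact fun v hv => hv.elim (fun h => Or.inl (Or.inl (Or.inr h))) fun h => Or.inl (Or.inr h)
  · -- the last tile
    refine (((hfi.sh p.zs).mono Subset.rfl ?_ le_rfl).dense m3).mono Subset.rfl Subset.rfl h2 u hu
    rw [pvdk_sh_union]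
    exact fun v hv => hv.elim (fun h => Or.inl (Or.inl (Or.inr h))) fun h => Or.inl (Or.inr h)
  · -- the last door
    have hf := pvdk_fat_door hδ hμ0 hμδ (pvieZi 𝔓 m p.zs p.ts) hdin
    have e : pvieDoor 𝔈 m ε (pvieZi 𝔓 m p.zs p.ts) ((𝔓.Γ m).din p.ts) = pvkdAt (pvieZi 𝔓 m p.zs p.ts) ((𝔓.Γ m).din p.ts) (pvkgG.sc (pvlmDel c m)).O₀ := by
      unfold pvieDoor pvkdAt
      rw [pvdk_kit_O hE]
    rw [e] at hu
    refine ((hf.mono Subset.rfl ?_ le_rfl).dense m3).mono Subset.rfl Subset.rfl (by linarith) u hu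
    rw [← e]
    exact fun v hv => Or.inr hv
  · -- the doors of the cells
    have hf := pvdk_fat_cell hδ (pvthZ (pvlmDel c m) (pvieZo 𝔓 m p.zt p.tt) ((𝔓.Γ m).dout p.tt) p.l j) (pvth_norm_D hd4 p.l j) (pvthL p.l j)
    refine ((hf.mono ?_ Subset.rfl le_rfl).dense (m1 j hj)).mono Subset.rfl Subset.rfl (by linarith) u hu
    unfold pvieDoor pvkdAt
    rw [pvdk_kit_O hE, pvdk_kit_del hE]
    exact image_mono fun v hv => Or.inl (Or.inl hv)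
  · -- the tiles of the cells
    have hf := pvdk_fat_cell hδ (pvthZ (pvlmDel c m) (pvieZo 𝔓 m p.zt p.tt) ((𝔓.Γ m).dout p.tt) p.l j) (pvth_norm_D hd4 p.l j) (pvthL p.l j)
    refine ((hf.mono ?_ Subset.rfl le_rfl).dense (m1 j hj)).mono Subset.rfl Subset.rfl (by linarith) u hu
    unfold pvkdAt
    rw [pvdk_kit_K hE, pvdk_kit_del hE]
    exact image_mono fun v hv => Or.inl (Or.inr hv)

end cover

end Claimed.Agent.R289
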