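-- KEEP
import Claimed.Agent.R289.Tr.PlugMet

/-!
# Row 289 (S0537, Cardy for Poisson-Voronoi), THE WALL, ROAD P, file Tr/GlueFit : THE FIT-TIME CLAUSES OF GLUE-W (205) AND OF THE ROLE DEPENDENT BODIES, IN DISTANCES OF `ℂ`      (owner helper222; prefix `pvqg_`)      0 sorry

Setting: `I : PvqgIn ..` of `Tr/PlugMet` (two fitted pins `s`, `t` of one rim, `(A1)`, `PvtvPolyIn`), `hD : e1 + ρ + hh < D` (the centres are far apart against the window).
* `far_s`, `far_t`      a vertex of the marked stretch `[t 0, t 10]` of one pin and a vertex beyond the OTHER pin are `> d1` apart   (`PvtpNR.far` with the excursion `s → t`)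
* `tube_s`, `tube_t`    the placed `w`-collar of ANY pieces of one pin is `> d1 - (2 (w+1) δ + μ)` from the vertices beyond the other pin
* `mid_s`, `mid_t`      the middle arc `P[t10(s), t0(t)]` against the placed collars of the pieces `0..8` of `s`, `1..9` of `t`
* `mid_sub`, `tailB_mid`, `tailF_mid`      the middle arc is part of the arc; the tails are `> 6 dc` from it
* `tailB_tube_t`, `tailF_tube_s`, `tailB_own`, `tailF_own`      the tails against the tubes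
-/

set_option autoImplicit false
set_option linter.unusedSectionVars false
set_option linter.unusedVariables false

namespace Claimed.Agent.R289

open Relation Claims.C0467 Claimed.Agent.R291

namespace PvqgIn

variable {T : Type} {𝔑 : PvmnNum} {ty : T → PvmnType} {k K : ℕ} {dc δ μ μ' ρ' σ' hh a b ρ d0 e0 d1 e1 RB R D h : ℝ} {x : ℂ} {P : PvbRim} {s t : PvbPin T} {cs ct : ℤ × ℤ} {ts tt : ℕ → ℕ}
  {kb kf : ℕ} {𝔐 : PvbMenu T} (I : PvqgIn 𝔑 ty k dc δ μ μ' ρ' σ' hh a b ρ d0 e0 d1 e1 RB R D h x 𝔐 P s t cs ct ts tt kb kf)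

include I

theorem t_le_len : t.idx ≤ P.len := I.H.lt_kf.le.trans I.H.kf_le

/-- a vertex of the marked stretch of `s` and a vertex beyond `t` -/
theorem far_s (hD : e1 + ρ + hh < D) {i l : ℕ} (i1 : ts 0 ≤ i) (i2 : i ≤ ts 10) (l1 : t.idx ≤ l) (l2 : l ≤ P.len) : d1 < ‖P.v i - P.v l‖ := by
  have C := I.Ss.inn.cuts I.N
  refine I.Ss.inn.nr1.far (k := ts 10) (k' := t.idx) i2 (I.ord_s.trans l1) (i2.trans I.ord_s) l1 l2 (Or.inl (C.win i i1 i2)) ?_
  have h1 := C.win (ts 10) (I.le_s (by omega) le_rfl) le_rfl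
  have h2 := I.near_t
  have h3 := I.far
  have h4 := pvtp_tri s.ctr (P.v (ts 10)) t.ctr
  have h5 := pvtp_tri (P.v (ts 10)) (P.v t.idx) t.ctr
  rw [norm_sub_rev s.ctr (P.v (ts 10))] at h4
  linarith

/-- a vertex of the marked stretch of `t` and a vertex before `s` -/
theorem far_t (hD : e1 + ρ + hh < D) {i l : ℕ} (i1 : tt 0 ≤ i) (i2 : i ≤ tt 10) (l1 : l ≤ s.idx) : d1 < ‖P.v l - P.v i‖ := by
  have C := I.St.inn.cuts I.N
  refine I.St.inn.nr1.far (k := s.idx) (k' := tt 0) l1 (I.ord_t.trans i1) (l1.trans I.ord_t) i1 (i2.trans C.le_len) (Or.inr (C.win i i1 i2)) ?_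
  have h1 := C.win (tt 0) le_rfl (I.le_t (by omega) le_rfl)
  have h2 := I.near_s
  have h3 := I.far
  have h4 := pvtp_tri s.ctr (P.v s.idx) t.ctr
  have h5 := pvtp_tri (P.v s.idx) (P.v (tt 0)) t.ctr
  rw [norm_sub_rev s.ctr (P.v s.idx)] at h4
  linarith

/-- **the whole tube of `s` is far from the vertices beyond `t`** -/
theorem tube_s (hD : e1 + ρ + hh < D) {i j w l : ℕ} {p : ℂ} (hp : p ∈ pvmgPl s.ctr δ (pvtwN w (pvmnCells (ty s.typ) i j))) (l1 : t.idx ≤ l) (l2 : l ≤ P.len) :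
    d1 - (2 * ((w : ℝ) + 1) * δ + μ) < ‖P.v l - p‖ := by
  obtain ⟨n, n1, n2, n3, u, u1, u2, u3⟩ := pvqg_idx I.Ss.inn I.N I.Ss.fits hp
  have h1 := I.far_s hD ((I.le_s (Nat.zero_le n) (by omega)).trans u1) (u2.trans (I.le_s (by omega) (by omega))) l1 l2
  have h2 := pvtp_tri (P.v u) p (P.v l)
  rw [norm_sub_rev p (P.v l)] at h2
  linarith

/-- **the whole tube of `t` is far from the vertices before `s`** -/
theorem tube_t (hD : e1 + ρ + hh < D) {i j w l : ℕ} {p : ℂ} (hp : p ∈ pvmgPl t.ctr δ (pvtwN w (pvmnCells (ty t.typ) i j))) (l1 : l ≤ s.idx) :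
    d1 - (2 * ((w : ℝ) + 1) * δ + μ) < ‖P.v l - p‖ := by
  obtain ⟨n, n1, n2, n3, u, u1, u2, u3⟩ := pvqg_idx I.St.inn I.N I.St.fits hp
  have h1 := I.far_t hD ((I.le_t (Nat.zero_le n) (by omega)).trans u1) (u2.trans (I.le_t (by omega) (by omega))) l1
  have h2 := pvtp_tri (P.v l) p (P.v u)
  rw [norm_sub_rev p (P.v u)] at h2
  linarith

theorem s_le_10 : s.idx ≤ ts 10 := by rw [← I.Ss.idx]; exact I.le_s (by omega) le_rfl

theorem t0_le : tt 0 ≤ t.idx := by rw [← I.St.idx]; exact I.le_t (by omega) (by omega)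

/-- the marks of the two pins are ordered: `t10(s) ≤ t0(t)` -/
theorem ord_mid (hD2 : 2 * ρ < D) : ts 10 ≤ tt 0 := by
  by_contra hc
  push Not at hc
  have Cs := I.Ss.inn.cuts I.N
  have Ct := I.St.inn.cuts I.N
  have h0 : ts 0 ≤ tt 0 := (by rw [← I.Ss.idx]; exact I.le_s (by omega) (by omega) : ts 0 ≤ s.idx).trans I.ord_t
  have h1 := Cs.win (tt 0) h0 hc.le
  have h2 := Ct.win (tt 0) le_rfl (I.le_t (by omega) le_rfl)
  have h3 := I.far
  have h4 := pvtp_tri s.ctr (P.v (tt 0)) t.ctr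
  rw [norm_sub_rev s.ctr (P.v (tt 0))] at h4
  linarith

/-- the middle arc is part of the arc -/
theorem mid_sub (hD2 : 2 * ρ < D) : pvtxPoly P.v (ts 10) (tt 0) ⊆ pvtxPoly P.v s.idx t.idx :=
  pvtx_poly_mono I.s_le_10 I.t0_le ((I.ord_mid hD2).trans I.t0_le)

theorem mesh_mid : ∀ l, ts 10 ≤ l → l < tt 0 → ‖P.v (l + 1) - P.v l‖ ≤ μ' :=
  I.mesh_of (I.H.kb_lt.le.trans I.s_le_10) (I.t0_le.trans I.H.lt_kf.le)

/-- **the middle arc against the collar of the pieces `i..8` of `s`** -/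
theorem mid_s (hD2 : 2 * ρ < D) {i w : ℕ} {p q : ℂ} (hp : p ∈ pvtxPoly P.v (ts 10) (tt 0)) (hq : q ∈ pvmgPl s.ctr δ (pvtwN w (pvmnCells (ty s.typ) i 8))) :
    d1 - (2 * ((w : ℝ) + 1) * δ + μ) - μ' < ‖p - q‖ :=
  pvqg_poly_far I.N2.μ_nn (I.ord_mid hD2) I.mesh_mid
    (fun l l1 l2 => pvqg_fwd I.Ss.inn I.N I.Ss.fits (j := 8) (by omega) hq l1 (l2.trans (I.t0_le.trans I.t_le_len))) hp

/-- **the middle arc against the collar of the pieces `1..j` of `t`** -/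
theorem mid_t (hD2 : 2 * ρ < D) {j w : ℕ} {p q : ℂ} (hp : p ∈ pvtxPoly P.v (ts 10) (tt 0)) (hq : q ∈ pvmgPl t.ctr δ (pvtwN w (pvmnCells (ty t.typ) 1 j))) :
    d1 - (2 * ((w : ℝ) + 1) * δ + μ) - μ' < ‖p - q‖ :=
  pvqg_poly_far I.N2.μ_nn (I.ord_mid hD2) I.mesh_mid
    (fun l l1 l2 => pvqg_bwd I.St.inn I.N I.St.fits (i := 1) le_rfl hq l2) hp

/-- the tails against the middle arc, at the pattern scale -/
theorem tailB_mid (hD2 : 2 * ρ < D) {p q : ℂ} (hp : p ∈ pvtxPoly P.v (ts 10) (tt 0)) (hq : q ∈ pvtxPoly P.v kb (ts 0)) : 6 * dc < ‖p - q‖ := I.tailB_arc (I.mid_sub hD2 hp) hq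

theorem tailF_mid (hD2 : 2 * ρ < D) {p q : ℂ} (hp : p ∈ pvtxPoly P.v (ts 10) (tt 0)) (hq : q ∈ pvtxPoly P.v (tt 10) kf) : 6 * dc < ‖p - q‖ := I.tailF_arc (I.mid_sub hD2 hp) hq

theorem ts0_le : ts 0 ≤ s.idx := by rw [← I.Ss.idx]; exact I.le_s (by omega) (by omega)

theorem t_le_10 : t.idx ≤ tt 10 := by rw [← I.St.idx]; exact I.le_t (by omega) le_rfl

/-- **the backward tail against the whole tube of `t`** -/
theorem tailB_tube_t (hD : e1 + ρ + hh < D) {i j w : ℕ} {p q : ℂ} (hp : p ∈ pvtxPoly P.v kb (ts 0)) (hq : q ∈ pvmgPl t.ctr δ (pvtwN w (pvmnCells (ty t.typ) i j))) :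
    d1 - (2 * ((w : ℝ) + 1) * δ + μ) - μ' < ‖p - q‖ :=
  pvqg_poly_far I.N2.μ_nn I.ord_kb (I.mesh_of le_rfl (I.ts0_le.trans (I.lt.le.trans I.H.lt_kf.le))) (fun l l1 l2 => I.tube_t hD hq (l2.trans I.ts0_le)) hp

/-- **the forward tail against the whole tube of `s`** -/
theorem tailF_tube_s (hD : e1 + ρ + hh < D) {i j w : ℕ} {p q : ℂ} (hp : p ∈ pvtxPoly P.v (tt 10) kf) (hq : q ∈ pvmgPl s.ctr δ (pvtwN w (pvmnCells (ty s.typ) i j))) :
    d1 - (2 * ((w : ℝ) + 1) * δ + μ) - μ' < ‖p - q‖ :=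
  pvqg_poly_far I.N2.μ_nn I.ord_kf (I.mesh_of (I.H.kb_lt.le.trans (I.lt.le.trans I.t_le_10)) le_rfl) (fun l l1 l2 => I.tube_s hD hq (I.t_le_10.trans l1) (l2.trans I.H.kf_le)) hp

/-- **the backward tail against the collar of the pieces `1..j` of its own pin** -/
theorem tailB_own {j w : ℕ} {p q : ℂ} (hp : p ∈ pvtxPoly P.v kb (ts 0)) (hq : q ∈ pvmgPl s.ctr δ (pvtwN w (pvmnCells (ty s.typ) 1 j))) :
    d1 - (2 * ((w : ℝ) + 1) * δ + μ) - μ' < ‖p - q‖ :=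
  pvqg_poly_far I.N2.μ_nn I.ord_kb (I.mesh_of le_rfl (I.ts0_le.trans (I.lt.le.trans I.H.lt_kf.le))) (fun l l1 l2 => pvqg_bwd I.Ss.inn I.N I.Ss.fits (i := 1) le_rfl hq l2) hp

/-- **the forward tail against the collar of the pieces `i..8` of its own pin** -/
theorem tailF_own {i w : ℕ} {p q : ℂ} (hp : p ∈ pvtxPoly P.v (tt 10) kf) (hq : q ∈ pvmgPl t.ctr δ (pvtwN w (pvmnCells (ty t.typ) i 8))) :
    d1 - (2 * ((w : ℝ) + 1) * δ + μ) - μ' < ‖p - q‖ :=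
  pvqg_poly_far I.N2.μ_nn I.ord_kf (I.mesh_of (I.H.kb_lt.le.trans (I.lt.le.trans I.t_le_10)) le_rfl) (fun l l1 l2 => pvqg_fwd I.St.inn I.N I.St.fits (j := 8) (by omega) hq l1 (l2.trans I.H.kf_le)) hp

/-- the grid balls: a vertex beyond the mark `6` / before the mark `4` -/
theorem ball_s {r : ℝ} (hr : δ * r = RB) {l : ℕ} {p : ℂ} (hp : p ∈ pvmgPl s.ctr δ (pvmnBl r)) (hl : l ≤ ts 4 ∨ (ts 6 ≤ l ∧ l ≤ P.len)) : 28 * δ < ‖P.v l - p‖ := by
  have h3 := I.N.RB_lt; have hδ := I.N.δ_pos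
  rcases hl with hl | ⟨hl, hl'⟩
  · have := pvqg_ball_bwd I.Ss.inn I.N hp hl
    rw [mul_add, hr] at this
    linarith
  · have := pvqg_ball_fwd I.Ss.inn I.N hp hl hl'
    rw [mul_add, hr] at this
    linarith

theorem ball_t {r : ℝ} (hr : δ * r = RB) {l : ℕ} {p : ℂ} (hp : p ∈ pvmgPl t.ctr δ (pvmnBl r)) (hl : l ≤ tt 4 ∨ (tt 6 ≤ l ∧ l ≤ P.len)) : 28 * δ < ‖P.v l - p‖ := by
  have h3 := I.N.RB_lt; have hδ := I.N.δ_pos
  rcases hl with hl | ⟨hl, hl'⟩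
  · have := pvqg_ball_bwd I.St.inn I.N hp hl
    rw [mul_add, hr] at this
    linarith
  · have := pvqg_ball_fwd I.St.inn I.N hp hl hl'
    rw [mul_add, hr] at this
    linarith

end PvqgIn

end Claimed.Agent.R289
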