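import Claimed.Agent.R289.Tr.GlueW
import Claimed.Agent.R289.Tr.LaneP

/-!
# Row 289 (S0537, Cardy for Poisson-Voronoi), unit TR, ROAD P, GLUE-W, file Tr/GlueWT : THE WHITE LINK BETWEEN TWO PLUGS      (owner helper205; prefix `pvgw_`, `Pvgw`, `pvgw`)

ONE lattice of LINK cells (mesh `δ_link`);   `Ms`, `Mt : PvgwMap` = link cell ↦ MENU cell of the start pin `s` / of the end pin `t` (`pvgwDiv κ hκ o`: floor division by `κ = dl h / δ_link` after the shift by the corner `o` of the menu cell `(0,0)` of the pin).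
* `Fa`  = ANY finite connected tube of link cells round `P[t₉(s), t₁(t)]` (the last piece of `s`, the arc, the first piece of `t`), e.g. `N^a` of its link cells, `a δ_link ≤ dl h`
* `pvgwF = Ms⁻¹(N⁴ cells_s 0..8) ∪ Fa ∪ Mt⁻¹(N⁴ cells_t 1..9)`,   `pvgwA = pvtHull pvgwF`   (THE TUBE),   doors `Ms⁻¹(Dr⁻(s))`, `Mt⁻¹(Dr⁺(t))`
* `PvgwIn` = the FIT-TIME CLAUSES (producer 222, `Tr/GlueFit.lean`);   `pvgw_wit_s`, `pvgw_wit_t` : the two witnesses from connected sets of link cells (the tails of the rim)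
* **`pvgw_glue`** : a finite connected set `S` of link cells, off the tube, every cell next to a cell of `Ms⁻¹(N⁴ cells_s 7..8) ∪ Fa ∪ Mt⁻¹(N⁴ cells_t 1..2)`, which has a cell over the LAST cell `pvlpA1` of the lane `R_s` and a cell over the FIRST cell `pvlpA0` of the lane `R_t`
* `pvgwW` = the polyomino of the link `N¹ (S ∪ Ms⁻¹(N¹ {A1(s)}) ∪ Mt⁻¹(N¹ {A0(t)}))`   (blocks `3 × 3`: what `Tr/HookZ` of 147 asks; they keep one full menu cell off the tube `N²(cells)`) (consumer 147 `Tr/HookZ.lean`: hook zones at the ends of the corridors; 225: regions), `pvgw_W_conn`, `pvgw_W_finite`, `pvgw_W_sub`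
-/

set_option autoImplicit false
set_option linter.unusedSectionVars false
set_option linter.unusedVariables false
set_option linter.unusedSimpArgs false

namespace Claimed.Agent.R289

open Relation Claims.C0467 Claimed.Agent.R291

/-! ## §1 the tube, the fit-time clauses -/

/-- the unfilled tube -/
def pvgwF (Ms Mt : PvgwMap) (τs τt : PvmnType) (Fa : Set (ℤ × ℤ)) : Set (ℤ × ℤ) :=
  Ms.pre (pvtwN 4 (pvmnCells τs 0 8)) ∪ Fa ∪ Mt.pre (pvtwN 4 (pvmnCells τt 1 9))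

/-- **THE TUBE** -/
def pvgwA (Ms Mt : PvgwMap) (τs τt : PvmnType) (Fa : Set (ℤ × ℤ)) : Set (ℤ × ℤ) := pvtHull (pvgwF Ms Mt τs τt Fa)

/-- **THE FIT-TIME CLAUSES OF GLUE-W** -/
structure PvgwIn (𝔑 : PvmnNum) (Ms Mt : PvgwMap) (τs τt : PvmnType) (Fa : Set (ℤ × ℤ)) : Prop where
  ts : PvmnIsType 𝔑 τs
  tt : PvmnIsType 𝔑 τt
  fin : Fa.Finite
  conn : TscConn tscG Fa
  /-- the tube of the arc starts in the tube of the piece 8 of `s` (mark 9) and ends in the tube of the piece 1 of `t` (mark 1) -/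
  touch_s : ∃ v ∈ Fa, Ms.ap v ∈ pvtwN 4 (τs.C 8 : Set (ℤ × ℤ))
  touch_t : ∃ v ∈ Fa, Mt.ap v ∈ pvtwN 4 (τt.C 1 : Set (ℤ × ℤ))
  /-- near the pieces `0..8` of `s` the tube of the arc is the tube of the piece 9 (NR₁) -/
  off_s : ∀ v ∈ Fa, Ms.ap v ∈ pvtwN 9 (pvmnCells τs 0 8) → Ms.ap v ∈ pvtwN 1 (τs.C 9 : Set (ℤ × ℤ))
  off_t : ∀ v ∈ Fa, Mt.ap v ∈ pvtwN 9 (pvmnCells τt 1 9) → Mt.ap v ∈ pvtwN 1 (τt.C 0 : Set (ℤ × ℤ))
  /-- the two plugs are apart -/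
  apart : Disjoint (Ms.pre (pvmnBox (𝔑.nBx + 10))) (Mt.pre (pvmnBox (𝔑.nBx + 10)))
  /-- ONE witness per end: a dart of the end door with a cell over its outer cell which is joined to infinity off the tube -/
  wit_s : ∃ x ∈ pvtrBd (pvmnK3 τs), x.2 ∈ pvmnDrm τs ∧ ∃ v ∈ pvtOut (pvgwF Ms Mt τs τt Fa), Ms.ap v = x.2
  wit_t : ∃ x ∈ pvtrBd (pvmnK3 τt), x.2 ∈ pvmnDrp τt ∧ ∃ v ∈ pvtOut (pvgwF Ms Mt τs τt Fa), Mt.ap v = x.2

/-- the polyomino of the link -/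
def pvgwW (Ms Mt : PvgwMap) (rs rt : ℤ × ℤ) (S : Set (ℤ × ℤ)) : Set (ℤ × ℤ) := pvtwN 1 (S ∪ Ms.pre (pvtwN 1 {rs}) ∪ Mt.pre (pvtwN 1 {rt}))

theorem pvgw_eqns_cite4 : True := by
  have := @pvgwF.eq_1; have := @pvgwA.eq_1; have := @pvgwW.eq_1
  trivial

/-! ## §2 kit -/

section kit

variable {𝔑 : PvmnNum} {τ : PvmnType} {E : Set (ℤ × ℤ)} {a b c : ℤ × ℤ} {k i j : ℕ}

theorem pvgw_N_adj (h : a ∈ pvtwN k E) (hab : a = b ∨ triAdj a b) : b ∈ pvtwN (k + 1) E := by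
  rcases hab with rfl | hab
  · exact pvtw_N_mono (by omega) le_rfl h
  · have : b ∈ pvtN8 (pvtwN k E) := ⟨a, h, Or.inr (pvt_tri_g8 hab)⟩
    rwa [← pvtw_N_succ] at this

theorem pvgw_N_adj' (h : a ∈ pvtwN k E) (hab : b = a ∨ triAdj b a) : b ∈ pvtwN (k + 1) E :=
  pvgw_N_adj h (hab.imp Eq.symm (hx_tri_symm _ _))

/-- (T2): a cell close to two pieces: the pieces are neighbours -/
theorem pvgw_far (hτ : PvmnIsType 𝔑 τ) {p q : Fin 10} (hi : i ≤ 10) (hj : j ≤ 10) (h1 : c ∈ pvtwN i (τ.C p : Set (ℤ × ℤ))) (h2 : c ∈ pvtwN j (τ.C q : Set (ℤ × ℤ))) : p.1 ≤ q.1 + 1 ∧ q.1 ≤ p.1 + 1 := by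
  constructor
  · by_contra h
    exact Set.disjoint_left.1 (hτ.far q p (by omega)) (pvtw_N_mono hj le_rfl h2) (pvtw_N_mono hi le_rfl h1)
  · by_contra h
    exact Set.disjoint_left.1 (hτ.far p q (by omega)) (pvtw_N_mono hi le_rfl h1) (pvtw_N_mono hj le_rfl h2)

theorem pvgw_C_box (hτ : PvmnIsType 𝔑 τ) {p : Fin 10} (hi : i ≤ 10) (h : c ∈ pvtwN i (τ.C p : Set (ℤ × ℤ))) : c ∈ pvmnBox (𝔑.nBx + 10) :=
  pvmn_box_mono (by omega) (pvmn_N_box (hτ.box p) h)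

theorem pvgw_cells_box (hτ : PvmnIsType 𝔑 τ) {p q : ℕ} (hi : i ≤ 10) (h : c ∈ pvtwN i (pvmnCells τ p q)) : c ∈ pvmnBox (𝔑.nBx + 10) :=
  pvmn_box_mono (by omega) (pvmn_N_box (pvmn_cells_box hτ) h)

/-- the outer cells of two consecutive darts -/
theorem pvgw_iter_snd {H : Set (ℤ × ℤ)} {e : (ℤ × ℤ) × (ℤ × ℤ)} (he : e ∈ pvtrBd H) (m : ℕ) :
    ((pvtrStep H)^[m] e).2 = ((pvtrStep H)^[m + 1] e).2 ∨ triAdj ((pvtrStep H)^[m] e).2 ((pvtrStep H)^[m + 1] e).2 := by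
  rw [Function.iterate_succ_apply']
  exact (pvtr_step_snd_adj (pvtr_iter_mem he m)).imp Eq.symm id

/-- a lane of a type has at least two steps -/
theorem pvgw_lane_two (hτ : PvmnIsType 𝔑 τ) {e : (ℤ × ℤ) × (ℤ × ℤ)} {l : ℕ} (h : PvmnLaneR τ e l) : 2 ≤ l := by
  by_contra hl
  have h0 := h.start
  have h1 := h.stop
  rcases (by omega : l = 0 ∨ l = 1) with rfl | rfl
  · exact Set.disjoint_left.1 (pvmn_doors_disj hτ) h0 h1
  · rcases pvgw_iter_snd h.mem 0 with h2 | h2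
    · rw [Function.iterate_zero, id] at h2
      rw [zero_add] at h2
      rw [← h2] at h1
      exact Set.disjoint_left.1 (pvmn_doors_disj hτ) h0 h1
    · exact pvmn_doors_nadj hτ _ h0 _ h1 h2

/-- a dart of `K3` whose outer cell is off the door `Dr⁺`: the inner cell is in the tube of the pieces `0..8`, the outer one in their 5-tube -/
theorem pvgw_dart_m {x : (ℤ × ℤ) × (ℤ × ℤ)} (hx : x ∈ pvtrBd (pvmnK3 τ)) (h : x.2 ∉ pvmnDrp τ) : x.1 ∈ pvtwN 4 (pvmnCells τ 0 8) ∧ x.2 ∈ pvtwN 5 (pvmnCells τ 0 8) := by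
  have key : ∀ p : Fin 10, x.2 ∈ pvtwN 5 (τ.C p : Set (ℤ × ℤ)) → p.1 ≤ 8 := by
    intro p hp
    by_contra h9
    have : p = 9 := Fin.ext (by change p.1 = 9; omega)
    subst this
    exact h (pvtw_N_mono (by omega) le_rfl hp)
  obtain ⟨p, _, _, hp⟩ := pvmn_N_cells.1 (pvmn_K3_dart hx).1
  obtain ⟨q, _, _, hq⟩ := pvmn_N_cells.1 (pvmn_K3_dart hx).2
  exact ⟨pvmn_N_cells.2 ⟨p, by omega, key p (pvgw_N_adj hp (Or.inr hx.2.2)), hp⟩, pvmn_N_cells.2 ⟨q, by omega, key q hq, hq⟩⟩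

/-- mirror -/
theorem pvgw_dart_p {x : (ℤ × ℤ) × (ℤ × ℤ)} (hx : x ∈ pvtrBd (pvmnK3 τ)) (h : x.2 ∉ pvmnDrm τ) : x.1 ∈ pvtwN 4 (pvmnCells τ 1 9) ∧ x.2 ∈ pvtwN 5 (pvmnCells τ 1 9) := by
  have key : ∀ p : Fin 10, x.2 ∈ pvtwN 5 (τ.C p : Set (ℤ × ℤ)) → 1 ≤ p.1 := by
    intro p hp
    by_contra h9
    have : p = 0 := Fin.ext (by change p.1 = 0; omega)
    subst this
    exact h (pvtw_N_mono (by omega) le_rfl hp)
  obtain ⟨p, _, hp9, hp⟩ := pvmn_N_cells.1 (pvmn_K3_dart hx).1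
  obtain ⟨q, _, hq9, hq⟩ := pvmn_N_cells.1 (pvmn_K3_dart hx).2
  exact ⟨pvmn_N_cells.2 ⟨p, key p (pvgw_N_adj hp (Or.inr hx.2.2)), hp9, hp⟩, pvmn_N_cells.2 ⟨q, key q hq, hq9, hq⟩⟩

/-- the last dart of the lane before the door `Dr⁺`: its inner cell is in the tube of the piece 8 -/
theorem pvgw_lane_last (hτ : PvmnIsType 𝔑 τ) {e : (ℤ × ℤ) × (ℤ × ℤ)} {l : ℕ} (h : PvmnLaneR τ e l) : ((pvtrStep (pvmnK3 τ))^[l - 1] e).1 ∈ pvtwN 4 (τ.C 8 : Set (ℤ × ℤ)) := by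
  have hl := pvgw_lane_two hτ h
  have hd := pvtr_iter_mem h.mem (l - 1)
  have hoff := h.off (l - 1) (by omega) (by omega)
  obtain ⟨p, _, hp8, hp⟩ := pvmn_N_cells.1 (pvgw_dart_m hd (fun h' => hoff (Or.inr h'))).1
  have h1 := pvgw_iter_snd h.mem (l - 1)
  rw [Nat.sub_add_cancel (by omega)] at h1
  have h2 : ((pvtrStep (pvmnK3 τ))^[l - 1] e).2 ∈ pvtwN 9 (τ.C 9 : Set (ℤ × ℤ)) := pvgw_N_adj' h.stop h1
  have h3 : ((pvtrStep (pvmnK3 τ))^[l - 1] e).1 ∈ pvtwN 10 (τ.C 9 : Set (ℤ × ℤ)) := pvgw_N_adj' h2 (Or.inr hd.2.2)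
  have h4 := (pvgw_far hτ (by omega) (by omega) hp h3).2
  have : p = 8 := Fin.ext (by change p.1 = 8; change 9 ≤ p.1 + 1 at h4; omega)
  subst this
  exact hp

/-- the first dart of the lane after the door `Dr⁻`: its inner cell is in the tube of the piece 1 -/
theorem pvgw_lane_first (hτ : PvmnIsType 𝔑 τ) {e : (ℤ × ℤ) × (ℤ × ℤ)} {l : ℕ} (h : PvmnLaneR τ e l) : ((pvtrStep (pvmnK3 τ))^[1] e).1 ∈ pvtwN 4 (τ.C 1 : Set (ℤ × ℤ)) := by
  have hl := pvgw_lane_two hτ h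
  have hd := pvtr_iter_mem h.mem 1
  have hoff := h.off 1 (by omega) (by omega)
  obtain ⟨p, hp1, _, hp⟩ := pvmn_N_cells.1 (pvgw_dart_p hd (fun h' => hoff (Or.inl h'))).1
  have h1 := pvgw_iter_snd h.mem 0
  have h2 : ((pvtrStep (pvmnK3 τ))^[1] e).2 ∈ pvtwN 9 (τ.C 0 : Set (ℤ × ℤ)) := pvgw_N_adj h.start h1
  have h3 : ((pvtrStep (pvmnK3 τ))^[1] e).1 ∈ pvtwN 10 (τ.C 0 : Set (ℤ × ℤ)) := pvgw_N_adj' h2 (Or.inr hd.2.2)
  have h4 := (pvgw_far hτ (by omega) (by omega) hp h3).1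
  have : p = 1 := Fin.ext (by change p.1 = 1; change p.1 ≤ 0 + 1 at h4; omega)
  subst this
  exact hp

end kit

section glue

variable {𝔑 : PvmnNum} {Ms Mt : PvgwMap} {τs τt : PvmnType} {Fa : Set (ℤ × ℤ)}

/-- a connected set which runs from a cell joined to infinity off `F`, not over `K`, to a cell over `K`, and meets `F` only over `K`: it crosses the contour of `K` under a cell joined to infinity -/
theorem pvgw_wit_aux (M : PvgwMap) {Q F K : Set (ℤ × ℤ)} (hQ : TscConn tscG Q) (h1 : ∃ v ∈ Q, M.ap v ∈ K) (h2 : ∃ v ∈ Q, v ∈ pvtOut F ∧ M.ap v ∉ K) (hF : ∀ v ∈ Q, v ∈ F → M.ap v ∈ K) :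
    ∃ x ∈ pvtrBd K, ∃ v ∈ Q, v ∈ pvtOut F ∧ M.ap v = x.2 := by
  obtain ⟨v1, hv1, hk1⟩ := h1
  obtain ⟨v2, hv2, ho2, hk2⟩ := h2
  have key : ∀ c, TscR tscG Q v2 c → (c ∈ pvtOut F ∧ M.ap c ∉ K) ∨ ∃ x ∈ pvtrBd K, ∃ v ∈ Q, v ∈ pvtOut F ∧ M.ap v = x.2 := by
    intro c hR
    induction hR with
    | refl => exact Or.inl ⟨ho2, hk2⟩
    | @tail b c _ hbc ih =>
      rcases ih with ⟨hb1, hb2⟩ | ih
      · by_cases hc : M.ap c ∈ K
        · refine Or.inr ⟨(M.ap c, M.ap b), ⟨hc, hb2, ?_⟩, b, hbc.2.1, hb1, rfl⟩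
          rcases pvgw_adj M (hx_tri_symm _ _ hbc.1) with h | h
          · exact (hb2 (h ▸ hc)).elim
          · exact h
        · exact Or.inl ⟨pvt_out_R hb1 (tsc_R_step (G := tscG) hbc.1 (pvt_out_sub hb1) (fun h => hc (hF c hbc.2.2 h))), hc⟩
      · exact Or.inr ih
  rcases key v1 (hQ v2 hv2 v1 hv1) with h | h
  · exact (h.2 hk1).elim
  · exact h

theorem pvgw_Ps_K3 : Ms.pre (pvtwN 4 (pvmnCells τs 0 8)) ⊆ Ms.pre (pvmnK3 τs) :=
  pvgw_pre_mono Ms ((pvtw_N_mono le_rfl (pvmn_cells_mono (by omega) (by omega))).trans pvt_hull_sub)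

theorem pvgw_Pt_K3 : Mt.pre (pvtwN 4 (pvmnCells τt 1 9)) ⊆ Mt.pre (pvmnK3 τt) :=
  pvgw_pre_mono Mt ((pvtw_N_mono le_rfl (pvmn_cells_mono (by omega) (by omega))).trans pvt_hull_sub)

/-- **the witness at `s` from a set** (the cells of the backward tail of the rim): `Q` connected, starts over `K3(s)`, ends at a cell joined to infinity off the tube and not over `K3(s)`, off the tube of the arc, off the tube of `t`, off the 5-tube of the pieces `1..9` of `s` -/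
theorem pvgw_wit_s {Q : Set (ℤ × ℤ)} (hQ : TscConn tscG Q) (h1 : ∃ v ∈ Q, Ms.ap v ∈ pvmnK3 τs) (h2 : ∃ v ∈ Q, v ∈ pvtOut (pvgwF Ms Mt τs τt Fa) ∧ Ms.ap v ∉ pvmnK3 τs)
    (hFa : Disjoint Q Fa) (ht : Disjoint Q (Mt.pre (pvtwN 4 (pvmnCells τt 1 9)))) (hs : Disjoint Q (Ms.pre (pvtwN 5 (pvmnCells τs 1 9)))) :
    ∃ x ∈ pvtrBd (pvmnK3 τs), x.2 ∈ pvmnDrm τs ∧ ∃ v ∈ pvtOut (pvgwF Ms Mt τs τt Fa), Ms.ap v = x.2 := by
  obtain ⟨x, hx, v, hvQ, hv, hvx⟩ := pvgw_wit_aux Ms hQ h1 h2 (by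
    rintro v hv ((h | h) | h)
    · exact pvgw_Ps_K3 h
    · exact (Set.disjoint_left.1 hFa hv h).elim
    · exact (Set.disjoint_left.1 ht hv h).elim)
  refine ⟨x, hx, ?_, v, hv, hvx⟩
  obtain ⟨k, _, k2, hk⟩ := pvmn_N_cells.1 (pvmn_K3_dart hx).2
  rcases Nat.eq_zero_or_pos k.1 with h | h
  · have : k = 0 := Fin.ext (by change k.1 = 0; omega)
    subst this
    exact pvtw_N_mono (by omega) le_rfl hk
  · refine (Set.disjoint_left.1 hs hvQ ?_).elim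
    change Ms.ap v ∈ pvtwN 5 (pvmnCells τs 1 9)
    rw [hvx]
    exact pvmn_N_cells.2 ⟨k, by omega, by omega, hk⟩

/-- the witness at `t` from a set (the cells of the forward tail of the rim) -/
theorem pvgw_wit_t {Q : Set (ℤ × ℤ)} (hQ : TscConn tscG Q) (h1 : ∃ v ∈ Q, Mt.ap v ∈ pvmnK3 τt) (h2 : ∃ v ∈ Q, v ∈ pvtOut (pvgwF Ms Mt τs τt Fa) ∧ Mt.ap v ∉ pvmnK3 τt)
    (hFa : Disjoint Q Fa) (hs : Disjoint Q (Ms.pre (pvtwN 4 (pvmnCells τs 0 8)))) (ht : Disjoint Q (Mt.pre (pvtwN 5 (pvmnCells τt 0 8)))) :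
    ∃ x ∈ pvtrBd (pvmnK3 τt), x.2 ∈ pvmnDrp τt ∧ ∃ v ∈ pvtOut (pvgwF Ms Mt τs τt Fa), Mt.ap v = x.2 := by
  obtain ⟨x, hx, v, hvQ, hv, hvx⟩ := pvgw_wit_aux Mt hQ h1 h2 (by
    rintro v hv ((h | h) | h)
    · exact (Set.disjoint_left.1 hs hv h).elim
    · exact (Set.disjoint_left.1 hFa hv h).elim
    · exact pvgw_Pt_K3 h)
  refine ⟨x, hx, ?_, v, hv, hvx⟩
  obtain ⟨k, _, k2, hk⟩ := pvmn_N_cells.1 (pvmn_K3_dart hx).2
  rcases Nat.lt_or_ge k.1 9 with h | h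
  · refine (Set.disjoint_left.1 ht hvQ ?_).elim
    change Mt.ap v ∈ pvtwN 5 (pvmnCells τt 0 8)
    rw [hvx]
    exact pvmn_N_cells.2 ⟨k, by omega, by omega, hk⟩
  · have : k = 9 := Fin.ext (by change k.1 = 9; omega)
    subst this
    exact pvtw_N_mono (by omega) le_rfl hk

/-! ## §4 the tube: connectedness, doors, decided stretches -/

theorem PvgwIn.ap_st (I : PvgwIn 𝔑 Ms Mt τs τt Fa) {v : ℤ × ℤ} {i j p q p' q' : ℕ} (hi : i ≤ 10) (hj : j ≤ 10) (h1 : Ms.ap v ∈ pvtwN i (pvmnCells τs p q))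
    (h2 : Mt.ap v ∈ pvtwN j (pvmnCells τt p' q')) : False :=
  Set.disjoint_left.1 I.apart (pvgw_cells_box I.ts hi h1) (pvgw_cells_box I.tt hj h2)

/-- the tube of the arc keeps off the pieces `0..7` of `s` -/
theorem PvgwIn.Fa_s (I : PvgwIn 𝔑 Ms Mt τs τt Fa) {v : ℤ × ℤ} (hv : v ∈ Fa) {i : ℕ} (hi : i ≤ 9) (h : Ms.ap v ∈ pvtwN i (pvmnCells τs 0 7)) : False := by
  have h1 := I.off_s v hv (pvtw_N_mono hi (pvmn_cells_mono (by omega) (by omega)) h)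
  obtain ⟨k, _, hk7, hk⟩ := pvmn_N_cells.1 h
  have := (pvgw_far I.ts (by omega) (by omega) hk h1).2
  change 9 ≤ k.1 + 1 at this
  omega

/-- the tube of the arc keeps off the pieces `2..9` of `t` -/
theorem PvgwIn.Fa_t (I : PvgwIn 𝔑 Ms Mt τs τt Fa) {v : ℤ × ℤ} (hv : v ∈ Fa) {i : ℕ} (hi : i ≤ 9) (h : Mt.ap v ∈ pvtwN i (pvmnCells τt 2 9)) : False := by
  have h1 := I.off_t v hv (pvtw_N_mono hi (pvmn_cells_mono (by omega) (by omega)) h)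
  obtain ⟨k, hk2, _, hk⟩ := pvmn_N_cells.1 h
  have := (pvgw_far I.tt (by omega) (by omega) hk h1).1
  change k.1 ≤ 0 + 1 at this
  omega

theorem PvgwIn.F_finite (I : PvgwIn 𝔑 Ms Mt τs τt Fa) : (pvgwF Ms Mt τs τt Fa).Finite :=
  ((pvgw_pre_finite Ms (pvtw_N_finite (pvmn_cells_finite τs 0 8))).union I.fin).union (pvgw_pre_finite Mt (pvtw_N_finite (pvmn_cells_finite τt 1 9)))

/-- the middle parts of the tube are connected -/
theorem PvgwIn.conn3 (I : PvgwIn 𝔑 Ms Mt τs τt Fa) {a b : ℕ} (ha : a ≤ 8) (hb : 1 ≤ b) (hb9 : b < 10) :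
    TscConn tscG (Ms.pre (pvtwN 4 (pvmnCells τs a 8)) ∪ Fa ∪ Mt.pre (pvtwN 4 (pvmnCells τt 1 b))) := by
  obtain ⟨v, hv, hvs⟩ := I.touch_s
  obtain ⟨w, hw, hwt⟩ := I.touch_t
  have h1 : TscConn tscG (Ms.pre (pvtwN 4 (pvmnCells τs a 8)) ∪ Fa) :=
    tsc_conn_union (pvgw_pre_conn Ms (pvtw_N_conn (pvmn_cells_conn I.ts ha (by omega)))) I.conn (a := v) (b := v)
      (pvtw_N_mono le_rfl (pvmn_C_sub 8 ha le_rfl) hvs) hv (Or.inl rfl)
  exact tsc_conn_union h1 (pvgw_pre_conn Mt (pvtw_N_conn (pvmn_cells_conn I.tt hb hb9))) (a := w) (b := w) (Or.inr hw)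
    (pvtw_N_mono le_rfl (pvmn_C_sub 1 le_rfl hb) hwt) (Or.inl rfl)

theorem pvgw_sub3 {a b : ℕ} (hb9 : b ≤ 9) : Ms.pre (pvtwN 4 (pvmnCells τs a 8)) ∪ Fa ∪ Mt.pre (pvtwN 4 (pvmnCells τt 1 b)) ⊆ pvgwA Ms Mt τs τt Fa := by
  refine Set.Subset.trans ?_ pvt_hull_sub
  rintro v ((h | h) | h)
  · exact Or.inl (Or.inl (pvtw_N_mono le_rfl (pvmn_cells_mono (by omega) le_rfl) h))
  · exact Or.inl (Or.inr h)
  · exact Or.inr (pvtw_N_mono le_rfl (pvmn_cells_mono le_rfl hb9) h)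

theorem PvgwIn.disj_s (I : PvgwIn 𝔑 Ms Mt τs τt Fa) {p a b : ℕ} (h : p + 2 ≤ a) (ha : a ≤ 8) :
    Disjoint (Ms.pre (pvtwN 4 (pvmnCells τs 0 p))) (Ms.pre (pvtwN 4 (pvmnCells τs a 8)) ∪ Fa ∪ Mt.pre (pvtwN 4 (pvmnCells τt 1 b))) := by
  rw [Set.disjoint_left]
  rintro v hv ((h' | h') | h')
  · exact Set.disjoint_left.1 (pvmn_far_cells I.ts h) (pvtw_N_mono (by omega) le_rfl hv) (pvtw_N_mono (by omega) le_rfl h')
  · exact I.Fa_s h' (i := 4) (by omega) (pvtw_N_mono le_rfl (pvmn_cells_mono le_rfl (by omega)) hv)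
  · exact I.ap_st (by omega) (by omega) hv h'

theorem PvgwIn.disj_t (I : PvgwIn 𝔑 Ms Mt τs τt Fa) {q a b : ℕ} (h : b + 2 ≤ q) (hb : 1 ≤ b) :
    Disjoint (Mt.pre (pvtwN 4 (pvmnCells τt q 9))) (Ms.pre (pvtwN 4 (pvmnCells τs a 8)) ∪ Fa ∪ Mt.pre (pvtwN 4 (pvmnCells τt 1 b))) := by
  rw [Set.disjoint_left]
  rintro v hv ((h' | h') | h')
  · exact I.ap_st (by omega) (by omega) h' hv
  · exact I.Fa_t h' (i := 4) (by omega) (pvtw_N_mono le_rfl (pvmn_cells_mono (by omega) le_rfl) hv)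
  · exact Set.disjoint_left.1 (pvmn_far_cells I.tt h) (pvtw_N_mono (by omega) le_rfl h') (pvtw_N_mono (by omega) le_rfl hv)

/-- the inner cell of a dart of the tube belongs to the unfilled tube -/
theorem pvgw_A_dart {x : (ℤ × ℤ) × (ℤ × ℤ)} (hx : x ∈ pvtrBd (pvgwA Ms Mt τs τt Fa)) : x.1 ∈ pvgwF Ms Mt τs τt Fa :=
  pvt_hull_bd hx.1 (not_not.1 hx.2.1) hx.2.2

/-- **THE TUBE WITH ITS TWO END DOORS** -/
theorem PvgwIn.doors (I : PvgwIn 𝔑 Ms Mt τs τt Fa) :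
    PvriDoors (pvgwA Ms Mt τs τt Fa) (Ms.pre (pvmnDrm τs)) (Mt.pre (pvmnDrp τt)) (Ms.pre (pvtwN 4 (pvmnCells τs 0 1))) (Mt.pre (pvtwN 4 (pvmnCells τt 8 9))) where
  fin := pvt_hull_finite I.F_finite
  conn := pvt_hull_conn (I.conn3 (by omega) (by omega) (by omega))
  free := pvt_hull_free
  sub1 := fun v hv => pvt_hull_sub (Or.inl (Or.inl (pvtw_N_mono le_rfl (pvmn_cells_mono le_rfl (by omega)) hv)))
  sub2 := fun v hv => pvt_hull_sub (Or.inr (pvtw_N_mono le_rfl (pvmn_cells_mono (by omega) le_rfl) hv))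
  conn1 := pvgw_pre_conn Ms (pvtw_N_conn (pvmn_cells_conn I.ts (by omega) (by omega)))
  conn2 := pvgw_pre_conn Mt (pvtw_N_conn (pvmn_cells_conn I.tt (by omega) (by omega)))
  disj := Set.disjoint_left.2 fun v h1 h2 => I.ap_st (by omega) (by omega) h1 h2
  in1 := by
    intro x hx h
    have h9 : Ms.ap x.1 ∈ pvtwN 9 (τs.C 0 : Set (ℤ × ℤ)) := pvgw_N_adj' h (pvgw_adj Ms hx.2.2)
    have h9' : Ms.ap x.1 ∈ pvtwN 9 (pvmnCells τs 0 7) := pvtw_N_mono le_rfl (pvmn_C_sub 0 (by simp) (by simp)) h9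
    rcases pvgw_A_dart hx with (h' | h') | h'
    · obtain ⟨k, _, _, hk⟩ := pvmn_N_cells.1 h'
      have := (pvgw_far I.ts (by omega) (by omega) hk h9).1
      exact pvmn_N_cells.2 ⟨k, by omega, this, hk⟩
    · exact (I.Fa_s h' le_rfl h9').elim
    · exact (I.ap_st (by omega) (by omega) h9' h').elim
  in2 := by
    intro x hx h
    have h9 : Mt.ap x.1 ∈ pvtwN 9 (τt.C 9 : Set (ℤ × ℤ)) := pvgw_N_adj' h (pvgw_adj Mt hx.2.2)
    have h9' : Mt.ap x.1 ∈ pvtwN 9 (pvmnCells τt 2 9) := pvtw_N_mono le_rfl (pvmn_C_sub 9 (by simp) (by simp)) h9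
    rcases pvgw_A_dart hx with (h' | h') | h'
    · exact (I.ap_st (by omega) (by omega) h' h9').elim
    · exact (I.Fa_t h' le_rfl h9').elim
    · obtain ⟨k, _, hk9, hk⟩ := pvmn_N_cells.1 h'
      have := (pvgw_far I.tt (by omega) (by omega) hk h9).2
      change 9 ≤ k.1 + 1 at this
      exact pvmn_N_cells.2 ⟨k, by omega, hk9, hk⟩

/-- **the lane of `s`, without its last dart, is decided** -/
theorem PvgwIn.dec_s (I : PvgwIn 𝔑 Ms Mt τs τt Fa) {e : (ℤ × ℤ) × (ℤ × ℤ)} {l : ℕ} (hs : PvmnLaneR τs e l) : PvgwDec Ms (pvgwA Ms Mt τs τt Fa) (pvmnK3 τs) e (l - 1) := by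
  obtain ⟨x, hx, hx1, v, hv, hvx⟩ := I.wit_s
  obtain ⟨a, ha, hoff⟩ := pvgw_before (pvri_K3_doors I.ts) hs hx hx1
  have hl := pvgw_lane_two I.ts hs
  have hdis : Disjoint (Ms.pre (pvgwOut (pvmnK3 τs) x 0 (a + l - 1))) (pvgwF Ms Mt τs τt Fa) := by
    rw [Set.disjoint_left]
    rintro u ⟨m, _, hm, hu⟩ hF
    have hd := pvtr_iter_mem hx m
    have h5 := pvgw_dart_m hd (hoff m (by omega))
    rw [← hu] at h5
    rcases hF with (h | h) | h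
    · exact hd.2.1 (hu ▸ pvgw_Ps_K3 h)
    · exact hoff m (by omega) (hu ▸ pvtw_N_mono (by omega) le_rfl (I.off_s u h (pvtw_N_mono (by omega) le_rfl h5.2)))
    · exact I.ap_st (by omega) (by omega) h5.2 h
  have hout := pvgw_dec_out Ms (pvgw_out_conn hx 0 (a + l - 1)) hdis hv ⟨0, le_rfl, by omega, hvx⟩
  intro m hm
  have e1 : (pvtrStep (pvmnK3 τs))^[m] e = (pvtrStep (pvmnK3 τs))^[m + a] x := by rw [Function.iterate_add_apply, ha]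
  have hd := pvtr_iter_mem hx (m + a)
  rw [e1]
  constructor
  · intro u hu
    refine pvt_hull_sub (Or.inl (Or.inl ?_))
    change Ms.ap u ∈ pvtwN 4 (pvmnCells τs 0 8)
    rw [hu]
    exact (pvgw_dart_m hd (hoff (m + a) (by omega))).1
  · intro u hu hA
    exact hA (hout ⟨m + a, by omega, by omega, hu⟩)

/-- **the lane of `t`, without its first dart, is decided** -/
theorem PvgwIn.dec_t (I : PvgwIn 𝔑 Ms Mt τs τt Fa) {e : (ℤ × ℤ) × (ℤ × ℤ)} {l : ℕ} (ht : PvmnLaneR τt e l) :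
    PvgwDec Mt (pvgwA Ms Mt τs τt Fa) (pvmnK3 τt) ((pvtrStep (pvmnK3 τt))^[1] e) (l - 1) := by
  obtain ⟨x, hx, hx2, v, hv, hvx⟩ := I.wit_t
  obtain ⟨a, ha, hoff⟩ := pvgw_after (pvri_K3_doors I.tt) ht hx hx2
  have hl := pvgw_lane_two I.tt ht
  have hdis : Disjoint (Mt.pre (pvgwOut (pvmnK3 τt) e 1 (l + a))) (pvgwF Ms Mt τs τt Fa) := by
    rw [Set.disjoint_left]
    rintro u ⟨m, hm1, hm, hu⟩ hF
    have hd := pvtr_iter_mem ht.mem m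
    have h5 := pvgw_dart_p hd (hoff m (by omega) hm)
    rw [← hu] at h5
    rcases hF with (h | h) | h
    · exact I.ap_st (by omega) (by omega) h h5.2
    · exact hoff m (by omega) hm (hu ▸ pvtw_N_mono (by omega) le_rfl (I.off_t u h (pvtw_N_mono (by omega) le_rfl h5.2)))
    · exact hd.2.1 (hu ▸ pvgw_Pt_K3 h)
  have hout := pvgw_dec_out Mt (pvgw_out_conn ht.mem 1 (l + a)) hdis hv ⟨l + a, by omega, le_rfl, by rw [hvx, ha]⟩
  intro m hm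
  rw [← Function.iterate_add_apply]
  have hd := pvtr_iter_mem ht.mem (m + 1)
  constructor
  · intro u hu
    refine pvt_hull_sub (Or.inr ?_)
    change Mt.ap u ∈ pvtwN 4 (pvmnCells τt 1 9)
    rw [hu]
    exact (pvgw_dart_p hd (hoff (m + 1) (by omega) (by omega))).1
  · intro u hu hA
    exact hA (hout ⟨m + 1, by omega, by omega, hu⟩)

/-- **GLUE-W, CELL FORM** -/
theorem pvgw_glue (I : PvgwIn 𝔑 Ms Mt τs τt Fa) {lns lnt : ((ℤ × ℤ) × (ℤ × ℤ)) × ℕ} (hs : PvmnLaneR τs lns.1 lns.2) (ht : PvmnLaneR τt lnt.1 lnt.2) :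
    ∃ S : Set (ℤ × ℤ), S.Finite ∧ TscConn tscG S ∧ Disjoint S (pvgwA Ms Mt τs τt Fa) ∧ (∃ v ∈ S, Ms.ap v = pvlpA1 τs lns) ∧ (∃ v ∈ S, Mt.ap v = pvlpA0 τt lnt) ∧
      ∀ w ∈ S, ∃ b, triAdj b w ∧ b ∈ Ms.pre (pvtwN 4 (pvmnCells τs 7 8)) ∪ Fa ∪ Mt.pre (pvtwN 4 (pvmnCells τt 1 2)) := by
  obtain ⟨es, ls⟩ := lns
  obtain ⟨et, lt⟩ := lnt
  change PvmnLaneR τs es ls at hs
  change PvmnLaneR τt et lt at ht
  have hls := pvgw_lane_two I.ts hs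
  have hlt := pvgw_lane_two I.tt ht
  have Dr := I.doors
  have Ds := I.dec_s hs
  have Dt := I.dec_t ht
  have het1 : (pvtrStep (pvmnK3 τt))^[1] et ∈ pvtrBd (pvmnK3 τt) := pvtr_iter_mem ht.mem 1
  -- a dart of the second door
  have hd2 : ∃ d ∈ pvtrBd (pvgwA Ms Mt τs τt Fa), d.2 ∈ Mt.pre (pvmnDrp τt) := by
    obtain ⟨d, hd, hdd⟩ := pvgw_over Mt het1 Dt (m := lt - 1) le_rfl
    refine ⟨d, hd, ?_⟩
    have h1 : Mt.ap d.2 = ((pvtrStep (pvmnK3 τt))^[lt] et).2 := by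
      have := congrArg Prod.snd hdd
      rw [← Function.iterate_add_apply, Nat.sub_add_cancel (by omega)] at this
      exact this
    change Mt.ap d.2 ∈ pvmnDrp τt
    rw [h1]
    exact ht.stop
  -- the start anchor
  have hD1 : ∀ v, Ms.ap v = es.2 → v ∈ Ms.pre (pvmnDrm τs) := by
    intro v hv
    change Ms.ap v ∈ pvmnDrm τs
    rw [hv]
    exact hs.start
  have hoffs : ∀ m, 0 < m → m ≤ ls - 1 → ∀ v, Ms.ap v = ((pvtrStep (pvmnK3 τs))^[m] es).2 → v ∉ Ms.pre (pvmnDrm τs) ∪ Mt.pre (pvmnDrp τt) := by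
    intro m hm0 hm v hv
    rintro (h | h)
    · have h' : Ms.ap v ∈ pvmnDrm τs := h
      rw [hv] at h'
      exact hs.off m hm0 (by omega) (Or.inl h')
    · have h5 := (pvmn_K3_dart (pvtr_iter_mem hs.mem m)).2
      rw [← hv] at h5
      exact I.ap_st (j := 8) (p' := 9) (q' := 9) (by omega) (by omega) h5 (pvtw_N_mono le_rfl (pvmn_C_sub 9 (by simp) (by simp)) h)
  have hcY : ∀ v, Ms.ap v = ((pvtrStep (pvmnK3 τs))^[ls - 1] es).1 → v ∈ Ms.pre (pvtwN 4 (pvmnCells τs 8 8)) := by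
    intro v hv
    change Ms.ap v ∈ pvtwN 4 (pvmnCells τs 8 8)
    rw [hv]
    exact pvtw_N_mono le_rfl (pvmn_C_sub 8 (by simp) (by simp)) (pvgw_lane_last I.ts hs)
  obtain ⟨e', l', js, L', he', hjs0, hjsl, hjs, -⟩ := pvgw_start Ms Dr hs.mem (c := ls - 1) (by omega) Ds hD1 hoffs
    (I.conn3 (a := 3) (b := 9) (by omega) (by omega) (by omega)) (pvgw_sub3 le_rfl) (I.disj_s (p := 1) (a := 3) (by omega) (by omega))
    (fun v hv => Or.inr (pvtw_N_mono le_rfl (pvmn_cells_mono (by omega) le_rfl) hv))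
    (fun v hv => Or.inl (Or.inl (pvtw_N_mono le_rfl (pvmn_cells_mono (by omega) le_rfl) (hcY v hv)))) hd2
  -- the end anchor
  have hD2 : ∀ v, Mt.ap v = ((pvtrStep (pvmnK3 τt))^[lt - 1] ((pvtrStep (pvmnK3 τt))^[1] et)).2 → v ∈ Mt.pre (pvmnDrp τt) := by
    intro v hv
    change Mt.ap v ∈ pvmnDrp τt
    rw [hv, ← Function.iterate_add_apply, Nat.sub_add_cancel (by omega)]
    exact ht.stop
  have hofft : ∀ m < lt - 1, ∀ v, Mt.ap v = ((pvtrStep (pvmnK3 τt))^[m] ((pvtrStep (pvmnK3 τt))^[1] et)).2 → v ∉ Ms.pre (pvmnDrm τs) ∪ Mt.pre (pvmnDrp τt) := by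
    intro m hm v hv
    rw [← Function.iterate_add_apply] at hv
    rintro (h | h)
    · have h5 := (pvmn_K3_dart (pvtr_iter_mem ht.mem (m + 1))).2
      rw [← hv] at h5
      exact I.ap_st (i := 8) (p := 0) (q := 0) (by omega) (by omega) (pvtw_N_mono le_rfl (pvmn_C_sub 0 (by simp) (by simp)) h) h5
    · have h' : Mt.ap v ∈ pvmnDrp τt := h
      rw [hv] at h'
      exact ht.off (m + 1) (by omega) (by omega) (Or.inr h')
  have hxY : ∀ v, Mt.ap v = ((pvtrStep (pvmnK3 τt))^[1] et).1 → v ∈ Mt.pre (pvtwN 4 (pvmnCells τt 1 1)) := by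
    intro v hv
    change Mt.ap v ∈ pvtwN 4 (pvmnCells τt 1 1)
    rw [hv]
    exact pvtw_N_mono le_rfl (pvmn_C_sub 1 (by simp) (by simp)) (pvgw_lane_first I.tt ht)
  obtain ⟨z', hz', hzz⟩ := pvgw_over Mt het1 Dt (m := 0) (Nat.zero_le _)
  rw [Function.iterate_zero, id] at hzz
  obtain ⟨jt, hjt0, hjtl, hjt⟩ := pvgw_end Mt Dr L' het1 Dt hD2 hofft (by omega)
    (I.conn3 (a := 0) (b := 6) (by omega) (by omega) (by omega)) (pvgw_sub3 (by omega)) (I.disj_t (q := 8) (b := 6) (by omega) (by omega))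
    (fun v hv => Or.inl (Or.inl (pvtw_N_mono le_rfl (pvmn_cells_mono le_rfl (by omega)) hv)))
    (fun v hv => Or.inr (pvtw_N_mono le_rfl (pvmn_cells_mono le_rfl (by omega)) (hxY v hv))) hz' hzz
  -- order along the lane of the tube
  obtain ⟨n, P⟩ := pvri_period Dr.fin L'.mem
  have hln := (Dr.lane_lt L' P).2
  have ord : ∀ {X Y : Set (ℤ × ℤ)}, TscConn tscG X → TscConn tscG Y → X ⊆ pvgwA Ms Mt τs τt Fa → Y ⊆ pvgwA Ms Mt τs τt Fa → Disjoint X Y →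
      Ms.pre (pvtwN 4 (pvmnCells τs 0 1)) ⊆ X → Mt.pre (pvtwN 4 (pvmnCells τt 8 9)) ⊆ Y → ∀ i j, i ≤ l' → j ≤ l' →
      ((pvtrStep (pvgwA Ms Mt τs τt Fa))^[i] e').1 ∈ X → ((pvtrStep (pvgwA Ms Mt τs τt Fa))^[j] e').1 ∈ Y → i < j :=
    fun hX hY hXA hYA hd h1 h2 i j hi hj xi yj => pvgw_order Dr.fin Dr.free L'.mem P hX hY hXA hYA hd hln (h1 (Dr.in1 _ L'.mem L'.start))
      (h2 (Dr.in2 _ (pvtr_iter_mem L'.mem l') L'.stop)) hi hj xi yj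
  have hjs8 : ((pvtrStep (pvgwA Ms Mt τs τt Fa))^[js] e').1 ∈ Ms.pre (pvtwN 4 (pvmnCells τs 8 8)) := hcY _ (congrArg Prod.fst hjs)
  have hjt1 : ((pvtrStep (pvgwA Ms Mt τs τt Fa))^[jt] e').1 ∈ Mt.pre (pvtwN 4 (pvmnCells τt 1 1)) := by
    rw [hjt]
    exact hxY _ (congrArg Prod.fst hzz)
  have hPs : Ms.pre (pvtwN 4 (pvmnCells τs 0 8)) ⊆ pvgwA Ms Mt τs τt Fa := fun v hv => pvt_hull_sub (Or.inl (Or.inl hv))
  have hPt : Mt.pre (pvtwN 4 (pvmnCells τt 1 9)) ⊆ pvgwA Ms Mt τs τt Fa := fun v hv => pvt_hull_sub (Or.inr hv)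
  have hjj : js < jt := ord (pvgw_pre_conn Ms (pvtw_N_conn (pvmn_cells_conn I.ts (a := 0) (b := 8) (by omega) (by omega))))
    (pvgw_pre_conn Mt (pvtw_N_conn (pvmn_cells_conn I.tt (a := 1) (b := 9) (by omega) (by omega)))) hPs hPt
    (Set.disjoint_left.2 fun v h1 h2 => I.ap_st (by omega) (by omega) h1 h2)
    (pvgw_pre_mono Ms (pvtw_N_mono le_rfl (pvmn_cells_mono le_rfl (by omega)))) (pvgw_pre_mono Mt (pvtw_N_mono le_rfl (pvmn_cells_mono (by omega) le_rfl)))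
    js jt hjsl.le hjtl.le (pvgw_pre_mono Ms (pvtw_N_mono le_rfl (pvmn_cells_mono (by omega) le_rfl)) hjs8)
    (pvgw_pre_mono Mt (pvtw_N_mono le_rfl (pvmn_cells_mono le_rfl (by omega))) hjt1)
  refine ⟨pvgwOut (pvgwA Ms Mt τs τt Fa) e' js jt, pvgw_out_finite _ _ _ _, pvgw_out_conn L'.mem _ _, pvgw_out_off L'.mem _ _,
    ⟨_, ⟨js, le_rfl, hjj.le, rfl⟩, congrArg Prod.snd hjs⟩, ⟨_, ⟨jt, hjj.le, le_rfl, rfl⟩, ?_⟩, ?_⟩
  · rw [hjt]
    exact congrArg Prod.snd hzz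
  · rintro w ⟨i, hi1, hi2, rfl⟩
    have hd := pvtr_iter_mem L'.mem i
    refine ⟨_, hd.2.2, ?_⟩
    rcases pvgw_A_dart hd with (h | h) | h
    · obtain ⟨k, _, hk8, hk⟩ := pvmn_N_cells.1 h
      rcases Nat.lt_or_ge k.1 7 with h7 | h7
      · have := ord (pvgw_pre_conn Ms (pvtw_N_conn (pvmn_cells_conn I.ts (a := 0) (b := 6) (by omega) (by omega))))
          (I.conn3 (a := 8) (b := 9) (by omega) (by omega) (by omega)) ((pvgw_pre_mono Ms (pvtw_N_mono le_rfl (pvmn_cells_mono le_rfl (by omega)))).trans hPs) (pvgw_sub3 le_rfl)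
          (I.disj_s (p := 6) (a := 8) (by omega) (by omega)) (pvgw_pre_mono Ms (pvtw_N_mono le_rfl (pvmn_cells_mono le_rfl (by omega))))
          (fun v hv => Or.inr (pvtw_N_mono le_rfl (pvmn_cells_mono (by omega) le_rfl) hv)) i js (by omega) hjsl.le
          (pvmn_N_cells.2 ⟨k, by omega, by omega, hk⟩) (Or.inl (Or.inl hjs8))
        omega
      · exact Or.inl (Or.inl (pvmn_N_cells.2 ⟨k, h7, hk8, hk⟩))
    · exact Or.inl (Or.inr h)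
    · obtain ⟨k, hk1, hk9, hk⟩ := pvmn_N_cells.1 h
      rcases Nat.lt_or_ge k.1 3 with h3 | h3
      · exact Or.inr (pvmn_N_cells.2 ⟨k, hk1, by omega, hk⟩)
      · have := ord (I.conn3 (a := 0) (b := 1) (by omega) (by omega) (by omega))
          (pvgw_pre_conn Mt (pvtw_N_conn (pvmn_cells_conn I.tt (a := 3) (b := 9) (by omega) (by omega)))) (pvgw_sub3 (by omega))
          ((pvgw_pre_mono Mt (pvtw_N_mono le_rfl (pvmn_cells_mono (by omega) le_rfl))).trans hPt)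
          (I.disj_t (q := 3) (b := 1) (by omega) (by omega)).symm
          (fun v hv => Or.inl (Or.inl (pvtw_N_mono le_rfl (pvmn_cells_mono le_rfl (by omega)) hv)))
          (pvgw_pre_mono Mt (pvtw_N_mono le_rfl (pvmn_cells_mono (by omega) le_rfl))) jt i hjtl.le (by omega)
          (Or.inr hjt1) (pvmn_N_cells.2 ⟨k, h3, hk9, hk⟩)
        omega

/-! ## §5 the polyomino of the link -/

/-- inside the `3 × 3` block of a cell of `E` -/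
theorem pvgw_N1_star {E : Set (ℤ × ℤ)} {z w : ℤ × ℤ} (hz : z ∈ E) (hw : w ∈ pvtwN 1 {z}) : TscR pvtbG4 (pvtwN 1 E) z w := by
  obtain ⟨z0, hz0, h1, h2, h3, h4⟩ := hw
  obtain rfl : z0 = z := hz0
  have hzN : z0 ∈ pvtwN 1 E := pvtw_N_sub hz
  have hmid : (w.1, z0.2) ∈ pvtwN 1 E := ⟨z0, hz, h1, h2, by simp only; omega, by simp only; omega⟩
  have hwN : w ∈ pvtwN 1 E := ⟨z0, hz, h1, h2, h3, h4⟩
  have s1 : TscR pvtbG4 (pvtwN 1 E) z0 (w.1, z0.2) := by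
    rcases (by omega : w.1 = z0.1 ∨ w.1 = z0.1 + 1 ∨ w.1 = z0.1 - 1) with e | e | e
    · rw [e]
      exact tsc_R_refl _
    · exact tsc_R_step ((pvtb_G4_adj _ _).2 (Or.inl ⟨e, rfl⟩)) hzN hmid
    · exact tsc_R_step ((pvtb_G4_adj _ _).2 (Or.inr (Or.inl ⟨e, rfl⟩))) hzN hmid
  have s2 : TscR pvtbG4 (pvtwN 1 E) (w.1, z0.2) w := by
    rcases (by omega : w.2 = z0.2 ∨ w.2 = z0.2 + 1 ∨ w.2 = z0.2 - 1) with e | e | e
    · rw [← e]
      exact tsc_R_refl _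
    · exact tsc_R_step ((pvtb_G4_adj _ _).2 (Or.inr (Or.inr (Or.inl ⟨rfl, e⟩)))) hmid hwN
    · exact tsc_R_step ((pvtb_G4_adj _ _).2 (Or.inr (Or.inr (Or.inr ⟨rfl, e⟩)))) hmid hwN
  exact tsc_R_trans s1 s2

/-- the 1-collar of a connected set is SIDE-connected -/
theorem pvgw_N1_conn4 {E : Set (ℤ × ℤ)} (hE : TscConn tscG E) : TscConn pvtbG4 (pvtwN 1 E) := by
  have key : ∀ x ∈ E, ∀ y, TscR tscG E x y → TscR pvtbG4 (pvtwN 1 E) x y := by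
    intro x hx y h
    induction h with
    | refl => exact tsc_R_refl _
    | tail _ st ih =>
      obtain ⟨-, g1, g2, g3, g4⟩ := (pvtb_G8_adj _ _).1 (pvtb_tri_G8 st.1)
      exact tsc_R_trans ih (pvgw_N1_star st.2.1 ⟨_, rfl, by omega, by omega, by omega, by omega⟩)
  rintro u ⟨x, hx, hu⟩ v ⟨y, hy, hv⟩
  exact tsc_R_trans (tsc_R_symm (pvgw_N1_star hx ⟨x, rfl, hu⟩)) (tsc_R_trans (key x hx y (hE x hx y hy)) (pvgw_N1_star hy ⟨y, rfl, hv⟩))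

theorem PvgwMap.f_lip (M : PvgwMap) (x : ℤ) (n : ℕ) : M.f (x + n) ≤ M.f x + n := by
  induction n with
  | zero => simp
  | succ n ih =>
    have := (M.f_step (x + n)).2
    push_cast
    rw [← add_assoc]
    omega

theorem PvgwMap.g_lip (M : PvgwMap) (x : ℤ) (n : ℕ) : M.g (x + n) ≤ M.g x + n := by
  induction n with
  | zero => simp
  | succ n ih =>
    have := (M.g_step (x + n)).2
    push_cast
    rw [← add_assoc]
    omega

/-- the collar of a refinement lies in the refinement of the collar -/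
theorem pvgw_N_pre (M : PvgwMap) (k : ℕ) (E : Set (ℤ × ℤ)) : pvtwN k (M.pre E) ⊆ M.pre (pvtwN k E) := by
  rintro w ⟨z, hz, h1, h2, h3, h4⟩
  exact ⟨M.ap z, hz, (M.f_mono h1).trans (M.f_lip _ _), (M.f_mono h2).trans (M.f_lip _ _), (M.g_mono h3).trans (M.g_lip _ _), (M.g_mono h4).trans (M.g_lip _ _)⟩

theorem pvgw_W_finite {S : Set (ℤ × ℤ)} {rs rt : ℤ × ℤ} (hS : S.Finite) : (pvgwW Ms Mt rs rt S).Finite :=
  pvtw_N_finite ((hS.union (pvgw_pre_finite Ms (pvtw_N_finite (Set.finite_singleton rs)))).union (pvgw_pre_finite Mt (pvtw_N_finite (Set.finite_singleton rt))))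

theorem pvgw_single_conn (r : ℤ × ℤ) : TscConn tscG ({r} : Set (ℤ × ℤ)) := by
  rintro u rfl v rfl
  exact tsc_R_refl _

/-- the core of the polyomino is connected -/
theorem pvgw_W_core_conn {S : Set (ℤ × ℤ)} {rs rt : ℤ × ℤ} (hS : TscConn tscG S) (h1 : ∃ v ∈ S, Ms.ap v = rs) (h2 : ∃ v ∈ S, Mt.ap v = rt) :
    TscConn tscG (S ∪ Ms.pre (pvtwN 1 {rs}) ∪ Mt.pre (pvtwN 1 {rt})) := by
  obtain ⟨v, hv, hvs⟩ := h1
  obtain ⟨w, hw, hwt⟩ := h2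
  have c1 : TscConn tscG (S ∪ Ms.pre (pvtwN 1 {rs})) :=
    tsc_conn_union hS (pvgw_pre_conn Ms (pvtw_N_conn (pvgw_single_conn rs))) (a := v) (b := v) hv (pvtw_N_sub hvs) (Or.inl rfl)
  exact tsc_conn_union c1 (pvgw_pre_conn Mt (pvtw_N_conn (pvgw_single_conn rt))) (a := w) (b := w) (Or.inl hw) (pvtw_N_sub hwt) (Or.inl rfl)

/-- the polyomino of the link is SIDE-connected -/
theorem pvgw_W_conn {S : Set (ℤ × ℤ)} {rs rt : ℤ × ℤ} (hS : TscConn tscG S) (h1 : ∃ v ∈ S, Ms.ap v = rs) (h2 : ∃ v ∈ S, Mt.ap v = rt) : TscConn pvtbG4 (pvgwW Ms Mt rs rt S) :=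
  pvgw_N1_conn4 (pvgw_W_core_conn hS h1 h2)

/-- where the polyomino is -/
theorem pvgw_W_sub {S : Set (ℤ × ℤ)} {rs rt : ℤ × ℤ} : pvgwW Ms Mt rs rt S ⊆ pvtwN 1 S ∪ Ms.pre (pvtwN 2 {rs}) ∪ Mt.pre (pvtwN 2 {rt}) := by
  rw [pvgwW, pvtw_N_union, pvtw_N_union]
  rintro v ((h | h) | h)
  · exact Or.inl (Or.inl h)
  · have := pvgw_N_pre Ms 1 _ h
    rw [pvtw_N_add] at this
    exact Or.inl (Or.inr this)
  · have := pvgw_N_pre Mt 1 _ h
    rw [pvtw_N_add] at this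
    exact Or.inr this

/-- the hook zones: every link cell over the `3 × 3` block of the end cell of the lane is in the polyomino -/
theorem pvgw_W_s {S : Set (ℤ × ℤ)} {rs rt : ℤ × ℤ} : Ms.pre (pvtwN 1 {rs}) ⊆ pvgwW Ms Mt rs rt S := fun v hv => pvtw_N_sub (Or.inl (Or.inr hv))

theorem pvgw_W_t {S : Set (ℤ × ℤ)} {rs rt : ℤ × ℤ} : Mt.pre (pvtwN 1 {rt}) ⊆ pvgwW Ms Mt rs rt S := fun v hv => pvtw_N_sub (Or.inr hv)

/-- the collar of `S` keeps off the thinner tube -/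
theorem pvgw_N1_off {S E : Set (ℤ × ℤ)} {k : ℕ} (h : Disjoint S (pvtwN (k + 1) E)) : Disjoint (pvtwN 1 S) (pvtwN k E) :=
  pvmn_N_disj (by rwa [Nat.add_comm])

end glue

end Claimed.Agent.R289
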