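-- KEEP
import Claimed.Agent.R289.Tr.GlueFit
import Claimed.Agent.R289.Tr.GlueWT

/-!
# Row 289 (S0537, Cardy for Poisson-Voronoi), THE WALL, ROAD P, file Tr/GlueIn : THE PRODUCER OF THE FIT-TIME CLAUSES `PvgwIn` OF GLUE-W (205, `Tr/GlueWT.lean`)      (owner helper222; prefix `pvqg_`)      0 sorry

Setting: `I : PvqgIn 𝔑 ty k dc δ .. P s t cs ct ts tt kb kf` of `Tr/PlugMet` (two fitted pins of one rim, `δ = k dc`: here `dc` = THE MESH OF THE LINK CELLS, any divisor of the menu mesh), numbers `PvqgNum3 𝔑 k a dc δ μ' ρ' hh b ρ R D`.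
* sec. 1  `pvqgM k hk a : PvgwMap` (link cell `↦` menu cell of the pin with the centre `a`, `= pvgwDiv k _ (pvqgK k a)`), `pvqg_M_pre` (`(pvqgM k hk a).pre E = pvfjSh (pvqgK k a) (pvrcRef k E)`: THE PLACED REFINEMENT OF 236 / 138),
          `pvqg_M_U` (its region `= pvmgPl (pvmgPt δ a) δ E`), `pvqg_M_sq`, `pvqg_M_ctr`, `pvqg_M_lip` (`a ≤ k` link cells are at most one menu cell), `pvqg_poly_sub`, `pvqg_near`
* sec. 2  `I.Fa a := N^a (link cells of P[t₉(s), t₁(t)])`, `cell_C`, `off_s`, `off_t`, `touch_s'`, `touch_t'`, `apart_box`, `F_loc`, `F_bx`, `tailB_arc'`, `tailF_arc'` (margin `2 (a+1) dc`), `glue_wit_s`, `glue_wit_t`,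
          **`PvqgIn.glueIn : PvgwIn 𝔑 (pvqgM k I.hk cs) (pvqgM k I.hk ct) (ty s.typ) (ty t.typ) (I.Fa a)`**,
          `cell_cells`, **`arc_split`**, **`arc_sub_F`** (the unfilled tube `pvgwF` contains the `a`-collar of the link cells of THE WHOLE ARC `P[s.idx, t.idx]`)
-/

set_option autoImplicit false
set_option linter.unusedSectionVars false
set_option linter.unusedVariables false

namespace Claimed.Agent.R289

open Relation Claims.C0467 Claimed.Agent.R291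

/-! ## 1. the map link cell ↦ menu cell of a pin -/

section kit

variable {k a' : ℕ} {dc δ : ℝ} {E : Set (ℤ × ℤ)} {a c v : ℤ × ℤ} {p z : ℂ}

/-- link cell `↦` menu cell of the pin with the centre `a` (in menu cells): floor division by `k` after the shift by `k a` -/
def pvqgM (k : ℕ) (hk : 0 < k) (a : ℤ × ℤ) : PvgwMap := pvgwDiv (k : ℤ) (by exact_mod_cast hk) (pvqgK k a)

theorem pvqg_eqns_cite6 : True := by
  have := @pvqgM.eq_1
  trivial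

theorem pvqg_M_pre (hk : 0 < k) (a : ℤ × ℤ) (E : Set (ℤ × ℤ)) : (pvqgM k hk a).pre E = pvfjSh (pvqgK k a) (pvrcRef k E) := by
  ext v
  constructor
  · intro hv
    exact ⟨v - pvqgK k a, hv, sub_add_cancel _ _⟩
  · rintro ⟨u, hu, rfl⟩
    show (((u + pvqgK k a).1 - (pvqgK k a).1) / (k : ℤ), ((u + pvqgK k a).2 - (pvqgK k a).2) / (k : ℤ)) ∈ E
    simp only [Prod.fst_add, Prod.snd_add, add_sub_cancel_right]
    exact hu

theorem pvqg_M_U (hk : 0 < k) (hdc : 0 < dc) (a : ℤ × ℤ) (E : Set (ℤ × ℤ)) : pvtU dc ((pvqgM k hk a).pre E) = pvmgPl (pvmgPt ((k : ℝ) * dc) a) ((k : ℝ) * dc) E := by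
  rw [pvqg_M_pre, pvqg_U_sh hk hdc]

/-- a point of a link cell lies in the placed menu cell under it -/
theorem pvqg_M_sq (hk : 0 < k) (hdc : 0 < dc) (a : ℤ × ℤ) (hp : p ∈ pvtSq dc c) : p - pvmgPt ((k : ℝ) * dc) a ∈ pvtSq ((k : ℝ) * dc) ((pvqgM k hk a).ap c) := by
  have h1 : p ∈ pvtU dc ((pvqgM k hk a).pre {(pvqgM k hk a).ap c}) := Set.mem_iUnion₂.2 ⟨c, rfl, hp⟩
  rw [pvqg_M_U hk hdc] at h1
  obtain ⟨c', hc', h2⟩ := pvmg_mem_sq.1 h1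
  rw [Set.mem_singleton_iff] at hc'
  rwa [hc'] at h2

/-- the centre of a link cell over `E` -/
theorem pvqg_M_ctr (hk : 0 < k) (hdc : 0 < dc) (a : ℤ × ℤ) (hv : (pvqgM k hk a).ap v ∈ E) : pvtCtr dc v ∈ pvmgPl (pvmgPt ((k : ℝ) * dc) a) ((k : ℝ) * dc) E := by
  rw [← pvqg_M_U hk hdc]
  exact pvqg_ctr_U hdc.le hv

theorem pvqg_div_lip {k x y o : ℤ} (hk : 0 < k) (h : x ≤ y + k) : (x - o) / k ≤ (y - o) / k + 1 := by
  have e : (y - o + k) / k = (y - o) / k + 1 := by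
    rw [Int.add_ediv_of_dvd_right (dvd_refl k), Int.ediv_self hk.ne']
  rw [← e]
  exact Int.ediv_le_ediv hk (by omega)

/-- `k` link cells are at most one menu cell -/
theorem pvqg_M_lip (hk : 0 < k) (a : ℤ × ℤ) (ha : a' ≤ k) (hv : v ∈ pvtwN a' E) : (pvqgM k hk a).ap v ∈ pvtwN 1 ((pvqgM k hk a).ap '' E) := by
  obtain ⟨c, hc, h1, h2, h3, h4⟩ := hv
  have hkz : (0 : ℤ) < (k : ℤ) := by exact_mod_cast hk
  have ha' : (a' : ℤ) ≤ (k : ℤ) := by exact_mod_cast ha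
  refine ⟨_, ⟨c, hc, rfl⟩, ?_, ?_, ?_, ?_⟩
  · exact pvqg_div_lip hkz (by omega)
  · exact pvqg_div_lip hkz (by omega)
  · exact pvqg_div_lip hkz (by omega)
  · exact pvqg_div_lip hkz (by omega)

theorem pvqg_poly_sub {v : ℕ → ℂ} {i j : ℕ} (hp : p ∈ pvtxPoly v i j) : p - z ∈ pvtxPoly (fun l => v l - z) i j := by
  rcases pvtx_mem_poly.1 hp with rfl | ⟨l, l1, l2, l3⟩
  · exact pvtx_mem_poly.2 (Or.inl rfl)
  · refine pvtx_mem_poly.2 (Or.inr ⟨l, l1, l2, ?_⟩)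
    have := (mem_segment_translate ℝ (-z) (x := p) (b := v l) (c := v (l + 1))).2 l3
    simpa only [neg_add_eq_sub] using this

theorem pvqg_near (hdc : 0 < dc) (hpc : p ∈ pvtSq dc c) (hv : v ∈ pvtwN a' {c}) : ‖p - pvtCtr dc v‖ ≤ 2 * ((a' : ℝ) + 1) * dc := by
  have h1 : v ∈ pvtwN a' (pvtCells dc {p}) := pvtw_N_mono le_rfl (Set.singleton_subset_iff.2 (show c ∈ pvtCells dc {p} from ⟨p, hpc, rfl⟩)) hv
  obtain ⟨p', hp', h2⟩ := pvtx_ctr_N_cells hdc h1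
  rw [Set.mem_singleton_iff] at hp'
  rwa [hp'] at h2

end kit

/-! ## 2. the producer -/

/-- the numbers of the producer: `a` = the collar of the tube of the arc, in link cells -/
structure PvqgNum3 (𝔑 : PvmnNum) (k a : ℕ) (dc δ μ' ρ' hh b ρ R D : ℝ) : Prop where
  a_lt : a + 1 ≤ k
  rho : 2 * ((a : ℝ) + 1) * dc + 2 * μ' ≤ ρ'
  apart : 2 * ((2 * 𝔑.nBx + 21 : ℕ) : ℝ) * δ ≤ D
  loc : hh + 2 * ((𝔑.nBx : ℝ) + 11) * δ + 2 * dc ≤ 4 / 5 * R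
  wide : b + 2 * ρ ≤ D

namespace PvqgIn

variable {T : Type} {𝔑 : PvmnNum} {ty : T → PvmnType} {k K a' : ℕ} {dc δ μ μ' ρ' σ' hh a b ρ d0 e0 d1 e1 RB R D h : ℝ} {x : ℂ} {P : PvbRim} {s t : PvbPin T} {cs ct : ℤ × ℤ} {ts tt : ℕ → ℕ}
  {kb kf : ℕ} {𝔐 : PvbMenu T} (I : PvqgIn 𝔑 ty k dc δ μ μ' ρ' σ' hh a b ρ d0 e0 d1 e1 RB R D h x 𝔐 P s t cs ct ts tt kb kf)

/-- the tube of the arc, in link cells -/
def Fa (_I : PvqgIn 𝔑 ty k dc δ μ μ' ρ' σ' hh a b ρ d0 e0 d1 e1 RB R D h x 𝔐 P s t cs ct ts tt kb kf) (a' : ℕ) : Set (ℤ × ℤ) := pvtwN a' (pvtCells dc (pvtxPoly P.v (ts 9) (tt 1)))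

theorem _root_.Claimed.Agent.R289.pvqg_eqns_cite7 : True := by
  have := @PvqgIn.Fa.eq_1
  trivial

include I

/-- a link cell which meets the piece `n` of a pin lies over a cell of `C n` -/
theorem cell_C {u : PvbPin T} {cu : ℤ × ℤ} {tu : ℕ → ℕ} (Su : PvqgPin ty δ μ hh a b ρ d0 e0 d1 e1 P u cu tu) (n : Fin 10) {c : ℤ × ℤ} (hc : c ∈ pvtCells dc (pvtxPoly P.v (tu n.1) (tu (n.1 + 1)))) :
    (pvqgM k I.hk cu).ap c ∈ ((ty u.typ).C n : Set (ℤ × ℤ)) := by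
  obtain ⟨p, hpc, hp⟩ := hc
  have h1 := pvqg_M_sq I.hk I.hdc cu hpc
  rw [← I.hδ, ← Su.ctr] at h1
  rw [Su.fits.cells n]
  exact ⟨p - u.ctr, h1, pvqg_poly_sub hp⟩

/-- the centre of a link cell over `E` lies in the placed `E` -/
theorem ctr_pl {u : PvbPin T} {cu : ℤ × ℤ} {tu : ℕ → ℕ} (Su : PvqgPin ty δ μ hh a b ρ d0 e0 d1 e1 P u cu tu) {E : Set (ℤ × ℤ)} {v : ℤ × ℤ} (hv : (pvqgM k I.hk cu).ap v ∈ E) : pvtCtr dc v ∈ pvmgPl u.ctr δ E := by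
  have := pvqg_M_ctr I.hk I.hdc cu hv
  rwa [← I.hδ, ← Su.ctr] at this

theorem U_pl {u : PvbPin T} {cu : ℤ × ℤ} {tu : ℕ → ℕ} (Su : PvqgPin ty δ μ hh a b ρ d0 e0 d1 e1 P u cu tu) (E : Set (ℤ × ℤ)) : pvtU dc ((pvqgM k I.hk cu).pre E) = pvmgPl u.ctr δ E := by
  rw [pvqg_M_U I.hk I.hdc, ← I.hδ, ← Su.ctr]

variable (N3 : PvqgNum3 𝔑 k a' dc δ μ' ρ' hh b ρ R D)

include N3

theorem hD : e1 + ρ + hh < D := by
  have h1 := I.N.e1_lt; have h2 := I.N.μ_nn; have h3 := N3.wide; have h4 := I.N.ρ_ge; have h5 := I.N.b_pos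
  linarith

theorem hD2 : 2 * ρ < D := by
  have h3 := N3.wide; have h5 := I.N.b_pos
  linarith

theorem num_a : ((a' : ℝ) + 1) * dc ≤ δ := by
  have h1 : ((a' : ℝ) + 1) ≤ (k : ℝ) := by exact_mod_cast N3.a_lt
  rw [I.hδ]
  exact mul_le_mul_of_nonneg_right h1 I.hdc.le

theorem le_10_1 : ts 10 ≤ tt 1 := (I.ord_mid (I.hD2 N3)).trans (I.le_t (by omega) (by omega))

theorem le_9_0 : ts 9 ≤ tt 0 := (I.le_s (by omega) le_rfl).trans (I.ord_mid (I.hD2 N3))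

omit N3 in
theorem s_le_9 : s.idx ≤ ts 9 := by rw [← I.Ss.idx]; exact I.le_s (by omega) (by omega)

omit N3 in
theorem t1_le : tt 1 ≤ t.idx := by rw [← I.St.idx]; exact I.le_t (by omega) (by omega)

/-- the stretch of the tube of the arc is part of the arc -/
theorem Fa_arc : pvtxPoly P.v (ts 9) (tt 1) ⊆ pvtxPoly P.v s.idx t.idx :=
  pvtx_poly_mono I.s_le_9 I.t1_le ((I.le_9_0 N3).trans I.t0_le)

/-- **near the pieces `0..8` of `s` the tube of the arc is the tube of the piece `9`** -/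
theorem off_s {v : ℤ × ℤ} (hv : v ∈ I.Fa a') (h9 : (pvqgM k I.hk cs).ap v ∈ pvtwN 9 (pvmnCells (ty s.typ) 0 8)) : (pvqgM k I.hk cs).ap v ∈ pvtwN 1 ((ty s.typ).C 9 : Set (ℤ × ℤ)) := by
  obtain ⟨c, ⟨p, hpc, hp⟩, hvc⟩ := pvtw_N_iff.1 hv
  rw [pvtx_poly_union (k := ts 10) (I.le_s (by omega) le_rfl) (I.le_10_1 N3)] at hp
  rcases hp with hp | hp
  · have h1 := I.cell_C I.Ss 9 (c := c) ⟨p, hpc, hp⟩
    have h2 := pvqg_M_lip I.hk cs (a' := a') (by have := N3.a_lt; omega) hvc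
    refine pvtw_N_mono le_rfl ?_ h2
    rintro _ ⟨_, rfl, rfl⟩
    exact h1
  · exfalso
    have hq := I.ctr_pl I.Ss h9
    have far := pvqg_poly_far I.N2.μ_nn (I.le_10_1 N3) (I.mesh_of (I.H.kb_lt.le.trans I.s_le_10) (I.t1_le.trans I.H.lt_kf.le))
      (fun l l1 l2 => pvqg_fwd I.Ss.inn I.N I.Ss.fits (j := 8) (by omega) hq l1 (l2.trans (I.t1_le.trans I.t_le_len))) hp
    have near := pvqg_near I.hdc hpc hvc
    have n1 := I.num_a N3; have n2 := I.N.d1_ge; have n3 := I.N.μ_le; have n4 := I.N2.μ_le; have n5 := I.N.δ_pos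
    push_cast at far
    linarith

/-- **near the pieces `1..9` of `t` the tube of the arc is the tube of the piece `0`** -/
theorem off_t {v : ℤ × ℤ} (hv : v ∈ I.Fa a') (h9 : (pvqgM k I.hk ct).ap v ∈ pvtwN 9 (pvmnCells (ty t.typ) 1 9)) : (pvqgM k I.hk ct).ap v ∈ pvtwN 1 ((ty t.typ).C 0 : Set (ℤ × ℤ)) := by
  obtain ⟨c, ⟨p, hpc, hp⟩, hvc⟩ := pvtw_N_iff.1 hv
  rw [pvtx_poly_union (k := tt 0) (I.le_9_0 N3) (I.le_t (by omega) (by omega))] at hp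
  rcases hp with hp | hp
  · exfalso
    have hq := I.ctr_pl I.St h9
    have far := pvqg_poly_far I.N2.μ_nn (I.le_9_0 N3) (I.mesh_of (I.H.kb_lt.le.trans I.s_le_9) (I.t0_le.trans I.H.lt_kf.le))
      (fun l l1 l2 => pvqg_bwd I.St.inn I.N I.St.fits (i := 1) le_rfl hq l2) hp
    have near := pvqg_near I.hdc hpc hvc
    have n1 := I.num_a N3; have n2 := I.N.d1_ge; have n3 := I.N.μ_le; have n4 := I.N2.μ_le; have n5 := I.N.δ_pos
    push_cast at far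
    linarith
  · have h1 := I.cell_C I.St 0 (c := c) ⟨p, hpc, hp⟩
    have h2 := pvqg_M_lip I.hk ct (a' := a') (by have := N3.a_lt; omega) hvc
    refine pvtw_N_mono le_rfl ?_ h2
    rintro _ ⟨_, rfl, rfl⟩
    exact h1

omit N3 in
theorem Fa_finite : (I.Fa a').Finite := pvtw_N_finite (pvt_cells_finite I.hdc (pvtx_poly_bounded _ _ _))

omit N3 in
theorem Fa_conn : TscConn tscG (I.Fa a') := pvtw_N_conn (pvt_cells_conn I.hdc (pvtx_poly_preconn _ _ _) (pvtx_poly_bounded _ _ _))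

theorem touch_s' : ∃ v ∈ I.Fa a', (pvqgM k I.hk cs).ap v ∈ pvtwN 4 ((ty s.typ).C 8 : Set (ℤ × ℤ)) := by
  obtain ⟨v, hv⟩ := pvt_sq_cover I.hdc (P.v (ts 9))
  exact ⟨v, pvtw_N_sub ⟨P.v (ts 9), hv, pvtx_vertex_mem le_rfl ((I.le_9_0 N3).trans (I.le_t (by omega) (by omega)))⟩,
    pvtw_N_sub (I.cell_C I.Ss 8 (c := v) ⟨P.v (ts 9), hv, pvtx_vertex_mem (I.le_s (by omega) (by omega)) le_rfl⟩)⟩

theorem touch_t' : ∃ v ∈ I.Fa a', (pvqgM k I.hk ct).ap v ∈ pvtwN 4 ((ty t.typ).C 1 : Set (ℤ × ℤ)) := by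
  obtain ⟨v, hv⟩ := pvt_sq_cover I.hdc (P.v (tt 1))
  exact ⟨v, pvtw_N_sub ⟨P.v (tt 1), hv, pvtx_vertex_mem ((I.le_9_0 N3).trans (I.le_t (by omega) (by omega))) le_rfl⟩,
    pvtw_N_sub (I.cell_C I.St 1 (c := v) ⟨P.v (tt 1), hv, pvtx_vertex_mem le_rfl (I.le_t (by omega) (by omega))⟩)⟩

/-- **the two plugs are apart** -/
theorem apart_box : Disjoint ((pvqgM k I.hk cs).pre (pvmnBox (𝔑.nBx + 10))) ((pvqgM k I.hk ct).pre (pvmnBox (𝔑.nBx + 10))) := by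
  rw [Set.disjoint_left]
  intro v h1 h2
  have hkz : (k : ℤ) ≠ 0 := by exact_mod_cast I.hk.ne'
  have hfar := pvqg_far_int (n := 2 * 𝔑.nBx + 21) I.N.δ_pos (a := cs) (c := ct) (by rw [← I.Ss.ctr, ← I.St.ctr]; exact N3.apart.trans I.far)
  obtain ⟨a1, a2, a3, a4⟩ := h1
  obtain ⟨b1, b2, b3, b4⟩ := h2
  simp only [pvqgM, pvgwDiv, PvgwMap.ap, pvqgK, Int.sub_mul_ediv_left _ _ hkz] at a1 a2 a3 a4 b1 b2 b3 b4
  push_cast at hfar a1 a2 a3 a4 b1 b2 b3 b4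
  rcases hfar with hf | hf
  · rcases le_abs.1 hf with hf | hf <;> omega
  · rcases le_abs.1 hf with hf | hf <;> omega

/-- a link cell over the box of a pin of the arc lies in `B(x, 2.8 R)` -/
theorem box_loc {u : PvbPin T} {cu : ℤ × ℤ} {tu : ℕ → ℕ} (Su : PvqgPin ty δ μ hh a b ρ d0 e0 d1 e1 P u cu tu) (hu : ‖P.v u.idx - x‖ ≤ 2 * R) {v : ℤ × ℤ} (hv : (pvqgM k I.hk cu).ap v ∈ pvmnBox (𝔑.nBx + 10)) :
    ‖pvtCtr dc v - x‖ ≤ 14 / 5 * R - 2 * dc := by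
  have h2 := pvmg_box_ball' I.N.δ_pos le_rfl (I.ctr_pl Su hv)
  rw [Metric.mem_closedBall, dist_eq_norm] at h2
  have h3 := Su.inn.near
  rw [Su.idx] at h3
  have h4 := pvtp_tri (pvtCtr dc v) u.ctr x
  have h5 := pvtp_tri u.ctr (P.v u.idx) x
  rw [norm_sub_rev u.ctr (P.v u.idx)] at h5
  have := N3.loc
  push_cast at h2
  linarith

/-- **the unfilled tube lies in `B(x, 2.8 R)`** -/
theorem F_loc {v : ℤ × ℤ} (hv : v ∈ pvgwF (pvqgM k I.hk cs) (pvqgM k I.hk ct) (ty s.typ) (ty t.typ) (I.Fa a')) : ‖pvtCtr dc v - x‖ ≤ 14 / 5 * R - 2 * dc := by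
  rcases hv with (hv | hv) | hv
  · exact I.box_loc N3 I.Ss (I.arc s.idx le_rfl I.lt.le) (pvgw_cells_box (I.hty s.typ) (by omega) hv)
  · obtain ⟨p, hp, hpc⟩ := pvtx_ctr_N_cells I.hdc hv
    have h1 := pvqg_poly_ball I.lt.le I.arc (I.Fa_arc N3 hp)
    have h2 := pvtp_tri (pvtCtr dc v) p x
    rw [norm_sub_rev (pvtCtr dc v) p] at h2
    have n1 := I.num_a N3; have n2 := N3.loc; have n3 := I.N.hh_nn; have n4 := I.N.δ_pos
    have n5 : 0 ≤ (𝔑.nBx : ℝ) * δ := by positivity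
    linarith
  · exact I.box_loc N3 I.St (I.arc t.idx I.lt.le le_rfl) (pvgw_cells_box (I.hty t.typ) (by omega) hv)

theorem F_bx : pvgwF (pvqgM k I.hk cs) (pvqgM k I.hk ct) (ty s.typ) (ty t.typ) (I.Fa a') ⊆ pvqgBx dc x (14 / 5 * R - 2 * dc) := fun c hc =>
  pvqg_bx_mem I.hdc (pvt_sq_ctr I.hdc.le) (I.F_loc N3 hc)

omit N3 in
theorem K3_box (τ : T) : pvmnK3 (ty τ) ⊆ pvmnBox (𝔑.nBx + 10) := pvt_hull_box fun c hc => pvgw_cells_box (I.hty τ) (by omega) hc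

/-- **the backward tail against the arc, any margin** -/
theorem tailB_arc' {p q : ℂ} (hp : p ∈ pvtxPoly P.v s.idx t.idx) (hq : q ∈ pvtxPoly P.v kb (ts 0)) : 2 * ((a' : ℝ) + 1) * dc < ‖p - q‖ := by
  have h5 : ts 0 ≤ s.idx := by rw [← I.Ss.idx]; exact I.le_s (by omega) (by omega)
  have hq' : q ∈ pvtvPoly P kb s.idx := by
    rw [← pvrc_poly P I.H.kb_lt]
    exact pvtx_poly_mono le_rfl h5 I.H.kb_lt.le hq
  have hp' : p ∈ pvtvPoly P s.idx t.idx := by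
    rw [← pvrc_poly P I.lt]
    exact hp
  have n1 := N3.rho; have n2 := I.N2.sig; have n3 := I.N2.μ_le; have n4 := I.N.d1_ge; have n5 := I.num_a N3; have n6 := I.N.δ_pos
  rcases lt_or_ge (σ' + μ') ‖p - s.ctr‖ with hc | hc
  · have := I.H.nr_b p hp' q hq' hc
    linarith
  · obtain ⟨l, l1, l2, l3⟩ := pvtx_poly_vertex I.N2.μ_nn I.lt.le (I.mesh_of I.H.kb_lt.le I.H.lt_kf.le) hp
    obtain ⟨l', l1', l2', l3'⟩ := pvtx_poly_vertex I.N2.μ_nn I.ord_kb (I.mesh_of le_rfl (h5.trans (I.lt.le.trans I.H.lt_kf.le))) hq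
    have hw : ‖P.v l - s.ctr‖ ≤ ρ := by
      have := pvtp_tri (P.v l) p s.ctr
      rw [norm_sub_rev (P.v l) p] at this
      linarith
    have h1 : ts (0 + 1) ≤ l := le_trans (by rw [← I.Ss.idx]; exact I.le_s (by omega) (by omega)) l1
    have := pvqg_sep I.Ss.inn I.N (j := 0) (by omega) l2' h1 (l2.trans (I.H.lt_kf.le.trans I.H.kf_le)) (Or.inr hw)
    have g1 := pvtp_tri (P.v l') q (P.v l)
    have g2 := pvtp_tri q p (P.v l)
    rw [norm_sub_rev (P.v l') q] at g1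
    rw [norm_sub_rev q p] at g2
    linarith

/-- **the forward tail against the arc, any margin** -/
theorem tailF_arc' {p q : ℂ} (hp : p ∈ pvtxPoly P.v s.idx t.idx) (hq : q ∈ pvtxPoly P.v (tt 10) kf) : 2 * ((a' : ℝ) + 1) * dc < ‖p - q‖ := by
  have h5 : t.idx ≤ tt 10 := by rw [← I.St.idx]; exact I.le_t (by omega) le_rfl
  have hq' : q ∈ pvtvPoly P t.idx kf := by
    rw [← pvrc_poly P I.H.lt_kf]
    exact pvtx_poly_mono h5 le_rfl I.ord_kf hq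
  have hp' : p ∈ pvtvPoly P s.idx t.idx := by
    rw [← pvrc_poly P I.lt]
    exact hp
  have n1 := N3.rho; have n2 := I.N2.sig; have n3 := I.N2.μ_le; have n4 := I.N.d1_ge; have n5 := I.num_a N3; have n6 := I.N.δ_pos
  rcases lt_or_ge (σ' + μ') ‖p - t.ctr‖ with hc | hc
  · have := I.H.nr_f p hp' q hq' hc
    linarith
  · obtain ⟨l, l1, l2, l3⟩ := pvtx_poly_vertex I.N2.μ_nn I.lt.le (I.mesh_of I.H.kb_lt.le I.H.lt_kf.le) hp
    obtain ⟨l', l1', l2', l3'⟩ := pvtx_poly_vertex I.N2.μ_nn I.ord_kf (I.mesh_of (I.H.kb_lt.le.trans (I.lt.le.trans h5)) le_rfl) hq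
    have hw : ‖P.v l - t.ctr‖ ≤ ρ := by
      have := pvtp_tri (P.v l) p t.ctr
      rw [norm_sub_rev (P.v l) p] at this
      linarith
    have h9 : l ≤ tt 9 := l2.trans (by rw [← I.St.idx]; exact I.le_t (by omega) (by omega))
    have := pvqg_sep I.St.inn I.N (j := 9) (by omega) h9 l1' (l2'.trans I.H.kf_le) (Or.inl hw)
    have g1 := pvtp_tri (P.v l) p (P.v l')
    have g2 := pvtp_tri p q (P.v l')
    rw [norm_sub_rev (P.v l) p] at g1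
    linarith

/-- **the witness at the start pin**: the link cells of the backward tail of the rim -/
theorem glue_wit_s : ∃ y ∈ pvtrBd (pvmnK3 (ty s.typ)), y.2 ∈ pvmnDrm (ty s.typ) ∧
    ∃ v ∈ pvtOut (pvgwF (pvqgM k I.hk cs) (pvqgM k I.hk ct) (ty s.typ) (ty t.typ) (I.Fa a')), (pvqgM k I.hk cs).ap v = y.2 := by
  have n2 := I.N.d1_ge; have n3 := I.N.μ_le; have n4 := I.N2.μ_le; have n5 := I.N.δ_pos; have n6 := I.dc_le
  refine pvgw_wit_s (Q := pvtCells dc (pvtxPoly P.v kb (ts 0))) (pvt_cells_conn I.hdc (pvtx_poly_preconn _ _ _) (pvtx_poly_bounded _ _ _)) ?_ ?_ ?_ ?_ ?_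
  · obtain ⟨v, hv⟩ := pvt_sq_cover I.hdc (P.v (ts 0))
    exact ⟨v, ⟨P.v (ts 0), hv, pvtx_vertex_mem I.ord_kb le_rfl⟩, pvt_hull_sub (pvtw_N_sub (pvmn_C_sub 0 (by decide) (by decide)
      (I.cell_C I.Ss 0 (c := v) ⟨P.v (ts 0), hv, pvtx_vertex_mem le_rfl (I.le_s (by omega) (by omega))⟩)))⟩
  · obtain ⟨w, hw, hwb⟩ := I.far_cell (i := kb) (j := ts 0) le_rfl I.ord_kb I.H.out_b
    refine ⟨w, hw, pvt_out_of_box (I.F_bx N3) hwb, fun hK => hwb ?_⟩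
    exact pvqg_bx_mem I.hdc (pvt_sq_ctr I.hdc.le) (I.box_loc N3 I.Ss (I.arc s.idx le_rfl I.lt.le) (I.K3_box s.typ hK))
  · exact pvrc_cells_disj I.hdc.le (j := a') fun p hp q hq => I.tailB_arc' N3 (I.Fa_arc N3 hp) hq
  · refine pvrc_cells_disj_U I.hdc.le fun p hp q hq => ?_
    rw [I.U_pl I.St] at hp
    have := I.tailB_tube_t (I.hD N3) hq hp
    rw [norm_sub_rev]
    push_cast at this
    linarith
  · refine pvrc_cells_disj_U I.hdc.le fun p hp q hq => ?_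
    rw [I.U_pl I.Ss] at hp
    have := I.tailB_own hq hp
    rw [norm_sub_rev]
    push_cast at this
    linarith

/-- **the witness at the end pin**: the link cells of the forward tail of the rim -/
theorem glue_wit_t : ∃ y ∈ pvtrBd (pvmnK3 (ty t.typ)), y.2 ∈ pvmnDrp (ty t.typ) ∧
    ∃ v ∈ pvtOut (pvgwF (pvqgM k I.hk cs) (pvqgM k I.hk ct) (ty s.typ) (ty t.typ) (I.Fa a')), (pvqgM k I.hk ct).ap v = y.2 := by
  have n2 := I.N.d1_ge; have n3 := I.N.μ_le; have n4 := I.N2.μ_le; have n5 := I.N.δ_pos; have n6 := I.dc_le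
  refine pvgw_wit_t (Q := pvtCells dc (pvtxPoly P.v (tt 10) kf)) (pvt_cells_conn I.hdc (pvtx_poly_preconn _ _ _) (pvtx_poly_bounded _ _ _)) ?_ ?_ ?_ ?_ ?_
  · obtain ⟨v, hv⟩ := pvt_sq_cover I.hdc (P.v (tt 10))
    exact ⟨v, ⟨P.v (tt 10), hv, pvtx_vertex_mem le_rfl I.ord_kf⟩, pvt_hull_sub (pvtw_N_sub (pvmn_C_sub 9 (by decide) (by decide)
      (I.cell_C I.St 9 (c := v) ⟨P.v (tt 10), hv, pvtx_vertex_mem (I.le_t (by omega) le_rfl) le_rfl⟩)))⟩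
  · obtain ⟨w, hw, hwb⟩ := I.far_cell (i := tt 10) (j := kf) I.ord_kf le_rfl I.H.out_f
    refine ⟨w, hw, pvt_out_of_box (I.F_bx N3) hwb, fun hK => hwb ?_⟩
    exact pvqg_bx_mem I.hdc (pvt_sq_ctr I.hdc.le) (I.box_loc N3 I.St (I.arc t.idx I.lt.le le_rfl) (I.K3_box t.typ hK))
  · exact pvrc_cells_disj I.hdc.le (j := a') fun p hp q hq => I.tailF_arc' N3 (I.Fa_arc N3 hp) hq
  · refine pvrc_cells_disj_U I.hdc.le fun p hp q hq => ?_
    rw [I.U_pl I.Ss] at hp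
    have := I.tailF_tube_s (I.hD N3) hq hp
    rw [norm_sub_rev]
    push_cast at this
    linarith
  · refine pvrc_cells_disj_U I.hdc.le fun p hp q hq => ?_
    rw [I.U_pl I.St] at hp
    have := I.tailF_own hq hp
    rw [norm_sub_rev]
    push_cast at this
    linarith

omit N3 in
/-- a link cell which meets the pieces `i..j` of a pin lies over a cell of these pieces -/
theorem cell_cells {u : PvbPin T} {cu : ℤ × ℤ} {tu : ℕ → ℕ} (Su : PvqgPin ty δ μ hh a b ρ d0 e0 d1 e1 P u cu tu) {i j : ℕ} (hij : i ≤ j) (hj : j < 10) {c : ℤ × ℤ} (hc : c ∈ pvtCells dc (pvtxPoly P.v (tu i) (tu (j + 1)))) :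
    (pvqgM k I.hk cu).ap c ∈ pvmnCells (ty u.typ) i j := by
  obtain ⟨p, hpc, hp⟩ := hc
  have h1 := pvqg_M_sq I.hk I.hdc cu hpc
  rw [← I.hδ, ← Su.ctr] at h1
  rw [pvmf_cells Su.inn I.N Su.fits hij hj]
  exact ⟨p - u.ctr, h1, pvqg_poly_sub hp⟩

/-- **THE UNFILLED TUBE CONTAINS THE `a`-COLLAR OF THE LINK CELLS OF THE WHOLE ARC** `P[s.idx, t.idx]`, more precisely: over `N¹(cells 5..8)` of `s`, in `Fa`, or over `N¹(cells 1..4)` of `t` -/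
theorem arc_split {v : ℤ × ℤ} (hv : v ∈ pvtwN a' (pvtCells dc (pvtxPoly P.v s.idx t.idx))) :
    (pvqgM k I.hk cs).ap v ∈ pvtwN 1 (pvmnCells (ty s.typ) 5 8) ∨ v ∈ I.Fa a' ∨ (pvqgM k I.hk ct).ap v ∈ pvtwN 1 (pvmnCells (ty t.typ) 1 4) := by
  obtain ⟨c, ⟨p, hpc, hp⟩, hvc⟩ := pvtw_N_iff.1 hv
  have ha : a' ≤ k := by have := N3.a_lt; omega
  rw [pvtx_poly_union (k := ts 9) I.s_le_9 ((I.le_9_0 N3).trans I.t0_le), pvtx_poly_union (i := ts 9) (k := tt 1) ((I.le_9_0 N3).trans (I.le_t (by omega) (by omega))) I.t1_le] at hp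
  rcases hp with hp | hp | hp
  · left
    rw [← I.Ss.idx] at hp
    have h1 := I.cell_cells I.Ss (i := 5) (j := 8) (by omega) (by omega) (c := c) ⟨p, hpc, hp⟩
    refine pvtw_N_mono le_rfl ?_ (pvqg_M_lip I.hk cs ha hvc)
    rintro _ ⟨_, rfl, rfl⟩
    exact h1
  · right; left
    exact pvtw_N_iff.2 ⟨c, ⟨p, hpc, hp⟩, hvc⟩
  · right; right
    rw [← I.St.idx] at hp
    have h1 := I.cell_cells I.St (i := 1) (j := 4) (by omega) (by omega) (c := c) ⟨p, hpc, hp⟩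
    refine pvtw_N_mono le_rfl ?_ (pvqg_M_lip I.hk ct ha hvc)
    rintro _ ⟨_, rfl, rfl⟩
    exact h1

theorem arc_sub_F : pvtwN a' (pvtCells dc (pvtxPoly P.v s.idx t.idx)) ⊆ pvgwF (pvqgM k I.hk cs) (pvqgM k I.hk ct) (ty s.typ) (ty t.typ) (I.Fa a') := by
  intro v hv
  rcases I.arc_split N3 hv with h | h | h
  · exact Or.inl (Or.inl (pvtw_N_mono (by omega) (pvmn_cells_mono (by omega) (by omega)) h))
  · exact Or.inl (Or.inr h)
  · exact Or.inr (pvtw_N_mono (by omega) (pvmn_cells_mono (by omega) (by omega)) h)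

/-- **THE FIT-TIME CLAUSES OF GLUE-W** (205) for two fitted pins of one rim -/
theorem glueIn : PvgwIn 𝔑 (pvqgM k I.hk cs) (pvqgM k I.hk ct) (ty s.typ) (ty t.typ) (I.Fa a') where
  ts := I.hty s.typ
  tt := I.hty t.typ
  fin := I.Fa_finite
  conn := I.Fa_conn
  touch_s := I.touch_s' N3
  touch_t := I.touch_t' N3
  off_s := fun _ hv h9 => I.off_s N3 hv h9
  off_t := fun _ hv h9 => I.off_t N3 hv h9
  apart := I.apart_box N3
  wit_s := I.glue_wit_s N3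
  wit_t := I.glue_wit_t N3

end PvqgIn

end Claimed.Agent.R289
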