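-- KEEP
import Claimed.Agent.R289.Tr.Arc
import Claimed.Agent.R289.Tr.Close

/-!
# Row 289 (S0537), WALL, file Tr/ArcC : TR13 (CLOSE) for the FREE connector, in the vocabulary of `Tr/Arc` + `Tr/Close`      (author helper6; prefix `pvtac_`)

Note of record: `origin/helper6:notes/R289/W2c_6.md` v2.    Data: `g` = the free arc (black), `R` = the rest of the circuit (from the end of `g` back to its start), `q` = the white lane (from the end of `g` back to its start, inner vertices white),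
anchor `ρ = q.v (q.n - 1)` = right apex of the LAST dart of `R`.   `Λ` = boundary layer of the region `U` in which `N_g` is read; the only geometric input is `hΛ` (REGION): every vertex of `Λ` is joined to an inner vertex of `R` off `Z = g ∪ q`.

* `pvtac_N_loc`     `N_g^{U,𝔄}` reads the colours of `U \ g` only and is increasing in white there (the form Harris consumes).
* `pvtac_gfaced`    `B_g ∩ N_g ∩ {q white} ∩ REGION  ⟹  g.GFaced s ρ`.
* `pvtac_close`     + `R.GFaced s ρ`  ⟹  `g ∪ R` is a rim: tag, label class, label sum `= g.psum w + R.psum w`.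
* `pvtac_gfaced_off`, `pvtac_close_off`   the same with REGION asked only for the vertices of `Λ` off `Z`;   `pvtac_region`   REGION from a connected set `K` off `Z` which meets `R.inner`.
* uniqueness of the free arc (TR12) = `pvt_c_unique` of `Tr/Close` applied to two outputs of `pvtac_gfaced` (same ends, same anchor).
-/

set_option autoImplicit false

namespace Claimed.Agent.R289

open Relation

variable {V D : Type} {T : PvMap V D}

/-- `N_g^{U,𝔄}` is increasing in white and reads `U \ g` only -/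
theorem pvtac_N_loc (g : T.Pth) {s s' : V → Bool} (U 𝔄 : Set V) (h : ∀ v, v ∈ U → v ∉ g.verts → s v = false → s' v = false) (hN : pvtaN g s U 𝔄) : pvtaN g s' U 𝔄 := by
  intro k hk
  obtain ⟨a, ha, hj⟩ := hN k hk
  exact ⟨a, ha, pvta_join_mono (Y := {v | v ∈ U ∧ v ∉ g.verts ∧ s' v = false}) (fun v hv => ⟨hv.1, hv.2.1, h v hv.1 hv.2.1 hv.2.2⟩) hj⟩

/-- `N_g` is increasing in the region and in the target -/
theorem pvtac_N_mono_U (g : T.Pth) {s : V → Bool} {U U' 𝔄 𝔄' : Set V} (hU : U ⊆ U') (h𝔄 : 𝔄 ⊆ 𝔄') (hN : pvtaN g s U 𝔄) : pvtaN g s U' 𝔄' := by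
  intro k hk
  obtain ⟨a, ha, hj⟩ := hN k hk
  exact ⟨a, h𝔄 ha, pvta_join_mono (Y := {v | v ∈ U' ∧ v ∉ g.verts ∧ s v = false}) (fun v hv => ⟨hU hv.1, hv.2.1, hv.2.2⟩) hj⟩

/-- the inner vertices of a path with monochromatic inner vertices are `Mono`-joined to the last one -/
theorem pvtac_inner_mono {s : V → Bool} {r : Bool} (q : T.Pth) (hq : ∀ i, 0 < i → i < q.n → s (q.v i) = r) {i : ℕ} (h0 : 0 < i) (h1 : i < q.n) : T.Mono s (q.v i) (q.v (q.n - 1)) := by
  have key : ∀ t, i + t < q.n → T.Mono s (q.v i) (q.v (i + t)) := by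
    intro t
    induction t with
    | zero => intro _; exact ReflTransGen.refl
    | succ t ih =>
      intro ht
      refine ReflTransGen.tail (ih (by omega)) ⟨⟨q.e (i + t), q.src_e _ (by omega), q.tgt_e _ (by omega)⟩, ?_⟩
      rw [hq _ (by omega) (by omega), hq _ (by omega) ht]
  have := key (q.n - 1 - i) (by omega)
  rwa [show i + (q.n - 1 - i) = q.n - 1 by omega] at this

/-- **TR13a**: `B_g`, `N_g` with target `{ρ} ∪ Λ`, `q` white, REGION   ⟹   `g` is globally faced with anchor `ρ = q.v (q.n - 1)` -/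
theorem pvtac_gfaced (hT : T.IsSph) (hS : T.Simple) {s : V → Bool} (g q R : T.Pth) (hgq : g.Glue q) (hgR : g.Glue R) (hR2 : 2 ≤ R.n) (hq2 : 2 ≤ q.n)
    (hg : pvtaB g s) (hq : ∀ i, 0 < i → i < q.n → s (q.v i) = false)
    (hRq : ∀ i j, 0 < i → i < R.n → j ≤ q.n → R.v i ≠ q.v j) (hanc : q.v (q.n - 1) = R.rap (R.n - 1)) (U Λ : Set V)
    (hΛ : ∀ a ∈ Λ, ∃ i, 0 < i ∧ i < R.n ∧ ReflTransGen (fun u v => T.Adj u v ∧ v ∉ (g.glue q hgq).verts) (R.v i) a)
    (hN : pvtaN g s U ({q.v (q.n - 1)} ∪ Λ)) : g.GFaced s (q.v (q.n - 1)) := by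
  have hρ : s (q.v (q.n - 1)) = false := hq _ (by omega) (by omega)
  refine ⟨fun i hi => by rw [hg i hi, hρ]; exact Bool.noConfusion, fun k hk => ?_⟩
  obtain ⟨a, ha, hj⟩ := hN k hk
  have hj' : T.Join Set.univ {v | s v = false} (g.rap k) a := pvta_join_mono (fun v hv => hv.2.2) hj
  rcases ha with ha | ha
  · rw [Set.mem_singleton_iff.1 ha] at hj'
    exact pvt_c_join_mono hj'
  · obtain ⟨j, j0, j1, hm⟩ := pvta_shield hT hS g q R hgq hgR hR2 hq2 hg hq hRq hanc hk (hΛ a ha) hj'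
    exact hm.trans (pvtac_inner_mono q hq j0 j1)

/-- a globally faced `R` with a white anchor avoids the white lane -/
theorem pvtac_off {s : V → Bool} (g q R : T.Pth) (hgq : g.Glue q) (hgR : g.Glue R) (hq2 : 2 ≤ q.n)
    (hq : ∀ i, 0 < i → i < q.n → s (q.v i) = false) (hRf : R.GFaced s (q.v (q.n - 1))) :
    ∀ i j, 0 < i → i < R.n → j ≤ q.n → R.v i ≠ q.v j := by
  have hρ : s (q.v (q.n - 1)) = false := hq _ (by omega) (by omega)
  intro i j h0 h1 hj e
  have hb : s (R.v i) ≠ false := hρ ▸ hRf.1 i h1.le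
  rcases Nat.eq_zero_or_pos j with rfl | hj0
  · have e1 : q.v 0 = R.v 0 := by rw [← hgq.h1, hgR.h1]
    have := R.inj i 0 h1.le (Nat.zero_le _) (e.trans e1)
    omega
  · rcases Nat.lt_or_ge j q.n with hlt | hge
    · exact hb (e ▸ hq _ hj0 hlt)
    · have e0 : j = q.n := by omega
      have e1 : q.v j = R.v R.n := by rw [e0, hgq.h2, ← hgR.h2]
      have := R.inj i R.n h1.le le_rfl (e.trans e1)
      omega

/-- **TR13 (CLOSE)**, free connector `g` + the rest `R` of the circuit (`R` = inner arc of `t`, closing chain, inner arc of `s`: globally faced with the same anchor by `pvt_c_app_gfaced`):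
`g ∪ R` is a rim: the label of the tag `opp (g.e 0)` is the set of the right darts, and its label sum is the sum of the two path sums -/
theorem pvtac_close (hT : T.IsSph) (hS : T.Simple) {s : V → Bool} (g q R : T.Pth) (hgq : g.Glue q) (hgR : g.Glue R) (hR2 : 2 ≤ R.n) (hq2 : 2 ≤ q.n)
    (hg : pvtaB g s) (hq : ∀ i, 0 < i → i < q.n → s (q.v i) = false) (hanc : q.v (q.n - 1) = R.rap (R.n - 1)) (hRf : R.GFaced s (q.v (q.n - 1))) (U Λ : Set V)
    (hΛ : ∀ a ∈ Λ, ∃ i, 0 < i ∧ i < R.n ∧ ReflTransGen (fun u v => T.Adj u v ∧ v ∉ (g.glue q hgq).verts) (R.v i) a)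
    (hN : pvtaN g s U ({q.v (q.n - 1)} ∪ Λ)) :
    T.Tag s (T.opp (g.e 0)) ∧ (∀ d', T.SameLab s (T.opp (g.e 0)) d' ↔ (∃ i, i < g.n ∧ d' = T.opp (g.e i)) ∨ ∃ i, i < R.n ∧ d' = T.opp (R.e i)) ∧
      ∀ w : D → ℂ, T.lsum s w (T.opp (g.e 0)) = g.psum w + R.psum w :=
  pvt_c_close hT s (q.v (q.n - 1)) g R hgR
    (pvtac_gfaced hT hS g q R hgq hgR hR2 hq2 hg hq (pvtac_off g q R hgq hgR hq2 hq hRf) hanc U Λ hΛ hN) hRf

/-! ## REGION asked only off the shield (request of 78, 09:42Z) -/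

/-- **TR13a, weak REGION**: `hΛ` is asked only for the vertices of `Λ` which are OFF the cycle `Z = g ∪ q` -/
theorem pvtac_gfaced_off (hT : T.IsSph) (hS : T.Simple) {s : V → Bool} (g q R : T.Pth) (hgq : g.Glue q) (hgR : g.Glue R) (hR2 : 2 ≤ R.n) (hq2 : 2 ≤ q.n)
    (hg : pvtaB g s) (hq : ∀ i, 0 < i → i < q.n → s (q.v i) = false)
    (hRq : ∀ i j, 0 < i → i < R.n → j ≤ q.n → R.v i ≠ q.v j) (hanc : q.v (q.n - 1) = R.rap (R.n - 1)) (U Λ : Set V)
    (hΛ : ∀ a ∈ Λ, a ∉ (g.glue q hgq).verts → ∃ i, 0 < i ∧ i < R.n ∧ ReflTransGen (fun u v => T.Adj u v ∧ v ∉ (g.glue q hgq).verts) (R.v i) a)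
    (hN : pvtaN g s U ({q.v (q.n - 1)} ∪ Λ)) : g.GFaced s (q.v (q.n - 1)) := by
  have hρ : s (q.v (q.n - 1)) = false := hq _ (by omega) (by omega)
  refine ⟨fun i hi => by rw [hg i hi, hρ]; exact Bool.noConfusion, fun k hk => ?_⟩
  obtain ⟨a, ha, hj⟩ := hN k hk
  have hj' : T.Join Set.univ {v | s v = false} (g.rap k) a := pvta_join_mono (fun v hv => hv.2.2) hj
  have haw : s a = false := by
    have h1 := pvt_c_mono_col (pvt_c_join_mono hj')
    rw [← h1]
    exact hj'.1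
  rcases ha with ha | ha
  · rw [Set.mem_singleton_iff.1 ha] at hj'
    exact pvt_c_join_mono hj'
  · by_cases haZ : a ∈ (g.glue q hgq).verts
    · obtain ⟨j, j0, j1, e⟩ := pvta_white_on g q hgq hg haZ haw
      rw [e] at hj'
      exact (pvt_c_join_mono hj').trans (pvtac_inner_mono q hq j0 j1)
    · obtain ⟨j, j0, j1, hm⟩ := pvta_shield hT hS g q R hgq hgR hR2 hq2 hg hq hRq hanc hk (hΛ a ha haZ) hj'
      exact hm.trans (pvtac_inner_mono q hq j0 j1)

/-- **TR13 (CLOSE), weak REGION** -/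
theorem pvtac_close_off (hT : T.IsSph) (hS : T.Simple) {s : V → Bool} (g q R : T.Pth) (hgq : g.Glue q) (hgR : g.Glue R) (hR2 : 2 ≤ R.n) (hq2 : 2 ≤ q.n)
    (hg : pvtaB g s) (hq : ∀ i, 0 < i → i < q.n → s (q.v i) = false) (hanc : q.v (q.n - 1) = R.rap (R.n - 1)) (hRf : R.GFaced s (q.v (q.n - 1))) (U Λ : Set V)
    (hΛ : ∀ a ∈ Λ, a ∉ (g.glue q hgq).verts → ∃ i, 0 < i ∧ i < R.n ∧ ReflTransGen (fun u v => T.Adj u v ∧ v ∉ (g.glue q hgq).verts) (R.v i) a)
    (hN : pvtaN g s U ({q.v (q.n - 1)} ∪ Λ)) :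
    T.Tag s (T.opp (g.e 0)) ∧ (∀ d', T.SameLab s (T.opp (g.e 0)) d' ↔ (∃ i, i < g.n ∧ d' = T.opp (g.e i)) ∨ ∃ i, i < R.n ∧ d' = T.opp (R.e i)) ∧
      ∀ w : D → ℂ, T.lsum s w (T.opp (g.e 0)) = g.psum w + R.psum w :=
  pvt_c_close hT s (q.v (q.n - 1)) g R hgR
    (pvtac_gfaced_off hT hS g q R hgq hgR hR2 hq2 hg hq (pvtac_off g q R hgq hgR hq2 hq hRf) hanc U Λ hΛ hN) hRf

/-- **REGION from a connected set**: `K` is a set of vertices off `Z`, any two of its vertices are joined inside `K`, it contains an inner vertex of `R`;   then every vertex off `Z` which is in `K` or adjacent to `K` satisfies REGION.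
(Application: `K` = the class `YCL` with the vertices of the closing strand / the sites off the hull `T`;   `Λ` = the boundary layer of `U = Kᶜ`.) -/
theorem pvtac_region (g q R : T.Pth) (hgq : g.Glue q) (K : Set V) (hK : ∀ v ∈ K, v ∉ (g.glue q hgq).verts)
    (hconn : ∀ u ∈ K, ∀ v ∈ K, ReflTransGen (fun x y => T.Adj x y ∧ y ∈ K) u v) {i : ℕ} (h0 : 0 < i) (hi : i < R.n) (hRK : R.v i ∈ K)
    {a : V} (ha : a ∉ (g.glue q hgq).verts) (haK : a ∈ K ∨ ∃ w ∈ K, T.Adj w a) :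
    ∃ i, 0 < i ∧ i < R.n ∧ ReflTransGen (fun u v => T.Adj u v ∧ v ∉ (g.glue q hgq).verts) (R.v i) a := by
  refine ⟨i, h0, hi, ?_⟩
  have lift : ∀ v ∈ K, ReflTransGen (fun u v => T.Adj u v ∧ v ∉ (g.glue q hgq).verts) (R.v i) v := fun v hv =>
    ReflTransGen.mono (fun _ _ h => ⟨h.1, hK _ h.2⟩) _ _ (hconn _ hRK v hv)
  rcases haK with h | ⟨w, hw, hwa⟩
  · exact lift a h
  · exact (lift w hw).tail ⟨hwa, ha⟩

end Claimed.Agent.R289
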