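import Claimed.Agent.R289.Tr.Stab
import Claimed.Agent.R289.Tr.StateP
import Claimed.Agent.R289.Tr.GateMin
import Claimed.Agent.R289.Tr.GateN
import Claimed.Agent.R289.Tr.StabFit

/-!
# Row 289 (S0537, Cardy for Poisson-Voronoi), THE WALL, ROAD P, items P12 (c)(d) + P15, file Tr/StabS : THE REGION STATE OF A RIM      (owner helper212, second helper97; prefix `pvsb_`, `Pvsb`)

Master note: `origin/helper273:notes/R289/ROADP_273.md` (P12, P15).      Vocabulary: LEVEL A of `Tr/StateP.lean` (helper185: `PvspSt`, `PvspSt.At`, `PvspSt.Side`, `PvspSel`), `PvMap.Gate` (helper260), the innermost gate `pvgnHull` (helper150), passages `PvdiPass` (`Tr/Di.lean`).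

By `Tr/Stab.lean` a rim of a completion of `ξ` is a rim of the same completion of the PREPARED configuration `c'`.      So P12 (c)(d) is a statement on ONE coloured map `(T, s)` (`true` = the colour of the rim) and ONE rim `γ` of `s`:
**`pvsb_state`** : frames + a gate in each of the two annuli + `γ` runs `door Dm → tube Nm → centre → tube Np → door Dp`   ⟹   the region state EXISTS (`𝔖.At mk 𝔯`: selected = innermost gates, `Thru`, inner arc, FIT-IN, order),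
its gate vertices and its inner arc ARE the vertices and the arc of `γ`, and the two BLACK side events hold (`Side .pb`, `Side .mb`: `γ` itself).
`pvsb_thru` (RIM ⟹ STATE in the `PvwLE` form which `PvspSt.At.arc` and `PvwSt.Gate.strand` consume) = `pvgz_pass_rim_le` of helper260 (`Tr/GateN.lean`).
The WHITE side events (`Side .pw`, `Side .mw`) = lane event + P11' ORIENTATION: `pvsb_white` (typed here, hypothesis `hR` = M11).
-/

set_option autoImplicit false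

namespace Claimed.Agent.R289

open Relation

variable {V D κ : Type} {T : PvMap V D} {s : V → Bool}

/-! ## 1. a rim through a gate -/

/-- **RIM ⟹ STATE** (proof: helper260, `pvgz_pass_rim_le`, `pvgz_pass_of_di` of `Tr/GateN.lean`): a black rim which passes the gate `g` from `g⁻` to `g⁺`: the strand which enters at `aIn` leaves at `aOut`,
and the loop erasure of its black bank is the arc of the rim -/
theorem pvsb_thru (hT : T.IsSph) (hS : T.Simple) {γ : T.Cyc} (hrim : γ.IsRim s) (hb : ∀ i, s (T.src (γ.e i)) = true) (g : T.Gate s) (hfin : g.c.Left.Finite) {k lo hi : ℕ} {X : Finset V}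
    (hp : PvdiPass T g.c.Left X γ k lo hi) (hm : g.vm = T.src (γ.e lo)) (hv : g.vp = T.src (γ.e hi)) :
    g.Thru ∧ PvwLE T (fun i => T.src (pvasIt T s g.aIn i)) g.len (γ.pth lo (hi - lo)) :=
  pvgz_pass_rim_le hT hS g hfin hrim (hb 0) (pvgz_pass_of_di hT g hp hm hv)

/-- the innermost gate between `I` and `O`, labelled in the direction of the rim, with the passage of the rim -/
theorem pvsb_sel_ex (hT : T.IsSph) (hS : T.Simple) {I O : Set D} (hF : PvsqWF T I O) (hne : ∃ g₀ : T.Gate s, I ⊆ g₀.c.Left ∧ g₀.c.Left ⊆ O) {γ : T.Cyc} (hb : ∀ i, s (T.src (γ.e i)) = true) {k : ℕ} (hk : k < γ.n)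
    (h0 : T.src (γ.e 0) ∈ T.Int Oᶜ) (hi : T.src (γ.e k) ∈ T.Int I) :
    ∃ (g : T.Gate s) (lo hi : ℕ) (X : Finset V), I ⊆ g.c.Left ∧ g.c.Left ⊆ O ∧ (∀ g' : T.Gate s, I ⊆ g'.c.Left → g'.c.Left ⊆ O → g.c.Left ⊆ g'.c.Left) ∧
      PvdiPass T g.c.Left X γ k lo hi ∧ g.vm = T.src (γ.e lo) ∧ g.vp = T.src (γ.e hi) := by
  classical
  obtain ⟨g₀, c1, c2⟩ := hne
  have ho : γ.e 0 ∉ O := h0 _ rfl
  have hF' := pvsq_fill_frame hF ho
  have hsub := pvsq_sub_fill (T := T) hF.faceO ho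
  have h0' : T.src (γ.e 0) ∈ T.Int (pvsqFill T O (γ.e 0))ᶜ := fun d hd => not_not.2 (by
    have := pl_star_round hT (A := Oᶜ) h0 hF.faceO.compl (d := γ.e 0) (d' := d) rfl hd
    have e : {d | T.Bd Oᶜ d} = {d | T.Bd O d} := by ext d; exact T.bd_compl
    rwa [e] at this)
  obtain ⟨g, hL, h1, -, -⟩ := pvgn_gate hT hS hF' ⟨_, pvgn_of_gate hT g₀ c1 (c2.trans hsub)⟩ (γ := γ) ⟨hb, ⟨k, hi⟩, ⟨0, h0'⟩⟩
  have hleast : ∀ g' : T.Gate s, I ⊆ g'.c.Left → g'.c.Left ⊆ O → g.c.Left ⊆ g'.c.Left := fun g' a1 a2 => hL ▸ pvgn_innermost hT hF' g' a1 (a2.trans hsub)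
  have h2 : g.c.Left ⊆ O := (hleast g₀ c1 c2).trans c2
  obtain ⟨lo, hh, hp⟩ := pvdi_pass hT (pvtg_pvg g) γ hb hk (pvdi_int_mono (Set.compl_subset_compl.2 h2) h0) (pvdi_int_mono h1 hi)
  have hne' := hp.ne
  have hlo := hp.lo_X
  have hhi := hp.hi_X
  simp only [Finset.mem_insert, Finset.mem_singleton] at hlo hhi
  rcases hlo with hlo | hlo
  · rcases hhi with hhi | hhi
    · exact absurd (hlo.trans hhi.symm) hne'
    · exact ⟨g, lo, hh, _, h1, h2, hleast, hp, hlo.symm, hhi.symm⟩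
  · rcases hhi with hhi | hhi
    · obtain ⟨g', e1, -, -, e4, e5⟩ := pvgn_gate_swap hT g
      exact ⟨g', lo, hh, _, e1 ▸ h1, e1 ▸ h2, fun g'' a1 a2 => e1 ▸ hleast g'' a1 a2, e1 ▸ hp, e4.trans hlo.symm, e5.trans hhi.symm⟩
    · exact absurd (hlo.trans hhi.symm) hne'

/-! ## 2. the region state of a rim -/

/-- **the hypotheses of DI-P at level A**: `γ` a rim of `s` (`true` = its colour), cut at a far vertex;   `k` = the index of the pin, `tm < k < tp` the indices at which `γ` is in the doors -/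
structure PvsbIn (T : PvMap V D) (s : V → Bool) (mk : V → κ) (𝔯 : PvspReg κ) (γ : T.Cyc) (k tm tp : ℕ) : Prop where
  sph : T.IsSph
  simple : T.Simple
  rim : γ.IsRim s
  black : ∀ i, s (T.src (γ.e i)) = true
  /-- the WEAK frames of the two annuli (helper97, ruling P7 (5) of 273: `PvgnFr.connO` FAILS for the star of the sites of a ball: pockets) -/
  fr1 : PvsqWF T (pvplB T fun v => mk v ∈ 𝔯 .I1) (pvplB T fun v => mk v ∈ 𝔯 .O1)
  fr2 : PvsqWF T (pvplB T fun v => mk v ∈ 𝔯 .I2) (pvplB T fun v => mk v ∈ 𝔯 .O2)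
  /-- a gate in each annulus (A6 for the actual configuration + `pvsb_gate_keep` / `pvsq_gate_prep`) -/
  g1 : ∃ g₀ : T.Gate s, (pvplB T fun v => mk v ∈ 𝔯 .I1) ⊆ g₀.c.Left ∧ g₀.c.Left ⊆ pvplB T fun v => mk v ∈ 𝔯 .O1
  g2 : ∃ g₀ : T.Gate s, (pvplB T fun v => mk v ∈ 𝔯 .I2) ⊆ g₀.c.Left ∧ g₀.c.Left ⊆ pvplB T fun v => mk v ∈ 𝔯 .O2
  /-- MESH: the vertices of the faces which meet `O1` are marked in `C1` and in `I2` -/
  star1 : ∀ v ∈ T.VOf (pvplB T fun v => mk v ∈ 𝔯 .O1), mk v ∈ 𝔯 .C1 ∧ mk v ∈ 𝔯 .I2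
  tm_lt : tm < k
  k_lt : k < tp
  tp_lt : tp < γ.n
  ctr : mk (T.src (γ.e k)) ∈ 𝔯 .I1
  cut : T.src (γ.e 0) ∈ T.Int (pvplB T fun v => mk v ∈ 𝔯 .O2)ᶜ
  /-- FIT (P10 (i)) -/
  fit_p : ∀ i, k ≤ i → i ≤ tp → mk (T.src (γ.e i)) ∈ 𝔯 .Np
  fit_m : ∀ i, tm ≤ i → i ≤ k → mk (T.src (γ.e i)) ∈ 𝔯 .Nm
  door_p : mk (T.src (γ.e tp)) ∈ 𝔯 .Dp
  door_m : mk (T.src (γ.e tm)) ∈ 𝔯 .Dm
  out_p : T.src (γ.e tp) ∈ T.Int (pvplB T fun v => mk v ∈ 𝔯 .O2)ᶜ
  out_m : T.src (γ.e tm) ∈ T.Int (pvplB T fun v => mk v ∈ 𝔯 .O2)ᶜ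

/-- what the state of a rim is -/
structure PvsbOut {T : PvMap V D} {s : V → Bool} (𝔖 : PvspSt T s) (γ : T.Cyc) (k tm tp lo1 hi1 lo2 hi2 : ℕ) : Prop where
  ord : tm < lo2 ∧ lo2 < lo1 ∧ lo1 < k ∧ k < hi1 ∧ hi1 < hi2 ∧ hi2 < tp
  vm1 : 𝔖.g1.vm = T.src (γ.e lo1)
  vp1 : 𝔖.g1.vp = T.src (γ.e hi1)
  vm2 : 𝔖.g2.vm = T.src (γ.e lo2)
  vp2 : 𝔖.g2.vp = T.src (γ.e hi2)
  inn : 𝔖.inn = γ.pth lo2 (hi2 - lo2)
  im : 𝔖.im = lo1 - lo2
  ip : 𝔖.ip = hi1 - lo2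

theorem pvsb_int_B {mk : V → κ} {A : Set κ} {v : V} (h : mk v ∈ A) : v ∈ T.Int (pvplB T fun v => mk v ∈ A) := fun d hd => Or.inl (by rw [hd]; exact h)

/-- **P12 (c)(d), black half; the deterministic core of P15** -/
theorem pvsb_state {mk : V → κ} {𝔯 : PvspReg κ} {γ : T.Cyc} {k tm tp : ℕ} (H : PvsbIn T s mk 𝔯 γ k tm tp) :
    ∃ (𝔖 : PvspSt T s) (lo1 hi1 lo2 hi2 : ℕ), 𝔖.At mk 𝔯 ∧ 𝔖.Side mk 𝔯 .pb ∧ 𝔖.Side mk 𝔯 .mb ∧ PvsbOut 𝔖 γ k tm tp lo1 hi1 lo2 hi2 := by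
  classical
  have hT := H.sph
  have hS := H.simple
  have hkn : k < γ.n := H.k_lt.trans H.tp_lt
  have hO1I2 : (pvplB T fun v => mk v ∈ 𝔯 .O1) ⊆ pvplB T fun v => mk v ∈ 𝔯 .I2 := fun d hd => Or.inl (H.star1 _ ⟨d, hd, rfl⟩).2
  have hO1O2 := hO1I2.trans H.fr2.sub
  have hk1 : T.src (γ.e k) ∈ T.Int (pvplB T fun v => mk v ∈ 𝔯 .I1) := pvsb_int_B H.ctr
  have hkO1 : T.src (γ.e k) ∈ T.VOf (pvplB T fun v => mk v ∈ 𝔯 .O1) := ⟨γ.e k, H.fr1.sub (hk1 _ rfl), rfl⟩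
  have hk2 : T.src (γ.e k) ∈ T.Int (pvplB T fun v => mk v ∈ 𝔯 .I2) := pvsb_int_B (H.star1 _ hkO1).2
  have h01 : T.src (γ.e 0) ∈ T.Int (pvplB T fun v => mk v ∈ 𝔯 .O1)ᶜ := pvdi_int_mono (Set.compl_subset_compl.2 hO1O2) H.cut
  obtain ⟨g1, lo1, hi1, X1, a1, a2, a3, p1, m1, v1⟩ := pvsb_sel_ex hT hS H.fr1 H.g1 H.black hkn h01 hk1
  obtain ⟨g2, lo2, hi2, X2, b1, b2, b3, p2, m2, v2⟩ := pvsb_sel_ex hT hS H.fr2 H.g2 H.black hkn H.cut hk2
  have hnest : T.VOf g1.c.Left ⊆ T.Int g2.c.Left := fun v hv => pvdi_int_mono b1 (pvsb_int_B (H.star1 v (pvdi_VOf_mono a2 hv)).2)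
  obtain ⟨n1, n2⟩ := p1.nest p2 hnest
  have l1 := p1.lo_lt
  have l2 := p1.lt_hi
  have l3 := p2.hi_lt
  have l4 := H.tm_lt
  have l5 := H.k_lt
  have l6 := H.tp_lt
  have htm : tm < lo2 := by
    by_contra hn
    obtain ⟨d, hd, hsrc⟩ := p2.mem_VOf (not_lt.1 hn) (by omega)
    exact H.out_m d hsrc (b2 hd)
  have htp : hi2 < tp := by
    by_contra hn
    obtain ⟨d, hd, hsrc⟩ := p2.mem_VOf (k := tp) (by omega) (not_lt.1 hn)
    exact H.out_p d hsrc (b2 hd)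
  obtain ⟨t1, -⟩ := pvsb_thru hT hS H.rim H.black g1 (have := H.fr1.fin; Set.toFinite _) p1 m1 v1
  obtain ⟨t2, le2⟩ := pvsb_thru hT hS H.rim H.black g2 (have := H.fr2.fin; Set.toFinite _) p2 m2 v2
  have hn2 : (γ.pth lo2 (hi2 - lo2)).n = hi2 - lo2 := min_eq_left (by omega)
  refine ⟨⟨g1, g2, γ.pth lo2 (hi2 - lo2), lo1 - lo2, hi1 - lo2⟩, lo1, hi1, lo2, hi2, ?_, ?_, ?_, ⟨⟨htm, n1, l1, l2, n2, htp⟩, m1, v1, m2, v2, rfl, rfl, rfl⟩⟩
  · refine ⟨⟨(pl_jordan hT g1.c).2.1, a1, a2, t1, fun g' _ => a3 g'⟩, ⟨(pl_jordan hT g2.c).2.1, b1, b2, t2, fun g' _ => b3 g'⟩, le2, ?_, ?_, ?_, ?_, ?_, ?_, ?_, ?_⟩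
    · show lo1 - lo2 < hi1 - lo2
      omega
    · show hi1 - lo2 ≤ (γ.pth lo2 (hi2 - lo2)).n
      rw [hn2]; omega
    · show T.src (γ.e (lo2 + (lo1 - lo2))) = g1.vm
      rw [Nat.add_sub_cancel' n1.le]; exact m1.symm
    · show T.src (γ.e (lo2 + (hi1 - lo2))) = g1.vp
      rw [Nat.add_sub_cancel' (by omega)]; exact v1.symm
    · intro i i1 i2
      have i1' : hi1 - lo2 ≤ i := i1
      have i2' : i ≤ hi2 - lo2 := hn2 ▸ i2
      exact Or.inr (H.fit_p (lo2 + i) (by omega) (by omega))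
    · intro i i1
      have i1' : i ≤ hi1 - lo2 := i1
      by_cases hik : lo2 + i ≤ k
      · exact Or.inr (H.fit_m (lo2 + i) (by omega) hik)
      · exact Or.inl (H.star1 _ (pvdi_VOf_mono a2 (p1.mem_VOf (k := lo2 + i) (by omega) (by omega)))).1
    · show mk g2.vp ∈ 𝔯 .Np
      rw [v2]; exact H.fit_p hi2 (by omega) htp.le
    · show mk g2.vm ∈ 𝔯 .Nm
      rw [m2]; exact H.fit_m lo2 htm.le (by omega)
  · have hq : (γ.pth hi2 (tp - hi2)).n = tp - hi2 := min_eq_left (by omega)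
    refine ⟨γ.pth hi2 (tp - hi2), v2.symm, ?_, ?_⟩
    · show mk (T.src (γ.e (hi2 + (γ.pth hi2 (tp - hi2)).n))) ∈ 𝔯 .Dp
      rw [hq, Nat.add_sub_cancel' htp.le]; exact H.door_p
    · rintro x ⟨i, hi, rfl⟩
      rw [hq] at hi
      exact ⟨H.black _, H.fit_p (hi2 + i) (by omega) (by omega)⟩
  · have hq : (γ.pth tm (lo2 - tm)).n = lo2 - tm := min_eq_left (by omega)
    refine ⟨(γ.pth tm (lo2 - tm)).rev, ?_, ?_, ?_⟩
    · show T.src (γ.e (tm + ((γ.pth tm (lo2 - tm)).n - 0))) = g2.vm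
      rw [hq, Nat.sub_zero, Nat.add_sub_cancel' htm.le]; exact m2.symm
    · show mk (T.src (γ.e (tm + ((γ.pth tm (lo2 - tm)).n - (γ.pth tm (lo2 - tm)).n)))) ∈ 𝔯 .Dm
      rw [Nat.sub_self, Nat.add_zero]; exact H.door_m
    · rintro x ⟨i, hi, rfl⟩
      have hi' : i ≤ lo2 - tm := hq ▸ hi
      show s (T.src (γ.e (tm + ((γ.pth tm (lo2 - tm)).n - i)))) = true ∧ mk (T.src (γ.e (tm + ((γ.pth tm (lo2 - tm)).n - i)))) ∈ 𝔯 .Nm
      rw [hq]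
      exact ⟨H.black _, H.fit_m _ (by omega) (by omega)⟩

/-- **P12 (d), white half**: a white path of the lane which starts on the circuit of `S₂`, given ORIENTATION (P11' = M11: the vertices of the lane on the circuit lie on the RIGHT arc) -/
theorem pvsb_white {mk : V → κ} {𝔯 : PvspReg κ} (𝔖 : PvspSt T s) (q : T.Pth) (hw : ∀ x ∈ q.verts, s x = false ∧ mk x ∈ 𝔯 .Mp) (h0 : q.v 0 ∈ 𝔖.g2.c.verts) (hn : mk (q.v q.n) ∈ 𝔯 .Dp)
    (hR : ∀ x ∈ 𝔖.g2.c.verts, mk x ∈ 𝔯 .Mp → s x = false → x ∈ 𝔖.g2.R) : PvspPath T mk s false 𝔖.g2.R (𝔯 .Mp) (𝔯 .Dp) :=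
  ⟨q, hR _ h0 (hw _ (pl_pth_fst_mem q)).2 (hw _ (pl_pth_fst_mem q)).1, hn, hw⟩

end Claimed.Agent.R289
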