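import Claimed.Agent.R289.Tr.CutP
import Claimed.Agent.R289.Tr.ArcC
import Claimed.Agent.R289.Tr.StabS

/-!
# Row 289 (S0537, Cardy for Poisson-Voronoi), THE WALL, ROAD P, item P17, file Tr/ArcP : THE FREE ARCS OF A PATTERN ON CONFIGURATIONS, AND ACT-Q      (owner helper212; consumer helper59 `Tr/N1SysP.lean`; prefix `pvzz_`, `pvzz`, `Pvzz`)

Contract: sec. 3 of `origin/helper59:notes/R289/N1SYSP_59.md` (A1-A6).      Text: `origin/helper6:notes/R289/W2c_6.md` v2 (FACED FORM: V2.0, TR11 ACT, TR14 MASK).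
Vocabulary: level A of `Tr/StateP.lean` (185: `PvspSt`, `PvspSt.At`), `pvtaB`, `pvtaN` (6, `Tr/Arc.lean`), `pvdcX`, `PvdcAct`, `pvdc_dict_encQ` (195, `Tr/Dict.lean`), local predicates (238, `Tr/PinLoc.lean`), RIM ⟹ STATE `pvkv_rim_pos` (263 9, `Tr/CutP.lean`).

* sec. 1  LEVEL A (one marked coloured map, marks = positions):  `PvzzDat T s` = (state of `s`, state of `t`, path `p`);   `𝔇.Is mk 𝔯s 𝔯t Ug U Lam g` : both states, `p : v₁⁺(s) → v₁⁻(t)` with positions `g`, `B_g`, `N_g` (anchor = right apex of the dart of `inn(s)` which enters `v₁⁺(s)`, or the layer `Lam`; joins in the region `U`), tube of the VERTICES `Ug` (v3: D7 D9 of 260, `Ug ⊆ U`, `Ug ∩ Lam = ∅` in `Wf`);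
          clauses of 260 (`len pre suf off`): `p` = (end of `inn(s)` after `ip`) + OUTER ARC off both closed discs of the gates `S₂` + (beginning of `inn(t)` before `im`);   `avs avt` (D8): `p` avoids `inn(s)[0,ip)` and `inn(t)(im,n]`;
          `𝔇.X mk Bs Bt = pvdcX` (mass of `inn(s)` in the disc `Bs` + mass of `p` off both discs, field `Q`);   the predicate `PvzzPred … g x`.
* sec. 2  TRANSFER along a local isomorphism, **`pvzz_pred_local`**;   sec. 3  **`pvzz_pred_unique`** (the index `g` determines the datum and its mass);   sec. 4  recolouring (`pvzz_pred_mono`).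
* sec. 5  RIM ⟹ ARC at the map level: **`pvzz_rim`**.
* sec. 6  CONFIGURATIONS: `PvzzPar` (parameters), `𝔭.IsAt g x Y σ`, `𝔭.Is g ζ x` (read on SOME configuration with the same points in the window `Ew` and SOME completion: so the reading of the window is EXACT), **`𝔭.E g`**, **`𝔭.X g`**.
          (A1) `pvzz_mem`, (A2) `pvzz_E_reads`, `pvzz_X_reads`, (A3) `pvzz_stab`, (A5) `pvzz_dict`, (A6) `pvzz_is_unique`, `pvzz_cnt`.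
* sec. 7  **(A4) ACT-Q** `pvzz_act`.
-/

set_option autoImplicit false
set_option linter.unusedSectionVars false
set_option linter.unusedVariables false

namespace Claimed.Agent.R289

open Set Metric Relation Claims.C0465

/-! ## 1. LEVEL A -/

section levelA

variable {V D : Type}

/-- the data of a present free arc: the two states and the path -/
structure PvzzDat (T : PvMap V D) (s : V → Bool) where
  Ss : PvspSt T s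
  St : PvspSt T s
  p : T.Pth

/-- the positions of the vertices of a path -/
def pvzzL {T : PvMap V D} (mk : V → ℂ) (p : T.Pth) : List ℂ := (List.range (p.n + 1)).map fun i => mk (p.v i)

/-- **the free arc with positions `g` is present** (`true` = the colour of the rim) -/
structure PvzzDat.Is {T : PvMap V D} {s : V → Bool} (𝔇 : PvzzDat T s) (mk : V → ℂ) (𝔯s 𝔯t : PvspReg ℂ) (Ug U Lam : Set ℂ) (g : List ℂ) : Prop where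
  ats : 𝔇.Ss.At mk 𝔯s
  att : 𝔇.St.At mk 𝔯t
  pos : g = pvzzL mk 𝔇.p
  src : 𝔇.p.v 0 = 𝔇.Ss.g1.vp
  tgt : 𝔇.p.v 𝔇.p.n = 𝔇.St.g1.vm
  black : pvtaB 𝔇.p s
  faced : pvtaN 𝔇.p s {v | mk v ∈ U} ({𝔇.Ss.inn.rap (𝔇.Ss.ip - 1)} ∪ {v | mk v ∈ Lam})
  tube : ∀ i, i ≤ 𝔇.p.n → mk (𝔇.p.v i) ∈ Ug
  len : 𝔇.Ss.inn.n - 𝔇.Ss.ip + 𝔇.St.im ≤ 𝔇.p.n
  pre : ∀ i, 𝔇.Ss.ip + i ≤ 𝔇.Ss.inn.n → 𝔇.p.v i = 𝔇.Ss.inn.v (𝔇.Ss.ip + i)
  suf : ∀ i, i ≤ 𝔇.St.im → 𝔇.p.v (𝔇.p.n - 𝔇.St.im + i) = 𝔇.St.inn.v i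
  off : ∀ k, 𝔇.Ss.inn.n - 𝔇.Ss.ip < k → k + 𝔇.St.im < 𝔇.p.n → 𝔇.p.v k ∉ T.VOf 𝔇.Ss.g2.c.Left ∧ 𝔇.p.v k ∉ T.VOf 𝔇.St.g2.c.Left
  avs : ∀ k, k ≤ 𝔇.p.n → ∀ i, i < 𝔇.Ss.ip → 𝔇.p.v k ≠ 𝔇.Ss.inn.v i
  avt : ∀ k, k ≤ 𝔇.p.n → ∀ i, 𝔇.St.im < i → i ≤ 𝔇.St.inn.n → 𝔇.p.v k ≠ 𝔇.St.inn.v i

/-- **`X_g`**, field `Q` -/
noncomputable def PvzzDat.X {T : PvMap V D} {s : V → Bool} (𝔇 : PvzzDat T s) (mk : V → ℂ) (Bs Bt : Set ℂ) : ℂ :=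
  pvdcX (T.bary mk) (T.qpart mk) Bs Bt 𝔇.Ss.inn 𝔇.p

end levelA

/-- the free arc `g` is present and its mass is `x` (`c` = the colour of the rim);   the STAR conditions = mesh at the gates (`Kr` = reading zone, kept as a label).
      **MID** (D10 of 59, 13:25Z): the tags of `inn(t)[im, ip)` lie in the cut-off disc `Bt` (CLOSE: `t2` of `PvcuMk` of 260) -/
def PvzzPred (𝔯s 𝔯t : PvspReg ℂ) (c : Bool) (Ug U Lam Kr Bs Bt : Set ℂ) (g : List ℂ) (x : ℂ) : PvplPred ℂ := fun _ _ T mk s =>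
  PvplStar T mk (fun w => w ∈ 𝔯s .O2) (𝔯s .S2) ∧ PvplStar T mk (fun w => w ∈ 𝔯t .O2) (𝔯t .S2) ∧
    ∃ 𝔇 : PvzzDat T (pvspS c s), 𝔇.Is mk 𝔯s 𝔯t Ug U Lam g ∧
      (∀ i, 𝔇.St.im ≤ i → i < 𝔇.St.ip → T.bary mk (T.opp (𝔇.St.inn.e i)) ∈ Bt) ∧ 𝔇.X mk Bs Bt = x

theorem pvzz_eqns_cite : True := by
  have := @pvzzL.eq_1; have := @PvzzDat.X.eq_1; have := @PvzzPred.eq_1
  trivial

/-! ## 2. TRANSFER along a local isomorphism -/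

section transfer

variable {κ : Type} {V D V' D' : Type} {T : PvMap V D} {mk : V → κ} {s : V → Bool} {T' : PvMap V' D'} {mk' : V' → κ} {s' : V' → Bool} {K : Set κ} {R : V → V' → Prop}

/-- the star condition is transferred, whatever its target -/
theorem pvzz_tr_star (h : PvplIso T mk s T' mk' s' K R) {P : κ → Prop} {Z : Set κ} (hP : ∀ k, P k → k ∈ K) (hst : PvplStar T mk P Z) : PvplStar T' mk' P Z := by
  intro d' hd'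
  obtain ⟨d, h1, h2, h3⟩ := h.ex' d' (hP _ hd')
  rw [h.mark _ _ h1] at hd'
  rw [h.mark _ _ h2, h.mark _ _ h3]
  exact hst d hd'

/-- corresponding paths have corresponding darts -/
theorem pvzz_tr_dart (h : PvplIso T mk s T' mk' s' K R) (hS' : T'.Simple) {q : T.Pth} {q' : T'.Pth} (hn : q'.n = q.n) (hv : ∀ i, i ≤ q.n → R (q.v i) (q'.v i))
    (hK : ∀ i, i ≤ q.n → mk (q.v i) ∈ K) {i : ℕ} (hi : i < q.n) : PvplRD T T' R (q.e i) (q'.e i) ∧ PvplRD T T' R (T.opp (q.e i)) (T'.opp (q'.e i)) := by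
  obtain ⟨d', d1, d2, d3⟩ := h.ex (q.e i) (by rw [q.src_e i hi]; exact hK i hi.le)
  have e1 : T'.src d' = q'.v i := by
    rw [q.src_e i hi] at d1
    exact h.fn _ _ _ d1 (hv i hi.le)
  have e2 : T'.tgt d' = q'.v (i + 1) := by
    rw [q.tgt_e i hi] at d2
    exact h.fn _ _ _ d2 (hv (i + 1) hi)
  have e3 : d' = q'.e i := hS' _ _ (by rw [e1, q'.src_e i (by omega)]) (by rw [e2, q'.tgt_e i (by omega)])
  rw [← e3]
  exact ⟨⟨d1, d2, d3⟩, h.opp hS' ⟨d1, d2, d3⟩ (by rw [q.tgt_e i hi]; exact hK (i + 1) hi)⟩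

/-- transfer of a join through vertices with marks in `K` -/
theorem pvzz_tr_join (h : PvplIso T mk s T' mk' s' K R) {Xs : Set V} {Xs' : Set V'} (hX : ∀ u u', R u u' → u ∈ Xs → u' ∈ Xs') (hK : ∀ u ∈ Xs, mk u ∈ K) {a b : V} {a' : V'}
    (ha : R a a') (hj : T.Join Set.univ Xs a b) : ∃ b', R b b' ∧ T'.Join Set.univ Xs' a' b' := by
  obtain ⟨h0, hj⟩ := hj
  have key : b ∈ Xs ∧ ∃ b', R b b' ∧ ReflTransGen (fun u v => T'.EdgeIn Set.univ u v ∧ v ∈ Xs') a' b' := by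
    induction hj with
    | refl => exact ⟨h0, a', ha, ReflTransGen.refl⟩
    | @tail u v _ huv ih =>
      obtain ⟨hu, u', hu', hj'⟩ := ih
      obtain ⟨⟨d, -, rfl, rfl⟩, hv⟩ := huv
      obtain ⟨d', d1, d2, -⟩ := h.ex d (hK _ hu)
      have e : T'.src d' = u' := h.fn _ _ _ d1 hu'
      exact ⟨hv, T'.tgt d', d2, hj'.tail ⟨⟨d', Or.inl (Set.mem_univ _), e, rfl⟩, hX _ _ d2 hv⟩⟩
  obtain ⟨-, b', hb', hj'⟩ := key
  exact ⟨b', hb', hX _ _ ha h0, hj'⟩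

/-- the inner arc ends at `v₂⁺` -/
theorem pvzz_inn_vn {𝔯 : PvspReg κ} {𝔖 : PvspSt T s} (hA : 𝔖.At mk 𝔯) : 𝔖.inn.v 𝔖.inn.n = 𝔖.g2.vp := by
  rw [pvt_sd_vn hA.arc]
  show T.src (pvasExit T 𝔖.g2.c.Left s 𝔖.g2.aIn) = _
  rw [hA.sel2.thru, pvtg_aOut_src]

/-- the vertices of the inner arc are marked in the zone `S2` -/
theorem pvzz_inn_zone {𝔯 : PvspReg κ} (hN : 𝔯.Nest) (hst : PvplStar T mk (fun x => x ∈ 𝔯 .O2) (𝔯 .S2)) {𝔖 : PvspSt T s} (hA : 𝔖.At mk 𝔯) :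
    ∀ i, i ≤ 𝔖.inn.n → mk (𝔖.inn.v i) ∈ 𝔯 .S2 := by
  obtain ⟨n1, n2, n3, n4⟩ := hN
  have hP : ∀ k, k ∈ 𝔯 .O2 → k ∈ 𝔯 .S2 := fun k hk => n4 hk
  have hz2 : ∀ d ∈ 𝔖.g2.c.Left, mk (T.src d) ∈ 𝔯 .S2 ∧ mk (T.tgt d) ∈ 𝔯 .S2 ∧ mk (T.apex d) ∈ 𝔯 .S2 := fun d hd =>
    pvsp_zone hst hP (hA.sel2.outer hd)
  have hlt : ∀ j, j < 𝔖.g2.len → pvasIt T s 𝔖.g2.aIn j ∈ 𝔖.g2.c.Left := fun j hj => not_not.1 (Nat.notMem_of_lt_sInf hj)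
  intro i hi
  rcases Nat.lt_or_ge i 𝔖.inn.n with hi | hi'
  · obtain ⟨j, h0, hj, h1, h2⟩ := hA.arc
    obtain ⟨a1, a2, -⟩ := h1 i hi.le
    have hne : j i ≠ 𝔖.g2.len := fun e => by
      have e2 := (h1 𝔖.inn.n le_rfl).2.1
      rw [hj] at e2
      rw [e] at a2
      have := 𝔖.inn.inj i 𝔖.inn.n hi.le le_rfl (a2.trans e2.symm)
      omega
    rw [a2]
    exact (hz2 _ (hlt _ (by omega))).1
  · have e : i = 𝔖.inn.n := le_antisymm hi hi'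
    rw [e, pvzz_inn_vn hA]
    exact (hz2 _ (hA.sel2.on 𝔖.g2.m)).1

/-- **transfer of the state with its inner arc and its two marked indices** (the proof of `pvsp_tr_at` of 76 / `pvkv_tr_at` of 263, keeping everything) -/
theorem pvzz_tr_at {𝔯 : PvspReg κ} (hN : 𝔯.Nest) (h : PvplIso T mk s T' mk' s' (𝔯 .S2) R) (hS : T.Simple) (hS' : T'.Simple)
    (hst : PvplStar T mk (fun x => x ∈ 𝔯 .O2) (𝔯 .S2)) {𝔖 : PvspSt T s} (hA : 𝔖.At mk 𝔯) :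
    ∃ 𝔖' : PvspSt T' s', 𝔖'.At mk' 𝔯 ∧ 𝔖'.ip = 𝔖.ip ∧ 𝔖'.im = 𝔖.im ∧ 𝔖'.inn.n = 𝔖.inn.n ∧ (∀ i, i ≤ 𝔖.inn.n → R (𝔖.inn.v i) (𝔖'.inn.v i)) ∧
      ∀ d' ∈ 𝔖'.g2.c.Left, ∃ d, PvplRD T T' R d d' ∧ d ∈ 𝔖.g2.c.Left := by
  have hmk := pvzz_inn_zone hN hst hA
  obtain ⟨n1, n2, n3, n4⟩ := hN
  have hP : ∀ k, k ∈ 𝔯 .O2 → k ∈ 𝔯 .S2 := fun k hk => n4 hk
  have hz1 : ∀ d ∈ 𝔖.g1.c.Left, mk (T.src d) ∈ 𝔯 .S2 ∧ mk (T.tgt d) ∈ 𝔯 .S2 ∧ mk (T.apex d) ∈ 𝔯 .S2 := fun d hd =>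
    pvsp_zone hst hP (pvpl_B_mono T (fun v hv => n2 hv) (hA.sel1.outer hd))
  have hz2 : ∀ d ∈ 𝔖.g2.c.Left, mk (T.src d) ∈ 𝔯 .S2 ∧ mk (T.tgt d) ∈ 𝔯 .S2 ∧ mk (T.apex d) ∈ 𝔯 .S2 := fun d hd =>
    pvsp_zone hst hP (hA.sel2.outer hd)
  obtain ⟨g1', hm1, -, hc1⟩ := pvsp_tr_gate h hS' 𝔖.g1 fun i => h.ex _ (hz1 _ (hA.sel1.on i)).1
  obtain ⟨g2', hm2, -, hc2⟩ := pvsp_tr_gate h hS' 𝔖.g2 fun i => h.ex _ (hz2 _ (hA.sel2.on i)).1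
  obtain ⟨hlen, hit, -⟩ := pvsp_tr_strand h hS hS' hm2 hc2 hA.sel2.on hz2
  have h0 : ∃ v', R (𝔖.inn.v 0) v' := by
    obtain ⟨j, h0, -⟩ := hA.arc
    rw [h0]
    exact ⟨_, (hc2 0).1⟩
  obtain ⟨inn', hn, hv⟩ := pvsp_tr_pth h ⟨g2'.c.e 0⟩ 𝔖.inn (fun i hi => hmk i hi.le) h0
  refine ⟨⟨g1', g2', inn', 𝔖.im, 𝔖.ip⟩, ⟨?_, ?_, ?_, hA.im_lt, by rw [hn]; exact hA.ip_le, ?_, ?_, ?_, ?_, ?_, ?_⟩, rfl, rfl, hn, hv,
    fun d' hd' => pvsp_tr_left_bwd h hS hS' hc2 (fun d hd => (hz2 d hd).2.1) hd'⟩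
  · exact pvsp_tr_sel h hS hS' hP hst (PI := fun x => x ∈ 𝔯 .I1) (PO := fun x => x ∈ 𝔯 .O1) (fun k hk => n2 (n1 hk)) (fun k hk => n2 hk) hm1 hc1 hA.sel1
  · exact pvsp_tr_sel h hS hS' hP hst (PI := fun x => x ∈ 𝔯 .I2) (PO := fun x => x ∈ 𝔯 .O2) (fun k hk => n3 hk) (fun k hk => hk) hm2 hc2 hA.sel2
  · show PvwLE T' (fun i => T'.src (pvasIt T' s' g2'.aIn i)) g2'.len inn'
    rw [hlen]
    exact pvsp_tr_le h (fun i hi => (hit i hi).1) hn hv hA.arc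
  · have h1 := hv 𝔖.im (hA.im_lt.le.trans hA.ip_le)
    rw [hA.im_eq] at h1
    exact h.fn _ _ _ h1 (hc1 0).1
  · have h1 := hv 𝔖.ip hA.ip_le
    rw [hA.ip_eq] at h1
    show inn'.v 𝔖.ip = T'.src (g1'.c.e g1'.m)
    rw [hm1]
    exact h.fn _ _ _ h1 (hc1 _).1
  · intro i hi hin
    rw [hn] at hin
    show mk' (inn'.v i) ∈ _
    rw [h.mark _ _ (hv i hin)]
    exact hA.fit_p i hi hin
  · intro i hi
    show mk' (inn'.v i) ∈ _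
    rw [h.mark _ _ (hv i (hi.trans hA.ip_le))]
    exact hA.fit_m i hi
  · show mk' (T'.src (g2'.c.e g2'.m)) ∈ _
    rw [hm2, h.mark _ _ (hc2 _).1]
    exact hA.vp
  · show mk' (T'.src (g2'.c.e 0)) ∈ _
    rw [h.mark _ _ (hc2 _).1]
    exact hA.vm

end transfer

section transferC

variable {V D V' D' : Type} {T : PvMap V D} {mk : V → ℂ} {s : V → Bool} {T' : PvMap V' D'} {mk' : V' → ℂ} {s' : V' → Bool} {K : Set ℂ} {R : V → V' → Prop}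

theorem pvzz_rd_bary (h : PvplIso T mk s T' mk' s' K R) {d : D} {d' : D'} (hd : PvplRD T T' R d d') : T'.bary mk' d' = T.bary mk d := by
  obtain ⟨r1, r2, r3⟩ := hd
  unfold PvMap.bary
  rw [h.mark _ _ r1, h.mark _ _ r2, h.mark _ _ r3]

theorem pvzz_rd_side (h : PvplIso T mk s T' mk' s' K R) {d : D} {d' : D'} (hd : PvplRD T T' R d d') : T'.side mk' d' = T.side mk d := by
  obtain ⟨r1, r2, r3⟩ := hd
  unfold PvMap.side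
  rw [h.mark _ _ r1, h.mark _ _ r2]

theorem pvzz_rd_qpart (h : PvplIso T mk s T' mk' s' K R) {d : D} {d' : D'} (hd : PvplRD T T' R d d') : T'.qpart mk' d' = T.qpart mk d := by
  unfold PvMap.qpart
  rw [pvzz_rd_side h hd, pvzz_rd_side h hd.nxt, pvzz_rd_side h hd.nxt.nxt]

/-- corresponding paths have the same masked `Q`-mass -/
theorem pvzz_tr_psum (h : PvplIso T mk s T' mk' s' K R) (hS' : T'.Simple) {q : T.Pth} {q' : T'.Pth} (hn : q'.n = q.n) (hv : ∀ i, i ≤ q.n → R (q.v i) (q'.v i))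
    (hK : ∀ i, i ≤ q.n → mk (q.v i) ∈ K) (B : Set ℂ) : q'.psum (pvdcW (T'.bary mk') (T'.qpart mk') B) = q.psum (pvdcW (T.bary mk) (T.qpart mk) B) := by
  unfold PvMap.Pth.psum
  rw [hn]
  refine Finset.sum_congr rfl fun i hi => ?_
  have := (pvzz_tr_dart h hS' hn hv hK (Finset.mem_range.1 hi)).2
  unfold pvdcW
  rw [pvzz_rd_bary h this, pvzz_rd_qpart h this]

/-- one direction of the locality -/
theorem pvzz_tr_pred {𝔯s 𝔯t : PvspReg ℂ} (hNs : 𝔯s.Nest) (hNt : 𝔯t.Nest) {Ug U Lam Kr Bs Bt : Set ℂ} (hs : 𝔯s .S2 ⊆ Kr) (ht : 𝔯t .S2 ⊆ Kr) (hg : Ug ⊆ Kr) (hU : U ⊆ Kr) (c : Bool) (g : List ℂ) (x : ℂ)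
    (h : PvplIso T mk s T' mk' s' Kr R) (hS : T.Simple) (hS' : T'.Simple) (hp : PvzzPred 𝔯s 𝔯t c Ug U Lam Kr Bs Bt g x V D T mk s) :
    PvzzPred 𝔯s 𝔯t c Ug U Lam Kr Bs Bt g x V' D' T' mk' s' := by
  obtain ⟨st1, st2, 𝔇, hI, hmid, hx⟩ := hp
  have hc := pvsp_tr_S h c
  obtain ⟨Ss', As', ips, ims, ns, vs, Ls⟩ := pvzz_tr_at hNs (hc.mono hs) hS hS' st1 hI.ats
  obtain ⟨St', At', ipt, imt, nt, vt, Lt⟩ := pvzz_tr_at hNt (hc.mono ht) hS hS' st2 hI.att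
  have zs := pvzz_inn_zone hNs st1 hI.ats
  have a1 := hI.ats.im_lt
  have a2 := hI.ats.ip_le
  have b1 := hI.att.im_lt
  have b2 := hI.att.ip_le
  have r0 : R (𝔇.p.v 0) (Ss'.inn.v 𝔇.Ss.ip) := by rw [hI.src, ← hI.ats.ip_eq]; exact vs _ a2
  obtain ⟨p', np, vp⟩ := pvsp_tr_pth hc ⟨Ss'.g2.c.e 0⟩ 𝔇.p (fun i hi => hg (hI.tube i hi.le)) ⟨_, r0⟩
  have hKp : ∀ i, i ≤ 𝔇.p.n → mk (𝔇.p.v i) ∈ Kr := fun i hi => hg (hI.tube i hi)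
  refine ⟨pvzz_tr_star h (fun k hk => hs (hNs.2.2.2 hk)) st1, pvzz_tr_star h (fun k hk => ht (hNt.2.2.2 hk)) st2,
    ⟨Ss', St', p'⟩, ⟨As', At', ?_, ?_, ?_, ?_, ?_, ?_, ?_, ?_, ?_, ?_, ?_, ?_⟩, ?_, ?_⟩
  · rw [hI.pos]
    unfold pvzzL
    show _ = (List.range (p'.n + 1)).map fun i => mk' (p'.v i)
    rw [np]
    refine List.map_congr_left fun i hi => ?_
    exact (hc.mark _ _ (vp i (by have := List.mem_range.1 hi; omega))).symm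
  · show p'.v 0 = Ss'.g1.vp
    rw [← As'.ip_eq, ips]
    exact hc.fn _ _ _ (vp 0 (Nat.zero_le _)) r0
  · show p'.v p'.n = St'.g1.vm
    rw [np, ← At'.im_eq, imt]
    exact hc.fn _ _ _ (vp _ le_rfl) (by rw [hI.tgt, ← hI.att.im_eq]; exact vt _ (by omega))
  · intro i hi
    have hi' : i ≤ 𝔇.p.n := by rw [← np]; exact hi
    show pvspS c s' (p'.v i) = true
    rw [hc.col _ _ (vp i hi')]
    exact hI.black i hi'
  · intro k hk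
    have hk' : k < 𝔇.p.n := by rw [← np]; exact hk
    obtain ⟨a, ha, hj⟩ := hI.faced k hk'
    have ra : R (𝔇.p.rap k) (p'.rap k) := (pvzz_tr_dart hc hS' np vp hKp hk').2.2.2
    obtain ⟨b', hb', hj'⟩ := pvzz_tr_join hc (Xs' := {v | v ∈ {v | mk' v ∈ U} ∧ v ∉ p'.verts ∧ pvspS c s' v = false}) (fun u u' hu hX => by
      obtain ⟨x1, x2, x3⟩ := hX
      refine ⟨?_, ?_, ?_⟩
      · show mk' u' ∈ U
        rw [hc.mark _ _ hu]; exact x1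
      · rintro ⟨i, hi, rfl⟩
        rw [np] at hi
        exact x2 ⟨i, hi, hc.inj _ _ _ (vp i hi) hu⟩
      · rw [hc.col _ _ hu]; exact x3) (fun u hu => hU hu.1) ra hj
    refine ⟨b', ?_, hj'⟩
    rcases ha with ha | ha
    · left
      have ha' : a = 𝔇.Ss.inn.rap (𝔇.Ss.ip - 1) := ha
      have r2 : R (𝔇.Ss.inn.rap (𝔇.Ss.ip - 1)) (Ss'.inn.rap (𝔇.Ss.ip - 1)) := (pvzz_tr_dart (hc.mono hs) hS' ns vs zs (i := 𝔇.Ss.ip - 1) (by omega)).2.2.2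
      show b' = Ss'.inn.rap (Ss'.ip - 1)
      rw [ips]
      rw [ha'] at hb'
      exact hc.fn _ _ _ hb' r2
    · right
      show mk' b' ∈ Lam
      rw [hc.mark _ _ hb']; exact ha
  · intro i hi
    have hi' : i ≤ 𝔇.p.n := by rw [← np]; exact hi
    show mk' (p'.v i) ∈ Ug
    rw [hc.mark _ _ (vp i hi')]
    exact hI.tube i hi'
  · show Ss'.inn.n - Ss'.ip + St'.im ≤ p'.n
    rw [ns, ips, imt, np]
    exact hI.len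
  · intro i hi
    have hi' : 𝔇.Ss.ip + i ≤ 𝔇.Ss.inn.n := by rw [← ns, ← ips]; exact hi
    have hl := hI.len
    show p'.v i = Ss'.inn.v (Ss'.ip + i)
    rw [ips]
    exact hc.fn _ _ _ (vp i (by omega)) (by rw [hI.pre i hi']; exact vs _ hi')
  · intro i hi
    have hi' : i ≤ 𝔇.St.im := by rw [← imt]; exact hi
    have hl := hI.len
    show p'.v (p'.n - St'.im + i) = St'.inn.v i
    rw [np, imt]
    exact hc.fn _ _ _ (vp _ (by omega)) (by rw [hI.suf i hi']; exact vt _ (by omega))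
  · intro k k1 k2
    have k1' : 𝔇.Ss.inn.n - 𝔇.Ss.ip < k := by rw [← ns, ← ips]; exact k1
    have k2' : k + 𝔇.St.im < 𝔇.p.n := by rw [← imt, ← np]; exact k2
    obtain ⟨o1, o2⟩ := hI.off k k1' k2'
    have rk := vp k (by omega)
    constructor
    · rintro ⟨d', hd', e⟩
      obtain ⟨d, rd, hd⟩ := Ls d' hd'
      exact o1 ⟨d, hd, hc.inj _ _ _ rd.1 (by rw [e]; exact rk)⟩
    · rintro ⟨d', hd', e⟩
      obtain ⟨d, rd, hd⟩ := Lt d' hd'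
      exact o2 ⟨d, hd, hc.inj _ _ _ rd.1 (by rw [e]; exact rk)⟩
  · intro k hk i hi e
    have hk' : k ≤ 𝔇.p.n := by rw [← np]; exact hk
    have hi' : i < 𝔇.Ss.ip := by rw [← ips]; exact hi
    have e' : p'.v k = Ss'.inn.v i := e
    exact hI.avs k hk' i hi' (hc.inj _ _ _ (vp k hk') (by rw [e']; exact vs i (by omega)))
  · intro k hk i hi hi2 e
    have hk' : k ≤ 𝔇.p.n := by rw [← np]; exact hk
    have hi' : 𝔇.St.im < i := by rw [← imt]; exact hi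
    have hi2' : i ≤ 𝔇.St.inn.n := by rw [← nt]; exact hi2
    have e' : p'.v k = St'.inn.v i := e
    exact hI.avt k hk' i hi' hi2' (hc.inj _ _ _ (vp k hk') (by rw [e']; exact vt i hi2'))
  · intro i i1 i2
    have i1' : 𝔇.St.im ≤ i := by rw [← imt]; exact i1
    have i2' : i < 𝔇.St.ip := by rw [← ipt]; exact i2
    have rd := (pvzz_tr_dart (hc.mono ht) hS' nt vt (pvzz_inn_zone hNt st2 hI.att) (i := i) (by omega)).2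
    show T'.bary mk' (T'.opp (St'.inn.e i)) ∈ Bt
    rw [pvzz_rd_bary (hc.mono ht) rd]
    exact hmid i i1' i2'
  · rw [← hx]
    show pvdcX (T'.bary mk') (T'.qpart mk') Bs Bt Ss'.inn p' = pvdcX (T.bary mk) (T.qpart mk) Bs Bt 𝔇.Ss.inn 𝔇.p
    unfold pvdcX
    rw [pvzz_tr_psum (hc.mono hs) hS' ns vs zs, pvzz_tr_psum hc hS' np vp hKp]

/-- **LOCALITY** of the free arc: it is read at the vertices with a position in `Kr` -/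
theorem pvzz_pred_local {𝔯s 𝔯t : PvspReg ℂ} (hNs : 𝔯s.Nest) (hNt : 𝔯t.Nest) {Ug U Lam Kr Bs Bt : Set ℂ} (hs : 𝔯s .S2 ⊆ Kr) (ht : 𝔯t .S2 ⊆ Kr) (hg : Ug ⊆ Kr) (hU : U ⊆ Kr) (c : Bool) (g : List ℂ) (x : ℂ) :
    (PvzzPred 𝔯s 𝔯t c Ug U Lam Kr Bs Bt g x).Local Kr :=
  fun _ _ _ _ _ _ _ _ _ _ _ hS hS' hi => ⟨pvzz_tr_pred hNs hNt hs ht hg hU c g x hi hS hS', pvzz_tr_pred hNs hNt hs ht hg hU c g x hi.symm hS' hS⟩

end transferC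

/-! ## 3. the index determines the datum -/

section unique

variable {V D : Type} {T : PvMap V D} {mk : V → ℂ} {s : V → Bool}

theorem pvzz_L_inj {p p' : T.Pth} (h : pvzzL mk p = pvzzL mk p') : p.n = p'.n ∧ ∀ i, i ≤ p.n → mk (p.v i) = mk (p'.v i) := by
  have hl := congrArg List.length h
  simp only [pvzzL, List.length_map, List.length_range] at hl
  have hn : p.n = p'.n := by omega
  refine ⟨hn, fun i hi => ?_⟩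
  have h1 := congrArg (fun l => l[i]?) h
  simp only [pvzzL, List.getElem?_map] at h1
  rw [List.getElem?_range (by omega), List.getElem?_range (by omega)] at h1
  simpa using h1

theorem pvzz_L_mem {p : T.Pth} {w : ℂ} : w ∈ pvzzL mk p ↔ ∃ i, i ≤ p.n ∧ mk (p.v i) = w := by
  simp only [pvzzL, List.mem_map, List.mem_range]
  exact ⟨fun ⟨i, hi, e⟩ => ⟨i, by omega, e⟩, fun ⟨i, hi, e⟩ => ⟨i, by omega, e⟩⟩

/-- two paths with the same vertices have the same sums -/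
theorem pvzz_psum_congr (hS : T.Simple) {q q' : T.Pth} (hn : q.n = q'.n) (hv : ∀ i, i ≤ q.n → q.v i = q'.v i) (w : D → ℂ) : q.psum w = q'.psum w := by
  unfold PvMap.Pth.psum
  rw [← hn]
  refine Finset.sum_congr rfl fun i hi => ?_
  have hi' := Finset.mem_range.1 hi
  rw [hS (q.e i) (q'.e i) (by rw [q.src_e i hi', q'.src_e i (hn ▸ hi'), hv i hi'.le]) (by rw [q.tgt_e i hi', q'.tgt_e i (hn ▸ hi'), hv (i + 1) hi'])]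

/-- **UNIQUENESS** on one map -/
theorem pvzz_pred_unique {𝔯s 𝔯t : PvspReg ℂ} {c : Bool} {Ug U Lam Kr Bs Bt : Set ℂ} {g : List ℂ} {x x' : ℂ} (hT : T.IsSph) (hS : T.Simple)
    (hds : ∀ v, mk v ∈ 𝔯s .Np → mk v ∈ 𝔯s .Nm → mk v ∈ 𝔯s .I2) (hinj : ∀ u v, mk u ∈ Ug → mk u = mk v → u = v)
    (h : PvzzPred 𝔯s 𝔯t c Ug U Lam Kr Bs Bt g x V D T mk s) (h' : PvzzPred 𝔯s 𝔯t c Ug U Lam Kr Bs Bt g x' V D T mk s) : x = x' := by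
  obtain ⟨-, -, 𝔇, hI, -, hx⟩ := h
  obtain ⟨-, -, 𝔇', hI', -, hx'⟩ := h'
  obtain ⟨-, -, -, -, -, un, uv, -, -⟩ := pvsp_at_unique hT hS hds hI.ats hI'.ats
  obtain ⟨pn, pv⟩ := pvzz_L_inj (hI.pos.symm.trans hI'.pos)
  rw [← hx, ← hx']
  unfold PvzzDat.X pvdcX
  rw [pvzz_psum_congr hS un uv, pvzz_psum_congr hS pn fun i hi => hinj _ _ (hI.tube i hi) (pv i hi)]

end unique

/-! ## 4. recolouring: the states are frozen, `B_g` is frozen, `N_g` is increasing in the opposite colour -/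

section mono

variable {V D : Type} {T : PvMap V D} {mk : V → ℂ}

theorem pvzz_pred_mono {𝔯s 𝔯t : PvspReg ℂ} (hNs : 𝔯s.Nest) (hNt : 𝔯t.Nest) {c : Bool} {Ug U Lam Kr Bs Bt Zs Zt : Set ℂ} {g : List ℂ} {x : ℂ} (hS : T.Simple) {s s' : V → Bool}
    (hZs : PvplStar T mk (fun w => w ∈ 𝔯s .S2) Zs) (hZt : PvplStar T mk (fun w => w ∈ 𝔯t .S2) Zt) (hsZ : 𝔯s .S2 ⊆ Zs) (htZ : 𝔯t .S2 ⊆ Zt)
    (e1 : ∀ v, mk v ∈ Zs ∪ Zt → s' v = s v) (e2 : ∀ v, mk v ∈ g → s' v = s v) (e3 : ∀ v, mk v ∈ U → s v ≠ c → s' v ≠ c)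
    (h : PvzzPred 𝔯s 𝔯t c Ug U Lam Kr Bs Bt g x V D T mk s) : PvzzPred 𝔯s 𝔯t c Ug U Lam Kr Bs Bt g x V D T mk s' := by
  obtain ⟨st1, st2, 𝔇, hI, hmid, hx⟩ := h
  have iso : ∀ (𝔯 : PvspReg ℂ) (Z : Set ℂ), PvplStar T mk (fun w => w ∈ 𝔯 .S2) Z → 𝔯 .S2 ⊆ Z → (∀ v, mk v ∈ Z → s' v = s v) →
      PvplIso T mk (pvspS c s) T mk (pvspS c s') (𝔯 .S2) (fun u u' => u = u' ∧ mk u ∈ Z) := by
    intro 𝔯 Z hZ hsub he
    refine ⟨?_, ?_, ?_, ?_, ?_, ?_⟩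
    · rintro u u' ⟨rfl, -⟩; rfl
    · rintro u u' ⟨rfl, hu⟩
      unfold pvspS
      rw [he u hu]
    · rintro u u' u'' ⟨rfl, -⟩ ⟨rfl, -⟩; rfl
    · rintro u v u' ⟨rfl, -⟩ ⟨rfl, -⟩; rfl
    · intro d hd
      exact ⟨d, ⟨rfl, hsub hd⟩, ⟨rfl, (hZ d hd).1⟩, ⟨rfl, (hZ d hd).2⟩⟩
    · intro d hd
      exact ⟨d, ⟨rfl, hsub hd⟩, ⟨rfl, (hZ d hd).1⟩, ⟨rfl, (hZ d hd).2⟩⟩
  obtain ⟨Ss', As', ips, ims, ns, vs, Ls⟩ := pvzz_tr_at hNs (iso 𝔯s Zs hZs hsZ fun v hv => e1 v (Or.inl hv)) hS hS st1 hI.ats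
  obtain ⟨St', At', ipt, imt, nt, vt, Lt⟩ := pvzz_tr_at hNt (iso 𝔯t Zt hZt htZ fun v hv => e1 v (Or.inr hv)) hS hS st2 hI.att
  have a1 := hI.ats.im_lt
  have a2 := hI.ats.ip_le
  have b1 := hI.att.im_lt
  have b2 := hI.att.ip_le
  have es : ∀ i, i < 𝔇.Ss.inn.n → 𝔇.Ss.inn.e i = Ss'.inn.e i := fun i hi =>
    hS _ _ (by rw [𝔇.Ss.inn.src_e i hi, Ss'.inn.src_e i (ns ▸ hi), (vs i hi.le).1]) (by rw [𝔇.Ss.inn.tgt_e i hi, Ss'.inn.tgt_e i (ns ▸ hi), (vs (i + 1) hi).1])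
  have et : ∀ i, i < 𝔇.St.inn.n → 𝔇.St.inn.e i = St'.inn.e i := fun i hi =>
    hS _ _ (by rw [𝔇.St.inn.src_e i hi, St'.inn.src_e i (nt ▸ hi), (vt i hi.le).1]) (by rw [𝔇.St.inn.tgt_e i hi, St'.inn.tgt_e i (nt ▸ hi), (vt (i + 1) hi).1])
  refine ⟨st1, st2, ⟨Ss', St', 𝔇.p⟩, ⟨As', At', hI.pos, ?_, ?_, ?_, ?_, hI.tube, ?_, ?_, ?_, ?_, ?_, ?_⟩, ?_, ?_⟩
  · show 𝔇.p.v 0 = Ss'.g1.vp
    rw [← As'.ip_eq, ips, ← (vs _ a2).1, hI.ats.ip_eq, hI.src]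
  · show 𝔇.p.v 𝔇.p.n = St'.g1.vm
    rw [← At'.im_eq, imt, ← (vt _ (by omega)).1, hI.att.im_eq, hI.tgt]
  · intro i hi
    show pvspS c s' (𝔇.p.v i) = true
    have := hI.black i hi
    unfold pvspS at this ⊢
    rwa [e2 _ (by rw [hI.pos]; exact pvzz_L_mem.2 ⟨i, hi, rfl⟩)]
  · show pvtaN 𝔇.p (pvspS c s') {v | mk v ∈ U} ({Ss'.inn.rap (Ss'.ip - 1)} ∪ {v | mk v ∈ Lam})
    have e : Ss'.inn.rap (Ss'.ip - 1) = 𝔇.Ss.inn.rap (𝔇.Ss.ip - 1) := by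
      unfold PvMap.Pth.rap
      rw [ips, es _ (by omega)]
    rw [e]
    refine pvtac_N_loc 𝔇.p _ _ (fun v hv _ hw => ?_) hI.faced
    unfold pvspS at hw ⊢
    have h1 : s v ≠ c := fun hh => by rw [hh] at hw; simp at hw
    have h2 := e3 v hv h1
    simpa using h2
  · show Ss'.inn.n - Ss'.ip + St'.im ≤ 𝔇.p.n
    rw [ns, ips, imt]
    exact hI.len
  · intro i hi
    have hi' : 𝔇.Ss.ip + i ≤ 𝔇.Ss.inn.n := by rw [← ns, ← ips]; exact hi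
    show 𝔇.p.v i = Ss'.inn.v (Ss'.ip + i)
    rw [ips, ← (vs _ hi').1]
    exact hI.pre i hi'
  · intro i hi
    have hi' : i ≤ 𝔇.St.im := by rw [← imt]; exact hi
    show 𝔇.p.v (𝔇.p.n - St'.im + i) = St'.inn.v i
    rw [imt, ← (vt _ (by omega)).1]
    exact hI.suf i hi'
  · intro k k1 k2
    have k1' : 𝔇.Ss.inn.n - 𝔇.Ss.ip < k := by rw [← ns, ← ips]; exact k1
    have k2' : k + 𝔇.St.im < 𝔇.p.n := by rw [← imt]; exact k2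
    obtain ⟨o1, o2⟩ := hI.off k k1' k2'
    constructor
    · rintro ⟨d', hd', e⟩
      obtain ⟨d, rd, hd⟩ := Ls d' hd'
      exact o1 ⟨d, hd, by rw [rd.1.1]; exact e⟩
    · rintro ⟨d', hd', e⟩
      obtain ⟨d, rd, hd⟩ := Lt d' hd'
      exact o2 ⟨d, hd, by rw [rd.1.1]; exact e⟩
  · intro k hk i hi e
    have hi' : i < 𝔇.Ss.ip := by rw [← ips]; exact hi
    have e' : 𝔇.p.v k = Ss'.inn.v i := e
    exact hI.avs k hk i hi' (by rw [e', ← (vs i (by omega)).1])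
  · intro k hk i hi hi2 e
    have hi' : 𝔇.St.im < i := by rw [← imt]; exact hi
    have hi2' : i ≤ 𝔇.St.inn.n := by rw [← nt]; exact hi2
    have e' : 𝔇.p.v k = St'.inn.v i := e
    exact hI.avt k hk i hi' hi2' (by rw [e', ← (vt i hi2').1])
  · intro i i1 i2
    have i1' : 𝔇.St.im ≤ i := by rw [← imt]; exact i1
    have i2' : i < 𝔇.St.ip := by rw [← ipt]; exact i2
    show T.bary mk (T.opp (St'.inn.e i)) ∈ Bt
    rw [← et i (by omega)]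
    exact hmid i i1' i2'
  · rw [← hx]
    show pvdcX (T.bary mk) (T.qpart mk) Bs Bt Ss'.inn 𝔇.p = pvdcX (T.bary mk) (T.qpart mk) Bs Bt 𝔇.Ss.inn 𝔇.p
    unfold pvdcX
    rw [pvzz_psum_congr hS ns.symm fun i hi => (vs i hi).1]

end mono

/-! ## 5. RIM ⟹ ARC at the map level -/

section rim

variable {V D : Type} {T : PvMap V D} {mk : V → ℂ} {s : V → Bool}

/-- **TR11 (ACT) for two states**: the arc of a black rim from `v₁⁺(s)` to `v₁⁻(t)` is a present free arc -/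
theorem pvzz_rim (hT : T.IsSph) {𝔯s 𝔯t : PvspReg ℂ} {Ss St : PvspSt T s} (hAs : Ss.At mk 𝔯s) (hAt : St.At mk 𝔯t) {c : T.Cyc} (hc : c.IsRim s) (hb : s (T.src (c.e 0)) = true) {ls lt : ℕ}
    (es : ∀ i, i < Ss.inn.n → Ss.inn.e i = c.e (ls + i)) (vs : ∀ i, i ≤ Ss.inn.n → Ss.inn.v i = T.src (c.e (ls + i))) (vt : ∀ i, i ≤ St.inn.n → St.inn.v i = T.src (c.e (lt + i)))
    (Ps : Ss.g2.Pass c ls (ls + Ss.inn.n)) (Pt : St.g2.Pass c lt (lt + St.inn.n)) (hord : ls + Ss.inn.n ≤ lt) (hlt : lt + St.inn.n < c.n) {Ug U Lam : Set ℂ}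
    (hrun : ∀ k, ls + Ss.ip ≤ k → k ≤ lt + St.im → mk (T.src (c.e k)) ∈ Ug) (hap : ∀ k, ls + Ss.ip ≤ k → k < lt + St.im → mk (T.apex (T.opp (c.e k))) ∈ U)
    (hΛ : ∀ u, mk u ∈ U → mk u ∉ Lam → ∀ w, T.Adj u w → mk w ∈ U) :
    (⟨Ss, St, c.pth (ls + Ss.ip) (lt + St.im - (ls + Ss.ip))⟩ : PvzzDat T s).Is mk 𝔯s 𝔯t Ug U Lam (pvzzL mk (c.pth (ls + Ss.ip) (lt + St.im - (ls + Ss.ip)))) := by
  have a1 := hAs.im_lt
  have a2 := hAs.ip_le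
  have b1 := hAt.im_lt
  have b2 := hAt.ip_le
  have hn : (c.pth (ls + Ss.ip) (lt + St.im - (ls + Ss.ip))).n = lt + St.im - (ls + Ss.ip) := min_eq_left (by omega)
  obtain ⟨hB, hN⟩ := pvta_act hT hc hb (ls + Ss.ip) (lt + St.im - (ls + Ss.ip)) (ls + Ss.ip - 1) (by omega) {v | mk v ∈ U} {v | mk v ∈ Lam}
    (fun k hk => hap _ (by omega) (by omega)) hΛ
  have hdis : ∀ (g : T.Gate s) (w : V), w ∈ T.Int g.c.Right → w ∉ T.VOf g.c.Left := by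
    rintro g w hw ⟨d, hd, e⟩
    have := hw d e
    rw [(pl_jordan hT g.c).1] at this
    exact this hd
  refine ⟨hAs, hAt, rfl, ?_, ?_, hB, ?_, ?_, ?_, ?_, ?_, ?_, ?_, ?_⟩
  · show T.src (c.e (ls + Ss.ip + 0)) = Ss.g1.vp
    rw [← hAs.ip_eq, vs _ a2]; rfl
  · show T.src (c.e (ls + Ss.ip + (c.pth (ls + Ss.ip) (lt + St.im - (ls + Ss.ip))).n)) = St.g1.vm
    rw [hn, ← hAt.im_eq, vt _ (by omega)]
    congr 2
    omega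
  · have e : Ss.inn.rap (Ss.ip - 1) = T.apex (T.opp (c.e (ls + Ss.ip - 1))) := by
      unfold PvMap.Pth.rap
      rw [es _ (by omega)]
      congr 3
      omega
    show pvtaN _ s {v | mk v ∈ U} ({Ss.inn.rap (Ss.ip - 1)} ∪ {v | mk v ∈ Lam})
    rw [e]
    exact hN
  · intro i hi
    rw [hn] at hi
    exact hrun _ (by omega) (by omega)
  · show Ss.inn.n - Ss.ip + St.im ≤ (c.pth (ls + Ss.ip) (lt + St.im - (ls + Ss.ip))).n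
    rw [hn]
    omega
  · intro i hi
    show T.src (c.e (ls + Ss.ip + i)) = Ss.inn.v (Ss.ip + i)
    rw [vs _ hi, Nat.add_assoc]
  · intro i hi
    show T.src (c.e (ls + Ss.ip + ((c.pth (ls + Ss.ip) (lt + St.im - (ls + Ss.ip))).n - St.im + i))) = St.inn.v i
    have hi' : i ≤ St.im := hi
    rw [hn, vt _ (by omega)]
    congr 2
    omega
  · intro k k1 k2
    have k1' : Ss.inn.n - Ss.ip < k := k1
    have k2' : k + St.im < (c.pth (ls + Ss.ip) (lt + St.im - (ls + Ss.ip))).n := k2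
    rw [hn] at k2'
    constructor
    · exact hdis _ _ (Ps.out (ls + Ss.ip + k) (by omega) (by omega))
    · have := Pt.out (ls + Ss.ip + k + c.n) (by omega) (by omega)
      rw [c.per] at this
      exact hdis _ _ this
  · intro k hk i hi e
    have hk' : k ≤ (c.pth (ls + Ss.ip) (lt + St.im - (ls + Ss.ip))).n := hk
    have hi' : i < Ss.ip := hi
    have e' : T.src (c.e (ls + Ss.ip + k)) = Ss.inn.v i := e
    rw [hn] at hk'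
    rw [vs i (by omega)] at e'
    have := c.inj _ _ (by omega) (by omega) e'
    omega
  · intro k hk i hi hi2 e
    have hk' : k ≤ (c.pth (ls + Ss.ip) (lt + St.im - (ls + Ss.ip))).n := hk
    have hi' : St.im < i := hi
    have hi2' : i ≤ St.inn.n := hi2
    have e' : T.src (c.e (ls + Ss.ip + k)) = St.inn.v i := e
    rw [hn] at hk'
    rw [vt i hi2'] at e'
    have := c.inj _ _ (by omega) (by omega) e'
    omega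

end rim

/-! ## 6. CONFIGURATIONS -/

/-- **the parameters of the free arcs of one pattern**: numbers, the two placed types, centres, scale, radii of the two cut-off discs (units of `h`), tube of the vertices `Ug`, region `U` of `N_g`, boundary layer `Lam`, reading zone `Kr`, window `Ew` -/
structure PvzzPar where
  N : PvspNum
  s : PvspTy
  t : PvspTy
  zs : ℂ
  zt : ℂ
  h : ℝ
  mcs : ℝ
  mct : ℝ
  Ug : Set ℂ
  U : Set ℂ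
  Lam : Set ℂ
  Kr : Set ℂ
  Ew : Set ℂ
  /-- **the mesh of the tube** (S2 of 236, 12:42Z): a FREE field `≤ N.mu * h`.   The tube, its layer and the corridor live at the PATTERN scale `dc_m ≪ dl h_m`: at the model `rho` = a fraction of the fine cell `(Γ m).δ` -/
  rho : ℝ

namespace PvzzPar

variable (𝔭 : PvzzPar)

/-- the regions of the two candidates -/
noncomputable def rs : PvspReg ℂ := 𝔭.s.reg 𝔭.N 𝔭.zs 𝔭.h
noncomputable def rt : PvspReg ℂ := 𝔭.t.reg 𝔭.N 𝔭.zt 𝔭.h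
/-- the two cut-off discs -/
def Bs : Set ℂ := closedBall 𝔭.zs (𝔭.mcs * 𝔭.h)
def Bt : Set ℂ := closedBall 𝔭.zt (𝔭.mct * 𝔭.h)
/-- the regions of the two states -/
noncomputable def Os : Set ℂ := pvspO 𝔭.N 𝔭.s 𝔭.zs 𝔭.h
noncomputable def Ot : Set ℂ := pvspO 𝔭.N 𝔭.t 𝔭.zt 𝔭.h

/-- the predicate of record -/
def Pred (g : List ℂ) (x : ℂ) : PvplPred ℂ := PvzzPred 𝔭.rs 𝔭.rt 𝔭.s.col 𝔭.Ug 𝔭.U 𝔭.Lam 𝔭.Kr 𝔭.Bs 𝔭.Bt g x

/-- the arc `g` is present with mass `x` at the site set `Y` coloured by `σ`: mesh of the window + the predicate on SOME completion -/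
def IsAt (g : List ℂ) (x : ℂ) (Y : Set ℂ) (σ : ℂ → Bool) : Prop :=
  PvtrMesh 𝔭.rho 𝔭.Ew Y ∧ ∃ (X : Type) (𝔅 : PvBulk X) (ξ : X → Bool) (zi : ℂ), 𝔅.Ok Y 𝔭.Kr ∧ zi ∉ 𝔭.Kr ∧
    𝔭.Pred g x _ _ (𝔅.T Y) (𝔅.posF Y zi) (fun v => Sum.elim σ ξ (𝔅.lab Y v))

/-- the arc `g` is present with mass `x` in `ζ`: read on SOME configuration with the same points in the window (device of 238, `pvpl_main`: the reading of the window is EXACT) -/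
def Is (g : List ℂ) (ζ : Conf PvPt) (x : ℂ) : Prop :=
  ∃ ζ' : Conf PvPt, Conf.restr (𝔭.Ew ×ˢ univ) ζ' = Conf.restr (𝔭.Ew ×ˢ univ) ζ ∧ PvtnFin 𝔭.Ew ζ' ∧ 𝔭.IsAt g x (cfSites ζ') (cfCol ζ')

/-- **the arc event** `E g` -/
def E (g : List ℂ) : Set (Conf PvPt) := {ζ | ∃ x, 𝔭.Is g ζ x}

open Classical in
/-- **the mass** `X g` (`0` off `E g`) -/
noncomputable def X (g : List ℂ) (ζ : Conf PvPt) : ℂ := if h : ∃ x, 𝔭.Is g ζ x then h.choose else 0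

/-- what the regions owe -/
structure Wf : Prop where
  ws : 𝔭.s.Wf 𝔭.N 𝔭.zs 𝔭.h
  wt : 𝔭.t.Wf 𝔭.N 𝔭.zt 𝔭.h
  col : 𝔭.t.col = 𝔭.s.col
  sK : 𝔭.rs .S2 ⊆ 𝔭.Kr
  tK : 𝔭.rt .S2 ⊆ 𝔭.Kr
  UK : 𝔭.U ⊆ 𝔭.Kr
  gU : 𝔭.Ug ⊆ 𝔭.U
  gL : Disjoint 𝔭.Ug 𝔭.Lam
  core : 𝔭.Kr ⊆ pvtrCore (3 * 𝔭.rho) 𝔭.Ew
  sE : 𝔭.Os ⊆ 𝔭.Ew
  tE : 𝔭.Ot ⊆ 𝔭.Ew
  rho0 : 0 < 𝔭.rho
  rho_le : 𝔭.rho ≤ 𝔭.N.mu * 𝔭.h

end PvzzPar

theorem pvzz_eqns_cite2 : True := by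
  have := @PvzzPar.rs.eq_1; have := @PvzzPar.rt.eq_1; have := @PvzzPar.Bs.eq_1; have := @PvzzPar.Bt.eq_1; have := @PvzzPar.Os.eq_1; have := @PvzzPar.Ot.eq_1
  have := @PvzzPar.Pred.eq_1; have := @PvzzPar.IsAt.eq_1; have := @PvzzPar.Is.eq_1; have := @PvzzPar.E.eq_1; have := @PvzzPar.X.eq_1
  trivial

section conf

variable {𝔭 : PvzzPar}

theorem PvzzPar.Wf.KE (W : 𝔭.Wf) : 𝔭.Kr ⊆ 𝔭.Ew := W.core.trans (pvtr_core_subset (by have := W.rho0; positivity))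

theorem PvzzPar.Wf.local (W : 𝔭.Wf) (g : List ℂ) (x : ℂ) : (𝔭.Pred g x).Local 𝔭.Kr :=
  pvzz_pred_local W.ws.nest W.wt.nest W.sK W.tK (W.gU.trans W.UK) W.UK _ g x

/-- a vertex of a completion with its position in a zone which misses the far point is a site -/
theorem pvzz_site {X : Type} {𝔅 : PvBulk X} {Y K : Set ℂ} {zi : ℂ} (hzi : zi ∉ K) {v : 𝔅.V Y} (hv : 𝔅.posF Y zi v ∈ K) : 𝔅.lab Y v = Sum.inl (𝔅.posF Y zi v) := by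
  rcases hl : 𝔅.lab Y v with p | q
  · rw [pvkv_posF_inl 𝔅 zi hl]
  · exfalso
    apply hzi
    have : 𝔅.posF Y zi v = zi := by unfold PvBulk.posF; rw [hl]; rfl
    rwa [this] at hv

/-- positions in such a zone determine the vertex -/
theorem pvzz_posF_inj {X : Type} {𝔅 : PvBulk X} {Y K K' : Set ℂ} {zi : ℂ} (hok : 𝔅.Ok Y K') (hzi : zi ∉ K) {u v : 𝔅.V Y} (hu : 𝔅.posF Y zi u ∈ K) (e : 𝔅.posF Y zi u = 𝔅.posF Y zi v) : u = v :=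
  hok.inj ((pvzz_site hzi hu).trans (by rw [e]; exact (pvzz_site hzi (e ▸ hu)).symm))

theorem pvzz_sites_win {E : Set ℂ} {ζ ζ' : Conf PvPt} (h : Conf.restr (E ×ˢ univ) ζ' = Conf.restr (E ×ˢ univ) ζ) : cfSites ζ' ∩ E = cfSites ζ ∩ E := by
  rw [← pvtr_sites_restr, ← pvtr_sites_restr, h]

theorem pvzz_fin_win {E : Set ℂ} {ζ ζ' : Conf PvPt} (h : Conf.restr (E ×ˢ univ) ζ' = Conf.restr (E ×ˢ univ) ζ) (hf : PvtnFin E ζ') : PvtnFin E ζ := by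
  have e : ζ'.pts ∩ E ×ˢ univ = ζ.pts ∩ E ×ˢ univ := congrArg Conf.pts h
  unfold PvtnFin at hf ⊢
  rwa [← e]

theorem pvzz_col_win {E : Set ℂ} {ζ ζ' : Conf PvPt} (h : Conf.restr (E ×ˢ univ) ζ' = Conf.restr (E ×ˢ univ) ζ) {a : ℂ} (ha : a ∈ E) : cfCol ζ' a = cfCol ζ a := by
  refine pvpl_col_congr_aux ?_
  have e1 := pvtr_reads_col ha true ζ
  have e2 := pvtr_reads_col ha true ζ'
  simp only at e1 e2
  rw [← e1, ← e2, h]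

/-- **(A5) DICTIONARY**: on EVERY completion of `ζ` which is honest on `Kr` -/
theorem pvzz_dict (W : 𝔭.Wf) {X : Type} (𝔅 : PvBulk X) (ζ : Conf PvPt) (ξ : X → Bool) {zi : ℂ} (hok : 𝔅.Ok (cfSites ζ) 𝔭.Kr) (hzi : zi ∉ 𝔭.Kr) (g : List ℂ) (x : ℂ) :
    𝔭.Is g ζ x ↔ PvtnFin 𝔭.Ew ζ ∧ PvtrMesh 𝔭.rho 𝔭.Ew (cfSites ζ) ∧ 𝔭.Pred g x _ _ (𝔅.T (cfSites ζ)) (𝔅.posF _ zi) (𝔅.col ζ ξ) := by
  constructor
  · rintro ⟨ζ', hr, hf, hm, X', 𝔅', ξ', zi', hok', hzi', hp⟩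
    refine ⟨pvzz_fin_win hr hf, (pvtr_mesh_congr (pvzz_sites_win hr)).1 hm, ?_⟩
    exact ((W.local g x).congr_ok (E := 𝔭.Ew) (𝔅 := 𝔅') (𝔅' := 𝔅) id W.rho0 (ξ := ξ') (ξ' := ξ) (zi := zi') (zi' := zi) hok' hok hm W.core hzi' hzi hr).1 hp
  · rintro ⟨hf, hm, hp⟩
    exact ⟨ζ, rfl, hf, hm, X, 𝔅, ξ, zi, hok, hzi, hp⟩

/-- **(A5) in the Delaunay plane** -/
theorem pvzz_plane (W : 𝔭.Wf) {ζ : Conf PvPt} (hζ : DelGood (cfSites ζ)) (hne : ∃ zi, zi ∉ 𝔭.Kr) (g : List ℂ) (x : ℂ) :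
    𝔭.Is g ζ x ↔ PvtnFin 𝔭.Ew ζ ∧ PvtrMesh 𝔭.rho 𝔭.Ew (cfSites ζ) ∧ 𝔭.Pred g x _ _ (delbPlane.T (cfSites ζ)) (delbPlane.pos (cfSites ζ)) (delbPlane.col ζ Empty.elim) := by
  obtain ⟨zi, hzi⟩ := hne
  exact pvzz_dict W delbPlane ζ Empty.elim (delb_ok_mono (subset_univ _) (delb_plane_ok hζ)) hzi g x

/-- **(A6) the index determines the mass** -/
theorem pvzz_is_unique (W : 𝔭.Wf) {g : List ℂ} {ζ : Conf PvPt} {x x' : ℂ} (h : 𝔭.Is g ζ x) (h' : 𝔭.Is g ζ x') : x = x' := by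
  obtain ⟨ζ₁, hr₁, hf₁, hm₁, X₁, 𝔅₁, ξ₁, zi₁, hok₁, hzi₁, hp₁⟩ := h
  obtain ⟨ζ₂, hr₂, hf₂, hm₂, X₂, 𝔅₂, ξ₂, zi₂, hok₂, hzi₂, hp₂⟩ := h'
  have hp : 𝔭.Pred g x _ _ (𝔅₂.T (cfSites ζ₂)) (𝔅₂.posF _ zi₂) (𝔅₂.col ζ₂ ξ₂) :=
    ((W.local g x).congr_ok (E := 𝔭.Ew) (𝔅 := 𝔅₁) (𝔅' := 𝔅₂) id W.rho0 (ξ := ξ₁) (ξ' := ξ₂) (zi := zi₁) (zi' := zi₂) hok₁ hok₂ hm₁ W.core hzi₁ hzi₂ (hr₁.trans hr₂.symm)).1 hp₁
  exact pvzz_pred_unique hok₂.sph hok₂.simple (fun v h1 h2 => W.ws.tubes ⟨h1, h2⟩) (fun u v hu e => pvzz_posF_inj hok₂ hzi₂ (W.UK (W.gU hu)) e) hp hp₂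

theorem pvzz_X_eq (W : 𝔭.Wf) {g : List ℂ} {ζ : Conf PvPt} {x : ℂ} (h : 𝔭.Is g ζ x) : 𝔭.X g ζ = x := by
  have hh : ∃ x, 𝔭.Is g ζ x := ⟨x, h⟩
  unfold PvzzPar.X
  rw [dif_pos hh]
  exact pvzz_is_unique W hh.choose_spec h

theorem pvzz_X_off {g : List ℂ} {ζ : Conf PvPt} (h : ζ ∉ 𝔭.E g) : 𝔭.X g ζ = 0 := dif_neg h

theorem pvzz_is_restr (g : List ℂ) (ζ : Conf PvPt) : 𝔭.Is g (Conf.restr (𝔭.Ew ×ˢ univ) ζ) = 𝔭.Is g ζ := by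
  funext x
  unfold PvzzPar.Is
  rw [pvi_restr_idem]

/-- **(A2)** EXACT reading of the window, all configurations -/
theorem pvzz_E_reads (𝔭 : PvzzPar) (g : List ℂ) : Conf.ReadsSet (𝔭.Ew ×ˢ univ) (𝔭.E g) := fun ζ => by
  unfold PvzzPar.E
  simp only [mem_ofPred_eq]
  rw [pvzz_is_restr]

theorem pvzz_X_reads (𝔭 : PvzzPar) (g : List ℂ) : Conf.Reads (𝔭.Ew ×ˢ univ) (𝔭.X g) := fun ζ => by
  unfold PvzzPar.X
  rw [pvzz_is_restr]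

/-- **(A1)** the vertices of a present arc are sites of the tube -/
theorem pvzz_mem (W : 𝔭.Wf) {g : List ℂ} {ζ : Conf PvPt} (h : ζ ∈ 𝔭.E g) : ∀ p ∈ g, p ∈ cfSites ζ ∧ p ∈ 𝔭.Ug := by
  obtain ⟨x, ζ', hr, hf, hm, X, 𝔅, ξ, zi, hok, hzi, -, -, 𝔇, hI, -⟩ := h
  intro p hp
  rw [hI.pos] at hp
  obtain ⟨i, hi, rfl⟩ := pvzz_L_mem.1 hp
  have hU := hI.tube i hi
  refine ⟨?_, hU⟩
  have h1 : 𝔅.posF _ zi (𝔇.p.v i) ∈ cfSites ζ' ∩ 𝔭.Ew := ⟨hok.site _ _ (pvzz_site hzi (W.UK (W.gU hU))), W.KE (W.UK (W.gU hU))⟩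
  rw [pvzz_sites_win hr] at h1
  exact h1.1

/-- the present arcs of a countable site set are countably many -/
theorem pvzz_cnt (W : 𝔭.Wf) {Y : Set ℂ} (hY : Y.Countable) : {g | ∃ σ, cfOf Y σ ∈ 𝔭.E g}.Countable := by
  have : Countable ↥Y := hY.to_subtype
  refine (Set.countable_range (fun l : List ↥Y => l.map Subtype.val)).mono ?_
  rintro g ⟨σ, hσ⟩
  have h1 : ∀ p ∈ g, p ∈ Y := fun p hp => by
    have := (pvzz_mem W hσ p hp).1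
    rwa [cfOf_sites] at this
  exact ⟨g.attach.map fun p => ⟨p.1, h1 p.1 p.2⟩, by simp [List.map_map, Function.comp_def]⟩

end conf

/-! ### (A3) recolouring -/

section stab

variable {𝔭 : PvzzPar}

theorem pvzz_cfCol_cfOf {Y : Set ℂ} (σ : ℂ → Bool) {z : ℂ} (hz : z ∈ Y) : cfCol (cfOf Y σ) z = σ z := by
  classical
  unfold cfCol
  cases h : σ z
  · rw [decide_eq_false_iff_not]
    rintro ⟨-, h2⟩
    have h3 : true = σ z := h2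
    rw [h] at h3
    exact Bool.noConfusion h3
  · rw [decide_eq_true_iff]
    exact ⟨hz, h.symm⟩

/-- finiteness in a window only depends on the sites -/
theorem pvzz_fin_sites {E : Set ℂ} {η η' : Conf PvPt} (hY : cfSites η' = cfSites η) (hf : PvtnFin E η) : PvtnFin E η' := by
  have h1 : (Prod.fst '' (η.pts ∩ E ×ˢ (univ : Set Bool))).Finite := hf.image _
  have h2 : ((Prod.fst '' (η.pts ∩ E ×ˢ (univ : Set Bool))) ×ˢ (univ : Set Bool)).Finite := h1.prod finite_univ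
  refine h2.subset ?_
  rintro p ⟨hp, hpE⟩
  have h3 : p.1 ∈ cfSites η := by rw [← hY]; exact ⟨p, hp, rfl⟩
  obtain ⟨q, hq, e⟩ := h3
  exact ⟨⟨q, ⟨hq, ⟨by rw [e]; exact hpE.1, mem_univ _⟩⟩, e⟩, mem_univ _⟩

/-- MESH ⟹ STAR: the neighbours of a site of the honest zone are within `2ρ` -/
theorem pvzz_star_of_mesh {X : Type} {𝔅 : PvBulk X} {Y K E : Set ℂ} {zi : ℂ} {ρ : ℝ} (hρ : 0 < ρ) (hok : 𝔅.Ok Y K) (hm : PvtrMesh ρ E Y) (hzi : zi ∉ K) (hK : K ⊆ pvtrCore (3 * ρ) E)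
    {A Z : Set ℂ} (hA : A ⊆ K) (hZ : ∀ a ∈ A, closedBall a (2 * ρ) ⊆ Z) : PvplStar (𝔅.T Y) (𝔅.posF Y zi) (fun w => w ∈ A) Z := by
  intro d hd
  have l1 := pvzz_site hzi (hA hd)
  obtain ⟨b, c, l2, l3, htri⟩ := hok.del d _ l1 (hA hd)
  obtain ⟨s1, s2, -⟩ := pvkv_small hρ hm htri (Or.inl (hK (hA hd)))
  rw [pvkv_posF_inl 𝔅 zi l2, pvkv_posF_inl 𝔅 zi l3]
  exact ⟨hZ _ hd (mem_closedBall_iff_norm.2 s1), hZ _ hd (mem_closedBall_iff_norm.2 s2)⟩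

theorem PvzzPar.Wf.ball_s (W : 𝔭.Wf) : ∀ a ∈ 𝔭.rs .S2, closedBall a (2 * 𝔭.rho) ⊆ 𝔭.Os := fun a ha =>
  (closedBall_subset_closedBall (by have := W.rho0; have := W.rho_le; linarith)).trans (W.ws.S2_core ha)

theorem PvzzPar.Wf.ball_t (W : 𝔭.Wf) : ∀ a ∈ 𝔭.rt .S2, closedBall a (2 * 𝔭.rho) ⊆ 𝔭.Ot := fun a ha =>
  (closedBall_subset_closedBall (by have := W.rho0; have := W.rho_le; linarith)).trans (W.wt.S2_core ha)

/-- **(A3)**: the colours of `V g ∪ O_s ∪ O_t` frozen, in the tube the opposite colour may only grow; NO condition elsewhere -/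
theorem pvzz_stab_is (W : 𝔭.Wf) {Y : Set ℂ} {σ σ' : ℂ → Bool} {g : List ℂ} {x : ℂ} (h : 𝔭.Is g (cfOf Y σ) x)
    (e1 : ∀ z ∈ Y, z ∈ {p | p ∈ g} ∪ 𝔭.Os ∪ 𝔭.Ot → σ' z = σ z) (e3 : ∀ z ∈ Y, z ∈ 𝔭.U → σ z ≠ 𝔭.s.col → σ' z ≠ 𝔭.s.col) : 𝔭.Is g (cfOf Y σ') x := by
  classical
  obtain ⟨ζ', hr, hf, hm, X, 𝔅, ξ, zi, hok, hzi, hp⟩ := h
  have hρ := W.rho0
  have hYY : cfSites ζ' ∩ 𝔭.Ew = Y ∩ 𝔭.Ew := by
    have := pvzz_sites_win hr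
    rwa [cfOf_sites] at this
  have hY : ∀ a ∈ cfSites ζ', a ∈ 𝔭.Ew → a ∈ Y := fun a ha hE => (hYY ▸ (⟨ha, hE⟩ : a ∈ cfSites ζ' ∩ 𝔭.Ew) : a ∈ Y ∩ 𝔭.Ew).1
  have hcol : ∀ a ∈ cfSites ζ', a ∈ 𝔭.Ew → cfCol ζ' a = σ a := fun a ha hE => by
    rw [pvzz_col_win hr hE]
    exact pvzz_cfCol_cfOf σ (hY a ha hE)
  have hgU : ∀ w ∈ g, w ∈ 𝔭.U := by
    obtain ⟨-, -, 𝔇, hI, -⟩ := hp
    intro w hw
    rw [hI.pos] at hw
    obtain ⟨i, hi, rfl⟩ := pvzz_L_mem.1 hw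
    exact W.gU (hI.tube i hi)
  refine ⟨cfOf (cfSites ζ') (fun z => if z ∈ 𝔭.Ew then σ' z else cfCol ζ' z), ?_, pvzz_fin_sites (cfOf_sites _ _) hf, ?_⟩
  · ext p
    constructor
    · rintro ⟨⟨h1, h2⟩, h3⟩
      have h4 : p.2 = if p.1 ∈ 𝔭.Ew then σ' p.1 else cfCol ζ' p.1 := h2
      rw [if_pos h3.1] at h4
      exact ⟨⟨hY _ h1 h3.1, h4⟩, h3⟩
    · rintro ⟨⟨h1, h2⟩, h3⟩
      refine ⟨⟨((hYY.symm ▸ (⟨h1, h3.1⟩ : p.1 ∈ Y ∩ 𝔭.Ew) : p.1 ∈ cfSites ζ' ∩ 𝔭.Ew)).1, ?_⟩, h3⟩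
      show p.2 = if p.1 ∈ 𝔭.Ew then σ' p.1 else cfCol ζ' p.1
      rw [if_pos h3.1]
      exact h2
  · rw [cfOf_sites]
    refine ⟨hm, X, 𝔅, ξ, zi, hok, hzi, ?_⟩
    have ecol : (fun v => Sum.elim (cfCol (cfOf (cfSites ζ') (fun z => if z ∈ 𝔭.Ew then σ' z else cfCol ζ' z))) ξ (𝔅.lab (cfSites ζ') v)) =
        fun v => Sum.elim (fun z => if z ∈ 𝔭.Ew then σ' z else cfCol ζ' z) ξ (𝔅.lab (cfSites ζ') v) := by
      funext v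
      rcases hl : 𝔅.lab (cfSites ζ') v with a | q
      · exact pvzz_cfCol_cfOf _ (hok.site v a hl)
      · rfl
    rw [ecol]
    -- the colours of a site of the window
    have key : ∀ v : 𝔅.V (cfSites ζ'), 𝔅.posF _ zi v ∈ 𝔭.Ew → (∀ a, 𝔅.lab _ v = Sum.inl a → a ∈ Y → a ∈ 𝔭.Ew → cfCol ζ' a = σ a →
        (Sum.elim (fun z => if z ∈ 𝔭.Ew then σ' z else cfCol ζ' z) ξ (𝔅.lab _ v) = σ' a ∧ Sum.elim (cfCol ζ') ξ (𝔅.lab _ v) = σ a) → 𝔅.posF _ zi v = a →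
        Sum.elim (fun z => if z ∈ 𝔭.Ew then σ' z else cfCol ζ' z) ξ (𝔅.lab _ v) = Sum.elim (cfCol ζ') ξ (𝔅.lab _ v)) →
        Sum.elim (fun z => if z ∈ 𝔭.Ew then σ' z else cfCol ζ' z) ξ (𝔅.lab _ v) = Sum.elim (cfCol ζ') ξ (𝔅.lab _ v) := by
      intro v hv hh
      rcases hl : 𝔅.lab (cfSites ζ') v with a | q
      · have ea : 𝔅.posF _ zi v = a := pvkv_posF_inl 𝔅 zi hl
        have haE : a ∈ 𝔭.Ew := ea ▸ hv
        have haY' := hok.site v a hl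
        have := hh a hl (hY a haY' haE) haE (hcol a haY' haE) (by
          rw [hl]
          exact ⟨if_pos haE, hcol a haY' haE⟩) ea
        rwa [hl] at this
      · rfl
    refine pvzz_pred_mono W.ws.nest W.wt.nest hok.simple (Zs := 𝔭.Os) (Zt := 𝔭.Ot)
      (pvzz_star_of_mesh hρ hok hm hzi W.core W.sK W.ball_s) (pvzz_star_of_mesh hρ hok hm hzi W.core W.tK W.ball_t)
      (fun a ha => W.ball_s a ha (mem_closedBall_self (by positivity))) (fun a ha => W.ball_t a ha (mem_closedBall_self (by positivity))) ?_ ?_ ?_ hp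
    · intro v hv
      refine key v (hv.elim (fun h => W.sE h) fun h => W.tE h) fun a hl haY haE hc hh ea => ?_
      rw [hh.1, hh.2]
      refine e1 a haY ?_
      rw [ea] at hv
      exact hv.elim (fun h => Or.inl (Or.inr h)) fun h => Or.inr h
    · intro v hv
      refine key v (W.KE (W.UK (hgU _ hv))) fun a hl haY haE hc hh ea => ?_
      rw [hh.1, hh.2]
      refine e1 a haY (Or.inl (Or.inl ?_))
      rw [ea] at hv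
      exact hv
    · intro v hv hne
      have l1 := pvzz_site hzi (W.UK hv)
      have haE := W.KE (W.UK hv)
      have haY' := hok.site v _ l1
      rw [l1] at hne ⊢
      show (if 𝔅.posF _ zi v ∈ 𝔭.Ew then σ' (𝔅.posF _ zi v) else cfCol ζ' (𝔅.posF _ zi v)) ≠ 𝔭.s.col
      rw [if_pos haE]
      refine e3 _ (hY _ haY' haE) hv ?_
      rw [← hcol _ haY' haE]
      exact hne

theorem pvzz_stab (W : 𝔭.Wf) {Y : Set ℂ} {σ σ' : ℂ → Bool} {g : List ℂ} (h : cfOf Y σ ∈ 𝔭.E g)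
    (e1 : ∀ z ∈ Y, z ∈ {p | p ∈ g} ∪ 𝔭.Os ∪ 𝔭.Ot → σ' z = σ z) (e3 : ∀ z ∈ Y, z ∈ 𝔭.U → σ z ≠ 𝔭.s.col → σ' z ≠ 𝔭.s.col) :
    cfOf Y σ' ∈ 𝔭.E g ∧ 𝔭.X g (cfOf Y σ') = 𝔭.X g (cfOf Y σ) := by
  obtain ⟨x, hx⟩ := h
  have hx' := pvzz_stab_is W hx e1 e3
  exact ⟨⟨x, hx'⟩, by rw [pvzz_X_eq W hx, pvzz_X_eq W hx']⟩

end stab

/-! ## 7. (A4) ACT-Q -/

/-- what the patch `(x,R)` and the numbers owe for ACT-Q -/
structure PvzzPar.WfA (𝔭 : PvzzPar) (x : ℂ) (R : ℝ) : Prop extends 𝔭.Wf where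
  R0 : 0 < R
  /-- the window lies in the zone where the completions are honest -/
  win : 𝔭.Ew ⊆ closedBall x (6 * R)
  /-- the star zones of the two gates `S₂` lie inside the circle where the rims are cut -/
  zone : 𝔭.rs .S2 ∪ 𝔭.rt .S2 ⊆ ball x (4 * R)
  dis : Disjoint (𝔭.rs .S2) (𝔭.rt .S2)
  /-- the gate `S₁` lies in the cut-off disc, the cut-off disc inside the gate `S₂`, with room for the mesh -/
  lo_s : 𝔭.s.b 𝔭.N 0 + 2 * 𝔭.N.mu ≤ 𝔭.mcs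
  hi_s : 𝔭.mcs + 2 * 𝔭.N.mu ≤ 𝔭.s.a 𝔭.N 1
  lo_t : 𝔭.t.b 𝔭.N 0 + 2 * 𝔭.N.mu ≤ 𝔭.mct
  hi_t : 𝔭.mct + 2 * 𝔭.N.mu ≤ 𝔭.t.a 𝔭.N 1
  /-- off the boundary layer the tube contains the mesh neighbourhood of its points -/
  lam : ∀ a ∈ 𝔭.U, a ∉ 𝔭.Lam → closedBall a (2 * 𝔭.rho) ⊆ 𝔭.U

section act

variable {𝔭 : PvzzPar}

theorem pvzz_bary_near {a b c : ℂ} {r : ℝ} (h1 : ‖b - a‖ ≤ r) (h2 : ‖c - a‖ ≤ r) (h3 : ‖c - b‖ ≤ r) :
    ‖(a + b + c) / 3 - a‖ ≤ r ∧ ‖(a + b + c) / 3 - b‖ ≤ r ∧ ‖(a + b + c) / 3 - c‖ ≤ r := by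
  have h0 : 0 ≤ r := (norm_nonneg _).trans h1
  have gen : ∀ p q : ℂ, ‖p‖ ≤ r → ‖q‖ ≤ r → ‖(p + q) / 3‖ ≤ r := by
    intro p q hp hq
    rw [norm_div]
    have e : ‖(3 : ℂ)‖ = 3 := by norm_num
    rw [e, div_le_iff₀ (by norm_num)]
    have := norm_add_le p q
    linarith
  refine ⟨?_, ?_, ?_⟩
  · have e : (a + b + c) / 3 - a = ((b - a) + (c - a)) / 3 := by ring
    rw [e]; exact gen _ _ h1 h2
  · have e : (a + b + c) / 3 - b = ((a - b) + (c - b)) / 3 := by ring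
    rw [e]; exact gen _ _ (by rw [norm_sub_rev]; exact h1) h3
  · have e : (a + b + c) / 3 - c = ((a - c) + (b - c)) / 3 := by ring
    rw [e]; exact gen _ _ (by rw [norm_sub_rev]; exact h2) (by rw [norm_sub_rev]; exact h3)

/-- the faces of a completion with a vertex in the honest zone: Delaunay triangles, honest tags, honest `Q` -/
theorem pvzz_face {X : Type} {𝔅 : PvBulk X} {Y K : Set ℂ} {zi : ℂ} (hok : 𝔅.Ok Y K) (hzi : zi ∉ K) {d : 𝔅.D Y} (hd : d ∈ pvplB (𝔅.T Y) fun v => 𝔅.posF Y zi v ∈ K) :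
    DelTri Y (𝔅.posF Y zi ((𝔅.T Y).src d)) (𝔅.posF Y zi ((𝔅.T Y).tgt d)) (𝔅.posF Y zi ((𝔅.T Y).apex d)) ∧
      pvdcZ 𝔅 Y zi d = (𝔅.T Y).bary (𝔅.posF Y zi) d ∧ pvdcQ 𝔅 Y d = (𝔅.T Y).qpart (𝔅.posF Y zi) d := by
  classical
  have key : ∃ a b c, 𝔅.lab Y ((𝔅.T Y).src d) = Sum.inl a ∧ 𝔅.lab Y ((𝔅.T Y).tgt d) = Sum.inl b ∧ 𝔅.lab Y ((𝔅.T Y).apex d) = Sum.inl c := by
    rcases hd with h | h | h
    · obtain ⟨b, c, hb, hc, -⟩ := hok.del d _ (pvzz_site hzi h) h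
      exact ⟨_, b, c, pvzz_site hzi h, hb, hc⟩
    · obtain ⟨b, c, hb, hc, -⟩ := hok.del ((𝔅.T Y).nxt d) _ (pvzz_site hzi h) h
      rw [(𝔅.T Y).tgt_nxt] at hb
      rw [(𝔅.T Y).apex_nxt] at hc
      exact ⟨c, _, b, hc, pvzz_site hzi h, hb⟩
    · obtain ⟨b, c, hb, hc, -⟩ := hok.del ((𝔅.T Y).nxt ((𝔅.T Y).nxt d)) _ (pvzz_site hzi h) h
      rw [(𝔅.T Y).tgt_nxt2] at hb
      rw [(𝔅.T Y).apex_nxt2] at hc
      exact ⟨b, c, _, hb, hc, pvzz_site hzi h⟩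
  obtain ⟨a, b, c, ha, hb, hc⟩ := key
  have hE : 𝔅.Emb Y d := ⟨a, b, c, ha, hb, hc⟩
  refine ⟨?_, ?_, ?_⟩
  · rw [l9_posF_inl 𝔅 ha, l9_posF_inl 𝔅 hb, l9_posF_inl 𝔅 hc]
    exact hok.emb d a b c ha hb hc
  · unfold pvdcZ
    rw [if_pos hE]
    unfold PvMap.bary
    rw [l9_pos_inl 𝔅 ha, l9_pos_inl 𝔅 hb, l9_pos_inl 𝔅 hc, l9_posF_inl 𝔅 ha, l9_posF_inl 𝔅 hb, l9_posF_inl 𝔅 hc]
  · unfold pvdcQ
    rw [if_pos hE]
    unfold PvMap.qpart PvMap.side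
    rw [(𝔅.T Y).src_nxt, (𝔅.T Y).tgt_nxt, (𝔅.T Y).src_nxt2, (𝔅.T Y).tgt_nxt2]
    rw [l9_pos_inl 𝔅 ha, l9_pos_inl 𝔅 hb, l9_pos_inl 𝔅 hc, l9_posF_inl 𝔅 ha, l9_posF_inl 𝔅 hb, l9_posF_inl 𝔅 hc]

/-- **ONE END**: RIM ⟹ STATE (`pvkv_rim_pos` of 263 9) + the two window facts of 195's dictionary, on a completion -/
theorem pvzz_end {N : PvspNum} {t : PvspTy} {z : ℂ} {h mc : ℝ} (hW : t.Wf N z h) (hlo : t.b N 0 + 2 * N.mu ≤ mc) (hhi : mc + 2 * N.mu ≤ t.a N 1)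
    {X : Type} {𝔅 : PvBulk X} {Y K E : Set ℂ} {zi : ℂ} {ρ : ℝ} (hρ : 0 < ρ) (hρl : ρ ≤ N.mu * h) (hok : 𝔅.Ok Y K) (hfin : Finite (𝔅.D Y)) (hm : PvtrMesh ρ E Y) (hK : K ⊆ pvtrCore (3 * ρ) E) (hziE : zi ∉ E)
    (hSK : t.reg N z h .S2 ⊆ K) {sc : 𝔅.V Y → Bool} {𝔖 : PvspSt (𝔅.T Y) sc} (hst : PvplStar (𝔅.T Y) (𝔅.posF Y zi) (fun w => w ∈ t.reg N z h .O2) (t.reg N z h .S2))
    (hA : 𝔖.At (𝔅.posF Y zi) (t.reg N z h)) {c : (𝔅.T Y).Cyc} (hc : c.IsRim sc) (hb : ∀ k, sc ((𝔅.T Y).src (c.e k)) = true)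
    (h0 : 𝔅.posF Y zi ((𝔅.T Y).src (c.e 0)) ∉ t.reg N z h .S2) {k j : ℕ} (hk : k < c.n) (hn : ‖𝔅.posF Y zi ((𝔅.T Y).src (c.e k)) - z‖ ≤ h) (hj : j ≤ k)
    (hjo : 𝔅.posF Y zi ((𝔅.T Y).src (c.e j)) ∉ t.reg N z h .S2) (hNm : ∀ i, j ≤ i → i ≤ k → 𝔅.posF Y zi ((𝔅.T Y).src (c.e i)) ∈ t.Nm) :
    ∃ lo, lo + 𝔖.inn.n < c.n ∧ 𝔖.g2.Pass c lo (lo + 𝔖.inn.n) ∧ (∀ i, i < 𝔖.inn.n → 𝔖.inn.e i = c.e (lo + i)) ∧ (∀ i, i ≤ 𝔖.inn.n → 𝔖.inn.v i = (𝔅.T Y).src (c.e (lo + i))) ∧ lo + 𝔖.im < k ∧ k < lo + 𝔖.ip ∧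
      (∀ k', k' < c.n → pvdcZ 𝔅 Y zi ((𝔅.T Y).opp (c.e k')) ∈ closedBall z (mc * h) → lo ≤ k' ∧ k' < lo + 𝔖.inn.n) ∧
      ∀ k', lo + 𝔖.im ≤ k' → k' < lo + 𝔖.ip → pvdcZ 𝔅 Y zi ((𝔅.T Y).opp (c.e k')) ∈ closedBall z (mc * h) := by
  have hT := hok.sph
  have hS := hok.simple
  have h0' := hW.h0
  have mu0 := hW.mu0
  obtain ⟨n1, n2, n3, n4⟩ := hW.nest
  have hcs : pvtrCore (3 * ρ) E ⊆ E := pvtr_core_subset (by positivity)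
  have hziK : zi ∉ K := fun hh => hziE (hcs (hK hh))
  have h12 : t.reg N z h .O1 ⊆ t.reg N z h .I2 := closedBall_subset_closedBall (mul_le_mul_of_nonneg_right (by linarith) h0'.le)
  have hint2 : ∀ v, 𝔅.posF Y zi v ∈ t.reg N z h .I2 → v ∈ (𝔅.T Y).Int 𝔖.g2.c.Left := fun v hv d hd => hA.sel2.inner (Or.inl (by rw [hd]; exact hv))
  have hint1 : ∀ v, 𝔅.posF Y zi v ∈ t.reg N z h .I1 → v ∈ (𝔅.T Y).Int 𝔖.g1.c.Left := fun v hv d hd => hA.sel1.inner (Or.inl (by rw [hd]; exact hv))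
  have hin : 𝔖.g1.c.Left ⊆ 𝔖.g2.c.Left := fun d hd => hA.sel2.inner (by
    rcases hA.sel1.outer hd with h | h | h
    · exact Or.inl (h12 h)
    · exact Or.inr (Or.inl (h12 h))
    · exact Or.inr (Or.inr (h12 h)))
  have hzone : ∀ v ∈ (𝔅.T Y).VOf 𝔖.g2.c.Left, 𝔅.posF Y zi v ∈ t.reg N z h .S2 := by
    rintro v ⟨d, hd, rfl⟩
    exact (pvsp_zone hst (fun k hk => n4 hk) (hA.sel2.outer hd)).1
  have hk0 : 𝔅.posF Y zi ((𝔅.T Y).src (c.e k)) ∈ t.reg N z h .I1 := by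
    refine mem_closedBall_iff_norm.2 (hn.trans ?_)
    have : (30 : ℝ) ≤ t.a N 0 := hW.a_pos
    nlinarith
  have hdir : ∀ i, j ≤ i → i < k → (𝔅.T Y).src (c.e i) ≠ 𝔖.g2.vp := by
    intro i k1 k2 e
    have h1 := hNm i k1 k2.le
    rw [e] at h1
    exact pvgz_verts_not_int hT 𝔖.g2.c 𝔖.g2.m (hint2 _ (hW.tubes ⟨hA.vp, h1⟩))
  obtain ⟨lo, q1, P2, P1, ue, uv, q2, q3, q4, q5⟩ := pvkv_rim_pos hT hS hA hin (Set.toFinite _) hc hb (fun hcon => h0 (hzone _ hcon)) hk (hint1 _ hk0) hj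
    (fun hcon => hjo (hzone _ hcon)) hdir
  have hBS : closedBall z (mc * h) ⊆ t.reg N z h .S2 := closedBall_subset_closedBall (mul_le_mul_of_nonneg_right (by
    have : t.a N 1 ≤ t.b N 1 := hW.ab' 1
    linarith) h0'.le)
  have hdis := (pl_jordan_vert_disj hT 𝔖.g2.c).2.2
  refine ⟨lo, q1, P2, ue, uv, q2, q3, ?_, ?_⟩
  · intro k' hk' hZ
    obtain ⟨-, t2, -⟩ := pvkv_tag hρ hok hm (fun hh => hziE (hcs hh)) (hK (hSK (hBS hZ)))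
    rw [(𝔅.T Y).tgt_opp] at t2
    have hI2 : 𝔅.posF Y zi ((𝔅.T Y).src (c.e k')) ∈ t.reg N z h .I2 := by
      refine mem_closedBall_iff_norm.2 ?_
      have h1 : ‖pvdcZ 𝔅 Y zi ((𝔅.T Y).opp (c.e k')) - z‖ ≤ mc * h := mem_closedBall_iff_norm.1 hZ
      have h2 : ‖𝔅.posF Y zi ((𝔅.T Y).src (c.e k')) - z‖ ≤ ‖𝔅.posF Y zi ((𝔅.T Y).src (c.e k')) - pvdcZ 𝔅 Y zi ((𝔅.T Y).opp (c.e k'))‖ + ‖pvdcZ 𝔅 Y zi ((𝔅.T Y).opp (c.e k')) - z‖ := by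
        have e : 𝔅.posF Y zi ((𝔅.T Y).src (c.e k')) - z = (𝔅.posF Y zi ((𝔅.T Y).src (c.e k')) - pvdcZ 𝔅 Y zi ((𝔅.T Y).opp (c.e k'))) + (pvdcZ 𝔅 Y zi ((𝔅.T Y).opp (c.e k')) - z) := by ring
        rw [e]; exact norm_add_le _ _
      nlinarith
    have hI := hint2 _ hI2
    constructor
    · by_contra hcon
      exact Set.disjoint_left.1 hdis hI (q5 k' (by omega))
    · by_contra hcon
      rcases Nat.eq_or_lt_of_le (Nat.le_of_not_lt hcon) with e | e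
      · rw [← e, P2.hhi] at hI
        exact pvgz_verts_not_int hT 𝔖.g2.c 𝔖.g2.m hI
      · exact Set.disjoint_left.1 hdis hI (P2.out k' e (by omega))
  · intro k' k1 k2
    have hL := (q4 k' k1 k2).2
    have hO1 := hA.sel1.outer hL
    have hKd : (𝔅.T Y).opp (c.e k') ∈ pvplB (𝔅.T Y) fun v => 𝔅.posF Y zi v ∈ K := pvpl_B_mono _ (fun v hv => hSK (n4 (n2 hv))) hO1
    obtain ⟨htri, eZ, -⟩ := pvzz_face hok hziK hKd
    have hcore : 𝔅.posF Y zi ((𝔅.T Y).src ((𝔅.T Y).opp (c.e k'))) ∈ pvtrCore (3 * ρ) E ∨ 𝔅.posF Y zi ((𝔅.T Y).tgt ((𝔅.T Y).opp (c.e k'))) ∈ pvtrCore (3 * ρ) E ∨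
        𝔅.posF Y zi ((𝔅.T Y).apex ((𝔅.T Y).opp (c.e k'))) ∈ pvtrCore (3 * ρ) E := by
      rcases hKd with h | h | h
      · exact Or.inl (hK h)
      · exact Or.inr (Or.inl (hK h))
      · exact Or.inr (Or.inr (hK h))
    obtain ⟨s1, s2, s3⟩ := pvkv_small hρ hm htri hcore
    obtain ⟨b1, b2, b3⟩ := pvzz_bary_near s1 s2 s3
    rw [eZ]
    refine mem_closedBall_iff_norm.2 ?_
    have fin : ∀ w : ℂ, ‖w - z‖ ≤ t.b N 0 * h → ‖(𝔅.T Y).bary (𝔅.posF Y zi) ((𝔅.T Y).opp (c.e k')) - w‖ ≤ 2 * ρ → ‖(𝔅.T Y).bary (𝔅.posF Y zi) ((𝔅.T Y).opp (c.e k')) - z‖ ≤ mc * h := by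
      intro w w1 w2
      have e : (𝔅.T Y).bary (𝔅.posF Y zi) ((𝔅.T Y).opp (c.e k')) - z = ((𝔅.T Y).bary (𝔅.posF Y zi) ((𝔅.T Y).opp (c.e k')) - w) + (w - z) := by ring
      have := norm_add_le ((𝔅.T Y).bary (𝔅.posF Y zi) ((𝔅.T Y).opp (c.e k')) - w) (w - z)
      rw [← e] at this
      nlinarith
    rcases hO1 with h | h | h
    · exact fin _ (mem_closedBall_iff_norm.1 h) b1
    · exact fin _ (mem_closedBall_iff_norm.1 h) b2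
    · exact fin _ (mem_closedBall_iff_norm.1 h) b3

/-- **(A4) ACT-Q** (`ν`-level, no kernel): `ζ` carries both states, mesh of the window;   `P` an encoded reaching rim of ANY completion of `ζ`, pinned at `u` (candidate `s`) and at `v` (candidate `t`), SENSE at both pins (as in `pvkv_act` of 263),
its run from `u` to `v` in the tube off the boundary layer.      Then the arc `v₁⁺(s) → v₁⁻(t)` of `P` is a present free arc and its mass is `pvbArcI`. -/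
theorem pvzz_act {x : ℂ} {R : ℝ} (W : 𝔭.WfA x R) {ζ : Conf PvPt} (hs : ζ ∈ pvspEvt 𝔭.N 𝔭.s 𝔭.zs 𝔭.h .has) (ht : ζ ∈ pvspEvt 𝔭.N 𝔭.t 𝔭.zt 𝔭.h .has)
    (hf : PvtnFin 𝔭.Ew ζ) (hm : PvtrMesh 𝔭.rho 𝔭.Ew (cfSites ζ)) {P : PvbRim} (hP : P ∈ pvdaAll x R ζ) {τ : Type} (Mn : PvbMenu τ) {u v : PvbPin τ}
    (hu : u.ctr = 𝔭.zs) (hv : v.ctr = 𝔭.zt) (hmu : Mn.mc u.typ = 𝔭.mcs) (hmv : Mn.mc v.typ = 𝔭.mct) (huv : u.idx < v.idx) (hvl : v.idx < P.len)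
    (hnu : ‖P.v u.idx - 𝔭.zs‖ ≤ 𝔭.h) (hnv : ‖P.v v.idx - 𝔭.zt‖ ≤ 𝔭.h) (hcol : cfCol ζ (P.v u.idx) = 𝔭.s.col)
    (su : ∃ j ≤ u.idx, P.v j ∉ 𝔭.rs .S2 ∧ ∀ i, j ≤ i → i ≤ u.idx → P.v i ∈ 𝔭.s.Nm) (sv : ∃ j ≤ v.idx, P.v j ∉ 𝔭.rt .S2 ∧ ∀ i, j ≤ i → i ≤ v.idx → P.v i ∈ 𝔭.t.Nm)
    (run : ∀ k, u.idx ≤ k → k ≤ v.idx → P.v k ∈ 𝔭.Ug) :
    ∃ g, ζ ∈ 𝔭.E g ∧ 𝔭.X g ζ = pvbArcI Mn 𝔭.h P P.xQ u v := by
  classical
  obtain ⟨X, hX, 𝔅, ξ, hAdm, hOk, c, hc, h4, rfl⟩ := pvda_all_mem hP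
  have W0 : 𝔭.Wf := W.toWf
  have hR := W.R0
  have hρ : 0 < 𝔭.rho := W0.rho0
  have h7 : x + 7 * (R : ℂ) ∉ closedBall x (6 * R) := by
    rw [mem_closedBall, dist_eq_norm]
    have : ‖x + 7 * (R : ℂ) - x‖ = 7 * R := by
      have e : x + 7 * (R : ℂ) - x = ((7 * R : ℝ) : ℂ) := by push_cast; ring
      rw [e, Complex.norm_real, Real.norm_of_nonneg (by linarith)]
    rw [this]; linarith
  have hziE : x + 7 * (R : ℂ) ∉ 𝔭.Ew := fun hh => h7 (W.win hh)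
  have hziK : x + 7 * (R : ℂ) ∉ 𝔭.Kr := fun hh => hziE (W0.KE hh)
  have hokK : 𝔅.Ok (cfSites ζ) 𝔭.Kr := delb_ok_mono (W0.KE.trans W.win) hOk
  have hoks : 𝔅.Ok (cfSites ζ) (𝔭.rs .S2) := delb_ok_mono W0.sK hokK
  have hokt : 𝔅.Ok (cfSites ζ) (𝔭.rt .S2) := delb_ok_mono W0.tK hokK
  have hzis : x + 7 * (R : ℂ) ∉ 𝔭.rs .S2 := fun hh => hziK (W0.sK hh)
  have hzit : x + 7 * (R : ℂ) ∉ 𝔭.rt .S2 := fun hh => hziK (W0.tK hh)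
  obtain ⟨-, -, hsts, Ss, hAs, -⟩ := (pvsp_evt_dict W0.ws .has 𝔅 ζ ξ hoks hzis).1 hs
  have ht' := (pvsp_evt_dict W0.wt .has 𝔅 ζ ξ hokt hzit).1 ht
  rw [W0.col] at ht'
  obtain ⟨-, -, hstt, St, hAt, -⟩ := ht'
  -- the rim is black
  have hc' : c.IsRim (pvspS 𝔭.s.col (𝔅.col ζ ξ)) := (pvkv_rim_S _ _).2 hc
  have hb : ∀ j, pvspS 𝔭.s.col (𝔅.col ζ ξ) ((𝔅.T _).src (c.e j)) = true := by
    intro j
    have hlk := pvzz_site hziK (W0.UK (W0.gU (run u.idx le_rfl huv.le)))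
    have e1 : 𝔅.col ζ ξ ((𝔅.T _).src (c.e j)) = 𝔅.col ζ ξ ((𝔅.T _).src (c.e u.idx)) := pl_rim_col hc j u.idx
    have e2 : 𝔅.col ζ ξ ((𝔅.T _).src (c.e u.idx)) = cfCol ζ (𝔅.posF _ (x + 7 * R) ((𝔅.T _).src (c.e u.idx))) := by
      unfold PvBulk.col; rw [hlk]; rfl
    have e3 : cfCol ζ (𝔅.posF _ (x + 7 * R) ((𝔅.T _).src (c.e u.idx))) = 𝔭.s.col := hcol
    unfold pvspS
    rw [e1, e2, e3]
    exact beq_self_eq_true _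
  have h0z : ∀ S : Set ℂ, S ⊆ ball x (4 * R) → 𝔅.posF _ (x + 7 * R) ((𝔅.T _).src (c.e 0)) ∉ S := by
    intro S hS hcon
    have := hS hcon
    rw [mem_ball_iff_norm] at this
    linarith
  -- the two windows
  obtain ⟨ju, hju, hjuo, hjuN⟩ := su
  obtain ⟨jv, hjv, hjvo, hjvN⟩ := sv
  obtain ⟨ls, a1, Ps, a2, a3, a4, a5, a6, a7⟩ := pvzz_end W0.ws W.lo_s W.hi_s hρ W0.rho_le hokK hAdm.2 hm W0.core hziE W0.sK hsts hAs hc' hb (h0z _ (subset_union_left.trans W.zone)) (huv.trans hvl) hnu hju hjuo hjuN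
  obtain ⟨lt, b1, Pt, b2, b3, b4, b5, b6, b7⟩ := pvzz_end W0.wt W.lo_t W.hi_t hρ W0.rho_le hokK hAdm.2 hm W0.core hziE W0.tK hstt hAt hc' hb (h0z _ (subset_union_right.trans W.zone)) hvl hnv hjv hjvo hjvN
  have i1 := hAs.im_lt
  have i2 := hAs.ip_le
  have i3 := hAt.im_lt
  have i4 := hAt.ip_le
  have zs_ := pvzz_inn_zone W0.ws.nest hsts hAs
  have zt_ := pvzz_inn_zone W0.wt.nest hstt hAt
  have hord0 : ls + Ss.inn.n < lt := by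
    by_contra hcon
    obtain ⟨m, m1, m2, m3, m4⟩ : ∃ m, ls ≤ m ∧ m ≤ ls + Ss.inn.n ∧ lt ≤ m ∧ m ≤ lt + St.inn.n := ⟨max ls lt, by omega, by omega, by omega, by omega⟩
    have e1 := zs_ (m - ls) (by omega)
    rw [a3 _ (by omega), show ls + (m - ls) = m by omega] at e1
    have e2 := zt_ (m - lt) (by omega)
    rw [b3 _ (by omega), show lt + (m - lt) = m by omega] at e2
    exact Set.disjoint_left.1 W.dis e1 e2
  have hord : ls + Ss.ip ≤ lt + St.im := by omega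
  have hlt : lt + St.im < ls + Ss.ip + c.n := by omega
  -- the mesh at the sites of the reading zone
  have near : ∀ d : 𝔅.D (cfSites ζ), 𝔅.posF _ (x + 7 * R) ((𝔅.T _).src d) ∈ 𝔭.Kr →
      ‖𝔅.posF _ (x + 7 * R) ((𝔅.T _).tgt d) - 𝔅.posF _ (x + 7 * R) ((𝔅.T _).src d)‖ ≤ 2 * 𝔭.rho ∧ ‖𝔅.posF _ (x + 7 * R) ((𝔅.T _).apex d) - 𝔅.posF _ (x + 7 * R) ((𝔅.T _).src d)‖ ≤ 2 * 𝔭.rho := by
    intro d hd
    obtain ⟨htri, -, -⟩ := pvzz_face hokK hziK (d := d) (Or.inl hd)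
    obtain ⟨s1, s2, -⟩ := pvkv_small hρ hm htri (Or.inl (W0.core hd))
    exact ⟨s1, s2⟩
  have hIs := pvzz_rim hOk.sph hAs hAt hc' (hb 0) a2 a3 b3 Ps Pt hord0.le b1 (Ug := 𝔭.Ug) (U := 𝔭.U) (Lam := 𝔭.Lam)
    (fun k k1 k2 => run k (by omega) (by omega))
    (fun k k1 k2 => by
      have r0 := run k (by omega) (by omega)
      have r1 := W0.gU r0
      have r2 : (𝔅.enc (cfSites ζ) (x + 7 * R) c).v k ∉ 𝔭.Lam := Set.disjoint_left.1 W0.gL r0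
      have := (near ((𝔅.T _).nxt ((𝔅.T _).opp (c.e k))) (by rw [(𝔅.T _).src_nxt, (𝔅.T _).tgt_opp]; exact W0.UK r1)).1
      rw [(𝔅.T _).tgt_nxt, (𝔅.T _).src_nxt, (𝔅.T _).tgt_opp] at this
      exact W.lam _ r1 r2 (mem_closedBall_iff_norm.2 this))
    (by
      rintro a h1 h2 w ⟨d, rfl, rfl⟩
      exact W.lam _ h1 h2 (mem_closedBall_iff_norm.2 (near d (W0.UK h1)).1))
  have hmid : ∀ i, St.im ≤ i → i < St.ip → (𝔅.T _).bary (𝔅.posF _ (x + 7 * R)) ((𝔅.T _).opp (St.inn.e i)) ∈ 𝔭.Bt := by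
    intro i i5 i6
    have h1 := b7 (lt + i) (by omega) (by omega)
    rw [← b2 i (by omega)] at h1
    obtain ⟨-, e1, -⟩ := pvzz_face hokK hziK (d := (𝔅.T _).opp (St.inn.e i)) (Or.inr (Or.inl (by
      rw [(𝔅.T _).tgt_opp, St.inn.src_e i (by omega)]
      exact W0.tK (zt_ i (by omega)))))
    rw [e1] at h1
    exact h1
  have hIsζ := (pvzz_dict W0 𝔅 ζ ξ hokK hziK _ _).2 ⟨hf, hm, hsts, hstt, _, hIs, hmid, rfl⟩
  refine ⟨_, ⟨_, hIsζ⟩, (pvzz_X_eq W0 hIsζ).trans ?_⟩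
  -- the dictionary
  have ws : PvdcWin Mn 𝔭.h (𝔅.enc (cfSites ζ) (x + 7 * R) c) u ls (ls + Ss.im) (ls + Ss.ip) (ls + Ss.inn.n) :=
    ⟨by omega, a4.le, a5.le, by omega, a1.le,
      fun k hk hin => a6 k hk (mem_closedBall_iff_norm.2 (by rw [← hu, ← hmu]; exact hin)),
      fun k k1 k2 => by
        have := mem_closedBall_iff_norm.1 (a7 k k1 k2)
        rw [← hu, ← hmu] at this
        exact this⟩
  have wt : PvdcWin Mn 𝔭.h (𝔅.enc (cfSites ζ) (x + 7 * R) c) v lt (lt + St.im) (lt + St.ip) (lt + St.inn.n) :=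
    ⟨by omega, b4.le, b5.le, by omega, b1.le,
      fun k hk hin => b6 k hk (mem_closedBall_iff_norm.2 (by rw [← hv, ← hmv]; exact hin)),
      fun k k1 k2 => by
        have := mem_closedBall_iff_norm.1 (b7 k k1 k2)
        rw [← hv, ← hmv] at this
        exact this⟩
  have arc1 : PvdcArc c Ss.inn ls (ls + Ss.inn.n) := ⟨Nat.le_add_right _ _, by omega, by have := a3 0 (Nat.zero_le _); simpa using this, a2⟩
  have hD := pvdc_dict_encQ 𝔅 c (𝔐 := Mn) (h := 𝔭.h) (zi := x + 7 * R) (s := u) (t := v) ⟨ls, _, _, _, lt, _, _, _, ws, wt, arc1, pvdc_arc_pth' c hord hlt⟩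
  rw [hD]
  have cs : pvdcCut Mn 𝔭.h u = 𝔭.Bs := by
    ext w
    show ‖w - u.ctr‖ ≤ Mn.mc u.typ * 𝔭.h ↔ w ∈ closedBall 𝔭.zs (𝔭.mcs * 𝔭.h)
    rw [mem_closedBall_iff_norm, hu, hmu]
  have ct : pvdcCut Mn 𝔭.h v = 𝔭.Bt := by
    ext w
    show ‖w - v.ctr‖ ≤ Mn.mc v.typ * 𝔭.h ↔ w ∈ closedBall 𝔭.zt (𝔭.mct * 𝔭.h)
    rw [mem_closedBall_iff_norm, hv, hmv]
  rw [cs, ct]
  have hw : ∀ (B : Set ℂ) (d : 𝔅.D (cfSites ζ)), 𝔅.posF _ (x + 7 * R) ((𝔅.T _).tgt d) ∈ 𝔭.Kr →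
      pvdcW ((𝔅.T _).bary (𝔅.posF _ (x + 7 * R))) ((𝔅.T _).qpart (𝔅.posF _ (x + 7 * R))) B d = pvdcW (pvdcZ 𝔅 _ (x + 7 * R)) (pvdcQ 𝔅 _) B d := by
    intro B d hd
    obtain ⟨-, e1, e2⟩ := pvzz_face hokK hziK (d := d) (Or.inr (Or.inl hd))
    unfold pvdcW
    rw [e1, e2]
  unfold PvzzDat.X pvdcX
  congr 1
  · refine pvdc_psum_congr _ fun k hk => hw _ _ ?_
    rw [(𝔅.T _).tgt_opp, Ss.inn.src_e k hk]
    exact W0.sK (zs_ k hk.le)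
  · refine pvdc_psum_congr _ fun k hk => hw _ _ ?_
    rw [(𝔅.T _).tgt_opp, PvMap.Pth.src_e _ k hk]
    exact W0.UK (W0.gU (hIs.tube k hk.le))

end act

end Claimed.Agent.R289
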