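import Claimed.Agent.R289.Tr.N1SysP
import Claimed.Agent.R289.Tr.DomFl
import Claimed.Agent.R289.Exit.ArcP
import Claimed.Agent.R289.Exit.ArcVP
import Claimed.Agent.R289.Tr.ArcP
import Claimed.Agent.R289.Tr.CloseM
import Claimed.Agent.R289.Tr.DenseS

/-!
# Row 289 (S0537, Cardy for Poisson-Voronoi), THE WALL, ROAD P, file Tr/N1SysA : ASSEMBLY OF P17 AT THE TERM OF `Tr/N1SysP`      (pen helper59; prefix `pvnj_`, `pvnj`, `Pvnj`)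

`Tr/N1SysP.lean` = THE TERM `𝔭.geo` for one pattern at one mesh + the contracts `Ch Rg Ln Ar` of the producers + the fields of 279 one by one.      THIS FILE = sec. 5-6 of the plan:
* sec. 1  `𝔭.arc : PvnyArc (List ℂ)` (the arc side alone, record of 279 `Tr/N1R`), dictionary with `pvnyEn pvnyEv pvnyYc pvnyYN` (all `rfl`)
* sec. 2  **CLOSE**: the contract `𝔭.Cl η` AT ONE CONFIGURATION (TR13 + TR12 + TR14 on the plane map `pvieT η`, words `PvdeCl` of 37), `pvnj_close` = field `close` VERBATIM      [260 147 113 95 212]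
* sec. 3  the record `𝔭.HypC` = all the fields of `PvnyArc.Hyp` in the COLOUR + CYLINDER form (D1 D2), **`pvnj_hypC`** : `Ch Rg Ln Ar` + `Cl` a.e. ⟹ `HypC`
* sec. 4  **PREP ⟹ RIM**: a doubly prepared configuration carries the SAME encoded rim, the same sites, the same colours off the two strips (`pvnj_prep`)
* sec. 5  THE PARAMETERS OF RECORD `pvnjAt`, THE CONTRACT OF ONE PATTERN `PvnjPat`, ACT at the term (`pvnj_act`)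
* sec. 6  the fields `Z stab n1ν` of `PvrxArc` (79).
-/

set_option autoImplicit false
set_option linter.unusedSectionVars false
set_option linter.unusedVariables false

namespace Claimed.Agent.R289

open MeasureTheory Filter Topology Set Claims.C0465
open scoped ENNReal

/-! ## 1. the arc side of the term -/

namespace PvnjPar

variable {τ : Type} (𝔭 : PvnjPar τ)

/-- **THE ARC SIDE OF THE TERM** (record of 279) -/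
noncomputable def arc : PvnyArc (List ℂ) where
  col := 𝔭.s.col
  C0 := 𝔭.geo.C0
  O2 := 𝔭.geo.O2
  T := 𝔭.geo.T
  Ok := 𝔭.geo.Ok
  V := 𝔭.geo.V
  E := 𝔭.geo.E
  W := 𝔭.geo.W
  Xg := 𝔭.geo.Xg
  Θ := 𝔭.geo.Θ
  qW := 𝔭.geo.qW

/-- both marked states are usable -/
def En : Set (Conf PvPt) := pvnyEn 𝔭.D 𝔭.m 𝔭.ε 𝔭.π
/-- the closing chain succeeds -/
noncomputable def Ev : Set (Conf PvPt) := pvnyEv 𝔭.D 𝔭.Γ 𝔭.m 𝔭.ε 𝔭.π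
/-- the closing sum -/
noncomputable def Yc : Conf PvPt → ℂ := pvnyYc 𝔭.D 𝔭.Γ 0 𝔭.m 𝔭.ε 𝔭.π

end PvnjPar

theorem pvnj_eqns_cite3 : True := by
  have := @PvnjPar.arc.eq_1; have := @PvnjPar.En.eq_1; have := @PvnjPar.Ev.eq_1; have := @PvnjPar.Yc.eq_1
  trivial

section dict

variable {τ : Type} (𝔭 : PvnjPar τ)

theorem pvnj_sec_eq : 𝔭.sec = pvnyLst 𝔭.D 𝔭.Γ 𝔭.m 𝔭.ε 𝔭.π := rfl

theorem pvnj_yN_eq : 𝔭.yN = pvnyYN 𝔭.D 𝔭.Γ 𝔭.W 0 𝔭.m 𝔭.ε 𝔭.π := rfl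

theorem pvnj_Yc_eq (η : Conf PvPt) : 𝔭.Yc η = ∑ j ∈ Finset.range (𝔭.π.l.length + 2), 𝔭.fld j η := rfl

theorem pvnj_A_eq (g : List ℂ) : 𝔭.A g = 𝔭.En ∩ 𝔭.arc.E g := rfl

/-- the integrand of record is the integrand of 279 -/
theorem pvnj_Z_eq : 𝔭.Z = 𝔭.arc.Z 𝔭.En 𝔭.yN := rfl

end dict

/-! ## 2. CLOSE -/

namespace PvnjPar

variable {τ : Type} (𝔭 : PvnjPar τ)

/-- the datum `g` is present and closed off by the lane -/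
def Pr (η : Conf PvPt) (g : List ℂ) : Prop := η ∈ 𝔭.A g ∧ η ∈ 𝔭.geo.W

/-- **THE CLOSING CONTRACT AT ONE CONFIGURATION** (TR13 CLOSE + TR12 injectivity + TR14 masks), on the plane map `pvieT η` (161), words of 37:   when the chain succeeds, every present datum closes to a rim (of either colour) of the
plane map with vertices in `B`, two vertices `a0` apart, of `Q`-mass `X_g + Y_c`;   two present data with the same rim are equal.      [map level 260 `Tr/CloseN`, lane 147 `pvqw_W_join`, strands 113 95 `Tr/ConnP` `Tr/CloseM`, arcs 212 `Tr/ArcP`] -/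
structure Cl (η : Conf PvPt) : Prop where
  cl : η ∈ 𝔭.Ev → ∃ Cl : List ℂ → (pvieT η).Cyc → Prop, (∀ g, 𝔭.Pr η g → ∃ c, Cl g c) ∧
    (∀ g c, 𝔭.Pr η g → Cl g c → PvdeCl 0 𝔭.𝔯.B 𝔭.𝔯.a0 η c (𝔭.𝔞.X g η + 𝔭.Yc η)) ∧
    ∀ g g' c c', 𝔭.Pr η g → 𝔭.Pr η g' → Cl g c → Cl g' c' → c'.e 0 ∈ c.darts → g = g'

/-- the auxiliary system of 159: weight = indicator of the success of the chain -/
noncomputable def aux : PvdmSys (List ℂ) where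
  Ok := 𝔭.geo.Ok
  C := 𝔭.geo.C0
  A := 𝔭.A
  WO _ := 𝔭.geo.W
  frz g _ := 𝔭.geo.V g ∪ 𝔭.geo.O2
  yf _ _ := 𝔭.geo.Tᶜ
  X := 𝔭.𝔞.X
  yh _ _ := 0
  w := 𝔭.Ev.indicator fun _ => 1
  Y := 𝔭.Yc
  H := 𝔭.geo.Θ
  q := 𝔭.geo.qW

end PvnjPar

theorem pvnj_eqns_cite4 : True := by
  have := @PvnjPar.Pr.eq_1; have := @PvnjPar.aux.eq_1
  trivial

section close

variable {τ : Type} {𝔭 : PvnjPar τ}

theorem pvnj_rim {η : Conf PvPt} (h : 𝔭.Cl η) : PvdeRim 𝔭.aux 0 𝔭.𝔯.B 𝔭.𝔯.a0 1 η where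
  w_le := fun _ _ => by
    show 𝔭.Ev.indicator (fun _ => (1 : ℝ≥0∞)) η ≤ 1
    exact indicator_le_self' (fun _ _ => zero_le) η
  cl := fun hw => by
    have hE : η ∈ 𝔭.Ev := by
      by_contra hn
      exact hw (show 𝔭.Ev.indicator (fun _ => (1 : ℝ≥0∞)) η = 0 from indicator_of_notMem hn _)
    exact h.cl hE

/-- the deterministic half: at a good configuration the sum of `close` is bounded by the closed sum of I.TAIL -/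
theorem pvnj_sum_le {η : Conf PvPt} (hg : DelGood (cfSites η)) (hB : Bornology.IsBounded 𝔭.𝔯.B) (h : 𝔭.Cl η) (hE : η ∈ 𝔭.Ev) :
    ∑' g, (𝔭.En ∩ 𝔭.arc.E g ∩ 𝔭.arc.W).indicator (fun ω => ‖𝔭.arc.Xg g ω + 𝔭.Yc ω‖ₑ ^ 2) η ≤ 𝔭.arc.Θ η := by
  have key := pvde_sum_le hg hB (pvnj_rim h)
  rw [one_mul] at key
  refine le_trans (le_of_eq (tsum_congr fun g => ?_)) key
  show _ = (𝔭.En ∩ 𝔭.arc.E g ∩ 𝔭.arc.W).indicator (fun ω => 𝔭.Ev.indicator (fun _ => (1 : ℝ≥0∞)) ω * ‖𝔭.arc.Xg g ω + 𝔭.Yc ω‖ₑ ^ 2) η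
  by_cases hm : η ∈ 𝔭.En ∩ 𝔭.arc.E g ∩ 𝔭.arc.W
  · rw [indicator_of_mem hm, indicator_of_mem hm, indicator_of_mem hE, one_mul]
  · rw [indicator_of_notMem hm, indicator_of_notMem hm]

/-- **THE FIELD `close` OF `PvnyArc.Hyp`, VERBATIM** -/
theorem pvnj_close (hε : 𝔭.ε ≠ 0) (h : 𝔭.Rg) (hc : ∀ᵐ η ∂pvP 𝔭.ε, 𝔭.Cl η) :
    ∀ᵐ ω ∂pvP 𝔭.ε, ω ∈ 𝔭.Ev → ∑' g, (𝔭.En ∩ 𝔭.arc.E g ∩ 𝔭.arc.W).indicator (fun ω => ‖𝔭.arc.Xg g ω + 𝔭.Yc ω‖ₑ ^ 2) ω ≤ 𝔭.arc.Θ ω := by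
  filter_upwards [hc, pvqf_good_ae 𝔭.ε hε] with η h1 h3 hE
  exact pvnj_sum_le h3.del h.B_bdd h1 hE

/-! ### CLOSE, RING FORM (95 52) -/

/-- **THE CLOSING CONTRACT AT ONE CONFIGURATION, RING FORM** (words of 95 `Tr/CloseM`, 260 `PvgzRing`): when the chain succeeds
* `uniq`  at most ONE datum is present (TR12: `pvnc_uniq` of 260)
* `ring`  a present datum `g` closes the chain to a ring of `N + 1` gates of the Delaunay plane, `N = |π.l| + 2` connectors + the free arc as the link number `N` (from the gate `S₂(s)` to the gate `S₂(t)`), with the masks `Mk`;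
          the fields of the connectors and `X_g` are in THE MASK FORM (TR14). -/
structure PvnjPar.ClR (𝔭 : PvnjPar τ) (Mk : ℕ → Set ℂ) (η : Conf PvPt) : Prop where
  uniq : η ∈ 𝔭.Ev → ∀ g g', 𝔭.Pr η g → 𝔭.Pr η g' → g = g'
  ring : η ∈ 𝔭.Ev → ∀ g, 𝔭.Pr η g → ∃ (b : Bool) (G : ℕ → (delbPl (cfSites η)).toMap.Gate (pvlfFl b (cfCol η ∘ Subtype.val))) (inn lk : ℕ → (delbPl (cfSites η)).toMap.Pth),
    PvcmAt (delbPl (cfSites η)) b (𝔭.π.l.length + 2 + 1) Mk 𝔭.𝔯.B 𝔭.𝔯.a0 G inn lk ∧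
    (∀ j < 𝔭.π.l.length + 2, 𝔭.fld j η = pvcmX (delbPl (cfSites η)) (Mk j) (inn j) (lk j) (inn (j + 1))) ∧
    𝔭.𝔞.X g η = pvcmX (delbPl (cfSites η)) (Mk (𝔭.π.l.length + 2)) (inn (𝔭.π.l.length + 2)) (lk (𝔭.π.l.length + 2)) (inn (𝔭.π.l.length + 2 + 1))

/-- one present datum: its term is bounded by the closed sum -/
theorem pvnj_term_le {Mk : ℕ → Set ℂ} {η : Conf PvPt} (hg : DelGood (cfSites η)) (hf : ∀ x : ℂ × ℂ, {y | pvqSame (DelTri (cfSites η)) (cfCol η) x y}.Finite)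
    (hB : Bornology.IsBounded 𝔭.𝔯.B) (hMper : Mk (𝔭.π.l.length + 2 + 1) = Mk 0) (hd : ∀ i < 𝔭.π.l.length + 2 + 1, ∀ j < 𝔭.π.l.length + 2 + 1, i ≠ j → Disjoint (Mk i) (Mk j))
    (h : 𝔭.ClR Mk η) (hE : η ∈ 𝔭.Ev) {g : List ℂ} (hp : 𝔭.Pr η g) : ‖𝔭.𝔞.X g η + 𝔭.Yc η‖ₑ ^ 2 ≤ pvclSum η 𝔭.𝔯.B 𝔭.𝔯.a0 := by
  obtain ⟨b, G, inn, lk, hA, hX, hXg⟩ := h.ring hE g hp
  obtain ⟨x, x1, x2, x3, x4, x5⟩ := pvcm_at hg (delbPl (cfSites η)) (delb_pl_eq hg) hA (by omega) hMper hd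
  have e : 𝔭.𝔞.X g η + 𝔭.Yc η = pvcqQ η x := by
    unfold pvcqQ
    rw [← pvcq_mask_sum pvqWQ (hf x) hd x4, Finset.sum_range_succ, pvnj_Yc_eq, add_comm, hXg, x5 _ (Nat.lt_succ_self _)]
    congr 1
    exact Finset.sum_congr rfl fun j hj => (hX j (Finset.mem_range.1 hj)).trans (x5 j (by have := Finset.mem_range.1 hj; omega))
  rw [e, pvcq_enorm_sq]
  exact pvcl_le_sum hg hB x1 x2 x3

/-- the deterministic half, ring form -/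
theorem pvnj_sum_le_R {Mk : ℕ → Set ℂ} {η : Conf PvPt} (hg : DelGood (cfSites η)) (hf : ∀ x : ℂ × ℂ, {y | pvqSame (DelTri (cfSites η)) (cfCol η) x y}.Finite)
    (hB : Bornology.IsBounded 𝔭.𝔯.B) (hMper : Mk (𝔭.π.l.length + 2 + 1) = Mk 0) (hd : ∀ i < 𝔭.π.l.length + 2 + 1, ∀ j < 𝔭.π.l.length + 2 + 1, i ≠ j → Disjoint (Mk i) (Mk j))
    (h : 𝔭.ClR Mk η) (hE : η ∈ 𝔭.Ev) :
    ∑' g, (𝔭.En ∩ 𝔭.arc.E g ∩ 𝔭.arc.W).indicator (fun ω => ‖𝔭.arc.Xg g ω + 𝔭.Yc ω‖ₑ ^ 2) η ≤ 𝔭.arc.Θ η := by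
  by_cases hex : ∃ g, 𝔭.Pr η g
  · obtain ⟨g0, hg0⟩ := hex
    rw [tsum_eq_single g0 fun g hne => indicator_of_notMem (fun hm => hne (h.uniq hE g g0 ⟨hm.1, hm.2⟩ hg0)) _]
    rw [indicator_of_mem (show η ∈ 𝔭.En ∩ 𝔭.arc.E g0 ∩ 𝔭.arc.W from ⟨hg0.1, hg0.2⟩)]
    exact pvnj_term_le hg hf hB hMper hd h hE hg0
  · rw [ENNReal.tsum_eq_zero.2 fun g => indicator_of_notMem (fun hm => hex ⟨g, ⟨hm.1, hm.2⟩⟩) _]
    exact zero_le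

/-- **THE FIELD `close` OF `PvnyArc.Hyp`, VERBATIM, FROM THE RING FORM** -/
theorem pvnj_close_R (hε : 0 < 𝔭.ε) (h : 𝔭.Rg) {Mk : ℕ → Set ℂ} (hMper : Mk (𝔭.π.l.length + 2 + 1) = Mk 0)
    (hd : ∀ i < 𝔭.π.l.length + 2 + 1, ∀ j < 𝔭.π.l.length + 2 + 1, i ≠ j → Disjoint (Mk i) (Mk j)) (hc : ∀ᵐ η ∂pvP 𝔭.ε, 𝔭.ClR Mk η) :
    ∀ᵐ ω ∂pvP 𝔭.ε, ω ∈ 𝔭.Ev → ∑' g, (𝔭.En ∩ 𝔭.arc.E g ∩ 𝔭.arc.W).indicator (fun ω => ‖𝔭.arc.Xg g ω + 𝔭.Yc ω‖ₑ ^ 2) ω ≤ 𝔭.arc.Θ ω := by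
  filter_upwards [hc, pvqf_good_ae 𝔭.ε hε.ne', pvqf_raw_same_ae hε] with η h1 h3 h4 hE
  exact pvnj_sum_le_R h3.del h4 h.B_bdd hMper hd h1 hE

end close

/-! ## 3. the contracts of 279 at the term -/

section hyp

variable {τ : Type} {𝔭 : PvnjPar τ}

/-- **THE CONTRACTS OF THE ARC SIDE AT THE TERM** (`PvnyArc.Hyp` of 279, colour + cylinder form) from the contracts of the producers and the field `close` -/
theorem pvnj_hyp (hε : 𝔭.ε ≠ 0) (hc : 𝔭.Ch) (h : 𝔭.Rg) (hl : 𝔭.Ln) (ha : 𝔭.Ar)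
    (hcl : ∀ᵐ ω ∂pvP 𝔭.ε, ω ∈ 𝔭.Ev → ∑' g, (𝔭.En ∩ 𝔭.arc.E g ∩ 𝔭.arc.W).indicator (fun ω => ‖𝔭.arc.Xg g ω + 𝔭.Yc ω‖ₑ ^ 2) ω ≤ 𝔭.arc.Θ ω) :
    𝔭.arc.Hyp 𝔭.ε 𝔭.En 𝔭.Ev 𝔭.Yc where
  ok_ae := pvnj_ok_ae hε
  mC0 := pvnj_mC0 hc
  mΘ := pvnj_mTh h
  O2T := pvnj_O2T h
  cntY := pvnj_cntY 𝔭
  cnt := pvnj_cnt ha
  finT := pvnj_finT h
  VT := pvnj_VT h ha
  stabE := fun Y hY g σ σ' hg h1 h2 => pvnj_stabE h hl ha Y hY g σ σ' hg h1 h2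
  stabW := fun Y hY g σ₀ σ σ' _ h0 h0' h2 hW => pvnj_stabW h hl Y hY σ₀ σ σ' (fun z hz hO => h0 z hz (Or.inr hO)) (fun z hz hO => h0' z hz (Or.inr hO)) h2 hW
  hq := fun Y hY g σ _ hg => pvnj_hq h hl ha Y hY g σ hg
  rE := pvnj_rE h hc hl ha
  rW := pvnj_rW h hc hl
  rX := pvnj_rX h hc ha
  close := hcl

/-- **THE CONTRACT OF P17 (a) AT THE TERM** (`PvnyPat` of 279) -/
theorem pvnj_pat (hε : 𝔭.ε ≠ 0) (hc : 𝔭.Ch) (h : 𝔭.Rg) (hl : 𝔭.Ln) (ha : 𝔭.Ar)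
    (hcl : ∀ᵐ ω ∂pvP 𝔭.ε, ω ∈ 𝔭.Ev → ∑' g, (𝔭.En ∩ 𝔭.arc.E g ∩ 𝔭.arc.W).indicator (fun ω => ‖𝔭.arc.Xg g ω + 𝔭.Yc ω‖ₑ ^ 2) ω ≤ 𝔭.arc.Θ ω) :
    PvnyPat 𝔭.D 𝔭.Γ 𝔭.W 0 𝔭.m 𝔭.ε 𝔭.π 𝔭.q 𝔭.arc where
  pat := hc.pat
  hC0 := pvnj_cor hc
  hO := by
    rw [hc.Os_eq, hc.Ot_eq]
    rintro z (hz | hz)
    · exact Or.inr hz
    · exact Or.inl hz
  arc := pvnj_hyp hε hc h hl ha hcl

end hyp

/-! ## 4. PREP ⟹ RIM -/

section prep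

/-- the repaintings of positive weight only ADD the colour `b`   (no hypothesis on the event) -/
theorem pvnj_supp {S : Set ℂ} {b : Bool} {𝒜 : Set (Conf PvPt)} {ξ : Conf PvPt} {B' : Finset ℂ} (hw : pvpWt S b 𝒜 ξ B' ≠ 0) : cfStripOn S b ξ ⊆ B' := by
  classical
  intro x hx
  refine pvpK_supp hw x ?_ hx
  unfold cfStripOn at hx
  exact Finset.mem_of_mem_filter x hx

/-- a configuration with one colour per site is `cfOf` of its sites and colours -/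
theorem pvnj_conf_of {η : Conf PvPt} (h : ∀ p ∈ η.pts, ∀ q ∈ η.pts, p.1 = q.1 → p = q) : η = cfOf (cfSites η) (cfCol η) := by
  classical
  ext p
  constructor
  · intro hp
    refine ⟨⟨p, hp, rfl⟩, ?_⟩
    unfold cfCol
    by_cases hb : p.2 = true
    · rw [hb, eq_comm, decide_eq_true_iff]
      have : p = (p.1, true) := Prod.ext rfl hb
      rwa [← this]
    · rw [Bool.not_eq_true] at hb
      rw [hb, eq_comm, decide_eq_false_iff_not]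
      intro hq
      have := h p hp _ hq rfl
      rw [this] at hb
      exact Bool.noConfusion hb
  · rintro ⟨⟨q, hq, hqp⟩, h2⟩
    unfold cfCol at h2
    by_cases hb : (p.1, true) ∈ η.pts
    · rw [decide_eq_true hb] at h2
      have : p = (p.1, true) := Prod.ext rfl h2
      rwa [this]
    · rw [decide_eq_false hb] at h2
      have hq2 : q.2 = false := by
        by_contra hne
        rw [Bool.not_eq_false] at hne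
        exact hb (by rw [← hqp, ← hne]; exact hq)
      have : p = q := Prod.ext hqp.symm (by rw [h2, hq2])
      rwa [this]

variable {τ : Type} {c : ℝ} {𝔓 : PvrxPar τ c} {x : ℂ} {R : ℝ}

/-- the marked vertex of a pin whose region lies in the patch -/
theorem pvnj_pin_near (hW : 𝔓.Wf) {m : ℕ} {ε : ℝ} {ω : PVSample} {P : PvbRim} {s : PvbPin τ} (hs : s ∈ 𝔓.pins x R m ε ω P)
    (hp : Metric.closedBall s.ctr (((𝔓.ty m s.ctr s.typ).rO 𝔓.mod.N + 1) * pvlmH m) ⊆ Metric.closedBall x (3 * R)) (hR : 0 < R) : ‖P.v s.idx - x‖ ≤ 6 * R := by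
  have hw := hW.ty_wf m s.ctr s.typ
  have h1 : P.v s.idx ∈ Metric.closedBall s.ctr (((𝔓.ty m s.ctr s.typ).rO 𝔓.mod.N + 1) * pvlmH m) := by
    rw [mem_closedBall_iff_norm]
    have h0 : ‖P.v s.idx - s.ctr‖ ≤ pvlmH m := hs.2.2.2.near
    have h2 := hw.rO
    have h3 := hw.mu0
    have h4 := hw.h0
    have h5 : (𝔓.ty m s.ctr s.typ).rO 𝔓.mod.N = 2 * (𝔓.ty m s.ctr s.typ).b 𝔓.mod.N 1 := rfl
    have h6 : 0 ≤ (𝔓.ty m s.ctr s.typ).rO 𝔓.mod.N := by linarith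
    nlinarith
  have h2 := hp h1
  rw [mem_closedBall_iff_norm] at h2
  linarith

/-- **PREP ⟹ RIM**: a doubly prepared configuration of a fitting arc carries the SAME encoded rim, has the same sites, and the same colours off the two strips -/
theorem pvnj_prep (hW : 𝔓.Wf) (hV : 𝔓.WfV) (hR : 0 < R) {𝔇 : PvrxPat 𝔓 x R} {m : ℕ} {π : 𝔇.Pat m} {ε : ℝ} {ω : PVSample} {P : PvbRim} {s t : PvbPin τ} {ζ : Conf PvPt}
    (h : PvraPrep 𝔇 m π ε ω P s t ζ) (hF : PvrvFit 𝔓 x R m P s t) :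
    P ∈ pvdaAll x R ζ ∧ cfSites ζ = cfSites (pvConf ω) ∧ ζ = cfOf (cfSites ζ) (cfCol ζ) ∧
      ∀ p, p ∉ pvspJ (𝔓.ty m s.ctr s.typ) → p ∉ pvspJ (𝔓.ty m t.ctr t.typ) → cfCol ζ p = cfCol (pvConf ω) p := by
  obtain ⟨ξ, ⟨B, hB, hw, rfl⟩, ⟨B', hB', hw', rfl⟩⟩ := h.mv
  have hP : P ∈ pvdaAll x R (pvConf ω) := h.rim.1
  have hoffs : ∀ j, P.v j ∉ pvspJ (𝔓.ty m s.ctr s.typ) := pvkv_off hP (hV.miss m _ _ P s.idx h.hs.2.2.2.fit)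
  have hofft : ∀ j, P.v j ∉ pvspJ (𝔓.ty m t.ctr t.typ) := pvkv_off hP (hV.miss m _ _ P t.idx h.ht.2.2.2.fit)
  have hNs : CfNice (pvspJ (𝔓.ty m s.ctr s.typ)) (pvConf ω) :=
    pvp_nice (pvqu_ok_of (g := pvGeoOf ω) (c := pvColOf ω) h.ok) (pvsp_J_bdd (hW.ty_wf m _ _)) (pvColOf ω)
  have hNt : CfNice (pvspJ (𝔓.ty m t.ctr t.typ)) (pvConf ω) :=
    pvp_nice (pvqu_ok_of (g := pvGeoOf ω) (c := pvColOf ω) h.ok) (pvsp_J_bdd (hW.ty_wf m _ _)) (pvColOf ω)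
  have h1 : P ∈ pvdaAll x R (cfPaint (pvspJ (𝔓.ty m s.ctr s.typ)) (!(𝔓.ty m s.ctr s.typ).col) B (pvConf ω)) :=
    pvsb_paint hR hNs (pvnj_supp hw) hP (pvnj_pin_near hW h.hs hF.patch_s hR) (by rw [Bool.not_not]; exact h.hs.2.2.2.col) hoffs
  have h2 : P ∈ pvdaAll x R (cfPaint (pvspJ (𝔓.ty m t.ctr t.typ)) (!(𝔓.ty m t.ctr t.typ).col) B' (cfPaint (pvspJ (𝔓.ty m s.ctr s.typ)) (!(𝔓.ty m s.ctr s.typ).col) B (pvConf ω))) :=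
    pvsb_paint hR (pvsb_nice hNs hNt) (pvnj_supp hw') h1 (pvnj_pin_near hW h.ht hF.patch_t hR)
      (by rw [Bool.not_not, pvsb_col_off (hoffs t.idx)]; exact h.ht.2.2.2.col) hofft
  refine ⟨h2, ?_, ?_, fun p hs ht => ?_⟩
  · exact (cfPaint_sites _ _ _ _).trans (cfPaint_sites _ _ _ _)
  · refine pvnj_conf_of fun p hp q hq e => ?_
    have hn := (cfPaint_nice (pvsb_nice hNs hNt (b := !(𝔓.ty m s.ctr s.typ).col) (B := B)) (!(𝔓.ty m t.ctr t.typ).col) B').col p.1 p.2 q.2 hp (by rw [e]; exact hq)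
    exact Prod.ext e hn
  · exact (pvsb_col_off ht).trans (pvsb_col_off hs)

end prep

/-! ## 5. the parameters of record, the arcs of 212, ACT at the term -/

/-- the arcs of 212 as a record of arcs -/
noncomputable def PvzzPar.toArc (𝔞 : PvzzPar) : PvnjArc where
  E := 𝔞.E
  X := 𝔞.X
  Run := fun _ _ _ _ => True

section rec

variable {τ : Type} {c : ℝ} (𝔓 : PvrxPar τ c)

/-- **the parameters of the arcs of 212 at the model**: `Lam` = boundary layer of the tube, `Kr` = reading zone -/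
noncomputable def pvnjAz (m : ℕ) (π : PvtsPat τ) (𝔯 : PvnjReg) (Lam Kr : Set ℂ) : PvzzPar where
  N := 𝔓.mod.N
  s := 𝔓.ty m π.zs π.ts
  t := 𝔓.ty m π.zt π.tt
  zs := π.zs
  zt := π.zt
  h := pvlmH m
  mcs := 𝔓.𝔐.mc π.ts
  mct := 𝔓.𝔐.mc π.tt
  Ug := 𝔯.U
  U := 𝔯.UN
  Lam := Lam
  Kr := Kr
  Ew := 𝔯.Ew
  rho := 𝔯.rho

/-- **THE PARAMETERS OF RECORD** of the pattern `π` at the level `m` and the mesh `ε` -/
noncomputable def pvnjAt (D : PvypDat τ) (W : PvtW) (q : ℕ → ℝ≥0∞) (m : ℕ) (ε : ℝ) (π : PvtsPat τ) (𝔯 : PvnjReg) (Lam Kr : Set ℂ) : PvnjPar τ where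
  D := D
  Γ := 𝔓.Γ
  W := W
  m := m
  ε := ε
  π := π
  q := q
  N := 𝔓.mod.N
  s := 𝔓.ty m π.zs π.ts
  t := 𝔓.ty m π.zt π.tt
  h := pvlmH m
  𝔯 := 𝔯
  𝔞 := (pvnjAz 𝔓 m π 𝔯 Lam Kr).toArc

/-- **what the fit of a pattern owes to the `Q`-half**: `PvrvFit` of 79 + the run of the rim between the two pins lies in the tube, off its boundary layer      [138 236 225: FIT-time clause] -/
structure PvnjFit (x : ℂ) (R : ℝ) (m : ℕ) (𝔯 : PvnjReg) (Lam : Set ℂ) (P : PvbRim) (s t : PvbPin τ) : Prop extends PvrvFit 𝔓 x R m P s t where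
  run : ∀ k, s.idx ≤ k → k ≤ t.idx → P.v k ∈ 𝔯.U ∧ P.v k ∉ Lam

end rec

/-- **the exceptional samples of a pattern** (they go into `𝔇.cut Exc` of 286): bad geometry, no mesh in the window, bad ring lane -/
def PvnjPar.Exc {τ : Type} (𝔭 : PvnjPar τ) : Set PVSample :=
  {ω | ¬ (pvnjOk (cfSites (pvConf ω)) ∧ PvtrMesh 𝔭.𝔯.rho 𝔭.𝔯.Ew (cfSites (pvConf ω)) ∧ pvConf ω ∈ 𝔭.L3)}

theorem pvnj_eqns_cite5 : True := by
  have := @PvzzPar.toArc.eq_1; have := @pvnjAz.eq_1; have := @pvnjAt.eq_1; have := @PvnjPar.Exc.eq_1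
  trivial

section act

variable {τ : Type} {c : ℝ} {𝔓 : PvrxPar τ c} {x : ℂ} {R : ℝ}

/-- **THE CONTRACT `Ar` IS PRODUCED** by the arcs of 212 -/
theorem pvnj_Ar {D : PvypDat τ} {W : PvtW} {q : ℕ → ℝ≥0∞} {m : ℕ} {ε : ℝ} {π : PvtsPat τ} {𝔯 : PvnjReg} {Lam Kr : Set ℂ} (h : (pvnjAz 𝔓 m π 𝔯 Lam Kr).Wf)
    (hU : 𝔯.U ⊆ 𝔯.UN) : (pvnjAt 𝔓 D W q m ε π 𝔯 Lam Kr).Ar where
  sites := fun g ζ hζ => pvzz_mem h hζ
  readsE := fun g => by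
    have := pvzz_E_reads (pvnjAz 𝔓 m π 𝔯 Lam Kr) g
    rw [prod_univ] at this
    exact this
  readsX := fun g => by
    have := pvzz_X_reads (pvnjAz 𝔓 m π 𝔯 Lam Kr) g
    rw [prod_univ] at this
    exact this
  stab := fun Y _ g σ σ' hg h1 h2 => pvzz_stab h hg (fun z hz hm => h1 z hz (by rcases hm with (hm | hm) | hm; exacts [Or.inl hm, Or.inr (Or.inl hm), Or.inr (Or.inr hm)])) fun z hz hz' => h2 z hz hz'

/-- the ring lane is good: a colour blind event -/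
theorem pvnj_L3_blind {𝔭 : PvnjPar τ} (h : 𝔭.Rg) (hl : 𝔭.Ln) {Y : Set ℂ} (hY : pvnjOk Y) (σ σ' : ℂ → Bool) (hσ : cfOf Y σ ∈ 𝔭.L3) : cfOf Y σ' ∈ 𝔭.L3 := by
  show 𝔭.𝔯.q3 ≤ pvpQ 𝔭.𝔯.S3 (!𝔭.s.col) 𝔭.𝔯.K3 (cfOf Y σ')
  rw [pvnj_Q_congr (O := ∅) ((pvnj_finT h Y hY).subset (Set.inter_subset_inter_right _ h.S3_T)) (!𝔭.s.col) (by rw [Set.empty_union]; exact hl.rd3 Y hY)
    (fun z _ hO => absurd hO (Set.notMem_empty z))]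
  exact hσ

/-- **ACT AT THE TERM**: the actual arc of a doubly prepared, doubly usable configuration of a fitting arc is a present datum, with the same `Q`-mass -/
theorem pvnj_act (hW : 𝔓.Wf) (hV : 𝔓.WfV) {𝔇 : PvrxPat 𝔓 x R} {m : ℕ} {π : 𝔇.Pat m} {ε : ℝ} {D : PvypDat τ} {W : PvtW} {q : ℕ → ℝ≥0∞} {𝔯 : PvnjReg} {Lam Kr : Set ℂ}
    (hA : (pvnjAz 𝔓 m (𝔇.pat m π) 𝔯 Lam Kr).WfA x R) (hRg : (pvnjAt 𝔓 D W q m ε (𝔇.pat m π) 𝔯 Lam Kr).Rg) (hLn : (pvnjAt 𝔓 D W q m ε (𝔇.pat m π) 𝔯 Lam Kr).Ln)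
    {ω : PVSample} {P : PvbRim} {s t : PvbPin τ} {ζ : Conf PvPt} (hp : PvraPrep 𝔇 m π ε ω P s t ζ) (hF : PvnjFit 𝔓 x R m 𝔯 Lam P s t)
    (hE : ω ∉ (pvnjAt 𝔓 D W q m ε (𝔇.pat m π) 𝔯 Lam Kr).Exc) :
    ∃ g, ζ ∈ (pvnjAt 𝔓 D W q m ε (𝔇.pat m π) 𝔯 Lam Kr).geo.E g ∧ (pvnjAt 𝔓 D W q m ε (𝔇.pat m π) 𝔯 Lam Kr).geo.Xg g ζ = pvbArcI 𝔓.𝔐 (pvlmH m) P P.xQ s t := by
  obtain ⟨hs1, hs2⟩ := 𝔇.fit_s m ε ω P s t π hp.fit
  obtain ⟨ht1, ht2⟩ := 𝔇.fit_t m ε ω P s t π hp.fit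
  obtain ⟨hP, hY, hζ, hcol⟩ := pvnj_prep hW hV hA.R0 hp hF.toPvrvFit
  have hE' : pvnjOk (cfSites (pvConf ω)) ∧ PvtrMesh 𝔯.rho 𝔯.Ew (cfSites (pvConf ω)) ∧ pvConf ω ∈ (pvnjAt 𝔓 D W q m ε (𝔇.pat m π) 𝔯 Lam Kr).L3 := not_not.1 hE
  obtain ⟨e1, e2, e3⟩ := hE'
  have hPω : P ∈ pvdaAll x R (pvConf ω) := hp.rim.1
  have hoffs : ∀ j, P.v j ∉ pvspJ (𝔓.ty m s.ctr s.typ) := pvkv_off hPω (hV.miss m _ _ P s.idx hp.hs.2.2.2.fit)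
  have hofft : ∀ j, P.v j ∉ pvspJ (𝔓.ty m t.ctr t.typ) := pvkv_off hPω (hV.miss m _ _ P t.idx hp.ht.2.2.2.fit)
  have gs := hp.gs.2
  have gt := hp.gt.2
  rw [hs1, hs2] at gs
  rw [ht1, ht2] at gt
  have hfin : PvtnFin 𝔯.Ew ζ := by
    rw [hζ, pvqw_fin_cfOf, hY]
    exact pvqw_finite e1.1.lf (Metric.isBounded_closedBall.subset hA.win)
  have su := hV.sense m _ _ P s.idx hp.hs.2.2.2.fit
  have sv := hV.sense m _ _ P t.idx hp.ht.2.2.2.fit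
  rw [hs1, hs2] at su
  rw [ht1, ht2] at sv
  obtain ⟨g, hg, hX⟩ := pvzz_act hA (ζ := ζ) gs.1.1 gt.1.1 hfin (by rw [hY]; exact e2) hP 𝔓.𝔐 (u := s) (v := t) hs1 ht1 (by rw [hs2]; rfl) (by rw [ht2]; rfl) hF.lt hp.ht.2.2.2.idx_lt
    (by show ‖P.v s.idx - (𝔇.pat m π).zs‖ ≤ pvlmH m; rw [← hs1]; exact hp.hs.2.2.2.near) (by show ‖P.v t.idx - (𝔇.pat m π).zt‖ ≤ pvlmH m; rw [← ht1]; exact hp.ht.2.2.2.near)
    (by rw [hcol _ (hoffs _) (hofft _), hp.hs.2.2.2.col, hs1, hs2]; rfl) su sv (fun k k1 k2 => (hF.run k k1 k2).1)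
  refine ⟨g, ⟨⟨⟨hg, (pvnj_Hq_sub _ _ _ _ _ gs.2).1⟩, (pvnj_Hq_sub _ _ _ _ _ gt.2).2⟩, ?_⟩, hX⟩
  rw [hζ, hY]
  have e4 : pvConf ω = cfOf (cfSites (pvConf ω)) (cfCol (pvConf ω)) := by
    refine pvnj_conf_of fun p hp' q hq e => ?_
    have hN : CfNice (pvspJ (𝔓.ty m s.ctr s.typ)) (pvConf ω) :=
      pvp_nice (pvqu_ok_of (g := pvGeoOf ω) (c := pvColOf ω) hp.ok) (pvsp_J_bdd (hW.ty_wf m _ _)) (pvColOf ω)
    exact Prod.ext e (hN.col p.1 p.2 q.2 hp' (by rw [e]; exact hq))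
  rw [e4] at e3
  exact pvnj_L3_blind hRg hLn e1 _ _ e3

end act

/-! ## 6. the exceptional samples are rare -/

section exc

variable {τ : Type}

/-- **THE EXCEPTIONAL SAMPLES OF A PATTERN ARE RARE** (hypothesis `hE` of `pvra_cover_cut` of 286): general position a.s., mesh of a bounded window (`pvds_mesh_lim`), good ring lane (`pvmw_good_prob` of 277 + `pvqw_Hl_of_good` of 147;
`q` = the constant of QBX, `exit_pvlq_q`).      The regions, the walk `L` and its mesh `δ` do not depend on `ε`. -/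
theorem pvnj_exc_lim (𝔭 : ℝ → PvnjPar τ) {ρ δ q : ℝ} {Ew : Set ℂ} {b : Bool} {L : List (ℤ × ℤ)} {n : ℕ} (hρ : 0 < ρ) (hEw : Bornology.IsBounded Ew) (hδ : 0 < δ)
    (hq0 : 0 < q) (hq1 : q ≤ 1) (hQ : PvlqQbx q) (hne : L ≠ []) (hch : L.IsChain PvlnAdj) (hn : L.length ≤ n)
    (h1 : ∀ ε, (𝔭 ε).𝔯.rho = ρ) (h2 : ∀ ε, (𝔭 ε).𝔯.Ew = Ew) (h3 : ∀ ε, (𝔭 ε).L3 = pvqwHl (q ^ (15 * n) / 2) δ b L) :
    Tendsto (fun ε => (pvhbUp ε).P {o | pvMerge o ∈ (𝔭 ε).Exc}) (𝓝[>] (0 : ℝ)) (𝓝 0) := by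
  have hsub : ∀ ε, {o : PvGeoT × PvColT | pvMerge o ∈ (𝔭 ε).Exc} ⊆
      ({o | pvMerge o ∈ {ω : PVSample | ¬ PvatNice (cfSites (pvConf ω))}} ∪ {o | pvMerge o ∈ {ω : PVSample | ¬ PvtrMesh ρ Ew (cfSites (pvConf ω))}}) ∪
        {o | pvConf (pvMerge o) ∉ pvqwHl (q ^ (15 * n) / 2) δ b L} := by
    intro ε o ho
    by_contra hc
    simp only [mem_union, mem_setOf_eq, not_or, not_not] at hc
    obtain ⟨⟨c1, c2⟩, c3⟩ := hc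
    refine ho ⟨⟨c1.good, ?_, fun r => c1.finite Metric.isBounded_closedBall⟩, ?_, ?_⟩
    · have e : cfSites (pvConf (pvMerge o)) = ⋃ k : ℕ, cfSites (pvConf (pvMerge o)) ∩ Metric.closedBall 0 k := by
        ext z
        simp only [mem_iUnion, mem_inter_iff, Metric.mem_closedBall, dist_zero_right]
        constructor
        · intro hz
          obtain ⟨k, hk⟩ := exists_nat_ge ‖z‖
          exact ⟨k, hz, hk⟩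
        · rintro ⟨k, hz, -⟩
          exact hz
      rw [e]
      exact countable_iUnion fun k => (c1.finite Metric.isBounded_closedBall).countable
    · rw [h1, h2]; exact c2
    · rw [h3]; exact c3
  have l1 : ∀ᶠ ε in 𝓝[>] (0 : ℝ), (pvhbUp ε).P {o | pvMerge o ∈ {ω : PVSample | ¬ PvatNice (cfSites (pvConf ω))}} = 0 := by
    filter_upwards [self_mem_nhdsWithin] with ε hε
    have hε' : (0 : ℝ) < ε := hε
    have h := pvat_nice_ae hε'.ne'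
    rw [pvP, ae_iff] at h
    have h' : pvLaw ε {ω : PVSample | ¬ PvatNice (cfSites (pvConf ω))} ≤ 0 :=
      (Measure.le_map_apply measurable_pvConf.aemeasurable {η : Conf PvPt | ¬ PvatNice (cfSites η)}).trans h.le
    exact le_antisymm ((pvhb_up_P_law ε {ω : PVSample | ¬ PvatNice (cfSites (pvConf ω))}).trans h') zero_le
  have l2 : Tendsto (fun ε => (pvhbUp ε).P {o | pvMerge o ∈ {ω : PVSample | ¬ PvtrMesh ρ Ew (cfSites (pvConf ω))}}) (𝓝[>] (0 : ℝ)) (𝓝 0) := by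
    refine tendsto_of_tendsto_of_tendsto_of_le_of_le tendsto_const_nhds (pvds_mesh_lim hρ hEw) (fun _ => zero_le) fun ε => ?_
    refine (pvhb_up_P_law ε {ω : PVSample | ¬ PvtrMesh ρ Ew (cfSites (pvConf ω))}).trans ?_
    rw [pvP]
    exact Measure.le_map_apply measurable_pvConf.aemeasurable {η : Conf PvPt | ¬ PvtrMesh ρ Ew (cfSites η)}
  have l3 : Tendsto (fun ε => (pvhbUp ε).P {o | pvConf (pvMerge o) ∉ pvqwHl (q ^ (15 * n) / 2) δ b L}) (𝓝[>] (0 : ℝ)) (𝓝 0) := by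
    refine ENNReal.tendsto_nhds_zero.2 fun e he => ?_
    by_cases htop : e = ⊤
    · exact Filter.Eventually.of_forall fun ε => htop ▸ le_top
    have hθ : 0 < e.toReal := ENNReal.toReal_pos he.ne' htop
    obtain ⟨U, hU, H⟩ := pvmw_good_prob hq0 hq1 hQ n hθ
    have hU0 : 0 < U := lt_of_lt_of_le one_pos hU
    filter_upwards [Ioo_mem_nhdsGT (div_pos hδ hU0)] with ε hε
    have h1' : U * ε ≤ δ := by
      have := (lt_div_iff₀ hU0).1 hε.2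
      linarith
    have h := H ε hε.1 δ h1' b L hne hch hn
    rw [ENNReal.ofReal_toReal htop] at h
    refine le_trans ((pvhbUp ε).P_mono ?_) ((pvhb_up_P_geo ε {g | ¬ PvmwGood (q ^ (15 * n) / 2) δ b L g}).trans h)
    rintro ⟨g, x⟩ hq hg
    exact hq (pvqw_Hl_of_good hg hδ hch x)
  have l1' : Tendsto (fun ε => (pvhbUp ε).P {o | pvMerge o ∈ {ω : PVSample | ¬ PvatNice (cfSites (pvConf ω))}}) (𝓝[>] (0 : ℝ)) (𝓝 0) :=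
    (tendsto_congr' l1).2 tendsto_const_nhds
  have l4 := (l1'.add l2).add l3
  simp only [add_zero] at l4
  refine tendsto_of_tendsto_of_tendsto_of_le_of_le tendsto_const_nhds l4 (fun _ => zero_le) fun ε => ?_
  exact ((pvhbUp ε).P_mono (hsub ε)).trans (((pvhbUp ε).P_union_le _ _).trans (add_le_add_left ((pvhbUp ε).P_union_le _ _) _))

end exc

/-! ## 7. THE CONTRACT OF ONE PATTERN AT THE TERM, the exit `PvraYp` of 286 (⟹ `PvraOne` ⟹ the fields `Z stab n1ν` of `PvrxArc`) -/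

section roof

variable {τ : Type} {c : ℝ} {𝔓 : PvrxPar τ c} {x : ℂ} {R : ℝ}

/-- **THE CONTRACT OF ONE PATTERN AT THE TERM**: all that P17 owes for `(m, π)`, in the words of the producers.
* `D q`          sectors and forcing constants (58 `Exit/DatP`, 183 `Tr/PatP`);   `ko ki Gs Gt` as in `PvraYp` of 286
* `𝔯 Lam Kr`     regions of the free side, boundary layer, reading zone: THEY DO NOT DEPEND ON `ε`      (225 `Tr/N1RegP`)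
* `az`           `PvzzPar.WfA` of 212      * `ch` chain (183 58)      * `rg` regions (225)      * `ln` lane (147: `pvnj_Ln`)      * `cl` CLOSE, CYC form `PvnjPar.Cl` (260 `Tr/CloseNQ` `pvcu_cl`; 147 113 95 + 59 `Tr/N1SysC`)
* `fit`          FIT-time clauses (`PvrvFit` of 79 + run in the tube: 138 236 225)      * `hD` `pvyt_Dc_le` of 183 -/
structure PvnjPat (𝔄 : PvrxAna 𝔓) (𝔇 : PvrxPat 𝔓 x R) (m : ℕ) (π : 𝔇.Pat m) where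
  D : PvypDat τ
  q : ℝ → ℕ → ℝ≥0∞
  𝔯 : PvnjReg
  Lam : Set ℂ
  Kr : Set ℂ
  ko : ∀ᶠ ε in 𝓝[>] (0 : ℝ), ∀ ζ, 𝔄.kout0 m ε (𝔇.pat m π).zt (𝔇.pat m π).tt ζ = D.kout0 𝔓.Γ m ε 0 (𝔇.pat m π).zt (𝔇.pat m π).tt ζ
  ki : ∀ᶠ ε in 𝓝[>] (0 : ℝ), ∀ ζ, 𝔄.kin0 m ε (𝔇.pat m π).zs (𝔇.pat m π).ts ζ = D.kin0 𝔓.Γ m ε 0 (𝔇.pat m π).zs (𝔇.pat m π).ts ζ
  Gs : ∀ᶠ ε in 𝓝[>] (0 : ℝ), 𝔓.G m ε (𝔇.pat m π).zs (𝔇.pat m π).ts ⊆ D.G m ε (𝔇.pat m π).zs (𝔇.pat m π).ts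
  Gt : ∀ᶠ ε in 𝓝[>] (0 : ℝ), 𝔓.G m ε (𝔇.pat m π).zt (𝔇.pat m π).tt ⊆ D.G m ε (𝔇.pat m π).zt (𝔇.pat m π).tt
  az : (pvnjAz 𝔓 m (𝔇.pat m π) 𝔯 Lam Kr).WfA x R
  UU : 𝔯.U ⊆ 𝔯.UN
  ch : ∀ᶠ ε in 𝓝[>] (0 : ℝ), (pvnjAt 𝔓 D (𝔄.W m ε) (q ε) m ε (𝔇.pat m π) 𝔯 Lam Kr).Ch
  rg : ∀ᶠ ε in 𝓝[>] (0 : ℝ), (pvnjAt 𝔓 D (𝔄.W m ε) (q ε) m ε (𝔇.pat m π) 𝔯 Lam Kr).Rg
  ln : ∀ᶠ ε in 𝓝[>] (0 : ℝ), (pvnjAt 𝔓 D (𝔄.W m ε) (q ε) m ε (𝔇.pat m π) 𝔯 Lam Kr).Ln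
  cl : ∀ᶠ ε in 𝓝[>] (0 : ℝ), ∀ᵐ η ∂pvP ε, (pvnjAt 𝔓 D (𝔄.W m ε) (q ε) m ε (𝔇.pat m π) 𝔯 Lam Kr).Cl η
  fit : ∀ ε ω P s t, 𝔇.Fit m ε ω P s t π → PvnjFit 𝔓 x R m 𝔯 Lam P s t
  q3 : 0 < 𝔯.q3
  β : 0 < 𝔓.mod.N.β
  D0 : ℝ
  hD : ∀ᶠ ε in 𝓝[>] (0 : ℝ), pvnyDc D 𝔓.Γ m ε (𝔇.pat m π) (q ε) ≤ ENNReal.ofReal D0

variable {𝔄 : PvrxAna 𝔓} {𝔇 : PvrxPat 𝔓 x R} {m : ℕ} {π : 𝔇.Pat m}

/-- the parameters of record of the contract -/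
noncomputable def PvnjPat.par (𝔛 : PvnjPat 𝔄 𝔇 m π) (ε : ℝ) : PvnjPar τ := pvnjAt 𝔓 𝔛.D (𝔄.W m ε) (𝔛.q ε) m ε (𝔇.pat m π) 𝔛.𝔯 𝔛.Lam 𝔛.Kr

/-- a doubly prepared configuration for the cut fit is one for the fit, off the exceptional event -/
theorem pvnj_prep_cut {Exc : ∀ m : ℕ, ℝ → 𝔇.Pat m → Set PVSample} {ε : ℝ} {ω : PVSample} {P : PvbRim} {s t : PvbPin τ} {ζ : Conf PvPt}
    (h : PvraPrep (𝔇.cut Exc) m π ε ω P s t ζ) : PvraPrep 𝔇 m π ε ω P s t ζ ∧ ω ∉ Exc m ε π :=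
  ⟨⟨h.ok, h.rim, h.hs, h.ht, h.fit.1, h.mv, h.gs, h.gt⟩, h.fit.2⟩

/-- **THE EXIT**: the contract at the term gives the contract of 286 / 279 over the fit cut by the exceptional samples -/
noncomputable def PvnjPat.yp (hW : 𝔓.Wf) (hV : 𝔓.WfV) (𝔛 : PvnjPat 𝔄 𝔇 m π) (Exc : ∀ m : ℕ, ℝ → 𝔇.Pat m → Set PVSample)
    (hExc : ∀ᶠ ε in 𝓝[>] (0 : ℝ), (𝔛.par ε).Exc ⊆ Exc m ε π) : PvraYp 𝔄 (𝔇.cut Exc) m π where
  D := 𝔛.D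
  κ := List ℂ
  𝔞 := fun ε => (𝔛.par ε).arc
  q := 𝔛.q
  ko := 𝔛.ko
  ki := 𝔛.ki
  Gs := 𝔛.Gs
  Gt := 𝔛.Gt
  pat := by
    filter_upwards [𝔛.ch, 𝔛.rg, 𝔛.ln, 𝔛.cl, self_mem_nhdsWithin] with ε h1 h2 h3 h4 h5
    have h5' : (0 : ℝ) < ε := h5
    exact pvnj_pat (𝔭 := 𝔛.par ε) h5'.ne' h1 h2 h3 (pvnj_Ar 𝔛.az.toWf 𝔛.UU) (pvnj_close (𝔭 := 𝔛.par ε) h5'.ne' h2 h4)
  Nl := fun _ => ∅
  Nl0 := Eventually.of_forall fun _ => measure_empty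
  act := by
    filter_upwards [𝔛.rg, 𝔛.ln, hExc] with ε h2 h3 h4 ω P s t ζ hp _
    obtain ⟨hp1, hp2⟩ := pvnj_prep_cut hp
    exact pvnj_act hW hV 𝔛.az h2 h3 hp1 (𝔛.fit ε ω P s t hp1.fit) fun hE => hp2 (h4 hE)
  q0 := 𝔛.𝔯.q3 * 𝔓.mod.N.β ^ 2
  q0_pos := mul_pos 𝔛.q3 (pow_pos 𝔛.β 2)
  hq := Eventually.of_forall fun _ => le_rfl
  D0 := 𝔛.D0
  hD := 𝔛.hD
  tail := by
    obtain ⟨ε, h⟩ := 𝔛.rg.exists
    exact pvnj_tail 𝔛.par h.B_bdd h.a00 (fun _ => rfl) (fun _ => rfl) (fun _ => rfl)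

theorem pvnj_eqns_cite6 : True := by
  have := @PvnjPat.par.eq_1; have := @PvnjPat.yp.eq_1
  trivial

end roof

end Claimed.Agent.R289
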