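import Claimed.Agent.R289.Tr.PinLoc

/-!
# Row 289 (S0537, Cardy for Poisson-Voronoi), THE WALL, file Tr/PinLocF : LOCALITY AND MEASURABILITY OF **FIELDS**      (owner helper107; prefix `pvzf_`, `Pvzf`, `pvzf`)

`Tr/PinLoc` (238) gives for every LOCAL PREDICATE `Φ : PvplPred κ` ONE measurable event, read from the window, which on the mesh event is `Φ` for EVERY completion (`pvpl_main`).
Here: the same for FIELDS, i.e. for sums over the darts selected by a local rule of a Borel function of the three positions of the face of the dart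
      `pvzfSum 𝔅 θ Ψ w η ξ zi  =  ∑ᶠ d, Ψ d,  w (pos (src d), pos (tgt d), pos (apex d))`.
(consumers: the fields `XQ`, `XV`, the cut point `ζ` of the cell kit `PvthKit.Fld`, `PvcnV`;   `Ψ` = "`d` is a tag of the run", `w = 1_cell (bar) * pvqq`;   `Ψ` = "`d` is THE gate dart", `w` = a position.)

* sec. 1  `PvzfPred κ` (predicates on marked coloured maps with a MARKED DART), `Ψ.Local K` (invariance under `PvplIso` + `PvplRD`), `Ψ.Supp K` (the marked dart starts at a vertex marked in `K`), Boolean calculus, atoms.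
* sec. 2  `pvzfPos`, `pvzfSum`, the selected index triples `PvzfSel`, the function of the enumeration `pvzfFn`, its measurability.
* sec. 3  `pvzf_fn_eq` : on the mesh event `pvzfFn` of ANY enumeration of the window is the field of ANY completion.
* sec. 4  **`pvzf_main`** : ONE `F : Conf PvPt → M`, `Measurable`, `Conf.Reads (E ×ˢ univ)`, `= pvzfSum` on the mesh event for EVERY completion;   record `PvzfRep`, `PvzfRep.unique`, `pvzf_sum_one` (a rule which selects ONE dart).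
-/

set_option autoImplicit false
set_option linter.unusedSectionVars false

namespace Claimed.Agent.R289

open MeasureTheory ProbabilityTheory Set Filter Topology Metric Claims.C0465
open scoped ENNReal

/-! ## 1. PREDICATES WITH A MARKED DART -/

/-- a predicate on marked coloured maps with a MARKED DART -/
def PvzfPred (κ : Type) : Type 1 := ∀ V D : Type, PvMap V D → (V → κ) → (V → Bool) → D → Prop

/-- `Ψ` is READ AT THE VERTICES WITH A MARK IN `K`: invariant under the local isomorphisms of simple maps, for corresponding darts -/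
def PvzfPred.Local {κ : Type} (Ψ : PvzfPred κ) (K : Set κ) : Prop :=
  ∀ (V D V' D' : Type) (T : PvMap V D) (mk : V → κ) (s : V → Bool) (T' : PvMap V' D') (mk' : V' → κ) (s' : V' → Bool) (R : V → V' → Prop),
    T.Simple → T'.Simple → PvplIso T mk s T' mk' s' K R → ∀ d d', PvplRD T T' R d d' → (Ψ V D T mk s d ↔ Ψ V' D' T' mk' s' d')

/-- the selected darts start at a vertex with a mark in `K` -/
def PvzfPred.Supp {κ : Type} (Ψ : PvzfPred κ) (K : Set κ) : Prop :=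
  ∀ (V D : Type) (T : PvMap V D) (mk : V → κ) (s : V → Bool) (d : D), Ψ V D T mk s d → mk (T.src d) ∈ K

theorem pvzf_eqns_cite : True := by
  have := @PvzfPred.eq_1; have := @PvzfPred.Local.eq_1; have := @PvzfPred.Supp.eq_1
  trivial

section pred

variable {κ : Type} {K : Set κ}

theorem PvzfPred.Local.mono {Ψ : PvzfPred κ} (h : Ψ.Local K) {K' : Set κ} (hK : K ⊆ K') : Ψ.Local K' :=
  fun V D V' D' T mk s T' mk' s' R hS hS' hi d d' hd => h V D V' D' T mk s T' mk' s' R hS hS' (hi.mono hK) d d' hd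

theorem PvzfPred.Local.not {Ψ : PvzfPred κ} (h : Ψ.Local K) : PvzfPred.Local (fun V D T mk s d => ¬ Ψ V D T mk s d) K :=
  fun V D V' D' T mk s T' mk' s' R hS hS' hi d d' hd => not_congr (h V D V' D' T mk s T' mk' s' R hS hS' hi d d' hd)

theorem PvzfPred.Local.and {Ψ Ψ' : PvzfPred κ} (h : Ψ.Local K) (h' : Ψ'.Local K) : PvzfPred.Local (fun V D T mk s d => Ψ V D T mk s d ∧ Ψ' V D T mk s d) K :=
  fun V D V' D' T mk s T' mk' s' R hS hS' hi d d' hd => and_congr (h V D V' D' T mk s T' mk' s' R hS hS' hi d d' hd) (h' V D V' D' T mk s T' mk' s' R hS hS' hi d d' hd)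

theorem PvzfPred.Local.or {Ψ Ψ' : PvzfPred κ} (h : Ψ.Local K) (h' : Ψ'.Local K) : PvzfPred.Local (fun V D T mk s d => Ψ V D T mk s d ∨ Ψ' V D T mk s d) K :=
  fun V D V' D' T mk s T' mk' s' R hS hS' hi d d' hd => or_congr (h V D V' D' T mk s T' mk' s' R hS hS' hi d d' hd) (h' V D V' D' T mk s T' mk' s' R hS hS' hi d d' hd)

theorem PvzfPred.Local.forall {ι : Sort*} {Ψ : ι → PvzfPred κ} (h : ∀ i, (Ψ i).Local K) : PvzfPred.Local (fun V D T mk s d => ∀ i, Ψ i V D T mk s d) K :=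
  fun V D V' D' T mk s T' mk' s' R hS hS' hi d d' hd => forall_congr' fun i => h i V D V' D' T mk s T' mk' s' R hS hS' hi d d' hd

theorem PvzfPred.Local.exists {ι : Sort*} {Ψ : ι → PvzfPred κ} (h : ∀ i, (Ψ i).Local K) : PvzfPred.Local (fun V D T mk s d => ∃ i, Ψ i V D T mk s d) K :=
  fun V D V' D' T mk s T' mk' s' R hS hS' hi d d' hd => exists_congr fun i => h i V D V' D' T mk s T' mk' s' R hS hS' hi d d' hd

/-- a local predicate of the map (no dart) -/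
theorem PvplPred.Local.toDart {Φ : PvplPred κ} (h : Φ.Local K) : PvzfPred.Local (fun V D T mk s _ => Φ V D T mk s) K :=
  fun V D V' D' T mk s T' mk' s' R hS hS' hi _ _ _ => h V D V' D' T mk s T' mk' s' R hS hS' hi

/-- ATOM: any condition on the marks and the colours of the three vertices of the face of the marked dart -/
theorem pvzf_face_local (P : κ × κ × κ → Bool × Bool × Bool → Prop) :
    PvzfPred.Local (fun _ _ T mk s d => P (mk (T.src d), mk (T.tgt d), mk (T.apex d)) (s (T.src d), s (T.tgt d), s (T.apex d))) K :=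
  fun V D V' D' T mk s T' mk' s' R _ _ hi d d' hd => by
    show P (mk (T.src d), mk (T.tgt d), mk (T.apex d)) (s (T.src d), s (T.tgt d), s (T.apex d)) ↔
      P (mk' (T'.src d'), mk' (T'.tgt d'), mk' (T'.apex d')) (s' (T'.src d'), s' (T'.tgt d'), s' (T'.apex d'))
    rw [hi.mark _ _ hd.1, hi.mark _ _ hd.2.1, hi.mark _ _ hd.2.2, hi.col _ _ hd.1, hi.col _ _ hd.2.1, hi.col _ _ hd.2.2]

/-- the restriction of a rule to the darts which start in `K` has its support in `K` -/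
theorem pvzf_supp_and (Ψ : PvzfPred κ) : PvzfPred.Supp (fun V D T mk s d => mk (T.src d) ∈ K ∧ Ψ V D T mk s d) K :=
  fun _ _ _ _ _ _ h => h.1

theorem PvzfPred.Supp.and_left {Ψ : PvzfPred κ} (h : Ψ.Supp K) (Ψ' : PvzfPred κ) : PvzfPred.Supp (fun V D T mk s d => Ψ V D T mk s d ∧ Ψ' V D T mk s d) K :=
  fun V D T mk s d H => h V D T mk s d H.1

theorem PvzfPred.Supp.mono {Ψ : PvzfPred κ} (h : Ψ.Supp K) {K' : Set κ} (hK : K ⊆ K') : Ψ.Supp K' :=
  fun V D T mk s d H => hK (h V D T mk s d H)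

/-- "some selected dart exists" is a local predicate of the map -/
theorem PvzfPred.Local.ex_dart {Ψ : PvzfPred κ} (h : Ψ.Local K) (hs : Ψ.Supp K) : PvplPred.Local (fun V D T mk s => ∃ d, Ψ V D T mk s d) K := by
  intro V D V' D' T mk s T' mk' s' R hS hS' hi
  constructor
  · rintro ⟨d, hd⟩
    obtain ⟨d', h'⟩ := hi.ex d (hs _ _ _ _ _ d hd)
    exact ⟨d', (h V D V' D' T mk s T' mk' s' R hS hS' hi d d' h').1 hd⟩
  · rintro ⟨d', hd'⟩
    obtain ⟨d, h'⟩ := hi.ex' d' (hs _ _ _ _ _ d' hd')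
    exact ⟨d, (h V D V' D' T mk s T' mk' s' R hS hS' hi d d' h').2 hd'⟩

end pred

/-! ## 2. THE FIELD;  THE FUNCTION OF THE ENUMERATION -/

/-- the three positions of the face of a dart -/
def pvzfPos {X : Type} (𝔅 : PvBulk X) (Y : Set ℂ) (zi : ℂ) (d : 𝔅.D Y) : ℂ × ℂ × ℂ :=
  (𝔅.posF Y zi ((𝔅.T Y).src d), 𝔅.posF Y zi ((𝔅.T Y).tgt d), 𝔅.posF Y zi ((𝔅.T Y).apex d))

/-- the darts selected by the rule `Ψ` in the completion `𝔅` -/
def pvzfS {κ X : Type} (𝔅 : PvBulk X) (θ : ℂ → κ) (Ψ : PvzfPred κ) (η : Conf PvPt) (ξ : X → Bool) (zi : ℂ) : Set (𝔅.D (cfSites η)) :=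
  {d | Ψ _ _ (𝔅.T (cfSites η)) (fun v => θ (𝔅.posF _ zi v)) (𝔅.col η ξ) d}

/-- **THE FIELD**: the sum over the selected darts of `w` of the three positions -/
noncomputable def pvzfSum {κ X M : Type} [AddCommMonoid M] (𝔅 : PvBulk X) (θ : ℂ → κ) (Ψ : PvzfPred κ) (w : ℂ × ℂ × ℂ → M) (η : Conf PvPt) (ξ : X → Bool) (zi : ℂ) : M :=
  ∑ᶠ d ∈ pvzfS 𝔅 θ Ψ η ξ zi, w (pvzfPos 𝔅 (cfSites η) zi d)

/-- the space of the combinatorial types of `n` points (`pvplTy`) -/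
abbrev PvzfTy (κ : Type) (n : ℕ) : Type := (Fin n → Fin n → Fin n → Prop) × (Fin n → Prop) × (Fin n → κ) × (Fin n → Fin n → Prop)

/-- the three sites of an index triple -/
def pvzfY {n : ℕ} (y : ℕ → PvPt) (q : Fin n × Fin n × Fin n) : ℂ × ℂ × ℂ := ((y q.1).1, (y q.2.1).1, (y q.2.2).1)

/-- `i` is the first index of its site -/
def PvzfFst {κ : Type} {n : ℕ} (t : PvzfTy κ n) (i : Fin n) : Prop := ∀ j : Fin n, t.2.2.2 i j → i ≤ j

/-- the index triples selected in the type `t`: first indices, and SOME configuration of the type `t` with SOME completion has a selected dart at these indices -/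
def PvzfSel {κ : Type} (ρ : ℝ) (E : Set ℂ) (θ : ℂ → κ) (K : Set κ) (Ψ : PvzfPred κ) (n : ℕ) (t : PvzfTy κ n) (q : Fin n × Fin n × Fin n) : Prop :=
  PvzfFst t q.1 ∧ PvzfFst t q.2.1 ∧ PvzfFst t q.2.2 ∧
    ∃ (X : Type) (𝔅 : PvBulk X) (η : Conf PvPt) (ξ : X → Bool) (zi : ℂ) (y : ℕ → PvPt), Conf.restr (E ×ˢ univ) η = Conf.cell (n, y) ∧ pvplTy ρ E θ n y = t ∧
      𝔅.Ok (cfSites η) (θ ⁻¹' K) ∧ PvtrMesh ρ E (cfSites η) ∧ θ zi ∉ K ∧ ∃ d ∈ pvzfS 𝔅 θ Ψ η ξ zi, pvzfPos 𝔅 (cfSites η) zi d = pvzfY y q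

open Classical in
/-- the field as a function of the enumeration of the window -/
noncomputable def pvzfFn {κ M : Type} [AddCommMonoid M] (ρ : ℝ) (E : Set ℂ) (θ : ℂ → κ) (K : Set κ) (Ψ : PvzfPred κ) (w : ℂ × ℂ × ℂ → M) (n : ℕ) (y : ℕ → PvPt) : M :=
  ∑ q : Fin n × Fin n × Fin n, if PvzfSel ρ E θ K Ψ n (pvplTy ρ E θ n y) q then w (pvzfY y q) else 0

theorem pvzf_eqns_cite2 : True := by
  have := @pvzfPos.eq_1; have := @pvzfS.eq_1; have := @pvzfSum.eq_1; have := @pvzfY.eq_1; have := @PvzfFst.eq_1; have := @PvzfSel.eq_1; have := @pvzfFn.eq_1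
  trivial

section fn

variable {κ M : Type} [AddCommMonoid M] {ρ : ℝ} {E : Set ℂ} {θ : ℂ → κ} {K : Set κ} {Ψ : PvzfPred κ} {w : ℂ × ℂ × ℂ → M}

theorem pvzf_measurable_Y {n : ℕ} (q : Fin n × Fin n × Fin n) : Measurable fun y : ℕ → PvPt => pvzfY y q :=
  (measurable_pi_apply (q.1 : ℕ)).fst.prodMk ((measurable_pi_apply (q.2.1 : ℕ)).fst.prodMk (measurable_pi_apply (q.2.2 : ℕ)).fst)

theorem pvzf_meas_sel [Countable κ] [MeasurableSpace κ] [MeasurableSingletonClass κ] (hE : PvplWin E) (hθ : Measurable θ) (n : ℕ) (q : Fin n × Fin n × Fin n) :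
    MeasurableSet {y : ℕ → PvPt | PvzfSel ρ E θ K Ψ n (pvplTy ρ E θ n y) q} := by
  have e : {y : ℕ → PvPt | PvzfSel ρ E θ K Ψ n (pvplTy ρ E θ n y) q} = ⋃ t ∈ {t : PvzfTy κ n | PvzfSel ρ E θ K Ψ n t q}, {y : ℕ → PvPt | pvplTy ρ E θ n y = t} := by
    ext y
    simp only [mem_ofPred_eq, mem_iUnion, exists_prop]
    constructor
    · intro h
      exact ⟨_, h, rfl⟩
    · rintro ⟨t, h, rfl⟩
      exact h
  rw [e]
  exact MeasurableSet.biUnion (Set.to_countable _) fun t _ => pvpl_meas_ty hE hθ n t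

theorem pvzf_measurable_fn [Countable κ] [MeasurableSpace κ] [MeasurableSingletonClass κ] [MeasurableSpace M] [MeasurableAdd₂ M] (hE : PvplWin E) (hθ : Measurable θ) (hw : Measurable w) (n : ℕ) :
    Measurable (pvzfFn ρ E θ K Ψ w n) := by
  unfold pvzfFn
  refine Finset.measurable_fun_sum _ fun q _ => ?_
  exact Measurable.ite (pvzf_meas_sel hE hθ n q) (hw.comp (pvzf_measurable_Y q)) measurable_const

end fn

/-! ## 3. THE FUNCTION OF THE ENUMERATION IS THE FIELD OF EVERY COMPLETION -/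

section spec

variable {κ : Type} {X X' : Type} {𝔅 : PvBulk X} {𝔅' : PvBulk X'} {E : Set ℂ} {ρ : ℝ} {θ : ℂ → κ} {K : Set κ} {Ψ : PvzfPred κ}

/-- the face of a dart which starts in the window: three sites, a Delaunay triangle -/
theorem pvzf_labs {Y : Set ℂ} {zi : ℂ} (hok : 𝔅.Ok Y (θ ⁻¹' K)) (hzi : θ zi ∉ K) (d : 𝔅.D Y) (hd : θ (𝔅.posF Y zi ((𝔅.T Y).src d)) ∈ K) :
    ∃ a b c : ℂ, 𝔅.lab Y ((𝔅.T Y).src d) = Sum.inl a ∧ 𝔅.lab Y ((𝔅.T Y).tgt d) = Sum.inl b ∧ 𝔅.lab Y ((𝔅.T Y).apex d) = Sum.inl c ∧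
      DelTri Y a b c ∧ a ∈ θ ⁻¹' K ∧ pvzfPos 𝔅 Y zi d = (a, b, c) := by
  rcases hl : 𝔅.lab Y ((𝔅.T Y).src d) with a | x
  · rw [l9_posF_inl 𝔅 hl] at hd
    obtain ⟨b, c, hb, hc, htri⟩ := hok.del d a hl hd
    refine ⟨a, b, c, rfl, hb, hc, htri, hd, ?_⟩
    unfold pvzfPos
    rw [l9_posF_inl 𝔅 hl, l9_posF_inl 𝔅 hb, l9_posF_inl 𝔅 hc]
  · exfalso
    apply hzi
    have : 𝔅.posF Y zi ((𝔅.T Y).src d) = zi := by unfold PvBulk.posF; rw [hl]; rfl
    rwa [this] at hd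

/-- the positions determine the selected dart -/
theorem pvzf_pos_injOn (hs : Ψ.Supp K) {η : Conf PvPt} {ξ : X → Bool} {zi : ℂ} (hok : 𝔅.Ok (cfSites η) (θ ⁻¹' K)) (hzi : θ zi ∉ K) :
    InjOn (pvzfPos 𝔅 (cfSites η) zi) (pvzfS 𝔅 θ Ψ η ξ zi) := by
  intro d hd d' hd' e
  obtain ⟨a, b, c, ha, hb, -, -, -, e1⟩ := pvzf_labs hok hzi d (hs _ _ _ _ _ d hd)
  obtain ⟨a', b', c', ha', hb', -, -, -, e2⟩ := pvzf_labs hok hzi d' (hs _ _ _ _ _ d' hd')
  rw [e1, e2] at e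
  have h1 : a = a' := congrArg (fun p : ℂ × ℂ × ℂ => p.1) e
  have h2 : b = b' := congrArg (fun p : ℂ × ℂ × ℂ => p.2.1) e
  subst h1; subst h2
  exact hok.simple d d' (hok.inj (ha.trans ha'.symm)) (hok.inj (hb.trans hb'.symm))

theorem pvzf_Y_injOn {n : ℕ} (y : ℕ → PvPt) : InjOn (pvzfY (n := n) y) {q | PvzfSel ρ E θ K Ψ n (pvplTy ρ E θ n y) q} := by
  intro q hq q' hq' e
  have h1 : (y q.1).1 = (y q'.1).1 := congrArg (fun p : ℂ × ℂ × ℂ => p.1) e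
  have h2 : (y q.2.1).1 = (y q'.2.1).1 := congrArg (fun p : ℂ × ℂ × ℂ => p.2.1) e
  have h3 : (y q.2.2).1 = (y q'.2.2).1 := congrArg (fun p : ℂ × ℂ × ℂ => p.2.2) e
  refine Prod.ext (le_antisymm (hq.1 _ h1) (hq'.1 _ h1.symm)) (Prod.ext (le_antisymm (hq.2.1 _ h2) (hq'.2.1 _ h2.symm)) (le_antisymm (hq.2.2.1 _ h3) (hq'.2.2.1 _ h3.symm)))

/-- every index has a first index with the same site -/
theorem pvzf_fst_exists {n : ℕ} (y : ℕ → PvPt) (i₀ : Fin n) : ∃ i : Fin n, (y i).1 = (y i₀).1 ∧ PvzfFst (pvplTy ρ E θ n y) i := by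
  classical
  set s : Finset (Fin n) := Finset.univ.filter fun i => (y i).1 = (y i₀).1 with hs
  have hne : s.Nonempty := ⟨i₀, by rw [hs, Finset.mem_filter]; exact ⟨Finset.mem_univ _, rfl⟩⟩
  have hm := (Finset.mem_filter.1 (Finset.min'_mem s hne))
  refine ⟨s.min' hne, hm.2, fun j hj => ?_⟩
  refine Finset.min'_le s j ?_
  rw [hs, Finset.mem_filter]
  exact ⟨Finset.mem_univ _, (show (y (s.min' hne)).1 = (y j).1 from hj).symm.trans hm.2⟩

/-- **the positions of the selected darts = the sites of the selected index triples** -/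
theorem pvzf_image_eq (hΨ : Ψ.Local K) (hs : Ψ.Supp K) (hρ : 0 < ρ) (hK : θ ⁻¹' K ⊆ pvtrCore (3 * ρ) E) {η : Conf PvPt} {ξ : X → Bool} {zi : ℂ}
    (hok : 𝔅.Ok (cfSites η) (θ ⁻¹' K)) (hm : PvtrMesh ρ E (cfSites η)) (hzi : θ zi ∉ K) {n : ℕ} {y : ℕ → PvPt} (hy : Conf.restr (E ×ˢ univ) η = Conf.cell (n, y)) :
    pvzfY y '' {q | PvzfSel ρ E θ K Ψ n (pvplTy ρ E θ n y) q} = pvzfPos 𝔅 (cfSites η) zi '' pvzfS 𝔅 θ Ψ η ξ zi := by
  ext p
  constructor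
  · rintro ⟨q, ⟨-, -, -, X', 𝔅', η', ξ', zi', y', hy', hty, hok', hm', hzi', d', hd', hpos'⟩, rfl⟩
    have hi := pvpl_iso_of_ty θ hρ hok hok' hm hm' hK hzi hzi' (ξ := ξ) (ξ' := ξ') hy hy' hty.symm
    have t4 : ∀ i j : Fin n, (y i).1 = (y j).1 ↔ (y' i).1 = (y' j).1 := fun i j => iff_of_eq (congrFun (congrFun (congrArg (fun t => t.2.2.2) hty.symm) i) j)
    obtain ⟨d, hRD⟩ := hi.ex' d' (hs _ _ _ _ _ d' hd')
    have hd : d ∈ pvzfS 𝔅 θ Ψ η ξ zi := (hΨ _ _ _ _ _ _ _ _ _ _ _ hok.simple hok'.simple hi d d' hRD).2 hd'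
    refine ⟨d, hd, ?_⟩
    have key : ∀ (u : 𝔅.V (cfSites η)) (u' : 𝔅'.V (cfSites η')) (i : Fin n),
        (∃ a a', (∃ i : Fin n, a = (y i).1 ∧ a' = (y' i).1) ∧ 𝔅.lab _ u = Sum.inl a ∧ 𝔅'.lab _ u' = Sum.inl a') → 𝔅'.posF _ zi' u' = (y' i).1 → 𝔅.posF _ zi u = (y i).1 := by
      rintro u u' i ⟨a, a', ⟨i1, rfl, rfl⟩, e, e'⟩ h
      rw [l9_posF_inl 𝔅' e'] at h
      rw [l9_posF_inl 𝔅 e]
      exact (t4 i1 i).2 h
    have p1 : 𝔅'.posF _ zi' ((𝔅'.T _).src d') = (y' q.1).1 := congrArg (fun p : ℂ × ℂ × ℂ => p.1) hpos'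
    have p2 : 𝔅'.posF _ zi' ((𝔅'.T _).tgt d') = (y' q.2.1).1 := congrArg (fun p : ℂ × ℂ × ℂ => p.2.1) hpos'
    have p3 : 𝔅'.posF _ zi' ((𝔅'.T _).apex d') = (y' q.2.2).1 := congrArg (fun p : ℂ × ℂ × ℂ => p.2.2) hpos'
    unfold pvzfPos pvzfY
    rw [key _ _ _ hRD.1 p1, key _ _ _ hRD.2.1 p2, key _ _ _ hRD.2.2 p3]
  · rintro ⟨d, hd, rfl⟩
    obtain ⟨a, b, c, -, -, -, htri, haK, e⟩ := pvzf_labs hok hzi d (hs _ _ _ _ _ d hd)
    have hret := pvtr_of_mesh_vertex hρ hm (hK haK) htri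
    have hsE : cfSites η ∩ E = cfSites (Conf.cell (n, y)) := by rw [← hy, pvtr_sites_restr]
    have hidx : ∀ a, a ∈ cfSites η ∩ E → ∃ i : Fin n, a = (y i).1 := by
      intro a ha
      rw [hsE] at ha
      obtain ⟨p, ⟨j, hj, rfl⟩, rfl⟩ := ha
      exact ⟨⟨j, hj⟩, rfl⟩
    obtain ⟨i₀, rfl⟩ := hidx a hret.mem_a
    obtain ⟨j₀, rfl⟩ := hidx b hret.mem_b
    obtain ⟨k₀, rfl⟩ := hidx c hret.mem_c
    obtain ⟨i, ei, fi⟩ := pvzf_fst_exists (ρ := ρ) (E := E) (θ := θ) y i₀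
    obtain ⟨j, ej, fj⟩ := pvzf_fst_exists (ρ := ρ) (E := E) (θ := θ) y j₀
    obtain ⟨k, ek, fk⟩ := pvzf_fst_exists (ρ := ρ) (E := E) (θ := θ) y k₀
    have e' : pvzfPos 𝔅 (cfSites η) zi d = pvzfY y (i, j, k) := by
      rw [e]; unfold pvzfY; rw [ei, ej, ek]
    exact ⟨(i, j, k), ⟨fi, fj, fk, X, 𝔅, η, ξ, zi, y, hy, rfl, hok, hm, hzi, d, hd, e'⟩, e'.symm⟩

variable {M : Type} [AddCommMonoid M] {w : ℂ × ℂ × ℂ → M}

/-- **on the mesh event the function of ANY enumeration of the window is the field of ANY completion** -/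
theorem pvzf_fn_eq (hΨ : Ψ.Local K) (hs : Ψ.Supp K) (hρ : 0 < ρ) (hK : θ ⁻¹' K ⊆ pvtrCore (3 * ρ) E) {η : Conf PvPt} {ξ : X → Bool} {zi : ℂ}
    (hok : 𝔅.Ok (cfSites η) (θ ⁻¹' K)) (hm : PvtrMesh ρ E (cfSites η)) (hzi : θ zi ∉ K) {n : ℕ} {y : ℕ → PvPt} (hy : Conf.restr (E ×ˢ univ) η = Conf.cell (n, y)) :
    pvzfFn ρ E θ K Ψ w n y = pvzfSum 𝔅 θ Ψ w η ξ zi := by
  classical
  unfold pvzfFn pvzfSum
  rw [← finsum_mem_image (f := w) (pvzf_pos_injOn hs hok hzi), ← pvzf_image_eq hΨ hs hρ hK hok hm hzi hy, finsum_mem_image (f := w) (pvzf_Y_injOn y), ← Finset.sum_filter,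
    ← finsum_mem_coe_finset]
  have e : ((Finset.univ.filter fun q : Fin n × Fin n × Fin n => PvzfSel ρ E θ K Ψ n (pvplTy ρ E θ n y) q : Finset _) : Set (Fin n × Fin n × Fin n))
      = {q | PvzfSel ρ E θ K Ψ n (pvplTy ρ E θ n y) q} := by
    ext q
    simp
  rw [e]

/-- the selected darts are finitely many -/
theorem pvzf_S_finite (hΨ : Ψ.Local K) (hs : Ψ.Supp K) (hρ : 0 < ρ) (hK : θ ⁻¹' K ⊆ pvtrCore (3 * ρ) E) {η : Conf PvPt} {ξ : X → Bool} {zi : ℂ}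
    (hok : 𝔅.Ok (cfSites η) (θ ⁻¹' K)) (hm : PvtrMesh ρ E (cfSites η)) (hzi : θ zi ∉ K) {n : ℕ} {y : ℕ → PvPt} (hy : Conf.restr (E ×ˢ univ) η = Conf.cell (n, y)) :
    (pvzfS 𝔅 θ Ψ η ξ zi).Finite := by
  refine Set.Finite.of_finite_image ?_ (pvzf_pos_injOn hs hok hzi)
  rw [← pvzf_image_eq hΨ hs hρ hK hok hm hzi hy]
  exact (Set.toFinite _).image _

end spec

/-! ## 4. THE MAIN THEOREM -/

section main

variable {κ M : Type} [AddCommMonoid M] {E : Set ℂ} {ρ : ℝ}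

/-- `F` REPRESENTS the field: measurable, read from `E ×ˢ univ`, and on the mesh event equal to the field of EVERY completion -/
def PvzfRep [MeasurableSpace M] (θ : ℂ → κ) (Ψ : PvzfPred κ) (K : Set κ) (E : Set ℂ) (ρ : ℝ) (w : ℂ × ℂ × ℂ → M) (F : Conf PvPt → M) : Prop :=
  Measurable F ∧ Conf.Reads (E ×ˢ univ) F ∧
    ∀ (X : Type) (𝔅 : PvBulk X) (η : Conf PvPt) (ξ : X → Bool) (zi : ℂ), (η.pts ∩ E ×ˢ univ).Finite → 𝔅.Ok (cfSites η) (θ ⁻¹' K) → PvtrMesh ρ E (cfSites η) → θ zi ∉ K →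
      F η = pvzfSum 𝔅 θ Ψ w η ξ zi

theorem pvzf_eqns_cite3 : True := by
  have := @PvzfRep.eq_1
  trivial

/-- **MAIN THEOREM FOR FIELDS (locality + measurability + independence of the completion)** -/
theorem pvzf_main [Countable κ] [MeasurableSpace κ] [MeasurableSingletonClass κ] [MeasurableSpace M] [MeasurableAdd₂ M] {θ : ℂ → κ} (hθ : Measurable θ) {Ψ : PvzfPred κ} {K : Set κ}
    (hΨ : Ψ.Local K) (hs : Ψ.Supp K) (hE : PvplWin E) (hρ : 0 < ρ) (hK : θ ⁻¹' K ⊆ pvtrCore (3 * ρ) E) {w : ℂ × ℂ × ℂ → M} (hw : Measurable w) :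
    ∃ F : Conf PvPt → M, PvzfRep θ Ψ K E ρ w F := by
  classical
  have hO : MeasurableSet (E ×ˢ (univ : Set Bool)) := hE.1.prod MeasurableSet.univ
  obtain ⟨Y, hY, hYe⟩ := pvcn_enum hO
  have hpts : ∀ η : Conf PvPt, (Conf.restr (E ×ˢ univ) η).pts ∩ E ×ˢ univ = η.pts ∩ E ×ˢ univ := by
    intro η
    show (η.pts ∩ E ×ˢ univ) ∩ E ×ˢ univ = _
    rw [inter_assoc, inter_self]
  have hcell : ∀ η : Conf PvPt, (η.pts ∩ E ×ˢ univ).Finite →
      Conf.restr (E ×ˢ univ) η = Conf.cell ((η.pts ∩ E ×ˢ univ).ncard, Y (Conf.restr (E ×ˢ univ) η)) := by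
    intro η hfin
    have := hYe (Conf.restr (E ×ˢ univ) η) (by rw [hpts]; exact hfin)
    rwa [pvi_restr_idem, hpts] at this
  refine ⟨fun η => if (η.pts ∩ E ×ˢ univ).Finite then pvzfFn ρ E θ K Ψ w (η.pts ∩ E ×ˢ univ).ncard (Y (Conf.restr (E ×ˢ univ) η)) else 0, ?_, ?_, ?_⟩
  · refine Measurable.ite (pvcn_fin hO) ?_ measurable_const
    have h1 : Measurable fun p : ℕ × (ℕ → PvPt) => pvzfFn ρ E θ K Ψ w p.1 p.2 := measurable_from_prod_countable_right fun n => pvzf_measurable_fn hE hθ hw n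
    exact h1.comp ((pvcn_ncard hO).prodMk (hY.comp (Conf.measurable_restr hO)))
  · intro η
    simp only [hpts, pvi_restr_idem]
  · intro X 𝔅 η ξ zi hfin hok hm hzi
    simp only [if_pos hfin]
    exact pvzf_fn_eq hΨ hs hρ hK hok hm hzi (hcell η hfin)

/-- two representatives agree wherever SOME completion exists -/
theorem PvzfRep.unique [MeasurableSpace M] {θ : ℂ → κ} {Ψ : PvzfPred κ} {K : Set κ} {w : ℂ × ℂ × ℂ → M} {F F' : Conf PvPt → M} (hF : PvzfRep θ Ψ K E ρ w F) (hF' : PvzfRep θ Ψ K E ρ w F')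
    {X : Type} {𝔅 : PvBulk X} {η : Conf PvPt} (ξ : X → Bool) {zi : ℂ} (hfin : (η.pts ∩ E ×ˢ univ).Finite) (hok : 𝔅.Ok (cfSites η) (θ ⁻¹' K)) (hm : PvtrMesh ρ E (cfSites η)) (hzi : θ zi ∉ K) :
    F η = F' η := by
  rw [hF.2.2 X 𝔅 η ξ zi hfin hok hm hzi, hF'.2.2 X 𝔅 η ξ zi hfin hok hm hzi]

/-- a rule which selects exactly ONE dart -/
theorem pvzf_sum_one {X : Type} {𝔅 : PvBulk X} {θ : ℂ → κ} {Ψ : PvzfPred κ} {w : ℂ × ℂ × ℂ → M} {η : Conf PvPt} {ξ : X → Bool} {zi : ℂ} {d : 𝔅.D (cfSites η)}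
    (hd : d ∈ pvzfS 𝔅 θ Ψ η ξ zi) (hu : ∀ d' ∈ pvzfS 𝔅 θ Ψ η ξ zi, d' = d) : pvzfSum 𝔅 θ Ψ w η ξ zi = w (pvzfPos 𝔅 (cfSites η) zi d) := by
  have e : pvzfS 𝔅 θ Ψ η ξ zi = {d} := by
    ext d'
    exact ⟨fun h => hu d' h, fun h => by rw [mem_singleton_iff.1 h]; exact hd⟩
  unfold pvzfSum
  rw [e, finsum_mem_singleton]

/-- a rule which selects no dart -/
theorem pvzf_sum_none {X : Type} {𝔅 : PvBulk X} {θ : ℂ → κ} {Ψ : PvzfPred κ} {w : ℂ × ℂ × ℂ → M} {η : Conf PvPt} {ξ : X → Bool} {zi : ℂ}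
    (hu : ∀ d, d ∉ pvzfS 𝔅 θ Ψ η ξ zi) : pvzfSum 𝔅 θ Ψ w η ξ zi = 0 := by
  have e : pvzfS 𝔅 θ Ψ η ξ zi = ∅ := eq_empty_of_forall_notMem hu
  unfold pvzfSum
  rw [e, finsum_mem_empty]

end main

end Claimed.Agent.R289
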