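-- KEEP
import Claimed.Agent.R289.Tr.StateP
import Claimed.Agent.R289.Tr.PinLocF
import Claimed.Agent.R289.Tr.LaneDet
import Claimed.Agent.R289.Tr.GateN
import Claimed.Agent.R289.Tr.LocalF

/-!
# Row 289 (S0537, Cardy for Poisson-Voronoi), THE WALL, ROAD P, file Tr/ConnP : CONNECTORS `A_e`, FIELDS `X_e`, MASKS, **CLOSE-P**      (pen helper113; post of 273, table P3; prefix `pvkp_`, `pvkp`, `Pvkp`)

Blueprint: `origin/helper273:notes/R289/ROADP_273.md` P16 (connector `e : u → u'`), master chain 4 and 9 (masks `U_e`), TR13 / TR14, E0.2 of `TRE_125` (spatial masks).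
ON: region states `PvspSt`, `PvspSt.At` (185, `Tr/StateP`), runs `PvldRun` (70, `Tr/LaneDet`), the PvMap core of CLOSE-P `PvgzRing`, `pvgz_ring`, `pvgz_ring_cyc`, `pvgz_ring_sum` (260, `Tr/GateN` sec. 9),
local predicates `PvplPred.Local`, `pvspEv` (238, 185), local FIELDS `PvzfPred`, `pvzf_main` (107, `Tr/PinLocF`).

* sec. 1  LEVEL A (marked coloured maps, marks `mk : V → κ`):   `PvkpRun` = THE LINK of two states `𝔖 → 𝔖'` : the strand from `aOut (S₂(u))` reaches `aIn (S₂(u'))` for the first time, all the faces it crosses have their vertices marked in the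
          corridor `Kc`; `y` = loop erasure of its black bank, inner vertices off the closed insides of the two gates.      `PvkpAt` = stars + two states + link.      `PvkpPred 𝔯 𝔯' Kc c : PvplPred κ` (= `A_e`),  tag rules `PvkpTagC` (tags of the whole inner arc of `u`),
          `PvkpTagF` (tags of the forward arc `p(u) → p(u')`) `: PvzfPred κ`;   zone `pvkpZ = S₂(u) ∪ S₂(u') ∪ Kc`.
* sec. 2  LOCALITY: `pvkp_tr_at` (transfer along a `PvplIso`), **`pvkp_pred_local`**, **`pvkp_tagC_local`**, **`pvkp_tagF_local`**, supports.      UNIQUENESS: `pvkp_at_unique`.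
* sec. 3  THE RING at one map: `PvkpGeo n 𝔯 Kc` (what the regions owe, in marks), `PvkpRing` (n states, n links), `pvkp_glue` (n predicates ⟹ a ring), **`pvkp_ring`** `: PvgzRing ..`,
          the field in index form `pvkpF` (WHOLE mass of the inner arc of `u` in the cut-off of `u` + forward arc off both cut-offs = `pvbArcI` of record), **`pvkp_ring_sum`** (`x_P'(1) = ∑_e X_e`), **`pvkp_ring_cyc`**, **`pvkp_ring_mask`** (`X_e = x_P'(1_{U_e})`).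
* sec. 4  LEVEL B (`Conf PvPt`): placed connector `PvkpCn`, `PvkpCn.Wf`, **`pvkpA C`**, **`pvkpX C a`**;   `pvkp_A_meas _reads _dict _plane`, `pvkp_X_meas _reads _dict`.
* sec. 5  **CLOSE-P on `Conf PvPt`** : `pvkp_close` (producer of `PvcpClose` of 95, `Tr/CycP`).
* sec. 6  PRODUCER FOR THE FORCING (272): two lanes + mesh ⟹ `A_e`.
-/

set_option autoImplicit false
set_option linter.unusedSectionVars false
set_option linter.unusedVariables false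

namespace Claimed.Agent.R289

open MeasureTheory Set Filter Topology Metric Claims.C0465
open scoped ENNReal

/-! ## 1. LEVEL A: the link of two states, the predicate, the tag rules -/

section levelA

variable {V D κ : Type}

/-- **THE LINK `𝔖 → 𝔖'`** : the strand which leaves the gate `S₂(u)` at `aOut` reaches the entrance `aIn` of `S₂(u')`, first visit; all the faces it crosses have their three vertices marked in the corridor `Kc`;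
`y` = the loop erasure of its black bank (`v₂⁺(u) → v₂⁻(u')`);   the inner vertices of `y` lie off the closed insides of the two gates -/
structure PvkpRun (T : PvMap V D) (s : V → Bool) (mk : V → κ) (Kc : Set κ) (𝔖 𝔖' : PvspSt T s) (y : T.Pth) : Prop where
  run : PvldRun T s {v | mk v ∈ Kc} 𝔖.g2.aOut 𝔖'.g2.aIn
  arc : PvwLE T (fun i => T.src (pvasIt T s 𝔖.g2.aOut i)) (pvasHit T s 𝔖.g2.aOut {𝔖'.g2.aIn}) y
  off : ∀ k, 0 < k → k < y.n → y.v k ∉ T.VOf 𝔖.g2.c.Left ∧ y.v k ∉ T.VOf 𝔖'.g2.c.Left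

/-- **a connector at a marked coloured map**: mesh at the two gates, the two states, the link -/
structure PvkpAt (T : PvMap V D) (s : V → Bool) (mk : V → κ) (𝔯 𝔯' : PvspReg κ) (Kc : Set κ) (𝔖 𝔖' : PvspSt T s) (y : T.Pth) : Prop where
  st : PvplStar T mk (fun x => x ∈ 𝔯 .O2) (𝔯 .S2)
  st' : PvplStar T mk (fun x => x ∈ 𝔯' .O2) (𝔯' .S2)
  au : 𝔖.At mk 𝔯
  au' : 𝔖'.At mk 𝔯'
  lk : PvkpRun T s mk Kc 𝔖 𝔖' y

/-- **`A_e`** as a predicate on marked coloured maps (`c` = the colour of the rim) -/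
def PvkpPred (𝔯 𝔯' : PvspReg κ) (Kc : Set κ) (c : Bool) : PvplPred κ := fun _ _ T mk s =>
  ∃ (𝔖 𝔖' : PvspSt T (pvspS c s)) (y : T.Pth), PvkpAt T (pvspS c s) mk 𝔯 𝔯' Kc 𝔖 𝔖' y

/-- the tags (right triangles) of the WHOLE inner arc of the source plug -/
def PvkpTagC (𝔯 𝔯' : PvspReg κ) (Kc : Set κ) (c : Bool) : PvzfPred κ := fun _ _ T mk s d =>
  ∃ (𝔖 𝔖' : PvspSt T (pvspS c s)) (y : T.Pth), PvkpAt T (pvspS c s) mk 𝔯 𝔯' Kc 𝔖 𝔖' y ∧ ∃ i, i < 𝔖.inn.n ∧ d = T.opp (𝔖.inn.e i)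

/-- the tags of the FORWARD ARC `p(u) → v₂⁺(u) → v₂⁻(u') → p(u')` -/
def PvkpTagF (𝔯 𝔯' : PvspReg κ) (Kc : Set κ) (c : Bool) : PvzfPred κ := fun _ _ T mk s d =>
  ∃ (𝔖 𝔖' : PvspSt T (pvspS c s)) (y : T.Pth), PvkpAt T (pvspS c s) mk 𝔯 𝔯' Kc 𝔖 𝔖' y ∧
    ((∃ i, 𝔖.ip ≤ i ∧ i < 𝔖.inn.n ∧ d = T.opp (𝔖.inn.e i)) ∨ (∃ i, i < y.n ∧ d = T.opp (y.e i)) ∨ ∃ i, i < 𝔖'.ip ∧ d = T.opp (𝔖'.inn.e i))

/-- the marks at which a connector is read -/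
def pvkpZ (𝔯 𝔯' : PvspReg κ) (Kc : Set κ) : Set κ := 𝔯 .S2 ∪ 𝔯' .S2 ∪ Kc

/-- **the field of a connector, INDEX FORM** (= `pvbArcI` of record, `PvwDat.X` of road E): the WHOLE mass of the inner arc of `u` in the cut-off `Dc` of `u`, plus the forward arc `p(u) → p(u')` off both cut-offs -/
noncomputable def pvkpF (T : PvMap V D) {s : V → Bool} (pos : V → ℂ) (w : D → ℂ) (Dc Dc' : Set ℂ) (𝔖 𝔖' : PvspSt T s) (y : T.Pth) : ℂ :=
  pvwMass T pos w Dc 𝔖.inn 0 𝔖.inn.n + pvwMass T pos w (Dc ∪ Dc')ᶜ 𝔖.inn 𝔖.ip 𝔖.inn.n + pvwMass T pos w (Dc ∪ Dc')ᶜ y 0 y.n + pvwMass T pos w (Dc ∪ Dc')ᶜ 𝔖'.inn 0 𝔖'.ip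

end levelA

theorem pvkp_eqns_cite : True := by
  have := @PvkpPred.eq_1; have := @PvkpTagC.eq_1; have := @PvkpTagF.eq_1; have := @pvkpZ.eq_1; have := @pvkpF.eq_1
  trivial

/-! ## 2. LEVEL A: first facts, transfer, locality, uniqueness -/

section factsA

variable {V D κ κ' : Type} {T : PvMap V D} {s : V → Bool} {mk : V → κ} {𝔯 𝔯' : PvspReg κ} {Kc : Set κ} {𝔖 𝔖' : PvspSt T s} {y : T.Pth}

/-- the three vertices of a face inside the gate `S₂` are marked in the star zone -/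
theorem pvkp_left_zone (hN : 𝔯.Nest) (hst : PvplStar T mk (fun x => x ∈ 𝔯 .O2) (𝔯 .S2)) (hA : 𝔖.At mk 𝔯) {d : D} (hd : d ∈ 𝔖.g2.c.Left) :
    mk (T.src d) ∈ 𝔯 .S2 ∧ mk (T.tgt d) ∈ 𝔯 .S2 ∧ mk (T.apex d) ∈ 𝔯 .S2 :=
  pvsp_zone hst (fun k hk => hN.2.2.2 hk) (hA.sel2.outer hd)

/-- the inner arc ends at `v₂⁺` -/
theorem pvkp_inn_last (hA : 𝔖.At mk 𝔯) : 𝔖.inn.v 𝔖.inn.n = 𝔖.g2.vp := by
  rw [pvt_sd_vn hA.arc, show pvasIt T s 𝔖.g2.aIn 𝔖.g2.len = 𝔖.g2.aOut from hA.sel2.thru, pvtg_aOut_src]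

/-- the inner arc starts at `v₂⁻` -/
theorem pvkp_inn_first (hA : 𝔖.At mk 𝔯) : 𝔖.inn.v 0 = 𝔖.g2.vm := pvt_sd_v0 hA.arc

/-- all the vertices of the inner arc are marked in the star zone -/
theorem pvkp_inn_zone (hN : 𝔯.Nest) (hst : PvplStar T mk (fun x => x ∈ 𝔯 .O2) (𝔯 .S2)) (hA : 𝔖.At mk 𝔯) {i : ℕ} (hi : i ≤ 𝔖.inn.n) : mk (𝔖.inn.v i) ∈ 𝔯 .S2 := by
  obtain ⟨t, ht, e⟩ := pvt_sd_verts hA.arc ⟨i, hi, rfl⟩
  rw [← e]
  rcases Nat.lt_or_ge t 𝔖.g2.len with h | h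
  · exact (pvkp_left_zone hN hst hA (not_not.1 (Nat.notMem_of_lt_sInf h))).1
  · have e1 : t = 𝔖.g2.len := by omega
    rw [e1, show pvasIt T s 𝔖.g2.aIn 𝔖.g2.len = 𝔖.g2.aOut from hA.sel2.thru, pvtg_aOut_src]
    exact (pvkp_left_zone hN hst hA (hA.sel2.on 𝔖.g2.m)).1

/-- all the vertices of the link are marked in the corridor -/
theorem pvkp_y_zone (h : PvkpRun T s mk Kc 𝔖 𝔖' y) {i : ℕ} (hi : i ≤ y.n) : mk (y.v i) ∈ Kc :=
  (pvld_run_lay h.run).1 (pvt_sd_verts h.arc ⟨i, hi, rfl⟩)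

/-- the ends of the link -/
theorem pvkp_y_ends (h : PvkpRun T s mk Kc 𝔖 𝔖' y) : y.v 0 = 𝔖.g2.vp ∧ y.v y.n = 𝔖'.g2.vm := by
  refine ⟨by rw [pvt_sd_v0 h.arc, pvtg_aOut_src], ?_⟩
  rw [pvt_sd_vn h.arc, (pvld_run_hit h.run).2.1]
  rfl

/-- MARKS FORM ⟷ TEST FORM: definitional -/
theorem pvkp_at_comap (𝔯 𝔯' : PvspReg κ') (Kc : Set κ') (g : κ → κ') (𝔖 𝔖' : PvspSt T s) (y : T.Pth) :
    PvkpAt T s mk (𝔯.comap g) (𝔯'.comap g) (g ⁻¹' Kc) 𝔖 𝔖' y ↔ PvkpAt T s (g ∘ mk) 𝔯 𝔯' Kc 𝔖 𝔖' y := by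
  have hAt : ∀ (𝔯 : PvspReg κ') (𝔖 : PvspSt T s), 𝔖.At mk (𝔯.comap g) ↔ 𝔖.At (g ∘ mk) 𝔯 := fun 𝔯 𝔖 =>
    ⟨fun h => ⟨h.sel1, h.sel2, h.arc, h.im_lt, h.ip_le, h.im_eq, h.ip_eq, h.fit_p, h.fit_m, h.vp, h.vm⟩,
      fun h => ⟨h.sel1, h.sel2, h.arc, h.im_lt, h.ip_le, h.im_eq, h.ip_eq, h.fit_p, h.fit_m, h.vp, h.vm⟩⟩
  exact ⟨fun h => ⟨h.st, h.st', (hAt _ _).1 h.au, (hAt _ _).1 h.au', ⟨h.lk.run, h.lk.arc, h.lk.off⟩⟩,
    fun h => ⟨h.st, h.st', (hAt _ _).2 h.au, (hAt _ _).2 h.au', ⟨h.lk.run, h.lk.arc, h.lk.off⟩⟩⟩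

theorem pvkp_supp_C (hN : 𝔯.Nest) (c : Bool) : (PvkpTagC 𝔯 𝔯' Kc c).Supp (pvkpZ 𝔯 𝔯' Kc) := by
  rintro V D T mk s d ⟨𝔖, 𝔖', y, hA, i, hi, rfl⟩
  rw [T.src_opp', 𝔖.inn.tgt_e i hi]
  exact Or.inl (Or.inl (pvkp_inn_zone hN hA.st hA.au (by omega)))

theorem pvkp_supp_F (hN : 𝔯.Nest) (hN' : 𝔯'.Nest) (c : Bool) : (PvkpTagF 𝔯 𝔯' Kc c).Supp (pvkpZ 𝔯 𝔯' Kc) := by
  rintro V D T mk s d ⟨𝔖, 𝔖', y, hA, ⟨i, -, hi, rfl⟩ | ⟨i, hi, rfl⟩ | ⟨i, hi, rfl⟩⟩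
  · rw [T.src_opp', 𝔖.inn.tgt_e i hi]
    exact Or.inl (Or.inl (pvkp_inn_zone hN hA.st hA.au (by omega)))
  · rw [T.src_opp', y.tgt_e i hi]
    exact Or.inr (pvkp_y_zone hA.lk (by omega))
  · have h1 := hA.au'.ip_le
    rw [T.src_opp', 𝔖'.inn.tgt_e i (by omega)]
    exact Or.inl (Or.inr (pvkp_inn_zone hN' hA.st' hA.au' (by omega)))

end factsA

section transfer

variable {κ : Type} {V D V' D' : Type} {T : PvMap V D} {mk : V → κ} {s : V → Bool} {T' : PvMap V' D'} {mk' : V' → κ} {s' : V' → Bool} {R : V → V' → Prop}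
variable {𝔯 𝔯' : PvspReg κ} {Kc : Set κ}

/-- corresponding paths have corresponding tags -/
theorem pvkp_tr_tag {K : Set κ} (h : PvplIso T mk s T' mk' s' K R) (hS' : T'.Simple) {p : T.Pth} {p' : T'.Pth} {i : ℕ} (hi : i < p.n) (hi' : i < p'.n) (h0 : R (p.v i) (p'.v i)) (h1 : R (p.v (i + 1)) (p'.v (i + 1)))
    (k0 : mk (p.v i) ∈ K) (k1 : mk (p.v (i + 1)) ∈ K) : PvplRD T T' R (T.opp (p.e i)) (T'.opp (p'.e i)) := by
  obtain ⟨d', d1, d2, d3⟩ := h.ex (p.e i) (by rw [p.src_e i hi]; exact k0)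
  have e1 : T'.src d' = p'.v i := by
    rw [p.src_e i hi] at d1
    exact h.fn _ _ _ d1 h0
  have e2 : T'.tgt d' = p'.v (i + 1) := by
    rw [p.tgt_e i hi] at d2
    exact h.fn _ _ _ d2 h1
  have e3 : d' = p'.e i := hS' _ _ (by rw [e1, p'.src_e i hi']) (by rw [e2, p'.tgt_e i hi'])
  rw [← e3]
  exact h.opp hS' ⟨d1, d2, d3⟩ (by rw [p.tgt_e i hi]; exact k1)

/-- **transfer of the state**, strong form: the twin state has the same indices and corresponding gate `S₂`, inner arc -/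
theorem pvkp_tr_st (hN : 𝔯.Nest) (h : PvplIso T mk s T' mk' s' (𝔯 .S2) R) (hS : T.Simple) (hS' : T'.Simple)
    (hst : PvplStar T mk (fun x => x ∈ 𝔯 .O2) (𝔯 .S2)) {𝔖 : PvspSt T s} (hA : 𝔖.At mk 𝔯) :
    ∃ 𝔗 : PvspSt T' s', 𝔗.At mk' 𝔯 ∧ 𝔗.g2.m = 𝔖.g2.m ∧ (∀ i, PvplRD T T' R (𝔖.g2.c.e i) (𝔗.g2.c.e i)) ∧ 𝔗.inn.n = 𝔖.inn.n ∧ (∀ i, i ≤ 𝔖.inn.n → R (𝔖.inn.v i) (𝔗.inn.v i)) ∧
      𝔗.ip = 𝔖.ip ∧ 𝔗.im = 𝔖.im := by
  obtain ⟨n1, n2, n3, n4⟩ := hN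
  have hP : ∀ k, k ∈ 𝔯 .O2 → k ∈ 𝔯 .S2 := fun k hk => n4 hk
  have hz1 : ∀ d ∈ 𝔖.g1.c.Left, mk (T.src d) ∈ 𝔯 .S2 ∧ mk (T.tgt d) ∈ 𝔯 .S2 ∧ mk (T.apex d) ∈ 𝔯 .S2 := fun d hd =>
    pvsp_zone hst hP (pvpl_B_mono T (fun v hv => n2 hv) (hA.sel1.outer hd))
  have hz2 : ∀ d ∈ 𝔖.g2.c.Left, mk (T.src d) ∈ 𝔯 .S2 ∧ mk (T.tgt d) ∈ 𝔯 .S2 ∧ mk (T.apex d) ∈ 𝔯 .S2 := fun d hd =>
    pvsp_zone hst hP (hA.sel2.outer hd)
  obtain ⟨g1', hm1, -, hc1⟩ := pvsp_tr_gate h hS' 𝔖.g1 fun i => h.ex _ (hz1 _ (hA.sel1.on i)).1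
  obtain ⟨g2', hm2, -, hc2⟩ := pvsp_tr_gate h hS' 𝔖.g2 fun i => h.ex _ (hz2 _ (hA.sel2.on i)).1
  obtain ⟨hlen, hit, -⟩ := pvsp_tr_strand h hS hS' hm2 hc2 hA.sel2.on hz2
  have hlt : ∀ j, j < 𝔖.g2.len → pvasIt T s 𝔖.g2.aIn j ∈ 𝔖.g2.c.Left := fun j hj => not_not.1 (Nat.notMem_of_lt_sInf hj)
  have hmk : ∀ i, i < 𝔖.inn.n → mk (𝔖.inn.v i) ∈ 𝔯 .S2 := by
    intro i hi
    obtain ⟨j, h0, hj, h1, h2⟩ := hA.arc
    obtain ⟨a1, a2, -⟩ := h1 i hi.le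
    have hne : j i ≠ 𝔖.g2.len := fun e => by
      have e2 := (h1 𝔖.inn.n le_rfl).2.1
      rw [hj] at e2
      rw [e] at a2
      have := 𝔖.inn.inj i 𝔖.inn.n hi.le le_rfl (a2.trans e2.symm)
      omega
    rw [a2]
    exact (hz2 _ (hlt _ (by omega))).1
  have h0 : ∃ v', R (𝔖.inn.v 0) v' := by
    obtain ⟨j, h0, -⟩ := hA.arc
    rw [h0]
    exact ⟨_, (hc2 0).1⟩
  obtain ⟨inn', hn, hv⟩ := pvsp_tr_pth h ⟨g2'.c.e 0⟩ 𝔖.inn hmk h0
  refine ⟨⟨g1', g2', inn', 𝔖.im, 𝔖.ip⟩, ⟨?_, ?_, ?_, hA.im_lt, by rw [hn]; exact hA.ip_le, ?_, ?_, ?_, ?_, ?_, ?_⟩, hm2, hc2, hn, hv, rfl, rfl⟩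
  · exact pvsp_tr_sel h hS hS' hP hst (PI := fun x => x ∈ 𝔯 .I1) (PO := fun x => x ∈ 𝔯 .O1) (fun k hk => n2 (n1 hk)) (fun k hk => n2 hk) hm1 hc1 hA.sel1
  · exact pvsp_tr_sel h hS hS' hP hst (PI := fun x => x ∈ 𝔯 .I2) (PO := fun x => x ∈ 𝔯 .O2) (fun k hk => n3 hk) (fun k hk => hk) hm2 hc2 hA.sel2
  · show PvwLE T' (fun i => T'.src (pvasIt T' s' g2'.aIn i)) g2'.len inn'
    rw [hlen]
    exact pvsp_tr_le h (fun i hi => (hit i hi).1) hn hv hA.arc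
  · have h1 := hv 𝔖.im (hA.im_lt.le.trans hA.ip_le)
    rw [hA.im_eq] at h1
    exact h.fn _ _ _ h1 (hc1 0).1
  · have h1 := hv 𝔖.ip hA.ip_le
    rw [hA.ip_eq] at h1
    show inn'.v 𝔖.ip = T'.src (g1'.c.e g1'.m)
    rw [hm1]
    exact h.fn _ _ _ h1 (hc1 _).1
  · intro i hi hin
    rw [hn] at hin
    show mk' (inn'.v i) ∈ _
    rw [h.mark _ _ (hv i hin)]
    exact hA.fit_p i hi hin
  · intro i hi
    show mk' (inn'.v i) ∈ _
    rw [h.mark _ _ (hv i (hi.trans hA.ip_le))]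
    exact hA.fit_m i hi
  · show mk' (T'.src (g2'.c.e g2'.m)) ∈ _
    rw [hm2, h.mark _ _ (hc2 _).1]
    exact hA.vp
  · show mk' (T'.src (g2'.c.e 0)) ∈ _
    rw [h.mark _ _ (hc2 _).1]
    exact hA.vm

/-- **transfer of a connector** -/
theorem pvkp_tr_at (hN : 𝔯.Nest) (hN' : 𝔯'.Nest) (h : PvplIso T mk s T' mk' s' (pvkpZ 𝔯 𝔯' Kc) R) (hS : T.Simple) (hS' : T'.Simple)
    {𝔖 𝔖' : PvspSt T s} {y : T.Pth} (hA : PvkpAt T s mk 𝔯 𝔯' Kc 𝔖 𝔖' y) :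
    ∃ (𝔗 𝔗' : PvspSt T' s') (y' : T'.Pth), PvkpAt T' s' mk' 𝔯 𝔯' Kc 𝔗 𝔗' y' ∧
      𝔗.inn.n = 𝔖.inn.n ∧ (∀ i, i ≤ 𝔖.inn.n → R (𝔖.inn.v i) (𝔗.inn.v i)) ∧ 𝔗.ip = 𝔖.ip ∧
      𝔗'.inn.n = 𝔖'.inn.n ∧ (∀ i, i ≤ 𝔖'.inn.n → R (𝔖'.inn.v i) (𝔗'.inn.v i)) ∧ 𝔗'.ip = 𝔖'.ip ∧
      y'.n = y.n ∧ ∀ i, i ≤ y.n → R (y.v i) (y'.v i) := by
  have s1 : 𝔯 .S2 ⊆ pvkpZ 𝔯 𝔯' Kc := fun k hk => Or.inl (Or.inl hk)
  have s2 : 𝔯' .S2 ⊆ pvkpZ 𝔯 𝔯' Kc := fun k hk => Or.inl (Or.inr hk)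
  have s3 : Kc ⊆ pvkpZ 𝔯 𝔯' Kc := fun k hk => Or.inr hk
  obtain ⟨𝔗, A1, m1, c1, n1, v1, i1, -⟩ := pvkp_tr_st hN (h.mono s1) hS hS' hA.st hA.au
  obtain ⟨𝔗', A2, m2, c2, n2, v2, i2, -⟩ := pvkp_tr_st hN' (h.mono s2) hS hS' hA.st' hA.au'
  obtain ⟨N, hN1, hNe, hNm, hNK⟩ := hA.lk.run
  -- the marks of the faces crossed by the run
  have hfc : ∀ i, i < N → mk (T.src (pvasIt T s 𝔖.g2.aOut i)) ∈ Kc ∧ mk (T.tgt (pvasIt T s 𝔖.g2.aOut i)) ∈ Kc ∧ mk (T.apex (pvasIt T s 𝔖.g2.aOut i)) ∈ Kc := by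
    intro i hi
    exact ⟨hNK ⟨_, ⟨i, hi, Or.inl rfl⟩, rfl⟩, hNK ⟨_, ⟨i, hi, Or.inr (Or.inl rfl)⟩, rfl⟩, hNK ⟨_, ⟨i, hi, Or.inr (Or.inr rfl)⟩, rfl⟩⟩
  -- the exit darts correspond
  have ha : PvplRD T T' R 𝔖.g2.aOut 𝔗.g2.aOut := by
    unfold PvMap.Gate.aOut
    rw [m1]
    exact h.opp hS' (c1 _) (s1 (pvkp_left_zone hN hA.st hA.au (hA.au.sel2.on _)).2.1)
  have hit : ∀ n, n ≤ N → PvplRD T T' R (pvasIt T s 𝔖.g2.aOut n) (pvasIt T' s' 𝔗.g2.aOut n) := by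
    intro n hn
    refine pvsp_tr_it h hS' ha (A := {d | ∃ j, j < N ∧ d = pvasIt T s 𝔖.g2.aOut j}) ?_ n fun j hj => ⟨j, by omega, rfl⟩
    rintro d ⟨j, hj, rfl⟩
    exact ⟨s3 (hfc j hj).1, s3 (hfc j hj).2.2⟩
  have hin : PvplRD T T' R 𝔖'.g2.aIn 𝔗'.g2.aIn := c2 0
  have hNe' : pvasIt T' s' 𝔗.g2.aOut N = 𝔗'.g2.aIn := by
    have := hit N le_rfl
    rw [hNe] at this
    exact h.rd_fn hS' this hin
  have hNm' : ∀ i, i < N → pvasIt T' s' 𝔗.g2.aOut i ≠ 𝔗'.g2.aIn := by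
    intro i hi e
    have := hit i hi.le
    rw [e] at this
    exact hNm i hi (h.rd_inj hS this hin)
  have hH : pvasHit T s 𝔖.g2.aOut {𝔖'.g2.aIn} = N := pvas_hit_eq hNe fun i hi => hNm i hi
  have hH' : pvasHit T' s' 𝔗.g2.aOut {𝔗'.g2.aIn} = N := pvas_hit_eq hNe' fun i hi => hNm' i hi
  -- the link
  have h0 : ∃ v', R (y.v 0) v' := by
    obtain ⟨j, h0, -⟩ := hA.lk.arc
    rw [h0]
    exact ⟨_, ha.1⟩
  obtain ⟨y', hn, hv⟩ := pvsp_tr_pth h ⟨𝔗.g2.c.e 0⟩ y (fun i hi => s3 (pvkp_y_zone hA.lk hi.le)) h0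
  refine ⟨𝔗, 𝔗', y', ⟨(h.mono s1).star (fun k hk => hN.2.2.2 hk) hA.st, (h.mono s2).star (fun k hk => hN'.2.2.2 hk) hA.st', A1, A2, ⟨?_, ?_, ?_⟩⟩, n1, v1, i1, n2, v2, i2, hn, hv⟩
  · refine ⟨N, hN1, hNe', hNm', ?_⟩
    rintro v ⟨f, ⟨i, hi, hf⟩, rfl⟩
    obtain ⟨r1, r2, r3⟩ := hit i hi.le
    show mk' (T'.src f) ∈ Kc
    rcases hf with rfl | rfl | rfl
    · rw [h.mark _ _ r1]; exact (hfc i hi).1
    · rw [T'.src_nxt, h.mark _ _ r2]; exact (hfc i hi).2.1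
    · rw [T'.src_nxt2, h.mark _ _ r3]; exact (hfc i hi).2.2
  · rw [hH']
    have := hA.lk.arc
    rw [hH] at this
    exact pvsp_tr_le h (fun i hi => (hit i hi).1) hn hv this
  · intro k hk0 hk
    rw [hn] at hk
    obtain ⟨o1, o2⟩ := hA.lk.off k hk0 hk
    constructor
    · rintro ⟨d', hd', e⟩
      obtain ⟨d, hd, hL⟩ := pvsp_tr_left_bwd h hS hS' c1 (fun d hd => s1 (pvkp_left_zone hN hA.st hA.au hd).2.1) hd'
      have r := hd.1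
      rw [e] at r
      exact o1 ⟨d, hL, h.inj _ _ _ r (hv k hk.le)⟩
    · rintro ⟨d', hd', e⟩
      obtain ⟨d, hd, hL⟩ := pvsp_tr_left_bwd h hS hS' c2 (fun d hd => s2 (pvkp_left_zone hN' hA.st' hA.au' hd).2.1) hd'
      have r := hd.1
      rw [e] at r
      exact o2 ⟨d, hL, h.inj _ _ _ r (hv k hk.le)⟩

/-- **LOCALITY of `A_e`** -/
theorem pvkp_pred_local (hN : 𝔯.Nest) (hN' : 𝔯'.Nest) (Kc : Set κ) (c : Bool) : (PvkpPred 𝔯 𝔯' Kc c).Local (pvkpZ 𝔯 𝔯' Kc) := by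
  have key : ∀ (V D V' D' : Type) (T : PvMap V D) (mk : V → κ) (s : V → Bool) (T' : PvMap V' D') (mk' : V' → κ) (s' : V' → Bool) (R : V → V' → Prop),
      T.Simple → T'.Simple → PvplIso T mk s T' mk' s' (pvkpZ 𝔯 𝔯' Kc) R → PvkpPred 𝔯 𝔯' Kc c V D T mk s → PvkpPred 𝔯 𝔯' Kc c V' D' T' mk' s' := by
    rintro V D V' D' T mk s T' mk' s' R hS hS' hi ⟨𝔖, 𝔖', y, hA⟩
    obtain ⟨𝔗, 𝔗', y', hA', -⟩ := pvkp_tr_at hN hN' (pvsp_tr_S hi c) hS hS' hA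
    exact ⟨𝔗, 𝔗', y', hA'⟩
  exact fun V D V' D' T mk s T' mk' s' R hS hS' hi => ⟨key _ _ _ _ _ _ _ _ _ _ _ hS hS' hi, key _ _ _ _ _ _ _ _ _ _ _ hS' hS hi.symm⟩

/-- **LOCALITY of the tags of the inner arc** -/
theorem pvkp_tagC_local (hN : 𝔯.Nest) (hN' : 𝔯'.Nest) (Kc : Set κ) (c : Bool) : (PvkpTagC 𝔯 𝔯' Kc c).Local (pvkpZ 𝔯 𝔯' Kc) := by
  have s1 : 𝔯 .S2 ⊆ pvkpZ 𝔯 𝔯' Kc := fun k hk => Or.inl (Or.inl hk)
  have key : ∀ (V D V' D' : Type) (T : PvMap V D) (mk : V → κ) (s : V → Bool) (T' : PvMap V' D') (mk' : V' → κ) (s' : V' → Bool) (R : V → V' → Prop),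
      T.Simple → T'.Simple → PvplIso T mk s T' mk' s' (pvkpZ 𝔯 𝔯' Kc) R → ∀ d d', PvplRD T T' R d d' → PvkpTagC 𝔯 𝔯' Kc c V D T mk s d → PvkpTagC 𝔯 𝔯' Kc c V' D' T' mk' s' d' := by
    rintro V D V' D' T mk s T' mk' s' R hS hS' hi d d' hdd ⟨𝔖, 𝔖', y, hA, i, hin, rfl⟩
    have hc := pvsp_tr_S hi c
    obtain ⟨𝔗, 𝔗', y', hA', n1, v1, -, -, -, -, -, -⟩ := pvkp_tr_at hN hN' hc hS hS' hA
    refine ⟨𝔗, 𝔗', y', hA', i, by omega, ?_⟩
    exact hc.rd_fn hS' hdd (pvkp_tr_tag hc hS' hin (by omega) (v1 i hin.le) (v1 (i + 1) hin) (s1 (pvkp_inn_zone hN hA.st hA.au hin.le)) (s1 (pvkp_inn_zone hN hA.st hA.au hin)))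
  exact fun V D V' D' T mk s T' mk' s' R hS hS' hi d d' hdd => ⟨key _ _ _ _ _ _ _ _ _ _ _ hS hS' hi d d' hdd, key _ _ _ _ _ _ _ _ _ _ _ hS' hS hi.symm d' d hdd⟩

/-- **LOCALITY of the tags of the forward arc** -/
theorem pvkp_tagF_local (hN : 𝔯.Nest) (hN' : 𝔯'.Nest) (Kc : Set κ) (c : Bool) : (PvkpTagF 𝔯 𝔯' Kc c).Local (pvkpZ 𝔯 𝔯' Kc) := by
  have s1 : 𝔯 .S2 ⊆ pvkpZ 𝔯 𝔯' Kc := fun k hk => Or.inl (Or.inl hk)
  have s2 : 𝔯' .S2 ⊆ pvkpZ 𝔯 𝔯' Kc := fun k hk => Or.inl (Or.inr hk)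
  have s3 : Kc ⊆ pvkpZ 𝔯 𝔯' Kc := fun k hk => Or.inr hk
  have key : ∀ (V D V' D' : Type) (T : PvMap V D) (mk : V → κ) (s : V → Bool) (T' : PvMap V' D') (mk' : V' → κ) (s' : V' → Bool) (R : V → V' → Prop),
      T.Simple → T'.Simple → PvplIso T mk s T' mk' s' (pvkpZ 𝔯 𝔯' Kc) R → ∀ d d', PvplRD T T' R d d' → PvkpTagF 𝔯 𝔯' Kc c V D T mk s d → PvkpTagF 𝔯 𝔯' Kc c V' D' T' mk' s' d' := by
    rintro V D V' D' T mk s T' mk' s' R hS hS' hi d d' hdd ⟨𝔖, 𝔖', y, hA, hd⟩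
    have hc := pvsp_tr_S hi c
    obtain ⟨𝔗, 𝔗', y', hA', n1, v1, i1, n2, v2, i2, n3, v3⟩ := pvkp_tr_at hN hN' hc hS hS' hA
    refine ⟨𝔗, 𝔗', y', hA', ?_⟩
    rcases hd with ⟨i, hip, hin, rfl⟩ | ⟨i, hin, rfl⟩ | ⟨i, hip, rfl⟩
    · refine Or.inl ⟨i, by omega, by omega, ?_⟩
      exact hc.rd_fn hS' hdd (pvkp_tr_tag hc hS' hin (by omega) (v1 i hin.le) (v1 (i + 1) hin) (s1 (pvkp_inn_zone hN hA.st hA.au hin.le)) (s1 (pvkp_inn_zone hN hA.st hA.au hin)))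
    · refine Or.inr (Or.inl ⟨i, by omega, ?_⟩)
      exact hc.rd_fn hS' hdd (pvkp_tr_tag hc hS' hin (by omega) (v3 i hin.le) (v3 (i + 1) hin) (s3 (pvkp_y_zone hA.lk hin.le)) (s3 (pvkp_y_zone hA.lk hin)))
    · have hle := hA.au'.ip_le
      have hin : i < 𝔖'.inn.n := by omega
      refine Or.inr (Or.inr ⟨i, by omega, ?_⟩)
      exact hc.rd_fn hS' hdd (pvkp_tr_tag hc hS' hin (by omega) (v2 i hin.le) (v2 (i + 1) hin) (s2 (pvkp_inn_zone hN' hA.st' hA.au' hin.le)) (s2 (pvkp_inn_zone hN' hA.st' hA.au' hin)))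
  exact fun V D V' D' T mk s T' mk' s' R hS hS' hi d d' hdd => ⟨key _ _ _ _ _ _ _ _ _ _ _ hS hS' hi d d' hdd, key _ _ _ _ _ _ _ _ _ _ _ hS' hS hi.symm d' d hdd⟩

end transfer

section unique

variable {V D κ : Type} {T : PvMap V D} {s : V → Bool} {mk : V → κ} {𝔯 𝔯' : PvspReg κ} {Kc : Set κ}

/-- extensionality of gates -/
theorem pvkp_gate_ext {g g' : T.Gate s} (he : ∀ i, g'.c.e i = g.c.e i) (hn : g'.c.n = g.c.n) (hm : g'.m = g.m) : g = g' := by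
  obtain ⟨⟨n, e, h3, hp, hc, hi⟩, m, h1, h2, h4⟩ := g
  obtain ⟨⟨n', e', h3', hp', hc', hi'⟩, m', h1', h2', h4'⟩ := g'
  simp only at he hn hm
  obtain rfl : e' = e := funext he
  subst hn hm
  rfl

/-- two states at the same regions: the SAME gate `S₂` (as a structure), the same darts of the inner arc, the same marked index -/
theorem pvkp_st_unique (hT : T.IsSph) (hS : T.Simple) (hd : ∀ v, mk v ∈ 𝔯 .Np → mk v ∈ 𝔯 .Nm → mk v ∈ 𝔯 .I2) {𝔖 𝔗 : PvspSt T s} (h : 𝔖.At mk 𝔯) (h' : 𝔗.At mk 𝔯) :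
    𝔖.g2 = 𝔗.g2 ∧ 𝔖.inn.n = 𝔗.inn.n ∧ (∀ i, i ≤ 𝔖.inn.n → 𝔖.inn.v i = 𝔗.inn.v i) ∧ (∀ i, i < 𝔖.inn.n → 𝔖.inn.e i = 𝔗.inn.e i) ∧ 𝔖.ip = 𝔗.ip := by
  obtain ⟨-, hL2, -, hvm, -, -, -, hip, -⟩ := pvsp_at_unique hT hS hd h h'
  obtain ⟨he, hn, hm⟩ := pvsp_un_gate hT hL2 hvm.symm
  have eg : 𝔖.g2 = 𝔗.g2 := pvkp_gate_ext he hn hm
  have harc := h'.arc
  rw [← eg] at harc
  obtain ⟨u1, u2, u3⟩ := pvt_sd_unique hS h.arc harc
  exact ⟨eg, u1, u2, u3, hip⟩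

/-- the link reads the gates `S₂` of the two states only, and is unique -/
theorem pvkp_run_unique (hS : T.Simple) {𝔖 𝔖' 𝔗 𝔗' : PvspSt T s} {y y' : T.Pth} (e : 𝔖.g2 = 𝔗.g2) (e' : 𝔖'.g2 = 𝔗'.g2) (h : PvkpRun T s mk Kc 𝔖 𝔖' y) (h' : PvkpRun T s mk Kc 𝔗 𝔗' y') :
    y.n = y'.n ∧ (∀ i, i ≤ y.n → y.v i = y'.v i) ∧ ∀ i, i < y.n → y.e i = y'.e i := by
  have harc := h'.arc
  rw [← e, ← e'] at harc
  exact pvt_sd_unique hS h.arc harc

theorem PvkpRun.congr {𝔖 𝔖' 𝔗 𝔗' : PvspSt T s} {y : T.Pth} (e : 𝔖.g2 = 𝔗.g2) (e' : 𝔖'.g2 = 𝔗'.g2) (h : PvkpRun T s mk Kc 𝔖 𝔖' y) : PvkpRun T s mk Kc 𝔗 𝔗' y := by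
  obtain ⟨h1, h2, h3⟩ := h
  rw [e, e'] at h1 h2 h3
  exact ⟨h1, h2, h3⟩

/-- the field in index form does not depend on the witnesses -/
theorem pvkp_F_unique (hT : T.IsSph) (hS : T.Simple) (hd : ∀ v, mk v ∈ 𝔯 .Np → mk v ∈ 𝔯 .Nm → mk v ∈ 𝔯 .I2) (hd' : ∀ v, mk v ∈ 𝔯' .Np → mk v ∈ 𝔯' .Nm → mk v ∈ 𝔯' .I2)
    {𝔖 𝔖' 𝔗 𝔗' : PvspSt T s} {y y' : T.Pth} (h : PvkpAt T s mk 𝔯 𝔯' Kc 𝔖 𝔖' y) (h' : PvkpAt T s mk 𝔯 𝔯' Kc 𝔗 𝔗' y') (pos : V → ℂ) (w : D → ℂ) (Dc Dc' : Set ℂ) :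
    pvkpF T pos w Dc Dc' 𝔖 𝔖' y = pvkpF T pos w Dc Dc' 𝔗 𝔗' y' := by
  obtain ⟨e, a1, -, a3, a4⟩ := pvkp_st_unique hT hS hd h.au h'.au
  obtain ⟨e', b1, -, b3, b4⟩ := pvkp_st_unique hT hS hd' h.au' h'.au'
  obtain ⟨c1, -, c3⟩ := pvkp_run_unique hS e e' h.lk h'.lk
  unfold pvkpF
  rw [← a1, ← a4, ← b4, ← c1, pvt_sd_mass_congr a3 pos w Dc 0 le_rfl, pvt_sd_mass_congr a3 pos w (Dc ∪ Dc')ᶜ 𝔖.ip le_rfl, pvt_sd_mass_congr c3 pos w (Dc ∪ Dc')ᶜ 0 le_rfl,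
    pvt_sd_mass_congr b3 pos w (Dc ∪ Dc')ᶜ 0 h.au'.ip_le]

end unique

/-! ## 3. THE RING at one marked coloured map -/

section ring

variable {V D κ : Type}

/-- **what the regions of a cycle of `n` plugs and `n` connectors owe** (in marks; `κ = ℂ`: subsets of the plane).      Plug `j` has the regions `𝔯 j`, the connector `j` runs from the plug `j` to the plug `j + 1` in the corridor `Kc j`. -/
structure PvkpGeo (n : ℕ) (𝔯 : ℕ → PvspReg κ) (Kc : ℕ → Set κ) : Prop where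
  two : 2 ≤ n
  per : 𝔯 n = 𝔯 0
  nest : ∀ j, j < n → (𝔯 j).Nest
  /-- (T7) the two tubes of a plug meet near the centre only -/
  tubes : ∀ j, j < n → 𝔯 j .Np ∩ 𝔯 j .Nm ⊆ 𝔯 j .I2
  /-- the star zones are pairwise disjoint -/
  dSS : ∀ i j, i < n → j < n → i ≠ j → Disjoint (𝔯 i .S2) (𝔯 j .S2)
  /-- a corridor meets the star zones of its two plugs only -/
  dKS : ∀ i j, i < n → j < n → i ≠ j → i ≠ (j + 1) % n → Disjoint (Kc j) (𝔯 i .S2)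
  /-- two corridors meet deep inside the plugs only -/
  dKK : ∀ i j, i < n → j < n → i ≠ j → Kc i ∩ Kc j ⊆ 𝔯 i .I2 ∪ 𝔯 (i + 1) .I2

/-- **a closed chain of `n` states and `n` links** -/
structure PvkpRing (T : PvMap V D) (s : V → Bool) (mk : V → κ) (n : ℕ) (𝔯 : ℕ → PvspReg κ) (Kc : ℕ → Set κ) (𝔖 : ℕ → PvspSt T s) (y : ℕ → T.Pth) : Prop where
  per : 𝔖 n = 𝔖 0
  con : ∀ j, j < n → PvkpAt T s mk (𝔯 j) (𝔯 (j + 1)) (Kc j) (𝔖 j) (𝔖 (j + 1)) (y j)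

variable {T : PvMap V D} {s : V → Bool} {mk : V → κ} {n : ℕ} {𝔯 : ℕ → PvspReg κ} {Kc : ℕ → Set κ} {𝔖 : ℕ → PvspSt T s} {y : ℕ → T.Pth}

/-- **GLUE**: `n` connector predicates round a cycle give ONE coherent ring (uniqueness of the states) -/
theorem pvkp_glue (hT : T.IsSph) (hS : T.Simple) (G : PvkpGeo n 𝔯 Kc) {c : Bool} {σ : V → Bool} (h : ∀ j, j < n → PvkpPred (𝔯 j) (𝔯 (j + 1)) (Kc j) c V D T mk σ) :
    ∃ (𝔖 : ℕ → PvspSt T (pvspS c σ)) (y : ℕ → T.Pth), PvkpRing T (pvspS c σ) mk n 𝔯 Kc 𝔖 y := by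
  classical
  have hn : 0 < n := by have := G.two; omega
  have hm : ∀ j, j % n < n := fun j => Nat.mod_lt _ hn
  choose A B Y hABY using h
  have hA : ∀ a b (e : a = b) (ha : a < n) (hb : b < n), A a ha = A b hb := by
    intro a b e ha hb; subst e; rfl
  refine ⟨fun j => A (j % n) (hm j), fun j => Y (j % n) (hm j), hA _ _ (by simp) _ _, fun j hj => ?_⟩
  have e0 : j % n = j := Nat.mod_eq_of_lt hj
  have hj0 := hABY j hj
  have e1 : A (j % n) (hm j) = A j hj := hA _ _ e0 _ _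
  have e2 : Y (j % n) (hm j) = Y j hj := by
    have : ∀ a b (e : a = b) (ha : a < n) (hb : b < n), Y a ha = Y b hb := by
      intro a b e ha hb; subst e; rfl
    exact this _ _ e0 _ _
  show PvkpAt T (pvspS c σ) mk (𝔯 j) (𝔯 (j + 1)) (Kc j) (A (j % n) (hm j)) (A ((j + 1) % n) (hm (j + 1))) (Y (j % n) (hm j))
  rw [e1, e2]
  -- the source state of the next connector
  have hr : 𝔯 ((j + 1) % n) = 𝔯 (j + 1) := by
    rcases Nat.lt_or_ge (j + 1) n with h1 | h1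
    · rw [Nat.mod_eq_of_lt h1]
    · rw [show j + 1 = n by omega, Nat.mod_self, G.per]
  have hnx := (hABY ((j + 1) % n) (hm (j + 1))).au
  rw [hr] at hnx
  have htub : ∀ v, mk v ∈ 𝔯 (j + 1) .Np → mk v ∈ 𝔯 (j + 1) .Nm → mk v ∈ 𝔯 (j + 1) .I2 := by
    intro v h1 h2
    rw [← hr] at h1 h2 ⊢
    exact G.tubes _ (hm (j + 1)) ⟨h1, h2⟩
  have hu := pvkp_st_unique hT hS htub hj0.au' hnx
  exact ⟨hj0.st, hj0.st', hj0.au, hnx, PvkpRun.congr rfl hu.1 hj0.lk⟩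

/-- a vertex off the closed inside of the gate is not marked in `I₂` -/
theorem pvkp_off_I2 {𝔯₀ : PvspReg κ} {𝔖₀ : PvspSt T s} (hA : 𝔖₀.At mk 𝔯₀) {d : D} (hd : T.src d ∉ T.VOf 𝔖₀.g2.c.Left) : mk (T.src d) ∉ 𝔯₀ .I2 :=
  fun h => hd ⟨d, hA.sel2.inner (Or.inl h), rfl⟩

/-- **CLOSE-P, the ring of 260** -/
theorem pvkp_ring (hT : T.IsSph) (hS : T.Simple) (G : PvkpGeo n 𝔯 Kc) (H : PvkpRing T s mk n 𝔯 Kc 𝔖 y) (hfin : ∀ j, j < n → (𝔖 j).g2.c.Left.Finite) :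
    PvgzRing T s n (fun j => (𝔖 j).g2) (fun j => (𝔖 j).inn) y := by
  have hn : 0 < n := by have := G.two; omega
  have hlk : ∀ j, j < n → (y j).v 0 = (𝔖 j).g2.vp ∧ (y j).v (y j).n = (𝔖 (j + 1)).g2.vm ∧ (y j).OnWall s (𝔖 j).g2.aOut ∧ T.Wall s (𝔖 j).g2.aOut (𝔖 (j + 1)).g2.aIn :=
    fun j hj => pvgz_link_le hS _ _ (pvld_run_hit (H.con j hj).lk.run).2.1 (H.con j hj).lk.arc
  -- marks of the closed insides
  have hz : ∀ i, i < n → ∀ x, x ∈ T.VOf (𝔖 i).g2.c.Left → mk x ∈ 𝔯 i .S2 := by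
    rintro i hi x ⟨d, hd, rfl⟩
    exact (pvkp_left_zone (G.nest i hi) (H.con i hi).st (H.con i hi).au hd).1
  have hmod : ∀ j, j < n → (𝔖 ((j + 1) % n)) = 𝔖 (j + 1) := by
    intro j hj
    rcases Nat.lt_or_ge (j + 1) n with h1 | h1
    · rw [Nat.mod_eq_of_lt h1]
    · rw [show j + 1 = n by omega, Nat.mod_self, H.per]
  refine ⟨hn, by show (𝔖 n).g2 = (𝔖 0).g2; rw [H.per], fun j hj => ?_, fun j hj => (hlk j hj).1, fun j hj => (hlk j hj).2.1, fun j hj => (hlk j hj).2.2.1,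
    fun j hj => (hlk j hj).2.2.2, fun j hj => ?_, fun i j hi hj hij => ?_, fun i j hi hj k h0 hk => ?_, fun i j hi hj hij k l h0 hk h0' hl e => ?_⟩
  · exact pvgz_inn_of_le hT hS _ (hfin j hj) (H.con j hj).au.sel2.thru (H.con j hj).au.arc
  · obtain ⟨-, -, h3⟩ := pvtg_len hT (𝔖 j).g2 (hfin j hj)
    have := pvt_s_it_wall (pvtg_aIn_bw (𝔖 j).g2) (𝔖 j).g2.len
    rw [h3, show pvasExit T (𝔖 j).g2.c.Left s (𝔖 j).g2.aIn = (𝔖 j).g2.aOut from (H.con j hj).au.sel2.thru] at this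
    exact this
  · exact Set.disjoint_left.2 fun x h1 h2 => Set.disjoint_left.1 (G.dSS i j hi hj hij) (hz i hi x h1) (hz j hj x h2)
  · by_cases e1 : i = j
    · subst e1; exact ((H.con i hi).lk.off k h0 hk).1
    · by_cases e2 : i = (j + 1) % n
      · subst e2
        show (y j).v k ∉ T.VOf (𝔖 ((j + 1) % n)).g2.c.Left
        rw [hmod j hj]; exact ((H.con j hj).lk.off k h0 hk).2
      · intro hx
        exact Set.disjoint_left.1 (G.dKS i j hi hj e1 e2) (pvkp_y_zone (H.con j hj).lk hk.le) (hz i hi _ hx)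
  · have h1 : mk ((y i).v k) ∈ Kc i ∩ Kc j := ⟨pvkp_y_zone (H.con i hi).lk hk.le, by rw [e]; exact pvkp_y_zone (H.con j hj).lk hl.le⟩
    have ho := (H.con i hi).lk.off k h0 hk
    rw [← (y i).src_e k hk] at h1 ho
    rcases G.dKK i j hi hj hij h1 with h2 | h2
    · exact pvkp_off_I2 (H.con i hi).au ho.1 h2
    · exact pvkp_off_I2 (H.con i hi).au' ho.2 h2

/-- `pvwMass` reads the mask at the barycentres of the tags only -/
theorem pvkp_mass_congr (pos : V → ℂ) (w : D → ℂ) (p : T.Pth) {K K' : Set ℂ} {i j : ℕ}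
    (h : ∀ k, i ≤ k → k < j → (T.bary pos (T.opp (p.e k)) ∈ K ↔ T.bary pos (T.opp (p.e k)) ∈ K')) : pvwMass T pos w K p i j = pvwMass T pos w K' p i j := by
  classical
  unfold pvwMass
  refine Finset.sum_congr rfl fun k hk => ?_
  obtain ⟨h1, h2⟩ := Finset.mem_Ico.1 hk
  by_cases hK : T.bary pos (T.opp (p.e k)) ∈ K
  · rw [if_pos hK, if_pos ((h k h1 h2).1 hK)]
  · rw [if_neg hK, if_neg fun h' => hK ((h k h1 h2).2 h')]

/-- the sum over a path = the mass in `K` + the mass off `K` before and after the vertex number `i` -/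
theorem pvkp_psum_split (pos : V → ℂ) (w : D → ℂ) (p : T.Pth) (K : Set ℂ) {i : ℕ} (hi : i ≤ p.n) :
    p.psum w = pvwMass T pos w K p 0 p.n + pvwMass T pos w Kᶜ p i p.n + pvwMass T pos w Kᶜ p 0 i := by
  classical
  have h1 : pvwMass T pos w Kᶜ p 0 i + pvwMass T pos w Kᶜ p i p.n = pvwMass T pos w Kᶜ p 0 p.n := by
    unfold pvwMass
    exact Finset.sum_Ico_consecutive _ (Nat.zero_le _) hi
  rw [add_assoc, add_comm (pvwMass T pos w Kᶜ p i p.n), h1]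
  unfold pvwMass PvMap.Pth.psum
  rw [← Finset.sum_add_distrib, Finset.range_eq_Ico]
  refine Finset.sum_congr rfl fun k _ => ?_
  by_cases hK : T.bary pos (T.opp (p.e k)) ∈ K
  · rw [if_pos hK, if_neg (fun h => h hK), add_zero]
  · rw [if_neg hK, if_pos (show T.bary pos (T.opp (p.e k)) ∈ Kᶜ from hK), zero_add]

/-- the whole path off the mask complement -/
theorem pvkp_psum_all (pos : V → ℂ) (w : D → ℂ) (p : T.Pth) {K : Set ℂ} (h : ∀ k, k < p.n → T.bary pos (T.opp (p.e k)) ∈ K) : pvwMass T pos w K p 0 p.n = p.psum w := by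
  classical
  unfold pvwMass PvMap.Pth.psum
  rw [Finset.range_eq_Ico]
  exact Finset.sum_congr rfl fun k hk => if_pos (h k (Finset.mem_Ico.1 hk).2)

/-- **CLOSE-P, `x_P'(1) = ∑_e X_e`** : the cut-offs `Dc j` see the inner arc of their own plug only -/
theorem pvkp_ring_sum (hT : T.IsSph) (hS : T.Simple) (G : PvkpGeo n 𝔯 Kc) (H : PvkpRing T s mk n 𝔯 Kc 𝔖 y) (hfin : ∀ j, j < n → (𝔖 j).g2.c.Left.Finite)
    (pos : V → ℂ) (Dc : ℕ → Set ℂ) (hper : Dc n = Dc 0)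
    (hy : ∀ i j, i < n → j < n → ∀ k, k < (y j).n → T.bary pos (T.opp ((y j).e k)) ∉ Dc i)
    (hin : ∀ i j, i < n → j < n → i ≠ j → ∀ k, k < (𝔖 j).inn.n → T.bary pos (T.opp ((𝔖 j).inn.e k)) ∉ Dc i) (w : D → ℂ) :
    T.lsum s w (T.opp ((𝔖 0).inn.e 0)) = ∑ j ∈ Finset.range n, pvkpF T pos w (Dc j) (Dc (j + 1)) (𝔖 j) (𝔖 (j + 1)) (y j) := by
  classical
  have hn2 := G.two
  have hn : 0 < n := by omega
  have R := pvkp_ring hT hS G H hfin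
  rw [(pvgz_ring hT hS R).2.2 w]
  have hm : ∀ j, j % n < n := fun j => Nat.mod_lt _ hn
  have hD : ∀ i, i ≤ n → Dc (i % n) = Dc i := by
    intro i hi
    rcases Nat.lt_or_ge i n with h1 | h1
    · rw [Nat.mod_eq_of_lt h1]
    · rw [show i = n by omega, Nat.mod_self, hper]
  have hSm : ∀ i, i ≤ n → 𝔖 (i % n) = 𝔖 i := by
    intro i hi
    rcases Nat.lt_or_ge i n with h1 | h1
    · rw [Nat.mod_eq_of_lt h1]
    · rw [show i = n by omega, Nat.mod_self, H.per]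
  have hne : ∀ j, j < n → (j + 1) % n ≠ j := by
    intro j hj
    rcases Nat.lt_or_ge (j + 1) n with h1 | h1
    · rw [Nat.mod_eq_of_lt h1]; omega
    · rw [show j + 1 = n by omega, Nat.mod_self]; omega
  -- the three pieces of the inner arc number `j`
  set c : ℕ → ℂ := fun j => pvwMass T pos w (Dc j)ᶜ (𝔖 j).inn 0 (𝔖 j).ip with hc
  have hcn : c n = c 0 := by simp only [hc, H.per, hper]
  have hB : ∑ j ∈ Finset.range n, c (j + 1) = ∑ j ∈ Finset.range n, c j := by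
    have h1 := Finset.sum_range_succ c n
    have h2 := Finset.sum_range_succ' c n
    rw [h1, hcn] at h2
    exact (add_right_cancel h2).symm
  have key : ∀ j, j < n → pvkpF T pos w (Dc j) (Dc (j + 1)) (𝔖 j) (𝔖 (j + 1)) (y j) = ((𝔖 j).inn.psum w - c j) + (y j).psum w + c (j + 1) := by
    intro j hj
    unfold pvkpF
    have e1 : pvwMass T pos w (Dc j ∪ Dc (j + 1))ᶜ (𝔖 j).inn (𝔖 j).ip (𝔖 j).inn.n = pvwMass T pos w (Dc j)ᶜ (𝔖 j).inn (𝔖 j).ip (𝔖 j).inn.n := by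
      refine pvkp_mass_congr pos w _ fun k _ hk => ?_
      have := hin ((j + 1) % n) j (hm _) hj (hne j hj) k hk
      rw [hD (j + 1) hj] at this
      simp only [Set.mem_compl_iff, Set.mem_union, not_or]
      exact ⟨fun h => h.1, fun h => ⟨h, this⟩⟩
    have e2 : pvwMass T pos w (Dc j ∪ Dc (j + 1))ᶜ (y j) 0 (y j).n = (y j).psum w := by
      refine pvkp_psum_all pos w _ fun k hk => ?_
      have h1 := hy j j hj hj k hk
      have h2 := hy ((j + 1) % n) j (hm _) hj k hk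
      rw [hD (j + 1) hj] at h2
      simp only [Set.mem_compl_iff, Set.mem_union, not_or]
      exact ⟨h1, h2⟩
    have e3 : pvwMass T pos w (Dc j ∪ Dc (j + 1))ᶜ (𝔖 (j + 1)).inn 0 (𝔖 (j + 1)).ip = c (j + 1) := by
      refine pvkp_mass_congr pos w _ fun k _ hk => ?_
      have hip : (𝔖 (j + 1)).ip ≤ (𝔖 (j + 1)).inn.n := (H.con j hj).au'.ip_le
      have := hin j ((j + 1) % n) hj (hm _) (hne j hj).symm k (by rw [hSm (j + 1) hj]; omega)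
      rw [hSm (j + 1) hj] at this
      simp only [Set.mem_compl_iff, Set.mem_union, not_or]
      exact ⟨fun h => h.2, fun h => ⟨this, h⟩⟩
    rw [e1, e2, e3, pvkp_psum_split pos w (𝔖 j).inn (Dc j) (H.con j hj).au.ip_le]
    ring
  rw [Finset.sum_congr rfl fun j hj => key j (Finset.mem_range.1 hj), Finset.sum_add_distrib (g := fun j => c (j + 1)), hB, ← Finset.sum_add_distrib]
  exact Finset.sum_congr rfl fun j _ => by ring

/-- **CLOSE-P, the rim** -/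
theorem pvkp_ring_cyc (hT : T.IsSph) (hS : T.Simple) (G : PvkpGeo n 𝔯 Kc) (H : PvkpRing T s mk n 𝔯 Kc 𝔖 y) (hfin : ∀ j, j < n → (𝔖 j).g2.c.Left.Finite) :
    ∃ P : T.Cyc, P.IsRim s ∧ (∀ f, (∃ i, f = P.e i) ↔ ∃ j, j < n ∧ ((∃ i, i < (𝔖 j).inn.n ∧ f = (𝔖 j).inn.e i) ∨ ∃ i, i < (y j).n ∧ f = (y j).e i)) ∧
      (∀ w : D → ℂ, ∑ k ∈ Finset.range P.n, w (T.opp (P.e k)) = T.lsum s w (T.opp ((𝔖 0).inn.e 0))) ∧
      ∀ k, ∃ j, j < n ∧ (mk (T.src (P.e k)) ∈ 𝔯 j .S2 ∨ mk (T.src (P.e k)) ∈ Kc j) := by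
  classical
  have R := pvkp_ring hT hS G H hfin
  obtain ⟨P, hrim, hP⟩ := pvgz_ring_cyc hT hS R (Or.inl G.two)
  refine ⟨P, hrim, hP, fun w => ?_, fun k => ?_⟩
  · have hlab := (pvgz_ring hT hS R).2.1
    unfold PvMap.lsum
    have hset : {d' | T.SameLab s (T.opp ((𝔖 0).inn.e 0)) d'} = ((Finset.range P.n).image fun i => T.opp (P.e i) : Finset D) := by
      ext d'
      simp only [Set.mem_ofPred_eq, Finset.coe_image, Finset.coe_range, Set.mem_image, Set.mem_Iio]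
      rw [hlab d']
      constructor
      · intro h
        have h' : ∃ i, T.opp d' = P.e i := by
          rw [hP]
          obtain ⟨j, hj, ⟨i, hi, e⟩ | ⟨i, hi, e⟩⟩ := h
          · exact ⟨j, hj, Or.inl ⟨i, hi, by rw [e, T.opp_opp]⟩⟩
          · exact ⟨j, hj, Or.inr ⟨i, hi, by rw [e, T.opp_opp]⟩⟩
        obtain ⟨i, hi⟩ := h'
        exact ⟨i % P.n, Nat.mod_lt _ (pl_cyc_pos P), by rw [pl_cyc_mod, ← hi, T.opp_opp]⟩
      · rintro ⟨i, -, rfl⟩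
        obtain ⟨j, hj, ⟨i', hi', e⟩ | ⟨i', hi', e⟩⟩ := (hP (P.e i)).1 ⟨i, rfl⟩
        · exact ⟨j, hj, Or.inl ⟨i', hi', by rw [e]⟩⟩
        · exact ⟨j, hj, Or.inr ⟨i', hi', by rw [e]⟩⟩
    have h1 : ∑ᶠ (d' : D) (_ : T.SameLab s (T.opp ((𝔖 0).inn.e 0)) d'), w d' = ∑ᶠ d' ∈ {d' | T.SameLab s (T.opp ((𝔖 0).inn.e 0)) d'}, w d' := rfl
    rw [h1, hset, finsum_mem_coe_finset, Finset.sum_image]
    intro i hi j hj hij
    have h2 : P.e i = P.e j := T.opp_injective hij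
    exact P.inj i j (Finset.mem_range.1 hi) (Finset.mem_range.1 hj) (by rw [h2])
  · obtain ⟨j, hj, ⟨i, hi, e⟩ | ⟨i, hi, e⟩⟩ := (hP (P.e k)).1 ⟨k, rfl⟩
    · refine ⟨j, hj, Or.inl ?_⟩
      rw [e, (𝔖 j).inn.src_e i hi]
      exact pvkp_inn_zone (G.nest j hj) (H.con j hj).st (H.con j hj).au hi.le
    · refine ⟨j, hj, Or.inr ?_⟩
      rw [e, (y j).src_e i hi]
      exact pvkp_y_zone (H.con j hj).lk hi.le

open Classical in
/-- **CLOSE-P, `X_e = x_P'(1_{U_e})`** : a spatial mask `U` which contains the barycentres of the tags counted in `X_{j₀}` and no other barycentre of a tag of the ring -/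
theorem pvkp_ring_mask (hT : T.IsSph) (hS : T.Simple) (G : PvkpGeo n 𝔯 Kc) (H : PvkpRing T s mk n 𝔯 Kc 𝔖 y) (hfin : ∀ j, j < n → (𝔖 j).g2.c.Left.Finite)
    (pos : V → ℂ) (Dc : ℕ → Set ℂ) {j₀ : ℕ} (hj₀ : j₀ < n) (U : Set ℂ)
    (hUc : Dc j₀ ⊆ U) (hUc' : Disjoint (Dc (j₀ + 1)) U)
    (hy : ∀ j, j < n → ∀ k, k < (y j).n → (T.bary pos (T.opp ((y j).e k)) ∈ U ↔ j = j₀) ∧ T.bary pos (T.opp ((y j).e k)) ∉ Dc j₀ ∪ Dc (j₀ + 1))
    (hin : ∀ j, j < n → j ≠ j₀ → j ≠ (j₀ + 1) % n → ∀ k, k < (𝔖 j).inn.n → T.bary pos (T.opp ((𝔖 j).inn.e k)) ∉ U)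
    (h0 : ∀ k, k < (𝔖 j₀).inn.n → T.bary pos (T.opp ((𝔖 j₀).inn.e k)) ∉ Dc j₀ → (T.bary pos (T.opp ((𝔖 j₀).inn.e k)) ∈ U ↔ (𝔖 j₀).ip ≤ k) ∧ T.bary pos (T.opp ((𝔖 j₀).inn.e k)) ∉ Dc (j₀ + 1))
    (h1 : ∀ k, k < (𝔖 (j₀ + 1)).inn.n → T.bary pos (T.opp ((𝔖 (j₀ + 1)).inn.e k)) ∉ Dc (j₀ + 1) →
      (T.bary pos (T.opp ((𝔖 (j₀ + 1)).inn.e k)) ∈ U ↔ k < (𝔖 (j₀ + 1)).ip) ∧ T.bary pos (T.opp ((𝔖 (j₀ + 1)).inn.e k)) ∉ Dc j₀)
    (w : D → ℂ) :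
    pvkpF T pos w (Dc j₀) (Dc (j₀ + 1)) (𝔖 j₀) (𝔖 (j₀ + 1)) (y j₀) = T.lsum s (fun d => if T.bary pos d ∈ U then w d else 0) (T.opp ((𝔖 0).inn.e 0)) := by
  have hn2 := G.two
  have hn : 0 < n := by omega
  have R := pvkp_ring hT hS G H hfin
  rw [(pvgz_ring hT hS R).2.2, Finset.sum_add_distrib]
  have hm : (j₀ + 1) % n < n := Nat.mod_lt _ hn
  have hSm : 𝔖 ((j₀ + 1) % n) = 𝔖 (j₀ + 1) := by
    rcases Nat.lt_or_ge (j₀ + 1) n with h1 | h1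
    · rw [Nat.mod_eq_of_lt h1]
    · rw [show j₀ + 1 = n by omega, Nat.mod_self, H.per]
  have hne : j₀ ≠ (j₀ + 1) % n := by
    rcases Nat.lt_or_ge (j₀ + 1) n with h1 | h1
    · rw [Nat.mod_eq_of_lt h1]; omega
    · rw [show j₀ + 1 = n by omega, Nat.mod_self]; omega
  -- the links
  have eY : ∑ j ∈ Finset.range n, (y j).psum (fun d => if T.bary pos d ∈ U then w d else 0) = pvwMass T pos w (Dc j₀ ∪ Dc (j₀ + 1))ᶜ (y j₀) 0 (y j₀).n := by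
    rw [Finset.sum_eq_single j₀]
    · rw [pvkp_psum_all pos w _ fun k hk => (hy j₀ hj₀ k hk).2]
      unfold PvMap.Pth.psum
      exact Finset.sum_congr rfl fun k hk => if_pos (((hy j₀ hj₀ k (Finset.mem_range.1 hk)).1).2 rfl)
    · intro j hj hjj
      unfold PvMap.Pth.psum
      exact Finset.sum_eq_zero fun k hk => if_neg fun h => hjj (((hy j (Finset.mem_range.1 hj) k (Finset.mem_range.1 hk)).1).1 h)
    · intro h; exact absurd (Finset.mem_range.2 hj₀) h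
  -- the inner arcs
  have eI : ∑ j ∈ Finset.range n, (𝔖 j).inn.psum (fun d => if T.bary pos d ∈ U then w d else 0) =
      (𝔖 j₀).inn.psum (fun d => if T.bary pos d ∈ U then w d else 0) + (𝔖 (j₀ + 1)).inn.psum (fun d => if T.bary pos d ∈ U then w d else 0) := by
    rw [Finset.sum_eq_add j₀ ((j₀ + 1) % n) hne, hSm]
    · rintro j hj ⟨a1, a2⟩
      unfold PvMap.Pth.psum
      exact Finset.sum_eq_zero fun k hk => if_neg (hin j (Finset.mem_range.1 hj) a1 a2 k (Finset.mem_range.1 hk))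
    · intro h; exact absurd (Finset.mem_range.2 hj₀) h
    · intro h; exact absurd (Finset.mem_range.2 hm) h
  have e0 : (𝔖 j₀).inn.psum (fun d => if T.bary pos d ∈ U then w d else 0) =
      pvwMass T pos w (Dc j₀) (𝔖 j₀).inn 0 (𝔖 j₀).inn.n + pvwMass T pos w (Dc j₀ ∪ Dc (j₀ + 1))ᶜ (𝔖 j₀).inn (𝔖 j₀).ip (𝔖 j₀).inn.n := by
    have hip := (H.con j₀ hj₀).au.ip_le
    have a1 : pvwMass T pos w (Dc j₀ ∪ Dc (j₀ + 1))ᶜ (𝔖 j₀).inn (𝔖 j₀).ip (𝔖 j₀).inn.n =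
        ∑ k ∈ Finset.Ico 0 (𝔖 j₀).inn.n, if (𝔖 j₀).ip ≤ k ∧ T.bary pos (T.opp ((𝔖 j₀).inn.e k)) ∈ (Dc j₀ ∪ Dc (j₀ + 1))ᶜ then w (T.opp ((𝔖 j₀).inn.e k)) else 0 := by
      unfold pvwMass
      rw [← Finset.sum_Ico_consecutive _ (Nat.zero_le _) hip, Finset.sum_eq_zero (s := Finset.Ico 0 (𝔖 j₀).ip), zero_add]
      · refine Finset.sum_congr rfl fun k hk => ?_
        have := (Finset.mem_Ico.1 hk).1
        by_cases hb : T.bary pos (T.opp ((𝔖 j₀).inn.e k)) ∈ (Dc j₀ ∪ Dc (j₀ + 1))ᶜ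
        · rw [if_pos hb, if_pos ⟨this, hb⟩]
        · rw [if_neg hb, if_neg fun h => hb h.2]
      · intro k hk
        have := (Finset.mem_Ico.1 hk).2
        exact if_neg fun h => by omega
    rw [a1]
    unfold pvwMass PvMap.Pth.psum
    rw [← Finset.sum_add_distrib, Finset.range_eq_Ico]
    refine Finset.sum_congr rfl fun k hk => ?_
    have hk' := (Finset.mem_Ico.1 hk).2
    beta_reduce
    by_cases hD : T.bary pos (T.opp ((𝔖 j₀).inn.e k)) ∈ Dc j₀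
    · rw [if_pos (hUc hD), if_pos hD, if_neg (fun h => h.2 (Or.inl hD)), add_zero]
    · obtain ⟨b1, b2⟩ := h0 k hk' hD
      rw [if_neg hD, zero_add]
      by_cases hU : T.bary pos (T.opp ((𝔖 j₀).inn.e k)) ∈ U
      · rw [if_pos hU, if_pos ⟨b1.1 hU, fun h => h.elim hD b2⟩]
      · rw [if_neg hU, if_neg fun h => hU (b1.2 h.1)]
  have e1 : (𝔖 (j₀ + 1)).inn.psum (fun d => if T.bary pos d ∈ U then w d else 0) =
      pvwMass T pos w (Dc j₀ ∪ Dc (j₀ + 1))ᶜ (𝔖 (j₀ + 1)).inn 0 (𝔖 (j₀ + 1)).ip := by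
    have hip := (H.con j₀ hj₀).au'.ip_le
    unfold pvwMass PvMap.Pth.psum
    rw [Finset.range_eq_Ico, ← Finset.sum_Ico_consecutive _ (Nat.zero_le _) hip, Finset.sum_eq_zero (s := Finset.Ico (𝔖 (j₀ + 1)).ip (𝔖 (j₀ + 1)).inn.n), add_zero]
    · refine Finset.sum_congr rfl fun k hk => ?_
      have hk' := (Finset.mem_Ico.1 hk).2
      beta_reduce
      by_cases hD : T.bary pos (T.opp ((𝔖 (j₀ + 1)).inn.e k)) ∈ Dc (j₀ + 1)
      · rw [if_neg (Set.disjoint_left.1 hUc' hD), if_neg (fun h => h (Or.inr hD))]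
      · obtain ⟨b1, b2⟩ := h1 k (by omega) hD
        rw [if_pos (b1.2 hk'), if_pos (show T.bary pos (T.opp ((𝔖 (j₀ + 1)).inn.e k)) ∈ (Dc j₀ ∪ Dc (j₀ + 1))ᶜ from fun h => h.elim b2 hD)]
    · intro k hk
      obtain ⟨k1, k2⟩ := Finset.mem_Ico.1 hk
      by_cases hD : T.bary pos (T.opp ((𝔖 (j₀ + 1)).inn.e k)) ∈ Dc (j₀ + 1)
      · exact if_neg (Set.disjoint_left.1 hUc' hD)
      · exact if_neg fun h => by have := (h1 k k2 hD).1.1 h; omega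
  rw [eY, eI, e0, e1]
  unfold pvkpF
  ring

/-- the right triangle of an edge of the link is a face crossed by the run: its three vertices are marked in the corridor -/
theorem pvkp_y_tag (hS : T.Simple) {Kc₀ : Set κ} {𝔖₀ 𝔖₁ : PvspSt T s} {y₀ : T.Pth} (h : PvkpRun T s mk Kc₀ 𝔖₀ 𝔖₁ y₀) {k : ℕ} (hk : k < y₀.n) : mk (T.apex (T.opp (y₀.e k))) ∈ Kc₀ := by
  have hF := pvt_sd_faced hS (pvtg_aOut_bw 𝔖₀.g2) h.arc
  have h1 := (hF.2 k hk).1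
  have h3 := (pvld_run_hit h.run).2.2
  exact h3 ⟨T.nxt (T.nxt (T.opp (y₀.e k))), ((pvas_fc_face s _ _).nxt2 T _).2 h1, rfl⟩

end ring

/-! ## 4. LEVEL B: placed connectors, the event `A_e`, the field `X_e` on `Conf PvPt` -/

/-- the marks of a connector: the twelve tests of the source plug, the twelve tests of the target plug, the test of the corridor -/
abbrev PvkpMk : Type := (PvspIx → Bool) × (PvspIx → Bool) × Bool

/-- the universal regions of the source plug -/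
def pvkpR1 : PvspReg PvkpMk := pvspRegB.comap Prod.fst
/-- the universal regions of the target plug -/
def pvkpR2 : PvspReg PvkpMk := pvspRegB.comap fun f => f.2.1
/-- the universal corridor -/
def pvkpKB : Set PvkpMk := {f | f.2.2 = true}

/-- **A PLACED CONNECTOR** `e : u → u'` : ABSOLUTE subsets of the plane.   `r`, `r'` = the twelve regions of the two plugs (`t.reg N z h` of 185; the two scales may differ), `Kc` = the corridor (sites of the run),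
`Dc`, `Dc'` = the cut-off discs of the two plugs, `E` = the window (`= O_u ∪ O_u' ∪ K_e` of the engine), `ρ` = the mesh -/
structure PvkpCn where
  col : Bool
  r : PvspReg ℂ
  r' : PvspReg ℂ
  Kc : Set ℂ
  Dc : Set ℂ
  Dc' : Set ℂ
  E : Set ℂ
  ρ : ℝ

namespace PvkpCn

variable (C : PvkpCn)

open Classical in
/-- the tests of a point -/
noncomputable def θ (w : ℂ) : PvkpMk := (pvspTest C.r w, pvspTest C.r' w, decide (w ∈ C.Kc))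

/-- the reading zone -/
def Z : Set ℂ := pvkpZ C.r C.r' C.Kc

/-- the explicit conditions on a placed connector -/
structure Wf : Prop where
  ρ0 : 0 < C.ρ
  nest : C.r.Nest
  nest' : C.r'.Nest
  tubes : C.r .Np ∩ C.r .Nm ⊆ C.r .I2
  tubes' : C.r' .Np ∩ C.r' .Nm ⊆ C.r' .I2
  mr : ∀ i, MeasurableSet (C.r i)
  mr' : ∀ i, MeasurableSet (C.r' i)
  mK : MeasurableSet C.Kc
  mD : MeasurableSet C.Dc
  mD' : MeasurableSet C.Dc'
  win : PvplWin C.E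
  bdd : Bornology.IsBounded C.E
  /-- the reading zone lies deep in the window -/
  core : C.Z ⊆ pvtrCore (3 * C.ρ) C.E

end PvkpCn

open Classical in
/-- the weight of a tag: `1_M(barycentre) (q - a v)` as a function of the three positions (source, target, apex) of the tag -/
noncomputable def pvkpW (a : ℂ) (M : Set ℂ) (p : ℂ × ℂ × ℂ) : ℂ :=
  if (p.1 + p.2.1 + p.2.2) / 3 ∈ M then ((p.1 - p.2.1) + pvOm * (p.2.1 - p.2.2) + (starRingEnd ℂ) pvOm * (p.2.2 - p.1)) / 3 - a * (p.1 - p.2.1) else 0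

open Classical in
/-- THE field of a local rule (`0` if there is none) -/
noncomputable def pvkpFld {κ : Type} (θ : ℂ → κ) (Ψ : PvzfPred κ) (K : Set κ) (E : Set ℂ) (ρ : ℝ) (w : ℂ × ℂ × ℂ → ℂ) : Conf PvPt → ℂ :=
  if h : ∃ F, PvzfRep θ Ψ K E ρ w F then h.choose else 0

/-- **THE EVENT `A_e`** (WITH the mesh of its window) -/
noncomputable def pvkpA (C : PvkpCn) : Set (Conf PvPt) :=
  {η | PvtnFin C.E η ∧ PvtrMesh C.ρ C.E (cfSites η) ∧ η ∈ pvspEv C.θ (PvkpPred pvkpR1 pvkpR2 pvkpKB C.col) (pvkpZ pvkpR1 pvkpR2 pvkpKB) C.E C.ρ}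

/-- **THE FIELD `X_e`** of `y_a = Q - a V` -/
noncomputable def pvkpX (C : PvkpCn) (a : ℂ) (η : Conf PvPt) : ℂ :=
  pvkpFld C.θ (PvkpTagC pvkpR1 pvkpR2 pvkpKB C.col) (pvkpZ pvkpR1 pvkpR2 pvkpKB) C.E C.ρ (pvkpW a C.Dc) η +
    pvkpFld C.θ (PvkpTagF pvkpR1 pvkpR2 pvkpKB C.col) (pvkpZ pvkpR1 pvkpR2 pvkpKB) C.E C.ρ (pvkpW a (C.Dc ∪ C.Dc')ᶜ) η

theorem pvkp_eqns_cite2 : True := by
  have := @pvkpR1.eq_1; have := @pvkpR2.eq_1; have := @pvkpKB.eq_1; have := @PvkpCn.θ.eq_1; have := @PvkpCn.Z.eq_1; have := @pvkpW.eq_1; have := @pvkpFld.eq_1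
  have := @pvkpA.eq_1; have := @pvkpX.eq_1
  trivial

section levelB

variable {C : PvkpCn}

theorem pvkp_R1_nest : pvkpR1.Nest := by
  obtain ⟨h1, h2, h3, h4⟩ := pvsp_regB_nest
  exact ⟨fun _ h => h1 h, fun _ h => h2 h, fun _ h => h3 h, fun _ h => h4 h⟩

theorem pvkp_R2_nest : pvkpR2.Nest := by
  obtain ⟨h1, h2, h3, h4⟩ := pvsp_regB_nest
  exact ⟨fun _ h => h1 h, fun _ h => h2 h, fun _ h => h3 h, fun _ h => h4 h⟩

theorem pvkp_theta_meas (hW : C.Wf) : Measurable C.θ := by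
  classical
  refine (pvsp_test_meas hW.mr).prodMk ((pvsp_test_meas hW.mr').prodMk ?_)
  refine measurable_to_bool ?_
  have e : (fun w : ℂ => decide (w ∈ C.Kc)) ⁻¹' {true} = C.Kc := by
    ext p; simp
  rw [e]; exact hW.mK

/-- the zone in tests is the zone in positions -/
theorem pvkp_Z_test (C : PvkpCn) : C.θ ⁻¹' (pvkpZ pvkpR1 pvkpR2 pvkpKB) = C.Z := by
  classical
  ext w
  simp [PvkpCn.Z, pvkpZ, pvkpR1, pvkpR2, pvkpKB, PvkpCn.θ, PvspReg.comap, pvspRegB, pvspTest]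

theorem pvkp_W_meas (a : ℂ) {M : Set ℂ} (hM : MeasurableSet M) : Measurable (pvkpW a M) := by
  classical
  unfold pvkpW
  refine Measurable.ite ?_ (by fun_prop) measurable_const
  exact hM.preimage (f := fun p : ℂ × ℂ × ℂ => (p.1 + p.2.1 + p.2.2) / 3) (by fun_prop)

open Classical in
/-- the weight at the three positions of the face of a dart -/
theorem pvkp_W_eq {V D : Type} (T : PvMap V D) (pos : V → ℂ) (a : ℂ) (M : Set ℂ) (d : D) :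
    pvkpW a M (pos (T.src d), pos (T.tgt d), pos (T.apex d)) = if T.bary pos d ∈ M then T.qpart pos d - a * T.side pos d else 0 := by
  have e1 : T.side pos (T.nxt d) = pos (T.tgt d) - pos (T.apex d) := rfl
  have e2 : T.side pos (T.nxt (T.nxt d)) = pos (T.apex d) - pos (T.src d) := by
    unfold PvMap.side
    rw [T.src_nxt2, T.tgt_nxt2]
  simp only [pvkpW, PvMap.bary, PvMap.qpart, e1, e2]
  rfl

/-- positions ⟷ tests -/
theorem pvkp_at_test (hW : C.Wf) {V D : Type} (T : PvMap V D) (pos : V → ℂ) (s : V → Bool) (𝔖 𝔖' : PvspSt T s) (y : T.Pth) :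
    PvkpAt T s (fun v => C.θ (pos v)) pvkpR1 pvkpR2 pvkpKB 𝔖 𝔖' y ↔ PvkpAt T s pos C.r C.r' C.Kc 𝔖 𝔖' y := by
  classical
  have e1 : pvkpR1.comap C.θ = C.r := by
    rw [← pvsp_reg_test hW.nest]
    rfl
  have e2 : pvkpR2.comap C.θ = C.r' := by
    rw [← pvsp_reg_test hW.nest']
    rfl
  have e3 : C.θ ⁻¹' pvkpKB = C.Kc := by
    ext w
    show (C.θ w).2.2 = true ↔ _
    unfold PvkpCn.θ
    exact decide_eq_true_iff
  have := pvkp_at_comap (T := T) (s := s) (mk := pos) pvkpR1 pvkpR2 pvkpKB C.θ 𝔖 𝔖' y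
  rw [e1, e2, e3] at this
  exact this.symm

theorem PvkpCn.Wf.isEv (hW : C.Wf) : PvspIsEv C.θ (PvkpPred pvkpR1 pvkpR2 pvkpKB C.col) (pvkpZ pvkpR1 pvkpR2 pvkpKB) C.E C.ρ
    (pvspEv C.θ (PvkpPred pvkpR1 pvkpR2 pvkpKB C.col) (pvkpZ pvkpR1 pvkpR2 pvkpKB) C.E C.ρ) := by
  exact pvsp_ev_spec (pvkp_theta_meas hW) (pvkp_pred_local pvkp_R1_nest pvkp_R2_nest pvkpKB C.col) hW.win hW.ρ0 (by rw [pvkp_Z_test]; exact hW.core)

theorem PvkpCn.Wf.repC (hW : C.Wf) (a : ℂ) {M : Set ℂ} (hM : MeasurableSet M) : PvzfRep C.θ (PvkpTagC pvkpR1 pvkpR2 pvkpKB C.col) (pvkpZ pvkpR1 pvkpR2 pvkpKB) C.E C.ρ (pvkpW a M)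
    (pvkpFld C.θ (PvkpTagC pvkpR1 pvkpR2 pvkpKB C.col) (pvkpZ pvkpR1 pvkpR2 pvkpKB) C.E C.ρ (pvkpW a M)) := by
  have hex : ∃ F, PvzfRep C.θ (PvkpTagC pvkpR1 pvkpR2 pvkpKB C.col) (pvkpZ pvkpR1 pvkpR2 pvkpKB) C.E C.ρ (pvkpW a M) F :=
    pvzf_main (pvkp_theta_meas hW) (pvkp_tagC_local pvkp_R1_nest pvkp_R2_nest pvkpKB C.col) (pvkp_supp_C pvkp_R1_nest C.col) hW.win hW.ρ0 (by rw [pvkp_Z_test]; exact hW.core) (pvkp_W_meas a hM)
  unfold pvkpFld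
  rw [dif_pos hex]
  exact hex.choose_spec

theorem PvkpCn.Wf.repF (hW : C.Wf) (a : ℂ) {M : Set ℂ} (hM : MeasurableSet M) : PvzfRep C.θ (PvkpTagF pvkpR1 pvkpR2 pvkpKB C.col) (pvkpZ pvkpR1 pvkpR2 pvkpKB) C.E C.ρ (pvkpW a M)
    (pvkpFld C.θ (PvkpTagF pvkpR1 pvkpR2 pvkpKB C.col) (pvkpZ pvkpR1 pvkpR2 pvkpKB) C.E C.ρ (pvkpW a M)) := by
  have hex : ∃ F, PvzfRep C.θ (PvkpTagF pvkpR1 pvkpR2 pvkpKB C.col) (pvkpZ pvkpR1 pvkpR2 pvkpKB) C.E C.ρ (pvkpW a M) F :=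
    pvzf_main (pvkp_theta_meas hW) (pvkp_tagF_local pvkp_R1_nest pvkp_R2_nest pvkpKB C.col) (pvkp_supp_F pvkp_R1_nest pvkp_R2_nest C.col) hW.win hW.ρ0 (by rw [pvkp_Z_test]; exact hW.core) (pvkp_W_meas a hM)
  unfold pvkpFld
  rw [dif_pos hex]
  exact hex.choose_spec

/-- **`A_e` is MEASURABLE** -/
theorem pvkp_A_meas (hW : C.Wf) : MeasurableSet (pvkpA C) := by
  have e : pvkpA C = {η : Conf PvPt | PvtnFin C.E η ∧ PvtrMesh C.ρ C.E (cfSites η)} ∩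
      pvspEv C.θ (PvkpPred pvkpR1 pvkpR2 pvkpKB C.col) (pvkpZ pvkpR1 pvkpR2 pvkpKB) C.E C.ρ := by
    ext η
    exact ⟨fun h => ⟨⟨h.1, h.2.1⟩, h.2.2⟩, fun h => ⟨h.1.1, h.1.2, h.2⟩⟩
  rw [e]
  exact (pvsp_mesh_meas hW.win.1 hW.bdd _).inter hW.isEv.meas

/-- **`A_e` is READ FROM ITS WINDOW** (literally) -/
theorem pvkp_A_reads (hW : C.Wf) : Conf.ReadsSet (C.E ×ˢ univ) (pvkpA C) := by
  intro η
  have h1 := pvtn_reads_fin C.E η
  have h2 : PvtrMesh C.ρ C.E (cfSites (Conf.restr (C.E ×ˢ univ) η)) = PvtrMesh C.ρ C.E (cfSites η) := pvtr_reads_mesh C.ρ C.E η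
  have h3 := hW.isEv.reads η
  show (PvtnFin _ _ ∧ PvtrMesh _ _ _ ∧ _ ∈ _) ↔ (PvtnFin _ _ ∧ PvtrMesh _ _ _ ∧ _ ∈ _)
  rw [h2, h3]
  exact and_congr h1 Iff.rfl

/-- **`X_e` is MEASURABLE** -/
theorem pvkp_X_meas (hW : C.Wf) (a : ℂ) : Measurable (pvkpX C a) := by
  exact (hW.repC a hW.mD).1.add (hW.repF a (hW.mD.union hW.mD').compl).1

/-- **`X_e` is READ FROM ITS WINDOW** (literally) -/
theorem pvkp_X_reads (hW : C.Wf) (a : ℂ) : Conf.Reads (C.E ×ˢ univ) (pvkpX C a) := by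
  intro η
  unfold pvkpX
  rw [(hW.repC a hW.mD).2.1 η, (hW.repF a (hW.mD.union hW.mD').compl).2.1 η]

/-- the test of a point off the reading zone -/
theorem pvkp_zi_test (C : PvkpCn) {zi : ℂ} (hzi : zi ∉ C.Z) : C.θ zi ∉ pvkpZ pvkpR1 pvkpR2 pvkpKB := by
  intro hc
  have : zi ∈ C.θ ⁻¹' (pvkpZ pvkpR1 pvkpR2 pvkpKB) := hc
  rw [pvkp_Z_test] at this
  exact hzi this

/-- **DICTIONARY of `A_e`**: for EVERY completion which agrees with Delaunay on the reading zone, the event is the predicate IN POSITIONS -/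
theorem pvkp_A_dict (hW : C.Wf) {X : Type} (𝔅 : PvBulk X) (η : Conf PvPt) (ξ : X → Bool) {zi : ℂ} (hok : 𝔅.Ok (cfSites η) C.Z) (hzi : zi ∉ C.Z) :
    η ∈ pvkpA C ↔ PvtnFin C.E η ∧ PvtrMesh C.ρ C.E (cfSites η) ∧ PvkpPred C.r C.r' C.Kc C.col _ _ (𝔅.T (cfSites η)) (𝔅.posF _ zi) (𝔅.col η ξ) := by
  refine and_congr_right fun hf => and_congr_right fun hm => ?_
  have hd := hW.isEv.dict X 𝔅 η ξ zi hf (by rw [pvkp_Z_test]; exact hok) hm (pvkp_zi_test C hzi)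
  rw [hd]
  exact exists_congr fun 𝔖 => exists_congr fun 𝔖' => exists_congr fun y => pvkp_at_test hW _ _ _ _ _ _

/-- a point outside the reading zone -/
theorem PvkpCn.Wf.exists_far (hW : C.Wf) : ∃ zi : ℂ, zi ∉ C.Z := by
  have hb : Bornology.IsBounded C.Z := hW.bdd.subset (hW.core.trans (pvtr_core_subset (by have := hW.ρ0; positivity)))
  by_contra hcon
  have hu : C.Z = univ := eq_univ_of_forall fun w => by_contra fun hw => hcon ⟨w, hw⟩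
  rw [hu] at hb
  exact (NormedSpace.unbounded_univ ℝ ℂ) hb

/-- **DICTIONARY of `A_e` IN THE DELAUNAY PLANE** -/
theorem pvkp_A_plane (hW : C.Wf) {η : Conf PvPt} (hη : DelGood (cfSites η)) :
    η ∈ pvkpA C ↔ PvtnFin C.E η ∧ PvtrMesh C.ρ C.E (cfSites η) ∧ PvkpPred C.r C.r' C.Kc C.col _ _ (delbPlane.T (cfSites η)) (delbPlane.pos (cfSites η)) (delbPlane.col η Empty.elim) := by
  obtain ⟨zi, hzi⟩ := hW.exists_far
  have h1 := pvkp_A_dict hW delbPlane η Empty.elim (delb_ok_mono (subset_univ _) (delb_plane_ok hη)) hzi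
  have e : delbPlane.posF (cfSites η) zi = delbPlane.pos (cfSites η) := rfl
  rw [e] at h1
  exact h1

section x109

variable {V D κ : Type} {T : PvMap V D} {s : V → Bool} {mk : V → κ} {𝔯 𝔯' : PvspReg κ} {Kc : Set κ} {𝔖 𝔖' : PvspSt T s} {y : T.Pth}

/-- the vertices of the inner arc lie on the closed inside of the gate -/
theorem pvkp_109_inn_left (hA : 𝔖.At mk 𝔯) {i : ℕ} (hi : i ≤ 𝔖.inn.n) : 𝔖.inn.v i ∈ T.VOf 𝔖.g2.c.Left := by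
  obtain ⟨t, ht, e⟩ := pvt_sd_verts hA.arc ⟨i, hi, rfl⟩
  rw [← e]
  rcases Nat.lt_or_ge t 𝔖.g2.len with h | h
  · exact ⟨_, not_not.1 (Nat.notMem_of_lt_sInf h), rfl⟩
  · have e1 : t = 𝔖.g2.len := by omega
    rw [e1, show pvasIt T s 𝔖.g2.aIn 𝔖.g2.len = 𝔖.g2.aOut from hA.sel2.thru, pvtg_aOut_src]
    exact ⟨_, hA.sel2.on 𝔖.g2.m, rfl⟩

/-- the darts of the three arcs of a connector are pairwise distinct (star zones disjoint) -/
theorem pvkp_109_tags (hN : 𝔯.Nest) (hN' : 𝔯'.Nest) (hdS : Disjoint (𝔯 .S2) (𝔯' .S2)) (h : PvkpAt T s mk 𝔯 𝔯' Kc 𝔖 𝔖' y) :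
    (∀ i k, i < 𝔖.inn.n → k < y.n → 𝔖.inn.e i ≠ y.e k) ∧ (∀ i k, i < 𝔖'.inn.n → k < y.n → 𝔖'.inn.e i ≠ y.e k) ∧ ∀ i k, i < 𝔖.inn.n → k < 𝔖'.inn.n → 𝔖.inn.e i ≠ 𝔖'.inn.e k := by
  have hz : ∀ i, i ≤ 𝔖.inn.n → mk (𝔖.inn.v i) ∈ 𝔯 .S2 := fun i hi => pvkp_inn_zone hN h.st h.au hi
  have hz' : ∀ i, i ≤ 𝔖'.inn.n → mk (𝔖'.inn.v i) ∈ 𝔯' .S2 := fun i hi => pvkp_inn_zone hN' h.st' h.au' hi
  have hy0 : y.v 0 = 𝔖.inn.v 𝔖.inn.n := by rw [(pvkp_y_ends h.lk).1, pvkp_inn_last h.au]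
  have hyn : y.v y.n = 𝔖'.inn.v 0 := by rw [(pvkp_y_ends h.lk).2, pvkp_inn_first h.au']
  refine ⟨fun i k hi hk e => ?_, fun i k hi hk e => ?_, fun i k hi hk e => ?_⟩
  · have e1 : 𝔖.inn.v i = y.v k := by rw [← 𝔖.inn.src_e i hi, e, y.src_e k hk]
    have e2 : 𝔖.inn.v (i + 1) = y.v (k + 1) := by rw [← 𝔖.inn.tgt_e i hi, e, y.tgt_e k hk]
    rcases Nat.eq_zero_or_pos k with rfl | hk0
    · rcases Nat.lt_or_ge 1 y.n with h1 | h1
      · exact (h.lk.off 1 one_pos h1).1 (e2 ▸ pvkp_109_inn_left h.au hi)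
      · have : 0 + 1 = y.n := by omega
        rw [this, hyn] at e2
        exact Set.disjoint_left.1 hdS (hz _ hi) (e2 ▸ hz' 0 (Nat.zero_le _))
    · exact (h.lk.off k hk0 hk).1 (e1 ▸ pvkp_109_inn_left h.au hi.le)
  · have e1 : 𝔖'.inn.v i = y.v k := by rw [← 𝔖'.inn.src_e i hi, e, y.src_e k hk]
    have e2 : 𝔖'.inn.v (i + 1) = y.v (k + 1) := by rw [← 𝔖'.inn.tgt_e i hi, e, y.tgt_e k hk]
    rcases Nat.eq_zero_or_pos k with rfl | hk0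
    · rw [hy0] at e1
      exact Set.disjoint_left.1 hdS (hz _ le_rfl) (e1 ▸ hz' i hi.le)
    · exact (h.lk.off k hk0 hk).2 (e1 ▸ pvkp_109_inn_left h.au' hi.le)
  · have e1 : 𝔖.inn.v i = 𝔖'.inn.v k := by rw [← 𝔖.inn.src_e i hi, e, 𝔖'.inn.src_e k hk]
    exact Set.disjoint_left.1 hdS (hz _ hi.le) (e1 ▸ hz' k hk.le)

/-- a sum over the tags of a stretch of a path -/
theorem pvkp_109_sum (p : T.Pth) (g : D → ℂ) {i j : ℕ} (hj : j ≤ p.n) :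
    ∑ᶠ d ∈ {d | ∃ k, i ≤ k ∧ k < j ∧ d = T.opp (p.e k)}, g d = ∑ k ∈ Finset.Ico i j, g (T.opp (p.e k)) := by
  have e : {d | ∃ k, i ≤ k ∧ k < j ∧ d = T.opp (p.e k)} = (fun k => T.opp (p.e k)) '' (Finset.Ico i j : Set ℕ) := by
    ext d
    simp only [mem_setOf_eq, mem_image, Finset.coe_Ico, mem_Ico]
    exact ⟨fun ⟨k, h1, h2, h3⟩ => ⟨k, ⟨h1, h2⟩, h3.symm⟩, fun ⟨k, ⟨h1, h2⟩, h3⟩ => ⟨k, h1, h2, h3.symm⟩⟩
  rw [e, finsum_mem_image, finsum_mem_coe_finset]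
  intro a ha b hb hab
  simp only [Finset.coe_Ico, mem_Ico] at ha hb
  have h1 : p.e a = p.e b := T.opp_injective hab
  exact p.inj a b (by omega) (by omega) (by rw [← p.src_e a (by omega), h1, p.src_e b (by omega)])

end x109

/-- **DICTIONARY of `X_e`**: on the mesh event, at ANY witnesses of the connector in ANY completion, the field is the index form      [109: `hdS` (star zones of the two plugs disjoint = `PvkpGeo.dSS`) is NEEDED: the field sums over the SET of the tags, the index form over the three arcs] -/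
theorem pvkp_X_dict (hW : C.Wf) (a : ℂ) {X : Type} (𝔅 : PvBulk X) (η : Conf PvPt) (ξ : X → Bool) {zi : ℂ} (hok : 𝔅.Ok (cfSites η) C.Z) (hzi : zi ∉ C.Z)
    (hf : PvtnFin C.E η) (hm : PvtrMesh C.ρ C.E (cfSites η)) (hdS : Disjoint (C.r .S2) (C.r' .S2)) {𝔖 𝔖' : PvspSt (𝔅.T (cfSites η)) (pvspS C.col (𝔅.col η ξ))} {y : (𝔅.T (cfSites η)).Pth}
    (hA : PvkpAt (𝔅.T (cfSites η)) (pvspS C.col (𝔅.col η ξ)) (𝔅.posF _ zi) C.r C.r' C.Kc 𝔖 𝔖' y) :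
    pvkpX C a η = pvkpF (𝔅.T (cfSites η)) (𝔅.posF _ zi) (fun d => (𝔅.T (cfSites η)).qpart (𝔅.posF _ zi) d - a * (𝔅.T (cfSites η)).side (𝔅.posF _ zi) d) C.Dc C.Dc' 𝔖 𝔖' y := by
  classical
  have hok' : 𝔅.Ok (cfSites η) (C.θ ⁻¹' pvkpZ pvkpR1 pvkpR2 pvkpKB) := by rw [pvkp_Z_test]; exact hok
  unfold pvkpX
  rw [(hW.repC a hW.mD).2.2 X 𝔅 η ξ zi hf hok' hm (pvkp_zi_test C hzi), (hW.repF a (hW.mD.union hW.mD').compl).2.2 X 𝔅 η ξ zi hf hok' hm (pvkp_zi_test C hzi)]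
  have hT := hok.sph
  have hS := hok.simple
  have hA0 := (pvkp_at_test hW _ _ _ _ _ _).2 hA
  have hu : ∀ (𝔗 𝔗' : PvspSt (𝔅.T (cfSites η)) (pvspS C.col (𝔅.col η ξ))) (y' : (𝔅.T (cfSites η)).Pth),
      PvkpAt (𝔅.T (cfSites η)) (pvspS C.col (𝔅.col η ξ)) (fun v => C.θ (𝔅.posF _ zi v)) pvkpR1 pvkpR2 pvkpKB 𝔗 𝔗' y' →
        (𝔗.inn.n = 𝔖.inn.n ∧ (∀ i, i < 𝔗.inn.n → 𝔗.inn.e i = 𝔖.inn.e i) ∧ 𝔗.ip = 𝔖.ip) ∧ (𝔗'.inn.n = 𝔖'.inn.n ∧ (∀ i, i < 𝔗'.inn.n → 𝔗'.inn.e i = 𝔖'.inn.e i) ∧ 𝔗'.ip = 𝔖'.ip) ∧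
          y'.n = y.n ∧ ∀ i, i < y'.n → y'.e i = y.e i := by
    intro 𝔗 𝔗' y' h
    have h' := (pvkp_at_test hW _ _ _ _ _ _).1 h
    obtain ⟨e, a1, -, a3, a4⟩ := pvkp_st_unique hT hS (fun v h1 h2 => hW.tubes ⟨h1, h2⟩) h'.au hA.au
    obtain ⟨e', b1, -, b3, b4⟩ := pvkp_st_unique hT hS (fun v h1 h2 => hW.tubes' ⟨h1, h2⟩) h'.au' hA.au'
    obtain ⟨c1, -, c3⟩ := pvkp_run_unique hS e e' h'.lk hA.lk
    exact ⟨⟨a1, a3, a4⟩, ⟨b1, b3, b4⟩, c1, c3⟩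
  have e1 : pvzfS 𝔅 C.θ (PvkpTagC pvkpR1 pvkpR2 pvkpKB C.col) η ξ zi = {d | ∃ k, 0 ≤ k ∧ k < 𝔖.inn.n ∧ d = (𝔅.T (cfSites η)).opp (𝔖.inn.e k)} := by
    ext d
    constructor
    · rintro ⟨𝔗, 𝔗', y', h, i, hi, rfl⟩
      obtain ⟨⟨a1, a3, -⟩, -, -⟩ := hu _ _ _ h
      exact ⟨i, Nat.zero_le _, a1 ▸ hi, by rw [a3 i hi]⟩
    · rintro ⟨i, -, hi, rfl⟩
      exact ⟨𝔖, 𝔖', y, hA0, i, hi, rfl⟩
  have e2 : pvzfS 𝔅 C.θ (PvkpTagF pvkpR1 pvkpR2 pvkpKB C.col) η ξ zi = {d | ∃ k, 𝔖.ip ≤ k ∧ k < 𝔖.inn.n ∧ d = (𝔅.T (cfSites η)).opp (𝔖.inn.e k)} ∪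
      {d | ∃ k, 0 ≤ k ∧ k < y.n ∧ d = (𝔅.T (cfSites η)).opp (y.e k)} ∪ {d | ∃ k, 0 ≤ k ∧ k < 𝔖'.ip ∧ d = (𝔅.T (cfSites η)).opp (𝔖'.inn.e k)} := by
    ext d
    constructor
    · rintro ⟨𝔗, 𝔗', y', h, h3⟩
      obtain ⟨⟨a1, a3, a4⟩, ⟨b1, b3, b4⟩, c1, c3⟩ := hu _ _ _ h
      have hip := ((pvkp_at_test hW _ _ _ _ _ _).1 h).au'.ip_le
      rcases h3 with ⟨i, h1, hi, rfl⟩ | ⟨i, hi, rfl⟩ | ⟨i, hi, rfl⟩
      · exact Or.inl (Or.inl ⟨i, a4 ▸ h1, a1 ▸ hi, by rw [a3 i hi]⟩)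
      · exact Or.inl (Or.inr ⟨i, Nat.zero_le _, c1 ▸ hi, by rw [c3 i hi]⟩)
      · exact Or.inr ⟨i, Nat.zero_le _, b4 ▸ hi, by rw [b3 i (by omega)]⟩
    · rintro ((⟨i, h1, hi, rfl⟩ | ⟨i, -, hi, rfl⟩) | ⟨i, -, hi, rfl⟩)
      · exact ⟨𝔖, 𝔖', y, hA0, Or.inl ⟨i, h1, hi, rfl⟩⟩
      · exact ⟨𝔖, 𝔖', y, hA0, Or.inr (Or.inl ⟨i, hi, rfl⟩)⟩
      · exact ⟨𝔖, 𝔖', y, hA0, Or.inr (Or.inr ⟨i, hi, rfl⟩)⟩
  obtain ⟨t1, t2, t3⟩ := pvkp_109_tags hW.nest hW.nest' hdS hA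
  have hip' := hA.au'.ip_le
  have hfin : ∀ (p : (𝔅.T (cfSites η)).Pth) (i j : ℕ), {d | ∃ k, i ≤ k ∧ k < j ∧ d = (𝔅.T (cfSites η)).opp (p.e k)}.Finite := by
    intro p i j
    refine ((Finset.Ico i j).finite_toSet.image fun k => (𝔅.T (cfSites η)).opp (p.e k)).subset ?_
    rintro d ⟨k, h1, h2, rfl⟩
    exact ⟨k, by simp [h1, h2], rfl⟩
  have d1 : Disjoint {d | ∃ k, 𝔖.ip ≤ k ∧ k < 𝔖.inn.n ∧ d = (𝔅.T (cfSites η)).opp (𝔖.inn.e k)} {d | ∃ k, 0 ≤ k ∧ k < y.n ∧ d = (𝔅.T (cfSites η)).opp (y.e k)} := by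
    rw [Set.disjoint_left]
    rintro d ⟨i, -, hi, rfl⟩ ⟨k, -, hk, e⟩
    exact t1 i k hi hk ((𝔅.T (cfSites η)).opp_injective e)
  have d2 : Disjoint ({d | ∃ k, 𝔖.ip ≤ k ∧ k < 𝔖.inn.n ∧ d = (𝔅.T (cfSites η)).opp (𝔖.inn.e k)} ∪ {d | ∃ k, 0 ≤ k ∧ k < y.n ∧ d = (𝔅.T (cfSites η)).opp (y.e k)})
      {d | ∃ k, 0 ≤ k ∧ k < 𝔖'.ip ∧ d = (𝔅.T (cfSites η)).opp (𝔖'.inn.e k)} := by
    rw [Set.disjoint_left]
    rintro d (⟨i, -, hi, rfl⟩ | ⟨i, -, hi, rfl⟩) ⟨k, -, hk, e⟩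
    · exact t3 i k hi (by omega) ((𝔅.T (cfSites η)).opp_injective e)
    · exact t2 k i (by omega) hi ((𝔅.T (cfSites η)).opp_injective e).symm
  unfold pvzfSum
  rw [e1, e2, finsum_mem_union d2 ((hfin _ _ _).union (hfin _ _ _)) (hfin _ _ _), finsum_mem_union d1 (hfin _ _ _) (hfin _ _ _),
    pvkp_109_sum _ _ le_rfl, pvkp_109_sum _ _ le_rfl, pvkp_109_sum _ _ le_rfl, pvkp_109_sum _ _ hip']
  unfold pvkpF pvwMass pvzfPos
  simp only [pvkp_W_eq, add_assoc]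
  congr!

/-- off the connector predicate the field vanishes -/
theorem pvkp_X_zero (hW : C.Wf) (a : ℂ) {X : Type} (𝔅 : PvBulk X) (η : Conf PvPt) (ξ : X → Bool) {zi : ℂ} (hok : 𝔅.Ok (cfSites η) C.Z) (hzi : zi ∉ C.Z)
    (hf : PvtnFin C.E η) (hm : PvtrMesh C.ρ C.E (cfSites η)) (hA : η ∉ pvkpA C) : pvkpX C a η = 0 := by
  have hno : ¬ PvkpPred C.r C.r' C.Kc C.col _ _ (𝔅.T (cfSites η)) (𝔅.posF _ zi) (𝔅.col η ξ) := fun h => hA ((pvkp_A_dict hW 𝔅 η ξ hok hzi).2 ⟨hf, hm, h⟩)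
  have hok' : 𝔅.Ok (cfSites η) (C.θ ⁻¹' pvkpZ pvkpR1 pvkpR2 pvkpKB) := by rw [pvkp_Z_test]; exact hok
  unfold pvkpX
  rw [(hW.repC a hW.mD).2.2 X 𝔅 η ξ zi hf hok' hm (pvkp_zi_test C hzi), (hW.repF a (hW.mD.union hW.mD').compl).2.2 X 𝔅 η ξ zi hf hok' hm (pvkp_zi_test C hzi)]
  have e1 : pvzfS 𝔅 C.θ (PvkpTagC pvkpR1 pvkpR2 pvkpKB C.col) η ξ zi = ∅ := by
    ext d
    simp only [mem_empty_iff_false, iff_false]
    rintro ⟨𝔖, 𝔖', y, h, -⟩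
    exact hno ⟨𝔖, 𝔖', y, (pvkp_at_test hW _ _ _ _ _ _).1 h⟩
  have e2 : pvzfS 𝔅 C.θ (PvkpTagF pvkpR1 pvkpR2 pvkpKB C.col) η ξ zi = ∅ := by
    ext d
    simp only [mem_empty_iff_false, iff_false]
    rintro ⟨𝔖, 𝔖', y, h, -⟩
    exact hno ⟨𝔖, 𝔖', y, (pvkp_at_test hW _ _ _ _ _ _).1 h⟩
  unfold pvzfSum
  rw [e1, e2]
  simp


/-- the connector event contains the state predicates of its two plugs (link with `pvspEvt .. .has` of 185) -/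
theorem pvkp_A_has (hW : C.Wf) {η : Conf PvPt} (hη : DelGood (cfSites η)) (hA : η ∈ pvkpA C) :
    PvspPred C.r C.col .has _ _ (delbPlane.T (cfSites η)) (delbPlane.pos (cfSites η)) (delbPlane.col η Empty.elim) ∧
      PvspPred C.r' C.col .has _ _ (delbPlane.T (cfSites η)) (delbPlane.pos (cfSites η)) (delbPlane.col η Empty.elim) := by
  obtain ⟨-, -, 𝔖, 𝔖', y, h⟩ := (pvkp_A_plane hW hη).1 hA
  exact ⟨⟨h.st, 𝔖, h.au, trivial⟩, ⟨h.st', 𝔖', h.au', trivial⟩⟩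


end levelB

/-! ## 5. CLOSE-P on `Conf PvPt` -/

/-- **A CYCLE OF `n` PLACED CONNECTORS**: what the placed geometry owes.      `U j` = the deterministic mask of the connector `j`. -/
structure PvkpCyc (n : ℕ) (C : ℕ → PvkpCn) (U : ℕ → Set ℂ) : Prop where
  wf : ∀ j, j < n → (C j).Wf
  per : C n = C 0
  col : ∀ j, j < n → (C j).col = (C 0).col
  rr : ∀ j, j < n → (C j).r' = (C (j + 1)).r
  DD : ∀ j, j < n → (C j).Dc' = (C (j + 1)).Dc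
  geo : PvkpGeo n (fun j => (C j).r) (fun j => (C j).Kc)
  /-- the masks are pairwise disjoint -/
  dUU : ∀ i j, i < n → j < n → i ≠ j → Disjoint (U i) (U j)
  /-- the cut-off of the source plug lies in the mask -/
  DU : ∀ j, j < n → (C j).Dc ⊆ U j
  /-- the `2ρ`-neighbourhood of the corridor lies in the mask -/
  KU : ∀ j, j < n → ∀ w ∈ (C j).Kc, closedBall w (2 * (C j).ρ) ⊆ U j
  /-- the `2ρ`-neighbourhood of the corridor misses the cut-off of the source plug -/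
  KD : ∀ j, j < n → ∀ w ∈ (C j).Kc, Disjoint (closedBall w (2 * (C j).ρ)) ((C j).Dc)
  /-- the `2ρ`-neighbourhood of a star zone misses the cut-offs of the other plugs -/
  SD : ∀ i j, i < n → j < n → i ≠ j → ∀ w ∈ (C j).r .S2, Disjoint (closedBall w (2 * (C j).ρ)) ((C i).Dc)
  /-- the `2ρ`-neighbourhood of the core `C₁` of a plug lies in its cut-off -/
  CD : ∀ j, j < n → ∀ w ∈ (C j).r .C1, closedBall w (2 * (C j).ρ) ⊆ (C j).Dc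
  /-- the `2ρ`-neighbourhood of the exit tube inside the star zone lies in the mask of the connector which leaves -/
  NpU : ∀ j, j < n → ∀ w ∈ (C j).r .Np ∩ (C j).r .S2, closedBall w (2 * (C j).ρ) ⊆ U j
  /-- the `2ρ`-neighbourhood of the entrance tube inside the star zone lies in the cut-off or in the mask of the connector which enters -/
  NmU : ∀ j, j < n → ∀ w ∈ (C j).r' .Nm ∩ (C j).r' .S2, closedBall w (2 * (C j).ρ) ⊆ U j ∪ (C j).Dc'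

section close

variable {n : ℕ} {C : ℕ → PvkpCn} {U : ℕ → Set ℂ}

/-- mesh: the three vertices of a Delaunay face with a vertex in the reading zone are within `2ρ` of each other, so its barycentre is within `2ρ` of each of them -/
theorem pvkp_bary_near {E : Set ℂ} {ρ : ℝ} (hρ : 0 < ρ) {η : Conf PvPt} (hη : DelGood (cfSites η)) (hm : PvtrMesh ρ E (cfSites η)) (d : (delbPl (cfSites η)).Dart)
    (hd : (((delbPl (cfSites η)).toMap.src d : ↥(cfSites η)) : ℂ) ∈ pvtrCore (3 * ρ) E) :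
    (delbPl (cfSites η)).toMap.bary Subtype.val d ∈ closedBall (((delbPl (cfSites η)).toMap.src d : ↥(cfSites η)) : ℂ) (2 * ρ) ∧
      (delbPl (cfSites η)).toMap.bary Subtype.val d ∈ closedBall (((delbPl (cfSites η)).toMap.tgt d : ↥(cfSites η)) : ℂ) (2 * ρ) := by
  have ht := delb_plane_face d
  set a : ℂ := (((delbPl (cfSites η)).toMap.src d : ↥(cfSites η)) : ℂ) with ha
  set b : ℂ := (((delbPl (cfSites η)).toMap.tgt d : ↥(cfSites η)) : ℂ) with hb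
  set c : ℂ := (((delbPl (cfSites η)).toMap.apex d : ↥(cfSites η)) : ℂ) with hc
  obtain ⟨-, -, -, hdet, hr, -, -⟩ := pvtr_of_mesh_vertex hρ hm hd ht
  have e1 : ‖delO a b c - b‖ = ‖delO a b c - a‖ := (del_O_ab a b c).symm
  have e2 : ‖delO a b c - c‖ = ‖delO a b c - a‖ := (del_O_ac hdet.ne').symm
  have tri : ∀ u v : ℂ, ‖delO a b c - u‖ ≤ ρ → ‖delO a b c - v‖ ≤ ρ → ‖u - v‖ ≤ 2 * ρ := by
    intro u v h1 h2
    calc ‖u - v‖ = ‖(delO a b c - v) - (delO a b c - u)‖ := by ring_nf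
      _ ≤ ‖delO a b c - v‖ + ‖delO a b c - u‖ := norm_sub_le _ _
      _ ≤ 2 * ρ := by linarith
  have hab := tri b a (e1 ▸ hr) hr
  have hac := tri c a (e2 ▸ hr) hr
  have hba := tri a b hr (e1 ▸ hr)
  have hcb := tri c b (e2 ▸ hr) (e1 ▸ hr)
  have eB : (delbPl (cfSites η)).toMap.bary Subtype.val d = (a + b + c) / 3 := rfl
  rw [eB, mem_closedBall, mem_closedBall, dist_eq_norm, dist_eq_norm]
  constructor
  · have : (a + b + c) / 3 - a = ((b - a) + (c - a)) / 3 := by ring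
    rw [this, norm_div]
    have h3 : ‖(3 : ℂ)‖ = 3 := by norm_num
    rw [h3, div_le_iff₀ (by norm_num)]
    exact (norm_add_le _ _).trans (by linarith)
  · have : (a + b + c) / 3 - b = ((a - b) + (c - b)) / 3 := by ring
    rw [this, norm_div]
    have h3 : ‖(3 : ℂ)‖ = 3 := by norm_num
    rw [h3, div_le_iff₀ (by norm_num)]
    exact (norm_add_le _ _).trans (by linarith)

/-- the inside of a gate of a state is finite -/
theorem pvkp_left_fin {E : Set ℂ} {η : Conf PvPt} (hf : PvtnFin E η) {r : PvspReg ℂ} (hN : r.Nest) (hE : r .S2 ⊆ E) {s : ↥(cfSites η) → Bool} {𝔖 : PvspSt (delbPl (cfSites η)).toMap s}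
    (hst : PvplStar (delbPl (cfSites η)).toMap Subtype.val (fun x => x ∈ r .O2) (r .S2)) (hA : 𝔖.At Subtype.val r) : 𝔖.g2.c.Left.Finite := by
  have hfs : {v : ↥(cfSites η) | (v : ℂ) ∈ E}.Finite := by
    have h1 : (Prod.fst '' (η.pts ∩ E ×ˢ univ)).Finite := hf.image _
    refine Set.Finite.of_finite_image (f := Subtype.val) (h1.subset ?_) Subtype.val_injective.injOn
    rintro _ ⟨⟨v, p, hp, rfl⟩, hv, rfl⟩
    exact ⟨p, ⟨hp, hv, mem_univ _⟩, rfl⟩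
  refine Set.Finite.of_finite_image (f := fun d => ((delbPl (cfSites η)).toMap.src d, (delbPl (cfSites η)).toMap.tgt d)) ((hfs.prod hfs).subset ?_) ?_
  · rintro _ ⟨d, hd, rfl⟩
    obtain ⟨h1, h2, -⟩ := pvkp_left_zone hN hst hA hd
    exact ⟨hE h1, hE h2⟩
  · intro d _ d' _ h
    simp only [Prod.mk.injEq] at h
    exact (delbPl (cfSites η)).toMap_simple d d' h.1 h.2

section closeA

variable {V D : Type} {T : PvMap V D} {s : V → Bool} {pos : V → ℂ} {n : ℕ} {C : ℕ → PvkpCn} {U : ℕ → Set ℂ} {𝔖 : ℕ → PvspSt T s} {y : ℕ → T.Pth}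

/-- indices round the cycle -/
theorem pvkp_cl_idx (H : PvkpCyc n C U) {j : ℕ} (hj : j < n) : (j + 1) % n < n ∧ (j + 1) % n ≠ j ∧ C (j + 1) = C ((j + 1) % n) := by
  have h2 := H.geo.two
  rcases Nat.lt_or_ge (j + 1) n with h | h
  · rw [Nat.mod_eq_of_lt h]
    exact ⟨h, by omega, rfl⟩
  · have e : j + 1 = n := by omega
    rw [e, Nat.mod_self]
    exact ⟨by omega, by omega, H.per⟩

theorem pvkp_cl_pred (H : PvkpCyc n C U) {j : ℕ} (hj : j < n) : ∃ q, q < n ∧ (q + 1) % n = j ∧ q ≠ j := by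
  have h2 := H.geo.two
  rcases Nat.eq_zero_or_pos j with rfl | h
  · exact ⟨n - 1, by omega, by rw [Nat.sub_add_cancel (by omega), Nat.mod_self], by omega⟩
  · exact ⟨j - 1, by omega, by rw [Nat.sub_add_cancel h, Nat.mod_eq_of_lt hj], by omega⟩

theorem pvkp_cl_st (H : PvkpCyc n C U) (R : PvkpRing T s pos n (fun j => (C j).r) (fun j => (C j).Kc) 𝔖 y) {j : ℕ} (hj : j < n) : 𝔖 (j + 1) = 𝔖 ((j + 1) % n) := by
  have h2 := H.geo.two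
  rcases Nat.lt_or_ge (j + 1) n with h | h
  · rw [Nat.mod_eq_of_lt h]
  · have e : j + 1 = n := by omega
    rw [e, Nat.mod_self]
    exact R.per

/-- where the tags of the links are -/
theorem pvkp_cl_link (H : PvkpCyc n C U) (R : PvkpRing T s pos n (fun j => (C j).r) (fun j => (C j).Kc) 𝔖 y)
    (near : ∀ j, j < n → ∀ d : D, pos (T.src d) ∈ (C j).Z → T.bary pos d ∈ closedBall (pos (T.src d)) (2 * (C j).ρ))
    {j : ℕ} (hj : j < n) {k : ℕ} (hk : k < (y j).n) : T.bary pos (T.opp ((y j).e k)) ∈ U j ∧ ∀ i, i < n → T.bary pos (T.opp ((y j).e k)) ∉ (C i).Dc := by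
  have hw : pos (T.src (T.opp ((y j).e k))) ∈ (C j).Kc := by
    rw [T.src_opp', (y j).tgt_e k hk]
    exact pvkp_y_zone (R.con j hj).lk (by omega)
  have hb := near j hj _ (Or.inr hw)
  have hU := H.KU j hj _ hw hb
  refine ⟨hU, fun i hi hc => ?_⟩
  by_cases hij : i = j
  · subst hij
    exact Set.disjoint_left.1 (H.KD i hj _ hw) hb hc
  · exact Set.disjoint_left.1 (H.dUU i j hi hj hij) (H.DU i hi hc) hU

/-- the vertices of the inner arc of the plug `j` -/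
theorem pvkp_cl_S2 (H : PvkpCyc n C U) (R : PvkpRing T s pos n (fun j => (C j).r) (fun j => (C j).Kc) 𝔖 y) {j : ℕ} (hj : j < n) {i : ℕ} (hi : i ≤ (𝔖 j).inn.n) :
    pos ((𝔖 j).inn.v i) ∈ (C j).r .S2 :=
  pvkp_inn_zone (H.geo.nest j hj) (R.con j hj).st (R.con j hj).au hi

/-- the tags of the inner arc of the plug `j`: not in the cut-offs of the other plugs -/
theorem pvkp_cl_other (H : PvkpCyc n C U) (R : PvkpRing T s pos n (fun j => (C j).r) (fun j => (C j).Kc) 𝔖 y)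
    (near : ∀ j, j < n → ∀ d : D, pos (T.src d) ∈ (C j).Z → T.bary pos d ∈ closedBall (pos (T.src d)) (2 * (C j).ρ))
    {i j : ℕ} (hi : i < n) (hj : j < n) (hij : i ≠ j) {k : ℕ} (hk : k < (𝔖 j).inn.n) : T.bary pos (T.opp ((𝔖 j).inn.e k)) ∉ (C i).Dc := by
  have hw : pos (T.src (T.opp ((𝔖 j).inn.e k))) ∈ (C j).r .S2 := by
    rw [T.src_opp', (𝔖 j).inn.tgt_e k hk]
    exact pvkp_cl_S2 H R hj (by omega)
  have hb := near j hj _ (Or.inl (Or.inl hw))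
  exact fun hc => Set.disjoint_left.1 (H.SD i j hi hj hij _ hw) hb hc

/-- the tags of the forward half of the inner arc of the plug `j` -/
theorem pvkp_cl_fwd (H : PvkpCyc n C U) (R : PvkpRing T s pos n (fun j => (C j).r) (fun j => (C j).Kc) 𝔖 y)
    (near : ∀ j, j < n → ∀ d : D, pos (T.src d) ∈ (C j).Z → T.bary pos d ∈ closedBall (pos (T.src d)) (2 * (C j).ρ))
    {j : ℕ} (hj : j < n) {k : ℕ} (hk : k < (𝔖 j).inn.n) (hip : (𝔖 j).ip ≤ k) : T.bary pos (T.opp ((𝔖 j).inn.e k)) ∈ U j := by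
  have e : T.src (T.opp ((𝔖 j).inn.e k)) = (𝔖 j).inn.v (k + 1) := by rw [T.src_opp', (𝔖 j).inn.tgt_e k hk]
  have hw : pos (T.src (T.opp ((𝔖 j).inn.e k))) ∈ (C j).r .S2 := by
    rw [e]
    exact pvkp_cl_S2 H R hj (by omega)
  have hb := near j hj _ (Or.inl (Or.inl hw))
  have hf := (R.con j hj).au.fit_p (k + 1) (by omega) (by omega)
  rw [← e] at hf
  rcases hf with hf | hf
  · exact H.DU j hj (H.CD j hj _ hf hb)
  · exact H.NpU j hj _ ⟨hf, hw⟩ hb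

/-- the tags of the backward half of the inner arc of the plug `(q + 1) % n` -/
theorem pvkp_cl_bwd (H : PvkpCyc n C U) (R : PvkpRing T s pos n (fun j => (C j).r) (fun j => (C j).Kc) 𝔖 y)
    (near : ∀ j, j < n → ∀ d : D, pos (T.src d) ∈ (C j).Z → T.bary pos d ∈ closedBall (pos (T.src d)) (2 * (C j).ρ))
    {q : ℕ} (hq : q < n) {k : ℕ} (hip : k < (𝔖 ((q + 1) % n)).ip) :
    T.bary pos (T.opp ((𝔖 ((q + 1) % n)).inn.e k)) ∈ (C ((q + 1) % n)).Dc ∪ U q := by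
  obtain ⟨hp, -, hC⟩ := pvkp_cl_idx H hq
  set p := (q + 1) % n with hpdef
  have hle := (R.con p hp).au.ip_le
  have hk : k < (𝔖 p).inn.n := by omega
  have e : T.src (T.opp ((𝔖 p).inn.e k)) = (𝔖 p).inn.v (k + 1) := by rw [T.src_opp', (𝔖 p).inn.tgt_e k hk]
  have hw : pos (T.src (T.opp ((𝔖 p).inn.e k))) ∈ (C p).r .S2 := by
    rw [e]
    exact pvkp_cl_S2 H R hp (by omega)
  have hf := (R.con p hp).au.fit_m (k + 1) (by omega)
  rw [← e] at hf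
  rcases hf with hf | hf
  · exact Or.inl (H.CD p hp _ hf (near p hp _ (Or.inl (Or.inl hw))))
  · have er : (C q).r' = (C p).r := by rw [H.rr q hq, hC]
    have eD : (C q).Dc' = (C p).Dc := by rw [H.DD q hq, hC]
    have hw' : pos (T.src (T.opp ((𝔖 p).inn.e k))) ∈ (C q).r' .S2 := by rw [er]; exact hw
    have hb := near q hq _ (Or.inl (Or.inr hw'))
    have := H.NmU q hq _ ⟨by rw [er]; exact hf, hw'⟩ hb
    rw [eD] at this
    exact this.symm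

/-- **CLOSE-P, abstract form** -/
theorem pvkp_close_abs (hT : T.IsSph) (hS : T.Simple) (H : PvkpCyc n C U) (R : PvkpRing T s pos n (fun j => (C j).r) (fun j => (C j).Kc) 𝔖 y) (hfin : ∀ j, j < n → (𝔖 j).g2.c.Left.Finite)
    (near : ∀ j, j < n → ∀ d : D, pos (T.src d) ∈ (C j).Z → T.bary pos d ∈ closedBall (pos (T.src d)) (2 * (C j).ρ)) (w : D → ℂ) :
    T.lsum s w (T.opp ((𝔖 0).inn.e 0)) = ∑ j ∈ Finset.range n, pvkpF T pos w (C j).Dc (C (j + 1)).Dc (𝔖 j) (𝔖 (j + 1)) (y j) ∧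
    ∀ j₀, j₀ < n → pvkpF T pos w (C j₀).Dc (C (j₀ + 1)).Dc (𝔖 j₀) (𝔖 (j₀ + 1)) (y j₀) =
      T.lsum s (fun d => (U j₀).indicator 1 (T.bary pos d) * w d) (T.opp ((𝔖 0).inn.e 0)) := by
  classical
  refine ⟨?_, fun j₀ hj₀ => ?_⟩
  · exact pvkp_ring_sum hT hS H.geo R hfin pos (fun j => (C j).Dc) (by show (C n).Dc = (C 0).Dc; rw [H.per])
      (fun i j hi hj k hk => (pvkp_cl_link H R near hj hk).2 i hi) (fun i j hi hj hij k hk => pvkp_cl_other H R near hi hj hij hk) w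
  · obtain ⟨hp, hpj, hC⟩ := pvkp_cl_idx H hj₀
    have hSt := pvkp_cl_st H R hj₀
    have hdis : ∀ i, i < n → i ≠ j₀ → ∀ b, b ∈ U i → b ∉ U j₀ := fun i hi hij b hb hb' => Set.disjoint_left.1 (H.dUU i j₀ hi hj₀ hij) hb hb'
    have key := pvkp_ring_mask hT hS H.geo R hfin pos (fun j => (C j).Dc) hj₀ (U j₀) (H.DU j₀ hj₀)
      (by
        show Disjoint (C (j₀ + 1)).Dc (U j₀)
        rw [hC]
        exact Set.disjoint_left.2 fun b hb => hdis _ hp hpj b (H.DU _ hp hb))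
      (fun j hj k hk => by
        obtain ⟨h1, h2⟩ := pvkp_cl_link H R near hj hk
        refine ⟨⟨fun h => by_contra fun hne => hdis j hj hne _ h1 h, fun h => h ▸ h1⟩, ?_⟩
        rintro (h | h)
        · exact h2 j₀ hj₀ h
        · have h' : T.bary pos (T.opp ((y j).e k)) ∈ (C (j₀ + 1)).Dc := h
          rw [hC] at h'
          exact h2 _ hp h')
      (fun j hj hne hne' k hk => by
        rcases Nat.lt_or_ge k (𝔖 j).ip with hlt | hge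
        · obtain ⟨q, hq, hqj, -⟩ := pvkp_cl_pred H hj
          have h1 := pvkp_cl_bwd H R near hq (k := k) (by rw [hqj]; exact hlt)
          rw [hqj] at h1
          rcases h1 with h1 | h1
          · exact hdis j hj hne _ (H.DU j hj h1)
          · exact hdis q hq (fun e => hne' (by rw [← e, hqj])) _ h1
        · exact hdis j hj hne _ (pvkp_cl_fwd H R near hj hk hge))
      (fun k hk hnD => by
        refine ⟨⟨fun h => ?_, fun h => pvkp_cl_fwd H R near hj₀ hk h⟩, ?_⟩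
        · by_contra hlt
          obtain ⟨q, hq, hqj, hqne⟩ := pvkp_cl_pred H hj₀
          have h1 := pvkp_cl_bwd H R near hq (k := k) (by rw [hqj]; omega)
          rw [hqj] at h1
          rcases h1 with h1 | h1
          · exact hnD h1
          · exact hdis q hq hqne _ h1 h
        · show T.bary pos (T.opp ((𝔖 j₀).inn.e k)) ∉ (C (j₀ + 1)).Dc
          rw [hC]
          exact pvkp_cl_other H R near hp hj₀ hpj hk)
      (by
        show ∀ k, k < (𝔖 (j₀ + 1)).inn.n → T.bary pos (T.opp ((𝔖 (j₀ + 1)).inn.e k)) ∉ (C (j₀ + 1)).Dc →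
          (T.bary pos (T.opp ((𝔖 (j₀ + 1)).inn.e k)) ∈ U j₀ ↔ k < (𝔖 (j₀ + 1)).ip) ∧ T.bary pos (T.opp ((𝔖 (j₀ + 1)).inn.e k)) ∉ (C j₀).Dc
        rw [hSt, hC]
        intro k hk hnD
        refine ⟨⟨fun h => ?_, fun h => ?_⟩, pvkp_cl_other H R near hj₀ hp hpj.symm hk⟩
        · by_contra hge
          exact hdis _ hp hpj _ (pvkp_cl_fwd H R near hp hk (by omega)) h
        · rcases pvkp_cl_bwd H R near hj₀ h with h1 | h1
          · exact absurd h1 hnD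
          · exact h1) w
    have e : (fun d => (U j₀).indicator 1 (T.bary pos d) * w d) = fun d => if T.bary pos d ∈ U j₀ then w d else 0 := by
      funext d
      by_cases hd : T.bary pos d ∈ U j₀
      · rw [Set.indicator_of_mem hd, if_pos hd, Pi.one_apply, one_mul]
      · rw [Set.indicator_of_notMem hd, if_neg hd, zero_mul]
    rw [e]
    exact key

end closeA

/-- the dictionary of `X_e` in the Delaunay plane, with free names for the colour, the target regions and the target cut-off -/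
theorem pvkp_X_plane {C : PvkpCn} (hW : C.Wf) (a : ℂ) {η : Conf PvPt} (hη : DelGood (cfSites η)) (hf : PvtnFin C.E η) (hm : PvtrMesh C.ρ C.E (cfSites η))
    {c : Bool} (hc : C.col = c) {r' : PvspReg ℂ} (hr : C.r' = r') {Dc' : Set ℂ} (hD : C.Dc' = Dc') (hdS : Disjoint (C.r .S2) (r' .S2))
    {𝔖 𝔖' : PvspSt (delbPl (cfSites η)).toMap (pvspS c (delbPlane.col η Empty.elim))} {y : (delbPl (cfSites η)).toMap.Pth}
    (hA : PvkpAt (delbPl (cfSites η)).toMap (pvspS c (delbPlane.col η Empty.elim)) Subtype.val C.r r' C.Kc 𝔖 𝔖' y) :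
    pvkpX C a η = pvkpF (delbPl (cfSites η)).toMap Subtype.val
      (fun d => (delbPl (cfSites η)).toMap.qpart Subtype.val d - a * (delbPl (cfSites η)).toMap.side Subtype.val d) C.Dc Dc' 𝔖 𝔖' y := by
  subst hc hr hD
  obtain ⟨zi, hzi⟩ := hW.exists_far
  exact pvkp_X_dict hW a delbPlane η Empty.elim (delb_ok_mono (subset_univ _) (delb_plane_ok hη)) hzi hf hm hdS hA

/-- **CLOSE-P** : on all the events `A_e` of a cycle the pieces close up to ONE rim `P'` of the Delaunay plane;   `∑_e X_e = x_P'(1)`,   `X_e = x_P'(1_{U_e})`;   `P'` runs in the reading zones and visits the star zones of all the plugs -/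
theorem pvkp_close (H : PvkpCyc n C U) {η : Conf PvPt} (hη : DelGood (cfSites η)) (hA : ∀ j, j < n → η ∈ pvkpA (C j)) :
    ∃ P : (delbPl (cfSites η)).toMap.Cyc, P.IsRim (pvlfFl (C 0).col (cfCol η ∘ Subtype.val)) ∧
      (∀ k, ∃ j, j < n ∧ (((delbPl (cfSites η)).toMap.src (P.e k) : ↥(cfSites η)) : ℂ) ∈ (C j).Z) ∧
      (∀ j, j < n → ∃ k, (((delbPl (cfSites η)).toMap.src (P.e k) : ↥(cfSites η)) : ℂ) ∈ (C j).r .S2) ∧
      (∀ a : ℂ, ∑ j ∈ Finset.range n, pvkpX (C j) a η = ∑ k ∈ Finset.range P.n,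
        ((delbPl (cfSites η)).toMap.qpart Subtype.val ((delbPl (cfSites η)).toMap.opp (P.e k)) - a * (delbPl (cfSites η)).toMap.side Subtype.val ((delbPl (cfSites η)).toMap.opp (P.e k)))) ∧
      ∀ a : ℂ, ∀ j, j < n → pvkpX (C j) a η = ∑ k ∈ Finset.range P.n, (U j).indicator 1 ((delbPl (cfSites η)).toMap.bary Subtype.val ((delbPl (cfSites η)).toMap.opp (P.e k))) *
        ((delbPl (cfSites η)).toMap.qpart Subtype.val ((delbPl (cfSites η)).toMap.opp (P.e k)) - a * (delbPl (cfSites η)).toMap.side Subtype.val ((delbPl (cfSites η)).toMap.opp (P.e k))) := by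
  have hT : (delbPl (cfSites η)).toMap.IsSph := delb_plane_isSph hη
  have hS : (delbPl (cfSites η)).toMap.Simple := (delbPl (cfSites η)).toMap_simple
  have hpl : ∀ j, j < n → PvtnFin (C j).E η ∧ PvtrMesh (C j).ρ (C j).E (cfSites η) ∧
      PvkpPred (C j).r (C (j + 1)).r (C j).Kc (C 0).col _ _ (delbPl (cfSites η)).toMap Subtype.val (delbPlane.col η Empty.elim) := by
    intro j hj
    have := (pvkp_A_plane (H.wf j hj) hη).1 (hA j hj)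
    rw [H.rr j hj, H.col j hj] at this
    exact this
  obtain ⟨𝔖, y, R⟩ := pvkp_glue (𝔯 := fun j => (C j).r) (Kc := fun j => (C j).Kc) hT hS H.geo (fun j hj => (hpl j hj).2.2)
  have hZE : ∀ j, j < n → (C j).Z ⊆ pvtrCore (3 * (C j).ρ) (C j).E := fun j hj => (H.wf j hj).core
  have hfin : ∀ j, j < n → (𝔖 j).g2.c.Left.Finite := fun j hj =>
    pvkp_left_fin (hpl j hj).1 (H.wf j hj).nest
      (fun w hw => pvtr_core_subset (by have := (H.wf j hj).ρ0; positivity) (hZE j hj (Or.inl (Or.inl hw)))) (R.con j hj).st (R.con j hj).au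
  have near : ∀ j, j < n → ∀ d : (delbPl (cfSites η)).Dart, (((delbPl (cfSites η)).toMap.src d : ↥(cfSites η)) : ℂ) ∈ (C j).Z →
      (delbPl (cfSites η)).toMap.bary Subtype.val d ∈ closedBall (((delbPl (cfSites η)).toMap.src d : ↥(cfSites η)) : ℂ) (2 * (C j).ρ) :=
    fun j hj d hd => (pvkp_bary_near (H.wf j hj).ρ0 hη (hpl j hj).2.1 d (hZE j hj hd)).1
  obtain ⟨P, hrim, hP, hsum, hzone⟩ := pvkp_ring_cyc hT hS H.geo R hfin
  have hdS : ∀ j, j < n → Disjoint ((C j).r .S2) ((C (j + 1)).r .S2) := by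
    intro j hj
    have h2 := H.geo.two
    rcases Nat.lt_or_ge (j + 1) n with h1 | h1
    · exact H.geo.dSS j (j + 1) hj h1 (by omega)
    · rw [show j + 1 = n by omega, H.per]
      exact H.geo.dSS j 0 hj (by omega) (by omega)
  have hX : ∀ a : ℂ, ∀ j, j < n → pvkpX (C j) a η = pvkpF (delbPl (cfSites η)).toMap Subtype.val
      (fun d => (delbPl (cfSites η)).toMap.qpart Subtype.val d - a * (delbPl (cfSites η)).toMap.side Subtype.val d) (C j).Dc (C (j + 1)).Dc (𝔖 j) (𝔖 (j + 1)) (y j) :=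
    fun a j hj => pvkp_X_plane (H.wf j hj) a hη (hpl j hj).1 (hpl j hj).2.1 (H.col j hj) (H.rr j hj) (H.DD j hj) (hdS j hj) (R.con j hj)
  refine ⟨P, hrim, fun k => ?_, fun j hj => ?_, fun a => ?_, fun a j hj => ?_⟩
  · obtain ⟨j, hj, h | h⟩ := hzone k
    · exact ⟨j, hj, Or.inl (Or.inl h)⟩
    · exact ⟨j, hj, Or.inr h⟩
  · have hn : 0 < (𝔖 j).inn.n := by
      have h1 := (R.con j hj).au.im_lt
      have h2 := (R.con j hj).au.ip_le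
      omega
    obtain ⟨k, hk⟩ := (hP ((𝔖 j).inn.e 0)).2 ⟨j, hj, Or.inl ⟨0, hn, rfl⟩⟩
    refine ⟨k, ?_⟩
    rw [← hk, (𝔖 j).inn.src_e 0 hn]
    exact pvkp_cl_S2 H R hj (Nat.zero_le _)
  · have h1 := hsum (fun d => (delbPl (cfSites η)).toMap.qpart Subtype.val d - a * (delbPl (cfSites η)).toMap.side Subtype.val d)
    refine Eq.trans ?_ h1.symm
    rw [(pvkp_close_abs hT hS H R hfin near _).1]
    exact Finset.sum_congr rfl fun j hj => hX a j (Finset.mem_range.1 hj)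
  · have h1 := hsum (fun d => (U j).indicator 1 ((delbPl (cfSites η)).toMap.bary Subtype.val d) *
      ((delbPl (cfSites η)).toMap.qpart Subtype.val d - a * (delbPl (cfSites η)).toMap.side Subtype.val d))
    refine Eq.trans ?_ h1.symm
    rw [hX a j hj, (pvkp_close_abs hT hS H R hfin near _).2 j hj]

end close

/-! ## 6. PRODUCER FOR THE FORCING (272): two lanes ⟹ the link -/

section lanes

variable {V D κ : Type} {T : PvMap V D} {s : V → Bool} {mk : V → κ} {Kc : Set κ}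

/-- a strand which reaches `a₁` for the first time at time `N` does not come back to its first position before -/
theorem pvkp_no_return {a₀ a₁ : D} {N : ℕ} (h1 : pvasIt T s a₀ N = a₁) (h2 : ∀ i, i < N → pvasIt T s a₀ i ≠ a₁) : ∀ k, 0 < k → k < N → pvasIt T s a₀ k ≠ a₀ := by
  intro k hk0 hkN hk
  have hper : ∀ q r, pvasIt T s a₀ (q * k + r) = pvasIt T s a₀ r := by
    intro q
    induction q with
    | zero => intro r; rw [Nat.zero_mul, Nat.zero_add]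
    | succ q ih =>
      intro r
      rw [show (q + 1) * k + r = k + (q * k + r) by ring, pvas_it_add, hk, ih]
  have h3 := hper (N / k) (N % k)
  rw [Nat.div_add_mod' N k] at h3
  exact h2 (N % k) (lt_trans (Nat.mod_lt _ hk0) hkN) (h3 ▸ h1)

/-- **TWO LANES ⟹ THE LINK** (`pvld_exist` of 70 at the gates of two states).      `K` = a FINITE set of sites marked in the corridor, on the closed outside of the two gates, without `v₂⁻(u)` and `v₂⁺(u')`, with co-connected complement;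
a black connection `v₂⁺(u) → v₂⁻(u')` in `K`, a white connection from the last vertex of the right arc of `S₂(u)` to the first vertex of the right arc of `S₂(u')` in `K`. -/
theorem pvkp_run_of_lanes (hT : T.IsSph) (hS : T.Simple) (𝔖 𝔖' : PvspSt T s) (hthru : 𝔖.g2.Thru) (hfin : 𝔖.g2.c.Left.Finite) (hdis : Disjoint (T.VOf 𝔖.g2.c.Left) (T.VOf 𝔖'.g2.c.Left))
    {K : Set V} (hK : K.Finite) (hKc : ∀ v ∈ K, mk v ∈ Kc) (hKo : K ⊆ T.VOf 𝔖.g2.c.Right) (hKo' : K ⊆ T.VOf 𝔖'.g2.c.Right) (hvm : 𝔖.g2.vm ∉ K) (hvp : 𝔖'.g2.vp ∉ K)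
    (hB : T.Join Set.univ (pvldCol s K true) 𝔖.g2.vp 𝔖'.g2.vm) (hW : T.Join Set.univ (pvldCol s K false) (T.tgt 𝔖.g2.aOut) (T.tgt 𝔖'.g2.aIn))
    (hco : ∀ u v, u ∉ K → v ∉ K → T.Join Set.univ Kᶜ u v) : ∃ y, PvkpRun T s mk Kc 𝔖 𝔖' y := by
  classical
  obtain ⟨hR, hL, hRo, -⟩ := pl_jordan hT 𝔖.g2.c
  obtain ⟨-, hL', -, -⟩ := pl_jordan hT 𝔖'.g2.c
  have h0 : pvasBW T s 𝔖.g2.aOut := pvtg_aOut_bw _
  have h1 : pvasBW T s 𝔖'.g2.aIn := pvtg_aIn_bw _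
  have hvpL : 𝔖.g2.vp ∈ T.VOf 𝔖.g2.c.Left := ⟨_, hL 𝔖.g2.m, rfl⟩
  have hvmL' : 𝔖'.g2.vm ∈ T.VOf 𝔖'.g2.c.Left := ⟨_, hL' 0, rfl⟩
  have hne : T.src 𝔖.g2.aOut ≠ T.src 𝔖'.g2.aIn := by
    rw [pvtg_aOut_src]
    intro h
    exact Set.disjoint_left.1 hdis hvpL (h ▸ hvmL')
  obtain ⟨l1, l2, l3⟩ := pvtg_len hT 𝔖.g2 hfin
  have l4 : pvasIt T s 𝔖.g2.aIn 𝔖.g2.len = 𝔖.g2.aOut := l3.trans hthru
  have hout : ∃ f, T.src f ∉ K ∧ T.DJoin (pvldBar T s K 𝔖.g2.aOut 𝔖'.g2.aIn) (T.opp 𝔖.g2.aOut) f := by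
    refine ⟨𝔖.g2.aIn, hvm, pvld_out_back h1 (pvtg_aIn_bw _) l4 (fun i hi => ⟨fun h => ?_, fun h => ?_⟩) l1⟩
    · have h2 := l2 i hi
      rw [h] at h2
      have h3 := hRo (𝔖.g2.m - 1)
      rw [hR] at h3
      exact h3 h2
    · have h2 := l2 i hi
      rw [h] at h2
      exact Set.disjoint_left.1 hdis ⟨_, h2, rfl⟩ hvmL'
  have hrun : PvldRun T s K 𝔖.g2.aOut 𝔖'.g2.aIn :=
    pvld_exist hT hK h0 h1 hne (by rw [pvtg_aOut_src]; exact hB) hW hco hout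
  obtain ⟨r1, r2, r3⟩ := pvld_run_hit hrun
  have hmin : ∀ i, i < pvasHit T s 𝔖.g2.aOut {𝔖'.g2.aIn} → pvasIt T s 𝔖.g2.aOut i ≠ 𝔖'.g2.aIn := fun i hi => pvas_hit_min (Z := {𝔖'.g2.aIn}) hi
  have harc := pvt_sd_le hT hS h0 (pvt_sd_inj h0 (pvkp_no_return r2 hmin))
  refine ⟨_, pvld_run_mono (fun v hv => hKc v hv) hrun, harc, fun k hk0 hkn => ?_⟩
  set y := pvtArc T s 𝔖.g2.aOut (pvasHit T s 𝔖.g2.aOut {𝔖'.g2.aIn}) with hy
  have hmem : y.v k ∈ pvasLayB T s 𝔖.g2.aOut (pvasHit T s 𝔖.g2.aOut {𝔖'.g2.aIn}) := pvt_sd_verts harc ⟨k, hkn.le, rfl⟩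
  have hkK : y.v k ∈ K := (pvld_run_lay hrun).1 hmem
  have hkb : s (y.v k) = true := pvas_layB_black h0 hmem
  have e0 : y.v 0 = 𝔖.g2.vp := by rw [pvt_sd_v0 harc, pvtg_aOut_src]
  have en : y.v y.n = 𝔖'.g2.vm := by rw [pvt_sd_vn harc, r2]; rfl
  refine ⟨fun h => ?_, fun h => ?_⟩
  · rcases pvtg_meet hT 𝔖.g2 h (hKo hkK) hkb with e | e
    · exact hvm (e ▸ hkK)
    · have := y.inj k 0 hkn.le (Nat.zero_le _) (e.trans e0.symm)
      omega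
  · rcases pvtg_meet hT 𝔖'.g2 h (hKo' hkK) hkb with e | e
    · have := y.inj k y.n hkn.le le_rfl (e.trans en.symm)
      omega
    · exact hvp (e ▸ hkK)

end lanes

end Claimed.Agent.R289
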