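-- KEEP
import Claimed.Agent.R289.Tr.PinLocG
import Claimed.Agent.R289.Tr.StateP

/-!
# Row 289 (S0537, Cardy for Poisson-Voronoi), THE WALL, ROAD P, file Tr/PinLocW : LOCALITY AND MEASURABILITY UNDER A GENERAL GUARD      (pen helper113; prefix `pvwg_`, `Pvwg`, `pvwg`)

WHY.   `pvpl_main` (238) and `pvzf_main` (107) ask ONE mesh `ρ` on ONE window `E` with the zone in the `3ρ`-core.   The funnels of road P join a big plug (mesh `μ h_m`) to a door of the kit (scale `δ_m ≤ h_m^(1+q+m)`): no single mesh serves both ends.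
The proofs of 238 / 107 use (mesh, core) ONLY through `pvtr_of_mesh_vertex`: "a Delaunay triangle with its first vertex in the zone is RETAINED in `(ρ, E)`".      That statement is THE GUARD `PvwgGd ρ E Y Z`.

* sec. 1  `PvwgGd`;   `pvwg_gd_of_mesh` (one mesh), **`pvwg_gd_of_list`** (a LIST of meshes `(ρᵢ, Eᵢ)`, `ρᵢ ≤ ρ`, `Eᵢ ⊆ E`, the zone covered by the `3ρᵢ`-cores), `pvwg_short` (faces at the zone are short, per mesh).
* sec. 2  copies of `pvpl_iso_of_sites`, `pvpl_iso_of_ty`, **`pvwg_main`** (events).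
* sec. 3  copies of `PvzfSel pvzfFn ..`, record `PvwgRep`, **`pvwg_mainF`** (fields).
* sec. 4  THE event `pvwgEv`, THE field `pvwgFld` (choice), specs, plane forms.
* sec. 5  the guard event of a list of meshes `PvwgMs`: measurable, read from the window.
* sec. 6  covariance under similarities: `pvwg_gd_sim`, `PvwgIsEv.sim`, `PvwgIsEv.unique`, `PvwgRep.sim`, `PvwgRep.placed`.
-/

set_option autoImplicit false
set_option linter.unusedSectionVars false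
set_option linter.unusedVariables false

namespace Claimed.Agent.R289

open MeasureTheory ProbabilityTheory Set Filter Topology Metric Claims.C0465
open scoped ENNReal

/-! ## 1. THE GUARD -/

/-- **THE GUARD**: every Delaunay triangle of `Y` with its first vertex in the zone `Z` is retained in `(ρ, E)` -/
def PvwgGd (ρ : ℝ) (E Y Z : Set ℂ) : Prop := ∀ a b c : ℂ, a ∈ Z → DelTri Y a b c → PvRet ρ E Y a b c

theorem pvwg_eqns_cite : True := by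
  have := @PvwgGd.eq_1
  trivial

theorem PvwgGd.mono {ρ : ℝ} {E Y Z Z' : Set ℂ} (h : PvwgGd ρ E Y Z) (hZ : Z' ⊆ Z) : PvwgGd ρ E Y Z' := fun a b c ha => h a b c (hZ ha)

/-- one mesh -/
theorem pvwg_gd_of_mesh {ρ : ℝ} {E Y Z : Set ℂ} (hρ : 0 < ρ) (hm : PvtrMesh ρ E Y) (hZ : Z ⊆ pvtrCore (3 * ρ) E) : PvwgGd ρ E Y Z :=
  fun _ _ _ ha h => pvtr_of_mesh_vertex hρ hm (hZ ha) h

/-- a retained triangle stays retained in a larger window with a larger cap -/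
theorem pvwg_ret_mono {ρ ρ' : ℝ} {E E' Y : Set ℂ} {a b c : ℂ} (h : PvRet ρ' E' Y a b c) (hρ : ρ' ≤ ρ) (hE : E' ⊆ E) : PvRet ρ E Y a b c := by
  obtain ⟨h1, h2, h3⟩ := pvtr_iff.1 h
  exact pvtr_iff.2 ⟨h1, h2.trans hρ, h3.trans hE⟩

/-- **a list of meshes** -/
theorem pvwg_gd_of_list {ρ : ℝ} {E Y Z : Set ℂ} {ms : List (ℝ × Set ℂ)} (h0 : ∀ p ∈ ms, 0 < p.1 ∧ p.1 ≤ ρ ∧ p.2 ⊆ E) (hm : ∀ p ∈ ms, PvtrMesh p.1 p.2 Y)
    (hZ : ∀ w ∈ Z, ∃ p ∈ ms, w ∈ pvtrCore (3 * p.1) p.2) : PvwgGd ρ E Y Z := by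
  intro a b c ha h
  obtain ⟨p, hp, hw⟩ := hZ a ha
  exact pvwg_ret_mono (pvtr_of_mesh_vertex (h0 p hp).1 (hm p hp) hw h) (h0 p hp).2.1 (h0 p hp).2.2

/-! ## 2. EVENTS -/

section bulk

variable {κ : Type} {X X' : Type} {𝔅 : PvBulk X} {𝔅' : PvBulk X'} {E : Set ℂ} {ρ : ℝ}

/-- one direction of the correspondence of the faces -/
theorem pvwg_iso_ex_aux (θ : ℂ → κ) {K : Set κ} {Y Y' : Set ℂ} {zi : ℂ}
    (hok : 𝔅.Ok Y (θ ⁻¹' K)) (hok' : 𝔅'.Ok Y' (θ ⁻¹' K)) (hm : PvwgGd ρ E Y (θ ⁻¹' K))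
    (hzi : θ zi ∉ K) (Rs : ℂ → ℂ → Prop)
    (h1 : ∀ a a', Rs a a' → θ a' = θ a)
    (h5 : ∀ a b c, PvRet ρ E Y a b c → ∃ a' b' c', Rs a a' ∧ Rs b b' ∧ Rs c c' ∧ PvRet ρ E Y' a' b' c')
    (d : 𝔅.D Y) (hd : θ (𝔅.posF Y zi ((𝔅.T Y).src d)) ∈ K) :
    ∃ d', (∃ a a', Rs a a' ∧ 𝔅.lab Y ((𝔅.T Y).src d) = Sum.inl a ∧ 𝔅'.lab Y' ((𝔅'.T Y').src d') = Sum.inl a') ∧
      (∃ a a', Rs a a' ∧ 𝔅.lab Y ((𝔅.T Y).tgt d) = Sum.inl a ∧ 𝔅'.lab Y' ((𝔅'.T Y').tgt d') = Sum.inl a') ∧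
      (∃ a a', Rs a a' ∧ 𝔅.lab Y ((𝔅.T Y).apex d) = Sum.inl a ∧ 𝔅'.lab Y' ((𝔅'.T Y').apex d') = Sum.inl a') := by
  rcases hl : 𝔅.lab Y ((𝔅.T Y).src d) with a | x
  · rw [l9_posF_inl 𝔅 hl] at hd
    obtain ⟨b, c, hb, hc, htri⟩ := hok.del d a hl hd
    obtain ⟨a', b', c', ra, rb, rc, hret⟩ := h5 a b c (hm a b c hd htri)
    have ha' : a' ∈ θ ⁻¹' K := by
      show θ a' ∈ K
      rw [h1 a a' ra]; exact hd
    obtain ⟨d', e1, e2, e3⟩ := hok'.face a' b' c' hret.tri ha'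
    exact ⟨d', ⟨a, a', ra, rfl, e1⟩, ⟨b, b', rb, hb, e2⟩, ⟨c, c', rc, hc, e3⟩⟩
  · exfalso
    apply hzi
    have : 𝔅.posF Y zi ((𝔅.T Y).src d) = zi := by unfold PvBulk.posF; rw [hl]; rfl
    rwa [this] at hd

/-- **the isomorphism of two surfaces from a correspondence `Rs` of the sites of the window `E`** which preserves the tests `θ`, the colours and the retained triangles -/
theorem pvwg_iso_of_sites (θ : ℂ → κ) {K : Set κ} {η η' : Conf PvPt} {ξ : X → Bool} {ξ' : X' → Bool} {zi zi' : ℂ}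
    (hok : 𝔅.Ok (cfSites η) (θ ⁻¹' K)) (hok' : 𝔅'.Ok (cfSites η') (θ ⁻¹' K)) (hm : PvwgGd ρ E (cfSites η) (θ ⁻¹' K)) (hm' : PvwgGd ρ E (cfSites η') (θ ⁻¹' K))
    (hzi : θ zi ∉ K) (hzi' : θ zi' ∉ K) (Rs : ℂ → ℂ → Prop)
    (h1 : ∀ a a', Rs a a' → θ a' = θ a) (h2 : ∀ a a', Rs a a' → cfCol η' a' = cfCol η a)
    (h3 : ∀ a a' a'', Rs a a' → Rs a a'' → a' = a'') (h4 : ∀ a b a', Rs a a' → Rs b a' → a = b)
    (h5 : ∀ a b c, PvRet ρ E (cfSites η) a b c → ∃ a' b' c', Rs a a' ∧ Rs b b' ∧ Rs c c' ∧ PvRet ρ E (cfSites η') a' b' c')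
    (h6 : ∀ a' b' c', PvRet ρ E (cfSites η') a' b' c' → ∃ a b c, Rs a a' ∧ Rs b b' ∧ Rs c c' ∧ PvRet ρ E (cfSites η) a b c) :
    PvplIso (𝔅.T (cfSites η)) (fun v => θ (𝔅.posF _ zi v)) (𝔅.col η ξ) (𝔅'.T (cfSites η')) (fun v => θ (𝔅'.posF _ zi' v)) (𝔅'.col η' ξ') K
      (fun u u' => ∃ a a', Rs a a' ∧ 𝔅.lab _ u = Sum.inl a ∧ 𝔅'.lab _ u' = Sum.inl a') := by
  refine ⟨?_, ?_, ?_, ?_, ?_, ?_⟩
  · rintro u u' ⟨a, a', r, e, e'⟩
    show θ (𝔅'.posF _ zi' u') = θ (𝔅.posF _ zi u)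
    rw [l9_posF_inl 𝔅 e, l9_posF_inl 𝔅' e']
    exact h1 a a' r
  · rintro u u' ⟨a, a', r, e, e'⟩
    unfold PvBulk.col
    rw [e, e']
    exact h2 a a' r
  · rintro u u' u'' ⟨a, a', r, e, e'⟩ ⟨b, b', r2, f, f'⟩
    have hab : a = b := Sum.inl.inj (e.symm.trans f)
    subst hab
    have := h3 a a' b' r r2
    subst this
    exact hok'.inj (e'.trans f'.symm)
  · rintro u v u' ⟨a, a', r, e, e'⟩ ⟨b, b', r2, f, f'⟩
    have hab : a' = b' := Sum.inl.inj (e'.symm.trans f')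
    subst hab
    have := h4 a b a' r r2
    subst this
    exact hok.inj (e.trans f.symm)
  · intro d hd
    exact pvwg_iso_ex_aux θ hok hok' hm hzi Rs h1 h5 d hd
  · intro d' hd'
    obtain ⟨d, ⟨a', a, r, e', e⟩, ⟨b', b, r2, f', f⟩, ⟨c', c, r3, g', g⟩⟩ :=
      pvwg_iso_ex_aux θ hok' hok hm' hzi' (fun a' a => Rs a a') (fun a' a r => (h1 a a' r).symm) h6 d' hd'
    exact ⟨d, ⟨a, a', r, e, e'⟩, ⟨b, b', r2, f, f'⟩, ⟨c, c', r3, g, g'⟩⟩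

end bulk

section types

variable {κ : Type} {X X' : Type} {𝔅 : PvBulk X} {𝔅' : PvBulk X'} {E : Set ℂ} {ρ : ℝ}


/-- **same type ⟹ isomorphic** -/
theorem pvwg_iso_of_ty (θ : ℂ → κ) {K : Set κ} {η η' : Conf PvPt} {ξ : X → Bool} {ξ' : X' → Bool} {zi zi' : ℂ}
    (hok : 𝔅.Ok (cfSites η) (θ ⁻¹' K)) (hok' : 𝔅'.Ok (cfSites η') (θ ⁻¹' K)) (hm : PvwgGd ρ E (cfSites η) (θ ⁻¹' K)) (hm' : PvwgGd ρ E (cfSites η') (θ ⁻¹' K))
    (hzi : θ zi ∉ K) (hzi' : θ zi' ∉ K) {n : ℕ} {y y' : ℕ → PvPt}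
    (hy : Conf.restr (E ×ˢ univ) η = Conf.cell (n, y)) (hy' : Conf.restr (E ×ˢ univ) η' = Conf.cell (n, y')) (hty : pvplTy ρ E θ n y = pvplTy ρ E θ n y') :
    PvplIso (𝔅.T (cfSites η)) (fun v => θ (𝔅.posF _ zi v)) (𝔅.col η ξ) (𝔅'.T (cfSites η')) (fun v => θ (𝔅'.posF _ zi' v)) (𝔅'.col η' ξ') K
      (fun u u' => ∃ a a', (∃ i : Fin n, a = (y i).1 ∧ a' = (y' i).1) ∧ 𝔅.lab _ u = Sum.inl a ∧ 𝔅'.lab _ u' = Sum.inl a') := by
  classical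
  -- sites of the window
  have hsE : ∀ {ζ : Conf PvPt} {m : ℕ} {w : ℕ → PvPt}, Conf.restr (E ×ˢ univ) ζ = Conf.cell (m, w) → cfSites ζ ∩ E = cfSites (Conf.cell (m, w)) := by
    intro ζ m w h
    rw [← h, pvtr_sites_restr]
  have hmemE : ∀ {ζ : Conf PvPt} {m : ℕ} {w : ℕ → PvPt}, Conf.restr (E ×ˢ univ) ζ = Conf.cell (m, w) → ∀ i : Fin m, w i ∈ ζ.pts ∧ (w i).1 ∈ E := by
    intro ζ m w h i
    have h1 : w i ∈ (Conf.cell (m, w)).pts := ⟨i, i.2, rfl⟩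
    rw [← h] at h1
    exact ⟨h1.1, h1.2.1⟩
  have hret : ∀ {ζ : Conf PvPt} {m : ℕ} {w : ℕ → PvPt}, Conf.restr (E ×ˢ univ) ζ = Conf.cell (m, w) → ∀ a b c,
      (PvRet ρ E (cfSites ζ) a b c ↔ PvRet ρ E (cfSites (Conf.cell (m, w))) a b c) := by
    intro ζ m w h a b c
    refine pvtr_congr ?_
    rw [← hsE h, inter_assoc, inter_self]
  have hidx : ∀ {ζ : Conf PvPt} {m : ℕ} {w : ℕ → PvPt}, Conf.restr (E ×ˢ univ) ζ = Conf.cell (m, w) → ∀ a, a ∈ cfSites ζ ∩ E → ∃ i : Fin m, a = (w i).1 := by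
    intro ζ m w h a ha
    rw [hsE h] at ha
    obtain ⟨p, ⟨j, hj, rfl⟩, rfl⟩ := ha
    exact ⟨⟨j, hj⟩, rfl⟩
  have hcol : ∀ {ζ : Conf PvPt} {m : ℕ} {w : ℕ → PvPt}, Conf.restr (E ×ˢ univ) ζ = Conf.cell (m, w) → ∀ i : Fin m,
      (((w i).1, true) ∈ ζ.pts ↔ ((w i).1, true) ∈ (Conf.cell (m, w)).pts) := by
    intro ζ m w h i
    rw [← h]
    exact ⟨fun h1 => ⟨h1, (hmemE h i).2, mem_univ _⟩, fun h1 => h1.1⟩
  have t1 : ∀ i j k : Fin n, PvRet ρ E (cfSites (Conf.cell (n, y))) (y i).1 (y j).1 (y k).1 ↔ PvRet ρ E (cfSites (Conf.cell (n, y'))) (y' i).1 (y' j).1 (y' k).1 :=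
    fun i j k => iff_of_eq (congrFun (congrFun (congrFun (congrArg Prod.fst hty) i) j) k)
  have t2 : ∀ i : Fin n, ((y i).1, true) ∈ (Conf.cell (n, y)).pts ↔ ((y' i).1, true) ∈ (Conf.cell (n, y')).pts :=
    fun i => iff_of_eq (congrFun (congrArg (fun t => t.2.1) hty) i)
  have t3 : ∀ i : Fin n, θ (y i).1 = θ (y' i).1 := fun i => congrFun (congrArg (fun t => t.2.2.1) hty) i
  have t4 : ∀ i j : Fin n, (y i).1 = (y j).1 ↔ (y' i).1 = (y' j).1 := fun i j => iff_of_eq (congrFun (congrFun (congrArg (fun t => t.2.2.2) hty) i) j)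
  refine pvwg_iso_of_sites θ hok hok' hm hm' hzi hzi' (fun a a' => ∃ i : Fin n, a = (y i).1 ∧ a' = (y' i).1) ?_ ?_ ?_ ?_ ?_ ?_
  · rintro a a' ⟨i, rfl, rfl⟩
    exact (t3 i).symm
  · rintro a a' ⟨i, rfl, rfl⟩
    unfold cfCol
    exact decide_eq_decide.2 (((hcol hy' i).trans (t2 i).symm).trans (hcol hy i).symm)
  · rintro a a' a'' ⟨i, rfl, rfl⟩ ⟨j, h1, rfl⟩
    exact (t4 i j).1 h1
  · rintro a b a' ⟨i, rfl, rfl⟩ ⟨j, rfl, h1⟩
    exact (t4 i j).2 h1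
  · intro a b c h
    obtain ⟨i, rfl⟩ := hidx hy a h.1
    obtain ⟨j, rfl⟩ := hidx hy b h.2.1
    obtain ⟨k, rfl⟩ := hidx hy c h.2.2.1
    exact ⟨_, _, _, ⟨i, rfl, rfl⟩, ⟨j, rfl, rfl⟩, ⟨k, rfl, rfl⟩, (hret hy' _ _ _).2 ((t1 i j k).1 ((hret hy _ _ _).1 h))⟩
  · intro a b c h
    obtain ⟨i, rfl⟩ := hidx hy' a h.1
    obtain ⟨j, rfl⟩ := hidx hy' b h.2.1
    obtain ⟨k, rfl⟩ := hidx hy' c h.2.2.1
    exact ⟨_, _, _, ⟨i, rfl, rfl⟩, ⟨j, rfl, rfl⟩, ⟨k, rfl, rfl⟩, (hret hy _ _ _).2 ((t1 i j k).2 ((hret hy' _ _ _).1 h))⟩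

/-- **MAIN THEOREM (locality + measurability + independence of the completion)**.   `θ` = countably many Borel position tests, `Φ` a predicate on marked coloured maps which is read at the vertices with a mark in `K`,
`E` a bounded window whose `3ρ`-core contains `θ⁻¹ K`.      There is ONE measurable event `B`, read from `E ×ˢ univ`, which on the mesh event is the event `Φ` for EVERY completion. -/
theorem pvwg_main [Countable κ] [MeasurableSpace κ] [MeasurableSingletonClass κ] {θ : ℂ → κ} (hθ : Measurable θ) {Φ : PvplPred κ} {K : Set κ} (hΦ : Φ.Local K)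
    (hE : PvplWin E) :
    ∃ B : Set (Conf PvPt), MeasurableSet B ∧ Conf.ReadsSet (E ×ˢ univ) B ∧
      ∀ (X : Type) (𝔅 : PvBulk X) (η : Conf PvPt) (ξ : X → Bool) (zi : ℂ), (η.pts ∩ E ×ˢ univ).Finite → 𝔅.Ok (cfSites η) (θ ⁻¹' K) → PvwgGd ρ E (cfSites η) (θ ⁻¹' K) → θ zi ∉ K →
        (η ∈ B ↔ Φ _ _ (𝔅.T (cfSites η)) (fun v => θ (𝔅.posF _ zi v)) (𝔅.col η ξ)) := by
  classical
  have hO : MeasurableSet (E ×ˢ (univ : Set Bool)) := hE.1.prod MeasurableSet.univ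
  obtain ⟨Y, hY, hYe⟩ := pvcn_enum hO
  -- the good types
  let Good : ∀ n : ℕ, ((Fin n → Fin n → Fin n → Prop) × (Fin n → Prop) × (Fin n → κ) × (Fin n → Fin n → Prop)) → Prop := fun n t =>
    ∃ (X : Type) (𝔅 : PvBulk X) (η : Conf PvPt) (ξ : X → Bool) (zi : ℂ) (y : ℕ → PvPt), Conf.restr (E ×ˢ univ) η = Conf.cell (n, y) ∧ pvplTy ρ E θ n y = t ∧
      𝔅.Ok (cfSites η) (θ ⁻¹' K) ∧ PvwgGd ρ E (cfSites η) (θ ⁻¹' K) ∧ θ zi ∉ K ∧ Φ _ _ (𝔅.T (cfSites η)) (fun v => θ (𝔅.posF _ zi v)) (𝔅.col η ξ)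
  let G2 : ℕ → (ℕ → PvPt) → Prop := fun n y => Good n (pvplTy ρ E θ n y)
  have hpts : ∀ η : Conf PvPt, (Conf.restr (E ×ˢ univ) η).pts ∩ E ×ˢ univ = η.pts ∩ E ×ˢ univ := by
    intro η
    show (η.pts ∩ E ×ˢ univ) ∩ E ×ˢ univ = _
    rw [inter_assoc, inter_self]
  have hcell : ∀ η : Conf PvPt, (η.pts ∩ E ×ˢ univ).Finite →
      Conf.restr (E ×ˢ univ) η = Conf.cell ((η.pts ∩ E ×ˢ univ).ncard, Y (Conf.restr (E ×ˢ univ) η)) := by
    intro η hfin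
    have := hYe (Conf.restr (E ×ˢ univ) η) (by rw [hpts]; exact hfin)
    rwa [pvi_restr_idem, hpts] at this
  refine ⟨{η | (η.pts ∩ E ×ˢ univ).Finite ∧ G2 (η.pts ∩ E ×ˢ univ).ncard (Y (Conf.restr (E ×ˢ univ) η))}, ?_, ?_, ?_⟩
  · -- measurability
    have e : {η : Conf PvPt | (η.pts ∩ E ×ˢ univ).Finite ∧ G2 (η.pts ∩ E ×ˢ univ).ncard (Y (Conf.restr (E ×ˢ univ) η))}
        = ⋃ n : ℕ, ({η : Conf PvPt | (η.pts ∩ E ×ˢ univ).Finite} ∩ ({η : Conf PvPt | (η.pts ∩ E ×ˢ univ).ncard = n} ∩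
            (fun η => Y (Conf.restr (E ×ˢ univ) η)) ⁻¹' (⋃ t ∈ {t | Good n t}, {y : ℕ → PvPt | pvplTy ρ E θ n y = t}))) := by
      ext η
      simp only [mem_ofPred_eq, mem_iUnion, mem_inter_iff, mem_preimage, exists_prop]
      constructor
      · rintro ⟨h1, h2⟩
        exact ⟨_, h1, rfl, _, h2, rfl⟩
      · rintro ⟨n, h1, rfl, t, h2, rfl⟩
        exact ⟨h1, h2⟩
    rw [e]
    refine MeasurableSet.iUnion fun n => (pvcn_fin hO).inter (((pvcn_ncard hO) (measurableSet_singleton n)).inter ?_)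
    refine (hY.comp (Conf.measurable_restr hO)) ?_
    exact MeasurableSet.biUnion (Set.to_countable _) fun t _ => pvpl_meas_ty hE hθ n t
  · intro η
    simp only [mem_ofPred_eq, hpts, pvi_restr_idem]
  · intro X 𝔅 η ξ zi hfin hok hm hzi
    constructor
    · rintro ⟨-, X', 𝔅', η', ξ', zi', y', hy', hty, hok', hm', hzi', hΦ'⟩
      exact (hΦ _ _ _ _ _ _ _ _ _ _ _ hok.simple hok'.simple (pvwg_iso_of_ty θ hok hok' hm hm' hzi hzi' (hcell η hfin) hy' hty.symm)).2 hΦ'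
    · intro h
      exact ⟨hfin, X, 𝔅, η, ξ, zi, _, hcell η hfin, rfl, hok, hm, hzi, h⟩

end types

/-! ## 3. FIELDS -/

/-- the index triples selected in the type `t`: first indices, and SOME configuration of the type `t` with SOME completion has a selected dart at these indices -/
def PvwgSel {κ : Type} (ρ : ℝ) (E : Set ℂ) (θ : ℂ → κ) (K : Set κ) (Ψ : PvzfPred κ) (n : ℕ) (t : PvzfTy κ n) (q : Fin n × Fin n × Fin n) : Prop :=
  PvzfFst t q.1 ∧ PvzfFst t q.2.1 ∧ PvzfFst t q.2.2 ∧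
    ∃ (X : Type) (𝔅 : PvBulk X) (η : Conf PvPt) (ξ : X → Bool) (zi : ℂ) (y : ℕ → PvPt), Conf.restr (E ×ˢ univ) η = Conf.cell (n, y) ∧ pvplTy ρ E θ n y = t ∧
      𝔅.Ok (cfSites η) (θ ⁻¹' K) ∧ PvwgGd ρ E (cfSites η) (θ ⁻¹' K) ∧ θ zi ∉ K ∧ ∃ d ∈ pvzfS 𝔅 θ Ψ η ξ zi, pvzfPos 𝔅 (cfSites η) zi d = pvzfY y q

open Classical in
/-- the field as a function of the enumeration of the window -/
noncomputable def pvwgFn {κ M : Type} [AddCommMonoid M] (ρ : ℝ) (E : Set ℂ) (θ : ℂ → κ) (K : Set κ) (Ψ : PvzfPred κ) (w : ℂ × ℂ × ℂ → M) (n : ℕ) (y : ℕ → PvPt) : M :=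
  ∑ q : Fin n × Fin n × Fin n, if PvwgSel ρ E θ K Ψ n (pvplTy ρ E θ n y) q then w (pvzfY y q) else 0


theorem pvwg_eqns_cite2 : True := by
  have := @PvwgSel.eq_1; have := @pvwgFn.eq_1
  trivial

section fn

variable {κ M : Type} [AddCommMonoid M] {ρ : ℝ} {E : Set ℂ} {θ : ℂ → κ} {K : Set κ} {Ψ : PvzfPred κ} {w : ℂ × ℂ × ℂ → M}

theorem pvwg_meas_sel [Countable κ] [MeasurableSpace κ] [MeasurableSingletonClass κ] (hE : PvplWin E) (hθ : Measurable θ) (n : ℕ) (q : Fin n × Fin n × Fin n) :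
    MeasurableSet {y : ℕ → PvPt | PvwgSel ρ E θ K Ψ n (pvplTy ρ E θ n y) q} := by
  have e : {y : ℕ → PvPt | PvwgSel ρ E θ K Ψ n (pvplTy ρ E θ n y) q} = ⋃ t ∈ {t : PvzfTy κ n | PvwgSel ρ E θ K Ψ n t q}, {y : ℕ → PvPt | pvplTy ρ E θ n y = t} := by
    ext y
    simp only [mem_ofPred_eq, mem_iUnion, exists_prop]
    constructor
    · intro h
      exact ⟨_, h, rfl⟩
    · rintro ⟨t, h, rfl⟩
      exact h
  rw [e]
  exact MeasurableSet.biUnion (Set.to_countable _) fun t _ => pvpl_meas_ty hE hθ n t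

theorem pvwg_measurable_fn [Countable κ] [MeasurableSpace κ] [MeasurableSingletonClass κ] [MeasurableSpace M] [MeasurableAdd₂ M] (hE : PvplWin E) (hθ : Measurable θ) (hw : Measurable w) (n : ℕ) :
    Measurable (pvwgFn ρ E θ K Ψ w n) := by
  unfold pvwgFn
  refine Finset.measurable_fun_sum _ fun q _ => ?_
  exact Measurable.ite (pvwg_meas_sel hE hθ n q) (hw.comp (pvzf_measurable_Y q)) measurable_const

end fn


section spec

variable {κ : Type} {X X' : Type} {𝔅 : PvBulk X} {𝔅' : PvBulk X'} {E : Set ℂ} {ρ : ℝ} {θ : ℂ → κ} {K : Set κ} {Ψ : PvzfPred κ}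

theorem pvwg_Y_injOn {n : ℕ} (y : ℕ → PvPt) : InjOn (pvzfY (n := n) y) {q | PvwgSel ρ E θ K Ψ n (pvplTy ρ E θ n y) q} := by
  intro q hq q' hq' e
  have h1 : (y q.1).1 = (y q'.1).1 := congrArg (fun p : ℂ × ℂ × ℂ => p.1) e
  have h2 : (y q.2.1).1 = (y q'.2.1).1 := congrArg (fun p : ℂ × ℂ × ℂ => p.2.1) e
  have h3 : (y q.2.2).1 = (y q'.2.2).1 := congrArg (fun p : ℂ × ℂ × ℂ => p.2.2) e
  refine Prod.ext (le_antisymm (hq.1 _ h1) (hq'.1 _ h1.symm)) (Prod.ext (le_antisymm (hq.2.1 _ h2) (hq'.2.1 _ h2.symm)) (le_antisymm (hq.2.2.1 _ h3) (hq'.2.2.1 _ h3.symm)))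


/-- **the positions of the selected darts = the sites of the selected index triples** -/
theorem pvwg_image_eq (hΨ : Ψ.Local K) (hs : Ψ.Supp K) {η : Conf PvPt} {ξ : X → Bool} {zi : ℂ}
    (hok : 𝔅.Ok (cfSites η) (θ ⁻¹' K)) (hm : PvwgGd ρ E (cfSites η) (θ ⁻¹' K)) (hzi : θ zi ∉ K) {n : ℕ} {y : ℕ → PvPt} (hy : Conf.restr (E ×ˢ univ) η = Conf.cell (n, y)) :
    pvzfY y '' {q | PvwgSel ρ E θ K Ψ n (pvplTy ρ E θ n y) q} = pvzfPos 𝔅 (cfSites η) zi '' pvzfS 𝔅 θ Ψ η ξ zi := by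
  ext p
  constructor
  · rintro ⟨q, ⟨-, -, -, X', 𝔅', η', ξ', zi', y', hy', hty, hok', hm', hzi', d', hd', hpos'⟩, rfl⟩
    have hi := pvwg_iso_of_ty θ hok hok' hm hm' hzi hzi' (ξ := ξ) (ξ' := ξ') hy hy' hty.symm
    have t4 : ∀ i j : Fin n, (y i).1 = (y j).1 ↔ (y' i).1 = (y' j).1 := fun i j => iff_of_eq (congrFun (congrFun (congrArg (fun t => t.2.2.2) hty.symm) i) j)
    obtain ⟨d, hRD⟩ := hi.ex' d' (hs _ _ _ _ _ d' hd')
    have hd : d ∈ pvzfS 𝔅 θ Ψ η ξ zi := (hΨ _ _ _ _ _ _ _ _ _ _ _ hok.simple hok'.simple hi d d' hRD).2 hd'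
    refine ⟨d, hd, ?_⟩
    have key : ∀ (u : 𝔅.V (cfSites η)) (u' : 𝔅'.V (cfSites η')) (i : Fin n),
        (∃ a a', (∃ i : Fin n, a = (y i).1 ∧ a' = (y' i).1) ∧ 𝔅.lab _ u = Sum.inl a ∧ 𝔅'.lab _ u' = Sum.inl a') → 𝔅'.posF _ zi' u' = (y' i).1 → 𝔅.posF _ zi u = (y i).1 := by
      rintro u u' i ⟨a, a', ⟨i1, rfl, rfl⟩, e, e'⟩ h
      rw [l9_posF_inl 𝔅' e'] at h
      rw [l9_posF_inl 𝔅 e]
      exact (t4 i1 i).2 h
    have p1 : 𝔅'.posF _ zi' ((𝔅'.T _).src d') = (y' q.1).1 := congrArg (fun p : ℂ × ℂ × ℂ => p.1) hpos'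
    have p2 : 𝔅'.posF _ zi' ((𝔅'.T _).tgt d') = (y' q.2.1).1 := congrArg (fun p : ℂ × ℂ × ℂ => p.2.1) hpos'
    have p3 : 𝔅'.posF _ zi' ((𝔅'.T _).apex d') = (y' q.2.2).1 := congrArg (fun p : ℂ × ℂ × ℂ => p.2.2) hpos'
    unfold pvzfPos pvzfY
    rw [key _ _ _ hRD.1 p1, key _ _ _ hRD.2.1 p2, key _ _ _ hRD.2.2 p3]
  · rintro ⟨d, hd, rfl⟩
    obtain ⟨a, b, c, -, -, -, htri, haK, e⟩ := pvzf_labs hok hzi d (hs _ _ _ _ _ d hd)
    have hret := hm a b c haK htri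
    have hsE : cfSites η ∩ E = cfSites (Conf.cell (n, y)) := by rw [← hy, pvtr_sites_restr]
    have hidx : ∀ a, a ∈ cfSites η ∩ E → ∃ i : Fin n, a = (y i).1 := by
      intro a ha
      rw [hsE] at ha
      obtain ⟨p, ⟨j, hj, rfl⟩, rfl⟩ := ha
      exact ⟨⟨j, hj⟩, rfl⟩
    obtain ⟨i₀, rfl⟩ := hidx a hret.mem_a
    obtain ⟨j₀, rfl⟩ := hidx b hret.mem_b
    obtain ⟨k₀, rfl⟩ := hidx c hret.mem_c
    obtain ⟨i, ei, fi⟩ := pvzf_fst_exists (ρ := ρ) (E := E) (θ := θ) y i₀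
    obtain ⟨j, ej, fj⟩ := pvzf_fst_exists (ρ := ρ) (E := E) (θ := θ) y j₀
    obtain ⟨k, ek, fk⟩ := pvzf_fst_exists (ρ := ρ) (E := E) (θ := θ) y k₀
    have e' : pvzfPos 𝔅 (cfSites η) zi d = pvzfY y (i, j, k) := by
      rw [e]; unfold pvzfY; rw [ei, ej, ek]
    exact ⟨(i, j, k), ⟨fi, fj, fk, X, 𝔅, η, ξ, zi, y, hy, rfl, hok, hm, hzi, d, hd, e'⟩, e'.symm⟩

variable {M : Type} [AddCommMonoid M] {w : ℂ × ℂ × ℂ → M}

/-- **on the mesh event the function of ANY enumeration of the window is the field of ANY completion** -/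
theorem pvwg_fn_eq (hΨ : Ψ.Local K) (hs : Ψ.Supp K) {η : Conf PvPt} {ξ : X → Bool} {zi : ℂ}
    (hok : 𝔅.Ok (cfSites η) (θ ⁻¹' K)) (hm : PvwgGd ρ E (cfSites η) (θ ⁻¹' K)) (hzi : θ zi ∉ K) {n : ℕ} {y : ℕ → PvPt} (hy : Conf.restr (E ×ˢ univ) η = Conf.cell (n, y)) :
    pvwgFn ρ E θ K Ψ w n y = pvzfSum 𝔅 θ Ψ w η ξ zi := by
  classical
  unfold pvwgFn pvzfSum
  rw [← finsum_mem_image (f := w) (pvzf_pos_injOn hs hok hzi), ← pvwg_image_eq hΨ hs hok hm hzi hy, finsum_mem_image (f := w) (pvwg_Y_injOn y), ← Finset.sum_filter,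
    ← finsum_mem_coe_finset]
  have e : ((Finset.univ.filter fun q : Fin n × Fin n × Fin n => PvwgSel ρ E θ K Ψ n (pvplTy ρ E θ n y) q : Finset _) : Set (Fin n × Fin n × Fin n))
      = {q | PvwgSel ρ E θ K Ψ n (pvplTy ρ E θ n y) q} := by
    ext q
    simp
  rw [e]

/-- the selected darts are finitely many -/
theorem pvwg_S_finite (hΨ : Ψ.Local K) (hs : Ψ.Supp K) {η : Conf PvPt} {ξ : X → Bool} {zi : ℂ}
    (hok : 𝔅.Ok (cfSites η) (θ ⁻¹' K)) (hm : PvwgGd ρ E (cfSites η) (θ ⁻¹' K)) (hzi : θ zi ∉ K) {n : ℕ} {y : ℕ → PvPt} (hy : Conf.restr (E ×ˢ univ) η = Conf.cell (n, y)) :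
    (pvzfS 𝔅 θ Ψ η ξ zi).Finite := by
  refine Set.Finite.of_finite_image ?_ (pvzf_pos_injOn hs hok hzi)
  rw [← pvwg_image_eq hΨ hs hok hm hzi hy]
  exact (Set.toFinite _).image _

end spec

section main

variable {κ M : Type} [AddCommMonoid M] {E : Set ℂ} {ρ : ℝ}

/-- `F` REPRESENTS the field: measurable, read from `E ×ˢ univ`, and on the mesh event equal to the field of EVERY completion -/
def PvwgRep [MeasurableSpace M] (θ : ℂ → κ) (Ψ : PvzfPred κ) (K : Set κ) (E : Set ℂ) (ρ : ℝ) (w : ℂ × ℂ × ℂ → M) (F : Conf PvPt → M) : Prop :=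
  Measurable F ∧ Conf.Reads (E ×ˢ univ) F ∧
    ∀ (X : Type) (𝔅 : PvBulk X) (η : Conf PvPt) (ξ : X → Bool) (zi : ℂ), (η.pts ∩ E ×ˢ univ).Finite → 𝔅.Ok (cfSites η) (θ ⁻¹' K) → PvwgGd ρ E (cfSites η) (θ ⁻¹' K) → θ zi ∉ K →
      F η = pvzfSum 𝔅 θ Ψ w η ξ zi

theorem pvwg_eqns_cite3 : True := by
  have := @PvwgRep.eq_1
  trivial

/-- **MAIN THEOREM FOR FIELDS (locality + measurability + independence of the completion)** -/
theorem pvwg_mainF [Countable κ] [MeasurableSpace κ] [MeasurableSingletonClass κ] [MeasurableSpace M] [MeasurableAdd₂ M] {θ : ℂ → κ} (hθ : Measurable θ) {Ψ : PvzfPred κ} {K : Set κ}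
    (hΨ : Ψ.Local K) (hs : Ψ.Supp K) (hE : PvplWin E) {w : ℂ × ℂ × ℂ → M} (hw : Measurable w) :
    ∃ F : Conf PvPt → M, PvwgRep θ Ψ K E ρ w F := by
  classical
  have hO : MeasurableSet (E ×ˢ (univ : Set Bool)) := hE.1.prod MeasurableSet.univ
  obtain ⟨Y, hY, hYe⟩ := pvcn_enum hO
  have hpts : ∀ η : Conf PvPt, (Conf.restr (E ×ˢ univ) η).pts ∩ E ×ˢ univ = η.pts ∩ E ×ˢ univ := by
    intro η
    show (η.pts ∩ E ×ˢ univ) ∩ E ×ˢ univ = _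
    rw [inter_assoc, inter_self]
  have hcell : ∀ η : Conf PvPt, (η.pts ∩ E ×ˢ univ).Finite →
      Conf.restr (E ×ˢ univ) η = Conf.cell ((η.pts ∩ E ×ˢ univ).ncard, Y (Conf.restr (E ×ˢ univ) η)) := by
    intro η hfin
    have := hYe (Conf.restr (E ×ˢ univ) η) (by rw [hpts]; exact hfin)
    rwa [pvi_restr_idem, hpts] at this
  refine ⟨fun η => if (η.pts ∩ E ×ˢ univ).Finite then pvwgFn ρ E θ K Ψ w (η.pts ∩ E ×ˢ univ).ncard (Y (Conf.restr (E ×ˢ univ) η)) else 0, ?_, ?_, ?_⟩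
  · refine Measurable.ite (pvcn_fin hO) ?_ measurable_const
    have h1 : Measurable fun p : ℕ × (ℕ → PvPt) => pvwgFn ρ E θ K Ψ w p.1 p.2 := measurable_from_prod_countable_right fun n => pvwg_measurable_fn hE hθ hw n
    exact h1.comp ((pvcn_ncard hO).prodMk (hY.comp (Conf.measurable_restr hO)))
  · intro η
    simp only [hpts, pvi_restr_idem]
  · intro X 𝔅 η ξ zi hfin hok hm hzi
    simp only [if_pos hfin]
    exact pvwg_fn_eq hΨ hs hok hm hzi (hcell η hfin)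

/-- two representatives agree wherever SOME completion exists -/
theorem PvwgRep.unique [MeasurableSpace M] {θ : ℂ → κ} {Ψ : PvzfPred κ} {K : Set κ} {w : ℂ × ℂ × ℂ → M} {F F' : Conf PvPt → M} (hF : PvwgRep θ Ψ K E ρ w F) (hF' : PvwgRep θ Ψ K E ρ w F')
    {X : Type} {𝔅 : PvBulk X} {η : Conf PvPt} (ξ : X → Bool) {zi : ℂ} (hfin : (η.pts ∩ E ×ˢ univ).Finite) (hok : 𝔅.Ok (cfSites η) (θ ⁻¹' K)) (hm : PvwgGd ρ E (cfSites η) (θ ⁻¹' K)) (hzi : θ zi ∉ K) :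
    F η = F' η := by
  rw [hF.2.2 X 𝔅 η ξ zi hfin hok hm hzi, hF'.2.2 X 𝔅 η ξ zi hfin hok hm hzi]


end main

/-! ## 4. THE EVENT, THE FIELD (choice), PLANE FORMS -/

section choice

variable {κ : Type} {θ : ℂ → κ} {K : Set κ} {E : Set ℂ} {ρ : ℝ}

/-- `B` is AN EVENT OF THE PREDICATE `Φ` in the window `E`: measurable, read from the window, and on the guard it is `Φ` for EVERY completion -/
structure PvwgIsEv (θ : ℂ → κ) (Φ : PvplPred κ) (K : Set κ) (E : Set ℂ) (ρ : ℝ) (B : Set (Conf PvPt)) : Prop where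
  meas : MeasurableSet B
  reads : Conf.ReadsSet (E ×ˢ univ) B
  dict : ∀ (X : Type) (𝔅 : PvBulk X) (η : Conf PvPt) (ξ : X → Bool) (zi : ℂ), (η.pts ∩ E ×ˢ univ).Finite → 𝔅.Ok (cfSites η) (θ ⁻¹' K) → PvwgGd ρ E (cfSites η) (θ ⁻¹' K) → θ zi ∉ K →
    (η ∈ B ↔ Φ _ _ (𝔅.T (cfSites η)) (fun v => θ (𝔅.posF _ zi v)) (𝔅.col η ξ))

open Classical in
/-- THE event of the predicate `Φ` (`∅` if there is none) -/
noncomputable def pvwgEv (θ : ℂ → κ) (Φ : PvplPred κ) (K : Set κ) (E : Set ℂ) (ρ : ℝ) : Set (Conf PvPt) :=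
  if h : ∃ B, PvwgIsEv θ Φ K E ρ B then h.choose else ∅

open Classical in
/-- THE field of a local rule (`0` if there is none) -/
noncomputable def pvwgFld (θ : ℂ → κ) (Ψ : PvzfPred κ) (K : Set κ) (E : Set ℂ) (ρ : ℝ) (w : ℂ × ℂ × ℂ → ℂ) : Conf PvPt → ℂ :=
  if h : ∃ F, PvwgRep θ Ψ K E ρ w F then h.choose else 0

theorem pvwg_eqns_cite4 : True := by
  have := @pvwgEv.eq_1; have := @pvwgFld.eq_1
  trivial

theorem pvwg_ev_spec [Countable κ] [MeasurableSpace κ] [MeasurableSingletonClass κ] (hθ : Measurable θ) {Φ : PvplPred κ} (hΦ : Φ.Local K) (hE : PvplWin E) :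
    PvwgIsEv θ Φ K E ρ (pvwgEv θ Φ K E ρ) := by
  have hex : ∃ B, PvwgIsEv θ Φ K E ρ B := by
    obtain ⟨B, h1, h2, h3⟩ := pvwg_main (ρ := ρ) hθ hΦ hE
    exact ⟨B, h1, h2, h3⟩
  unfold pvwgEv
  rw [dif_pos hex]
  exact hex.choose_spec

theorem pvwg_fld_rep [Countable κ] [MeasurableSpace κ] [MeasurableSingletonClass κ] (hθ : Measurable θ) {Ψ : PvzfPred κ} (hΨ : Ψ.Local K) (hs : Ψ.Supp K) (hE : PvplWin E)
    {w : ℂ × ℂ × ℂ → ℂ} (hw : Measurable w) : PvwgRep θ Ψ K E ρ w (pvwgFld θ Ψ K E ρ w) := by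
  have hex : ∃ F, PvwgRep θ Ψ K E ρ w F := pvwg_mainF hθ hΨ hs hE hw
  unfold pvwgFld
  rw [dif_pos hex]
  exact hex.choose_spec

/-- the event on the Delaunay plane -/
theorem PvwgIsEv.plane {Φ : PvplPred κ} {B : Set (Conf PvPt)} (hB : PvwgIsEv θ Φ K E ρ B) {η : Conf PvPt} (h : DelGood (cfSites η))
    (hfin : (η.pts ∩ E ×ˢ univ).Finite) (hm : PvwgGd ρ E (cfSites η) (θ ⁻¹' K)) {zi : ℂ} (hzi : θ zi ∉ K) :
    η ∈ B ↔ Φ _ _ (delbPl (cfSites η)).toMap (fun v => θ v.1) (fun v => cfCol η v.1) :=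
  hB.dict Empty delbPlane η Empty.elim zi hfin ((delb_plane_ok h).mono (subset_univ _)) hm hzi

/-- the field on the Delaunay plane -/
theorem PvwgRep.plane {M : Type} [AddCommMonoid M] [MeasurableSpace M] {Ψ : PvzfPred κ} {w : ℂ × ℂ × ℂ → M} {F : Conf PvPt → M} (hF : PvwgRep θ Ψ K E ρ w F) {η : Conf PvPt} (h : DelGood (cfSites η))
    (hfin : (η.pts ∩ E ×ˢ univ).Finite) (hm : PvwgGd ρ E (cfSites η) (θ ⁻¹' K)) {zi : ℂ} (hzi : θ zi ∉ K) : F η = pvzfPl θ Ψ w η :=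
  hF.2.2 Empty delbPlane η Empty.elim zi hfin ((delb_plane_ok h).mono (subset_univ _)) hm hzi

end choice

/-! ## 5. THE GUARD EVENT OF A LIST OF MESHES -/

/-- **the guard of a window `E` with a list of meshes** `(ρᵢ, Eᵢ)`: finitely many points in `E`, mesh `ρᵢ` on `Eᵢ` -/
def PvwgMs (E : Set ℂ) (ms : List (ℝ × Set ℂ)) (η : Conf PvPt) : Prop := PvtnFin E η ∧ ∀ p ∈ ms, PvtrMesh p.1 p.2 (cfSites η)

theorem pvwg_eqns_cite5 : True := by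
  have := @PvwgMs.eq_1
  trivial

section ms

variable {E : Set ℂ} {ms : List (ℝ × Set ℂ)}

theorem pvwg_ms_meas (hE : MeasurableSet E) (hEb : Bornology.IsBounded E) (h : ∀ p ∈ ms, p.2 ⊆ E ∧ MeasurableSet p.2) : MeasurableSet {η : Conf PvPt | PvwgMs E ms η} := by
  have e : {η : Conf PvPt | PvwgMs E ms η} = {η : Conf PvPt | PvtnFin E η} ∩ ⋂ p ∈ {p | p ∈ ms}, {η : Conf PvPt | PvtnFin p.2 η ∧ PvtrMesh p.1 p.2 (cfSites η)} := by
    ext η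
    simp only [mem_ofPred_eq, mem_inter_iff, mem_iInter]
    constructor
    · rintro ⟨h1, h2⟩
      exact ⟨h1, fun p hp => ⟨h1.subset (inter_subset_inter_right _ (prod_mono (h p hp).1 Subset.rfl)), h2 p hp⟩⟩
    · rintro ⟨h1, h2⟩
      exact ⟨h1, fun p hp => (h2 p hp).2⟩
  rw [e]
  refine (pvcn_fin (hE.prod MeasurableSet.univ)).inter (MeasurableSet.biInter (List.finite_toSet ms).countable fun p hp => ?_)
  exact pvsp_mesh_meas (h p hp).2 (hEb.subset (h p hp).1) _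

theorem pvwg_ms_reads (h : ∀ p ∈ ms, p.2 ⊆ E) : Conf.ReadsSet (E ×ˢ univ) {η : Conf PvPt | PvwgMs E ms η} := by
  intro η
  have h1 := pvtn_reads_fin E η
  show (PvtnFin _ _ ∧ _) ↔ (PvtnFin _ _ ∧ _)
  refine and_congr h1 (forall_congr' fun p => forall_congr' fun hp => ?_)
  refine pvtr_mesh_congr ?_
  rw [pvtr_sites_restr, inter_assoc, inter_eq_self_of_subset_right (h p hp)]

/-- the list of meshes gives THE GUARD -/
theorem PvwgMs.gd {ρ : ℝ} {Z : Set ℂ} {η : Conf PvPt} (H : PvwgMs E ms η) (h0 : ∀ p ∈ ms, 0 < p.1 ∧ p.1 ≤ ρ ∧ p.2 ⊆ E) (hZ : ∀ w ∈ Z, ∃ p ∈ ms, w ∈ pvtrCore (3 * p.1) p.2) :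
    PvwgGd ρ E (cfSites η) Z := pvwg_gd_of_list h0 H.2 hZ

end ms

/-! ## 6. COVARIANCE UNDER SIMILARITIES      (copies of `PvplRep.sim` of 238, `PvzfRep.sim`, `PvzfRep.placed` of 107) -/

/-- covariance of the guard -/
theorem pvwg_gd_sim {ρ : ℝ} {E Y Z : Set ℂ} {α : ℂ} (hα : α ≠ 0) (β : ℂ) : PvwgGd (‖α‖ * ρ) (vorSim α β '' E) (vorSim α β '' Y) (vorSim α β '' Z) ↔ PvwgGd ρ E Y Z := by
  constructor
  · intro h a b c ha ht
    exact (pvtr_sim hα β).1 (h _ _ _ ⟨a, ha, rfl⟩ ((pvtr_tri_sim hα β).2 ht))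
  · rintro h _ b' c' ⟨a, ha, rfl⟩ ht
    obtain ⟨b, -, rfl⟩ := ht.2.1
    obtain ⟨c, -, rfl⟩ := ht.2.2.1
    exact (pvtr_sim hα β).2 (h a b c ha ((pvtr_tri_sim hα β).1 ht))

section sim

variable {κ M : Type} [AddCommMonoid M] {E : Set ℂ} {ρ : ℝ} {θ : ℂ → κ} {K : Set κ}

/-- **covariance**: the preimage of a representing event under a similarity represents the same predicate with the moved tests -/
theorem PvwgIsEv.sim {Φ : PvplPred κ} {B : Set (Conf PvPt)} (hB : PvwgIsEv θ Φ K E ρ B) {α : ℂ} (hα : α ≠ 0) (β : ℂ) :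
    PvwgIsEv (θ ∘ vorSim α β) Φ K (vorSim α β ⁻¹' E) (ρ / ‖α‖) (cfMap (vorSim α β) ⁻¹' B) := by
  refine ⟨measurable_cfMap (pvcv_measurable α β) hB.meas, fun η => ?_, ?_⟩
  · show cfMap (vorSim α β) (Conf.restr ((vorSim α β ⁻¹' E) ×ˢ univ) η) ∈ B ↔ cfMap (vorSim α β) η ∈ B
    rw [pvzf_restr_map]
    exact hB.reads _
  intro X 𝔅 η ξ zi hf hok hm hzi
  have hsur : Function.Surjective (vorSim α β) := vorSim_surjective hα β
  have hn : ‖α‖ ≠ 0 := norm_ne_zero_iff.2 hα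
  have e1 : cfSites (cfMap (vorSim α β) η) = vorSim α β '' cfSites η := pvcv_sites α β η
  have hK' : θ ⁻¹' K = vorSim α β '' ((θ ∘ vorSim α β) ⁻¹' K) := by
    rw [preimage_comp, image_preimage_eq _ hsur]
  have hok' : (pvgFam fun _ => 𝔅.mv (cfSites η) (vorSim α β)).Ok (cfSites (cfMap (vorSim α β) η)) (θ ⁻¹' K) := by
    rw [pvg_w_fam_ok, e1, hK']
    exact pvplb_mv_ok hα β hok
  have hm' : PvwgGd ρ E (cfSites (cfMap (vorSim α β) η)) (θ ⁻¹' K) := by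
    have := (pvwg_gd_sim (ρ := ρ / ‖α‖) (E := vorSim α β ⁻¹' E) (Y := cfSites η) (Z := (θ ∘ vorSim α β) ⁻¹' K) hα β).2 hm
    rwa [image_preimage_eq _ hsur, mul_div_cancel₀ _ hn, ← e1, ← hK'] at this
  have hf' : ((cfMap (vorSim α β) η).pts ∩ E ×ˢ univ).Finite := by
    refine (hf.image (Prod.map (vorSim α β) id)).subset ?_
    rintro p ⟨⟨q, hq, rfl⟩, hp⟩
    exact ⟨q, ⟨hq, ⟨hp.1, mem_univ _⟩⟩, rfl⟩
  have key := hB.dict X (pvgFam fun _ => 𝔅.mv (cfSites η) (vorSim α β)) (cfMap (vorSim α β) η) ξ (vorSim α β zi) hf' hok' hm' hzi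
  have em : ∀ v : 𝔅.V (cfSites η), θ ((pvgFam fun _ => 𝔅.mv (cfSites η) (vorSim α β)).posF (cfSites (cfMap (vorSim α β) η)) (vorSim α β zi) v)
      = (θ ∘ vorSim α β) (𝔅.posF (cfSites η) zi v) := by
    intro v
    show θ (Sum.elim id (fun _ => vorSim α β zi) (Sum.map (vorSim α β) id (𝔅.lab (cfSites η) v))) = θ (vorSim α β (Sum.elim id (fun _ => zi) (𝔅.lab (cfSites η) v)))
    cases 𝔅.lab (cfSites η) v <;> rfl
  have ec : ∀ v : 𝔅.V (cfSites η), (pvgFam fun _ => 𝔅.mv (cfSites η) (vorSim α β)).col (cfMap (vorSim α β) η) ξ v = 𝔅.col η ξ v := by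
    intro v
    show Sum.elim (cfCol (cfMap (vorSim α β) η)) ξ (Sum.map (vorSim α β) id (𝔅.lab (cfSites η) v)) = Sum.elim (cfCol η) ξ (𝔅.lab (cfSites η) v)
    cases 𝔅.lab (cfSites η) v with
    | inl a => exact pvcv_col hα η a
    | inr x => rfl
  have cong : ∀ (m₁ m₂ : 𝔅.V (cfSites η) → κ) (s₁ s₂ : 𝔅.V (cfSites η) → Bool), m₁ = m₂ → s₁ = s₂ →
      (Φ _ _ (𝔅.T (cfSites η)) m₁ s₁ ↔ Φ _ _ (𝔅.T (cfSites η)) m₂ s₂) := by
    rintro m₁ _ s₁ _ rfl rfl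
    exact Iff.rfl
  exact key.trans (cong _ _ _ _ (funext em) (funext ec))


/-- two events of the same predicate coincide on the guard as soon as ONE completion exists -/
theorem PvwgIsEv.unique {Φ : PvplPred κ} {B B' : Set (Conf PvPt)} (hB : PvwgIsEv θ Φ K E ρ B) (hB' : PvwgIsEv θ Φ K E ρ B')
    {X : Type} (𝔅 : PvBulk X) {η : Conf PvPt} (ξ : X → Bool) {zi : ℂ} (hf : (η.pts ∩ E ×ˢ univ).Finite) (hok : 𝔅.Ok (cfSites η) (θ ⁻¹' K)) (hm : PvwgGd ρ E (cfSites η) (θ ⁻¹' K))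
    (hzi : θ zi ∉ K) : η ∈ B ↔ η ∈ B' :=
  (hB.dict X 𝔅 η ξ zi hf hok hm hzi).trans (hB'.dict X 𝔅 η ξ zi hf hok hm hzi).symm

/-- **covariance**: `F ∘ cfMap (vorSim α β)` represents the field with the moved tests and the moved summand -/
theorem PvwgRep.sim [MeasurableSpace M] {Ψ : PvzfPred κ} {w : ℂ × ℂ × ℂ → M} {F : Conf PvPt → M} (hF : PvwgRep θ Ψ K E ρ w F) {α : ℂ} (hα : α ≠ 0) (β : ℂ) :
    PvwgRep (θ ∘ vorSim α β) Ψ K (vorSim α β ⁻¹' E) (ρ / ‖α‖) (w ∘ pvzfMap3 (vorSim α β)) (fun η => F (cfMap (vorSim α β) η)) := by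
  refine ⟨hF.1.comp (measurable_cfMap (pvcv_measurable α β)), fun η => ?_, ?_⟩
  · show F (cfMap (vorSim α β) (Conf.restr ((vorSim α β ⁻¹' E) ×ˢ univ) η)) = F (cfMap (vorSim α β) η)
    rw [pvzf_restr_map, hF.2.1]
  intro X 𝔅 η ξ zi hf hok hm hzi
  have hsur : Function.Surjective (vorSim α β) := vorSim_surjective hα β
  have hn : ‖α‖ ≠ 0 := norm_ne_zero_iff.2 hα
  have e1 : cfSites (cfMap (vorSim α β) η) = vorSim α β '' cfSites η := pvcv_sites α β η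
  have hK' : θ ⁻¹' K = vorSim α β '' ((θ ∘ vorSim α β) ⁻¹' K) := by
    rw [preimage_comp, image_preimage_eq _ hsur]
  have hok' : (pvgFam fun _ => 𝔅.mv (cfSites η) (vorSim α β)).Ok (cfSites (cfMap (vorSim α β) η)) (θ ⁻¹' K) := by
    rw [pvg_w_fam_ok, e1, hK']
    exact pvplb_mv_ok hα β hok
  have hm' : PvwgGd ρ E (cfSites (cfMap (vorSim α β) η)) (θ ⁻¹' K) := by
    have := (pvwg_gd_sim (ρ := ρ / ‖α‖) (E := vorSim α β ⁻¹' E) (Y := cfSites η) (Z := (θ ∘ vorSim α β) ⁻¹' K) hα β).2 hm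
    rwa [image_preimage_eq _ hsur, mul_div_cancel₀ _ hn, ← e1, ← hK'] at this
  have hf' : ((cfMap (vorSim α β) η).pts ∩ E ×ˢ univ).Finite := by
    refine (hf.image (Prod.map (vorSim α β) id)).subset ?_
    rintro p ⟨⟨q, hq, rfl⟩, hp⟩
    exact ⟨q, ⟨hq, ⟨hp.1, mem_univ _⟩⟩, rfl⟩
  have key := hF.2.2 X (pvgFam fun _ => 𝔅.mv (cfSites η) (vorSim α β)) (cfMap (vorSim α β) η) ξ (vorSim α β zi) hf' hok' hm' hzi
  have ep : ∀ v : 𝔅.V (cfSites η), (pvgFam fun _ => 𝔅.mv (cfSites η) (vorSim α β)).posF (cfSites (cfMap (vorSim α β) η)) (vorSim α β zi) v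
      = vorSim α β (𝔅.posF (cfSites η) zi v) := by
    intro v
    show Sum.elim id (fun _ => vorSim α β zi) (Sum.map (vorSim α β) id (𝔅.lab (cfSites η) v)) = vorSim α β (Sum.elim id (fun _ => zi) (𝔅.lab (cfSites η) v))
    cases 𝔅.lab (cfSites η) v <;> rfl
  have ec : ∀ v : 𝔅.V (cfSites η), (pvgFam fun _ => 𝔅.mv (cfSites η) (vorSim α β)).col (cfMap (vorSim α β) η) ξ v = 𝔅.col η ξ v := by
    intro v
    show Sum.elim (cfCol (cfMap (vorSim α β) η)) ξ (Sum.map (vorSim α β) id (𝔅.lab (cfSites η) v)) = Sum.elim (cfCol η) ξ (𝔅.lab (cfSites η) v)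
    cases 𝔅.lab (cfSites η) v with
    | inl a => exact pvcv_col hα η a
    | inr x => rfl
  have cong : ∀ (m₁ m₂ : 𝔅.V (cfSites η) → κ) (s₁ s₂ : 𝔅.V (cfSites η) → Bool) (g₁ g₂ : 𝔅.D (cfSites η) → M), m₁ = m₂ → s₁ = s₂ → g₁ = g₂ →
      ∑ᶠ d ∈ {d | Ψ _ _ (𝔅.T (cfSites η)) m₁ s₁ d}, g₁ d = ∑ᶠ d ∈ {d | Ψ _ _ (𝔅.T (cfSites η)) m₂ s₂ d}, g₂ d := by
    rintro m₁ _ s₁ _ g₁ _ rfl rfl rfl
    rfl
  refine key.trans (cong _ _ _ _ _ _ (funext fun v => congrArg θ (ep v)) (funext ec) (funext fun d => ?_))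
  exact congrArg w (Prod.ext (ep ((𝔅.T (cfSites η)).src d)) (Prod.ext (ep ((𝔅.T (cfSites η)).tgt d)) (ep ((𝔅.T (cfSites η)).apex d))))

/-- **the form met by the placed fields `pvthX` of the cell kit** -/
theorem PvwgRep.placed [MeasurableSpace M] {Ψ : PvzfPred κ} {w : ℂ × ℂ × ℂ → M} {F : Conf PvPt → M} (hF : PvwgRep θ Ψ K E ρ w F) (z : ℂ) {d : ℂ} (hd : d ≠ 0) :
    PvwgRep (θ ∘ pvthInv z d) Ψ K (pvthInv z d ⁻¹' E) (ρ * ‖d‖) (w ∘ pvzfMap3 (pvthInv z d)) (fun η => F (cfMap (pvthInv z d) η)) := by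
  have h := hF.sim (inv_ne_zero hd) (-(d⁻¹ * z))
  rw [← pvzf_inv_eq, norm_inv, div_inv_eq_mul] at h
  exact h

end sim

end Claimed.Agent.R289
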