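-- KEEP
import Claimed.Agent.R289.Tr.ConnP
import Claimed.Agent.R289.Tr.CloseM
import Claimed.Agent.R289.Tr.PlugW
import Claimed.Agent.R289.Tr.PlugClose
import Claimed.Agent.R289.Tr.PinLocW

/-!
# Row 289 (S0537, Cardy for Poisson-Voronoi), THE WALL, ROAD P, file Tr/ConnQ : CONNECTORS WITH ABSTRACT ENDS, MASK FORM, THE GLUE      (pen helper113; = `Tr/ConnP` v2; prefix `pvkj_`, `pvkj`, `Pvkj`)

WHY.   After P9 (S1) of 273 the doors and the reference plug are KIT plugs (gate of record `PvzlGt` of 173 / `PvkdGate` of 34), the big plugs are REGION STATES (`PvspSt.At` of 185).   Every foreign connector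
(`o b : big → kit`, `i e : kit → big`, `r : kit → kit`) has a kit end, every cycle / pattern is a MIXED list of foreign connectors and cells.      `Tr/ConnP` v1 (big → big, index form) stays as a LIBRARY (transfer, uniqueness, lanes).
CONSUMER: **`PvcmRing`** of 95 (`Tr/CloseM`, proved: `PvcmRing.toRing : PvcqRing`).      CONVENTION = THE MASK FORM OF 34: `X_e` = mass IN THE DETERMINISTIC MASK `M` of the tags of (inner arc of the source, link, inner arc of the target), `Q` alone.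

* sec. 1  **AN END** `PvkjEnd κ` = a predicate `Is` on (marked coloured map, gate) + reading zone `Z` + deep marks `I`;   `Ok` (twin `PvzlTw` of 173 along every `PvplIso`, through strand in `Z`, closed inside in `Z`, deep marks inside),
          `Uq` (THE gate: uniqueness on spheres), `Ar A` (the vertices of the inner arc are marked `A`).      INSTANCES `pvkjBig 𝔯` (gate `S₂` of THE state), `pvkjKit p` (gate of record), `pvkjEnd k 𝔯` (both, regions of 185; `pvkjRegK p`).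
* sec. 2  THE LINK `PvkjLk` (two ends + `PvzlRun` of 173), predicate `PvkjA`, three tag rules `PvkjT0 T1 T2`, zone `pvkjZ`;   LOCALITY, supports, change of marks.
* sec. 3  AT ONE SPHERE: `PvkjGeo n 𝔢 KE` (what the regions owe), **`pvkj_glue`** (n facts ⟹ ONE family of gates), **`pvkj_ring`** `: PvgzRing` (260), `pvkj_arc_zone`, `pvkj_T0_set T1 T2`.
* sec. 4  `Conf PvPt`: generic window event / field `pvkjEv`, `pvwgFld` (guard = A LIST OF MESHES, `Tr/PinLocW`);   placed connector `PvkjCn`, `Wf`, **`pvkjA C`**, **`pvkjX C`**: measurable, read from `E ×ˢ univ`, plane forms, **`pvkj_X_sum`** = [SUM].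
* sec. 5  **THE FACT** `PvkjFt η b 𝔢 𝔢' KE M U x g g' N` = ALL that a connector or a cell gives at `η`;   producers **`pvkj_fact`** (foreign), **`pvkj_fact_cell`** (cells of 34).
* sec. 6  **CLOSE**: `PvkjCyc`, **`pvkj_close`** (`PvcmAt` of 95 + values), **`pvkj_ringM : PvcmRing`**.
* sec. 7  PRODUCERS FOR THE FORCING (272 58): `pvkj_run_of_lanes` (two lanes ⟹ `PvzlRun`), `pvkj_big_of_pred` (state event ⟹ big end).
-/

set_option autoImplicit false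
set_option linter.unusedSectionVars false
set_option linter.unusedVariables false

namespace Claimed.Agent.R289

open MeasureTheory Set Filter Topology Metric Claims.C0465
open scoped ENNReal

/-! ## 1. ENDS -/

/-- **AN END OF A CONNECTOR**: `Is V D T mk s g` = "`g` is THE gate of the plug in the marked coloured map `(T, mk, s)`" (`true` = the colour of the rim);   `Z` = the marks at which the end is read,   `I` = deep marks (strictly inside the gate) -/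
structure PvkjEnd (κ : Type) : Type 1 where
  Is : ∀ (V D : Type) (T : PvMap V D), (V → κ) → ∀ s : V → Bool, T.Gate s → Prop
  Z : Set κ
  I : Set κ

section ends

variable {κ κ' : Type}

/-- **what an end owes to LOCALITY and to the ring** (all simple maps) -/
structure PvkjEnd.Ok (𝔢 : PvkjEnd κ) : Prop where
  /-- the gate is carried over by every local isomorphism which sees the zone -/
  twin : ∀ (V D V' D' : Type) (T : PvMap V D) (mk : V → κ) (s : V → Bool) (T' : PvMap V' D') (mk' : V' → κ) (s' : V' → Bool) (K : Set κ) (R : V → V' → Prop),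
    PvplIso T mk s T' mk' s' K R → T.Simple → T'.Simple → 𝔢.Z ⊆ K → ∀ g : T.Gate s, 𝔢.Is V D T mk s g → ∃ g' : T'.Gate s', 𝔢.Is V' D' T' mk' s' g' ∧ PvzlTw T mk T' K R g g'
  /-- the strand goes through the gate, the faces it crosses are marked in the zone -/
  thru : ∀ (V D : Type) (T : PvMap V D) (mk : V → κ) (s : V → Bool) (g : T.Gate s), 𝔢.Is V D T mk s g → ∃ N, PvzlThru T mk s 𝔢.Z g N
  /-- the closed inside is marked in the zone -/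
  zone : ∀ (V D : Type) (T : PvMap V D) (mk : V → κ) (s : V → Bool) (g : T.Gate s), 𝔢.Is V D T mk s g → ∀ d ∈ g.c.Left, mk (T.src d) ∈ 𝔢.Z
  /-- the vertices with a deep mark are strictly inside -/
  deep : ∀ (V D : Type) (T : PvMap V D) (mk : V → κ) (s : V → Bool) (g : T.Gate s), 𝔢.Is V D T mk s g → ∀ d, mk (T.src d) ∈ 𝔢.I → d ∈ g.c.Left

/-- **THE gate**: uniqueness on simple spheres -/
def PvkjEnd.Uq (𝔢 : PvkjEnd κ) : Prop :=
  ∀ (V D : Type) (T : PvMap V D) (mk : V → κ) (s : V → Bool), T.IsSph → T.Simple → ∀ g g₂ : T.Gate s, 𝔢.Is V D T mk s g → 𝔢.Is V D T mk s g₂ → g = g₂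

/-- the vertices of the inner arc are marked in `A` (simple spheres, finite inside) -/
def PvkjEnd.Ar (𝔢 : PvkjEnd κ) (A : Set κ) : Prop :=
  ∀ (V D : Type) [DecidableEq V] (T : PvMap V D) (mk : V → κ) (s : V → Bool), T.IsSph → T.Simple → ∀ g : T.Gate s, g.c.Left.Finite → 𝔢.Is V D T mk s g →
    ∀ i, i ≤ (pvtArc T s g.aIn g.len).n → mk ((pvtArc T s g.aIn g.len).v i) ∈ A

/-- the closed inside of THE gate is marked in `A`      (`Ok.zone` : `In Z`;   kit: `In KO`, SHARPER than the reading zone) -/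
def PvkjEnd.In (𝔢 : PvkjEnd κ) (A : Set κ) : Prop :=
  ∀ (V D : Type) (T : PvMap V D) (mk : V → κ) (s : V → Bool) (g : T.Gate s), 𝔢.Is V D T mk s g → ∀ d ∈ g.c.Left, mk (T.src d) ∈ A

/-- **THE BIG END**: the gate `S₂` of THE region state of 185 (with the mesh at the gates) -/
def pvkjBig (𝔯 : PvspReg κ) : PvkjEnd κ where
  Is := fun _ _ T mk s g => PvplStar T mk (fun x => x ∈ 𝔯 .O2) (𝔯 .S2) ∧ ∃ 𝔖 : PvspSt T s, 𝔖.At mk 𝔯 ∧ 𝔖.g2 = g
  Z := 𝔯 .S2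
  I := 𝔯 .I2

/-- **THE KIT END**: the gate of record of 173 -/
def pvkjKit (p : PvzlPg κ) : PvkjEnd κ where
  Is := fun _ _ T mk s g => PvzlGt T mk s p g
  Z := pvznRd p
  I := p.KI

/-- the marks of a kit plug read in the regions of 185: `I₂ O₂` = the two discs, `N⁻ N⁺` = rooms of `g⁻ g⁺`, `C₁` = the tube -/
def pvkjPg (𝔯 : PvspReg κ) : PvzlPg κ := ⟨𝔯 .I2, 𝔯 .O2, 𝔯 .Nm, 𝔯 .Np, 𝔯 .C1⟩

/-- the regions of 185 which carry a kit plug -/
def pvkjRegK (p : PvzlPg κ) : PvspReg κ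
  | .I2 => p.KI
  | .O2 => p.KO
  | .S2 => p.KO
  | .C1 => p.KT
  | .Np => p.Kp
  | .Nm => p.Km
  | _ => ∅

/-- **the two kinds of ends** in ONE vocabulary: `true` = big, `false` = kit -/
def pvkjEnd : Bool → PvspReg κ → PvkjEnd κ
  | true, 𝔯 => pvkjBig 𝔯
  | false, 𝔯 => pvkjKit (pvkjPg 𝔯)

theorem pvkj_eqns_cite : True := by
  have := @PvkjEnd.In.eq_1
  have := @PvkjEnd.Uq.eq_1; have := @PvkjEnd.Ar.eq_1; have := @pvkjBig.eq_1; have := @pvkjKit.eq_1; have := @pvkjPg.eq_1; have := @pvkjRegK.eq_1; have := @pvkjEnd.eq_1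
  trivial

theorem pvkj_pg_regK (p : PvzlPg κ) : pvkjPg (pvkjRegK p) = p := rfl

theorem pvkj_regK_nest {p : PvzlPg κ} (h : p.KI ⊆ p.KO) : (pvkjRegK p).Nest := ⟨Subset.rfl, empty_subset _, h, Subset.rfl⟩

theorem pvkj_end_kit (p : PvzlPg κ) : pvkjEnd false (pvkjRegK p) = pvkjKit p := rfl

/-- [E1] the through strand of a selected gate (NO sphere: `sInf` argument; `on` gives `aIn ∈ Left`, `Thru` + `pvtg_ne` exclude the empty case) -/
theorem pvkj_sel_thru {V D : Type} {T : PvMap V D} {s : V → Bool} {I O : Set D} {g : T.Gate s} (h : PvspSel T s I O g) :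
    1 ≤ g.len ∧ pvasIt T s g.aIn g.len = g.aOut ∧ (∀ i, i < g.len → pvasIt T s g.aIn i ≠ g.aOut) ∧ ∀ i, i < g.len → pvasIt T s g.aIn i ∈ g.c.Left := by
  have hth : pvasIt T s g.aIn g.len = g.aOut := h.thru
  have h1 : 1 ≤ g.len := by
    by_contra hc
    have e0 : g.len = 0 := by omega
    rw [e0] at hth
    have e1 : g.aIn = g.aOut := hth
    have e2 : g.vm = g.vp := by
      rw [← pvtg_aOut_src, ← e1]
      rfl
    exact pvtg_ne g e2
  have hin : ∀ i, i < g.len → pvasIt T s g.aIn i ∈ g.c.Left := fun i hi => not_not.1 (Nat.notMem_of_lt_sInf hi)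
  have hne : {n | pvasIt T s g.aIn n ∈ g.c.Leftᶜ}.Nonempty := by
    by_contra hc
    rw [Set.not_nonempty_iff_eq_empty] at hc
    have : g.len = 0 := by
      show sInf {n | pvasIt T s g.aIn n ∈ g.c.Leftᶜ} = 0
      rw [hc, Nat.sInf_empty]
    omega
  have hout : g.aOut ∉ g.c.Left := by
    rw [← hth]
    exact Nat.sInf_mem hne
  exact ⟨h1, hth, fun i hi e => hout (e ▸ hin i hi), hin⟩

/-- [E2] **the big end is an end**      (twin: copy of `pvkp_tr_st` with `g2'` from `pvzl_gate` / `n_eq` kept; `PvzlTw`: `pvzl_gate_darts`, `pvzl_rk_dom`; thru: [E1] + `pvkp_left_zone` + `pvas_fc_sub`) -/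
theorem pvkj_big_ok {𝔯 : PvspReg κ} (hN : 𝔯.Nest) : (pvkjBig 𝔯).Ok := by
  refine ⟨?_, ?_, ?_, ?_⟩
  · rintro V D V' D' T mk s T' mk' s' K R h hS hS' hZ g ⟨hst, 𝔖, hA, rfl⟩
    have hZ' : 𝔯 .S2 ⊆ K := hZ
    obtain ⟨𝔗, A1, m1, c1, -⟩ := pvkp_tr_st hN (h.mono hZ') hS hS' hst hA
    have hr : ∀ k, mk (T.src (𝔖.g2.c.e k)) ∈ K := fun k => hZ' (pvkp_left_zone hN hst hA (hA.sel2.on k)).1
    obtain ⟨γ, hm, P⟩ := pvzl_gate h hS hS' 𝔖.g2 hr
    have he : ∀ k, 𝔗.g2.c.e k = γ.c.e k := fun k => h.rd_fn hS' (c1 k) (P.e_rel k).1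
    have key : ∀ {a b : T'.Cyc}, (∀ k, a.e k = b.e k) → b.n ∣ a.n := by
      intro a b hab
      have h1 : b.e (0 + a.n) = b.e 0 := by rw [← hab, ← hab, a.per]
      have h2 := pl_cyc_src_inj b (congrArg T'.src h1)
      rw [Nat.zero_add, Nat.zero_mod] at h2
      exact Nat.dvd_of_mod_eq_zero h2
    have hn : 𝔗.g2.c.n = γ.c.n := Nat.dvd_antisymm (key fun k => (he k).symm) (key he)
    have P' : PvLocCyc (pvplRK T mk T' K R) 𝔖.g2.c 𝔗.g2.c := ⟨hn.trans P.n_eq, fun k => by rw [he k]; exact P.e_rel k⟩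
    obtain ⟨d1, d2, -, -⟩ := pvzl_gate_darts h hS hS' hr m1 P'
    refine ⟨𝔗.g2, ⟨(h.mono hZ').star (fun k hk => hN.2.2.2 hk) hst, 𝔗, A1, rfl⟩, ⟨m1, P', ?_, d1, d2⟩⟩
    rw [pvzl_rk_dom h]
    exact fun d hd => Or.inl (hZ' (pvkp_left_zone hN hst hA hd).1)
  · rintro V D T mk s g ⟨hst, 𝔖, hA, rfl⟩
    obtain ⟨h1, h2, h3, h4⟩ := pvkj_sel_thru hA.sel2
    refine ⟨𝔖.g2.len, h1, h2, h3, h4, ?_⟩
    rintro v ⟨f, hf, rfl⟩
    exact (pvkp_left_zone hN hst hA (pvas_fc_sub (pl_left_face _) h4 hf)).1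
  · rintro V D T mk s g ⟨hst, 𝔖, hA, rfl⟩ d hd
    exact (pvkp_left_zone hN hst hA hd).1
  · rintro V D T mk s g ⟨hst, 𝔖, hA, rfl⟩ d hd
    exact hA.sel2.inner (Or.inl hd)

/-- [E3] **the kit end is an end**      (`PvzlGt.twin`, `.thru`, `.least.reg`) -/
theorem pvkj_kit_ok (p : PvzlPg κ) : (pvkjKit p).Ok := by
  refine ⟨?_, ?_, ?_, ?_⟩
  · intro V D V' D' T mk s T' mk' s' K R h hS hS' hZ g hg
    exact PvzlGt.twin h hS hS' (fun k hk => hZ (Or.inl (Or.inl hk))) (fun k hk => hZ (Or.inl (Or.inr hk))) (fun k hk => hZ (Or.inr hk)) hg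
  · intro V D T mk s g hg
    obtain ⟨N, h1, h2, h3, h4, h5⟩ := PvzlGt.thru hg
    exact ⟨N, h1, h2, h3, h4, fun v hv => Or.inr (h5 hv)⟩
  · intro V D T mk s g hg d hd
    exact Or.inl (Or.inr ((PvzlGt.least hg).reg.outer d hd))
  · intro V D T mk s g hg d hd
    exact (PvzlGt.least hg).reg.inner (Or.inl hd)

theorem pvkj_end_ok (k : Bool) {𝔯 : PvspReg κ} (hN : 𝔯.Nest) : (pvkjEnd k 𝔯).Ok := by
  cases k
  · exact pvkj_kit_ok _
  · exact pvkj_big_ok hN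

/-- [E4] THE state      (`pvkp_st_unique`) -/
theorem pvkj_big_uq {𝔯 : PvspReg κ} (h : 𝔯 .Np ∩ 𝔯 .Nm ⊆ 𝔯 .I2) : (pvkjBig 𝔯).Uq := by
  rintro V D T mk s hT hS g g₂ ⟨-, 𝔖, hA, rfl⟩ ⟨-, 𝔗, hB, rfl⟩
  exact (pvkp_st_unique hT hS (fun v h1 h2 => h ⟨h1, h2⟩) hA hB).1

/-- [E5] THE gate of record      (`PvzlGt.unique`, `pvkx_gate_ext`) -/
theorem pvkj_kit_uq {p : PvzlPg κ} (h : Disjoint p.Km p.Kp) : (pvkjKit p).Uq := by
  intro V D T mk s hT hS g g₂ hg hg₂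
  obtain ⟨he, hn, hm⟩ := PvzlGt.unique hT h hg hg₂
  exact pvkx_gate_ext he hn hm

/-- [E6] FIT-IN: the inner arc of a state runs in `C₁ ∪ N⁺ ∪ N⁻`      (`pvt_sd_le` + `pvt_sd_unique` identify `pvtArc` with `𝔖.inn`; `fit_p`, `fit_m`; zone: `pvkp_inn_zone`) -/
theorem pvkj_big_ar {𝔯 : PvspReg κ} (hN : 𝔯.Nest) : (pvkjBig 𝔯).Ar ((𝔯 .C1 ∪ 𝔯 .Np ∪ 𝔯 .Nm) ∩ 𝔯 .S2) := by
  intro V D _ T mk s hT hS g hfin hIs i hi
  obtain ⟨hst, 𝔖, hA, rfl⟩ := hIs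
  obtain ⟨h1, h2, h3, h4⟩ := pvkj_sel_thru hA.sel2
  have hinj := pvt_sd_inj (pvtg_aIn_bw 𝔖.g2) (pvkp_no_return h2 h3)
  obtain ⟨e1, e2, -⟩ := pvt_sd_eq hT hS (pvtg_aIn_bw 𝔖.g2) hinj hA.arc
  rw [← e1] at hi
  rw [← e2 i hi]
  refine ⟨?_, pvkp_inn_zone hN hst hA hi⟩
  rcases le_total 𝔖.ip i with h | h
  · rcases hA.fit_p i h hi with h5 | h5
    · exact Or.inl (Or.inl h5)
    · exact Or.inl (Or.inr h5)
  · rcases hA.fit_m i h with h5 | h5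
    · exact Or.inl (Or.inl h5)
    · exact Or.inr h5

/-- [E7] the inner arc of a gate of record runs in the tube -/
theorem pvkj_kit_ar (p : PvzlPg κ) : (pvkjKit p).Ar p.KT := by
  intro V D _ T mk s hT hS g hfin hIs i hi
  have hg : PvzlGt T mk s p g := hIs
  obtain ⟨N, hN⟩ := hg.thru
  have hlen := (hN.len hT).1
  rw [hlen] at hi ⊢
  have key : ∀ j, j ≤ N → mk (T.src (pvasIt T s g.aIn j)) ∈ p.KT := fun j hj => pvzl_lay_mark hN.1 hN.2.2.2.2 j hj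
  rcases Nat.lt_or_ge i (pvtArc T s g.aIn N).n with hlt | hge
  · rw [← (pvtArc T s g.aIn N).src_e i hlt]
    obtain ⟨j, hj, e⟩ := pvt_s_bank_src (pvt_sf_arc_e_mem s g.aIn N hlt)
    rw [← e]
    exact key j hj
  · rw [le_antisymm hi hge, pvt_sf_arc_vn]
    exact key N le_rfl

/-- [E8] the closed inside of the gate of an end is marked in its zone -/
theorem PvkjEnd.Ok.inZ {𝔢 : PvkjEnd κ} (h : 𝔢.Ok) : 𝔢.In 𝔢.Z := h.zone

/-- [E9] the closed inside of a gate of record is marked in the OUTER DISC -/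
theorem pvkj_kit_in (p : PvzlPg κ) : (pvkjKit p).In p.KO := by
  intro V D T mk s g hIs d hd
  have hg : PvzlGt T mk s p g := hIs
  exact hg.least.reg.outer d hd

/-- [E8] change of marks -/
theorem pvkj_end_comap (k : Bool) (𝔯 : PvspReg κ') (θ : κ → κ') {V D : Type} (T : PvMap V D) (mk : V → κ) (s : V → Bool) (g : T.Gate s) :
    (pvkjEnd k (𝔯.comap θ)).Is V D T mk s g ↔ (pvkjEnd k 𝔯).Is V D T (θ ∘ mk) s g := by
  cases k
  · exact pvkk_gt θ (p := pvkjPg 𝔯)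
  · have hAt : ∀ 𝔖 : PvspSt T s, 𝔖.At mk (𝔯.comap θ) ↔ 𝔖.At (θ ∘ mk) 𝔯 := fun 𝔖 =>
      ⟨fun h => ⟨h.sel1, h.sel2, h.arc, h.im_lt, h.ip_le, h.im_eq, h.ip_eq, h.fit_p, h.fit_m, h.vp, h.vm⟩,
        fun h => ⟨h.sel1, h.sel2, h.arc, h.im_lt, h.ip_le, h.im_eq, h.ip_eq, h.fit_p, h.fit_m, h.vp, h.vm⟩⟩
    constructor
    · rintro ⟨h1, 𝔖, h2, h3⟩
      exact ⟨h1, 𝔖, (hAt 𝔖).1 h2, h3⟩
    · rintro ⟨h1, 𝔖, h2, h3⟩
      exact ⟨h1, 𝔖, (hAt 𝔖).2 h2, h3⟩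

theorem pvkj_end_comap_Z (k : Bool) (𝔯 : PvspReg κ') (θ : κ → κ') : (pvkjEnd k (𝔯.comap θ)).Z = θ ⁻¹' (pvkjEnd k 𝔯).Z := by
  cases k <;> rfl

end ends

/-! ## 2. THE LINK, THE PREDICATE, THE TAG RULES -/

section link

variable {κ κ' : Type}

/-- **THE LINK** `g → g'` of `N` steps between two ends (`PvzlRun` of 173: first visit of the entrance of `g'`, all the faces crossed have their vertices marked `KE`, on the closed outside of both gates) -/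
structure PvkjLk {V D : Type} (T : PvMap V D) (mk : V → κ) (s : V → Bool) (𝔢 𝔢' : PvkjEnd κ) (KE : Set κ) (g g' : T.Gate s) (N : ℕ) : Prop where
  is : 𝔢.Is V D T mk s g
  is' : 𝔢'.Is V D T mk s g'
  run : PvzlRun T mk s KE g g' N

/-- **`A_e`** as a predicate on marked coloured maps (`c` = the colour of the rim) -/
def PvkjA (𝔢 𝔢' : PvkjEnd κ) (KE : Set κ) (c : Bool) : PvplPred κ := fun _ _ T mk s =>
  ∃ (g g' : T.Gate (pvlfFl c s)) (N : ℕ), PvkjLk T mk (pvlfFl c s) 𝔢 𝔢' KE g g' N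

/-- the tags of the inner arc of the SOURCE -/
def PvkjT0 (𝔢 𝔢' : PvkjEnd κ) (KE : Set κ) (c : Bool) : PvzfPred κ := fun _ _ T mk s d =>
  ∃ (g g' : T.Gate (pvlfFl c s)) (N L : ℕ), PvkjLk T mk (pvlfFl c s) 𝔢 𝔢' KE g g' N ∧ PvzlThru T mk (pvlfFl c s) 𝔢.Z g L ∧ PvzlArc T (pvlfFl c s) g.aIn L d

/-- the tags of the LINK -/
def PvkjT1 (𝔢 𝔢' : PvkjEnd κ) (KE : Set κ) (c : Bool) : PvzfPred κ := fun _ _ T mk s d =>
  ∃ (g g' : T.Gate (pvlfFl c s)) (N : ℕ), PvkjLk T mk (pvlfFl c s) 𝔢 𝔢' KE g g' N ∧ PvzlArc T (pvlfFl c s) g.aOut N d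

/-- the tags of the inner arc of the TARGET -/
def PvkjT2 (𝔢 𝔢' : PvkjEnd κ) (KE : Set κ) (c : Bool) : PvzfPred κ := fun _ _ T mk s d =>
  ∃ (g g' : T.Gate (pvlfFl c s)) (N L : ℕ), PvkjLk T mk (pvlfFl c s) 𝔢 𝔢' KE g g' N ∧ PvzlThru T mk (pvlfFl c s) 𝔢'.Z g' L ∧ PvzlArc T (pvlfFl c s) g'.aIn L d

/-- the marks at which a connector is read -/
def pvkjZ (𝔢 𝔢' : PvkjEnd κ) (KE : Set κ) : Set κ := 𝔢.Z ∪ 𝔢'.Z ∪ KE

theorem pvkj_eqns_cite2 : True := by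
  have := @PvkjA.eq_1; have := @PvkjT0.eq_1; have := @PvkjT1.eq_1; have := @PvkjT2.eq_1; have := @pvkjZ.eq_1
  trivial

variable {𝔢 𝔢' : PvkjEnd κ} {KE : Set κ}

/-- the corridor may grow -/
theorem PvkjLk.mono {V D : Type} {T : PvMap V D} {mk : V → κ} {s : V → Bool} {g g' : T.Gate s} {N : ℕ} (h : PvkjLk T mk s 𝔢 𝔢' KE g g' N) {KE' : Set κ} (hK : KE ⊆ KE') :
    PvkjLk T mk s 𝔢 𝔢' KE' g g' N :=
  ⟨h.is, h.is', h.run.1, h.run.2.1, h.run.2.2.1, fun v hv => ⟨hK (h.run.2.2.2 hv).1, (h.run.2.2.2 hv).2⟩⟩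

/-- **THE CUT OF THE CORRIDOR BY THE DEEP MARKS**: no face crossed by a link has a vertex with a deep mark of one of its two plugs (such a vertex is strictly inside the gate).
WHY: the room of (DET) contains the WHOLE tubes `N⁺`, `N⁻` (272: `A₁ = cthickening (μ h) N^±`), and `N⁺ ∩ N⁻ ≠ ∅` near the centre of a big plug (`pvmh_tubes`): the rooms of the exit and of the entrance connector of one plug OVERLAP in `B(z, 3h) ⊆ I₂`;
`KE ⊆ Mk` + disjoint masks, and the rooms `PvkjTri .. Kc Kc M` of `pvkj_fact`, are satisfiable ONLY for the cut corridors.      RULE: `C.Kc := (room of DET) \ (C.e.I ∪ C.e'.I)`. -/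
theorem PvkjLk.cut {V D : Type} {T : PvMap V D} {mk : V → κ} {s : V → Bool} {g g' : T.Gate s} {N : ℕ} (hO : 𝔢.Ok) (hO' : 𝔢'.Ok) (h : PvkjLk T mk s 𝔢 𝔢' KE g g' N) :
    PvkjLk T mk s 𝔢 𝔢' (KE \ (𝔢.I ∪ 𝔢'.I)) g g' N := by
  refine ⟨h.is, h.is', h.run.1, h.run.2.1, h.run.2.2.1, fun v hv => ?_⟩
  obtain ⟨h1, h2, h3⟩ := h.run.2.2.2 hv
  refine ⟨⟨h1, ?_⟩, h2, h3⟩
  rintro (hI | hI)
  · exact h2 fun d hd => hO.deep _ _ _ _ _ g h.is d (by rw [hd]; exact hI)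
  · exact h3 fun d hd => hO'.deep _ _ _ _ _ g' h.is' d (by rw [hd]; exact hI)

/-- the isomorphism in the colours "`true` = the colour `c`" -/
theorem pvkj_iso_fl {V D V' D' : Type} {T : PvMap V D} {mk : V → κ} {s : V → Bool} {T' : PvMap V' D'} {mk' : V' → κ} {s' : V' → Bool} {K : Set κ} {R : V → V' → Prop}
    (h : PvplIso T mk s T' mk' s' K R) (c : Bool) : PvplIso T mk (pvlfFl c s) T' mk' (pvlfFl c s') K R := pvsp_tr_S h c

/-- [L1] **transfer of a link**      (`Ok.twin` twice, `PvzlRun.twin`) -/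
theorem pvkj_lk_twin (hO : 𝔢.Ok) (hO' : 𝔢'.Ok) {V D V' D' : Type} {T : PvMap V D} {mk : V → κ} {s : V → Bool} {T' : PvMap V' D'} {mk' : V' → κ} {s' : V' → Bool} {R : V → V' → Prop}
    (h : PvplIso T mk s T' mk' s' (pvkjZ 𝔢 𝔢' KE) R) (hS : T.Simple) (hS' : T'.Simple) {g g' : T.Gate s} {N : ℕ} (hL : PvkjLk T mk s 𝔢 𝔢' KE g g' N) :
    ∃ (γ γ' : T'.Gate s'), PvkjLk T' mk' s' 𝔢 𝔢' KE γ γ' N ∧ PvzlTw T mk T' (pvkjZ 𝔢 𝔢' KE) R g γ ∧ PvzlTw T mk T' (pvkjZ 𝔢 𝔢' KE) R g' γ' ∧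
      ∀ i, i ≤ N → pvplRK T mk T' (pvkjZ 𝔢 𝔢' KE) R (pvasIt T s g.aOut i) (pvasIt T' s' γ.aOut i) := by
  have s1 : 𝔢.Z ⊆ pvkjZ 𝔢 𝔢' KE := fun k hk => Or.inl (Or.inl hk)
  have s2 : 𝔢'.Z ⊆ pvkjZ 𝔢 𝔢' KE := fun k hk => Or.inl (Or.inr hk)
  have s3 : KE ⊆ pvkjZ 𝔢 𝔢' KE := fun k hk => Or.inr hk
  obtain ⟨γ, hγ, W⟩ := hO.twin _ _ _ _ _ _ _ _ _ _ _ _ h hS hS' s1 g hL.is
  obtain ⟨γ', hγ', W'⟩ := hO'.twin _ _ _ _ _ _ _ _ _ _ _ _ h hS hS' s2 g' hL.is'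
  obtain ⟨hN', hr⟩ := hL.run.twin h hS hS' s3 W W'
  exact ⟨γ, γ', ⟨hγ, hγ', hN'⟩, W, W', hr⟩

/-- [L2] **LOCALITY of `A_e`** -/
theorem pvkj_A_local (hO : 𝔢.Ok) (hO' : 𝔢'.Ok) (KE : Set κ) (c : Bool) : (PvkjA 𝔢 𝔢' KE c).Local (pvkjZ 𝔢 𝔢' KE) := by
  have key : ∀ (V D V' D' : Type) (T : PvMap V D) (mk : V → κ) (s : V → Bool) (T' : PvMap V' D') (mk' : V' → κ) (s' : V' → Bool) (R : V → V' → Prop),
      T.Simple → T'.Simple → PvplIso T mk s T' mk' s' (pvkjZ 𝔢 𝔢' KE) R → PvkjA 𝔢 𝔢' KE c V D T mk s → PvkjA 𝔢 𝔢' KE c V' D' T' mk' s' := by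
    rintro V D V' D' T mk s T' mk' s' R hS hS' hi ⟨g, g', N, hL⟩
    obtain ⟨γ, γ', hL', -⟩ := pvkj_lk_twin hO hO' (pvkj_iso_fl hi c) hS hS' hL
    exact ⟨γ, γ', N, hL'⟩
  exact fun V D V' D' T mk s T' mk' s' R hS hS' hi => ⟨key _ _ _ _ _ _ _ _ _ _ _ hS hS' hi, key _ _ _ _ _ _ _ _ _ _ _ hS' hS hi.symm⟩

/-- [L3] LOCALITY of the tags of the inner arc of the source      (copy of `pvzl_Ti_twin`: `PvzlThru.twin`, `pvzl_arc_twin`, `pvzl_lay_mark`) -/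
theorem pvkj_T0_local (hO : 𝔢.Ok) (hO' : 𝔢'.Ok) (KE : Set κ) (c : Bool) : (PvkjT0 𝔢 𝔢' KE c).Local (pvkjZ 𝔢 𝔢' KE) := by
  have s1 : 𝔢.Z ⊆ pvkjZ 𝔢 𝔢' KE := fun k hk => Or.inl (Or.inl hk)
  have key : ∀ (V D V' D' : Type) (T : PvMap V D) (mk : V → κ) (s : V → Bool) (T' : PvMap V' D') (mk' : V' → κ) (s' : V' → Bool) (R : V → V' → Prop),
      T.Simple → T'.Simple → PvplIso T mk s T' mk' s' (pvkjZ 𝔢 𝔢' KE) R → ∀ d d', PvplRD T T' R d d' → PvkjT0 𝔢 𝔢' KE c V D T mk s d → PvkjT0 𝔢 𝔢' KE c V' D' T' mk' s' d' := by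
    rintro V D V' D' T mk s T' mk' s' R hS hS' hi d d' hdd ⟨g, g', N, L, hL, hT, ha⟩
    have hc := pvkj_iso_fl hi c
    obtain ⟨γ, γ', hL', W, -, -⟩ := pvkj_lk_twin hO hO' hc hS hS' hL
    obtain ⟨hT', hr⟩ := hT.twin hc hS hS' s1 W
    exact ⟨γ, γ', N, L, hL', hT', pvzl_arc_twin hc hS hS' hr (fun i hi => s1 (pvzl_lay_mark hT.1 hT.2.2.2.2 i hi)) hdd ha⟩
  exact fun V D V' D' T mk s T' mk' s' R hS hS' hi d d' hdd => ⟨key _ _ _ _ _ _ _ _ _ _ _ hS hS' hi d d' hdd, key _ _ _ _ _ _ _ _ _ _ _ hS' hS hi.symm d' d hdd⟩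

/-- [L4] LOCALITY of the tags of the link      (copy of `pvzl_Tr_twin`) -/
theorem pvkj_T1_local (hO : 𝔢.Ok) (hO' : 𝔢'.Ok) (KE : Set κ) (c : Bool) : (PvkjT1 𝔢 𝔢' KE c).Local (pvkjZ 𝔢 𝔢' KE) := by
  have s3 : KE ⊆ pvkjZ 𝔢 𝔢' KE := fun k hk => Or.inr hk
  have key : ∀ (V D V' D' : Type) (T : PvMap V D) (mk : V → κ) (s : V → Bool) (T' : PvMap V' D') (mk' : V' → κ) (s' : V' → Bool) (R : V → V' → Prop),
      T.Simple → T'.Simple → PvplIso T mk s T' mk' s' (pvkjZ 𝔢 𝔢' KE) R → ∀ d d', PvplRD T T' R d d' → PvkjT1 𝔢 𝔢' KE c V D T mk s d → PvkjT1 𝔢 𝔢' KE c V' D' T' mk' s' d' := by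
    rintro V D V' D' T mk s T' mk' s' R hS hS' hi d d' hdd ⟨g, g', N, hL, ha⟩
    have hc := pvkj_iso_fl hi c
    obtain ⟨γ, γ', hL', -, -, hr⟩ := pvkj_lk_twin hO hO' hc hS hS' hL
    exact ⟨γ, γ', N, hL', pvzl_arc_twin hc hS hS' hr (fun i hi => s3 (pvzl_lay_mark hL.run.1 hL.run.2.2.2 i hi).1) hdd ha⟩
  exact fun V D V' D' T mk s T' mk' s' R hS hS' hi d d' hdd => ⟨key _ _ _ _ _ _ _ _ _ _ _ hS hS' hi d d' hdd, key _ _ _ _ _ _ _ _ _ _ _ hS' hS hi.symm d' d hdd⟩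

/-- [L5] LOCALITY of the tags of the inner arc of the target -/
theorem pvkj_T2_local (hO : 𝔢.Ok) (hO' : 𝔢'.Ok) (KE : Set κ) (c : Bool) : (PvkjT2 𝔢 𝔢' KE c).Local (pvkjZ 𝔢 𝔢' KE) := by
  have s2 : 𝔢'.Z ⊆ pvkjZ 𝔢 𝔢' KE := fun k hk => Or.inl (Or.inr hk)
  have key : ∀ (V D V' D' : Type) (T : PvMap V D) (mk : V → κ) (s : V → Bool) (T' : PvMap V' D') (mk' : V' → κ) (s' : V' → Bool) (R : V → V' → Prop),
      T.Simple → T'.Simple → PvplIso T mk s T' mk' s' (pvkjZ 𝔢 𝔢' KE) R → ∀ d d', PvplRD T T' R d d' → PvkjT2 𝔢 𝔢' KE c V D T mk s d → PvkjT2 𝔢 𝔢' KE c V' D' T' mk' s' d' := by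
    rintro V D V' D' T mk s T' mk' s' R hS hS' hi d d' hdd ⟨g, g', N, L, hL, hT, ha⟩
    have hc := pvkj_iso_fl hi c
    obtain ⟨γ, γ', hL', -, W', -⟩ := pvkj_lk_twin hO hO' hc hS hS' hL
    obtain ⟨hT', hr⟩ := hT.twin hc hS hS' s2 W'
    exact ⟨γ, γ', N, L, hL', hT', pvzl_arc_twin hc hS hS' hr (fun i hi => s2 (pvzl_lay_mark hT.1 hT.2.2.2.2 i hi)) hdd ha⟩
  exact fun V D V' D' T mk s T' mk' s' R hS hS' hi d d' hdd => ⟨key _ _ _ _ _ _ _ _ _ _ _ hS hS' hi d d' hdd, key _ _ _ _ _ _ _ _ _ _ _ hS' hS hi.symm d' d hdd⟩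

/-- [L6] supports      (`pvzl_arc_fc`) -/
theorem pvkj_T0_supp (𝔢 𝔢' : PvkjEnd κ) (KE : Set κ) (c : Bool) : (PvkjT0 𝔢 𝔢' KE c).Supp (pvkjZ 𝔢 𝔢' KE) := by
  rintro V D T mk s d ⟨g, g', N, L, hL, hT, ha⟩
  exact Or.inl (Or.inl (hT.2.2.2.2 ⟨d, pvzl_arc_fc ha, rfl⟩))

theorem pvkj_T1_supp (𝔢 𝔢' : PvkjEnd κ) (KE : Set κ) (c : Bool) : (PvkjT1 𝔢 𝔢' KE c).Supp (pvkjZ 𝔢 𝔢' KE) := by
  rintro V D T mk s d ⟨g, g', N, hL, ha⟩
  exact Or.inr (hL.run.2.2.2 ⟨d, pvzl_arc_fc ha, rfl⟩).1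

theorem pvkj_T2_supp (𝔢 𝔢' : PvkjEnd κ) (KE : Set κ) (c : Bool) : (PvkjT2 𝔢 𝔢' KE c).Supp (pvkjZ 𝔢 𝔢' KE) := by
  rintro V D T mk s d ⟨g, g', N, L, hL, hT, ha⟩
  exact Or.inl (Or.inr (hT.2.2.2.2 ⟨d, pvzl_arc_fc ha, rfl⟩))

/-- [L7] change of marks: the link -/
theorem pvkj_lk_comap (k k' : Bool) (𝔯 𝔯' : PvspReg κ') (KE : Set κ') (θ : κ → κ') {V D : Type} (T : PvMap V D) (mk : V → κ) (s : V → Bool) (g g' : T.Gate s) (N : ℕ) :
    PvkjLk T mk s (pvkjEnd k (𝔯.comap θ)) (pvkjEnd k' (𝔯'.comap θ)) (θ ⁻¹' KE) g g' N ↔ PvkjLk T (θ ∘ mk) s (pvkjEnd k 𝔯) (pvkjEnd k' 𝔯') KE g g' N := by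
  have hrun : PvzlRun T mk s (θ ⁻¹' KE) g g' N ↔ PvzlRun T (θ ∘ mk) s KE g g' N := Iff.rfl
  exact ⟨fun h => ⟨(pvkj_end_comap k 𝔯 θ T mk s g).1 h.is, (pvkj_end_comap k' 𝔯' θ T mk s g').1 h.is', hrun.1 h.run⟩,
    fun h => ⟨(pvkj_end_comap k 𝔯 θ T mk s g).2 h.is, (pvkj_end_comap k' 𝔯' θ T mk s g').2 h.is', hrun.2 h.run⟩⟩

end link

/-! ## 3. AT ONE SPHERE: THE GLUE, THE RING, THE SETS OF TAGS -/

section ring

variable {κ : Type} {V D : Type}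

/-- **what the regions of a cycle of `n` plugs and `n` connectors owe** (in marks; `κ = ℂ`: subsets of the plane).      Plug `j` has the end `𝔢 j`, the connector `j` runs from the plug `j` to the plug `j + 1` in the corridor `KE j`. -/
structure PvkjGeo (n : ℕ) (𝔢 : ℕ → PvkjEnd κ) (KE : ℕ → Set κ) : Prop where
  two : 2 ≤ n
  per : 𝔢 n = 𝔢 0
  ok : ∀ j, j < n → (𝔢 j).Ok
  uq : ∀ j, j < n → (𝔢 j).Uq
  /-- the zones of the plugs are pairwise disjoint -/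
  dZZ : ∀ i j, i < n → j < n → i ≠ j → Disjoint (𝔢 i).Z (𝔢 j).Z
  /-- a corridor meets the zones of its two plugs only -/
  dKZ : ∀ i j, i < n → j < n → i ≠ j → i ≠ (j + 1) % n → Disjoint (KE j) (𝔢 i).Z
  /-- two corridors meet deep inside the plugs only -/
  dKK : ∀ i j, i < n → j < n → i ≠ j → KE i ∩ KE j ⊆ (𝔢 i).I ∪ (𝔢 (i + 1)).I

variable {T : PvMap V D} {s : V → Bool} {mk : V → κ} {n : ℕ} {𝔢 : ℕ → PvkjEnd κ} {KE : ℕ → Set κ}

/-- [R1] **GLUE**: `n` links round a cycle, each with its own two gates, are the links of ONE family of gates (uniqueness of the ends);   `P` = whatever else is known of each link      (copy of `pvkp_glue`) -/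
theorem pvkj_glue (hT : T.IsSph) (hS : T.Simple) (G : PvkjGeo n 𝔢 KE) {P : ℕ → T.Gate s → T.Gate s → ℕ → Prop}
    (h : ∀ j, j < n → ∃ (g g' : T.Gate s) (N : ℕ), PvkjLk T mk s (𝔢 j) (𝔢 (j + 1)) (KE j) g g' N ∧ P j g g' N) :
    ∃ (g : ℕ → T.Gate s) (N : ℕ → ℕ), g n = g 0 ∧ ∀ j, j < n → PvkjLk T mk s (𝔢 j) (𝔢 (j + 1)) (KE j) (g j) (g (j + 1)) (N j) ∧ P j (g j) (g (j + 1)) (N j) := by
  classical
  have hn : 0 < n := by have := G.two; omega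
  have hm : ∀ j, j % n < n := fun j => Nat.mod_lt _ hn
  choose A B M hABM using h
  have hA : ∀ a b (e : a = b) (ha : a < n) (hb : b < n), A a ha = A b hb := by
    intro a b e ha hb; subst e; rfl
  have hM : ∀ a b (e : a = b) (ha : a < n) (hb : b < n), M a ha = M b hb := by
    intro a b e ha hb; subst e; rfl
  refine ⟨fun j => A (j % n) (hm j), fun j => M (j % n) (hm j), hA _ _ (by simp) _ _, fun j hj => ?_⟩
  have e0 : j % n = j := Nat.mod_eq_of_lt hj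
  have hj0 := hABM j hj
  have e1 : A (j % n) (hm j) = A j hj := hA _ _ e0 _ _
  have e2 : M (j % n) (hm j) = M j hj := hM _ _ e0 _ _
  have hr : 𝔢 ((j + 1) % n) = 𝔢 (j + 1) := by
    rcases Nat.lt_or_ge (j + 1) n with h1 | h1
    · rw [Nat.mod_eq_of_lt h1]
    · rw [show j + 1 = n by omega, Nat.mod_self, G.per]
  have hnx := (hABM ((j + 1) % n) (hm (j + 1))).1.is
  have huq := G.uq ((j + 1) % n) (hm (j + 1))
  rw [hr] at hnx huq
  have e3 : A ((j + 1) % n) (hm (j + 1)) = B j hj := huq V D T mk s hT hS _ _ hnx hj0.1.is'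
  show PvkjLk T mk s (𝔢 j) (𝔢 (j + 1)) (KE j) (A (j % n) (hm j)) (A ((j + 1) % n) (hm (j + 1))) (M (j % n) (hm j)) ∧
    P j (A (j % n) (hm j)) (A ((j + 1) % n) (hm (j + 1))) (M (j % n) (hm j))
  rw [e1, e2, e3]
  exact hj0

/-- [R2] the arc of the through strand is the inner path of the gate      (`pvt_sd_le`, `pvgz_inn_of_le`) -/
theorem pvkj_inn [DecidableEq V] (hT : T.IsSph) (hS : T.Simple) (g : T.Gate s) (hfin : g.c.Left.Finite) (hthru : g.Thru) : g.IsInn (pvtArc T s g.aIn g.len) := by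
  exact pvgz_inn_of_le hT hS g hfin hthru (pvt_sd_le hT hS (pvtg_aIn_bw g) (pvgz_strand_inj hT g hfin))

/-- [R3] the arc of a run is a link of 260      (`pvkp_no_return`, `pvt_sd_inj`, `pvt_sd_le`, `pvgz_link_le`) -/
theorem pvkj_lk_arc [DecidableEq V] (hT : T.IsSph) (hS : T.Simple) {K : Set κ} {g g' : T.Gate s} {N : ℕ} (h : PvzlRun T mk s K g g' N) :
    (pvtArc T s g.aOut N).v 0 = g.vp ∧ (pvtArc T s g.aOut N).v (pvtArc T s g.aOut N).n = g'.vm ∧ (pvtArc T s g.aOut N).OnWall s g.aOut ∧ T.Wall s g.aOut g'.aIn := by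
  exact pvgz_link_le hS g g' h.2.1 (pvt_sd_le hT hS (pvtg_aOut_bw g) (pvt_sd_inj (pvtg_aOut_bw g) (pvkp_no_return h.2.1 h.2.2.1)))

/-- [R4] the vertices of the arc of a run are black sites of the run -/
theorem pvkj_lk_verts [DecidableEq V] {K : Set κ} {g g' : T.Gate s} {N : ℕ} (h : PvzlRun T mk s K g g' N) {i : ℕ} (hi : i ≤ (pvtArc T s g.aOut N).n) :
    (pvtArc T s g.aOut N).v i ∈ pvzlKS T mk K g g' ∧ s ((pvtArc T s g.aOut N).v i) = true := by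
  have hv := pvt_sf_arc_verts s g.aOut N ⟨i, hi, rfl⟩
  exact ⟨h.2.2.2 (by rw [pvas_fc_verts s _ h.1]; exact Or.inl hv), pvas_layB_black (pvtg_aOut_bw g) hv⟩

/-- [R5] the three vertices of a tag of the arc of a piece of strand are vertices of faces crossed by the piece      (`pvzl_arc_fc`, `pvki_fc_verts`) -/
theorem pvkj_tag_verts [DecidableEq V] (a : D) (N : ℕ) {i : ℕ} (hi : i < (pvtArc T s a N).n) :
    T.src (T.opp ((pvtArc T s a N).e i)) ∈ T.VOf (pvasFc T s a N) ∧ T.tgt (T.opp ((pvtArc T s a N).e i)) ∈ T.VOf (pvasFc T s a N) ∧ T.apex (T.opp ((pvtArc T s a N).e i)) ∈ T.VOf (pvasFc T s a N) := by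
  have hf : (pvtArc T s a N).e i ∈ pvtLE T (pvtBank T s a N) := pvt_sf_pth_e_mem _ _ hi
  exact pvki_fc_verts (pvzl_arc_fc ((pvzl_arc_iff a N _).2 ⟨_, hf, rfl⟩))

/-- [R6] **THE RING OF 260**      (template: `pvkp_ring`;   `dLG`: a black site of the run `j` on the circuit of the gate `i` is `g_i^±` (`pvtg_meet`), which is an end of the arc or a site of another run: `dKK` + `deep`) -/
theorem pvkj_ring [DecidableEq V] (hT : T.IsSph) (hS : T.Simple) (G : PvkjGeo n 𝔢 KE) {g : ℕ → T.Gate s} {N : ℕ → ℕ} (hper : g n = g 0) (hfin : ∀ j, j < n → (g j).c.Left.Finite)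
    (H : ∀ j, j < n → PvkjLk T mk s (𝔢 j) (𝔢 (j + 1)) (KE j) (g j) (g (j + 1)) (N j)) :
    PvgzRing T s n g (fun j => pvtArc T s (g j).aIn (g j).len) (fun j => pvtArc T s (g j).aOut (N j)) := by
  have hn2 := G.two
  have hn : 0 < n := by omega
  have hlk := fun j (hj : j < n) => pvkj_lk_arc hT hS (H j hj).run
  have hok : ∀ j, j ≤ n → (𝔢 j).Ok := by
    intro j hj
    rcases Nat.lt_or_ge j n with h1 | h1
    · exact G.ok j h1
    · rw [show j = n by omega, G.per]; exact G.ok 0 hn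
  -- marks of the closed insides
  have hz : ∀ i, i < n → ∀ x, x ∈ T.VOf (g i).c.Left → mk x ∈ (𝔢 i).Z := by
    rintro i hi x ⟨d, hd, rfl⟩
    exact (G.ok i hi).zone V D T mk s (g i) (H i hi).is d hd
  -- deep marks
  have hdeep : ∀ i, i < n → ∀ x, mk x ∈ (𝔢 i).I → x ∈ T.Int (g i).c.Left := by
    intro i hi x hx d hd
    subst hd
    exact (G.ok i hi).deep V D T mk s (g i) (H i hi).is d hx
  have hdeep' : ∀ i, i < n → ∀ x, mk x ∈ (𝔢 (i + 1)).I → x ∈ T.Int (g (i + 1)).c.Left := by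
    intro i hi x hx d hd
    subst hd
    exact (hok (i + 1) hi).deep V D T mk s (g (i + 1)) (H i hi).is' d hx
  have hKS := fun j (hj : j < n) (k : ℕ) (hk : k ≤ (pvtArc T s (g j).aOut (N j)).n) => pvkj_lk_verts (H j hj).run hk
  -- two corridors
  have hKK : ∀ i j, i < n → j < n → i ≠ j → ∀ x, x ∈ pvzlKS T mk (KE i) (g i) (g (i + 1)) → mk x ∈ KE j → False := by
    intro i j hi hj hij x hx hxj
    rcases G.dKK i j hi hj hij ⟨hx.1, hxj⟩ with h2 | h2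
    · exact hx.2.1 (hdeep i hi x h2)
    · exact hx.2.2 (hdeep' i hi x h2)
  have hmodg : ∀ j, j < n → g ((j + 1) % n) = g (j + 1) := by
    intro j hj
    rcases Nat.lt_or_ge (j + 1) n with h1 | h1
    · rw [Nat.mod_eq_of_lt h1]
    · rw [show j + 1 = n by omega, Nat.mod_self, hper]
  refine ⟨hn, hper, fun j hj => ?_, fun j hj => (hlk j hj).1, fun j hj => (hlk j hj).2.1, fun j hj => (hlk j hj).2.2.1,
    fun j hj => (hlk j hj).2.2.2, fun j hj => ?_, fun i j hi hj hij => ?_, fun i j hi hj k h0 hk => ?_, fun i j hi hj hij k l h0 hk h0' hl e => ?_⟩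
  · obtain ⟨L, hL⟩ := (G.ok j hj).thru V D T mk s (g j) (H j hj).is
    exact pvkj_inn hT hS (g j) (hfin j hj) (hL.len hT).2
  · obtain ⟨L, hL⟩ := (G.ok j hj).thru V D T mk s (g j) (H j hj).is
    have := pvt_s_it_wall (pvtg_aIn_bw (g j)) L
    rw [hL.2.1] at this
    exact this
  · exact Set.disjoint_left.2 fun x h1 h2 => Set.disjoint_left.1 (G.dZZ i j hi hj hij) (hz i hi x h1) (hz j hj x h2)
  · intro hx
    obtain ⟨hks, hbl⟩ := hKS j hj k hk.le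
    by_cases e1 : i = j
    · subst e1
      rw [pl_VOf_left hT] at hx
      rcases hx with hx | hx
      · rcases pvtg_black (g i) hx hbl with hv | hv
        · -- `g⁻` of the source: the end of the previous run
          have hi' : (i + n - 1) % n < n := Nat.mod_lt _ hn
          have hne : (i + n - 1) % n ≠ i := by
            intro he
            rcases Nat.eq_zero_or_pos i with h00 | h00
            · subst h00
              rw [Nat.zero_add, Nat.mod_eq_of_lt (by omega)] at he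
              omega
            · rw [show i + n - 1 = (i - 1) + n by omega, Nat.add_mod_right, Nat.mod_eq_of_lt (by omega)] at he
              omega
          have hg1 : g ((i + n - 1) % n + 1) = g i := by
            rcases Nat.eq_zero_or_pos i with h00 | h00
            · subst h00
              rw [Nat.zero_add, Nat.mod_eq_of_lt (by omega), show n - 1 + 1 = n by omega, hper]
            · rw [show i + n - 1 = (i - 1) + n by omega, Nat.add_mod_right, Nat.mod_eq_of_lt (by omega), show i - 1 + 1 = i by omega]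
          have h5 := (hKS _ hi' _ le_rfl).1
          have e5 : (pvtArc T s (g ((i + n - 1) % n)).aOut (N ((i + n - 1) % n))).v (pvtArc T s (g ((i + n - 1) % n)).aOut (N ((i + n - 1) % n))).n = (pvtArc T s (g i).aOut (N i)).v k := by
            rw [(hlk _ hi').2.1, hg1, hv]
          rw [e5] at h5
          exact hKK _ i hi' hi hne _ h5 hks.1
        · have := (pvtArc T s (g i).aOut (N i)).inj k 0 hk.le (Nat.zero_le _) (by rw [hv, (hlk i hi).1])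
          omega
      · exact hks.2.1 hx
    · by_cases e2 : i = (j + 1) % n
      · subst e2
        rw [hmodg j hj, pl_VOf_left hT] at hx
        rcases hx with hx | hx
        · rcases pvtg_black (g (j + 1)) hx hbl with hv | hv
          · have := (pvtArc T s (g j).aOut (N j)).inj k _ hk.le le_rfl (by rw [hv, (hlk j hj).2.1])
            omega
          · -- `g⁺` of the target: the start of the next run
            have h5 := (hKS _ hi 0 (Nat.zero_le _)).1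
            rw [(hlk _ hi).1, hmodg j hj, ← hv] at h5
            exact hKK j _ hj hi (fun h => e1 h.symm) _ hks h5.1
        · exact hks.2.2 hx
      · exact Set.disjoint_left.1 (G.dKZ i j hi hj e1 e2) hks.1 (hz i hi _ hx)
  · have h1 := (hKS i hi k hk.le).1
    have h2 := (hKS j hj l hl.le).1
    rw [← e] at h2
    exact hKK i j hi hj hij _ h1 h2.1

variable {𝔞 𝔞' : PvkjEnd κ} {K : Set κ} {c : Bool} {σ : V → Bool}

/-- [R7] the tags of the inner arc of THE source      (copy of `pvkx_Ti_set`) -/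
theorem pvkj_T0_set (hT : T.IsSph) (hS : T.Simple) (hO : 𝔞.Ok) (hu : 𝔞.Uq) (hu' : 𝔞'.Uq) {g g' : T.Gate (pvlfFl c σ)} {N : ℕ} (hL : PvkjLk T mk (pvlfFl c σ) 𝔞 𝔞' K g g' N) :
    {d | PvkjT0 𝔞 𝔞' K c V D T mk σ d} = {d | PvzlArc T (pvlfFl c σ) g.aIn g.len d} := by
  ext d
  constructor
  · rintro ⟨g₂, g₂', N₂, L, h1, h2, h3⟩
    obtain rfl := hu _ _ _ _ _ hT hS g₂ g h1.is hL.is
    rw [← (h2.len hT).1] at h3
    exact h3
  · intro h
    obtain ⟨L, hN⟩ := hO.thru _ _ _ _ _ g hL.is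
    refine ⟨g, g', N, L, hL, hN, ?_⟩
    rw [← (hN.len hT).1]
    exact h

/-- [R8] the tags of THE link      (copy of `pvkx_Tr_set`) -/
theorem pvkj_T1_set (hT : T.IsSph) (hS : T.Simple) (hu : 𝔞.Uq) (hu' : 𝔞'.Uq) {g g' : T.Gate (pvlfFl c σ)} {N : ℕ} (hL : PvkjLk T mk (pvlfFl c σ) 𝔞 𝔞' K g g' N) :
    {d | PvkjT1 𝔞 𝔞' K c V D T mk σ d} = {d | PvzlArc T (pvlfFl c σ) g.aOut N d} := by
  ext d
  constructor
  · rintro ⟨g₂, g₂', N₂, h1, h4⟩
    obtain rfl := hu _ _ _ _ _ hT hS g₂ g h1.is hL.is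
    obtain rfl := hu' _ _ _ _ _ hT hS g₂' g' h1.is' hL.is'
    rw [← h1.run.hit, hL.run.hit] at h4
    exact h4
  · intro h
    exact ⟨g, g', N, hL, h⟩

/-- [R9] the tags of the inner arc of THE target -/
theorem pvkj_T2_set (hT : T.IsSph) (hS : T.Simple) (hO' : 𝔞'.Ok) (hu : 𝔞.Uq) (hu' : 𝔞'.Uq) {g g' : T.Gate (pvlfFl c σ)} {N : ℕ} (hL : PvkjLk T mk (pvlfFl c σ) 𝔞 𝔞' K g g' N) :
    {d | PvkjT2 𝔞 𝔞' K c V D T mk σ d} = {d | PvzlArc T (pvlfFl c σ) g'.aIn g'.len d} := by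
  ext d
  constructor
  · rintro ⟨g₂, g₂', N₂, L, h1, h2, h3⟩
    obtain rfl := hu' _ _ _ _ _ hT hS g₂' g' h1.is' hL.is'
    rw [← (h2.len hT).1] at h3
    exact h3
  · intro h
    obtain ⟨L, hN⟩ := hO'.thru _ _ _ _ _ g' hL.is'
    refine ⟨g, g', N, L, hL, hN, ?_⟩
    rw [← (hN.len hT).1]
    exact h

end ring

/-! ## 4. `Conf PvPt`: WINDOW EVENTS AND FIELDS, PLACED CONNECTORS -/

section window

variable {κ : Type} {θ : ℂ → κ} {K : Set κ} {E : Set ℂ} {ρ : ℝ} {ms : List (ℝ × Set ℂ)}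

/-- **THE WINDOW EVENT** of a local predicate, WITH the guard of its window (finitely many points, A LIST OF MESHES `(ρᵢ, Eᵢ)`: `PvwgMs` of `Tr/PinLocW`).   `ρ` = a cap of the meshes -/
noncomputable def pvkjEv (θ : ℂ → κ) (Φ : PvplPred κ) (K : Set κ) (E : Set ℂ) (ρ : ℝ) (ms : List (ℝ × Set ℂ)) : Set (Conf PvPt) :=
  {η | PvwgMs E ms η ∧ η ∈ pvwgEv θ Φ K E ρ}

theorem pvkj_eqns_cite3 : True := by
  have := @pvkjEv.eq_1
  trivial

/-- [W1] -/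
theorem pvkj_ev_meas [Countable κ] [MeasurableSpace κ] [MeasurableSingletonClass κ] (hθ : Measurable θ) {Φ : PvplPred κ} (hΦ : Φ.Local K) (hE : PvplWin E) (hEb : Bornology.IsBounded E)
    (hms : ∀ p ∈ ms, p.2 ⊆ E ∧ MeasurableSet p.2) : MeasurableSet (pvkjEv θ Φ K E ρ ms) :=
  (pvwg_ms_meas hE.1 hEb hms).inter (pvwg_ev_spec hθ hΦ hE).meas

/-- [W2] -/
theorem pvkj_ev_reads [Countable κ] [MeasurableSpace κ] [MeasurableSingletonClass κ] (hθ : Measurable θ) {Φ : PvplPred κ} (hΦ : Φ.Local K) (hE : PvplWin E)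
    (hms : ∀ p ∈ ms, p.2 ⊆ E) : Conf.ReadsSet (E ×ˢ univ) (pvkjEv θ Φ K E ρ ms) := by
  intro η
  exact and_congr (pvwg_ms_reads hms η) ((pvwg_ev_spec hθ hΦ hE).reads η)

/-- the zone of a bounded window is not everything -/
theorem pvkj_zi_aux (hEb : Bornology.IsBounded E) (h0 : ∀ p ∈ ms, 0 < p.1 ∧ p.1 ≤ ρ ∧ p.2 ⊆ E) (hK : ∀ w ∈ θ ⁻¹' K, ∃ p ∈ ms, w ∈ pvtrCore (3 * p.1) p.2) : ∃ zi : ℂ, θ zi ∉ K := by
  have hsub : θ ⁻¹' K ⊆ E := by
    intro w hw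
    obtain ⟨p, hp, h⟩ := hK w hw
    exact (h0 p hp).2.2 (pvtr_core_subset (by have := (h0 p hp).1; positivity) h)
  by_contra hcon
  have hu : θ ⁻¹' K = univ := eq_univ_of_forall fun w => by_contra fun hw => hcon ⟨w, hw⟩
  have hb := hEb.subset hsub
  rw [hu] at hb
  exact (NormedSpace.unbounded_univ ℝ ℂ) hb

/-- [W3] plane form -/
theorem pvkj_ev_plane [Countable κ] [MeasurableSpace κ] [MeasurableSingletonClass κ] (hθ : Measurable θ) {Φ : PvplPred κ} (hΦ : Φ.Local K) (hE : PvplWin E) (hEb : Bornology.IsBounded E)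
    (h0 : ∀ p ∈ ms, 0 < p.1 ∧ p.1 ≤ ρ ∧ p.2 ⊆ E) (hK : ∀ w ∈ θ ⁻¹' K, ∃ p ∈ ms, w ∈ pvtrCore (3 * p.1) p.2) {η : Conf PvPt} (hη : DelGood (cfSites η)) :
    η ∈ pvkjEv θ Φ K E ρ ms ↔ PvwgMs E ms η ∧ Φ _ _ (pvkiT η) (fun v => θ v.1) (pvkiS η) := by
  obtain ⟨zi, hzi⟩ := pvkj_zi_aux hEb h0 hK
  refine and_congr_right fun hm => ?_
  exact (pvwg_ev_spec hθ hΦ hE).plane hη hm.1 (hm.gd h0 hK) hzi

/-- [W4] THE field is a representative -/
theorem pvkj_fld_rep [Countable κ] [MeasurableSpace κ] [MeasurableSingletonClass κ] (hθ : Measurable θ) {Ψ : PvzfPred κ} (hΨ : Ψ.Local K) (hs : Ψ.Supp K) (hE : PvplWin E)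
    {w : ℂ × ℂ × ℂ → ℂ} (hw : Measurable w) : PvwgRep θ Ψ K E ρ w (pvwgFld θ Ψ K E ρ w) := pvwg_fld_rep hθ hΨ hs hE hw

end window

/-- **A PLACED CONNECTOR** `e : u → u'` : ABSOLUTE subsets of the plane.   `k k'` = kinds of the two ends (`true` big, `false` kit), `r r'` = their regions (`t.reg N z h` of 185;  `pvkjRegK (𝔭.pg z d)` for a kit plug of 34),
`Kc` = the corridor (sites of the run), `M` = THE MASK, `E` = THE WHOLE window (`⊆ O_u ∪ O_u' ∪ K_e` of the engine), **`ms` = THE LIST OF MESHES `(ρᵢ, Eᵢ)`** (each from its own source: state, end, corridor, kit plug), `ρ` = a cap of the meshes.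
ONE mesh: `ms := [(ρ, E)]`.      (funnels: `δ_m ≤ h_m^(1+q+m) ≪ μ h_m`: no single mesh serves both ends) -/
structure PvkjCn where
  col : Bool
  k : Bool
  k' : Bool
  r : PvspReg ℂ
  r' : PvspReg ℂ
  Kc : Set ℂ
  M : Set ℂ
  E : Set ℂ
  ρ : ℝ
  ms : List (ℝ × Set ℂ)

namespace PvkjCn

variable (C : PvkjCn)

/-- the source end, the target end (positions) -/
def e : PvkjEnd ℂ := pvkjEnd C.k C.r
def e' : PvkjEnd ℂ := pvkjEnd C.k' C.r'

/-- the source end, the target end (universal marks) -/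
def u : PvkjEnd PvkpMk := pvkjEnd C.k pvkpR1
def u' : PvkjEnd PvkpMk := pvkjEnd C.k' pvkpR2

open Classical in
/-- the tests of a point -/
noncomputable def θ (w : ℂ) : PvkpMk := (pvspTest C.r w, pvspTest C.r' w, decide (w ∈ C.Kc))

/-- the reading zone -/
def Z : Set ℂ := pvkjZ C.e C.e' C.Kc

/-- the reading zone, universal marks -/
def ZU : Set PvkpMk := pvkjZ C.u C.u' pvkpKB

/-- **THE GUARD** of the window: finitely many points in `E`, mesh `ρᵢ` on `Eᵢ` -/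
def Gd (η : Conf PvPt) : Prop := PvwgMs C.E C.ms η

/-- the explicit conditions on a placed connector -/
structure Wf : Prop where
  /-- the meshes are positive, capped by `ρ`, on subsets of the window -/
  ms0 : ∀ p ∈ C.ms, 0 < p.1 ∧ p.1 ≤ C.ρ ∧ p.2 ⊆ C.E
  mms : ∀ p ∈ C.ms, MeasurableSet p.2
  nest : C.r.Nest
  nest' : C.r'.Nest
  uq : C.e.Uq
  uq' : C.e'.Uq
  mr : ∀ i, MeasurableSet (C.r i)
  mr' : ∀ i, MeasurableSet (C.r' i)
  mK : MeasurableSet C.Kc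
  mM : MeasurableSet C.M
  win : PvplWin C.E
  bdd : Bornology.IsBounded C.E
  /-- every point of the reading zone lies deep in the set of one of the meshes -/
  core : ∀ w ∈ C.Z, ∃ p ∈ C.ms, w ∈ pvtrCore (3 * p.1) p.2

end PvkjCn

/-- **THE EVENT `A_e`** (WITH the guard of its window) -/
noncomputable def pvkjA (C : PvkjCn) : Set (Conf PvPt) := pvkjEv C.θ (PvkjA C.u C.u' pvkpKB C.col) C.ZU C.E C.ρ C.ms

/-- the raw field: three fields of 107 (representatives chosen: ARBITRARY off the guard) -/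
noncomputable def pvkjX0 (C : PvkjCn) (η : Conf PvPt) : ℂ :=
  pvwgFld C.θ (PvkjT0 C.u C.u' pvkpKB C.col) C.ZU C.E C.ρ (pvkdWt C.M) η + pvwgFld C.θ (PvkjT1 C.u C.u' pvkpKB C.col) C.ZU C.E C.ρ (pvkdWt C.M) η +
    pvwgFld C.θ (PvkjT2 C.u C.u' pvkpKB C.col) C.ZU C.E C.ρ (pvkdWt C.M) η

/-- **THE FIELD `X_e`**, MASK FORM, **`0` OFF THE GUARD** (89: the chosen representatives are arbitrary there; L1 needs this) -/
noncomputable def pvkjX (C : PvkjCn) : Conf PvPt → ℂ := {η | C.Gd η}.indicator (pvkjX0 C)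

theorem pvkj_eqns_cite4 : True := by
  have := @PvkjCn.e.eq_1; have := @PvkjCn.e'.eq_1; have := @PvkjCn.u.eq_1; have := @PvkjCn.u'.eq_1; have := @PvkjCn.θ.eq_1; have := @PvkjCn.Z.eq_1; have := @PvkjCn.ZU.eq_1; have := @PvkjCn.Gd.eq_1
  have := @pvkjA.eq_1; have := @pvkjX0.eq_1; have := @pvkjX.eq_1
  trivial

section levelB

variable {C : PvkjCn}

/-- [B1]      (copy of `pvkp_theta_meas`) -/
theorem pvkj_theta_meas (hW : C.Wf) : Measurable C.θ := by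
  classical
  refine (pvsp_test_meas hW.mr).prodMk ((pvsp_test_meas hW.mr').prodMk ?_)
  refine measurable_to_bool ?_
  have e : (fun w : ℂ => decide (w ∈ C.Kc)) ⁻¹' {true} = C.Kc := by
    ext p; simp
  rw [e]; exact hW.mK

/-- [B2] the universal regions pulled back by the tests      (`pvsp_reg_test`) -/
theorem pvkj_R1_test (hN : C.r.Nest) : pvkpR1.comap C.θ = C.r := by
  rw [← pvsp_reg_test hN]
  rfl

theorem pvkj_R2_test (hN : C.r'.Nest) : pvkpR2.comap C.θ = C.r' := by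
  rw [← pvsp_reg_test hN]
  rfl

theorem pvkj_KB_test (C : PvkjCn) : C.θ ⁻¹' pvkpKB = C.Kc := by
  classical
  ext w
  show (C.θ w).2.2 = true ↔ _
  unfold PvkjCn.θ
  exact decide_eq_true_iff

/-- [B3] -/
theorem pvkj_Z_test (hW : C.Wf) : C.θ ⁻¹' C.ZU = C.Z := by
  have e1 : C.θ ⁻¹' C.u.Z = C.e.Z := by
    have := pvkj_end_comap_Z C.k pvkpR1 C.θ
    rw [pvkj_R1_test hW.nest] at this
    exact this.symm
  have e2 : C.θ ⁻¹' C.u'.Z = C.e'.Z := by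
    have := pvkj_end_comap_Z C.k' pvkpR2 C.θ
    rw [pvkj_R2_test hW.nest'] at this
    exact this.symm
  unfold PvkjCn.ZU PvkjCn.Z pvkjZ
  rw [preimage_union, preimage_union, e1, e2, pvkj_KB_test]

theorem PvkjCn.Wf.okU (C : PvkjCn) : C.u.Ok := pvkj_end_ok _ pvkp_R1_nest
theorem PvkjCn.Wf.okU' (C : PvkjCn) : C.u'.Ok := pvkj_end_ok _ pvkp_R2_nest
theorem PvkjCn.Wf.ok (hW : C.Wf) : C.e.Ok := pvkj_end_ok _ hW.nest
theorem PvkjCn.Wf.ok' (hW : C.Wf) : C.e'.Ok := pvkj_end_ok _ hW.nest'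

/-- [B4] the link in the tests is the link in the positions      ([L7], [B2]) -/
theorem pvkj_lk_test (hW : C.Wf) {V D : Type} (T : PvMap V D) (pos : V → ℂ) (s : V → Bool) (g g' : T.Gate s) (N : ℕ) :
    PvkjLk T (fun v => C.θ (pos v)) s C.u C.u' pvkpKB g g' N ↔ PvkjLk T pos s C.e C.e' C.Kc g g' N := by
  have := pvkj_lk_comap C.k C.k' pvkpR1 pvkpR2 pvkpKB C.θ T pos s g g' N
  rw [pvkj_R1_test hW.nest, pvkj_R2_test hW.nest', pvkj_KB_test] at this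
  exact this.symm

/-- the guard, unfolded -/
theorem pvkj_gd_iff (C : PvkjCn) (η : Conf PvPt) : C.Gd η ↔ PvtnFin C.E η ∧ ∀ p ∈ C.ms, PvtrMesh p.1 p.2 (cfSites η) := Iff.rfl

/-- the guard of ONE mesh -/
theorem pvkj_gd_one (h : C.ms = [(C.ρ, C.E)]) (η : Conf PvPt) : C.Gd η ↔ PvtnFin C.E η ∧ PvtrMesh C.ρ C.E (cfSites η) := by
  rw [pvkj_gd_iff, h]
  simp

theorem pvkj_gd_meas (hW : C.Wf) : MeasurableSet {η | C.Gd η} := pvwg_ms_meas hW.win.1 hW.bdd fun p hp => ⟨(hW.ms0 p hp).2.2, hW.mms p hp⟩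

theorem pvkj_gd_reads (hW : C.Wf) : Conf.ReadsSet (C.E ×ˢ univ) {η | C.Gd η} := pvwg_ms_reads fun p hp => (hW.ms0 p hp).2.2

/-- the reading zone lies in the window -/
theorem PvkjCn.Wf.Z_sub (hW : C.Wf) : C.Z ⊆ C.E := by
  intro w hw
  obtain ⟨p, hp, h⟩ := hW.core w hw
  exact (hW.ms0 p hp).2.2 (pvtr_core_subset (by have := (hW.ms0 p hp).1; positivity) h)

/-- [B5] -/
theorem pvkj_A_meas (hW : C.Wf) : MeasurableSet (pvkjA C) := by
  exact pvkj_ev_meas (pvkj_theta_meas hW) (pvkj_A_local (PvkjCn.Wf.okU C) (PvkjCn.Wf.okU' C) pvkpKB C.col) hW.win hW.bdd (fun p hp => ⟨(hW.ms0 p hp).2.2, hW.mms p hp⟩)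

/-- [B6] -/
theorem pvkj_A_reads (hW : C.Wf) : Conf.ReadsSet (C.E ×ˢ univ) (pvkjA C) := by
  exact pvkj_ev_reads (pvkj_theta_meas hW) (pvkj_A_local (PvkjCn.Wf.okU C) (PvkjCn.Wf.okU' C) pvkpKB C.col) hW.win (fun p hp => (hW.ms0 p hp).2.2)

/-- the three representatives of the fields of a placed connector -/
theorem pvkj_X_reps (hW : C.Wf) :
    PvwgRep C.θ (PvkjT0 C.u C.u' pvkpKB C.col) C.ZU C.E C.ρ (pvkdWt C.M) (pvwgFld C.θ (PvkjT0 C.u C.u' pvkpKB C.col) C.ZU C.E C.ρ (pvkdWt C.M)) ∧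
    PvwgRep C.θ (PvkjT1 C.u C.u' pvkpKB C.col) C.ZU C.E C.ρ (pvkdWt C.M) (pvwgFld C.θ (PvkjT1 C.u C.u' pvkpKB C.col) C.ZU C.E C.ρ (pvkdWt C.M)) ∧
    PvwgRep C.θ (PvkjT2 C.u C.u' pvkpKB C.col) C.ZU C.E C.ρ (pvkdWt C.M) (pvwgFld C.θ (PvkjT2 C.u C.u' pvkpKB C.col) C.ZU C.E C.ρ (pvkdWt C.M)) := by
  exact ⟨pvkj_fld_rep (pvkj_theta_meas hW) (pvkj_T0_local (PvkjCn.Wf.okU C) (PvkjCn.Wf.okU' C) pvkpKB C.col) (pvkj_T0_supp _ _ _ _) hW.win (pvzn_Wt_meas hW.mM),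
    pvkj_fld_rep (pvkj_theta_meas hW) (pvkj_T1_local (PvkjCn.Wf.okU C) (PvkjCn.Wf.okU' C) pvkpKB C.col) (pvkj_T1_supp _ _ _ _) hW.win (pvzn_Wt_meas hW.mM),
    pvkj_fld_rep (pvkj_theta_meas hW) (pvkj_T2_local (PvkjCn.Wf.okU C) (PvkjCn.Wf.okU' C) pvkpKB C.col) (pvkj_T2_supp _ _ _ _) hW.win (pvzn_Wt_meas hW.mM)⟩

/-- [B7] -/
theorem pvkj_X_meas (hW : C.Wf) : Measurable (pvkjX C) := by
  obtain ⟨h0, h1, h2⟩ := pvkj_X_reps hW
  exact Measurable.indicator ((h0.1.add h1.1).add h2.1) (pvkj_gd_meas hW)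

theorem pvkj_X_on {η : Conf PvPt} (h : C.Gd η) : pvkjX C η = pvkjX0 C η := Set.indicator_of_mem (s := {η | C.Gd η}) h _

theorem pvkj_X_off {η : Conf PvPt} (h : ¬ C.Gd η) : pvkjX C η = 0 := Set.indicator_of_notMem (s := {η | C.Gd η}) h _

/-- [B8] -/
theorem pvkj_X_reads (hW : C.Wf) : Conf.Reads (C.E ×ˢ univ) (pvkjX C) := by
  obtain ⟨h0, h1, h2⟩ := pvkj_X_reps hW
  intro η
  have hg : C.Gd (Conf.restr (C.E ×ˢ univ) η) ↔ C.Gd η := pvkj_gd_reads hW η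
  by_cases h : C.Gd η
  · rw [pvkj_X_on h, pvkj_X_on (hg.2 h)]
    unfold pvkjX0
    rw [h0.2.1 η, h1.2.1 η, h2.2.1 η]
  · rw [pvkj_X_off h, pvkj_X_off (fun h' => h (hg.1 h'))]

/-- [B9] **`A_e` ON THE DELAUNAY PLANE**, positions -/
theorem pvkj_A_plane (hW : C.Wf) {η : Conf PvPt} (hη : DelGood (cfSites η)) :
    η ∈ pvkjA C ↔ C.Gd η ∧
      ∃ (g g' : (pvkiT η).Gate (pvlfFl C.col (pvkiS η))) (N : ℕ), PvkjLk (pvkiT η) Subtype.val (pvlfFl C.col (pvkiS η)) C.e C.e' C.Kc g g' N := by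
  have hK : ∀ w ∈ C.θ ⁻¹' C.ZU, ∃ p ∈ C.ms, w ∈ pvtrCore (3 * p.1) p.2 := by rw [pvkj_Z_test hW]; exact hW.core
  have h := pvkj_ev_plane (pvkj_theta_meas hW) (pvkj_A_local (PvkjCn.Wf.okU C) (PvkjCn.Wf.okU' C) pvkpKB C.col) hW.win hW.bdd hW.ms0 hK hη
  refine h.trans (and_congr_right fun _ => ?_)
  refine exists_congr fun g => exists_congr fun g' => exists_congr fun N => ?_
  exact pvkj_lk_test hW (pvkiT η) Subtype.val _ g g' N

/-- [B10] the closed inside of the gate of an end is finite      (template `pvkp_left_fin`, `pvkx_gate_fin`) -/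
theorem pvkj_left_fin {E : Set ℂ} {η : Conf PvPt} (hη : DelGood (cfSites η)) (hf : PvtnFin E η) {𝔢 : PvkjEnd ℂ} (hO : 𝔢.Ok) (hE : 𝔢.Z ⊆ E) {s : ↥(cfSites η) → Bool} {g : (pvkiT η).Gate s}
    (hg : 𝔢.Is _ _ (pvkiT η) Subtype.val s g) : g.c.Left.Finite := by
  have hfs : {v : ↥(cfSites η) | (v : ℂ) ∈ E}.Finite := by
    have h1 : (Prod.fst '' (η.pts ∩ E ×ˢ univ)).Finite := hf.image _
    refine Set.Finite.of_finite_image (f := Subtype.val) (h1.subset ?_) Subtype.val_injective.injOn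
    rintro _ ⟨⟨v, p, hp, rfl⟩, hv, rfl⟩
    exact ⟨p, ⟨hp, hv, mem_univ _⟩, rfl⟩
  refine Set.Finite.of_finite_image (f := fun d => ((pvkiT η).src d, (pvkiT η).tgt d)) ((hfs.prod hfs).subset ?_) ?_
  · rintro _ ⟨d, hd, rfl⟩
    have h1 := hO.zone _ _ _ _ _ g hg d hd
    have h2 := hO.zone _ _ _ _ _ g hg ((pvkiT η).nxt d) ((pl_left_face g.c d).2 hd)
    exact ⟨hE h1, hE h2⟩
  · intro d _ d' _ h
    simp only [Prod.mk.injEq] at h
    exact (delbPl (cfSites η)).toMap_simple d d' h.1 h.2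

/-- [B11] **[SUM]**: on the guard, at THE gates, `X_e` is the field of 95 in the mask form      (`pvkj_fld_rep` + `PvzfRep.plane`, `pvzn_pl_congr`, [B4], `pvkx_pl`-type unfolding with `pvkk_W`, [R7] [R8] [R9], `pvkx_arc_sum`) -/
theorem pvkj_X_sum (hW : C.Wf) {η : Conf PvPt} (hη : DelGood (cfSites η)) (hG : C.Gd η)
    {g g' : (pvkiT η).Gate (pvlfFl C.col (pvkiS η))} {N : ℕ} (hL : PvkjLk (pvkiT η) Subtype.val (pvlfFl C.col (pvkiS η)) C.e C.e' C.Kc g g' N) :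
    pvkjX C η = pvcmX (delbPl (cfSites η)) C.M (pvtArc (pvkiT η) (pvlfFl C.col (pvkiS η)) g.aIn g.len) (pvtArc (pvkiT η) (pvlfFl C.col (pvkiS η)) g.aOut N)
      (pvtArc (pvkiT η) (pvlfFl C.col (pvkiS η)) g'.aIn g'.len) := by
  obtain ⟨h0, h1, h2⟩ := pvkj_X_reps hW
  have hT : (pvkiT η).IsSph := delb_plane_isSph hη
  have hS : (pvkiT η).Simple := (delbPl (cfSites η)).toMap_simple
  have hK : ∀ w ∈ C.θ ⁻¹' C.ZU, ∃ p ∈ C.ms, w ∈ pvtrCore (3 * p.1) p.2 := by rw [pvkj_Z_test hW]; exact hW.core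
  obtain ⟨zi, hzi⟩ : ∃ zi : ℂ, C.θ zi ∉ C.ZU := pvkj_zi_aux hW.bdd hW.ms0 hK
  have hf : PvtnFin C.E η := hG.1
  have hm : PvwgGd C.ρ C.E (cfSites η) (C.θ ⁻¹' C.ZU) := PvwgMs.gd hG hW.ms0 hK
  have hZ : C.θ ⁻¹' C.u.Z = C.e.Z := by
    unfold PvkjCn.u PvkjCn.e
    rw [← pvkj_end_comap_Z, pvkj_R1_test hW.nest]
  have hZ' : C.θ ⁻¹' C.u'.Z = C.e'.Z := by
    unfold PvkjCn.u' PvkjCn.e'
    rw [← pvkj_end_comap_Z, pvkj_R2_test hW.nest']
  have hth : ∀ (γ : (pvkiT η).Gate (pvlfFl C.col (pvkiS η))) (L : ℕ),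
      PvzlThru (pvkiT η) (fun v => C.θ v.1) (pvlfFl C.col (pvkiS η)) C.u.Z γ L ↔ PvzlThru (pvkiT η) Subtype.val (pvlfFl C.col (pvkiS η)) C.e.Z γ L := by
    intro γ L
    unfold PvzlThru
    have e : {v : ↥(cfSites η) | C.θ v.1 ∈ C.u.Z} = {v : ↥(cfSites η) | v.1 ∈ C.e.Z} := by
      rw [← hZ]; rfl
    rw [e]
  have hth' : ∀ (γ : (pvkiT η).Gate (pvlfFl C.col (pvkiS η))) (L : ℕ),
      PvzlThru (pvkiT η) (fun v => C.θ v.1) (pvlfFl C.col (pvkiS η)) C.u'.Z γ L ↔ PvzlThru (pvkiT η) Subtype.val (pvlfFl C.col (pvkiS η)) C.e'.Z γ L := by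
    intro γ L
    unfold PvzlThru
    have e : {v : ↥(cfSites η) | C.θ v.1 ∈ C.u'.Z} = {v : ↥(cfSites η) | v.1 ∈ C.e'.Z} := by
      rw [← hZ']; rfl
    rw [e]
  have hlk := fun γ γ' L => pvkj_lk_test hW (pvkiT η) Subtype.val (pvlfFl C.col (pvkiS η)) γ γ' L
  have e0 : pvzfPl C.θ (PvkjT0 C.u C.u' pvkpKB C.col) (pvkdWt C.M) η = pvzfPl id (PvkjT0 C.e C.e' C.Kc C.col) (pvkdWt C.M) η := by
    refine pvzn_pl_congr _ η fun d => ?_
    refine exists_congr fun γ => exists_congr fun γ' => exists_congr fun N' => exists_congr fun L => ?_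
    exact and_congr (hlk γ γ' N') (and_congr (hth γ L) Iff.rfl)
  have e1 : pvzfPl C.θ (PvkjT1 C.u C.u' pvkpKB C.col) (pvkdWt C.M) η = pvzfPl id (PvkjT1 C.e C.e' C.Kc C.col) (pvkdWt C.M) η := by
    refine pvzn_pl_congr _ η fun d => ?_
    refine exists_congr fun γ => exists_congr fun γ' => exists_congr fun N' => ?_
    exact and_congr (hlk γ γ' N') Iff.rfl
  have e2 : pvzfPl C.θ (PvkjT2 C.u C.u' pvkpKB C.col) (pvkdWt C.M) η = pvzfPl id (PvkjT2 C.e C.e' C.Kc C.col) (pvkdWt C.M) η := by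
    refine pvzn_pl_congr _ η fun d => ?_
    refine exists_congr fun γ => exists_congr fun γ' => exists_congr fun N' => exists_congr fun L => ?_
    exact and_congr (hlk γ γ' N') (and_congr (hth' γ' L) Iff.rfl)
  rw [pvkj_X_on hG]
  unfold pvkjX0 pvcmX
  rw [h0.plane hη hf hm hzi, h1.plane hη hf hm hzi, h2.plane hη hf hm hzi, e0, e1, e2, pvkx_pl, pvkx_pl, pvkx_pl]
  congr 1
  · congr 1
    · rw [← pvkx_arc_sum]
      exact congrArg (fun S : Set _ => ∑ᶠ e ∈ S, pvkiW η C.M e) (pvkj_T0_set hT hS hW.ok hW.uq hW.uq' hL)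
    · rw [← pvkx_arc_sum]
      exact congrArg (fun S : Set _ => ∑ᶠ e ∈ S, pvkiW η C.M e) (pvkj_T1_set hT hS hW.uq hW.uq' hL)
  · rw [← pvkx_arc_sum]
    exact congrArg (fun S : Set _ => ∑ᶠ e ∈ S, pvkiW η C.M e) (pvkj_T2_set hT hS hW.ok' hW.uq hW.uq' hL)

/-- crude bound of the weight of one triangle -/
theorem pvkj_Wt_le (M : Set ℂ) {D : ℝ} {a b c : ℂ} (h1 : ‖a - b‖ ≤ D) (h2 : ‖b - c‖ ≤ D) (h3 : ‖c - a‖ ≤ D) : ‖pvkdWt M (a, b, c)‖ ≤ D := by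
  have hom : ‖pvOm‖ = 1 := by
    unfold pvOm
    have e : (2 * (Real.pi : ℂ) * Complex.I / 3) = ((2 * Real.pi / 3 : ℝ) : ℂ) * Complex.I := by push_cast; ring
    rw [e, Complex.norm_exp_ofReal_mul_I]
  have homc : ‖(starRingEnd ℂ) pvOm‖ = 1 := by rw [RCLike.norm_conj, hom]
  have hq : ‖pvqq a b c‖ ≤ D := by
    unfold pvqq
    rw [norm_div]
    have h4 : ‖(a - b) + pvOm * (b - c) + (starRingEnd ℂ) pvOm * (c - a)‖ ≤ ‖a - b‖ + ‖b - c‖ + ‖c - a‖ := by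
      refine (norm_add_le _ _).trans ?_
      refine add_le_add ((norm_add_le _ _).trans ?_) ?_
      · rw [norm_mul, hom, one_mul]
      · rw [norm_mul, homc, one_mul]
    have h5 : ‖(3 : ℂ)‖ = 3 := by simp
    rw [h5, div_le_iff₀ (by norm_num)]
    linarith
  unfold pvkdWt
  rw [norm_mul]
  by_cases hm : (a + b + c) / 3 ∈ M
  · rw [Set.indicator_of_mem (by exact hm)]
    simpa using hq
  · rw [Set.indicator_of_notMem (by exact hm)]
    simp only [norm_zero, zero_mul]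
    exact (norm_nonneg _).trans hq

/-- crude bound of one field on the Delaunay plane, under the guard -/
theorem pvkj_pl_bound {κ : Type} {θ : ℂ → κ} {Ψ : PvzfPred κ} {K : Set κ} (hΨ : Ψ.Supp K) {E M : Set ℂ} {ρ D : ℝ} (hD : ∀ x ∈ E, ∀ y ∈ E, ‖x - y‖ ≤ D)
    {η : Conf PvPt} (hf : PvtnFin E η) (hm : PvwgGd ρ E (cfSites η) (θ ⁻¹' K)) :
    ‖pvzfPl θ Ψ (pvkdWt M) η‖ ≤ D * ((η.pts ∩ E ×ˢ (univ : Set Bool)).ncard : ℝ) ^ 2 := by
  classical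
  have hret : ∀ d ∈ pvzfPlS θ Ψ η, (((delbPl (cfSites η)).toMap.src d : ↥(cfSites η)) : ℂ) ∈ E ∧ (((delbPl (cfSites η)).toMap.tgt d : ↥(cfSites η)) : ℂ) ∈ E ∧
      (((delbPl (cfSites η)).toMap.apex d : ↥(cfSites η)) : ℂ) ∈ E := by
    intro d hd
    have h1 : θ ((delbPl (cfSites η)).toMap.src d : ↥(cfSites η)).1 ∈ K := hΨ _ _ _ _ _ d hd
    obtain ⟨r1, r2, r3, -⟩ := hm _ _ _ h1 (delb_plane_face d)
    exact ⟨r1.2, r2.2, r3.2⟩
  have hAf : {v : ↥(cfSites η) | (v : ℂ) ∈ E}.Finite := by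
    have h1 : (Prod.fst '' (η.pts ∩ E ×ˢ univ)).Finite := hf.image _
    refine Set.Finite.of_finite_image (f := Subtype.val) (h1.subset ?_) Subtype.val_injective.injOn
    rintro _ ⟨⟨v, p, hp, rfl⟩, hv, rfl⟩
    exact ⟨p, ⟨hp, hv, mem_univ _⟩, rfl⟩
  have hAc : {v : ↥(cfSites η) | (v : ℂ) ∈ E}.ncard ≤ (η.pts ∩ E ×ˢ (univ : Set Bool)).ncard := by
    refine le_trans ?_ (Set.ncard_image_le (f := Prod.fst) hf)
    refine Set.ncard_le_ncard_of_injOn Subtype.val ?_ Subtype.val_injective.injOn (hf.image _)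
    rintro ⟨v, p, hp, rfl⟩ hv
    exact ⟨p, ⟨hp, hv, mem_univ _⟩, rfl⟩
  have hmap : ∀ d ∈ pvzfPlS θ Ψ η, ((delbPl (cfSites η)).toMap.src d, (delbPl (cfSites η)).toMap.tgt d) ∈
      {v : ↥(cfSites η) | (v : ℂ) ∈ E} ×ˢ {v : ↥(cfSites η) | (v : ℂ) ∈ E} := fun d hd => ⟨(hret d hd).1, (hret d hd).2.1⟩
  have hinj : Set.InjOn (fun d => ((delbPl (cfSites η)).toMap.src d, (delbPl (cfSites η)).toMap.tgt d)) (pvzfPlS θ Ψ η) := by
    intro d _ d' _ h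
    simp only [Prod.mk.injEq] at h
    exact (delbPl (cfSites η)).toMap_simple d d' h.1 h.2
  have hSf : (pvzfPlS θ Ψ η).Finite := Set.Finite.of_finite_image ((hAf.prod hAf).subset (by rintro _ ⟨d, hd, rfl⟩; exact hmap d hd)) hinj
  have hSc : (pvzfPlS θ Ψ η).ncard ≤ (η.pts ∩ E ×ˢ (univ : Set Bool)).ncard ^ 2 := by
    refine (Set.ncard_le_ncard_of_injOn _ hmap hinj (hAf.prod hAf)).trans ?_
    rw [Set.ncard_prod, sq]
    exact Nat.mul_le_mul hAc hAc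
  unfold pvzfPl
  rw [finsum_mem_eq_finite_toFinset_sum _ hSf]
  rcases (pvzfPlS θ Ψ η).eq_empty_or_nonempty with h0 | ⟨d0, hd0⟩
  · have : hSf.toFinset = ∅ := by simpa using h0
    rw [this, Finset.sum_empty, norm_zero]
    by_cases hn : (η.pts ∩ E ×ˢ (univ : Set Bool)).ncard = 0
    · rw [hn]; simp
    · obtain ⟨p, hp⟩ := Set.nonempty_of_ncard_ne_zero hn
      have : 0 ≤ D := (norm_nonneg _).trans (hD p.1 hp.2.1 p.1 hp.2.1)
      positivity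
  · have hD0 : 0 ≤ D := (norm_nonneg _).trans (hD _ (hret d0 hd0).1 _ (hret d0 hd0).1)
    refine (norm_sum_le _ _).trans ?_
    have h1 : ∀ d ∈ hSf.toFinset, ‖pvkdWt M (pvzfPlPos (cfSites η) d)‖ ≤ D := by
      intro d hd
      obtain ⟨r1, r2, r3⟩ := hret d (hSf.mem_toFinset.1 hd)
      exact pvkj_Wt_le M (hD _ r1 _ r2) (hD _ r2 _ r3) (hD _ r3 _ r1)
    refine (Finset.sum_le_card_nsmul _ _ D h1).trans ?_
    rw [nsmul_eq_mul, ← Set.ncard_eq_toFinset_card _ hSf, mul_comm]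
    refine mul_le_mul_of_nonneg_left ?_ hD0
    exact_mod_cast hSc

/-- [B12] **CRUDE BOUND** (for L1: `pvyt_l1_of_gen` of 183).      `D` = a bound of the diameter of the window, `n` = the number of points of the window.
RECIPE: off the guard `0` (`pvkj_X_off`).   On the guard each of the three fields is `pvzfPl θ Ψ w η = ∑ᶠ d ∈ S, w (pos d)` (`pvkj_X_reps`, `PvwgRep.plane`);   `d ∈ S` starts in the zone (`pvkj_T*_supp`), its face is a Delaunay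
triangle (`delb_plane_face`), RETAINED by the guard (`PvwgMs.gd`): its three sites lie in `cfSites η ∩ C.E`;   `d ↦ (src d, tgt d)` is injective (`toMap_simple`): `#S ≤ n²`;   `‖pvkdWt M (a,b,c)‖ ≤ ‖pvqq a b c‖ ≤ D` (`‖pvOm‖ = 1`). -/
theorem pvkj_X_bound (hW : C.Wf) {D : ℝ} (hD : ∀ x ∈ C.E, ∀ y ∈ C.E, ‖x - y‖ ≤ D) {η : Conf PvPt} (hη : DelGood (cfSites η)) :
    ‖pvkjX C η‖ ≤ 3 * D * ((η.pts ∩ C.E ×ˢ (univ : Set Bool)).ncard : ℝ) ^ 2 := by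
  by_cases hG : C.Gd η
  · obtain ⟨h0, h1, h2⟩ := pvkj_X_reps hW
    have hK : ∀ w ∈ C.θ ⁻¹' C.ZU, ∃ p ∈ C.ms, w ∈ pvtrCore (3 * p.1) p.2 := by rw [pvkj_Z_test hW]; exact hW.core
    obtain ⟨zi, hzi⟩ : ∃ zi : ℂ, C.θ zi ∉ C.ZU := pvkj_zi_aux hW.bdd hW.ms0 hK
    have hf : PvtnFin C.E η := hG.1
    have hm : PvwgGd C.ρ C.E (cfSites η) (C.θ ⁻¹' C.ZU) := PvwgMs.gd hG hW.ms0 hK
    rw [pvkj_X_on hG]
    unfold pvkjX0
    rw [h0.plane hη hf hm hzi, h1.plane hη hf hm hzi, h2.plane hη hf hm hzi]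
    have b0 := pvkj_pl_bound (M := C.M) (pvkj_T0_supp C.u C.u' pvkpKB C.col) hD hf hm
    have b1 := pvkj_pl_bound (M := C.M) (pvkj_T1_supp C.u C.u' pvkpKB C.col) hD hf hm
    have b2 := pvkj_pl_bound (M := C.M) (pvkj_T2_supp C.u C.u' pvkpKB C.col) hD hf hm
    refine (norm_add_le _ _).trans ?_
    have := norm_add_le (pvzfPl C.θ (PvkjT0 C.u C.u' pvkpKB C.col) (pvkdWt C.M) η) (pvzfPl C.θ (PvkjT1 C.u C.u' pvkpKB C.col) (pvkdWt C.M) η)
    linarith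
  · rw [pvkj_X_off hG, norm_zero]
    by_cases hn : (η.pts ∩ C.E ×ˢ (univ : Set Bool)).ncard = 0
    · rw [hn]; simp
    · obtain ⟨p, hp⟩ := Set.nonempty_of_ncard_ne_zero hn
      have : 0 ≤ D := (norm_nonneg _).trans (hD p.1 hp.2.1 p.1 hp.2.1)
      positivity

end levelB

/-! ## 5. THE FACT OF A CONNECTOR AT ONE CONFIGURATION -/

/-- the barycentre of every triangle with a vertex in `A` and its two other vertices in `S`, at distance `≤ r` from the first, lies in `M` -/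
def PvkjTri (r : ℝ) (A S M : Set ℂ) : Prop := ∀ x y z : ℂ, x ∈ A → y ∈ S → z ∈ S → ‖y - x‖ ≤ r → ‖z - x‖ ≤ r → (x + y + z) / 3 ∈ M

/-- **THE FACT**: ALL that the connector (or cell) `𝔢 → 𝔢'` gives at `η`, colour of the rim `b`: the link between THE gates, finite insides, the tags of the link in the mask `M`, the tags of the inner arc of the TARGET in the room `U`,
the value `x` of the field = the mass in `M` of the three arcs -/
structure PvkjFt (η : Conf PvPt) (b : Bool) (𝔢 𝔢' : PvkjEnd ℂ) (KE M U : Set ℂ) (x : ℂ) (g g' : (pvkiT η).Gate (pvlfFl b (pvkiS η))) (N : ℕ) : Prop where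
  lk : PvkjLk (pvkiT η) Subtype.val (pvlfFl b (pvkiS η)) 𝔢 𝔢' KE g g' N
  fin : g.c.Left.Finite
  fin' : g'.c.Left.Finite
  blk : ∀ i, i < (pvtArc (pvkiT η) (pvlfFl b (pvkiS η)) g.aOut N).n → (pvkiT η).bary Subtype.val ((pvkiT η).opp ((pvtArc (pvkiT η) (pvlfFl b (pvkiS η)) g.aOut N).e i)) ∈ M
  binn : ∀ i, i < (pvtArc (pvkiT η) (pvlfFl b (pvkiS η)) g'.aIn g'.len).n → (pvkiT η).bary Subtype.val ((pvkiT η).opp ((pvtArc (pvkiT η) (pvlfFl b (pvkiS η)) g'.aIn g'.len).e i)) ∈ U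
  val : x = pvcmX (delbPl (cfSites η)) M (pvtArc (pvkiT η) (pvlfFl b (pvkiS η)) g.aIn g.len) (pvtArc (pvkiT η) (pvlfFl b (pvkiS η)) g.aOut N) (pvtArc (pvkiT η) (pvlfFl b (pvkiS η)) g'.aIn g'.len)

theorem pvkj_eqns_cite5 : True := by
  have := @PvkjTri.eq_1
  trivial

/-- [F1] convex rooms      (`pvki_bary_convex`) -/
theorem pvkj_tri_convex {A S M : Set ℂ} (hM : Convex ℝ M) (hA : A ⊆ M) (hS : S ⊆ M) (r : ℝ) : PvkjTri r A S M := by
  intro x y z hx hy hz _ _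
  exact pvki_bary_convex hM (hA hx) (hS hy) (hS hz)

/-- [F2] collars: `M` contains the `r`-neighbourhood of `A` -/
theorem pvkj_tri_collar {A S M : Set ℂ} {r : ℝ} (h : ∀ x ∈ A, closedBall x r ⊆ M) : PvkjTri r A S M := by
  intro x y z hx hy hz h1 h2
  refine h x hx ?_
  rw [mem_closedBall, dist_eq_norm]
  have e : (x + y + z) / 3 - x = ((y - x) + (z - x)) / 3 := by ring
  rw [e, norm_div]
  have h3 : ‖(3 : ℂ)‖ = 3 := by norm_num
  rw [h3, div_le_iff₀ (by norm_num)]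
  have hr : 0 ≤ r := (norm_nonneg _).trans h1
  exact (norm_add_le _ _).trans (by linarith)

/-- [F3] mesh: the two other vertices of a Delaunay face with a vertex deep in the window are within `2ρ` of it      (first lines of `pvkp_bary_near`) -/
theorem pvkj_face_short {E : Set ℂ} {ρ : ℝ} (hρ : 0 < ρ) {η : Conf PvPt} (hη : DelGood (cfSites η)) (hm : PvtrMesh ρ E (cfSites η)) (d : (delbPl (cfSites η)).Dart)
    (hd : (((pvkiT η).src d : ↥(cfSites η)) : ℂ) ∈ pvtrCore (3 * ρ) E) :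
    ‖(((pvkiT η).tgt d : ↥(cfSites η)) : ℂ) - (((pvkiT η).src d : ↥(cfSites η)) : ℂ)‖ ≤ 2 * ρ ∧ ‖(((pvkiT η).apex d : ↥(cfSites η)) : ℂ) - (((pvkiT η).src d : ↥(cfSites η)) : ℂ)‖ ≤ 2 * ρ := by
  have ht := delb_plane_face d
  set a : ℂ := (((delbPl (cfSites η)).toMap.src d : ↥(cfSites η)) : ℂ) with ha
  set b : ℂ := (((delbPl (cfSites η)).toMap.tgt d : ↥(cfSites η)) : ℂ) with hb
  set c : ℂ := (((delbPl (cfSites η)).toMap.apex d : ↥(cfSites η)) : ℂ) with hc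
  obtain ⟨-, -, -, hdet, hr, -, -⟩ := pvtr_of_mesh_vertex hρ hm hd ht
  have e1 : ‖delO a b c - b‖ = ‖delO a b c - a‖ := (del_O_ab a b c).symm
  have e2 : ‖delO a b c - c‖ = ‖delO a b c - a‖ := (del_O_ac hdet.ne').symm
  have tri : ∀ u v : ℂ, ‖delO a b c - u‖ ≤ ρ → ‖delO a b c - v‖ ≤ ρ → ‖u - v‖ ≤ 2 * ρ := by
    intro u v h1 h2
    calc ‖u - v‖ = ‖(delO a b c - v) - (delO a b c - u)‖ := by ring_nf
      _ ≤ ‖delO a b c - v‖ + ‖delO a b c - u‖ := norm_sub_le _ _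
      _ ≤ 2 * ρ := by linarith
  exact ⟨tri b a (e1 ▸ hr) hr, tri c a (e2 ▸ hr) hr⟩

/-- [F4] **THE FACT OF A FOREIGN CONNECTOR** on `A_e`.      `A'` = room of the vertices of the inner arc of the target (`pvkj_big_ar`, `pvkj_kit_ar`) -/
theorem pvkj_fact {C : PvkjCn} (hW : C.Wf) {A' U : Set ℂ} (hAr : C.e'.Ar A') (hM : ∀ p ∈ C.ms, PvkjTri (2 * p.1) (C.Kc ∩ pvtrCore (3 * p.1) p.2) C.Kc C.M)
    (hU : ∀ p ∈ C.ms, PvkjTri (2 * p.1) (A' ∩ pvtrCore (3 * p.1) p.2) C.e'.Z U)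
    {η : Conf PvPt} (hη : DelGood (cfSites η)) (hA : η ∈ pvkjA C) : ∃ g g' N, PvkjFt η C.col C.e C.e' C.Kc C.M U (pvkjX C η) g g' N := by
  have hT : (pvkiT η).IsSph := delb_plane_isSph hη
  have hS : (pvkiT η).Simple := (delbPl (cfSites η)).toMap_simple
  obtain ⟨hG, g, g', N, hL⟩ := (pvkj_A_plane hW hη).1 hA
  have hf : PvtnFin C.E η := hG.1
  have hcs : C.Z ⊆ C.E := by
    intro w hw
    obtain ⟨p, hp, h⟩ := hW.core w hw
    exact (hW.ms0 p hp).2.2 (pvtr_core_subset (by have := (hW.ms0 p hp).1; positivity) h)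
  have hZ1 : C.e.Z ⊆ C.Z := fun w hw => Or.inl (Or.inl hw)
  have hZ2 : C.e'.Z ⊆ C.Z := fun w hw => Or.inl (Or.inr hw)
  have hZ3 : C.Kc ⊆ C.Z := fun w hw => Or.inr hw
  have hfin : g.c.Left.Finite := pvkj_left_fin hη hf hW.ok (fun w hw => hcs (hZ1 hw)) hL.is
  have hfin' : g'.c.Left.Finite := pvkj_left_fin hη hf hW.ok' (fun w hw => hcs (hZ2 hw)) hL.is'
  refine ⟨g, g', N, hL, hfin, hfin', fun i hi => ?_, fun i hi => ?_, pvkj_X_sum hW hη hG hL⟩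
  · obtain ⟨h1, h2, h3⟩ := pvkj_tag_verts (T := pvkiT η) (s := pvlfFl C.col (pvkiS η)) g.aOut N hi
    have k1 := (hL.run.2.2.2 h1).1
    have k2 := (hL.run.2.2.2 h2).1
    have k3 := (hL.run.2.2.2 h3).1
    obtain ⟨p, hp, hc⟩ := hW.core _ (hZ3 k1)
    obtain ⟨d1, d2⟩ := pvkj_face_short (hW.ms0 p hp).1 hη (hG.2 p hp) _ hc
    exact hM p hp _ _ _ ⟨k1, hc⟩ k2 k3 d1 d2
  · obtain ⟨L, hTh⟩ := hW.ok'.thru _ _ _ _ _ _ hL.is'
    obtain ⟨eL, -⟩ := hTh.len hT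
    subst eL
    obtain ⟨h1, h2, h3⟩ := pvkj_tag_verts (T := pvkiT η) (s := pvlfFl C.col (pvkiS η)) g'.aIn g'.len hi
    have k1 := hTh.2.2.2.2 h1
    have k2 := hTh.2.2.2.2 h2
    have k3 := hTh.2.2.2.2 h3
    obtain ⟨p, hp, hc⟩ := hW.core _ (hZ2 k1)
    obtain ⟨d1, d2⟩ := pvkj_face_short (hW.ms0 p hp).1 hη (hG.2 p hp) _ hc
    have hv := hAr _ _ (pvkiT η) Subtype.val (pvlfFl C.col (pvkiS η)) hT hS g' hfin' hL.is' (i + 1) hi
    rw [← (pvtArc (pvkiT η) (pvlfFl C.col (pvkiS η)) g'.aIn g'.len).tgt_e i hi, ← (pvkiT η).src_opp'] at hv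
    exact hU p hp _ _ _ ⟨hv, hc⟩ k2 k3 d1 d2

/-- [F4'] **THE FACT OF A FOREIGN CONNECTOR, ROOM OF THE TARGET BY CONVEXITY**: the faces of the inner arc of the target lie in the closed inside of its gate, which is marked in `A' ⊆ U`, `U` convex      (NO mesh;   big end: `A' = U = S₂`;   kit end: `A' = U = KO`) -/
theorem pvkj_fact_in {C : PvkjCn} (hW : C.Wf) {A' U : Set ℂ} (hIn : C.e'.In A') (hA' : A' ⊆ U) (hU : Convex ℝ U) (hM : ∀ p ∈ C.ms, PvkjTri (2 * p.1) (C.Kc ∩ pvtrCore (3 * p.1) p.2) C.Kc C.M)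
    {η : Conf PvPt} (hη : DelGood (cfSites η)) (hA : η ∈ pvkjA C) : ∃ g g' N, PvkjFt η C.col C.e C.e' C.Kc C.M U (pvkjX C η) g g' N := by
  have hT : (pvkiT η).IsSph := delb_plane_isSph hη
  obtain ⟨hG, g, g', N, hL⟩ := (pvkj_A_plane hW hη).1 hA
  have hf : PvtnFin C.E η := hG.1
  have hcs : C.Z ⊆ C.E := hW.Z_sub
  have hZ1 : C.e.Z ⊆ C.Z := fun w hw => Or.inl (Or.inl hw)
  have hZ2 : C.e'.Z ⊆ C.Z := fun w hw => Or.inl (Or.inr hw)
  have hZ3 : C.Kc ⊆ C.Z := fun w hw => Or.inr hw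
  have hfin : g.c.Left.Finite := pvkj_left_fin hη hf hW.ok (fun w hw => hcs (hZ1 hw)) hL.is
  have hfin' : g'.c.Left.Finite := pvkj_left_fin hη hf hW.ok' (fun w hw => hcs (hZ2 hw)) hL.is'
  refine ⟨g, g', N, hL, hfin, hfin', fun i hi => ?_, fun i hi => ?_, pvkj_X_sum hW hη hG hL⟩
  · obtain ⟨h1, h2, h3⟩ := pvkj_tag_verts (T := pvkiT η) (s := pvlfFl C.col (pvkiS η)) g.aOut N hi
    have k1 := (hL.run.2.2.2 h1).1
    have k2 := (hL.run.2.2.2 h2).1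
    have k3 := (hL.run.2.2.2 h3).1
    obtain ⟨p, hp, hc⟩ := hW.core _ (hZ3 k1)
    obtain ⟨d1, d2⟩ := pvkj_face_short (hW.ms0 p hp).1 hη (hG.2 p hp) _ hc
    exact hM p hp _ _ _ ⟨k1, hc⟩ k2 k3 d1 d2
  · obtain ⟨L, hTh⟩ := hW.ok'.thru _ _ _ _ _ _ hL.is'
    obtain ⟨eL, -⟩ := hTh.len hT
    subst eL
    obtain ⟨h1, h2, h3⟩ := pvkj_tag_verts (T := pvkiT η) (s := pvlfFl C.col (pvkiS η)) g'.aIn g'.len hi
    have hsub : ∀ v ∈ (pvkiT η).VOf (pvasFc (pvkiT η) (pvlfFl C.col (pvkiS η)) g'.aIn g'.len), (v : ℂ) ∈ U := by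
      rintro _ ⟨e, he, rfl⟩
      exact hA' (hIn _ _ _ _ _ g' hL.is' e (pvas_fc_sub (pl_left_face g'.c) hTh.2.2.2.1 he))
    exact pvki_bary_convex hU (hsub _ h1) (hsub _ h2) (hsub _ h3)

/-- [F5] **THE FACT OF A CELL OF THE KIT OF 34** on `𝔤.A z d τ`      (`pvkx_sum`, `pvkx_gate_fin`, `pvlf_fl_true`, `pvki_bary_convex`; `pvkiW = pvcmW` by `rfl`) -/
theorem pvkj_fact_cell (𝔤 : PvkdGeo) (hdis : Disjoint 𝔤.Zm 𝔤.Zp) {z d : ℂ} {τ : PvtTurn} (hMc : Convex ℝ (pvkdAt z d (𝔤.Mk τ))) (hCo : pvkdAt z d (𝔤.Co τ) ⊆ pvkdAt z d (𝔤.Mk τ))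
    {η : Conf PvPt} (hA : η ∈ 𝔤.A z d τ) :
    ∃ g g' N, PvkjFt η true (pvkjKit (𝔤.pg z d)) (pvkjKit (𝔤.pg (𝔤.zo z d τ) (d * τ.rot))) (pvkdAt z d (𝔤.Co τ)) (pvkdAt z d (𝔤.Mk τ)) (ball (𝔤.zo z d τ) 𝔤.b) (𝔤.XQ z d τ η) g g' N := by
  obtain ⟨hNA, g, g', N, hl⟩ := hA
  have hN : PvatNice (cfSites η) := hNA.1
  have hT : (pvkiT η).IsSph := delb_plane_isSph hN.good
  have hsum := pvkx_sum 𝔤 hdis η z d τ g g' N hNA hl
  obtain ⟨hg, hg', hr⟩ := hl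
  have key : ∀ (s : ↥(cfSites η) → Bool), s = pvkiS η → ∃ (g g' : (pvkiT η).Gate s) (N : ℕ),
      PvkjLk (pvkiT η) Subtype.val s (pvkjKit (𝔤.pg z d)) (pvkjKit (𝔤.pg (𝔤.zo z d τ) (d * τ.rot))) (pvkdAt z d (𝔤.Co τ)) g g' N ∧ g.c.Left.Finite ∧ g'.c.Left.Finite ∧
      (∀ i, i < (pvtArc (pvkiT η) s g.aOut N).n → (pvkiT η).bary Subtype.val ((pvkiT η).opp ((pvtArc (pvkiT η) s g.aOut N).e i)) ∈ pvkdAt z d (𝔤.Mk τ)) ∧
      (∀ i, i < (pvtArc (pvkiT η) s g'.aIn g'.len).n → (pvkiT η).bary Subtype.val ((pvkiT η).opp ((pvtArc (pvkiT η) s g'.aIn g'.len).e i)) ∈ ball (𝔤.zo z d τ) 𝔤.b) ∧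
      𝔤.XQ z d τ η = pvcmX (delbPl (cfSites η)) (pvkdAt z d (𝔤.Mk τ)) (pvtArc (pvkiT η) s g.aIn g.len) (pvtArc (pvkiT η) s g.aOut N) (pvtArc (pvkiT η) s g'.aIn g'.len) := by
    rintro s rfl
    refine ⟨g, g', N, ⟨hg, hg', hr⟩, pvkx_gate_fin hN hg, pvkx_gate_fin hN hg', fun i hi => ?_, fun i hi => ?_, ?_⟩
    · obtain ⟨h1, h2, h3⟩ := pvkj_tag_verts (T := pvkiT η) (s := pvkiS η) g.aOut N hi
      exact pvki_bary_convex hMc (hCo (hr.2.2.2 h1).1) (hCo (hr.2.2.2 h2).1) (hCo (hr.2.2.2 h3).1)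
    · obtain ⟨L, hTh⟩ := hg'.thru
      obtain ⟨eL, -⟩ := hTh.len hT
      subst eL
      obtain ⟨h1, h2, h3⟩ := pvkj_tag_verts (T := pvkiT η) (s := pvkiS η) g'.aIn g'.len hi
      have hsub : (pvkiT η).VOf (pvasFc (pvkiT η) (pvkiS η) g'.aIn g'.len) ⊆ (pvkiT η).VOf g'.c.Left := by
        rintro _ ⟨e, he, rfl⟩
        exact ⟨e, pvas_fc_sub (pl_left_face g'.c) hTh.2.2.2.1 he, rfl⟩
      exact pvki_bary_convex (convex_ball _ _) (pvkx_gate_ball hg' (hsub h1)) (pvkx_gate_ball hg' (hsub h2)) (pvkx_gate_ball hg' (hsub h3))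
    · rw [hsum]
      unfold pvkdMass
      rw [hr.hit]
      rfl
  obtain ⟨γ, γ', M, h1, h2, h3, h4, h5, h6⟩ := key (pvlfFl true (pvkiS η)) (pvlf_fl_true _)
  exact ⟨γ, γ', M, ⟨h1, h2, h3, h4, h5, h6⟩⟩

/-! ## 6. CLOSE -/

/-- **WHAT A MIXED CYCLE OWES** (regions only): `PvkjGeo`, the room `U (j+1)` of the tags of the inner arc of the plug `j + 1` lies in the masks of its two connectors, everything inside `B`, two plugs `a₀` apart -/
structure PvkjCyc (n : ℕ) (𝔢 : ℕ → PvkjEnd ℂ) (KE Mk U : ℕ → Set ℂ) (B : Set ℂ) (a₀ : ℝ) : Prop where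
  geo : PvkjGeo n 𝔢 KE
  UM : ∀ j, j < n → U (j + 1) ⊆ Mk j ∪ Mk (j + 1)
  ZB : ∀ j, j < n → (𝔢 j).Z ⊆ B
  KB : ∀ j, j < n → KE j ⊆ B
  big : ∃ i j, i < n ∧ j < n ∧ ∀ p ∈ (𝔢 i).Z, ∀ p' ∈ (𝔢 j).Z, a₀ ≤ ‖p - p'‖

variable {n : ℕ} {𝔢 : ℕ → PvkjEnd ℂ} {KE Mk U : ℕ → Set ℂ} {B : Set ℂ} {a₀ : ℝ}

/-- [C1] **CLOSE AT ONE CONFIGURATION**: `n` facts round a cycle ⟹ the ring of 95 with the values      ([R1] with `P` := the other fields of the fact, [R6], [R4] [R5], `Ok.thru`, `Ok.zone`) -/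
theorem pvkj_close (H : PvkjCyc n 𝔢 KE Mk U B a₀) {η : Conf PvPt} (hη : DelGood (cfSites η)) {b : Bool} {X : ℕ → ℂ}
    (hF : ∀ j, j < n → ∃ g g' N, PvkjFt η b (𝔢 j) (𝔢 (j + 1)) (KE j) (Mk j) (U (j + 1)) (X j) g g' N) :
    ∃ (g : ℕ → (delbPl (cfSites η)).toMap.Gate (pvlfFl b (cfCol η ∘ Subtype.val))) (inn lk : ℕ → (delbPl (cfSites η)).toMap.Pth),
      PvcmAt (delbPl (cfSites η)) b n Mk B a₀ g inn lk ∧ (∀ j < n, X j = pvcmX (delbPl (cfSites η)) (Mk j) (inn j) (lk j) (inn (j + 1))) ∧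
        ∀ j < n, (𝔢 j).Is _ _ (delbPl (cfSites η)).toMap Subtype.val (pvlfFl b (cfCol η ∘ Subtype.val)) (g j) ∧ (g j).c.Left.Finite ∧
          inn j = pvtArc (delbPl (cfSites η)).toMap (pvlfFl b (cfCol η ∘ Subtype.val)) (g j).aIn (g j).len := by
  have hT : (pvkiT η).IsSph := delb_plane_isSph hη
  have hS : (pvkiT η).Simple := (delbPl (cfSites η)).toMap_simple
  obtain ⟨g, N, hper, hg⟩ := pvkj_glue (T := pvkiT η) (s := pvlfFl b (pvkiS η)) (mk := Subtype.val) hT hS H.geo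
    (P := fun j g g' N => PvkjFt η b (𝔢 j) (𝔢 (j + 1)) (KE j) (Mk j) (U (j + 1)) (X j) g g' N)
    (fun j hj => by
      obtain ⟨g, g', N, h⟩ := hF j hj
      exact ⟨g, g', N, h.lk, h⟩)
  have hring := pvkj_ring hT hS H.geo hper (fun j hj => (hg j hj).2.fin) (fun j hj => (hg j hj).1)
  have hzone : ∀ j, j < n → ∀ d ∈ (g j).c.Left, (((pvkiT η).src d : ↥(cfSites η)) : ℂ) ∈ (𝔢 j).Z := fun j hj d hd =>
    (H.geo.ok j hj).zone _ _ _ _ _ _ (hg j hj).1.is d hd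
  have hvp : ∀ j, j < n → (((g j).vp : ↥(cfSites η)) : ℂ) ∈ (𝔢 j).Z := fun j hj => hzone j hj _ ((pl_jordan hT (g j).c).2.1 (g j).m)
  refine ⟨g, fun j => pvtArc (pvkiT η) (pvlfFl b (pvkiS η)) (g j).aIn (g j).len, fun j => pvtArc (pvkiT η) (pvlfFl b (pvkiS η)) (g j).aOut (N j),
    ⟨hring, ?_, fun j hj => (hg j hj).2.blk, fun j hj i hi => H.UM j hj ((hg j hj).2.binn i hi), fun j hj i hi => ?_, fun j hj i hi => ?_, ?_⟩, fun j hj => (hg j hj).2.val, fun j hj => ⟨(hg j hj).1.is, (hg j hj).2.fin, rfl⟩⟩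
  · show pvtArc (pvkiT η) (pvlfFl b (pvkiS η)) (g n).aIn (g n).len = pvtArc (pvkiT η) (pvlfFl b (pvkiS η)) (g 0).aIn (g 0).len
    rw [hper]
  · refine H.ZB j hj ?_
    have hp := (hring.hinn j hj).1
    rcases Nat.lt_or_ge i (pvtArc (pvkiT η) (pvlfFl b (pvkiS η)) (g j).aIn (g j).len).n with h | h
    · have := hzone j hj _ (hp.ins i h).1
      rw [(pvtArc (pvkiT η) (pvlfFl b (pvkiS η)) (g j).aIn (g j).len).src_e i h] at this
      exact this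
    · have e : i = (pvtArc (pvkiT η) (pvlfFl b (pvkiS η)) (g j).aIn (g j).len).n := le_antisymm hi h
      have := hvp j hj
      rw [← hp.h1] at this
      rw [e]
      exact this
  · exact H.KB j hj (pvkj_lk_verts (hg j hj).1.run hi).1.1
  · obtain ⟨i, j, hi, hj, h⟩ := H.big
    exact ⟨i, j, hi, hj, h _ (hvp i hi) _ (hvp j hj)⟩

/-- [C2] **THE MIXED RING OF 95** -/
theorem pvkj_ringM {ε : ℝ} (hε : 0 < ε) (H : PvkjCyc n 𝔢 KE Mk U B a₀) {b : Bool} {Ev : Set (Conf PvPt)} {X : ℕ → Conf PvPt → ℂ}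
    (hF : ∀ᵐ η ∂(pvP ε), η ∈ Ev → ∀ j, j < n → ∃ g g' N, PvkjFt η b (𝔢 j) (𝔢 (j + 1)) (KE j) (Mk j) (U (j + 1)) (X j η) g g' N) : PvcmRing ε n Ev X Mk B a₀ := by
  filter_upwards [hF, pvqf_good_ae ε hε.ne'] with η h1 h2 hη
  obtain ⟨g, inn, lk, h3, h4, -⟩ := pvkj_close H h2.del (h1 hη)
  exact ⟨b, g, inn, lk, h3, h4⟩

/-! ## 7. PRODUCERS FOR THE FORCING -/

section det

variable {κ : Type} {V D : Type} {T : PvMap V D} {s : V → Bool} {mk : V → κ} {Kc : Set κ}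

/-- [D1] **TWO LANES ⟹ THE RUN** (`pvld_exist` of 70 at two gates; copy of `pvkp_run_of_lanes` of helper2, keep `VOf Fc ⊆ K`).      `K` = a FINITE set of sites marked in the corridor, on the closed outside of the two gates, without `g⁻` of the source and `g⁺` of the target,
with co-connected complement;   a black connection `g⁺ → g'⁻` in `K`, a white connection from the last vertex of the right arc of `g` to the first vertex of the right arc of `g'` in `K`. -/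
theorem pvkj_run_of_lanes (hT : T.IsSph) (hS : T.Simple) (g g' : T.Gate s) (hthru : g.Thru) (hfin : g.c.Left.Finite) (hdis : Disjoint (T.VOf g.c.Left) (T.VOf g'.c.Left))
    {K : Set V} (hK : K.Finite) (hKc : ∀ v ∈ K, mk v ∈ Kc) (hKo : K ⊆ T.VOf g.c.Right) (hKo' : K ⊆ T.VOf g'.c.Right) (hvm : g.vm ∉ K) (hvp : g'.vp ∉ K)
    (hB : T.Join Set.univ (pvldCol s K true) g.vp g'.vm) (hW : T.Join Set.univ (pvldCol s K false) (T.tgt g.aOut) (T.tgt g'.aIn))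
    (hco : ∀ u v, u ∉ K → v ∉ K → T.Join Set.univ Kᶜ u v) : ∃ N, PvzlRun T mk s Kc g g' N := by
  classical
  obtain ⟨hR, hL, hRo, -⟩ := pl_jordan hT g.c
  obtain ⟨hR', hL', -, -⟩ := pl_jordan hT g'.c
  have h0 : pvasBW T s g.aOut := pvtg_aOut_bw _
  have h1 : pvasBW T s g'.aIn := pvtg_aIn_bw _
  have hvpL : g.vp ∈ T.VOf g.c.Left := ⟨_, hL g.m, rfl⟩
  have hvmL' : g'.vm ∈ T.VOf g'.c.Left := ⟨_, hL' 0, rfl⟩
  have hne : T.src g.aOut ≠ T.src g'.aIn := by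
    rw [pvtg_aOut_src]
    intro h
    exact Set.disjoint_left.1 hdis hvpL (h ▸ hvmL')
  obtain ⟨l1, l2, l3⟩ := pvtg_len hT g hfin
  have l4 : pvasIt T s g.aIn g.len = g.aOut := l3.trans hthru
  have hout : ∃ f, T.src f ∉ K ∧ T.DJoin (pvldBar T s K g.aOut g'.aIn) (T.opp g.aOut) f := by
    refine ⟨g.aIn, hvm, pvld_out_back h1 (pvtg_aIn_bw _) l4 (fun i hi => ⟨fun h => ?_, fun h => ?_⟩) l1⟩
    · have h2 := l2 i hi
      rw [h] at h2
      have h3 := hRo (g.m - 1)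
      rw [hR] at h3
      exact h3 h2
    · have h2 := l2 i hi
      rw [h] at h2
      exact Set.disjoint_left.1 hdis ⟨_, h2, rfl⟩ hvmL'
  obtain ⟨N, n1, n2, n3, n4⟩ : PvldRun T s K g.aOut g'.aIn :=
    pvld_exist hT hK h0 h1 hne (by rw [pvtg_aOut_src]; exact hB) hW hco hout
  refine ⟨N, n1, n2, n3, fun v hv => ⟨hKc v (n4 hv), fun h => ?_, fun h => ?_⟩⟩
  · obtain ⟨d, hd, e⟩ := hKo (n4 hv)
    rw [hR] at hd
    exact hd (h d e)
  · obtain ⟨d, hd, e⟩ := hKo' (n4 hv)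
    rw [hR'] at hd
    exact hd (h d e)


/-- the state event of 185 gives the big end -/
theorem pvkj_big_of_pred {𝔯 : PvspReg κ} {c : Bool} {k : PvspKind} {σ : V → Bool} (h : PvspPred 𝔯 c k V D T mk σ) : ∃ g : T.Gate (pvlfFl c σ), (pvkjBig 𝔯).Is V D T mk (pvlfFl c σ) g := by
  obtain ⟨h1, 𝔖, h2, -⟩ := h
  exact ⟨𝔖.g2, h1, 𝔖, h2, rfl⟩

end det

end Claimed.Agent.R289
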