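-- KEEP
import Claimed.Agent.R289.Tr.ForceM
import Claimed.Agent.R289.Tr.FrcDetL
import Claimed.Agent.R289.Tr.CloseM
import Claimed.Agent.R289.Tr.ConnQ

/-!
# Row 289 (S0537), THE WALL, ROAD P, file Tr/ForceD : **(DET) OF THE FOREIGN LINKS**      (pen + prover helper272; prefix `pvnl_`, defs `pvnl*`, `Pvnl*`)

CONSUMER: `PvcmCn η b Y M x g g'` of 95 (`Tr/CloseM` sec. 7: fields `run vm_off vp_off bary`; `val` = [SUM] of 113).      INPUT: the bare event `Λ.A₀` of a `PvnkLink` (`Tr/ForceI`) + the guard of `Tr/ForceM`.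
Everything is DETERMINISTIC, at ONE configuration `η` with `CfOK η`, on the plane map `pvkiT η`, EITHER COLOUR (`pvcmS η b`: `true` = the colour `b` of the rim).
ROUTE = the core of 294 (`Tr/FrcDetL`): `K := pvdtK η KE` = the sites whose CELL lies in the room `KE` (exact co-connectedness: 29), `pvld_exist` of 70.
SCALE FREE: the meshes are a LIST OF WINDOWS `W : List (ℝ × Set ℂ)` (`(ρ, E)` = mesh `ρ` in the window `E`);   `PvnlCov W U X` : every point of `U` has a window of the list which contains its `5ρ`-ball, its `3ρ`-ball lies in `X`.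
So ONE statement serves the thick links (one scale) and the funnels (big plug: `μ h`; corridor: `ρ₁`, `ρ₂`; door plug: the mesh of the kit).
* §1 `PvnlMesh`, `PvnlCov`, `pvnl_cell_in` (the cell of a site whose cell meets `U` lies in `X`), `pvnl_cov_mono`, `pvnl_cov_union`.
* §2 **`pvnl_path_join`** : a path of the region of the colour `β` in `U` between two sites ⟹ `Join` through the sites of colour `β` of `pvdtK η KE`;   colours: `pvnl_col_true`, `pvnl_col_false`.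
* §3 **`pvnl_run`** : two gates (finite inside, through, zones apart), `g⁻` and `g'⁺` off the room, black lane `g⁺ → g'⁻`, white lane foot → foot, room bounded with preconnected complement ⟹ `PvldRun`.
* §4 **`pvnl_bary`** : the barycentres of the faces of a run in `pvdtK η KE` lie in the mask.
* §6 `pvnl_zrun` (`PvzlRun` of 173), `pvnl_end_facts`, **`pvnl_lk`** (`PvkjLk` of 113 between two abstract ends), `pvnl_mesh_of`.
* §5 **`PvnlLay`** (what the geometry of a link owes to (DET)), `PvnlDic` (the starting sites of an end are the feet of the gate), **`pvnl_det`** : `Λ.A₀` + meshes ⟹ the four fields of `PvcmCn`;   **`pvnl_cn`**.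
-/

set_option autoImplicit false
set_option linter.unusedSectionVars false
set_option linter.unusedVariables false

namespace Claimed.Agent.R289

open Set Metric Relation

/-! ## 1. windows with their meshes -/

/-- all the meshes of the list hold -/
def PvnlMesh (W : List (ℝ × Set ℂ)) (Y : Set ℂ) : Prop := ∀ p ∈ W, 0 < p.1 ∧ PvtrMesh p.1 p.2 Y

/-- every point of `U` lies deep in a window of the list, its `3ρ`-ball lies in `X` -/
def PvnlCov (W : List (ℝ × Set ℂ)) (U X : Set ℂ) : Prop := ∀ z ∈ U, ∃ p ∈ W, closedBall z (5 * p.1) ⊆ p.2 ∧ closedBall z (3 * p.1) ⊆ X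

theorem pvnl_eqns_cite : True := by
  have := @PvnlMesh.eq_1; have := @PvnlCov.eq_1
  trivial

section cov

variable {W : List (ℝ × Set ℂ)} {Y U U' X X' : Set ℂ}

theorem pvnl_cov_mono (h : PvnlCov W U X) (hU : U' ⊆ U) (hX : X ⊆ X') : PvnlCov W U' X' := fun z hz => by
  obtain ⟨p, hp, h1, h2⟩ := h z (hU hz)
  exact ⟨p, hp, h1, h2.trans hX⟩

theorem pvnl_cov_union (h : PvnlCov W U X) (h' : PvnlCov W U' X) : PvnlCov W (U ∪ U') X := fun z hz => hz.elim (h z) (h' z)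

/-- **the cell of a site whose cell meets `U` lies in `X`**, the site itself lies deep in the window -/
theorem pvnl_cell_in (hM : PvnlMesh W Y) (hC : PvnlCov W U X) {v z : ℂ} (hz : z ∈ vorCell Y v) (hzU : z ∈ U) : vorCell Y v ⊆ X := by
  obtain ⟨p, hp, hE, hX⟩ := hC z hzU
  obtain ⟨hρ, hm⟩ := hM p hp
  obtain ⟨s, hs, hsz⟩ := hm z (fun w hw => hE (closedBall_subset_closedBall (by linarith) hw))
  have hvz : ‖z - v‖ ≤ p.1 := (hz s hs).trans hsz
  have hcore : v ∈ pvtrCore (3 * p.1) p.2 := by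
    intro w hw
    refine hE ?_
    rw [mem_closedBall, dist_eq_norm] at hw ⊢
    calc ‖w - z‖ = ‖(w - v) - (z - v)‖ := by ring_nf
      _ ≤ ‖w - v‖ + ‖z - v‖ := norm_sub_le _ _
      _ ≤ 5 * p.1 := by linarith
  intro w hw
  have h1 := pvdt_cell_ball hρ hm hcore hw
  refine hX ?_
  rw [mem_closedBall, dist_eq_norm] at h1 ⊢
  calc ‖w - z‖ = ‖(w - v) - (z - v)‖ := by ring_nf
    _ ≤ ‖w - v‖ + ‖z - v‖ := norm_sub_le _ _
    _ ≤ 3 * p.1 := by linarith

end cov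

/-! ## 2. a path of the region of a colour is a lane of the region of record -/

section path

variable {η : Conf PvPt} {KE U : Set ℂ}

/-- membership in the region of record -/
theorem pvnl_K_mem {v : ↥(cfSites η)} (h : vorCell (cfSites η) (v : ℂ) ⊆ KE) : v ∈ pvdtK η KE :=
  ⟨v.2, disjoint_left.2 fun x hx hx' => hx' (h hx)⟩

/-- **a path of `pvlnReg β η ∩ U` between two sites ⟹ a `Join` through the sites of colour `β` whose cell lies in `KE`** -/
theorem pvnl_path_join (hn : CfOK η) (hcell : ∀ v z : ℂ, z ∈ vorCell (cfSites η) v → z ∈ U → vorCell (cfSites η) v ⊆ KE) {β : Bool} {x y : ↥(cfSites η)}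
    (h : JoinedIn (pvlnReg β η ∩ U) (x : ℂ) (y : ℂ)) : (pvkiT η).Join univ (pvldCol (pvkiS η) (pvdtK η KE) β) x y := by
  have hreg : pvlnReg β η = pvlnReg β (cfOf (cfSites η) (cfCol η)) := congrArg _ (pvnk_cfOf hn)
  rw [hreg] at h
  obtain ⟨γ, hγ⟩ := h
  have lf := hn.del.lf
  have hAY : {v | v ∈ cfSites η ∧ cfCol η v = β} ⊆ cfSites η := fun v hv => hv.1
  have hsub : range γ ⊆ vorUn (cfSites η) {v | v ∈ cfSites η ∧ cfCol η v = β} ∩ U := by
    rintro _ ⟨t, rfl⟩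
    rw [← pvkq_reg_eq lf (cfCol η) β]
    exact hγ t
  obtain ⟨a, ha, b, hb, hxa, hyb, hch⟩ := vorch_chain_of_preconnected lf hAY (isPreconnected_range γ.continuous) hsub
    (x := (x : ℂ)) (y := (y : ℂ)) ⟨0, γ.source⟩ ⟨1, γ.target⟩
  have hown : ∀ (s v : ℂ), s ∈ cfSites η → s ∈ vorCell (cfSites η) v → v = s := by
    intro s v hs hsv
    have h0 := hsv s hs
    rw [sub_self, norm_zero] at h0
    exact (sub_eq_zero.1 (norm_le_zero_iff.1 h0)).symm
  have ea : a = x := hown x a x.2 hxa.1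
  have eb : b = y := hown y b y.2 hyb.1
  have key : ∀ b' : ℂ, ReflTransGen (VorchR (cfSites η) {v | v ∈ cfSites η ∧ cfCol η v = β} U) a b' →
      ∃ hb' : b' ∈ cfSites η, ReflTransGen (fun u v => (pvkiT η).EdgeIn univ u v ∧ v ∈ pvldCol (pvkiS η) (pvdtK η KE) β) (⟨a, ha.1⟩ : ↥(cfSites η)) ⟨b', hb'⟩ := by
    intro b' hb'
    induction hb' with
    | refl => exact ⟨ha.1, ReflTransGen.refl⟩
    | @tail v w _ hvw ih =>
      obtain ⟨hv, hch'⟩ := ih
      obtain ⟨hvA, hwA, z, ⟨hzv, hzw⟩, hzU⟩ := hvw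
      refine ⟨hwA.1, ?_⟩
      by_cases e : v = w
      · subst e; exact hch'
      · exact hch'.tail ⟨(pvdt_edge hn.del _ _).2 ⟨hv, hwA.1, e, ⟨z, hzv, hzw⟩⟩, pvnl_K_mem (v := ⟨w, hwA.1⟩) (hcell w z hzw hzU), hwA.2⟩
  obtain ⟨hbY, hch'⟩ := key b hch
  have e1 : (⟨a, ha.1⟩ : ↥(cfSites η)) = x := Subtype.ext ea
  have e2 : (⟨b, hbY⟩ : ↥(cfSites η)) = y := Subtype.ext eb
  rw [e1, e2] at hch'
  refine ⟨⟨pvnl_K_mem (hcell x x (vor_self_mem _ _) (ea ▸ hxa.2)), ?_⟩, hch'⟩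
  have := ha.2
  rw [ea] at this
  exact this

/-- the colour of the rim is called black -/
theorem pvnl_col_true (η : Conf PvPt) (b : Bool) (K : Set ↥(cfSites η)) : pvldCol (pvcmS η b) K true = pvldCol (pvkiS η) K b := by
  ext v
  simp only [pvldCol, pvlfFl, mem_ofPred_eq, Function.comp, beq_iff_eq]

theorem pvnl_col_false (η : Conf PvPt) (b : Bool) (K : Set ↥(cfSites η)) : pvldCol (pvcmS η b) K false = pvldCol (pvkiS η) K (!b) := by
  ext v
  simp only [pvldCol, pvlfFl, mem_ofPred_eq, Function.comp]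
  cases cfCol η v <;> cases b <;> simp

end path

/-! ## 3. two gates, two lanes in the region of record: the run -/

section run

variable {η : Conf PvPt} {b : Bool} {KE Q Q' : Set ℂ}

/-- **THE RUN**: `g` finite inside, through;   the closed insides of the two gates lie over disjoint zones;   `g⁻` off the room;   black lane `g⁺ → g'⁻`, white lane foot → foot in the region of record of the room `KE`
(bounded, complement preconnected) -/
theorem pvnl_run (hd : DelGood (cfSites η)) {g g' : (pvkiT η).Gate (pvcmS η b)} (hfin : g.c.Left.Finite) (hthru : g.Thru)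
    (zone : ∀ v ∈ (pvkiT η).VOf g.c.Left, (v : ℂ) ∈ Q) (zone' : ∀ v ∈ (pvkiT η).VOf g'.c.Left, (v : ℂ) ∈ Q') (far : Disjoint Q Q')
    (bK : Bornology.IsBounded KE) (co : IsPreconnected KEᶜ) (hm : ((g.vm : ↥(cfSites η)) : ℂ) ∉ KE)
    (hB : (pvkiT η).Join univ (pvldCol (pvcmS η b) (pvdtK η KE) true) g.vp g'.vm)
    (hW : (pvkiT η).Join univ (pvldCol (pvcmS η b) (pvdtK η KE) false) ((pvkiT η).tgt g.aOut) ((pvkiT η).tgt g'.aIn)) :
    PvldRun (pvkiT η) (pvcmS η b) (pvdtK η KE) g.aOut g'.aIn := by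
  have hT : (pvkiT η).IsSph := delb_plane_isSph hd
  obtain ⟨hR, hL, hRo, -⟩ := pl_jordan hT g.c
  obtain ⟨-, hL', -, -⟩ := pl_jordan hT g'.c
  have h0 : pvasBW (pvkiT η) (pvcmS η b) g.aOut := pvtg_aOut_bw _
  have h1 : pvasBW (pvkiT η) (pvcmS η b) g'.aIn := pvtg_aIn_bw _
  have hvpL : g.vp ∈ (pvkiT η).VOf g.c.Left := ⟨_, hL g.m, rfl⟩
  have hvmL' : g'.vm ∈ (pvkiT η).VOf g'.c.Left := ⟨_, hL' 0, rfl⟩
  have hdis : ∀ v, v ∈ (pvkiT η).VOf g.c.Left → v ∈ (pvkiT η).VOf g'.c.Left → False := fun v h h' => disjoint_left.1 far (zone v h) (zone' v h')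
  have hne : (pvkiT η).src g.aOut ≠ (pvkiT η).src g'.aIn := by
    rw [pvtg_aOut_src]
    intro h
    exact hdis _ hvpL (h ▸ hvmL')
  obtain ⟨l1, l2, l3⟩ := pvtg_len hT g hfin
  have l4 : pvasIt (pvkiT η) (pvcmS η b) g.aIn g.len = g.aOut := l3.trans hthru
  have hvm : g.vm ∉ pvdtK η KE := fun h => hm (pvdt_K_pos h)
  have hout : ∃ f, (pvkiT η).src f ∉ pvdtK η KE ∧ (pvkiT η).DJoin (pvldBar (pvkiT η) (pvcmS η b) (pvdtK η KE) g.aOut g'.aIn) ((pvkiT η).opp g.aOut) f := by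
    refine ⟨g.aIn, hvm, pvld_out_back h1 (pvtg_aIn_bw _) l4 (fun i hi => ⟨fun h => ?_, fun h => ?_⟩) l1⟩
    · have h2 := l2 i hi
      rw [h] at h2
      have h3 := hRo (g.m - 1)
      rw [hR] at h3
      exact h3 h2
    · have h2 := l2 i hi
      rw [h] at h2
      exact hdis _ ⟨_, h2, rfl⟩ hvmL'
  exact pvld_exist hT (pvdt_K_finite hd.lf bK) h0 h1 hne (by rw [pvtg_aOut_src]; exact hB) hW (pvdt_K_co hd co) hout

end run

/-! ## 4. the barycentres of the faces of a run -/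

section bary

variable {η : Conf PvPt} {W : List (ℝ × Set ℂ)} {KE Mk : Set ℂ}

/-- **the barycentres of the faces crossed by a run in the region of record of `KE` lie in the mask** -/
theorem pvnl_bary (hd : DelGood (cfSites η)) (hM : PvnlMesh W (cfSites η)) (hC : PvnlCov W KE Mk) {s : ↥(cfSites η) → Bool} {a₀ a₁ : (delbPl (cfSites η)).Dart}
    (run : PvldRun (pvkiT η) s (pvdtK η KE) a₀ a₁) : ∀ d ∈ pvasFc (pvkiT η) s a₀ (pvasHit (pvkiT η) s a₀ {a₁}), (pvkiT η).bary Subtype.val d ∈ Mk := by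
  intro d hdF
  have hK : (pvkiT η).src d ∈ pvdtK η KE := (pvld_run_hit run).2.2 ⟨d, hdF, rfl⟩
  obtain ⟨p, hp, hE, hX⟩ := hC _ (pvdt_K_pos hK)
  obtain ⟨hρ, hm⟩ := hM p hp
  have h1 := (pvkp_bary_near hρ hd hm d (fun w hw => hE (closedBall_subset_closedBall (by linarith) hw))).1
  exact hX (closedBall_subset_closedBall (by linarith) h1)

end bary

/-! ## 5. (DET) of a link -/

/-- **the starting sites of the end `e` are the feet of the gate `g`** (`out = true`: the exit side `g⁺`, foot of `aOut`;   `out = false`: the entrance side `g⁻`, foot of `aIn`) -/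
structure PvnlDic (e : PvnkEnd) (η : Conf PvPt) (b : Bool) (g : (pvkiT η).Gate (pvcmS η b)) (out : Bool) : Prop where
  s₁ : ∀ x ∈ e.S₁ η, x = ((cond out g.vp g.vm : ↥(cfSites η)) : ℂ)
  s₂ : ∀ x ∈ e.S₂ η, x = ((cond out ((pvkiT η).tgt g.aOut) ((pvkiT η).tgt g.aIn) : ↥(cfSites η)) : ℂ)

/-- **WHAT THE GEOMETRY OF A LINK OWES TO (DET)** (deterministic; producers 164 114 205): `W` = the windows with their meshes, `KE` = the room of the run, `Mk` = the mask, `Q Q'` = the zones of the two plugs -/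
structure PvnlLay (Λ : PvnkLink) (W : List (ℝ × Set ℂ)) (KE Mk Q Q' : Set ℂ) : Prop where
  bK : Bornology.IsBounded KE
  co : IsPreconnected KEᶜ
  far : Disjoint Q Q'
  /-- the rooms of the side paths and the cells of the walk of the colour of the rim lie deep in the windows and in the room of the run -/
  cov₁ : PvnlCov W (Λ.e.A₁ ∪ pvlnU Λ.δ Λ.L₁ ∪ Λ.e'.A₁) KE
  /-- the same for the other colour -/
  cov₂ : PvnlCov W (Λ.e.A₂ ∪ pvlnU Λ.δ Λ.L₂ ∪ Λ.e'.A₂) KE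
  /-- the room of the run lies deep in the windows and in the mask -/
  covK : PvnlCov W KE Mk

section det

variable {Λ : PvnkLink} {η : Conf PvPt} {b : Bool} {W : List (ℝ × Set ℂ)} {KE Mk Q Q' : Set ℂ}

/-- **(DET)**: the bare event + the meshes ⟹ the run in the region of record -/
theorem pvnl_det_run (he : Λ.e.Ok) (he' : Λ.e'.Ok) (hG : Λ.Geo) (hc : Λ.e.c = b) (L : PvnlLay Λ W KE Mk Q Q') (hn : CfOK η) (hη : η ∈ Λ.A₀) (hM : PvnlMesh W (cfSites η))
    {g g' : (pvkiT η).Gate (pvcmS η b)} (D : PvnlDic Λ.e η b g true) (D' : PvnlDic Λ.e' η b g' false) (hfin : g.c.Left.Finite) (hthru : g.Thru)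
    (zone : ∀ v ∈ (pvkiT η).VOf g.c.Left, (v : ℂ) ∈ Q) (zone' : ∀ v ∈ (pvkiT η).VOf g'.c.Left, (v : ℂ) ∈ Q') (hm : ((g.vm : ↥(cfSites η)) : ℂ) ∉ KE) :
    PvldRun (pvkiT η) (pvcmS η b) (pvdtK η KE) g.aOut g'.aIn := by
  obtain ⟨⟨x, hx, x', hx', h1⟩, ⟨u, hu, u', hu', h2⟩⟩ := pvnk_link he he' hG hη hn
  rw [D.s₁ x hx, D'.s₁ x' hx', hc] at h1
  rw [D.s₂ u hu, D'.s₂ u' hu', hc] at h2
  refine pvnl_run hn.del hfin hthru zone zone' L.far L.bK L.co hm ?_ ?_
  · rw [pvnl_col_true]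
    exact pvnl_path_join hn (fun v z hz hzU => pvnl_cell_in hM L.cov₁ hz hzU) h1
  · rw [pvnl_col_false]
    exact pvnl_path_join hn (fun v z hz hzU => pvnl_cell_in hM L.cov₂ hz hzU) h2

/-- **(DET), THE FORM OF 95**: all the fields of `PvcmCn` (the value `val` = [SUM] of 113 is passed through) -/
theorem pvnl_cn (he : Λ.e.Ok) (he' : Λ.e'.Ok) (hG : Λ.Geo) (hc : Λ.e.c = b) (L : PvnlLay Λ W KE Mk Q Q') (hn : CfOK η) (hη : η ∈ Λ.A₀) (hM : PvnlMesh W (cfSites η))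
    {g g' : (pvkiT η).Gate (pvcmS η b)} (D : PvnlDic Λ.e η b g true) (D' : PvnlDic Λ.e' η b g' false) (hfin : g.c.Left.Finite) (hthru : g.Thru)
    (zone : ∀ v ∈ (pvkiT η).VOf g.c.Left, (v : ℂ) ∈ Q) (zone' : ∀ v ∈ (pvkiT η).VOf g'.c.Left, (v : ℂ) ∈ Q') (hm : ((g.vm : ↥(cfSites η)) : ℂ) ∉ KE)
    (hp : ((g'.vp : ↥(cfSites η)) : ℂ) ∉ KE) {x : ℂ} (val : x = pvcmMass η b Mk g g') : PvcmCn η b KE Mk x g g' := by
  have run := pvnl_det_run he he' hG hc L hn hη hM D D' hfin hthru zone zone' hm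
  exact ⟨pvld_run_mono (fun v hv => pvdt_K_pos hv) run, hm, hp, pvnl_bary hn.del hM L.covK run, val⟩

end det

/-! ## 6. the forms of 173 and 113 -/

section forms

variable {Λ : PvnkLink} {η : Conf PvPt} {b : Bool} {W : List (ℝ × Set ℂ)} {KE Mk Q Q' : Set ℂ}

/-- **a run in the region of record is a run of 173**: the faces crossed lie on the closed outside of the two gates -/
theorem pvnl_zrun (hd : DelGood (cfSites η)) {g g' : (pvkiT η).Gate (pvcmS η b)} (run : PvldRun (pvkiT η) (pvcmS η b) (pvdtK η KE) g.aOut g'.aIn) (hfin : g.c.Left.Finite) (hthru : g.Thru)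
    (zone : ∀ v ∈ (pvkiT η).VOf g.c.Left, (v : ℂ) ∈ Q) (zone' : ∀ v ∈ (pvkiT η).VOf g'.c.Left, (v : ℂ) ∈ Q') (far : Disjoint Q Q')
    (hm : ((g.vm : ↥(cfSites η)) : ℂ) ∉ KE) (hp : ((g'.vp : ↥(cfSites η)) : ℂ) ∉ KE) :
    PvzlRun (pvkiT η) Subtype.val (pvcmS η b) KE g g' (pvasHit (pvkiT η) (pvcmS η b) g.aOut {g'.aIn}) := by
  have hT : (pvkiT η).IsSph := delb_plane_isSph hd
  have hvpL : g.vp ∈ (pvkiT η).VOf g.c.Left := ⟨_, (pl_jordan hT g.c).2.1 g.m, rfl⟩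
  have hvmL' : g'.vm ∈ (pvkiT η).VOf g'.c.Left := ⟨_, (pl_jordan hT g'.c).2.1 0, rfl⟩
  have hdis : ∀ v, v ∈ (pvkiT η).VOf g.c.Left → v ∈ (pvkiT η).VOf g'.c.Left → False := fun v h h' => disjoint_left.1 far (zone v h) (zone' v h')
  have ha1 : g'.aIn ∉ g.c.Left := fun h => hdis _ ⟨_, h, rfl⟩ hvmL'
  have ha0 : g.aOut ∉ g'.c.Left := fun h => hdis _ hvpL ⟨_, h, pvtg_aOut_src g⟩
  have hm' : g.vm ∉ pvdtK η KE := fun h => hm (pvdt_K_pos h)
  have hp' : g'.vp ∉ pvdtK η KE := fun h => hp (pvdt_K_pos h)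
  have r1 := pvkk_run_src hT g run hthru hfin hm' ha1
  have r2 := pvkk_run_tgt hT g' (pvtg_aOut_bw g) run ha0 hp'
  obtain ⟨n1, n2, n3⟩ := pvld_run_hit run
  have hoff : ∀ (γ : (pvkiT η).Gate (pvcmS η b)) (v : ↥(cfSites η)), v ∈ (pvkiT η).VOf γ.c.Right → v ∉ (pvkiT η).Int γ.c.Left := by
    rintro γ v ⟨d, hd, rfl⟩ hint
    rw [(pl_jordan hT γ.c).1] at hd
    exact hd (hint d rfl)
  refine ⟨n1, n2, fun i hi => by simpa using pvas_hit_min hi, fun v hv => ⟨pvdt_K_pos (n3 hv), ?_, ?_⟩⟩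
  · exact hoff g v ((pvld_run_hit r1).2.2 hv).2
  · exact hoff g' v ((pvld_run_hit r2).2.2 hv).2

/-- what an end of 113 gives at its gate: finite inside, through, zone -/
theorem pvnl_end_facts (hd : DelGood (cfSites η)) {𝔢 : PvkjEnd ℂ} (hO : 𝔢.Ok) (bZ : Bornology.IsBounded 𝔢.Z) {g : (pvkiT η).Gate (pvcmS η b)}
    (is : 𝔢.Is _ _ (pvkiT η) Subtype.val (pvcmS η b) g) : g.c.Left.Finite ∧ g.Thru ∧ ∀ v ∈ (pvkiT η).VOf g.c.Left, (v : ℂ) ∈ 𝔢.Z := by
  have hT : (pvkiT η).IsSph := delb_plane_isSph hd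
  have hz : ∀ v ∈ (pvkiT η).VOf g.c.Left, (v : ℂ) ∈ 𝔢.Z := by
    rintro v ⟨d, hdL, rfl⟩
    exact hO.zone _ _ _ _ _ g is d hdL
  obtain ⟨N, hN⟩ := hO.thru _ _ _ _ _ g is
  exact ⟨pvld_finite hT (pvdt_fin_sites hd.lf bZ) hz, (hN.len hT).2, hz⟩

/-- **(DET), THE LINK OF 113** between two abstract ends -/
theorem pvnl_lk {𝔢 𝔢' : PvkjEnd ℂ} (hO : 𝔢.Ok) (hO' : 𝔢'.Ok) (bZ : Bornology.IsBounded 𝔢.Z) (bZ' : Bornology.IsBounded 𝔢'.Z)
    (he : Λ.e.Ok) (he' : Λ.e'.Ok) (hG : Λ.Geo) (hc : Λ.e.c = b) (L : PvnlLay Λ W KE Mk 𝔢.Z 𝔢'.Z) (hn : CfOK η) (hη : η ∈ Λ.A₀) (hM : PvnlMesh W (cfSites η))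
    {g g' : (pvkiT η).Gate (pvcmS η b)} (is : 𝔢.Is _ _ (pvkiT η) Subtype.val (pvcmS η b) g) (is' : 𝔢'.Is _ _ (pvkiT η) Subtype.val (pvcmS η b) g')
    (D : PvnlDic Λ.e η b g true) (D' : PvnlDic Λ.e' η b g' false) (hm : ((g.vm : ↥(cfSites η)) : ℂ) ∉ KE) (hp : ((g'.vp : ↥(cfSites η)) : ℂ) ∉ KE) :
    PvkjLk (pvkiT η) Subtype.val (pvcmS η b) 𝔢 𝔢' KE g g' (pvasHit (pvkiT η) (pvcmS η b) g.aOut {g'.aIn}) := by
  obtain ⟨f1, f2, f3⟩ := pvnl_end_facts hn.del hO bZ is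
  obtain ⟨-, -, f3'⟩ := pvnl_end_facts hn.del hO' bZ' is'
  have run := pvnl_det_run he he' hG hc L hn hη hM D D' f1 f2 f3 f3' hm
  exact ⟨is, is', pvnl_zrun hn.del run f1 f2 f3 f3' L.far hm hp⟩

/-- a mesh of a window from the list: every point of the core has a finer window of the list round it -/
theorem pvnl_mesh_of {Y E : Set ℂ} {ρ : ℝ} (hM : PvnlMesh W Y) (h : ∀ z ∈ pvtrCore ρ E, ∃ p ∈ W, p.1 ≤ ρ ∧ closedBall z p.1 ⊆ p.2) : PvtrMesh ρ E Y := by
  intro z hz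
  obtain ⟨p, hp, h1, h2⟩ := h z hz
  obtain ⟨u, hu, huz⟩ := (hM p hp).2 z h2
  exact ⟨u, hu, huz.trans h1⟩

end forms

end Claimed.Agent.R289
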