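-- KEEP
import Claimed.Agent.R289.Tr.ForceS
import Claimed.Agent.R289.Tr.CycP
import Claimed.Agent.R289.Exit.DatP

/-!
# Row 289 (S0537), THE WALL, ROAD P, P16 = Tr/EndP : P16 AT THE DATA = THE FIVE FOREIGN CONNECTORS OF `PvypDat` AS LINKS      (pen + prover helper272; prefix `pvnd_`, defs `pvnd*`, `Pvnd*`)

On `Tr/ForceI.lean` (`PvnkEnd`, `PvnkLink`), `Tr/ForceS.lean` (68: THE ENDS OF A BIG PLUG `pvfvEndP`, `pvfvEndM`, `Ok` + `Up`), `Tr/SysP.lean` (58: `PvypDat`), `Tr/CycP.lean` (95: `PvcpFrc1`, `PvcpFrc2`).      v2: my twin ends of v1 are deleted.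
* §0 DELAUNAY PATHS IN THE CONTINUUM (restored from v1: consumer 294 `Tr/FrcDetL`): `pvnd_cell_reg`, `pvnd_adj_joined`, `pvnd_cell_ball`, `pvnd_col`, `pvnd_path_joined`.
* §1 METRIC HOOK ZONES.   **`pvnd_zone`** : `A ⊆ F₁ ∪ Z ∪ F₂`, `F₁ F₂` closed disjoint, the blocks of the fine cells which meet `Z` lie in the walk, the doors are `2 δ` away from `Z`;   `pvnd_zone_mono`, `pvnd_far_of_norm`.
* §2 FORCING, A.E. FORM (engine of 95, v2).   **`pvnd_forced_ae`** : the BARE event `Λ.A₀ = L⁺ ∩ L⁻ ∩ Net` is forced at almost every pair of states with propensities `≥ β` (no `pvpgFix` any more).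
* §3 LINKS AS SECTORS.   `Λ.Kx` (exterior region), `pvnd_Rd_eq`, `pvnd_Kx_meas`, `pvnd_A₀_reads`;   `e.UpOk ε` (up-ness of an end in every admissible mixed order), `Λ.Rooms`, `Λ.P16 ε δ₀ n` (all that P16 asks of one link);
     **`pvnd_link_frc`** (one link, eventually in `ε`: the bare event is forced a.e.), **`pvnd_link_ae`** (the event of record `Λ.A ε q G G'` is a.e. the bare event).
* §4 the big ends satisfy `UpOk` (68), propensities of the usable states.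
* §5 **P16 AT THE TERM OF RECORD** `pvydDat 𝔓 𝔤 c` of 58 (`Exit/DatP.lean`).   Extra contracts: `PvndKitUp` (kit ends: up-ness + propensities; producers 174 204 52), `PvndCand` (rooms + lengths; producers 164 114 205).
     **`pvnd_o_ae` `pvnd_i_ae` `pvnd_e_ae` `pvnd_b_ae` `pvnd_r_ae`** : eventually in `ε`, a.e. on the event of record of the connector the bare event WITH THE GUARD `pvnhA₀ Λ M = L⁺ ∩ L⁻ ∩ Net ∩ M` holds (`Tr/ForceM`; patch of 58, 13:10Z)  (then `pvnk_link`, `pvnk_link_join` give the two lanes: input of CLOSE-P).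
-/

set_option autoImplicit false
set_option linter.unusedSectionVars false
set_option linter.unusedVariables false

namespace Claimed.Agent.R289

open MeasureTheory ProbabilityTheory Set Filter Topology Metric
open scoped ENNReal NNReal

/-! ## 0. Delaunay paths in the continuum      (consumers: 294 `Tr/FrcDetL`) -/

/-- the cell of a site of the colour `c` lies in the region of the colour `c` -/
theorem pvnd_cell_reg {η : Conf PvPt} {c : Bool} {a : ℂ} (ha : (a, c) ∈ η.pts) : vorCell (cfSites η) a ⊆ pvlnReg c η := by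
  intro z hz
  refine ⟨a, ?_, fun b hb => hz b ?_⟩
  · cases c <;> exact ha
  · cases c <;> exact ⟨(b, _), hb, rfl⟩

/-- two sites of the colour `c` whose cells touch are joined in the region of the colour `c`, inside the two cells -/
theorem pvnd_adj_joined {η : Conf PvPt} {c : Bool} {a b : ℂ} {U : Set ℂ} (ha : (a, c) ∈ η.pts) (hb : (b, c) ∈ η.pts) (hab : (vorCell (cfSites η) a ∩ vorCell (cfSites η) b).Nonempty)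
    (ca : vorCell (cfSites η) a ⊆ U) (cb : vorCell (cfSites η) b ⊆ U) : JoinedIn (pvlnReg c η ∩ U) a b := by
  obtain ⟨w, hwa, hwb⟩ := hab
  have j1 : JoinedIn (vorCell (cfSites η) a) a w := ((vor_convex_cell _ a).isPathConnected ⟨a, vor_self_mem _ a⟩).joinedIn a (vor_self_mem _ a) w hwa
  have j2 : JoinedIn (vorCell (cfSites η) b) w b := ((vor_convex_cell _ b).isPathConnected ⟨b, vor_self_mem _ b⟩).joinedIn w hwb b (vor_self_mem _ b)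
  exact (j1.mono (subset_inter (pvnd_cell_reg ha) ca)).trans (j2.mono (subset_inter (pvnd_cell_reg hb) cb))

/-- under the mesh of a window the cell of a site deep in the window is small -/
theorem pvnd_cell_ball {Y E : Set ℂ} {ρ : ℝ} (hρ : 0 < ρ) (hm : PvtrMesh ρ E Y) {a : ℂ} (ha : a ∈ pvtrCore (3 * ρ) E) : vorCell Y a ⊆ closedBall a ρ := by
  refine vor_cell_subset_ball hρ.le (R := 2 * ρ) (by linarith) (hm.mono Subset.rfl ?_ le_rfl)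
  exact pvtr_ball_core (by rw [show ρ + 2 * ρ = 3 * ρ by ring]; exact ha)

/-- the colour of a vertex of the plane map -/
theorem pvnd_col {η : Conf PvPt} (hn : CfOK η) (v : delbPlane.V (cfSites η)) : (delbPlane.pos (cfSites η) v, delbPlane.col η Empty.elim v) ∈ η.pts := by
  have h1 : (delbPlane.pos (cfSites η) v, delbPlane.col η Empty.elim v) ∈ (cfOf (cfSites η) (cfCol η)).pts := cfOf_mem.2 ⟨(v : ↥(cfSites η)).2, rfl⟩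
  rw [← pvnk_cfOf hn] at h1
  exact h1

/-- **(s3)** a side path of the plane map is a path of the continuum region of its colour, in the `ρ`-neighbourhood of its room -/
theorem pvnd_path_joined {η : Conf PvPt} (hn : CfOK η) {ρ : ℝ} (hρ : 0 < ρ) {E : Set ℂ} (hm : PvtrMesh ρ E (cfSites η)) {c b : Bool} {A : Set (delbPlane.V (cfSites η))} {N Dr : Set ℂ}
    (hN : N ⊆ pvtrCore (3 * ρ) E) (h : PvspPath (delbPlane.T (cfSites η)) (delbPlane.pos (cfSites η)) (pvspS c (delbPlane.col η Empty.elim)) b A N Dr) :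
    ∃ v ∈ A, ∃ y ∈ Dr ∩ N, delbPlane.pos (cfSites η) v ∈ N ∧ JoinedIn (pvlnReg (cond b c !c) η ∩ vorNbd N ρ) (delbPlane.pos (cfSites η) v) y := by
  obtain ⟨q, h0, h1, h2⟩ := h
  have hcol : ∀ i, i ≤ q.n → (delbPlane.pos (cfSites η) (q.v i), cond b c !c) ∈ η.pts := by
    intro i hi
    have e := (h2 (q.v i) ⟨i, hi, rfl⟩).1
    have e2 : delbPlane.col η Empty.elim (q.v i) = cond b c !c := by
      unfold pvspS at e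
      cases b <;> cases c <;> cases hh : delbPlane.col η Empty.elim (q.v i) <;> simp_all
    rw [← e2]
    exact pvnd_col hn _
  have hpos : ∀ i, i ≤ q.n → delbPlane.pos (cfSites η) (q.v i) ∈ N := fun i hi => (h2 (q.v i) ⟨i, hi, rfl⟩).2
  have hcell : ∀ i, i ≤ q.n → vorCell (cfSites η) (delbPlane.pos (cfSites η) (q.v i)) ⊆ vorNbd N ρ := by
    intro i hi w hw
    refine ⟨_, hpos i hi, ?_⟩
    have := pvnd_cell_ball hρ hm (hN (hpos i hi)) hw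
    rwa [mem_closedBall, dist_eq_norm] at this
  have key : ∀ i, i ≤ q.n → JoinedIn (pvlnReg (cond b c !c) η ∩ vorNbd N ρ) (delbPlane.pos (cfSites η) (q.v 0)) (delbPlane.pos (cfSites η) (q.v i)) := by
    intro i
    induction i with
    | zero =>
      intro _
      exact JoinedIn.refl ⟨pvnd_cell_reg (hcol 0 (Nat.zero_le _)) (vor_self_mem _ _), hcell 0 (Nat.zero_le _) (vor_self_mem _ _)⟩
    | succ i ih =>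
      intro hi
      refine (ih (by omega)).trans ?_
      have hadj : DelAdj (cfSites η) (delbPlane.pos (cfSites η) (q.v i)) (delbPlane.pos (cfSites η) (q.v (i + 1))) := by
        have := (delb_plane_face (q.e i)).adj
        rw [← q.src_e i (by omega), ← q.tgt_e i (by omega)]
        exact this
      exact pvnd_adj_joined (hcol i (by omega)) (hcol (i + 1) hi) hadj.2.2.2 (hcell i (by omega)) (hcell (i + 1) hi)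
  exact ⟨q.v 0, h0, _, ⟨h1, hpos q.n le_rfl⟩, hpos 0 (Nat.zero_le _), key q.n le_rfl⟩

/-! ## 1. metric hook zones -/

/-- **METRIC PRODUCER OF ZONES**: the room `A` is covered by two disjoint closed sets `F₁ ∋ start`, `F₂ ∋ door` and a passage `Z`;   the blocks of the fine cells which meet `Z` lie in the walk;   the door is `2 δ` away from `Z` in one coordinate -/
theorem pvnd_zone {δ : ℝ} (hδ : 0 < δ) {W : Set (ℤ × ℤ)} {A F₁ Z F₂ X Y : Set ℂ} (hA : A ⊆ F₁ ∪ Z ∪ F₂) (c1 : IsClosed F₁) (c2 : IsClosed F₂) (hd : Disjoint F₁ F₂)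
    (hX : X ⊆ F₁) (hY : Y ⊆ F₂) (hZ : ∀ k, (pvlnC δ k ∩ Z).Nonempty → pvfpBlk k ⊆ W)
    (hfar : ∀ p ∈ Z, ∀ y ∈ Y, 2 * δ ≤ |y.re - p.re| ∨ 2 * δ ≤ |y.im - p.im|) : PvfpZone δ W A X Y := by
  intro S hS x hx y hy hxy
  obtain ⟨p, hp, j1, j2⟩ := pvfp_pass hxy (hS.trans hA) c1 c2 hd (hX hx) (hY hy)
  have hpk := pvkq_mem_cell hδ p
  refine ⟨pvkqCell δ p, p, hZ _ ⟨p, hpk, hp⟩, hpk, j1, j2, ?_⟩
  rintro ⟨y1, y2, y3, y4⟩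
  obtain ⟨p1, p2, p3, p4⟩ := hpk
  rcases hfar p hp y hy with hh | hh
  · have : |y.re - p.re| < 2 * δ := abs_lt.2 ⟨by nlinarith, by nlinarith⟩
    linarith
  · have : |y.im - p.im| < 2 * δ := abs_lt.2 ⟨by nlinarith, by nlinarith⟩
    linarith

/-- zones are monotone -/
theorem pvnd_zone_mono {δ : ℝ} {W W' : Set (ℤ × ℤ)} {A A' X X' Y Y' : Set ℂ} (h : PvfpZone δ W A X Y) (hW : W ⊆ W') (hA : A' ⊆ A) (hX : X' ⊆ X) (hY : Y' ⊆ Y) : PvfpZone δ W' A' X' Y' := by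
  intro S hS x hx y hy hxy
  obtain ⟨k, p, h1, h2⟩ := h S (hS.trans hA) x (hX hx) y (hY hy) hxy
  exact ⟨k, p, h1.trans hW, h2⟩

/-- the norm form of the distance condition -/
theorem pvnd_far_of_norm {δ : ℝ} {p y : ℂ} (h : 3 * δ ≤ ‖y - p‖) : 2 * δ ≤ |y.re - p.re| ∨ 2 * δ ≤ |y.im - p.im| := by
  by_contra hcon
  push Not at hcon
  have h2 : ‖y - p‖ ^ 2 = (y.re - p.re) ^ 2 + (y.im - p.im) ^ 2 := by
    rw [Complex.sq_norm, Complex.normSq_apply, Complex.sub_re, Complex.sub_im]; ring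
  have h0 : 0 < δ := by
    by_contra h0
    have := abs_nonneg (y.re - p.re)
    linarith [hcon.1]
  have a1 : (y.re - p.re) ^ 2 < (2 * δ) ^ 2 := by rw [← sq_abs]; exact pow_lt_pow_left₀ hcon.1 (abs_nonneg _) two_ne_zero
  have a2 : (y.im - p.im) ^ 2 < (2 * δ) ^ 2 := by rw [← sq_abs]; exact pow_lt_pow_left₀ hcon.2 (abs_nonneg _) two_ne_zero
  have a3 : (3 * δ) ^ 2 ≤ ‖y - p‖ ^ 2 := pow_le_pow_left₀ (by positivity) h 2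
  nlinarith

/-! ## 2. forcing, a.e. form -/

/-- **P16, A.E. FORM** (engine of 95, v2: `PvsyCycForced.frc` asks the bound at almost every pair of states): the BARE event `L⁺ ∩ L⁻ ∩ Net` is forced.      Uniformly over all links whose walks have at most `n` cells. -/
theorem pvnd_forced_ae {q0 : ℝ} (hq0 : 0 < q0) (hq1 : q0 ≤ 1) (hQ : PvlqQbx q0) (n : ℕ) {β : ℝ} (hβ : 0 < β) :
    ∃ U : ℝ, 1 ≤ U ∧ ∀ ε : ℝ, 0 < ε → ∀ Λ : PvnkLink, Λ.e.Ok → Λ.e'.Ok → Λ.Geo → U * ε ≤ Λ.δ → Λ.L₁.length ≤ n → Λ.L₂.length ≤ n →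
      (∀ᵐ σ ∂(pvP ε), Λ.e.Up ε Λ.K₁ Λ.K₂ σ) → (∀ᵐ σ ∂(pvP ε), Λ.e'.Up ε Λ.K₁ Λ.K₂ σ) →
      ∀ᵐ σ ∂(pvP ε), ENNReal.ofReal β ≤ pvtiP (pvP ε) (Λ.e.O ×ˢ univ) Λ.e.L σ → ENNReal.ofReal β ≤ pvtiP (pvP ε) (Λ.e'.O ×ˢ univ) Λ.e'.L σ →
        ENNReal.ofReal ((q0 ^ (15 * n) / 2) ^ 2 * (β ^ 2 / 2)) ≤ pvtiP (pvP ε) Λ.OO Λ.A₀ σ := by
  obtain ⟨U, hU1, hU⟩ := pvfp_forced_ev hq0 hq1 hQ n hβ
  refine ⟨U, hU1, fun ε hε Λ he he' hG hδ n1 n2 u1 u2 => ?_⟩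
  filter_upwards [u1, u2] with σ hσ hσ' h1 h2
  refine hU ε hε Λ.conn (pvnk_ok he he' hG) hδ n1 n2 σ (pvnk_up he he' hG hσ hσ') h1 h2 ?_
  have : pvtiP (pvP ε) Λ.conn.OO Λ.conn.Eᶜ σ = 0 := by
    show pvtiP (pvP ε) Λ.conn.OO (univ : Set (Conf PvPt))ᶜ σ = 0
    rw [compl_univ]
    simp [pvtiP]
  rw [this]
  exact zero_le

/-! ## 3. links as sectors -/

namespace PvnkLink

variable (Λ : PvnkLink)

/-- the exterior region of the connector: all that it reads off the two state regions -/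
def Kx : Set PvPt := ((Λ.e.E ∪ Λ.e'.E ∪ pvlnW Λ.δ Λ.L₁ ∪ pvlnW Λ.δ Λ.L₂) \ (Λ.e.O ∪ Λ.e'.O)) ×ˢ univ

/-- the thickened rooms of the four side paths lie in the frozen regions and in the zones of the mixed order -/
structure Rooms : Prop where
  a₁ : Λ.e.A₁ ⊆ Λ.e.O ∪ Λ.K₁
  a₂ : Λ.e.A₂ ⊆ Λ.e.O ∪ Λ.K₂
  a₁' : Λ.e'.A₁ ⊆ Λ.e'.O ∪ Λ.K₁
  a₂' : Λ.e'.A₂ ⊆ Λ.e'.O ∪ Λ.K₂

end PvnkLink

/-- the section of the side event is up, at almost every frozen state, in EVERY mixed order whose zones contain the thickened rooms off the state region -/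
def PvnkEnd.UpOk (e : PvnkEnd) (ε : ℝ) : Prop :=
  ∀ K₁ K₂ : Set ℂ, Disjoint K₁ K₂ → e.A₁ ⊆ e.O ∪ K₁ → e.A₂ ⊆ e.O ∪ K₂ → ∀ᵐ σ ∂(pvP ε), e.Up ε K₁ K₂ σ

/-- **ALL THAT P16 ASKS OF ONE LINK AT THE MESH `ε`** : ends, geometry, rooms, mesh `δ₀` of the walks, lengths `≤ n`, up-ness of the two ends -/
structure PvnkLink.P16 (Λ : PvnkLink) (ε δ₀ : ℝ) (n : ℕ) : Prop where
  ok : Λ.e.Ok
  ok' : Λ.e'.Ok
  geo : Λ.Geo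
  rooms : Λ.Rooms
  δ_eq : Λ.δ = δ₀
  n₁ : Λ.L₁.length ≤ n
  n₂ : Λ.L₂.length ≤ n
  up : Λ.e.UpOk ε
  up' : Λ.e'.UpOk ε

/-- the constant of P16 -/
noncomputable def pvndQ (q0 : ℝ) (n : ℕ) (β : ℝ) : ℝ≥0∞ := ENNReal.ofReal ((q0 ^ (15 * n) / 2) ^ 2 * (β ^ 2 / 2))

theorem pvnd_eqns_cite : True := by
  have := @PvnkLink.Kx.eq_1; have := @PvnkEnd.UpOk.eq_1; have := @pvndQ.eq_1
  trivial

theorem pvnd_Q_ne_zero {q0 : ℝ} (hq0 : 0 < q0) (n : ℕ) {β : ℝ} (hβ : 0 < β) : pvndQ q0 n β ≠ 0 := by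
  unfold pvndQ
  rw [Ne, ENNReal.ofReal_eq_zero, not_le]
  positivity

theorem pvnd_Q_le_one {q0 : ℝ} (hq0 : 0 < q0) (hq1 : q0 ≤ 1) (n : ℕ) {β : ℝ} (hβ : 0 < β) (hβ1 : β ≤ 1) : pvndQ q0 n β ≤ 1 := by
  unfold pvndQ
  rw [← ENNReal.ofReal_one]
  refine ENNReal.ofReal_le_ofReal ?_
  have h1 : q0 ^ (15 * n) ≤ 1 := pow_le_one₀ hq0.le hq1
  have h0 : 0 < q0 ^ (15 * n) := by positivity
  have h2 : β ^ 2 ≤ 1 := pow_le_one₀ hβ.le hβ1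
  have h3 : (q0 ^ (15 * n) / 2) ^ 2 ≤ 1 := pow_le_one₀ (by positivity) (by linarith)
  have h4 : 0 ≤ β ^ 2 / 2 := by positivity
  nlinarith [sq_nonneg (q0 ^ (15 * n) / 2)]

section link

variable {Λ : PvnkLink}

theorem pvnd_Rd_eq (Λ : PvnkLink) : Λ.e.O ×ˢ univ ∪ Λ.e'.O ×ˢ univ ∪ Λ.Kx = Λ.Rd := by
  ext p
  simp only [PvnkLink.Kx, PvnkLink.Rd, mem_union, mem_prod, mem_univ, and_true, Set.mem_sdiff]
  tauto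

theorem pvnd_Kx_meas (he : Λ.e.Ok) (he' : Λ.e'.Ok) : MeasurableSet Λ.Kx :=
  ((((he.mE.union he'.mE).union (pvln_W_meas _ _)).union (pvln_W_meas _ _)).diff (he.mO.union he'.mO)).prod MeasurableSet.univ

/-- the bare event reads the two state regions and the exterior region -/
theorem pvnd_A₀_reads (he : Λ.e.Ok) (he' : Λ.e'.Ok) : Conf.ReadsSet (Λ.e.O ×ˢ univ ∪ Λ.e'.O ×ˢ univ ∪ Λ.Kx) Λ.A₀ := by
  rw [pvnd_Rd_eq]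
  exact pvnk_A₀_reads he he'

/-- the exterior region is off the two state regions -/
theorem pvnd_Kx_off (Λ : PvnkLink) : Disjoint (Λ.e.O ×ˢ univ ∪ Λ.e'.O ×ˢ (univ : Set Bool)) Λ.Kx := by
  rw [Set.disjoint_left]
  rintro p (hp | hp) hq
  · exact hq.1.2 (Or.inl hp.1)
  · exact hq.1.2 (Or.inr hp.1)

/-- **ONE LINK (which may depend on the mesh through its regions), EVENTUALLY IN THE MESH**: the bound of `PvsyCycForced.frc`.      The constant depends on `q0`, on a bound `n` of the lengths of the walks and on `β` only. -/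
theorem pvnd_link_frc {q0 : ℝ} (hq0 : 0 < q0) (hq1 : q0 ≤ 1) (hQ : PvlqQbx q0) {n : ℕ} {β δ₀ : ℝ} (hβ : 0 < β) {Λ : ℝ → PvnkLink} (H : ∀ᶠ ε in 𝓝[>] (0 : ℝ), (Λ ε).P16 ε δ₀ n)
    {G G' : ℝ → Set (Conf PvPt)}
    (hp : ∀ᶠ ε in 𝓝[>] (0 : ℝ), ∀ᵐ σ ∂(pvP ε), σ ∈ G ε → ENNReal.ofReal β ≤ pvtiP (pvP ε) ((Λ ε).e.O ×ˢ univ) (Λ ε).e.L σ)
    (hp' : ∀ᶠ ε in 𝓝[>] (0 : ℝ), ∀ᵐ σ ∂(pvP ε), σ ∈ G' ε → ENNReal.ofReal β ≤ pvtiP (pvP ε) ((Λ ε).e'.O ×ˢ univ) (Λ ε).e'.L σ) :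
    ∀ᶠ ε in 𝓝[>] (0 : ℝ), ∀ᵐ σ ∂(pvP ε), σ ∈ G ε → σ ∈ G' ε → pvndQ q0 n β ≤ pvtiP (pvP ε) (Λ ε).OO (Λ ε).A₀ σ := by
  obtain ⟨U, hU1, hU⟩ := pvnd_forced_ae hq0 hq1 hQ n hβ
  have hδ₀ : 0 < δ₀ := by
    obtain ⟨ε, hε⟩ := H.exists
    rw [← hε.δ_eq]
    exact hε.geo.δ_pos
  have hsmall : ∀ᶠ ε in 𝓝[>] (0 : ℝ), U * ε ≤ δ₀ := by
    have h1 : ∀ᶠ ε in 𝓝 (0 : ℝ), ε < δ₀ / U := gt_mem_nhds (div_pos hδ₀ (by linarith))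
    filter_upwards [nhdsWithin_le_nhds h1] with ε hε
    rw [lt_div_iff₀ (by linarith)] at hε
    linarith
  filter_upwards [hp, hp', H, hsmall, self_mem_nhdsWithin] with ε a1 a2 a3 a5 a6
  have key := hU ε a6 (Λ ε) a3.ok a3.ok' a3.geo (by rw [a3.δ_eq]; exact a5) a3.n₁ a3.n₂ (a3.up _ _ a3.geo.djK a3.rooms.a₁ a3.rooms.a₂) (a3.up' _ _ a3.geo.djK a3.rooms.a₁' a3.rooms.a₂')
  filter_upwards [key, a1, a2] with σ k1 k2 k3 g1 g2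
  exact k1 (k2 g1) (k3 g2)

/-- **THE A.E. DICTIONARY OF THE EVENT OF RECORD** (`pvpgFix` of 34): eventually in the mesh the event forced by construction is a.e. the bare event `L⁺ ∩ L⁻ ∩ Net` -/
theorem pvnd_link_ae {q0 : ℝ} (hq0 : 0 < q0) (hq1 : q0 ≤ 1) (hQ : PvlqQbx q0) {n : ℕ} {β δ₀ : ℝ} (hβ : 0 < β) {Λ : ℝ → PvnkLink} (H : ∀ᶠ ε in 𝓝[>] (0 : ℝ), (Λ ε).P16 ε δ₀ n)
    {G G' : ℝ → Set (Conf PvPt)}
    (hp : ∀ᶠ ε in 𝓝[>] (0 : ℝ), ∀ᵐ σ ∂(pvP ε), σ ∈ G ε → ENNReal.ofReal β ≤ pvtiP (pvP ε) ((Λ ε).e.O ×ˢ univ) (Λ ε).e.L σ)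
    (hp' : ∀ᶠ ε in 𝓝[>] (0 : ℝ), ∀ᵐ σ ∂(pvP ε), σ ∈ G' ε → ENNReal.ofReal β ≤ pvtiP (pvP ε) ((Λ ε).e'.O ×ˢ univ) (Λ ε).e'.L σ)
    {q : ℝ≥0∞} (hq : q ≤ pvndQ q0 n β) :
    ∀ᶠ ε in 𝓝[>] (0 : ℝ), ∀ᵐ η ∂(pvP ε), η ∈ (Λ ε).A ε q (G ε) (G' ε) → η ∈ (Λ ε).A₀ := by
  filter_upwards [pvnd_link_frc hq0 hq1 hQ hβ H hp hp'] with ε h1
  refine pvpg_fix_ae ?_
  filter_upwards [h1] with σ h2 h3
  exact hq.trans (h2 h3.1 h3.2)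

end link

/-! ## 4. the ends -/

section bigends

variable {N : PvspNum} {t : PvspTy} {z : ℂ} {h : ℝ}

/-- the exit end of a big plug is up in every admissible mixed order (68) -/
theorem pvnd_P_upOk (hW : t.Wf N z h) {ε : ℝ} (hε : 0 < ε) : (pvfvEndP N t z h).UpOk ε := fun K₁ K₂ hd h1 h2 =>
  pvfv_endP_up_ae hW hd ((self_subset_cthickening _).trans h1) ((pvsp_Mp_sub_reg t N z h).trans ((self_subset_cthickening _).trans h2)) hε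

/-- the entrance end of a big plug is up in every admissible mixed order (68) -/
theorem pvnd_M_upOk (hW : t.Wf N z h) {ε : ℝ} (hε : 0 < ε) : (pvfvEndM N t z h).UpOk ε := fun K₁ K₂ hd h1 h2 =>
  pvfv_endM_up_ae hW hd ((self_subset_cthickening _).trans h1) ((pvsp_Mm_sub_reg t N z h).trans ((self_subset_cthickening _).trans h2)) hε

/-- the propensities of a usable state, in the form of `Tr/Ind` -/
theorem pvnd_G_prop (hW : t.Wf N z h) (ε : ℝ) {σ : Conf PvPt} (hσ : σ ∈ pvspG N ε t z h) :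
    ENNReal.ofReal N.β ≤ pvtiP (pvP ε) (pvspO N t z h ×ˢ univ) (pvspLp N t z h) σ ∧ ENNReal.ofReal N.β ≤ pvtiP (pvP ε) (pvspO N t z h ×ˢ univ) (pvspLm N t z h) σ := by
  have mO : MeasurableSet (pvspO N t z h) := measurableSet_closedBall
  rw [← pvsp_prop_ti ε mO (pvsp_Lp_meas hW), ← pvsp_prop_ti ε mO (pvsp_Lm_meas hW)]
  exact hσ.2

end bigends

/-! ## 5. P16 at the term of record -/

section term

variable {τ : Type} {cc : ℝ}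

/-- **WHAT THE KIT ENDS OWE FOR P16 AT THE LEVEL `m`** (producers 174 204 52): up-ness in every admissible mixed order, propensity of the joint side event at the usable states; the funnel `r` of the reference frame -/
structure PvndKitUp (𝔤 : PvydGeo τ) (𝔓 : PvrxPar τ cc) (m : ℕ) (βk βu : ℝ) (n : ℕ) : Prop where
  βk0 : 0 < βk
  βu0 : 0 < βu
  en_up : ∀ (c σ : Bool) (z d : ℂ), d ^ 4 = 1 → ∀ᶠ ε in 𝓝[>] (0 : ℝ), (𝔤.eD c m ε σ z d).UpOk ε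
  en_prop : ∀ (c σ : Bool) (z d : ℂ), d ^ 4 = 1 → ∀ᶠ ε in 𝓝[>] (0 : ℝ), ∀ᵐ ξ ∂(pvP ε), ξ ∈ (pvydKit (𝔤.kit m ε) c).G z d →
    ENNReal.ofReal βk ≤ pvtiP (pvP ε) ((𝔤.eD c m ε σ z d).O ×ˢ univ) (𝔤.eD c m ε σ z d).L ξ
  eu_up : ∀ (c σ : Bool) (w : ℂ), ∀ᶠ ε in 𝓝[>] (0 : ℝ), (𝔤.eU c m σ w).UpOk ε
  eu_prop : ∀ (c σ : Bool) (w : ℂ), ∀ᶠ ε in 𝓝[>] (0 : ℝ), ∀ᵐ ξ ∂(pvP ε), ξ ∈ Conf.image (pvydE c w).toEquiv.symm ⁻¹' 𝔤.Gu m ε →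
    ENNReal.ofReal βu ≤ pvtiP (pvP ε) ((𝔤.eU c m σ w).O ×ˢ univ) (𝔤.eU c m σ w).L ξ
  /-- the reference frame -/
  d40 : (𝔓.Γ m).din0 ^ 4 = 1
  r_prop : ∀ᶠ ε in 𝓝[>] (0 : ℝ), ∀ᵐ ξ ∂(pvP ε), ξ ∈ (𝔤.kit m ε).G (𝔓.Γ m).pin0 (𝔓.Γ m).din0 →
    ENNReal.ofReal βk ≤ pvtiP (pvP ε) ((𝔤.lr 𝔓 m ε).e.O ×ˢ univ) (𝔤.lr 𝔓 m ε).e.L ξ
  r_prop' : ∀ᶠ ε in 𝓝[>] (0 : ℝ), ∀ᵐ ξ ∂(pvP ε), ξ ∈ 𝔤.Gu m ε → ENNReal.ofReal βu ≤ pvtiP (pvP ε) ((𝔤.lr 𝔓 m ε).e'.O ×ˢ univ) (𝔤.lr 𝔓 m ε).e'.L ξ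
  r_rooms : ∀ᶠ ε in 𝓝[>] (0 : ℝ), (𝔤.lr 𝔓 m ε).Rooms
  r_len : (𝔤.wr m).L₁.length ≤ n ∧ (𝔤.wr m).L₂.length ≤ n
  /-- the window of the corridor and its guard (`Tr/ForceM`) -/
  r_off : ∀ᶠ ε in 𝓝[>] (0 : ℝ), PvnhOff (𝔤.lr 𝔓 m ε) (𝔤.wr m).Et (𝔤.wr m).M
  r_lim : Tendsto (fun ε : ℝ => pvP ε ((𝔤.wr m).M)ᶜ) (𝓝[>] 0) (𝓝 0)

/-- **WHAT THE GEOMETRY OWES FOR P16 AT THE CANDIDATE `(z,t)`**, besides `CandOk` of 58 (producers 164 114 205): the thickened rooms lie in the zones of the mixed order; lengths (`n` may depend on the level, `nu` is a NUMBER OF THE MENU) -/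
structure PvndCand (𝔤 : PvydGeo τ) (𝔓 : PvrxPar τ cc) (n nu : ℕ) (m : ℕ) (z : ℂ) (t : τ) : Prop where
  o_rooms : ∀ᶠ ε in 𝓝[>] (0 : ℝ), (𝔤.lo 𝔓 (𝔓.ty m z t).col m ε z t).Rooms
  i_rooms : ∀ᶠ ε in 𝓝[>] (0 : ℝ), (𝔤.li 𝔓 (𝔓.ty m z t).col m ε z t).Rooms
  e_rooms : (𝔤.le 𝔓 (𝔓.ty m z t).col m z t).Rooms
  b_rooms : (𝔤.lb 𝔓 (𝔓.ty m z t).col m z t).Rooms
  o_len : (𝔤.wo m z t).L₁.length ≤ n ∧ (𝔤.wo m z t).L₂.length ≤ n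
  i_len : (𝔤.wi m z t).L₁.length ≤ n ∧ (𝔤.wi m z t).L₂.length ≤ n
  e_len : (𝔤.we m z t).L₁.length ≤ nu ∧ (𝔤.we m z t).L₂.length ≤ nu
  b_len : (𝔤.wb m z t).L₁.length ≤ nu ∧ (𝔤.wb m z t).L₂.length ≤ nu
  /-- the windows of the corridors and their guards (`Tr/ForceM`): off the two state regions, colour blind, failing with probability `o(1)` -/
  o_off : ∀ᶠ ε in 𝓝[>] (0 : ℝ), PvnhOff (𝔤.lo 𝔓 (𝔓.ty m z t).col m ε z t) (𝔤.wo m z t).Et (𝔤.wo m z t).M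
  i_off : ∀ᶠ ε in 𝓝[>] (0 : ℝ), PvnhOff (𝔤.li 𝔓 (𝔓.ty m z t).col m ε z t) (𝔤.wi m z t).Et (𝔤.wi m z t).M
  e_off : PvnhOff (𝔤.le 𝔓 (𝔓.ty m z t).col m z t) (𝔤.we m z t).Et (𝔤.we m z t).M
  b_off : PvnhOff (𝔤.lb 𝔓 (𝔓.ty m z t).col m z t) (𝔤.wb m z t).Et (𝔤.wb m z t).M
  o_lim : Tendsto (fun ε : ℝ => pvP ε ((𝔤.wo m z t).M)ᶜ) (𝓝[>] 0) (𝓝 0)
  i_lim : Tendsto (fun ε : ℝ => pvP ε ((𝔤.wi m z t).M)ᶜ) (𝓝[>] 0) (𝓝 0)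
  e_lim : Tendsto (fun ε : ℝ => pvP ε ((𝔤.we m z t).M)ᶜ) (𝓝[>] 0) (𝓝 0)
  b_lim : Tendsto (fun ε : ℝ => pvP ε ((𝔤.wb m z t).M)ᶜ) (𝓝[>] 0) (𝓝 0)

variable {𝔤 : PvydGeo τ} {𝔓 : PvrxPar τ cc} {m n nu : ℕ} {βk βu q0 : ℝ} {β' qk : ℝ≥0∞} {z : ℂ} {t : τ}

/-- propensities of the big plug, weakened -/
theorem pvnd_big_p (hW : 𝔓.Wf) {β : ℝ} (hβ : β ≤ 𝔓.mod.N.β) (m : ℕ) (z : ℂ) (t : τ) :
    ∀ᶠ ε in 𝓝[>] (0 : ℝ), ∀ᵐ σ ∂(pvP ε), σ ∈ pvydG 𝔓 m ε z t → ENNReal.ofReal β ≤ pvtiP (pvP ε) ((pvydEP 𝔓 m z t).O ×ˢ univ) (pvydEP 𝔓 m z t).L σ :=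
  Eventually.of_forall fun ε => Eventually.of_forall fun σ hσ => (ENNReal.ofReal_le_ofReal hβ).trans (pvnd_G_prop (hW.ty_wf m z t) ε hσ).1

theorem pvnd_big_m (hW : 𝔓.Wf) {β : ℝ} (hβ : β ≤ 𝔓.mod.N.β) (m : ℕ) (z : ℂ) (t : τ) :
    ∀ᶠ ε in 𝓝[>] (0 : ℝ), ∀ᵐ σ ∂(pvP ε), σ ∈ pvydG 𝔓 m ε z t → ENNReal.ofReal β ≤ pvtiP (pvP ε) ((pvydEM 𝔓 m z t).O ×ˢ univ) (pvydEM 𝔓 m z t).L σ :=
  Eventually.of_forall fun ε => Eventually.of_forall fun σ hσ => (ENNReal.ofReal_le_ofReal hβ).trans (pvnd_G_prop (hW.ty_wf m z t) ε hσ).2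

/-- a threshold may be lowered -/
theorem pvnd_prop_le {G : ℝ → Set (Conf PvPt)} {O : ℝ → Set PvPt} {L : ℝ → Set (Conf PvPt)} {β β₁ : ℝ} (hβ : β₁ ≤ β)
    (h : ∀ᶠ ε in 𝓝[>] (0 : ℝ), ∀ᵐ σ ∂(pvP ε), σ ∈ G ε → ENNReal.ofReal β ≤ pvtiP (pvP ε) (O ε) (L ε) σ) :
    ∀ᶠ ε in 𝓝[>] (0 : ℝ), ∀ᵐ σ ∂(pvP ε), σ ∈ G ε → ENNReal.ofReal β₁ ≤ pvtiP (pvP ε) (O ε) (L ε) σ := by
  filter_upwards [h] with ε h1
  filter_upwards [h1] with σ h2 h3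
  exact (ENNReal.ofReal_le_ofReal hβ).trans (h2 h3)

/-- **the exit funnel** -/
theorem pvnd_o_ae (hq0 : 0 < q0) (hq1 : q0 ≤ 1) (hQ : PvlqQbx q0) (hW : 𝔓.Wf) (hβ : 0 < 𝔓.mod.N.β) (K : 𝔤.KitOk 𝔓 m β' qk) (C : 𝔤.CandOk 𝔓 m z t)
    (U : PvndKitUp 𝔤 𝔓 m βk βu n) (R : PvndCand 𝔤 𝔓 n nu m z t) (hq : 𝔤.qo m ≤ pvndQ q0 n (min 𝔓.mod.N.β βk)) :
    ∀ᶠ ε in 𝓝[>] (0 : ℝ), ∀ᵐ η ∂(pvP ε), η ∈ (pvydDat 𝔓 𝔤 (𝔓.ty m z t).col).Ao m ε z t → η ∈ pvnhA₀ (𝔤.lo 𝔓 (𝔓.ty m z t).col m ε z t) (𝔤.wo m z t).M := by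
  have H : ∀ᶠ ε in 𝓝[>] (0 : ℝ), PvnhP16 (𝔤.lo 𝔓 (𝔓.ty m z t).col m ε z t) (𝔤.wo m z t).Et (𝔤.wo m z t).M ε (𝔤.wo m z t).δ n := by
    filter_upwards [K.en_ok (𝔓.ty m z t).col false _ _ C.d4o, C.o_geo, R.o_rooms, U.en_up (𝔓.ty m z t).col false _ _ C.d4o, self_mem_nhdsWithin, R.o_off] with ε a1 a2 a3 a4 a5 a6
    exact ⟨pvfv_endP_ok (hW.ty_wf m z t), a1, a2, C.o_win, a6, rfl, R.o_len.1, R.o_len.2, pvnd_P_upOk (hW.ty_wf m z t) a5 _ _ a2.djK a3.a₁ a3.a₂, a4 _ _ a2.djK a3.a₁' a3.a₂'⟩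
  exact pvnh_link_ae (Et := fun _ => (𝔤.wo m z t).Et) (M := fun _ => (𝔤.wo m z t).M) hq0 hq1 hQ (lt_min hβ U.βk0) H R.o_lim (pvnd_big_p hW (min_le_left _ _) m z t)
    (pvnd_prop_le (min_le_right _ _) (U.en_prop (𝔓.ty m z t).col false _ _ C.d4o)) hq

/-- **the entrance funnel** -/
theorem pvnd_i_ae (hq0 : 0 < q0) (hq1 : q0 ≤ 1) (hQ : PvlqQbx q0) (hW : 𝔓.Wf) (hβ : 0 < 𝔓.mod.N.β) (K : 𝔤.KitOk 𝔓 m β' qk) (C : 𝔤.CandOk 𝔓 m z t)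
    (U : PvndKitUp 𝔤 𝔓 m βk βu n) (R : PvndCand 𝔤 𝔓 n nu m z t) (hq : 𝔤.qi m ≤ pvndQ q0 n (min 𝔓.mod.N.β βk)) :
    ∀ᶠ ε in 𝓝[>] (0 : ℝ), ∀ᵐ η ∂(pvP ε), η ∈ (pvydDat 𝔓 𝔤 (𝔓.ty m z t).col).Ai m ε z t → η ∈ pvnhA₀ (𝔤.li 𝔓 (𝔓.ty m z t).col m ε z t) (𝔤.wi m z t).M := by
  have H : ∀ᶠ ε in 𝓝[>] (0 : ℝ), PvnhP16 (𝔤.li 𝔓 (𝔓.ty m z t).col m ε z t) (𝔤.wi m z t).Et (𝔤.wi m z t).M ε (𝔤.wi m z t).δ n := by
    filter_upwards [K.en_ok (𝔓.ty m z t).col true _ _ C.d4i, C.i_geo, R.i_rooms, U.en_up (𝔓.ty m z t).col true _ _ C.d4i, self_mem_nhdsWithin, R.i_off] with ε a1 a2 a3 a4 a5 a6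
    exact ⟨a1, pvfv_endM_ok (hW.ty_wf m z t), a2, C.i_win, a6, rfl, R.i_len.1, R.i_len.2, a4 _ _ a2.djK a3.a₁ a3.a₂, pvnd_M_upOk (hW.ty_wf m z t) a5 _ _ a2.djK a3.a₁' a3.a₂'⟩
  exact pvnh_link_ae (Et := fun _ => (𝔤.wi m z t).Et) (M := fun _ => (𝔤.wi m z t).M) hq0 hq1 hQ (lt_min hβ U.βk0) H R.i_lim (pvnd_prop_le (min_le_right _ _) (U.en_prop (𝔓.ty m z t).col true _ _ C.d4i))
    (pvnd_big_m hW (min_le_left _ _) m z t) hq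

/-- **the thick link `u → t`** : `nu`, `βu` are numbers of the menu -/
theorem pvnd_e_ae (hq0 : 0 < q0) (hq1 : q0 ≤ 1) (hQ : PvlqQbx q0) (hW : 𝔓.Wf) (hβ : 0 < 𝔓.mod.N.β) (K : 𝔤.KitOk 𝔓 m β' qk) (C : 𝔤.CandOk 𝔓 m z t)
    (U : PvndKitUp 𝔤 𝔓 m βk βu n) (R : PvndCand 𝔤 𝔓 n nu m z t) (hq : 𝔤.qe ≤ pvndQ q0 nu (min 𝔓.mod.N.β βu)) :
    ∀ᶠ ε in 𝓝[>] (0 : ℝ), ∀ᵐ η ∂(pvP ε), η ∈ (pvydDat 𝔓 𝔤 (𝔓.ty m z t).col).Ae m ε z t → η ∈ pvnhA₀ (𝔤.le 𝔓 (𝔓.ty m z t).col m z t) (𝔤.we m z t).M := by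
  have H : ∀ᶠ ε in 𝓝[>] (0 : ℝ), PvnhP16 (𝔤.le 𝔓 (𝔓.ty m z t).col m z t) (𝔤.we m z t).Et (𝔤.we m z t).M ε (𝔤.we m z t).δ nu := by
    filter_upwards [U.eu_up (𝔓.ty m z t).col true (pvydWu 𝔓 m z t), self_mem_nhdsWithin] with ε a4 a5
    exact ⟨K.eu_ok _ _ _, pvfv_endM_ok (hW.ty_wf m z t), C.e_geo, C.e_win, R.e_off, rfl, R.e_len.1, R.e_len.2, a4 _ _ C.e_geo.djK R.e_rooms.a₁ R.e_rooms.a₂,
      pvnd_M_upOk (hW.ty_wf m z t) a5 _ _ C.e_geo.djK R.e_rooms.a₁' R.e_rooms.a₂'⟩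
  exact pvnh_link_ae (Λ := fun _ => 𝔤.le 𝔓 (𝔓.ty m z t).col m z t) (Et := fun _ => (𝔤.we m z t).Et) (M := fun _ => (𝔤.we m z t).M) hq0 hq1 hQ (lt_min hβ U.βu0) H R.e_lim
    (pvnd_prop_le (min_le_right _ _) (U.eu_prop (𝔓.ty m z t).col true (pvydWu 𝔓 m z t))) (pvnd_big_m hW (min_le_left _ _) m z t) hq

/-- **the thick return link `t → u`** -/
theorem pvnd_b_ae (hq0 : 0 < q0) (hq1 : q0 ≤ 1) (hQ : PvlqQbx q0) (hW : 𝔓.Wf) (hβ : 0 < 𝔓.mod.N.β) (K : 𝔤.KitOk 𝔓 m β' qk) (C : 𝔤.CandOk 𝔓 m z t)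
    (U : PvndKitUp 𝔤 𝔓 m βk βu n) (R : PvndCand 𝔤 𝔓 n nu m z t) (hq : 𝔤.qb ≤ pvndQ q0 nu (min 𝔓.mod.N.β βu)) :
    ∀ᶠ ε in 𝓝[>] (0 : ℝ), ∀ᵐ η ∂(pvP ε), η ∈ (pvydDat 𝔓 𝔤 (𝔓.ty m z t).col).Ab m ε z t → η ∈ pvnhA₀ (𝔤.lb 𝔓 (𝔓.ty m z t).col m z t) (𝔤.wb m z t).M := by
  have H : ∀ᶠ ε in 𝓝[>] (0 : ℝ), PvnhP16 (𝔤.lb 𝔓 (𝔓.ty m z t).col m z t) (𝔤.wb m z t).Et (𝔤.wb m z t).M ε (𝔤.wb m z t).δ nu := by
    filter_upwards [U.eu_up (𝔓.ty m z t).col false (pvydWu 𝔓 m z t), self_mem_nhdsWithin] with ε a4 a5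
    exact ⟨pvfv_endP_ok (hW.ty_wf m z t), K.eu_ok _ _ _, C.b_geo, C.b_win, R.b_off, rfl, R.b_len.1, R.b_len.2, pvnd_P_upOk (hW.ty_wf m z t) a5 _ _ C.b_geo.djK R.b_rooms.a₁ R.b_rooms.a₂,
      a4 _ _ C.b_geo.djK R.b_rooms.a₁' R.b_rooms.a₂'⟩
  exact pvnh_link_ae (Λ := fun _ => 𝔤.lb 𝔓 (𝔓.ty m z t).col m z t) (Et := fun _ => (𝔤.wb m z t).Et) (M := fun _ => (𝔤.wb m z t).M) hq0 hq1 hQ (lt_min hβ U.βu0) H R.b_lim (pvnd_big_p hW (min_le_left _ _) m z t)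
    (pvnd_prop_le (min_le_right _ _) (U.eu_prop (𝔓.ty m z t).col false (pvydWu 𝔓 m z t))) hq

/-- **the entrance funnel of the reference plug**, reference frame -/
theorem pvnd_r_ae (hq0 : 0 < q0) (hq1 : q0 ≤ 1) (hQ : PvlqQbx q0) (K : 𝔤.KitOk 𝔓 m β' qk) (U : PvndKitUp 𝔤 𝔓 m βk βu n) (hq : 𝔤.qr m ≤ pvndQ q0 n (min βk βu)) :
    ∀ᶠ ε in 𝓝[>] (0 : ℝ), ∀ᵐ η ∂(pvP ε), η ∈ 𝔤.Ar₀ 𝔓 m ε → η ∈ pvnhA₀ (𝔤.lr 𝔓 m ε) (𝔤.wr m).M := by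
  have H : ∀ᶠ ε in 𝓝[>] (0 : ℝ), PvnhP16 (𝔤.lr 𝔓 m ε) (𝔤.wr m).Et (𝔤.wr m).M ε (𝔤.wr m).δ n := by
    filter_upwards [K.en_ok true true _ _ U.d40, K.r_geo, U.r_rooms, U.en_up true true _ _ U.d40, U.eu_up true false 0, U.r_off] with ε a1 a2 a3 a4 a5 a6
    exact ⟨a1, K.eu_ok _ _ _, a2, K.r_win, a6, rfl, U.r_len.1, U.r_len.2, a4 _ _ a2.djK a3.a₁ a3.a₂, a5 _ _ a2.djK a3.a₁' a3.a₂'⟩
  exact pvnh_link_ae (Et := fun _ => (𝔤.wr m).Et) (M := fun _ => (𝔤.wr m).M) hq0 hq1 hQ (lt_min U.βk0 U.βu0) H U.r_lim (pvnd_prop_le (min_le_left _ _) U.r_prop) (pvnd_prop_le (min_le_right _ _) U.r_prop') hq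

end term

end Claimed.Agent.R289
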