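-- KEEP
import Claimed.Agent.R289.Tr.GateN
import Claimed.Agent.R289.Tr.ArcC

/-!
# Row 289 (S0537, Cardy for Poisson-Voronoi), THE WALL, ROAD P, file Tr/CloseN : THE MAP LEVEL OF THE FIELD `close` OF P17 (TR13 CLOSE + TR12 UNIQ) FOR THE FREE ARC OF `Tr/ArcP`      (author helper260; prefix `pvnc_`, `Pvnc`)

Consumers: 59 (`Tr/N1SysP`, `Tr/N1SysA`: `PvraCl`), 212 (`Tr/ArcP`: `PvazDat.Is`), 147 (white lane), 95 (`Tr/CloseM`: masks on `PvgzRing`).      Text: `origin/helper6:notes/R289/W2c_6.md` v2 (TR13 SIDE, REGION, SHIELD).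
Data: `gs gt` = the second gates of the two states, `Is It` = their inner paths, `p` = the free arc from `Is.v ip` (`= v₁⁺(s)`) to `It.v im` (`= v₁⁻(t)`), black, `N_p` with anchor `Is.rap (ip - 1)` or the layer `Λ`.
* sec. 1  SIDE, SHIELD, `GFaced` with a WITNESS DART `e` in place of the complementary path `R` of `Tr/Arc` (no path `R`, no `g.Glue R`): `pvnc_side`, `pvnc_shield`, `pvnc_gfaced_q`.
* sec. 2  the lane as a simple path from a white `Join`: `pvnc_lane`.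
* sec. 3  **`pvnc_gfaced`**: states + `B_p` + `N_p` + lane hooked ANYWHERE on the two right arcs + ZONE/REGION + `p` avoids `Is[0,ip)`   ⟹   `p.GFaced s (Is.rap (ip - 1))`;   **`pvnc_uniq`** (TR12): at most one free arc is present.
* sec. 4  **`pvnc_split`**: a faced free arc IS `Is[ip,n] · y · It[0,im]`, `y` = a link from `gs⁺` to `gt⁻` outside the two gates.
* sec. 5  `PvncChain` (chain of gates and links from `gt` to `gs`, not closed), `PvncFree` (the arc against the chain), **`pvnc_ring`**: chain + faced free arc ⟹ `PvgzRing (n + 1)`;   **`pvnc_close`**: the rim, its darts, its sums.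
* sec. 6  CONSUMER FORMS: `pvnc_region` (REGION from a vertex of the last link and a zone given by marks), **`pvnc_main`** (the chain as given; ring, rim, sums), `pvnc_av_of_pre` (clauses `pre suf off` ⟹ `avs avt`).
* sec. 7  TR14: `pvnc_psum_p` (sums along a faced free arc), **`pvnc_mass`** (algebra: total weight against the weights of the connectors and the two weights of `X_g`, compared on the tags of the pieces), **`pvnc_total`** = CLOSE + TR14.
All proved, no sorry.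
-/

set_option autoImplicit false
set_option linter.unusedVariables false

namespace Claimed.Agent.R289

open Relation

variable {V D : Type} {T : PvMap V D} {s : V → Bool}

/-! ## 1. SIDE, SHIELD with a witness dart -/

/-- **SIDE, witness form**: `Z = g ∪ q`, `e` a dart which ends at the first vertex of `g`, its right apex is the last inner vertex of `q`, its source is off `Z`: the source lies strictly on the left of `Z` -/
theorem pvnc_side (hT : T.IsSph) (hS : T.Simple) (g q : T.Pth) (hgq : g.Glue q) (hq2 : 2 ≤ q.n) {e : D} (he : T.tgt e = g.v 0)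
    (hanc : q.v (q.n - 1) = T.apex (T.opp e)) (hb : T.src e ∉ (g.glue q hgq).verts) : T.src e ∈ T.Int (g.glue q hgq).Left := by
  obtain ⟨-, hL, -, -⟩ := pl_jordan hT (g.glue q hgq)
  have hF := pl_left_face (g.glue q hgq)
  have e1 : q.e (q.n - 1) = T.nxt (T.nxt (T.opp e)) := by
    apply hS
    · rw [q.src_e _ (by omega), hanc, T.src_nxt2]
    · rw [q.tgt_e _ (by omega), T.tgt_nxt2, T.src_opp', show q.n - 1 + 1 = q.n by omega, hgq.h2, he]
  have e2 : T.nxt (T.nxt (T.opp e)) ∈ (g.glue q hgq).Left := by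
    rw [← e1, ← pl_pth_glue_e2 g q hgq (show q.n - 1 < q.n by omega)]
    exact hL _
  have e3 : T.nxt (T.opp e) ∈ (g.glue q hgq).Left := (hF _).1 e2
  have e4 : T.src (T.nxt (T.opp e)) = T.src e := by rw [T.src_nxt, T.tgt_opp]
  have h1 : T.src e ∈ T.VOf (g.glue q hgq).Left := ⟨_, e3, e4⟩
  rw [pl_VOf_left hT] at h1
  exact h1.resolve_left hb

/-- **SHIELD, witness form** -/
theorem pvnc_shield (hT : T.IsSph) (hS : T.Simple) (g q : T.Pth) (hgq : g.Glue q) (hq2 : 2 ≤ q.n)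
    (hg : pvtaB g s) (hq : ∀ i, 0 < i → i < q.n → s (q.v i) = false) {e : D} (he : T.tgt e = g.v 0)
    (hanc : q.v (q.n - 1) = T.apex (T.opp e)) (hb : T.src e ∉ (g.glue q hgq).verts)
    {k : ℕ} (hk : k < g.n) {a : V} (ha : ReflTransGen (fun u v => T.Adj u v ∧ v ∉ (g.glue q hgq).verts) (T.src e) a)
    (hj : T.Join Set.univ {v | s v = false} (g.rap k) a) :
    ∃ j, 0 < j ∧ j < q.n ∧ T.Mono s (g.rap k) (q.v j) := by
  obtain ⟨hRL, -, hO, -⟩ := pl_jordan hT (g.glue q hgq)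
  obtain ⟨-, -, hdis⟩ := pl_jordan_vert_disj hT (g.glue q hgq)
  have haL : a ∈ T.Int (g.glue q hgq).Left := pl_jordan_sep hT _ (pvnc_side hT hS g q hgq hq2 he hanc hb) ha
  have hoffR : ∀ c, c ∉ (g.glue q hgq).verts → ∀ d, T.src d = c → ¬ T.Bd (g.glue q hgq).Right d :=
    fun c hc d hd hb => pl_cyc_off _ (hd ▸ hc) (pl_right_bd_sub _ hb)
  have hx0 : s (g.rap k) = false := hj.1
  have key : ∀ b, ReflTransGen (fun u v => T.EdgeIn Set.univ u v ∧ v ∈ {v | s v = false}) (g.rap k) b →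
      (∃ j, 0 < j ∧ j < q.n ∧ T.Mono s (g.rap k) (q.v j)) ∨ (T.Mono s (g.rap k) b ∧ s b = false ∧ b ∈ T.Int (g.glue q hgq).Right) := by
    intro b hb
    induction hb with
    | refl =>
      rcases pl_jordan_vert hT (g.glue q hgq) (g.rap k) with h1 | h1 | h1
      · obtain ⟨j, j0, j1, e⟩ := pvta_white_on g q hgq hg h1 hx0
        exact Or.inl ⟨j, j0, j1, e ▸ ReflTransGen.refl⟩
      · exfalso
        have h2 : T.opp (g.e k) ∈ (g.glue q hgq).Right := by
          rw [← pl_pth_glue_e1 g q hgq hk]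
          exact hO k
        have h3 : T.nxt (T.nxt (T.opp (g.e k))) ∈ (g.glue q hgq).Right := ((pl_right_face _).nxt2 T _).2 h2
        have h4 := h1 (T.nxt (T.nxt (T.opp (g.e k)))) rfl
        rw [hRL] at h3
        exact h3 h4
      · exact Or.inr ⟨ReflTransGen.refl, hx0, h1⟩
    | @tail b c _ hbc ih =>
      rcases ih with ih | ⟨m1, m2, m3⟩
      · exact Or.inl ih
      · obtain ⟨⟨d, -, hd1, hd2⟩, hc⟩ := hbc
        have hc' : s c = false := hc
        have hadj : T.Adj b c := ⟨d, hd1, hd2⟩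
        have hm : T.Mono s (g.rap k) c := m1.tail ⟨hadj, m2.trans hc'.symm⟩
        by_cases hcZ : c ∈ (g.glue q hgq).verts
        · obtain ⟨j, j0, j1, e⟩ := pvta_white_on g q hgq hg hcZ hc'
          exact Or.inl ⟨j, j0, j1, e ▸ hm⟩
        · exact Or.inr ⟨hm, hc', pl_int_adj hT (pl_right_face _) m3 hadj (hoffR c hcZ)⟩
  rcases key a hj.2 with h1 | ⟨-, -, h1⟩
  · exact h1
  · exact absurd h1 (Set.disjoint_left.1 hdis haL)

/-- **`B_g`, `N_g`, lane `q`, REGION (witness form) ⟹ `g` is globally faced**;   the anchors `𝔄` of `N_g` are any vertices of the white cluster of the lane -/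
theorem pvnc_gfaced_q (hT : T.IsSph) (hS : T.Simple) (g q : T.Pth) (hgq : g.Glue q) (hq2 : 2 ≤ q.n)
    (hg : pvtaB g s) (hq : ∀ i, 0 < i → i < q.n → s (q.v i) = false) {e : D} (he : T.tgt e = g.v 0)
    (hanc : q.v (q.n - 1) = T.apex (T.opp e)) (hb : T.src e ∉ (g.glue q hgq).verts) (U 𝔄 Λ : Set V) (h𝔄 : ∀ a ∈ 𝔄, T.Mono s a (q.v (q.n - 1)))
    (hΛ : ∀ a ∈ Λ, a ∉ (g.glue q hgq).verts → ReflTransGen (fun u v => T.Adj u v ∧ v ∉ (g.glue q hgq).verts) (T.src e) a)
    (hN : pvtaN g s U (𝔄 ∪ Λ)) : g.GFaced s (q.v (q.n - 1)) := by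
  have hρ : s (q.v (q.n - 1)) = false := hq _ (by omega) (by omega)
  refine ⟨fun i hi => by rw [hg i hi, hρ]; exact Bool.noConfusion, fun k hk => ?_⟩
  obtain ⟨a, ha, hj⟩ := hN k hk
  have hj' : T.Join Set.univ {v | s v = false} (g.rap k) a := pvta_join_mono (fun v hv => hv.2.2) hj
  have haw : s a = false := by
    have h1 := pvt_c_mono_col (pvt_c_join_mono hj')
    rw [← h1]
    exact hj'.1
  rcases ha with ha | ha
  · exact (pvt_c_join_mono hj').trans (h𝔄 a ha)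
  · by_cases haZ : a ∈ (g.glue q hgq).verts
    · obtain ⟨j, j0, j1, e⟩ := pvta_white_on g q hgq hg haZ haw
      rw [e] at hj'
      exact (pvt_c_join_mono hj').trans (pvtac_inner_mono q hq j0 j1)
    · obtain ⟨j, j0, j1, hm⟩ := pvnc_shield hT hS g q hgq hq2 hg hq he hanc hb hk (hΛ a ha haZ) hj'
      exact hm.trans (pvtac_inner_mono q hq j0 j1)

/-! ## 2. the lane as a path -/

/-- **the lane**: a white connection from a neighbour `w` of the last vertex of the black path `g` to a neighbour `ρ` of its first vertex closes `g` to a cycle `g ∪ q`, `q` simple, inner vertices in `X`, last inner vertex `ρ` -/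
theorem pvnc_lane (g : T.Pth) (hg : pvtaB g s) (hn : 0 < g.n) {X : Set V} (hX : ∀ v ∈ X, s v = false) {w ρ : V} (hw : T.Adj (g.v g.n) w) (hρ : T.Adj ρ (g.v 0))
    (hj : T.Join Set.univ X w ρ) :
    ∃ q : T.Pth, g.Glue q ∧ 2 ≤ q.n ∧ q.v (q.n - 1) = ρ ∧ ∀ i, 0 < i → i < q.n → q.v i ∈ X := by
  obtain ⟨d₁, a1, a2⟩ := hw
  obtain ⟨d₂, b1, b2⟩ := hρ
  have : Nonempty D := ⟨d₁⟩
  obtain ⟨r, r0, r1, rX, -⟩ := pl_pth_of_join hj
  have rw' : ∀ i, i ≤ r.n → s (r.v i) = false := fun i hi => hX _ (rX ⟨i, hi, rfl⟩)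
  have hne : g.v g.n ≠ g.v 0 := fun h => by
    have := g.inj _ _ le_rfl (Nat.zero_le _) h
    omega
  have hbl : ∀ i j, i ≤ g.n → j ≤ r.n → g.v i ≠ r.v j := fun i j hi hj h => by
    have h1 := hg i hi
    rw [h, rw' j hj] at h1
    exact Bool.noConfusion h1
  let q : T.Pth :=
    { n := r.n + 2
      v := fun k => if k = 0 then g.v g.n else if k ≤ r.n + 1 then r.v (k - 1) else g.v 0
      e := fun k => if k = 0 then d₁ else if k ≤ r.n then r.e (k - 1) else d₂
      src_e := by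
        intro k hk
        by_cases h0 : k = 0
        · subst h0; simp [a1]
        · by_cases h1 : k ≤ r.n
          · rw [if_neg h0, if_pos h1, if_neg h0, if_pos (by omega), r.src_e _ (by omega)]
          · have e : k = r.n + 1 := by omega
            rw [if_neg h0, if_neg h1, if_neg h0, if_pos (by omega), b1, e, Nat.add_sub_cancel, r1]
      tgt_e := by
        intro k hk
        by_cases h0 : k = 0
        · subst h0
          rw [if_pos rfl, if_neg (by omega), if_pos (by omega), a2]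
          exact r0.symm
        · by_cases h1 : k ≤ r.n
          · rw [if_neg h0, if_pos h1, if_neg (by omega), if_pos (by omega), r.tgt_e _ (by omega)]
            congr 1
            omega
          · rw [if_neg h0, if_neg h1, if_neg (by omega), if_neg (by omega), b2]
      inj := by
        intro i j hi hj h
        by_cases i0 : i = 0
        · by_cases j0 : j = 0
          · omega
          · exfalso
            rw [if_pos i0, if_neg j0] at h
            by_cases j1 : j ≤ r.n + 1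
            · rw [if_pos j1] at h
              exact hbl _ _ le_rfl (by omega) h
            · rw [if_neg j1] at h
              exact hne h
        · rw [if_neg i0] at h
          by_cases i1 : i ≤ r.n + 1
          · rw [if_pos i1] at h
            by_cases j0 : j = 0
            · exfalso
              rw [if_pos j0] at h
              exact hbl _ _ le_rfl (by omega) h.symm
            · rw [if_neg j0] at h
              by_cases j1 : j ≤ r.n + 1
              · rw [if_pos j1] at h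
                have := r.inj _ _ (by omega) (by omega) h
                omega
              · exfalso
                rw [if_neg j1] at h
                exact hbl _ _ (Nat.zero_le _) (by omega) h.symm
          · rw [if_neg i1] at h
            by_cases j0 : j = 0
            · exfalso
              rw [if_pos j0] at h
              exact hne h.symm
            · rw [if_neg j0] at h
              by_cases j1 : j ≤ r.n + 1
              · exfalso
                rw [if_pos j1] at h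
                exact hbl _ _ (Nat.zero_le _) (by omega) h
              · omega }
  have qn : q.n = r.n + 2 := rfl
  have qv : ∀ k, q.v k = if k = 0 then g.v g.n else if k ≤ r.n + 1 then r.v (k - 1) else g.v 0 := fun k => rfl
  have qin : ∀ i, 0 < i → i < q.n → q.v i = r.v (i - 1) := fun i h0 h1 => by
    rw [qv, if_neg (by omega), if_pos (by omega)]
  refine ⟨q, ⟨?_, ?_, by omega, ?_⟩, by omega, ?_, ?_⟩
  · rw [qv, if_pos rfl]
  · rw [qv, qn, if_neg (by omega), if_neg (by omega)]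
  · intro i j hi hj h
    by_cases j0 : j = 0
    · left
      rw [qv, if_pos j0] at h
      exact ⟨g.inj _ _ hi le_rfl h, j0⟩
    · by_cases j1 : j < q.n
      · exfalso
        rw [qin j (by omega) j1] at h
        exact hbl _ _ hi (by omega) h
      · right
        have e : j = q.n := by omega
        rw [qv, if_neg j0, if_neg (by omega)] at h
        exact ⟨g.inj _ _ hi (Nat.zero_le _) h, e⟩
  · rw [qin _ (by omega) (by omega), qn, show r.n + 2 - 1 - 1 = r.n by omega, r1]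
  · intro i h0 h1
    rw [qin i h0 h1]
    exact rX ⟨i - 1, by omega, rfl⟩

/-! ## 3. the free arc between two states is globally faced -/

/-- a join inside a face set, as a join in the whole map through the vertices of the face set -/
theorem pvnc_join_in {A : Set D} (hA : T.FaceSet A) {r : Bool} {a b : V} (ha : a ∈ T.VOf A) (h : T.Join A {v | s v = r} a b) :
    T.Join Set.univ {v | s v = r ∧ v ∈ T.VOf A} a b :=
  pl_hx_join_mono (Set.subset_univ _) Set.Subset.rfl (pvgz_join_congr hA (X' := {v | s v = r ∧ v ∈ T.VOf A}) (fun v hv h => ⟨h, hv⟩) ha h)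

/-- the right apexes of an inner path are white vertices of the closed inside, joined there to every vertex of the right arc -/
theorem pvnc_inn_rap (hT : T.IsSph) (g : T.Gate s) {p : T.Pth} (h : g.IsInn p) {i : ℕ} (hi : i < p.n) {r : V} (hr : r ∈ g.R) :
    T.Join Set.univ {v | s v = false ∧ v ∈ T.VOf g.c.Left} (p.rap i) r := by
  have hF := pl_left_face g.c
  obtain ⟨h1, h2⟩ := h.2.2 i hi
  have hw : s (T.tgt g.aIn) = false := pvtg_R_white g (pvtg_aIn_tgt_R g)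
  rw [hw] at h2
  have ha : p.rap i ∈ T.VOf g.c.Left := ⟨T.nxt (T.nxt (T.opp (p.e i))), (hF.nxt2 T _).2 h1, rfl⟩
  exact pvnc_join_in hF ha (pl_hx_join_trans h2 (pvgz_rib hT g (pvtg_aIn_tgt_R g) hr))

/-- walking along a path off a set -/
theorem pvnc_walk_down (p : T.Pth) {Z : Set V} {i : ℕ} (hi : i ≤ p.n) (hZ : ∀ k, k < i → p.v k ∉ Z) : ReflTransGen (fun u v => T.Adj u v ∧ v ∉ Z) (p.v i) (p.v 0) := by
  induction i with
  | zero => exact ReflTransGen.refl
  | succ i ih =>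
    refine ReflTransGen.head ⟨⟨T.opp (p.e i), ?_, ?_⟩, hZ i (by omega)⟩ (ih (by omega) fun k hk => hZ k (by omega))
    · rw [T.src_opp', p.tgt_e i (by omega)]
    · rw [T.tgt_opp, p.src_e i (by omega)]

/-- **TR13a AT TWO STATES**: `gs gt` the second gates, `Is It` their inner paths, `p` black from `Is.v ip` to `It.v im`, off `Is[0,ip)`;   LANE: a white join `X` between the two right arcs;   ZONE `Fb ⊇ p ∪ X ∪` the two closed insides;
REGION: every vertex of the layer `Λ` is joined to `gs⁻` off the zone;   `N_p` with anchor `Is.rap (ip - 1)` or `Λ`.   Then `p` is globally faced. -/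
theorem pvnc_gfaced (hT : T.IsSph) (hS : T.Simple) (gs gt : T.Gate s) {Is It p : T.Pth} (hs : gs.IsInn Is) (ht : gt.IsInn It) {ip im : ℕ}
    (hip0 : 0 < ip) (hip : ip ≤ Is.n) (him : im < It.n) (p0 : p.v 0 = Is.v ip) (p1 : p.v p.n = It.v im) (hB : pvtaB p s)
    (avs : ∀ k, k ≤ p.n → ∀ i, i < ip → p.v k ≠ Is.v i) (hdis : Disjoint (T.VOf gs.c.Left) (T.VOf gt.c.Left))
    {X : Set V} (hX : ∀ v ∈ X, s v = false) {r r' : V} (hr : r ∈ gs.R) (hr' : r' ∈ gt.R) (hlane : T.Join Set.univ X r' r)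
    {Fb : Set V} (hpF : p.verts ⊆ Fb) (hXF : X ⊆ Fb) (hsF : T.VOf gs.c.Left ⊆ Fb) (htF : T.VOf gt.c.Left ⊆ Fb)
    {U Λ : Set V} (hΛ : ∀ a ∈ Λ, ReflTransGen (fun u v => T.Adj u v ∧ v ∉ Fb) gs.vm a)
    (hN : pvtaN p s U ({Is.rap (ip - 1)} ∪ Λ)) : p.GFaced s (Is.rap (ip - 1)) := by
  obtain ⟨Xt, hXt⟩ : ∃ Xt : Set V, Xt = X ∪ {v | s v = false ∧ v ∈ T.VOf gs.c.Left} ∪ {v | s v = false ∧ v ∈ T.VOf gt.c.Left} := ⟨_, rfl⟩
  have hXtw : ∀ v ∈ Xt, s v = false := by
    intro v hv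
    rw [hXt] at hv
    rcases hv with (hv | hv) | hv
    · exact hX v hv
    · exact hv.1
    · exact hv.1
  have hXtF : Xt ⊆ Fb := by
    intro v hv
    rw [hXt] at hv
    rcases hv with (hv | hv) | hv
    · exact hXF hv
    · exact hsF hv.2
    · exact htF hv.2
  have hpn : 0 < p.n := by
    rcases Nat.eq_zero_or_pos p.n with h | h
    · exfalso
      rw [h, p0] at p1
      exact Set.disjoint_left.1 hdis (pvgz_psg_mem hT gs hs.1 hip) (p1 ▸ pvgz_psg_mem hT gt ht.1 him.le)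
    · exact h
  -- the white connection
  have j1 : T.Join Set.univ Xt (It.rap im) r' := pl_hx_join_mono Set.Subset.rfl (fun v hv => by rw [hXt]; exact Or.inr hv) (pvnc_inn_rap hT gt ht him hr')
  have j2 : T.Join Set.univ Xt r' r := pl_hx_join_mono Set.Subset.rfl (fun v hv => by rw [hXt]; exact Or.inl (Or.inl hv)) hlane
  have j3 : T.Join Set.univ Xt (Is.rap (ip - 1)) r :=
    pl_hx_join_mono Set.Subset.rfl (fun v hv => by rw [hXt]; exact Or.inl (Or.inr hv)) (pvnc_inn_rap hT gs hs (show ip - 1 < Is.n by omega) hr)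
  have hj : T.Join Set.univ Xt (It.rap im) (Is.rap (ip - 1)) := pl_hx_join_trans (pl_hx_join_trans j1 j2) (pl_hx_join_symm j3)
  have hw : T.Adj (p.v p.n) (It.rap im) := ⟨T.nxt (T.opp (It.e im)), by rw [T.src_nxt, T.tgt_opp, It.src_e im him, p1], rfl⟩
  have he : T.tgt (Is.e (ip - 1)) = p.v 0 := by rw [Is.tgt_e _ (by omega), p0]; congr 1; omega
  have hρ : T.Adj (Is.rap (ip - 1)) (p.v 0) := ⟨T.nxt (T.nxt (T.opp (Is.e (ip - 1)))), rfl, by rw [T.tgt_nxt2, T.src_opp', he]⟩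
  obtain ⟨q, hgq, hq2, hqρ, hqX⟩ := pvnc_lane p hB hpn hXtw hw hρ hj
  have hq : ∀ i, 0 < i → i < q.n → s (q.v i) = false := fun i h0 h1 => hXtw _ (hqX i h0 h1)
  have hZF : (p.glue q hgq).verts ⊆ Fb := by
    rw [pl_pth_glue_verts]
    rintro x (hx | ⟨l, hl, rfl⟩)
    · exact hpF hx
    · rcases Nat.eq_zero_or_pos l with rfl | l0
      · rw [← hgq.h1]; exact hpF ⟨p.n, le_rfl, rfl⟩
      · rcases Nat.lt_or_ge l q.n with l1 | l1
        · exact hXtF (hqX l l0 l1)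
        · rw [show l = q.n by omega, hgq.h2]; exact hpF ⟨0, Nat.zero_le _, rfl⟩
  have hoff : ∀ i, i < ip → Is.v i ∉ (p.glue q hgq).verts := by
    intro i hi
    rw [pl_pth_glue_verts]
    rintro (⟨l, hl, e⟩ | ⟨l, hl, e⟩)
    · exact avs l hl i hi e
    · rcases Nat.eq_zero_or_pos l with rfl | l0
      · rw [← hgq.h1] at e; exact avs _ le_rfl i hi e
      · rcases Nat.lt_or_ge l q.n with l1 | l1
        · have h1 := hq l l0 l1
          rw [e, hs.1.bl i (by omega)] at h1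
          exact Bool.noConfusion h1
        · rw [show l = q.n by omega, hgq.h2] at e; exact avs _ (Nat.zero_le _) i hi e
  have hsrc : T.src (Is.e (ip - 1)) = Is.v (ip - 1) := Is.src_e _ (by omega)
  have key := pvnc_gfaced_q hT hS p q hgq hq2 hB hq he (by rw [hqρ]; rfl) (by rw [hsrc]; exact hoff _ (by omega)) U {Is.rap (ip - 1)} Λ
    (fun a ha => by rw [Set.mem_singleton_iff.1 ha, hqρ]; exact ReflTransGen.refl)
    (fun a ha _ => by
      rw [hsrc]
      refine (pvnc_walk_down Is (show ip - 1 ≤ Is.n by omega) fun k hk => hoff k (by omega)).trans ?_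
      rw [hs.1.h0]
      exact ReflTransGen.mono (fun u v h => ⟨h.1, fun hv => h.2 (hZF hv)⟩) _ _ (hΛ a ha)) hN
  rwa [hqρ] at key

/-- **TR12 (UNIQ)**: two faced free arcs with the same ends are equal -/
theorem pvnc_uniq (hT : T.IsSph) (hS : T.Simple) {ρ : V} {p p' : T.Pth} (hp : p.GFaced s ρ) (hp' : p'.GFaced s ρ) (h0 : p.v 0 = p'.v 0) (h1 : p.v p.n = p'.v p'.n) :
    p.n = p'.n ∧ (∀ i, i < p.n → p.e i = p'.e i) ∧ ∀ i, i ≤ p.n → p.v i = p'.v i := by
  obtain ⟨hn, he⟩ := pvt_c_unique hT hS s ρ p p' hp hp' h0 h1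
  exact ⟨hn, he, fun i hi => pvgz_pth_v hn h0 he hi⟩

/-! ## 4. a faced free arc is `Is[ip,n] · y · It[0,im]` -/

theorem pvnc_walk_up (p : T.Pth) {X : Set V} {i j : ℕ} (hij : i ≤ j) (hj : j ≤ p.n) (hX : ∀ k, i < k → k ≤ j → p.v k ∈ X) :
    ReflTransGen (fun u v => T.Adj u v ∧ v ∈ X) (p.v i) (p.v j) := by
  obtain ⟨m, rfl⟩ := Nat.exists_eq_add_of_le hij
  clear hij
  induction m with
  | zero => exact ReflTransGen.refl
  | succ m ih =>
    exact (ih (by omega) fun k h1 h2 => hX k h1 (by omega)).tail ⟨⟨p.e (i + m), p.src_e _ (by omega), p.tgt_e _ (by omega)⟩, hX _ (by omega) le_rfl⟩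

theorem pvnc_walk_dn (p : T.Pth) {X : Set V} {i j : ℕ} (hij : i ≤ j) (hj : j ≤ p.n) (hX : ∀ k, i ≤ k → k < j → p.v k ∈ X) :
    ReflTransGen (fun u v => T.Adj u v ∧ v ∈ X) (p.v j) (p.v i) := by
  obtain ⟨m, rfl⟩ := Nat.exists_eq_add_of_le hij
  clear hij
  induction m with
  | zero => exact ReflTransGen.refl
  | succ m ih =>
    refine ReflTransGen.head ⟨⟨T.opp (p.e (i + m)), ?_, ?_⟩, hX _ (by omega) (by omega)⟩ (ih (by omega) fun k h1 h2 => hX k h1 (by omega))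
    · rw [T.src_opp', p.tgt_e _ (by omega)]; rfl
    · rw [T.tgt_opp, p.src_e _ (by omega)]

/-- a piece of a globally faced path is globally faced -/
theorem pvnc_seg_gfaced {p : T.Pth} {ρ : V} (h : p.GFaced s ρ) {i j : ℕ} (hij : i ≤ j) (hj : j ≤ p.n) : (p.seg i j).GFaced s ρ := by
  have hn : (p.seg i j).n = j - i := pvt_c_seg_n p i hj
  exact ⟨fun k hk => h.1 (i + k) (by omega), fun k hk => h.2 (i + k) (by omega)⟩

/-- **SPLIT**: a globally faced black path from `Is.v ip` to `It.v im` which avoids `Is[0,ip)` and `It(im,n]` runs along `Is` to `gs⁺`, then outside the two gates to `gt⁻`, then along `It` -/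
theorem pvnc_split (hT : T.IsSph) (hS : T.Simple) (gs gt : T.Gate s) {Is It p : T.Pth} (hs : gs.IsInn Is) (ht : gt.IsInn It) {ip im : ℕ}
    (hip0 : 0 < ip) (hip : ip ≤ Is.n) (him : im < It.n) (p0 : p.v 0 = Is.v ip) (p1 : p.v p.n = It.v im)
    (avs : ∀ k, k ≤ p.n → ∀ i, i < ip → p.v k ≠ Is.v i) (avt : ∀ k, k ≤ p.n → ∀ i, im < i → i ≤ It.n → p.v k ≠ It.v i)
    (hdis : Disjoint (T.VOf gs.c.Left) (T.VOf gt.c.Left)) {ρ : V} (hp : p.GFaced s ρ) (hIs : Is.GFaced s ρ) (hIt : It.GFaced s ρ) :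
    ∃ k₁ k₂, k₁ + ip = Is.n ∧ k₂ + im = p.n ∧ k₁ < k₂ ∧ (∀ k, k < k₁ → p.e k = Is.e (ip + k)) ∧ (∀ k, k ≤ k₁ → p.v k = Is.v (ip + k)) ∧
      (∀ k, k < im → p.e (k₂ + k) = It.e k) ∧ (∀ k, k ≤ im → p.v (k₂ + k) = It.v k) ∧
      ∀ k, k₁ < k → k < k₂ → p.v k ∉ T.VOf gs.c.Left ∧ p.v k ∉ T.VOf gt.c.Left := by
  have hd : ∀ v, v ∈ T.VOf gs.c.Left → v ∈ T.VOf gt.c.Left → False := fun v h1 h2 => Set.disjoint_left.1 hdis h1 h2
  have hint : ∀ (g : T.Gate s) {v : V}, v ∈ T.Int g.c.Left → v ∈ T.VOf g.c.Left := fun g v hv => by rw [pl_VOf_left hT]; exact Or.inr hv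
  have hbl : ∀ k, k ≤ p.n → s (p.v k) = true := fun k hk => by
    have h1 := hp.1 k hk
    have h2 := hIs.1 0 (Nat.zero_le _)
    rw [hs.1.bl 0 (Nat.zero_le _)] at h2
    exact pvt_c_bool h1 h2
  have h0s : p.v 0 ∈ T.VOf gs.c.Left := p0 ▸ pvgz_psg_mem hT gs hs.1 hip
  have h1t : p.v p.n ∈ T.VOf gt.c.Left := p1 ▸ pvgz_psg_mem hT gt ht.1 him.le
  have nvm : ∀ k, k ≤ p.n → p.v k ≠ gs.vm := fun k hk => by rw [← hs.1.h0]; exact avs k hk 0 hip0
  have nvp : ∀ k, k ≤ p.n → p.v k ≠ gt.vp := fun k hk => by rw [← ht.1.h1]; exact avt k hk It.n him le_rfl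
  -- forward trap in `gs`, backward trap in `gt`
  have trapS : ∀ k, k ≤ p.n → p.v k ∈ T.Int gs.c.Left → ∃ j, k < j ∧ j ≤ p.n ∧ p.v j = gs.vp := by
    intro k hk hin
    by_contra hne
    refine hd _ (hint gs (pvtg_sep_in hT gs (X := {x | ∃ j, k < j ∧ j ≤ p.n ∧ p.v j = x}) ?_ ?_ ?_ hin
      (pvnc_walk_up p hk le_rfl fun j h1 h2 => ⟨j, h1, h2, rfl⟩))) h1t
    · rintro v ⟨j, -, hj, rfl⟩; exact hbl j hj
    · rintro ⟨j, -, hj, e⟩; exact nvm j hj e
    · rintro ⟨j, h1, hj, e⟩; exact hne ⟨j, h1, hj, e⟩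
  have trapT : ∀ k, k ≤ p.n → p.v k ∈ T.Int gt.c.Left → ∃ j, j < k ∧ p.v j = gt.vm := by
    intro k hk hin
    by_contra hne
    refine hd _ h0s (hint gt (pvtg_sep_in hT gt (X := {x | ∃ j, j < k ∧ p.v j = x}) ?_ ?_ ?_ hin
      (pvnc_walk_dn p (Nat.zero_le k) hk fun j _ h2 => ⟨j, h2, rfl⟩)))
    · rintro v ⟨j, hj, rfl⟩; exact hbl j (by omega)
    · rintro ⟨j, hj, e⟩; exact hne ⟨j, hj, e⟩
    · rintro ⟨j, hj, e⟩; exact nvp j (by omega) e
  obtain ⟨k₁, hk₁, e₁⟩ : ∃ k₁, k₁ ≤ p.n ∧ p.v k₁ = gs.vp := by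
    rcases Nat.lt_or_ge ip Is.n with h | h
    · obtain ⟨j, -, hj, e⟩ := trapS 0 (Nat.zero_le _) (p0 ▸ pvgz_psg_int hT gs hs.1 hip0 h)
      exact ⟨j, hj, e⟩
    · exact ⟨0, Nat.zero_le _, by rw [p0, show ip = Is.n by omega, hs.1.h1]⟩
  obtain ⟨k₂, hk₂, e₂⟩ : ∃ k₂, k₂ ≤ p.n ∧ p.v k₂ = gt.vm := by
    rcases Nat.eq_zero_or_pos im with h | h
    · exact ⟨p.n, le_rfl, by rw [p1, h, ht.1.h0]⟩
    · obtain ⟨j, hj, e⟩ := trapT p.n le_rfl (p1 ▸ pvgz_psg_int hT gt ht.1 h him)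
      exact ⟨j, by omega, e⟩
  -- the two ends are pieces of the inner paths
  obtain ⟨a1, a2, a3⟩ := pvnc_uniq hT hS (pvnc_seg_gfaced hp (Nat.zero_le k₁) hk₁) (pvnc_seg_gfaced hIs hip le_rfl)
    (show p.v (0 + 0) = Is.v (ip + 0) from p0)
    (by
      show p.v (0 + (p.seg 0 k₁).n) = Is.v (ip + (Is.seg ip Is.n).n)
      rw [pvt_c_seg_n p 0 hk₁, pvt_c_seg_n Is ip le_rfl, show 0 + (k₁ - 0) = k₁ by omega, show ip + (Is.n - ip) = Is.n by omega, e₁, hs.1.h1])
  rw [pvt_c_seg_n p 0 hk₁] at a1 a2 a3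
  rw [pvt_c_seg_n Is ip le_rfl] at a1
  obtain ⟨b1, b2, b3⟩ := pvnc_uniq hT hS (pvnc_seg_gfaced hp hk₂ le_rfl) (pvnc_seg_gfaced hIt (Nat.zero_le im) him.le)
    (show p.v (k₂ + 0) = It.v (0 + 0) by rw [Nat.add_zero, e₂, ht.1.h0])
    (by
      show p.v (k₂ + (p.seg k₂ p.n).n) = It.v (0 + (It.seg 0 im).n)
      rw [pvt_c_seg_n p k₂ le_rfl, pvt_c_seg_n It 0 him.le, show k₂ + (p.n - k₂) = p.n by omega, show 0 + (im - 0) = im by omega, p1])
  rw [pvt_c_seg_n p k₂ le_rfl] at b1 b2 b3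
  rw [pvt_c_seg_n It 0 him.le] at b1
  have hv1 : ∀ k, k ≤ k₁ → p.v k = Is.v (ip + k) := fun k hk => by
    have := a3 k (by omega)
    have e : (p.seg 0 k₁).v k = p.v (0 + k) := rfl
    rw [e, Nat.zero_add] at this
    exact this
  have hv2 : ∀ k, k ≤ im → p.v (k₂ + k) = It.v k := fun k hk => by
    have := b3 k (by omega)
    have e : (It.seg 0 im).v k = It.v (0 + k) := rfl
    rw [e, Nat.zero_add] at this
    exact this
  have h12 : k₁ < k₂ := by
    by_contra hlt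
    have h1 := hv2 (k₁ - k₂) (by omega)
    rw [show k₂ + (k₁ - k₂) = k₁ by omega] at h1
    refine hd (p.v k₁) ?_ (h1 ▸ pvgz_psg_mem hT gt ht.1 (by omega))
    rw [hv1 k₁ le_rfl]
    exact pvgz_psg_mem hT gs hs.1 (by omega)
  refine ⟨k₁, k₂, by omega, by omega, h12, fun k hk => ?_, hv1, fun k hk => ?_, hv2, fun k h1 h2 => ⟨fun hin => ?_, fun hin => ?_⟩⟩
  · have := a2 k (by omega)
    have e : (p.seg 0 k₁).e k = p.e (0 + k) := rfl
    rw [e, Nat.zero_add] at this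
    exact this
  · have := b2 k (by omega)
    have e : (It.seg 0 im).e k = It.e (0 + k) := rfl
    rw [e, Nat.zero_add] at this
    exact this
  · rw [pl_VOf_left hT] at hin
    rcases hin with hin | hin
    · rcases pvtg_black gs hin (hbl k (by omega)) with e | e
      · exact nvm k (by omega) e
      · have := p.inj _ _ (by omega) hk₁ (e.trans e₁.symm)
        omega
    · obtain ⟨j, hj, hjn, e⟩ := trapS k (by omega) hin
      have := p.inj _ _ hjn hk₁ (e.trans e₁.symm)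
      omega
  · rw [pl_VOf_left hT] at hin
    rcases hin with hin | hin
    · rcases pvtg_black gt hin (hbl k (by omega)) with e | e
      · have := p.inj _ _ (by omega) hk₂ (e.trans e₂.symm)
        omega
      · exact nvp k (by omega) e
    · obtain ⟨j, hj, e⟩ := trapT k (by omega) hin
      have := p.inj _ _ (by omega) hk₂ (e.trans e₂.symm)
      omega

/-! ## 5. the open chain, THE RING, CLOSE -/

/-- **an OPEN chain of `n + 1` gates and `n` links** from `G 0` (`= g₂(t)`) to `G n` (`= g₂(s)`): the fields of `PvgzRing` without the last link -/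
structure PvncChain (T : PvMap V D) (s : V → Bool) (n : ℕ) (G : ℕ → T.Gate s) (I L : ℕ → T.Pth) : Prop where
  hinn : ∀ j, j ≤ n → (G j).IsInn (I j)
  lk0 : ∀ j, j < n → (L j).v 0 = (G j).vp
  lk1 : ∀ j, j < n → (L j).v (L j).n = (G (j + 1)).vm
  piece : ∀ j, j < n → (L j).OnWall s (G j).aOut
  wall : ∀ j, j < n → T.Wall s (G j).aOut (G (j + 1)).aIn
  thru : ∀ j, j ≤ n → T.Wall s (G j).aIn (G j).aOut
  dGG : ∀ i j, i ≤ n → j ≤ n → i ≠ j → Disjoint (T.VOf (G i).c.Left) (T.VOf (G j).c.Left)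
  dLG : ∀ i j, i ≤ n → j < n → ∀ k, 0 < k → k < (L j).n → (L j).v k ∉ T.VOf (G i).c.Left
  dLL : ∀ i j, i < n → j < n → i ≠ j → ∀ k l, 0 < k → k < (L i).n → 0 < l → l < (L j).n → (L i).v k ≠ (L j).v l

/-- **the free arc against the chain**: ends on the two inner paths, off the rest of them, off the inner gates and the links of the chain -/
structure PvncFree (T : PvMap V D) (s : V → Bool) (n : ℕ) (G : ℕ → T.Gate s) (I L : ℕ → T.Pth) (p : T.Pth) (ip im : ℕ) : Prop where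
  ip0 : 0 < ip
  ip_le : ip ≤ (I n).n
  im_lt : im < (I 0).n
  p0 : p.v 0 = (I n).v ip
  p1 : p.v p.n = (I 0).v im
  avs : ∀ k, k ≤ p.n → ∀ i, i < ip → p.v k ≠ (I n).v i
  avt : ∀ k, k ≤ p.n → ∀ i, im < i → i ≤ (I 0).n → p.v k ≠ (I 0).v i
  offG : ∀ k, k ≤ p.n → ∀ i, 0 < i → i < n → p.v k ∉ T.VOf (G i).c.Left
  offL : ∀ k, k ≤ p.n → ∀ j, j < n → ∀ l, 0 < l → l < (L j).n → p.v k ≠ (L j).v l

/-- **THE RING**: open chain + faced free arc (anchor on the right arc of `G n`, the two right arcs white-joined) ⟹ `PvgzRing` with `n + 1` gates; its last link is the OUTER part of `p` -/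
theorem pvnc_ring (hT : T.IsSph) (hS : T.Simple) {n : ℕ} {G : ℕ → T.Gate s} {I L : ℕ → T.Pth} (H : PvncChain T s n G I L) (hn : 0 < n) (per : G (n + 1) = G 0)
    {p : T.Pth} {ip im : ℕ} (F : PvncFree T s n G I L p ip im) {r r' : V} (hr : r ∈ (G n).R) (hr' : r' ∈ (G 0).R) (hw : T.Mono s r r') (hp : p.GFaced s r)
    (hL : L n = p.seg ((I n).n - ip) (p.n - im)) : PvgzRing T s (n + 1) G I L := by
  have hs := H.hinn n le_rfl
  have ht := H.hinn 0 (Nat.zero_le _)
  have hIs : (I n).GFaced s r := pvgz_inn_gfaced hT (G n) hs hr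
  have hIt : (I 0).GFaced s r := (pvgz_inn_gfaced hT (G 0) ht hr').anchor (pvt_c_mono_symm hw)
  obtain ⟨k₁, k₂, e1, e2, h12, -, pv1, -, pv2, hoff⟩ := pvnc_split hT hS (G n) (G 0) hs ht F.ip0 F.ip_le F.im_lt F.p0 F.p1 F.avs F.avt
    (H.dGG n 0 le_rfl (Nat.zero_le _) (by omega)) hp hIs hIt
  rw [show (I n).n - ip = k₁ by omega, show p.n - im = k₂ by omega] at hL
  have hk₂ : k₂ ≤ p.n := by omega
  have yn : (p.seg k₁ k₂).n = k₂ - k₁ := pvt_c_seg_n p k₁ hk₂
  have yv : ∀ k, (p.seg k₁ k₂).v k = p.v (k₁ + k) := fun k => rfl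
  have y0 : (p.seg k₁ k₂).v 0 = (G n).vp := by rw [yv, Nat.add_zero, pv1 k₁ le_rfl, show ip + k₁ = (I n).n by omega, hs.1.h1]
  have y1 : (p.seg k₁ k₂).v (p.seg k₁ k₂).n = (G 0).vm := by
    rw [yv, yn, show k₁ + (k₂ - k₁) = k₂ + 0 by omega, pv2 0 (Nat.zero_le _), ht.1.h0]
  obtain ⟨hpiece, hwall⟩ := pvgz_link_gfaced hT (G n) (G 0) y0 y1 hr hr' hw (pvnc_seg_gfaced hp h12.le hk₂)
  have cs : ∀ {j : ℕ}, j < n + 1 → j < n ∨ j = n := fun h => by omega
  refine ⟨Nat.succ_pos n, per, fun j hj => H.hinn j (by omega), fun j hj => ?_, fun j hj => ?_, fun j hj => ?_, fun j hj => ?_, fun j hj => H.thru j (by omega),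
    fun i j hi hj hij => H.dGG i j (by omega) (by omega) hij, fun i j hi hj k k0 k1 => ?_, fun i j hi hj hij k l k0 k1 l0 l1 => ?_⟩
  · rcases cs hj with h | rfl
    · exact H.lk0 j h
    · rw [hL]; exact y0
  · rcases cs hj with h | rfl
    · exact H.lk1 j h
    · rw [hL, per]; exact y1
  · rcases cs hj with h | rfl
    · exact H.piece j h
    · rw [hL]; exact hpiece
  · rcases cs hj with h | rfl
    · exact H.wall j h
    · rw [per]; exact hwall
  · rcases cs hj with h | rfl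
    · exact H.dLG i j (by omega) h k k0 k1
    · rw [hL] at k1 ⊢
      rw [yn] at k1
      rw [yv]
      rcases Nat.eq_zero_or_pos i with rfl | i0
      · exact (hoff _ (by omega) (by omega)).2
      · rcases cs hi with h | rfl
        · exact F.offG _ (by omega) i i0 h
        · exact (hoff _ (by omega) (by omega)).1
  · rcases cs hi with hi' | rfl
    · rcases cs hj with hj' | rfl
      · exact H.dLL i j hi' hj' hij k l k0 k1 l0 l1
      · rw [hL] at l1 ⊢
        rw [yn] at l1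
        rw [yv]
        exact fun e => F.offL _ (by omega) i hi' k k0 k1 e.symm
    · rcases cs hj with hj' | rfl
      · rw [hL] at k1 ⊢
        rw [yn] at k1
        rw [yv]
        exact F.offL _ (by omega) j hj' l l0 l1
      · exact absurd rfl hij

/-- a path sum splits at two vertices -/
theorem pvnc_psum3 (p : T.Pth) {a b : ℕ} (hab : a ≤ b) (hb : b ≤ p.n) (w : D → ℂ) : p.psum w = (p.seg 0 a).psum w + (p.seg a b).psum w + (p.seg b p.n).psum w := by
  unfold PvMap.Pth.psum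
  rw [pvt_c_seg_n p 0 (hab.trans hb), pvt_c_seg_n p a hb, pvt_c_seg_n p b le_rfl]
  obtain ⟨m, rfl⟩ := Nat.exists_eq_add_of_le hab
  obtain ⟨m', hm'⟩ := Nat.exists_eq_add_of_le hb
  rw [hm', Nat.add_sub_cancel_left, Nat.add_sub_cancel_left, Nat.sub_zero, Finset.sum_range_add, Finset.sum_range_add]
  congr 2
  exact Finset.sum_congr rfl fun k _ => by show _ = w (T.opp (p.e (0 + k))); rw [Nat.zero_add]

/-- the sum over a label is the sum round its rim -/
theorem pvnc_lsum (c : T.Cyc) {d : D} (h : ∀ d', T.SameLab s d d' ↔ ∃ i, d' = T.opp (c.e i)) (w : D → ℂ) :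
    T.lsum s w d = ∑ k ∈ Finset.range c.n, w (T.opp (c.e k)) := by
  classical
  unfold PvMap.lsum
  have hS : {d' | T.SameLab s d d'} = ↑((Finset.range c.n).image fun i => T.opp (c.e i)) := by
    ext d'
    simp only [Set.mem_ofPred_eq, Finset.coe_image, Finset.coe_range, Set.mem_image, Set.mem_Iio]
    rw [h d']
    constructor
    · rintro ⟨i, rfl⟩
      exact ⟨i % c.n, Nat.mod_lt _ (pl_cyc_pos c), by rw [pl_cyc_mod]⟩
    · rintro ⟨i, -, rfl⟩
      exact ⟨i, rfl⟩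
  have h1 : (∑ᶠ (d' : D) (_ : T.SameLab s d d'), w d') = ∑ᶠ d' ∈ {d' | T.SameLab s d d'}, w d' := rfl
  rw [h1, hS, finsum_mem_coe_finset, Finset.sum_image]
  intro i hi i' hi' hii
  exact c.inj i i' (Finset.mem_range.1 hi) (Finset.mem_range.1 hi') (by rw [T.opp_injective hii])

theorem pvnc_psum_congr {p q : T.Pth} (hn : p.n = q.n) (he : ∀ i, i < p.n → p.e i = q.e i) (w : D → ℂ) : p.psum w = q.psum w := by
  unfold PvMap.Pth.psum
  rw [← hn]
  exact Finset.sum_congr rfl fun i hi => by rw [he i (Finset.mem_range.1 hi)]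

/-- **TR13 (CLOSE) FOR THE FREE ARC OF ROAD P, MAP LEVEL**.   Open chain `G 0 = g₂(t), …, G n = g₂(s)` + free arc `p : (I n).v ip → (I 0).v im` (`B_p`, `N_p`, off the rest) + white lane between the two right arcs + ZONE / REGION.
Then: `p` is globally faced, the chain closes to a `PvgzRing` with `n + 1` gates (last link = the outer part of `p`: all the results of `Tr/GateN` sec. 9 and of `Tr/CloseM` apply), and there is a rim `P` made of the pieces, with
`∑_P w = (I n)[0,ip) + p + (I 0)[im,·) + inner arcs of the inner gates + links`, for EVERY dart function `w` (masks live in `w`). -/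
theorem pvnc_close (hT : T.IsSph) (hS : T.Simple) {n : ℕ} {G : ℕ → T.Gate s} {I L : ℕ → T.Pth} (H : PvncChain T s n G I L) (hn : 0 < n) (per : G (n + 1) = G 0)
    {p : T.Pth} {ip im : ℕ} (F : PvncFree T s n G I L p ip im) (hB : pvtaB p s)
    {X : Set V} (hX : ∀ v ∈ X, s v = false) {r r' : V} (hr : r ∈ (G n).R) (hr' : r' ∈ (G 0).R) (hlane : T.Join Set.univ X r' r)
    {Fb : Set V} (hpF : p.verts ⊆ Fb) (hXF : X ⊆ Fb) (hsF : T.VOf (G n).c.Left ⊆ Fb) (htF : T.VOf (G 0).c.Left ⊆ Fb)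
    {U Λ : Set V} (hΛ : ∀ a ∈ Λ, ReflTransGen (fun u v => T.Adj u v ∧ v ∉ Fb) (G n).vm a)
    (hN : pvtaN p s U ({(I n).rap (ip - 1)} ∪ Λ)) (hL : L n = p.seg ((I n).n - ip) (p.n - im)) :
    p.GFaced s r ∧ PvgzRing T s (n + 1) G I L ∧ ∃ P : T.Cyc, P.IsRim s ∧
      (∀ f, (∃ i, f = P.e i) ↔ ∃ j, j < n + 1 ∧ ((∃ i, i < (I j).n ∧ f = (I j).e i) ∨ ∃ i, i < (L j).n ∧ f = (L j).e i)) ∧
      (∀ i, i < p.n → ∃ k, P.e k = p.e i) ∧
      (∀ k, (∃ j, j ≤ n ∧ T.src (P.e k) ∈ (I j).verts) ∨ (∃ j, j < n ∧ T.src (P.e k) ∈ (L j).verts) ∨ T.src (P.e k) ∈ p.verts) ∧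
      ∀ w : D → ℂ, ∑ k ∈ Finset.range P.n, w (T.opp (P.e k)) =
        ((I n).seg 0 ip).psum w + p.psum w + ((I 0).seg im (I 0).n).psum w + ∑ j ∈ Finset.range (n - 1), (I (j + 1)).psum w + ∑ j ∈ Finset.range n, (L j).psum w := by
  have hs := H.hinn n le_rfl
  have ht := H.hinn 0 (Nat.zero_le _)
  have hdis := H.dGG n 0 le_rfl (Nat.zero_le _) (by omega)
  have hw : T.Mono s r r' := pvt_c_mono_symm (pvt_c_join_mono (r := false) (pl_hx_join_mono Set.Subset.rfl (fun v hv => hX v hv) hlane))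
  have hρ : T.Mono s ((I n).rap (ip - 1)) r :=
    pvt_c_join_mono (r := false) (pl_hx_join_mono Set.Subset.rfl (fun v hv => hv.1) (pvnc_inn_rap hT (G n) hs (show ip - 1 < (I n).n by have := F.ip0; have := F.ip_le; omega) hr))
  have hp : p.GFaced s r :=
    (pvnc_gfaced hT hS (G n) (G 0) hs ht F.ip0 F.ip_le F.im_lt F.p0 F.p1 hB F.avs hdis hX hr hr' hlane hpF hXF hsF htF hΛ hN).anchor hρ
  have R := pvnc_ring hT hS H hn per F hr hr' hw hp hL
  refine ⟨hp, R, ?_⟩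
  obtain ⟨P, hrim, hP⟩ := pvgz_ring_cyc hT hS R (Or.inl (by omega))
  have hIs : (I n).GFaced s r := pvgz_inn_gfaced hT (G n) hs hr
  have hIt : (I 0).GFaced s r := (pvgz_inn_gfaced hT (G 0) ht hr').anchor (pvt_c_mono_symm hw)
  obtain ⟨k₁, k₂, e1, e2, h12, pe1, -, pe2, -, -⟩ := pvnc_split hT hS (G n) (G 0) hs ht F.ip0 F.ip_le F.im_lt F.p0 F.p1 F.avs F.avt hdis hp hIs hIt
  rw [show (I n).n - ip = k₁ by omega, show p.n - im = k₂ by omega] at hL
  have hk₂ : k₂ ≤ p.n := by omega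
  have yn : (p.seg k₁ k₂).n = k₂ - k₁ := pvt_c_seg_n p k₁ hk₂
  have hlab : ∀ d', T.SameLab s (T.opp ((I 0).e 0)) d' ↔ ∃ i, d' = T.opp (P.e i) := by
    intro d'
    rw [(pvgz_ring hT hS R).2.1 d']
    constructor
    · rintro ⟨j, hj, ⟨i, hi, rfl⟩ | ⟨i, hi, rfl⟩⟩
      · obtain ⟨k, hk⟩ := (hP _).2 ⟨j, hj, Or.inl ⟨i, hi, rfl⟩⟩
        exact ⟨k, by rw [← hk]⟩
      · obtain ⟨k, hk⟩ := (hP _).2 ⟨j, hj, Or.inr ⟨i, hi, rfl⟩⟩
        exact ⟨k, by rw [← hk]⟩
    · rintro ⟨k, rfl⟩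
      obtain ⟨j, hj, ⟨i, hi, e⟩ | ⟨i, hi, e⟩⟩ := (hP _).1 ⟨k, rfl⟩
      · exact ⟨j, hj, Or.inl ⟨i, hi, by rw [e]⟩⟩
      · exact ⟨j, hj, Or.inr ⟨i, hi, by rw [e]⟩⟩
  have him := F.im_lt
  refine ⟨P, hrim, hP, fun i hi => ?_, fun k => ?_, fun w => ?_⟩
  · rcases Nat.lt_or_ge i k₁ with h | h
    · obtain ⟨k, hk⟩ := (hP (p.e i)).2 ⟨n, by omega, Or.inl ⟨ip + i, by omega, pe1 i h⟩⟩
      exact ⟨k, hk.symm⟩
    · rcases Nat.lt_or_ge i k₂ with h' | h'
      · obtain ⟨k, hk⟩ := (hP (p.e i)).2 ⟨n, by omega, Or.inr ⟨i - k₁, by rw [hL, yn]; omega, by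
          rw [hL]
          show p.e i = p.e (k₁ + (i - k₁))
          rw [show k₁ + (i - k₁) = i by omega]⟩⟩
        exact ⟨k, hk.symm⟩
      · obtain ⟨k, hk⟩ := (hP (p.e i)).2 ⟨0, by omega, Or.inl ⟨i - k₂, by omega, by
          have := pe2 (i - k₂) (by omega)
          rwa [show k₂ + (i - k₂) = i by omega] at this⟩⟩
        exact ⟨k, hk.symm⟩
  · obtain ⟨j, hj, ⟨i, hi, e⟩ | ⟨i, hi, e⟩⟩ := (hP _).1 ⟨k, rfl⟩
    · exact Or.inl ⟨j, by omega, i, hi.le, by rw [e, (I j).src_e i hi]⟩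
    · rcases Nat.lt_or_ge j n with h | h
      · exact Or.inr (Or.inl ⟨j, h, i, hi.le, by rw [e, (L j).src_e i hi]⟩)
      · have hjn : j = n := by omega
        subst hjn
        rw [hL] at hi e
        rw [yn] at hi
        refine Or.inr (Or.inr ⟨k₁ + i, by omega, ?_⟩)
        rw [e]
        exact (p.src_e (k₁ + i) (by omega)).symm
  · rw [← pvnc_lsum P hlab w, (pvgz_ring hT hS R).2.2 w, Finset.sum_add_distrib, Finset.sum_range_succ (fun j => (L j).psum w), Finset.sum_range_succ' (fun j => (I j).psum w)]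
    obtain ⟨m, rfl⟩ : ∃ m, n = m + 1 := ⟨n - 1, by omega⟩
    rw [Finset.sum_range_succ (fun j => (I (j + 1)).psum w), Nat.add_sub_cancel, pvgz_psum_split (I (m + 1)) F.ip_le w, pvgz_psum_split (I 0) F.im_lt.le w,
      pvnc_psum3 p h12.le hk₂ w, hL]
    have c1 : (p.seg 0 k₁).psum w = ((I (m + 1)).seg ip (I (m + 1)).n).psum w :=
      pvnc_psum_congr (by rw [pvt_c_seg_n p 0 (by omega), pvt_c_seg_n _ ip le_rfl]; omega) (fun i hi => by
        rw [pvt_c_seg_n p 0 (by omega)] at hi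
        show p.e (0 + i) = (I (m + 1)).e (ip + i)
        rw [Nat.zero_add]
        exact pe1 i (by omega)) w
    have c2 : (p.seg k₂ p.n).psum w = ((I 0).seg 0 im).psum w :=
      pvnc_psum_congr (by rw [pvt_c_seg_n p k₂ le_rfl, pvt_c_seg_n _ 0 F.im_lt.le]; omega) (fun i hi => by
        rw [pvt_c_seg_n p k₂ le_rfl] at hi
        show p.e (k₂ + i) = (I 0).e (0 + i)
        rw [Nat.zero_add]
        exact pe2 i (by omega)) w
    rw [c1, c2]
    ring

/-! ## 6. consumer forms: REGION from a vertex of the last link, the chain as given -/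

/-- the vertices of a piece of a wall have one colour -/
theorem pvnc_onwall_col {p : T.Pth} {d₀ : D} (h : p.OnWall s d₀) : ∀ k, k ≤ p.n → s (p.v k) = s (p.v 0) := by
  intro k
  induction k with
  | zero => exact fun _ => rfl
  | succ k ih =>
    intro hk
    have h1 := (h k (by omega)).1.1
    rw [T.src_opp', T.tgt_opp, p.tgt_e k (by omega), p.src_e k (by omega)] at h1
    rw [h1, ih (by omega)]

/-- the links of a chain are black -/
theorem pvnc_link_black {n : ℕ} {G : ℕ → T.Gate s} {I L : ℕ → T.Pth} (H : PvncChain T s n G I L) {j : ℕ} (hj : j < n) {k : ℕ} (hk : k ≤ (L j).n) : s ((L j).v k) = true := by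
  rw [pvnc_onwall_col (H.piece j hj) k hk, H.lk0 j hj]
  exact pvtg_vp (G j)

/-- **REGION from a vertex of the last link**: `Fz` = any zone (model: the sites marked in `UN \ Lam`) which contains `p`, the lane and the two closed insides; every layer vertex is joined off the zone to the vertex number `l` of the LAST link
(a vertex of the corridor, off the zone).   Then REGION of `pvnc_close` holds for the small zone `p ∪ X ∪` the two closed insides. -/
theorem pvnc_region {n : ℕ} {G : ℕ → T.Gate s} {I L : ℕ → T.Pth} (H : PvncChain T s n G I L) (hn : 0 < n) {p : T.Pth} {ip im : ℕ} (F : PvncFree T s n G I L p ip im)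
    {X : Set V} (hX : ∀ v ∈ X, s v = false) {Fz : Set V} (hpF : p.verts ⊆ Fz) (hXF : X ⊆ Fz) (hsF : T.VOf (G n).c.Left ⊆ Fz) (htF : T.VOf (G 0).c.Left ⊆ Fz)
    {l : ℕ} (hl0 : 0 < l) (hl : l ≤ (L (n - 1)).n) {a : V} (ha : ReflTransGen (fun u v => T.Adj u v ∧ v ∉ Fz) ((L (n - 1)).v l) a) :
    ReflTransGen (fun u v => T.Adj u v ∧ v ∉ p.verts ∪ X ∪ T.VOf (G n).c.Left ∪ T.VOf (G 0).c.Left) (G n).vm a := by
  have hj : n - 1 < n := by omega
  have e : (G n).vm = (L (n - 1)).v (L (n - 1)).n := by rw [H.lk1 _ hj, show n - 1 + 1 = n by omega]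
  rw [e]
  refine (pvnc_walk_dn (L (n - 1)) (X := (p.verts ∪ X ∪ T.VOf (G n).c.Left ∪ T.VOf (G 0).c.Left)ᶜ) hl le_rfl fun k h1 h2 => ?_).trans
    (ReflTransGen.mono (fun u v h => ⟨h.1, ?_⟩) _ _ ha)
  · rintro (((⟨i, hi, e'⟩ | h) | h) | h)
    · exact F.offL i hi _ hj k (by omega) h2 e'
    · have := hX _ h
      rw [pvnc_link_black H hj h2.le] at this
      exact Bool.noConfusion this
    · exact H.dLG n _ le_rfl hj k (by omega) h2 h
    · exact H.dLG 0 _ (Nat.zero_le _) hj k (by omega) h2 h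
  · rintro (((h' | h') | h') | h')
    · exact h.2 (hpF h')
    · exact h.2 (hXF h')
    · exact h.2 (hsF h')
    · exact h.2 (htF h')

theorem pvnc_chain_congr {n : ℕ} {G G' : ℕ → T.Gate s} {I I' L L' : ℕ → T.Pth} (hG : ∀ j, j ≤ n → G' j = G j) (hI : ∀ j, j ≤ n → I' j = I j) (hL : ∀ j, j < n → L' j = L j)
    (H : PvncChain T s n G I L) : PvncChain T s n G' I' L' where
  hinn j hj := by rw [hG j hj, hI j hj]; exact H.hinn j hj
  lk0 j hj := by rw [hG j hj.le, hL j hj]; exact H.lk0 j hj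
  lk1 j hj := by rw [hG (j + 1) hj, hL j hj]; exact H.lk1 j hj
  piece j hj := by rw [hG j hj.le, hL j hj]; exact H.piece j hj
  wall j hj := by rw [hG j hj.le, hG (j + 1) hj]; exact H.wall j hj
  thru j hj := by rw [hG j hj]; exact H.thru j hj
  dGG i j hi hj hij := by rw [hG i hi, hG j hj]; exact H.dGG i j hi hj hij
  dLG i j hi hj := by rw [hG i hi, hL j hj]; exact H.dLG i j hi hj
  dLL i j hi hj hij := by rw [hL i hi, hL j hj]; exact H.dLL i j hi hj hij

theorem pvnc_free_congr {n : ℕ} {G G' : ℕ → T.Gate s} {I I' L L' : ℕ → T.Pth} (hG : ∀ j, j ≤ n → G' j = G j) (hI : ∀ j, j ≤ n → I' j = I j) (hL : ∀ j, j < n → L' j = L j)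
    {p : T.Pth} {ip im : ℕ} (F : PvncFree T s n G I L p ip im) : PvncFree T s n G' I' L' p ip im where
  ip0 := F.ip0
  ip_le := by rw [hI n le_rfl]; exact F.ip_le
  im_lt := by rw [hI 0 (Nat.zero_le _)]; exact F.im_lt
  p0 := by rw [hI n le_rfl]; exact F.p0
  p1 := by rw [hI 0 (Nat.zero_le _)]; exact F.p1
  avs := by rw [hI n le_rfl]; exact F.avs
  avt := by rw [hI 0 (Nat.zero_le _)]; exact F.avt
  offG k hk i i0 hi := by rw [hG i hi.le]; exact F.offG k hk i i0 hi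
  offL k hk j hj := by rw [hL j hj]; exact F.offL k hk j hj

/-- **CLOSE, CONSUMER FORM**: the chain `G I L` as given (nothing asked of `G (n + 1)`, `L n`), REGION from a vertex of the last link.   Output: `p` faced;   the ring `G' I' L'` (equal to the chain on its range, periodic, last link = outer part of `p`);
the rim `P`: it contains all the darts of the inner paths, of the links and of `p`, its vertices are vertices of the pieces, and its sums. -/
theorem pvnc_main (hT : T.IsSph) (hS : T.Simple) {n : ℕ} {G : ℕ → T.Gate s} {I L : ℕ → T.Pth} (H : PvncChain T s n G I L) (hn : 0 < n)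
    {p : T.Pth} {ip im : ℕ} (F : PvncFree T s n G I L p ip im) (hB : pvtaB p s)
    {X : Set V} (hX : ∀ v ∈ X, s v = false) {r r' : V} (hr : r ∈ (G n).R) (hr' : r' ∈ (G 0).R) (hlane : T.Join Set.univ X r' r)
    {Fz : Set V} (hpF : p.verts ⊆ Fz) (hXF : X ⊆ Fz) (hsF : T.VOf (G n).c.Left ⊆ Fz) (htF : T.VOf (G 0).c.Left ⊆ Fz)
    {l : ℕ} (hl0 : 0 < l) (hl : l ≤ (L (n - 1)).n) {U Λ : Set V} (hΛ : ∀ a ∈ Λ, ReflTransGen (fun u v => T.Adj u v ∧ v ∉ Fz) ((L (n - 1)).v l) a)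
    (hN : pvtaN p s U ({(I n).rap (ip - 1)} ∪ Λ)) :
    p.GFaced s r ∧ ∃ (G' : ℕ → T.Gate s) (I' L' : ℕ → T.Pth), (∀ j, j ≤ n → G' j = G j) ∧ (∀ j, j ≤ n → I' j = I j) ∧ I' (n + 1) = I' 0 ∧ (∀ j, j < n → L' j = L j) ∧
      L' n = p.seg ((I n).n - ip) (p.n - im) ∧ PvgzRing T s (n + 1) G' I' L' ∧ ∃ P : T.Cyc, P.IsRim s ∧
      (∀ j, j ≤ n → ∀ i, i < (I j).n → ∃ k, P.e k = (I j).e i) ∧ (∀ j, j < n → ∀ i, i < (L j).n → ∃ k, P.e k = (L j).e i) ∧ (∀ i, i < p.n → ∃ k, P.e k = p.e i) ∧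
      (∀ k, (∃ j, j ≤ n ∧ T.src (P.e k) ∈ (I j).verts) ∨ (∃ j, j < n ∧ T.src (P.e k) ∈ (L j).verts) ∨ T.src (P.e k) ∈ p.verts) ∧
      ∀ w : D → ℂ, ∑ k ∈ Finset.range P.n, w (T.opp (P.e k)) =
        ((I n).seg 0 ip).psum w + p.psum w + ((I 0).seg im (I 0).n).psum w + ∑ j ∈ Finset.range (n - 1), (I (j + 1)).psum w + ∑ j ∈ Finset.range n, (L j).psum w := by
  obtain ⟨G', hG'⟩ : ∃ G' : ℕ → T.Gate s, G' = fun j => if j ≤ n then G j else G 0 := ⟨_, rfl⟩
  obtain ⟨I', hI'⟩ : ∃ I' : ℕ → T.Pth, I' = fun j => if j ≤ n then I j else I 0 := ⟨_, rfl⟩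
  obtain ⟨L', hL'⟩ : ∃ L' : ℕ → T.Pth, L' = fun j => if j < n then L j else p.seg ((I n).n - ip) (p.n - im) := ⟨_, rfl⟩
  have gG : ∀ j, j ≤ n → G' j = G j := fun j hj => by rw [hG']; exact if_pos hj
  have gI : ∀ j, j ≤ n → I' j = I j := fun j hj => by rw [hI']; exact if_pos hj
  have gL : ∀ j, j < n → L' j = L j := fun j hj => by rw [hL']; exact if_pos hj
  have gGn : G' (n + 1) = G' 0 := by rw [gG 0 (Nat.zero_le _), hG']; exact if_neg (by omega)
  have gIn : I' (n + 1) = I' 0 := by rw [gI 0 (Nat.zero_le _), hI']; exact if_neg (by omega)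
  have gLn : L' n = p.seg ((I n).n - ip) (p.n - im) := by rw [hL']; exact if_neg (by omega)
  have H' := pvnc_chain_congr gG gI gL H
  have F' := pvnc_free_congr gG gI gL F
  obtain ⟨hp, R, P, hrim, hP, hPp, hPv, hsum⟩ := pvnc_close hT hS H' hn gGn F' hB hX (r := r) (r' := r') (by rw [gG n le_rfl]; exact hr) (by rw [gG 0 (Nat.zero_le _)]; exact hr') hlane
    (Fb := p.verts ∪ X ∪ T.VOf (G n).c.Left ∪ T.VOf (G 0).c.Left) (fun v hv => Or.inl (Or.inl (Or.inl hv))) (fun v hv => Or.inl (Or.inl (Or.inr hv)))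
    (by rw [gG n le_rfl]; exact fun v hv => Or.inl (Or.inr hv)) (by rw [gG 0 (Nat.zero_le _)]; exact fun v hv => Or.inr hv) (U := U) (Λ := Λ)
    (by rw [gG n le_rfl]; exact fun a ha => pvnc_region H hn F hX hpF hXF hsF htF hl0 hl (hΛ a ha)) (by rw [gI n le_rfl]; exact hN) (by rw [gI n le_rfl]; exact gLn)
  refine ⟨hp, G', I', L', gG, gI, gIn, gL, gLn, R, P, hrim, fun j hj i hi => ?_, fun j hj i hi => ?_, hPp, fun k => ?_, fun w => ?_⟩
  · obtain ⟨k, hk⟩ := (hP ((I j).e i)).2 ⟨j, by omega, Or.inl ⟨i, by rw [gI j hj]; exact hi, by rw [gI j hj]⟩⟩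
    exact ⟨k, hk.symm⟩
  · obtain ⟨k, hk⟩ := (hP ((L j).e i)).2 ⟨j, by omega, Or.inr ⟨i, by rw [gL j hj]; exact hi, by rw [gL j hj]⟩⟩
    exact ⟨k, hk.symm⟩
  · rcases hPv k with ⟨j, hj, h⟩ | ⟨j, hj, h⟩ | h
    · exact Or.inl ⟨j, hj, by rwa [gI j hj] at h⟩
    · exact Or.inr (Or.inl ⟨j, hj, by rwa [gL j hj] at h⟩)
    · exact Or.inr (Or.inr h)
  · rw [hsum w, gI n le_rfl, gI 0 (Nat.zero_le _)]
    congr 1
    · congr 1
      exact Finset.sum_congr rfl fun j hj => by rw [gI (j + 1) (by have := Finset.mem_range.1 hj; omega)]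
    · exact Finset.sum_congr rfl fun j hj => by rw [gL j (Finset.mem_range.1 hj)]

/-- the clauses `pre suf off` (212) give the two avoidance clauses -/
theorem pvnc_av_of_pre (hT : T.IsSph) (gs gt : T.Gate s) {Is It p : T.Pth} (hs : gs.IsInn Is) (ht : gt.IsInn It) {ip im : ℕ} (hip : ip ≤ Is.n) (him : im ≤ It.n)
    (hdis : Disjoint (T.VOf gs.c.Left) (T.VOf gt.c.Left)) (len : Is.n - ip + im ≤ p.n) (pre : ∀ i, ip + i ≤ Is.n → p.v i = Is.v (ip + i)) (suf : ∀ i, i ≤ im → p.v (p.n - im + i) = It.v i)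
    (off : ∀ k, Is.n - ip < k → k + im < p.n → p.v k ∉ T.VOf gs.c.Left ∧ p.v k ∉ T.VOf gt.c.Left) :
    (∀ k, k ≤ p.n → ∀ i, i < ip → p.v k ≠ Is.v i) ∧ ∀ k, k ≤ p.n → ∀ i, im < i → i ≤ It.n → p.v k ≠ It.v i := by
  have hd : ∀ v, v ∈ T.VOf gs.c.Left → v ∈ T.VOf gt.c.Left → False := fun v h1 h2 => Set.disjoint_left.1 hdis h1 h2
  have cases3 : ∀ k, k ≤ p.n → (∃ i, ip + i ≤ Is.n ∧ p.v k = Is.v (ip + i)) ∨ (p.v k ∉ T.VOf gs.c.Left ∧ p.v k ∉ T.VOf gt.c.Left) ∨ ∃ i, i ≤ im ∧ p.v k = It.v i := by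
    intro k hk
    rcases Nat.lt_or_ge (Is.n - ip) k with h1 | h1
    · rcases Nat.lt_or_ge (k + im) p.n with h2 | h2
      · exact Or.inr (Or.inl (off k h1 h2))
      · refine Or.inr (Or.inr ⟨k + im - p.n, by omega, ?_⟩)
        rw [← suf _ (by omega)]
        congr 1
        omega
    · exact Or.inl ⟨k, by omega, pre k (by omega)⟩
  constructor
  · intro k hk i hi e
    rcases cases3 k hk with ⟨i', h1, h2⟩ | ⟨h1, -⟩ | ⟨i', h1, h2⟩
    · have := Is.inj _ _ h1 (by omega) (h2.symm.trans e)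
      omega
    · exact h1 (e ▸ pvgz_psg_mem hT gs hs.1 (by omega))
    · exact hd _ (e ▸ pvgz_psg_mem hT gs hs.1 (by omega)) (h2 ▸ pvgz_psg_mem hT gt ht.1 (by omega))
  · intro k hk i hi hin e
    rcases cases3 k hk with ⟨i', h1, h2⟩ | ⟨-, h1⟩ | ⟨i', h1, h2⟩
    · exact hd _ (h2 ▸ pvgz_psg_mem hT gs hs.1 h1) (e ▸ pvgz_psg_mem hT gt ht.1 hin)
    · exact h1 (e ▸ pvgz_psg_mem hT gt ht.1 hin)
    · have := It.inj _ _ (by omega) hin (h2.symm.trans e)
      omega

/-! ## 7. TR14: the mass of the rim = the mass of the free arc + the masses of the connectors -/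

theorem pvnc_psum_add (p : T.Pth) (f g : D → ℂ) : p.psum (fun d => f d + g d) = p.psum f + p.psum g := by
  unfold PvMap.Pth.psum
  exact Finset.sum_add_distrib

/-- a path sum reads the weight on the tags of the path only -/
theorem pvnc_psum_tags {p : T.Pth} {f g : D → ℂ} (h : ∀ k, k < p.n → f (T.opp (p.e k)) = g (T.opp (p.e k))) : p.psum f = p.psum g :=
  Finset.sum_congr rfl fun k hk => h k (Finset.mem_range.1 hk)

/-- the sums along a faced free arc: piece of `Is`, outer link, piece of `It` -/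
theorem pvnc_psum_p (hT : T.IsSph) (hS : T.Simple) (gs gt : T.Gate s) {Is It p : T.Pth} (hs : gs.IsInn Is) (ht : gt.IsInn It) {ip im : ℕ}
    (hip0 : 0 < ip) (hip : ip ≤ Is.n) (him : im < It.n) (p0 : p.v 0 = Is.v ip) (p1 : p.v p.n = It.v im)
    (avs : ∀ k, k ≤ p.n → ∀ i, i < ip → p.v k ≠ Is.v i) (avt : ∀ k, k ≤ p.n → ∀ i, im < i → i ≤ It.n → p.v k ≠ It.v i)
    (hdis : Disjoint (T.VOf gs.c.Left) (T.VOf gt.c.Left)) {ρ : V} (hp : p.GFaced s ρ) (hIs : Is.GFaced s ρ) (hIt : It.GFaced s ρ) (u : D → ℂ) :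
    p.psum u = (Is.seg ip Is.n).psum u + (p.seg (Is.n - ip) (p.n - im)).psum u + (It.seg 0 im).psum u := by
  obtain ⟨k₁, k₂, e1, e2, h12, pe1, -, pe2, -, -⟩ := pvnc_split hT hS gs gt hs ht hip0 hip him p0 p1 avs avt hdis hp hIs hIt
  rw [show Is.n - ip = k₁ by omega, show p.n - im = k₂ by omega, pvnc_psum3 p h12.le (show k₂ ≤ p.n by omega) u]
  have c1 : (p.seg 0 k₁).psum u = (Is.seg ip Is.n).psum u :=
    pvnc_psum_congr (by rw [pvt_c_seg_n p 0 (by omega), pvt_c_seg_n _ ip le_rfl]; omega) (fun i hi => by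
      rw [pvt_c_seg_n p 0 (by omega)] at hi
      show p.e (0 + i) = Is.e (ip + i)
      rw [Nat.zero_add]
      exact pe1 i (by omega)) u
  have c2 : (p.seg k₂ p.n).psum u = (It.seg 0 im).psum u :=
    pvnc_psum_congr (by rw [pvt_c_seg_n p k₂ le_rfl, pvt_c_seg_n _ 0 him.le]; omega) (fun i hi => by
      rw [pvt_c_seg_n p k₂ le_rfl] at hi
      show p.e (k₂ + i) = It.e (0 + i)
      rw [Nat.zero_add]
      exact pe2 i (by omega)) u
  rw [c1, c2]

/-- **TR14, ALGEBRA**.   `w` = the total weight, `wj j` = the weight of the connector `j` (mask form), `u₁ u₂` = the two weights of `X_g` (`pvdcX`: `u₁` on the whole inner arc of `s`, `u₂` on `p`);   `y` = the outer part of `p`.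
The weights are compared on the tags of the pieces only. -/
theorem pvnc_mass {n : ℕ} (hn : 0 < n) {I L : ℕ → T.Pth} {p y : T.Pth} {ip im : ℕ} (hip : ip ≤ (I n).n) (him : im ≤ (I 0).n)
    (hpd : ∀ u : D → ℂ, p.psum u = ((I n).seg ip (I n).n).psum u + y.psum u + ((I 0).seg 0 im).psum u)
    (w u₁ u₂ : D → ℂ) (wj : ℕ → D → ℂ)
    (hL : ∀ j, j < n → ∀ k, k < (L j).n → wj j (T.opp ((L j).e k)) = w (T.opp ((L j).e k)))
    (hI : ∀ j, 0 < j → j < n → ∀ k, k < (I j).n → wj (j - 1) (T.opp ((I j).e k)) + wj j (T.opp ((I j).e k)) = w (T.opp ((I j).e k)))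
    (hs1 : ∀ k, k < ip → wj (n - 1) (T.opp ((I n).e k)) + u₁ (T.opp ((I n).e k)) = w (T.opp ((I n).e k)))
    (hs2 : ∀ k, ip ≤ k → k < (I n).n → wj (n - 1) (T.opp ((I n).e k)) + u₁ (T.opp ((I n).e k)) + u₂ (T.opp ((I n).e k)) = w (T.opp ((I n).e k)))
    (ht1 : ∀ k, k < im → wj 0 (T.opp ((I 0).e k)) + u₂ (T.opp ((I 0).e k)) = w (T.opp ((I 0).e k)))
    (ht2 : ∀ k, im ≤ k → k < (I 0).n → wj 0 (T.opp ((I 0).e k)) = w (T.opp ((I 0).e k)))
    (hy : ∀ k, k < y.n → u₂ (T.opp (y.e k)) = w (T.opp (y.e k))) :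
    ((I n).seg 0 ip).psum w + p.psum w + ((I 0).seg im (I 0).n).psum w + ∑ j ∈ Finset.range (n - 1), (I (j + 1)).psum w + ∑ j ∈ Finset.range n, (L j).psum w =
      ((I n).psum u₁ + p.psum u₂) + ∑ j ∈ Finset.range n, ((I j).psum (wj j) + (L j).psum (wj j) + (I (j + 1)).psum (wj j)) := by
  obtain ⟨m, rfl⟩ : ∃ m, n = m + 1 := ⟨n - 1, by omega⟩
  rw [Nat.add_sub_cancel] at hs1 hs2 ⊢
  have eL : ∑ j ∈ Finset.range (m + 1), (L j).psum (wj j) = ∑ j ∈ Finset.range (m + 1), (L j).psum w :=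
    Finset.sum_congr rfl fun j hj => pvnc_psum_tags (hL j (Finset.mem_range.1 hj))
  have eI : ∑ j ∈ Finset.range m, (I (j + 1)).psum w = ∑ j ∈ Finset.range m, ((I (j + 1)).psum (wj j) + (I (j + 1)).psum (wj (j + 1))) :=
    Finset.sum_congr rfl fun j hj => by
      rw [← pvnc_psum_add]
      exact pvnc_psum_tags fun k hk => ((hI (j + 1) (Nat.succ_pos j) (by have := Finset.mem_range.1 hj; omega) k hk)).symm
  have sA : ((I (m + 1)).seg 0 ip).psum w = ((I (m + 1)).seg 0 ip).psum (wj m) + ((I (m + 1)).seg 0 ip).psum u₁ := by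
    rw [← pvnc_psum_add]
    refine pvnc_psum_tags fun k hk => ?_
    rw [pvt_c_seg_n _ 0 hip] at hk
    show w (T.opp ((I (m + 1)).e (0 + k))) = wj m (T.opp ((I (m + 1)).e (0 + k))) + u₁ (T.opp ((I (m + 1)).e (0 + k)))
    rw [Nat.zero_add]
    exact (hs1 k (by omega)).symm
  have sS : ((I (m + 1)).seg ip (I (m + 1)).n).psum w =
      ((I (m + 1)).seg ip (I (m + 1)).n).psum (wj m) + ((I (m + 1)).seg ip (I (m + 1)).n).psum u₁ + ((I (m + 1)).seg ip (I (m + 1)).n).psum u₂ := by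
    rw [← pvnc_psum_add, ← pvnc_psum_add]
    refine pvnc_psum_tags fun k hk => ?_
    rw [pvt_c_seg_n _ ip le_rfl] at hk
    exact (hs2 (ip + k) (by omega) (by omega)).symm
  have sT : ((I 0).seg 0 im).psum w = ((I 0).seg 0 im).psum (wj 0) + ((I 0).seg 0 im).psum u₂ := by
    rw [← pvnc_psum_add]
    refine pvnc_psum_tags fun k hk => ?_
    rw [pvt_c_seg_n _ 0 him] at hk
    show w (T.opp ((I 0).e (0 + k))) = wj 0 (T.opp ((I 0).e (0 + k))) + u₂ (T.opp ((I 0).e (0 + k)))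
    rw [Nat.zero_add]
    exact (ht1 k (by omega)).symm
  have sB : ((I 0).seg im (I 0).n).psum w = ((I 0).seg im (I 0).n).psum (wj 0) := by
    refine pvnc_psum_tags fun k hk => ?_
    rw [pvt_c_seg_n _ im le_rfl] at hk
    exact (ht2 (im + k) (by omega) (by omega)).symm
  have sy : y.psum w = y.psum u₂ := pvnc_psum_tags fun k hk => (hy k hk).symm
  rw [Finset.sum_add_distrib, Finset.sum_add_distrib, eL, Finset.sum_range_succ' (fun j => (I j).psum (wj j)), Finset.sum_range_succ (fun j => (I (j + 1)).psum (wj j)),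
    eI, Finset.sum_add_distrib, hpd w, hpd u₂, sA, sS, sT, sB, sy, pvgz_psum_split (I (m + 1)) hip u₁, pvgz_psum_split (I (m + 1)) hip (wj m), pvgz_psum_split (I 0) him (wj 0)]
  ring

/-- **CLOSE + TR14, MAP LEVEL**: the hypotheses of `pvnc_main` + the identities of `pvnc_mass` on the tags of the pieces   ⟹   a rim `P` made of the pieces whose `w`-mass is `X_g + ∑_j X_j` -/
theorem pvnc_total (hT : T.IsSph) (hS : T.Simple) {n : ℕ} {G : ℕ → T.Gate s} {I L : ℕ → T.Pth} (H : PvncChain T s n G I L) (hn : 0 < n)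
    {p : T.Pth} {ip im : ℕ} (F : PvncFree T s n G I L p ip im) (hB : pvtaB p s)
    {X : Set V} (hX : ∀ v ∈ X, s v = false) {r r' : V} (hr : r ∈ (G n).R) (hr' : r' ∈ (G 0).R) (hlane : T.Join Set.univ X r' r)
    {Fz : Set V} (hpF : p.verts ⊆ Fz) (hXF : X ⊆ Fz) (hsF : T.VOf (G n).c.Left ⊆ Fz) (htF : T.VOf (G 0).c.Left ⊆ Fz)
    {l : ℕ} (hl0 : 0 < l) (hl : l ≤ (L (n - 1)).n) {U Λ : Set V} (hΛ : ∀ a ∈ Λ, ReflTransGen (fun u v => T.Adj u v ∧ v ∉ Fz) ((L (n - 1)).v l) a)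
    (hN : pvtaN p s U ({(I n).rap (ip - 1)} ∪ Λ))
    (w u₁ u₂ : D → ℂ) (wj : ℕ → D → ℂ)
    (hL : ∀ j, j < n → ∀ k, k < (L j).n → wj j (T.opp ((L j).e k)) = w (T.opp ((L j).e k)))
    (hI : ∀ j, 0 < j → j < n → ∀ k, k < (I j).n → wj (j - 1) (T.opp ((I j).e k)) + wj j (T.opp ((I j).e k)) = w (T.opp ((I j).e k)))
    (hs1 : ∀ k, k < ip → wj (n - 1) (T.opp ((I n).e k)) + u₁ (T.opp ((I n).e k)) = w (T.opp ((I n).e k)))
    (hs2 : ∀ k, ip ≤ k → k < (I n).n → wj (n - 1) (T.opp ((I n).e k)) + u₁ (T.opp ((I n).e k)) + u₂ (T.opp ((I n).e k)) = w (T.opp ((I n).e k)))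
    (ht1 : ∀ k, k < im → wj 0 (T.opp ((I 0).e k)) + u₂ (T.opp ((I 0).e k)) = w (T.opp ((I 0).e k)))
    (ht2 : ∀ k, im ≤ k → k < (I 0).n → wj 0 (T.opp ((I 0).e k)) = w (T.opp ((I 0).e k)))
    (hy : ∀ k, (I n).n - ip ≤ k → k + im < p.n → u₂ (T.opp (p.e k)) = w (T.opp (p.e k))) :
    ∃ P : T.Cyc, P.IsRim s ∧
      (∀ j, j ≤ n → ∀ i, i < (I j).n → ∃ k, P.e k = (I j).e i) ∧ (∀ j, j < n → ∀ i, i < (L j).n → ∃ k, P.e k = (L j).e i) ∧ (∀ i, i < p.n → ∃ k, P.e k = p.e i) ∧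
      (∀ k, (∃ j, j ≤ n ∧ T.src (P.e k) ∈ (I j).verts) ∨ (∃ j, j < n ∧ T.src (P.e k) ∈ (L j).verts) ∨ T.src (P.e k) ∈ p.verts) ∧
      ∑ k ∈ Finset.range P.n, w (T.opp (P.e k)) =
        ((I n).psum u₁ + p.psum u₂) + ∑ j ∈ Finset.range n, ((I j).psum (wj j) + (L j).psum (wj j) + (I (j + 1)).psum (wj j)) := by
  obtain ⟨hp, -, -, -, -, -, -, -, -, -, P, hrim, hPI, hPL, hPp, hPv, hsum⟩ := pvnc_main hT hS H hn F hB hX hr hr' hlane hpF hXF hsF htF hl0 hl hΛ hN
  refine ⟨P, hrim, hPI, hPL, hPp, hPv, ?_⟩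
  have hs := H.hinn n le_rfl
  have ht := H.hinn 0 (Nat.zero_le _)
  have hw : T.Mono s r' r := pvt_c_join_mono (r := false) (pl_hx_join_mono Set.Subset.rfl (fun v hv => hX v hv) hlane)
  rw [hsum w]
  refine pvnc_mass hn F.ip_le F.im_lt.le (y := p.seg ((I n).n - ip) (p.n - im))
    (fun u => pvnc_psum_p hT hS (G n) (G 0) hs ht F.ip0 F.ip_le F.im_lt F.p0 F.p1 F.avs F.avt (H.dGG n 0 le_rfl (Nat.zero_le _) (by omega)) hp
      (pvgz_inn_gfaced hT (G n) hs hr) ((pvgz_inn_gfaced hT (G 0) ht hr').anchor hw) u) w u₁ u₂ wj hL hI hs1 hs2 ht1 ht2 fun k hk => ?_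
  rw [pvt_c_seg_n p _ (Nat.sub_le _ _)] at hk
  exact hy ((I n).n - ip + k) (by omega) (by omega)

end Claimed.Agent.R289
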