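-- KEEP
import Claimed.Agent.R289.Tr.ConnQ
import Claimed.Agent.R289.Tr.CloseN
import Claimed.Agent.R289.Tr.DomE
import Claimed.Agent.R289.Tr.Dict

/-!
# Row 289 (S0537, Cardy for Poisson-Voronoi), THE WALL, ROAD P, file Tr/CloseNQ : THE CLOSE OF A PATTERN (chain of connectors + free arc) IN THE VOCABULARY OF `Tr/ConnQ`, ENDING IN `PvdeCl`      (author helper260; prefix `pvcu_`, `Pvcu`)

`Tr/ConnQ` (113) closes a CYCLE of connectors (`pvkj_glue`, `pvkj_ring`, `pvkj_close`).   A pattern of P17 is a chain of `n` connectors `t → … → s` which is NOT closed, + the free arc `p` of `Tr/ArcP` (212).   `Tr/CloseN` (260) closes it at the map level.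
* sec. 1  `PvcuGeo n 𝔢 KE` (regions of a chain of `n + 1` ends and `n` corridors), **`pvcu_glue`** (n facts ⟹ ONE family of gates), **`pvcu_chain`** `: PvncChain` (the twin of `pvkj_ring`; at the two outer plugs the clauses
          `mk (g 0).vm ∉ KE 0`, `mk (g n).vp ∉ KE (n - 1)` replace "the previous / the next run").
* sec. 2  masks: the seven clauses of TR14 in marks ⟹ the identities of `pvnc_mass`.
* sec. 3  **`pvcu_cl`**: at one configuration: `n` facts `PvkjFt` + two states + the free arc + lane + zone / REGION + masks   ⟹   `∃ c, PvdeCl 0 B a₀ η c (X_g + ∑_j X_j)`.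
-/

set_option autoImplicit false
set_option linter.unusedSectionVars false
set_option linter.unusedVariables false

namespace Claimed.Agent.R289

open Set Relation Claims.C0465

/-! ## 1. the chain -/

section chain

variable {κ : Type} {V D : Type}

/-- **what the regions of a chain of `n + 1` plugs and `n` connectors owe** (in marks).      Plug `j ≤ n` has the end `𝔢 j`, the connector `j < n` runs from the plug `j` to the plug `j + 1` in the corridor `KE j`. -/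
structure PvcuGeo (n : ℕ) (𝔢 : ℕ → PvkjEnd κ) (KE : ℕ → Set κ) : Prop where
  pos : 0 < n
  ok : ∀ j, j ≤ n → (𝔢 j).Ok
  uq : ∀ j, j ≤ n → (𝔢 j).Uq
  /-- the zones of the plugs are pairwise disjoint -/
  dZZ : ∀ i j, i ≤ n → j ≤ n → i ≠ j → Disjoint (𝔢 i).Z (𝔢 j).Z
  /-- a corridor meets the zones of its two plugs only -/
  dKZ : ∀ i j, i ≤ n → j < n → i ≠ j → i ≠ j + 1 → Disjoint (KE j) (𝔢 i).Z
  /-- two corridors meet deep inside the plugs only -/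
  dKK : ∀ i j, i < n → j < n → i ≠ j → KE i ∩ KE j ⊆ (𝔢 i).I ∪ (𝔢 (i + 1)).I

variable {T : PvMap V D} {s : V → Bool} {mk : V → κ} {n : ℕ} {𝔢 : ℕ → PvkjEnd κ} {KE : ℕ → Set κ}

/-- **GLUE**: `n` links along a chain, each with its own two gates, are the links of ONE family of gates -/
theorem pvcu_glue (hT : T.IsSph) (hS : T.Simple) (G : PvcuGeo n 𝔢 KE) {P : ℕ → T.Gate s → T.Gate s → ℕ → Prop}
    (h : ∀ j, j < n → ∃ (g g' : T.Gate s) (N : ℕ), PvkjLk T mk s (𝔢 j) (𝔢 (j + 1)) (KE j) g g' N ∧ P j g g' N) :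
    ∃ (g : ℕ → T.Gate s) (N : ℕ → ℕ), ∀ j, j < n → PvkjLk T mk s (𝔢 j) (𝔢 (j + 1)) (KE j) (g j) (g (j + 1)) (N j) ∧ P j (g j) (g (j + 1)) (N j) := by
  classical
  have hn := G.pos
  choose A B M hABM using h
  have hB : ∀ a b (e : a = b) (ha : a < n) (hb : b < n), B a ha = B b hb := by
    intro a b e ha hb; subst e; rfl
  refine ⟨fun j => if hj : j < n then A j hj else B (n - 1) (by omega), fun j => if hj : j < n then M j hj else 0, fun j hj => ?_⟩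
  have e1 : (if hj : j < n then A j hj else B (n - 1) (by omega)) = A j hj := dif_pos hj
  have e2 : (if hj : j < n then M j hj else 0) = M j hj := dif_pos hj
  have e3 : (if hj : j + 1 < n then A (j + 1) hj else B (n - 1) (by omega)) = B j hj := by
    by_cases h1 : j + 1 < n
    · rw [dif_pos h1]
      exact G.uq (j + 1) h1.le V D T mk s hT hS _ _ (hABM (j + 1) h1).1.is (hABM j hj).1.is'
    · rw [dif_neg h1]
      exact hB _ _ (by omega) _ _
  show PvkjLk T mk s (𝔢 j) (𝔢 (j + 1)) (KE j) (if hj : j < n then A j hj else B (n - 1) (by omega)) (if hj : j + 1 < n then A (j + 1) hj else B (n - 1) (by omega))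
      (if hj : j < n then M j hj else 0) ∧
    P j (if hj : j < n then A j hj else B (n - 1) (by omega)) (if hj : j + 1 < n then A (j + 1) hj else B (n - 1) (by omega)) (if hj : j < n then M j hj else 0)
  rw [e1, e2, e3]
  exact hABM j hj

/-- **THE CHAIN OF `Tr/CloseN`** from `n` links      (the twin of `pvkj_ring` of 113) -/
theorem pvcu_chain [DecidableEq V] (hT : T.IsSph) (hS : T.Simple) (G : PvcuGeo n 𝔢 KE) {g : ℕ → T.Gate s} {N : ℕ → ℕ} (hfin : ∀ j, j ≤ n → (g j).c.Left.Finite)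
    (H : ∀ j, j < n → PvkjLk T mk s (𝔢 j) (𝔢 (j + 1)) (KE j) (g j) (g (j + 1)) (N j)) (h0 : mk (g 0).vm ∉ KE 0) (h1 : mk (g n).vp ∉ KE (n - 1)) :
    PvncChain T s n g (fun j => pvtArc T s (g j).aIn (g j).len) (fun j => pvtArc T s (g j).aOut (N j)) := by
  have hn := G.pos
  have hlk := fun j (hj : j < n) => pvkj_lk_arc hT hS (H j hj).run
  have his : ∀ j, j ≤ n → (𝔢 j).Is V D T mk s (g j) := by
    intro j hj
    rcases Nat.lt_or_ge j n with h | h
    · exact (H j h).is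
    · have := (H (n - 1) (by omega)).is'
      rwa [show n - 1 + 1 = j by omega] at this
  have hz : ∀ i, i ≤ n → ∀ x, x ∈ T.VOf (g i).c.Left → mk x ∈ (𝔢 i).Z := by
    rintro i hi x ⟨d, hd, rfl⟩
    exact (G.ok i hi).zone V D T mk s (g i) (his i hi) d hd
  have hdeep : ∀ i, i ≤ n → ∀ x, mk x ∈ (𝔢 i).I → x ∈ T.Int (g i).c.Left := by
    intro i hi x hx d hd
    subst hd
    exact (G.ok i hi).deep V D T mk s (g i) (his i hi) d hx
  have hKS := fun j (hj : j < n) (k : ℕ) (hk : k ≤ (pvtArc T s (g j).aOut (N j)).n) => pvkj_lk_verts (H j hj).run hk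
  have hKK : ∀ i j, i < n → j < n → i ≠ j → ∀ x, x ∈ pvzlKS T mk (KE i) (g i) (g (i + 1)) → mk x ∈ KE j → False := by
    intro i j hi hj hij x hx hxj
    rcases G.dKK i j hi hj hij ⟨hx.1, hxj⟩ with h2 | h2
    · exact hx.2.1 (hdeep i hi.le x h2)
    · exact hx.2.2 (hdeep (i + 1) hi x h2)
  refine ⟨fun j hj => ?_, fun j hj => (hlk j hj).1, fun j hj => (hlk j hj).2.1, fun j hj => (hlk j hj).2.2.1,
    fun j hj => (hlk j hj).2.2.2, fun j hj => ?_, fun i j hi hj hij => ?_, fun i j hi hj k k0 hk => ?_, fun i j hi hj hij k l k0 hk l0 hl e => ?_⟩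
  · obtain ⟨L, hL⟩ := (G.ok j hj).thru V D T mk s (g j) (his j hj)
    exact pvkj_inn hT hS (g j) (hfin j hj) (hL.len hT).2
  · obtain ⟨L, hL⟩ := (G.ok j hj).thru V D T mk s (g j) (his j hj)
    have := pvt_s_it_wall (pvtg_aIn_bw (g j)) L
    rw [hL.2.1] at this
    exact this
  · exact Set.disjoint_left.2 fun x a1 a2 => Set.disjoint_left.1 (G.dZZ i j hi hj hij) (hz i hi x a1) (hz j hj x a2)
  · intro hx
    obtain ⟨hks, hbl⟩ := hKS j hj k hk.le
    by_cases e1 : i = j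
    · subst e1
      rw [pl_VOf_left hT] at hx
      rcases hx with hx | hx
      · rcases pvtg_black (g i) hx hbl with hv | hv
        · rcases Nat.eq_zero_or_pos i with rfl | i0
          · exact h0 (hv ▸ hks.1)
          · obtain ⟨i', rfl⟩ : ∃ i', i = i' + 1 := ⟨i - 1, by omega⟩
            have hi' : i' < n := by omega
            have h5 := (hKS i' hi' _ le_rfl).1
            rw [(hlk _ hi').2.1, ← hv] at h5
            exact hKK i' (i' + 1) hi' hj (by omega) _ h5 hks.1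
        · have := (pvtArc T s (g i).aOut (N i)).inj k 0 hk.le (Nat.zero_le _) (by rw [hv, (hlk i hj).1])
          omega
      · exact hks.2.1 hx
    · by_cases e2 : i = j + 1
      · subst e2
        rw [pl_VOf_left hT] at hx
        rcases hx with hx | hx
        · rcases pvtg_black (g (j + 1)) hx hbl with hv | hv
          · have := (pvtArc T s (g j).aOut (N j)).inj k _ hk.le le_rfl (by rw [hv, (hlk j hj).2.1])
            omega
          · rcases Nat.lt_or_ge (j + 1) n with h2 | h2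
            · have h5 := (hKS (j + 1) h2 0 (Nat.zero_le _)).1
              rw [(hlk _ h2).1, ← hv] at h5
              exact hKK j (j + 1) hj h2 (by omega) _ hks h5.1
            · have e3 : j + 1 = n := by omega
              rw [e3] at hv
              refine h1 ?_
              rw [← hv, show n - 1 = j by omega]
              exact hks.1
        · exact hks.2.2 hx
      · exact Set.disjoint_left.1 (G.dKZ i j hi hj e1 e2) hks.1 (hz i hi _ hx)
  · have a1 := (hKS i hi k hk.le).1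
    have a2 := (hKS j hj l hl.le).1
    rw [← e] at a2
    exact hKK i j hi hj hij _ a1 a2.1

end chain

/-! ## 2. masks, regions, the data at one marked coloured sphere -/

section map

variable {V D : Type}

/-- the `Q`-weight in the mask `M` (`= pvcmW = pvkiW` at the plane map of a configuration) -/
noncomputable def pvcuW (T : PvMap V D) (mk : V → ℂ) (M : Set ℂ) (d : D) : ℂ := M.indicator 1 (T.bary mk d) * T.qpart mk d

theorem pvcu_eqns_cite : True := by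
  have := @pvcuW.eq_1
  trivial

theorem pvcu_W_in {T : PvMap V D} {mk : V → ℂ} {M : Set ℂ} {d : D} (h : T.bary mk d ∈ M) : pvcuW T mk M d = T.qpart mk d := by
  unfold pvcuW
  rw [Set.indicator_of_mem h]
  simp

theorem pvcu_W_out {T : PvMap V D} {mk : V → ℂ} {M : Set ℂ} {d : D} (h : T.bary mk d ∉ M) : pvcuW T mk M d = 0 := by
  unfold pvcuW
  rw [Set.indicator_of_notMem h, zero_mul]

/-- **WHAT THE REGIONS OF A PATTERN OWE TO CLOSE** (deterministic; marks = positions).   `𝔢 0 = ` big end of `t`, `𝔢 n = ` big end of `s`, `KE j` corridors, `Mk j` masks, `U j` rooms of the tags of the inner arcs of the inner plugs,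
`Ug` = tube of the vertices of the free arc, `Zn` = THE ZONE (`UN \ Lam`: region of `N_g` without its boundary layer), `B`, `a₀` = box and size of the rims -/
structure PvcuReg (n : ℕ) (𝔢 : ℕ → PvkjEnd ℂ) (KE Mk U : ℕ → Set ℂ) (𝔯s 𝔯t : PvspReg ℂ) (Ug Zn B : Set ℂ) (a₀ : ℝ) : Prop where
  geo : PvcuGeo n 𝔢 KE
  two : 2 ≤ n
  e0 : 𝔢 0 = pvkjBig 𝔯t
  en : 𝔢 n = pvkjBig 𝔯s
  UM : ∀ j, 0 < j → j < n → U j ⊆ Mk (j - 1) ∪ Mk j
  dMM : ∀ j, 0 < j → j < n → Disjoint (Mk (j - 1)) (Mk j)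
  /-- the tube is off the inner plugs, and meets the corridors deep inside the plugs only -/
  dUZ : ∀ i, 0 < i → i < n → Disjoint Ug (𝔢 i).Z
  dUK : ∀ j, j < n → Ug ∩ KE j ⊆ (𝔢 j).I ∪ (𝔢 (j + 1)).I
  /-- the room of `v₂⁻(t)` against the first corridor, the room of `v₂⁺(s)` against the last one -/
  hNm : 𝔯t .Nm ∩ KE 0 ⊆ 𝔯t .I2
  hNp : 𝔯s .Np ∩ KE (n - 1) ⊆ 𝔯s .I2
  /-- the zone contains the tube and the zones of the two states, it misses the last inner plug -/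
  UgZ : Ug ⊆ Zn
  ZsZ : 𝔯s .S2 ⊆ Zn
  ZtZ : 𝔯t .S2 ⊆ Zn
  dZn : Disjoint (𝔢 (n - 1)).Z Zn
  ZB : ∀ j, j ≤ n → (𝔢 j).Z ⊆ B
  KB : ∀ j, j < n → KE j ⊆ B
  UB : Ug ⊆ B
  big : ∀ x ∈ 𝔯t .S2, ∀ y ∈ 𝔯s .S2, a₀ ≤ ‖x - y‖

/-- **THE FREE ARC AT ONE MARKED COLOURED MAP** = the clauses of `Is` of 212 (`Tr/ArcP`) which CLOSE reads -/
structure PvcuArc (T : PvMap V D) (s : V → Bool) (mk : V → ℂ) (𝔯s 𝔯t : PvspReg ℂ) (Ug UN Lam : Set ℂ) (Ss St : PvspSt T s) (p : T.Pth) : Prop where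
  stars : PvplStar T mk (fun w => w ∈ 𝔯s .O2) (𝔯s .S2)
  start : PvplStar T mk (fun w => w ∈ 𝔯t .O2) (𝔯t .S2)
  ats : Ss.At mk 𝔯s
  att : St.At mk 𝔯t
  src : p.v 0 = Ss.g1.vp
  tgt : p.v p.n = St.g1.vm
  black : pvtaB p s
  faced : pvtaN p s {v | mk v ∈ UN} ({Ss.inn.rap (Ss.ip - 1)} ∪ {v | mk v ∈ Lam})
  tube : ∀ i, i ≤ p.n → mk (p.v i) ∈ Ug
  avs : ∀ k, k ≤ p.n → ∀ i, i < Ss.ip → p.v k ≠ Ss.inn.v i
  avt : ∀ k, k ≤ p.n → ∀ i, St.im < i → i ≤ St.inn.n → p.v k ≠ St.inn.v i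

/-- **TR14 IN MARKS**: where the barycentres of the tags of the two big inner arcs and of the outer part of `p` lie (`Me` = mask of the LAST connector, which enters `s`; `Mo` = mask of the FIRST connector, which leaves `t`;
`Bs Bt` = the two cut-off discs: the disc of a big plug belongs to its EXIT connector) -/
structure PvcuMk (T : PvMap V D) {s : V → Bool} (mk : V → ℂ) (Me Mo Bs Bt : Set ℂ) (Ss St : PvspSt T s) (p : T.Pth) : Prop where
  s1 : ∀ i, i < Ss.ip → (T.bary mk (T.opp (Ss.inn.e i)) ∈ Me ↔ T.bary mk (T.opp (Ss.inn.e i)) ∉ Bs)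
  s2 : ∀ i, Ss.ip ≤ i → i < Ss.inn.n → T.bary mk (T.opp (Ss.inn.e i)) ∉ Me ∧ T.bary mk (T.opp (Ss.inn.e i)) ∉ Bt
  t1 : ∀ i, i < St.im → (T.bary mk (T.opp (St.inn.e i)) ∈ Mo ↔ T.bary mk (T.opp (St.inn.e i)) ∈ Bs ∪ Bt)
  t2 : ∀ i, St.im ≤ i → i < St.inn.n → T.bary mk (T.opp (St.inn.e i)) ∈ Mo
  y : ∀ k, Ss.inn.n - Ss.ip ≤ k → k + St.im < p.n → T.bary mk (T.opp (p.e k)) ∉ Bs ∪ Bt

variable [DecidableEq V] {T : PvMap V D} {s : V → Bool} {mk : V → ℂ} {n : ℕ} {𝔢 : ℕ → PvkjEnd ℂ} {KE Mk U : ℕ → Set ℂ} {𝔯s 𝔯t : PvspReg ℂ} {Ug Zn UN Lam Bs Bt B : Set ℂ} {a₀ : ℝ}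

/-- **CLOSE OF A PATTERN AT ONE MARKED COLOURED SPHERE** -/
theorem pvcu_map (hT : T.IsSph) (hS : T.Simple) (Rg : PvcuReg n 𝔢 KE Mk U 𝔯s 𝔯t Ug Zn B a₀) {g : ℕ → T.Gate s} {N : ℕ → ℕ} (hfin : ∀ j, j ≤ n → (g j).c.Left.Finite)
    (H : ∀ j, j < n → PvkjLk T mk s (𝔢 j) (𝔢 (j + 1)) (KE j) (g j) (g (j + 1)) (N j))
    (blk : ∀ j, j < n → ∀ i, i < (pvtArc T s (g j).aOut (N j)).n → T.bary mk (T.opp ((pvtArc T s (g j).aOut (N j)).e i)) ∈ Mk j)
    (binn : ∀ j, j < n → ∀ i, i < (pvtArc T s (g (j + 1)).aIn (g (j + 1)).len).n → T.bary mk (T.opp ((pvtArc T s (g (j + 1)).aIn (g (j + 1)).len).e i)) ∈ U (j + 1))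
    {Ss St : PvspSt T s} {p : T.Pth} (A : PvcuArc T s mk 𝔯s 𝔯t Ug UN Lam Ss St p) (M : PvcuMk T mk (Mk (n - 1)) (Mk 0) Bs Bt Ss St p)
    {X : Set V} (hX : ∀ v ∈ X, s v = false ∧ mk v ∈ Zn) {r r' : V} (hr : r ∈ Ss.g2.R) (hr' : r' ∈ St.g2.R) (hlane : T.Join Set.univ X r' r)
    (hreg : ∀ c₀ a : V, mk c₀ ∈ (𝔢 (n - 1)).Z → mk a ∈ Lam → ReflTransGen (fun u v => T.Adj u v ∧ mk v ∉ Zn) c₀ a) :
    ∃ P : T.Cyc, P.IsRim s ∧ (∀ k, mk (T.src (P.e k)) ∈ B) ∧ (∃ k k', a₀ ≤ ‖mk (T.src (P.e k)) - mk (T.src (P.e k'))‖) ∧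
      ∑ k ∈ Finset.range P.n, T.qpart mk (T.opp (P.e k)) = pvdcX (T.bary mk) (T.qpart mk) Bs Bt Ss.inn p +
        ∑ j ∈ Finset.range n, ((pvtArc T s (g j).aIn (g j).len).psum (pvcuW T mk (Mk j)) + (pvtArc T s (g j).aOut (N j)).psum (pvcuW T mk (Mk j)) +
          (pvtArc T s (g (j + 1)).aIn (g (j + 1)).len).psum (pvcuW T mk (Mk j))) := by
  have G := Rg.geo
  have hn := G.pos
  have hn2 := Rg.two
  have his : ∀ j, j ≤ n → (𝔢 j).Is V D T mk s (g j) := by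
    intro j hj
    rcases Nat.lt_or_ge j n with h | h
    · exact (H j h).is
    · have := (H (n - 1) (by omega)).is'
      rwa [show n - 1 + 1 = j by omega] at this
  have hz : ∀ i, i ≤ n → ∀ x, x ∈ T.VOf (g i).c.Left → mk x ∈ (𝔢 i).Z := by
    rintro i hi x ⟨d, hd, rfl⟩
    exact (G.ok i hi).zone V D T mk s (g i) (his i hi) d hd
  have hdeep : ∀ i, i ≤ n → ∀ x, mk x ∈ (𝔢 i).I → x ∈ T.Int (g i).c.Left := by
    intro i hi x hx d hd
    subst hd
    exact (G.ok i hi).deep V D T mk s (g i) (his i hi) d hx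
  have hgn : g n = Ss.g2 := G.uq n le_rfl V D T mk s hT hS _ _ (his n le_rfl) (by rw [Rg.en]; exact ⟨A.stars, Ss, A.ats, rfl⟩)
  have hg0 : g 0 = St.g2 := G.uq 0 (Nat.zero_le _) V D T mk s hT hS _ _ (his 0 (Nat.zero_le _)) (by rw [Rg.e0]; exact ⟨A.start, St, A.att, rfl⟩)
  have h0 : mk (g 0).vm ∉ KE 0 := by
    intro h
    have h2 : mk (g 0).vm ∈ (𝔢 0).I := by
      rw [Rg.e0]
      exact Rg.hNm ⟨by rw [hg0]; exact A.att.vm, h⟩
    exact pvgz_verts_not_int hT (g 0).c 0 (hdeep 0 (Nat.zero_le _) _ h2)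
  have h1 : mk (g n).vp ∉ KE (n - 1) := by
    intro h
    have h2 : mk (g n).vp ∈ (𝔢 n).I := by
      rw [Rg.en]
      exact Rg.hNp ⟨by rw [hgn]; exact A.ats.vp, h⟩
    exact pvgz_verts_not_int hT (g n).c (g n).m (hdeep n le_rfl _ h2)
  have C := pvcu_chain hT hS G hfin H h0 h1
  obtain ⟨I, hI⟩ : ∃ I : ℕ → T.Pth, I = fun j => pvtArc T s (g j).aIn (g j).len := ⟨_, rfl⟩
  obtain ⟨L, hL⟩ : ∃ L : ℕ → T.Pth, L = fun j => pvtArc T s (g j).aOut (N j) := ⟨_, rfl⟩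
  have eI : ∀ j, pvtArc T s (g j).aIn (g j).len = I j := fun j => by rw [hI]
  have eL : ∀ j, pvtArc T s (g j).aOut (N j) = L j := fun j => by rw [hL]
  rw [← hI, ← hL] at C
  simp only [eI, eL] at blk binn ⊢
  have hKS : ∀ j, j < n → ∀ k, k ≤ (L j).n → (L j).v k ∈ pvzlKS T mk (KE j) (g j) (g (j + 1)) := fun j hj k hk => by
    rw [← eL] at hk ⊢
    exact (pvkj_lk_verts (H j hj).run hk).1
  -- the inner arcs of the two states
  have hsI : (g n).IsInn Ss.inn := by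
    rw [hgn]
    exact pvgz_inn_of_le hT hS Ss.g2 (hgn ▸ hfin n le_rfl) A.ats.sel2.thru A.ats.arc
  have htI : (g 0).IsInn St.inn := by
    rw [hg0]
    exact pvgz_inn_of_le hT hS St.g2 (hg0 ▸ hfin 0 (Nat.zero_le _)) A.att.sel2.thru A.att.arc
  obtain ⟨sn, se⟩ := pvgz_inn_unique hT hS (g n) hsI (C.hinn n le_rfl)
  obtain ⟨tn, te⟩ := pvgz_inn_unique hT hS (g 0) htI (C.hinn 0 (Nat.zero_le _))
  have sv : ∀ i, i ≤ Ss.inn.n → Ss.inn.v i = (I n).v i := fun i hi => pvgz_pth_v sn (by rw [hsI.1.h0, (C.hinn n le_rfl).1.h0]) se hi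
  have tv : ∀ i, i ≤ St.inn.n → St.inn.v i = (I 0).v i := fun i hi => pvgz_pth_v tn (by rw [htI.1.h0, (C.hinn 0 (Nat.zero_le _)).1.h0]) te hi
  have a1 := A.ats.im_lt
  have a2 := A.ats.ip_le
  have a3 := A.att.im_lt
  have a4 := A.att.ip_le
  have F : PvncFree T s n g I L p Ss.ip St.im := by
    refine ⟨by omega, by omega, by omega, ?_, ?_, fun k hk i hi => ?_, fun k hk i hi hin => ?_, fun k hk i i0 hi hx => ?_, fun k hk j hj l l0 l1 e => ?_⟩
    · rw [A.src, ← A.ats.ip_eq, sv _ a2]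
    · rw [A.tgt, ← A.att.im_eq, tv _ (by omega)]
    · rw [← sv i (by omega)]; exact A.avs k hk i hi
    · rw [← tv i (by omega)]; exact A.avt k hk i hi (by omega)
    · exact Set.disjoint_left.1 (Rg.dUZ i i0 hi) (A.tube k hk) (hz i hi.le _ hx)
    · have hks := hKS j hj l l1.le
      rcases Rg.dUK j hj ⟨A.tube k hk, e ▸ hks.1⟩ with h | h
      · exact hks.2.1 (hdeep j hj.le _ (e ▸ h))
      · exact hks.2.2 (hdeep (j + 1) hj _ (e ▸ h))
  -- zone, REGION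
  have hpF : p.verts ⊆ {v | mk v ∈ Zn} := by
    rintro _ ⟨i, hi, rfl⟩
    exact Rg.UgZ (A.tube i hi)
  have hsF : T.VOf (g n).c.Left ⊆ {v | mk v ∈ Zn} := fun x hx => by
    have := hz n le_rfl x hx
    rw [Rg.en] at this
    exact Rg.ZsZ this
  have htF : T.VOf (g 0).c.Left ⊆ {v | mk v ∈ Zn} := fun x hx => by
    have := hz 0 (Nat.zero_le _) x hx
    rw [Rg.e0] at this
    exact Rg.ZtZ this
  have hj1 : n - 1 < n := by omega
  have hvpm : (g (n - 1)).vp ∈ T.VOf (g (n - 1)).c.Left := ⟨(g (n - 1)).c.e (g (n - 1)).m, (pl_jordan hT (g (n - 1)).c).2.1 _, rfl⟩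
  have hl : 1 ≤ (L (n - 1)).n := by
    by_contra hc
    have e0 : (L (n - 1)).n = 0 := by omega
    have e : (g (n - 1)).vp = (g (n - 1 + 1)).vm := by rw [← C.lk0 _ hj1, ← C.lk1 _ hj1, e0]
    exact Set.disjoint_left.1 (C.dGG (n - 1) (n - 1 + 1) (by omega) (by omega) (by omega)) hvpm (e ▸ pvgz_vm_mem hT _)
  have hΛ : ∀ a ∈ {v | mk v ∈ Lam}, ReflTransGen (fun u v => T.Adj u v ∧ v ∉ {v | mk v ∈ Zn}) ((L (n - 1)).v 1) a := by
    intro a ha
    have hm : mk ((L (n - 1)).v 0) ∈ (𝔢 (n - 1)).Z := by rw [C.lk0 _ hj1]; exact hz (n - 1) (by omega) _ hvpm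
    refine ReflTransGen.head ⟨⟨T.opp ((L (n - 1)).e 0), ?_, ?_⟩, fun h => Set.disjoint_left.1 Rg.dZn hm h⟩ (hreg _ a hm ha)
    · rw [T.src_opp', (L (n - 1)).tgt_e 0 (by omega)]
    · rw [T.tgt_opp, (L (n - 1)).src_e 0 (by omega)]
  have hN : pvtaN p s {v | mk v ∈ UN} ({(I n).rap (Ss.ip - 1)} ∪ {v | mk v ∈ Lam}) := by
    have e : (I n).rap (Ss.ip - 1) = Ss.inn.rap (Ss.ip - 1) := by
      unfold PvMap.Pth.rap
      rw [se _ (by omega)]
    rw [e]
    exact A.faced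
  -- the weights
  have dIn : ∀ {Bx : Set ℂ} {d : D}, T.bary mk d ∈ Bx → pvdcW (T.bary mk) (T.qpart mk) Bx d = T.qpart mk d := fun h => if_pos h
  have dOut : ∀ {Bx : Set ℂ} {d : D}, T.bary mk d ∉ Bx → pvdcW (T.bary mk) (T.qpart mk) Bx d = 0 := fun h => if_neg h
  obtain ⟨P, hrim, hPI, -, -, hPv, hsum⟩ := pvnc_total hT hS C hn F A.black (X := X) (fun v hv => (hX v hv).1) (r := r) (r' := r') (by rw [hgn]; exact hr) (by rw [hg0]; exact hr') hlane
    hpF (fun v hv => (hX v hv).2) hsF htF Nat.one_pos hl hΛ hN (T.qpart mk) (pvdcW (T.bary mk) (T.qpart mk) Bs) (pvdcW (T.bary mk) (T.qpart mk) (Bs ∪ Bt)ᶜ) (fun j => pvcuW T mk (Mk j))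
    (fun j hj k hk => pvcu_W_in (blk j hj k hk))
    (fun j j0 hj k hk => by
      have hb := binn (j - 1) (by omega)
      rw [show j - 1 + 1 = j by omega] at hb
      rcases Rg.UM j j0 hj (hb k hk) with h | h
      · rw [pvcu_W_in h, pvcu_W_out (fun h' => Set.disjoint_left.1 (Rg.dMM j j0 hj) h h'), add_zero]
      · rw [pvcu_W_in h, pvcu_W_out (fun h' => Set.disjoint_left.1 (Rg.dMM j j0 hj) h' h), zero_add])
    (fun k hk => by
      rw [← se k (by omega)]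
      by_cases h : T.bary mk (T.opp (Ss.inn.e k)) ∈ Bs
      · rw [dIn h, pvcu_W_out (fun h' => (M.s1 k hk).1 h' h), zero_add]
      · rw [dOut h, pvcu_W_in ((M.s1 k hk).2 h), add_zero])
    (fun k hk hk' => by
      rw [← se k (by omega)]
      obtain ⟨b1, b2⟩ := M.s2 k hk (by omega)
      rw [pvcu_W_out b1, zero_add]
      by_cases h : T.bary mk (T.opp (Ss.inn.e k)) ∈ Bs
      · rw [dIn h, dOut (Bx := (Bs ∪ Bt)ᶜ) (fun h' => h' (Or.inl h)), add_zero]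
      · rw [dOut h, dIn (show _ ∈ (Bs ∪ Bt)ᶜ from fun h' => h'.elim h b2), zero_add])
    (fun k hk => by
      rw [← te k (by omega)]
      by_cases h : T.bary mk (T.opp (St.inn.e k)) ∈ Bs ∪ Bt
      · rw [pvcu_W_in ((M.t1 k hk).2 h), dOut (Bx := (Bs ∪ Bt)ᶜ) (fun h' => h' h), add_zero]
      · rw [pvcu_W_out (fun h' => h ((M.t1 k hk).1 h')), dIn (show _ ∈ (Bs ∪ Bt)ᶜ from h), zero_add])
    (fun k hk hk' => by
      rw [← te k (by omega)]
      exact pvcu_W_in (M.t2 k hk (by omega)))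
    (fun k hk hk' => dIn (show _ ∈ (Bs ∪ Bt)ᶜ from M.y k (by omega) hk'))
  refine ⟨P, hrim, fun k => ?_, ?_, ?_⟩
  · rcases hPv k with ⟨j, hj, i, hi, e⟩ | ⟨j, hj, i, hi, e⟩ | ⟨i, hi, e⟩
    · rw [← e]
      exact Rg.ZB j hj (hz j hj _ (pvgz_psg_mem hT (g j) (C.hinn j hj).1 hi))
    · rw [← e]
      exact Rg.KB j hj (hKS j hj i hi).1
    · rw [← e]
      exact Rg.UB (A.tube i hi)
  · obtain ⟨k, hk⟩ := hPI 0 (Nat.zero_le _) 0 (pvgz_psg_pos (g 0) (C.hinn 0 (Nat.zero_le _)).1)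
    obtain ⟨k', hk'⟩ := hPI n le_rfl 0 (pvgz_psg_pos (g n) (C.hinn n le_rfl).1)
    refine ⟨k, k', Rg.big _ ?_ _ ?_⟩
    · rw [hk, (I 0).src_e 0 (pvgz_psg_pos (g 0) (C.hinn 0 (Nat.zero_le _)).1)]
      have := hz 0 (Nat.zero_le _) _ (pvgz_psg_mem hT (g 0) (C.hinn 0 (Nat.zero_le _)).1 (Nat.zero_le _))
      rwa [Rg.e0] at this
    · rw [hk', (I n).src_e 0 (pvgz_psg_pos (g n) (C.hinn n le_rfl).1)]
      have := hz n le_rfl _ (pvgz_psg_mem hT (g n) (C.hinn n le_rfl).1 (Nat.zero_le _))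
      rwa [Rg.en] at this
  · rw [hsum]
    congr 1
    unfold pvdcX
    rw [pvnc_psum_congr sn se]

end map

/-! ## 3. at one configuration -/

section conf

variable {n : ℕ} {𝔢 : ℕ → PvkjEnd ℂ} {KE Mk U : ℕ → Set ℂ} {𝔯s 𝔯t : PvspReg ℂ} {Ug Zn UN Lam Bs Bt B : Set ℂ} {a₀ : ℝ}

/-- **THE CLOSE OF A PATTERN AT ONE CONFIGURATION** (TR13 + TR14): `n` facts of 113 along the chain `t → … → s`, the free arc of 212 on the plane map, the lane of 147, zone / REGION, the masks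
⟹   a rim of the plane map, inside `B`, two vertices `a₀` apart, of `Q`-mass `X_g + ∑_j X_j`   (the clause `PvdeCl` of `PvnjPar.Cl`, `PvraCl`) -/
theorem pvcu_cl (Rg : PvcuReg n 𝔢 KE Mk U 𝔯s 𝔯t Ug Zn B a₀) {η : Conf PvPt} (hη : DelGood (cfSites η)) {b : Bool} {X : ℕ → ℂ}
    (hF : ∀ j, j < n → ∃ g g' N, PvkjFt η b (𝔢 j) (𝔢 (j + 1)) (KE j) (Mk j) (U (j + 1)) (X j) g g' N)
    {Ss St : PvspSt (pvkiT η) (pvlfFl b (pvkiS η))} {p : (pvkiT η).Pth} (A : PvcuArc (pvkiT η) (pvlfFl b (pvkiS η)) Subtype.val 𝔯s 𝔯t Ug UN Lam Ss St p)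
    (M : PvcuMk (pvkiT η) Subtype.val (Mk (n - 1)) (Mk 0) Bs Bt Ss St p)
    {Xl : Set ↥(cfSites η)} (hX : ∀ v ∈ Xl, pvlfFl b (pvkiS η) v = false ∧ (v : ℂ) ∈ Zn) {r r' : ↥(cfSites η)} (hr : r ∈ Ss.g2.R) (hr' : r' ∈ St.g2.R)
    (hlane : (pvkiT η).Join Set.univ Xl r' r)
    (hreg : ∀ c₀ a : ↥(cfSites η), (c₀ : ℂ) ∈ (𝔢 (n - 1)).Z → (a : ℂ) ∈ Lam → ReflTransGen (fun u v => (pvkiT η).Adj u v ∧ (v : ℂ) ∉ Zn) c₀ a) :
    ∃ c : (pvieT η).Cyc, PvdeCl 0 B a₀ η c (pvdcX ((pvkiT η).bary Subtype.val) ((pvkiT η).qpart Subtype.val) Bs Bt Ss.inn p + ∑ j ∈ Finset.range n, X j) := by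
  have hT : (pvkiT η).IsSph := delb_plane_isSph hη
  have hS : (pvkiT η).Simple := (delbPl (cfSites η)).toMap_simple
  have hn := Rg.geo.pos
  obtain ⟨g, N, hg⟩ := pvcu_glue (T := pvkiT η) (s := pvlfFl b (pvkiS η)) (mk := Subtype.val) hT hS Rg.geo
    (P := fun j g g' N => PvkjFt η b (𝔢 j) (𝔢 (j + 1)) (KE j) (Mk j) (U (j + 1)) (X j) g g' N)
    (fun j hj => by
      obtain ⟨g, g', N, h⟩ := hF j hj
      exact ⟨g, g', N, h.lk, h⟩)
  have hfin : ∀ j, j ≤ n → (g j).c.Left.Finite := by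
    intro j hj
    rcases Nat.lt_or_ge j n with h | h
    · exact (hg j h).2.fin
    · have := (hg (n - 1) (by omega)).2.fin'
      rwa [show n - 1 + 1 = j by omega] at this
  obtain ⟨P, hrim, hB, hbig, hsum⟩ := pvcu_map hT hS Rg hfin (fun j hj => (hg j hj).1) (fun j hj => (hg j hj).2.blk) (fun j hj => (hg j hj).2.binn) A M hX hr hr' hlane hreg
  refine ⟨P, ⟨b, hrim⟩, hB, hbig, ?_⟩
  have e1 : ∑ j ∈ Finset.range n, X j = ∑ j ∈ Finset.range n, ((pvtArc (pvkiT η) (pvlfFl b (pvkiS η)) (g j).aIn (g j).len).psum (pvcuW (pvkiT η) Subtype.val (Mk j)) +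
      (pvtArc (pvkiT η) (pvlfFl b (pvkiS η)) (g j).aOut (N j)).psum (pvcuW (pvkiT η) Subtype.val (Mk j)) +
      (pvtArc (pvkiT η) (pvlfFl b (pvkiS η)) (g (j + 1)).aIn (g (j + 1)).len).psum (pvcuW (pvkiT η) Subtype.val (Mk j))) :=
    Finset.sum_congr rfl fun j hj => (hg j (Finset.mem_range.1 hj)).2.val
  rw [e1, ← hsum]
  refine Finset.sum_congr rfl fun k _ => ?_
  show (pvkiT η).qpart Subtype.val ((pvkiT η).opp (P.e k)) = (pvkiT η).qpart Subtype.val ((pvkiT η).opp (P.e k)) - 0 * (pvkiT η).side Subtype.val ((pvkiT η).opp (P.e k))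
  rw [zero_mul, sub_zero]

end conf

end Claimed.Agent.R289
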