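import Claimed.Agent.R289.Tr.N1SysA
import Claimed.Agent.R289.Tr.CloseNQ
import Claimed.Agent.R289.Exit.CloseP

/-!
# Row 289 (S0537, Cardy for Poisson-Voronoi), THE WALL, ROAD P, file Tr/N1SysC : THE CUT OF CLOSE (`PvnjPar.Cl`, sub-exit `exit_pvus_close` of 286) AT THE TERM `pvnjAt`      (pen helper59; prefix `pvnj_`, `pvnj`, `Pvnj`)

CLOSE of P17 = TR13 (the chain + a present free arc close to a rim) + TR14 (its `Q`-mass is `X_g + Y_c`) + TR12 (at most one datum is present).      THE MAP / PLANE LEVEL IS DONE: `pvcu_cl` of 260 (`Tr/CloseNQ.lean`, 0 sorry).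
THIS FILE = the level of configurations:
* sec. 1  ARC: `η ∈ 𝔞.E g` in the Delaunay plane (`pvzz_plane` of 212) ⟹ the datum `𝔡 : PvzzDat`, `𝔡.Is ..`, stars, mesh, `X_g`;   `PvzzDat.Is ⟹ PvcuArc` of 260
* sec. 2  TR12: `pvnj_gfaced` (the hypotheses of `pvcu_map` without the masks ⟹ `p.GFaced s r`), **`pvnj_uniq_map`** (two present arcs are equal)
* sec. 3  the facts of the chain on `Ev ∩ En` (`pvnj_list`: the OPEN list; twin of `pvuc_list` of 95)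
* sec. 4  **`PvnjPar.Cc`** = WHAT CLOSE NEEDS AT ONE CONFIGURATION (facts, lane, REGION, masks);   **`pvnj_Cl`** : `Cc ⟹ Cl`   (existence by `pvcu_cl`, injectivity by `pvnj_uniq_map`)
* sec. 5  **`pvnj_msk`** : TR14 IN MARKS (`PvcuMk` of 260) from the six regions-only clauses `PvnjMkR` (list of 260) + mesh + stars + `Is` + MID (D10)
* sec. 6  `PvzzPar.WfA.hne`, **`pvnj_Cl_ae`** (a.e. `Cc` ⟹ a.e. `Cl`);   sec. 7  **`pvnj_fact_ae`** (`fo fk fi` in the words of `PvucCyc1` of 95 ⟹ a.e. the field `fact` of `Cc`)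
MID (D10) IS THREADED: `Cc.msk` takes MID as a hypothesis, `pvnj_Cl` pays it by `pvnj_arc_at_mid` (69).
THE PEN OF `exit_pvus_close` IS 260 (`Tr/CloseNA.lean`, ruling of 273 13:45Z): he produces `Cc` a.e. from his two records (chain side `PvwzCh`, regions `PvwzRg`); lane: 147 `Tr/LaneC.lean`; REGION: 279 `Tr/RegO.lean`; MID (D10): `Tr/ArcP.lean`.
-/

set_option autoImplicit false
set_option linter.unusedSectionVars false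
set_option linter.unusedVariables false

namespace Claimed.Agent.R289

open MeasureTheory Filter Topology Set Relation Claims.C0465
open scoped ENNReal

/-! ## 1. ARC -/

section arc

variable {𝔞 : PvzzPar}

/-- the clauses of `Is` of 212 which `pvcu_cl` of 260 reads -/
theorem pvnj_cuArc {V D : Type} {T : PvMap V D} {s : V → Bool} {mk : V → ℂ} {𝔯s 𝔯t : PvspReg ℂ} {Ug U Lam : Set ℂ} {g : List ℂ} {𝔡 : PvzzDat T s}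
    (h1 : PvplStar T mk (fun w => w ∈ 𝔯s .O2) (𝔯s .S2)) (h2 : PvplStar T mk (fun w => w ∈ 𝔯t .O2) (𝔯t .S2)) (h : 𝔡.Is mk 𝔯s 𝔯t Ug U Lam g) :
    PvcuArc T s mk 𝔯s 𝔯t Ug U Lam 𝔡.Ss 𝔡.St 𝔡.p :=
  ⟨h1, h2, h.ats, h.att, h.src, h.tgt, h.black, h.faced, h.tube, h.avs, h.avt⟩

/-- **the arc event in the Delaunay plane** -/
theorem pvnj_arc_at (W : 𝔞.Wf) (hne : ∃ zi, zi ∉ 𝔞.Kr) {η : Conf PvPt} (hη : DelGood (cfSites η)) {g : List ℂ} (h : η ∈ 𝔞.E g) :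
    PvtnFin 𝔞.Ew η ∧ PvtrMesh 𝔞.rho 𝔞.Ew (cfSites η) ∧ PvplStar (pvkiT η) Subtype.val (fun w => w ∈ 𝔞.rs .O2) (𝔞.rs .S2) ∧ PvplStar (pvkiT η) Subtype.val (fun w => w ∈ 𝔞.rt .O2) (𝔞.rt .S2) ∧
      ∃ 𝔡 : PvzzDat (pvkiT η) (pvlfFl 𝔞.s.col (pvkiS η)), 𝔡.Is Subtype.val 𝔞.rs 𝔞.rt 𝔞.Ug 𝔞.U 𝔞.Lam g ∧ 𝔞.X g η = 𝔡.X Subtype.val 𝔞.Bs 𝔞.Bt := by
  obtain ⟨x, hx⟩ := h
  obtain ⟨h1, h2, h3, h4, 𝔡, h5, -, h6⟩ := (pvzz_plane W hη hne g x).1 hx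
  exact ⟨h1, h2, h3, h4, 𝔡, h5, (pvzz_X_eq W hx).trans h6.symm⟩

/-- **the same with MID** (D10 of 59; patch of `PvzzPred` by 69): the tags of `inn(t)[im, ip)` lie in the cut-off disc `Bt` -/
theorem pvnj_arc_at_mid (W : 𝔞.Wf) (hne : ∃ zi, zi ∉ 𝔞.Kr) {η : Conf PvPt} (hη : DelGood (cfSites η)) {g : List ℂ} (h : η ∈ 𝔞.E g) :
    PvtnFin 𝔞.Ew η ∧ PvtrMesh 𝔞.rho 𝔞.Ew (cfSites η) ∧ PvplStar (pvkiT η) Subtype.val (fun w => w ∈ 𝔞.rs .O2) (𝔞.rs .S2) ∧ PvplStar (pvkiT η) Subtype.val (fun w => w ∈ 𝔞.rt .O2) (𝔞.rt .S2) ∧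
      ∃ 𝔡 : PvzzDat (pvkiT η) (pvlfFl 𝔞.s.col (pvkiS η)), 𝔡.Is Subtype.val 𝔞.rs 𝔞.rt 𝔞.Ug 𝔞.U 𝔞.Lam g ∧
        (∀ i, 𝔡.St.im ≤ i → i < 𝔡.St.ip → (pvkiT η).bary Subtype.val ((pvkiT η).opp (𝔡.St.inn.e i)) ∈ 𝔞.Bt) ∧ 𝔞.X g η = 𝔡.X Subtype.val 𝔞.Bs 𝔞.Bt := by
  obtain ⟨x, hx⟩ := h
  obtain ⟨h1, h2, h3, h4, 𝔡, h5, hmid, h6⟩ := (pvzz_plane W hη hne g x).1 hx
  exact ⟨h1, h2, h3, h4, 𝔡, h5, hmid, (pvzz_X_eq W hx).trans h6.symm⟩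

end arc

/-! ## 2. TR12 -/

section uniq

variable {V D : Type} [DecidableEq V] {T : PvMap V D} {s : V → Bool} {mk : V → ℂ} {n : ℕ} {𝔢 : ℕ → PvkjEnd ℂ} {KE Mk U : ℕ → Set ℂ} {𝔯s 𝔯t : PvspReg ℂ} {Ug Zn UN Lam B : Set ℂ} {a₀ : ℝ}

/-- **a present free arc is globally faced** (the first half of the proof of `pvcu_map` of 260: chain, `PvncFree`, zone, REGION; no masks) -/
theorem pvnj_gfaced (hT : T.IsSph) (hS : T.Simple) (Rg : PvcuReg n 𝔢 KE Mk U 𝔯s 𝔯t Ug Zn B a₀) {g : ℕ → T.Gate s} {N : ℕ → ℕ} (hfin : ∀ j, j ≤ n → (g j).c.Left.Finite)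
    (H : ∀ j, j < n → PvkjLk T mk s (𝔢 j) (𝔢 (j + 1)) (KE j) (g j) (g (j + 1)) (N j))
    {Ss St : PvspSt T s} {p : T.Pth} (A : PvcuArc T s mk 𝔯s 𝔯t Ug UN Lam Ss St p)
    {X : Set V} (hX : ∀ v ∈ X, s v = false ∧ mk v ∈ Zn) {r r' : V} (hr : r ∈ (g n).R) (hr' : r' ∈ (g 0).R) (hlane : T.Join Set.univ X r' r)
    (hreg : ∀ c₀ a : V, mk c₀ ∈ (𝔢 (n - 1)).Z → mk a ∈ Lam → ReflTransGen (fun u v => T.Adj u v ∧ mk v ∉ Zn) c₀ a) :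
    p.GFaced s r ∧ g n = Ss.g2 ∧ g 0 = St.g2 := by
  have G := Rg.geo
  have hn := G.pos
  have hn2 := Rg.two
  have his : ∀ j, j ≤ n → (𝔢 j).Is V D T mk s (g j) := by
    intro j hj
    rcases Nat.lt_or_ge j n with h | h
    · exact (H j h).is
    · have := (H (n - 1) (by omega)).is'
      rwa [show n - 1 + 1 = j by omega] at this
  have hz : ∀ i, i ≤ n → ∀ x, x ∈ T.VOf (g i).c.Left → mk x ∈ (𝔢 i).Z := by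
    rintro i hi x ⟨d, hd, rfl⟩
    exact (G.ok i hi).zone V D T mk s (g i) (his i hi) d hd
  have hdeep : ∀ i, i ≤ n → ∀ x, mk x ∈ (𝔢 i).I → x ∈ T.Int (g i).c.Left := by
    intro i hi x hx d hd
    subst hd
    exact (G.ok i hi).deep V D T mk s (g i) (his i hi) d hx
  have hgn : g n = Ss.g2 := G.uq n le_rfl V D T mk s hT hS _ _ (his n le_rfl) (by rw [Rg.en]; exact ⟨A.stars, Ss, A.ats, rfl⟩)
  have hg0 : g 0 = St.g2 := G.uq 0 (Nat.zero_le _) V D T mk s hT hS _ _ (his 0 (Nat.zero_le _)) (by rw [Rg.e0]; exact ⟨A.start, St, A.att, rfl⟩)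
  refine ⟨?_, hgn, hg0⟩
  have h0 : mk (g 0).vm ∉ KE 0 := by
    intro h
    have h2 : mk (g 0).vm ∈ (𝔢 0).I := by
      rw [Rg.e0]
      exact Rg.hNm ⟨by rw [hg0]; exact A.att.vm, h⟩
    exact pvgz_verts_not_int hT (g 0).c 0 (hdeep 0 (Nat.zero_le _) _ h2)
  have h1 : mk (g n).vp ∉ KE (n - 1) := by
    intro h
    have h2 : mk (g n).vp ∈ (𝔢 n).I := by
      rw [Rg.en]
      exact Rg.hNp ⟨by rw [hgn]; exact A.ats.vp, h⟩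
    exact pvgz_verts_not_int hT (g n).c (g n).m (hdeep n le_rfl _ h2)
  have C := pvcu_chain hT hS G hfin H h0 h1
  obtain ⟨I, hI⟩ : ∃ I : ℕ → T.Pth, I = fun j => pvtArc T s (g j).aIn (g j).len := ⟨_, rfl⟩
  obtain ⟨L, hL⟩ : ∃ L : ℕ → T.Pth, L = fun j => pvtArc T s (g j).aOut (N j) := ⟨_, rfl⟩
  have eL : ∀ j, pvtArc T s (g j).aOut (N j) = L j := fun j => by rw [hL]
  rw [← hI, ← hL] at C
  have hKS : ∀ j, j < n → ∀ k, k ≤ (L j).n → (L j).v k ∈ pvzlKS T mk (KE j) (g j) (g (j + 1)) := fun j hj k hk => by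
    rw [← eL] at hk ⊢
    exact (pvkj_lk_verts (H j hj).run hk).1
  have hsI : (g n).IsInn Ss.inn := by
    rw [hgn]
    exact pvgz_inn_of_le hT hS Ss.g2 (hgn ▸ hfin n le_rfl) A.ats.sel2.thru A.ats.arc
  have htI : (g 0).IsInn St.inn := by
    rw [hg0]
    exact pvgz_inn_of_le hT hS St.g2 (hg0 ▸ hfin 0 (Nat.zero_le _)) A.att.sel2.thru A.att.arc
  obtain ⟨sn, se⟩ := pvgz_inn_unique hT hS (g n) hsI (C.hinn n le_rfl)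
  obtain ⟨tn, te⟩ := pvgz_inn_unique hT hS (g 0) htI (C.hinn 0 (Nat.zero_le _))
  have sv : ∀ i, i ≤ Ss.inn.n → Ss.inn.v i = (I n).v i := fun i hi => pvgz_pth_v sn (by rw [hsI.1.h0, (C.hinn n le_rfl).1.h0]) se hi
  have tv : ∀ i, i ≤ St.inn.n → St.inn.v i = (I 0).v i := fun i hi => pvgz_pth_v tn (by rw [htI.1.h0, (C.hinn 0 (Nat.zero_le _)).1.h0]) te hi
  have a1 := A.ats.im_lt
  have a2 := A.ats.ip_le
  have a3 := A.att.im_lt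
  have a4 := A.att.ip_le
  have F : PvncFree T s n g I L p Ss.ip St.im := by
    refine ⟨by omega, by omega, by omega, ?_, ?_, fun k hk i hi => ?_, fun k hk i hi hin => ?_, fun k hk i i0 hi hx => ?_, fun k hk j hj l l0 l1 e => ?_⟩
    · rw [A.src, ← A.ats.ip_eq, sv _ a2]
    · rw [A.tgt, ← A.att.im_eq, tv _ (by omega)]
    · rw [← sv i (by omega)]; exact A.avs k hk i hi
    · rw [← tv i (by omega)]; exact A.avt k hk i hi (by omega)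
    · exact Set.disjoint_left.1 (Rg.dUZ i i0 hi) (A.tube k hk) (hz i hi.le _ hx)
    · have hks := hKS j hj l l1.le
      rcases Rg.dUK j hj ⟨A.tube k hk, e ▸ hks.1⟩ with h | h
      · exact hks.2.1 (hdeep j hj.le _ (e ▸ h))
      · exact hks.2.2 (hdeep (j + 1) hj _ (e ▸ h))
  have hpF : p.verts ⊆ {v | mk v ∈ Zn} := by
    rintro _ ⟨i, hi, rfl⟩
    exact Rg.UgZ (A.tube i hi)
  have hsF : T.VOf (g n).c.Left ⊆ {v | mk v ∈ Zn} := fun x hx => by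
    have := hz n le_rfl x hx
    rw [Rg.en] at this
    exact Rg.ZsZ this
  have htF : T.VOf (g 0).c.Left ⊆ {v | mk v ∈ Zn} := fun x hx => by
    have := hz 0 (Nat.zero_le _) x hx
    rw [Rg.e0] at this
    exact Rg.ZtZ this
  have hj1 : n - 1 < n := by omega
  have hvpm : (g (n - 1)).vp ∈ T.VOf (g (n - 1)).c.Left := ⟨(g (n - 1)).c.e (g (n - 1)).m, (pl_jordan hT (g (n - 1)).c).2.1 _, rfl⟩
  have hl : 1 ≤ (L (n - 1)).n := by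
    by_contra hc
    have e0 : (L (n - 1)).n = 0 := by omega
    have e : (g (n - 1)).vp = (g (n - 1 + 1)).vm := by rw [← C.lk0 _ hj1, ← C.lk1 _ hj1, e0]
    exact Set.disjoint_left.1 (C.dGG (n - 1) (n - 1 + 1) (by omega) (by omega) (by omega)) hvpm (e ▸ pvgz_vm_mem hT _)
  have hΛ : ∀ a ∈ {v | mk v ∈ Lam}, ReflTransGen (fun u v => T.Adj u v ∧ v ∉ {v | mk v ∈ Zn}) ((L (n - 1)).v 1) a := by
    intro a ha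
    have hm : mk ((L (n - 1)).v 0) ∈ (𝔢 (n - 1)).Z := by rw [C.lk0 _ hj1]; exact hz (n - 1) (by omega) _ hvpm
    refine ReflTransGen.head ⟨⟨T.opp ((L (n - 1)).e 0), ?_, ?_⟩, fun h => Set.disjoint_left.1 Rg.dZn hm h⟩ (hreg _ a hm ha)
    · rw [T.src_opp', (L (n - 1)).tgt_e 0 (by omega)]
    · rw [T.tgt_opp, (L (n - 1)).src_e 0 (by omega)]
  have hN : pvtaN p s {v | mk v ∈ UN} ({(I n).rap (Ss.ip - 1)} ∪ {v | mk v ∈ Lam}) := by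
    have e : (I n).rap (Ss.ip - 1) = Ss.inn.rap (Ss.ip - 1) := by
      unfold PvMap.Pth.rap
      rw [se _ (by omega)]
    rw [e]
    exact A.faced
  exact (pvnc_main hT hS C hn F A.black (X := X) (fun v hv => (hX v hv).1) hr hr' hlane hpF (fun v hv => (hX v hv).2) hsF htF Nat.one_pos hl hΛ hN).1

/-- **TR12 AT ONE MARKED COLOURED SPHERE**: two present free arcs have the same vertices -/
theorem pvnj_uniq_map (hT : T.IsSph) (hS : T.Simple) (Rg : PvcuReg n 𝔢 KE Mk U 𝔯s 𝔯t Ug Zn B a₀) {g : ℕ → T.Gate s} {N : ℕ → ℕ} (hfin : ∀ j, j ≤ n → (g j).c.Left.Finite)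
    (H : ∀ j, j < n → PvkjLk T mk s (𝔢 j) (𝔢 (j + 1)) (KE j) (g j) (g (j + 1)) (N j))
    (hds : ∀ v, mk v ∈ 𝔯s .Np → mk v ∈ 𝔯s .Nm → mk v ∈ 𝔯s .I2) (hdt : ∀ v, mk v ∈ 𝔯t .Np → mk v ∈ 𝔯t .Nm → mk v ∈ 𝔯t .I2)
    {Ss St Ss' St' : PvspSt T s} {p p' : T.Pth} (A : PvcuArc T s mk 𝔯s 𝔯t Ug UN Lam Ss St p) (A' : PvcuArc T s mk 𝔯s 𝔯t Ug UN Lam Ss' St' p')
    {X : Set V} (hX : ∀ v ∈ X, s v = false ∧ mk v ∈ Zn) {r r' : V} (hr : r ∈ Ss.g2.R) (hr' : r' ∈ St.g2.R) (hlane : T.Join Set.univ X r' r)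
    (hreg : ∀ c₀ a : V, mk c₀ ∈ (𝔢 (n - 1)).Z → mk a ∈ Lam → ReflTransGen (fun u v => T.Adj u v ∧ mk v ∉ Zn) c₀ a) :
    pvzzL mk p = pvzzL mk p' := by
  have G := Rg.geo
  have his : ∀ j, j ≤ n → (𝔢 j).Is V D T mk s (g j) := by
    intro j hj
    have hn := G.pos
    rcases Nat.lt_or_ge j n with h | h
    · exact (H j h).is
    · have := (H (n - 1) (by omega)).is'
      rwa [show n - 1 + 1 = j by omega] at this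
  have hgn : g n = Ss.g2 := G.uq n le_rfl V D T mk s hT hS _ _ (his n le_rfl) (by rw [Rg.en]; exact ⟨A.stars, Ss, A.ats, rfl⟩)
  have hg0 : g 0 = St.g2 := G.uq 0 (Nat.zero_le _) V D T mk s hT hS _ _ (his 0 (Nat.zero_le _)) (by rw [Rg.e0]; exact ⟨A.start, St, A.att, rfl⟩)
  obtain ⟨hp, -, -⟩ := pvnj_gfaced hT hS Rg hfin H A hX (hgn ▸ hr) (hg0 ▸ hr') hlane hreg
  obtain ⟨hp', -, -⟩ := pvnj_gfaced hT hS Rg hfin H A' hX (hgn ▸ hr) (hg0 ▸ hr') hlane hreg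
  obtain ⟨-, -, -, -, -, -, sv, sip, -⟩ := pvsp_at_unique hT hS hds A.ats A'.ats
  obtain ⟨-, -, -, -, -, -, tv, -, tim⟩ := pvsp_at_unique hT hS hdt A.att A'.att
  have e0 : p.v 0 = p'.v 0 := by rw [A.src, A'.src, ← A.ats.ip_eq, ← A'.ats.ip_eq, ← sip, sv _ A.ats.ip_le]
  have e1 : p.v p.n = p'.v p'.n := by
    have a3 := A.att.im_lt
    have a4 := A.att.ip_le
    rw [A.tgt, A'.tgt, ← A.att.im_eq, ← A'.att.im_eq, ← tim, tv _ (by omega)]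
  obtain ⟨un, -, uv⟩ := pvnc_uniq hT hS hp hp' e0 e1
  unfold pvzzL
  rw [← un]
  exact List.map_congr_left fun i hi => by rw [uv i (by have := List.mem_range.1 hi; omega)]

end uniq

/-! ## 3. the facts along the OPEN list -/

section list

variable {μ : Measure (Conf PvPt)} {a c : PvsySec PvPt} {kit : PvthKit} {z d : ℂ} {l : List PvtTurn} {Kf : Set PvPt} {Af : Set (Conf PvPt)}
variable {Xa Xf Xc : Conf PvPt → ℂ} {X₀ : PvtTurn → Conf PvPt → ℂ}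

/-- **one a.s. fact per connector  ⟹  a.s. on the event of the OPEN list, all the facts**      (twin of `pvuc_list` of 95) -/
theorem pvnj_list {F : ℕ → ℂ → Conf PvPt → Prop}
    (f0 : ∀ᵐ η ∂μ, η ∈ a.G → η ∈ kit.G (pvthZ kit.δ z d l 0) (pvthD d l 0) → η ∈ a.A → F 0 (Xa η) η)
    (fk : ∀ i < l.length, ∀ᵐ η ∂μ, η ∈ kit.G (pvthZ kit.δ z d l i) (pvthD d l i) → η ∈ kit.G (pvthZ kit.δ z d l (i + 1)) (pvthD d l (i + 1)) →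
      η ∈ kit.A (pvthZ kit.δ z d l i) (pvthD d l i) (pvthL l i) → F (1 + i) (kit.Xj X₀ z d l i η) η)
    (ff : ∀ᵐ η ∂μ, η ∈ kit.G (pvthZ kit.δ z d l l.length) (pvthD d l l.length) → η ∈ c.G → η ∈ Af → F (l.length + 1) (Xf η) η) :
    ∀ᵐ η ∂μ, η ∈ a.G → η ∈ c.G → η ∈ pvsyEv (l.length + 2 + 1) (pvskList a kit z d l Kf Af c) (Finset.Ioo 0 (l.length + 2)) (Finset.range (l.length + 2)) →
      ∀ j < l.length + 2, F j (pvskFld Xa kit X₀ z d l Xf Xc j η) η := by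
  have hk : ∀ᵐ η ∂μ, ∀ i, i < l.length → η ∈ kit.G (pvthZ kit.δ z d l i) (pvthD d l i) → η ∈ kit.G (pvthZ kit.δ z d l (i + 1)) (pvthD d l (i + 1)) →
      η ∈ kit.A (pvthZ kit.δ z d l i) (pvthD d l i) (pvthL l i) → F (1 + i) (kit.Xj X₀ z d l i η) η := by
    rw [ae_all_iff]
    intro i
    by_cases hi : i < l.length
    · filter_upwards [fk i hi] with η h _ using h
    · exact ae_of_all _ fun η h => absurd h hi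
  filter_upwards [f0, hk, ff] with η h0 h1 h2 hG0 gC hη
  obtain ⟨hG, hA⟩ := hη
  have gD : ∀ j, j ≤ l.length → η ∈ kit.G (pvthZ kit.δ z d l j) (pvthD d l j) := fun j hj => by
    have := hG (1 + j) (Finset.mem_Ioo.2 ⟨by omega, by omega⟩) (by omega)
    rwa [pvsk_list_G hj] at this
  intro j hj
  rcases Nat.eq_zero_or_pos j with rfl | hp
  · rw [pvsk_fld_zero]
    have := hA 0 (Finset.mem_range.2 (by omega)) (by omega)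
    rw [pvsk_list_zero] at this
    exact h0 hG0 (gD 0 (Nat.zero_le _)) this
  rcases Nat.lt_or_ge j (l.length + 1) with h | h
  · obtain ⟨i, rfl⟩ : ∃ i, j = 1 + i := ⟨j - 1, by omega⟩
    have hi : i < l.length := by omega
    rw [pvsk_fld_cell hi]
    have := hA (1 + i) (Finset.mem_range.2 (by omega)) (by omega)
    rw [pvsk_list_cell hi] at this
    exact h1 i hi (gD i hi.le) (gD (i + 1) hi) this
  · obtain rfl : j = l.length + 1 := by omega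
    rw [pvsk_fld_door]
    have := hA (l.length + 1) (Finset.mem_range.2 (by omega)) (by omega)
    rw [pvsk_list_door] at this
    exact h2 (gD l.length le_rfl) gC this

end list

/-! ## 4. WHAT CLOSE NEEDS AT ONE CONFIGURATION -/

/-- **WHAT CLOSE NEEDS AT ONE CONFIGURATION** `η` (`𝔞` = the arcs of 212;   `𝔢 KE Mk U` = ends, corridors, masks, rooms of the chain, vocabulary of 113;   `Zn` = THE ZONE `UN \ Lam`)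
* `fact`  one fact of 113 per connector of the chain, when the two states are usable and the chain succeeds      [113 95 58]
* `lane`  the white lane joins the two right arcs inside the zone      [147: `pvnj_lane` below]
* `reg`   REGION: every site of the layer is joined, off the zone, to every site of the last inner plug      [279 212 225]
* `msk`   TR14 in marks      [59: `pvnj_msk` below; D10] -/
structure PvnjPar.Cc {τ : Type} (𝔭 : PvnjPar τ) (𝔞 : PvzzPar) (𝔢 : ℕ → PvkjEnd ℂ) (KE Mk U : ℕ → Set ℂ) (Zn : Set ℂ) (η : Conf PvPt) : Prop where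
  fact : η ∈ 𝔭.En → η ∈ 𝔭.Ev → ∀ j < 𝔭.π.l.length + 2, PvucF 𝔞.s.col 𝔢 KE Mk U j (𝔭.fld j η) η
  lane : η ∈ 𝔭.geo.W → ∀ Ss St : PvspSt (pvkiT η) (pvlfFl 𝔞.s.col (pvkiS η)), Ss.At Subtype.val 𝔞.rs → St.At Subtype.val 𝔞.rt →
    ∃ r ∈ Ss.g2.R, ∃ r' ∈ St.g2.R, (pvkiT η).Join univ {v | pvlfFl 𝔞.s.col (pvkiS η) v = false ∧ (v : ℂ) ∈ Zn} r' r
  reg : PvtrMesh 𝔞.rho 𝔞.Ew (cfSites η) → ∀ c₀ a : ↥(cfSites η), (c₀ : ℂ) ∈ (𝔢 (𝔭.π.l.length + 1)).Z → (a : ℂ) ∈ 𝔞.Lam → ReflTransGen (fun u v => (pvkiT η).Adj u v ∧ (v : ℂ) ∉ Zn) c₀ a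
  msk : ∀ (g : List ℂ) (𝔡 : PvzzDat (pvkiT η) (pvlfFl 𝔞.s.col (pvkiS η))), η ∈ 𝔞.E g → 𝔡.Is Subtype.val 𝔞.rs 𝔞.rt 𝔞.Ug 𝔞.U 𝔞.Lam g →
    (∀ i, 𝔡.St.im ≤ i → i < 𝔡.St.ip → (pvkiT η).bary Subtype.val ((pvkiT η).opp (𝔡.St.inn.e i)) ∈ 𝔞.Bt) →
    PvcuMk (pvkiT η) Subtype.val (Mk (𝔭.π.l.length + 1)) (Mk 0) 𝔞.Bs 𝔞.Bt 𝔡.Ss 𝔡.St 𝔡.p

section close

variable {τ : Type} {𝔭 : PvnjPar τ} {𝔞 : PvzzPar} {𝔢 : ℕ → PvkjEnd ℂ} {KE Mk U : ℕ → Set ℂ} {Zn : Set ℂ}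

/-- **CLOSE AT ONE CONFIGURATION** (CYC form) -/
theorem pvnj_Cl (h𝔞 : 𝔭.𝔞 = 𝔞.toArc) (W : 𝔞.Wf) (hne : ∃ zi, zi ∉ 𝔞.Kr) (Rg : PvcuReg (𝔭.π.l.length + 2) 𝔢 KE Mk U 𝔞.rs 𝔞.rt 𝔞.Ug Zn 𝔭.𝔯.B 𝔭.𝔯.a0)
    {η : Conf PvPt} (hη : DelGood (cfSites η)) (h : 𝔭.Cc 𝔞 𝔢 KE Mk U Zn η) : 𝔭.Cl η where
  cl := fun hE => by
    have hT : (pvkiT η).IsSph := delb_plane_isSph hη
    have hS : (pvkiT η).Simple := (delbPl (cfSites η)).toMap_simple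
    have hEg : ∀ g, 𝔭.Pr η g → η ∈ 𝔭.En ∧ η ∈ 𝔞.E g ∧ η ∈ 𝔭.geo.W := by
      rintro g ⟨⟨h1, h2⟩, h3⟩
      have h4 : η ∈ 𝔭.𝔞.E g := h2.1.1.1
      rw [h𝔞] at h4
      exact ⟨h1, h4, h3⟩
    refine ⟨fun g c => PvdeCl 0 𝔭.𝔯.B 𝔭.𝔯.a0 η c (𝔭.𝔞.X g η + 𝔭.Yc η), fun g hg => ?_, fun g c _ hc => hc, fun g g' c c' hg hg' _ _ _ => ?_⟩
    · obtain ⟨hEn, hA, hW⟩ := hEg g hg
      obtain ⟨-, hm, st1, st2, 𝔡, hI, hmid, hX⟩ := pvnj_arc_at_mid W hne hη hA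
      obtain ⟨r, hr, r', hr', hj⟩ := h.lane hW 𝔡.Ss 𝔡.St hI.ats hI.att
      obtain ⟨c, hc⟩ := pvcu_cl Rg hη (b := 𝔞.s.col) (X := fun j => 𝔭.fld j η) (h.fact hEn hE) (pvnj_cuArc st1 st2 hI) (h.msk g 𝔡 hA hI hmid) (fun v hv => hv) hr hr' hj (h.reg hm)
      refine ⟨c, ?_⟩
      have e : 𝔭.𝔞.X g η = 𝔞.X g η := by rw [h𝔞]; rfl
      show PvdeCl 0 𝔭.𝔯.B 𝔭.𝔯.a0 η c (𝔭.𝔞.X g η + 𝔭.Yc η)
      rw [e, hX, pvnj_Yc_eq]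
      exact hc
    · obtain ⟨hEn, hA, hW⟩ := hEg g hg
      obtain ⟨-, hA', -⟩ := hEg g' hg'
      obtain ⟨-, hm, st1, st2, 𝔡, hI, -⟩ := pvnj_arc_at W hne hη hA
      obtain ⟨-, -, -, -, 𝔡', hI', -⟩ := pvnj_arc_at W hne hη hA'
      obtain ⟨r, hr, r', hr', hj⟩ := h.lane hW 𝔡.Ss 𝔡.St hI.ats hI.att
      obtain ⟨γ, N, hγ⟩ := pvcu_glue (T := pvkiT η) (s := pvlfFl 𝔞.s.col (pvkiS η)) (mk := Subtype.val) hT hS Rg.geo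
        (P := fun j g g' N => PvkjFt η 𝔞.s.col (𝔢 j) (𝔢 (j + 1)) (KE j) (Mk j) (U (j + 1)) (𝔭.fld j η) g g' N)
        (fun j hj => by
          obtain ⟨g, g', N, h⟩ := h.fact hEn hE j hj
          exact ⟨g, g', N, h.lk, h⟩)
      have hfin : ∀ j, j ≤ 𝔭.π.l.length + 2 → (γ j).c.Left.Finite := by
        intro j hj
        rcases Nat.lt_or_ge j (𝔭.π.l.length + 2) with h | h
        · exact (hγ j h).2.fin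
        · have := (hγ (𝔭.π.l.length + 1) (by omega)).2.fin'
          rwa [show 𝔭.π.l.length + 1 + 1 = j by omega] at this
      rw [hI.pos, hI'.pos]
      exact pvnj_uniq_map hT hS Rg hfin (fun j hj => (hγ j hj).1) (fun v h1 h2 => W.ws.tubes ⟨h1, h2⟩) (fun v h1 h2 => W.wt.tubes ⟨h1, h2⟩)
        (pvnj_cuArc st1 st2 hI) (pvnj_cuArc st1 st2 hI') (fun v hv => hv) hr hr' hj (h.reg hm)

end close

/-! ## 5. TR14 IN MARKS from the regions, the mesh and MID -/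

/-- **THE MASKS AT THE TWO BIG PLUGS, REGIONS ONLY** (list of 260, 14:00Z): `Me` = mask of the LAST connector (it enters `s`), `Mo` = mask of the FIRST connector (it leaves `t`), `Bs Bt` = the two cut-off discs, `r ≥` twice the mesh -/
structure PvnjMkR (𝔯s 𝔯t : PvspReg ℂ) (Me Mo Bs Bt : Set ℂ) (r : ℝ) : Prop where
  dMe : Disjoint Me Bs
  s1 : PvkjTri r ((𝔯s .C1 ∪ 𝔯s .Nm) ∩ 𝔯s .S2) univ (Me ∪ Bs)
  s2 : PvkjTri r ((𝔯s .C1 ∪ 𝔯s .Np) ∩ 𝔯s .S2) univ Meᶜ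
  tB : Bt ⊆ Mo
  t2 : PvkjTri r ((𝔯t .C1 ∪ 𝔯t .Np) ∩ 𝔯t .S2) univ Mo
  t1 : PvkjTri r ((𝔯t .C1 ∪ 𝔯t .Nm) ∩ 𝔯t .S2) univ (Moᶜ ∪ Bt)

section msk

variable {𝔞 : PvzzPar} {x : ℂ} {R : ℝ}

/-- a tag in a cut-off disc sits at a vertex marked in `I2` -/
theorem pvnj_tag_I2 {N : PvspNum} {t : PvspTy} {z : ℂ} {h mc ρ : ℝ} (h0 : 0 < h) (hρ : ρ ≤ N.mu * h) (hhi : mc + 2 * N.mu ≤ t.a N 1) {a b c : ℂ} (h1 : ‖b - a‖ ≤ 2 * ρ) (h2 : ‖c - a‖ ≤ 2 * ρ)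
    (hB : (a + b + c) / 3 ∈ Metric.closedBall z (mc * h)) : a ∈ t.reg N z h .I2 := by
  have hB' : ‖(a + b + c) / 3 - z‖ ≤ mc * h := mem_closedBall_iff_norm.1 hB
  refine mem_closedBall_iff_norm.2 ?_
  have e : a - z = ((a + b + c) / 3 - z) - ((b - a) + (c - a)) / 3 := by ring
  have h3 : ‖((b - a) + (c - a)) / 3‖ ≤ 2 * ρ := by
    rw [norm_div]
    have : ‖(3 : ℂ)‖ = 3 := by norm_num
    rw [this, div_le_iff₀ (by norm_num)]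
    have hr : 0 ≤ ρ := by have := (norm_nonneg _).trans h1; linarith
    exact (norm_add_le _ _).trans (by linarith)
  rw [e]
  refine (norm_sub_le _ _).trans ?_
  nlinarith

/-- **TR14 IN MARKS** -/
theorem pvnj_msk (W : 𝔞.WfA x R) {r : ℝ} (hr : 2 * 𝔞.rho ≤ r) {Me Mo : Set ℂ} (M : PvnjMkR 𝔞.rs 𝔞.rt Me Mo 𝔞.Bs 𝔞.Bt r) {η : Conf PvPt} (hη : DelGood (cfSites η))
    (hm : PvtrMesh 𝔞.rho 𝔞.Ew (cfSites η)) (st1 : PvplStar (pvkiT η) Subtype.val (fun w => w ∈ 𝔞.rs .O2) (𝔞.rs .S2)) (st2 : PvplStar (pvkiT η) Subtype.val (fun w => w ∈ 𝔞.rt .O2) (𝔞.rt .S2))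
    {b : Bool} {g : List ℂ} {𝔡 : PvzzDat (pvkiT η) (pvlfFl b (pvkiS η))} (hI : 𝔡.Is Subtype.val 𝔞.rs 𝔞.rt 𝔞.Ug 𝔞.U 𝔞.Lam g)
    (mid : ∀ i, 𝔡.St.im ≤ i → i < 𝔡.St.ip → (pvkiT η).bary Subtype.val ((pvkiT η).opp (𝔡.St.inn.e i)) ∈ 𝔞.Bt) :
    PvcuMk (pvkiT η) Subtype.val Me Mo 𝔞.Bs 𝔞.Bt 𝔡.Ss 𝔡.St 𝔡.p := by
  have hT : (pvkiT η).IsSph := delb_plane_isSph hη
  have W0 : 𝔞.Wf := W.toWf
  have zs := pvzz_inn_zone W0.ws.nest st1 hI.ats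
  have zt := pvzz_inn_zone W0.wt.nest st2 hI.att
  obtain ⟨-, -, ns3, ns4⟩ := W0.ws.nest
  obtain ⟨-, -, nt3, nt4⟩ := W0.wt.nest
  have a1 := hI.ats.im_lt
  have a2 := hI.ats.ip_le
  have a3 := hI.att.im_lt
  have a4 := hI.att.ip_le
  -- the mesh at a vertex of the reading zone
  have near : ∀ d : (delbPl (cfSites η)).Dart, (((pvkiT η).src d : ↥(cfSites η)) : ℂ) ∈ 𝔞.Kr →
      ‖(((pvkiT η).tgt d : ↥(cfSites η)) : ℂ) - (((pvkiT η).src d : ↥(cfSites η)) : ℂ)‖ ≤ 2 * 𝔞.rho ∧ ‖(((pvkiT η).apex d : ↥(cfSites η)) : ℂ) - (((pvkiT η).src d : ↥(cfSites η)) : ℂ)‖ ≤ 2 * 𝔞.rho :=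
    fun d hd => pvkj_face_short W0.rho0 hη hm d (W0.core hd)
  have tri : ∀ {A Mx : Set ℂ}, PvkjTri r A univ Mx → ∀ d : (delbPl (cfSites η)).Dart, (((pvkiT η).src d : ↥(cfSites η)) : ℂ) ∈ 𝔞.Kr → (((pvkiT η).src d : ↥(cfSites η)) : ℂ) ∈ A →
      (pvkiT η).bary Subtype.val d ∈ Mx := fun hA d hK hd => hA _ _ _ hd (mem_univ _) (mem_univ _) ((near d hK).1.trans hr) ((near d hK).2.trans hr)
  have inS : ∀ d : (delbPl (cfSites η)).Dart, (((pvkiT η).src d : ↥(cfSites η)) : ℂ) ∈ 𝔞.Kr → (pvkiT η).bary Subtype.val d ∈ 𝔞.Bs → (((pvkiT η).src d : ↥(cfSites η)) : ℂ) ∈ 𝔞.rs .I2 :=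
    fun d hK hB => pvnj_tag_I2 W0.ws.h0 W0.rho_le W.hi_s (near d hK).1 (near d hK).2 hB
  have inT : ∀ d : (delbPl (cfSites η)).Dart, (((pvkiT η).src d : ↥(cfSites η)) : ℂ) ∈ 𝔞.Kr → (pvkiT η).bary Subtype.val d ∈ 𝔞.Bt → (((pvkiT η).src d : ↥(cfSites η)) : ℂ) ∈ 𝔞.rt .I2 :=
    fun d hK hB => pvnj_tag_I2 W0.wt.h0 W0.rho_le W.hi_t (near d hK).1 (near d hK).2 hB
  have dis : ∀ w : ℂ, w ∈ 𝔞.rs .S2 → w ∈ 𝔞.rt .S2 → False := fun w h1 h2 => Set.disjoint_left.1 W.dis h1 h2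
  -- the source of the tag number `i` of a path is its vertex number `i + 1`
  have srcS : ∀ i, i < 𝔡.Ss.inn.n → (pvkiT η).src ((pvkiT η).opp (𝔡.Ss.inn.e i)) = 𝔡.Ss.inn.v (i + 1) := fun i hi => by rw [(pvkiT η).src_opp', 𝔡.Ss.inn.tgt_e i hi]
  have srcT : ∀ i, i < 𝔡.St.inn.n → (pvkiT η).src ((pvkiT η).opp (𝔡.St.inn.e i)) = 𝔡.St.inn.v (i + 1) := fun i hi => by rw [(pvkiT η).src_opp', 𝔡.St.inn.tgt_e i hi]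
  have srcP : ∀ i, i < 𝔡.p.n → (pvkiT η).src ((pvkiT η).opp (𝔡.p.e i)) = 𝔡.p.v (i + 1) := fun i hi => by rw [(pvkiT η).src_opp', 𝔡.p.tgt_e i hi]
  refine ⟨fun i hi => ?_, fun i hi hin => ?_, fun i hi => ?_, fun i hi hin => ?_, fun k hk hk' => ?_⟩
  · have hz := zs (i + 1) (by omega)
    have hK : (((pvkiT η).src ((pvkiT η).opp (𝔡.Ss.inn.e i)) : ↥(cfSites η)) : ℂ) ∈ 𝔞.Kr := by rw [srcS i (by omega)]; exact W0.sK hz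
    constructor
    · intro h1 h2
      exact Set.disjoint_left.1 M.dMe h1 h2
    · intro h1
      exact (tri M.s1 _ hK (by rw [srcS i (by omega)]; exact ⟨hI.ats.fit_m (i + 1) (by omega), hz⟩)).resolve_right h1
  · have hz := zs (i + 1) (by omega)
    have hK : (((pvkiT η).src ((pvkiT η).opp (𝔡.Ss.inn.e i)) : ↥(cfSites η)) : ℂ) ∈ 𝔞.Kr := by rw [srcS i hin]; exact W0.sK hz
    refine ⟨tri M.s2 _ hK (by rw [srcS i hin]; exact ⟨hI.ats.fit_p (i + 1) (by omega) (by omega), hz⟩), fun hB => ?_⟩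
    have := inT _ hK hB
    rw [srcS i hin] at this
    exact dis _ hz (nt4 (nt3 this))
  · have hz := zt (i + 1) (by omega)
    have hK : (((pvkiT η).src ((pvkiT η).opp (𝔡.St.inn.e i)) : ↥(cfSites η)) : ℂ) ∈ 𝔞.Kr := by rw [srcT i (by omega)]; exact W0.tK hz
    constructor
    · intro h1
      rcases tri M.t1 _ hK (by rw [srcT i (by omega)]; exact ⟨hI.att.fit_m (i + 1) (by omega), hz⟩) with h2 | h2
      · exact absurd h1 h2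
      · exact Or.inr h2
    · rintro (h1 | h1)
      · have := inS _ hK h1
        rw [srcT i (by omega)] at this
        exact (dis _ (ns4 (ns3 this)) hz).elim
      · exact M.tB h1
  · rcases Nat.lt_or_ge i 𝔡.St.ip with h | h
    · exact M.tB (mid i hi h)
    · have hz := zt (i + 1) (by omega)
      have hK : (((pvkiT η).src ((pvkiT η).opp (𝔡.St.inn.e i)) : ↥(cfSites η)) : ℂ) ∈ 𝔞.Kr := by rw [srcT i hin]; exact W0.tK hz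
      exact tri M.t2 _ hK (by rw [srcT i hin]; exact ⟨hI.att.fit_p (i + 1) (by omega) (by omega), hz⟩)
  · have hkn : k < 𝔡.p.n := by omega
    have hK : (((pvkiT η).src ((pvkiT η).opp (𝔡.p.e k)) : ↥(cfSites η)) : ℂ) ∈ 𝔞.Kr := by rw [srcP k hkn]; exact W0.UK (W0.gU (hI.tube (k + 1) hkn))
    have hint : ∀ (𝔖 : PvspSt (pvkiT η) (pvlfFl b (pvkiS η))) (𝔯 : PvspReg ℂ), 𝔖.At Subtype.val 𝔯 → ((𝔡.p.v (k + 1) : ↥(cfSites η)) : ℂ) ∈ 𝔯 .I2 →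
        𝔡.p.v (k + 1) ∈ (pvkiT η).Int 𝔖.g2.c.Left := fun 𝔖 𝔯 hA hv d hd => hA.sel2.inner (Or.inl (by rw [hd]; exact hv))
    have hvof : ∀ (𝔖 : PvspSt (pvkiT η) (pvlfFl b (pvkiS η))), 𝔡.p.v (k + 1) ∈ (pvkiT η).Int 𝔖.g2.c.Left → 𝔡.p.v (k + 1) ∈ (pvkiT η).VOf 𝔖.g2.c.Left :=
      fun 𝔖 h => ⟨_, h _ (srcP k hkn), srcP k hkn⟩
    rcases Nat.lt_or_ge (k + 1 + 𝔡.St.im) 𝔡.p.n with hc | hc
    · obtain ⟨o1, o2⟩ := hI.off (k + 1) (by omega) hc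
      rintro (hB | hB)
      · have := inS _ hK hB
        rw [srcP k hkn] at this
        exact o1 (hvof _ (hint _ _ hI.ats this))
      · have := inT _ hK hB
        rw [srcP k hkn] at this
        exact o2 (hvof _ (hint _ _ hI.att this))
    · have e : 𝔡.p.v (k + 1) = 𝔡.St.g2.vm := by
        have := hI.suf 0 (Nat.zero_le _)
        rw [show 𝔡.p.n - 𝔡.St.im + 0 = k + 1 by omega] at this
        rw [this, pvt_sd_v0 hI.att.arc]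
        exact pvtg_aIn_src _
      rintro (hB | hB)
      · have := inS _ hK hB
        rw [srcP k hkn] at this
        have h2 := zt 0 (Nat.zero_le _)
        rw [← hI.suf 0 (Nat.zero_le _), show 𝔡.p.n - 𝔡.St.im + 0 = k + 1 by omega] at h2
        exact dis _ (ns4 (ns3 this)) h2
      · have := inT _ hK hB
        rw [srcP k hkn] at this
        have h3 := hint _ _ hI.att this
        rw [e] at h3
        exact pvgz_verts_not_int hT 𝔡.St.g2.c 0 h3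

end msk

/-! ## 6. almost everywhere -/

section ae

variable {τ : Type} {𝔭 : PvnjPar τ} {𝔞 : PvzzPar} {𝔢 : ℕ → PvkjEnd ℂ} {KE Mk U : ℕ → Set ℂ} {Zn : Set ℂ} {x : ℂ} {R : ℝ}

/-- the reading zone is not the whole plane -/
theorem PvzzPar.WfA.hne (W : 𝔞.WfA x R) : ∃ zi, zi ∉ 𝔞.Kr := by
  refine ⟨x + 7 * (R : ℂ), fun hh => ?_⟩
  have h1 := W.win (W.toWf.KE hh)
  rw [Metric.mem_closedBall, dist_eq_norm] at h1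
  have : ‖x + 7 * (R : ℂ) - x‖ = 7 * R := by
    have e : x + 7 * (R : ℂ) - x = ((7 * R : ℝ) : ℂ) := by push_cast; ring
    rw [e, Complex.norm_real, Real.norm_of_nonneg (by have := W.R0; linarith)]
  rw [this] at h1
  have := W.R0
  linarith

/-- **CLOSE, a.e.** -/
theorem pvnj_Cl_ae (hε : 𝔭.ε ≠ 0) (h𝔞 : 𝔭.𝔞 = 𝔞.toArc) (W : 𝔞.WfA x R) (Rg : PvcuReg (𝔭.π.l.length + 2) 𝔢 KE Mk U 𝔞.rs 𝔞.rt 𝔞.Ug Zn 𝔭.𝔯.B 𝔭.𝔯.a0)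
    (h : ∀ᵐ η ∂pvP 𝔭.ε, 𝔭.Cc 𝔞 𝔢 KE Mk U Zn η) : ∀ᵐ η ∂pvP 𝔭.ε, 𝔭.Cl η := by
  filter_upwards [h, pvqf_good_ae 𝔭.ε hε] with η h1 h2
  exact pvnj_Cl h𝔞 W.toWf W.hne Rg h2.del h1

end ae

/-! ## 7. the facts of the chain at the parameters -/

section facts

variable {τ : Type} (𝔭 : PvnjPar τ) {b : Bool} {𝔢 : ℕ → PvkjEnd ℂ} {KE Mk U : ℕ → Set ℂ}

/-- **THE FACTS OF THE CLOSING CHAIN, a.e.**, from one a.e. fact per connector in the words of `PvucCyc1` of 95: `fo` (exit funnel of `t`), `fk` (cells of `π.l`), `fi` (entrance funnel of `s`) -/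
theorem pvnj_fact_ae
    (fo : ∀ᵐ η ∂pvP 𝔭.ε, η ∈ 𝔭.D.G 𝔭.m 𝔭.ε 𝔭.π.zt 𝔭.π.tt →
      η ∈ (𝔭.D.kit 𝔭.m 𝔭.ε).G (pvthZ (𝔭.D.kit 𝔭.m 𝔭.ε).δ (𝔭.π.zt + (𝔭.Γ 𝔭.m).pout 𝔭.π.tt) ((𝔭.Γ 𝔭.m).dout 𝔭.π.tt) 𝔭.π.l 0) (pvthD ((𝔭.Γ 𝔭.m).dout 𝔭.π.tt) 𝔭.π.l 0) →
      η ∈ 𝔭.D.Ao 𝔭.m 𝔭.ε 𝔭.π.zt 𝔭.π.tt → PvucF b 𝔢 KE Mk U 0 (𝔭.D.Xo 𝔭.m 𝔭.ε 0 𝔭.π.zt 𝔭.π.tt η) η)
    (fk : ∀ i < 𝔭.π.l.length, ∀ᵐ η ∂pvP 𝔭.ε,
      η ∈ (𝔭.D.kit 𝔭.m 𝔭.ε).G (pvthZ (𝔭.D.kit 𝔭.m 𝔭.ε).δ (𝔭.π.zt + (𝔭.Γ 𝔭.m).pout 𝔭.π.tt) ((𝔭.Γ 𝔭.m).dout 𝔭.π.tt) 𝔭.π.l i) (pvthD ((𝔭.Γ 𝔭.m).dout 𝔭.π.tt) 𝔭.π.l i) →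
      η ∈ (𝔭.D.kit 𝔭.m 𝔭.ε).G (pvthZ (𝔭.D.kit 𝔭.m 𝔭.ε).δ (𝔭.π.zt + (𝔭.Γ 𝔭.m).pout 𝔭.π.tt) ((𝔭.Γ 𝔭.m).dout 𝔭.π.tt) 𝔭.π.l (i + 1)) (pvthD ((𝔭.Γ 𝔭.m).dout 𝔭.π.tt) 𝔭.π.l (i + 1)) →
      η ∈ (𝔭.D.kit 𝔭.m 𝔭.ε).A (pvthZ (𝔭.D.kit 𝔭.m 𝔭.ε).δ (𝔭.π.zt + (𝔭.Γ 𝔭.m).pout 𝔭.π.tt) ((𝔭.Γ 𝔭.m).dout 𝔭.π.tt) 𝔭.π.l i) (pvthD ((𝔭.Γ 𝔭.m).dout 𝔭.π.tt) 𝔭.π.l i) (pvthL 𝔭.π.l i) →
      PvucF b 𝔢 KE Mk U (1 + i) ((𝔭.D.kit 𝔭.m 𝔭.ε).Xj (𝔭.D.X₀ 𝔭.m 𝔭.ε 0) (𝔭.π.zt + (𝔭.Γ 𝔭.m).pout 𝔭.π.tt) ((𝔭.Γ 𝔭.m).dout 𝔭.π.tt) 𝔭.π.l i η) η)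
    (fi : ∀ᵐ η ∂pvP 𝔭.ε,
      η ∈ (𝔭.D.kit 𝔭.m 𝔭.ε).G (pvthZ (𝔭.D.kit 𝔭.m 𝔭.ε).δ (𝔭.π.zt + (𝔭.Γ 𝔭.m).pout 𝔭.π.tt) ((𝔭.Γ 𝔭.m).dout 𝔭.π.tt) 𝔭.π.l 𝔭.π.l.length) (pvthD ((𝔭.Γ 𝔭.m).dout 𝔭.π.tt) 𝔭.π.l 𝔭.π.l.length) →
      η ∈ 𝔭.D.G 𝔭.m 𝔭.ε 𝔭.π.zs 𝔭.π.ts → η ∈ 𝔭.D.Ai 𝔭.m 𝔭.ε 𝔭.π.zs 𝔭.π.ts → PvucF b 𝔢 KE Mk U (𝔭.π.l.length + 1) (𝔭.D.Xi 𝔭.m 𝔭.ε 0 𝔭.π.zs 𝔭.π.ts η) η) :
    ∀ᵐ η ∂pvP 𝔭.ε, η ∈ 𝔭.En → η ∈ 𝔭.Ev → ∀ j < 𝔭.π.l.length + 2, PvucF b 𝔢 KE Mk U j (𝔭.fld j η) η := by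
  have := pvnj_list (μ := pvP 𝔭.ε) (a := 𝔭.D.sOut 𝔭.m 𝔭.ε 𝔭.π.zt 𝔭.π.tt) (c := 𝔭.D.sPl 𝔭.m 𝔭.ε 𝔭.π.zs 𝔭.π.ts) (kit := 𝔭.D.kit 𝔭.m 𝔭.ε)
    (z := 𝔭.π.zt + (𝔭.Γ 𝔭.m).pout 𝔭.π.tt) (d := (𝔭.Γ 𝔭.m).dout 𝔭.π.tt) (l := 𝔭.π.l) (Kf := 𝔭.D.Ki 𝔭.m 𝔭.ε 𝔭.π.zs 𝔭.π.ts) (Af := 𝔭.D.Ai 𝔭.m 𝔭.ε 𝔭.π.zs 𝔭.π.ts)
    (Xa := 𝔭.D.Xo 𝔭.m 𝔭.ε 0 𝔭.π.zt 𝔭.π.tt) (Xf := 𝔭.D.Xi 𝔭.m 𝔭.ε 0 𝔭.π.zs 𝔭.π.ts) (Xc := 0) (X₀ := 𝔭.D.X₀ 𝔭.m 𝔭.ε 0) (F := PvucF b 𝔢 KE Mk U) fo fk fi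
  filter_upwards [this] with η h hEn hEv
  exact h hEn.1 hEn.2 hEv

end facts

end Claimed.Agent.R289
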