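import Claimed.Agent.R289.Tr.ConnQ
import Claimed.Agent.R289.Tr.PinLocG

/-!
# Row 289 (S0537, Cardy for Poisson-Voronoi), THE WALL, ROAD P, file Tr/ConnFr : THE PLACED CONNECTORS OF 113 UNDER TRANSLATIONS;  THE A.S. FACT OF A FOREIGN LINK      (helper95; prefix `pvuh_`, `pvuh`, `Pvuh`)

WHY.   In the term of 58 (`Exit/DatP`) the reference plug `u` and its entrance funnel `r` are given in the REFERENCE FRAME and carried to `z + zu t` BY DEFINITION (`A := T ⁻¹' A₀`, `X := X₀ ∘ T`, `T = cfMap (pvthInv w 1)`).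
CLOSE (`PvkjFt` of 113, `PvucCyc1.fr` of `Exit/CloseP`) lives in the plane map of `η` itself.      No isomorphism of maps is needed: `PvplRep.sim` (238), `PvzfRep.placed` (107), uniqueness of the representatives on the guard.

* sec. 1  the translation `pvthInv w 1`: cores, meshes, finiteness, windows, the masked weight.
* sec. 2  window events / fields of a local predicate under the translation: `pvuh_ev`, `pvuh_fld`.
* sec. 3  **`pvuhAt C w`** = the connector `C` placed at `w`;   **`pvuh_wf`**, **`pvuh_A`** (`η ∈ pvkjA (pvuhAt C w) ↔ T η ∈ pvkjA C`), **`pvuh_X`**;   `pvuh_kit_end` (a kit end of 34 placed at `w`).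
* sec. 4  **`pvuh_fact`** (a foreign link in absolute position: DET + VAL ⟹ a.s. THE FACT), **`pvuh_fact_at`** (a foreign link of the reference frame carried to `w`).
-/

set_option autoImplicit false

namespace Claimed.Agent.R289

open MeasureTheory Set Filter Topology Metric Claims.C0465
open scoped ENNReal

/-! ## 1. the translation -/

section tr

variable (w : ℂ)

theorem pvuh_inv_apply (x : ℂ) : pvthInv w 1 x = x - w := by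
  unfold pvthInv
  rw [div_one]

theorem pvuh_inv_eq : pvthInv w 1 = vorSim 1 (-w) := by
  funext x
  rw [pvuh_inv_apply]
  unfold vorSim
  ring

theorem pvuh_inv_add : pvthInv w 1 = fun x => x + -w := by
  funext x
  rw [pvuh_inv_apply]
  ring

theorem pvuh_inv_meas : Measurable (pvthInv w 1) := by
  rw [pvuh_inv_add]
  exact measurable_id.add_const _

theorem pvuh_inv_inj : Function.Injective (pvthInv w 1) := by
  rw [pvuh_inv_eq]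
  exact vorSim_injective one_ne_zero _

theorem pvuh_inv_surj : Function.Surjective (pvthInv w 1) := by
  rw [pvuh_inv_eq]
  exact vorSim_surjective one_ne_zero _

/-- the law is invariant -/
theorem pvuh_law (ε : ℝ) : (pvP ε).map (cfMap (pvthInv w 1)) = pvP ε := by
  rw [pvuh_inv_add]
  exact pvP_translate (-w) ε

/-- an a.s. property of the reference frame holds a.s. in every frame -/
theorem pvuh_ae {ε : ℝ} {P : Conf PvPt → Prop} (h : ∀ᵐ η ∂(pvP ε), P η) : ∀ᵐ η ∂(pvP ε), P (cfMap (pvthInv w 1) η) := by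
  rw [← pvuh_law w ε] at h
  exact ae_of_ae_map (measurable_cfMap (pvuh_inv_meas w)).aemeasurable h

theorem pvuh_core (r : ℝ) (E : Set ℂ) : pvtrCore r (pvthInv w 1 ⁻¹' E) = pvthInv w 1 ⁻¹' pvtrCore r E := by
  have h := pvtr_core_sim (r := r) (E := pvthInv w 1 ⁻¹' E) (α := 1) one_ne_zero (-w)
  rw [← pvuh_inv_eq, image_preimage_eq _ (pvuh_inv_surj w), norm_one, one_mul] at h
  rw [h, preimage_image_eq _ (pvuh_inv_inj w)]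

theorem pvuh_mesh (ρ : ℝ) (E : Set ℂ) (η : Conf PvPt) : PvtrMesh ρ (pvthInv w 1 ⁻¹' E) (cfSites η) ↔ PvtrMesh ρ E (cfSites (cfMap (pvthInv w 1) η)) := by
  have h := pvtr_mesh_sim (ρ := ρ) (E := pvthInv w 1 ⁻¹' E) (Y := cfSites η) (α := 1) one_ne_zero (-w)
  rw [← pvuh_inv_eq, image_preimage_eq _ (pvuh_inv_surj w), norm_one, one_mul] at h
  have e : cfSites (cfMap (pvthInv w 1) η) = pvthInv w 1 '' cfSites η := by
    rw [pvuh_inv_eq]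
    exact pvcv_sites 1 (-w) η
  rw [e]
  exact h.symm

theorem pvuh_fin (E : Set ℂ) (η : Conf PvPt) : PvtnFin (pvthInv w 1 ⁻¹' E) η ↔ PvtnFin E (cfMap (pvthInv w 1) η) := by
  have e : (cfMap (pvthInv w 1) η).pts ∩ E ×ˢ (univ : Set Bool) = Prod.map (pvthInv w 1) id '' (η.pts ∩ (pvthInv w 1 ⁻¹' E) ×ˢ (univ : Set Bool)) := by
    ext p
    constructor
    · rintro ⟨⟨q, hq, rfl⟩, hp⟩
      exact ⟨q, ⟨hq, ⟨hp.1, mem_univ _⟩⟩, rfl⟩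
    · rintro ⟨q, ⟨hq, hqE⟩, rfl⟩
      exact ⟨⟨q, hq, rfl⟩, ⟨hqE.1, mem_univ _⟩⟩
  unfold PvtnFin
  rw [e]
  exact (Set.finite_image_iff ((pvuh_inv_inj w).prodMap Function.injective_id).injOn).symm

theorem pvuh_win {E : Set ℂ} (hE : PvplWin E) : PvplWin (pvthInv w 1 ⁻¹' E) := by
  refine ⟨pvuh_inv_meas w hE.1, ?_⟩
  have e : {q : ℂ × ℝ | closedBall q.1 q.2 ⊆ pvthInv w 1 ⁻¹' E} = (fun q : ℂ × ℝ => (pvthInv w 1 q.1, q.2)) ⁻¹' {q : ℂ × ℝ | closedBall q.1 q.2 ⊆ E} := by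
    ext q
    have := congrArg (fun S : Set ℂ => q.1 ∈ S) (pvuh_core w q.2 E)
    exact iff_of_eq this
  rw [e]
  exact (((pvuh_inv_meas w).comp measurable_fst).prodMk measurable_snd) hE.2

theorem pvuh_bdd {E : Set ℂ} (hE : Bornology.IsBounded E) : Bornology.IsBounded (pvthInv w 1 ⁻¹' E) := by
  obtain ⟨R, hR⟩ := hE.subset_closedBall 0
  refine (isBounded_closedBall (x := (0 : ℂ)) (r := R + ‖w‖)).subset fun x hx => ?_
  have h1 := hR hx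
  rw [mem_closedBall, dist_zero_right, pvuh_inv_apply] at h1
  rw [mem_closedBall, dist_zero_right]
  calc ‖x‖ = ‖(x - w) + w‖ := by rw [sub_add_cancel]
    _ ≤ ‖x - w‖ + ‖w‖ := norm_add_le _ _
    _ ≤ R + ‖w‖ := by linarith

/-- the masked summand of `Q` -/
theorem pvuh_Wt (M : Set ℂ) : pvkdWt (pvthInv w 1 ⁻¹' M) = pvkdWt M ∘ pvzfMap3 (pvthInv w 1) := by
  funext t
  show pvkdWt _ t = pvkdWt M (pvthInv w 1 t.1, pvthInv w 1 t.2.1, pvthInv w 1 t.2.2)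
  unfold pvkdWt
  simp only [pvuh_inv_apply]
  have e1 : (t.1 - w + (t.2.1 - w) + (t.2.2 - w)) / 3 = pvthInv w 1 ((t.1 + t.2.1 + t.2.2) / 3) := by
    rw [pvuh_inv_apply]
    ring
  have e2 : pvqq (t.1 - w) (t.2.1 - w) (t.2.2 - w) = pvqq t.1 t.2.1 t.2.2 := by
    simp only [pvqq]
    ring
  rw [e1, e2]
  congr 1

end tr

/-! ## 2. window events and fields -/

section window

variable {κ : Type} {θ : ℂ → κ} {K : Set κ} {E : Set ℂ} {ρ : ℝ} {ms : List (ℝ × Set ℂ)} (w : ℂ)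

/-- the list of meshes carried to `w` -/
def pvuhMs (ms : List (ℝ × Set ℂ)) (w : ℂ) : List (ℝ × Set ℂ) := ms.map fun p => (p.1, pvthInv w 1 ⁻¹' p.2)

theorem pvuh_eqns_cite0 : True := by
  have := @pvuhMs.eq_1
  trivial

theorem pvuh_ms_forall {P : ℝ × Set ℂ → Prop} : (∀ q ∈ pvuhMs ms w, P q) ↔ ∀ p ∈ ms, P (p.1, pvthInv w 1 ⁻¹' p.2) := by
  unfold pvuhMs
  exact List.forall_mem_map

theorem pvuh_ms_mem {p : ℝ × Set ℂ} (hp : p ∈ ms) : (p.1, pvthInv w 1 ⁻¹' p.2) ∈ pvuhMs ms w := List.mem_map.2 ⟨p, hp, rfl⟩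

/-- the guard under the translation -/
theorem pvuh_ms (E : Set ℂ) (ms : List (ℝ × Set ℂ)) (η : Conf PvPt) : PvwgMs (pvthInv w 1 ⁻¹' E) (pvuhMs ms w) η ↔ PvwgMs E ms (cfMap (pvthInv w 1) η) := by
  refine and_congr (pvuh_fin w E η) ?_
  rw [pvuh_ms_forall]
  exact forall_congr' fun p => forall_congr' fun _ => pvuh_mesh w p.1 p.2 η

theorem pvuh_ms0 (h0 : ∀ p ∈ ms, 0 < p.1 ∧ p.1 ≤ ρ ∧ p.2 ⊆ E) : ∀ q ∈ pvuhMs ms w, 0 < q.1 ∧ q.1 ≤ ρ ∧ q.2 ⊆ pvthInv w 1 ⁻¹' E :=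
  (pvuh_ms_forall w).2 fun p hp => ⟨(h0 p hp).1, (h0 p hp).2.1, preimage_mono (h0 p hp).2.2⟩

theorem pvuh_K {Z : Set ℂ} (hK : ∀ x ∈ Z, ∃ p ∈ ms, x ∈ pvtrCore (3 * p.1) p.2) : ∀ x ∈ pvthInv w 1 ⁻¹' Z, ∃ q ∈ pvuhMs ms w, x ∈ pvtrCore (3 * q.1) q.2 := by
  intro x hx
  obtain ⟨p, hp, h⟩ := hK _ hx
  refine ⟨_, pvuh_ms_mem w hp, ?_⟩
  show x ∈ pvtrCore (3 * p.1) (pvthInv w 1 ⁻¹' p.2)
  rw [pvuh_core]
  exact h

/-- **a window event under the translation** -/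
theorem pvuh_ev [Countable κ] [MeasurableSpace κ] [MeasurableSingletonClass κ] (hθ : Measurable θ) {Φ : PvplPred κ} (hΦ : Φ.Local K) (hE : PvplWin E) (hEb : Bornology.IsBounded E)
    (h0 : ∀ p ∈ ms, 0 < p.1 ∧ p.1 ≤ ρ ∧ p.2 ⊆ E) (hK : ∀ x ∈ θ ⁻¹' K, ∃ p ∈ ms, x ∈ pvtrCore (3 * p.1) p.2) {η : Conf PvPt} (hη : DelGood (cfSites η)) :
    η ∈ pvkjEv (θ ∘ pvthInv w 1) Φ K (pvthInv w 1 ⁻¹' E) ρ (pvuhMs ms w) ↔ cfMap (pvthInv w 1) η ∈ pvkjEv θ Φ K E ρ ms := by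
  have s1 : PvwgIsEv θ Φ K E ρ (pvwgEv θ Φ K E ρ) := pvwg_ev_spec hθ hΦ hE
  have s2 : PvwgIsEv (θ ∘ pvthInv w 1) Φ K (pvthInv w 1 ⁻¹' E) ρ (pvwgEv (θ ∘ pvthInv w 1) Φ K (pvthInv w 1 ⁻¹' E) ρ) := pvwg_ev_spec (hθ.comp (pvuh_inv_meas w)) hΦ (pvuh_win w hE)
  have hK' : ∀ x ∈ (θ ∘ pvthInv w 1) ⁻¹' K, ∃ q ∈ pvuhMs ms w, x ∈ pvtrCore (3 * q.1) q.2 := pvuh_K w hK
  obtain ⟨zi, hzi⟩ := pvkj_zi_aux (pvuh_bdd w hEb) (pvuh_ms0 w h0) hK'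
  have r1 : PvwgIsEv (θ ∘ pvthInv w 1) Φ K (pvthInv w 1 ⁻¹' E) ρ (cfMap (pvthInv w 1) ⁻¹' pvwgEv θ Φ K E ρ) := by
    have h := s1.sim (α := 1) one_ne_zero (-w)
    rw [← pvuh_inv_eq, norm_one, div_one] at h
    exact h
  have key : PvwgMs (pvthInv w 1 ⁻¹' E) (pvuhMs ms w) η →
      (η ∈ pvwgEv (θ ∘ pvthInv w 1) Φ K (pvthInv w 1 ⁻¹' E) ρ ↔ cfMap (pvthInv w 1) η ∈ pvwgEv θ Φ K E ρ) := fun hm =>
    s2.unique r1 delbPlane Empty.elim hm.1 (delb_ok_mono (subset_univ _) (delb_plane_ok hη)) (hm.gd (pvuh_ms0 w h0) hK') hzi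
  constructor
  · rintro ⟨h1, h3⟩
    exact ⟨(pvuh_ms w E ms η).1 h1, (key h1).1 h3⟩
  · rintro ⟨h1, h3⟩
    exact ⟨(pvuh_ms w E ms η).2 h1, (key ((pvuh_ms w E ms η).2 h1)).2 h3⟩

/-- **a window field under the translation**, on the guard -/
theorem pvuh_fld {Ψ : PvzfPred κ} {wt : ℂ × ℂ × ℂ → ℂ} {F F' : Conf PvPt → ℂ} (hF : PvwgRep θ Ψ K E ρ wt F)
    (hF' : PvwgRep (θ ∘ pvthInv w 1) Ψ K (pvthInv w 1 ⁻¹' E) ρ (wt ∘ pvzfMap3 (pvthInv w 1)) F') {η : Conf PvPt} (hη : DelGood (cfSites η))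
    (hf : PvtnFin (pvthInv w 1 ⁻¹' E) η) (hm : PvwgGd ρ (pvthInv w 1 ⁻¹' E) (cfSites η) ((θ ∘ pvthInv w 1) ⁻¹' K)) {zi : ℂ} (hzi : (θ ∘ pvthInv w 1) zi ∉ K) : F' η = F (cfMap (pvthInv w 1) η) := by
  have h := hF.placed w (d := 1) one_ne_zero
  rw [norm_one, mul_one] at h
  exact (hF'.plane hη hf hm hzi).trans (h.plane hη hf hm hzi).symm

end window

/-! ## 3. a placed connector carried by a translation -/

/-- **the connector `C` of the reference frame, placed at `w`** -/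
def pvuhAt (C : PvkjCn) (w : ℂ) : PvkjCn :=
  ⟨C.col, C.k, C.k', C.r.comap (pvthInv w 1), C.r'.comap (pvthInv w 1), pvthInv w 1 ⁻¹' C.Kc, pvthInv w 1 ⁻¹' C.M, pvthInv w 1 ⁻¹' C.E, C.ρ, pvuhMs C.ms w⟩

theorem pvuh_eqns_cite : True := by
  have := @pvuhAt.eq_1
  trivial

section conn

variable (C : PvkjCn) (w : ℂ)

theorem pvuh_theta : (pvuhAt C w).θ = C.θ ∘ pvthInv w 1 := rfl

theorem pvuh_Z : (pvuhAt C w).Z = pvthInv w 1 ⁻¹' C.Z := by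
  show pvkjZ (pvkjEnd C.k (C.r.comap (pvthInv w 1))) (pvkjEnd C.k' (C.r'.comap (pvthInv w 1))) (pvthInv w 1 ⁻¹' C.Kc) = pvthInv w 1 ⁻¹' pvkjZ (pvkjEnd C.k C.r) (pvkjEnd C.k' C.r') C.Kc
  unfold pvkjZ
  rw [pvkj_end_comap_Z, pvkj_end_comap_Z, preimage_union, preimage_union]

variable {C}

/-- **the placed connector is well formed** -/
theorem pvuh_wf (hW : C.Wf) : (pvuhAt C w).Wf where
  ms0 := pvuh_ms0 w hW.ms0
  mms := (pvuh_ms_forall w).2 fun p hp => pvuh_inv_meas w (hW.mms p hp)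
  nest := ⟨preimage_mono hW.nest.1, preimage_mono hW.nest.2.1, preimage_mono hW.nest.2.2.1, preimage_mono hW.nest.2.2.2⟩
  nest' := ⟨preimage_mono hW.nest'.1, preimage_mono hW.nest'.2.1, preimage_mono hW.nest'.2.2.1, preimage_mono hW.nest'.2.2.2⟩
  uq := fun V D T mk s hT hS g g₂ h1 h2 =>
    hW.uq V D T (pvthInv w 1 ∘ mk) s hT hS g g₂ ((pvkj_end_comap C.k C.r (pvthInv w 1) T mk s g).1 h1) ((pvkj_end_comap C.k C.r (pvthInv w 1) T mk s g₂).1 h2)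
  uq' := fun V D T mk s hT hS g g₂ h1 h2 =>
    hW.uq' V D T (pvthInv w 1 ∘ mk) s hT hS g g₂ ((pvkj_end_comap C.k' C.r' (pvthInv w 1) T mk s g).1 h1) ((pvkj_end_comap C.k' C.r' (pvthInv w 1) T mk s g₂).1 h2)
  mr := fun i => pvuh_inv_meas w (hW.mr i)
  mr' := fun i => pvuh_inv_meas w (hW.mr' i)
  mK := pvuh_inv_meas w hW.mK
  mM := pvuh_inv_meas w hW.mM
  win := pvuh_win w hW.win
  bdd := pvuh_bdd w hW.bdd
  core := by
    rw [pvuh_Z]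
    exact pvuh_K w hW.core

/-- **`A_e` in the frame `w`** -/
theorem pvuh_A (hW : C.Wf) {η : Conf PvPt} (hη : DelGood (cfSites η)) : η ∈ pvkjA (pvuhAt C w) ↔ cfMap (pvthInv w 1) η ∈ pvkjA C :=
  pvuh_ev w (pvkj_theta_meas hW) (pvkj_A_local (PvkjCn.Wf.okU C) (PvkjCn.Wf.okU' C) pvkpKB C.col) hW.win hW.bdd hW.ms0 (fun x hx => hW.core x ((pvkj_Z_test hW).subset hx)) hη

/-- **`X_e` in the frame `w`**, on the guard -/
theorem pvuh_X (hW : C.Wf) {η : Conf PvPt} (hη : DelGood (cfSites η)) (hA : η ∈ pvkjA (pvuhAt C w)) : pvkjX (pvuhAt C w) η = pvkjX C (cfMap (pvthInv w 1) η) := by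
  obtain ⟨a0, a1, a2⟩ := pvkj_X_reps hW
  obtain ⟨b0, b1, b2⟩ := pvkj_X_reps (pvuh_wf w hW)
  have hK : ∀ x ∈ C.θ ⁻¹' C.ZU, ∃ p ∈ C.ms, x ∈ pvtrCore (3 * p.1) p.2 := by rw [pvkj_Z_test hW]; exact hW.core
  have hK' : ∀ x ∈ (C.θ ∘ pvthInv w 1) ⁻¹' C.ZU, ∃ q ∈ pvuhMs C.ms w, x ∈ pvtrCore (3 * q.1) q.2 := pvuh_K w hK
  obtain ⟨zi, hzi⟩ := pvkj_zi_aux (pvuh_bdd w hW.bdd) (pvuh_ms0 w hW.ms0) hK'
  have hG : PvwgMs (pvthInv w 1 ⁻¹' C.E) (pvuhMs C.ms w) η := hA.1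
  have hf : PvtnFin (pvthInv w 1 ⁻¹' C.E) η := hG.1
  have hm : PvwgGd C.ρ (pvthInv w 1 ⁻¹' C.E) (cfSites η) ((C.θ ∘ pvthInv w 1) ⁻¹' C.ZU) := hG.gd (pvuh_ms0 w hW.ms0) hK'
  have eW : pvkdWt (pvuhAt C w).M = pvkdWt C.M ∘ pvzfMap3 (pvthInv w 1) := pvuh_Wt w C.M
  rw [eW] at b0 b1 b2
  have hG₀ : C.Gd (cfMap (pvthInv w 1) η) := (pvuh_ms w C.E C.ms η).1 hG
  rw [pvkj_X_on (C := pvuhAt C w) hG, pvkj_X_on hG₀]
  unfold pvkjX0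
  rw [eW]
  rw [pvuh_fld w a0 b0 hη hf hm hzi, pvuh_fld w a1 b1 hη hf hm hzi, pvuh_fld w a2 b2 hη hf hm hzi]

end conn

/-- a region of a frame `(z,d)` carried to `w` -/
theorem pvuh_at (w z d : ℂ) (S : Set ℂ) : pvthInv w 1 ⁻¹' pvkdAt z d S = pvkdAt (w + z) d S := by
  ext x
  constructor
  · rintro ⟨y, hy, e⟩
    refine ⟨y, hy, ?_⟩
    rw [pvuh_inv_apply] at e
    show w + z + d * y = x
    have : z + d * y = x - w := e
    linear_combination this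
  · rintro ⟨y, hy, rfl⟩
    refine ⟨y, hy, ?_⟩
    rw [pvuh_inv_apply]
    show z + d * y = w + z + d * y - w
    ring

theorem pvuh_ball (w z : ℂ) (r : ℝ) : pvthInv w 1 ⁻¹' ball z r = ball (w + z) r := by
  ext x
  rw [mem_preimage, pvuh_inv_apply, mem_ball, mem_ball, dist_eq_norm, dist_eq_norm, show x - w - z = x - (w + z) by ring]

/-- **a kit end of 34 carried to `w`** -/
theorem pvuh_kit_end (𝔭 : PvkdPlug) (w z d : ℂ) : pvkjEnd false ((pvkjRegK (𝔭.pg z d)).comap (pvthInv w 1)) = pvkjKit (𝔭.pg (w + z) d) := by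
  have e : pvkjPg ((pvkjRegK (𝔭.pg z d)).comap (pvthInv w 1)) = 𝔭.pg (w + z) d := by
    show (⟨pvthInv w 1 ⁻¹' ball z 𝔭.a, pvthInv w 1 ⁻¹' ball z 𝔭.b, pvthInv w 1 ⁻¹' pvkdAt z d 𝔭.Zm, pvthInv w 1 ⁻¹' pvkdAt z d 𝔭.Zp, pvthInv w 1 ⁻¹' pvkdAt z d 𝔭.Tb⟩ : PvzlPg ℂ) =
      ⟨ball (w + z) 𝔭.a, ball (w + z) 𝔭.b, pvkdAt (w + z) d 𝔭.Zm, pvkdAt (w + z) d 𝔭.Zp, pvkdAt (w + z) d 𝔭.Tb⟩
    rw [pvuh_ball, pvuh_ball, pvuh_at, pvuh_at, pvuh_at]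
  show pvkjKit (pvkjPg ((pvkjRegK (𝔭.pg z d)).comap (pvthInv w 1))) = _
  rw [e]

/-! ## 4. the a.s. fact of a foreign link -/

section fact

variable {C : PvkjCn} {A' U : Set ℂ} {ε : ℝ}

/-- **A FOREIGN LINK IN ABSOLUTE POSITION**: DET (a.s. on the two usable states and the event of record, the event of 113) + VAL (a.s. on the event of 113 the field of record is the field of 113)  ⟹  a.s. THE FACT -/
theorem pvuh_fact (hε : 0 < ε) (hW : C.Wf) (hAr : C.e'.Ar A') (hM : ∀ p ∈ C.ms, PvkjTri (2 * p.1) (C.Kc ∩ pvtrCore (3 * p.1) p.2) C.Kc C.M)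
    (hU : ∀ p ∈ C.ms, PvkjTri (2 * p.1) (A' ∩ pvtrCore (3 * p.1) p.2) C.e'.Z U)
    {G G' A : Set (Conf PvPt)} {X : Conf PvPt → ℂ} (det : ∀ᵐ η ∂(pvP ε), η ∈ G → η ∈ G' → η ∈ A → η ∈ pvkjA C) (val : ∀ᵐ η ∂(pvP ε), η ∈ pvkjA C → X η = pvkjX C η) :
    ∀ᵐ η ∂(pvP ε), η ∈ G → η ∈ G' → η ∈ A → ∃ g g' N, PvkjFt η C.col C.e C.e' C.Kc C.M U (X η) g g' N := by
  filter_upwards [det, val, pvqf_good_ae ε hε.ne'] with η h1 h2 h3 g1 g2 g3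
  have hA := h1 g1 g2 g3
  rw [h2 hA]
  exact pvkj_fact hW hAr hM hU h3.del hA

/-- **A FOREIGN LINK OF THE REFERENCE FRAME CARRIED TO `w`** : DET and VAL are owed in the reference frame only;   the rooms are owed at the placed connector -/
theorem pvuh_fact_at (hε : 0 < ε) (hW : C.Wf) (w : ℂ) (hAr : (pvuhAt C w).e'.Ar A') 
    (hM : ∀ p ∈ (pvuhAt C w).ms, PvkjTri (2 * p.1) ((pvuhAt C w).Kc ∩ pvtrCore (3 * p.1) p.2) (pvuhAt C w).Kc (pvuhAt C w).M)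
    (hU : ∀ p ∈ (pvuhAt C w).ms, PvkjTri (2 * p.1) (A' ∩ pvtrCore (3 * p.1) p.2) (pvuhAt C w).e'.Z U)
    {G G' A : Set (Conf PvPt)} {X : Conf PvPt → ℂ} (det : ∀ᵐ η ∂(pvP ε), η ∈ G → η ∈ G' → η ∈ A → η ∈ pvkjA C) (val : ∀ᵐ η ∂(pvP ε), η ∈ pvkjA C → X η = pvkjX C η) :
    ∀ᵐ η ∂(pvP ε), cfMap (pvthInv w 1) η ∈ G → cfMap (pvthInv w 1) η ∈ G' → cfMap (pvthInv w 1) η ∈ A →
      ∃ g g' N, PvkjFt η C.col (pvuhAt C w).e (pvuhAt C w).e' (pvuhAt C w).Kc (pvuhAt C w).M U (X (cfMap (pvthInv w 1) η)) g g' N := by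
  filter_upwards [pvuh_ae w det, pvuh_ae w val, pvqf_good_ae ε hε.ne'] with η h1 h2 h3 g1 g2 g3
  have hA₀ := h1 g1 g2 g3
  have hA : η ∈ pvkjA (pvuhAt C w) := (pvuh_A w hW h3.del).2 hA₀
  rw [h2 hA₀, ← pvuh_X w hW h3.del hA]
  exact pvkj_fact (C := pvuhAt C w) (pvuh_wf w hW) hAr hM hU h3.del hA

/-- `pvuh_fact`, ROOM OF THE TARGET BY CONVEXITY (113 `pvkj_fact_in`) -/
theorem pvuh_fact_in (hε : 0 < ε) (hW : C.Wf) (hIn : C.e'.In A') (hA' : A' ⊆ U) (hU : Convex ℝ U) (hM : ∀ p ∈ C.ms, PvkjTri (2 * p.1) (C.Kc ∩ pvtrCore (3 * p.1) p.2) C.Kc C.M)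
    {G G' A : Set (Conf PvPt)} {X : Conf PvPt → ℂ} (det : ∀ᵐ η ∂(pvP ε), η ∈ G → η ∈ G' → η ∈ A → η ∈ pvkjA C) (val : ∀ᵐ η ∂(pvP ε), η ∈ pvkjA C → X η = pvkjX C η) :
    ∀ᵐ η ∂(pvP ε), η ∈ G → η ∈ G' → η ∈ A → ∃ g g' N, PvkjFt η C.col C.e C.e' C.Kc C.M U (X η) g g' N := by
  filter_upwards [det, val, pvqf_good_ae ε hε.ne'] with η h1 h2 h3 g1 g2 g3
  have hA := h1 g1 g2 g3
  rw [h2 hA]
  exact pvkj_fact_in hW hIn hA' hU hM h3.del hA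

/-- `pvuh_fact_at`, ROOM OF THE TARGET BY CONVEXITY -/
theorem pvuh_fact_at_in (hε : 0 < ε) (hW : C.Wf) (w : ℂ) (hIn : (pvuhAt C w).e'.In A') (hA' : A' ⊆ U) (hU : Convex ℝ U)
    (hM : ∀ p ∈ (pvuhAt C w).ms, PvkjTri (2 * p.1) ((pvuhAt C w).Kc ∩ pvtrCore (3 * p.1) p.2) (pvuhAt C w).Kc (pvuhAt C w).M)
    {G G' A : Set (Conf PvPt)} {X : Conf PvPt → ℂ} (det : ∀ᵐ η ∂(pvP ε), η ∈ G → η ∈ G' → η ∈ A → η ∈ pvkjA C) (val : ∀ᵐ η ∂(pvP ε), η ∈ pvkjA C → X η = pvkjX C η) :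
    ∀ᵐ η ∂(pvP ε), cfMap (pvthInv w 1) η ∈ G → cfMap (pvthInv w 1) η ∈ G' → cfMap (pvthInv w 1) η ∈ A →
      ∃ g g' N, PvkjFt η C.col (pvuhAt C w).e (pvuhAt C w).e' (pvuhAt C w).Kc (pvuhAt C w).M U (X (cfMap (pvthInv w 1) η)) g g' N := by
  filter_upwards [pvuh_ae w det, pvuh_ae w val, pvqf_good_ae ε hε.ne'] with η h1 h2 h3 g1 g2 g3
  have hA₀ := h1 g1 g2 g3
  have hA : η ∈ pvkjA (pvuhAt C w) := (pvuh_A w hW h3.del).2 hA₀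
  rw [h2 hA₀, ← pvuh_X w hW h3.del hA]
  exact pvkj_fact_in (C := pvuhAt C w) (pvuh_wf w hW) hIn hA' hU hM h3.del hA

end fact

end Claimed.Agent.R289
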