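-- KEEP
import Claimed.Agent.R289.Tr.ForceD
import Claimed.Agent.R289.Tr.EndP

/-!
# Row 289 (S0537), THE WALL, ROAD P = Tr/ForceQ : (DET) OF A LINK, ALMOST SURE FORM, IN THE EVENT OF 113      (pen + prover helper272; prefix `pvn2_`, defs `Pvn2*`)

CONSUMER: 95 `Tr/ConnFr` `pvuh_fact` / `pvuh_fact_at` (hypothesis `det`), then `Exit/CloseP` (`PvucCyc1/2`).
* `Pvn2At ε G 𝔢 e b KE out` = WHAT AN END OWES AT ITS USABLE STATES (a.s. on `G`): THE gate of the end of 113 exists, the starting sites of the end of `Tr/ForceI` are its feet (`PvnlDic`), its far vertex is off the room of the run.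
  PRODUCERS: 277 `Tr/BigD` (big ends), 291 `Tr/KitDic` (doors, reference plug).
* `pvn2_lk`  : a.s. on `G ∩ G' ∩ (Λ.A₀ ∩ M)` THE LINK OF 113 (`PvkjLk`).
* `pvn2_det` : a.s. on `G ∩ G' ∩ A` the event `pvkjA C` of 113, for every event of record `A` which is a.s. inside the bare event with its guard (`pvnd_o_ae … pvnd_r_ae` of `Tr/EndP`).
-/

set_option autoImplicit false
set_option linter.unusedSectionVars false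
set_option linter.unusedVariables false

namespace Claimed.Agent.R289

open MeasureTheory ProbabilityTheory Set Filter Topology Metric
open scoped ENNReal NNReal

/-- **WHAT AN END OWES AT ITS USABLE STATES** (`out = true`: source of the link, `out = false`: target) -/
def Pvn2At (ε : ℝ) (G : Set (Conf PvPt)) (𝔢 : PvkjEnd ℂ) (e : PvnkEnd) (b : Bool) (KE : Set ℂ) (out : Bool) : Prop :=
  ∀ᵐ η ∂(pvP ε), η ∈ G → ∃ g : (pvkiT η).Gate (pvcmS η b), 𝔢.Is _ _ (pvkiT η) Subtype.val (pvcmS η b) g ∧ PvnlDic e η b g out ∧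
    ((cond out g.vm g.vp : ↥(cfSites η)) : ℂ) ∉ KE

theorem pvn2_eqns_cite : True := by
  have := @Pvn2At.eq_1
  trivial

section det

variable {ε : ℝ} {Λ : PvnkLink} {M G G' A : Set (Conf PvPt)} {W : List (ℝ × Set ℂ)} {KE Mk : Set ℂ} {b : Bool}

/-- the states may shrink, the room of the run may shrink -/
theorem Pvn2At.mono {𝔢 : PvkjEnd ℂ} {e : PvnkEnd} {out : Bool} {G₁ : Set (Conf PvPt)} {KE₁ : Set ℂ} (h : Pvn2At ε G 𝔢 e b KE out) (hG : G₁ ⊆ G) (hK : KE₁ ⊆ KE) :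
    Pvn2At ε G₁ 𝔢 e b KE₁ out := by
  unfold Pvn2At at h ⊢
  filter_upwards [h] with η h1 h2
  obtain ⟨g, a1, a2, a3⟩ := h1 (hG h2)
  exact ⟨g, a1, a2, fun h3 => a3 (hK h3)⟩

/-- **(DET), a.s.: THE LINK OF 113** -/
theorem pvn2_lk (hε : 0 < ε) {𝔢 𝔢' : PvkjEnd ℂ} (hO : 𝔢.Ok) (hO' : 𝔢'.Ok) (bZ : Bornology.IsBounded 𝔢.Z) (bZ' : Bornology.IsBounded 𝔢'.Z)
    (he : Λ.e.Ok) (he' : Λ.e'.Ok) (hG : Λ.Geo) (hc : Λ.e.c = b) (L : PvnlLay Λ W KE Mk 𝔢.Z 𝔢'.Z)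
    (src : Pvn2At ε G 𝔢 Λ.e b KE true) (tgt : Pvn2At ε G' 𝔢' Λ.e' b KE false)
    (mesh : ∀ᵐ η ∂(pvP ε), η ∈ G → η ∈ G' → η ∈ pvnhA₀ Λ M → PvnlMesh W (cfSites η)) :
    ∀ᵐ η ∂(pvP ε), η ∈ G → η ∈ G' → η ∈ pvnhA₀ Λ M → ∃ (g g' : (pvkiT η).Gate (pvlfFl b (pvkiS η))) (N : ℕ), PvkjLk (pvkiT η) Subtype.val (pvlfFl b (pvkiS η)) 𝔢 𝔢' KE g g' N := by
  unfold Pvn2At at src tgt
  filter_upwards [src, tgt, mesh, dls_ae_conf hε] with η h1 h2 h3 hn g1 g2 g3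
  obtain ⟨g, a1, a2, a3⟩ := h1 g1
  obtain ⟨g', b1, b2, b3⟩ := h2 g2
  exact ⟨g, g', _, pvnl_lk hO hO' bZ bZ' he he' hG hc L hn g3.1 (h3 g1 g2 g3) a1 b1 a2 b2 a3 b3⟩

/-- **THE CUT** (seam of 270): the faces of a run lie on the closed outside of the two gates, the deep marks are strictly inside: the room of the lanes may be cut down to the corridor -/
theorem pvn2_lk_cut {κ V D : Type} {T : PvMap V D} {mk : V → κ} {s : V → Bool} {𝔢 𝔢' : PvkjEnd κ} (hO : 𝔢.Ok) (hO' : 𝔢'.Ok) {K : Set κ} {g g' : T.Gate s} {N : ℕ}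
    (h : PvkjLk T mk s 𝔢 𝔢' K g g' N) : PvkjLk T mk s 𝔢 𝔢' (K \ (𝔢.I ∪ 𝔢'.I)) g g' N := by
  obtain ⟨h1, h2, h3, h4⟩ := h.run
  refine ⟨h.is, h.is', h1, h2, h3, fun v hv => ?_⟩
  obtain ⟨a1, a2, a3⟩ := h4 hv
  refine ⟨⟨a1, ?_⟩, a2, a3⟩
  rintro (hI | hI)
  · exact a2 fun d hd => hO.deep _ _ _ _ _ g h.is d (by rw [hd]; exact hI)
  · exact a3 fun d hd => hO'.deep _ _ _ _ _ g' h.is' d (by rw [hd]; exact hI)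

variable {C : PvkjCn}

theorem pvn2_bZ (hW : C.Wf) : Bornology.IsBounded C.e.Z := hW.bdd.subset (Subset.trans (fun k hk => Or.inl (Or.inl hk)) hW.Z_sub)

theorem pvn2_bZ' (hW : C.Wf) : Bornology.IsBounded C.e'.Z := hW.bdd.subset (Subset.trans (fun k hk => Or.inl (Or.inr hk)) hW.Z_sub)

/-- the list of meshes of a placed connector, in the form of `Tr/ForceD` -/
theorem pvn2_mesh (hW : C.Wf) {Y : Set ℂ} (h : ∀ p ∈ C.ms, PvtrMesh p.1 p.2 Y) : PvnlMesh C.ms Y := fun p hp => ⟨(hW.ms0 p hp).1, h p hp⟩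

/-- finitely many points in a bounded window -/
theorem pvn2_fin {η : Conf PvPt} (h : VorLF (cfSites η)) {E : Set ℂ} (hE : Bornology.IsBounded E) : PvtnFin E η := by
  obtain ⟨R, hR⟩ := hE.subset_closedBall 0
  have hfin : ((cfSites η ∩ closedBall (0 : ℂ) R) ×ˢ (univ : Set Bool)).Finite := (h R).prod finite_univ
  refine hfin.subset ?_
  rintro p ⟨hp, hk⟩
  exact ⟨⟨⟨p, hp, rfl⟩, hR hk.1⟩, mem_univ _⟩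

/-- **(DET), THE FORM OF 95**: a.s. on the two usable states and the event of record, the event of 113.      TWO SETS (270): `KE` = the room of the lanes, `C.Kc = KE \ (I ∪ I')` = the corridor of the connector -/
theorem pvn2_det (hε : 0 < ε) (hW : C.Wf) (he : Λ.e.Ok) (he' : Λ.e'.Ok) (hG : Λ.Geo) (hc : Λ.e.c = C.col) (L : PvnlLay Λ C.ms KE Mk C.e.Z C.e'.Z) (hK : C.Kc = KE \ (C.e.I ∪ C.e'.I))
    (src : Pvn2At ε G C.e Λ.e C.col KE true) (tgt : Pvn2At ε G' C.e' Λ.e' C.col KE false)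
    (mesh : ∀ᵐ η ∂(pvP ε), η ∈ G → η ∈ G' → η ∈ pvnhA₀ Λ M → ∀ p ∈ C.ms, PvtrMesh p.1 p.2 (cfSites η))
    (frc : ∀ᵐ η ∂(pvP ε), η ∈ A → η ∈ pvnhA₀ Λ M) :
    ∀ᵐ η ∂(pvP ε), η ∈ G → η ∈ G' → η ∈ A → η ∈ pvkjA C := by
  have mesh' : ∀ᵐ η ∂(pvP ε), η ∈ G → η ∈ G' → η ∈ pvnhA₀ Λ M → PvnlMesh C.ms (cfSites η) := by
    filter_upwards [mesh] with η h g1 g2 g3
    exact pvn2_mesh hW (h g1 g2 g3)
  filter_upwards [pvn2_lk hε hW.ok hW.ok' (pvn2_bZ hW) (pvn2_bZ' hW) he he' hG hc L src tgt mesh', mesh, frc, dls_ae_conf hε] with η h1 h2 h3 hn g1 g2 g3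
  obtain ⟨g, g', N, hL⟩ := h1 g1 g2 (h3 g3)
  refine (pvkj_A_plane hW hn.del).2 ⟨⟨pvn2_fin hn.del.lf hW.bdd, h2 g1 g2 (h3 g3)⟩, g, g', N, ?_⟩
  rw [hK]
  exact pvn2_lk_cut hW.ok hW.ok' hL

/-- **THE RECORD OF A LINK FOR (DET)** at the mesh `ε` : `C` = the placed connector of 113 (its list `C.ms` = the windows with their meshes), `KE` = THE ROOM OF THE LANES (it contains the rooms of the four side paths, down to the centres of the plugs);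
the corridor of the connector is the room CUT at the deep discs of the two plugs (270) -/
structure Pvn2Rec (ε : ℝ) (Λ : PvnkLink) (M G G' : Set (Conf PvPt)) (C : PvkjCn) (KE : Set ℂ) : Prop where
  wf : C.Wf
  col : Λ.e.c = C.col
  lay : PvnlLay Λ C.ms KE univ C.e.Z C.e'.Z
  cut : C.Kc = KE \ (C.e.I ∪ C.e'.I)
  src : Pvn2At ε G C.e Λ.e C.col KE true
  tgt : Pvn2At ε G' C.e' Λ.e' C.col KE false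
  /-- the meshes of the list: from the two side events, the two states and the guard of the corridor -/
  mesh : ∀ᵐ η ∂(pvP ε), η ∈ G → η ∈ G' → η ∈ pvnhA₀ Λ M → ∀ p ∈ C.ms, PvtrMesh p.1 p.2 (cfSites η)

theorem Pvn2Rec.det (R : Pvn2Rec ε Λ M G G' C KE) (hε : 0 < ε) (he : Λ.e.Ok) (he' : Λ.e'.Ok) (hG : Λ.Geo) (frc : ∀ᵐ η ∂(pvP ε), η ∈ A → η ∈ pvnhA₀ Λ M) :
    ∀ᵐ η ∂(pvP ε), η ∈ G → η ∈ G' → η ∈ A → η ∈ pvkjA C :=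
  pvn2_det hε R.wf he he' hG R.col R.lay R.cut R.src R.tgt R.mesh frc

end det

/-! ## 2. the five links of the term of record -/

section term

variable {τ : Type} {cc : ℝ} {𝔤 : PvydGeo τ} {𝔓 : PvrxPar τ cc} {m n nu : ℕ} {βk βu q0 : ℝ} {β' qk : ℝ≥0∞} {z : ℂ} {t : τ} {C : ℝ → PvkjCn} {KE : ℝ → Set ℂ}

/-- **the exit funnel** -/
theorem pvn2_o (hq0 : 0 < q0) (hq1 : q0 ≤ 1) (hQ : PvlqQbx q0) (hW : 𝔓.Wf) (hβ : 0 < 𝔓.mod.N.β) (K : 𝔤.KitOk 𝔓 m β' qk) (Cd : 𝔤.CandOk 𝔓 m z t)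
    (U : PvndKitUp 𝔤 𝔓 m βk βu n) (R : PvndCand 𝔤 𝔓 n nu m z t) (hq : 𝔤.qo m ≤ pvndQ q0 n (min 𝔓.mod.N.β βk))
    (D : ∀ᶠ ε in 𝓝[>] (0 : ℝ), Pvn2Rec ε (𝔤.lo 𝔓 (𝔓.ty m z t).col m ε z t) (𝔤.wo m z t).M (pvydG 𝔓 m ε z t)
      ((pvydKit (𝔤.kit m ε) (𝔓.ty m z t).col).G (z + (𝔓.Γ m).pout t) ((𝔓.Γ m).dout t)) (C ε) (KE ε)) :
    ∀ᶠ ε in 𝓝[>] (0 : ℝ), ∀ᵐ η ∂(pvP ε), η ∈ pvydG 𝔓 m ε z t → η ∈ (pvydKit (𝔤.kit m ε) (𝔓.ty m z t).col).G (z + (𝔓.Γ m).pout t) ((𝔓.Γ m).dout t) →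
      η ∈ (pvydDat 𝔓 𝔤 (𝔓.ty m z t).col).Ao m ε z t → η ∈ pvkjA (C ε) := by
  filter_upwards [pvnd_o_ae hq0 hq1 hQ hW hβ K Cd U R hq, D, K.en_ok (𝔓.ty m z t).col false _ _ Cd.d4o, Cd.o_geo, self_mem_nhdsWithin] with ε a1 a2 a3 a4 a5
  exact a2.det a5 (pvfv_endP_ok (hW.ty_wf m z t)) a3 a4 a1

/-- **the entrance funnel** -/
theorem pvn2_i (hq0 : 0 < q0) (hq1 : q0 ≤ 1) (hQ : PvlqQbx q0) (hW : 𝔓.Wf) (hβ : 0 < 𝔓.mod.N.β) (K : 𝔤.KitOk 𝔓 m β' qk) (Cd : 𝔤.CandOk 𝔓 m z t)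
    (U : PvndKitUp 𝔤 𝔓 m βk βu n) (R : PvndCand 𝔤 𝔓 n nu m z t) (hq : 𝔤.qi m ≤ pvndQ q0 n (min 𝔓.mod.N.β βk))
    (D : ∀ᶠ ε in 𝓝[>] (0 : ℝ), Pvn2Rec ε (𝔤.li 𝔓 (𝔓.ty m z t).col m ε z t) (𝔤.wi m z t).M
      ((pvydKit (𝔤.kit m ε) (𝔓.ty m z t).col).G (z + (𝔓.Γ m).pin t) ((𝔓.Γ m).din t)) (pvydG 𝔓 m ε z t) (C ε) (KE ε)) :
    ∀ᶠ ε in 𝓝[>] (0 : ℝ), ∀ᵐ η ∂(pvP ε), η ∈ (pvydKit (𝔤.kit m ε) (𝔓.ty m z t).col).G (z + (𝔓.Γ m).pin t) ((𝔓.Γ m).din t) → η ∈ pvydG 𝔓 m ε z t →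
      η ∈ (pvydDat 𝔓 𝔤 (𝔓.ty m z t).col).Ai m ε z t → η ∈ pvkjA (C ε) := by
  filter_upwards [pvnd_i_ae hq0 hq1 hQ hW hβ K Cd U R hq, D, K.en_ok (𝔓.ty m z t).col true _ _ Cd.d4i, Cd.i_geo, self_mem_nhdsWithin] with ε a1 a2 a3 a4 a5
  exact a2.det a5 a3 (pvfv_endM_ok (hW.ty_wf m z t)) a4 a1

/-- **the thick link `u → t`** -/
theorem pvn2_e (hq0 : 0 < q0) (hq1 : q0 ≤ 1) (hQ : PvlqQbx q0) (hW : 𝔓.Wf) (hβ : 0 < 𝔓.mod.N.β) (K : 𝔤.KitOk 𝔓 m β' qk) (Cd : 𝔤.CandOk 𝔓 m z t)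
    (U : PvndKitUp 𝔤 𝔓 m βk βu n) (R : PvndCand 𝔤 𝔓 n nu m z t) (hq : 𝔤.qe ≤ pvndQ q0 nu (min 𝔓.mod.N.β βu))
    (D : ∀ᶠ ε in 𝓝[>] (0 : ℝ), Pvn2Rec ε (𝔤.le 𝔓 (𝔓.ty m z t).col m z t) (𝔤.we m z t).M (𝔤.GU 𝔓 (𝔓.ty m z t).col m ε z t) (pvydG 𝔓 m ε z t) (C ε) (KE ε)) :
    ∀ᶠ ε in 𝓝[>] (0 : ℝ), ∀ᵐ η ∂(pvP ε), η ∈ 𝔤.GU 𝔓 (𝔓.ty m z t).col m ε z t → η ∈ pvydG 𝔓 m ε z t →
      η ∈ (pvydDat 𝔓 𝔤 (𝔓.ty m z t).col).Ae m ε z t → η ∈ pvkjA (C ε) := by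
  filter_upwards [pvnd_e_ae hq0 hq1 hQ hW hβ K Cd U R hq, D, self_mem_nhdsWithin] with ε a1 a2 a5
  exact a2.det a5 (K.eu_ok _ _ _) (pvfv_endM_ok (hW.ty_wf m z t)) Cd.e_geo a1

/-- **the thick return link `t → u`** -/
theorem pvn2_b (hq0 : 0 < q0) (hq1 : q0 ≤ 1) (hQ : PvlqQbx q0) (hW : 𝔓.Wf) (hβ : 0 < 𝔓.mod.N.β) (K : 𝔤.KitOk 𝔓 m β' qk) (Cd : 𝔤.CandOk 𝔓 m z t)
    (U : PvndKitUp 𝔤 𝔓 m βk βu n) (R : PvndCand 𝔤 𝔓 n nu m z t) (hq : 𝔤.qb ≤ pvndQ q0 nu (min 𝔓.mod.N.β βu))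
    (D : ∀ᶠ ε in 𝓝[>] (0 : ℝ), Pvn2Rec ε (𝔤.lb 𝔓 (𝔓.ty m z t).col m z t) (𝔤.wb m z t).M (pvydG 𝔓 m ε z t) (𝔤.GU 𝔓 (𝔓.ty m z t).col m ε z t) (C ε) (KE ε)) :
    ∀ᶠ ε in 𝓝[>] (0 : ℝ), ∀ᵐ η ∂(pvP ε), η ∈ pvydG 𝔓 m ε z t → η ∈ 𝔤.GU 𝔓 (𝔓.ty m z t).col m ε z t →
      η ∈ (pvydDat 𝔓 𝔤 (𝔓.ty m z t).col).Ab m ε z t → η ∈ pvkjA (C ε) := by
  filter_upwards [pvnd_b_ae hq0 hq1 hQ hW hβ K Cd U R hq, D, self_mem_nhdsWithin] with ε a1 a2 a5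
  exact a2.det a5 (pvfv_endP_ok (hW.ty_wf m z t)) (K.eu_ok _ _ _) Cd.b_geo a1

/-- **the entrance funnel of the reference plug**, REFERENCE FRAME (carried to every frame by `pvuh_fact_at` of 95) -/
theorem pvn2_r (hq0 : 0 < q0) (hq1 : q0 ≤ 1) (hQ : PvlqQbx q0) (K : 𝔤.KitOk 𝔓 m β' qk) (U : PvndKitUp 𝔤 𝔓 m βk βu n) (hq : 𝔤.qr m ≤ pvndQ q0 n (min βk βu))
    (D : ∀ᶠ ε in 𝓝[>] (0 : ℝ), Pvn2Rec ε (𝔤.lr 𝔓 m ε) (𝔤.wr m).M ((𝔤.kit m ε).G (𝔓.Γ m).pin0 (𝔓.Γ m).din0) (𝔤.Gu m ε) (C ε) (KE ε)) :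
    ∀ᶠ ε in 𝓝[>] (0 : ℝ), ∀ᵐ η ∂(pvP ε), η ∈ (𝔤.kit m ε).G (𝔓.Γ m).pin0 (𝔓.Γ m).din0 → η ∈ 𝔤.Gu m ε → η ∈ 𝔤.Ar₀ 𝔓 m ε → η ∈ pvkjA (C ε) := by
  filter_upwards [pvnd_r_ae hq0 hq1 hQ K U hq, D, K.en_ok true true _ _ U.d40, K.r_geo, self_mem_nhdsWithin] with ε a1 a2 a3 a4 a5
  exact a2.det a5 a3 (K.eu_ok _ _ _) a4 a1

end term

end Claimed.Agent.R289
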