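-- KEEP
import Claimed.Agent.R289.Tr.CloseNQ

/-!
# Row 289 (S0537, Cardy for Poisson-Voronoi), THE WALL, ROAD P, file Tr/CloseNF : CLOSE OF THE FREE ARC WITH THE LANE HOOKED AT THE FEET: THE TWO DISCS LEAVE THE ZONE      (author helper186; prefix `pvncf_`)

CURE OF THE MISFIT OF 212 (= R4 of 225): `hreg` of `pvcu_map` asked every layer site to be joined to the last inner plug OFF a zone which contains the two closed discs `S₂(s)`, `S₂(t)`: unsatisfiable when a pocket of the backward strand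
sits in a hole closed by the disc.      Since the FOOT patch of `Tr/StateP` (v3) the white lane ends AT THE FEET `T.tgt g₂(s).aOut`, `T.tgt g₂(t).aIn`.   So the Jordan curve may be taken as `Z₀ = y ∪ q₀`:
`y` = the OUTER part of `p` (clauses `len pre suf off` of `PvzzDat.Is`), `q₀` = a simple white path of the lane between the two feet.   `Z₀ ⊆ p.verts ∪ X`: the curve never enters the two discs, THE ZONE IS `p.verts ∪ X`.
* sec. 1  `pvncf_sector_const` (a face set is constant on the sector of a cycle at a vertex if its boundary edges INSIDE the sector are edges of the cycle)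
* sec. 2  SHIELD and `GFaced` with a WITNESS VERTEX strictly on the left of the curve: `pvncf_shield`, `pvncf_gfaced_q`
* sec. 3  **`pvncf_side`** (the last but one vertex of the inner path of `g₂(s)` lies strictly on the left of `Z₀`),   **`pvncf_gfaced`** (the free arc is globally faced; zone `p.verts ∪ X`)
* sec. 4  consumer forms: `pvncf_region`, **`pvncf_faced`**, `pvncf_N_of_gfaced`, **`pvncf_main`**, **`pvncf_total`** (= `pvnc_main`, `pvnc_total` of 260 without `hsF htF`)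
* sec. 5  IN MARKS: `PvncfReg` (= `PvcuReg` of 260 WITHOUT `ZsZ ZtZ`), `PvncfArc` (= `PvcuArc` + `len pre suf off`), **`pvncf_gf_map`** (a present free arc is globally faced), **`pvncf_map`** (= `pvcu_map`)
* sec. 6  **`pvncf_cl`** (= `pvcu_cl`: CLOSE at one configuration)
All proved, no sorry.
-/

set_option autoImplicit false
set_option linter.unusedSectionVars false
set_option linter.unusedVariables false

namespace Claimed.Agent.R289

open Relation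

variable {V D : Type} {T : PvMap V D} {s : V → Bool}

/-! ## 1. the sector -/

/-- a face set whose boundary edges at a vertex of the cycle, INSIDE the left sector, are cycle edges is constant on the faces of `Left` at that vertex      (`pl_cyc_sector_const` with the hypothesis asked in the sector only) -/
theorem pvncf_sector_const (hT : T.IsSph) (c : T.Cyc) {v : V} (hv : v ∈ c.verts) {B : Set D} (hB : T.FaceSet B)
    (hbd : ∀ d, T.src d = v → d ∈ c.Left → T.Bd B d → T.Edg c.darts d) {d d' : D} (hd : T.src d = v) (hd' : T.src d' = v) (h : d ∈ c.Left) (h' : d' ∈ c.Left) :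
    d ∈ B ↔ d' ∈ B := by
  obtain ⟨j, hj⟩ := hv
  obtain ⟨i, hi⟩ : ∃ i, c.e (i + 1) = c.e j := by
    refine ⟨j + c.n - 1, ?_⟩
    have : j + c.n - 1 + 1 = j + c.n := by have := pl_cyc_pos c; omega
    rw [this, c.per]
  have hv' : T.src (c.e (i + 1)) = v := by rw [hi, hj]
  obtain ⟨K, _, _, hno, hmem⟩ := pl_cyc_sector hT c i
  have key : ∀ k, k < K → (T.rot^[k] (c.e (i + 1)) ∈ B ↔ c.e (i + 1) ∈ B) := by
    intro k
    induction k with
    | zero => intro _; exact Iff.rfl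
    | succ k ih =>
      intro hk
      have h2 : ¬ T.Bd B (T.rot (T.rot^[k] (c.e (i + 1)))) := by
        intro hb
        rw [← Function.iterate_succ_apply' T.rot k (c.e (i + 1))] at hb
        exact hno (k + 1) (Nat.succ_pos k) hk (hbd _ ((T.src_rot_iter _ _).trans hv') ((hmem _ (T.src_rot_iter _ _)).2 ⟨k + 1, hk, rfl⟩) hb)
      rw [Function.iterate_succ_apply', hB.rot_mem T h2]
      exact ih (Nat.lt_of_succ_lt hk)
  obtain ⟨k, hk, rfl⟩ := (hmem d (hd.trans hv'.symm)).1 h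
  obtain ⟨k', hk', rfl⟩ := (hmem d' (hd'.trans hv'.symm)).1 h'
  exact (key k hk).trans (key k' hk').symm

/-! ## 2. SHIELD with a witness vertex -/

/-- **SHIELD, witness vertex form**: `w₀` strictly on the left of `Z = g ∪ q` -/
theorem pvncf_shield (hT : T.IsSph) (g q : T.Pth) (hgq : g.Glue q) (hg : pvtaB g s) {w₀ : V} (hw : w₀ ∈ T.Int (g.glue q hgq).Left)
    {k : ℕ} (hk : k < g.n) {a : V} (ha : ReflTransGen (fun u v => T.Adj u v ∧ v ∉ (g.glue q hgq).verts) w₀ a)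
    (hj : T.Join Set.univ {v | s v = false} (g.rap k) a) :
    ∃ j, 0 < j ∧ j < q.n ∧ T.Mono s (g.rap k) (q.v j) := by
  obtain ⟨hRL, -, hO, -⟩ := pl_jordan hT (g.glue q hgq)
  obtain ⟨-, -, hdis⟩ := pl_jordan_vert_disj hT (g.glue q hgq)
  have haL : a ∈ T.Int (g.glue q hgq).Left := pl_jordan_sep hT _ hw ha
  have hoffR : ∀ c, c ∉ (g.glue q hgq).verts → ∀ d, T.src d = c → ¬ T.Bd (g.glue q hgq).Right d :=
    fun c hc d hd hb => pl_cyc_off _ (hd ▸ hc) (pl_right_bd_sub _ hb)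
  have hx0 : s (g.rap k) = false := hj.1
  have key : ∀ b, ReflTransGen (fun u v => T.EdgeIn Set.univ u v ∧ v ∈ {v | s v = false}) (g.rap k) b →
      (∃ j, 0 < j ∧ j < q.n ∧ T.Mono s (g.rap k) (q.v j)) ∨ (T.Mono s (g.rap k) b ∧ s b = false ∧ b ∈ T.Int (g.glue q hgq).Right) := by
    intro b hb
    induction hb with
    | refl =>
      rcases pl_jordan_vert hT (g.glue q hgq) (g.rap k) with h1 | h1 | h1
      · obtain ⟨j, j0, j1, e⟩ := pvta_white_on g q hgq hg h1 hx0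
        exact Or.inl ⟨j, j0, j1, e ▸ ReflTransGen.refl⟩
      · exfalso
        have h2 : T.opp (g.e k) ∈ (g.glue q hgq).Right := by
          rw [← pl_pth_glue_e1 g q hgq hk]
          exact hO k
        have h3 : T.nxt (T.nxt (T.opp (g.e k))) ∈ (g.glue q hgq).Right := ((pl_right_face _).nxt2 T _).2 h2
        have h4 := h1 (T.nxt (T.nxt (T.opp (g.e k)))) rfl
        rw [hRL] at h3
        exact h3 h4
      · exact Or.inr ⟨ReflTransGen.refl, hx0, h1⟩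
    | @tail b c _ hbc ih =>
      rcases ih with ih | ⟨m1, m2, m3⟩
      · exact Or.inl ih
      · obtain ⟨⟨d, -, hd1, hd2⟩, hc⟩ := hbc
        have hc' : s c = false := hc
        have hadj : T.Adj b c := ⟨d, hd1, hd2⟩
        have hm : T.Mono s (g.rap k) c := m1.tail ⟨hadj, m2.trans hc'.symm⟩
        by_cases hcZ : c ∈ (g.glue q hgq).verts
        · obtain ⟨j, j0, j1, e⟩ := pvta_white_on g q hgq hg hcZ hc'
          exact Or.inl ⟨j, j0, j1, e ▸ hm⟩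
        · exact Or.inr ⟨hm, hc', pl_int_adj hT (pl_right_face _) m3 hadj (hoffR c hcZ)⟩
  rcases key a hj.2 with h1 | ⟨-, -, h1⟩
  · exact h1
  · exact absurd h1 (Set.disjoint_left.1 hdis haL)

/-- **`B_g`, `N_g`, lane `q`, REGION (witness vertex form) ⟹ `g` is globally faced** -/
theorem pvncf_gfaced_q (hT : T.IsSph) (g q : T.Pth) (hgq : g.Glue q) (hq2 : 2 ≤ q.n)
    (hg : pvtaB g s) (hq : ∀ i, 0 < i → i < q.n → s (q.v i) = false) {w₀ : V} (hw : w₀ ∈ T.Int (g.glue q hgq).Left) (U 𝔄 Λ : Set V) (h𝔄 : ∀ a ∈ 𝔄, T.Mono s a (q.v (q.n - 1)))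
    (hΛ : ∀ a ∈ Λ, a ∉ (g.glue q hgq).verts → ReflTransGen (fun u v => T.Adj u v ∧ v ∉ (g.glue q hgq).verts) w₀ a)
    (hN : pvtaN g s U (𝔄 ∪ Λ)) : g.GFaced s (q.v (q.n - 1)) := by
  have hρ : s (q.v (q.n - 1)) = false := hq _ (by omega) (by omega)
  refine ⟨fun i hi => by rw [hg i hi, hρ]; exact Bool.noConfusion, fun k hk => ?_⟩
  obtain ⟨a, ha, hj⟩ := hN k hk
  have hj' : T.Join Set.univ {v | s v = false} (g.rap k) a := pvta_join_mono (fun v hv => hv.2.2) hj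
  have haw : s a = false := by
    have h1 := pvt_c_mono_col (pvt_c_join_mono hj')
    rw [← h1]
    exact hj'.1
  rcases ha with ha | ha
  · exact (pvt_c_join_mono hj').trans (h𝔄 a ha)
  · by_cases haZ : a ∈ (g.glue q hgq).verts
    · obtain ⟨j, j0, j1, e⟩ := pvta_white_on g q hgq hg haZ haw
      rw [e] at hj'
      exact (pvt_c_join_mono hj').trans (pvtac_inner_mono q hq j0 j1)
    · obtain ⟨j, j0, j1, hm⟩ := pvncf_shield hT g q hgq hg hw hk (hΛ a ha haZ) hj'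
      exact hm.trans (pvtac_inner_mono q hq j0 j1)

/-! ## 3. the free arc with the lane hooked at the feet -/

/-- **SIDE AT THE FOOT**: `g` a gate with inner path `Is`;   `y` a path which leaves `g⁺` outside the gate, `q` closes it and arrives at `g⁺` from the foot `T.tgt g.aOut`;   the last but one vertex of `Is` is off `Z = y ∪ q`.
Then it lies strictly on the left of `Z`      (the sector of the gate at `g⁺` lies in the left sector of `Z`) -/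
theorem pvncf_side (hT : T.IsSph) (hS : T.Simple) (g : T.Gate s) {Is : T.Pth} (hs : g.Psg Is) (hn : 0 < Is.n) (y q : T.Pth) (hyq : y.Glue q) (hq2 : 2 ≤ q.n)
    (y0 : y.v 0 = g.vp) (hy : y.e 0 ∉ g.c.Left) (hfoot : q.v (q.n - 1) = T.tgt g.aOut) (hoff : Is.v (Is.n - 1) ∉ (y.glue q hyq).verts) :
    Is.v (Is.n - 1) ∈ T.Int (y.glue q hyq).Left := by
  obtain ⟨hyn, hqn⟩ := pl_pth_glue_pos hyq
  have hm := g.hm
  have hFZ := pl_left_face (y.glue q hyq)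
  have hFc := pl_left_face g.c
  have hvp : T.tgt (g.c.e (g.m - 1)) = g.vp := by
    rw [g.c.chain, show g.m - 1 + 1 = g.m by omega]
    rfl
  -- the last dart of `q` is the dart of the circuit from the foot to `g⁺`
  have e1 : q.e (q.n - 1) = g.c.e (g.m - 1) := by
    apply hS
    · rw [q.src_e _ (by omega), hfoot, pvtg_aOut_tgt]
    · rw [q.tgt_e _ (by omega), show q.n - 1 + 1 = q.n by omega, hyq.h2, y0, hvp]
  have z1 : (y.glue q hyq).e (y.n + (q.n - 1)) = g.c.e (g.m - 1) := by rw [pl_pth_glue_e2 y q hyq (by omega), e1]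
  have z2 : (y.glue q hyq).e (y.n + (q.n - 1) + 1) = y.e 0 := by
    have h1 := (y.glue q hyq).per 0
    rw [Nat.zero_add, pl_pth_glue_n] at h1
    rw [show y.n + (q.n - 1) + 1 = y.n + q.n by omega, h1, pl_pth_glue_e1 y q hyq hyn]
  -- the two darts at `g⁺`
  have hD : T.opp (Is.e (Is.n - 1)) ∈ g.c.Left := (hs.ins _ (by omega)).2
  have sD : T.src (T.opp (Is.e (Is.n - 1))) = g.vp := by rw [T.src_opp', Is.tgt_e _ (by omega), show Is.n - 1 + 1 = Is.n by omega, hs.h1]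
  have hd' : T.nxt (g.c.e (g.m - 1)) ∈ g.c.Left := (hFc _).2 ((pl_jordan hT g.c).2.1 _)
  have sd' : T.src (T.nxt (g.c.e (g.m - 1))) = g.vp := hvp
  have hd'Z : T.nxt (g.c.e (g.m - 1)) ∈ (y.glue q hyq).Left := (hFZ _).2 (z1 ▸ (pl_jordan hT (y.glue q hyq)).2.1 _)
  have hDZ : T.opp (Is.e (Is.n - 1)) ∈ (y.glue q hyq).Left := by
    refine (pvncf_sector_const hT g.c (v := g.vp) ⟨g.m, rfl⟩ hFZ (fun d hd hdL hb => ?_) sD sd' hD hd').2 hd'Z
    have hsrc : T.src d = T.src ((y.glue q hyq).e (y.n + (q.n - 1) + 1)) := by rw [z2, y.src_e 0 hyn, y0, hd]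
    rcases pl_cyc_at (y.glue q hyq) _ hsrc (pl_left_bd_sub _ hb) with h | h
    · rw [z2] at h
      exact absurd (h ▸ hdL) hy
    · rw [z1] at h
      exact Or.inr ⟨g.m - 1, by rw [h, T.opp_opp]⟩
  have h1 : Is.v (Is.n - 1) ∈ T.VOf (y.glue q hyq).Left :=
    ⟨T.nxt (T.opp (Is.e (Is.n - 1))), (hFZ _).2 hDZ, by rw [T.src_nxt, T.tgt_opp, Is.src_e _ (by omega)]⟩
  rw [pl_VOf_left hT] at h1
  exact h1.resolve_left hoff

/-- **TR13a WITH THE LANE AT THE FEET**: `gs gt` the second gates, `Is It` their inner paths, `p = Is[ip,n] · y · It[0,im]` black, `y` outside the two gates (clauses `len pre suf off` of 212);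
LANE: a white join `X` from the foot of `gt` (beside `gt⁻`) to the foot of `gs` (beside `gs⁺`);   ZONE `Fb ⊇ p ∪ X` (NO DISC);   REGION: every vertex of the layer `Λ` is joined to `gs⁻` off the zone;   `N_p` with anchor `Is.rap (ip - 1)` or `Λ`.
Then `p` is globally faced. -/
theorem pvncf_gfaced (hT : T.IsSph) (hS : T.Simple) (gs gt : T.Gate s) {Is It p : T.Pth} (hs : gs.IsInn Is) (ht : gt.IsInn It) {ip im : ℕ}
    (hip0 : 0 < ip) (hip : ip ≤ Is.n) (him : im < It.n) (hB : pvtaB p s)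
    (len : Is.n - ip + im ≤ p.n) (pre : ∀ i, ip + i ≤ Is.n → p.v i = Is.v (ip + i)) (suf : ∀ i, i ≤ im → p.v (p.n - im + i) = It.v i)
    (off : ∀ k, Is.n - ip < k → k + im < p.n → p.v k ∉ T.VOf gs.c.Left ∧ p.v k ∉ T.VOf gt.c.Left)
    (hdis : Disjoint (T.VOf gs.c.Left) (T.VOf gt.c.Left))
    {X : Set V} (hX : ∀ v ∈ X, s v = false) (hlane : T.Join Set.univ X (T.tgt gt.aIn) (T.tgt gs.aOut))
    {Fb : Set V} (hpF : p.verts ⊆ Fb) (hXF : X ⊆ Fb)
    {U Λ : Set V} (hΛ : ∀ a ∈ Λ, ReflTransGen (fun u v => T.Adj u v ∧ v ∉ Fb) gs.vm a)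
    (hN : pvtaN p s U ({Is.rap (ip - 1)} ∪ Λ)) : p.GFaced s (T.tgt gs.aOut) := by
  have hd : ∀ v, v ∈ T.VOf gs.c.Left → v ∈ T.VOf gt.c.Left → False := fun v h1 h2 => Set.disjoint_left.1 hdis h1 h2
  obtain ⟨k₁, hk₁⟩ : ∃ k₁, k₁ = Is.n - ip := ⟨_, rfl⟩
  obtain ⟨k₂, hk₂⟩ : ∃ k₂, k₂ = p.n - im := ⟨_, rfl⟩
  have v1 : p.v k₁ = gs.vp := by rw [pre k₁ (by omega), show ip + k₁ = Is.n by omega, hs.1.h1]
  have v2 : p.v k₂ = gt.vm := by
    have := suf 0 (Nat.zero_le _)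
    rw [Nat.add_zero, ← hk₂, ht.1.h0] at this
    exact this
  have mS : ∀ i, i ≤ Is.n → Is.v i ∈ T.VOf gs.c.Left := fun i hi => pvgz_psg_mem hT gs hs.1 hi
  have mT : ∀ i, i ≤ It.n → It.v i ∈ T.VOf gt.c.Left := fun i hi => pvgz_psg_mem hT gt ht.1 hi
  have mvp : gs.vp ∈ T.VOf gs.c.Left := hs.1.h1 ▸ mS _ le_rfl
  have mvm : gt.vm ∈ T.VOf gt.c.Left := ht.1.h0 ▸ mT 0 (Nat.zero_le _)
  have h12 : k₁ < k₂ := by
    rcases Nat.lt_or_ge k₁ k₂ with h | h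
    · exact h
    · exfalso
      have e : k₁ = k₂ := by omega
      rw [e, v2] at v1
      exact hd _ mvp (v1 ▸ mvm)
  have hk₂n : k₂ ≤ p.n := by omega
  have yn : (p.seg k₁ k₂).n = k₂ - k₁ := pvt_c_seg_n p k₁ hk₂n
  have yv : ∀ k, (p.seg k₁ k₂).v k = p.v (k₁ + k) := fun k => rfl
  have ye : ∀ k, (p.seg k₁ k₂).e k = p.e (k₁ + k) := fun k => rfl
  have y0 : (p.seg k₁ k₂).v 0 = gs.vp := v1
  have y1 : (p.seg k₁ k₂).v (p.seg k₁ k₂).n = gt.vm := by rw [yv, yn, show k₁ + (k₂ - k₁) = k₂ by omega, v2]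
  have hBy : pvtaB (p.seg k₁ k₂) s := fun i hi => hB (k₁ + i) (by omega)
  have hρw : s (T.tgt gs.aOut) = false := pvtg_R_white gs (pvtg_aOut_tgt_R gs)
  -- the vertices of `y` are off `Is[0,n)`
  have hyoff : ∀ l, l ≤ (p.seg k₁ k₂).n → ∀ i, i < Is.n → (p.seg k₁ k₂).v l ≠ Is.v i := by
    intro l hl i hi e
    rw [yv] at e
    rcases Nat.eq_zero_or_pos l with rfl | l0
    · rw [Nat.add_zero, v1, ← hs.1.h1] at e
      have := Is.inj _ _ le_rfl hi.le e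
      omega
    · rcases Nat.lt_or_ge (k₁ + l) k₂ with h | h
      · exact (off (k₁ + l) (by omega) (by omega)).1 (e ▸ mS i hi.le)
      · rw [show k₁ + l = k₂ by omega, v2] at e
        exact hd _ (mS i hi.le) (e ▸ mvm)
  have hw : T.Adj ((p.seg k₁ k₂).v (p.seg k₁ k₂).n) (T.tgt gt.aIn) := ⟨gt.aIn, by rw [y1]; rfl, rfl⟩
  have hρ : T.Adj (T.tgt gs.aOut) ((p.seg k₁ k₂).v 0) := ⟨T.opp gs.aOut, T.src_opp' _, by rw [T.tgt_opp, pvtg_aOut_src, y0]⟩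
  obtain ⟨q, hgq, hq2, hqρ, hqX⟩ := pvnc_lane (p.seg k₁ k₂) hBy (by omega) hX hw hρ hlane
  have hq : ∀ i, 0 < i → i < q.n → s (q.v i) = false := fun i h0 h1 => hX _ (hqX i h0 h1)
  have hyp : (p.seg k₁ k₂).verts ⊆ p.verts := by
    rintro _ ⟨l, hl, rfl⟩
    exact ⟨k₁ + l, by omega, rfl⟩
  have hZF : ((p.seg k₁ k₂).glue q hgq).verts ⊆ Fb := by
    rw [pl_pth_glue_verts]
    rintro x (hx | ⟨l, hl, rfl⟩)
    · exact hpF (hyp hx)
    · rcases Nat.eq_zero_or_pos l with rfl | l0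
      · rw [← hgq.h1]; exact hpF (hyp ⟨_, le_rfl, rfl⟩)
      · rcases Nat.lt_or_ge l q.n with l1 | l1
        · exact hXF (hqX l l0 l1)
        · rw [show l = q.n by omega, hgq.h2]; exact hpF (hyp ⟨0, Nat.zero_le _, rfl⟩)
  have hoff : ∀ i, i < Is.n → Is.v i ∉ ((p.seg k₁ k₂).glue q hgq).verts := by
    intro i hi
    rw [pl_pth_glue_verts]
    rintro (⟨l, hl, e⟩ | ⟨l, hl, e⟩)
    · exact hyoff l hl i hi e
    · rcases Nat.eq_zero_or_pos l with rfl | l0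
      · rw [← hgq.h1] at e; exact hyoff _ le_rfl i hi e
      · rcases Nat.lt_or_ge l q.n with l1 | l1
        · have h1 := hq l l0 l1
          rw [e, hs.1.bl i hi.le] at h1
          exact Bool.noConfusion h1
        · rw [show l = q.n by omega, hgq.h2] at e; exact hyoff _ (Nat.zero_le _) i hi e
  -- the first dart of `y` leaves the gate
  have hy0 : (p.seg k₁ k₂).e 0 ∉ gs.c.Left := by
    intro h
    have h1 : p.v (k₁ + 1) ∈ T.VOf gs.c.Left := ⟨T.nxt ((p.seg k₁ k₂).e 0), (pl_left_face gs.c _).2 h, by rw [T.src_nxt, (p.seg k₁ k₂).tgt_e 0 (by omega)]; rfl⟩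
    rcases Nat.lt_or_ge (k₁ + 1) k₂ with h2 | h2
    · exact (off (k₁ + 1) (by omega) (by omega)).1 h1
    · rw [show k₁ + 1 = k₂ by omega, v2] at h1
      exact hd _ h1 mvm
  have hside := pvncf_side hT hS gs hs.1 (by omega) (p.seg k₁ k₂) q hgq hq2 y0 hy0 hqρ (hoff _ (by omega))
  have hanc : T.Mono s (Is.rap (ip - 1)) (T.tgt gs.aOut) :=
    pvt_c_join_mono (r := false) (pl_hx_join_mono Set.Subset.rfl (fun v hv => hv.1) (pvnc_inn_rap hT gs hs (show ip - 1 < Is.n by omega) (pvtg_aOut_tgt_R gs)))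
  have hNy : pvtaN (p.seg k₁ k₂) s U ({Is.rap (ip - 1)} ∪ Λ) := by
    intro k hk
    obtain ⟨a, ha, hj⟩ := hN (k₁ + k) (by omega)
    exact ⟨a, ha, pvta_join_mono (Y := {v | v ∈ U ∧ v ∉ (p.seg k₁ k₂).verts ∧ s v = false}) (fun v hv => ⟨hv.1, fun h => hv.2.1 (hyp h), hv.2.2⟩) hj⟩
  have key := pvncf_gfaced_q hT (p.seg k₁ k₂) q hgq hq2 hBy hq hside U {Is.rap (ip - 1)} Λ
    (fun a ha => by rw [Set.mem_singleton_iff.1 ha, hqρ]; exact hanc)
    (fun a ha _ => by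
      refine (pvnc_walk_down Is (show Is.n - 1 ≤ Is.n by omega) fun k hk => hoff k (by omega)).trans ?_
      rw [hs.1.h0]
      exact ReflTransGen.mono (fun u v h => ⟨h.1, fun hv => h.2 (hZF hv)⟩) _ _ (hΛ a ha)) hNy
  rw [hqρ] at key
  have hlm : T.Mono s (T.tgt gt.aIn) (T.tgt gs.aOut) := pvt_c_join_mono (r := false) (pl_hx_join_mono Set.Subset.rfl (fun v hv => hX v hv) hlane)
  have hIs := pvgz_inn_gfaced hT gs hs (pvtg_aOut_tgt_R gs)
  have hIt := (pvgz_inn_gfaced hT gt ht (pvtg_aIn_tgt_R gt)).anchor hlm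
  refine ⟨fun i hi => by rw [hB i hi, hρw]; exact Bool.noConfusion, fun k hk => ?_⟩
  rcases Nat.lt_or_ge k k₁ with h1 | h1
  · have e : p.e k = Is.e (ip + k) := by
      apply hS
      · rw [p.src_e k hk, Is.src_e _ (by omega), pre k (by omega)]
      · rw [p.tgt_e k hk, Is.tgt_e _ (by omega), pre (k + 1) (by omega)]; rfl
    rw [e]
    exact hIs.2 _ (by omega)
  · rcases Nat.lt_or_ge k k₂ with h2 | h2
    · have := key.2 (k - k₁) (by omega)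
      rwa [ye, show k₁ + (k - k₁) = k by omega] at this
    · have e : p.e k = It.e (k - k₂) := by
        apply hS
        · rw [p.src_e k hk, It.src_e _ (by omega), ← suf _ (by omega)]; congr 1; omega
        · rw [p.tgt_e k hk, It.tgt_e _ (by omega), ← suf _ (by omega)]; congr 1; omega
      rw [e]
      exact hIt.2 _ (by omega)

/-! ## 4. consumer forms -/

/-- the links of a chain have at least one dart -/
theorem pvncf_link_pos (hT : T.IsSph) {n : ℕ} {G : ℕ → T.Gate s} {I L : ℕ → T.Pth} (H : PvncChain T s n G I L) {j : ℕ} (hj : j < n) : 1 ≤ (L j).n := by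
  by_contra hc
  have e0 : (L j).n = 0 := by omega
  have e : (G j).vp = (G (j + 1)).vm := by rw [← H.lk0 _ hj, ← H.lk1 _ hj, e0]
  have hvp : (G j).vp ∈ T.VOf (G j).c.Left := ⟨(G j).c.e (G j).m, (pl_jordan hT (G j).c).2.1 _, rfl⟩
  exact Set.disjoint_left.1 (H.dGG j (j + 1) (by omega) (by omega) (by omega)) hvp (e ▸ pvgz_vm_mem hT _)

/-- **REGION from a vertex of the last link, THIN ZONE**: `Fz` = any zone which contains `p` and the lane -/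
theorem pvncf_region {n : ℕ} {G : ℕ → T.Gate s} {I L : ℕ → T.Pth} (H : PvncChain T s n G I L) (hn : 0 < n) {p : T.Pth} {ip im : ℕ} (F : PvncFree T s n G I L p ip im)
    {X : Set V} (hX : ∀ v ∈ X, s v = false) {Fz : Set V} (hpF : p.verts ⊆ Fz) (hXF : X ⊆ Fz)
    {l : ℕ} (hl0 : 0 < l) (hl : l ≤ (L (n - 1)).n) {a : V} (ha : ReflTransGen (fun u v => T.Adj u v ∧ v ∉ Fz) ((L (n - 1)).v l) a) :
    ReflTransGen (fun u v => T.Adj u v ∧ v ∉ p.verts ∪ X) (G n).vm a := by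
  have hj : n - 1 < n := by omega
  have e : (G n).vm = (L (n - 1)).v (L (n - 1)).n := by rw [H.lk1 _ hj, show n - 1 + 1 = n by omega]
  rw [e]
  refine (pvnc_walk_dn (L (n - 1)) (X := (p.verts ∪ X)ᶜ) hl le_rfl fun k h1 h2 => ?_).trans (ReflTransGen.mono (fun u v h => ⟨h.1, ?_⟩) _ _ ha)
  · rintro (⟨i, hi, e'⟩ | h)
    · exact F.offL i hi _ hj k (by omega) h2 e'
    · have := hX _ h
      rw [pvnc_link_black H hj h2.le] at this
      exact Bool.noConfusion this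
  · rintro (h' | h')
    · exact h.2 (hpF h')
    · exact h.2 (hXF h')

/-- **THE FREE ARC IS GLOBALLY FACED** (chain as given; lane between the feet; zone `Fz ⊇ p ∪ X`, NO DISC; REGION from a vertex of the last link, which may depend on the layer vertex) -/
theorem pvncf_faced (hT : T.IsSph) (hS : T.Simple) {n : ℕ} {G : ℕ → T.Gate s} {I L : ℕ → T.Pth} (H : PvncChain T s n G I L) (hn : 0 < n)
    {p : T.Pth} {ip im : ℕ} (F : PvncFree T s n G I L p ip im) (hB : pvtaB p s)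
    (len : (I n).n - ip + im ≤ p.n) (pre : ∀ i, ip + i ≤ (I n).n → p.v i = (I n).v (ip + i)) (suf : ∀ i, i ≤ im → p.v (p.n - im + i) = (I 0).v i)
    (off : ∀ k, (I n).n - ip < k → k + im < p.n → p.v k ∉ T.VOf (G n).c.Left ∧ p.v k ∉ T.VOf (G 0).c.Left)
    {X : Set V} (hX : ∀ v ∈ X, s v = false) (hlane : T.Join Set.univ X (T.tgt (G 0).aIn) (T.tgt (G n).aOut))
    {Fz : Set V} (hpF : p.verts ⊆ Fz) (hXF : X ⊆ Fz)
    {U Λ : Set V} (hΛ : ∀ a ∈ Λ, ∃ l, 0 < l ∧ l ≤ (L (n - 1)).n ∧ ReflTransGen (fun u v => T.Adj u v ∧ v ∉ Fz) ((L (n - 1)).v l) a)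
    (hN : pvtaN p s U ({(I n).rap (ip - 1)} ∪ Λ)) : p.GFaced s (T.tgt (G n).aOut) :=
  pvncf_gfaced hT hS (G n) (G 0) (H.hinn n le_rfl) (H.hinn 0 (Nat.zero_le _)) F.ip0 F.ip_le F.im_lt hB len pre suf off (H.dGG n 0 le_rfl (Nat.zero_le _) (by omega)) hX hlane
    (Fb := p.verts ∪ X) (fun v hv => Or.inl hv) (fun v hv => Or.inr hv)
    (fun a ha => by
      obtain ⟨l, hl0, hl, h⟩ := hΛ a ha
      exact pvncf_region H hn F hX hpF hXF hl0 hl h) hN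

/-- a `Mono` connection of white vertices is a join through any set which contains the white vertices -/
theorem pvncf_join_of_mono {a b : V} (h : T.Mono s a b) (ha : s a = false) {Y : Set V} (hY : ∀ v, s v = false → v ∈ Y) : T.Join Set.univ Y a b := by
  refine ⟨hY a ha, ?_⟩
  have key : ReflTransGen (fun u v => T.EdgeIn Set.univ u v ∧ v ∈ Y) a b ∧ s b = false := by
    induction h with
    | refl => exact ⟨ReflTransGen.refl, ha⟩
    | tail _ hbc ih =>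
      obtain ⟨⟨d, h1, h2⟩, hc⟩ := hbc
      have hw := hc.symm.trans ih.2
      exact ⟨ih.1.tail ⟨⟨d, Or.inl (Set.mem_univ _), h1, h2⟩, hY _ hw⟩, hw⟩
  exact key.1

/-- a globally faced black path satisfies `N_p` with the anchor alone, in the whole map -/
theorem pvncf_N_of_gfaced {p : T.Pth} {ρ a₀ : V} (hB : pvtaB p s) (hp : p.GFaced s ρ) (h : T.Mono s ρ a₀) (hρ : s ρ = false) : pvtaN p s Set.univ ({a₀} ∪ ∅) := by
  intro k hk
  refine ⟨a₀, Or.inl rfl, pvncf_join_of_mono ((hp.2 k hk).trans h) ((pvt_c_mono_col (hp.2 k hk)).trans hρ) fun v hv => ⟨Set.mem_univ _, ?_, hv⟩⟩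
  rintro ⟨i, hi, e⟩
  have := hB i hi
  rw [e, hv] at this
  exact Bool.noConfusion this

/-- **CLOSE, CONSUMER FORM, LANE AT THE FEET** = `pvnc_main` of 260 without the two discs in the zone -/
theorem pvncf_main (hT : T.IsSph) (hS : T.Simple) {n : ℕ} {G : ℕ → T.Gate s} {I L : ℕ → T.Pth} (H : PvncChain T s n G I L) (hn : 0 < n)
    {p : T.Pth} {ip im : ℕ} (F : PvncFree T s n G I L p ip im) (hB : pvtaB p s)
    (len : (I n).n - ip + im ≤ p.n) (pre : ∀ i, ip + i ≤ (I n).n → p.v i = (I n).v (ip + i)) (suf : ∀ i, i ≤ im → p.v (p.n - im + i) = (I 0).v i)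
    (off : ∀ k, (I n).n - ip < k → k + im < p.n → p.v k ∉ T.VOf (G n).c.Left ∧ p.v k ∉ T.VOf (G 0).c.Left)
    {X : Set V} (hX : ∀ v ∈ X, s v = false) (hlane : T.Join Set.univ X (T.tgt (G 0).aIn) (T.tgt (G n).aOut))
    {Fz : Set V} (hpF : p.verts ⊆ Fz) (hXF : X ⊆ Fz)
    {U Λ : Set V} (hΛ : ∀ a ∈ Λ, ∃ l, 0 < l ∧ l ≤ (L (n - 1)).n ∧ ReflTransGen (fun u v => T.Adj u v ∧ v ∉ Fz) ((L (n - 1)).v l) a)
    (hN : pvtaN p s U ({(I n).rap (ip - 1)} ∪ Λ)) :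
    p.GFaced s (T.tgt (G n).aOut) ∧ ∃ (G' : ℕ → T.Gate s) (I' L' : ℕ → T.Pth), (∀ j, j ≤ n → G' j = G j) ∧ (∀ j, j ≤ n → I' j = I j) ∧ I' (n + 1) = I' 0 ∧ (∀ j, j < n → L' j = L j) ∧
      L' n = p.seg ((I n).n - ip) (p.n - im) ∧ PvgzRing T s (n + 1) G' I' L' ∧ ∃ P : T.Cyc, P.IsRim s ∧
      (∀ j, j ≤ n → ∀ i, i < (I j).n → ∃ k, P.e k = (I j).e i) ∧ (∀ j, j < n → ∀ i, i < (L j).n → ∃ k, P.e k = (L j).e i) ∧ (∀ i, i < p.n → ∃ k, P.e k = p.e i) ∧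
      (∀ k, (∃ j, j ≤ n ∧ T.src (P.e k) ∈ (I j).verts) ∨ (∃ j, j < n ∧ T.src (P.e k) ∈ (L j).verts) ∨ T.src (P.e k) ∈ p.verts) ∧
      ∀ w : D → ℂ, ∑ k ∈ Finset.range P.n, w (T.opp (P.e k)) =
        ((I n).seg 0 ip).psum w + p.psum w + ((I 0).seg im (I 0).n).psum w + ∑ j ∈ Finset.range (n - 1), (I (j + 1)).psum w + ∑ j ∈ Finset.range n, (L j).psum w := by
  have hp := pvncf_faced hT hS H hn F hB len pre suf off hX hlane hpF hXF hΛ hN
  have hanc : T.Mono s (T.tgt (G n).aOut) ((I n).rap (ip - 1)) :=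
    pvt_c_mono_symm (pvt_c_join_mono (r := false) (pl_hx_join_mono Set.Subset.rfl (fun v hv => hv.1)
      (pvnc_inn_rap hT (G n) (H.hinn n le_rfl) (show ip - 1 < (I n).n by have := F.ip0; have := F.ip_le; omega) (pvtg_aOut_tgt_R (G n)))))
  exact pvnc_main hT hS H hn F hB hX (pvtg_aOut_tgt_R (G n)) (pvtg_aIn_tgt_R (G 0)) hlane (Fz := Set.univ) (Set.subset_univ _) (Set.subset_univ _) (Set.subset_univ _) (Set.subset_univ _)
    Nat.one_pos (pvncf_link_pos hT H (by omega)) (U := Set.univ) (Λ := ∅) (fun a ha => absurd ha (Set.notMem_empty a))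
    (pvncf_N_of_gfaced hB hp hanc (pvtg_R_white (G n) (pvtg_aOut_tgt_R (G n))))

/-- **CLOSE + TR14, MAP LEVEL, LANE AT THE FEET** = `pvnc_total` of 260 without the two discs in the zone -/
theorem pvncf_total (hT : T.IsSph) (hS : T.Simple) {n : ℕ} {G : ℕ → T.Gate s} {I L : ℕ → T.Pth} (H : PvncChain T s n G I L) (hn : 0 < n)
    {p : T.Pth} {ip im : ℕ} (F : PvncFree T s n G I L p ip im) (hB : pvtaB p s)
    (len : (I n).n - ip + im ≤ p.n) (pre : ∀ i, ip + i ≤ (I n).n → p.v i = (I n).v (ip + i)) (suf : ∀ i, i ≤ im → p.v (p.n - im + i) = (I 0).v i)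
    (off : ∀ k, (I n).n - ip < k → k + im < p.n → p.v k ∉ T.VOf (G n).c.Left ∧ p.v k ∉ T.VOf (G 0).c.Left)
    {X : Set V} (hX : ∀ v ∈ X, s v = false) (hlane : T.Join Set.univ X (T.tgt (G 0).aIn) (T.tgt (G n).aOut))
    {Fz : Set V} (hpF : p.verts ⊆ Fz) (hXF : X ⊆ Fz)
    {U Λ : Set V} (hΛ : ∀ a ∈ Λ, ∃ l, 0 < l ∧ l ≤ (L (n - 1)).n ∧ ReflTransGen (fun u v => T.Adj u v ∧ v ∉ Fz) ((L (n - 1)).v l) a)
    (hN : pvtaN p s U ({(I n).rap (ip - 1)} ∪ Λ))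
    (w u₁ u₂ : D → ℂ) (wj : ℕ → D → ℂ)
    (hL : ∀ j, j < n → ∀ k, k < (L j).n → wj j (T.opp ((L j).e k)) = w (T.opp ((L j).e k)))
    (hI : ∀ j, 0 < j → j < n → ∀ k, k < (I j).n → wj (j - 1) (T.opp ((I j).e k)) + wj j (T.opp ((I j).e k)) = w (T.opp ((I j).e k)))
    (hs1 : ∀ k, k < ip → wj (n - 1) (T.opp ((I n).e k)) + u₁ (T.opp ((I n).e k)) = w (T.opp ((I n).e k)))
    (hs2 : ∀ k, ip ≤ k → k < (I n).n → wj (n - 1) (T.opp ((I n).e k)) + u₁ (T.opp ((I n).e k)) + u₂ (T.opp ((I n).e k)) = w (T.opp ((I n).e k)))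
    (ht1 : ∀ k, k < im → wj 0 (T.opp ((I 0).e k)) + u₂ (T.opp ((I 0).e k)) = w (T.opp ((I 0).e k)))
    (ht2 : ∀ k, im ≤ k → k < (I 0).n → wj 0 (T.opp ((I 0).e k)) = w (T.opp ((I 0).e k)))
    (hy : ∀ k, (I n).n - ip ≤ k → k + im < p.n → u₂ (T.opp (p.e k)) = w (T.opp (p.e k))) :
    ∃ P : T.Cyc, P.IsRim s ∧
      (∀ j, j ≤ n → ∀ i, i < (I j).n → ∃ k, P.e k = (I j).e i) ∧ (∀ j, j < n → ∀ i, i < (L j).n → ∃ k, P.e k = (L j).e i) ∧ (∀ i, i < p.n → ∃ k, P.e k = p.e i) ∧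
      (∀ k, (∃ j, j ≤ n ∧ T.src (P.e k) ∈ (I j).verts) ∨ (∃ j, j < n ∧ T.src (P.e k) ∈ (L j).verts) ∨ T.src (P.e k) ∈ p.verts) ∧
      ∑ k ∈ Finset.range P.n, w (T.opp (P.e k)) =
        ((I n).psum u₁ + p.psum u₂) + ∑ j ∈ Finset.range n, ((I j).psum (wj j) + (L j).psum (wj j) + (I (j + 1)).psum (wj j)) := by
  have hp := pvncf_faced hT hS H hn F hB len pre suf off hX hlane hpF hXF hΛ hN
  have hanc : T.Mono s (T.tgt (G n).aOut) ((I n).rap (ip - 1)) :=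
    pvt_c_mono_symm (pvt_c_join_mono (r := false) (pl_hx_join_mono Set.Subset.rfl (fun v hv => hv.1)
      (pvnc_inn_rap hT (G n) (H.hinn n le_rfl) (show ip - 1 < (I n).n by have := F.ip0; have := F.ip_le; omega) (pvtg_aOut_tgt_R (G n)))))
  exact pvnc_total hT hS H hn F hB hX (pvtg_aOut_tgt_R (G n)) (pvtg_aIn_tgt_R (G 0)) hlane (Fz := Set.univ) (Set.subset_univ _) (Set.subset_univ _) (Set.subset_univ _) (Set.subset_univ _)
    Nat.one_pos (pvncf_link_pos hT H (by omega)) (U := Set.univ) (Λ := ∅) (fun a ha => absurd ha (Set.notMem_empty a))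
    (pvncf_N_of_gfaced hB hp hanc (pvtg_R_white (G n) (pvtg_aOut_tgt_R (G n)))) w u₁ u₂ wj hL hI hs1 hs2 ht1 ht2 hy

/-! ## 5. in marks -/

section map

open Set Claims.C0465

/-- **WHAT THE REGIONS OF A PATTERN OWE TO CLOSE, THIN ZONE** = `PvcuReg` of 260 WITHOUT `ZsZ ZtZ`: the zone `Zn` contains the tube (and the marks of the lane: `hX`), it misses the last inner plug;   NO DISC -/
structure PvncfReg (n : ℕ) (𝔢 : ℕ → PvkjEnd ℂ) (KE Mk U : ℕ → Set ℂ) (𝔯s 𝔯t : PvspReg ℂ) (Ug Zn B : Set ℂ) (a₀ : ℝ) : Prop where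
  geo : PvcuGeo n 𝔢 KE
  two : 2 ≤ n
  e0 : 𝔢 0 = pvkjBig 𝔯t
  en : 𝔢 n = pvkjBig 𝔯s
  UM : ∀ j, 0 < j → j < n → U j ⊆ Mk (j - 1) ∪ Mk j
  dMM : ∀ j, 0 < j → j < n → Disjoint (Mk (j - 1)) (Mk j)
  dUZ : ∀ i, 0 < i → i < n → Disjoint Ug (𝔢 i).Z
  dUK : ∀ j, j < n → Ug ∩ KE j ⊆ (𝔢 j).I ∪ (𝔢 (j + 1)).I
  hNm : 𝔯t .Nm ∩ KE 0 ⊆ 𝔯t .I2
  hNp : 𝔯s .Np ∩ KE (n - 1) ⊆ 𝔯s .I2
  UgZ : Ug ⊆ Zn
  dZn : Disjoint (𝔢 (n - 1)).Z Zn
  ZB : ∀ j, j ≤ n → (𝔢 j).Z ⊆ B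
  KB : ∀ j, j < n → KE j ⊆ B
  UB : Ug ⊆ B
  big : ∀ x ∈ 𝔯t .S2, ∀ y ∈ 𝔯s .S2, a₀ ≤ ‖x - y‖

/-- **THE FREE ARC AT ONE MARKED COLOURED MAP** = `PvcuArc` of 260 + the clauses `len pre suf off` of `Is` of 212 -/
structure PvncfArc (T : PvMap V D) (s : V → Bool) (mk : V → ℂ) (𝔯s 𝔯t : PvspReg ℂ) (Ug UN Lam : Set ℂ) (Ss St : PvspSt T s) (p : T.Pth) : Prop where
  arc : PvcuArc T s mk 𝔯s 𝔯t Ug UN Lam Ss St p
  len : Ss.inn.n - Ss.ip + St.im ≤ p.n
  pre : ∀ i, Ss.ip + i ≤ Ss.inn.n → p.v i = Ss.inn.v (Ss.ip + i)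
  suf : ∀ i, i ≤ St.im → p.v (p.n - St.im + i) = St.inn.v i
  off : ∀ k, Ss.inn.n - Ss.ip < k → k + St.im < p.n → p.v k ∉ T.VOf Ss.g2.c.Left ∧ p.v k ∉ T.VOf St.g2.c.Left

variable {mk : V → ℂ} {n : ℕ} {𝔢 : ℕ → PvkjEnd ℂ} {KE Mk U : ℕ → Set ℂ} {𝔯s 𝔯t : PvspReg ℂ} {Ug Zn UN Lam Bs Bt B : Set ℂ} {a₀ : ℝ}

/-- the thin record is the record of 260 at the FAT zone "everything but the last inner plug" (which is good for nothing but the black box below: its layer is empty) -/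
theorem PvncfReg.fat (Rg : PvncfReg n 𝔢 KE Mk U 𝔯s 𝔯t Ug Zn B a₀) : PvcuReg n 𝔢 KE Mk U 𝔯s 𝔯t Ug ((𝔢 (n - 1)).Z)ᶜ B a₀ where
  geo := Rg.geo
  two := Rg.two
  e0 := Rg.e0
  en := Rg.en
  UM := Rg.UM
  dMM := Rg.dMM
  dUZ := Rg.dUZ
  dUK := Rg.dUK
  hNm := Rg.hNm
  hNp := Rg.hNp
  UgZ := fun x hx h => Set.disjoint_left.1 (Rg.dUZ (n - 1) (by have := Rg.two; omega) (by have := Rg.two; omega)) hx h
  ZsZ := fun x hx h => Set.disjoint_left.1 (Rg.geo.dZZ n (n - 1) le_rfl (by omega) (by have := Rg.two; omega)) (by rw [Rg.en]; exact hx) h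
  ZtZ := fun x hx h => Set.disjoint_left.1 (Rg.geo.dZZ 0 (n - 1) (Nat.zero_le _) (by omega) (by have := Rg.two; omega)) (by rw [Rg.e0]; exact hx) h
  dZn := disjoint_compl_right
  ZB := Rg.ZB
  KB := Rg.KB
  UB := Rg.UB
  big := Rg.big

variable [DecidableEq V]

/-- **a present free arc is globally faced, THIN ZONE** (chain, `PvncFree`, zone `Zn ⊇` tube `∪` lane, REGION verbatim as in `pvcu_map` of 260; lane between the feet) -/
theorem pvncf_gf_map (hT : T.IsSph) (hS : T.Simple) (Rg : PvncfReg n 𝔢 KE Mk U 𝔯s 𝔯t Ug Zn B a₀) {g : ℕ → T.Gate s} {N : ℕ → ℕ} (hfin : ∀ j, j ≤ n → (g j).c.Left.Finite)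
    (H : ∀ j, j < n → PvkjLk T mk s (𝔢 j) (𝔢 (j + 1)) (KE j) (g j) (g (j + 1)) (N j))
    {Ss St : PvspSt T s} {p : T.Pth} (A : PvncfArc T s mk 𝔯s 𝔯t Ug UN Lam Ss St p)
    {X : Set V} (hX : ∀ v ∈ X, s v = false ∧ mk v ∈ Zn) (hlane : T.Join Set.univ X (T.tgt St.g2.aIn) (T.tgt Ss.g2.aOut))
    (hreg : ∀ c₀ a : V, mk c₀ ∈ (𝔢 (n - 1)).Z → mk a ∈ Lam → ReflTransGen (fun u v => T.Adj u v ∧ mk v ∉ Zn) c₀ a) :
    p.GFaced s (T.tgt Ss.g2.aOut) ∧ g n = Ss.g2 ∧ g 0 = St.g2 := by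
  have G := Rg.geo
  have hn := G.pos
  have hn2 := Rg.two
  have his : ∀ j, j ≤ n → (𝔢 j).Is V D T mk s (g j) := by
    intro j hj
    rcases Nat.lt_or_ge j n with h | h
    · exact (H j h).is
    · have := (H (n - 1) (by omega)).is'
      rwa [show n - 1 + 1 = j by omega] at this
  have hz : ∀ i, i ≤ n → ∀ x, x ∈ T.VOf (g i).c.Left → mk x ∈ (𝔢 i).Z := by
    rintro i hi x ⟨d, hd, rfl⟩
    exact (G.ok i hi).zone V D T mk s (g i) (his i hi) d hd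
  have hdeep : ∀ i, i ≤ n → ∀ x, mk x ∈ (𝔢 i).I → x ∈ T.Int (g i).c.Left := by
    intro i hi x hx d hd
    subst hd
    exact (G.ok i hi).deep V D T mk s (g i) (his i hi) d hx
  have hgn : g n = Ss.g2 := G.uq n le_rfl V D T mk s hT hS _ _ (his n le_rfl) (by rw [Rg.en]; exact ⟨A.arc.stars, Ss, A.arc.ats, rfl⟩)
  have hg0 : g 0 = St.g2 := G.uq 0 (Nat.zero_le _) V D T mk s hT hS _ _ (his 0 (Nat.zero_le _)) (by rw [Rg.e0]; exact ⟨A.arc.start, St, A.arc.att, rfl⟩)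
  refine ⟨?_, hgn, hg0⟩
  have h0 : mk (g 0).vm ∉ KE 0 := by
    intro h
    have h2 : mk (g 0).vm ∈ (𝔢 0).I := by
      rw [Rg.e0]
      exact Rg.hNm ⟨by rw [hg0]; exact A.arc.att.vm, h⟩
    exact pvgz_verts_not_int hT (g 0).c 0 (hdeep 0 (Nat.zero_le _) _ h2)
  have h1 : mk (g n).vp ∉ KE (n - 1) := by
    intro h
    have h2 : mk (g n).vp ∈ (𝔢 n).I := by
      rw [Rg.en]
      exact Rg.hNp ⟨by rw [hgn]; exact A.arc.ats.vp, h⟩
    exact pvgz_verts_not_int hT (g n).c (g n).m (hdeep n le_rfl _ h2)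
  have C := pvcu_chain hT hS G hfin H h0 h1
  obtain ⟨I, hI⟩ : ∃ I : ℕ → T.Pth, I = fun j => pvtArc T s (g j).aIn (g j).len := ⟨_, rfl⟩
  obtain ⟨L, hL⟩ : ∃ L : ℕ → T.Pth, L = fun j => pvtArc T s (g j).aOut (N j) := ⟨_, rfl⟩
  have eL : ∀ j, pvtArc T s (g j).aOut (N j) = L j := fun j => by rw [hL]
  rw [← hI, ← hL] at C
  have hKS : ∀ j, j < n → ∀ k, k ≤ (L j).n → (L j).v k ∈ pvzlKS T mk (KE j) (g j) (g (j + 1)) := fun j hj k hk => by
    rw [← eL] at hk ⊢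
    exact (pvkj_lk_verts (H j hj).run hk).1
  have hsI : (g n).IsInn Ss.inn := by
    rw [hgn]
    exact pvgz_inn_of_le hT hS Ss.g2 (hgn ▸ hfin n le_rfl) A.arc.ats.sel2.thru A.arc.ats.arc
  have htI : (g 0).IsInn St.inn := by
    rw [hg0]
    exact pvgz_inn_of_le hT hS St.g2 (hg0 ▸ hfin 0 (Nat.zero_le _)) A.arc.att.sel2.thru A.arc.att.arc
  obtain ⟨sn, se⟩ := pvgz_inn_unique hT hS (g n) hsI (C.hinn n le_rfl)
  obtain ⟨tn, te⟩ := pvgz_inn_unique hT hS (g 0) htI (C.hinn 0 (Nat.zero_le _))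
  have sv : ∀ i, i ≤ Ss.inn.n → Ss.inn.v i = (I n).v i := fun i hi => pvgz_pth_v sn (by rw [hsI.1.h0, (C.hinn n le_rfl).1.h0]) se hi
  have tv : ∀ i, i ≤ St.inn.n → St.inn.v i = (I 0).v i := fun i hi => pvgz_pth_v tn (by rw [htI.1.h0, (C.hinn 0 (Nat.zero_le _)).1.h0]) te hi
  have a1 := A.arc.ats.im_lt
  have a2 := A.arc.ats.ip_le
  have a3 := A.arc.att.im_lt
  have a4 := A.arc.att.ip_le
  have F : PvncFree T s n g I L p Ss.ip St.im := by
    refine ⟨by omega, by omega, by omega, ?_, ?_, fun k hk i hi => ?_, fun k hk i hi hin => ?_, fun k hk i i0 hi hx => ?_, fun k hk j hj l l0 l1 e => ?_⟩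
    · rw [A.arc.src, ← A.arc.ats.ip_eq, sv _ a2]
    · rw [A.arc.tgt, ← A.arc.att.im_eq, tv _ (by omega)]
    · rw [← sv i (by omega)]; exact A.arc.avs k hk i hi
    · rw [← tv i (by omega)]; exact A.arc.avt k hk i hi (by omega)
    · exact Set.disjoint_left.1 (Rg.dUZ i i0 hi) (A.arc.tube k hk) (hz i hi.le _ hx)
    · have hks := hKS j hj l l1.le
      rcases Rg.dUK j hj ⟨A.arc.tube k hk, e ▸ hks.1⟩ with h | h
      · exact hks.2.1 (hdeep j hj.le _ (e ▸ h))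
      · exact hks.2.2 (hdeep (j + 1) hj _ (e ▸ h))
  have hpF : p.verts ⊆ {v | mk v ∈ Zn} := by
    rintro _ ⟨i, hi, rfl⟩
    exact Rg.UgZ (A.arc.tube i hi)
  have hj1 : n - 1 < n := by omega
  have hvpm : (g (n - 1)).vp ∈ T.VOf (g (n - 1)).c.Left := ⟨(g (n - 1)).c.e (g (n - 1)).m, (pl_jordan hT (g (n - 1)).c).2.1 _, rfl⟩
  have hl : 1 ≤ (L (n - 1)).n := pvncf_link_pos hT C hj1
  have hΛ : ∀ a ∈ {v | mk v ∈ Lam}, ∃ l, 0 < l ∧ l ≤ (L (n - 1)).n ∧ ReflTransGen (fun u v => T.Adj u v ∧ v ∉ {v | mk v ∈ Zn}) ((L (n - 1)).v l) a := by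
    intro a ha
    have hm : mk ((L (n - 1)).v 0) ∈ (𝔢 (n - 1)).Z := by rw [C.lk0 _ hj1]; exact hz (n - 1) (by omega) _ hvpm
    refine ⟨1, Nat.one_pos, hl, ReflTransGen.head ⟨⟨T.opp ((L (n - 1)).e 0), ?_, ?_⟩, fun h => Set.disjoint_left.1 Rg.dZn hm h⟩ (hreg _ a hm ha)⟩
    · rw [T.src_opp', (L (n - 1)).tgt_e 0 (by omega)]
    · rw [T.tgt_opp, (L (n - 1)).src_e 0 (by omega)]
  have hN : pvtaN p s {v | mk v ∈ UN} ({(I n).rap (Ss.ip - 1)} ∪ {v | mk v ∈ Lam}) := by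
    have e : (I n).rap (Ss.ip - 1) = Ss.inn.rap (Ss.ip - 1) := by
      unfold PvMap.Pth.rap
      rw [se _ (by omega)]
    rw [e]
    exact A.arc.faced
  have key := pvncf_faced hT hS C hn F A.arc.black (by rw [← sn]; exact A.len) (fun i hi => by rw [A.pre i (by omega), sv _ (by omega)]) (fun i hi => by rw [A.suf i hi, tv _ (by omega)])
    (fun k h1 h2 => by rw [hgn, hg0]; exact A.off k (by omega) h2) (X := X) (fun v hv => (hX v hv).1) (by rw [hgn, hg0]; exact hlane) hpF (fun v hv => (hX v hv).2) hΛ hN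
  rwa [hgn] at key

/-- a globally faced present arc is a present arc of 260 with the anchor alone, in the whole map (empty layer) -/
theorem PvncfArc.bare {Ss St : PvspSt T s} {p : T.Pth} (hT : T.IsSph) (hS : T.Simple) (hfin : Ss.g2.c.Left.Finite) (A : PvncfArc T s mk 𝔯s 𝔯t Ug UN Lam Ss St p) (hp : p.GFaced s (T.tgt Ss.g2.aOut)) :
    PvcuArc T s mk 𝔯s 𝔯t Ug univ ∅ Ss St p := by
  have hsI : Ss.g2.IsInn Ss.inn := pvgz_inn_of_le hT hS Ss.g2 hfin A.arc.ats.sel2.thru A.arc.ats.arc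
  have a1 := A.arc.ats.im_lt
  have a2 := A.arc.ats.ip_le
  have hanc : T.Mono s (T.tgt Ss.g2.aOut) (Ss.inn.rap (Ss.ip - 1)) :=
    pvt_c_mono_symm (pvt_c_join_mono (r := false) (pl_hx_join_mono Set.Subset.rfl (fun v hv => hv.1) (pvnc_inn_rap hT Ss.g2 hsI (show Ss.ip - 1 < Ss.inn.n by omega) (pvtg_aOut_tgt_R Ss.g2))))
  exact ⟨A.arc.stars, A.arc.start, A.arc.ats, A.arc.att, A.arc.src, A.arc.tgt, A.arc.black, pvncf_N_of_gfaced A.arc.black hp hanc (pvtg_R_white Ss.g2 (pvtg_aOut_tgt_R Ss.g2)),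
    A.arc.tube, A.arc.avs, A.arc.avt⟩

/-- **CLOSE OF A PATTERN AT ONE MARKED COLOURED SPHERE, THIN ZONE** (= `pvcu_map` of 260: no disc in the zone, lane between the feet) -/
theorem pvncf_map (hT : T.IsSph) (hS : T.Simple) (Rg : PvncfReg n 𝔢 KE Mk U 𝔯s 𝔯t Ug Zn B a₀) {g : ℕ → T.Gate s} {N : ℕ → ℕ} (hfin : ∀ j, j ≤ n → (g j).c.Left.Finite)
    (H : ∀ j, j < n → PvkjLk T mk s (𝔢 j) (𝔢 (j + 1)) (KE j) (g j) (g (j + 1)) (N j))
    (blk : ∀ j, j < n → ∀ i, i < (pvtArc T s (g j).aOut (N j)).n → T.bary mk (T.opp ((pvtArc T s (g j).aOut (N j)).e i)) ∈ Mk j)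
    (binn : ∀ j, j < n → ∀ i, i < (pvtArc T s (g (j + 1)).aIn (g (j + 1)).len).n → T.bary mk (T.opp ((pvtArc T s (g (j + 1)).aIn (g (j + 1)).len).e i)) ∈ U (j + 1))
    {Ss St : PvspSt T s} {p : T.Pth} (A : PvncfArc T s mk 𝔯s 𝔯t Ug UN Lam Ss St p) (M : PvcuMk T mk (Mk (n - 1)) (Mk 0) Bs Bt Ss St p)
    {X : Set V} (hX : ∀ v ∈ X, s v = false ∧ mk v ∈ Zn) (hlane : T.Join Set.univ X (T.tgt St.g2.aIn) (T.tgt Ss.g2.aOut))
    (hreg : ∀ c₀ a : V, mk c₀ ∈ (𝔢 (n - 1)).Z → mk a ∈ Lam → ReflTransGen (fun u v => T.Adj u v ∧ mk v ∉ Zn) c₀ a) :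
    ∃ P : T.Cyc, P.IsRim s ∧ (∀ k, mk (T.src (P.e k)) ∈ B) ∧ (∃ k k', a₀ ≤ ‖mk (T.src (P.e k)) - mk (T.src (P.e k'))‖) ∧
      ∑ k ∈ Finset.range P.n, T.qpart mk (T.opp (P.e k)) = pvdcX (T.bary mk) (T.qpart mk) Bs Bt Ss.inn p +
        ∑ j ∈ Finset.range n, ((pvtArc T s (g j).aIn (g j).len).psum (pvcuW T mk (Mk j)) + (pvtArc T s (g j).aOut (N j)).psum (pvcuW T mk (Mk j)) +
          (pvtArc T s (g (j + 1)).aIn (g (j + 1)).len).psum (pvcuW T mk (Mk j))) := by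
  obtain ⟨hp, hgn, -⟩ := pvncf_gf_map hT hS Rg hfin H A hX hlane hreg
  exact pvcu_map hT hS Rg.fat hfin H blk binn (A.bare hT hS (hgn ▸ hfin n le_rfl) hp) M (X := X)
    (fun v hv => ⟨(hX v hv).1, fun h => Set.disjoint_left.1 Rg.dZn h (hX v hv).2⟩) (pvtg_aOut_tgt_R Ss.g2) (pvtg_aIn_tgt_R St.g2) hlane
    (fun c₀ a _ ha => absurd ha (Set.notMem_empty _))

end map

/-! ## 6. at one configuration -/

section conf

open Set Claims.C0465

variable {n : ℕ} {𝔢 : ℕ → PvkjEnd ℂ} {KE Mk U : ℕ → Set ℂ} {𝔯s 𝔯t : PvspReg ℂ} {Ug Zn UN Lam Bs Bt B : Set ℂ} {a₀ : ℝ}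

/-- **THE CLOSE OF A PATTERN AT ONE CONFIGURATION, THIN ZONE** (= `pvcu_cl` of 260: no disc in the zone, lane between the feet) -/
theorem pvncf_cl (Rg : PvncfReg n 𝔢 KE Mk U 𝔯s 𝔯t Ug Zn B a₀) {η : Conf PvPt} (hη : DelGood (cfSites η)) {b : Bool} {X : ℕ → ℂ}
    (hF : ∀ j, j < n → ∃ g g' N, PvkjFt η b (𝔢 j) (𝔢 (j + 1)) (KE j) (Mk j) (U (j + 1)) (X j) g g' N)
    {Ss St : PvspSt (pvkiT η) (pvlfFl b (pvkiS η))} {p : (pvkiT η).Pth} (A : PvncfArc (pvkiT η) (pvlfFl b (pvkiS η)) Subtype.val 𝔯s 𝔯t Ug UN Lam Ss St p)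
    (M : PvcuMk (pvkiT η) Subtype.val (Mk (n - 1)) (Mk 0) Bs Bt Ss St p)
    {Xl : Set ↥(cfSites η)} (hX : ∀ v ∈ Xl, pvlfFl b (pvkiS η) v = false ∧ (v : ℂ) ∈ Zn)
    (hlane : (pvkiT η).Join Set.univ Xl ((pvkiT η).tgt St.g2.aIn) ((pvkiT η).tgt Ss.g2.aOut))
    (hreg : ∀ c₀ a : ↥(cfSites η), (c₀ : ℂ) ∈ (𝔢 (n - 1)).Z → (a : ℂ) ∈ Lam → ReflTransGen (fun u v => (pvkiT η).Adj u v ∧ (v : ℂ) ∉ Zn) c₀ a) :
    ∃ c : (pvieT η).Cyc, PvdeCl 0 B a₀ η c (pvdcX ((pvkiT η).bary Subtype.val) ((pvkiT η).qpart Subtype.val) Bs Bt Ss.inn p + ∑ j ∈ Finset.range n, X j) := by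
  have hT : (pvkiT η).IsSph := delb_plane_isSph hη
  have hS : (pvkiT η).Simple := (delbPl (cfSites η)).toMap_simple
  have hn := Rg.geo.pos
  obtain ⟨g, N, hg⟩ := pvcu_glue (T := pvkiT η) (s := pvlfFl b (pvkiS η)) (mk := Subtype.val) hT hS Rg.geo
    (P := fun j g g' N => PvkjFt η b (𝔢 j) (𝔢 (j + 1)) (KE j) (Mk j) (U (j + 1)) (X j) g g' N)
    (fun j hj => by
      obtain ⟨g, g', N, h⟩ := hF j hj
      exact ⟨g, g', N, h.lk, h⟩)
  have hfin : ∀ j, j ≤ n → (g j).c.Left.Finite := by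
    intro j hj
    rcases Nat.lt_or_ge j n with h | h
    · exact (hg j h).2.fin
    · have := (hg (n - 1) (by omega)).2.fin'
      rwa [show n - 1 + 1 = j by omega] at this
  obtain ⟨hp, hgn, -⟩ := pvncf_gf_map hT hS Rg hfin (fun j hj => (hg j hj).1) A hX hlane hreg
  exact pvcu_cl Rg.fat hη hF (A.bare hT hS (hgn ▸ hfin n le_rfl) hp) M (Xl := Xl)
    (fun v hv => ⟨(hX v hv).1, fun h => Set.disjoint_left.1 Rg.dZn h (hX v hv).2⟩) (pvtg_aOut_tgt_R Ss.g2) (pvtg_aIn_tgt_R St.g2) hlane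
    (fun c₀ a _ ha => absurd ha (Set.notMem_empty _))

end conf

end Claimed.Agent.R289
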