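import Claimed.Agent.R289.Tr.N1SysC

/-!
# Row 289 (S0537, Cardy for Poisson-Voronoi), THE WALL, ROAD P, file Tr/N1SysD : **CLOSE WITH THE THIN ZONE** (cure of the MISFIT of 212: NO DISC IN `Zn`)      (pen helper59; prefix `pvnj_`, `pvnj`, `Pvnj`)

MISFIT (212, 14:20Z): `hreg` (every layer site is joined to the last inner plug OFF `Zn`) is unsatisfiable at some live patterns when `Zn ⊇ S2(s) ∪ S2(t)`: a loop of the tube + the fat disc enclose a piece of the corridor.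
CURE (186, 222): since THE FOOT (185 68) the white lane runs from foot to foot; shield with the cycle `Z₀ = y ∪ q₀`, `y` = OUTER part of `p`, `q₀ ⊆` lane: it never enters the gates.
* sec. 1  **`PvnjGF T s`** = THE MAP LEMMA OF THE CURE, AS A STATEMENT      [186 `Tr/CloseNF.lean`, 222 `Tr/CloseNG.lean`: two ropes];   everything below takes it as a hypothesis `GF`
* sec. 2  `PvnjRegT` = `PvcuReg` of 260 WITHOUT `ZsZ ZtZ`;   `PvnjRegT.fat` : `PvcuReg` at `Zn ∪ S2(s) ∪ S2(t)`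
* sec. 3  `pvnj_setup` (chain, free arc against the chain), **`pvnj_gfacedT`** : a present free arc is globally faced, REGION off the THIN zone
* sec. 4  BLACK BOX (trick of 222): `pvnj_arc_univ` : a faced arc is a `PvcuArc` at `UN := univ`, `Lam := ∅`  (REGION of `pvcu_cl`, `pvnj_uniq_map` is then EMPTY)
* sec. 5  **`PvnjPar.Ct`** = what CLOSE needs at one configuration, THIN form;   **`pvnj_ClT`** : `Ct ⟹ Cl`;   `pvnj_ClT_ae`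
-/

set_option autoImplicit false
set_option linter.unusedSectionVars false
set_option linter.unusedVariables false

namespace Claimed.Agent.R289

open MeasureTheory Filter Topology Set Relation Claims.C0465
open scoped ENNReal

/-! ## 1. the map lemma, as a statement -/

/-- **THE MAP LEMMA OF THE CURE**: `gs gt` the second gates, `Is It` their inner paths, `p` black with the clauses `len pre suf off avs` of `PvzzDat.Is` (212), LANE = a white join between THE FEET,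
REGION: every vertex of the layer is joined to `gs⁻` off `p ∪ X`, `N_p` with anchor `Is.rap (ip - 1)` or the layer.   Then `p` is globally faced. -/
def PvnjGF {V D : Type} (T : PvMap V D) (s : V → Bool) : Prop :=
  ∀ (gs gt : T.Gate s) (Is It p : T.Pth) (ip im : ℕ) (X U Λ : Set V), gs.IsInn Is → gt.IsInn It → 0 < ip → ip ≤ Is.n → im < It.n → pvtaB p s →
    Is.n - ip + im ≤ p.n → (∀ i, ip + i ≤ Is.n → p.v i = Is.v (ip + i)) → (∀ i, i ≤ im → p.v (p.n - im + i) = It.v i) →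
    (∀ k, Is.n - ip < k → k + im < p.n → p.v k ∉ T.VOf gs.c.Left ∧ p.v k ∉ T.VOf gt.c.Left) →
    (∀ k, k ≤ p.n → ∀ i, i < ip → p.v k ≠ Is.v i) → Disjoint (T.VOf gs.c.Left) (T.VOf gt.c.Left) →
    (∀ v ∈ X, s v = false) → T.Join Set.univ X (T.tgt gt.aIn) (T.tgt gs.aOut) →
    (∀ a ∈ Λ, ReflTransGen (fun u v => T.Adj u v ∧ v ∉ p.verts ∪ X) gs.vm a) →
    pvtaN p s U ({Is.rap (ip - 1)} ∪ Λ) → p.GFaced s (T.tgt gs.aOut)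

theorem pvnj_eqns_cite8 : True := by
  have := @PvnjGF.eq_1
  trivial

/-! ## 2. the regions, thin form -/

/-- **WHAT THE REGIONS OF A PATTERN OWE TO CLOSE, THIN FORM** = `PvcuReg` of 260 without `ZsZ ZtZ`: the zone `Zn` contains the tube (and, through the lane, the thickened lane region); NO DISC -/
structure PvnjRegT (n : ℕ) (𝔢 : ℕ → PvkjEnd ℂ) (KE Mk U : ℕ → Set ℂ) (𝔯s 𝔯t : PvspReg ℂ) (Ug Zn B : Set ℂ) (a₀ : ℝ) : Prop where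
  geo : PvcuGeo n 𝔢 KE
  two : 2 ≤ n
  e0 : 𝔢 0 = pvkjBig 𝔯t
  en : 𝔢 n = pvkjBig 𝔯s
  UM : ∀ j, 0 < j → j < n → U j ⊆ Mk (j - 1) ∪ Mk j
  dMM : ∀ j, 0 < j → j < n → Disjoint (Mk (j - 1)) (Mk j)
  dUZ : ∀ i, 0 < i → i < n → Disjoint Ug (𝔢 i).Z
  dUK : ∀ j, j < n → Ug ∩ KE j ⊆ (𝔢 j).I ∪ (𝔢 (j + 1)).I
  hNm : 𝔯t .Nm ∩ KE 0 ⊆ 𝔯t .I2
  hNp : 𝔯s .Np ∩ KE (n - 1) ⊆ 𝔯s .I2
  UgZ : Ug ⊆ Zn
  dZn : Disjoint (𝔢 (n - 1)).Z Zn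
  ZB : ∀ j, j ≤ n → (𝔢 j).Z ⊆ B
  KB : ∀ j, j < n → KE j ⊆ B
  UB : Ug ⊆ B
  big : ∀ x ∈ 𝔯t .S2, ∀ y ∈ 𝔯s .S2, a₀ ≤ ‖x - y‖

theorem PvnjRegT.fat {n : ℕ} {𝔢 : ℕ → PvkjEnd ℂ} {KE Mk U : ℕ → Set ℂ} {𝔯s 𝔯t : PvspReg ℂ} {Ug Zn B : Set ℂ} {a₀ : ℝ} (R : PvnjRegT n 𝔢 KE Mk U 𝔯s 𝔯t Ug Zn B a₀) :
    PvcuReg n 𝔢 KE Mk U 𝔯s 𝔯t Ug (Zn ∪ 𝔯s .S2 ∪ 𝔯t .S2) B a₀ where
  geo := R.geo
  two := R.two
  e0 := R.e0
  en := R.en
  UM := R.UM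
  dMM := R.dMM
  dUZ := R.dUZ
  dUK := R.dUK
  hNm := R.hNm
  hNp := R.hNp
  UgZ := fun w hw => Or.inl (Or.inl (R.UgZ hw))
  ZsZ := fun w hw => Or.inl (Or.inr hw)
  ZtZ := fun w hw => Or.inr hw
  dZn := by
    have h2 := R.two
    have h1 : Disjoint (𝔢 (n - 1)).Z (𝔯s .S2) := by
      have := R.geo.dZZ (n - 1) n (by omega) le_rfl (by omega)
      rwa [R.en] at this
    have h0 : Disjoint (𝔢 (n - 1)).Z (𝔯t .S2) := by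
      have := R.geo.dZZ (n - 1) 0 (by omega) (Nat.zero_le _) (by omega)
      rwa [R.e0] at this
    exact (R.dZn.union_right h1).union_right h0
  ZB := R.ZB
  KB := R.KB
  UB := R.UB
  big := R.big

/-! ## 3. a present free arc is globally faced, REGION off the thin zone -/

section map

variable {V D : Type} [DecidableEq V] {T : PvMap V D} {s : V → Bool} {mk : V → ℂ} {n : ℕ} {𝔢 : ℕ → PvkjEnd ℂ} {KE Mk U : ℕ → Set ℂ} {𝔯s 𝔯t : PvspReg ℂ} {Ug Zn UN Lam B : Set ℂ} {a₀ : ℝ}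

/-- **the chain and the free arc against the chain** (the first half of `pvcu_map` of 260) -/
theorem pvnj_setup (hT : T.IsSph) (hS : T.Simple) (Rg : PvcuReg n 𝔢 KE Mk U 𝔯s 𝔯t Ug Zn B a₀) {g : ℕ → T.Gate s} {N : ℕ → ℕ} (hfin : ∀ j, j ≤ n → (g j).c.Left.Finite)
    (H : ∀ j, j < n → PvkjLk T mk s (𝔢 j) (𝔢 (j + 1)) (KE j) (g j) (g (j + 1)) (N j))
    {Ss St : PvspSt T s} {p : T.Pth} (A : PvcuArc T s mk 𝔯s 𝔯t Ug UN Lam Ss St p) :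
    ∃ I L : ℕ → T.Pth, PvncChain T s n g I L ∧ PvncFree T s n g I L p Ss.ip St.im ∧ g n = Ss.g2 ∧ g 0 = St.g2 ∧ (g n).IsInn Ss.inn ∧ (g 0).IsInn St.inn ∧
      1 ≤ (L (n - 1)).n ∧ mk ((L (n - 1)).v 0) ∈ (𝔢 (n - 1)).Z := by
  have G := Rg.geo
  have hn := G.pos
  have hn2 := Rg.two
  have his : ∀ j, j ≤ n → (𝔢 j).Is V D T mk s (g j) := by
    intro j hj
    rcases Nat.lt_or_ge j n with h | h
    · exact (H j h).is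
    · have := (H (n - 1) (by omega)).is'
      rwa [show n - 1 + 1 = j by omega] at this
  have hz : ∀ i, i ≤ n → ∀ x, x ∈ T.VOf (g i).c.Left → mk x ∈ (𝔢 i).Z := by
    rintro i hi x ⟨d, hd, rfl⟩
    exact (G.ok i hi).zone V D T mk s (g i) (his i hi) d hd
  have hdeep : ∀ i, i ≤ n → ∀ x, mk x ∈ (𝔢 i).I → x ∈ T.Int (g i).c.Left := by
    intro i hi x hx d hd
    subst hd
    exact (G.ok i hi).deep V D T mk s (g i) (his i hi) d hx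
  have hgn : g n = Ss.g2 := G.uq n le_rfl V D T mk s hT hS _ _ (his n le_rfl) (by rw [Rg.en]; exact ⟨A.stars, Ss, A.ats, rfl⟩)
  have hg0 : g 0 = St.g2 := G.uq 0 (Nat.zero_le _) V D T mk s hT hS _ _ (his 0 (Nat.zero_le _)) (by rw [Rg.e0]; exact ⟨A.start, St, A.att, rfl⟩)
  have h0 : mk (g 0).vm ∉ KE 0 := by
    intro h
    have h2 : mk (g 0).vm ∈ (𝔢 0).I := by
      rw [Rg.e0]
      exact Rg.hNm ⟨by rw [hg0]; exact A.att.vm, h⟩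
    exact pvgz_verts_not_int hT (g 0).c 0 (hdeep 0 (Nat.zero_le _) _ h2)
  have h1 : mk (g n).vp ∉ KE (n - 1) := by
    intro h
    have h2 : mk (g n).vp ∈ (𝔢 n).I := by
      rw [Rg.en]
      exact Rg.hNp ⟨by rw [hgn]; exact A.ats.vp, h⟩
    exact pvgz_verts_not_int hT (g n).c (g n).m (hdeep n le_rfl _ h2)
  have C := pvcu_chain hT hS G hfin H h0 h1
  obtain ⟨I, hI⟩ : ∃ I : ℕ → T.Pth, I = fun j => pvtArc T s (g j).aIn (g j).len := ⟨_, rfl⟩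
  obtain ⟨L, hL⟩ : ∃ L : ℕ → T.Pth, L = fun j => pvtArc T s (g j).aOut (N j) := ⟨_, rfl⟩
  have eL : ∀ j, pvtArc T s (g j).aOut (N j) = L j := fun j => by rw [hL]
  rw [← hI, ← hL] at C
  have hKS : ∀ j, j < n → ∀ k, k ≤ (L j).n → (L j).v k ∈ pvzlKS T mk (KE j) (g j) (g (j + 1)) := fun j hj k hk => by
    rw [← eL] at hk ⊢
    exact (pvkj_lk_verts (H j hj).run hk).1
  have hsI : (g n).IsInn Ss.inn := by
    rw [hgn]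
    exact pvgz_inn_of_le hT hS Ss.g2 (hgn ▸ hfin n le_rfl) A.ats.sel2.thru A.ats.arc
  have htI : (g 0).IsInn St.inn := by
    rw [hg0]
    exact pvgz_inn_of_le hT hS St.g2 (hg0 ▸ hfin 0 (Nat.zero_le _)) A.att.sel2.thru A.att.arc
  obtain ⟨sn, se⟩ := pvgz_inn_unique hT hS (g n) hsI (C.hinn n le_rfl)
  obtain ⟨tn, te⟩ := pvgz_inn_unique hT hS (g 0) htI (C.hinn 0 (Nat.zero_le _))
  have sv : ∀ i, i ≤ Ss.inn.n → Ss.inn.v i = (I n).v i := fun i hi => pvgz_pth_v sn (by rw [hsI.1.h0, (C.hinn n le_rfl).1.h0]) se hi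
  have tv : ∀ i, i ≤ St.inn.n → St.inn.v i = (I 0).v i := fun i hi => pvgz_pth_v tn (by rw [htI.1.h0, (C.hinn 0 (Nat.zero_le _)).1.h0]) te hi
  have a1 := A.ats.im_lt
  have a2 := A.ats.ip_le
  have a3 := A.att.im_lt
  have a4 := A.att.ip_le
  have F : PvncFree T s n g I L p Ss.ip St.im := by
    refine ⟨by omega, by omega, by omega, ?_, ?_, fun k hk i hi => ?_, fun k hk i hi hin => ?_, fun k hk i i0 hi hx => ?_, fun k hk j hj l l0 l1 e => ?_⟩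
    · rw [A.src, ← A.ats.ip_eq, sv _ a2]
    · rw [A.tgt, ← A.att.im_eq, tv _ (by omega)]
    · rw [← sv i (by omega)]; exact A.avs k hk i hi
    · rw [← tv i (by omega)]; exact A.avt k hk i hi (by omega)
    · exact Set.disjoint_left.1 (Rg.dUZ i i0 hi) (A.tube k hk) (hz i hi.le _ hx)
    · have hks := hKS j hj l l1.le
      rcases Rg.dUK j hj ⟨A.tube k hk, e ▸ hks.1⟩ with h | h
      · exact hks.2.1 (hdeep j hj.le _ (e ▸ h))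
      · exact hks.2.2 (hdeep (j + 1) hj _ (e ▸ h))
  have hj1 : n - 1 < n := by omega
  have hvpm : (g (n - 1)).vp ∈ T.VOf (g (n - 1)).c.Left := ⟨(g (n - 1)).c.e (g (n - 1)).m, (pl_jordan hT (g (n - 1)).c).2.1 _, rfl⟩
  have hl : 1 ≤ (L (n - 1)).n := by
    by_contra hc
    have e0 : (L (n - 1)).n = 0 := by omega
    have e : (g (n - 1)).vp = (g (n - 1 + 1)).vm := by rw [← C.lk0 _ hj1, ← C.lk1 _ hj1, e0]
    exact Set.disjoint_left.1 (C.dGG (n - 1) (n - 1 + 1) (by omega) (by omega) (by omega)) hvpm (e ▸ pvgz_vm_mem hT _)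
  have hm : mk ((L (n - 1)).v 0) ∈ (𝔢 (n - 1)).Z := by rw [C.lk0 _ hj1]; exact hz (n - 1) (by omega) _ hvpm
  exact ⟨I, L, C, F, hgn, hg0, hsI, htI, hl, hm⟩

/-- **A PRESENT FREE ARC IS GLOBALLY FACED, THIN ZONE**: the lane runs from foot to foot inside `Zn`, every layer site is joined to every site of the last inner plug off `Zn ⊇ Ug ∪` lane -/
theorem pvnj_gfacedT (GF : PvnjGF T s) (hT : T.IsSph) (hS : T.Simple) (Rg : PvnjRegT n 𝔢 KE Mk U 𝔯s 𝔯t Ug Zn B a₀) {g : ℕ → T.Gate s} {N : ℕ → ℕ} (hfin : ∀ j, j ≤ n → (g j).c.Left.Finite)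
    (H : ∀ j, j < n → PvkjLk T mk s (𝔢 j) (𝔢 (j + 1)) (KE j) (g j) (g (j + 1)) (N j))
    {𝔡 : PvzzDat T s} {gl : List ℂ} (st1 : PvplStar T mk (fun w => w ∈ 𝔯s .O2) (𝔯s .S2)) (st2 : PvplStar T mk (fun w => w ∈ 𝔯t .O2) (𝔯t .S2)) (hI : 𝔡.Is mk 𝔯s 𝔯t Ug UN Lam gl)
    {X : Set V} (hX : ∀ v ∈ X, s v = false ∧ mk v ∈ Zn) (hlane : T.Join Set.univ X (T.tgt 𝔡.St.g2.aIn) (T.tgt 𝔡.Ss.g2.aOut))
    (hreg : ∀ c₀ a : V, mk c₀ ∈ (𝔢 (n - 1)).Z → mk a ∈ Lam → ReflTransGen (fun u v => T.Adj u v ∧ mk v ∉ Zn) c₀ a) :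
    𝔡.p.GFaced s (T.tgt 𝔡.Ss.g2.aOut) ∧ 𝔡.Ss.g2.IsInn 𝔡.Ss.inn := by
  have hn2 := Rg.two
  obtain ⟨I, L, C, F, hgn, hg0, hsI, htI, hl, hm⟩ := pvnj_setup hT hS Rg.fat hfin H (pvnj_cuArc st1 st2 hI)
  have hj1 : n - 1 < n := by omega
  have hoff : ∀ v, mk v ∉ Zn → v ∉ 𝔡.p.verts ∪ X := by
    rintro v hv (⟨i, hi, rfl⟩ | h)
    · exact hv (Rg.UgZ (hI.tube i hi))
    · exact hv (hX v h).2
  have hΛ : ∀ a ∈ {v | mk v ∈ Lam}, ReflTransGen (fun u v => T.Adj u v ∧ v ∉ 𝔡.p.verts ∪ X) 𝔡.Ss.g2.vm a := by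
    intro a ha
    have e : 𝔡.Ss.g2.vm = (L (n - 1)).v (L (n - 1)).n := by rw [C.lk1 _ hj1, show n - 1 + 1 = n by omega, hgn]
    rw [e]
    refine (pvnc_walk_dn (L (n - 1)) (X := (𝔡.p.verts ∪ X)ᶜ) (Nat.zero_le _) le_rfl fun k _ h2 => ?_).trans (ReflTransGen.mono (fun u v h => ⟨h.1, hoff v h.2⟩) _ _ (hreg _ a hm ha))
    rcases Nat.eq_zero_or_pos k with rfl | k0
    · exact hoff _ fun h => Set.disjoint_left.1 Rg.dZn hm h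
    · rintro (⟨i, hi, e'⟩ | h)
      · exact F.offL i hi _ hj1 k k0 h2 e'
      · have := (hX _ h).1
        rw [pvnc_link_black C hj1 h2.le] at this
        exact Bool.noConfusion this
  have a1 := hI.ats.im_lt
  have a2 := hI.ats.ip_le
  have a3 := hI.att.im_lt
  have a4 := hI.att.ip_le
  have hd : Disjoint (T.VOf 𝔡.Ss.g2.c.Left) (T.VOf 𝔡.St.g2.c.Left) := by
    have := C.dGG n 0 le_rfl (Nat.zero_le _) (by omega)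
    rwa [hgn, hg0] at this
  exact ⟨GF 𝔡.Ss.g2 𝔡.St.g2 𝔡.Ss.inn 𝔡.St.inn 𝔡.p 𝔡.Ss.ip 𝔡.St.im X {v | mk v ∈ UN} {v | mk v ∈ Lam} (hgn ▸ hsI) (hg0 ▸ htI) (by omega) a2 (by omega) hI.black hI.len hI.pre hI.suf hI.off hI.avs hd
    (fun v hv => (hX v hv).1) hlane hΛ hI.faced, hgn ▸ hsI⟩

/-! ## 4. BLACK BOX: a faced arc is an arc of 260 with no layer -/

/-- a white `Mono` connection is a join through white vertices off a black path -/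
theorem pvnj_mono_join {p : T.Pth} (hB : pvtaB p s) {a b : V} (ha : s a = false) (h : T.Mono s a b) :
    T.Join Set.univ {v | v ∈ {v | mk v ∈ (Set.univ : Set ℂ)} ∧ v ∉ p.verts ∧ s v = false} a b := by
  have hw : ∀ v, s v = false → v ∈ {v | v ∈ {v | mk v ∈ (Set.univ : Set ℂ)} ∧ v ∉ p.verts ∧ s v = false} := by
    intro v hv
    refine ⟨Set.mem_univ _, ?_, hv⟩
    rintro ⟨i, hi, rfl⟩
    rw [hB i hi] at hv
    exact Bool.noConfusion hv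
  have key : s b = false ∧ ReflTransGen (fun u v => T.EdgeIn Set.univ u v ∧ v ∈ {v | v ∈ {v | mk v ∈ (Set.univ : Set ℂ)} ∧ v ∉ p.verts ∧ s v = false}) a b := by
    induction h with
    | refl => exact ⟨ha, ReflTransGen.refl⟩
    | tail _ hbc ih =>
      obtain ⟨⟨d, h1, h2⟩, hc⟩ := hbc
      have hc' := hc.symm.trans ih.1
      exact ⟨hc', ih.2.tail ⟨⟨d, Or.inl (Set.mem_univ _), h1, h2⟩, hw _ hc'⟩⟩
  exact ⟨hw a ha, key.2⟩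

/-- **BLACK BOX** (222): a globally faced present arc is a `PvcuArc` of 260 at `UN := univ`, `Lam := ∅` -/
theorem pvnj_arc_univ (hT : T.IsSph) {𝔡 : PvzzDat T s} {gl : List ℂ} (st1 : PvplStar T mk (fun w => w ∈ 𝔯s .O2) (𝔯s .S2)) (st2 : PvplStar T mk (fun w => w ∈ 𝔯t .O2) (𝔯t .S2))
    (hI : 𝔡.Is mk 𝔯s 𝔯t Ug UN Lam gl) (hsI : 𝔡.Ss.g2.IsInn 𝔡.Ss.inn) (hG : 𝔡.p.GFaced s (T.tgt 𝔡.Ss.g2.aOut)) :
    PvcuArc T s mk 𝔯s 𝔯t Ug Set.univ ∅ 𝔡.Ss 𝔡.St 𝔡.p := by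
  have A := pvnj_cuArc st1 st2 hI
  have hr : T.tgt 𝔡.Ss.g2.aOut ∈ 𝔡.Ss.g2.R := pvtg_aOut_tgt_R 𝔡.Ss.g2
  have hw : s (T.tgt 𝔡.Ss.g2.aOut) = false := pvtg_R_white 𝔡.Ss.g2 hr
  have a1 := hI.ats.im_lt
  have a2 := hI.ats.ip_le
  have j0 := pvnj_mono_join (mk := mk) hI.black hw (pvt_c_mono_symm ((pvgz_inn_gfaced hT 𝔡.Ss.g2 hsI hr).2 (𝔡.Ss.ip - 1) (by omega)))
  refine ⟨A.stars, A.start, A.ats, A.att, A.src, A.tgt, A.black, fun k hk => ?_, A.tube, A.avs, A.avt⟩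
  have j1 := pvnj_mono_join (mk := mk) hI.black hw (pvt_c_mono_symm (hG.2 k hk))
  exact ⟨_, Or.inl rfl, pl_hx_join_trans (pl_hx_join_symm j1) j0⟩

end map

/-! ## 5. WHAT CLOSE NEEDS AT ONE CONFIGURATION, THIN FORM -/

/-- **WHAT CLOSE NEEDS AT ONE CONFIGURATION** `η`, THIN FORM (`Zn` = THE THIN ZONE: tube + thickened lane region [+ what lies between them]; NO DISC)
* `fact`  one fact of 113 per connector of the chain      [59 `pvnj_chain_fact` (`Exit/CloseAP`), 113 95 203 272]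
* `lane`  the white lane joins THE FEET inside the zone      [59 `pvnj_lane_feet` (`Exit/LaneFP`), 147 185 68]
* `reg`   REGION: every site of the layer is joined, off the THIN zone, to every site of the last inner plug      [279 `pvny_rreg_compl`, 212 225]
* `msk`   TR14 in marks      [59 `pvnj_msk` (`Tr/N1SysC`)] -/
structure PvnjPar.Ct {τ : Type} (𝔭 : PvnjPar τ) (𝔞 : PvzzPar) (𝔢 : ℕ → PvkjEnd ℂ) (KE Mk U : ℕ → Set ℂ) (Zn : Set ℂ) (η : Conf PvPt) : Prop where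
  fact : η ∈ 𝔭.En → η ∈ 𝔭.Ev → ∀ j < 𝔭.π.l.length + 2, PvucF 𝔞.s.col 𝔢 KE Mk U j (𝔭.fld j η) η
  lane : η ∈ 𝔭.geo.W → ∀ Ss St : PvspSt (pvkiT η) (pvlfFl 𝔞.s.col (pvkiS η)), Ss.At Subtype.val 𝔞.rs → St.At Subtype.val 𝔞.rt →
    (pvkiT η).Join univ {v | pvlfFl 𝔞.s.col (pvkiS η) v = false ∧ (v : ℂ) ∈ Zn} ((pvkiT η).tgt St.g2.aIn) ((pvkiT η).tgt Ss.g2.aOut)
  reg : PvtrMesh 𝔞.rho 𝔞.Ew (cfSites η) → ∀ c₀ a : ↥(cfSites η), (c₀ : ℂ) ∈ (𝔢 (𝔭.π.l.length + 1)).Z → (a : ℂ) ∈ 𝔞.Lam → ReflTransGen (fun u v => (pvkiT η).Adj u v ∧ (v : ℂ) ∉ Zn) c₀ a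
  msk : ∀ (g : List ℂ) (𝔡 : PvzzDat (pvkiT η) (pvlfFl 𝔞.s.col (pvkiS η))), η ∈ 𝔞.E g → 𝔡.Is Subtype.val 𝔞.rs 𝔞.rt 𝔞.Ug 𝔞.U 𝔞.Lam g →
    (∀ i, 𝔡.St.im ≤ i → i < 𝔡.St.ip → (pvkiT η).bary Subtype.val ((pvkiT η).opp (𝔡.St.inn.e i)) ∈ 𝔞.Bt) →
    PvcuMk (pvkiT η) Subtype.val (Mk (𝔭.π.l.length + 1)) (Mk 0) 𝔞.Bs 𝔞.Bt 𝔡.Ss 𝔡.St 𝔡.p

section close

variable {τ : Type} {𝔭 : PvnjPar τ} {𝔞 : PvzzPar} {𝔢 : ℕ → PvkjEnd ℂ} {KE Mk U : ℕ → Set ℂ} {Zn : Set ℂ}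

/-- **CLOSE AT ONE CONFIGURATION, THIN ZONE** -/
theorem pvnj_ClT (h𝔞 : 𝔭.𝔞 = 𝔞.toArc) (W : 𝔞.Wf) (hne : ∃ zi, zi ∉ 𝔞.Kr) (Rg : PvnjRegT (𝔭.π.l.length + 2) 𝔢 KE Mk U 𝔞.rs 𝔞.rt 𝔞.Ug Zn 𝔭.𝔯.B 𝔭.𝔯.a0)
    {η : Conf PvPt} (hη : DelGood (cfSites η)) (GF : PvnjGF (pvkiT η) (pvlfFl 𝔞.s.col (pvkiS η))) (h : 𝔭.Ct 𝔞 𝔢 KE Mk U Zn η) : 𝔭.Cl η where
  cl := fun hE => by
    have hT : (pvkiT η).IsSph := delb_plane_isSph hη
    have hS : (pvkiT η).Simple := (delbPl (cfSites η)).toMap_simple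
    have hEg : ∀ g, 𝔭.Pr η g → η ∈ 𝔭.En ∧ η ∈ 𝔞.E g ∧ η ∈ 𝔭.geo.W := by
      rintro g ⟨⟨h1, h2⟩, h3⟩
      have h4 : η ∈ 𝔭.𝔞.E g := h2.1.1.1
      rw [h𝔞] at h4
      exact ⟨h1, h4, h3⟩
    -- every present arc is an arc of 260 without layer
    have key : ∀ g, 𝔭.Pr η g → ∃ (γ : ℕ → (pvkiT η).Gate (pvlfFl 𝔞.s.col (pvkiS η))) (N : ℕ → ℕ),
        (∀ j, j ≤ 𝔭.π.l.length + 2 → (γ j).c.Left.Finite) ∧
        (∀ j, j < 𝔭.π.l.length + 2 → PvkjLk (pvkiT η) Subtype.val (pvlfFl 𝔞.s.col (pvkiS η)) (𝔢 j) (𝔢 (j + 1)) (KE j) (γ j) (γ (j + 1)) (N j)) ∧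
        ∃ 𝔡 : PvzzDat (pvkiT η) (pvlfFl 𝔞.s.col (pvkiS η)), 𝔡.Is Subtype.val 𝔞.rs 𝔞.rt 𝔞.Ug 𝔞.U 𝔞.Lam g ∧
          (∀ i, 𝔡.St.im ≤ i → i < 𝔡.St.ip → (pvkiT η).bary Subtype.val ((pvkiT η).opp (𝔡.St.inn.e i)) ∈ 𝔞.Bt) ∧ 𝔞.X g η = 𝔡.X Subtype.val 𝔞.Bs 𝔞.Bt ∧
          PvcuArc (pvkiT η) (pvlfFl 𝔞.s.col (pvkiS η)) Subtype.val 𝔞.rs 𝔞.rt 𝔞.Ug Set.univ ∅ 𝔡.Ss 𝔡.St 𝔡.p ∧
          (pvkiT η).Join univ {v | pvlfFl 𝔞.s.col (pvkiS η) v = false ∧ (v : ℂ) ∈ Zn} ((pvkiT η).tgt 𝔡.St.g2.aIn) ((pvkiT η).tgt 𝔡.Ss.g2.aOut) := by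
      intro g hg
      obtain ⟨hEn, hA, hW⟩ := hEg g hg
      obtain ⟨-, hm, st1, st2, 𝔡, hI, hmid, hX⟩ := pvnj_arc_at_mid W hne hη hA
      have hj := h.lane hW 𝔡.Ss 𝔡.St hI.ats hI.att
      obtain ⟨γ, N, hγ⟩ := pvcu_glue (T := pvkiT η) (s := pvlfFl 𝔞.s.col (pvkiS η)) (mk := Subtype.val) hT hS Rg.geo
        (P := fun j g g' N => PvkjFt η 𝔞.s.col (𝔢 j) (𝔢 (j + 1)) (KE j) (Mk j) (U (j + 1)) (𝔭.fld j η) g g' N)
        (fun j hj => by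
          obtain ⟨g, g', N, h⟩ := h.fact hEn hE j hj
          exact ⟨g, g', N, h.lk, h⟩)
      have hfin : ∀ j, j ≤ 𝔭.π.l.length + 2 → (γ j).c.Left.Finite := by
        intro j hj
        rcases Nat.lt_or_ge j (𝔭.π.l.length + 2) with h | h
        · exact (hγ j h).2.fin
        · have := (hγ (𝔭.π.l.length + 1) (by omega)).2.fin'
          rwa [show 𝔭.π.l.length + 1 + 1 = j by omega] at this
      obtain ⟨hG, hsI⟩ := pvnj_gfacedT GF hT hS Rg hfin (fun j hj => (hγ j hj).1) st1 st2 hI (fun v hv => hv) hj (h.reg hm)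
      exact ⟨γ, N, hfin, fun j hj => (hγ j hj).1, 𝔡, hI, hmid, hX, pvnj_arc_univ hT st1 st2 hI hsI hG, hj⟩
    refine ⟨fun g c => PvdeCl 0 𝔭.𝔯.B 𝔭.𝔯.a0 η c (𝔭.𝔞.X g η + 𝔭.Yc η), fun g hg => ?_, fun g c _ hc => hc, fun g g' c c' hg hg' _ _ _ => ?_⟩
    · obtain ⟨hEn, hA, hW⟩ := hEg g hg
      obtain ⟨-, -, -, -, 𝔡, hI, hmid, hX, A, hj⟩ := key g hg
      obtain ⟨c, hc⟩ := pvcu_cl Rg.fat hη (b := 𝔞.s.col) (X := fun j => 𝔭.fld j η) (h.fact hEn hE) A (h.msk g 𝔡 hA hI hmid) (fun v hv => ⟨hv.1, Or.inl (Or.inl hv.2)⟩)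
        (pvtg_aOut_tgt_R 𝔡.Ss.g2) (pvtg_aIn_tgt_R 𝔡.St.g2) hj (fun _ a _ ha => absurd ha (Set.notMem_empty _))
      refine ⟨c, ?_⟩
      have e : 𝔭.𝔞.X g η = 𝔞.X g η := by rw [h𝔞]; rfl
      show PvdeCl 0 𝔭.𝔯.B 𝔭.𝔯.a0 η c (𝔭.𝔞.X g η + 𝔭.Yc η)
      rw [e, hX, pvnj_Yc_eq]
      exact hc
    · obtain ⟨γ, N, hfin, hlk, 𝔡, hI, -, -, A, hj⟩ := key g hg
      obtain ⟨-, -, -, -, 𝔡', hI', -, -, A', -⟩ := key g' hg'
      rw [hI.pos, hI'.pos]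
      exact pvnj_uniq_map hT hS Rg.fat hfin hlk (fun v h1 h2 => W.ws.tubes ⟨h1, h2⟩) (fun v h1 h2 => W.wt.tubes ⟨h1, h2⟩) A A' (fun v hv => ⟨hv.1, Or.inl (Or.inl hv.2)⟩)
        (pvtg_aOut_tgt_R 𝔡.Ss.g2) (pvtg_aIn_tgt_R 𝔡.St.g2) hj (fun _ a _ ha => absurd ha (Set.notMem_empty _))

/-- **CLOSE, a.e., THIN ZONE** -/
theorem pvnj_ClT_ae {x : ℂ} {R : ℝ} (GF : ∀ η : Conf PvPt, DelGood (cfSites η) → PvnjGF (pvkiT η) (pvlfFl 𝔞.s.col (pvkiS η))) (hε : 𝔭.ε ≠ 0) (h𝔞 : 𝔭.𝔞 = 𝔞.toArc) (W : 𝔞.WfA x R)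
    (Rg : PvnjRegT (𝔭.π.l.length + 2) 𝔢 KE Mk U 𝔞.rs 𝔞.rt 𝔞.Ug Zn 𝔭.𝔯.B 𝔭.𝔯.a0) (h : ∀ᵐ η ∂pvP 𝔭.ε, 𝔭.Ct 𝔞 𝔢 KE Mk U Zn η) : ∀ᵐ η ∂pvP 𝔭.ε, 𝔭.Cl η := by
  filter_upwards [h, pvqf_good_ae 𝔭.ε hε] with η h1 h2
  exact pvnj_ClT h𝔞 W.toWf W.hne Rg h2.del (GF η h2.del) h1

end close

end Claimed.Agent.R289
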