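import Claimed.Agent.R289.Tr.CloseM
import Claimed.Agent.R289.Tr.CutP

/-!
# Row 289 (S0537, Cardy for Poisson-Voronoi), THE WALL, ROAD P, file Tr/CloseV : THE MIXED CLOSE FOR EVERY WEIGHT, THE `V`-MASS OF A THICK LINK = A DIFFERENCE OF CUT POINTS      (helper206; T4 of ruling P11bis of 273; prefix `pvvm_`, `pvvm`, `Pvvm`)

WHY.   `thickVν` of road P (263, `Tr/CutT`): `X := cV0(t) - Cu(state of u)` on the short cycle `t -b-> u -e-> t`.      What is owed (`besV`): `∫_{Ev} |cV0 - Cu|² ≤ C_B |M_e|`.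
`cV0 - Cu` is the `V`-mass IN THE DETERMINISTIC MASK `M_e` of ONE rim of the full plane (telescoping of the side vectors along  `inn(u) | link e | inn(t)[0, ip)`), so I.BES (`pvbe_in_V`) applies.

* sec. 1  `pvvmW 𝔓 W M`, `pvvmX 𝔓 W M p y p'` : the weight / the field of a connector in THE MASK FORM of 95 for an ARBITRARY raw summand `W` (`pvqWQ`, `pvqWU`, `pvbeWV`, `pvbeComb ..`);
          **`pvvm_at`** : `PvcmAt` of 95 (unchanged)  ⟹  ONE raw tag `x` such that for ALL `W`, all `j < n` : `pvvmX 𝔓 W (Mk j) (inn j) (lk j) (inn (j+1)) = pvbeLab W 1_{Mk j} η x`;   `pvvm_X_Q` (`W = pvqWQ` : the field `pvcmX` of 95), `pvvm_W_V` (`W = pvbeWV` : the side vector).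
* sec. 2  model free TELESCOPING: `pvvmCu` (the cut point of the SOURCE: exit vertex − mass in `M` of its inner arc), **`pvvm_tel`** : mass in `M` of the side vectors of (`p`, `y`, `p'`) `= 𝔖.cut mk B - pvvmCu`.
* sec. 3  `PvvmAt` (state of the target + MASK RULES), **`pvvm_rec_at`** (one configuration; the SAME tag for all the weights), the a.s. form `PvvmRec`, **`PvvmRec.rec : PvbeRec ε pvbeWV 1_{Mk j} Ev (cV - cU)`**, **`PvvmRec.bes`**, `bes'` (= `besV`).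
* sec. 4  `pvvm_rules` : the mask rules from FIT-IN + short faces + three inclusions of regions.
-/

set_option autoImplicit false
set_option linter.unusedSectionVars false
set_option linter.unusedVariables false

namespace Claimed.Agent.R289

open MeasureTheory Filter Topology Set Claims.C0465
open scoped ENNReal

/-! ## 1. the clause of recognition for every weight -/

section at_

variable {η : Conf PvPt}

/-- the raw summand `W` in the mask `M`, on the darts of a plane triangulation of the sites -/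
noncomputable def pvvmW (𝔓 : PlTri ↥(cfSites η)) (W : Set ℂ → ℂ × ℂ → ℂ) (M : Set ℂ) (d : 𝔓.Dart) : ℂ :=
  M.indicator 1 (𝔓.toMap.bary Subtype.val d) * W (cfSites η) ((d.1.1 : ℂ), (d.1.2 : ℂ))

/-- the field of a connector in THE MASK FORM, summand `W` -/
noncomputable def pvvmX (𝔓 : PlTri ↥(cfSites η)) (W : Set ℂ → ℂ × ℂ → ℂ) (M : Set ℂ) (p y p' : 𝔓.toMap.Pth) : ℂ :=
  p.psum (pvvmW 𝔓 W M) + y.psum (pvvmW 𝔓 W M) + p'.psum (pvvmW 𝔓 W M)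

theorem pvvm_eqns_cite : True := by
  have := @pvvmW.eq_1; have := @pvvmX.eq_1
  trivial

/-- `W = pvqWQ` : the weight of 95 -/
theorem pvvm_W_Q (h : DelGood (cfSites η)) (M : Set ℂ) : pvvmW (delPl h) pvqWQ M = pvcmW (delPl h) M := by
  funext d
  unfold pvvmW pvcmW
  rw [← pvq_del_qpart h d]
  rfl

/-- `W = pvbeWV` : the side vector -/
theorem pvvm_W_V (h : DelGood (cfSites η)) (M : Set ℂ) (d : (delPl h).Dart) :
    pvvmW (delPl h) pvbeWV M d = M.indicator 1 ((delPl h).toMap.bary Subtype.val d) * (delPl h).toMap.side Subtype.val d := by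
  unfold pvvmW
  rw [← (delPl h).toMap.upart_add_qpart Subtype.val d, ← pvq_del_qpart h d, ← pvq_del_upart h d]
  rfl

/-- **ONE TAG FOR ALL THE WEIGHTS**, map `(delPl h).toMap` -/
theorem pvvm_at_del (h : DelGood (cfSites η)) {b : Bool} {n : ℕ} {Mk : ℕ → Set ℂ} {B : Set ℂ} {a₀ : ℝ}
    {g : ℕ → (delPl h).toMap.Gate (pvlfFl b (cfCol η ∘ Subtype.val))} {inn lk : ℕ → (delPl h).toMap.Pth} (H : PvcmAt (delPl h) b n Mk B a₀ g inn lk)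
    (hn : 2 ≤ n) (hMper : Mk n = Mk 0) (hd : ∀ i < n, ∀ j < n, i ≠ j → Disjoint (Mk i) (Mk j)) :
    ∃ x, pvbeTag η x ∧ ∀ (W : Set ℂ → ℂ × ℂ → ℂ), ∀ j < n, pvvmX (delPl h) W (Mk j) (inn j) (lk j) (inn (j + 1)) = pvbeLab W ((Mk j).indicator 1) η x := by
  have hT : (delPl h).toMap.IsSph := delp_isSph h
  have hS : (delPl h).toMap.Simple := (delPl h).toMap_simple
  obtain ⟨r1, -, -⟩ := pvgz_ring hT hS H.ring
  rw [pvcm_tag_fl] at r1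
  refine ⟨pvqCode ((delPl h).toMap.opp ((inn 0).e 0)), (pvq_del_tag h _ _).2 r1, fun W j hj => ?_⟩
  have hsum := pvcm_mask_sum hT hS H.ring hn H.per (M := fun j d => (delPl h).toMap.bary Subtype.val d ∈ Mk j) (by funext d; rw [hMper])
    (fun i hi j hj hij d h1 h2 => Set.disjoint_left.1 (hd i hi j hj hij) h1 h2) H.mlk H.minn (w := pvvmW (delPl h) W (Mk j)) hj
    (fun d hd' => by unfold pvvmW; rw [Set.indicator_of_notMem hd', zero_mul])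
  rw [pvcm_lsum_fl] at hsum
  unfold pvvmX
  rw [← hsum, pvbeLab, pvq_del_sum h]
  rfl

/-- **ONE TAG FOR ALL THE WEIGHTS**, any name of the Delaunay plane -/
theorem pvvm_at (h : DelGood (cfSites η)) (𝔓 : PlTri ↥(cfSites η)) (h𝔓 : 𝔓 = delPl h) {b : Bool} {n : ℕ} {Mk : ℕ → Set ℂ} {B : Set ℂ} {a₀ : ℝ}
    {g : ℕ → 𝔓.toMap.Gate (pvlfFl b (cfCol η ∘ Subtype.val))} {inn lk : ℕ → 𝔓.toMap.Pth} (H : PvcmAt 𝔓 b n Mk B a₀ g inn lk)
    (hn : 2 ≤ n) (hMper : Mk n = Mk 0) (hd : ∀ i < n, ∀ j < n, i ≠ j → Disjoint (Mk i) (Mk j)) :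
    ∃ x, pvbeTag η x ∧ ∀ (W : Set ℂ → ℂ × ℂ → ℂ), ∀ j < n, pvvmX 𝔓 W (Mk j) (inn j) (lk j) (inn (j + 1)) = pvbeLab W ((Mk j).indicator 1) η x := by
  subst h𝔓
  exact pvvm_at_del h H hn hMper hd

/-- the field of 95 -/
theorem pvvm_X_Q (h : DelGood (cfSites η)) (𝔓 : PlTri ↥(cfSites η)) (h𝔓 : 𝔓 = delPl h) (M : Set ℂ) (p y p' : 𝔓.toMap.Pth) : pvvmX 𝔓 pvqWQ M p y p' = pvcmX 𝔓 M p y p' := by
  subst h𝔓
  unfold pvvmX pvcmX
  rw [pvvm_W_Q h]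

/-- the `V`-weight on any name of the Delaunay plane -/
theorem pvvm_W_V' (h : DelGood (cfSites η)) (𝔓 : PlTri ↥(cfSites η)) (h𝔓 : 𝔓 = delPl h) (M : Set ℂ) :
    pvvmW 𝔓 pvbeWV M = fun d => M.indicator 1 (𝔓.toMap.bary Subtype.val d) * 𝔓.toMap.side Subtype.val d := by
  subst h𝔓
  funext d
  exact pvvm_W_V h M d

end at_

/-! ## 2. telescoping (model free) -/

section tel

variable {V D : Type} {T : PvMap V D} {s : V → Bool}

/-- the side vector in the mask `M` -/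
noncomputable def pvvmS (T : PvMap V D) (mk : V → ℂ) (M : Set ℂ) (d : D) : ℂ := M.indicator 1 (T.bary mk d) * T.side mk d

/-- **the cut point of the SOURCE of a connector**: exit vertex of the inner arc `p` − `V`-mass in the mask `M` of the tags of `p` -/
noncomputable def pvvmCu (T : PvMap V D) (mk : V → ℂ) (M : Set ℂ) (p : T.Pth) : ℂ := mk (p.v p.n) - p.psum (pvvmS T mk M)

theorem pvvm_eqns_cite2 : True := by
  have := @pvvmS.eq_1; have := @pvvmCu.eq_1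
  trivial

/-- a path all of whose tags lie in the mask -/
theorem pvvm_psum_in (mk : V → ℂ) {M : Set ℂ} {y : T.Pth} (hy : ∀ i, i < y.n → T.bary mk (T.opp (y.e i)) ∈ M) : y.psum (pvvmS T mk M) = mk (y.v y.n) - mk (y.v 0) := by
  rw [← pvdc_psum_side]
  unfold PvMap.Pth.psum
  refine Finset.sum_congr rfl fun i hi => ?_
  unfold pvvmS
  rw [Set.indicator_of_mem (hy i (Finset.mem_range.1 hi)), Pi.one_apply, one_mul]

/-- the mass in `M` of the inner arc of a state is the mass of the ENTRANCE ARC off the cut-off ball `B` -/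
theorem pvvm_psum_ent (𝔖 : PvspSt T s) (hip : 𝔖.ip ≤ 𝔖.inn.n) (mk : V → ℂ) {M B : Set ℂ}
    (h1 : ∀ i, i < 𝔖.ip → T.bary mk (T.opp (𝔖.inn.e i)) ∉ B → T.bary mk (T.opp (𝔖.inn.e i)) ∈ M)
    (h2 : ∀ i, i < 𝔖.ip → T.bary mk (T.opp (𝔖.inn.e i)) ∈ B → T.bary mk (T.opp (𝔖.inn.e i)) ∉ M)
    (h3 : ∀ i, 𝔖.ip ≤ i → i < 𝔖.inn.n → T.bary mk (T.opp (𝔖.inn.e i)) ∉ M) : 𝔖.inn.psum (pvvmS T mk M) = 𝔖.ent mk B := by
  classical
  unfold PvMap.Pth.psum PvspSt.ent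
  obtain ⟨m, hm⟩ := Nat.exists_eq_add_of_le hip
  rw [hm, Finset.sum_range_add, Finset.sum_filter]
  have e2 : ∑ x ∈ Finset.range m, pvvmS T mk M (T.opp (𝔖.inn.e (𝔖.ip + x))) = 0 :=
    Finset.sum_eq_zero fun i hi => by
      unfold pvvmS
      rw [Set.indicator_of_notMem (h3 _ (Nat.le_add_right _ _) (by have := Finset.mem_range.1 hi; omega)), zero_mul]
  rw [e2, add_zero]
  refine Finset.sum_congr rfl fun i hi => ?_
  have hi' := Finset.mem_range.1 hi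
  unfold pvvmS
  by_cases hB : T.bary mk (T.opp (𝔖.inn.e i)) ∈ B
  · rw [if_neg (not_not.2 hB), Set.indicator_of_notMem (h2 i hi' hB), zero_mul]
  · rw [if_pos hB, Set.indicator_of_mem (h1 i hi' hB), Pi.one_apply, one_mul]

/-- **TELESCOPING**: the `V`-mass in `M` of (inner arc `p` of the source, link `y`, inner arc of the state `𝔖` of the target) is   `cut point of 𝔖 − cut point of the source` -/
theorem pvvm_tel (𝔖 : PvspSt T s) (hip : 𝔖.ip ≤ 𝔖.inn.n) (mk : V → ℂ) {M B : Set ℂ} {p y : T.Pth} (hy0 : y.v 0 = p.v p.n) (hy1 : y.v y.n = 𝔖.inn.v 0)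
    (hy : ∀ i, i < y.n → T.bary mk (T.opp (y.e i)) ∈ M)
    (h1 : ∀ i, i < 𝔖.ip → T.bary mk (T.opp (𝔖.inn.e i)) ∉ B → T.bary mk (T.opp (𝔖.inn.e i)) ∈ M)
    (h2 : ∀ i, i < 𝔖.ip → T.bary mk (T.opp (𝔖.inn.e i)) ∈ B → T.bary mk (T.opp (𝔖.inn.e i)) ∉ M)
    (h3 : ∀ i, 𝔖.ip ≤ i → i < 𝔖.inn.n → T.bary mk (T.opp (𝔖.inn.e i)) ∉ M) :
    p.psum (pvvmS T mk M) + y.psum (pvvmS T mk M) + 𝔖.inn.psum (pvvmS T mk M) = 𝔖.cut mk B - pvvmCu T mk M p := by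
  rw [pvvm_psum_in mk hy, pvvm_psum_ent 𝔖 hip mk h1 h2 h3, pvkv_cut_ent 𝔖 hip mk B, hy0, hy1]
  unfold pvvmCu
  ring

/-- two paths with the same darts have the same sums -/
theorem pvvm_psum_congr {p p' : T.Pth} (hn : p.n = p'.n) (he : ∀ i, i < p.n → p.e i = p'.e i) (w : D → ℂ) : p.psum w = p'.psum w := by
  unfold PvMap.Pth.psum
  rw [← hn]
  exact Finset.sum_congr rfl fun i hi => by rw [he i (Finset.mem_range.1 hi)]

/-- the inner arc of a state is THE inner path of its gate `S₂` -/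
theorem pvvm_state_inn {κ : Type} (hT : T.IsSph) (hS : T.Simple) {mk : V → κ} {𝔯 : PvspReg κ} {𝔖 : PvspSt T s} (hA : 𝔖.At mk 𝔯) (hfin : 𝔖.g2.c.Left.Finite) {p : T.Pth} (hp : 𝔖.g2.IsInn p) :
    p.n = 𝔖.inn.n ∧ ∀ i, i < p.n → p.e i = 𝔖.inn.e i :=
  pvgz_inn_unique hT hS 𝔖.g2 hp (pvgz_inn_of_le hT hS 𝔖.g2 hfin (pvgz_thru_of_psg hT 𝔖.g2 hfin hp.1) hA.arc)

/-- **TELESCOPING IN A RING OF 260**: the connector `j : plug j → plug (j + 1)`, the plug `j + 1` carries the state `𝔖` -/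
theorem pvvm_tel_ring {κ : Type} (hT : T.IsSph) (hS : T.Simple) {n : ℕ} {g : ℕ → T.Gate s} {inn lk : ℕ → T.Pth} (H : PvgzRing T s n g inn lk) (hper : inn n = inn 0) {j : ℕ} (hj : j < n)
    {mκ : V → κ} {𝔯 : PvspReg κ} {𝔖 : PvspSt T s} (hA : 𝔖.At mκ 𝔯) (hg : 𝔖.g2 = g (j + 1)) (hfin : 𝔖.g2.c.Left.Finite) (mk : V → ℂ) {M B : Set ℂ}
    (hy : ∀ i, i < (lk j).n → T.bary mk (T.opp ((lk j).e i)) ∈ M)
    (h1 : ∀ i, i < 𝔖.ip → T.bary mk (T.opp (𝔖.inn.e i)) ∉ B → T.bary mk (T.opp (𝔖.inn.e i)) ∈ M)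
    (h2 : ∀ i, i < 𝔖.ip → T.bary mk (T.opp (𝔖.inn.e i)) ∈ B → T.bary mk (T.opp (𝔖.inn.e i)) ∉ M)
    (h3 : ∀ i, 𝔖.ip ≤ i → i < 𝔖.inn.n → T.bary mk (T.opp (𝔖.inn.e i)) ∉ M) :
    (inn j).psum (pvvmS T mk M) + (lk j).psum (pvvmS T mk M) + (inn (j + 1)).psum (pvvmS T mk M) = 𝔖.cut mk B - pvvmCu T mk M (inn j) := by
  have hinn : (g (j + 1)).IsInn (inn (j + 1)) := by
    rcases Nat.lt_or_ge (j + 1) n with h | h
    · exact H.hinn _ h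
    · rw [show j + 1 = n by omega, H.per, hper]
      exact H.hinn 0 H.pos
  rw [← hg] at hinn
  obtain ⟨e1, e2⟩ := pvvm_state_inn hT hS hA hfin hinn
  rw [pvvm_psum_congr e1 e2]
  refine pvvm_tel 𝔖 hA.ip_le mk ?_ ?_ hy h1 h2 h3
  · rw [H.lk0 j hj, (H.hinn j hj).1.h1]
  · rw [H.lk1 j hj, ← hg]
    exact (pvt_sd_v0 hA.arc).symm

end tel

/-! ## 3. the almost sure form -/

section rec_

/-- **WHAT THE TARGET OF THE CONNECTOR `j` OWES FOR `V` AT ONE CONFIGURATION**: the plug `j + 1` of the ring carries the region state `𝔖` (regions `𝔯`), finite inside;   THE MASK RULES on the tags of its inner arc: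
before the marked vertex: in the cut-off ball `Bc` or in the mask `M` of the connector, never in both;   after the marked vertex: off `M` -/
structure PvvmAt {η : Conf PvPt} (𝔓 : PlTri ↥(cfSites η)) (b : Bool) (M Bc : Set ℂ) (𝔯 : PvspReg ℂ) (g' : 𝔓.toMap.Gate (pvlfFl b (cfCol η ∘ Subtype.val)))
    (𝔖 : PvspSt 𝔓.toMap (pvlfFl b (cfCol η ∘ Subtype.val))) : Prop where
  st : 𝔖.At Subtype.val 𝔯
  g2 : 𝔖.g2 = g'
  fin : 𝔖.g2.c.Left.Finite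
  m1 : ∀ i, i < 𝔖.ip → 𝔓.toMap.bary Subtype.val (𝔓.toMap.opp (𝔖.inn.e i)) ∉ Bc → 𝔓.toMap.bary Subtype.val (𝔓.toMap.opp (𝔖.inn.e i)) ∈ M
  m2 : ∀ i, i < 𝔖.ip → 𝔓.toMap.bary Subtype.val (𝔓.toMap.opp (𝔖.inn.e i)) ∈ Bc → 𝔓.toMap.bary Subtype.val (𝔓.toMap.opp (𝔖.inn.e i)) ∉ M
  m3 : ∀ i, 𝔖.ip ≤ i → i < 𝔖.inn.n → 𝔓.toMap.bary Subtype.val (𝔓.toMap.opp (𝔖.inn.e i)) ∉ M

/-- **RECV AT ONE CONFIGURATION**: ring of 95 + state of the target  ⟹  `cut point of the target − cut point of the source` is the `V`-mass in the mask `Mk j` of ONE label -/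
theorem pvvm_rec_at {η : Conf PvPt} (h : DelGood (cfSites η)) (𝔓 : PlTri ↥(cfSites η)) (h𝔓 : 𝔓 = delPl h) {b : Bool} {n : ℕ} {Mk : ℕ → Set ℂ} {B : Set ℂ} {a₀ : ℝ}
    {g : ℕ → 𝔓.toMap.Gate (pvlfFl b (cfCol η ∘ Subtype.val))} {inn lk : ℕ → 𝔓.toMap.Pth} (H : PvcmAt 𝔓 b n Mk B a₀ g inn lk)
    (hn : 2 ≤ n) (hMper : Mk n = Mk 0) (hd : ∀ i < n, ∀ j < n, i ≠ j → Disjoint (Mk i) (Mk j)) {j : ℕ} (hj : j < n) {Bc : Set ℂ} {𝔯 : PvspReg ℂ}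
    {𝔖 : PvspSt 𝔓.toMap (pvlfFl b (cfCol η ∘ Subtype.val))} (hS : PvvmAt 𝔓 b (Mk j) Bc 𝔯 (g (j + 1)) 𝔖) :
    ∃ x, pvbeTag η x ∧ (∀ (W : Set ℂ → ℂ × ℂ → ℂ), ∀ i < n, pvvmX 𝔓 W (Mk i) (inn i) (lk i) (inn (i + 1)) = pvbeLab W ((Mk i).indicator 1) η x) ∧
      𝔖.cut Subtype.val Bc - pvvmCu 𝔓.toMap Subtype.val (Mk j) (inn j) = pvbeLab pvbeWV ((Mk j).indicator 1) η x := by
  obtain ⟨x, hx, hW⟩ := pvvm_at h 𝔓 h𝔓 H hn hMper hd
  refine ⟨x, hx, hW, ?_⟩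
  rw [← hW pvbeWV j hj]
  unfold pvvmX
  rw [pvvm_W_V' h 𝔓 h𝔓]
  have hT : 𝔓.toMap.IsSph := by rw [h𝔓]; exact delp_isSph h
  exact (pvvm_tel_ring hT 𝔓.toMap_simple H.ring H.per hj hS.st hS.g2 hS.fin Subtype.val (H.mlk j hj) hS.m1 hS.m2 hS.m3).symm

/-- **RECV, WHAT IS OWED** : a.s. on `Ev` there is a ring of the Delaunay plane (95: `PvcmAt`), the plug `j + 1` carries a region state, `cV` is its cut point, `cU` is the cut point of the plug `j` -/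
def PvvmRec (ε : ℝ) (n j : ℕ) (Ev : Set (Conf PvPt)) (cV cU : Conf PvPt → ℂ) (Mk : ℕ → Set ℂ) (Bc : Set ℂ) (𝔯 : PvspReg ℂ) (B : Set ℂ) (a₀ : ℝ) : Prop :=
  ∀ᵐ η ∂(pvP ε), η ∈ Ev → ∃ (b : Bool) (g : ℕ → (delbPl (cfSites η)).toMap.Gate (pvlfFl b (cfCol η ∘ Subtype.val))) (inn lk : ℕ → (delbPl (cfSites η)).toMap.Pth)
    (𝔖 : PvspSt (delbPl (cfSites η)).toMap (pvlfFl b (cfCol η ∘ Subtype.val))),
    PvcmAt (delbPl (cfSites η)) b n Mk B a₀ g inn lk ∧ PvvmAt (delbPl (cfSites η)) b (Mk j) Bc 𝔯 (g (j + 1)) 𝔖 ∧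
      cV η = 𝔖.cut Subtype.val Bc ∧ cU η = pvvmCu (delbPl (cfSites η)).toMap Subtype.val (Mk j) (inn j)

theorem pvvm_eqns_cite3 : True := by
  have := @PvvmRec.eq_1
  trivial

variable {ε : ℝ} {n j : ℕ} {Ev : Set (Conf PvPt)} {cV cU : Conf PvPt → ℂ} {Mk : ℕ → Set ℂ} {Bc : Set ℂ} {𝔯 : PvspReg ℂ} {B : Set ℂ} {a₀ : ℝ}

/-- **(RECV)** -/
theorem PvvmRec.rec (hε : 0 < ε) (H : PvvmRec ε n j Ev cV cU Mk Bc 𝔯 B a₀) (hn : 2 ≤ n) (hj : j < n) (hMper : Mk n = Mk 0) (hd : ∀ i < n, ∀ j < n, i ≠ j → Disjoint (Mk i) (Mk j)) :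
    PvbeRec ε pvbeWV ((Mk j).indicator 1) Ev (fun η => cV η - cU η) := by
  filter_upwards [H, pvqf_good_ae ε hε.ne'] with η h1 h2 hη
  obtain ⟨b, g, inn, lk, 𝔖, hA, hS, e1, e2⟩ := h1 hη
  obtain ⟨x, hx, -, e⟩ := pvvm_rec_at h2.del (delbPl (cfSites η)) (delb_pl_eq h2.del) hA hn hMper hd hj hS
  exact ⟨x, hx, by rw [e1, e2, e]⟩

/-- **`besV`**: `E[|cV - cU|² ; Ev] ≤ C_B |M_j|`.      No measurability of `cV`, `cU`, `Ev`. -/
theorem PvvmRec.bes (hε : 0 < ε) (H : PvvmRec ε n j Ev cV cU Mk Bc 𝔯 B a₀) (hn : 2 ≤ n) (hj : j < n) (hMper : Mk n = Mk 0) (hd : ∀ i < n, ∀ j < n, i ≠ j → Disjoint (Mk i) (Mk j))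
    (hM : MeasurableSet (Mk j)) (hb : Bornology.IsBounded (Mk j)) :
    ∫⁻ η, ‖cV η - cU η‖ₑ ^ 2 * Ev.indicator 1 η ∂(pvP ε) ≤ pvbeCB * volume (Mk j) :=
  pvbe_one_mask pvbe_in_V hε hM hb (H.rec hε hn hj hMper hd)

/-- the same as a set integral -/
theorem PvvmRec.bes' (hε : 0 < ε) (H : PvvmRec ε n j Ev cV cU Mk Bc 𝔯 B a₀) (hn : 2 ≤ n) (hj : j < n) (hMper : Mk n = Mk 0) (hd : ∀ i < n, ∀ j < n, i ≠ j → Disjoint (Mk i) (Mk j))
    (hM : MeasurableSet (Mk j)) (hb : Bornology.IsBounded (Mk j)) (hEv : NullMeasurableSet Ev (pvP ε)) :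
    ∫⁻ η in Ev, ‖cV η - cU η‖ₑ ^ 2 ∂(pvP ε) ≤ pvbeCB * volume (Mk j) := by
  refine le_trans (le_of_eq ?_) (H.bes hε hn hj hMper hd hM hb)
  rw [← lintegral_indicator₀ hEv]
  refine lintegral_congr fun x => ?_
  by_cases hx : x ∈ Ev
  · rw [Set.indicator_of_mem hx, Set.indicator_of_mem hx, Pi.one_apply, mul_one]
  · rw [Set.indicator_of_notMem hx, Set.indicator_of_notMem hx, mul_zero]

end rec_

/-! ## 4. the mask rules from the regions -/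

section rules

variable {V D : Type} {T : PvMap V D} {s : V → Bool}

theorem pvvm_bary_near {a b c : ℂ} {r : ℝ} (h1 : ‖b - a‖ ≤ r) (h2 : ‖c - a‖ ≤ r) : (b + a + c) / 3 ∈ Metric.closedBall a r := by
  rw [mem_closedBall_iff_norm]
  have e : (b + a + c) / 3 - a = ((b - a) + (c - a)) / 3 := by ring
  have h3 := norm_add_le (b - a) (c - a)
  have h0 := norm_nonneg (b - a)
  rw [e, norm_div]
  have e3 : ‖(3 : ℂ)‖ = 3 := by simp
  rw [e3, div_le_iff₀ (by norm_num)]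
  linarith

/-- **THE MASK RULES** from FIT-IN of the state, short faces along the inner arc (mesh), and three inclusions of regions:
the `r`-collar of `C₁ ∪ N⁻` lies in `Bc ∪ M`;   `Bc`, `M` are disjoint;   the `r`-collar of `C₁ ∪ N⁺` misses `M` -/
theorem pvvm_rules {mk : V → ℂ} {𝔯 : PvspReg ℂ} {𝔖 : PvspSt T s} (hA : 𝔖.At mk 𝔯) {r : ℝ} {M Bc : Set ℂ}
    (hs : ∀ i, i < 𝔖.inn.n → ‖mk (𝔖.inn.v (i + 1)) - mk (𝔖.inn.v i)‖ ≤ r ∧ ‖mk (T.apex (T.opp (𝔖.inn.e i))) - mk (𝔖.inn.v i)‖ ≤ r)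
    (c1 : ∀ x ∈ 𝔯 .C1 ∪ 𝔯 .Nm, Metric.closedBall x r ⊆ Bc ∪ M) (c2 : Disjoint Bc M) (c3 : ∀ x ∈ 𝔯 .C1 ∪ 𝔯 .Np, Disjoint (Metric.closedBall x r) M) :
    (∀ i, i < 𝔖.ip → T.bary mk (T.opp (𝔖.inn.e i)) ∉ Bc → T.bary mk (T.opp (𝔖.inn.e i)) ∈ M) ∧
    (∀ i, i < 𝔖.ip → T.bary mk (T.opp (𝔖.inn.e i)) ∈ Bc → T.bary mk (T.opp (𝔖.inn.e i)) ∉ M) ∧
    (∀ i, 𝔖.ip ≤ i → i < 𝔖.inn.n → T.bary mk (T.opp (𝔖.inn.e i)) ∉ M) := by
  have hb : ∀ i, i < 𝔖.inn.n → T.bary mk (T.opp (𝔖.inn.e i)) ∈ Metric.closedBall (mk (𝔖.inn.v i)) r := by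
    intro i hi
    unfold PvMap.bary
    rw [T.src_opp', T.tgt_opp, 𝔖.inn.tgt_e i hi, 𝔖.inn.src_e i hi]
    exact pvvm_bary_near (hs i hi).1 (hs i hi).2
  refine ⟨fun i hi hn => ?_, fun i _ h1 h2 => Set.disjoint_left.1 c2 h1 h2, fun i h1 h2 h3 => ?_⟩
  · exact (c1 _ (hA.fit_m i hi.le) (hb i (hi.trans_le hA.ip_le))).resolve_left hn
  · exact Set.disjoint_left.1 (c3 _ (hA.fit_p i h1 h2.le)) (hb i h2) h3

end rules

end Claimed.Agent.R289
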