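-- KEEP
import Claimed.Agent.R289.Tr.CutP
import Claimed.Agent.R289.Tr.PlugW
import Claimed.Agent.R289.Tr.PlugClose
import Claimed.Agent.R289.Ppp.Counts

/-!
# Row 289 (S0537, Cardy for Poisson-Voronoi), THE WALL, ROAD P, file Tr/CutPl : THE CUT POINTS ON THE DELAUNAY PLANE; THE CUT POINT OF A KIT PLUG      (helper76; prefix `pvvq_`, `pvvq`, `Pvvq`)      ALL PROVED

WHY (ruling P11bis of 273, T4 with 206 and 263).   `thickVν` is proved by the two-plug trick of 263 (`Tr/CutT`): `X := C_t - C_u` on the short cycle `t -b-> u -e-> t`.   `C_t = pvkvC0` (79 263, `Tr/CutP`) is read on SOME completion;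
`C_u` = the cut point of the reference plug (a KIT plug: gate of record `PvzlGt` of 173) had no definition.   The recognition of 206 (`Tr/CloseV`) lives on the Delaunay plane.
* sec. 0  **`pvvq_C0_plane`** : general position + mesh + THE state `𝔖` of the plane map  ⟹  `pvkvC0 N t z h mc η = 𝔖.cut Subtype.val (closedBall z (mc h))`.
* sec. 1  the rule `pvvqVp p` ("`d` is the dart `g.bIn` of THE gate of record"): `pvvq_Vp_local _supp _comap _set`.
* sec. 2  **`pvvqCu p E ρ M`** (REFERENCE FRAME) := (field of 107, rule `pvvqVp`, weight = position of the source) − (field of 107, rule `pvznTi`, weight `pvvqW M` = `1_M(bar) * side`);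
          `PvvqOk p E ρ M` (what the regions owe);   **`pvvq_cu_meas`**, **`pvvq_cu_reads`** (`E ×ˢ univ`).
* sec. 3  **`pvvq_cu_plane`** (EVERY FRAME `w`) : `w + pvvqCu p E ρ M (cfMap (pvthInv w 1) η) = pos g⁺ − (inner arc of g).psum (1_{w + M}(bar) * side)` for THE gate of record `g` of the plug placed at `w`;
          `pvvq_frame_eq` (the frame `pvydE true w` of 58 is `cfMap (pvthInv w 1)`), `pvvq_cu_plane0`.
* sec. 4  `pvvq_cu_le` (`|C_u| ≤ 2R #(η ∩ E)` on the guard), **`pvvq_cu_lint`**, **`pvvq_cu_integrable`** (Campbell) = field `iCu` in the reference frame.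
-/

set_option autoImplicit false

namespace Claimed.Agent.R289

open MeasureTheory Set Metric Claims.C0465
open scoped ENNReal

/-! ## 0. the plane reading of the cut point of a big plug -/

section plane

variable {N : PvspNum} {t : PvspTy} {z : ℂ} {h mc : ℝ}

/-- **THE PLANE READING OF THE CUT POINT** of a candidate: at a configuration in general position, on the mesh event, `pvkvC0` is the cut point of THE state of the Delaunay plane -/
theorem pvvq_C0_plane (W : t.Wf N z h) {η : Conf PvPt} (hη : DelGood (cfSites η)) (hm : PvtrMesh (N.mu * h) (pvspO N t z h) (cfSites η))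
    (hst : PvplStar (delbPl (cfSites η)).toMap Subtype.val (fun x => x ∈ t.reg N z h .O2) (t.reg N z h .S2))
    {𝔖 : PvspSt (delbPl (cfSites η)).toMap (pvspS t.col (cfCol η ∘ Subtype.val))} (hA : 𝔖.At Subtype.val (t.reg N z h)) :
    pvkvC0 N t z h mc η = 𝔖.cut Subtype.val (closedBall z (mc * h)) ∧ pvkvA0 N t z h mc η = ((𝔖.inn.v 0 : ↥(cfSites η)) : ℂ) := by
  obtain ⟨zi, hzi⟩ := W.exists_far .has
  exact pvkv_C0_eq W hm ⟨Empty, delbPlane, Empty.elim, zi, delb_ok_mono (subset_univ _) (delb_plane_ok hη), hzi, hst, 𝔖, hA, rfl, rfl⟩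

end plane

/-! ## 1. the rule "`d` is the dart `g.bIn` of THE gate of record" -/

section rule

variable {κ κ' : Type}

/-- `d` is the dart of the circuit of THE gate of record which starts at `g⁺` -/
def pvvqVp (p : PvzlPg κ) : PvzfPred κ := fun _ _ T mk s e => ∃ g : T.Gate s, PvzlGt T mk s p g ∧ e = g.bIn

theorem pvvq_eqns_cite : True := by
  have := @pvvqVp.eq_1
  trivial

theorem pvvq_Vp_twin {V D V' D' : Type} {T : PvMap V D} {mk : V → κ} {s : V → Bool} {T' : PvMap V' D'} {mk' : V' → κ} {s' : V' → Bool} {K : Set κ} {R : V → V' → Prop}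
    (h : PvplIso T mk s T' mk' s' K R) (hS : T.Simple) (hS' : T'.Simple) {p : PvzlPg κ} (hp : p.Sub K) {d : D} {d' : D'} (hd : PvplRD T T' R d d')
    (hV : pvvqVp p V D T mk s d) : pvvqVp p V' D' T' mk' s' d' := by
  obtain ⟨g, hg, rfl⟩ := hV
  obtain ⟨g', hg', W⟩ := hg.twin h hS hS' hp.1 hp.2.1 hp.2.2
  refine ⟨g', hg', ?_⟩
  have h1 := W.cyc.e_rel g.m
  show d' = g'.c.e g'.m
  rw [W.m_eq]
  exact h.rd_fn hS' hd h1.1

theorem pvvq_Vp_local {p : PvzlPg κ} {K : Set κ} (hp : p.Sub K) : (pvvqVp p).Local K :=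
  fun _ _ _ _ _ _ _ _ _ _ _ hS hS' h _ _ hd => ⟨pvvq_Vp_twin h hS hS' hp hd, pvvq_Vp_twin h.symm hS' hS hp hd⟩

theorem pvvq_Vp_supp {p : PvzlPg κ} {K : Set κ} (hp : p.Sub K) : (pvvqVp p).Supp K := by
  rintro V D T mk s d ⟨g, hg, rfl⟩
  exact hp.2.1 (hg.least.reg.rim g.m)

theorem pvvq_Vp_comap (θ : κ → κ') {V D : Type} {T : PvMap V D} {mk : V → κ} {s : V → Bool} {p : PvzlPg κ'} {e : D} :
    pvvqVp (p.comap θ) V D T mk s e ↔ pvvqVp p V D T (θ ∘ mk) s e :=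
  exists_congr fun _ => and_congr (pvkk_gt θ) Iff.rfl

/-- the rule selects ONE dart -/
theorem pvvq_Vp_set {V D : Type} {T : PvMap V D} {mk : V → κ} {s : V → Bool} (hT : T.IsSph) {p : PvzlPg κ} (hdis : Disjoint p.Km p.Kp) {g : T.Gate s} (hg : PvzlGt T mk s p g) :
    {d | pvvqVp p V D T mk s d} = {g.bIn} := by
  ext d
  constructor
  · rintro ⟨g₂, h₂, rfl⟩
    exact (h₂.unique_darts hT hdis hg).2.2.1
  · rintro rfl
    exact ⟨g, hg, rfl⟩

end rule

/-! ## 2. the cut point of a kit plug, reference frame -/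

section cu

open Classical in
/-- THE field of a local rule (`0` if there is none) -/
noncomputable def pvvqFld {κ : Type} (θ : ℂ → κ) (Ψ : PvzfPred κ) (K : Set κ) (E : Set ℂ) (ρ : ℝ) (w : ℂ × ℂ × ℂ → ℂ) : Conf PvPt → ℂ :=
  if h : ∃ F, PvzfRep θ Ψ K E ρ w F then h.choose else 0

/-- the summand of the `V`-mass in the mask `M`: the side vector of the dart if the barycentre of its face lies in `M` -/
noncomputable def pvvqW (M : Set ℂ) (t : ℂ × ℂ × ℂ) : ℂ := M.indicator (1 : ℂ → ℂ) ((t.1 + t.2.1 + t.2.2) / 3) * (t.1 - t.2.1)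

/-- the position of `g⁺` -/
noncomputable def pvvqF2 (p : PvzlPg ℂ) (E : Set ℂ) (ρ : ℝ) : Conf PvPt → ℂ := pvvqFld (pvznV5 p) (pvvqVp pvznB5) (pvznRd pvznB5) E ρ (fun t => t.1)

/-- the `V`-mass in `M` of the inner arc -/
noncomputable def pvvqF1 (p : PvzlPg ℂ) (E : Set ℂ) (ρ : ℝ) (M : Set ℂ) : Conf PvPt → ℂ := pvvqFld (pvznV5 p) (pvznTi pvznB5) (pvznRd pvznB5) E ρ (pvvqW M)

/-- **THE CUT POINT OF A KIT PLUG** `p` (regions of the gate of record of 173), window `E`, mesh `ρ`, mask `M`: position of `g⁺` minus the `V`-mass in `M` of the inner arc -/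
noncomputable def pvvqCu (p : PvzlPg ℂ) (E : Set ℂ) (ρ : ℝ) (M : Set ℂ) (η : Conf PvPt) : ℂ := pvvqF2 p E ρ η - pvvqF1 p E ρ M η

/-- what the regions owe -/
structure PvvqOk (p : PvzlPg ℂ) (E : Set ℂ) (ρ : ℝ) (M : Set ℂ) : Prop where
  mp : PvznPgM p
  dis : Disjoint p.Km p.Kp
  win : PvplWin E
  bdd : Bornology.IsBounded E
  ρ0 : 0 < ρ
  core : pvznRd p ⊆ pvtrCore (3 * ρ) E
  mM : MeasurableSet M

theorem pvvq_eqns_cite2 : True := by
  have := @pvvqFld.eq_1; have := @pvvqW.eq_1; have := @pvvqF2.eq_1; have := @pvvqF1.eq_1; have := @pvvqCu.eq_1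
  trivial

theorem pvvq_W_meas {M : Set ℂ} (hM : MeasurableSet M) : Measurable (pvvqW M) := by
  unfold pvvqW
  refine Measurable.mul ?_ (by fun_prop)
  exact (measurable_one.indicator hM).comp (by fun_prop)

variable {p : PvzlPg ℂ} {E M : Set ℂ} {ρ : ℝ}

theorem PvvqOk.pre (H : PvvqOk p E ρ M) : pvznV5 p ⁻¹' pvznRd pvznB5 ⊆ pvtrCore (3 * ρ) E := by
  rw [← pvzn_rd_comap, pvzn_V5_comap]; exact H.core

theorem pvvq_rep2 (H : PvvqOk p E ρ M) : PvzfRep (pvznV5 p) (pvvqVp pvznB5) (pvznRd pvznB5) E ρ (fun t : ℂ × ℂ × ℂ => t.1) (pvvqF2 p E ρ) := by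
  have hex : ∃ F, PvzfRep (pvznV5 p) (pvvqVp pvznB5) (pvznRd pvznB5) E ρ (fun t : ℂ × ℂ × ℂ => t.1) F :=
    pvzf_main (pvzn_V5_meas H.mp) (pvvq_Vp_local (pvzn_sub_rd pvznB5)) (pvvq_Vp_supp (pvzn_sub_rd pvznB5)) H.win H.ρ0 H.pre measurable_fst
  unfold pvvqF2 pvvqFld
  rw [dif_pos hex]
  exact hex.choose_spec

theorem pvvq_rep1 (H : PvvqOk p E ρ M) : PvzfRep (pvznV5 p) (pvznTi pvznB5) (pvznRd pvznB5) E ρ (pvvqW M) (pvvqF1 p E ρ M) := by
  have hex : ∃ F, PvzfRep (pvznV5 p) (pvznTi pvznB5) (pvznRd pvznB5) E ρ (pvvqW M) F :=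
    pvzf_main (pvzn_V5_meas H.mp) (pvzn_Ti_local (pvzn_sub_rd pvznB5)) (pvzn_Ti_supp (pvzn_sub_rd pvznB5)) H.win H.ρ0 H.pre (pvvq_W_meas H.mM)
  unfold pvvqF1 pvvqFld
  rw [dif_pos hex]
  exact hex.choose_spec

/-- the cut point is measurable -/
theorem pvvq_cu_meas (H : PvvqOk p E ρ M) : Measurable (pvvqCu p E ρ M) := (pvvq_rep2 H).1.sub (pvvq_rep1 H).1

/-- the cut point is read from the window -/
theorem pvvq_cu_reads (H : PvvqOk p E ρ M) : Conf.Reads (E ×ˢ univ) (pvvqCu p E ρ M) := (pvvq_rep2 H).2.1.map₂ (pvvq_rep1 H).2.1 (fun x y => x - y)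

end cu

/-! ## 3. the plane reading of the cut point of a kit plug, in every frame -/

section frame

variable {p : PvzlPg ℂ} {E M : Set ℂ} {ρ : ℝ}

/-- a point whose test is off the reading zone, in the frame `w` -/
theorem pvvq_far (H : PvvqOk p E ρ M) (w : ℂ) : ∃ zi : ℂ, (pvznV5 p ∘ pvthInv w 1) zi ∉ pvznRd pvznB5 := by
  obtain ⟨z0, hz0⟩ := pvzn_far H.bdd
  refine ⟨pvthSim w 1 z0, fun h => hz0 ?_⟩
  have e : pvthInv w 1 (pvthSim w 1 z0) = z0 := by unfold pvthInv pvthSim; simp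
  have h' : z0 ∈ pvznV5 p ⁻¹' pvznRd pvznB5 := by
    show pvznV5 p z0 ∈ pvznRd pvznB5
    rw [← e]; exact h
  exact pvzn_core_sub H.ρ0 (H.pre h')

theorem pvvq_comap_frame (p : PvzlPg ℂ) (w : ℂ) : pvznB5.comap (pvznV5 p ∘ pvthInv w 1) = p.comap (pvthInv w 1) := by
  conv_rhs => rw [← pvzn_V5_comap p]
  rfl

/-- the summand in the frame `w` -/
theorem pvvq_W_frame (M : Set ℂ) (w : ℂ) (t : ℂ × ℂ × ℂ) : pvvqW M (pvzfMap3 (pvthInv w 1) t) = pvvqW (pvthInv w 1 ⁻¹' M) t := by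
  unfold pvvqW pvzfMap3 pvthInv
  have e1 : ((t.1 - w) / 1 + (t.2.1 - w) / 1 + (t.2.2 - w) / 1) / 3 = ((t.1 + t.2.1 + t.2.2) / 3 - w) / 1 := by ring
  have e2 : (t.1 - w) / 1 - (t.2.1 - w) / 1 = t.1 - t.2.1 := by ring
  simp only [e1, e2]
  rfl

/-- **THE PLANE READING OF THE CUT POINT OF THE KIT PLUG PLACED AT `w`**: position of `g⁺` minus the `V`-mass in the placed mask of the inner arc of THE gate of record -/
theorem pvvq_cu_plane (H : PvvqOk p E ρ M) (w : ℂ) {η : Conf PvPt} (hη : DelGood (cfSites η)) (hf : PvtnFin (pvthInv w 1 ⁻¹' E) η)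
    (hm : PvtrMesh ρ (pvthInv w 1 ⁻¹' E) (cfSites η)) {g : (pvkiT η).Gate (pvkiS η)} (hg : PvzlGt (pvkiT η) Subtype.val (pvkiS η) (p.comap (pvthInv w 1)) g) :
    w + pvvqCu p E ρ M (cfMap (pvthInv w 1) η) = ((g.vp : ↥(cfSites η)) : ℂ) -
      (pvtArc (pvkiT η) (pvkiS η) g.aIn g.len).psum (fun d => (pvthInv w 1 ⁻¹' M).indicator 1 ((pvkiT η).bary Subtype.val d) * (pvkiT η).side Subtype.val d) := by
  obtain ⟨zi, hzi⟩ := pvvq_far H w
  have hT : (pvkiT η).IsSph := delb_plane_isSph hη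
  have hm' : PvtrMesh (ρ * ‖(1 : ℂ)‖) (pvthInv w 1 ⁻¹' E) (cfSites η) := by rw [norm_one, mul_one]; exact hm
  have hdis : Disjoint (p.comap (pvthInv w 1)).Km (p.comap (pvthInv w 1)).Kp := H.dis.preimage _
  have hu : ∀ g₂, PvzlGt (pvkiT η) Subtype.val (pvkiS η) (p.comap (pvthInv w 1)) g₂ → g₂ = g := fun g₂ h₂ => by
    obtain ⟨a, b, c⟩ := h₂.unique hT hdis hg
    exact pvkx_gate_ext a b c
  have r2 := ((pvvq_rep2 H).placed w one_ne_zero).plane hη hf hm' hzi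
  have r1 := ((pvvq_rep1 H).placed w one_ne_zero).plane hη hf hm' hzi
  rw [pvzn_pl_congr (θ' := id) (Ψ' := pvvqVp (p.comap (pvthInv w 1))) _ η fun e => by
    have := pvvq_Vp_comap (T := pvkiT η) (mk := Subtype.val) (s := pvkiS η) (pvznV5 p ∘ pvthInv w 1) (p := pvznB5) (e := e)
    rw [pvvq_comap_frame] at this
    exact this.symm] at r2
  rw [pvzn_pl_congr (θ' := id) (Ψ' := pvznTi (p.comap (pvthInv w 1))) _ η fun e => by
    have := pvkk_Ti (T := pvkiT η) (mk := Subtype.val) (s := pvkiS η) (pvznV5 p ∘ pvthInv w 1) (p := pvznB5) (e := e)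
    rw [pvvq_comap_frame] at this
    exact this.symm] at r1
  have s2 : pvzfPl id (pvvqVp (p.comap (pvthInv w 1))) ((fun t : ℂ × ℂ × ℂ => t.1) ∘ pvzfMap3 (pvthInv w 1)) η = ((g.vp : ↥(cfSites η)) : ℂ) - w := by
    unfold pvzfPl
    have e : pvzfPlS id (pvvqVp (p.comap (pvthInv w 1))) η = {g.bIn} := pvvq_Vp_set hT hdis hg
    rw [e, finsum_mem_singleton]
    show pvthInv w 1 (((pvkiT η).src g.bIn : ↥(cfSites η)) : ℂ) = _
    unfold pvthInv
    rw [div_one]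
    rfl
  have s1 : pvzfPl id (pvznTi (p.comap (pvthInv w 1))) (pvvqW M ∘ pvzfMap3 (pvthInv w 1)) η =
      (pvtArc (pvkiT η) (pvkiS η) g.aIn g.len).psum (fun d => (pvthInv w 1 ⁻¹' M).indicator 1 ((pvkiT η).bary Subtype.val d) * (pvkiT η).side Subtype.val d) := by
    unfold pvzfPl
    have e : pvzfPlS id (pvznTi (p.comap (pvthInv w 1))) η = {d | PvzlArc (pvkiT η) (pvkiS η) g.aIn g.len d} := pvkx_Ti_set hT hu hg
    rw [e, ← pvkx_arc_sum]
    refine finsum_mem_congr rfl fun d _ => ?_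
    show pvvqW M (pvzfMap3 (pvthInv w 1) (pvzfPlPos (cfSites η) d)) = _
    rw [pvvq_W_frame]
    rfl
  unfold pvvqCu
  rw [r2, r1, s2, s1]
  ring

/-- the frame of 58 (`pvydE true w`, inverse) is the frame of the kit -/
theorem pvvq_frame_eq (w : ℂ) (η : Conf PvPt) : Conf.image (fun q : PvPt => (q.1 - w, q.2 == true)) η = cfMap (pvthInv w 1) η := by
  unfold cfMap
  congr 1
  funext q
  refine Prod.ext ?_ ?_
  · show q.1 - w = (q.1 - w) / 1
    rw [div_one]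
  · show (q.2 == true) = q.2
    cases q.2 <;> rfl

theorem pvvq_inv_id : pvthInv 0 1 = id := by
  funext x
  unfold pvthInv
  simp

theorem pvvq_map_id (η : Conf PvPt) : cfMap (pvthInv 0 1) η = η := by
  rw [pvvq_inv_id]
  unfold cfMap Conf.image
  rw [Prod.map_id, image_id]

/-- the plane reading in the reference frame -/
theorem pvvq_cu_plane0 (H : PvvqOk p E ρ M) {η : Conf PvPt} (hη : DelGood (cfSites η)) (hf : PvtnFin E η)
    (hm : PvtrMesh ρ E (cfSites η)) {g : (pvkiT η).Gate (pvkiS η)} (hg : PvzlGt (pvkiT η) Subtype.val (pvkiS η) p g) :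
    pvvqCu p E ρ M η = ((g.vp : ↥(cfSites η)) : ℂ) -
      (pvtArc (pvkiT η) (pvkiS η) g.aIn g.len).psum (fun d => M.indicator 1 ((pvkiT η).bary Subtype.val d) * (pvkiT η).side Subtype.val d) := by
  have key := pvvq_cu_plane H 0 (η := η) hη (by rw [pvvq_inv_id]; exact hf) (by rw [pvvq_inv_id]; exact hm) (g := g) (by rw [pvvq_inv_id]; exact hg)
  rw [pvvq_map_id, zero_add, pvvq_inv_id] at key
  exact key

end frame

/-! ## 4. the cut point of a kit plug is integrable over the usable states -/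

section int

variable {p : PvzlPg ℂ} {E M : Set ℂ} {ρ : ℝ}

/-- the vertices of the inner arc of the gate of record lie in the tube -/
theorem pvvq_arc_tube {κ V D : Type} [DecidableEq V] {T : PvMap V D} {mk : V → κ} {s : V → Bool} (hT : T.IsSph) {P : PvzlPg κ} {g : T.Gate s} (hg : PvzlGt T mk s P g)
    {i : ℕ} (hi : i ≤ (pvtArc T s g.aIn g.len).n) : mk ((pvtArc T s g.aIn g.len).v i) ∈ P.KT := by
  obtain ⟨N, hN⟩ := hg.thru
  have e := (hN.len hT).1
  have h1 := pvt_sf_arc_verts s g.aIn g.len ⟨i, hi, rfl⟩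
  have h2 := hN.2.2.2.2
  rw [pvas_fc_verts s g.aIn hN.1, ← e] at h2
  exact h2 (Or.inl h1)

/-- a path of the plane map whose vertices lie in `E` has at most as many vertices as there are points in `E` -/
theorem pvvq_count {η : Conf PvPt} (q : (pvkiT η).Pth) (hq : ∀ i, i ≤ q.n → ((q.v i : ↥(cfSites η)) : ℂ) ∈ E) :
    ((q.n + 1 : ℕ) : ℝ≥0∞) ≤ ∑' _ : ↥(η.pts ∩ E ×ˢ (univ : Set Bool)), (1 : ℝ≥0∞) := by
  classical
  have hex : ∀ i, ∃ r : PvPt, r ∈ η.pts ∧ r.1 = ((q.v i : ↥(cfSites η)) : ℂ) := fun i => (q.v i).2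
  choose r hr1 hr2 using hex
  let f : ↥(Finset.range (q.n + 1)) → ↥(η.pts ∩ E ×ˢ (univ : Set Bool)) := fun i =>
    ⟨r i.1, hr1 i.1, by rw [hr2]; exact hq i.1 (by have := Finset.mem_range.1 i.2; omega), mem_univ _⟩
  have hinj : Function.Injective f := by
    intro i j hij
    have h1 : r i.1 = r j.1 := congrArg Subtype.val hij
    have h2 : q.v i.1 = q.v j.1 := Subtype.ext (by rw [← hr2, ← hr2, h1])
    exact Subtype.ext (q.inj _ _ (by have := Finset.mem_range.1 i.2; omega) (by have := Finset.mem_range.1 j.2; omega) h2)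
  have h3 := ENNReal.sum_le_tsum (f := fun _ : ↥(η.pts ∩ E ×ˢ (univ : Set Bool)) => (1 : ℝ≥0∞)) (Finset.univ.map ⟨f, hinj⟩)
  rw [Finset.sum_const, Finset.card_map, Finset.card_univ, Fintype.card_coe, Finset.card_range, nsmul_eq_mul, mul_one] at h3
  exact h3

/-- **the deterministic bound**: on the guard, when the gate of record exists -/
theorem pvvq_cu_le (H : PvvqOk p E ρ M) {R : ℝ} (hR : E ⊆ closedBall 0 R) {η : Conf PvPt} (hη : DelGood (cfSites η)) (hf : PvtnFin E η)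
    (hm : PvtrMesh ρ E (cfSites η)) (hC : pvzlC p _ _ (pvkiT η) Subtype.val (pvkiS η)) :
    ‖pvvqCu p E ρ M η‖ₑ ≤ ENNReal.ofReal (2 * R) * ∑' _ : ↥(η.pts ∩ E ×ˢ (univ : Set Bool)), (1 : ℝ≥0∞) := by
  obtain ⟨g, hg⟩ := hC
  have hT : (pvkiT η).IsSph := delb_plane_isSph hη
  have hsub : pvznRd p ⊆ E := H.core.trans (pvzn_core_sub H.ρ0)
  set q := pvtArc (pvkiT η) (pvkiS η) g.aIn g.len with hq
  have hv : ∀ i, i ≤ q.n → ((q.v i : ↥(cfSites η)) : ℂ) ∈ E := fun i hi => hsub (Or.inr (pvvq_arc_tube hT hg hi))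
  have hn : ∀ i, i ≤ q.n → ‖((q.v i : ↥(cfSites η)) : ℂ)‖ ≤ R := fun i hi => mem_closedBall_zero_iff.1 (hR (hv i hi))
  have hvp : ‖((g.vp : ↥(cfSites η)) : ℂ)‖ ≤ R := mem_closedBall_zero_iff.1 (hR (hsub (Or.inl (Or.inr (hg.least.reg.rim g.m)))))
  have hR0 : 0 ≤ R := (norm_nonneg _).trans hvp
  have hs : ‖q.psum (fun d => M.indicator 1 ((pvkiT η).bary Subtype.val d) * (pvkiT η).side Subtype.val d)‖ ≤ q.n * (2 * R) := by
    unfold PvMap.Pth.psum
    refine (norm_sum_le _ _).trans ?_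
    refine (Finset.sum_le_card_nsmul _ _ (2 * R) fun i hi => ?_).trans (by rw [Finset.card_range, nsmul_eq_mul])
    have hi' := Finset.mem_range.1 hi
    rw [norm_mul, pvdc_side_opp, q.tgt_e i hi', q.src_e i hi']
    have h1 : ‖M.indicator (1 : ℂ → ℂ) ((pvkiT η).bary Subtype.val ((pvkiT η).opp (q.e i)))‖ ≤ 1 := by
      by_cases hb : (pvkiT η).bary Subtype.val ((pvkiT η).opp (q.e i)) ∈ M
      · rw [indicator_of_mem hb]; simp
      · rw [indicator_of_notMem hb]; simp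
    have h2 : ‖((q.v (i + 1) : ↥(cfSites η)) : ℂ) - ((q.v i : ↥(cfSites η)) : ℂ)‖ ≤ 2 * R := by
      refine (norm_sub_le _ _).trans ?_
      have := hn (i + 1) hi'
      have := hn i hi'.le
      linarith
    calc _ ≤ 1 * (2 * R) := mul_le_mul h1 h2 (norm_nonneg _) zero_le_one
      _ = 2 * R := one_mul _
  have hb : ‖pvvqCu p E ρ M η‖ ≤ 2 * R * ((q.n + 1 : ℕ) : ℝ) := by
    rw [pvvq_cu_plane0 H hη hf hm hg]
    refine (norm_sub_le _ _).trans ?_
    push_cast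
    nlinarith
  calc ‖pvvqCu p E ρ M η‖ₑ = ENNReal.ofReal ‖pvvqCu p E ρ M η‖ := (ofReal_norm _).symm
    _ ≤ ENNReal.ofReal (2 * R * ((q.n + 1 : ℕ) : ℝ)) := ENNReal.ofReal_le_ofReal hb
    _ = ENNReal.ofReal (2 * R) * ((q.n + 1 : ℕ) : ℝ≥0∞) := by rw [ENNReal.ofReal_mul (by positivity), ENNReal.ofReal_natCast]
    _ ≤ _ := mul_le_mul_right (pvvq_count q hv) _

/-- **the cut point has a finite mean over every event which forces the guard and the gate of record** (Campbell) -/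
theorem pvvq_cu_lint (H : PvvqOk p E ρ M) (ε : ℝ) {G : Set (Conf PvPt)} (mG : NullMeasurableSet G (pvP ε))
    (hG : ∀ᵐ η ∂(pvP ε), η ∈ G → η ∈ pvznN ρ E ∧ pvzlC p _ _ (pvkiT η) Subtype.val (pvkiS η)) :
    ∫⁻ η in G, ‖pvvqCu p E ρ M η‖ₑ ∂(pvP ε) ≠ ∞ := by
  obtain ⟨R, hR⟩ := H.bdd.subset_closedBall 0
  have := pvc_int_sf ε
  have hB : MeasurableSet (E ×ˢ (univ : Set Bool)) := H.win.1.prod MeasurableSet.univ
  have h1 : ∫⁻ η in G, ‖pvvqCu p E ρ M η‖ₑ ∂(pvP ε) ≤ ∫⁻ η in G, ENNReal.ofReal (2 * R) * ∑' _ : ↥(η.pts ∩ E ×ˢ (univ : Set Bool)), (1 : ℝ≥0∞) ∂(pvP ε) := by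
    refine lintegral_mono_ae ((ae_restrict_iff'₀ mG).2 ?_)
    filter_upwards [hG] with η hη hηG
    obtain ⟨a, b⟩ := hη hηG
    exact pvvq_cu_le H hR a.1.good (pvzn_fin a.1 H.bdd) a.2 b
  have h2 : ∫⁻ η, ENNReal.ofReal (2 * R) * ∑' _ : ↥(η.pts ∩ E ×ˢ (univ : Set Bool)), (1 : ℝ≥0∞) ∂(pvP ε) = ENNReal.ofReal (2 * R) * pvInt ε (E ×ˢ (univ : Set Bool)) := by
    rw [lintegral_const_mul' _ _ ENNReal.ofReal_ne_top, pvc_campbell_sf (pv_isPpp ε) hB (g := fun _ => (1 : ℝ≥0∞)) measurable_const, setLIntegral_one]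
  refine ne_top_of_le_ne_top ?_ (h1.trans ((setLIntegral_le_lintegral _ _).trans h2.le))
  rw [delgd_int_prod]
  exact ENNReal.mul_ne_top ENNReal.ofReal_ne_top (ENNReal.mul_ne_top ENNReal.ofReal_ne_top (ENNReal.mul_ne_top H.bdd.measure_lt_top.ne (measure_ne_top _ _)))

/-- **field `iCu`, reference frame**: the density is `PvsySec.g` of the sector of the plug (`rfl`) -/
theorem pvvq_cu_integrable (H : PvvqOk p E ρ M) (ε : ℝ) {G : Set (Conf PvPt)} (mG : NullMeasurableSet G (pvP ε)) (h0 : pvP ε G ≠ 0)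
    (hG : ∀ᵐ η ∂(pvP ε), η ∈ G → η ∈ pvznN ρ E ∧ pvzlC p _ _ (pvkiT η) Subtype.val (pvkiS η)) :
    Integrable (pvvqCu p E ρ M) ((pvP ε).withDensity fun η => G.indicator 1 η / pvP ε G) := by
  have hm := pvvq_cu_meas H
  have hd : AEMeasurable (fun η => G.indicator (1 : Conf PvPt → ℝ≥0∞) η / pvP ε G) (pvP ε) := (aemeasurable_const.indicator₀ mG).div_const _
  refine ⟨hm.aestronglyMeasurable, ?_⟩
  show ∫⁻ η, ‖pvvqCu p E ρ M η‖ₑ ∂((pvP ε).withDensity fun η => G.indicator 1 η / pvP ε G) < ∞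
  rw [lintegral_withDensity_eq_lintegral_mul₀ hd hm.enorm.aemeasurable]
  have e : ∫⁻ η, ((fun η => G.indicator (1 : Conf PvPt → ℝ≥0∞) η / pvP ε G) * fun η => ‖pvvqCu p E ρ M η‖ₑ) η ∂(pvP ε)
      = (pvP ε G)⁻¹ * ∫⁻ η in G, ‖pvvqCu p E ρ M η‖ₑ ∂(pvP ε) := by
    rw [← lintegral_indicator₀ mG, ← lintegral_const_mul' _ _ (ENNReal.inv_ne_top.2 h0)]
    refine lintegral_congr fun η => ?_
    by_cases hη : η ∈ G
    · simp only [Pi.mul_apply, indicator_of_mem hη, Pi.one_apply, one_div]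
    · simp only [Pi.mul_apply, indicator_of_notMem hη, ENNReal.zero_div, zero_mul, mul_zero]
  rw [e]
  exact ENNReal.mul_lt_top (ENNReal.inv_ne_top.2 h0).lt_top (pvvq_cu_lint H ε mG hG).lt_top

end int

end Claimed.Agent.R289
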