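-- KEEP
import Claimed.Agent.R289.Tr.EndP
import Claimed.Agent.R289.Tr.PlugFrcR
import Claimed.Agent.R289.Tr.BuNum
import Claimed.Agent.R289.Tr.FrcM
import Claimed.Agent.R289.Tr.KitDict

/-!
# Row 289 (S0537), THE WALL, ROAD P, file Tr/KitEnd : THE KIT ENDS `en` / `eu` OF `PvydGeo` (58, `Exit/DatP.lean`)      (pen helper291, second helper31; post of 273 12:18Z; prefix `pvye_`, defs `pvye*`, `Pvye*`)

CONSUMERS: `PvydGeo.KitOk` (`en_ok eu_ok mOu mGu rGu`; 58), `PvndKitUp` (`en_up en_prop eu_up eu_prop r_prop r_prop'`; 272, `Tr/EndP.lean`), admission of the reference plug (`adm` of `PvydAll`).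
INPUT = THE UNIT RECORD OF THE CELL KIT AS IT STANDS ON ROAD E: `I : PvjoIn` of 52 (`Tr/PlugFrcR.lean`): the two ends `ep em : PvnkEnd` of THE plug (reference frame, unit cell, black), `PvnkEnd.Ok`, `PvjoMono` (producer 174, `Tr/FrcM.lean`),
  the unit kit `(𝔤.glob I.Hf).kit (pvP e) b q` of 34 (`Hf 0 = Hf 1 = ep.L`, `Hf 2 = Hf 3 = em.L`: the usable states have propensity `≥ b` for the JOINT side events BY DEFINITION).
* sec. 1  SIMILARITIES `w ↦ z + a w`, `a ≠ 0` (frame + DILATION in one step): `pvye_reg_inv`, **`pvye_at_ok`** (52's `pvjo_at_ok` without `‖d‖ = 1`).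
* sec. 2  COLOUR FRAMES: `pvyeFl c e`, points / sites / niceness / regions / colours under `pvydFl c`, **`pvye_fl_ok`**, **`pvye_fl_mono`**.
* sec. 3  **THE KIT END `pvyeEnd e c z a := pvyeFl c (pvjoAt e z a)`** : `pvye_end_ok`, `pvye_end_mono`, **`pvye_end_upOk`**, **`pvye_end_prop`** (covariance of the propensity: mesh `‖a‖ ε` ⟷ mesh `ε`).
* sec. 4  THE UNIT DATUM `PvyeUnit`, `PvyeUnit.Ok`.
* sec. 5  AT THE DATA OF 58: `PvyeIs 𝔤 U δ su` (five equations, `rfl` for whoever builds `𝔤`):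
            `kit m ε = (U.kit (ε / δ m)).sc (δ m)`, `Ou m = su m • O₀`, `Gu m ε = (U.kit (ε / su m)).G 0 (su m)`, `en m c σ z d = pvyeEnd (U.sd σ) c z (d * δ m)`, `eu m c σ w = pvyeEnd (U.sd σ) c w (su m)`;
          `pvye_eD`, `pvye_eU`, **`pvye_en_ok` `pvye_eu_ok` `pvye_en_up` `pvye_eu_up` `pvye_en_prop` `pvye_eu_prop`**, `pvye_mOu pvye_mGu pvye_rGu`, **`pvye_adm`**, **`pvye_kitUp : … → PvndKitUp 𝔤 𝔓 m U.b.toReal U.b.toReal n`**.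
* sec. 6  the unit datum over the record `PvjoIn` of 52: `pvyeU 𝔤 I b q`, `pvye_U_ok`.
* sec. 7  **THE UNIT DATUM OF RECORD** over the side events `pvhfS` and the ends `pvhfEnd` of 174 (`Tr/FrcM.lean` sec. 5): `pvyeE0 𝔭 𝔱 O σ` (rooms `A β = cthickening ρ (Ln σ β)`, starts `X β = ball 0 b ∩ Ln σ β`, doors `Y β = Dr σ β`),
          `pvyeV 𝔤 𝔱 b q`, **`pvye_V_ok : PvhfGeo 𝔤.toPvkdPlug 𝔱 → MeasurableSet 𝔤.O₀ → 𝔤.Ew ⊆ 𝔤.O₀ → b ≠ 0 → b ≠ ∞ → (pvyeV 𝔤 𝔱 b q).Ok`** : NO MODEL INPUT IS LEFT.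
* sec. 8  **THE STARTING SITES ARE THE FEET OF THE GATE OF RECORD OF `η` ITSELF** (vocabulary of 244, `Tr/KitDict.lean`): `pvye_foot_gate`, **`pvye_ft_dict`**, `pvye_V_S₁`, `pvye_V_S₂` (door plugs and reference plug), `pvye_V_site`.
-/

set_option autoImplicit false
set_option linter.unusedSectionVars false
set_option linter.unusedVariables false

namespace Claimed.Agent.R289

open MeasureTheory ProbabilityTheory Set Filter Topology Metric Claims.C0465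
open scoped ENNReal NNReal

/-! ## 1. similarities -/

section sim

variable {z d : ℂ}

/-- the region of a colour under a similarity -/
theorem pvye_reg_inv (hd : d ≠ 0) (c : Bool) (η : Conf PvPt) (w : ℂ) : w ∈ pvlnReg c (cfMap (pvthInv z d) η) ↔ pvthSim z d w ∈ pvlnReg c η := by
  have hn : ∀ u v : ℂ, ‖pvthSim z d u - pvthSim z d v‖ = ‖d‖ * ‖u - v‖ := fun u v => by
    have : pvthSim z d u - pvthSim z d v = d * (u - v) := by unfold pvthSim; ring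
    rw [this, norm_mul]
  have hle : ∀ u v v' : ℂ, ‖pvthSim z d u - pvthSim z d v‖ ≤ ‖pvthSim z d u - pvthSim z d v'‖ ↔ ‖u - v‖ ≤ ‖u - v'‖ := fun u v v' => by
    rw [hn, hn]
    exact mul_le_mul_iff_right₀ (norm_pos_iff.2 hd)
  have hm : ∀ (b : Bool) (v : ℂ), (v, b) ∈ (cfMap (pvthInv z d) η).pts ↔ (pvthSim z d v, b) ∈ η.pts := by
    intro b v
    constructor
    · rintro ⟨p, hp, e⟩
      have e1 : pvthInv z d p.1 = v := congrArg Prod.fst e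
      have e2 : p.2 = b := congrArg Prod.snd e
      rw [← e1, pvjo_sim_inv hd, ← e2]
      exact hp
    · intro h
      exact ⟨_, h, Prod.ext (pvjo_inv_sim hd v) rfl⟩
  have key : ∀ b : Bool, w ∈ pvrbM {v | (v, b) ∈ (cfMap (pvthInv z d) η).pts} {v | (v, !b) ∈ (cfMap (pvthInv z d) η).pts} ↔
      pvthSim z d w ∈ pvrbM {v | (v, b) ∈ η.pts} {v | (v, !b) ∈ η.pts} := by
    intro b
    constructor
    · rintro ⟨a, ha, h⟩
      refine ⟨pvthSim z d a, (hm b a).1 ha, fun v hv => ?_⟩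
      have h1 := h (pvthInv z d v) ((hm (!b) _).2 (by rw [pvjo_sim_inv hd]; exact hv))
      have h2 := (hle w a (pvthInv z d v)).2 h1
      rwa [pvjo_sim_inv hd] at h2
    · rintro ⟨a, ha, h⟩
      refine ⟨pvthInv z d a, (hm b _).2 (by rw [pvjo_sim_inv hd]; exact ha), fun v hv => ?_⟩
      have h1 := h (pvthSim z d v) ((hm (!b) v).1 hv)
      refine (hle w (pvthInv z d a) v).1 ?_
      rwa [pvjo_sim_inv hd]
  cases c
  · exact key false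
  · exact key true

/-- **an end carried by a similarity is well formed** -/
theorem pvye_at_ok {e : PvnkEnd} (h : e.Ok) (z : ℂ) {d : ℂ} (hd : d ≠ 0) : (pvjoAt e z d).Ok where
  mO := pvjo_at_meas hd h.mO
  mE := pvjo_at_meas hd h.mE
  mL := measurable_cfMap (pvth_measurable_inv z d) h.mL
  rL := pvjo_reads_at hd h.rL
  path₁ η hη hn := by
    obtain ⟨x, hx, y, hy, hxX, hxy⟩ := h.path₁ _ hη (pvjo_ok_inv hd hn)
    refine ⟨pvthSim z d x, ⟨x, hx, rfl⟩, pvthSim z d y, ⟨y, hy, rfl⟩, ⟨x, hxX, rfl⟩, pvjo_joined_sim (fun w hw => ?_) hxy⟩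
    exact ⟨(pvye_reg_inv hd _ η w).1 hw.1, ⟨w, hw.2, rfl⟩⟩
  path₂ η hη hn := by
    obtain ⟨x, hx, y, hy, hxX, hxy⟩ := h.path₂ _ hη (pvjo_ok_inv hd hn)
    refine ⟨pvthSim z d x, ⟨x, hx, rfl⟩, pvthSim z d y, ⟨y, hy, rfl⟩, ⟨x, hxX, rfl⟩, pvjo_joined_sim (fun w hw => ?_) hxy⟩
    exact ⟨(pvye_reg_inv hd _ η w).1 hw.1, ⟨w, hw.2, rfl⟩⟩

/-- a planar region carried by the lift of a similarity -/
theorem pvye_aff_image (z : ℂ) {a : ℂ} (ha : a ≠ 0) (S : Set ℂ) : pvciAff a z ha '' (S ×ˢ (univ : Set Bool)) = pvkdAt z a S ×ˢ univ := by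
  have h := pvth_reg_image S z a 0 1 ha
  rw [pvth_sim_id, image_id, mul_zero, add_zero, mul_one] at h
  exact h

end sim

/-! ## 2. colour frames -/

/-- **an end seen in the colour frame `c`** (the colour `c` is called black) -/
def pvyeFl (c : Bool) (e : PvnkEnd) : PvnkEnd :=
  { e with
    L := pvydFl c ⁻¹' e.L
    c := (e.c == c)
    S₁ := fun η => e.S₁ (pvydFl c η)
    S₂ := fun η => e.S₂ (pvydFl c η) }

theorem pvye_eqns_cite : True := by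
  have := @pvyeFl.eq_1
  trivial

section colour

variable (c : Bool) {η η' : Conf PvPt}

theorem pvye_mem_fl (η : Conf PvPt) (x : ℂ) (β : Bool) : (x, β) ∈ (pvydFl c η).pts ↔ (x, β == c) ∈ η.pts := by
  constructor
  · rintro ⟨p, hp, e⟩
    have e1 : p.1 = x := congrArg Prod.fst e
    have e2 : (p.2 == c) = β := congrArg Prod.snd e
    have e3 : (β == c) = p.2 := by
      rw [← e2]
      cases p.2 <;> cases c <;> rfl
    rw [← e1, e3]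
    exact hp
  · intro h
    refine ⟨_, h, Prod.ext rfl ?_⟩
    show ((β == c) == c) = β
    cases β <;> cases c <;> rfl

theorem pvye_sites_fl (η : Conf PvPt) : cfSites (pvydFl c η) = cfSites η := by
  ext x
  constructor
  · rintro ⟨⟨y, β⟩, hp, rfl⟩
    exact ⟨_, (pvye_mem_fl c η y β).1 hp, rfl⟩
  · rintro ⟨⟨y, β⟩, hp, rfl⟩
    refine ⟨(y, β == c), (pvye_mem_fl c η y _).2 ?_, rfl⟩
    have : ((β == c) == c) = β := by cases β <;> cases c <;> rfl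
    rw [this]
    exact hp

theorem pvye_ok_fl (h : CfOK η) : CfOK (pvydFl c η) := by
  refine ⟨by rw [pvye_sites_fl]; exact h.del, ?_⟩
  rintro ⟨x, β⟩ hp ⟨y, β'⟩ hq e
  have e' : x = y := e
  subst e'
  have := h.col _ ((pvye_mem_fl c η x β).1 hp) _ ((pvye_mem_fl c η x β').1 hq) rfl
  have e2 : (β == c) = (β' == c) := congrArg Prod.snd this
  have e3 : β = β' := by
    revert e2
    cases β <;> cases β' <;> cases c <;> simp
  rw [e3]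

/-- the region of the colour `β` in the colour frame `c` -/
theorem pvye_reg_fl (β : Bool) (η : Conf PvPt) : pvlnReg β (pvydFl c η) = pvlnReg (β == c) η := by
  have hB : ∀ β : Bool, {v | (v, β) ∈ (pvydFl c η).pts} = {v | (v, β == c) ∈ η.pts} := fun β => by
    ext v
    exact pvye_mem_fl c η v β
  have key : ∀ β : Bool, pvlnReg β η = pvrbM {v | (v, β) ∈ η.pts} {v | (v, !β) ∈ η.pts} := fun β => by
    cases β <;> rfl
  have key' : ∀ β : Bool, pvlnReg β (pvydFl c η) = pvrbM {v | (v, β) ∈ (pvydFl c η).pts} {v | (v, !β) ∈ (pvydFl c η).pts} := fun β => by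
    cases β <;> rfl
  rw [key', key, hB, hB]
  have : ((!β) == c) = !(β == c) := by cases β <;> cases c <;> rfl
  rw [this]

theorem pvye_col_off {a : ℂ} (ha : a ∉ cfSites η) : cfCol η a = false := by
  classical
  unfold cfCol
  exact decide_eq_false fun h => ha ⟨_, h, rfl⟩

/-- the colour of a site of a nice configuration -/
theorem pvye_col_iff (h : CfOK η) {a : ℂ} (ha : a ∈ cfSites η) (β : Bool) : cfCol η a = β ↔ (a, β) ∈ η.pts := by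
  obtain ⟨⟨x, γ⟩, hp, rfl⟩ := ha
  have h1 : ∀ β : Bool, (x, β) ∈ η.pts → β = γ := fun β hβ => congrArg Prod.snd (h.col _ hβ _ hp rfl)
  classical
  unfold cfCol
  cases β
  · rw [decide_eq_false_iff_not]
    constructor
    · intro hn
      cases γ
      · exact hp
      · exact absurd hp hn
    · intro hf ht
      have := (h1 _ hf).trans (h1 _ ht).symm
      exact Bool.false_ne_true this
  · rw [decide_eq_true_iff]

/-- the colours in the colour frame `c` -/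
theorem pvye_col_fl (h : CfOK η) {a : ℂ} (ha : a ∈ cfSites η) : cfCol (pvydFl c η) a = (cfCol η a == c) := by
  rw [pvye_col_iff (pvye_ok_fl c h) (by rw [pvye_sites_fl]; exact ha), pvye_mem_fl]
  have : ((cfCol η a == c) == c) = cfCol η a := by cases cfCol η a <;> cases c <;> rfl
  rw [this]
  exact (pvye_col_iff h ha _).1 rfl

theorem pvye_fl_reads {W : Set ℂ} {L : Set (Conf PvPt)} (h : Conf.ReadsSet (W ×ˢ univ) L) : Conf.ReadsSet (W ×ˢ univ) (pvydFl c ⁻¹' L) := by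
  have h1 : Conf.Reads (W ×ˢ (univ : Set Bool)) (fun η => η ∈ L) := fun η => propext (h η)
  have h2 := pvyd_reads_fl c (pvyd_cb_prod W) h1
  exact fun η => iff_of_eq (h2 η)

/-- **an end in a colour frame is well formed** -/
theorem pvye_fl_ok {e : PvnkEnd} (h : e.Ok) : (pvyeFl c e).Ok where
  mO := h.mO
  mE := h.mE
  mL := pvyd_fl_meas c h.mL
  rL := pvye_fl_reads c h.rL
  path₁ η hη hn := by
    obtain ⟨x, hx, y, hy, hxX, hxy⟩ := h.path₁ _ hη (pvye_ok_fl c hn)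
    rw [pvye_reg_fl] at hxy
    exact ⟨x, hx, y, hy, hxX, hxy⟩
  path₂ η hη hn := by
    obtain ⟨x, hx, y, hy, hxX, hxy⟩ := h.path₂ _ hη (pvye_ok_fl c hn)
    rw [pvye_reg_fl] at hxy
    have e1 : ((!e.c) == c) = !(e.c == c) := by cases e.c <;> cases c <;> rfl
    rw [e1] at hxy
    exact ⟨x, hx, y, hy, hxX, hxy⟩

/-- a recolouring seen in the colour frame -/
theorem pvye_rc_fl {b : Bool} {F Z₁ Z₂ : Set ℂ} (h : PvjoRc (b == c) F Z₁ Z₂ η η') : PvjoRc b F Z₁ Z₂ (pvydFl c η) (pvydFl c η') where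
  ok := pvye_ok_fl c h.ok
  ok' := pvye_ok_fl c h.ok'
  Y := by rw [pvye_sites_fl, pvye_sites_fl, h.Y]
  fz a ha := by
    by_cases hs : a ∈ cfSites η
    · rw [pvye_col_fl c h.ok hs, pvye_col_fl c h.ok' (by rw [h.Y]; exact hs), h.fz a ha]
    · rw [pvye_col_off (by rw [pvye_sites_fl, h.Y]; exact hs), pvye_col_off (by rw [pvye_sites_fl]; exact hs)]
  k₁ a ha hs := by
    rw [pvye_sites_fl] at hs
    rw [pvye_col_fl c h.ok hs, pvye_col_fl c h.ok' (by rw [h.Y]; exact hs)]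
    intro e1
    have e2 : cfCol η a = (b == c) := by
      rw [← e1]
      cases cfCol η a <;> cases c <;> rfl
    rw [h.k₁ a ha hs e2]
    cases b <;> cases c <;> rfl
  k₂ a ha hs := by
    rw [pvye_sites_fl] at hs
    rw [pvye_col_fl c h.ok hs, pvye_col_fl c h.ok' (by rw [h.Y]; exact hs)]
    intro e1
    have e2 : cfCol η a = !(b == c) := by
      have : cfCol η a = ((cfCol η a == c) == c) := by cases cfCol η a <;> cases c <;> rfl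
      rw [this, e1]
      cases b <;> cases c <;> rfl
    rw [h.k₂ a ha hs e2]
    cases b <;> cases c <;> rfl

/-- **monotonicity under recolourings in a colour frame** -/
theorem pvye_fl_mono {L : Set (Conf PvPt)} {b : Bool} {F Z₁ Z₂ : Set ℂ} (h : PvjoMono L b F Z₁ Z₂) : PvjoMono (pvydFl c ⁻¹' L) (b == c) F Z₁ Z₂ :=
  fun η η' hr hη => h _ _ (pvye_rc_fl c hr) hη

end colour

/-! ## 3. the kit end -/

/-- **THE KIT END**: the unit end `e` carried by the similarity `w ↦ z + a w`, in the colour frame `c` -/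
noncomputable def pvyeEnd (e : PvnkEnd) (c : Bool) (z a : ℂ) : PvnkEnd := pvyeFl c (pvjoAt e z a)

theorem pvye_eqns_cite2 : True := by
  have := @pvyeEnd.eq_1
  trivial

section kitend

variable {e : PvnkEnd} {Z₁ Z₂ : Set ℂ} (c : Bool) (z : ℂ) {a : ℂ}

theorem pvye_end_O (e : PvnkEnd) (c : Bool) (z a : ℂ) : (pvyeEnd e c z a).O = pvkdAt z a e.O := rfl
theorem pvye_end_E (e : PvnkEnd) (c : Bool) (z a : ℂ) : (pvyeEnd e c z a).E = pvkdAt z a e.E := rfl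
theorem pvye_end_L (e : PvnkEnd) (c : Bool) (z a : ℂ) : (pvyeEnd e c z a).L = pvydFl c ⁻¹' (cfMap (pvthInv z a) ⁻¹' e.L) := rfl
theorem pvye_end_c (e : PvnkEnd) (c : Bool) (z a : ℂ) : (pvyeEnd e c z a).c = (e.c == c) := rfl
theorem pvye_end_A₁ (e : PvnkEnd) (c : Bool) (z a : ℂ) : (pvyeEnd e c z a).A₁ = pvkdAt z a e.A₁ := rfl
theorem pvye_end_A₂ (e : PvnkEnd) (c : Bool) (z a : ℂ) : (pvyeEnd e c z a).A₂ = pvkdAt z a e.A₂ := rfl
theorem pvye_end_X₁ (e : PvnkEnd) (c : Bool) (z a : ℂ) : (pvyeEnd e c z a).X₁ = pvkdAt z a e.X₁ := rfl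
theorem pvye_end_X₂ (e : PvnkEnd) (c : Bool) (z a : ℂ) : (pvyeEnd e c z a).X₂ = pvkdAt z a e.X₂ := rfl
theorem pvye_end_Y₁ (e : PvnkEnd) (c : Bool) (z a : ℂ) : (pvyeEnd e c z a).Y₁ = pvkdAt z a e.Y₁ := rfl
theorem pvye_end_Y₂ (e : PvnkEnd) (c : Bool) (z a : ℂ) : (pvyeEnd e c z a).Y₂ = pvkdAt z a e.Y₂ := rfl
theorem pvye_end_S₁ (e : PvnkEnd) (c : Bool) (z a : ℂ) (η : Conf PvPt) : (pvyeEnd e c z a).S₁ η = pvkdAt z a (e.S₁ (cfMap (pvthInv z a) (pvydFl c η))) := rfl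
theorem pvye_end_S₂ (e : PvnkEnd) (c : Bool) (z a : ℂ) (η : Conf PvPt) : (pvyeEnd e c z a).S₂ η = pvkdAt z a (e.S₂ (cfMap (pvthInv z a) (pvydFl c η))) := rfl

/-- the colour of the kit end of a black unit end -/
theorem pvye_end_col (he : e.c = true) (c : Bool) (z a : ℂ) : (pvyeEnd e c z a).c = c := by
  rw [pvye_end_c, he]
  cases c <;> rfl

/-- **`PvnkEnd.Ok`** -/
theorem pvye_end_ok (h : e.Ok) (ha : a ≠ 0) : (pvyeEnd e c z a).Ok := pvye_fl_ok c (pvye_at_ok h z ha)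

/-- **monotonicity under recolourings** -/
theorem pvye_end_mono (h : PvjoMono e.L e.c e.O Z₁ Z₂) (ha : a ≠ 0) :
    PvjoMono (pvyeEnd e c z a).L (pvyeEnd e c z a).c (pvyeEnd e c z a).O (pvkdAt z a Z₁) (pvkdAt z a Z₂) := pvye_fl_mono c (pvjo_mono_at ha h)

/-- **`PvnkEnd.UpOk`**: up-ness at almost every frozen state in EVERY admissible mixed order -/
theorem pvye_end_upOk (hO : MeasurableSet e.O) (h : PvjoMono e.L e.c e.O Z₁ Z₂) (h₁ : Z₁ ⊆ e.O ∪ e.A₁) (h₂ : Z₂ ⊆ e.O ∪ e.A₂) (ha : a ≠ 0) {ε : ℝ} (hε : 0 < ε) :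
    (pvyeEnd e c z a).UpOk ε := by
  intro K₁ K₂ hd a1 a2
  have mO : MeasurableSet (pvyeEnd e c z a).O := pvjo_at_meas ha hO
  have s1 : pvkdAt z a Z₁ ⊆ (pvyeEnd e c z a).O ∪ K₁ := by
    refine (pvjo_at_mono h₁).trans ?_
    rw [pvjo_at_union]
    exact union_subset subset_union_left a1
  have s2 : pvkdAt z a Z₂ ⊆ (pvyeEnd e c z a).O ∪ K₂ := by
    refine (pvjo_at_mono h₂).trans ?_
    rw [pvjo_at_union]
    exact union_subset subset_union_left a2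
  filter_upwards [pvnk_rg_full hε mO] with σ hσ
  exact pvjo_up (pvye_end_mono c z h ha) hd s1 s2 hσ

/-- **COVARIANCE OF THE PROPENSITY**: the kit end at the mesh `‖a‖ ε` ⟷ the unit end at the mesh `ε` -/
theorem pvye_end_prop (e : PvnkEnd) (ha : a ≠ 0) (ε : ℝ) (ξ : Conf PvPt) :
    pvtiP (pvP (‖a‖ * ε)) ((pvyeEnd e c z a).O ×ˢ univ) (pvyeEnd e c z a).L ξ = pvtiP (pvP ε) (e.O ×ˢ univ) e.L (cfMap (pvthInv z a) (pvydFl c ξ)) := by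
  rw [pvye_end_L, pvye_end_O, pvyd_P_fl c _ (pvyd_cb_prod _)]
  have h := congrFun (pvci_P_aff a z ha ε (e.O ×ˢ univ) e.L) (pvydFl c ξ)
  rw [pvye_aff_image] at h
  exact h

end kitend

/-! ## 4. the unit datum -/

/-- **THE UNIT DATUM OF THE KIT ENDS**: the kit of the unit cell as a function of the mesh, the region of its plug, the two ends of THE plug (reference frame: door `0`, direction `1`, black), the zones of the recolourings, the threshold of the usable states -/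
structure PvyeUnit where
  /-- the kit of the unit cell at the mesh `e`   [34: `(𝔤.glob I.Hf).kit (pvP e) b q`] -/
  kit : ℝ → PvthKit
  /-- region of the plug -/
  O₀ : Set ℂ
  /-- the exit end, the entrance end   [174 52: `I.ep`, `I.em`] -/
  ep : PvnkEnd
  em : PvnkEnd
  /-- the zones of the recolourings -/
  Zp₁ : Set ℂ
  Zp₂ : Set ℂ
  Zm₁ : Set ℂ
  Zm₂ : Set ℂ
  /-- the threshold -/
  b : ℝ≥0∞

namespace PvyeUnit

variable (U : PvyeUnit)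

/-- the end of side `σ` (`true` = exit) -/
def sd (σ : Bool) : PvnkEnd := cond σ U.ep U.em
/-- the zone of the colour of the rim, side `σ` -/
def Z₁ (σ : Bool) : Set ℂ := cond σ U.Zp₁ U.Zm₁
/-- the zone of the other colour, side `σ` -/
def Z₂ (σ : Bool) : Set ℂ := cond σ U.Zp₂ U.Zm₂

/-- **WHAT THE UNIT DATUM OWES** -/
structure Ok : Prop where
  O_eq : ∀ e, (U.kit e).O₀ = U.O₀
  sdO : ∀ σ, (U.sd σ).O = U.O₀
  col : ∀ σ, (U.sd σ).c = true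
  ok : ∀ σ, (U.sd σ).Ok
  mono : ∀ σ, PvjoMono (U.sd σ).L (U.sd σ).c (U.sd σ).O (U.Z₁ σ) (U.Z₂ σ)
  /-- the zones lie in the frozen region and in the (thickened) rooms -/
  z₁ : ∀ σ, U.Z₁ σ ⊆ (U.sd σ).O ∪ (U.sd σ).A₁
  z₂ : ∀ σ, U.Z₂ σ ⊆ (U.sd σ).O ∪ (U.sd σ).A₂
  b0 : U.b ≠ 0
  bt : U.b ≠ ∞
  /-- the usable states have propensity `≥ b` for the two JOINT side events -/
  prop : ∀ (σ : Bool) (e : ℝ), ∀ ξ ∈ (U.kit e).G₀, U.b ≤ pvtiP (pvP e) (U.O₀ ×ˢ univ) (U.sd σ).L ξ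

end PvyeUnit

theorem pvye_eqns_cite3 : True := by
  have := @PvyeUnit.sd.eq_1; have := @PvyeUnit.Z₁.eq_1; have := @PvyeUnit.Z₂.eq_1
  trivial

theorem PvyeUnit.Ok.mO {U : PvyeUnit} (hU : U.Ok) : MeasurableSet U.O₀ := by
  rw [← hU.sdO true]
  exact (hU.ok true).mO

theorem PvyeUnit.Ok.b_pos {U : PvyeUnit} (hU : U.Ok) : 0 < U.b.toReal := ENNReal.toReal_pos hU.b0 hU.bt

/-! ## 5. at the data of 58 -/

/-- **`𝔤` CARRIES THE KIT ENDS OF THE UNIT DATUM `U`**: door plugs at the scale `δ m`, reference plug at the scale `su m` -/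
structure PvyeIs {τ : Type} (𝔤 : PvydGeo τ) (U : PvyeUnit) (δ su : ℕ → ℝ) : Prop where
  kit : ∀ m ε, 𝔤.kit m ε = (U.kit (ε / δ m)).sc (δ m)
  Ou : ∀ m, 𝔤.Ou m = pvthSim 0 (su m) '' U.O₀
  Gu : ∀ m ε, 𝔤.Gu m ε = (U.kit (ε / su m)).G 0 (su m)
  en : ∀ m c σ z d, 𝔤.en m c σ z d = pvyeEnd (U.sd σ) c z (d * δ m)
  eu : ∀ m c σ w, 𝔤.eu m c σ w = pvyeEnd (U.sd σ) c w (su m)

section data

variable {τ : Type} {cc : ℝ} {𝔤 : PvydGeo τ} {U : PvyeUnit} {δ su : ℕ → ℝ} {m : ℕ}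

/-- **the door ends of record** -/
theorem pvye_eD (H : PvyeIs 𝔤 U δ su) (hU : U.Ok) (c : Bool) (m : ℕ) (ε : ℝ) (σ : Bool) (z d : ℂ) : 𝔤.eD c m ε σ z d = pvyeEnd (U.sd σ) c z (d * δ m) := by
  have hO : pvthSim z d '' (𝔤.kit m ε).O₀ = (pvyeEnd (U.sd σ) c z (d * δ m)).O := by
    rw [H.kit, pvye_end_O, hU.sdO]
    show pvthSim z d '' (pvthSim 0 (δ m) '' (U.kit (ε / δ m)).O₀) = _
    rw [pvbe_sc_reg, hU.O_eq]
    rfl
  unfold PvydGeo.eD pvydEnd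
  rw [hO, H.en]

/-- **the ends of record of the reference plug** -/
theorem pvye_eU (H : PvyeIs 𝔤 U δ su) (hU : U.Ok) (c : Bool) (m : ℕ) (σ : Bool) (w : ℂ) : 𝔤.eU c m σ w = pvyeEnd (U.sd σ) c w (su m) := by
  have hO : pvthSim w 1 '' 𝔤.Ou m = (pvyeEnd (U.sd σ) c w (su m)).O := by
    rw [H.Ou, pvye_end_O, hU.sdO, pvbe_sc_reg, one_mul]
    rfl
  unfold PvydGeo.eU pvydEnd
  rw [hO, H.eu]

theorem pvye_a_ne {d : ℂ} (hd : ‖d‖ = 1) {s : ℝ} (hs : 0 < s) : d * (s : ℂ) ≠ 0 := mul_ne_zero (pvth_ne_zero hd) (pvbe_sc_ne hs)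

theorem pvye_a_norm {d : ℂ} (hd : ‖d‖ = 1) {s : ℝ} (hs : 0 < s) (ε : ℝ) : ‖d * (s : ℂ)‖ * (ε / s) = ε := by
  rw [norm_mul, hd, one_mul, Complex.norm_real, Real.norm_eq_abs, abs_of_pos hs]
  field_simp

theorem pvye_s_norm {s : ℝ} (hs : 0 < s) (ε : ℝ) : ‖(s : ℂ)‖ * (ε / s) = ε := by
  rw [Complex.norm_real, Real.norm_eq_abs, abs_of_pos hs]
  field_simp

/-- **`en_ok`** -/
theorem pvye_en_ok (H : PvyeIs 𝔤 U δ su) (hU : U.Ok) (hδ : 0 < δ m) (c σ : Bool) (z : ℂ) {d : ℂ} (hd : ‖d‖ = 1) (ε : ℝ) : (𝔤.eD c m ε σ z d).Ok := by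
  rw [pvye_eD H hU]
  exact pvye_end_ok c z (hU.ok σ) (pvye_a_ne hd hδ)

/-- **`eu_ok`** -/
theorem pvye_eu_ok (H : PvyeIs 𝔤 U δ su) (hU : U.Ok) (hs : 0 < su m) (c σ : Bool) (w : ℂ) : (𝔤.eU c m σ w).Ok := by
  rw [pvye_eU H hU]
  exact pvye_end_ok c w (hU.ok σ) (pvbe_sc_ne hs)

/-- **`en_up`** -/
theorem pvye_en_up (H : PvyeIs 𝔤 U δ su) (hU : U.Ok) (hδ : 0 < δ m) (c σ : Bool) (z : ℂ) {d : ℂ} (hd : ‖d‖ = 1) {ε : ℝ} (hε : 0 < ε) : (𝔤.eD c m ε σ z d).UpOk ε := by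
  rw [pvye_eD H hU]
  exact pvye_end_upOk c z (hU.ok σ).mO (hU.mono σ) (hU.z₁ σ) (hU.z₂ σ) (pvye_a_ne hd hδ) hε

/-- **`eu_up`** -/
theorem pvye_eu_up (H : PvyeIs 𝔤 U δ su) (hU : U.Ok) (hs : 0 < su m) (c σ : Bool) (w : ℂ) {ε : ℝ} (hε : 0 < ε) : (𝔤.eU c m σ w).UpOk ε := by
  rw [pvye_eU H hU]
  exact pvye_end_upOk c w (hU.ok σ).mO (hU.mono σ) (hU.z₁ σ) (hU.z₂ σ) (pvbe_sc_ne hs) hε

/-- **`en_prop`**, POINTWISE, every mesh -/
theorem pvye_en_prop (H : PvyeIs 𝔤 U δ su) (hU : U.Ok) (hδ : 0 < δ m) (c σ : Bool) (z : ℂ) {d : ℂ} (hd : ‖d‖ = 1) (ε : ℝ) {ξ : Conf PvPt}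
    (hξ : ξ ∈ (pvydKit (𝔤.kit m ε) c).G z d) : ENNReal.ofReal U.b.toReal ≤ pvtiP (pvP ε) ((𝔤.eD c m ε σ z d).O ×ˢ univ) (𝔤.eD c m ε σ z d).L ξ := by
  have h1 := pvye_end_prop c z (U.sd σ) (pvye_a_ne hd hδ) (ε / δ m) ξ
  rw [pvye_a_norm hd hδ] at h1
  rw [pvye_eD H hU, ENNReal.ofReal_toReal hU.bt, h1, hU.sdO]
  refine hU.prop σ _ _ ?_
  rw [pvyd_kit_G, H.kit, pvbe_sc_G _ _ _ _ (pvth_ne_zero hd)] at hξ
  exact hξ

/-- **`eu_prop`**, POINTWISE, every mesh -/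
theorem pvye_eu_prop (H : PvyeIs 𝔤 U δ su) (hU : U.Ok) (hs : 0 < su m) (c σ : Bool) (w : ℂ) (ε : ℝ) {ξ : Conf PvPt}
    (hξ : ξ ∈ Conf.image (pvydE c w).toEquiv.symm ⁻¹' 𝔤.Gu m ε) : ENNReal.ofReal U.b.toReal ≤ pvtiP (pvP ε) ((𝔤.eU c m σ w).O ×ˢ univ) (𝔤.eU c m σ w).L ξ := by
  have h1 := pvye_end_prop c w (U.sd σ) (pvbe_sc_ne hs) (ε / su m) ξ
  rw [pvye_s_norm hs] at h1
  rw [pvye_eU H hU, ENNReal.ofReal_toReal hU.bt, h1, hU.sdO]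
  refine hU.prop σ _ _ ?_
  have h2 : cfMap (pvthInv 0 (su m)) (Conf.image (pvydE c w).toEquiv.symm ξ) ∈ (U.kit (ε / su m)).G₀ := by
    rw [H.Gu] at hξ
    exact hξ
  rw [pvyd_E_symm, pvyd_fl_cfMap, pvci_cfMap_comp, pvth_inv_comp w 1 0 (su m) one_ne_zero, mul_zero, add_zero, one_mul] at h2
  exact h2

/-- **`mOu`** -/
theorem pvye_mOu (H : PvyeIs 𝔤 U δ su) (hU : U.Ok) (hs : 0 < su m) : MeasurableSet (𝔤.Ou m) := by
  rw [H.Ou]
  exact pvjo_at_meas (pvbe_sc_ne hs) hU.mO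

/-- **`mGu`** -/
theorem pvye_mGu (H : PvyeIs 𝔤 U δ su) (hs : 0 < su m) (hwf : ∀ᶠ e in 𝓝[>] (0 : ℝ), (U.kit e).WF) : ∀ᶠ ε in 𝓝[>] (0 : ℝ), MeasurableSet (𝔤.Gu m ε) := by
  filter_upwards [(pvkm_tendsto_div hs).eventually hwf] with ε hk
  rw [H.Gu]
  exact pvth_mG hk 0 _

/-- **`rGu`** -/
theorem pvye_rGu (H : PvyeIs 𝔤 U δ su) (hU : U.Ok) (hs : 0 < su m) (hwf : ∀ᶠ e in 𝓝[>] (0 : ℝ), (U.kit e).WF) :
    ∀ᶠ ε in 𝓝[>] (0 : ℝ), Conf.ReadsSet (𝔤.Ou m ×ˢ univ) (𝔤.Gu m ε) := by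
  filter_upwards [(pvkm_tendsto_div hs).eventually hwf] with ε hk
  rw [H.Gu, H.Ou, ← hU.O_eq (ε / su m)]
  exact fun η => iff_of_eq (pvth_rG hk 0 _ (pvbe_sc_ne hs) η)

/-- **ADMISSION OF THE REFERENCE PLUG** (ruling 14): the constant of the unit kit, UNIFORM in the level -/
theorem pvye_adm (H : PvyeIs 𝔤 U δ su) (hs : 0 < su m) {β' q : ℝ≥0∞} (hwf : ∀ᶠ e in 𝓝[>] (0 : ℝ), (U.kit e).WF) (hF : ∀ᶠ e in 𝓝[>] (0 : ℝ), (U.kit e).Forced (pvP e) β' q) :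
    ∀ᶠ ε in 𝓝[>] (0 : ℝ), β' ≤ pvP ε (𝔤.Gu m ε) := by
  filter_upwards [(pvkm_tendsto_div hs).eventually hwf, (pvkm_tendsto_div hs).eventually hF] with ε hk hf
  have h1 := (pvbe_sc_forced hs hk hf).adm
  have e1 : su m * (ε / su m) = ε := by field_simp
  rw [e1] at h1
  rw [H.Gu]
  exact h1

/-- the kit of level `m`: `wf` -/
theorem pvye_wf (H : PvyeIs 𝔤 U δ su) (hδ : 0 < δ m) (hwf : ∀ᶠ e in 𝓝[>] (0 : ℝ), (U.kit e).WF) : ∀ᶠ ε in 𝓝[>] (0 : ℝ), (𝔤.kit m ε).WF := by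
  filter_upwards [(pvkm_tendsto_div hδ).eventually hwf] with ε hk
  rw [H.kit]
  exact pvbe_sc_wf hδ hk

/-- the kit of level `m`: `frc` -/
theorem pvye_frc (H : PvyeIs 𝔤 U δ su) (hδ : 0 < δ m) {β' q : ℝ≥0∞} (hwf : ∀ᶠ e in 𝓝[>] (0 : ℝ), (U.kit e).WF) (hF : ∀ᶠ e in 𝓝[>] (0 : ℝ), (U.kit e).Forced (pvP e) β' q) :
    ∀ᶠ ε in 𝓝[>] (0 : ℝ), (𝔤.kit m ε).Forced (pvP ε) β' q := by
  filter_upwards [(pvkm_tendsto_div hδ).eventually hwf, (pvkm_tendsto_div hδ).eventually hF] with ε hk hf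
  have h1 := pvbe_sc_forced hδ hk hf
  have e1 : δ m * (ε / δ m) = ε := by field_simp
  rw [e1] at h1
  rw [H.kit]
  exact h1

/-- **CONTRACT 1 OF 272** (`Tr/EndP.lean`): the kit ends are up in every admissible mixed order and have propensity `≥ b` at the usable states.      `d40 r_rooms r_len` = geometry of the funnel `r` (`Tr/LinkGeo`) -/
theorem pvye_kitUp (𝔓 : PvrxPar τ cc) (H : PvyeIs 𝔤 U δ su) (hU : U.Ok) (hδ : 0 < δ m) (hs : 0 < su m) {n : ℕ} (d40 : (𝔓.Γ m).din0 ^ 4 = 1)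
    (r_rooms : ∀ᶠ ε in 𝓝[>] (0 : ℝ), (𝔤.lr 𝔓 m ε).Rooms) (r_len : (𝔤.wr m).L₁.length ≤ n ∧ (𝔤.wr m).L₂.length ≤ n)
    (r_off : ∀ᶠ ε in 𝓝[>] (0 : ℝ), PvnhOff (𝔤.lr 𝔓 m ε) (𝔤.wr m).Et (𝔤.wr m).M) (r_lim : Tendsto (fun ε : ℝ => pvP ε ((𝔤.wr m).M)ᶜ) (𝓝[>] 0) (𝓝 0)) :
    PvndKitUp 𝔤 𝔓 m U.b.toReal U.b.toReal n where
  βk0 := hU.b_pos
  βu0 := hU.b_pos
  en_up c σ z d hd := by
    filter_upwards [self_mem_nhdsWithin] with ε hε
    exact pvye_en_up H hU hδ c σ z (pvth_norm_of_pow hd) hε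
  en_prop c σ z d hd := Eventually.of_forall fun ε => Eventually.of_forall fun ξ hξ => pvye_en_prop H hU hδ c σ z (pvth_norm_of_pow hd) ε hξ
  eu_up c σ w := by
    filter_upwards [self_mem_nhdsWithin] with ε hε
    exact pvye_eu_up H hU hs c σ w hε
  eu_prop c σ w := Eventually.of_forall fun ε => Eventually.of_forall fun ξ hξ => pvye_eu_prop H hU hs c σ w ε hξ
  d40 := d40
  r_prop := Eventually.of_forall fun ε => Eventually.of_forall fun ξ hξ => by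
    refine pvye_en_prop H hU hδ true true _ (pvth_norm_of_pow d40) ε ?_
    rw [pvyd_kit_G, mem_preimage, pvyd_fl_true]
    exact hξ
  r_prop' := Eventually.of_forall fun ε => Eventually.of_forall fun ξ hξ => by
    refine pvye_eu_prop H hU hs true false 0 ε ?_
    rw [← pvyd_fl_eq, mem_preimage, pvyd_fl_true]
    exact hξ
  r_rooms := r_rooms
  r_len := r_len
  r_off := r_off
  r_lim := r_lim

end data

/-! ## 6. the unit datum of record -/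

/-- **THE UNIT DATUM OF RECORD**: the cell kit of 34 over the ends of 174 / 52 -/
noncomputable def pvyeU (𝔤 : PvkdGeo) (I : PvjoIn) (b q : ℝ≥0∞) : PvyeUnit where
  kit e := (𝔤.glob I.Hf).kit (pvP e) b q
  O₀ := 𝔤.O₀
  ep := I.ep
  em := I.em
  Zp₁ := I.Zp₁
  Zp₂ := I.Zp₂
  Zm₁ := I.Zm₁
  Zm₂ := I.Zm₂
  b := b

theorem pvye_eqns_cite4 : True := by
  have := @pvyeU.eq_1
  trivial

/-- **THE UNIT DATUM OF RECORD IS OK**: from the contract `PvjoIn.Ok` of 52 + black ends + zones in the rooms -/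
theorem pvye_U_ok {𝔤 : PvkdGeo} {I : PvjoIn} (H : I.Ok 𝔤) {b q : ℝ≥0∞} (b0 : b ≠ 0) (bt : b ≠ ∞) (cp : I.ep.c = true) (cm : I.em.c = true)
    (zp₁ : I.Zp₁ ⊆ I.ep.O ∪ I.ep.A₁) (zp₂ : I.Zp₂ ⊆ I.ep.O ∪ I.ep.A₂) (zm₁ : I.Zm₁ ⊆ I.em.O ∪ I.em.A₁) (zm₂ : I.Zm₂ ⊆ I.em.O ∪ I.em.A₂) : (pvyeU 𝔤 I b q).Ok where
  O_eq _ := rfl
  sdO σ := by cases σ; exacts [H.Om, H.Op]
  col σ := by cases σ; exacts [cm, cp]
  ok σ := by cases σ; exacts [H.okm, H.okp]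
  mono σ := by cases σ; exacts [H.monom, H.monop]
  z₁ σ := by cases σ; exacts [zm₁, zp₁]
  z₂ σ := by cases σ; exacts [zm₂, zp₂]
  b0 := b0
  bt := bt
  prop σ e ξ hξ := by
    have hO : (𝔤.glob I.Hf).pre.O 0 1 = 𝔤.O₀ ×ˢ univ := by
      show (pvthSim 0 1 '' 𝔤.O₀) ×ˢ univ = _
      rw [pvth_sim_id, image_id]
    have h1 : ∀ i, b ≤ pvtiP (pvP e) (𝔤.O₀ ×ˢ univ) (I.Hf i) ξ := fun i => by
      have := mem_iInter.1 hξ.2 i
      rw [← hO]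
      exact this
    cases σ
    · exact h1 2
    · exact h1 0

/-! ## 7. the unit datum of record -/

/-- **the end of side `σ` of THE plug** (174), canonical rooms: `A β` = closed `ρ`-neighbourhood of the room, `X β` = room ∩ disc of the gate, `Y β` = target -/
noncomputable def pvyeE0 (𝔭 : PvkdPlug) (𝔱 : PvhfTr) (O : Set ℂ) (σ : Bool) : PvnkEnd :=
  pvhfEnd 𝔭 𝔱 σ O (fun β => cthickening 𝔭.ρ (𝔱.Ln σ β)) (fun β => ball 0 𝔭.b ∩ 𝔱.Ln σ β) (fun β => 𝔱.Dr σ β)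

/-- **THE UNIT DATUM OF RECORD**: the cell kit of 34 at `Hf := pvhfH` (174), its two ends -/
noncomputable def pvyeV (𝔤 : PvkdGeo) (𝔱 : PvhfTr) (b q : ℝ≥0∞) : PvyeUnit where
  kit e := (𝔤.glob (pvhfH 𝔤.toPvkdPlug 𝔱)).kit (pvP e) b q
  O₀ := 𝔤.O₀
  ep := pvyeE0 𝔤.toPvkdPlug 𝔱 𝔤.O₀ true
  em := pvyeE0 𝔤.toPvkdPlug 𝔱 𝔤.O₀ false
  Zp₁ := 𝔱.Ln true true
  Zp₂ := 𝔱.Ln true false
  Zm₁ := 𝔱.Ln false true
  Zm₂ := 𝔱.Ln false false
  b := b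

theorem pvye_eqns_cite5 : True := by
  have := @pvyeE0.eq_1; have := @pvyeV.eq_1
  trivial

section record

variable {𝔤 : PvkdGeo} {𝔱 : PvhfTr} {b q : ℝ≥0∞}

theorem pvye_V_sd (𝔤 : PvkdGeo) (𝔱 : PvhfTr) (b q : ℝ≥0∞) (σ : Bool) : (pvyeV 𝔤 𝔱 b q).sd σ = pvyeE0 𝔤.toPvkdPlug 𝔱 𝔤.O₀ σ := by cases σ <;> rfl
theorem pvye_V_Z₁ (𝔤 : PvkdGeo) (𝔱 : PvhfTr) (b q : ℝ≥0∞) (σ : Bool) : (pvyeV 𝔤 𝔱 b q).Z₁ σ = 𝔱.Ln σ true := by cases σ <;> rfl
theorem pvye_V_Z₂ (𝔤 : PvkdGeo) (𝔱 : PvhfTr) (b q : ℝ≥0∞) (σ : Bool) : (pvyeV 𝔤 𝔱 b q).Z₂ σ = 𝔱.Ln σ false := by cases σ <;> rfl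

theorem pvye_E0_ok {𝔭 : PvkdPlug} (hG : PvhfGeo 𝔭 𝔱) {O : Set ℂ} (mO : MeasurableSet O) (σ : Bool) : (pvyeE0 𝔭 𝔱 O σ).Ok :=
  pvhf_end_ok hG σ mO (fun β u hu => closedBall_subset_cthickening hu _) (fun _ => Subset.rfl) (fun _ => Subset.rfl)

theorem pvye_E0_mono {𝔭 : PvkdPlug} (hG : PvhfGeo 𝔭 𝔱) {O : Set ℂ} (hE : 𝔭.Ew ⊆ O) (σ : Bool) :
    PvjoMono (pvyeE0 𝔭 𝔱 O σ).L (pvyeE0 𝔭 𝔱 O σ).c (pvyeE0 𝔭 𝔱 O σ).O (𝔱.Ln σ true) (𝔱.Ln σ false) :=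
  fun η η' hr he => pvhf_S_mono hG σ hE hr.ok hr.Y hr.fz hr.k₁ hr.k₂ he

/-- **THE UNIT DATUM OF RECORD IS OK**: regions only -/
theorem pvye_V_ok (hG : PvhfGeo 𝔤.toPvkdPlug 𝔱) (mO : MeasurableSet 𝔤.O₀) (hE : 𝔤.Ew ⊆ 𝔤.O₀) (b0 : b ≠ 0) (bt : b ≠ ∞) : (pvyeV 𝔤 𝔱 b q).Ok where
  O_eq _ := rfl
  sdO σ := by rw [pvye_V_sd]; rfl
  col σ := by rw [pvye_V_sd]; rfl
  ok σ := by rw [pvye_V_sd]; exact pvye_E0_ok hG mO σ
  mono σ := by rw [pvye_V_sd, pvye_V_Z₁, pvye_V_Z₂]; exact pvye_E0_mono hG hE σ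
  z₁ σ := by
    rw [pvye_V_sd, pvye_V_Z₁]
    exact (self_subset_cthickening _).trans subset_union_right
  z₂ σ := by
    rw [pvye_V_sd, pvye_V_Z₂]
    exact (self_subset_cthickening _).trans subset_union_right
  b0 := b0
  bt := bt
  prop σ e ξ hξ := by
    have hO : (𝔤.glob (pvhfH 𝔤.toPvkdPlug 𝔱)).pre.O 0 1 = 𝔤.O₀ ×ˢ univ := by
      show (pvthSim 0 1 '' 𝔤.O₀) ×ˢ univ = _
      rw [pvth_sim_id, image_id]
    have h1 : ∀ i, b ≤ pvtiP (pvP e) (𝔤.O₀ ×ˢ univ) (pvhfH 𝔤.toPvkdPlug 𝔱 i) ξ := fun i => by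
      have := mem_iInter.1 hξ.2 i
      rw [← hO]
      exact this
    rw [pvye_V_sd]
    cases σ
    · exact h1 2
    · exact h1 0

end record

/-! ## 8. the starting sites are the feet of the gate of record -/

theorem pvye_fl_ky (c : Bool) (η : Conf PvPt) : pvydFl c η = pvkyFl c η := by
  cases c
  · exact pvyd_fl_false η
  · exact pvyd_fl_true η

/-- the feet of the image of a gate -/
theorem pvye_foot_gate {ξ η : Conf PvPt} {b : Bool} {a c : ℂ} (M : PvukMor ξ η b a c) (g : (pvkiT ξ).Gate (pvkiS ξ)) (σ β : Bool) :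
    pvkdFoot (M.gate g) σ β = M.iso.fV (pvkdFoot g σ β) := by
  cases σ <;> cases β
  · show (pvkiT η).tgt (pvcoGate M.iso M.hs g).aIn = _
    rw [pvco_gate_aIn]
    exact M.iso.tgt _
  · exact pvco_gate_vm M.iso M.hs g
  · show (pvkiT η).tgt (pvcoGate M.iso M.hs g).aOut = _
    rw [pvco_gate_aOut]
    exact M.iso.tgt _
  · exact pvco_gate_vp M.iso M.hs g

/-- **THE DICTIONARY OF THE STARTING SITES**: a starting site of the kit end placed at `(z, d)`, scale `s`, colour `c`, is the foot of side `σ` and colour `β` of THE gate of record, for the colour `c`, of the plug `𝔭.sc s` placed at `(z,d)`, IN THE PLANE MAP OF `η` ITSELF -/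
theorem pvye_ft_dict (𝔭 : PvkdPlug) (c σ β : Bool) {η : Conf PvPt} (hη : ∀ p ∈ η.pts, ∀ q ∈ η.pts, p.1 = q.1 → p = q) (z : ℂ) {d : ℂ} (hd : ‖d‖ = 1) {s : ℝ} (hs : 0 < s) {x : ℂ}
    (hx : x ∈ pvkdAt z (d * s) (pvhfFt 𝔭 σ β (cfMap (pvthInv z (d * s)) (pvydFl c η)))) :
    ∃ g : (pvkiT η).Gate (pvukS c η), PvukGate (𝔭.sc s) c η z d g ∧ x = ((pvkdFoot g σ β : ↥(cfSites η)) : ℂ) := by
  rw [pvye_fl_ky] at hx
  obtain ⟨u, ⟨g, hg, rfl⟩, rfl⟩ := hx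
  have M := pvuk_mor c hη z (pvye_a_ne hd hs)
  refine ⟨M.gate g, ?_, ?_⟩
  · have := pvuk_mor_gate M hd hs hg
    rwa [pvuk_vor_zero, mul_one] at this
  · rw [pvye_foot_gate M g σ β, M.val]
    unfold pvthSim vorSim
    ring

section sites

variable {τ : Type} {𝔥 : PvydGeo τ} {𝔤 : PvkdGeo} {𝔱 : PvhfTr} {b q : ℝ≥0∞} {δ su : ℕ → ℝ} {m : ℕ}

/-- the starting sites of the colour of the rim of a door end -/
theorem pvye_V_S₁ (H : PvyeIs 𝔥 (pvyeV 𝔤 𝔱 b q) δ su) (hU : (pvyeV 𝔤 𝔱 b q).Ok) (hδ : 0 < δ m) (c σ : Bool) (z : ℂ) {d : ℂ} (hd : ‖d‖ = 1) (ε : ℝ) {η : Conf PvPt} (hn : CfOK η) {x : ℂ}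
    (hx : x ∈ (𝔥.eD c m ε σ z d).S₁ η) : ∃ g : (pvkiT η).Gate (pvukS c η), PvukGate (𝔤.toPvkdPlug.sc (δ m)) c η z d g ∧ x = ((pvkdFoot g σ true : ↥(cfSites η)) : ℂ) := by
  rw [pvye_eD H hU, pvye_V_sd] at hx
  exact pvye_ft_dict 𝔤.toPvkdPlug c σ true hn.col z hd hδ hx

/-- the starting sites of the other colour of a door end -/
theorem pvye_V_S₂ (H : PvyeIs 𝔥 (pvyeV 𝔤 𝔱 b q) δ su) (hU : (pvyeV 𝔤 𝔱 b q).Ok) (hδ : 0 < δ m) (c σ : Bool) (z : ℂ) {d : ℂ} (hd : ‖d‖ = 1) (ε : ℝ) {η : Conf PvPt} (hn : CfOK η) {x : ℂ}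
    (hx : x ∈ (𝔥.eD c m ε σ z d).S₂ η) : ∃ g : (pvkiT η).Gate (pvukS c η), PvukGate (𝔤.toPvkdPlug.sc (δ m)) c η z d g ∧ x = ((pvkdFoot g σ false : ↥(cfSites η)) : ℂ) := by
  rw [pvye_eD H hU, pvye_V_sd] at hx
  exact pvye_ft_dict 𝔤.toPvkdPlug c σ false hn.col z hd hδ hx

/-- the starting sites of the colour of the rim of an end of the reference plug -/
theorem pvye_V_U₁ (H : PvyeIs 𝔥 (pvyeV 𝔤 𝔱 b q) δ su) (hU : (pvyeV 𝔤 𝔱 b q).Ok) (hs : 0 < su m) (c σ : Bool) (w : ℂ) {η : Conf PvPt} (hn : CfOK η) {x : ℂ}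
    (hx : x ∈ (𝔥.eU c m σ w).S₁ η) : ∃ g : (pvkiT η).Gate (pvukS c η), PvukGate (𝔤.toPvkdPlug.sc (su m)) c η w 1 g ∧ x = ((pvkdFoot g σ true : ↥(cfSites η)) : ℂ) := by
  rw [pvye_eU H hU, pvye_V_sd, ← one_mul ((su m : ℝ) : ℂ)] at hx
  exact pvye_ft_dict 𝔤.toPvkdPlug c σ true hn.col w norm_one hs hx

/-- the starting sites of the other colour of an end of the reference plug -/
theorem pvye_V_U₂ (H : PvyeIs 𝔥 (pvyeV 𝔤 𝔱 b q) δ su) (hU : (pvyeV 𝔤 𝔱 b q).Ok) (hs : 0 < su m) (c σ : Bool) (w : ℂ) {η : Conf PvPt} (hn : CfOK η) {x : ℂ}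
    (hx : x ∈ (𝔥.eU c m σ w).S₂ η) : ∃ g : (pvkiT η).Gate (pvukS c η), PvukGate (𝔤.toPvkdPlug.sc (su m)) c η w 1 g ∧ x = ((pvkdFoot g σ false : ↥(cfSites η)) : ℂ) := by
  rw [pvye_eU H hU, pvye_V_sd, ← one_mul ((su m : ℝ) : ℂ)] at hx
  exact pvye_ft_dict 𝔤.toPvkdPlug c σ false hn.col w norm_one hs hx

/-- the starting points of the kit ends are sites (hypothesis `hs` of `pvnk_link_join`) -/
theorem pvye_V_site (H : PvyeIs 𝔥 (pvyeV 𝔤 𝔱 b q) δ su) (hU : (pvyeV 𝔤 𝔱 b q).Ok) (hδ : 0 < δ m) (c σ : Bool) (z : ℂ) {d : ℂ} (hd : ‖d‖ = 1) (ε : ℝ) {η : Conf PvPt} (hn : CfOK η) {x : ℂ}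
    (hx : x ∈ (𝔥.eD c m ε σ z d).S₁ η ∪ (𝔥.eD c m ε σ z d).S₂ η) : x ∈ cfSites η := by
  rcases hx with hx | hx
  · obtain ⟨g, -, rfl⟩ := pvye_V_S₁ H hU hδ c σ z hd ε hn hx
    exact Subtype.property _
  · obtain ⟨g, -, rfl⟩ := pvye_V_S₂ H hU hδ c σ z hd ε hn hx
    exact Subtype.property _

theorem pvye_V_siteU (H : PvyeIs 𝔥 (pvyeV 𝔤 𝔱 b q) δ su) (hU : (pvyeV 𝔤 𝔱 b q).Ok) (hs : 0 < su m) (c σ : Bool) (w : ℂ) {η : Conf PvPt} (hn : CfOK η) {x : ℂ}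
    (hx : x ∈ (𝔥.eU c m σ w).S₁ η ∪ (𝔥.eU c m σ w).S₂ η) : x ∈ cfSites η := by
  rcases hx with hx | hx
  · obtain ⟨g, -, rfl⟩ := pvye_V_U₁ H hU hs c σ w hn hx
    exact Subtype.property _
  · obtain ⟨g, -, rfl⟩ := pvye_V_U₂ H hU hs c σ w hn hx
    exact Subtype.property _

end sites

end Claimed.Agent.R289
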