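import Claimed.Agent.R289.Tr.GlueWM
import Claimed.Agent.R289.Tr.ForceD
import Claimed.Agent.R289.Exit.DatP

/-!
# Row 289 (S0537, Cardy for Poisson-Voronoi), THE WALL, ROAD P, file Tr/LinkDict : THE GENERIC DICTIONARY  CELLS ⟹ LINK      (architect helper164, ruling P16 of 273; prefix `pvlkt_`, `Pvlkt`, `pvlkt`)

FOR ANY TWO ENDS `e e' : PvnkEnd` AND ANY MESH `δ` (thick links `e b` at `δ = dl h / 40`, funnels `o i r` at their single mesh).      ALL THE GEOMETRY OF A LINK IS A RECORD ON SETS OF CELLS OF THE ABSOLUTE GRID `pvlnC δ k`: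
* `B`, `W`   = the two polyominoes (black walk, white walk): finite (in the box of half side `N` round `o`), `pvtbG4`-connected
* `Bk ⊇ N¹ B`, `Wh ⊇ N¹ W` = the covers of the zones of the mixed order: `K₁ := pvtU δ Bk`, `K₂ := pvtU δ Wh`;   `sep : Disjoint (N¹ Bk) Wh`
* `Et`       = the window of the corridor (measurable, bounded, off the two state regions);   guard `M := pvjoMesh ρ Et`
**`PvlktPoly`** = the record;   **`pvlkt_dict`** : `PvlktPoly` + `PvlktNu N nu` ⟹ `∃ w : PvydWalk`, cells of `L₁` `= B`, of `L₂` `= W`, `.Geo`, `.Rooms`, lengths `≤ nu`, `PvnhWin`, `PvnhOff`, `lim`.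
`PvlktNu N nu` (H3, 203): every `G4`-connected polyomino in a box of half side `N` carries a FULL chain of length `≤ nu`.
ROOM OF THE RUN (H5):   `pvlktH δ E` = union of the MIXED HALF OPEN cells `(k₁ δ, (k₁+1) δ] × [k₂ δ, (k₂+1) δ)`: they tile the plane and the corner shared by `k` and `k + (1,-1)` belongs to `k`: so `tscG`-connected sets of cells have connected unions
(`pvlkt_H_conn`), `(pvlktH δ E)ᶜ = pvlktH δ Eᶜ`, and the complement of the union of a HULL is preconnected (`pvlkt_H_co`): `KE := pvlktH δ (pvtHull XK)`.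
-/

set_option autoImplicit false
set_option linter.unusedSectionVars false
set_option linter.unusedVariables false

namespace Claimed.Agent.R289

open Set Metric Filter Topology Relation Claims.C0467 Claims.C0465 Claimed.Agent.R291

/-! ## 1. full chains of bounded length -/

/-- every `G4`-connected polyomino in a box of half side `N` carries a full chain of length `≤ nu` -/
def PvlktNu (N nu : ℕ) : Prop :=
  ∀ (o : ℤ × ℤ) (W : Set (ℤ × ℤ)), W.Nonempty → (∀ k ∈ W, |k.1 - o.1| ≤ N ∧ |k.2 - o.2| ≤ N) → TscConn pvtbG4 W →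
    ∃ L : List (ℤ × ℤ), L ≠ [] ∧ L.IsChain PvlnAdj ∧ PvfpFull L ∧ {k | k ∈ L} = W ∧ L.length ≤ nu

/-! ## 2. the record -/

/-- **ALL THE GEOMETRY OF A LINK, IN CELLS** -/
structure PvlktPoly (e e' : PvnkEnd) (δ : ℝ) (o : ℤ × ℤ) (N : ℕ) (B W Bk Wh : Set (ℤ × ℤ)) (Et : Set ℂ) : Prop where
  col : e'.c = e.c
  dj : Disjoint (e.O ∪ e.E) (e'.O ∪ e'.E)
  δ_pos : 0 < δ
  neB : B.Nonempty
  neW : W.Nonempty
  boxB : ∀ k ∈ B, |k.1 - o.1| ≤ N ∧ |k.2 - o.2| ≤ N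
  boxW : ∀ k ∈ W, |k.1 - o.1| ≤ N ∧ |k.2 - o.2| ≤ N
  cB : TscConn pvtbG4 B
  cW : TscConn pvtbG4 W
  subB : pvtwN 1 B ⊆ Bk
  subW : pvtwN 1 W ⊆ Wh
  /-- the two covers are two cells apart -/
  sep : Disjoint (pvtwN 1 Bk) Wh
  /-- the walks (with their collars) keep off the two state regions -/
  offB : Disjoint (pvtU δ (pvtwN 1 B)) (e.O ∪ e'.O)
  offW : Disjoint (pvtU δ (pvtwN 1 W)) (e.O ∪ e'.O)
  /-- the four hook zones -/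
  z₁ : PvfpZone δ B e.A₁ e.X₁ e.Y₁
  z₁' : PvfpZone δ B e'.A₁ e'.X₁ e'.Y₁
  z₂ : PvfpZone δ W e.A₂ e.X₂ e.Y₂
  z₂' : PvfpZone δ W e'.A₂ e'.X₂ e'.Y₂
  /-- the four rooms -/
  a₁ : e.A₁ ⊆ e.O ∪ pvtU δ Bk
  a₂ : e.A₂ ⊆ e.O ∪ pvtU δ Wh
  a₁' : e'.A₁ ⊆ e'.O ∪ pvtU δ Bk
  a₂' : e'.A₂ ⊆ e'.O ∪ pvtU δ Wh
  /-- the window of the corridor -/
  mEt : MeasurableSet Et
  bEt : Bornology.IsBounded Et
  offEt : Disjoint Et (e.O ∪ e'.O)

/-- what the dictionary delivers for the walk `w` -/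
structure PvlktOut (e e' : PvnkEnd) (δ ρ : ℝ) (nu : ℕ) (B W Bk Wh : Set (ℤ × ℤ)) (Et : Set ℂ) (w : PvydWalk) : Prop where
  δ_eq : w.δ = δ
  L₁_eq : {k | k ∈ w.L₁} = B
  L₂_eq : {k | k ∈ w.L₂} = W
  K₁_eq : w.K₁ = pvtU δ Bk
  K₂_eq : w.K₂ = pvtU δ Wh
  Et_eq : w.Et = Et
  M_eq : w.M = pvjoMesh ρ Et
  geo : (w.lk e e').Geo
  rooms : (w.lk e e').Rooms
  len : w.L₁.length ≤ nu ∧ w.L₂.length ≤ nu
  win : PvnhWin w.Et w.M
  off : PvnhOff (w.lk e e') w.Et w.M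
  lim : Tendsto (fun ε : ℝ => pvP ε (w.M)ᶜ) (𝓝[>] 0) (𝓝 0)

variable {e e' : PvnkEnd} {δ ρ : ℝ} {o : ℤ × ℤ} {N nu : ℕ} {B W Bk Wh : Set (ℤ × ℤ)} {Et : Set ℂ}

/-- **THE DICTIONARY** -/
theorem pvlkt_dict (hnu : PvlktNu N nu) (P : PvlktPoly e e' δ o N B W Bk Wh Et) (hρ : 0 < ρ) : ∃ w : PvydWalk, PvlktOut e e' δ ρ nu B W Bk Wh Et w := by
  obtain ⟨L₁, n1, c1, f1, s1, l1⟩ := hnu o B P.neB P.boxB P.cB
  obtain ⟨L₂, n2, c2, f2, s2, l2⟩ := hnu o W P.neW P.boxW P.cW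
  have w1 : pvlnW δ L₁ ⊆ pvtU δ (pvtwN 1 B) := by
    have := pvwg_W_U P.δ_pos L₁
    rwa [s1] at this
  have w2 : pvlnW δ L₂ ⊆ pvtU δ (pvtwN 1 W) := by
    have := pvwg_W_U P.δ_pos L₂
    rwa [s2] at this
  refine ⟨⟨δ, L₁, L₂, pvtU δ Bk, pvtU δ Wh, Et, pvjoMesh ρ Et⟩, rfl, s1, s2, rfl, rfl, rfl, rfl, ?_, ⟨P.a₁, P.a₂, P.a₁', P.a₂'⟩, ⟨l1, l2⟩,
    pvnh_mesh_win ρ P.mEt, pvnh_mesh_off ρ P.offEt, pvnh_mesh_lim hρ P.bEt⟩
  exact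
    { col := P.col
      dj := P.dj
      δ_pos := P.δ_pos
      ne₁ := n1
      ne₂ := n2
      ch₁ := c1
      ch₂ := c2
      full₁ := f1
      full₂ := f2
      djK := pvwg_U_disj P.δ_pos P.sep
      w₁ := w1.trans (pvt_U_mono P.subB)
      w₂ := w2.trans (pvt_U_mono P.subW)
      off₁ := P.offB.mono_left w1
      off₂ := P.offW.mono_left w2
      z₁ := by show PvfpZone δ {k | k ∈ L₁} e.A₁ e.X₁ e.Y₁; rw [s1]; exact P.z₁
      z₁' := by show PvfpZone δ {k | k ∈ L₁} e'.A₁ e'.X₁ e'.Y₁; rw [s1]; exact P.z₁'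
      z₂ := by show PvfpZone δ {k | k ∈ L₂} e.A₂ e.X₂ e.Y₂; rw [s2]; exact P.z₂
      z₂' := by show PvfpZone δ {k | k ∈ L₂} e'.A₂ e'.X₂ e'.Y₂; rw [s2]; exact P.z₂' }

/-- where the link is read off the two state regions -/
theorem PvlktOut.Kp_sub {w : PvydWalk} (Q : PvlktOut e e' δ ρ nu B W Bk Wh Et w) (hδ : 0 < δ) :
    pvnhKp (w.lk e e') w.Et ⊆ e.E ∪ e'.E ∪ pvtU δ (pvtwN 1 B) ∪ pvtU δ (pvtwN 1 W) ∪ Et := by
  have w1 : pvlnW δ w.L₁ ⊆ pvtU δ (pvtwN 1 B) := by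
    have := pvwg_W_U hδ w.L₁
    rwa [Q.L₁_eq] at this
  have w2 : pvlnW δ w.L₂ ⊆ pvtU δ (pvtwN 1 W) := by
    have := pvwg_W_U hδ w.L₂
    rwa [Q.L₂_eq] at this
  rintro p ⟨hp, -⟩
  have hp' : p ∈ e.E ∪ e'.E ∪ pvlnW w.δ w.L₁ ∪ pvlnW w.δ w.L₂ ∪ w.Et := hp
  rw [Q.δ_eq, Q.Et_eq] at hp'
  rcases hp' with (((h | h) | h) | h) | h
  · exact Or.inl (Or.inl (Or.inl (Or.inl h)))
  · exact Or.inl (Or.inl (Or.inl (Or.inr h)))
  · exact Or.inl (Or.inl (Or.inr (w1 h)))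
  · exact Or.inl (Or.inr (w2 h))
  · exact Or.inr h

/-! ## 3. column zones -/

/-- a real number between `y0 δ` and `(y1 + 1) δ` lies in a cell `j`, `y0 ≤ j ≤ y1 + 1` -/
theorem pvlkt_row (hδ : 0 < δ) {y0 y1 : ℤ} {s : ℝ} (h0 : (y0 : ℝ) * δ ≤ s) (h1 : s ≤ ((y1 : ℝ) + 1) * δ) : ∃ j : ℤ, y0 ≤ j ∧ j ≤ y1 + 1 ∧ (j : ℝ) * δ ≤ s ∧ s ≤ ((j : ℝ) + 1) * δ := by
  refine ⟨⌊s / δ⌋, ?_, ?_, ?_, ?_⟩
  · rw [Int.le_floor, le_div_iff₀ hδ]; exact h0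
  · have : ⌊s / δ⌋ ≤ ⌊(((y1 + 1 : ℤ) : ℝ))⌋ := Int.floor_le_floor (by rw [div_le_iff₀ hδ]; push_cast; exact h1)
    rwa [Int.floor_intCast] at this
  · have := Int.floor_le (s / δ)
    rwa [le_div_iff₀ hδ] at this
  · have := (Int.lt_floor_add_one (s / δ)).le
    rwa [div_le_iff₀ hδ] at this

/-- the common part of the two column zones: a path which crosses the closed column `c` -/
theorem pvlkt_zone_col (hδ : 0 < δ) {Wc : Set (ℤ × ℤ)} {A : Set ℂ} (c y0 y1 : ℤ)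
    (hA : ∀ p ∈ A, (c : ℝ) * δ ≤ p.re → p.re ≤ ((c : ℝ) + 1) * δ → (y0 : ℝ) * δ ≤ p.im ∧ p.im ≤ ((y1 : ℝ) + 1) * δ)
    (hW : tscBox (c - 2) (c + 2) (y0 - 2) (y1 + 2) ⊆ Wc) {S : Set ℂ} (hS : S ⊆ A) {x y : ℂ} (hxy : JoinedIn S x y)
    (h : (x.re ≤ (c : ℝ) * δ ∧ ((c : ℝ) + 1) * δ ≤ y.re) ∨ (((c : ℝ) + 1) * δ ≤ x.re ∧ y.re ≤ (c : ℝ) * δ)) :
    ∃ (j : ℤ) (p : ℂ), pvfpBlk (c, j) ⊆ Wc ∧ p ∈ pvlnC δ (c, j) ∧ JoinedIn S x p ∧ JoinedIn S p y := by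
  have c1 : IsClosed {p : ℂ | p.re ≤ (c : ℝ) * δ} := isClosed_le Complex.continuous_re continuous_const
  have c2 : IsClosed {p : ℂ | ((c : ℝ) + 1) * δ ≤ p.re} := isClosed_le continuous_const Complex.continuous_re
  have hd : Disjoint {p : ℂ | p.re ≤ (c : ℝ) * δ} {p : ℂ | ((c : ℝ) + 1) * δ ≤ p.re} := by
    rw [Set.disjoint_left]
    intro p h1 h2
    simp only [mem_ofPred_eq] at h1 h2
    nlinarith
  have key : ∃ p ∈ {p : ℂ | p ∈ S ∧ (c : ℝ) * δ ≤ p.re ∧ p.re ≤ ((c : ℝ) + 1) * δ}, JoinedIn S x p ∧ JoinedIn S p y := by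
    rcases h with ⟨hx, hy⟩ | ⟨hx, hy⟩
    · refine pvfp_pass hxy ?_ c1 c2 hd hx hy
      intro p hp
      by_cases h1 : p.re ≤ (c : ℝ) * δ
      · exact Or.inl (Or.inl h1)
      by_cases h2 : ((c : ℝ) + 1) * δ ≤ p.re
      · exact Or.inr h2
      exact Or.inl (Or.inr ⟨hp, (not_le.1 h1).le, (not_le.1 h2).le⟩)
    · refine pvfp_pass hxy ?_ c2 c1 hd.symm hx hy
      intro p hp
      by_cases h1 : p.re ≤ (c : ℝ) * δ
      · exact Or.inr h1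
      by_cases h2 : ((c : ℝ) + 1) * δ ≤ p.re
      · exact Or.inl (Or.inl h2)
      exact Or.inl (Or.inr ⟨hp, (not_le.1 h1).le, (not_le.1 h2).le⟩)
  obtain ⟨p, ⟨hpS, p1, p2⟩, j1, j2⟩ := key
  obtain ⟨q1, q2⟩ := hA p (hS hpS) p1 p2
  obtain ⟨j, a1, a2, a3, a4⟩ := pvlkt_row hδ q1 q2
  refine ⟨j, p, ?_, ⟨p1, p2, a3, a4⟩, j1, j2⟩
  rintro ⟨k1, k2⟩ ⟨b1, b2⟩
  simp only at b1 b2
  rw [abs_le] at b1 b2
  exact hW ⟨by simp only; omega, by simp only; omega, by simp only; omega, by simp only; omega⟩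

/-- **ZONE ACROSS A COLUMN, travel EAST** (start West of the column `c`, door East of it): the room meets the column `c` in the rows `y0 .. y1` only -/
theorem pvlkt_zone_E (hδ : 0 < δ) {Wc : Set (ℤ × ℤ)} {A X Y : Set ℂ} (c y0 y1 : ℤ)
    (hA : ∀ p ∈ A, (c : ℝ) * δ ≤ p.re → p.re ≤ ((c : ℝ) + 1) * δ → (y0 : ℝ) * δ ≤ p.im ∧ p.im ≤ ((y1 : ℝ) + 1) * δ)
    (hX : ∀ p ∈ X, p.re ≤ (c : ℝ) * δ) (hY : ∀ p ∈ Y, ((c : ℝ) + 3) * δ ≤ p.re) (hW : tscBox (c - 2) (c + 2) (y0 - 2) (y1 + 2) ⊆ Wc) : PvfpZone δ Wc A X Y := by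
  intro S hS x hx y hy hxy
  have hy' := hY y hy
  obtain ⟨j, p, h1, h2, h3, h4⟩ := pvlkt_zone_col hδ c y0 y1 hA hW hS hxy (Or.inl ⟨hX x hx, by nlinarith⟩)
  refine ⟨(c, j), p, h1, h2, h3, h4, ?_⟩
  rintro ⟨-, z2, -, -⟩
  simp only at z2
  nlinarith

/-- **ZONE ACROSS A COLUMN, travel WEST** -/
theorem pvlkt_zone_W (hδ : 0 < δ) {Wc : Set (ℤ × ℤ)} {A X Y : Set ℂ} (c y0 y1 : ℤ)
    (hA : ∀ p ∈ A, (c : ℝ) * δ ≤ p.re → p.re ≤ ((c : ℝ) + 1) * δ → (y0 : ℝ) * δ ≤ p.im ∧ p.im ≤ ((y1 : ℝ) + 1) * δ)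
    (hX : ∀ p ∈ X, ((c : ℝ) + 1) * δ ≤ p.re) (hY : ∀ p ∈ Y, p.re ≤ ((c : ℝ) - 2) * δ) (hW : tscBox (c - 2) (c + 2) (y0 - 2) (y1 + 2) ⊆ Wc) : PvfpZone δ Wc A X Y := by
  intro S hS x hx y hy hxy
  have hy' := hY y hy
  obtain ⟨j, p, h1, h2, h3, h4⟩ := pvlkt_zone_col hδ c y0 y1 hA hW hS hxy (Or.inr ⟨hX x hx, by nlinarith⟩)
  refine ⟨(c, j), p, h1, h2, h3, h4, ?_⟩
  rintro ⟨z1, -, -, -⟩
  simp only at z1
  nlinarith

/-! ## 4. fine cells and menu cells -/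

/-- collars of refinements of two sets of menu cells which are not neighbours are disjoint -/
theorem pvlkt_close {κ : ℤ} (hκ : 0 < κ) (o : ℤ × ℤ) {E E' : Set (ℤ × ℤ)} {i j : ℕ} (hij : ((i + j : ℕ) : ℤ) ≤ κ) (h : Disjoint (pvtwN 1 E) E') :
    Disjoint (pvtwN i ((pvgwDiv κ hκ o).pre E)) (pvtwN j ((pvgwDiv κ hκ o).pre E')) := by
  have near : ∀ x y : ℤ, y ≤ x + κ → y / κ ≤ x / κ + 1 := fun x y hxy => by
    have h1 : (x + κ) / κ = x / κ + 1 := by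
      rw [Int.add_ediv_of_dvd_right (dvd_refl κ), Int.ediv_self hκ.ne']
    rw [← h1]
    exact Int.ediv_le_ediv hκ hxy
  rw [Set.disjoint_left]
  rintro w ⟨z, hz, a1, a2, a3, a4⟩ ⟨z', hz', b1, b2, b3, b4⟩
  push_cast at hij
  refine Set.disjoint_left.1 h ?_ hz'
  refine ⟨_, hz, ?_, ?_, ?_, ?_⟩
  · show (z'.1 - o.1) / κ ≤ (z.1 - o.1) / κ + ((1 : ℕ) : ℤ)
    push_cast
    exact near _ _ (by omega)
  · show (z.1 - o.1) / κ ≤ (z'.1 - o.1) / κ + ((1 : ℕ) : ℤ)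
    push_cast
    exact near _ _ (by omega)
  · show (z'.2 - o.2) / κ ≤ (z.2 - o.2) / κ + ((1 : ℕ) : ℤ)
    push_cast
    exact near _ _ (by omega)
  · show (z.2 - o.2) / κ ≤ (z'.2 - o.2) / κ + ((1 : ℕ) : ℤ)
    push_cast
    exact near _ _ (by omega)

/-! ## 5. the room of the run -/

/-- the MIXED HALF OPEN cell -/
def pvlktHc (δ : ℝ) (k : ℤ × ℤ) : Set ℂ := {p | (k.1 : ℝ) * δ < p.re ∧ p.re ≤ ((k.1 : ℝ) + 1) * δ ∧ (k.2 : ℝ) * δ ≤ p.im ∧ p.im < ((k.2 : ℝ) + 1) * δ}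

/-- union of the mixed half open cells -/
def pvlktH (δ : ℝ) (E : Set (ℤ × ℤ)) : Set ℂ := ⋃ k ∈ E, pvlktHc δ k

theorem pvlkt_eqns_cite2 : True := by
  have := @PvlktNu.eq_1; have := @pvlktHc.eq_1; have := @pvlktH.eq_1
  trivial

theorem pvlkt_H_sub (E : Set (ℤ × ℤ)) : pvlktH δ E ⊆ pvtU δ E := by
  intro p hp
  simp only [pvlktH, pvtU, Set.mem_iUnion] at hp ⊢
  obtain ⟨k, hk, h1, h2, h3, h4⟩ := hp
  exact ⟨k, hk, h1.le, h2, h3, h4.le⟩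

/-- the cell of a point -/
theorem pvlkt_109_mem_Hc (hδ : 0 < δ) (p : ℂ) (k : ℤ × ℤ) : p ∈ pvlktHc δ k ↔ k = (⌈p.re / δ⌉ - 1, ⌊p.im / δ⌋) := by
  constructor
  · rintro ⟨h1, h2, h3, h4⟩
    have e1 : ⌈p.re / δ⌉ = k.1 + 1 := by
      rw [Int.ceil_eq_iff]
      push_cast
      constructor
      · rw [lt_div_iff₀ hδ]; linarith
      · rw [div_le_iff₀ hδ]; exact h2
    have e2 : ⌊p.im / δ⌋ = k.2 := by
      rw [Int.floor_eq_iff]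
      constructor
      · rw [le_div_iff₀ hδ]; exact h3
      · rw [div_lt_iff₀ hδ]; exact h4
    rw [e1, e2]
    ext <;> simp
  · rintro rfl
    have a1 := Int.ceil_lt_add_one (p.re / δ)
    have a2 := Int.le_ceil (p.re / δ)
    have a3 := Int.floor_le (p.im / δ)
    have a4 := Int.lt_floor_add_one (p.im / δ)
    refine ⟨?_, ?_, ?_, ?_⟩
    · show (((⌈p.re / δ⌉ - 1 : ℤ)) : ℝ) * δ < p.re
      push_cast
      have : (⌈p.re / δ⌉ : ℝ) - 1 < p.re / δ := by linarith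
      rwa [lt_div_iff₀ hδ] at this
    · show p.re ≤ ((((⌈p.re / δ⌉ - 1 : ℤ)) : ℝ) + 1) * δ
      push_cast
      rw [div_le_iff₀ hδ] at a2
      linarith
    · show ((⌊p.im / δ⌋ : ℤ) : ℝ) * δ ≤ p.im
      rwa [le_div_iff₀ hδ] at a3
    · show p.im < (((⌊p.im / δ⌋ : ℤ) : ℝ) + 1) * δ
      rwa [div_lt_iff₀ hδ] at a4

theorem pvlkt_109_mem_H (hδ : 0 < δ) (p : ℂ) (E : Set (ℤ × ℤ)) : p ∈ pvlktH δ E ↔ (⌈p.re / δ⌉ - 1, ⌊p.im / δ⌋) ∈ E := by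
  simp only [pvlktH, Set.mem_iUnion]
  constructor
  · rintro ⟨k, hk, hp⟩
    rwa [← (pvlkt_109_mem_Hc hδ p k).1 hp]
  · intro h
    exact ⟨_, h, (pvlkt_109_mem_Hc hδ p _).2 rfl⟩

/-- a cell and its East, South East or South neighbour: the union is star shaped round the South East corner of the cell -/
theorem pvlkt_109_star (hδ : 0 < δ) (u v : ℤ × ℤ) (h : v = u ∨ (v.1 = u.1 + 1 ∧ v.2 = u.2) ∨ (v.1 = u.1 + 1 ∧ v.2 = u.2 - 1) ∨ (v.1 = u.1 ∧ v.2 = u.2 - 1)) :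
    IsPreconnected (pvlktHc δ u ∪ pvlktHc δ v) := by
  have hq : (⟨((u.1 : ℝ) + 1) * δ, (u.2 : ℝ) * δ⟩ : ℂ) ∈ pvlktHc δ u := ⟨by show _ < ((u.1 : ℝ) + 1) * δ; linarith, le_rfl, le_rfl, by show (u.2 : ℝ) * δ < _; linarith⟩
  have hs : StarConvex ℝ (⟨((u.1 : ℝ) + 1) * δ, (u.2 : ℝ) * δ⟩ : ℂ) (pvlktHc δ u ∪ pvlktHc δ v) := by
    intro y hy a b ha hb hab
    rcases eq_or_lt_of_le hb with hb0 | hb0
    · left
      have ha1 : a = 1 := by linarith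
      rw [← hb0, ha1, one_smul, zero_smul, add_zero]
      exact hq
    · have e1 : (a • (⟨((u.1 : ℝ) + 1) * δ, (u.2 : ℝ) * δ⟩ : ℂ) + b • y).re = a * (((u.1 : ℝ) + 1) * δ) + b * y.re := by
        simp [Complex.add_re, Complex.real_smul]
      have e2 : (a • (⟨((u.1 : ℝ) + 1) * δ, (u.2 : ℝ) * δ⟩ : ℂ) + b • y).im = a * ((u.2 : ℝ) * δ) + b * y.im := by
        simp [Complex.add_im, Complex.real_smul]
      have ha' : a = 1 - b := by linarith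
      have key : ∀ w : ℤ × ℤ, y ∈ pvlktHc δ w → (w = u ∨ (w.1 = u.1 + 1 ∧ w.2 = u.2) ∨ (w.1 = u.1 + 1 ∧ w.2 = u.2 - 1) ∨ (w.1 = u.1 ∧ w.2 = u.2 - 1)) →
          a • (⟨((u.1 : ℝ) + 1) * δ, (u.2 : ℝ) * δ⟩ : ℂ) + b • y ∈ pvlktHc δ w := by
        rintro w ⟨h1, h2, h3, h4⟩ hw
        show (w.1 : ℝ) * δ < _ ∧ _ ≤ ((w.1 : ℝ) + 1) * δ ∧ (w.2 : ℝ) * δ ≤ _ ∧ _ < ((w.2 : ℝ) + 1) * δ
        rw [e1, e2]
        have hδa : 0 ≤ a * δ := mul_nonneg ha hδ.le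
        rcases hw with rfl | ⟨w1, w2⟩ | ⟨w1, w2⟩ | ⟨w1, w2⟩
        · subst ha'
          refine ⟨?_, ?_, ?_, ?_⟩ <;> nlinarith
        · simp only [w1, w2] at h1 h2 h3 h4 ⊢
          push_cast at h1 h2 h3 h4 ⊢
          subst ha'
          refine ⟨?_, ?_, ?_, ?_⟩ <;> nlinarith
        · simp only [w1, w2] at h1 h2 h3 h4 ⊢
          push_cast at h1 h2 h3 h4 ⊢
          subst ha'
          refine ⟨?_, ?_, ?_, ?_⟩ <;> nlinarith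
        · simp only [w1, w2] at h1 h2 h3 h4 ⊢
          push_cast at h1 h2 h3 h4 ⊢
          subst ha'
          refine ⟨?_, ?_, ?_, ?_⟩ <;> nlinarith
      rcases hy with hy | hy
      · exact Or.inl (key u hy (Or.inl rfl))
      · exact Or.inr (key v hy h)
  exact (hs.isPathConnected (Or.inl hq)).isConnected.isPreconnected

theorem pvlkt_109_adj (hδ : 0 < δ) {u v : ℤ × ℤ} (h : tscG.Adj u v) : IsPreconnected (pvlktHc δ u ∪ pvlktHc δ v) := by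
  rw [tsc_G_adj, tsc_adj_iff] at h
  rcases h with h | h | h | h | h | h
  · exact pvlkt_109_star hδ u v (Or.inr (Or.inl h))
  · rw [Set.union_comm]
    exact pvlkt_109_star hδ v u (Or.inr (Or.inr (Or.inr ⟨by omega, by omega⟩)))
  · rw [Set.union_comm]
    exact pvlkt_109_star hδ v u (Or.inr (Or.inr (Or.inl ⟨by omega, by omega⟩)))
  · rw [Set.union_comm]
    exact pvlkt_109_star hδ v u (Or.inr (Or.inl ⟨by omega, by omega⟩))
  · exact pvlkt_109_star hδ u v (Or.inr (Or.inr (Or.inr h)))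
  · exact pvlkt_109_star hδ u v (Or.inr (Or.inr (Or.inl h)))

theorem pvlkt_109_chain (hδ : 0 < δ) {E : Set (ℤ × ℤ)} {u v : ℤ × ℤ} (hu : u ∈ E) (h : TscR tscG E u v) :
    ∃ t : Set ℂ, t ⊆ pvlktH δ E ∧ pvlktHc δ u ⊆ t ∧ pvlktHc δ v ⊆ t ∧ IsPreconnected t := by
  have hsub : ∀ k ∈ E, pvlktHc δ k ⊆ pvlktH δ E := fun k hk p hp => by
    simp only [pvlktH, Set.mem_iUnion]
    exact ⟨k, hk, hp⟩
  induction h with
  | refl =>
    refine ⟨pvlktHc δ u, hsub u hu, le_rfl, le_rfl, ?_⟩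
    have := pvlkt_109_star hδ u u (Or.inl rfl)
    rwa [Set.union_self] at this
  | @tail b c' _ hbc ih =>
    obtain ⟨t, h1, h2, h3, h4⟩ := ih
    have hq : (⟨((b.1 : ℝ) + 1) * δ, (b.2 : ℝ) * δ⟩ : ℂ) ∈ pvlktHc δ b := ⟨by show _ < ((b.1 : ℝ) + 1) * δ; linarith, le_rfl, le_rfl, by show (b.2 : ℝ) * δ < _; linarith⟩
    refine ⟨t ∪ (pvlktHc δ b ∪ pvlktHc δ c'), Set.union_subset h1 (Set.union_subset (hsub b hbc.2.1) (hsub c' hbc.2.2)), h2.trans Set.subset_union_left,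
      fun p hp => Or.inr (Or.inr hp), ?_⟩
    exact IsPreconnected.union _ (h3 hq) (Or.inl hq) h4 (pvlkt_109_adj hδ hbc.1)

/-- every point lies in a mixed half open cell -/
theorem pvlkt_Hc_cover (hδ : 0 < δ) (q : ℂ) : q ∈ pvlktHc δ (⌈q.re / δ⌉ - 1, ⌊q.im / δ⌋) := by
  have a1 := Int.ceil_lt_add_one (q.re / δ)
  have a2 := Int.le_ceil (q.re / δ)
  have b1 := Int.floor_le (q.im / δ)
  have b2 := Int.lt_floor_add_one (q.im / δ)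
  refine ⟨?_, ?_, ?_, ?_⟩
  · show (((⌈q.re / δ⌉ - 1 : ℤ)) : ℝ) * δ < q.re
    push_cast
    rw [← lt_div_iff₀ hδ]
    linarith
  · show q.re ≤ ((((⌈q.re / δ⌉ - 1 : ℤ)) : ℝ) + 1) * δ
    push_cast
    rw [← div_le_iff₀ hδ]
    linarith
  · show ((⌊q.im / δ⌋ : ℤ) : ℝ) * δ ≤ q.im
    rw [← le_div_iff₀ hδ]
    exact b1
  · show q.im < (((⌊q.im / δ⌋ : ℤ) : ℝ) + 1) * δ
    rw [← div_lt_iff₀ hδ]
    exact b2

/-- the half open cells tile the plane -/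
theorem pvlkt_H_compl (hδ : 0 < δ) (E : Set (ℤ × ℤ)) : (pvlktH δ E)ᶜ = pvlktH δ Eᶜ := by
  ext p
  rw [Set.mem_compl_iff, pvlkt_109_mem_H hδ, pvlkt_109_mem_H hδ, Set.mem_compl_iff]

/-- the union of the closed cells whose eight neighbours are in `E` too lies in the half open union -/
theorem pvlkt_U_H (hδ : 0 < δ) {E E' : Set (ℤ × ℤ)} (h : pvtwN 1 E ⊆ E') : pvtU δ E ⊆ pvlktH δ E' := by
  intro p hp
  simp only [pvtU, Set.mem_iUnion] at hp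
  obtain ⟨z, hz, h1, h2, h3, h4⟩ := hp
  rw [pvlkt_109_mem_H hδ]
  apply h
  obtain ⟨a1, a2, a3, a4⟩ := (pvlkt_109_mem_Hc hδ p _).2 rfl
  set k : ℤ × ℤ := (⌈p.re / δ⌉ - 1, ⌊p.im / δ⌋) with hk
  have c1 : (k.1 : ℝ) < (z.1 : ℝ) + 1 := by
    by_contra hc
    push Not at hc
    nlinarith
  have c2 : (z.1 : ℝ) ≤ (k.1 : ℝ) + 1 := by
    by_contra hc
    push Not at hc
    nlinarith
  have c3 : (k.2 : ℝ) ≤ (z.2 : ℝ) + 1 := by
    by_contra hc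
    push Not at hc
    nlinarith
  have c4 : (z.2 : ℝ) < (k.2 : ℝ) + 1 := by
    by_contra hc
    push Not at hc
    nlinarith
  have d1 : k.1 < z.1 + 1 := by exact_mod_cast c1
  have d2 : z.1 ≤ k.1 + 1 := by exact_mod_cast c2
  have d3 : k.2 ≤ z.2 + 1 := by exact_mod_cast c3
  have d4 : z.2 < k.2 + 1 := by exact_mod_cast c4
  refine ⟨z, hz, ?_, ?_, ?_, ?_⟩ <;> push_cast <;> omega

/-- **connected sets of cells (triangular adjacency) have connected half open unions** -/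
theorem pvlkt_H_conn (hδ : 0 < δ) {E : Set (ℤ × ℤ)} (hE : TscConn tscG E) : IsPreconnected (pvlktH δ E) := by
  refine isPreconnected_of_forall_pair fun x hx y hy => ?_
  simp only [pvlktH, Set.mem_iUnion] at hx hy
  obtain ⟨u, hu, hxu⟩ := hx
  obtain ⟨v, hv, hyv⟩ := hy
  obtain ⟨t, h1, h2, h3, h4⟩ := pvlkt_109_chain hδ hu (hE u hu v hv)
  exact ⟨t, h1, h2 hxu, h3 hyv, h4⟩

/-- **the complement of the room of a hull is preconnected** -/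
theorem pvlkt_H_co (hδ : 0 < δ) {X : Set (ℤ × ℤ)} (hX : X.Finite) : IsPreconnected (pvlktH δ (pvtHull X))ᶜ := by
  rw [pvlkt_H_compl hδ]
  have e : (pvtHull X)ᶜ = pvtOut X := compl_compl _
  rw [e]
  exact pvlkt_H_conn hδ (pvt_out_conn hX)

theorem pvlkt_H_bdd {E : Set (ℤ × ℤ)} (hE : E.Finite) : Bornology.IsBounded (pvlktH δ E) := by
  unfold pvlktH
  refine (Bornology.isBounded_biUnion hE).2 fun k _ => ?_
  refine (Metric.isBounded_closedBall (x := (0 : ℂ)) (r := (|(k.1 : ℝ) * δ| + |((k.1 : ℝ) + 1) * δ|) + (|(k.2 : ℝ) * δ| + |((k.2 : ℝ) + 1) * δ|))).subset ?_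
  rintro p ⟨h1, h2, h3, h4⟩
  rw [mem_closedBall_zero_iff]
  refine (Complex.norm_le_abs_re_add_abs_im p).trans (add_le_add ?_ ?_)
  · rw [abs_le]
    constructor
    · have := neg_abs_le ((k.1 : ℝ) * δ); have := abs_nonneg (((k.1 : ℝ) + 1) * δ); linarith
    · have := le_abs_self (((k.1 : ℝ) + 1) * δ); have := abs_nonneg ((k.1 : ℝ) * δ); linarith
  · rw [abs_le]
    constructor
    · have := neg_abs_le ((k.2 : ℝ) * δ); have := abs_nonneg (((k.2 : ℝ) + 1) * δ); linarith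
    · have := le_abs_self (((k.2 : ℝ) + 1) * δ); have := abs_nonneg ((k.2 : ℝ) * δ); linarith

/-- a ball round a point of a cell of `E` lies in the room as soon as the collar `N^j E` does, `r ≤ j δ` -/
theorem pvlkt_H_ball (hδ : 0 < δ) {E E' : Set (ℤ × ℤ)} {j : ℕ} (h : pvtwN (j + 1) E ⊆ E') {r : ℝ} (hr : r ≤ j * δ) {p : ℂ} (hp : p ∈ pvtU δ E) : closedBall p r ⊆ pvlktH δ E' := by
  intro q hq
  rw [mem_closedBall_iff_norm] at hq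
  simp only [pvtU, Set.mem_iUnion] at hp
  obtain ⟨z, hz, p1, p2, p3, p4⟩ := hp
  have hc := pvlkt_Hc_cover hδ q
  set k : ℤ × ℤ := (⌈q.re / δ⌉ - 1, ⌊q.im / δ⌋) with hk
  obtain ⟨c1, c2, c3, c4⟩ := hc
  have r1 := (abs_le.1 ((Complex.abs_re_le_norm (q - p)).trans hq))
  have r2 := (abs_le.1 ((Complex.abs_im_le_norm (q - p)).trans hq))
  rw [Complex.sub_re] at r1
  rw [Complex.sub_im] at r2
  simp only [pvlktH, Set.mem_iUnion]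
  refine ⟨k, h ⟨z, hz, ?_, ?_, ?_, ?_⟩, c1, c2, c3, c4⟩
  · have : (k.1 : ℝ) * δ < ((z.1 : ℝ) + 1 + j) * δ := by nlinarith
    have h2 : (k.1 : ℝ) < (z.1 : ℝ) + 1 + j := lt_of_mul_lt_mul_right this hδ.le
    have h3 : k.1 < z.1 + 1 + j := by exact_mod_cast h2
    push_cast
    omega
  · have : ((z.1 : ℝ) - j) * δ ≤ ((k.1 : ℝ) + 1) * δ := by nlinarith
    have h2 : (z.1 : ℝ) - j ≤ (k.1 : ℝ) + 1 := le_of_mul_le_mul_right this hδ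
    have h3 : z.1 - j ≤ k.1 + 1 := by exact_mod_cast h2
    push_cast
    omega
  · have : (k.2 : ℝ) * δ ≤ ((z.2 : ℝ) + 1 + j) * δ := by nlinarith
    have h2 : (k.2 : ℝ) ≤ (z.2 : ℝ) + 1 + j := le_of_mul_le_mul_right this hδ
    have h3 : k.2 ≤ z.2 + 1 + j := by exact_mod_cast h2
    push_cast
    omega
  · have : ((z.2 : ℝ) - j) * δ < ((k.2 : ℝ) + 1) * δ := by nlinarith
    have h2 : (z.2 : ℝ) - j < (k.2 : ℝ) + 1 := lt_of_mul_lt_mul_right this hδ.le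
    have h3 : z.2 - j < k.2 + 1 := by exact_mod_cast h2
    push_cast
    omega

end Claimed.Agent.R289
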