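-- KEEP
import Claimed.Agent.R289.Tr.ForceQ
import Claimed.Agent.R289.Tr.Tower
import Claimed.Agent.R289.Tr.Band

/-!
# Row 289 (S0537), THE WALL, ROAD P = Tr/LinkPoly : THE GENERIC DICTIONARY  CELLS ⟹ CONTRACTS OF A LINK      (ruling P16ter of 273; pen + prover helper272; prefix `pvn2_`, defs `pvn2*`, `Pvn2*`)

DATA `D : Pvn2Dat` (fine cells of mesh `δ`, ABSOLUTE grid): `W₁ W₂` = the two lanes (finite side-connected polyominoes), `R₁ R₂` = cells which cover the rooms of the four side paths OFF the state regions, `P` = THE HULL (finite, complement connected),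
`T` = cells of the window of the corridor, `Q` = the union of the two state regions (planar), `ρ` = the mesh of the corridor.
TERMS: `D.Et := pvtU δ T \ Q`,   `D.KE := pvn2K δ P = (pvtU δ Pᶜ)ᶜ` (the OPEN room: 277),   `D.walk : PvydWalk` (`L_i := pvn2Walk W_i` = a full walk of MINIMAL length, `K_i := pvlnW δ L_i ∪ pvtU δ R_i`, `M := pvjoMesh ρ Et`).
CONTRACT `D.Ok e e' Z Z' ms p p'` : inclusions / disjointness of cell sets + the four hook zones (147 15).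
OUTPUT: `Geo Rooms` (`Tr/ForceI`, `Tr/EndP`), `PvnhWin PvnhOff lim` (`Tr/ForceM`), lengths, `PvnlLay` at `Mk := univ` (`Tr/ForceD`), the clause `core` of `PvkjCn.Wf` (113), the meshes of the list (`Pvn2Ms`, THE SEAM AT THE RIM OF A ROUND STATE REGION `pvn2_seam`), `Pvn2At` from a room of the far vertex, `Pvn2Rec` (`Tr/ForceQ`).
-/

set_option autoImplicit false
set_option linter.unusedSectionVars false
set_option linter.unusedVariables false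

namespace Claimed.Agent.R289

open MeasureTheory ProbabilityTheory Set Filter Topology Metric Claimed.Agent.R291
open scoped ENNReal NNReal

/-! ## 1. cells and balls -/

/-- **the OPEN room of a polyomino**: the points all of whose cells belong to `P` -/
def pvn2K (δ : ℝ) (P : Set (ℤ × ℤ)) : Set ℂ := (pvtU δ Pᶜ)ᶜ

theorem pvn2_eqns_cite2 : True := by
  have := @pvn2K.eq_1
  trivial

section cells

variable {δ r : ℝ} {P P' S : Set (ℤ × ℤ)} {X : Set ℂ} {z : ℂ} {c : ℤ × ℤ} {k : ℕ}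

theorem pvn2_mem_U {w : ℂ} : w ∈ pvtU δ S ↔ ∃ c ∈ S, w ∈ pvtSq δ c := by
  unfold pvtU
  simp only [mem_iUnion, exists_prop]

/-- a set lies in the open room iff all the cells which it meets belong to the polyomino -/
theorem pvn2_sub_K : X ⊆ pvn2K δ P ↔ pvtCells δ X ⊆ P := by
  constructor
  · rintro h c ⟨w, hw, hX⟩
    by_contra hc
    exact h hX (pvn2_mem_U.2 ⟨c, hc, hw⟩)
  · intro h w hw hU
    obtain ⟨c, hc, hwc⟩ := pvn2_mem_U.1 hU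
    exact hc (h ⟨w, hwc, hw⟩)

theorem pvn2_K_sub (hδ : 0 < δ) : pvn2K δ P ⊆ pvtU δ P := by
  intro w hw
  obtain ⟨c, hc⟩ := pvt_sq_cover hδ w
  refine pvn2_mem_U.2 ⟨c, ?_, hc⟩
  by_contra h
  exact hw (pvn2_mem_U.2 ⟨c, h, hc⟩)

theorem pvn2_K_mono (h : P ⊆ P') : pvn2K δ P ⊆ pvn2K δ P' :=
  compl_subset_compl.2 (pvt_U_mono (compl_subset_compl.2 h))

theorem pvn2_K_bdd (hδ : 0 < δ) (hP : P.Finite) : Bornology.IsBounded (pvn2K δ P) :=
  (pvt_U_compact hP).isBounded.subset (pvn2_K_sub hδ)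

/-- **the complement of the open room is preconnected** as soon as the complement of the polyomino is connected (corners allowed) -/
theorem pvn2_K_co (hδ : 0 < δ) (hP : TscConn pvtG8 Pᶜ) : IsPreconnected (pvn2K δ P)ᶜ := by
  unfold pvn2K
  rw [compl_compl]
  exact pvt_U_conn hδ hP

theorem pvn2_U_meas (δ : ℝ) (S : Set (ℤ × ℤ)) : MeasurableSet (pvtU δ S) := by
  unfold pvtU
  exact MeasurableSet.biUnion (to_countable _) fun c _ => pvt_sq_closed.measurableSet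

theorem pvn2_K_meas (δ : ℝ) (P : Set (ℤ × ℤ)) : MeasurableSet (pvn2K δ P) := (pvn2_U_meas _ _).compl

theorem pvn2_not_K (h : z ∈ pvtU δ Pᶜ) : z ∉ pvn2K δ P := fun h' => h' h

/-- the cells which meet a ball of radius `< k δ` round a point of the cell `c` -/
theorem pvn2_ball_cells (hδ : 0 < δ) (hz : z ∈ pvtSq δ c) (hr : r < k * δ) : pvtCells δ (closedBall z r) ⊆ pvtwN k {c} := by
  rintro a ⟨w, ⟨a1, a2, a3, a4⟩, hw⟩
  obtain ⟨c1, c2, c3, c4⟩ := hz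
  rw [mem_closedBall, Complex.dist_eq] at hw
  have hre : |(w - z).re| ≤ ‖w - z‖ := Complex.abs_re_le_norm _
  have him : |(w - z).im| ≤ ‖w - z‖ := Complex.abs_im_le_norm _
  rw [Complex.sub_re] at hre
  rw [Complex.sub_im] at him
  obtain ⟨r1, r2⟩ := abs_le.1 (hre.trans hw)
  obtain ⟨i1, i2⟩ := abs_le.1 (him.trans hw)
  have key : ∀ x y : ℤ, (x : ℝ) * δ < ((y : ℝ) + 1 + k) * δ → x ≤ y + k := by
    intro x y h
    have h1 : (x : ℝ) < (y : ℝ) + 1 + k := lt_of_mul_lt_mul_right h hδ.le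
    have h2 : x < y + 1 + k := by exact_mod_cast h1
    omega
  refine ⟨c, rfl, key _ _ ?_, key _ _ ?_, key _ _ ?_, key _ _ ?_⟩ <;> nlinarith

theorem pvn2_ball_U (hδ : 0 < δ) (hz : z ∈ pvtSq δ c) (hr : r < k * δ) : closedBall z r ⊆ pvtU δ (pvtwN k {c}) :=
  (pvt_cells_cover hδ).trans (pvt_U_mono (pvn2_ball_cells hδ hz hr))

theorem pvn2_ball_K (hδ : 0 < δ) (hz : z ∈ pvtSq δ c) (hr : r < k * δ) (hP : pvtwN k {c} ⊆ P) : closedBall z r ⊆ pvn2K δ P :=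
  pvn2_sub_K.2 ((pvn2_ball_cells hδ hz hr).trans hP)

theorem pvn2_C_eq (δ : ℝ) (c : ℤ × ℤ) : pvlnC δ c = pvtSq δ c := rfl

theorem pvn2_lnU (δ : ℝ) (L : List (ℤ × ℤ)) : pvlnU δ L = pvtU δ {k | k ∈ L} := rfl

/-- the window of a cell of a walk lies in the open block -/
theorem pvn2_W_cell (hδ : 0 < δ) {w : ℂ} (hw : w ∈ pvmSq (pvlnCtr δ c) (δ / 2 + 2 * (δ / 2 / 8))) : pvtCells δ {w} ⊆ pvtwN 1 {c} := by
  rintro a ⟨w', ⟨a1, a2, a3, a4⟩, rfl⟩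
  obtain ⟨h1, h2⟩ := hw
  simp only [pvlnCtr] at h1 h2
  obtain ⟨r1, r2⟩ := abs_le.1 h1
  obtain ⟨i1, i2⟩ := abs_le.1 h2
  have key : ∀ x y : ℤ, (x : ℝ) * δ < ((y : ℝ) + 2) * δ → x ≤ y + (1 : ℕ) := by
    intro x y h
    have h1 : (x : ℝ) < (y : ℝ) + 2 := lt_of_mul_lt_mul_right h hδ.le
    have h2 : x < y + 2 := by exact_mod_cast h1
    push_cast
    omega
  refine ⟨c, rfl, key _ _ ?_, key _ _ ?_, key _ _ ?_, key _ _ ?_⟩ <;> nlinarith

theorem pvn2_lnW_cells (hδ : 0 < δ) (L : List (ℤ × ℤ)) : pvtCells δ (pvlnW δ L) ⊆ pvtwN 1 {k | k ∈ L} := by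
  rintro a ⟨w, ha, hw⟩
  unfold pvlnW at hw
  simp only [mem_iUnion, exists_prop] at hw
  obtain ⟨c, hc, hwc⟩ := hw
  exact pvtw_N_mono le_rfl (singleton_subset_iff.2 hc) (pvn2_W_cell hδ hwc ⟨w, ha, rfl⟩)

theorem pvn2_lnW_sub (hδ : 0 < δ) (L : List (ℤ × ℤ)) : pvlnW δ L ⊆ pvtU δ (pvtwN 1 {k | k ∈ L}) :=
  (pvt_cells_cover hδ).trans (pvt_U_mono (pvn2_lnW_cells hδ L))

/-- two planar sets are disjoint as soon as no cell meets both -/
theorem pvn2_disj_cells (hδ : 0 < δ) {A B : Set ℂ} (h : Disjoint (pvtCells δ A) (pvtCells δ B)) : Disjoint A B := by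
  rw [Set.disjoint_left]
  intro w hA hB
  obtain ⟨c, hc⟩ := pvt_sq_cover hδ w
  exact Set.disjoint_left.1 h ⟨w, hc, hA⟩ ⟨w, hc, hB⟩

theorem pvn2_cells_U (hδ : 0 < δ) (S : Set (ℤ × ℤ)) : pvtCells δ (pvtU δ S) ⊆ pvtwN 1 S := by
  rintro a ⟨w, ha, hw⟩
  obtain ⟨c, hc, hwc⟩ := pvn2_mem_U.1 hw
  rw [pvtw_N_one]
  refine ⟨c, hc, ?_⟩
  rcases (pvt_sq_meet hδ).1 ⟨w, hwc, ha⟩ with h | h
  · exact Or.inl h.symm
  · exact Or.inr h

end cells

/-! ## 2. covers -/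

section cov

variable {δ : ℝ} {P S : Set (ℤ × ℤ)} {W : List (ℝ × Set ℂ)} {A : Set ℂ}

/-- **cover of a union of cells**: cell by cell, a window of the list with its two collars -/
theorem pvn2_cov_cell (hδ : 0 < δ)
    (h : ∀ c ∈ S, ∃ q ∈ W, ∃ k j : ℕ, 5 * q.1 < k * δ ∧ pvtU δ (pvtwN k {c}) ⊆ q.2 ∧ 3 * q.1 < j * δ ∧ pvtwN j {c} ⊆ P) : PvnlCov W (pvtU δ S) (pvn2K δ P) := by
  intro z hz
  obtain ⟨c, hc, hzc⟩ := pvn2_mem_U.1 hz
  obtain ⟨q, hq, k, j, h1, h2, h3, h4⟩ := h c hc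
  exact ⟨q, hq, (pvn2_ball_U hδ hzc h1).trans h2, pvn2_ball_K hδ hzc h3 h4⟩

/-- cover of a union of cells, no target -/
theorem pvn2_cov_univ (hδ : 0 < δ) (h : ∀ c ∈ S, ∃ q ∈ W, ∃ k : ℕ, 5 * q.1 < k * δ ∧ pvtU δ (pvtwN k {c}) ⊆ q.2) : PvnlCov W (pvtU δ S) univ := by
  intro z hz
  obtain ⟨c, hc, hzc⟩ := pvn2_mem_U.1 hz
  obtain ⟨q, hq, k, h1, h2⟩ := h c hc
  exact ⟨q, hq, (pvn2_ball_U hδ hzc h1).trans h2, subset_univ _⟩

/-- **cover of a room**: deep in ONE window of the list, its collar in the hull -/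
theorem pvn2_cov_room {q : ℝ × Set ℂ} (hq : q ∈ W) (h5 : A ⊆ pvtrCore (5 * q.1) q.2) (h3 : pvtCells δ (cthickening (3 * q.1) A) ⊆ P) : PvnlCov W A (pvn2K δ P) := by
  intro z hz
  exact ⟨q, hq, h5 hz, pvn2_sub_K.2 ((pvt_cells_mono (closedBall_subset_cthickening hz _)).trans h3)⟩

/-- a cover gives the clause `core` of 113 -/
theorem pvn2_core_of_cov {U X : Set ℂ} (h0 : ∀ q ∈ W, 0 ≤ q.1) (h : PvnlCov W U X) : ∀ w ∈ U, ∃ q ∈ W, w ∈ pvtrCore (3 * q.1) q.2 := by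
  intro w hw
  obtain ⟨q, hq, h1, -⟩ := h w hw
  exact ⟨q, hq, (closedBall_subset_closedBall (by have := h0 q hq; linarith)).trans h1⟩

end cov

/-! ## 3. walks -/

/-- `L` is a full walk on the polyomino `W` -/
def Pvn2Wk (W : Set (ℤ × ℤ)) (L : List (ℤ × ℤ)) : Prop := L ≠ [] ∧ L.IsChain PvlnAdj ∧ PvfpFull L ∧ {k | k ∈ L} = W

open Classical in
/-- **THE WALK OF RECORD** on a polyomino: a full walk of minimal length -/
noncomputable def pvn2Walk (W : Set (ℤ × ℤ)) : List (ℤ × ℤ) :=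
  if h : ∃ n : ℕ, ∃ L, Pvn2Wk W L ∧ L.length = n then (Nat.find_spec h).choose else []

theorem pvn2_eqns_cite3 : True := by
  have := @Pvn2Wk.eq_1; have := @pvn2Walk.eq_1
  trivial

section walk

variable {W : Set (ℤ × ℤ)} {L : List (ℤ × ℤ)}

theorem pvn2_walk_spec (h : Pvn2Wk W L) : Pvn2Wk W (pvn2Walk W) ∧ (pvn2Walk W).length ≤ L.length := by
  classical
  have hex : ∃ n : ℕ, ∃ L, Pvn2Wk W L ∧ L.length = n := ⟨_, L, h, rfl⟩
  unfold pvn2Walk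
  rw [dif_pos hex]
  refine ⟨(Nat.find_spec hex).choose_spec.1, ?_⟩
  rw [(Nat.find_spec hex).choose_spec.2]
  exact Nat.find_min' hex ⟨L, h, rfl⟩

/-- side connection, in the words of `Tr/ForceP` -/
theorem pvn2_conn (h : TscConn pvtbG4 W) : ∀ a ∈ W, ∀ b ∈ W, Relation.ReflTransGen (fun x y => PvlnAdj x y ∧ y ∈ W) a b := by
  intro a ha b hb
  refine Relation.ReflTransGen.mono ?_ _ _ (h a ha b hb)
  rintro x y ⟨hxy, -, hy⟩
  refine ⟨?_, hy⟩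
  rcases hxy with ⟨a1, a2⟩ | ⟨a1, a2⟩ | ⟨a1, a2⟩ | ⟨a1, a2⟩
  · exact Or.inl ⟨a2, Or.inl a1⟩
  · exact Or.inl ⟨a2, Or.inr a1⟩
  · exact Or.inr ⟨a1, Or.inl a2⟩
  · exact Or.inr ⟨a1, Or.inr a2⟩

/-- the walk of record of a finite side-connected polyomino -/
theorem pvn2_walk_ok (hfin : W.Finite) (hne : W.Nonempty) (hc : TscConn pvtbG4 W) : Pvn2Wk W (pvn2Walk W) := by
  obtain ⟨L, hL⟩ := pvfp_walk_exists hfin hne (pvn2_conn hc)
  exact (pvn2_walk_spec hL).1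

end walk

/-! ## 4. the data of a link, the contract -/

/-- **THE CELL DATA OF A LINK** (fine cells of mesh `δ`, absolute grid) -/
structure Pvn2Dat where
  /-- mesh of the fine cells -/
  δ : ℝ
  /-- mesh of the sites in the window of the corridor -/
  ρ : ℝ
  /-- the lane of the colour of the rim, the lane of the other colour -/
  W₁ : Set (ℤ × ℤ)
  W₂ : Set (ℤ × ℤ)
  /-- cells which cover the rooms of the side paths of the colour of the rim (of the other colour) OFF the state regions -/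
  R₁ : Set (ℤ × ℤ)
  R₂ : Set (ℤ × ℤ)
  /-- THE HULL -/
  P : Set (ℤ × ℤ)
  /-- cells of the window of the corridor -/
  T : Set (ℤ × ℤ)
  /-- the union of the two state regions -/
  Q : Set ℂ

namespace Pvn2Dat

variable (D : Pvn2Dat)

/-- the window of the corridor: OFF the two state regions BY CONSTRUCTION, no sliver along their rims -/
def Et : Set ℂ := pvtU D.δ D.T \ D.Q

/-- the room of the lanes -/
def KE : Set ℂ := pvn2K D.δ D.P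

/-- **THE WALKS OF RECORD** -/
noncomputable def walk : PvydWalk where
  δ := D.δ
  L₁ := pvn2Walk D.W₁
  L₂ := pvn2Walk D.W₂
  K₁ := pvlnW D.δ (pvn2Walk D.W₁) ∪ pvtU D.δ D.R₁
  K₂ := pvlnW D.δ (pvn2Walk D.W₂) ∪ pvtU D.δ D.R₂
  Et := D.Et
  M := pvjoMesh D.ρ D.Et

/-- **THE CONTRACT**: `e e'` = the two ends, `Z Z'` = the zones of the two plugs (113), `ms` = the list of the windows with their meshes, `p p' ∈ ms` = the windows of the rooms of the two ends -/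
structure Ok (e e' : PvnkEnd) (Z Z' : Set ℂ) (ms : List (ℝ × Set ℂ)) (p p' : ℝ × Set ℂ) : Prop where
  δ0 : 0 < D.δ
  ρ0 : 0 < D.ρ
  col : e'.c = e.c
  Q_eq : e.O ∪ e'.O = D.Q
  /-- the lanes: finite, not empty, side connected -/
  f₁ : D.W₁.Finite
  n₁ : D.W₁.Nonempty
  c₁ : TscConn pvtbG4 D.W₁
  f₂ : D.W₂.Finite
  n₂ : D.W₂.Nonempty
  c₂ : TscConn pvtbG4 D.W₂
  /-- the hull: finite, connected complement (corners allowed) -/
  fP : D.P.Finite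
  cP : TscConn pvtG8 D.Pᶜ
  fT : D.T.Finite
  /-- the two plugs with their windows are apart -/
  dj : Disjoint (e.O ∪ e.E) (e'.O ∪ e'.E)
  far : Disjoint Z Z'
  /-- the rooms off the state regions -/
  r₁ : (e.A₁ \ e.O) ∪ (e'.A₁ \ e'.O) ⊆ pvtU D.δ D.R₁
  r₂ : (e.A₂ \ e.O) ∪ (e'.A₂ \ e'.O) ⊆ pvtU D.δ D.R₂
  /-- the two colours do not touch -/
  sep : Disjoint (pvtwN 1 (D.W₁ ∪ D.R₁)) (D.W₂ ∪ D.R₂)
  /-- the blocks of the lanes keep off the state regions -/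
  off : Disjoint (pvtU D.δ (pvtwN 1 (D.W₁ ∪ D.W₂))) D.Q
  /-- the four hook zones (147 15) -/
  z₁ : PvfpZone D.δ D.W₁ e.A₁ e.X₁ e.Y₁
  z₁' : PvfpZone D.δ D.W₁ e'.A₁ e'.X₁ e'.Y₁
  z₂ : PvfpZone D.δ D.W₂ e.A₂ e.X₂ e.Y₂
  z₂' : PvfpZone D.δ D.W₂ e'.A₂ e'.X₂ e'.Y₂
  /-- the rooms lie deep in the window of their end, their collars in the hull -/
  mp : p ∈ ms
  mp' : p' ∈ ms
  d : e.A₁ ∪ e.A₂ ⊆ pvtrCore (5 * p.1) p.2
  d' : e'.A₁ ∪ e'.A₂ ⊆ pvtrCore (5 * p'.1) p'.2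
  h : pvtCells D.δ (cthickening (3 * p.1) (e.A₁ ∪ e.A₂)) ⊆ D.P
  h' : pvtCells D.δ (cthickening (3 * p'.1) (e'.A₁ ∪ e'.A₂)) ⊆ D.P
  /-- every cell of a lane: a window of the list with its two collars -/
  w : ∀ c ∈ D.W₁ ∪ D.W₂, ∃ q ∈ ms, ∃ k j : ℕ, 5 * q.1 < k * D.δ ∧ pvtU D.δ (pvtwN k {c}) ⊆ q.2 ∧ 3 * q.1 < j * D.δ ∧ pvtwN j {c} ⊆ D.P
  /-- every cell of the hull lies deep in a window of the list -/
  k : ∀ c ∈ D.P, ∃ q ∈ ms, ∃ k : ℕ, 5 * q.1 < k * D.δ ∧ pvtU D.δ (pvtwN k {c}) ⊆ q.2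

end Pvn2Dat

theorem pvn2_eqns_cite4 : True := by
  have := @Pvn2Dat.Et.eq_1; have := @Pvn2Dat.KE.eq_1; have := @Pvn2Dat.walk.eq_1
  trivial

section dict

variable {D : Pvn2Dat} {e e' : PvnkEnd} {Z Z' : Set ℂ} {ms : List (ℝ × Set ℂ)} {p p' : ℝ × Set ℂ}

theorem Pvn2Dat.Ok.wk₁ (H : D.Ok e e' Z Z' ms p p') : Pvn2Wk D.W₁ (pvn2Walk D.W₁) := pvn2_walk_ok H.f₁ H.n₁ H.c₁
theorem Pvn2Dat.Ok.wk₂ (H : D.Ok e e' Z Z' ms p p') : Pvn2Wk D.W₂ (pvn2Walk D.W₂) := pvn2_walk_ok H.f₂ H.n₂ H.c₂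

/-- two points of the windows of two cells: the cells touch -/
theorem pvn2_W_W {δ : ℝ} (hδ : 0 < δ) {c c' : ℤ × ℤ} {w : ℂ} (hw : w ∈ pvmSq (pvlnCtr δ c) (δ / 2 + 2 * (δ / 2 / 8))) (hw' : w ∈ pvmSq (pvlnCtr δ c') (δ / 2 + 2 * (δ / 2 / 8))) :
    c' ∈ pvtwN 1 {c} := by
  obtain ⟨h1, h2⟩ := hw
  obtain ⟨h3, h4⟩ := hw'
  simp only [pvlnCtr] at h1 h2 h3 h4
  obtain ⟨a1, a2⟩ := abs_le.1 h1
  obtain ⟨a3, a4⟩ := abs_le.1 h2
  obtain ⟨b1, b2⟩ := abs_le.1 h3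
  obtain ⟨b3, b4⟩ := abs_le.1 h4
  have key : ∀ x y : ℤ, (x : ℝ) * δ < ((y : ℝ) + 2) * δ → x ≤ y + (1 : ℕ) := by
    intro x y h
    have h1 : (x : ℝ) < (y : ℝ) + 2 := lt_of_mul_lt_mul_right h hδ.le
    have h2 : x < y + 2 := by exact_mod_cast h1
    push_cast
    omega
  refine ⟨c, rfl, key _ _ ?_, key _ _ ?_, key _ _ ?_, key _ _ ?_⟩ <;> nlinarith

/-- the zones of the mixed order are disjoint -/
theorem pvn2_djK {δ : ℝ} (hδ : 0 < δ) {L₁ L₂ : List (ℤ × ℤ)} {R₁ R₂ : Set (ℤ × ℤ)} (sep : Disjoint (pvtwN 1 ({k | k ∈ L₁} ∪ R₁)) ({k | k ∈ L₂} ∪ R₂)) :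
    Disjoint (pvlnW δ L₁ ∪ pvtU δ R₁) (pvlnW δ L₂ ∪ pvtU δ R₂) := by
  rw [Set.disjoint_left]
  have key : ∀ c ∈ ({k | k ∈ L₁} ∪ R₁ : Set (ℤ × ℤ)), ∀ c' ∈ ({k | k ∈ L₂} ∪ R₂ : Set (ℤ × ℤ)), c' ∈ pvtwN 1 {c} → False := fun c hc c' hc' h =>
    Set.disjoint_left.1 sep (pvtw_N_mono le_rfl (singleton_subset_iff.2 hc) h) hc'
  have hW : ∀ (L : List (ℤ × ℤ)) (w : ℂ), w ∈ pvlnW δ L → ∃ c ∈ L, w ∈ pvmSq (pvlnCtr δ c) (δ / 2 + 2 * (δ / 2 / 8)) := by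
    intro L w hw
    unfold pvlnW at hw
    simp only [mem_iUnion, exists_prop] at hw
    exact hw
  rintro w (h1 | h1) (h2 | h2)
  · obtain ⟨c, hc, hwc⟩ := hW _ _ h1
    obtain ⟨c', hc', hwc'⟩ := hW _ _ h2
    exact key c (Or.inl hc) c' (Or.inl hc') (pvn2_W_W hδ hwc hwc')
  · obtain ⟨c, hc, hwc⟩ := hW _ _ h1
    obtain ⟨c', hc', hwc'⟩ := pvn2_mem_U.1 h2
    exact key c (Or.inl hc) c' (Or.inr hc') (pvn2_W_cell hδ hwc ⟨w, hwc', rfl⟩)
  · obtain ⟨c, hc, hwc⟩ := pvn2_mem_U.1 h1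
    obtain ⟨c', hc', hwc'⟩ := hW _ _ h2
    exact key c (Or.inr hc) c' (Or.inl hc') (pvtw_N_symm (pvn2_W_cell hδ hwc' ⟨w, hwc, rfl⟩))
  · obtain ⟨c, hc, hwc⟩ := pvn2_mem_U.1 h1
    obtain ⟨c', hc', hwc'⟩ := pvn2_mem_U.1 h2
    exact key c (Or.inr hc) c' (Or.inr hc') (pvn2_cells_U hδ {c} ⟨w, hwc', pvn2_mem_U.2 ⟨c, rfl, hwc⟩⟩)

/-- **`Geo`** -/
theorem Pvn2Dat.Ok.geo (H : D.Ok e e' Z Z' ms p p') : (D.walk.lk e e').Geo where
  col := H.col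
  dj := H.dj
  δ_pos := H.δ0
  ne₁ := H.wk₁.1
  ne₂ := H.wk₂.1
  ch₁ := H.wk₁.2.1
  ch₂ := H.wk₂.2.1
  full₁ := H.wk₁.2.2.1
  full₂ := H.wk₂.2.2.1
  djK := by
    refine pvn2_djK H.δ0 ?_
    rw [H.wk₁.2.2.2, H.wk₂.2.2.2]
    exact H.sep
  w₁ := subset_union_left
  w₂ := subset_union_left
  off₁ := by
    show Disjoint (pvlnW D.δ (pvn2Walk D.W₁)) (e.O ∪ e'.O)
    rw [H.Q_eq]
    refine H.off.mono_left ((pvn2_lnW_sub H.δ0 _).trans (pvt_U_mono (pvtw_N_mono le_rfl ?_)))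
    rw [H.wk₁.2.2.2]
    exact subset_union_left
  off₂ := by
    show Disjoint (pvlnW D.δ (pvn2Walk D.W₂)) (e.O ∪ e'.O)
    rw [H.Q_eq]
    refine H.off.mono_left ((pvn2_lnW_sub H.δ0 _).trans (pvt_U_mono (pvtw_N_mono le_rfl ?_)))
    rw [H.wk₂.2.2.2]
    exact subset_union_right
  z₁ := by
    show PvfpZone D.δ {k | k ∈ pvn2Walk D.W₁} e.A₁ e.X₁ e.Y₁
    rw [H.wk₁.2.2.2]; exact H.z₁
  z₁' := by
    show PvfpZone D.δ {k | k ∈ pvn2Walk D.W₁} e'.A₁ e'.X₁ e'.Y₁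
    rw [H.wk₁.2.2.2]; exact H.z₁'
  z₂ := by
    show PvfpZone D.δ {k | k ∈ pvn2Walk D.W₂} e.A₂ e.X₂ e.Y₂
    rw [H.wk₂.2.2.2]; exact H.z₂
  z₂' := by
    show PvfpZone D.δ {k | k ∈ pvn2Walk D.W₂} e'.A₂ e'.X₂ e'.Y₂
    rw [H.wk₂.2.2.2]; exact H.z₂'

/-- **`Rooms`** -/
theorem Pvn2Dat.Ok.rooms (H : D.Ok e e' Z Z' ms p p') : (D.walk.lk e e').Rooms where
  a₁ := fun x hx => by
    by_cases hO : x ∈ e.O
    · exact Or.inl hO
    · exact Or.inr (Or.inr (H.r₁ (Or.inl ⟨hx, hO⟩)))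
  a₂ := fun x hx => by
    by_cases hO : x ∈ e.O
    · exact Or.inl hO
    · exact Or.inr (Or.inr (H.r₂ (Or.inl ⟨hx, hO⟩)))
  a₁' := fun x hx => by
    by_cases hO : x ∈ e'.O
    · exact Or.inl hO
    · exact Or.inr (Or.inr (H.r₁ (Or.inr ⟨hx, hO⟩)))
  a₂' := fun x hx => by
    by_cases hO : x ∈ e'.O
    · exact Or.inl hO
    · exact Or.inr (Or.inr (H.r₂ (Or.inr ⟨hx, hO⟩)))

theorem Pvn2Dat.Ok.mEt (H : D.Ok e e' Z Z' ms p p') (mO : MeasurableSet e.O) (mO' : MeasurableSet e'.O) : MeasurableSet D.Et := by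
  unfold Pvn2Dat.Et
  rw [← H.Q_eq]
  exact (pvn2_U_meas _ _).diff (mO.union mO')

theorem Pvn2Dat.Ok.bEt (H : D.Ok e e' Z Z' ms p p') : Bornology.IsBounded D.Et := (pvt_U_compact H.fT).isBounded.subset sdiff_subset

/-- **`PvnhWin`** -/
theorem Pvn2Dat.Ok.win (H : D.Ok e e' Z Z' ms p p') (mO : MeasurableSet e.O) (mO' : MeasurableSet e'.O) : PvnhWin D.walk.Et D.walk.M := pvnh_mesh_win D.ρ (H.mEt mO mO')

/-- **`PvnhOff`** -/
theorem Pvn2Dat.Ok.offW (H : D.Ok e e' Z Z' ms p p') : PvnhOff (D.walk.lk e e') D.walk.Et D.walk.M := by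
  refine pvnh_mesh_off D.ρ ?_
  show Disjoint D.Et (e.O ∪ e'.O)
  rw [H.Q_eq]
  exact disjoint_sdiff_left

/-- **the guard fails with probability `o(1)`** -/
theorem Pvn2Dat.Ok.lim (H : D.Ok e e' Z Z' ms p p') : Tendsto (fun ε : ℝ => pvP ε (D.walk.M)ᶜ) (𝓝[>] 0) (𝓝 0) := pvnh_mesh_lim H.ρ0 H.bEt

/-- **lengths**: any full walk bounds the walk of record -/
theorem Pvn2Dat.len₁ (D : Pvn2Dat) {n : ℕ} (h : ∃ L, Pvn2Wk D.W₁ L ∧ L.length ≤ n) : D.walk.L₁.length ≤ n := by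
  obtain ⟨L, h1, h2⟩ := h
  exact (pvn2_walk_spec h1).2.trans h2

theorem Pvn2Dat.len₂ (D : Pvn2Dat) {n : ℕ} (h : ∃ L, Pvn2Wk D.W₂ L ∧ L.length ≤ n) : D.walk.L₂.length ≤ n := by
  obtain ⟨L, h1, h2⟩ := h
  exact (pvn2_walk_spec h1).2.trans h2

/-- **`PvnlLay`** at `Mk := univ` -/
theorem Pvn2Dat.Ok.lay (H : D.Ok e e' Z Z' ms p p') : PvnlLay (D.walk.lk e e') ms D.KE univ Z Z' where
  bK := pvn2_K_bdd H.δ0 H.fP
  co := pvn2_K_co H.δ0 H.cP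
  far := H.far
  cov₁ := by
    show PvnlCov ms (e.A₁ ∪ pvlnU D.δ (pvn2Walk D.W₁) ∪ e'.A₁) (pvn2K D.δ D.P)
    rw [pvn2_lnU, H.wk₁.2.2.2]
    refine pvnl_cov_union (pvnl_cov_union ?_ ?_) ?_
    · exact pvn2_cov_room H.mp (subset_union_left.trans H.d) ((pvt_cells_mono (cthickening_subset_of_subset _ subset_union_left)).trans H.h)
    · exact pvn2_cov_cell H.δ0 fun c hc => H.w c (Or.inl hc)
    · exact pvn2_cov_room H.mp' (subset_union_left.trans H.d') ((pvt_cells_mono (cthickening_subset_of_subset _ subset_union_left)).trans H.h')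
  cov₂ := by
    show PvnlCov ms (e.A₂ ∪ pvlnU D.δ (pvn2Walk D.W₂) ∪ e'.A₂) (pvn2K D.δ D.P)
    rw [pvn2_lnU, H.wk₂.2.2.2]
    refine pvnl_cov_union (pvnl_cov_union ?_ ?_) ?_
    · exact pvn2_cov_room H.mp (subset_union_right.trans H.d) ((pvt_cells_mono (cthickening_subset_of_subset _ subset_union_right)).trans H.h)
    · exact pvn2_cov_cell H.δ0 fun c hc => H.w c (Or.inr hc)
    · exact pvn2_cov_room H.mp' (subset_union_right.trans H.d') ((pvt_cells_mono (cthickening_subset_of_subset _ subset_union_right)).trans H.h')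
  covK := pvnl_cov_mono (pvn2_cov_univ H.δ0 H.k) (pvn2_K_sub H.δ0) Subset.rfl

/-- **the clause `core` of `PvkjCn.Wf`** on the room of the lanes -/
theorem Pvn2Dat.Ok.core (H : D.Ok e e' Z Z' ms p p') (h0 : ∀ q ∈ ms, 0 ≤ q.1) : ∀ w ∈ D.KE, ∃ q ∈ ms, w ∈ pvtrCore (3 * q.1) q.2 :=
  pvn2_core_of_cov h0 H.lay.covK

end dict

/-! ## 5. the meshes of the list -/

/-- **the meshes of the list follow from the two side events and the guard of the corridor** -/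
def Pvn2Ms (e e' : PvnkEnd) (ρ : ℝ) (Et : Set ℂ) (ms : List (ℝ × Set ℂ)) : Prop :=
  ∀ η : Conf PvPt, η ∈ e.L → η ∈ e'.L → PvtrMesh ρ Et (cfSites η) → ∀ q ∈ ms, PvtrMesh q.1 q.2 (cfSites η)

theorem pvn2_eqns_cite5 : True := by
  have := @Pvn2Ms.eq_1
  trivial

section mesh

variable {e e' : PvnkEnd} {ρ μ R : ℝ} {Et E B : Set ℂ} {ms : List (ℝ × Set ℂ)} {Y : Set ℂ} {z : ℂ}

theorem pvn2_ms_nil : Pvn2Ms e e' ρ Et [] := fun _ _ _ _ q hq => absurd hq (List.not_mem_nil)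

theorem pvn2_ms_cons {q : ℝ × Set ℂ} (h : ∀ η : Conf PvPt, η ∈ e.L → η ∈ e'.L → PvtrMesh ρ Et (cfSites η) → PvtrMesh q.1 q.2 (cfSites η)) (t : Pvn2Ms e e' ρ Et ms) :
    Pvn2Ms e e' ρ Et (q :: ms) := by
  intro η h1 h2 h3 q' hq'
  rcases List.mem_cons.1 hq' with rfl | hq'
  · exact h η h1 h2 h3
  · exact t η h1 h2 h3 q' hq'

/-- a mesh passes to a smaller window -/
theorem pvn2_mesh_mono (h : PvtrMesh μ E Y) (hB : B ⊆ E) : PvtrMesh μ B Y := fun w hw => h w (pvtr_core_mono hB hw)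

/-- **THE SEAM AT THE RIM OF A ROUND STATE REGION**: mesh `μ` in the disc, mesh `ρ` in a window OFF the disc ⟹ mesh `2 μ + ρ` in their union -/
theorem pvn2_seam (hμ : 0 ≤ μ) (hμR : μ ≤ R) (hρ : 0 ≤ ρ) (h1 : PvtrMesh μ (closedBall z R) Y) (h2 : PvtrMesh ρ Et Y) : PvtrMesh (2 * μ + ρ) (closedBall z R ∪ Et) Y := by
  intro w hw
  by_cases hc : ‖w - z‖ ≤ R + ρ
  · -- pull the point inside the disc
    by_cases hin : ‖w - z‖ ≤ R - μ
    · have hcore : w ∈ pvtrCore μ (closedBall z R) := by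
        intro x hx
        rw [mem_closedBall, Complex.dist_eq] at hx ⊢
        have : ‖x - z‖ ≤ ‖x - w‖ + ‖w - z‖ := by
          have := norm_add_le (x - w) (w - z)
          rwa [sub_add_sub_cancel] at this
        linarith
      obtain ⟨u, hu, huw⟩ := h1 w hcore
      exact ⟨u, hu, by linarith⟩
    · push Not at hin
      have hpos : 0 < ‖w - z‖ := by linarith
      set t : ℝ := (R - μ) / ‖w - z‖ with ht
      have ht0 : 0 ≤ t := div_nonneg (by linarith) hpos.le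
      have ht1 : t ≤ 1 := (div_le_one hpos).2 hin.le
      set w' : ℂ := z + (t : ℂ) * (w - z) with hw'
      have n1 : ‖w' - z‖ = R - μ := by
        rw [hw', add_sub_cancel_left, norm_mul, Complex.norm_real, Real.norm_eq_abs, abs_of_nonneg ht0, ht, div_mul_cancel₀ _ hpos.ne']
      have n2 : ‖w - w'‖ = ‖w - z‖ - (R - μ) := by
        have e1 : w - w' = ((1 - t : ℝ) : ℂ) * (w - z) := by
          rw [hw']; push_cast; ring
        rw [e1, norm_mul, Complex.norm_real, Real.norm_eq_abs, abs_of_nonneg (by linarith), sub_mul, one_mul, ht, div_mul_cancel₀ _ hpos.ne']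
      have hcore : w' ∈ pvtrCore μ (closedBall z R) := by
        intro x hx
        rw [mem_closedBall, Complex.dist_eq] at hx ⊢
        have : ‖x - z‖ ≤ ‖x - w'‖ + ‖w' - z‖ := by
          have := norm_add_le (x - w') (w' - z)
          rwa [sub_add_sub_cancel] at this
        linarith
      obtain ⟨u, hu, huw⟩ := h1 w' hcore
      refine ⟨u, hu, ?_⟩
      have : ‖w - u‖ ≤ ‖w - w'‖ + ‖w' - u‖ := by
        have := norm_add_le (w - w') (w' - u)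
        rwa [sub_add_sub_cancel] at this
      linarith
  · push Not at hc
    have hcore : w ∈ pvtrCore ρ Et := by
      intro x hx
      have hx' : x ∈ closedBall w (2 * μ + ρ) := closedBall_subset_closedBall (by linarith) hx
      rcases hw hx' with h | h
      · exfalso
        rw [mem_closedBall, Complex.dist_eq] at hx h
        have : ‖w - z‖ ≤ ‖w - x‖ + ‖x - z‖ := by
          have := norm_add_le (w - x) (x - z)
          rwa [sub_add_sub_cancel] at this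
        rw [norm_sub_rev w x] at this
        linarith
      · exact h
    obtain ⟨u, hu, huw⟩ := h2 w hcore
    exact ⟨u, hu, by linarith⟩

end mesh

/-! ## 6. the ends, the record of (DET) -/

section rec

variable {D : Pvn2Dat} {e e' : PvnkEnd} {p p' : ℝ × Set ℂ} {ε : ℝ} {G G' : Set (Conf PvPt)} {C : PvkjCn}

/-- **`Pvn2At` from a room of the far vertex** which is covered by cells off the hull -/
theorem pvn2_at_of {𝔢 : PvkjEnd ℂ} {b out : Bool} {V : Set ℂ} {δ : ℝ} {P : Set (ℤ × ℤ)}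
    (h : ∀ᵐ η ∂(pvP ε), η ∈ G → ∃ g : (pvkiT η).Gate (pvcmS η b), 𝔢.Is _ _ (pvkiT η) Subtype.val (pvcmS η b) g ∧ PvnlDic e η b g out ∧ ((cond out g.vm g.vp : ↥(cfSites η)) : ℂ) ∈ V)
    (hV : V ⊆ pvtU δ Pᶜ) : Pvn2At ε G 𝔢 e b (pvn2K δ P) out := by
  unfold Pvn2At
  filter_upwards [h] with η h1 h2
  obtain ⟨g, a1, a2, a3⟩ := h1 h2
  exact ⟨g, a1, a2, pvn2_not_K (hV a3)⟩

/-- the meshes of the list, a.s. form of `Pvn2Rec` -/
theorem pvn2_rec_mesh {ms : List (ℝ × Set ℂ)} (hms : Pvn2Ms e e' D.ρ D.Et ms) {η : Conf PvPt} (hη : η ∈ pvnhA₀ (D.walk.lk e e') D.walk.M) : ∀ q ∈ ms, PvtrMesh q.1 q.2 (cfSites η) :=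
  hms η hη.1.1.1 hη.1.1.2 (pvjo_mesh_of hη.2)

/-- **THE RECORD OF (DET) FROM THE CELL DATA** -/
theorem Pvn2Dat.Ok.toRec (H : D.Ok e e' C.e.Z C.e'.Z C.ms p p') (hW : C.Wf) (hc : e.c = C.col) (cut : C.Kc = D.KE \ (C.e.I ∪ C.e'.I))
    (src : Pvn2At ε G C.e e C.col D.KE true) (tgt : Pvn2At ε G' C.e' e' C.col D.KE false) (hms : Pvn2Ms e e' D.ρ D.Et C.ms) :
    Pvn2Rec ε (D.walk.lk e e') D.walk.M G G' C D.KE where
  wf := hW
  col := hc
  lay := H.lay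
  cut := cut
  src := src
  tgt := tgt
  mesh := Eventually.of_forall fun η _ _ h => pvn2_rec_mesh hms h

end rec

end Claimed.Agent.R289
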