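-- KEEP
import Claimed.Agent.R289.Tr.Band
import Claimed.Agent.R289.Tr.CorrPl
import Claimed.Agent.R289.Defs.FitReg

/-!
# Row 289 (S0537), WB3 = FIT, file Tr/BandFit : **(COR)** of FIT-DET (`W1_118.md` Part V.5)      (helper20; prefix `pvtb_`, continues `Tr/Band.lean`)

INPUT (118 151 211):  `E` = the `δ`-cells which meet the thin obstacle `K`;   the two fronts lie in `pvtOut (pvtwN (j + 5) E)` (TRIANGULAR outside of the sup-norm neighbourhood).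
OUTPUT (209 62):  ONE rectilinear corridor `c` of `δ`-cells without near return (`PvtbCor`), inside a prescribed box, whose cells miss `pvtwN (j + 1) E`, from door to door.

ALL ON ONE MESH.   The triangular outside is neither well composed nor 4-connected, and a sup-norm neighbourhood is not well composed either (two 3 x 3 squares may touch at a corner).
Way out: 3-BLOCKS.  `pvtbObs j E := D_{3,2} (Hull_{8,4} (blocks which meet pvtwN j E))` = the (8,4)-hull of the blocks, fattened by ONE cell:  well composed, complement 4-connected (`pvtb_poly`),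
    `pvtwN (j + 1) E  ⊆  pvtbObs j E  ⊆  (pvtOut (pvtwN (j + 5) E))ᶜ`      (the price of the passage is 4 cells).

* sec. 10  `pvtbObs`: `pvtb_obs_sup`, `pvtb_obs_out`, `pvtb_obs_box`, `pvtb_obs_finite`, `pvtb_obs_wc`, `pvtb_obs_compl_conn`
* sec. 11  CLAMP: a path off an obstacle which lies in the interior of a box is pushed into the box (`pvtb_clamp_R`);  `Box \ Obs` is well composed and 4-connected;  length of a corridor in a box (`pvtb_cor_len`)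
* sec. 12  `pvtb_fit_plain` : corridor between two cells of the outside
* sec. 13  WHISKERS = the standard links door -> front.   `pvtbWh p d l` = the cells `p + i d`, `i ≤ l`.   The door cell `p` lies in `pvtwN j E` (next to the tip), the front `p + l d` in the outside.
           A geodesic of `(Box \ Obs) ∪ Wh_t ∪ Wh_s` from door to door is a corridor and is FORCED to start with `p_t, p_t + d_t` and to end with `p_s + d_s, p_s`:   **`pvtb_fit_door`**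
* sec. 14  PLANE: `pvtbPl δ m S` = the union of the squares of mesh `δ / (2m+1)` of the fine cells of `S`, ALIGNED with the coarse grid (`pvtb_pl_block`: the block of `p` is `pvtSq δ p`);  lanes in the plane
* sec. 15  CHAMBERS.   The corridor must not come back to the INNER MOUTHS (links tip -> door): a geodesic which starts at a front in the free half mouth may run BACK along the link.   So the chambers `Mt`, `Ms` (functions of the types) are added to the obstacle.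
           `pvtb_fit_chamber` = NO CAVE (Janiszewski of 292): accessibility for `K` alone gives accessibility for `K ∪ chamber`, as soon as the cells of `K` near the chamber lie on ONE connected stretch which stays, with the chamber, in a box off the front.
           **`pvtb_fit_mouth`** = (COR) of record: doors = top sides of the chambers (functions of the types), the corridor leaves the chamber straight through the door and never comes back to `K` nor to the chambers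
* sec. 16  WORD (vocabulary of 166 `Tr/CellChain`, 209 `Defs/FitReg`).   `pvtbWord n f` = the letters of the cells `f 1 … f n` of a `PvtbCor (n+1) f`, door `pvtbDoor δ f j` = midpoint of the common side of `f j`, `f (j+1)`, frame `δ · pvtZ (f 1 - f 0)`:
           `pvtb_word_D / _Z / _C` (frames, doors, centres), `pvtb_word_disp`, **`pvtb_word_ok`** (`Γ.Ok`), `pvtb_word_simple` (`PvccSimple`), `pvtb_word_nr` (`PvfeNR`), `pvtb_word_adm` (`PvfeAdm δ 3`)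
* sec. 17  **`pvtb_fit_mouth_pl`** = `pvtb_fit_mouth` with PLANE hypotheses (discs, rectangles `pvtcRect`, protected radius): no integer box left to the consumer
* sec. 18  NOZZLE.   `pvtb_noz_half` (one end, abstract): inside the mouth the corridor IS its whisker and it never comes back;   **`pvtb_word_noz`** = `PvfeNoz (rM + 4 δ)` (MB / E20) for the word of the corridor of `pvtb_fit_mouth_pl`, `4 ≤ j`
* sec. 13b GEODESY.   `pvtb_cor_exists_geo` (every cell at its exact distance from both ends), MANHATTAN (`pvtb_mh_le`, `pvtb_mh_eq`), **`PvtbRun n f p d l`** = the corridor meets the whisker exactly along an initial straight run;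
           `pvtb_fit_door_run`, `pvtb_fit_mouth_run`, **`pvtb_fit_mouth_pl_run`** = the old theorems + the two runs (the old names are corollaries)
* sec. 19  **`pvtb_word_lk`** = `PvfeLk δ (rM + 4 δ) rL` (209, `Defs/FitReg` v5) for the word of the corridor of `pvtb_fit_mouth_pl_run`: links := the two runs minus their last cells;  the middle cells are off `pvtwN 4 (cells (K ∪ discs))` (`pvtb_lk_half`: the last cell of a run is next to a cell off `pvtwN (j+1)`);  `pvtb_wh_apart`, `pvtb_disc_far`, `pvtb_wh_far`, `pvtb_collar_off`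
-/

set_option autoImplicit false

namespace Claimed.Agent.R289

open Relation Claims.C0467 Claimed.Agent.R291

/-! ### 10. the obstacle of record -/

/-- the (8,4)-hull of the 3-blocks which meet `pvtwN j E`, fattened by one cell -/
def pvtbObs (j : ℕ) (E : Set (ℤ × ℤ)) : Set (ℤ × ℤ) := pvtbD 3 2 (pvtbHull (pvtbCo 1 '' pvtwN j E))

theorem pvtb_obs_sup (j : ℕ) (E : Set (ℤ × ℤ)) : pvtwN (j + 1) E ⊆ pvtbObs j E := by
  intro w hw
  rw [add_comm, ← pvtw_N_add] at hw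
  obtain ⟨v, hv, h1, h2, h3, h4⟩ := hw
  have hs := pvtb_Co_spec (m := 1) (by norm_num) v
  refine ⟨pvtbCo 1 v, pvtb_hull_sub ⟨v, hv, rfl⟩, ?_, ?_, ?_, ?_⟩ <;> push_cast at h1 h2 h3 h4 <;> omega

/-- the 3 x 3 blocks round the block of a cell off `pvtwN (j + 5) E` do not meet `pvtwN j E` -/
theorem pvtb_obs_free {j : ℕ} {E : Set (ℤ × ℤ)} {u q : ℤ × ℤ} (hu : u ∉ pvtwN (j + 5) E)
    (hq : q ∈ tscBox ((pvtbCo 1 u).1 - 1) ((pvtbCo 1 u).1 + 1) ((pvtbCo 1 u).2 - 1) ((pvtbCo 1 u).2 + 1)) : q ∉ pvtbCo 1 '' pvtwN j E := by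
  rintro ⟨w, ⟨z, hz, h1, h2, h3, h4⟩, rfl⟩
  have hs := pvtb_Co_spec (m := 1) (by norm_num) u
  have hs' := pvtb_Co_spec (m := 1) (by norm_num) w
  simp only [tscBox, Set.mem_ofPred_eq] at hq
  exact hu ⟨z, hz, by push_cast; omega, by push_cast; omega, by push_cast; omega, by push_cast; omega⟩

theorem pvtb_obs_out {j : ℕ} {E : Set (ℤ × ℤ)} {v : ℤ × ℤ} (hv : v ∈ pvtOut (pvtwN (j + 5) E)) : v ∉ pvtbObs j E := by
  rintro ⟨p, hp, h1, h2, h3, h4⟩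
  apply hp
  -- local moves
  have loc : ∀ u, u ∉ pvtwN (j + 5) E → ∀ q q', q ∈ tscBox ((pvtbCo 1 u).1 - 1) ((pvtbCo 1 u).1 + 1) ((pvtbCo 1 u).2 - 1) ((pvtbCo 1 u).2 + 1) →
      q' ∈ tscBox ((pvtbCo 1 u).1 - 1) ((pvtbCo 1 u).1 + 1) ((pvtbCo 1 u).2 - 1) ((pvtbCo 1 u).2 + 1) → TscR pvtbG4 (pvtbCo 1 '' pvtwN j E)ᶜ q q' := by
    intro u hu q q' hq hq'
    exact tsc_R_mono (fun x hx => pvtb_obs_free hu hx) (pvtb_box_conn _ _ _ _ q hq q' hq')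
  have self : ∀ u : ℤ × ℤ, pvtbCo 1 u ∈ tscBox ((pvtbCo 1 u).1 - 1) ((pvtbCo 1 u).1 + 1) ((pvtbCo 1 u).2 - 1) ((pvtbCo 1 u).2 + 1) := by
    intro u; simp only [tscBox, Set.mem_ofPred_eq]; omega
  have path : ∀ t, TscR tscG (pvtwN (j + 5) E)ᶜ v t → TscR pvtbG4 (pvtbCo 1 '' pvtwN j E)ᶜ (pvtbCo 1 v) (pvtbCo 1 t) := by
    intro t ht
    induction ht with
    | refl => exact tsc_R_refl _
    | tail _ h2 ih =>
      obtain ⟨ad, hx, _⟩ := h2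
      refine tsc_R_trans ih (loc _ hx _ _ (self _) ?_)
      rcases pvtb_Co_adj (m := 1) (by norm_num) (pvtb_tri_G8 ad) with e | ⟨_, e1, e2, e3, e4⟩
      · rw [← e]; exact self _
      · simp only [tscBox, Set.mem_ofPred_eq]; omega
  intro B hB
  obtain ⟨t, ht, hR⟩ := hv (pvtbD 3 1 B) (pvtb_D_finite _ _ hB)
  refine ⟨pvtbCo 1 t, fun h => ht ((pvtb_Co_mem (m := 1) (by norm_num) B t).2 h), ?_⟩
  refine tsc_R_trans (loc v (pvt_out_sub hv) _ _ ?_ (self _)) (path t hR)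
  have hs := pvtb_Co_spec (m := 1) (by norm_num) v
  simp only [tscBox, Set.mem_ofPred_eq]; omega

theorem pvtb_obs_box {j : ℕ} {E : Set (ℤ × ℤ)} {a b c d : ℤ} (hE : E ⊆ tscBox a b c d) : pvtbObs j E ⊆ tscBox (a - j - 3) (b + j + 3) (c - j - 3) (d + j + 3) := by
  have h0 : pvtbCo 1 '' pvtwN j E ⊆ tscBox ((a - j + 1) / 3) ((b + j + 1) / 3) ((c - j + 1) / 3) ((d + j + 1) / 3) := by
    rintro _ ⟨w, hw, rfl⟩
    have := pvtw_N_box (k := j) hE hw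
    simp only [tscBox, Set.mem_ofPred_eq, pvtbCo] at this ⊢
    omega
  rintro v ⟨p, hp, h1, h2, h3, h4⟩
  have := pvtb_hull_box h0 hp
  simp only [tscBox, Set.mem_ofPred_eq] at this ⊢
  omega

theorem pvtb_obs_finite {j : ℕ} {E : Set (ℤ × ℤ)} (hE : E.Finite) : (pvtbObs j E).Finite :=
  pvtb_D_finite _ _ (pvtb_hull_finite ((pvtw_N_finite hE).image _))

theorem pvtb_obs_wc (j : ℕ) (E : Set (ℤ × ℤ)) : PvtbWC (pvtbObs j E) := pvtb_wc_D' (m := 1) (by norm_num) (by norm_num) _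

theorem pvtb_obs_compl_conn {j : ℕ} {E : Set (ℤ × ℤ)} (hE : E.Finite) : TscConn pvtbG4 (pvtbObs j E)ᶜ := by
  have hco : TscConn pvtbG4 (pvtbHull (pvtbCo 1 '' pvtwN j E))ᶜ := by
    rw [pvtb_hull_compl]
    exact pvtb_out_conn ((pvtw_N_finite hE).image _)
  exact pvtb_D_compl_conn (m := 1) (by norm_num) (by norm_num) (by norm_num) hco

/-! ### 11. clamp -/

/-- nearest point of the box -/
def pvtbClamp (a b c d : ℤ) (v : ℤ × ℤ) : ℤ × ℤ := (max a (min b v.1), max c (min d v.2))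

theorem pvtb_clamp_R {X : Set (ℤ × ℤ)} {a b c d : ℤ} (hab : a ≤ b) (hcd : c ≤ d) (hX : X ⊆ tscBox (a + 1) (b - 1) (c + 1) (d - 1)) {u v : ℤ × ℤ} (hu : u ∉ X)
    (h : TscR pvtbG4 Xᶜ u v) : TscR pvtbG4 (tscBox a b c d \ X) (pvtbClamp a b c d u) (pvtbClamp a b c d v) := by
  have mem : ∀ w, w ∉ X → pvtbClamp a b c d w ∈ tscBox a b c d \ X := by
    intro w hw
    refine ⟨by simp only [tscBox, Set.mem_ofPred_eq, pvtbClamp]; omega, fun hc => ?_⟩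
    have h1 := hX hc
    simp only [tscBox, Set.mem_ofPred_eq, pvtbClamp] at h1
    have : pvtbClamp a b c d w = w := by
      refine Prod.ext ?_ ?_ <;> simp only [pvtbClamp] <;> omega
    rw [this] at hc
    exact hw hc
  induction h with
  | refl => exact tsc_R_refl _
  | tail _ h2 ih =>
    rename_i x y _
    obtain ⟨ad, hx, hy⟩ := h2
    refine tsc_R_trans ih ?_
    by_cases e : pvtbClamp a b c d x = pvtbClamp a b c d y
    · rw [e]; exact tsc_R_refl _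
    · refine tsc_R_step ?_ (mem _ hx) (mem _ hy)
      obtain ⟨x1, x2⟩ := x
      obtain ⟨y1, y2⟩ := y
      rw [pvtb_G4_adj] at ad ⊢
      rw [Prod.ext_iff] at e
      simp only [pvtbClamp] at e ad ⊢
      rcases ad with ⟨h1, h2⟩ | ⟨h1, h2⟩ | ⟨h1, h2⟩ | ⟨h1, h2⟩
      · subst h2
        generalize max c (min d y2) = Z at *
        omega
      · subst h2
        generalize max c (min d y2) = Z at *
        omega
      · subst h1
        generalize max a (min b y1) = Z at *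
        omega
      · subst h1
        generalize max a (min b y1) = Z at *
        omega

theorem pvtb_free_conn {X : Set (ℤ × ℤ)} {a b c d : ℤ} (hX : X ⊆ tscBox (a + 1) (b - 1) (c + 1) (d - 1)) (hc : TscConn pvtbG4 Xᶜ) : TscConn pvtbG4 (tscBox a b c d \ X) := by
  intro u hu v hv
  obtain ⟨⟨g1, g2, g3, g4⟩, huX⟩ := hu
  obtain ⟨⟨k1, k2, k3, k4⟩, hvX⟩ := hv
  have h := pvtb_clamp_R (a := a) (b := b) (c := c) (d := d) (by omega) (by omega) hX huX (hc u huX v hvX)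
  have e1 : pvtbClamp a b c d u = u := by
    apply Prod.ext <;> simp only [pvtbClamp] <;> omega
  have e2 : pvtbClamp a b c d v = v := by
    apply Prod.ext <;> simp only [pvtbClamp] <;> omega
  rwa [e1, e2] at h

theorem pvtb_free_wc {X : Set (ℤ × ℤ)} {a b c d : ℤ} (hX : X ⊆ tscBox (a + 1) (b - 1) (c + 1) (d - 1)) (hw : PvtbWC X) : PvtbWC (tscBox a b c d \ X) := by
  refine pvtb_wc_diff hw (pvtb_box_wc a b c d) fun u hu v huv => ?_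
  obtain ⟨h1, h2, h3, h4⟩ := hX hu
  obtain ⟨-, g1, g2, g3, g4⟩ := (pvtb_G8_adj u v).1 huv
  exact ⟨by omega, by omega, by omega, by omega⟩

/-- a corridor inside a box is not longer than the number of cells of the box -/
theorem pvtb_cor_len {n : ℕ} {f : ℕ → ℤ × ℤ} (h : PvtbCor n f) {a b c d : ℤ} (hb : ∀ i, i ≤ n → f i ∈ tscBox a b c d) : (n : ℤ) + 1 ≤ (b - a + 1) * (d - c + 1) := by
  classical
  obtain ⟨h1, h2, h3, h4⟩ := hb 0 (Nat.zero_le n)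
  have hcard : (Finset.range (n + 1)).card ≤ (Finset.Icc a b ×ˢ Finset.Icc c d).card := by
    refine Finset.card_le_card_of_injOn f (fun i hi => ?_) (fun i hi j hj hij => ?_)
    · obtain ⟨g1, g2, g3, g4⟩ := hb i (Nat.lt_succ_iff.1 (Finset.mem_range.1 (Finset.mem_coe.1 hi)))
      exact Finset.mem_coe.2 (Finset.mem_product.2 ⟨Finset.mem_Icc.2 ⟨g1, g2⟩, Finset.mem_Icc.2 ⟨g3, g4⟩⟩)
    · exact pvtb_cor_inj h (Nat.lt_succ_iff.1 (Finset.mem_range.1 (Finset.mem_coe.1 hi))) (Nat.lt_succ_iff.1 (Finset.mem_range.1 (Finset.mem_coe.1 hj))) hij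
  rw [Finset.card_range, Finset.card_product, Int.card_Icc, Int.card_Icc] at hcard
  have e1 : ((b + 1 - a).toNat : ℤ) = b - a + 1 := by rw [Int.toNat_of_nonneg (by omega)]; ring
  have e2 : ((d + 1 - c).toNat : ℤ) = d - c + 1 := by rw [Int.toNat_of_nonneg (by omega)]; ring
  have h5 : ((n + 1 : ℕ) : ℤ) ≤ (((b + 1 - a).toNat * (d + 1 - c).toNat : ℕ) : ℤ) := by exact_mod_cast hcard
  rw [Nat.cast_mul, e1, e2] at h5
  push_cast at h5
  exact h5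

/-! ### 12. the plain corridor -/

theorem pvtb_fit_X {j : ℕ} {E : Set (ℤ × ℤ)} {a b c d a' b' c' d' : ℤ} (hE : E ⊆ tscBox a b c d) (ha : a' + j + 4 ≤ a) (hb : b + j + 4 ≤ b') (hc : c' + j + 4 ≤ c) (hd : d + j + 4 ≤ d') :
    pvtbObs j E ⊆ tscBox (a' + 1) (b' - 1) (c' + 1) (d' - 1) := by
  intro v hv
  obtain ⟨h1, h2, h3, h4⟩ := pvtb_obs_box hE hv
  exact ⟨by omega, by omega, by omega, by omega⟩

/-- **(COR), plain form** -/
theorem pvtb_fit_plain {j : ℕ} {E : Set (ℤ × ℤ)} {a b c d a' b' c' d' : ℤ} (hE : E ⊆ tscBox a b c d) (ha : a' + j + 4 ≤ a) (hb : b + j + 4 ≤ b') (hc : c' + j + 4 ≤ c) (hd : d + j + 4 ≤ d')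
    {zt zs : ℤ × ℤ} (ht : zt ∈ pvtOut (pvtwN (j + 5) E)) (hs : zs ∈ pvtOut (pvtwN (j + 5) E)) (bt : zt ∈ tscBox a' b' c' d') (bs : zs ∈ tscBox a' b' c' d') :
    ∃ (n : ℕ) (f : ℕ → ℤ × ℤ), PvtbCor n f ∧ f 0 = zt ∧ f n = zs ∧ (∀ i, i ≤ n → f i ∈ tscBox a' b' c' d') ∧ (∀ i, i ≤ n → f i ∉ pvtwN (j + 1) E) ∧
      (n : ℤ) + 1 ≤ (b' - a' + 1) * (d' - c' + 1) := by
  have hfin : E.Finite := (tsc_box_finite a b c d).subset hE
  have hX := pvtb_fit_X hE ha hb hc hd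
  have hwc : PvtbWC (tscBox a' b' c' d' \ pvtbObs j E) := pvtb_free_wc hX (pvtb_obs_wc j E)
  have hcn : TscConn pvtbG4 (tscBox a' b' c' d' \ pvtbObs j E) := pvtb_free_conn hX (pvtb_obs_compl_conn hfin)
  have mt : zt ∈ tscBox a' b' c' d' \ pvtbObs j E := ⟨bt, pvtb_obs_out ht⟩
  have ms : zs ∈ tscBox a' b' c' d' \ pvtbObs j E := ⟨bs, pvtb_obs_out hs⟩
  obtain ⟨n, f, hf, f0, fn, hU⟩ := pvtb_cor_exists hwc mt (hcn zt mt zs ms)
  exact ⟨n, f, hf, f0, fn, fun i hi => (hU i hi).1, fun i hi h => (hU i hi).2 (pvtb_obs_sup j E h), pvtb_cor_len hf fun i hi => (hU i hi).1⟩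

/-! ### 13. whiskers and doors -/

/-- the whisker `p, p + d, …, p + l d` -/
def pvtbWh (p d : ℤ × ℤ) (l : ℕ) : Set (ℤ × ℤ) := {v | ∃ i : ℕ, i ≤ l ∧ v = p + (i : ℤ) • d}

/-- coordinates of a cell of a whisker -/
theorem pvtb_wh_pt (p d : ℤ × ℤ) (i : ℤ) : p + i • d = (p.1 + i * d.1, p.2 + i * d.2) := rfl

theorem pvtb_wh_mem (p d : ℤ × ℤ) {l i : ℕ} (hi : i ≤ l) : p + (i : ℤ) • d ∈ pvtbWh p d l := ⟨i, hi, rfl⟩

theorem pvtb_wh_foot (p d : ℤ × ℤ) (l : ℕ) : p ∈ pvtbWh p d l := ⟨0, Nat.zero_le l, by simp⟩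

theorem pvtb_wh_conn (p : ℤ × ℤ) {d : ℤ × ℤ} (hd : d = (1, 0) ∨ d = (-1, 0) ∨ d = (0, 1) ∨ d = (0, -1)) (l : ℕ) : TscConn pvtbG4 (pvtbWh p d l) := by
  have key : ∀ i : ℕ, i ≤ l → TscR pvtbG4 (pvtbWh p d l) p (p + (i : ℤ) • d) := by
    intro i hi
    have h := pvtb_seg (s := pvtbWh p d l) p hd (a := 0) (b := (i : ℤ)) (Int.natCast_nonneg i) (fun t h0 h1 => by
      obtain ⟨k, rfl⟩ := Int.eq_ofNat_of_zero_le h0
      exact ⟨k, by omega, rfl⟩)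
    have e : ((p.1 + 0 * d.1, p.2 + 0 * d.2) : ℤ × ℤ) = p := by simp
    rw [e] at h
    exact h
  rintro u ⟨i, hi, rfl⟩ v ⟨k, hk, rfl⟩
  exact tsc_R_trans (tsc_R_symm (key i hi)) (key k hk)

/-- the symmetric form of well-composedness -/
theorem pvtb_wc_sym {S : Set (ℤ × ℤ)} (h : PvtbWC S) (x y : ℤ) {s t : ℤ} (hs : s = 1 ∨ s = -1) (ht : t = 1 ∨ t = -1)
    (h1 : (x, y) ∈ S) (h2 : (x + s, y + t) ∈ S) : (x + s, y) ∈ S ∨ (x, y + t) ∈ S := by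
  rcases hs with rfl | rfl <;> rcases ht with rfl | rfl
  · exact (h x y).1 h1 h2
  · have k := (h x (y + -1)).2
    rw [neg_add_cancel_right] at k
    exact (k h2 h1).symm
  · have k := (h (x + -1) y).2
    rw [neg_add_cancel_right] at k
    exact k h1 h2
  · have k := (h (x + -1) (y + -1)).1
    rw [neg_add_cancel_right, neg_add_cancel_right] at k
    exact (k h2 h1).symm

theorem pvtb_wc_of_sym {S : Set (ℤ × ℤ)} (h : ∀ (x y s t : ℤ), (s = 1 ∨ s = -1) → (t = 1 ∨ t = -1) → (x, y) ∈ S → (x + s, y + t) ∈ S → (x + s, y) ∈ S ∨ (x, y + t) ∈ S) :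
    PvtbWC S := by
  intro x y
  refine ⟨fun h1 h2 => h x y 1 1 (Or.inl rfl) (Or.inl rfl) h1 h2, fun h1 h2 => ?_⟩
  have k := h (x + 1) y (-1) 1 (Or.inr rfl) (Or.inl rfl) h1
  rw [add_neg_cancel_right] at k
  exact k h2

theorem pvtb_wh_aux {U : Set (ℤ × ℤ)} {p d : ℤ × ℤ} (hd : d = (1, 0) ∨ d = (-1, 0) ∨ d = (0, 1) ∨ d = (0, -1)) {l : ℕ}
    (foot : ∀ v, pvtbG8.Adj p v → v ∉ U) (head : p + (l : ℤ) • d ∈ U) (x y : ℤ) {s t : ℤ} (hs : s = 1 ∨ s = -1) (ht : t = 1 ∨ t = -1)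
    (h1 : (x, y) ∈ U ∪ pvtbWh p d l) (h2 : (x + s, y + t) ∈ U ∪ pvtbWh p d l) :
    ((x + s, y) ∈ U ∪ pvtbWh p d l ∨ (x, y + t) ∈ U ∪ pvtbWh p d l) ∨ (x, y) ∈ U := by
  rcases h1 with h1 | ⟨i, hi, e⟩
  · exact Or.inr h1
  rw [pvtb_wh_pt, Prod.mk.injEq] at e
  obtain ⟨ex, ey⟩ := e
  have f1 : (x, y) ∈ U ∨ (x + d.1, y + d.2) ∈ pvtbWh p d l := by
    rcases Nat.lt_or_ge i l with h | h
    · right
      refine ⟨i + 1, h, ?_⟩
      rw [pvtb_wh_pt, ex, ey, Prod.mk.injEq]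
      push_cast
      constructor <;> ring
    · left
      obtain rfl : i = l := le_antisymm hi h
      rw [pvtb_wh_pt] at head
      rw [ex, ey]
      exact head
  have f2 : (x - d.1, y - d.2) ∈ pvtbWh p d l := by
    rcases Nat.eq_zero_or_pos i with h | h
    · exfalso
      subst h
      have ex' : x = p.1 := by simpa using ex
      have ey' : y = p.2 := by simpa using ey
      rcases h2 with h2 | ⟨k, hk, e⟩
      · refine foot _ ((pvtb_G8_adj _ _).2 ⟨fun hh => ?_, ?_, ?_, ?_, ?_⟩) h2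
        · have := congrArg Prod.fst hh
          simp only at this
          rcases hs with rfl | rfl <;> omega
        all_goals (simp only; rcases hs with rfl | rfl <;> rcases ht with rfl | rfl <;> omega)
      · rw [pvtb_wh_pt, Prod.mk.injEq] at e
        obtain ⟨e1, e2⟩ := e
        rcases hd with rfl | rfl | rfl | rfl <;> simp only [mul_zero, add_zero] at e1 e2 <;> rcases hs with rfl | rfl <;> rcases ht with rfl | rfl <;> omega
    · refine ⟨i - 1, by omega, ?_⟩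
      rw [pvtb_wh_pt, ex, ey, Prod.mk.injEq]
      have : ((i - 1 : ℕ) : ℤ) = (i : ℤ) - 1 := by omega
      rw [this]
      constructor <;> ring
  have hc : (d.2 = 0 ∧ (d.1 = s ∨ d.1 = -s)) ∨ (d.1 = 0 ∧ (d.2 = t ∨ d.2 = -t)) := by
    rcases hd with rfl | rfl | rfl | rfl <;> rcases hs with rfl | rfl <;> rcases ht with rfl | rfl <;> simp
  rcases hc with ⟨h0, h | h⟩ | ⟨h0, h | h⟩
  · rw [h0, h, add_zero] at f1
    exact f1.elim Or.inr fun k => Or.inl (Or.inl (Or.inr k))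
  · rw [h0, h, sub_zero, sub_neg_eq_add] at f2
    exact Or.inl (Or.inl (Or.inr f2))
  · rw [h0, h, add_zero] at f1
    exact f1.elim Or.inr fun k => Or.inl (Or.inr (Or.inr k))
  · rw [h0, h, sub_zero, sub_neg_eq_add] at f2
    exact Or.inl (Or.inr (Or.inr f2))

/-- a well composed set with a whisker: the foot `p` has all its 8-neighbours off `U`, the head `p + l d` lies in `U` -/
theorem pvtb_wh_wc {U : Set (ℤ × ℤ)} (hU : PvtbWC U) {p d : ℤ × ℤ} (hd : d = (1, 0) ∨ d = (-1, 0) ∨ d = (0, 1) ∨ d = (0, -1)) {l : ℕ}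
    (foot : ∀ v, pvtbG8.Adj p v → v ∉ U) (head : p + (l : ℤ) • d ∈ U) : PvtbWC (U ∪ pvtbWh p d l) := by
  refine pvtb_wc_of_sym fun x y s t hs ht h1 h2 => ?_
  rcases pvtb_wh_aux hd foot head x y hs ht h1 h2 with h | hx
  · exact h
  have hs' : -s = 1 ∨ -s = -1 := by rcases hs with rfl | rfl <;> simp
  have ht' : -t = 1 ∨ -t = -1 := by rcases ht with rfl | rfl <;> simp
  have k := pvtb_wh_aux hd foot head (x + s) (y + t) hs' ht' h2 (by rw [add_neg_cancel_right, add_neg_cancel_right]; exact h1)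
  rw [add_neg_cancel_right, add_neg_cancel_right] at k
  rcases k with h | hy
  · exact h.symm
  · exact (pvtb_wc_sym hU x y hs ht hx hy).imp Or.inl Or.inl

/-- a whisker with both ends in a box lies in the box -/
theorem pvtb_wh_box {p d : ℤ × ℤ} (hd : d = (1, 0) ∨ d = (-1, 0) ∨ d = (0, 1) ∨ d = (0, -1)) {l : ℕ} {a b c e : ℤ} (h0 : p ∈ tscBox a b c e) (h1 : p + (l : ℤ) • d ∈ tscBox a b c e) :
    pvtbWh p d l ⊆ tscBox a b c e := by
  rintro _ ⟨i, hi, rfl⟩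
  rw [pvtb_wh_pt] at h1 ⊢
  obtain ⟨a1, a2, a3, a4⟩ := h0
  obtain ⟨b1, b2, b3, b4⟩ := h1
  simp only at b1 b2 b3 b4
  refine ⟨?_, ?_, ?_, ?_⟩ <;> simp only <;> rcases hd with rfl | rfl | rfl | rfl <;> simp only [mul_zero, mul_one, mul_neg, add_zero] at * <;> omega

/-- the only 4-neighbour of the foot on the whisker is the second cell -/
theorem pvtb_wh_next {p d : ℤ × ℤ} (hd : d = (1, 0) ∨ d = (-1, 0) ∨ d = (0, 1) ∨ d = (0, -1)) {l : ℕ} {v : ℤ × ℤ} (hv : v ∈ pvtbWh p d l) (h : pvtbG4.Adj p v) : v = p + d := by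
  obtain ⟨i, hi, rfl⟩ := hv
  rw [pvtb_wh_pt, pvtb_G4_adj] at h
  simp only at h
  have : i = 1 := by
    rcases hd with rfl | rfl | rfl | rfl <;> simp only [mul_zero, mul_one, mul_neg, add_zero] at h <;> omega
  subst this
  simp

/-- the 8-neighbours of a cell of `pvtwN j E` lie in the obstacle -/
theorem pvtb_obs_nb {j : ℕ} {E : Set (ℤ × ℤ)} {p v : ℤ × ℤ} (hp : p ∈ pvtwN j E) (h : pvtbG8.Adj p v) : v ∈ pvtbObs j E := by
  refine pvtb_obs_sup j E ?_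
  obtain ⟨z, hz, h1, h2, h3, h4⟩ := hp
  obtain ⟨-, g1, g2, g3, g4⟩ := (pvtb_G8_adj p v).1 h
  exact ⟨z, hz, by push_cast; omega, by push_cast; omega, by push_cast; omega, by push_cast; omega⟩

/-! ### 13b. geodesics and whiskers: the corridor meets a whisker along an initial straight run -/

/-- concatenation of two paths -/
theorem pvtb_ce_cat {U : Set (ℤ × ℤ)} {a x : ℤ × ℤ} {k : ℕ} (h : ∃ f : ℕ → ℤ × ℤ, f 0 = a ∧ f k = x ∧ ∀ i, i < k → TscStep pvtbG4 U (f i) (f (i + 1))) (m : ℕ) : ∀ y : ℤ × ℤ,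
    (∃ f : ℕ → ℤ × ℤ, f 0 = x ∧ f m = y ∧ ∀ i, i < m → TscStep pvtbG4 U (f i) (f (i + 1))) → ∃ f : ℕ → ℤ × ℤ, f 0 = a ∧ f (k + m) = y ∧ ∀ i, i < k + m → TscStep pvtbG4 U (f i) (f (i + 1)) := by
  induction m with
  | zero =>
    rintro y ⟨f, h0, hy, -⟩
    rw [← hy, h0]
    exact h
  | succ m ih =>
    rintro y ⟨f, h0, hy, hs⟩
    have := pvtb_ce_snoc (ih (f m) ⟨f, h0, rfl, fun i hi => hs i (by omega)⟩) (y := y) (by rw [← hy]; exact hs m (by omega))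
    exact this

/-- **EXISTENCE, WITH THE GEODESIC PROPERTY**: every cell of the corridor is at its exact distance from both ends -/
theorem pvtb_cor_exists_geo {U : Set (ℤ × ℤ)} (hU : PvtbWC U) {a b : ℤ × ℤ} (ha : a ∈ U) (h : TscR pvtbG4 U a b) :
    ∃ (n : ℕ) (c : ℕ → ℤ × ℤ), PvtbCor n c ∧ c 0 = a ∧ c n = b ∧ (∀ i, i ≤ n → c i ∈ U) ∧
      (∀ i, i ≤ n → ∀ k, (∃ f : ℕ → ℤ × ℤ, f 0 = a ∧ f k = c i ∧ ∀ l, l < k → TscStep pvtbG4 U (f l) (f (l + 1))) → i ≤ k) ∧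
      (∀ i, i ≤ n → ∀ k, (∃ f : ℕ → ℤ × ℤ, f 0 = c i ∧ f k = b ∧ ∀ l, l < k → TscStep pvtbG4 U (f l) (f (l + 1))) → n ≤ i + k) := by
  classical
  have hex : ∃ k, ∃ f : ℕ → ℤ × ℤ, f 0 = a ∧ f k = b ∧ ∀ i, i < k → TscStep pvtbG4 U (f i) (f (i + 1)) := by
    induction h with
    | refl => exact ⟨0, fun _ => a, rfl, rfl, fun i hi => absurd hi (by omega)⟩
    | tail _ h2 ih =>
      obtain ⟨k, hk⟩ := ih
      exact ⟨k + 1, pvtb_ce_snoc hk h2⟩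
  obtain ⟨c, c0, cn, cs, cm⟩ := pvtb_ce_geo (Nat.find hex) b (Nat.find_spec hex) (fun k hk => Nat.find_min' hex hk)
  set n := Nat.find hex with hn
  have hmem : ∀ i, i ≤ n → c i ∈ U := by
    intro i hi
    rcases (by omega : i < n ∨ i = n) with hlt | hin
    · exact (cs i hlt).2.1
    · rcases Nat.eq_zero_or_pos i with e | hpos
      · rw [e, c0]; exact ha
      · have := (cs (i - 1) (by omega)).2.2
        rwa [show i - 1 + 1 = i by omega] at this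
  have hre : ∀ i, i ≤ n → ∃ f : ℕ → ℤ × ℤ, f 0 = a ∧ f i = c i ∧ ∀ l, l < i → TscStep pvtbG4 U (f l) (f (l + 1)) :=
    fun i hi => ⟨c, c0, rfl, fun l hl => cs l (by omega)⟩
  refine ⟨n, c, ⟨fun i hi => (cs i hi).1, fun i hi e => ?_, fun i j hij hj => ⟨fun e => ?_, fun e => ?_⟩⟩, c0, cn, hmem, cm, fun i hi k hk => ?_⟩
  · have := cm (i + 2) hi i (by rw [e]; exact hre i (by omega))
    omega
  · have := cm j hj i (by rw [← e]; exact hre i (by omega))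
    omega
  · rcases pvtb_wc_step hU (hmem i (by omega)) (hmem j hj) e with h4 | ⟨m, hm, h1, h2⟩
    · have := cm j hj (i + 1) (pvtb_ce_snoc (hre i (by omega)) ⟨h4, hmem i (by omega), hmem j hj⟩)
      omega
    · have := cm j hj (i + 1 + 1) (pvtb_ce_snoc (pvtb_ce_snoc (hre i (by omega)) ⟨h1, hmem i (by omega), hm⟩) ⟨h2, hm, hmem j hj⟩)
      omega
  · exact cm n le_rfl (i + k) (by rw [cn]; exact pvtb_ce_cat (hre i hi) k b hk)

/-- the whisker as a path, upwards -/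
theorem pvtb_wh_path {U : Set (ℤ × ℤ)} {p d : ℤ × ℤ} (hd : d = (1, 0) ∨ d = (-1, 0) ∨ d = (0, 1) ∨ d = (0, -1)) {l : ℕ} (hU : pvtbWh p d l ⊆ U) {b : ℕ} (hb : b ≤ l) :
    ∃ f : ℕ → ℤ × ℤ, f 0 = p ∧ f b = p + (b : ℤ) • d ∧ ∀ i, i < b → TscStep pvtbG4 U (f i) (f (i + 1)) := by
  refine ⟨fun i => p + (i : ℤ) • d, by simp, rfl, fun i hi => ⟨?_, hU (pvtb_wh_mem p d (by omega)), hU (pvtb_wh_mem p d (by omega))⟩⟩
  rw [pvtb_G4_adj]
  simp only [Prod.fst_add, Prod.snd_add, Prod.smul_fst, Prod.smul_snd, smul_eq_mul]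
  push_cast
  rcases hd with rfl | rfl | rfl | rfl <;> simp <;> omega

/-- the whisker as a path, downwards -/
theorem pvtb_wh_path' {U : Set (ℤ × ℤ)} {p d : ℤ × ℤ} (hd : d = (1, 0) ∨ d = (-1, 0) ∨ d = (0, 1) ∨ d = (0, -1)) {l : ℕ} (hU : pvtbWh p d l ⊆ U) {b : ℕ} (hb : b ≤ l) :
    ∃ f : ℕ → ℤ × ℤ, f 0 = p + (b : ℤ) • d ∧ f b = p ∧ ∀ i, i < b → TscStep pvtbG4 U (f i) (f (i + 1)) := by
  refine ⟨fun i => p + ((b - i : ℕ) : ℤ) • d, by simp, by simp, fun i hi => ⟨?_, hU (pvtb_wh_mem p d (by omega)), hU (pvtb_wh_mem p d (by omega))⟩⟩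
  rw [pvtb_G4_adj]
  have e : ((b - i : ℕ) : ℤ) = ((b - (i + 1) : ℕ) : ℤ) + 1 := by omega
  simp only [Prod.fst_add, Prod.snd_add, Prod.smul_fst, Prod.smul_snd, smul_eq_mul, e]
  rcases hd with rfl | rfl | rfl | rfl <;> simp <;> omega

/-- MANHATTAN: a path of the grid which starts at `p` climbs at most one unit per step in the direction `d` -/
theorem pvtb_mh_le {n : ℕ} {f : ℕ → ℤ × ℤ} (hs : ∀ i, i < n → pvtbG4.Adj (f i) (f (i + 1))) {p d : ℤ × ℤ} (hd : d = (1, 0) ∨ d = (-1, 0) ∨ d = (0, 1) ∨ d = (0, -1)) (f0 : f 0 = p) :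
    ∀ i, i ≤ n → ((f i).1 - p.1) * d.1 + ((f i).2 - p.2) * d.2 ≤ i := by
  intro i
  induction i with
  | zero => intro _; rw [f0]; simp
  | succ i ih =>
    intro hi
    have h1 := ih (by omega)
    have h2 := (pvtb_G4_adj _ _).1 (hs i (by omega))
    push_cast
    rcases hd with rfl | rfl | rfl | rfl <;> simp only [mul_one, mul_zero, add_zero, zero_add, mul_neg] at h1 ⊢ <;> omega

/-- MANHATTAN, equality: a path which is at `p + i d` at the time `i` has run straight -/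
theorem pvtb_mh_eq {n : ℕ} {f : ℕ → ℤ × ℤ} (hs : ∀ i, i < n → pvtbG4.Adj (f i) (f (i + 1))) {p d : ℤ × ℤ} (hd : d = (1, 0) ∨ d = (-1, 0) ∨ d = (0, 1) ∨ d = (0, -1)) (f0 : f 0 = p) :
    ∀ i, i ≤ n → f i = p + (i : ℤ) • d → ∀ b, b ≤ i → f b = p + (b : ℤ) • d := by
  intro i
  induction i with
  | zero =>
    intro _ h b hb
    have : b = 0 := by omega
    rw [this]; exact h
  | succ i ih =>
    intro hi h b hb
    rcases (by omega : b ≤ i ∨ b = i + 1) with h1 | rfl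
    · refine ih (by omega) ?_ b h1
      have h2 := pvtb_mh_le hs hd f0 i (by omega)
      have h3 := (pvtb_G4_adj _ _).1 (hs i (by omega))
      rw [h] at h3
      simp only [Prod.fst_add, Prod.snd_add, Prod.smul_fst, Prod.smul_snd, smul_eq_mul] at h3
      push_cast at h3
      ext
      · simp only [Prod.fst_add, Prod.smul_fst, smul_eq_mul]
        rcases hd with rfl | rfl | rfl | rfl <;> simp only [mul_one, mul_zero, add_zero, zero_add, mul_neg] at h2 h3 ⊢ <;> omega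
      · simp only [Prod.snd_add, Prod.smul_snd, smul_eq_mul]
        rcases hd with rfl | rfl | rfl | rfl <;> simp only [mul_one, mul_zero, add_zero, zero_add, mul_neg] at h2 h3 ⊢ <;> omega
    · exact h

/-- **the corridor `f 0 … f n` meets the whisker `(p, d, l)` exactly along an initial straight run** -/
def PvtbRun (n : ℕ) (f : ℕ → ℤ × ℤ) (p d : ℤ × ℤ) (l : ℕ) : Prop :=
  ∃ a, a ≤ l ∧ a ≤ n ∧ (∀ b, b ≤ a → f b = p + (b : ℤ) • d) ∧ ∀ i, a < i → i ≤ n → f i ∉ pvtbWh p d l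

/-- a path which starts at the foot of a whisker and whose cells are at their exact distance from the foot -/
theorem pvtb_run_of_geo {U : Set (ℤ × ℤ)} {n : ℕ} {f : ℕ → ℤ × ℤ} (hs : ∀ i, i < n → pvtbG4.Adj (f i) (f (i + 1))) {p d : ℤ × ℤ} (hd : d = (1, 0) ∨ d = (-1, 0) ∨ d = (0, 1) ∨ d = (0, -1)) {l : ℕ}
    (f0 : f 0 = p) (hU : pvtbWh p d l ⊆ U) (geo : ∀ i, i ≤ n → ∀ k, (∃ g : ℕ → ℤ × ℤ, g 0 = p ∧ g k = f i ∧ ∀ l, l < k → TscStep pvtbG4 U (g l) (g (l + 1))) → i ≤ k) :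
    PvtbRun n f p d l := by
  classical
  have key : ∀ i, i ≤ n → ∀ b : ℕ, b ≤ l → f i = p + (b : ℤ) • d → i = b := by
    intro i hi b hb e
    have h1 := geo i hi b (by rw [e]; exact pvtb_wh_path hd hU hb)
    have h2 := pvtb_mh_le hs hd f0 i hi
    rw [e] at h2
    simp only [Prod.fst_add, Prod.snd_add, Prod.smul_fst, Prod.smul_snd, smul_eq_mul] at h2
    rcases hd with rfl | rfl | rfl | rfl <;> simp only [mul_one, mul_zero, add_zero, zero_add, mul_neg] at h2 <;> omega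
  obtain ⟨P, hP⟩ : ∃ P : ℕ → Prop, ∀ a, P a ↔ f a = p + (a : ℤ) • d := ⟨_, fun _ => Iff.rfl⟩
  have P0 : P 0 := by rw [hP]; simpa using f0
  refine ⟨Nat.findGreatest P (min l n), (Nat.findGreatest_le _).trans (min_le_left _ _), (Nat.findGreatest_le _).trans (min_le_right _ _), ?_, ?_⟩
  · have h1 : P (Nat.findGreatest P (min l n)) := Nat.findGreatest_spec (Nat.zero_le _) P0
    exact pvtb_mh_eq hs hd f0 _ ((Nat.findGreatest_le _).trans (min_le_right _ _)) ((hP _).1 h1)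
  · rintro i h1 h2 ⟨b, hb, e⟩
    have := key i h2 b hb e
    subst this
    exact Nat.findGreatest_is_greatest h1 (le_min hb h2) ((hP _).2 e)

/-- reversal of a path -/
theorem pvtb_ce_rev {U : Set (ℤ × ℤ)} {x y : ℤ × ℤ} {k : ℕ} (h : ∃ f : ℕ → ℤ × ℤ, f 0 = x ∧ f k = y ∧ ∀ i, i < k → TscStep pvtbG4 U (f i) (f (i + 1))) :
    ∃ f : ℕ → ℤ × ℤ, f 0 = y ∧ f k = x ∧ ∀ i, i < k → TscStep pvtbG4 U (f i) (f (i + 1)) := by
  obtain ⟨f, h0, hk, hs⟩ := h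
  refine ⟨fun i => f (k - i), by simpa using hk, by simpa using h0, fun i hi => ?_⟩
  have := hs (k - (i + 1)) (by omega)
  rw [show k - (i + 1) + 1 = k - i by omega] at this
  exact ⟨this.1.symm, this.2.2, this.2.1⟩

/-- **(COR), from door to door.**   `p_t`, `p_s` = the door cells (next to the tips: in `pvtwN j E`), `d_t`, `d_s` = the outer normals, `p + l d` = the fronts.
The corridor starts `p_t, p_t + d_t`, ends `p_s + d_s, p_s`, stays in the box, and off the two whiskers it misses `pvtwN (j + 1) E`. -/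
theorem pvtb_fit_door_run {j : ℕ} {E : Set (ℤ × ℤ)} {a b c d a' b' c' d' : ℤ} (hE : E ⊆ tscBox a b c d) (ha : a' + j + 4 ≤ a) (hb : b + j + 4 ≤ b') (hc : c' + j + 4 ≤ c) (hd : d + j + 4 ≤ d')
    {pt dt ps ds : ℤ × ℤ} {lt ls : ℕ} (hdt : dt = (1, 0) ∨ dt = (-1, 0) ∨ dt = (0, 1) ∨ dt = (0, -1)) (hds : ds = (1, 0) ∨ ds = (-1, 0) ∨ ds = (0, 1) ∨ ds = (0, -1))
    (ft : pt ∈ pvtwN j E) (fs : ps ∈ pvtwN j E)
    (ht : pt + (lt : ℤ) • dt ∈ pvtOut (pvtwN (j + 5) E)) (hs : ps + (ls : ℤ) • ds ∈ pvtOut (pvtwN (j + 5) E))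
    (bt : pt + (lt : ℤ) • dt ∈ tscBox a' b' c' d') (bs : ps + (ls : ℤ) • ds ∈ tscBox a' b' c' d')
    (apart : ∀ u ∈ pvtbWh pt dt lt, ∀ v ∈ pvtbWh ps ds ls, u ≠ v ∧ ¬ pvtbG8.Adj u v) :
    ∃ (n : ℕ) (f : ℕ → ℤ × ℤ), PvtbCor n f ∧ 2 ≤ n ∧ f 0 = pt ∧ f 1 = pt + dt ∧ f (n - 1) = ps + ds ∧ f n = ps ∧ (∀ i, i ≤ n → f i ∈ tscBox a' b' c' d') ∧
      (∀ i, i ≤ n → f i ∈ pvtbWh pt dt lt ∨ f i ∈ pvtbWh ps ds ls ∨ f i ∉ pvtwN (j + 1) E) ∧ (n : ℤ) + 1 ≤ (b' - a' + 1) * (d' - c' + 1) ∧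
      PvtbRun n f pt dt lt ∧ PvtbRun n (fun i => f (n - i)) ps ds ls := by
  have hfin : E.Finite := (tsc_box_finite a b c d).subset hE
  have hX := pvtb_fit_X hE ha hb hc hd
  set U0 : Set (ℤ × ℤ) := tscBox a' b' c' d' \ pvtbObs j E with hU0
  have hwc0 : PvtbWC U0 := pvtb_free_wc hX (pvtb_obs_wc j E)
  have hcn0 : TscConn pvtbG4 U0 := pvtb_free_conn hX (pvtb_obs_compl_conn hfin)
  have mt : pt + (lt : ℤ) • dt ∈ U0 := ⟨bt, pvtb_obs_out ht⟩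
  have ms : ps + (ls : ℤ) • ds ∈ U0 := ⟨bs, pvtb_obs_out hs⟩
  have inbox : ∀ p ∈ pvtwN j E, p ∈ tscBox a' b' c' d' := by
    intro p hp
    obtain ⟨h1, h2, h3, h4⟩ := pvtw_N_box hE hp
    exact ⟨by omega, by omega, by omega, by omega⟩
  have wt : pvtbWh pt dt lt ⊆ tscBox a' b' c' d' := pvtb_wh_box hdt (inbox pt ft) bt
  have ws : pvtbWh ps ds ls ⊆ tscBox a' b' c' d' := pvtb_wh_box hds (inbox ps fs) bs
  have foot_t : ∀ v, pvtbG8.Adj pt v → v ∉ U0 := fun v hv h => h.2 (pvtb_obs_nb ft hv)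
  have foot_s0 : ∀ v, pvtbG8.Adj ps v → v ∉ U0 := fun v hv h => h.2 (pvtb_obs_nb fs hv)
  have hwc1 : PvtbWC (U0 ∪ pvtbWh pt dt lt) := pvtb_wh_wc hwc0 hdt foot_t mt
  have foot_s : ∀ v, pvtbG8.Adj ps v → v ∉ U0 ∪ pvtbWh pt dt lt := by
    rintro v hv (h | h)
    · exact foot_s0 v hv h
    · exact (apart v h ps (pvtb_wh_foot ps ds ls)).2 hv.symm
  have hwc2 : PvtbWC (U0 ∪ pvtbWh pt dt lt ∪ pvtbWh ps ds ls) := pvtb_wh_wc hwc1 hds foot_s (Or.inl ms)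
  have hR : TscR pvtbG4 (U0 ∪ pvtbWh pt dt lt ∪ pvtbWh ps ds ls) pt ps := by
    refine tsc_R_trans (tsc_R_mono (s := pvtbWh pt dt lt) (fun v hv => Or.inl (Or.inr hv)) (pvtb_wh_conn pt hdt lt pt (pvtb_wh_foot pt dt lt) _ (pvtb_wh_mem pt dt le_rfl))) ?_
    refine tsc_R_trans (tsc_R_mono (s := U0) (fun v hv => Or.inl (Or.inl hv)) (hcn0 _ mt _ ms)) ?_
    exact tsc_R_mono (s := pvtbWh ps ds ls) (fun v hv => Or.inr hv) (pvtb_wh_conn ps hds ls _ (pvtb_wh_mem ps ds le_rfl) ps (pvtb_wh_foot ps ds ls))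
  obtain ⟨n, f, hf, f0, fn, hU, geo1, geo2⟩ := pvtb_cor_exists_geo hwc2 (Or.inl (Or.inr (pvtb_wh_foot pt dt lt))) hR
  have hap := apart pt (pvtb_wh_foot pt dt lt) ps (pvtb_wh_foot ps ds ls)
  have hn : 2 ≤ n := by
    by_contra hlt
    have : n = 0 ∨ n = 1 := by omega
    rcases this with rfl | rfl
    · exact hap.1 (f0.symm.trans fn)
    · have := hf.step 0 (by omega)
      rw [f0, zero_add, fn] at this
      exact hap.2 (pvtb_G4_G8 this)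
  have hbox : ∀ i, i ≤ n → f i ∈ tscBox a' b' c' d' := by
    intro i hi
    rcases hU i hi with (h | h) | h
    · exact h.1
    · exact wt h
    · exact ws h
  refine ⟨n, f, hf, hn, f0, ?_, ?_, fn, hbox, fun i hi => ?_, pvtb_cor_len hf hbox, ?_, ?_⟩
  · have h1 := hf.step 0 (by omega)
    rw [f0, zero_add] at h1
    rcases hU 1 (by omega) with (h | h) | h
    · exact absurd h (foot_t _ (pvtb_G4_G8 h1))
    · exact pvtb_wh_next hdt h h1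
    · exact absurd (pvtb_G4_G8 h1) (apart pt (pvtb_wh_foot pt dt lt) _ h).2
  · have h1 := hf.step (n - 1) (by omega)
    rw [show n - 1 + 1 = n by omega, fn] at h1
    rcases hU (n - 1) (by omega) with (h | h) | h
    · exact absurd h (foot_s0 _ (pvtb_G4_G8 h1.symm))
    · exact absurd (pvtb_G4_G8 h1) (apart _ h ps (pvtb_wh_foot ps ds ls)).2
    · exact pvtb_wh_next hds h h1.symm
  · rcases hU i hi with (h | h) | h
    · exact Or.inr (Or.inr fun hh => h.2 (pvtb_obs_sup j E hh))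
    · exact Or.inl h
    · exact Or.inr (Or.inl h)
  · exact pvtb_run_of_geo hf.step hdt f0 (fun v hv => Or.inl (Or.inr hv)) geo1
  · refine pvtb_run_of_geo (U := U0 ∪ pvtbWh pt dt lt ∪ pvtbWh ps ds ls) (pvtb_cor_rev hf).step hds (by simpa using fn) (fun v hv => Or.inr hv) (fun i hi k hk => ?_)
    have := geo2 (n - i) (by omega) k (pvtb_ce_rev hk)
    omega

/-- the same without the runs -/
theorem pvtb_fit_door {j : ℕ} {E : Set (ℤ × ℤ)} {a b c d a' b' c' d' : ℤ} (hE : E ⊆ tscBox a b c d) (ha : a' + j + 4 ≤ a) (hb : b + j + 4 ≤ b') (hc : c' + j + 4 ≤ c) (hd : d + j + 4 ≤ d')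
    {pt dt ps ds : ℤ × ℤ} {lt ls : ℕ} (hdt : dt = (1, 0) ∨ dt = (-1, 0) ∨ dt = (0, 1) ∨ dt = (0, -1)) (hds : ds = (1, 0) ∨ ds = (-1, 0) ∨ ds = (0, 1) ∨ ds = (0, -1))
    (ft : pt ∈ pvtwN j E) (fs : ps ∈ pvtwN j E)
    (ht : pt + (lt : ℤ) • dt ∈ pvtOut (pvtwN (j + 5) E)) (hs : ps + (ls : ℤ) • ds ∈ pvtOut (pvtwN (j + 5) E))
    (bt : pt + (lt : ℤ) • dt ∈ tscBox a' b' c' d') (bs : ps + (ls : ℤ) • ds ∈ tscBox a' b' c' d')
    (apart : ∀ u ∈ pvtbWh pt dt lt, ∀ v ∈ pvtbWh ps ds ls, u ≠ v ∧ ¬ pvtbG8.Adj u v) :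
    ∃ (n : ℕ) (f : ℕ → ℤ × ℤ), PvtbCor n f ∧ 2 ≤ n ∧ f 0 = pt ∧ f 1 = pt + dt ∧ f (n - 1) = ps + ds ∧ f n = ps ∧ (∀ i, i ≤ n → f i ∈ tscBox a' b' c' d') ∧
      (∀ i, i ≤ n → f i ∈ pvtbWh pt dt lt ∨ f i ∈ pvtbWh ps ds ls ∨ f i ∉ pvtwN (j + 1) E) ∧ (n : ℤ) + 1 ≤ (b' - a' + 1) * (d' - c' + 1) := by
  obtain ⟨n, f, h1, h2, h3, h4, h5, h6, h7, h8, h9, -, -⟩ := pvtb_fit_door_run hE ha hb hc hd hdt hds ft fs ht hs bt bs apart
  exact ⟨n, f, h1, h2, h3, h4, h5, h6, h7, h8, h9⟩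

/-! ### 14. the fine cells in the plane -/

/-- the union of the closed squares of mesh `δ / (2m+1)` of the fine cells of `S`; the shift by `(m, m)` ALIGNS the block `pvtbD (2m+1) m {p}` with the coarse square `pvtSq δ p` -/
def pvtbPl (δ : ℝ) (m : ℤ) (S : Set (ℤ × ℤ)) : Set ℂ := pvtU (δ / (2 * (m : ℝ) + 1)) ((fun v : ℤ × ℤ => (v.1 + m, v.2 + m)) '' S)

theorem pvtb_pl_mono (δ : ℝ) (m : ℤ) {S S' : Set (ℤ × ℤ)} (h : S ⊆ S') : pvtbPl δ m S ⊆ pvtbPl δ m S' := pvt_U_mono (Set.image_mono h)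

theorem pvtb_pl_union (δ : ℝ) (m : ℤ) (S S' : Set (ℤ × ℤ)) : pvtbPl δ m (S ∪ S') = pvtbPl δ m S ∪ pvtbPl δ m S' := by
  rw [pvtbPl, Set.image_union, pvt_U_union]; rfl

theorem pvtb_pl_compact (δ : ℝ) (m : ℤ) {S : Set (ℤ × ℤ)} (h : S.Finite) : IsCompact (pvtbPl δ m S) := pvt_U_compact (h.image _)

theorem pvtb_pl_mem {δ : ℝ} {m : ℤ} {S : Set (ℤ × ℤ)} {p : ℂ} :
    p ∈ pvtbPl δ m S ↔ ∃ v ∈ S, p ∈ pvtSq (δ / (2 * (m : ℝ) + 1)) (v.1 + m, v.2 + m) := by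
  simp only [pvtbPl, pvtU, Set.mem_iUnion, Set.mem_image, exists_prop]
  constructor
  · rintro ⟨z, ⟨v, hv, rfl⟩, hp⟩
    exact ⟨v, hv, hp⟩
  · rintro ⟨v, hv, hp⟩
    exact ⟨_, ⟨v, hv, rfl⟩, hp⟩

/-- one coordinate of `pvtb_pl_cell` -/
theorem pvtb_pl_cell1 {δ : ℝ} (hδ : 0 < δ) {m : ℤ} (hm : 0 ≤ m) {a c : ℤ} (h1 : (2 * m + 1) * c - m ≤ a) (h2 : a ≤ (2 * m + 1) * c + m) {x : ℝ}
    (hx1 : ((a + m : ℤ) : ℝ) * (δ / (2 * (m : ℝ) + 1)) ≤ x) (hx2 : x ≤ (((a + m : ℤ) : ℝ) + 1) * (δ / (2 * (m : ℝ) + 1))) :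
    (c : ℝ) * δ ≤ x ∧ x ≤ ((c : ℝ) + 1) * δ := by
  have hm' : (0 : ℝ) ≤ (m : ℝ) := by exact_mod_cast hm
  have hK : (0 : ℝ) < 2 * (m : ℝ) + 1 := by linarith
  have hε : 0 < δ / (2 * (m : ℝ) + 1) := div_pos hδ hK
  have hδε : δ = (2 * (m : ℝ) + 1) * (δ / (2 * (m : ℝ) + 1)) := by field_simp
  have g1 : (2 * (m : ℝ) + 1) * (c : ℝ) ≤ ((a + m : ℤ) : ℝ) := by
    have : (2 * m + 1) * c ≤ a + m := by omega
    exact_mod_cast this
  have g2 : ((a + m : ℤ) : ℝ) + 1 ≤ (2 * (m : ℝ) + 1) * ((c : ℝ) + 1) := by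
    have : a + m + 1 ≤ (2 * m + 1) * (c + 1) := by
      have : (2 * m + 1) * (c + 1) = (2 * m + 1) * c + (2 * m + 1) := by ring
      omega
    exact_mod_cast this
  generalize δ / (2 * (m : ℝ) + 1) = ε at *
  subst hδε
  constructor
  · calc (c : ℝ) * ((2 * (m : ℝ) + 1) * ε) = ((2 * (m : ℝ) + 1) * (c : ℝ)) * ε := by ring
      _ ≤ ((a + m : ℤ) : ℝ) * ε := mul_le_mul_of_nonneg_right g1 hε.le
      _ ≤ x := hx1
  · calc x ≤ (((a + m : ℤ) : ℝ) + 1) * ε := hx2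
      _ ≤ ((2 * (m : ℝ) + 1) * ((c : ℝ) + 1)) * ε := mul_le_mul_of_nonneg_right g2 hε.le
      _ = ((c : ℝ) + 1) * ((2 * (m : ℝ) + 1) * ε) := by ring

/-- a fine square lies in the coarse square of its block -/
theorem pvtb_pl_cell {δ : ℝ} (hδ : 0 < δ) {m : ℤ} (hm : 0 ≤ m) (v : ℤ × ℤ) : pvtbPl δ m {v} ⊆ pvtSq δ (pvtbCo m v) := by
  intro p hp
  obtain ⟨w, hw, a1, a2, a3, a4⟩ := pvtb_pl_mem.1 hp
  obtain rfl : w = v := hw
  obtain ⟨s1, s2, s3, s4⟩ := pvtb_Co_spec hm w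
  obtain ⟨r1, r2⟩ := pvtb_pl_cell1 hδ hm s1 s2 a1 a2
  obtain ⟨r3, r4⟩ := pvtb_pl_cell1 hδ hm s3 s4 a3 a4
  exact ⟨r1, r2, r3, r4⟩

/-- one coordinate of `pvtb_pl_block` -/
theorem pvtb_pl_block1 {δ : ℝ} (hδ : 0 < δ) {m : ℤ} (hm : 0 ≤ m) {c : ℤ} {x : ℝ} (hx1 : (c : ℝ) * δ ≤ x) (hx2 : x ≤ ((c : ℝ) + 1) * δ) :
    ∃ a : ℤ, (2 * m + 1) * c - m ≤ a ∧ a ≤ (2 * m + 1) * c + m ∧
      ((a + m : ℤ) : ℝ) * (δ / (2 * (m : ℝ) + 1)) ≤ x ∧ x ≤ (((a + m : ℤ) : ℝ) + 1) * (δ / (2 * (m : ℝ) + 1)) := by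
  have hm' : (0 : ℝ) ≤ (m : ℝ) := by exact_mod_cast hm
  have hK : (0 : ℝ) < 2 * (m : ℝ) + 1 := by linarith
  have hε : 0 < δ / (2 * (m : ℝ) + 1) := div_pos hδ hK
  have hδε : δ = (2 * (m : ℝ) + 1) * (δ / (2 * (m : ℝ) + 1)) := by field_simp
  generalize δ / (2 * (m : ℝ) + 1) = ε at *
  subst hδε
  have t1 : (((2 * m + 1) * c : ℤ) : ℝ) ≤ x / ε := by
    rw [le_div_iff₀ hε]
    push_cast
    linarith
  have t2 : x / ε ≤ (((2 * m + 1) * (c + 1) : ℤ) : ℝ) := by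
    rw [div_le_iff₀ hε]
    push_cast
    linarith
  have f1 : (2 * m + 1) * c ≤ ⌊x / ε⌋ := Int.le_floor.2 t1
  have f2 : (⌊x / ε⌋ : ℝ) ≤ x / ε := Int.floor_le _
  have f3 : x / ε < (⌊x / ε⌋ : ℝ) + 1 := Int.lt_floor_add_one _
  have hexp : (2 * m + 1) * (c + 1) = (2 * m + 1) * c + (2 * m + 1) := by ring
  by_cases hc : ⌊x / ε⌋ ≤ (2 * m + 1) * (c + 1) - 1
  · refine ⟨⌊x / ε⌋ - m, by omega, by omega, ?_, ?_⟩
    · rw [sub_add_cancel]
      exact (le_div_iff₀ hε).1 f2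
    · rw [sub_add_cancel]
      exact ((div_lt_iff₀ hε).1 f3).le
  · have f4 : (2 * m + 1) * (c + 1) ≤ ⌊x / ε⌋ := by omega
    have f5 : (((2 * m + 1) * (c + 1) : ℤ) : ℝ) ≤ (⌊x / ε⌋ : ℝ) := by exact_mod_cast f4
    have f6 : x / ε = (((2 * m + 1) * (c + 1) : ℤ) : ℝ) := le_antisymm t2 (f5.trans f2)
    have f7 : x = (((2 * m + 1) * (c + 1) : ℤ) : ℝ) * ε := by
      rw [← f6]; field_simp
    refine ⟨(2 * m + 1) * (c + 1) - 1 - m, by omega, by omega, ?_, ?_⟩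
    · rw [sub_add_cancel, f7]
      apply mul_le_mul_of_nonneg_right _ hε.le
      push_cast
      linarith
    · rw [sub_add_cancel, f7]
      apply mul_le_mul_of_nonneg_right _ hε.le
      push_cast
      linarith

/-- **ALIGNMENT**: the plain refinement of a set of coarse cells has the same union -/
theorem pvtb_pl_block {δ : ℝ} (hδ : 0 < δ) {m : ℤ} (hm : 0 ≤ m) (F : Set (ℤ × ℤ)) : pvtbPl δ m (pvtbD (2 * m + 1) m F) = pvtU δ F := by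
  ext p
  constructor
  · intro hp
    obtain ⟨v, hv, hpv⟩ := pvtb_pl_mem.1 hp
    have h1 : p ∈ pvtSq δ (pvtbCo m v) := pvtb_pl_cell hδ hm v (pvtb_pl_mem.2 ⟨v, rfl, hpv⟩)
    simp only [pvtU, Set.mem_iUnion, exists_prop]
    exact ⟨pvtbCo m v, (pvtb_Co_mem hm F v).1 hv, h1⟩
  · intro hp
    simp only [pvtU, Set.mem_iUnion, exists_prop] at hp
    obtain ⟨z, hz, a1, a2, a3, a4⟩ := hp
    obtain ⟨a, r1, r2, r3, r4⟩ := pvtb_pl_block1 hδ hm a1 a2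
    obtain ⟨b, s1, s2, s3, s4⟩ := pvtb_pl_block1 hδ hm a3 a4
    exact pvtb_pl_mem.2 ⟨(a, b), ⟨z, hz, r1, r2, s1, s2⟩, r3, r4, s3, s4⟩

/-- fine cells at sup-distance `> g` : the squares are at distance `≥ g δ / (2m+1)` -/
theorem pvtb_pl_far {δ : ℝ} (hδ : 0 < δ) {m : ℤ} (hm : 0 ≤ m) {S S' : Set (ℤ × ℤ)} {g : ℕ}
    (h : ∀ u ∈ S, ∀ v ∈ S', (g : ℤ) < u.1 - v.1 ∨ (g : ℤ) < v.1 - u.1 ∨ (g : ℤ) < u.2 - v.2 ∨ (g : ℤ) < v.2 - u.2) {p q : ℂ} (hp : p ∈ pvtbPl δ m S) (hq : q ∈ pvtbPl δ m S') :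
    (g : ℝ) * (δ / (2 * (m : ℝ) + 1)) ≤ ‖p - q‖ := by
  obtain ⟨u, hu, a1, a2, a3, a4⟩ := pvtb_pl_mem.1 hp
  obtain ⟨v, hv, b1, b2, b3, b4⟩ := pvtb_pl_mem.1 hq
  have hm' : (0 : ℝ) ≤ (m : ℝ) := by exact_mod_cast hm
  have hK : (0 : ℝ) < 2 * (m : ℝ) + 1 := by linarith
  have hε : 0 < δ / (2 * (m : ℝ) + 1) := div_pos hδ hK
  generalize δ / (2 * (m : ℝ) + 1) = ε at *
  have hre : |(p - q).re| ≤ ‖p - q‖ := Complex.abs_re_le_norm _
  have him : |(p - q).im| ≤ ‖p - q‖ := Complex.abs_im_le_norm _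
  simp only [Complex.sub_re, Complex.sub_im] at hre him
  simp only [Int.cast_add] at a1 a2 a3 a4 b1 b2 b3 b4
  rcases h u hu v hv with c | c | c | c
  · have c' : (g : ℝ) + 1 ≤ (u.1 : ℝ) - (v.1 : ℝ) := by
      have : (g : ℤ) + 1 ≤ u.1 - v.1 := by omega
      exact_mod_cast this
    have := mul_le_mul_of_nonneg_right c' hε.le
    have := le_abs_self (p.re - q.re)
    nlinarith
  · have c' : (g : ℝ) + 1 ≤ (v.1 : ℝ) - (u.1 : ℝ) := by
      have : (g : ℤ) + 1 ≤ v.1 - u.1 := by omega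
      exact_mod_cast this
    have := mul_le_mul_of_nonneg_right c' hε.le
    have := neg_abs_le (p.re - q.re)
    nlinarith
  · have c' : (g : ℝ) + 1 ≤ (u.2 : ℝ) - (v.2 : ℝ) := by
      have : (g : ℤ) + 1 ≤ u.2 - v.2 := by omega
      exact_mod_cast this
    have := mul_le_mul_of_nonneg_right c' hε.le
    have := le_abs_self (p.im - q.im)
    nlinarith
  · have c' : (g : ℝ) + 1 ≤ (v.2 : ℝ) - (u.2 : ℝ) := by
      have : (g : ℤ) + 1 ≤ v.2 - u.2 := by omega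
      exact_mod_cast this
    have := mul_le_mul_of_nonneg_right c' hε.le
    have := neg_abs_le (p.im - q.im)
    nlinarith

/-- the lanes of a corridor lie in the cells of the corridor -/
theorem pvtb_pl_lane_sub {δ : ℝ} (hδ : 0 < δ) {m : ℤ} (hm : 0 ≤ m) (N : ℕ) (C : ℕ → ℤ × ℤ) (a b : ℤ) : pvtbPl δ m (pvtbLane m N C a b) ⊆ pvtU δ (pvtbRan N C) := by
  intro p hp
  obtain ⟨v, ⟨j, -, -, i, hi, hc, -⟩, hpv⟩ := pvtb_pl_mem.1 hp
  have h1 : p ∈ pvtSq δ (pvtbCo m v) := pvtb_pl_cell hδ hm v (pvtb_pl_mem.2 ⟨v, rfl, hpv⟩)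
  simp only [pvtU, Set.mem_iUnion, exists_prop]
  exact ⟨pvtbCo m v, ⟨i, hi, hc⟩, h1⟩

/-- two lanes with a gap of `g + 1` lane coordinates are at distance `≥ g δ / (2m+1)` in the plane -/
theorem pvtb_pl_lane_far {δ : ℝ} (hδ : 0 < δ) {m : ℤ} (hm : 0 ≤ m) {N : ℕ} {C : ℕ → ℤ × ℤ} (h : PvtbCor N C) (hN : 1 ≤ N) {a b a' b' : ℤ} {g : ℕ} (hg : b + g + 1 ≤ a') {p q : ℂ}
    (hp : p ∈ pvtbPl δ m (pvtbLane m N C a b)) (hq : q ∈ pvtbPl δ m (pvtbLane m N C a' b')) : (g : ℝ) * (δ / (2 * (m : ℝ) + 1)) ≤ ‖p - q‖ := by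
  refine pvtb_pl_far hδ hm (S := pvtbLane m N C a b) (S' := pvtbLane m N C a' b') ?_ hp hq
  rintro u ⟨j, -, hj, hu⟩ v ⟨j', hj', -, hv⟩
  by_contra hc
  have := (pvtb_lev_dist hm h hN hu hv (D := (g : ℤ)) (by omega) (by omega) (by omega) (by omega)).2
  omega

/-- the cells of a corridor which miss `pvtwN (j + 1) (pvtCells δ K)` are at distance `≥ (j + 1) δ` from `K` -/
theorem pvtb_pl_off {δ : ℝ} (hδ : 0 < δ) {K : Set ℂ} {j : ℕ} {z : ℤ × ℤ} (hz : z ∉ pvtwN (j + 1) (pvtCells δ K)) {p q : ℂ} (hp : p ∈ pvtSq δ z) (hq : q ∈ K) :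
    ((j : ℝ) + 1) * δ ≤ ‖p - q‖ := by
  obtain ⟨w, hw⟩ := pvt_sq_cover hδ q
  have hwK : w ∈ pvtCells δ K := ⟨q, hw, hq⟩
  have hz' : ¬ (z.1 ≤ w.1 + ((j + 1 : ℕ) : ℤ) ∧ w.1 ≤ z.1 + ((j + 1 : ℕ) : ℤ) ∧ z.2 ≤ w.2 + ((j + 1 : ℕ) : ℤ) ∧ w.2 ≤ z.2 + ((j + 1 : ℕ) : ℤ)) :=
    fun hh => hz ⟨w, hwK, hh⟩
  obtain ⟨a1, a2, a3, a4⟩ := hp
  obtain ⟨b1, b2, b3, b4⟩ := hw
  have hre : |(p - q).re| ≤ ‖p - q‖ := Complex.abs_re_le_norm _
  have him : |(p - q).im| ≤ ‖p - q‖ := Complex.abs_im_le_norm _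
  simp only [Complex.sub_re, Complex.sub_im] at hre him
  have hc : (j : ℤ) + 2 ≤ z.1 - w.1 ∨ (j : ℤ) + 2 ≤ w.1 - z.1 ∨ (j : ℤ) + 2 ≤ z.2 - w.2 ∨ (j : ℤ) + 2 ≤ w.2 - z.2 := by
    push_cast at hz'
    omega
  rcases hc with c | c | c | c
  · have c' : (j : ℝ) + 2 ≤ (z.1 : ℝ) - (w.1 : ℝ) := by exact_mod_cast c
    have := mul_le_mul_of_nonneg_right c' hδ.le
    have := le_abs_self (p.re - q.re)
    nlinarith
  · have c' : (j : ℝ) + 2 ≤ (w.1 : ℝ) - (z.1 : ℝ) := by exact_mod_cast c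
    have := mul_le_mul_of_nonneg_right c' hδ.le
    have := neg_abs_le (p.re - q.re)
    nlinarith
  · have c' : (j : ℝ) + 2 ≤ (z.2 : ℝ) - (w.2 : ℝ) := by exact_mod_cast c
    have := mul_le_mul_of_nonneg_right c' hδ.le
    have := le_abs_self (p.im - q.im)
    nlinarith
  · have c' : (j : ℝ) + 2 ≤ (w.2 : ℝ) - (z.2 : ℝ) := by exact_mod_cast c
    have := mul_le_mul_of_nonneg_right c' hδ.le
    have := neg_abs_le (p.im - q.im)
    nlinarith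

/-! ### 15. chambers: the corridor must not come back to the inner mouths -/

/-- **NO CAVE** (Janiszewski).   `M` = the cells of a chamber (inner mouth), `St ⊆ E` = a CONNECTED stretch of the obstacle which contains every cell of `E` within sup-distance `2k+1` of the chamber,
and `St`, `M` with their fattenings lie in a box which does not contain `z`.   Then adding the chamber to the obstacle does not enclose `z`. -/
theorem pvtb_fit_chamber {E St M : Set (ℤ × ℤ)} {k : ℕ} {a b c d : ℤ} {z : ℤ × ℤ} (hE : E.Finite) (hM : M.Finite) (hS : St ⊆ E) (hc : TscConn tscG St)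
    (near : ∀ e ∈ E, e ∈ pvtwN (2 * k + 1) M → e ∈ St) (hb : pvtwN k (St ∪ M) ⊆ tscBox a b c d) (hz : z ∉ tscBox a b c d) (hA : z ∈ pvtOut (pvtwN k E)) :
    z ∈ pvtOut (pvtwN k (E ∪ M)) := by
  have e1 : pvtwN k (E ∪ M) = pvtwN k E ∪ pvtwN k (St ∪ M) := by
    rw [← pvtw_N_union, ← Set.union_assoc, Set.union_eq_self_of_subset_right hS]
  have key : ∀ x ∈ pvtwN k E, ∀ y ∈ pvtwN k M, (x = y ∨ triAdj x y) → x ∈ pvtwN k St := by
    rintro x ⟨e, he, h1, h2, h3, h4⟩ y ⟨m, hm, g1, g2, g3, g4⟩ hxy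
    refine ⟨e, near e he ⟨m, hm, ?_, ?_, ?_, ?_⟩, h1, h2, h3, h4⟩
    all_goals
      rcases hxy with rfl | hxy
      · push_cast; omega
      · obtain ⟨_, q1, q2, q3, q4⟩ := pvtb_tri_G8 (show tscG.Adj x y from hxy)
        push_cast; omega
  have e2 : pvtwN k E ∩ pvtwN k (St ∪ M) = pvtwN k St := by
    rw [pvtw_N_union]
    ext x
    constructor
    · rintro ⟨hx, h | h⟩
      · exact h
      · exact key x hx x h (Or.inl rfl)
    · intro h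
      exact ⟨pvtw_N_mono le_rfl hS h, Or.inl h⟩
  rw [e1]
  refine pvtc_janiszewski (pvtw_N_finite hE) (pvtw_N_finite ((hE.subset hS).union hM)) (by rw [e2]; exact pvtw_N_conn hc) ?_ hA (pvt_out_of_box hb hz)
  intro x hx y hy hxy
  rw [pvtw_N_union] at hy ⊢
  rcases hy with h | h
  · exact Or.inr (pvtw_N_mono le_rfl hS h)
  · exact Or.inl (Or.inl (key x hx y h (Or.inr hxy)))

/-- **(COR) WITH CHAMBERS, from door to door.**   `E` = cells of `K`;  `Mt`, `Ms` = the cells of the two chambers (inner mouths; functions of the TYPES);  `pt ∈ Mt`, `ps ∈ Ms` = the cells of the chambers behind the doors, `dt`, `ds` = outer normals;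
fronts `pt + lt dt`, `ps + ls ds` ACCESSIBLE FOR `K` ALONE.   The corridor starts `pt, pt + dt`, ends `ps + ds, ps`; off the two whiskers it misses `pvtwN (j + 1) (E ∪ Mt ∪ Ms)`: it never comes back to `K` NOR TO THE CHAMBERS. -/
theorem pvtb_fit_mouth_run {j : ℕ} {E Mt Ms St Ss : Set (ℤ × ℤ)} {a b c d a' b' c' d' : ℤ} (hE : E ∪ Mt ∪ Ms ⊆ tscBox a b c d) (ha : a' + j + 4 ≤ a) (hb : b + j + 4 ≤ b') (hc : c' + j + 4 ≤ c) (hd : d + j + 4 ≤ d')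
    (hSt : St ⊆ E) (hSs : Ss ⊆ E) (cSt : TscConn tscG St) (cSs : TscConn tscG Ss)
    (near_t : ∀ e ∈ E, e ∈ pvtwN (2 * (j + 5) + 1) Mt → e ∈ St) (near_s : ∀ e ∈ E, e ∈ pvtwN (2 * (j + 5) + 1) Ms → e ∈ Ss) (far : ∀ e ∈ Mt, e ∉ pvtwN (2 * (j + 5) + 1) Ms)
    {at' bt' ct' dt' as' bs' cs' ds' : ℤ} (box_t : pvtwN (j + 5) (St ∪ Mt) ⊆ tscBox at' bt' ct' dt') (box_s : pvtwN (j + 5) (Ss ∪ Ms) ⊆ tscBox as' bs' cs' ds')
    {pt dt ps ds : ℤ × ℤ} {lt ls : ℕ} (hdt : dt = (1, 0) ∨ dt = (-1, 0) ∨ dt = (0, 1) ∨ dt = (0, -1)) (hds : ds = (1, 0) ∨ ds = (-1, 0) ∨ ds = (0, 1) ∨ ds = (0, -1))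
    (ft : pt ∈ Mt) (fs : ps ∈ Ms)
    (ztt : pt + (lt : ℤ) • dt ∉ tscBox at' bt' ct' dt') (zts : pt + (lt : ℤ) • dt ∉ tscBox as' bs' cs' ds')
    (zst : ps + (ls : ℤ) • ds ∉ tscBox at' bt' ct' dt') (zss : ps + (ls : ℤ) • ds ∉ tscBox as' bs' cs' ds')
    (ht : pt + (lt : ℤ) • dt ∈ pvtOut (pvtwN (j + 5) E)) (hs : ps + (ls : ℤ) • ds ∈ pvtOut (pvtwN (j + 5) E))
    (bt : pt + (lt : ℤ) • dt ∈ tscBox a' b' c' d') (bs : ps + (ls : ℤ) • ds ∈ tscBox a' b' c' d')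
    (apart : ∀ u ∈ pvtbWh pt dt lt, ∀ v ∈ pvtbWh ps ds ls, u ≠ v ∧ ¬ pvtbG8.Adj u v) :
    ∃ (n : ℕ) (f : ℕ → ℤ × ℤ), PvtbCor n f ∧ 2 ≤ n ∧ f 0 = pt ∧ f 1 = pt + dt ∧ f (n - 1) = ps + ds ∧ f n = ps ∧ (∀ i, i ≤ n → f i ∈ tscBox a' b' c' d') ∧
      (∀ i, i ≤ n → f i ∈ pvtbWh pt dt lt ∨ f i ∈ pvtbWh ps ds ls ∨ f i ∉ pvtwN (j + 1) (E ∪ Mt ∪ Ms)) ∧ (n : ℤ) + 1 ≤ (b' - a' + 1) * (d' - c' + 1) ∧
      PvtbRun n f pt dt lt ∧ PvtbRun n (fun i => f (n - i)) ps ds ls := by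
  have fin : (E ∪ Mt ∪ Ms).Finite := (tsc_box_finite a b c d).subset hE
  have fE : E.Finite := fin.subset (fun x hx => Or.inl (Or.inl hx))
  have fMt : Mt.Finite := fin.subset (fun x hx => Or.inl (Or.inr hx))
  have fMs : Ms.Finite := fin.subset (fun x hx => Or.inr hx)
  have near_s' : ∀ e ∈ E ∪ Mt, e ∈ pvtwN (2 * (j + 5) + 1) Ms → e ∈ Ss := by
    rintro e (he | he) h
    · exact near_s e he h
    · exact absurd h (far e he)
  have acc : ∀ z, z ∉ tscBox at' bt' ct' dt' → z ∉ tscBox as' bs' cs' ds' → z ∈ pvtOut (pvtwN (j + 5) E) → z ∈ pvtOut (pvtwN (j + 5) (E ∪ Mt ∪ Ms)) := by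
    intro z h1 h2 h3
    exact pvtb_fit_chamber (fE.union fMt) fMs (hSs.trans Set.subset_union_left) cSs near_s' box_s h2 (pvtb_fit_chamber fE fMt hSt cSt near_t box_t h1 h3)
  exact pvtb_fit_door_run hE ha hb hc hd hdt hds (pvtw_N_sub (Or.inl (Or.inr ft))) (pvtw_N_sub (Or.inr fs)) (acc _ ztt zts ht) (acc _ zst zss hs) bt bs apart

/-- the same without the runs -/
theorem pvtb_fit_mouth {j : ℕ} {E Mt Ms St Ss : Set (ℤ × ℤ)} {a b c d a' b' c' d' : ℤ} (hE : E ∪ Mt ∪ Ms ⊆ tscBox a b c d) (ha : a' + j + 4 ≤ a) (hb : b + j + 4 ≤ b') (hc : c' + j + 4 ≤ c) (hd : d + j + 4 ≤ d')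
    (hSt : St ⊆ E) (hSs : Ss ⊆ E) (cSt : TscConn tscG St) (cSs : TscConn tscG Ss)
    (near_t : ∀ e ∈ E, e ∈ pvtwN (2 * (j + 5) + 1) Mt → e ∈ St) (near_s : ∀ e ∈ E, e ∈ pvtwN (2 * (j + 5) + 1) Ms → e ∈ Ss) (far : ∀ e ∈ Mt, e ∉ pvtwN (2 * (j + 5) + 1) Ms)
    {at' bt' ct' dt' as' bs' cs' ds' : ℤ} (box_t : pvtwN (j + 5) (St ∪ Mt) ⊆ tscBox at' bt' ct' dt') (box_s : pvtwN (j + 5) (Ss ∪ Ms) ⊆ tscBox as' bs' cs' ds')
    {pt dt ps ds : ℤ × ℤ} {lt ls : ℕ} (hdt : dt = (1, 0) ∨ dt = (-1, 0) ∨ dt = (0, 1) ∨ dt = (0, -1)) (hds : ds = (1, 0) ∨ ds = (-1, 0) ∨ ds = (0, 1) ∨ ds = (0, -1))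
    (ft : pt ∈ Mt) (fs : ps ∈ Ms)
    (ztt : pt + (lt : ℤ) • dt ∉ tscBox at' bt' ct' dt') (zts : pt + (lt : ℤ) • dt ∉ tscBox as' bs' cs' ds')
    (zst : ps + (ls : ℤ) • ds ∉ tscBox at' bt' ct' dt') (zss : ps + (ls : ℤ) • ds ∉ tscBox as' bs' cs' ds')
    (ht : pt + (lt : ℤ) • dt ∈ pvtOut (pvtwN (j + 5) E)) (hs : ps + (ls : ℤ) • ds ∈ pvtOut (pvtwN (j + 5) E))
    (bt : pt + (lt : ℤ) • dt ∈ tscBox a' b' c' d') (bs : ps + (ls : ℤ) • ds ∈ tscBox a' b' c' d')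
    (apart : ∀ u ∈ pvtbWh pt dt lt, ∀ v ∈ pvtbWh ps ds ls, u ≠ v ∧ ¬ pvtbG8.Adj u v) :
    ∃ (n : ℕ) (f : ℕ → ℤ × ℤ), PvtbCor n f ∧ 2 ≤ n ∧ f 0 = pt ∧ f 1 = pt + dt ∧ f (n - 1) = ps + ds ∧ f n = ps ∧ (∀ i, i ≤ n → f i ∈ tscBox a' b' c' d') ∧
      (∀ i, i ≤ n → f i ∈ pvtbWh pt dt lt ∨ f i ∈ pvtbWh ps ds ls ∨ f i ∉ pvtwN (j + 1) (E ∪ Mt ∪ Ms)) ∧ (n : ℤ) + 1 ≤ (b' - a' + 1) * (d' - c' + 1) := by
  obtain ⟨n, f, h1, h2, h3, h4, h5, h6, h7, h8, h9, -, -⟩ := pvtb_fit_mouth_run hE ha hb hc hd hSt hSs cSt cSs near_t near_s far box_t box_s hdt hds ft fs ztt zts zst zss ht hs bt bs apart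
  exact ⟨n, f, h1, h2, h3, h4, h5, h6, h7, h8, h9⟩

/-! ### 16. from the corridor to the word -/

/-- the letter of a cell entered by the step `u` and left by the step `v` -/
def pvtbLet (u v : ℤ × ℤ) : PvtTurn := if v = u then PvtTurn.S else if v = pvtbI u then PvtTurn.L else PvtTurn.R

/-- the word of the cells `f 1, …, f n` of the corridor `f 0, …, f (n + 1)` -/
def pvtbWord (n : ℕ) (f : ℕ → ℤ × ℤ) : List PvtTurn := (List.range n).map fun i => pvtbLet (f (i + 1) - f i) (f (i + 2) - f (i + 1))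

theorem pvtb_word_length (n : ℕ) (f : ℕ → ℤ × ℤ) : (pvtbWord n f).length = n := by simp [pvtbWord]

theorem pvtb_word_T {n : ℕ} (f : ℕ → ℤ × ℤ) {j : ℕ} (hj : j < n) : pvccT (pvtbWord n f) j = pvtbLet (f (j + 1) - f j) (f (j + 2) - f (j + 1)) := by
  simp [pvccT, pvtbWord, hj]

theorem pvtb_Z_sub (u v : ℤ × ℤ) : pvtZ (u - v) = pvtZ u - pvtZ v := by
  simp only [pvtZ, Prod.fst_sub, Prod.snd_sub]; push_cast; ring

theorem pvtb_Z_I (u : ℤ × ℤ) : pvtZ (pvtbI u) = pvtZ u * Complex.I := by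
  simp only [pvtZ, pvtbI]; push_cast
  linear_combination (-(u.2 : ℂ)) * Complex.I_sq

theorem pvtb_let_rot {u v : ℤ × ℤ} (h : v = u ∨ v = pvtbI u ∨ v = - pvtbI u) : pvtZ v = pvtZ u * (pvtbLet u v).rot := by
  unfold pvtbLet
  split_ifs with h1 h2
  · rw [h1]; simp [PvtTurn.rot]
  · rw [h2, pvtb_Z_I]; simp [PvtTurn.rot]
  · rcases h with h | h | h
    · exact absurd h h1
    · exact absurd h h2
    · have : pvtZ (- pvtbI u) = - pvtZ (pvtbI u) := by simp only [pvtZ, Prod.fst_neg, Prod.snd_neg]; push_cast; ring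
      rw [h, this, pvtb_Z_I]; simp [PvtTurn.rot]

theorem pvtb_ctr_eq (δ : ℝ) (c : ℤ × ℤ) : pvtCtr δ c = (δ : ℂ) * (pvtZ c + (1 + Complex.I) / 2) := by
  apply Complex.ext <;> simp [pvtCtr, pvtZ] <;> ring

theorem pvtb_ctr_sub (δ : ℝ) (c c' : ℤ × ℤ) : pvtCtr δ c - pvtCtr δ c' = (δ : ℂ) * pvtZ (c - c') := by
  rw [pvtb_ctr_eq, pvtb_ctr_eq, pvtb_Z_sub]; ring

/-- the first door: the midpoint of the common side of `f 0` and `f 1` -/
noncomputable def pvtbDoor (δ : ℝ) (f : ℕ → ℤ × ℤ) (j : ℕ) : ℂ := (pvtCtr δ (f j) + pvtCtr δ (f (j + 1))) / 2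

/-- **frames** of the word -/
theorem pvtb_word_D {n : ℕ} {f : ℕ → ℤ × ℤ} (h : PvtbCor (n + 1) f) (δ : ℝ) {j : ℕ} (hj : j ≤ n) :
    pvccD ((δ : ℂ) * pvtZ (f 1 - f 0)) (pvtbWord n f) j = (δ : ℂ) * pvtZ (f (j + 1) - f j) := by
  induction j with
  | zero => simp
  | succ j ih =>
    rw [pvccD_succ _ _ (by rw [pvtb_word_length]; omega), ih (by omega), pvtb_word_T f (by omega), mul_assoc, ← pvtb_let_rot (pvtb_cor_turn h (i := j) (by omega))]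

/-- **doors** of the word -/
theorem pvtb_word_Z {n : ℕ} {f : ℕ → ℤ × ℤ} (h : PvtbCor (n + 1) f) (δ : ℝ) {j : ℕ} (hj : j ≤ n) :
    pvccZ (pvtbDoor δ f 0) ((δ : ℂ) * pvtZ (f 1 - f 0)) (pvtbWord n f) j = pvtbDoor δ f j := by
  induction j with
  | zero => simp
  | succ j ih =>
    have hl : j < (pvtbWord n f).length := by rw [pvtb_word_length]; omega
    have h1 := pvccD_succ ((δ : ℂ) * pvtZ (f 1 - f 0)) (pvtbWord n f) hl
    rw [pvtb_word_D h δ (by omega), pvtb_word_D h δ (by omega)] at h1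
    rw [pvccZ_succ _ _ _ hl, ih (by omega), pvtb_word_D h δ (by omega), pvt_mid_eq, mul_div_assoc', mul_add, mul_one, ← h1, ← pvtb_ctr_sub, ← pvtb_ctr_sub]
    unfold pvtbDoor
    ring

/-- **centres** of the word -/
theorem pvtb_word_C {n : ℕ} {f : ℕ → ℤ × ℤ} (h : PvtbCor (n + 1) f) (δ : ℝ) {j : ℕ} (hj : j ≤ n) :
    pvccC (pvtbDoor δ f 0) ((δ : ℂ) * pvtZ (f 1 - f 0)) (pvtbWord n f) j = pvtCtr δ (f (j + 1)) := by
  rw [pvccC, pvtb_word_Z h δ hj, pvtb_word_D h δ hj, ← pvtb_ctr_sub]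
  unfold pvtbDoor
  ring

theorem pvtb_Z_unit {u : ℤ × ℤ} (hu : u = (1, 0) ∨ u = (-1, 0) ∨ u = (0, 1) ∨ u = (0, -1)) : pvtZ u ^ 4 = 1 ∧ ‖pvtZ u‖ = 1 := by
  rcases hu with rfl | rfl | rfl | rfl
  · simp [pvtZ]
  · refine ⟨?_, by simp [pvtZ]⟩
    have : pvtZ (-1, 0) = -1 := by simp [pvtZ]
    rw [this]; norm_num
  · simp [pvtZ, Complex.I_pow_four]
  · refine ⟨?_, by simp [pvtZ]⟩
    have : pvtZ (0, -1) = -Complex.I := by simp [pvtZ]
    rw [this, show (-Complex.I) ^ 4 = Complex.I ^ 4 by ring, Complex.I_pow_four]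

/-- displacement and final frame -/
theorem pvtb_word_disp {n : ℕ} {f : ℕ → ℤ × ℤ} (h : PvtbCor (n + 1) f) (δ : ℝ) :
    (δ : ℂ) * pvtDisp (pvtZ (f 1 - f 0)) (pvtbWord n f) = pvtbDoor δ f n - pvtbDoor δ f 0 ∧ pvtDir (pvtZ (f 1 - f 0)) (pvtbWord n f) = pvtZ (f (n + 1) - f n) := by
  constructor
  · have h1 := pvtb_word_Z h δ (j := n) le_rfl
    have h2 := pvccZ_length (pvtbDoor δ f 0) ((δ : ℂ) * pvtZ (f 1 - f 0)) (pvtbWord n f)
    rw [pvtb_word_length, h1] at h2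
    rw [h2]
    unfold pvtDisp
    rw [pvtAcc_eq_mul_one PvtTurn.mid ((δ : ℂ) * pvtZ (f 1 - f 0)), pvtAcc_eq_mul_one PvtTurn.mid (pvtZ (f 1 - f 0))]
    ring
  · have h1 := pvtb_word_D h 1 (j := n) le_rfl
    have h2 := pvccD_length (((1 : ℝ) : ℂ) * pvtZ (f 1 - f 0)) (pvtbWord n f)
    rw [pvtb_word_length, h1] at h2
    simpa using h2.symm

/-- the normalised centres -/
theorem pvtb_word_C0 {n : ℕ} {f : ℕ → ℤ × ℤ} (h : PvtbCor (n + 1) f) {j k : ℕ} (hj : j ≤ n) (hk : k ≤ n) :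
    pvtZ (f 1 - f 0) * (pvccC 0 1 (pvtbWord n f) j - pvccC 0 1 (pvtbWord n f) k) = pvtZ (f (j + 1) - f (k + 1)) := by
  have h1 := pvtb_word_C h 1 hj
  have h2 := pvtb_word_C h 1 hk
  rw [pvccC_cov] at h1 h2
  have h3 := pvtb_ctr_sub 1 (f (j + 1)) (f (k + 1))
  rw [← h1, ← h2] at h3
  simp only [Complex.ofReal_one, one_mul] at h3
  rw [← h3]; ring

theorem pvtb_word_simple {n : ℕ} {f : ℕ → ℤ × ℤ} (h : PvtbCor (n + 1) f) : PvccSimple (pvtbWord n f) (pvtbWord n f).length := by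
  rw [pvtb_word_length]
  intro j k hj hk e
  have h1 := pvtb_word_C0 h hj hk
  rw [e, sub_self, mul_zero] at h1
  have h2 : f (j + 1) - f (k + 1) = 0 := pvtZ_injective (by rw [← h1]; simp [pvtZ])
  have := pvtb_cor_inj h (i := j + 1) (j := k + 1) (by omega) (by omega) (sub_eq_zero.1 h2)
  omega

theorem pvtb_N_Z (u : ℤ × ℤ) : pvccN (pvtZ u) = max |(u.1 : ℝ)| |(u.2 : ℝ)| := by
  simp [pvccN, pvtZ]

theorem pvtb_word_nr {n : ℕ} {f : ℕ → ℤ × ℤ} (h : PvtbCor (n + 1) f) : PvfeNR (pvtbWord n f) := by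
  intro j k hjk hk
  rw [pvtb_word_length] at hk
  have h1 := pvtb_word_C0 h (j := j) (k := k) (by omega) hk
  have h2 := pvccN_unit_mul (pvtb_Z_unit (pvtb_cor_dir h (i := 0) (by omega))).1 (pvccC 0 1 (pvtbWord n f) j - pvccC 0 1 (pvtbWord n f) k)
  rw [zero_add, h1, pvtb_N_Z] at h2
  rw [← h2]
  rcases pvtb_cor_gap h (i := j + 1) (j := k + 1) (by omega) (by omega) with g | g
  · refine le_max_of_le_left ?_
    have : ((2 : ℤ) : ℝ) ≤ ((|(f (j + 1)).1 - (f (k + 1)).1| : ℤ) : ℝ) := by exact_mod_cast g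
    simpa using this
  · refine le_max_of_le_right ?_
    have : ((2 : ℤ) : ℝ) ≤ ((|(f (j + 1)).2 - (f (k + 1)).2| : ℤ) : ℝ) := by exact_mod_cast g
    simpa using this

/-- a point within `3 δ` of the centre of the cell `c` lies only in squares within sup-distance `3` of `c` -/
theorem pvtb_ball_cells {δ : ℝ} (hδ : 0 < δ) {c u : ℤ × ℤ} {w : ℂ} (hw : ‖w - pvtCtr δ c‖ ≤ 3 * δ) (hu : w ∈ pvtSq δ u) : u ∈ pvtwN 3 {c} := by
  obtain ⟨k1, k2, k3, k4⟩ := hu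
  have r1 := (Complex.abs_re_le_norm _).trans hw
  have r2 := (Complex.abs_im_le_norm _).trans hw
  simp only [Complex.sub_re, Complex.sub_im, pvtCtr] at r1 r2
  rw [abs_le] at r1 r2
  have i1 : (u.1 : ℝ) < (c.1 : ℝ) + 4 := by nlinarith
  have i2 : (c.1 : ℝ) < (u.1 : ℝ) + 4 := by nlinarith
  have i3 : (u.2 : ℝ) < (c.2 : ℝ) + 4 := by nlinarith
  have i4 : (c.2 : ℝ) < (u.2 : ℝ) + 4 := by nlinarith
  have j1 : u.1 < c.1 + 4 := by exact_mod_cast i1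
  have j2 : c.1 < u.1 + 4 := by exact_mod_cast i2
  have j3 : u.2 < c.2 + 4 := by exact_mod_cast i3
  have j4 : c.2 < u.2 + 4 := by exact_mod_cast i4
  exact ⟨c, rfl, by push_cast; omega, by push_cast; omega, by push_cast; omega, by push_cast; omega⟩

/-- **D20 for the word of a corridor**: the cells within sup-distance `4` of `Z` have their collars in the two discs -/
theorem pvtb_word_adm {n : ℕ} {f : ℕ → ℤ × ℤ} (h : PvtbCor (n + 1) f) {δ : ℝ} (hδ : 0 < δ) {Z : Set (ℤ × ℤ)} {ys yt : ℂ} {rA : ℝ}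
    (hoff : ∀ i, 1 ≤ i → i ≤ n → f i ∈ pvtwN 4 Z → Metric.closedBall (pvtCtr δ (f i)) (3 * δ) ⊆ Metric.closedBall yt rA ∪ Metric.closedBall ys rA) :
    PvfeAdm δ 3 rA ys yt (pvtbDoor δ f 0) ((δ : ℂ) * pvtZ (f 1 - f 0)) (pvtbWord n f) Z := by
  intro w hw hZ
  obtain ⟨j, hj, hn⟩ := pvfe_mem_tube.1 hw
  rw [pvtb_word_length] at hj
  have nd : ‖(δ : ℂ) * pvtZ (f 1 - f 0)‖ = δ := by
    rw [norm_mul, (pvtb_Z_unit (pvtb_cor_dir h (i := 0) (by omega))).2, mul_one, Complex.norm_real, Real.norm_eq_abs, abs_of_pos hδ]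
  rw [pvtb_word_C h δ (by omega), nd] at hn
  simp only [pvtU, Set.mem_iUnion, exists_prop] at hZ
  obtain ⟨u, hu, hwu⟩ := hZ
  refine hoff (j + 1) (by omega) (by omega) ?_ (by rw [Metric.mem_closedBall, dist_eq_norm]; exact hn)
  have h3 := pvtw_N_symm (pvtb_ball_cells hδ hn hwu)
  rw [← pvtw_N_one] at hu
  have : f (j + 1) ∈ pvtwN 3 (pvtwN 1 Z) := pvtw_N_iff.2 ⟨u, hu, h3⟩
  rwa [pvtw_N_add] at this

/-- **`Γ.Ok`** for the word of a corridor from door to door -/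
theorem pvtb_word_ok {τ : Type} (Γ : PvtsGeo τ) {n : ℕ} {f : ℕ → ℤ × ℤ} (h : PvtbCor (n + 1) f) (zs zt : ℂ) (ts tt : τ)
    (hout : zt + Γ.pout tt = pvtbDoor Γ.δ f 0) (hdo : Γ.dout tt = pvtZ (f 1 - f 0)) (hin : zs + Γ.pin ts = pvtbDoor Γ.δ f n) (hdi : Γ.din ts = pvtZ (f (n + 1) - f n)) :
    Γ.Ok ⟨zs, ts, zt, tt, pvtbWord n f⟩ := by
  obtain ⟨h1, h2⟩ := pvtb_word_disp h Γ.δ
  refine ⟨?_, ?_⟩
  · show (Γ.δ : ℂ) * pvtDisp (Γ.dout tt) (pvtbWord n f) = (zs + Γ.pin ts) - (zt + Γ.pout tt)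
    rw [hdo, h1, hin, hout]
  · show pvtDir (Γ.dout tt) (pvtbWord n f) = Γ.din ts
    rw [hdo, h2, hdi]

/-! ### 17. (COR) with plane hypotheses -/

theorem pvtb_cells_union (δ : ℝ) (A B : Set ℂ) : pvtCells δ (A ∪ B) = pvtCells δ A ∪ pvtCells δ B := by
  ext z
  simp only [pvtCells, Set.mem_ofPred_eq, Set.mem_union, Set.inter_union_distrib_left, Set.union_nonempty]

/-- the cells which meet a subset of a rectangle -/
theorem pvtb_cells_rect {δ : ℝ} (hδ : 0 < δ) {S : Set ℂ} {a b c d : ℝ} (h : S ⊆ pvtcRect a b c d) : pvtCells δ S ⊆ tscBox (⌈a / δ⌉ - 1) ⌊b / δ⌋ (⌈c / δ⌉ - 1) ⌊d / δ⌋ := by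
  rintro z ⟨p, ⟨k1, k2, k3, k4⟩, hp⟩
  obtain ⟨r1, r2, r3, r4⟩ := h hp
  refine ⟨?_, Int.le_floor.2 ?_, ?_, Int.le_floor.2 ?_⟩
  · have : ⌈a / δ⌉ ≤ z.1 + 1 := Int.ceil_le.2 (by rw [div_le_iff₀ hδ]; push_cast; linarith)
    omega
  · rw [le_div_iff₀ hδ]; linarith
  · have : ⌈c / δ⌉ ≤ z.2 + 1 := Int.ceil_le.2 (by rw [div_le_iff₀ hδ]; push_cast; linarith)
    omega
  · rw [le_div_iff₀ hδ]; linarith

/-- a cell whose centre is off the rectangle enlarged by `(k + 2) δ` is off the integer box of the `k`-fattened cells -/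
theorem pvtb_ctr_off {δ : ℝ} (hδ : 0 < δ) {a b c d : ℝ} {k : ℕ} {q : ℤ × ℤ}
    (h : pvtCtr δ q ∉ pvtcRect (a - ((k : ℝ) + 2) * δ) (b + ((k : ℝ) + 2) * δ) (c - ((k : ℝ) + 2) * δ) (d + ((k : ℝ) + 2) * δ)) :
    q ∉ tscBox (⌈a / δ⌉ - 1 - k) (⌊b / δ⌋ + k) (⌈c / δ⌉ - 1 - k) (⌊d / δ⌋ + k) := by
  rintro ⟨h1, h2, h3, h4⟩
  apply h
  have e1 : (⌈a / δ⌉ : ℝ) - 1 - k ≤ q.1 := by exact_mod_cast h1
  have e2 : (q.1 : ℝ) ≤ ⌊b / δ⌋ + k := by exact_mod_cast h2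
  have e3 : (⌈c / δ⌉ : ℝ) - 1 - k ≤ q.2 := by exact_mod_cast h3
  have e4 : (q.2 : ℝ) ≤ ⌊d / δ⌋ + k := by exact_mod_cast h4
  have f1 : a / δ ≤ ⌈a / δ⌉ := Int.le_ceil _
  have f2 : (⌊b / δ⌋ : ℝ) ≤ b / δ := Int.floor_le _
  have f3 : c / δ ≤ ⌈c / δ⌉ := Int.le_ceil _
  have f4 : (⌊d / δ⌋ : ℝ) ≤ d / δ := Int.floor_le _
  rw [div_le_iff₀ hδ] at f1 f3
  rw [le_div_iff₀ hδ] at f2 f4
  refine ⟨?_, ?_, ?_, ?_⟩ <;> simp only [pvtCtr] <;> nlinarith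

/-- a cell whose centre lies in a rectangle lies in the integer box of the rectangle -/
theorem pvtb_ctr_in {δ : ℝ} (hδ : 0 < δ) {a b c d : ℝ} {q : ℤ × ℤ} (h : pvtCtr δ q ∈ pvtcRect a b c d) : q ∈ tscBox (⌈a / δ⌉ - 1) ⌊b / δ⌋ (⌈c / δ⌉ - 1) ⌊d / δ⌋ :=
  pvtb_cells_rect hδ (S := {pvtCtr δ q}) (Set.singleton_subset_iff.2 h) ⟨pvtCtr δ q, pvt_sq_ctr hδ.le, rfl⟩

theorem pvtb_wh_N {p d : ℤ × ℤ} (hd : d = (1, 0) ∨ d = (-1, 0) ∨ d = (0, 1) ∨ d = (0, -1)) {l : ℕ} {u : ℤ × ℤ} (hu : u ∈ pvtbWh p d l) : u ∈ pvtwN l {p} := by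
  obtain ⟨i, hi, rfl⟩ := hu
  have hi' : (i : ℤ) ≤ l := by exact_mod_cast hi
  refine ⟨p, rfl, ?_, ?_, ?_, ?_⟩ <;> rcases hd with rfl | rfl | rfl | rfl <;> simp <;> omega

/-- **(COR) OF RECORD, PLANE HYPOTHESES.**   `K` = the thin obstacle, `closedBall yt rM`, `closedBall ys rM` = the two mouth discs (whole standard mouth structure), everything in the sup-ball of radius `ρ1` round `x`;
`Kt`, `Ks ⊆ K` connected = the late stretches: they contain `K ∩ closedBall y rP` (PROTECTED radius `rP ≥ rM + (4 k + 4) δ`, `k = j + 5`) and lie with the discs in the rectangles `Qt`, `Qs`;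
door cells `pt`, `ps` meet the discs, outer normals `dt`, `ds`, fronts `pt + lt dt`, `ps + ls ds` : centres off the two rectangles enlarged by `(k + 2) δ`, accessible for `K` ALONE. -/
theorem pvtb_fit_mouth_pl_run {δ : ℝ} (hδ : 0 < δ) {j : ℕ} {K Kt Ks : Set ℂ} {x yt ys : ℂ} {ρ1 rM rP : ℝ}
    (hK : ∀ p ∈ K ∪ Metric.closedBall yt rM ∪ Metric.closedBall ys rM, |p.re - x.re| ≤ ρ1 ∧ |p.im - x.im| ≤ ρ1)
    (hKt : Kt ⊆ K) (hKs : Ks ⊆ K) (cKt : IsPreconnected Kt) (cKs : IsPreconnected Ks)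
    (near_t : ∀ p ∈ K, ‖p - yt‖ ≤ rP → p ∈ Kt) (near_s : ∀ p ∈ K, ‖p - ys‖ ≤ rP → p ∈ Ks) (hrP : rM + (4 * ((j : ℝ) + 5) + 4) * δ ≤ rP)
    {a1 b1 c1 d1 a2 b2 c2 d2 : ℝ} (rt : Kt ∪ Metric.closedBall yt rM ⊆ pvtcRect a1 b1 c1 d1) (rs : Ks ∪ Metric.closedBall ys rM ⊆ pvtcRect a2 b2 c2 d2)
    {pt dt ps ds : ℤ × ℤ} {lt ls : ℕ} (hdt : dt = (1, 0) ∨ dt = (-1, 0) ∨ dt = (0, 1) ∨ dt = (0, -1)) (hds : ds = (1, 0) ∨ ds = (-1, 0) ∨ ds = (0, 1) ∨ ds = (0, -1))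
    (ft : (pvtSq δ pt ∩ Metric.closedBall yt rM).Nonempty) (fs : (pvtSq δ ps ∩ Metric.closedBall ys rM).Nonempty)
    (hfar : 2 * rM + (2 * ((lt : ℝ) + ls) + 4 * ((j : ℝ) + 5) + 8) * δ < ‖yt - ys‖)
    (ztt : pvtCtr δ (pt + (lt : ℤ) • dt) ∉ pvtcRect (a1 - ((j : ℝ) + 7) * δ) (b1 + ((j : ℝ) + 7) * δ) (c1 - ((j : ℝ) + 7) * δ) (d1 + ((j : ℝ) + 7) * δ))
    (zts : pvtCtr δ (pt + (lt : ℤ) • dt) ∉ pvtcRect (a2 - ((j : ℝ) + 7) * δ) (b2 + ((j : ℝ) + 7) * δ) (c2 - ((j : ℝ) + 7) * δ) (d2 + ((j : ℝ) + 7) * δ))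
    (zst : pvtCtr δ (ps + (ls : ℤ) • ds) ∉ pvtcRect (a1 - ((j : ℝ) + 7) * δ) (b1 + ((j : ℝ) + 7) * δ) (c1 - ((j : ℝ) + 7) * δ) (d1 + ((j : ℝ) + 7) * δ))
    (zss : pvtCtr δ (ps + (ls : ℤ) • ds) ∉ pvtcRect (a2 - ((j : ℝ) + 7) * δ) (b2 + ((j : ℝ) + 7) * δ) (c2 - ((j : ℝ) + 7) * δ) (d2 + ((j : ℝ) + 7) * δ))
    (bt : |(pvtCtr δ (pt + (lt : ℤ) • dt)).re - x.re| ≤ ρ1 ∧ |(pvtCtr δ (pt + (lt : ℤ) • dt)).im - x.im| ≤ ρ1)
    (bs : |(pvtCtr δ (ps + (ls : ℤ) • ds)).re - x.re| ≤ ρ1 ∧ |(pvtCtr δ (ps + (ls : ℤ) • ds)).im - x.im| ≤ ρ1)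
    (ht : pt + (lt : ℤ) • dt ∈ pvtOut (pvtwN (j + 5) (pvtCells δ K))) (hs : ps + (ls : ℤ) • ds ∈ pvtOut (pvtwN (j + 5) (pvtCells δ K))) :
    ∃ (n : ℕ) (f : ℕ → ℤ × ℤ), PvtbCor (n + 1) f ∧ 1 ≤ n ∧ f 0 = pt ∧ f 1 = pt + dt ∧ f n = ps + ds ∧ f (n + 1) = ps ∧
      (∀ i, i ≤ n + 1 → ∀ w ∈ pvtSq δ (f i), |w.re - x.re| ≤ ρ1 + ((j : ℝ) + 6) * δ ∧ |w.im - x.im| ≤ ρ1 + ((j : ℝ) + 6) * δ) ∧
      (∀ i, i ≤ n + 1 → f i ∈ pvtbWh pt dt lt ∨ f i ∈ pvtbWh ps ds ls ∨ f i ∉ pvtwN (j + 1) (pvtCells δ (K ∪ Metric.closedBall yt rM ∪ Metric.closedBall ys rM))) ∧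
      PvtbRun (n + 1) f pt dt lt ∧ PvtbRun (n + 1) (fun i => f (n + 1 - i)) ps ds ls := by
  have hk : ((j + 5 : ℕ) : ℝ) = (j : ℝ) + 5 := by push_cast; ring
  -- the big rectangle
  have hKr : K ∪ Metric.closedBall yt rM ∪ Metric.closedBall ys rM ⊆ pvtcRect (x.re - ρ1) (x.re + ρ1) (x.im - ρ1) (x.im + ρ1) := by
    intro p hp
    obtain ⟨h1, h2⟩ := hK p hp
    rw [abs_le] at h1 h2
    exact ⟨by linarith, by linarith, by linarith, by linarith⟩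
  have hE := pvtb_cells_rect hδ hKr
  rw [pvtb_cells_union, pvtb_cells_union] at hE
  have bddK : Bornology.IsBounded K := by
    refine (Metric.isBounded_closedBall (x := x) (r := 2 * ρ1)).subset fun p hp => ?_
    obtain ⟨h1, h2⟩ := hK p (Or.inl (Or.inl hp))
    rw [Metric.mem_closedBall, dist_eq_norm]
    have := Complex.norm_le_abs_re_add_abs_im (p - x)
    rw [Complex.sub_re, Complex.sub_im] at this
    linarith
  -- near
  have near : ∀ (y : ℂ) (K' : Set ℂ), (∀ p ∈ K, ‖p - y‖ ≤ rP → p ∈ K') → ∀ e ∈ pvtCells δ K, e ∈ pvtwN (2 * (j + 5) + 1) (pvtCells δ (Metric.closedBall y rM)) → e ∈ pvtCells δ K' := by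
    rintro y K' hn e ⟨p, hpe, hpK⟩ he
    obtain ⟨u, ⟨q, hqu, hq⟩, heu⟩ := pvtw_N_iff.1 he
    have h1 := pvtc_pl_sq_close hδ heu hqu hpe
    rw [Metric.mem_closedBall, dist_eq_norm] at hq
    refine ⟨p, hpe, hn p hpK ?_⟩
    have h2 : ‖p - y‖ ≤ ‖q - p‖ + ‖q - y‖ := by
      have : p - y = (q - y) - (q - p) := by ring
      rw [this]; exact (norm_sub_le _ _).trans (by linarith)
    push_cast at h1
    nlinarith
  -- the two discs are far apart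
  have far : ∀ e ∈ pvtCells δ (Metric.closedBall yt rM), e ∉ pvtwN (2 * (j + 5) + 1) (pvtCells δ (Metric.closedBall ys rM)) := by
    rintro e ⟨p, hpe, hp⟩ he
    obtain ⟨u, ⟨q, hqu, hq⟩, heu⟩ := pvtw_N_iff.1 he
    have h1 := pvtc_pl_sq_close hδ heu hqu hpe
    rw [Metric.mem_closedBall, dist_eq_norm] at hp hq
    have h2 : ‖yt - ys‖ ≤ ‖p - yt‖ + ‖q - p‖ + ‖q - ys‖ := by
      have : yt - ys = (q - ys) - (q - p) - (p - yt) := by ring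
      rw [this]
      exact (norm_sub_le _ _).trans (by have := norm_sub_le (q - ys) (q - p); linarith)
    push_cast at h1
    have l0 : (0 : ℝ) ≤ (lt : ℝ) + ls := by positivity
    nlinarith
  -- the whiskers are apart
  have apart : ∀ u ∈ pvtbWh pt dt lt, ∀ v ∈ pvtbWh ps ds ls, u ≠ v ∧ ¬ pvtbG8.Adj u v := by
    intro u hu v hv
    have key : v ∉ pvtwN 1 {u} := by
      intro huv
      have h1 : ps ∈ pvtwN ls {v} := pvtw_N_symm (pvtb_wh_N hds hv)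
      have h2 : ps ∈ pvtwN ls (pvtwN 1 (pvtwN lt {pt})) := pvtw_N_iff.2 ⟨v, pvtw_N_iff.2 ⟨u, pvtb_wh_N hdt hu, huv⟩, h1⟩
      rw [pvtw_N_add, pvtw_N_add] at h2
      obtain ⟨p, hp1, hp2⟩ := ft
      obtain ⟨q, hq1, hq2⟩ := fs
      have h3 := pvtc_pl_sq_close hδ h2 hp1 hq1
      rw [Metric.mem_closedBall, dist_eq_norm] at hp2 hq2
      have h4 : ‖yt - ys‖ ≤ ‖p - yt‖ + ‖p - q‖ + ‖q - ys‖ := by
        have : yt - ys = (q - ys) + (p - q) - (p - yt) := by ring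
        rw [this]
        exact (norm_sub_le _ _).trans (by have := norm_add_le (q - ys) (p - q); linarith)
      push_cast at h3
      have j0 : (0 : ℝ) ≤ (j : ℝ) := by positivity
      nlinarith
    refine ⟨fun e => key ⟨u, rfl, by rw [e]; omega, by rw [e]; omega, by rw [e]; omega, by rw [e]; omega⟩, fun e => ?_⟩
    obtain ⟨_, e1, e2, e3, e4⟩ := e
    exact key ⟨u, rfl, by push_cast; omega, by push_cast; omega, by push_cast; omega, by push_cast; omega⟩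
  -- the small boxes
  have box : ∀ (S : Set ℂ) (y : ℂ) (a b c d : ℝ), S ∪ Metric.closedBall y rM ⊆ pvtcRect a b c d →
      pvtwN (j + 5) (pvtCells δ S ∪ pvtCells δ (Metric.closedBall y rM)) ⊆ tscBox (⌈a / δ⌉ - 1 - (j + 5 : ℕ)) (⌊b / δ⌋ + (j + 5 : ℕ)) (⌈c / δ⌉ - 1 - (j + 5 : ℕ)) (⌊d / δ⌋ + (j + 5 : ℕ)) := by
    intro S y a b c d h
    rw [← pvtb_cells_union]
    exact pvtw_N_box (pvtb_cells_rect hδ h)
  have off : ∀ (q : ℤ × ℤ) (a b c d : ℝ), pvtCtr δ q ∉ pvtcRect (a - ((j : ℝ) + 7) * δ) (b + ((j : ℝ) + 7) * δ) (c - ((j : ℝ) + 7) * δ) (d + ((j : ℝ) + 7) * δ) →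
      q ∉ tscBox (⌈a / δ⌉ - 1 - (j + 5 : ℕ)) (⌊b / δ⌋ + (j + 5 : ℕ)) (⌈c / δ⌉ - 1 - (j + 5 : ℕ)) (⌊d / δ⌋ + (j + 5 : ℕ)) := by
    intro q a b c d h
    refine pvtb_ctr_off hδ (k := j + 5) ?_
    rw [hk, show (j : ℝ) + 5 + 2 = (j : ℝ) + 7 by ring]
    exact h
  have inb : ∀ q : ℤ × ℤ, (|(pvtCtr δ q).re - x.re| ≤ ρ1 ∧ |(pvtCtr δ q).im - x.im| ≤ ρ1) →
      q ∈ tscBox (⌈(x.re - ρ1) / δ⌉ - 1 - j - 4) (⌊(x.re + ρ1) / δ⌋ + j + 4) (⌈(x.im - ρ1) / δ⌉ - 1 - j - 4) (⌊(x.im + ρ1) / δ⌋ + j + 4) := by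
    rintro q ⟨h1, h2⟩
    rw [abs_le] at h1 h2
    obtain ⟨g1, g2, g3, g4⟩ := pvtb_ctr_in hδ (a := x.re - ρ1) (b := x.re + ρ1) (c := x.im - ρ1) (d := x.im + ρ1) (q := q) ⟨by linarith, by linarith, by linarith, by linarith⟩
    exact ⟨by omega, by omega, by omega, by omega⟩
  obtain ⟨n, f, hcor, hn, f0, f1, fn1, fn, hbox, hoff, -, run1, run2⟩ := pvtb_fit_mouth_run (j := j) hE (a' := ⌈(x.re - ρ1) / δ⌉ - 1 - j - 4) (b' := ⌊(x.re + ρ1) / δ⌋ + j + 4)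
    (c' := ⌈(x.im - ρ1) / δ⌉ - 1 - j - 4) (d' := ⌊(x.im + ρ1) / δ⌋ + j + 4) (by omega) (by omega) (by omega) (by omega)
    (pvt_cells_mono hKt) (pvt_cells_mono hKs) (pvt_cells_conn hδ cKt (bddK.subset hKt)) (pvt_cells_conn hδ cKs (bddK.subset hKs))
    (near yt Kt near_t) (near ys Ks near_s) far (box Kt yt a1 b1 c1 d1 rt) (box Ks ys a2 b2 c2 d2 rs) hdt hds ft fs
    (off _ _ _ _ _ ztt) (off _ _ _ _ _ zts) (off _ _ _ _ _ zst) (off _ _ _ _ _ zss) ht hs (inb _ bt) (inb _ bs) apart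
  obtain ⟨n, rfl⟩ : ∃ n', n = n' + 1 := ⟨n - 1, by omega⟩
  refine ⟨n, f, hcor, by omega, f0, f1, by simpa using fn1, fn, ?_, ?_, run1, run2⟩
  · intro i hi w hw
    obtain ⟨g1, g2, g3, g4⟩ := hbox i hi
    obtain ⟨k1, k2, k3, k4⟩ := hw
    have e1 : (⌈(x.re - ρ1) / δ⌉ : ℝ) - 1 - j - 4 ≤ (f i).1 := by exact_mod_cast g1
    have e2 : ((f i).1 : ℝ) ≤ ⌊(x.re + ρ1) / δ⌋ + j + 4 := by exact_mod_cast g2
    have e3 : (⌈(x.im - ρ1) / δ⌉ : ℝ) - 1 - j - 4 ≤ (f i).2 := by exact_mod_cast g3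
    have e4 : ((f i).2 : ℝ) ≤ ⌊(x.im + ρ1) / δ⌋ + j + 4 := by exact_mod_cast g4
    have c1 : (x.re - ρ1) / δ ≤ ⌈(x.re - ρ1) / δ⌉ := Int.le_ceil _
    have c2 : (⌊(x.re + ρ1) / δ⌋ : ℝ) ≤ (x.re + ρ1) / δ := Int.floor_le _
    have c3 : (x.im - ρ1) / δ ≤ ⌈(x.im - ρ1) / δ⌉ := Int.le_ceil _
    have c4 : (⌊(x.im + ρ1) / δ⌋ : ℝ) ≤ (x.im + ρ1) / δ := Int.floor_le _
    rw [div_le_iff₀ hδ] at c1 c3
    rw [le_div_iff₀ hδ] at c2 c4
    constructor <;> rw [abs_le] <;> constructor <;> nlinarith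
  · intro i hi
    rw [pvtb_cells_union, pvtb_cells_union]
    exact hoff i hi

/-- the same without the runs -/
theorem pvtb_fit_mouth_pl {δ : ℝ} (hδ : 0 < δ) {j : ℕ} {K Kt Ks : Set ℂ} {x yt ys : ℂ} {ρ1 rM rP : ℝ}
    (hK : ∀ p ∈ K ∪ Metric.closedBall yt rM ∪ Metric.closedBall ys rM, |p.re - x.re| ≤ ρ1 ∧ |p.im - x.im| ≤ ρ1)
    (hKt : Kt ⊆ K) (hKs : Ks ⊆ K) (cKt : IsPreconnected Kt) (cKs : IsPreconnected Ks)
    (near_t : ∀ p ∈ K, ‖p - yt‖ ≤ rP → p ∈ Kt) (near_s : ∀ p ∈ K, ‖p - ys‖ ≤ rP → p ∈ Ks) (hrP : rM + (4 * ((j : ℝ) + 5) + 4) * δ ≤ rP)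
    {a1 b1 c1 d1 a2 b2 c2 d2 : ℝ} (rt : Kt ∪ Metric.closedBall yt rM ⊆ pvtcRect a1 b1 c1 d1) (rs : Ks ∪ Metric.closedBall ys rM ⊆ pvtcRect a2 b2 c2 d2)
    {pt dt ps ds : ℤ × ℤ} {lt ls : ℕ} (hdt : dt = (1, 0) ∨ dt = (-1, 0) ∨ dt = (0, 1) ∨ dt = (0, -1)) (hds : ds = (1, 0) ∨ ds = (-1, 0) ∨ ds = (0, 1) ∨ ds = (0, -1))
    (ft : (pvtSq δ pt ∩ Metric.closedBall yt rM).Nonempty) (fs : (pvtSq δ ps ∩ Metric.closedBall ys rM).Nonempty)
    (hfar : 2 * rM + (2 * ((lt : ℝ) + ls) + 4 * ((j : ℝ) + 5) + 8) * δ < ‖yt - ys‖)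
    (ztt : pvtCtr δ (pt + (lt : ℤ) • dt) ∉ pvtcRect (a1 - ((j : ℝ) + 7) * δ) (b1 + ((j : ℝ) + 7) * δ) (c1 - ((j : ℝ) + 7) * δ) (d1 + ((j : ℝ) + 7) * δ))
    (zts : pvtCtr δ (pt + (lt : ℤ) • dt) ∉ pvtcRect (a2 - ((j : ℝ) + 7) * δ) (b2 + ((j : ℝ) + 7) * δ) (c2 - ((j : ℝ) + 7) * δ) (d2 + ((j : ℝ) + 7) * δ))
    (zst : pvtCtr δ (ps + (ls : ℤ) • ds) ∉ pvtcRect (a1 - ((j : ℝ) + 7) * δ) (b1 + ((j : ℝ) + 7) * δ) (c1 - ((j : ℝ) + 7) * δ) (d1 + ((j : ℝ) + 7) * δ))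
    (zss : pvtCtr δ (ps + (ls : ℤ) • ds) ∉ pvtcRect (a2 - ((j : ℝ) + 7) * δ) (b2 + ((j : ℝ) + 7) * δ) (c2 - ((j : ℝ) + 7) * δ) (d2 + ((j : ℝ) + 7) * δ))
    (bt : |(pvtCtr δ (pt + (lt : ℤ) • dt)).re - x.re| ≤ ρ1 ∧ |(pvtCtr δ (pt + (lt : ℤ) • dt)).im - x.im| ≤ ρ1)
    (bs : |(pvtCtr δ (ps + (ls : ℤ) • ds)).re - x.re| ≤ ρ1 ∧ |(pvtCtr δ (ps + (ls : ℤ) • ds)).im - x.im| ≤ ρ1)
    (ht : pt + (lt : ℤ) • dt ∈ pvtOut (pvtwN (j + 5) (pvtCells δ K))) (hs : ps + (ls : ℤ) • ds ∈ pvtOut (pvtwN (j + 5) (pvtCells δ K))) :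
    ∃ (n : ℕ) (f : ℕ → ℤ × ℤ), PvtbCor (n + 1) f ∧ 1 ≤ n ∧ f 0 = pt ∧ f 1 = pt + dt ∧ f n = ps + ds ∧ f (n + 1) = ps ∧
      (∀ i, i ≤ n + 1 → ∀ w ∈ pvtSq δ (f i), |w.re - x.re| ≤ ρ1 + ((j : ℝ) + 6) * δ ∧ |w.im - x.im| ≤ ρ1 + ((j : ℝ) + 6) * δ) ∧
      (∀ i, i ≤ n + 1 → f i ∈ pvtbWh pt dt lt ∨ f i ∈ pvtbWh ps ds ls ∨ f i ∉ pvtwN (j + 1) (pvtCells δ (K ∪ Metric.closedBall yt rM ∪ Metric.closedBall ys rM))) := by
  obtain ⟨n, f, h1, h2, h3, h4, h5, h6, h7, h8, -, -⟩ := pvtb_fit_mouth_pl_run hδ hK hKt hKs cKt cKs near_t near_s hrP rt rs hdt hds ft fs hfar ztt zts zst zss bt bs ht hs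
  exact ⟨n, f, h1, h2, h3, h4, h5, h6, h7, h8⟩

/-! ### 18. the nozzle: inside the mouth the corridor IS the whisker -/

theorem pvtb_ctr_wh (δ : ℝ) (p d : ℤ × ℤ) (a : ℕ) : pvtCtr δ (p + (a : ℤ) • d) = pvtCtr δ p + (a : ℂ) * ((δ : ℂ) * pvtZ d) := by
  have h := pvtb_ctr_sub δ (p + (a : ℤ) • d) p
  rw [add_sub_cancel_left] at h
  have e : pvtZ ((a : ℤ) • d) = (a : ℂ) * pvtZ d := by
    simp only [pvtZ, Prod.smul_fst, Prod.smul_snd, smul_eq_mul]; push_cast; ring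
  rw [e] at h
  rw [← sub_eq_iff_eq_add', h]; ring

/-- a point within `k δ` of the centre of the cell `c` lies only in squares within sup-distance `k` of `c` -/
theorem pvtb_ball_cells_gen {δ : ℝ} (hδ : 0 < δ) (k : ℕ) {c u : ℤ × ℤ} {w : ℂ} (hw : ‖w - pvtCtr δ c‖ ≤ k * δ) (hu : w ∈ pvtSq δ u) : u ∈ pvtwN k {c} := by
  obtain ⟨k1, k2, k3, k4⟩ := hu
  have r1 := (Complex.abs_re_le_norm _).trans hw
  have r2 := (Complex.abs_im_le_norm _).trans hw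
  simp only [Complex.sub_re, Complex.sub_im, pvtCtr] at r1 r2
  rw [abs_le] at r1 r2
  have i1 : (u.1 : ℝ) < (c.1 : ℝ) + k + 1 := by nlinarith
  have i2 : (c.1 : ℝ) < (u.1 : ℝ) + k + 1 := by nlinarith
  have i3 : (u.2 : ℝ) < (c.2 : ℝ) + k + 1 := by nlinarith
  have i4 : (c.2 : ℝ) < (u.2 : ℝ) + k + 1 := by nlinarith
  have j1 : u.1 < c.1 + k + 1 := by exact_mod_cast i1
  have j2 : c.1 < u.1 + k + 1 := by exact_mod_cast i2
  have j3 : u.2 < c.2 + k + 1 := by exact_mod_cast i3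
  have j4 : c.2 < u.2 + k + 1 := by exact_mod_cast i4
  exact ⟨c, rfl, by omega, by omega, by omega, by omega⟩

/-- **ONE END.**   `X` = the forbidden cells, `W'` = the other whisker.   The cells whose centres are within `rM` of `y`, and their side neighbours, lie in `X` and off `W'`.
Then the corridor runs along its whisker as long as the centres are within `rM` of `y`, one cell more, and never comes back. -/
theorem pvtb_noz_half {n : ℕ} {f : ℕ → ℤ × ℤ} (h : PvtbCor (n + 1) f) (δ : ℝ) {p d : ℤ × ℤ} (hd : d = (1, 0) ∨ d = (-1, 0) ∨ d = (0, 1) ∨ d = (0, -1)) {l : ℕ} {y : ℂ} {rM : ℝ}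
    {X W' : Set (ℤ × ℤ)} (f0 : f 0 = p) (f1 : f 1 = p + d) (cl : ∀ i, i ≤ n + 1 → f i ∈ pvtbWh p d l ∨ f i ∈ W' ∨ f i ∉ X)
    (hX : ∀ c u, ‖pvtCtr δ c - y‖ ≤ rM → (u = c ∨ pvtbG4.Adj c u) → u ∈ X ∧ u ∉ W') (hp : ‖pvtCtr δ p - y‖ ≤ rM) (hend : rM < ‖pvtCtr δ (f (n + 1)) - y‖) :
    ∃ a1, a1 ≤ n ∧ (∀ a, a ≤ a1 + 1 → f a = p + (a : ℤ) • d) ∧ (∀ a, a ≤ a1 → ‖pvtCtr δ (f a) - y‖ ≤ rM) ∧ ∀ i, a1 < i → i ≤ n + 1 → rM < ‖pvtCtr δ (f i) - y‖ := by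
  classical
  obtain ⟨P, hP⟩ : ∃ P : ℕ → Prop, ∀ a, P a ↔ ‖pvtCtr δ (p + (a : ℤ) • d) - y‖ ≤ rM := ⟨_, fun _ => Iff.rfl⟩
  have P0 : P 0 := by rw [hP]; simpa using hp
  obtain ⟨a1, ha1⟩ : ∃ a1, a1 = Nat.findGreatest P l := ⟨_, rfl⟩
  have Pa1 : P a1 := by rw [ha1]; exact Nat.findGreatest_spec (Nat.zero_le l) P0
  have great : ∀ a, a1 < a → a ≤ l → ¬ P a := fun a h1 h2 => Nat.findGreatest_is_greatest (by rw [← ha1]; exact h1) h2
  have conv : ∀ a, a ≤ a1 → P a := by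
    intro a ha
    rcases Nat.eq_zero_or_pos a1 with h0 | h0
    · have : a = 0 := by omega
      rw [this]; exact P0
    · rw [hP] at Pa1 ⊢
      rw [pvtb_ctr_wh] at Pa1 ⊢
      have hpos : (0 : ℝ) < a1 := by exact_mod_cast h0
      have hle : (a : ℝ) ≤ a1 := by exact_mod_cast ha
      have ht0 : 0 ≤ (a : ℝ) / a1 := by positivity
      have ht1 : (a : ℝ) / a1 ≤ 1 := (div_le_one hpos).2 hle
      have e : pvtCtr δ p + (a : ℂ) * ((δ : ℂ) * pvtZ d) - y =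
          ((1 - (a : ℝ) / a1 : ℝ) : ℂ) * (pvtCtr δ p - y) + (((a : ℝ) / a1 : ℝ) : ℂ) * (pvtCtr δ p + (a1 : ℂ) * ((δ : ℂ) * pvtZ d) - y) := by
        have hne : (a1 : ℂ) ≠ 0 := by exact_mod_cast h0.ne'
        push_cast
        field_simp
        ring
      rw [e]
      refine (norm_add_le _ _).trans ?_
      rw [norm_mul, norm_mul, Complex.norm_real, Complex.norm_real, Real.norm_of_nonneg ht0, Real.norm_of_nonneg (by linarith)]
      nlinarith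
  have run : ∀ a, a ≤ a1 + 1 → a ≤ n + 1 ∧ f a = p + (a : ℤ) • d := by
    intro a
    induction a using Nat.strong_induction_on with
    | _ a ih =>
      intro ha
      rcases a with _ | _ | b
      · exact ⟨by omega, by simpa using f0⟩
      · exact ⟨by omega, by simpa using f1⟩
      · obtain ⟨g1, e1⟩ := ih (b + 1) (by omega) (by omega)
        obtain ⟨-, e0⟩ := ih b (by omega) (by omega)
        have Pb : ‖pvtCtr δ (f (b + 1)) - y‖ ≤ rM := by rw [e1]; exact (hP _).1 (conv (b + 1) (by omega))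
        have hlt : b + 1 < n + 1 := by
          rcases Nat.lt_or_ge (b + 1) (n + 1) with h1 | h1
          · exact h1
          · have : b + 1 = n + 1 := by omega
            rw [this] at Pb
            exact absurd Pb (not_le.2 hend)
        refine ⟨by omega, ?_⟩
        have hdiff : f (b + 1) - f b = d := by
          rw [e1, e0]
          ext <;> simp <;> ring
        have adj := h.step (b + 1) hlt
        obtain ⟨hx, hw⟩ := hX _ _ Pb (Or.inr adj)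
        have hwh : f (b + 1 + 1) ∈ pvtbWh p d l := by
          rcases cl (b + 1 + 1) (by omega) with c1 | c1 | c1
          · exact c1
          · exact absurd c1 hw
          · exact absurd hx c1
        obtain ⟨i, -, hi⟩ := hwh
        have turn := pvtb_cor_turn h (i := b) (by omega)
        rw [hdiff] at turn
        rw [show b + 1 + 1 = b + 2 from rfl] at hi
        rw [hi, e1] at turn
        rw [show b + 1 + 1 = b + 2 from rfl, hi]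
        have hib : (i : ℤ) = (b : ℤ) + 2 := by
          simp only [Prod.ext_iff, pvtbI, Prod.fst_sub, Prod.snd_sub, Prod.fst_add, Prod.snd_add, Prod.smul_fst, Prod.smul_snd, smul_eq_mul, Prod.fst_neg, Prod.snd_neg] at turn
          rcases hd with rfl | rfl | rfl | rfl <;> simp only at turn <;> push_cast at turn <;> omega
        rw [hib]; push_cast; rfl
  refine ⟨a1, by have := (run (a1 + 1) le_rfl).1; omega, fun a ha => (run a ha).2, fun a ha => by rw [(run a (by omega)).2]; exact (hP _).1 (conv a ha), ?_⟩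
  intro i hi1 hi2
  by_contra hc
  rw [not_lt] at hc
  obtain ⟨hx, hw⟩ := hX _ _ hc (Or.inl rfl)
  rcases cl i hi2 with c1 | c1 | c1
  · obtain ⟨a, ha, e⟩ := c1
    have Pa : P a := by rw [hP, ← e]; exact hc
    have ha1' : a ≤ a1 := by
      by_contra hh
      exact great a (by omega) ha Pa
    have := pvtb_cor_inj h (i := i) (j := a) hi2 (run a (by omega)).1 (by rw [e, (run a (by omega)).2])
    omega
  · exact hw c1
  · exact c1 hx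


/-- the hypothesis `hX` of `pvtb_noz_half` at the radius `rM + 4 δ` -/
theorem pvtb_noz_X {δ : ℝ} (hδ : 0 < δ) {j : ℕ} (hj : 4 ≤ j) {A : Set ℂ} {y y' : ℂ} {rM : ℝ} (hr : 0 ≤ rM) (hA : Metric.closedBall y rM ⊆ A)
    {p' d' : ℤ × ℤ} {l' : ℕ} (hd' : d' = (1, 0) ∨ d' = (-1, 0) ∨ d' = (0, 1) ∨ d' = (0, -1)) (f' : (pvtSq δ p' ∩ Metric.closedBall y' rM).Nonempty)
    (hfar : 2 * rM + (2 * (l' : ℝ) + 10) * δ < ‖y - y'‖)
    {c u : ℤ × ℤ} (hc : ‖pvtCtr δ c - y‖ ≤ rM + 4 * δ) (hu : u = c ∨ pvtbG4.Adj c u) : u ∈ pvtwN (j + 1) (pvtCells δ A) ∧ u ∉ pvtbWh p' d' l' := by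
  have hu1 : u ∈ pvtwN 1 {c} := by
    rcases hu with rfl | h
    · exact ⟨u, rfl, by omega, by omega, by omega, by omega⟩
    · rw [pvtb_G4_adj] at h
      exact ⟨c, rfl, by push_cast; omega, by push_cast; omega, by push_cast; omega, by push_cast; omega⟩
  constructor
  · obtain ⟨q, hq1, hq2⟩ := exists_dist_le_le (x := pvtCtr δ c) (z := y) (by positivity : 0 ≤ 4 * δ) hr (by rw [dist_eq_norm]; exact hc)
    obtain ⟨v, hv⟩ := pvt_sq_cover hδ q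
    have hvc : v ∈ pvtwN 4 {c} := pvtb_ball_cells_gen hδ 4 (by rw [← dist_eq_norm, dist_comm]; simpa using hq1) hv
    have hvA : v ∈ pvtCells δ A := ⟨q, hv, hA (by rw [Metric.mem_closedBall]; exact hq2)⟩
    obtain ⟨_, rfl, a1, a2, a3, a4⟩ := hu1
    obtain ⟨_, rfl, b1, b2, b3, b4⟩ := hvc
    push_cast at a1 a2 a3 a4 b1 b2 b3 b4
    exact ⟨v, hvA, by push_cast; omega, by push_cast; omega, by push_cast; omega, by push_cast; omega⟩
  · intro hw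
    have h1 := pvtb_wh_N hd' hw
    obtain ⟨q, hq1, hq2⟩ := f'
    have h2 := pvtc_pl_sq_close hδ h1 hq1 (pvt_sq_ctr hδ.le (z := u))
    have h3 := pvtc_pl_sq_close hδ hu1 (pvt_sq_ctr hδ.le (z := c)) (pvt_sq_ctr hδ.le (z := u))
    rw [Metric.mem_closedBall, dist_eq_norm] at hq2
    have h4 : ‖y - y'‖ ≤ ‖pvtCtr δ c - y‖ + ‖pvtCtr δ c - pvtCtr δ u‖ + ‖q - pvtCtr δ u‖ + ‖q - y'‖ := by
      have e : y - y' = -(pvtCtr δ c - y) + (pvtCtr δ c - pvtCtr δ u) + -(q - pvtCtr δ u) + (q - y') := by ring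
      rw [e]
      refine (norm_add_le _ _).trans (add_le_add_left ((norm_add_le _ _).trans (add_le_add ((norm_add_le _ _).trans ?_) ?_)) _)
      · rw [norm_neg]
      · rw [norm_neg]
    push_cast at h3
    nlinarith

/-- **(MB), STRONG FORM** (cure (N) of 148): beyond its straight nozzle the corridor NEVER comes back to the mouth of `t`, before its last straight nozzle it NEVER meets the mouth of `s` (so the nozzle of `t` is off the mouth of `s` too) -/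
theorem pvtb_word_noz2 {δ : ℝ} (hδ : 0 < δ) {j : ℕ} (hj : 4 ≤ j) {K : Set ℂ} {yt ys : ℂ} {rM : ℝ}
    {pt dt ps ds : ℤ × ℤ} {lt ls : ℕ} (hdt : dt = (1, 0) ∨ dt = (-1, 0) ∨ dt = (0, 1) ∨ dt = (0, -1)) (hds : ds = (1, 0) ∨ ds = (-1, 0) ∨ ds = (0, 1) ∨ ds = (0, -1))
    (ft : (pvtSq δ pt ∩ Metric.closedBall yt rM).Nonempty) (fs : (pvtSq δ ps ∩ Metric.closedBall ys rM).Nonempty)
    (hfar : 2 * rM + (2 * ((lt : ℝ) + ls) + 10) * δ < ‖yt - ys‖)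
    {n : ℕ} {f : ℕ → ℤ × ℤ} (h : PvtbCor (n + 1) f) (f0 : f 0 = pt) (f1 : f 1 = pt + dt) (fn : f n = ps + ds) (fn1 : f (n + 1) = ps)
    (cl : ∀ i, i ≤ n + 1 → f i ∈ pvtbWh pt dt lt ∨ f i ∈ pvtbWh ps ds ls ∨ f i ∉ pvtwN (j + 1) (pvtCells δ (K ∪ Metric.closedBall yt rM ∪ Metric.closedBall ys rM))) :
    ∃ nt ns : ℕ, nt + ns ≤ (pvtbWord n f).length ∧ (∀ i, i < nt → pvccT (pvtbWord n f) i = PvtTurn.S) ∧ (∀ i, (pvtbWord n f).length ≤ i + ns → i < (pvtbWord n f).length → pvccT (pvtbWord n f) i = PvtTurn.S) ∧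
      (∀ i, nt ≤ i → i < (pvtbWord n f).length → rM + 4 * δ < ‖pvccC (pvtbDoor δ f 0) ((δ : ℂ) * pvtZ (f 1 - f 0)) (pvtbWord n f) i - yt‖) ∧
      (∀ i, i + ns < (pvtbWord n f).length → rM + 4 * δ < ‖pvccC (pvtbDoor δ f 0) ((δ : ℂ) * pvtZ (f 1 - f 0)) (pvtbWord n f) i - ys‖) := by
  have hr : 0 ≤ rM := by
    obtain ⟨q, -, hq⟩ := ft
    exact dist_nonneg.trans (Metric.mem_closedBall.1 hq)
  have hlt : (0 : ℝ) ≤ lt := Nat.cast_nonneg _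
  have hls : (0 : ℝ) ≤ ls := Nat.cast_nonneg _
  have near : ∀ {p : ℤ × ℤ} {y : ℂ}, (pvtSq δ p ∩ Metric.closedBall y rM).Nonempty → ‖pvtCtr δ p - y‖ ≤ rM + 2 * δ := by
    rintro p y ⟨q, hq1, hq2⟩
    rw [Metric.mem_closedBall, dist_eq_norm] at hq2
    have := pvt_sq_diam (pvt_sq_ctr hδ.le (z := p)) hq1
    have e : pvtCtr δ p - y = (pvtCtr δ p - q) + (q - y) := by ring
    rw [e]
    exact (norm_add_le _ _).trans (by linarith)
  have nt' := near ft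
  have ns' := near fs
  have hsymm : ‖ys - yt‖ = ‖yt - ys‖ := norm_sub_rev _ _
  -- the target end
  obtain ⟨a1, ha1, ra, na, fa⟩ := pvtb_noz_half h δ hdt (l := lt) (y := yt) (rM := rM + 4 * δ) (W' := pvtbWh ps ds ls) f0 f1 cl
    (fun c u hc hu => pvtb_noz_X hδ hj hr (fun q hq => Or.inl (Or.inr hq)) hds fs (by nlinarith) hc hu) (by linarith)
    (by
      rw [fn1]
      have e : yt - ys = -(pvtCtr δ ps - yt) + (pvtCtr δ ps - ys) := by ring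
      have := norm_add_le (-(pvtCtr δ ps - yt)) (pvtCtr δ ps - ys)
      rw [← e, norm_neg] at this
      nlinarith)
  -- the source end
  have hg := pvtb_cor_rev h
  obtain ⟨b1, hb1, rb, nb, fb⟩ := pvtb_noz_half hg δ hds (l := ls) (y := ys) (rM := rM + 4 * δ) (W' := pvtbWh pt dt lt) (by simpa using fn1) (by simpa using fn)
    (fun i hi => by
      rcases cl (n + 1 - i) (by omega) with c | c | c
      · exact Or.inr (Or.inl c)
      · exact Or.inl c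
      · exact Or.inr (Or.inr c))
    (fun c u hc hu => pvtb_noz_X hδ hj hr (fun q hq => Or.inr hq) hdt ft (by rw [hsymm]; nlinarith) hc hu) (by linarith)
    (by
      simp only [Nat.sub_self, f0]
      have e : yt - ys = (pvtCtr δ pt - ys) + -(pvtCtr δ pt - yt) := by ring
      have := norm_add_le (pvtCtr δ pt - ys) (-(pvtCtr δ pt - yt))
      rw [← e, norm_neg] at this
      nlinarith)
  refine ⟨a1, b1, ?_, ?_, ?_, ?_, ?_⟩
  · rw [pvtb_word_length]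
    by_contra hc
    have h1 := na a1 le_rfl
    have h2 := nb (n + 1 - a1) (by omega)
    rw [show n + 1 - (n + 1 - a1) = a1 by omega] at h2
    have e : yt - ys = -(pvtCtr δ (f a1) - yt) + (pvtCtr δ (f a1) - ys) := by ring
    have := norm_add_le (-(pvtCtr δ (f a1) - yt)) (pvtCtr δ (f a1) - ys)
    rw [← e, norm_neg] at this
    nlinarith
  · intro i hi
    rw [pvtb_word_T f (by omega), ra i (by omega), ra (i + 1) (by omega), ra (i + 2) (by omega)]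
    have e : pt + ((i + 2 : ℕ) : ℤ) • dt - (pt + ((i + 1 : ℕ) : ℤ) • dt) = pt + ((i + 1 : ℕ) : ℤ) • dt - (pt + (i : ℤ) • dt) := by
      ext <;> simp <;> ring
    rw [e, pvtbLet, if_pos rfl]
  · intro i hi1 hi2
    rw [pvtb_word_length] at hi1 hi2
    have e0 := rb (n + 1 - i) (by omega)
    have e1 := rb (n - i) (by omega)
    have e2 := rb (n - 1 - i) (by omega)
    rw [show n + 1 - (n + 1 - i) = i by omega] at e0
    rw [show n + 1 - (n - i) = i + 1 by omega] at e1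
    rw [show n + 1 - (n - 1 - i) = i + 2 by omega] at e2
    rw [pvtb_word_T f hi2, e0, e1, e2]
    have c0 : ((n + 1 - i : ℕ) : ℤ) = ((n - 1 - i : ℕ) : ℤ) + 2 := by omega
    have c1 : ((n - i : ℕ) : ℤ) = ((n - 1 - i : ℕ) : ℤ) + 1 := by omega
    rw [c0, c1]
    have e : ps + ((n - 1 - i : ℕ) : ℤ) • ds - (ps + (((n - 1 - i : ℕ) : ℤ) + 1) • ds) = ps + (((n - 1 - i : ℕ) : ℤ) + 1) • ds - (ps + (((n - 1 - i : ℕ) : ℤ) + 2) • ds) := by
      ext <;> simp <;> ring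
    rw [e, pvtbLet, if_pos rfl]
  · intro i hi1 hi2
    rw [pvtb_word_length] at hi2
    rw [pvtb_word_C h δ (by omega)]
    exact fa (i + 1) (by omega) (by omega)
  · intro i hi2
    rw [pvtb_word_length] at hi2
    rw [pvtb_word_C h δ (by omega)]
    have := fb (n - i) (by omega) (by omega)
    rwa [show n + 1 - (n - i) = i + 1 by omega] at this

/-- **(MB) = `PvfeNoz` FOR THE WORD OF THE CORRIDOR OF `pvtb_fit_mouth_pl`** (`4 ≤ j`): radius `rM + 4 δ` round the centres of the two mouth discs of radius `rM` -/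
theorem pvtb_word_noz {δ : ℝ} (hδ : 0 < δ) {j : ℕ} (hj : 4 ≤ j) {K : Set ℂ} {yt ys : ℂ} {rM : ℝ}
    {pt dt ps ds : ℤ × ℤ} {lt ls : ℕ} (hdt : dt = (1, 0) ∨ dt = (-1, 0) ∨ dt = (0, 1) ∨ dt = (0, -1)) (hds : ds = (1, 0) ∨ ds = (-1, 0) ∨ ds = (0, 1) ∨ ds = (0, -1))
    (ft : (pvtSq δ pt ∩ Metric.closedBall yt rM).Nonempty) (fs : (pvtSq δ ps ∩ Metric.closedBall ys rM).Nonempty)
    (hfar : 2 * rM + (2 * ((lt : ℝ) + ls) + 10) * δ < ‖yt - ys‖)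
    {n : ℕ} {f : ℕ → ℤ × ℤ} (h : PvtbCor (n + 1) f) (f0 : f 0 = pt) (f1 : f 1 = pt + dt) (fn : f n = ps + ds) (fn1 : f (n + 1) = ps)
    (cl : ∀ i, i ≤ n + 1 → f i ∈ pvtbWh pt dt lt ∨ f i ∈ pvtbWh ps ds ls ∨ f i ∉ pvtwN (j + 1) (pvtCells δ (K ∪ Metric.closedBall yt rM ∪ Metric.closedBall ys rM))) :
    PvfeNoz (rM + 4 * δ) ys yt (pvtbDoor δ f 0) ((δ : ℂ) * pvtZ (f 1 - f 0)) (pvtbWord n f) := by
  obtain ⟨nt, ns, h1, h2, h3, h4, h5⟩ := pvtb_word_noz2 hδ hj hdt hds ft fs hfar h f0 f1 fn fn1 cl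
  exact ⟨nt, ns, h1, h2, h3, fun i hi1 hi2 => ⟨h4 i hi1 (by omega), h5 i hi2⟩⟩

/-! ### 19. (LK) = `PvfeLk` of `Defs/FitReg` v5 -/

/-- the two whiskers are apart -/
theorem pvtb_wh_apart {δ : ℝ} (hδ : 0 < δ) {yt ys : ℂ} {rM : ℝ} {pt dt ps ds : ℤ × ℤ} {lt ls : ℕ} (hdt : dt = (1, 0) ∨ dt = (-1, 0) ∨ dt = (0, 1) ∨ dt = (0, -1)) (hds : ds = (1, 0) ∨ ds = (-1, 0) ∨ ds = (0, 1) ∨ ds = (0, -1))
    (ft : (pvtSq δ pt ∩ Metric.closedBall yt rM).Nonempty) (fs : (pvtSq δ ps ∩ Metric.closedBall ys rM).Nonempty) (hfar : 2 * rM + (2 * ((lt : ℝ) + ls) + 4) * δ < ‖yt - ys‖) :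
    ∀ u ∈ pvtbWh pt dt lt, ∀ v ∈ pvtbWh ps ds ls, u ≠ v ∧ ¬ pvtbG8.Adj u v := by
  intro u hu v hv
  have key : v ∉ pvtwN 1 {u} := by
    intro huv
    have h1 : ps ∈ pvtwN ls {v} := pvtw_N_symm (pvtb_wh_N hds hv)
    have h2 : ps ∈ pvtwN ls (pvtwN 1 (pvtwN lt {pt})) := pvtw_N_iff.2 ⟨v, pvtw_N_iff.2 ⟨u, pvtb_wh_N hdt hu, huv⟩, h1⟩
    rw [pvtw_N_add, pvtw_N_add] at h2
    obtain ⟨p, hp1, hp2⟩ := ft
    obtain ⟨q, hq1, hq2⟩ := fs
    have h3 := pvtc_pl_sq_close hδ h2 hp1 hq1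
    rw [Metric.mem_closedBall, dist_eq_norm] at hp2 hq2
    have h4 : ‖yt - ys‖ ≤ ‖p - yt‖ + ‖p - q‖ + ‖q - ys‖ := by
      have : yt - ys = (q - ys) + (p - q) - (p - yt) := by ring
      rw [this]
      exact (norm_sub_le _ _).trans (by have := norm_add_le (q - ys) (p - q); linarith)
    push_cast at h3
    nlinarith
  refine ⟨fun e => key ⟨u, rfl, by rw [e]; omega, by rw [e]; omega, by rw [e]; omega, by rw [e]; omega⟩, fun e => ?_⟩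
  obtain ⟨_, e1, e2, e3, e4⟩ := e
  exact key ⟨u, rfl, by push_cast; omega, by push_cast; omega, by push_cast; omega, by push_cast; omega⟩

/-- a side neighbour of a cell off `N_{k+1}` is off `N_k` -/
theorem pvtb_N_nb {E : Set (ℤ × ℤ)} {k : ℕ} {u v : ℤ × ℤ} (h : pvtbG4.Adj u v) (hv : v ∉ pvtwN (k + 1) E) : u ∉ pvtwN k E := by
  rintro ⟨z, hz, h1, h2, h3, h4⟩
  rw [pvtb_G4_adj] at h
  exact hv ⟨z, hz, by push_cast; omega, by push_cast; omega, by push_cast; omega, by push_cast; omega⟩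

/-- the collar of a cell off the `4`-fattening of `Z` misses the fattened cells of `Z` -/
theorem pvtb_collar_off {δ : ℝ} (hδ : 0 < δ) {Z : Set (ℤ × ℤ)} {c : ℤ × ℤ} (hc : c ∉ pvtwN 4 Z) : Disjoint (Metric.closedBall (pvtCtr δ c) (3 * δ)) (pvtU δ (pvtN8 Z)) := by
  rw [Set.disjoint_left]
  intro w hw hZ
  rw [Metric.mem_closedBall, dist_eq_norm] at hw
  simp only [pvtU, Set.mem_iUnion, exists_prop] at hZ
  obtain ⟨u, hu, hwu⟩ := hZ
  have h3 := pvtw_N_symm (pvtb_ball_cells hδ hw hwu)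
  rw [← pvtw_N_one] at hu
  have : c ∈ pvtwN 3 (pvtwN 1 Z) := pvtw_N_iff.2 ⟨u, hu, h3⟩
  rw [pvtw_N_add] at this
  exact hc this

/-- ONE END of (LK): the run of the corridor along its whisker goes beyond the nozzle, and its last cell is off the `4`-fattening of the obstacle -/
theorem pvtb_lk_half {n : ℕ} {f : ℕ → ℤ × ℤ} (h : PvtbCor (n + 1) f) {j : ℕ} {E W' : Set (ℤ × ℤ)} {p d : ℤ × ℤ} {l : ℕ}
    (cl : ∀ i, i ≤ n + 1 → f i ∈ pvtbWh p d l ∨ f i ∈ W' ∨ f i ∉ pvtwN (j + 1) E) (apart : ∀ u ∈ pvtbWh p d l, ∀ v ∈ W', u ≠ v ∧ ¬ pvtbG8.Adj u v) (hend : f (n + 1) ∈ W')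
    (run : PvtbRun (n + 1) f p d l) :
    ∃ a, a ≤ l ∧ a ≤ n ∧ (∀ b, b ≤ a → f b = p + (b : ℤ) • d) ∧ (∀ i, a < i → i ≤ n + 1 → f i ∉ pvtbWh p d l) ∧ f a ∉ pvtwN j E := by
  obtain ⟨a, h1, h2, h3, h4⟩ := run
  have ha : f a ∈ pvtbWh p d l := ⟨a, h1, h3 a le_rfl⟩
  have han : a ≤ n := by
    by_contra hc
    have : a = n + 1 := by omega
    rw [this] at ha
    exact (apart _ ha _ hend).1 rfl
  refine ⟨a, h1, han, h3, h4, ?_⟩
  have adj := h.step a (by omega)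
  refine pvtb_N_nb adj ?_
  rcases cl (a + 1) (by omega) with c | c | c
  · exact absurd c (h4 (a + 1) (by omega) (by omega))
  · exact absurd (pvtb_G4_G8 adj) (apart _ ha _ c).2
  · exact c

/-- a cell off the `4`-fattening of the cells of a disc: its centre is farther than `r + 4 δ` from the centre of the disc -/
theorem pvtb_disc_far {δ : ℝ} (hδ : 0 < δ) {A : Set ℂ} {y : ℂ} {rM : ℝ} (hr : 0 ≤ rM) (hA : Metric.closedBall y rM ⊆ A) {c : ℤ × ℤ} (hc : c ∉ pvtwN 4 (pvtCells δ A)) : rM + 4 * δ < ‖pvtCtr δ c - y‖ := by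
  by_contra hcon
  rw [not_lt] at hcon
  obtain ⟨q, hq1, hq2⟩ := exists_dist_le_le (x := pvtCtr δ c) (z := y) (by positivity : 0 ≤ 4 * δ) hr (by rw [dist_eq_norm]; exact hcon)
  obtain ⟨v, hv⟩ := pvt_sq_cover hδ q
  have hvc : v ∈ pvtwN 4 {c} := pvtb_ball_cells_gen hδ 4 (by rw [← dist_eq_norm, dist_comm]; simpa using hq1) hv
  exact hc (pvtw_N_iff.2 ⟨v, ⟨q, hv, hA (by rw [Metric.mem_closedBall]; exact hq2)⟩, pvtw_N_symm hvc⟩)

/-- the cells of a whisker are far from the other mouth -/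
theorem pvtb_wh_far {δ : ℝ} (hδ : 0 < δ) {y y' : ℂ} {rM : ℝ} {p' d' : ℤ × ℤ} {l' : ℕ} (hd' : d' = (1, 0) ∨ d' = (-1, 0) ∨ d' = (0, 1) ∨ d' = (0, -1)) (f' : (pvtSq δ p' ∩ Metric.closedBall y' rM).Nonempty)
    (hfar : 2 * rM + (2 * (l' : ℝ) + 6) * δ < ‖y - y'‖) {u : ℤ × ℤ} (hu : u ∈ pvtbWh p' d' l') : rM + 4 * δ < ‖pvtCtr δ u - y‖ := by
  obtain ⟨q, hq1, hq2⟩ := f'
  have h2 := pvtc_pl_sq_close hδ (pvtb_wh_N hd' hu) hq1 (pvt_sq_ctr hδ.le (z := u))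
  rw [Metric.mem_closedBall, dist_eq_norm] at hq2
  have h4 : ‖y - y'‖ ≤ ‖pvtCtr δ u - y‖ + ‖q - pvtCtr δ u‖ + ‖q - y'‖ := by
    have e : y - y' = -(pvtCtr δ u - y) + -(q - pvtCtr δ u) + (q - y') := by ring
    rw [e]
    refine (norm_add_le _ _).trans (add_le_add_left ((norm_add_le _ _).trans ?_) _)
    rw [norm_neg, norm_neg]
  nlinarith

/-- **(LK), STRONG FORM (= `PvfeLk` of v5, unfolded: collar `3 δ`, fattened cells `pvtN8 Z`) FOR THE WORD OF THE CORRIDOR OF `pvtb_fit_mouth_pl_run`** (`4 ≤ j`).      First link := the run along the whisker of `t` minus its last cell, last link := the same at `s`.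
The middle cells are off the `4`-fattening of the cells of `K ∪ discs`: their collars miss the fattened cells of `Z`, their centres are farther than `rM + 4 δ` from `yt`, `ys`. -/
theorem pvtb_word_lk_str {δ : ℝ} (hδ : 0 < δ) {j : ℕ} (hj : 4 ≤ j) {K : Set ℂ} {yt ys : ℂ} {rM rL : ℝ}
    {pt dt ps ds : ℤ × ℤ} {lt ls : ℕ} (hdt : dt = (1, 0) ∨ dt = (-1, 0) ∨ dt = (0, 1) ∨ dt = (0, -1)) (hds : ds = (1, 0) ∨ ds = (-1, 0) ∨ ds = (0, 1) ∨ ds = (0, -1))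
    (ft : (pvtSq δ pt ∩ Metric.closedBall yt rM).Nonempty) (fs : (pvtSq δ ps ∩ Metric.closedBall ys rM).Nonempty)
    (hfar : 2 * rM + (2 * ((lt : ℝ) + ls) + 10) * δ < ‖yt - ys‖) (hlt : (lt : ℝ) * δ ≤ rL) (hls : (ls : ℝ) * δ ≤ rL)
    {n : ℕ} {f : ℕ → ℤ × ℤ} (h : PvtbCor (n + 1) f) (f0 : f 0 = pt) (fn1 : f (n + 1) = ps)
    (cl : ∀ i, i ≤ n + 1 → f i ∈ pvtbWh pt dt lt ∨ f i ∈ pvtbWh ps ds ls ∨ f i ∉ pvtwN (j + 1) (pvtCells δ (K ∪ Metric.closedBall yt rM ∪ Metric.closedBall ys rM)))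
    (run_t : PvtbRun (n + 1) f pt dt lt) (run_s : PvtbRun (n + 1) (fun i => f (n + 1 - i)) ps ds ls)
    {Z : Set (ℤ × ℤ)} (hZ : Z ⊆ pvtCells δ (K ∪ Metric.closedBall yt rM ∪ Metric.closedBall ys rM)) :
    ∃ nt ns : ℕ, nt + ns ≤ (pvtbWord n f).length ∧ nt * δ ≤ rL ∧ ns * δ ≤ rL ∧ (∀ i, i < nt → pvccT (pvtbWord n f) i = PvtTurn.S) ∧
      (∀ i, (pvtbWord n f).length ≤ i + ns → i < (pvtbWord n f).length → pvccT (pvtbWord n f) i = PvtTurn.S) ∧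
      (∀ i, nt ≤ i → i < (pvtbWord n f).length → rM + 4 * δ < ‖pvccC (pvtbDoor δ f 0) ((δ : ℂ) * pvtZ (f 1 - f 0)) (pvtbWord n f) i - yt‖) ∧
      (∀ i, i + ns < (pvtbWord n f).length → rM + 4 * δ < ‖pvccC (pvtbDoor δ f 0) ((δ : ℂ) * pvtZ (f 1 - f 0)) (pvtbWord n f) i - ys‖) ∧
      ∀ i, nt ≤ i → i + ns < (pvtbWord n f).length → Disjoint (Metric.closedBall (pvccC (pvtbDoor δ f 0) ((δ : ℂ) * pvtZ (f 1 - f 0)) (pvtbWord n f) i) (3 * δ)) (pvtU δ (pvtN8 Z)) := by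
  have hr : 0 ≤ rM := by
    obtain ⟨q, -, hq⟩ := ft
    exact dist_nonneg.trans (Metric.mem_closedBall.1 hq)
  have l0 : (0 : ℝ) ≤ lt := Nat.cast_nonneg _
  have l1 : (0 : ℝ) ≤ ls := Nat.cast_nonneg _
  have hsymm : ‖ys - yt‖ = ‖yt - ys‖ := norm_sub_rev _ _
  have apart := pvtb_wh_apart hδ hdt hds ft fs (by nlinarith)
  obtain ⟨E, hE⟩ : ∃ E, E = pvtCells δ (K ∪ Metric.closedBall yt rM ∪ Metric.closedBall ys rM) := ⟨_, rfl⟩
  rw [← hE] at cl hZ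
  obtain ⟨a, a1, a2, a3, a4, a5⟩ := pvtb_lk_half h cl apart (by rw [fn1]; exact pvtb_wh_foot ps ds ls) run_t
  obtain ⟨b, b1, b2, b3, b4, b5⟩ := pvtb_lk_half (pvtb_cor_rev h) (W' := pvtbWh pt dt lt) (E := E) (j := j)
    (fun i hi => by
      rcases cl (n + 1 - i) (by omega) with c | c | c
      · exact Or.inr (Or.inl c)
      · exact Or.inl c
      · exact Or.inr (Or.inr c))
    (fun u hu v hv => ⟨fun e => (apart v hv u hu).1 e.symm, fun e => (apart v hv u hu).2 e.symm⟩) (by simp only [Nat.sub_self, f0]; exact pvtb_wh_foot pt dt lt) run_s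
  have hab : a + b ≤ n + 1 := by
    by_contra hc
    have h1 := b3 (n + 1 - a) (by omega)
    rw [show n + 1 - (n + 1 - a) = a by omega] at h1
    exact (apart _ ⟨a, a1, a3 a le_rfl⟩ _ ⟨n + 1 - a, by omega, h1⟩).1 rfl
  -- the middle cells
  have mid : ∀ i, a ≤ i → i + b ≤ n + 1 → f i ∉ pvtwN 4 E := by
    intro i h1 h2 hc
    rcases (by omega : i = a ∨ a < i) with rfl | h3
    · exact a5 (pvtw_N_mono hj le_rfl hc)
    · rcases (by omega : i + b = n + 1 ∨ i + b < n + 1) with h4 | h4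
      · rw [show n + 1 - b = i by omega] at b5
        exact b5 (pvtw_N_mono hj le_rfl hc)
      · have h5 := b4 (n + 1 - i) (by omega) (by omega)
        rw [show n + 1 - (n + 1 - i) = i by omega] at h5
        rcases cl i (by omega) with c | c | c
        · exact a4 i h3 (by omega) c
        · exact h5 c
        · exact c (pvtw_N_mono (by omega) le_rfl hc)
  have cast_le : ∀ {k l : ℕ}, k ≤ l → (l : ℝ) * δ ≤ rL → ((k - 1 : ℕ) : ℝ) * δ ≤ rL := by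
    intro k l h1 h2
    have : ((k - 1 : ℕ) : ℝ) ≤ (l : ℝ) := by exact_mod_cast (by omega : k - 1 ≤ l)
    nlinarith
  refine ⟨a - 1, b - 1, ?_, cast_le a1 hlt, cast_le b1 hls, ?_, ?_, ?_, ?_, ?_⟩
  · rw [pvtb_word_length]; omega
  · intro i hi
    rw [pvtb_word_T f (by omega), a3 i (by omega), a3 (i + 1) (by omega), a3 (i + 2) (by omega)]
    have e : pt + ((i + 2 : ℕ) : ℤ) • dt - (pt + ((i + 1 : ℕ) : ℤ) • dt) = pt + ((i + 1 : ℕ) : ℤ) • dt - (pt + (i : ℤ) • dt) := by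
      ext <;> simp <;> ring
    rw [e, pvtbLet, if_pos rfl]
  · intro i hi1 hi2
    rw [pvtb_word_length] at hi1 hi2
    have e0 := b3 (n + 1 - i) (by omega)
    have e1 := b3 (n - i) (by omega)
    have e2 := b3 (n - 1 - i) (by omega)
    rw [show n + 1 - (n + 1 - i) = i by omega] at e0
    rw [show n + 1 - (n - i) = i + 1 by omega] at e1
    rw [show n + 1 - (n - 1 - i) = i + 2 by omega] at e2
    rw [pvtb_word_T f hi2, e0, e1, e2]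
    have c0 : ((n + 1 - i : ℕ) : ℤ) = ((n - 1 - i : ℕ) : ℤ) + 2 := by omega
    have c1 : ((n - i : ℕ) : ℤ) = ((n - 1 - i : ℕ) : ℤ) + 1 := by omega
    rw [c0, c1]
    have e : ps + ((n - 1 - i : ℕ) : ℤ) • ds - (ps + (((n - 1 - i : ℕ) : ℤ) + 1) • ds) = ps + (((n - 1 - i : ℕ) : ℤ) + 1) • ds - (ps + (((n - 1 - i : ℕ) : ℤ) + 2) • ds) := by
      ext <;> simp <;> ring
    rw [e, pvtbLet, if_pos rfl]
  · intro i hi1 hi2
    rw [pvtb_word_length] at hi2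
    rw [pvtb_word_C h δ (by omega)]
    rcases (by omega : i + 1 + b ≤ n + 1 ∨ n + 1 < i + 1 + b) with h1 | h1
    · exact pvtb_disc_far (A := K ∪ Metric.closedBall yt rM ∪ Metric.closedBall ys rM) hδ hr (fun q hq => Or.inl (Or.inr hq)) (by rw [← hE]; exact mid (i + 1) (by omega) h1)
    · have e := b3 (n + 1 - (i + 1)) (by omega)
      rw [show n + 1 - (n + 1 - (i + 1)) = i + 1 by omega] at e
      exact pvtb_wh_far (l' := ls) hδ hds fs (by nlinarith) ⟨n + 1 - (i + 1), by omega, e⟩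
  · intro i hi2
    rw [pvtb_word_length] at hi2
    rw [pvtb_word_C h δ (by omega)]
    rcases (by omega : a ≤ i + 1 ∨ i + 1 < a) with h1 | h1
    · exact pvtb_disc_far (A := K ∪ Metric.closedBall yt rM ∪ Metric.closedBall ys rM) hδ hr (fun q hq => Or.inr hq) (by rw [← hE]; exact mid (i + 1) h1 (by omega))
    · exact pvtb_wh_far (l' := lt) hδ hdt ft (by rw [hsymm]; nlinarith) ⟨i + 1, by omega, a3 (i + 1) (by omega)⟩
  · intro i hi1 hi2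
    rw [pvtb_word_length] at hi2
    rw [pvtb_word_C h δ (by omega)]
    exact pvtb_collar_off hδ (fun hc => mid (i + 1) (by omega) (by omega) (pvtw_N_mono le_rfl hZ hc))

/-- **(LK) = `PvfeLk`** in the form of `Defs/FitReg` v6 (collar `2 ‖d‖`, `Z` not fattened): weaker than `pvtb_word_lk_str` -/
theorem pvtb_word_lk {δ : ℝ} (hδ : 0 < δ) {j : ℕ} (hj : 4 ≤ j) {K : Set ℂ} {yt ys : ℂ} {rM rL : ℝ}
    {pt dt ps ds : ℤ × ℤ} {lt ls : ℕ} (hdt : dt = (1, 0) ∨ dt = (-1, 0) ∨ dt = (0, 1) ∨ dt = (0, -1)) (hds : ds = (1, 0) ∨ ds = (-1, 0) ∨ ds = (0, 1) ∨ ds = (0, -1))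
    (ft : (pvtSq δ pt ∩ Metric.closedBall yt rM).Nonempty) (fs : (pvtSq δ ps ∩ Metric.closedBall ys rM).Nonempty)
    (hfar : 2 * rM + (2 * ((lt : ℝ) + ls) + 10) * δ < ‖yt - ys‖) (hlt : (lt : ℝ) * δ ≤ rL) (hls : (ls : ℝ) * δ ≤ rL)
    {n : ℕ} {f : ℕ → ℤ × ℤ} (h : PvtbCor (n + 1) f) (f0 : f 0 = pt) (fn1 : f (n + 1) = ps)
    (cl : ∀ i, i ≤ n + 1 → f i ∈ pvtbWh pt dt lt ∨ f i ∈ pvtbWh ps ds ls ∨ f i ∉ pvtwN (j + 1) (pvtCells δ (K ∪ Metric.closedBall yt rM ∪ Metric.closedBall ys rM)))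
    (run_t : PvtbRun (n + 1) f pt dt lt) (run_s : PvtbRun (n + 1) (fun i => f (n + 1 - i)) ps ds ls)
    {Z : Set (ℤ × ℤ)} (hZ : Z ⊆ pvtCells δ (K ∪ Metric.closedBall yt rM ∪ Metric.closedBall ys rM)) :
    PvfeLk δ (rM + 4 * δ) rL ys yt (pvtbDoor δ f 0) ((δ : ℂ) * pvtZ (f 1 - f 0)) (pvtbWord n f) Z := by
  obtain ⟨nt, ns, h1, h2, h3, h4, h5, h6, h7, h8⟩ := pvtb_word_lk_str hδ hj hdt hds ft fs hfar hlt hls h f0 fn1 cl run_t run_s hZ
  have nd : ‖(δ : ℂ) * pvtZ (f 1 - f 0)‖ = δ := by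
    rw [norm_mul, (pvtb_Z_unit (pvtb_cor_dir h (i := 0) (by omega))).2, mul_one, Complex.norm_real, Real.norm_eq_abs, abs_of_pos hδ]
  refine ⟨nt, ns, h1, h2, h3, h4, h5, h6, h7, fun i hi1 hi2 => ?_⟩
  rw [nd]
  exact (h8 i hi1 hi2).mono (Metric.closedBall_subset_closedBall (by linarith)) (pvt_U_mono (by rw [← pvtw_N_one]; exact fun z hz => pvtw_N_sub hz))

theorem pvtb_fit_eqns_cite : True := by
  have := @pvtbObs.eq_1; have := @pvtbClamp.eq_1; have := @pvtbWh.eq_1; have := @pvtbPl.eq_1; have := @pvtbLet.eq_1; have := @pvtbWord.eq_1; have := @pvtbDoor.eq_1; have := @PvtbRun.eq_1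
  trivial

end Claimed.Agent.R289
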