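-- KEEP
import Claimed.Agent.R289.Tr.BandFit
import Claimed.Agent.R289.Defs.FitReg

/-!
# Row 289 (S0537), THE WALL, road E, FIT-DET, file Tr/CorE : (B3) = (I) = **ACC AT BOTH FRONTS ⟹ THE WORD, THE INDEX PREDICATES**      (helper270; prefix `pvjw_`, `Pvjw`; posts of 82, 24)

MODEL FREE: the obstacle `K : Set ℂ` is ABSTRACT, the doors are the doors of record in cell form (`PvfeDoors` of 209, `Defs/FitReg` v4).
* sec. 1  cells against balls: `pvjw_collar_off`, `pvjw_disc_far`, `pvjw_disc_near`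
* sec. 2  what the word of a corridor `f` (output of `pvtb_fit_mouth_pl` of 20) does: `pvjw_tube_off` (tube ∩ K inside the two discs), `pvjw_adm` (D20), `pvjw_ctr` (centres);   MB = `pvtb_word_noz` of 20
* sec. 3  `PvjwEnd` (an end of the corridor in absolute cells), **`pvjw_cor`** (THE CORRIDOR EXPOSED), **`pvjw_word`** (its word), **`pvjw_core`** : two ends + `K` + both front cells accessible ⟹ the word with all its properties
* sec. 4  `pvjwL` (length of the whiskers), **`pvjw_end`** : a door of `PvfeDoors` at a pin on the grid is a `PvjwEnd` (`r = h ‖y‖_∞ + ρ h`), `pvjw_door_eq`, `pvjw_front_eq`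
* sec. 5  fronts of record `pvjwFt`, `pvjwFs`, (ACC) `PvjwAcc` (= output of `pvacc_core` at `j = 9`), **`pvjw_gam`** : `PvfeDoors` + `K` + (ACC) ⟹ `∃ l, Γ.Ok ∧ (simple, NR, D20, weak MB) ∧ centres ∧ (tube ∩ K inside the discs 2 ρ h)`
AT THE MODEL (`PvfhCor` of 209, `K` of record of 211 215): `Tr/CorM.lean`.
-/

set_option autoImplicit false

namespace Claimed.Agent.R289

open Set Metric

/-! ## 1. cells against balls -/

/-- a cell off the `3`-fattening of the cells of `K`: the collar `closedBall centre (3 δ)` misses `K` -/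
theorem pvjw_collar_off {δ : ℝ} (hδ : 0 < δ) {K : Set ℂ} {c : ℤ × ℤ} (hc : c ∉ pvtwN 3 (pvtCells δ K)) {w : ℂ} (hw : ‖w - pvtCtr δ c‖ ≤ 3 * δ) : w ∉ K := by
  intro hK
  obtain ⟨u, hu⟩ := pvt_sq_cover hδ w
  exact hc (pvtw_N_iff.2 ⟨u, ⟨w, hu, hK⟩, pvtw_N_symm (pvtb_ball_cells hδ hw hu)⟩)

/-- one coordinate -/
theorem pvjw_aux_cell {δ : ℝ} (hδ : 0 < δ) {c u : ℤ} {a p : ℝ} (h1 : (u : ℝ) * δ ≤ p) (h2 : p ≤ ((u : ℝ) + 1) * δ) (h : |((c : ℝ) + 1 / 2) * δ - p| ≤ a * δ) (ha : a < 9 / 2) :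
    c ≤ u + 4 ∧ u ≤ c + 4 := by
  rw [abs_le] at h
  have i1 : (c : ℝ) < (u : ℝ) + 5 := by nlinarith
  have i2 : (u : ℝ) < (c : ℝ) + 5 := by nlinarith
  have j1 : c < u + 5 := by exact_mod_cast i1
  have j2 : u < c + 5 := by exact_mod_cast i2
  omega

/-- a cell off the `4`-fattening of the cells of a disc: its centre is farther than `r + 4 δ` from the centre of the disc -/
theorem pvjw_disc_far {δ : ℝ} (hδ : 0 < δ) {y : ℂ} {r : ℝ} (hr : 0 ≤ r) {c : ℤ × ℤ} (hc : c ∉ pvtwN 4 (pvtCells δ (closedBall y r))) : r + 4 * δ < ‖pvtCtr δ c - y‖ := by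
  by_contra hcon
  rw [not_lt] at hcon
  -- the point of the disc nearest to the centre of the cell
  obtain ⟨p, hp, hpc⟩ : ∃ p ∈ closedBall y r, ‖pvtCtr δ c - p‖ ≤ 4 * δ := by
    by_cases h0 : ‖pvtCtr δ c - y‖ ≤ r
    · exact ⟨pvtCtr δ c, by rw [mem_closedBall, dist_eq_norm]; exact h0, by rw [sub_self, norm_zero]; positivity⟩
    · rw [not_le] at h0
      have hn : 0 < ‖pvtCtr δ c - y‖ := lt_of_le_of_lt hr h0
      refine ⟨y + ((r / ‖pvtCtr δ c - y‖ : ℝ) : ℂ) * (pvtCtr δ c - y), ?_, ?_⟩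
      · rw [mem_closedBall, dist_eq_norm, add_sub_cancel_left, norm_mul, Complex.norm_real, Real.norm_eq_abs, abs_of_nonneg (by positivity), div_mul_cancel₀ _ hn.ne']
      · have e : pvtCtr δ c - (y + ((r / ‖pvtCtr δ c - y‖ : ℝ) : ℂ) * (pvtCtr δ c - y)) = ((1 - r / ‖pvtCtr δ c - y‖ : ℝ) : ℂ) * (pvtCtr δ c - y) := by
          push_cast; ring
        have h1 : 0 ≤ 1 - r / ‖pvtCtr δ c - y‖ := by
          rw [sub_nonneg, div_le_one hn]; exact h0.le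
        rw [e, norm_mul, Complex.norm_real, Real.norm_eq_abs, abs_of_nonneg h1, sub_mul, one_mul, div_mul_cancel₀ _ hn.ne']
        linarith
  obtain ⟨u, hu⟩ := pvt_sq_cover hδ p
  obtain ⟨k1, k2, k3, k4⟩ := hu
  have r1 := (Complex.abs_re_le_norm _).trans hpc
  have r2 := (Complex.abs_im_le_norm _).trans hpc
  simp only [Complex.sub_re, Complex.sub_im, pvtCtr] at r1 r2
  obtain ⟨a1, a2⟩ := pvjw_aux_cell hδ k1 k2 r1 (by norm_num)
  obtain ⟨a3, a4⟩ := pvjw_aux_cell hδ k3 k4 r2 (by norm_num)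
  exact hc ⟨u, ⟨p, ⟨k1, k2, k3, k4⟩, hp⟩, by push_cast; omega, by push_cast; omega, by push_cast; omega, by push_cast; omega⟩

/-- a cell in the `4`-fattening of the cells of a disc: its collar lies within `r + 12 δ` of the centre of the disc -/
theorem pvjw_disc_near {δ : ℝ} (hδ : 0 < δ) {y : ℂ} {r : ℝ} {c : ℤ × ℤ} (hc : c ∈ pvtwN 4 (pvtCells δ (closedBall y r))) {w : ℂ} (hw : ‖w - pvtCtr δ c‖ ≤ 3 * δ) : ‖w - y‖ ≤ r + 12 * δ := by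
  obtain ⟨u, ⟨p, ⟨k1, k2, k3, k4⟩, hp⟩, h1, h2, h3, h4⟩ := hc
  rw [mem_closedBall, dist_eq_norm] at hp
  push_cast at h1 h2 h3 h4
  have g1 : (c.1 : ℝ) ≤ (u.1 : ℝ) + 4 := by exact_mod_cast h1
  have g2 : (u.1 : ℝ) ≤ (c.1 : ℝ) + 4 := by exact_mod_cast h2
  have g3 : (c.2 : ℝ) ≤ (u.2 : ℝ) + 4 := by exact_mod_cast h3
  have g4 : (u.2 : ℝ) ≤ (c.2 : ℝ) + 4 := by exact_mod_cast h4
  have e1 : |(pvtCtr δ c - p).re| ≤ 9 / 2 * δ := by
    simp only [Complex.sub_re, pvtCtr]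
    rw [abs_le]; constructor <;> nlinarith
  have e2 : |(pvtCtr δ c - p).im| ≤ 9 / 2 * δ := by
    simp only [Complex.sub_im, pvtCtr]
    rw [abs_le]; constructor <;> nlinarith
  have e3 := Complex.norm_le_abs_re_add_abs_im (pvtCtr δ c - p)
  have e4 : w - y = (w - pvtCtr δ c) + (pvtCtr δ c - p) + (p - y) := by ring
  rw [e4]
  have := norm_add₃_le (a := w - pvtCtr δ c) (b := pvtCtr δ c - p) (c := p - y)
  linarith

/-! ## 2. what the word of a corridor does -/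

section word

variable {δ : ℝ} {n : ℕ} {f : ℕ → ℤ × ℤ}

theorem pvjw_norm_frame (hδ : 0 < δ) (h : PvtbCor (n + 1) f) : ‖(δ : ℂ) * pvtZ (f 1 - f 0)‖ = δ := by
  rw [norm_mul, (pvtb_Z_unit (pvtb_cor_dir h (i := 0) (by omega))).2, mul_one, Complex.norm_real, Real.norm_eq_abs, abs_of_pos hδ]

/-- a point of the tube lies in the collar of one of the cells `f 1, …, f n` -/
theorem pvjw_mem_tube (hδ : 0 < δ) (h : PvtbCor (n + 1) f) {w : ℂ} (hw : w ∈ pvfeTube 3 (pvtbDoor δ f 0) ((δ : ℂ) * pvtZ (f 1 - f 0)) (pvtbWord n f)) :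
    ∃ i, 1 ≤ i ∧ i ≤ n ∧ ‖w - pvtCtr δ (f i)‖ ≤ 3 * δ := by
  obtain ⟨j, hj, hn⟩ := pvfe_mem_tube.1 hw
  rw [pvtb_word_length] at hj
  rw [pvtb_word_C h δ (by omega), pvjw_norm_frame hδ h] at hn
  exact ⟨j + 1, by omega, by omega, hn⟩

/-- **THE TUBE MEETS `K` ONLY INSIDE THE TWO DISCS** -/
theorem pvjw_tube_off (hδ : 0 < δ) (h : PvtbCor (n + 1) f) {K K' Dt Ds : Set ℂ} {Wt Ws : Set (ℤ × ℤ)} (hK : K ⊆ K')
    (cl : ∀ i, i ≤ n + 1 → f i ∈ Wt ∨ f i ∈ Ws ∨ f i ∉ pvtwN 5 (pvtCells δ K'))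
    (hwt : ∀ c ∈ Wt, closedBall (pvtCtr δ c) (3 * δ) ⊆ Dt) (hws : ∀ c ∈ Ws, closedBall (pvtCtr δ c) (3 * δ) ⊆ Ds) :
    ∀ w ∈ pvfeTube 3 (pvtbDoor δ f 0) ((δ : ℂ) * pvtZ (f 1 - f 0)) (pvtbWord n f), w ∈ K → w ∈ Dt ∪ Ds := by
  intro w hw hwK
  obtain ⟨i, -, hi, hn⟩ := pvjw_mem_tube hδ h hw
  rcases cl i (by omega) with c1 | c1 | c1
  · exact Or.inl (hwt _ c1 (by rw [mem_closedBall, dist_eq_norm]; exact hn))
  · exact Or.inr (hws _ c1 (by rw [mem_closedBall, dist_eq_norm]; exact hn))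
  · exact absurd (hK hwK) (pvjw_collar_off hδ (fun hc => c1 (pvtw_N_mono (by norm_num) le_rfl hc)) hn)

/-- **D20** for the word: the hulls `Z` are made of cells of `K` and of cells of two discs of radius `r'` -/
theorem pvjw_adm (hδ : 0 < δ) (h : PvtbCor (n + 1) f) {K K' : Set ℂ} {yt ys : ℂ} {r' rA : ℝ} {Wt Ws Z : Set (ℤ × ℤ)} (hK : K ⊆ K')
    (cl : ∀ i, i ≤ n + 1 → f i ∈ Wt ∨ f i ∈ Ws ∨ f i ∉ pvtwN 5 (pvtCells δ K'))
    (hwt : ∀ c ∈ Wt, closedBall (pvtCtr δ c) (3 * δ) ⊆ closedBall yt rA) (hws : ∀ c ∈ Ws, closedBall (pvtCtr δ c) (3 * δ) ⊆ closedBall ys rA)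
    (hZ : Z ⊆ pvtCells δ (K ∪ closedBall yt r' ∪ closedBall ys r')) (hr : r' + 12 * δ ≤ rA) :
    PvfeAdm δ 3 rA ys yt (pvtbDoor δ f 0) ((δ : ℂ) * pvtZ (f 1 - f 0)) (pvtbWord n f) Z := by
  refine pvtb_word_adm h hδ fun i _ hi hZi => ?_
  rcases cl i (by omega) with c1 | c1 | c1
  · exact (hwt _ c1).trans subset_union_left
  · exact (hws _ c1).trans subset_union_right
  · have h1 := pvtw_N_mono (le_refl 4) hZ hZi
    rw [pvtb_cells_union, pvtb_cells_union, pvtw_N_union, pvtw_N_union] at h1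
    rcases h1 with (h1 | h1) | h1
    · exact absurd (pvtw_N_mono (by norm_num) (fun z hz => by obtain ⟨p, hp, hpK⟩ := hz; exact ⟨p, hp, hK hpK⟩) h1) c1
    · intro w hw
      rw [mem_closedBall, dist_eq_norm] at hw
      exact Or.inl (by rw [mem_closedBall, dist_eq_norm]; exact (pvjw_disc_near hδ h1 hw).trans hr)
    · intro w hw
      rw [mem_closedBall, dist_eq_norm] at hw
      exact Or.inr (by rw [mem_closedBall, dist_eq_norm]; exact (pvjw_disc_near hδ h1 hw).trans hr)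

/-- the euclidean norm against the sup norm -/
theorem pvjw_norm_le {p : ℂ} {t : ℝ} (h1 : |p.re| ≤ t) (h2 : |p.im| ≤ t) : ‖p‖ ≤ 3 / 2 * t := by
  have ht : 0 ≤ t := (abs_nonneg _).trans h1
  have e : ‖p‖ ^ 2 = p.re ^ 2 + p.im ^ 2 := by rw [Complex.sq_norm, Complex.normSq_apply]; ring
  have a1 : p.re ^ 2 ≤ t ^ 2 := by rw [← sq_abs]; exact pow_le_pow_left₀ (abs_nonneg _) h1 2
  have a2 : p.im ^ 2 ≤ t ^ 2 := by rw [← sq_abs]; exact pow_le_pow_left₀ (abs_nonneg _) h2 2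
  by_contra hc
  rw [not_le] at hc
  nlinarith [norm_nonneg p]

/-- the centres of the cells of the word -/
theorem pvjw_ctr (hδ : 0 < δ) (h : PvtbCor (n + 1) f) {x : ℂ} {ρ : ℝ}
    (hb : ∀ i, i ≤ n + 1 → ∀ w ∈ pvtSq δ (f i), |w.re - x.re| ≤ ρ ∧ |w.im - x.im| ≤ ρ) :
    ∀ i, i ≤ (pvtbWord n f).length → ‖pvccC (pvtbDoor δ f 0) ((δ : ℂ) * pvtZ (f 1 - f 0)) (pvtbWord n f) i - x‖ ≤ 3 / 2 * ρ := by
  intro i hi
  rw [pvtb_word_length] at hi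
  rw [pvtb_word_C h δ hi]
  obtain ⟨h1, h2⟩ := hb (i + 1) (by omega) _ (pvt_sq_ctr hδ.le)
  exact pvjw_norm_le (by rwa [Complex.sub_re]) (by rwa [Complex.sub_im])

end word

/-! ## 3. the two ends, THE CORE -/

theorem pvjw_sup_tri (a b c : ℂ) : pvtcSup (a - c) ≤ pvtcSup (a - b) + pvtcSup (b - c) := by
  have h1 := (pvtc_pl_sup_le (p := a - b) (t := pvtcSup (a - b))).1 le_rfl
  have h2 := (pvtc_pl_sup_le (p := b - c) (t := pvtcSup (b - c))).1 le_rfl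
  rw [pvtc_pl_sup_le]
  constructor
  · have : (a - c).re = (a - b).re + (b - c).re := by simp
    rw [this]
    exact (abs_add_le _ _).trans (add_le_add h1.1 h2.1)
  · have : (a - c).im = (a - b).im + (b - c).im := by simp
    rw [this]
    exact (abs_add_le _ _).trans (add_le_add h1.2 h2.2)

theorem pvjw_sup_nonneg (a : ℂ) : 0 ≤ pvtcSup a := (abs_nonneg _).trans (le_max_left _ _)

/-- the sup ball as a rectangle -/
theorem pvjw_rect_iff {z p : ℂ} {t : ℝ} : p ∈ pvtcRect (z.re - t) (z.re + t) (z.im - t) (z.im + t) ↔ pvtcSup (p - z) ≤ t := by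
  rw [pvtc_pl_sup_le, abs_le, abs_le, Complex.sub_re, Complex.sub_im]
  constructor
  · rintro ⟨h1, h2, h3, h4⟩
    exact ⟨⟨by linarith, by linarith⟩, ⟨by linarith, by linarith⟩⟩
  · rintro ⟨⟨h1, h2⟩, ⟨h3, h4⟩⟩
    exact ⟨by linarith, by linarith, by linarith, by linarith⟩

/-- **AN END OF THE CORRIDOR, IN ABSOLUTE CELLS.**   `p` = the cell of the chamber behind the door, `u` = the outer normal, `l` = the length of the whisker (front cell = `p + l u`), `y` = the grid centre of the tip cell, `rM` = the radius of the mouth disc,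
`(z, r)` = a sup ball which contains the box of the level and the mouth disc.      PRODUCER: `PvfeDoors` (209) through `Tr/CorDoor` (148). -/
structure PvjwEnd (δ rM : ℝ) (y z : ℂ) (r : ℝ) (p u : ℤ × ℤ) (l : ℕ) : Prop where
  dir : PvfeDir u
  foot : (pvtSq δ p ∩ closedBall y rM).Nonempty
  near : ∀ i : ℕ, i ≤ l → ‖pvtCtr δ (p + (i : ℤ) • u) - y‖ ≤ rM + 16 * δ
  disc : pvtcSup (y - z) + rM ≤ r
  front : r + 11 * δ < pvtcSup (pvtCtr δ (p + (l : ℤ) • u) - z)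

namespace PvjwEnd

variable {δ rM : ℝ} {y z : ℂ} {r : ℝ} {p u : ℤ × ℤ} {l : ℕ}

theorem rM0 (e : PvjwEnd δ rM y z r p u l) : 0 ≤ rM := by
  obtain ⟨q, -, hq⟩ := e.foot
  exact dist_nonneg.trans (mem_closedBall.1 hq)

theorem rM_le (e : PvjwEnd δ rM y z r p u l) : rM ≤ r := by
  have := e.disc
  have := pvjw_sup_nonneg (y - z)
  linarith

/-- the length of the whisker -/
theorem len (e : PvjwEnd δ rM y z r p u l) (hδ : 0 < δ) : (l : ℝ) * δ ≤ 2 * rM + 32 * δ := by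
  have h0 := e.near 0 (Nat.zero_le _)
  have h1 := e.near l le_rfl
  rw [pvtb_ctr_wh] at h0 h1
  simp only [Nat.cast_zero, zero_mul, add_zero] at h0
  have e1 : (l : ℂ) * ((δ : ℂ) * pvtZ u) = (pvtCtr δ p + (l : ℂ) * ((δ : ℂ) * pvtZ u) - y) - (pvtCtr δ p - y) := by ring
  have e2 : ‖(l : ℂ) * ((δ : ℂ) * pvtZ u)‖ = (l : ℝ) * δ := by
    rw [norm_mul, norm_mul, (pvtb_Z_unit e.dir).2, mul_one, Complex.norm_natCast, Complex.norm_real, Real.norm_eq_abs, abs_of_pos hδ]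
  rw [← e2, e1]
  exact (norm_sub_le _ _).trans (by linarith)

/-- the mouth disc lies in the sup ball -/
theorem disc_sub (e : PvjwEnd δ rM y z r p u l) {q : ℂ} (hq : q ∈ closedBall y rM) : pvtcSup (q - z) ≤ r := by
  rw [mem_closedBall, dist_eq_norm] at hq
  have := pvjw_sup_tri q y z
  have := pvtc_pl_sup_le_norm (q - y)
  have := e.disc
  linarith

/-- the cells of the whisker lie in the sup ball enlarged by `16 δ` -/
theorem wh_sup (e : PvjwEnd δ rM y z r p u l) {i : ℕ} (hi : i ≤ l) : pvtcSup (pvtCtr δ (p + (i : ℤ) • u) - z) ≤ r + 16 * δ := by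
  have := pvjw_sup_tri (pvtCtr δ (p + (i : ℤ) • u)) y z
  have := pvtc_pl_sup_le_norm (pvtCtr δ (p + (i : ℤ) • u) - y)
  have := e.disc
  have := e.near i hi
  linarith

/-- the collars of the cells of the whisker -/
theorem collar (e : PvjwEnd δ rM y z r p u l) {rA : ℝ} (hA : rM + 19 * δ ≤ rA) : ∀ c ∈ pvtbWh p u l, closedBall (pvtCtr δ c) (3 * δ) ⊆ closedBall y rA := by
  rintro c ⟨i, hi, rfl⟩ w hw
  rw [mem_closedBall, dist_eq_norm] at hw ⊢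
  have e1 : w - y = (w - pvtCtr δ (p + (i : ℤ) • u)) + (pvtCtr δ (p + (i : ℤ) • u) - y) := by ring
  rw [e1]
  have := e.near i hi
  exact (norm_add_le _ _).trans (by linarith)

end PvjwEnd

/-- the door behind which the cell `p` lies, outer normal `u` -/
noncomputable def pvjwDoor (δ : ℝ) (p u : ℤ × ℤ) : ℂ := (pvtCtr δ p + pvtCtr δ (p + u)) / 2

/-- the two mouths are far apart -/
theorem pvjw_far {δ : ℝ} (hδ : 0 < δ) {rM : ℝ} {yt ys zt zs : ℂ} {rt rs : ℝ} {pt ut ps us : ℤ × ℤ} {lt ls : ℕ}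
    (et : PvjwEnd δ rM yt zt rt pt ut lt) (es : PvjwEnd δ rM ys zs rs ps us ls) (hsep : 10 * rM + 2 * (rt + rs) + 200 * δ < ‖zt - zs‖) :
    2 * rM + (2 * ((lt : ℝ) + ls) + 44) * δ < ‖yt - ys‖ := by
  have hlt := et.len hδ
  have hls := es.len hδ
  have dyt : ‖yt - zt‖ ≤ 2 * rt := by
    have := pvtc_pl_norm_le_sup (yt - zt); have := et.disc; have := et.rM0; linarith
  have dys : ‖ys - zs‖ ≤ 2 * rs := by
    have := pvtc_pl_norm_le_sup (ys - zs); have := es.disc; have := es.rM0; linarith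
  have dyy : ‖zt - zs‖ ≤ ‖yt - ys‖ + 2 * rt + 2 * rs := by
    have e1 : zt - zs = (yt - ys) - (yt - zt) + (ys - zs) := by ring
    rw [e1]
    have := norm_add_le ((yt - ys) - (yt - zt)) (ys - zs)
    have := norm_sub_le (yt - ys) (yt - zt)
    linarith
  nlinarith

/-- **THE CORRIDOR OF (B3), EXPOSED** (= `pvtb_fit_mouth_pl` of 20 at `j = 4`, at two ends): two ends, an obstacle `K` whose parts near the two mouths are connected stretches inside the sup balls of the ends,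
both front cells accessible for `K` alone ⟹ a corridor `f` from the cell behind one door to the cell behind the other one, off `pvtwN 5 (cells (K ∪ discs))` except on the two whiskers -/
theorem pvjw_cor {δ : ℝ} (hδ : 0 < δ) {rM : ℝ} {K Kt Ks : Set ℂ} {x yt ys zt zs : ℂ} {rt rs ρ1 : ℝ} {pt ut ps us : ℤ × ℤ} {lt ls : ℕ}
    (et : PvjwEnd δ rM yt zt rt pt ut lt) (es : PvjwEnd δ rM ys zs rs ps us ls)
    (hK : ∀ p ∈ K, pvtcSup (p - x) ≤ ρ1) (hxt : pvtcSup (zt - x) + rt + 16 * δ ≤ ρ1) (hxs : pvtcSup (zs - x) + rs + 16 * δ ≤ ρ1)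
    (hKt : Kt ⊆ K) (hKs : Ks ⊆ K) (cKt : IsPreconnected Kt) (cKs : IsPreconnected Ks)
    (near_t : ∀ p ∈ K, ‖p - yt‖ ≤ rM + 40 * δ → p ∈ Kt) (near_s : ∀ p ∈ K, ‖p - ys‖ ≤ rM + 40 * δ → p ∈ Ks)
    (box_t : ∀ p ∈ Kt, pvtcSup (p - zt) ≤ rt) (box_s : ∀ p ∈ Ks, pvtcSup (p - zs) ≤ rs)
    (hsep : 10 * rM + 2 * (rt + rs) + 200 * δ < ‖zt - zs‖)
    (acc_t : pt + (lt : ℤ) • ut ∈ pvtOut (pvtwN 9 (pvtCells δ K))) (acc_s : ps + (ls : ℤ) • us ∈ pvtOut (pvtwN 9 (pvtCells δ K))) :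
    ∃ (n : ℕ) (f : ℕ → ℤ × ℤ), PvtbCor (n + 1) f ∧ 1 ≤ n ∧ f 0 = pt ∧ f 1 = pt + ut ∧ f n = ps + us ∧ f (n + 1) = ps ∧
      (∀ i, i ≤ n + 1 → ∀ w ∈ pvtSq δ (f i), |w.re - x.re| ≤ ρ1 + 10 * δ ∧ |w.im - x.im| ≤ ρ1 + 10 * δ) ∧
      (∀ i, i ≤ n + 1 → f i ∈ pvtbWh pt ut lt ∨ f i ∈ pvtbWh ps us ls ∨ f i ∉ pvtwN 5 (pvtCells δ (K ∪ closedBall yt rM ∪ closedBall ys rM))) := by
  have h0 := et.rM0
  have hrt := et.rM_le
  have hrs := es.rM_le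
  have sub : ∀ {a b : ℂ} {t : ℝ}, pvtcSup (a - b) ≤ t → |a.re - b.re| ≤ t ∧ |a.im - b.im| ≤ t := by
    intro a b t h
    have := pvtc_pl_sup_le.1 h
    rwa [Complex.sub_re, Complex.sub_im] at this
  have dzz : ‖zt - zs‖ ≤ 2 * pvtcSup (zt - zs) := pvtc_pl_norm_le_sup _
  have hfar : 2 * rM + (2 * ((lt : ℝ) + ls) + 4 * (((4 : ℕ) : ℝ) + 5) + 8) * δ < ‖yt - ys‖ := by
    have := pvjw_far hδ et es hsep
    push_cast
    linarith
  have rect : ∀ {z q : ℂ} {r : ℝ}, r + 11 * δ < pvtcSup (q - z) →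
      q ∉ pvtcRect (z.re - r - (((4 : ℕ) : ℝ) + 7) * δ) (z.re + r + (((4 : ℕ) : ℝ) + 7) * δ) (z.im - r - (((4 : ℕ) : ℝ) + 7) * δ) (z.im + r + (((4 : ℕ) : ℝ) + 7) * δ) := by
    intro z q r h hq
    have : q ∈ pvtcRect (z.re - (r + 11 * δ)) (z.re + (r + 11 * δ)) (z.im - (r + 11 * δ)) (z.im + (r + 11 * δ)) := by
      obtain ⟨a1, a2, a3, a4⟩ := hq
      push_cast at a1 a2 a3 a4
      exact ⟨by linarith, by linarith, by linarith, by linarith⟩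
    rw [pvjw_rect_iff] at this
    linarith
  have zts : rs + 11 * δ < pvtcSup (pvtCtr δ (pt + (lt : ℤ) • ut) - zs) := by
    have h1 := pvjw_sup_tri zt (pvtCtr δ (pt + (lt : ℤ) • ut)) zs
    have h2 := et.wh_sup (i := lt) le_rfl
    rw [pvtc_pl_sup_comm] at h2
    linarith
  have zst : rt + 11 * δ < pvtcSup (pvtCtr δ (ps + (ls : ℤ) • us) - zt) := by
    have h1 := pvjw_sup_tri zs (pvtCtr δ (ps + (ls : ℤ) • us)) zt
    have h2 := es.wh_sup (i := ls) le_rfl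
    rw [pvtc_pl_sup_comm] at h2
    rw [pvtc_pl_sup_comm zs zt] at h1
    linarith
  obtain ⟨n, f, hc, hn, f0, f1, fn, fn1, hb, cl⟩ := pvtb_fit_mouth_pl (j := 4) (x := x) (ρ1 := ρ1) (rM := rM) (rP := rM + 40 * δ) hδ
    (by
      rintro p ((hp | hp) | hp)
      · exact sub (hK p hp)
      · refine sub ?_
        have := pvjw_sup_tri p zt x; have := et.disc_sub hp; linarith
      · refine sub ?_
        have := pvjw_sup_tri p zs x; have := es.disc_sub hp; linarith)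
    hKt hKs cKt cKs near_t near_s (by push_cast; linarith)
    (a1 := zt.re - rt) (b1 := zt.re + rt) (c1 := zt.im - rt) (d1 := zt.im + rt) (a2 := zs.re - rs) (b2 := zs.re + rs) (c2 := zs.im - rs) (d2 := zs.im + rs)
    (by
      rintro p (hp | hp)
      · exact pvjw_rect_iff.2 (box_t p hp)
      · exact pvjw_rect_iff.2 (et.disc_sub hp))
    (by
      rintro p (hp | hp)
      · exact pvjw_rect_iff.2 (box_s p hp)
      · exact pvjw_rect_iff.2 (es.disc_sub hp))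
    et.dir es.dir et.foot es.foot hfar (rect et.front) (rect zts) (rect zst) (rect es.front)
    (by
      refine sub ?_
      have := pvjw_sup_tri (pvtCtr δ (pt + (lt : ℤ) • ut)) zt x; have := et.wh_sup (i := lt) le_rfl; linarith)
    (by
      refine sub ?_
      have := pvjw_sup_tri (pvtCtr δ (ps + (ls : ℤ) • us)) zs x; have := es.wh_sup (i := ls) le_rfl; linarith)
    acc_t acc_s
  refine ⟨n, f, hc, hn, f0, f1, fn, fn1, fun i hi w hw => ?_, cl⟩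
  have := hb i hi w hw
  push_cast at this
  have e : ρ1 + (4 + 6) * δ = ρ1 + 10 * δ := by ring
  rwa [e] at this

/-- **THE WORD OF THE CORRIDOR**: everything but `PvfeLk` -/
theorem pvjw_word {δ : ℝ} (hδ : 0 < δ) {rM r' rA : ℝ} {K : Set ℂ} {x yt ys zt zs : ℂ} {rt rs ρ : ℝ} {pt ut ps us : ℤ × ℤ} {lt ls : ℕ}
    (et : PvjwEnd δ rM yt zt rt pt ut lt) (es : PvjwEnd δ rM ys zs rs ps us ls) (hfar : 2 * rM + (2 * ((lt : ℝ) + ls) + 44) * δ < ‖yt - ys‖)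
    {n : ℕ} {f : ℕ → ℤ × ℤ} (hc : PvtbCor (n + 1) f) (f0 : f 0 = pt) (f1 : f 1 = pt + ut) (fn : f n = ps + us) (fn1 : f (n + 1) = ps)
    (hb : ∀ i, i ≤ n + 1 → ∀ w ∈ pvtSq δ (f i), |w.re - x.re| ≤ ρ ∧ |w.im - x.im| ≤ ρ)
    (cl : ∀ i, i ≤ n + 1 → f i ∈ pvtbWh pt ut lt ∨ f i ∈ pvtbWh ps us ls ∨ f i ∉ pvtwN 5 (pvtCells δ (K ∪ closedBall yt rM ∪ closedBall ys rM)))
    (hA : rM + 19 * δ ≤ rA) (hr' : r' + 12 * δ ≤ rA) {Z : Set (ℤ × ℤ)} (hZ : Z ⊆ pvtCells δ (K ∪ closedBall yt r' ∪ closedBall ys r')) :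
    pvtbDoor δ f 0 = pvjwDoor δ pt ut ∧ f 1 - f 0 = ut ∧
      (δ : ℂ) * pvtDisp (pvtZ ut) (pvtbWord n f) = pvjwDoor δ ps us - pvjwDoor δ pt ut ∧ pvtDir (pvtZ ut) (pvtbWord n f) = - pvtZ us ∧
      PvccSimple (pvtbWord n f) (pvtbWord n f).length ∧ PvfeNR (pvtbWord n f) ∧ PvfeAdm δ 3 rA ys yt (pvjwDoor δ pt ut) ((δ : ℂ) * pvtZ ut) (pvtbWord n f) Z ∧
      PvfeNoz (rM + 4 * δ) ys yt (pvjwDoor δ pt ut) ((δ : ℂ) * pvtZ ut) (pvtbWord n f) ∧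
      (∀ i, i ≤ (pvtbWord n f).length → ‖pvccC (pvjwDoor δ pt ut) ((δ : ℂ) * pvtZ ut) (pvtbWord n f) i - x‖ ≤ 3 / 2 * ρ) ∧
      ∀ w ∈ pvfeTube 3 (pvjwDoor δ pt ut) ((δ : ℂ) * pvtZ ut) (pvtbWord n f), w ∈ K → w ∈ closedBall yt rA ∪ closedBall ys rA := by
  have eD : pvtbDoor δ f 0 = pvjwDoor δ pt ut := by unfold pvtbDoor pvjwDoor; rw [f0, zero_add, f1]
  have eS : pvtbDoor δ f n = pvjwDoor δ ps us := by unfold pvtbDoor pvjwDoor; rw [fn, fn1]; ring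
  have eF : f 1 - f 0 = ut := by rw [f0, f1, add_sub_cancel_left]
  have eL : f (n + 1) - f n = - us := by rw [fn, fn1]; abel
  have eN : pvtZ (- us) = - pvtZ us := by simp only [pvtZ, Prod.fst_neg, Prod.snd_neg]; push_cast; ring
  have hKK : K ⊆ K ∪ closedBall yt rM ∪ closedBall ys rM := fun p hp => Or.inl (Or.inl hp)
  obtain ⟨d1, d2⟩ := pvtb_word_disp hc δ
  have t1 := pvtb_word_simple hc
  have t2 := pvtb_word_nr hc
  have t3 := pvjw_adm hδ hc hKK cl (et.collar hA) (es.collar hA) hZ hr'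
  have t4 := pvtb_word_noz hδ (le_refl 4) et.dir es.dir et.foot es.foot (by nlinarith) hc f0 f1 fn fn1 cl
  have t5 := pvjw_ctr hδ hc hb
  have t6 := pvjw_tube_off hδ hc hKK cl (et.collar hA) (es.collar hA)
  rw [eD, eF] at t3 t4 t5 t6
  rw [eD, eS, eF] at d1
  rw [eF, eL, eN] at d2
  exact ⟨eD, eF, d1, d2, t1, t2, t3, t4, t5, t6⟩

/-- **THE CORE OF (B3)**: two ends, an obstacle `K` whose parts near the two mouths are connected stretches inside the sup balls of the ends, both front cells accessible for `K` alone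
⟹ a word from door to door with the index predicates (weak MB `PvfeNoz`; the strong form `PvfeLk` of FitReg v5: on `pvjw_cor` + `pvjw_word`), whose tube meets `K` only inside the two discs of radius `rA`. -/
theorem pvjw_core {δ : ℝ} (hδ : 0 < δ) {rM r' rA : ℝ} {K Kt Ks : Set ℂ} {x yt ys zt zs : ℂ} {rt rs ρ1 : ℝ} {pt ut ps us : ℤ × ℤ} {lt ls : ℕ}
    (et : PvjwEnd δ rM yt zt rt pt ut lt) (es : PvjwEnd δ rM ys zs rs ps us ls)
    (hK : ∀ p ∈ K, pvtcSup (p - x) ≤ ρ1) (hxt : pvtcSup (zt - x) + rt + 16 * δ ≤ ρ1) (hxs : pvtcSup (zs - x) + rs + 16 * δ ≤ ρ1)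
    (hKt : Kt ⊆ K) (hKs : Ks ⊆ K) (cKt : IsPreconnected Kt) (cKs : IsPreconnected Ks)
    (near_t : ∀ p ∈ K, ‖p - yt‖ ≤ rM + 40 * δ → p ∈ Kt) (near_s : ∀ p ∈ K, ‖p - ys‖ ≤ rM + 40 * δ → p ∈ Ks)
    (box_t : ∀ p ∈ Kt, pvtcSup (p - zt) ≤ rt) (box_s : ∀ p ∈ Ks, pvtcSup (p - zs) ≤ rs)
    (hsep : 10 * rM + 2 * (rt + rs) + 200 * δ < ‖zt - zs‖)
    (acc_t : pt + (lt : ℤ) • ut ∈ pvtOut (pvtwN 9 (pvtCells δ K))) (acc_s : ps + (ls : ℤ) • us ∈ pvtOut (pvtwN 9 (pvtCells δ K)))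
    (hA : rM + 19 * δ ≤ rA) (hr' : r' + 12 * δ ≤ rA) {Z : Set (ℤ × ℤ)} (hZ : Z ⊆ pvtCells δ (K ∪ closedBall yt r' ∪ closedBall ys r')) :
    ∃ l : List PvtTurn, (δ : ℂ) * pvtDisp (pvtZ ut) l = pvjwDoor δ ps us - pvjwDoor δ pt ut ∧ pvtDir (pvtZ ut) l = - pvtZ us ∧
      PvccSimple l l.length ∧ PvfeNR l ∧ PvfeAdm δ 3 rA ys yt (pvjwDoor δ pt ut) ((δ : ℂ) * pvtZ ut) l Z ∧ PvfeNoz (rM + 4 * δ) ys yt (pvjwDoor δ pt ut) ((δ : ℂ) * pvtZ ut) l ∧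
      (∀ i, i ≤ l.length → ‖pvccC (pvjwDoor δ pt ut) ((δ : ℂ) * pvtZ ut) l i - x‖ ≤ 3 / 2 * (ρ1 + 10 * δ)) ∧
      ∀ w ∈ pvfeTube 3 (pvjwDoor δ pt ut) ((δ : ℂ) * pvtZ ut) l, w ∈ K → w ∈ closedBall yt rA ∪ closedBall ys rA := by
  obtain ⟨n, f, hc, -, f0, f1, fn, fn1, hb, cl⟩ := pvjw_cor hδ et es hK hxt hxs hKt hKs cKt cKs near_t near_s box_t box_s hsep acc_t acc_s
  obtain ⟨-, -, h⟩ := pvjw_word hδ et es (pvjw_far hδ et es hsep) hc f0 f1 fn fn1 hb cl hA hr' hZ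
  exact ⟨pvtbWord n f, h⟩

/-! ## 4. the ends of record: from `PvfeDoors` to `PvjwEnd` -/

/-- **the length of the whiskers** (cells): the front cell is the first cell of the whisker safely above the mouth disc `closedBall y (ρ h)` (door at the height `3 ρ h / 8`) -/
noncomputable def pvjwL (ρ h δ : ℝ) : ℕ := ⌈5 * ρ * h / (8 * δ)⌉₊ + 14

theorem pvjw_L_ge {ρ h δ : ℝ} (hδ : 0 < δ) : 5 * ρ * h / 8 + 14 * δ ≤ (pvjwL ρ h δ : ℝ) * δ := by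
  unfold pvjwL
  push_cast
  have h1 : 5 * ρ * h / (8 * δ) ≤ (⌈5 * ρ * h / (8 * δ)⌉₊ : ℝ) := Nat.le_ceil _
  have h2 : 5 * ρ * h / (8 * δ) * δ = 5 * ρ * h / 8 := by field_simp
  nlinarith

theorem pvjw_L_le {ρ h δ : ℝ} (hδ : 0 < δ) (h0 : 0 ≤ ρ * h) : (pvjwL ρ h δ : ℝ) * δ ≤ 5 * ρ * h / 8 + 15 * δ := by
  unfold pvjwL
  push_cast
  have h3 : 0 ≤ 5 * ρ * h / (8 * δ) := by
    have : 0 ≤ 5 * ρ * h := by nlinarith
    positivity
  have h1 : (⌈5 * ρ * h / (8 * δ)⌉₊ : ℝ) < 5 * ρ * h / (8 * δ) + 1 := Nat.ceil_lt_add_one h3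
  have h2 : 5 * ρ * h / (8 * δ) * δ = 5 * ρ * h / 8 := by field_simp
  nlinarith

theorem pvjw_Z_add (a b : ℤ × ℤ) : pvtZ (a + b) = pvtZ a + pvtZ b := by
  simp only [pvtZ, Prod.fst_add, Prod.snd_add]; push_cast; ring

/-- translation of a cell by a point of the grid -/
theorem pvjw_ctr_add (δ : ℝ) (q e : ℤ × ℤ) : pvtCtr δ (q + e) = (δ : ℂ) * pvtZ q + pvtCtr δ e := by
  rw [pvtb_ctr_eq, pvtb_ctr_eq, pvjw_Z_add]; ring

/-- the component along a unit vector of the grid is at most the sup norm -/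
theorem pvjw_comp_le {u : ℤ × ℤ} (hu : PvfeDir u) (w : ℂ) : (w * (starRingEnd ℂ) (pvtZ u)).re ≤ pvtcSup w := by
  have h1 := le_abs_self w.re
  have h2 := neg_abs_le w.re
  have h3 := le_abs_self w.im
  have h4 := neg_abs_le w.im
  have h5 := le_max_left |w.re| |w.im|
  have h6 := le_max_right |w.re| |w.im|
  unfold pvtcSup
  rcases hu with rfl | rfl | rfl | rfl
  · have : (w * (starRingEnd ℂ) (pvtZ (1, 0))).re = w.re := by simp [pvtZ]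
    rw [this]; linarith
  · have : (w * (starRingEnd ℂ) (pvtZ (-1, 0))).re = - w.re := by simp [pvtZ]
    rw [this]; linarith
  · have : (w * (starRingEnd ℂ) (pvtZ (0, 1))).re = w.im := by simp [pvtZ]
    rw [this]; linarith
  · have : (w * (starRingEnd ℂ) (pvtZ (0, -1))).re = - w.im := by simp [pvtZ]
    rw [this]; linarith

theorem pvjw_comp_self {u : ℤ × ℤ} (hu : PvfeDir u) : (pvtZ u * (starRingEnd ℂ) (pvtZ u)).re = 1 := by
  rcases hu with rfl | rfl | rfl | rfl <;> simp [pvtZ]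

/-- the cells of the whisker of record -/
theorem pvjw_wh_eq {δ h κ : ℝ} {z Y : ℂ} {q e u : ℤ × ℤ} (hz : z = (δ : ℂ) * pvtZ q) (i : ℕ) :
    pvtCtr δ (q + e - u + (i : ℤ) • u) - (z + (h : ℂ) * Y) = (pvtCtr δ e - (h : ℂ) * (Y + (κ : ℂ) * pvtZ u)) + ((κ * h + ((i : ℝ) - 1) * δ : ℝ) : ℂ) * pvtZ u := by
  have e1 : q + e - u = q + (e - u) := by abel
  rw [pvtb_ctr_wh, e1, pvjw_ctr_add, hz]
  have e2 := pvtb_ctr_sub δ e (e - u)
  rw [sub_sub_cancel] at e2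
  have e3 : pvtCtr δ (e - u) = pvtCtr δ e - (δ : ℂ) * pvtZ u := by rw [← e2]; ring
  rw [e3]
  push_cast
  ring

/-- **THE END OF RECORD**: a door in cell form (`PvfeDoors`, 209 D4) at a pin whose centre lies on the grid of the cells -/
theorem pvjw_end {δ h ρ : ℝ} (hδ : 0 < δ) (hh : 0 < h) (hρ : 0 < ρ) (hsm : 64 * δ ≤ ρ * h) {z Y : ℂ} {q e u : ℤ × ℤ} (hz : z = (δ : ℂ) * pvtZ q) (hu : PvfeDir u)
    (hn : ‖pvtCtr δ e - (h : ℂ) * (Y + ((3 * ρ / 8 : ℝ) : ℂ) * pvtZ u)‖ ≤ δ) (hdom : (Y * (starRingEnd ℂ) (pvtZ u)).re = pvccN Y) :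
    PvjwEnd δ (ρ * h) (z + (h : ℂ) * Y) z (h * pvccN Y + ρ * h) (q + e - u) u (pvjwL ρ h δ) := by
  have hρh : 0 < ρ * h := mul_pos hρ hh
  have hL1 := pvjw_L_ge (ρ := ρ) (h := h) hδ
  have hL2 := pvjw_L_le (ρ := ρ) (h := h) hδ hρh.le
  have nu : ‖pvtZ u‖ = 1 := (pvtb_Z_unit hu).2
  have near : ∀ i : ℕ, i ≤ pvjwL ρ h δ → ‖pvtCtr δ (q + e - u + (i : ℤ) • u) - (z + (h : ℂ) * Y)‖ ≤ δ + |3 * ρ / 8 * h + ((i : ℝ) - 1) * δ| := by
    intro i _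
    rw [pvjw_wh_eq (κ := 3 * ρ / 8) hz i]
    refine (norm_add_le _ _).trans (add_le_add hn ?_)
    rw [norm_mul, nu, mul_one, Complex.norm_real, Real.norm_eq_abs]
  refine ⟨hu, ⟨pvtCtr δ (q + e - u), pvt_sq_ctr hδ.le, ?_⟩, fun i hi => ?_, ?_, ?_⟩
  · have := near 0 (Nat.zero_le _)
    simp only [Nat.cast_zero, zero_smul, add_zero, zero_sub] at this
    rw [mem_closedBall, dist_eq_norm]
    refine this.trans ?_
    rw [abs_of_nonneg (by nlinarith)]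
    nlinarith
  · refine (near i hi).trans ?_
    have hi' : (i : ℝ) * δ ≤ (pvjwL ρ h δ : ℝ) * δ := mul_le_mul_of_nonneg_right (by exact_mod_cast hi) hδ.le
    have hi0 : 0 ≤ (i : ℝ) * δ := by positivity
    rw [abs_of_nonneg (by nlinarith)]
    nlinarith
  · have e1 : z + (h : ℂ) * Y - z = (h : ℂ) * Y := by ring
    have e2 : pvtcSup ((h : ℂ) * Y) = h * pvccN Y := by
      unfold pvtcSup pvccN
      simp only [Complex.mul_re, Complex.mul_im, Complex.ofReal_re, Complex.ofReal_im, zero_mul, sub_zero, add_zero, abs_mul, abs_of_pos hh]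
      rw [mul_max_of_nonneg _ _ hh.le]
    rw [e1, e2]
  · refine lt_of_lt_of_le ?_ (pvjw_comp_le hu _)
    have e1 : pvtCtr δ (q + e - u + ((pvjwL ρ h δ : ℕ) : ℤ) • u) - z =
        (pvtCtr δ e - (h : ℂ) * (Y + ((3 * ρ / 8 : ℝ) : ℂ) * pvtZ u)) + ((3 * ρ / 8 * h + ((pvjwL ρ h δ : ℝ) - 1) * δ : ℝ) : ℂ) * pvtZ u + (h : ℂ) * Y := by
      rw [← pvjw_wh_eq (κ := 3 * ρ / 8) hz]; ring
    rw [e1, add_mul, add_mul, Complex.add_re, Complex.add_re, mul_assoc, mul_assoc, Complex.re_ofReal_mul, Complex.re_ofReal_mul, pvjw_comp_self hu, hdom]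
    have h1 : -δ ≤ ((pvtCtr δ e - (h : ℂ) * (Y + ((3 * ρ / 8 : ℝ) : ℂ) * pvtZ u)) * (starRingEnd ℂ) (pvtZ u)).re := by
      have h2 := Complex.abs_re_le_norm ((pvtCtr δ e - (h : ℂ) * (Y + ((3 * ρ / 8 : ℝ) : ℂ) * pvtZ u)) * (starRingEnd ℂ) (pvtZ u))
      rw [norm_mul, RCLike.norm_conj, nu, mul_one] at h2
      have := neg_abs_le ((pvtCtr δ e - (h : ℂ) * (Y + ((3 * ρ / 8 : ℝ) : ℂ) * pvtZ u)) * (starRingEnd ℂ) (pvtZ u)).re
      linarith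
    nlinarith

/-- **THE END OF RECORD, ABSOLUTE FORM** (`PvcbDoor` of 56): `a` = the cell behind the door, `a + u` = the base cell, any length `L` of the whisker with `5 ρh / 8 + 14 δ ≤ L δ ≤ 5 ρh / 8 + 15 δ` -/
theorem pvjw_end_abs {δ ρh : ℝ} (hδ : 0 < δ) (hsm : 64 * δ ≤ ρh) {z y : ℂ} {a u : ℤ × ℤ} (hu : PvfeDir u)
    (hn : ‖pvtCtr δ (a + u) - (y + ((3 * ρh / 8 : ℝ) : ℂ) * pvtZ u)‖ ≤ δ) (hdom : ((y - z) * (starRingEnd ℂ) (pvtZ u)).re = pvccN (y - z))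
    {L : ℕ} (hL1 : 5 * ρh / 8 + 14 * δ ≤ (L : ℝ) * δ) (hL2 : (L : ℝ) * δ ≤ 5 * ρh / 8 + 15 * δ) :
    PvjwEnd δ ρh y z (pvccN (y - z) + ρh) a u L := by
  have nu : ‖pvtZ u‖ = 1 := (pvtb_Z_unit hu).2
  have e0 : ∀ i : ℕ, pvtCtr δ (a + (i : ℤ) • u) - y = (pvtCtr δ (a + u) - (y + ((3 * ρh / 8 : ℝ) : ℂ) * pvtZ u)) + ((3 * ρh / 8 + ((i : ℝ) - 1) * δ : ℝ) : ℂ) * pvtZ u := by
    intro i
    have e1 := pvtb_ctr_wh δ a u 1
    simp only [Nat.cast_one, one_smul, one_mul] at e1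
    rw [pvtb_ctr_wh, e1]
    push_cast
    ring
  have near : ∀ i : ℕ, ‖pvtCtr δ (a + (i : ℤ) • u) - y‖ ≤ δ + |3 * ρh / 8 + ((i : ℝ) - 1) * δ| := by
    intro i
    rw [e0 i]
    refine (norm_add_le _ _).trans (add_le_add hn ?_)
    rw [norm_mul, nu, mul_one, Complex.norm_real, Real.norm_eq_abs]
  refine ⟨hu, ⟨pvtCtr δ a, pvt_sq_ctr hδ.le, ?_⟩, fun i hi => ?_, le_of_eq rfl, ?_⟩
  · have := near 0
    simp only [Nat.cast_zero, zero_smul, add_zero, zero_sub] at this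
    rw [mem_closedBall, dist_eq_norm]
    refine this.trans ?_
    rw [abs_of_nonneg (by nlinarith)]
    nlinarith
  · refine (near i).trans ?_
    have hi' : (i : ℝ) * δ ≤ (L : ℝ) * δ := mul_le_mul_of_nonneg_right (by exact_mod_cast hi) hδ.le
    have hi0 : 0 ≤ (i : ℝ) * δ := by positivity
    rw [abs_of_nonneg (by nlinarith)]
    nlinarith
  · refine lt_of_lt_of_le ?_ (pvjw_comp_le hu _)
    have e1 : pvtCtr δ (a + (L : ℤ) • u) - z =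
        (pvtCtr δ (a + u) - (y + ((3 * ρh / 8 : ℝ) : ℂ) * pvtZ u)) + ((3 * ρh / 8 + ((L : ℝ) - 1) * δ : ℝ) : ℂ) * pvtZ u + (y - z) := by
      rw [← e0 L]; ring
    rw [e1, add_mul, add_mul, Complex.add_re, Complex.add_re, mul_assoc, Complex.re_ofReal_mul, pvjw_comp_self hu, hdom]
    have h1 : -δ ≤ ((pvtCtr δ (a + u) - (y + ((3 * ρh / 8 : ℝ) : ℂ) * pvtZ u)) * (starRingEnd ℂ) (pvtZ u)).re := by
      have h2 := Complex.abs_re_le_norm ((pvtCtr δ (a + u) - (y + ((3 * ρh / 8 : ℝ) : ℂ) * pvtZ u)) * (starRingEnd ℂ) (pvtZ u))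
      rw [norm_mul, RCLike.norm_conj, nu, mul_one] at h2
      have := neg_abs_le ((pvtCtr δ (a + u) - (y + ((3 * ρh / 8 : ℝ) : ℂ) * pvtZ u)) * (starRingEnd ℂ) (pvtZ u)).re
      linarith
    nlinarith

/-- the door of record -/
theorem pvjw_door_eq {δ : ℝ} {z : ℂ} {q e u : ℤ × ℤ} (hz : z = (δ : ℂ) * pvtZ q) : pvjwDoor δ (q + e - u) u = z + (pvtCtr δ (e - u) + pvtCtr δ e) / 2 := by
  unfold pvjwDoor
  have e1 : q + e - u = q + (e - u) := by abel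
  have e2 : q + e - u + u = q + e := by abel
  rw [e2, e1, pvjw_ctr_add, pvjw_ctr_add, hz]; ring

/-- the centre of the front cell = the point at the distance `(l - 1/2) δ` from the door, on the normal of the door -/
theorem pvjw_front_eq (δ : ℝ) (p u : ℤ × ℤ) (l : ℕ) : pvtCtr δ (p + (l : ℤ) • u) = pvjwDoor δ p u + ((((l : ℝ) - 1 / 2) * δ : ℝ) : ℂ) * pvtZ u := by
  unfold pvjwDoor
  have e1 := pvtb_ctr_wh δ p u 1
  simp only [Nat.cast_one, one_smul, one_mul] at e1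
  rw [pvtb_ctr_wh, e1]
  push_cast
  ring

/-! ## 5. THE FORM AT THE DOORS OF RECORD -/

section gam

variable {τ : Type}

/-- **THE FRONT OF THE EXIT DOOR** of a pin of centre `z`, type `t`: the centre of the last cell of the whisker.      A function of the type and of the grid: (ACC) is stated at THIS point. -/
noncomputable def pvjwFt (Γ : PvtsGeo τ) (ρ h : ℝ) (z : ℂ) (t : τ) : ℂ := z + Γ.pout t + ((((pvjwL ρ h Γ.δ : ℝ) - 1 / 2) * Γ.δ : ℝ) : ℂ) * Γ.dout t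

/-- **THE FRONT OF THE ENTRANCE DOOR** -/
noncomputable def pvjwFs (Γ : PvtsGeo τ) (ρ h : ℝ) (z : ℂ) (t : τ) : ℂ := z + Γ.pin t - ((((pvjwL ρ h Γ.δ : ℝ) - 1 / 2) * Γ.δ : ℝ) : ℂ) * Γ.din t

/-- **(ACC)**, the form which `pvacc_core` of 211 (`Tr/Acc`) produces at `j = 9` -/
def PvjwAcc (δ : ℝ) (K : Set ℂ) (p : ℂ) : Prop := ∀ e : ℤ × ℤ, p ∈ pvtSq δ e → e ∈ pvtbOut (pvtwN 9 (pvtCells δ K))

theorem pvjw_eqns_cite : True := by
  have := @pvjwL.eq_1; have := @pvjwDoor.eq_1; have := @pvjwFt.eq_1; have := @pvjwFs.eq_1; have := @PvjwAcc.eq_1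
  trivial

theorem PvjwAcc.cell {δ : ℝ} {K : Set ℂ} {c : ℤ × ℤ} (hδ : 0 < δ) (h : PvjwAcc δ K (pvtCtr δ c)) : c ∈ pvtOut (pvtwN 9 (pvtCells δ K)) :=
  pvtb_out_sub_tri (h c (pvt_sq_ctr hδ.le))

/-- **(B3) AT THE DOORS OF RECORD**, `K` abstract.      `Kt`, `Ks` = connected parts of `K` inside the boxes of the levels which contain all of `K` within `ρ h + 40 δ` of the grid centres of the tip cells. -/
theorem pvjw_gam {Γ : PvtsGeo τ} {ty : τ → PvwTy} {N : PvwNum} {h : ℝ} (hD : PvfeDoors Γ ty N h) (hδ : 0 < Γ.δ) (hh : 0 < h) (hρ : 0 < N.rho) (hsm : 64 * Γ.δ ≤ N.rho * h)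
    {zs zt : ℂ} (gs : ∃ q : ℤ × ℤ, zs = (Γ.δ : ℂ) * pvtZ q) (gt : ∃ q : ℤ × ℤ, zt = (Γ.δ : ℂ) * pvtZ q) (ts tt : τ) {K Kt Ks : Set ℂ} {x : ℂ} {ρ1 : ℝ}
    (hK : ∀ p ∈ K, pvtcSup (p - x) ≤ ρ1)
    (hxt : pvtcSup (zt - x) + pvwRad N h (ty tt) (ty tt).k + 5 / 4 * (N.rho * h) + 16 * Γ.δ ≤ ρ1) (hxs : pvtcSup (zs - x) + pvwRad N h (ty ts) (ty ts).k + 5 / 4 * (N.rho * h) + 16 * Γ.δ ≤ ρ1)
    (hKt : Kt ⊆ K) (hKs : Ks ⊆ K) (cKt : IsPreconnected Kt) (cKs : IsPreconnected Ks)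
    (near_t : ∀ p ∈ K, ‖p - (ty tt).cp h zt‖ ≤ N.rho * h + 40 * Γ.δ → p ∈ Kt) (near_s : ∀ p ∈ K, ‖p - (ty ts).cm h zs‖ ≤ N.rho * h + 40 * Γ.δ → p ∈ Ks)
    (box_t : Kt ⊆ pvwSq zt (pvwRad N h (ty tt) (ty tt).k)) (box_s : Ks ⊆ pvwSq zs (pvwRad N h (ty ts) (ty ts).k))
    (hsep : 2 * (pvwRad N h (ty tt) (ty tt).k + pvwRad N h (ty ts) (ty ts).k) + 15 * (N.rho * h) + 200 * Γ.δ < ‖zt - zs‖)
    (acc_t : PvjwAcc Γ.δ K (pvjwFt Γ N.rho h zt tt)) (acc_s : PvjwAcc Γ.δ K (pvjwFs Γ N.rho h zs ts))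
    {Z : Set (ℤ × ℤ)} (hZ : Z ⊆ pvtCells Γ.δ (K ∪ closedBall ((ty tt).cp h zt) (5 / 4 * (N.rho * h)) ∪ closedBall ((ty ts).cm h zs) (5 / 4 * (N.rho * h)))) :
    ∃ l : List PvtTurn, Γ.Ok ⟨zs, ts, zt, tt, l⟩ ∧ (PvccSimple l l.length ∧ PvfeNR l ∧
        PvfeAdm Γ.δ 3 (2 * N.rho * h) ((ty ts).cm h zs) ((ty tt).cp h zt) (pvfeZ Γ ⟨zs, ts, zt, tt, l⟩) (pvfeD Γ ⟨zs, ts, zt, tt, l⟩) l Z ∧
        PvfeNoz (N.rho * h + 4 * Γ.δ) ((ty ts).cm h zs) ((ty tt).cp h zt) (pvfeZ Γ ⟨zs, ts, zt, tt, l⟩) (pvfeD Γ ⟨zs, ts, zt, tt, l⟩) l) ∧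
      (∀ i, i ≤ l.length → ‖pvccC (pvfeZ Γ ⟨zs, ts, zt, tt, l⟩) (pvfeD Γ ⟨zs, ts, zt, tt, l⟩) l i - x‖ ≤ 3 / 2 * (ρ1 + 10 * Γ.δ)) ∧
      ∀ w ∈ pvfeTube 3 (pvfeZ Γ ⟨zs, ts, zt, tt, l⟩) (pvfeD Γ ⟨zs, ts, zt, tt, l⟩) l, w ∈ K → w ∈ closedBall ((ty tt).cp h zt) (2 * N.rho * h) ∪ closedBall ((ty ts).cm h zs) (2 * N.rho * h) := by
  obtain ⟨qs, hqs⟩ := gs
  obtain ⟨qt, hqt⟩ := gt
  obtain ⟨et, ut, dut, hpo, hdo, hnt, hdt⟩ := hD.out tt
  obtain ⟨es, us, dus, hpi, hdi, hns, hds⟩ := hD.inn ts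
  have hρh : 0 < N.rho * h := mul_pos hρ hh
  have Et := pvjw_end hδ hh hρ hsm hqt dut hnt hdt
  have Es := pvjw_end hδ hh hρ hsm hqs dus hns hds
  have ndt := abs_le.1 (hD.nd_p tt)
  have nds := abs_le.1 (hD.nd_m ts)
  have rt1 : pvwRad N h (ty tt) (ty tt).k ≤ h * pvccN (ty tt).yp + N.rho * h / 4 := by unfold pvwRad; nlinarith [ndt.1]
  have rt2 : h * pvccN (ty tt).yp ≤ pvwRad N h (ty tt) (ty tt).k + N.rho * h / 4 := by unfold pvwRad; nlinarith [ndt.2]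
  have rs1 : pvwRad N h (ty ts) (ty ts).k ≤ h * pvccN (ty ts).ym + N.rho * h / 4 := by unfold pvwRad; nlinarith [nds.1]
  have rs2 : h * pvccN (ty ts).ym ≤ pvwRad N h (ty ts) (ty ts).k + N.rho * h / 4 := by unfold pvwRad; nlinarith [nds.2]
  have dT : pvjwDoor Γ.δ (qt + et - ut) ut = zt + Γ.pout tt := by rw [pvjw_door_eq hqt, hpo]
  have dS : pvjwDoor Γ.δ (qs + es - us) us = zs + Γ.pin ts := by rw [pvjw_door_eq hqs, hpi]; ring
  have fT : pvtCtr Γ.δ (qt + et - ut + ((pvjwL N.rho h Γ.δ : ℕ) : ℤ) • ut) = pvjwFt Γ N.rho h zt tt := by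
    rw [pvjw_front_eq, dT, pvjwFt, hdo]
  have fS : pvtCtr Γ.δ (qs + es - us + ((pvjwL N.rho h Γ.δ : ℕ) : ℤ) • us) = pvjwFs Γ N.rho h zs ts := by
    rw [pvjw_front_eq, dS, pvjwFs, hdi]; ring
  have sq : ∀ {z p : ℂ} {r : ℝ}, p ∈ pvwSq z r → pvtcSup (p - z) ≤ r := fun hp => max_le hp.1 hp.2
  obtain ⟨l, d1, d2, t1, t2, t3, t4, t5, t6⟩ := pvjw_core (x := x) (ρ1 := ρ1) (r' := 5 / 4 * (N.rho * h)) (rA := 2 * N.rho * h) (Kt := Kt) (Ks := Ks) (K := K) (Z := Z) hδ Et Es hK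
    (by linarith) (by linarith) hKt hKs cKt cKs near_t near_s (fun p hp => (sq (box_t hp)).trans (by linarith)) (fun p hp => (sq (box_s hp)).trans (by linarith))
    (by linarith) (by rw [← fT] at acc_t; exact acc_t.cell hδ) (by rw [← fS] at acc_s; exact acc_s.cell hδ) (by linarith) (by linarith) hZ
  rw [dT, ← hdo] at t3 t4 t5 t6
  refine ⟨l, ⟨?_, ?_⟩, ⟨t1, t2, t3, t4⟩, t5, t6⟩
  · show (Γ.δ : ℂ) * pvtDisp (Γ.dout tt) l = (zs + Γ.pin ts) - (zt + Γ.pout tt)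
    rw [hdo, d1, dT, dS]
  · show pvtDir (Γ.dout tt) l = Γ.din ts
    rw [hdo, d2, hdi]

end gam

end Claimed.Agent.R289
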