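-- KEEP
import Claimed.Agent.R289.Tr.CorE

/-!
# Row 289 (S0537), THE WALL, road E, FIT-DET, file Tr/CorDoor : THE DOOR PART OF (I) = `PvjwEnd` (270, `Tr/CorE`) FROM A DOOR IN ABSOLUTE CELL FORM (`PvcbDoor` of 56, `Tr/FitL2`)      (helper198; prefix `pvjd_`; split of 210 11:44Z: 198 doors, 270 Gam form, 210 final glue)

MODEL FREE, imports `Tr/CorE` only: the fields `unit base dom nd` of `PvcbDoor` are EXPLICIT hypotheses (so that this file does not depend on `Tr/FitL2`).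
* **`pvjd_end`**   `unit base dom` + `16 δ ≤ ρ h`  ⟹  `PvjwEnd δ (ρ h) y z (sup (y - z) + ρ h) a u (⌈5 ρ h / (8 δ)⌉₊ + 14)`      (the length is `pvcbL δ (ρ h)` by `rfl`; the front cell `a + L • u` is `pvcbFr a u L` by `rfl`; `pvjwDoor δ a u` is the right side of `door_eq` by `rfl`)
* `pvjd_rad_le`, `pvjd_le_rad`   `nd` : `r - ρ h / 4 + ρ h ≤ sup (y - z) + ρ h ≤ r + 5 ρ h / 4`
* `pvjd_box`       `nd` : the box of the level `pvwSq z r` lies in the sup ball of the end      (hypothesis `box_t`, `box_s` of `pvjw_core`)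
WHY THE RADIUS `sup (y - z) + ρ h` AND NOT `r + 5 ρ h / 4`: the front is at height `≥ ρ h + 12 δ` over `y` only; `front` of `PvjwEnd` fails for the larger radius.
-/

set_option autoImplicit false

namespace Claimed.Agent.R289

open Set Metric

/-- the two sup norms are the same function -/
theorem pvjd_sup_eq (w : ℂ) : pvtcSup w = pvccN w := rfl

/-- the component of `w` along a unit vector of the grid is at most the sup norm -/
theorem pvjd_comp_le {u : ℤ × ℤ} (hu : PvfeDir u) (w : ℂ) : (w * (starRingEnd ℂ) (pvtZ u)).re ≤ pvtcSup w := by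
  have h1 := le_max_left |w.re| |w.im|
  have h2 := le_max_right |w.re| |w.im|
  have a1 := le_abs_self w.re
  have a2 := neg_abs_le w.re
  have a3 := le_abs_self w.im
  have a4 := neg_abs_le w.im
  unfold pvtcSup
  rcases hu with rfl | rfl | rfl | rfl
  · have e : (w * (starRingEnd ℂ) (pvtZ (1, 0))).re = w.re := by simp [pvtZ]
    rw [e]; linarith
  · have e : (w * (starRingEnd ℂ) (pvtZ (-1, 0))).re = - w.re := by simp [pvtZ]
    rw [e]; linarith
  · have e : (w * (starRingEnd ℂ) (pvtZ (0, 1))).re = w.im := by simp [pvtZ]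
    rw [e]; linarith
  · have e : (w * (starRingEnd ℂ) (pvtZ (0, -1))).re = - w.im := by simp [pvtZ]
    rw [e]; linarith

/-- the component along a unit vector is at most the norm, in absolute value -/
theorem pvjd_comp_abs {u : ℤ × ℤ} (hu : PvfeDir u) (w : ℂ) : |(w * (starRingEnd ℂ) (pvtZ u)).re| ≤ ‖w‖ := by
  have h := Complex.abs_re_le_norm (w * (starRingEnd ℂ) (pvtZ u))
  rwa [norm_mul, RCLike.norm_conj, (pvtb_Z_unit hu).2, mul_one] at h

/-- the component of `t u` along `u` -/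
theorem pvjd_comp_self {u : ℤ × ℤ} (hu : PvfeDir u) (t : ℝ) : (((t : ℝ) : ℂ) * pvtZ u * (starRingEnd ℂ) (pvtZ u)).re = t := by
  rw [mul_assoc, Complex.mul_conj, Complex.normSq_eq_norm_sq, (pvtb_Z_unit hu).2]
  simp

/-- the centre of the cell number `i` of the whisker, from the base cell -/
theorem pvjd_ctr (δ : ℝ) (a u : ℤ × ℤ) (i : ℕ) : pvtCtr δ (a + (i : ℤ) • u) = pvtCtr δ (a + u) + (((i : ℝ) - 1) * δ : ℝ) * pvtZ u := by
  have h1 := pvtb_ctr_wh δ a u i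
  have h2 := pvtb_ctr_wh δ a u 1
  simp only [Nat.cast_one, one_smul, one_mul] at h2
  rw [h1, h2]
  push_cast
  ring

/-- **AN END OF THE CORRIDOR FROM A DOOR IN ABSOLUTE CELL FORM** (the fields `unit base dom` of `PvcbDoor`, `Tr/FitL2`): mouth disc of radius `ρ h`, sup ball of radius `sup (y - z) + ρ h`, whisker of length `⌈5 ρ h / (8 δ)⌉ + 14` -/
theorem pvjd_end {δ ρh : ℝ} {z y : ℂ} {a u : ℤ × ℤ} (hδ : 0 < δ) (hρ : 16 * δ ≤ ρh) (hu : PvfeDir u)
    (base : ‖pvtCtr δ (a + u) - (y + ((3 * ρh / 8 : ℝ) : ℂ) * pvtZ u)‖ ≤ δ)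
    (dom : ((y - z) * (starRingEnd ℂ) (pvtZ u)).re = pvccN (y - z)) :
    PvjwEnd δ ρh y z (pvccN (y - z) + ρh) a u (⌈5 * ρh / (8 * δ)⌉₊ + 14) := by
  have hZ := (pvtb_Z_unit hu).2
  have hρ0 : 0 ≤ ρh := by linarith
  have hL1 : 5 * ρh / (8 * δ) ≤ (⌈5 * ρh / (8 * δ)⌉₊ : ℝ) := Nat.le_ceil _
  have hL2 : (⌈5 * ρh / (8 * δ)⌉₊ : ℝ) < 5 * ρh / (8 * δ) + 1 := Nat.ceil_lt_add_one (by positivity)
  have hq : 5 * ρh / (8 * δ) * δ = 5 * ρh / 8 := by field_simp
  -- the distance of the cell number `i` to `y`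
  have key : ∀ i : ℕ, pvtCtr δ (a + (i : ℤ) • u) - y = (pvtCtr δ (a + u) - (y + ((3 * ρh / 8 : ℝ) : ℂ) * pvtZ u)) + ((3 * ρh / 8 + ((i : ℝ) - 1) * δ : ℝ) : ℂ) * pvtZ u := by
    intro i
    rw [pvjd_ctr]
    push_cast
    ring
  have near : ∀ i : ℕ, i ≤ ⌈5 * ρh / (8 * δ)⌉₊ + 14 → ‖pvtCtr δ (a + (i : ℤ) • u) - y‖ ≤ ρh + 16 * δ := by
    intro i hi
    rw [key i]
    refine (norm_add_le _ _).trans ?_
    rw [norm_mul, hZ, mul_one, Complex.norm_real, Real.norm_eq_abs]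
    have hi' : (i : ℝ) ≤ (⌈5 * ρh / (8 * δ)⌉₊ : ℝ) + 14 := by exact_mod_cast hi
    have hi0 : (0 : ℝ) ≤ i := Nat.cast_nonneg _
    have h3 : (i : ℝ) * δ ≤ 5 * ρh / 8 + 15 * δ := by
      have : (i : ℝ) * δ ≤ (5 * ρh / (8 * δ) + 1 + 14) * δ := mul_le_mul_of_nonneg_right (by linarith) hδ.le
      have e : (5 * ρh / (8 * δ) + 1 + 14) * δ = 5 * ρh / (8 * δ) * δ + 15 * δ := by ring
      rw [e, hq] at this
      exact this
    have h4 : 0 ≤ (i : ℝ) * δ := by positivity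
    have h5 : |3 * ρh / 8 + ((i : ℝ) - 1) * δ| ≤ ρh + 14 * δ := by
      rw [abs_le]
      constructor <;> nlinarith
    linarith
  refine ⟨hu, ⟨pvtCtr δ a, pvt_sq_ctr hδ.le, ?_⟩, near, ?_, ?_⟩
  · rw [mem_closedBall, dist_eq_norm]
    have h0 := key 0
    simp only [Nat.cast_zero, zero_smul, add_zero] at h0
    rw [h0]
    refine (norm_add_le _ _).trans ?_
    rw [norm_mul, hZ, mul_one, Complex.norm_real, Real.norm_eq_abs]
    have h5 : |3 * ρh / 8 + ((0 : ℝ) - 1) * δ| ≤ 3 * ρh / 8 := by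
      rw [abs_le]
      constructor <;> linarith
    linarith
  · exact le_of_eq rfl
  · -- the component of the front along `u`
    set L : ℕ := ⌈5 * ρh / (8 * δ)⌉₊ + 14 with hL
    have hc := pvjd_comp_le hu (pvtCtr δ (a + (L : ℤ) • u) - z)
    have e : pvtCtr δ (a + (L : ℤ) • u) - z = (y - z) + (pvtCtr δ (a + u) - (y + ((3 * ρh / 8 : ℝ) : ℂ) * pvtZ u)) + ((3 * ρh / 8 + ((L : ℝ) - 1) * δ : ℝ) : ℂ) * pvtZ u := by
      have := key L
      linear_combination this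
    rw [e, add_mul, add_mul, Complex.add_re, Complex.add_re, dom, pvjd_comp_self hu] at hc
    have h6 := (abs_le.1 ((pvjd_comp_abs hu (pvtCtr δ (a + u) - (y + ((3 * ρh / 8 : ℝ) : ℂ) * pvtZ u))).trans base)).1
    have hLr : (L : ℝ) = (⌈5 * ρh / (8 * δ)⌉₊ : ℝ) + 14 := by rw [hL]; push_cast; ring
    have h7 : 5 * ρh / 8 + 14 * δ ≤ (L : ℝ) * δ := by
      rw [hLr, add_mul, ← hq]
      have := mul_le_mul_of_nonneg_right hL1 hδ.le
      linarith
    rw [← e] at hc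
    nlinarith

/-- the radius of the end against the half side of the box of the level -/
theorem pvjd_rad_le {z y : ℂ} {r ρh : ℝ} (nd : |pvccN (y - z) - r| ≤ ρh / 4) : pvccN (y - z) + ρh ≤ r + 5 / 4 * ρh := by
  have := (abs_le.1 nd).2
  linarith

theorem pvjd_le_rad {z y : ℂ} {r ρh : ℝ} (nd : |pvccN (y - z) - r| ≤ ρh / 4) : r + 3 / 4 * ρh ≤ pvccN (y - z) + ρh := by
  have := (abs_le.1 nd).1
  linarith

/-- the box of the level lies in the sup ball of the end -/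
theorem pvjd_box {z y p : ℂ} {r ρh : ℝ} (hρ : 0 ≤ ρh) (nd : |pvccN (y - z) - r| ≤ ρh / 4) (hp : p ∈ pvwSq z r) : pvtcSup (p - z) ≤ pvccN (y - z) + ρh := by
  have h1 := pvjd_le_rad nd
  exact pvtc_pl_sup_le.2 ⟨hp.1.trans (by linarith), hp.2.trans (by linarith)⟩

/-- a Euclidean ball in sup form -/
theorem pvjd_sup_of_norm {p x : ℂ} {t : ℝ} (h : ‖p - x‖ ≤ t) : pvtcSup (p - x) ≤ t := (pvtc_pl_sup_le_norm _).trans h

end Claimed.Agent.R289
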