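-- KEEP
import Claimed.Agent.R289.Tr.FitRef
import Claimed.Agent.R289.Tr.FitKit
import Claimed.Agent.R289.Defs.Three

/-!
# Row 289 (S0537, Cardy for Poisson-Voronoi), THE WALL, road E, TR38 = (ACC), file Tr/Acc : NO THREE PASSAGES ⟹ BOTH FRONTS ARE ACCESSIBLE      (owner helper211; prefix `pvacc_`, `Pvacc`)

Blueprint: `origin/helper211:notes/R289/W2_211.md` v2 ((PP) (3P) (COR)), `origin/helper118:notes/R289/W1_118.md` Part V, rulings 9, 9bis of 234.

THE SEAM.   The rim and the CLOSED wall live in a COMPLETION `T_c`; the embedding (`PlGeo`, `W ∩ K = ∅`, the pinch) lives in the Delaunay PLANE.   A completion is arbitrary beyond `6R`; in the plane the strand need not close and the lobes of `g₀` may leave the patch.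
THE CURE.   SETS IN THE PLANE, TIMES IN THE COMPLETION, glued by `γ : ℕ → ℂ`, `γ k` = the position of the black end of the position number `k` of the wall of the completion.      This file is model free in `γ`.

* §1 `PvaccP4 K M p0 r η` = the contract (P4) of the mouths: two close points of `K ∩ M` are joined inside `K` by a connected set which, with the two sup balls, lies in a rectangle missing the front `p0`.
     PRODUCER (215 `Tr/FitMouth`): `M` := (stub ∪ disc) of `t` ∪ (stub ∪ disc) of `s`, the rectangle := the box `pvwSq z r_k` fattened (the box is a sup ball and contains stub and disc; the front is outside).      NO calm level, NO corner clause is needed.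
     **`pvacc_pp_pl`** : `PvtcPP K W ∅ p0 r η` (292, rectangles, NO mask: so the accessibility is that of the FULL `K`) + (P4) ⟹ `PvtcPlPinch K W M p0 r` (balls, mask `M`: the input of 151).
* §2 `PvaccScene` = THE CONTRACT OF THE INSTANCE (who produces what: see the fields).
     **`pvacc_core`** (on `pvtc_pl_fit` of 292, `pvfr_arc_fwd/_bwd` of 151) : scene ⟹ both fronts accessible (every `δ`-cell through a front lies in `pvtbOut (pvtwN j (pvtCells δ K))`) OR three passages `PvfrThree γ y (8 r + μ) (S - μ) lo hi` at some `y ∈ K`.      `pvacc_core8` = the same with `pvtN8^[j]` (form of `PvfyAcc`, 62).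
* §3 **`pvacc_three`** : `PvfrThree` for `γ = pos ∘ src ∘ pvasIt`, positions different on the window ⟹ `PvxvThree T pos σ y s S` (143, the event of record of `cover`).      `pvacc_window` : no return before the time `n` ⟹ the positions of a window shorter than `n` are different.
-/

set_option autoImplicit false
set_option linter.unusedSectionVars false
set_option linter.unusedVariables false

namespace Claimed.Agent.R289

open Set

/-! ## §1 from rectangles without mask to balls with mask -/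

/-- **(P4), THE CONTRACT OF THE MOUTHS**: two points of `K ∩ M` at sup distance `≤ 2 r + η` are joined inside `K` by a connected set which, together with the two sup balls of radius `r + η`, lies in a rectangle which misses the front `p0` by more than `η` -/
def PvaccP4 (K M : Set ℂ) (p0 : ℂ) (r η : ℝ) : Prop :=
  ∀ x ∈ K, ∀ y ∈ K, x ∈ M → y ∈ M → pvtcSup (x - y) ≤ 2 * r + η →
    ∃ K' ⊆ K, IsPreconnected K' ∧ x ∈ K' ∧ y ∈ K' ∧ ∃ a b c d : ℝ, K' ⊆ pvtcRect a b c d ∧ (∀ p : ℂ, pvtcSup (p - x) ≤ r + η → p ∈ pvtcRect a b c d) ∧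
      (∀ p : ℂ, pvtcSup (p - y) ≤ r + η → p ∈ pvtcRect a b c d) ∧ p0 ∉ pvtcRect (a - η) (b + η) (c - η) (d + η)

theorem pvacc_eqns_cite : True := by
  have := @PvaccP4.eq_1
  trivial

/-- sup norm: triangle inequality -/
theorem pvacc_sup_tri (a b c : ℂ) : pvtcSup (a - c) ≤ pvtcSup (a - b) + pvtcSup (b - c) := by
  have h1 := (pvtc_pl_sup_le (p := a - b) (t := pvtcSup (a - b))).1 le_rfl
  have h2 := (pvtc_pl_sup_le (p := b - c) (t := pvtcSup (b - c))).1 le_rfl
  rw [pvtc_pl_sup_le]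
  constructor
  · have : (a - c).re = (a - b).re + (b - c).re := by simp
    rw [this]
    exact (abs_add_le _ _).trans (add_le_add h1.1 h2.1)
  · have : (a - c).im = (a - b).im + (b - c).im := by simp
    rw [this]
    exact (abs_add_le _ _).trans (add_le_add h1.2 h2.2)

/-- the sup ball as a rectangle -/
theorem pvacc_rect_iff {x p : ℂ} {t : ℝ} : p ∈ pvtcRect (x.re - t) (x.re + t) (x.im - t) (x.im + t) ↔ pvtcSup (p - x) ≤ t := by
  rw [pvtc_pl_sup_le, abs_le, abs_le, Complex.sub_re, Complex.sub_im]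
  constructor
  · rintro ⟨h1, h2, h3, h4⟩
    exact ⟨⟨by linarith, by linarith⟩, ⟨by linarith, by linarith⟩⟩
  · rintro ⟨⟨h1, h2⟩, ⟨h3, h4⟩⟩
    exact ⟨by linarith, by linarith, by linarith, by linarith⟩

/-- **FROM THE PINCH IN RECTANGLE FORM, NO MASK, TO THE PINCH IN BALL FORM WITH THE MASK `M`** -/
theorem pvacc_pp_pl {K W M : Set ℂ} {p0 : ℂ} {r η : ℝ} (hr : 0 < r) (hη : 0 < η) (hηr : 4 * η ≤ r) (h4 : PvaccP4 K M p0 r η) (hp : PvtcPP K W ∅ p0 r η) :
    PvtcPlPinch K W M p0 r := by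
  obtain ⟨x, hx, y, hy, w, hw, -, hxy, hwd, hall⟩ := hp
  refine ⟨x, hx, y, hy, w, hw, ?_, ?_, ?_, ?_⟩
  · by_contra hc
    push Not at hc
    obtain ⟨K', hK', hc', hxK, hyK, a, b, c, d, h1, h2, h3, h5⟩ := h4 x hx y hy hc.1 hc.2 hxy
    exact h5 (hall K' hK' hc' hxK hyK a b c d h1 h2 h3)
  · have := pvtc_pl_norm_le_sup (x - y)
    linarith
  · rcases hwd with h | h
    · left
      have := pvtc_pl_norm_le_sup (w - x)
      linarith
    · right
      have := pvtc_pl_norm_le_sup (w - y)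
      linarith
  · intro K' hK' hc' hxK hyK S hS hsub
    have h1 : K' ⊆ pvtcRect (x.re - S) (x.re + S) (x.im - S) (x.im + S) := by
      intro p hp
      rw [pvacc_rect_iff]
      have := hsub hp
      rw [Metric.mem_closedBall, dist_eq_norm] at this
      exact (pvtc_pl_sup_le_norm _).trans this
    have h2 : ∀ p : ℂ, pvtcSup (p - x) ≤ r + η → p ∈ pvtcRect (x.re - S) (x.re + S) (x.im - S) (x.im + S) := by
      intro p hp
      rw [pvacc_rect_iff]
      linarith
    have h3 : ∀ p : ℂ, pvtcSup (p - y) ≤ r + η → p ∈ pvtcRect (x.re - S) (x.re + S) (x.im - S) (x.im + S) := by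
      intro p hp
      rw [pvacc_rect_iff]
      have h5 := pvacc_sup_tri p y x
      rw [pvtc_pl_sup_comm y x] at h5
      linarith
    have h6 := hall K' hK' hc' hxK hyK _ _ _ _ h1 h2 h3
    have h7 : p0 ∈ pvtcRect (x.re - (S + η)) (x.re + (S + η)) (x.im - (S + η)) (x.im + (S + η)) := by
      obtain ⟨g1, g2, g3, g4⟩ := h6
      exact ⟨by linarith, by linarith, by linarith, by linarith⟩
    rw [pvacc_rect_iff] at h7
    have := pvtc_pl_norm_le_sup (p0 - x)
    linarith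

/-! ## §2 the contract of the instance, the core -/

section core

variable {γ : ℕ → ℂ} {K M Wt Ws : Set ℂ} {pt ps : ℂ} {r η μ S : ℝ} {lo ts tt hi : ℕ}

/-- **THE CONTRACT OF THE INSTANCE** (all sets in the PLANE, all times on the wall of the COMPLETION).
`K` = the obstacle (D1 of 118: occupied edges of `Σ⁻(s)` | disc | rim edges of `g₀` | disc | occupied edges of `Σ⁺(t)`);   `M` = the two (stub ∪ disc);   `pt`, `ps` = the fronts;
`Wt = (added segments front - tip apex - barycentre) ∪ (the wall polygon of the continuation after the tip of `t` up to its first exit of `B(x,4R)`, times `tt..hi`)`;   `Ws` = the same backwards from the tip of `s` (times `lo..ts`).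
PRODUCERS.   `cpt arc` : 151 (`Tr/FitTime`: pieces ↦ times, at the completion twin of 22) + 135 (zigzag) + 118 / 206 (second gate ⟹ the discs are farther than `S + 8 r` from the witnesses).
`wt_* ws_*` : 292 19 135 (`Tr/FitEmb`) + 215 (added segments).   `far` : 119 (the wall of a reaching rim leaves `B(x,4R)`).   `wt_time ws_time` : twin strands (22) + mesh; the added segments are far from `g₀`.   `p4_*` : 215.
`mask_*` : `PinOut.mouth_p`, `PinIn.mouth_m` (62 `pvfy_mouth_t/_s`) + mesh. -/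
structure PvaccScene (γ : ℕ → ℂ) (K M Wt Ws : Set ℂ) (pt ps : ℂ) (r η μ S : ℝ) (lo ts tt hi : ℕ) : Prop where
  cpt : IsCompact K
  arc : ∃ u v, PvfrArc γ K (Wt ∪ Ws) μ (S + 8 * r) ts tt u v
  wt_conn : IsPreconnected Wt
  wt_cpt : IsCompact Wt
  wt_off : Disjoint Wt K
  wt_front : pt ∈ Wt
  ws_conn : IsPreconnected Ws
  ws_cpt : IsCompact Ws
  ws_off : Disjoint Ws K
  ws_front : ps ∈ Ws
  /-- both witnesses leave the fattened bounding rectangle of `K` -/
  far : ∃ a0 b0 c0 d0 : ℝ, K ⊆ pvtcRect a0 b0 c0 d0 ∧ (∃ q ∈ Wt, q ∉ pvtcRect (a0 - (r + η)) (b0 + (r + η)) (c0 - (r + η)) (d0 + (r + η))) ∧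
    ∃ q ∈ Ws, q ∉ pvtcRect (a0 - (r + η)) (b0 + (r + η)) (c0 - (r + η)) (d0 + (r + η))
  /-- a point of the witness lies within `μ` of a position of the continuation, or (added segments) far from the unmasked part of `K` -/
  wt_time : ∀ w ∈ Wt, (∃ k, (tt ≤ k ∧ k ≤ hi) ∧ ‖w - γ k‖ ≤ μ) ∨ ∀ q ∈ K \ M, 13 * r < ‖w - q‖
  ws_time : ∀ w ∈ Ws, (∃ k, (lo ≤ k ∧ k ≤ ts) ∧ ‖w - γ k‖ ≤ μ) ∨ ∀ q ∈ K \ M, 13 * r < ‖w - q‖
  p4_t : PvaccP4 K M pt r η
  p4_s : PvaccP4 K M ps r η
  mask_pt : ∀ q ∈ K \ M, 3 * S + 5 * r < ‖pt - q‖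
  mask_ps : ∀ q ∈ K \ M, 3 * S + 5 * r < ‖ps - q‖
  mask_tt : ∀ q ∈ K \ M, S + 5 * r < ‖γ tt - q‖
  mask_ts : ∀ q ∈ K \ M, S + 5 * r < ‖γ ts - q‖
  lo_far : ∀ q ∈ K, S < ‖γ lo - q‖
  lo_le : lo ≤ ts
  tt_le : tt ≤ hi

/-- **(ACC), THE CORE**: both fronts are accessible or the wall passes three times near a point of `K` -/
theorem pvacc_core {δ : ℝ} {j : ℕ} (sc : PvaccScene γ K M Wt Ws pt ps r η μ S lo ts tt hi) (hr : 0 < r) (hη : 0 < η) (hηr : 4 * η ≤ r) (hμ : 0 ≤ μ) (hS : 8 * r + 2 * μ ≤ S)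
    (hδ : 0 < δ) (hj : ((j : ℝ) + 1) * δ < r) :
    ((∀ e : ℤ × ℤ, pt ∈ pvtSq δ e → e ∈ pvtbOut (pvtwN j (pvtCells δ K))) ∧ ∀ e : ℤ × ℤ, ps ∈ pvtSq δ e → e ∈ pvtbOut (pvtwN j (pvtCells δ K))) ∨
      ∃ y ∈ K, PvfrThree γ y (8 * r + μ) (S - μ) lo hi := by
  obtain ⟨u, v, arc⟩ := sc.arc
  obtain ⟨a0, b0, c0, d0, hKb, ⟨qt, hqt, hft⟩, qs, hqs, hfs⟩ := sc.far
  have hKc : IsPreconnected K := pvfr_arc_conn arc
  have z : ∀ a : ℂ, ‖a - a‖ ≤ μ := fun a => by rw [sub_self, norm_zero]; exact hμ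
  rcases pvtc_pl_fit (M := ∅) (δ := δ) (j := j) hr hη hδ hj hKc sc.cpt hKb sc.wt_conn sc.wt_cpt sc.wt_off sc.wt_front hqt hft with h1 | h1
  · rcases pvtc_pl_fit (M := ∅) (δ := δ) (j := j) hr hη hδ hj hKc sc.cpt hKb sc.ws_conn sc.ws_cpt sc.ws_off sc.ws_front hqs hfs with h2 | h2
    · left
      rw [Set.sdiff_empty] at h1 h2
      exact ⟨h1, h2⟩
    · right
      obtain ⟨x, hx, h3⟩ := pvfr_arc_bwd (pvfr_arc_mono arc Set.subset_union_right le_rfl le_rfl le_rfl) hr hμ hS sc.ws_time (z _) sc.lo_far sc.mask_ts sc.mask_ps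
        (pvacc_pp_pl hr hη hηr sc.p4_s h2)
      exact ⟨x, hx, pvfr_three_mono h3 le_rfl le_rfl le_rfl sc.tt_le⟩
  · right
    obtain ⟨x, hx, h3⟩ := pvfr_arc_fwd (pvfr_arc_mono arc Set.subset_union_left le_rfl le_rfl le_rfl) hr hμ hS sc.wt_time (z _) (z _) sc.mask_tt sc.mask_ts sc.mask_pt
      (pvacc_pp_pl hr hη hηr sc.p4_t h1)
    exact ⟨x, hx, pvfr_three_mono h3 le_rfl le_rfl sc.lo_le le_rfl⟩

/-- the same in the form of `PvfyAcc` (62): fattening by `pvtN8^[j]` -/
theorem pvacc_core8 {δ : ℝ} {j : ℕ} (sc : PvaccScene γ K M Wt Ws pt ps r η μ S lo ts tt hi) (hr : 0 < r) (hη : 0 < η) (hηr : 4 * η ≤ r) (hμ : 0 ≤ μ) (hS : 8 * r + 2 * μ ≤ S)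
    (hδ : 0 < δ) (hj : ((j : ℝ) + 1) * δ < r) :
    ((∀ e : ℤ × ℤ, pt ∈ pvtSq δ e → e ∈ pvtbOut (pvtN8^[j] (pvtCells δ K))) ∧ ∀ e : ℤ × ℤ, ps ∈ pvtSq δ e → e ∈ pvtbOut (pvtN8^[j] (pvtCells δ K))) ∨
      ∃ y ∈ K, PvfrThree γ y (8 * r + μ) (S - μ) lo hi := by
  rw [← pvmx_N_iter]
  exact pvacc_core sc hr hη hηr hμ hS hδ hj

end core

/-! ## §3 from marked times to the event of record -/

section three

variable {V D : Type} {T : PvMap V D} {pos : V → ℂ} {σ : V → Bool} {d0 : D}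

/-- no return to the first position before the time `n`: the positions of a window shorter than `n` are different -/
theorem pvacc_window (hbw : pvasBW T σ d0) {n lo hi : ℕ} (hmin : ∀ k, 0 < k → k < n → pvasIt T σ d0 k ≠ d0) (hlt : hi < lo + n) : Set.InjOn (pvasIt T σ d0) (Set.Icc lo hi) :=
  pvfr_injOn_window hbw hmin hlt

/-- **THREE PASSAGES WITH MARKED TIMES ⟹ THE EVENT OF RECORD `PvxvThree`** (143) -/
theorem pvacc_three (hbw : pvasBW T σ d0) {lo hi : ℕ} (hinj : Set.InjOn (pvasIt T σ d0) (Set.Icc lo hi)) {y : ℂ} {s S : ℝ}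
    (h : PvfrThree (fun k => pos (T.src (pvasIt T σ d0 k))) y s S lo hi) : PvxvThree T pos σ y s S := by
  obtain ⟨e0, i, e1, j, e2, l, a0, a1, a2, a3, a4, a5, a6, n1, n2, n3, f0, f1, f2⟩ := h
  have key : ∀ a b : ℕ, lo ≤ a → a ≤ hi → lo ≤ b → b ≤ hi → a ≠ b → pvasIt T σ d0 a ≠ pvasIt T σ d0 b :=
    fun a b h1 h2 h3 h4 hab e => hab (hinj ⟨h1, h2⟩ ⟨h3, h4⟩ e)
  refine ⟨![pvasIt T σ d0 e0, pvasIt T σ d0 e1, pvasIt T σ d0 e2], ![i - e0, j - e1, l - e2], ?_, ?_⟩
  · intro q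
    fin_cases q
    · refine ⟨pvas_it_bw hbw _, f0.le, ?_⟩
      show ‖pos (T.src (pvasIt T σ (pvasIt T σ d0 e0) (i - e0))) - y‖ ≤ s
      rw [← pvas_it_add, Nat.add_sub_cancel' a1.le]
      exact n1
    · refine ⟨pvas_it_bw hbw _, f1.le, ?_⟩
      show ‖pos (T.src (pvasIt T σ (pvasIt T σ d0 e1) (j - e1))) - y‖ ≤ s
      rw [← pvas_it_add, Nat.add_sub_cancel' a3.le]
      exact n2
    · refine ⟨pvas_it_bw hbw _, f2.le, ?_⟩
      show ‖pos (T.src (pvasIt T σ (pvasIt T σ d0 e2) (l - e2))) - y‖ ≤ s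
      rw [← pvas_it_add, Nat.add_sub_cancel' a5.le]
      exact n3
  · intro p q hpq k hk k' hk'
    fin_cases p <;> fin_cases q <;> first | exact absurd rfl hpq | skip
    all_goals
      simp only [Fin.zero_eta, Fin.mk_one, Fin.reduceFinMk, Matrix.cons_val_zero, Matrix.cons_val_one, Matrix.cons_val_two, Matrix.head_cons, Matrix.tail_cons] at hk hk' ⊢
      rw [← pvas_it_add, ← pvas_it_add]
      exact key _ _ (by omega) (by omega) (by omega) (by omega) (by omega)

end three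

end Claimed.Agent.R289
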