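-- KEEP
import Claimed.Agent.R289.Tr.Defs
import Claimed.Agent.R289.Tr.Band
import Claimed.Agent.R289.Tr.Poly

/-!
# Row 289 (S0537, Cardy for Poisson-Voronoi), THE WALL, road E, file Tr/FitRoof : THE KIT OF FIT-DET ON `Tr/Defs` v3  (TR19 + TR38)      (owner helper62; prefix `pvfy_`, `Pvfy`, `pvfy`)

**v3 (10:55Z): on `Tr/Defs` v3 (25, FROZEN).   THE ROPE OF RECORD OF `fit` AT THE MODEL IS `Tr/FitE` (209: `pvfh_main`, L1-L7) + `Tr/FitL2` (246: the cut of (L2)) + `Tr/Acc` (211: `PvaccScene`, `pvacc_core`) + `Tr/BandFit` (20: `pvtb_fit_mouth`).**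
The abstract upper half of v2 (`PvfyFam`, `PvfyFam.Cor`, `PvfyScene`, `pvfy_ok`, `pvfy_fit_det`, `pvfy_fit`, `pvfy_cover`) had no consumer at the model and is WITHDRAWN (no orphan records): nobody owes a producer of `PvfyScene` / `PvfyFam` any more.
WHAT STAYS = what `Tr/FitDat` (10), `Tr/FitScene` (92), `Tr/AccK` (119), `Tr/Acc` (211), `Tr/AccGlue` (292) read:

* sec. 1  THE DEFAULT OBSTACLE.   `pvfyFace` (closed face on the left of a dart), `PvwDat.pvfyJ` (the darts whose faces are frozen), `PvwDat.pvfyK` = **`K`** of W2_211 A  (faces of `Σ⁻(s)`, right faces of `g₀`, faces of `Σ⁺(t)`, the closed insides of the two gates).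
          v3: the CORE of a state is the whole disc `B(z, b h)`: the obstacle of record at the model adds the two closed discs: `PvwDat.pvfyKd`.
* sec. 2  THE CONTRACTS
      `PvfyAcc δ k K z`        (ACC)  the front `z` is accessible: every `δ`-cell through `z` lies in `pvtbOut` of the `k`-fattening of the cells of `K`.            PRODUCER: `Tr/Acc.lean` (211) + (PP) 292 151 : `¬ PvxvThree ⟹ Acc`.
      `PvfyMouth K x ρ z r`    (M1)   inside `closedBall x ρ` the obstacle stays in the box `pvwSq z r`.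
      `PvfyCore`               (PRE)  the actual datum of an (A1) pair, pattern free, RIM FREE (half states, `g₀` black with white right apexes, off the two mouths: `2 ρ h` round the grid centres `y±`, hence `ρ h` round the tips).
      `PvfyPre`                (PRE)  the same with a rim `c : T.Cyc` (to be used IN A COMPLETION: 49 `Tr/FitLift`, 179 `Tr/Wit`, 10 `Tr/FitDat`).
      `PvfyStr`                (STR)  strand calculus: `out` (v3: off `ins`) `disj tip_f`.      `PvfyObs` : what FIT uses of `K`.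
* sec. 3  THE LEAVES on `Tr/Defs` (proved by 9 65 81 62).
-/

set_option autoImplicit false

namespace Claimed.Agent.R289

open Set Filter Topology

/-! ## 1. the obstacle `K` -/

section obstacle

variable {V D : Type}

/-- the closed face on the LEFT of the dart `d` -/
def pvfyFace (T : PvMap V D) (pos : V → ℂ) (d : D) : Set ℂ := convexHull ℝ {pos (T.src d), pos (T.tgt d), pos (T.apex d)}

/-- the darts whose left faces make up the obstacle (`J` + the cores of W2_211 A).   A strand position `black → white` stands for the face on its left, which the strand has just entered: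
the faces of `Σ⁺(t)` are those of the positions `ep i`, `i < np` (the apex of the face of the tip position `ep np` is FRESH);   the faces of `Σ⁻(s)` are those of the positions `em i`, `i ≤ nm`;
the right face of the edge number `i` of `g₀` is the face of `opp (g.e i)` -/
def PvwDat.pvfyJ {T : PvMap V D} (𝔇 : PvwDat T) : Set D :=
  {d | (∃ i, i < 𝔇.t.np ∧ 𝔇.t.ep i = d) ∨ (∃ i, i ≤ 𝔇.s.nm ∧ 𝔇.s.em i = d) ∨ (∃ i, i < 𝔇.g.n ∧ T.opp (𝔇.g.e i) = d) ∨ d ∈ 𝔇.s.S.Left ∨ d ∈ 𝔇.t.S.Left}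

/-- **the obstacle `K`**: the union of the closed frozen faces -/
def PvwDat.pvfyK {T : PvMap V D} (𝔇 : PvwDat T) (pos : V → ℂ) : Set ℂ := ⋃ d ∈ 𝔇.pvfyJ, pvfyFace T pos d

/-- **the obstacle with the two closed core discs** (v3: the core of a state = ALL the sites of the open disc `B(z, b h)`) -/
def PvwDat.pvfyKd {T : PvMap V D} (𝔇 : PvwDat T) (pos : V → ℂ) (h : ℝ) (zs zt : ℂ) (τs τt : PvwTy) : Set ℂ :=
  𝔇.pvfyK pos ∪ Metric.closedBall zs (τs.b * h) ∪ Metric.closedBall zt (τt.b * h)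

end obstacle

/-! ## 2. the contracts -/

/-- **(ACC)** the point `z` is ACCESSIBLE at the scale `δ`, fattening `k`: every `δ`-cell through `z` is joined to infinity by `δ`-cells off the `k`-fattening of the cells which meet `K`
(= `z` lies in the unbounded component of the complement of the closed `r`-neighbourhood of `K`, `r ≈ k δ`, in the cell form (COR) consumes) -/
def PvfyAcc (δ : ℝ) (k : ℕ) (K : Set ℂ) (z : ℂ) : Prop := ∀ a : ℤ × ℤ, z ∈ pvtSq δ a → a ∈ pvtbOut (pvtN8^[k] (pvtCells δ K))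

/-- **(M1)** in the plane form: inside the mouth `B(x, ρ)` the obstacle stays in the `μ`-fattened box `B` -/
def PvfyMouth (K : Set ℂ) (x : ℂ) (ρ : ℝ) (z : ℂ) (r : ℝ) : Prop := K ∩ Metric.closedBall x ρ ⊆ pvwSq z r

section pre

variable {V D : Type}

/-- **(PRE), RIM FREE**: the ACTUAL datum of an (A1) pair of pins, pattern free, NO cycle: the two half states, `g₀` from `g⁺(s)` to `g⁻(t)`, black, with white right apexes, off the two mouths -/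
structure PvfyCore (T : PvMap V D) (pos : V → ℂ) (N : PvwNum) (h : ℝ) (zs zt : ℂ) (τs τt : PvwTy) (σ : V → Bool) (𝔇 : PvwDat T) : Prop where
  col : 𝔇.col = σ
  st_s : 𝔇.s.AtIn pos N h zs τs σ
  st_t : 𝔇.t.AtOut pos N h zt τt σ
  g0 : 𝔇.g.v 0 = 𝔇.s.gp
  g1 : 𝔇.g.v 𝔇.g.n = 𝔇.t.gm
  pos_n : 0 < 𝔇.g.n
  black : ∀ v ∈ 𝔇.g.verts, σ v = true
  white : ∀ v ∈ 𝔇.apx, σ v = false
  mouth_s : ∀ v ∈ 𝔇.g.verts, N.rho * h < ‖pos v - 𝔇.s.xm pos‖
  mouth_t : ∀ v ∈ 𝔇.g.verts, N.rho * h < ‖pos v - 𝔇.t.xp pos‖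
  /-- v3: the mouths of record, radius `2 ρ h` round the grid centres -/
  mouth_s2 : ∀ v ∈ 𝔇.g.verts, 2 * N.rho * h < ‖pos v - τs.cm h zs‖
  mouth_t2 : ∀ v ∈ 𝔇.g.verts, 2 * N.rho * h < ‖pos v - τt.cp h zt‖

/-- **(PRE), WITH A RIM** `c : T.Cyc` (to be used in a COMPLETION: 49): what the dictionary (195), the definition of the qualified pins (12, 273) give.      `j` = the place of `g⁻(s)` on the rim `c` -/
structure PvfyPre (T : PvMap V D) (pos : V → ℂ) (N : PvwNum) (h : ℝ) (zs zt : ℂ) (τs τt : PvwTy) (σ : V → Bool) (c : T.Cyc) (j : ℕ) (𝔇 : PvwDat T) : Prop where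
  col : 𝔇.col = σ
  st_s : 𝔇.s.AtIn pos N h zs τs σ
  st_t : 𝔇.t.AtOut pos N h zt τt σ
  rim : c.IsRim σ
  black : σ (T.src (c.e 0)) = true
  pin_s : 𝔇.s.PinIn pos N h (τs.cm h zs) (pvwSq zs (pvwRad N h τs N.K)) c j
  arc : ∀ i, i < 𝔇.g.n → c.e (j + 𝔇.s.inn.n + i) = 𝔇.g.e i
  pin_t : 𝔇.t.PinOut pos N h (τt.cp h zt) (pvwSq zt (pvwRad N h τt N.K)) c (j + 𝔇.s.inn.n + 𝔇.g.n)
  pos_n : 0 < 𝔇.g.n
  /-- the three arcs `inner(s) . g₀ . inner(t)` do not wrap round the rim -/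
  short : 𝔇.s.inn.n + 𝔇.g.n + 𝔇.t.inn.n < c.n
  /-- the largest boxes of the two pins are disjoint -/
  boxes : Disjoint (pvwSq zs (pvwRad N h τs N.K)) (pvwSq zt (pvwRad N h τt N.K))
  /-- the gates lie in the boxes (`b₁ < a₂ < b₂`) -/
  b_s : τs.b ≤ 2 * τs.b2
  b_t : τt.b ≤ 2 * τt.b2

end pre

theorem pvfy_eqns_cite : True := by
  have := @pvfyFace.eq_1; have := @PvwDat.pvfyJ.eq_1; have := @PvwDat.pvfyK.eq_1; have := @PvwDat.pvfyKd.eq_1; have := @PvfyAcc.eq_1; have := @PvfyMouth.eq_1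
  trivial

/-! ## 3. the leaves on `Tr/Defs` -/

section leaves

variable {V D : Type} {T : PvMap V D} {pos : V → ℂ} {N : PvwNum} {h : ℝ} {zs zt : ℂ} {τs τt : PvwTy} {σ : V → Bool} {c : T.Cyc} {j : ℕ} {𝔇 : PvwDat T}

/-- **(STR)** the facts of the STRAND CALCULUS which FIT consumes (planarity lives here).
`out` = SC3 (the rim passes a gate once: `Tr/GateB` pvtg_*, 260 118);   `disj` = SC1 / (CACT), END POINTS INCLUDED (G2 of 78) (the bank walk runs through the rim in order, with closed excursions: `Tr/Strand` pvt_s_arc, 118 57; white banks: colours);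
`tip_f` = the tip apexes are fresh (own half state: `pvwk_atOut_ap`, `pvwk_atIn_am` of `Tr/StKit`; the other half state: boxes disjoint + mesh) -/
structure PvfyStr (T : PvMap V D) (𝔇 : PvwDat T) : Prop where
  out : ∀ v ∈ 𝔇.g.inner, v ∉ 𝔇.s.ins ∧ v ∉ 𝔇.t.ins
  disj : ∀ v ∈ 𝔇.g.verts, v ∉ 𝔇.t.bkP ∧ v ∉ 𝔇.t.whP ∧ v ∉ 𝔇.s.bkM ∧ v ∉ 𝔇.s.whM
  tip_f : 𝔇.t.ap ∉ 𝔇.fzY ∧ 𝔇.s.am ∉ 𝔇.fzY

/-- **WHAT THE ROOF USES OF THE OBSTACLE `K`** (a PARAMETER: `𝔇.pvfyK pos` (sec. 1; 119 `Tr/AccK`), `T.real pos A` of 206, `pvawK`, the thin chain of 118, ..) -/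
structure PvfyObs (T : PvMap V D) (pos : V → ℂ) (𝔇 : PvwDat T) (K : Set ℂ) (μ : ℝ) : Prop where
  /-- `g₀` and its right apexes lie on `K` -/
  vert : ∀ v ∈ 𝔇.g.verts ∪ 𝔇.apx, pos v ∈ K
  /-- mesh: a right apex of `g₀` is within `μ` of a vertex of `g₀` -/
  near : ∀ v ∈ 𝔇.apx, ∃ u ∈ 𝔇.g.verts, ‖pos v - pos u‖ ≤ μ
  compact : IsCompact K
  conn : IsConnected K

/-- every vertex of the rim is black   [62] -/
theorem pvfy_rim_black (hr : c.IsRim σ) (hb : σ (T.src (c.e 0)) = true) (i : ℕ) : σ (T.src (c.e i)) = true := by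
  rw [pl_rim_col hr i 0]; exact hb

/-- the vertex number `k` of `g₀` on the rim   [62] -/
theorem pvfy_g_v (pre : PvfyPre T pos N h zs zt τs τt σ c j 𝔇) {k : ℕ} (hk : k ≤ 𝔇.g.n) : 𝔇.g.v k = T.src (c.e (j + 𝔇.s.inn.n + k)) := by
  rcases Nat.lt_or_ge k 𝔇.g.n with h1 | h1
  · rw [pre.arc k h1, 𝔇.g.src_e k h1]
  · have hk' : k = 𝔇.g.n := le_antisymm hk h1
    have hp := pre.pos_n
    obtain ⟨k', rfl⟩ : ∃ k', k = k' + 1 := ⟨k - 1, by omega⟩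
    have h2 : k' < 𝔇.g.n := by omega
    rw [← 𝔇.g.tgt_e k' h2, ← pre.arc k' h2, c.chain]
    rfl

/-- `g₀` is black   [62] -/
theorem pvfy_g_black (pre : PvfyPre T pos N h zs zt τs τt σ c j 𝔇) : ∀ v ∈ 𝔇.g.verts, σ v = true := by
  rintro v ⟨k, hk, rfl⟩
  rw [pvfy_g_v pre hk]
  exact pvfy_rim_black pre.rim pre.black _

/-- the third vertices of the right triangles of `g₀` are white   [62] -/
theorem pvfy_apx_white (pre : PvfyPre T pos N h zs zt τs τt σ c j 𝔇) : ∀ v ∈ 𝔇.apx, σ v = false := by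
  rintro v ⟨i, hi, rfl⟩
  rw [← pre.arc i hi]
  have h1 := pl_rim_facing_col pre.rim (j + 𝔇.s.inn.n + i)
  rw [pvfy_rim_black pre.rim pre.black] at h1
  simpa using h1

/-- `g₀` starts at `g⁺(s)`   [62] -/
theorem pvfy_g0 (pre : PvfyPre T pos N h zs zt τs τt σ c j 𝔇) : 𝔇.g.v 0 = 𝔇.s.gp := by
  obtain ⟨n, hn, -, jj, h0, hjn, hk, -⟩ := pre.st_s.gate.strand
  have hlast : 𝔇.s.inn.v 𝔇.s.inn.n = 𝔇.s.gp := by
    have h1 := (hk 𝔇.s.inn.n le_rfl).2.1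
    rw [hjn] at h1
    rw [h1]
    show T.src (pvasIt T σ 𝔇.s.dm n) = T.src 𝔇.s.dp
    rw [hn]
  have hfirst : 𝔇.s.inn.v 0 = 𝔇.s.gm := h0
  have hpos : 0 < 𝔇.s.inn.n := by
    rcases Nat.eq_zero_or_pos 𝔇.s.inn.n with hz | hz
    · exfalso
      rw [hz] at hlast
      exact pre.st_s.gate.ne (hlast.symm.trans hfirst)
    · exact hz
  have h1 : 𝔇.g.v 0 = T.src (𝔇.g.e 0) := (𝔇.g.src_e 0 pre.pos_n).symm
  have h2 : 𝔇.g.e 0 = c.e (j + 𝔇.s.inn.n) := (pre.arc 0 pre.pos_n).symm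
  have h3 : c.e (j + (𝔇.s.inn.n - 1)) = 𝔇.s.inn.e (𝔇.s.inn.n - 1) := pre.pin_s.run _ (by omega)
  have h4 := c.chain (j + (𝔇.s.inn.n - 1))
  have h5 : j + (𝔇.s.inn.n - 1) + 1 = j + 𝔇.s.inn.n := by omega
  rw [h5, h3] at h4
  have h6 := 𝔇.s.inn.tgt_e (𝔇.s.inn.n - 1) (by omega)
  have h7 : 𝔇.s.inn.n - 1 + 1 = 𝔇.s.inn.n := by omega
  rw [h7] at h6
  rw [h1, h2, ← h4, h6, hlast]

/-- the inner arc of a gate starts at `g⁻`, ends at `g⁺`, and has an edge -/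
theorem pvfy_inn_ends {𝔖 : PvwSt T} {z : ℂ} {τ : PvwTy} (hg : 𝔖.Gate pos h z τ σ) : 𝔖.inn.v 0 = 𝔖.gm ∧ 𝔖.inn.v 𝔖.inn.n = 𝔖.gp ∧ 0 < 𝔖.inn.n := by
  obtain ⟨n, h1, -, jj, h0, hjn, hk, -⟩ := hg.strand
  have a0 : 𝔖.inn.v 0 = 𝔖.gm := by
    rw [h0]; rfl
  have a1 : 𝔖.inn.v 𝔖.inn.n = 𝔖.gp := by
    rw [(hk _ le_rfl).2.1, hjn]
    show T.src (pvasIt T σ 𝔖.dm n) = _
    rw [h1]; rfl
  refine ⟨a0, a1, ?_⟩
  rcases Nat.eq_zero_or_pos 𝔖.inn.n with h2 | h2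
  · exfalso
    rw [h2, a0] at a1
    exact hg.ne a1.symm
  · exact h2

/-- `g₀` ends at `g⁻(t)`   [62] -/
theorem pvfy_g1 (pre : PvfyPre T pos N h zs zt τs τt σ c j 𝔇) : 𝔇.g.v 𝔇.g.n = 𝔇.t.gm := by
  obtain ⟨a0, -, a2⟩ := pvfy_inn_ends pre.st_t.gate
  rw [pvfy_g_v pre le_rfl, ← a0, ← 𝔇.t.inn.src_e 0 a2, ← pre.pin_t.run 0 a2]
  rfl

/-- the two black sites of a gate lie in every box of the pin -/
theorem pvfy_gate_box {𝔖 : PvwSt T} {z : ℂ} {τ : PvwTy} (h0 : 0 < h) (hN : 0 ≤ N.rho1) (hτ : τ.b ≤ 2 * τ.b2) (hg : 𝔖.Gate pos h z τ σ) (k : ℕ) :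
    pos 𝔖.gp ∈ pvwSq z (pvwRad N h τ k) ∧ pos 𝔖.gm ∈ pvwSq z (pvwRad N h τ k) := by
  have key : ∀ v ∈ 𝔖.S.verts, pos v ∈ pvwSq z (pvwRad N h τ k) := by
    intro v hv
    obtain ⟨-, h2⟩ := hg.ann v hv
    have h2 := h2.le
    have hb : 0 ≤ τ.b * h := le_trans (norm_nonneg _) h2
    have hb' : 0 ≤ (k : ℝ) * N.rho1 * h := by positivity
    have hr : τ.b * h ≤ pvwRad N h τ k := by
      unfold pvwRad
      have h3 : τ.b * h ≤ 2 * τ.b2 * h := mul_le_mul_of_nonneg_right hτ h0.le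
      nlinarith
    exact ⟨le_trans (Complex.abs_re_le_norm _) (le_trans h2 hr), le_trans (Complex.abs_im_le_norm _) (le_trans h2 hr)⟩
  constructor
  · obtain ⟨i, hi⟩ := hg.dp_on
    refine key _ ⟨i + 1, ?_⟩
    rw [← 𝔖.S.chain i, hi, T.tgt_opp]
    rfl
  · obtain ⟨i, hi⟩ := hg.dm_on
    exact key _ ⟨i, by rw [hi]; rfl⟩

/-- `g₀` avoids the mouth `closedBall y⁺(t) (2 ρ h)`: it ends at `g⁻(t)`, and the arc of the rim after the gate of `t` inside `B_K(t)` cannot reach `g⁺(s)`   [62] -/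
theorem pvfy_mouth_t2 (h0 : 0 < h) (hN : 0 ≤ N.rho1) (pre : PvfyPre T pos N h zs zt τs τt σ c j 𝔇) : ∀ v ∈ 𝔇.g.verts, 2 * N.rho * h < ‖pos v - τt.cp h zt‖ := by
  rintro v ⟨k, hk, rfl⟩
  obtain ⟨B, hB, hin, hout⟩ := pre.pin_t.mouth_p
  have hsh := pre.short
  have hlt : 𝔇.t.inn.n + B < c.n - 𝔇.g.n := by
    by_contra hcon
    push Not at hcon
    have h1 := hin (c.n - 𝔇.g.n - 𝔇.t.inn.n) (by omega)
    have e1 : j + 𝔇.s.inn.n + 𝔇.g.n + 𝔇.t.inn.n + (c.n - 𝔇.g.n - 𝔇.t.inn.n) = j + 𝔇.s.inn.n + 0 + c.n := by omega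
    rw [e1, c.per, ← pvfy_g_v pre (Nat.zero_le _), pvfy_g0 pre] at h1
    exact (Set.disjoint_left.1 pre.boxes) (pvfy_gate_box h0 hN pre.b_s pre.st_s.gate N.K).1 h1
  have h2 := hout (c.n - (𝔇.g.n - k)) (by omega) (by omega)
  have e2 : j + 𝔇.s.inn.n + 𝔇.g.n + (c.n - (𝔇.g.n - k)) = j + 𝔇.s.inn.n + k + c.n := by omega
  rw [e2, c.per, ← pvfy_g_v pre hk] at h2
  exact h2

/-- `g₀` avoids the mouth `closedBall y⁻(s) (2 ρ h)`   [62] -/
theorem pvfy_mouth_s2 (h0 : 0 < h) (hN : 0 ≤ N.rho1) (pre : PvfyPre T pos N h zs zt τs τt σ c j 𝔇) : ∀ v ∈ 𝔇.g.verts, 2 * N.rho * h < ‖pos v - τs.cm h zs‖ := by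
  rintro v ⟨k, hk, rfl⟩
  obtain ⟨A, hA, hin, hout⟩ := pre.pin_s.mouth_m
  have hsh := pre.short
  have hlt : 𝔇.s.inn.n + 𝔇.g.n + A < c.n := by
    by_contra hcon
    push Not at hcon
    have h1 := hin (c.n - (𝔇.s.inn.n + 𝔇.g.n)) (by omega)
    have e1 : j + c.n - (c.n - (𝔇.s.inn.n + 𝔇.g.n)) = j + 𝔇.s.inn.n + 𝔇.g.n := by omega
    rw [e1, ← pvfy_g_v pre le_rfl, pvfy_g1 pre] at h1
    exact (Set.disjoint_left.1 pre.boxes) h1 (pvfy_gate_box h0 hN pre.b_t pre.st_t.gate N.K).2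
  have h2 := hout (𝔇.s.inn.n + k) (by omega) (by omega)
  rw [← Nat.add_assoc, ← pvfy_g_v pre hk] at h2
  exact h2

/-- the midpoint of two points within `r` of `y` is within `r` of `y` -/
theorem pvfy_mid_near {a b y : ℂ} {r : ℝ} (ha : ‖a - y‖ ≤ r) (hb : ‖b - y‖ ≤ r) : ‖(a + b) / 2 - y‖ ≤ r := by
  have e : (a + b) / 2 - y = ((a - y) + (b - y)) / 2 := by ring
  rw [e, norm_div]
  have h1 := norm_add_le (a - y) (b - y)
  have h2 : ‖(2 : ℂ)‖ = 2 := by simp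
  rw [h2, div_le_iff₀ (by norm_num)]
  linarith

/-- the tip `x⁺` is within `ρ h / 4` of the grid centre `y⁺` -/
theorem pvfy_xp_near {𝔖 : PvwSt T} {y : ℂ} (hg : 𝔖.GoodOut pos N h y) : ‖𝔖.xp pos - y‖ ≤ N.rho * h / 4 := pvfy_mid_near hg.tip_p.1 hg.tip_p.2

/-- the tip `x⁻` is within `ρ h / 4` of the grid centre `y⁻` -/
theorem pvfy_xm_near {𝔖 : PvwSt T} {y : ℂ} (hg : 𝔖.GoodIn pos N h y) : ‖𝔖.xm pos - y‖ ≤ N.rho * h / 4 := pvfy_mid_near hg.tip_m.1 hg.tip_m.2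

/-- from the mouth of record (grid centre, `2 ρ h`) to the mouth round a point within `ρ h / 4` of the centre -/
theorem pvfy_mouth_move {p y x' : ℂ} {r : ℝ} (h1 : 2 * r < ‖p - y‖) (h2 : ‖x' - y‖ ≤ r / 4) : r < ‖p - x'‖ := by
  have h3 : ‖p - y‖ ≤ ‖p - x'‖ + ‖x' - y‖ := norm_sub_le_norm_sub_add_norm_sub p x' y
  have h4 : 0 ≤ r / 4 := (norm_nonneg _).trans h2
  linarith

/-- `g₀` avoids the mouth of `x⁺(t)`, radius `ρ h` round the tip   [62] -/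
theorem pvfy_mouth_t (h0 : 0 < h) (hN : 0 ≤ N.rho1) (pre : PvfyPre T pos N h zs zt τs τt σ c j 𝔇) : ∀ v ∈ 𝔇.g.verts, N.rho * h < ‖pos v - 𝔇.t.xp pos‖ := fun v hv =>
  pvfy_mouth_move (by have := pvfy_mouth_t2 h0 hN pre v hv; linarith) (pvfy_xp_near pre.st_t.good)

/-- `g₀` avoids the mouth of `x⁻(s)`, radius `ρ h` round the tip   [62] -/
theorem pvfy_mouth_s (h0 : 0 < h) (hN : 0 ≤ N.rho1) (pre : PvfyPre T pos N h zs zt τs τt σ c j 𝔇) : ∀ v ∈ 𝔇.g.verts, N.rho * h < ‖pos v - 𝔇.s.xm pos‖ := fun v hv =>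
  pvfy_mouth_move (by have := pvfy_mouth_s2 h0 hN pre v hv; linarith) (pvfy_xm_near pre.st_s.good)

/-- the vertices of `g₀` lie on the obstacle   [62] -/
theorem pvfy_K_vert (hn : 0 < 𝔇.g.n) : ∀ v ∈ 𝔇.g.verts, pos v ∈ 𝔇.pvfyK pos := by
  rintro v ⟨k, hk, rfl⟩
  unfold PvwDat.pvfyK
  rcases Nat.lt_or_ge k 𝔇.g.n with h1 | h1
  · refine Set.mem_biUnion (x := T.opp (𝔇.g.e k)) (Or.inr (Or.inr (Or.inl ⟨k, h1, rfl⟩))) ?_
    apply subset_convexHull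
    right; left
    rw [T.tgt_opp, 𝔇.g.src_e k h1]
  · have hk' : k = (𝔇.g.n - 1) + 1 := by omega
    refine Set.mem_biUnion (x := T.opp (𝔇.g.e (𝔇.g.n - 1))) (Or.inr (Or.inr (Or.inl ⟨𝔇.g.n - 1, by omega, rfl⟩))) ?_
    apply subset_convexHull
    left
    rw [T.src_opp', 𝔇.g.tgt_e _ (by omega), hk']

/-- the obstacle is compact   [62] -/
theorem pvfy_K_compact (hs : 𝔇.s.S.Left.Finite) (ht : 𝔇.t.S.Left.Finite) : IsCompact (𝔇.pvfyK pos) := by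
  have hJ : 𝔇.pvfyJ.Finite := by
    have e : 𝔇.pvfyJ = (𝔇.t.ep '' Set.Iio 𝔇.t.np) ∪ ((𝔇.s.em '' Set.Iic 𝔇.s.nm) ∪ (((fun i => T.opp (𝔇.g.e i)) '' Set.Iio 𝔇.g.n) ∪ (𝔇.s.S.Left ∪ 𝔇.t.S.Left))) := by
      ext d
      rfl
    rw [e]
    exact ((Set.finite_Iio _).image _).union (((Set.finite_Iic _).image _).union (((Set.finite_Iio _).image _).union (hs.union ht)))
  unfold PvwDat.pvfyK
  refine hJ.isCompact_biUnion fun d _ => ?_
  unfold pvfyFace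
  exact Set.Finite.isCompact_convexHull (𝕜 := ℝ) (hs := Set.toFinite _)

/-- the right apexes of `g₀` lie on the default obstacle -/
theorem pvfy_K_apx : ∀ v ∈ 𝔇.apx, pos v ∈ 𝔇.pvfyK pos := by
  rintro v ⟨i, hi, rfl⟩
  unfold PvwDat.pvfyK
  refine Set.mem_biUnion (x := T.opp (𝔇.g.e i)) (Or.inr (Or.inr (Or.inl ⟨i, hi, rfl⟩))) ?_
  apply subset_convexHull
  right; right
  rfl

/-- **(PRE) with a rim ⟹ (PRE) rim free** -/
theorem pvfy_core_of_pre (h0 : 0 < h) (hN : 0 ≤ N.rho1) (pre : PvfyPre T pos N h zs zt τs τt σ c j 𝔇) : PvfyCore T pos N h zs zt τs τt σ 𝔇 :=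
  ⟨pre.col, pre.st_s, pre.st_t, pvfy_g0 pre, pvfy_g1 pre, pre.pos_n, pvfy_g_black pre, pvfy_apx_white pre, pvfy_mouth_s h0 hN pre, pvfy_mouth_t h0 hN pre, pvfy_mouth_s2 h0 hN pre, pvfy_mouth_t2 h0 hN pre⟩

/-- the default obstacle: what is free -/
theorem pvfy_obs_default {μ : ℝ} (hn : 0 < 𝔇.g.n) (hs : 𝔇.s.S.Left.Finite) (ht : 𝔇.t.S.Left.Finite) (hc : IsConnected (𝔇.pvfyK pos))
    (near : ∀ v ∈ 𝔇.apx, ∃ u ∈ 𝔇.g.verts, ‖pos v - pos u‖ ≤ μ) : PvfyObs T pos 𝔇 (𝔇.pvfyK pos) μ :=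
  ⟨fun v hv => hv.elim (pvfy_K_vert hn v) (pvfy_K_apx v), near, pvfy_K_compact hs ht, hc⟩

/-- a site of `YCL` lies over `Yin` -/
theorem pvfy_ycl_in {π : PvwPat} {v : V} (hv : v ∈ 𝔇.YCL pos π) : pos v ∈ π.Yin := by
  rcases hv with ⟨q, -, h1, h2⟩ | ⟨q, -, h1, h2⟩
  · exact (h2 v ⟨q.n, le_rfl, h1⟩).2
  · exact (h2 v ⟨q.n, le_rfl, h1⟩).2

end leaves

end Claimed.Agent.R289
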