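-- KEEP
import Claimed.Agent.R289.Defs.FitRec
import Claimed.Agent.R289.Tr.Acc
import Claimed.Agent.R289.Tr.BandFit
import Claimed.Agent.R289.Tr.FitRoof

/-!
# Row 289 (S0537, Cardy for Poisson-Voronoi), THE WALL, road E, file Tr/FitL2 : THE CUT OF (L2) `pvfh_cor` = FIT-DET AT THE MODEL      (pen helper56; rulings of 143 11:00Z, 234 11:02Z, word of 246 11:13Z; prefix `pvcb_`, `Pvcb`, `pvcb`, exits `exit_pvcb_*`)

THE ONLY OPEN CHAPTER OF `cover`.      **`pvcb_cor`** : `𝔓.Wf → PvfhWf 𝔓 → ∀ᶠ m, PvfhCorAt 𝔓 x R m` (= the statement of `pvfh_cor` of 209, `Defs/FitRec.lean`, VERBATIM)  =  COMPILED GLUE over THREE sub-exits.      v2 (11:45Z): on `Defs/FitRec` + TrModel v4.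
**v4 (12:00Z): THIS FILE = DEFINITIONS + PROVED GLUE (0 sorry).   The three sub-exits `exit_pvcb_scene`, `exit_pvcb_obs`, `exit_pvcb_idx` and the top `pvcb_cor` live in `Exit/CorL2.lean`.   A PRODUCER imports THIS file, proves his statement under his own name in his own file,
then edits `Exit/CorL2.lean` himself: one `import` + the `sorry` replaced by the citation (leave of the pen given once and for all).**
ONE OBSTACLE FOR EVERYBODY:   `K := pvcbK 𝔓 m ω s t 𝔇 = 𝔇.pvfyKd ..` (62: closed frozen faces of `Σ⁻(s)`, right faces of `g₀`, faces of `Σ⁺(t)`, closed insides of the two gates, the two closed core discs).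
ONE PAIR OF FRONTS:   door in ABSOLUTE cell form `PvcbDoor` (`a` = the cell behind the door, `u` = outer normal, `a + u` = base cell of 209 D4);   front cell `pvcbFr a u L = a + L u`, `L = pvcbL δ (ρ h) = ⌈5 ρ h / (8 δ)⌉ + 14` (formula of 270);   front POINT = its centre.
NUMBERS OF RECORD:   `j = 4`, fattening `k = 9`, `r = 11 δ`, `η = δ / 4`, mesh of the scene `μ = δ` (the fields of `PvaccScene` are monotone in `μ`; the mesh event gives `δ / 10`), `S = ρ h / 64 + δ`.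
   So the passages excluded are `(8 r + μ, S - μ) = (89 δ, ρ h / 64)`: covered by `¬ PvxvBad x R (pvxvS1 c m) (pvxvS2 ρ m)` of 143 (`4096 δ`, `ρ h / 64`).

* (DOOR)  `pvcb_door_t`, `pvcb_door_s`      PROVED here: `PvfeDoors` (relative cells) + centre on the `h`-grid ⟹ `PvcbDoor`
* (S)     `exit_pvcb_scene`      [pen 257 `Tr/CoverS.lean`; 49 4 (seam), 10 (`arc`), 266 179 (clock), 211 292 135 206 (witnesses), 215 62 (added segments, P4), 118 120 (discs far), 154 (`far`, `lo_far`, down end)]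
          the contract `PvaccScene` of 211 at `K`, at the two fronts, at the numbers of record, for SOME clock `γ` + THE DOWN END: three passages of `γ` near a point of `K` ⟹ `PvxvBad` in the plane map
* (ACC)   `pvcb_acc`      PROVED here (on `pvacc_core` of 211): scene + no three passages ⟹ both front cells lie in `pvtOut (pvtwN 9 (pvtCells δ K))`
* (G)     `exit_pvcb_obs`      [56 246; kits 92 `Tr/FitScene`, 119 `Tr/AccK`, 62 `Tr/FitRoof`]      the METRIC facts on `K` = the record `PvcbObs`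
* (I)     `exit_pvcb_idx`      [pen 270 `Tr/CorE.lean`; 148 `Tr/CorDoor.lean`; 20 `pvtb_fit_mouth_pl`, `pvtb_word_*`]      MODEL FREE, `K` ABSTRACT: doors + `PvcbObs` + numbers + (ACC) ⟹ the word
* (NUM)   `pvcb_num`      PROVED here.
PARAMETERS.   `𝔓.Wf` (TrModel v4) + `PvfhWf 𝔓` (209, `Defs/FitRec`: `doors`, `b_gap`).      The word stays in `B(x,4R)` (v4.1 of 187).
-/

set_option autoImplicit false

namespace Claimed.Agent.R289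

open Set Metric Filter Claims.C0465

/-! ## 1. doors in absolute cell form, fronts -/

/-- **A DOOR IN ABSOLUTE CELL FORM**: `z` centre of the pin, `y` grid centre of the tip cell, `r` half side of the box of the level, `a` = the cell behind the door, `u` = outer normal, `a + u` = the base cell.
EXIT door of `t`: `door = z + Γ.pout t`, `dir = Γ.dout t`.      ENTRANCE door of `s`: `door = z + Γ.pin s`, `dir = - Γ.din s`. -/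
structure PvcbDoor (δ ρh : ℝ) (z y : ℂ) (r : ℝ) (door dir : ℂ) (a u : ℤ × ℤ) : Prop where
  unit : PvfeDir u
  door_eq : door = (pvtCtr δ a + pvtCtr δ (a + u)) / 2
  dir_eq : dir = pvtZ u
  /-- the base cell contains (up to `δ`) the point at `3 ρ h / 8` in front of `y` -/
  base : ‖pvtCtr δ (a + u) - (y + ((3 * ρh / 8 : ℝ) : ℂ) * pvtZ u)‖ ≤ δ
  /-- `u` = the dominant direction of `y - z` -/
  dom : ((y - z) * (starRingEnd ℂ) (pvtZ u)).re = pvccN (y - z)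
  /-- `y` sits on the boundary of the box of the level -/
  nd : |pvccN (y - z) - r| ≤ ρh / 4

/-- the length of the whiskers (formula of 270): the front is the cell number `L` of the whisker, at height `≥ ρ h + 12 δ` over `y` -/
noncomputable def pvcbL (δ ρh : ℝ) : ℕ := ⌈5 * ρh / (8 * δ)⌉₊ + 14

/-- the front cell -/
def pvcbFr (a u : ℤ × ℤ) (L : ℕ) : ℤ × ℤ := a + (L : ℤ) • u

/-! ## 2. (ACC), model free -/

/-- **(ACC)**: the scene of 211 at the numbers of record + no three passages ⟹ both front cells are accessible off the `9`-fattening of the cells of `K` -/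
theorem pvcb_acc {γ : ℕ → ℂ} {K M Wt Ws : Set ℂ} {δ S : ℝ} {lo ts tt hi : ℕ} {ft fs : ℤ × ℤ} (hδ : 0 < δ) (hS : 90 * δ ≤ S)
    (sc : PvaccScene γ K M Wt Ws (pvtCtr δ ft) (pvtCtr δ fs) (11 * δ) (δ / 4) δ S lo ts tt hi)
    (no3 : ∀ y ∈ K, ¬ PvfrThree γ y (89 * δ) (S - δ) lo hi) :
    ft ∈ pvtOut (pvtwN 9 (pvtCells δ K)) ∧ fs ∈ pvtOut (pvtwN 9 (pvtCells δ K)) := by
  rcases pvacc_core (δ := δ) (j := 9) sc (by positivity) (by positivity) (by linarith) hδ.le (by linarith) hδ (by push_cast; linarith) with h | ⟨y, hy, h3⟩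
  · exact ⟨pvtb_out_sub_tri (h.1 ft (pvt_sq_ctr hδ.le)), pvtb_out_sub_tri (h.2 fs (pvt_sq_ctr hδ.le))⟩
  · have e : 8 * (11 * δ) + δ = 89 * δ := by ring
    rw [e] at h3
    exact absurd h3 (no3 y hy)

/-! ## 3. the contract (I): what the word needs of the obstacle, what it delivers -/

/-- **WHAT (I) USES OF THE OBSTACLE** (`K` abstract; `G0` = the vertices of `g₀`; `Z` = the union of the two hulls; `rs rt` = half sides of the boxes of the levels) -/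
structure PvcbObs (δ ρh : ℝ) (x : ℂ) (R : ℝ) (zs zt ys yt : ℂ) (rs rt : ℝ) (K G0 : Set ℂ) (Z : Set (ℤ × ℤ)) : Prop where
  ball : ∀ p ∈ K, ‖p - x‖ ≤ 5 / 2 * R
  /-- the two centres (they lie on `K`: centres of the core discs)      [F-10 of 217, 92 (A), 142 D1: without these two lines (I) is false] -/
  zs5 : ‖zs - x‖ ≤ 5 / 2 * R
  zt5 : ‖zt - x‖ ≤ 5 / 2 * R
  g_sub : G0 ⊆ K
  /-- the mouths of record (Tr/Defs v3) -/
  g_off_s : ∀ p ∈ G0, 2 * ρh < ‖p - ys‖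
  g_off_t : ∀ p ∈ G0, 2 * ρh < ‖p - yt‖
  /-- (M1): near `y` the obstacle is ONE connected piece inside the box of the level (the faces of the stub) -/
  late_s : ∃ Ks, Ks ⊆ K ∧ IsPreconnected Ks ∧ (∀ p ∈ K, ‖p - ys‖ ≤ ρh + 44 * δ → p ∈ Ks) ∧ Ks ⊆ pvwSq zs rs
  late_t : ∃ Kt, Kt ⊆ K ∧ IsPreconnected Kt ∧ (∀ p ∈ K, ‖p - yt‖ ≤ ρh + 44 * δ → p ∈ Kt) ∧ Kt ⊆ pvwSq zt rt
  /-- the hulls: cells of frozen sites (on `K`) and of the two mouth discs -/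
  hull : Z ⊆ pvtCells δ (K ∪ closedBall ys ρh ∪ closedBall yt ρh)

/-- the numbers of (I) -/
structure PvcbNum (δ ρh R rs rt : ℝ) : Prop where
  d0 : 0 < δ
  dr : 8192 * δ ≤ ρh
  rR : ρh ≤ R / 1000
  rs0 : 0 ≤ rs
  rt0 : 0 ≤ rt
  rsR : rs ≤ R / 1000
  rtR : rt ≤ R / 1000

section idx

variable {τ : Type} (Γ : PvtsGeo τ) (ty : τ → PvwTy) (N : PvwNum) (h : ℝ) (x : ℂ) (R : ℝ)

/-- **WHAT (L2) DELIVERS**: a word from door to door with the index predicates of record (`simple nr adm lk` of `PvfeIx`, FitReg v5), inside `B(x,4R)`, its tube off `g₀` -/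
def PvcbConcl (zs : ℂ) (ts : τ) (zt : ℂ) (tt : τ) (G0 : Set ℂ) (Z : Set (ℤ × ℤ)) : Prop :=
  ∃ l : List PvtTurn, Γ.Ok ⟨zs, ts, zt, tt, l⟩ ∧ PvccSimple l l.length ∧ PvfeNR l ∧
    PvfeAdm Γ.δ 3 (2 * N.rho * h) ((ty ts).cm h zs) ((ty tt).cp h zt) (pvfeZ Γ ⟨zs, ts, zt, tt, l⟩) (pvfeD Γ ⟨zs, ts, zt, tt, l⟩) l Z ∧
    PvfeLk Γ.δ (N.rho * h + 4 * Γ.δ) (3 * N.rho * h) ((ty ts).cm h zs) ((ty tt).cp h zt) (pvfeZ Γ ⟨zs, ts, zt, tt, l⟩) (pvfeD Γ ⟨zs, ts, zt, tt, l⟩) l Z ∧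
    (∀ i, i ≤ l.length → ‖pvccC (pvfeZ Γ ⟨zs, ts, zt, tt, l⟩) (pvfeD Γ ⟨zs, ts, zt, tt, l⟩) l i - x‖ ≤ 4 * R) ∧
    ∀ w ∈ G0, w ∉ pvfeTube 3 (pvfeZ Γ ⟨zs, ts, zt, tt, l⟩) (pvfeD Γ ⟨zs, ts, zt, tt, l⟩) l

/-- **(I) ACC AT BOTH FRONTS ⟹ THE WORD**, model free -/
def PvcbIdx : Prop :=
  ∀ (zs : ℂ) (ts : τ) (zt : ℂ) (tt : τ) (a₁ u₁ a₂ u₂ : ℤ × ℤ) (K G0 : Set ℂ) (Z : Set (ℤ × ℤ)),
    PvcbNum Γ.δ (N.rho * h) R (pvwRad N h (ty ts) (ty ts).k) (pvwRad N h (ty tt) (ty tt).k) →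
    PvcbDoor Γ.δ (N.rho * h) zs ((ty ts).cm h zs) (pvwRad N h (ty ts) (ty ts).k) (zs + Γ.pin ts) (- Γ.din ts) a₁ u₁ →
    PvcbDoor Γ.δ (N.rho * h) zt ((ty tt).cp h zt) (pvwRad N h (ty tt) (ty tt).k) (zt + Γ.pout tt) (Γ.dout tt) a₂ u₂ →
    R / 3 ≤ ‖zs - zt‖ →
    PvcbObs Γ.δ (N.rho * h) x R zs zt ((ty ts).cm h zs) ((ty tt).cp h zt) (pvwRad N h (ty ts) (ty ts).k) (pvwRad N h (ty tt) (ty tt).k) K G0 Z →
    pvcbFr a₂ u₂ (pvcbL Γ.δ (N.rho * h)) ∈ pvtOut (pvtwN 9 (pvtCells Γ.δ K)) → pvcbFr a₁ u₁ (pvcbL Γ.δ (N.rho * h)) ∈ pvtOut (pvtwN 9 (pvtCells Γ.δ K)) →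
    PvcbConcl Γ ty N h x R zs ts zt tt G0 Z

end idx

/-! ## 4. the statements at the model -/

section model

variable {τ : Type} {c : ℝ}

variable (𝔓 : PvxPar τ c)

/-- **THE OBSTACLE OF RECORD** -/
def pvcbK (m : ℕ) (ω : PVSample) (s t : PvbPin τ) (𝔇 : PvwDat (pvxT ω)) : Set ℂ :=
  𝔇.pvfyKd (pvxPos ω) (pvlmH m) s.ctr t.ctr (𝔓.ty s.typ) (𝔓.ty t.typ)

/-- the hypotheses of (L2) on `(ω, P, s, t, 𝔇, j)` -/
structure PvcbHyp (x : ℂ) (R : ℝ) (m : ℕ) (ω : PVSample) (P : PvbRim) (s t : PvbPin τ) (𝔇 : PvwDat (pvxT ω)) (j : ℕ) : Prop where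
  mesh : PvxvGood x R (pvxvMu c m) ω
  rim : P ∈ pvhbAll x R ω
  s3R : ‖s.ctr - x‖ ≤ 3 * R
  t3R : ‖t.ctr - x‖ ≤ 3 * R
  grid_s : ∃ p : ℤ × ℤ, s.ctr = l9Pt (pvlmH m) p
  grid_t : ∃ p : ℤ × ℤ, t.ctr = l9Pt (pvlmH m) p
  far : R / 3 ≤ ‖s.ctr - t.ctr‖
  arc : PvfhArc 𝔓 x R m ω P s t 𝔇 j

/-- **(S) THE SCENE AT THE LEVEL `m`**: for the fronts of ANY pair of doors in absolute cell form -/
def PvcbSceneAt (x : ℂ) (R : ℝ) (m : ℕ) : Prop :=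
  ∀ (ω : PVSample) (P : PvbRim) (s t : PvbPin τ) (𝔇 : PvwDat (pvxT ω)) (j : ℕ), PvcbHyp 𝔓 x R m ω P s t 𝔇 j → ∀ a₁ u₁ a₂ u₂ : ℤ × ℤ,
    PvcbDoor (pvlmDel c m) (𝔓.num.rho * pvlmH m) s.ctr ((𝔓.ty s.typ).cm (pvlmH m) s.ctr) (pvwRad 𝔓.num (pvlmH m) (𝔓.ty s.typ) (𝔓.ty s.typ).k) (s.ctr + (𝔓.Γ m).pin s.typ) (- (𝔓.Γ m).din s.typ) a₁ u₁ →
    PvcbDoor (pvlmDel c m) (𝔓.num.rho * pvlmH m) t.ctr ((𝔓.ty t.typ).cp (pvlmH m) t.ctr) (pvwRad 𝔓.num (pvlmH m) (𝔓.ty t.typ) (𝔓.ty t.typ).k) (t.ctr + (𝔓.Γ m).pout t.typ) ((𝔓.Γ m).dout t.typ) a₂ u₂ →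
    ∃ (γ : ℕ → ℂ) (M Wt Ws : Set ℂ) (lo ts tt hi : ℕ),
      PvaccScene γ (pvcbK 𝔓 m ω s t 𝔇) M Wt Ws (pvtCtr (pvlmDel c m) (pvcbFr a₂ u₂ (pvcbL (pvlmDel c m) (𝔓.num.rho * pvlmH m)))) (pvtCtr (pvlmDel c m) (pvcbFr a₁ u₁ (pvcbL (pvlmDel c m) (𝔓.num.rho * pvlmH m))))
        (11 * pvlmDel c m) (pvlmDel c m / 4) (pvlmDel c m) (pvxvS2 𝔓.num.rho m + pvlmDel c m) lo ts tt hi ∧
      ∀ y ∈ pvcbK 𝔓 m ω s t 𝔇, PvfrThree γ y (89 * pvlmDel c m) (pvxvS2 𝔓.num.rho m) lo hi → PvxvBad x R (89 * pvlmDel c m) (pvxvS2 𝔓.num.rho m) ω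

/-- **(G) THE METRIC FACTS ON THE OBSTACLE AT THE LEVEL `m`** -/
def PvcbObsAt (x : ℂ) (R : ℝ) (m : ℕ) : Prop :=
  ∀ (ω : PVSample) (P : PvbRim) (s t : PvbPin τ) (𝔇 : PvwDat (pvxT ω)) (j : ℕ), PvcbHyp 𝔓 x R m ω P s t 𝔇 j →
    PvcbObs (pvlmDel c m) (𝔓.num.rho * pvlmH m) x R s.ctr t.ctr ((𝔓.ty s.typ).cm (pvlmH m) s.ctr) ((𝔓.ty t.typ).cp (pvlmH m) t.ctr)
      (pvwRad 𝔓.num (pvlmH m) (𝔓.ty s.typ) (𝔓.ty s.typ).k) (pvwRad 𝔓.num (pvlmH m) (𝔓.ty t.typ) (𝔓.ty t.typ).k) (pvcbK 𝔓 m ω s t 𝔇) (pvxPos ω '' 𝔇.g.verts) (pvfhZ 𝔓 m s t 𝔇)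

/-- **(R5) THE REGIONS OF A WORD WHICH STAYS IN `B(x,4R)` LIE IN THE OPEN BALL `B(x,5R)`** = (b5) of `pvxPatSet` (TrModel v4.1, RULING 20 (1) of 234)      [187] -/
def PvcbReg5At (x : ℂ) (R : ℝ) (m : ℕ) : Prop :=
  ∀ (s t : PvbPin τ) (l : List PvtTurn), ‖s.ctr - x‖ ≤ 3 * R → ‖t.ctr - x‖ ≤ 3 * R →
    (∀ i, i ≤ l.length → ‖pvccC (pvfeZ (𝔓.Γ m) (pvfhP s t l)) (pvfeD (𝔓.Γ m) (pvfhP s t l)) l i - x‖ ≤ 4 * R) →
    ∀ Zs Zt : Finset (ℤ × ℤ), (𝔓.reg m ⟨pvfhP s t l, Zs, Zt⟩).Yreg ∪ (𝔓.reg m ⟨pvfhP s t l, Zs, Zt⟩).Ycol ⊆ ball x (5 * R)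

end model

theorem pvcb_eqns_cite : True := by
  have := @PvcbReg5At.eq_1
  have := @pvcbL.eq_1; have := @pvcbFr.eq_1; have := @PvcbConcl.eq_1; have := @PvcbIdx.eq_1; have := @pvcbK.eq_1; have := @PvcbSceneAt.eq_1; have := @PvcbObsAt.eq_1
  trivial

/-! ## 5. (DOOR): from the relative cells of `PvfeDoors` to absolute cells -/

theorem pvcb_ctr_add (δ : ℝ) (q e : ℤ × ℤ) : pvtCtr δ (q + e) = (δ : ℂ) * pvtZ q + pvtCtr δ e := by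
  rw [pvtb_ctr_eq, pvtb_ctr_eq, pvtZ_add]; ring

/-- a point of the `h`-grid is a corner of the `δ`-grid -/
theorem pvcb_grid (c : ℝ) (m : ℕ) (p : ℤ × ℤ) : l9Pt (pvlmH m) p = (pvlmDel c m : ℂ) * pvtZ (p.1 * (pvlmN c m : ℤ), p.2 * (pvlmN c m : ℤ)) := by
  have hN := pvlm_N_mul_Del c m
  apply Complex.ext
  · simp only [l9Pt, pvtZ, Complex.mul_re, Complex.ofReal_re, Complex.ofReal_im, Complex.add_re, Complex.add_im, Complex.intCast_re, Complex.intCast_im, Complex.I_re, Complex.I_im]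
    push_cast
    rw [← hN]; ring
  · simp only [l9Pt, pvtZ, Complex.mul_re, Complex.mul_im, Complex.ofReal_re, Complex.ofReal_im, Complex.add_re, Complex.add_im, Complex.intCast_re, Complex.intCast_im, Complex.I_re, Complex.I_im]
    push_cast
    rw [← hN]; ring

/-- the common computation -/
theorem pvcb_door_abs {δ ρ h : ℝ} (h0 : 0 < h) {z yy door' dirr : ℂ} {rr : ℝ} {q e u : ℤ × ℤ} (hz : z = (δ : ℂ) * pvtZ q) (hu : PvfeDir u)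
    (hd : door' = (pvtCtr δ (e - u) + pvtCtr δ e) / 2) (hdir : dirr = pvtZ u)
    (hb : ‖pvtCtr δ e - (h : ℂ) * (yy + ((3 * ρ / 8 : ℝ) : ℂ) * pvtZ u)‖ ≤ δ) (hdom : (yy * (starRingEnd ℂ) (pvtZ u)).re = pvccN yy) (hnd : |pvccN yy - rr| ≤ ρ / 4) :
    PvcbDoor δ (ρ * h) z (z + (h : ℂ) * yy) (rr * h) (z + door') dirr (q + (e - u)) u := by
  have e1 : q + (e - u) + u = q + e := by abel
  have e2 : z + (h : ℂ) * yy - z = (h : ℂ) * yy := by ring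
  refine ⟨hu, ?_, hdir, ?_, ?_, ?_⟩
  · rw [e1, pvcb_ctr_add, pvcb_ctr_add, hd, hz]; ring
  · rw [e1, pvcb_ctr_add, hz]
    have : (δ : ℂ) * pvtZ q + pvtCtr δ e - ((δ : ℂ) * pvtZ q + (h : ℂ) * yy + ((3 * (ρ * h) / 8 : ℝ) : ℂ) * pvtZ u) = pvtCtr δ e - (h : ℂ) * (yy + ((3 * ρ / 8 : ℝ) : ℂ) * pvtZ u) := by
      push_cast; ring
    rw [this]; exact hb
  · rw [e2, pvccN_real_mul h0.le, ← hdom, mul_assoc, Complex.re_ofReal_mul]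
  · rw [e2, pvccN_real_mul h0.le]
    have : h * pvccN yy - rr * h = h * (pvccN yy - rr) := by ring
    rw [this, abs_mul, abs_of_pos h0]
    nlinarith

section doors

variable {τ : Type} {c : ℝ} {𝔓 : PvxPar τ c}

/-- **(DOOR), exit door of `t`** -/
theorem pvcb_door_t (hW : 𝔓.Wf) (hP : PvfhWf 𝔓) (m : ℕ) {z : ℂ} (hz : ∃ p : ℤ × ℤ, z = l9Pt (pvlmH m) p) (t : τ) :
    ∃ a u : ℤ × ℤ, PvcbDoor (pvlmDel c m) (𝔓.num.rho * pvlmH m) z ((𝔓.ty t).cp (pvlmH m) z) (pvwRad 𝔓.num (pvlmH m) (𝔓.ty t) (𝔓.ty t).k) (z + (𝔓.Γ m).pout t) ((𝔓.Γ m).dout t) a u := by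
  obtain ⟨p, hp⟩ := hz
  obtain ⟨e, u, hu, h1, h2, h3, h4⟩ := (hP.doors m).out t
  rw [hW.del m] at h1 h3
  exact ⟨_, u, pvcb_door_abs (pvlm_H_pos m) (hp.trans (pvcb_grid c m p)) hu h1 h2 h3 h4 ((hP.doors m).nd_p t)⟩

/-- **(DOOR), entrance door of `s`** -/
theorem pvcb_door_s (hW : 𝔓.Wf) (hP : PvfhWf 𝔓) (m : ℕ) {z : ℂ} (hz : ∃ p : ℤ × ℤ, z = l9Pt (pvlmH m) p) (t : τ) :
    ∃ a u : ℤ × ℤ, PvcbDoor (pvlmDel c m) (𝔓.num.rho * pvlmH m) z ((𝔓.ty t).cm (pvlmH m) z) (pvwRad 𝔓.num (pvlmH m) (𝔓.ty t) (𝔓.ty t).k) (z + (𝔓.Γ m).pin t) (- (𝔓.Γ m).din t) a u := by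
  obtain ⟨p, hp⟩ := hz
  obtain ⟨e, u, hu, h1, h2, h3, h4⟩ := (hP.doors m).inn t
  rw [hW.del m] at h1 h3
  exact ⟨_, u, pvcb_door_abs (pvlm_H_pos m) (hp.trans (pvcb_grid c m p)) hu (h1.trans (by rw [add_comm])) (by rw [h2, neg_neg]) h3 h4 ((hP.doors m).nd_m t)⟩

end doors

/-! ## 6. (NUM) -/

theorem pvcb_num {τ : Type} [Finite τ] {c : ℝ} (c0 : 0 < c) {𝔓 : PvxPar τ c} (hW : 𝔓.Wf) (hP : PvfhWf 𝔓) {R : ℝ} (hR : 0 < R) :
    ∀ᶠ m in atTop, ∀ ts tt : τ, PvcbNum (pvlmDel c m) (𝔓.num.rho * pvlmH m) R (pvwRad 𝔓.num (pvlmH m) (𝔓.ty ts) (𝔓.ty ts).k) (pvwRad 𝔓.num (pvlmH m) (𝔓.ty tt) (𝔓.ty tt).k) := by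
  have hρ := hW.rho0
  have h1 : ∀ᶠ m in atTop, pvlmH m < min 1 (𝔓.num.rho / 8192) := pvlm_H_lim.eventually (gt_mem_nhds (lt_min one_pos (by positivity)))
  have h2 : ∀ᶠ m in atTop, 𝔓.num.rho * pvlmH m ≤ R / 1000 := by
    have : Tendsto (fun m => 𝔓.num.rho * pvlmH m) atTop (nhds (𝔓.num.rho * 0)) := pvlm_H_lim.const_mul _
    rw [mul_zero] at this
    exact this.eventually (ge_mem_nhds (by positivity))
  have h3 : ∀ᶠ m in atTop, ∀ t, pvwRad 𝔓.num (pvlmH m) (𝔓.ty t) (𝔓.ty t).k ≤ R / 1000 := by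
    rw [eventually_all]
    intro t
    have : Tendsto (fun m => (2 * (𝔓.ty t).b2 + (𝔓.ty t).k * 𝔓.num.rho1) * pvlmH m) atTop (nhds ((2 * (𝔓.ty t).b2 + (𝔓.ty t).k * 𝔓.num.rho1) * 0)) := pvlm_H_lim.const_mul _
    rw [mul_zero] at this
    exact this.eventually (ge_mem_nhds (by positivity))
  filter_upwards [h1, h2, h3] with m a1 a2 a3 ts tt
  have hh := pvlm_H_pos m
  have b1 : pvlmH m < 1 := lt_of_lt_of_le a1 (min_le_left _ _)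
  have b2 : pvlmH m < 𝔓.num.rho / 8192 := lt_of_lt_of_le a1 (min_le_right _ _)
  have b4 := pvlm_Del_le_pow4 c0 m
  have b5 : pvlmH m ^ 4 ≤ pvlmH m * pvlmH m := by
    have : pvlmH m ^ 4 = (pvlmH m * pvlmH m) * (pvlmH m * pvlmH m) := by ring
    rw [this]
    have h6 : pvlmH m * pvlmH m ≤ 1 := by nlinarith
    nlinarith [mul_pos hh hh]
  have pos : ∀ t, 0 ≤ pvwRad 𝔓.num (pvlmH m) (𝔓.ty t) (𝔓.ty t).k := by
    intro t
    unfold pvwRad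
    have g1 := hP.b_b2 t
    have g2 : 0 ≤ (𝔓.ty t).b := ((hW.a0 t).trans (hW.ab t)).le
    have g3 : 0 ≤ ((𝔓.ty t).k : ℝ) * 𝔓.num.rho1 := mul_nonneg (Nat.cast_nonneg _) (hρ.le.trans hW.rho1.le)
    exact mul_nonneg (by linarith) hh.le
  exact ⟨pvlm_Del_pos c m, by nlinarith, a2, pos ts, pos tt, a3 ts, a3 tt⟩

/-! ## 7. the glue at one level      (the three sub-exits and `pvcb_cor` live in `Exit/CorL2.lean`, DOWNSTREAM of the files of the producers) -/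

section glue

variable {τ : Type} {c : ℝ} {𝔓 : PvxPar τ c} {x : ℂ} {R : ℝ}

/-- **THE GLUE AT ONE LEVEL** -/
theorem pvcb_cor_of (hW : 𝔓.Wf) (hP : PvfhWf 𝔓) {m : ℕ}
    (hnum : ∀ ts tt : τ, PvcbNum (pvlmDel c m) (𝔓.num.rho * pvlmH m) R (pvwRad 𝔓.num (pvlmH m) (𝔓.ty ts) (𝔓.ty ts).k) (pvwRad 𝔓.num (pvlmH m) (𝔓.ty tt) (𝔓.ty tt).k))
    (hR : 0 < R) (hS : PvcbSceneAt 𝔓 x R m) (hG : PvcbObsAt 𝔓 x R m) (hI : PvcbIdx (𝔓.Γ m) 𝔓.ty 𝔓.num (pvlmH m) x R) (h5 : PvcbReg5At 𝔓 x R m) : PvfhCorAt 𝔓 x R m := by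
  intro ω hgood hbad P hPr s t hs3 ht3 hgs hgt hfar 𝔇 j harc
  have hyp : PvcbHyp 𝔓 x R m ω P s t 𝔇 j := ⟨hgood, hPr, hs3, ht3, hgs, hgt, hfar, harc⟩
  have hδ := hW.del m
  have hd := pvlm_Del_pos c m
  have hn := hnum s.typ t.typ
  obtain ⟨a₁, u₁, d₁⟩ := pvcb_door_s hW hP m hyp.grid_s s.typ
  obtain ⟨a₂, u₂, d₂⟩ := pvcb_door_t hW hP m hyp.grid_t t.typ
  obtain ⟨γ, M, Wt, Ws, lo, ts, tt, hi, sc, down⟩ := hS ω P s t 𝔇 j hyp a₁ u₁ a₂ u₂ d₁ d₂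
  have hS2 : 89 * pvlmDel c m ≤ pvxvS2 𝔓.num.rho m := by
    unfold pvxvS2
    have := hn.dr
    linarith
  have acc := pvcb_acc hd (by linarith) sc (fun y hy h3 => hbad ((down y hy (by rwa [add_sub_cancel_right] at h3)).mono (by unfold pvxvS1; linarith) le_rfl))
  unfold PvcbIdx at hI
  rw [hδ] at hI
  obtain ⟨l, h1, g1, g2, g3, g4, h3, h4⟩ := hI s.ctr s.typ t.ctr t.typ a₁ u₁ a₂ u₂ _ _ _ hn d₁ d₂ hyp.far (hG ω P s t 𝔇 j hyp) acc.1 acc.2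
  rw [hδ] at g3 g4
  exact ⟨l, h1, fun i hi => (h3 i hi).trans (by linarith), fun v hv => h4 _ ⟨v, hv, rfl⟩, g1, g2, g3, g4, h5 s t l hs3 ht3 h3⟩

end glue

end Claimed.Agent.R289
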