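-- KEEP
import Claimed.Agent.R289.Tr.CorE
import Claimed.Agent.R289.Tr.CorDoor
import Claimed.Agent.R289.Tr.FitL2

/-!
# Row 289 (S0537), THE WALL, road E, FIT-DET, file Tr/CorLk : THE FIELD `lk` (`PvfeLk`, `Defs/FitReg` v5 of 209) FOR THE WORD OF THE CORRIDOR      (helper92; prefix `pvdo_`, `Pvdo`)

`PvfeLk` = MB in its strong form: first / last link straight, of length `≤ ρ h`; beyond the first link the corridor stays `> ρ h + 4 δ` from `yt`, before the last link `> ρ h + 4 δ` from `ys`;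
THE COLLARS OF THE MIDDLE CELLS MISS THE FATTENED HULLS `pvtN8 Z` ALTOGETHER.
The metric threshold of `pvtb_word_noz2` (20) does not give the last clause (the whisker cell just beyond the radius `ρ h + 4 δ` has a collar which reaches `ρ h + δ`, the fattened cells of the disc reach `ρ h + 2.8 δ`).
CURE: the end of the first link is read on the CELL PREDICATE `Q c := c ∈ pvtwN 4 (pvtCells δ (closedBall y rM))`.
* sec. 1  `pvdo_half` = `pvtb_noz_half` of 20 for an abstract predicate on cells;   `pvdo_seg`: along a whisker which starts in a cell of a convex set `A` the predicate `∈ pvtwN k (pvtCells δ A)` is an initial segment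
* sec. 2  `pvdo_ball_off` (collar against the fattened hull), `pvdo_Q_near`, `pvdo_wh_near`
* sec. 3  **`pvdo_lk`** : `PvfeLk` for the word of a corridor with the clause `cl` of `pvtb_fit_mouth_pl`
* sec. 4  the whiskers of record are off the obstacle: `pvdo_wh_off`
* sec. 5  **`pvdo_main`** = the whole of (I) on the records of 56 (`PvcbNum PvcbDoor PvcbObs`, `Tr/FitL2` v4), doors abstract;   **`pvdo_idx : PvcbIdx Γ ty N h x R`** = the statement of `exit_pvcb_idx` (`Exit/CorL2`)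
          (on `pvjw_cor`, `pvjw_word`, `pvjw_far` of 270, `pvjd_end`, `pvjd_box` of 198)
-/

set_option autoImplicit false

namespace Claimed.Agent.R289

open Set Metric

/-! ## 1. one end, for a predicate on cells -/

/-- **ONE END** (`pvtb_noz_half` of 20, abstract predicate).   `X` = the forbidden cells, `W'` = the other whisker.   The cells of `Q` and their side neighbours lie in `X` and off `W'`; on the whisker `Q` is an initial segment.
Then the corridor runs along its whisker as long as `Q` holds, one cell more, and never comes back to `Q`. -/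
theorem pvdo_half {n : ℕ} {f : ℕ → ℤ × ℤ} (h : PvtbCor (n + 1) f) {p d : ℤ × ℤ} (hd : PvfeDir d) {l : ℕ} {Q : ℤ × ℤ → Prop}
    {X W' : Set (ℤ × ℤ)} (f0 : f 0 = p) (f1 : f 1 = p + d) (cl : ∀ i, i ≤ n + 1 → f i ∈ pvtbWh p d l ∨ f i ∈ W' ∨ f i ∉ X)
    (hX : ∀ c u, Q c → (u = c ∨ pvtbG4.Adj c u) → u ∈ X ∧ u ∉ W') (hp : Q p)
    (conv : ∀ a b : ℕ, a ≤ b → Q (p + (b : ℤ) • d) → Q (p + (a : ℤ) • d)) (hend : ¬ Q (f (n + 1))) :
    ∃ a1, a1 ≤ n ∧ a1 ≤ l ∧ (∀ a, a ≤ a1 + 1 → f a = p + (a : ℤ) • d) ∧ (∀ a, a ≤ a1 → Q (f a)) ∧ ∀ i, a1 < i → i ≤ n + 1 → ¬ Q (f i) := by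
  classical
  obtain ⟨P, hP⟩ : ∃ P : ℕ → Prop, ∀ a, P a ↔ Q (p + (a : ℤ) • d) := ⟨_, fun _ => Iff.rfl⟩
  have P0 : P 0 := by rw [hP]; simpa using hp
  obtain ⟨a1, ha1⟩ : ∃ a1, a1 = Nat.findGreatest P l := ⟨_, rfl⟩
  have Pa1 : P a1 := by rw [ha1]; exact Nat.findGreatest_spec (Nat.zero_le l) P0
  have hal : a1 ≤ l := by rw [ha1]; exact Nat.findGreatest_le l
  have great : ∀ a, a1 < a → a ≤ l → ¬ P a := fun a h1 h2 => Nat.findGreatest_is_greatest (by rw [← ha1]; exact h1) h2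
  have conv' : ∀ a, a ≤ a1 → P a := fun a ha => (hP a).2 (conv a a1 ha ((hP a1).1 Pa1))
  have run : ∀ a, a ≤ a1 + 1 → a ≤ n + 1 ∧ f a = p + (a : ℤ) • d := by
    intro a
    induction a using Nat.strong_induction_on with
    | _ a ih =>
      intro ha
      rcases a with _ | _ | b
      · exact ⟨by omega, by simpa using f0⟩
      · exact ⟨by omega, by simpa using f1⟩
      · obtain ⟨g1, e1⟩ := ih (b + 1) (by omega) (by omega)
        obtain ⟨-, e0⟩ := ih b (by omega) (by omega)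
        have Pb : Q (f (b + 1)) := by rw [e1]; exact (hP _).1 (conv' (b + 1) (by omega))
        have hlt : b + 1 < n + 1 := by
          rcases Nat.lt_or_ge (b + 1) (n + 1) with h1 | h1
          · exact h1
          · have : b + 1 = n + 1 := by omega
            rw [this] at Pb
            exact absurd Pb hend
        refine ⟨by omega, ?_⟩
        have hdiff : f (b + 1) - f b = d := by
          rw [e1, e0]
          ext <;> simp <;> ring
        have adj := h.step (b + 1) hlt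
        obtain ⟨hx, hw⟩ := hX _ _ Pb (Or.inr adj)
        have hwh : f (b + 1 + 1) ∈ pvtbWh p d l := by
          rcases cl (b + 1 + 1) (by omega) with c1 | c1 | c1
          · exact c1
          · exact absurd c1 hw
          · exact absurd hx c1
        obtain ⟨i, -, hi⟩ := hwh
        have turn := pvtb_cor_turn h (i := b) (by omega)
        rw [hdiff] at turn
        rw [show b + 1 + 1 = b + 2 from rfl] at hi
        rw [hi, e1] at turn
        rw [show b + 1 + 1 = b + 2 from rfl, hi]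
        have hib : (i : ℤ) = (b : ℤ) + 2 := by
          simp only [Prod.ext_iff, pvtbI, Prod.fst_sub, Prod.snd_sub, Prod.fst_add, Prod.snd_add, Prod.smul_fst, Prod.smul_snd, smul_eq_mul, Prod.fst_neg, Prod.snd_neg] at turn
          rcases hd with rfl | rfl | rfl | rfl <;> simp only at turn <;> push_cast at turn <;> omega
        rw [hib]; push_cast; rfl
  refine ⟨a1, by have := (run (a1 + 1) le_rfl).1; omega, hal, fun a ha => (run a ha).2, fun a ha => by rw [(run a (by omega)).2]; exact (hP _).1 (conv' a ha), ?_⟩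
  intro i hi1 hi2 hc
  obtain ⟨hx, hw⟩ := hX _ _ hc (Or.inl rfl)
  rcases cl i hi2 with c1 | c1 | c1
  · obtain ⟨a, ha, e⟩ := c1
    have Pa : P a := by rw [hP, ← e]; exact hc
    have ha1' : a ≤ a1 := by
      by_contra hh
      exact great a (by omega) ha Pa
    have := pvtb_cor_inj h (i := i) (j := a) hi2 (run a (by omega)).1 (by rw [e, (run a (by omega)).2])
    omega
  · exact hw c1
  · exact c1 hx

/-- one coordinate: a point of `[(c - k) δ, (c + k + 1) δ]` lies in a closed cell within `k` of `c` -/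
theorem pvdo_aux_cell {δ : ℝ} (hδ : 0 < δ) {x : ℝ} {c : ℤ} {k : ℕ} (h1 : ((c : ℝ) - k) * δ ≤ x) (h2 : x ≤ ((c : ℝ) + k + 1) * δ) :
    ∃ v : ℤ, (v : ℝ) * δ ≤ x ∧ x ≤ ((v : ℝ) + 1) * δ ∧ v ≤ c + k ∧ c ≤ v + k := by
  have g1 : ((c - k : ℤ) : ℝ) ≤ x / δ := by rw [le_div_iff₀ hδ]; push_cast; exact h1
  have g2 : c - k ≤ ⌊x / δ⌋ := Int.le_floor.2 g1
  have g3 : (⌊x / δ⌋ : ℝ) * δ ≤ x := (le_div_iff₀ hδ).1 (Int.floor_le _)
  have g4 : x ≤ ((⌊x / δ⌋ : ℝ) + 1) * δ := (div_le_iff₀ hδ).1 (Int.lt_floor_add_one _).le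
  rcases le_or_gt ⌊x / δ⌋ (c + k) with g | g
  · exact ⟨⌊x / δ⌋, g3, g4, g, by omega⟩
  · refine ⟨c + k, ?_, by push_cast; exact h2, le_rfl, by omega⟩
    have : ((c + k : ℤ) : ℝ) ≤ (⌊x / δ⌋ : ℝ) := by exact_mod_cast g.le
    nlinarith

/-- **along a whisker which starts in a cell of a convex set the fattened cells of the set form an initial segment** -/
theorem pvdo_seg {δ : ℝ} (hδ : 0 < δ) {A : Set ℂ} (hA : Convex ℝ A) (k : ℕ) {p d : ℤ × ℤ} (hp : p ∈ pvtCells δ A) {a b : ℕ} (hab : a ≤ b)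
    (hb : p + (b : ℤ) • d ∈ pvtwN k (pvtCells δ A)) : p + (a : ℤ) • d ∈ pvtwN k (pvtCells δ A) := by
  rcases Nat.eq_zero_or_pos b with h0 | h0
  · have : a = b := by omega
    rw [this]; exact hb
  obtain ⟨q0, ⟨k1, k2, k3, k4⟩, hq0⟩ := hp
  obtain ⟨v, ⟨q, ⟨m1, m2, m3, m4⟩, hq⟩, n1, n2, n3, n4⟩ := hb
  simp only [Prod.fst_add, Prod.snd_add, Prod.smul_fst, Prod.smul_snd, smul_eq_mul] at n1 n2 n3 n4
  have hbp : (0 : ℝ) < b := by exact_mod_cast h0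
  obtain ⟨t, ht⟩ : ∃ t : ℝ, t = (a : ℝ) / b := ⟨_, rfl⟩
  have ht0 : 0 ≤ t := by rw [ht]; positivity
  have ht1 : t ≤ 1 := by rw [ht]; exact (div_le_one hbp).2 (by exact_mod_cast hab)
  have htb : t * b = a := by rw [ht]; field_simp
  have hmem : (1 - t) • q0 + t • q ∈ A := hA hq0 hq (by linarith) ht0 (by ring)
  have r1 : (p.1 + (b : ℤ) * d.1 : ℝ) ≤ (v.1 : ℝ) + k := by exact_mod_cast n1
  have r2 : (v.1 : ℝ) ≤ (p.1 + (b : ℤ) * d.1 : ℝ) + k := by exact_mod_cast n2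
  have r3 : (p.2 + (b : ℤ) * d.2 : ℝ) ≤ (v.2 : ℝ) + k := by exact_mod_cast n3
  have r4 : (v.2 : ℝ) ≤ (p.2 + (b : ℤ) * d.2 : ℝ) + k := by exact_mod_cast n4
  push_cast at r1 r2 r3 r4
  have hk : (0 : ℝ) ≤ k := Nat.cast_nonneg _
  have ere : ((1 - t) • q0 + t • q).re = (1 - t) * q0.re + t * q.re := by simp
  have eim : ((1 - t) • q0 + t • q).im = (1 - t) * q0.im + t * q.im := by simp
  have s1 : 0 ≤ 1 - t := by linarith
  -- the two coordinates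
  have key : ∀ (P D V x0 x1 : ℝ), P * δ ≤ x0 → x0 ≤ (P + 1) * δ → V * δ ≤ x1 → x1 ≤ (V + 1) * δ → P + b * D ≤ V + k → V ≤ P + b * D + k →
      (P + a * D - k) * δ ≤ (1 - t) * x0 + t * x1 ∧ (1 - t) * x0 + t * x1 ≤ (P + a * D + k + 1) * δ := by
    intro P D V x0 x1 a1 a2 a3 a4 a5 a6
    have b1 : (P + b * D - k) * δ ≤ x1 := by nlinarith
    have b2 : x1 ≤ (P + b * D + k + 1) * δ := by nlinarith
    have c1 := mul_le_mul_of_nonneg_left a1 s1
    have c2 := mul_le_mul_of_nonneg_left a2 s1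
    have c3 := mul_le_mul_of_nonneg_left b1 ht0
    have c4 := mul_le_mul_of_nonneg_left b2 ht0
    have e1 : t * ((P + b * D - k) * δ) = (t * P + a * D - t * k) * δ := by rw [← htb]; ring
    have e2 : t * ((P + b * D + k + 1) * δ) = (t * P + a * D + t * k + t) * δ := by rw [← htb]; ring
    rw [e1] at c3
    rw [e2] at c4
    have d1 : t * k * δ ≤ k * δ := by
      have := mul_le_mul_of_nonneg_right ht1 (mul_nonneg hk hδ.le)
      linarith
    have i1 : (P + a * D - k) * δ = (1 - t) * (P * δ) + (t * P + a * D - t * k) * δ - (k * δ - t * k * δ) := by ring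
    have i2 : (P + a * D + k + 1) * δ = (1 - t) * ((P + 1) * δ) + (t * P + a * D + t * k + t) * δ + (k * δ - t * k * δ) := by ring
    rw [i1, i2]
    constructor <;> linarith
  obtain ⟨u1, u2⟩ := key p.1 d.1 v.1 q0.re q.re k1 k2 m1 m2 r1 r2
  obtain ⟨u3, u4⟩ := key p.2 d.2 v.2 q0.im q.im k3 k4 m3 m4 r3 r4
  obtain ⟨w1, x1, x2, x3, x4⟩ := pvdo_aux_cell (c := p.1 + (a : ℤ) * d.1) (k := k) hδ (by push_cast; exact u1) (by push_cast; exact u2)
  obtain ⟨w2, y1, y2, y3, y4⟩ := pvdo_aux_cell (c := p.2 + (a : ℤ) * d.2) (k := k) hδ (by push_cast; exact u3) (by push_cast; exact u4)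
  refine ⟨(w1, w2), ⟨(1 - t) • q0 + t • q, ⟨?_, ?_, ?_, ?_⟩, hmem⟩, ?_, ?_, ?_, ?_⟩
  · rw [ere]; exact x1
  · rw [ere]; exact x2
  · rw [eim]; exact y1
  · rw [eim]; exact y2
  all_goals simp only [Prod.fst_add, Prod.snd_add, Prod.smul_fst, Prod.smul_snd, smul_eq_mul]
  · exact x4
  · exact x3
  · exact y4
  · exact y3

/-! ## 2. collars, fattened cells of a disc, whiskers -/

/-- the collar of a cell off the `4`-fattening of `E ⊇ Z` misses the fattened hull -/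
theorem pvdo_ball_off {δ : ℝ} (hδ : 0 < δ) {Z E : Set (ℤ × ℤ)} (hZ : Z ⊆ E) {c : ℤ × ℤ} (hc : c ∉ pvtwN 4 E) :
    Disjoint (closedBall (pvtCtr δ c) (3 * δ)) (pvtU δ (pvtN8 Z)) := by
  rw [Set.disjoint_left]
  intro w hw hZw
  rw [mem_closedBall, dist_eq_norm] at hw
  simp only [pvtU, Set.mem_iUnion, exists_prop] at hZw
  obtain ⟨u, hu, hwu⟩ := hZw
  have h3 := pvtw_N_symm (pvtb_ball_cells hδ hw hwu)
  rw [← pvtw_N_one] at hu
  have : c ∈ pvtwN 3 (pvtwN 1 Z) := pvtw_N_iff.2 ⟨u, hu, h3⟩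
  rw [pvtw_N_add] at this
  exact hc (pvtw_N_mono le_rfl hZ this)

/-- a cell of the `k`-fattening of the cells of a disc -/
theorem pvdo_Q_near {δ : ℝ} (hδ : 0 < δ) {k : ℕ} {y : ℂ} {r : ℝ} {c : ℤ × ℤ} (hc : c ∈ pvtwN k (pvtCells δ (closedBall y r))) : ‖pvtCtr δ c - y‖ ≤ r + 2 * ((k : ℝ) + 1) * δ := by
  obtain ⟨v, ⟨q, hqv, hq⟩, hcv⟩ := pvtw_N_iff.1 hc
  rw [mem_closedBall, dist_eq_norm] at hq
  have h1 := pvtc_pl_sq_close hδ hcv hqv (pvt_sq_ctr hδ.le (z := c))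
  have e : pvtCtr δ c - y = -(q - pvtCtr δ c) + (q - y) := by ring
  rw [e]
  refine (norm_add_le _ _).trans ?_
  rw [norm_neg]
  linarith

/-- a cell of a whisker whose foot meets a disc -/
theorem pvdo_wh_near {δ : ℝ} (hδ : 0 < δ) {y : ℂ} {r : ℝ} {p d : ℤ × ℤ} {l : ℕ} (hd : PvfeDir d) (ft : (pvtSq δ p ∩ closedBall y r).Nonempty) {c : ℤ × ℤ} (hc : c ∈ pvtbWh p d l) :
    ‖pvtCtr δ c - y‖ ≤ r + 2 * ((l : ℝ) + 1) * δ := by
  obtain ⟨q, hqp, hq⟩ := ft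
  rw [mem_closedBall, dist_eq_norm] at hq
  have h1 := pvtc_pl_sq_close hδ (pvtb_wh_N hd hc) hqp (pvt_sq_ctr hδ.le (z := c))
  have e : pvtCtr δ c - y = -(q - pvtCtr δ c) + (q - y) := by ring
  rw [e]
  refine (norm_add_le _ _).trans ?_
  rw [norm_neg]
  linarith

/-- the hypothesis `hX` of `pvdo_half` for the predicate `∈ pvtwN 4 (cells of the disc)` -/
theorem pvdo_X {δ : ℝ} (hδ : 0 < δ) {A : Set ℂ} {y y' : ℂ} {rM : ℝ} (hA : closedBall y rM ⊆ A) {p' d' : ℤ × ℤ} {l' : ℕ} (hd' : PvfeDir d')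
    (f' : (pvtSq δ p' ∩ closedBall y' rM).Nonempty) (hfar : 2 * rM + (2 * (l' : ℝ) + 14) * δ < ‖y - y'‖)
    {c u : ℤ × ℤ} (hc : c ∈ pvtwN 4 (pvtCells δ (closedBall y rM))) (hu : u = c ∨ pvtbG4.Adj c u) : u ∈ pvtwN 5 (pvtCells δ A) ∧ u ∉ pvtbWh p' d' l' := by
  have hu1 : u ∈ pvtwN 1 {c} := by
    rcases hu with rfl | h
    · exact ⟨u, rfl, by omega, by omega, by omega, by omega⟩
    · rw [pvtb_G4_adj] at h
      exact ⟨c, rfl, by push_cast; omega, by push_cast; omega, by push_cast; omega, by push_cast; omega⟩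
  have h5 : u ∈ pvtwN 5 (pvtCells δ (closedBall y rM)) := by
    have : u ∈ pvtwN 1 (pvtwN 4 (pvtCells δ (closedBall y rM))) := pvtw_N_iff.2 ⟨c, hc, hu1⟩
    rwa [pvtw_N_add] at this
  refine ⟨pvtw_N_mono le_rfl (fun z hz => by obtain ⟨q, hq, hqA⟩ := hz; exact ⟨q, hq, hA hqA⟩) h5, fun hw => ?_⟩
  have h1 := pvdo_Q_near hδ h5
  have h2 := pvdo_wh_near hδ hd' f' hw
  have e : y - y' = -(pvtCtr δ u - y) + (pvtCtr δ u - y') := by ring
  have h3 := norm_add_le (-(pvtCtr δ u - y)) (pvtCtr δ u - y')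
  rw [← e, norm_neg] at h3
  push_cast at h1
  nlinarith

/-! ## 3. `PvfeLk` for the word of the corridor -/

/-- **THE FIELD `lk`, STRONG FORM** (`PvfeLk` of FitReg v5: the `3 δ`-collars of the middle cells miss the FATTENED hull) for the word of a corridor with the clause `cl` of `pvtb_fit_mouth_pl` (`j = 4`).
`wt`, `ws`: a cell of a whisker beyond the fattened disc of its mouth is off the fattened cells of `K` (sec. 4). -/
theorem pvdo_lk_strong {δ : ℝ} (hδ : 0 < δ) {K : Set ℂ} {yt ys : ℂ} {rM rL : ℝ} {pt dt ps ds : ℤ × ℤ} {lt ls : ℕ} (hdt : PvfeDir dt) (hds : PvfeDir ds)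
    (ft : (pvtSq δ pt ∩ closedBall yt rM).Nonempty) (fs : (pvtSq δ ps ∩ closedBall ys rM).Nonempty)
    (hfar : 2 * rM + (2 * ((lt : ℝ) + ls) + 14) * δ < ‖yt - ys‖) (hlt : (lt : ℝ) * δ ≤ rL) (hls : (ls : ℝ) * δ ≤ rL)
    {n : ℕ} {f : ℕ → ℤ × ℤ} (h : PvtbCor (n + 1) f) (f0 : f 0 = pt) (f1 : f 1 = pt + dt) (fn : f n = ps + ds) (fn1 : f (n + 1) = ps)
    (cl : ∀ i, i ≤ n + 1 → f i ∈ pvtbWh pt dt lt ∨ f i ∈ pvtbWh ps ds ls ∨ f i ∉ pvtwN 5 (pvtCells δ (K ∪ closedBall yt rM ∪ closedBall ys rM)))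
    (wt : ∀ c ∈ pvtbWh pt dt lt, c ∉ pvtwN 4 (pvtCells δ (closedBall yt rM)) → c ∉ pvtwN 4 (pvtCells δ K))
    (ws : ∀ c ∈ pvtbWh ps ds ls, c ∉ pvtwN 4 (pvtCells δ (closedBall ys rM)) → c ∉ pvtwN 4 (pvtCells δ K))
    {Z : Set (ℤ × ℤ)} (hZ : Z ⊆ pvtCells δ (K ∪ closedBall yt rM ∪ closedBall ys rM)) :
    ∃ nt ns : ℕ, nt + ns ≤ (pvtbWord n f).length ∧ nt * δ ≤ rL ∧ ns * δ ≤ rL ∧ (∀ i, i < nt → pvccT (pvtbWord n f) i = PvtTurn.S) ∧
      (∀ i, (pvtbWord n f).length ≤ i + ns → i < (pvtbWord n f).length → pvccT (pvtbWord n f) i = PvtTurn.S) ∧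
      (∀ i, nt ≤ i → i < (pvtbWord n f).length → rM + 4 * δ < ‖pvccC (pvtbDoor δ f 0) ((δ : ℂ) * pvtZ (f 1 - f 0)) (pvtbWord n f) i - yt‖) ∧
      (∀ i, i + ns < (pvtbWord n f).length → rM + 4 * δ < ‖pvccC (pvtbDoor δ f 0) ((δ : ℂ) * pvtZ (f 1 - f 0)) (pvtbWord n f) i - ys‖) ∧
      ∀ i, nt ≤ i → i + ns < (pvtbWord n f).length →
        Disjoint (closedBall (pvccC (pvtbDoor δ f 0) ((δ : ℂ) * pvtZ (f 1 - f 0)) (pvtbWord n f) i) (3 * ‖(δ : ℂ) * pvtZ (f 1 - f 0)‖)) (pvtU δ (pvtN8 Z)) := by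
  have hr : 0 ≤ rM := by
    obtain ⟨q, -, hq⟩ := ft
    exact dist_nonneg.trans (mem_closedBall.1 hq)
  have hlt0 : (0 : ℝ) ≤ lt := Nat.cast_nonneg _
  have hls0 : (0 : ℝ) ≤ ls := Nat.cast_nonneg _
  have hsymm : ‖ys - yt‖ = ‖yt - ys‖ := norm_sub_rev _ _
  have Xt : ∀ c u, c ∈ pvtwN 4 (pvtCells δ (closedBall yt rM)) → (u = c ∨ pvtbG4.Adj c u) →
      u ∈ pvtwN 5 (pvtCells δ (K ∪ closedBall yt rM ∪ closedBall ys rM)) ∧ u ∉ pvtbWh ps ds ls :=
    fun c u hc hu => pvdo_X hδ (fun q hq => Or.inl (Or.inr hq)) hds fs (by nlinarith) hc hu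
  have Xs : ∀ c u, c ∈ pvtwN 4 (pvtCells δ (closedBall ys rM)) → (u = c ∨ pvtbG4.Adj c u) →
      u ∈ pvtwN 5 (pvtCells δ (K ∪ closedBall yt rM ∪ closedBall ys rM)) ∧ u ∉ pvtbWh pt dt lt :=
    fun c u hc hu => pvdo_X hδ (fun q hq => Or.inr hq) hdt ft (by rw [hsymm]; nlinarith) hc hu
  have w0t : pt ∈ pvtbWh pt dt lt := ⟨0, Nat.zero_le _, by simp⟩
  have w0s : ps ∈ pvtbWh ps ds ls := ⟨0, Nat.zero_le _, by simp⟩
  -- the target end
  obtain ⟨a1, ha1, hal, ra, na, fa⟩ := pvdo_half h hdt (l := lt) (Q := fun c => c ∈ pvtwN 4 (pvtCells δ (closedBall yt rM))) f0 f1 cl Xt (pvtw_N_sub ft)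
    (fun a b hab hb => pvdo_seg hδ (convex_closedBall _ _) 4 ft hab hb) (by rw [fn1]; exact fun hq => (Xt _ _ hq (Or.inl rfl)).2 w0s)
  -- the source end
  have hg := pvtb_cor_rev h
  obtain ⟨b1, hb1, hbl, rb, nb, fb⟩ := pvdo_half hg hds (l := ls) (Q := fun c => c ∈ pvtwN 4 (pvtCells δ (closedBall ys rM))) (W' := pvtbWh pt dt lt) (by simpa using fn1) (by simpa using fn)
    (fun i hi => by
      rcases cl (n + 1 - i) (by omega) with c | c | c
      · exact Or.inr (Or.inl c)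
      · exact Or.inl c
      · exact Or.inr (Or.inr c))
    Xs (pvtw_N_sub fs) (fun a b hab hb => pvdo_seg hδ (convex_closedBall _ _) 4 fs hab hb)
    (by simp only [Nat.sub_self, f0]; exact fun hq => (Xs _ _ hq (Or.inl rfl)).2 w0t)
  have nd := pvjw_norm_frame hδ h
  refine ⟨a1, b1, ?_, ?_, ?_, ?_, ?_, ?_, ?_, ?_⟩
  · rw [pvtb_word_length]
    by_contra hc
    have h2 := nb (n + 1 - a1) (by omega)
    simp only [show n + 1 - (n + 1 - a1) = a1 by omega] at h2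
    exact (Xs _ _ h2 (Or.inl rfl)).2 ⟨a1, hal, ra a1 (by omega)⟩
  · exact (mul_le_mul_of_nonneg_right (by exact_mod_cast hal) hδ.le).trans hlt
  · exact (mul_le_mul_of_nonneg_right (by exact_mod_cast hbl) hδ.le).trans hls
  · intro i hi
    rw [pvtb_word_T f (by omega), ra i (by omega), ra (i + 1) (by omega), ra (i + 2) (by omega)]
    have e : pt + ((i + 2 : ℕ) : ℤ) • dt - (pt + ((i + 1 : ℕ) : ℤ) • dt) = pt + ((i + 1 : ℕ) : ℤ) • dt - (pt + (i : ℤ) • dt) := by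
      ext <;> simp <;> ring
    rw [e, pvtbLet, if_pos rfl]
  · intro i hi1 hi2
    rw [pvtb_word_length] at hi1 hi2
    have e0 := rb (n + 1 - i) (by omega)
    have e1 := rb (n - i) (by omega)
    have e2 := rb (n - 1 - i) (by omega)
    simp only [show n + 1 - (n + 1 - i) = i by omega] at e0
    simp only [show n + 1 - (n - i) = i + 1 by omega] at e1
    simp only [show n + 1 - (n - 1 - i) = i + 2 by omega] at e2
    rw [pvtb_word_T f hi2, e0, e1, e2]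
    have c0 : ((n + 1 - i : ℕ) : ℤ) = ((n - 1 - i : ℕ) : ℤ) + 2 := by omega
    have c1 : ((n - i : ℕ) : ℤ) = ((n - 1 - i : ℕ) : ℤ) + 1 := by omega
    rw [c0, c1]
    have e : ps + ((n - 1 - i : ℕ) : ℤ) • ds - (ps + (((n - 1 - i : ℕ) : ℤ) + 1) • ds) = ps + (((n - 1 - i : ℕ) : ℤ) + 1) • ds - (ps + (((n - 1 - i : ℕ) : ℤ) + 2) • ds) := by
      ext <;> simp <;> ring
    rw [e, pvtbLet, if_pos rfl]
  · intro i hi1 hi2
    rw [pvtb_word_length] at hi2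
    rw [pvtb_word_C h δ (by omega)]
    exact pvjw_disc_far hδ hr (fa (i + 1) (by omega) (by omega))
  · intro i hi
    rw [pvtb_word_length] at hi
    rw [pvtb_word_C h δ (by omega)]
    have := fb (n - i) (by omega) (by omega)
    simp only [show n + 1 - (n - i) = i + 1 by omega] at this
    exact pvjw_disc_far hδ hr this
  · intro i hi1 hi2
    rw [pvtb_word_length] at hi2
    rw [pvtb_word_C h δ (by omega), nd]
    have q1 := fa (i + 1) (by omega) (by omega)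
    have q2 := fb (n - i) (by omega) (by omega)
    simp only [show n + 1 - (n - i) = i + 1 by omega] at q2
    refine pvdo_ball_off hδ hZ ?_
    rw [pvtb_cells_union, pvtb_cells_union, pvtw_N_union, pvtw_N_union]
    rintro ((hK | hD) | hD)
    · rcases cl (i + 1) (by omega) with c | c | c
      · exact wt _ c q1 hK
      · exact ws _ c q2 hK
      · exact c (pvtw_N_mono (by norm_num) (fun z hz => by obtain ⟨q, hq, hqK⟩ := hz; exact ⟨q, hq, Or.inl (Or.inl hqK)⟩) hK)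
    · exact q1 hD
    · exact q2 hD

/-- **THE FIELD `lk`** (`PvfeLk` of FitReg v6: the `2 δ`-collars of the middle cells miss the hull) -/
theorem pvdo_lk {δ : ℝ} (hδ : 0 < δ) {K : Set ℂ} {yt ys : ℂ} {rM rL : ℝ} {pt dt ps ds : ℤ × ℤ} {lt ls : ℕ} (hdt : PvfeDir dt) (hds : PvfeDir ds)
    (ft : (pvtSq δ pt ∩ closedBall yt rM).Nonempty) (fs : (pvtSq δ ps ∩ closedBall ys rM).Nonempty)
    (hfar : 2 * rM + (2 * ((lt : ℝ) + ls) + 14) * δ < ‖yt - ys‖) (hlt : (lt : ℝ) * δ ≤ rL) (hls : (ls : ℝ) * δ ≤ rL)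
    {n : ℕ} {f : ℕ → ℤ × ℤ} (h : PvtbCor (n + 1) f) (f0 : f 0 = pt) (f1 : f 1 = pt + dt) (fn : f n = ps + ds) (fn1 : f (n + 1) = ps)
    (cl : ∀ i, i ≤ n + 1 → f i ∈ pvtbWh pt dt lt ∨ f i ∈ pvtbWh ps ds ls ∨ f i ∉ pvtwN 5 (pvtCells δ (K ∪ closedBall yt rM ∪ closedBall ys rM)))
    (wt : ∀ c ∈ pvtbWh pt dt lt, c ∉ pvtwN 4 (pvtCells δ (closedBall yt rM)) → c ∉ pvtwN 4 (pvtCells δ K))
    (ws : ∀ c ∈ pvtbWh ps ds ls, c ∉ pvtwN 4 (pvtCells δ (closedBall ys rM)) → c ∉ pvtwN 4 (pvtCells δ K))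
    {Z : Set (ℤ × ℤ)} (hZ : Z ⊆ pvtCells δ (K ∪ closedBall yt rM ∪ closedBall ys rM)) :
    PvfeLk δ (rM + 4 * δ) rL ys yt (pvtbDoor δ f 0) ((δ : ℂ) * pvtZ (f 1 - f 0)) (pvtbWord n f) Z := by
  obtain ⟨nt, ns, h1, h2, h3, h4, h5, h6, h7, h8⟩ := pvdo_lk_strong hδ hdt hds ft fs hfar hlt hls h f0 f1 fn fn1 cl wt ws hZ
  refine ⟨nt, ns, h1, h2, h3, h4, h5, h6, h7, fun i hi1 hi2 => (h8 i hi1 hi2).mono (closedBall_subset_closedBall (by nlinarith [norm_nonneg ((δ : ℂ) * pvtZ (f 1 - f 0))])) ?_⟩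
  intro w hw
  simp only [pvtU, Set.mem_iUnion, exists_prop] at hw ⊢
  obtain ⟨u, hu, hwu⟩ := hw
  exact ⟨u, ⟨u, hu, Or.inl rfl⟩, hwu⟩

/-! ## 4. the whiskers of record are off the obstacle -/

/-- **THE HYPOTHESES `wt`, `ws` OF `pvdo_lk` AT A DOOR IN ABSOLUTE CELL FORM** (fields `unit base dom nd` of `PvcbDoor` of 56, explicit as in `Tr/CorDoor` of 198).
A cell of the whisker beyond the fattened mouth disc is higher than `ρ h + 3 δ` over `y`, that is `3 ρ h / 4` outside the box of the level, which contains all of `K` within `ρ h + 40 δ` of `y`. -/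
theorem pvdo_wh_off {δ ρh : ℝ} {z y : ℂ} {r : ℝ} {a u : ℤ × ℤ} {l : ℕ} (hδ : 0 < δ) (hρ : 64 * δ ≤ ρh) (hu : PvfeDir u)
    (base : ‖pvtCtr δ (a + u) - (y + ((3 * ρh / 8 : ℝ) : ℂ) * pvtZ u)‖ ≤ δ)
    (dom : ((y - z) * (starRingEnd ℂ) (pvtZ u)).re = pvccN (y - z)) (nd : |pvccN (y - z) - r| ≤ ρh / 4)
    (hnear : ∀ i : ℕ, i ≤ l → ‖pvtCtr δ (a + (i : ℤ) • u) - y‖ ≤ ρh + 16 * δ)
    {K Kt : Set ℂ} (near : ∀ p ∈ K, ‖p - y‖ ≤ ρh + 40 * δ → p ∈ Kt) (box : Kt ⊆ pvwSq z r) :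
    ∀ c ∈ pvtbWh a u l, c ∉ pvtwN 4 (pvtCells δ (closedBall y ρh)) → c ∉ pvtwN 4 (pvtCells δ K) := by
  rintro c ⟨i, hi, rfl⟩ hQ hK
  have hZ := (pvtb_Z_unit hu).2
  have d1 := pvjw_disc_far hδ (by linarith : (0 : ℝ) ≤ ρh) hQ
  have key : pvtCtr δ (a + (i : ℤ) • u) - y = (pvtCtr δ (a + u) - (y + ((3 * ρh / 8 : ℝ) : ℂ) * pvtZ u)) + ((3 * ρh / 8 + ((i : ℝ) - 1) * δ : ℝ) : ℂ) * pvtZ u := by
    rw [pvjd_ctr]
    push_cast
    ring
  have hi0 : (0 : ℝ) ≤ (i : ℝ) * δ := by positivity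
  have hH0 : 0 ≤ 3 * ρh / 8 + ((i : ℝ) - 1) * δ := by nlinarith
  have hH : ρh + 3 * δ < 3 * ρh / 8 + ((i : ℝ) - 1) * δ := by
    have h1 := norm_add_le (pvtCtr δ (a + u) - (y + ((3 * ρh / 8 : ℝ) : ℂ) * pvtZ u)) (((3 * ρh / 8 + ((i : ℝ) - 1) * δ : ℝ) : ℂ) * pvtZ u)
    rw [← key, norm_mul, hZ, mul_one, Complex.norm_real, Real.norm_eq_abs, abs_of_nonneg hH0] at h1
    linarith
  obtain ⟨v, ⟨q, hqv, hqK⟩, hcv⟩ := pvtw_N_iff.1 hK
  have h1 := pvtc_pl_sq_close hδ hcv hqv (pvt_sq_ctr hδ.le (z := a + (i : ℤ) • u))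
  push_cast at h1
  have hqy : ‖q - y‖ ≤ ρh + 40 * δ := by
    have e : q - y = (q - pvtCtr δ (a + (i : ℤ) • u)) + (pvtCtr δ (a + (i : ℤ) • u) - y) := by ring
    rw [e]
    have := hnear i hi
    exact (norm_add_le _ _).trans (by linarith)
  have hbox := box (near q hqK hqy)
  have hsup : pvtcSup (q - z) ≤ r := max_le hbox.1 hbox.2
  have hc := (pvjd_comp_le hu (q - z)).trans hsup
  have e : q - z = (q - pvtCtr δ (a + (i : ℤ) • u)) + (pvtCtr δ (a + u) - (y + ((3 * ρh / 8 : ℝ) : ℂ) * pvtZ u)) + ((3 * ρh / 8 + ((i : ℝ) - 1) * δ : ℝ) : ℂ) * pvtZ u + (y - z) := by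
    linear_combination key
  rw [e, add_mul, add_mul, add_mul, Complex.add_re, Complex.add_re, Complex.add_re, dom, pvjd_comp_self hu] at hc
  have h6 := (abs_le.1 ((pvjd_comp_abs hu (pvtCtr δ (a + u) - (y + ((3 * ρh / 8 : ℝ) : ℂ) * pvtZ u))).trans base)).1
  have h7 := (abs_le.1 ((pvjd_comp_abs hu (q - pvtCtr δ (a + (i : ℤ) • u))).trans h1)).1
  have h8 := (abs_le.1 nd).1
  linarith

/-! ## 5. (I): ACC at both fronts ⟹ the word -/

/-- **(I), DOORS ABSTRACT**: the records of 56 + (ACC) at the two front cells ⟹ the word with `simple nr adm lk`, its centres in `B(x, 4R)`, its tube off `g₀` -/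
theorem pvdo_main {δ ρh R : ℝ} {x zs zt ys yt : ℂ} {rs rt : ℝ} {doorS dirS doorT dirT : ℂ} {a₁ u₁ a₂ u₂ : ℤ × ℤ} {K G0 : Set ℂ} {Z : Set (ℤ × ℤ)}
    (num : PvcbNum δ ρh R rs rt) (d₁ : PvcbDoor δ ρh zs ys rs doorS dirS a₁ u₁) (d₂ : PvcbDoor δ ρh zt yt rt doorT dirT a₂ u₂)
    (far : R / 3 ≤ ‖zs - zt‖) (obs : PvcbObs δ ρh x R zs zt ys yt rs rt K G0 Z)
    (acc_t : pvcbFr a₂ u₂ (pvcbL δ ρh) ∈ pvtOut (pvtwN 9 (pvtCells δ K))) (acc_s : pvcbFr a₁ u₁ (pvcbL δ ρh) ∈ pvtOut (pvtwN 9 (pvtCells δ K))) :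
    ∃ l : List PvtTurn, (δ : ℂ) * pvtDisp dirT l = doorS - doorT ∧ pvtDir dirT l = - dirS ∧ PvccSimple l l.length ∧ PvfeNR l ∧
      PvfeAdm δ 3 (2 * ρh) ys yt doorT ((δ : ℂ) * dirT) l Z ∧ PvfeLk δ (ρh + 4 * δ) (3 * ρh) ys yt doorT ((δ : ℂ) * dirT) l Z ∧
      (∀ i, i ≤ l.length → ‖pvccC doorT ((δ : ℂ) * dirT) l i - x‖ ≤ 4 * R) ∧ ∀ w ∈ G0, w ∉ pvfeTube 3 doorT ((δ : ℂ) * dirT) l := by
  have hδ := num.d0
  have hρ := num.dr
  have hρR := num.rR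
  have hρ0 : 0 ≤ ρh := by linarith
  have Et := pvjd_end hδ (by linarith) d₂.unit d₂.base d₂.dom
  have Es := pvjd_end hδ (by linarith) d₁.unit d₁.base d₁.dom
  obtain ⟨Ks, hKs, cKs, near_s, box_s⟩ := obs.late_s
  obtain ⟨Kt, hKt, cKt, near_t, box_t⟩ := obs.late_t
  have near_t' : ∀ p ∈ K, ‖p - yt‖ ≤ ρh + 40 * δ → p ∈ Kt := fun p hp h => near_t p hp (by linarith)
  have near_s' : ∀ p ∈ K, ‖p - ys‖ ≤ ρh + 40 * δ → p ∈ Ks := fun p hp h => near_s p hp (by linarith)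
  have rt1 := pvjd_rad_le d₂.nd
  have rs1 := pvjd_rad_le d₁.nd
  have hrt := num.rtR
  have hrs := num.rsR
  have hsep : 10 * ρh + 2 * ((pvccN (yt - zt) + ρh) + (pvccN (ys - zs) + ρh)) + 200 * δ < ‖zt - zs‖ := by
    rw [norm_sub_rev zt zs]
    linarith
  obtain ⟨n, f, hc, -, f0, f1, fn, fn1, hb, cl⟩ := pvjw_cor (x := x) (ρ1 := 5 / 2 * R + 3 * R / 1000) hδ Et Es
    (fun p hp => (pvjd_sup_of_norm (obs.ball p hp)).trans (by linarith))
    (by have := pvjd_sup_of_norm obs.zt5; linarith) (by have := pvjd_sup_of_norm obs.zs5; linarith)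
    hKt hKs cKt cKs near_t' near_s' (fun p hp => pvjd_box hρ0 d₂.nd (box_t hp)) (fun p hp => pvjd_box hρ0 d₁.nd (box_s hp)) hsep acc_t acc_s
  have hfar := pvjw_far hδ Et Es hsep
  have hZ : Z ⊆ pvtCells δ (K ∪ closedBall yt ρh ∪ closedBall ys ρh) := by
    have := obs.hull
    rwa [Set.union_right_comm] at this
  obtain ⟨eD, eF, w1, w2, w3, w4, w5, -, w7, w8⟩ := pvjw_word (rA := 2 * ρh) (r' := ρh) hδ Et Es hfar hc f0 f1 fn fn1 hb cl (by linarith) (by linarith) hZ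
  have hlt := Et.len hδ
  have hls := Es.len hδ
  have lk := pvdo_lk (rL := 3 * ρh) hδ d₂.unit d₁.unit Et.foot Es.foot (by nlinarith) (by linarith) (by linarith) hc f0 f1 fn fn1 cl
    (pvdo_wh_off hδ (by linarith) d₂.unit d₂.base d₂.dom d₂.nd Et.near near_t' box_t)
    (pvdo_wh_off hδ (by linarith) d₁.unit d₁.base d₁.dom d₁.nd Es.near near_s' box_s) hZ
  rw [eD, eF] at lk
  have eT : pvjwDoor δ a₂ u₂ = doorT := d₂.door_eq.symm
  have eS : pvjwDoor δ a₁ u₁ = doorS := d₁.door_eq.symm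
  rw [eT, ← d₂.dir_eq] at w5 w7 w8 lk
  rw [eT, eS, ← d₂.dir_eq] at w1
  rw [← d₂.dir_eq, ← d₁.dir_eq] at w2
  refine ⟨pvtbWord n f, w1, w2, w3, w4, w5, lk, fun i hi => (w7 i hi).trans (by linarith), fun w hw ht => ?_⟩
  rcases w8 w ht (obs.g_sub hw) with h1 | h1
  · rw [mem_closedBall, dist_eq_norm] at h1
    exact absurd h1 (not_le.2 (obs.g_off_t w hw))
  · rw [mem_closedBall, dist_eq_norm] at h1
    exact absurd h1 (not_le.2 (obs.g_off_s w hw))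

/-- **(I) = THE STATEMENT OF `exit_pvcb_idx`** (`Exit/CorL2` of 56) -/
theorem pvdo_idx {τ : Type} (Γ : PvtsGeo τ) (ty : τ → PvwTy) (N : PvwNum) (h : ℝ) (x : ℂ) (R : ℝ) : PvcbIdx Γ ty N h x R := by
  intro zs ts zt tt a₁ u₁ a₂ u₂ K G0 Z num d₁ d₂ far obs acc_t acc_s
  obtain ⟨l, h1, h2, h3, h4, h5, h6, h7, h8⟩ := pvdo_main num d₁ d₂ far obs acc_t acc_s
  rw [neg_neg] at h2
  have e2 : 2 * (N.rho * h) = 2 * N.rho * h := by ring
  have e3 : 3 * (N.rho * h) = 3 * N.rho * h := by ring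
  rw [e2] at h5
  rw [e3] at h6
  exact ⟨l, ⟨h1, h2⟩, h3, h4, h5, h6, h7, h8⟩

end Claimed.Agent.R289
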