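import Claimed.Agent.R289.Tr.CorrPl
import Claimed.Agent.R289.Tr.FitRef

/-!
# Row 289 (S0537, Cardy for Poisson-Voronoi), THE WALL, TR38 = (ACC), file Tr/AccGlue : THE ABSTRACT GLUE  (PP) + (P4) + EXTRACTION  ⟹  (ACC) or THREE PASSAGES      (owner helper292; prefix `pvtc_gl_`, `PvtcP4`)

MODEL FREE.   Producers: (PP) `pvtc_pl_fit` (`Tr/CorrPl`, 292), extraction `pvfr_marks`, `PvfrArc`, `PvfrThree` (`Tr/FitRef`, 151).   Consumer: the hypothesis `acc` of `pvfy_fit` (`Tr/FitRoof`, 62):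
the first alternative of `pvtc_gl_acc_fwd / _bwd` is `PvfyAcc δ k K z` VERBATIM (unfolded), the second one is `∃ x ∈ K, PvfrThree γ x (16 r + μ) (S - μ) lo hi` (⟹ `PvxvThree` by `Tr/FitThree` of 19).

OBJECTS (W2_211 v2, A; W1_118 Part V).   `γ k` = the wall at the integer times;   `K` = the obstacle, an ARC with marked times `ts..tt` (`PvfrArc`);   `z` = the FRONT (outside the box, `ρ h / 2` from the tip);
`W = Wm ∪ Ww`, `Wm` = the link front → tip (inside the mouth), `Ww` = the wall polygon of the continuation (every point within `μ` of a `γ k`);   `M'` = the mouth.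
* `PvtcP4 K M' z r η`   (P4): two jaws in the mouth are joined inside `K` inside a rectangle whose `(r + 2 η)`-enlargement misses the front   (instance: `K'` = the whole stub, rectangle = the `μ`-fattened box: 215, 211)
* `pvtc_gl_upgrade`     `PvtcPP K W M z r η` + (P4) + (a point of `W \ W'` close to a point of `K` forces that point into `M'`)  ⟹  `PvtcPlPinch K W' M' z (2 r)`
* **`pvtc_gl_acc_fwd`**, **`pvtc_gl_acc_bwd`**
-/

set_option autoImplicit false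
set_option linter.unusedSectionVars false
set_option linter.unusedVariables false
set_option linter.unusedSimpArgs false

namespace Claimed.Agent.R289

open Relation

theorem pvtc_gl_iter (k : ℕ) (E : Set (ℤ × ℤ)) : pvtN8^[k] E = pvtwN k E := by
  induction k with
  | zero => rw [Function.iterate_zero, id, pvtw_N_zero]
  | succ k ih => rw [Function.iterate_succ_apply', ih, pvtw_N_succ]

theorem pvtc_gl_sup_tri (a b c : ℂ) : pvtcSup (a - c) ≤ pvtcSup (a - b) + pvtcSup (b - c) := by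
  have h1 := (pvtc_pl_sup_le (p := a - b) (t := pvtcSup (a - b))).1 le_rfl
  have h2 := (pvtc_pl_sup_le (p := b - c) (t := pvtcSup (b - c))).1 le_rfl
  rw [pvtc_pl_sup_le]
  simp only [Complex.sub_re, Complex.sub_im] at *
  constructor
  · have : a.re - c.re = (a.re - b.re) + (b.re - c.re) := by ring
    rw [this]
    exact (abs_add_le _ _).trans (add_le_add h1.1 h2.1)
  · have : a.im - c.im = (a.im - b.im) + (b.im - c.im) := by ring
    rw [this]
    exact (abs_add_le _ _).trans (add_le_add h1.2 h2.2)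

/-- **(P4)**: two jaws in the mouth `M'` are joined inside `K` inside a rectangle whose `(r + 2 η)`-enlargement misses the front `p0` -/
def PvtcP4 (K M' : Set ℂ) (p0 : ℂ) (r η : ℝ) : Prop :=
  ∀ x ∈ K, ∀ y ∈ K, x ∈ M' → y ∈ M' → pvtcSup (x - y) ≤ 2 * r + η →
    ∃ K' ⊆ K, IsPreconnected K' ∧ x ∈ K' ∧ y ∈ K' ∧ ∃ a b c d : ℝ, K' ⊆ pvtcRect a b c d ∧ p0 ∉ pvtcRect (a - (r + 2 * η)) (b + (r + 2 * η)) (c - (r + 2 * η)) (d + (r + 2 * η))

theorem pvtc_gl_eqns_cite : True := by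
  have := @PvtcP4.eq_1
  trivial

/-- a point within sup distance `t` of a point of a rectangle lies in the rectangle enlarged by `t` -/
theorem pvtc_gl_rect_ball {a b c d t : ℝ} {x p : ℂ} (hx : x ∈ pvtcRect a b c d) (hp : pvtcSup (p - x) ≤ t) : p ∈ pvtcRect (a - t) (b + t) (c - t) (d + t) := by
  obtain ⟨h1, h2, h3, h4⟩ := hx
  obtain ⟨g1, g2⟩ := pvtc_pl_sup_le.1 hp
  rw [Complex.sub_re] at g1
  rw [Complex.sub_im] at g2
  obtain ⟨u1, u2⟩ := abs_le.1 g1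
  obtain ⟨v1, v2⟩ := abs_le.1 g2
  exact ⟨by linarith, by linarith, by linarith, by linarith⟩

theorem pvtc_gl_rect_mono {a b c d a' b' c' d' : ℝ} (h1 : a' ≤ a) (h2 : b ≤ b') (h3 : c' ≤ c) (h4 : d ≤ d') : pvtcRect a b c d ⊆ pvtcRect a' b' c' d' := by
  rintro p ⟨g1, g2, g3, g4⟩
  exact ⟨by linarith, by linarith, by linarith, by linarith⟩

/-- **UPGRADE**: from the sup-norm pinch with an arbitrary mouth set to the Euclidean pinch of scale `2 r` with the mouth `M'` and the witness cut down to `W'` -/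
theorem pvtc_gl_upgrade {K W W' M M' : Set ℂ} {p0 : ℂ} {r η : ℝ} (hr : 0 < r) (hη : 0 < η) (hηr : η ≤ r) (h : PvtcPP K W M p0 r η) (hP4 : PvtcP4 K M' p0 r η)
    (hW' : ∀ w ∈ W, w ∉ W' → ∀ x ∈ K, pvtcSup (w - x) ≤ 3 * r + 2 * η → x ∈ M') : PvtcPlPinch K W' M' p0 (2 * r) := by
  obtain ⟨x, hx, y, hy, w, hw, _, hxy, hwd, hall⟩ := h
  have hA : ¬ (x ∈ M' ∧ y ∈ M') := by
    rintro ⟨hxM, hyM⟩
    obtain ⟨K', hK'K, hK'c, hxK', hyK', a, b, c, d, hK'Q, hp0⟩ := hP4 x hx y hy hxM hyM hxy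
    apply hp0
    have := hall K' hK'K hK'c hxK' hyK' (a - (r + η)) (b + (r + η)) (c - (r + η)) (d + (r + η))
      (hK'Q.trans (pvtc_gl_rect_mono (by linarith) (by linarith) (by linarith) (by linarith)))
      (fun p hp => pvtc_gl_rect_ball (hK'Q hxK') hp) (fun p hp => pvtc_gl_rect_ball (hK'Q hyK') hp)
    exact pvtc_gl_rect_mono (by linarith) (by linarith) (by linarith) (by linarith) this
  have hwx : pvtcSup (w - x) ≤ 3 * r + 2 * η := by
    rcases hwd with g | g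
    · linarith
    · have := pvtc_gl_sup_tri w y x
      rw [pvtc_pl_sup_comm y x] at this
      linarith
  have hwy : pvtcSup (w - y) ≤ 3 * r + 2 * η := by
    rcases hwd with g | g
    · have := pvtc_gl_sup_tri w x y
      linarith
    · linarith
  have hwW' : w ∈ W' := by
    by_contra hc
    exact hA ⟨hW' w hw hc x hx hwx, hW' w hw hc y hy hwy⟩
  refine ⟨x, hx, y, hy, w, hwW', ?_, ?_, ?_, ?_⟩
  · by_contra hc
    push Not at hc
    exact hA hc
  · have := pvtc_pl_norm_le_sup (x - y)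
    linarith
  · rcases hwd with g | g
    · left
      have := pvtc_pl_norm_le_sup (w - x)
      linarith
    · right
      have := pvtc_pl_norm_le_sup (w - y)
      linarith
  · intro K' hK'K hK'c hxK' hyK' S hS hK'S
    have hxr : x ∈ pvtcRect x.re x.re x.im x.im := ⟨le_rfl, le_rfl, le_rfl, le_rfl⟩
    have := hall K' hK'K hK'c hxK' hyK' (x.re - S) (x.re + S) (x.im - S) (x.im + S) ?_ ?_ ?_
    · obtain ⟨g1, g2, g3, g4⟩ := this
      have h1 : pvtcSup (p0 - x) ≤ S + η := by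
        rw [pvtc_pl_sup_le, Complex.sub_re, Complex.sub_im]
        exact ⟨abs_le.2 ⟨by linarith, by linarith⟩, abs_le.2 ⟨by linarith, by linarith⟩⟩
      have := pvtc_pl_norm_le_sup (p0 - x)
      linarith
    · intro q hq
      have h1 := hK'S hq
      rw [Metric.mem_closedBall, dist_eq_norm] at h1
      exact pvtc_gl_rect_ball hxr ((pvtc_pl_sup_le_norm _).trans h1)
    · intro p hp
      exact pvtc_gl_rect_ball hxr (hp.trans (by linarith))
    · intro p hp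
      refine pvtc_gl_rect_ball hxr ?_
      have := pvtc_gl_sup_tri p y x
      rw [pvtc_pl_sup_comm y x] at this
      linarith

section acc

variable {γ : ℕ → ℂ} {K Wm Ww M' : Set ℂ} {z p1 u v : ℂ} {a0 b0 c0 d0 r η δ μ S : ℝ} {k lo ts tt hi : ℕ}

/-- (PP) + (P4): the front is accessible or the WALL part `Ww` of the witness passes a pinch whose jaws are not both in the mouth -/
theorem pvtc_gl_acc (hr : 0 < r) (hη : 0 < η) (hηr : η ≤ r) (hδ : 0 < δ) (hk : ((k : ℝ) + 1) * δ < r)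
    (hKc : IsPreconnected K) (hKk : IsCompact K) (hKb : K ⊆ pvtcRect a0 b0 c0 d0)
    (hWc : IsPreconnected (Wm ∪ Ww)) (hWk : IsCompact (Wm ∪ Ww)) (hd : Disjoint (Wm ∪ Ww) K) (hz : z ∈ Wm ∪ Ww) (hp1 : p1 ∈ Wm ∪ Ww)
    (hfar : p1 ∉ pvtcRect (a0 - (r + η)) (b0 + (r + η)) (c0 - (r + η)) (d0 + (r + η)))
    (hP4 : PvtcP4 K M' z r η) (hWm : ∀ w ∈ Wm, ∀ x ∈ K, pvtcSup (w - x) ≤ 3 * r + 2 * η → x ∈ M') :
    (∀ a : ℤ × ℤ, z ∈ pvtSq δ a → a ∈ pvtbOut (pvtN8^[k] (pvtCells δ K))) ∨ PvtcPlPinch K Ww M' z (2 * r) := by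
  rcases pvtc_pl_fit (M := ∅) (j := k) hr hη hδ hk hKc hKk hKb hWc hWk hd hz hp1 hfar with h | h
  · left
    rw [Set.sdiff_empty] at h
    rw [pvtc_gl_iter]
    exact h
  · right
    refine pvtc_gl_upgrade hr hη hηr h hP4 ?_
    rintro w (hw | hw) hnot x hx hwx
    · exact hWm w hw x hx hwx
    · exact (hnot hw).elim

/-- **(ACC) FOR THE FRONT OF `t`** (forward witness): `PvfyAcc δ k K z` of 62 or three passages of 151 -/
theorem pvtc_gl_acc_fwd (hr : 0 < r) (hη : 0 < η) (hηr : η ≤ r) (hδ : 0 < δ) (hk : ((k : ℝ) + 1) * δ < r) (hμ : 0 ≤ μ) (hS : 16 * r + 2 * μ ≤ S)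
    (hKc : IsPreconnected K) (hKk : IsCompact K) (hKb : K ⊆ pvtcRect a0 b0 c0 d0)
    (hWc : IsPreconnected (Wm ∪ Ww)) (hWk : IsCompact (Wm ∪ Ww)) (hd : Disjoint (Wm ∪ Ww) K) (hz : z ∈ Wm ∪ Ww) (hp1 : p1 ∈ Wm ∪ Ww)
    (hfar : p1 ∉ pvtcRect (a0 - (r + η)) (b0 + (r + η)) (c0 - (r + η)) (d0 + (r + η)))
    (hP4 : PvtcP4 K M' z r η) (hWm : ∀ w ∈ Wm, ∀ x ∈ K, pvtcSup (w - x) ≤ 3 * r + 2 * η → x ∈ M')
    (harc : PvfrArc γ K Ww μ (S + 16 * r) ts tt u v) (hWw : ∀ w ∈ Ww, ∃ k, (tt ≤ k ∧ k ≤ hi) ∧ ‖w - γ k‖ ≤ μ)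
    (hM0 : ∀ q ∈ K \ M', 3 * S + 10 * r < ‖z - q‖) (hMt : ∀ q ∈ K \ M', S + 10 * r < ‖γ tt - q‖) (hMs : ∀ q ∈ K \ M', S + 10 * r < ‖γ ts - q‖) :
    (∀ a : ℤ × ℤ, z ∈ pvtSq δ a → a ∈ pvtbOut (pvtN8^[k] (pvtCells δ K))) ∨ ∃ x ∈ K, PvfrThree γ x (16 * r + μ) (S - μ) ts hi := by
  rcases pvtc_gl_acc hr hη hηr hδ hk hKc hKk hKb hWc hWk hd hz hp1 hfar hP4 hWm with h | h
  · exact Or.inl h
  · right
    have e8 : 8 * (2 * r) = 16 * r := by ring
    have e5 : 5 * (2 * r) = 10 * r := by ring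
    have := pvfr_arc_fwd (γ := γ) (K := K) (W := Ww) (M := M') (p0 := z) (pt := γ tt) (ps := γ ts) (u := u) (v := v) (r := 2 * r) (μ := μ) (S := S) (ts := ts) (tt := tt) (hi := hi)
      (by rw [e8]; exact harc) (by positivity) hμ (by rw [e8]; exact hS) (fun w hw => Or.inl (hWw w hw)) (by simpa using hμ) (by simpa using hμ)
      (by rw [e5]; exact hMt) (by rw [e5]; exact hMs) (by rw [e5]; exact hM0) h
    rwa [e8] at this

/-- **(ACC) FOR THE FRONT OF `s`** (backward witness) -/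
theorem pvtc_gl_acc_bwd (hr : 0 < r) (hη : 0 < η) (hηr : η ≤ r) (hδ : 0 < δ) (hk : ((k : ℝ) + 1) * δ < r) (hμ : 0 ≤ μ) (hS : 16 * r + 2 * μ ≤ S)
    (hKc : IsPreconnected K) (hKk : IsCompact K) (hKb : K ⊆ pvtcRect a0 b0 c0 d0)
    (hWc : IsPreconnected (Wm ∪ Ww)) (hWk : IsCompact (Wm ∪ Ww)) (hd : Disjoint (Wm ∪ Ww) K) (hz : z ∈ Wm ∪ Ww) (hp1 : p1 ∈ Wm ∪ Ww)
    (hfar : p1 ∉ pvtcRect (a0 - (r + η)) (b0 + (r + η)) (c0 - (r + η)) (d0 + (r + η)))
    (hP4 : PvtcP4 K M' z r η) (hWm : ∀ w ∈ Wm, ∀ x ∈ K, pvtcSup (w - x) ≤ 3 * r + 2 * η → x ∈ M')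
    (harc : PvfrArc γ K Ww μ (S + 16 * r) ts hi u v) (hWw : ∀ w ∈ Ww, ∃ k, (lo ≤ k ∧ k ≤ ts) ∧ ‖w - γ k‖ ≤ μ) (hlo : ∀ q ∈ K, S < ‖γ lo - q‖)
    (hM0 : ∀ q ∈ K \ M', 3 * S + 10 * r < ‖z - q‖) (hMs : ∀ q ∈ K \ M', S + 10 * r < ‖γ ts - q‖) :
    (∀ a : ℤ × ℤ, z ∈ pvtSq δ a → a ∈ pvtbOut (pvtN8^[k] (pvtCells δ K))) ∨ ∃ x ∈ K, PvfrThree γ x (16 * r + μ) (S - μ) lo hi := by
  rcases pvtc_gl_acc hr hη hηr hδ hk hKc hKk hKb hWc hWk hd hz hp1 hfar hP4 hWm with h | h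
  · exact Or.inl h
  · right
    have e8 : 8 * (2 * r) = 16 * r := by ring
    have e5 : 5 * (2 * r) = 10 * r := by ring
    have := pvfr_arc_bwd (γ := γ) (K := K) (W := Ww) (M := M') (p0 := z) (ps := γ ts) (u := u) (v := v) (r := 2 * r) (μ := μ) (S := S) (lo := lo) (ts := ts) (hi := hi)
      (by rw [e8]; exact harc) (by positivity) hμ (by rw [e8]; exact hS) (fun w hw => Or.inl (hWw w hw)) (by simpa using hμ) hlo
      (by rw [e5]; exact hMs) (by rw [e5]; exact hM0) h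
    rwa [e8] at this

end acc

end Claimed.Agent.R289
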