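-- KEEP
import Claimed.Agent.R289.Tr.Defs
import Claimed.Agent.R289.Tr.Tower
import Claimed.Agent.R289.Pl.Geo

/-!
# Row 289 (S0537, Cardy for Poisson-Voronoi), THE WALL, FIT-DET, file Tr/FitMouth : THE MOUTH      (helper215, typist of 211, post Y of 82; prefix `pvmu_`, `Pvmu`, `pvmu`)

TEXT: `origin/helper118:notes/R289/W1_118.md` PART V (FIT-DET of record): D2, D4, V.4 (SEP), V.5 (a) (b) = (P4);   `origin/helper211:notes/R289/W2_211.md` v2, (W1) at the tip, (3P) step 1.      CONSUMERS: 151 (assembly `Tr/FitTime`), 118 (`Tr/Fit`), 62 (`Tr/FitRoof`), 209 (`Tr/FitE`).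
EVERYTHING DETERMINISTIC.      The box is `pvwSq z r` (`Tr/Defs`), the occupied edge of a position `d` is `T.seg pos d` (`Pl/Geo`; `= pvftE pos d` of 118 by `rfl`), cells `pvtSq pvtCells pvtOut` (`Tr/Poly`), blobs `pvtwN` (`Tr/Tower`).

* sec.0  the four directions `PvmuDir n`, the HEIGHT `pvmuHt z r n w` of `w` over the side of outer normal `n`: affine, 1-Lipschitz, `w ∈ pvwSq z r ↔ all four heights ≤ 0`
* sec.1  TIP EDGE `PvmuTip z r μ ϱ u v` (`u` in the box, `v` outside, length `≤ μ`, midpoint `≥ ϱ` from the corners) ⟹ THE EXIT SIDE `PvmuSide … n`: exists, unique; within `ϱ - μ` of the tip the box IS the half plane `{height ≤ 0}`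
* sec.2  THE FRONT `pvmuFront u v n t = tip + t n`: height `≥ t - μ/2`, distance `≥ t - μ/2` from the box, `[front, v]` misses the box and stays in `closedBall tip t`
* sec.3  (P4) IN CELLS: cells within `k` cells of a cell which meets `{height ≤ 0}` never enclose a cell with a point of height `> (k+2) δ`;   `pvmu_p4_pinch` = the negation of the last clause of F2 (118) / `pvtc_pinch_N` (292)
* sec.4  ABSTRACT STUB `PvmuStub T pos B a n` (both stubs of a state are instances): zigzag of occupied edges connected, inside the box (D2), the tip edge has exactly ONE end outside = the NEW end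
* sec.5  the half tip edge `[v_out, mid e]` meets no other edge (`PlGeo`; = EMB3 of 118 on any geometric plane)
* sec.6  (SEP) + the mouth: an obstacle `K` which near the tip consists of stub pieces: the two added segments miss `K`, `dist(front, K) ≥ min (t - μ/2) (ρ' - t)`, two points of `K` in the mouth are joined inside `K ∩ box`, NO PINCH IN A MOUTH
* sec.7  instances at the half states `𝔖.StubP / StubM`, `GoodOut / GoodIn` of `Tr/Defs` v2 (FACE EXIT: the abstract stub = the strand prolonged by ONE step, `a = pvasIt T s dp`, `n = np + 1`, outside end = `ap`; 46, 242)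
* sec.8  THE RADIAL FRONT `pvmuRad z v t` (v3 D5, NO corner clause): `pvmu_mouth_rad_seg`, `pvmu_mouth_rad_front` (46)
Prove IN PLACE, helpers just above the theorem.      A misfit of a statement: one line to 215.
-/

set_option autoImplicit false

namespace Claimed.Agent.R289

open Set Metric

/-! ## 0. directions and heights -/

/-- the four unit directions -/
def PvmuDir (n : ℂ) : Prop := n = 1 ∨ n = -1 ∨ n = Complex.I ∨ n = -Complex.I

/-- the height of `w` over the side of outer normal `n` of the square of centre `z` and half side `r` -/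
noncomputable def pvmuHt (z : ℂ) (r : ℝ) (n w : ℂ) : ℝ := ((w - z) * (starRingEnd ℂ) n).re - r

theorem pvmu_eqns_cite : True := by
  have := @PvmuDir.eq_1; have := @pvmuHt.eq_1
  trivial

section ht

variable {z n w w' a b : ℂ} {r c t : ℝ}

theorem pvmu_ht_one : pvmuHt z r 1 w = (w - z).re - r := by
  unfold pvmuHt
  simp

theorem pvmu_ht_neg_one : pvmuHt z r (-1) w = -(w - z).re - r := by
  unfold pvmuHt
  simp

theorem pvmu_ht_I : pvmuHt z r Complex.I w = (w - z).im - r := by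
  unfold pvmuHt
  simp

theorem pvmu_ht_neg_I : pvmuHt z r (-Complex.I) w = -(w - z).im - r := by
  unfold pvmuHt
  simp

theorem pvmu_dir_norm (hn : PvmuDir n) : ‖n‖ = 1 := by
  rcases hn with rfl | rfl | rfl | rfl <;> simp

/-- the box = the four heights are `≤ 0` -/
theorem pvmu_sq_iff : w ∈ pvwSq z r ↔ ∀ n, PvmuDir n → pvmuHt z r n w ≤ 0 := by
  constructor
  · rintro ⟨h1, h2⟩ n (rfl | rfl | rfl | rfl)
    · rw [pvmu_ht_one]; linarith [(abs_le.1 h1).2]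
    · rw [pvmu_ht_neg_one]; linarith [(abs_le.1 h1).1]
    · rw [pvmu_ht_I]; linarith [(abs_le.1 h2).2]
    · rw [pvmu_ht_neg_I]; linarith [(abs_le.1 h2).1]
  · intro h
    have a1 := h 1 (Or.inl rfl)
    have a2 := h (-1) (Or.inr (Or.inl rfl))
    have a3 := h Complex.I (Or.inr (Or.inr (Or.inl rfl)))
    have a4 := h (-Complex.I) (Or.inr (Or.inr (Or.inr rfl)))
    rw [pvmu_ht_one] at a1
    rw [pvmu_ht_neg_one] at a2
    rw [pvmu_ht_I] at a3
    rw [pvmu_ht_neg_I] at a4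
    exact ⟨abs_le.2 ⟨by linarith, by linarith⟩, abs_le.2 ⟨by linarith, by linarith⟩⟩

/-- the height is 1-Lipschitz -/
theorem pvmu_ht_lip (hn : PvmuDir n) : pvmuHt z r n w ≤ pvmuHt z r n w' + ‖w - w'‖ := by
  have h1 : ((w - z) * (starRingEnd ℂ) n).re = ((w' - z) * (starRingEnd ℂ) n).re + ((w - w') * (starRingEnd ℂ) n).re := by
    rw [← Complex.add_re]
    congr 1
    ring
  have h2 : ((w - w') * (starRingEnd ℂ) n).re ≤ ‖w - w'‖ := by
    calc ((w - w') * (starRingEnd ℂ) n).re ≤ ‖(w - w') * (starRingEnd ℂ) n‖ := Complex.re_le_norm _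
      _ = ‖w - w'‖ := by rw [norm_mul, RCLike.norm_conj, pvmu_dir_norm hn, mul_one]
  unfold pvmuHt
  linarith

/-- the height is affine -/
theorem pvmu_ht_seg (hw : w ∈ segment ℝ a b) : ∃ θ : ℝ, 0 ≤ θ ∧ θ ≤ 1 ∧ pvmuHt z r n w = (1 - θ) * pvmuHt z r n a + θ * pvmuHt z r n b := by
  obtain ⟨α, β, hα, hβ, hαβ, rfl⟩ := hw
  refine ⟨β, hβ, by linarith, ?_⟩
  have hα' : α = 1 - β := by linarith
  subst hα'
  unfold pvmuHt
  simp only [Complex.real_smul, Complex.sub_re, Complex.add_re, Complex.mul_re, Complex.ofReal_re, Complex.ofReal_im, Complex.sub_im, Complex.add_im,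
    Complex.mul_im, Complex.conj_re, Complex.conj_im]
  ring

theorem pvmu_ht_seg_le (ha : pvmuHt z r n a ≤ c) (hb : pvmuHt z r n b ≤ c) (hw : w ∈ segment ℝ a b) : pvmuHt z r n w ≤ c := by
  obtain ⟨θ, h0, h1, e⟩ := pvmu_ht_seg (z := z) (r := r) (n := n) hw
  rw [e]
  nlinarith [mul_le_mul_of_nonneg_left ha (sub_nonneg.2 h1), mul_le_mul_of_nonneg_left hb h0]

theorem pvmu_ht_seg_lt (ha : c < pvmuHt z r n a) (hb : c < pvmuHt z r n b) (hw : w ∈ segment ℝ a b) : c < pvmuHt z r n w := by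
  obtain ⟨θ, h0, h1, e⟩ := pvmu_ht_seg (z := z) (r := r) (n := n) hw
  rw [e]
  rcases lt_or_ge θ (1 / 2) with h | h
  · have a1 : 0 < (1 - θ) * (pvmuHt z r n a - c) := mul_pos (by linarith) (by linarith)
    have a2 : 0 ≤ θ * (pvmuHt z r n b - c) := mul_nonneg h0 (by linarith)
    nlinarith
  · have a1 : 0 ≤ (1 - θ) * (pvmuHt z r n a - c) := mul_nonneg (by linarith) (by linarith)
    have a2 : 0 < θ * (pvmuHt z r n b - c) := mul_pos (by linarith) (by linarith)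
    nlinarith

theorem pvmu_ht_add (hn : PvmuDir n) : pvmuHt z r n (w + (t : ℂ) * n) = pvmuHt z r n w + t := by
  rcases hn with rfl | rfl | rfl | rfl
  · rw [pvmu_ht_one, pvmu_ht_one]
    simp
    ring
  · rw [pvmu_ht_neg_one, pvmu_ht_neg_one]
    simp
    ring
  · rw [pvmu_ht_I, pvmu_ht_I]
    simp
    ring
  · rw [pvmu_ht_neg_I, pvmu_ht_neg_I]
    simp
    ring

/-- a point outside the fattened box has a large height over one of the four sides -/
theorem pvmu_ht_of_not_mem (hw : w ∉ pvwSq z (r + c)) : ∃ n, PvmuDir n ∧ c < pvmuHt z r n w := by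
  have hw' : ¬ (|(w - z).re| ≤ r + c ∧ |(w - z).im| ≤ r + c) := hw
  rw [not_and_or, not_le, not_le] at hw'
  rcases hw' with h | h
  · rcases lt_abs.1 h with h | h
    · exact ⟨1, Or.inl rfl, by rw [pvmu_ht_one]; linarith⟩
    · exact ⟨-1, Or.inr (Or.inl rfl), by rw [pvmu_ht_neg_one]; linarith⟩
  · rcases lt_abs.1 h with h | h
    · exact ⟨Complex.I, Or.inr (Or.inr (Or.inl rfl)), by rw [pvmu_ht_I]; linarith⟩
    · exact ⟨-Complex.I, Or.inr (Or.inr (Or.inr rfl)), by rw [pvmu_ht_neg_I]; linarith⟩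

theorem pvmu_sq_convex (z : ℂ) (r : ℝ) : Convex ℝ (pvwSq z r) := by
  intro a ha b hb s t hs ht hst
  obtain ⟨a1, a2⟩ := ha
  obtain ⟨b1, b2⟩ := hb
  rw [abs_le] at a1 a2 b1 b2
  have e1 : (s • a + t • b - z).re = s * (a - z).re + t * (b - z).re := by
    have : z.re = (s + t) * z.re := by rw [hst, one_mul]
    simp only [Complex.sub_re, Complex.add_re, Complex.real_smul, Complex.mul_re, Complex.ofReal_re, Complex.ofReal_im, zero_mul, sub_zero]
    linear_combination -this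
  have e2 : (s • a + t • b - z).im = s * (a - z).im + t * (b - z).im := by
    have : z.im = (s + t) * z.im := by rw [hst, one_mul]
    simp only [Complex.sub_im, Complex.add_im, Complex.real_smul, Complex.mul_im, Complex.ofReal_re, Complex.ofReal_im, zero_mul, add_zero]
    linear_combination -this
  have hr : r = s * r + t * r := by rw [← add_mul, hst, one_mul]
  refine ⟨?_, ?_⟩
  · rw [e1, abs_le]
    constructor
    · have h1 := mul_le_mul_of_nonneg_left a1.1 hs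
      have h2 := mul_le_mul_of_nonneg_left b1.1 ht
      linarith
    · have h1 := mul_le_mul_of_nonneg_left a1.2 hs
      have h2 := mul_le_mul_of_nonneg_left b1.2 ht
      linarith
  · rw [e2, abs_le]
    constructor
    · have h1 := mul_le_mul_of_nonneg_left a2.1 hs
      have h2 := mul_le_mul_of_nonneg_left b2.1 ht
      linarith
    · have h1 := mul_le_mul_of_nonneg_left a2.2 hs
      have h2 := mul_le_mul_of_nonneg_left b2.2 ht
      linarith

theorem pvmu_ball_sub_sq (z : ℂ) (r : ℝ) : closedBall z r ⊆ pvwSq z r := by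
  intro w hw
  rw [mem_closedBall, dist_eq_norm] at hw
  exact ⟨(Complex.abs_re_le_norm _).trans hw, (Complex.abs_im_le_norm _).trans hw⟩

theorem pvmu_sq_sub_ball (z : ℂ) (r : ℝ) : pvwSq z r ⊆ closedBall z (2 * r) := by
  rintro w ⟨h1, h2⟩
  rw [mem_closedBall, dist_eq_norm]
  have := Complex.norm_le_abs_re_add_abs_im (w - z)
  linarith

end ht

/-! ## 1. the tip edge and the exit side -/

/-- **TIP EDGE** of the box: `u` inside, `v` outside, length `≤ μ`, the midpoint at distance `≥ ϱ` from the four corners -/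
structure PvmuTip (z : ℂ) (r μ ϱ : ℝ) (u v : ℂ) : Prop where
  inn : u ∈ pvwSq z r
  out : v ∉ pvwSq z r
  len : ‖u - v‖ ≤ μ
  corner : ∀ a b : ℝ, |a| = r → |b| = r → ϱ ≤ ‖(u + v) / 2 - (z + (⟨a, b⟩ : ℂ))‖

/-- `n` = the outer normal of **THE EXIT SIDE**: within `ϱ - μ` of the tip the box is the half plane `{height ≤ 0}` -/
structure PvmuSide (z : ℂ) (r μ ϱ : ℝ) (u v n : ℂ) : Prop where
  dir : PvmuDir n
  out : 0 < pvmuHt z r n v
  mid_le : pvmuHt z r n ((u + v) / 2) ≤ μ / 2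
  mid_ge : -(μ / 2) ≤ pvmuHt z r n ((u + v) / 2)
  half : ∀ w, ‖w - (u + v) / 2‖ ≤ ϱ - μ → (w ∈ pvwSq z r ↔ pvmuHt z r n w ≤ 0)

section side

variable {z u v n n' : ℂ} {r μ ϱ t : ℝ}

/-- the case of the right side -/
theorem pvmu_side_one (h : PvmuTip z r μ ϱ u v) (hμ : μ < ϱ) (hv : 0 < pvmuHt z r 1 v) : PvmuSide z r μ ϱ u v 1 := by
  have ht1 : ∀ w : ℂ, pvmuHt z r 1 w = (w - z).re - r := fun w => by
    unfold pvmuHt
    rw [map_one, mul_one]
  rw [ht1] at hv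
  obtain ⟨u1, u2⟩ := h.inn
  rw [abs_le] at u1 u2
  have l1 : |(u - v).re| ≤ μ := (Complex.abs_re_le_norm _).trans h.len
  have l2 : |(u - v).im| ≤ μ := (Complex.abs_im_le_norm _).trans h.len
  rw [abs_le] at l1 l2
  have hr0 : 0 ≤ r := by linarith [u1.1, u1.2]
  have hμ0 : 0 ≤ μ := (norm_nonneg _).trans h.len
  simp only [Complex.sub_re, Complex.sub_im] at u1 u2 l1 l2 hv
  have mre : ((u + v) / 2 : ℂ).re = (u.re + v.re) / 2 := by
    have : ((u + v) / 2 : ℂ) = ((1 / 2 : ℝ) : ℂ) * (u + v) := by push_cast; ring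
    rw [this, Complex.re_ofReal_mul, Complex.add_re]; ring
  have mim : ((u + v) / 2 : ℂ).im = (u.im + v.im) / 2 := by
    have : ((u + v) / 2 : ℂ) = ((1 / 2 : ℝ) : ℂ) * (u + v) := by push_cast; ring
    rw [this, Complex.im_ofReal_mul, Complex.add_im]; ring
  -- the two right corners
  have c1 := h.corner r r (abs_of_nonneg hr0) (abs_of_nonneg hr0)
  have c2 := h.corner r (-r) (abs_of_nonneg hr0) (by rw [abs_neg, abs_of_nonneg hr0])
  have d1 := Complex.norm_le_abs_re_add_abs_im ((u + v) / 2 - (z + (⟨r, r⟩ : ℂ)))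
  have d2 := Complex.norm_le_abs_re_add_abs_im ((u + v) / 2 - (z + (⟨r, -r⟩ : ℂ)))
  simp only [Complex.sub_re, Complex.sub_im, Complex.add_re, Complex.add_im, mre, mim] at d1 d2
  have x1 : |(u.re + v.re) / 2 - (z.re + r)| ≤ μ / 2 := by
    rw [abs_le]; constructor <;> linarith [l1.1, l1.2, u1.1, u1.2]
  have y1 : ϱ - μ / 2 ≤ |(u.im + v.im) / 2 - (z.im + r)| := by linarith
  have y2 : ϱ - μ / 2 ≤ |(u.im + v.im) / 2 - (z.im + -r)| := by linarith
  have m1 : (u.im + v.im) / 2 - (z.im + r) ≤ -(ϱ - μ / 2) := by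
    rcases le_abs'.1 y1 with hh | hh
    · exact hh
    · exfalso; linarith [l2.1, l2.2, u2.1, u2.2]
  have m2 : ϱ - μ / 2 ≤ (u.im + v.im) / 2 - (z.im + -r) := by
    rcases le_abs'.1 y2 with hh | hh
    · exfalso; linarith [l2.1, l2.2, u2.1, u2.2]
    · exact hh
  refine ⟨Or.inl rfl, by rw [ht1]; simpa using hv, ?_, ?_, fun w hw => ?_⟩
  · rw [ht1, Complex.sub_re, mre]; linarith [l1.1, l1.2, u1.1, u1.2]
  · rw [ht1, Complex.sub_re, mre]; linarith [l1.1, l1.2, u1.1, u1.2]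
  · rw [ht1]
    have w1 : |(w - (u + v) / 2).re| ≤ ϱ - μ := (Complex.abs_re_le_norm _).trans hw
    have w2 : |(w - (u + v) / 2).im| ≤ ϱ - μ := (Complex.abs_im_le_norm _).trans hw
    rw [abs_le] at w1 w2
    simp only [Complex.sub_re, Complex.sub_im, mre, mim] at w1 w2
    constructor
    · rintro ⟨a1, -⟩
      linarith [(abs_le.1 a1).2]
    · intro hle
      rw [Complex.sub_re] at hle
      refine ⟨?_, ?_⟩
      · rw [abs_le, Complex.sub_re]
        constructor <;> linarith [w1.1, w1.2, l1.1, l1.2]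
      · rw [abs_le, Complex.sub_im]
        constructor <;> linarith [w2.1, w2.2]

/-- the tip edge is turned by a quarter -/
theorem pvmu_tip_rot (h : PvmuTip z r μ ϱ u v) : PvmuTip (Complex.I * z) r μ ϱ (Complex.I * u) (Complex.I * v) := by
  have hsq : ∀ w : ℂ, Complex.I * w ∈ pvwSq (Complex.I * z) r ↔ w ∈ pvwSq z r := by
    intro w
    unfold pvwSq
    simp only [mem_ofPred_eq, ← mul_sub, Complex.I_mul_re, Complex.I_mul_im, abs_neg]
    exact and_comm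
  refine ⟨(hsq u).2 h.inn, fun hc => h.out ((hsq v).1 hc), ?_, fun a b ha hb => ?_⟩
  · rw [← mul_sub, norm_mul, Complex.norm_I, one_mul]
    exact h.len
  · have e : (Complex.I * u + Complex.I * v) / 2 - (Complex.I * z + (⟨a, b⟩ : ℂ)) = Complex.I * ((u + v) / 2 - (z + (⟨b, -a⟩ : ℂ))) := by
      apply Complex.ext
      · simp only [Complex.sub_re, Complex.add_re, Complex.I_mul_re, Complex.sub_im, Complex.add_im, Complex.div_ofNat_re, Complex.div_ofNat_im]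
        ring
      · simp only [Complex.sub_re, Complex.add_re, Complex.I_mul_im, Complex.sub_im, Complex.add_im, Complex.div_ofNat_re, Complex.div_ofNat_im]
    rw [e, norm_mul, Complex.norm_I, one_mul]
    exact h.corner b (-a) hb (by rw [abs_neg]; exact ha)

theorem pvmu_ht_rot (w : ℂ) : pvmuHt (Complex.I * z) r (Complex.I * n) (Complex.I * w) = pvmuHt z r n w := by
  unfold pvmuHt
  have e : (Complex.I * w - Complex.I * z) * (starRingEnd ℂ) (Complex.I * n) = (w - z) * (starRingEnd ℂ) n := by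
    rw [map_mul, Complex.conj_I]
    linear_combination (-(w - z) * (starRingEnd ℂ) n) * Complex.I_sq
  rw [e]

theorem pvmu_sq_rot (w : ℂ) : Complex.I * w ∈ pvwSq (Complex.I * z) r ↔ w ∈ pvwSq z r := by
  simp only [pvwSq, Set.mem_ofPred_eq, ← mul_sub, Complex.mul_re, Complex.mul_im, Complex.I_re, Complex.I_im, zero_mul, one_mul, zero_sub, zero_add, abs_neg]
  exact and_comm

theorem pvmu_side_unrot (h : PvmuSide (Complex.I * z) r μ ϱ (Complex.I * u) (Complex.I * v) (Complex.I * n)) : PvmuSide z r μ ϱ u v n := by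
  have hmid : (Complex.I * u + Complex.I * v) / 2 = Complex.I * ((u + v) / 2) := by ring
  refine ⟨?_, ?_, ?_, ?_, ?_⟩
  · have hI : Complex.I * Complex.I = -1 := Complex.I_mul_I
    have hn : n = -(Complex.I * (Complex.I * n)) := by rw [← mul_assoc, hI]; ring
    rcases h.dir with h1 | h1 | h1 | h1
    · right; right; right; rw [hn, h1, mul_one]
    · right; right; left; rw [hn, h1]; ring
    · left; rw [hn, h1, hI]; ring
    · right; left; rw [hn, h1, mul_neg, hI]; ring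
  · have := h.out; rwa [pvmu_ht_rot] at this
  · have := h.mid_le; rwa [hmid, pvmu_ht_rot] at this
  · have := h.mid_ge; rwa [hmid, pvmu_ht_rot] at this
  · intro w hw
    have := h.half (Complex.I * w) (by rw [hmid, ← mul_sub, norm_mul, Complex.norm_I, one_mul]; exact hw)
    rwa [pvmu_sq_rot, pvmu_ht_rot] at this

/-- **THE EXIT SIDE EXISTS** -/
theorem pvmu_side_exists (h : PvmuTip z r μ ϱ u v) (hμ : μ < ϱ) : ∃ n, PvmuSide z r μ ϱ u v n := by
  have hA1 : ∀ z u v : ℂ, PvmuTip z r μ ϱ u v → 0 < pvmuHt z r 1 v → PvmuSide z r μ ϱ u v 1 :=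
    fun z u v h hv => pvmu_side_one h hμ hv
  have hstep : ∀ n : ℂ, (∀ z u v : ℂ, PvmuTip z r μ ϱ u v → 0 < pvmuHt z r (Complex.I * n) v → PvmuSide z r μ ϱ u v (Complex.I * n)) →
      ∀ z u v : ℂ, PvmuTip z r μ ϱ u v → 0 < pvmuHt z r n v → PvmuSide z r μ ϱ u v n := by
    intro n hn z u v h hv
    exact pvmu_side_unrot (hn _ _ _ (pvmu_tip_rot h) (by rw [pvmu_ht_rot]; exact hv))
  have hA2 : ∀ z u v : ℂ, PvmuTip z r μ ϱ u v → 0 < pvmuHt z r (-Complex.I) v → PvmuSide z r μ ϱ u v (-Complex.I) := by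
    apply hstep
    have : Complex.I * (-Complex.I) = 1 := by rw [mul_neg, Complex.I_mul_I, neg_neg]
    rw [this]; exact hA1
  have hA3 : ∀ z u v : ℂ, PvmuTip z r μ ϱ u v → 0 < pvmuHt z r (-1) v → PvmuSide z r μ ϱ u v (-1) := by
    apply hstep
    have : Complex.I * (-1) = -Complex.I := by rw [mul_neg, mul_one]
    rw [this]; exact hA2
  have hA4 : ∀ z u v : ℂ, PvmuTip z r μ ϱ u v → 0 < pvmuHt z r Complex.I v → PvmuSide z r μ ϱ u v Complex.I := by
    apply hstep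
    rw [Complex.I_mul_I]; exact hA3
  have hout := h.out
  rw [pvmu_sq_iff] at hout
  push Not at hout
  obtain ⟨n, hn, hv⟩ := hout
  rcases hn with rfl | rfl | rfl | rfl
  · exact ⟨_, hA1 _ _ _ h hv⟩
  · exact ⟨_, hA3 _ _ _ h hv⟩
  · exact ⟨_, hA4 _ _ _ h hv⟩
  · exact ⟨_, hA2 _ _ _ h hv⟩

theorem pvmu_corner_aux (h : PvmuTip z r μ ϱ u v) (hμ : μ < ϱ) (sa sb : ℝ) (hsa : sa = 1 ∨ sa = -1) (hsb : sb = 1 ∨ sb = -1) :
    ¬ (r < sa * (v - z).re ∧ r < sb * (v - z).im) := by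
  rintro ⟨h1, h2⟩
  have hu := h.inn
  have hr : 0 ≤ r := le_trans (abs_nonneg _) hu.1
  have hu1 := abs_le.1 hu.1
  have hu2 := abs_le.1 hu.2
  have hc := h.corner (sa * r) (sb * r) (by rcases hsa with rfl | rfl <;> simp [abs_of_nonneg hr]) (by rcases hsb with rfl | rfl <;> simp [abs_of_nonneg hr])
  have hle : ‖(u + v) / 2 - (z + (⟨sa * r, sb * r⟩ : ℂ))‖ ≤ ‖(u - v) / 2‖ := by
    rw [← sq_le_sq₀ (norm_nonneg _) (norm_nonneg _), Complex.sq_norm, Complex.sq_norm, Complex.normSq_apply, Complex.normSq_apply]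
    have e1 : ((u + v) / 2 - (z + (⟨sa * r, sb * r⟩ : ℂ))).re = (u.re + v.re) / 2 - (z.re + sa * r) := by
      simp
    have e2 : ((u + v) / 2 - (z + (⟨sa * r, sb * r⟩ : ℂ))).im = (u.im + v.im) / 2 - (z.im + sb * r) := by
      simp
    have e3 : ((u - v) / 2).re = (u.re - v.re) / 2 := by simp
    have e4 : ((u - v) / 2).im = (u.im - v.im) / 2 := by simp
    rw [e1, e2, e3, e4]
    simp only [Complex.sub_re, Complex.sub_im] at h1 h2 hu1 hu2
    have k1 : 0 ≤ -((v.re - z.re - sa * r) * (u.re - z.re - sa * r)) := by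
      rcases hsa with rfl | rfl
      · nlinarith [mul_nonneg (by linarith : (0:ℝ) ≤ v.re - z.re - 1 * r) (by linarith : (0:ℝ) ≤ -(u.re - z.re - 1 * r))]
      · nlinarith [mul_nonneg (by linarith : (0:ℝ) ≤ -(v.re - z.re - (-1) * r)) (by linarith : (0:ℝ) ≤ (u.re - z.re - (-1) * r))]
    have k2 : 0 ≤ -((v.im - z.im - sb * r) * (u.im - z.im - sb * r)) := by
      rcases hsb with rfl | rfl
      · nlinarith [mul_nonneg (by linarith : (0:ℝ) ≤ v.im - z.im - 1 * r) (by linarith : (0:ℝ) ≤ -(u.im - z.im - 1 * r))]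
      · nlinarith [mul_nonneg (by linarith : (0:ℝ) ≤ -(v.im - z.im - (-1) * r)) (by linarith : (0:ℝ) ≤ (u.im - z.im - (-1) * r))]
    nlinarith [k1, k2]
  have hlen := h.len
  have h3 : ‖(u - v) / 2‖ = ‖u - v‖ / 2 := by rw [norm_div]; norm_num
  have := norm_nonneg (u - v)
  linarith

/-- **THE EXIT SIDE IS UNIQUE** -/
theorem pvmu_side_unique (h : PvmuTip z r μ ϱ u v) (hμ : μ < ϱ) (h1 : PvmuSide z r μ ϱ u v n) (hn' : PvmuDir n') (h2 : 0 < pvmuHt z r n' v) : n' = n := by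
  have hu := h.inn
  have hr : 0 ≤ r := le_trans (abs_nonneg _) hu.1
  have hc := pvmu_corner_aux h hμ
  have h1o := h1.out
  have hu1 := abs_le.1 hu.1
  have hu2 := abs_le.1 hu.2
  rcases h1.dir with rfl | rfl | rfl | rfl <;> rcases hn' with rfl | rfl | rfl | rfl <;>
    first
    | rfl
    | (exfalso
       simp only [pvmu_ht_one, pvmu_ht_neg_one, pvmu_ht_I, pvmu_ht_neg_I] at h1o h2
       first
       | linarith
       | exact hc 1 1 (Or.inl rfl) (Or.inl rfl) ⟨by linarith, by linarith⟩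
       | exact hc 1 (-1) (Or.inl rfl) (Or.inr rfl) ⟨by linarith, by linarith⟩
       | exact hc (-1) 1 (Or.inr rfl) (Or.inl rfl) ⟨by linarith, by linarith⟩
       | exact hc (-1) (-1) (Or.inr rfl) (Or.inr rfl) ⟨by linarith, by linarith⟩)

end side

/-! ## 2. the front -/

/-- **THE FRONT** `f = tip + t n` -/
noncomputable def pvmuFront (u v n : ℂ) (t : ℝ) : ℂ := (u + v) / 2 + (t : ℂ) * n

theorem pvmu_eqns_cite2 : True := by
  have := @pvmuFront.eq_1
  trivial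

section front

variable {z u v n : ℂ} {r μ ϱ t : ℝ}

theorem pvmu_front_ht (h : PvmuSide z r μ ϱ u v n) : t - μ / 2 ≤ pvmuHt z r n (pvmuFront u v n t) := by
  have h1 : pvmuHt z r n (pvmuFront u v n t) = pvmuHt z r n ((u + v) / 2) + t := by
    unfold pvmuFront
    exact pvmu_ht_add h.dir
  have := h.mid_ge
  linarith

theorem pvmu_front_dist (hn : PvmuDir n) (ht : 0 ≤ t) : ‖pvmuFront u v n t - (u + v) / 2‖ = t := by
  unfold pvmuFront
  rw [add_sub_cancel_left, norm_mul, pvmu_dir_norm hn, mul_one, Complex.norm_real, Real.norm_eq_abs, abs_of_nonneg ht]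

/-- the front is far from the box -/
theorem pvmu_front_far (h : PvmuSide z r μ ϱ u v n) : ∀ w ∈ pvwSq z r, t - μ / 2 ≤ ‖pvmuFront u v n t - w‖ := by
  intro w hw
  have h1 := pvmu_front_ht (t := t) h
  have h2 := pvmu_ht_lip (z := z) (r := r) (w := pvmuFront u v n t) (w' := w) h.dir
  have h3 := pvmu_sq_iff.1 hw n h.dir
  linarith

/-- the added segment `[f, v_out]` misses the box -/
theorem pvmu_front_seg (h : PvmuSide z r μ ϱ u v n) (ht : μ / 2 < t) : Disjoint (segment ℝ (pvmuFront u v n t) v) (pvwSq z r) := by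
  rw [Set.disjoint_left]
  intro w hw hsq
  have h1 : (0 : ℝ) < pvmuHt z r n (pvmuFront u v n t) := by
    have := pvmu_front_ht (t := t) h
    linarith
  have h2 := pvmu_ht_seg_lt h1 h.out hw
  have h3 := pvmu_sq_iff.1 hsq n h.dir
  linarith

/-- the added segment `[f, v_out]` stays in the half mouth -/
theorem pvmu_front_seg_ball (hn : PvmuDir n) (hlen : ‖u - v‖ ≤ μ) (ht : μ / 2 ≤ t) : segment ℝ (pvmuFront u v n t) v ⊆ closedBall ((u + v) / 2) t := by
  have hμ : 0 ≤ μ := le_trans (norm_nonneg _) hlen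
  have ht0 : 0 ≤ t := by linarith
  refine (convex_closedBall _ _).segment_subset ?_ ?_
  · rw [mem_closedBall, dist_eq_norm, pvmu_front_dist hn ht0]
  · rw [mem_closedBall, dist_eq_norm]
    have e : v - (u + v) / 2 = -((u - v) / 2) := by ring
    rw [e, norm_neg, norm_div]
    have : ‖(2 : ℂ)‖ = 2 := by simp
    rw [this]
    linarith

/-- the half tip edge -/
theorem pvmu_half_ball (hlen : ‖u - v‖ ≤ μ) : segment ℝ v ((u + v) / 2) ⊆ closedBall ((u + v) / 2) (μ / 2) := by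
  have hμ : 0 ≤ μ := le_trans (norm_nonneg _) hlen
  refine (convex_closedBall _ _).segment_subset ?_ ?_
  · rw [mem_closedBall, dist_eq_norm]
    have e : v - (u + v) / 2 = -((u - v) / 2) := by ring
    rw [e, norm_neg, norm_div]
    have : ‖(2 : ℂ)‖ = 2 := by simp
    rw [this]
    linarith
  · rw [mem_closedBall, dist_self]
    linarith

end front

/-! ## 3. (P4) in cells -/

section cells

variable {z n f p p' : ℂ} {r δ : ℝ} {X : Set (ℤ × ℤ)} {k : ℕ} {zf u u' : ℤ × ℤ}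

/-- two points of one closed cell: heights differ by at most `δ` -/
theorem pvmu_cell_ht (hn : PvmuDir n) {c : ℤ × ℤ} {q q' : ℂ} (hq : q ∈ pvtSq δ c) (hq' : q' ∈ pvtSq δ c) : pvmuHt z r n q ≤ pvmuHt z r n q' + δ := by
  obtain ⟨a1, a2, a3, a4⟩ := hq
  obtain ⟨b1, b2, b3, b4⟩ := hq'
  rcases hn with rfl | rfl | rfl | rfl
  · rw [pvmu_ht_one, pvmu_ht_one]; simp only [Complex.sub_re]; linarith
  · rw [pvmu_ht_neg_one, pvmu_ht_neg_one]; simp only [Complex.sub_re]; linarith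
  · rw [pvmu_ht_I, pvmu_ht_I]; simp only [Complex.sub_im]; linarith
  · rw [pvmu_ht_neg_I, pvmu_ht_neg_I]; simp only [Complex.sub_im]; linarith

/-- points of two cells at sup-distance `≤ k`: heights differ by at most `(k+1) δ` -/
theorem pvmu_blob_ht (hδ : 0 ≤ δ) (hn : PvmuDir n) {c c' : ℤ × ℤ} {q q' : ℂ} (hc : c ∈ pvtwN k {c'}) (hq : q ∈ pvtSq δ c) (hq' : q' ∈ pvtSq δ c') :
    pvmuHt z r n q ≤ pvmuHt z r n q' + ((k : ℝ) + 1) * δ := by
  obtain ⟨a1, a2, a3, a4⟩ := hq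
  obtain ⟨b1, b2, b3, b4⟩ := hq'
  obtain ⟨c0, hc0, g1, g2, g3, g4⟩ := hc
  rw [Set.mem_singleton_iff] at hc0
  subst hc0
  have G1 : (c.1 : ℝ) ≤ c0.1 + k := by exact_mod_cast g1
  have G2 : (c0.1 : ℝ) ≤ c.1 + k := by exact_mod_cast g2
  have G3 : (c.2 : ℝ) ≤ c0.2 + k := by exact_mod_cast g3
  have G4 : (c0.2 : ℝ) ≤ c.2 + k := by exact_mod_cast g4
  have M1 := mul_le_mul_of_nonneg_right G1 hδ
  have M2 := mul_le_mul_of_nonneg_right G2 hδ
  have M3 := mul_le_mul_of_nonneg_right G3 hδ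
  have M4 := mul_le_mul_of_nonneg_right G4 hδ
  rcases hn with rfl | rfl | rfl | rfl
  · rw [pvmu_ht_one, pvmu_ht_one]; simp only [Complex.sub_re]; nlinarith
  · rw [pvmu_ht_neg_one, pvmu_ht_neg_one]; simp only [Complex.sub_re]; nlinarith
  · rw [pvmu_ht_I, pvmu_ht_I]; simp only [Complex.sub_im]; nlinarith
  · rw [pvmu_ht_neg_I, pvmu_ht_neg_I]; simp only [Complex.sub_im]; nlinarith

/-- **(P4), cell form**: a finite set of cells, each within `k` cells of a cell which meets `{height ≤ 0}`, does not enclose a cell with a point of height `> (k+2) δ` -/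
theorem pvmu_p4 (hδ : 0 < δ) (hn : PvmuDir n) (hX : X.Finite) (hXk : ∀ c ∈ X, ∃ c', c ∈ pvtwN k {c'} ∧ ∃ q ∈ pvtSq δ c', pvmuHt z r n q ≤ 0)
    (hf : f ∈ pvtSq δ zf) (hH : ((k : ℝ) + 2) * δ < pvmuHt z r n f) : zf ∈ pvtOut X := by
  have hlow : ∀ c ∈ X, ∀ q ∈ pvtSq δ c, pvmuHt z r n q ≤ ((k : ℝ) + 1) * δ := by
    intro c hc q hq
    obtain ⟨c', hcc, q', hq', h0⟩ := hXk c hc
    have := pvmu_blob_ht (z := z) (r := r) hδ.le hn hcc hq hq'
    linarith
  -- a cell with a point of height `> (k+1) δ` is not in `X`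
  have hoff : ∀ c : ℤ × ℤ, ∀ s : ℝ, 0 ≤ s → f + (s : ℂ) * n ∈ pvtSq δ c → c ∉ X := by
    intro c s hs hmem hc
    have h1 := hlow c hc _ hmem
    rw [pvmu_ht_add hn] at h1
    nlinarith
  obtain ⟨a, b, c, d, hbox⟩ := pvt_finite_sub_box hX
  obtain ⟨f1, f2, f3, f4⟩ := hf
  rcases hn with rfl | rfl | rfl | rfl
  · -- to the right
    have hray : ∀ x : ℤ, zf.1 ≤ x → (x, zf.2) ∈ Xᶜ := by
      intro x hx
      have hx' : (0 : ℝ) ≤ ((x : ℝ) - zf.1) := by
        have : (zf.1 : ℝ) ≤ x := by exact_mod_cast hx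
        linarith
      refine hoff _ (((x : ℝ) - zf.1) * δ) (mul_nonneg hx' hδ.le) ?_
      simp only [pvtSq, Set.mem_ofPred_eq, Complex.add_re, Complex.add_im, Complex.mul_re, Complex.mul_im, Complex.ofReal_re, Complex.ofReal_im,
        Complex.one_re, Complex.one_im]
      refine ⟨by nlinarith, by nlinarith, by nlinarith, by nlinarith⟩
    refine pvt_out_R (pvt_out_of_box (z := (max zf.1 (b + 1), zf.2)) hbox ?_) ?_
    · simp only [Claimed.Agent.R291.tscBox, Set.mem_ofPred_eq]; omega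
    · have : Claimed.Agent.R291.TscR Claimed.Agent.R291.tscG Xᶜ (max zf.1 (b + 1), zf.2) (zf.1, zf.2) := Claimed.Agent.R291.tsc_R_hseg (fun x h1 _ => hray x (by omega))
      exact this
  · have hray : ∀ x : ℤ, x ≤ zf.1 → (x, zf.2) ∈ Xᶜ := by
      intro x hx
      have hx' : (0 : ℝ) ≤ ((zf.1 : ℝ) - x) := by
        have : (x : ℝ) ≤ zf.1 := by exact_mod_cast hx
        linarith
      refine hoff _ (((zf.1 : ℝ) - x) * δ) (mul_nonneg hx' hδ.le) ?_
      simp only [pvtSq, Set.mem_ofPred_eq, Complex.add_re, Complex.add_im, Complex.mul_re, Complex.mul_im, Complex.ofReal_re, Complex.ofReal_im,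
        Complex.one_re, Complex.one_im, Complex.neg_re, Complex.neg_im]
      refine ⟨by nlinarith, by nlinarith, by nlinarith, by nlinarith⟩
    refine pvt_out_R (pvt_out_of_box (z := (min zf.1 (a - 1), zf.2)) hbox ?_) ?_
    · simp only [Claimed.Agent.R291.tscBox, Set.mem_ofPred_eq]; omega
    · have : Claimed.Agent.R291.TscR Claimed.Agent.R291.tscG Xᶜ (min zf.1 (a - 1), zf.2) (zf.1, zf.2) := Claimed.Agent.R291.tsc_R_hseg (fun x _ h1 => hray x (by omega))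
      exact this
  · have hray : ∀ y : ℤ, zf.2 ≤ y → (zf.1, y) ∈ Xᶜ := by
      intro x hx
      have hx' : (0 : ℝ) ≤ ((x : ℝ) - zf.2) := by
        have : (zf.2 : ℝ) ≤ x := by exact_mod_cast hx
        linarith
      refine hoff _ (((x : ℝ) - zf.2) * δ) (mul_nonneg hx' hδ.le) ?_
      simp only [pvtSq, Set.mem_ofPred_eq, Complex.add_re, Complex.add_im, Complex.mul_re, Complex.mul_im, Complex.ofReal_re, Complex.ofReal_im,
        Complex.I_re, Complex.I_im]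
      refine ⟨by nlinarith, by nlinarith, by nlinarith, by nlinarith⟩
    refine pvt_out_R (pvt_out_of_box (z := (zf.1, max zf.2 (d + 1))) hbox ?_) ?_
    · simp only [Claimed.Agent.R291.tscBox, Set.mem_ofPred_eq]; omega
    · have : Claimed.Agent.R291.TscR Claimed.Agent.R291.tscG Xᶜ (zf.1, max zf.2 (d + 1)) (zf.1, zf.2) := Claimed.Agent.R291.tsc_R_vseg (fun x h1 _ => hray x (by omega))
      exact this
  · have hray : ∀ y : ℤ, y ≤ zf.2 → (zf.1, y) ∈ Xᶜ := by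
      intro x hx
      have hx' : (0 : ℝ) ≤ ((zf.2 : ℝ) - x) := by
        have : (x : ℝ) ≤ zf.2 := by exact_mod_cast hx
        linarith
      refine hoff _ (((zf.2 : ℝ) - x) * δ) (mul_nonneg hx' hδ.le) ?_
      simp only [pvtSq, Set.mem_ofPred_eq, Complex.add_re, Complex.add_im, Complex.mul_re, Complex.mul_im, Complex.ofReal_re, Complex.ofReal_im,
        Complex.I_re, Complex.I_im, Complex.neg_re, Complex.neg_im]
      refine ⟨by nlinarith, by nlinarith, by nlinarith, by nlinarith⟩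
    refine pvt_out_R (pvt_out_of_box (z := (zf.1, min zf.2 (c - 1))) hbox ?_) ?_
    · simp only [Claimed.Agent.R291.tscBox, Set.mem_ofPred_eq]; omega
    · have : Claimed.Agent.R291.TscR Claimed.Agent.R291.tscG Xᶜ (zf.1, min zf.2 (c - 1)) (zf.1, zf.2) := Claimed.Agent.R291.tsc_R_vseg (fun x _ h1 => hray x (by omega))
      exact this

/-- **(P4) against the last clause of F2 / `pvtc_pinch_N`**: stretch `K'` in the half plane, the two jaws `p ∈ u`, `p' ∈ u'` in the half plane -/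
theorem pvmu_p4_pinch (hδ : 0 < δ) (hn : PvmuDir n) {K' : Set ℂ} (hb : Bornology.IsBounded K') (hK' : ∀ q ∈ K', pvmuHt z r n q ≤ 0)
    (hp : p ∈ pvtSq δ u) (hp0 : pvmuHt z r n p ≤ 0) (hp' : p' ∈ pvtSq δ u') (hp0' : pvmuHt z r n p' ≤ 0)
    (hf : f ∈ pvtSq δ zf) (hH : ((k : ℝ) + 2) * δ < pvmuHt z r n f) : zf ∈ pvtOut (pvtCells δ K' ∪ pvtwN k {u} ∪ pvtwN k {u'}) := by
  refine pvmu_p4 hδ hn (((pvt_cells_finite hδ hb).union (pvtw_N_finite (Set.finite_singleton u))).union (pvtw_N_finite (Set.finite_singleton u'))) ?_ hf hH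
  rintro c ((hc | hc) | hc)
  · obtain ⟨q, hq1, hq2⟩ := hc
    exact ⟨c, pvtw_N_sub rfl, q, hq1, hK' q hq2⟩
  · exact ⟨u, hc, p, hp, hp0⟩
  · exact ⟨u', hc, p', hp', hp0'⟩

end cells

/-! ## 4. abstract stubs -/

variable {V D : Type} {T : PvMap V D}

/-- midpoint of the occupied edge of a position (`= 𝔖.mid pos d` of `Tr/Defs`) -/
noncomputable def pvmuMid (T : PvMap V D) (pos : V → ℂ) (d : D) : ℂ := (pos (T.src d) + pos (T.tgt d)) / 2

/-- **ABSTRACT STUB**: positions `a 0, …, a n`; consecutive positions share an end; all but the last have both ends in `B`; the last one has not -/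
structure PvmuStub (T : PvMap V D) (pos : V → ℂ) (B : Set ℂ) (a : ℕ → D) (n : ℕ) : Prop where
  share : ∀ i, i < n → T.src (a (i + 1)) = T.src (a i) ∨ T.tgt (a (i + 1)) = T.tgt (a i)
  inn : ∀ i, i < n → pos (T.src (a i)) ∈ B ∧ pos (T.tgt (a i)) ∈ B
  out : ¬ (pos (T.src (a n)) ∈ B ∧ pos (T.tgt (a n)) ∈ B)

/-- the stretch `i … j` of the zigzag of occupied edges -/
def pvmuZig (T : PvMap V D) (pos : V → ℂ) (a : ℕ → D) (i j : ℕ) : Set ℂ := {w | ∃ l, i ≤ l ∧ l ≤ j ∧ w ∈ T.seg pos (a l)}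

theorem pvmu_eqns_cite4 : True := by
  have := @pvmuMid.eq_1; have := @pvmuZig.eq_1
  trivial

/-- a chain of preconnected sets -/
theorem pvmu_chain_conn {P : ℕ → Set ℂ} {i j : ℕ} (hP : ∀ l, i ≤ l → l ≤ j → IsPreconnected (P l)) (hc : ∀ l, i ≤ l → l < j → (P l ∩ P (l + 1)).Nonempty) :
    IsPreconnected {w | ∃ l, i ≤ l ∧ l ≤ j ∧ w ∈ P l} := by
  have h := IsPreconnected.biUnion_of_chain (s := P) (t := Set.Icc i j) Set.ordConnected_Icc (fun l hl => hP l hl.1 hl.2)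
    (fun l hl hl' => hc l hl.1 (Nat.lt_of_succ_le hl'.2))
  convert h using 1
  ext w
  simp only [Set.mem_ofPred_eq, Set.mem_iUnion, Set.mem_Icc, exists_prop, and_assoc]

/-- the ends of the previous position -/
theorem pvmu_back_ends (s : V → Bool) (d : D) :
    (s (T.apex (T.opp d)) = true ∧ T.src (pvasBack T s d) = T.apex (T.opp d) ∧ T.tgt (pvasBack T s d) = T.tgt d) ∨
      (s (T.apex (T.opp d)) = false ∧ T.src (pvasBack T s d) = T.src d ∧ T.tgt (pvasBack T s d) = T.apex (T.opp d)) := by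
  rcases pvas_back_cases s d with ⟨h, e⟩ | ⟨h, e⟩
  · exact Or.inl ⟨h, by rw [e, T.src_nxt2], by rw [e, T.tgt_nxt2, T.src_opp']⟩
  · exact Or.inr ⟨h, by rw [e, T.src_nxt, T.tgt_opp], by rw [e, T.tgt_nxt]⟩

section stub

variable {pos : V → ℂ} {B : Set ℂ} {a : ℕ → D} {n i j : ℕ}

theorem pvmu_mid_mem (T : PvMap V D) (pos : V → ℂ) (d : D) : pvmuMid T pos d ∈ T.seg pos d := by
  refine ⟨1 / 2, 1 / 2, by norm_num, by norm_num, by norm_num, ?_⟩
  unfold pvmuMid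
  rw [Complex.real_smul, Complex.real_smul]
  push_cast
  ring

/-- a point of an edge is within half the length of the midpoint -/
theorem pvmu_seg_mid {μ : ℝ} {d : D} (hd : ‖pos (T.src d) - pos (T.tgt d)‖ ≤ μ) {w : ℂ} (hw : w ∈ T.seg pos d) : ‖w - pvmuMid T pos d‖ ≤ μ / 2 := by
  obtain ⟨c1, c2, h1, h2, h12, rfl⟩ := hw
  have e : c1 • pos (T.src d) + c2 • pos (T.tgt d) - pvmuMid T pos d = ((c1 - 1 / 2 : ℝ) : ℂ) * (pos (T.src d) - pos (T.tgt d)) := by
    have hb' : c2 = 1 - c1 := by linarith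
    subst hb'
    unfold pvmuMid
    rw [Complex.real_smul, Complex.real_smul]
    push_cast
    ring
  rw [e, norm_mul, Complex.norm_real, Real.norm_eq_abs]
  have h3 : |c1 - 1 / 2| ≤ 1 / 2 := by
    rw [abs_le]
    constructor <;> linarith
  calc |c1 - 1 / 2| * ‖pos (T.src d) - pos (T.tgt d)‖ ≤ 1 / 2 * μ := mul_le_mul h3 hd (norm_nonneg _) (by norm_num)
    _ = μ / 2 := by ring

/-- (D2) the pieces of a stub lie in the box -/
theorem pvmu_stub_in (hB : Convex ℝ B) (h : PvmuStub T pos B a n) (hi : i < n) : T.seg pos (a i) ⊆ B := by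
  exact hB.segment_subset (h.inn i hi).1 (h.inn i hi).2

theorem pvmu_stub_zig_in (hB : Convex ℝ B) (h : PvmuStub T pos B a n) (hj : j < n) : pvmuZig T pos a i j ⊆ B := by
  rintro w ⟨l, _, hl, hw⟩
  exact pvmu_stub_in hB h (lt_of_le_of_lt hl hj) hw

/-- (D1) the zigzag is connected -/
theorem pvmu_stub_zig (h : PvmuStub T pos B a n) (hi : i < n) : (T.seg pos (a i) ∩ T.seg pos (a (i + 1))).Nonempty := by
  rcases h.share i hi with h1 | h1
  · exact ⟨pos (T.src (a i)), plg_src_mem_seg T pos _, by rw [← h1]; exact plg_src_mem_seg T pos _⟩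
  · exact ⟨pos (T.tgt (a i)), plg_tgt_mem_seg T pos _, by rw [← h1]; exact plg_tgt_mem_seg T pos _⟩

theorem pvmu_stub_zig_conn (h : PvmuStub T pos B a n) (hj : j ≤ n) : IsPreconnected (pvmuZig T pos a i j) := by
  refine pvmu_chain_conn (P := fun l => T.seg pos (a l)) (fun l _ _ => (convex_segment _ _).isPreconnected) fun l _ hl => ?_
  exact pvmu_stub_zig h (lt_of_lt_of_le hl hj)

/-- (D2) **the tip edge has exactly one end outside the box**, the other end is an end of the last position but one -/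
theorem pvmu_stub_tip (h : PvmuStub T pos B a n) (hn : 0 < n) : ∃ u v : V, ((T.src (a n) = u ∧ T.tgt (a n) = v) ∨ (T.src (a n) = v ∧ T.tgt (a n) = u)) ∧
    pos u ∈ B ∧ pos v ∉ B ∧ (u = T.src (a (n - 1)) ∨ u = T.tgt (a (n - 1))) := by
  obtain ⟨m, rfl⟩ : ∃ m, n = m + 1 := ⟨n - 1, by omega⟩
  have hin := h.inn m (Nat.lt_succ_self m)
  have hout := h.out
  rw [Nat.add_sub_cancel]
  rcases h.share m (Nat.lt_succ_self m) with h1 | h1
  · refine ⟨T.src (a (m + 1)), T.tgt (a (m + 1)), Or.inl ⟨rfl, rfl⟩, by rw [h1]; exact hin.1, fun h2 => hout ⟨by rw [h1]; exact hin.1, h2⟩, Or.inl h1⟩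
  · refine ⟨T.tgt (a (m + 1)), T.src (a (m + 1)), Or.inr ⟨rfl, rfl⟩, by rw [h1]; exact hin.2, fun h2 => hout ⟨h2, by rw [h1]; exact hin.2⟩, Or.inr h1⟩

/-- no piece of the stub is the tip edge or has the outside end -/
theorem pvmu_stub_ne (h : PvmuStub T pos B a n) (hi : i < n) {v : V} (hv : pos v ∉ B) : T.src (a i) ≠ v ∧ T.tgt (a i) ≠ v ∧ a i ≠ a n ∧ a i ≠ T.opp (a n) := by
  have hin := h.inn i hi
  refine ⟨fun h1 => hv (h1 ▸ hin.1), fun h1 => hv (h1 ▸ hin.2), fun h1 => h.out (h1 ▸ hin), fun h1 => h.out ?_⟩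
  rw [h1, T.src_opp', T.tgt_opp] at hin
  exact ⟨hin.2, hin.1⟩

end stub

/-! ## 5. the half tip edge in a geometric plane -/

section emb

variable {pos : V → ℂ}

/-- (215) a point of a closed segment is on its line -/
theorem pvmu_det_seg {b c w : ℂ} (hw : w ∈ segment ℝ b c) : vorDet b c w = 0 := by
  obtain ⟨s, t, _, _, hst, rfl⟩ := hw
  rw [dela_det_affine _ _ _ _ s t hst]
  have e3 : vorDet b c b = 0 := by unfold vorDet; ring
  have e4 : vorDet b c c = 0 := by unfold vorDet; ring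
  rw [e3, e4]; ring

/-- (215) an open edge misses the two other closed edges of its face -/
theorem pvmu_sego_nxt (G : PlGeo T pos) {e : D} {w : ℂ} (hw : w ∈ T.sego pos e) : w ∉ T.seg pos (T.nxt e) ∧ w ∉ T.seg pos (T.nxt (T.nxt e)) := by
  obtain ⟨k1, k2, -⟩ := plg_side_weights (G.orient e) hw
  constructor
  · intro h
    have h' : w ∈ segment ℝ (pos (T.tgt e)) (pos (T.apex e)) := h
    rw [pvmu_det_seg h'] at k1
    exact lt_irrefl _ k1
  · intro h
    have h' : w ∈ segment ℝ (pos (T.apex e)) (pos (T.src e)) := by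
      have := h
      unfold PvMap.seg at this
      rwa [T.src_nxt2, T.tgt_nxt2] at this
    rw [pvmu_det_seg h'] at k2
    exact lt_irrefl _ k2

/-- an open edge meets a closed edge only if they are the same edge -/
theorem pvmu_sego_seg (G : PlGeo T pos) {e d : D} {w : ℂ} (hw : w ∈ T.sego pos e) (hd : w ∈ T.seg pos d) : d = e ∨ d = T.opp e := by
  rcases G.inc_edge e d w hw (plg_seg_sub_tri G d hd) with h | h
  · rcases h with rfl | rfl | rfl
    · exact Or.inl rfl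
    · exact absurd hd (pvmu_sego_nxt G hw).1
    · exact absurd hd (pvmu_sego_nxt G hw).2
  · have hw' : w ∈ T.sego pos (T.opp e) := by rw [plg_sego_opp]; exact hw
    rcases h with rfl | rfl | rfl
    · exact Or.inr rfl
    · exact absurd hd (pvmu_sego_nxt G hw').1
    · exact absurd hd (pvmu_sego_nxt G hw').2

/-- **EMB3**: the closed half tip edge `[v_out, mid e]` meets the edge `d` only if `d` has the end `v_out` or is the tip edge -/
theorem pvmu_half_edge (G : PlGeo T pos) {e d : D} {v : V} (hv : v = T.src e ∨ v = T.tgt e) (h1 : T.src d ≠ v) (h2 : T.tgt d ≠ v) (h3 : d ≠ e) (h4 : d ≠ T.opp e) :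
    Disjoint (segment ℝ (pos v) (pvmuMid T pos e)) (T.seg pos d) := by
  rw [Set.disjoint_left]
  intro w hw hd
  by_cases hwv : w = pos v
  · rcases plg_vert_seg G (hwv ▸ hd) with h | h
    · exact h1 h.symm
    · exact h2 h.symm
  · have hwe : w ∈ T.sego pos e := by
      obtain ⟨x, y, hx, hy, hxy, rfl⟩ := hw
      have hy0 : 0 < y := by
        rcases hy.lt_or_eq with h | h
        · exact h
        · exfalso; apply hwv
          have hx1 : x = 1 := by linarith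
          rw [← h, hx1]; simp
      rcases hv with rfl | rfl
      · refine ⟨x + y / 2, y / 2, by positivity, by positivity, by linarith, ?_⟩
        simp only [pvmuMid, Complex.real_smul]
        push_cast; ring
      · refine ⟨y / 2, x + y / 2, by positivity, by positivity, by linarith, ?_⟩
        simp only [pvmuMid, Complex.real_smul]
        push_cast; ring
    rcases pvmu_sego_seg G hwe hd with h | h
    · exact h3 h
    · exact h4 h

end emb

/-! ## 6. the mouth -/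

/-- **THE MOUTH OF A STUB IN AN OBSTACLE `K`**: box `pvwSq z r`, mesh `μ`, protection radius `ϱ` (corners), radius of the mouth `ρ'`.      (SEP) = field `sep`. -/
structure PvmuMouth (T : PvMap V D) (pos : V → ℂ) (K : Set ℂ) (z : ℂ) (r μ ϱ ρ' : ℝ) (a : ℕ → D) (n : ℕ) : Prop where
  stub : PvmuStub T pos (pvwSq z r) a n
  n_pos : 0 < n
  mesh : ‖pos (T.src (a n)) - pos (T.tgt (a n))‖ ≤ μ
  corner : ∀ x y : ℝ, |x| = r → |y| = r → ϱ ≤ ‖pvmuMid T pos (a n) - (z + (⟨x, y⟩ : ℂ))‖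
  /-- the pieces of the stub belong to the obstacle -/
  sub : ∀ i, i < n → T.seg pos (a i) ⊆ K
  /-- (SEP) in the mouth the obstacle consists of pieces of the stub -/
  sep : ∀ w ∈ K, ‖w - pvmuMid T pos (a n)‖ ≤ ρ' → ∃ i, i < n ∧ w ∈ T.seg pos (a i)

section mouth

variable {pos : V → ℂ} {K : Set ℂ} {z : ℂ} {r μ ϱ ρ' t δ : ℝ} {a : ℕ → D} {n k : ℕ}

/-- the data of the tip: inside end `u`, outside end `v`, outer normal `ν` -/
theorem pvmu_mouth_tip (M : PvmuMouth T pos K z r μ ϱ ρ' a n) (hμ : μ < ϱ) : ∃ (u v : V) (ν : ℂ), ((T.src (a n) = u ∧ T.tgt (a n) = v) ∨ (T.src (a n) = v ∧ T.tgt (a n) = u)) ∧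
    pvmuMid T pos (a n) = (pos u + pos v) / 2 ∧ PvmuTip z r μ ϱ (pos u) (pos v) ∧ PvmuSide z r μ ϱ (pos u) (pos v) ν := by
  obtain ⟨u, v, huv, hu, hv, -⟩ := pvmu_stub_tip M.stub M.n_pos
  have hmid : pvmuMid T pos (a n) = (pos u + pos v) / 2 := by
    unfold pvmuMid
    rcases huv with ⟨h1, h2⟩ | ⟨h1, h2⟩
    · rw [h1, h2]
    · rw [h1, h2, add_comm]
  have hlen : ‖pos u - pos v‖ ≤ μ := by
    have := M.mesh
    rcases huv with ⟨h1, h2⟩ | ⟨h1, h2⟩
    · rwa [h1, h2] at this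
    · rw [h1, h2] at this
      rwa [norm_sub_rev]
  have htip : PvmuTip z r μ ϱ (pos u) (pos v) :=
    ⟨hu, hv, hlen, fun x y hx hy => by rw [← hmid]; exact M.corner x y hx hy⟩
  obtain ⟨ν, hν⟩ := pvmu_side_exists htip hμ
  exact ⟨u, v, ν, huv, hmid, htip, hν⟩

/-- the added segment `[f, v_out]` misses the obstacle -/
theorem pvmu_mouth_seg1 (M : PvmuMouth T pos K z r μ ϱ ρ' a n) {u v : V} {ν : ℂ} (hm : pvmuMid T pos (a n) = (pos u + pos v) / 2) (hS : PvmuSide z r μ ϱ (pos u) (pos v) ν)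
    (hlen : ‖pos u - pos v‖ ≤ μ) (ht : μ / 2 < t) (htρ : t ≤ ρ') : Disjoint (segment ℝ (pvmuFront (pos u) (pos v) ν t) (pos v)) K := by
  refine Set.disjoint_left.2 fun w hw hK => ?_
  have h1 : ‖w - pvmuMid T pos (a n)‖ ≤ ρ' := by
    have := pvmu_front_seg_ball hS.dir hlen ht.le hw
    rw [mem_closedBall, dist_eq_norm, ← hm] at this
    exact this.trans htρ
  obtain ⟨i, hi, hwi⟩ := M.sep w hK h1
  exact Set.disjoint_left.1 (pvmu_front_seg hS ht) hw (pvmu_stub_in (pvmu_sq_convex z r) M.stub hi hwi)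

/-- the added segment `[v_out, mid e]` misses the obstacle -/
theorem pvmu_mouth_seg2 (G : PlGeo T pos) (M : PvmuMouth T pos K z r μ ϱ ρ' a n) {v : V} (hv : v = T.src (a n) ∨ v = T.tgt (a n)) (hout : pos v ∉ pvwSq z r) (hμρ : μ / 2 ≤ ρ') :
    Disjoint (segment ℝ (pos v) (pvmuMid T pos (a n))) K := by
  refine Set.disjoint_left.2 fun w hw hK => ?_
  have h1 : ‖w - pvmuMid T pos (a n)‖ ≤ μ / 2 := by
    rcases hv with rfl | rfl
    · have hl : ‖pos (T.tgt (a n)) - pos (T.src (a n))‖ ≤ μ := by rw [norm_sub_rev]; exact M.mesh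
      have e : pvmuMid T pos (a n) = (pos (T.tgt (a n)) + pos (T.src (a n))) / 2 := by unfold pvmuMid; rw [add_comm]
      rw [e] at hw ⊢
      have := pvmu_half_ball hl hw
      rwa [mem_closedBall, dist_eq_norm] at this
    · have := pvmu_half_ball M.mesh hw
      rwa [mem_closedBall, dist_eq_norm] at this
  obtain ⟨i, hi, hwi⟩ := M.sep w hK (h1.trans hμρ)
  obtain ⟨a1, a2, a3, a4⟩ := pvmu_stub_ne M.stub hi hout
  exact Set.disjoint_left.1 (pvmu_half_edge G hv a1 a2 a3 a4) hw hwi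

/-- `dist(front, K) ≥ min (t - μ/2) (ρ' - t)` -/
theorem pvmu_mouth_front (M : PvmuMouth T pos K z r μ ϱ ρ' a n) {u v : V} {ν : ℂ} (hm : pvmuMid T pos (a n) = (pos u + pos v) / 2) (hS : PvmuSide z r μ ϱ (pos u) (pos v) ν) (ht : 0 ≤ t) :
    ∀ w ∈ K, min (t - μ / 2) (ρ' - t) ≤ ‖pvmuFront (pos u) (pos v) ν t - w‖ := by
  intro w hK
  by_cases h1 : ‖w - pvmuMid T pos (a n)‖ ≤ ρ'
  · obtain ⟨i, hi, hwi⟩ := M.sep w hK h1
    exact (min_le_left _ _).trans (pvmu_front_far hS w (pvmu_stub_in (pvmu_sq_convex z r) M.stub hi hwi))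
  · refine (min_le_right _ _).trans ?_
    have h2 := pvmu_front_dist (u := pos u) (v := pos v) hS.dir ht
    rw [hm] at h1
    have h3 : ‖w - (pos u + pos v) / 2‖ ≤ ‖pvmuFront (pos u) (pos v) ν t - w‖ + ‖pvmuFront (pos u) (pos v) ν t - (pos u + pos v) / 2‖ := by
      have := norm_sub_le_norm_sub_add_norm_sub w (pvmuFront (pos u) (pos v) ν t) ((pos u + pos v) / 2)
      rwa [norm_sub_rev w (pvmuFront (pos u) (pos v) ν t)] at this
    rw [h2] at h3
    push Not at h1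
    linarith

/-- two points of the obstacle in the mouth are joined inside `K ∩ box` -/
theorem pvmu_mouth_join (M : PvmuMouth T pos K z r μ ϱ ρ' a n) {p p' : ℂ} (hp : p ∈ K) (hp' : p' ∈ K) (h1 : ‖p - pvmuMid T pos (a n)‖ ≤ ρ') (h2 : ‖p' - pvmuMid T pos (a n)‖ ≤ ρ') :
    ∃ K' ⊆ K, IsPreconnected K' ∧ Bornology.IsBounded K' ∧ p ∈ K' ∧ p' ∈ K' ∧ K' ⊆ pvwSq z r := by
  obtain ⟨i, hi, hpi⟩ := M.sep p hp h1
  obtain ⟨i', hi', hpi'⟩ := M.sep p' hp' h2
  have hj : max i i' < n := max_lt hi hi'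
  have hsq : pvmuZig T pos a (min i i') (max i i') ⊆ pvwSq z r := pvmu_stub_zig_in (pvmu_sq_convex z r) M.stub hj
  refine ⟨pvmuZig T pos a (min i i') (max i i'), ?_, pvmu_stub_zig_conn M.stub hj.le, ?_, ⟨i, min_le_left _ _, le_max_left _ _, hpi⟩, ⟨i', min_le_right _ _, le_max_right _ _, hpi'⟩, hsq⟩
  · rintro w ⟨l, -, hl, hw⟩
    exact M.sub l (lt_of_le_of_lt hl hj) hw
  · exact (Metric.isBounded_closedBall).subset (hsq.trans (pvmu_sq_sub_ball z r))

/-- **NO PINCH IN A MOUTH** (V.5 (b) = (P4)): the last clause of F2 fails when both jaws lie in the mouth.      `zf` = the cell of ANY point `f` of height `> (k+2) δ` over the exit side (the front: `pvmu_front_ht`). -/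
theorem pvmu_mouth_p4 (M : PvmuMouth T pos K z r μ ϱ ρ' a n) (hδ : 0 < δ) {ν : ℂ} (hν : PvmuDir ν) {p p' f : ℂ} {u u' zf : ℤ × ℤ} (hp : p ∈ K) (hp' : p' ∈ K)
    (h1 : ‖p - pvmuMid T pos (a n)‖ ≤ ρ') (h2 : ‖p' - pvmuMid T pos (a n)‖ ≤ ρ') (hpu : p ∈ pvtSq δ u) (hpu' : p' ∈ pvtSq δ u') (hf : f ∈ pvtSq δ zf) (hH : ((k : ℝ) + 2) * δ < pvmuHt z r ν f) :
    ∃ K' ⊆ K, IsPreconnected K' ∧ p ∈ K' ∧ p' ∈ K' ∧ zf ∈ pvtOut (pvtCells δ K' ∪ pvtwN k {u} ∪ pvtwN k {u'}) := by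
  obtain ⟨K', hK, hc, hb, m1, m2, hsq⟩ := pvmu_mouth_join M hp hp' h1 h2
  have hh : ∀ q ∈ K', pvmuHt z r ν q ≤ 0 := fun q hq => pvmu_sq_iff.1 (hsq hq) ν hν
  exact ⟨K', hK, hc, m1, m2, pvmu_p4_pinch hδ hν hb hh hpu (hh p m1) hpu' (hh p' m2) hf hH⟩

end mouth

/-! ## 7. the two stubs of a state      (v2, helper46 10:30Z: against `Tr/Defs` v2 = FACE EXIT.      ALL the positions `0..np` of a stub have both ends in the box; what is outside is the TIP APEX.
So the abstract stub is THE STRAND PROLONGED BY ONE STEP: `a i = pvasIt T s dp i`, `n = np + 1`; the tip edge of sec. 4-6 is the position `np + 1`, its outside end is `ap`; its midpoint is within `μ / 2` of the tip `xp` of record.) -/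

section state

variable {pos : V → ℂ} {s : V → Bool} {𝔖 : PvwSt T} {B : Set ℂ} {N : PvwNum} {h r μ : ℝ} {z : ℂ} {τ : PvwTy}

theorem pvmu_mid_eq (𝔖 : PvwSt T) (pos : V → ℂ) (d : D) : 𝔖.mid pos d = pvmuMid T pos d := rfl

/-- the positions of the entrance strand, backwards -/
def pvmuBk (T : PvMap V D) (s : V → Bool) (d : D) (i : ℕ) : D := (pvasBack T s)^[i] d

theorem pvmu_bk_succ (s : V → Bool) (d : D) (i : ℕ) : pvmuBk T s d (i + 1) = pvasBack T s (pvmuBk T s d i) := by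
  unfold pvmuBk
  rw [Function.iterate_succ_apply']

/-- the exit stub, prolonged by one step of the strand, is a stub -/
theorem pvmu_st_p (hS : 𝔖.StubP pos B s) : PvmuStub T pos B (pvasIt T s 𝔖.dp) (𝔖.np + 1) := by
  refine ⟨fun i _ => ?_, fun i hi => ?_, fun hc => hS.ep_out ?_⟩
  · rw [pvas_it_succ]
    rcases pvas_step_ends s (pvasIt T s 𝔖.dp i) with ⟨_, _, e⟩ | ⟨_, e, _⟩
    · exact Or.inr e
    · exact Or.inl e
  · rw [← hS.ep_it i (by omega)]
    exact hS.ep_in i (by omega)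
  · rw [pvas_it_succ, ← hS.ep_it 𝔖.np le_rfl] at hc
    rcases pvas_step_ends s (𝔖.ep 𝔖.np) with ⟨_, e, _⟩ | ⟨_, _, e⟩
    · rw [e] at hc
      exact hc.1
    · rw [e] at hc
      exact hc.2

/-- the entrance stub, prolonged by one step backwards, is a stub -/
theorem pvmu_st_m (hS : 𝔖.StubM pos B s) : PvmuStub T pos B (pvmuBk T s 𝔖.dm) (𝔖.nm + 1) := by
  refine ⟨fun i _ => ?_, fun i hi => ?_, fun hc => hS.em_out ?_⟩
  · rw [pvmu_bk_succ]
    rcases pvmu_back_ends s (pvmuBk T s 𝔖.dm i) with ⟨_, _, e⟩ | ⟨_, e, _⟩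
    · exact Or.inr e
    · exact Or.inl e
  · have e : 𝔖.em i = pvmuBk T s 𝔖.dm i := hS.em_it i (by omega)
    rw [← e]
    exact hS.em_in i (by omega)
  · have e : 𝔖.em 𝔖.nm = pvmuBk T s 𝔖.dm 𝔖.nm := hS.em_it 𝔖.nm le_rfl
    rw [pvmu_bk_succ, ← e] at hc
    rcases pvmu_back_ends s (𝔖.em 𝔖.nm) with ⟨_, e, _⟩ | ⟨_, _, e⟩
    · rw [e] at hc
      exact hc.1
    · rw [e] at hc
      exact hc.2

/-- the ends of the tip edge of the exit stub: the tip apex and one end of the last position -/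
theorem pvmu_st_tip_p (hS : 𝔖.StubP pos B s) :
    (T.src (pvasIt T s 𝔖.dp (𝔖.np + 1)) = 𝔖.ap ∧ T.tgt (pvasIt T s 𝔖.dp (𝔖.np + 1)) = T.tgt (𝔖.ep 𝔖.np)) ∨
      (T.src (pvasIt T s 𝔖.dp (𝔖.np + 1)) = T.src (𝔖.ep 𝔖.np) ∧ T.tgt (pvasIt T s 𝔖.dp (𝔖.np + 1)) = 𝔖.ap) := by
  rw [pvas_it_succ, ← hS.ep_it 𝔖.np le_rfl]
  rcases pvas_step_ends s (𝔖.ep 𝔖.np) with ⟨_, e1, e2⟩ | ⟨_, e1, e2⟩
  · exact Or.inl ⟨e1, e2⟩
  · exact Or.inr ⟨e1, e2⟩

theorem pvmu_st_tip_m (hS : 𝔖.StubM pos B s) :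
    (T.src (pvmuBk T s 𝔖.dm (𝔖.nm + 1)) = 𝔖.am ∧ T.tgt (pvmuBk T s 𝔖.dm (𝔖.nm + 1)) = T.tgt (𝔖.em 𝔖.nm)) ∨
      (T.src (pvmuBk T s 𝔖.dm (𝔖.nm + 1)) = T.src (𝔖.em 𝔖.nm) ∧ T.tgt (pvmuBk T s 𝔖.dm (𝔖.nm + 1)) = 𝔖.am) := by
  have e : 𝔖.em 𝔖.nm = pvmuBk T s 𝔖.dm 𝔖.nm := hS.em_it 𝔖.nm le_rfl
  rw [pvmu_bk_succ, ← e]
  rcases pvmu_back_ends s (𝔖.em 𝔖.nm) with ⟨_, e1, e2⟩ | ⟨_, e1, e2⟩
  · exact Or.inl ⟨e1, e2⟩
  · exact Or.inr ⟨e1, e2⟩

/-- the midpoint of the tip edge is within `μ / 2` of the tip of record (`μ` = mesh of the tip FACE) -/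
theorem pvmu_st_mid_p (hS : 𝔖.StubP pos B s) (h1 : ‖pos 𝔖.ap - pos (T.src (𝔖.ep 𝔖.np))‖ ≤ μ) (h2 : ‖pos 𝔖.ap - pos (T.tgt (𝔖.ep 𝔖.np))‖ ≤ μ) :
    ‖pvmuMid T pos (pvasIt T s 𝔖.dp (𝔖.np + 1)) - 𝔖.xp pos‖ ≤ μ / 2 := by
  have hx : 𝔖.xp pos = (pos (T.src (𝔖.ep 𝔖.np)) + pos (T.tgt (𝔖.ep 𝔖.np))) / 2 := rfl
  unfold pvmuMid
  rcases pvmu_st_tip_p hS with ⟨e1, e2⟩ | ⟨e1, e2⟩
  · rw [e1, e2, hx]
    have e : (pos 𝔖.ap + pos (T.tgt (𝔖.ep 𝔖.np))) / 2 - (pos (T.src (𝔖.ep 𝔖.np)) + pos (T.tgt (𝔖.ep 𝔖.np))) / 2 = (pos 𝔖.ap - pos (T.src (𝔖.ep 𝔖.np))) / 2 := by ring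
    rw [e, norm_div, Complex.norm_ofNat]
    linarith
  · rw [e1, e2, hx]
    have e : (pos (T.src (𝔖.ep 𝔖.np)) + pos 𝔖.ap) / 2 - (pos (T.src (𝔖.ep 𝔖.np)) + pos (T.tgt (𝔖.ep 𝔖.np))) / 2 = (pos 𝔖.ap - pos (T.tgt (𝔖.ep 𝔖.np))) / 2 := by ring
    rw [e, norm_div, Complex.norm_ofNat]
    linarith

theorem pvmu_st_mid_m (hS : 𝔖.StubM pos B s) (h1 : ‖pos 𝔖.am - pos (T.src (𝔖.em 𝔖.nm))‖ ≤ μ) (h2 : ‖pos 𝔖.am - pos (T.tgt (𝔖.em 𝔖.nm))‖ ≤ μ) :
    ‖pvmuMid T pos (pvmuBk T s 𝔖.dm (𝔖.nm + 1)) - 𝔖.xm pos‖ ≤ μ / 2 := by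
  have hx : 𝔖.xm pos = (pos (T.src (𝔖.em 𝔖.nm)) + pos (T.tgt (𝔖.em 𝔖.nm))) / 2 := rfl
  unfold pvmuMid
  rcases pvmu_st_tip_m hS with ⟨e1, e2⟩ | ⟨e1, e2⟩
  · rw [e1, e2, hx]
    have e : (pos 𝔖.am + pos (T.tgt (𝔖.em 𝔖.nm))) / 2 - (pos (T.src (𝔖.em 𝔖.nm)) + pos (T.tgt (𝔖.em 𝔖.nm))) / 2 = (pos 𝔖.am - pos (T.src (𝔖.em 𝔖.nm))) / 2 := by ring
    rw [e, norm_div, Complex.norm_ofNat]
    linarith
  · rw [e1, e2, hx]
    have e : (pos (T.src (𝔖.em 𝔖.nm)) + pos 𝔖.am) / 2 - (pos (T.src (𝔖.em 𝔖.nm)) + pos (T.tgt (𝔖.em 𝔖.nm))) / 2 = (pos 𝔖.am - pos (T.tgt (𝔖.em 𝔖.nm))) / 2 := by ring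
    rw [e, norm_div, Complex.norm_ofNat]
    linarith

/-- a point of a segment of length `≤ μ` both ends of which are at distance `> ρ` from `x` is at distance `> ρ - μ / 2` -/
theorem pvmu_seg_far2 {ρ : ℝ} {x a b w : ℂ} (hd : ‖a - b‖ ≤ μ) (ha : ρ < ‖a - x‖) (hb : ρ < ‖b - x‖) (hw : w ∈ segment ℝ a b) : ρ - μ / 2 < ‖w - x‖ := by
  obtain ⟨α, β, hα, hβ, hαβ, rfl⟩ := hw
  rcases le_total β (1 / 2) with h | h
  · have e : α • a + β • b - x = (a - x) - β • (a - b) := by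
      have : α = 1 - β := by linarith
      subst this
      simp only [Complex.real_smul]; push_cast; ring
    have h1 : ‖β • (a - b)‖ ≤ μ / 2 := by
      rw [norm_smul, Real.norm_eq_abs, abs_of_nonneg hβ]
      nlinarith [norm_nonneg (a - b)]
    have h2 := norm_sub_norm_le (a - x) (β • (a - b))
    rw [e]
    linarith
  · have e : α • a + β • b - x = (b - x) + α • (a - b) := by
      have : β = 1 - α := by linarith
      subst this
      simp only [Complex.real_smul]; push_cast; ring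
    have h1 : ‖α • (a - b)‖ ≤ μ / 2 := by
      rw [norm_smul, Real.norm_eq_abs, abs_of_nonneg hα]
      nlinarith [norm_nonneg (a - b)]
    have h2 := norm_sub_le_norm_add (b - x) (α • (a - b))
    rw [e]
    linarith

/-- a point of a segment both ends of which are at distance `< ρ` from `x` is at distance `< ρ` -/
theorem pvmu_seg_near2 {ρ : ℝ} {x a b w : ℂ} (ha : ‖a - x‖ < ρ) (hb : ‖b - x‖ < ρ) (hw : w ∈ segment ℝ a b) : ‖w - x‖ < ρ := by
  have h := (convex_ball x ρ).segment_subset (by rwa [mem_ball, dist_eq_norm]) (by rwa [mem_ball, dist_eq_norm]) hw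
  rwa [mem_ball, dist_eq_norm] at h

/-- (SEP), the pieces of the exit stub: the early ones are far from the tip      (RETYPED 10:40Z by 242 against `Tr/Defs` v2: `GoodOut.late_p`, radii `ρ₂ h` and `ρ₁ h / 2`;   11:20Z by 215 against v3: centre `y` = the GRID centre of the tip cell) -/
theorem pvmu_st_late_p {y : ℂ} (hG : 𝔖.GoodOut pos N h y) (hm : ∀ i, i ≤ 𝔖.np → ‖pos (T.src (𝔖.ep i)) - pos (T.tgt (𝔖.ep i))‖ ≤ μ) :
    ∃ i₀, i₀ ≤ 𝔖.np ∧ (∀ i, i₀ ≤ i → i ≤ 𝔖.np → ∀ w ∈ T.seg pos (𝔖.ep i), ‖w - y‖ < N.rho2 * h) ∧ ∀ i, i < i₀ → ∀ w ∈ T.seg pos (𝔖.ep i), N.rho1 * h / 2 - μ / 2 < ‖w - y‖ := by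
  obtain ⟨i₀, h0, h1, h2⟩ := hG.late_p
  exact ⟨i₀, h0, fun i hi hi' w hw => pvmu_seg_near2 (h1 i hi hi').1 (h1 i hi hi').2 hw, fun i hi w hw => pvmu_seg_far2 (hm i (by omega)) (h2 i hi).1 (h2 i hi).2 hw⟩

theorem pvmu_st_late_m {y : ℂ} (hG : 𝔖.GoodIn pos N h y) (hm : ∀ i, i ≤ 𝔖.nm → ‖pos (T.src (𝔖.em i)) - pos (T.tgt (𝔖.em i))‖ ≤ μ) :
    ∃ i₀, i₀ ≤ 𝔖.nm ∧ (∀ i, i₀ ≤ i → i ≤ 𝔖.nm → ∀ w ∈ T.seg pos (𝔖.em i), ‖w - y‖ < N.rho2 * h) ∧ ∀ i, i < i₀ → ∀ w ∈ T.seg pos (𝔖.em i), N.rho1 * h / 2 - μ / 2 < ‖w - y‖ := by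
  obtain ⟨i₀, h0, h1, h2⟩ := hG.late_m
  exact ⟨i₀, h0, fun i hi hi' w hw => pvmu_seg_near2 (h1 i hi hi').1 (h1 i hi hi').2 hw, fun i hi w hw => pvmu_seg_far2 (hm i (by omega)) (h2 i hi).1 (h2 i hi).2 hw⟩

/-- (v3) the tips of record lie within `ρ h / 4` of the grid centres of their cells -/
theorem pvmu_st_tip_y_p {y : ℂ} (hG : 𝔖.GoodOut pos N h y) : ‖𝔖.xp pos - y‖ ≤ N.rho * h / 4 := by
  have h := (convex_closedBall y (N.rho * h / 4)).segment_subset (mem_closedBall_iff_norm.2 hG.tip_p.1) (mem_closedBall_iff_norm.2 hG.tip_p.2) (pvmu_mid_mem T pos (𝔖.ep 𝔖.np))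
  exact mem_closedBall_iff_norm.1 h

theorem pvmu_st_tip_y_m {y : ℂ} (hG : 𝔖.GoodIn pos N h y) : ‖𝔖.xm pos - y‖ ≤ N.rho * h / 4 := by
  have h := (convex_closedBall y (N.rho * h / 4)).segment_subset (mem_closedBall_iff_norm.2 hG.tip_m.1) (mem_closedBall_iff_norm.2 hG.tip_m.2) (pvmu_mid_mem T pos (𝔖.em 𝔖.nm))
  exact mem_closedBall_iff_norm.1 h

/-- an edge of length `≤ μ` with an end at distance `≥ ρ` from `x` stays at distance `≥ ρ - μ` -/
theorem pvmu_seg_far {ρ : ℝ} {x : ℂ} {d : D} (hd : ‖pos (T.src d) - pos (T.tgt d)‖ ≤ μ) (hx : ρ ≤ ‖pos (T.src d) - x‖ ∨ ρ ≤ ‖pos (T.tgt d) - x‖) : ∀ w ∈ T.seg pos d, ρ - μ ≤ ‖w - x‖ := by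
  intro w hw
  have h1 : ‖w - pos (T.src d)‖ ≤ μ := by
    have := norm_sub_le_of_mem_segment hw
    rw [norm_sub_rev (pos (T.tgt d))] at this
    exact this.trans hd
  have h2 : ‖w - pos (T.tgt d)‖ ≤ μ := by
    have hw' : w ∈ segment ℝ (pos (T.tgt d)) (pos (T.src d)) := by rw [segment_symm]; exact hw
    exact (norm_sub_le_of_mem_segment hw').trans hd
  rcases hx with hx | hx
  · have : ‖pos (T.src d) - x‖ ≤ ‖pos (T.src d) - w‖ + ‖w - x‖ := by
      have := norm_add_le (pos (T.src d) - w) (w - x)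
      simpa using this
    rw [norm_sub_rev (pos (T.src d)) w] at this
    linarith
  · have : ‖pos (T.tgt d) - x‖ ≤ ‖pos (T.tgt d) - w‖ + ‖w - x‖ := by
      have := norm_add_le (pos (T.tgt d) - w) (w - x)
      simpa using this
    rw [norm_sub_rev (pos (T.tgt d)) w] at this
    linarith

/-- the tip apex is within `μ` of the tip (`μ` = mesh of the tip face) -/
theorem pvmu_apex_mid {a b c : ℂ} (h1 : ‖c - a‖ ≤ μ) (h2 : ‖c - b‖ ≤ μ) : ‖c - (a + b) / 2‖ ≤ μ := by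
  have e : c - (a + b) / 2 = ((c - a) + (c - b)) / 2 := by ring
  rw [e, norm_div, Complex.norm_ofNat]
  have := norm_add_le (c - a) (c - b)
  linarith

/-- a point within `μ` of a point outside the box is far from every disc round the centre of the box -/
theorem pvmu_out_disc {ρ₀ : ℝ} {c x : ℂ} (hc : c ∉ pvwSq z r) (hx : ‖c - x‖ ≤ μ) : ∀ w ∈ closedBall z ρ₀, r - ρ₀ - μ ≤ ‖w - x‖ := by
  intro w hw
  have h1 : r < ‖c - z‖ := by
    by_contra hcon
    exact hc (pvmu_ball_sub_sq z r (mem_closedBall_iff_norm.2 (not_lt.1 hcon)))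
  have h2 : ‖w - z‖ ≤ ρ₀ := mem_closedBall_iff_norm.1 hw
  have h3 : ‖c - z‖ ≤ ‖c - x‖ + ‖w - x‖ + ‖w - z‖ := by
    have e : c - z = (c - x) - (w - x) + (w - z) := by ring
    rw [e]
    exact (norm_add_le _ _).trans (add_le_add_left (norm_sub_le _ _) _)
  linarith

/-- the tip is far from every disc round the centre of the box (the gate disc: `ρ₀ = τ.b * h`);   `μ` = mesh of the tip face -/
theorem pvmu_st_disc_p {ρ₀ : ℝ} (hS : 𝔖.StubP pos (pvwSq z r) s) (h1 : ‖pos 𝔖.ap - pos (T.src (𝔖.ep 𝔖.np))‖ ≤ μ) (h2 : ‖pos 𝔖.ap - pos (T.tgt (𝔖.ep 𝔖.np))‖ ≤ μ) :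
    ∀ w ∈ closedBall z ρ₀, r - ρ₀ - μ ≤ ‖w - 𝔖.xp pos‖ :=
  pvmu_out_disc hS.ep_out (pvmu_apex_mid h1 h2)

theorem pvmu_st_disc_m {ρ₀ : ℝ} (hS : 𝔖.StubM pos (pvwSq z r) s) (h1 : ‖pos 𝔖.am - pos (T.src (𝔖.em 𝔖.nm))‖ ≤ μ) (h2 : ‖pos 𝔖.am - pos (T.tgt (𝔖.em 𝔖.nm))‖ ≤ μ) :
    ∀ w ∈ closedBall z ρ₀, r - ρ₀ - μ ≤ ‖w - 𝔖.xm pos‖ :=
  pvmu_out_disc hS.em_out (pvmu_apex_mid h1 h2)

/-- **THE MOUTH OF THE EXIT STUB OF A STATE**: `K` = any obstacle which contains the pieces `E(ep i)`, `i ≤ np`, and whose other points are at distance `> ρ' + μ / 2` from the tip `xp`.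
`Tr/Defs` v2 has NO corner clause: `hcor` is a hypothesis; it is VOID for `ϱ + μ / 2 ≤ 0` (all of sec. 6 but `pvmu_mouth_tip`, and all of sec. 8, live without it). -/
theorem pvmu_st_mouth_p (hS : 𝔖.StubP pos (pvwSq z r) s) (h1 : ‖pos 𝔖.ap - pos (T.src (𝔖.ep 𝔖.np))‖ ≤ μ) (h2 : ‖pos 𝔖.ap - pos (T.tgt (𝔖.ep 𝔖.np))‖ ≤ μ) {K : Set ℂ} {ϱ ρ' : ℝ}
    (hcor : ∀ x y : ℝ, |x| = r → |y| = r → ϱ + μ / 2 ≤ ‖𝔖.xp pos - (z + (⟨x, y⟩ : ℂ))‖)
    (hsub : ∀ i, i ≤ 𝔖.np → T.seg pos (𝔖.ep i) ⊆ K) (hsep : ∀ w ∈ K, ‖w - 𝔖.xp pos‖ ≤ ρ' + μ / 2 → ∃ i, i ≤ 𝔖.np ∧ w ∈ T.seg pos (𝔖.ep i)) :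
    PvmuMouth T pos K z r μ ϱ ρ' (pvasIt T s 𝔖.dp) (𝔖.np + 1) := by
  have hmid := pvmu_st_mid_p hS h1 h2
  refine ⟨pvmu_st_p hS, Nat.succ_pos _, ?_, fun x y hx hy => ?_, fun i hi => ?_, fun w hw hwm => ?_⟩
  · rcases pvmu_st_tip_p hS with ⟨e1, e2⟩ | ⟨e1, e2⟩
    · rw [e1, e2]; exact h2
    · rw [e1, e2, norm_sub_rev]; exact h1
  · have := hcor x y hx hy
    have h3 := norm_sub_le_norm_sub_add_norm_sub (𝔖.xp pos) (pvmuMid T pos (pvasIt T s 𝔖.dp (𝔖.np + 1))) (z + (⟨x, y⟩ : ℂ))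
    rw [norm_sub_rev (𝔖.xp pos) (pvmuMid T pos (pvasIt T s 𝔖.dp (𝔖.np + 1)))] at h3
    linarith
  · rw [← hS.ep_it i (by omega)]
    exact hsub i (by omega)
  · have h3 := norm_sub_le_norm_sub_add_norm_sub w (pvmuMid T pos (pvasIt T s 𝔖.dp (𝔖.np + 1))) (𝔖.xp pos)
    obtain ⟨i, hi, hwi⟩ := hsep w hw (by linarith)
    refine ⟨i, by omega, ?_⟩
    rw [← hS.ep_it i hi]
    exact hwi

/-- **THE MOUTH OF THE ENTRANCE STUB OF A STATE** -/
theorem pvmu_st_mouth_m (hS : 𝔖.StubM pos (pvwSq z r) s) (h1 : ‖pos 𝔖.am - pos (T.src (𝔖.em 𝔖.nm))‖ ≤ μ) (h2 : ‖pos 𝔖.am - pos (T.tgt (𝔖.em 𝔖.nm))‖ ≤ μ) {K : Set ℂ} {ϱ ρ' : ℝ}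
    (hcor : ∀ x y : ℝ, |x| = r → |y| = r → ϱ + μ / 2 ≤ ‖𝔖.xm pos - (z + (⟨x, y⟩ : ℂ))‖)
    (hsub : ∀ i, i ≤ 𝔖.nm → T.seg pos (𝔖.em i) ⊆ K) (hsep : ∀ w ∈ K, ‖w - 𝔖.xm pos‖ ≤ ρ' + μ / 2 → ∃ i, i ≤ 𝔖.nm ∧ w ∈ T.seg pos (𝔖.em i)) :
    PvmuMouth T pos K z r μ ϱ ρ' (pvmuBk T s 𝔖.dm) (𝔖.nm + 1) := by
  have hmid := pvmu_st_mid_m hS h1 h2
  have hit : ∀ i, i ≤ 𝔖.nm → 𝔖.em i = pvmuBk T s 𝔖.dm i := hS.em_it
  refine ⟨pvmu_st_m hS, Nat.succ_pos _, ?_, fun x y hx hy => ?_, fun i hi => ?_, fun w hw hwm => ?_⟩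
  · rcases pvmu_st_tip_m hS with ⟨e1, e2⟩ | ⟨e1, e2⟩
    · rw [e1, e2]; exact h2
    · rw [e1, e2, norm_sub_rev]; exact h1
  · have := hcor x y hx hy
    have h3 := norm_sub_le_norm_sub_add_norm_sub (𝔖.xm pos) (pvmuMid T pos (pvmuBk T s 𝔖.dm (𝔖.nm + 1))) (z + (⟨x, y⟩ : ℂ))
    rw [norm_sub_rev (𝔖.xm pos) (pvmuMid T pos (pvmuBk T s 𝔖.dm (𝔖.nm + 1)))] at h3
    linarith
  · rw [← hit i (by omega)]
    exact hsub i (by omega)
  · have h3 := norm_sub_le_norm_sub_add_norm_sub w (pvmuMid T pos (pvmuBk T s 𝔖.dm (𝔖.nm + 1))) (𝔖.xm pos)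
    obtain ⟨i, hi, hwi⟩ := hsep w hw (by linarith)
    refine ⟨i, by omega, ?_⟩
    rw [← hit i hi]
    exact hwi

end state

/-! ## 8. THE RADIAL FRONT: no corner clause      (helper46; `W1_208` v3 D5: "RAY at a tip := the RADIAL ray from the centre of the box; box convex: the open ray beyond the tip is outside the box")

`pvmuRad z v t = v + t (v - z) / ‖v - z‖`, `v` = the outside end of the tip edge. -/

/-- the radial front at distance `t` beyond the outside end `v` -/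
noncomputable def pvmuRad (z v : ℂ) (t : ℝ) : ℂ := v + ((t / ‖v - z‖ : ℝ) : ℂ) * (v - z)

section rad

variable {z v w : ℂ} {r t : ℝ}

theorem pvmu_rad_dist (hv : v ≠ z) (ht : 0 ≤ t) : ‖pvmuRad z v t - v‖ = t := by
  have h0 : 0 < ‖v - z‖ := norm_pos_iff.2 (sub_ne_zero.2 hv)
  unfold pvmuRad
  rw [add_sub_cancel_left, norm_mul, Complex.norm_real, Real.norm_of_nonneg (by positivity)]
  field_simp

/-- some side sees `v` outside and the heights grow at speed `≥ 1/2` along the radial ray -/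
theorem pvmu_rad_ht (hr : 0 ≤ r) (hv : v ∉ pvwSq z r) (ht : 0 ≤ t) : ∃ ν, PvmuDir ν ∧ 0 < pvmuHt z r ν v ∧ pvmuHt z r ν v + t / 2 ≤ pvmuHt z r ν (pvmuRad z v t) := by
  have hvz : v ≠ z := by
    rintro rfl
    exact hv ⟨by simpa using hr, by simpa using hr⟩
  have h0 : 0 < ‖v - z‖ := norm_pos_iff.2 (sub_ne_zero.2 hvz)
  -- the direction of the largest coordinate
  have hsum : ‖v - z‖ ≤ |(v - z).re| + |(v - z).im| := Complex.norm_le_abs_re_add_abs_im _
  have key : ∀ ν, PvmuDir ν → ‖v - z‖ / 2 ≤ ((v - z) * (starRingEnd ℂ) ν).re → r < ((v - z) * (starRingEnd ℂ) ν).re →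
      0 < pvmuHt z r ν v ∧ pvmuHt z r ν v + t / 2 ≤ pvmuHt z r ν (pvmuRad z v t) := by
    intro ν hν h1 h2
    refine ⟨by unfold pvmuHt; linarith, ?_⟩
    have e : pvmuHt z r ν (pvmuRad z v t) = pvmuHt z r ν v + t / ‖v - z‖ * ((v - z) * (starRingEnd ℂ) ν).re := by
      unfold pvmuHt pvmuRad
      have e1 : (v + ((t / ‖v - z‖ : ℝ) : ℂ) * (v - z) - z) * (starRingEnd ℂ) ν = (v - z) * (starRingEnd ℂ) ν + ((t / ‖v - z‖ : ℝ) : ℂ) * ((v - z) * (starRingEnd ℂ) ν) := by ring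
      rw [e1, Complex.add_re, Complex.re_ofReal_mul]
      ring
    rw [e]
    have h3 : t / ‖v - z‖ * (‖v - z‖ / 2) = t / 2 := by field_simp
    have h4 : t / ‖v - z‖ * (‖v - z‖ / 2) ≤ t / ‖v - z‖ * ((v - z) * (starRingEnd ℂ) ν).re := mul_le_mul_of_nonneg_left h1 (by positivity)
    linarith
  have hout : r < |(v - z).re| ∨ r < |(v - z).im| := by
    by_contra hc
    push Not at hc
    exact hv hc
  rcases le_total |(v - z).im| |(v - z).re| with hle | hle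
  · have hb : r < |(v - z).re| := by
      rcases hout with h | h
      · exact h
      · linarith
    rcases le_total 0 (v - z).re with hs | hs
    · rw [abs_of_nonneg hs] at hle hb hsum
      have he : ((v - z) * (starRingEnd ℂ) 1).re = (v - z).re := by rw [map_one, mul_one]
      exact ⟨1, Or.inl rfl, key 1 (Or.inl rfl) (by rw [he]; linarith) (by rw [he]; exact hb)⟩
    · rw [abs_of_nonpos hs] at hle hb hsum
      have he : ((v - z) * (starRingEnd ℂ) (-1)).re = -(v - z).re := by rw [map_neg, map_one, mul_neg, mul_one, Complex.neg_re]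
      exact ⟨-1, Or.inr (Or.inl rfl), key (-1) (Or.inr (Or.inl rfl)) (by rw [he]; linarith) (by rw [he]; exact hb)⟩
  · have hb : r < |(v - z).im| := by
      rcases hout with h | h
      · linarith
      · exact h
    rcases le_total 0 (v - z).im with hs | hs
    · rw [abs_of_nonneg hs] at hle hb hsum
      have he : ((v - z) * (starRingEnd ℂ) Complex.I).re = (v - z).im := by rw [Complex.conj_I, mul_neg, Complex.neg_re, Complex.mul_I_re, neg_neg]
      exact ⟨Complex.I, Or.inr (Or.inr (Or.inl rfl)), key Complex.I (Or.inr (Or.inr (Or.inl rfl))) (by rw [he]; linarith) (by rw [he]; exact hb)⟩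
    · rw [abs_of_nonpos hs] at hle hb hsum
      have he : ((v - z) * (starRingEnd ℂ) (-Complex.I)).re = -(v - z).im := by rw [map_neg, Complex.conj_I, neg_neg, Complex.mul_I_re]
      exact ⟨-Complex.I, Or.inr (Or.inr (Or.inr rfl)), key (-Complex.I) (Or.inr (Or.inr (Or.inr rfl))) (by rw [he]; linarith) (by rw [he]; exact hb)⟩

/-- the radial segment beyond a point outside the box misses the box -/
theorem pvmu_rad_seg (hr : 0 ≤ r) (hv : v ∉ pvwSq z r) (ht : 0 ≤ t) : Disjoint (segment ℝ (pvmuRad z v t) v) (pvwSq z r) := by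
  obtain ⟨ν, hν, h1, h2⟩ := pvmu_rad_ht hr hv ht
  rw [Set.disjoint_left]
  intro w hw hwB
  have h3 : 0 < pvmuHt z r ν w := pvmu_ht_seg_lt (by linarith) h1 hw
  have h4 := pvmu_sq_iff.1 hwB ν hν
  linarith

theorem pvmu_rad_seg_ball (hv : v ≠ z) (ht : 0 ≤ t) (hw : w ∈ segment ℝ (pvmuRad z v t) v) : ‖w - v‖ ≤ t := by
  have h1 : pvmuRad z v t ∈ closedBall v t := mem_closedBall_iff_norm.2 (pvmu_rad_dist hv ht).le
  exact mem_closedBall_iff_norm.1 ((convex_closedBall v t).segment_subset h1 (mem_closedBall_self ht) hw)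

end rad

section radmouth

variable {pos : V → ℂ} {K : Set ℂ} {z : ℂ} {r μ ϱ ρ' t : ℝ} {a : ℕ → D} {n : ℕ}

/-- an end of the tip edge is within `μ / 2` of its midpoint -/
theorem pvmu_mouth_end (M : PvmuMouth T pos K z r μ ϱ ρ' a n) {v : V} (hv : v = T.src (a n) ∨ v = T.tgt (a n)) : ‖pos v - pvmuMid T pos (a n)‖ ≤ μ / 2 := by
  refine pvmu_seg_mid M.mesh ?_
  rcases hv with rfl | rfl
  · exact left_mem_segment ℝ _ _
  · exact right_mem_segment ℝ _ _

/-- in the mouth the obstacle lies in the box -/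
theorem pvmu_mouth_box (M : PvmuMouth T pos K z r μ ϱ ρ' a n) {w : ℂ} (hw : w ∈ K) (h : ‖w - pvmuMid T pos (a n)‖ ≤ ρ') : w ∈ pvwSq z r := by
  obtain ⟨i, hi, hwi⟩ := M.sep w hw h
  exact pvmu_stub_in (pvmu_sq_convex z r) M.stub hi hwi

/-- **the added radial segment `[f, v_out]` misses the obstacle** (no corner clause) -/
theorem pvmu_mouth_rad_seg (M : PvmuMouth T pos K z r μ ϱ ρ' a n) (hr : 0 ≤ r) {v : V} (hv : v = T.src (a n) ∨ v = T.tgt (a n)) (hout : pos v ∉ pvwSq z r) (ht : 0 ≤ t) (htρ : t + μ / 2 ≤ ρ') :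
    Disjoint (segment ℝ (pvmuRad z (pos v) t) (pos v)) K := by
  have hvz : pos v ≠ z := by
    intro e
    rw [e] at hout
    exact hout ⟨by simpa using hr, by simpa using hr⟩
  rw [Set.disjoint_left]
  intro w hw hwK
  have h1 := pvmu_rad_seg_ball hvz ht hw
  have h2 := pvmu_mouth_end M hv
  have h3 := norm_sub_le_norm_sub_add_norm_sub w (pos v) (pvmuMid T pos (a n))
  exact Set.disjoint_left.1 (pvmu_rad_seg hr hout ht) hw (pvmu_mouth_box M hwK (by linarith))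

/-- **`dist(f, K) ≥ min (t / 2) (ρ' - t - μ / 2)`** (no corner clause), and the front has height `> t / 2` over some side -/
theorem pvmu_mouth_rad_front (M : PvmuMouth T pos K z r μ ϱ ρ' a n) (hr : 0 ≤ r) {v : V} (hv : v = T.src (a n) ∨ v = T.tgt (a n)) (hout : pos v ∉ pvwSq z r) (ht : 0 ≤ t) :
    (∃ ν, PvmuDir ν ∧ t / 2 < pvmuHt z r ν (pvmuRad z (pos v) t)) ∧ ∀ w ∈ K, min (t / 2) (ρ' - t - μ / 2) ≤ ‖pvmuRad z (pos v) t - w‖ := by
  have hvz : pos v ≠ z := by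
    intro e
    rw [e] at hout
    exact hout ⟨by simpa using hr, by simpa using hr⟩
  obtain ⟨ν, hν, h1, h2⟩ := pvmu_rad_ht hr hout ht
  refine ⟨⟨ν, hν, by linarith⟩, fun w hw => ?_⟩
  rcases le_or_gt ‖w - pvmuMid T pos (a n)‖ ρ' with h | h
  · refine (min_le_left _ _).trans ?_
    have h3 := pvmu_sq_iff.1 (pvmu_mouth_box M hw h) ν hν
    have h4 := pvmu_ht_lip (z := z) (r := r) (w := pvmuRad z (pos v) t) (w' := w) hν
    linarith
  · refine (min_le_right _ _).trans ?_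
    have h3 := pvmu_mouth_end M hv
    have h4 := pvmu_rad_dist hvz ht
    have h5 : ‖w - pvmuMid T pos (a n)‖ ≤ ‖pvmuRad z (pos v) t - w‖ + ‖pvmuRad z (pos v) t - pos v‖ + ‖pos v - pvmuMid T pos (a n)‖ := by
      have e : w - pvmuMid T pos (a n) = -(pvmuRad z (pos v) t - w) + (pvmuRad z (pos v) t - pos v) + (pos v - pvmuMid T pos (a n)) := by ring
      rw [e]
      refine (norm_add_le _ _).trans (add_le_add_left ((norm_add_le _ _).trans ?_) _)
      rw [norm_neg]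
    linarith

end radmouth

end Claimed.Agent.R289
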