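import Claimed.Agent.R289.Tr.FitRef
import Claimed.Agent.R289.Defs.Three

/-!
# Row 289 (S0537, Cardy for Poisson-Voronoi), THE WALL, FIT-DET, file Tr/FitThree : FROM THE METRIC THREE PASSAGES OF 151 TO THE EVENT OF RECORD OF 143      (helper19; prefix `pvfr3_`)

* sec. 4  `pvfr3_cells_near`, **`pvfr3_acc_face`** : (ACC) for a thin obstacle, fattening `k + 2`  ⟹  `PvfyAcc δ k Kf z` of 62 for every `Kf` within `δ` of it (the face form `𝔇.pvfyK pos`)
* sec. 3  `pvfr3_three_near`, **`pvfr3_ret3`** : RET3 of a closed strand (any places within `κ` of the black ends)  ⟹  `PvxvThree`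
* sec. 2  `pvfr3_pp_pinch` (`PvtcPP ⟹ PvtcPlPinch`), `Pvfr3Mouth`, `pvfr3_pp_mouth`, **`pvfr3_acc`** = (ACC) model free: front joined to infinity off the fattening of ALL of `K`, or RET3
* sec. 1  **`pvfr3_three`** : `PvfrThree (black ends of the strand) y ρ σ lo hi` (`Tr/FitRef`) + the positions `lo..hi` are different  ⟹  `PvxvThree T pos s y ρ σ` (`Defs/Three`)
-/

set_option autoImplicit false

namespace Claimed.Agent.R289

open Set

section three

variable {V D : Type} {T : PvMap V D} {pos : V → ℂ} {s : V → Bool} {d0 : D}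

/-- **the link FIT-DET → ARM export**: three passages of ONE strand, less than one turn, are three disjoint pieces far → near -/
theorem pvfr3_three (hbw : pvasBW T s d0) {y : ℂ} {ρ σ : ℝ} {lo hi : ℕ} (hinj : Set.InjOn (pvasIt T s d0) (Set.Icc lo hi))
    (h : PvfrThree (fun k => pos (T.src (pvasIt T s d0 k))) y ρ σ lo hi) : PvxvThree T pos s y ρ σ := by
  obtain ⟨e0, i, e1, j, e2, l, h0, h1, h2, h3, h4, h5, h6, ni, nj, nl, f0, f1, f2⟩ := h
  -- starting times and lengths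
  let st : Fin 3 → ℕ := ![e0, e1, e2]
  let en : Fin 3 → ℕ := ![i, j, l]
  have hst : ∀ a : Fin 3, st a ≤ en a ∧ lo ≤ st a ∧ en a ≤ hi := by
    intro a
    fin_cases a
    · exact ⟨h1.le, h0, show i ≤ hi by omega⟩
    · exact ⟨h3.le, show lo ≤ e1 by omega, show j ≤ hi by omega⟩
    · exact ⟨h5.le, show lo ≤ e2 by omega, h6⟩
  have hdis : ∀ a b : Fin 3, a ≠ b → en a < st b ∨ en b < st a := by
    intro a b hab
    fin_cases a <;> fin_cases b
    · exact absurd rfl hab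
    · exact Or.inl (show i < e1 from h2)
    · exact Or.inl (show i < e2 by omega)
    · exact Or.inr (show i < e1 from h2)
    · exact absurd rfl hab
    · exact Or.inl (show j < e2 from h4)
    · exact Or.inr (show i < e2 by omega)
    · exact Or.inr (show j < e2 from h4)
    · exact absurd rfl hab
  have hfar : ∀ a : Fin 3, σ ≤ ‖pos (T.src (pvasIt T s d0 (st a))) - y‖ := by
    intro a
    fin_cases a
    · exact f0.le
    · exact f1.le
    · exact f2.le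
  have hnear : ∀ a : Fin 3, ‖pos (T.src (pvasIt T s d0 (en a))) - y‖ ≤ ρ := by
    intro a
    fin_cases a
    · exact ni
    · exact nj
    · exact nl
  refine ⟨fun a => pvasIt T s d0 (st a), fun a => en a - st a, fun a => ⟨pvas_it_bw hbw _, hfar a, ?_⟩, ?_⟩
  · rw [← pvas_it_add, Nat.add_sub_cancel' (hst a).1]
    exact hnear a
  · intro a b hab k hk m hm e
    rw [← pvas_it_add, ← pvas_it_add] at e
    have ha := hst a
    have hb := hst b
    have hk' : k ≤ en a - st a := hk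
    have hm' : m ≤ en b - st b := hm
    have := hinj (show st a + k ∈ Set.Icc lo hi from ⟨by omega, by omega⟩) (show st b + m ∈ Set.Icc lo hi from ⟨by omega, by omega⟩) e
    rcases hdis a b hab with h | h <;> omega

end three

/-! ## 2. (ACC), model free: each front is joined to infinity off the fattening of ALL of `K`, or the closed wall makes three visits -/

section acc

variable {γ : ℕ → ℂ} {K W M : Set ℂ} {μ r S η δ : ℝ} {ts tt n : ℕ} {u v pt ps p0 p1 : ℂ}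

/-- the sup-norm pinch of 292 implies his Euclidean pinch (same mouths) as soon as `η ≤ r / 2` -/
theorem pvfr3_pp_pinch (hr : 0 < r) (hη : η ≤ r / 2) (h : PvtcPP K W M p0 r η) : PvtcPlPinch K W M p0 r := by
  obtain ⟨x, hx, y, hy, w, hw, hM, hxy, hwd, hall⟩ := h
  refine ⟨x, hx, y, hy, w, hw, hM, ?_, ?_, ?_⟩
  · have := pvtc_pl_norm_le_sup (x - y)
    linarith
  · rcases hwd with h1 | h1
    · left
      have := pvtc_pl_norm_le_sup (w - x)
      linarith
    · right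
      have := pvtc_pl_norm_le_sup (w - y)
      linarith
  · intro K' hK' hc hxK hyK S hS hsub
    have hin : ∀ p : ℂ, pvtcSup (p - x) ≤ S → p ∈ pvtcRect (x.re - S) (x.re + S) (x.im - S) (x.im + S) := by
      intro p hp
      obtain ⟨a, b⟩ := pvtc_pl_sup_le.1 hp
      rw [Complex.sub_re] at a
      rw [Complex.sub_im] at b
      obtain ⟨a1, a2⟩ := abs_le.1 a
      obtain ⟨b1, b2⟩ := abs_le.1 b
      exact ⟨by linarith, by linarith, by linarith, by linarith⟩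
    have h0 := hall K' hK' hc hxK hyK (x.re - S) (x.re + S) (x.im - S) (x.im + S) ?_ ?_ ?_
    · obtain ⟨a1, a2, a3, a4⟩ := h0
      have h1 : pvtcSup (p0 - x) ≤ S + η := by
        rw [pvtc_pl_sup_le, Complex.sub_re, Complex.sub_im]
        exact ⟨abs_le.2 ⟨by linarith, by linarith⟩, abs_le.2 ⟨by linarith, by linarith⟩⟩
      have := pvtc_pl_norm_le_sup (p0 - x)
      linarith
    · intro p hp
      refine hin p ((pvtc_pl_sup_le_norm _).trans ?_)
      have := hsub hp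
      rwa [Metric.mem_closedBall, dist_eq_norm] at this
    · intro p hp
      exact hin p (by linarith)
    · intro p hp
      refine hin p ?_
      obtain ⟨a, b⟩ := pvtc_pl_sup_le.1 hp
      obtain ⟨c, d⟩ := pvtc_pl_sup_le.1 hxy
      rw [Complex.sub_re] at a c
      rw [Complex.sub_im] at b d
      rw [pvtc_pl_sup_le, Complex.sub_re, Complex.sub_im]
      obtain ⟨a1, a2⟩ := abs_le.1 a
      obtain ⟨b1, b2⟩ := abs_le.1 b
      obtain ⟨c1, c2⟩ := abs_le.1 c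
      obtain ⟨d1, d2⟩ := abs_le.1 d
      exact ⟨abs_le.2 ⟨by linarith, by linarith⟩, abs_le.2 ⟨by linarith, by linarith⟩⟩

/-- **(MOUTH)**: two points of `K` inside the mouths `M`, `2 r + η` close, are joined inside `K` within a rectangle which, with the two sup balls, stays off the front `p0`
(step 1 of (3P) of 211 = case (b) of V.5 of 118: the stretch of the stub lies in the box, the front is outside) -/
def Pvfr3Mouth (K M : Set ℂ) (p0 : ℂ) (r η : ℝ) : Prop :=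
  ∀ x ∈ K, ∀ y ∈ K, x ∈ M → y ∈ M → pvtcSup (x - y) ≤ 2 * r + η → ∃ K' ⊆ K, IsPreconnected K' ∧ x ∈ K' ∧ y ∈ K' ∧ ∃ a b c d : ℝ, K' ⊆ pvtcRect a b c d ∧
    (∀ p : ℂ, pvtcSup (p - x) ≤ r + η → p ∈ pvtcRect a b c d) ∧ (∀ p : ℂ, pvtcSup (p - y) ≤ r + η → p ∈ pvtcRect a b c d) ∧ p0 ∉ pvtcRect (a - η) (b + η) (c - η) (d + η)

theorem pvfr3_eqns_cite : True := by
  have := @Pvfr3Mouth.eq_1
  trivial

/-- a pinch without mouths is a pinch with mouths, by (MOUTH) -/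
theorem pvfr3_pp_mouth (hm : Pvfr3Mouth K M p0 r η) (h : PvtcPP K W ∅ p0 r η) : PvtcPP K W M p0 r η := by
  obtain ⟨x, hx, y, hy, w, hw, -, hxy, hwd, hall⟩ := h
  refine ⟨x, hx, y, hy, w, hw, ?_, hxy, hwd, hall⟩
  by_contra hcon
  push Not at hcon
  obtain ⟨K', hK', hc, hxK, hyK, a, b, c, d, h1, h2, h3, h4⟩ := hm x hx y hy hcon.1 hcon.2 hxy
  exact h4 (hall K' hK' hc hxK hyK a b c d h1 h2 h3)

/-- **(ACC), MODEL FREE**.   `K` = the frozen arc of the closed wall `γ` (times `ts..tt`), `W` = a witness through the front `p0` and a far point `p1`, `M` = the mouths.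
EITHER every `δ`-cell of the front lies in the `(8,4)` outside of the `j`-fattening of the cells of ALL of `K`, OR the wall makes three visits. -/
theorem pvfr3_acc {a0 b0 c0 d0 : ℝ} {j : ℕ} (hc : PvfrArc γ K W μ (S + 8 * r) ts tt u v) (hr : 0 < r) (hμ : 0 ≤ μ) (hS : 8 * r + 2 * μ ≤ S)
    (hη0 : 0 < η) (hη : η ≤ r / 2) (hδ : 0 < δ) (hj : ((j : ℝ) + 1) * δ < r)
    (hKk : IsCompact K) (hKb : K ⊆ pvtcRect a0 b0 c0 d0) (hWc : IsPreconnected W) (hWk : IsCompact W) (hd : Disjoint W K)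
    (hp0 : p0 ∈ W) (hp1 : p1 ∈ W) (hfar : p1 ∉ pvtcRect (a0 - (r + η)) (b0 + (r + η)) (c0 - (r + η)) (d0 + (r + η))) (hper : γ (ts + n) = γ ts)
    (hW : ∀ w ∈ W, (∃ k, (tt ≤ k ∧ k ≤ ts + n) ∧ ‖w - γ k‖ ≤ μ) ∨ ∀ q ∈ K \ M, 13 * r < ‖w - q‖)
    (hpt : ‖γ tt - pt‖ ≤ μ) (hps : ‖γ ts - ps‖ ≤ μ) (hMt : ∀ q ∈ K \ M, S + 5 * r < ‖pt - q‖) (hMs : ∀ q ∈ K \ M, S + 5 * r < ‖ps - q‖)
    (hM0 : ∀ q ∈ K \ M, 3 * S + 5 * r < ‖p0 - q‖) (hm : Pvfr3Mouth K M p0 r η) :
    (∀ e : ℤ × ℤ, p0 ∈ pvtSq δ e → e ∈ pvtbOut (pvtwN j (pvtCells δ K))) ∨ ∃ x ∈ K, PvfrRet3 γ x (8 * r + μ) (S - μ) n := by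
  rcases pvtc_pl_fit (M := ∅) hr hη0 hδ hj (pvfr_arc_conn hc) hKk hKb hWc hWk hd hp0 hp1 hfar with h | h
  · left
    rwa [Set.sdiff_empty] at h
  · right
    exact pvfr_arc_closed hc hr hμ hS hper hW hpt hps hMt hMs hM0 (pvfr3_pp_pinch hr hη (pvfr3_pp_mouth hm h))

end acc

/-! ## 3. RET3 ⟹ the event of record -/

section ret

variable {V D : Type} {T : PvMap V D} {pos : V → ℂ} {s : V → Bool} {d0 : D}

/-- three passages are stable under a perturbation of the places -/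
theorem pvfr3_three_near {γ γ' : ℕ → ℂ} {y : ℂ} {ρ σ κ : ℝ} {lo hi : ℕ} (hκ : ∀ k, ‖γ' k - γ k‖ ≤ κ) (h : PvfrThree γ y ρ σ lo hi) : PvfrThree γ' y (ρ + κ) (σ - κ) lo hi := by
  obtain ⟨e0, i, e1, j, e2, l, h0, h1, h2, h3, h4, h5, h6, ni, nj, nl, f0, f1, f2⟩ := h
  have up : ∀ k, ‖γ k - y‖ ≤ ρ → ‖γ' k - y‖ ≤ ρ + κ := fun k hk => by
    have := pvfr_tri (γ' k) (γ k) y
    have := hκ k
    linarith
  have dn : ∀ k, σ < ‖γ k - y‖ → σ - κ < ‖γ' k - y‖ := fun k hk => by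
    have := pvfr_tri (γ k) (γ' k) y
    have := hκ k
    rw [norm_sub_rev] at this
    linarith
  exact ⟨e0, i, e1, j, e2, l, h0, h1, h2, h3, h4, h5, h6, up _ ni, up _ nj, up _ nl, dn _ f0, dn _ f1, dn _ f2⟩

/-- **RET3 of a closed strand ⟹ `PvxvThree`**.      `φ` = the place of a position (midpoint, black end, …), within `κ` of the black end -/
theorem pvfr3_ret3 (hbw : pvasBW T s d0) {n : ℕ} (hper : pvasIt T s d0 n = d0) (hmin : ∀ k, 0 < k → k < n → pvasIt T s d0 k ≠ d0) {φ : D → ℂ} {κ : ℝ}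
    (hφ : ∀ k, ‖pos (T.src (pvasIt T s d0 k)) - φ (pvasIt T s d0 k)‖ ≤ κ) {y : ℂ} {ρ σ σ' : ℝ} (hσ : σ' < σ)
    (h : PvfrRet3 (fun k => φ (pvasIt T s d0 k)) y ρ σ n) : PvxvThree T pos s y (ρ + κ) (σ' - κ) := by
  obtain ⟨lo, hi, hlt, h3⟩ := pvfr_three_of_ret3 (fun k => by simp only [pvfr_it_per hper]) hσ h
  exact pvfr3_three hbw (pvfr_injOn_window hbw hmin hlt) (pvfr3_three_near (γ' := fun k => pos (T.src (pvasIt T s d0 k))) hφ h3)

end ret

/-! ## 4. from the thin obstacle to the contract (ACC) of 62 -/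

section face

variable {K Kf : Set ℂ} {δ : ℝ} {z : ℂ}

theorem pvfr3_N_iter (k : ℕ) (E : Set (ℤ × ℤ)) : pvtN8^[k] E = pvtwN k E := by
  induction k with
  | zero => rw [pvtw_N_zero]; rfl
  | succ k ih => rw [Function.iterate_succ_apply', ih, pvtw_N_succ]

/-- the cells of a set within `δ` (sup norm) of `K` are within two cells of the cells of `K` -/
theorem pvfr3_cells_near (hδ : 0 < δ) (hn : ∀ p ∈ Kf, ∃ q ∈ K, pvtcSup (p - q) ≤ δ) : pvtCells δ Kf ⊆ pvtwN 2 (pvtCells δ K) := by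
  rintro e ⟨p, hpe, hp⟩
  obtain ⟨q, hq, hpq⟩ := hn p hp
  obtain ⟨e', he'⟩ := pvt_sq_cover hδ q
  refine ⟨e', ⟨q, he', hq⟩, ?_⟩
  obtain ⟨a1, a2, a3, a4⟩ := hpe
  obtain ⟨b1, b2, b3, b4⟩ := he'
  obtain ⟨c, d⟩ := pvtc_pl_sup_le.1 hpq
  rw [Complex.sub_re] at c
  rw [Complex.sub_im] at d
  obtain ⟨c1, c2⟩ := abs_le.1 c
  obtain ⟨d1, d2⟩ := abs_le.1 d
  have key : ∀ m m' : ℤ, (m : ℝ) * δ ≤ ((m' : ℝ) + 1) * δ + δ → m ≤ m' + 2 := by
    intro m m' h
    have h1 : (m : ℝ) * δ ≤ ((m' : ℝ) + 2) * δ := by linarith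
    have h2 : (m : ℝ) ≤ (m' : ℝ) + 2 := le_of_mul_le_mul_right h1 hδ
    exact_mod_cast h2
  exact ⟨key _ _ (by linarith), key _ _ (by linarith), key _ _ (by linarith), key _ _ (by linarith)⟩

/-- **thin obstacle ⟹ (ACC) of 62 for the face form**: the conclusion is `PvfyAcc δ k Kf z` of `Tr/FitRoof` UNFOLDED (no import of the roof) -/
theorem pvfr3_acc_face (hδ : 0 < δ) {k : ℕ} (hn : ∀ p ∈ Kf, ∃ q ∈ K, pvtcSup (p - q) ≤ δ)
    (h : ∀ e : ℤ × ℤ, z ∈ pvtSq δ e → e ∈ pvtbOut (pvtwN (k + 2) (pvtCells δ K))) :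
    ∀ a : ℤ × ℤ, z ∈ pvtSq δ a → a ∈ pvtbOut (pvtN8^[k] (pvtCells δ Kf)) := by
  intro a ha
  refine pvtb_out_anti ?_ (h a ha)
  rw [pvfr3_N_iter, ← pvtw_N_add]
  exact pvtw_N_mono le_rfl (pvfr3_cells_near hδ hn)

end face

end Claimed.Agent.R289
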