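-- KEEP
import Claimed.Agent.R289.Tr.FitMouth
import Claimed.Agent.R289.Tr.Acc
import Claimed.Agent.R289.Tr.AccGlue
import Claimed.Agent.R289.Tr.FitThree
import Claimed.Agent.R289.Tr.FitRim

/-!
# Row 289 (S0537, Cardy for Poisson-Voronoi), THE WALL, road E, TR38 = (ACC), file Tr/AccMouth : THE MOUTH FIELDS OF `PvaccScene`      (helper215; prefix `pvmu_`, `pvmu`: continuation of `Tr/FitMouth`)

PRODUCES, on `Tr/Defs` v3 ONLY (half states `AtOut`, `AtIn`; no rim, no cycle, no `Tr/FitRoof`), the fields `p4_t p4_s mask_pt mask_ps mask_tt mask_ts`, the second alternative of `wt_time ws_time`, and `wt_off ws_off` for the added segment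
`[front, tip apex]` of THE CONTRACT `PvaccScene` of 211 (`Tr/Acc`);   the twins `PvtcP4` (292, `Tr/AccGlue`), `Pvfr3Mouth` (19, `Tr/FitThree`) are served too.      CONSUMERS: the assembler 49 (`Tr/FitLift`), 211 (`Tr/AccM`), 118 (`Tr/FitFat`: escape).
DESIGN (211 (2), T3 of 118).   `M` := the two BOX PARTS of the obstacle (disc ∪ stub), each connected, each inside its box `pvwSq z r_k` = a sup ball = a rectangle; `K'` := the box part; the front is outside the fattened box.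
No calm level, no `late_p`, no exit side, no corner clause.      The unmasked part of `K` = `g₀` (edges, or right faces): far from the GRID centres `y^±` of the tip cells (v3) by the mouth clauses of the pins + mesh.
THE DISC `Dd` IS A PARAMETER (connected, in the box, contains the black end of the gate edge): `closedBall z (b h)` (118 211; v3: the core = ALL the sites of the disc), or the faces inside the gate (`pvfiDisc` of 10, cores of `pvfyK` of 62).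

* §0  sup norm, boxes, rectangles, heights
* §1  **(P4) FROM BOXES**, `K` free: `pvmu_p4_box`, `pvmu_p4_boxes` (`PvaccP4`), `pvmu_p4_boxes_glue` (`PvtcP4`), `pvmu_p4_iff` (`Pvfr3Mouth`)
* §2  the RADIAL ray `pvmuRad z x t` (46) from a point `x` NEAR A SIDE of the box (the tip of record `x⁺`, the grid centre `y⁺`: doors): `pvmu_rad_ht_in` (T2 of 118), `pvmu_rad_escape(_sup)` (E20' of v3.3: the ray escapes from box ∪ mouth ball)
* §3  the added segment `[front, tip apex]`, `K` free: `pvmu_link_off`, `pvmu_link_far`, `pvmu_mask_tri`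
* §4  THE BOX PARTS OF A STATE: edges form `pvmuEt pvmuEs` (118, 10), faces form `pvmuFt pvmuFs` (62; `pvmuFace T pos d = pvfyFace T pos d` by `rfl`): connected, in the box
* §5  `g₀` (edges `pvfiTr` of 10, right faces `pvmuG`) is far from a point which its vertices avoid
* §6  **THE FIELDS** on two half states
Prove IN PLACE, helpers just above the theorem.      A misfit of a statement: one line to 215.
-/

set_option autoImplicit false

namespace Claimed.Agent.R289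

open Set Metric

/-! ## §0 sup norm, boxes, rectangles, heights -/

section sup

variable {z z' x y p f n w w' : ℂ} {R R' r s c : ℝ}

theorem pvmu_sq_sup : p ∈ pvwSq z R ↔ pvtcSup (p - z) ≤ R := by
  unfold pvwSq pvtcSup
  exact max_le_iff.symm

theorem pvmu_sq_rect (z : ℂ) (R : ℝ) : pvwSq z R = pvtcRect (z.re - R) (z.re + R) (z.im - R) (z.im + R) := by
  ext p
  unfold pvwSq pvtcRect
  simp only [mem_ofPred_eq, Complex.sub_re, Complex.sub_im, abs_le]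
  constructor
  · rintro ⟨⟨a, b⟩, c, d⟩
    exact ⟨by linarith, by linarith, by linarith, by linarith⟩
  · rintro ⟨a, b, c, d⟩
    exact ⟨⟨by linarith, by linarith⟩, by linarith, by linarith⟩

theorem pvmu_sq_mono (h : R ≤ R') : pvwSq z R ⊆ pvwSq z R' := by
  exact fun _ hp => ⟨hp.1.trans h, hp.2.trans h⟩

theorem pvmu_sup_sq (hx : x ∈ pvwSq z R) (hp : pvtcSup (p - x) ≤ s) : p ∈ pvwSq z (R + s) := by
  obtain ⟨h1, h2⟩ := hx
  obtain ⟨h3, h4⟩ := max_le_iff.1 hp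
  simp only [Complex.sub_re, Complex.sub_im, abs_le] at h1 h2 h3 h4
  refine ⟨?_, ?_⟩ <;> simp only [Complex.sub_re, Complex.sub_im, abs_le] <;> constructor <;> linarith [h1.1, h1.2, h2.1, h2.2, h3.1, h3.2, h4.1, h4.2]

/-- two boxes with far centres are apart -/
theorem pvmu_sq_apart (hx : x ∈ pvwSq z R) (hy : y ∈ pvwSq z' R') : pvtcSup (z - z') - R - R' ≤ pvtcSup (x - y) := by
  obtain ⟨h1, h2⟩ := hx
  obtain ⟨h3, h4⟩ := hy
  simp only [Complex.sub_re, Complex.sub_im, abs_le] at h1 h2 h3 h4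
  have key : pvtcSup (z - z') ≤ pvtcSup (x - y) + R + R' := by
    unfold pvtcSup
    refine max_le ?_ ?_
    · have : |(z - z').re| ≤ |(x - y).re| + R + R' := by
        simp only [Complex.sub_re]
        rw [abs_le]
        constructor
        · linarith [neg_abs_le (x.re - y.re), h1.1, h1.2, h3.1, h3.2]
        · linarith [le_abs_self (x.re - y.re), h1.1, h1.2, h3.1, h3.2]
      linarith [le_max_left |(x - y).re| |(x - y).im|]
    · have : |(z - z').im| ≤ |(x - y).im| + R + R' := by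
        simp only [Complex.sub_im]
        rw [abs_le]
        constructor
        · linarith [neg_abs_le (x.im - y.im), h2.1, h2.2, h4.1, h4.2]
        · linarith [le_abs_self (x.im - y.im), h2.1, h2.2, h4.1, h4.2]
      linarith [le_max_right |(x - y).re| |(x - y).im|]
  linarith

/-- the height is 1-Lipschitz for the sup norm -/
theorem pvmu_ht_sup (hn : PvmuDir n) : pvmuHt z r n w ≤ pvmuHt z r n w' + pvtcSup (w - w') := by
  have h1 : |(w - w').re| ≤ pvtcSup (w - w') := le_max_left _ _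
  have h2 : |(w - w').im| ≤ pvtcSup (w - w') := le_max_right _ _
  have a1 := abs_le.1 h1
  have a2 := abs_le.1 h2
  simp only [Complex.sub_re, Complex.sub_im] at a1 a2
  unfold pvmuHt
  rcases hn with rfl | rfl | rfl | rfl <;> simp <;> linarith [a1.1, a1.2, a2.1, a2.2]

/-- a point of height `> c` over a side is outside the fattened box -/
theorem pvmu_ht_not_mem (hn : PvmuDir n) (hf : c < pvmuHt z r n f) : f ∉ pvwSq z (r + c) := by
  rintro ⟨h1, h2⟩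
  have a1 := abs_le.1 h1
  have a2 := abs_le.1 h2
  simp only [Complex.sub_re, Complex.sub_im] at a1 a2
  unfold pvmuHt at hf
  rcases hn with rfl | rfl | rfl | rfl <;> simp at hf <;> linarith [a1.1, a1.2, a2.1, a2.2]

/-- a point of height `≥ c` over a side is at sup distance `≥ c` from the box -/
theorem pvmu_ht_far_sup (hn : PvmuDir n) (hf : c ≤ pvmuHt z r n f) : ∀ w ∈ pvwSq z r, c ≤ pvtcSup (f - w) := by
  rintro w ⟨h1, h2⟩
  have b1 : |(f - w).re| ≤ pvtcSup (f - w) := le_max_left _ _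
  have b2 : |(f - w).im| ≤ pvtcSup (f - w) := le_max_right _ _
  have a1 := abs_le.1 h1
  have a2 := abs_le.1 h2
  have c1 := abs_le.1 b1
  have c2 := abs_le.1 b2
  simp only [Complex.sub_re, Complex.sub_im] at a1 a2 c1 c2
  unfold pvmuHt at hf
  rcases hn with rfl | rfl | rfl | rfl <;> simp at hf <;> linarith [a1.1, a1.2, a2.1, a2.2, c1.1, c1.2, c2.1, c2.2]

/-- a point far from the centre is outside the box -/
theorem pvmu_far_not_mem (hf : R < pvtcSup (f - z)) : f ∉ pvwSq z R := by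
  exact fun h => absurd (pvmu_sq_sup.1 h) (not_le.2 hf)

/-- a segment with both ends above a side misses the box -/
theorem pvmu_seg_out (hn : PvmuDir n) (hp : 0 < pvmuHt z r n p) (hw : 0 < pvmuHt z r n w) : Disjoint (segment ℝ p w) (pvwSq z r) := by
  rw [Set.disjoint_left]
  intro x hx hxs
  have h1 := pvmu_ht_seg_lt (c := 0) hp hw hx
  have h2 := pvmu_sq_iff.1 hxs n hn
  linarith

end sup

/-! ## §1 (P4) from boxes -/

section p4

variable {K Kb Kt Ks M Mt Ms : Set ℂ} {z zt zs p0 : ℂ} {R Rt Rs r η : ℝ}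

/-- the contract of 19 is the contract of 211 -/
theorem pvmu_p4_iff : Pvfr3Mouth K M p0 r η ↔ PvaccP4 K M p0 r η := Iff.rfl

/-- **(P4), ONE BOX**: `Kb ⊆ K` connected in the box, the mask meets `K` inside `Kb`, the front is outside the box fattened by `r + 2 η` -/
theorem pvmu_p4_box (hr : 0 ≤ r) (hη : 0 ≤ η) (hKb : Kb ⊆ K) (hc : IsPreconnected Kb) (hbox : Kb ⊆ pvwSq z R) (hM : K ∩ M ⊆ Kb) (hp0 : p0 ∉ pvwSq z (R + (r + 2 * η))) :
    PvaccP4 K M p0 r η := by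
  intro x hx y hy hxM hyM _
  have hxb : x ∈ Kb := hM ⟨hx, hxM⟩
  have hyb : y ∈ Kb := hM ⟨hy, hyM⟩
  refine ⟨Kb, hKb, hc, hxb, hyb, z.re - (R + (r + η)), z.re + (R + (r + η)), z.im - (R + (r + η)), z.im + (R + (r + η)), ?_, ?_, ?_, ?_⟩
  · rw [← pvmu_sq_rect]
    exact hbox.trans (pvmu_sq_mono (by linarith))
  · intro p hp
    rw [← pvmu_sq_rect]
    exact pvmu_sup_sq (hbox hxb) hp
  · intro p hp
    rw [← pvmu_sq_rect]
    exact pvmu_sup_sq (hbox hyb) hp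
  · intro hp
    apply hp0
    rw [pvmu_sq_rect]
    obtain ⟨h1, h2, h3, h4⟩ := hp
    exact ⟨by linarith, by linarith, by linarith, by linarith⟩

/-- **(P4), THE TWO BOXES OF A DATUM**: the front is outside both fattened boxes, the two boxes are more than `2 r + η` apart -/
theorem pvmu_p4_boxes (hr : 0 ≤ r) (hη : 0 ≤ η) (hKt : Kt ⊆ K) (hct : IsPreconnected Kt) (hbt : Kt ⊆ pvwSq zt Rt) (hMt : K ∩ Mt ⊆ Kt) (hpt : p0 ∉ pvwSq zt (Rt + (r + 2 * η)))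
    (hKs : Ks ⊆ K) (hcs : IsPreconnected Ks) (hbs : Ks ⊆ pvwSq zs Rs) (hMs : K ∩ Ms ⊆ Ks) (hps : p0 ∉ pvwSq zs (Rs + (r + 2 * η))) (hsep : Rs + Rt + (2 * r + η) < pvtcSup (zt - zs)) :
    PvaccP4 K (Ms ∪ Mt) p0 r η := by
  intro x hx y hy hxM hyM hxy
  rcases hxM with hxM | hxM <;> rcases hyM with hyM | hyM
  · exact pvmu_p4_box hr hη hKs hcs hbs hMs hps x hx y hy hxM hyM hxy
  · exfalso
    have h1 := pvmu_sq_apart (hbt (hMt ⟨hy, hyM⟩)) (hbs (hMs ⟨hx, hxM⟩))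
    rw [pvtc_pl_sup_comm y x] at h1
    linarith
  · exfalso
    have h1 := pvmu_sq_apart (hbt (hMt ⟨hx, hxM⟩)) (hbs (hMs ⟨hy, hyM⟩))
    linarith
  · exact pvmu_p4_box hr hη hKt hct hbt hMt hpt x hx y hy hxM hyM hxy

/-- the same for the contract of 292 -/
theorem pvmu_p4_boxes_glue (hKt : Kt ⊆ K) (hct : IsPreconnected Kt) (hbt : Kt ⊆ pvwSq zt Rt) (hMt : K ∩ Mt ⊆ Kt) (hpt : p0 ∉ pvwSq zt (Rt + (r + 2 * η)))
    (hKs : Ks ⊆ K) (hcs : IsPreconnected Ks) (hbs : Ks ⊆ pvwSq zs Rs) (hMs : K ∩ Ms ⊆ Ks) (hps : p0 ∉ pvwSq zs (Rs + (r + 2 * η))) (hsep : Rs + Rt + (2 * r + η) < pvtcSup (zt - zs)) :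
    PvtcP4 K (Ms ∪ Mt) p0 r η := by
  have one : ∀ {Kb M : Set ℂ} {z : ℂ} {R : ℝ}, Kb ⊆ K → IsPreconnected Kb → Kb ⊆ pvwSq z R → K ∩ M ⊆ Kb → p0 ∉ pvwSq z (R + (r + 2 * η)) →
      ∀ x ∈ K, ∀ y ∈ K, x ∈ M → y ∈ M →
        ∃ K' ⊆ K, IsPreconnected K' ∧ x ∈ K' ∧ y ∈ K' ∧ ∃ a b c d : ℝ, K' ⊆ pvtcRect a b c d ∧ p0 ∉ pvtcRect (a - (r + 2 * η)) (b + (r + 2 * η)) (c - (r + 2 * η)) (d + (r + 2 * η)) := by
    intro Kb M z R hKb hc hbox hM hp0 x hx y hy hxM hyM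
    refine ⟨Kb, hKb, hc, hM ⟨hx, hxM⟩, hM ⟨hy, hyM⟩, z.re - R, z.re + R, z.im - R, z.im + R, ?_, ?_⟩
    · rw [← pvmu_sq_rect]; exact hbox
    · intro hp
      apply hp0
      rw [pvmu_sq_rect]
      obtain ⟨h1, h2, h3, h4⟩ := hp
      exact ⟨by linarith, by linarith, by linarith, by linarith⟩
  intro x hx y hy hxM hyM hxy
  rcases hxM with hxM | hxM <;> rcases hyM with hyM | hyM
  · exact one hKs hcs hbs hMs hps x hx y hy hxM hyM
  · exfalso
    have h1 := pvmu_sq_apart (hbt (hMt ⟨hy, hyM⟩)) (hbs (hMs ⟨hx, hxM⟩))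
    rw [pvtc_pl_sup_comm y x] at h1
    linarith
  · exfalso
    have h1 := pvmu_sq_apart (hbt (hMt ⟨hx, hxM⟩)) (hbs (hMs ⟨hy, hyM⟩))
    linarith
  · exact one hKt hct hbt hMt hpt x hx y hy hxM hyM

end p4

/-! ## §2 the radial ray from a point near a side of the box -/

section ray

variable {z x n w : ℂ} {r μ t t₁ ρ₀ : ℝ}

theorem pvmu_rad_centre (hx : x ≠ z) (ht : 0 ≤ t) : ‖pvmuRad z x t - z‖ = ‖x - z‖ + t := by
  have h0 : 0 < ‖x - z‖ := norm_pos_iff.2 (sub_ne_zero.2 hx)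
  have e : pvmuRad z x t - z = ((1 + t / ‖x - z‖ : ℝ) : ℂ) * (x - z) := by
    unfold pvmuRad
    push_cast
    ring
  rw [e, norm_mul, Complex.norm_real, Real.norm_eq_abs, abs_of_nonneg (by positivity)]
  field_simp

/-- a point near a side of the box is not the centre -/
theorem pvmu_rad_ne (hn : PvmuDir n) (hr : 0 < r) (hh : -μ ≤ pvmuHt z r n x) (hμ : 6 * μ ≤ r) : x ≠ z := by
  rintro rfl
  unfold pvmuHt at hh
  simp only [sub_self, zero_mul, Complex.zero_re, zero_sub] at hh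
  linarith

/-- (T2 of 118) `x` within `μ` of the box and of the side `n`: the radial front is high over this side -/
theorem pvmu_rad_ht_in (hn : PvmuDir n) (hr : 0 < r) (hx : x ∈ pvwSq z (r + μ)) (hh : -μ ≤ pvmuHt z r n x) (hμ : 6 * μ ≤ r) (ht : 0 ≤ t) : t / 2 - μ ≤ pvmuHt z r n (pvmuRad z x t) := by
  have hxz : x ≠ z := pvmu_rad_ne hn hr hh hμ
  have h0 : 0 < ‖x - z‖ := norm_pos_iff.2 (sub_ne_zero.2 hxz)
  have e : pvmuHt z r n (pvmuRad z x t) = pvmuHt z r n x + t / ‖x - z‖ * (pvmuHt z r n x + r) := by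
    unfold pvmuHt pvmuRad
    have e1 : (x + ((t / ‖x - z‖ : ℝ) : ℂ) * (x - z) - z) * (starRingEnd ℂ) n = (x - z) * (starRingEnd ℂ) n + ((t / ‖x - z‖ : ℝ) : ℂ) * ((x - z) * (starRingEnd ℂ) n) := by ring
    rw [e1, Complex.add_re, Complex.re_ofReal_mul]
    ring
  have ha : pvmuHt z r n x + r ≤ r + μ := by
    have := (pvmu_sq_iff.1 hx) n hn
    unfold pvmuHt at this ⊢
    linarith
  have hsq : ‖x - z‖ ^ 2 ≤ 2 * (r + μ) ^ 2 := by
    obtain ⟨b1, b2⟩ := hx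
    rw [Complex.sq_norm, Complex.normSq_apply]
    have c1 := sq_le_sq' (abs_le.1 b1).1 (abs_le.1 b1).2
    have c2 := sq_le_sq' (abs_le.1 b2).1 (abs_le.1 b2).2
    nlinarith
  have hρ : ‖x - z‖ ≤ 2 * (pvmuHt z r n x + r) := by
    by_contra hc
    rw [not_le] at hc
    have hμ0 : 0 ≤ μ := by linarith
    have ha0 : 0 ≤ pvmuHt z r n x + r := by linarith
    have h1 : (2 * (pvmuHt z r n x + r)) ^ 2 < ‖x - z‖ ^ 2 := by nlinarith
    have h2 : (r - μ) ^ 2 ≤ (pvmuHt z r n x + r) ^ 2 := by nlinarith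
    nlinarith [mul_nonneg hr.le (sub_nonneg.2 hμ), sq_nonneg μ]
  have h2 : t / 2 ≤ t / ‖x - z‖ * (pvmuHt z r n x + r) := by
    rw [div_mul_eq_mul_div, le_div_iff₀ h0]
    nlinarith
  rw [e]
  linarith

/-- the points of a stretch of the ray -/
theorem pvmu_rad_stretch (h01 : t ≤ t₁) (hw : w ∈ segment ℝ (pvmuRad z x t) (pvmuRad z x t₁)) : ∃ t', t ≤ t' ∧ t' ≤ t₁ ∧ w = pvmuRad z x t' := by
  obtain ⟨α, β, hα, hβ, hαβ, rfl⟩ := hw
  have hα' : α = 1 - β := by linarith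
  refine ⟨α * t + β * t₁, ?_, ?_, ?_⟩
  · rw [hα']
    nlinarith [mul_nonneg hβ (sub_nonneg.2 h01)]
  · have hβ' : β = 1 - α := by linarith
    rw [hβ']
    nlinarith [mul_nonneg hα (sub_nonneg.2 h01)]
  have h1 : (α : ℂ) + (β : ℂ) = 1 := by exact_mod_cast hαβ
  unfold pvmuRad
  simp only [Complex.real_smul]
  push_cast
  linear_combination (x : ℂ) * h1

/-- the ray leaves the balls round its origin -/
theorem pvmu_rad_ball (hx : x ≠ z) (ht : 0 ≤ t) : ∀ w ∈ closedBall x ρ₀, t - ρ₀ ≤ ‖pvmuRad z x t - w‖ := by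
  intro w hw
  have h1 := pvmu_rad_dist hx ht
  have h2 : ‖w - x‖ ≤ ρ₀ := mem_closedBall_iff_norm.1 hw
  have h3 : ‖pvmuRad z x t - x‖ ≤ ‖pvmuRad z x t - w‖ + ‖w - x‖ := by
    calc ‖pvmuRad z x t - x‖ = ‖(pvmuRad z x t - w) + (w - x)‖ := by ring_nf
      _ ≤ _ := norm_add_le _ _
  linarith

/-- **THE RADIAL RAY ESCAPES** (E20' of v3.3: no fat pinch): beyond the front it stays at distance `≥ t/2 - μ` from the box and `≥ t - ρ₀` from the mouth ball -/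
theorem pvmu_rad_escape (hn : PvmuDir n) (hr : 0 < r) (hx : x ∈ pvwSq z (r + μ)) (hh : -μ ≤ pvmuHt z r n x) (hμ : 6 * μ ≤ r) (ht : 0 ≤ t) (h01 : t ≤ t₁)
    (hw : w ∈ segment ℝ (pvmuRad z x t) (pvmuRad z x t₁)) : (∀ w' ∈ pvwSq z r, t / 2 - μ ≤ ‖w - w'‖) ∧ ∀ w' ∈ closedBall x ρ₀, t - ρ₀ ≤ ‖w - w'‖ := by
  obtain ⟨t', h1, h2, rfl⟩ := pvmu_rad_stretch h01 hw
  have ht' : 0 ≤ t' := ht.trans h1
  constructor
  · intro w' hw'
    have a1 := pvmu_rad_ht_in hn hr hx hh hμ ht'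
    have a2 := (pvmu_sq_iff.1 hw') n hn
    have a3 := pvmu_ht_lip (z := z) (r := r) (w := pvmuRad z x t') (w' := w') hn
    linarith
  · intro w' hw'
    have := pvmu_rad_ball (z := z) (pvmu_rad_ne hn hr hh hμ) ht' w' hw'
    linarith

/-- the same in the sup norm (form of `Tr/FitFat`) -/
theorem pvmu_rad_escape_sup (hn : PvmuDir n) (hr : 0 < r) (hx : x ∈ pvwSq z (r + μ)) (hh : -μ ≤ pvmuHt z r n x) (hμ : 6 * μ ≤ r) (ht : 0 ≤ t) (h01 : t ≤ t₁)
    (hw : w ∈ segment ℝ (pvmuRad z x t) (pvmuRad z x t₁)) : (∀ w' ∈ pvwSq z r, t / 2 - μ ≤ pvtcSup (w - w')) ∧ ∀ w' ∈ closedBall x ρ₀, (t - ρ₀) / 2 ≤ pvtcSup (w - w') := by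
  obtain ⟨t', h1, h2, rfl⟩ := pvmu_rad_stretch h01 hw
  have ht' : 0 ≤ t' := ht.trans h1
  constructor
  · intro w' hw'
    have a1 := pvmu_rad_ht_in hn hr hx hh hμ ht'
    have a2 := (pvmu_sq_iff.1 hw') n hn
    have a3 := pvmu_ht_sup (z := z) (r := r) (w := pvmuRad z x t') (w' := w') hn
    linarith
  · intro w' hw'
    have a1 := pvmu_rad_ball (z := z) (pvmu_rad_ne hn hr hh hμ) ht' w' hw'
    have a2 := Complex.norm_le_abs_re_add_abs_im (pvmuRad z x t' - w')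
    have a3 : |(pvmuRad z x t' - w').re| ≤ pvtcSup (pvmuRad z x t' - w') := le_max_left _ _
    have a4 : |(pvmuRad z x t' - w').im| ≤ pvtcSup (pvmuRad z x t' - w') := le_max_right _ _
    linarith

end ray

/-! ## §3 the added segment `[front, tip apex]`, `K` free -/

section link

variable {K Kb : Set ℂ} {z x ν p q w q' : ℂ} {r ρ' t : ℝ}

/-- `K` = a part in the box + a part farther than `ρ'` from the centre `x` of the mouth: a segment above a side, inside `closedBall x ρ'`, misses `K` -/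
theorem pvmu_link_off (hK : ∀ a ∈ K, a ∈ Kb ∨ ρ' < ‖a - x‖) (hb : Kb ⊆ pvwSq z r) (hν : PvmuDir ν) (hp : 0 < pvmuHt z r ν p) (hq : 0 < pvmuHt z r ν q)
    (h1 : ‖p - x‖ ≤ ρ') (h2 : ‖q - x‖ ≤ ρ') : Disjoint (segment ℝ p q) K := by
  rw [Set.disjoint_left]
  intro a ha haK
  have hball : a ∈ closedBall x ρ' := by
    have hc : Convex ℝ (closedBall x ρ') := convex_closedBall x ρ'
    exact hc.segment_subset (mem_closedBall_iff_norm.2 h1) (mem_closedBall_iff_norm.2 h2) ha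
  rcases hK a haK with h3 | h3
  · exact Set.disjoint_left.1 (pvmu_seg_out hν hp hq) ha (hb h3)
  · exact absurd (mem_closedBall_iff_norm.1 hball) (not_le.2 h3)

/-- a point within `t` of `x` is far from the points far from `x`      (`mask_pt mask_ps mask_tt mask_ts`) -/
theorem pvmu_mask_tri (hq' : ρ' < ‖q' - x‖) (hw : ‖w - x‖ ≤ t) : ρ' - t < ‖w - q'‖ := by
  have h1 : ‖q' - x‖ ≤ ‖w - q'‖ + ‖w - x‖ := by
    have e : q' - x = -(w - q') + (w - x) := by ring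
    rw [e]
    exact (norm_add_le _ _).trans (by rw [norm_neg])
  linarith

/-- (m2) of 151 = the second alternative of `wt_time`: the points of a segment inside `closedBall x t` are far from the points far from `x` -/
theorem pvmu_link_far (hw : w ∈ segment ℝ p q) (h1 : ‖p - x‖ ≤ t) (h2 : ‖q - x‖ ≤ t) (hq' : ρ' < ‖q' - x‖) : ρ' - t < ‖w - q'‖ := by
  have hball : w ∈ closedBall x t := by
    have hc : Convex ℝ (closedBall x t) := convex_closedBall x t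
    exact hc.segment_subset (mem_closedBall_iff_norm.2 h1) (mem_closedBall_iff_norm.2 h2) hw
  exact pvmu_mask_tri hq' (mem_closedBall_iff_norm.1 hball)

end link

/-! ## §4 the box parts of a state -/

variable {V D : Type} {T : PvMap V D}

/-- the closed face on the left of the dart `d`      (`= pvfyFace T pos d` of 62 by `rfl`) -/
def pvmuFace (T : PvMap V D) (pos : V → ℂ) (d : D) : Set ℂ := convexHull ℝ {pos (T.src d), pos (T.tgt d), pos (T.apex d)}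
/-- the box part of `Σ_out`, EDGES form: disc ∪ occupied edges of the positions `0 … np` -/
def pvmuEt (T : PvMap V D) (pos : V → ℂ) (𝔖 : PvwSt T) (Dd : Set ℂ) : Set ℂ := Dd ∪ pvmuZig T pos 𝔖.ep 0 𝔖.np
/-- the box part of `Σ_in`, EDGES form -/
def pvmuEs (T : PvMap V D) (pos : V → ℂ) (𝔖 : PvwSt T) (Dd : Set ℂ) : Set ℂ := Dd ∪ pvmuZig T pos 𝔖.em 0 𝔖.nm
/-- the box part of `Σ_out`, FACES form (62): disc ∪ closed faces of the positions `i < np` -/
def pvmuFt (T : PvMap V D) (pos : V → ℂ) (𝔖 : PvwSt T) (Dd : Set ℂ) : Set ℂ := Dd ∪ {w | ∃ i, i < 𝔖.np ∧ w ∈ pvmuFace T pos (𝔖.ep i)}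
/-- the box part of `Σ_in`, FACES form (62): disc ∪ closed faces of the positions `i ≤ nm` -/
def pvmuFs (T : PvMap V D) (pos : V → ℂ) (𝔖 : PvwSt T) (Dd : Set ℂ) : Set ℂ := Dd ∪ {w | ∃ i, i ≤ 𝔖.nm ∧ w ∈ pvmuFace T pos (𝔖.em i)}

theorem pvmu_eqns_cite9 : True := by
  have := @pvmuFace.eq_1; have := @pvmuEt.eq_1; have := @pvmuEs.eq_1; have := @pvmuFt.eq_1; have := @pvmuFs.eq_1
  trivial

section parts

variable {pos : V → ℂ} {s : V → Bool} {𝔖 : PvwSt T} {B Dd : Set ℂ} {h r : ℝ} {z : ℂ} {τ : PvwTy}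

/-- a closed face with its three vertices in a convex set lies in it -/
theorem pvmu_face_sub {C : Set ℂ} (hC : Convex ℝ C) {d : D} (h1 : pos (T.src d) ∈ C) (h2 : pos (T.tgt d) ∈ C) (h3 : pos (T.apex d) ∈ C) : pvmuFace T pos d ⊆ C := by
  refine convexHull_min ?_ hC
  rintro a (rfl | rfl | rfl)
  · exact h1
  · exact h2
  · exact h3

theorem pvmu_face_conn (T : PvMap V D) (pos : V → ℂ) (d : D) : IsPreconnected (pvmuFace T pos d) := by
  exact (convex_convexHull ℝ _).isPreconnected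

/-- the edge of a dart lies in its face -/
theorem pvmu_face_seg (T : PvMap V D) (pos : V → ℂ) (d : D) : T.seg pos d ⊆ pvmuFace T pos d := by
  exact (convex_convexHull ℝ _).segment_subset (subset_convexHull ℝ _ (by simp)) (subset_convexHull ℝ _ (by simp))

/-- the face of a position contains the edge of the next position -/
theorem pvmu_face_step (pos : V → ℂ) (s : V → Bool) (d : D) : T.seg pos (pvasStep T s d) ⊆ pvmuFace T pos d := by
  unfold PvMap.seg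
  rcases pvas_step_ends s d with ⟨-, e1, e2⟩ | ⟨-, e1, e2⟩
  · rw [e1, e2]
    exact (convex_convexHull ℝ _).segment_subset (subset_convexHull ℝ _ (by simp)) (subset_convexHull ℝ _ (by simp))
  · rw [e1, e2]
    exact (convex_convexHull ℝ _).segment_subset (subset_convexHull ℝ _ (by simp)) (subset_convexHull ℝ _ (by simp))

/-- the face of the previous position is the face behind the position -/
theorem pvmu_face_back (pos : V → ℂ) (s : V → Bool) (d : D) : pvmuFace T pos (pvasBack T s d) = pvmuFace T pos (T.opp d) := by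
  unfold pvmuFace
  rcases pvas_back_cases s d with ⟨-, e⟩ | ⟨-, e⟩
  · rw [e, T.src_nxt2, T.tgt_nxt2, T.apex_nxt2]
    congr 1
    ext a
    simp only [mem_insert_iff, mem_singleton_iff]
    tauto
  · rw [e, T.src_nxt, T.tgt_nxt, T.apex_nxt]
    congr 1
    ext a
    simp only [mem_insert_iff, mem_singleton_iff]
    tauto

/-- the black ends of the two gate edges lie in the open disc of the gate -/
theorem pvmu_gate_gp (hg : 𝔖.Gate pos h z τ s) : pos 𝔖.gp ∈ closedBall z (τ.b * h) := by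
  obtain ⟨q, hq⟩ := hg.dp_on
  have h1 : 𝔖.gp ∈ 𝔖.S.verts := by
    refine ⟨q + 1, ?_⟩
    rw [← 𝔖.S.chain q, hq, T.tgt_opp]
    rfl
  rw [mem_closedBall, dist_eq_norm]
  exact (hg.ann _ h1).2.le

theorem pvmu_gate_gm (hg : 𝔖.Gate pos h z τ s) : pos 𝔖.gm ∈ closedBall z (τ.b * h) := by
  obtain ⟨q, hq⟩ := hg.dm_on
  have h1 : 𝔖.gm ∈ 𝔖.S.verts := ⟨q, by rw [hq]; rfl⟩
  rw [mem_closedBall, dist_eq_norm]
  exact (hg.ann _ h1).2.le

/-- the face of the entry gate edge lies in the disc of the gate -/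
theorem pvmu_gate_dm (hT : T.IsSph) (hg : 𝔖.Gate pos h z τ s) : pvmuFace T pos 𝔖.dm ⊆ closedBall z (τ.b * h) := by
  obtain ⟨n, hn, hL, -⟩ := hg.strand
  have hn0 : 0 < n := by
    rcases Nat.eq_zero_or_pos n with e | e
    · exfalso
      rw [e] at hn
      apply hg.ne
      show T.src 𝔖.dp = T.src 𝔖.dm
      rw [← hn]
      rfl
    · exact e
  have h0 : 𝔖.dm ∈ 𝔖.S.Left := hL 0 hn0
  have h1 : T.nxt 𝔖.dm ∈ 𝔖.S.Left := Relation.ReflTransGen.tail h0 (Or.inl rfl)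
  have h2 : T.nxt (T.nxt 𝔖.dm) ∈ 𝔖.S.Left := Relation.ReflTransGen.tail h1 (Or.inl rfl)
  have key : ∀ e ∈ 𝔖.S.Left, pos (T.src e) ∈ closedBall z (τ.b * h) := by
    intro e he
    rw [mem_closedBall, dist_eq_norm]
    exact (hg.inside _ ⟨e, he, rfl⟩).le
  exact pvmu_face_sub (convex_closedBall z _) (key _ h0) (key _ h1) (key _ h2)

theorem pvmu_Et_conn (hD : IsPreconnected Dd) (hgp : pos 𝔖.gp ∈ Dd) (hS : 𝔖.StubP pos B s) : IsPreconnected (pvmuEt T pos 𝔖 Dd) := by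
  have hz : IsPreconnected (pvmuZig T pos 𝔖.ep 0 𝔖.np) := by
    refine pvmu_chain_conn (P := fun l => T.seg pos (𝔖.ep l)) (fun l _ _ => (convex_segment _ _).isPreconnected) fun l _ hl => ?_
    have e1 := hS.ep_it l hl.le
    have e2 := hS.ep_it (l + 1) hl
    rw [pvas_it_succ, ← e1] at e2
    rcases pvas_step_ends s (𝔖.ep l) with ⟨-, -, h2⟩ | ⟨-, h1, -⟩
    · exact ⟨pos (T.tgt (𝔖.ep l)), plg_tgt_mem_seg T pos _, by rw [e2, ← h2]; exact plg_tgt_mem_seg T pos _⟩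
    · exact ⟨pos (T.src (𝔖.ep l)), plg_src_mem_seg T pos _, by rw [e2, ← h1]; exact plg_src_mem_seg T pos _⟩
  refine IsPreconnected.union (pos 𝔖.gp) hgp ⟨0, le_rfl, Nat.zero_le _, ?_⟩ hD hz
  have e0 := hS.ep_it 0 (Nat.zero_le _)
  rw [pvas_it_zero] at e0
  rw [e0]
  exact plg_src_mem_seg T pos _

theorem pvmu_Es_conn (hD : IsPreconnected Dd) (hgm : pos 𝔖.gm ∈ Dd) (hS : 𝔖.StubM pos B s) : IsPreconnected (pvmuEs T pos 𝔖 Dd) := by
  have hz : IsPreconnected (pvmuZig T pos 𝔖.em 0 𝔖.nm) := by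
    refine pvmu_chain_conn (P := fun l => T.seg pos (𝔖.em l)) (fun l _ _ => (convex_segment _ _).isPreconnected) fun l _ hl => ?_
    have e1 := hS.em_it l hl.le
    have e2 := hS.em_it (l + 1) hl
    rw [Function.iterate_succ_apply', ← e1] at e2
    rcases pvmu_back_ends s (𝔖.em l) with ⟨-, -, h2⟩ | ⟨-, h1, -⟩
    · exact ⟨pos (T.tgt (𝔖.em l)), plg_tgt_mem_seg T pos _, by rw [e2, ← h2]; exact plg_tgt_mem_seg T pos _⟩
    · exact ⟨pos (T.src (𝔖.em l)), plg_src_mem_seg T pos _, by rw [e2, ← h1]; exact plg_src_mem_seg T pos _⟩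
  refine IsPreconnected.union (pos 𝔖.gm) hgm ⟨0, le_rfl, Nat.zero_le _, ?_⟩ hD hz
  have e0 := hS.em_it 0 (Nat.zero_le _)
  rw [Function.iterate_zero, id] at e0
  rw [e0]
  exact plg_src_mem_seg T pos _

theorem pvmu_Ft_conn (hD : IsPreconnected Dd) (hgp : pos 𝔖.gp ∈ Dd) (hS : 𝔖.StubP pos B s) : IsPreconnected (pvmuFt T pos 𝔖 Dd) := by
  rcases Nat.eq_zero_or_pos 𝔖.np with h0 | h0
  · have : pvmuFt T pos 𝔖 Dd = Dd := by
      unfold pvmuFt
      rw [h0]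
      simp
    rw [this]
    exact hD
  obtain ⟨n, hn⟩ : ∃ n, 𝔖.np = n + 1 := ⟨𝔖.np - 1, by omega⟩
  have hz : IsPreconnected {w | ∃ l, 0 ≤ l ∧ l ≤ n ∧ w ∈ pvmuFace T pos (𝔖.ep l)} := by
    refine pvmu_chain_conn (P := fun l => pvmuFace T pos (𝔖.ep l)) (fun l _ _ => pvmu_face_conn T pos _) fun l _ hl => ?_
    have e1 := hS.ep_it l (by omega)
    have e2 := hS.ep_it (l + 1) (by omega)
    rw [pvas_it_succ, ← e1] at e2
    refine ⟨pos (T.src (𝔖.ep (l + 1))), ?_, pvmu_face_seg T pos _ (plg_src_mem_seg T pos _)⟩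
    rw [e2]
    exact pvmu_face_step pos s _ (plg_src_mem_seg T pos _)
  have he : pvmuFt T pos 𝔖 Dd = Dd ∪ {w | ∃ l, 0 ≤ l ∧ l ≤ n ∧ w ∈ pvmuFace T pos (𝔖.ep l)} := by
    unfold pvmuFt
    congr 1
    ext w
    simp only [mem_ofPred_eq, hn, Nat.lt_succ_iff, zero_le, true_and]
  rw [he]
  refine IsPreconnected.union (pos 𝔖.gp) hgp ⟨0, le_rfl, Nat.zero_le _, ?_⟩ hD hz
  have e0 := hS.ep_it 0 (Nat.zero_le _)
  rw [pvas_it_zero] at e0
  rw [e0]
  exact pvmu_face_seg T pos _ (plg_src_mem_seg T pos _)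

theorem pvmu_Fs_conn (hD : IsPreconnected Dd) (hgm : pos 𝔖.gm ∈ Dd) (hS : 𝔖.StubM pos B s) : IsPreconnected (pvmuFs T pos 𝔖 Dd) := by
  have hz : IsPreconnected {w | ∃ l, 0 ≤ l ∧ l ≤ 𝔖.nm ∧ w ∈ pvmuFace T pos (𝔖.em l)} := by
    refine pvmu_chain_conn (P := fun l => pvmuFace T pos (𝔖.em l)) (fun l _ _ => pvmu_face_conn T pos _) fun l _ hl => ?_
    have e1 := hS.em_it l hl.le
    have e2 := hS.em_it (l + 1) hl
    rw [Function.iterate_succ_apply', ← e1] at e2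
    refine ⟨pos (T.src (𝔖.em l)), pvmu_face_seg T pos _ (plg_src_mem_seg T pos _), ?_⟩
    rw [e2, pvmu_face_back]
    have := pvmu_face_seg T pos (T.opp (𝔖.em l)) (plg_tgt_mem_seg T pos _)
    rwa [T.tgt_opp] at this
  have he : pvmuFs T pos 𝔖 Dd = Dd ∪ {w | ∃ l, 0 ≤ l ∧ l ≤ 𝔖.nm ∧ w ∈ pvmuFace T pos (𝔖.em l)} := by
    unfold pvmuFs
    congr 1
    ext w
    simp only [mem_ofPred_eq, zero_le, true_and]
  rw [he]
  refine IsPreconnected.union (pos 𝔖.gm) hgm ⟨0, le_rfl, Nat.zero_le _, ?_⟩ hD hz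
  have e0 := hS.em_it 0 (Nat.zero_le _)
  rw [Function.iterate_zero, id] at e0
  rw [e0]
  exact pvmu_face_seg T pos _ (plg_src_mem_seg T pos _)

theorem pvmu_Et_box (hD : Dd ⊆ pvwSq z r) (hS : 𝔖.StubP pos (pvwSq z r) s) : pvmuEt T pos 𝔖 Dd ⊆ pvwSq z r := by
  rintro w (hw | ⟨l, -, hl, hw⟩)
  · exact hD hw
  · exact (pvmu_sq_convex z r).segment_subset (hS.ep_in l hl).1 (hS.ep_in l hl).2 hw

theorem pvmu_Es_box (hD : Dd ⊆ pvwSq z r) (hS : 𝔖.StubM pos (pvwSq z r) s) : pvmuEs T pos 𝔖 Dd ⊆ pvwSq z r := by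
  rintro w (hw | ⟨l, -, hl, hw⟩)
  · exact hD hw
  · exact (pvmu_sq_convex z r).segment_subset (hS.em_in l hl).1 (hS.em_in l hl).2 hw

theorem pvmu_Ft_box (hD : Dd ⊆ pvwSq z r) (hS : 𝔖.StubP pos (pvwSq z r) s) : pvmuFt T pos 𝔖 Dd ⊆ pvwSq z r := by
  rintro w (hw | ⟨i, hi, hw⟩)
  · exact hD hw
  · exact pvmu_face_sub (pvmu_sq_convex z r) (hS.ep_in i hi.le).1 (hS.ep_in i hi.le).2 (hS.ep_ax i hi) hw

theorem pvmu_Fs_box (hD : Dd ⊆ pvwSq z r) (h0 : pvmuFace T pos 𝔖.dm ⊆ pvwSq z r) (hS : 𝔖.StubM pos (pvwSq z r) s) : pvmuFs T pos 𝔖 Dd ⊆ pvwSq z r := by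
  rintro w (hw | ⟨i, hi, hw⟩)
  · exact hD hw
  · rcases i with _ | i
    · rw [hS.em_it 0 hi] at hw
      exact h0 hw
    · have hi' : i < 𝔖.nm := hi
      have e : 𝔖.em (i + 1) = pvasBack T s (𝔖.em i) := by
        rw [hS.em_it (i + 1) hi, hS.em_it i hi'.le, Function.iterate_succ_apply']
      rw [e, pvmu_face_back] at hw
      refine pvmu_face_sub (pvmu_sq_convex z r) ?_ ?_ (hS.em_ax i hi') hw
      · rw [T.src_opp']; exact (hS.em_in i hi'.le).2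
      · rw [T.tgt_opp]; exact (hS.em_in i hi'.le).1

/-- the edges form lies in the faces form -/
theorem pvmu_Es_sub_Fs : pvmuEs T pos 𝔖 Dd ⊆ pvmuFs T pos 𝔖 Dd := by
  rintro w (hw | ⟨l, -, hl, hw⟩)
  · exact Or.inl hw
  · exact Or.inr ⟨l, hl, pvmu_face_seg T pos _ hw⟩

/-- the edges form lies in the faces form, up to the gate edge (in the disc) -/
theorem pvmu_Et_sub_Ft (hdp : T.seg pos 𝔖.dp ⊆ Dd) (hS : 𝔖.StubP pos B s) : pvmuEt T pos 𝔖 Dd ⊆ pvmuFt T pos 𝔖 Dd := by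
  rintro w (hw | ⟨l, -, hl, hw⟩)
  · exact Or.inl hw
  · rcases l with _ | l
    · rw [hS.ep_it 0 hl] at hw
      exact Or.inl (hdp hw)
    · have hl' : l < 𝔖.np := hl
      have e : 𝔖.ep (l + 1) = pvasStep T s (𝔖.ep l) := by
        rw [hS.ep_it (l + 1) hl, hS.ep_it l hl'.le, pvas_it_succ]
      rw [e] at hw
      exact Or.inr ⟨l, hl', pvmu_face_step pos s _ hw⟩

end parts

/-! ## §5 `g₀` is far from a point which its vertices avoid -/

/-- the right faces of `g₀` -/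
def pvmuG (T : PvMap V D) (pos : V → ℂ) (g : T.Pth) : Set ℂ := {w | ∃ i, i < g.n ∧ w ∈ pvmuFace T pos (T.opp (g.e i))}

theorem pvmu_eqns_cite10 : True := by
  have := @pvmuG.eq_1
  trivial

section far

variable {pos : V → ℂ} {g : T.Pth} {x : ℂ} {ρ μ : ℝ}

/-- the right faces of `g₀` (mesh `μ`) -/
theorem pvmu_G_far (hv : ∀ v ∈ g.verts, ρ < ‖pos v - x‖)
    (hm : ∀ i, i < g.n → ‖pos (g.v (i + 1)) - pos (g.v i)‖ ≤ μ ∧ ‖pos (T.apex (T.opp (g.e i))) - pos (g.v i)‖ ≤ μ) : ∀ q ∈ pvmuG T pos g, ρ - μ < ‖q - x‖ := by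
  rintro q ⟨i, hi, hq⟩
  have h0 : ρ < ‖pos (g.v i) - x‖ := hv _ ⟨i, hi.le, rfl⟩
  have hμ : 0 ≤ μ := (norm_nonneg _).trans (hm i hi).1
  have hsub : pvmuFace T pos (T.opp (g.e i)) ⊆ closedBall (pos (g.v i)) μ := by
    refine convexHull_min ?_ (convex_closedBall _ _)
    rintro w (rfl | rfl | rfl)
    · rw [T.src_opp', g.tgt_e i hi, mem_closedBall, dist_eq_norm]
      exact (hm i hi).1
    · rw [T.tgt_opp, g.src_e i hi, mem_closedBall, dist_self]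
      exact hμ
    · rw [mem_closedBall, dist_eq_norm]
      exact (hm i hi).2
  have h1 := hsub hq
  rw [mem_closedBall, dist_eq_norm] at h1
  have h2 : ‖pos (g.v i) - x‖ ≤ ‖q - x‖ + ‖q - pos (g.v i)‖ := by
    have : pos (g.v i) - x = (q - x) - (q - pos (g.v i)) := by ring
    rw [this]
    exact norm_sub_le _ _
  linarith

/-- the edges of `g₀` -/
theorem pvmu_Tr_far (hv : ∀ v ∈ g.verts, ρ < ‖pos v - x‖) (hm : ∀ i, i < g.n → ‖pos (g.v (i + 1)) - pos (g.v i)‖ ≤ μ) : ∀ q ∈ pvfiTr T pos g, ρ - μ / 2 < ‖q - x‖ := by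
  intro q hq
  simp only [pvfiTr, mem_iUnion, mem_Iio] at hq
  obtain ⟨k, hk, hq⟩ := hq
  refine pvmu_seg_far2 (a := pos (g.v k)) (b := pos (g.v (k + 1))) ?_ (hv _ ⟨k, hk.le, rfl⟩) (hv _ ⟨k + 1, hk, rfl⟩) hq
  rw [norm_sub_rev]
  exact hm k hk

/-- the edges of `g₀` lie in its right faces -/
theorem pvmu_Tr_sub_G : pvfiTr T pos g ⊆ pvmuG T pos g := by
  intro q hq
  simp only [pvfiTr, mem_iUnion, mem_Iio] at hq
  obtain ⟨k, hk, hq⟩ := hq
  refine ⟨k, hk, pvmu_face_seg T pos _ ?_⟩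
  unfold PvMap.seg
  rw [T.src_opp', T.tgt_opp, g.src_e k hk, g.tgt_e k hk, segment_symm]
  exact hq

end far

/-! ## §6 the fields of `PvaccScene` on two half states -/

section fields

variable {pos : V → ℂ} {N : PvwNum} {h : ℝ} {zs zt : ℂ} {τs τt : PvwTy} {σ : V → Bool} {𝔖s 𝔖t : PvwSt T} {K G : Set ℂ} {p0 f ν : ℂ} {r η μ ρ' t : ℝ}

/-- **`p4_t`, `p4_s`, EDGES FORM, DISC = THE CLOSED BALL OF THE GATE**: ANY obstacle `K` which contains the two box parts, `M` := the two box parts, `p0` := any point outside the two fattened boxes -/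
theorem pvmu_st_p4_e (As : 𝔖s.AtIn pos N h zs τs σ) (At : 𝔖t.AtOut pos N h zt τt σ) (hbs : τs.b * h ≤ pvwRad N h τs τs.k) (hbt : τt.b * h ≤ pvwRad N h τt τt.k) (hr : 0 ≤ r) (hη : 0 ≤ η)
    (hK : pvmuEs T pos 𝔖s (closedBall zs (τs.b * h)) ∪ pvmuEt T pos 𝔖t (closedBall zt (τt.b * h)) ⊆ K) (hsep : pvwRad N h τs τs.k + pvwRad N h τt τt.k + (2 * r + η) < pvtcSup (zt - zs))
    (h1 : p0 ∉ pvwSq zt (pvwRad N h τt τt.k + (r + 2 * η))) (h2 : p0 ∉ pvwSq zs (pvwRad N h τs τs.k + (r + 2 * η))) :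
    PvaccP4 K (pvmuEs T pos 𝔖s (closedBall zs (τs.b * h)) ∪ pvmuEt T pos 𝔖t (closedBall zt (τt.b * h))) p0 r η := by
  have hDs : closedBall zs (τs.b * h) ⊆ pvwSq zs (pvwRad N h τs τs.k) := (pvmu_ball_sub_sq _ _).trans (pvmu_sq_mono hbs)
  have hDt : closedBall zt (τt.b * h) ⊆ pvwSq zt (pvwRad N h τt τt.k) := (pvmu_ball_sub_sq _ _).trans (pvmu_sq_mono hbt)
  exact pvmu_p4_boxes hr hη (subset_union_right.trans hK) (pvmu_Et_conn (convex_closedBall _ _).isPreconnected (pvmu_gate_gp At.gate) At.stub)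
    (pvmu_Et_box hDt At.stub) inter_subset_right h1 (subset_union_left.trans hK) (pvmu_Es_conn (convex_closedBall _ _).isPreconnected (pvmu_gate_gm As.gate) As.stub)
    (pvmu_Es_box hDs As.stub) inter_subset_right h2 hsep

/-- **`p4_t`, `p4_s`, FACES FORM, DISC = THE CLOSED BALL OF THE GATE** -/
theorem pvmu_st_p4_f (hT : T.IsSph) (As : 𝔖s.AtIn pos N h zs τs σ) (At : 𝔖t.AtOut pos N h zt τt σ) (hbs : τs.b * h ≤ pvwRad N h τs τs.k) (hbt : τt.b * h ≤ pvwRad N h τt τt.k) (hr : 0 ≤ r) (hη : 0 ≤ η)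
    (hK : pvmuFs T pos 𝔖s (closedBall zs (τs.b * h)) ∪ pvmuFt T pos 𝔖t (closedBall zt (τt.b * h)) ⊆ K) (hsep : pvwRad N h τs τs.k + pvwRad N h τt τt.k + (2 * r + η) < pvtcSup (zt - zs))
    (h1 : p0 ∉ pvwSq zt (pvwRad N h τt τt.k + (r + 2 * η))) (h2 : p0 ∉ pvwSq zs (pvwRad N h τs τs.k + (r + 2 * η))) :
    PvaccP4 K (pvmuFs T pos 𝔖s (closedBall zs (τs.b * h)) ∪ pvmuFt T pos 𝔖t (closedBall zt (τt.b * h))) p0 r η := by
  have hDs : closedBall zs (τs.b * h) ⊆ pvwSq zs (pvwRad N h τs τs.k) := (pvmu_ball_sub_sq _ _).trans (pvmu_sq_mono hbs)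
  have hDt : closedBall zt (τt.b * h) ⊆ pvwSq zt (pvwRad N h τt τt.k) := (pvmu_ball_sub_sq _ _).trans (pvmu_sq_mono hbt)
  exact pvmu_p4_boxes hr hη (subset_union_right.trans hK) (pvmu_Ft_conn (convex_closedBall _ _).isPreconnected (pvmu_gate_gp At.gate) At.stub)
    (pvmu_Ft_box hDt At.stub) inter_subset_right h1 (subset_union_left.trans hK) (pvmu_Fs_conn (convex_closedBall _ _).isPreconnected (pvmu_gate_gm As.gate) As.stub)
    (pvmu_Fs_box hDs ((pvmu_gate_dm hT As.gate).trans hDs) As.stub) inter_subset_right h2 hsep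

/-- the side of a tip apex, `a` = the apex, `b` = the black end of the tip dart, `y` = the grid centre -/
theorem pvmu_gen_side {z a b y : ℂ} {R c₀ : ℝ} (ha : a ∉ pvwSq z R) (hb : b ∈ pvwSq z R) (hby : ‖b - y‖ ≤ c₀) (hm : ‖a - b‖ ≤ μ) :
    ∃ ν, PvmuDir ν ∧ 0 < pvmuHt z R ν a ∧ -(c₀ + μ) ≤ pvmuHt z R ν y ∧ y ∈ pvwSq z (R + (c₀ + μ)) ∧ ‖a - y‖ ≤ c₀ + μ := by
  have hay : ‖a - y‖ ≤ c₀ + μ := by
    calc ‖a - y‖ = ‖(a - b) + (b - y)‖ := by ring_nf
      _ ≤ ‖a - b‖ + ‖b - y‖ := norm_add_le _ _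
      _ ≤ c₀ + μ := by linarith
  obtain ⟨ν, hν, h1⟩ := pvmu_ht_of_not_mem (z := z) (r := R) (c := 0) (w := a) (by simpa using ha)
  refine ⟨ν, hν, h1, ?_, ?_, hay⟩
  · have := pvmu_ht_lip (z := z) (r := R) (w := a) (w' := y) hν
    linarith
  · rw [pvmu_sq_iff]
    intro n hn
    have h2 := (pvmu_sq_iff.1 hb) n hn
    have h3 := pvmu_ht_lip (z := z) (r := R) (w := y) (w' := b) hn
    have h4 : ‖y - b‖ ≤ c₀ := by rw [norm_sub_rev]; exact hby
    have h5 : 0 ≤ μ := (norm_nonneg _).trans hm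
    unfold pvmuHt at *
    linarith

/-- the radial door at a grid centre `y` near the side `ν` -/
theorem pvmu_gen_door {z a y : ℂ} {R c : ℝ} (hν : PvmuDir ν) (h1 : 0 < pvmuHt z R ν a) (h2 : -c ≤ pvmuHt z R ν y) (h3 : y ∈ pvwSq z (R + c)) (h4 : ‖a - y‖ ≤ c)
    (hR : 0 < R) (hc : 6 * c ≤ R) (ht : 2 * c < t) :
    t / 2 - c ≤ pvmuHt z R ν (pvmuRad z y t) ∧ ‖pvmuRad z y t - y‖ = t ∧ segment ℝ (pvmuRad z y t) a ⊆ closedBall y t ∧ Disjoint (segment ℝ (pvmuRad z y t) a) (pvwSq z R) := by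
  have hc0 : 0 ≤ c := (norm_nonneg _).trans h4
  have ht0 : 0 ≤ t := by linarith
  have a1 := pvmu_rad_ht_in hν hR h3 h2 hc ht0
  have a2 := pvmu_rad_dist (pvmu_rad_ne hν hR h2 hc) ht0
  refine ⟨a1, a2, ?_, ?_⟩
  · exact (convex_closedBall y t).segment_subset (mem_closedBall_iff_norm.2 a2.le) (mem_closedBall_iff_norm.2 (by linarith))
  · exact pvmu_seg_out hν (by linarith) h1

/-- a segment inside `closedBall y t`, off the box of `y`, misses an obstacle made of a part in this box, a part far from `y` and a part in a far box -/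
theorem pvmu_gen_link {M M' : Set ℂ} {z z' a p y : ℂ} {R R' c : ℝ} (hseg : segment ℝ p a ⊆ closedBall y t) (hdis : Disjoint (segment ℝ p a) (pvwSq z R)) (hy : y ∈ pvwSq z (R + c))
    (hK : ∀ q ∈ K, q ∈ M ∨ q ∈ G ∨ q ∈ M') (hM : M ⊆ pvwSq z R) (hM' : M' ⊆ pvwSq z' R') (hG : ∀ q ∈ G, t < ‖q - y‖)
    (hsep : ∀ w, w ∈ pvwSq z (R + c + t) → w ∉ pvwSq z' R') : Disjoint (segment ℝ p a) K := by
  rw [Set.disjoint_left]
  intro w hw hwK
  have hb : ‖w - y‖ ≤ t := mem_closedBall_iff_norm.1 (hseg hw)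
  rcases hK w hwK with h1 | h1 | h1
  · exact Set.disjoint_left.1 hdis hw (hM h1)
  · exact absurd hb (not_le.2 (hG w h1))
  · refine hsep w (pvmu_sup_sq hy ?_) (hM' h1)
    exact max_le ((Complex.abs_re_le_norm _).trans hb) ((Complex.abs_im_le_norm _).trans hb)

/-- two boxes with far centres are disjoint -/
theorem pvmu_gen_sep {z z' w : ℂ} {R R' : ℝ} (hsep : R + R' < pvtcSup (z - z')) (hw : w ∈ pvwSq z R) : w ∉ pvwSq z' R' := by
  intro hw'
  have := pvmu_sq_apart hw hw'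
  have e : pvtcSup (w - w) = 0 := by simp [pvtcSup]
  rw [e] at this
  linarith

/-- the tip apex is above a side of the box; the GRID centre `y⁺` is within `ρ h / 4 + μ` of this side and of the box      (`μ` = mesh of the tip face) -/
theorem pvmu_st_side_t (At : 𝔖t.AtOut pos N h zt τt σ) (hm : ‖pos 𝔖t.ap - pos (T.src (𝔖t.ep 𝔖t.np))‖ ≤ μ) :
    ∃ ν, PvmuDir ν ∧ 0 < pvmuHt zt (pvwRad N h τt τt.k) ν (pos 𝔖t.ap) ∧ -(N.rho * h / 4 + μ) ≤ pvmuHt zt (pvwRad N h τt τt.k) ν (τt.cp h zt) ∧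
      τt.cp h zt ∈ pvwSq zt (pvwRad N h τt τt.k + (N.rho * h / 4 + μ)) ∧ ‖pos 𝔖t.ap - τt.cp h zt‖ ≤ N.rho * h / 4 + μ := by
  exact pvmu_gen_side At.stub.ep_out (At.stub.ep_in _ le_rfl).1 At.good.tip_p.1 hm

theorem pvmu_st_side_s (As : 𝔖s.AtIn pos N h zs τs σ) (hm : ‖pos 𝔖s.am - pos (T.src (𝔖s.em 𝔖s.nm))‖ ≤ μ) :
    ∃ ν, PvmuDir ν ∧ 0 < pvmuHt zs (pvwRad N h τs τs.k) ν (pos 𝔖s.am) ∧ -(N.rho * h / 4 + μ) ≤ pvmuHt zs (pvwRad N h τs τs.k) ν (τs.cm h zs) ∧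
      τs.cm h zs ∈ pvwSq zs (pvwRad N h τs τs.k + (N.rho * h / 4 + μ)) ∧ ‖pos 𝔖s.am - τs.cm h zs‖ ≤ N.rho * h / 4 + μ := by
  exact pvmu_gen_side As.stub.em_out (As.stub.em_in _ le_rfl).1 As.good.tip_m.1 hm

/-- **THE RADIAL DOOR OF THE EXIT STUB**: `f = y⁺ + t n`, `n` radial at the GRID centre `y⁺` (a function of the type): `[f, ap]` is above a side of the box, inside `closedBall y⁺ t`; `f` is outside the box fattened by any `c < t/2 - ρ h/4 - μ` -/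
theorem pvmu_st_door_t (At : 𝔖t.AtOut pos N h zt τt σ) (hm : ‖pos 𝔖t.ap - pos (T.src (𝔖t.ep 𝔖t.np))‖ ≤ μ) (hR : 0 < pvwRad N h τt τt.k) (hμ : 6 * (N.rho * h / 4 + μ) ≤ pvwRad N h τt τt.k)
    (ht : 2 * (N.rho * h / 4 + μ) < t) :
    ∃ ν, PvmuDir ν ∧ 0 < pvmuHt zt (pvwRad N h τt τt.k) ν (pos 𝔖t.ap) ∧ t / 2 - (N.rho * h / 4 + μ) ≤ pvmuHt zt (pvwRad N h τt τt.k) ν (pvmuRad zt (τt.cp h zt) t) ∧
      ‖pvmuRad zt (τt.cp h zt) t - τt.cp h zt‖ = t ∧ segment ℝ (pvmuRad zt (τt.cp h zt) t) (pos 𝔖t.ap) ⊆ closedBall (τt.cp h zt) t ∧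
      Disjoint (segment ℝ (pvmuRad zt (τt.cp h zt) t) (pos 𝔖t.ap)) (pvwSq zt (pvwRad N h τt τt.k)) := by
  obtain ⟨ν, hν, h1, h2, h3, h4⟩ := pvmu_st_side_t At hm
  exact ⟨ν, hν, h1, pvmu_gen_door hν h1 h2 h3 h4 hR hμ ht⟩

/-- **THE RADIAL DOOR OF THE ENTRANCE STUB** -/
theorem pvmu_st_door_s (As : 𝔖s.AtIn pos N h zs τs σ) (hm : ‖pos 𝔖s.am - pos (T.src (𝔖s.em 𝔖s.nm))‖ ≤ μ) (hR : 0 < pvwRad N h τs τs.k) (hμ : 6 * (N.rho * h / 4 + μ) ≤ pvwRad N h τs τs.k)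
    (ht : 2 * (N.rho * h / 4 + μ) < t) :
    ∃ ν, PvmuDir ν ∧ 0 < pvmuHt zs (pvwRad N h τs τs.k) ν (pos 𝔖s.am) ∧ t / 2 - (N.rho * h / 4 + μ) ≤ pvmuHt zs (pvwRad N h τs τs.k) ν (pvmuRad zs (τs.cm h zs) t) ∧
      ‖pvmuRad zs (τs.cm h zs) t - τs.cm h zs‖ = t ∧ segment ℝ (pvmuRad zs (τs.cm h zs) t) (pos 𝔖s.am) ⊆ closedBall (τs.cm h zs) t ∧
      Disjoint (segment ℝ (pvmuRad zs (τs.cm h zs) t) (pos 𝔖s.am)) (pvwSq zs (pvwRad N h τs τs.k)) := by
  obtain ⟨ν, hν, h1, h2, h3, h4⟩ := pvmu_st_side_s As hm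
  exact ⟨ν, hν, h1, pvmu_gen_door hν h1 h2 h3 h4 hR hμ ht⟩

/-- **`wt_off` FOR THE ADDED SEGMENT `[door, tip apex]`**: `K ⊆ Ms ∪ G ∪ Mt`, `Mt` in the box of `t`, `Ms` in the box of `s`, `G` (= `g₀`) farther than `t` from `y⁺`, the boxes far apart -/
theorem pvmu_st_link_t {Ms Mt : Set ℂ} (At : 𝔖t.AtOut pos N h zt τt σ) (hm : ‖pos 𝔖t.ap - pos (T.src (𝔖t.ep 𝔖t.np))‖ ≤ μ) (hR : 0 < pvwRad N h τt τt.k) (hμ : 6 * (N.rho * h / 4 + μ) ≤ pvwRad N h τt τt.k)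
    (ht : 2 * (N.rho * h / 4 + μ) < t) (hK : K ⊆ Ms ∪ G ∪ Mt) (hMt : Mt ⊆ pvwSq zt (pvwRad N h τt τt.k)) (hMs : Ms ⊆ pvwSq zs (pvwRad N h τs τs.k)) (hG : ∀ q ∈ G, t < ‖q - τt.cp h zt‖)
    (hsep : pvwRad N h τs τs.k + pvwRad N h τt τt.k + (N.rho * h / 4 + μ) + t < pvtcSup (zt - zs)) :
    Disjoint (segment ℝ (pvmuRad zt (τt.cp h zt) t) (pos 𝔖t.ap)) K := by
  obtain ⟨ν, hν, h1, h2, h3, h4⟩ := pvmu_st_side_t At hm
  obtain ⟨-, -, h5, h6⟩ := pvmu_gen_door hν h1 h2 h3 h4 hR hμ ht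
  refine pvmu_gen_link (M := Mt) (M' := Ms) (G := G) h5 h6 h3 ?_ hMt hMs hG ?_
  · intro q hq
    rcases hK hq with (h | h) | h
    · exact Or.inr (Or.inr h)
    · exact Or.inr (Or.inl h)
    · exact Or.inl h
  · intro w hw
    exact pvmu_gen_sep (by linarith) hw

/-- **`ws_off` FOR THE ADDED SEGMENT `[door, tip apex]`** -/
theorem pvmu_st_link_s {Ms Mt : Set ℂ} (As : 𝔖s.AtIn pos N h zs τs σ) (hm : ‖pos 𝔖s.am - pos (T.src (𝔖s.em 𝔖s.nm))‖ ≤ μ) (hR : 0 < pvwRad N h τs τs.k) (hμ : 6 * (N.rho * h / 4 + μ) ≤ pvwRad N h τs τs.k)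
    (ht : 2 * (N.rho * h / 4 + μ) < t) (hK : K ⊆ Ms ∪ G ∪ Mt) (hMt : Mt ⊆ pvwSq zt (pvwRad N h τt τt.k)) (hMs : Ms ⊆ pvwSq zs (pvwRad N h τs τs.k)) (hG : ∀ q ∈ G, t < ‖q - τs.cm h zs‖)
    (hsep : pvwRad N h τs τs.k + pvwRad N h τt τt.k + (N.rho * h / 4 + μ) + t < pvtcSup (zt - zs)) :
    Disjoint (segment ℝ (pvmuRad zs (τs.cm h zs) t) (pos 𝔖s.am)) K := by
  obtain ⟨ν, hν, h1, h2, h3, h4⟩ := pvmu_st_side_s As hm
  obtain ⟨-, -, h5, h6⟩ := pvmu_gen_door hν h1 h2 h3 h4 hR hμ ht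
  refine pvmu_gen_link (M := Ms) (M' := Mt) (G := G) h5 h6 h3 ?_ hMs hMt hG ?_
  · intro q hq
    rcases hK hq with (h | h) | h
    · exact Or.inl h
    · exact Or.inr (Or.inl h)
    · exact Or.inr (Or.inr h)
  · intro w hw hw'
    exact pvmu_gen_sep (z := zt) (z' := zs) (by linarith) hw' hw

end fields

end Claimed.Agent.R289
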