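-- KEEP
import Claimed.Agent.R289.Tr.AccMouth
import Claimed.Agent.R289.Defs.FitReg

/-!
# Row 289 (S0537, Cardy for Poisson-Voronoi), THE WALL, road E, TR38 = (ACC), file Tr/AccLink : THE ADDED PIECE `A` OF A HALF WITNESS = TWO SEGMENTS      (helper215; prefix `pvmu_lk_`, `pvmuLk`)

WHY (62, 49, 11:05Z).   The front of record (209 D5, `PvfeDoors`) sits over the GRID centre `y` of the tip cell in the DOMINANT axis direction `up` of `y`;   the tip apex `a` may leave the box through ANOTHER side (no corner clause in `Tr/Defs` v3):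
ONE segment `[front, a]` may cut the corner of the box.      TWO never do (49):   `q := a + c up`,   `A := [a, q] ∪ [q, front]`,   `front := y + H up`.
* `a ∉ box` gives a side `u' ≠ -up` over which `a` is high; this height is constant or increasing along `+up`: `[a, q]` is above the side `u'`;
* `q` and the front are above the side `up` as soon as `κ + κ' < c`, `κ < H`   (`κ` = depth of `y` under the side `up`, `κ'` = bound of `‖a - y‖`).
NOTHING ELSE IS USED OF `up`: only `-κ ≤ height of y over the side up` (`pvmu_lk_doors_p/m`: from `PvfeDoors.nd_p/nd_m` + dominance, `κ = ρ h / 4`).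

* §1  `pvmuLk a y up c H`: compact, connected, end points, off the box, in a ball round `y`
* §2  `K` free: off `K` (M1), far from the unmasked part
* §3  at the half states of `Tr/Defs` v3;   the doors of 209
OUTPUT = the PARAMETER `A` of the half witness of 211 (`Tr/AccM`): compact, connected, contains the front and `pos ap`, off `K`, far from `K \ M`.
Prove IN PLACE, helpers just above the theorem.      A misfit of a statement: one line to 215.
-/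

set_option autoImplicit false

namespace Claimed.Agent.R289

open Set Metric

/-! ## §1 the two segments -/

/-- the front at height `H` over `y` in the direction `up` -/
noncomputable def pvmuFr (y up : ℂ) (H : ℝ) : ℂ := y + (H : ℂ) * up

/-- **THE ADDED PIECE**: from the tip apex `a` straight up to `q = a + c up`, then to the front -/
noncomputable def pvmuLk (a y up : ℂ) (c H : ℝ) : Set ℂ := segment ℝ a (a + (c : ℂ) * up) ∪ segment ℝ (a + (c : ℂ) * up) (pvmuFr y up H)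

theorem pvmu_lk_eqns_cite : True := by
  have := @pvmuFr.eq_1; have := @pvmuLk.eq_1
  trivial

section two

variable {z a y up w : ℂ} {r c H κ κ' : ℝ}

theorem pvmu_lk_compact (a y up : ℂ) (c H : ℝ) : IsCompact (pvmuLk a y up c H) := by
  exact (plg_segment_compact _ _).union (plg_segment_compact _ _)

theorem pvmu_lk_conn (a y up : ℂ) (c H : ℝ) : IsConnected (pvmuLk a y up c H) := by
  refine IsConnected.union ⟨a + (c : ℂ) * up, right_mem_segment ℝ _ _, left_mem_segment ℝ _ _⟩ ?_ ?_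
  · exact ⟨⟨a, left_mem_segment ℝ _ _⟩, (convex_segment _ _).isPreconnected⟩
  · exact ⟨⟨_, left_mem_segment ℝ _ _⟩, (convex_segment _ _).isPreconnected⟩

theorem pvmu_lk_apex (a y up : ℂ) (c H : ℝ) : a ∈ pvmuLk a y up c H := by
  exact Or.inl (left_mem_segment ℝ _ _)

theorem pvmu_lk_front (a y up : ℂ) (c H : ℝ) : pvmuFr y up H ∈ pvmuLk a y up c H := by
  exact Or.inr (right_mem_segment ℝ _ _)

theorem pvmu_lk_fr_dist (hup : PvmuDir up) (hH : 0 ≤ H) : ‖pvmuFr y up H - y‖ = H := by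
  have h1 : ‖up‖ = 1 := by
    rcases hup with rfl | rfl | rfl | rfl <;> simp
  unfold pvmuFr
  rw [add_sub_cancel_left, norm_mul, h1, mul_one, Complex.norm_real, Real.norm_of_nonneg hH]

/-- the height of the front over the side `up` -/
theorem pvmu_lk_fr_ht (hup : PvmuDir up) : pvmuHt z r up (pvmuFr y up H) = pvmuHt z r up y + H := by
  unfold pvmuHt pvmuFr
  rcases hup with rfl | rfl | rfl | rfl <;> simp <;> ring

/-- the heights over the four sides along `+up`: increasing over `up`, decreasing over `-up`, constant over the two others -/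
theorem pvmu_lk_ht_up {n : ℂ} (hup : PvmuDir up) (hn : PvmuDir n) (hne : n ≠ -up) (hc : 0 ≤ c) : pvmuHt z r n a ≤ pvmuHt z r n (a + (c : ℂ) * up) := by
  unfold pvmuHt
  rcases hup with rfl | rfl | rfl | rfl <;> rcases hn with rfl | rfl | rfl | rfl <;>
    first
      | (exfalso; apply hne; simp; done)
      | (simp; try linarith)

/-- the heights over two opposite sides -/
theorem pvmu_lk_ht_neg (n : ℂ) : pvmuHt z r (-n) a = -pvmuHt z r n a - 2 * r := by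
  unfold pvmuHt
  simp only [map_neg, mul_neg, Complex.neg_re]
  ring

/-- the first segment is above a side -/
theorem pvmu_lk_seg1 (hup : PvmuDir up) (hy : -κ ≤ pvmuHt z r up y) (ha : a ∉ pvwSq z r) (hay : ‖a - y‖ ≤ κ') (hr : κ + κ' ≤ 2 * r) (hc : 0 ≤ c) :
    Disjoint (segment ℝ a (a + (c : ℂ) * up)) (pvwSq z r) := by
  have hex : ∃ n, PvmuDir n ∧ 0 < pvmuHt z r n a := by
    by_contra hcon
    push Not at hcon
    exact ha (pvmu_sq_iff.2 hcon)
  obtain ⟨n, hn, hpos⟩ := hex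
  have hne : n ≠ -up := by
    rintro rfl
    rw [pvmu_lk_ht_neg] at hpos
    have h1 := pvmu_ht_sup (z := z) (r := r) (w := y) (w' := a) hup
    have h2 : pvtcSup (y - a) ≤ κ' := (pvtc_pl_sup_le_norm _).trans (by rw [norm_sub_rev]; exact hay)
    linarith
  exact pvmu_seg_out hn hpos (lt_of_lt_of_le hpos (pvmu_lk_ht_up hup hn hne hc))

/-- the second segment is above the side `up` -/
theorem pvmu_lk_seg2 (hup : PvmuDir up) (hy : -κ ≤ pvmuHt z r up y) (hay : ‖a - y‖ ≤ κ') (hc : κ + κ' < c) (hH : κ < H) :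
    Disjoint (segment ℝ (a + (c : ℂ) * up) (pvmuFr y up H)) (pvwSq z r) := by
  have h1 := pvmu_ht_sup (z := z) (r := r) (w := y) (w' := a) hup
  have h2 : pvtcSup (y - a) ≤ κ' := (pvtc_pl_sup_le_norm _).trans (by rw [norm_sub_rev]; exact hay)
  have e1 : pvmuHt z r up (a + (c : ℂ) * up) = pvmuHt z r up a + c := pvmu_lk_fr_ht (y := a) (H := c) hup
  have e2 : pvmuHt z r up (pvmuFr y up H) = pvmuHt z r up y + H := pvmu_lk_fr_ht hup
  exact pvmu_seg_out hup (by rw [e1]; linarith) (by rw [e2]; linarith)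

/-- **THE ADDED PIECE MISSES THE BOX** (corners are no exception) -/
theorem pvmu_lk_box (hup : PvmuDir up) (hy : -κ ≤ pvmuHt z r up y) (ha : a ∉ pvwSq z r) (hay : ‖a - y‖ ≤ κ') (hr : κ + κ' ≤ 2 * r) (hκ : 0 ≤ κ + κ') (hc : κ + κ' < c) (hH : κ < H) :
    Disjoint (pvmuLk a y up c H) (pvwSq z r) := by
  unfold pvmuLk
  rw [Set.disjoint_union_left]
  exact ⟨pvmu_lk_seg1 hup hy ha hay hr (by linarith), pvmu_lk_seg2 hup hy hay hc hH⟩

/-- the added piece stays in a ball round the grid centre -/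
theorem pvmu_lk_ball {ρ' : ℝ} (hup : PvmuDir up) (hay : ‖a - y‖ ≤ κ') (hc : 0 ≤ c) (hH : 0 ≤ H) (h1 : κ' + c ≤ ρ') (h2 : H ≤ ρ') : pvmuLk a y up c H ⊆ closedBall y ρ' := by
  have hu : ‖up‖ = 1 := by
    rcases hup with rfl | rfl | rfl | rfl <;> simp
  have ha : a ∈ closedBall y ρ' := by
    rw [mem_closedBall, dist_eq_norm]; linarith
  have hq : a + (c : ℂ) * up ∈ closedBall y ρ' := by
    rw [mem_closedBall, dist_eq_norm]
    have e : a + (c : ℂ) * up - y = (a - y) + (c : ℂ) * up := by ring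
    have h3 : ‖(c : ℂ) * up‖ = c := by
      rw [norm_mul, hu, mul_one, Complex.norm_real, Real.norm_of_nonneg hc]
    rw [e]
    linarith [norm_add_le (a - y) ((c : ℂ) * up)]
  have hf : pvmuFr y up H ∈ closedBall y ρ' := by
    rw [mem_closedBall, dist_eq_norm, pvmu_lk_fr_dist hup hH]; exact h2
  rintro w (hw | hw)
  · exact (convex_closedBall y ρ').segment_subset ha hq hw
  · exact (convex_closedBall y ρ').segment_subset hq hf hw

/-- the front is outside the fattened box -/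
theorem pvmu_lk_fr_out {e : ℝ} (hup : PvmuDir up) (hy : -κ ≤ pvmuHt z r up y) (he : e + κ < H) : pvmuFr y up H ∉ pvwSq z (r + e) := by
  refine pvmu_ht_not_mem hup ?_
  rw [pvmu_lk_fr_ht hup]
  linarith

end two

/-! ## §2 `K` free -/

section free

variable {K Kb : Set ℂ} {z a y up w q' : ℂ} {r c H κ κ' ρ' ρ'' : ℝ}

/-- **(M1) ⟹ THE ADDED PIECE MISSES THE OBSTACLE**: `K` = a part in the box + a part farther than `ρ'` from the grid centre -/
theorem pvmu_lk_off (hK : ∀ q ∈ K, q ∈ Kb ∨ ρ' < ‖q - y‖) (hb : Kb ⊆ pvwSq z r) (hup : PvmuDir up) (hy : -κ ≤ pvmuHt z r up y) (ha : a ∉ pvwSq z r) (hay : ‖a - y‖ ≤ κ')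
    (hr : κ + κ' ≤ 2 * r) (hκ : 0 ≤ κ + κ') (hc : κ + κ' < c) (hH : κ < H) (h0 : 0 ≤ H) (h1 : κ' + c ≤ ρ') (h2 : H ≤ ρ') : Disjoint (pvmuLk a y up c H) K := by
  have hbox := pvmu_lk_box hup hy ha hay hr hκ hc hH
  have hball := pvmu_lk_ball (ρ' := ρ') (c := c) (H := H) hup hay (by linarith) h0 h1 h2
  rw [Set.disjoint_left]
  intro w hw hwK
  rcases hK w hwK with h | h
  · exact Set.disjoint_left.1 hbox hw (hb h)
  · have := hball hw
    rw [mem_closedBall_iff_norm] at this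
    linarith

/-- the form of 62 / 92 / 119: `PvfyMouth`-like hypothesis `K ∩ closedBall y ρ' ⊆ box` -/
theorem pvmu_lk_off' (hK : K ∩ closedBall y ρ' ⊆ pvwSq z r) (hup : PvmuDir up) (hy : -κ ≤ pvmuHt z r up y) (ha : a ∉ pvwSq z r) (hay : ‖a - y‖ ≤ κ')
    (hr : κ + κ' ≤ 2 * r) (hκ : 0 ≤ κ + κ') (hc : κ + κ' < c) (hH : κ < H) (h0 : 0 ≤ H) (h1 : κ' + c ≤ ρ') (h2 : H ≤ ρ') : Disjoint (pvmuLk a y up c H) K := by
  have hbox := pvmu_lk_box hup hy ha hay hr hκ hc hH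
  have hball := pvmu_lk_ball (ρ' := ρ') (c := c) (H := H) hup hay (by linarith) h0 h1 h2
  rw [Set.disjoint_left]
  intro w hw hwK
  exact Set.disjoint_left.1 hbox hw (hK ⟨hwK, hball hw⟩)

/-- the second alternative of `wt_time`: the added piece is far from the points far from the grid centre -/
theorem pvmu_lk_far (hup : PvmuDir up) (hay : ‖a - y‖ ≤ κ') (hc : 0 ≤ c) (hH : 0 ≤ H) (h1 : κ' + c ≤ ρ') (h2 : H ≤ ρ') (hw : w ∈ pvmuLk a y up c H) (hq' : ρ'' < ‖q' - y‖) : ρ'' - ρ' < ‖w - q'‖ := by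
  have hball := pvmu_lk_ball (ρ' := ρ') hup hay hc hH h1 h2 hw
  rw [mem_closedBall_iff_norm] at hball
  have : ‖q' - y‖ ≤ ‖w - y‖ + ‖w - q'‖ := by
    calc ‖q' - y‖ = ‖(w - y) - (w - q')‖ := by congr 1; ring
      _ ≤ ‖w - y‖ + ‖w - q'‖ := norm_sub_le _ _
  linarith

end free

/-! ## §3 at the half states of `Tr/Defs` v3; the doors of 209 -/

section state

variable {V D : Type} {T : PvMap V D} {pos : V → ℂ} {N : PvwNum} {h : ℝ} {zs zt : ℂ} {τs τt : PvwTy} {σ : V → Bool} {𝔖s 𝔖t : PvwSt T} {K : Set ℂ} {up : ℂ} {μ c H ρ' : ℝ}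

/-- **THE ADDED PIECE OF THE EXIT STUB**: `a = pos ap`, `y = y⁺` the grid centre, `κ = ρ h / 4`, `κ' = ρ h / 4 + μ` (`μ` = mesh of the tip face) -/
theorem pvmu_lk_t (At : 𝔖t.AtOut pos N h zt τt σ) (hm : ‖pos 𝔖t.ap - pos (T.src (𝔖t.ep 𝔖t.np))‖ ≤ μ) (hρ : 0 ≤ N.rho * h) (hup : PvmuDir up)
    (hy : -(N.rho * h / 4) ≤ pvmuHt zt (pvwRad N h τt τt.k) up (τt.cp h zt)) (hR : N.rho * h / 2 + μ ≤ 2 * pvwRad N h τt τt.k) (hc : N.rho * h / 2 + μ < c) (hH : N.rho * h / 4 < H)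
    (h1 : N.rho * h / 4 + μ + c ≤ ρ') (h2 : H ≤ ρ') (hK : K ∩ closedBall (τt.cp h zt) ρ' ⊆ pvwSq zt (pvwRad N h τt τt.k)) :
    IsCompact (pvmuLk (pos 𝔖t.ap) (τt.cp h zt) up c H) ∧ IsConnected (pvmuLk (pos 𝔖t.ap) (τt.cp h zt) up c H) ∧ pos 𝔖t.ap ∈ pvmuLk (pos 𝔖t.ap) (τt.cp h zt) up c H ∧
      pvmuFr (τt.cp h zt) up H ∈ pvmuLk (pos 𝔖t.ap) (τt.cp h zt) up c H ∧ Disjoint (pvmuLk (pos 𝔖t.ap) (τt.cp h zt) up c H) K ∧ pvmuLk (pos 𝔖t.ap) (τt.cp h zt) up c H ⊆ closedBall (τt.cp h zt) ρ' := by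
  have hμ : 0 ≤ μ := (norm_nonneg _).trans hm
  have hay : ‖pos 𝔖t.ap - τt.cp h zt‖ ≤ N.rho * h / 4 + μ := by
    have h3 := At.good.tip_p.1
    calc ‖pos 𝔖t.ap - τt.cp h zt‖ = ‖(pos 𝔖t.ap - pos (T.src (𝔖t.ep 𝔖t.np))) + (pos (T.src (𝔖t.ep 𝔖t.np)) - τt.cp h zt)‖ := by congr 1; ring
      _ ≤ ‖pos 𝔖t.ap - pos (T.src (𝔖t.ep 𝔖t.np))‖ + ‖pos (T.src (𝔖t.ep 𝔖t.np)) - τt.cp h zt‖ := norm_add_le _ _
      _ ≤ _ := by linarith
  refine ⟨pvmu_lk_compact _ _ _ _ _, pvmu_lk_conn _ _ _ _ _, pvmu_lk_apex _ _ _ _ _, pvmu_lk_front _ _ _ _ _, ?_, ?_⟩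
  · exact pvmu_lk_off' hK hup hy At.stub.ep_out hay (by linarith) (by linarith) (by linarith) hH (by linarith) h1 h2
  · exact pvmu_lk_ball hup hay (by linarith) (by linarith) h1 h2

/-- **THE ADDED PIECE OF THE ENTRANCE STUB** -/
theorem pvmu_lk_s (As : 𝔖s.AtIn pos N h zs τs σ) (hm : ‖pos 𝔖s.am - pos (T.src (𝔖s.em 𝔖s.nm))‖ ≤ μ) (hρ : 0 ≤ N.rho * h) (hup : PvmuDir up)
    (hy : -(N.rho * h / 4) ≤ pvmuHt zs (pvwRad N h τs τs.k) up (τs.cm h zs)) (hR : N.rho * h / 2 + μ ≤ 2 * pvwRad N h τs τs.k) (hc : N.rho * h / 2 + μ < c) (hH : N.rho * h / 4 < H)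
    (h1 : N.rho * h / 4 + μ + c ≤ ρ') (h2 : H ≤ ρ') (hK : K ∩ closedBall (τs.cm h zs) ρ' ⊆ pvwSq zs (pvwRad N h τs τs.k)) :
    IsCompact (pvmuLk (pos 𝔖s.am) (τs.cm h zs) up c H) ∧ IsConnected (pvmuLk (pos 𝔖s.am) (τs.cm h zs) up c H) ∧ pos 𝔖s.am ∈ pvmuLk (pos 𝔖s.am) (τs.cm h zs) up c H ∧
      pvmuFr (τs.cm h zs) up H ∈ pvmuLk (pos 𝔖s.am) (τs.cm h zs) up c H ∧ Disjoint (pvmuLk (pos 𝔖s.am) (τs.cm h zs) up c H) K ∧ pvmuLk (pos 𝔖s.am) (τs.cm h zs) up c H ⊆ closedBall (τs.cm h zs) ρ' := by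
  have hμ : 0 ≤ μ := (norm_nonneg _).trans hm
  have hay : ‖pos 𝔖s.am - τs.cm h zs‖ ≤ N.rho * h / 4 + μ := by
    have h3 := As.good.tip_m.1
    calc ‖pos 𝔖s.am - τs.cm h zs‖ = ‖(pos 𝔖s.am - pos (T.src (𝔖s.em 𝔖s.nm))) + (pos (T.src (𝔖s.em 𝔖s.nm)) - τs.cm h zs)‖ := by congr 1; ring
      _ ≤ ‖pos 𝔖s.am - pos (T.src (𝔖s.em 𝔖s.nm))‖ + ‖pos (T.src (𝔖s.em 𝔖s.nm)) - τs.cm h zs‖ := norm_add_le _ _
      _ ≤ _ := by linarith
  refine ⟨pvmu_lk_compact _ _ _ _ _, pvmu_lk_conn _ _ _ _ _, pvmu_lk_apex _ _ _ _ _, pvmu_lk_front _ _ _ _ _, ?_, ?_⟩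
  · exact pvmu_lk_off' hK hup hy As.stub.em_out hay (by linarith) (by linarith) (by linarith) hH (by linarith) h1 h2
  · exact pvmu_lk_ball hup hay (by linarith) (by linarith) h1 h2

/-- a unit vector of the grid is a direction -/
theorem pvmu_lk_dir {u : ℤ × ℤ} (hu : PvfeDir u) : PvmuDir (pvtZ u) := by
  unfold PvmuDir pvtZ
  rcases hu with rfl | rfl | rfl | rfl <;> simp

/-- the height of a grid centre over the side of a direction `n`, in units of `h` -/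
theorem pvmu_lk_ht_cp (τ : PvwTy) (N : PvwNum) (h : ℝ) (z n : ℂ) : pvmuHt z (pvwRad N h τ τ.k) n (τ.cp h z) = h * ((τ.yp * (starRingEnd ℂ) n).re - (2 * τ.b2 + τ.k * N.rho1)) := by
  unfold pvmuHt pvwRad PvwTy.cp
  have e : (z + (h : ℂ) * τ.yp - z) * (starRingEnd ℂ) n = (h : ℂ) * (τ.yp * (starRingEnd ℂ) n) := by ring
  rw [e, Complex.re_ofReal_mul]
  ring

theorem pvmu_lk_ht_cm (τ : PvwTy) (N : PvwNum) (h : ℝ) (z n : ℂ) : pvmuHt z (pvwRad N h τ τ.k) n (τ.cm h z) = h * ((τ.ym * (starRingEnd ℂ) n).re - (2 * τ.b2 + τ.k * N.rho1)) := by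
  unfold pvmuHt pvwRad PvwTy.cm
  have e : (z + (h : ℂ) * τ.ym - z) * (starRingEnd ℂ) n = (h : ℂ) * (τ.ym * (starRingEnd ℂ) n) := by ring
  rw [e, Complex.re_ofReal_mul]
  ring

/-- **THE DOORS OF 209**: the grid centre `y⁺` is within `ρ h / 4` of the side of its dominant direction -/
theorem pvmu_lk_doors_p {τ : Type} {Γ : PvtsGeo τ} {ty : τ → PvwTy} (Dr : PvfeDoors Γ ty N h) (hh : 0 ≤ h) (t : τ) (z : ℂ) {u : ℤ × ℤ} (hu : PvfeDir u)
    (hdom : ((ty t).yp * (starRingEnd ℂ) (pvtZ u)).re = pvccN (ty t).yp) :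
    PvmuDir (pvtZ u) ∧ -(N.rho * h / 4) ≤ pvmuHt z (pvwRad N h (ty t) (ty t).k) (pvtZ u) ((ty t).cp h z) ∧ pvmuHt z (pvwRad N h (ty t) (ty t).k) (pvtZ u) ((ty t).cp h z) ≤ N.rho * h / 4 := by
  have h1 := abs_le.1 (Dr.nd_p t)
  rw [pvmu_lk_ht_cp, hdom]
  refine ⟨pvmu_lk_dir hu, ?_, ?_⟩
  · nlinarith [mul_le_mul_of_nonneg_left h1.1 hh]
  · nlinarith [mul_le_mul_of_nonneg_left h1.2 hh]

theorem pvmu_lk_doors_m {τ : Type} {Γ : PvtsGeo τ} {ty : τ → PvwTy} (Dr : PvfeDoors Γ ty N h) (hh : 0 ≤ h) (t : τ) (z : ℂ) {u : ℤ × ℤ} (hu : PvfeDir u)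
    (hdom : ((ty t).ym * (starRingEnd ℂ) (pvtZ u)).re = pvccN (ty t).ym) :
    PvmuDir (pvtZ u) ∧ -(N.rho * h / 4) ≤ pvmuHt z (pvwRad N h (ty t) (ty t).k) (pvtZ u) ((ty t).cm h z) ∧ pvmuHt z (pvwRad N h (ty t) (ty t).k) (pvtZ u) ((ty t).cm h z) ≤ N.rho * h / 4 := by
  have h1 := abs_le.1 (Dr.nd_m t)
  rw [pvmu_lk_ht_cm, hdom]
  refine ⟨pvmu_lk_dir hu, ?_, ?_⟩
  · nlinarith [mul_le_mul_of_nonneg_left h1.1 hh]
  · nlinarith [mul_le_mul_of_nonneg_left h1.2 hh]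

end state

end Claimed.Agent.R289
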