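-- KEEP
import Claimed.Agent.R289.Tr.AccLink

/-!
# Row 289 (S0537, Cardy for Poisson-Voronoi), THE WALL, road E, TR38 = (ACC), file Tr/AccDoor : `PvaccScene` AT THE DOORS OF RECORD, ALL THE MOUTH FIELDS DISCHARGED      (helper215; prefix `pvmu_dr_`)

COMPILED GLUE over `Tr/AccMouth` ((P4) from boxes, masks) and `Tr/AccLink` (the added piece = two segments).      MODEL FREE, `K` FREE, no rim, no completion: `γ`, `K`, the box parts `Ms Mt`, the POLYGON PARTS `W0t W0s` of the two witnesses are parameters.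
FRONTS := `pvmuFr y up H` = the point at height `H` over the GRID centre `y = τ.cp h z` (`τ.cm h z`) in the axis direction `up` (209 D5);   WITNESSES := `pvmuLk (pos ap) y up c H ∪ W0`.

* `pvmu_dr_centre`      the added piece is far from the centre of its own box (field `core` / `far of the discs` of the arcs of 10, 211, 179)
* `pvmu_dr_other`       the added piece is far from the other box
* **`pvmu_dr_scene`**   WHAT IS LEFT TO THE PRODUCERS:   (M1) at the two grid centres (92 `pvsn_M1t_cp`, 119),  `K \ M` far from the grid centres (92 `pvsn_K_cases` + mouths of the pins),  the box parts (AccMouth §4, 119),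
                        the polygon parts: compact, connected, off `K`, through the tip apex, time clause, exit (211 `Tr/AccM` with `p := pos apex`, 206 `Tr/AccWM`, 9, 49),  `arc` (10),  `lo_far`,  numbers.
-/

set_option autoImplicit false

namespace Claimed.Agent.R289

open Set Metric

section centre

variable {z z' a y up w : ℂ} {r r' c H κ κ' ρ' : ℝ}

/-- a point above (or little under) a side is far from the centre -/
theorem pvmu_dr_ht_norm {n : ℂ} (hn : PvmuDir n) : pvmuHt z r n w + r ≤ ‖w - z‖ := by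
  have h := pvmu_ht_lip (z := z) (r := r) (w := w) (w' := z) hn
  have h0 : pvmuHt z r n z = -r := by
    unfold pvmuHt
    simp
  rw [h0] at h
  linarith

/-- **the added piece is far from the centre of its own box** -/
theorem pvmu_dr_centre (hup : PvmuDir up) (hy : -κ ≤ pvmuHt z r up y) (hay : ‖a - y‖ ≤ κ') (hc : 0 ≤ c) (hH : 0 ≤ H) (h1 : κ' + c ≤ ρ') (h2 : H ≤ ρ') (hw : w ∈ pvmuLk a y up c H) :
    r - κ - ρ' ≤ ‖w - z‖ := by
  have hb := pvmu_lk_ball hup hay hc hH h1 h2 hw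
  rw [mem_closedBall, dist_eq_norm] at hb
  have h3 := pvmu_dr_ht_norm (z := z) (r := r) (w := y) hup
  have h4 := norm_sub_le_norm_sub_add_norm_sub y w z
  rw [norm_sub_rev y w] at h4
  linarith

/-- **the added piece is far from the other box** (`y` within `κ'` of its own box) -/
theorem pvmu_dr_other (hup : PvmuDir up) (hyb : y ∈ pvwSq z (r + κ')) (hay : ‖a - y‖ ≤ κ') (hc : 0 ≤ c) (hH : 0 ≤ H) (h1 : κ' + c ≤ ρ') (h2 : H ≤ ρ') (hw : w ∈ pvmuLk a y up c H) :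
    pvtcSup (z - z') - (r + κ') - ρ' ≤ pvtcSup (w - z') := by
  have hb := pvmu_lk_ball hup hay hc hH h1 h2 hw
  rw [mem_closedBall, dist_eq_norm] at hb
  have h3 := pvtc_pl_sup_le_norm (w - y)
  have h4 := pvmu_sq_sup.1 hyb
  have h5 := pvacc_sup_tri z y z'
  have h6 := pvacc_sup_tri y w z'
  rw [pvtc_pl_sup_comm z y] at h5
  rw [pvtc_pl_sup_comm y w] at h6
  linarith

end centre

section scene

variable {V D : Type} {T : PvMap V D} {pos : V → ℂ} {N : PvwNum} {h : ℝ} {zs zt : ℂ} {τs τt : PvwTy} {σ : V → Bool} {𝔖s 𝔖t : PvwSt T}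
  {γ : ℕ → ℂ} {K Ms Mt W0t W0s : Set ℂ} {ups upt : ℂ} {μf c H ρ' ρ'' r η μ S : ℝ} {lo ts tt hi : ℕ}

/-- **THE SCENE AT THE DOORS OF RECORD** -/
theorem pvmu_dr_scene (As : 𝔖s.AtIn pos N h zs τs σ) (At : 𝔖t.AtOut pos N h zt τt σ)
    (hms : ‖pos 𝔖s.am - pos (T.src (𝔖s.em 𝔖s.nm))‖ ≤ μf) (hmt : ‖pos 𝔖t.ap - pos (T.src (𝔖t.ep 𝔖t.np))‖ ≤ μf) (hρ : 0 ≤ N.rho * h)
    (hups : PvmuDir ups) (hys : -(N.rho * h / 4) ≤ pvmuHt zs (pvwRad N h τs τs.k) ups (τs.cm h zs))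
    (hupt : PvmuDir upt) (hyt : -(N.rho * h / 4) ≤ pvmuHt zt (pvwRad N h τt τt.k) upt (τt.cp h zt))
    -- numbers
    (hr : 0 ≤ r) (hη : 0 ≤ η) (hRs : N.rho * h / 2 + μf ≤ 2 * pvwRad N h τs τs.k) (hRt : N.rho * h / 2 + μf ≤ 2 * pvwRad N h τt τt.k) (hc : N.rho * h / 2 + μf < c)
    (hH : r + 2 * η + N.rho * h / 4 < H) (h1 : N.rho * h / 4 + μf + c ≤ ρ') (h2 : H ≤ ρ')
    (hsep : pvwRad N h τs τs.k + pvwRad N h τt τt.k + (N.rho * h / 4 + μf) + ρ' + (2 * r + 2 * η) < pvtcSup (zt - zs))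
    (n1 : 3 * S + 5 * r ≤ ρ'' - H) (n2 : S + 5 * r ≤ ρ'' - N.rho * h / 4) (n3 : 13 * r ≤ ρ'' - ρ')
    -- the obstacle
    (hKc : IsCompact K) (m1s : K ∩ closedBall (τs.cm h zs) ρ' ⊆ pvwSq zs (pvwRad N h τs τs.k)) (m1t : K ∩ closedBall (τt.cp h zt) ρ' ⊆ pvwSq zt (pvwRad N h τt τt.k))
    (hMsK : Ms ⊆ K) (hMsc : IsPreconnected Ms) (hMsb : Ms ⊆ pvwSq zs (pvwRad N h τs τs.k)) (hMtK : Mt ⊆ K) (hMtc : IsPreconnected Mt) (hMtb : Mt ⊆ pvwSq zt (pvwRad N h τt τt.k))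
    (fs : ∀ q ∈ K \ (Ms ∪ Mt), ρ'' < ‖q - τs.cm h zs‖) (ft : ∀ q ∈ K \ (Ms ∪ Mt), ρ'' < ‖q - τt.cp h zt‖)
    -- the polygon parts of the two witnesses
    (wt_c : IsPreconnected W0t) (wt_k : IsCompact W0t) (wt_o : Disjoint W0t K) (wt_a : pos 𝔖t.ap ∈ W0t)
    (wt_t : ∀ w ∈ W0t, (∃ k, (tt ≤ k ∧ k ≤ hi) ∧ ‖w - γ k‖ ≤ μ) ∨ ∀ q ∈ K \ (Ms ∪ Mt), 13 * r < ‖w - q‖)
    (ws_c : IsPreconnected W0s) (ws_k : IsCompact W0s) (ws_o : Disjoint W0s K) (ws_a : pos 𝔖s.am ∈ W0s)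
    (ws_t : ∀ w ∈ W0s, (∃ k, (lo ≤ k ∧ k ≤ ts) ∧ ‖w - γ k‖ ≤ μ) ∨ ∀ q ∈ K \ (Ms ∪ Mt), 13 * r < ‖w - q‖)
    (far : ∃ a0 b0 c0 d0 : ℝ, K ⊆ pvtcRect a0 b0 c0 d0 ∧ (∃ q ∈ W0t, q ∉ pvtcRect (a0 - (r + η)) (b0 + (r + η)) (c0 - (r + η)) (d0 + (r + η))) ∧
      ∃ q ∈ W0s, q ∉ pvtcRect (a0 - (r + η)) (b0 + (r + η)) (c0 - (r + η)) (d0 + (r + η)))
    -- the times
    (arc : ∃ u v, PvfrArc γ K ((pvmuLk (pos 𝔖t.ap) (τt.cp h zt) upt c H ∪ W0t) ∪ (pvmuLk (pos 𝔖s.am) (τs.cm h zs) ups c H ∪ W0s)) μ (S + 8 * r) ts tt u v)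
    (hγt : γ tt = pos (T.src (𝔖t.ep 𝔖t.np))) (hγs : γ ts = pos (T.src (𝔖s.em 𝔖s.nm))) (lo_far : ∀ q ∈ K, S < ‖γ lo - q‖) (lo_le : lo ≤ ts) (tt_le : tt ≤ hi) :
    PvaccScene γ K (Ms ∪ Mt) (pvmuLk (pos 𝔖t.ap) (τt.cp h zt) upt c H ∪ W0t) (pvmuLk (pos 𝔖s.am) (τs.cm h zs) ups c H ∪ W0s) (pvmuFr (τt.cp h zt) upt H) (pvmuFr (τs.cm h zs) ups H)
      r η μ S lo ts tt hi := by
  have hμf : 0 ≤ μf := (norm_nonneg _).trans hmt
  have hH0 : N.rho * h / 4 < H := by linarith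
  have hH00 : 0 ≤ H := by linarith
  have hc0 : 0 ≤ c := by linarith
  obtain ⟨t1, t2, t3, t4, t5, t6⟩ := pvmu_lk_t At hmt hρ hupt hyt hRt hc hH0 h1 h2 m1t
  obtain ⟨s1, s2, s3, s4, s5, s6⟩ := pvmu_lk_s As hms hρ hups hys hRs hc hH0 h1 h2 m1s
  -- the grid centres are near their boxes
  obtain ⟨-, -, -, -, ybt, yat⟩ := pvmu_st_side_t At hmt
  obtain ⟨-, -, -, -, ybs, yas⟩ := pvmu_st_side_s As hms
  -- the fronts are outside the fattened boxes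
  have ot : pvmuFr (τt.cp h zt) upt H ∉ pvwSq zt (pvwRad N h τt τt.k + (r + 2 * η)) := pvmu_lk_fr_out hupt hyt (by linarith)
  have os : pvmuFr (τs.cm h zs) ups H ∉ pvwSq zs (pvwRad N h τs τs.k + (r + 2 * η)) := pvmu_lk_fr_out hups hys (by linarith)
  have ot' : pvmuFr (τt.cp h zt) upt H ∉ pvwSq zs (pvwRad N h τs τs.k + (r + 2 * η)) := by
    refine pvmu_far_not_mem ?_
    have := pvmu_dr_other (z' := zs) hupt ybt yat hc0 hH00 h1 h2 t4
    linarith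
  have os' : pvmuFr (τs.cm h zs) ups H ∉ pvwSq zt (pvwRad N h τt τt.k + (r + 2 * η)) := by
    refine pvmu_far_not_mem ?_
    have := pvmu_dr_other (z' := zt) hups ybs yas hc0 hH00 h1 h2 s4
    rw [pvtc_pl_sup_comm zs zt] at this
    linarith
  have hsep' : pvwRad N h τs τs.k + pvwRad N h τt τt.k + (2 * r + η) < pvtcSup (zt - zs) := by linarith
  have hρ'0 : 0 ≤ ρ' := hH00.trans h2
  refine ⟨hKc, arc, ?_, t1.union wt_k, ?_, Or.inl t4, ?_, s1.union ws_k, ?_, Or.inl s4, ?_, ?_, ?_, ?_, ?_, ?_, ?_, ?_, ?_, lo_far, lo_le, tt_le⟩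
  · exact t2.isPreconnected.union _ t3 wt_a wt_c
  · exact Set.disjoint_union_left.2 ⟨t5, wt_o⟩
  · exact s2.isPreconnected.union _ s3 ws_a ws_c
  · exact Set.disjoint_union_left.2 ⟨s5, ws_o⟩
  · obtain ⟨a0, b0, c0, d0, g1, ⟨q, g2, g3⟩, q', g4, g5⟩ := far
    exact ⟨a0, b0, c0, d0, g1, ⟨q, Or.inr g2, g3⟩, q', Or.inr g4, g5⟩
  · rintro w (hw | hw)
    · right
      intro q hq
      have := pvmu_lk_far hupt yat hc0 hH00 h1 h2 hw (ft q hq)
      linarith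
    · exact wt_t w hw
  · rintro w (hw | hw)
    · right
      intro q hq
      have := pvmu_lk_far hups yas hc0 hH00 h1 h2 hw (fs q hq)
      linarith
    · exact ws_t w hw
  · exact pvmu_p4_boxes hr hη hMtK hMtc hMtb Set.inter_subset_right ot hMsK hMsc hMsb Set.inter_subset_right ot' hsep'
  · exact pvmu_p4_boxes hr hη hMtK hMtc hMtb Set.inter_subset_right os' hMsK hMsc hMsb Set.inter_subset_right os hsep'
  · intro q hq
    have := pvmu_mask_tri (ft q hq) (pvmu_lk_fr_dist (y := τt.cp h zt) hupt hH00).le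
    linarith
  · intro q hq
    have := pvmu_mask_tri (fs q hq) (pvmu_lk_fr_dist (y := τs.cm h zs) hups hH00).le
    linarith
  · intro q hq
    rw [hγt]
    have := pvmu_mask_tri (ft q hq) At.good.tip_p.1
    linarith
  · intro q hq
    rw [hγs]
    have := pvmu_mask_tri (fs q hq) As.good.tip_m.1
    linarith

end scene

end Claimed.Agent.R289
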