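-- KEEP
import Claimed.Agent.R289.Tr.AccDoor

/-!
# Row 289 (S0537, Cardy for Poisson-Voronoi), THE WALL, road E, TR38 = (ACC), file Tr/AccFront : (ACC) FOR ARBITRARY FRONTS (the front CELLS of 270), NO WITNESS, NO LINK, NO DIRECTION IN THE STATEMENT      (helper215; prefix `pvmu_lf_`, `pvmu_df_`, `pvmuLf`)

WHY.   The front of record is the centre of the front CELL `p + l u` of the whisker (270 `PvjwEnd`: `near`, `front`), not exactly `y + H up`.      All that is known: `f ∉ pvwSq z (R_k + e)` and `‖f - y‖ ≤ ρ'`.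
THE LINK FOR AN ARBITRARY FRONT `f`:   `n` := a direction over whose side `f` is higher than `e` (`pvmu_ht_of_not_mem`),   `pvmuLf a n f c := [a, a + c n] ∪ [a + c n, f]`.
It misses the closed box as soon as `‖a - f‖ ≤ d`, `d ≤ 2 R + e`, `d ≤ c + e`   (`pvmu_lf_box`; corners are no exception).

* §1  the link `pvmuLf`
* §2  **`pvmu_df_scene`** = `PvaccScene` for arbitrary fronts (directions given)
* §3  **`pvmu_df_acc`** = THE CONCLUSION OF `pvacc_core8` FOR ARBITRARY FRONTS: both fronts accessible OR three passages;   the statement contains NO witness of the mouth, NO link, NO direction: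
      the polygon parts `W0t W0s` (from the tip apexes on), `arc` (for every pair of added pieces inside the two mouth balls), (M1), box parts, numbers.
-/

set_option autoImplicit false
set_option linter.unusedVariables false

namespace Claimed.Agent.R289

open Set Metric

/-! ## §1 the link -/

/-- the added piece from the tip apex `a` to an arbitrary front `f`, first leg in the direction `n` -/
noncomputable def pvmuLf (a n f : ℂ) (c : ℝ) : Set ℂ := segment ℝ a (a + (c : ℂ) * n) ∪ segment ℝ (a + (c : ℂ) * n) f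

theorem pvmu_lf_eqns_cite : True := by
  have := @pvmuLf.eq_1
  trivial

section lf

variable {z z' a n f y w : ℂ} {r c d e κ' ρ' : ℝ}

theorem pvmu_lf_compact (a n f : ℂ) (c : ℝ) : IsCompact (pvmuLf a n f c) :=
  (plg_segment_compact _ _).union (plg_segment_compact _ _)

theorem pvmu_lf_apex (a n f : ℂ) (c : ℝ) : a ∈ pvmuLf a n f c := Or.inl (left_mem_segment ℝ _ _)

theorem pvmu_lf_front (a n f : ℂ) (c : ℝ) : f ∈ pvmuLf a n f c := Or.inr (right_mem_segment ℝ _ _)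

theorem pvmu_lf_conn (a n f : ℂ) (c : ℝ) : IsPreconnected (pvmuLf a n f c) :=
  (convex_segment _ _).isPreconnected.union (a + (c : ℂ) * n) (right_mem_segment ℝ _ _) (left_mem_segment ℝ _ _) (convex_segment _ _).isPreconnected

/-- **THE LINK MISSES THE BOX** -/
theorem pvmu_lf_box (hn : PvmuDir n) (ha : a ∉ pvwSq z r) (hf : e < pvmuHt z r n f) (he : 0 ≤ e) (haf : ‖a - f‖ ≤ d) (h1 : d ≤ 2 * r + e) (hc0 : 0 ≤ c) (hc : d ≤ c + e) :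
    Disjoint (pvmuLf a n f c) (pvwSq z r) := by
  have hna : e - d < pvmuHt z r n a := by
    have := pvmu_ht_lip (z := z) (r := r) (w := f) (w' := a) hn
    rw [norm_sub_rev] at this
    linarith
  refine Set.disjoint_union_left.2 ⟨?_, ?_⟩
  · obtain ⟨u, hu, hua⟩ : ∃ u, PvmuDir u ∧ 0 < pvmuHt z r u a := by
      by_contra hcon
      push Not at hcon
      exact ha (pvmu_sq_iff.2 hcon)
    have hne : u ≠ -n := by
      rintro rfl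
      rw [pvmu_lk_ht_neg] at hua
      linarith
    exact pvmu_seg_out hu hua (lt_of_lt_of_le hua (pvmu_lk_ht_up hn hu hne hc0))
  · refine pvmu_seg_out hn ?_ (lt_of_le_of_lt he hf)
    rw [pvmu_ht_add hn]
    linarith

/-- the link stays in a ball round the grid centre -/
theorem pvmu_lf_ball (hn : PvmuDir n) (hay : ‖a - y‖ ≤ κ') (hc0 : 0 ≤ c) (h1 : κ' + c ≤ ρ') (hfy : ‖f - y‖ ≤ ρ') : pvmuLf a n f c ⊆ closedBall y ρ' := by
  have ma : a ∈ closedBall y ρ' := mem_closedBall_iff_norm.2 (by linarith)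
  have mf : f ∈ closedBall y ρ' := mem_closedBall_iff_norm.2 hfy
  have mq : a + (c : ℂ) * n ∈ closedBall y ρ' := by
    rw [mem_closedBall_iff_norm]
    have e1 : a + (c : ℂ) * n - y = (a - y) + (c : ℂ) * n := by ring
    have e2 : ‖(c : ℂ) * n‖ = c := by rw [norm_mul, pvmu_dir_norm hn, mul_one, Complex.norm_real, Real.norm_of_nonneg hc0]
    rw [e1]
    have := norm_add_le (a - y) ((c : ℂ) * n)
    linarith
  rintro w (hw | hw)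
  · exact (convex_closedBall y ρ').segment_subset ma mq hw
  · exact (convex_closedBall y ρ').segment_subset mq mf hw

/-- a point of a ball round `y`, `y` within `κ'` of its own box, is far from the centre of the other box -/
theorem pvmu_lf_other (hyb : y ∈ pvwSq z (r + κ')) (hw : w ∈ closedBall y ρ') : pvtcSup (z - z') - (r + κ') - ρ' ≤ pvtcSup (w - z') := by
  rw [mem_closedBall, dist_eq_norm] at hw
  have h3 := pvtc_pl_sup_le_norm (w - y)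
  have h4 := pvmu_sq_sup.1 hyb
  have h5 := pvacc_sup_tri z y z'
  have h6 := pvacc_sup_tri y w z'
  rw [pvtc_pl_sup_comm z y] at h5
  rw [pvtc_pl_sup_comm y w] at h6
  linarith

end lf

/-! ## §2 the scene for arbitrary fronts -/

section scene

variable {V D : Type} {T : PvMap V D} {pos : V → ℂ} {N : PvwNum} {h : ℝ} {zs zt : ℂ} {τs τt : PvwTy} {σ : V → Bool} {𝔖s 𝔖t : PvwSt T}
  {γ : ℕ → ℂ} {K Ms Mt W0t W0s : Set ℂ} {ns nt fs ft : ℂ} {μf c e ρ' ρ'' r η μ S : ℝ} {lo ts tt hi : ℕ}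

/-- **THE SCENE FOR ARBITRARY FRONTS** `ft`, `fs` (directions `nt`, `ns` given) -/
theorem pvmu_df_scene (As : 𝔖s.AtIn pos N h zs τs σ) (At : 𝔖t.AtOut pos N h zt τt σ)
    (hms : ‖pos 𝔖s.am - pos (T.src (𝔖s.em 𝔖s.nm))‖ ≤ μf) (hmt : ‖pos 𝔖t.ap - pos (T.src (𝔖t.ep 𝔖t.np))‖ ≤ μf) (hρ : 0 ≤ N.rho * h)
    -- the fronts
    (hns : PvmuDir ns) (hfs : e < pvmuHt zs (pvwRad N h τs τs.k) ns fs) (hfsy : ‖fs - τs.cm h zs‖ ≤ ρ')
    (hnt : PvmuDir nt) (hft : e < pvmuHt zt (pvwRad N h τt τt.k) nt ft) (hfty : ‖ft - τt.cp h zt‖ ≤ ρ')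
    -- numbers
    (hr : 0 ≤ r) (hη : 0 ≤ η) (he : r + 2 * η ≤ e) (hRs : N.rho * h / 4 + μf + ρ' ≤ 2 * pvwRad N h τs τs.k + e) (hRt : N.rho * h / 4 + μf + ρ' ≤ 2 * pvwRad N h τt τt.k + e)
    (hc0 : 0 ≤ c) (hc : N.rho * h / 4 + μf + ρ' ≤ c + e) (h1 : N.rho * h / 4 + μf + c ≤ ρ')
    (hsep : pvwRad N h τs τs.k + pvwRad N h τt τt.k + (N.rho * h / 4 + μf) + ρ' + (2 * r + 2 * η) < pvtcSup (zt - zs))
    (n1 : 3 * S + 5 * r ≤ ρ'' - ρ') (n2 : S + 5 * r ≤ ρ'' - N.rho * h / 4) (n3 : 13 * r ≤ ρ'' - ρ')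
    -- the obstacle
    (hKc : IsCompact K) (m1s : K ∩ closedBall (τs.cm h zs) ρ' ⊆ pvwSq zs (pvwRad N h τs τs.k)) (m1t : K ∩ closedBall (τt.cp h zt) ρ' ⊆ pvwSq zt (pvwRad N h τt τt.k))
    (hMsK : Ms ⊆ K) (hMsc : IsPreconnected Ms) (hMsb : Ms ⊆ pvwSq zs (pvwRad N h τs τs.k)) (hMtK : Mt ⊆ K) (hMtc : IsPreconnected Mt) (hMtb : Mt ⊆ pvwSq zt (pvwRad N h τt τt.k))
    (gs : ∀ q ∈ K \ (Ms ∪ Mt), ρ'' < ‖q - τs.cm h zs‖) (gt : ∀ q ∈ K \ (Ms ∪ Mt), ρ'' < ‖q - τt.cp h zt‖)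
    -- the polygon parts of the two witnesses
    (wt_c : IsPreconnected W0t) (wt_k : IsCompact W0t) (wt_o : Disjoint W0t K) (wt_a : pos 𝔖t.ap ∈ W0t)
    (wt_t : ∀ w ∈ W0t, (∃ k, (tt ≤ k ∧ k ≤ hi) ∧ ‖w - γ k‖ ≤ μ) ∨ ∀ q ∈ K \ (Ms ∪ Mt), 13 * r < ‖w - q‖)
    (ws_c : IsPreconnected W0s) (ws_k : IsCompact W0s) (ws_o : Disjoint W0s K) (ws_a : pos 𝔖s.am ∈ W0s)
    (ws_t : ∀ w ∈ W0s, (∃ k, (lo ≤ k ∧ k ≤ ts) ∧ ‖w - γ k‖ ≤ μ) ∨ ∀ q ∈ K \ (Ms ∪ Mt), 13 * r < ‖w - q‖)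
    (far : ∃ a0 b0 c0 d0 : ℝ, K ⊆ pvtcRect a0 b0 c0 d0 ∧ (∃ q ∈ W0t, q ∉ pvtcRect (a0 - (r + η)) (b0 + (r + η)) (c0 - (r + η)) (d0 + (r + η))) ∧
      ∃ q ∈ W0s, q ∉ pvtcRect (a0 - (r + η)) (b0 + (r + η)) (c0 - (r + η)) (d0 + (r + η)))
    -- the times
    (arc : ∃ u v, PvfrArc γ K ((pvmuLf (pos 𝔖t.ap) nt ft c ∪ W0t) ∪ (pvmuLf (pos 𝔖s.am) ns fs c ∪ W0s)) μ (S + 8 * r) ts tt u v)
    (hγt : γ tt = pos (T.src (𝔖t.ep 𝔖t.np))) (hγs : γ ts = pos (T.src (𝔖s.em 𝔖s.nm))) (lo_far : ∀ q ∈ K, S < ‖γ lo - q‖) (lo_le : lo ≤ ts) (tt_le : tt ≤ hi) :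
    PvaccScene γ K (Ms ∪ Mt) (pvmuLf (pos 𝔖t.ap) nt ft c ∪ W0t) (pvmuLf (pos 𝔖s.am) ns fs c ∪ W0s) ft fs r η μ S lo ts tt hi := by
  have hμf : 0 ≤ μf := (norm_nonneg _).trans hmt
  have he0 : 0 ≤ e := by linarith
  obtain ⟨-, -, -, -, ybt, yat⟩ := pvmu_st_side_t At hmt
  obtain ⟨-, -, -, -, ybs, yas⟩ := pvmu_st_side_s As hms
  have tri : ∀ a f y : ℂ, ∀ α β : ℝ, ‖a - y‖ ≤ α → ‖f - y‖ ≤ β → ‖a - f‖ ≤ α + β := by
    intro a f y α β h1 h2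
    have := norm_sub_le_norm_sub_add_norm_sub a y f
    rw [norm_sub_rev y f] at this
    linarith
  -- the links
  have bt : pvmuLf (pos 𝔖t.ap) nt ft c ⊆ closedBall (τt.cp h zt) ρ' := pvmu_lf_ball hnt yat hc0 h1 hfty
  have bs : pvmuLf (pos 𝔖s.am) ns fs c ⊆ closedBall (τs.cm h zs) ρ' := pvmu_lf_ball hns yas hc0 h1 hfsy
  have xt : Disjoint (pvmuLf (pos 𝔖t.ap) nt ft c) (pvwSq zt (pvwRad N h τt τt.k)) := pvmu_lf_box hnt At.stub.ep_out hft he0 (tri _ _ _ _ _ yat hfty) hRt hc0 hc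
  have xs : Disjoint (pvmuLf (pos 𝔖s.am) ns fs c) (pvwSq zs (pvwRad N h τs τs.k)) := pvmu_lf_box hns As.stub.em_out hfs he0 (tri _ _ _ _ _ yas hfsy) hRs hc0 hc
  have dt : Disjoint (pvmuLf (pos 𝔖t.ap) nt ft c) K := Set.disjoint_left.2 fun w hw hK => Set.disjoint_left.1 xt hw (m1t ⟨hK, bt hw⟩)
  have ds : Disjoint (pvmuLf (pos 𝔖s.am) ns fs c) K := Set.disjoint_left.2 fun w hw hK => Set.disjoint_left.1 xs hw (m1s ⟨hK, bs hw⟩)
  -- the fronts are outside the fattened boxes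
  have ot : ft ∉ pvwSq zt (pvwRad N h τt τt.k + (r + 2 * η)) := fun hm => pvmu_ht_not_mem hnt hft (pvmu_sq_mono (by linarith) hm)
  have os : fs ∉ pvwSq zs (pvwRad N h τs τs.k + (r + 2 * η)) := fun hm => pvmu_ht_not_mem hns hfs (pvmu_sq_mono (by linarith) hm)
  have ot' : ft ∉ pvwSq zs (pvwRad N h τs τs.k + (r + 2 * η)) := by
    refine pvmu_far_not_mem ?_
    have := pvmu_lf_other (z' := zs) ybt (mem_closedBall_iff_norm.2 hfty)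
    linarith
  have os' : fs ∉ pvwSq zt (pvwRad N h τt τt.k + (r + 2 * η)) := by
    refine pvmu_far_not_mem ?_
    have := pvmu_lf_other (z' := zt) ybs (mem_closedBall_iff_norm.2 hfsy)
    rw [pvtc_pl_sup_comm zs zt] at this
    linarith
  have hsep' : pvwRad N h τs τs.k + pvwRad N h τt τt.k + (2 * r + η) < pvtcSup (zt - zs) := by
    have : 0 ≤ ρ' := (norm_nonneg _).trans hfty
    linarith
  refine ⟨hKc, arc, ?_, (pvmu_lf_compact _ _ _ _).union wt_k, ?_, Or.inl (pvmu_lf_front _ _ _ _), ?_, (pvmu_lf_compact _ _ _ _).union ws_k, ?_, Or.inl (pvmu_lf_front _ _ _ _),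
    ?_, ?_, ?_, ?_, ?_, ?_, ?_, ?_, ?_, lo_far, lo_le, tt_le⟩
  · exact (pvmu_lf_conn _ _ _ _).union _ (pvmu_lf_apex _ _ _ _) wt_a wt_c
  · exact Set.disjoint_union_left.2 ⟨dt, wt_o⟩
  · exact (pvmu_lf_conn _ _ _ _).union _ (pvmu_lf_apex _ _ _ _) ws_a ws_c
  · exact Set.disjoint_union_left.2 ⟨ds, ws_o⟩
  · obtain ⟨a0, b0, c0, d0, g1, ⟨q, g2, g3⟩, q', g4, g5⟩ := far
    exact ⟨a0, b0, c0, d0, g1, ⟨q, Or.inr g2, g3⟩, q', Or.inr g4, g5⟩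
  · rintro w (hw | hw)
    · right
      intro q hq
      have := pvmu_mask_tri (gt q hq) (mem_closedBall_iff_norm.1 (bt hw))
      linarith
    · exact wt_t w hw
  · rintro w (hw | hw)
    · right
      intro q hq
      have := pvmu_mask_tri (gs q hq) (mem_closedBall_iff_norm.1 (bs hw))
      linarith
    · exact ws_t w hw
  · exact pvmu_p4_boxes hr hη hMtK hMtc hMtb Set.inter_subset_right ot hMsK hMsc hMsb Set.inter_subset_right ot' hsep'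
  · exact pvmu_p4_boxes hr hη hMtK hMtc hMtb Set.inter_subset_right os' hMsK hMsc hMsb Set.inter_subset_right os hsep'
  · intro q hq
    have := pvmu_mask_tri (gt q hq) hfty
    linarith
  · intro q hq
    have := pvmu_mask_tri (gs q hq) hfsy
    linarith
  · intro q hq
    rw [hγt]
    have := pvmu_mask_tri (gt q hq) At.good.tip_p.1
    linarith
  · intro q hq
    rw [hγs]
    have := pvmu_mask_tri (gs q hq) As.good.tip_m.1
    linarith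

/-! ## §3 (ACC) for arbitrary fronts -/

/-- **(ACC) FOR ARBITRARY FRONTS**: `ft`, `fs` outside their boxes fattened by `e`, within `ρ'` of the grid centres: BOTH FRONTS ARE ACCESSIBLE OR THE WALL PASSES THREE TIMES NEAR A POINT OF `K`.
`arc` is asked for every pair of added pieces inside the two mouth balls. -/
theorem pvmu_df_acc {δ : ℝ} {j : ℕ} (As : 𝔖s.AtIn pos N h zs τs σ) (At : 𝔖t.AtOut pos N h zt τt σ)
    (hms : ‖pos 𝔖s.am - pos (T.src (𝔖s.em 𝔖s.nm))‖ ≤ μf) (hmt : ‖pos 𝔖t.ap - pos (T.src (𝔖t.ep 𝔖t.np))‖ ≤ μf) (hρ : 0 ≤ N.rho * h)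
    -- the fronts
    (hfs : fs ∉ pvwSq zs (pvwRad N h τs τs.k + e)) (hfsy : ‖fs - τs.cm h zs‖ ≤ ρ') (hft : ft ∉ pvwSq zt (pvwRad N h τt τt.k + e)) (hfty : ‖ft - τt.cp h zt‖ ≤ ρ')
    -- numbers
    (hr : 0 < r) (hη : 0 < η) (hηr : 4 * η ≤ r) (hμ : 0 ≤ μ) (hS : 8 * r + 2 * μ ≤ S) (hδ : 0 < δ) (hj : ((j : ℝ) + 1) * δ < r)
    (he : r + 2 * η ≤ e) (hRs : N.rho * h / 4 + μf + ρ' ≤ 2 * pvwRad N h τs τs.k + e) (hRt : N.rho * h / 4 + μf + ρ' ≤ 2 * pvwRad N h τt τt.k + e)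
    (hc0 : 0 ≤ c) (hc : N.rho * h / 4 + μf + ρ' ≤ c + e) (h1 : N.rho * h / 4 + μf + c ≤ ρ')
    (hsep : pvwRad N h τs τs.k + pvwRad N h τt τt.k + (N.rho * h / 4 + μf) + ρ' + (2 * r + 2 * η) < pvtcSup (zt - zs))
    (n1 : 3 * S + 5 * r ≤ ρ'' - ρ') (n2 : S + 5 * r ≤ ρ'' - N.rho * h / 4) (n3 : 13 * r ≤ ρ'' - ρ')
    -- the obstacle
    (hKc : IsCompact K) (m1s : K ∩ closedBall (τs.cm h zs) ρ' ⊆ pvwSq zs (pvwRad N h τs τs.k)) (m1t : K ∩ closedBall (τt.cp h zt) ρ' ⊆ pvwSq zt (pvwRad N h τt τt.k))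
    (hMsK : Ms ⊆ K) (hMsc : IsPreconnected Ms) (hMsb : Ms ⊆ pvwSq zs (pvwRad N h τs τs.k)) (hMtK : Mt ⊆ K) (hMtc : IsPreconnected Mt) (hMtb : Mt ⊆ pvwSq zt (pvwRad N h τt τt.k))
    (gs : ∀ q ∈ K \ (Ms ∪ Mt), ρ'' < ‖q - τs.cm h zs‖) (gt : ∀ q ∈ K \ (Ms ∪ Mt), ρ'' < ‖q - τt.cp h zt‖)
    -- the polygon parts of the two witnesses
    (wt_c : IsPreconnected W0t) (wt_k : IsCompact W0t) (wt_o : Disjoint W0t K) (wt_a : pos 𝔖t.ap ∈ W0t)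
    (wt_t : ∀ w ∈ W0t, (∃ k, (tt ≤ k ∧ k ≤ hi) ∧ ‖w - γ k‖ ≤ μ) ∨ ∀ q ∈ K \ (Ms ∪ Mt), 13 * r < ‖w - q‖)
    (ws_c : IsPreconnected W0s) (ws_k : IsCompact W0s) (ws_o : Disjoint W0s K) (ws_a : pos 𝔖s.am ∈ W0s)
    (ws_t : ∀ w ∈ W0s, (∃ k, (lo ≤ k ∧ k ≤ ts) ∧ ‖w - γ k‖ ≤ μ) ∨ ∀ q ∈ K \ (Ms ∪ Mt), 13 * r < ‖w - q‖)
    (far : ∃ a0 b0 c0 d0 : ℝ, K ⊆ pvtcRect a0 b0 c0 d0 ∧ (∃ q ∈ W0t, q ∉ pvtcRect (a0 - (r + η)) (b0 + (r + η)) (c0 - (r + η)) (d0 + (r + η))) ∧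
      ∃ q ∈ W0s, q ∉ pvtcRect (a0 - (r + η)) (b0 + (r + η)) (c0 - (r + η)) (d0 + (r + η)))
    -- the times
    (arc : ∀ Xt Xs : Set ℂ, Xt ⊆ closedBall (τt.cp h zt) ρ' → Xs ⊆ closedBall (τs.cm h zs) ρ' → ∃ u v, PvfrArc γ K ((Xt ∪ W0t) ∪ (Xs ∪ W0s)) μ (S + 8 * r) ts tt u v)
    (hγt : γ tt = pos (T.src (𝔖t.ep 𝔖t.np))) (hγs : γ ts = pos (T.src (𝔖s.em 𝔖s.nm))) (lo_far : ∀ q ∈ K, S < ‖γ lo - q‖) (lo_le : lo ≤ ts) (tt_le : tt ≤ hi) :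
    ((∀ a : ℤ × ℤ, ft ∈ pvtSq δ a → a ∈ pvtbOut (pvtN8^[j] (pvtCells δ K))) ∧ ∀ a : ℤ × ℤ, fs ∈ pvtSq δ a → a ∈ pvtbOut (pvtN8^[j] (pvtCells δ K))) ∨
      ∃ y ∈ K, PvfrThree γ y (8 * r + μ) (S - μ) lo hi := by
  obtain ⟨nt, hnt, hft'⟩ := pvmu_ht_of_not_mem hft
  obtain ⟨ns, hns, hfs'⟩ := pvmu_ht_of_not_mem hfs
  obtain ⟨-, -, -, -, -, yat⟩ := pvmu_st_side_t At hmt
  obtain ⟨-, -, -, -, -, yas⟩ := pvmu_st_side_s As hms
  have sc := pvmu_df_scene (γ := γ) (W0t := W0t) (W0s := W0s) (μ := μ) (S := S) (lo := lo) (ts := ts) (tt := tt) (hi := hi) As At hms hmt hρ hns hfs' hfsy hnt hft' hfty hr.le hη.le he hRs hRt hc0 hc h1 hsep n1 n2 n3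
    hKc m1s m1t hMsK hMsc hMsb hMtK hMtc hMtb gs gt wt_c wt_k wt_o wt_a wt_t ws_c ws_k ws_o ws_a ws_t far
    (arc _ _ (pvmu_lf_ball hnt yat hc0 h1 hfty) (pvmu_lf_ball hns yas hc0 h1 hfsy)) hγt hγs lo_far lo_le tt_le
  exact pvacc_core8 sc hr hη hηr hμ hS hδ hj

end scene

end Claimed.Agent.R289
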