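-- KEEP
import Claimed.Agent.R289.Tr.Defs
import Claimed.Agent.R289.Pl.Geo
import Claimed.Agent.R289.Obs.ArmD

/-!
# Row 289 (S0537, Cardy for Poisson-Voronoi), THE WALL, road E, TR38 / FIT-DET, file Tr/AccK : THE OBSTACLE `K` = THE UNION OF THE CLOSED FROZEN FACES      (owner helper119, typist of helper211; prefix `pvkz_`, defs `pvkz*`, `Pvkz*`)

TEXT: `origin/helper211:notes/R289/W2_211.md` v2, A (objects), (M1), (3P) steps 1 and 3.      ON `Tr/Defs` v3 (25): imports `Tr/Defs`, `Pl/Geo`, `Obs/ArmD` only.      0 sorry.      MODEL FREE: `T : PvMap V D`, `pos : V → ℂ`.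
* sec. 0  `pvkzF T pos d` (closed face on the left of `d`, a convex hull), `PvwDat.pvkzJ`, `PvwDat.pvkzK` : THE SAME TEXT as `pvfyFace`, `PvwDat.pvfyJ`, `PvwDat.pvfyK` of `Tr/FitRoof` v1 (62)
* sec. 1  one face: vertices, convex, compact, connected, `pvkz_face_sub` (in every convex set which contains the 3 vertices), `pvkz_face_sf`, `pvkz_face_eq_tri` (`= T.tri pos d` under `PlGeo`), `pvkz_face_diam`
* sec. 2  `pvkzR T pos A` (faces of a set of darts), `pvkzU T pos φ I` (faces `φ i`, `i ∈ I`; a STRETCH): mono, compact, `pvkz_R_sub`, **`pvkz_U_preconn`**, `pvkz_U_conn`, **`pvkz_U_through`** (= the set `K'` of (3P))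
* sec. 3  which faces touch: `pvkz_touch_step / _back / _opp / _pth / _ep / _em`, `pvkz_face_back`, `pvkz_face_em` (the face of `em (i+1)` is the face BEHIND `em i`)
* sec. 4  **`pvkz_djoin_conn`**, **`pvkz_left_conn`** (the closed inside of a circuit is connected: NO planarity), `pvkz_fv_vof`, `pvkz_core_ball`, `pvkz_R_eq_real`
* sec. 5  **`pvkz_K_eq`** (five pieces: core `s` | `Σ⁻(s)` | right faces of `g₀` | core `t` | `Σ⁺(t)`), `pvkz_K_cases`, the five inclusions, **`pvkz_K_conn_bare`**, **`pvkz_K_conn`** (two half states), `pvkz_K_conn_ok` (= field `conn` of `PvfyStr`)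
* sec. 6  `PvwDat.pvkzV` (= `fz` with the insides `ins` of the gates in the place of the discs `core`; `pvkz_V_sub_fz`), **`pvkz_fz_iff`** (`x ∈ pvkzV ↔` vertex of a face of `K`), `pvkz_fz_mem`, **`pvkz_site_iff`** (`PlGeo`: the sites on `K` are those of `pvkzV`), `pvkz_K_sub`, `pvkz_K_compact`
* sec. 7  boxes: `pvkz_sq_convex`, `pvkz_ep_box`, `pvkz_em_box`, `pvkz_core_sq`, `pvkz_out_box`, `pvkz_in_box`, `pvkz_G_near`, **`pvkz_K_ball`** (= field `ball` of `PvfyScene`)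
* sec. 8  (M1) of 211: `PvwDat.PvkzM1t`, `PvwDat.PvkzM1s`;  `pvkz_U_join`;  **`pvkz_M1t_join`**, **`pvkz_M1s_join`** (= (P4): two jaws in a mouth are joined inside `K ∩ box`);  `pvkz_M1t_mouth`, `pvkz_M1s_mouth` (⟹ `PvfyMouth` of 62)
* sec. 9  `PvwDat.pvkzKd pos zs rs zt rt` = `K` WITH THE TWO CLOSED DISCS (Defs v3: the core is the whole disc): `pvkz_Kd_eq` (five pieces), `pvkz_Kd_compact`, **`pvkz_Kd_conn`**, **`pvkz_fz_mem_Kd`** (ALL the frozen sites lie on it), `pvkz_site_Kd`, `pvkz_Kd_ball`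
-/

set_option autoImplicit false

namespace Claimed.Agent.R289

open Set Relation

variable {V D : Type} {T : PvMap V D} {pos : V → ℂ}

/-! ## 0. the definitions (the same text as sec. 1 of `Tr/FitRoof` v1 of 62) -/

/-- the closed face on the LEFT of the dart `d` -/
def pvkzF (T : PvMap V D) (pos : V → ℂ) (d : D) : Set ℂ := convexHull ℝ {pos (T.src d), pos (T.tgt d), pos (T.apex d)}

/-- the darts whose left faces make up the obstacle (`J` + the cores of W2_211 A): the positions `ep i`, `i < np`, of `Σ⁺(t)` (the apex of the face of the tip position `ep np` is FRESH), the positions `em i`, `i ≤ nm`, of `Σ⁻(s)`,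
the darts `opp (g.e i)` (right faces of the edges of `g₀`), the two cores -/
def PvwDat.pvkzJ (𝔇 : PvwDat T) : Set D :=
  {d | (∃ i, i < 𝔇.t.np ∧ 𝔇.t.ep i = d) ∨ (∃ i, i ≤ 𝔇.s.nm ∧ 𝔇.s.em i = d) ∨ (∃ i, i < 𝔇.g.n ∧ T.opp (𝔇.g.e i) = d) ∨ d ∈ 𝔇.s.S.Left ∨ d ∈ 𝔇.t.S.Left}

/-- **the obstacle `K`**: the union of the closed frozen faces -/
def PvwDat.pvkzK (𝔇 : PvwDat T) (pos : V → ℂ) : Set ℂ := ⋃ d ∈ 𝔇.pvkzJ, pvkzF T pos d

theorem pvkz_def_eqns_cite : True := by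
  have := @pvkzF.eq_1; have := @PvwDat.pvkzJ.eq_1; have := @PvwDat.pvkzK.eq_1
  trivial

/-! ## 1. one closed face -/

theorem pvkz_src_mem (T : PvMap V D) (pos : V → ℂ) (d : D) : pos (T.src d) ∈ pvkzF T pos d := subset_convexHull ℝ _ (by simp)
theorem pvkz_tgt_mem (T : PvMap V D) (pos : V → ℂ) (d : D) : pos (T.tgt d) ∈ pvkzF T pos d := subset_convexHull ℝ _ (by simp)
theorem pvkz_apex_mem (T : PvMap V D) (pos : V → ℂ) (d : D) : pos (T.apex d) ∈ pvkzF T pos d := subset_convexHull ℝ _ (by simp)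

theorem pvkz_fv_mem {d : D} {x : V} (h : T.FV d x) : pos x ∈ pvkzF T pos d := by
  rcases h with rfl | rfl | rfl
  · exact pvkz_src_mem T pos d
  · exact pvkz_tgt_mem T pos d
  · exact pvkz_apex_mem T pos d

theorem pvkz_face_convex (T : PvMap V D) (pos : V → ℂ) (d : D) : Convex ℝ (pvkzF T pos d) := convex_convexHull ℝ _

theorem pvkz_face_compact (T : PvMap V D) (pos : V → ℂ) (d : D) : IsCompact (pvkzF T pos d) :=
  Set.Finite.isCompact_convexHull ℝ (by simp)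

theorem pvkz_face_conn (T : PvMap V D) (pos : V → ℂ) (d : D) : IsConnected (pvkzF T pos d) :=
  ⟨⟨_, pvkz_src_mem T pos d⟩, (pvkz_face_convex T pos d).isPreconnected⟩

/-- a face lies in every convex set which contains its three vertices -/
theorem pvkz_face_sub {C : Set ℂ} (hC : Convex ℝ C) {d : D} (h1 : pos (T.src d) ∈ C) (h2 : pos (T.tgt d) ∈ C) (h3 : pos (T.apex d) ∈ C) :
    pvkzF T pos d ⊆ C := by
  refine convexHull_min ?_ hC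
  rintro x (rfl | rfl | rfl)
  · exact h1
  · exact h2
  · exact h3

theorem pvkz_face_nxt (T : PvMap V D) (pos : V → ℂ) (d : D) : pvkzF T pos (T.nxt d) = pvkzF T pos d := by
  unfold pvkzF
  rw [T.src_nxt, T.tgt_nxt, T.apex_nxt]
  congr 1
  ext x
  simp only [mem_insert_iff, mem_singleton_iff]
  tauto

theorem pvkz_face_sf {d d' : D} (h : T.SF d d') : pvkzF T pos d' = pvkzF T pos d := by
  rcases h with rfl | rfl | rfl
  · rfl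
  · exact pvkz_face_nxt T pos d
  · rw [pvkz_face_nxt, pvkz_face_nxt]

/-- the face of record of 62 is the closed triangle of `Pl/Geo` (172) -/
theorem pvkz_face_eq_tri (G : PlGeo T pos) (d : D) : pvkzF T pos d = T.tri pos d := (dela_eq_hull (G.orient d)).symm

/-- **mesh**: sides `≤ μ` ⟹ diameter `≤ μ` -/
theorem pvkz_face_diam {μ : ℝ} {d : D} (h1 : ‖pos (T.src d) - pos (T.tgt d)‖ ≤ μ) (h2 : ‖pos (T.tgt d) - pos (T.apex d)‖ ≤ μ)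
    (h3 : ‖pos (T.apex d) - pos (T.src d)‖ ≤ μ) {p q : ℂ} (hp : p ∈ pvkzF T pos d) (hq : q ∈ pvkzF T pos d) : ‖p - q‖ ≤ μ := by
  have hμ : 0 ≤ μ := (norm_nonneg _).trans h1
  have key : ∀ x : V, T.FV d x → ∀ q ∈ pvkzF T pos d, ‖pos x - q‖ ≤ μ := by
    intro x hx q hq
    have : pvkzF T pos d ⊆ Metric.closedBall (pos x) μ := by
      refine pvkz_face_sub (convex_closedBall _ _) ?_ ?_ ?_ <;> rw [mem_closedBall_iff_norm] <;> rcases hx with rfl | rfl | rfl <;>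
        first
          | (simpa using hμ)
          | assumption
          | (rw [norm_sub_rev]; assumption)
    have h4 := this hq
    rwa [mem_closedBall_iff_norm, norm_sub_rev] at h4
  have : pvkzF T pos d ⊆ Metric.closedBall q μ := by
    refine pvkz_face_sub (convex_closedBall _ _) ?_ ?_ ?_ <;> rw [mem_closedBall_iff_norm]
    · exact key _ (Or.inl rfl) q hq
    · exact key _ (Or.inr (Or.inl rfl)) q hq
    · exact key _ (Or.inr (Or.inr rfl)) q hq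
  have h5 := this hp
  rwa [mem_closedBall_iff_norm] at h5

/-! ## 2. unions of faces: realisation of a set of darts, stretches of a sequence of darts -/

/-- the union of the closed faces of the darts of `A` -/
def pvkzR (T : PvMap V D) (pos : V → ℂ) (A : Set D) : Set ℂ := ⋃ d ∈ A, pvkzF T pos d

/-- the union of the closed faces of the darts `φ i`, `i ∈ I` (a STRETCH when `I` is an interval) -/
def pvkzU (T : PvMap V D) (pos : V → ℂ) (φ : ℕ → D) (I : Set ℕ) : Set ℂ := ⋃ i ∈ I, pvkzF T pos (φ i)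

theorem pvkz_eqns_cite : True := by
  have := @pvkzR.eq_1; have := @pvkzU.eq_1
  trivial

theorem pvkz_R_mem {A : Set D} {p : ℂ} : p ∈ pvkzR T pos A ↔ ∃ d ∈ A, p ∈ pvkzF T pos d := by
  unfold pvkzR; simp only [mem_iUnion, exists_prop]

theorem pvkz_U_mem {φ : ℕ → D} {I : Set ℕ} {p : ℂ} : p ∈ pvkzU T pos φ I ↔ ∃ i ∈ I, p ∈ pvkzF T pos (φ i) := by
  unfold pvkzU; simp only [mem_iUnion, exists_prop]

theorem pvkz_R_mono {A B : Set D} (h : A ⊆ B) : pvkzR T pos A ⊆ pvkzR T pos B := biUnion_subset_biUnion_left h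

theorem pvkz_U_mono {φ : ℕ → D} {I I' : Set ℕ} (h : I ⊆ I') : pvkzU T pos φ I ⊆ pvkzU T pos φ I' := biUnion_subset_biUnion_left h

theorem pvkz_R_union (A B : Set D) : pvkzR T pos (A ∪ B) = pvkzR T pos A ∪ pvkzR T pos B := biUnion_union _ _ _

theorem pvkz_U_eq_R (φ : ℕ → D) (I : Set ℕ) : pvkzU T pos φ I = pvkzR T pos (φ '' I) := by
  unfold pvkzU pvkzR; rw [biUnion_image]

theorem pvkz_face_sub_R {A : Set D} {d : D} (h : d ∈ A) : pvkzF T pos d ⊆ pvkzR T pos A := subset_biUnion_of_mem (u := fun d => pvkzF T pos d) h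

theorem pvkz_face_sub_U {φ : ℕ → D} {I : Set ℕ} {i : ℕ} (h : i ∈ I) : pvkzF T pos (φ i) ⊆ pvkzU T pos φ I :=
  subset_biUnion_of_mem (u := fun i => pvkzF T pos (φ i)) h

theorem pvkz_R_compact {A : Set D} (h : A.Finite) : IsCompact (pvkzR T pos A) := h.isCompact_biUnion fun d _ => pvkz_face_compact T pos d

theorem pvkz_U_compact {φ : ℕ → D} {I : Set ℕ} (h : I.Finite) : IsCompact (pvkzU T pos φ I) := h.isCompact_biUnion fun i _ => pvkz_face_compact T pos (φ i)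

/-- a union of faces lies in every convex set which contains all the vertices -/
theorem pvkz_R_sub {C : Set ℂ} (hC : Convex ℝ C) {A : Set D} (h : ∀ d ∈ A, ∀ x, T.FV d x → pos x ∈ C) : pvkzR T pos A ⊆ C :=
  iUnion₂_subset fun d hd => pvkz_face_sub hC (h d hd _ (Or.inl rfl)) (h d hd _ (Or.inr (Or.inl rfl))) (h d hd _ (Or.inr (Or.inr rfl)))

theorem pvkz_U_sub {C : Set ℂ} (hC : Convex ℝ C) {φ : ℕ → D} {I : Set ℕ} (h : ∀ i ∈ I, ∀ x, T.FV (φ i) x → pos x ∈ C) : pvkzU T pos φ I ⊆ C :=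
  iUnion₂_subset fun i hi => pvkz_face_sub hC (h i hi _ (Or.inl rfl)) (h i hi _ (Or.inr (Or.inl rfl))) (h i hi _ (Or.inr (Or.inr rfl)))

/-- **a stretch of faces, consecutive ones touching, is preconnected** -/
theorem pvkz_U_preconn {φ : ℕ → D} {I : Set ℕ} (hI : I.OrdConnected)
    (touch : ∀ i, i ∈ I → i + 1 ∈ I → (pvkzF T pos (φ i) ∩ pvkzF T pos (φ (i + 1))).Nonempty) : IsPreconnected (pvkzU T pos φ I) :=
  IsPreconnected.biUnion_of_chain hI (fun i _ => (pvkz_face_conn T pos (φ i)).isPreconnected) fun i h1 h2 => touch i h1 h2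

theorem pvkz_U_conn {φ : ℕ → D} {I : Set ℕ} (hI : I.OrdConnected) (hne : I.Nonempty)
    (touch : ∀ i, i ∈ I → i + 1 ∈ I → (pvkzF T pos (φ i) ∩ pvkzF T pos (φ (i + 1))).Nonempty) : IsConnected (pvkzU T pos φ I) := by
  obtain ⟨i, hi⟩ := hne
  exact ⟨⟨_, pvkz_face_sub_U hi (pvkz_src_mem T pos (φ i))⟩, pvkz_U_preconn hI touch⟩

/-- **THE SET `K'` OF (3P), steps 1 and 3**: two points on the faces number `i₁ ≤ i₂` of a stretch `I` are joined by the compact connected sub-stretch `[i₁, i₂]` -/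
theorem pvkz_U_through {φ : ℕ → D} {I : Set ℕ} (hI : I.OrdConnected)
    (touch : ∀ i, i ∈ I → i + 1 ∈ I → (pvkzF T pos (φ i) ∩ pvkzF T pos (φ (i + 1))).Nonempty)
    {i₁ i₂ : ℕ} (h1 : i₁ ∈ I) (h2 : i₂ ∈ I) (h12 : i₁ ≤ i₂) {k₁ k₂ : ℂ} (hk1 : k₁ ∈ pvkzF T pos (φ i₁)) (hk2 : k₂ ∈ pvkzF T pos (φ i₂)) :
    IsCompact (pvkzU T pos φ (Icc i₁ i₂)) ∧ IsConnected (pvkzU T pos φ (Icc i₁ i₂)) ∧ pvkzU T pos φ (Icc i₁ i₂) ⊆ pvkzU T pos φ I ∧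
      k₁ ∈ pvkzU T pos φ (Icc i₁ i₂) ∧ k₂ ∈ pvkzU T pos φ (Icc i₁ i₂) := by
  have hsub : Icc i₁ i₂ ⊆ I := hI.out h1 h2
  exact ⟨pvkz_U_compact (finite_Icc _ _), pvkz_U_conn ordConnected_Icc ⟨i₁, le_rfl, h12⟩ fun i a b => touch i (hsub a) (hsub b), pvkz_U_mono hsub,
    pvkz_face_sub_U (left_mem_Icc.2 h12) hk1, pvkz_face_sub_U (right_mem_Icc.2 h12) hk2⟩

/-! ## 3. which faces touch -/

theorem pvkz_touch_of {d d' : D} {x : V} (h : T.FV d x) (h' : T.FV d' x) : (pvkzF T pos d ∩ pvkzF T pos d').Nonempty := ⟨pos x, pvkz_fv_mem h, pvkz_fv_mem h'⟩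

theorem pvkz_touch_opp (T : PvMap V D) (pos : V → ℂ) (d : D) : (pvkzF T pos d ∩ pvkzF T pos (T.opp d)).Nonempty :=
  pvkz_touch_of (x := T.src d) (Or.inl rfl) (Or.inr (Or.inl (T.tgt_opp d).symm))

/-- consecutive faces of a strand share an edge -/
theorem pvkz_touch_step (pos : V → ℂ) (s : V → Bool) (d : D) : (pvkzF T pos d ∩ pvkzF T pos (pvasStep T s d)).Nonempty := by
  rcases pvas_step_ends (T := T) s d with ⟨-, -, e⟩ | ⟨-, e, -⟩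
  · exact pvkz_touch_of (x := T.tgt d) (Or.inr (Or.inl rfl)) (Or.inr (Or.inl e.symm))
  · exact pvkz_touch_of (x := T.src d) (Or.inl rfl) (Or.inl e.symm)

/-- the face of the previous position is the face behind the position -/
theorem pvkz_face_back (pos : V → ℂ) (s : V → Bool) (d : D) : pvkzF T pos (pvasBack T s d) = pvkzF T pos (T.opp d) := pvkz_face_sf (pvas_back_sf s d)

theorem pvkz_touch_back (pos : V → ℂ) (s : V → Bool) (d : D) : (pvkzF T pos d ∩ pvkzF T pos (pvasBack T s d)).Nonempty := by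
  rw [pvkz_face_back]; exact pvkz_touch_opp T pos d

/-- the right faces of consecutive edges of a path share a vertex -/
theorem pvkz_touch_pth (pos : V → ℂ) (g : T.Pth) {i : ℕ} (h : i + 1 < g.n) : (pvkzF T pos (T.opp (g.e i)) ∩ pvkzF T pos (T.opp (g.e (i + 1)))).Nonempty := by
  refine pvkz_touch_of (x := g.v (i + 1)) (Or.inl ?_) (Or.inr (Or.inl ?_))
  · rw [T.src_opp', g.tgt_e i (by omega)]
  · rw [T.tgt_opp, g.src_e _ h]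

theorem pvkz_it_succ (s : V → Bool) (d : D) (i : ℕ) : pvasIt T s d (i + 1) = pvasStep T s (pvasIt T s d i) := by
  unfold pvasIt; rw [Function.iterate_succ_apply']

/-- the exit stub: consecutive faces touch -/
theorem pvkz_touch_ep {𝔖 : PvwSt T} {B : Set ℂ} {s : V → Bool} (st : 𝔖.StubP pos B s) {i : ℕ} (h : i + 1 ≤ 𝔖.np) :
    (pvkzF T pos (𝔖.ep i) ∩ pvkzF T pos (𝔖.ep (i + 1))).Nonempty := by
  rw [st.ep_it (i + 1) h, st.ep_it i (by omega), pvkz_it_succ]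
  exact pvkz_touch_step pos s _

/-- the entrance stub: consecutive faces touch -/
theorem pvkz_touch_em {𝔖 : PvwSt T} {B : Set ℂ} {s : V → Bool} (st : 𝔖.StubM pos B s) {i : ℕ} (h : i + 1 ≤ 𝔖.nm) :
    (pvkzF T pos (𝔖.em i) ∩ pvkzF T pos (𝔖.em (i + 1))).Nonempty := by
  rw [st.em_it (i + 1) h, st.em_it i (by omega), Function.iterate_succ_apply']
  exact pvkz_touch_back pos s _

/-- the face of the position `em (i+1)` is the face BEHIND the position `em i` -/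
theorem pvkz_face_em {𝔖 : PvwSt T} {B : Set ℂ} {s : V → Bool} (st : 𝔖.StubM pos B s) {i : ℕ} (h : i + 1 ≤ 𝔖.nm) :
    pvkzF T pos (𝔖.em (i + 1)) = pvkzF T pos (T.opp (𝔖.em i)) := by
  rw [st.em_it (i + 1) h, st.em_it i (by omega), Function.iterate_succ_apply']
  exact pvkz_face_back pos s _

/-! ## 4. dual connected sets of faces: the cores -/

/-- the faces joined to the face of `a` in the dual graph off `Z` have a connected union -/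
theorem pvkz_djoin_conn (pos : V → ℂ) (Z : Set D) (a : D) : IsConnected (pvkzR T pos {d | T.DJoin Z a d}) := by
  have h0 : a ∈ {d | T.DJoin Z a d} := ReflTransGen.refl
  refine ⟨⟨_, pvkz_face_sub_R h0 (pvkz_src_mem T pos a)⟩, ?_⟩
  have key : ∀ d, T.DJoin Z a d → ∃ t ⊆ pvkzR T pos {d | T.DJoin Z a d}, pos (T.src a) ∈ t ∧ pvkzF T pos d ⊆ t ∧ IsPreconnected t := by
    intro d hd
    induction hd with
    | refl => exact ⟨_, pvkz_face_sub_R h0, pvkz_src_mem T pos a, Subset.rfl, (pvkz_face_conn T pos a).isPreconnected⟩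
    | @tail b c hb hbc ih =>
      obtain ⟨t, ht, hat, hbt, hpre⟩ := ih
      rcases hbc with rfl | ⟨rfl, hz⟩
      · exact ⟨t, ht, hat, by rw [pvkz_face_nxt]; exact hbt, hpre⟩
      · have hc : T.opp b ∈ {d | T.DJoin Z a d} := hb.tail (Or.inr ⟨rfl, hz⟩)
        obtain ⟨x, hx1, hx2⟩ := pvkz_touch_opp T pos b
        exact ⟨t ∪ pvkzF T pos (T.opp b), union_subset ht (pvkz_face_sub_R hc), Or.inl hat, subset_union_right,
          hpre.union x (hbt hx1) hx2 (pvkz_face_conn T pos _).isPreconnected⟩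
  refine isPreconnected_of_forall (pos (T.src a)) fun y hy => ?_
  obtain ⟨d, hd, hyd⟩ := pvkz_R_mem.1 hy
  obtain ⟨t, ht, hat, hdt, hpre⟩ := key d hd
  exact ⟨t, ht, hat, hdt hyd, hpre⟩

/-- **the closed inside of a circuit is connected** -/
theorem pvkz_left_conn (pos : V → ℂ) (c : T.Cyc) : IsConnected (pvkzR T pos c.Left) := pvkz_djoin_conn pos c.darts (c.e 0)

/-- the vertices of the faces of a face set -/
theorem pvkz_fv_vof {A : Set D} (hA : T.FaceSet A) {d : D} (hd : d ∈ A) {x : V} (hx : T.FV d x) : x ∈ T.VOf A := by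
  rcases hx with rfl | rfl | rfl
  · exact ⟨d, hd, rfl⟩
  · exact ⟨T.nxt d, (hA d).2 hd, rfl⟩
  · exact ⟨T.nxt (T.nxt d), (hA.nxt2 T d).2 hd, rfl⟩

/-- the sites of the core lie on the core -/
theorem pvkz_vof_mem {A : Set D} {x : V} (hx : x ∈ T.VOf A) : pos x ∈ pvkzR T pos A := by
  obtain ⟨d, hd, rfl⟩ := hx
  exact pvkz_face_sub_R hd (pvkz_src_mem T pos d)

/-- the core of a gate lies in the closed ball `B(z, b h)` -/
theorem pvkz_core_ball {𝔖 : PvwSt T} {h : ℝ} {z : ℂ} {τ : PvwTy} {s : V → Bool} (hg : 𝔖.Gate pos h z τ s) : pvkzR T pos 𝔖.S.Left ⊆ Metric.closedBall z (τ.b * h) := by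
  refine pvkz_R_sub (convex_closedBall _ _) fun d hd x hx => ?_
  rw [mem_closedBall_iff_norm]
  exact (hg.inside x (pvkz_fv_vof (pl_left_face _) hd hx)).le

/-- under `PlGeo` the realisation is the one of `Pl/Geo` (172) -/
theorem pvkz_R_eq_real (G : PlGeo T pos) (A : Set D) : pvkzR T pos A = T.real pos A := by
  ext p
  rw [pvkz_R_mem]
  constructor
  · rintro ⟨d, hd, hp⟩; exact ⟨d, hd, by rwa [← pvkz_face_eq_tri G]⟩
  · rintro ⟨d, hd, hp⟩; exact ⟨d, hd, by rwa [pvkz_face_eq_tri G]⟩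

/-! ## 5. the obstacle `K` of 62 (`Tr/FitRoof`): its five pieces, connectedness -/

/-- the right faces of the edges of `g₀` -/
def PvwDat.pvkzG (𝔇 : PvwDat T) (i : ℕ) : D := T.opp (𝔇.g.e i)

theorem pvkz_G_eqns_cite : True := by
  have := @PvwDat.pvkzG.eq_1
  trivial

theorem pvkz_K_eq_R (𝔇 : PvwDat T) (pos : V → ℂ) : 𝔇.pvkzK pos = pvkzR T pos 𝔇.pvkzJ := rfl

/-- **the five pieces of `K`**: core of `s`, faces of `Σ⁻(s)`, right faces of `g₀`, core of `t`, faces of `Σ⁺(t)` -/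
theorem pvkz_K_eq (𝔇 : PvwDat T) (pos : V → ℂ) :
    𝔇.pvkzK pos = pvkzR T pos 𝔇.s.S.Left ∪ pvkzU T pos 𝔇.s.em (Iic 𝔇.s.nm) ∪ pvkzU T pos 𝔇.pvkzG (Iio 𝔇.g.n) ∪ pvkzR T pos 𝔇.t.S.Left ∪ pvkzU T pos 𝔇.t.ep (Iio 𝔇.t.np) := by
  ext p
  rw [pvkz_K_eq_R, pvkz_R_mem]
  simp only [mem_union, pvkz_R_mem, pvkz_U_mem, mem_Iic, mem_Iio]
  constructor
  · rintro ⟨d, (⟨i, hi, rfl⟩ | ⟨i, hi, rfl⟩ | ⟨i, hi, rfl⟩ | hd | hd), hp⟩
    · exact Or.inr ⟨i, hi, hp⟩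
    · exact Or.inl (Or.inl (Or.inl (Or.inr ⟨i, hi, hp⟩)))
    · exact Or.inl (Or.inl (Or.inr ⟨i, hi, hp⟩))
    · exact Or.inl (Or.inl (Or.inl (Or.inl ⟨d, hd, hp⟩)))
    · exact Or.inl (Or.inr ⟨d, hd, hp⟩)
  · rintro ((((⟨d, hd, hp⟩ | ⟨i, hi, hp⟩) | ⟨i, hi, hp⟩) | ⟨d, hd, hp⟩) | ⟨i, hi, hp⟩)
    · exact ⟨d, Or.inr (Or.inr (Or.inr (Or.inl hd))), hp⟩
    · exact ⟨_, Or.inr (Or.inl ⟨i, hi, rfl⟩), hp⟩
    · exact ⟨_, Or.inr (Or.inr (Or.inl ⟨i, hi, rfl⟩)), hp⟩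
    · exact ⟨d, Or.inr (Or.inr (Or.inr (Or.inr hd))), hp⟩
    · exact ⟨_, Or.inl ⟨i, hi, rfl⟩, hp⟩

/-- a point of `K`: the five cases (= the JAWS of the pinch in (3P)) -/
theorem pvkz_K_cases {𝔇 : PvwDat T} {p : ℂ} (hp : p ∈ 𝔇.pvkzK pos) :
    p ∈ pvkzR T pos 𝔇.s.S.Left ∨ (∃ i, i ≤ 𝔇.s.nm ∧ p ∈ pvkzF T pos (𝔇.s.em i)) ∨ (∃ i, i < 𝔇.g.n ∧ p ∈ pvkzF T pos (𝔇.pvkzG i)) ∨
      p ∈ pvkzR T pos 𝔇.t.S.Left ∨ ∃ i, i < 𝔇.t.np ∧ p ∈ pvkzF T pos (𝔇.t.ep i) := by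
  rw [pvkz_K_eq] at hp
  rcases hp with (((h | h) | h) | h) | h
  · exact Or.inl h
  · obtain ⟨i, hi, h⟩ := pvkz_U_mem.1 h; exact Or.inr (Or.inl ⟨i, hi, h⟩)
  · obtain ⟨i, hi, h⟩ := pvkz_U_mem.1 h; exact Or.inr (Or.inr (Or.inl ⟨i, hi, h⟩))
  · exact Or.inr (Or.inr (Or.inr (Or.inl h)))
  · obtain ⟨i, hi, h⟩ := pvkz_U_mem.1 h; exact Or.inr (Or.inr (Or.inr (Or.inr ⟨i, hi, h⟩)))

theorem pvkz_core_s_sub (𝔇 : PvwDat T) (pos : V → ℂ) : pvkzR T pos 𝔇.s.S.Left ⊆ 𝔇.pvkzK pos := pvkz_R_mono fun _ h => Or.inr (Or.inr (Or.inr (Or.inl h)))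
theorem pvkz_core_t_sub (𝔇 : PvwDat T) (pos : V → ℂ) : pvkzR T pos 𝔇.t.S.Left ⊆ 𝔇.pvkzK pos := pvkz_R_mono fun _ h => Or.inr (Or.inr (Or.inr (Or.inr h)))
theorem pvkz_em_sub (𝔇 : PvwDat T) (pos : V → ℂ) : pvkzU T pos 𝔇.s.em (Iic 𝔇.s.nm) ⊆ 𝔇.pvkzK pos := by
  rw [pvkz_U_eq_R]; exact pvkz_R_mono fun _ ⟨i, hi, e⟩ => Or.inr (Or.inl ⟨i, hi, e⟩)
theorem pvkz_G_sub (𝔇 : PvwDat T) (pos : V → ℂ) : pvkzU T pos 𝔇.pvkzG (Iio 𝔇.g.n) ⊆ 𝔇.pvkzK pos := by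
  rw [pvkz_U_eq_R]; exact pvkz_R_mono fun _ ⟨i, hi, e⟩ => Or.inr (Or.inr (Or.inl ⟨i, hi, e⟩))
theorem pvkz_ep_sub (𝔇 : PvwDat T) (pos : V → ℂ) : pvkzU T pos 𝔇.t.ep (Iio 𝔇.t.np) ⊆ 𝔇.pvkzK pos := by
  rw [pvkz_U_eq_R]; exact pvkz_R_mono fun _ ⟨i, hi, e⟩ => Or.inl ⟨i, hi, e⟩

/-- the vertex number `k` of `g₀` lies on a right face -/
theorem pvkz_G_vert (pos : V → ℂ) (𝔇 : PvwDat T) (hn : 0 < 𝔇.g.n) {k : ℕ} (hk : k ≤ 𝔇.g.n) : pos (𝔇.g.v k) ∈ pvkzU T pos 𝔇.pvkzG (Iio 𝔇.g.n) := by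
  rcases Nat.lt_or_ge k 𝔇.g.n with h1 | h1
  · refine pvkz_face_sub_U (i := k) h1 (pvkz_fv_mem (Or.inr (Or.inl ?_)))
    show _ = T.tgt (T.opp _)
    rw [T.tgt_opp, 𝔇.g.src_e k h1]
  · refine pvkz_face_sub_U (i := 𝔇.g.n - 1) (show 𝔇.g.n - 1 < 𝔇.g.n by omega) (pvkz_fv_mem (Or.inl ?_))
    show _ = T.src (T.opp _)
    rw [T.src_opp', 𝔇.g.tgt_e _ (by omega)]
    congr 1; omega

theorem pvkz_G_touch (pos : V → ℂ) (𝔇 : PvwDat T) : ∀ i, i ∈ Iio 𝔇.g.n → i + 1 ∈ Iio 𝔇.g.n → (pvkzF T pos (𝔇.pvkzG i) ∩ pvkzF T pos (𝔇.pvkzG (i + 1))).Nonempty :=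
  fun _ _ h => pvkz_touch_pth pos 𝔇.g h

/-- **`K` IS CONNECTED** (objects A of W2_211), bare form: the gate edges are edges of faces of the cores -/
theorem pvkz_K_conn_bare {𝔇 : PvwDat T} {Bs Bt : Set ℂ} {σ σ' : V → Bool} (hs : 𝔇.s.StubM pos Bs σ) (ht : 𝔇.t.StubP pos Bt σ')
    (dm_s : 𝔇.s.dm ∈ 𝔇.s.S.Left) (dp_s : T.opp 𝔇.s.dp ∈ 𝔇.s.S.Left) (dm_t : 𝔇.t.dm ∈ 𝔇.t.S.Left) (dp_t : T.opp 𝔇.t.dp ∈ 𝔇.t.S.Left)
    (g0 : 𝔇.g.v 0 = 𝔇.s.gp) (g1 : 𝔇.g.v 𝔇.g.n = 𝔇.t.gm) (hn : 0 < 𝔇.g.n) : IsConnected (𝔇.pvkzK pos) := by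
  have c1 := pvkz_left_conn pos 𝔇.s.S
  have c2 : IsPreconnected (pvkzU T pos 𝔇.s.em (Iic 𝔇.s.nm)) := pvkz_U_preconn ordConnected_Iic fun i _ h => pvkz_touch_em hs h
  have c3 : IsPreconnected (pvkzU T pos 𝔇.pvkzG (Iio 𝔇.g.n)) := pvkz_U_preconn ordConnected_Iio (pvkz_G_touch pos 𝔇)
  have c4 := pvkz_left_conn pos 𝔇.t.S
  have c5 : IsPreconnected (pvkzU T pos 𝔇.t.ep (Iio 𝔇.t.np)) := pvkz_U_preconn ordConnected_Iio fun i _ h => pvkz_touch_ep ht (le_of_lt h)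
  have e0 : 𝔇.s.em 0 = 𝔇.s.dm := hs.em_it 0 (Nat.zero_le _)
  have p0 : 𝔇.t.ep 0 = 𝔇.t.dp := ht.ep_it 0 (Nat.zero_le _)
  refine ⟨c1.nonempty.mono (pvkz_core_s_sub 𝔇 pos), ?_⟩
  rw [pvkz_K_eq]
  have f2 : pos (T.src 𝔇.s.dm) ∈ pvkzF T pos (𝔇.s.em 0) := by rw [e0]; exact pvkz_src_mem T pos _
  have m2 : pos (T.src 𝔇.s.dm) ∈ pvkzU T pos 𝔇.s.em (Iic 𝔇.s.nm) := pvkz_face_sub_U (φ := 𝔇.s.em) (I := Iic 𝔇.s.nm) (i := 0) (Nat.zero_le _) f2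
  have u2 := c1.isPreconnected.union (pos (T.src 𝔇.s.dm)) (pvkz_face_sub_R dm_s (pvkz_src_mem T pos _)) m2 c2
  have u3 := u2.union (pos (𝔇.g.v 0)) (Or.inl (pvkz_face_sub_R dp_s (pvkz_fv_mem (Or.inr (Or.inl (by rw [g0, T.tgt_opp]; rfl)))))) (pvkz_G_vert pos 𝔇 hn (Nat.zero_le _)) c3
  have u4 := u3.union (pos (𝔇.g.v 𝔇.g.n)) (Or.inr (pvkz_G_vert pos 𝔇 hn le_rfl)) (pvkz_face_sub_R dm_t (pvkz_fv_mem (Or.inl (by rw [g1]; rfl)))) c4.isPreconnected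
  rcases Nat.eq_zero_or_pos 𝔇.t.np with h0 | h0
  · have : pvkzU T pos 𝔇.t.ep (Iio 𝔇.t.np) = ∅ := by
      rw [h0]; unfold pvkzU; simp
    rw [this, union_empty]; exact u4
  · have f5 : pos (T.src 𝔇.t.dp) ∈ pvkzF T pos (𝔇.t.ep 0) := by rw [p0]; exact pvkz_src_mem T pos _
    have m5 : pos (T.src 𝔇.t.dp) ∈ pvkzU T pos 𝔇.t.ep (Iio 𝔇.t.np) := pvkz_face_sub_U (φ := 𝔇.t.ep) (I := Iio 𝔇.t.np) (i := 0) h0 f5
    exact u4.union (pos (T.src 𝔇.t.dp)) (Or.inr (pvkz_face_sub_R dp_t (pvkz_fv_mem (Or.inr (Or.inl (T.tgt_opp _).symm))))) m5 c5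

/-- the four gate edges are edges of faces of the cores -/
theorem pvkz_gate_left (hT : T.IsSph) {𝔖 : PvwSt T} {h : ℝ} {z : ℂ} {τ : PvwTy} {s : V → Bool} (hg : 𝔖.Gate pos h z τ s) : 𝔖.dm ∈ 𝔖.S.Left ∧ T.opp 𝔖.dp ∈ 𝔖.S.Left := by
  obtain ⟨i, hi⟩ := hg.dm_on
  obtain ⟨k, hk⟩ := hg.dp_on
  exact ⟨hi ▸ (pl_jordan hT 𝔖.S).2.1 i, hk ▸ (pl_jordan hT 𝔖.S).2.1 k⟩

/-- **`K` IS CONNECTED**, from the two half states -/
theorem pvkz_K_conn (hT : T.IsSph) {𝔇 : PvwDat T} {N : PvwNum} {h : ℝ} {zs zt : ℂ} {τs τt : PvwTy} {σ σ' : V → Bool}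
    (st_s : 𝔇.s.AtIn pos N h zs τs σ) (st_t : 𝔇.t.AtOut pos N h zt τt σ') (g0 : 𝔇.g.v 0 = 𝔇.s.gp) (g1 : 𝔇.g.v 𝔇.g.n = 𝔇.t.gm) (hn : 0 < 𝔇.g.n) :
    IsConnected (𝔇.pvkzK pos) :=
  pvkz_K_conn_bare st_s.stub st_t.stub (pvkz_gate_left hT st_s.gate).1 (pvkz_gate_left hT st_s.gate).2 (pvkz_gate_left hT st_t.gate).1 (pvkz_gate_left hT st_t.gate).2 g0 g1 hn

/-- **`K` IS CONNECTED**, for a well formed datum -/
theorem pvkz_K_conn_ok (hT : T.IsSph) {𝔇 : PvwDat T} {N : PvwNum} {h : ℝ} {π : PvwPat} (ok : 𝔇.Ok pos N h π) : IsConnected (𝔇.pvkzK pos) :=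
  pvkz_K_conn hT ok.st_s ok.st_t ok.g0 ok.g1 ok.pos_n

/-! ## 6. "every frozen site of `D` is a vertex of a face of `K` and conversely" -/

theorem pvkz_back_apex (s : V → Bool) (d : D) : T.apex (pvasBack T s d) = T.src d ∨ T.apex (pvasBack T s d) = T.tgt d := by
  rcases pvas_back_cases (T := T) s d with ⟨-, e⟩ | ⟨-, e⟩
  · left; rw [e, T.apex_nxt2, T.tgt_opp]
  · right; rw [e, T.apex_nxt, T.src_opp']

/-- the frozen sites of the datum, with the closed INSIDES of the two gates in the place of the two discs (`Tr/Defs` v3: `core` = all the sites of the disc `B(z, b h)`, `ins ⊆ core`) -/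
def PvwDat.pvkzV (𝔇 : PvwDat T) : Set V := ((𝔇.t.ins ∪ 𝔇.t.bkP ∪ 𝔇.t.whP) ∪ (𝔇.s.ins ∪ 𝔇.s.bkM ∪ 𝔇.s.whM)) ∪ 𝔇.g.verts ∪ 𝔇.apx

theorem pvkz_V_eqns_cite : True := by
  have := @PvwDat.pvkzV.eq_1
  trivial

/-- the closed inside of a gate lies in the core -/
theorem pvkz_ins_sub_core {𝔖 : PvwSt T} {h : ℝ} {z : ℂ} {τ : PvwTy} {s : V → Bool} (hg : 𝔖.Gate pos h z τ s) : 𝔖.ins ⊆ 𝔖.core := fun v hv => by
  show v ∈ 𝔖.dsc
  rw [hg.dsc_eq]; exact hg.inside v hv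

theorem pvkz_V_sub_fz {𝔇 : PvwDat T} {h h' : ℝ} {zs zt : ℂ} {τs τt : PvwTy} {σ σ' : V → Bool} (gs : 𝔇.s.Gate pos h zs τs σ) (gt : 𝔇.t.Gate pos h' zt τt σ') : 𝔇.pvkzV ⊆ 𝔇.fz := by
  rintro x (((((hx | hx) | hx) | ((hx | hx) | hx)) | hx) | hx)
  · exact Or.inl (Or.inl (Or.inl (Or.inl (Or.inl (pvkz_ins_sub_core gt hx)))))
  · exact Or.inl (Or.inl (Or.inl (Or.inl (Or.inr hx))))
  · exact Or.inl (Or.inl (Or.inl (Or.inr hx)))
  · exact Or.inl (Or.inl (Or.inr (Or.inl (Or.inl (pvkz_ins_sub_core gs hx)))))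
  · exact Or.inl (Or.inl (Or.inr (Or.inl (Or.inr hx))))
  · exact Or.inl (Or.inl (Or.inr (Or.inr hx)))
  · exact Or.inl (Or.inr hx)
  · exact Or.inr hx

/-- **frozen sites (insides of the gates, banks, `g₀`, right apexes) = vertices of the frozen faces** -/
theorem pvkz_fz_iff {𝔇 : PvwDat T} {Bs Bt : Set ℂ} {σ σ' : V → Bool} (hs : 𝔇.s.StubM pos Bs σ) (ht : 𝔇.t.StubP pos Bt σ')
    (dm_s : 𝔇.s.dm ∈ 𝔇.s.S.Left) (dp_t : T.opp 𝔇.t.dp ∈ 𝔇.t.S.Left) (hn : 0 < 𝔇.g.n) (x : V) : x ∈ 𝔇.pvkzV ↔ ∃ d ∈ 𝔇.pvkzJ, T.FV d x := by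
  have e0 : 𝔇.s.em 0 = 𝔇.s.dm := hs.em_it 0 (Nat.zero_le _)
  have p0 : 𝔇.t.ep 0 = 𝔇.t.dp := ht.ep_it 0 (Nat.zero_le _)
  have stp : ∀ i, i + 1 ≤ 𝔇.t.np → 𝔇.t.ep (i + 1) = pvasStep T σ' (𝔇.t.ep i) := by
    intro i hi
    rw [ht.ep_it (i + 1) hi, ht.ep_it i (by omega), pvkz_it_succ]
  have bck : ∀ i, i + 1 ≤ 𝔇.s.nm → 𝔇.s.em (i + 1) = pvasBack T σ (𝔇.s.em i) := by
    intro i hi
    rw [hs.em_it (i + 1) hi, hs.em_it i (by omega), Function.iterate_succ_apply']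
  have Js : ∀ d ∈ 𝔇.s.S.Left, d ∈ 𝔇.pvkzJ := fun d h => Or.inr (Or.inr (Or.inr (Or.inl h)))
  have Jt : ∀ d ∈ 𝔇.t.S.Left, d ∈ 𝔇.pvkzJ := fun d h => Or.inr (Or.inr (Or.inr (Or.inr h)))
  have Jp : ∀ i, i < 𝔇.t.np → 𝔇.t.ep i ∈ 𝔇.pvkzJ := fun i h => Or.inl ⟨i, h, rfl⟩
  have Jm : ∀ i, i ≤ 𝔇.s.nm → 𝔇.s.em i ∈ 𝔇.pvkzJ := fun i h => Or.inr (Or.inl ⟨i, h, rfl⟩)
  have Jg : ∀ i, i < 𝔇.g.n → T.opp (𝔇.g.e i) ∈ 𝔇.pvkzJ := fun i h => Or.inr (Or.inr (Or.inl ⟨i, h, rfl⟩))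
  constructor
  · rintro (((((⟨d, hd, rfl⟩ | ⟨i, hi, rfl⟩) | ⟨i, hi, rfl⟩) | ((⟨d, hd, rfl⟩ | ⟨i, hi, rfl⟩) | ⟨i, hi, rfl⟩)) | ⟨k, hk, rfl⟩) | ⟨i, hi, rfl⟩)
    · exact ⟨d, Jt d hd, Or.inl rfl⟩
    · rcases Nat.lt_or_ge i 𝔇.t.np with h1 | h1
      · exact ⟨_, Jp i h1, Or.inl rfl⟩
      · obtain rfl : i = 𝔇.t.np := le_antisymm hi h1
        rcases Nat.eq_zero_or_pos 𝔇.t.np with h0 | h0
        · exact ⟨_, Jt _ dp_t, Or.inr (Or.inl (by rw [h0, p0, T.tgt_opp]))⟩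
        · obtain ⟨k, hk⟩ : ∃ k, 𝔇.t.np = k + 1 := ⟨𝔇.t.np - 1, by omega⟩
          refine ⟨_, Jp k (by omega), ?_⟩
          rw [hk, stp k (by omega)]
          rcases pvas_step_ends (T := T) σ' (𝔇.t.ep k) with ⟨-, e, -⟩ | ⟨-, e, -⟩
          · exact Or.inr (Or.inr e)
          · exact Or.inl e
    · rcases Nat.lt_or_ge i 𝔇.t.np with h1 | h1
      · exact ⟨_, Jp i h1, Or.inr (Or.inl rfl)⟩
      · obtain rfl : i = 𝔇.t.np := le_antisymm hi h1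
        rcases Nat.eq_zero_or_pos 𝔇.t.np with h0 | h0
        · exact ⟨_, Jt _ dp_t, Or.inl (by rw [h0, p0, T.src_opp'])⟩
        · obtain ⟨k, hk⟩ : ∃ k, 𝔇.t.np = k + 1 := ⟨𝔇.t.np - 1, by omega⟩
          refine ⟨_, Jp k (by omega), ?_⟩
          rw [hk, stp k (by omega)]
          rcases pvas_step_ends (T := T) σ' (𝔇.t.ep k) with ⟨-, -, e⟩ | ⟨-, -, e⟩
          · exact Or.inr (Or.inl e)
          · exact Or.inr (Or.inr e)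
    · exact ⟨d, Js d hd, Or.inl rfl⟩
    · exact ⟨_, Jm i hi, Or.inl rfl⟩
    · exact ⟨_, Jm i hi, Or.inr (Or.inl rfl)⟩
    · rcases Nat.lt_or_ge k 𝔇.g.n with h1 | h1
      · exact ⟨_, Jg k h1, Or.inr (Or.inl (by rw [T.tgt_opp, 𝔇.g.src_e k h1]))⟩
      · refine ⟨_, Jg (𝔇.g.n - 1) (by omega), Or.inl ?_⟩
        rw [T.src_opp', 𝔇.g.tgt_e _ (by omega)]
        congr 1; omega
    · exact ⟨_, Jg i hi, Or.inr (Or.inr rfl)⟩
  · rintro ⟨d, (⟨i, hi, rfl⟩ | ⟨i, hi, rfl⟩ | ⟨i, hi, rfl⟩ | hd | hd), hx⟩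
    · left; left; left
      rcases hx with rfl | rfl | rfl
      · exact Or.inl (Or.inr ⟨i, hi.le, rfl⟩)
      · exact Or.inr ⟨i, hi.le, rfl⟩
      · rcases pvas_step_ends (T := T) σ' (𝔇.t.ep i) with ⟨-, e, -⟩ | ⟨-, -, e⟩
        · exact Or.inl (Or.inr ⟨i + 1, hi, by rw [stp i hi, e]⟩)
        · exact Or.inr ⟨i + 1, hi, by rw [stp i hi, e]⟩
    · left; left; right
      rcases hx with rfl | rfl | rfl
      · exact Or.inl (Or.inr ⟨i, hi, rfl⟩)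
      · exact Or.inr ⟨i, hi, rfl⟩
      · rcases Nat.eq_zero_or_pos i with rfl | h0
        · exact Or.inl (Or.inl (pvkz_fv_vof (pl_left_face _) dm_s (Or.inr (Or.inr (by rw [e0])))))
        · obtain ⟨k, rfl⟩ : ∃ k, i = k + 1 := ⟨i - 1, by omega⟩
          rw [bck k hi]
          rcases pvkz_back_apex (T := T) σ (𝔇.s.em k) with e | e
          · exact Or.inl (Or.inr ⟨k, by omega, e.symm⟩)
          · exact Or.inr ⟨k, by omega, e.symm⟩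
    · rcases hx with rfl | rfl | rfl
      · exact Or.inl (Or.inr ⟨i + 1, hi, by rw [T.src_opp', 𝔇.g.tgt_e i hi]⟩)
      · exact Or.inl (Or.inr ⟨i, hi.le, by rw [T.tgt_opp, 𝔇.g.src_e i hi]⟩)
      · exact Or.inr ⟨i, hi, rfl⟩
    · exact Or.inl (Or.inl (Or.inr (Or.inl (Or.inl (pvkz_fv_vof (pl_left_face _) hd hx)))))
    · exact Or.inl (Or.inl (Or.inl (Or.inl (Or.inl (pvkz_fv_vof (pl_left_face _) hd hx)))))

/-- the frozen sites lie on `K` -/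
theorem pvkz_fz_mem {𝔇 : PvwDat T} {Bs Bt : Set ℂ} {σ σ' : V → Bool} (hs : 𝔇.s.StubM pos Bs σ) (ht : 𝔇.t.StubP pos Bt σ')
    (dm_s : 𝔇.s.dm ∈ 𝔇.s.S.Left) (dp_t : T.opp 𝔇.t.dp ∈ 𝔇.t.S.Left) (hn : 0 < 𝔇.g.n) {x : V} (hx : x ∈ 𝔇.pvkzV) : pos x ∈ 𝔇.pvkzK pos := by
  obtain ⟨d, hd, hdx⟩ := (pvkz_fz_iff hs ht dm_s dp_t hn x).1 hx
  exact pvkz_face_sub_R hd (pvkz_fv_mem hdx)

/-- **on a geometric plane the sites on `K` are exactly the frozen sites**: a FRESH site is off `K` -/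
theorem pvkz_site_iff (G : PlGeo T pos) {𝔇 : PvwDat T} {Bs Bt : Set ℂ} {σ σ' : V → Bool} (hs : 𝔇.s.StubM pos Bs σ) (ht : 𝔇.t.StubP pos Bt σ')
    (dm_s : 𝔇.s.dm ∈ 𝔇.s.S.Left) (dp_t : T.opp 𝔇.t.dp ∈ 𝔇.t.S.Left) (hn : 0 < 𝔇.g.n) (x : V) : pos x ∈ 𝔇.pvkzK pos ↔ x ∈ 𝔇.pvkzV := by
  refine ⟨fun hx => ?_, pvkz_fz_mem hs ht dm_s dp_t hn⟩
  obtain ⟨d, hd, hdx⟩ := pvkz_R_mem.1 hx
  rw [pvkz_face_eq_tri G] at hdx
  exact (pvkz_fz_iff hs ht dm_s dp_t hn x).2 ⟨d, hd, G.inc_vert x d hdx⟩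

/-- `K` lies in every convex set which contains the frozen sites -/
theorem pvkz_K_sub {𝔇 : PvwDat T} {Bs Bt : Set ℂ} {σ σ' : V → Bool} (hs : 𝔇.s.StubM pos Bs σ) (ht : 𝔇.t.StubP pos Bt σ')
    (dm_s : 𝔇.s.dm ∈ 𝔇.s.S.Left) (dp_t : T.opp 𝔇.t.dp ∈ 𝔇.t.S.Left) (hn : 0 < 𝔇.g.n) {C : Set ℂ} (hC : Convex ℝ C) (h : ∀ x ∈ 𝔇.pvkzV, pos x ∈ C) : 𝔇.pvkzK pos ⊆ C :=
  pvkz_R_sub hC fun d hd x hx => h x ((pvkz_fz_iff hs ht dm_s dp_t hn x).2 ⟨d, hd, hx⟩)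

theorem pvkz_J_finite {𝔇 : PvwDat T} (hs : 𝔇.s.S.Left.Finite) (ht : 𝔇.t.S.Left.Finite) : 𝔇.pvkzJ.Finite := by
  have e : 𝔇.pvkzJ = (𝔇.t.ep '' Iio 𝔇.t.np) ∪ ((𝔇.s.em '' Iic 𝔇.s.nm) ∪ (((fun i => T.opp (𝔇.g.e i)) '' Iio 𝔇.g.n) ∪ (𝔇.s.S.Left ∪ 𝔇.t.S.Left))) := by
    ext d; rfl
  rw [e]
  exact ((finite_Iio _).image _).union (((finite_Iic _).image _).union (((finite_Iio _).image _).union (hs.union ht)))

theorem pvkz_K_compact {𝔇 : PvwDat T} (hs : 𝔇.s.S.Left.Finite) (ht : 𝔇.t.S.Left.Finite) : IsCompact (𝔇.pvkzK pos) := pvkz_R_compact (pvkz_J_finite hs ht)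

/-! ## 7. where the pieces lie: boxes, balls, mesh -/

theorem pvkz_sq_convex (z : ℂ) (r : ℝ) : Convex ℝ (pvwSq z r) := by
  intro a ha b hb t u ht hu htu
  have e : t • a + u • b - z = t • (a - z) + u • (b - z) := by
    have h1 : z = (t + u) • z := by rw [htu, one_smul]
    rw [smul_sub, smul_sub]
    nth_rewrite 1 [h1]
    rw [add_smul]; abel
  have key : ∀ x y : ℝ, |x| ≤ r → |y| ≤ r → |t * x + u * y| ≤ r := by
    intro x y hx hy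
    calc |t * x + u * y| ≤ |t * x| + |u * y| := abs_add_le _ _
      _ = t * |x| + u * |y| := by rw [abs_mul, abs_mul, abs_of_nonneg ht, abs_of_nonneg hu]
      _ ≤ t * r + u * r := add_le_add (mul_le_mul_of_nonneg_left hx ht) (mul_le_mul_of_nonneg_left hy hu)
      _ = r := by rw [← add_mul, htu, one_mul]
  constructor
  · rw [e]
    simp only [Complex.add_re, Complex.real_smul, Complex.mul_re, Complex.ofReal_re, Complex.ofReal_im, zero_mul, sub_zero]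
    exact key _ _ ha.1 hb.1
  · rw [e]
    simp only [Complex.add_im, Complex.real_smul, Complex.mul_im, Complex.ofReal_re, Complex.ofReal_im, zero_mul, add_zero]
    exact key _ _ ha.2 hb.2

theorem pvkz_ball_sub_sq (z : ℂ) (r : ℝ) : Metric.closedBall z r ⊆ pvwSq z r := fun w hw => by
  rw [mem_closedBall_iff_norm] at hw
  exact ⟨(Complex.abs_re_le_norm _).trans hw, (Complex.abs_im_le_norm _).trans hw⟩

/-- the frozen faces of the exit stub lie in the box -/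
theorem pvkz_ep_box {𝔖 : PvwSt T} {B : Set ℂ} {s : V → Bool} (st : 𝔖.StubP pos B s) (hB : Convex ℝ B) : pvkzU T pos 𝔖.ep (Iio 𝔖.np) ⊆ B :=
  iUnion₂_subset fun i hi => pvkz_face_sub hB (st.ep_in i (le_of_lt hi)).1 (st.ep_in i (le_of_lt hi)).2 (st.ep_ax i hi)

/-- the frozen faces of the entrance stub outside the gate lie in the box -/
theorem pvkz_em_box {𝔖 : PvwSt T} {B : Set ℂ} {s : V → Bool} (st : 𝔖.StubM pos B s) (hB : Convex ℝ B) : pvkzU T pos 𝔖.em (Icc 1 𝔖.nm) ⊆ B := by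
  refine iUnion₂_subset fun i hi => ?_
  obtain ⟨h1, h2⟩ := hi
  obtain ⟨k, rfl⟩ : ∃ k, i = k + 1 := ⟨i - 1, by omega⟩
  rw [pvkz_face_em st h2]
  refine pvkz_face_sub hB ?_ ?_ (st.em_ax k (by omega))
  · rw [T.src_opp']; exact (st.em_in k (by omega)).2
  · rw [T.tgt_opp]; exact (st.em_in k (by omega)).1

theorem pvkz_em_box' {𝔖 : PvwSt T} {B : Set ℂ} {s : V → Bool} (st : 𝔖.StubM pos B s) (hB : Convex ℝ B) (h0 : pvkzF T pos 𝔖.dm ⊆ B) : pvkzU T pos 𝔖.em (Iic 𝔖.nm) ⊆ B := by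
  refine iUnion₂_subset fun i hi => ?_
  rcases Nat.eq_zero_or_pos i with rfl | h1
  · rw [st.em_it 0 (Nat.zero_le _)]; exact h0
  · exact (pvkz_face_sub_U (I := Icc 1 𝔖.nm) ⟨h1, hi⟩).trans (pvkz_em_box st hB)

theorem pvkz_core_sq {𝔖 : PvwSt T} {h r : ℝ} {z : ℂ} {τ : PvwTy} {s : V → Bool} (hg : 𝔖.Gate pos h z τ s) (hr : τ.b * h ≤ r) : pvkzR T pos 𝔖.S.Left ⊆ pvwSq z r :=
  (pvkz_core_ball hg).trans ((Metric.closedBall_subset_closedBall hr).trans (pvkz_ball_sub_sq z r))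

/-- the part of `K` frozen by `Σ_out` lies in the box of the level -/
theorem pvkz_out_box {𝔖 : PvwSt T} {N : PvwNum} {h : ℝ} {z : ℂ} {τ : PvwTy} {s : V → Bool} (st : 𝔖.AtOut pos N h z τ s) (hb : τ.b * h ≤ pvwRad N h τ τ.k) :
    pvkzR T pos 𝔖.S.Left ∪ pvkzU T pos 𝔖.ep (Iio 𝔖.np) ⊆ pvwSq z (pvwRad N h τ τ.k) :=
  union_subset (pvkz_core_sq st.gate hb) (pvkz_ep_box st.stub (pvkz_sq_convex _ _))

/-- the part of `K` frozen by `Σ_in` lies in the box of the level -/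
theorem pvkz_in_box (hT : T.IsSph) {𝔖 : PvwSt T} {N : PvwNum} {h : ℝ} {z : ℂ} {τ : PvwTy} {s : V → Bool} (st : 𝔖.AtIn pos N h z τ s) (hb : τ.b * h ≤ pvwRad N h τ τ.k) :
    pvkzR T pos 𝔖.S.Left ∪ pvkzU T pos 𝔖.em (Iic 𝔖.nm) ⊆ pvwSq z (pvwRad N h τ τ.k) :=
  union_subset (pvkz_core_sq st.gate hb) (pvkz_em_box' st.stub (pvkz_sq_convex _ _) ((pvkz_face_sub_R (pvkz_gate_left hT st.gate).1).trans (pvkz_core_sq st.gate hb)))

/-- a point of a right face of `g₀` is within the mesh of a vertex of `g₀` -/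
theorem pvkz_G_near {𝔇 : PvwDat T} {μ : ℝ} (mesh : ∀ i, i < 𝔇.g.n → ‖pos (𝔇.g.v (i + 1)) - pos (𝔇.g.v i)‖ ≤ μ ∧ ‖pos (T.apex (𝔇.pvkzG i)) - pos (𝔇.g.v i)‖ ≤ μ)
    {p : ℂ} (hp : p ∈ pvkzU T pos 𝔇.pvkzG (Iio 𝔇.g.n)) : ∃ k, k < 𝔇.g.n ∧ ‖p - pos (𝔇.g.v k)‖ ≤ μ := by
  obtain ⟨i, hi, hp⟩ := pvkz_U_mem.1 hp
  obtain ⟨m1, m2⟩ := mesh i hi
  have hμ : 0 ≤ μ := (norm_nonneg _).trans m1
  have hsub : pvkzF T pos (𝔇.pvkzG i) ⊆ Metric.closedBall (pos (𝔇.g.v i)) μ := by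
    refine pvkz_face_sub (convex_closedBall _ _) ?_ ?_ ?_ <;> rw [mem_closedBall_iff_norm]
    · show ‖pos (T.src (T.opp _)) - _‖ ≤ μ
      rw [T.src_opp', 𝔇.g.tgt_e i hi]; exact m1
    · show ‖pos (T.tgt (T.opp _)) - _‖ ≤ μ
      rw [T.tgt_opp, 𝔇.g.src_e i hi]; simpa using hμ
    · exact m2
  exact ⟨i, hi, mem_closedBall_iff_norm.1 (hsub hp)⟩

/-- **the field `ball` of the scene of FIT**: both boxes in the ball, `g₀` in the ball shrunk by the mesh -/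
theorem pvkz_K_ball (hT : T.IsSph) {𝔇 : PvwDat T} {N : PvwNum} {h μ ρ : ℝ} {x zs zt : ℂ} {τs τt : PvwTy} {σ σ' : V → Bool}
    (st_s : 𝔇.s.AtIn pos N h zs τs σ) (st_t : 𝔇.t.AtOut pos N h zt τt σ') (hbs : τs.b * h ≤ pvwRad N h τs τs.k) (hbt : τt.b * h ≤ pvwRad N h τt τt.k)
    (box_s : pvwSq zs (pvwRad N h τs τs.k) ⊆ Metric.closedBall x ρ) (box_t : pvwSq zt (pvwRad N h τt τt.k) ⊆ Metric.closedBall x ρ)
    (mesh : ∀ i, i < 𝔇.g.n → ‖pos (𝔇.g.v (i + 1)) - pos (𝔇.g.v i)‖ ≤ μ ∧ ‖pos (T.apex (𝔇.pvkzG i)) - pos (𝔇.g.v i)‖ ≤ μ)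
    (arc : ∀ k, k < 𝔇.g.n → ‖pos (𝔇.g.v k) - x‖ ≤ ρ - μ) : 𝔇.pvkzK pos ⊆ Metric.closedBall x ρ := by
  rw [pvkz_K_eq]
  have a1 := (pvkz_in_box hT st_s hbs).trans box_s
  have a2 := (pvkz_out_box st_t hbt).trans box_t
  refine union_subset (union_subset (union_subset a1 ?_) (subset_union_left.trans a2)) (subset_union_right.trans a2)
  intro p hp
  obtain ⟨k, hk, hpk⟩ := pvkz_G_near mesh hp
  rw [mem_closedBall_iff_norm]
  have := norm_sub_le_norm_sub_add_norm_sub p (pos (𝔇.g.v k)) x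
  have := arc k hk
  linarith

/-! ## 8. (M1) and the jaws of a pinch -/

/-- **(M1)** of W2_211 at the tip `x⁺(t)`: inside the mouth `K` consists of frozen faces of `Σ⁺(t)` -/
def PvwDat.PvkzM1t (𝔇 : PvwDat T) (pos : V → ℂ) (ρ : ℝ) : Prop := 𝔇.pvkzK pos ∩ Metric.closedBall (𝔇.t.xp pos) ρ ⊆ pvkzU T pos 𝔇.t.ep (Iio 𝔇.t.np)

/-- **(M1)** at the tip `x⁻(s)`: inside the mouth `K` consists of frozen faces of `Σ⁻(s)` outside the gate -/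
def PvwDat.PvkzM1s (𝔇 : PvwDat T) (pos : V → ℂ) (ρ : ℝ) : Prop := 𝔇.pvkzK pos ∩ Metric.closedBall (𝔇.s.xm pos) ρ ⊆ pvkzU T pos 𝔇.s.em (Icc 1 𝔇.s.nm)

theorem pvkz_M1_eqns_cite : True := by
  have := @PvwDat.PvkzM1t.eq_1; have := @PvwDat.PvkzM1s.eq_1
  trivial

/-- two points of one stretch are joined inside the stretch (either order of the two times) -/
theorem pvkz_U_join {φ : ℕ → D} {I : Set ℕ} (hI : I.OrdConnected)
    (touch : ∀ i, i ∈ I → i + 1 ∈ I → (pvkzF T pos (φ i) ∩ pvkzF T pos (φ (i + 1))).Nonempty) {k₁ k₂ : ℂ} (h1 : k₁ ∈ pvkzU T pos φ I) (h2 : k₂ ∈ pvkzU T pos φ I) :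
    ∃ i₁ i₂, i₁ ∈ I ∧ i₂ ∈ I ∧ i₁ ≤ i₂ ∧ IsCompact (pvkzU T pos φ (Icc i₁ i₂)) ∧ IsConnected (pvkzU T pos φ (Icc i₁ i₂)) ∧ pvkzU T pos φ (Icc i₁ i₂) ⊆ pvkzU T pos φ I ∧
      k₁ ∈ pvkzU T pos φ (Icc i₁ i₂) ∧ k₂ ∈ pvkzU T pos φ (Icc i₁ i₂) ∧
      ((k₁ ∈ pvkzF T pos (φ i₁) ∧ k₂ ∈ pvkzF T pos (φ i₂)) ∨ (k₂ ∈ pvkzF T pos (φ i₁) ∧ k₁ ∈ pvkzF T pos (φ i₂))) := by
  obtain ⟨i, hi, hk1⟩ := pvkz_U_mem.1 h1
  obtain ⟨j, hj, hk2⟩ := pvkz_U_mem.1 h2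
  rcases le_total i j with hij | hij
  · obtain ⟨a, b, c, d, e⟩ := pvkz_U_through hI touch hi hj hij hk1 hk2
    exact ⟨i, j, hi, hj, hij, a, b, c, d, e, Or.inl ⟨hk1, hk2⟩⟩
  · obtain ⟨a, b, c, d, e⟩ := pvkz_U_through hI touch hj hi hij hk2 hk1
    exact ⟨j, i, hj, hi, hij, a, b, c, e, d, Or.inr ⟨hk2, hk1⟩⟩

/-- **(3P) step 1 = (P4), exit mouth**: two jaws in the mouth of `x⁺(t)` are joined inside `K ∩ box` -/
theorem pvkz_M1t_join {𝔇 : PvwDat T} {B : Set ℂ} {σ : V → Bool} {ρ : ℝ} (st : 𝔇.t.StubP pos B σ) (hB : Convex ℝ B) (m1 : 𝔇.PvkzM1t pos ρ) {k₁ k₂ : ℂ}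
    (h1 : k₁ ∈ 𝔇.pvkzK pos) (h1' : k₁ ∈ Metric.closedBall (𝔇.t.xp pos) ρ) (h2 : k₂ ∈ 𝔇.pvkzK pos) (h2' : k₂ ∈ Metric.closedBall (𝔇.t.xp pos) ρ) :
    ∃ K' ⊆ 𝔇.pvkzK pos, IsCompact K' ∧ IsConnected K' ∧ k₁ ∈ K' ∧ k₂ ∈ K' ∧ K' ⊆ B := by
  obtain ⟨i₁, i₂, -, -, -, a, b, c, d, e, -⟩ := pvkz_U_join (pos := pos) (φ := 𝔇.t.ep) ordConnected_Iio (fun i _ h => pvkz_touch_ep st (le_of_lt h)) (m1 ⟨h1, h1'⟩) (m1 ⟨h2, h2'⟩)
  exact ⟨_, c.trans (pvkz_ep_sub 𝔇 pos), a, b, d, e, c.trans (pvkz_ep_box st hB)⟩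

/-- **(3P) step 1 = (P4), entrance mouth** -/
theorem pvkz_M1s_join {𝔇 : PvwDat T} {B : Set ℂ} {σ : V → Bool} {ρ : ℝ} (st : 𝔇.s.StubM pos B σ) (hB : Convex ℝ B) (m1 : 𝔇.PvkzM1s pos ρ) {k₁ k₂ : ℂ}
    (h1 : k₁ ∈ 𝔇.pvkzK pos) (h1' : k₁ ∈ Metric.closedBall (𝔇.s.xm pos) ρ) (h2 : k₂ ∈ 𝔇.pvkzK pos) (h2' : k₂ ∈ Metric.closedBall (𝔇.s.xm pos) ρ) :
    ∃ K' ⊆ 𝔇.pvkzK pos, IsCompact K' ∧ IsConnected K' ∧ k₁ ∈ K' ∧ k₂ ∈ K' ∧ K' ⊆ B := by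
  obtain ⟨i₁, i₂, -, -, -, a, b, c, d, e, -⟩ := pvkz_U_join (pos := pos) (φ := 𝔇.s.em) (ordConnected_Icc (a := 1) (b := 𝔇.s.nm)) (fun i _ h => pvkz_touch_em st h.2) (m1 ⟨h1, h1'⟩) (m1 ⟨h2, h2'⟩)
  exact ⟨_, c.trans ((pvkz_U_mono fun i hi => hi.2).trans (pvkz_em_sub 𝔇 pos)), a, b, d, e, c.trans (pvkz_em_box st hB)⟩

/-- (M1) of 211 gives the plane form of 62 (`PvfyMouth K x ρ z r := K ∩ closedBall x ρ ⊆ pvwSq z r`) for every `r ≥` the half side of the box -/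
theorem pvkz_M1t_mouth {𝔇 : PvwDat T} {z : ℂ} {r r' ρ : ℝ} {σ : V → Bool} (st : 𝔇.t.StubP pos (pvwSq z r) σ) (hr : r ≤ r') (m1 : 𝔇.PvkzM1t pos ρ) :
    𝔇.pvkzK pos ∩ Metric.closedBall (𝔇.t.xp pos) ρ ⊆ pvwSq z r' :=
  (m1.trans (pvkz_ep_box st (pvkz_sq_convex z r))).trans fun _ hw => ⟨hw.1.trans hr, hw.2.trans hr⟩

theorem pvkz_M1s_mouth {𝔇 : PvwDat T} {z : ℂ} {r r' ρ : ℝ} {σ : V → Bool} (st : 𝔇.s.StubM pos (pvwSq z r) σ) (hr : r ≤ r') (m1 : 𝔇.PvkzM1s pos ρ) :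
    𝔇.pvkzK pos ∩ Metric.closedBall (𝔇.s.xm pos) ρ ⊆ pvwSq z r' :=
  (m1.trans (pvkz_em_box st (pvkz_sq_convex z r))).trans fun _ hw => ⟨hw.1.trans hr, hw.2.trans hr⟩

/-! ## 9. `K` WITH THE TWO DISCS   (`Tr/Defs` v3: the core of a state is the whole disc `B(z, b h)`) -/

/-- the obstacle with the two closed discs (`rs = τs.b h`, `rt = τt.b h`) -/
def PvwDat.pvkzKd (𝔇 : PvwDat T) (pos : V → ℂ) (zs : ℂ) (rs : ℝ) (zt : ℂ) (rt : ℝ) : Set ℂ := 𝔇.pvkzK pos ∪ Metric.closedBall zs rs ∪ Metric.closedBall zt rt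

theorem pvkz_Kd_eqns_cite : True := by
  have := @PvwDat.pvkzKd.eq_1
  trivial

theorem pvkz_K_sub_Kd (𝔇 : PvwDat T) (pos : V → ℂ) (zs : ℂ) (rs : ℝ) (zt : ℂ) (rt : ℝ) : 𝔇.pvkzK pos ⊆ 𝔇.pvkzKd pos zs rs zt rt := fun _ h => Or.inl (Or.inl h)

theorem pvkz_Kd_compact {𝔇 : PvwDat T} (hs : 𝔇.s.S.Left.Finite) (ht : 𝔇.t.S.Left.Finite) (zs : ℂ) (rs : ℝ) (zt : ℂ) (rt : ℝ) : IsCompact (𝔇.pvkzKd pos zs rs zt rt) :=
  ((pvkz_K_compact hs ht).union (isCompact_closedBall _ _)).union (isCompact_closedBall _ _)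

/-- the five pieces of `K` with discs: disc `s` | faces of `Σ⁻(s)` | right faces of `g₀` | disc `t` | faces of `Σ⁺(t)` -/
theorem pvkz_Kd_eq {𝔇 : PvwDat T} {h h' : ℝ} {zs zt : ℂ} {τs τt : PvwTy} {σ σ' : V → Bool} (gs : 𝔇.s.Gate pos h zs τs σ) (gt : 𝔇.t.Gate pos h' zt τt σ') :
    𝔇.pvkzKd pos zs (τs.b * h) zt (τt.b * h') =
      Metric.closedBall zs (τs.b * h) ∪ pvkzU T pos 𝔇.s.em (Iic 𝔇.s.nm) ∪ pvkzU T pos 𝔇.pvkzG (Iio 𝔇.g.n) ∪ Metric.closedBall zt (τt.b * h') ∪ pvkzU T pos 𝔇.t.ep (Iio 𝔇.t.np) := by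
  have a1 := pvkz_core_ball gs
  have a2 := pvkz_core_ball gt
  unfold PvwDat.pvkzKd
  rw [pvkz_K_eq]
  ext p
  simp only [mem_union]
  constructor
  · rintro ((((((h | h) | h) | h) | h) | h) | h)
    · exact Or.inl (Or.inl (Or.inl (Or.inl (a1 h))))
    · exact Or.inl (Or.inl (Or.inl (Or.inr h)))
    · exact Or.inl (Or.inl (Or.inr h))
    · exact Or.inl (Or.inr (a2 h))
    · exact Or.inr h
    · exact Or.inl (Or.inl (Or.inl (Or.inl h)))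
    · exact Or.inl (Or.inr h)
  · rintro ((((h | h) | h) | h) | h)
    · exact Or.inl (Or.inr h)
    · exact Or.inl (Or.inl (Or.inl (Or.inl (Or.inl (Or.inr h)))))
    · exact Or.inl (Or.inl (Or.inl (Or.inl (Or.inr h))))
    · exact Or.inr h
    · exact Or.inl (Or.inl (Or.inr h))

/-- **`K` with the two discs is connected** -/
theorem pvkz_Kd_conn (hT : T.IsSph) {𝔇 : PvwDat T} {N : PvwNum} {h : ℝ} {zs zt : ℂ} {τs τt : PvwTy} {σ σ' : V → Bool}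
    (st_s : 𝔇.s.AtIn pos N h zs τs σ) (st_t : 𝔇.t.AtOut pos N h zt τt σ') (g0 : 𝔇.g.v 0 = 𝔇.s.gp) (g1 : 𝔇.g.v 𝔇.g.n = 𝔇.t.gm) (hn : 0 < 𝔇.g.n) :
    IsConnected (𝔇.pvkzKd pos zs (τs.b * h) zt (τt.b * h)) := by
  have c0 := pvkz_K_conn hT st_s st_t g0 g1 hn
  have ms : pos (T.src 𝔇.s.dm) ∈ pvkzR T pos 𝔇.s.S.Left := pvkz_face_sub_R (pvkz_gate_left hT st_s.gate).1 (pvkz_src_mem T pos _)
  have mt : pos (T.src 𝔇.t.dm) ∈ pvkzR T pos 𝔇.t.S.Left := pvkz_face_sub_R (pvkz_gate_left hT st_t.gate).1 (pvkz_src_mem T pos _)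
  refine ⟨c0.nonempty.mono (pvkz_K_sub_Kd 𝔇 pos _ _ _ _), ?_⟩
  have u1 := c0.isPreconnected.union _ (pvkz_core_s_sub 𝔇 pos ms) (pvkz_core_ball st_s.gate ms) (convex_closedBall zs (τs.b * h)).isPreconnected
  exact u1.union _ (Or.inl (pvkz_core_t_sub 𝔇 pos mt)) (pvkz_core_ball st_t.gate mt) (convex_closedBall zt (τt.b * h)).isPreconnected

/-- **every frozen site of the datum lies on `K` with discs** -/
theorem pvkz_fz_mem_Kd (hT : T.IsSph) {𝔇 : PvwDat T} {N : PvwNum} {h : ℝ} {zs zt : ℂ} {τs τt : PvwTy} {σ σ' : V → Bool}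
    (st_s : 𝔇.s.AtIn pos N h zs τs σ) (st_t : 𝔇.t.AtOut pos N h zt τt σ') (hn : 0 < 𝔇.g.n) {x : V} (hx : x ∈ 𝔇.fz) : pos x ∈ 𝔇.pvkzKd pos zs (τs.b * h) zt (τt.b * h) := by
  have key : ∀ y ∈ 𝔇.pvkzV, pos y ∈ 𝔇.pvkzKd pos zs (τs.b * h) zt (τt.b * h) := fun y hy =>
    pvkz_K_sub_Kd 𝔇 pos _ _ _ _ (pvkz_fz_mem st_s.stub st_t.stub (pvkz_gate_left hT st_s.gate).1 (pvkz_gate_left hT st_t.gate).2 hn hy)
  rcases hx with ((((hx | hx) | hx) | ((hx | hx) | hx)) | hx) | hx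
  · right
    have : x ∈ 𝔇.t.dsc := hx
    rw [st_t.gate.dsc_eq] at this
    exact mem_closedBall_iff_norm.2 (le_of_lt this)
  · exact key x (Or.inl (Or.inl (Or.inl (Or.inl (Or.inr hx)))))
  · exact key x (Or.inl (Or.inl (Or.inl (Or.inr hx))))
  · left; right
    have : x ∈ 𝔇.s.dsc := hx
    rw [st_s.gate.dsc_eq] at this
    exact mem_closedBall_iff_norm.2 (le_of_lt this)
  · exact key x (Or.inl (Or.inl (Or.inr (Or.inl (Or.inr hx)))))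
  · exact key x (Or.inl (Or.inl (Or.inr (Or.inr hx))))
  · exact key x (Or.inl (Or.inr hx))
  · exact key x (Or.inr hx)

/-- on a geometric plane a site on `K` with discs is frozen or lies on one of the two circles `‖pos x - z‖ = b h` -/
theorem pvkz_site_Kd (hT : T.IsSph) (G : PlGeo T pos) {𝔇 : PvwDat T} {N : PvwNum} {h : ℝ} {zs zt : ℂ} {τs τt : PvwTy} {σ σ' : V → Bool}
    (st_s : 𝔇.s.AtIn pos N h zs τs σ) (st_t : 𝔇.t.AtOut pos N h zt τt σ') (hn : 0 < 𝔇.g.n) {x : V} (hx : pos x ∈ 𝔇.pvkzKd pos zs (τs.b * h) zt (τt.b * h)) :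
    x ∈ 𝔇.fz ∨ ‖pos x - zs‖ = τs.b * h ∨ ‖pos x - zt‖ = τt.b * h := by
  rcases hx with (hx | hx) | hx
  · exact Or.inl (pvkz_V_sub_fz st_s.gate st_t.gate
      ((pvkz_site_iff G st_s.stub st_t.stub (pvkz_gate_left hT st_s.gate).1 (pvkz_gate_left hT st_t.gate).2 hn x).1 hx))
  · rcases lt_or_eq_of_le (mem_closedBall_iff_norm.1 hx) with h1 | h1
    · left
      have : x ∈ 𝔇.s.dsc := by rw [st_s.gate.dsc_eq]; exact h1
      exact Or.inl (Or.inl (Or.inr (Or.inl (Or.inl this))))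
    · exact Or.inr (Or.inl h1)
  · rcases lt_or_eq_of_le (mem_closedBall_iff_norm.1 hx) with h1 | h1
    · left
      have : x ∈ 𝔇.t.dsc := by rw [st_t.gate.dsc_eq]; exact h1
      exact Or.inl (Or.inl (Or.inl (Or.inl (Or.inl this))))
    · exact Or.inr (Or.inr h1)

/-- the field `ball` for `K` with discs -/
theorem pvkz_Kd_ball (hT : T.IsSph) {𝔇 : PvwDat T} {N : PvwNum} {h μ ρ : ℝ} {x zs zt : ℂ} {τs τt : PvwTy} {σ σ' : V → Bool}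
    (st_s : 𝔇.s.AtIn pos N h zs τs σ) (st_t : 𝔇.t.AtOut pos N h zt τt σ') (hbs : τs.b * h ≤ pvwRad N h τs τs.k) (hbt : τt.b * h ≤ pvwRad N h τt τt.k)
    (box_s : pvwSq zs (pvwRad N h τs τs.k) ⊆ Metric.closedBall x ρ) (box_t : pvwSq zt (pvwRad N h τt τt.k) ⊆ Metric.closedBall x ρ)
    (mesh : ∀ i, i < 𝔇.g.n → ‖pos (𝔇.g.v (i + 1)) - pos (𝔇.g.v i)‖ ≤ μ ∧ ‖pos (T.apex (𝔇.pvkzG i)) - pos (𝔇.g.v i)‖ ≤ μ)
    (arc : ∀ k, k < 𝔇.g.n → ‖pos (𝔇.g.v k) - x‖ ≤ ρ - μ) : 𝔇.pvkzKd pos zs (τs.b * h) zt (τt.b * h) ⊆ Metric.closedBall x ρ :=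
  union_subset (union_subset (pvkz_K_ball hT st_s st_t hbs hbt box_s box_t mesh arc)
    (((Metric.closedBall_subset_closedBall hbs).trans (pvkz_ball_sub_sq _ _)).trans box_s)) (((Metric.closedBall_subset_closedBall hbt).trans (pvkz_ball_sub_sq _ _)).trans box_t)

end Claimed.Agent.R289
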