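import Claimed.Agent.R289.Tr.OneWall
import Claimed.Agent.R289.Tr.StKit
import Claimed.Agent.R289.Tr.C12

/-!
# Row 289 (S0537, Cardy for Poisson-Voronoi), THE WALL, file Tr/Pieces : LAYER E of (C2) = THE PIECES ARE DISJOINT; ACTUAL ⟹ THE STUBS ARE CLEAN      (helper64; ruling 5 of 78; prefix `pvwe_`, `Pvwe`, `pvwe`)

PLANARITY ENTERS ONCE: `pl_no_bypass` (no right bypass of a rim).      Everything else is induction on the time of the strand.

* sec. 0-1  `pvweR` (right-side edge of a rim), `pvweB c j r` (the index `j - r` on a cycle), index lemmas.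
* sec. 2  **TIME ORDER = RIM ORDER**, vertex form: `pvwe_fwd`, `pvwe_bwd` (at every time the black end of the strand hangs by a closed excursion on the vertex number `j ± r` of the rim, and the vertices `j, …, j ± (r - 1)` have been visited before);
          with a MARKER (a vertex of the rim not visited so far): `pvwe_fwd_mark`, `pvwe_fwd_vert`, `pvwe_bwd_mark`, `pvwe_bwd_vert`.
* sec. 3  **THE GATE IS PASSED ONCE**: abstract gate `PvweGate`;  `pvwe_once_fwd`, `pvwe_clean_fwd`, `pvwe_once_bwd`, `pvwe_clean_bwd`: until the marker is visited the strand from `dp` (backwards from `dm`) does not come back into the gate and its black bank meets the closed disc at `g⁺` (`g⁻`) only.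
* sec. 4  A PIN OF A RIM, in the names of `Tr/Defs` v3 (repair 266, 11:10Z: the closed inside of the gate is `ins = VOf S.Left`, NOT `core` = the disc: marker `∉ ins`, the black bank meets `ins` at `g⁺` / `g⁻` only): `pvwe_pin_wall`, `pvwe_pin_fwd`, `pvwe_pin_bwd`;   **`pvwe_stubP`** (producer of `GoodOut.off_p`), **`pvwe_stubM`** (producer of `GoodIn.off_m`): marker = any vertex of the rim outside the box and off the core.
* sec. 5  TWO PINS OF ONE RIM: `PvweScene` (the fields of `PvfyPre` / `Actual` which are used);   `PvweScene.idx`, **`PvweScene.out_t`**, **`PvweScene.in_s`**, **`PvweScene.disj`** = the field `disj` of `PvwDat.Ok` v2 (end points included).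
-/

set_option autoImplicit false
set_option linter.unusedSectionVars false
set_option linter.unusedVariables false

namespace Claimed.Agent.R289

open Relation

variable {V D : Type} {T : PvMap V D} {s : V → Bool}

/-! ## 0. definitions -/

/-- RIGHT-SIDE EDGE of the cycle `c`: an unoccupied edge none of whose two faces lies on the left of `c` (the relation of `pl_no_bypass`) -/
def pvweR (T : PvMap V D) (s : V → Bool) (c : T.Cyc) (x y : V) : Prop :=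
  ∃ e, T.src e = x ∧ T.tgt e = y ∧ ¬ T.Occ s e ∧ e ∉ c.Left ∧ T.opp e ∉ c.Left

/-- backward index on a cycle: `pvweB c j r ≡ j - r` modulo `c.n` -/
def pvweB (c : T.Cyc) (j r : ℕ) : ℕ := j + (c.n - 1) * r

theorem pvwe_eqns_cite : True := by
  have := @pvweR.eq_1; have := @pvweB.eq_1
  trivial

/-! ## 1. indices on a cycle -/

theorem pvwe_e_congr (c : T.Cyc) {i j : ℕ} (h : i % c.n = j % c.n) : c.e i = c.e j := by
  rw [← pl_cyc_mod c i, ← pl_cyc_mod c j, h]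

theorem pvwe_e_of_src (c : T.Cyc) {i j : ℕ} (h : T.src (c.e i) = T.src (c.e j)) : c.e i = c.e j := pvwe_e_congr c (pl_cyc_src_inj c h)

theorem pvwe_e_succ_of_src (c : T.Cyc) {i j : ℕ} (h : T.src (c.e i) = T.src (c.e j)) : c.e (i + 1) = c.e (j + 1) := by
  refine pvwe_e_congr c ?_
  have := pl_cyc_src_inj c h
  exact Nat.ModEq.add_right 1 this

theorem pvwe_e_pred_of_src (c : T.Cyc) {i j : ℕ} (h : T.src (c.e (i + 1)) = T.src (c.e (j + 1))) : c.e i = c.e j := by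
  refine pvwe_e_congr c ?_
  have := pl_cyc_src_inj c h
  exact Nat.ModEq.add_right_cancel' 1 this

theorem pvwe_idx (c : T.Cyc) {j a b : ℕ} (h : T.src (c.e (j + a)) = T.src (c.e (j + b))) (ha : a < c.n) (hb : b < c.n) : a = b := by
  have h1 : (j + a) ≡ (j + b) [MOD c.n] := pl_cyc_src_inj c h
  have h2 : a ≡ b [MOD c.n] := Nat.ModEq.add_left_cancel' j h1
  unfold Nat.ModEq at h2
  rwa [Nat.mod_eq_of_lt ha, Nat.mod_eq_of_lt hb] at h2

theorem pvwe_B_zero (c : T.Cyc) (j : ℕ) : pvweB c j 0 = j := by unfold pvweB; simp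

theorem pvwe_B_succ (c : T.Cyc) (j r : ℕ) : c.e (pvweB c j (r + 1) + 1) = c.e (pvweB c j r) := by
  have hn := pl_cyc_pos c
  have : pvweB c j (r + 1) + 1 = pvweB c j r + c.n := by
    unfold pvweB
    rw [Nat.mul_succ]
    omega
  rw [this, c.per]

/-- `pvweB c j r ≡ j - r` -/
theorem pvwe_B_add (c : T.Cyc) (j r : ℕ) : c.e (pvweB c (j + r) r) = c.e j := by
  induction r generalizing j with
  | zero => rw [pvwe_B_zero]; rfl
  | succ r ih =>
    have h1 : c.e (pvweB c (j + (r + 1)) (r + 1) + 1) = c.e (j + 1) := by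
      rw [pvwe_B_succ, show j + (r + 1) = (j + 1) + r by omega, ih]
    exact pvwe_e_pred_of_src c (by rw [h1])

theorem pvwe_B_shift (c : T.Cyc) (j r : ℕ) : c.e (pvweB c (j + c.n) r) = c.e (pvweB c j r) := by
  have : pvweB c (j + c.n) r = pvweB c j r + c.n := by unfold pvweB; omega
  rw [this, c.per]

/-- `j - (n - a) ≡ j + a` -/
theorem pvwe_B_compl (c : T.Cyc) (j : ℕ) {a : ℕ} (ha : a ≤ c.n) : c.e (pvweB c j (c.n - a)) = c.e (j + a) := by
  have h := pvwe_B_add c (j + a) (c.n - a)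
  rw [show j + a + (c.n - a) = j + c.n by omega, pvwe_B_shift] at h
  exact h

theorem pvwe_B_idx (c : T.Cyc) {j a b : ℕ} (h : T.src (c.e (pvweB c j a)) = T.src (c.e (pvweB c j b))) (ha : a < c.n) (hb : b < c.n) : a = b := by
  rcases Nat.eq_zero_or_pos a with rfl | ha0
  · rcases Nat.eq_zero_or_pos b with rfl | hb0
    · rfl
    · exfalso
      have e2 := pvwe_B_compl c j (a := c.n - b) (by omega)
      rw [show c.n - (c.n - b) = b by omega] at e2
      rw [e2, pvwe_B_zero] at h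
      have := pvwe_idx c (j := j) (a := 0) (b := c.n - b) h (by omega) (by omega)
      omega
  · rcases Nat.eq_zero_or_pos b with rfl | hb0
    · exfalso
      have e2 := pvwe_B_compl c j (a := c.n - a) (by omega)
      rw [show c.n - (c.n - a) = a by omega] at e2
      rw [e2, pvwe_B_zero] at h
      have := pvwe_idx c (j := j) (a := c.n - a) (b := 0) h (by omega) (by omega)
      omega
    · have e1 := pvwe_B_compl c j (a := c.n - a) (by omega)
      have e2 := pvwe_B_compl c j (a := c.n - b) (by omega)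
      rw [show c.n - (c.n - a) = a by omega] at e1
      rw [show c.n - (c.n - b) = b by omega] at e2
      rw [e1, e2] at h
      have := pvwe_idx c h (by omega) (by omega)
      omega

/-! ## 2. TIME ORDER = RIM ORDER, at the level of the vertices -/

theorem pvwe_R_symm {c : T.Cyc} {x y : V} (h : pvweR T s c x y) : pvweR T s c y x := by
  obtain ⟨e, h1, h2, h3, h4, h5⟩ := h
  refine ⟨T.opp e, by rw [T.src_opp', h2], by rw [T.tgt_opp, h1], fun h => h3 ?_, h5, by rwa [T.opp_opp]⟩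
  have := pl_ra_occ_opp h
  rwa [T.opp_opp] at this

/-- NO RIGHT BYPASS (`pl_no_bypass`) -/
theorem pvwe_nb (hT : T.IsSph) {c : T.Cyc} (hc : c.IsRim s) {a b : V} (ha : a ∈ c.verts) (hb : b ∈ c.verts) (h : ReflTransGen (pvweR T s c) a b) : a = b :=
  pl_no_bypass hT hc ha hb h

theorem pvwe_wall_not_left {c : T.Cyc} (hc : c.IsRim s) {x : D} (hw : T.Wall s (T.opp (c.e 0)) x) : x ∉ c.Left := by
  rw [hc.2.1]
  exact fun h => h.2 hw

/-- **ONE STEP** of the strand of a rim: the black end does not move, or it moves along a right-side edge, or it moves along a dart of the rim -/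
theorem pvwe_step (hT : T.IsSph) {c : T.Cyc} (hc : c.IsRim s) {x : D} (hx : pvasBW T s x) (hw : T.Wall s (T.opp (c.e 0)) x) :
    T.src (pvasStep T s x) = T.src x ∨ pvweR T s c (T.src x) (T.src (pvasStep T s x)) ∨
      ∃ i, T.src (c.e i) = T.src x ∧ T.src (c.e (i + 1)) = T.src (pvasStep T s x) := by
  rcases pvas_step_ends s x with ⟨ha, e1, -⟩ | ⟨-, e1, -⟩
  · right
    rw [e1]
    have hf1 : T.src (T.rot x) = T.src x := T.src_rot x
    have hf2 : T.tgt (T.rot x) = T.apex x := T.tgt_rot x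
    have hocc : ¬ T.Occ s (T.rot x) := by
      unfold PvMap.Occ
      rw [hf1, hf2, hx.1, ha]
      exact fun h => h rfl
    have hopp : T.opp (T.rot x) ∉ c.Left := by
      rw [pvt_s_opp_rot]
      exact pvwe_wall_not_left hc (pl_ra_wall_trans hw (pl_ra_wall_sf s (T.sf_nxt2 x)))
    by_cases hL : T.rot x ∈ c.Left
    · right
      have hbd : T.Bd c.Left (T.rot x) := fun h => hopp (h.1 hL)
      rcases ((pl_jordan hT c).2.2.2 _).1 hbd with ⟨i, hi⟩ | ⟨i, hi⟩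
      · exact ⟨i, by rw [hi, hf1], by rw [← c.chain, hi, hf2]⟩
      · exact absurd ((pl_jordan hT c).2.1 i) (by rw [hi]; exact hopp)
    · left
      exact ⟨T.rot x, hf1, hf2, hocc, hL, hopp⟩
  · left
    exact e1

/-- **TIME ORDER = RIM ORDER, FORWARDS**.   The strand starts at a position `a` of the wall of the rim `c` whose black end is the vertex number `j` of `c`.
At every time `k` there is `r` such that the vertices number `j, …, j + r - 1` have been visited before the time `k` and the black end is joined to the vertex number `j + r` by right-side edges (a closed excursion). -/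
theorem pvwe_fwd (hT : T.IsSph) {c : T.Cyc} (hc : c.IsRim s) {a : D} (ha : pvasBW T s a) (hw : T.Wall s (T.opp (c.e 0)) a) {j : ℕ} (hj : T.src (c.e j) = T.src a) (k : ℕ) :
    ∃ r, (∀ r', r' < r → ∃ k', k' < k ∧ T.src (pvasIt T s a k') = T.src (c.e (j + r'))) ∧
      ReflTransGen (pvweR T s c) (T.src (c.e (j + r))) (T.src (pvasIt T s a k)) := by
  induction k with
  | zero => exact ⟨0, fun r' h => absurd h (Nat.not_lt_zero _), by rw [Nat.add_zero, hj]; exact ReflTransGen.refl⟩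
  | succ k ih =>
    obtain ⟨r, h1, h2⟩ := ih
    have h1' : ∀ r', r' < r → ∃ k', k' < k + 1 ∧ T.src (pvasIt T s a k') = T.src (c.e (j + r')) := fun r' hr => by
      obtain ⟨k', hk', e⟩ := h1 r' hr
      exact ⟨k', by omega, e⟩
    rw [pvas_it_succ]
    rcases pvwe_step hT hc (pvas_it_bw ha k) (pl_ra_wall_trans hw (pvt_s_it_wall ha k)) with e | hR | ⟨i, e1, e2⟩
    · exact ⟨r, h1', by rw [e]; exact h2⟩
    · exact ⟨r, h1', ReflTransGen.tail h2 hR⟩
    · have e3 : T.src (c.e (j + r)) = T.src (c.e i) := by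
        rw [e1]
        exact pvwe_nb hT hc ⟨_, rfl⟩ ⟨i, e1⟩ h2
      refine ⟨r + 1, fun r' hr => ?_, ?_⟩
      · rcases Nat.lt_or_ge r' r with h | h
        · exact h1' r' h
        · obtain rfl : r' = r := by omega
          exact ⟨k, by omega, by rw [e3, e1]⟩
      · rw [← e2, show j + (r + 1) = j + r + 1 by omega, pvwe_e_succ_of_src c e3]

theorem pvwe_back_succ (s : V → Bool) (a : D) (i : ℕ) : (pvasBack T s)^[i + 1] a = pvasBack T s ((pvasBack T s)^[i] a) := Function.iterate_succ_apply' _ _ _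

theorem pvwe_back_step {a : D} (ha : pvasBW T s a) (i : ℕ) : pvasStep T s ((pvasBack T s)^[i + 1] a) = (pvasBack T s)^[i] a := by
  rw [pvwe_back_succ]
  exact pvas_step_back (pvwk_back_bw ha i)

theorem pvwe_back_wall {a : D} (ha : pvasBW T s a) (i : ℕ) : T.Wall s a ((pvasBack T s)^[i] a) := by
  have h := pvt_s_it_wall (pvwk_back_bw ha i) i
  rw [pvwk_it_back_end ha i] at h
  exact pl_ra_wall_symm h

/-- **TIME ORDER = RIM ORDER, BACKWARDS** -/
theorem pvwe_bwd (hT : T.IsSph) {c : T.Cyc} (hc : c.IsRim s) {a : D} (ha : pvasBW T s a) (hw : T.Wall s (T.opp (c.e 0)) a) {j : ℕ} (hj : T.src (c.e j) = T.src a) (k : ℕ) :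
    ∃ r, (∀ r', r' < r → ∃ k', k' < k ∧ T.src ((pvasBack T s)^[k'] a) = T.src (c.e (pvweB c j r'))) ∧
      ReflTransGen (pvweR T s c) (T.src (c.e (pvweB c j r))) (T.src ((pvasBack T s)^[k] a)) := by
  induction k with
  | zero => exact ⟨0, fun r' h => absurd h (Nat.not_lt_zero _), by rw [pvwe_B_zero, hj]; exact ReflTransGen.refl⟩
  | succ k ih =>
    obtain ⟨r, h1, h2⟩ := ih
    have h1' : ∀ r', r' < r → ∃ k', k' < k + 1 ∧ T.src ((pvasBack T s)^[k'] a) = T.src (c.e (pvweB c j r')) := fun r' hr => by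
      obtain ⟨k', hk', e⟩ := h1 r' hr
      exact ⟨k', by omega, e⟩
    have hst := pvwe_back_step ha k
    rcases pvwe_step hT hc (pvwk_back_bw ha (k + 1)) (pl_ra_wall_trans hw (pvwe_back_wall ha (k + 1))) with e | hR | ⟨i, e1, e2⟩
    · rw [hst] at e
      exact ⟨r, h1', by rw [← e]; exact h2⟩
    · rw [hst] at hR
      exact ⟨r, h1', ReflTransGen.tail h2 (pvwe_R_symm hR)⟩
    · rw [hst] at e2
      have e3 : T.src (c.e (pvweB c j r)) = T.src (c.e (i + 1)) := by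
        rw [e2]
        exact pvwe_nb hT hc ⟨_, rfl⟩ ⟨i + 1, e2⟩ h2
      refine ⟨r + 1, fun r' hr => ?_, ?_⟩
      · rcases Nat.lt_or_ge r' r with h | h
        · exact h1' r' h
        · obtain rfl : r' = r := by omega
          exact ⟨k, by omega, by rw [e3, e2]⟩
      · have e4 : c.e (pvweB c j (r + 1)) = c.e i := pvwe_e_pred_of_src c (by rw [pvwe_B_succ, e3])
        rw [e4, e1]

/-- forwards, with a MARKER: as long as the vertex number `j + r₀` has not been visited, the strand hangs on the arc `j … j + r₀` of the rim -/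
theorem pvwe_fwd_mark (hT : T.IsSph) {c : T.Cyc} (hc : c.IsRim s) {a : D} (ha : pvasBW T s a) (hw : T.Wall s (T.opp (c.e 0)) a) {j : ℕ} (hj : T.src (c.e j) = T.src a)
    {r₀ k : ℕ} (hk : ∀ k', k' < k → T.src (pvasIt T s a k') ≠ T.src (c.e (j + r₀))) :
    ∃ r, r ≤ r₀ ∧ ReflTransGen (pvweR T s c) (T.src (c.e (j + r))) (T.src (pvasIt T s a k)) := by
  obtain ⟨r, h1, h2⟩ := pvwe_fwd hT hc ha hw hj k
  refine ⟨r, ?_, h2⟩
  by_contra hlt
  obtain ⟨k', hk', e⟩ := h1 r₀ (by omega)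
  exact hk k' hk' e

theorem pvwe_fwd_vert (hT : T.IsSph) {c : T.Cyc} (hc : c.IsRim s) {a : D} (ha : pvasBW T s a) (hw : T.Wall s (T.opp (c.e 0)) a) {j : ℕ} (hj : T.src (c.e j) = T.src a)
    {r₀ k : ℕ} (hk : ∀ k', k' < k → T.src (pvasIt T s a k') ≠ T.src (c.e (j + r₀))) (hv : T.src (pvasIt T s a k) ∈ c.verts) :
    ∃ r, r ≤ r₀ ∧ T.src (pvasIt T s a k) = T.src (c.e (j + r)) := by
  obtain ⟨r, h1, h2⟩ := pvwe_fwd_mark hT hc ha hw hj hk
  exact ⟨r, h1, (pvwe_nb hT hc ⟨_, rfl⟩ hv h2).symm⟩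

theorem pvwe_bwd_mark (hT : T.IsSph) {c : T.Cyc} (hc : c.IsRim s) {a : D} (ha : pvasBW T s a) (hw : T.Wall s (T.opp (c.e 0)) a) {j : ℕ} (hj : T.src (c.e j) = T.src a)
    {r₀ k : ℕ} (hk : ∀ k', k' < k → T.src ((pvasBack T s)^[k'] a) ≠ T.src (c.e (pvweB c j r₀))) :
    ∃ r, r ≤ r₀ ∧ ReflTransGen (pvweR T s c) (T.src (c.e (pvweB c j r))) (T.src ((pvasBack T s)^[k] a)) := by
  obtain ⟨r, h1, h2⟩ := pvwe_bwd hT hc ha hw hj k
  refine ⟨r, ?_, h2⟩
  by_contra hlt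
  obtain ⟨k', hk', e⟩ := h1 r₀ (by omega)
  exact hk k' hk' e

theorem pvwe_bwd_vert (hT : T.IsSph) {c : T.Cyc} (hc : c.IsRim s) {a : D} (ha : pvasBW T s a) (hw : T.Wall s (T.opp (c.e 0)) a) {j : ℕ} (hj : T.src (c.e j) = T.src a)
    {r₀ k : ℕ} (hk : ∀ k', k' < k → T.src ((pvasBack T s)^[k'] a) ≠ T.src (c.e (pvweB c j r₀))) (hv : T.src ((pvasBack T s)^[k] a) ∈ c.verts) :
    ∃ r, r ≤ r₀ ∧ T.src ((pvasBack T s)^[k] a) = T.src (c.e (pvweB c j r)) := by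
  obtain ⟨r, h1, h2⟩ := pvwe_bwd_mark hT hc ha hw hj hk
  exact ⟨r, h1, (pvwe_nb hT hc ⟨_, rfl⟩ hv h2).symm⟩

/-! ## 3. the gate is passed once -/

/-- an ABSTRACT GATE: a finite disc `S.Left` whose boundary has only two black vertices, crossed by a strand from `dm` (a dart of `S`) to `dp` (the opposite of a dart of `S`) in `n` steps -/
structure PvweGate (T : PvMap V D) (s : V → Bool) (S : T.Cyc) (dm dp : D) (n : ℕ) : Prop where
  fin : S.Left.Finite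
  dm_on : dm ∈ S.darts
  dp_on : T.opp dp ∈ S.darts
  bw_m : pvasBW T s dm
  bw_p : pvasBW T s dp
  two : ∀ v ∈ S.verts, s v = true → v = T.src dp ∨ v = T.src dm
  ne : T.src dp ≠ T.src dm
  it : pvasIt T s dm n = dp
  mem : ∀ i, i < n → pvasIt T s dm i ∈ S.Left

section gate

variable {S : T.Cyc} {dm dp : D} {n : ℕ}

theorem pvwe_opp_not_left (hT : T.IsSph) {x : D} (h : T.opp x ∈ S.darts) : x ∉ S.Left := by
  obtain ⟨i, hi⟩ := h
  obtain ⟨hR, -, hRo, -⟩ := pl_jordan hT S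
  have h1 := hRo i
  rw [hi, T.opp_opp, hR] at h1
  exact h1

theorem pvwe_dart_left (hT : T.IsSph) {x : D} (h : x ∈ S.darts) : x ∈ S.Left := by
  obtain ⟨i, rfl⟩ := h
  exact (pl_jordan hT S).2.1 i

theorem PvweGate.dm_in (hT : T.IsSph) (G : PvweGate T s S dm dp n) : pvasIn T S.Left s dm :=
  ⟨pvwe_dart_left hT G.dm_on, pvwe_opp_not_left hT (by rw [T.opp_opp]; exact G.dm_on), G.bw_m⟩

theorem PvweGate.dp_out (hT : T.IsSph) (G : PvweGate T s S dm dp n) : pvasOut T S.Left s dp :=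
  ⟨pvwe_opp_not_left hT G.dp_on, pvwe_dart_left hT G.dp_on, G.bw_p⟩

/-- the entrances of the gate -/
theorem PvweGate.ent (hT : T.IsSph) (G : PvweGate T s S dm dp n) {x : D} (hx : pvasIn T S.Left s x) : x = dm ∨ T.src x = T.src dp := by
  have hbd : T.Bd S.Left x := fun h => hx.2.1 (h.1 hx.1)
  rcases ((pl_jordan hT S).2.2.2 _).1 hbd with ⟨i, hi⟩ | h
  · rcases G.two (T.src x) ⟨i, by rw [hi]⟩ hx.2.2.1 with h | h
    · exact Or.inr h
    · left
      obtain ⟨i', hi'⟩ := G.dm_on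
      rw [← hi, ← hi']
      exact pvwe_e_of_src S (by rw [hi, hi', h])
  · exact absurd (pvwe_dart_left hT h) hx.2.1

/-- the exits of the gate -/
theorem PvweGate.ext (hT : T.IsSph) (G : PvweGate T s S dm dp n) {y : D} (hy : pvasOut T S.Left s y) : y = dp ∨ T.src y = T.src dm := by
  have hbd : T.Bd S.Left y := fun h => hy.1 (h.2 hy.2.1)
  rcases ((pl_jordan hT S).2.2.2 _).1 hbd with h | ⟨i, hi⟩
  · exact absurd (pvwe_dart_left hT h) hy.1
  · have e1 : T.src (S.e (i + 1)) = T.src y := by rw [← S.chain, hi, T.tgt_opp]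
    rcases G.two (T.src y) ⟨i + 1, e1⟩ hy.2.2.1 with h | h
    · left
      obtain ⟨i', hi'⟩ := G.dp_on
      have e2 : T.src (S.e (i' + 1)) = T.src dp := by rw [← S.chain, hi', T.tgt_opp]
      have e3 : S.e i = S.e i' := pvwe_e_pred_of_src S (by rw [e1, e2, h])
      rw [hi, hi'] at e3
      exact T.opp_injective e3
    · exact Or.inr h

theorem pvwe_src_vof {A : Set D} {x : D} (h : x ∈ A) : T.src x ∈ T.VOf A := ⟨x, h, rfl⟩

/-- a black vertex of the closed disc which is the black end of a position outside the disc is one of the two black vertices of the gate -/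
theorem PvweGate.on (hT : T.IsSph) (G : PvweGate T s S dm dp n) {x : D} (hx : pvasBW T s x) (h1 : x ∉ S.Left) (h2 : T.src x ∈ T.VOf S.Left) : T.src x = T.src dp ∨ T.src x = T.src dm := by
  rw [pl_VOf_left hT S] at h2
  rcases h2 with h | h
  · exact G.two _ h hx.1
  · exact absurd (h x rfl) h1

/-- **THE GATE IS PASSED ONCE, FORWARDS**.   `c` a rim, `dp` on its wall, `src dp` = the vertex number `j`, `src dm` = the vertex number `j + rm`, MARKER = the vertex number `j + r₀`, `r₀ < rm < c.n`, off the closed disc of the gate.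
As long as the marker has not been visited the strand from `dp` stays outside the gate. -/
theorem pvwe_once_fwd (hT : T.IsSph) {c : T.Cyc} (hc : c.IsRim s) (G : PvweGate T s S dm dp n) (hw : T.Wall s (T.opp (c.e 0)) dp) {j r₀ rm : ℕ} (hj : T.src (c.e j) = T.src dp)
    (h0 : r₀ < rm) (hm : rm < c.n) (hgm : T.src (c.e (j + rm)) = T.src dm) (hu : T.src (c.e (j + r₀)) ∉ T.VOf S.Left)
    {K : ℕ} (hK : ∀ k, k < K → T.src (pvasIt T s dp k) ≠ T.src (c.e (j + r₀))) : ∀ k, k ≤ K → pvasIt T s dp k ∉ S.Left := by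
  have hF := pl_left_face S
  -- the black end is never `src dm` before the marker
  have hno : ∀ k, (∀ k', k' < k → T.src (pvasIt T s dp k') ≠ T.src (c.e (j + r₀))) → T.src (pvasIt T s dp k) ≠ T.src dm := by
    intro k hk e
    obtain ⟨r, hr, e1⟩ := pvwe_fwd_vert hT hc G.bw_p hw hj hk ⟨j + rm, by rw [hgm, e]⟩
    rw [e, ← hgm] at e1
    have := pvwe_idx c e1 hm (by omega)
    omega
  by_contra hcon
  have hex : ∃ k, k ≤ K ∧ pvasIt T s dp k ∈ S.Left := by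
    by_contra h
    exact hcon fun k hk hmem => h ⟨k, hk, hmem⟩
  classical
  obtain ⟨hk1, hk2⟩ := Nat.find_spec hex
  have hmin : ∀ k, k < Nat.find hex → pvasIt T s dp k ∉ S.Left := fun k hk hmem => Nat.find_min hex hk ⟨by omega, hmem⟩
  generalize Nat.find hex = k₁ at hk1 hk2 hmin
  have hk0 : k₁ ≠ 0 := by
    rintro rfl
    exact (G.dp_out hT).1 hk2
  obtain ⟨k₀, rfl⟩ : ∃ k₀, k₁ = k₀ + 1 := ⟨k₁ - 1, by omega⟩
  have hin : pvasIn T S.Left s (pvasIt T s dp (k₀ + 1)) := by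
    refine ⟨hk2, ?_, pvas_it_bw G.bw_p _⟩
    rw [pvas_it_succ, pvas_step_opp_mem hF]
    exact hmin k₀ (by omega)
  have hK1 : ∀ k', k' < k₀ + 1 → T.src (pvasIt T s dp k') ≠ T.src (c.e (j + r₀)) := fun k' hk' => hK k' (by omega)
  rcases G.ent hT hin with e | e
  · exact hno _ hK1 (by rw [e])
  · have hne : pvasIt T s dp (k₀ + 1) ≠ dm := fun h => G.ne (by rw [← e, h])
    obtain ⟨h1, h2, h3⟩ := pvas_exit_spec hF G.fin hin
    unfold pvasExit at h3
    generalize pvasHit T s (pvasIt T s dp (k₀ + 1)) S.Leftᶜ = N at h1 h2 h3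
    rcases G.ext hT h3 with e' | e'
    · refine hne (pvas_disjoint hF hin (G.dm_in hT) (i := N) (j := n) h2 G.mem ?_).1
      rw [e', G.it]
      exact Or.inl rfl
    · rw [← pvas_it_add] at e'
      refine hno _ (fun k' hk' => ?_) e'
      rcases Nat.lt_or_ge k' (k₀ + 1) with h | h
      · exact hK1 k' h
      · obtain ⟨i, rfl⟩ := Nat.exists_eq_add_of_le h
        rw [pvas_it_add]
        intro e2
        exact hu (e2 ▸ pvwe_src_vof (h2 i (by omega)))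

/-- **CLEAN, FORWARDS**: as long as the marker has not been visited the black bank of the strand from `dp` meets the closed disc of the gate at `src dp` only -/
theorem pvwe_clean_fwd (hT : T.IsSph) {c : T.Cyc} (hc : c.IsRim s) (G : PvweGate T s S dm dp n) (hw : T.Wall s (T.opp (c.e 0)) dp) {j r₀ rm : ℕ} (hj : T.src (c.e j) = T.src dp)
    (h0 : r₀ < rm) (hm : rm < c.n) (hgm : T.src (c.e (j + rm)) = T.src dm) (hu : T.src (c.e (j + r₀)) ∉ T.VOf S.Left)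
    {K : ℕ} (hK : ∀ k, k < K → T.src (pvasIt T s dp k) ≠ T.src (c.e (j + r₀))) {k : ℕ} (hk : k ≤ K) (hv : T.src (pvasIt T s dp k) ∈ T.VOf S.Left) :
    T.src (pvasIt T s dp k) = T.src dp := by
  rcases G.on hT (pvas_it_bw G.bw_p k) (pvwe_once_fwd hT hc G hw hj h0 hm hgm hu hK k hk) hv with e | e
  · exact e
  · exfalso
    obtain ⟨r, hr, e1⟩ := pvwe_fwd_vert hT hc G.bw_p hw hj (fun k' hk' => hK k' (by omega)) (k := k) ⟨j + rm, by rw [hgm, e]⟩
    rw [e, ← hgm] at e1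
    have := pvwe_idx c e1 hm (by omega)
    omega

theorem pvwe_back_it {x : D} (hx : pvasBW T s x) {N : ℕ} : ∀ m, m ≤ N → (pvasBack T s)^[m] (pvasIt T s x N) = pvasIt T s x (N - m) := by
  intro m
  induction m with
  | zero => intro _; rfl
  | succ m ih =>
    intro hm
    rw [pvwe_back_succ, ih (by omega)]
    obtain ⟨l, hl⟩ : ∃ l, N - m = l + 1 := ⟨N - m - 1, by omega⟩
    rw [hl, pvas_it_back hx, show N - (m + 1) = l by omega]

/-- **THE GATE IS PASSED ONCE, BACKWARDS**.   `src dm` = the vertex number `j`, `src dp` = the vertex number `j - rp`, MARKER = the vertex number `j - r₀`, `r₀ < rp < c.n`, off the closed disc of the gate. -/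
theorem pvwe_once_bwd (hT : T.IsSph) {c : T.Cyc} (hc : c.IsRim s) (G : PvweGate T s S dm dp n) (hw : T.Wall s (T.opp (c.e 0)) dm) {j r₀ rp : ℕ} (hj : T.src (c.e j) = T.src dm)
    (h0 : r₀ < rp) (hp : rp < c.n) (hgp : T.src (c.e (pvweB c j rp)) = T.src dp) (hu : T.src (c.e (pvweB c j r₀)) ∉ T.VOf S.Left)
    {K : ℕ} (hK : ∀ k, k < K → T.src ((pvasBack T s)^[k] dm) ≠ T.src (c.e (pvweB c j r₀))) : ∀ k, 1 ≤ k → k ≤ K → (pvasBack T s)^[k] dm ∉ S.Left := by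
  have hF := pl_left_face S
  have hno : ∀ k, (∀ k', k' < k → T.src ((pvasBack T s)^[k'] dm) ≠ T.src (c.e (pvweB c j r₀))) → T.src ((pvasBack T s)^[k] dm) ≠ T.src dp := by
    intro k hk e
    obtain ⟨r, hr, e1⟩ := pvwe_bwd_vert hT hc G.bw_m hw hj hk ⟨pvweB c j rp, by rw [hgp, e]⟩
    rw [e, ← hgp] at e1
    have := pvwe_B_idx c e1 hp (by omega)
    omega
  by_contra hcon
  have hex : ∃ k, 1 ≤ k ∧ k ≤ K ∧ (pvasBack T s)^[k] dm ∈ S.Left := by
    by_contra h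
    exact hcon fun k hk1 hk hmem => h ⟨k, hk1, hk, hmem⟩
  classical
  obtain ⟨hk0, hk1, hk2⟩ := Nat.find_spec hex
  have hmin : ∀ k, 1 ≤ k → k < Nat.find hex → (pvasBack T s)^[k] dm ∉ S.Left := fun k h1 hk hmem => Nat.find_min hex hk ⟨h1, by omega, hmem⟩
  generalize Nat.find hex = k₁ at hk0 hk1 hk2 hmin
  have hk1' : k₁ ≠ 1 := by
    rintro rfl
    have h1 : pvasBack T s dm ∈ S.Left := hk2
    rw [hF.sf T (pvas_back_sf s dm)] at h1
    exact (G.dm_in hT).2.1 h1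
  obtain ⟨k₀, rfl⟩ : ∃ k₀, k₁ = k₀ + 1 := ⟨k₁ - 1, by omega⟩
  have hout : pvasOut T S.Left s ((pvasBack T s)^[k₀] dm) := by
    refine ⟨hmin k₀ (by omega) (by omega), ?_, pvwk_back_bw G.bw_m _⟩
    rw [← pvwe_back_step G.bw_m k₀, pvas_step_opp_mem hF]
    exact hk2
  have hK1 : ∀ k', k' < k₀ + 1 → T.src ((pvasBack T s)^[k'] dm) ≠ T.src (c.e (pvweB c j r₀)) := fun k' hk' => hK k' (by omega)
  rcases G.ext hT hout with e | e
  · exact hno k₀ (fun k' hk' => hK1 k' (by omega)) (by rw [e])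
  · have hne : (pvasBack T s)^[k₀] dm ≠ dp := fun h => G.ne (by rw [← e, h])
    obtain ⟨x, hx, hxy⟩ := (pvas_exit_bij hF G.fin s).surjOn hout
    have hx' : pvasIn T S.Left s x := hx
    obtain ⟨h1, h2, -⟩ := pvas_exit_spec hF G.fin hx'
    unfold pvasExit at hxy
    generalize pvasHit T s x S.Leftᶜ = N at h1 h2 hxy
    have hb : ∀ m, m ≤ N → (pvasBack T s)^[m + k₀] dm = pvasIt T s x (N - m) := by
      intro m hm
      rw [Function.iterate_add_apply, ← hxy]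
      exact pvwe_back_it hx'.2.2 m hm
    rcases G.ent hT hx' with e' | e'
    · apply hne
      rw [← hxy, e']
      by_contra hne2
      -- both `N` and `n` are the exit time of `dm`
      have hN : pvasHit T s dm S.Leftᶜ = N := (pvas_exit_eq (A := S.Left) (by rw [← e']; exact h2) (by rw [← e', hxy]; exact hout.1)).1
      have hn : pvasHit T s dm S.Leftᶜ = n := (pvas_exit_eq (A := S.Left) G.mem (by rw [G.it]; exact (G.dp_out hT).1)).1
      rw [← hN, hn, G.it] at hne2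
      exact hne2 rfl
    · refine hno (N + k₀) (fun k' hk' => ?_) (by rw [hb N le_rfl, Nat.sub_self]; exact e')
      rcases Nat.lt_or_ge k' (k₀ + 1) with h | h
      · exact hK1 k' h
      · obtain ⟨m, rfl⟩ : ∃ m, k' = m + k₀ := ⟨k' - k₀, by omega⟩
        rw [hb m (by omega)]
        intro e2
        exact hu (e2 ▸ pvwe_src_vof (h2 (N - m) (by omega)))

/-- **CLEAN, BACKWARDS** -/
theorem pvwe_clean_bwd (hT : T.IsSph) {c : T.Cyc} (hc : c.IsRim s) (G : PvweGate T s S dm dp n) (hw : T.Wall s (T.opp (c.e 0)) dm) {j r₀ rp : ℕ} (hj : T.src (c.e j) = T.src dm)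
    (h0 : r₀ < rp) (hp : rp < c.n) (hgp : T.src (c.e (pvweB c j rp)) = T.src dp) (hu : T.src (c.e (pvweB c j r₀)) ∉ T.VOf S.Left)
    {K : ℕ} (hK : ∀ k, k < K → T.src ((pvasBack T s)^[k] dm) ≠ T.src (c.e (pvweB c j r₀))) {k : ℕ} (hk : k ≤ K) (hv : T.src ((pvasBack T s)^[k] dm) ∈ T.VOf S.Left) :
    T.src ((pvasBack T s)^[k] dm) = T.src dm := by
  rcases Nat.eq_zero_or_pos k with rfl | hk0
  · rfl
  rcases G.on hT (pvwk_back_bw G.bw_m k) (pvwe_once_bwd hT hc G hw hj h0 hp hgp hu hK k hk0 hk) hv with e | e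
  · exfalso
    obtain ⟨r, hr, e1⟩ := pvwe_bwd_vert hT hc G.bw_m hw hj (fun k' hk' => hK k' (by omega)) (k := k) ⟨pvweB c j rp, by rw [hgp, e]⟩
    rw [e, ← hgp] at e1
    have := pvwe_B_idx c e1 hp (by omega)
    omega
  · exact e

end gate

/-! ## 4. a pin on a rim -/

section pin

variable {pos : V → ℂ} {h : ℝ} {z : ℂ} {τ : PvwTy} {σ : V → Bool} {𝔖 : PvwSt T} {c : T.Cyc} {j : ℕ}

/-- a gate of record is an abstract gate -/
theorem pvwe_gate (hG : 𝔖.Gate pos h z τ σ) : ∃ n, PvweGate T σ 𝔖.S 𝔖.dm 𝔖.dp n := by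
  obtain ⟨n, h1, h2, -⟩ := hG.strand
  exact ⟨n, hG.fin, hG.dm_on, hG.dp_on, hG.bw_m, hG.bw_p, hG.two, hG.ne, h1, h2⟩

/-- the vertices of a path which runs along the cycle from the place `j` -/
theorem pvwe_arc_v {p : T.Pth} (run : ∀ i, i < p.n → c.e (j + i) = p.e i) {k : ℕ} (hk : k ≤ p.n) (hp : 0 < p.n) : T.src (c.e (j + k)) = p.v k := by
  rcases Nat.lt_or_ge k p.n with h1 | h1
  · rw [run k h1, p.src_e k h1]
  · obtain ⟨k', rfl⟩ : ∃ k', k = k' + 1 := ⟨k - 1, by omega⟩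
    rw [← Nat.add_assoc, ← c.chain, run k' (by omega), p.tgt_e k' (by omega)]

/-- the two gate edges of a pin of the rim `c` are positions of the wall of `c` -/
theorem pvwe_pin_wall (hS : T.Simple) (hc : c.IsRim σ) (hI : 𝔖.Inner σ) (run : ∀ i, i < 𝔖.inn.n → c.e (j + i) = 𝔖.inn.e i) :
    T.Wall σ (T.opp (c.e 0)) 𝔖.dm ∧ T.Wall σ (T.opp (c.e 0)) 𝔖.dp := by
  obtain ⟨h1, h2⟩ := pvwc_inner_onwall hS hI
  have hp := (pvwc_inner_ends hI).2.2
  have h3 : T.Wall σ 𝔖.dm (T.opp (c.e (j + 0))) := by rw [run 0 hp]; exact (h1 0 hp).2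
  have h4 : T.Wall σ (T.opp (c.e 0)) 𝔖.dm := pl_ra_wall_trans (pl_rim_lab hc (j + 0)).2.2.1 (pl_ra_wall_symm h3)
  exact ⟨h4, pl_ra_wall_trans h4 h2⟩

/-- **A PIN, FORWARDS**.   `𝔖` a gate for `σ`, the rim `c` runs through it along the inner arc from the place `j`;   MARKER = the vertex number `j + a` of `c`, `inn.n < a < c.n`, off the closed inside `ins` of the gate.
As long as the marker has not been visited, the strand from `dp` stays outside the gate, its black bank meets `ins` at `g⁺` only and meets the rim on the arc `j + inn.n … j + a` only. -/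
theorem pvwe_pin_fwd (hT : T.IsSph) (hS : T.Simple) (hc : c.IsRim σ) (hG : 𝔖.Gate pos h z τ σ) (run : ∀ i, i < 𝔖.inn.n → c.e (j + i) = 𝔖.inn.e i)
    {a : ℕ} (ha1 : 𝔖.inn.n < a) (ha2 : a < c.n) (hu : T.src (c.e (j + a)) ∉ 𝔖.ins) {K : ℕ} (hK : ∀ k, k < K → T.src (pvasIt T σ 𝔖.dp k) ≠ T.src (c.e (j + a))) {k : ℕ} (hk : k ≤ K) :
    pvasIt T σ 𝔖.dp k ∉ 𝔖.S.Left ∧ (T.src (pvasIt T σ 𝔖.dp k) ∈ 𝔖.ins → T.src (pvasIt T σ 𝔖.dp k) = 𝔖.gp) ∧
      (T.src (pvasIt T σ 𝔖.dp k) ∈ c.verts → ∃ a', 𝔖.inn.n ≤ a' ∧ a' ≤ a ∧ T.src (pvasIt T σ 𝔖.dp k) = T.src (c.e (j + a'))) := by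
  obtain ⟨n, G⟩ := pvwe_gate hG
  have hI : 𝔖.Inner σ := pvwc_inner_of_gate hT hG (fun _ _ => rfl)
  obtain ⟨e0, e1, hp⟩ := pvwc_inner_ends hI
  have hw := (pvwe_pin_wall hS hc hI run).2
  have hj : T.src (c.e (j + 𝔖.inn.n)) = T.src 𝔖.dp := by rw [pvwe_arc_v run le_rfl hp, e1]; rfl
  have hgm : T.src (c.e (j + 𝔖.inn.n + (c.n - 𝔖.inn.n))) = T.src 𝔖.dm := by
    rw [show j + 𝔖.inn.n + (c.n - 𝔖.inn.n) = j + 0 + c.n by omega, c.per, pvwe_arc_v run (Nat.zero_le _) hp, e0]; rfl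
  have ea : j + 𝔖.inn.n + (a - 𝔖.inn.n) = j + a := by omega
  have hu' : T.src (c.e (j + 𝔖.inn.n + (a - 𝔖.inn.n))) ∉ T.VOf 𝔖.S.Left := by rw [ea]; exact hu
  have hK' : ∀ k, k < K → T.src (pvasIt T σ 𝔖.dp k) ≠ T.src (c.e (j + 𝔖.inn.n + (a - 𝔖.inn.n))) := by rw [ea]; exact hK
  refine ⟨pvwe_once_fwd hT hc G hw hj (by omega) (by omega) hgm hu' hK' k hk, fun hv => pvwe_clean_fwd hT hc G hw hj (by omega) (by omega) hgm hu' hK' hk hv, fun hv => ?_⟩
  obtain ⟨r, hr, e⟩ := pvwe_fwd_vert hT hc G.bw_p hw hj (fun k' hk' => hK' k' (by omega)) hv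
  exact ⟨𝔖.inn.n + r, by omega, by omega, by rw [e, Nat.add_assoc]⟩

/-- **A PIN, BACKWARDS**.   Same marker.   As long as the marker has not been visited, the strand followed backwards from `dm` stays outside the gate, its black bank meets `ins` at `g⁻` only and meets the rim on the arc `j + a … j + c.n` only. -/
theorem pvwe_pin_bwd (hT : T.IsSph) (hS : T.Simple) (hc : c.IsRim σ) (hG : 𝔖.Gate pos h z τ σ) (run : ∀ i, i < 𝔖.inn.n → c.e (j + i) = 𝔖.inn.e i)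
    {a : ℕ} (ha1 : 𝔖.inn.n < a) (ha2 : a < c.n) (hu : T.src (c.e (j + a)) ∉ 𝔖.ins) {K : ℕ} (hK : ∀ k, k < K → T.src ((pvasBack T σ)^[k] 𝔖.dm) ≠ T.src (c.e (j + a))) {k : ℕ} (hk : k ≤ K) :
    (1 ≤ k → (pvasBack T σ)^[k] 𝔖.dm ∉ 𝔖.S.Left) ∧ (T.src ((pvasBack T σ)^[k] 𝔖.dm) ∈ 𝔖.ins → T.src ((pvasBack T σ)^[k] 𝔖.dm) = 𝔖.gm) ∧
      (T.src ((pvasBack T σ)^[k] 𝔖.dm) ∈ c.verts → ∃ a', a ≤ a' ∧ a' ≤ c.n ∧ T.src ((pvasBack T σ)^[k] 𝔖.dm) = T.src (c.e (j + a'))) := by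
  obtain ⟨n, G⟩ := pvwe_gate hG
  have hI : 𝔖.Inner σ := pvwc_inner_of_gate hT hG (fun _ _ => rfl)
  obtain ⟨e0, e1, hp⟩ := pvwc_inner_ends hI
  have hw := (pvwe_pin_wall hS hc hI run).1
  have hj : T.src (c.e j) = T.src 𝔖.dm := by
    have := pvwe_arc_v run (Nat.zero_le _) hp
    rw [Nat.add_zero] at this
    rw [this, e0]; rfl
  have hgp : T.src (c.e (pvweB c j (c.n - 𝔖.inn.n))) = T.src 𝔖.dp := by
    rw [pvwe_B_compl c j (by omega), pvwe_arc_v run le_rfl hp, e1]; rfl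
  have ea : c.e (pvweB c j (c.n - a)) = c.e (j + a) := pvwe_B_compl c j (by omega)
  have hu' : T.src (c.e (pvweB c j (c.n - a))) ∉ T.VOf 𝔖.S.Left := by rw [ea]; exact hu
  have hK' : ∀ k, k < K → T.src ((pvasBack T σ)^[k] 𝔖.dm) ≠ T.src (c.e (pvweB c j (c.n - a))) := by rw [ea]; exact hK
  refine ⟨fun h1 => pvwe_once_bwd hT hc G hw hj (by omega) (by omega) hgp hu' hK' k h1 hk, fun hv => pvwe_clean_bwd hT hc G hw hj (by omega) (by omega) hgp hu' hK' hk hv, fun hv => ?_⟩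
  obtain ⟨r, hr, e⟩ := pvwe_bwd_vert hT hc G.bw_m hw hj (fun k' hk' => hK' k' (by omega)) hv
  refine ⟨c.n - r, by omega, by omega, ?_⟩
  rw [e, ← pvwe_B_compl c j (show c.n - r ≤ c.n by omega), show c.n - (c.n - r) = r by omega]

/-- **THE EXIT STUB OF A PIN IS CLEAN** (producer of `GoodOut.off_p`): marker outside the box -/
theorem pvwe_stubP (hT : T.IsSph) (hS : T.Simple) (hc : c.IsRim σ) (hG : 𝔖.Gate pos h z τ σ) (run : ∀ i, i < 𝔖.inn.n → c.e (j + i) = 𝔖.inn.e i)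
    {B : Set ℂ} (hSt : 𝔖.StubP pos B σ) {a : ℕ} (ha1 : 𝔖.inn.n < a) (ha2 : a < c.n) (hu : T.src (c.e (j + a)) ∉ 𝔖.ins) (hB : pos (T.src (c.e (j + a))) ∉ B) :
    (∀ i, i ≤ 𝔖.np → 𝔖.ep i ∉ 𝔖.S.Left) ∧ (∀ v ∈ 𝔖.bkP, v ∈ 𝔖.ins → v = 𝔖.gp) ∧ ∀ v ∈ 𝔖.bkP, v ∈ c.verts → ∃ a', 𝔖.inn.n ≤ a' ∧ a' < a ∧ v = T.src (c.e (j + a')) := by
  have hK : ∀ k, k < 𝔖.np + 1 → T.src (pvasIt T σ 𝔖.dp k) ≠ T.src (c.e (j + a)) := by
    intro k hk e
    apply hB
    rw [← e, ← hSt.ep_it k (by omega)]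
    exact (hSt.ep_in k (by omega)).1
  have key := fun (k : ℕ) (hk : k ≤ 𝔖.np) => pvwe_pin_fwd hT hS hc hG run ha1 ha2 hu hK (k := k) (by omega)
  refine ⟨fun i hi => by rw [hSt.ep_it i hi]; exact (key i hi).1, ?_, ?_⟩
  · rintro v ⟨i, hi, rfl⟩ hv
    rw [hSt.ep_it i hi] at hv ⊢
    exact (key i hi).2.1 hv
  · rintro v ⟨i, hi, rfl⟩ hv
    rw [hSt.ep_it i hi] at hv ⊢
    obtain ⟨a', h1, h2, e⟩ := (key i hi).2.2 hv
    refine ⟨a', h1, ?_, e⟩
    rcases Nat.lt_or_ge a' a with h3 | h3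
    · exact h3
    · obtain rfl : a' = a := by omega
      exact absurd e (hK i (by omega))

/-- **THE ENTRANCE STUB OF A PIN IS CLEAN** (producer of `GoodIn.off_m`) -/
theorem pvwe_stubM (hT : T.IsSph) (hS : T.Simple) (hc : c.IsRim σ) (hG : 𝔖.Gate pos h z τ σ) (run : ∀ i, i < 𝔖.inn.n → c.e (j + i) = 𝔖.inn.e i)
    {B : Set ℂ} (hSt : 𝔖.StubM pos B σ) {a : ℕ} (ha1 : 𝔖.inn.n < a) (ha2 : a < c.n) (hu : T.src (c.e (j + a)) ∉ 𝔖.ins) (hB : pos (T.src (c.e (j + a))) ∉ B) :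
    (∀ i, i ≤ 𝔖.nm → T.opp (𝔖.em i) ∉ 𝔖.S.Left) ∧ (∀ v ∈ 𝔖.bkM, v ∈ 𝔖.ins → v = 𝔖.gm) ∧ ∀ v ∈ 𝔖.bkM, v ∈ c.verts → ∃ a', a < a' ∧ a' ≤ c.n ∧ v = T.src (c.e (j + a')) := by
  have hK : ∀ k, k < 𝔖.nm + 1 → T.src ((pvasBack T σ)^[k] 𝔖.dm) ≠ T.src (c.e (j + a)) := by
    intro k hk e
    apply hB
    rw [← e, ← hSt.em_it k (by omega)]
    exact (hSt.em_in k (by omega)).1
  have key := fun (k : ℕ) (hk : k ≤ 𝔖.nm + 1) => pvwe_pin_bwd hT hS hc hG run ha1 ha2 hu hK (k := k) hk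
  refine ⟨fun i hi hmem => ?_, ?_, ?_⟩
  · refine (key (i + 1) (by omega)).1 (by omega) ?_
    rw [pvwe_back_succ, (pl_left_face 𝔖.S).sf T (pvas_back_sf σ _), ← hSt.em_it i hi]
    exact hmem
  · rintro v ⟨i, hi, rfl⟩ hv
    rw [hSt.em_it i hi] at hv ⊢
    exact (key i (by omega)).2.1 hv
  · rintro v ⟨i, hi, rfl⟩ hv
    rw [hSt.em_it i hi] at hv ⊢
    obtain ⟨a', h1, h2, e⟩ := (key i (by omega)).2.2 hv
    refine ⟨a', ?_, h2, e⟩
    rcases Nat.lt_or_ge a a' with h3 | h3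
    · exact h3
    · obtain rfl : a' = a := by omega
      exact absurd e (hK i (by omega))

end pin

/-! ## 5. two pins of one rim: the ACTUAL datum -/

/-- **THE SCENE OF AN ACTUAL DATUM**, pattern free, field by field what `PvfyPre` (62) / `PvwDat.Actual` + the gates and stubs AT THE ACTUAL COLOURING give.      `j` = the place of `g⁻(s)` on the rim `c`;  `Bs`, `Bt` = the boxes of the two stubs -/
structure PvweScene (T : PvMap V D) (pos : V → ℂ) (h : ℝ) (zs zt : ℂ) (τs τt : PvwTy) (Bs Bt : Set ℂ) (σ : V → Bool) (c : T.Cyc) (j : ℕ) (𝔇 : PvwDat T) : Prop where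
  rim : c.IsRim σ
  black : σ (T.src (c.e 0)) = true
  gate_s : 𝔇.s.Gate pos h zs τs σ
  gate_t : 𝔇.t.Gate pos h zt τt σ
  stub_s : 𝔇.s.StubM pos Bs σ
  stub_t : 𝔇.t.StubP pos Bt σ
  run_s : ∀ i, i < 𝔇.s.inn.n → c.e (j + i) = 𝔇.s.inn.e i
  arc : ∀ i, i < 𝔇.g.n → c.e (j + 𝔇.s.inn.n + i) = 𝔇.g.e i
  run_t : ∀ i, i < 𝔇.t.inn.n → c.e (j + 𝔇.s.inn.n + 𝔇.g.n + i) = 𝔇.t.inn.e i
  pos_n : 0 < 𝔇.g.n
  /-- the three arcs `inner(s) . g₀ . inner(t)` do not wrap round the rim -/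
  short : 𝔇.s.inn.n + 𝔇.g.n + 𝔇.t.inn.n < c.n
  core : Disjoint 𝔇.s.core 𝔇.t.core
  /-- `g⁺(t)` is outside the box of the stub `Σ⁻(s)`, `g⁻(s)` is outside the box of the stub `Σ⁺(t)` -/
  far_s : pos 𝔇.t.gp ∉ Bs
  far_t : pos 𝔇.s.gm ∉ Bt

section scene

variable {pos : V → ℂ} {h : ℝ} {zs zt : ℂ} {τs τt : PvwTy} {Bs Bt : Set ℂ} {σ : V → Bool} {c : T.Cyc} {j : ℕ} {𝔇 : PvwDat T}

theorem pvwe_gate_core (hT : T.IsSph) {𝔖 : PvwSt T} {z : ℂ} {τ : PvwTy} (hG : 𝔖.Gate pos h z τ σ) : 𝔖.gm ∈ 𝔖.core ∧ 𝔖.gp ∈ 𝔖.core :=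
  ⟨pvwk_ins_sub_core hG (pvwk_gate_ends hT hG).2.2.1, pvwk_ins_sub_core hG (pvwk_gate_ends hT hG).1⟩

/-- the places on the rim of the four gate vertices and of the vertices of `g₀` -/
theorem PvweScene.idx (hT : T.IsSph) (H : PvweScene T pos h zs zt τs τt Bs Bt σ c j 𝔇) :
    0 < 𝔇.s.inn.n ∧ 0 < 𝔇.t.inn.n ∧ T.src (c.e j) = 𝔇.s.gm ∧ T.src (c.e (j + 𝔇.s.inn.n)) = 𝔇.s.gp ∧ T.src (c.e (j + 𝔇.s.inn.n + 𝔇.g.n)) = 𝔇.t.gm ∧
      T.src (c.e (j + 𝔇.s.inn.n + 𝔇.g.n + 𝔇.t.inn.n)) = 𝔇.t.gp ∧ ∀ k, k ≤ 𝔇.g.n → T.src (c.e (j + 𝔇.s.inn.n + k)) = 𝔇.g.v k := by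
  obtain ⟨s0, s1, sp⟩ := pvwc_inner_ends (pvwc_inner_of_gate hT H.gate_s (fun _ _ => rfl))
  obtain ⟨t0, t1, tp⟩ := pvwc_inner_ends (pvwc_inner_of_gate hT H.gate_t (fun _ _ => rfl))
  refine ⟨sp, tp, ?_, ?_, ?_, ?_, fun k hk => pvwe_arc_v H.arc hk H.pos_n⟩
  · have := pvwe_arc_v H.run_s (Nat.zero_le _) sp
    rwa [Nat.add_zero, s0] at this
  · rw [pvwe_arc_v H.run_s le_rfl sp, s1]
  · have := pvwe_arc_v H.run_t (Nat.zero_le _) tp
    rwa [Nat.add_zero, t0] at this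
  · rw [pvwe_arc_v H.run_t le_rfl tp, t1]

/-- the exit stub of `t` -/
theorem PvweScene.out_t (hT : T.IsSph) (hS : T.Simple) (H : PvweScene T pos h zs zt τs τt Bs Bt σ c j 𝔇) :
    (∀ i, i ≤ 𝔇.t.np → 𝔇.t.ep i ∉ 𝔇.t.S.Left) ∧ (∀ v ∈ 𝔇.t.bkP, v ∈ 𝔇.t.ins → v = 𝔇.t.gp) ∧
      ∀ v ∈ 𝔇.t.bkP, v ∈ c.verts → ∃ a', 𝔇.t.inn.n ≤ a' ∧ a' < c.n - 𝔇.s.inn.n - 𝔇.g.n ∧ v = T.src (c.e (j + 𝔇.s.inn.n + 𝔇.g.n + a')) := by
  obtain ⟨sp, tp, e1, e2, e3, e4, e5⟩ := H.idx hT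
  have hsh := H.short
  have em : T.src (c.e (j + 𝔇.s.inn.n + 𝔇.g.n + (c.n - 𝔇.s.inn.n - 𝔇.g.n))) = 𝔇.s.gm := by
    rw [show j + 𝔇.s.inn.n + 𝔇.g.n + (c.n - 𝔇.s.inn.n - 𝔇.g.n) = j + c.n by omega, c.per, e1]
  refine pvwe_stubP hT hS H.rim H.gate_t H.run_t H.stub_t (by omega) (by omega) ?_ ?_
  · rw [em]
    exact fun hm => Set.disjoint_left.1 H.core (pvwe_gate_core hT H.gate_s).1 (pvwk_ins_sub_core H.gate_t hm)
  · rw [em]
    exact H.far_t

/-- the entrance stub of `s` -/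
theorem PvweScene.in_s (hT : T.IsSph) (hS : T.Simple) (H : PvweScene T pos h zs zt τs τt Bs Bt σ c j 𝔇) :
    (∀ i, i ≤ 𝔇.s.nm → T.opp (𝔇.s.em i) ∉ 𝔇.s.S.Left) ∧ (∀ v ∈ 𝔇.s.bkM, v ∈ 𝔇.s.ins → v = 𝔇.s.gm) ∧
      ∀ v ∈ 𝔇.s.bkM, v ∈ c.verts → ∃ a', 𝔇.s.inn.n + 𝔇.g.n + 𝔇.t.inn.n < a' ∧ a' ≤ c.n ∧ v = T.src (c.e (j + a')) := by
  obtain ⟨sp, tp, e1, e2, e3, e4, e5⟩ := H.idx hT
  have hsh := H.short
  have em : T.src (c.e (j + (𝔇.s.inn.n + 𝔇.g.n + 𝔇.t.inn.n))) = 𝔇.t.gp := by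
    rw [show j + (𝔇.s.inn.n + 𝔇.g.n + 𝔇.t.inn.n) = j + 𝔇.s.inn.n + 𝔇.g.n + 𝔇.t.inn.n by omega, e4]
  refine pvwe_stubM hT hS H.rim H.gate_s H.run_s H.stub_s (by omega) hsh ?_ ?_
  · rw [em]
    exact fun hm => Set.disjoint_left.1 H.core (pvwk_ins_sub_core H.gate_s hm) (pvwe_gate_core hT H.gate_t).2
  · rw [em]
    exact H.far_s

/-- **(DISJ)** = the field `disj` of `PvwDat.Ok` (v2: END POINTS INCLUDED), a fortiori the field `disj` of `PvfyStr`: the arc `g₀` of the rim is vertex-disjoint from the banks of `Σ⁺(t)`, `Σ⁻(s)` -/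
theorem PvweScene.disj (hT : T.IsSph) (hS : T.Simple) (H : PvweScene T pos h zs zt τs τt Bs Bt σ c j 𝔇) :
    ∀ v ∈ 𝔇.g.verts, v ∉ 𝔇.t.bkP ∧ v ∉ 𝔇.t.whP ∧ v ∉ 𝔇.s.bkM ∧ v ∉ 𝔇.s.whM := by
  obtain ⟨sp, tp, e1, e2, e3, e4, e5⟩ := H.idx hT
  have hsh := H.short
  rintro v ⟨k, hk, rfl⟩
  have hbl : σ (𝔇.g.v k) = true := by rw [← e5 k hk, pl_rim_col H.rim _ 0]; exact H.black
  have hv : 𝔇.g.v k ∈ c.verts := ⟨_, e5 k hk⟩
  refine ⟨fun hm => ?_, ?_, fun hm => ?_, ?_⟩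
  · obtain ⟨a', h1, h2, e⟩ := (H.out_t hT hS).2.2 _ hm hv
    rcases Nat.lt_or_ge k 𝔇.g.n with hk' | hk'
    · have e6 : T.src (c.e (j + 𝔇.s.inn.n + 𝔇.g.n + (c.n - 𝔇.g.n + k))) = 𝔇.g.v k := by
        rw [show j + 𝔇.s.inn.n + 𝔇.g.n + (c.n - 𝔇.g.n + k) = j + 𝔇.s.inn.n + k + c.n by omega, c.per, e5 k hk]
      have := pvwe_idx c (e6.trans e) (by omega) (by omega)
      omega
    · obtain rfl : k = 𝔇.g.n := by omega
      have e6 : T.src (c.e (j + 𝔇.s.inn.n + 𝔇.g.n + 0)) = 𝔇.g.v 𝔇.g.n := e5 _ le_rfl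
      have := pvwe_idx c (e6.trans e) (by omega) (by omega)
      omega
  · rintro ⟨i, hi, e⟩
    have := (pvas_it_bw H.gate_t.bw_p i).2
    rw [← H.stub_t.ep_it i hi, e, hbl] at this
    exact Bool.noConfusion this
  · obtain ⟨a', h1, h2, e⟩ := (H.in_s hT hS).2.2 _ hm hv
    have e6 : T.src (c.e (j + (𝔇.s.inn.n + k))) = 𝔇.g.v k := by rw [← Nat.add_assoc, e5 k hk]
    rcases Nat.lt_or_ge a' c.n with ha | ha
    · have := pvwe_idx c (e6.trans e) (by omega) ha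
      omega
    · obtain rfl : a' = c.n := by omega
      have e7 : T.src (c.e (j + c.n)) = T.src (c.e (j + 0)) := by rw [c.per, Nat.add_zero]
      have := pvwe_idx c (e6.trans (e.trans e7)) (by omega) (by omega)
      omega
  · rintro ⟨i, hi, e⟩
    have := (pvwk_back_bw H.gate_s.bw_m i).2
    rw [← H.stub_s.em_it i hi, e, hbl] at this
    exact Bool.noConfusion this

end scene

end Claimed.Agent.R289
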