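-- KEEP
import Claimed.Agent.R289.Tr.FitRoof
import Claimed.Agent.R289.Tr.StKit
import Claimed.Agent.R289.Tr.AccK
import Claimed.Agent.R289.Tr.Pieces

/-!
# Row 289 (S0537, Cardy for Poisson-Voronoi), THE WALL, road E, FIT-DET, file Tr/FitScene : PRODUCERS OF THE SCENE OF `Tr/FitRoof`      (owner helper92, post of 24 10:19Z; prefix `pvsn_`, `Pvsn`)

CONSUMER: 62 (`Tr/FitRoof`: `PvfyStr`, `PvfyObs`, `PvfyScene`), through the lift of 49 (`Tr/FitLift`): EVERYTHING HERE IS FOR AN ABSTRACT `T : PvMap V D` (a completion), DETERMINISTIC.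
SPLIT (10:33Z): `conn` = 119 (`Tr/AccK`);   `disj` (black banks) = 64 (`Tr/Pieces`);   HERE: `out`, `tip_f`, white half of `disj`, `near`, `ball`, (M1) `m1_s m1_t` for the default obstacle `K = 𝔇.pvfyK pos`, and the ASSEMBLY.

* sec. 1  squares: convex, monotone, balls in squares, two far squares
* sec. 2  the frozen faces: `pvsn_face_ep`, `pvsn_face_em`, `pvsn_face_core` (in the box of the pin), `pvsn_face_g` (within the mesh of a vertex of `g₀`);   **`pvsn_K_cases`**: a point of `K` lies in the box of `t`, in the box of `s`, or within `μ` of a vertex of `g₀`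
* sec. 3  **(M1)** `pvsn_m1_t`, `pvsn_m1_s` : `K ∩ closedBall x± ρ' ⊆ box` for EVERY `ρ'` with `ρ' + μ ≤ ρ h`   (at `ρ' = ρ h` the statement is FALSE for `K = pvfyK`: a right face of `g₀` at a rim vertex just outside the mouth reaches into it);   **`pvsn_ball`**
* sec. 4  **`out`** (SC3): `pvsn_int_iff` (a primal path off a circuit does not change side), `pvsn_out`
* sec. 5  (M1) in the form of 211 / 119 (`PvwDat.PvkzM1t`, `PvkzM1s` of `Tr/AccK`): `pvsn_M1t`, `pvsn_M1s` (inside a mouth `K` consists of faces of the stub)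
* sec. 6  (M1) AT ANY CENTRE, obstacle WITH THE TWO DISCS `pvkzKd` (Defs v3): `pvsn_M1t_at`, `pvsn_M1s_at`;   AT THE GRID CENTRES, every radius `ρ' + μ ≤ 2 ρ h`: **`pvsn_M1t_cp`**, **`pvsn_M1s_cm`**
* sec. 7  `out` RIM FREE (for the plane map of the model): `pvsn_out_fwd`, `pvsn_out_bwd`, **`pvsn_out_free`**;   **`pvsn_tip_f`** (field `tip_f`), `pvsn_disj_w` (white banks), `pvsn_fzIn_box`, `pvsn_fzOut_box`
* sec. 8  **`pvsn_scene_of_pre`** : `PvfyPre` (62) ⟹ `PvweScene` (64, `Tr/Pieces`);   **`pvsn_str`** : `PvfyPre` + mesh at the two tip faces + boxes apart ⟹ `PvfyStr` = (STR) WHOLE (`out` here, `disj` = `PvweScene.disj` of 64, `tip_f` here)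
ON `Tr/Defs` v3 (FROZEN).      `PvfyScene`, `PvfyFam.Cor` were withdrawn by 62 (11:00Z): no assembly here.
-/

set_option autoImplicit false

namespace Claimed.Agent.R289

open Set Relation

/-! ## 1. squares -/

section squares

variable {z z' w p q : ℂ} {r r' : ℝ}

theorem pvsn_sq_convex (z : ℂ) (r : ℝ) : Convex ℝ (pvwSq z r) := by
  intro a ha b hb s t hs ht hst
  obtain ⟨a1, a2⟩ := ha
  obtain ⟨b1, b2⟩ := hb
  rw [abs_le] at a1 a2 b1 b2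
  have e1 : (s • a + t • b - z).re = s * (a - z).re + t * (b - z).re := by
    have : z.re = (s + t) * z.re := by rw [hst, one_mul]
    simp only [Complex.sub_re, Complex.add_re, Complex.real_smul, Complex.mul_re, Complex.ofReal_re, Complex.ofReal_im, zero_mul, sub_zero]
    linear_combination -this
  have e2 : (s • a + t • b - z).im = s * (a - z).im + t * (b - z).im := by
    have : z.im = (s + t) * z.im := by rw [hst, one_mul]
    simp only [Complex.sub_im, Complex.add_im, Complex.real_smul, Complex.mul_im, Complex.ofReal_re, Complex.ofReal_im, zero_mul, add_zero]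
    linear_combination -this
  have hr : r = s * r + t * r := by rw [← add_mul, hst, one_mul]
  refine ⟨?_, ?_⟩
  · rw [e1, abs_le]
    constructor
    · have h1 := mul_le_mul_of_nonneg_left a1.1 hs
      have h2 := mul_le_mul_of_nonneg_left b1.1 ht
      linarith
    · have h1 := mul_le_mul_of_nonneg_left a1.2 hs
      have h2 := mul_le_mul_of_nonneg_left b1.2 ht
      linarith
  · rw [e2, abs_le]
    constructor
    · have h1 := mul_le_mul_of_nonneg_left a2.1 hs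
      have h2 := mul_le_mul_of_nonneg_left b2.1 ht
      linarith
    · have h1 := mul_le_mul_of_nonneg_left a2.2 hs
      have h2 := mul_le_mul_of_nonneg_left b2.2 ht
      linarith

theorem pvsn_sq_mono (h : r ≤ r') : pvwSq z r ⊆ pvwSq z r' := fun _ hw => ⟨hw.1.trans h, hw.2.trans h⟩

theorem pvsn_ball_sq (h : ‖w - z‖ ≤ r) : w ∈ pvwSq z r := ⟨(Complex.abs_re_le_norm _).trans h, (Complex.abs_im_le_norm _).trans h⟩

theorem pvsn_norm_le (w : ℂ) : ‖w‖ ≤ |w.re| + |w.im| := Complex.norm_le_abs_re_add_abs_im w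

theorem pvsn_sq_ball (h : w ∈ pvwSq z r) : ‖w - z‖ ≤ 2 * r := by
  have := pvsn_norm_le (w - z)
  linarith [h.1, h.2]

/-- two points of two squares: the centres are not much further apart than the points -/
theorem pvsn_sq_far (hp : p ∈ pvwSq z r) (hq : q ∈ pvwSq z' r') : ‖z - z'‖ ≤ 2 * (r + r' + ‖p - q‖) := by
  have h0 := pvsn_norm_le (z - z')
  have e1 : (z - z').re = -(p - z).re + (p - q).re + (q - z').re := by simp only [Complex.sub_re]; ring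
  have e2 : (z - z').im = -(p - z).im + (p - q).im + (q - z').im := by simp only [Complex.sub_im]; ring
  have a1 : |(z - z').re| ≤ r + ‖p - q‖ + r' := by
    rw [e1]
    refine (abs_add_le _ _).trans (add_le_add ((abs_add_le _ _).trans (add_le_add ?_ (Complex.abs_re_le_norm _))) hq.1)
    rw [abs_neg]; exact hp.1
  have a2 : |(z - z').im| ≤ r + ‖p - q‖ + r' := by
    rw [e2]
    refine (abs_add_le _ _).trans (add_le_add ((abs_add_le _ _).trans (add_le_add ?_ (Complex.abs_im_le_norm _))) hq.2)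
    rw [abs_neg]; exact hp.2
  linarith

end squares

/-! ## 2. the frozen faces -/

section faces

variable {V D : Type} {T : PvMap V D} {pos : V → ℂ} {N : PvwNum} {h μ : ℝ} {z zs zt : ℂ} {τ τs τt : PvwTy} {σ : V → Bool} {𝔖 : PvwSt T} {𝔇 : PvwDat T} {B : Set ℂ}

/-- a closed face lies in every convex set which contains its three vertices -/
theorem pvsn_face_sub {C : Set ℂ} (hC : Convex ℝ C) {d : D} (h1 : pos (T.src d) ∈ C) (h2 : pos (T.tgt d) ∈ C) (h3 : pos (T.apex d) ∈ C) : pvfyFace T pos d ⊆ C := by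
  unfold pvfyFace
  refine convexHull_min ?_ hC
  rintro x (rfl | rfl | rfl)
  · exact h1
  · exact h2
  · exact h3

/-- the faces of the exit stub (tip face excluded) lie in the box -/
theorem pvsn_face_ep (hB : Convex ℝ B) (st : 𝔖.StubP pos B σ) {i : ℕ} (hi : i < 𝔖.np) : pvfyFace T pos (𝔖.ep i) ⊆ B :=
  pvsn_face_sub hB (st.ep_in i hi.le).1 (st.ep_in i hi.le).2 (st.ep_ax i hi)

/-- the apex of the previous position is an end of the position -/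
theorem pvsn_back_apex (s : V → Bool) (d : D) : T.apex (pvasBack T s d) = T.src d ∨ T.apex (pvasBack T s d) = T.tgt d := by
  rcases pvas_back_cases s d with ⟨-, e⟩ | ⟨-, e⟩
  · left; rw [e, T.apex_nxt2, T.tgt_opp]
  · right; rw [e, T.apex_nxt, T.src_opp']

/-- the entry gate edge is a dart of the inside of the gate -/
theorem pvsn_dm_left (hg : 𝔖.Gate pos h z τ σ) : 𝔖.dm ∈ 𝔖.S.Left := by
  obtain ⟨n, h1, h2, -⟩ := hg.strand
  rcases Nat.eq_zero_or_pos n with h0 | h0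
  · exfalso
    rw [h0] at h1
    apply hg.ne
    show T.src 𝔖.dp = T.src 𝔖.dm
    rw [← h1]; rfl
  · exact h2 0 h0

/-- the faces of the inside of the gate lie in the ball `B(z, b h)` -/
theorem pvsn_face_core (hg : 𝔖.Gate pos h z τ σ) {d : D} (hd : d ∈ 𝔖.S.Left) : pvfyFace T pos d ⊆ Metric.closedBall z (τ.b * h) := by
  obtain ⟨a1, a2, a3⟩ := pvwk_vof (pl_left_face 𝔖.S) hd
  refine pvsn_face_sub (convex_closedBall z _) ?_ ?_ ?_
  · rw [Metric.mem_closedBall, dist_eq_norm]; exact (hg.inside _ a1).le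
  · rw [Metric.mem_closedBall, dist_eq_norm]; exact (hg.inside _ a2).le
  · rw [Metric.mem_closedBall, dist_eq_norm]; exact (hg.inside _ a3).le

/-- the faces of the inside of the gate lie in every square of half side `≥ b h` -/
theorem pvsn_face_core_sq (hg : 𝔖.Gate pos h z τ σ) {r : ℝ} (hr : τ.b * h ≤ r) {d : D} (hd : d ∈ 𝔖.S.Left) : pvfyFace T pos d ⊆ pvwSq z r := fun w hw => by
  have := pvsn_face_core hg hd hw
  rw [Metric.mem_closedBall, dist_eq_norm] at this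
  exact pvsn_ball_sq (this.trans hr)

/-- the faces of the entrance stub lie in the box (the face of the position `0` is a face of the gate) -/
theorem pvsn_face_em (hB : Convex ℝ B) (st : 𝔖.StubM pos B σ) (h0 : pvfyFace T pos 𝔖.dm ⊆ B) {i : ℕ} (hi : i ≤ 𝔖.nm) : pvfyFace T pos (𝔖.em i) ⊆ B := by
  rcases Nat.eq_zero_or_pos i with rfl | hp
  · rw [pvwk_em_zero st]; exact h0
  · obtain ⟨k, rfl⟩ : ∃ k, i = k + 1 := ⟨i - 1, by omega⟩
    refine pvsn_face_sub hB (st.em_in _ hi).1 (st.em_in _ hi).2 ?_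
    rw [pvwk_em_succ st (by omega)]
    rcases pvsn_back_apex σ (𝔖.em k) with e | e
    · rw [e]; exact (st.em_in k (by omega)).1
    · rw [e]; exact (st.em_in k (by omega)).2

/-- **MESH along `g₀`**: the two sides at the vertex number `i` of the right face of the edge number `i` of `g₀` are `≤ μ` -/
def PvsnMesh (T : PvMap V D) (pos : V → ℂ) (𝔇 : PvwDat T) (μ : ℝ) : Prop :=
  ∀ i, i < 𝔇.g.n → ‖pos (𝔇.g.v (i + 1)) - pos (𝔇.g.v i)‖ ≤ μ ∧ ‖pos (T.apex (T.opp (𝔇.g.e i))) - pos (𝔇.g.v i)‖ ≤ μ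

theorem pvsn_eqns_cite : True := by
  have := @PvsnMesh.eq_1
  trivial

/-- the mesh along `g₀` from the mesh of the edges at the vertices of `g₀` -/
theorem pvsn_mesh_of_edges (hm : ∀ d, T.src d ∈ 𝔇.g.verts → ‖pos (T.tgt d) - pos (T.src d)‖ ≤ μ) : PvsnMesh T pos 𝔇 μ := by
  intro i hi
  have hv : 𝔇.g.v i ∈ 𝔇.g.verts := ⟨i, hi.le, rfl⟩
  constructor
  · have := hm (𝔇.g.e i) (by rw [𝔇.g.src_e i hi]; exact hv)
    rwa [𝔇.g.src_e i hi, 𝔇.g.tgt_e i hi] at this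
  · have e1 : T.src (T.nxt (T.opp (𝔇.g.e i))) = 𝔇.g.v i := by rw [T.src_nxt, T.tgt_opp, 𝔇.g.src_e i hi]
    have := hm (T.nxt (T.opp (𝔇.g.e i))) (by rw [e1]; exact hv)
    rwa [e1, T.tgt_nxt] at this

/-- the right face of the edge number `i` of `g₀` lies within `μ` of the vertex number `i` -/
theorem pvsn_face_g (hm : PvsnMesh T pos 𝔇 μ) {i : ℕ} (hi : i < 𝔇.g.n) : pvfyFace T pos (T.opp (𝔇.g.e i)) ⊆ Metric.closedBall (pos (𝔇.g.v i)) μ := by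
  obtain ⟨m1, m2⟩ := hm i hi
  have hμ : 0 ≤ μ := (norm_nonneg _).trans m1
  refine pvsn_face_sub (convex_closedBall _ _) ?_ ?_ ?_
  · rw [T.src_opp', 𝔇.g.tgt_e i hi, Metric.mem_closedBall, dist_eq_norm]; exact m1
  · rw [T.tgt_opp, 𝔇.g.src_e i hi]; exact Metric.mem_closedBall_self hμ
  · rw [Metric.mem_closedBall, dist_eq_norm]; exact m2

/-- a right apex of `g₀` is within `μ` of a vertex of `g₀` (= the field `near` of `PvfyObs`) -/
theorem pvsn_near (hm : PvsnMesh T pos 𝔇 μ) : ∀ v ∈ 𝔇.apx, ∃ u ∈ 𝔇.g.verts, ‖pos v - pos u‖ ≤ μ := by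
  rintro v ⟨i, hi, rfl⟩
  exact ⟨𝔇.g.v i, ⟨i, hi.le, rfl⟩, (hm i hi).2⟩

/-- **WHERE THE DEFAULT OBSTACLE LIES**: a point of `K` lies in the box of `t`, in the box of `s`, or within `μ` of a vertex of `g₀` -/
theorem pvsn_K_cases (h0 : 0 ≤ h) (hN : 0 ≤ N.rho1) (bs : τs.b ≤ 2 * τs.b2) (bt : τt.b ≤ 2 * τt.b2)
    (st_s : 𝔇.s.AtIn pos N h zs τs σ) (st_t : 𝔇.t.AtOut pos N h zt τt σ) (hm : PvsnMesh T pos 𝔇 μ) {p : ℂ} (hp : p ∈ 𝔇.pvfyK pos) :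
    p ∈ pvwSq zt (pvwRad N h τt τt.k) ∨ p ∈ pvwSq zs (pvwRad N h τs τs.k) ∨ ∃ v ∈ 𝔇.g.verts, ‖p - pos v‖ ≤ μ := by
  unfold PvwDat.pvfyK at hp
  simp only [Set.mem_iUnion] at hp
  obtain ⟨d, hd, hpd⟩ := hp
  rcases hd with ⟨i, hi, rfl⟩ | ⟨i, hi, rfl⟩ | ⟨i, hi, rfl⟩ | hd | hd
  · exact Or.inl (pvsn_face_ep (pvsn_sq_convex _ _) st_t.stub hi hpd)
  · exact Or.inr (Or.inl (pvsn_face_em (pvsn_sq_convex _ _) st_s.stub (pvsn_face_core_sq st_s.gate (pvwk_rad_ge bs h0 hN _) (pvsn_dm_left st_s.gate)) hi hpd))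
  · have := pvsn_face_g hm hi hpd
    rw [Metric.mem_closedBall, dist_eq_norm] at this
    exact Or.inr (Or.inr ⟨_, ⟨i, hi.le, rfl⟩, this⟩)
  · exact Or.inr (Or.inl (pvsn_face_core_sq st_s.gate (pvwk_rad_ge bs h0 hN _) hd hpd))
  · exact Or.inl (pvsn_face_core_sq st_t.gate (pvwk_rad_ge bt h0 hN _) hd hpd)

/-- the tip `x⁺` lies in the box -/
theorem pvsn_xp_in (hB : Convex ℝ B) (st : 𝔖.StubP pos B σ) : 𝔖.xp pos ∈ B := by
  obtain ⟨a1, a2⟩ := st.ep_in 𝔖.np le_rfl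
  have := hB a1 a2 (a := 1 / 2) (b := 1 / 2) (by norm_num) (by norm_num) (by norm_num)
  have e : 𝔖.xp pos = (1 / 2 : ℝ) • pos (T.src (𝔖.ep 𝔖.np)) + (1 / 2 : ℝ) • pos (T.tgt (𝔖.ep 𝔖.np)) := by
    unfold PvwSt.xp PvwSt.mid
    simp only [Complex.real_smul]
    push_cast
    ring
  rw [e]; exact this

/-- the tip `x⁻` lies in the box -/
theorem pvsn_xm_in (hB : Convex ℝ B) (st : 𝔖.StubM pos B σ) : 𝔖.xm pos ∈ B := by
  obtain ⟨a1, a2⟩ := st.em_in 𝔖.nm le_rfl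
  have := hB a1 a2 (a := 1 / 2) (b := 1 / 2) (by norm_num) (by norm_num) (by norm_num)
  have e : 𝔖.xm pos = (1 / 2 : ℝ) • pos (T.src (𝔖.em 𝔖.nm)) + (1 / 2 : ℝ) • pos (T.tgt (𝔖.em 𝔖.nm)) := by
    unfold PvwSt.xm PvwSt.mid
    simp only [Complex.real_smul]
    push_cast
    ring
  rw [e]; exact this

end faces

/-! ## 3. (M1), the size of `K` -/

section mouth

variable {V D : Type} {T : PvMap V D} {pos : V → ℂ} {N : PvwNum} {h μ ρ' r R : ℝ} {x zs zt : ℂ} {τs τt : PvwTy} {σ : V → Bool} {𝔇 : PvwDat T}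

/-- **(M1) at the tip `x⁺(t)`**, default obstacle, EVERY radius `ρ'` with `ρ' + μ ≤ ρ h`, every half side `r ≥ r_k(t)`: inside the mouth the obstacle stays in the box.
`sep` = the two boxes are far apart (from `R / 3 ≤ ‖zs - zt‖` and the numbers) -/
theorem pvsn_m1_t (h0 : 0 ≤ h) (hN : 0 ≤ N.rho1) (bs : τs.b ≤ 2 * τs.b2) (bt : τt.b ≤ 2 * τt.b2)
    (co : PvfyCore T pos N h zs zt τs τt σ 𝔇) (hm : PvsnMesh T pos 𝔇 μ) (hρ : ρ' + μ ≤ N.rho * h)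
    (sep : 2 * (pvwRad N h τs τs.k + pvwRad N h τt τt.k + ρ') < ‖zs - zt‖) (hr : pvwRad N h τt τt.k ≤ r) :
    PvfyMouth (𝔇.pvfyK pos) (𝔇.t.xp pos) ρ' zt r := by
  rintro p ⟨hp, hb⟩
  rw [Metric.mem_closedBall, dist_eq_norm] at hb
  rcases pvsn_K_cases h0 hN bs bt co.st_s co.st_t hm hp with h1 | h1 | ⟨v, hv, h1⟩
  · exact pvsn_sq_mono hr h1
  · exfalso
    have := pvsn_sq_far h1 (pvsn_xp_in (pvsn_sq_convex _ _) co.st_t.stub)
    linarith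
  · exfalso
    have h2 := co.mouth_t v hv
    have h3 : ‖pos v - 𝔇.t.xp pos‖ ≤ ‖p - pos v‖ + ‖p - 𝔇.t.xp pos‖ := by
      have := norm_sub_le (p - 𝔇.t.xp pos) (p - pos v)
      rw [show p - 𝔇.t.xp pos - (p - pos v) = pos v - 𝔇.t.xp pos by ring] at this
      linarith
    linarith

/-- **(M1) at the tip `x⁻(s)`** -/
theorem pvsn_m1_s (h0 : 0 ≤ h) (hN : 0 ≤ N.rho1) (bs : τs.b ≤ 2 * τs.b2) (bt : τt.b ≤ 2 * τt.b2)
    (co : PvfyCore T pos N h zs zt τs τt σ 𝔇) (hm : PvsnMesh T pos 𝔇 μ) (hρ : ρ' + μ ≤ N.rho * h)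
    (sep : 2 * (pvwRad N h τs τs.k + pvwRad N h τt τt.k + ρ') < ‖zs - zt‖) (hr : pvwRad N h τs τs.k ≤ r) :
    PvfyMouth (𝔇.pvfyK pos) (𝔇.s.xm pos) ρ' zs r := by
  rintro p ⟨hp, hb⟩
  rw [Metric.mem_closedBall, dist_eq_norm] at hb
  rcases pvsn_K_cases h0 hN bs bt co.st_s co.st_t hm hp with h1 | h1 | ⟨v, hv, h1⟩
  · exfalso
    have := pvsn_sq_far (pvsn_xm_in (pvsn_sq_convex _ _) co.st_s.stub) h1
    rw [norm_sub_rev (𝔇.s.xm pos) p] at this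
    linarith
  · exact pvsn_sq_mono hr h1
  · exfalso
    have h2 := co.mouth_s v hv
    have h3 : ‖pos v - 𝔇.s.xm pos‖ ≤ ‖p - pos v‖ + ‖p - 𝔇.s.xm pos‖ := by
      have := norm_sub_le (p - 𝔇.s.xm pos) (p - pos v)
      rw [show p - 𝔇.s.xm pos - (p - pos v) = pos v - 𝔇.s.xm pos by ring] at this
      linarith
    linarith

/-- **the size of the default obstacle** (= the field `ball` of `PvfyScene`): `g₀` in `B(x, 2R)` ((A1)), the centres within `2R + h`, `2 r_k + h ≤ R / 2`, `μ ≤ R / 2` -/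
theorem pvsn_ball (h0 : 0 ≤ h) (hN : 0 ≤ N.rho1) (bs : τs.b ≤ 2 * τs.b2) (bt : τt.b ≤ 2 * τt.b2)
    (st_s : 𝔇.s.AtIn pos N h zs τs σ) (st_t : 𝔇.t.AtOut pos N h zt τt σ) (hm : PvsnMesh T pos 𝔇 μ)
    (a1 : ∀ v ∈ 𝔇.g.verts, ‖pos v - x‖ ≤ 2 * R) (near_s : ‖zs - x‖ ≤ 2 * R + h) (near_t : ‖zt - x‖ ≤ 2 * R + h)
    (rs : 2 * pvwRad N h τs τs.k + h ≤ R / 2) (rt : 2 * pvwRad N h τt τt.k + h ≤ R / 2) (hμ : μ ≤ R / 2) :
    𝔇.pvfyK pos ⊆ Metric.closedBall x (5 / 2 * R) := by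
  intro p hp
  rw [Metric.mem_closedBall, dist_eq_norm]
  have tri : ∀ q : ℂ, ‖p - x‖ ≤ ‖p - q‖ + ‖q - x‖ := fun q => by
    have := norm_add_le (p - q) (q - x)
    rwa [show p - q + (q - x) = p - x by ring] at this
  rcases pvsn_K_cases h0 hN bs bt st_s st_t hm hp with h1 | h1 | ⟨v, hv, h1⟩
  · have := pvsn_sq_ball h1
    linarith [tri zt]
  · have := pvsn_sq_ball h1
    linarith [tri zs]
  · linarith [tri (pos v), a1 v hv]

end mouth

/-! ## 4. `out` (SC3) -/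

section out

variable {V D : Type} {T : PvMap V D} {pos : V → ℂ} {N : PvwNum} {h : ℝ} {zs zt : ℂ} {τs τt : PvwTy} {σ : V → Bool} {c : T.Cyc} {j : ℕ} {𝔇 : PvwDat T}

/-- a primal path which starts strictly inside a circuit and then avoids it stays strictly inside (forwards) -/
theorem pvsn_int_fwd (hT : T.IsSph) (S : T.Cyc) (p : T.Pth) {a : ℕ} (ha : p.v a ∈ T.Int S.Left) :
    ∀ b, a ≤ b → b ≤ p.n → (∀ i, a < i → i ≤ b → p.v i ∉ S.verts) → p.v b ∈ T.Int S.Left := by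
  intro b
  induction b with
  | zero =>
    intro hab _ _
    have : a = 0 := by omega
    rw [this] at ha
    exact ha
  | succ b ih =>
    intro hab hb hoff
    rcases Nat.lt_or_ge a (b + 1) with h1 | h1
    · have h2 := ih (by omega) (by omega) (fun i hi hi' => hoff i hi (by omega))
      exact pl_jordan_sep hT S h2 (ReflTransGen.single ⟨⟨p.e b, p.src_e b (by omega), p.tgt_e b (by omega)⟩, hoff (b + 1) h1 le_rfl⟩)
    · have : a = b + 1 := by omega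
      rw [this] at ha
      exact ha

/-- the same backwards -/
theorem pvsn_int_bwd (hT : T.IsSph) (S : T.Cyc) (p : T.Pth) {b : ℕ} (hb : b ≤ p.n) (hbI : p.v b ∈ T.Int S.Left) :
    ∀ k, k ≤ b → (∀ i, b - k ≤ i → i < b → p.v i ∉ S.verts) → p.v (b - k) ∈ T.Int S.Left := by
  intro k
  induction k with
  | zero => intro _ _; exact hbI
  | succ k ih =>
    intro hk hoff
    have h2 := ih (by omega) (fun i hi hi' => hoff i (by omega) hi')
    have e : b - k = (b - (k + 1)) + 1 := by omega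
    have hlt : b - (k + 1) < p.n := by omega
    have hadj : T.Adj (p.v (b - k)) (p.v (b - (k + 1))) := by
      rw [e]
      exact T.adj_symm ⟨p.e _, p.src_e _ hlt, p.tgt_e _ hlt⟩
    exact pl_jordan_sep hT S h2 (ReflTransGen.single ⟨hadj, hoff _ le_rfl (by omega)⟩)

/-- two places of a rim less than a turn apart carry different vertices -/
theorem pvsn_rim_ne (c : T.Cyc) (i : ℕ) {m : ℕ} (h0 : 0 < m) (h1 : m < c.n) : T.src (c.e (i + m)) ≠ T.src (c.e i) := by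
  intro e
  have h2 : i + m ≡ i + 0 [MOD c.n] := pl_cyc_src_inj c e
  have h3 : m ≡ 0 [MOD c.n] := Nat.ModEq.add_left_cancel' i h2
  unfold Nat.ModEq at h3
  rw [Nat.mod_eq_of_lt h1, Nat.zero_mod] at h3
  omega

/-- `g⁻(s)` on the rim -/
theorem pvsn_gm_s (pre : PvfyPre T pos N h zs zt τs τt σ c j 𝔇) : 𝔇.s.gm = T.src (c.e j) := by
  obtain ⟨a0, -, a2⟩ := pvfy_inn_ends pre.st_s.gate
  rw [← a0, ← 𝔇.s.inn.src_e 0 a2, ← pre.pin_s.run 0 a2]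
  rfl

/-- `g⁺(t)` on the rim -/
theorem pvsn_gp_t (pre : PvfyPre T pos N h zs zt τs τt σ c j 𝔇) : 𝔇.t.gp = T.src (c.e (j + 𝔇.s.inn.n + 𝔇.g.n + 𝔇.t.inn.n)) := by
  obtain ⟨-, a1, a2⟩ := pvfy_inn_ends pre.st_t.gate
  have h1 := pre.pin_t.run (𝔇.t.inn.n - 1) (by omega)
  have h2 := c.chain (j + 𝔇.s.inn.n + 𝔇.g.n + (𝔇.t.inn.n - 1))
  have e : j + 𝔇.s.inn.n + 𝔇.g.n + (𝔇.t.inn.n - 1) + 1 = j + 𝔇.s.inn.n + 𝔇.g.n + 𝔇.t.inn.n := by omega
  have h3 := 𝔇.t.inn.tgt_e (𝔇.t.inn.n - 1) (by omega)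
  have e' : 𝔇.t.inn.n - 1 + 1 = 𝔇.t.inn.n := by omega
  rw [e, h1, h3, e', a1] at h2
  exact h2

/-- after its first vertex `g₀` is off the gate of `s` -/
theorem pvsn_off_s (pre : PvfyPre T pos N h zs zt τs τt σ c j 𝔇) {k : ℕ} (h0 : 0 < k) (hk : k ≤ 𝔇.g.n) : 𝔇.g.v k ∉ 𝔇.s.S.verts := by
  intro hv
  have hsh := pre.short
  rcases pre.st_s.gate.two _ hv (pvfy_g_black pre _ ⟨k, hk, rfl⟩) with e | e
  · rw [← pvfy_g0 pre] at e
    have := 𝔇.g.inj k 0 hk (Nat.zero_le _) e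
    omega
  · rw [pvfy_g_v pre hk, pvsn_gm_s pre, Nat.add_assoc] at e
    exact pvsn_rim_ne c j (by omega) (by omega) e

/-- before its last vertex `g₀` is off the gate of `t` -/
theorem pvsn_off_t (pre : PvfyPre T pos N h zs zt τs τt σ c j 𝔇) {k : ℕ} (hk : k < 𝔇.g.n) : 𝔇.g.v k ∉ 𝔇.t.S.verts := by
  intro hv
  have hsh := pre.short
  rcases pre.st_t.gate.two _ hv (pvfy_g_black pre _ ⟨k, hk.le, rfl⟩) with e | e
  · rw [pvfy_g_v pre hk.le, pvsn_gp_t pre] at e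
    have e2 : j + 𝔇.s.inn.n + 𝔇.g.n + 𝔇.t.inn.n = (j + 𝔇.s.inn.n + k) + (𝔇.g.n - k + 𝔇.t.inn.n) := by omega
    rw [e2] at e
    exact pvsn_rim_ne c _ (by omega) (by omega) e.symm
  · rw [← pvfy_g1 pre] at e
    have := 𝔇.g.inj k 𝔇.g.n hk.le le_rfl e
    omega

/-- **`out` (SC3)**: after its first vertex `g₀` is off the closed inside of the gate of `s` -/
theorem pvsn_out_s (hT : T.IsSph) (h0 : 0 < h) (hN : 0 ≤ N.rho1) (pre : PvfyPre T pos N h zs zt τs τt σ c j 𝔇) {k : ℕ} (hk0 : 0 < k) (hk : k ≤ 𝔇.g.n) : 𝔇.g.v k ∉ 𝔇.s.ins := by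
  intro hv
  unfold PvwSt.ins at hv
  rw [pl_VOf_left hT] at hv
  rcases hv with hv | hv
  · exact pvsn_off_s pre hk0 hk hv
  · have h1 := pvsn_int_fwd hT 𝔇.s.S 𝔇.g hv 𝔇.g.n hk le_rfl (fun i hi hi' => pvsn_off_s pre (by omega) hi')
    have h2 : 𝔇.t.gm ∈ 𝔇.s.ins := by
      unfold PvwSt.ins
      rw [pl_VOf_left hT, ← pvfy_g1 pre]
      exact Or.inr h1
    exact (Set.disjoint_left.1 pre.boxes) (pvwk_core_sq pre.st_s.gate (pvwk_rad_ge pre.b_s h0.le hN _) _ (pvwk_ins_sub_core pre.st_s.gate h2)) (pvfy_gate_box h0 hN pre.b_t pre.st_t.gate N.K).2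

/-- **`out` (SC3)**: before its last vertex `g₀` is off the closed inside of the gate of `t` -/
theorem pvsn_out_t (hT : T.IsSph) (h0 : 0 < h) (hN : 0 ≤ N.rho1) (pre : PvfyPre T pos N h zs zt τs τt σ c j 𝔇) {k : ℕ} (hk : k < 𝔇.g.n) : 𝔇.g.v k ∉ 𝔇.t.ins := by
  intro hv
  unfold PvwSt.ins at hv
  rw [pl_VOf_left hT] at hv
  rcases hv with hv | hv
  · exact pvsn_off_t pre hk hv
  · have h1 := pvsn_int_bwd hT 𝔇.t.S 𝔇.g hk.le hv k le_rfl (fun i _ hi' => pvsn_off_t pre (by omega))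
    rw [Nat.sub_self] at h1
    have h2 : 𝔇.s.gp ∈ 𝔇.t.ins := by
      unfold PvwSt.ins
      rw [pl_VOf_left hT, ← pvfy_g0 pre]
      exact Or.inr h1
    exact (Set.disjoint_left.1 pre.boxes) (pvfy_gate_box h0 hN pre.b_s pre.st_s.gate N.K).1 (pvwk_core_sq pre.st_t.gate (pvwk_rad_ge pre.b_t h0.le hN _) _ (pvwk_ins_sub_core pre.st_t.gate h2))

/-- **the field `out` of `PvfyStr`** -/
theorem pvsn_out (hT : T.IsSph) (h0 : 0 < h) (hN : 0 ≤ N.rho1) (pre : PvfyPre T pos N h zs zt τs τt σ c j 𝔇) : ∀ v ∈ 𝔇.g.inner, v ∉ 𝔇.s.ins ∧ v ∉ 𝔇.t.ins := by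
  rintro v ⟨k, hk0, hk, rfl⟩
  exact ⟨pvsn_out_s hT h0 hN pre hk0 hk.le, pvsn_out_t hT h0 hN pre hk⟩

end out

/-! ## 5. (M1) in the form of 211 / 119 (`Tr/AccK`): inside a mouth `K` consists of faces of the stub -/

section m1

variable {V D : Type} {T : PvMap V D} {pos : V → ℂ} {N : PvwNum} {h μ ρ' : ℝ} {zs zt : ℂ} {τs τt : PvwTy} {σ : V → Bool} {𝔇 : PvwDat T}

/-- the default obstacle of 62 is the obstacle of 119 -/
theorem pvsn_K_eq (𝔇 : PvwDat T) (pos : V → ℂ) : 𝔇.pvfyK pos = 𝔇.pvkzK pos := rfl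

theorem pvsn_face_eq (T : PvMap V D) (pos : V → ℂ) (d : D) : pvfyFace T pos d = pvkzF T pos d := rfl

/-- a point outside the square is far from the centre -/
theorem pvsn_not_sq {w z : ℂ} {r : ℝ} (hw : w ∉ pvwSq z r) : r < ‖w - z‖ := by
  by_contra hcon
  push Not at hcon
  exact hw (pvsn_ball_sq hcon)

/-- **(M1) of 211 at `x⁺(t)`** : `tip` = mesh at the tip face, `num` = the core of `t` is far from the boundary of the box (`b₁ h + μ + ρ' < r_k`) -/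
theorem pvsn_M1t (h0 : 0 ≤ h) (hN : 0 ≤ N.rho1) (bs : τs.b ≤ 2 * τs.b2)
    (co : PvfyCore T pos N h zs zt τs τt σ 𝔇) (hm : PvsnMesh T pos 𝔇 μ) (hρ : ρ' + μ ≤ N.rho * h)
    (sep : 2 * (pvwRad N h τs τs.k + pvwRad N h τt τt.k + ρ') < ‖zs - zt‖)
    (tip : ‖pos 𝔇.t.ap - 𝔇.t.xp pos‖ ≤ μ) (num : τt.b * h + μ + ρ' ≤ pvwRad N h τt τt.k) : 𝔇.PvkzM1t pos ρ' := by
  rintro p ⟨hp, hb⟩
  rw [Metric.mem_closedBall, dist_eq_norm] at hb
  have far_s : p ∉ pvwSq zs (pvwRad N h τs τs.k) := fun h1 => by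
    have := pvsn_sq_far h1 (pvsn_xp_in (pvsn_sq_convex _ _) co.st_t.stub)
    linarith
  rcases pvkz_K_cases hp with h1 | ⟨i, hi, h1⟩ | ⟨i, hi, h1⟩ | h1 | ⟨i, hi, h1⟩
  · exact absurd (pvkz_core_sq co.st_s.gate (pvwk_rad_ge bs h0 hN _) h1) far_s
  · exact absurd (pvsn_face_em (pvsn_sq_convex _ _) co.st_s.stub (pvsn_face_core_sq co.st_s.gate (pvwk_rad_ge bs h0 hN _) (pvsn_dm_left co.st_s.gate)) hi h1) far_s
  · exfalso
    have h1' := pvsn_face_g hm hi h1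
    rw [Metric.mem_closedBall, dist_eq_norm] at h1'
    have h2 := co.mouth_t _ ⟨i, hi.le, rfl⟩
    have h3 : ‖pos (𝔇.g.v i) - 𝔇.t.xp pos‖ ≤ ‖p - pos (𝔇.g.v i)‖ + ‖p - 𝔇.t.xp pos‖ := by
      have := norm_sub_le (p - 𝔇.t.xp pos) (p - pos (𝔇.g.v i))
      rw [show p - 𝔇.t.xp pos - (p - pos (𝔇.g.v i)) = pos (𝔇.g.v i) - 𝔇.t.xp pos by ring] at this
      linarith
    linarith
  · exfalso
    have h2 := pvkz_core_ball co.st_t.gate h1
    rw [Metric.mem_closedBall, dist_eq_norm] at h2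
    have h3 := pvsn_not_sq co.st_t.stub.ep_out
    have h4 : ‖pos 𝔇.t.ap - zt‖ ≤ ‖pos 𝔇.t.ap - 𝔇.t.xp pos‖ + ‖p - 𝔇.t.xp pos‖ + ‖p - zt‖ := by
      have a1 := norm_add_le (pos 𝔇.t.ap - 𝔇.t.xp pos) (𝔇.t.xp pos - zt)
      have a2 := norm_add_le (𝔇.t.xp pos - p) (p - zt)
      rw [show pos 𝔇.t.ap - 𝔇.t.xp pos + (𝔇.t.xp pos - zt) = pos 𝔇.t.ap - zt by ring] at a1
      rw [show 𝔇.t.xp pos - p + (p - zt) = 𝔇.t.xp pos - zt by ring, norm_sub_rev (𝔇.t.xp pos) p] at a2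
      linarith
    linarith
  · exact pvkz_U_mem.2 ⟨i, hi, h1⟩

/-- **(M1) of 211 at `x⁻(s)`** -/
theorem pvsn_M1s (h0 : 0 ≤ h) (hN : 0 ≤ N.rho1) (bt : τt.b ≤ 2 * τt.b2)
    (co : PvfyCore T pos N h zs zt τs τt σ 𝔇) (hm : PvsnMesh T pos 𝔇 μ) (hρ : ρ' + μ ≤ N.rho * h)
    (sep : 2 * (pvwRad N h τs τs.k + pvwRad N h τt τt.k + ρ') < ‖zs - zt‖)
    (tip : ‖pos 𝔇.s.am - 𝔇.s.xm pos‖ ≤ μ) (num : τs.b * h + μ + ρ' ≤ pvwRad N h τs τs.k) : 𝔇.PvkzM1s pos ρ' := by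
  rintro p ⟨hp, hb⟩
  rw [Metric.mem_closedBall, dist_eq_norm] at hb
  have far_t : p ∉ pvwSq zt (pvwRad N h τt τt.k) := fun h1 => by
    have := pvsn_sq_far (pvsn_xm_in (pvsn_sq_convex _ _) co.st_s.stub) h1
    rw [norm_sub_rev (𝔇.s.xm pos) p] at this
    linarith
  have far_c : p ∉ pvkzR T pos 𝔇.s.S.Left := fun h1 => by
    have h2 := pvkz_core_ball co.st_s.gate h1
    rw [Metric.mem_closedBall, dist_eq_norm] at h2
    have h3 := pvsn_not_sq co.st_s.stub.em_out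
    have h4 : ‖pos 𝔇.s.am - zs‖ ≤ ‖pos 𝔇.s.am - 𝔇.s.xm pos‖ + ‖p - 𝔇.s.xm pos‖ + ‖p - zs‖ := by
      have a1 := norm_add_le (pos 𝔇.s.am - 𝔇.s.xm pos) (𝔇.s.xm pos - zs)
      have a2 := norm_add_le (𝔇.s.xm pos - p) (p - zs)
      rw [show pos 𝔇.s.am - 𝔇.s.xm pos + (𝔇.s.xm pos - zs) = pos 𝔇.s.am - zs by ring] at a1
      rw [show 𝔇.s.xm pos - p + (p - zs) = 𝔇.s.xm pos - zs by ring, norm_sub_rev (𝔇.s.xm pos) p] at a2
      linarith
    linarith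
  rcases pvkz_K_cases hp with h1 | ⟨i, hi, h1⟩ | ⟨i, hi, h1⟩ | h1 | ⟨i, hi, h1⟩
  · exact absurd h1 far_c
  · rcases Nat.eq_zero_or_pos i with rfl | hi0
    · rw [pvwk_em_zero co.st_s.stub] at h1
      exact absurd (pvkz_face_sub_R (pvsn_dm_left co.st_s.gate) h1) far_c
    · exact pvkz_U_mem.2 ⟨i, ⟨hi0, hi⟩, h1⟩
  · exfalso
    have h1' := pvsn_face_g hm hi h1
    rw [Metric.mem_closedBall, dist_eq_norm] at h1'
    have h2 := co.mouth_s _ ⟨i, hi.le, rfl⟩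
    have h3 : ‖pos (𝔇.g.v i) - 𝔇.s.xm pos‖ ≤ ‖p - pos (𝔇.g.v i)‖ + ‖p - 𝔇.s.xm pos‖ := by
      have := norm_sub_le (p - 𝔇.s.xm pos) (p - pos (𝔇.g.v i))
      rw [show p - 𝔇.s.xm pos - (p - pos (𝔇.g.v i)) = pos (𝔇.g.v i) - 𝔇.s.xm pos by ring] at this
      linarith
    linarith
  · exact absurd (pvkz_core_sq co.st_t.gate (pvwk_rad_ge bt h0 hN _) h1) far_t
  · exact absurd (pvsn_face_ep (pvsn_sq_convex _ _) co.st_t.stub hi h1) far_t

end m1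

/-! ## 6. (M1) at ANY centre, obstacle WITH THE TWO DISCS (Defs v3: the core is the whole disc) -/

section m1y

variable {V D : Type} {T : PvMap V D} {pos : V → ℂ} {N : PvwNum} {h μ ρ' e : ℝ} {y zs zt : ℂ} {τs τt : PvwTy} {σ σ' : V → Bool} {𝔇 : PvwDat T}

/-- **(M1) AT ANY CENTRE `y`, exit side**: if `g₀` is farther than `ρ' + μ` from `y`, the box of `s` and the disc of `t` farther than `ρ'`, then inside `closedBall y ρ'` the obstacle WITH THE TWO DISCS consists of faces of `Σ⁺(t)` -/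
theorem pvsn_M1t_at (h0 : 0 ≤ h) (hN : 0 ≤ N.rho1) (bs : τs.b ≤ 2 * τs.b2)
    (st_s : 𝔇.s.AtIn pos N h zs τs σ) (hm : PvsnMesh T pos 𝔇 μ)
    (hg : ∀ v ∈ 𝔇.g.verts, ρ' + μ < ‖pos v - y‖) (hs : ∀ p ∈ pvwSq zs (pvwRad N h τs τs.k), ρ' < ‖p - y‖) (gt : 𝔇.t.Gate pos h zt τt σ') (hc : ∀ p ∈ Metric.closedBall zt (τt.b * h), ρ' < ‖p - y‖) :
    𝔇.pvkzKd pos zs (τs.b * h) zt (τt.b * h) ∩ Metric.closedBall y ρ' ⊆ pvkzU T pos 𝔇.t.ep (Iio 𝔇.t.np) := by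
  rintro p ⟨hp, hb⟩
  rw [Metric.mem_closedBall, dist_eq_norm] at hb
  have far_s : p ∉ pvwSq zs (pvwRad N h τs τs.k) := fun h1 => by linarith [hs p h1]
  have far_c : p ∉ Metric.closedBall zt (τt.b * h) := fun h1 => by linarith [hc p h1]
  rcases hp with (hp | hp) | hp
  · rcases pvkz_K_cases hp with h1 | ⟨i, hi, h1⟩ | ⟨i, hi, h1⟩ | h1 | ⟨i, hi, h1⟩
    · exact absurd (pvkz_core_sq st_s.gate (pvwk_rad_ge bs h0 hN _) h1) far_s
    · exact absurd (pvsn_face_em (pvsn_sq_convex _ _) st_s.stub (pvsn_face_core_sq st_s.gate (pvwk_rad_ge bs h0 hN _) (pvsn_dm_left st_s.gate)) hi h1) far_s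
    · exfalso
      have h1' := pvsn_face_g hm hi h1
      rw [Metric.mem_closedBall, dist_eq_norm] at h1'
      have h2 := hg _ ⟨i, hi.le, rfl⟩
      have h3 : ‖pos (𝔇.g.v i) - y‖ ≤ ‖p - pos (𝔇.g.v i)‖ + ‖p - y‖ := by
        have := norm_sub_le (p - y) (p - pos (𝔇.g.v i))
        rw [show p - y - (p - pos (𝔇.g.v i)) = pos (𝔇.g.v i) - y by ring] at this
        linarith
      linarith
    · exact absurd (pvkz_core_ball gt h1) far_c
    · exact pvkz_U_mem.2 ⟨i, hi, h1⟩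
  · refine absurd (pvsn_ball_sq ?_) far_s
    rw [Metric.mem_closedBall, dist_eq_norm] at hp
    exact hp.trans (pvwk_rad_ge bs h0 hN _)
  · exact absurd hp far_c

/-- **(M1) AT ANY CENTRE `y`, entrance side** -/
theorem pvsn_M1s_at (h0 : 0 ≤ h) (hN : 0 ≤ N.rho1) (bt : τt.b ≤ 2 * τt.b2)
    (st_t : 𝔇.t.AtOut pos N h zt τt σ) (hm : PvsnMesh T pos 𝔇 μ)
    (hg : ∀ v ∈ 𝔇.g.verts, ρ' + μ < ‖pos v - y‖) (ht : ∀ p ∈ pvwSq zt (pvwRad N h τt τt.k), ρ' < ‖p - y‖) (gs : 𝔇.s.Gate pos h zs τs σ') {B : Set ℂ} (ss : 𝔇.s.StubM pos B σ')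
    (hc : ∀ p ∈ Metric.closedBall zs (τs.b * h), ρ' < ‖p - y‖) :
    𝔇.pvkzKd pos zs (τs.b * h) zt (τt.b * h) ∩ Metric.closedBall y ρ' ⊆ pvkzU T pos 𝔇.s.em (Icc 1 𝔇.s.nm) := by
  rintro p ⟨hp, hb⟩
  rw [Metric.mem_closedBall, dist_eq_norm] at hb
  have far_t : p ∉ pvwSq zt (pvwRad N h τt τt.k) := fun h1 => by linarith [ht p h1]
  have far_c : p ∉ Metric.closedBall zs (τs.b * h) := fun h1 => by linarith [hc p h1]
  rcases hp with (hp | hp) | hp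
  · rcases pvkz_K_cases hp with h1 | ⟨i, hi, h1⟩ | ⟨i, hi, h1⟩ | h1 | ⟨i, hi, h1⟩
    · exact absurd (pvkz_core_ball gs h1) far_c
    · rcases Nat.eq_zero_or_pos i with rfl | hi0
      · rw [pvwk_em_zero ss] at h1
        exact absurd (pvkz_core_ball gs (pvkz_face_sub_R (pvsn_dm_left gs) h1)) far_c
      · exact pvkz_U_mem.2 ⟨i, ⟨hi0, hi⟩, h1⟩
    · exfalso
      have h1' := pvsn_face_g hm hi h1
      rw [Metric.mem_closedBall, dist_eq_norm] at h1'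
      have h2 := hg _ ⟨i, hi.le, rfl⟩
      have h3 : ‖pos (𝔇.g.v i) - y‖ ≤ ‖p - pos (𝔇.g.v i)‖ + ‖p - y‖ := by
        have := norm_sub_le (p - y) (p - pos (𝔇.g.v i))
        rw [show p - y - (p - pos (𝔇.g.v i)) = pos (𝔇.g.v i) - y by ring] at this
        linarith
      linarith
    · exact absurd (pvkz_core_sq st_t.gate (pvwk_rad_ge bt h0 hN _) h1) far_t
    · exact absurd (pvsn_face_ep (pvsn_sq_convex _ _) st_t.stub hi h1) far_t
  · exact absurd hp far_c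
  · refine absurd (pvsn_ball_sq ?_) far_t
    rw [Metric.mem_closedBall, dist_eq_norm] at hp
    exact hp.trans (pvwk_rad_ge bt h0 hN _)

/-- the other box is far from a point `y` within `e` of a point of the own box -/
theorem pvsn_far_box {z z' x' : ℂ} {r r' : ℝ} (hx : x' ∈ pvwSq z' r') (hy : ‖y - x'‖ ≤ e) (sep : 2 * (r + r' + ρ' + e) < ‖z - z'‖) : ∀ p ∈ pvwSq z r, ρ' < ‖p - y‖ := by
  intro p hp
  have h1 := pvsn_sq_far hp hx
  have h2 : ‖p - x'‖ ≤ ‖p - y‖ + ‖y - x'‖ := by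
    have := norm_add_le (p - y) (y - x')
    rwa [show p - y + (y - x') = p - x' by ring] at this
  linarith

/-- the disc of the gate is far from a point `y` within `e` of a point `a` outside the box -/
theorem pvsn_far_disc {z a : ℂ} {r b : ℝ} (ha : a ∉ pvwSq z r) (hy : ‖y - a‖ ≤ e) (num : b + e + ρ' ≤ r) : ∀ p ∈ Metric.closedBall z b, ρ' < ‖p - y‖ := by
  intro p hp
  rw [Metric.mem_closedBall, dist_eq_norm] at hp
  have h1 := pvsn_not_sq ha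
  have h2 : ‖a - z‖ ≤ ‖y - a‖ + ‖p - y‖ + ‖p - z‖ := by
    have a1 := norm_add_le (a - y) (y - z)
    have a2 := norm_add_le (y - p) (p - z)
    rw [show a - y + (y - z) = a - z by ring, norm_sub_rev a y] at a1
    rw [show y - p + (p - z) = y - z by ring, norm_sub_rev y p] at a2
    linarith
  linarith

/-- **(M1) AT THE GRID CENTRE `y⁺ = τt.cp h zt`, THE MOUTH OF RECORD** (Defs v3), every radius `ρ'` with `ρ' + μ ≤ 2 ρ h` -/
theorem pvsn_M1t_cp (h0 : 0 ≤ h) (hN : 0 ≤ N.rho1) (bs : τs.b ≤ 2 * τs.b2)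
    (co : PvfyCore T pos N h zs zt τs τt σ 𝔇) (hm : PvsnMesh T pos 𝔇 μ) (hρ : ρ' + μ ≤ 2 * N.rho * h)
    (sep : 2 * (pvwRad N h τs τs.k + pvwRad N h τt τt.k + ρ' + N.rho * h / 4) < ‖zs - zt‖)
    (tip : ‖pos 𝔇.t.ap - 𝔇.t.xp pos‖ ≤ μ) (num : τt.b * h + (μ + N.rho * h / 4) + ρ' ≤ pvwRad N h τt τt.k) :
    𝔇.pvkzKd pos zs (τs.b * h) zt (τt.b * h) ∩ Metric.closedBall (τt.cp h zt) ρ' ⊆ pvkzU T pos 𝔇.t.ep (Iio 𝔇.t.np) := by
  have hx := pvfy_xp_near co.st_t.good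
  rw [norm_sub_rev] at hx
  refine pvsn_M1t_at h0 hN bs co.st_s hm (fun v hv => lt_of_le_of_lt hρ (co.mouth_t2 v hv)) (pvsn_far_box (pvsn_xp_in (pvsn_sq_convex _ _) co.st_t.stub) hx sep) co.st_t.gate
    (pvsn_far_disc co.st_t.stub.ep_out ?_ num)
  have := norm_add_le (τt.cp h zt - 𝔇.t.xp pos) (𝔇.t.xp pos - pos 𝔇.t.ap)
  rw [show τt.cp h zt - 𝔇.t.xp pos + (𝔇.t.xp pos - pos 𝔇.t.ap) = τt.cp h zt - pos 𝔇.t.ap by ring, norm_sub_rev (𝔇.t.xp pos) (pos 𝔇.t.ap)] at this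
  linarith

/-- **(M1) AT THE GRID CENTRE `y⁻ = τs.cm h zs`** -/
theorem pvsn_M1s_cm (h0 : 0 ≤ h) (hN : 0 ≤ N.rho1) (bt : τt.b ≤ 2 * τt.b2)
    (co : PvfyCore T pos N h zs zt τs τt σ 𝔇) (hm : PvsnMesh T pos 𝔇 μ) (hρ : ρ' + μ ≤ 2 * N.rho * h)
    (sep : 2 * (pvwRad N h τt τt.k + pvwRad N h τs τs.k + ρ' + N.rho * h / 4) < ‖zt - zs‖)
    (tip : ‖pos 𝔇.s.am - 𝔇.s.xm pos‖ ≤ μ) (num : τs.b * h + (μ + N.rho * h / 4) + ρ' ≤ pvwRad N h τs τs.k) :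
    𝔇.pvkzKd pos zs (τs.b * h) zt (τt.b * h) ∩ Metric.closedBall (τs.cm h zs) ρ' ⊆ pvkzU T pos 𝔇.s.em (Icc 1 𝔇.s.nm) := by
  have hx := pvfy_xm_near co.st_s.good
  rw [norm_sub_rev] at hx
  refine pvsn_M1s_at h0 hN bt co.st_t hm (fun v hv => lt_of_le_of_lt hρ (co.mouth_s2 v hv)) (pvsn_far_box (pvsn_xm_in (pvsn_sq_convex _ _) co.st_s.stub) hx sep) co.st_s.gate co.st_s.stub
    (pvsn_far_disc co.st_s.stub.em_out ?_ num)
  have := norm_add_le (τs.cm h zs - 𝔇.s.xm pos) (𝔇.s.xm pos - pos 𝔇.s.am)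
  rw [show τs.cm h zs - 𝔇.s.xm pos + (𝔇.s.xm pos - pos 𝔇.s.am) = τs.cm h zs - pos 𝔇.s.am by ring, norm_sub_rev (𝔇.s.xm pos) (pos 𝔇.s.am)] at this
  linarith

end m1y

/-! ## 7. `out` RIM FREE (usable in the plane map of the model: no cycle), `tip_f`, white banks -/

section free

variable {V D : Type} {T : PvMap V D} {pos : V → ℂ} {N : PvwNum} {h μ : ℝ} {z zs zt : ℂ} {τ τs τt : PvwTy} {σ : V → Bool} {𝔖 : PvwSt T} {𝔇 : PvwDat T}

/-- a black vertex other than `g⁺`, `g⁻` is not on the gate -/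
theorem pvsn_off_gate (hg : 𝔖.Gate pos h z τ σ) {v : V} (hb : σ v = true) (h1 : v ≠ 𝔖.gp) (h2 : v ≠ 𝔖.gm) : v ∉ 𝔖.S.verts := fun hv =>
  (hg.two v hv hb).elim h1 h2

/-- **SC3, RIM FREE, forwards**: a black path which, from its vertex number `a` on, avoids `g⁺`, `g⁻` and ends at distance `≥ b h` of the centre never meets the closed inside of the gate from `a` on -/
theorem pvsn_out_fwd (hT : T.IsSph) (hg : 𝔖.Gate pos h z τ σ) (g : T.Pth) (hb : ∀ v ∈ g.verts, σ v = true) {a : ℕ}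
    (hoff : ∀ i, a ≤ i → i ≤ g.n → g.v i ≠ 𝔖.gp ∧ g.v i ≠ 𝔖.gm) (hend : τ.b * h ≤ ‖pos (g.v g.n) - z‖) : ∀ k, a ≤ k → k ≤ g.n → g.v k ∉ 𝔖.ins := by
  intro k hak hk hv
  have off : ∀ i, a ≤ i → i ≤ g.n → g.v i ∉ 𝔖.S.verts := fun i h1 h2 => pvsn_off_gate hg (hb _ ⟨i, h2, rfl⟩) (hoff i h1 h2).1 (hoff i h1 h2).2
  unfold PvwSt.ins at hv
  rw [pl_VOf_left hT] at hv
  rcases hv with hv | hv
  · exact off k hak hk hv
  · have h1 := pvsn_int_fwd hT 𝔖.S g hv g.n hk le_rfl (fun i hi hi' => off i (by omega) hi')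
    have h2 : g.v g.n ∈ 𝔖.ins := by
      unfold PvwSt.ins
      rw [pl_VOf_left hT]
      exact Or.inr h1
    linarith [hg.inside _ h2]

/-- **SC3, RIM FREE, backwards** -/
theorem pvsn_out_bwd (hT : T.IsSph) (hg : 𝔖.Gate pos h z τ σ) (g : T.Pth) (hb : ∀ v ∈ g.verts, σ v = true) {a : ℕ} (ha : a ≤ g.n)
    (hoff : ∀ i, i ≤ a → g.v i ≠ 𝔖.gp ∧ g.v i ≠ 𝔖.gm) (hend : τ.b * h ≤ ‖pos (g.v 0) - z‖) : ∀ k, k ≤ a → g.v k ∉ 𝔖.ins := by
  intro k hk hv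
  have off : ∀ i, i ≤ a → g.v i ∉ 𝔖.S.verts := fun i h1 => pvsn_off_gate hg (hb _ ⟨i, by omega, rfl⟩) (hoff i h1).1 (hoff i h1).2
  unfold PvwSt.ins at hv
  rw [pl_VOf_left hT] at hv
  rcases hv with hv | hv
  · exact off k hk hv
  · have h1 := pvsn_int_bwd hT 𝔖.S g (by omega : k ≤ g.n) hv k le_rfl (fun i _ hi' => off i (by omega))
    rw [Nat.sub_self] at h1
    have h2 : g.v 0 ∈ 𝔖.ins := by
      unfold PvwSt.ins
      rw [pl_VOf_left hT]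
      exact Or.inr h1
    linarith [hg.inside _ h2]

/-- **the field `out` of `Ok` v3 / `PvfhArc` / `PvkcPre`, RIM FREE**: what is used of the rim is only that `g₀` does not come back to `g⁻(s)` and does not visit `g⁺(t)` (the rim is simple), and that the two pins are apart -/
theorem pvsn_out_free (hT : T.IsSph) (gs : 𝔇.s.Gate pos h zs τs σ) (gt : 𝔇.t.Gate pos h zt τt σ) (g0 : 𝔇.g.v 0 = 𝔇.s.gp) (g1 : 𝔇.g.v 𝔇.g.n = 𝔇.t.gm)
    (hb : ∀ v ∈ 𝔇.g.verts, σ v = true) (ns : ∀ v ∈ 𝔇.g.verts, v ≠ 𝔇.s.gm) (nt : ∀ v ∈ 𝔇.g.verts, v ≠ 𝔇.t.gp)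
    (fs : τs.b * h ≤ ‖pos 𝔇.t.gm - zs‖) (ft : τt.b * h ≤ ‖pos 𝔇.s.gp - zt‖) :
    (∀ k, 0 < k → k ≤ 𝔇.g.n → 𝔇.g.v k ∉ 𝔇.s.ins) ∧ ∀ k, k < 𝔇.g.n → 𝔇.g.v k ∉ 𝔇.t.ins := by
  constructor
  · intro k hk0 hk
    refine pvsn_out_fwd hT gs 𝔇.g hb (a := 1) (fun i hi hi' => ⟨fun e => ?_, ns _ ⟨i, hi', rfl⟩⟩) (by rw [g1]; exact fs) k hk0 hk
    rw [← g0] at e
    have := 𝔇.g.inj i 0 hi' (Nat.zero_le _) e
    omega
  · intro k hk
    refine pvsn_out_bwd hT gt 𝔇.g hb (a := 𝔇.g.n - 1) (by omega) (fun i hi => ⟨nt _ ⟨i, by omega, rfl⟩, fun e => ?_⟩) (by rw [g0]; exact ft) k (by omega)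
    rw [← g1] at e
    have := 𝔇.g.inj i 𝔇.g.n (by omega) le_rfl e
    omega

/-- all the sites frozen by `Σ_in` lie in the box of the level -/
theorem pvsn_fzIn_box (h0 : 0 ≤ h) (hN : 0 ≤ N.rho1) (hb : τ.b ≤ 2 * τ.b2) (st : 𝔖.AtIn pos N h z τ σ) : ∀ v ∈ 𝔖.fzIn, pos v ∈ pvwSq z (pvwRad N h τ τ.k) := by
  rintro v ((hv | hv) | hv)
  · exact pvwk_core_sq st.gate (pvwk_rad_ge hb h0 hN _) v hv
  · exact pvwk_banksM_in st.stub (Or.inl hv)
  · exact pvwk_banksM_in st.stub (Or.inr hv)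

/-- all the sites frozen by `Σ_out` lie in the box of the level -/
theorem pvsn_fzOut_box (h0 : 0 ≤ h) (hN : 0 ≤ N.rho1) (hb : τ.b ≤ 2 * τ.b2) (st : 𝔖.AtOut pos N h z τ σ) : ∀ v ∈ 𝔖.fzOut, pos v ∈ pvwSq z (pvwRad N h τ τ.k) := by
  rintro v ((hv | hv) | hv)
  · exact pvwk_core_sq st.gate (pvwk_rad_ge hb h0 hN _) v hv
  · exact pvwk_banksP_in st.stub (Or.inl hv)
  · exact pvwk_banksP_in st.stub (Or.inr hv)

/-- **the field `tip_f` of `Ok` / `PvfyStr`**: the two tip apexes are fresh for `D_Y`.      `tip_*` = mesh at the two tip faces, `sep` = the two boxes are apart -/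
theorem pvsn_tip_f (h0 : 0 ≤ h) (hN : 0 ≤ N.rho1) (bs : τs.b ≤ 2 * τs.b2) (bt : τt.b ≤ 2 * τt.b2)
    (st_s : 𝔇.s.AtIn pos N h zs τs σ) (st_t : 𝔇.t.AtOut pos N h zt τt σ)
    (tip_t : ‖pos 𝔇.t.ap - pos (T.src (𝔇.t.ep 𝔇.t.np))‖ ≤ μ) (tip_s : ‖pos 𝔇.s.am - pos (T.src (𝔇.s.em 𝔇.s.nm))‖ ≤ μ)
    (sep : 2 * (pvwRad N h τs τs.k + pvwRad N h τt τt.k + μ) < ‖zs - zt‖) : 𝔇.t.ap ∉ 𝔇.fzY ∧ 𝔇.s.am ∉ 𝔇.fzY := by
  constructor
  · rintro (hv | hv)
    · exact pvwk_atOut_ap st_t bt h0 hN hv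
    · have := pvsn_sq_far (pvsn_fzIn_box h0 hN bs st_s _ hv) (st_t.stub.ep_in 𝔇.t.np le_rfl).1
      linarith
  · rintro (hv | hv)
    · have := pvsn_sq_far (st_s.stub.em_in 𝔇.s.nm le_rfl).1 (pvsn_fzOut_box h0 hN bt st_t _ hv)
      rw [norm_sub_rev (pos (T.src (𝔇.s.em 𝔇.s.nm)))] at this
      linarith
    · exact pvwk_atIn_am st_s bs h0 hN hv

/-- white banks: colours -/
theorem pvsn_disj_w (st_s : 𝔇.s.AtIn pos N h zs τs σ) (st_t : 𝔇.t.AtOut pos N h zt τt σ) (hb : ∀ v ∈ 𝔇.g.verts, σ v = true) : ∀ v ∈ 𝔇.g.verts, v ∉ 𝔇.t.whP ∧ v ∉ 𝔇.s.whM := by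
  intro v hv
  have h1 := hb v hv
  refine ⟨fun hw => ?_, fun hw => ?_⟩
  · rw [(pvwk_atOut_cols st_t).2 v hw] at h1
    exact Bool.false_ne_true h1
  · rw [(pvwk_atIn_cols st_s).2 v hw] at h1
    exact Bool.false_ne_true h1

end free

/-! ## 8. (STR) WHOLE from (PRE) with a rim -/

section str

variable {V D : Type} {T : PvMap V D} {pos : V → ℂ} {N : PvwNum} {h μ : ℝ} {zs zt : ℂ} {τs τt : PvwTy} {σ : V → Bool} {c : T.Cyc} {j : ℕ} {𝔇 : PvwDat T}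

/-- the boxes of a pin increase with the level -/
theorem pvsn_rad_mono (h0 : 0 ≤ h) (hN : 0 ≤ N.rho1) (τ : PvwTy) {k k' : ℕ} (hk : k ≤ k') : pvwRad N h τ k ≤ pvwRad N h τ k' := by
  unfold pvwRad
  have h1 : (k : ℝ) ≤ k' := Nat.cast_le.2 hk
  have h2 : (k : ℝ) * N.rho1 ≤ k' * N.rho1 := mul_le_mul_of_nonneg_right h1 hN
  exact mul_le_mul_of_nonneg_right (by linarith) h0

/-- **(PRE) of 62 ⟹ THE SCENE OF 64** (boxes of the levels) -/
theorem pvsn_scene_of_pre (h0 : 0 < h) (hN : 0 ≤ N.rho1) (pre : PvfyPre T pos N h zs zt τs τt σ c j 𝔇) :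
    PvweScene T pos h zs zt τs τt (pvwSq zs (pvwRad N h τs τs.k)) (pvwSq zt (pvwRad N h τt τt.k)) σ c j 𝔇 where
  rim := pre.rim
  black := pre.black
  gate_s := pre.st_s.gate
  gate_t := pre.st_t.gate
  stub_s := pre.st_s.stub
  stub_t := pre.st_t.stub
  run_s := pre.pin_s.run
  arc := pre.arc
  run_t := pre.pin_t.run
  pos_n := pre.pos_n
  short := pre.short
  core := Set.disjoint_left.2 fun v h1 h2 =>
    (Set.disjoint_left.1 pre.boxes) (pvwk_core_sq pre.st_s.gate (pvwk_rad_ge pre.b_s h0.le hN _) v h1) (pvwk_core_sq pre.st_t.gate (pvwk_rad_ge pre.b_t h0.le hN _) v h2)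
  far_s := fun h1 => (Set.disjoint_left.1 pre.boxes) (pvsn_sq_mono (pvsn_rad_mono h0.le hN τs pre.st_s.lev) h1) (pvfy_gate_box h0 hN pre.b_t pre.st_t.gate N.K).1
  far_t := fun h1 => (Set.disjoint_left.1 pre.boxes) (pvfy_gate_box h0 hN pre.b_s pre.st_s.gate N.K).2 (pvsn_sq_mono (pvsn_rad_mono h0.le hN τt pre.st_t.lev) h1)

/-- **(STR) WHOLE**: `PvfyStr` from (PRE) with a rim (in a completion) -/
theorem pvsn_str (hT : T.IsSph) (hS : T.Simple) (h0 : 0 < h) (hN : 0 ≤ N.rho1) (pre : PvfyPre T pos N h zs zt τs τt σ c j 𝔇)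
    (tip_t : ‖pos 𝔇.t.ap - pos (T.src (𝔇.t.ep 𝔇.t.np))‖ ≤ μ) (tip_s : ‖pos 𝔇.s.am - pos (T.src (𝔇.s.em 𝔇.s.nm))‖ ≤ μ)
    (sep : 2 * (pvwRad N h τs τs.k + pvwRad N h τt τt.k + μ) < ‖zs - zt‖) : PvfyStr T 𝔇 :=
  ⟨pvsn_out hT h0 hN pre, (pvsn_scene_of_pre h0 hN pre).disj hT hS, pvsn_tip_f h0.le hN pre.b_s pre.b_t pre.st_s pre.st_t tip_t tip_s sep⟩

end str

end Claimed.Agent.R289
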