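-- KEEP
import Claimed.Agent.R289.Tr.AccFront
import Claimed.Agent.R289.Tr.FitScene
import Claimed.Agent.R289.Tr.BandFit

/-!
# Row 289 (S0537, Cardy for Poisson-Voronoi), THE WALL, road E, TR38 = (ACC), file Tr/AccCb : THE MOUTH HALF OF (S) `exit_pvcb_scene` (56 `Tr/FitL2`), MODEL FREE, IN THE NAMES OF RECORD      (helper215; prefix `pvmu_cb_`)

THE OBSTACLE OF RECORD   `K := 𝔇.pvfyKd pos h zs zt τs τt` (62: closed frozen faces + the two closed core discs).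
THE FRONTS OF RECORD   `pvtCtr δ (a + L u)`, `L = ⌈5 ρ h / (8 δ)⌉ + 14` (= `pvcbFr a u (pvcbL δ (ρ h))` of 56, by `rfl`), from the FIELDS `unit base dom nd` of `PvcbDoor` (unbundled: this file does not import `Tr/FitL2`).
THE NUMBERS OF RECORD   `r = 11 δ`, `η = δ / 4`, `μ = δ`, `S` free with `S ≤ ρ h / 8`  (56: `S = ρ h / 64 + δ`).

* §1  `pvmu_cb_split` : `K = pvmuFs ∪ pvmuG ∪ pvmuFt` (box part of `s`, right faces of `g₀`, box part of `t`);   `pvmu_cb_compact` (NO finiteness hypothesis)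
* §2  `pvmu_cb_front` : the front of a door in absolute cell form: higher than `3 ρ h / 4 + 11 δ` over the side `u` of the box, within `ρ h + 16 δ` of the grid centre
* §3  **`pvmu_cb_scene`** : `∃ Wt Ws, PvaccScene γ K M Wt Ws ft fs (11 δ) (δ / 4) δ S lo ts tt hi`   from   the two half states, `g₀` off the mouths of record, mesh, doors, numbers   +   THE OTHER HALF:
      the polygon parts `W0t W0s` of the two witnesses (from the tip apexes on), `far`, `arc` (for all added pieces inside the two mouth balls), `γ tt`, `γ ts` = black ends of the tip darts, `lo_far`.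
* §3  **`pvmu_cb_scene_core`** : the same with `arc` IN THE SHAPE OF 10 (`pvfi_b_arc_Kd_wit`: for every `W` which is `S + 88 δ`-far from the two closed core discs) + `core_s core_t` for the polygon parts only
      (`pvmu_cb_ball_own`, `pvmu_cb_ball_other`: the mouth balls are far from both discs).
* §4  THE K-SIDE HYPOTHESES OF `pvmu_df_scene`, ONE BY ONE (for `PvfwSeam.scene` of 49): `pvmu_cb_Ms_sub _conn _box`, `pvmu_cb_Mt_sub _conn _box`, `pvmu_cb_rest`, `pvmu_cb_gs`, `pvmu_cb_gt`, `pvmu_cb_m1s`, `pvmu_cb_m1t`, `pvmu_cb_num`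
* §5  THE RECORD `PvmuKs` = all these hypotheses as fields (names of `pvmu_df_scene`);   `PvmuKs.scene`, `PvmuKs.link_t`, `PvmuKs.link_s`;   **`pvmu_cb_ks`** : the record at the obstacle, the fronts, the numbers of record      (at the model: `Tr/AccCbM`)
CONSUMER (257 / 10, `PvcbSceneAt`):   `d : PvcbDoor ..` gives `d.unit d.base d.dom d.nd`;   `pvcbFr a u (pvcbL δ (ρ h))` unfolds by `rfl` to the front of this file.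
-/

set_option autoImplicit false
set_option linter.unusedVariables false

namespace Claimed.Agent.R289

open Set Metric

/-! ## §1 the split of the obstacle of record -/

section split

variable {V D : Type} {T : PvMap V D} {pos : V → ℂ} {h : ℝ} {zs zt : ℂ} {τs τt : PvwTy} {σ : V → Bool} {𝔇 : PvwDat T}

/-- **THE OBSTACLE OF RECORD = BOX PART OF `s` ∪ RIGHT FACES OF `g₀` ∪ BOX PART OF `t`** -/
theorem pvmu_cb_split (gs : 𝔇.s.Gate pos h zs τs σ) (gt : 𝔇.t.Gate pos h zt τt σ) :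
    𝔇.pvfyKd pos h zs zt τs τt = pvmuFs T pos 𝔇.s (closedBall zs (τs.b * h)) ∪ pvmuG T pos 𝔇.g ∪ pvmuFt T pos 𝔇.t (closedBall zt (τt.b * h)) := by
  ext w
  constructor
  · rintro ((hw | hw) | hw)
    · unfold PvwDat.pvfyK at hw
      simp only [Set.mem_iUnion] at hw
      obtain ⟨d, hd, hwd⟩ := hw
      rcases hd with ⟨i, hi, rfl⟩ | ⟨i, hi, rfl⟩ | ⟨i, hi, rfl⟩ | hd | hd
      · exact Or.inr (Or.inr ⟨i, hi, hwd⟩)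
      · exact Or.inl (Or.inl (Or.inr ⟨i, hi, hwd⟩))
      · exact Or.inl (Or.inr ⟨i, hi, hwd⟩)
      · exact Or.inl (Or.inl (Or.inl (pvsn_face_core gs hd hwd)))
      · exact Or.inr (Or.inl (pvsn_face_core gt hd hwd))
    · exact Or.inl (Or.inl (Or.inl hw))
    · exact Or.inr (Or.inl hw)
  · have key : ∀ d ∈ 𝔇.pvfyJ, w ∈ pvmuFace T pos d → w ∈ 𝔇.pvfyKd pos h zs zt τs τt := by
      intro d hd hwd
      refine Or.inl (Or.inl ?_)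
      unfold PvwDat.pvfyK
      simp only [Set.mem_iUnion]
      exact ⟨d, hd, hwd⟩
    rintro (((hw | ⟨i, hi, hw⟩) | ⟨i, hi, hw⟩) | (hw | ⟨i, hi, hw⟩))
    · exact Or.inl (Or.inr hw)
    · exact key _ (Or.inr (Or.inl ⟨i, hi, rfl⟩)) hw
    · exact key _ (Or.inr (Or.inr (Or.inl ⟨i, hi, rfl⟩))) hw
    · exact Or.inr hw
    · exact key _ (Or.inl ⟨i, hi, rfl⟩) hw

theorem pvmu_cb_face_compact (T : PvMap V D) (pos : V → ℂ) (d : D) : IsCompact (pvmuFace T pos d) :=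
  (Set.Finite.isCompact_convexHull (𝕜 := ℝ) (by simp))

theorem pvmu_cb_run_compact (T : PvMap V D) (pos : V → ℂ) (φ : ℕ → D) (n : ℕ) : IsCompact {w | ∃ i, i < n ∧ w ∈ pvmuFace T pos (φ i)} := by
  have : {w | ∃ i, i < n ∧ w ∈ pvmuFace T pos (φ i)} = ⋃ i ∈ Set.Iio n, pvmuFace T pos (φ i) := by
    ext w
    simp only [Set.mem_ofPred_eq, Set.mem_iUnion, Set.mem_Iio, exists_prop]
  rw [this]
  exact (Set.finite_Iio n).isCompact_biUnion fun i _ => pvmu_cb_face_compact T pos _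

/-- the obstacle of record is compact (no finiteness of the insides of the gates is needed: they lie in the discs) -/
theorem pvmu_cb_compact (gs : 𝔇.s.Gate pos h zs τs σ) (gt : 𝔇.t.Gate pos h zt τt σ) : IsCompact (𝔇.pvfyKd pos h zs zt τs τt) := by
  rw [pvmu_cb_split gs gt]
  refine (((isCompact_closedBall _ _).union ?_).union (pvmu_cb_run_compact T pos (fun i => T.opp (𝔇.g.e i)) 𝔇.g.n)).union ((isCompact_closedBall _ _).union (pvmu_cb_run_compact T pos 𝔇.t.ep 𝔇.t.np))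
  have := pvmu_cb_run_compact T pos 𝔇.s.em (𝔇.s.nm + 1)
  simpa only [Nat.lt_succ_iff] using this

end split

/-! ## §2 the front of a door in absolute cell form -/

section front

theorem pvmu_cb_dir {u : ℤ × ℤ} (hu : PvfeDir u) : PvmuDir (pvtZ u) := by
  rcases hu with rfl | rfl | rfl | rfl
  · left; simp [pvtZ]
  · right; left; simp [pvtZ]
  · right; right; left; simp [pvtZ]
  · right; right; right; simp [pvtZ]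

theorem pvmu_cb_ctr (δ : ℝ) (a u : ℤ × ℤ) (L : ℕ) : pvtCtr δ (a + ((L + 1 : ℕ) : ℤ) • u) = pvtCtr δ (a + u) + ((δ * L : ℝ) : ℂ) * pvtZ u := by
  rw [pvtb_ctr_eq, pvtb_ctr_eq, pvtZ_add, pvtZ_add]
  have : pvtZ (((L + 1 : ℕ) : ℤ) • u) = ((L : ℂ) + 1) * pvtZ u := by
    unfold pvtZ
    simp only [Prod.smul_fst, Prod.smul_snd, smul_eq_mul]
    push_cast
    ring
  rw [this]
  push_cast
  ring

/-- **THE FRONT OF A DOOR IN ABSOLUTE CELL FORM** (fields `unit base dom nd` of `PvcbDoor` of 56) -/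
theorem pvmu_cb_front {δ ρh r : ℝ} {z y : ℂ} {a u : ℤ × ℤ} (hδ : 0 < δ) (hρ : 0 ≤ ρh) (hu : PvfeDir u)
    (base : ‖pvtCtr δ (a + u) - (y + ((3 * ρh / 8 : ℝ) : ℂ) * pvtZ u)‖ ≤ δ)
    (dom : ((y - z) * (starRingEnd ℂ) (pvtZ u)).re = pvccN (y - z)) (nd : |pvccN (y - z) - r| ≤ ρh / 4) :
    3 * ρh / 4 + 11 * δ < pvmuHt z r (pvtZ u) (pvtCtr δ (a + ((⌈5 * ρh / (8 * δ)⌉₊ + 14 : ℕ) : ℤ) • u)) ∧
      ‖pvtCtr δ (a + ((⌈5 * ρh / (8 * δ)⌉₊ + 14 : ℕ) : ℤ) • u) - y‖ ≤ ρh + 16 * δ := by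
  have hn := pvmu_cb_dir hu
  set n := pvtZ u with hndef
  set c := ⌈5 * ρh / (8 * δ)⌉₊ with hc
  have c1 : 5 * ρh / 8 ≤ δ * c := by
    have := Nat.le_ceil (5 * ρh / (8 * δ))
    rw [div_le_iff₀ (by positivity)] at this
    rw [← hc] at this
    nlinarith
  have c2 : δ * c < 5 * ρh / 8 + δ := by
    have := Nat.ceil_lt_add_one (a := 5 * ρh / (8 * δ)) (by positivity)
    rw [← hc] at this
    have e : 5 * ρh / (8 * δ) * δ = 5 * ρh / 8 := by field_simp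
    nlinarith
  have e1 : pvtCtr δ (a + ((c + 14 : ℕ) : ℤ) • u) = pvtCtr δ (a + u) + ((δ * ((c + 13 : ℕ) : ℝ) : ℝ) : ℂ) * n := pvmu_cb_ctr δ a u (c + 13)
  rw [e1]
  set t : ℝ := 3 * ρh / 8 + δ * ((c + 13 : ℕ) : ℝ) with ht
  have t1 : ρh + 13 * δ ≤ t := by rw [ht]; push_cast; nlinarith
  have t2 : t ≤ ρh + 14 * δ := by rw [ht]; push_cast; nlinarith
  have e2 : pvtCtr δ (a + u) + ((δ * ((c + 13 : ℕ) : ℝ) : ℝ) : ℂ) * n - (y + (t : ℂ) * n) = pvtCtr δ (a + u) - (y + ((3 * ρh / 8 : ℝ) : ℂ) * n) := by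
    rw [ht]; push_cast; ring
  constructor
  · have h1 := pvmu_ht_lip (z := z) (r := r) (w := y + (t : ℂ) * n) (w' := pvtCtr δ (a + u) + ((δ * ((c + 13 : ℕ) : ℝ) : ℝ) : ℂ) * n) hn
    rw [norm_sub_rev, e2, pvmu_ht_add hn] at h1
    have h2 : pvmuHt z r n y = pvccN (y - z) - r := by unfold pvmuHt; rw [dom]
    have h3 := (abs_le.1 nd).1
    linarith
  · have h1 := norm_add_le (pvtCtr δ (a + u) + ((δ * ((c + 13 : ℕ) : ℝ) : ℝ) : ℂ) * n - (y + (t : ℂ) * n)) ((t : ℂ) * n)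
    rw [show pvtCtr δ (a + u) + ((δ * ((c + 13 : ℕ) : ℝ) : ℝ) : ℂ) * n - (y + (t : ℂ) * n) + (t : ℂ) * n = pvtCtr δ (a + u) + ((δ * ((c + 13 : ℕ) : ℝ) : ℝ) : ℂ) * n - y by ring, e2, norm_mul, pvmu_dir_norm hn,
      Complex.norm_real, Real.norm_eq_abs, abs_of_nonneg (by linarith : (0 : ℝ) ≤ t)] at h1
    linarith

end front

/-! ## §3 the scene at the obstacle, the fronts, the numbers of record -/

section scene

variable {V D : Type} {T : PvMap V D} {pos : V → ℂ} {N : PvwNum} {h : ℝ} {zs zt : ℂ} {τs τt : PvwTy} {σ : V → Bool} {𝔇 : PvwDat T}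
  {γ : ℕ → ℂ} {W0t W0s : Set ℂ} {δ μe S : ℝ} {a₁ u₁ a₂ u₂ : ℤ × ℤ} {lo ts tt hi : ℕ}

/-- **THE MOUTH HALF OF (S)**: the scene of 211 at the obstacle of record (62), at the fronts of record (56), at the numbers of record.
Everything which concerns the mouths (compactness, links, (M1), (P4), the four masks, the fronts) is discharged. -/
theorem pvmu_cb_scene (As : 𝔇.s.AtIn pos N h zs τs σ) (At : 𝔇.t.AtOut pos N h zt τt σ)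
    -- `g₀` off the mouths of record; mesh
    (ms2 : ∀ v ∈ 𝔇.g.verts, 2 * N.rho * h < ‖pos v - τs.cm h zs‖) (mt2 : ∀ v ∈ 𝔇.g.verts, 2 * N.rho * h < ‖pos v - τt.cp h zt‖) (hm : PvsnMesh T pos 𝔇 μe)
    (hms : ‖pos 𝔇.s.am - pos (T.src (𝔇.s.em 𝔇.s.nm))‖ ≤ μe) (hmt : ‖pos 𝔇.t.ap - pos (T.src (𝔇.t.ep 𝔇.t.np))‖ ≤ μe)
    -- the doors in absolute cell form (fields of `PvcbDoor`)
    (du₁ : PvfeDir u₁) (db₁ : ‖pvtCtr δ (a₁ + u₁) - (τs.cm h zs + ((3 * (N.rho * h) / 8 : ℝ) : ℂ) * pvtZ u₁)‖ ≤ δ)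
    (dd₁ : ((τs.cm h zs - zs) * (starRingEnd ℂ) (pvtZ u₁)).re = pvccN (τs.cm h zs - zs)) (dn₁ : |pvccN (τs.cm h zs - zs) - pvwRad N h τs τs.k| ≤ N.rho * h / 4)
    (du₂ : PvfeDir u₂) (db₂ : ‖pvtCtr δ (a₂ + u₂) - (τt.cp h zt + ((3 * (N.rho * h) / 8 : ℝ) : ℂ) * pvtZ u₂)‖ ≤ δ)
    (dd₂ : ((τt.cp h zt - zt) * (starRingEnd ℂ) (pvtZ u₂)).re = pvccN (τt.cp h zt - zt)) (dn₂ : |pvccN (τt.cp h zt - zt) - pvwRad N h τt τt.k| ≤ N.rho * h / 4)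
    -- numbers
    (hδ : 0 < δ) (hμe : μe ≤ δ) (hρδ : 8192 * δ ≤ N.rho * h) (hS : S ≤ N.rho * h / 8)
    (hbs : τs.b * h ≤ pvwRad N h τs τs.k) (hbt : τt.b * h ≤ pvwRad N h τt τt.k) (hRs : N.rho * h ≤ pvwRad N h τs τs.k) (hRt : N.rho * h ≤ pvwRad N h τt τt.k)
    (hsep : pvwRad N h τs τs.k + pvwRad N h τt τt.k + 2 * (N.rho * h) < pvtcSup (zt - zs))
    -- THE OTHER HALF: the polygon parts of the two witnesses
    (wt_c : IsPreconnected W0t) (wt_k : IsCompact W0t) (wt_o : Disjoint W0t (𝔇.pvfyKd pos h zs zt τs τt)) (wt_a : pos 𝔇.t.ap ∈ W0t)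
    (wt_t : ∀ w ∈ W0t, (∃ k, (tt ≤ k ∧ k ≤ hi) ∧ ‖w - γ k‖ ≤ δ) ∨ ∀ q ∈ pvmuG T pos 𝔇.g, 13 * (11 * δ) < ‖w - q‖)
    (ws_c : IsPreconnected W0s) (ws_k : IsCompact W0s) (ws_o : Disjoint W0s (𝔇.pvfyKd pos h zs zt τs τt)) (ws_a : pos 𝔇.s.am ∈ W0s)
    (ws_t : ∀ w ∈ W0s, (∃ k, (lo ≤ k ∧ k ≤ ts) ∧ ‖w - γ k‖ ≤ δ) ∨ ∀ q ∈ pvmuG T pos 𝔇.g, 13 * (11 * δ) < ‖w - q‖)
    (far : ∃ a0 b0 c0 d0 : ℝ, 𝔇.pvfyKd pos h zs zt τs τt ⊆ pvtcRect a0 b0 c0 d0 ∧ (∃ q ∈ W0t, q ∉ pvtcRect (a0 - (11 * δ + δ / 4)) (b0 + (11 * δ + δ / 4)) (c0 - (11 * δ + δ / 4)) (d0 + (11 * δ + δ / 4))) ∧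
      ∃ q ∈ W0s, q ∉ pvtcRect (a0 - (11 * δ + δ / 4)) (b0 + (11 * δ + δ / 4)) (c0 - (11 * δ + δ / 4)) (d0 + (11 * δ + δ / 4)))
    -- the times
    (arc : ∀ Xt Xs : Set ℂ, Xt ⊆ closedBall (τt.cp h zt) (N.rho * h + 16 * δ) → Xs ⊆ closedBall (τs.cm h zs) (N.rho * h + 16 * δ) →
      ∃ u v, PvfrArc γ (𝔇.pvfyKd pos h zs zt τs τt) ((Xt ∪ W0t) ∪ (Xs ∪ W0s)) δ (S + 8 * (11 * δ)) ts tt u v)
    (hγt : γ tt = pos (T.src (𝔇.t.ep 𝔇.t.np))) (hγs : γ ts = pos (T.src (𝔇.s.em 𝔇.s.nm))) (lo_far : ∀ q ∈ 𝔇.pvfyKd pos h zs zt τs τt, S < ‖γ lo - q‖) (lo_le : lo ≤ ts) (tt_le : tt ≤ hi) :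
    ∃ Wt Ws : Set ℂ, PvaccScene γ (𝔇.pvfyKd pos h zs zt τs τt) (pvmuFs T pos 𝔇.s (closedBall zs (τs.b * h)) ∪ pvmuFt T pos 𝔇.t (closedBall zt (τt.b * h))) Wt Ws
      (pvtCtr δ (a₂ + ((⌈5 * (N.rho * h) / (8 * δ)⌉₊ + 14 : ℕ) : ℤ) • u₂)) (pvtCtr δ (a₁ + ((⌈5 * (N.rho * h) / (8 * δ)⌉₊ + 14 : ℕ) : ℤ) • u₁)) (11 * δ) (δ / 4) δ S lo ts tt hi := by
  have hρ : 0 ≤ N.rho * h := by linarith
  have hμ0 : 0 ≤ μe := (norm_nonneg _).trans hmt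
  obtain ⟨ft1, ft2⟩ := pvmu_cb_front hδ hρ du₂ db₂ dd₂ dn₂
  obtain ⟨fs1, fs2⟩ := pvmu_cb_front hδ hρ du₁ db₁ dd₁ dn₁
  have hnt := pvmu_cb_dir du₂
  have hns := pvmu_cb_dir du₁
  obtain ⟨-, -, -, -, ybt, yat⟩ := pvmu_st_side_t At hmt
  obtain ⟨-, -, -, -, ybs, yas⟩ := pvmu_st_side_s As hms
  have hK := pvmu_cb_split (𝔇 := 𝔇) As.gate At.gate
  have hDs : closedBall zs (τs.b * h) ⊆ pvwSq zs (pvwRad N h τs τs.k) := (pvmu_ball_sub_sq _ _).trans (pvmu_sq_mono hbs)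
  have hDt : closedBall zt (τt.b * h) ⊆ pvwSq zt (pvwRad N h τt τt.k) := (pvmu_ball_sub_sq _ _).trans (pvmu_sq_mono hbt)
  have hMsb : pvmuFs T pos 𝔇.s (closedBall zs (τs.b * h)) ⊆ pvwSq zs (pvwRad N h τs τs.k) :=
    pvmu_Fs_box hDs ((pvsn_face_core As.gate (pvsn_dm_left As.gate)).trans hDs) As.stub
  have hMtb : pvmuFt T pos 𝔇.t (closedBall zt (τt.b * h)) ⊆ pvwSq zt (pvwRad N h τt τt.k) := pvmu_Ft_box hDt At.stub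
  have hMsK : pvmuFs T pos 𝔇.s (closedBall zs (τs.b * h)) ⊆ 𝔇.pvfyKd pos h zs zt τs τt := by
    rw [hK]; exact fun w hw => Or.inl (Or.inl hw)
  have hMtK : pvmuFt T pos 𝔇.t (closedBall zt (τt.b * h)) ⊆ 𝔇.pvfyKd pos h zs zt τs τt := by
    rw [hK]; exact fun w hw => Or.inr hw
  have hG : ∀ q ∈ 𝔇.pvfyKd pos h zs zt τs τt \ (pvmuFs T pos 𝔇.s (closedBall zs (τs.b * h)) ∪ pvmuFt T pos 𝔇.t (closedBall zt (τt.b * h))), q ∈ pvmuG T pos 𝔇.g := by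
    rintro q ⟨hq, hq'⟩
    rw [hK] at hq
    rcases hq with (hq | hq) | hq
    · exact absurd (Or.inl hq) hq'
    · exact hq
    · exact absurd (Or.inr hq) hq'
  have gs : ∀ q ∈ pvmuG T pos 𝔇.g, 2 * N.rho * h - μe < ‖q - τs.cm h zs‖ := pvmu_G_far ms2 hm
  have gt : ∀ q ∈ pvmuG T pos 𝔇.g, 2 * N.rho * h - μe < ‖q - τt.cp h zt‖ := pvmu_G_far mt2 hm
  have m1t : 𝔇.pvfyKd pos h zs zt τs τt ∩ closedBall (τt.cp h zt) (N.rho * h + 16 * δ) ⊆ pvwSq zt (pvwRad N h τt τt.k) := by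
    rintro q ⟨hq, hb⟩
    rw [hK] at hq
    rcases hq with (hq | hq) | hq
    · exfalso
      have h1 := pvmu_lf_other (z' := zs) ybt hb
      have h2 := pvmu_sq_sup.1 (hMsb hq)
      linarith
    · exfalso
      have h1 := gt q hq
      have h2 := mem_closedBall_iff_norm.1 hb
      nlinarith
    · exact hMtb hq
  have m1s : 𝔇.pvfyKd pos h zs zt τs τt ∩ closedBall (τs.cm h zs) (N.rho * h + 16 * δ) ⊆ pvwSq zs (pvwRad N h τs τs.k) := by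
    rintro q ⟨hq, hb⟩
    rw [hK] at hq
    rcases hq with (hq | hq) | hq
    · exact hMsb hq
    · exfalso
      have h1 := gs q hq
      have h2 := mem_closedBall_iff_norm.1 hb
      nlinarith
    · exfalso
      have h1 := pvmu_lf_other (z' := zt) ybs hb
      have h2 := pvmu_sq_sup.1 (hMtb hq)
      rw [pvtc_pl_sup_comm zs zt] at h1
      linarith
  refine ⟨_, _, pvmu_df_scene (γ := γ) (W0t := W0t) (W0s := W0s) (μf := μe) (c := 3 * (N.rho * h) / 4) (e := 3 * (N.rho * h) / 4 + 11 * δ) (ρ' := N.rho * h + 16 * δ) (ρ'' := 2 * N.rho * h - μe)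
    (r := 11 * δ) (η := δ / 4) (μ := δ) (S := S) (lo := lo) (ts := ts) (tt := tt) (hi := hi) As At hms hmt hρ hns fs1 fs2 hnt ft1 ft2 (by positivity) (by positivity) (by linarith) (by linarith) (by linarith)
    (by positivity) (by linarith) (by linarith) (by linarith) (by linarith) (by linarith) (by linarith)
    (pvmu_cb_compact As.gate At.gate) m1s m1t hMsK (pvmu_Fs_conn (convex_closedBall _ _).isPreconnected (pvmu_gate_gm As.gate) As.stub) hMsb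
    hMtK (pvmu_Ft_conn (convex_closedBall _ _).isPreconnected (pvmu_gate_gp At.gate) At.stub) hMtb (fun q hq => gs q (hG q hq)) (fun q hq => gt q (hG q hq))
    wt_c wt_k wt_o wt_a (fun w hw => (wt_t w hw).imp id fun H q hq => H q (hG q hq)) ws_c ws_k ws_o ws_a (fun w hw => (ws_t w hw).imp id fun H q hq => H q (hG q hq)) far
    (arc _ _ (pvmu_lf_ball hnt yat (by positivity) (by linarith) ft2) (pvmu_lf_ball hns yas (by positivity) (by linarith) fs2)) hγt hγs lo_far lo_le tt_le⟩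

/-- a mouth ball is far from the core disc of its own pin -/
theorem pvmu_cb_ball_own {z y w p : ℂ} {R κ ρ' b : ℝ} (nd : |pvccN (y - z) - R| ≤ κ) (hw : w ∈ closedBall y ρ') (hp : p ∈ closedBall z b) : R - κ - ρ' - b ≤ ‖w - p‖ := by
  have h1 : pvccN (y - z) ≤ ‖y - z‖ := pvtc_pl_sup_le_norm (y - z)
  have h2 := (abs_le.1 nd).1
  have h3 := mem_closedBall_iff_norm.1 hw
  have h4 := mem_closedBall_iff_norm.1 hp
  have h5 : ‖y - z‖ ≤ ‖w - y‖ + ‖w - p‖ + ‖p - z‖ := by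
    have a1 := norm_add_le (y - w) (w - z)
    have a2 := norm_add_le (w - p) (p - z)
    rw [show y - w + (w - z) = y - z by ring, norm_sub_rev y w] at a1
    rw [show w - p + (p - z) = w - z by ring] at a2
    linarith
  linarith

/-- a mouth ball is far from the box of the other pin -/
theorem pvmu_cb_ball_other {z z' y w p : ℂ} {R R' κ' ρ' : ℝ} (hyb : y ∈ pvwSq z (R + κ')) (hw : w ∈ closedBall y ρ') (hp : p ∈ pvwSq z' R') : pvtcSup (z - z') - (R + κ') - ρ' - R' ≤ ‖w - p‖ := by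
  have h1 := pvmu_lf_other (z' := z') hyb hw
  have h2 := pvmu_sq_sup.1 hp
  have h3 := pvacc_sup_tri w p z'
  have h4 := pvtc_pl_sup_le_norm (w - p)
  linarith

/-- **THE MOUTH HALF OF (S), `arc` IN THE SHAPE OF 10** (`pvfi_b_arc_Kd_wit`: every `W` which is `L`-far from the two closed core discs): the added pieces are `L`-far from the discs. -/
theorem pvmu_cb_scene_core (As : 𝔇.s.AtIn pos N h zs τs σ) (At : 𝔇.t.AtOut pos N h zt τt σ)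
    (ms2 : ∀ v ∈ 𝔇.g.verts, 2 * N.rho * h < ‖pos v - τs.cm h zs‖) (mt2 : ∀ v ∈ 𝔇.g.verts, 2 * N.rho * h < ‖pos v - τt.cp h zt‖) (hm : PvsnMesh T pos 𝔇 μe)
    (hms : ‖pos 𝔇.s.am - pos (T.src (𝔇.s.em 𝔇.s.nm))‖ ≤ μe) (hmt : ‖pos 𝔇.t.ap - pos (T.src (𝔇.t.ep 𝔇.t.np))‖ ≤ μe)
    (du₁ : PvfeDir u₁) (db₁ : ‖pvtCtr δ (a₁ + u₁) - (τs.cm h zs + ((3 * (N.rho * h) / 8 : ℝ) : ℂ) * pvtZ u₁)‖ ≤ δ)
    (dd₁ : ((τs.cm h zs - zs) * (starRingEnd ℂ) (pvtZ u₁)).re = pvccN (τs.cm h zs - zs)) (dn₁ : |pvccN (τs.cm h zs - zs) - pvwRad N h τs τs.k| ≤ N.rho * h / 4)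
    (du₂ : PvfeDir u₂) (db₂ : ‖pvtCtr δ (a₂ + u₂) - (τt.cp h zt + ((3 * (N.rho * h) / 8 : ℝ) : ℂ) * pvtZ u₂)‖ ≤ δ)
    (dd₂ : ((τt.cp h zt - zt) * (starRingEnd ℂ) (pvtZ u₂)).re = pvccN (τt.cp h zt - zt)) (dn₂ : |pvccN (τt.cp h zt - zt) - pvwRad N h τt τt.k| ≤ N.rho * h / 4)
    (hδ : 0 < δ) (hμe : μe ≤ δ) (hρδ : 8192 * δ ≤ N.rho * h) (hS : S ≤ N.rho * h / 8)
    (hbs0 : 0 ≤ τs.b * h) (hbt0 : 0 ≤ τt.b * h) (hbs : τs.b * h + 2 * (N.rho * h) ≤ pvwRad N h τs τs.k) (hbt : τt.b * h + 2 * (N.rho * h) ≤ pvwRad N h τt τt.k)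
    (hsep : pvwRad N h τs τs.k + pvwRad N h τt τt.k + 2 * (N.rho * h) < pvtcSup (zt - zs))
    (wt_c : IsPreconnected W0t) (wt_k : IsCompact W0t) (wt_o : Disjoint W0t (𝔇.pvfyKd pos h zs zt τs τt)) (wt_a : pos 𝔇.t.ap ∈ W0t)
    (wt_t : ∀ w ∈ W0t, (∃ k, (tt ≤ k ∧ k ≤ hi) ∧ ‖w - γ k‖ ≤ δ) ∨ ∀ q ∈ pvmuG T pos 𝔇.g, 13 * (11 * δ) < ‖w - q‖)
    (ws_c : IsPreconnected W0s) (ws_k : IsCompact W0s) (ws_o : Disjoint W0s (𝔇.pvfyKd pos h zs zt τs τt)) (ws_a : pos 𝔇.s.am ∈ W0s)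
    (ws_t : ∀ w ∈ W0s, (∃ k, (lo ≤ k ∧ k ≤ ts) ∧ ‖w - γ k‖ ≤ δ) ∨ ∀ q ∈ pvmuG T pos 𝔇.g, 13 * (11 * δ) < ‖w - q‖)
    (far : ∃ a0 b0 c0 d0 : ℝ, 𝔇.pvfyKd pos h zs zt τs τt ⊆ pvtcRect a0 b0 c0 d0 ∧ (∃ q ∈ W0t, q ∉ pvtcRect (a0 - (11 * δ + δ / 4)) (b0 + (11 * δ + δ / 4)) (c0 - (11 * δ + δ / 4)) (d0 + (11 * δ + δ / 4))) ∧
      ∃ q ∈ W0s, q ∉ pvtcRect (a0 - (11 * δ + δ / 4)) (b0 + (11 * δ + δ / 4)) (c0 - (11 * δ + δ / 4)) (d0 + (11 * δ + δ / 4)))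
    -- the polygon parts are far from the two core discs (second gate: 118 120)
    (core_s : ∀ p ∈ closedBall zs (τs.b * h), ∀ w ∈ W0t ∪ W0s, S + 8 * (11 * δ) < ‖w - p‖) (core_t : ∀ p ∈ closedBall zt (τt.b * h), ∀ w ∈ W0t ∪ W0s, S + 8 * (11 * δ) < ‖w - p‖)
    (arc : ∀ W : Set ℂ, (∀ p ∈ closedBall zs (τs.b * h), ∀ w ∈ W, S + 8 * (11 * δ) < ‖w - p‖) → (∀ p ∈ closedBall zt (τt.b * h), ∀ w ∈ W, S + 8 * (11 * δ) < ‖w - p‖) →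
      ∃ u v, PvfrArc γ (𝔇.pvfyKd pos h zs zt τs τt) W δ (S + 8 * (11 * δ)) ts tt u v)
    (hγt : γ tt = pos (T.src (𝔇.t.ep 𝔇.t.np))) (hγs : γ ts = pos (T.src (𝔇.s.em 𝔇.s.nm))) (lo_far : ∀ q ∈ 𝔇.pvfyKd pos h zs zt τs τt, S < ‖γ lo - q‖) (lo_le : lo ≤ ts) (tt_le : tt ≤ hi) :
    ∃ Wt Ws : Set ℂ, PvaccScene γ (𝔇.pvfyKd pos h zs zt τs τt) (pvmuFs T pos 𝔇.s (closedBall zs (τs.b * h)) ∪ pvmuFt T pos 𝔇.t (closedBall zt (τt.b * h))) Wt Ws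
      (pvtCtr δ (a₂ + ((⌈5 * (N.rho * h) / (8 * δ)⌉₊ + 14 : ℕ) : ℤ) • u₂)) (pvtCtr δ (a₁ + ((⌈5 * (N.rho * h) / (8 * δ)⌉₊ + 14 : ℕ) : ℤ) • u₁)) (11 * δ) (δ / 4) δ S lo ts tt hi := by
  have hρ : 0 ≤ N.rho * h := by linarith
  have hμ0 : 0 ≤ μe := (norm_nonneg _).trans hmt
  obtain ⟨-, -, -, -, ybt, -⟩ := pvmu_st_side_t At hmt
  obtain ⟨-, -, -, -, ybs, -⟩ := pvmu_st_side_s As hms
  have hDs : closedBall zs (τs.b * h) ⊆ pvwSq zs (pvwRad N h τs τs.k) := (pvmu_ball_sub_sq _ _).trans (pvmu_sq_mono (by linarith))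
  have hDt : closedBall zt (τt.b * h) ⊆ pvwSq zt (pvwRad N h τt τt.k) := (pvmu_ball_sub_sq _ _).trans (pvmu_sq_mono (by linarith))
  refine pvmu_cb_scene As At ms2 mt2 hm hms hmt du₁ db₁ dd₁ dn₁ du₂ db₂ dd₂ dn₂ hδ hμe hρδ hS (by linarith) (by linarith) (by linarith) (by linarith) hsep
    wt_c wt_k wt_o wt_a wt_t ws_c ws_k ws_o ws_a ws_t far ?_ hγt hγs lo_far lo_le tt_le
  intro Xt Xs hXt hXs
  refine arc _ ?_ ?_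
  · rintro p hp w ((hw | hw) | (hw | hw))
    · have := pvmu_cb_ball_other ybt (hXt hw) (hDs hp)
      linarith
    · exact core_s p hp w (Or.inl hw)
    · have := pvmu_cb_ball_own dn₁ (hXs hw) hp
      linarith
    · exact core_s p hp w (Or.inr hw)
  · rintro p hp w ((hw | hw) | (hw | hw))
    · have := pvmu_cb_ball_own dn₂ (hXt hw) hp
      linarith
    · exact core_t p hp w (Or.inl hw)
    · have := pvmu_cb_ball_other ybs (hXs hw) (hDt hp)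
      rw [pvtc_pl_sup_comm zs zt] at this
      linarith
    · exact core_t p hp w (Or.inr hw)

end scene

/-! ## §4 THE K-SIDE HYPOTHESES OF `pvmu_df_scene` (215 `Tr/AccFront`), ONE BY ONE, at the obstacle of record      (for `PvfwSeam.scene` of 49, which takes them verbatim)

`Ms := pvmuFs T pos 𝔇.s (closedBall zs (τs.b * h))`,   `Mt := pvmuFt T pos 𝔇.t (closedBall zt (τt.b * h))`,   `ρ' := ρ h + 16 δ`,   `ρ'' := 2 ρ h - μe`,   `μf := μe`,   `c := 3 ρ h / 4`,   `e := 3 ρ h / 4 + 11 δ`. -/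

section kside

variable {V D : Type} {T : PvMap V D} {pos : V → ℂ} {N : PvwNum} {h : ℝ} {zs zt : ℂ} {τs τt : PvwTy} {σ : V → Bool} {𝔇 : PvwDat T} {δ μe ρ' S : ℝ}

theorem pvmu_cb_Ms_sub (As : 𝔇.s.AtIn pos N h zs τs σ) (At : 𝔇.t.AtOut pos N h zt τt σ) : pvmuFs T pos 𝔇.s (closedBall zs (τs.b * h)) ⊆ 𝔇.pvfyKd pos h zs zt τs τt := by
  rw [pvmu_cb_split (𝔇 := 𝔇) As.gate At.gate]; exact fun w hw => Or.inl (Or.inl hw)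

theorem pvmu_cb_Mt_sub (As : 𝔇.s.AtIn pos N h zs τs σ) (At : 𝔇.t.AtOut pos N h zt τt σ) : pvmuFt T pos 𝔇.t (closedBall zt (τt.b * h)) ⊆ 𝔇.pvfyKd pos h zs zt τs τt := by
  rw [pvmu_cb_split (𝔇 := 𝔇) As.gate At.gate]; exact fun w hw => Or.inr hw

theorem pvmu_cb_Ms_conn (As : 𝔇.s.AtIn pos N h zs τs σ) : IsPreconnected (pvmuFs T pos 𝔇.s (closedBall zs (τs.b * h))) :=
  pvmu_Fs_conn (convex_closedBall _ _).isPreconnected (pvmu_gate_gm As.gate) As.stub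

theorem pvmu_cb_Mt_conn (At : 𝔇.t.AtOut pos N h zt τt σ) : IsPreconnected (pvmuFt T pos 𝔇.t (closedBall zt (τt.b * h))) :=
  pvmu_Ft_conn (convex_closedBall _ _).isPreconnected (pvmu_gate_gp At.gate) At.stub

theorem pvmu_cb_Ms_box (As : 𝔇.s.AtIn pos N h zs τs σ) (hbs : τs.b * h ≤ pvwRad N h τs τs.k) : pvmuFs T pos 𝔇.s (closedBall zs (τs.b * h)) ⊆ pvwSq zs (pvwRad N h τs τs.k) := by
  have hDs : closedBall zs (τs.b * h) ⊆ pvwSq zs (pvwRad N h τs τs.k) := (pvmu_ball_sub_sq _ _).trans (pvmu_sq_mono hbs)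
  exact pvmu_Fs_box hDs ((pvsn_face_core As.gate (pvsn_dm_left As.gate)).trans hDs) As.stub

theorem pvmu_cb_Mt_box (At : 𝔇.t.AtOut pos N h zt τt σ) (hbt : τt.b * h ≤ pvwRad N h τt τt.k) : pvmuFt T pos 𝔇.t (closedBall zt (τt.b * h)) ⊆ pvwSq zt (pvwRad N h τt τt.k) :=
  pvmu_Ft_box ((pvmu_ball_sub_sq _ _).trans (pvmu_sq_mono hbt)) At.stub

/-- the unmasked part of the obstacle = right faces of `g₀` -/
theorem pvmu_cb_rest (As : 𝔇.s.AtIn pos N h zs τs σ) (At : 𝔇.t.AtOut pos N h zt τt σ) :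
    𝔇.pvfyKd pos h zs zt τs τt \ (pvmuFs T pos 𝔇.s (closedBall zs (τs.b * h)) ∪ pvmuFt T pos 𝔇.t (closedBall zt (τt.b * h))) ⊆ pvmuG T pos 𝔇.g := by
  rintro q ⟨hq, hq'⟩
  rw [pvmu_cb_split (𝔇 := 𝔇) As.gate At.gate] at hq
  rcases hq with (hq | hq) | hq
  · exact absurd (Or.inl hq) hq'
  · exact hq
  · exact absurd (Or.inr hq) hq'

/-- `gs` -/
theorem pvmu_cb_gs (As : 𝔇.s.AtIn pos N h zs τs σ) (At : 𝔇.t.AtOut pos N h zt τt σ) (ms2 : ∀ v ∈ 𝔇.g.verts, 2 * N.rho * h < ‖pos v - τs.cm h zs‖) (hm : PvsnMesh T pos 𝔇 μe) :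
    ∀ q ∈ 𝔇.pvfyKd pos h zs zt τs τt \ (pvmuFs T pos 𝔇.s (closedBall zs (τs.b * h)) ∪ pvmuFt T pos 𝔇.t (closedBall zt (τt.b * h))), 2 * N.rho * h - μe < ‖q - τs.cm h zs‖ :=
  fun q hq => pvmu_G_far ms2 hm q (pvmu_cb_rest As At hq)

/-- `gt` -/
theorem pvmu_cb_gt (As : 𝔇.s.AtIn pos N h zs τs σ) (At : 𝔇.t.AtOut pos N h zt τt σ) (mt2 : ∀ v ∈ 𝔇.g.verts, 2 * N.rho * h < ‖pos v - τt.cp h zt‖) (hm : PvsnMesh T pos 𝔇 μe) :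
    ∀ q ∈ 𝔇.pvfyKd pos h zs zt τs τt \ (pvmuFs T pos 𝔇.s (closedBall zs (τs.b * h)) ∪ pvmuFt T pos 𝔇.t (closedBall zt (τt.b * h))), 2 * N.rho * h - μe < ‖q - τt.cp h zt‖ :=
  fun q hq => pvmu_G_far mt2 hm q (pvmu_cb_rest As At hq)

/-- `m1t` = (M1) at the exit mouth, every radius `ρ' ≤ 2 ρ h - μe` -/
theorem pvmu_cb_m1t (As : 𝔇.s.AtIn pos N h zs τs σ) (At : 𝔇.t.AtOut pos N h zt τt σ) (mt2 : ∀ v ∈ 𝔇.g.verts, 2 * N.rho * h < ‖pos v - τt.cp h zt‖) (hm : PvsnMesh T pos 𝔇 μe)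
    (hmt : ‖pos 𝔇.t.ap - pos (T.src (𝔇.t.ep 𝔇.t.np))‖ ≤ μe) (hbs : τs.b * h ≤ pvwRad N h τs τs.k) (hbt : τt.b * h ≤ pvwRad N h τt τt.k) (hρ' : ρ' ≤ 2 * N.rho * h - μe)
    (hsep : pvwRad N h τs τs.k + pvwRad N h τt τt.k + (N.rho * h / 4 + μe) + ρ' < pvtcSup (zt - zs)) :
    𝔇.pvfyKd pos h zs zt τs τt ∩ closedBall (τt.cp h zt) ρ' ⊆ pvwSq zt (pvwRad N h τt τt.k) := by
  obtain ⟨-, -, -, -, ybt, -⟩ := pvmu_st_side_t At hmt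
  rintro q ⟨hq, hb⟩
  rw [pvmu_cb_split (𝔇 := 𝔇) As.gate At.gate] at hq
  rcases hq with (hq | hq) | hq
  · exfalso
    have h1 := pvmu_lf_other (z' := zs) ybt hb
    have h2 := pvmu_sq_sup.1 (pvmu_cb_Ms_box As hbs hq)
    linarith
  · exfalso
    have h1 := pvmu_G_far mt2 hm q hq
    have h2 := mem_closedBall_iff_norm.1 hb
    linarith
  · exact pvmu_cb_Mt_box At hbt hq

/-- `m1s` = (M1) at the entrance mouth -/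
theorem pvmu_cb_m1s (As : 𝔇.s.AtIn pos N h zs τs σ) (At : 𝔇.t.AtOut pos N h zt τt σ) (ms2 : ∀ v ∈ 𝔇.g.verts, 2 * N.rho * h < ‖pos v - τs.cm h zs‖) (hm : PvsnMesh T pos 𝔇 μe)
    (hms : ‖pos 𝔇.s.am - pos (T.src (𝔇.s.em 𝔇.s.nm))‖ ≤ μe) (hbs : τs.b * h ≤ pvwRad N h τs τs.k) (hbt : τt.b * h ≤ pvwRad N h τt τt.k) (hρ' : ρ' ≤ 2 * N.rho * h - μe)
    (hsep : pvwRad N h τs τs.k + pvwRad N h τt τt.k + (N.rho * h / 4 + μe) + ρ' < pvtcSup (zt - zs)) :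
    𝔇.pvfyKd pos h zs zt τs τt ∩ closedBall (τs.cm h zs) ρ' ⊆ pvwSq zs (pvwRad N h τs τs.k) := by
  obtain ⟨-, -, -, -, ybs, -⟩ := pvmu_st_side_s As hms
  rintro q ⟨hq, hb⟩
  rw [pvmu_cb_split (𝔇 := 𝔇) As.gate At.gate] at hq
  rcases hq with (hq | hq) | hq
  · exact pvmu_cb_Ms_box As hbs hq
  · exfalso
    have h1 := pvmu_G_far ms2 hm q hq
    have h2 := mem_closedBall_iff_norm.1 hb
    linarith
  · exfalso
    have h1 := pvmu_lf_other (z' := zt) ybs hb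
    have h2 := pvmu_sq_sup.1 (pvmu_cb_Mt_box At hbt hq)
    rw [pvtc_pl_sup_comm zs zt] at h1
    linarith

/-- **THE NUMBERS OF `pvmu_df_scene` AT THE NUMBERS OF RECORD**, in the order of its hypotheses `hr hη he hRs hRt hc0 hc h1 hsep n1 n2 n3` -/
theorem pvmu_cb_num {ρh Rs Rt sup : ℝ} (hδ : 0 < δ) (hμ0 : 0 ≤ μe) (hμe : μe ≤ δ) (hρδ : 8192 * δ ≤ ρh) (hS : S ≤ ρh / 8) (hRs : ρh ≤ Rs) (hRt : ρh ≤ Rt) (hsep : Rs + Rt + 2 * ρh < sup) :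
    0 ≤ 11 * δ ∧ 0 ≤ δ / 4 ∧ 11 * δ + 2 * (δ / 4) ≤ 3 * ρh / 4 + 11 * δ ∧ ρh / 4 + μe + (ρh + 16 * δ) ≤ 2 * Rs + (3 * ρh / 4 + 11 * δ) ∧ ρh / 4 + μe + (ρh + 16 * δ) ≤ 2 * Rt + (3 * ρh / 4 + 11 * δ) ∧
      0 ≤ 3 * ρh / 4 ∧ ρh / 4 + μe + (ρh + 16 * δ) ≤ 3 * ρh / 4 + (3 * ρh / 4 + 11 * δ) ∧ ρh / 4 + μe + 3 * ρh / 4 ≤ ρh + 16 * δ ∧
      Rs + Rt + (ρh / 4 + μe) + (ρh + 16 * δ) + (2 * (11 * δ) + 2 * (δ / 4)) < sup ∧
      3 * S + 5 * (11 * δ) ≤ 2 * ρh - μe - (ρh + 16 * δ) ∧ S + 5 * (11 * δ) ≤ 2 * ρh - μe - ρh / 4 ∧ 13 * (11 * δ) ≤ 2 * ρh - μe - (ρh + 16 * δ) := by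
  refine ⟨by positivity, by positivity, by linarith, by linarith, by linarith, by linarith, by linarith, by linarith, by linarith, by linarith, by linarith, by linarith⟩

end kside

/-! ## §5 THE RECORD OF THE K-SIDE -/

section record

variable {V D : Type}

/-- **THE K-SIDE OF THE SCENE** = all the hypotheses of `pvmu_df_scene` (215 `Tr/AccFront`) which concern the mouths, the fronts, the obstacle and the numbers, under the names they have there -/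
structure PvmuKs (T : PvMap V D) (pos : V → ℂ) (N : PvwNum) (h : ℝ) (zs zt : ℂ) (τs τt : PvwTy) (𝔖s 𝔖t : PvwSt T) (K Ms Mt : Set ℂ) (ns nt fs ft : ℂ) (μf c e ρ' ρ'' r η S : ℝ) : Prop where
  hms : ‖pos 𝔖s.am - pos (T.src (𝔖s.em 𝔖s.nm))‖ ≤ μf
  hmt : ‖pos 𝔖t.ap - pos (T.src (𝔖t.ep 𝔖t.np))‖ ≤ μf
  hρ : 0 ≤ N.rho * h
  hns : PvmuDir ns
  hfs : e < pvmuHt zs (pvwRad N h τs τs.k) ns fs
  hfsy : ‖fs - τs.cm h zs‖ ≤ ρ'
  hnt : PvmuDir nt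
  hft : e < pvmuHt zt (pvwRad N h τt τt.k) nt ft
  hfty : ‖ft - τt.cp h zt‖ ≤ ρ'
  hr : 0 ≤ r
  hη : 0 ≤ η
  he : r + 2 * η ≤ e
  hRs : N.rho * h / 4 + μf + ρ' ≤ 2 * pvwRad N h τs τs.k + e
  hRt : N.rho * h / 4 + μf + ρ' ≤ 2 * pvwRad N h τt τt.k + e
  hc0 : 0 ≤ c
  hc : N.rho * h / 4 + μf + ρ' ≤ c + e
  h1 : N.rho * h / 4 + μf + c ≤ ρ'
  hsep : pvwRad N h τs τs.k + pvwRad N h τt τt.k + (N.rho * h / 4 + μf) + ρ' + (2 * r + 2 * η) < pvtcSup (zt - zs)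
  n1 : 3 * S + 5 * r ≤ ρ'' - ρ'
  n2 : S + 5 * r ≤ ρ'' - N.rho * h / 4
  n3 : 13 * r ≤ ρ'' - ρ'
  hKc : IsCompact K
  m1s : K ∩ closedBall (τs.cm h zs) ρ' ⊆ pvwSq zs (pvwRad N h τs τs.k)
  m1t : K ∩ closedBall (τt.cp h zt) ρ' ⊆ pvwSq zt (pvwRad N h τt τt.k)
  hMsK : Ms ⊆ K
  hMsc : IsPreconnected Ms
  hMsb : Ms ⊆ pvwSq zs (pvwRad N h τs τs.k)
  hMtK : Mt ⊆ K
  hMtc : IsPreconnected Mt
  hMtb : Mt ⊆ pvwSq zt (pvwRad N h τt τt.k)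
  gs : ∀ q ∈ K \ (Ms ∪ Mt), ρ'' < ‖q - τs.cm h zs‖
  gt : ∀ q ∈ K \ (Ms ∪ Mt), ρ'' < ‖q - τt.cp h zt‖

variable {T : PvMap V D} {pos : V → ℂ} {N : PvwNum} {h : ℝ} {zs zt : ℂ} {τs τt : PvwTy} {σ : V → Bool} {𝔖s 𝔖t : PvwSt T} {𝔇 : PvwDat T}
  {γ : ℕ → ℂ} {K Ms Mt W0t W0s : Set ℂ} {ns nt fs ft : ℂ} {μf c e ρ' ρ'' r η μ S δ μe : ℝ} {a₁ u₁ a₂ u₂ : ℤ × ℤ} {lo ts tt hi : ℕ}

/-- the scene from the K-side record and the other half (= `pvmu_df_scene`) -/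
theorem PvmuKs.scene (ks : PvmuKs T pos N h zs zt τs τt 𝔖s 𝔖t K Ms Mt ns nt fs ft μf c e ρ' ρ'' r η S) (As : 𝔖s.AtIn pos N h zs τs σ) (At : 𝔖t.AtOut pos N h zt τt σ)
    (wt_c : IsPreconnected W0t) (wt_k : IsCompact W0t) (wt_o : Disjoint W0t K) (wt_a : pos 𝔖t.ap ∈ W0t)
    (wt_t : ∀ w ∈ W0t, (∃ k, (tt ≤ k ∧ k ≤ hi) ∧ ‖w - γ k‖ ≤ μ) ∨ ∀ q ∈ K \ (Ms ∪ Mt), 13 * r < ‖w - q‖)
    (ws_c : IsPreconnected W0s) (ws_k : IsCompact W0s) (ws_o : Disjoint W0s K) (ws_a : pos 𝔖s.am ∈ W0s)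
    (ws_t : ∀ w ∈ W0s, (∃ k, (lo ≤ k ∧ k ≤ ts) ∧ ‖w - γ k‖ ≤ μ) ∨ ∀ q ∈ K \ (Ms ∪ Mt), 13 * r < ‖w - q‖)
    (far : ∃ a0 b0 c0 d0 : ℝ, K ⊆ pvtcRect a0 b0 c0 d0 ∧ (∃ q ∈ W0t, q ∉ pvtcRect (a0 - (r + η)) (b0 + (r + η)) (c0 - (r + η)) (d0 + (r + η))) ∧
      ∃ q ∈ W0s, q ∉ pvtcRect (a0 - (r + η)) (b0 + (r + η)) (c0 - (r + η)) (d0 + (r + η)))
    (arc : ∃ u v, PvfrArc γ K ((pvmuLf (pos 𝔖t.ap) nt ft c ∪ W0t) ∪ (pvmuLf (pos 𝔖s.am) ns fs c ∪ W0s)) μ (S + 8 * r) ts tt u v)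
    (hγt : γ tt = pos (T.src (𝔖t.ep 𝔖t.np))) (hγs : γ ts = pos (T.src (𝔖s.em 𝔖s.nm))) (lo_far : ∀ q ∈ K, S < ‖γ lo - q‖) (lo_le : lo ≤ ts) (tt_le : tt ≤ hi) :
    PvaccScene γ K (Ms ∪ Mt) (pvmuLf (pos 𝔖t.ap) nt ft c ∪ W0t) (pvmuLf (pos 𝔖s.am) ns fs c ∪ W0s) ft fs r η μ S lo ts tt hi :=
  pvmu_df_scene As At ks.hms ks.hmt ks.hρ ks.hns ks.hfs ks.hfsy ks.hnt ks.hft ks.hfty ks.hr ks.hη ks.he ks.hRs ks.hRt ks.hc0 ks.hc ks.h1 ks.hsep ks.n1 ks.n2 ks.n3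
    ks.hKc ks.m1s ks.m1t ks.hMsK ks.hMsc ks.hMsb ks.hMtK ks.hMtc ks.hMtb ks.gs ks.gt wt_c wt_k wt_o wt_a wt_t ws_c ws_k ws_o ws_a ws_t far arc hγt hγs lo_far lo_le tt_le

/-- the two links lie in the mouth balls -/
theorem PvmuKs.link_t (ks : PvmuKs T pos N h zs zt τs τt 𝔖s 𝔖t K Ms Mt ns nt fs ft μf c e ρ' ρ'' r η S) (At : 𝔖t.AtOut pos N h zt τt σ) :
    pvmuLf (pos 𝔖t.ap) nt ft c ⊆ closedBall (τt.cp h zt) ρ' := by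
  obtain ⟨-, -, -, -, -, yat⟩ := pvmu_st_side_t At ks.hmt
  exact pvmu_lf_ball ks.hnt yat ks.hc0 ks.h1 ks.hfty

theorem PvmuKs.link_s (ks : PvmuKs T pos N h zs zt τs τt 𝔖s 𝔖t K Ms Mt ns nt fs ft μf c e ρ' ρ'' r η S) (As : 𝔖s.AtIn pos N h zs τs σ) :
    pvmuLf (pos 𝔖s.am) ns fs c ⊆ closedBall (τs.cm h zs) ρ' := by
  obtain ⟨-, -, -, -, -, yas⟩ := pvmu_st_side_s As ks.hms
  exact pvmu_lf_ball ks.hns yas ks.hc0 ks.h1 ks.hfsy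

/-- **THE K-SIDE AT THE OBSTACLE, THE FRONTS, THE NUMBERS OF RECORD** -/
theorem pvmu_cb_ks (As : 𝔇.s.AtIn pos N h zs τs σ) (At : 𝔇.t.AtOut pos N h zt τt σ)
    (ms2 : ∀ v ∈ 𝔇.g.verts, 2 * N.rho * h < ‖pos v - τs.cm h zs‖) (mt2 : ∀ v ∈ 𝔇.g.verts, 2 * N.rho * h < ‖pos v - τt.cp h zt‖) (hm : PvsnMesh T pos 𝔇 μe)
    (hms : ‖pos 𝔇.s.am - pos (T.src (𝔇.s.em 𝔇.s.nm))‖ ≤ μe) (hmt : ‖pos 𝔇.t.ap - pos (T.src (𝔇.t.ep 𝔇.t.np))‖ ≤ μe)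
    (du₁ : PvfeDir u₁) (db₁ : ‖pvtCtr δ (a₁ + u₁) - (τs.cm h zs + ((3 * (N.rho * h) / 8 : ℝ) : ℂ) * pvtZ u₁)‖ ≤ δ)
    (dd₁ : ((τs.cm h zs - zs) * (starRingEnd ℂ) (pvtZ u₁)).re = pvccN (τs.cm h zs - zs)) (dn₁ : |pvccN (τs.cm h zs - zs) - pvwRad N h τs τs.k| ≤ N.rho * h / 4)
    (du₂ : PvfeDir u₂) (db₂ : ‖pvtCtr δ (a₂ + u₂) - (τt.cp h zt + ((3 * (N.rho * h) / 8 : ℝ) : ℂ) * pvtZ u₂)‖ ≤ δ)
    (dd₂ : ((τt.cp h zt - zt) * (starRingEnd ℂ) (pvtZ u₂)).re = pvccN (τt.cp h zt - zt)) (dn₂ : |pvccN (τt.cp h zt - zt) - pvwRad N h τt τt.k| ≤ N.rho * h / 4)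
    (hδ : 0 < δ) (hμe : μe ≤ δ) (hρδ : 8192 * δ ≤ N.rho * h) (hS : S ≤ N.rho * h / 8)
    (hbs : τs.b * h ≤ pvwRad N h τs τs.k) (hbt : τt.b * h ≤ pvwRad N h τt τt.k) (hRs : N.rho * h ≤ pvwRad N h τs τs.k) (hRt : N.rho * h ≤ pvwRad N h τt τt.k)
    (hsep : pvwRad N h τs τs.k + pvwRad N h τt τt.k + 2 * (N.rho * h) < pvtcSup (zt - zs)) :
    PvmuKs T pos N h zs zt τs τt 𝔇.s 𝔇.t (𝔇.pvfyKd pos h zs zt τs τt) (pvmuFs T pos 𝔇.s (closedBall zs (τs.b * h))) (pvmuFt T pos 𝔇.t (closedBall zt (τt.b * h))) (pvtZ u₁) (pvtZ u₂)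
      (pvtCtr δ (a₁ + ((⌈5 * (N.rho * h) / (8 * δ)⌉₊ + 14 : ℕ) : ℤ) • u₁)) (pvtCtr δ (a₂ + ((⌈5 * (N.rho * h) / (8 * δ)⌉₊ + 14 : ℕ) : ℤ) • u₂))
      μe (3 * (N.rho * h) / 4) (3 * (N.rho * h) / 4 + 11 * δ) (N.rho * h + 16 * δ) (2 * N.rho * h - μe) (11 * δ) (δ / 4) S := by
  have hρ : 0 ≤ N.rho * h := by linarith
  have hμ0 : 0 ≤ μe := (norm_nonneg _).trans hmt
  obtain ⟨ft1, ft2⟩ := pvmu_cb_front hδ hρ du₂ db₂ dd₂ dn₂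
  obtain ⟨fs1, fs2⟩ := pvmu_cb_front hδ hρ du₁ db₁ dd₁ dn₁
  exact ⟨hms, hmt, hρ, pvmu_cb_dir du₁, fs1, fs2, pvmu_cb_dir du₂, ft1, ft2, by positivity, by positivity, by linarith, by linarith, by linarith, by positivity, by linarith, by linarith, by linarith,
    by linarith, by linarith, by linarith, pvmu_cb_compact As.gate At.gate,
    pvmu_cb_m1s As At ms2 hm hms hbs hbt (by linarith) (by linarith), pvmu_cb_m1t As At mt2 hm hmt hbs hbt (by linarith) (by linarith),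
    pvmu_cb_Ms_sub As At, pvmu_cb_Ms_conn As, pvmu_cb_Ms_box As hbs, pvmu_cb_Mt_sub As At, pvmu_cb_Mt_conn At, pvmu_cb_Mt_box At hbt, pvmu_cb_gs As At ms2 hm, pvmu_cb_gt As At mt2 hm⟩

end record

end Claimed.Agent.R289
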