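-- KEEP
import Claimed.Agent.R289.Tr.Local
import Claimed.Agent.R289.Defs.Three

/-!
# Row 289 (S0537), THE WALL, road E, FIT-DET, file Tr/FitLift : THE SEAM completion <-> plane      (owner helper49; prefix `pvfw_`, `Pvfw`)

§1 **`pvfw_three`** : THREE PASSAGES ARE LOCAL.   `PvxvThree T pos σ y s S` in a surface `T` (the completion, where the clock of the wall lives) which shares the ball `B(y,S)` with `T'` (the Delaunay plane map of the model)
   through a local isomorphism `PvLoc T T' Rl` (22, Tr/Local) gives `PvxvThree T' pos' σ' y s S` (143, the event of record of `cover`).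
   Each of the three pieces is cut at its LAST position whose black end is at distance `≥ S` of `y` (`pvfw_piece`): after it the piece stays in the shared ball, so it is carried by `pvloc_it`; different positions stay different (`L.iso.inj`).
-/

set_option autoImplicit false

namespace Claimed.Agent.R289

open Set

section three

variable {V D V' D' : Type} {T : PvMap V D} {T' : PvMap V' D'} {Rl : D → D' → Prop}

/-- ONE PIECE: a piece of strand from a position whose black end is at distance `≥ S` of `y` to a position whose black end is within `s < S`, cut at its LAST far position, is shared -/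
theorem pvfw_piece (L : PvLoc T T' Rl) {pos : V → ℂ} {pos' : V' → ℂ} {Kr : Set ℂ}
    (hpos : ∀ d d', Rl d d' → pos (T.src d) = pos' (T'.src d'))
    (hsrc : ∀ d, pos (T.src d) ∈ Kr → d ∈ plDom Rl) (hapx : ∀ d, pos (T.apex d) ∈ Kr → d ∈ plDom Rl)
    {σ : V → Bool} {σ' : V' → Bool} (hσ : ∀ d d', Rl d d' → σ (T.src d) = σ' (T'.src d'))
    {y : ℂ} {s S : ℝ} (hsS : s < S) (hK : Metric.ball y S ⊆ Kr) {d : D} {n : ℕ} (hbw : pvasBW T σ d)
    (hfar : S ≤ ‖pos (T.src d) - y‖) (hnear : ‖pos (T.src (pvasIt T σ d n)) - y‖ ≤ s) :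
    ∃ (k : ℕ) (d' : D'), k ≤ n ∧ pvasBW T' σ' d' ∧ S ≤ ‖pos' (T'.src d') - y‖ ∧ ‖pos' (T'.src (pvasIt T' σ' d' (n - k))) - y‖ ≤ s ∧
      ∀ j, j ≤ n - k → Rl (pvasIt T σ d (k + j)) (pvasIt T' σ' d' j) := by
  classical
  set k := Nat.findGreatest (fun k => S ≤ ‖pos (T.src (pvasIt T σ d k)) - y‖) n with hk
  have h1 : S ≤ ‖pos (T.src (pvasIt T σ d k)) - y‖ := Nat.findGreatest_spec (P := fun k => S ≤ ‖pos (T.src (pvasIt T σ d k)) - y‖) (Nat.zero_le n) hfar
  have h2 : k ≤ n := Nat.findGreatest_le n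
  have h3 : ∀ j, k < j → j ≤ n → ‖pos (T.src (pvasIt T σ d j)) - y‖ < S := fun j hj hjn =>
    not_le.1 (Nat.findGreatest_is_greatest (P := fun k => S ≤ ‖pos (T.src (pvasIt T σ d k)) - y‖) hj hjn)
  have h4 : k < n := lt_of_le_of_ne h2 (fun e => by rw [e] at h1; linarith)
  have hin : ∀ j, k < j → j ≤ n → pvasIt T σ d j ∈ plDom Rl := fun j hj hjn => hsrc _ (hK (mem_ball_iff_norm.2 (h3 j hj hjn)))
  have hk0 : pvasIt T σ d k ∈ plDom Rl := by
    have h5 := h3 (k + 1) (Nat.lt_succ_self k) h4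
    rw [pvas_it_succ] at h5
    rcases pvas_step_ends σ (pvasIt T σ d k) with ⟨-, e1, -⟩ | ⟨-, e1, -⟩
    · rw [e1] at h5
      exact hapx _ (hK (mem_ball_iff_norm.2 h5))
    · rw [e1] at h5
      linarith
  obtain ⟨d', hd'⟩ := hk0
  have hall : ∀ j, j ≤ n - k → pvasIt T σ (pvasIt T σ d k) j ∈ plDom Rl := by
    intro j hj
    rw [← pvas_it_add]
    rcases Nat.eq_zero_or_pos j with rfl | hj0
    · exact ⟨d', hd'⟩
    · exact hin _ (by omega) (by omega)
  have hrel := pvloc_it L hσ hd' hall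
  refine ⟨k, d', h2, (pvloc_bw L hσ hd').1 (pvas_it_bw hbw k), ?_, ?_, fun j hj => ?_⟩
  · rw [← hpos _ _ hd']; exact h1
  · rw [← hpos _ _ (hrel (n - k) le_rfl), ← pvas_it_add, Nat.add_sub_cancel' h2]; exact hnear
  · rw [pvas_it_add]; exact hrel j hj

/-- **THREE PASSAGES ARE LOCAL**: three passages at `(y; s, S)` in a surface `T` which shares the ball `B(y,S)` with `T'` are three passages in `T'` -/
theorem pvfw_three (L : PvLoc T T' Rl) {pos : V → ℂ} {pos' : V' → ℂ} {Kr : Set ℂ}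
    (hpos : ∀ d d', Rl d d' → pos (T.src d) = pos' (T'.src d'))
    (hsrc : ∀ d, pos (T.src d) ∈ Kr → d ∈ plDom Rl) (hapx : ∀ d, pos (T.apex d) ∈ Kr → d ∈ plDom Rl)
    {σ : V → Bool} {σ' : V' → Bool} (hσ : ∀ d d', Rl d d' → σ (T.src d) = σ' (T'.src d'))
    {y : ℂ} {s S : ℝ} (hsS : s < S) (hK : Metric.ball y S ⊆ Kr) (h : PvxvThree T pos σ y s S) : PvxvThree T' pos' σ' y s S := by
  obtain ⟨d, n, h1, h2⟩ := h
  choose k d' a1 a2 a3 a4 a5 using fun i => pvfw_piece L hpos hsrc hapx hσ hsS hK (h1 i).1 (h1 i).2.1 (h1 i).2.2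
  refine ⟨d', fun i => n i - k i, fun i => ⟨a2 i, a3 i, a4 i⟩, fun i j hij p hp q hq e => ?_⟩
  have hp : p ≤ n i - k i := hp
  have hq : q ≤ n j - k j := hq
  have e1 := a5 i p hp
  have e2 := a5 j q hq
  rw [e] at e1
  exact h2 i j hij (k i + p) (by have := a1 i; omega) (k j + q) (by have := a1 j; omega) (L.iso.inj e1 e2)

end three

end Claimed.Agent.R289
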