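-- KEEP
import Claimed.Agent.R289.Tr.FitLift
import Claimed.Agent.R289.Tr.Acc

/-!
# Row 289 (S0537), THE WALL, road E, node (B) of `cover` (`exit_pvx_cor`), file Tr/CoverD : THE DOWN END AT THE MODEL      (owner helper154; prefix `pvck_`)

The clock of the wall lives in a COMPLETION `T = 𝔅.T (pvxY ω)` (49 `Tr/FitClock`), the event of record `PvxvBad` (143 `Defs/Three`) in the Delaunay plane `pvxT ω`.
HYPOTHESES ON THE SURFACE `T` (all four are read off `hB : PvlxB 𝔅 (pvxY ω) (closedBall x (6R)) (x+7R) (delbPl (pvxY ω)) Rl` = the output of `pvlx_all` of 22, `Tr/LocalX`; this file does NOT import `Tr/LocalW`, `Tr/LocalX`):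
  `L := hB.loc.loc`,  `hpos := hB.loc.pos_eq`,  `hsrc := fun d hd => pvlw_dart_src hB.loc hd`,  `hapx := fun d hd => pvlw_dart_apex hB.loc hd`,
  `hσ` := the four lines at the head of the proof of `pvlx_act` (`σ := pvlfFl b (𝔅.col (pvConf ω) ξ)`).
* `pvck_three` : `PvxvThree` in `T` at a centre `y`, `‖y - x‖ ≤ 3R`, radii `s < S ≤ 3R`  ⟹  `PvxvBad x R s S ω`      (`pvfw_three` of 49)
* `pvck_bad`   : the same from three passages WITH MARKED TIMES on the clock (`PvfrThree` of 151 = the second branch of `pvacc_core8` of 211)      (`pvacc_three` of 211)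
* `pvck_acc`   : THE LAST LINE OF THE GLUE: a scene `PvaccScene` whose `γ` is the black end of the clock of `T`, `K ⊆ B(x,3R)`, no `PvxvBad x R s1 s2`  ⟹  both fronts are accessible (form of `PvfyAcc`, 62)
-/

set_option autoImplicit false

namespace Claimed.Agent.R289

open Set Claims.C0465

section down

variable {V D : Type} {T : PvMap V D} {pos : V → ℂ} {σ : V → Bool} {x : ℂ} {R : ℝ} {ω : PVSample} {b : Bool} {Rl : D → (delbPl (pvxY ω)).Dart → Prop}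

/-- **THREE PASSAGES IN A COMPLETION ARE THREE PASSAGES OF RECORD** -/
theorem pvck_three (L : PvLoc T (pvxT ω) Rl) (hpos : ∀ d d', Rl d d' → pos (T.src d) = pvxPos ω ((pvxT ω).src d'))
    (hsrc : ∀ d, pos (T.src d) ∈ Metric.closedBall x (6 * R) → d ∈ plDom Rl) (hapx : ∀ d, pos (T.apex d) ∈ Metric.closedBall x (6 * R) → d ∈ plDom Rl)
    (hσ : ∀ d d', Rl d d' → σ (T.src d) = pvxCol ω b ((pvxT ω).src d')) {y : ℂ} {s S : ℝ}
    (hy : ‖y - x‖ ≤ 3 * R) (hsS : s < S) (hS : S ≤ 3 * R) (h : PvxvThree T pos σ y s S) : PvxvBad x R s S ω := by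
  have hK : Metric.ball y S ⊆ Metric.closedBall x (6 * R) := by
    intro p hp
    rw [mem_ball_iff_norm] at hp
    rw [mem_closedBall_iff_norm]
    have := norm_add_le (p - y) (y - x)
    rw [sub_add_sub_cancel] at this
    linarith
  exact ⟨b, y, hy, pvfw_three L hpos hsrc hapx hσ hsS hK h⟩

/-- **THREE PASSAGES WITH MARKED TIMES ON THE CLOCK OF A COMPLETION ⟹ THE BAD EVENT OF RECORD** -/
theorem pvck_bad (L : PvLoc T (pvxT ω) Rl) (hpos : ∀ d d', Rl d d' → pos (T.src d) = pvxPos ω ((pvxT ω).src d'))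
    (hsrc : ∀ d, pos (T.src d) ∈ Metric.closedBall x (6 * R) → d ∈ plDom Rl) (hapx : ∀ d, pos (T.apex d) ∈ Metric.closedBall x (6 * R) → d ∈ plDom Rl)
    (hσ : ∀ d d', Rl d d' → σ (T.src d) = pvxCol ω b ((pvxT ω).src d')) {d0 : D} (hbw : pvasBW T σ d0) {lo hi : ℕ}
    (hinj : Set.InjOn (pvasIt T σ d0) (Set.Icc lo hi)) {y : ℂ} {s S : ℝ} (hy : ‖y - x‖ ≤ 3 * R) (hsS : s < S) (hS : S ≤ 3 * R)
    (h : PvfrThree (fun k => pos (T.src (pvasIt T σ d0 k))) y s S lo hi) : PvxvBad x R s S ω :=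
  pvck_three L hpos hsrc hapx hσ hy hsS hS (pvacc_three hbw hinj h)

/-- **THE LAST LINE OF THE GLUE OF (B)**: scene on the clock of a completion + no bad event of record ⟹ both fronts accessible -/
theorem pvck_acc (L : PvLoc T (pvxT ω) Rl) (hpos : ∀ d d', Rl d d' → pos (T.src d) = pvxPos ω ((pvxT ω).src d'))
    (hsrc : ∀ d, pos (T.src d) ∈ Metric.closedBall x (6 * R) → d ∈ plDom Rl) (hapx : ∀ d, pos (T.apex d) ∈ Metric.closedBall x (6 * R) → d ∈ plDom Rl)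
    (hσ : ∀ d d', Rl d d' → σ (T.src d) = pvxCol ω b ((pvxT ω).src d')) {d0 : D} (hbw : pvasBW T σ d0) {lo ts tt hi : ℕ}
    (hinj : Set.InjOn (pvasIt T σ d0) (Set.Icc lo hi)) {K M Wt Ws : Set ℂ} {pt ps : ℂ} {r η μ S δ s1 s2 : ℝ} {j : ℕ}
    (sc : PvaccScene (fun k => pos (T.src (pvasIt T σ d0 k))) K M Wt Ws pt ps r η μ S lo ts tt hi)
    (hr : 0 < r) (hη : 0 < η) (hηr : 4 * η ≤ r) (hμ : 0 ≤ μ) (hS : 8 * r + 2 * μ ≤ S) (hδ : 0 < δ) (hj : ((j : ℝ) + 1) * δ < r)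
    (hK : ∀ y ∈ K, ‖y - x‖ ≤ 3 * R) (h1 : 8 * r + μ ≤ s1) (h2 : s2 ≤ S - μ) (h12 : s1 < s2) (h3 : s2 ≤ 3 * R) (hbad : ¬ PvxvBad x R s1 s2 ω) :
    (∀ e : ℤ × ℤ, pt ∈ pvtSq δ e → e ∈ pvtbOut (pvtN8^[j] (pvtCells δ K))) ∧ ∀ e : ℤ × ℤ, ps ∈ pvtSq δ e → e ∈ pvtbOut (pvtN8^[j] (pvtCells δ K)) := by
  rcases pvacc_core8 sc hr hη hηr hμ hS hδ hj with h | ⟨y, hy, h⟩
  · exact h
  · exact absurd (pvck_bad L hpos hsrc hapx hσ hbw hinj (hK y hy) h12 h3 (pvfr_three_mono h h1 h2 le_rfl le_rfl)) hbad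

end down

end Claimed.Agent.R289
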