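-- KEEP
import Claimed.Agent.R289.Tr.FitWall
import Claimed.Agent.R289.Tr.LocalW
import Claimed.Agent.R289.Tr.Acc

/-!
# Row 289 (S0537, Cardy for Poisson-Voronoi), THE WALL, road E, TR38 = (ACC), file Tr/AccM : THE TWO WITNESSES ON `Tr/Defs` v2      (owner helper211; prefix `pvacm_`, `pvacm`)

Blueprint: `origin/helper211:notes/R289/W2_211.md` v2 (W1), `origin/helper118:notes/R289/W1_118.md` Part V (D4), `Tr/Acc.lean` (`PvaccScene`: the fields `wt_* ws_* far`).
SETS IN THE PLANE (`G : PlGeo T pos`: a completion has no `PlGeo`), TIMES IN THE COMPLETION (`PvLocP` of 22).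

In `Tr/Defs` v2 the two ends of the tip position `e = ep np` are frozen and lie in the box, so the tip edge belongs to the obstacle `K`; the TIP APEX `apex e` is the first site outside the box, it is fresh.
* §1 THE HALF WITNESS of a position `e`, a front `p`, a number of steps `N ≥ 1`:
       `pvacmW T pos s e p N = [p, apex] ∪ [apex, bary e] ∪ [bary e, mid a_1] ∪ (wall polygon of a_1 .. a_N)`,   `a_l = pvasIt T s e l`.
     `pvacm_W_compact`, `pvacm_W_conn`, `pvacm_front_mem`, `pvacm_mid_mem`;   **`pvacm_W_seg`** (`W` meets an edge only on `[p, apex]` or at a midpoint `mid a_l`, `1 ≤ l ≤ N`, of that very edge);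
     `pvacm_W_disj_seg`, `pvacm_W_disj_mono` (monochromatic edges), `pvacm_W_disj_bw` (occupied edges: positions different from `a_1 .. a_N`);   **`pvacm_W_near`** (time clause), `pvacm_W_disj_ball`.
* §2 THE MIRROR: the backward witness of the tip position `e = em nm` is the half witness of `opp e` for the colouring `pvasNot s`:  `pvacm_rev_it` (`a_l = opp (back^l e)`), `pvacm_rev_apex`.
* §3 THE SEAM: `pvacm_twin_it` (twin positions as long as the strand of the completion stays shared), `pvacm_twin_rev`, `pvacm_twin_src`, `pvacm_twin_ne` (different times in the completion ⟹ different darts in the plane).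
* §4 `pvacmGam` (`γ k` = black end of the position number `k` of the strand of the completion), `PvacmObs` (what the witnesses need to know about `K`: definition free), `pvacm_fwd_near`, `pvacm_bwd_near`, **`pvacm_fwd_off`**, **`pvacm_bwd_off`**,
     **`pvacm_scene`** : `PvaccScene` for the two half witnesses from: timetable + exit + metric CORE-FREE + first segments + (P4) + masks.
-/

set_option autoImplicit false
set_option linter.unusedSectionVars false
set_option linter.unusedVariables false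

namespace Claimed.Agent.R289

open Set

/-! ## §1 the half witness -/

section half

variable {V D : Type} {T : PvMap V D} {pos : V → ℂ} {s : V → Bool} {e : D} {p : ℂ} {N : ℕ}

/-- **THE HALF WITNESS**: front - tip apex - barycentre of the tip face - wall polygon of the positions `1..N` -/
def pvacmW (T : PvMap V D) (pos : V → ℂ) (s : V → Bool) (e : D) (p : ℂ) (N : ℕ) : Set ℂ :=
  segment ℝ p (pos (T.apex e)) ∪ segment ℝ (pos (T.apex e)) (T.bary pos e) ∪ pvfbLeg T pos (T.opp (pvasStep T s e)) ∪ pvfbWall T pos s e 1 N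

theorem pvacm_eqns_cite : True := by
  have := @pvacmW.eq_1
  trivial

theorem pvacm_W_compact (T : PvMap V D) (pos : V → ℂ) (s : V → Bool) (e : D) (p : ℂ) (N : ℕ) : IsCompact (pvacmW T pos s e p N) :=
  (((plg_segment_compact _ _).union (plg_segment_compact _ _)).union (pvfb_leg_compact T pos _)).union (pvfb_wall_compact T pos s e 1 N)

theorem pvacm_front_mem (T : PvMap V D) (pos : V → ℂ) (s : V → Bool) (e : D) (p : ℂ) (N : ℕ) : p ∈ pvacmW T pos s e p N :=
  Or.inl (Or.inl (Or.inl (left_mem_segment ℝ _ _)))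

theorem pvacm_seg_sub (T : PvMap V D) (pos : V → ℂ) (s : V → Bool) (e : D) (p : ℂ) (N : ℕ) : segment ℝ p (pos (T.apex e)) ⊆ pvacmW T pos s e p N :=
  fun _ h => Or.inl (Or.inl (Or.inl h))

/-- the first midpoint -/
theorem pvacm_mid1_mem_leg (T : PvMap V D) (pos : V → ℂ) (s : V → Bool) (e : D) : pvfbMid T pos (pvasIt T s e 1) ∈ pvfbLeg T pos (T.opp (pvasStep T s e)) := by
  have h : pvasIt T s e 1 = pvasStep T s e := rfl
  rw [h, ← pvfb_mid_opp]
  exact left_mem_segment ℝ _ _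

theorem pvacm_bary_mem_leg (T : PvMap V D) (pos : V → ℂ) (s : V → Bool) (e : D) : T.bary pos e ∈ pvfbLeg T pos (T.opp (pvasStep T s e)) := by
  have h : T.bary pos (T.opp (pvasStep T s e)) = T.bary pos e := pvfb_bary_sf (pvas_step_sf s e)
  rw [← h]
  exact right_mem_segment ℝ _ _

/-- the midpoints of the positions `1..N` lie on the witness -/
theorem pvacm_mid_mem (T : PvMap V D) (pos : V → ℂ) (s : V → Bool) (e : D) (p : ℂ) {l : ℕ} (h1 : 1 ≤ l) (h2 : l ≤ N) : pvfbMid T pos (pvasIt T s e l) ∈ pvacmW T pos s e p N := by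
  rcases Nat.eq_or_lt_of_le h1 with rfl | h3
  · exact Or.inl (Or.inr (pvacm_mid1_mem_leg T pos s e))
  · exact Or.inr (pvfb_wall_mid T pos s e (by omega) h1 h2)

theorem pvacm_W_conn (T : PvMap V D) (pos : V → ℂ) (s : V → Bool) (e : D) (p : ℂ) (N : ℕ) : IsPreconnected (pvacmW T pos s e p N) := by
  have c1 : IsPreconnected (segment ℝ p (pos (T.apex e)) ∪ segment ℝ (pos (T.apex e)) (T.bary pos e)) :=
    IsPreconnected.union (pos (T.apex e)) (right_mem_segment ℝ _ _) (left_mem_segment ℝ _ _) (convex_segment _ _).isPreconnected (convex_segment _ _).isPreconnected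
  have c2 : IsPreconnected (segment ℝ p (pos (T.apex e)) ∪ segment ℝ (pos (T.apex e)) (T.bary pos e) ∪ pvfbLeg T pos (T.opp (pvasStep T s e))) :=
    IsPreconnected.union (T.bary pos e) (Or.inr (right_mem_segment ℝ _ _)) (pvacm_bary_mem_leg T pos s e) c1 (pvfb_leg_conn T pos _)
  by_cases hN : 1 < N
  · exact IsPreconnected.union (pvfbMid T pos (pvasIt T s e 1)) (Or.inr (pvacm_mid1_mem_leg T pos s e)) (pvfb_wall_mid T pos s e hN le_rfl hN.le) c2 (pvfb_wall_conn T pos s e 1 N)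
  · have h0 : pvfbWall T pos s e 1 N = ∅ := by
      ext x
      simp only [pvfbWall, Set.mem_ofPred_eq, Set.mem_empty_iff_false, iff_false]
      rintro ⟨l, a1, a2, -⟩
      omega
    unfold pvacmW
    rw [h0, Set.union_empty]
    exact c2

/-- a point of `[apex, bary]` is the apex or lies in the open triangle -/
theorem pvacm_spoke (G : PlGeo T pos) {x : ℂ} (hx : x ∈ segment ℝ (pos (T.apex e)) (T.bary pos e)) : x = pos (T.apex e) ∨ x ∈ T.trio pos e := by
  obtain ⟨a, b, ha, hb, hab, rfl⟩ := hx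
  rcases hb.eq_or_lt with h0 | h0
  · left
    have ha1 : a = 1 := by linarith
    rw [← h0, ha1]
    simp
  · right
    have e1 : a = 1 - b := by linarith
    rw [e1]
    exact deld_seg_open (plg_apex_mem_tri G e) (pvfb_bary_trio G e) h0 (by linarith)

theorem pvacm_spoke_sub_tri (G : PlGeo T pos) : segment ℝ (pos (T.apex e)) (T.bary pos e) ⊆ T.tri pos e :=
  (plg_tri_convex T pos e).segment_subset (plg_apex_mem_tri G e) (plg_trio_sub_tri T pos e (pvfb_bary_trio G e))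

/-- **THE WITNESS MEETS AN EDGE ONLY ON ITS FIRST SEGMENT OR AT THE MIDPOINT OF A POSITION `a_l`, `1 ≤ l ≤ N`, WHICH IS THAT EDGE** -/
theorem pvacm_W_seg (G : PlGeo T pos) (hN : 1 ≤ N) {d : D} {x : ℂ} (hx : x ∈ pvacmW T pos s e p N) (hd : x ∈ T.seg pos d) :
    x ∈ segment ℝ p (pos (T.apex e)) ∨ ∃ l, 1 ≤ l ∧ l ≤ N ∧ (d = pvasIt T s e l ∨ d = T.opp (pvasIt T s e l)) ∧ x = pvfbMid T pos (pvasIt T s e l) := by
  rcases hx with ((h | h) | h) | h
  · exact Or.inl h
  · rcases pvacm_spoke G h with rfl | h'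
    · exact Or.inl (right_mem_segment ℝ _ _)
    · exact absurd hd (pvfb_trio_seg G h')
  · obtain ⟨g1, g2⟩ := pvfb_leg_seg G h hd
    rw [T.opp_opp, pvfb_mid_opp] at *
    exact Or.inr ⟨1, le_rfl, hN, g1.symm, g2⟩
  · exact Or.inr (pvfb_wall_seg G h hd)

/-- the witness misses an edge which is none of the crossed edges -/
theorem pvacm_W_disj_seg (G : PlGeo T pos) (hN : 1 ≤ N) {d : D} (h1 : Disjoint (segment ℝ p (pos (T.apex e))) (T.seg pos d))
    (h2 : ∀ l, 1 ≤ l → l ≤ N → d ≠ pvasIt T s e l ∧ d ≠ T.opp (pvasIt T s e l)) : Disjoint (pvacmW T pos s e p N) (T.seg pos d) := by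
  rw [Set.disjoint_left]
  intro x hx hd
  rcases pvacm_W_seg G hN hx hd with h | ⟨l, a1, a2, g, -⟩
  · exact Set.disjoint_left.1 h1 h hd
  · rcases g with g | g
    · exact (h2 l a1 a2).1 g
    · exact (h2 l a1 a2).2 g

/-- monochromatic edges (the rim edges of `g₀`) -/
theorem pvacm_W_disj_mono (G : PlGeo T pos) (hN : 1 ≤ N) (he : pvasBW T s e) {d : D} (h1 : Disjoint (segment ℝ p (pos (T.apex e))) (T.seg pos d))
    (hd : s (T.src d) = s (T.tgt d)) : Disjoint (pvacmW T pos s e p N) (T.seg pos d) := by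
  refine pvacm_W_disj_seg G hN h1 fun l _ _ => ?_
  obtain ⟨b1, b2⟩ := pvas_it_bw he l
  constructor
  · rintro rfl
    rw [b1, b2] at hd
    exact Bool.noConfusion hd
  · rintro rfl
    rw [T.src_opp', T.tgt_opp, b1, b2] at hd
    exact Bool.noConfusion hd

/-- occupied edges black → white (the positions of the stubs): it is enough that the position is none of `a_1 .. a_N` -/
theorem pvacm_W_disj_bw (G : PlGeo T pos) (hN : 1 ≤ N) (he : pvasBW T s e) {d : D} (h1 : Disjoint (segment ℝ p (pos (T.apex e))) (T.seg pos d))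
    (hd : pvasBW T s d) (h2 : ∀ l, 1 ≤ l → l ≤ N → d ≠ pvasIt T s e l) : Disjoint (pvacmW T pos s e p N) (T.seg pos d) := by
  refine pvacm_W_disj_seg G hN h1 fun l a1 a2 => ⟨h2 l a1 a2, ?_⟩
  rintro rfl
  obtain ⟨b1, b2⟩ := pvas_it_bw he l
  have := hd.1
  rw [T.src_opp', b2] at this
  exact Bool.noConfusion this

/-- off its first segment the witness stays in the closed faces of the positions `0..N-1` -/
theorem pvacm_W_tri (G : PlGeo T pos) (hN : 1 ≤ N) {x : ℂ} (hx : x ∈ pvacmW T pos s e p N) : x ∈ segment ℝ p (pos (T.apex e)) ∨ ∃ l, l < N ∧ x ∈ T.tri pos (pvasIt T s e l) := by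
  rcases hx with ((h | h) | h) | h
  · exact Or.inl h
  · exact Or.inr ⟨0, by omega, pvacm_spoke_sub_tri G h⟩
  · exact Or.inr ⟨0, by omega, pvfb_hop_sub_tri G s e (Or.inr h)⟩
  · obtain ⟨l, _, a2, a3⟩ := pvfb_wall_sub G h
    exact Or.inr ⟨l, a2, a3⟩

/-- **THE TIME CLAUSE**: off its first segment the witness stays within the mesh of both ends of the positions `0..N-1` -/
theorem pvacm_W_near (G : PlGeo T pos) (hN : 1 ≤ N) {μ : ℝ} (hμ : ∀ l, l < N → ∀ f, T.SF (pvasIt T s e l) f → ‖pos (T.src f) - pos (T.tgt f)‖ ≤ μ) {x : ℂ}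
    (hx : x ∈ pvacmW T pos s e p N) :
    x ∈ segment ℝ p (pos (T.apex e)) ∨ ∃ l, l < N ∧ ‖x - pos (T.src (pvasIt T s e l))‖ ≤ μ ∧ ‖x - pos (T.tgt (pvasIt T s e l))‖ ≤ μ := by
  rcases pvacm_W_tri G hN hx with h | ⟨l, a1, a2⟩
  · exact Or.inl h
  · exact Or.inr ⟨l, a1, pvfh_tri_diam G (hμ l a1) a2 (plg_src_mem_tri G _), pvfh_tri_diam G (hμ l a1) a2 (plg_tgt_mem_tri G _)⟩

/-- the witness misses a disc from which its first segment and the black ends of its positions stay away -/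
theorem pvacm_W_disj_ball (G : PlGeo T pos) (hN : 1 ≤ N) {μ ρ : ℝ} {z : ℂ} (hμ : ∀ l, l < N → ∀ f, T.SF (pvasIt T s e l) f → ‖pos (T.src f) - pos (T.tgt f)‖ ≤ μ)
    (h1 : Disjoint (segment ℝ p (pos (T.apex e))) (Metric.closedBall z ρ)) (h2 : ∀ l, l < N → ρ + μ < ‖pos (T.src (pvasIt T s e l)) - z‖) :
    Disjoint (pvacmW T pos s e p N) (Metric.closedBall z ρ) := by
  rw [Set.disjoint_left]
  intro x hx hz
  rcases pvacm_W_near G hN hμ hx with h | ⟨l, a1, a2, -⟩
  · exact Set.disjoint_left.1 h1 h hz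
  · rw [Metric.mem_closedBall, dist_eq_norm] at hz
    have h3 := h2 l a1
    have h4 := norm_sub_le_norm_sub_add_norm_sub (pos (T.src (pvasIt T s e l))) x z
    rw [norm_sub_rev (pos (T.src (pvasIt T s e l))) x] at h4
    linarith

end half

/-! ## §2 the mirror -/

section mirror

variable {V D : Type} {T : PvMap V D} {s : V → Bool}

/-- the strand of the exchanged colouring from the opposite of the position number `t` of a strand runs through the opposites of the earlier positions -/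
theorem pvacm_rev_it {d0 : D} (h : pvasBW T s d0) {t l : ℕ} (hl : l ≤ t) : pvasIt T (pvasNot s) (T.opp (pvasIt T s d0 t)) l = T.opp (pvasIt T s d0 (t - l)) :=
  pvas_it_rev h hl

/-- a position of the exchanged colouring is no position -/
theorem pvacm_bw_ne {d d' : D} (h : pvasBW T s d) (h' : pvasBW T (pvasNot s) d') : d ≠ d' := by
  rintro rfl
  have h1 := h.1
  have h2 := h'.1
  unfold pvasNot at h2
  rw [h1] at h2
  exact Bool.noConfusion h2

/-- the colours of the two ends of a position of the exchanged colouring -/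
theorem pvacm_not_ends {a : D} (h : pvasBW T (pvasNot s) a) : s (T.src a) = false ∧ s (T.tgt a) = true := by
  obtain ⟨h1, h2⟩ := h
  simp only [pvasNot, Bool.not_eq_true', Bool.not_eq_false'] at h1 h2
  exact ⟨h1, h2⟩

end mirror

/-! ## §3 the seam -/

section seam

variable {Vc Dc V D : Type} {Tc : PvMap Vc Dc} {T : PvMap V D} {R : Dc → D → Prop} {posc : Vc → ℂ} {pos : V → ℂ} {Kr : Set ℂ} {σc : Vc → Bool} {σ : V → Bool}

/-- the exchanged colourings agree too -/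
theorem pvacm_not_agree (hσ : ∀ d d', R d d' → σc (Tc.src d) = σ (T.src d')) : ∀ d d', R d d' → pvasNot σc (Tc.src d) = pvasNot σ (T.src d') := by
  intro d d' h
  unfold pvasNot
  rw [hσ d d' h]

/-- **TWIN POSITIONS**: as long as the strand of the completion stays in the shared part, the strand of the plane from the twin position runs through the twins -/
theorem pvacm_twin_it (L : PvLoc Tc T R) (hσ : ∀ d d', R d d' → σc (Tc.src d) = σ (T.src d')) {d0 : Dc} {e : D} {t N : ℕ} (he : R (pvasIt Tc σc d0 t) e)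
    (hsh : ∀ l, l ≤ N → pvasIt Tc σc d0 (t + l) ∈ plDom R) : ∀ l, l ≤ N → R (pvasIt Tc σc d0 (t + l)) (pvasIt T σ e l) := by
  intro l hl
  rw [pvas_it_add]
  exact pvloc_it L hσ he (n := N) (fun j hj => by rw [← pvas_it_add]; exact hsh j hj) l hl

/-- the same backwards, for the exchanged colourings -/
theorem pvacm_twin_rev (L : PvLoc Tc T R) (hσ : ∀ d d', R d d' → σc (Tc.src d) = σ (T.src d')) {d0 : Dc} (h0 : pvasBW Tc σc d0) {e : D} {t N : ℕ} (hN : N ≤ t)
    (he : R (Tc.opp (pvasIt Tc σc d0 t)) e) (hsh : ∀ l, l ≤ N → Tc.opp (pvasIt Tc σc d0 (t - l)) ∈ plDom R) :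
    ∀ l, l ≤ N → R (Tc.opp (pvasIt Tc σc d0 (t - l))) (pvasIt T (pvasNot σ) e l) := by
  intro l hl
  rw [← pvacm_rev_it h0 (hl.trans hN)]
  exact pvloc_it L (pvacm_not_agree hσ) he (n := N) (fun j hj => by rw [pvacm_rev_it h0 (hj.trans hN)]; exact hsh j hj) l hl

/-- different darts of the completion have different twins -/
theorem pvacm_twin_ne (L : PvLoc Tc T R) {a b : Dc} {a' b' : D} (ha : R a a') (hb : R b b') (h : a ≠ b) : a' ≠ b' := by
  rintro rfl
  exact h (L.iso.inj ha hb)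

theorem pvacm_twin_src (L : PvLocP Tc T R posc pos Kr) {a : Dc} {a' : D} (h : R a a') : pos (T.src a') = posc (Tc.src a) := (L.pos_eq a a' h).symm

theorem pvacm_twin_tgt (L : PvLocP Tc T R posc pos Kr) {a : Dc} {a' : D} (h : R a a') : pos (T.tgt a') = posc (Tc.tgt a) := (pvlw_pos L (pvloc_v_tgt L.loc h)).symm

theorem pvacm_twin_mid (L : PvLocP Tc T R posc pos Kr) {a : Dc} {a' : D} (h : R a a') : pvfbMid T pos a' = pvfbMid Tc posc a := by
  unfold pvfbMid
  rw [pvacm_twin_src L h, pvacm_twin_tgt L h]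

end seam

/-! ## §4 the two witnesses of a scene -/

section scene

variable {Vc Dc V D : Type} {Tc : PvMap Vc Dc} {T : PvMap V D} {R : Dc → D → Prop} {posc : Vc → ℂ} {pos : V → ℂ} {Kr : Set ℂ} {σc : Vc → Bool} {σ : V → Bool}

/-- **the curve `γ`**: the black ends of the positions of the strand of the completion -/
def pvacmGam (Tc : PvMap Vc Dc) (posc : Vc → ℂ) (σc : Vc → Bool) (d0 : Dc) (k : ℕ) : ℂ := posc (Tc.src (pvasIt Tc σc d0 k))

/-- **WHAT THE WITNESSES NEED TO KNOW ABOUT THE OBSTACLE**: a point of `K` lies on the edge of the plane twin of a position of the times `ts..tt`, or on a monochromatic edge of the plane, or in one of the two discs -/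
def PvacmObs (Tc : PvMap Vc Dc) (T : PvMap V D) (R : Dc → D → Prop) (pos : V → ℂ) (σc : Vc → Bool) (σ : V → Bool) (d0 : Dc) (ts tt : ℕ) (zs zt : ℂ) (ρs ρt : ℝ) (K : Set ℂ) : Prop :=
  ∀ q ∈ K, (∃ d m, ts ≤ m ∧ m ≤ tt ∧ R (pvasIt Tc σc d0 m) d ∧ q ∈ T.seg pos d) ∨ (∃ d, σ (T.src d) = σ (T.tgt d) ∧ q ∈ T.seg pos d) ∨
    q ∈ Metric.closedBall zs ρs ∨ q ∈ Metric.closedBall zt ρt

theorem pvacm_eqns_cite2 : True := by
  have := @pvacmGam.eq_1; have := @PvacmObs.eq_1
  trivial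

variable {d0 : Dc} {lo ts tt hi : ℕ} {zs zt : ℂ} {ρs ρt μ Λ : ℝ} {K : Set ℂ} {et es : D} {pt ps : ℂ}

/-- a position whose black end is placed in the shared region is shared, and so is its opposite -/
theorem pvacm_shared (L : PvLocP Tc T R posc pos Kr) {k : ℕ} (h : pvacmGam Tc posc σc d0 k ∈ Kr) : pvasIt Tc σc d0 k ∈ plDom R ∧ Tc.opp (pvasIt Tc σc d0 k) ∈ plDom R :=
  ⟨pvlw_dart_src L h, pvlw_dart_tgt L (by rw [Tc.tgt_opp]; exact h)⟩

/-- FORWARD: the points of the witness off its first segment -/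
theorem pvacm_fwd_near (L : PvLocP Tc T R posc pos Kr) (hσ : ∀ d d', R d d' → σc (Tc.src d) = σ (T.src d')) (G : PlGeo T pos) (htt : tt < hi)
    (het : R (pvasIt Tc σc d0 tt) et) (hγ : ∀ k, tt ≤ k → k ≤ hi → pvacmGam Tc posc σc d0 k ∈ Kr)
    (hmesh : ∀ d f : D, pos (T.src d) ∈ Kr → T.SF d f → ‖pos (T.src f) - pos (T.tgt f)‖ ≤ μ) {x : ℂ} (hx : x ∈ pvacmW T pos σ et pt (hi - tt)) :
    x ∈ segment ℝ pt (pos (T.apex et)) ∨ ∃ k, tt ≤ k ∧ k < hi ∧ ‖x - pvacmGam Tc posc σc d0 k‖ ≤ μ := by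
  have tw := pvacm_twin_it L.loc hσ het (N := hi - tt) (fun l hl => (pvacm_shared L (hγ (tt + l) (by omega) (by omega))).1)
  have hsrc : ∀ l, l ≤ hi - tt → pos (T.src (pvasIt T σ et l)) = pvacmGam Tc posc σc d0 (tt + l) := fun l hl => pvacm_twin_src L (tw l hl)
  rcases pvacm_W_near G (by omega) (μ := μ) (fun l hl f hf => hmesh _ f (by rw [hsrc l hl.le]; exact hγ _ (by omega) (by omega)) hf) hx with h | ⟨l, a1, a2, -⟩
  · exact Or.inl h
  · exact Or.inr ⟨tt + l, by omega, by omega, by rw [← hsrc l a1.le]; exact a2⟩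

/-- BACKWARD: the points of the witness off its first segment -/
theorem pvacm_bwd_near (L : PvLocP Tc T R posc pos Kr) (hσ : ∀ d d', R d d' → σc (Tc.src d) = σ (T.src d')) (G : PlGeo T pos) (h0 : pvasBW Tc σc d0) (hlo : lo < ts)
    (hes : R (pvasIt Tc σc d0 ts) es) (hγ : ∀ k, lo ≤ k → k ≤ ts → pvacmGam Tc posc σc d0 k ∈ Kr)
    (hmesh : ∀ d f : D, pos (T.src d) ∈ Kr → T.SF d f → ‖pos (T.src f) - pos (T.tgt f)‖ ≤ μ) {x : ℂ} (hx : x ∈ pvacmW T pos (pvasNot σ) (T.opp es) ps (ts - lo)) :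
    x ∈ segment ℝ ps (pos (T.apex (T.opp es))) ∨ ∃ k, lo < k ∧ k ≤ ts ∧ ‖x - pvacmGam Tc posc σc d0 k‖ ≤ μ := by
  have he' : R (Tc.opp (pvasIt Tc σc d0 ts)) (T.opp es) := pvlw_opp L hes (Or.inl (hγ ts hlo.le le_rfl))
  have tw := pvacm_twin_rev L.loc hσ h0 (N := ts - lo) (Nat.sub_le _ _) he' (fun l hl => (pvacm_shared L (hγ (ts - l) (by omega) (by omega))).2)
  have htgt : ∀ l, l ≤ ts - lo → pos (T.tgt (pvasIt T (pvasNot σ) (T.opp es) l)) = pvacmGam Tc posc σc d0 (ts - l) := fun l hl => by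
    rw [pvacm_twin_tgt L (tw l hl), Tc.tgt_opp]
    rfl
  rcases pvacm_W_near G (by omega) (μ := μ) (fun l hl f hf => hmesh (T.nxt (pvasIt T (pvasNot σ) (T.opp es) l)) f
      (by rw [T.src_nxt, htgt l hl.le]; exact hγ _ (by omega) (by omega)) (T.sf_trans (T.sf_symm (T.sf_nxt _)) hf)) hx with h | ⟨l, a1, -, a2⟩
  · exact Or.inl h
  · exact Or.inr ⟨ts - l, by omega, by omega, by rw [← htgt l a1.le]; exact a2⟩

/-- **FORWARD: THE WITNESS MISSES THE OBSTACLE** -/
theorem pvacm_fwd_off (L : PvLocP Tc T R posc pos Kr) (hσ : ∀ d d', R d d' → σc (Tc.src d) = σ (T.src d')) (G : PlGeo T pos) (h0 : pvasBW Tc σc d0)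
    (hinj : Set.InjOn (pvasIt Tc σc d0) (Set.Icc lo hi)) (hlo : lo ≤ ts) (htt : tt < hi)
    (het : R (pvasIt Tc σc d0 tt) et) (hγ : ∀ k, tt ≤ k → k ≤ hi → pvacmGam Tc posc σc d0 k ∈ Kr)
    (hmesh : ∀ d f : D, pos (T.src d) ∈ Kr → T.SF d f → ‖pos (T.src f) - pos (T.tgt f)‖ ≤ μ)
    (hK : PvacmObs Tc T R pos σc σ d0 ts tt zs zt ρs ρt K) (hseg : Disjoint (segment ℝ pt (pos (T.apex et))) K)
    (hcs : ∀ k, tt ≤ k → k < hi → ρs + μ < ‖pvacmGam Tc posc σc d0 k - zs‖) (hct : ∀ k, tt ≤ k → k < hi → ρt + μ < ‖pvacmGam Tc posc σc d0 k - zt‖) :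
    Disjoint (pvacmW T pos σ et pt (hi - tt)) K := by
  have tw := pvacm_twin_it L.loc hσ het (N := hi - tt) (fun l hl => (pvacm_shared L (hγ (tt + l) (by omega) (by omega))).1)
  have hbw : pvasBW T σ et := (pvloc_bw L.loc hσ het).1 (pvas_it_bw h0 tt)
  have ball : ∀ (z : ℂ) (ρ : ℝ), (∀ k, tt ≤ k → k < hi → ρ + μ < ‖pvacmGam Tc posc σc d0 k - z‖) → ∀ x, x ∈ pvacmW T pos σ et pt (hi - tt) → x ∈ K → x ∉ Metric.closedBall z ρ := by
    intro z ρ hc x hx hxK hz
    rcases pvacm_fwd_near L hσ G htt het hγ hmesh hx with h | ⟨k, a1, a2, a3⟩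
    · exact Set.disjoint_left.1 hseg h hxK
    · rw [Metric.mem_closedBall, dist_eq_norm] at hz
      have h3 := hc k a1 a2
      have h4 := norm_sub_le_norm_sub_add_norm_sub (pvacmGam Tc posc σc d0 k) x z
      rw [norm_sub_rev (pvacmGam Tc posc σc d0 k) x] at h4
      linarith
  rw [Set.disjoint_left]
  intro x hx hxK
  rcases hK x hxK with ⟨d, m, m1, m2, hd, hxd⟩ | ⟨d, hd, hxd⟩ | hz | hz
  · rcases pvacm_W_seg G (by omega) hx hxd with h | ⟨l, a1, a2, g, -⟩
    · exact Set.disjoint_left.1 hseg h hxK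
    · have hdbw : pvasBW T σ d := (pvloc_bw L.loc hσ hd).1 (pvas_it_bw h0 m)
      rcases g with g | g
      · refine pvacm_twin_ne L.loc hd (tw l a2) (fun e => ?_) g
        have := hinj ⟨by omega, by omega⟩ ⟨by omega, by omega⟩ e
        omega
      · have b2 := (pvas_it_bw hbw l).2
        have := hdbw.1
        rw [g, T.src_opp', b2] at this
        exact Bool.noConfusion this
  · rcases pvacm_W_seg G (by omega) hx hxd with h | ⟨l, a1, a2, g, -⟩
    · exact Set.disjoint_left.1 hseg h hxK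
    · obtain ⟨b1, b2⟩ := pvas_it_bw hbw l
      rcases g with rfl | rfl
      · rw [b1, b2] at hd
        exact Bool.noConfusion hd
      · rw [T.src_opp', T.tgt_opp, b1, b2] at hd
        exact Bool.noConfusion hd
  · exact ball zs ρs hcs x hx hxK hz
  · exact ball zt ρt hct x hx hxK hz

/-- **BACKWARD: THE WITNESS MISSES THE OBSTACLE** -/
theorem pvacm_bwd_off (L : PvLocP Tc T R posc pos Kr) (hσ : ∀ d d', R d d' → σc (Tc.src d) = σ (T.src d')) (G : PlGeo T pos) (h0 : pvasBW Tc σc d0)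
    (hinj : Set.InjOn (pvasIt Tc σc d0) (Set.Icc lo hi)) (hlo : lo < ts) (htt : tt ≤ hi)
    (hes : R (pvasIt Tc σc d0 ts) es) (hγ : ∀ k, lo ≤ k → k ≤ ts → pvacmGam Tc posc σc d0 k ∈ Kr)
    (hmesh : ∀ d f : D, pos (T.src d) ∈ Kr → T.SF d f → ‖pos (T.src f) - pos (T.tgt f)‖ ≤ μ)
    (hK : PvacmObs Tc T R pos σc σ d0 ts tt zs zt ρs ρt K) (hseg : Disjoint (segment ℝ ps (pos (T.apex (T.opp es)))) K)
    (hcs : ∀ k, lo < k → k ≤ ts → ρs + μ < ‖pvacmGam Tc posc σc d0 k - zs‖) (hct : ∀ k, lo < k → k ≤ ts → ρt + μ < ‖pvacmGam Tc posc σc d0 k - zt‖) :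
    Disjoint (pvacmW T pos (pvasNot σ) (T.opp es) ps (ts - lo)) K := by
  have he' : R (Tc.opp (pvasIt Tc σc d0 ts)) (T.opp es) := pvlw_opp L hes (Or.inl (hγ ts hlo.le le_rfl))
  have tw := pvacm_twin_rev L.loc hσ h0 (N := ts - lo) (Nat.sub_le _ _) he' (fun l hl => (pvacm_shared L (hγ (ts - l) (by omega) (by omega))).2)
  have hbw : pvasBW T (pvasNot σ) (T.opp es) := pvas_bw_not.2 ((pvloc_bw L.loc hσ hes).1 (pvas_it_bw h0 ts))
  have ball : ∀ (z : ℂ) (ρ : ℝ), (∀ k, lo < k → k ≤ ts → ρ + μ < ‖pvacmGam Tc posc σc d0 k - z‖) → ∀ x, x ∈ pvacmW T pos (pvasNot σ) (T.opp es) ps (ts - lo) → x ∈ K →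
      x ∉ Metric.closedBall z ρ := by
    intro z ρ hc x hx hxK hz
    rcases pvacm_bwd_near L hσ G h0 hlo hes hγ hmesh hx with h | ⟨k, a1, a2, a3⟩
    · exact Set.disjoint_left.1 hseg h hxK
    · rw [Metric.mem_closedBall, dist_eq_norm] at hz
      have h3 := hc k a1 a2
      have h4 := norm_sub_le_norm_sub_add_norm_sub (pvacmGam Tc posc σc d0 k) x z
      rw [norm_sub_rev (pvacmGam Tc posc σc d0 k) x] at h4
      linarith
  rw [Set.disjoint_left]
  intro x hx hxK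
  rcases hK x hxK with ⟨d, m, m1, m2, hd, hxd⟩ | ⟨d, hd, hxd⟩ | hz | hz
  · rcases pvacm_W_seg G (by omega) hx hxd with h | ⟨l, a1, a2, g, -⟩
    · exact Set.disjoint_left.1 hseg h hxK
    · have hdbw : pvasBW T σ d := (pvloc_bw L.loc hσ hd).1 (pvas_it_bw h0 m)
      rcases g with g | g
      · exact pvacm_bw_ne hdbw (pvas_it_bw hbw l) g
      · -- `opp a'_l` is the twin of the position number `ts - l`
        have h1 : R (pvasIt Tc σc d0 (ts - l)) (T.opp (pvasIt T (pvasNot σ) (T.opp es) l)) := by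
          have h2 := pvlw_opp L (tw l a2) (Or.inr (by rw [Tc.tgt_opp]; exact hγ (ts - l) (by omega) (by omega)))
          rwa [Tc.opp_opp] at h2
        refine pvacm_twin_ne L.loc hd h1 (fun e => ?_) g
        have := hinj ⟨by omega, by omega⟩ ⟨by omega, by omega⟩ e
        omega
  · rcases pvacm_W_seg G (by omega) hx hxd with h | ⟨l, a1, a2, g, -⟩
    · exact Set.disjoint_left.1 hseg h hxK
    · obtain ⟨b1, b2⟩ := pvacm_not_ends (pvas_it_bw hbw l)
      rcases g with rfl | rfl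
      · rw [b1, b2] at hd
        exact Bool.noConfusion hd
      · rw [T.src_opp', T.tgt_opp, b1, b2] at hd
        exact Bool.noConfusion hd
  · exact ball zs ρs hcs x hx hxK hz
  · exact ball zt ρt hct x hx hxK hz

/-- **THE SCENE FROM THE SEAM**: the contract `PvaccScene` of `Tr/Acc` for the two half witnesses.
WHAT IS LEFT TO THE PRODUCERS (nothing about the witnesses any more):
* TIMETABLE in the completion (10 `Tr/FitDat`, 64): `hinj het hes hK arc`;      * EXIT (reaching rim): `hγ far lo_far`;      * metric CORE-FREE (120, 118 `pvft_gate_free`): `core`;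
* MOUTH (215): the first segments `seg_*`, `p4_*`;      * `mask_*` : `g₀` misses the protected balls (62 `pvfy_mouth_*`). -/
theorem pvacm_scene (L : PvLocP Tc T R posc pos Kr) (hσ : ∀ d d', R d d' → σc (Tc.src d) = σ (T.src d')) (G : PlGeo T pos) (h0 : pvasBW Tc σc d0)
    (hinj : Set.InjOn (pvasIt Tc σc d0) (Set.Icc lo hi)) (hlo : lo < ts) (htt : tt < hi)
    (het : R (pvasIt Tc σc d0 tt) et) (hes : R (pvasIt Tc σc d0 ts) es)
    (hγ : ∀ k, lo ≤ k → k ≤ hi → (k ≤ ts ∨ tt ≤ k) → pvacmGam Tc posc σc d0 k ∈ Kr)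
    (hmesh : ∀ d f : D, pos (T.src d) ∈ Kr → T.SF d f → ‖pos (T.src f) - pos (T.tgt f)‖ ≤ μ)
    {M : Set ℂ} {r η S : ℝ} (hΛ : 0 ≤ S + 8 * r) (hKc : IsCompact K) (hK : PvacmObs Tc T R pos σc σ d0 ts tt zs zt ρs ρt K)
    (arc : ∀ W : Set ℂ, (∀ w ∈ W, ρs + (S + 8 * r) < ‖w - zs‖ ∧ ρt + (S + 8 * r) < ‖w - zt‖) → ∃ u v, PvfrArc (pvacmGam Tc posc σc d0) K W μ (S + 8 * r) ts tt u v)
    (core : ∀ k, lo ≤ k → k ≤ hi → (k ≤ ts ∨ tt ≤ k) → ρs + (S + 8 * r) + μ < ‖pvacmGam Tc posc σc d0 k - zs‖ ∧ ρt + (S + 8 * r) + μ < ‖pvacmGam Tc posc σc d0 k - zt‖)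
    (seg_t : Disjoint (segment ℝ pt (pos (T.apex et))) K) (seg_s : Disjoint (segment ℝ ps (pos (T.apex (T.opp es)))) K)
    (seg_t_core : ∀ w ∈ segment ℝ pt (pos (T.apex et)), ρs + (S + 8 * r) < ‖w - zs‖ ∧ ρt + (S + 8 * r) < ‖w - zt‖)
    (seg_s_core : ∀ w ∈ segment ℝ ps (pos (T.apex (T.opp es))), ρs + (S + 8 * r) < ‖w - zs‖ ∧ ρt + (S + 8 * r) < ‖w - zt‖)
    (seg_t_far : ∀ w ∈ segment ℝ pt (pos (T.apex et)), ∀ q ∈ K \ M, 13 * r < ‖w - q‖)
    (seg_s_far : ∀ w ∈ segment ℝ ps (pos (T.apex (T.opp es))), ∀ q ∈ K \ M, 13 * r < ‖w - q‖)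
    (far : ∃ a0 b0 c0 e0 : ℝ, K ⊆ pvtcRect a0 b0 c0 e0 ∧ pvfbMid Tc posc (pvasIt Tc σc d0 hi) ∉ pvtcRect (a0 - (r + η)) (b0 + (r + η)) (c0 - (r + η)) (e0 + (r + η)) ∧
      pvfbMid Tc posc (pvasIt Tc σc d0 lo) ∉ pvtcRect (a0 - (r + η)) (b0 + (r + η)) (c0 - (r + η)) (e0 + (r + η)))
    (p4_t : PvaccP4 K M pt r η) (p4_s : PvaccP4 K M ps r η)
    (mask_pt : ∀ q ∈ K \ M, 3 * S + 5 * r < ‖pt - q‖) (mask_ps : ∀ q ∈ K \ M, 3 * S + 5 * r < ‖ps - q‖)
    (mask_tt : ∀ q ∈ K \ M, S + 5 * r < ‖pvacmGam Tc posc σc d0 tt - q‖) (mask_ts : ∀ q ∈ K \ M, S + 5 * r < ‖pvacmGam Tc posc σc d0 ts - q‖)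
    (lo_far : ∀ q ∈ K, S < ‖pvacmGam Tc posc σc d0 lo - q‖) :
    PvaccScene (pvacmGam Tc posc σc d0) K M (pvacmW T pos σ et pt (hi - tt)) (pvacmW T pos (pvasNot σ) (T.opp es) ps (ts - lo)) pt ps r η μ S lo ts tt hi := by
  have hle : ts ≤ tt := by
    obtain ⟨u, v, h⟩ := arc ∅ (fun w hw => hw.elim)
    exact pvfr_arc_le h
  have hγt : ∀ k, tt ≤ k → k ≤ hi → pvacmGam Tc posc σc d0 k ∈ Kr := fun k h1 h2 => hγ k (by omega) h2 (Or.inr h1)
  have hγs : ∀ k, lo ≤ k → k ≤ ts → pvacmGam Tc posc σc d0 k ∈ Kr := fun k h1 h2 => hγ k h1 (by omega) (Or.inl h2)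
  have nt := fun x hx => pvacm_fwd_near (pt := pt) (x := x) L hσ G htt het hγt hmesh hx
  have ns := fun x hx => pvacm_bwd_near (ps := ps) (x := x) L hσ G h0 hlo hes hγs hmesh hx
  have tri : ∀ (g w z : ℂ) (c : ℝ), ‖w - g‖ ≤ μ → c + μ < ‖g - z‖ → c < ‖w - z‖ := by
    intro g w z c h1 h2
    have h4 := norm_sub_le_norm_sub_add_norm_sub g w z
    rw [norm_sub_rev g w] at h4
    linarith
  obtain ⟨a0, b0, c0, d0', hKb, hft, hfs⟩ := far
  refine ⟨hKc, arc _ ?_, pvacm_W_conn _ _ _ _ _ _, pvacm_W_compact _ _ _ _ _ _, ?_, pvacm_front_mem _ _ _ _ _ _, pvacm_W_conn _ _ _ _ _ _, pvacm_W_compact _ _ _ _ _ _, ?_,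
    pvacm_front_mem _ _ _ _ _ _, ⟨a0, b0, c0, d0', hKb, ⟨_, pvacm_mid_mem T pos σ et pt (l := hi - tt) (by omega) le_rfl, ?_⟩,
      _, pvacm_mid_mem T pos (pvasNot σ) (T.opp es) ps (l := ts - lo) (by omega) le_rfl, ?_⟩, ?_, ?_, p4_t, p4_s, mask_pt, mask_ps, mask_tt, mask_ts, lo_far, hlo.le, htt.le⟩
  · rintro w (hw | hw)
    · rcases nt w hw with h | ⟨k, a1, a2, a3⟩
      · exact seg_t_core w h
      · obtain ⟨c1, c2⟩ := core k (by omega) a2.le (Or.inr a1)
        exact ⟨tri _ _ _ _ a3 c1, tri _ _ _ _ a3 c2⟩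
    · rcases ns w hw with h | ⟨k, a1, a2, a3⟩
      · exact seg_s_core w h
      · obtain ⟨c1, c2⟩ := core k a1.le (by omega) (Or.inl a2)
        exact ⟨tri _ _ _ _ a3 c1, tri _ _ _ _ a3 c2⟩
  · exact pvacm_fwd_off L hσ G h0 hinj hlo.le htt het hγt hmesh hK seg_t (fun k a1 a2 => by have := (core k (by omega) a2.le (Or.inr a1)).1; linarith)
      (fun k a1 a2 => by have := (core k (by omega) a2.le (Or.inr a1)).2; linarith)
  · exact pvacm_bwd_off L hσ G h0 hinj hlo htt.le hes hγs hmesh hK seg_s (fun k a1 a2 => by have := (core k a1.le (by omega) (Or.inl a2)).1; linarith)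
      (fun k a1 a2 => by have := (core k a1.le (by omega) (Or.inl a2)).2; linarith)
  · have tw := pvacm_twin_it L.loc hσ het (N := hi - tt) (fun l hl => (pvacm_shared L (hγt (tt + l) (by omega) (by omega))).1) (hi - tt) le_rfl
    rw [pvacm_twin_mid L tw, Nat.add_sub_cancel' htt.le]
    exact hft
  · have he' : R (Tc.opp (pvasIt Tc σc d0 ts)) (T.opp es) := pvlw_opp L hes (Or.inl (hγs ts hlo.le le_rfl))
    have tw := pvacm_twin_rev L.loc hσ h0 (N := ts - lo) (Nat.sub_le _ _) he' (fun l hl => (pvacm_shared L (hγs (ts - l) (by omega) (by omega))).2) (ts - lo) le_rfl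
    rw [pvacm_twin_mid L tw, pvfb_mid_opp, Nat.sub_sub_self hlo.le]
    exact hfs
  · intro w hw
    rcases nt w hw with h | ⟨k, a1, a2, a3⟩
    · exact Or.inr (seg_t_far w h)
    · exact Or.inl ⟨k, ⟨a1, a2.le⟩, a3⟩
  · intro w hw
    rcases ns w hw with h | ⟨k, a1, a2, a3⟩
    · exact Or.inr (seg_s_far w h)
    · exact Or.inl ⟨k, ⟨a1.le, a2⟩, a3⟩

end scene

end Claimed.Agent.R289
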