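import Claimed.Agent.R289.Tr.FitRef
import Claimed.Agent.R289.Tr.FitWall
import Claimed.Agent.R289.S1.Defs

/-!
# Row 289 (S0537, Cardy for Poisson-Voronoi), unit TR, R-G / TR19 FIT-DET, Tr/FitTime : THE ZIGZAG AND THE WALL POLYGON OF A STRAND, WITH MARKED TIMES      (owner helper257; post of helper151; prefix `pvfm_`, defs `pvfmGam pvfmEdge pvfmZig pvfmLeg pvfmWall`)

`T : PvMap V D`, `pos : V → ℂ`, `s : V → Bool`, `a : D`;   `a_k := pvasIt T s a k` = the position of the strand at the time `k`.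
* `pvfmGam T pos s a k`      `γ k` = the midpoint of the occupied edge `a_k`                      (the function `γ` of `Tr/FitRef`)
* `pvfmEdge T pos s a k`     the occupied edge `[pos (src a_k), pos (tgt a_k)]`
* `pvfmZig T pos s a t t'`   THE ZIGZAG = the union of the occupied edges of the times `t ≤ k ≤ t'`
* `pvfmLeg T pos s a k`      `[γ k, bary a_k] ∪ [bary a_k, γ (k+1)]` = the step number `k` of the wall, drawn in the face of `a_k`
* `pvfmWall T pos s a i j`   THE WALL POLYGON = the union of the legs of the steps `i ≤ k < j`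

## Exits
* sec. 1  segments: `pvfm_seg_mid` (a point of `[A,B]` is within `‖A-B‖/2` of the midpoint), `pvfm_seg_near` (within `‖A-B‖` of `A`)
* sec. 2  **(Z) `pvfm_zigzag`** : mesh `‖pos src a_k - pos tgt a_k‖ ≤ 2μ` on `[t,t']`  ⟹  `PvfrChain γ (Zig t t') W μ L (t'-t) (fun i => Edge (t+i)) (fun i => t+i) ∅`;   `pvfm_edge_link`, `pvfm_zig_compact`, `pvfm_zig_preconnected`,
          `pvfm_zig_near`, `pvfm_zig_union` (concatenation), `pvfm_zig_times` (the marked times lie in `[t,t']`), `pvfm_src_mem_zig`, `pvfm_tgt_mem_zig`, `pvfm_gam_mem_zig`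
* sec. 3  **(W)** `pvfm_wall_compact`, `pvfm_wall_preconnected`, `pvfm_gam_mem_wall`, **`pvfm_wall_near`** (mesh `2μ` on the three edges of the faces crossed: every point of the wall polygon is within `μ` of some `γ k`, `i ≤ k ≤ j`:
          the hypothesis `hW` of `pvfr_three_fwd`, `pvfr_three_bwd`), `pvfm_wall_union`, `pvfm_wall_mono`, `pvfm_wall_shift`
* sec. 4  shift of the origin of the times: `pvfm_gam_shift`, `pvfm_edge_shift`, `pvfm_zig_shift`
* sec. 5  **ARC FORM** `pvfm_zig_arc : PvfrArc γ (Zig t t') W μ L t t' u v` (`u` in the first edge, `v` in the last), `pvfm_zig_arc_ends`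
* sec. 6  BRIDGE to `Tr/FitWall` of helper135 (same objects, set-builder form; there: the EMBEDDING lemmas on `PlGeo`): `pvfm_gam_eq`, `pvfm_edge_eq`, `pvfm_zig_eq`, `pvfm_leg_eq`, `pvfm_wall_eq`;
          **`pvfm_fb_zig_arc`**, **`pvfm_fb_wall_near`** = (Z), (W) in the vocabulary `pvfbMid pvfbZig pvfbWall`
-/

set_option autoImplicit false
set_option linter.unusedSectionVars false

namespace Claimed.Agent.R289

open Set

/-! ## 0. definitions -/

section defs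

variable {V D : Type} (T : PvMap V D) (pos : V → ℂ) (s : V → Bool) (a : D)

/-- the midpoint of the occupied edge at the time `k` -/
noncomputable def pvfmGam (k : ℕ) : ℂ := (pos (T.src (pvasIt T s a k)) + pos (T.tgt (pvasIt T s a k))) / 2

/-- the occupied edge at the time `k` -/
def pvfmEdge (k : ℕ) : Set ℂ := segment ℝ (pos (T.src (pvasIt T s a k))) (pos (T.tgt (pvasIt T s a k)))

/-- the zigzag of the times `t..t'` -/
def pvfmZig (t t' : ℕ) : Set ℂ := ⋃ k ∈ Icc t t', pvfmEdge T pos s a k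

/-- the step number `k` of the wall, drawn in the face of `a_k` -/
noncomputable def pvfmLeg (k : ℕ) : Set ℂ :=
  segment ℝ (pvfmGam T pos s a k) (T.bary pos (pvasIt T s a k)) ∪ segment ℝ (T.bary pos (pvasIt T s a k)) (pvfmGam T pos s a (k + 1))

/-- the wall polygon of the steps `i ≤ k < j` -/
noncomputable def pvfmWall (i j : ℕ) : Set ℂ := ⋃ k ∈ Ico i j, pvfmLeg T pos s a k

end defs

theorem pvfm_time_eqns_cite : True := by
  have := @pvfmGam.eq_1; have := @pvfmEdge.eq_1; have := @pvfmZig.eq_1; have := @pvfmLeg.eq_1; have := @pvfmWall.eq_1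
  trivial

/-! ## 1. segments -/

/-- a point of `[A,B]` is within `‖A - B‖` of `A` -/
theorem pvfm_seg_near {A B p : ℂ} (hp : p ∈ segment ℝ A B) : ‖p - A‖ ≤ ‖A - B‖ := by
  obtain ⟨u, v, hu, hv, huv, rfl⟩ := hp
  have e : u • A + v • B - A = (v : ℂ) * (B - A) := by
    have hu' : (u : ℂ) = 1 - v := by
      have : ((u + v : ℝ) : ℂ) = 1 := by rw [huv]; simp
      push_cast at this
      linear_combination this
    simp only [Complex.real_smul]
    rw [hu']
    ring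
  rw [e, norm_mul, Complex.norm_real, Real.norm_of_nonneg hv, norm_sub_rev B A]
  have hv1 : v ≤ 1 := by linarith
  exact mul_le_of_le_one_left (norm_nonneg _) hv1

/-- a point of `[A,B]` is within `‖A - B‖ / 2` of the midpoint -/
theorem pvfm_seg_mid {A B p : ℂ} (hp : p ∈ segment ℝ A B) : ‖p - (A + B) / 2‖ ≤ ‖A - B‖ / 2 := by
  obtain ⟨u, v, hu, hv, huv, rfl⟩ := hp
  have e : u • A + v • B - (A + B) / 2 = (((u - v) / 2 : ℝ) : ℂ) * (A - B) := by
    have hu' : (u : ℂ) = 1 - v := by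
      have : ((u + v : ℝ) : ℂ) = 1 := by rw [huv]; simp
      push_cast at this
      linear_combination this
    simp only [Complex.real_smul]
    push_cast
    rw [hu']
    ring
  rw [e, norm_mul, Complex.norm_real, Real.norm_eq_abs]
  have h1 : |(u - v) / 2| ≤ 1 / 2 := by
    rw [abs_le]
    constructor <;> linarith
  calc |(u - v) / 2| * ‖A - B‖ ≤ 1 / 2 * ‖A - B‖ := mul_le_mul_of_nonneg_right h1 (norm_nonneg _)
    _ = ‖A - B‖ / 2 := by ring

theorem pvfm_mid_mem (A B : ℂ) : (A + B) / 2 ∈ segment ℝ A B := by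
  refine ⟨1 / 2, 1 / 2, by norm_num, by norm_num, by norm_num, ?_⟩
  simp only [Complex.real_smul]
  push_cast
  ring

theorem pvfm_seg_compact (A B : ℂ) : IsCompact (segment ℝ A B) := by
  rw [segment_eq_image_lineMap]
  exact isCompact_Icc.image (AffineMap.lineMap_continuous)

theorem pvfm_seg_preconnected (A B : ℂ) : IsPreconnected (segment ℝ A B) := (convex_segment A B).isPreconnected

/-! ## 2. (Z) THE ZIGZAG -/

section zig

variable {V D : Type} {T : PvMap V D} {pos : V → ℂ} {s : V → Bool} {a : D}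

theorem pvfm_src_mem_edge (k : ℕ) : pos (T.src (pvasIt T s a k)) ∈ pvfmEdge T pos s a k := left_mem_segment ℝ _ _

theorem pvfm_tgt_mem_edge (k : ℕ) : pos (T.tgt (pvasIt T s a k)) ∈ pvfmEdge T pos s a k := right_mem_segment ℝ _ _

theorem pvfm_gam_mem_edge (k : ℕ) : pvfmGam T pos s a k ∈ pvfmEdge T pos s a k := pvfm_mid_mem _ _

/-- consecutive occupied edges share an end -/
theorem pvfm_edge_link (k : ℕ) : (pvfmEdge T pos s a k ∩ pvfmEdge T pos s a (k + 1)).Nonempty := by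
  rcases pvas_step_ends (T := T) s (pvasIt T s a k) with ⟨_, _, e2⟩ | ⟨_, e1, _⟩
  · refine ⟨pos (T.tgt (pvasIt T s a k)), pvfm_tgt_mem_edge k, ?_⟩
    have := pvfm_tgt_mem_edge (T := T) (pos := pos) (s := s) (a := a) (k + 1)
    rwa [pvas_it_succ, e2] at this
  · refine ⟨pos (T.src (pvasIt T s a k)), pvfm_src_mem_edge k, ?_⟩
    have := pvfm_src_mem_edge (T := T) (pos := pos) (s := s) (a := a) (k + 1)
    rwa [pvas_it_succ, e1] at this

theorem pvfm_edge_thin {μ : ℝ} {k : ℕ} (h : ‖pos (T.src (pvasIt T s a k)) - pos (T.tgt (pvasIt T s a k))‖ ≤ 2 * μ) {p : ℂ} (hp : p ∈ pvfmEdge T pos s a k) :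
    ‖p - pvfmGam T pos s a k‖ ≤ μ := by
  have := pvfm_seg_mid hp
  unfold pvfmGam
  linarith

theorem pvfm_mem_zig {t t' : ℕ} {p : ℂ} : p ∈ pvfmZig T pos s a t t' ↔ ∃ k, t ≤ k ∧ k ≤ t' ∧ p ∈ pvfmEdge T pos s a k := by
  simp only [pvfmZig, mem_iUnion, mem_Icc, exists_prop, and_assoc]

theorem pvfm_edge_sub_zig {t t' k : ℕ} (h1 : t ≤ k) (h2 : k ≤ t') : pvfmEdge T pos s a k ⊆ pvfmZig T pos s a t t' :=
  fun _ hp => pvfm_mem_zig.2 ⟨k, h1, h2, hp⟩

theorem pvfm_src_mem_zig {t t' k : ℕ} (h1 : t ≤ k) (h2 : k ≤ t') : pos (T.src (pvasIt T s a k)) ∈ pvfmZig T pos s a t t' :=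
  pvfm_edge_sub_zig h1 h2 (pvfm_src_mem_edge k)

theorem pvfm_tgt_mem_zig {t t' k : ℕ} (h1 : t ≤ k) (h2 : k ≤ t') : pos (T.tgt (pvasIt T s a k)) ∈ pvfmZig T pos s a t t' :=
  pvfm_edge_sub_zig h1 h2 (pvfm_tgt_mem_edge k)

theorem pvfm_gam_mem_zig {t t' k : ℕ} (h1 : t ≤ k) (h2 : k ≤ t') : pvfmGam T pos s a k ∈ pvfmZig T pos s a t t' :=
  pvfm_edge_sub_zig h1 h2 (pvfm_gam_mem_edge k)

/-- **(Z) THE ZIGZAG IS A CHAIN WITH MARKED TIMES**: pieces = the occupied edges, `τ i = t + i`, no fat piece -/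
theorem pvfm_zigzag {t t' : ℕ} (htt : t ≤ t') {μ : ℝ} (hm : ∀ k, t ≤ k → k ≤ t' → ‖pos (T.src (pvasIt T s a k)) - pos (T.tgt (pvasIt T s a k))‖ ≤ 2 * μ) (W : Set ℂ) (L : ℝ) :
    PvfrChain (pvfmGam T pos s a) (pvfmZig T pos s a t t') W μ L (t' - t) (fun i => pvfmEdge T pos s a (t + i)) (fun i => t + i) ∅ where
  conn := fun _ _ => pvfm_seg_preconnected _ _
  link := fun i _ => pvfm_edge_link (t + i)
  cover := fun p => by
    rw [pvfm_mem_zig]
    constructor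
    · rintro ⟨k, h1, h2, hp⟩
      exact ⟨k - t, by omega, by rwa [Nat.add_sub_cancel' h1]⟩
    · rintro ⟨i, hi, hp⟩
      exact ⟨t + i, by omega, by omega, hp⟩
  mono := fun i j hij _ => by omega
  near := fun i hi => ⟨pvfmGam T pos s a (t + i), pvfm_gam_mem_edge _, by
    rw [sub_self, norm_zero]
    have := (norm_nonneg _).trans (hm (t + i) (by omega) (by omega))
    linarith⟩
  thin := fun i hi _ p hp => pvfm_edge_thin (hm (t + i) (by omega) (by omega)) hp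
  far := fun _ _ h => absurd h (notMem_empty _)

/-- the marked times of the zigzag lie in `[t,t']` -/
theorem pvfm_zig_times {t t' : ℕ} (htt : t ≤ t') (i : ℕ) (hi : i ≤ t' - t) : t ≤ t + i ∧ t + i ≤ t' := by omega

theorem pvfm_zig_compact (t t' : ℕ) : IsCompact (pvfmZig T pos s a t t') :=
  (finite_Icc t t').isCompact_biUnion fun _ _ => pvfm_seg_compact _ _

theorem pvfm_zig_preconnected (t t' : ℕ) : IsPreconnected (pvfmZig T pos s a t t') := by
  unfold pvfmZig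
  refine IsPreconnected.biUnion_of_chain (s := fun k => pvfmEdge T pos s a k) ordConnected_Icc (fun _ _ => pvfm_seg_preconnected _ _) ?_
  intro k _ _
  exact pvfm_edge_link k

/-- every point of the zigzag is within `μ` of `γ k` for a time `t ≤ k ≤ t'` -/
theorem pvfm_zig_near {t t' : ℕ} {μ : ℝ} (hm : ∀ k, t ≤ k → k ≤ t' → ‖pos (T.src (pvasIt T s a k)) - pos (T.tgt (pvasIt T s a k))‖ ≤ 2 * μ) {p : ℂ}
    (hp : p ∈ pvfmZig T pos s a t t') : ∃ k, (t ≤ k ∧ k ≤ t') ∧ ‖p - pvfmGam T pos s a k‖ ≤ μ := by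
  obtain ⟨k, h1, h2, hk⟩ := pvfm_mem_zig.1 hp
  exact ⟨k, ⟨h1, h2⟩, pvfm_edge_thin (hm k h1 h2) hk⟩

theorem pvfm_zig_mono {t t' u u' : ℕ} (h1 : u ≤ t) (h2 : t' ≤ u') : pvfmZig T pos s a t t' ⊆ pvfmZig T pos s a u u' := by
  intro p hp
  obtain ⟨k, k1, k2, hk⟩ := pvfm_mem_zig.1 hp
  exact pvfm_mem_zig.2 ⟨k, by omega, by omega, hk⟩

/-- concatenation -/
theorem pvfm_zig_union {t u t' : ℕ} (h1 : t ≤ u) (h2 : u ≤ t') : pvfmZig T pos s a t u ∪ pvfmZig T pos s a u t' = pvfmZig T pos s a t t' := by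
  ext p
  simp only [mem_union, pvfm_mem_zig]
  constructor
  · rintro (⟨k, k1, k2, hk⟩ | ⟨k, k1, k2, hk⟩)
    · exact ⟨k, k1, by omega, hk⟩
    · exact ⟨k, by omega, k2, hk⟩
  · rintro ⟨k, k1, k2, hk⟩
    by_cases h : k ≤ u
    · exact Or.inl ⟨k, k1, h, hk⟩
    · exact Or.inr ⟨k, by omega, k2, hk⟩

end zig

/-! ## 3. (W) THE WALL POLYGON -/

section wall

variable {V D : Type} {T : PvMap V D} {pos : V → ℂ} {s : V → Bool} {a : D}

theorem pvfm_gam_mem_leg (k : ℕ) : pvfmGam T pos s a k ∈ pvfmLeg T pos s a k := Or.inl (left_mem_segment ℝ _ _)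

theorem pvfm_gam_succ_mem_leg (k : ℕ) : pvfmGam T pos s a (k + 1) ∈ pvfmLeg T pos s a k := Or.inr (right_mem_segment ℝ _ _)

theorem pvfm_bary_mem_leg (k : ℕ) : T.bary pos (pvasIt T s a k) ∈ pvfmLeg T pos s a k := Or.inl (right_mem_segment ℝ _ _)

theorem pvfm_leg_compact (k : ℕ) : IsCompact (pvfmLeg T pos s a k) := (pvfm_seg_compact _ _).union (pvfm_seg_compact _ _)

theorem pvfm_leg_preconnected (k : ℕ) : IsPreconnected (pvfmLeg T pos s a k) :=
  IsPreconnected.union (T.bary pos (pvasIt T s a k)) (right_mem_segment ℝ _ _) (left_mem_segment ℝ _ _) (pvfm_seg_preconnected _ _) (pvfm_seg_preconnected _ _)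

theorem pvfm_leg_link (k : ℕ) : (pvfmLeg T pos s a k ∩ pvfmLeg T pos s a (k + 1)).Nonempty :=
  ⟨pvfmGam T pos s a (k + 1), pvfm_gam_succ_mem_leg k, pvfm_gam_mem_leg (k + 1)⟩

theorem pvfm_mem_wall {i j : ℕ} {p : ℂ} : p ∈ pvfmWall T pos s a i j ↔ ∃ k, i ≤ k ∧ k < j ∧ p ∈ pvfmLeg T pos s a k := by
  simp only [pvfmWall, mem_iUnion, mem_Ico, exists_prop, and_assoc]

theorem pvfm_wall_compact (i j : ℕ) : IsCompact (pvfmWall T pos s a i j) :=
  (finite_Ico i j).isCompact_biUnion fun _ _ => pvfm_leg_compact _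

theorem pvfm_wall_preconnected (i j : ℕ) : IsPreconnected (pvfmWall T pos s a i j) := by
  unfold pvfmWall
  refine IsPreconnected.biUnion_of_chain (s := fun k => pvfmLeg T pos s a k) ordConnected_Ico (fun _ _ => pvfm_leg_preconnected _) ?_
  intro k _ _
  exact pvfm_leg_link k

/-- the midpoints of the times `i ≤ k ≤ j` lie on the wall polygon (`i < j`) -/
theorem pvfm_gam_mem_wall {i j k : ℕ} (hij : i < j) (h1 : i ≤ k) (h2 : k ≤ j) : pvfmGam T pos s a k ∈ pvfmWall T pos s a i j := by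
  rw [pvfm_mem_wall]
  by_cases h : k < j
  · exact ⟨k, h1, h, pvfm_gam_mem_leg k⟩
  · obtain rfl : k = j := by omega
    obtain ⟨k', rfl⟩ : ∃ k', k = k' + 1 := ⟨k - 1, by omega⟩
    exact ⟨k', by omega, by omega, pvfm_gam_succ_mem_leg k'⟩

theorem pvfm_wall_connected {i j : ℕ} (hij : i < j) : IsConnected (pvfmWall T pos s a i j) :=
  ⟨⟨_, pvfm_gam_mem_wall hij le_rfl hij.le⟩, pvfm_wall_preconnected i j⟩

/-- the barycentre of the face is within `2μ/3` of the midpoint of the edge -/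
theorem pvfm_bary_near {A B C : ℂ} {μ : ℝ} (h1 : ‖C - A‖ ≤ 2 * μ) (h2 : ‖C - B‖ ≤ 2 * μ) : ‖(A + B) / 2 - (A + B + C) / 3‖ ≤ μ := by
  have e : (A + B) / 2 - (A + B + C) / 3 = -((C - A) + (C - B)) / 6 := by ring
  rw [e, norm_div, norm_neg]
  have h3 := norm_add_le (C - A) (C - B)
  have h6 : ‖(6 : ℂ)‖ = 6 := by simp
  rw [h6, div_le_iff₀ (by norm_num)]
  have hμ : 0 ≤ μ := by have := (norm_nonneg _).trans h1; linarith
  linarith

/-- mesh on the three edges of the face of `a_k`: every point of the leg is within `μ` of `γ k` or of `γ (k+1)` -/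
theorem pvfm_leg_near {μ : ℝ} {k : ℕ} (h1 : ‖pos (T.src (pvasIt T s a k)) - pos (T.tgt (pvasIt T s a k))‖ ≤ 2 * μ)
    (h2 : ‖pos (T.apex (pvasIt T s a k)) - pos (T.src (pvasIt T s a k))‖ ≤ 2 * μ) (h3 : ‖pos (T.apex (pvasIt T s a k)) - pos (T.tgt (pvasIt T s a k))‖ ≤ 2 * μ)
    {p : ℂ} (hp : p ∈ pvfmLeg T pos s a k) : ‖p - pvfmGam T pos s a k‖ ≤ μ ∨ ‖p - pvfmGam T pos s a (k + 1)‖ ≤ μ := by
  rcases hp with hp | hp
  · left
    refine (pvfm_seg_near hp).trans ?_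
    exact pvfm_bary_near h2 h3
  · right
    rw [segment_symm] at hp
    refine (pvfm_seg_near hp).trans ?_
    unfold pvfmGam PvMap.bary
    rcases pvas_step_ends (T := T) s (pvasIt T s a k) with ⟨_, e1, e2⟩ | ⟨_, e1, e2⟩
    · rw [pvas_it_succ, e1, e2]
      have := pvfm_bary_near (A := pos (T.apex (pvasIt T s a k))) (B := pos (T.tgt (pvasIt T s a k))) (C := pos (T.src (pvasIt T s a k))) (μ := μ)
        (by rwa [norm_sub_rev]) h1
      rw [show pos (T.src (pvasIt T s a k)) + pos (T.tgt (pvasIt T s a k)) + pos (T.apex (pvasIt T s a k)) =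
        pos (T.apex (pvasIt T s a k)) + pos (T.tgt (pvasIt T s a k)) + pos (T.src (pvasIt T s a k)) by ring]
      exact this
    · rw [pvas_it_succ, e1, e2]
      have := pvfm_bary_near (A := pos (T.src (pvasIt T s a k))) (B := pos (T.apex (pvasIt T s a k))) (C := pos (T.tgt (pvasIt T s a k))) (μ := μ)
        (by rwa [norm_sub_rev]) (by rwa [norm_sub_rev])
      rw [show pos (T.src (pvasIt T s a k)) + pos (T.tgt (pvasIt T s a k)) + pos (T.apex (pvasIt T s a k)) =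
        pos (T.src (pvasIt T s a k)) + pos (T.apex (pvasIt T s a k)) + pos (T.tgt (pvasIt T s a k)) by ring]
      exact this

/-- **(W)**: mesh `2μ` on the three edges of the faces crossed by the steps `i ≤ k < j`: every point of the wall polygon is within `μ` of `γ k` for a time `i ≤ k ≤ j` -/
theorem pvfm_wall_near {i j : ℕ} {μ : ℝ} (h1 : ∀ k, i ≤ k → k < j → ‖pos (T.src (pvasIt T s a k)) - pos (T.tgt (pvasIt T s a k))‖ ≤ 2 * μ)
    (h2 : ∀ k, i ≤ k → k < j → ‖pos (T.apex (pvasIt T s a k)) - pos (T.src (pvasIt T s a k))‖ ≤ 2 * μ)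
    (h3 : ∀ k, i ≤ k → k < j → ‖pos (T.apex (pvasIt T s a k)) - pos (T.tgt (pvasIt T s a k))‖ ≤ 2 * μ) {p : ℂ} (hp : p ∈ pvfmWall T pos s a i j) :
    ∃ k, (i ≤ k ∧ k ≤ j) ∧ ‖p - pvfmGam T pos s a k‖ ≤ μ := by
  obtain ⟨k, k1, k2, hk⟩ := pvfm_mem_wall.1 hp
  rcases pvfm_leg_near (h1 k k1 k2) (h2 k k1 k2) (h3 k k1 k2) hk with h | h
  · exact ⟨k, ⟨k1, k2.le⟩, h⟩
  · exact ⟨k + 1, ⟨by omega, k2⟩, h⟩

theorem pvfm_wall_mono {i j i' j' : ℕ} (h1 : i' ≤ i) (h2 : j ≤ j') : pvfmWall T pos s a i j ⊆ pvfmWall T pos s a i' j' := by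
  intro p hp
  obtain ⟨k, k1, k2, hk⟩ := pvfm_mem_wall.1 hp
  exact pvfm_mem_wall.2 ⟨k, by omega, by omega, hk⟩

/-- concatenation -/
theorem pvfm_wall_union {i u j : ℕ} (h1 : i ≤ u) (h2 : u ≤ j) : pvfmWall T pos s a i u ∪ pvfmWall T pos s a u j = pvfmWall T pos s a i j := by
  ext p
  simp only [mem_union, pvfm_mem_wall]
  constructor
  · rintro (⟨k, k1, k2, hk⟩ | ⟨k, k1, k2, hk⟩)
    · exact ⟨k, k1, by omega, hk⟩
    · exact ⟨k, by omega, k2, hk⟩
  · rintro ⟨k, k1, k2, hk⟩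
    by_cases h : k < u
    · exact Or.inl ⟨k, k1, h, hk⟩
    · exact Or.inr ⟨k, by omega, k2, hk⟩

end wall

/-! ## 4. shift of the origin of the times -/

section shift

variable {V D : Type} {T : PvMap V D} {pos : V → ℂ} {s : V → Bool} {a : D}

theorem pvfm_gam_shift (t0 k : ℕ) : pvfmGam T pos s (pvasIt T s a t0) k = pvfmGam T pos s a (t0 + k) := by
  unfold pvfmGam
  rw [pvas_it_add]

theorem pvfm_edge_shift (t0 k : ℕ) : pvfmEdge T pos s (pvasIt T s a t0) k = pvfmEdge T pos s a (t0 + k) := by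
  unfold pvfmEdge
  rw [pvas_it_add]

theorem pvfm_leg_shift (t0 k : ℕ) : pvfmLeg T pos s (pvasIt T s a t0) k = pvfmLeg T pos s a (t0 + k) := by
  unfold pvfmLeg
  rw [pvfm_gam_shift, pvfm_gam_shift, ← pvas_it_add, Nat.add_assoc]

theorem pvfm_zig_shift (t0 t t' : ℕ) : pvfmZig T pos s (pvasIt T s a t0) t t' = pvfmZig T pos s a (t0 + t) (t0 + t') := by
  ext p
  simp only [pvfm_mem_zig, pvfm_edge_shift]
  constructor
  · rintro ⟨k, k1, k2, hk⟩
    exact ⟨t0 + k, by omega, by omega, hk⟩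
  · rintro ⟨k, k1, k2, hk⟩
    exact ⟨k - t0, by omega, by omega, by rwa [Nat.add_sub_cancel' (by omega)]⟩

theorem pvfm_wall_shift (t0 i j : ℕ) : pvfmWall T pos s (pvasIt T s a t0) i j = pvfmWall T pos s a (t0 + i) (t0 + j) := by
  ext p
  simp only [pvfm_mem_wall, pvfm_leg_shift]
  constructor
  · rintro ⟨k, k1, k2, hk⟩
    exact ⟨t0 + k, by omega, by omega, hk⟩
  · rintro ⟨k, k1, k2, hk⟩
    exact ⟨k - t0, by omega, by omega, by rwa [Nat.add_sub_cancel' (by omega)]⟩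

end shift

/-! ## 5. the arc form -/

section arc

variable {V D : Type} {T : PvMap V D} {pos : V → ℂ} {s : V → Bool} {a : D}

/-- **(Z), ARC FORM**: the zigzag of the times `t..t'` is an arc of the obstacle with marked times in `[t,t']`, from any point of the first occupied edge to any point of the last one -/
theorem pvfm_zig_arc {t t' : ℕ} (htt : t ≤ t') {μ : ℝ} (hm : ∀ k, t ≤ k → k ≤ t' → ‖pos (T.src (pvasIt T s a k)) - pos (T.tgt (pvasIt T s a k))‖ ≤ 2 * μ) (W : Set ℂ) (L : ℝ)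
    {u v : ℂ} (hu : u ∈ pvfmEdge T pos s a t) (hv : v ∈ pvfmEdge T pos s a t') : PvfrArc (pvfmGam T pos s a) (pvfmZig T pos s a t t') W μ L t t' u v :=
  ⟨t' - t, fun i => pvfmEdge T pos s a (t + i), fun i => t + i, ∅, pvfm_zigzag htt hm W L, fun i hi => pvfm_zig_times htt i hi, by simpa using hu,
    by show v ∈ pvfmEdge T pos s a (t + (t' - t)); rwa [Nat.add_sub_cancel' htt]⟩

/-- the four choices of the ends -/
theorem pvfm_zig_arc_ends {t t' : ℕ} (htt : t ≤ t') {μ : ℝ} (hm : ∀ k, t ≤ k → k ≤ t' → ‖pos (T.src (pvasIt T s a k)) - pos (T.tgt (pvasIt T s a k))‖ ≤ 2 * μ) (W : Set ℂ) (L : ℝ) :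
    PvfrArc (pvfmGam T pos s a) (pvfmZig T pos s a t t') W μ L t t' (pos (T.src (pvasIt T s a t))) (pos (T.src (pvasIt T s a t'))) ∧
    PvfrArc (pvfmGam T pos s a) (pvfmZig T pos s a t t') W μ L t t' (pos (T.src (pvasIt T s a t))) (pos (T.tgt (pvasIt T s a t'))) ∧
    PvfrArc (pvfmGam T pos s a) (pvfmZig T pos s a t t') W μ L t t' (pos (T.tgt (pvasIt T s a t))) (pos (T.src (pvasIt T s a t'))) ∧
    PvfrArc (pvfmGam T pos s a) (pvfmZig T pos s a t t') W μ L t t' (pos (T.tgt (pvasIt T s a t))) (pos (T.tgt (pvasIt T s a t'))) ∧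
    PvfrArc (pvfmGam T pos s a) (pvfmZig T pos s a t t') W μ L t t' (pvfmGam T pos s a t) (pvfmGam T pos s a t') :=
  ⟨pvfm_zig_arc htt hm W L (pvfm_src_mem_edge t) (pvfm_src_mem_edge t'), pvfm_zig_arc htt hm W L (pvfm_src_mem_edge t) (pvfm_tgt_mem_edge t'),
    pvfm_zig_arc htt hm W L (pvfm_tgt_mem_edge t) (pvfm_src_mem_edge t'), pvfm_zig_arc htt hm W L (pvfm_tgt_mem_edge t) (pvfm_tgt_mem_edge t'),
    pvfm_zig_arc htt hm W L (pvfm_gam_mem_edge t) (pvfm_gam_mem_edge t')⟩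

end arc

/-! ## 6. bridge to `Tr/FitWall` -/

section bridge

variable {V D : Type} {T : PvMap V D} {pos : V → ℂ} {s : V → Bool} {a : D}

theorem pvfm_gam_eq (k : ℕ) : pvfmGam T pos s a k = pvfbMid T pos (pvasIt T s a k) := rfl

theorem pvfm_gam_eq_fun : pvfmGam T pos s a = fun k => pvfbMid T pos (pvasIt T s a k) := rfl

theorem pvfm_edge_eq (k : ℕ) : pvfmEdge T pos s a k = T.seg pos (pvasIt T s a k) := rfl

theorem pvfm_zig_eq (t t' : ℕ) : pvfmZig T pos s a t t' = pvfbZig T pos s a t t' := by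
  ext p
  rw [pvfm_mem_zig]
  rfl

theorem pvfm_leg_eq (k : ℕ) : pvfmLeg T pos s a k = pvfbHop T pos s (pvasIt T s a k) := by
  unfold pvfmLeg pvfbHop pvfbLeg
  rw [pvfm_gam_eq, pvfm_gam_eq, pvas_it_succ, pvfb_mid_opp, pvfb_bary_sf (pvas_step_sf s _), segment_symm ℝ (pvfbMid T pos (pvasStep T s (pvasIt T s a k)))]

theorem pvfm_wall_eq (i j : ℕ) : pvfmWall T pos s a i j = pvfbWall T pos s a i j := by
  ext p
  rw [pvfm_mem_wall]
  simp only [pvfm_leg_eq]
  rfl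

/-- (Z) in the vocabulary of `Tr/FitWall` -/
theorem pvfm_fb_zig_arc {t t' : ℕ} (htt : t ≤ t') {μ : ℝ} (hm : ∀ k, t ≤ k → k ≤ t' → ‖pos (T.src (pvasIt T s a k)) - pos (T.tgt (pvasIt T s a k))‖ ≤ 2 * μ) (W : Set ℂ) (L : ℝ)
    {u v : ℂ} (hu : u ∈ T.seg pos (pvasIt T s a t)) (hv : v ∈ T.seg pos (pvasIt T s a t')) :
    PvfrArc (fun k => pvfbMid T pos (pvasIt T s a k)) (pvfbZig T pos s a t t') W μ L t t' u v := by
  rw [← pvfm_zig_eq]
  exact pvfm_zig_arc htt hm W L hu hv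

/-- (W) in the vocabulary of `Tr/FitWall`: NO embedding hypothesis -/
theorem pvfm_fb_wall_near {i j : ℕ} {μ : ℝ} (h1 : ∀ k, i ≤ k → k < j → ‖pos (T.src (pvasIt T s a k)) - pos (T.tgt (pvasIt T s a k))‖ ≤ 2 * μ)
    (h2 : ∀ k, i ≤ k → k < j → ‖pos (T.apex (pvasIt T s a k)) - pos (T.src (pvasIt T s a k))‖ ≤ 2 * μ)
    (h3 : ∀ k, i ≤ k → k < j → ‖pos (T.apex (pvasIt T s a k)) - pos (T.tgt (pvasIt T s a k))‖ ≤ 2 * μ) {p : ℂ} (hp : p ∈ pvfbWall T pos s a i j) :
    ∃ k, (i ≤ k ∧ k ≤ j) ∧ ‖p - pvfbMid T pos (pvasIt T s a k)‖ ≤ μ := by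
  rw [← pvfm_wall_eq] at hp
  exact pvfm_wall_near h1 h2 h3 hp

/-- alias (name of the version ec1a765c24) -/
theorem pvfm_gam_eq_fb : pvfmGam T pos s a = fun k => pvfbMid T pos (pvasIt T s a k) := rfl

/-- alias (name of the version ec1a765c24) -/
theorem pvfm_zig_eq_fb (t t' : ℕ) : pvfmZig T pos s a t t' = pvfbZig T pos s a t t' := pvfm_zig_eq t t'

end bridge

end Claimed.Agent.R289
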