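import Claimed.Agent.R289.Tr.Fit
import Claimed.Agent.R289.Tr.StrandD
import Claimed.Agent.R289.Tr.StKit

/-!
# Row 289 (S0537, Cardy for Poisson-Voronoi), THE WALL, road E, FIT-DET, file Tr/Wit : E19 = THE WITNESS (the actual continuation is off the datum)      (helper179, post of 24; prefix `pvwi_`, `Pvwi`, `pvwi`)

Text: `W1_208_v3.md` E19, `W2_211.md` v2 (objects A, (G'), (W1)).      MAP LEVEL, K-BLIND (serves the faces-`K` of 62 and the thin `K` of 118): `T : PvMap V D` a SPHERE map (= a COMPLETION `𝔅.T Y`, where the rim closes), `s` the actual colouring,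
`c` the black rim CUT AT A FAR VERTEX `src (c.e 0)`, wall `A k := pvasIt T s (pvwiTau c 0) k`, `pvwiTau c l = rotInv (c.e l)` = the RIM TIME `l` = the position in the right triangle of `c.e l`.
* sec. 1  `PvwiPer T s a n` (period = first return), `PvwiPer.add inj ne`, `pvwi_per_exists` (finite wall)
* sec. 2  **`pvwi_clock`**: the wall passes through the rim times `0, 1, …, c.n - 1` IN THIS ORDER in less than a period      (route: `pvt_sf_rim_ex`, `pvt_sf_rim` of 64; no sectors)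
* sec. 3  `pvwi_entrance`, **`pvwi_one_visit`** (one entrance ⟹ one visit per period)
* sec. 4  `pvwi_gate` (`PvwSt.Gate` ⟹ `T.Gate s`, same inside, `aIn = dm`), **`pvwi_one_entrance`** (a strand off `c.Left` has at most ONE entrance into a gate passed by `c`; `pvft_gate_sides` of 118; EITHER orientation bit)
* sec. 5  `PvwiFr T s c n θ` (frame), `pvwi_frame`, `PvwiFr.off`, **`PvwiFr.pass`** (the passage of a gate on the clock)
* sec. 6  `PvwiIn` (what is read of an actual datum), `PvwiTab` (**THE TIME TABLE** `α ≤ u1 < u2 ≤ w1 < w2 ≤ β < n`), **`PvwiFr.table`**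
* sec. 7  **`PvwiTab.off`** = E19 in dart form: at the times `β ≤ k < n + α` the wall is at none of the frozen stub positions, in no right face of `g₀`, in none of the two closed insides `ins` (Tr/Defs v3: `ins = VOf S.Left`; the DISC `core` is a matter of the plane);
          **`PvwiTab.off_s`, `PvwiTab.off_t`** = (G') for ANY actual gate round the entry gate edge inside the box (the outer gates `S₂`)
-/

set_option autoImplicit false
set_option linter.unusedSectionVars false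
set_option linter.unusedVariables false

namespace Claimed.Agent.R289

open Set

variable {V D : Type} {T : PvMap V D} {s : V → Bool}

/-! ## 1. periodic strands -/

/-- `n` is the PERIOD of the strand of the position `a` (first return) -/
structure PvwiPer (T : PvMap V D) (s : V → Bool) (a : D) (n : ℕ) : Prop where
  bw : pvasBW T s a
  pos : 0 < n
  ret : pvasIt T s a n = a
  min : ∀ k, 0 < k → k < n → pvasIt T s a k ≠ a

theorem PvwiPer.add {a : D} {n : ℕ} (h : PvwiPer T s a n) (k : ℕ) : pvasIt T s a (k + n) = pvasIt T s a k := by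
  rw [Nat.add_comm, pvas_it_add, h.ret]

/-- two times less than a period apart carry different positions -/
theorem PvwiPer.inj {a : D} {n : ℕ} (h : PvwiPer T s a n) {i j : ℕ} (hij : i ≤ j) (hj : j < i + n) (e : pvasIt T s a i = pvasIt T s a j) : i = j := by
  by_contra hne
  exact h.min (j - i) (by omega) (by omega) (pvas_it_return h.bw hij e)

theorem PvwiPer.ne {a : D} {n : ℕ} (h : PvwiPer T s a n) {i j : ℕ} (hij : i < j) (hj : j < i + n) : pvasIt T s a i ≠ pvasIt T s a j := fun e => by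
  have := h.inj hij.le hj e
  omega

/-- a finite wall is periodic -/
theorem pvwi_per_exists {a : D} (ha : pvasBW T s a) (hfin : {d | T.Wall s a d}.Finite) : ∃ n, PvwiPer T s a n := by
  classical
  have hb := pvas_step_bw ha
  have hw : T.Wall s (pvasStep T s a) a := by
    have h1 : T.Wall s a (T.opp (pvasStep T s a)) := pl_ra_wall_sf s (pvas_step_sf s a)
    have h2 : T.Wall s (T.opp (pvasStep T s a)) (pvasStep T s a) := by
      refine Relation.ReflTransGen.single (Or.inr ⟨pl_ra_occ_opp (pvas_bw_occ hb), ?_⟩)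
      rw [T.opp_opp]
    exact pl_ra_wall_symm (pl_ra_wall_trans h1 h2)
  obtain ⟨m, hm⟩ := pvt_sf_orbit hb ha hw (hfin.subset fun d hd => pl_ra_wall_trans (pl_ra_wall_symm hw) hd)
  have hex : ∃ k, 0 < k ∧ pvasIt T s a k = a := ⟨m + 1, Nat.succ_pos _, by rw [pvas_it_succ']; exact hm⟩
  refine ⟨Nat.find hex, ha, (Nat.find_spec hex).1, (Nat.find_spec hex).2, fun k h0 hk e => Nat.find_min hex hk ⟨h0, e⟩⟩

/-! ## 2. the clock of a rim -/

/-- the RIM TIME number `l`: the position in the right triangle of the dart `c.e l` -/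
def pvwiTau (c : T.Cyc) (l : ℕ) : D := T.rotInv (c.e l)

theorem pvwi_eqns_cite : True := by
  have := @pvwiTau.eq_1
  trivial

section clock

variable {c : T.Cyc}

theorem pvwi_tau_bw (hr : c.IsRim s) (hb : s (T.src (c.e 0)) = true) (l : ℕ) : pvasBW T s (pvwiTau c l) :=
  pvt_s_rim_bw (pl_rim_tag hr l) (by rw [pl_rim_col hr l 0]; exact hb)

theorem pvwi_tau_src (c : T.Cyc) (l : ℕ) : T.src (pvwiTau c l) = T.src (c.e l) := T.src_rotInv _

/-- the rim time is the only position in the right triangle of `c.e l` -/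
theorem pvwi_tau_face (hr : c.IsRim s) (hb : s (T.src (c.e 0)) = true) {l : ℕ} {d : D} (hd : pvasBW T s d) (h : T.SF d (T.opp (c.e l))) : d = pvwiTau c l :=
  pvas_bw_face (pvwi_tau_bw hr hb l) hd (T.sf_symm (T.sf_trans h (T.sf_nxt _)))

/-- **THE CLOCK**: the strand of the rim time `0` passes through the rim times `0, 1, …, c.n - 1` in this order, in less than a period -/
theorem pvwi_clock (hT : T.IsSph) (hS : T.Simple) (hr : c.IsRim s) (hb : s (T.src (c.e 0)) = true) {n : ℕ} (hp : PvwiPer T s (pvwiTau c 0) n)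
    (hfin : {d | T.Wall s (T.opp (c.e 0)) d}.Finite) :
    ∃ θ : ℕ → ℕ, θ 0 = 0 ∧ (∀ l, θ l < n ∧ pvasIt T s (pvwiTau c 0) (θ l) = pvwiTau c l) ∧ ∀ l l', l < l' → l' < c.n → θ l < θ l' := by
  classical
  have hc : ∀ i, T.Tag s (T.opp (c.e i)) := pl_rim_tag hr
  have hw : ∀ i, T.Wall s (T.opp (c.e 0)) (T.opp (c.e i)) := fun i => (pl_rim_lab hr i).2.2.1
  have hbl : ∀ i, s (T.src (c.e i)) = true := fun i => by rw [pl_rim_col hr i 0]; exact hb
  have H := fun l => pvt_sf_rim_ex c hc hw hbl hfin 0 l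
  choose θ h1 h2 using H
  have hlt : ∀ l, θ l < n := by
    intro l
    by_contra hge
    exact h2 l n hp.pos (by omega) hp.ret
  have h0 : θ 0 = 0 := by
    by_contra hne
    exact hp.min (θ 0) (by omega) (hlt 0) (h1 0)
  refine ⟨θ, h0, fun l => ⟨hlt l, h1 l⟩, fun l l' hll hl' => ?_⟩
  obtain ⟨g1, g2, -⟩ := pvt_sf_rim hT hS c hc hw hbl (i := 0) (j := l') (m := θ l') (by omega) (by omega) (h1 l') (h2 l')
  have hmem := pvt_sf_arc_e_mem s (T.rotInv (c.e 0)) (θ l') (k := l) (by rw [g1]; omega)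
  rw [g2 l (by omega), Nat.zero_add] at hmem
  obtain ⟨k, hk, -, hk2⟩ := pvt_s_bank_mem.1 hmem
  have e : pvasIt T s (pvwiTau c 0) k = pvasIt T s (pvwiTau c 0) (θ l) := by
    show pvasIt T s (T.rotInv (c.e 0)) k = pvasIt T s (T.rotInv (c.e 0)) (θ l)
    rw [h1 l, hk2, T.rotInv_rot]
  rcases Nat.le_total k (θ l) with h | h
  · have := hp.inj h (by have := hlt l; omega) e
    omega
  · have := hp.inj h (by have := hlt l'; omega) e.symm
    omega

end clock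

/-! ## 3. one visit -/

/-- between a time off the face set `A` and a later time in `A` there is an entrance -/
theorem pvwi_entrance {A : Set D} (hA : T.FaceSet A) {a : D} (ha : pvasBW T s a) {p q : ℕ} (hpq : p ≤ q) (hp : pvasIt T s a p ∉ A) (hq : pvasIt T s a q ∈ A) :
    ∃ k, p < k ∧ k ≤ q ∧ pvasIn T A s (pvasIt T s a k) := by
  induction q with
  | zero =>
    rw [Nat.le_zero.1 hpq] at hp
    exact absurd hq hp
  | succ q ih =>
    rcases Nat.lt_or_ge p (q + 1) with h | h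
    · by_cases hq' : pvasIt T s a q ∈ A
      · obtain ⟨k, h1, h2, h3⟩ := ih (by omega) hq'
        exact ⟨k, h1, by omega, h3⟩
      · refine ⟨q + 1, h, le_rfl, hq, ?_, pvas_it_bw ha _⟩
        rw [pvas_it_succ, pvas_step_opp_mem hA]
        exact hq'
    · have : p = q + 1 := by omega
      rw [this] at hp
      exact absurd hq hp

/-- **ONE VISIT**: the strand has only one entrance into `A`; off `A` at the times `p ≤ r`, in `A` at a time `q`, `r < q < p + n`: it is off `A` at all the times of `[p, r]` -/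
theorem pvwi_one_visit {A : Set D} (hA : T.FaceSet A) {a : D} {n : ℕ} (hper : PvwiPer T s a n)
    (hone : ∀ k k', pvasIn T A s (pvasIt T s a k) → pvasIn T A s (pvasIt T s a k') → pvasIt T s a k = pvasIt T s a k')
    {p r q : ℕ} (hpr : p ≤ r) (hrq : r ≤ q) (hq : q < p + n) (h1 : pvasIt T s a p ∉ A) (h2 : pvasIt T s a r ∉ A) (h3 : pvasIt T s a q ∈ A) :
    ∀ k, p ≤ k → k ≤ r → pvasIt T s a k ∉ A := by
  intro k hpk hkr hk
  obtain ⟨k1, a1, a2, a3⟩ := pvwi_entrance hA hper.bw hpk h1 hk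
  obtain ⟨k2, b1, b2, b3⟩ := pvwi_entrance hA hper.bw hrq h2 h3
  exact hper.ne (i := k1) (j := k2) (by omega) (by omega) (hone k1 k2 a3 b3)

/-! ## 4. gates of record: one entrance on the wall of a rim -/

section gate

variable {pos : V → ℂ} {h : ℝ} {z : ℂ} {τ : PvwTy} {𝔖 : PvwSt T}

/-- a gate of record (`Tr/Defs`) is a gate of `Tr/GateB`, with the same inside and the same entrance -/
theorem pvwi_gate (hT : T.IsSph) (hg : 𝔖.Gate pos h z τ s) : ∃ g : T.Gate s, g.c.Left = 𝔖.S.Left ∧ g.aIn = 𝔖.dm := by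
  obtain ⟨i0, hi0⟩ := hg.dm_on
  obtain ⟨i1, hi1⟩ := hg.dp_on
  set c' : T.Cyc := 𝔖.S.shift i0 with hc'
  have hn : c'.n = 𝔖.S.n := rfl
  have he : ∀ i, c'.e i = 𝔖.S.e (i + i0) := fun i => rfl
  have e0 : c'.e 0 = 𝔖.dm := by rw [he, Nat.zero_add, hi0]
  have hnpos := pl_cyc_pos c'
  have hd : ∀ i, c'.e i ∈ 𝔖.S.darts := fun i => ⟨i + i0, rfl⟩
  have hv : ∀ i, T.src (c'.e i) ∈ 𝔖.S.verts := fun i => ⟨i + i0, rfl⟩
  -- the index of `g⁺`
  have hgp : ∃ m, m < c'.n ∧ T.src (c'.e m) = 𝔖.gp := by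
    have h1 : 𝔖.S.e (i1 + 1) ∈ c'.darts := by rw [hc', pl_cyc_shift_darts]; exact ⟨i1 + 1, rfl⟩
    obtain ⟨m, hm⟩ := h1
    refine ⟨m % c'.n, Nat.mod_lt _ hnpos, ?_⟩
    rw [pl_cyc_mod, hm, ← 𝔖.S.chain, hi1, T.tgt_opp]
    rfl
  obtain ⟨m, hm, hmg⟩ := hgp
  have hgm : T.src (c'.e 0) = 𝔖.gm := by rw [e0]; rfl
  have m0 : m ≠ 0 := by
    rintro rfl
    exact hg.ne (hmg.symm.trans hgm)
  have m1 : m ≠ 1 := by
    rintro rfl
    have h1 : T.src (c'.e 1) = T.tgt 𝔖.dm := by rw [← e0, c'.chain]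
    have h2 := hg.bw_m.2
    rw [← h1, hmg] at h2
    have h3 : s 𝔖.gp = true := hg.bw_p.1
    rw [h2] at h3
    exact Bool.noConfusion h3
  have m2 : m + 1 ≠ c'.n := by
    intro hmn
    have h1 := hg.left (c'.e m) (hd m) hmg
    rw [c'.chain, hmn, show c'.n = 0 + c'.n by omega, c'.per, hgm] at h1
    have h3 : s 𝔖.gm = true := hg.bw_m.1
    rw [h1] at h3
    exact Bool.noConfusion h3
  refine ⟨⟨c', m, by omega, by omega, fun i hi => ⟨fun hb => ?_, ?_⟩⟩, (pl_shift_left hT 𝔖.S i0).1, e0⟩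
  · rcases hg.two _ (hv i) hb with h1 | h1
    · right; exact c'.inj i m hi hm (h1.trans hmg.symm)
    · left; exact c'.inj i 0 hi hnpos (h1.trans hgm.symm)
  · rintro (rfl | rfl)
    · rw [hgm]; exact hg.bw_m.1
    · rw [hmg]; exact hg.bw_p.1

/-- **ONE ENTRANCE**: a strand which runs off `c.Left` (`c` a black circuit through the gate) has at most one entrance into the gate -/
theorem pvwi_one_entrance (hT : T.IsSph) (hg : 𝔖.Gate pos h z τ s) {c : T.Cyc} (hc : ∀ i, s (T.src (c.e i)) = true) {i j : ℕ} (hi : c.e i ∈ 𝔖.S.Left) (hj : c.e j ∉ 𝔖.S.Left)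
    {d d' : D} (hd : pvasIn T 𝔖.S.Left s d) (hd' : pvasIn T 𝔖.S.Left s d') (h1 : d ∉ c.Left) (h2 : d' ∉ c.Left) : d = d' := by
  obtain ⟨g, hL, -⟩ := pvwi_gate hT hg
  rw [← hL] at hi hj hd hd'
  have key : g.aIn ∉ c.Left → g.bIn ∈ c.Left := pvft_gate_sides hT g hc hi hj
  rcases (pvtg_in_iff hT g d).1 hd with rfl | rfl <;> rcases (pvtg_in_iff hT g d').1 hd' with rfl | rfl
  · rfl
  · exact absurd (key h1) h2
  · exact absurd (key h2) h1
  · rfl

end gate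

/-! ## 5. the frame; the passage of a gate on the clock -/

/-- **THE FRAME**: a black rim `c` of a finite wall of a sphere map, the period `n` of its wall (base point = the rim time `0`), its clock `θ` -/
structure PvwiFr (T : PvMap V D) (s : V → Bool) (c : T.Cyc) (n : ℕ) (θ : ℕ → ℕ) : Prop where
  sph : T.IsSph
  simple : T.Simple
  rim : c.IsRim s
  black : s (T.src (c.e 0)) = true
  per : PvwiPer T s (pvwiTau c 0) n
  th0 : θ 0 = 0
  th : ∀ l, θ l < n ∧ pvasIt T s (pvwiTau c 0) (θ l) = pvwiTau c l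
  mono : ∀ l l', l < l' → l' < c.n → θ l < θ l'

theorem pvwi_frame (hT : T.IsSph) (hS : T.Simple) {c : T.Cyc} (hr : c.IsRim s) (hb : s (T.src (c.e 0)) = true) (hfin : {d | T.Wall s (T.opp (c.e 0)) d}.Finite) :
    ∃ n θ, PvwiFr T s c n θ := by
  have hw : T.Wall s (T.opp (c.e 0)) (pvwiTau c 0) := pl_ra_wall_sf s (T.sf_nxt _)
  obtain ⟨n, hn⟩ := pvwi_per_exists (pvwi_tau_bw hr hb 0) (hfin.subset fun d hd => pl_ra_wall_trans hw hd)
  obtain ⟨θ, h0, h1, h2⟩ := pvwi_clock hT hS hr hb hn hfin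
  exact ⟨n, θ, hT, hS, hr, hb, hn, h0, h1, h2⟩

section pass

variable {c : T.Cyc} {n : ℕ} {θ : ℕ → ℕ}

theorem PvwiFr.col (F : PvwiFr T s c n θ) (i : ℕ) : s (T.src (c.e i)) = true := by rw [pl_rim_col F.rim i 0]; exact F.black

theorem PvwiFr.bw (F : PvwiFr T s c n θ) (k : ℕ) : pvasBW T s (pvasIt T s (pvwiTau c 0) k) := pvas_it_bw F.per.bw k

/-- the wall runs on the right of the rim -/
theorem PvwiFr.off (F : PvwiFr T s c n θ) (k : ℕ) : pvasIt T s (pvwiTau c 0) k ∉ c.Left :=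
  pvft_off_left F.sph F.col F.per.bw (t := 0) (i := 0) (T.sf_nxt _) k

/-- equal positions at two times `< n` -/
theorem PvwiFr.time_eq (F : PvwiFr T s c n θ) {i j : ℕ} (hi : i < n) (hj : j < n) (e : pvasIt T s (pvwiTau c 0) i = pvasIt T s (pvwiTau c 0) j) : i = j := by
  rcases Nat.le_total i j with h | h
  · exact F.per.inj h (by omega) e
  · exact (F.per.inj h (by omega) e.symm).symm

variable {pos : V → ℂ} {h : ℝ} {z : ℂ} {τ : PvwTy} {𝔖 : PvwSt T}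

/-- **THE PASSAGE OF A GATE ON THE CLOCK**: the rim runs along the inner arc of the gate from its index `J` on, the base vertex of the rim is not in the closed inside `ins` -/
theorem PvwiFr.pass (F : PvwiFr T s c n θ) (hg : 𝔖.Gate pos h z τ s) {J : ℕ} (hrun : ∀ i, i < 𝔖.inn.n → c.e (J + i) = 𝔖.inn.e i) (h0 : T.src (c.e 0) ∉ 𝔖.ins) :
    ∃ Tm ns, Tm + ns < n ∧ pvasIt T s (pvwiTau c 0) Tm = 𝔖.dm ∧ pvasIt T s (pvwiTau c 0) (Tm + ns) = 𝔖.dp ∧ (∀ i, i < ns → pvasIt T s (pvwiTau c 0) (Tm + i) ∈ 𝔖.S.Left) ∧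
      0 < 𝔖.inn.n ∧ ∀ k, k < 𝔖.inn.n → Tm ≤ θ (J + k) ∧ θ (J + k) < Tm + ns := by
  obtain ⟨ns, h1, h2, hLE⟩ := hg.strand
  have hS := F.simple
  have hLf := pl_left_face 𝔖.S
  have hbase : ∀ d ∈ 𝔖.S.Left, d ≠ pvwiTau c 0 := by
    rintro d hd rfl
    exact h0 ⟨_, hd, pvwi_tau_src c 0⟩
  have hinn : 0 < 𝔖.inn.n := by
    by_contra hz
    have hz' : 𝔖.inn.n = 0 := by omega
    have e1 := pvt_sd_v0 hLE
    have e2 := pvt_sd_vn hLE
    rw [hz', e1, h1] at e2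
    exact hg.ne e2.symm
  -- the time of every dart of the inner arc
  have htime : ∀ k, k < 𝔖.inn.n → ∃ u, u < ns ∧ pvasIt T s 𝔖.dm u = pvwiTau c (J + k) := by
    intro k hk
    obtain ⟨u, hu, -, hu2⟩ := pvt_sd_time hS hLE hk
    refine ⟨u, hu, ?_⟩
    unfold pvwiTau
    rw [hrun k hk, hu2, T.rotInv_rot]
  obtain ⟨u, hu, hu2⟩ := htime 0 hinn
  rw [Nat.add_zero] at hu2
  have hle : u ≤ θ J := by
    by_contra hlt
    have e : pvasIt T s (pvasIt T s 𝔖.dm (u - θ J)) (θ J) = pvasIt T s (pvwiTau c 0) (θ J) := by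
      rw [← pvas_it_add, Nat.sub_add_cancel (by omega), hu2, (F.th J).2]
    exact hbase _ (h2 (u - θ J) (by omega)) (pvas_it_cancel (pvas_it_bw hg.bw_m _) F.per.bw _ e)
  have hTm : pvasIt T s (pvwiTau c 0) (θ J - u) = 𝔖.dm := by
    have e : pvasIt T s (pvasIt T s (pvwiTau c 0) (θ J - u)) u = pvasIt T s 𝔖.dm u := by
      rw [← pvas_it_add, Nat.sub_add_cancel hle, hu2, (F.th J).2]
    exact pvas_it_cancel (F.bw _) hg.bw_m _ e
  have hit : ∀ i, pvasIt T s (pvwiTau c 0) (θ J - u + i) = pvasIt T s 𝔖.dm i := fun i => by rw [pvas_it_add, hTm]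
  have hlt : θ J - u + ns < n := by
    by_contra hge
    have hJ := (F.th J).1
    have e : pvasIt T s 𝔖.dm (n - (θ J - u)) = pvwiTau c 0 := by
      rw [← hit, Nat.add_sub_cancel' (by omega), F.per.ret]
    rcases Nat.lt_or_ge (n - (θ J - u)) ns with h3 | h3
    · exact hbase _ (h2 _ h3) e
    · have h4 : n - (θ J - u) = ns := by omega
      rw [h4, h1] at e
      apply h0
      rw [← pvwi_tau_src c 0, ← e]
      exact (pvwk_gate_ends F.sph hg).1
  refine ⟨θ J - u, ns, hlt, hTm, by rw [hit, h1], fun i hi => by rw [hit]; exact h2 i hi, hinn, fun k hk => ?_⟩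
  obtain ⟨w, hw, hw2⟩ := htime k hk
  have e : θ J - u + w = θ (J + k) := F.time_eq (by omega) (F.th _).1 (by rw [hit, hw2, (F.th _).2])
  omega

end pass

/-! ## 6. the time table of an actual datum -/

/-- **WHAT THE WITNESS READS OF AN ACTUAL DATUM** (map level; `Bs`, `Bt` = the boxes of the two pins).      The rim is cut at the FAR vertex `src (c.e 0)`: no wrap-around. -/
structure PvwiIn (T : PvMap V D) (pos : V → ℂ) (h : ℝ) (s : V → Bool) (c : T.Cyc) (j : ℕ) (𝔇 : PvwDat T) (zs zt : ℂ) (τs τt : PvwTy) (Bs Bt : Set ℂ) : Prop where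
  gate_s : 𝔇.s.Gate pos h zs τs s
  gate_t : 𝔇.t.Gate pos h zt τt s
  stub_s : 𝔇.s.StubM pos Bs s
  stub_t : 𝔇.t.StubP pos Bt s
  run_s : ∀ i, i < 𝔇.s.inn.n → c.e (j + i) = 𝔇.s.inn.e i
  arc : ∀ i, i < 𝔇.g.n → c.e (j + 𝔇.s.inn.n + i) = 𝔇.g.e i
  run_t : ∀ i, i < 𝔇.t.inn.n → c.e (j + 𝔇.s.inn.n + 𝔇.g.n + i) = 𝔇.t.inn.e i
  short : j + 𝔇.s.inn.n + 𝔇.g.n + 𝔇.t.inn.n < c.n
  ins_s : ∀ v ∈ 𝔇.s.ins, pos v ∈ Bs
  ins_t : ∀ v ∈ 𝔇.t.ins, pos v ∈ Bt
  disj : Disjoint Bs Bt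
  far_s : pos (T.src (c.e 0)) ∉ Bs
  far_t : pos (T.src (c.e 0)) ∉ Bt

/-- **THE TIME TABLE** of the wall `A k = pvasIt T s (pvwiTau c 0) k` of the rim:
`α` tip of `Σ⁻(s)`,  `u1 = α + nm` entry gate edge of `s`,  `u2` exit gate edge of `s`,  `w1` entry gate edge of `t`,  `w2` exit gate edge of `t`,  `β = w2 + np` tip of `Σ⁺(t)`;      `α ≤ u1 < u2 ≤ w1 < w2 ≤ β < n`.
THE CONTINUATION = the times `[β, n + α)` (it passes through the far base point at the time `n`). -/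
structure PvwiTab (T : PvMap V D) (s : V → Bool) (c : T.Cyc) (n : ℕ) (θ : ℕ → ℕ) (j : ℕ) (𝔇 : PvwDat T) (u1 u2 w1 w2 : ℕ) : Prop where
  nm_le : 𝔇.s.nm ≤ u1
  u12 : u1 < u2
  uw : u2 ≤ w1
  w12 : w1 < w2
  np_lt : w2 + 𝔇.t.np < n
  dm_s : pvasIt T s (pvwiTau c 0) u1 = 𝔇.s.dm
  dp_s : pvasIt T s (pvwiTau c 0) u2 = 𝔇.s.dp
  dm_t : pvasIt T s (pvwiTau c 0) w1 = 𝔇.t.dm
  dp_t : pvasIt T s (pvwiTau c 0) w2 = 𝔇.t.dp
  in_s : ∀ k, u1 ≤ k → k < u2 → pvasIt T s (pvwiTau c 0) k ∈ 𝔇.s.S.Left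
  in_t : ∀ k, w1 ≤ k → k < w2 → pvasIt T s (pvwiTau c 0) k ∈ 𝔇.t.S.Left
  em : ∀ i, i ≤ 𝔇.s.nm → 𝔇.s.em i = pvasIt T s (pvwiTau c 0) (u1 - i)
  ep : ∀ i, i ≤ 𝔇.t.np → 𝔇.t.ep i = pvasIt T s (pvwiTau c 0) (w2 + i)
  /-- the rim times of the arc `g⁻(s) → g⁺(t)` -/
  rim_s : ∀ i, i < 𝔇.s.inn.n → u1 ≤ θ (j + i) ∧ θ (j + i) < u2
  rim_g : ∀ i, i < 𝔇.g.n → u1 < θ (j + 𝔇.s.inn.n + i) ∧ θ (j + 𝔇.s.inn.n + i) < w2
  rim_t : ∀ i, i < 𝔇.t.inn.n → w1 ≤ θ (j + 𝔇.s.inn.n + 𝔇.g.n + i) ∧ θ (j + 𝔇.s.inn.n + 𝔇.g.n + i) < w2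

section table

variable {c : T.Cyc} {n : ℕ} {θ : ℕ → ℕ} {pos : V → ℂ} {h : ℝ} {j : ℕ} {𝔇 : PvwDat T} {zs zt : ℂ} {τs τt : PvwTy} {Bs Bt : Set ℂ}

theorem PvwiIn.base_s (I : PvwiIn T pos h s c j 𝔇 zs zt τs τt Bs Bt) : T.src (c.e 0) ∉ 𝔇.s.ins := fun hv => I.far_s (I.ins_s _ hv)

theorem PvwiIn.base_t (I : PvwiIn T pos h s c j 𝔇 zs zt τs τt Bs Bt) : T.src (c.e 0) ∉ 𝔇.t.ins := fun hv => I.far_t (I.ins_t _ hv)

/-- **THE TIME TABLE EXISTS** -/
theorem PvwiFr.table (F : PvwiFr T s c n θ) (I : PvwiIn T pos h s c j 𝔇 zs zt τs τt Bs Bt) : ∃ u1 u2 w1 w2, PvwiTab T s c n θ j 𝔇 u1 u2 w1 w2 := by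
  obtain ⟨u1, ns, a1, a2, a3, a4, a5, a6⟩ := F.pass I.gate_s I.run_s I.base_s
  obtain ⟨w1, nt, b1, b2, b3, b4, b5, b6⟩ := F.pass I.gate_t I.run_t I.base_t
  have hsh := I.short
  have hns : 0 < ns := by
    have := a6 0 a5
    omega
  have hnt : 0 < nt := by
    have := b6 0 b5
    omega
  -- the two passages are disjoint in time
  have hdis : ∀ k, u1 ≤ k → k < u1 + ns → w1 ≤ k → k < w1 + nt → False := by
    intro k h1 h2 h3 h4
    have e1 := a4 (k - u1) (by omega)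
    have e2 := b4 (k - w1) (by omega)
    rw [Nat.add_sub_cancel' h1] at e1
    rw [Nat.add_sub_cancel' h3] at e2
    exact Set.disjoint_left.1 I.disj (I.ins_s _ ⟨_, e1, rfl⟩) (I.ins_t _ ⟨_, e2, rfl⟩)
  have hord : θ (j + (𝔇.s.inn.n - 1)) < θ (j + 𝔇.s.inn.n + 𝔇.g.n + 0) := F.mono _ _ (by omega) (by omega)
  have huw : u1 + ns ≤ w1 := by
    by_contra hlt
    have c1 := a6 (𝔇.s.inn.n - 1) (by omega)
    have c2 := b6 0 b5
    rcases Nat.lt_or_ge w1 u1 with h1 | h1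
    · -- `w1 < u1`: then `u1 < w1 + nt`
      exact hdis u1 le_rfl (by omega) h1.le (by omega)
    · exact hdis w1 h1 (by omega) le_rfl (by omega)
  -- the stubs
  have hep : ∀ i, i ≤ 𝔇.t.np → 𝔇.t.ep i = pvasIt T s (pvwiTau c 0) (w1 + nt + i) := fun i hi => by rw [I.stub_t.ep_it i hi, pvas_it_add, b3]
  have hnp : w1 + nt + 𝔇.t.np < n := by
    by_contra hge
    have e := hep (n - (w1 + nt)) (by omega)
    rw [Nat.add_sub_cancel' (by omega), F.per.ret] at e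
    apply I.far_t
    rw [← pvwi_tau_src c 0, ← e]
    exact (I.stub_t.ep_in _ (by omega)).1
  have hback : ∀ i, i ≤ u1 → (pvasBack T s)^[i] 𝔇.s.dm = pvasIt T s (pvwiTau c 0) (u1 - i) := by
    intro i
    induction i with
    | zero => intro _; rw [Function.iterate_zero, id, Nat.sub_zero, a2]
    | succ i ih =>
      intro hi
      rw [Function.iterate_succ_apply', ih (by omega), show u1 - i = (u1 - (i + 1)) + 1 by omega, pvas_it_back F.per.bw]
  have hnm : 𝔇.s.nm ≤ u1 := by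
    by_contra hlt
    have e := I.stub_s.em_it u1 (by omega)
    rw [hback u1 le_rfl, Nat.sub_self] at e
    apply I.far_s
    rw [← pvwi_tau_src c 0]
    have := (I.stub_s.em_in u1 (by omega)).1
    rwa [e] at this
  refine ⟨u1, u1 + ns, w1, w1 + nt, hnm, by omega, huw, by omega, hnp, a2, a3, b2, b3, fun k h1 h2 => ?_, fun k h1 h2 => ?_,
    fun i hi => by rw [I.stub_s.em_it i hi, hback i (by omega)], hep, a6, fun i hi => ?_, b6⟩
  · have := a4 (k - u1) (by omega)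
    rwa [Nat.add_sub_cancel' h1] at this
  · have := b4 (k - w1) (by omega)
    rwa [Nat.add_sub_cancel' h1] at this
  · have c1 := a6 0 a5
    have c2 := b6 0 b5
    have d1 : θ (j + 0) < θ (j + 𝔇.s.inn.n + i) := F.mono _ _ (by omega) (by omega)
    have d2 : θ (j + 𝔇.s.inn.n + i) < θ (j + 𝔇.s.inn.n + 𝔇.g.n + 0) := F.mono _ _ (by omega) (by omega)
    omega

end table

/-! ## 7. the continuation is off the datum -/

section off

variable {pos : V → ℂ} {h : ℝ}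

/-- a dart of a gate with a black source has a white target -/
theorem pvwi_gate_no_bb {z : ℂ} {τ : PvwTy} {𝔖 : PvwSt T} (hg : 𝔖.Gate pos h z τ s) {e : D} (he : e ∈ 𝔖.S.darts) (h1 : s (T.src e) = true) : s (T.tgt e) = false := by
  obtain ⟨i, rfl⟩ := he
  rcases hg.two _ ⟨i, rfl⟩ h1 with h2 | h2
  · exact hg.left _ ⟨i, rfl⟩ h2
  · obtain ⟨i0, hi0⟩ := hg.dm_on
    have e1 : T.src (𝔖.S.e i) = T.src (𝔖.S.e i0) := by rw [h2, hi0]; rfl
    rw [pl_cyc_eq_of_mod 𝔖.S (pl_cyc_src_inj 𝔖.S e1), hi0]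
    exact hg.bw_m.2

/-- an edge with two black ends does not lie on a gate -/
theorem pvwi_gate_bb (hT : T.IsSph) {z : ℂ} {τ : PvwTy} {𝔖 : PvwSt T} (hg : 𝔖.Gate pos h z τ s) {d : D} (h1 : s (T.src d) = true) (h2 : s (T.tgt d) = true) :
    d ∈ 𝔖.S.Left ↔ T.opp d ∈ 𝔖.S.Left := by
  by_contra hb
  rcases ((pl_jordan hT 𝔖.S).2.2.2 d).1 hb with he | he
  · rw [pvwi_gate_no_bb hg he h1] at h2
    exact Bool.noConfusion h2
  · have := pvwi_gate_no_bb hg he (by rw [T.src_opp']; exact h2)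
    rw [T.tgt_opp, h1] at this
    exact Bool.noConfusion this

variable {c : T.Cyc} {n : ℕ} {θ : ℕ → ℕ} {j : ℕ} {𝔇 : PvwDat T} {zs zt : ℂ} {τs τt : PvwTy} {Bs Bt : Set ℂ} {u1 u2 w1 w2 : ℕ}

/-- a rim dart whose rim time lies in a gate lies in the gate -/
theorem PvwiFr.rim_in (F : PvwiFr T s c n θ) {z : ℂ} {τ : PvwTy} {𝔖 : PvwSt T} (hg : 𝔖.Gate pos h z τ s) {l : ℕ} (hl : pvwiTau c l ∈ 𝔖.S.Left) : c.e l ∈ 𝔖.S.Left := by
  have h1 : T.opp (c.e l) ∈ 𝔖.S.Left := (pl_left_face 𝔖.S _).1 hl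
  exact (pvwi_gate_bb F.sph hg (F.col l) (by rw [c.chain]; exact F.col _)).2 h1

/-- **CORE-FREE ROUND `s`**: a gate `𝔊` of the actual colouring inside the box of `s`, round the entry gate edge of `s` (the gate of `s` itself, the outer actual gate `S₂(s)`): the wall is outside from the time `w1` up to the end of the continuation -/
theorem PvwiTab.off_s (Tb : PvwiTab T s c n θ j 𝔇 u1 u2 w1 w2) (F : PvwiFr T s c n θ) (I : PvwiIn T pos h s c j 𝔇 zs zt τs τt Bs Bt)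
    {𝔊 : PvwSt T} {z' : ℂ} {τ' : PvwTy} (hG : 𝔊.Gate pos h z' τ' s) (hB : ∀ v ∈ 𝔊.ins, pos v ∈ Bs) (hdm : 𝔇.s.dm ∈ 𝔊.S.Left) {i : ℕ} (hi : c.e i ∈ 𝔊.S.Left) :
    ∀ k, w1 ≤ k → k < n + (u1 - 𝔇.s.nm) → pvasIt T s (pvwiTau c 0) k ∉ 𝔊.S.Left := by
  have hA := pl_left_face 𝔊.S
  have t1 := Tb.nm_le; have t2 := Tb.u12; have t3 := Tb.uw; have t4 := Tb.w12; have t5 := Tb.np_lt
  have hj : c.e 0 ∉ 𝔊.S.Left := fun hm => I.far_s (hB _ ⟨_, hm, rfl⟩)
  have hone : ∀ k k', pvasIn T 𝔊.S.Left s (pvasIt T s (pvwiTau c 0) k) → pvasIn T 𝔊.S.Left s (pvasIt T s (pvwiTau c 0) k') →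
      pvasIt T s (pvwiTau c 0) k = pvasIt T s (pvwiTau c 0) k' := fun k k' a b => pvwi_one_entrance F.sph hG F.col hi hj a b (F.off k) (F.off k')
  have h1 : pvasIt T s (pvwiTau c 0) w1 ∉ 𝔊.S.Left := by
    rw [Tb.dm_t]
    intro hm
    exact Set.disjoint_left.1 I.disj (hB _ ⟨_, hm, rfl⟩) (I.ins_t _ (pvwk_gate_ends F.sph I.gate_t).2.2.1)
  have h2 : pvasIt T s (pvwiTau c 0) (n + (u1 - 𝔇.s.nm) - 1) ∉ 𝔊.S.Left := by
    intro hm
    rw [← pvas_step_opp_mem hA s, ← pvas_it_succ, show n + (u1 - 𝔇.s.nm) - 1 + 1 = (u1 - 𝔇.s.nm) + n by omega, F.per.add, ← Tb.em _ le_rfl] at hm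
    exact I.stub_s.em_out (hB _ (pvwk_vof hA hm).2.2)
  have h3 : pvasIt T s (pvwiTau c 0) (n + u1) ∈ 𝔊.S.Left := by
    rw [Nat.add_comm, F.per.add, Tb.dm_s]
    exact hdm
  intro k hk1 hk2
  exact pvwi_one_visit hA F.per hone (p := w1) (r := n + (u1 - 𝔇.s.nm) - 1) (q := n + u1) (by omega) (by omega) (by omega) h1 h2 h3 k hk1 (by omega)

/-- **CORE-FREE ROUND `t`**: a gate `𝔊` of the actual colouring inside the box of `t`, round the entry gate edge of `t`: the wall is outside from the tip of `Σ⁺(t)` up to its return to the entry gate edge of `s` -/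
theorem PvwiTab.off_t (Tb : PvwiTab T s c n θ j 𝔇 u1 u2 w1 w2) (F : PvwiFr T s c n θ) (I : PvwiIn T pos h s c j 𝔇 zs zt τs τt Bs Bt)
    {𝔊 : PvwSt T} {z' : ℂ} {τ' : PvwTy} (hG : 𝔊.Gate pos h z' τ' s) (hB : ∀ v ∈ 𝔊.ins, pos v ∈ Bt) (hdm : 𝔇.t.dm ∈ 𝔊.S.Left) {i : ℕ} (hi : c.e i ∈ 𝔊.S.Left) :
    ∀ k, w2 + 𝔇.t.np ≤ k → k ≤ n + u1 → pvasIt T s (pvwiTau c 0) k ∉ 𝔊.S.Left := by
  have hA := pl_left_face 𝔊.S
  have t1 := Tb.nm_le; have t2 := Tb.u12; have t3 := Tb.uw; have t4 := Tb.w12; have t5 := Tb.np_lt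
  have hj : c.e 0 ∉ 𝔊.S.Left := fun hm => I.far_t (hB _ ⟨_, hm, rfl⟩)
  have hone : ∀ k k', pvasIn T 𝔊.S.Left s (pvasIt T s (pvwiTau c 0) k) → pvasIn T 𝔊.S.Left s (pvasIt T s (pvwiTau c 0) k') →
      pvasIt T s (pvwiTau c 0) k = pvasIt T s (pvwiTau c 0) k' := fun k k' a b => pvwi_one_entrance F.sph hG F.col hi hj a b (F.off k) (F.off k')
  have h1 : pvasIt T s (pvwiTau c 0) (w2 + 𝔇.t.np) ∉ 𝔊.S.Left := by
    rw [← Tb.ep _ le_rfl]
    intro hm
    exact I.stub_t.ep_out (hB _ (pvwk_vof hA hm).2.2)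
  have h2 : pvasIt T s (pvwiTau c 0) (n + u1) ∉ 𝔊.S.Left := by
    rw [Nat.add_comm, F.per.add, Tb.dm_s]
    intro hm
    exact Set.disjoint_left.1 I.disj (I.ins_s _ (pvwk_gate_ends F.sph I.gate_s).2.2.1) (hB _ ⟨_, hm, rfl⟩)
  have h3 : pvasIt T s (pvwiTau c 0) (n + w1) ∈ 𝔊.S.Left := by
    rw [Nat.add_comm, F.per.add, Tb.dm_t]
    exact hdm
  intro k hk1 hk2
  exact pvwi_one_visit hA F.per hone (p := w2 + 𝔇.t.np) (r := n + u1) (q := n + w1) (by omega) (by omega) (by omega) h1 h2 h3 k hk1 hk2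

/-- **E19, DART FORM: THE CONTINUATION IS OFF THE DATUM.**      At the times `β = w2 + np ≤ k < n + α`, `α = u1 - nm`, the position of the wall is none of the frozen positions of the two stubs, its face is no right face of `g₀` and lies in none of the two closed insides. -/
theorem PvwiTab.off (Tb : PvwiTab T s c n θ j 𝔇 u1 u2 w1 w2) (F : PvwiFr T s c n θ) (I : PvwiIn T pos h s c j 𝔇 zs zt τs τt Bs Bt)
    {k : ℕ} (hk1 : w2 + 𝔇.t.np ≤ k) (hk2 : k < n + (u1 - 𝔇.s.nm)) :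
    (∀ i, i < 𝔇.t.np → pvasIt T s (pvwiTau c 0) k ≠ 𝔇.t.ep i) ∧ (∀ i, i ≤ 𝔇.s.nm → pvasIt T s (pvwiTau c 0) k ≠ 𝔇.s.em i) ∧
      (∀ i, i < 𝔇.g.n → ¬ T.SF (pvasIt T s (pvwiTau c 0) k) (T.opp (𝔇.g.e i))) ∧ pvasIt T s (pvwiTau c 0) k ∉ 𝔇.s.S.Left ∧ pvasIt T s (pvwiTau c 0) k ∉ 𝔇.t.S.Left := by
  have t1 := Tb.nm_le; have t2 := Tb.u12; have t3 := Tb.uw; have t4 := Tb.w12; have t5 := Tb.np_lt
  have hLs := (pl_jordan F.sph 𝔇.s.S).2.1
  have hLt := (pl_jordan F.sph 𝔇.t.S).2.1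
  have hs0 : 0 < 𝔇.s.inn.n := by
    by_contra hz
    obtain ⟨ns, h1, -, hLE⟩ := I.gate_s.strand
    have e2 := pvt_sd_vn hLE
    rw [show 𝔇.s.inn.n = 0 by omega, pvt_sd_v0 hLE, h1] at e2
    exact I.gate_s.ne e2.symm
  have ht0 : 0 < 𝔇.t.inn.n := by
    by_contra hz
    obtain ⟨ns, h1, -, hLE⟩ := I.gate_t.strand
    have e2 := pvt_sd_vn hLE
    rw [show 𝔇.t.inn.n = 0 by omega, pvt_sd_v0 hLE, h1] at e2
    exact I.gate_t.ne e2.symm
  refine ⟨fun i hi e => ?_, fun i hi e => ?_, fun i hi hsf => ?_, ?_, ?_⟩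
  · rw [Tb.ep i hi.le] at e
    exact F.per.ne (i := w2 + i) (j := k) (by omega) (by omega) e.symm
  · rw [Tb.em i hi, ← F.per.add (u1 - i)] at e
    exact F.per.ne (i := k) (j := u1 - i + n) (by omega) (by omega) e
  · rw [← I.arc i hi] at hsf
    have e := pvwi_tau_face F.rim F.black (F.bw k) hsf
    rw [← (F.th (j + 𝔇.s.inn.n + i)).2] at e
    have := Tb.rim_g i hi
    exact F.per.ne (i := θ (j + 𝔇.s.inn.n + i)) (j := k) (by omega) (by omega) e.symm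
  · obtain ⟨i0, hi0⟩ := I.gate_s.dm_on
    have hin : pvwiTau c (j + 0) ∈ 𝔇.s.S.Left := by
      have := Tb.rim_s 0 hs0
      rw [← (F.th _).2]
      exact Tb.in_s _ this.1 this.2
    exact Tb.off_s F I I.gate_s I.ins_s (hi0 ▸ hLs i0) (F.rim_in I.gate_s hin) k (by omega) hk2
  · obtain ⟨i0, hi0⟩ := I.gate_t.dm_on
    have hin : pvwiTau c (j + 𝔇.s.inn.n + 𝔇.g.n + 0) ∈ 𝔇.t.S.Left := by
      have := Tb.rim_t 0 ht0
      rw [← (F.th _).2]
      exact Tb.in_t _ this.1 this.2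
    exact Tb.off_t F I I.gate_t I.ins_t (hi0 ▸ hLt i0) (F.rim_in I.gate_t hin) k hk1 (by omega)

end off

end Claimed.Agent.R289
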