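-- KEEP
import Claimed.Agent.R289.Tr.FitRim
import Claimed.Agent.R289.Tr.FitTime
import Claimed.Agent.R289.Tr.FitRoof
import Claimed.Agent.R289.Tr.StKit
import Claimed.Agent.R289.Tr.Wit

/-!
# Row 289 (S0537, Cardy for Poisson-Voronoi), unit TR, R-G / TR19 FIT-DET, Tr/FitDat : THE INSTANCE OF `PvfrArc` FOR A DATUM      (owner helper10; word of helper19 + helper151, 10:33Z; prefix `pvfi_d`, defs `PvfiD…`, `pvfiD…`)

ONE strand `a_k = pvasIt T σ a0 k` (linear times, no period: T1 of helper131), `γ = pvfmGam T pos σ a0` (helper257), `a_ts` = the tip position `em nm` of `Σ⁻(s)`.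

* §1 `PvfiDPre` = what the instance reads of a datum (two gates, `Σ⁻(s)`, `Σ⁺(t)`, the rim through `inn(s) . g₀ . inn(t)`);   `pvfi_d_of_pre` (from `PvfyPre` of helper62), `pvfi_d_of_actual` (from `Ok` + `Actual` of `Tr/Defs`).
* §2 THE TIMETABLE `PvfiDTab`: `ts ≤ ts + nm ≤ t0 ≤ t0 + m ≤ t3 ≤ t3 + np`;   **`pvfi_d_table`** (existence).
* §3 closed faces, the disc of a gate `pvfiDisc` (preconnected), its marked points.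
* §4 **`pvfi_d_arc_e`** : `K` = zigzag of `Σ⁻(s)` ∪ disc(s) ∪ trace of `g₀` ∪ disc(t) ∪ zigzag of `Σ⁺(t)`.
* §5 **`pvfi_d_arc_f`** : `K = 𝔇.pvfyK pos` of helper62 (the closed frozen FACES).
* §6 ANY PLACE FUNCTION `γ k = φ (a_k)` (**`pvfi_g_arc_f`**), BLACK ENDS `γ k = pos (src a_k)` (**`pvfi_b_arc_f`**, thinness `2 μ`): nothing is read off the frozen faces.
* §7 ON THE CLOCK OF RECORD of helper179 (`Tr/Wit`): `pvfi_d_of_wit`, `pvfi_d_tab_of_wit`, **`pvfi_b_arc_wit`** = the field `arc` of `PvaccScene` (helper211).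
-/

set_option autoImplicit false
set_option linter.unusedSectionVars false
set_option linter.unusedVariables false
set_option linter.unusedSimpArgs false

namespace Claimed.Agent.R289

open Relation

variable {V D : Type} {T : PvMap V D}

/-! ## §1 what the instance reads -/

/-- what the instance reads of a datum `𝔇`, of the colouring `σ`, of the rim `c` (`j` = the place of `g⁻(s)` on `c`) -/
structure PvfiDPre (T : PvMap V D) (pos : V → ℂ) (h : ℝ) (zs zt : ℂ) (τs τt : PvwTy) (Bs Bt : Set ℂ) (σ : V → Bool) (c : T.Cyc) (j : ℕ) (𝔇 : PvwDat T) : Prop where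
  gate_s : 𝔇.s.Gate pos h zs τs σ
  gate_t : 𝔇.t.Gate pos h zt τt σ
  stub_s : 𝔇.s.StubM pos Bs σ
  stub_t : 𝔇.t.StubP pos Bt σ
  rim : c.IsRim σ
  black : σ (T.src (c.e 0)) = true
  run_s : ∀ i, i < 𝔇.s.inn.n → c.e (j + i) = 𝔇.s.inn.e i
  arc : ∀ i, i < 𝔇.g.n → c.e (j + 𝔇.s.inn.n + i) = 𝔇.g.e i
  run_t : ∀ i, i < 𝔇.t.inn.n → c.e (j + 𝔇.s.inn.n + 𝔇.g.n + i) = 𝔇.t.inn.e i
  pos_n : 0 < 𝔇.g.n

section pre

variable {pos : V → ℂ} {N : PvwNum} {h : ℝ} {zs zt : ℂ} {τs τt : PvwTy} {Bs Bt : Set ℂ} {σ : V → Bool} {c : T.Cyc} {j : ℕ} {𝔇 : PvwDat T}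

theorem pvfi_d_of_pre (pre : PvfyPre T pos N h zs zt τs τt σ c j 𝔇) :
    PvfiDPre T pos h zs zt τs τt (pvwSq zs (pvwRad N h τs τs.k)) (pvwSq zt (pvwRad N h τt τt.k)) σ c j 𝔇 :=
  ⟨pre.st_s.gate, pre.st_t.gate, pre.st_s.stub, pre.st_t.stub, pre.rim, pre.black, pre.pin_s.run, pre.arc, pre.pin_t.run, pre.pos_n⟩

theorem pvfi_d_of_actual (hT : T.IsSph) {π : PvwPat} (hO : 𝔇.Ok pos N h π) (hA : 𝔇.Actual pos N h π σ c j) :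
    PvfiDPre T pos h π.zs π.zt π.ts π.tt (pvwSq π.zs (pvwRad N h π.ts π.ts.k)) (pvwSq π.zt (pvwRad N h π.tt π.tt.k)) σ c j 𝔇 := by
  have h1 : PvwAgree 𝔇.s.fzIn 𝔇.col σ := pvwk_agree_symm (pvwk_agree_mono Set.subset_union_right hA.cyl.1)
  have h2 : PvwAgree 𝔇.t.fzOut 𝔇.col σ := pvwk_agree_symm (pvwk_agree_mono Set.subset_union_left hA.cyl.1)
  have a1 := pvwk_atIn_congr hT hO.st_s h1
  have a2 := pvwk_atOut_congr hT hO.st_t h2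
  exact ⟨a1.gate, a2.gate, a1.stub, a2.stub, hA.rim, hA.black, hA.pin_s.run, hA.arc, hA.pin_t.run, hO.pos_n⟩

end pre

/-! ## §2 the timetable -/

/-- the inner arc of a gate has an edge; the inner strand stands on `rotInv (inn.e 0)` at a time `t < n` -/
theorem pvfi_d_gate (hS : T.Simple) {𝔖 : PvwSt T} {pos : V → ℂ} {h : ℝ} {z : ℂ} {τ : PvwTy} {s : V → Bool} (hg : 𝔖.Gate pos h z τ s) :
    0 < 𝔖.inn.n ∧ ∃ n t, t < n ∧ pvasIt T s 𝔖.dm n = 𝔖.dp ∧ pvasIt T s 𝔖.dm t = T.rotInv (𝔖.inn.e 0) := by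
  obtain ⟨n, h1, -, h3⟩ := hg.strand
  have h0 : 0 < 𝔖.inn.n := by
    rcases Nat.eq_zero_or_pos 𝔖.inn.n with e | e
    · exfalso
      have e0 := pvt_sd_v0 h3
      have e1 := pvt_sd_vn h3
      rw [e, e0, h1] at e1
      exact hg.ne e1.symm
    · exact e
  obtain ⟨t, ht, -, he⟩ := pvt_sd_time hS h3 h0
  exact ⟨h0, n, t, ht, h1, by rw [he, T.rotInv_rot]⟩

/-- **THE TIMETABLE** of a datum along the strand `a_k = pvasIt T σ a0 k` -/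
structure PvfiDTab (T : PvMap V D) (σ : V → Bool) (𝔇 : PvwDat T) (a0 : D) (ts t0 m t3 : ℕ) : Prop where
  /-- `Σ⁻(s)` run forwards -/
  em : ∀ i, i ≤ 𝔇.s.nm → pvasIt T σ a0 (ts + i) = 𝔇.s.em (𝔇.s.nm - i)
  dm : pvasIt T σ a0 (ts + 𝔇.s.nm) = 𝔇.s.dm
  le0 : ts + 𝔇.s.nm ≤ t0
  g0 : pvasIt T σ a0 t0 = T.rotInv (𝔇.g.e 0)
  le : PvwLE T (fun k => T.src (pvasIt T σ (pvasIt T σ a0 t0) k)) m 𝔇.g
  g1 : pvasIt T σ a0 (t0 + m) = T.rotInv (𝔇.t.inn.e 0)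
  le3 : t0 + m ≤ t3
  dp : pvasIt T σ a0 t3 = 𝔇.t.dp
  /-- `Σ⁺(t)` -/
  ep : ∀ i, i ≤ 𝔇.t.np → pvasIt T σ a0 (t3 + i) = 𝔇.t.ep i

section table

variable {pos : V → ℂ} {h : ℝ} {zs zt : ℂ} {τs τt : PvwTy} {Bs Bt : Set ℂ} {σ : V → Bool} {c : T.Cyc} {j : ℕ} {𝔇 : PvwDat T} {a0 : D} {ts : ℕ}

/-- **EXISTENCE OF THE TIMETABLE** -/
theorem pvfi_d_table (hT : T.IsSph) (hS : T.Simple) (pre : PvfiDPre T pos h zs zt τs τt Bs Bt σ c j 𝔇) (hfin : {d | T.Wall σ (T.opp (c.e 0)) d}.Finite)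
    (hts : pvasIt T σ a0 ts = 𝔇.s.em 𝔇.s.nm) :
    ∃ t0 m t3, PvfiDTab T σ 𝔇 a0 ts t0 m t3 := by
  obtain ⟨hc, hw, hb⟩ := pvfi_isRim pre.rim pre.black
  obtain ⟨ps, ns, us, hus, -, es⟩ := pvfi_d_gate hS pre.gate_s
  obtain ⟨pt, nt, ut, hut, dt, et⟩ := pvfi_d_gate hS pre.gate_t
  have hdm : pvasIt T σ a0 (ts + 𝔇.s.nm) = 𝔇.s.dm := by rw [pvas_it_add, hts, pvwk_em_fwd_end pre.stub_s pre.gate_s.bw_m]
  obtain ⟨m1, hm1, -⟩ := pvt_sf_rim_ex c hc hw hb hfin j (j + 𝔇.s.inn.n)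
  obtain ⟨m, hm, hmin⟩ := pvt_sf_rim_ex c hc hw hb hfin (j + 𝔇.s.inn.n) (j + 𝔇.s.inn.n + 𝔇.g.n)
  have r0 : c.e j = 𝔇.s.inn.e 0 := pre.run_s 0 ps
  have r1 : c.e (j + 𝔇.s.inn.n) = 𝔇.g.e 0 := pre.arc 0 pre.pos_n
  have r2 : c.e (j + 𝔇.s.inn.n + 𝔇.g.n) = 𝔇.t.inn.e 0 := pre.run_t 0 pt
  have h0 : pvasIt T σ a0 (ts + 𝔇.s.nm + us + m1) = T.rotInv (c.e (j + 𝔇.s.inn.n)) := by rw [pvas_it_add, pvas_it_add, hdm, es, ← r0, hm1]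
  have h1 : pvasIt T σ a0 (ts + 𝔇.s.nm + us + m1 + m) = T.rotInv (c.e (j + 𝔇.s.inn.n + 𝔇.g.n)) := by rw [pvas_it_add, h0, hm]
  have hlt := pvfi_arc_lt pre.arc
  have h3 : pvasIt T σ a0 (ts + 𝔇.s.nm + us + m1 + m + (nt - ut)) = 𝔇.t.dp := by
    rw [pvas_it_add, h1, r2, ← et, ← pvas_it_add, Nat.add_sub_cancel' hut.le, dt]
  refine ⟨ts + 𝔇.s.nm + us + m1, m, ts + 𝔇.s.nm + us + m1 + m + (nt - ut), ⟨fun i hi => ?_, hdm, by omega, by rw [h0, r1], ?_, by rw [h1, r2], by omega, h3, fun i hi => ?_⟩⟩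
  · rw [pvas_it_add, hts, pvwk_em_fwd pre.stub_s pre.gate_s.bw_m hi]
  · exact pvfi_rim_le hT hS pre.rim pre.black (i := j + 𝔇.s.inn.n) (i' := j + 𝔇.s.inn.n + 𝔇.g.n) (by have := pre.pos_n; omega) (by omega) h0 h1
      (fun k hk0 hk => by rw [pvas_it_add, h0]; exact hmin k hk0 hk) (by omega) pre.arc
  · rw [pvas_it_add, h3, pre.stub_t.ep_it i hi]

end table

/-! ## §3 closed faces, the disc of a gate -/

section face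

variable {pos : V → ℂ} {d : D}

theorem pvfi_d_face_src (T : PvMap V D) (pos : V → ℂ) (d : D) : pos (T.src d) ∈ pvfyFace T pos d := subset_convexHull ℝ _ (by simp)

theorem pvfi_d_face_tgt (T : PvMap V D) (pos : V → ℂ) (d : D) : pos (T.tgt d) ∈ pvfyFace T pos d := subset_convexHull ℝ _ (by simp)

theorem pvfi_d_face_apex (T : PvMap V D) (pos : V → ℂ) (d : D) : pos (T.apex d) ∈ pvfyFace T pos d := subset_convexHull ℝ _ (by simp)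

theorem pvfi_d_face_convex (T : PvMap V D) (pos : V → ℂ) (d : D) : Convex ℝ (pvfyFace T pos d) := convex_convexHull ℝ _

theorem pvfi_d_face_conn (T : PvMap V D) (pos : V → ℂ) (d : D) : IsPreconnected (pvfyFace T pos d) := (pvfi_d_face_convex T pos d).isPreconnected

/-- the edge of a dart lies in its face -/
theorem pvfi_d_face_seg (T : PvMap V D) (pos : V → ℂ) (d : D) : segment ℝ (pos (T.src d)) (pos (T.tgt d)) ⊆ pvfyFace T pos d :=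
  (pvfi_d_face_convex T pos d).segment_subset (pvfi_d_face_src T pos d) (pvfi_d_face_tgt T pos d)

theorem pvfi_d_face_nxt (T : PvMap V D) (pos : V → ℂ) (d : D) : pvfyFace T pos (T.nxt d) = pvfyFace T pos d := by
  unfold pvfyFace
  rw [T.src_nxt, T.tgt_nxt, T.apex_nxt]
  congr 1
  ext x
  simp only [Set.mem_insert_iff, Set.mem_singleton_iff]
  tauto

/-- a face whose three vertices are within `ρ` of `q` lies within `ρ` of `q` -/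
theorem pvfi_d_face_near {q : ℂ} {ρ : ℝ} (h1 : ‖pos (T.src d) - q‖ ≤ ρ) (h2 : ‖pos (T.tgt d) - q‖ ≤ ρ) (h3 : ‖pos (T.apex d) - q‖ ≤ ρ) : ∀ p ∈ pvfyFace T pos d, ‖p - q‖ ≤ ρ := by
  have hsub : pvfyFace T pos d ⊆ Metric.closedBall q ρ := by
    refine convexHull_min ?_ (convex_closedBall q ρ)
    rintro x (rfl | rfl | rfl)
    · exact mem_closedBall_iff_norm.2 h1
    · exact mem_closedBall_iff_norm.2 h2
    · exact mem_closedBall_iff_norm.2 h3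
  exact fun p hp => mem_closedBall_iff_norm.1 (hsub hp)

/-- the union of the closed faces of a set of darts -/
def pvfiDisc (T : PvMap V D) (pos : V → ℂ) (A : Set D) : Set ℂ := ⋃ d ∈ A, pvfyFace T pos d

theorem pvfi_d_eqns_cite : True := by
  have := @pvfiDisc.eq_1
  trivial

theorem pvfi_d_mem_disc {A : Set D} {p : ℂ} : p ∈ pvfiDisc T pos A ↔ ∃ d ∈ A, p ∈ pvfyFace T pos d := by
  simp [pvfiDisc]

/-- **the closed inside of a cycle is connected** (`c.Left` is dual connected by definition) -/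
theorem pvfi_d_disc_conn (pos : V → ℂ) (c : T.Cyc) : IsPreconnected (pvfiDisc T pos c.Left) := by
  have key : ∀ d, T.DJoin c.darts (c.e 0) d → ∃ C ⊆ pvfiDisc T pos c.Left, pos (T.src (c.e 0)) ∈ C ∧ pvfyFace T pos d ⊆ C ∧ IsPreconnected C := by
    intro d hd
    induction hd with
    | refl =>
      exact ⟨pvfyFace T pos (c.e 0), fun p hp => pvfi_d_mem_disc.2 ⟨c.e 0, ReflTransGen.refl, hp⟩, pvfi_d_face_src T pos _, subset_rfl, pvfi_d_face_conn T pos _⟩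
    | @tail b e hb hbe ih =>
      obtain ⟨C, h1, h2, h3, h4⟩ := ih
      have he : e ∈ c.Left := hb.tail hbe
      have hx : ∃ x, x ∈ C ∧ x ∈ pvfyFace T pos e := by
        rcases hbe with rfl | ⟨rfl, -⟩
        · exact ⟨pos (T.tgt b), h3 (pvfi_d_face_tgt T pos b), by rw [pvfi_d_face_nxt]; exact pvfi_d_face_tgt T pos b⟩
        · refine ⟨pos (T.src b), h3 (pvfi_d_face_src T pos b), ?_⟩
          have := pvfi_d_face_tgt T pos (T.opp b)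
          rwa [T.tgt_opp] at this
      obtain ⟨x, hx1, hx2⟩ := hx
      refine ⟨C ∪ pvfyFace T pos e, Set.union_subset h1 fun p hp => pvfi_d_mem_disc.2 ⟨e, he, hp⟩, Or.inl h2, Set.subset_union_right, ?_⟩
      exact IsPreconnected.union x hx1 hx2 h4 (pvfi_d_face_conn T pos e)
  refine isPreconnected_of_forall (pos (T.src (c.e 0))) fun y hy => ?_
  obtain ⟨d, hd, hyd⟩ := pvfi_d_mem_disc.1 hy
  obtain ⟨C, h1, h2, h3, h4⟩ := key d hd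
  exact ⟨C, h1, h2, h3 hyd, h4⟩

/-- the ends of a dart of the cycle lie in the disc -/
theorem pvfi_d_disc_dart (hT : T.IsSph) (pos : V → ℂ) (c : T.Cyc) {e : D} (he : e ∈ c.darts) : segment ℝ (pos (T.src e)) (pos (T.tgt e)) ⊆ pvfiDisc T pos c.Left := by
  obtain ⟨i, rfl⟩ := he
  exact fun p hp => pvfi_d_mem_disc.2 ⟨c.e i, (pl_jordan hT c).2.1 i, pvfi_d_face_seg T pos _ hp⟩

end face

/-! ## §4 the five arcs, `K` = edges and discs -/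

/-- the THIN obstacle: zigzag of `Σ⁻(s)`, disc of `s`, trace of `g₀`, disc of `t`, zigzag of `Σ⁺(t)` -/
def pvfiDK (T : PvMap V D) (pos : V → ℂ) (σ : V → Bool) (𝔇 : PvwDat T) (a0 : D) (ts t3 : ℕ) : Set ℂ :=
  pvfmZig T pos σ a0 ts (ts + 𝔇.s.nm) ∪ pvfiDisc T pos 𝔇.s.S.Left ∪ pvfiTr T pos 𝔇.g ∪ pvfiDisc T pos 𝔇.t.S.Left ∪ pvfmZig T pos σ a0 t3 (t3 + 𝔇.t.np)

theorem pvfi_d_eqns_cite2 : True := by
  have := @pvfiDK.eq_1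
  trivial

section arcE

variable {pos : V → ℂ} {h : ℝ} {zs zt : ℂ} {τs τt : PvwTy} {Bs Bt : Set ℂ} {σ : V → Bool} {c : T.Cyc} {j : ℕ} {𝔇 : PvwDat T} {a0 : D} {ts t0 m t3 : ℕ} {μ : ℝ}

/-- the first vertex of `g₀` is `g⁺(s)`, the last one is `g⁻(t)` -/
theorem pvfi_d_ends (hS : T.Simple) (pre : PvfiDPre T pos h zs zt τs τt Bs Bt σ c j 𝔇) : 𝔇.g.v 0 = 𝔇.s.gp ∧ 𝔇.g.v 𝔇.g.n = 𝔇.t.gm := by
  obtain ⟨ps, -⟩ := pvfi_d_gate hS pre.gate_s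
  obtain ⟨pt, -⟩ := pvfi_d_gate hS pre.gate_t
  obtain ⟨ns, h1, -, h3⟩ := pre.gate_s.strand
  obtain ⟨nt, k1, -, k3⟩ := pre.gate_t.strand
  have hp := pre.pos_n
  constructor
  · obtain ⟨l, hl⟩ : ∃ l, 𝔇.s.inn.n = l + 1 := ⟨𝔇.s.inn.n - 1, by omega⟩
    have e1 : 𝔇.s.inn.v 𝔇.s.inn.n = 𝔇.s.gp := by rw [pvt_sd_vn h3, h1]; rfl
    rw [← e1, ← 𝔇.g.src_e 0 hp, ← pre.arc 0 hp, hl, ← 𝔇.s.inn.tgt_e l (by omega), ← pre.run_s l (by omega), c.chain]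
    rfl
  · obtain ⟨l, hl⟩ : ∃ l, 𝔇.g.n = l + 1 := ⟨𝔇.g.n - 1, by omega⟩
    have e1 : 𝔇.t.inn.v 0 = 𝔇.t.gm := pvt_sd_v0 k3
    rw [← e1, ← 𝔇.t.inn.src_e 0 pt, ← pre.run_t 0 pt, hl, ← 𝔇.g.tgt_e l (by omega), ← pre.arc l (by omega), c.chain]
    rfl

/-- **THE INSTANCE, THIN FORM**: mesh `2 μ` on the positions of the two stubs, on the edges of `g₀` and on the edges `g.v k — third vertex of the right face`;   the two discs are farther than `L` from the witness -/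
theorem pvfi_d_arc_e (hT : T.IsSph) (hS : T.Simple) (pre : PvfiDPre T pos h zs zt τs τt Bs Bt σ c j 𝔇) (tab : PvfiDTab T σ 𝔇 a0 ts t0 m t3)
    (hem : ∀ i, i ≤ 𝔇.s.nm → ‖pos (T.src (𝔇.s.em i)) - pos (T.tgt (𝔇.s.em i))‖ ≤ 2 * μ)
    (hep : ∀ i, i ≤ 𝔇.t.np → ‖pos (T.src (𝔇.t.ep i)) - pos (T.tgt (𝔇.t.ep i))‖ ≤ 2 * μ)
    (hap : ∀ k, k < 𝔇.g.n → ‖pos (𝔇.g.v k) - pos (T.apex (T.opp (𝔇.g.e k)))‖ ≤ 2 * μ)
    (hed : ∀ k, k < 𝔇.g.n → ‖pos (𝔇.g.v k) - pos (𝔇.g.v (k + 1))‖ ≤ 2 * μ)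
    (W : Set ℂ) (L : ℝ) (hfs : ∀ p ∈ pvfiDisc T pos 𝔇.s.S.Left, ∀ w ∈ W, L < ‖w - p‖) (hft : ∀ p ∈ pvfiDisc T pos 𝔇.t.S.Left, ∀ w ∈ W, L < ‖w - p‖) :
    PvfrArc (pvfmGam T pos σ a0) (pvfiDK T pos σ 𝔇 a0 ts t3) W (3 * μ) L ts (t3 + 𝔇.t.np) (𝔇.s.xm pos) (𝔇.t.xp pos) := by
  have hμ : 0 ≤ μ := by
    have := (norm_nonneg _).trans (hem 0 (Nat.zero_le _))
    linarith
  have hμ3 : μ ≤ 3 * μ := by linarith
  obtain ⟨eg0, eg1⟩ := pvfi_d_ends hS pre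
  -- the stub of `s`
  have m1 : ∀ k, ts ≤ k → k ≤ ts + 𝔇.s.nm → ‖pos (T.src (pvasIt T σ a0 k)) - pos (T.tgt (pvasIt T σ a0 k))‖ ≤ 2 * μ := by
    intro k h1 h2
    obtain ⟨i, rfl⟩ := Nat.exists_eq_add_of_le h1
    rw [tab.em i (by omega)]
    exact hem _ (by omega)
  have m5 : ∀ k, t3 ≤ k → k ≤ t3 + 𝔇.t.np → ‖pos (T.src (pvasIt T σ a0 k)) - pos (T.tgt (pvasIt T σ a0 k))‖ ≤ 2 * μ := by
    intro k h1 h2
    obtain ⟨i, rfl⟩ := Nat.exists_eq_add_of_le h1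
    rw [tab.ep i (by omega)]
    exact hep _ (by omega)
  have x1 : 𝔇.s.xm pos = pvfmGam T pos σ a0 ts := by
    have := tab.em 0 (Nat.zero_le _)
    simp only [Nat.add_zero, Nat.sub_zero] at this
    unfold pvfmGam PvwSt.xm PvwSt.mid
    rw [this]
  have x5 : 𝔇.t.xp pos = pvfmGam T pos σ a0 (t3 + 𝔇.t.np) := by
    unfold pvfmGam PvwSt.xp PvwSt.mid
    rw [tab.ep _ le_rfl]
  have A1 : PvfrArc (pvfmGam T pos σ a0) (pvfmZig T pos σ a0 ts (ts + 𝔇.s.nm)) W (3 * μ) L ts (ts + 𝔇.s.nm) (𝔇.s.xm pos) (pos 𝔇.s.gm) := by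
    refine pvfi_arc_mu (pvfm_zig_arc (Nat.le_add_right _ _) m1 W L ?_ ?_) hμ3
    · rw [x1]; exact pvfm_gam_mem_edge ts
    · have := pvfm_src_mem_edge (T := T) (pos := pos) (s := σ) (a := a0) (ts + 𝔇.s.nm)
      rwa [tab.dm] at this
  have A5 : PvfrArc (pvfmGam T pos σ a0) (pvfmZig T pos σ a0 t3 (t3 + 𝔇.t.np)) W (3 * μ) L t3 (t3 + 𝔇.t.np) (pos 𝔇.t.gp) (𝔇.t.xp pos) := by
    refine pvfi_arc_mu (pvfm_zig_arc (Nat.le_add_right _ _) m5 W L ?_ ?_) hμ3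
    · have := pvfm_src_mem_edge (T := T) (pos := pos) (s := σ) (a := a0) t3
      rwa [tab.dp] at this
    · rw [x5]; exact pvfm_gam_mem_edge _
  -- the two discs
  have s_gm : pos 𝔇.s.gm ∈ pvfiDisc T pos 𝔇.s.S.Left := pvfi_d_disc_dart hT pos _ pre.gate_s.dm_on (left_mem_segment ℝ _ _)
  have s_gp : pos 𝔇.s.gp ∈ pvfiDisc T pos 𝔇.s.S.Left := by
    have := pvfi_d_disc_dart hT pos _ pre.gate_s.dp_on (right_mem_segment ℝ _ _)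
    rwa [T.tgt_opp] at this
  have t_gm : pos 𝔇.t.gm ∈ pvfiDisc T pos 𝔇.t.S.Left := pvfi_d_disc_dart hT pos _ pre.gate_t.dm_on (left_mem_segment ℝ _ _)
  have t_gp : pos 𝔇.t.gp ∈ pvfiDisc T pos 𝔇.t.S.Left := by
    have := pvfi_d_disc_dart hT pos _ pre.gate_t.dp_on (right_mem_segment ℝ _ _)
    rwa [T.tgt_opp] at this
  have A2 : PvfrArc (pvfmGam T pos σ a0) (pvfiDisc T pos 𝔇.s.S.Left) W (3 * μ) L (ts + 𝔇.s.nm) (ts + 𝔇.s.nm) (pos 𝔇.s.gm) (pos 𝔇.s.gp) := by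
    refine pvfr_arc_fat (pvfi_d_disc_conn pos _) s_gm s_gp ⟨pos 𝔇.s.gm, s_gm, ?_⟩ hfs
    have := pvfi_mid (m1 (ts + 𝔇.s.nm) (Nat.le_add_right _ _) le_rfl)
    rw [tab.dm] at this
    unfold pvfmGam
    rw [tab.dm]
    exact this.trans hμ3
  have A4 : PvfrArc (pvfmGam T pos σ a0) (pvfiDisc T pos 𝔇.t.S.Left) W (3 * μ) L t3 t3 (pos 𝔇.t.gm) (pos 𝔇.t.gp) := by
    refine pvfr_arc_fat (pvfi_d_disc_conn pos _) t_gm t_gp ⟨pos 𝔇.t.gp, t_gp, ?_⟩ hft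
    have := pvfi_mid (m5 t3 le_rfl (Nat.le_add_right _ _))
    rw [tab.dp] at this
    unfold pvfmGam
    rw [tab.dp]
    exact this.trans hμ3
  -- the rim arc
  have A3 : PvfrArc (pvfmGam T pos σ a0) (pvfiTr T pos 𝔇.g) W (3 * μ) L t0 (t0 + m) (pos 𝔇.s.gp) (pos 𝔇.t.gm) := by
    have := pvfi_rim_sharp (γ := pvfmGam T pos σ a0) hS tab.le pre.pos_n (fun k _ _ => rfl) hap hed W L
    rwa [eg0, eg1] at this
  exact pvfr_arc_trans (pvfr_arc_trans (pvfr_arc_trans (pvfr_arc_trans A1 A2 le_rfl) A3 tab.le0) A4 tab.le3) A5 le_rfl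

end arcE

/-! ## §5 the five arcs, `K` = the closed frozen faces -/

/-- the faces crossed by the strand at the times `t..t'` -/
def pvfiFz (T : PvMap V D) (pos : V → ℂ) (s : V → Bool) (a : D) (t t' : ℕ) : Set ℂ := ⋃ k ∈ Set.Icc t t', pvfyFace T pos (pvasIt T s a k)

/-- the right faces of the edges of a path -/
def pvfiFr (T : PvMap V D) (pos : V → ℂ) (y : T.Pth) : Set ℂ := ⋃ k ∈ Set.Iio y.n, pvfyFace T pos (T.opp (y.e k))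

theorem pvfi_d_eqns_cite3 : True := by
  have := @pvfiFz.eq_1; have := @pvfiFr.eq_1
  trivial

section faces

variable {pos : V → ℂ} {s : V → Bool} {a : D} {μ : ℝ}

theorem pvfi_d_mem_fz {t t' : ℕ} {p : ℂ} : p ∈ pvfiFz T pos s a t t' ↔ ∃ k, t ≤ k ∧ k ≤ t' ∧ p ∈ pvfyFace T pos (pvasIt T s a k) := by
  simp [pvfiFz, and_assoc]

theorem pvfi_d_mem_fr {y : T.Pth} {p : ℂ} : p ∈ pvfiFr T pos y ↔ ∃ k, k < y.n ∧ p ∈ pvfyFace T pos (T.opp (y.e k)) := by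
  simp [pvfiFr]

/-- the edge of the next position is an edge of the face crossed -/
theorem pvfi_d_step_seg (T : PvMap V D) (pos : V → ℂ) (s : V → Bool) (d : D) :
    segment ℝ (pos (T.src (pvasStep T s d))) (pos (T.tgt (pvasStep T s d))) ⊆ pvfyFace T pos d := by
  rcases pvas_step_ends s d with ⟨-, e1, e2⟩ | ⟨-, e1, e2⟩
  · rw [e1, e2]
    exact (pvfi_d_face_convex T pos d).segment_subset (pvfi_d_face_apex T pos d) (pvfi_d_face_tgt T pos d)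
  · rw [e1, e2]
    exact (pvfi_d_face_convex T pos d).segment_subset (pvfi_d_face_src T pos d) (pvfi_d_face_apex T pos d)

/-- a face of mesh `2 μ` is within `3 μ` of the midpoint of its position -/
theorem pvfi_d_face_thin {d : D} (h1 : ‖pos (T.src d) - pos (T.tgt d)‖ ≤ 2 * μ) (h2 : ‖pos (T.src d) - pos (T.apex d)‖ ≤ 2 * μ) :
    ∀ p ∈ pvfyFace T pos d, ‖p - (pos (T.src d) + pos (T.tgt d)) / 2‖ ≤ 3 * μ := by
  have hμ : 0 ≤ μ := by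
    have := (norm_nonneg _).trans h1
    linarith
  have e1 := pvfi_mid h1
  have e2 : ‖pos (T.tgt d) - (pos (T.src d) + pos (T.tgt d)) / 2‖ ≤ μ := by
    have := pvfi_mid (u := pos (T.tgt d)) (v := pos (T.src d)) (μ := μ) (by rw [norm_sub_rev]; exact h1)
    rwa [add_comm] at this
  refine pvfi_d_face_near (by linarith) (by linarith) ?_
  have := pvfr_tri (pos (T.apex d)) (pos (T.src d)) ((pos (T.src d) + pos (T.tgt d)) / 2)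
  rw [norm_sub_rev (pos (T.apex d)) (pos (T.src d))] at this
  linarith

/-- **THE FACES CROSSED BY A STRAND** at the times `t..t'` form an arc -/
theorem pvfi_d_fz_arc {t t' : ℕ} (htt : t ≤ t') (hm : ∀ k, t ≤ k → k ≤ t' → ‖pos (T.src (pvasIt T s a k)) - pos (T.tgt (pvasIt T s a k))‖ ≤ 2 * μ)
    (hx : ∀ k, t ≤ k → k ≤ t' → ‖pos (T.src (pvasIt T s a k)) - pos (T.apex (pvasIt T s a k))‖ ≤ 2 * μ) (W : Set ℂ) (L : ℝ) {u v : ℂ}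
    (hu : u ∈ pvfyFace T pos (pvasIt T s a t)) (hv : v ∈ pvfyFace T pos (pvasIt T s a t')) : PvfrArc (pvfmGam T pos s a) (pvfiFz T pos s a t t') W (3 * μ) L t t' u v := by
  refine ⟨t' - t, fun i => pvfyFace T pos (pvasIt T s a (t + i)), fun i => t + i, ∅, ⟨fun i _ => pvfi_d_face_conn T pos _, fun i hi => ?_, fun p => ?_, fun i k hik _ => by omega, fun i hi => ?_,
    fun i hi _ p hp => ?_, fun i _ hf => absurd hf (Set.notMem_empty i)⟩, fun i hi => ⟨Nat.le_add_right t i, by show t + i ≤ t'; omega⟩, hu, ?_⟩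
  · refine ⟨pos (T.src (pvasIt T s a (t + (i + 1)))), ?_, pvfi_d_face_src T pos _⟩
    rw [← Nat.add_assoc, pvas_it_succ]
    exact pvfi_d_step_seg T pos s _ (left_mem_segment ℝ _ _)
  · rw [pvfi_d_mem_fz]
    constructor
    · rintro ⟨k, h1, h2, hp⟩
      exact ⟨k - t, by omega, by rwa [Nat.add_sub_cancel' h1]⟩
    · rintro ⟨i, hi, hp⟩
      exact ⟨t + i, by omega, by omega, hp⟩
  · exact ⟨pos (T.src (pvasIt T s a (t + i))), pvfi_d_face_src T pos _, pvfi_d_face_thin (hm _ (by omega) (by omega)) (hx _ (by omega) (by omega)) _ (pvfi_d_face_src T pos _)⟩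
  · exact pvfi_d_face_thin (hm _ (by omega) (by omega)) (hx _ (by omega) (by omega)) p hp
  · show v ∈ pvfyFace T pos (pvasIt T s a (t + (t' - t)))
    rwa [Nat.add_sub_cancel' htt]

/-- **THE RIGHT FACES OF A RIM ARC** form an arc (strand started at the time `t0`, sharp mesh) -/
theorem pvfi_d_fr_arc (hS : T.Simple) {a0 : D} {t0 n : ℕ} {y : T.Pth} (hy : PvwLE T (fun i => T.src (pvasIt T s (pvasIt T s a0 t0) i)) n y) (h0 : 0 < y.n)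
    (hap : ∀ k, k < y.n → ‖pos (y.v k) - pos (T.apex (T.opp (y.e k)))‖ ≤ 2 * μ)
    (hed : ∀ k, k < y.n → ‖pos (y.v k) - pos (y.v (k + 1))‖ ≤ 2 * μ) (W : Set ℂ) (L : ℝ) :
    PvfrArc (pvfmGam T pos s a0) (pvfiFr T pos y) W (3 * μ) L t0 (t0 + n) (pos (y.v 0)) (pos (y.v y.n)) := by
  obtain ⟨j, hj⟩ := pvfi_le_iff.1 hy
  have hμ : 0 ≤ μ := by
    have := (norm_nonneg _).trans (hed 0 h0)
    linarith
  have hv0 : ∀ k, k < y.n → pos (y.v k) ∈ pvfyFace T pos (T.opp (y.e k)) := fun k hk => by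
    have := pvfi_d_face_tgt T pos (T.opp (y.e k))
    rwa [T.tgt_opp, y.src_e k hk] at this
  have hv1 : ∀ k, k < y.n → pos (y.v (k + 1)) ∈ pvfyFace T pos (T.opp (y.e k)) := fun k hk => by
    have := pvfi_d_face_src T pos (T.opp (y.e k))
    rwa [T.src_opp', y.tgt_e k hk] at this
  have hγ : ∀ k, k < y.n → ‖pos (y.v k) - pvfmGam T pos s a0 (t0 + j k)‖ ≤ μ := fun k hk => by
    unfold pvfmGam
    rw [pvas_it_add, pvfi_time hS hj hk, T.src_rotInv, y.src_e k hk, pvfi_tgt_rotInv]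
    exact pvfi_mid (hap k hk)
  have hthin : ∀ k, k < y.n → ∀ p ∈ pvfyFace T pos (T.opp (y.e k)), ‖p - pvfmGam T pos s a0 (t0 + j k)‖ ≤ 3 * μ := fun k hk => by
    have g := hγ k hk
    refine pvfi_d_face_near ?_ ?_ ?_
    · rw [T.src_opp', y.tgt_e k hk]
      have := pvfr_tri (pos (y.v (k + 1))) (pos (y.v k)) (pvfmGam T pos s a0 (t0 + j k))
      have h2 := hed k hk
      rw [norm_sub_rev] at h2
      linarith
    · rw [T.tgt_opp, y.src_e k hk]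
      linarith
    · have := pvfr_tri (pos (T.apex (T.opp (y.e k)))) (pos (y.v k)) (pvfmGam T pos s a0 (t0 + j k))
      have h2 := hap k hk
      rw [norm_sub_rev] at h2
      linarith
  refine ⟨y.n - 1, fun k => pvfyFace T pos (T.opp (y.e k)), fun k => t0 + j k, ∅, ⟨fun k _ => pvfi_d_face_conn T pos _, fun k hk => ⟨pos (y.v (k + 1)), hv1 k (by omega), hv0 (k + 1) (by omega)⟩,
    fun p => ?_, fun k l hkl hl => Nat.add_le_add_left (pvfi_mono hj hkl (by omega)) t0, fun k hk => ⟨pos (y.v k), hv0 k (by omega), hthin k (by omega) _ (hv0 k (by omega))⟩,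
    fun k hk _ p hp => hthin k (by omega) p hp, fun k _ hf => absurd hf (Set.notMem_empty k)⟩, fun k hk => ⟨Nat.le_add_right t0 _, ?_⟩, hv0 0 h0, ?_⟩
  · rw [pvfi_d_mem_fr]
    exact ⟨fun ⟨k, hk, hp⟩ => ⟨k, by omega, hp⟩, fun ⟨k, hk, hp⟩ => ⟨k, by omega, hp⟩⟩
  · have := pvfi_lt_n hj (k := k) (by omega)
    show t0 + j k ≤ t0 + n
    omega
  · have := hv1 (y.n - 1) (by omega)
    rwa [Nat.sub_add_cancel h0] at this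

end faces

section arcF

variable {pos : V → ℂ} {h : ℝ} {zs zt : ℂ} {τs τt : PvwTy} {Bs Bt : Set ℂ} {σ : V → Bool} {c : T.Cyc} {j : ℕ} {𝔇 : PvwDat T} {a0 : D} {ts t0 m t3 : ℕ} {μ : ℝ}

theorem pvfi_d_mem_K {p : ℂ} : p ∈ 𝔇.pvfyK pos ↔ ∃ d ∈ 𝔇.pvfyJ, p ∈ pvfyFace T pos d := by
  simp [PvwDat.pvfyK]

/-- the tips are the places of the strand at the times `ts`, `t3 + np` -/
theorem pvfi_d_tips (tab : PvfiDTab T σ 𝔇 a0 ts t0 m t3) : 𝔇.s.xm pos = pvfmGam T pos σ a0 ts ∧ 𝔇.t.xp pos = pvfmGam T pos σ a0 (t3 + 𝔇.t.np) := by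
  constructor
  · have := tab.em 0 (Nat.zero_le _)
    simp only [Nat.add_zero, Nat.sub_zero] at this
    unfold pvfmGam PvwSt.xm PvwSt.mid
    rw [this]
  · unfold pvfmGam PvwSt.xp PvwSt.mid
    rw [tab.ep _ le_rfl]

/-- **THE INSTANCE, FACE FORM**: `K` = the obstacle of record `𝔇.pvfyK pos` of helper62;   mesh `2 μ` on the edges of the frozen faces of the stubs and of `g₀`;   the two discs are farther than `L` from the witness -/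
theorem pvfi_d_arc_f (hT : T.IsSph) (hS : T.Simple) (pre : PvfiDPre T pos h zs zt τs τt Bs Bt σ c j 𝔇) (tab : PvfiDTab T σ 𝔇 a0 ts t0 m t3)
    (hem : ∀ i, i ≤ 𝔇.s.nm → ‖pos (T.src (𝔇.s.em i)) - pos (T.tgt (𝔇.s.em i))‖ ≤ 2 * μ)
    (hemx : ∀ i, i ≤ 𝔇.s.nm → ‖pos (T.src (𝔇.s.em i)) - pos (T.apex (𝔇.s.em i))‖ ≤ 2 * μ)
    (hep : ∀ i, i ≤ 𝔇.t.np → ‖pos (T.src (𝔇.t.ep i)) - pos (T.tgt (𝔇.t.ep i))‖ ≤ 2 * μ)
    (hepx : ∀ i, i < 𝔇.t.np → ‖pos (T.src (𝔇.t.ep i)) - pos (T.apex (𝔇.t.ep i))‖ ≤ 2 * μ)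
    (hap : ∀ k, k < 𝔇.g.n → ‖pos (𝔇.g.v k) - pos (T.apex (T.opp (𝔇.g.e k)))‖ ≤ 2 * μ)
    (hed : ∀ k, k < 𝔇.g.n → ‖pos (𝔇.g.v k) - pos (𝔇.g.v (k + 1))‖ ≤ 2 * μ)
    (W : Set ℂ) (L : ℝ) (hfs : ∀ p ∈ pvfiDisc T pos 𝔇.s.S.Left, ∀ w ∈ W, L < ‖w - p‖) (hft : ∀ p ∈ pvfiDisc T pos 𝔇.t.S.Left, ∀ w ∈ W, L < ‖w - p‖) :
    PvfrArc (pvfmGam T pos σ a0) (𝔇.pvfyK pos) W (3 * μ) L ts (t3 + 𝔇.t.np) (𝔇.s.xm pos) (𝔇.t.xp pos) := by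
  have hμ : 0 ≤ μ := by
    have := (norm_nonneg _).trans (hem 0 (Nat.zero_le _))
    linarith
  have hμ3 : μ ≤ 3 * μ := by linarith
  obtain ⟨eg0, eg1⟩ := pvfi_d_ends hS pre
  obtain ⟨x1, x5⟩ := pvfi_d_tips (pos := pos) tab
  have A1 : PvfrArc (pvfmGam T pos σ a0) (pvfiFz T pos σ a0 ts (ts + 𝔇.s.nm)) W (3 * μ) L ts (ts + 𝔇.s.nm) (𝔇.s.xm pos) (pos 𝔇.s.gm) := by
    refine pvfi_d_fz_arc (Nat.le_add_right _ _) (fun k h1 h2 => ?_) (fun k h1 h2 => ?_) W L ?_ ?_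
    · obtain ⟨i, rfl⟩ := Nat.exists_eq_add_of_le h1
      rw [tab.em i (by omega)]
      exact hem _ (by omega)
    · obtain ⟨i, rfl⟩ := Nat.exists_eq_add_of_le h1
      rw [tab.em i (by omega)]
      exact hemx _ (by omega)
    · rw [x1]
      exact pvfi_d_face_seg T pos _ (pvfm_gam_mem_edge ts)
    · have := pvfi_d_face_src T pos (pvasIt T σ a0 (ts + 𝔇.s.nm))
      rw [tab.dm] at this ⊢
      exact this
  have s_gm : pos 𝔇.s.gm ∈ pvfiDisc T pos 𝔇.s.S.Left := pvfi_d_disc_dart hT pos _ pre.gate_s.dm_on (left_mem_segment ℝ _ _)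
  have s_gp : pos 𝔇.s.gp ∈ pvfiDisc T pos 𝔇.s.S.Left := by
    have := pvfi_d_disc_dart hT pos _ pre.gate_s.dp_on (right_mem_segment ℝ _ _)
    rwa [T.tgt_opp] at this
  have t_gm : pos 𝔇.t.gm ∈ pvfiDisc T pos 𝔇.t.S.Left := pvfi_d_disc_dart hT pos _ pre.gate_t.dm_on (left_mem_segment ℝ _ _)
  have t_gp : pos 𝔇.t.gp ∈ pvfiDisc T pos 𝔇.t.S.Left := by
    have := pvfi_d_disc_dart hT pos _ pre.gate_t.dp_on (right_mem_segment ℝ _ _)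
    rwa [T.tgt_opp] at this
  have ep0 : 𝔇.t.ep 0 = 𝔇.t.dp := pvwk_ep_zero pre.stub_t
  have em0 : 𝔇.s.em 0 = 𝔇.s.dm := pvwk_em_zero pre.stub_s
  have A2 : PvfrArc (pvfmGam T pos σ a0) (pvfiDisc T pos 𝔇.s.S.Left) W (3 * μ) L (ts + 𝔇.s.nm) (ts + 𝔇.s.nm) (pos 𝔇.s.gm) (pos 𝔇.s.gp) := by
    refine pvfr_arc_fat (pvfi_d_disc_conn pos _) s_gm s_gp ⟨pos 𝔇.s.gm, s_gm, ?_⟩ hfs
    have := pvfi_mid (hem 0 (Nat.zero_le _))
    rw [em0] at this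
    unfold pvfmGam
    rw [tab.dm]
    exact this.trans hμ3
  have near4 : ‖pos 𝔇.t.gp - pvfmGam T pos σ a0 t3‖ ≤ 3 * μ := by
    have := pvfi_mid (hep 0 (Nat.zero_le _))
    rw [ep0] at this
    unfold pvfmGam
    rw [tab.dp]
    exact this.trans hμ3
  have A3 : PvfrArc (pvfmGam T pos σ a0) (pvfiFr T pos 𝔇.g) W (3 * μ) L t0 (t0 + m) (pos 𝔇.s.gp) (pos 𝔇.t.gm) := by
    have := pvfi_d_fr_arc hS tab.le pre.pos_n hap hed W L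
    rwa [eg0, eg1] at this
  have B : ∀ v ∈ pvfiDisc T pos 𝔇.t.S.Left, PvfrArc (pvfmGam T pos σ a0) (pvfiFz T pos σ a0 ts (ts + 𝔇.s.nm) ∪ pvfiDisc T pos 𝔇.s.S.Left ∪ pvfiFr T pos 𝔇.g ∪ pvfiDisc T pos 𝔇.t.S.Left)
      W (3 * μ) L ts t3 (𝔇.s.xm pos) v := fun v hv =>
    pvfr_arc_trans (pvfr_arc_trans (pvfr_arc_trans A1 A2 le_rfl) A3 tab.le0) (pvfr_arc_fat (pvfi_d_disc_conn pos _) t_gm hv ⟨pos 𝔇.t.gp, t_gp, near4⟩ hft) tab.le3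
  -- the four first families of faces
  have K4 : ∀ p, p ∈ pvfiFz T pos σ a0 ts (ts + 𝔇.s.nm) ∪ pvfiDisc T pos 𝔇.s.S.Left ∪ pvfiFr T pos 𝔇.g ∪ pvfiDisc T pos 𝔇.t.S.Left ↔
      ∃ d, ((∃ i, i ≤ 𝔇.s.nm ∧ 𝔇.s.em i = d) ∨ (∃ i, i < 𝔇.g.n ∧ T.opp (𝔇.g.e i) = d) ∨ d ∈ 𝔇.s.S.Left ∨ d ∈ 𝔇.t.S.Left) ∧ p ∈ pvfyFace T pos d := by
    intro p
    simp only [Set.mem_union, pvfi_d_mem_fz, pvfi_d_mem_disc, pvfi_d_mem_fr]
    constructor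
    · rintro (((⟨k, h1, h2, hp⟩ | ⟨d, hd, hp⟩) | ⟨k, hk, hp⟩) | ⟨d, hd, hp⟩)
      · obtain ⟨i, rfl⟩ := Nat.exists_eq_add_of_le h1
        rw [tab.em i (by omega)] at hp
        exact ⟨_, Or.inl ⟨_, by omega, rfl⟩, hp⟩
      · exact ⟨d, Or.inr (Or.inr (Or.inl hd)), hp⟩
      · exact ⟨_, Or.inr (Or.inl ⟨k, hk, rfl⟩), hp⟩
      · exact ⟨d, Or.inr (Or.inr (Or.inr hd)), hp⟩
    · rintro ⟨d, (⟨i, hi, rfl⟩ | ⟨i, hi, rfl⟩ | hd | hd), hp⟩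
      · refine Or.inl (Or.inl (Or.inl ⟨ts + (𝔇.s.nm - i), by omega, by omega, ?_⟩))
        rw [tab.em _ (by omega)]
        have : 𝔇.s.nm - (𝔇.s.nm - i) = i := by omega
        rwa [this]
      · exact Or.inl (Or.inr ⟨i, hi, hp⟩)
      · exact Or.inl (Or.inl (Or.inr ⟨d, hd, hp⟩))
      · exact Or.inr ⟨d, hd, hp⟩
  rcases Nat.eq_zero_or_pos 𝔇.t.np with hnp | hnp
  · -- no face of `Σ⁺(t)`
    have hx : 𝔇.t.xp pos ∈ pvfiDisc T pos 𝔇.t.S.Left := by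
      have h1 : 𝔇.t.xp pos ∈ segment ℝ (pos (T.src (T.opp 𝔇.t.dp))) (pos (T.tgt (T.opp 𝔇.t.dp))) := by
        rw [T.src_opp', T.tgt_opp, segment_symm]
        unfold PvwSt.xp PvwSt.mid
        rw [hnp, ep0]
        exact pvfm_mid_mem _ _
      exact pvfi_d_disc_dart hT pos _ pre.gate_t.dp_on h1
    have hK : 𝔇.pvfyK pos = pvfiFz T pos σ a0 ts (ts + 𝔇.s.nm) ∪ pvfiDisc T pos 𝔇.s.S.Left ∪ pvfiFr T pos 𝔇.g ∪ pvfiDisc T pos 𝔇.t.S.Left := by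
      ext p
      rw [K4, pvfi_d_mem_K]
      constructor
      · rintro ⟨d, (⟨i, hi, -⟩ | hd), hp⟩
        · omega
        · exact ⟨d, hd, hp⟩
      · rintro ⟨d, hd, hp⟩
        exact ⟨d, Or.inr hd, hp⟩
    rw [hK, hnp, Nat.add_zero]
    exact B _ hx
  · have A5 : PvfrArc (pvfmGam T pos σ a0) (pvfiFz T pos σ a0 t3 (t3 + (𝔇.t.np - 1))) W (3 * μ) L t3 (t3 + (𝔇.t.np - 1)) (pos 𝔇.t.gp) (𝔇.t.xp pos) := by
      refine pvfi_d_fz_arc (Nat.le_add_right _ _) (fun k h1 h2 => ?_) (fun k h1 h2 => ?_) W L ?_ ?_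
      · obtain ⟨i, rfl⟩ := Nat.exists_eq_add_of_le h1
        rw [tab.ep i (by omega)]
        exact hep _ (by omega)
      · obtain ⟨i, rfl⟩ := Nat.exists_eq_add_of_le h1
        rw [tab.ep i (by omega)]
        exact hepx _ (by omega)
      · have := pvfi_d_face_src T pos (pvasIt T σ a0 t3)
        rw [tab.dp] at this ⊢
        exact this
      · rw [x5]
        have e : t3 + 𝔇.t.np = t3 + (𝔇.t.np - 1) + 1 := by omega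
        have := pvfi_d_step_seg T pos σ (pvasIt T σ a0 (t3 + (𝔇.t.np - 1)))
        rw [← pvas_it_succ, ← e] at this
        exact this (pvfm_gam_mem_edge _)
    have hK : 𝔇.pvfyK pos = pvfiFz T pos σ a0 ts (ts + 𝔇.s.nm) ∪ pvfiDisc T pos 𝔇.s.S.Left ∪ pvfiFr T pos 𝔇.g ∪ pvfiDisc T pos 𝔇.t.S.Left ∪ pvfiFz T pos σ a0 t3 (t3 + (𝔇.t.np - 1)) := by
      ext p
      rw [Set.mem_union, K4, pvfi_d_mem_K, pvfi_d_mem_fz]
      constructor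
      · rintro ⟨d, (⟨i, hi, rfl⟩ | hd), hp⟩
        · refine Or.inr ⟨t3 + i, by omega, by omega, ?_⟩
          rwa [tab.ep i hi.le]
        · exact Or.inl ⟨d, hd, hp⟩
      · rintro (⟨d, hd, hp⟩ | ⟨k, h1, h2, hp⟩)
        · exact ⟨d, Or.inr hd, hp⟩
        · obtain ⟨i, rfl⟩ := Nat.exists_eq_add_of_le h1
          rw [tab.ep i (by omega)] at hp
          exact ⟨_, Or.inl ⟨i, by omega, rfl⟩, hp⟩
    rw [hK]
    exact pvfr_arc_mono (pvfr_arc_trans (B _ t_gp) A5 le_rfl) subset_rfl le_rfl le_rfl (by omega)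

end arcF

/-! ## §6 ANY PLACE FUNCTION `φ : D → ℂ` (`γ k = φ (a_k)`); the BLACK END `φ = pos ∘ src` -/

section place

variable {pos : V → ℂ} {s : V → Bool} {a : D} {φ : D → ℂ} {ν : ℝ}

/-- the faces crossed by a strand at the times `t..t'`, any place function: the thinness is read on these faces only -/
theorem pvfi_g_fz_arc {t t' : ℕ} (htt : t ≤ t') (hth : ∀ k, t ≤ k → k ≤ t' → ∀ p ∈ pvfyFace T pos (pvasIt T s a k), ‖p - φ (pvasIt T s a k)‖ ≤ ν) (W : Set ℂ) (L : ℝ) {u v : ℂ}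
    (hu : u ∈ pvfyFace T pos (pvasIt T s a t)) (hv : v ∈ pvfyFace T pos (pvasIt T s a t')) : PvfrArc (fun k => φ (pvasIt T s a k)) (pvfiFz T pos s a t t') W ν L t t' u v := by
  refine ⟨t' - t, fun i => pvfyFace T pos (pvasIt T s a (t + i)), fun i => t + i, ∅, ⟨fun i _ => pvfi_d_face_conn T pos _, fun i hi => ?_, fun p => ?_, fun i k hik _ => by omega, fun i hi => ?_,
    fun i hi _ p hp => ?_, fun i _ hf => absurd hf (Set.notMem_empty i)⟩, fun i hi => ⟨Nat.le_add_right t i, by show t + i ≤ t'; omega⟩, hu, ?_⟩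
  · refine ⟨pos (T.src (pvasIt T s a (t + (i + 1)))), ?_, pvfi_d_face_src T pos _⟩
    rw [← Nat.add_assoc, pvas_it_succ]
    exact pvfi_d_step_seg T pos s _ (left_mem_segment ℝ _ _)
  · rw [pvfi_d_mem_fz]
    constructor
    · rintro ⟨k, h1, h2, hp⟩
      exact ⟨k - t, by omega, by rwa [Nat.add_sub_cancel' h1]⟩
    · rintro ⟨i, hi, hp⟩
      exact ⟨t + i, by omega, by omega, hp⟩
  · exact ⟨pos (T.src (pvasIt T s a (t + i))), pvfi_d_face_src T pos _, hth _ (by omega) (by omega) _ (pvfi_d_face_src T pos _)⟩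
  · exact hth _ (by omega) (by omega) p hp
  · show v ∈ pvfyFace T pos (pvasIt T s a (t + (t' - t)))
    rwa [Nat.add_sub_cancel' htt]

/-- the right faces of a rim arc, any place function: the marked time of the edge number `k` is the position `rotInv (y.e k)` -/
theorem pvfi_g_fr_arc (hS : T.Simple) {a0 : D} {t0 n : ℕ} {y : T.Pth} (hy : PvwLE T (fun i => T.src (pvasIt T s (pvasIt T s a0 t0) i)) n y) (h0 : 0 < y.n)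
    (hth : ∀ k, k < y.n → ∀ p ∈ pvfyFace T pos (T.opp (y.e k)), ‖p - φ (T.rotInv (y.e k))‖ ≤ ν) (W : Set ℂ) (L : ℝ) :
    PvfrArc (fun k => φ (pvasIt T s a0 k)) (pvfiFr T pos y) W ν L t0 (t0 + n) (pos (y.v 0)) (pos (y.v y.n)) := by
  obtain ⟨j, hj⟩ := pvfi_le_iff.1 hy
  have hv0 : ∀ k, k < y.n → pos (y.v k) ∈ pvfyFace T pos (T.opp (y.e k)) := fun k hk => by
    have := pvfi_d_face_tgt T pos (T.opp (y.e k))
    rwa [T.tgt_opp, y.src_e k hk] at this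
  have hv1 : ∀ k, k < y.n → pos (y.v (k + 1)) ∈ pvfyFace T pos (T.opp (y.e k)) := fun k hk => by
    have := pvfi_d_face_src T pos (T.opp (y.e k))
    rwa [T.src_opp', y.tgt_e k hk] at this
  have hthin : ∀ k, k < y.n → ∀ p ∈ pvfyFace T pos (T.opp (y.e k)), ‖p - φ (pvasIt T s a0 (t0 + j k))‖ ≤ ν := fun k hk p hp => by
    rw [pvas_it_add, pvfi_time hS hj hk]
    exact hth k hk p hp
  refine ⟨y.n - 1, fun k => pvfyFace T pos (T.opp (y.e k)), fun k => t0 + j k, ∅, ⟨fun k _ => pvfi_d_face_conn T pos _, fun k hk => ⟨pos (y.v (k + 1)), hv1 k (by omega), hv0 (k + 1) (by omega)⟩,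
    fun p => ?_, fun k l hkl hl => Nat.add_le_add_left (pvfi_mono hj hkl (by omega)) t0, fun k hk => ⟨pos (y.v k), hv0 k (by omega), hthin k (by omega) _ (hv0 k (by omega))⟩,
    fun k hk _ p hp => hthin k (by omega) p hp, fun k _ hf => absurd hf (Set.notMem_empty k)⟩, fun k hk => ⟨Nat.le_add_right t0 _, ?_⟩, hv0 0 h0, ?_⟩
  · rw [pvfi_d_mem_fr]
    exact ⟨fun ⟨k, hk, hp⟩ => ⟨k, by omega, hp⟩, fun ⟨k, hk, hp⟩ => ⟨k, by omega, hp⟩⟩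
  · have := pvfi_lt_n hj (k := k) (by omega)
    show t0 + j k ≤ t0 + n
    omega
  · have := hv1 (y.n - 1) (by omega)
    rwa [Nat.sub_add_cancel h0] at this

/-- a face of mesh `2 μ` (the two edges at the source) is within `2 μ` of its BLACK END -/
theorem pvfi_b_face_thin {d : D} {μ : ℝ} (h1 : ‖pos (T.src d) - pos (T.tgt d)‖ ≤ 2 * μ) (h2 : ‖pos (T.src d) - pos (T.apex d)‖ ≤ 2 * μ) :
    ∀ p ∈ pvfyFace T pos d, ‖p - pos (T.src d)‖ ≤ 2 * μ := by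
  refine pvfi_d_face_near ?_ (by rw [norm_sub_rev]; exact h1) (by rw [norm_sub_rev]; exact h2)
  rw [sub_self, norm_zero]
  exact (norm_nonneg _).trans h1

end place

section arcG

variable {pos : V → ℂ} {h : ℝ} {zs zt : ℂ} {τs τt : PvwTy} {Bs Bt : Set ℂ} {σ : V → Bool} {c : T.Cyc} {j : ℕ} {𝔇 : PvwDat T} {a0 : D} {ts t0 m t3 : ℕ} {φ : D → ℂ} {ν μ : ℝ}

/-- the obstacle of record cut along the timetable -/
theorem pvfi_d_K_eq (tab : PvfiDTab T σ 𝔇 a0 ts t0 m t3) :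
    𝔇.pvfyK pos = pvfiFz T pos σ a0 ts (ts + 𝔇.s.nm) ∪ pvfiDisc T pos 𝔇.s.S.Left ∪ pvfiFr T pos 𝔇.g ∪ pvfiDisc T pos 𝔇.t.S.Left ∪ {p | ∃ i, i < 𝔇.t.np ∧ p ∈ pvfyFace T pos (pvasIt T σ a0 (t3 + i))} := by
  ext p
  simp only [Set.mem_union, pvfi_d_mem_fz, pvfi_d_mem_disc, pvfi_d_mem_fr, pvfi_d_mem_K, Set.mem_ofPred_eq]
  constructor
  · rintro ⟨d, (⟨i, hi, rfl⟩ | ⟨i, hi, rfl⟩ | ⟨i, hi, rfl⟩ | hd | hd), hp⟩
    · exact Or.inr ⟨i, hi, by rwa [tab.ep i hi.le]⟩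
    · refine Or.inl (Or.inl (Or.inl (Or.inl ⟨ts + (𝔇.s.nm - i), by omega, by omega, ?_⟩)))
      rw [tab.em _ (by omega)]
      have : 𝔇.s.nm - (𝔇.s.nm - i) = i := by omega
      rwa [this]
    · exact Or.inl (Or.inl (Or.inr ⟨i, hi, hp⟩))
    · exact Or.inl (Or.inl (Or.inl (Or.inr ⟨d, hd, hp⟩)))
    · exact Or.inl (Or.inr ⟨d, hd, hp⟩)
  · rintro (((((⟨k, h1, h2, hp⟩ | ⟨d, hd, hp⟩) | ⟨k, hk, hp⟩) | ⟨d, hd, hp⟩)) | ⟨i, hi, hp⟩)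
    · obtain ⟨i, rfl⟩ := Nat.exists_eq_add_of_le h1
      rw [tab.em i (by omega)] at hp
      exact ⟨_, Or.inr (Or.inl ⟨_, by omega, rfl⟩), hp⟩
    · exact ⟨d, Or.inr (Or.inr (Or.inr (Or.inl hd))), hp⟩
    · exact ⟨_, Or.inr (Or.inr (Or.inl ⟨k, hk, rfl⟩)), hp⟩
    · exact ⟨d, Or.inr (Or.inr (Or.inr (Or.inr hd))), hp⟩
    · rw [tab.ep i hi.le] at hp
      exact ⟨_, Or.inl ⟨i, hi, rfl⟩, hp⟩

/-- **THE INSTANCE, DISCS AS PARAMETERS, ANY PLACE FUNCTION** `γ k = φ (a_k)`: `Ds`, `Dt` = any preconnected sets through the gate vertices, far from the witness;   the thinness `ν` is read on the frozen faces only, at their own positions -/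
theorem pvfi_g_arc_D (hS : T.Simple) (pre : PvfiDPre T pos h zs zt τs τt Bs Bt σ c j 𝔇) (tab : PvfiDTab T σ 𝔇 a0 ts t0 m t3)
    (hem : ∀ i, i ≤ 𝔇.s.nm → ∀ p ∈ pvfyFace T pos (𝔇.s.em i), ‖p - φ (𝔇.s.em i)‖ ≤ ν)
    (hep : ∀ i, i < 𝔇.t.np → ∀ p ∈ pvfyFace T pos (𝔇.t.ep i), ‖p - φ (𝔇.t.ep i)‖ ≤ ν)
    (hdp : ‖pos 𝔇.t.gp - φ 𝔇.t.dp‖ ≤ ν)
    (hg : ∀ k, k < 𝔇.g.n → ∀ p ∈ pvfyFace T pos (T.opp (𝔇.g.e k)), ‖p - φ (T.rotInv (𝔇.g.e k))‖ ≤ ν)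
    {Ds Dt : Set ℂ} (cs : IsPreconnected Ds) (ct : IsPreconnected Dt) (s_gm : pos 𝔇.s.gm ∈ Ds) (s_gp : pos 𝔇.s.gp ∈ Ds) (t_gm : pos 𝔇.t.gm ∈ Dt) (t_gp : pos 𝔇.t.gp ∈ Dt)
    (t_xp : 𝔇.t.np = 0 → 𝔇.t.xp pos ∈ Dt)
    (W : Set ℂ) (L : ℝ) (hfs : ∀ p ∈ Ds, ∀ w ∈ W, L < ‖w - p‖) (hft : ∀ p ∈ Dt, ∀ w ∈ W, L < ‖w - p‖) :
    PvfrArc (fun k => φ (pvasIt T σ a0 k))
      (pvfiFz T pos σ a0 ts (ts + 𝔇.s.nm) ∪ Ds ∪ pvfiFr T pos 𝔇.g ∪ Dt ∪ {p | ∃ i, i < 𝔇.t.np ∧ p ∈ pvfyFace T pos (pvasIt T σ a0 (t3 + i))}) W ν L ts (t3 + 𝔇.t.np) (𝔇.s.xm pos) (𝔇.t.xp pos) := by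
  obtain ⟨eg0, eg1⟩ := pvfi_d_ends hS pre
  obtain ⟨x1, x5⟩ := pvfi_d_tips (pos := pos) tab
  have em0 : 𝔇.s.em 0 = 𝔇.s.dm := pvwk_em_zero pre.stub_s
  have A1 : PvfrArc (fun k => φ (pvasIt T σ a0 k)) (pvfiFz T pos σ a0 ts (ts + 𝔇.s.nm)) W ν L ts (ts + 𝔇.s.nm) (𝔇.s.xm pos) (pos 𝔇.s.gm) := by
    refine pvfi_g_fz_arc (Nat.le_add_right _ _) (fun k h1 h2 => ?_) W L ?_ ?_
    · obtain ⟨i, rfl⟩ := Nat.exists_eq_add_of_le h1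
      rw [tab.em i (by omega)]
      exact hem _ (by omega)
    · rw [x1]
      exact pvfi_d_face_seg T pos _ (pvfm_gam_mem_edge ts)
    · have := pvfi_d_face_src T pos (pvasIt T σ a0 (ts + 𝔇.s.nm))
      rw [tab.dm] at this ⊢
      exact this
  have A2 : PvfrArc (fun k => φ (pvasIt T σ a0 k)) Ds W ν L (ts + 𝔇.s.nm) (ts + 𝔇.s.nm) (pos 𝔇.s.gm) (pos 𝔇.s.gp) := by
    refine pvfr_arc_fat cs s_gm s_gp ⟨pos 𝔇.s.gm, s_gm, ?_⟩ hfs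
    show ‖pos 𝔇.s.gm - φ (pvasIt T σ a0 (ts + 𝔇.s.nm))‖ ≤ ν
    rw [tab.dm]
    have := hem 0 (Nat.zero_le _) _ (pvfi_d_face_src T pos _)
    rwa [em0] at this
  have near4 : ‖pos 𝔇.t.gp - (fun k => φ (pvasIt T σ a0 k)) t3‖ ≤ ν := by
    show ‖pos 𝔇.t.gp - φ (pvasIt T σ a0 t3)‖ ≤ ν
    rw [tab.dp]
    exact hdp
  have A3 : PvfrArc (fun k => φ (pvasIt T σ a0 k)) (pvfiFr T pos 𝔇.g) W ν L t0 (t0 + m) (pos 𝔇.s.gp) (pos 𝔇.t.gm) := by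
    have := pvfi_g_fr_arc (φ := φ) hS tab.le pre.pos_n hg W L
    rwa [eg0, eg1] at this
  have B : ∀ v ∈ Dt, PvfrArc (fun k => φ (pvasIt T σ a0 k)) (pvfiFz T pos σ a0 ts (ts + 𝔇.s.nm) ∪ Ds ∪ pvfiFr T pos 𝔇.g ∪ Dt) W ν L ts t3 (𝔇.s.xm pos) v := fun v hv =>
    pvfr_arc_trans (pvfr_arc_trans (pvfr_arc_trans A1 A2 le_rfl) A3 tab.le0) (pvfr_arc_fat ct t_gm hv ⟨pos 𝔇.t.gp, t_gp, near4⟩ hft) tab.le3
  rcases Nat.eq_zero_or_pos 𝔇.t.np with hnp | hnp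
  · have he : {p | ∃ i, i < 𝔇.t.np ∧ p ∈ pvfyFace T pos (pvasIt T σ a0 (t3 + i))} = ∅ := by
      ext p
      simp [hnp]
    rw [he, Set.union_empty]
    have := B _ (t_xp hnp)
    rwa [hnp, Nat.add_zero]
  · have A5 : PvfrArc (fun k => φ (pvasIt T σ a0 k)) (pvfiFz T pos σ a0 t3 (t3 + (𝔇.t.np - 1))) W ν L t3 (t3 + (𝔇.t.np - 1)) (pos 𝔇.t.gp) (𝔇.t.xp pos) := by
      refine pvfi_g_fz_arc (Nat.le_add_right _ _) (fun k h1 h2 => ?_) W L ?_ ?_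
      · obtain ⟨i, rfl⟩ := Nat.exists_eq_add_of_le h1
        rw [tab.ep i (by omega)]
        exact hep _ (by omega)
      · have := pvfi_d_face_src T pos (pvasIt T σ a0 t3)
        rw [tab.dp] at this ⊢
        exact this
      · rw [x5]
        have e : t3 + 𝔇.t.np = t3 + (𝔇.t.np - 1) + 1 := by omega
        have := pvfi_d_step_seg T pos σ (pvasIt T σ a0 (t3 + (𝔇.t.np - 1)))
        rw [← pvas_it_succ, ← e] at this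
        exact this (pvfm_gam_mem_edge _)
    have he : {p | ∃ i, i < 𝔇.t.np ∧ p ∈ pvfyFace T pos (pvasIt T σ a0 (t3 + i))} = pvfiFz T pos σ a0 t3 (t3 + (𝔇.t.np - 1)) := by
      ext p
      rw [pvfi_d_mem_fz]
      constructor
      · rintro ⟨i, hi, hp⟩
        exact ⟨t3 + i, by omega, by omega, hp⟩
      · rintro ⟨k, h1, h2, hp⟩
        obtain ⟨i, rfl⟩ := Nat.exists_eq_add_of_le h1
        exact ⟨i, by omega, hp⟩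
    rw [he]
    exact pvfr_arc_mono (pvfr_arc_trans (B _ t_gp) A5 le_rfl) subset_rfl le_rfl le_rfl (by omega)

/-- the marked points of the disc of a gate -/
theorem pvfi_d_disc_marks (hT : T.IsSph) {𝔖 : PvwSt T} {z : ℂ} {τ : PvwTy} {s : V → Bool} (hg : 𝔖.Gate pos h z τ s) :
    pos 𝔖.gm ∈ pvfiDisc T pos 𝔖.S.Left ∧ pos 𝔖.gp ∈ pvfiDisc T pos 𝔖.S.Left ∧ 𝔖.mid pos 𝔖.dp ∈ pvfiDisc T pos 𝔖.S.Left := by
  refine ⟨pvfi_d_disc_dart hT pos _ hg.dm_on (left_mem_segment ℝ _ _), ?_, ?_⟩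
  · have := pvfi_d_disc_dart hT pos _ hg.dp_on (right_mem_segment ℝ _ _)
    rwa [T.tgt_opp] at this
  · refine pvfi_d_disc_dart hT pos _ hg.dp_on ?_
    rw [T.src_opp', T.tgt_opp, segment_symm]
    exact pvfm_mid_mem _ _

/-- **THE INSTANCE, FACE FORM, ANY PLACE FUNCTION** `γ k = φ (a_k)`: `K = 𝔇.pvfyK pos` -/
theorem pvfi_g_arc_f (hT : T.IsSph) (hS : T.Simple) (pre : PvfiDPre T pos h zs zt τs τt Bs Bt σ c j 𝔇) (tab : PvfiDTab T σ 𝔇 a0 ts t0 m t3)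
    (hem : ∀ i, i ≤ 𝔇.s.nm → ∀ p ∈ pvfyFace T pos (𝔇.s.em i), ‖p - φ (𝔇.s.em i)‖ ≤ ν)
    (hep : ∀ i, i < 𝔇.t.np → ∀ p ∈ pvfyFace T pos (𝔇.t.ep i), ‖p - φ (𝔇.t.ep i)‖ ≤ ν)
    (hdp : ‖pos 𝔇.t.gp - φ 𝔇.t.dp‖ ≤ ν)
    (hg : ∀ k, k < 𝔇.g.n → ∀ p ∈ pvfyFace T pos (T.opp (𝔇.g.e k)), ‖p - φ (T.rotInv (𝔇.g.e k))‖ ≤ ν)
    (W : Set ℂ) (L : ℝ) (hfs : ∀ p ∈ pvfiDisc T pos 𝔇.s.S.Left, ∀ w ∈ W, L < ‖w - p‖) (hft : ∀ p ∈ pvfiDisc T pos 𝔇.t.S.Left, ∀ w ∈ W, L < ‖w - p‖) :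
    PvfrArc (fun k => φ (pvasIt T σ a0 k)) (𝔇.pvfyK pos) W ν L ts (t3 + 𝔇.t.np) (𝔇.s.xm pos) (𝔇.t.xp pos) := by
  obtain ⟨s1, s2, -⟩ := pvfi_d_disc_marks (pos := pos) hT pre.gate_s
  obtain ⟨t1, t2, t3'⟩ := pvfi_d_disc_marks (pos := pos) hT pre.gate_t
  rw [pvfi_d_K_eq tab]
  refine pvfi_g_arc_D hS pre tab hem hep hdp hg (pvfi_d_disc_conn pos _) (pvfi_d_disc_conn pos _) s1 s2 t1 t2 (fun hnp => ?_) W L hfs hft
  unfold PvwSt.xp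
  rw [hnp, pvwk_ep_zero pre.stub_t]
  exact t3'

/-- the disc of a gate lies in the closed ball `B(z, b h)` -/
theorem pvfi_d_disc_ball {𝔖 : PvwSt T} {z : ℂ} {τ : PvwTy} {s : V → Bool} (hg : 𝔖.Gate pos h z τ s) : pvfiDisc T pos 𝔖.S.Left ⊆ Metric.closedBall z (τ.b * h) := by
  intro p hp
  obtain ⟨d, hd, hpd⟩ := pvfi_d_mem_disc.1 hp
  obtain ⟨v1, v2, v3⟩ := pvwk_vof (pl_left_face 𝔖.S) hd
  exact mem_closedBall_iff_norm.2 (pvfi_d_face_near (hg.inside _ v1).le (hg.inside _ v2).le (hg.inside _ v3).le p hpd)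

/-- **THE INSTANCE, `K` = THE OBSTACLE WITH THE TWO CLOSED CORE DISCS** `𝔇.pvfyKd pos h zs zt τs τt` (`Tr/Defs` v3), any place function -/
theorem pvfi_g_arc_Kd (hT : T.IsSph) (hS : T.Simple) (pre : PvfiDPre T pos h zs zt τs τt Bs Bt σ c j 𝔇) (tab : PvfiDTab T σ 𝔇 a0 ts t0 m t3)
    (hem : ∀ i, i ≤ 𝔇.s.nm → ∀ p ∈ pvfyFace T pos (𝔇.s.em i), ‖p - φ (𝔇.s.em i)‖ ≤ ν)
    (hep : ∀ i, i < 𝔇.t.np → ∀ p ∈ pvfyFace T pos (𝔇.t.ep i), ‖p - φ (𝔇.t.ep i)‖ ≤ ν)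
    (hdp : ‖pos 𝔇.t.gp - φ 𝔇.t.dp‖ ≤ ν)
    (hg : ∀ k, k < 𝔇.g.n → ∀ p ∈ pvfyFace T pos (T.opp (𝔇.g.e k)), ‖p - φ (T.rotInv (𝔇.g.e k))‖ ≤ ν)
    (W : Set ℂ) (L : ℝ) (hfs : ∀ p ∈ Metric.closedBall zs (τs.b * h), ∀ w ∈ W, L < ‖w - p‖) (hft : ∀ p ∈ Metric.closedBall zt (τt.b * h), ∀ w ∈ W, L < ‖w - p‖) :
    PvfrArc (fun k => φ (pvasIt T σ a0 k)) (𝔇.pvfyKd pos h zs zt τs τt) W ν L ts (t3 + 𝔇.t.np) (𝔇.s.xm pos) (𝔇.t.xp pos) := by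
  obtain ⟨s1, s2, -⟩ := pvfi_d_disc_marks (pos := pos) hT pre.gate_s
  obtain ⟨t1, t2, t3'⟩ := pvfi_d_disc_marks (pos := pos) hT pre.gate_t
  have bs := pvfi_d_disc_ball (pos := pos) pre.gate_s
  have bt := pvfi_d_disc_ball (pos := pos) pre.gate_t
  have hK : 𝔇.pvfyKd pos h zs zt τs τt = pvfiFz T pos σ a0 ts (ts + 𝔇.s.nm) ∪ Metric.closedBall zs (τs.b * h) ∪ pvfiFr T pos 𝔇.g ∪ Metric.closedBall zt (τt.b * h) ∪
      {p | ∃ i, i < 𝔇.t.np ∧ p ∈ pvfyFace T pos (pvasIt T σ a0 (t3 + i))} := by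
    unfold PvwDat.pvfyKd
    rw [pvfi_d_K_eq tab]
    ext p
    simp only [Set.mem_union]
    constructor
    · rintro ((((((h1 | h1) | h1) | h1) | h1) | h1) | h1)
      · exact Or.inl (Or.inl (Or.inl (Or.inl h1)))
      · exact Or.inl (Or.inl (Or.inl (Or.inr (bs h1))))
      · exact Or.inl (Or.inl (Or.inr h1))
      · exact Or.inl (Or.inr (bt h1))
      · exact Or.inr h1
      · exact Or.inl (Or.inl (Or.inl (Or.inr h1)))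
      · exact Or.inl (Or.inr h1)
    · rintro ((((h1 | h1) | h1) | h1) | h1)
      · exact Or.inl (Or.inl (Or.inl (Or.inl (Or.inl (Or.inl h1)))))
      · exact Or.inl (Or.inr h1)
      · exact Or.inl (Or.inl (Or.inl (Or.inl (Or.inr h1))))
      · exact Or.inr h1
      · exact Or.inl (Or.inl (Or.inr h1))
  rw [hK]
  refine pvfi_g_arc_D hS pre tab hem hep hdp hg (convex_closedBall _ _).isPreconnected (convex_closedBall _ _).isPreconnected (bs s1) (bs s2) (bt t1) (bt t2) (fun hnp => ?_) W L hfs hft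
  unfold PvwSt.xp
  rw [hnp, pvwk_ep_zero pre.stub_t]
  exact bt t3'

/-- **THE INSTANCE, FACE FORM, BLACK ENDS** `γ k = pos (src a_k)` (the `γ` of `pvfr3_three`, `pvacc_three`): mesh `2 μ` on the two edges at the black end of each frozen face of the stubs,
on the edges of `g₀` and on the edges `g.v k — third vertex of the right face`; thinness `2 μ` -/
theorem pvfi_b_arc_f (hT : T.IsSph) (hS : T.Simple) (pre : PvfiDPre T pos h zs zt τs τt Bs Bt σ c j 𝔇) (tab : PvfiDTab T σ 𝔇 a0 ts t0 m t3)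
    (hem : ∀ i, i ≤ 𝔇.s.nm → ‖pos (T.src (𝔇.s.em i)) - pos (T.tgt (𝔇.s.em i))‖ ≤ 2 * μ)
    (hemx : ∀ i, i ≤ 𝔇.s.nm → ‖pos (T.src (𝔇.s.em i)) - pos (T.apex (𝔇.s.em i))‖ ≤ 2 * μ)
    (hep : ∀ i, i < 𝔇.t.np → ‖pos (T.src (𝔇.t.ep i)) - pos (T.tgt (𝔇.t.ep i))‖ ≤ 2 * μ)
    (hepx : ∀ i, i < 𝔇.t.np → ‖pos (T.src (𝔇.t.ep i)) - pos (T.apex (𝔇.t.ep i))‖ ≤ 2 * μ)
    (hap : ∀ k, k < 𝔇.g.n → ‖pos (𝔇.g.v k) - pos (T.apex (T.opp (𝔇.g.e k)))‖ ≤ 2 * μ)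
    (hed : ∀ k, k < 𝔇.g.n → ‖pos (𝔇.g.v k) - pos (𝔇.g.v (k + 1))‖ ≤ 2 * μ)
    (W : Set ℂ) (L : ℝ) (hfs : ∀ p ∈ pvfiDisc T pos 𝔇.s.S.Left, ∀ w ∈ W, L < ‖w - p‖) (hft : ∀ p ∈ pvfiDisc T pos 𝔇.t.S.Left, ∀ w ∈ W, L < ‖w - p‖) :
    PvfrArc (fun k => pos (T.src (pvasIt T σ a0 k))) (𝔇.pvfyK pos) W (2 * μ) L ts (t3 + 𝔇.t.np) (𝔇.s.xm pos) (𝔇.t.xp pos) := by
  have hμ : 0 ≤ 2 * μ := (norm_nonneg _).trans (hem 0 (Nat.zero_le _))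
  refine pvfi_g_arc_f (φ := fun d => pos (T.src d)) hT hS pre tab (fun i hi => pvfi_b_face_thin (hem i hi) (hemx i hi)) (fun i hi => pvfi_b_face_thin (hep i hi) (hepx i hi)) ?_ (fun k hk => ?_) W L hfs hft
  · show ‖pos 𝔇.t.gp - pos (T.src 𝔇.t.dp)‖ ≤ 2 * μ
    unfold PvwSt.gp
    rw [sub_self, norm_zero]
    exact hμ
  · show ∀ p ∈ pvfyFace T pos (T.opp (𝔇.g.e k)), ‖p - pos (T.src (T.rotInv (𝔇.g.e k)))‖ ≤ 2 * μ
    rw [T.src_rotInv, 𝔇.g.src_e k hk]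
    refine pvfi_d_face_near ?_ ?_ ?_
    · rw [T.src_opp', 𝔇.g.tgt_e k hk, norm_sub_rev]
      exact hed k hk
    · rw [T.tgt_opp, 𝔇.g.src_e k hk, sub_self, norm_zero]
      exact hμ
    · rw [norm_sub_rev]
      exact hap k hk

/-- **BLACK ENDS, `K` WITH THE TWO CLOSED CORE DISCS** (`Tr/Defs` v3) -/
theorem pvfi_b_arc_Kd (hT : T.IsSph) (hS : T.Simple) (pre : PvfiDPre T pos h zs zt τs τt Bs Bt σ c j 𝔇) (tab : PvfiDTab T σ 𝔇 a0 ts t0 m t3)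
    (hem : ∀ i, i ≤ 𝔇.s.nm → ‖pos (T.src (𝔇.s.em i)) - pos (T.tgt (𝔇.s.em i))‖ ≤ 2 * μ)
    (hemx : ∀ i, i ≤ 𝔇.s.nm → ‖pos (T.src (𝔇.s.em i)) - pos (T.apex (𝔇.s.em i))‖ ≤ 2 * μ)
    (hep : ∀ i, i < 𝔇.t.np → ‖pos (T.src (𝔇.t.ep i)) - pos (T.tgt (𝔇.t.ep i))‖ ≤ 2 * μ)
    (hepx : ∀ i, i < 𝔇.t.np → ‖pos (T.src (𝔇.t.ep i)) - pos (T.apex (𝔇.t.ep i))‖ ≤ 2 * μ)
    (hap : ∀ k, k < 𝔇.g.n → ‖pos (𝔇.g.v k) - pos (T.apex (T.opp (𝔇.g.e k)))‖ ≤ 2 * μ)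
    (hed : ∀ k, k < 𝔇.g.n → ‖pos (𝔇.g.v k) - pos (𝔇.g.v (k + 1))‖ ≤ 2 * μ)
    (W : Set ℂ) (L : ℝ) (hfs : ∀ p ∈ Metric.closedBall zs (τs.b * h), ∀ w ∈ W, L < ‖w - p‖) (hft : ∀ p ∈ Metric.closedBall zt (τt.b * h), ∀ w ∈ W, L < ‖w - p‖) :
    PvfrArc (fun k => pos (T.src (pvasIt T σ a0 k))) (𝔇.pvfyKd pos h zs zt τs τt) W (2 * μ) L ts (t3 + 𝔇.t.np) (𝔇.s.xm pos) (𝔇.t.xp pos) := by
  have hμ : 0 ≤ 2 * μ := (norm_nonneg _).trans (hem 0 (Nat.zero_le _))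
  refine pvfi_g_arc_Kd (φ := fun d => pos (T.src d)) hT hS pre tab (fun i hi => pvfi_b_face_thin (hem i hi) (hemx i hi)) (fun i hi => pvfi_b_face_thin (hep i hi) (hepx i hi)) ?_ (fun k hk => ?_) W L hfs hft
  · show ‖pos 𝔇.t.gp - pos (T.src 𝔇.t.dp)‖ ≤ 2 * μ
    unfold PvwSt.gp
    rw [sub_self, norm_zero]
    exact hμ
  · show ∀ p ∈ pvfyFace T pos (T.opp (𝔇.g.e k)), ‖p - pos (T.src (T.rotInv (𝔇.g.e k)))‖ ≤ 2 * μ
    rw [T.src_rotInv, 𝔇.g.src_e k hk]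
    refine pvfi_d_face_near ?_ ?_ ?_
    · rw [T.src_opp', 𝔇.g.tgt_e k hk, norm_sub_rev]
      exact hed k hk
    · rw [T.tgt_opp, 𝔇.g.src_e k hk, sub_self, norm_zero]
      exact hμ
    · rw [norm_sub_rev]
      exact hap k hk

end arcG

/-! ## §7 ON THE CLOCK OF RECORD (`PvwiFr`, `PvwiIn`, `PvwiTab` of helper179, `Tr/Wit`) -/

section clock

variable {pos : V → ℂ} {h : ℝ} {zs zt : ℂ} {τs τt : PvwTy} {Bs Bt : Set ℂ} {σ : V → Bool} {c : T.Cyc} {j n : ℕ} {θ : ℕ → ℕ} {𝔇 : PvwDat T} {u1 u2 w1 w2 : ℕ}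

theorem pvfi_d_of_wit (F : PvwiFr T σ c n θ) (I : PvwiIn T pos h σ c j 𝔇 zs zt τs τt Bs Bt) (hn : 0 < 𝔇.g.n) : PvfiDPre T pos h zs zt τs τt Bs Bt σ c j 𝔇 :=
  ⟨I.gate_s, I.gate_t, I.stub_s, I.stub_t, F.rim, F.black, I.run_s, I.arc, I.run_t, hn⟩

/-- **THE TIMETABLE ON THE CLOCK OF RECORD**: base `pvwiTau c 0`, `ts = u1 - nm`, `t0 = θ (j + s.inn.n)`, `t0 + m = θ (j + s.inn.n + g.n)`, `t3 = w2` -/
theorem pvfi_d_tab_of_wit (F : PvwiFr T σ c n θ) (I : PvwiIn T pos h σ c j 𝔇 zs zt τs τt Bs Bt) (Tb : PvwiTab T σ c n θ j 𝔇 u1 u2 w1 w2) (hn : 0 < 𝔇.g.n) :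
    PvfiDTab T σ 𝔇 (pvwiTau c 0) (u1 - 𝔇.s.nm) (θ (j + 𝔇.s.inn.n)) (θ (j + 𝔇.s.inn.n + 𝔇.g.n) - θ (j + 𝔇.s.inn.n)) w2 := by
  obtain ⟨pt, -⟩ := pvfi_d_gate F.simple I.gate_t
  have hsh := I.short
  have hnm := Tb.nm_le
  have hlt : θ (j + 𝔇.s.inn.n) < θ (j + 𝔇.s.inn.n + 𝔇.g.n) := F.mono _ _ (by omega) (by omega)
  have e01 : θ (j + 𝔇.s.inn.n) + (θ (j + 𝔇.s.inn.n + 𝔇.g.n) - θ (j + 𝔇.s.inn.n)) = θ (j + 𝔇.s.inn.n + 𝔇.g.n) := by omega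
  have h0 : pvasIt T σ (pvwiTau c 0) (θ (j + 𝔇.s.inn.n)) = T.rotInv (c.e (j + 𝔇.s.inn.n)) := (F.th _).2
  have h1 : pvasIt T σ (pvwiTau c 0) (θ (j + 𝔇.s.inn.n) + (θ (j + 𝔇.s.inn.n + 𝔇.g.n) - θ (j + 𝔇.s.inn.n))) = T.rotInv (c.e (j + 𝔇.s.inn.n + 𝔇.g.n)) := by
    rw [e01]
    exact (F.th _).2
  have r1 : c.e (j + 𝔇.s.inn.n) = 𝔇.g.e 0 := I.arc 0 hn
  have r2 : c.e (j + 𝔇.s.inn.n + 𝔇.g.n) = 𝔇.t.inn.e 0 := I.run_t 0 pt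
  refine ⟨fun i hi => ?_, ?_, ?_, by rw [h0, r1], ?_, by rw [h1, r2], ?_, Tb.dp_t, fun i hi => (Tb.ep i hi).symm⟩
  · rw [Tb.em _ (Nat.sub_le _ _)]
    congr 1
    omega
  · rw [Nat.sub_add_cancel hnm]
    exact Tb.dm_s
  · have := (Tb.rim_g 0 hn).1
    rw [Nat.sub_add_cancel hnm]
    exact this.le
  · refine pvfi_rim_le F.sph F.simple F.rim F.black (i := j + 𝔇.s.inn.n) (i' := j + 𝔇.s.inn.n + 𝔇.g.n) (by omega) (by omega) h0 h1 (fun k hk0 hk e => ?_) (by omega) I.arc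
    have hn2 := (F.th (j + 𝔇.s.inn.n + 𝔇.g.n)).1
    have := F.time_eq (i := θ (j + 𝔇.s.inn.n) + k) (j := θ (j + 𝔇.s.inn.n)) (by omega) (by omega) e
    omega
  · rw [e01]
    exact (Tb.rim_t 0 pt).2.le

/-- **FIELD `arc` OF `PvaccScene` ON THE CLOCK OF RECORD**: `γ k = pos (src (A k))`, `A k = pvasIt T σ (pvwiTau c 0) k`, `K = 𝔇.pvfyK pos`, `ts = u1 - nm`, `tt = w2 + np` -/
theorem pvfi_b_arc_wit (F : PvwiFr T σ c n θ) (I : PvwiIn T pos h σ c j 𝔇 zs zt τs τt Bs Bt) (Tb : PvwiTab T σ c n θ j 𝔇 u1 u2 w1 w2) (hn : 0 < 𝔇.g.n) {μ : ℝ}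
    (hem : ∀ i, i ≤ 𝔇.s.nm → ‖pos (T.src (𝔇.s.em i)) - pos (T.tgt (𝔇.s.em i))‖ ≤ 2 * μ)
    (hemx : ∀ i, i ≤ 𝔇.s.nm → ‖pos (T.src (𝔇.s.em i)) - pos (T.apex (𝔇.s.em i))‖ ≤ 2 * μ)
    (hep : ∀ i, i < 𝔇.t.np → ‖pos (T.src (𝔇.t.ep i)) - pos (T.tgt (𝔇.t.ep i))‖ ≤ 2 * μ)
    (hepx : ∀ i, i < 𝔇.t.np → ‖pos (T.src (𝔇.t.ep i)) - pos (T.apex (𝔇.t.ep i))‖ ≤ 2 * μ)
    (hap : ∀ k, k < 𝔇.g.n → ‖pos (𝔇.g.v k) - pos (T.apex (T.opp (𝔇.g.e k)))‖ ≤ 2 * μ)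
    (hed : ∀ k, k < 𝔇.g.n → ‖pos (𝔇.g.v k) - pos (𝔇.g.v (k + 1))‖ ≤ 2 * μ)
    (W : Set ℂ) (L : ℝ) (hfs : ∀ p ∈ pvfiDisc T pos 𝔇.s.S.Left, ∀ w ∈ W, L < ‖w - p‖) (hft : ∀ p ∈ pvfiDisc T pos 𝔇.t.S.Left, ∀ w ∈ W, L < ‖w - p‖) :
    PvfrArc (fun k => pos (T.src (pvasIt T σ (pvwiTau c 0) k))) (𝔇.pvfyK pos) W (2 * μ) L (u1 - 𝔇.s.nm) (w2 + 𝔇.t.np) (𝔇.s.xm pos) (𝔇.t.xp pos) :=
  pvfi_b_arc_f F.sph F.simple (pvfi_d_of_wit F I hn) (pvfi_d_tab_of_wit F I Tb hn) hem hemx hep hepx hap hed W L hfs hft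

/-- the same for `K` with the two closed core discs -/
theorem pvfi_b_arc_Kd_wit (F : PvwiFr T σ c n θ) (I : PvwiIn T pos h σ c j 𝔇 zs zt τs τt Bs Bt) (Tb : PvwiTab T σ c n θ j 𝔇 u1 u2 w1 w2) (hn : 0 < 𝔇.g.n) {μ : ℝ}
    (hem : ∀ i, i ≤ 𝔇.s.nm → ‖pos (T.src (𝔇.s.em i)) - pos (T.tgt (𝔇.s.em i))‖ ≤ 2 * μ)
    (hemx : ∀ i, i ≤ 𝔇.s.nm → ‖pos (T.src (𝔇.s.em i)) - pos (T.apex (𝔇.s.em i))‖ ≤ 2 * μ)
    (hep : ∀ i, i < 𝔇.t.np → ‖pos (T.src (𝔇.t.ep i)) - pos (T.tgt (𝔇.t.ep i))‖ ≤ 2 * μ)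
    (hepx : ∀ i, i < 𝔇.t.np → ‖pos (T.src (𝔇.t.ep i)) - pos (T.apex (𝔇.t.ep i))‖ ≤ 2 * μ)
    (hap : ∀ k, k < 𝔇.g.n → ‖pos (𝔇.g.v k) - pos (T.apex (T.opp (𝔇.g.e k)))‖ ≤ 2 * μ)
    (hed : ∀ k, k < 𝔇.g.n → ‖pos (𝔇.g.v k) - pos (𝔇.g.v (k + 1))‖ ≤ 2 * μ)
    (W : Set ℂ) (L : ℝ) (hfs : ∀ p ∈ Metric.closedBall zs (τs.b * h), ∀ w ∈ W, L < ‖w - p‖) (hft : ∀ p ∈ Metric.closedBall zt (τt.b * h), ∀ w ∈ W, L < ‖w - p‖) :
    PvfrArc (fun k => pos (T.src (pvasIt T σ (pvwiTau c 0) k))) (𝔇.pvfyKd pos h zs zt τs τt) W (2 * μ) L (u1 - 𝔇.s.nm) (w2 + 𝔇.t.np) (𝔇.s.xm pos) (𝔇.t.xp pos) :=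
  pvfi_b_arc_Kd F.sph F.simple (pvfi_d_of_wit F I hn) (pvfi_d_tab_of_wit F I Tb hn) hem hemx hep hepx hap hed W L hfs hft

end clock

end Claimed.Agent.R289
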