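-- KEEP
import Claimed.Agent.R289.Tr.LocalW
import Claimed.Agent.R289.Tr.Wit
import Claimed.Agent.R289.Tr.FitDat
import Claimed.Agent.R289.Tr.FitGate
import Claimed.Agent.R289.Tr.AccM
import Claimed.Agent.R289.Tr.FitLift

/-!
# Row 289 (S0537), THE WALL, road E, FIT-DET, file Tr/FitLiftS : THE SEAM RECORD completion <-> plane      (owner helper49; prefix `pvfw_`, `Pvfw`)

**`PvfwSeam`** = THE CONTEXT in which every field of `PvaccScene` (211, `Tr/Acc`) is stated WITHOUT THE MODEL: two maps (`Tc` = a completion, `T` = the plane), `PvLocP` (22), colours, twin data `PvLocDat` (22),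
in `Tc` the frame / input / time table of 179 (`PvwiFr`, `PvwiIn`, `PvwiTab`, `Tr/Wit`), base vertex `4R`-far, mesh in the patch (form of 211), boxes in `B(x, 7R/2)`.
PRODUCER AT THE MODEL: helper4 (`Tr/FitLiftB`), seconds 143 91 62.      CONSUMERS: 257 56 (`Tr/FitL2`), 211 (`pvacm_scene`, `pvacn_scene`).
`A k = pvasIt Tc σc (pvwiTau c 0) k`,  `γ = pvacmGam Tc posc σc (pvwiTau c 0)`,  `ts = u1 - 𝔇c.s.nm`,  `tt = w2 + 𝔇c.t.np`.
PROVED FROM THE RECORD (names `PvfwSeam.*`), in the shape of the hypotheses of `pvacm_scene`: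
* `het hes` (twins of the two tips), `bw`, `mesh_c`, `gam_succ gam_pred` (consecutive black ends), `mid_near`
* (a) `hi_ex` : first exit `hi` of `B(x,7R/2)` after `tt`, `tt < hi < n` (BEFORE the end of the turn: the window `[lo,hi]` is shorter than a period), `‖γ hi - x‖ < 4R`;   `lo_ex` : last far time `lo < ts`
* `injOn` (= `hinj`), `gam_in` (= `hγ`), `far`, `lo_far`
* (c) `J_up J_down` (the frozen faces `pvfyJ` correspond), `off_c` (E19 in the completion, FACE form), **`off_pl`** (E19 IN THE PLANE: the plane twin of a position of the continuation has no frozen face)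
* (d) **`K_eq`** : `𝔇c.pvfyK posc = 𝔇.pvfyK pos`
* `PvwiFr.clock` (the frame of 179 is a `PvfwClock`), `tip_t_far tip_s_far`, **`core_t core_s`** (= `core` of `pvacm_scene`: an actual gate `𝔊` of the completion round the gate of the pin, disc inside the box: `a' h ≤ ‖γ k - z‖` on both continuations; 118 `pvftg_clock_after/_before`)
* (e) **`three`** : `PvfrThree γ y s S lo hi`, `hi < n`, `ball y S` in the patch ⟹ `PvxvThree T pos σ y s S`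
-/

set_option autoImplicit false
set_option linter.unusedSectionVars false
set_option linter.unusedVariables false

namespace Claimed.Agent.R289

open Set

section seam

variable {Vc Dc V D : Type}

/-- **THE SEAM**: `Tc` = a completion (the rim `c` closes there: frame, input, table of 179), `T` = the plane; the patch `closedBall x (6R)` is shared (22); `𝔇c`, `𝔇` twin data.
The wall: `A k = pvasIt Tc σc (pvwiTau c 0) k`, `γ = pvacmGam Tc posc σc (pvwiTau c 0)` (211), `ts = u1 - nm`, `tt = w2 + np`. -/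
structure PvfwSeam (Tc : PvMap Vc Dc) (posc : Vc → ℂ) (σc : Vc → Bool) (T : PvMap V D) (pos : V → ℂ) (σ : V → Bool) (Rl : Dc → D → Prop)
    (x : ℂ) (R μ h : ℝ) (c : Tc.Cyc) (n : ℕ) (θ : ℕ → ℕ) (j : ℕ) (𝔇c : PvwDat Tc) (𝔇 : PvwDat T) (zs zt : ℂ) (τs τt : PvwTy) (Bs Bt : Set ℂ) (u1 u2 w1 w2 : ℕ) : Prop where
  hR : 0 < R
  loc : PvLocP Tc T Rl posc pos (Metric.closedBall x (6 * R))
  col : ∀ d d', Rl d d' → σc (Tc.src d) = σ (T.src d')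
  dat : PvLocDat Rl 𝔇c 𝔇
  fr : PvwiFr Tc σc c n θ
  inp : PvwiIn Tc posc h σc c j 𝔇c zs zt τs τt Bs Bt
  tab : PvwiTab Tc σc c n θ j 𝔇c u1 u2 w1 w2
  /-- the rim is cut at a far vertex -/
  base : 4 * R ≤ ‖posc (Tc.src (c.e 0)) - x‖
  /-- mesh of the plane in the patch (form of 211) -/
  mesh : ∀ d f : D, pos (T.src d) ∈ Metric.closedBall x (6 * R) → T.SF d f → ‖pos (T.src f) - pos (T.tgt f)‖ ≤ μ
  mu : μ < R / 2
  box_s : Bs ⊆ Metric.ball x (7 * R / 2)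
  box_t : Bt ⊆ Metric.ball x (7 * R / 2)
  arc_in : ∀ k, k ≤ 𝔇c.g.n → posc (𝔇c.g.v k) ∈ Metric.closedBall x (6 * R)

variable {Tc : PvMap Vc Dc} {posc : Vc → ℂ} {σc : Vc → Bool} {T : PvMap V D} {pos : V → ℂ} {σ : V → Bool} {Rl : Dc → D → Prop}
  {x : ℂ} {R μ h : ℝ} {c : Tc.Cyc} {n : ℕ} {θ : ℕ → ℕ} {j : ℕ} {𝔇c : PvwDat Tc} {𝔇 : PvwDat T} {zs zt : ℂ} {τs τt : PvwTy} {Bs Bt : Set ℂ} {u1 u2 w1 w2 : ℕ}

theorem pvfw_ball_sub (hR : 0 < R) : Metric.ball x (7 * R / 2) ⊆ Metric.closedBall x (6 * R) :=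
  (Metric.ball_subset_closedBall).trans (Metric.closedBall_subset_closedBall (by linarith))

namespace PvfwSeam

variable (S : PvfwSeam Tc posc σc T pos σ Rl x R μ h c n θ j 𝔇c 𝔇 zs zt τs τt Bs Bt u1 u2 w1 w2)
include S

theorem gam_zero : pvacmGam Tc posc σc (pvwiTau c 0) 0 = posc (Tc.src (c.e 0)) := by
  unfold pvacmGam
  rw [pvas_it_zero, pvwi_tau_src]

theorem gam_n : pvacmGam Tc posc σc (pvwiTau c 0) n = posc (Tc.src (c.e 0)) := by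
  unfold pvacmGam
  rw [S.fr.per.ret, pvwi_tau_src]

/-- the tip of `Σ⁺(t)` on the clock -/
theorem at_tt : pvasIt Tc σc (pvwiTau c 0) (w2 + 𝔇c.t.np) = 𝔇c.t.ep 𝔇c.t.np := (S.tab.ep _ le_rfl).symm

/-- the tip of `Σ⁻(s)` on the clock -/
theorem at_ts : pvasIt Tc σc (pvwiTau c 0) (u1 - 𝔇c.s.nm) = 𝔇c.s.em 𝔇c.s.nm := (S.tab.em _ le_rfl).symm

/-- `het` of `pvacm_scene` -/
theorem het : Rl (pvasIt Tc σc (pvwiTau c 0) (w2 + 𝔇c.t.np)) (𝔇.t.ep 𝔇.t.np) := by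
  rw [S.at_tt, S.dat.t.np]
  exact S.dat.t.ep _ le_rfl

/-- `hes` of `pvacm_scene` -/
theorem hes : Rl (pvasIt Tc σc (pvwiTau c 0) (u1 - 𝔇c.s.nm)) (𝔇.s.em 𝔇.s.nm) := by
  rw [S.at_ts, S.dat.s.nm]
  exact S.dat.s.em _ le_rfl

theorem gam_tt : ‖pvacmGam Tc posc σc (pvwiTau c 0) (w2 + 𝔇c.t.np) - x‖ < 7 * R / 2 := by
  unfold pvacmGam
  rw [S.at_tt]
  exact mem_ball_iff_norm.1 (S.box_t (S.inp.stub_t.ep_in _ le_rfl).1)

theorem gam_ts : ‖pvacmGam Tc posc σc (pvwiTau c 0) (u1 - 𝔇c.s.nm) - x‖ < 7 * R / 2 := by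
  unfold pvacmGam
  rw [S.at_ts]
  exact mem_ball_iff_norm.1 (S.box_s (S.inp.stub_s.em_in _ le_rfl).1)

theorem bw (k : ℕ) : pvasBW Tc σc (pvasIt Tc σc (pvwiTau c 0) k) := S.fr.bw k

/-- mesh in the completion: the three sides of a face with a vertex in the patch -/
theorem mesh_c {d : Dc} (hd : posc (Tc.src d) ∈ Metric.closedBall x (6 * R)) :
    ‖posc (Tc.src d) - posc (Tc.tgt d)‖ ≤ μ ∧ ‖posc (Tc.tgt d) - posc (Tc.apex d)‖ ≤ μ ∧ ‖posc (Tc.apex d) - posc (Tc.src d)‖ ≤ μ := by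
  obtain ⟨d', hd'⟩ := pvlw_dart_src S.loc hd
  have e1 := S.loc.pos_eq _ _ hd'
  have e2 : posc (Tc.tgt d) = pos (T.tgt d') := S.loc.pos_eq _ _ (S.loc.loc.iso.nxt hd')
  have e3 : posc (Tc.apex d) = pos (T.apex d') := S.loc.pos_eq _ _ (S.loc.loc.iso.nxt (S.loc.loc.iso.nxt hd'))
  have hK : pos (T.src d') ∈ Metric.closedBall x (6 * R) := e1 ▸ hd
  have m1 := S.mesh d' d' hK (T.sf_refl _)
  have m2 := S.mesh d' _ hK (T.sf_nxt _)
  have m3 := S.mesh d' _ hK (T.sf_nxt2 _)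
  rw [T.src_nxt, T.tgt_nxt] at m2
  rw [T.src_nxt2, T.tgt_nxt2] at m3
  rw [e1, e2, e3]
  exact ⟨m1, m2, m3⟩

/-- consecutive black ends, the first one in the patch -/
theorem gam_succ {k : ℕ} (hk : pvacmGam Tc posc σc (pvwiTau c 0) k ∈ Metric.closedBall x (6 * R)) :
    ‖pvacmGam Tc posc σc (pvwiTau c 0) (k + 1) - pvacmGam Tc posc σc (pvwiTau c 0) k‖ ≤ μ := by
  have hm := S.mesh_c hk
  unfold pvacmGam at hk ⊢
  rw [pvas_it_succ]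
  rcases pvas_step_ends σc (pvasIt Tc σc (pvwiTau c 0) k) with ⟨-, e, -⟩ | ⟨-, e, -⟩
  · rw [e]; exact hm.2.2
  · rw [e, sub_self, norm_zero]; exact (norm_nonneg _).trans hm.1

/-- consecutive black ends, the second one in the patch -/
theorem gam_pred {k : ℕ} (hk : pvacmGam Tc posc σc (pvwiTau c 0) (k + 1) ∈ Metric.closedBall x (6 * R)) :
    ‖pvacmGam Tc posc σc (pvwiTau c 0) (k + 1) - pvacmGam Tc posc σc (pvwiTau c 0) k‖ ≤ μ := by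
  unfold pvacmGam at hk ⊢
  rw [pvas_it_succ] at hk ⊢
  rcases pvas_step_ends σc (pvasIt Tc σc (pvwiTau c 0) k) with ⟨-, e, -⟩ | ⟨-, e, -⟩
  · rw [e] at hk ⊢
    have hm := S.mesh_c (d := Tc.nxt (Tc.nxt (pvasIt Tc σc (pvwiTau c 0) k))) (by rw [Tc.src_nxt2]; exact hk)
    rw [Tc.src_nxt2, Tc.tgt_nxt2] at hm
    exact hm.1
  · rw [e] at hk ⊢
    rw [sub_self, norm_zero]
    exact (norm_nonneg _).trans (S.mesh_c hk).1

/-- **(a) THE FIRST EXIT** of the forward continuation from `B(x, 7R/2)`: it comes BEFORE the end of the turn -/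
theorem hi_ex : ∃ hi, w2 + 𝔇c.t.np < hi ∧ hi < n ∧ 7 * R / 2 ≤ ‖pvacmGam Tc posc σc (pvwiTau c 0) hi - x‖ ∧ ‖pvacmGam Tc posc σc (pvwiTau c 0) hi - x‖ < 4 * R ∧
    ∀ k, w2 + 𝔇c.t.np ≤ k → k < hi → ‖pvacmGam Tc posc σc (pvwiTau c 0) k - x‖ < 7 * R / 2 := by
  classical
  have hR := S.hR
  have hb : 7 * R / 2 ≤ ‖pvacmGam Tc posc σc (pvwiTau c 0) n - x‖ := by rw [S.gam_n]; linarith [S.base]
  have hex : ∃ k, w2 + 𝔇c.t.np ≤ k ∧ 7 * R / 2 ≤ ‖pvacmGam Tc posc σc (pvwiTau c 0) k - x‖ := ⟨n, S.tab.np_lt.le, hb⟩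
  have h1 : w2 + 𝔇c.t.np < Nat.find hex := by
    refine lt_of_le_of_ne (Nat.find_spec hex).1 fun e => ?_
    have := (Nat.find_spec hex).2
    rw [← e] at this
    linarith [S.gam_tt]
  have h2 : ∀ k, w2 + 𝔇c.t.np ≤ k → k < Nat.find hex → ‖pvacmGam Tc posc σc (pvwiTau c 0) k - x‖ < 7 * R / 2 := by
    intro k a1 a2
    by_contra hc
    exact Nat.find_min hex a2 ⟨a1, not_lt.1 hc⟩
  have h3 : ‖pvacmGam Tc posc σc (pvwiTau c 0) (Nat.find hex) - x‖ < 4 * R := by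
    obtain ⟨l, hl⟩ : ∃ l, Nat.find hex = l + 1 := ⟨Nat.find hex - 1, by omega⟩
    have a1 := h2 l (by omega) (by omega)
    have a2 := S.gam_succ (k := l) (pvfw_ball_sub hR (mem_ball_iff_norm.2 a1))
    rw [hl]
    have a3 := norm_sub_le_norm_sub_add_norm_sub (pvacmGam Tc posc σc (pvwiTau c 0) (l + 1)) (pvacmGam Tc posc σc (pvwiTau c 0) l) x
    linarith [S.mu]
  refine ⟨Nat.find hex, h1, lt_of_le_of_ne (Nat.find_min' hex ⟨S.tab.np_lt.le, hb⟩) fun e => ?_, (Nat.find_spec hex).2, h3, h2⟩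
  rw [e, S.gam_n] at h3
  linarith [S.base]

/-- **(a') THE LAST FAR TIME** before the tip of `Σ⁻(s)` -/
theorem lo_ex : ∃ lo, lo < u1 - 𝔇c.s.nm ∧ 7 * R / 2 ≤ ‖pvacmGam Tc posc σc (pvwiTau c 0) lo - x‖ ∧ ‖pvacmGam Tc posc σc (pvwiTau c 0) lo - x‖ < 4 * R + μ ∧
    ∀ k, lo < k → k ≤ u1 - 𝔇c.s.nm → ‖pvacmGam Tc posc σc (pvwiTau c 0) k - x‖ < 7 * R / 2 := by
  classical
  have hR := S.hR
  have h0 : 7 * R / 2 ≤ ‖pvacmGam Tc posc σc (pvwiTau c 0) 0 - x‖ := by rw [S.gam_zero]; linarith [S.base]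
  set lo := Nat.findGreatest (fun k => 7 * R / 2 ≤ ‖pvacmGam Tc posc σc (pvwiTau c 0) k - x‖) (u1 - 𝔇c.s.nm) with hlo
  have h1 : 7 * R / 2 ≤ ‖pvacmGam Tc posc σc (pvwiTau c 0) lo - x‖ := Nat.findGreatest_spec (P := fun k => 7 * R / 2 ≤ ‖pvacmGam Tc posc σc (pvwiTau c 0) k - x‖) (Nat.zero_le _) h0
  have h2 : lo < u1 - 𝔇c.s.nm := by
    refine lt_of_le_of_ne (Nat.findGreatest_le _) fun e => ?_
    rw [e] at h1
    linarith [S.gam_ts]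
  have h3 : ∀ k, lo < k → k ≤ u1 - 𝔇c.s.nm → ‖pvacmGam Tc posc σc (pvwiTau c 0) k - x‖ < 7 * R / 2 := fun k hk1 hk2 =>
    not_le.1 (Nat.findGreatest_is_greatest (P := fun k => 7 * R / 2 ≤ ‖pvacmGam Tc posc σc (pvwiTau c 0) k - x‖) hk1 hk2)
  refine ⟨lo, h2, h1, ?_, h3⟩
  have a1 := h3 (lo + 1) (by omega) (by omega)
  have a2 := S.gam_pred (k := lo) (pvfw_ball_sub hR (mem_ball_iff_norm.2 a1))
  have a3 := norm_sub_le_norm_sub_add_norm_sub (pvacmGam Tc posc σc (pvwiTau c 0) lo) (pvacmGam Tc posc σc (pvwiTau c 0) (lo + 1)) x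
  rw [norm_sub_rev] at a2
  linarith [S.mu]

/-- `hinj` of `pvacm_scene`: a window shorter than the period -/
theorem injOn {lo hi : ℕ} (hhi : hi < n) : Set.InjOn (pvasIt Tc σc (pvwiTau c 0)) (Set.Icc lo hi) := fun a ha b hb e =>
  S.fr.time_eq (lt_of_le_of_lt ha.2 hhi) (lt_of_le_of_lt hb.2 hhi) e

/-- `hγ` of `pvacm_scene` -/
theorem gam_in {lo hi : ℕ} (h1 : ‖pvacmGam Tc posc σc (pvwiTau c 0) lo - x‖ < 4 * R + μ) (h2 : ∀ k, lo < k → k ≤ u1 - 𝔇c.s.nm → ‖pvacmGam Tc posc σc (pvwiTau c 0) k - x‖ < 7 * R / 2)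
    (h3 : ‖pvacmGam Tc posc σc (pvwiTau c 0) hi - x‖ < 4 * R) (h4 : ∀ k, w2 + 𝔇c.t.np ≤ k → k < hi → ‖pvacmGam Tc posc σc (pvwiTau c 0) k - x‖ < 7 * R / 2) :
    ∀ k, lo ≤ k → k ≤ hi → (k ≤ u1 - 𝔇c.s.nm ∨ w2 + 𝔇c.t.np ≤ k) → pvacmGam Tc posc σc (pvwiTau c 0) k ∈ Metric.closedBall x (6 * R) := by
  have hR := S.hR
  have hμ := S.mu
  intro k a1 a2 a3
  rw [mem_closedBall_iff_norm]
  rcases a3 with a3 | a3
  · rcases a1.eq_or_lt with rfl | a1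
    · linarith
    · linarith [h2 k a1 a3]
  · rcases a2.eq_or_lt with rfl | a2
    · linarith
    · linarith [h4 k a3 a2]

/-- the midpoint of a position whose black end lies in the patch -/
theorem mid_near {k : ℕ} (hk : pvacmGam Tc posc σc (pvwiTau c 0) k ∈ Metric.closedBall x (6 * R)) :
    ‖pvfbMid Tc posc (pvasIt Tc σc (pvwiTau c 0) k) - pvacmGam Tc posc σc (pvwiTau c 0) k‖ ≤ μ := by
  have hm := (S.mesh_c hk).1
  unfold pvfbMid pvacmGam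
  have e : (posc (Tc.src (pvasIt Tc σc (pvwiTau c 0) k)) + posc (Tc.tgt (pvasIt Tc σc (pvwiTau c 0) k))) / 2 - posc (Tc.src (pvasIt Tc σc (pvwiTau c 0) k)) =
      -((posc (Tc.src (pvasIt Tc σc (pvwiTau c 0) k)) - posc (Tc.tgt (pvasIt Tc σc (pvwiTau c 0) k))) / 2) := by ring
  rw [e, norm_neg, norm_div]
  have : ‖(2 : ℂ)‖ = 2 := by simp
  rw [this]
  have := norm_nonneg (posc (Tc.src (pvasIt Tc σc (pvwiTau c 0) k)) - posc (Tc.tgt (pvasIt Tc σc (pvwiTau c 0) k)))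
  linarith

/-- `far` of `pvacm_scene` -/
theorem far {K : Set ℂ} {ρK r η : ℝ} (hK : K ⊆ Metric.closedBall x ρK) (hnum : 3 / 2 * (ρK + (r + η)) + μ < 7 * R / 2) {lo hi : ℕ}
    (h1 : 7 * R / 2 ≤ ‖pvacmGam Tc posc σc (pvwiTau c 0) lo - x‖) (h1' : pvacmGam Tc posc σc (pvwiTau c 0) lo ∈ Metric.closedBall x (6 * R))
    (h2 : 7 * R / 2 ≤ ‖pvacmGam Tc posc σc (pvwiTau c 0) hi - x‖) (h2' : pvacmGam Tc posc σc (pvwiTau c 0) hi ∈ Metric.closedBall x (6 * R)) :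
    ∃ a0 b0 c0 e0 : ℝ, K ⊆ pvtcRect a0 b0 c0 e0 ∧ pvfbMid Tc posc (pvasIt Tc σc (pvwiTau c 0) hi) ∉ pvtcRect (a0 - (r + η)) (b0 + (r + η)) (c0 - (r + η)) (e0 + (r + η)) ∧
      pvfbMid Tc posc (pvasIt Tc σc (pvwiTau c 0) lo) ∉ pvtcRect (a0 - (r + η)) (b0 + (r + η)) (c0 - (r + η)) (e0 + (r + η)) := by
  have key : ∀ k, 7 * R / 2 ≤ ‖pvacmGam Tc posc σc (pvwiTau c 0) k - x‖ → pvacmGam Tc posc σc (pvwiTau c 0) k ∈ Metric.closedBall x (6 * R) →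
      pvfbMid Tc posc (pvasIt Tc σc (pvwiTau c 0) k) ∉ pvtcRect (x.re - ρK - (r + η)) (x.re + ρK + (r + η)) (x.im - ρK - (r + η)) (x.im + ρK + (r + η)) := by
    intro k a1 a2 hm
    have e : pvfbMid Tc posc (pvasIt Tc σc (pvwiTau c 0) k) ∈ pvtcRect (x.re - (ρK + (r + η))) (x.re + (ρK + (r + η))) (x.im - (ρK + (r + η))) (x.im + (ρK + (r + η))) := by
      obtain ⟨g1, g2, g3, g4⟩ := hm
      exact ⟨by linarith, by linarith, by linarith, by linarith⟩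
    rw [pvfu_mem_sq] at e
    have a3 := pvfu_norm_le_sup (pvfbMid Tc posc (pvasIt Tc σc (pvwiTau c 0) k) - x)
    have a4 := S.mid_near a2
    have a5 := norm_sub_le_norm_sub_add_norm_sub (pvacmGam Tc posc σc (pvwiTau c 0) k) (pvfbMid Tc posc (pvasIt Tc σc (pvwiTau c 0) k)) x
    rw [norm_sub_rev] at a4
    linarith
  exact ⟨_, _, _, _, pvfu_ball_sub hK, key hi h2 h2', key lo h1 h1'⟩

/-- `lo_far` of `pvacm_scene` -/
theorem lo_far {K : Set ℂ} {ρK Sr : ℝ} (hK : K ⊆ Metric.closedBall x ρK) (hnum : ρK + Sr < 7 * R / 2) {lo : ℕ} (h1 : 7 * R / 2 ≤ ‖pvacmGam Tc posc σc (pvwiTau c 0) lo - x‖) :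
    ∀ q ∈ K, Sr < ‖pvacmGam Tc posc σc (pvwiTau c 0) lo - q‖ := by
  intro q hq
  have a1 := mem_closedBall_iff_norm.1 (hK hq)
  have a2 := norm_sub_le_norm_sub_add_norm_sub (pvacmGam Tc posc σc (pvwiTau c 0) lo) q x
  linarith

/-! ### (c) E19 in the plane -/

theorem left_s : 𝔇c.s.S.Left ⊆ plDom Rl := fun d hd => pvlw_dart_src S.loc (pvfw_ball_sub S.hR (S.box_s (S.inp.ins_s _ ⟨d, hd, rfl⟩)))

theorem left_t : 𝔇c.t.S.Left ⊆ plDom Rl := fun d hd => pvlw_dart_src S.loc (pvfw_ball_sub S.hR (S.box_t (S.inp.ins_t _ ⟨d, hd, rfl⟩)))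

theorem g_opp {i : ℕ} (hi : i < 𝔇c.g.n) : Rl (Tc.opp (𝔇c.g.e i)) (T.opp (𝔇.g.e i)) :=
  pvloc_pth_opp S.loc.loc S.dat.g hi (Or.inl (S.loc.full _ (S.arc_in i hi.le)).1)

/-- the frozen faces correspond, upwards -/
theorem J_up {d' : D} (hd : d' ∈ 𝔇.pvfyJ) : ∃ d ∈ 𝔇c.pvfyJ, Rl d d' := by
  rcases hd with ⟨i, hi, rfl⟩ | ⟨i, hi, rfl⟩ | ⟨i, hi, rfl⟩ | hd | hd
  · rw [S.dat.t.np] at hi
    exact ⟨_, Or.inl ⟨i, hi, rfl⟩, S.dat.t.ep i hi.le⟩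
  · rw [S.dat.s.nm] at hi
    exact ⟨_, Or.inr (Or.inl ⟨i, hi, rfl⟩), S.dat.s.em i hi⟩
  · rw [S.dat.g.n_eq] at hi
    exact ⟨_, Or.inr (Or.inr (Or.inl ⟨i, hi, rfl⟩)), S.g_opp hi⟩
  · obtain ⟨d, h1, h2⟩ := pvloc_left_bwd S.loc.loc S.dat.s.gt.S S.left_s hd
    exact ⟨d, Or.inr (Or.inr (Or.inr (Or.inl h2))), h1⟩
  · obtain ⟨d, h1, h2⟩ := pvloc_left_bwd S.loc.loc S.dat.t.gt.S S.left_t hd
    exact ⟨d, Or.inr (Or.inr (Or.inr (Or.inr h2))), h1⟩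

/-- the frozen faces correspond, downwards -/
theorem J_down {d : Dc} (hd : d ∈ 𝔇c.pvfyJ) : ∃ d' ∈ 𝔇.pvfyJ, Rl d d' := by
  rcases hd with ⟨i, hi, rfl⟩ | ⟨i, hi, rfl⟩ | ⟨i, hi, rfl⟩ | hd | hd
  · exact ⟨_, Or.inl ⟨i, by rw [S.dat.t.np]; exact hi, rfl⟩, S.dat.t.ep i hi.le⟩
  · exact ⟨_, Or.inr (Or.inl ⟨i, by rw [S.dat.s.nm]; exact hi, rfl⟩), S.dat.s.em i hi⟩
  · exact ⟨_, Or.inr (Or.inr (Or.inl ⟨i, by rw [S.dat.g.n_eq]; exact hi, rfl⟩)), S.g_opp hi⟩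
  · obtain ⟨d', h1, h2⟩ := pvloc_left_fwd S.loc.loc S.dat.s.gt.S S.left_s hd
    exact ⟨d', Or.inr (Or.inr (Or.inr (Or.inl h2))), h1⟩
  · obtain ⟨d', h1, h2⟩ := pvloc_left_fwd S.loc.loc S.dat.t.gt.S S.left_t hd
    exact ⟨d', Or.inr (Or.inr (Or.inr (Or.inr h2))), h1⟩

omit S in
/-- same face, through a local isomorphism -/
theorem sf_up (L : PvLoc Tc T Rl) {a d : Dc} {a' d' : D} (ha : Rl a a') (hd : Rl d d') (h : T.SF a' d') : Tc.SF a d := by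
  rcases h with rfl | rfl | rfl
  · exact Or.inl (L.iso.inj hd ha)
  · exact Or.inr (Or.inl (L.iso.inj hd (L.iso.nxt ha)))
  · exact Or.inr (Or.inr (L.iso.inj hd (L.iso.nxt (L.iso.nxt ha))))

/-- the tip of `Σ⁻(s)` is not the base point -/
theorem ts_pos : 0 < u1 - 𝔇c.s.nm := by
  obtain ⟨lo, h, -⟩ := S.lo_ex
  omega

/-- **E19 IN THE COMPLETION, FACE FORM**: at the times `tt ≤ k ≤ n` and `k < ts` the face of the position of the wall is not frozen -/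
theorem off_c {k : ℕ} (hk : (w2 + 𝔇c.t.np ≤ k ∧ k ≤ n) ∨ k < u1 - 𝔇c.s.nm) : ∀ d ∈ 𝔇c.pvfyJ, ¬ Tc.SF (pvasIt Tc σc (pvwiTau c 0) k) d := by
  have hp := S.ts_pos
  have key : ∀ k, w2 + 𝔇c.t.np ≤ k → k < n + (u1 - 𝔇c.s.nm) → ∀ d ∈ 𝔇c.pvfyJ, ¬ Tc.SF (pvasIt Tc σc (pvwiTau c 0) k) d := by
    intro k h1 h2 d hd hsf
    obtain ⟨o1, o2, o3, o4, o5⟩ := S.tab.off S.fr S.inp h1 h2
    rcases hd with ⟨i, hi, rfl⟩ | ⟨i, hi, rfl⟩ | ⟨i, hi, rfl⟩ | hd | hd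
    · refine o1 i hi (pvas_bw_face ?_ (S.bw k) (Tc.sf_symm hsf))
      rw [S.tab.ep i hi.le]
      exact S.bw _
    · refine o2 i hi (pvas_bw_face ?_ (S.bw k) (Tc.sf_symm hsf))
      rw [S.tab.em i hi]
      exact S.bw _
    · exact o3 i hi hsf
    · exact o4 (((pl_left_face 𝔇c.s.S).sf Tc hsf).1 hd)
    · exact o5 (((pl_left_face 𝔇c.t.S).sf Tc hsf).1 hd)
  rcases hk with ⟨h1, h2⟩ | h1
  · exact key k h1 (by omega)
  · have := key (k + n) (by have := S.tab.np_lt; omega) (by omega)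
    rwa [S.fr.per.add] at this

/-- **(c) E19 IN THE PLANE**: a plane position which is the twin of a position of the continuation has no frozen face -/
theorem off_pl {k : ℕ} (hk : (w2 + 𝔇c.t.np ≤ k ∧ k ≤ n) ∨ k < u1 - 𝔇c.s.nm) {a' : D} (ha : Rl (pvasIt Tc σc (pvwiTau c 0) k) a') : ∀ d' ∈ 𝔇.pvfyJ, ¬ T.SF a' d' := by
  intro d' hd' hsf
  obtain ⟨d, h1, h2⟩ := S.J_up hd'
  exact S.off_c hk d h1 (sf_up S.loc.loc ha h2 hsf)

/-! ### (d) the obstacle is the same set -/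

omit S in
theorem face_eq (L : PvLocP Tc T Rl posc pos (Metric.closedBall x (6 * R))) {d : Dc} {d' : D} (h : Rl d d') : pvfyFace Tc posc d = pvfyFace T pos d' := by
  unfold pvfyFace
  rw [L.pos_eq _ _ h, show posc (Tc.tgt d) = pos (T.tgt d') from L.pos_eq _ _ (L.loc.iso.nxt h), show posc (Tc.apex d) = pos (T.apex d') from L.pos_eq _ _ (L.loc.iso.nxt (L.loc.iso.nxt h))]

/-- **(d)** -/
theorem K_eq : 𝔇c.pvfyK posc = 𝔇.pvfyK pos := by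
  ext p
  unfold PvwDat.pvfyK
  simp only [Set.mem_iUnion, exists_prop]
  constructor
  · rintro ⟨d, hd, hp⟩
    obtain ⟨d', h1, h2⟩ := S.J_down hd
    exact ⟨d', h1, by rwa [← face_eq S.loc h2]⟩
  · rintro ⟨d', hd, hp⟩
    obtain ⟨d, h1, h2⟩ := S.J_up hd
    exact ⟨d, h1, by rwa [face_eq S.loc h2]⟩


end PvfwSeam

end seam

/-! ## core-free, three passages -/

section seam2

variable {Vc Dc V D : Type}

/-- the frame of 179 is a clock -/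
theorem PvwiFr.clock {T : PvMap V D} {s : V → Bool} {c : T.Cyc} {n : ℕ} {θ : ℕ → ℕ} (F : PvwiFr T s c n θ) : PvfwClock T s c (pvwiTau c 0) n θ :=
  ⟨F.per.bw, rfl, F.per.ret, F.per.min, F.per.pos, F.th0, fun i _ => (F.th i).1, fun i _ => (F.th i).2, F.mono⟩

variable {Tc : PvMap Vc Dc} {posc : Vc → ℂ} {σc : Vc → Bool} {T : PvMap V D} {pos : V → ℂ} {σ : V → Bool} {Rl : Dc → D → Prop}
  {x : ℂ} {R μ h : ℝ} {c : Tc.Cyc} {n : ℕ} {θ : ℕ → ℕ} {j : ℕ} {𝔇c : PvwDat Tc} {𝔇 : PvwDat T} {zs zt : ℂ} {τs τt : PvwTy} {Bs Bt : Set ℂ} {u1 u2 w1 w2 : ℕ}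

namespace PvfwSeam

variable (S : PvfwSeam Tc posc σc T pos σ Rl x R μ h c n θ j 𝔇c 𝔇 zs zt τs τt Bs Bt u1 u2 w1 w2)
include S

/-- `g⁻(s)` is a vertex of the rim -/
theorem gm_s : Tc.src (c.e j) = 𝔇c.s.gm := by
  obtain ⟨h1, -, h3⟩ := pvfy_inn_ends S.inp.gate_s
  have := S.inp.run_s 0 h3
  rw [Nat.add_zero] at this
  rw [this, 𝔇c.s.inn.src_e 0 h3, h1]

/-- `g⁻(t)` is a vertex of the rim -/
theorem gm_t : Tc.src (c.e (j + 𝔇c.s.inn.n + 𝔇c.g.n)) = 𝔇c.t.gm := by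
  obtain ⟨h1, -, h3⟩ := pvfy_inn_ends S.inp.gate_t
  have := S.inp.run_t 0 h3
  rw [Nat.add_zero] at this
  rw [this, 𝔇c.t.inn.src_e 0 h3, h1]

theorem gm_s_near : ‖posc 𝔇c.s.gm - zs‖ < τs.b * h := S.inp.gate_s.inside _ (pvwk_gate_ends S.fr.sph S.inp.gate_s).2.2.1

theorem gm_t_near : ‖posc 𝔇c.t.gm - zt‖ < τt.b * h := S.inp.gate_t.inside _ (pvwk_gate_ends S.fr.sph S.inp.gate_t).2.2.1

theorem gam_u1 : pvacmGam Tc posc σc (pvwiTau c 0) u1 = posc 𝔇c.s.gm := by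
  unfold pvacmGam
  rw [S.tab.dm_s]
  rfl

theorem gam_w1 : pvacmGam Tc posc σc (pvwiTau c 0) w1 = posc 𝔇c.t.gm := by
  unfold pvacmGam
  rw [S.tab.dm_t]
  rfl

/-- the black end of the tip of `Σ⁺(t)` is far from the centre -/
theorem tip_t_far {ρ : ℝ} (hB : Metric.ball zt (ρ + μ) ⊆ Bt) : ρ ≤ ‖pvacmGam Tc posc σc (pvwiTau c 0) (w2 + 𝔇c.t.np) - zt‖ := by
  by_contra hc
  push Not at hc
  have hK : pvacmGam Tc posc σc (pvwiTau c 0) (w2 + 𝔇c.t.np) ∈ Metric.closedBall x (6 * R) := pvfw_ball_sub S.hR (mem_ball_iff_norm.2 S.gam_tt)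
  have hm := (S.mesh_c hK).2.2
  unfold pvacmGam at hc hK
  rw [S.at_tt] at hc hm
  refine S.inp.stub_t.ep_out (hB (mem_ball_iff_norm.2 ?_))
  have := norm_sub_le_norm_sub_add_norm_sub (posc 𝔇c.t.ap) (posc (Tc.src (𝔇c.t.ep 𝔇c.t.np))) zt
  have e : 𝔇c.t.ap = Tc.apex (𝔇c.t.ep 𝔇c.t.np) := rfl
  rw [e] at this ⊢
  linarith

/-- the black end of the tip of `Σ⁻(s)` is far from the centre -/
theorem tip_s_far {ρ : ℝ} (hB : Metric.ball zs (ρ + μ) ⊆ Bs) : ρ ≤ ‖pvacmGam Tc posc σc (pvwiTau c 0) (u1 - 𝔇c.s.nm) - zs‖ := by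
  by_contra hc
  push Not at hc
  have hK : posc (Tc.src (Tc.opp (𝔇c.s.em 𝔇c.s.nm))) ∈ Metric.closedBall x (6 * R) := by
    rw [Tc.src_opp']
    exact pvfw_ball_sub S.hR (S.box_s (S.inp.stub_s.em_in _ le_rfl).2)
  have hm := (S.mesh_c hK).2.1
  rw [Tc.tgt_opp] at hm
  unfold pvacmGam at hc
  rw [S.at_ts] at hc
  refine S.inp.stub_s.em_out (hB (mem_ball_iff_norm.2 ?_))
  have := norm_sub_le_norm_sub_add_norm_sub (posc 𝔇c.s.am) (posc (Tc.src (𝔇c.s.em 𝔇c.s.nm))) zs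
  have e : 𝔇c.s.am = Tc.apex (Tc.opp (𝔇c.s.em 𝔇c.s.nm)) := rfl
  rw [e] at this ⊢
  rw [norm_sub_rev] at hm
  linarith

/-- **CORE-FREE ROUND `t`** (118 at the clock of 179): `𝔊` an actual gate of the completion round the gate of `t`, its disc (fattened by `μ`) inside the box: on the two continuations the black ends stay off `B(zt, a' h)` -/
theorem core_t {𝔊 : PvwSt Tc} {τ' : PvwTy} (hG : 𝔊.Gate posc h zt τ' σc) (hab : τt.b * h ≤ τ'.a * h) (hB : Metric.ball zt (τ'.b * h + μ) ⊆ Bt) (hμ : 0 ≤ μ) {k : ℕ}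
    (hk : (w2 + 𝔇c.t.np ≤ k ∧ k < n) ∨ k ≤ u1 - 𝔇c.s.nm) : τ'.a * h ≤ ‖pvacmGam Tc posc σc (pvwiTau c 0) k - zt‖ := by
  have t1 := S.tab.nm_le; have t2 := S.tab.u12; have t3 := S.tab.uw; have t4 := S.tab.w12; have t5 := S.tab.np_lt
  have hB' : Metric.ball zt (τ'.b * h) ⊆ Bt := (Metric.ball_subset_ball (by linarith)).trans hB
  have hi : ‖posc (Tc.src (c.e (j + 𝔇c.s.inn.n + 𝔇c.g.n))) - zt‖ < τ'.a * h := by rw [S.gm_t]; exact lt_of_lt_of_le S.gm_t_near hab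
  have h0 : τ'.b * h ≤ ‖posc (Tc.src (c.e 0)) - zt‖ := by
    by_contra hc
    exact S.inp.far_t (hB' (mem_ball_iff_norm.2 (not_le.1 hc)))
  have hw1 : ‖posc (Tc.src (pvasIt Tc σc (pvwiTau c 0) w1)) - zt‖ < τ'.a * h := by
    have := S.gam_w1
    unfold pvacmGam at this
    rw [this]
    exact lt_of_lt_of_le S.gm_t_near hab
  rcases hk with ⟨k1, k2⟩ | k1
  · exact (pvftg_clock_after S.fr.sph hG S.fr.clock S.fr.col hi h0 (k1 := w1) (k2 := w2 + 𝔇c.t.np) (k3 := k) (by omega) k1 k2 hw1 (S.tip_t_far hB)).2.1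
  · refine (pvftg_clock_before S.fr.sph hG S.fr.clock S.fr.col hi h0 (k1 := k) (k2 := u1 - 𝔇c.s.nm) (k3 := w1) k1 (by omega) (by omega) ?_ hw1).2.1
    by_contra hc
    have a1 : posc (Tc.src (pvasIt Tc σc (pvwiTau c 0) (u1 - 𝔇c.s.nm))) ∈ Bt := hB' (mem_ball_iff_norm.2 (not_le.1 hc))
    rw [S.at_ts] at a1
    exact Set.disjoint_left.1 S.inp.disj (S.inp.stub_s.em_in _ le_rfl).1 a1

/-- **CORE-FREE ROUND `s`** -/
theorem core_s {𝔊 : PvwSt Tc} {τ' : PvwTy} (hG : 𝔊.Gate posc h zs τ' σc) (hab : τs.b * h ≤ τ'.a * h) (hB : Metric.ball zs (τ'.b * h + μ) ⊆ Bs) (hμ : 0 ≤ μ) {k : ℕ}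
    (hk : (w2 + 𝔇c.t.np ≤ k ∧ k < n) ∨ k ≤ u1 - 𝔇c.s.nm) : τ'.a * h ≤ ‖pvacmGam Tc posc σc (pvwiTau c 0) k - zs‖ := by
  have t1 := S.tab.nm_le; have t2 := S.tab.u12; have t3 := S.tab.uw; have t4 := S.tab.w12; have t5 := S.tab.np_lt
  have hB' : Metric.ball zs (τ'.b * h) ⊆ Bs := (Metric.ball_subset_ball (by linarith)).trans hB
  have hi : ‖posc (Tc.src (c.e j)) - zs‖ < τ'.a * h := by rw [S.gm_s]; exact lt_of_lt_of_le S.gm_s_near hab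
  have h0 : τ'.b * h ≤ ‖posc (Tc.src (c.e 0)) - zs‖ := by
    by_contra hc
    exact S.inp.far_s (hB' (mem_ball_iff_norm.2 (not_le.1 hc)))
  have hu1 : ‖posc (Tc.src (pvasIt Tc σc (pvwiTau c 0) u1)) - zs‖ < τ'.a * h := by
    have := S.gam_u1
    unfold pvacmGam at this
    rw [this]
    exact lt_of_lt_of_le S.gm_s_near hab
  rcases hk with ⟨k1, k2⟩ | k1
  · refine (pvftg_clock_after S.fr.sph hG S.fr.clock S.fr.col hi h0 (k1 := u1) (k2 := w1) (k3 := k) (by omega) (by omega) k2 hu1 ?_).2.1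
    by_contra hc
    have a1 : posc (Tc.src (pvasIt Tc σc (pvwiTau c 0) w1)) ∈ Bs := hB' (mem_ball_iff_norm.2 (not_le.1 hc))
    rw [S.tab.dm_t] at a1
    exact Set.disjoint_left.1 S.inp.disj a1 (S.inp.ins_t _ (pvwk_gate_ends S.fr.sph S.inp.gate_t).2.2.1)
  · exact (pvftg_clock_before S.fr.sph hG S.fr.clock S.fr.col hi h0 (k1 := k) (k2 := u1 - 𝔇c.s.nm) (k3 := u1) k1 (by omega) (by omega) (S.tip_s_far hB) hu1).2.1

/-- **(e) THREE PASSAGES COME DOWN TO THE PLANE** -/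
theorem three {lo hi : ℕ} (hhi : hi < n) {y : ℂ} {s' S' : ℝ} (hsS : s' < S') (hK : Metric.ball y S' ⊆ Metric.closedBall x (6 * R))
    (h3 : PvfrThree (pvacmGam Tc posc σc (pvwiTau c 0)) y s' S' lo hi) : PvxvThree T pos σ y s' S' :=
  pvfw_three S.loc.loc S.loc.pos_eq (fun _ hd => pvlw_dart_src S.loc hd) (fun _ hd => pvlw_dart_apex S.loc hd) S.col hsS hK
    (pvacc_three (pos := posc) S.fr.per.bw (S.injOn hhi) h3)

end PvfwSeam

end seam2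

end Claimed.Agent.R289
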