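-- KEEP
import Claimed.Agent.R289.Tr.CoverD
import Claimed.Agent.R289.Tr.FitLiftS

/-!
# Row 289 (S0537), THE WALL, road E, (L2) `pvfh_cor`, (S) `exit_pvcb_scene`, file Tr/CoverDS : THE DOWN END FROM THE SEAM      (owner helper154; prefix `pvck_`)

`pvck_seam_down` = the SECOND conjunct of `PvcbSceneAt` (56, `Tr/FitL2`) read off the seam record `PvfwSeam` of 49 (`Tr/FitLiftS`) whose plane side is the model (`pvxT ω`, `pvxPos ω`, `pvxCol ω b`):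
three passages with marked times of the clock `γ = pvacmGam Tc posc σc (pvwiTau c 0)` in a window `[lo,hi]`, `hi < n`, round a point `y`, `‖y - x‖ ≤ 3R`  ⟹  `PvxvBad x R s S ω`.
`pvck_seam_downK` = the same for all points of a set `K ⊆ closedBall x (5R/2)` (field `ball` of `PvcbObs`).
-/

set_option autoImplicit false

namespace Claimed.Agent.R289

open Set Claims.C0465

section downS

variable {Vc Dc : Type} {Tc : PvMap Vc Dc} {posc : Vc → ℂ} {σc : Vc → Bool} {ω : PVSample} {b : Bool} {Rl : Dc → (delbPl (pvxY ω)).Dart → Prop}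
  {x : ℂ} {R μ h : ℝ} {c : Tc.Cyc} {n : ℕ} {θ : ℕ → ℕ} {j : ℕ} {𝔇c : PvwDat Tc} {𝔇 : PvwDat (pvxT ω)} {zs zt : ℂ} {τs τt : PvwTy} {Bs Bt : Set ℂ} {u1 u2 w1 w2 : ℕ}

/-- **THE DOWN END FROM THE SEAM** -/
theorem pvck_seam_down (S : PvfwSeam Tc posc σc (pvxT ω) (pvxPos ω) (pvxCol ω b) Rl x R μ h c n θ j 𝔇c 𝔇 zs zt τs τt Bs Bt u1 u2 w1 w2) {lo hi : ℕ} (hhi : hi < n)
    {y : ℂ} {s1 s2 : ℝ} (hy : ‖y - x‖ ≤ 3 * R) (h12 : s1 < s2) (h2 : s2 ≤ 3 * R) (h : PvfrThree (pvacmGam Tc posc σc (pvwiTau c 0)) y s1 s2 lo hi) : PvxvBad x R s1 s2 ω :=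
  pvck_bad (b := b) S.loc.loc S.loc.pos_eq (fun _ hd => pvlw_dart_src S.loc hd) (fun _ hd => pvlw_dart_apex S.loc hd) S.col (by have := S.bw 0; rwa [pvas_it_zero] at this) (S.injOn hhi) hy h12 h2 h

/-- the same for the points of an obstacle inside `closedBall x (5R/2)` = the second conjunct of `PvcbSceneAt` -/
theorem pvck_seam_downK (S : PvfwSeam Tc posc σc (pvxT ω) (pvxPos ω) (pvxCol ω b) Rl x R μ h c n θ j 𝔇c 𝔇 zs zt τs τt Bs Bt u1 u2 w1 w2) {lo hi : ℕ} (hhi : hi < n)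
    {K : Set ℂ} (hK : ∀ p ∈ K, ‖p - x‖ ≤ 5 / 2 * R) {s1 s2 : ℝ} (h12 : s1 < s2) (h2 : s2 ≤ 3 * R) :
    ∀ y ∈ K, PvfrThree (pvacmGam Tc posc σc (pvwiTau c 0)) y s1 s2 lo hi → PvxvBad x R s1 s2 ω :=
  fun y hy h => pvck_seam_down S hhi ((hK y hy).trans (by linarith [S.hR])) h12 h2 h

end downS

end Claimed.Agent.R289
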