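-- KEEP
import Claimed.Agent.R289.Defs.FitRec
import Claimed.Agent.R289.Tr.FitRoof
import Claimed.Agent.R289.Tr.AccK

/-!
# Row 289 (S0537, Cardy for Poisson-Voronoi), THE WALL, road E, file Tr/FitObs : (G) OF THE CUT OF (L2) = THE METRIC FACTS ON THE OBSTACLE OF RECORD      (helper266; prefix `pvcj_`, `Pvcj`)

CONSUMER: `exit_pvcb_obs` of `Tr/FitL2` (pen 56) = the record `PvcbObs` at the model.      THIS FILE IS UPSTREAM OF `Tr/FitL2` (it imports `Defs/FitRec`, `Tr/FitRoof`, `Tr/AccK` only), so `Tr/FitL2` imports it and closes (G) in five lines: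
the nine fields are delivered as ONE conjunction, in the order of the record v3.1 (`ball zs5 zt5 g_sub g_off_s g_off_t late_s late_t hull`), by **`pvcj_obs`**.

OBSTACLE:   `K = 𝔇.pvfyKd pos h zs zt τs τt` (62) `= 𝔇.pvkzKd pos zs (b_s h) zt (b_t h)` (119) by `rfl` = disc `s` ∪ faces of `Σ⁻(s)` ∪ right faces of `g₀` ∪ disc `t` ∪ faces of `Σ⁺(t)` (`pvkz_Kd_eq`).
* sec. 1  norms: square, sup norm `pvccN`, the grid centre `y = z + h y₀` of a tip cell sits at sup distance `r ± ρ h / 4` of the centre (field `nd` of `PvfeDoors`)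
* sec. 2  MODEL FREE: the record `PvcjIn` (what is used of the datum, of the mesh, of the numbers) and one lemma per field:
          `PvcjIn.ball` (the two ends of `g₀` are within `b h` of the two centres, so `‖z - x‖ ≤ 2R + b h`; boxes of size `O(h)`; right faces of `g₀` within the mesh of `g₀`),
          `PvcjIn.g_sub`, `PvcjIn.late_t` (`Kt` := the faces of `ep i`, `i < np`), `PvcjIn.late_s` (`Ks` := the faces of `em i`, `i ≤ nm`), `PvcjIn.fz_s`, `PvcjIn.fz_t` (frozen sites on `K`)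
* sec. 3  AT THE MODEL: `pvcj_in` (`PvfhArc` + `PvxvGood` + numbers ⟹ `PvcjIn`), `pvcj_hull`, `pvcj_obs`.
0 sorry.
-/

set_option autoImplicit false

namespace Claimed.Agent.R289

open Set Metric Filter Claims.C0465

/-! ## 1. norms -/

theorem pvcj_sq_norm {z w : ℂ} {r : ℝ} (h : w ∈ pvwSq z r) : ‖w - z‖ ≤ 2 * r := by
  have := Complex.norm_le_abs_re_add_abs_im (w - z)
  linarith [h.1, h.2]

theorem pvcj_N_le (w : ℂ) : pvccN w ≤ ‖w‖ := max_le (Complex.abs_re_le_norm w) (Complex.abs_im_le_norm w)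

theorem pvcj_le_N (w : ℂ) : ‖w‖ ≤ 2 * pvccN w := by
  have h0 := Complex.norm_le_abs_re_add_abs_im w
  have h1 : |w.re| ≤ pvccN w := le_max_left _ _
  have h2 : |w.im| ≤ pvccN w := le_max_right _ _
  linarith

theorem pvcj_tri (a b c : ℂ) : ‖a - c‖ ≤ ‖a - b‖ + ‖b - c‖ := norm_sub_le_norm_sub_add_norm_sub a b c

/-- the grid centre of a tip cell sits (up to `ρ h / 4`, sup norm) on the boundary of the box of the level -/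
theorem pvcj_ctr {h ρ rr : ℝ} (h0 : 0 < h) (z : ℂ) {yy : ℂ} (hnd : |pvccN yy - rr| ≤ ρ / 4) :
    rr * h - ρ * h / 4 ≤ ‖z + (h : ℂ) * yy - z‖ ∧ ‖z + (h : ℂ) * yy - z‖ ≤ 2 * (rr * h) + ρ * h / 2 := by
  have e : z + (h : ℂ) * yy - z = (h : ℂ) * yy := by ring
  have e2 : pvccN ((h : ℂ) * yy) = h * pvccN yy := pvccN_real_mul h0.le yy
  have a1 := pvcj_N_le ((h : ℂ) * yy)
  have a2 := pvcj_le_N ((h : ℂ) * yy)
  rw [e2] at a1 a2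
  rw [abs_le] at hnd
  obtain ⟨n1, n2⟩ := hnd
  rw [e]
  constructor
  · nlinarith
  · nlinarith

/-- the half side of the box of the level against the radius of the core disc -/
theorem pvcj_rad_ge {N : PvwNum} {h : ℝ} {τ : PvwTy} (h0 : 0 < h) (r1 : 0 ≤ N.rho1) (hb : τ.b + 2 ≤ 2 * τ.b2) : (τ.b + 2) * h ≤ pvwRad N h τ τ.k := by
  unfold pvwRad
  have : 0 ≤ (τ.k : ℝ) * N.rho1 := mul_nonneg (Nat.cast_nonneg _) r1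
  exact mul_le_mul_of_nonneg_right (by linarith) h0.le

/-! ## 2. model free -/

section free

variable {V D : Type} {T : PvMap V D} {pos : V → ℂ}

/-- the inner arc of a gate stays within `b h` of the centre -/
theorem pvcj_inn_near {𝔖 : PvwSt T} {h : ℝ} {z : ℂ} {ty : PvwTy} {s : V → Bool} (hg : 𝔖.Gate pos h z ty s) {i : ℕ} (hi : i ≤ 𝔖.inn.n) : ‖pos (𝔖.inn.v i) - z‖ ≤ ty.b * h := by
  obtain ⟨n, h1, h2, j, -, -, h3, -⟩ := hg.strand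
  obtain ⟨a1, a2, -⟩ := h3 i hi
  simp only at a2
  rw [a2]
  rcases a1.eq_or_lt with e | e
  · rw [e, h1]
    obtain ⟨k, hk⟩ := hg.dp_on
    refine (hg.ann _ ⟨k + 1, ?_⟩).2.le
    rw [← 𝔖.S.chain, hk, T.tgt_opp]
  · exact (hg.inside _ ⟨_, h2 _ e, rfl⟩).le

/-- the obstacle of 62 is the obstacle of 119 -/
theorem pvcj_Kd_eq (𝔇 : PvwDat T) (pos : V → ℂ) (h : ℝ) (zs zt : ℂ) (τs τt : PvwTy) : 𝔇.pvfyKd pos h zs zt τs τt = 𝔇.pvkzKd pos zs (τs.b * h) zt (τt.b * h) := rfl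

/-- **WHAT (G) USES**: of the datum (half states, ends of `g₀`, `g₀` in `B(x,2R)` and off the two mouths of record), of the mesh (`μ` on the right faces of `g₀`), of the numbers -/
structure PvcjIn (T : PvMap V D) (pos : V → ℂ) (N : PvwNum) (h δ μ : ℝ) (x : ℂ) (R : ℝ) (zs zt : ℂ) (τs τt : PvwTy) (σ σ' : V → Bool) (𝔇 : PvwDat T) : Prop where
  sph : T.IsSph
  st_s : 𝔇.s.AtIn pos N h zs τs σ
  st_t : 𝔇.t.AtOut pos N h zt τt σ'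
  pos_n : 0 < 𝔇.g.n
  g0 : ‖pos (𝔇.g.v 0) - zs‖ ≤ τs.b * h
  g1 : ‖pos (𝔇.g.v 𝔇.g.n) - zt‖ ≤ τt.b * h
  in2R : ∀ i, i ≤ 𝔇.g.n → ‖pos (𝔇.g.v i) - x‖ ≤ 2 * R
  far_s : ∀ i, i ≤ 𝔇.g.n → 2 * N.rho * h < ‖pos (𝔇.g.v i) - τs.cm h zs‖
  far_t : ∀ i, i ≤ 𝔇.g.n → 2 * N.rho * h < ‖pos (𝔇.g.v i) - τt.cp h zt‖
  mesh : ∀ i, i < 𝔇.g.n → ‖pos (𝔇.g.v (i + 1)) - pos (𝔇.g.v i)‖ ≤ μ ∧ ‖pos (T.apex (𝔇.pvkzG i)) - pos (𝔇.g.v i)‖ ≤ μ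
  far : R / 3 ≤ ‖zs - zt‖
  h0 : 0 < h
  d0 : 0 < δ
  rho0 : 0 < N.rho
  rho_le : N.rho ≤ 1
  rho1 : 0 ≤ N.rho1
  dr : 8192 * δ ≤ N.rho * h
  mu : μ ≤ δ
  bs0 : 0 ≤ τs.b
  bt0 : 0 ≤ τt.b
  bs : τs.b + 2 ≤ 2 * τs.b2
  bt : τt.b + 2 ≤ 2 * τt.b2
  nd_s : |pvccN τs.ym - (2 * τs.b2 + τs.k * N.rho1)| ≤ N.rho / 4
  nd_t : |pvccN τt.yp - (2 * τt.b2 + τt.k * N.rho1)| ≤ N.rho / 4
  rs : pvwRad N h τs τs.k ≤ R / 100
  rt : pvwRad N h τt τt.k ≤ R / 100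

namespace PvcjIn

variable {N : PvwNum} {h δ μ : ℝ} {x : ℂ} {R : ℝ} {zs zt : ℂ} {τs τt : PvwTy} {σ σ' : V → Bool} {𝔇 : PvwDat T}

theorem rho_h (I : PvcjIn T pos N h δ μ x R zs zt τs τt σ σ' 𝔇) : N.rho * h ≤ h := mul_le_of_le_one_left I.h0.le I.rho_le

theorem rad_s (I : PvcjIn T pos N h δ μ x R zs zt τs τt σ σ' 𝔇) : (τs.b + 2) * h ≤ pvwRad N h τs τs.k := pvcj_rad_ge I.h0 I.rho1 I.bs

theorem rad_t (I : PvcjIn T pos N h δ μ x R zs zt τs τt σ σ' 𝔇) : (τt.b + 2) * h ≤ pvwRad N h τt τt.k := pvcj_rad_ge I.h0 I.rho1 I.bt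

theorem bh_s (I : PvcjIn T pos N h δ μ x R zs zt τs τt σ σ' 𝔇) : 0 ≤ τs.b * h := mul_nonneg I.bs0 I.h0.le

theorem bh_t (I : PvcjIn T pos N h δ μ x R zs zt τs τt σ σ' 𝔇) : 0 ≤ τt.b * h := mul_nonneg I.bt0 I.h0.le

/-- `y⁻(s)` against `z_s` -/
theorem ys (I : PvcjIn T pos N h δ μ x R zs zt τs τt σ σ' 𝔇) :
    pvwRad N h τs τs.k - N.rho * h / 4 ≤ ‖τs.cm h zs - zs‖ ∧ ‖τs.cm h zs - zs‖ ≤ 2 * pvwRad N h τs τs.k + N.rho * h / 2 := pvcj_ctr I.h0 zs I.nd_s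

/-- `y⁺(t)` against `z_t` -/
theorem yt (I : PvcjIn T pos N h δ μ x R zs zt τs τt σ σ' 𝔇) :
    pvwRad N h τt τt.k - N.rho * h / 4 ≤ ‖τt.cp h zt - zt‖ ∧ ‖τt.cp h zt - zt‖ ≤ 2 * pvwRad N h τt τt.k + N.rho * h / 2 := pvcj_ctr I.h0 zt I.nd_t

/-- **field `zs5`** -/
theorem zs5 (I : PvcjIn T pos N h δ μ x R zs zt τs τt σ σ' 𝔇) : ‖zs - x‖ ≤ 5 / 2 * R := by
  have a3 := pvcj_tri zs (pos (𝔇.g.v 0)) x
  have a4 := I.in2R 0 (Nat.zero_le _)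
  have a5 := I.g0
  rw [norm_sub_rev] at a5
  have a6 := I.rad_s
  have a7 := I.rs
  have a8 := I.h0
  have a9 := I.bh_s
  nlinarith

/-- **field `zt5`** -/
theorem zt5 (I : PvcjIn T pos N h δ μ x R zs zt τs τt σ σ' 𝔇) : ‖zt - x‖ ≤ 5 / 2 * R := by
  have a3 := pvcj_tri zt (pos (𝔇.g.v 𝔇.g.n)) x
  have a4 := I.in2R 𝔇.g.n le_rfl
  have a5 := I.g1
  rw [norm_sub_rev] at a5
  have a6 := I.rad_t
  have a7 := I.rt
  have a8 := I.h0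
  have a9 := I.bh_t
  nlinarith

theorem box_s (I : PvcjIn T pos N h δ μ x R zs zt τs τt σ σ' 𝔇) : pvwSq zs (pvwRad N h τs τs.k) ⊆ closedBall x (5 / 2 * R) := fun w hw => by
  rw [mem_closedBall_iff_norm]
  have a1 := pvcj_sq_norm hw
  have a2 := pvcj_tri w zs x
  have a3 := pvcj_tri zs (pos (𝔇.g.v 0)) x
  have a4 := I.in2R 0 (Nat.zero_le _)
  have a5 := I.g0
  rw [norm_sub_rev] at a5
  have a6 := I.rad_s
  have a7 := I.rs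
  have a8 := I.h0
  have a9 := I.bh_s
  nlinarith

theorem box_t (I : PvcjIn T pos N h δ μ x R zs zt τs τt σ σ' 𝔇) : pvwSq zt (pvwRad N h τt τt.k) ⊆ closedBall x (5 / 2 * R) := fun w hw => by
  rw [mem_closedBall_iff_norm]
  have a1 := pvcj_sq_norm hw
  have a2 := pvcj_tri w zt x
  have a3 := pvcj_tri zt (pos (𝔇.g.v 𝔇.g.n)) x
  have a4 := I.in2R 𝔇.g.n le_rfl
  have a5 := I.g1
  rw [norm_sub_rev] at a5
  have a6 := I.rad_t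
  have a7 := I.rt
  have a8 := I.h0
  have a9 := I.bh_t
  nlinarith

/-- **field `ball`** -/
theorem ball (I : PvcjIn T pos N h δ μ x R zs zt τs τt σ σ' 𝔇) : ∀ p ∈ 𝔇.pvfyKd pos h zs zt τs τt, ‖p - x‖ ≤ 5 / 2 * R := fun p hp => by
  have hbs : τs.b * h ≤ pvwRad N h τs τs.k := by nlinarith [I.rad_s, I.bh_s, I.h0]
  have hbt : τt.b * h ≤ pvwRad N h τt τt.k := by nlinarith [I.rad_t, I.bh_t, I.h0]
  refine mem_closedBall_iff_norm.1 (pvkz_Kd_ball I.sph I.st_s I.st_t hbs hbt I.box_s I.box_t I.mesh (fun k hk => ?_) hp)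
  have a1 := I.in2R k hk.le
  have a2 := I.mu
  have a3 := I.dr
  have a4 := I.rho_h
  have a5 := I.rad_s
  have a6 := I.rs
  have a7 := I.bh_s
  have a8 := I.d0
  nlinarith

/-- **field `g_sub`** -/
theorem g_sub (I : PvcjIn T pos N h δ μ x R zs zt τs τt σ σ' 𝔇) : pos '' 𝔇.g.verts ⊆ 𝔇.pvfyKd pos h zs zt τs τt := by
  rintro _ ⟨v, hv, rfl⟩
  exact Or.inl (Or.inl (pvfy_K_vert I.pos_n v hv))

/-- **field `late_t`** -/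
theorem late_t (I : PvcjIn T pos N h δ μ x R zs zt τs τt σ σ' 𝔇) :
    ∃ Kt, Kt ⊆ 𝔇.pvfyKd pos h zs zt τs τt ∧ IsPreconnected Kt ∧ (∀ p ∈ 𝔇.pvfyKd pos h zs zt τs τt, ‖p - τt.cp h zt‖ ≤ N.rho * h + 44 * δ → p ∈ Kt) ∧ Kt ⊆ pvwSq zt (pvwRad N h τt τt.k) := by
  refine ⟨pvkzU T pos 𝔇.t.ep (Iio 𝔇.t.np), (pvkz_ep_sub 𝔇 pos).trans (pvkz_K_sub_Kd 𝔇 pos _ _ _ _), pvkz_U_preconn ordConnected_Iio fun i _ hi => pvkz_touch_ep I.st_t.stub (le_of_lt hi), ?_,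
    pvkz_ep_box I.st_t.stub (pvkz_sq_convex _ _)⟩
  intro p hp hpy
  have hp' : p ∈ 𝔇.pvkzKd pos zs (τs.b * h) zt (τt.b * h) := hp
  rw [pvkz_Kd_eq I.st_s.gate I.st_t.gate] at hp'
  have hbs : τs.b * h ≤ pvwRad N h τs τs.k := by nlinarith [I.rad_s, I.bh_s, I.h0]
  have b1 := I.rad_s
  have b2 := I.rad_t
  have b3 := I.rs
  have b4 := I.rt
  have b5 := I.rho_h
  have b6 := I.dr
  have b7 := I.d0
  have b8 := I.h0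
  have b9 := I.bh_s
  have b10 := I.bh_t
  obtain ⟨y1, y2⟩ := I.yt
  have b11 := I.far
  have far_of : ∀ C : ℝ, C ≤ 2 * pvwRad N h τs τs.k → ‖p - zs‖ ≤ C → False := by
    intro C hC hpz
    have c1 := pvcj_tri zs p zt
    have c2 := pvcj_tri p (τt.cp h zt) zt
    rw [norm_sub_rev] at hpz
    nlinarith
  rcases hp' with (((hp' | hp') | hp') | hp') | hp'
  · exact (far_of _ (by linarith) (mem_closedBall_iff_norm.1 hp')).elim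
  · exact (far_of _ le_rfl (pvcj_sq_norm ((pvkz_in_box I.sph I.st_s hbs) (Or.inr hp')))).elim
  · obtain ⟨k, hk, hpk⟩ := pvkz_G_near I.mesh hp'
    have c1 := I.far_t k hk.le
    have c2 := pvcj_tri (pos (𝔇.g.v k)) p (τt.cp h zt)
    have c3 := I.mu
    rw [norm_sub_rev] at hpk
    nlinarith
  · have c1 := mem_closedBall_iff_norm.1 hp'
    have c2 := pvcj_tri (τt.cp h zt) p zt
    rw [norm_sub_rev] at hpy
    nlinarith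
  · exact hp'

/-- **field `late_s`** -/
theorem late_s (I : PvcjIn T pos N h δ μ x R zs zt τs τt σ σ' 𝔇) :
    ∃ Ks, Ks ⊆ 𝔇.pvfyKd pos h zs zt τs τt ∧ IsPreconnected Ks ∧ (∀ p ∈ 𝔇.pvfyKd pos h zs zt τs τt, ‖p - τs.cm h zs‖ ≤ N.rho * h + 44 * δ → p ∈ Ks) ∧ Ks ⊆ pvwSq zs (pvwRad N h τs τs.k) := by
  have hbs : τs.b * h ≤ pvwRad N h τs τs.k := by nlinarith [I.rad_s, I.bh_s, I.h0]
  have hbt : τt.b * h ≤ pvwRad N h τt τt.k := by nlinarith [I.rad_t, I.bh_t, I.h0]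
  refine ⟨pvkzU T pos 𝔇.s.em (Iic 𝔇.s.nm), (pvkz_em_sub 𝔇 pos).trans (pvkz_K_sub_Kd 𝔇 pos _ _ _ _), pvkz_U_preconn ordConnected_Iic fun i _ hi => pvkz_touch_em I.st_s.stub hi, ?_,
    subset_union_right.trans (pvkz_in_box I.sph I.st_s hbs)⟩
  intro p hp hpy
  have hp' : p ∈ 𝔇.pvkzKd pos zs (τs.b * h) zt (τt.b * h) := hp
  rw [pvkz_Kd_eq I.st_s.gate I.st_t.gate] at hp'
  have b1 := I.rad_s
  have b2 := I.rad_t
  have b3 := I.rs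
  have b4 := I.rt
  have b5 := I.rho_h
  have b6 := I.dr
  have b7 := I.d0
  have b8 := I.h0
  have b9 := I.bh_s
  have b10 := I.bh_t
  obtain ⟨y1, y2⟩ := I.ys
  have b11 := I.far
  have far_of : ∀ C : ℝ, C ≤ 2 * pvwRad N h τt τt.k → ‖p - zt‖ ≤ C → False := by
    intro C hC hpz
    have c1 := pvcj_tri zs p zt
    have c2 := pvcj_tri p (τs.cm h zs) zs
    rw [norm_sub_rev zs p] at c1
    nlinarith
  rcases hp' with (((hp' | hp') | hp') | hp') | hp'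
  · have c1 := mem_closedBall_iff_norm.1 hp'
    have c2 := pvcj_tri (τs.cm h zs) p zs
    rw [norm_sub_rev] at hpy
    nlinarith
  · exact hp'
  · obtain ⟨k, hk, hpk⟩ := pvkz_G_near I.mesh hp'
    have c1 := I.far_s k hk.le
    have c2 := pvcj_tri (pos (𝔇.g.v k)) p (τs.cm h zs)
    have c3 := I.mu
    rw [norm_sub_rev] at hpk
    nlinarith
  · exact (far_of _ (by linarith) (mem_closedBall_iff_norm.1 hp')).elim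
  · exact (far_of _ le_rfl (pvcj_sq_norm ((pvkz_out_box I.st_t hbt) (Or.inr hp')))).elim

/-- the sites frozen by `Σ_in(s)` lie on the obstacle -/
theorem fz_s (I : PvcjIn T pos N h δ μ x R zs zt τs τt σ σ' 𝔇) : pos '' 𝔇.s.fzIn ⊆ 𝔇.pvfyKd pos h zs zt τs τt := by
  rintro _ ⟨v, hv, rfl⟩
  exact pvkz_fz_mem_Kd I.sph I.st_s I.st_t I.pos_n (Or.inl (Or.inl (Or.inr hv)))

/-- the sites frozen by `Σ_out(t)` lie on the obstacle -/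
theorem fz_t (I : PvcjIn T pos N h δ μ x R zs zt τs τt σ σ' 𝔇) : pos '' 𝔇.t.fzOut ⊆ 𝔇.pvfyKd pos h zs zt τs τt := by
  rintro _ ⟨v, hv, rfl⟩
  exact pvkz_fz_mem_Kd I.sph I.st_s I.st_t I.pos_n (Or.inl (Or.inl (Or.inl hv)))

end PvcjIn

end free

/-! ## 3. at the model -/

section model

variable {τ : Type} {c : ℝ} {𝔓 : PvxPar τ c} {x : ℂ} {R : ℝ} {m : ℕ} {ω : PVSample} {P : PvbRim} {s t : PvbPin τ} {𝔇 : PvwDat (pvxT ω)} {j : ℕ}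

/-- the mesh on the right faces of `g₀` -/
theorem pvcj_mesh {μ : ℝ} (hR : 0 ≤ R) (hM : L9Fine (pvxY ω) (closedBall x (6 * R)) μ) (in2R : ∀ i, i ≤ 𝔇.g.n → ‖pvxPos ω (𝔇.g.v i) - x‖ ≤ 2 * R) :
    ∀ i, i < 𝔇.g.n → ‖pvxPos ω (𝔇.g.v (i + 1)) - pvxPos ω (𝔇.g.v i)‖ ≤ μ ∧ ‖pvxPos ω ((pvxT ω).apex (𝔇.pvkzG i)) - pvxPos ω (𝔇.g.v i)‖ ≤ μ := by
  intro i hi
  have h1 : (pvxT ω).src (𝔇.pvkzG i) = 𝔇.g.v (i + 1) := by
    show (pvxT ω).src ((pvxT ω).opp _) = _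
    rw [(pvxT ω).src_opp', 𝔇.g.tgt_e i hi]
  have h2 : (pvxT ω).tgt (𝔇.pvkzG i) = 𝔇.g.v i := by
    show (pvxT ω).tgt ((pvxT ω).opp _) = _
    rw [(pvxT ω).tgt_opp, 𝔇.g.src_e i hi]
  have hf := delb_plane_face (Y := pvxY ω) (𝔇.pvkzG i)
  have hin : pvxPos ω (𝔇.g.v i) ∈ closedBall x (6 * R) := by
    rw [mem_closedBall_iff_norm]
    linarith [in2R i hi.le]
  have key := hM _ _ _ hf (Or.inr (Or.inl (by
    show pvxPos ω ((pvxT ω).tgt (𝔇.pvkzG i)) ∈ _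
    rw [h2]; exact hin)))
  have k1 : ‖pvxPos ω ((pvxT ω).tgt (𝔇.pvkzG i)) - pvxPos ω ((pvxT ω).src (𝔇.pvkzG i))‖ ≤ μ := key.1
  have k2 : ‖pvxPos ω ((pvxT ω).apex (𝔇.pvkzG i)) - pvxPos ω ((pvxT ω).tgt (𝔇.pvkzG i))‖ ≤ μ := key.2.2
  rw [h1, h2] at k1
  rw [h2] at k2
  exact ⟨by rw [norm_sub_rev]; exact k1, k2⟩

/-- **FROM THE ARC OF RECORD TO THE INPUT OF (G)** -/
theorem pvcj_in (hW : 𝔓.Wf) (doors : PvfeDoors (𝔓.Γ m) 𝔓.ty 𝔓.num (pvlmH m)) (b_gap : ∀ u, (𝔓.ty u).b + 2 ≤ 2 * (𝔓.ty u).b2)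
    (dr : 8192 * pvlmDel c m ≤ 𝔓.num.rho * pvlmH m) (rR : ∀ u, pvwRad 𝔓.num (pvlmH m) (𝔓.ty u) (𝔓.ty u).k ≤ R / 100) (hR : 0 < R)
    (hg : PvxvGood x R (pvxvMu c m) ω) (far : R / 3 ≤ ‖s.ctr - t.ctr‖) (arc : PvfhArc 𝔓 x R m ω P s t 𝔇 j) :
    PvcjIn (pvxT ω) (pvxPos ω) 𝔓.num (pvlmH m) (pvlmDel c m) (pvxvMu c m) x R s.ctr t.ctr (𝔓.ty s.typ) (𝔓.ty t.typ) (pvxCol ω (𝔓.col s.typ)) (pvxCol ω (𝔓.col t.typ)) 𝔇 where
  sph := delb_plane_isSph hg.1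
  st_s := arc.at_s.st.inn
  st_t := arc.at_t.st.out
  pos_n := arc.pos_n
  g0 := by
    have e1 := arc.arc 0 (Nat.zero_le _)
    have e2 := arc.pin_s.run 𝔇.s.inn.n le_rfl
    rw [add_zero] at e1
    rw [← e1, e2]
    exact pvcj_inn_near arc.at_s.st.inn.gate le_rfl
  g1 := by
    have e1 := arc.arc 𝔇.g.n le_rfl
    have e2 := arc.pin_t.run 0 (Nat.zero_le _)
    rw [add_zero] at e2
    rw [← e1, e2]
    exact pvcj_inn_near arc.at_t.st.out.gate (Nat.zero_le _)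
  in2R := arc.in2R
  far_s := arc.far_s
  far_t := arc.far_t
  mesh := pvcj_mesh hR.le hg.2 arc.in2R
  far := far
  h0 := pvlm_H_pos m
  d0 := pvlm_Del_pos c m
  rho0 := hW.rho0
  rho_le := by linarith [hW.rho1, hW.rho2, hW.rho3]
  rho1 := by linarith [hW.rho0, hW.rho1]
  dr := dr
  mu := by
    unfold pvxvMu
    linarith [pvlm_Del_pos c m]
  bs0 := ((hW.a0 _).trans (hW.ab _)).le
  bt0 := ((hW.a0 _).trans (hW.ab _)).le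
  bs := b_gap _
  bt := b_gap _
  nd_s := doors.nd_m _
  nd_t := doors.nd_p _
  rs := rR _
  rt := rR _

/-- **field `hull`**, at the hulls of record `pvfhZ` (mouths centred at the grid centres) -/
theorem pvcj_hull {N' : PvwNum} {μ : ℝ} {σ σ' : ↥(pvxY ω) → Bool}
    (I : PvcjIn (pvxT ω) (pvxPos ω) N' (pvlmH m) (pvlmDel c m) μ x R s.ctr t.ctr (𝔓.ty s.typ) (𝔓.ty t.typ) σ σ' 𝔇) :
    pvfhZ 𝔓 m s t 𝔇 ⊆ pvtCells (pvlmDel c m) (𝔇.pvfyKd (pvxPos ω) (pvlmH m) s.ctr t.ctr (𝔓.ty s.typ) (𝔓.ty t.typ) ∪ closedBall ((𝔓.ty s.typ).cm (pvlmH m) s.ctr) (𝔓.num.rho * pvlmH m) ∪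
      closedBall ((𝔓.ty t.typ).cp (pvlmH m) t.ctr) (𝔓.num.rho * pvlmH m)) := by
  unfold pvfhZ pvxHull
  refine union_subset (pvt_cells_mono (union_subset ?_ ?_)) (pvt_cells_mono (union_subset ?_ ?_))
  · exact fun p hp => Or.inl (Or.inl (I.fz_s hp))
  · exact fun p hp => Or.inl (Or.inr hp)
  · exact fun p hp => Or.inl (Or.inl (I.fz_t hp))
  · exact fun p hp => Or.inr hp

/-- **(G) AT ONE LEVEL**: the nine fields of `PvcbObs` (`Tr/FitL2`) at the obstacle of record, in the order of the record -/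
theorem pvcj_obs (hW : 𝔓.Wf) (doors : PvfeDoors (𝔓.Γ m) 𝔓.ty 𝔓.num (pvlmH m)) (b_gap : ∀ u, (𝔓.ty u).b + 2 ≤ 2 * (𝔓.ty u).b2)
    (dr : 8192 * pvlmDel c m ≤ 𝔓.num.rho * pvlmH m) (rR : ∀ u, pvwRad 𝔓.num (pvlmH m) (𝔓.ty u) (𝔓.ty u).k ≤ R / 100) (hR : 0 < R)
    (hg : PvxvGood x R (pvxvMu c m) ω) (far : R / 3 ≤ ‖s.ctr - t.ctr‖) (arc : PvfhArc 𝔓 x R m ω P s t 𝔇 j) :
    (∀ p ∈ 𝔇.pvfyKd (pvxPos ω) (pvlmH m) s.ctr t.ctr (𝔓.ty s.typ) (𝔓.ty t.typ), ‖p - x‖ ≤ 5 / 2 * R) ∧ ‖s.ctr - x‖ ≤ 5 / 2 * R ∧ ‖t.ctr - x‖ ≤ 5 / 2 * R ∧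
    pvxPos ω '' 𝔇.g.verts ⊆ 𝔇.pvfyKd (pvxPos ω) (pvlmH m) s.ctr t.ctr (𝔓.ty s.typ) (𝔓.ty t.typ) ∧
    (∀ p ∈ pvxPos ω '' 𝔇.g.verts, 2 * (𝔓.num.rho * pvlmH m) < ‖p - (𝔓.ty s.typ).cm (pvlmH m) s.ctr‖) ∧
    (∀ p ∈ pvxPos ω '' 𝔇.g.verts, 2 * (𝔓.num.rho * pvlmH m) < ‖p - (𝔓.ty t.typ).cp (pvlmH m) t.ctr‖) ∧
    (∃ Ks, Ks ⊆ 𝔇.pvfyKd (pvxPos ω) (pvlmH m) s.ctr t.ctr (𝔓.ty s.typ) (𝔓.ty t.typ) ∧ IsPreconnected Ks ∧
      (∀ p ∈ 𝔇.pvfyKd (pvxPos ω) (pvlmH m) s.ctr t.ctr (𝔓.ty s.typ) (𝔓.ty t.typ), ‖p - (𝔓.ty s.typ).cm (pvlmH m) s.ctr‖ ≤ 𝔓.num.rho * pvlmH m + 44 * pvlmDel c m → p ∈ Ks) ∧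
      Ks ⊆ pvwSq s.ctr (pvwRad 𝔓.num (pvlmH m) (𝔓.ty s.typ) (𝔓.ty s.typ).k)) ∧
    (∃ Kt, Kt ⊆ 𝔇.pvfyKd (pvxPos ω) (pvlmH m) s.ctr t.ctr (𝔓.ty s.typ) (𝔓.ty t.typ) ∧ IsPreconnected Kt ∧
      (∀ p ∈ 𝔇.pvfyKd (pvxPos ω) (pvlmH m) s.ctr t.ctr (𝔓.ty s.typ) (𝔓.ty t.typ), ‖p - (𝔓.ty t.typ).cp (pvlmH m) t.ctr‖ ≤ 𝔓.num.rho * pvlmH m + 44 * pvlmDel c m → p ∈ Kt) ∧
      Kt ⊆ pvwSq t.ctr (pvwRad 𝔓.num (pvlmH m) (𝔓.ty t.typ) (𝔓.ty t.typ).k)) ∧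
    pvfhZ 𝔓 m s t 𝔇 ⊆ pvtCells (pvlmDel c m) (𝔇.pvfyKd (pvxPos ω) (pvlmH m) s.ctr t.ctr (𝔓.ty s.typ) (𝔓.ty t.typ) ∪ closedBall ((𝔓.ty s.typ).cm (pvlmH m) s.ctr) (𝔓.num.rho * pvlmH m) ∪
      closedBall ((𝔓.ty t.typ).cp (pvlmH m) t.ctr) (𝔓.num.rho * pvlmH m)) := by
  have I := pvcj_in hW doors b_gap dr rR hR hg far arc
  refine ⟨I.ball, I.zs5, I.zt5, I.g_sub, ?_, ?_, I.late_s, I.late_t, pvcj_hull I⟩
  · rintro _ ⟨v, ⟨i, hi, rfl⟩, rfl⟩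
    have := arc.far_s i hi
    rwa [mul_assoc] at this
  · rintro _ ⟨v, ⟨i, hi, rfl⟩, rfl⟩
    have := arc.far_t i hi
    rwa [mul_assoc] at this

end model

end Claimed.Agent.R289
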