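-- KEEP
import Claimed.Agent.R289.Tr.LocalW
import Claimed.Agent.R289.Tr.LocalF
import Claimed.Agent.R289.Tr.Wit
import Claimed.Agent.R289.Defs.TrModel

/-!
# Row 289 (S0537, Cardy for Poisson-Voronoi), THE WALL, road E, FIT-DET (L2), file Tr/FitSeamM : THE SEAM PLANE ↔ COMPLETION AT THE MODEL, PRODUCER      (helper91, second of helper4; post of 246 id 86280; prefix `pvuz_`, `Pvuz`)

WHAT.   The data of record of road E are PLANE objects (`𝔇 : PvwDat (pvxT ω)`), tied to an ENCODED rim `P ∈ pvhbAll x R ω` of SOME completion by positions only.      The clock of 179 (`Tr/Wit`: `PvwiFr PvwiIn PvwiTab`) lives on the COMPLETION, where the rim and its wall close.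
This file produces, from the plane datum and the three position runs, the completion, its rim `c`, the local isomorphism of 22, THE TWIN DATUM and the three records of 179.
UNBUNDLED: nothing of `PvxPar`, `PvxPinOf`, `PvxActual`, `PvfhArc` is read (so the file is blind to `Defs/TrModel` v4 and to the state of `Tr/FitE`, `Tr/LocalX`); the bundled corollaries are one-liners.

* sec. 1  model free (`Tc` = the surface of the rim, `T` = the plane): `pvuz_dart`, `pvuz_run` (a circuit which visits the positions of a plane path runs along its twin), **`pvuz_twin`** (twin datum: gates, stubs, the three runs in dart form), `pvuz_gate2` (twin of an outer gate)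
* sec. 2  `pvuz_frame` (finite surface ⟹ `PvwiFr`), **`pvuz_in`** (`PvwiIn`), **`pvuz_clock`** (the three records together)
* sec. 3  the instance: `pvuz_all` (what an encoded rim of `pvhbAll` is: finite completion, rim cut `4R`-far, local isomorphism on `closedBall x (6R)`, colours), `pvuz_far1` (the second rim vertex is far too)
* sec. 4  **`pvuz_seam`** : THE PRODUCER AT THE MODEL
-/

set_option autoImplicit false
set_option linter.unusedSectionVars false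
set_option linter.unusedVariables false

namespace Claimed.Agent.R289

open Set Claims.C0465

/-! ## 1. Model free -/

section free

variable {Vc Dc V D : Type} {Tc : PvMap Vc Dc} {T : PvMap V D} {R : Dc → D → Prop} {posc : Vc → ℂ} {pos : V → ℂ} {Kr : Set ℂ}

/-- a circuit which visits the positions of a path of the other surface: its darts are the twins of the darts of the path -/
theorem pvuz_dart (L : PvLocP Tc T R posc pos Kr) (hS : T.Simple) (hinj : Function.Injective pos) (c : Tc.Cyc) (p : T.Pth) {j : ℕ}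
    (hv : ∀ i, i ≤ p.n → posc (Tc.src (c.e (j + i))) = pos (p.v i)) (hK : ∀ i, i ≤ p.n → pos (p.v i) ∈ Kr) {i : ℕ} (hi : i < p.n) : R (c.e (j + i)) (p.e i) := by
  have h1 : posc (Tc.src (c.e (j + i))) ∈ Kr := by rw [hv i hi.le]; exact hK i hi.le
  obtain ⟨d', hd'⟩ := pvlw_dart_src L h1
  have e1 : T.src d' = p.v i := hinj (by rw [← L.pos_eq _ _ hd', hv i hi.le])
  have e2 : T.tgt d' = p.v (i + 1) := hinj (by
    rw [← show posc (Tc.tgt (c.e (j + i))) = pos (T.tgt d') from L.pos_eq _ _ (L.loc.iso.nxt hd'), c.chain, ← hv (i + 1) hi]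
    rfl)
  have e3 : d' = p.e i := hS _ _ (by rw [e1, p.src_e i hi]) (by rw [e2, p.tgt_e i hi])
  exact e3 ▸ hd'

/-- .. so it runs along the twin of the path -/
theorem pvuz_run (L : PvLocP Tc T R posc pos Kr) (hS : T.Simple) (hinj : Function.Injective pos) (c : Tc.Cyc) {pc : Tc.Pth} {p : T.Pth} (Pt : PvLocPth R pc p) {j : ℕ}
    (hv : ∀ i, i ≤ p.n → posc (Tc.src (c.e (j + i))) = pos (p.v i)) (hK : ∀ i, i ≤ p.n → pos (p.v i) ∈ Kr) {i : ℕ} (hi : i < pc.n) : c.e (j + i) = pc.e i :=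
  L.loc.iso.inj (pvuz_dart L hS hinj c p hv hK (Pt.n_eq ▸ hi)) (Pt.e_rel i hi)

/-- the inner arc of a gate stays in the closed disc of the gate -/
theorem pvuz_inn_in {𝔖 : PvwSt T} {h : ℝ} {z : ℂ} {τ : PvwTy} {s : V → Bool} (hg : 𝔖.Gate pos h z τ s) {k : ℕ} (hk : k ≤ 𝔖.inn.n) : pos (𝔖.inn.v k) ∈ Metric.closedBall z (τ.b * h) := by
  obtain ⟨n, h1, h2, j, -, -, a1, -⟩ := hg.strand
  obtain ⟨b1, b2, -⟩ := a1 k hk
  rw [b2]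
  rcases Nat.lt_or_ge (j k) n with h3 | h3
  · exact mem_closedBall_iff_norm.2 (hg.inside _ ⟨_, h2 _ h3, rfl⟩).le
  · have e : j k = n := le_antisymm b1 h3
    show pos (T.src (pvasIt T s 𝔖.dm (j k))) ∈ _
    rw [e, h1]
    obtain ⟨q, hq⟩ := hg.dp_on
    refine mem_closedBall_iff_norm.2 (hg.ann _ ⟨q + 1, ?_⟩).2.le
    rw [← 𝔖.S.chain q, hq, T.tgt_opp]

/-- **THE TWIN DATUM** on the surface of the rim: gates, stubs, the three runs in dart form.      `σc` = the colouring of the surface (`true` = the colour of the rim), `σ` = the colouring of the plane. -/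
theorem pvuz_twin (L : PvLocP Tc T R posc pos Kr) (hT : T.IsSph) (hS : T.Simple) (hinj : Function.Injective pos) {σc : Vc → Bool} {σ : V → Bool}
    (hσ : ∀ d d', R d d' → σc (Tc.src d) = σ (T.src d')) (c : Tc.Cyc) {𝔇 : PvwDat T} {h : ℝ} {zs zt : ℂ} {τs τt : PvwTy} {Bs Bt : Set ℂ} {j : ℕ}
    (gs : 𝔇.s.Gate pos h zs τs σ) (gt : 𝔇.t.Gate pos h zt τt σ) (ss : 𝔇.s.StubM pos Bs σ) (st : 𝔇.t.StubP pos Bt σ)
    (hKs : Metric.closedBall zs (τs.b * h) ⊆ Kr) (hKt : Metric.closedBall zt (τt.b * h) ⊆ Kr) (hBs : Bs ⊆ Kr) (hBt : Bt ⊆ Kr)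
    (hn : 0 < 𝔇.g.n) (hg : ∀ k, k ≤ 𝔇.g.n → pos (𝔇.g.v k) ∈ Kr)
    (rs : ∀ i, i ≤ 𝔇.s.inn.n → posc (Tc.src (c.e (j + i))) = pos (𝔇.s.inn.v i))
    (rg : ∀ i, i ≤ 𝔇.g.n → posc (Tc.src (c.e (j + 𝔇.s.inn.n + i))) = pos (𝔇.g.v i))
    (rt : ∀ i, i ≤ 𝔇.t.inn.n → posc (Tc.src (c.e (j + 𝔇.s.inn.n + 𝔇.g.n + i))) = pos (𝔇.t.inn.v i)) :
    ∃ 𝔇c : PvwDat Tc, PvLocDat R 𝔇c 𝔇 ∧ 𝔇c.s.Gate posc h zs τs σc ∧ 𝔇c.t.Gate posc h zt τt σc ∧ 𝔇c.s.StubM posc Bs σc ∧ 𝔇c.t.StubP posc Bt σc ∧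
      (∀ i, i < 𝔇c.s.inn.n → c.e (j + i) = 𝔇c.s.inn.e i) ∧ (∀ i, i < 𝔇c.g.n → c.e (j + 𝔇c.s.inn.n + i) = 𝔇c.g.e i) ∧
      ∀ i, i < 𝔇c.t.inn.n → c.e (j + 𝔇c.s.inn.n + 𝔇c.g.n + i) = 𝔇c.t.inn.e i := by
  have hσ' : ∀ d' d, R d d' → σ (T.src d') = σc (Tc.src d) := fun d' d hd => (hσ d d' hd).symm
  obtain ⟨s', hs'⟩ := pvlw_sm_exists L.symm hKs hBs gs ss
  obtain ⟨t', ht'⟩ := pvlw_sp_exists L.symm hKt hBt gt st
  obtain ⟨g', hg'⟩ := pvloc_pth_exists L.symm.loc 𝔇.g hn (fun k hk => pvlw_dart_src L.symm (by rw [𝔇.g.src_e k hk]; exact hg k hk.le))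
  obtain ⟨κ, hκ⟩ : ∃ κ : Vc → Bool, ∀ d d', R d d' → κ (Tc.src d) = 𝔇.col (T.src d') := by
    classical
    refine ⟨fun v => decide (∃ d d', R d d' ∧ Tc.src d = v ∧ 𝔇.col (T.src d') = true), fun d d' hd => ?_⟩
    by_cases hc : 𝔇.col (T.src d') = true
    · rw [hc]; exact decide_eq_true ⟨d, d', hd, rfl, hc⟩
    · have hno : ¬ ∃ e e', R e e' ∧ Tc.src e = Tc.src d ∧ 𝔇.col (T.src e') = true := by
        rintro ⟨e, e', h1, h2, h3⟩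
        exact hc (L.loc.vfn hd h1 h2.symm ▸ h3)
      rw [Bool.not_eq_true] at hc
      rw [hc]; exact decide_eq_false hno
  have Gs : PvLocSM R s' 𝔇.s := hs'.symm
  have Gt : PvLocSP R t' 𝔇.t := ht'.symm
  have Gg : PvLocPth R g' 𝔇.g := hg'.symm
  have ens : 𝔇.s.inn.n = s'.inn.n := Gs.gt.inn.n_eq
  have eng : 𝔇.g.n = g'.n := Gg.n_eq
  refine ⟨⟨s', t', g', κ⟩, ⟨Gs, Gt, Gg, hκ⟩, pvlw_gate L.symm hT hσ' hs'.gt hKs gs, pvlw_gate L.symm hT hσ' ht'.gt hKt gt, pvlw_stubM L.symm hσ' hs' hBs ss, pvlw_stubP L.symm hσ' ht' st,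
    fun i hi => ?_, fun i hi => ?_, fun i hi => ?_⟩
  · exact pvuz_run L hS hinj c Gs.gt.inn rs (fun i hi => hKs (pvuz_inn_in gs hi)) hi
  · show c.e (j + s'.inn.n + i) = g'.e i
    rw [← ens]
    exact pvuz_run L hS hinj c Gg rg hg hi
  · show c.e (j + s'.inn.n + g'.n + i) = t'.inn.e i
    rw [← ens, ← eng]
    exact pvuz_run L hS hinj c Gt.gt.inn rt (fun i hi => hKt (pvuz_inn_in gt hi)) hi

/-- the twin of a plane gate (the outer actual gates) -/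
theorem pvuz_gate2 (L : PvLocP Tc T R posc pos Kr) (hT : T.IsSph) {σc : Vc → Bool} {σ : V → Bool} (hσ : ∀ d d', R d d' → σc (Tc.src d) = σ (T.src d'))
    {𝔊 : PvwSt T} {h : ℝ} {z : ℂ} {τ : PvwTy} (hK : Metric.closedBall z (τ.b * h) ⊆ Kr) (hg : 𝔊.Gate pos h z τ σ) : ∃ 𝔊c : PvwSt Tc, PvLocGt R 𝔊c 𝔊 ∧ 𝔊c.Gate posc h z τ σc := by
  obtain ⟨𝔊c, G⟩ := pvlw_gt_exists L.symm hK hg
  exact ⟨𝔊c, G.symm, pvlw_gate L.symm hT (fun d' d hd => (hσ d d' hd).symm) G hK hg⟩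

end free

/-! ## 2. The clock on the surface of the rim -/

section clock

variable {Vc Dc V D : Type} {Tc : PvMap Vc Dc} {T : PvMap V D} {R : Dc → D → Prop} {posc : Vc → ℂ} {pos : V → ℂ} {Kr : Set ℂ}

/-- a rim of a finite sphere has a frame -/
theorem pvuz_frame [Finite Dc] (hT : Tc.IsSph) (hS : Tc.Simple) {σc : Vc → Bool} {c : Tc.Cyc} (hr : c.IsRim σc) (hb : σc (Tc.src (c.e 0)) = true) : ∃ n θ, PvwiFr Tc σc c n θ :=
  pvwi_frame hT hS hr hb (Set.toFinite _)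

/-- **THE THREE RECORDS OF THE CLOCK** (179) for the twin of a plane datum.      `Bs Bt` = the boxes of the two stubs (they contain the two gate discs, they are disjoint, the base vertex of the rim lies in none of them). -/
theorem pvuz_clock [Finite Dc] (L : PvLocP Tc T R posc pos Kr) (hTc : Tc.IsSph) (hSc : Tc.Simple) (hT : T.IsSph) (hS : T.Simple) (hinj : Function.Injective pos) {σc : Vc → Bool} {σ : V → Bool}
    (hσ : ∀ d d', R d d' → σc (Tc.src d) = σ (T.src d')) {c : Tc.Cyc} (hr : c.IsRim σc) {𝔇 : PvwDat T} {h : ℝ} {zs zt : ℂ} {τs τt : PvwTy} {Bs Bt : Set ℂ} {j : ℕ}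
    (gs : 𝔇.s.Gate pos h zs τs σ) (gt : 𝔇.t.Gate pos h zt τt σ) (ss : 𝔇.s.StubM pos Bs σ) (st : 𝔇.t.StubP pos Bt σ)
    (hKs : Metric.closedBall zs (τs.b * h) ⊆ Bs) (hKt : Metric.closedBall zt (τt.b * h) ⊆ Bt) (hBs : Bs ⊆ Kr) (hBt : Bt ⊆ Kr) (hdis : Disjoint Bs Bt)
    (hn : 0 < 𝔇.g.n) (hg : ∀ k, k ≤ 𝔇.g.n → pos (𝔇.g.v k) ∈ Kr) (hblack : σ (𝔇.g.v 0) = true)
    (rs : ∀ i, i ≤ 𝔇.s.inn.n → posc (Tc.src (c.e (j + i))) = pos (𝔇.s.inn.v i))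
    (rg : ∀ i, i ≤ 𝔇.g.n → posc (Tc.src (c.e (j + 𝔇.s.inn.n + i))) = pos (𝔇.g.v i))
    (rt : ∀ i, i ≤ 𝔇.t.inn.n → posc (Tc.src (c.e (j + 𝔇.s.inn.n + 𝔇.g.n + i))) = pos (𝔇.t.inn.v i))
    (short : j + 𝔇.s.inn.n + 𝔇.g.n + 𝔇.t.inn.n < c.n) (fs : posc (Tc.src (c.e 0)) ∉ Bs) (ft : posc (Tc.src (c.e 0)) ∉ Bt) :
    ∃ (𝔇c : PvwDat Tc) (n : ℕ) (θ : ℕ → ℕ) (u1 u2 w1 w2 : ℕ), PvLocDat R 𝔇c 𝔇 ∧ PvwiFr Tc σc c n θ ∧ PvwiIn Tc posc h σc c j 𝔇c zs zt τs τt Bs Bt ∧ PvwiTab Tc σc c n θ j 𝔇c u1 u2 w1 w2 := by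
  obtain ⟨𝔇c, G, a1, a2, a3, a4, a5, a6, a7⟩ := pvuz_twin L hT hS hinj hσ c gs gt ss st (hKs.trans hBs) (hKt.trans hBt) hBs hBt hn hg rs rg rt
  have hb : σc (Tc.src (c.e 0)) = true := by
    rw [pl_rim_col hr 0 (j + 𝔇.s.inn.n + 0)]
    have hk : posc (Tc.src (c.e (j + 𝔇.s.inn.n + 0))) ∈ Kr := by rw [rg 0 (Nat.zero_le _)]; exact hg 0 (Nat.zero_le _)
    obtain ⟨v', hv'⟩ := pvlw_vertex L hk
    have e : v' = 𝔇.g.v 0 := hinj (by rw [← pvlw_pos L hv', rg 0 (Nat.zero_le _)])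
    rw [pvloc_v_col hσ hv', e]
    exact hblack
  obtain ⟨n, θ, F⟩ := pvuz_frame hTc hSc hr hb
  have I : PvwiIn Tc posc h σc c j 𝔇c zs zt τs τt Bs Bt := by
    refine ⟨a1, a2, a3, a4, a5, a6, a7, ?_, fun v hv => hKs (mem_closedBall_iff_norm.2 (a1.inside v hv).le), fun v hv => hKt (mem_closedBall_iff_norm.2 (a2.inside v hv).le), hdis, fs, ft⟩
    rw [← G.s.gt.inn.n_eq, ← G.g.n_eq, ← G.t.gt.inn.n_eq]
    exact short
  obtain ⟨u1, u2, w1, w2, Tb⟩ := F.table I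
  exact ⟨𝔇c, n, θ, u1, u2, w1, w2, G, F, I, Tb⟩

end clock

/-! ## 3. The instance -/

section inst

variable {X : Type} {𝔅 : PvBulk X} {Y K : Set ℂ}

/-- a completion against the total plane of 219: local isomorphism on the shared patch, colours -/
theorem pvuz_bulk (h : DelGood Y) (hOk : 𝔅.Ok Y K) {zi : ℂ} (hzi : zi ∉ K) : ∃ Rl : 𝔅.D Y → (delbPl Y).Dart → Prop, PvLocP (𝔅.T Y) (delbPl Y).toMap Rl (𝔅.posF Y zi) Subtype.val K ∧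
    ∀ (s : 𝔅.V Y → Bool) (σ : ℂ → Bool), DelbCol 𝔅 s σ → ∀ d e, Rl d e → s ((𝔅.T Y).src d) = σ ((delbPl Y).toMap.src e : ℂ) := by
  rw [delb_pl_eq h]
  exact ⟨pvlocR 𝔅 h K, pvlw_bulk h hOk hzi, fun s σ hs => pvloc_bulk_col hs⟩

theorem pvuz_zi {x : ℂ} {R : ℝ} (hR : 0 < R) : x + 7 * (R : ℂ) ∉ Metric.closedBall x (6 * R) := by
  rw [mem_closedBall_iff_norm, add_sub_cancel_left, norm_mul, Complex.norm_real, Real.norm_of_nonneg hR.le]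
  have : ‖(7 : ℂ)‖ = 7 := by simp
  rw [this]
  linarith

/-- an edge of a completion with one end in the patch is short -/
theorem pvuz_edge (hOk : 𝔅.Ok Y K) {zi : ℂ} (hzi : zi ∉ K) {μ : ℝ} (hM : L9Fine Y K μ) {d : 𝔅.D Y} (hd : 𝔅.posF Y zi ((𝔅.T Y).tgt d) ∈ K) :
    ‖𝔅.posF Y zi ((𝔅.T Y).src d) - 𝔅.posF Y zi ((𝔅.T Y).tgt d)‖ ≤ μ := by
  have hl : 𝔅.lab Y ((𝔅.T Y).tgt d) = Sum.inl (𝔅.posF Y zi ((𝔅.T Y).tgt d)) := by
    unfold PvBulk.posF at hd ⊢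
    rcases hl : 𝔅.lab Y ((𝔅.T Y).tgt d) with a | e
    · rfl
    · rw [hl] at hd
      exact absurd hd hzi
  obtain ⟨b, c', h1, h2, h3⟩ := hOk.del ((𝔅.T Y).nxt d) _ hl hd
  have e : (𝔅.T Y).apex ((𝔅.T Y).nxt d) = (𝔅.T Y).src d := by unfold PvMap.apex; rw [(𝔅.T Y).nxt3]
  rw [e] at h2
  have e2 : 𝔅.posF Y zi ((𝔅.T Y).src d) = c' := by unfold PvBulk.posF; rw [h2]; rfl
  rw [e2]
  exact (hM _ _ _ h3 (Or.inl hd)).2.1

/-- the neighbours of a far vertex are far -/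
theorem pvuz_far1 {x : ℂ} {R μ : ℝ} (hOk : 𝔅.Ok Y (Metric.closedBall x (6 * R))) {zi : ℂ} (hzi : zi ∉ Metric.closedBall x (6 * R)) (hM : L9Fine Y (Metric.closedBall x (6 * R)) μ) (hR : 0 ≤ R) (hμ : 0 ≤ μ)
    {d : 𝔅.D Y} (h0 : 4 * R ≤ ‖𝔅.posF Y zi ((𝔅.T Y).src d) - x‖) : 4 * R - μ ≤ ‖𝔅.posF Y zi ((𝔅.T Y).tgt d) - x‖ := by
  by_cases hd : 𝔅.posF Y zi ((𝔅.T Y).tgt d) ∈ Metric.closedBall x (6 * R)
  · have h1 := pvuz_edge hOk hzi hM hd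
    have h2 := norm_sub_le_norm_sub_add_norm_sub (𝔅.posF Y zi ((𝔅.T Y).src d)) (𝔅.posF Y zi ((𝔅.T Y).tgt d)) x
    linarith
  · rw [mem_closedBall_iff_norm] at hd
    linarith

/-- **what an encoded rim of `pvhbAll` is**, against the plane of record: a FINITE completion, its rim cut at a `4R`-far vertex, the local isomorphism on `closedBall x (6R)`, the colours -/
theorem pvuz_all {x : ℂ} {R : ℝ} (hR : 0 < R) {ω : PVSample} (hG : DelGood (pvxY ω)) {P : PvbRim} (hP : P ∈ pvhbAll x R ω) :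
    ∃ (X : Type) (𝔅 : PvBulk X) (ξ : X → Bool) (c : (𝔅.T (pvxY ω)).Cyc) (Rl : 𝔅.D (pvxY ω) → (delbPl (pvxY ω)).Dart → Prop),
      Finite (𝔅.D (pvxY ω)) ∧ 𝔅.Ok (pvxY ω) (Metric.closedBall x (6 * R)) ∧ c.IsRim (𝔅.col (pvConf ω) ξ) ∧ 4 * R ≤ ‖𝔅.posF (pvxY ω) (x + 7 * R) ((𝔅.T (pvxY ω)).src (c.e 0)) - x‖ ∧
      P = 𝔅.enc (pvxY ω) (x + 7 * R) c ∧ PvLocP (𝔅.T (pvxY ω)) (pvxT ω) Rl (𝔅.posF (pvxY ω) (x + 7 * R)) (pvxPos ω) (Metric.closedBall x (6 * R)) ∧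
      ∀ (b : Bool) d d', Rl d d' → pvlfFl b (𝔅.col (pvConf ω) ξ) ((𝔅.T (pvxY ω)).src d) = pvxCol ω b ((pvxT ω).src d') := by
  obtain ⟨X, -, 𝔅, ξ, hA, hOk, c, hc, hfar, rfl⟩ := hP
  obtain ⟨Rl, hL, hcol⟩ := pvuz_bulk (𝔅 := 𝔅) hG hOk (pvuz_zi hR)
  refine ⟨X, 𝔅, ξ, c, Rl, hA.2, hOk, hc, hfar, rfl, hL, fun b d d' hd => ?_⟩
  unfold pvlfFl pvxCol
  rw [hcol _ _ (delb_col 𝔅 (pvConf ω) ξ) d d' hd]
  rfl

end inst

/-! ## 4. The producer at the model -/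

/-- **THE SEAM AT THE MODEL**: the completion `𝔅` (coins `ξ`) of the encoded rim `P`, its rim `c`, the local isomorphism `Rl` with the plane of record on `closedBall x (6R)`, the twin `𝔇c` of the plane datum `𝔇`, the clock of 179.
Colouring of the completion: `pvlfFl b (𝔅.col (pvConf ω) ξ)` (`true` = the colour `b` of the rim);   positions: `𝔅.posF (pvxY ω) (x + 7R)`. -/
structure PvuzSeam (x : ℂ) (R : ℝ) (ω : PVSample) (P : PvbRim) (b : Bool) (𝔇 : PvwDat (pvxT ω)) (h : ℝ) (zs zt : ℂ) (τs τt : PvwTy) (Bs Bt : Set ℂ) (j : ℕ)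
    {X : Type} (𝔅 : PvBulk X) (ξ : X → Bool) (c : (𝔅.T (pvxY ω)).Cyc) (Rl : 𝔅.D (pvxY ω) → (delbPl (pvxY ω)).Dart → Prop) (𝔇c : PvwDat (𝔅.T (pvxY ω))) (n : ℕ) (θ : ℕ → ℕ) (u1 u2 w1 w2 : ℕ) : Prop where
  fin : Finite (𝔅.D (pvxY ω))
  ok : 𝔅.Ok (pvxY ω) (Metric.closedBall x (6 * R))
  enc : P = 𝔅.enc (pvxY ω) (x + 7 * R) c
  /-- the rim is cut at a far vertex -/
  far0 : 4 * R ≤ ‖𝔅.posF (pvxY ω) (x + 7 * R) ((𝔅.T (pvxY ω)).src (c.e 0)) - x‖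
  loc : PvLocP (𝔅.T (pvxY ω)) (pvxT ω) Rl (𝔅.posF (pvxY ω) (x + 7 * R)) (pvxPos ω) (Metric.closedBall x (6 * R))
  col : ∀ d d', Rl d d' → pvlfFl b (𝔅.col (pvConf ω) ξ) ((𝔅.T (pvxY ω)).src d) = pvxCol ω b ((pvxT ω).src d')
  dat : PvLocDat Rl 𝔇c 𝔇
  fr : PvwiFr (𝔅.T (pvxY ω)) (pvlfFl b (𝔅.col (pvConf ω) ξ)) c n θ
  inn : PvwiIn (𝔅.T (pvxY ω)) (𝔅.posF (pvxY ω) (x + 7 * R)) h (pvlfFl b (𝔅.col (pvConf ω) ξ)) c j 𝔇c zs zt τs τt Bs Bt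
  tab : PvwiTab (𝔅.T (pvxY ω)) (pvlfFl b (𝔅.col (pvConf ω) ξ)) c n θ j 𝔇c u1 u2 w1 w2

section seam

variable {x : ℂ} {R : ℝ} {ω : PVSample} {P : PvbRim} {b : Bool} {𝔇 : PvwDat (pvxT ω)} {h : ℝ} {zs zt : ℂ} {τs τt : PvwTy} {Bs Bt : Set ℂ} {j : ℕ}

/-- **THE PRODUCER OF THE SEAM AT THE MODEL**, unbundled.      `P` an encoded rim of ANY completion of the sample; `𝔇` a plane datum: two gates and the two stubs for the colouring of the sample, boxes `Bs Bt` ⊇ the gate discs, disjoint, inside the open ball `B(x,4R)`;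
`P` visits the positions of `inner(s) . g₀ . inner(t)` from its index `j` on, without wrap-around. -/
theorem pvuz_seam (hR : 0 < R) (hG : DelGood (pvxY ω)) (hP : P ∈ pvhbAll x R ω)
    (gs : 𝔇.s.Gate (pvxPos ω) h zs τs (pvxCol ω b)) (gt : 𝔇.t.Gate (pvxPos ω) h zt τt (pvxCol ω b)) (ss : 𝔇.s.StubM (pvxPos ω) Bs (pvxCol ω b)) (st : 𝔇.t.StubP (pvxPos ω) Bt (pvxCol ω b))
    (hKs : Metric.closedBall zs (τs.b * h) ⊆ Bs) (hKt : Metric.closedBall zt (τt.b * h) ⊆ Bt) (hBs : Bs ⊆ Metric.ball x (4 * R)) (hBt : Bt ⊆ Metric.ball x (4 * R)) (hdis : Disjoint Bs Bt)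
    (hn : 0 < 𝔇.g.n) (hg : ∀ k, k ≤ 𝔇.g.n → ‖pvxPos ω (𝔇.g.v k) - x‖ ≤ 6 * R) (hblack : pvxCol ω b (𝔇.g.v 0) = true)
    (rs : ∀ i, i ≤ 𝔇.s.inn.n → P.v (j + i) = pvxPos ω (𝔇.s.inn.v i)) (rg : ∀ i, i ≤ 𝔇.g.n → P.v (j + 𝔇.s.inn.n + i) = pvxPos ω (𝔇.g.v i))
    (rt : ∀ i, i ≤ 𝔇.t.inn.n → P.v (j + 𝔇.s.inn.n + 𝔇.g.n + i) = pvxPos ω (𝔇.t.inn.v i)) (short : j + 𝔇.s.inn.n + 𝔇.g.n + 𝔇.t.inn.n < P.len) :
    ∃ (X : Type) (𝔅 : PvBulk X) (ξ : X → Bool) (c : (𝔅.T (pvxY ω)).Cyc) (Rl : 𝔅.D (pvxY ω) → (delbPl (pvxY ω)).Dart → Prop) (𝔇c : PvwDat (𝔅.T (pvxY ω))) (n : ℕ) (θ : ℕ → ℕ) (u1 u2 w1 w2 : ℕ),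
      PvuzSeam x R ω P b 𝔇 h zs zt τs τt Bs Bt j 𝔅 ξ c Rl 𝔇c n θ u1 u2 w1 w2 := by
  obtain ⟨X, 𝔅, ξ, c, Rl, hfin, hOk, hc, hfar, rfl, hL, hcol⟩ := pvuz_all hR hG hP
  have := hfin
  have h46 : Metric.ball x (4 * R) ⊆ Metric.closedBall x (6 * R) := fun w hw => by
    rw [Metric.mem_ball, dist_eq_norm] at hw
    rw [mem_closedBall_iff_norm]
    linarith
  have hoff : ∀ B : Set ℂ, B ⊆ Metric.ball x (4 * R) → 𝔅.posF (pvxY ω) (x + 7 * R) ((𝔅.T (pvxY ω)).src (c.e 0)) ∉ B := fun B hB hm => by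
    have := hB hm
    rw [Metric.mem_ball, dist_eq_norm] at this
    linarith
  obtain ⟨𝔇c, n, θ, u1, u2, w1, w2, G, F, I, Tb⟩ := pvuz_clock (T := pvxT ω) (pos := pvxPos ω) hL hOk.sph hOk.simple (delb_plane_isSph hG) (delbPl (pvxY ω)).toMap_simple Subtype.val_injective
    (hcol b) ((pvlf_rim_fl b).2 hc) gs gt ss st hKs hKt (hBs.trans h46) (hBt.trans h46) hdis hn (fun k hk => mem_closedBall_iff_norm.2 (hg k hk)) hblack rs rg rt short (hoff _ hBs) (hoff _ hBt)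
  exact ⟨X, 𝔅, ξ, c, Rl, 𝔇c, n, θ, u1, u2, w1, w2, hfin, hOk, rfl, hfar, hL, hcol b, G, F, I, Tb⟩

variable {X : Type} {𝔅 : PvBulk X} {ξ : X → Bool} {c : (𝔅.T (pvxY ω)).Cyc} {Rl : 𝔅.D (pvxY ω) → (delbPl (pvxY ω)).Dart → Prop} {𝔇c : PvwDat (𝔅.T (pvxY ω))} {n : ℕ} {θ : ℕ → ℕ} {u1 u2 w1 w2 : ℕ}

/-- the twin of an outer actual gate of the plane -/
theorem PvuzSeam.gate2 (S : PvuzSeam x R ω P b 𝔇 h zs zt τs τt Bs Bt j 𝔅 ξ c Rl 𝔇c n θ u1 u2 w1 w2) (hG : DelGood (pvxY ω)) {𝔊 : PvwSt (pvxT ω)} {z : ℂ} {τ : PvwTy}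
    (hK : Metric.closedBall z (τ.b * h) ⊆ Metric.closedBall x (6 * R)) (hg : 𝔊.Gate (pvxPos ω) h z τ (pvxCol ω b)) :
    ∃ 𝔊c : PvwSt (𝔅.T (pvxY ω)), PvLocGt Rl 𝔊c 𝔊 ∧ 𝔊c.Gate (𝔅.posF (pvxY ω) (x + 7 * R)) h z τ (pvlfFl b (𝔅.col (pvConf ω) ξ)) :=
  pvuz_gate2 S.loc (delb_plane_isSph hG) S.col hK hg

/-- the second vertex of the rim is far too (179 (D): so the window of the two continuations is shorter than a period) -/
theorem PvuzSeam.far1 (S : PvuzSeam x R ω P b 𝔇 h zs zt τs τt Bs Bt j 𝔅 ξ c Rl 𝔇c n θ u1 u2 w1 w2) (hR : 0 < R) {μ : ℝ} (hμ : 0 ≤ μ) (hM : L9Fine (pvxY ω) (Metric.closedBall x (6 * R)) μ) :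
    4 * R - μ ≤ ‖𝔅.posF (pvxY ω) (x + 7 * R) ((𝔅.T (pvxY ω)).src (c.e 1)) - x‖ := by
  have := pvuz_far1 S.ok (pvuz_zi hR) hM hR.le hμ S.far0
  rwa [c.chain] at this

/-- the positions of the rim -/
theorem PvuzSeam.v_eq (S : PvuzSeam x R ω P b 𝔇 h zs zt τs τt Bs Bt j 𝔅 ξ c Rl 𝔇c n θ u1 u2 w1 w2) (k : ℕ) : P.v k = 𝔅.posF (pvxY ω) (x + 7 * R) ((𝔅.T (pvxY ω)).src (c.e k)) := by
  rw [S.enc]; rfl

theorem PvuzSeam.len_eq (S : PvuzSeam x R ω P b 𝔇 h zs zt τs τt Bs Bt j 𝔅 ξ c Rl 𝔇c n θ u1 u2 w1 w2) : P.len = c.n := by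
  rw [S.enc]; rfl

end seam

end Claimed.Agent.R289
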