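-- KEEP
import Claimed.Agent.R289.Defs.FitRec
import Claimed.Agent.R289.Tr.FitSeamM
import Claimed.Agent.R289.Tr.FitLiftS
import Claimed.Agent.R289.Tr.FitObs

/-!
# Row 289 (S0537), THE WALL, road E, FIT-DET (L2), file Tr/CoverTw : `PvfhArc` ⟹ THE SEAM RECORD, AT THE MODEL      (pen helper143; prefix `pvxv_`)

INPUT = the hypotheses of (L2) `PvfhCorAt` (209, `Defs/FitRec`): a good sample, `P ∈ pvhbAll x R ω`, two pins with centres in `closedBall x (3R)`, `R/3` apart, `PvfhArc 𝔓 x R m ω P s t 𝔇 j`;   `m` large.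
OUTPUT = a completion `𝔅` (coins `ξ`), its rim `c` with `P = enc c`, the local isomorphism `Rl`, the twin datum `𝔇c`, the clock: **`PvuzSeam`** (91, `Tr/FitSeamM`: `pvuz_seam`) AND **`PvfwSeam`** (49, `Tr/FitLiftS`) for EVERY mesh bound
`μ ∈ [δ_m / 1000, R/2)`;   boxes `Bs Bt` := the OWN boxes `pvxvBx 𝔓 m z t = pvwSq z r_k` of the two pins (= the boxes of the stubs of `AtIn`, `AtOut`).
* `pvxv_mesh_sf`      `L9Fine` ⟹ the field `mesh` of `PvfwSeam` (form of 211)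
* `pvxv_bx_*`         the own box: contains the gate disc, lies in `closedBall z (R/12)`
* `PvuzSeam.toFw`     `PvuzSeam` + mesh + boxes in `B(x,7R/2)` + arc in `6R` ⟹ `PvfwSeam`
* **`pvxv_seam_of`** (one level, explicit smallness), **`pvxv_seam_at`** (`∀ᶠ m`)
* sec. 2 (12:20Z)  **`PvcjIn.ball94`**, **`pvxv_K94`** : the obstacle of record lies in `closedBall x (9R/4)` (= `hKb` of `PvfwSeam.scene` of 49 at `ρK := 9R/4`; `5R/2` of `PvcbObs.ball` is too weak for the rectangle test)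
-/

set_option autoImplicit false

namespace Claimed.Agent.R289

open Set Metric Filter Claims.C0465

/-- **the field `mesh` of `PvfwSeam`** from the mesh of the good samples -/
theorem pvxv_mesh_sf {ω : PVSample} {K : Set ℂ} {μ : ℝ} (hM : L9Fine (pvxY ω) K μ) (d f : (delbPl (pvxY ω)).Dart) (hd : pvxPos ω ((pvxT ω).src d) ∈ K) (hf : (pvxT ω).SF d f) :
    ‖pvxPos ω ((pvxT ω).src f) - pvxPos ω ((pvxT ω).tgt f)‖ ≤ μ := by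
  have hface := delb_plane_face f
  have hv : pvxPos ω ((pvxT ω).src f) ∈ K ∨ pvxPos ω ((pvxT ω).tgt f) ∈ K ∨ pvxPos ω ((pvxT ω).apex f) ∈ K := by
    rcases hf with rfl | rfl | rfl
    · exact Or.inl hd
    · right; right
      rw [(pvxT ω).apex_nxt]
      exact hd
    · right; left
      rw [(pvxT ω).tgt_nxt2]
      exact hd
  have h1 := (hM _ _ _ hface (by rcases hv with h | h | h; exacts [Or.inl h, Or.inr (Or.inl h), Or.inr (Or.inr (Or.inl h))])).1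
  rw [norm_sub_rev]
  exact h1

section box

variable {τ : Type} {c : ℝ}

/-- the OWN box of a candidate (level `k` of its type) = the box of its stubs -/
def pvxvBx (𝔓 : PvxPar τ c) (m : ℕ) (z : ℂ) (t : τ) : Set ℂ := pvwSq z (pvwRad 𝔓.num (pvlmH m) (𝔓.ty t) (𝔓.ty t).k)

theorem pvxv_bx_eqns_cite : True := by
  have := @pvxvBx.eq_1
  trivial

variable {𝔓 : PvxPar τ c}

theorem pvxv_sq_norm {z w : ℂ} {r : ℝ} (h : w ∈ pvwSq z r) : ‖w - z‖ ≤ 2 * r := by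
  have h1 := Complex.norm_le_abs_re_add_abs_im (w - z)
  linarith [h.1, h.2]

/-- the own box contains the gate disc -/
theorem pvxv_bx_disc (hW : 𝔓.Wf) (hb : ∀ t, (𝔓.ty t).b ≤ 2 * (𝔓.ty t).b2) (m : ℕ) (z : ℂ) (t : τ) : closedBall z ((𝔓.ty t).b * pvlmH m) ⊆ pvxvBx 𝔓 m z t := by
  intro w hw
  rw [mem_closedBall_iff_norm] at hw
  have hh := pvlm_H_pos m
  have h1 : 0 ≤ 𝔓.num.rho1 := (hW.rho0.trans hW.rho1).le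
  have h2 : (𝔓.ty t).b * pvlmH m ≤ pvwRad 𝔓.num (pvlmH m) (𝔓.ty t) (𝔓.ty t).k := by
    unfold pvwRad
    have h3 : (0 : ℝ) ≤ ((𝔓.ty t).k : ℝ) * 𝔓.num.rho1 := by positivity
    exact mul_le_mul_of_nonneg_right (by linarith [hb t]) hh.le
  exact ⟨(Complex.abs_re_le_norm _).trans (hw.trans h2), (Complex.abs_im_le_norm _).trans (hw.trans h2)⟩

/-- the own box lies in the largest box -/
theorem pvxv_bx_le (hW : 𝔓.Wf) (m : ℕ) (t : τ) : pvwRad 𝔓.num (pvlmH m) (𝔓.ty t) (𝔓.ty t).k ≤ pvwRad 𝔓.num (pvlmH m) (𝔓.ty t) 𝔓.num.K := by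
  have hh := pvlm_H_pos m
  have h1 : 0 ≤ 𝔓.num.rho1 := (hW.rho0.trans hW.rho1).le
  unfold pvwRad
  have h2 : ((𝔓.ty t).k : ℝ) ≤ 𝔓.num.K := by exact_mod_cast hW.lev t
  exact mul_le_mul_of_nonneg_right (by nlinarith) hh.le

theorem pvxv_bx_near (hW : 𝔓.Wf) {m : ℕ} {r : ℝ} (hr : ∀ u, 2 * pvwRad 𝔓.num (pvlmH m) (𝔓.ty u) 𝔓.num.K ≤ r) {z w : ℂ} {t : τ} (hw : w ∈ pvxvBx 𝔓 m z t) : ‖w - z‖ ≤ r :=
  (pvxv_sq_norm hw).trans ((mul_le_mul_of_nonneg_left (pvxv_bx_le hW m t) (by norm_num)).trans (hr t))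

end box

/-! ## the record of 91 gives the record of 49 -/

section conv

variable {x : ℂ} {R : ℝ} {ω : PVSample} {P : PvbRim} {b : Bool} {𝔇 : PvwDat (pvxT ω)} {h : ℝ} {zs zt : ℂ} {τs τt : PvwTy} {Bs Bt : Set ℂ} {j : ℕ}
  {X : Type} {𝔅 : PvBulk X} {ξ : X → Bool} {c : (𝔅.T (pvxY ω)).Cyc} {Rl : 𝔅.D (pvxY ω) → (delbPl (pvxY ω)).Dart → Prop} {𝔇c : PvwDat (𝔅.T (pvxY ω))} {n : ℕ} {θ : ℕ → ℕ} {u1 u2 w1 w2 : ℕ}

theorem PvuzSeam.toFw (S : PvuzSeam x R ω P b 𝔇 h zs zt τs τt Bs Bt j 𝔅 ξ c Rl 𝔇c n θ u1 u2 w1 w2) (hR : 0 < R) {μ : ℝ} (hM : L9Fine (pvxY ω) (closedBall x (6 * R)) μ) (hμ : μ < R / 2)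
    (hBs : Bs ⊆ ball x (7 * R / 2)) (hBt : Bt ⊆ ball x (7 * R / 2)) (hg : ∀ k, k ≤ 𝔇.g.n → ‖pvxPos ω (𝔇.g.v k) - x‖ ≤ 6 * R) :
    PvfwSeam (𝔅.T (pvxY ω)) (𝔅.posF (pvxY ω) (x + 7 * R)) (pvlfFl b (𝔅.col (pvConf ω) ξ)) (pvxT ω) (pvxPos ω) (pvxCol ω b) Rl x R μ h c n θ j 𝔇c 𝔇 zs zt τs τt Bs Bt u1 u2 w1 w2 where
  hR := hR
  loc := S.loc
  col := S.col
  dat := S.dat
  fr := S.fr
  inp := S.inn
  tab := S.tab
  base := S.far0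
  mesh := fun d f hd hf => pvxv_mesh_sf hM d f hd hf
  mu := hμ
  box_s := hBs
  box_t := hBt
  arc_in := fun k hk => by
    rw [pvlw_pos S.loc (S.dat.g.v_rel k hk)]
    exact mem_closedBall_iff_norm.2 (hg k (S.dat.g.n_eq ▸ hk))

end conv

/-! ## at the model -/

section model

variable {τ : Type} {c : ℝ} {𝔓 : PvxPar τ c} {x : ℂ} {R : ℝ}

/-- **`PvfhArc` ⟹ THE SEAM**, one level: `r_K ≤ R/24` for all types -/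
theorem pvxv_seam_of (hW : 𝔓.Wf) (hb : ∀ t, (𝔓.ty t).b ≤ 2 * (𝔓.ty t).b2) (hR : 0 < R) {m : ℕ} (hr : ∀ u, 2 * pvwRad 𝔓.num (pvlmH m) (𝔓.ty u) 𝔓.num.K ≤ R / 12)
    {ω : PVSample} (hg : PvxvGood x R (pvxvMu c m) ω) {P : PvbRim} (hP : P ∈ pvhbAll x R ω) {s t : PvbPin τ} (hs : ‖s.ctr - x‖ ≤ 3 * R) (ht : ‖t.ctr - x‖ ≤ 3 * R) (hst : R / 3 ≤ ‖s.ctr - t.ctr‖)
    {𝔇 : PvwDat (pvxT ω)} {j : ℕ} (A : PvfhArc 𝔓 x R m ω P s t 𝔇 j) :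
    ∃ (X : Type) (𝔅 : PvBulk X) (ξ : X → Bool) (cy : (𝔅.T (pvxY ω)).Cyc) (Rl : 𝔅.D (pvxY ω) → (delbPl (pvxY ω)).Dart → Prop) (𝔇c : PvwDat (𝔅.T (pvxY ω))) (n : ℕ) (θ : ℕ → ℕ) (u1 u2 w1 w2 : ℕ),
      PvuzSeam x R ω P (𝔓.col s.typ) 𝔇 (pvlmH m) s.ctr t.ctr (𝔓.ty s.typ) (𝔓.ty t.typ) (pvxvBx 𝔓 m s.ctr s.typ) (pvxvBx 𝔓 m t.ctr t.typ) j 𝔅 ξ cy Rl 𝔇c n θ u1 u2 w1 w2 ∧
      ∀ μ, pvxvMu c m ≤ μ → μ < R / 2 →
        PvfwSeam (𝔅.T (pvxY ω)) (𝔅.posF (pvxY ω) (x + 7 * R)) (pvlfFl (𝔓.col s.typ) (𝔅.col (pvConf ω) ξ)) (pvxT ω) (pvxPos ω) (pvxCol ω (𝔓.col s.typ)) Rl x R μ (pvlmH m) cy n θ j 𝔇c 𝔇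
          s.ctr t.ctr (𝔓.ty s.typ) (𝔓.ty t.typ) (pvxvBx 𝔓 m s.ctr s.typ) (pvxvBx 𝔓 m t.ctr t.typ) u1 u2 w1 w2 := by
  have hin : ∀ {z : ℂ} {u : τ}, ‖z - x‖ ≤ 3 * R → pvxvBx 𝔓 m z u ⊆ ball x (7 * R / 2) := by
    intro z u hz w hw
    have h1 := pvxv_bx_near hW hr hw
    rw [mem_ball_iff_norm]
    have h2 : ‖w - x‖ ≤ ‖w - z‖ + ‖z - x‖ := by
      have : w - x = (w - z) + (z - x) := by ring
      rw [this]; exact norm_add_le _ _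
    linarith
  have h74 : ball x (7 * R / 2) ⊆ ball x (4 * R) := ball_subset_ball (by linarith)
  have hdis : Disjoint (pvxvBx 𝔓 m s.ctr s.typ) (pvxvBx 𝔓 m t.ctr t.typ) := by
    rw [Set.disjoint_left]
    intro w h1 h2
    have e1 := pvxv_bx_near hW hr h1
    have e2 := pvxv_bx_near hW hr h2
    have h3 : ‖s.ctr - t.ctr‖ ≤ ‖w - s.ctr‖ + ‖w - t.ctr‖ := by
      have : s.ctr - t.ctr = (w - t.ctr) - (w - s.ctr) := by ring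
      rw [this]; exact (norm_sub_le _ _).trans (by linarith)
    linarith
  have gt : 𝔇.t.Gate (pvxPos ω) (pvlmH m) t.ctr (𝔓.ty t.typ) (pvxCol ω (𝔓.col s.typ)) := by rw [A.col_eq]; exact A.at_t.st.out.gate
  have st : 𝔇.t.StubP (pvxPos ω) (pvxvBx 𝔓 m t.ctr t.typ) (pvxCol ω (𝔓.col s.typ)) := by rw [A.col_eq]; exact A.at_t.st.out.stub
  have h6 : ∀ k, k ≤ 𝔇.g.n → ‖pvxPos ω (𝔇.g.v k) - x‖ ≤ 6 * R := fun k hk => (A.in2R k hk).trans (by linarith)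
  obtain ⟨X, 𝔅, ξ, cy, Rl, 𝔇c, n, θ, u1, u2, w1, w2, S⟩ := pvuz_seam hR hg.1 hP A.at_s.st.inn.gate gt A.at_s.st.inn.stub st (pvxv_bx_disc hW hb m _ _) (pvxv_bx_disc hW hb m _ _)
    ((hin hs).trans h74) ((hin ht).trans h74) hdis A.pos_n h6 (A.black _ ⟨0, Nat.zero_le _, rfl⟩) A.pin_s.run A.arc A.pin_t.run A.pin_t.le
  refine ⟨X, 𝔅, ξ, cy, Rl, 𝔇c, n, θ, u1, u2, w1, w2, S, fun μ h1 h2 => S.toFw hR (fun a b' c' hT hK => ?_) h2 (hin hs) (hin ht) h6⟩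
  exact ⟨(hg.2 a b' c' hT hK).1.trans h1, (hg.2 a b' c' hT hK).2.1.trans h1, (hg.2 a b' c' hT hK).2.2.trans h1⟩

/-- the largest boxes are small -/
theorem pvxv_rad_small [Finite τ] (𝔓 : PvxPar τ c) (hR : 0 < R) : ∀ᶠ m in atTop, ∀ u, 2 * pvwRad 𝔓.num (pvlmH m) (𝔓.ty u) 𝔓.num.K ≤ R / 12 := by
  refine eventually_all.2 fun u => ?_
  have : Tendsto (fun m => (2 * (2 * (𝔓.ty u).b2 + 𝔓.num.K * 𝔓.num.rho1)) * pvlmH m) atTop (nhds ((2 * (2 * (𝔓.ty u).b2 + 𝔓.num.K * 𝔓.num.rho1)) * 0)) := pvlm_H_lim.const_mul _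
  rw [mul_zero] at this
  filter_upwards [this.eventually (ge_mem_nhds (show (0 : ℝ) < R / 12 by positivity))] with m hm
  unfold pvwRad
  linarith

/-- **`PvfhArc` ⟹ THE SEAM, FOR `m` LARGE** (the hypotheses are those of `PvfhCorAt`) -/
theorem pvxv_seam_at [Finite τ] (hW : 𝔓.Wf) (hb : ∀ t, (𝔓.ty t).b ≤ 2 * (𝔓.ty t).b2) (x : ℂ) (hR : 0 < R) : ∀ᶠ m in atTop, ∀ ω : PVSample, PvxvGood x R (pvxvMu c m) ω → ∀ P ∈ pvhbAll x R ω,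
    ∀ s t : PvbPin τ, ‖s.ctr - x‖ ≤ 3 * R → ‖t.ctr - x‖ ≤ 3 * R → R / 3 ≤ ‖s.ctr - t.ctr‖ → ∀ (𝔇 : PvwDat (pvxT ω)) (j : ℕ), PvfhArc 𝔓 x R m ω P s t 𝔇 j →
    ∃ (X : Type) (𝔅 : PvBulk X) (ξ : X → Bool) (cy : (𝔅.T (pvxY ω)).Cyc) (Rl : 𝔅.D (pvxY ω) → (delbPl (pvxY ω)).Dart → Prop) (𝔇c : PvwDat (𝔅.T (pvxY ω))) (n : ℕ) (θ : ℕ → ℕ) (u1 u2 w1 w2 : ℕ),
      PvuzSeam x R ω P (𝔓.col s.typ) 𝔇 (pvlmH m) s.ctr t.ctr (𝔓.ty s.typ) (𝔓.ty t.typ) (pvxvBx 𝔓 m s.ctr s.typ) (pvxvBx 𝔓 m t.ctr t.typ) j 𝔅 ξ cy Rl 𝔇c n θ u1 u2 w1 w2 ∧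
      ∀ μ, pvxvMu c m ≤ μ → μ < R / 2 →
        PvfwSeam (𝔅.T (pvxY ω)) (𝔅.posF (pvxY ω) (x + 7 * R)) (pvlfFl (𝔓.col s.typ) (𝔅.col (pvConf ω) ξ)) (pvxT ω) (pvxPos ω) (pvxCol ω (𝔓.col s.typ)) Rl x R μ (pvlmH m) cy n θ j 𝔇c 𝔇
          s.ctr t.ctr (𝔓.ty s.typ) (𝔓.ty t.typ) (pvxvBx 𝔓 m s.ctr s.typ) (pvxvBx 𝔓 m t.ctr t.typ) u1 u2 w1 w2 := by
  filter_upwards [pvxv_rad_small 𝔓 hR] with m hr ω hg P hP s t hs ht hst 𝔇 j A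
  exact pvxv_seam_of hW hb hR hr hg hP hs ht hst A

end model

/-! ## 2. the obstacle of record lies in `closedBall x (9R/4)` -/

section k94

variable {V D : Type} {T : PvMap V D} {pos : V → ℂ} {N : PvwNum} {h δ μ : ℝ} {x : ℂ} {R : ℝ} {zs zt : ℂ} {τs τt : PvwTy} {σ σ' : V → Bool} {𝔇 : PvwDat T}

theorem PvcjIn.box94_s (I : PvcjIn T pos N h δ μ x R zs zt τs τt σ σ' 𝔇) : pvwSq zs (pvwRad N h τs τs.k) ⊆ closedBall x (9 / 4 * R) := fun w hw => by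
  rw [mem_closedBall_iff_norm]
  have a1 := pvcj_sq_norm hw
  have a2 := pvcj_tri w zs x
  have a3 := pvcj_tri zs (pos (𝔇.g.v 0)) x
  have a4 := I.in2R 0 (Nat.zero_le _)
  have a5 := I.g0
  rw [norm_sub_rev] at a5
  have a6 := I.rad_s
  have a7 := I.rs
  have a8 := I.h0
  have a9 := I.bh_s
  nlinarith

theorem PvcjIn.box94_t (I : PvcjIn T pos N h δ μ x R zs zt τs τt σ σ' 𝔇) : pvwSq zt (pvwRad N h τt τt.k) ⊆ closedBall x (9 / 4 * R) := fun w hw => by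
  rw [mem_closedBall_iff_norm]
  have a1 := pvcj_sq_norm hw
  have a2 := pvcj_tri w zt x
  have a3 := pvcj_tri zt (pos (𝔇.g.v 𝔇.g.n)) x
  have a4 := I.in2R 𝔇.g.n le_rfl
  have a5 := I.g1
  rw [norm_sub_rev] at a5
  have a6 := I.rad_t
  have a7 := I.rt
  have a8 := I.h0
  have a9 := I.bh_t
  nlinarith

/-- **the obstacle lies in `closedBall x (9R/4)`** -/
theorem PvcjIn.ball94 (I : PvcjIn T pos N h δ μ x R zs zt τs τt σ σ' 𝔇) : 𝔇.pvfyKd pos h zs zt τs τt ⊆ closedBall x (9 / 4 * R) := by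
  have hbs : τs.b * h ≤ pvwRad N h τs τs.k := by nlinarith [I.rad_s, I.bh_s, I.h0]
  have hbt : τt.b * h ≤ pvwRad N h τt τt.k := by nlinarith [I.rad_t, I.bh_t, I.h0]
  refine pvkz_Kd_ball I.sph I.st_s I.st_t hbs hbt I.box94_s I.box94_t I.mesh (fun k hk => ?_)
  have a1 := I.in2R k hk.le
  have a2 := I.mu
  have a3 := I.dr
  have a4 := I.rho_h
  have a5 := I.rad_s
  have a6 := I.rs
  have a7 := I.bh_s
  have a8 := I.d0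
  nlinarith

end k94

/-- **the obstacle of record lies in `closedBall x (9R/4)`** (hypotheses of `pvcj_in` of 266) -/
theorem pvxv_K94 {τ : Type} {c : ℝ} {𝔓 : PvxPar τ c} {x : ℂ} {R : ℝ} {m : ℕ} {ω : PVSample} {P : PvbRim} {s t : PvbPin τ} {𝔇 : PvwDat (pvxT ω)} {j : ℕ}
    (hW : 𝔓.Wf) (doors : PvfeDoors (𝔓.Γ m) 𝔓.ty 𝔓.num (pvlmH m)) (b_gap : ∀ u, (𝔓.ty u).b + 2 ≤ 2 * (𝔓.ty u).b2)
    (dr : 8192 * pvlmDel c m ≤ 𝔓.num.rho * pvlmH m) (rR : ∀ u, pvwRad 𝔓.num (pvlmH m) (𝔓.ty u) (𝔓.ty u).k ≤ R / 100) (hR : 0 < R)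
    (hg : PvxvGood x R (pvxvMu c m) ω) (far : R / 3 ≤ ‖s.ctr - t.ctr‖) (arc : PvfhArc 𝔓 x R m ω P s t 𝔇 j) :
    𝔇.pvfyKd (pvxPos ω) (pvlmH m) s.ctr t.ctr (𝔓.ty s.typ) (𝔓.ty t.typ) ⊆ closedBall x (9 / 4 * R) :=
  (pvcj_in hW doors b_gap dr rR hR hg far arc).ball94

end Claimed.Agent.R289
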