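-- KEEP
import Claimed.Agent.R289.Tr.FitLiftS

/-!
# Row 289 (S0537), THE WALL, road E, FIT-DET, file Tr/FitSeam : THE FIELD `arc` OF `PvaccScene` FROM THE SEAM RECORD      (owner helper10; names `PvfwSeam.arc_*`, `PvfwSeam.Kd_eq`, `PvfwSeam.xm_eq ..`, lemmas `pvfi_s_*`)

`S : PvfwSeam ..` (49, `Tr/FitLiftS`).      `γ = pvacmGam Tc posc σc (pvwiTau c 0)` (211), `ts = u1 - 𝔇c.s.nm`, `tt = w2 + 𝔇c.t.np`.
* `S.Kd_eq`  : `𝔇c.pvfyKd posc h zs zt τs τt = 𝔇.pvfyKd pos h zs zt τs τt` (the obstacle of record of `Tr/FitL2`, IN THE PLANE)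
* `S.xm_eq`, `S.xp_eq` : the two tips are the same points
* **`S.arc_K`**  : `PvfrArc γ (𝔇.pvfyK pos) W μ L ts tt (𝔇.s.xm pos) (𝔇.t.xp pos)`      (`W` farther than `L` from the closed insides of the two gates)
* **`S.arc_Kd`** : `PvfrArc γ (𝔇.pvfyKd pos h zs zt τs τt) W μ L ts tt (𝔇.s.xm pos) (𝔇.t.xp pos)`      (`W` farther than `L` from the two closed core discs)
  = the field `arc` of `PvaccScene` at `K = pvcbK` (56), thinness = THE MESH `μ` OF THE RECORD.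
-/

set_option autoImplicit false
set_option linter.unusedSectionVars false
set_option linter.unusedVariables false

namespace Claimed.Agent.R289

open Set

section seamarc

variable {Vc Dc V D : Type}
variable {Tc : PvMap Vc Dc} {posc : Vc → ℂ} {σc : Vc → Bool} {T : PvMap V D} {pos : V → ℂ} {σ : V → Bool} {Rl : Dc → D → Prop}
  {x : ℂ} {R μ h : ℝ} {c : Tc.Cyc} {n : ℕ} {θ : ℕ → ℕ} {j : ℕ} {𝔇c : PvwDat Tc} {𝔇 : PvwDat T} {zs zt : ℂ} {τs τt : PvwTy} {Bs Bt : Set ℂ} {u1 u2 w1 w2 : ℕ}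

namespace PvfwSeam

variable (S : PvfwSeam Tc posc σc T pos σ Rl x R μ h c n θ j 𝔇c 𝔇 zs zt τs τt Bs Bt u1 u2 w1 w2)
include S

/-- the obstacle of record is the same set -/
theorem Kd_eq : 𝔇c.pvfyKd posc h zs zt τs τt = 𝔇.pvfyKd pos h zs zt τs τt := by
  unfold PvwDat.pvfyKd
  rw [S.K_eq]

/-- the stub of `s` lies in the patch -/
theorem em_patch {i : ℕ} (hi : i ≤ 𝔇c.s.nm) : posc (Tc.src (𝔇c.s.em i)) ∈ Metric.closedBall x (6 * R) :=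
  pvfw_ball_sub S.hR (S.box_s (S.inp.stub_s.em_in i hi).1)

/-- the stub of `t` lies in the patch -/
theorem ep_patch {i : ℕ} (hi : i ≤ 𝔇c.t.np) : posc (Tc.src (𝔇c.t.ep i)) ∈ Metric.closedBall x (6 * R) :=
  pvfw_ball_sub S.hR (S.box_t (S.inp.stub_t.ep_in i hi).1)

/-- the tip of `Σ⁻(s)` is the same point -/
theorem xm_eq : 𝔇c.s.xm posc = 𝔇.s.xm pos := by
  have hr : Rl (𝔇c.s.em 𝔇c.s.nm) (𝔇.s.em 𝔇.s.nm) := by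
    rw [S.dat.s.nm]
    exact S.dat.s.em _ le_rfl
  unfold PvwSt.xm PvwSt.mid
  rw [S.loc.pos_eq _ _ hr, show posc (Tc.tgt (𝔇c.s.em 𝔇c.s.nm)) = pos (T.tgt (𝔇.s.em 𝔇.s.nm)) from S.loc.pos_eq _ _ (S.loc.loc.iso.nxt hr)]

/-- the tip of `Σ⁺(t)` is the same point -/
theorem xp_eq : 𝔇c.t.xp posc = 𝔇.t.xp pos := by
  have hr : Rl (𝔇c.t.ep 𝔇c.t.np) (𝔇.t.ep 𝔇.t.np) := by
    rw [S.dat.t.np]
    exact S.dat.t.ep _ le_rfl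
  unfold PvwSt.xp PvwSt.mid
  rw [S.loc.pos_eq _ _ hr, show posc (Tc.tgt (𝔇c.t.ep 𝔇c.t.np)) = pos (T.tgt (𝔇.t.ep 𝔇.t.np)) from S.loc.pos_eq _ _ (S.loc.loc.iso.nxt hr)]

/-- the six mesh hypotheses of `pvfi_b_arc_wit`, in the completion, at `μ / 2` -/
theorem arc_mesh :
    (∀ i, i ≤ 𝔇c.s.nm → ‖posc (Tc.src (𝔇c.s.em i)) - posc (Tc.tgt (𝔇c.s.em i))‖ ≤ 2 * (μ / 2)) ∧
    (∀ i, i ≤ 𝔇c.s.nm → ‖posc (Tc.src (𝔇c.s.em i)) - posc (Tc.apex (𝔇c.s.em i))‖ ≤ 2 * (μ / 2)) ∧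
    (∀ i, i < 𝔇c.t.np → ‖posc (Tc.src (𝔇c.t.ep i)) - posc (Tc.tgt (𝔇c.t.ep i))‖ ≤ 2 * (μ / 2)) ∧
    (∀ i, i < 𝔇c.t.np → ‖posc (Tc.src (𝔇c.t.ep i)) - posc (Tc.apex (𝔇c.t.ep i))‖ ≤ 2 * (μ / 2)) ∧
    (∀ k, k < 𝔇c.g.n → ‖posc (𝔇c.g.v k) - posc (Tc.apex (Tc.opp (𝔇c.g.e k)))‖ ≤ 2 * (μ / 2)) ∧
    (∀ k, k < 𝔇c.g.n → ‖posc (𝔇c.g.v k) - posc (𝔇c.g.v (k + 1))‖ ≤ 2 * (μ / 2)) := by
  have e : 2 * (μ / 2) = μ := by ring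
  rw [e]
  refine ⟨fun i hi => (S.mesh_c (S.em_patch hi)).1, fun i hi => ?_, fun i hi => (S.mesh_c (S.ep_patch hi.le)).1, fun i hi => ?_, fun k hk => ?_, fun k hk => ?_⟩
  · rw [norm_sub_rev]
    exact (S.mesh_c (S.em_patch hi)).2.2
  · rw [norm_sub_rev]
    exact (S.mesh_c (S.ep_patch hi.le)).2.2
  · have h1 : posc (Tc.src (Tc.opp (𝔇c.g.e k))) ∈ Metric.closedBall x (6 * R) := by
      rw [Tc.src_opp', 𝔇c.g.tgt_e k hk]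
      exact S.arc_in (k + 1) hk
    have h2 := (S.mesh_c h1).2.1
    rwa [Tc.tgt_opp, 𝔇c.g.src_e k hk] at h2
  · have h1 : posc (Tc.src (𝔇c.g.e k)) ∈ Metric.closedBall x (6 * R) := by
      rw [𝔇c.g.src_e k hk]
      exact S.arc_in k hk.le
    have h2 := (S.mesh_c h1).1
    rwa [𝔇c.g.src_e k hk, 𝔇c.g.tgt_e k hk] at h2

/-- **FIELD `arc`, `K` = the closed frozen faces IN THE PLANE**; `W` farther than `L` from the closed insides of the two gates -/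
theorem arc_K (hn : 0 < 𝔇c.g.n) (W : Set ℂ) (L : ℝ) (hfs : ∀ p ∈ pvfiDisc Tc posc 𝔇c.s.S.Left, ∀ w ∈ W, L < ‖w - p‖) (hft : ∀ p ∈ pvfiDisc Tc posc 𝔇c.t.S.Left, ∀ w ∈ W, L < ‖w - p‖) :
    PvfrArc (pvacmGam Tc posc σc (pvwiTau c 0)) (𝔇.pvfyK pos) W μ L (u1 - 𝔇c.s.nm) (w2 + 𝔇c.t.np) (𝔇.s.xm pos) (𝔇.t.xp pos) := by
  obtain ⟨m1, m2, m3, m4, m5, m6⟩ := S.arc_mesh
  have := pvfi_b_arc_wit S.fr S.inp S.tab hn m1 m2 m3 m4 m5 m6 W L hfs hft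
  rw [S.K_eq, S.xm_eq, S.xp_eq, show 2 * (μ / 2) = μ by ring] at this
  exact this

/-- **FIELD `arc`, `K` = THE OBSTACLE OF RECORD `pvfyKd` IN THE PLANE** (`pvcbK` of `Tr/FitL2`); `W` farther than `L` from the two closed core discs -/
theorem arc_Kd (hn : 0 < 𝔇c.g.n) (W : Set ℂ) (L : ℝ) (hfs : ∀ p ∈ Metric.closedBall zs (τs.b * h), ∀ w ∈ W, L < ‖w - p‖) (hft : ∀ p ∈ Metric.closedBall zt (τt.b * h), ∀ w ∈ W, L < ‖w - p‖) :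
    PvfrArc (pvacmGam Tc posc σc (pvwiTau c 0)) (𝔇.pvfyKd pos h zs zt τs τt) W μ L (u1 - 𝔇c.s.nm) (w2 + 𝔇c.t.np) (𝔇.s.xm pos) (𝔇.t.xp pos) := by
  obtain ⟨m1, m2, m3, m4, m5, m6⟩ := S.arc_mesh
  have := pvfi_b_arc_Kd_wit S.fr S.inp S.tab hn m1 m2 m3 m4 m5 m6 W L hfs hft
  rw [S.Kd_eq, S.xm_eq, S.xp_eq, show 2 * (μ / 2) = μ by ring] at this
  exact this

end PvfwSeam

end seamarc

end Claimed.Agent.R289
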