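-- KEEP
import Claimed.Agent.R289.Tr.FitLiftS

/-!
# Row 289 (S0537), THE WALL, road E, FIT-DET, file Tr/SeamG : THE OUTER GATES AT THE SEAM = metric CORE-FREE on the clock of record      (helper292, second of 49; prefix `pvotg_`)

WHAT.   The hypothesis `core` of `pvacm_scene` (211, `Tr/AccM`) and the hypotheses `hfs hft` (far of the two discs) of `pvfi_b_arc_wit` (10, `Tr/FitDat`) ask: at the times of the CONTINUATION of the wall (`k ≤ ts` or `tt ≤ k`, `k ≤ n`)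
the black end `γ k` stays away from the two discs `B(zs, b h)`, `B(zt, b h)`.      Reason (ruling 9bis of 234): a SECOND ACTUAL gate `S₂` round each of the two gates, passed once by the wall of the rim (`PvwiTab.off_s`, `PvwiTab.off_t` of 179).
* sec. 1  in ONE sphere map, on `PvwiFr / PvwiIn / PvwiTab` (179): `pvotg_dm_s`, `pvotg_dm_t` (the entry gate edge and a rim dart lie inside the outer gate: metric test `pvftg_in` of 118), `pvotg_tip_s` (the time `ts` itself: the face BEHIND the tip has the vertex `am ∉ Bs`),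
          **`pvotg_free_s`**, **`pvotg_free_t`** : `a₂ h ≤ ‖pos (src (A k)) - z‖` for all `k ≤ n`, `k ≤ u1 - nm ∨ w2 + np ≤ k`
* sec. 2  `pvotg_twin` : a gate of the plane inside the patch has a twin gate in the completion
* sec. 3  at the seam record `PvfwSeam` (49): **`pvotg_seam`** (outer gates given IN THE PLANE, as in `PvfhArc.gate2_s/_t`), **`pvotg_core`** = the hypothesis `core` of `pvacm_scene` VERBATIM (`ρs = τs.b h`, `ρt = τt.b h`),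
          `pvotg_wit` (a point within `μ` of a position of the continuation is farther than `L` from the closed discs)
-/

set_option autoImplicit false
set_option linter.unusedSectionVars false
set_option linter.unusedVariables false

namespace Claimed.Agent.R289

open Set

/-! ## 1. one sphere map -/

section one

variable {V D : Type} {T : PvMap V D} {s : V → Bool} {pos : V → ℂ} {h : ℝ} {c : T.Cyc} {n : ℕ} {θ : ℕ → ℕ} {j : ℕ} {𝔇 : PvwDat T} {zs zt : ℂ} {τs τt : PvwTy} {Bs Bt : Set ℂ} {u1 u2 w1 w2 : ℕ}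

/-- the first vertex of the inner arc is `g⁻` -/
theorem pvotg_inn0 {𝔖 : PvwSt T} {z : ℂ} {τ : PvwTy} (hg : 𝔖.Gate pos h z τ s) : 0 < 𝔖.inn.n ∧ T.src (𝔖.inn.e 0) = 𝔖.gm := by
  obtain ⟨ns, h1, -, hLE⟩ := hg.strand
  have e0 := pvt_sd_v0 hLE
  have hn : 0 < 𝔖.inn.n := by
    by_contra hz
    have e2 := pvt_sd_vn hLE
    rw [show 𝔖.inn.n = 0 by omega, e0, h1] at e2
    exact hg.ne e2.symm
  refine ⟨hn, ?_⟩
  rw [𝔖.inn.src_e 0 hn, e0]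
  rfl

/-- `g⁻` lies in the open disc `B(z, b h)` -/
theorem pvotg_gm_near {𝔖 : PvwSt T} {z : ℂ} {τ : PvwTy} (hg : 𝔖.Gate pos h z τ s) : ‖pos 𝔖.gm - z‖ < τ.b * h := by
  obtain ⟨i, hi⟩ := hg.dm_on
  exact (hg.ann _ ⟨i, by rw [hi]; rfl⟩).2

/-- the entry gate edge of `s` and the rim dart number `j` lie inside a gate round `B(zs, b h)` -/
theorem pvotg_dm_s (F : PvwiFr T s c n θ) (I : PvwiIn T pos h s c j 𝔇 zs zt τs τt Bs Bt) {𝔊 : PvwSt T} {τ' : PvwTy} (hG : 𝔊.Gate pos h zs τ' s) (hab : τs.b * h ≤ τ'.a * h) :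
    𝔇.s.dm ∈ 𝔊.S.Left ∧ c.e j ∈ 𝔊.S.Left := by
  have h1 := (pvotg_gm_near I.gate_s).trans_le hab
  obtain ⟨hn, e0⟩ := pvotg_inn0 I.gate_s
  refine ⟨pvftg_in F.sph hG h1, pvftg_in F.sph hG ?_⟩
  have := I.run_s 0 hn
  rw [Nat.add_zero] at this
  rw [this, e0]
  exact h1

/-- the entry gate edge of `t` and a rim dart lie inside a gate round `B(zt, b h)` -/
theorem pvotg_dm_t (F : PvwiFr T s c n θ) (I : PvwiIn T pos h s c j 𝔇 zs zt τs τt Bs Bt) {𝔊 : PvwSt T} {τ' : PvwTy} (hG : 𝔊.Gate pos h zt τ' s) (hab : τt.b * h ≤ τ'.a * h) :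
    𝔇.t.dm ∈ 𝔊.S.Left ∧ c.e (j + 𝔇.s.inn.n + 𝔇.g.n) ∈ 𝔊.S.Left := by
  have h1 := (pvotg_gm_near I.gate_t).trans_le hab
  obtain ⟨hn, e0⟩ := pvotg_inn0 I.gate_t
  refine ⟨pvftg_in F.sph hG h1, pvftg_in F.sph hG ?_⟩
  have := I.run_t 0 hn
  rw [Nat.add_zero] at this
  rw [this, e0]
  exact h1

/-- the black end of the tip of `Σ⁻(s)` is off the disc `B(zs, a₂ h)`: the face behind the tip has a vertex outside the box -/
theorem pvotg_tip_s (hT : T.IsSph) {𝔖 𝔊 : PvwSt T} {B : Set ℂ} (hst : 𝔖.StubM pos B s) {z : ℂ} {τ' : PvwTy} (hG : 𝔊.Gate pos h z τ' s) (hB : ∀ v ∈ 𝔊.ins, pos v ∈ B) :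
    τ'.a * h ≤ ‖pos (T.src (𝔖.em 𝔖.nm)) - z‖ := by
  have hA := pl_left_face 𝔊.S
  have h1 : T.opp (𝔖.em 𝔖.nm) ∉ 𝔊.S.Left := fun hm => hst.em_out (hB _ (pvwk_vof hA hm).2.2)
  have h2 := pvfu_gate_tgt hT hG h1
  rwa [T.tgt_opp] at h2

/-- **CORE-FREE ROUND `s`** on the clock of record: at all the times of the continuation (`k ≤ ts` or `tt ≤ k`, `k ≤ n`) the black end of the position is off the disc `B(zs, a₂ h)` of the outer gate -/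
theorem pvotg_free_s (F : PvwiFr T s c n θ) (I : PvwiIn T pos h s c j 𝔇 zs zt τs τt Bs Bt) (Tb : PvwiTab T s c n θ j 𝔇 u1 u2 w1 w2)
    {𝔊 : PvwSt T} {τ' : PvwTy} (hG : 𝔊.Gate pos h zs τ' s) (hab : τs.b * h ≤ τ'.a * h) (hB : ∀ v ∈ 𝔊.ins, pos v ∈ Bs)
    {k : ℕ} (hk : k ≤ u1 - 𝔇.s.nm ∨ w2 + 𝔇.t.np ≤ k) (hkn : k ≤ n) : τ'.a * h ≤ ‖pos (T.src (pvasIt T s (pvwiTau c 0) k)) - zs‖ := by
  have t1 := Tb.nm_le; have t2 := Tb.u12; have t3 := Tb.uw; have t4 := Tb.w12; have t5 := Tb.np_lt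
  obtain ⟨hdm, hi⟩ := pvotg_dm_s F I hG hab
  have key : ∀ K, w1 ≤ K → K ≤ n + (u1 - 𝔇.s.nm) → τ'.a * h ≤ ‖pos (T.src (pvasIt T s (pvwiTau c 0) K)) - zs‖ := by
    intro K h1 h2
    rcases Nat.lt_or_ge K (n + (u1 - 𝔇.s.nm)) with h3 | h3
    · exact pvfu_gate_src F.sph hG (Tb.off_s F I hG hB hdm hi K h1 h3)
    · have e : K = (u1 - 𝔇.s.nm) + n := by omega
      rw [e, F.per.add, ← Tb.em _ le_rfl]
      exact pvotg_tip_s F.sph I.stub_s hG hB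
  rcases hk with hk | hk
  · rw [← F.per.add k]
    exact key (k + n) (by omega) (by omega)
  · exact key k (by omega) (by omega)

/-- **CORE-FREE ROUND `t`** on the clock of record -/
theorem pvotg_free_t (F : PvwiFr T s c n θ) (I : PvwiIn T pos h s c j 𝔇 zs zt τs τt Bs Bt) (Tb : PvwiTab T s c n θ j 𝔇 u1 u2 w1 w2)
    {𝔊 : PvwSt T} {τ' : PvwTy} (hG : 𝔊.Gate pos h zt τ' s) (hab : τt.b * h ≤ τ'.a * h) (hB : ∀ v ∈ 𝔊.ins, pos v ∈ Bt)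
    {k : ℕ} (hk : k ≤ u1 - 𝔇.s.nm ∨ w2 + 𝔇.t.np ≤ k) (hkn : k ≤ n) : τ'.a * h ≤ ‖pos (T.src (pvasIt T s (pvwiTau c 0) k)) - zt‖ := by
  have t1 := Tb.nm_le; have t2 := Tb.u12; have t3 := Tb.uw; have t4 := Tb.w12; have t5 := Tb.np_lt
  obtain ⟨hdm, hi⟩ := pvotg_dm_t F I hG hab
  have key : ∀ K, w2 + 𝔇.t.np ≤ K → K ≤ n + u1 → τ'.a * h ≤ ‖pos (T.src (pvasIt T s (pvwiTau c 0) K)) - zt‖ :=
    fun K h1 h2 => pvfu_gate_src F.sph hG (Tb.off_t F I hG hB hdm hi K h1 h2)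
  rcases hk with hk | hk
  · rw [← F.per.add k]
    exact key (k + n) (by omega) (by omega)
  · exact key k hk (by omega)

end one

/-! ## 2. the twin of a gate of the plane -/

section twin

variable {Vc Dc V D : Type} {Tc : PvMap Vc Dc} {T : PvMap V D} {Rl : Dc → D → Prop} {posc : Vc → ℂ} {pos : V → ℂ} {Kr : Set ℂ} {σc : Vc → Bool} {σ : V → Bool}

/-- a gate of the plane inside the patch has a twin gate in the completion -/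
theorem pvotg_twin (L : PvLocP Tc T Rl posc pos Kr) (hT : T.IsSph) (hσ : ∀ d d', Rl d d' → σc (Tc.src d) = σ (T.src d')) {𝔊 : PvwSt T} {h : ℝ} {z : ℂ} {τ : PvwTy}
    (hK : Metric.closedBall z (τ.b * h) ⊆ Kr) (hG : 𝔊.Gate pos h z τ σ) : ∃ 𝔊c : PvwSt Tc, PvLocGt Rl 𝔊c 𝔊 ∧ 𝔊c.Gate posc h z τ σc := by
  obtain ⟨𝔊c, G⟩ := pvlw_gt_exists L.symm hK hG
  exact ⟨𝔊c, G.symm, pvlw_gate L.symm hT (fun d' d hd => (hσ d d' hd).symm) G hK hG⟩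

end twin

/-! ## 3. at the seam record -/

section seam

variable {Vc Dc V D : Type} {Tc : PvMap Vc Dc} {posc : Vc → ℂ} {σc : Vc → Bool} {T : PvMap V D} {pos : V → ℂ} {σ : V → Bool} {Rl : Dc → D → Prop}
  {x : ℂ} {R μ h : ℝ} {c : Tc.Cyc} {n : ℕ} {θ : ℕ → ℕ} {j : ℕ} {𝔇c : PvwDat Tc} {𝔇 : PvwDat T} {zs zt : ℂ} {τs τt : PvwTy} {Bs Bt : Set ℂ} {u1 u2 w1 w2 : ℕ}

/-- **THE OUTER GATES AT THE SEAM**: the two outer actual gates are given IN THE PLANE (`PvfhArc.gate2_s`, `gate2_t`); their discs `B(z, b₂ h)` lie in the boxes of the stubs -/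
theorem pvotg_seam (S : PvfwSeam Tc posc σc T pos σ Rl x R μ h c n θ j 𝔇c 𝔇 zs zt τs τt Bs Bt u1 u2 w1 w2) (hT : T.IsSph)
    {𝔊s 𝔊t : PvwSt T} {τs' τt' : PvwTy} (hGs : 𝔊s.Gate pos h zs τs' σ) (hGt : 𝔊t.Gate pos h zt τt' σ)
    (habs : τs.b * h ≤ τs'.a * h) (habt : τt.b * h ≤ τt'.a * h) (hBs : Metric.closedBall zs (τs'.b * h) ⊆ Bs) (hBt : Metric.closedBall zt (τt'.b * h) ⊆ Bt)
    {k : ℕ} (hk : k ≤ u1 - 𝔇c.s.nm ∨ w2 + 𝔇c.t.np ≤ k) (hkn : k ≤ n) :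
    τs'.a * h ≤ ‖pvacmGam Tc posc σc (pvwiTau c 0) k - zs‖ ∧ τt'.a * h ≤ ‖pvacmGam Tc posc σc (pvwiTau c 0) k - zt‖ := by
  have hsub := pvfw_ball_sub (x := x) S.hR
  obtain ⟨𝔊sc, -, hs⟩ := pvotg_twin S.loc hT S.col (hBs.trans (S.box_s.trans hsub)) hGs
  obtain ⟨𝔊tc, -, ht⟩ := pvotg_twin S.loc hT S.col (hBt.trans (S.box_t.trans hsub)) hGt
  exact ⟨pvotg_free_s S.fr S.inp S.tab hs habs (fun v hv => hBs (mem_closedBall_iff_norm.2 (hs.inside v hv).le)) hk hkn,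
    pvotg_free_t S.fr S.inp S.tab ht habt (fun v hv => hBt (mem_closedBall_iff_norm.2 (ht.inside v hv).le)) hk hkn⟩

/-- **THE HYPOTHESIS `core` OF `pvacm_scene`** (211), verbatim, `ρs = τs.b h`, `ρt = τt.b h`, `d0 = pvwiTau c 0`, `ts = u1 - nm`, `tt = w2 + np`;   `Λ = S + 8 r` -/
theorem pvotg_core (S : PvfwSeam Tc posc σc T pos σ Rl x R μ h c n θ j 𝔇c 𝔇 zs zt τs τt Bs Bt u1 u2 w1 w2) (hT : T.IsSph)
    {𝔊s 𝔊t : PvwSt T} {τs' τt' : PvwTy} (hGs : 𝔊s.Gate pos h zs τs' σ) (hGt : 𝔊t.Gate pos h zt τt' σ)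
    (hBs : Metric.closedBall zs (τs'.b * h) ⊆ Bs) (hBt : Metric.closedBall zt (τt'.b * h) ⊆ Bt) {Λ : ℝ} (hΛ : 0 ≤ Λ + μ)
    (hgs : τs.b * h + Λ + μ < τs'.a * h) (hgt : τt.b * h + Λ + μ < τt'.a * h) {lo hi : ℕ} (hhi : hi ≤ n) :
    ∀ k, lo ≤ k → k ≤ hi → (k ≤ u1 - 𝔇c.s.nm ∨ w2 + 𝔇c.t.np ≤ k) →
      τs.b * h + Λ + μ < ‖pvacmGam Tc posc σc (pvwiTau c 0) k - zs‖ ∧ τt.b * h + Λ + μ < ‖pvacmGam Tc posc σc (pvwiTau c 0) k - zt‖ := by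
  intro k _ h2 h3
  obtain ⟨a1, a2⟩ := pvotg_seam S hT hGs hGt (by linarith) (by linarith) hBs hBt h3 (h2.trans hhi)
  exact ⟨lt_of_lt_of_le hgs a1, lt_of_lt_of_le hgt a2⟩

/-- a point within `μ` of a position of the continuation is farther than `Λ` from the two closed discs -/
theorem pvotg_wit (S : PvfwSeam Tc posc σc T pos σ Rl x R μ h c n θ j 𝔇c 𝔇 zs zt τs τt Bs Bt u1 u2 w1 w2) (hT : T.IsSph)
    {𝔊s 𝔊t : PvwSt T} {τs' τt' : PvwTy} (hGs : 𝔊s.Gate pos h zs τs' σ) (hGt : 𝔊t.Gate pos h zt τt' σ)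
    (hBs : Metric.closedBall zs (τs'.b * h) ⊆ Bs) (hBt : Metric.closedBall zt (τt'.b * h) ⊆ Bt) {Λ : ℝ} (hΛ : 0 ≤ Λ + μ)
    (hgs : τs.b * h + Λ + μ < τs'.a * h) (hgt : τt.b * h + Λ + μ < τt'.a * h)
    {k : ℕ} (hk : k ≤ u1 - 𝔇c.s.nm ∨ w2 + 𝔇c.t.np ≤ k) (hkn : k ≤ n) {w : ℂ} (hw : ‖w - pvacmGam Tc posc σc (pvwiTau c 0) k‖ ≤ μ) :
    (∀ p ∈ Metric.closedBall zs (τs.b * h), Λ < ‖w - p‖) ∧ ∀ p ∈ Metric.closedBall zt (τt.b * h), Λ < ‖w - p‖ := by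
  obtain ⟨a1, a2⟩ := pvotg_core S hT hGs hGt hBs hBt hΛ hgs hgt (lo := 0) le_rfl k (Nat.zero_le _) hkn hk
  have tri : ∀ (g z p : ℂ) (ρ : ℝ), ‖w - g‖ ≤ μ → ρ + Λ + μ < ‖g - z‖ → ‖p - z‖ ≤ ρ → Λ < ‖w - p‖ := by
    intro g z p ρ h1 h2 h3
    have h4 : ‖g - z‖ ≤ ‖g - w‖ + ‖w - p‖ + ‖p - z‖ := by
      calc ‖g - z‖ = ‖(g - w) + (w - p) + (p - z)‖ := by ring_nf
        _ ≤ ‖(g - w) + (w - p)‖ + ‖p - z‖ := norm_add_le _ _
        _ ≤ ‖g - w‖ + ‖w - p‖ + ‖p - z‖ := by gcongr; exact norm_add_le _ _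
    rw [norm_sub_rev g w] at h4
    linarith
  exact ⟨fun p hp => tri _ _ p _ hw a1 (mem_closedBall_iff_norm.1 hp), fun p hp => tri _ _ p _ hw a2 (mem_closedBall_iff_norm.1 hp)⟩

end seam

end Claimed.Agent.R289
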