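-- KEEP
import Claimed.Agent.R289.Tr.Wit

/-!
# Row 289 (S0537, Cardy for Poisson-Voronoi), THE WALL, road E, FIT-DET, file Tr/WitM : THE CLOCK OF AN ACTUAL DATUM, METRIC FORM      (helper179; prefix `pvwi_`, `Pvwi`; continuation of `Tr/Wit`)

MAP LEVEL: `T : PvMap V D` a SPHERE map (= a completion), wall `A k := pvasIt T s (pvwiTau c 0) k`.
* sec. 8   **METRIC CORE-FREE**: `pvwi_round_left` (a dart whose source lies in `B(z, a h)` is inside the gate), `pvwi_face_far` (a face outside the gate has its three vertices `a h`-far), `pvwi_next_far`;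
           **`PvwiTab.free_s`, `PvwiTab.free_t`** (ANY actual gate round the disc of the pin, inside its box), **`PvwiTab.core_free`** (one period: the times `k ≤ α` or `β ≤ k ≤ n`; the outer gates as in `PvwDat.Actual`) = the field `core` of `pvacm_scene` (211)
* sec. 9   **WINDOW < PERIOD**: `pvwi_src_one` (`src (A 1) = src (c.e 1)`), `PvwiFr.injOn` (`A` is injective on `Icc lo hi`, `hi < lo + n`), `PvwiFr.src_zero src_per`
* sec. 10  **THE CUT**: `pvwi_rim_shift` (`(c.shift m).IsRim s`), `pvwi_cut` (an arc of `c` which avoids the vertex number `m` does not wrap around `c.shift m`)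
* sec. 11  **THE BRIDGE**: `pvwi_inn_ins`, **`pvwi_in_of_actual`** (`AtIn s`, `AtOut t`, `Actual`, a far rim vertex ⟹ `PvwiIn` for the rim cut at that vertex), `pvwi_in_of_ok` (the states from `Ok` + `Cyl`),
           **`pvwi_master`** (`Ok` + `Actual` + finite wall + far vertex ⟹ frame, input, time table)
-/

set_option autoImplicit false
set_option linter.unusedSectionVars false
set_option linter.unusedVariables false

namespace Claimed.Agent.R289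

open Set

variable {V D : Type} {T : PvMap V D} {s : V → Bool}

/-! ## 8. metric core-free -/

section metric

variable {pos : V → ℂ} {h : ℝ} {z : ℂ} {τ : PvwTy} {𝔊 : PvwSt T}

/-- a dart whose source lies in the disc `B(z, a h)` is inside the gate -/
theorem pvwi_round_left (hT : T.IsSph) (hg : 𝔊.Gate pos h z τ s) {d : D} (hd : ‖pos (T.src d) - z‖ < τ.a * h) : d ∈ 𝔊.S.Left := by
  obtain ⟨d0, hd0, e0⟩ := hg.round _ hd
  rcases pl_jordan_vert hT 𝔊.S (T.src d) with h1 | h1 | h1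
  · exact absurd hd (not_lt.2 (hg.ann _ h1).1)
  · exact h1 d rfl
  · have h2 := h1 d0 e0
    rw [(pl_jordan hT 𝔊.S).1] at h2
    exact absurd hd0 h2

/-- a face outside the gate has its three vertices outside the disc `B(z, a h)` -/
theorem pvwi_face_far (hT : T.IsSph) (hg : 𝔊.Gate pos h z τ s) {d : D} (hd : d ∉ 𝔊.S.Left) :
    τ.a * h ≤ ‖pos (T.src d) - z‖ ∧ τ.a * h ≤ ‖pos (T.tgt d) - z‖ ∧ τ.a * h ≤ ‖pos (T.apex d) - z‖ := by
  have hA := pl_left_face 𝔊.S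
  refine ⟨?_, ?_, ?_⟩
  · by_contra hlt
    exact hd (pvwi_round_left hT hg (not_le.1 hlt))
  · by_contra hlt
    exact hd ((hA d).1 (pvwi_round_left hT hg (d := T.nxt d) (not_le.1 hlt)))
  · by_contra hlt
    exact hd ((hA.nxt2 T d).1 (pvwi_round_left hT hg (d := T.nxt (T.nxt d)) (not_le.1 hlt)))

/-- the next position of a position outside the gate has its two ends outside the disc -/
theorem pvwi_next_far (hT : T.IsSph) (hg : 𝔊.Gate pos h z τ s) {d : D} (hd : d ∉ 𝔊.S.Left) :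
    τ.a * h ≤ ‖pos (T.src (pvasStep T s d)) - z‖ ∧ τ.a * h ≤ ‖pos (T.tgt (pvasStep T s d)) - z‖ := by
  have h1 : T.opp (pvasStep T s d) ∉ 𝔊.S.Left := fun hm => hd ((pvas_step_opp_mem (pl_left_face 𝔊.S) s).1 hm)
  obtain ⟨a1, a2, -⟩ := pvwi_face_far hT hg h1
  rw [T.src_opp'] at a1
  rw [T.tgt_opp] at a2
  exact ⟨a2, a1⟩

variable {c : T.Cyc} {n : ℕ} {θ : ℕ → ℕ} {j : ℕ} {𝔇 : PvwDat T} {zs zt : ℂ} {τs τt : PvwTy} {Bs Bt : Set ℂ} {u1 u2 w1 w2 : ℕ}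

theorem pvwi_inn_pos {𝔖 : PvwSt T} (hg : 𝔖.Gate pos h z τ s) : 0 < 𝔖.inn.n := by
  by_contra hz
  obtain ⟨ns, h1, -, hLE⟩ := hg.strand
  have e2 := pvt_sd_vn hLE
  rw [show 𝔖.inn.n = 0 by omega, pvt_sd_v0 hLE, h1] at e2
  exact hg.ne e2.symm

theorem pvwi_inn_v0 {𝔖 : PvwSt T} (hg : 𝔖.Gate pos h z τ s) : 𝔖.inn.v 0 = 𝔖.gm := by
  obtain ⟨ns, -, -, hLE⟩ := hg.strand
  exact pvt_sd_v0 hLE

theorem pvwi_inn_vn {𝔖 : PvwSt T} (hg : 𝔖.Gate pos h z τ s) : 𝔖.inn.v 𝔖.inn.n = 𝔖.gp := by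
  obtain ⟨ns, h1, -, hLE⟩ := hg.strand
  rw [pvt_sd_vn hLE, h1]
  rfl

/-- `g⁻` lies in the open disc `B(z, b h)` -/
theorem pvwi_gm_lt {𝔖 : PvwSt T} (hg : 𝔖.Gate pos h z τ s) : ‖pos 𝔖.gm - z‖ < τ.b * h := by
  obtain ⟨i, hi⟩ := hg.dm_on
  exact (hg.ann _ ⟨i, by rw [hi]; rfl⟩).2

/-- **METRIC CORE-FREE ROUND `s`**: `𝔊` = an actual gate round the disc `B(z_s, b h)` of the pin `s`, inside the box of `s`.      From the time `w1` up to the tip of `Σ⁻(s)` INCLUDED the two ends of the position are `a' h`-far from `z_s`. -/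
theorem PvwiTab.free_s (Tb : PvwiTab T s c n θ j 𝔇 u1 u2 w1 w2) (F : PvwiFr T s c n θ) (I : PvwiIn T pos h s c j 𝔇 zs zt τs τt Bs Bt)
    {τ' : PvwTy} (hG : 𝔊.Gate pos h zs τ' s) (hB : ∀ v ∈ 𝔊.ins, pos v ∈ Bs) (hab : τs.b * h ≤ τ'.a * h) :
    ∀ k, w1 ≤ k → k ≤ n + (u1 - 𝔇.s.nm) → τ'.a * h ≤ ‖pos (T.src (pvasIt T s (pvwiTau c 0) k)) - zs‖ ∧ τ'.a * h ≤ ‖pos (T.tgt (pvasIt T s (pvwiTau c 0) k)) - zs‖ := by
  have t1 := Tb.nm_le; have t2 := Tb.u12; have t3 := Tb.uw; have t4 := Tb.w12; have t5 := Tb.np_lt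
  have hgm := (pvwi_gm_lt I.gate_s).trans_le hab
  have hdm : 𝔇.s.dm ∈ 𝔊.S.Left := pvwi_round_left F.sph hG hgm
  have hs0 := pvwi_inn_pos I.gate_s
  have hi : c.e (j + 0) ∈ 𝔊.S.Left := by
    refine pvwi_round_left F.sph hG ?_
    rw [I.run_s 0 hs0, 𝔇.s.inn.src_e 0 hs0, pvwi_inn_v0 I.gate_s]
    exact hgm
  have hoff := Tb.off_s F I hG hB hdm hi
  intro k hk1 hk2
  rcases Nat.lt_or_ge k (n + (u1 - 𝔇.s.nm)) with h1 | h1
  · obtain ⟨a1, a2, -⟩ := pvwi_face_far F.sph hG (hoff k hk1 h1)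
    exact ⟨a1, a2⟩
  · have e : k = (n + (u1 - 𝔇.s.nm) - 1) + 1 := by omega
    rw [e, pvas_it_succ]
    exact pvwi_next_far F.sph hG (hoff _ (by omega) (by omega))

/-- **METRIC CORE-FREE ROUND `t`**: from the tip of `Σ⁺(t)` up to the return to the entry gate edge of `s` -/
theorem PvwiTab.free_t (Tb : PvwiTab T s c n θ j 𝔇 u1 u2 w1 w2) (F : PvwiFr T s c n θ) (I : PvwiIn T pos h s c j 𝔇 zs zt τs τt Bs Bt)
    {τ' : PvwTy} (hG : 𝔊.Gate pos h zt τ' s) (hB : ∀ v ∈ 𝔊.ins, pos v ∈ Bt) (hab : τt.b * h ≤ τ'.a * h) :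
    ∀ k, w2 + 𝔇.t.np ≤ k → k ≤ n + u1 → τ'.a * h ≤ ‖pos (T.src (pvasIt T s (pvwiTau c 0) k)) - zt‖ ∧ τ'.a * h ≤ ‖pos (T.tgt (pvasIt T s (pvwiTau c 0) k)) - zt‖ := by
  have hgm := (pvwi_gm_lt I.gate_t).trans_le hab
  have hdm : 𝔇.t.dm ∈ 𝔊.S.Left := pvwi_round_left F.sph hG hgm
  have ht0 := pvwi_inn_pos I.gate_t
  have hi : c.e (j + 𝔇.s.inn.n + 𝔇.g.n + 0) ∈ 𝔊.S.Left := by
    refine pvwi_round_left F.sph hG ?_
    rw [I.run_t 0 ht0, 𝔇.t.inn.src_e 0 ht0, pvwi_inn_v0 I.gate_t]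
    exact hgm
  intro k hk1 hk2
  obtain ⟨a1, a2, -⟩ := pvwi_face_far F.sph hG (Tb.off_t F I hG hB hdm hi k hk1 hk2)
  exact ⟨a1, a2⟩

/-- the closed inside of a gate lies in every square of half side `≥ b h` -/
theorem pvwi_ins_sq {𝔖 : PvwSt T} (hg : 𝔖.Gate pos h z τ s) {r : ℝ} (hr : τ.b * h ≤ r) : ∀ v ∈ 𝔖.ins, pos v ∈ pvwSq z r := fun v hv =>
  ⟨((Complex.abs_re_le_norm _).trans (hg.inside v hv).le).trans hr, ((Complex.abs_im_le_norm _).trans (hg.inside v hv).le).trans hr⟩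

/-- **METRIC CORE-FREE, ONE PERIOD** (= the field `core` of `pvacm_scene`): the outer actual gates as in `PvwDat.Actual`; the boxes are squares of half sides `rs ≥ b₂ h`, `rt ≥ b₂ h`; `b ≤ a₂`.
At the times `k ≤ α = u1 - nm` and `β = w2 + np ≤ k ≤ n` the two ends of the position are `a₂ h`-far from BOTH centres. -/
theorem PvwiTab.core_free {rs rt : ℝ} (Tb : PvwiTab T s c n θ j 𝔇 u1 u2 w1 w2) (F : PvwiFr T s c n θ) (I : PvwiIn T pos h s c j 𝔇 zs zt τs τt (pvwSq zs rs) (pvwSq zt rt))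
    (out_s : ∃ (𝔖₂ : PvwSt T) (o : Bool), 𝔖₂.Gate pos h zs (τs.outer o) s) (out_t : ∃ (𝔖₂ : PvwSt T) (o : Bool), 𝔖₂.Gate pos h zt (τt.outer o) s)
    (hbs : τs.b * h ≤ τs.a2 * h) (hbt : τt.b * h ≤ τt.a2 * h) (hrs : τs.b2 * h ≤ rs) (hrt : τt.b2 * h ≤ rt) {k : ℕ} (hkn : k ≤ n) (hk : k ≤ u1 - 𝔇.s.nm ∨ w2 + 𝔇.t.np ≤ k) :
    (τs.a2 * h ≤ ‖pos (T.src (pvasIt T s (pvwiTau c 0) k)) - zs‖ ∧ τs.a2 * h ≤ ‖pos (T.tgt (pvasIt T s (pvwiTau c 0) k)) - zs‖) ∧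
      τt.a2 * h ≤ ‖pos (T.src (pvasIt T s (pvwiTau c 0) k)) - zt‖ ∧ τt.a2 * h ≤ ‖pos (T.tgt (pvasIt T s (pvwiTau c 0) k)) - zt‖ := by
  have t1 := Tb.nm_le; have t2 := Tb.u12; have t3 := Tb.uw; have t4 := Tb.w12; have t5 := Tb.np_lt
  obtain ⟨𝔖s, os, gs⟩ := out_s
  obtain ⟨𝔖t, ot, gt⟩ := out_t
  have fs := Tb.free_s F I gs (pvwi_ins_sq gs hrs) hbs
  have ft := Tb.free_t F I gt (pvwi_ins_sq gt hrt) hbt
  rcases hk with hk | hk
  · rw [← F.per.add k]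
    exact ⟨fs (k + n) (by omega) (by omega), ft (k + n) (by omega) (by omega)⟩
  · exact ⟨fs k (by omega) (by omega), ft k hk (by omega)⟩

end metric

/-! ## 9. the window is shorter than a period -/

section window

variable {c : T.Cyc} {n : ℕ} {θ : ℕ → ℕ}

theorem PvwiFr.src_zero (F : PvwiFr T s c n θ) : T.src (pvasIt T s (pvwiTau c 0) 0) = T.src (c.e 0) := pvwi_tau_src c 0

theorem PvwiFr.src_per (F : PvwiFr T s c n θ) : T.src (pvasIt T s (pvwiTau c 0) n) = T.src (c.e 0) := by rw [F.per.ret]; exact pvwi_tau_src c 0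

/-- the position number `1` of the wall starts at the SECOND vertex of the rim -/
theorem pvwi_src_one (F : PvwiFr T s c n θ) : T.src (pvasIt T s (pvwiTau c 0) 1) = T.src (c.e 1) := by
  have hap : T.apex (pvwiTau c 0) = T.src (c.e 1) := by
    unfold pvwiTau PvMap.rotInv
    rw [T.apex_nxt, T.src_opp', c.chain]
  have e : pvasIt T s (pvwiTau c 0) 1 = pvasStep T s (pvwiTau c 0) := rfl
  rw [e]
  rcases pvas_step_ends s (pvwiTau c 0) with ⟨-, e1, -⟩ | ⟨a, -, -⟩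
  · rw [e1, hap]
  · rw [hap, F.col 1] at a
    exact Bool.noConfusion a

/-- the wall is injective on every window shorter than a period -/
theorem PvwiFr.injOn (F : PvwiFr T s c n θ) {lo hi : ℕ} (hlt : hi < lo + n) : Set.InjOn (pvasIt T s (pvwiTau c 0)) (Set.Icc lo hi) := by
  rintro a ⟨a1, a2⟩ b ⟨b1, b2⟩ e
  rcases Nat.le_total a b with hab | hab
  · exact F.per.inj hab (by omega) e
  · exact (F.per.inj hab (by omega) e.symm).symm

end window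

/-! ## 10. the cut -/

section cut

/-- a rim may be cut at any of its vertices (proof of `l9_rim_shift`, `Cr/Inst`, with the circuit named) -/
theorem pvwi_rim_shift {c : T.Cyc} (h : c.IsRim s) (j : ℕ) : (c.shift j).IsRim s := by
  have he0 : (c.shift j).e 0 = c.e j := by show c.e (0 + j) = c.e j; rw [Nat.zero_add]
  have hlab : T.SameLab s (T.opp (c.e 0)) (T.opp (c.e j)) := pl_rim_lab h j
  have h0L : c.e 0 ∈ c.Left := Relation.ReflTransGen.refl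
  have hC : ¬ T.Wall s (T.opp (c.e 0)) (T.opp (T.opp (c.e 0))) := by
    rw [T.opp_opp]
    rw [h.2.1] at h0L
    exact h0L.2
  have hj := (pl_ra_A_of_lab hC hlab).1
  rw [T.opp_opp, ← h.2.1] at hj
  have hj' : T.DJoin c.darts (c.e 0) (c.e j) := hj
  unfold PvMap.Cyc.IsRim
  rw [he0]
  refine ⟨pl_rim_tag h j, ?_, ?_⟩
  · have hL : (c.shift j).Left = c.Left := by
      ext x
      show T.DJoin (c.shift j).darts ((c.shift j).e 0) x ↔ T.DJoin c.darts (c.e 0) x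
      rw [pl_cyc_shift_darts, he0]
      exact ⟨fun hx => Relation.ReflTransGen.trans hj' hx, fun hx => Relation.ReflTransGen.trans (T.djoin_symm hj') hx⟩
    rw [hL, h.2.1]
    ext x
    unfold plRaA
    simp only [Set.mem_ofPred_eq]
    rw [pl_ra_wall_congr hlab.2.2.1 x]
    have hc : T.CStep s (T.opp (c.e 0)) = T.CStep s (T.opp (c.e j)) := pl_ra_cstep_congr hlab.2.2.1
    have hin : Relation.ReflTransGen (T.CStep s (T.opp (c.e 0))) (T.opp (c.e 0)) (T.opp (c.e j)) := hlab.2.2.2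
    have : T.InComp s (T.opp (c.e 0)) x ↔ T.InComp s (T.opp (c.e j)) x := by
      unfold PvMap.InComp
      rw [← hc]
      exact ⟨fun hx => Relation.ReflTransGen.trans (pl_ra_rtg_symm (pl_ra_cstep_symm s _) hin) hx, fun hx => Relation.ReflTransGen.trans hin hx⟩
    rw [this]
  · intro d'
    have h1 : T.SameLab s (T.opp (c.e j)) d' ↔ T.SameLab s (T.opp (c.e 0)) d' :=
      ⟨fun hx => pl_ra_lab_trans hlab hx, fun hx => pl_ra_lab_trans (pl_ra_lab_symm hlab) hx⟩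
    rw [h1, h.2.2 d']
    have hd := pl_cyc_shift_darts c j
    constructor
    · rintro ⟨i, rfl⟩
      have : c.e i ∈ (c.shift j).darts := by rw [hd]; exact ⟨i, rfl⟩
      obtain ⟨k, hk⟩ := this
      exact ⟨k, by rw [hk]⟩
    · rintro ⟨i, rfl⟩
      exact ⟨i + j, rfl⟩

theorem pvwi_shift_e (c : T.Cyc) (m i : ℕ) : (c.shift m).e i = c.e (i + m) := rfl

theorem pvwi_shift_n (c : T.Cyc) (m : ℕ) : (c.shift m).n = c.n := rfl

/-- **THE CUT**: an arc `j, …, j + L` of the circuit `c` which avoids the vertex number `m` does not wrap around the circuit cut at this vertex -/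
theorem pvwi_cut (c : T.Cyc) {j L m : ℕ} (hm : ∀ i, i ≤ L → T.src (c.e (j + i)) ≠ T.src (c.e m)) :
    ∃ j', j' + L < (c.shift m).n ∧ ∀ i, (c.shift m).e (j' + i) = c.e (j + i) := by
  have hN := pl_cyc_pos c
  have ha : m % c.n < c.n := Nat.mod_lt _ hN
  have key : ∀ i, (c.shift m).e ((j + (c.n - m % c.n)) % c.n + i) = c.e (j + i) := by
    intro i
    rw [pvwi_shift_e]
    refine pl_cyc_eq_of_mod c ?_
    have e1 : (j + (c.n - m % c.n)) % c.n + i + m = (j + (c.n - m % c.n)) % c.n + (i + m) := by omega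
    rw [e1, Nat.mod_add_mod]
    have e2 : j + (c.n - m % c.n) + (i + m) = j + i + c.n * (m / c.n + 1) := by
      have := Nat.mod_add_div m c.n
      rw [Nat.mul_add, Nat.mul_one]
      omega
    rw [e2, Nat.add_mul_mod_self_left]
  refine ⟨(j + (c.n - m % c.n)) % c.n, ?_, key⟩
  have hj' : (j + (c.n - m % c.n)) % c.n < c.n := Nat.mod_lt _ hN
  rw [pvwi_shift_n]
  by_contra hge
  refine hm (c.n - (j + (c.n - m % c.n)) % c.n) (by omega) ?_
  rw [← key, Nat.add_sub_cancel' hj'.le, pvwi_shift_e, Nat.add_comm, c.per]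

end cut

/-! ## 11. the bridge -/

section bridge

variable {pos : V → ℂ} {h : ℝ}

/-- the vertices of the inner arc lie in the closed inside of the gate -/
theorem pvwi_inn_ins (hT : T.IsSph) {z : ℂ} {τ : PvwTy} {𝔖 : PvwSt T} (hg : 𝔖.Gate pos h z τ s) {k : ℕ} (hk : k ≤ 𝔖.inn.n) : 𝔖.inn.v k ∈ 𝔖.ins := by
  obtain ⟨n, h1, h2, jj, a0, an, a1, a2⟩ := hg.strand
  obtain ⟨b1, b2, -⟩ := a1 k hk
  rw [b2]
  rcases Nat.lt_or_ge (jj k) n with h3 | h3
  · exact ⟨_, h2 _ h3, rfl⟩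
  · have e : jj k = n := le_antisymm b1 h3
    show T.src (pvasIt T s 𝔖.dm (jj k)) ∈ _
    rw [e, h1]
    exact (pvwk_gate_ends hT hg).1

variable {N : PvwNum} {π : PvwPat} {σ : V → Bool} {c : T.Cyc} {j m : ℕ} {𝔇 : PvwDat T}

/-- **THE BRIDGE**: the two half states of the ACTUAL colouring, an actual datum, a rim vertex (number `m`) off the two boxes and off `g₀`  ⟹  the input `PvwiIn` of the clock, for the rim CUT at this vertex -/
theorem pvwi_in_of_actual (hT : T.IsSph) (hs : 𝔇.s.AtIn pos N h π.zs π.ts σ) (ht : 𝔇.t.AtOut pos N h π.zt π.tt σ) (hA : 𝔇.Actual pos N h π σ c j)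
    (hbs : π.ts.b * h ≤ pvwRad N h π.ts π.ts.k) (hbt : π.tt.b * h ≤ pvwRad N h π.tt π.tt.k)
    (hdisj : Disjoint (pvwSq π.zs (pvwRad N h π.ts π.ts.k)) (pvwSq π.zt (pvwRad N h π.tt π.tt.k)))
    (far_s : pos (T.src (c.e m)) ∉ pvwSq π.zs (pvwRad N h π.ts π.ts.k)) (far_t : pos (T.src (c.e m)) ∉ pvwSq π.zt (pvwRad N h π.tt π.tt.k))
    (far_g : ∀ v ∈ 𝔇.g.verts, v ≠ T.src (c.e m)) :
    ∃ j', PvwiIn T pos h σ (c.shift m) j' 𝔇 π.zs π.zt π.ts π.tt (pvwSq π.zs (pvwRad N h π.ts π.ts.k)) (pvwSq π.zt (pvwRad N h π.tt π.tt.k)) ∧ ∀ i, (c.shift m).e (j' + i) = c.e (j + i) := by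
  have is := pvwi_ins_sq hs.gate hbs
  have it := pvwi_ins_sq ht.gate hbt
  have ht0 := pvwi_inn_pos ht.gate
  have hne_s : ∀ v ∈ 𝔇.s.ins, v ≠ T.src (c.e m) := fun v hv e => far_s (e ▸ is v hv)
  have hne_t : ∀ v ∈ 𝔇.t.ins, v ≠ T.src (c.e m) := fun v hv e => far_t (e ▸ it v hv)
  have havoid : ∀ i, i ≤ 𝔇.s.inn.n + 𝔇.g.n + 𝔇.t.inn.n → T.src (c.e (j + i)) ≠ T.src (c.e m) := by
    intro i hi
    rcases Nat.lt_or_ge i 𝔇.s.inn.n with h1 | h1
    · rw [hA.pin_s.run i h1, 𝔇.s.inn.src_e i h1]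
      exact hne_s _ (pvwi_inn_ins hT hs.gate h1.le)
    rcases Nat.lt_or_ge i (𝔇.s.inn.n + 𝔇.g.n) with h2 | h2
    · have e : j + i = j + 𝔇.s.inn.n + (i - 𝔇.s.inn.n) := by omega
      rw [e, hA.arc _ (by omega), 𝔇.g.src_e _ (by omega)]
      exact far_g _ ⟨_, by omega, rfl⟩
    rcases Nat.lt_or_ge i (𝔇.s.inn.n + 𝔇.g.n + 𝔇.t.inn.n) with h3 | h3
    · have e : j + i = j + 𝔇.s.inn.n + 𝔇.g.n + (i - (𝔇.s.inn.n + 𝔇.g.n)) := by omega
      rw [e, hA.pin_t.run _ (by omega), 𝔇.t.inn.src_e _ (by omega)]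
      exact hne_t _ (pvwi_inn_ins hT ht.gate (by omega))
    · have e : j + i = j + 𝔇.s.inn.n + 𝔇.g.n + (𝔇.t.inn.n - 1) + 1 := by omega
      rw [e, ← c.chain, hA.pin_t.run _ (by omega), 𝔇.t.inn.tgt_e _ (by omega), Nat.sub_add_cancel ht0]
      exact hne_t _ (pvwi_inn_ins hT ht.gate le_rfl)
  obtain ⟨j', hj', he⟩ := pvwi_cut c havoid
  have e0 : T.src ((c.shift m).e 0) = T.src (c.e m) := by rw [pvwi_shift_e, Nat.zero_add]
  refine ⟨j', ⟨hs.gate, ht.gate, hs.stub, ht.stub, fun i hi => ?_, fun i hi => ?_, fun i hi => ?_, by omega, is, it, hdisj, by rw [e0]; exact far_s, by rw [e0]; exact far_t⟩, he⟩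
  · rw [he]; exact hA.pin_s.run i hi
  · rw [Nat.add_assoc, he, ← Nat.add_assoc]; exact hA.arc i hi
  · rw [Nat.add_assoc, Nat.add_assoc, he, ← Nat.add_assoc, ← Nat.add_assoc]; exact hA.pin_t.run i hi

/-- the two half states of the actual colouring, from `Ok` and the cylinder -/
theorem pvwi_states_of_ok (hT : T.IsSph) (hok : 𝔇.Ok pos N h π) (hcyl : σ ∈ 𝔇.Cyl) : 𝔇.s.AtIn pos N h π.zs π.ts σ ∧ 𝔇.t.AtOut pos N h π.zt π.tt σ :=
  ⟨pvwk_atIn_congr hT hok.st_s fun v hv => (hcyl.1 v (Or.inr hv)).symm, pvwk_atOut_congr hT hok.st_t fun v hv => (hcyl.1 v (Or.inl hv)).symm⟩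

/-- **THE CLOCK OF AN ACTUAL DATUM**: a well formed actual datum of a sphere map with a finite wall, a rim vertex off the two boxes and off `g₀`  ⟹  frame, input and time table for the rim cut at this vertex -/
theorem pvwi_master (hT : T.IsSph) (hS : T.Simple) (hok : 𝔇.Ok pos N h π) (hA : 𝔇.Actual pos N h π σ c j)
    (hbs : π.ts.b * h ≤ pvwRad N h π.ts π.ts.k) (hbt : π.tt.b * h ≤ pvwRad N h π.tt π.tt.k)
    (hdisj : Disjoint (pvwSq π.zs (pvwRad N h π.ts π.ts.k)) (pvwSq π.zt (pvwRad N h π.tt π.tt.k)))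
    (far_s : pos (T.src (c.e m)) ∉ pvwSq π.zs (pvwRad N h π.ts π.ts.k)) (far_t : pos (T.src (c.e m)) ∉ pvwSq π.zt (pvwRad N h π.tt π.tt.k))
    (far_g : ∀ v ∈ 𝔇.g.verts, v ≠ T.src (c.e m)) (hfin : {d | T.Wall σ (T.opp (c.e m)) d}.Finite) :
    ∃ n θ j' u1 u2 w1 w2, PvwiFr T σ (c.shift m) n θ ∧
      PvwiIn T pos h σ (c.shift m) j' 𝔇 π.zs π.zt π.ts π.tt (pvwSq π.zs (pvwRad N h π.ts π.ts.k)) (pvwSq π.zt (pvwRad N h π.tt π.tt.k)) ∧
      PvwiTab T σ (c.shift m) n θ j' 𝔇 u1 u2 w1 w2 ∧ ∀ i, (c.shift m).e (j' + i) = c.e (j + i) := by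
  obtain ⟨hs, ht⟩ := pvwi_states_of_ok hT hok hA.cyl
  obtain ⟨j', I, he⟩ := pvwi_in_of_actual hT hs ht hA hbs hbt hdisj far_s far_t far_g
  have e0 : (c.shift m).e 0 = c.e m := by rw [pvwi_shift_e, Nat.zero_add]
  have hb : σ (T.src ((c.shift m).e 0)) = true := by rw [e0, pl_rim_col hA.rim m 0]; exact hA.black
  obtain ⟨n, θ, F⟩ := pvwi_frame hT hS (pvwi_rim_shift hA.rim m) hb (by rw [e0]; exact hfin)
  obtain ⟨u1, u2, w1, w2, Tb⟩ := F.table I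
  exact ⟨n, θ, j', u1, u2, w1, w2, F, I, Tb, he⟩

end bridge

end Claimed.Agent.R289
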