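-- KEEP
import Claimed.Agent.R289.Tr.WitM
import Claimed.Agent.R289.Tr.AccM
import Claimed.Agent.R289.Tr.FitRoof

/-!
# Row 289 (S0537, Cardy for Poisson-Voronoi), THE WALL, road E, FIT-DET, file Tr/WitF : THE TWO HALF WITNESSES MISS THE OBSTACLE OF RECORD (CLOSED FACES)      (helper179; prefix `pvwi_`; continuation of `Tr/Wit`, `Tr/WitM`)

THE OBSTACLE OF RECORD of (L2) (`Tr/FitL2` of 56) is `𝔇.pvfyKd` (62) = the CLOSED FACES of the darts of `𝔇.pvfyJ` + the two closed core discs.      `pvacm_fwd_off`, `pvacm_bwd_off` of 211 (`Tr/AccM`) treat an obstacle made of EDGES (`PvacmObs`).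
HERE: the fields `wt_off`, `ws_off` of `PvaccScene` for the half witnesses `pvacmW` of 211 and the faces obstacle  =  E19 in face form + the incidence clauses of `PlGeo`.
* sec. 12  PLANE: `pvwi_face_sub_tri`, `pvwi_tri_cases`, **`pvwi_W_face`** (a half witness meets a closed face which is the face of none of its positions `0..N` only on its first segment), `pvwi_W_off_J`
* sec. 13  COMPLETION: **`PvwiTab.off_J`** (E19, FACE FORM: at the times `β ≤ k < n + α` the face of the position is no face of `pvfyJ`), `PvwiTab.off_J_back` (the faces BEHIND the positions `α - l`)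
* sec. 14  SEAM: `pvwi_sf_twin`, **`pvwi_J_twin`** (a plane face of `𝔇.pvfyJ` which is shared is the twin of a face of `𝔇c.pvfyJ`)
* sec. 15  **`pvwi_fwd_off_K`, `pvwi_bwd_off_K`** (faces), **`pvwi_fwd_off_Kd`, `pvwi_bwd_off_Kd`** (faces + discs = `wt_off`, `ws_off` at the obstacle of record)
-/

set_option autoImplicit false
set_option linter.unusedSectionVars false
set_option linter.unusedVariables false

namespace Claimed.Agent.R289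

open Set

/-! ## 12. the plane -/

section plane

variable {V D : Type} {T : PvMap V D} {pos : V → ℂ} {s : V → Bool} {e : D} {p : ℂ} {N : ℕ}

theorem pvwi_face_sub_tri (G : PlGeo T pos) (d : D) : pvfyFace T pos d ⊆ T.tri pos d := by
  unfold pvfyFace
  refine convexHull_min ?_ (plg_tri_convex T pos d)
  rintro x (rfl | rfl | rfl)
  · exact plg_src_mem_tri G d
  · exact plg_tgt_mem_tri G d
  · exact plg_apex_mem_tri G d

/-- a point of a closed face lies in the open face or on one of its three closed edges -/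
theorem pvwi_tri_cases (G : PlGeo T pos) {d : D} {x : ℂ} (hx : x ∈ T.tri pos d) : x ∈ T.trio pos d ∨ ∃ f, T.SF d f ∧ x ∈ T.seg pos f := by
  have e2 : T.seg pos (T.nxt (T.nxt d)) = segment ℝ (pos (T.apex d)) (pos (T.src d)) := by unfold PvMap.seg; rw [T.tgt_nxt2, T.src_nxt2]
  rcases plg_tri_cases (G.orient d) hx with h | h | h | h | h | h | h
  · exact Or.inl h
  · exact Or.inr ⟨d, Or.inl rfl, openSegment_subset_segment ℝ _ _ h⟩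
  · exact Or.inr ⟨T.nxt d, T.sf_nxt d, openSegment_subset_segment ℝ _ _ h⟩
  · exact Or.inr ⟨T.nxt (T.nxt d), T.sf_nxt2 d, by rw [e2]; exact openSegment_subset_segment ℝ _ _ h⟩
  · exact Or.inr ⟨d, Or.inl rfl, by rw [h]; exact left_mem_segment ℝ _ _⟩
  · exact Or.inr ⟨d, Or.inl rfl, by rw [h]; exact right_mem_segment ℝ _ _⟩
  · exact Or.inr ⟨T.nxt d, T.sf_nxt d, by rw [h]; exact right_mem_segment ℝ _ _⟩

/-- **A HALF WITNESS MEETS A CLOSED FACE WHICH IS THE FACE OF NONE OF ITS POSITIONS `0..N` ONLY ON ITS FIRST SEGMENT** -/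
theorem pvwi_W_face (G : PlGeo T pos) (hN : 1 ≤ N) {d : D} (hd : ∀ l, l ≤ N → ¬ T.SF (pvasIt T s e l) d) {x : ℂ} (hx : x ∈ pvacmW T pos s e p N) (hxd : x ∈ T.tri pos d) :
    x ∈ segment ℝ p (pos (T.apex e)) := by
  rcases pvwi_tri_cases G hxd with h | ⟨f, hf, hxf⟩
  · rcases pvacm_W_tri G hN hx with h1 | ⟨l, hl, h2⟩
    · exact h1
    · exact absurd (T.sf_symm (G.inc_int d _ x h h2)) (hd l hl.le)
  · rcases pvacm_W_seg G hN hx hxf with h1 | ⟨l, a1, a2, g, -⟩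
    · exact h1
    · rcases g with rfl | rfl
      · exact absurd (T.sf_symm hf) (hd l a2)
      · have e1 : pvasIt T s e l = pvasStep T s (pvasIt T s e (l - 1)) := by rw [← pvas_it_succ, Nat.sub_add_cancel a1]
        have h3 : T.SF (pvasIt T s e (l - 1)) (T.opp (pvasIt T s e l)) := by rw [e1]; exact pvas_step_sf s _
        exact absurd (T.sf_trans h3 (T.sf_symm hf)) (hd (l - 1) (by omega))

/-- the half witness misses a union of closed faces -/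
theorem pvwi_W_off_J (G : PlGeo T pos) (hN : 1 ≤ N) {J : Set D} (hJ : ∀ l, l ≤ N → ∀ d ∈ J, ¬ T.SF (pvasIt T s e l) d)
    (hseg : Disjoint (segment ℝ p (pos (T.apex e))) (⋃ d ∈ J, pvfyFace T pos d)) : Disjoint (pvacmW T pos s e p N) (⋃ d ∈ J, pvfyFace T pos d) := by
  rw [Set.disjoint_left]
  intro x hx hxK
  have hxK' := hxK
  simp only [Set.mem_iUnion] at hxK'
  obtain ⟨d, hd, hxd⟩ := hxK'
  exact Set.disjoint_left.1 hseg (pvwi_W_face G hN (fun l hl => hJ l hl d hd) hx (pvwi_face_sub_tri G d hxd)) hxK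

end plane

/-! ## 13. the completion: E19 in face form -/

section comp

variable {V D : Type} {T : PvMap V D} {s : V → Bool} {pos : V → ℂ} {h : ℝ}
variable {c : T.Cyc} {n : ℕ} {θ : ℕ → ℕ} {j : ℕ} {𝔇 : PvwDat T} {zs zt : ℂ} {τs τt : PvwTy} {Bs Bt : Set ℂ} {u1 u2 w1 w2 : ℕ}

/-- **E19, FACE FORM**: at the times `β = w2 + np ≤ k < n + α`, `α = u1 - nm`, the face of the position of the wall is no face of the obstacle -/
theorem PvwiTab.off_J (Tb : PvwiTab T s c n θ j 𝔇 u1 u2 w1 w2) (F : PvwiFr T s c n θ) (I : PvwiIn T pos h s c j 𝔇 zs zt τs τt Bs Bt)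
    {k : ℕ} (hk1 : w2 + 𝔇.t.np ≤ k) (hk2 : k < n + (u1 - 𝔇.s.nm)) : ∀ d ∈ 𝔇.pvfyJ, ¬ T.SF (pvasIt T s (pvwiTau c 0) k) d := by
  obtain ⟨o1, o2, o3, o4, o5⟩ := Tb.off F I hk1 hk2
  rintro d (⟨i, hi, rfl⟩ | ⟨i, hi, rfl⟩ | ⟨i, hi, rfl⟩ | hd | hd) hsf
  · have hb : pvasBW T s (𝔇.t.ep i) := by rw [Tb.ep i hi.le]; exact F.bw _
    exact o1 i hi (pvas_bw_face (F.bw k) hb hsf).symm
  · have hb : pvasBW T s (𝔇.s.em i) := by rw [Tb.em i hi]; exact F.bw _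
    exact o2 i hi (pvas_bw_face (F.bw k) hb hsf).symm
  · exact o3 i hi hsf
  · exact o4 (((pl_left_face 𝔇.s.S).sf T hsf).1 hd)
  · exact o5 (((pl_left_face 𝔇.t.S).sf T hsf).1 hd)

/-- the faces BEHIND the positions of the times `α - l` -/
theorem PvwiTab.off_J_back (Tb : PvwiTab T s c n θ j 𝔇 u1 u2 w1 w2) (F : PvwiFr T s c n θ) (I : PvwiIn T pos h s c j 𝔇 zs zt τs τt Bs Bt)
    {l : ℕ} (hl : l ≤ u1 - 𝔇.s.nm) : ∀ d ∈ 𝔇.pvfyJ, ¬ T.SF (T.opp (pvasIt T s (pvwiTau c 0) (u1 - 𝔇.s.nm - l))) d := by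
  have t5 := Tb.np_lt
  intro d hd hsf
  have e1 : pvasIt T s (pvwiTau c 0) (u1 - 𝔇.s.nm - l) = pvasStep T s (pvasIt T s (pvwiTau c 0) (n + (u1 - 𝔇.s.nm) - l - 1)) := by
    rw [← pvas_it_succ, show n + (u1 - 𝔇.s.nm) - l - 1 + 1 = (u1 - 𝔇.s.nm - l) + n by omega, F.per.add]
  have h3 : T.SF (pvasIt T s (pvwiTau c 0) (n + (u1 - 𝔇.s.nm) - l - 1)) (T.opp (pvasIt T s (pvwiTau c 0) (u1 - 𝔇.s.nm - l))) := by
    rw [e1]; exact pvas_step_sf s _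
  exact Tb.off_J F I (k := n + (u1 - 𝔇.s.nm) - l - 1) (by omega) (by omega) d hd (T.sf_trans h3 hsf)

end comp

/-! ## 14. the seam -/

section seam

variable {Vc Dc V D : Type} {Tc : PvMap Vc Dc} {T : PvMap V D} {R : Dc → D → Prop} {posc : Vc → ℂ} {pos : V → ℂ} {Kr : Set ℂ} {𝔇c : PvwDat Tc} {𝔇 : PvwDat T}

/-- the darts of twin faces are twins -/
theorem pvwi_sf_twin (L : PvLoc Tc T R) {a : Dc} {a' d' : D} (ha : R a a') (hsf : T.SF a' d') : ∃ d, R d d' ∧ Tc.SF a d := by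
  rcases hsf with rfl | rfl | rfl
  · exact ⟨a, ha, Or.inl rfl⟩
  · exact ⟨Tc.nxt a, L.iso.nxt ha, Tc.sf_nxt a⟩
  · exact ⟨Tc.nxt (Tc.nxt a), L.iso.nxt (L.iso.nxt ha), Tc.sf_nxt2 a⟩

/-- **THE FACES OF THE OBSTACLE CORRESPOND**: a shared plane face which is a face of `𝔇.pvfyJ` is the twin of a face of `𝔇c.pvfyJ` -/
theorem pvwi_J_twin (L : PvLocP Tc T R posc pos Kr) (Gd : PvLocDat R 𝔇c 𝔇) (hLs : 𝔇c.s.S.Left ⊆ plDom R) (hLt : 𝔇c.t.S.Left ⊆ plDom R)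
    (hg : ∀ i, i < 𝔇c.g.n → posc (Tc.src (𝔇c.g.e i)) ∈ Kr) {a : Dc} {a' d' : D} (ha : R a a') (hd' : d' ∈ 𝔇.pvfyJ) (hsf : T.SF a' d') : ∃ d ∈ 𝔇c.pvfyJ, Tc.SF a d := by
  obtain ⟨d, hd, hs⟩ := pvwi_sf_twin L.loc ha hsf
  refine ⟨d, ?_, hs⟩
  rcases hd' with ⟨i, hi, rfl⟩ | ⟨i, hi, rfl⟩ | ⟨i, hi, rfl⟩ | h | h
  · rw [Gd.t.np] at hi
    exact Or.inl ⟨i, hi, L.loc.iso.inj (Gd.t.ep i hi.le) hd⟩
  · rw [Gd.s.nm] at hi
    exact Or.inr (Or.inl ⟨i, hi, L.loc.iso.inj (Gd.s.em i hi) hd⟩)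
  · rw [Gd.g.n_eq] at hi
    exact Or.inr (Or.inr (Or.inl ⟨i, hi, L.loc.iso.inj (pvlw_opp L (Gd.g.e_rel i hi) (Or.inl (hg i hi))) hd⟩))
  · exact Or.inr (Or.inr (Or.inr (Or.inl ((pvloc_left L.loc Gd.s.gt.S hLs hd).2 h))))
  · exact Or.inr (Or.inr (Or.inr (Or.inr ((pvloc_left L.loc Gd.t.gt.S hLt hd).2 h))))

end seam

/-! ## 15. the two half witnesses miss the obstacle of record -/

section off

variable {Vc Dc V D : Type} {Tc : PvMap Vc Dc} {T : PvMap V D} {R : Dc → D → Prop} {posc : Vc → ℂ} {pos : V → ℂ} {Kr : Set ℂ} {σc : Vc → Bool} {σ : V → Bool} {𝔇c : PvwDat Tc} {𝔇 : PvwDat T}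
variable {h : ℝ} {c : Tc.Cyc} {n : ℕ} {θ : ℕ → ℕ} {j : ℕ} {zs zt : ℂ} {τs τt : PvwTy} {Bs Bt : Set ℂ} {u1 u2 w1 w2 : ℕ}

/-- the tip position of `Σ⁺(t)` in the plane is the twin of the position of the time `β` -/
theorem pvwi_tip_t (Gd : PvLocDat R 𝔇c 𝔇) (Tb : PvwiTab Tc σc c n θ j 𝔇c u1 u2 w1 w2) : R (pvasIt Tc σc (pvwiTau c 0) (w2 + 𝔇c.t.np)) (𝔇.t.ep 𝔇.t.np) := by
  rw [← Tb.ep _ le_rfl, Gd.t.np]
  exact Gd.t.ep _ le_rfl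

/-- the tip position of `Σ⁻(s)` in the plane is the twin of the position of the time `α` -/
theorem pvwi_tip_s (Gd : PvLocDat R 𝔇c 𝔇) (Tb : PvwiTab Tc σc c n θ j 𝔇c u1 u2 w1 w2) : R (pvasIt Tc σc (pvwiTau c 0) (u1 - 𝔇c.s.nm)) (𝔇.s.em 𝔇.s.nm) := by
  rw [← Tb.em _ le_rfl, Gd.s.nm]
  exact Gd.s.em _ le_rfl

/-- **FORWARD, FACES** -/
theorem pvwi_fwd_off_K (L : PvLocP Tc T R posc pos Kr) (hσ : ∀ d d', R d d' → σc (Tc.src d) = σ (T.src d')) (G : PlGeo T pos) (Gd : PvLocDat R 𝔇c 𝔇)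
    (F : PvwiFr Tc σc c n θ) (I : PvwiIn Tc posc h σc c j 𝔇c zs zt τs τt Bs Bt) (Tb : PvwiTab Tc σc c n θ j 𝔇c u1 u2 w1 w2)
    (hKs : Metric.closedBall zs (τs.b * h) ⊆ Kr) (hKt : Metric.closedBall zt (τt.b * h) ⊆ Kr) (hg : ∀ i, i < 𝔇c.g.n → posc (Tc.src (𝔇c.g.e i)) ∈ Kr)
    {hi : ℕ} (h1 : w2 + 𝔇c.t.np < hi) (h2 : hi < n + (u1 - 𝔇c.s.nm)) (hγ : ∀ k, w2 + 𝔇c.t.np ≤ k → k ≤ hi → pvacmGam Tc posc σc (pvwiTau c 0) k ∈ Kr)
    {pt : ℂ} (hseg : Disjoint (segment ℝ pt (pos (T.apex (𝔇.t.ep 𝔇.t.np)))) (𝔇.pvfyK pos)) :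
    Disjoint (pvacmW T pos σ (𝔇.t.ep 𝔇.t.np) pt (hi - (w2 + 𝔇c.t.np))) (𝔇.pvfyK pos) := by
  have hLs := pvlw_left_sub L I.gate_s.inside hKs
  have hLt := pvlw_left_sub L I.gate_t.inside hKt
  have tw := pvacm_twin_it L.loc hσ (pvwi_tip_t Gd Tb) (N := hi - (w2 + 𝔇c.t.np)) (fun l hl => (pvacm_shared L (hγ (w2 + 𝔇c.t.np + l) (by omega) (by omega))).1)
  refine pvwi_W_off_J G (by omega) (fun l hl d' hd' hsf => ?_) hseg
  obtain ⟨d, hd, hs⟩ := pvwi_J_twin L Gd hLs hLt hg (tw l hl) hd' hsf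
  exact Tb.off_J F I (k := w2 + 𝔇c.t.np + l) (by omega) (by omega) d hd hs

/-- **BACKWARD, FACES** -/
theorem pvwi_bwd_off_K (L : PvLocP Tc T R posc pos Kr) (hσ : ∀ d d', R d d' → σc (Tc.src d) = σ (T.src d')) (G : PlGeo T pos) (Gd : PvLocDat R 𝔇c 𝔇)
    (F : PvwiFr Tc σc c n θ) (I : PvwiIn Tc posc h σc c j 𝔇c zs zt τs τt Bs Bt) (Tb : PvwiTab Tc σc c n θ j 𝔇c u1 u2 w1 w2)
    (hKs : Metric.closedBall zs (τs.b * h) ⊆ Kr) (hKt : Metric.closedBall zt (τt.b * h) ⊆ Kr) (hg : ∀ i, i < 𝔇c.g.n → posc (Tc.src (𝔇c.g.e i)) ∈ Kr)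
    {lo : ℕ} (h1 : lo < u1 - 𝔇c.s.nm) (hγ : ∀ k, lo ≤ k → k ≤ u1 - 𝔇c.s.nm → pvacmGam Tc posc σc (pvwiTau c 0) k ∈ Kr)
    {ps : ℂ} (hseg : Disjoint (segment ℝ ps (pos (T.apex (T.opp (𝔇.s.em 𝔇.s.nm))))) (𝔇.pvfyK pos)) :
    Disjoint (pvacmW T pos (pvasNot σ) (T.opp (𝔇.s.em 𝔇.s.nm)) ps (u1 - 𝔇c.s.nm - lo)) (𝔇.pvfyK pos) := by
  have hLs := pvlw_left_sub L I.gate_s.inside hKs
  have hLt := pvlw_left_sub L I.gate_t.inside hKt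
  have he' : R (Tc.opp (pvasIt Tc σc (pvwiTau c 0) (u1 - 𝔇c.s.nm))) (T.opp (𝔇.s.em 𝔇.s.nm)) := pvlw_opp L (pvwi_tip_s Gd Tb) (Or.inl (hγ _ h1.le le_rfl))
  have tw := pvacm_twin_rev L.loc hσ F.per.bw (N := u1 - 𝔇c.s.nm - lo) (Nat.sub_le _ _) he' (fun l hl => (pvacm_shared L (hγ (u1 - 𝔇c.s.nm - l) (by omega) (by omega))).2)
  refine pvwi_W_off_J G (by omega) (fun l hl d' hd' hsf => ?_) hseg
  obtain ⟨d, hd, hs⟩ := pvwi_J_twin L Gd hLs hLt hg (tw l hl) hd' hsf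
  exact Tb.off_J_back F I (l := l) (by omega) d hd hs

/-- **FORWARD, THE OBSTACLE OF RECORD** = the field `wt_off` of `PvaccScene` at `K = 𝔇.pvfyKd` -/
theorem pvwi_fwd_off_Kd {μ : ℝ} (L : PvLocP Tc T R posc pos Kr) (hσ : ∀ d d', R d d' → σc (Tc.src d) = σ (T.src d')) (G : PlGeo T pos) (Gd : PvLocDat R 𝔇c 𝔇)
    (F : PvwiFr Tc σc c n θ) (I : PvwiIn Tc posc h σc c j 𝔇c zs zt τs τt Bs Bt) (Tb : PvwiTab Tc σc c n θ j 𝔇c u1 u2 w1 w2)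
    (hKs : Metric.closedBall zs (τs.b * h) ⊆ Kr) (hKt : Metric.closedBall zt (τt.b * h) ⊆ Kr) (hg : ∀ i, i < 𝔇c.g.n → posc (Tc.src (𝔇c.g.e i)) ∈ Kr)
    {hi : ℕ} (h1 : w2 + 𝔇c.t.np < hi) (h2 : hi < n + (u1 - 𝔇c.s.nm)) (hγ : ∀ k, w2 + 𝔇c.t.np ≤ k → k ≤ hi → pvacmGam Tc posc σc (pvwiTau c 0) k ∈ Kr)
    (hmesh : ∀ d f : D, pos (T.src d) ∈ Kr → T.SF d f → ‖pos (T.src f) - pos (T.tgt f)‖ ≤ μ)
    (hcs : ∀ k, w2 + 𝔇c.t.np ≤ k → k < hi → τs.b * h + μ < ‖pvacmGam Tc posc σc (pvwiTau c 0) k - zs‖)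
    (hct : ∀ k, w2 + 𝔇c.t.np ≤ k → k < hi → τt.b * h + μ < ‖pvacmGam Tc posc σc (pvwiTau c 0) k - zt‖)
    {pt : ℂ} (hseg : Disjoint (segment ℝ pt (pos (T.apex (𝔇.t.ep 𝔇.t.np)))) (𝔇.pvfyKd pos h zs zt τs τt)) :
    Disjoint (pvacmW T pos σ (𝔇.t.ep 𝔇.t.np) pt (hi - (w2 + 𝔇c.t.np))) (𝔇.pvfyKd pos h zs zt τs τt) := by
  have hK := pvwi_fwd_off_K L hσ G Gd F I Tb hKs hKt hg h1 h2 hγ (pt := pt) (hseg.mono_right fun x hx => Or.inl (Or.inl hx))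
  have ball : ∀ (z : ℂ) (ρ : ℝ), (∀ k, w2 + 𝔇c.t.np ≤ k → k < hi → ρ + μ < ‖pvacmGam Tc posc σc (pvwiTau c 0) k - z‖) → ∀ x, x ∈ pvacmW T pos σ (𝔇.t.ep 𝔇.t.np) pt (hi - (w2 + 𝔇c.t.np)) →
      x ∈ 𝔇.pvfyKd pos h zs zt τs τt → x ∉ Metric.closedBall z ρ := by
    intro z ρ hc x hx hxK hz
    rcases pvacm_fwd_near L hσ G h1 (pvwi_tip_t Gd Tb) hγ hmesh hx with h | ⟨k, a1, a2, a3⟩
    · exact Set.disjoint_left.1 hseg h hxK
    · rw [Metric.mem_closedBall, dist_eq_norm] at hz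
      have h3 := hc k a1 a2
      have h4 := norm_sub_le_norm_sub_add_norm_sub (pvacmGam Tc posc σc (pvwiTau c 0) k) x z
      rw [norm_sub_rev (pvacmGam Tc posc σc (pvwiTau c 0) k) x] at h4
      linarith
  rw [Set.disjoint_left]
  intro x hx hxK
  rcases hxK with (hk | hk) | hk
  · exact Set.disjoint_left.1 hK hx hk
  · exact ball zs _ hcs x hx (Or.inl (Or.inr hk)) hk
  · exact ball zt _ hct x hx (Or.inr hk) hk

/-- **BACKWARD, THE OBSTACLE OF RECORD** = the field `ws_off` of `PvaccScene` at `K = 𝔇.pvfyKd` -/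
theorem pvwi_bwd_off_Kd {μ : ℝ} (L : PvLocP Tc T R posc pos Kr) (hσ : ∀ d d', R d d' → σc (Tc.src d) = σ (T.src d')) (G : PlGeo T pos) (Gd : PvLocDat R 𝔇c 𝔇)
    (F : PvwiFr Tc σc c n θ) (I : PvwiIn Tc posc h σc c j 𝔇c zs zt τs τt Bs Bt) (Tb : PvwiTab Tc σc c n θ j 𝔇c u1 u2 w1 w2)
    (hKs : Metric.closedBall zs (τs.b * h) ⊆ Kr) (hKt : Metric.closedBall zt (τt.b * h) ⊆ Kr) (hg : ∀ i, i < 𝔇c.g.n → posc (Tc.src (𝔇c.g.e i)) ∈ Kr)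
    {lo : ℕ} (h1 : lo < u1 - 𝔇c.s.nm) (hγ : ∀ k, lo ≤ k → k ≤ u1 - 𝔇c.s.nm → pvacmGam Tc posc σc (pvwiTau c 0) k ∈ Kr)
    (hmesh : ∀ d f : D, pos (T.src d) ∈ Kr → T.SF d f → ‖pos (T.src f) - pos (T.tgt f)‖ ≤ μ)
    (hcs : ∀ k, lo < k → k ≤ u1 - 𝔇c.s.nm → τs.b * h + μ < ‖pvacmGam Tc posc σc (pvwiTau c 0) k - zs‖)
    (hct : ∀ k, lo < k → k ≤ u1 - 𝔇c.s.nm → τt.b * h + μ < ‖pvacmGam Tc posc σc (pvwiTau c 0) k - zt‖)
    {ps : ℂ} (hseg : Disjoint (segment ℝ ps (pos (T.apex (T.opp (𝔇.s.em 𝔇.s.nm))))) (𝔇.pvfyKd pos h zs zt τs τt)) :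
    Disjoint (pvacmW T pos (pvasNot σ) (T.opp (𝔇.s.em 𝔇.s.nm)) ps (u1 - 𝔇c.s.nm - lo)) (𝔇.pvfyKd pos h zs zt τs τt) := by
  have hK := pvwi_bwd_off_K L hσ G Gd F I Tb hKs hKt hg h1 hγ (ps := ps) (hseg.mono_right fun x hx => Or.inl (Or.inl hx))
  have ball : ∀ (z : ℂ) (ρ : ℝ), (∀ k, lo < k → k ≤ u1 - 𝔇c.s.nm → ρ + μ < ‖pvacmGam Tc posc σc (pvwiTau c 0) k - z‖) →
      ∀ x, x ∈ pvacmW T pos (pvasNot σ) (T.opp (𝔇.s.em 𝔇.s.nm)) ps (u1 - 𝔇c.s.nm - lo) → x ∈ 𝔇.pvfyKd pos h zs zt τs τt → x ∉ Metric.closedBall z ρ := by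
    intro z ρ hc x hx hxK hz
    rcases pvacm_bwd_near L hσ G F.per.bw h1 (pvwi_tip_s Gd Tb) hγ hmesh hx with h | ⟨k, a1, a2, a3⟩
    · exact Set.disjoint_left.1 hseg h hxK
    · rw [Metric.mem_closedBall, dist_eq_norm] at hz
      have h3 := hc k a1 a2
      have h4 := norm_sub_le_norm_sub_add_norm_sub (pvacmGam Tc posc σc (pvwiTau c 0) k) x z
      rw [norm_sub_rev (pvacmGam Tc posc σc (pvwiTau c 0) k) x] at h4
      linarith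
  rw [Set.disjoint_left]
  intro x hx hxK
  rcases hxK with (hk | hk) | hk
  · exact Set.disjoint_left.1 hK hx hk
  · exact ball zs _ hcs x hx (Or.inl (Or.inr hk)) hk
  · exact ball zt _ hct x hx (Or.inr hk) hk

end off

end Claimed.Agent.R289
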