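-- KEEP
import Claimed.Agent.R289.Tr.FitLiftS
import Claimed.Agent.R289.Tr.FitSeam
import Claimed.Agent.R289.Tr.WitF
import Claimed.Agent.R289.Tr.SeamG
import Claimed.Agent.R289.Tr.AccFront

/-!
# Row 289 (S0537), THE WALL, road E, FIT-DET, file Tr/FitLiftT : THE SCENE AT THE SEAM      (owner helper49; prefix `pvfw_`, `PvfwSeam.*`)

**`PvfwSeam.scene`** = THE ABSTRACT HALF OF (S) `exit_pvcb_scene` (`Tr/FitL2` of 56): from the seam record `S : PvfwSeam ..` (`Tr/FitLiftS`), `PlGeo T pos`, the plane half states `AtIn s`, `AtOut t`, the two plane OUTER gates,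
and the `K`-side / front / number hypotheses of `pvmu_df_scene` (215 `Tr/AccFront`) at THE OBSTACLE OF RECORD `K = 𝔇.pvfyKd pos h zs zt τs τt` (= `pvcbK`):
   `∃ Wt Ws lo hi, lo < ts ∧ tt < hi ∧ hi < n ∧ PvaccScene γ K (Ms ∪ Mt) Wt Ws ft fs r η μ' Sr lo ts tt hi`,      `γ = pvacmGam Tc posc σc (pvwiTau c 0)`, `ts = u1 - 𝔇c.s.nm`, `tt = w2 + 𝔇c.t.np`.
`hi < n` is what the down end `pvck_seam_downK` (154 `Tr/CoverDS`) asks.      `μ'` = ANY number `≥` the mesh `μ` of the record (56: `μ' = δ`).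
PLUGGED IN: `arc` = `S.arc_Kd` (10 `Tr/FitSeam`);  polygons off `K` = `pvwi_fwd_off_Kd`, `pvwi_bwd_off_Kd` (179 `Tr/WitF`);  `core` = `pvotg_core` (292 `Tr/SeamG`);  mouths, P4, masks = `pvmu_df_scene` (215);
polygons, time clauses, exit points = `pvacmW`, `pvacm_fwd_near`, `pvacm_bwd_near`, `pvacm_mid_mem` (211 `Tr/AccM`);  window, `far`, `lo_far` = `S.hi_ex`, `S.lo_ex`, `S.gam_in`, `S.far`, `S.lo_far`.
**`PvfwSeam.scene_r`** = THE SAME FOR ANY EXIT RADIUS `ρe`, `7R/2 ≤ ρe`, `ρe + μ ≤ 4R`, with `29/20 (ρK + r + η) + μ < ρe`, `ρK + Sr < ρe`:   `ρe = 15R/4` admits `ρK = 5R/2` (= `PvcbObs.ball`);   `scene` = the case `ρe = 7R/2`, constant `3/2` (`ρK ≤ 9R/4`).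
`PvfwSeam.scene_of_r`, `scene_of` = the same with `core` and the two disjointness statements as hypotheses.      Window: `hi_ex_r lo_ex_r far_r lo_far_r`.      `pvfw_arc_mu` : `PvfrArc` is monotone in its thinness.
LEFT TO THE MODEL END (179 `Tr/CoverS2`): the seam at `PvfhArc` (143 91), half states, outer gates, (M1) (92), box parts `Ms Mt`, masks `gs gt`, `K ⊆ closedBall x ρK`, fronts from `PvcbDoor`, numbers.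
-/

set_option autoImplicit false
set_option linter.unusedSectionVars false
set_option linter.unusedVariables false

namespace Claimed.Agent.R289

open Set Metric

/-- an arc is monotone in its thinness -/
theorem pvfw_arc_mu {γ : ℕ → ℂ} {K W : Set ℂ} {μ μ' L : ℝ} {t t' : ℕ} {u v : ℂ} (h : PvfrArc γ K W μ L t t' u v) (hμ : μ ≤ μ') : PvfrArc γ K W μ' L t t' u v := by
  obtain ⟨m, P, τ, fat, hc, h1, h2, h3⟩ := h
  exact ⟨m, P, τ, fat, ⟨hc.conn, hc.link, hc.cover, hc.mono, fun a ha => let ⟨p, hp, hq⟩ := hc.near a ha; ⟨p, hp, hq.trans hμ⟩, fun a ha hf p hp => (hc.thin a ha hf p hp).trans hμ, hc.far⟩, h1, h2, h3⟩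

theorem pvfw_tri_far {g w z : ℂ} {a b : ℝ} (h1 : ‖w - g‖ ≤ b) (h2 : a + b < ‖g - z‖) : a < ‖w - z‖ := by
  have h4 := norm_sub_le_norm_sub_add_norm_sub g w z
  rw [norm_sub_rev g w] at h4
  linarith

/-- a point farther than `ρ + L` from the centre of a disc is farther than `L` from the disc -/
theorem pvfw_disc_far {w z p : ℂ} {ρ L : ℝ} (h1 : ρ + L < ‖w - z‖) (hp : p ∈ closedBall z ρ) : L < ‖w - p‖ := by
  rw [mem_closedBall_iff_norm] at hp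
  have h4 := norm_sub_le_norm_sub_add_norm_sub w p z
  linarith

/-- `‖p‖ ≤ 29/20 sup` (`√2 < 29/20`) -/
theorem pvfw_norm_le_sup (p : ℂ) : ‖p‖ ≤ 29 / 20 * pvtcSup p := by
  obtain ⟨h1, h2⟩ := (pvtc_pl_sup_le (p := p) (t := pvtcSup p)).1 le_rfl
  have h0 : 0 ≤ pvtcSup p := (abs_nonneg _).trans h1
  have h3 : ‖p‖ ^ 2 = p.re ^ 2 + p.im ^ 2 := by
    rw [Complex.sq_norm, Complex.normSq_apply]; ring
  have h4 : p.re ^ 2 ≤ pvtcSup p ^ 2 := by rw [← sq_abs]; exact pow_le_pow_left₀ (abs_nonneg _) h1 2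
  have h5 : p.im ^ 2 ≤ pvtcSup p ^ 2 := by rw [← sq_abs]; exact pow_le_pow_left₀ (abs_nonneg _) h2 2
  by_contra hcon
  rw [not_le] at hcon
  nlinarith [norm_nonneg p]

section seam

variable {Vc Dc V D : Type} {Tc : PvMap Vc Dc} {posc : Vc → ℂ} {σc : Vc → Bool} {T : PvMap V D} {pos : V → ℂ} {σ : V → Bool} {Rl : Dc → D → Prop}
  {x : ℂ} {R μ h : ℝ} {c : Tc.Cyc} {n : ℕ} {θ : ℕ → ℕ} {j : ℕ} {𝔇c : PvwDat Tc} {𝔇 : PvwDat T} {zs zt : ℂ} {τs τt : PvwTy} {Bs Bt : Set ℂ} {u1 u2 w1 w2 : ℕ}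

namespace PvfwSeam

variable (S : PvfwSeam Tc posc σc T pos σ Rl x R μ h c n θ j 𝔇c 𝔇 zs zt τs τt Bs Bt u1 u2 w1 w2)
include S

theorem mu_nonneg : 0 ≤ μ := (norm_nonneg _).trans (S.mesh_c (pvfw_ball_sub S.hR (S.box_t (S.inp.stub_t.ep_in 0 (Nat.zero_le _)).1))).1

/-! ### the window for a general exit radius `7R/2 ≤ ρe`, `ρe + μ ≤ 4R` -/

/-- the first exit of the forward continuation from `B(x, ρe)`: BEFORE the end of the turn -/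
theorem hi_ex_r {ρe : ℝ} (e1 : 7 * R / 2 ≤ ρe) (e2 : ρe + μ ≤ 4 * R) : ∃ hi, w2 + 𝔇c.t.np < hi ∧ hi < n ∧ ρe ≤ ‖pvacmGam Tc posc σc (pvwiTau c 0) hi - x‖ ∧ ‖pvacmGam Tc posc σc (pvwiTau c 0) hi - x‖ < 4 * R ∧
    ∀ k, w2 + 𝔇c.t.np ≤ k → k < hi → ‖pvacmGam Tc posc σc (pvwiTau c 0) k - x‖ < ρe := by
  classical
  have hR := S.hR
  have hμ := S.mu_nonneg
  have hb : ρe ≤ ‖pvacmGam Tc posc σc (pvwiTau c 0) n - x‖ := by rw [S.gam_n]; linarith [S.base]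
  have hex : ∃ k, w2 + 𝔇c.t.np ≤ k ∧ ρe ≤ ‖pvacmGam Tc posc σc (pvwiTau c 0) k - x‖ := ⟨n, S.tab.np_lt.le, hb⟩
  have h1 : w2 + 𝔇c.t.np < Nat.find hex := by
    refine lt_of_le_of_ne (Nat.find_spec hex).1 fun e => ?_
    have := (Nat.find_spec hex).2
    rw [← e] at this
    linarith [S.gam_tt]
  have h2 : ∀ k, w2 + 𝔇c.t.np ≤ k → k < Nat.find hex → ‖pvacmGam Tc posc σc (pvwiTau c 0) k - x‖ < ρe := by
    intro k a1 a2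
    by_contra hc
    exact Nat.find_min hex a2 ⟨a1, not_lt.1 hc⟩
  have h3 : ‖pvacmGam Tc posc σc (pvwiTau c 0) (Nat.find hex) - x‖ < 4 * R := by
    obtain ⟨l, hl⟩ : ∃ l, Nat.find hex = l + 1 := ⟨Nat.find hex - 1, by omega⟩
    have a1 := h2 l (by omega) (by omega)
    have a2 := S.gam_succ (k := l) (mem_closedBall_iff_norm.2 (by linarith))
    rw [hl]
    have a3 := norm_sub_le_norm_sub_add_norm_sub (pvacmGam Tc posc σc (pvwiTau c 0) (l + 1)) (pvacmGam Tc posc σc (pvwiTau c 0) l) x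
    linarith
  refine ⟨Nat.find hex, h1, lt_of_le_of_ne (Nat.find_min' hex ⟨S.tab.np_lt.le, hb⟩) fun e => ?_, (Nat.find_spec hex).2, h3, h2⟩
  rw [e, S.gam_n] at h3
  linarith [S.base]

/-- the last time before the tip of `Σ⁻(s)` outside `B(x, ρe)` -/
theorem lo_ex_r {ρe : ℝ} (e1 : 7 * R / 2 ≤ ρe) (e2 : ρe + μ ≤ 4 * R) : ∃ lo, lo < u1 - 𝔇c.s.nm ∧ ρe ≤ ‖pvacmGam Tc posc σc (pvwiTau c 0) lo - x‖ ∧ ‖pvacmGam Tc posc σc (pvwiTau c 0) lo - x‖ < 4 * R ∧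
    ∀ k, lo < k → k ≤ u1 - 𝔇c.s.nm → ‖pvacmGam Tc posc σc (pvwiTau c 0) k - x‖ < ρe := by
  classical
  have hR := S.hR
  have hμ := S.mu_nonneg
  have h0 : ρe ≤ ‖pvacmGam Tc posc σc (pvwiTau c 0) 0 - x‖ := by rw [S.gam_zero]; linarith [S.base]
  set lo := Nat.findGreatest (fun k => ρe ≤ ‖pvacmGam Tc posc σc (pvwiTau c 0) k - x‖) (u1 - 𝔇c.s.nm) with hlo
  have h1 : ρe ≤ ‖pvacmGam Tc posc σc (pvwiTau c 0) lo - x‖ := Nat.findGreatest_spec (P := fun k => ρe ≤ ‖pvacmGam Tc posc σc (pvwiTau c 0) k - x‖) (Nat.zero_le _) h0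
  have h2 : lo < u1 - 𝔇c.s.nm := by
    refine lt_of_le_of_ne (Nat.findGreatest_le _) fun e => ?_
    rw [e] at h1
    linarith [S.gam_ts]
  have h3 : ∀ k, lo < k → k ≤ u1 - 𝔇c.s.nm → ‖pvacmGam Tc posc σc (pvwiTau c 0) k - x‖ < ρe := fun k hk1 hk2 =>
    not_le.1 (Nat.findGreatest_is_greatest (P := fun k => ρe ≤ ‖pvacmGam Tc posc σc (pvwiTau c 0) k - x‖) hk1 hk2)
  refine ⟨lo, h2, h1, ?_, h3⟩
  have a1 := h3 (lo + 1) (by omega) (by omega)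
  have a2 := S.gam_pred (k := lo) (mem_closedBall_iff_norm.2 (by linarith))
  have a3 := norm_sub_le_norm_sub_add_norm_sub (pvacmGam Tc posc σc (pvwiTau c 0) lo) (pvacmGam Tc posc σc (pvwiTau c 0) (lo + 1)) x
  rw [norm_sub_rev] at a2
  linarith

/-- `far` for a general exit radius, constant `29/20` -/
theorem far_r {K : Set ℂ} {ρK r η ρe : ℝ} (hK : K ⊆ closedBall x ρK) (hnum : 29 / 20 * (ρK + (r + η)) + μ < ρe) {lo hi : ℕ}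
    (h1 : ρe ≤ ‖pvacmGam Tc posc σc (pvwiTau c 0) lo - x‖) (h1' : pvacmGam Tc posc σc (pvwiTau c 0) lo ∈ closedBall x (6 * R))
    (h2 : ρe ≤ ‖pvacmGam Tc posc σc (pvwiTau c 0) hi - x‖) (h2' : pvacmGam Tc posc σc (pvwiTau c 0) hi ∈ closedBall x (6 * R)) :
    ∃ a0 b0 c0 e0 : ℝ, K ⊆ pvtcRect a0 b0 c0 e0 ∧ pvfbMid Tc posc (pvasIt Tc σc (pvwiTau c 0) hi) ∉ pvtcRect (a0 - (r + η)) (b0 + (r + η)) (c0 - (r + η)) (e0 + (r + η)) ∧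
      pvfbMid Tc posc (pvasIt Tc σc (pvwiTau c 0) lo) ∉ pvtcRect (a0 - (r + η)) (b0 + (r + η)) (c0 - (r + η)) (e0 + (r + η)) := by
  have key : ∀ k, ρe ≤ ‖pvacmGam Tc posc σc (pvwiTau c 0) k - x‖ → pvacmGam Tc posc σc (pvwiTau c 0) k ∈ closedBall x (6 * R) →
      pvfbMid Tc posc (pvasIt Tc σc (pvwiTau c 0) k) ∉ pvtcRect (x.re - ρK - (r + η)) (x.re + ρK + (r + η)) (x.im - ρK - (r + η)) (x.im + ρK + (r + η)) := by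
    intro k a1 a2 hm
    have e : pvfbMid Tc posc (pvasIt Tc σc (pvwiTau c 0) k) ∈ pvtcRect (x.re - (ρK + (r + η))) (x.re + (ρK + (r + η))) (x.im - (ρK + (r + η))) (x.im + (ρK + (r + η))) := by
      obtain ⟨g1, g2, g3, g4⟩ := hm
      exact ⟨by linarith, by linarith, by linarith, by linarith⟩
    rw [pvfu_mem_sq] at e
    have a3 := pvfw_norm_le_sup (pvfbMid Tc posc (pvasIt Tc σc (pvwiTau c 0) k) - x)
    have a4 := S.mid_near a2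
    have a5 := norm_sub_le_norm_sub_add_norm_sub (pvacmGam Tc posc σc (pvwiTau c 0) k) (pvfbMid Tc posc (pvasIt Tc σc (pvwiTau c 0) k)) x
    rw [norm_sub_rev] at a4
    linarith
  exact ⟨_, _, _, _, pvfu_ball_sub hK, key hi h2 h2', key lo h1 h1'⟩

/-- `lo_far` for a general exit radius -/
theorem lo_far_r {K : Set ℂ} {ρK Sr ρe : ℝ} (hK : K ⊆ closedBall x ρK) (hnum : ρK + Sr < ρe) {lo : ℕ} (h1 : ρe ≤ ‖pvacmGam Tc posc σc (pvwiTau c 0) lo - x‖) :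
    ∀ q ∈ K, Sr < ‖pvacmGam Tc posc σc (pvwiTau c 0) lo - q‖ := by
  intro q hq
  have a1 := mem_closedBall_iff_norm.1 (hK hq)
  have a2 := norm_sub_le_norm_sub_add_norm_sub (pvacmGam Tc posc σc (pvwiTau c 0) lo) q x
  linarith

theorem gam_tt_eq : pvacmGam Tc posc σc (pvwiTau c 0) (w2 + 𝔇c.t.np) = pos (T.src (𝔇.t.ep 𝔇.t.np)) := (pvacm_twin_src S.loc S.het).symm

theorem gam_ts_eq : pvacmGam Tc posc σc (pvwiTau c 0) (u1 - 𝔇c.s.nm) = pos (T.src (𝔇.s.em 𝔇.s.nm)) := (pvacm_twin_src S.loc S.hes).symm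

/-- the tip apex of `Σ⁺(t)` is within the mesh of the black end of the tip position -/
theorem ap_near : ‖pos 𝔇.t.ap - pos (T.src (𝔇.t.ep 𝔇.t.np))‖ ≤ μ := by
  have hK : pos (T.src (𝔇.t.ep 𝔇.t.np)) ∈ closedBall x (6 * R) := by
    rw [← S.gam_tt_eq]
    exact pvfw_ball_sub S.hR (mem_ball_iff_norm.2 S.gam_tt)
  have m3 := S.mesh _ _ hK (T.sf_nxt2 _)
  rw [T.src_nxt2, T.tgt_nxt2] at m3
  exact m3

/-- the tip apex of `Σ⁻(s)` is within the mesh of the black end of the tip position -/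
theorem am_near : ‖pos 𝔇.s.am - pos (T.src (𝔇.s.em 𝔇.s.nm))‖ ≤ μ := by
  have hK : pos (T.src (T.nxt (T.opp (𝔇.s.em 𝔇.s.nm)))) ∈ closedBall x (6 * R) := by
    rw [T.src_nxt, T.tgt_opp, ← S.gam_ts_eq]
    exact pvfw_ball_sub S.hR (mem_ball_iff_norm.2 S.gam_ts)
  have m3 := S.mesh _ _ hK (T.sf_refl _)
  rw [T.src_nxt, T.tgt_nxt, T.tgt_opp, norm_sub_rev] at m3
  exact m3

/-- **THE SCENE AT THE SEAM** (all that is left: the `K`-side, front and number hypotheses of `pvmu_df_scene` of 215 at the obstacle of record; the two polygons off `K` (179 `Tr/WitF`); `core` (292 `Tr/SeamG`, `core_t core_s`)) -/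
theorem scene_of_r (G : PlGeo T pos) {N : PvwNum} (As : 𝔇.s.AtIn pos N h zs τs σ) (At : 𝔇.t.AtOut pos N h zt τt σ) (hg : 0 < 𝔇c.g.n) (hρ : 0 ≤ N.rho * h)
    {Ms Mt : Set ℂ} {fs ft : ℂ} {cl e ρ' ρ'' r η μ' Sr ρK ρe : ℝ} (hμ' : μ ≤ μ') (e1 : 7 * R / 2 ≤ ρe) (e2 : ρe + μ ≤ 4 * R)
    -- the fronts
    (hfs : fs ∉ pvwSq zs (pvwRad N h τs τs.k + e)) (hfsy : ‖fs - τs.cm h zs‖ ≤ ρ') (hft : ft ∉ pvwSq zt (pvwRad N h τt τt.k + e)) (hfty : ‖ft - τt.cp h zt‖ ≤ ρ')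
    -- numbers
    (hr : 0 ≤ r) (hη : 0 ≤ η) (he : r + 2 * η ≤ e) (hRs : N.rho * h / 4 + μ + ρ' ≤ 2 * pvwRad N h τs τs.k + e) (hRt : N.rho * h / 4 + μ + ρ' ≤ 2 * pvwRad N h τt τt.k + e)
    (hc0 : 0 ≤ cl) (hc : N.rho * h / 4 + μ + ρ' ≤ cl + e) (h1 : N.rho * h / 4 + μ + cl ≤ ρ')
    (hsep : pvwRad N h τs τs.k + pvwRad N h τt τt.k + (N.rho * h / 4 + μ) + ρ' + (2 * r + 2 * η) < pvtcSup (zt - zs))
    (n1 : 3 * Sr + 5 * r ≤ ρ'' - ρ') (n2 : Sr + 5 * r ≤ ρ'' - N.rho * h / 4) (n3 : 13 * r ≤ ρ'' - ρ')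
    -- the obstacle
    (m1s : 𝔇.pvfyKd pos h zs zt τs τt ∩ closedBall (τs.cm h zs) ρ' ⊆ pvwSq zs (pvwRad N h τs τs.k)) (m1t : 𝔇.pvfyKd pos h zs zt τs τt ∩ closedBall (τt.cp h zt) ρ' ⊆ pvwSq zt (pvwRad N h τt τt.k))
    (hMsK : Ms ⊆ 𝔇.pvfyKd pos h zs zt τs τt) (hMsc : IsPreconnected Ms) (hMsb : Ms ⊆ pvwSq zs (pvwRad N h τs τs.k))
    (hMtK : Mt ⊆ 𝔇.pvfyKd pos h zs zt τs τt) (hMtc : IsPreconnected Mt) (hMtb : Mt ⊆ pvwSq zt (pvwRad N h τt τt.k))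
    (gs : ∀ q ∈ 𝔇.pvfyKd pos h zs zt τs τt \ (Ms ∪ Mt), ρ'' < ‖q - τs.cm h zs‖) (gt : ∀ q ∈ 𝔇.pvfyKd pos h zs zt τs τt \ (Ms ∪ Mt), ρ'' < ‖q - τt.cp h zt‖)
    (hKb : 𝔇.pvfyKd pos h zs zt τs τt ⊆ closedBall x ρK) (nK1 : 29 / 20 * (ρK + (r + η)) + μ < ρe) (nK2 : ρK + Sr < ρe)
    -- the two discs are far from the two continuations and from the two mouths
    (core : ∀ k, ((w2 + 𝔇c.t.np ≤ k ∧ k < n) ∨ k ≤ u1 - 𝔇c.s.nm) →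
      τs.b * h + (Sr + 8 * r) + μ < ‖pvacmGam Tc posc σc (pvwiTau c 0) k - zs‖ ∧ τt.b * h + (Sr + 8 * r) + μ < ‖pvacmGam Tc posc σc (pvwiTau c 0) k - zt‖)
    (dts : τs.b * h + (Sr + 8 * r) + ρ' < ‖τt.cp h zt - zs‖) (dtt : τt.b * h + (Sr + 8 * r) + ρ' < ‖τt.cp h zt - zt‖)
    (dss : τs.b * h + (Sr + 8 * r) + ρ' < ‖τs.cm h zs - zs‖) (dst : τt.b * h + (Sr + 8 * r) + ρ' < ‖τs.cm h zs - zt‖)
    -- the two polygons miss the obstacle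
    (hWt : ∀ hi, w2 + 𝔇c.t.np < hi → hi < n → (∀ k, w2 + 𝔇c.t.np ≤ k → k ≤ hi → pvacmGam Tc posc σc (pvwiTau c 0) k ∈ closedBall x (6 * R)) →
      Disjoint (pvacmW T pos σ (𝔇.t.ep 𝔇.t.np) (pos 𝔇.t.ap) (hi - (w2 + 𝔇c.t.np))) (𝔇.pvfyKd pos h zs zt τs τt))
    (hWs : ∀ lo, lo < u1 - 𝔇c.s.nm → (∀ k, lo ≤ k → k ≤ u1 - 𝔇c.s.nm → pvacmGam Tc posc σc (pvwiTau c 0) k ∈ closedBall x (6 * R)) →
      Disjoint (pvacmW T pos (pvasNot σ) (T.opp (𝔇.s.em 𝔇.s.nm)) (pos 𝔇.s.am) (u1 - 𝔇c.s.nm - lo)) (𝔇.pvfyKd pos h zs zt τs τt)) :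
    ∃ (Wt Ws : Set ℂ) (lo hi : ℕ), lo < u1 - 𝔇c.s.nm ∧ w2 + 𝔇c.t.np < hi ∧ hi < n ∧
      PvaccScene (pvacmGam Tc posc σc (pvwiTau c 0)) (𝔇.pvfyKd pos h zs zt τs τt) (Ms ∪ Mt) Wt Ws ft fs r η μ' Sr lo (u1 - 𝔇c.s.nm) (w2 + 𝔇c.t.np) hi := by
  obtain ⟨hi, i1, i2, i3, i4, i5⟩ := S.hi_ex_r e1 e2
  obtain ⟨lo, l1, l2, l3, l4⟩ := S.lo_ex_r e1 e2
  have hR := S.hR
  have hμ0 := S.mu_nonneg
  have hle : u1 - 𝔇c.s.nm ≤ w2 + 𝔇c.t.np := by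
    have := S.tab.u12; have := S.tab.uw; have := S.tab.w12
    omega
  have hγt : ∀ k, w2 + 𝔇c.t.np ≤ k → k ≤ hi → pvacmGam Tc posc σc (pvwiTau c 0) k ∈ closedBall x (6 * R) := by
    intro k a1 a2
    rw [mem_closedBall_iff_norm]
    rcases a2.eq_or_lt with rfl | a2
    · linarith
    · linarith [i5 k a1 a2]
  have hγs : ∀ k, lo ≤ k → k ≤ u1 - 𝔇c.s.nm → pvacmGam Tc posc σc (pvwiTau c 0) k ∈ closedBall x (6 * R) := by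
    intro k a1 a2
    rw [mem_closedBall_iff_norm]
    rcases a1.eq_or_lt with rfl | a1
    · linarith
    · linarith [l4 k a1 a2]
  obtain ⟨nt, hnt, hft'⟩ := pvmu_ht_of_not_mem hft
  obtain ⟨ns, hns, hfs'⟩ := pvmu_ht_of_not_mem hfs
  obtain ⟨-, -, -, -, -, yat⟩ := pvmu_st_side_t At S.ap_near
  obtain ⟨-, -, -, -, -, yas⟩ := pvmu_st_side_s As S.am_near
  have bt : pvmuLf (pos 𝔇.t.ap) nt ft cl ⊆ closedBall (τt.cp h zt) ρ' := pvmu_lf_ball hnt yat hc0 h1 hfty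
  have bs : pvmuLf (pos 𝔇.s.am) ns fs cl ⊆ closedBall (τs.cm h zs) ρ' := pvmu_lf_ball hns yas hc0 h1 hfsy
  have hKc : IsCompact (𝔇.pvfyKd pos h zs zt τs τt) := ((pvfy_K_compact As.gate.fin At.gate.fin).union (isCompact_closedBall _ _)).union (isCompact_closedBall _ _)
  -- the points of the two polygons
  have nrt : ∀ w ∈ pvacmW T pos σ (𝔇.t.ep 𝔇.t.np) (pos 𝔇.t.ap) (hi - (w2 + 𝔇c.t.np)), ∃ k, w2 + 𝔇c.t.np ≤ k ∧ k < hi ∧ ‖w - pvacmGam Tc posc σc (pvwiTau c 0) k‖ ≤ μ := by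
    intro w hw
    rcases pvacm_fwd_near S.loc S.col G i1 S.het hγt S.mesh hw with hh | hh
    · have e1 : w = pos 𝔇.t.ap := by
        have : segment ℝ (pos 𝔇.t.ap) (pos (T.apex (𝔇.t.ep 𝔇.t.np))) = {pos 𝔇.t.ap} := segment_same ℝ _
        rw [this] at hh
        exact hh
      exact ⟨_, le_rfl, i1, by rw [e1, S.gam_tt_eq]; exact S.ap_near⟩
    · exact hh
  have nrs : ∀ w ∈ pvacmW T pos (pvasNot σ) (T.opp (𝔇.s.em 𝔇.s.nm)) (pos 𝔇.s.am) (u1 - 𝔇c.s.nm - lo), ∃ k, lo < k ∧ k ≤ u1 - 𝔇c.s.nm ∧ ‖w - pvacmGam Tc posc σc (pvwiTau c 0) k‖ ≤ μ := by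
    intro w hw
    rcases pvacm_bwd_near S.loc S.col G S.fr.per.bw l1 S.hes hγs S.mesh hw with hh | hh
    · have e1 : w = pos 𝔇.s.am := by
        have : segment ℝ (pos 𝔇.s.am) (pos (T.apex (T.opp (𝔇.s.em 𝔇.s.nm)))) = {pos 𝔇.s.am} := segment_same ℝ _
        rw [this] at hh
        exact hh
      exact ⟨_, l1, le_rfl, by rw [e1, S.gam_ts_eq]; exact S.am_near⟩
    · exact hh
  -- every point of the two witnesses is far from the two discs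
  have hfar : ∀ w ∈ (pvmuLf (pos 𝔇.t.ap) nt ft cl ∪ pvacmW T pos σ (𝔇.t.ep 𝔇.t.np) (pos 𝔇.t.ap) (hi - (w2 + 𝔇c.t.np))) ∪
      (pvmuLf (pos 𝔇.s.am) ns fs cl ∪ pvacmW T pos (pvasNot σ) (T.opp (𝔇.s.em 𝔇.s.nm)) (pos 𝔇.s.am) (u1 - 𝔇c.s.nm - lo)),
      τs.b * h + (Sr + 8 * r) < ‖w - zs‖ ∧ τt.b * h + (Sr + 8 * r) < ‖w - zt‖ := by
    rintro w ((hw | hw) | (hw | hw))
    · have := mem_closedBall_iff_norm.1 (bt hw)
      exact ⟨pvfw_tri_far this dts, pvfw_tri_far this dtt⟩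
    · obtain ⟨k, a1, a2, a3⟩ := nrt w hw
      obtain ⟨c1, c2⟩ := core k (Or.inl ⟨a1, by omega⟩)
      exact ⟨pvfw_tri_far a3 c1, pvfw_tri_far a3 c2⟩
    · have := mem_closedBall_iff_norm.1 (bs hw)
      exact ⟨pvfw_tri_far this dss, pvfw_tri_far this dst⟩
    · obtain ⟨k, a1, a2, a3⟩ := nrs w hw
      obtain ⟨c1, c2⟩ := core k (Or.inr a2)
      exact ⟨pvfw_tri_far a3 c1, pvfw_tri_far a3 c2⟩
  have harc := pvfw_arc_mu (S.arc_Kd hg _ (Sr + 8 * r) (fun p hp w hw => pvfw_disc_far (hfar w hw).1 hp) (fun p hp w hw => pvfw_disc_far (hfar w hw).2 hp)) hμ'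
  obtain ⟨a0, b0, c0, e0, f1, f2, f3⟩ := S.far_r (r := r) (η := η) hKb nK1 l2 (hγs lo le_rfl l1.le) i3 (hγt hi i1.le le_rfl)
  refine ⟨_, _, lo, hi, l1, i1, i2, pvmu_df_scene (γ := pvacmGam Tc posc σc (pvwiTau c 0)) (μ := μ') (S := Sr) (lo := lo) (hi := hi) (c := cl) As At S.am_near S.ap_near hρ hns hfs' hfsy hnt hft' hfty hr hη he hRs hRt hc0 hc h1 hsep n1 n2 n3
    hKc m1s m1t hMsK hMsc hMsb hMtK hMtc hMtb gs gt (pvacm_W_conn _ _ _ _ _ _) (pvacm_W_compact _ _ _ _ _ _) (hWt hi i1 i2 hγt) (pvacm_front_mem _ _ _ _ _ _) ?_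
    (pvacm_W_conn _ _ _ _ _ _) (pvacm_W_compact _ _ _ _ _ _) (hWs lo l1 hγs) (pvacm_front_mem _ _ _ _ _ _) ?_ ?_ ⟨_, _, harc⟩ S.gam_tt_eq S.gam_ts_eq (S.lo_far_r hKb nK2 l2) l1.le i1.le⟩
  · intro w hw
    obtain ⟨k, a1, a2, a3⟩ := nrt w hw
    exact Or.inl ⟨k, ⟨a1, a2.le⟩, a3.trans hμ'⟩
  · intro w hw
    obtain ⟨k, a1, a2, a3⟩ := nrs w hw
    exact Or.inl ⟨k, ⟨a1.le, a2⟩, a3.trans hμ'⟩
  · refine ⟨a0, b0, c0, e0, f1, ⟨_, pvacm_mid_mem T pos σ (𝔇.t.ep 𝔇.t.np) (pos 𝔇.t.ap) (l := hi - (w2 + 𝔇c.t.np)) (by omega) le_rfl, ?_⟩,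
      _, pvacm_mid_mem T pos (pvasNot σ) (T.opp (𝔇.s.em 𝔇.s.nm)) (pos 𝔇.s.am) (l := u1 - 𝔇c.s.nm - lo) (by omega) le_rfl, ?_⟩
    · have tw := pvacm_twin_it S.loc.loc S.col S.het (N := hi - (w2 + 𝔇c.t.np)) (fun l hl => (pvacm_shared S.loc (hγt (w2 + 𝔇c.t.np + l) (by omega) (by omega))).1) (hi - (w2 + 𝔇c.t.np)) le_rfl
      rw [pvacm_twin_mid S.loc tw, Nat.add_sub_cancel' i1.le]
      exact f2
    · have he' : Rl (Tc.opp (pvasIt Tc σc (pvwiTau c 0) (u1 - 𝔇c.s.nm))) (T.opp (𝔇.s.em 𝔇.s.nm)) := pvlw_opp S.loc S.hes (Or.inl (hγs _ l1.le le_rfl))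
      have tw := pvacm_twin_rev S.loc.loc S.col S.fr.per.bw (N := u1 - 𝔇c.s.nm - lo) (Nat.sub_le _ _) he' (fun l hl => (pvacm_shared S.loc (hγs (u1 - 𝔇c.s.nm - l) (by omega) (by omega))).2) (u1 - 𝔇c.s.nm - lo) le_rfl
      rw [pvacm_twin_mid S.loc tw, pvfb_mid_opp, Nat.sub_sub_self l1.le]
      exact f3

/-- the same at the exit radius `7R/2`, constant `3/2` (all that is left: the `K`-side, front and number hypotheses of `pvmu_df_scene` of 215 at the obstacle of record; the two polygons off `K` (179 `Tr/WitF`); `core` (292 `Tr/SeamG`, `core_t core_s`)) -/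
theorem scene_of (G : PlGeo T pos) {N : PvwNum} (As : 𝔇.s.AtIn pos N h zs τs σ) (At : 𝔇.t.AtOut pos N h zt τt σ) (hg : 0 < 𝔇c.g.n) (hρ : 0 ≤ N.rho * h)
    {Ms Mt : Set ℂ} {fs ft : ℂ} {cl e ρ' ρ'' r η μ' Sr ρK : ℝ} (hμ' : μ ≤ μ')
    -- the fronts
    (hfs : fs ∉ pvwSq zs (pvwRad N h τs τs.k + e)) (hfsy : ‖fs - τs.cm h zs‖ ≤ ρ') (hft : ft ∉ pvwSq zt (pvwRad N h τt τt.k + e)) (hfty : ‖ft - τt.cp h zt‖ ≤ ρ')
    -- numbers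
    (hr : 0 ≤ r) (hη : 0 ≤ η) (he : r + 2 * η ≤ e) (hRs : N.rho * h / 4 + μ + ρ' ≤ 2 * pvwRad N h τs τs.k + e) (hRt : N.rho * h / 4 + μ + ρ' ≤ 2 * pvwRad N h τt τt.k + e)
    (hc0 : 0 ≤ cl) (hc : N.rho * h / 4 + μ + ρ' ≤ cl + e) (h1 : N.rho * h / 4 + μ + cl ≤ ρ')
    (hsep : pvwRad N h τs τs.k + pvwRad N h τt τt.k + (N.rho * h / 4 + μ) + ρ' + (2 * r + 2 * η) < pvtcSup (zt - zs))
    (n1 : 3 * Sr + 5 * r ≤ ρ'' - ρ') (n2 : Sr + 5 * r ≤ ρ'' - N.rho * h / 4) (n3 : 13 * r ≤ ρ'' - ρ')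
    -- the obstacle
    (m1s : 𝔇.pvfyKd pos h zs zt τs τt ∩ closedBall (τs.cm h zs) ρ' ⊆ pvwSq zs (pvwRad N h τs τs.k)) (m1t : 𝔇.pvfyKd pos h zs zt τs τt ∩ closedBall (τt.cp h zt) ρ' ⊆ pvwSq zt (pvwRad N h τt τt.k))
    (hMsK : Ms ⊆ 𝔇.pvfyKd pos h zs zt τs τt) (hMsc : IsPreconnected Ms) (hMsb : Ms ⊆ pvwSq zs (pvwRad N h τs τs.k))
    (hMtK : Mt ⊆ 𝔇.pvfyKd pos h zs zt τs τt) (hMtc : IsPreconnected Mt) (hMtb : Mt ⊆ pvwSq zt (pvwRad N h τt τt.k))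
    (gs : ∀ q ∈ 𝔇.pvfyKd pos h zs zt τs τt \ (Ms ∪ Mt), ρ'' < ‖q - τs.cm h zs‖) (gt : ∀ q ∈ 𝔇.pvfyKd pos h zs zt τs τt \ (Ms ∪ Mt), ρ'' < ‖q - τt.cp h zt‖)
    (hKb : 𝔇.pvfyKd pos h zs zt τs τt ⊆ closedBall x ρK) (nK1 : 3 / 2 * (ρK + (r + η)) + μ < 7 * R / 2) (nK2 : ρK + Sr < 7 * R / 2)
    -- the two discs are far from the two continuations and from the two mouths
    (core : ∀ k, ((w2 + 𝔇c.t.np ≤ k ∧ k < n) ∨ k ≤ u1 - 𝔇c.s.nm) →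
      τs.b * h + (Sr + 8 * r) + μ < ‖pvacmGam Tc posc σc (pvwiTau c 0) k - zs‖ ∧ τt.b * h + (Sr + 8 * r) + μ < ‖pvacmGam Tc posc σc (pvwiTau c 0) k - zt‖)
    (dts : τs.b * h + (Sr + 8 * r) + ρ' < ‖τt.cp h zt - zs‖) (dtt : τt.b * h + (Sr + 8 * r) + ρ' < ‖τt.cp h zt - zt‖)
    (dss : τs.b * h + (Sr + 8 * r) + ρ' < ‖τs.cm h zs - zs‖) (dst : τt.b * h + (Sr + 8 * r) + ρ' < ‖τs.cm h zs - zt‖)
    -- the two polygons miss the obstacle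
    (hWt : ∀ hi, w2 + 𝔇c.t.np < hi → hi < n → (∀ k, w2 + 𝔇c.t.np ≤ k → k ≤ hi → pvacmGam Tc posc σc (pvwiTau c 0) k ∈ closedBall x (6 * R)) →
      Disjoint (pvacmW T pos σ (𝔇.t.ep 𝔇.t.np) (pos 𝔇.t.ap) (hi - (w2 + 𝔇c.t.np))) (𝔇.pvfyKd pos h zs zt τs τt))
    (hWs : ∀ lo, lo < u1 - 𝔇c.s.nm → (∀ k, lo ≤ k → k ≤ u1 - 𝔇c.s.nm → pvacmGam Tc posc σc (pvwiTau c 0) k ∈ closedBall x (6 * R)) →
      Disjoint (pvacmW T pos (pvasNot σ) (T.opp (𝔇.s.em 𝔇.s.nm)) (pos 𝔇.s.am) (u1 - 𝔇c.s.nm - lo)) (𝔇.pvfyKd pos h zs zt τs τt)) :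
    ∃ (Wt Ws : Set ℂ) (lo hi : ℕ), lo < u1 - 𝔇c.s.nm ∧ w2 + 𝔇c.t.np < hi ∧ hi < n ∧
      PvaccScene (pvacmGam Tc posc σc (pvwiTau c 0)) (𝔇.pvfyKd pos h zs zt τs τt) (Ms ∪ Mt) Wt Ws ft fs r η μ' Sr lo (u1 - 𝔇c.s.nm) (w2 + 𝔇c.t.np) hi := by
  have hK0 : 0 ≤ ρK := (norm_nonneg _).trans (mem_closedBall_iff_norm.1 (hKb (pvfr_arc_mem (S.arc_Kd hg ∅ 0 (fun _ _ w hw => hw.elim) (fun _ _ w hw => hw.elim))).1))
  exact S.scene_of_r G As At hg hρ hμ' le_rfl (by linarith [S.mu]) hfs hfsy hft hfty hr hη he hRs hRt hc0 hc h1 hsep n1 n2 n3 m1s m1t hMsK hMsc hMsb hMtK hMtc hMtb gs gt hKb (by linarith) nK2 core dts dtt dss dst hWt hWs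

/-- **THE SCENE AT THE SEAM, ALL PRODUCERS PLUGGED IN**: `arc` (10 `arc_Kd`), the polygons off the obstacle of record (179 `pvwi_fwd_off_Kd`, `pvwi_bwd_off_Kd`), `core` (292 `pvotg_core`: the two outer actual gates IN THE PLANE), mouths (215 `pvmu_df_scene`),
window, `far`, `lo_far`, times (`Tr/FitLiftS`, 211 `Tr/AccM`).      LEFT TO THE MODEL END: the seam itself, the half states, the outer gates, (M1), the box parts, the masks, the fronts, the numbers. -/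
theorem scene_r (G : PlGeo T pos) (hT : T.IsSph) {N : PvwNum} (As : 𝔇.s.AtIn pos N h zs τs σ) (At : 𝔇.t.AtOut pos N h zt τt σ) (hg : 0 < 𝔇c.g.n) (hρ : 0 ≤ N.rho * h)
    {𝔊s 𝔊t : PvwSt T} {τs' τt' : PvwTy} (hGs : 𝔊s.Gate pos h zs τs' σ) (hGt : 𝔊t.Gate pos h zt τt' σ)
    (hBs : closedBall zs (τs'.b * h) ⊆ Bs) (hBt : closedBall zt (τt'.b * h) ⊆ Bt)
    {Ms Mt : Set ℂ} {fs ft : ℂ} {cl e ρ' ρ'' r η μ' Sr ρK ρe : ℝ} (hμ' : μ ≤ μ') (e1 : 7 * R / 2 ≤ ρe) (e2 : ρe + μ ≤ 4 * R)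
    -- the fronts
    (hfs : fs ∉ pvwSq zs (pvwRad N h τs τs.k + e)) (hfsy : ‖fs - τs.cm h zs‖ ≤ ρ') (hft : ft ∉ pvwSq zt (pvwRad N h τt τt.k + e)) (hfty : ‖ft - τt.cp h zt‖ ≤ ρ')
    -- numbers
    (hr : 0 ≤ r) (hη : 0 ≤ η) (hS : 0 ≤ Sr) (he : r + 2 * η ≤ e) (hRs : N.rho * h / 4 + μ + ρ' ≤ 2 * pvwRad N h τs τs.k + e) (hRt : N.rho * h / 4 + μ + ρ' ≤ 2 * pvwRad N h τt τt.k + e)
    (hc0 : 0 ≤ cl) (hc : N.rho * h / 4 + μ + ρ' ≤ cl + e) (h1 : N.rho * h / 4 + μ + cl ≤ ρ')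
    (hsep : pvwRad N h τs τs.k + pvwRad N h τt τt.k + (N.rho * h / 4 + μ) + ρ' + (2 * r + 2 * η) < pvtcSup (zt - zs))
    (n1 : 3 * Sr + 5 * r ≤ ρ'' - ρ') (n2 : Sr + 5 * r ≤ ρ'' - N.rho * h / 4) (n3 : 13 * r ≤ ρ'' - ρ')
    (hgs : τs.b * h + (Sr + 8 * r) + μ < τs'.a * h) (hgt : τt.b * h + (Sr + 8 * r) + μ < τt'.a * h)
    -- the obstacle
    (m1s : 𝔇.pvfyKd pos h zs zt τs τt ∩ closedBall (τs.cm h zs) ρ' ⊆ pvwSq zs (pvwRad N h τs τs.k)) (m1t : 𝔇.pvfyKd pos h zs zt τs τt ∩ closedBall (τt.cp h zt) ρ' ⊆ pvwSq zt (pvwRad N h τt τt.k))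
    (hMsK : Ms ⊆ 𝔇.pvfyKd pos h zs zt τs τt) (hMsc : IsPreconnected Ms) (hMsb : Ms ⊆ pvwSq zs (pvwRad N h τs τs.k))
    (hMtK : Mt ⊆ 𝔇.pvfyKd pos h zs zt τs τt) (hMtc : IsPreconnected Mt) (hMtb : Mt ⊆ pvwSq zt (pvwRad N h τt τt.k))
    (gs : ∀ q ∈ 𝔇.pvfyKd pos h zs zt τs τt \ (Ms ∪ Mt), ρ'' < ‖q - τs.cm h zs‖) (gt : ∀ q ∈ 𝔇.pvfyKd pos h zs zt τs τt \ (Ms ∪ Mt), ρ'' < ‖q - τt.cp h zt‖)
    (hKb : 𝔇.pvfyKd pos h zs zt τs τt ⊆ closedBall x ρK) (nK1 : 29 / 20 * (ρK + (r + η)) + μ < ρe) (nK2 : ρK + Sr < ρe)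
    -- the two discs are far from the two mouths
    (dts : τs.b * h + (Sr + 8 * r) + ρ' < ‖τt.cp h zt - zs‖) (dtt : τt.b * h + (Sr + 8 * r) + ρ' < ‖τt.cp h zt - zt‖)
    (dss : τs.b * h + (Sr + 8 * r) + ρ' < ‖τs.cm h zs - zs‖) (dst : τt.b * h + (Sr + 8 * r) + ρ' < ‖τs.cm h zs - zt‖) :
    ∃ (Wt Ws : Set ℂ) (lo hi : ℕ), lo < u1 - 𝔇c.s.nm ∧ w2 + 𝔇c.t.np < hi ∧ hi < n ∧
      PvaccScene (pvacmGam Tc posc σc (pvwiTau c 0)) (𝔇.pvfyKd pos h zs zt τs τt) (Ms ∪ Mt) Wt Ws ft fs r η μ' Sr lo (u1 - 𝔇c.s.nm) (w2 + 𝔇c.t.np) hi := by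
  have hμ := S.mu_nonneg
  have hR := S.hR
  have core : ∀ k, ((w2 + 𝔇c.t.np ≤ k ∧ k < n) ∨ k ≤ u1 - 𝔇c.s.nm) →
      τs.b * h + (Sr + 8 * r) + μ < ‖pvacmGam Tc posc σc (pvwiTau c 0) k - zs‖ ∧ τt.b * h + (Sr + 8 * r) + μ < ‖pvacmGam Tc posc σc (pvwiTau c 0) k - zt‖ := by
    intro k hk
    have hn : u1 - 𝔇c.s.nm ≤ n := by
      have := S.tab.u12; have := S.tab.uw; have := S.tab.w12; have := S.tab.np_lt
      omega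
    refine pvotg_core S hT hGs hGt hBs hBt (Λ := Sr + 8 * r) (by linarith) hgs hgt (lo := 0) (hi := n) le_rfl k (Nat.zero_le _) ?_ ?_
    · rcases hk with hk | hk
      · exact hk.2.le
      · exact hk.trans hn
    · rcases hk with hk | hk
      · exact Or.inr hk.1
      · exact Or.inl hk
  have hρK : closedBall x ρK ⊆ closedBall x (6 * R) := closedBall_subset_closedBall (by linarith)
  have hKs : closedBall zs (τs.b * h) ⊆ closedBall x (6 * R) := fun p hp => hρK (hKb (Or.inl (Or.inr hp)))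
  have hKt : closedBall zt (τt.b * h) ⊆ closedBall x (6 * R) := fun p hp => hρK (hKb (Or.inr hp))
  have hg' : ∀ i, i < 𝔇c.g.n → posc (Tc.src (𝔇c.g.e i)) ∈ closedBall x (6 * R) := fun i hi => by
    rw [𝔇c.g.src_e i hi]
    exact S.arc_in i hi.le
  obtain ⟨-, -, -, -, -, yat⟩ := pvmu_st_side_t At S.ap_near
  obtain ⟨-, -, -, -, -, yas⟩ := pvmu_st_side_s As S.am_near
  have segt : Disjoint (segment ℝ (pos 𝔇.t.ap) (pos (T.apex (𝔇.t.ep 𝔇.t.np)))) (𝔇.pvfyKd pos h zs zt τs τt) := by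
    have : segment ℝ (pos 𝔇.t.ap) (pos (T.apex (𝔇.t.ep 𝔇.t.np))) = {pos 𝔇.t.ap} := segment_same ℝ _
    rw [this, Set.disjoint_singleton_left]
    exact fun hK => At.stub.ep_out (m1t ⟨hK, mem_closedBall_iff_norm.2 (by linarith)⟩)
  have segs : Disjoint (segment ℝ (pos 𝔇.s.am) (pos (T.apex (T.opp (𝔇.s.em 𝔇.s.nm))))) (𝔇.pvfyKd pos h zs zt τs τt) := by
    have : segment ℝ (pos 𝔇.s.am) (pos (T.apex (T.opp (𝔇.s.em 𝔇.s.nm)))) = {pos 𝔇.s.am} := segment_same ℝ _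
    rw [this, Set.disjoint_singleton_left]
    exact fun hK => As.stub.em_out (m1s ⟨hK, mem_closedBall_iff_norm.2 (by linarith)⟩)
  refine S.scene_of_r G As At hg hρ hμ' e1 e2 hfs hfsy hft hfty hr hη he hRs hRt hc0 hc h1 hsep n1 n2 n3 m1s m1t hMsK hMsc hMsb hMtK hMtc hMtb gs gt hKb nK1 nK2 core dts dtt dss dst ?_ ?_
  · intro hi a1 a2 a3
    exact pvwi_fwd_off_Kd S.loc S.col G S.dat S.fr S.inp S.tab hKs hKt hg' a1 (by omega) a3 S.mesh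
      (fun k b1 b2 => by have := (core k (Or.inl ⟨b1, by omega⟩)).1; linarith) (fun k b1 b2 => by have := (core k (Or.inl ⟨b1, by omega⟩)).2; linarith) segt
  · intro lo a1 a3
    exact pvwi_bwd_off_Kd S.loc S.col G S.dat S.fr S.inp S.tab hKs hKt hg' a1 a3 S.mesh
      (fun k b1 b2 => by have := (core k (Or.inr b2)).1; linarith) (fun k b1 b2 => by have := (core k (Or.inr b2)).2; linarith) segs

/-- `scene_r` at the exit radius `7R/2`, constant `3/2` -/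
theorem scene (G : PlGeo T pos) (hT : T.IsSph) {N : PvwNum} (As : 𝔇.s.AtIn pos N h zs τs σ) (At : 𝔇.t.AtOut pos N h zt τt σ) (hg : 0 < 𝔇c.g.n) (hρ : 0 ≤ N.rho * h)
    {𝔊s 𝔊t : PvwSt T} {τs' τt' : PvwTy} (hGs : 𝔊s.Gate pos h zs τs' σ) (hGt : 𝔊t.Gate pos h zt τt' σ)
    (hBs : closedBall zs (τs'.b * h) ⊆ Bs) (hBt : closedBall zt (τt'.b * h) ⊆ Bt)
    {Ms Mt : Set ℂ} {fs ft : ℂ} {cl e ρ' ρ'' r η μ' Sr ρK : ℝ} (hμ' : μ ≤ μ')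
    -- the fronts
    (hfs : fs ∉ pvwSq zs (pvwRad N h τs τs.k + e)) (hfsy : ‖fs - τs.cm h zs‖ ≤ ρ') (hft : ft ∉ pvwSq zt (pvwRad N h τt τt.k + e)) (hfty : ‖ft - τt.cp h zt‖ ≤ ρ')
    -- numbers
    (hr : 0 ≤ r) (hη : 0 ≤ η) (hS : 0 ≤ Sr) (he : r + 2 * η ≤ e) (hRs : N.rho * h / 4 + μ + ρ' ≤ 2 * pvwRad N h τs τs.k + e) (hRt : N.rho * h / 4 + μ + ρ' ≤ 2 * pvwRad N h τt τt.k + e)
    (hc0 : 0 ≤ cl) (hc : N.rho * h / 4 + μ + ρ' ≤ cl + e) (h1 : N.rho * h / 4 + μ + cl ≤ ρ')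
    (hsep : pvwRad N h τs τs.k + pvwRad N h τt τt.k + (N.rho * h / 4 + μ) + ρ' + (2 * r + 2 * η) < pvtcSup (zt - zs))
    (n1 : 3 * Sr + 5 * r ≤ ρ'' - ρ') (n2 : Sr + 5 * r ≤ ρ'' - N.rho * h / 4) (n3 : 13 * r ≤ ρ'' - ρ')
    (hgs : τs.b * h + (Sr + 8 * r) + μ < τs'.a * h) (hgt : τt.b * h + (Sr + 8 * r) + μ < τt'.a * h)
    -- the obstacle
    (m1s : 𝔇.pvfyKd pos h zs zt τs τt ∩ closedBall (τs.cm h zs) ρ' ⊆ pvwSq zs (pvwRad N h τs τs.k)) (m1t : 𝔇.pvfyKd pos h zs zt τs τt ∩ closedBall (τt.cp h zt) ρ' ⊆ pvwSq zt (pvwRad N h τt τt.k))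
    (hMsK : Ms ⊆ 𝔇.pvfyKd pos h zs zt τs τt) (hMsc : IsPreconnected Ms) (hMsb : Ms ⊆ pvwSq zs (pvwRad N h τs τs.k))
    (hMtK : Mt ⊆ 𝔇.pvfyKd pos h zs zt τs τt) (hMtc : IsPreconnected Mt) (hMtb : Mt ⊆ pvwSq zt (pvwRad N h τt τt.k))
    (gs : ∀ q ∈ 𝔇.pvfyKd pos h zs zt τs τt \ (Ms ∪ Mt), ρ'' < ‖q - τs.cm h zs‖) (gt : ∀ q ∈ 𝔇.pvfyKd pos h zs zt τs τt \ (Ms ∪ Mt), ρ'' < ‖q - τt.cp h zt‖)
    (hKb : 𝔇.pvfyKd pos h zs zt τs τt ⊆ closedBall x ρK) (nK1 : 3 / 2 * (ρK + (r + η)) + μ < 7 * R / 2) (nK2 : ρK + Sr < 7 * R / 2)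
    -- the two discs are far from the two mouths
    (dts : τs.b * h + (Sr + 8 * r) + ρ' < ‖τt.cp h zt - zs‖) (dtt : τt.b * h + (Sr + 8 * r) + ρ' < ‖τt.cp h zt - zt‖)
    (dss : τs.b * h + (Sr + 8 * r) + ρ' < ‖τs.cm h zs - zs‖) (dst : τt.b * h + (Sr + 8 * r) + ρ' < ‖τs.cm h zs - zt‖) :
    ∃ (Wt Ws : Set ℂ) (lo hi : ℕ), lo < u1 - 𝔇c.s.nm ∧ w2 + 𝔇c.t.np < hi ∧ hi < n ∧
      PvaccScene (pvacmGam Tc posc σc (pvwiTau c 0)) (𝔇.pvfyKd pos h zs zt τs τt) (Ms ∪ Mt) Wt Ws ft fs r η μ' Sr lo (u1 - 𝔇c.s.nm) (w2 + 𝔇c.t.np) hi := by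
  have hK0 : 0 ≤ ρK := (norm_nonneg _).trans (mem_closedBall_iff_norm.1 (hKb (pvfr_arc_mem (S.arc_Kd hg ∅ 0 (fun _ _ w hw => hw.elim) (fun _ _ w hw => hw.elim))).1))
  exact S.scene_r G hT As At hg hρ hGs hGt hBs hBt hμ' le_rfl (by linarith [S.mu]) hfs hfsy hft hfty hr hη hS he hRs hRt hc0 hc h1 hsep n1 n2 n3 hgs hgt m1s m1t hMsK hMsc hMsb hMtK hMtc hMtb gs gt hKb (by linarith) nK2 dts dtt dss dst

end PvfwSeam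

end seam

end Claimed.Agent.R289
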