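-- KEEP
import Claimed.Agent.R289.Tr.FitL2
import Claimed.Agent.R289.Tr.FitObs
import Claimed.Agent.R289.Tr.FitLiftT
import Claimed.Agent.R289.Tr.CoverTw
import Claimed.Agent.R289.Tr.CoverDS
import Claimed.Agent.R289.Tr.AccCb
import Claimed.Agent.R289.Tr.AccWM

/-!
# Row 289 (S0537, Cardy for Poisson-Voronoi), THE WALL, road E, (L2) `pvfh_cor`, file Tr/CoverS2 : (S) THE SCENE AT THE MODEL = MODEL END + FINAL GLUE      (helper179; prefix `pvct_`)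

**`pvct_scene`** : `𝔓.Wf → PvfhWf 𝔓 → 0 < R → ∀ᶠ m, PvcbSceneAt 𝔓 x R m` = the statement of `exit_pvcb_scene` (`Exit/CorL2` of 56), 0 sorry.
PLUGGED IN:
* the seam at the model `pvxv_seam_of` (143 `Tr/CoverTw`, on `pvuz_seam` of 91)
* the scene at the seam `PvfwSeam.scene` (49 `Tr/FitLiftT`: arc of 10, polygons off the obstacle of 179, core of 292, mouths of 215, polygons of 211)
* the K-side record `pvmu_cb_ks` (215 `Tr/AccCb`) at the obstacle, the fronts, the numbers of record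
* the input record `pvcj_in` of (G) (266 `Tr/FitObs`): half states, ends of `g₀`, mesh, numbers
* the down end `pvck_seam_downK` (154 `Tr/CoverDS`)
* `pvaw_geo_del` (206), `delb_plane_isSph` (219)
OWN LEAVES: `pvct_ball` (`K ⊆ closedBall x (9R/4)`: the rectangle test of `PvfwSeam.far` costs a factor `3/2`, so `5R/2` of `PvcbObs.ball` is too big), `pvct_sup` (sup separation of the two centres), `pvct_bx2` (the second gate lies in the own box: `PvfhWf.box2`).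
-/

set_option autoImplicit false

namespace Claimed.Agent.R289

open Set Metric Filter Claims.C0465

/-! ## 1. model free leaves -/

theorem pvct_norm_sup (p : ℂ) : ‖p‖ ≤ 2 * pvtcSup p := by
  have h0 := Complex.norm_le_abs_re_add_abs_im p
  have h1 : |p.re| ≤ pvtcSup p := le_max_left _ _
  have h2 : |p.im| ≤ pvtcSup p := le_max_right _ _
  linarith

section free

variable {V D : Type} {T : PvMap V D} {pos : V → ℂ} {N : PvwNum} {h δ μ : ℝ} {x : ℂ} {R : ℝ} {zs zt : ℂ} {τs τt : PvwTy} {σ σ' : V → Bool} {𝔇 : PvwDat T}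

theorem pvct_R_pos (I : PvcjIn T pos N h δ μ x R zs zt τs τt σ σ' 𝔇) : 0 < R := by
  have a6 := I.rad_s
  have a7 := I.rs
  have a8 := I.h0
  have a9 := I.bh_s
  nlinarith

theorem pvct_box_s (I : PvcjIn T pos N h δ μ x R zs zt τs τt σ σ' 𝔇) : pvwSq zs (pvwRad N h τs τs.k) ⊆ closedBall x (9 / 4 * R) := fun w hw => by
  rw [mem_closedBall_iff_norm]
  have a1 := pvcj_sq_norm hw
  have a2 := pvcj_tri w zs x
  have a3 := pvcj_tri zs (pos (𝔇.g.v 0)) x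
  have a4 := I.in2R 0 (Nat.zero_le _)
  have a5 := I.g0
  rw [norm_sub_rev] at a5
  have a6 := I.rad_s
  have a7 := I.rs
  have a8 := I.h0
  have a9 := I.bh_s
  nlinarith

theorem pvct_box_t (I : PvcjIn T pos N h δ μ x R zs zt τs τt σ σ' 𝔇) : pvwSq zt (pvwRad N h τt τt.k) ⊆ closedBall x (9 / 4 * R) := fun w hw => by
  rw [mem_closedBall_iff_norm]
  have a1 := pvcj_sq_norm hw
  have a2 := pvcj_tri w zt x
  have a3 := pvcj_tri zt (pos (𝔇.g.v 𝔇.g.n)) x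
  have a4 := I.in2R 𝔇.g.n le_rfl
  have a5 := I.g1
  rw [norm_sub_rev] at a5
  have a6 := I.rad_t
  have a7 := I.rt
  have a8 := I.h0
  have a9 := I.bh_t
  nlinarith

/-- **THE OBSTACLE OF RECORD LIES IN `closedBall x (9R/4)`** -/
theorem pvct_ball (I : PvcjIn T pos N h δ μ x R zs zt τs τt σ σ' 𝔇) : 𝔇.pvfyKd pos h zs zt τs τt ⊆ closedBall x (9 / 4 * R) := by
  have hbs : τs.b * h ≤ pvwRad N h τs τs.k := by nlinarith [I.rad_s, I.bh_s, I.h0]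
  have hbt : τt.b * h ≤ pvwRad N h τt τt.k := by nlinarith [I.rad_t, I.bh_t, I.h0]
  refine pvkz_Kd_ball I.sph I.st_s I.st_t hbs hbt (pvct_box_s I) (pvct_box_t I) I.mesh (fun k hk => ?_)
  have a1 := I.in2R k hk.le
  have a2 := I.mu
  have a3 := I.dr
  have a4 := I.rho_h
  have a5 := I.rad_s
  have a6 := I.rs
  have a7 := I.bh_s
  have a8 := I.d0
  nlinarith

/-- **SUP SEPARATION OF THE TWO CENTRES** -/
theorem pvct_sup (I : PvcjIn T pos N h δ μ x R zs zt τs τt σ σ' 𝔇) : pvwRad N h τs τs.k + pvwRad N h τt τt.k + 2 * (N.rho * h) < pvtcSup (zt - zs) := by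
  have a1 := pvct_norm_sup (zt - zs)
  have a2 := I.far
  rw [norm_sub_rev] at a2
  have a4 := I.rho_h
  have a5 := I.rad_s
  have a6 := I.rs
  have a6' := I.rt
  have a7 := I.bh_s
  have a8 := I.h0
  have a9 := pvct_R_pos I
  nlinarith

end free

/-! ## 2. at the model -/

section model

variable {τ : Type} {c : ℝ} {𝔓 : PvxPar τ c} {x : ℂ} {R : ℝ}

/-- the second gate lies in the own box -/
theorem pvct_bx2 (hW : 𝔓.Wf) (hP : PvfhWf 𝔓) (m : ℕ) (z : ℂ) (t : τ) : closedBall z ((𝔓.ty2 t).b * pvlmH m) ⊆ pvxvBx 𝔓 m z t := by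
  intro w hw
  rw [mem_closedBall_iff_norm] at hw
  have hh := pvlm_H_pos m
  have h1 : 0 ≤ 𝔓.num.rho1 := (hW.rho0.trans hW.rho1).le
  have h2 : (𝔓.ty2 t).b * pvlmH m ≤ pvwRad 𝔓.num (pvlmH m) (𝔓.ty t) (𝔓.ty t).k := by
    unfold pvwRad
    have h3 : (0 : ℝ) ≤ ((𝔓.ty t).k : ℝ) * 𝔓.num.rho1 := by positivity
    exact mul_le_mul_of_nonneg_right (by linarith [hP.box2 t]) hh.le
  exact ⟨(Complex.abs_re_le_norm _).trans (hw.trans h2), (Complex.abs_im_le_norm _).trans (hw.trans h2)⟩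

/-- **(S) THE SCENE AT ONE LEVEL** -/
theorem pvct_scene_of (hW : 𝔓.Wf) (hP : PvfhWf 𝔓) (hR : 0 < R) {m : ℕ}
    (hn : ∀ ts tt : τ, PvcbNum (pvlmDel c m) (𝔓.num.rho * pvlmH m) R (pvwRad 𝔓.num (pvlmH m) (𝔓.ty ts) (𝔓.ty ts).k) (pvwRad 𝔓.num (pvlmH m) (𝔓.ty tt) (𝔓.ty tt).k))
    (hr : ∀ u, 2 * pvwRad 𝔓.num (pvlmH m) (𝔓.ty u) 𝔓.num.K ≤ R / 12) : PvcbSceneAt 𝔓 x R m := by
  intro ω P s t 𝔇 j hyp a₁ u₁ a₂ u₂ d₁ d₂
  have A := hyp.arc
  have nn := hn s.typ t.typ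
  have I := pvcj_in hW (hP.doors m) hP.b_gap nn.dr (fun u => ((hn u u).rsR).trans (by linarith)) hR hyp.mesh hyp.far A
  have hδ := nn.d0
  have hμe : pvxvMu c m ≤ pvlmDel c m := I.mu
  have hμ0 : 0 ≤ pvxvMu c m := by unfold pvxvMu; positivity
  have hh := I.h0
  have hρh := I.rho_h
  have hdr := nn.dr
  have hrR := nn.rR
  obtain ⟨X, 𝔅, ξ, cy, Rl, 𝔇c, n, θ, u1, u2, w1, w2, -, Sf⟩ := pvxv_seam_of hW hP.b_b2 hR hr hyp.mesh hyp.rim hyp.s3R hyp.t3R hyp.far A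
  have S := Sf (pvxvMu c m) le_rfl (by linarith)
  have G : PlGeo (pvxT ω) (pvxPos ω) := pvaw_geo_del hyp.mesh.1
  have hT : (pvxT ω).IsSph := delb_plane_isSph hyp.mesh.1
  have As := A.at_s.st.inn
  have At : 𝔇.t.AtOut (pvxPos ω) 𝔓.num (pvlmH m) t.ctr (𝔓.ty t.typ) (pvxCol ω (𝔓.col s.typ)) := by rw [A.col_eq]; exact A.at_t.st.out
  have hg : 0 < 𝔇c.g.n := by rw [← S.dat.g.n_eq]; exact A.pos_n
  obtain ⟨𝔊s, hGs⟩ := A.gate2_s
  obtain ⟨𝔊t, hGt⟩ := A.gate2_t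
  rw [← A.col_eq] at hGt
  have ms2 : ∀ v ∈ 𝔇.g.verts, 2 * 𝔓.num.rho * pvlmH m < ‖pvxPos ω v - (𝔓.ty s.typ).cm (pvlmH m) s.ctr‖ := by
    rintro v ⟨i, hi, rfl⟩
    exact A.far_s i hi
  have mt2 : ∀ v ∈ 𝔇.g.verts, 2 * 𝔓.num.rho * pvlmH m < ‖pvxPos ω v - (𝔓.ty t.typ).cp (pvlmH m) t.ctr‖ := by
    rintro v ⟨i, hi, rfl⟩
    exact A.far_t i hi
  have hm : PvsnMesh (pvxT ω) (pvxPos ω) 𝔇 (pvxvMu c m) := I.mesh
  have rs := I.rad_s
  have rt := I.rad_t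
  have bs := I.bh_s
  have bt := I.bh_t
  have hS2 : pvxvS2 𝔓.num.rho m = 𝔓.num.rho * pvlmH m / 64 := rfl
  have ks := pvmu_cb_ks (δ := pvlmDel c m) (μe := pvxvMu c m) (S := pvxvS2 𝔓.num.rho m + pvlmDel c m) (a₁ := a₁) (u₁ := u₁) (a₂ := a₂) (u₂ := u₂) As At ms2 mt2 hm S.am_near S.ap_near
    d₁.unit d₁.base d₁.dom d₁.nd d₂.unit d₂.base d₂.dom d₂.nd hδ hμe hdr (by rw [hS2]; linarith) (by nlinarith) (by nlinarith) (by nlinarith) (by nlinarith) (pvct_sup I)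
  obtain ⟨ys1, ys2⟩ := I.ys
  obtain ⟨yt1, yt2⟩ := I.yt
  have hfar := I.far
  have g1 := hW.gap s.typ
  have g2 := hW.gap t.typ
  have rsR := nn.rsR
  have rtR := nn.rtR
  obtain ⟨Wt, Ws, lo, hi, l1, l2, l3, sc⟩ := S.scene G hT As At hg ks.hρ hGs hGt (pvct_bx2 hW hP m _ _) (pvct_bx2 hW hP m _ _) (μ' := pvlmDel c m) (ρK := 9 / 4 * R) hμe
    (pvmu_ht_not_mem ks.hns ks.hfs) ks.hfsy (pvmu_ht_not_mem ks.hnt ks.hft) ks.hfty ks.hr ks.hη (by rw [hS2]; linarith) ks.he ks.hRs ks.hRt ks.hc0 ks.hc ks.h1 ks.hsep ks.n1 ks.n2 ks.n3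
    (by rw [hS2]; nlinarith) (by rw [hS2]; nlinarith) ks.m1s ks.m1t ks.hMsK ks.hMsc ks.hMsb ks.hMtK ks.hMtc ks.hMtb ks.gs ks.gt (pvct_ball I) (by linarith) (by rw [hS2]; linarith)
    (by
      have c1 := pvcj_tri s.ctr ((𝔓.ty t.typ).cp (pvlmH m) t.ctr) t.ctr
      have c2 := norm_sub_rev s.ctr ((𝔓.ty t.typ).cp (pvlmH m) t.ctr)
      rw [hS2]; nlinarith)
    (by rw [hS2]; nlinarith)
    (by rw [hS2]; nlinarith)
    (by
      have c1 := pvcj_tri t.ctr ((𝔓.ty s.typ).cm (pvlmH m) s.ctr) s.ctr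
      have c2 := norm_sub_rev t.ctr ((𝔓.ty s.typ).cm (pvlmH m) s.ctr)
      have c3 := norm_sub_rev t.ctr s.ctr
      rw [hS2]; nlinarith)
  refine ⟨_, _, Wt, Ws, lo, _, _, hi, sc, ?_⟩
  exact pvck_seam_downK S l3 I.ball (by rw [hS2]; linarith) (by rw [hS2]; linarith)

/-- **(S) THE SCENE AT THE MODEL** = the statement of `exit_pvcb_scene` -/
theorem pvct_scene [Finite τ] (c0 : 0 < c) (hW : 𝔓.Wf) (hP : PvfhWf 𝔓) (hR : 0 < R) : ∀ᶠ m in atTop, PvcbSceneAt 𝔓 x R m := by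
  filter_upwards [pvcb_num c0 hW hP hR, pvxv_rad_small 𝔓 hR] with m h1 h2
  exact pvct_scene_of hW hP hR h1 h2

end model

end Claimed.Agent.R289
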