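-- KEEP
import Claimed.Agent.R289.Defs.TrModel
import Claimed.Agent.R289.Tr.StrandD
import Claimed.Agent.R289.Tr.Loc

/-!
# Row 289 (S0537), THE WALL, road E, file Tr/BuLift : THE BLACK BANK OF A STUB DOES NOT COME BACK TO THE RIM BEFORE THE CUT VERTEX      (owner helper28; leaf `PvkcPre.disj_b` of `Tr/BuCover`, 240; prefix `pvbnk_`)

* sec. 1  `pvbnk_core` (any sphere): a strand whose bank walk contains a dart of the rim `c`, starts at the vertex number `p` of `c` and ends at the vertex number `q ≤ p`, `0 < q`, `p < c.n`, visits the vertex number `0`.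
          Proof: bank walk ++ arc `q → p` of `c` is a closed walk of bank darts of one wall; saturation `pvt_s_sat_list`; the label class of a dart of `c` is `c` (`pvt_s_recog'`).
* sec. 2  colour blindness of `Tag`, `Wall` (`pvbnk_tag_beq`, `pvbnk_wall_beq`);   strands commute with the dictionary `DelbRel` of 219 (`pvbnk_step`, `pvbnk_it`)
* sec. 3  `pvbnk_bulk` : the same for a plane strand which stays in `K` and a rim of a completion;   `pvbnk_model` : at the model of record (`pvxT ω`, `P ∈ pvhbAll x R ω`)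
-/

set_option autoImplicit false

namespace Claimed.Agent.R289

open Set Relation Claims.C0465

/-! ## 1. the abstract statement -/

section core

variable {V D : Type} {T : PvMap V D} {s : V → Bool}

/-- a strand which runs along the rim `c` somewhere, from the vertex number `p` to a vertex number `q ≤ p`, goes round: it visits the cut vertex -/
theorem pvbnk_core (hT : T.IsSph) (hS : T.Simple) (c : T.Cyc) (hc : ∀ i, T.Tag s (T.opp (c.e i))) (hw : ∀ i, T.Wall s (T.opp (c.e 0)) (T.opp (c.e i)))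
    {a : D} (ha : pvasBW T s a) {N p q r : ℕ} (hq0 : 0 < q) (hqp : q ≤ p) (hp : p < c.n) (h0 : T.src a = T.src (c.e p)) (h1 : T.src (pvasIt T s a N) = T.src (c.e q))
    (hr : c.e r ∈ pvtBank T s a N) : T.src (c.e 0) ∈ pvasLayB T s a N := by
  classical
  have w1 := pvt_s_bank_walk (T := T) (s := s) a N
  rw [h1] at w1
  have w2 := pvt_s_cyc_walk c q (p - q)
  rw [Nat.add_sub_cancel' hqp, ← h0] at w2
  have hw' : pvtW T (pvtBank T s a N ++ (List.range' q (p - q)).map c.e) (T.src a) (T.src a) := pvt_s_w_append.2 ⟨_, w1, w2⟩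
  have hwr : T.Wall s a (T.opp (c.e r)) := (pvt_s_bank_bk ha hr).2
  have hb : ∀ f ∈ pvtBank T s a N ++ (List.range' q (p - q)).map c.e, pvtBk T s a f := by
    intro f hf
    rcases List.mem_append.1 hf with hf | hf
    · exact pvt_s_bank_bk ha hf
    · obtain ⟨t, -, rfl⟩ := List.mem_map.1 hf
      exact ⟨hc t, pl_ra_wall_trans hwr (pl_ra_wall_trans (pl_ra_wall_symm (hw r)) (hw t))⟩
  have h2 := pvt_s_sat_list hT hS hw' hb (List.mem_append_left _ hr) ((pvt_s_recog' hT c hc hw r _).2 ⟨0, rfl⟩)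
  rw [T.opp_opp] at h2
  rcases List.mem_append.1 h2 with h3 | h3
  · exact pvt_s_bank_src h3
  · exfalso
    obtain ⟨t, ht, he⟩ := List.mem_map.1 h3
    rw [List.mem_range'_1] at ht
    exact pvt_s_cyc_ne c (k := 0) (t := t) (by omega) (by omega) he

end core

/-! ## 2. colours, strands and the dictionary -/

section col

variable {V D : Type} {T : PvMap V D}

theorem pvbnk_beq_iff (b u v : Bool) : ((u == b) = (v == b)) ↔ u = v := by
  cases b <;> cases u <;> cases v <;> simp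

theorem pvbnk_tag_beq (s : V → Bool) (b : Bool) (d : D) : T.Tag (fun v => s v == b) d ↔ T.Tag s d := by
  unfold PvMap.Tag
  rw [pvbnk_beq_iff, Ne, pvbnk_beq_iff]

theorem pvbnk_occ_beq (s : V → Bool) (b : Bool) (d : D) : T.Occ (fun v => s v == b) d ↔ T.Occ s d := by
  unfold PvMap.Occ
  rw [Ne, pvbnk_beq_iff]

theorem pvbnk_wall_beq (s : V → Bool) (b : Bool) (d d' : D) : T.Wall (fun v => s v == b) d d' ↔ T.Wall s d d' := by
  unfold PvMap.Wall
  have : (fun a b' => T.SF a b' ∨ (T.Occ (fun v => s v == b) a ∧ b' = T.opp a)) = fun a b' => T.SF a b' ∨ (T.Occ s a ∧ b' = T.opp a) := by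
    funext a b'
    rw [pvbnk_occ_beq]
  rw [this]

end col

section dict

variable {X : Type} {𝔅 : PvBulk X} {Y K : Set ℂ} {h : DelGood Y}

theorem pvbnk_step (hOk : 𝔅.Ok Y K) {s : 𝔅.V Y → Bool} {σ : ℂ → Bool} (hs : DelbCol 𝔅 s σ) {d : 𝔅.D Y} {e : (delPl h).Dart} (h1 : DelbRel 𝔅 h d e) (hd : 𝔅.Emb Y d) :
    DelbRel 𝔅 h (pvasStep (𝔅.T Y) s d) (pvasStep (delPl h).toMap (fun v => σ v) e) := by
  have hc : s ((𝔅.T Y).apex d) = σ ((delPl h).toMap.apex e) := hs _ _ (delb_rel_apex hOk h1 hd)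
  unfold pvasStep
  rw [hc]
  split_ifs
  · exact delb_rel_opp (delb_rel_nxt hOk h1 hd)
  · exact delb_rel_opp (delb_rel_nxt2 hOk h1 hd)

theorem pvbnk_it (hOk : 𝔅.Ok Y K) {s : 𝔅.V Y → Bool} {σ : ℂ → Bool} (hs : DelbCol 𝔅 s σ) {d : 𝔅.D Y} {e : (delPl h).Dart} (h1 : DelbRel 𝔅 h d e) {n : ℕ}
    (hK : ∀ i, i < n → ((delPl h).toMap.src (pvasIt (delPl h).toMap (fun v => σ v) e i) : ℂ) ∈ K) :
    DelbRel 𝔅 h (pvasIt (𝔅.T Y) s d n) (pvasIt (delPl h).toMap (fun v => σ v) e n) := by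
  induction n with
  | zero => exact h1
  | succ n ih =>
    have h2 := ih (fun i hi => hK i (by omega))
    rw [pvas_it_succ, pvas_it_succ]
    exact pvbnk_step hOk hs h2 (delb_emb_of_src hOk h2.1 (hK n (by omega)))

end dict

/-! ## 3. plane strands against the rims of the completions -/

section bulk

variable {X : Type} {𝔅 : PvBulk X} {Y : Set ℂ} {h : DelGood Y}

/-- a plane strand which stays `< 4R` from `x`, runs along the rim `c` of a completion at the time `t`, starts at the vertex number `p`: it does not end at a vertex number `q ≤ p` -/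
theorem pvbnk_bulk {x : ℂ} {R : ℝ} (hR : 0 < R) (hOk : 𝔅.Ok Y (Metric.closedBall x (6 * R))) {s : 𝔅.V Y → Bool} {σ : ℂ → Bool} (hs : DelbCol 𝔅 s σ) (c : (𝔅.T Y).Cyc)
    (hc : ∀ i, (𝔅.T Y).Tag s ((𝔅.T Y).opp (c.e i))) (hw : ∀ i, (𝔅.T Y).Wall s ((𝔅.T Y).opp (c.e 0)) ((𝔅.T Y).opp (c.e i)))
    (hfar : 4 * R ≤ ‖𝔅.posF Y (x + 7 * R) ((𝔅.T Y).src (c.e 0)) - x‖)
    {a : (delPl h).Dart} (ha : pvasBW (delPl h).toMap (fun v => σ v) a) {N p q r t : ℕ}
    (hin : ∀ i, i ≤ N → ‖((delPl h).toMap.src (pvasIt (delPl h).toMap (fun v => σ v) a i) : ℂ) - x‖ < 4 * R)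
    (hqp : q ≤ p) (hp : p < c.n)
    (h0 : 𝔅.posF Y (x + 7 * R) ((𝔅.T Y).src (c.e p)) = (delPl h).toMap.src a)
    (h1 : 𝔅.posF Y (x + 7 * R) ((𝔅.T Y).src (c.e q)) = (delPl h).toMap.src (pvasIt (delPl h).toMap (fun v => σ v) a N))
    (ht : t < N) (hbk : σ ((delPl h).toMap.apex (pvasIt (delPl h).toMap (fun v => σ v) a t)) = true)
    (hr0 : 𝔅.posF Y (x + 7 * R) ((𝔅.T Y).src (c.e r)) = (delPl h).toMap.src (pvasIt (delPl h).toMap (fun v => σ v) a t))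
    (hr1 : 𝔅.posF Y (x + 7 * R) ((𝔅.T Y).src (c.e (r + 1))) = (delPl h).toMap.apex (pvasIt (delPl h).toMap (fun v => σ v) a t)) : False := by
  have hK : ∀ i, i ≤ N → ((delPl h).toMap.src (pvasIt (delPl h).toMap (fun v => σ v) a i) : ℂ) ∈ Metric.closedBall x (6 * R) := fun i hi => by
    rw [mem_closedBall_iff_norm]; linarith [hin i hi]
  -- a vertex of `c` placed at a near site has this site as its name
  have hlab : ∀ (k : ℕ) (z : ℂ), 𝔅.posF Y (x + 7 * R) ((𝔅.T Y).src (c.e k)) = z → ‖z - x‖ < 4 * R → 𝔅.lab Y ((𝔅.T Y).src (c.e k)) = Sum.inl z := by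
    intro k z hz hn
    have := pvlo_lab_of_near 𝔅 hR (x := x) (v := (𝔅.T Y).src (c.e k)) (by rw [hz]; linarith)
    rwa [hz] at this
  -- the twin of the strand
  obtain ⟨d, hd, -⟩ := delb_rel_of_star hOk (e := a) (Or.inl (hK 0 (Nat.zero_le _)))
  have hit : ∀ i, i ≤ N → DelbRel 𝔅 h (pvasIt (𝔅.T Y) s d i) (pvasIt (delPl h).toMap (fun v => σ v) a i) := fun i hi =>
    pvbnk_it hOk hs hd (fun k hk => hK k (by omega))
  have hdbw : pvasBW (𝔅.T Y) s d := ⟨by rw [hs _ _ hd.1]; exact ha.1, by rw [hs _ _ hd.2]; exact ha.2⟩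
  have e0 : (𝔅.T Y).src d = (𝔅.T Y).src (c.e p) := hOk.inj (hd.1.trans (hlab p _ h0 (hin 0 (Nat.zero_le _))).symm)
  have e1 : (𝔅.T Y).src (pvasIt (𝔅.T Y) s d N) = (𝔅.T Y).src (c.e q) := hOk.inj ((hit N le_rfl).1.trans (hlab q _ h1 (hin N le_rfl)).symm)
  have hq0 : 0 < q := by
    rcases Nat.eq_zero_or_pos q with rfl | hq
    · rw [h1] at hfar
      linarith [hin N le_rfl]
    · exact hq
  -- the bank dart
  have hEt : 𝔅.Emb Y (pvasIt (𝔅.T Y) s d t) := delb_emb_of_src hOk (hit t ht.le).1 (hK t ht.le)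
  have hax := delb_rel_apex hOk (hit t ht.le) hEt
  have hbk' : s ((𝔅.T Y).apex (pvasIt (𝔅.T Y) s d t)) = true := by rw [hs _ _ hax]; exact hbk
  have hnear : ‖((delPl h).toMap.apex (pvasIt (delPl h).toMap (fun v => σ v) a t) : ℂ) - x‖ < 4 * R := by
    have h2 := hin (t + 1) ht
    rw [pvas_it_succ] at h2
    rcases pvas_step_ends (T := (delPl h).toMap) (fun v => σ v) (pvasIt (delPl h).toMap (fun v => σ v) a t) with ⟨-, e, -⟩ | ⟨e, -, -⟩
    · rwa [e] at h2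
    · rw [hbk] at e
      exact absurd e (by decide)
  have her : c.e r = (𝔅.T Y).rot (pvasIt (𝔅.T Y) s d t) := by
    refine delb_dart_ext hOk ?_ ?_
    · rw [PvMap.src_rot, hlab r _ hr0 (hin t ht.le)]
      exact (hit t ht.le).1.symm
    · rw [PvMap.tgt_rot, c.chain, hlab (r + 1) _ hr1 hnear]
      exact hax.symm
  have hmem : c.e r ∈ pvtBank (𝔅.T Y) s d N := pvt_s_bank_mem.2 ⟨t, ht, hbk', her⟩
  obtain ⟨i, hi, hi'⟩ := pvbnk_core hOk.sph hOk.simple c hc hw hdbw hq0 hqp hp e0 e1 hmem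
  have h3 : 𝔅.posF Y (x + 7 * R) ((𝔅.T Y).src (c.e 0)) = (delPl h).toMap.src (pvasIt (delPl h).toMap (fun v => σ v) a i) := by
    rw [← hi']
    exact pvlo_posF_inl 𝔅 (hit i hi).1
  rw [h3] at hfar
  linarith [hin i hi]

end bulk

/-! ## 4. at the model of record -/

section model

variable {x : ℂ} {R : ℝ} {ω : PVSample} {P : PvbRim}

/-- **the black bank of a strand of the plane against an encoded rim of any completion** -/
theorem pvbnk_model (hR : 0 < R) (hY : DelGood (pvxY ω)) (hP : P ∈ pvhbAll x R ω) (b : Bool) :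
    ∀ (a : (delbPl (pvxY ω)).Dart), pvasBW (pvxT ω) (pvxCol ω b) a → ∀ (N p q r t : ℕ),
      (∀ i, i ≤ N → ‖pvxPos ω ((pvxT ω).src (pvasIt (pvxT ω) (pvxCol ω b) a i)) - x‖ < 4 * R) → q ≤ p → p < P.len →
      P.v p = pvxPos ω ((pvxT ω).src a) → P.v q = pvxPos ω ((pvxT ω).src (pvasIt (pvxT ω) (pvxCol ω b) a N)) → t < N →
      pvxCol ω b ((pvxT ω).apex (pvasIt (pvxT ω) (pvxCol ω b) a t)) = true →
      P.v r = pvxPos ω ((pvxT ω).src (pvasIt (pvxT ω) (pvxCol ω b) a t)) → P.v (r + 1) = pvxPos ω ((pvxT ω).apex (pvasIt (pvxT ω) (pvxCol ω b) a t)) → False := by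
  obtain ⟨X, _, 𝔅, ξ, -, hOk, c, hc, hfar, rfl⟩ := l9a_mem (show P ∈ l9All x R ω from hP)
  unfold pvxT pvxPos
  rw [delb_pl_eq hY]
  intro a ha N p q r t hin hqp hp h0 h1 ht hbk hr0 hr1
  have hs : DelbCol 𝔅 (fun v => 𝔅.col (pvConf ω) ξ v == b) (fun z => cfCol (pvConf ω) z == b) := fun v z hv => by
    show (𝔅.col (pvConf ω) ξ v == b) = (cfCol (pvConf ω) z == b)
    rw [delb_col 𝔅 (pvConf ω) ξ v z hv]
  exact pvbnk_bulk (h := hY) hR hOk hs c (fun i => (pvbnk_tag_beq _ b _).2 (pl_rim_tag hc i)) (fun i => (pvbnk_wall_beq _ b _ _).2 (pl_rim_lab hc i).2.2.1) hfar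
    ha hin hqp hp h0 h1 ht hbk hr0 hr1

end model

/-! ## 5. the two stubs of a pin -/

section back

variable {V D : Type} {T : PvMap V D} {s : V → Bool}

theorem pvbnk_back_bw {d : D} (h : pvasBW T s d) (n : ℕ) : pvasBW T s ((pvasBack T s)^[n] d) := by
  induction n with
  | zero => exact h
  | succ n ih => rw [Function.iterate_succ_apply']; exact pvas_back_bw ih

/-- forwards along a strand explored backwards -/
theorem pvbnk_it_back {d : D} (h : pvasBW T s d) {i k : ℕ} (hk : k ≤ i) : pvasIt T s ((pvasBack T s)^[i] d) k = (pvasBack T s)^[i - k] d := by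
  induction k with
  | zero => rfl
  | succ k ih =>
    rw [pvas_it_succ, ih (by omega), show i - k = (i - (k + 1)) + 1 by omega, Function.iterate_succ_apply', pvas_step_back (pvbnk_back_bw h _)]

end back

section stubs

variable {x : ℂ} {R : ℝ} {ω : PVSample} {P : PvbRim} {b : Bool} {𝔖 : PvwSt (pvxT ω)} {hh : ℝ} {z : ℂ} {τ : PvwTy} {B : Set ℂ}

/-- what the inner strand of a gate gives: its length, a bank time on the first dart of the inner arc, the positions -/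
theorem pvbnk_gate (hG : 𝔖.Gate (pvxPos ω) hh z τ (pvxCol ω b)) :
    ∃ n t, pvasIt (pvxT ω) (pvxCol ω b) 𝔖.dm n = 𝔖.dp ∧ t < n ∧ pvxCol ω b ((pvxT ω).apex (pvasIt (pvxT ω) (pvxCol ω b) 𝔖.dm t)) = true ∧
      𝔖.inn.v 0 = (pvxT ω).src 𝔖.dm ∧ 𝔖.inn.v 𝔖.inn.n = (pvxT ω).src 𝔖.dp ∧ 0 < 𝔖.inn.n ∧
      𝔖.inn.v 0 = (pvxT ω).src (pvasIt (pvxT ω) (pvxCol ω b) 𝔖.dm t) ∧ 𝔖.inn.v 1 = (pvxT ω).apex (pvasIt (pvxT ω) (pvxCol ω b) 𝔖.dm t) ∧
      ∀ i, i ≤ n → ‖pvxPos ω ((pvxT ω).src (pvasIt (pvxT ω) (pvxCol ω b) 𝔖.dm i)) - z‖ < τ.b * hh := by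
  obtain ⟨n, hn, hL, hLE⟩ := hG.strand
  have hS : (pvxT ω).Simple := (delbPl (pvxY ω)).toMap_simple
  have v0 := pvt_sd_v0 hLE
  have vn := pvt_sd_vn hLE
  rw [hn] at vn
  have hpos : 0 < 𝔖.inn.n := by
    rcases Nat.eq_zero_or_pos 𝔖.inn.n with h0 | h0
    · exfalso
      rw [h0, v0] at vn
      exact hG.ne vn.symm
    · exact h0
  obtain ⟨t, ht, hbk, het⟩ := pvt_sd_time hS hLE hpos
  refine ⟨n, t, hn, ht, hbk, v0, vn, hpos, ?_, ?_, ?_⟩
  · rw [← 𝔖.inn.src_e 0 hpos, het, PvMap.src_rot]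
  · rw [← 𝔖.inn.tgt_e 0 hpos, het, PvMap.tgt_rot]
  · intro i hi
    rcases Nat.lt_or_ge i n with hlt | hge
    · exact hG.inside _ ⟨_, hL i hlt, rfl⟩
    · rw [le_antisymm hi hge, hn]
      obtain ⟨q, hq⟩ := hG.dp_on
      refine (hG.ann _ ⟨q + 1, ?_⟩).2
      rw [← 𝔖.S.chain q, hq, PvMap.tgt_opp]

/-- **EXIT STUB**: its black bank misses the vertices of the rim up to `g⁻` -/
theorem pvbnk_exit (hR : 0 < R) (hY : DelGood (pvxY ω)) (hP : P ∈ pvhbAll x R ω) (hG : 𝔖.Gate (pvxPos ω) hh z τ (pvxCol ω b)) (hSt : 𝔖.StubP (pvxPos ω) B (pvxCol ω b))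
    (hGin : ∀ w : ℂ, ‖w - z‖ < τ.b * hh → ‖w - x‖ < 4 * R) (hB : ∀ w ∈ B, ‖w - x‖ < 4 * R) {j : ℕ} (hle : j + 𝔖.inn.n < P.len)
    (hrun : ∀ i, i ≤ 𝔖.inn.n → P.v (j + i) = pvxPos ω (𝔖.inn.v i)) {k : ℕ} (hk : k ≤ j) {v : ↥(pvxY ω)} (hv : P.v k = pvxPos ω v) : v ∉ 𝔖.bkP := by
  rintro ⟨i, hi, rfl⟩
  obtain ⟨n, t, hn, ht, hbk, v0, -, hpos, w0, w1, hin⟩ := pvbnk_gate hG
  have hadd : ∀ i', pvasIt (pvxT ω) (pvxCol ω b) 𝔖.dm (n + i') = pvasIt (pvxT ω) (pvxCol ω b) 𝔖.dp i' := fun i' => by rw [pvas_it_add, hn]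
  refine pvbnk_model hR hY hP b 𝔖.dm hG.bw_m (n + i) j k j t ?_ hk (by omega) ?_ ?_ (by omega) hbk ?_ ?_
  · intro i' hi'
    rcases Nat.lt_or_ge i' n with hlt | hge
    · exact hGin _ (hin i' hlt.le)
    · obtain ⟨i'', rfl⟩ := Nat.exists_eq_add_of_le hge
      rw [hadd, ← hSt.ep_it i'' (by omega)]
      exact hB _ (hSt.ep_in i'' (by omega)).1
  · rw [← v0]; exact hrun 0 (Nat.zero_le _)
  · rw [hadd, ← hSt.ep_it i hi]; exact hv
  · rw [← w0]; exact hrun 0 (Nat.zero_le _)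
  · rw [← w1]; exact hrun 1 hpos

/-- **ENTRANCE STUB**: its black bank misses the vertices of the rim from `g⁺` on -/
theorem pvbnk_entr (hR : 0 < R) (hY : DelGood (pvxY ω)) (hP : P ∈ pvhbAll x R ω) (hG : 𝔖.Gate (pvxPos ω) hh z τ (pvxCol ω b)) (hSt : 𝔖.StubM (pvxPos ω) B (pvxCol ω b))
    (hGin : ∀ w : ℂ, ‖w - z‖ < τ.b * hh → ‖w - x‖ < 4 * R) (hB : ∀ w ∈ B, ‖w - x‖ < 4 * R) {j : ℕ}
    (hrun : ∀ i, i ≤ 𝔖.inn.n → P.v (j + i) = pvxPos ω (𝔖.inn.v i)) {k : ℕ} (hk : j + 𝔖.inn.n ≤ k) (hkl : k < P.len) {v : ↥(pvxY ω)} (hv : P.v k = pvxPos ω v) : v ∉ 𝔖.bkM := by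
  rintro ⟨i, hi, rfl⟩
  obtain ⟨n, t, hn, ht, hbk, -, vn, hpos, w0, w1, hin⟩ := pvbnk_gate hG
  have hem := hSt.em_it i hi
  have hfw : ∀ i', i' ≤ i → pvasIt (pvxT ω) (pvxCol ω b) (𝔖.em i) i' = 𝔖.em (i - i') := fun i' hi' => by
    rw [hem, pvbnk_it_back hG.bw_m hi', ← hSt.em_it (i - i') (by omega)]
  have h0 : 𝔖.em 0 = 𝔖.dm := hSt.em_it 0 (Nat.zero_le _)
  have hadd : ∀ i', pvasIt (pvxT ω) (pvxCol ω b) (𝔖.em i) (i + i') = pvasIt (pvxT ω) (pvxCol ω b) 𝔖.dm i' := fun i' => by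
    rw [pvas_it_add, hfw i le_rfl, Nat.sub_self, h0]
  refine pvbnk_model hR hY hP b (𝔖.em i) (by rw [hem]; exact pvbnk_back_bw hG.bw_m i) (i + n) k (j + 𝔖.inn.n) j (i + t) ?_ hk hkl hv ?_ (by omega) ?_ ?_ ?_
  · intro i' hi'
    rcases Nat.lt_or_ge i' i with hlt | hge
    · rw [hfw i' hlt.le]
      exact hB _ (hSt.em_in _ (by omega)).1
    · obtain ⟨i'', rfl⟩ := Nat.exists_eq_add_of_le hge
      rw [hadd]
      exact hGin _ (hin i'' (by omega))
  · rw [hadd, hn, ← vn]; exact hrun _ le_rfl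
  · rw [hadd]; exact hbk
  · rw [hadd, ← w0]; exact hrun 0 (Nat.zero_le _)
  · rw [hadd, ← w1]; exact hrun 1 hpos

/-- a square of half side `r` lies in the ball of radius `2 r` -/
theorem pvbnk_sq {z w : ℂ} {r : ℝ} (h : w ∈ pvwSq z r) : ‖w - z‖ ≤ 2 * r := by
  have := Complex.norm_le_abs_re_add_abs_im (w - z)
  linarith [h.1, h.2]

end stubs

end Claimed.Agent.R289
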