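-- KEEP
import Claimed.Agent.R289.Defs.TrModel
import Claimed.Agent.R289.Defs.FitRec
import Claimed.Agent.R289.Tr.Dict
import Claimed.Agent.R289.Tr.BuLift

/-!
# Row 289 (S0537), THE WALL, road E, file Tr/BuCover : THE ROOF `cover`, BOTTOM-UP, AT THE MODEL OF RECORD      (owner helper240, second rope of 143 209 62; prefix `pvkc_`, `Pvkc`)

v4 (11:50Z, on `Tr/Defs` v3 + `Defs/TrModel` v4 + `Defs/FitRec`: mouths `2 ρ h` at the grid centres; **`pvkc_arcAt`** = (L1) verbatim).   THE PEN OF (K3) IS 209 (`Tr/FitE.lean`, `pvfh_main`).      This file PRODUCES his leaf (L1) `pvfh_arc` = DICT-ARC: `Tr/FitE` imports this file and cites **`pvkc_arc`**.      (The twin of his glue, v1 sec. 6, is deleted.)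
WHY ENCODED.   At the model of record (`Defs/TrModel.lean`, 187) the rim `P ∈ pvhbAll x R ω` is the ENCODED rim of a COMPLETION of the sample: there is NO plane cycle, only the windows of `P` inside `closedBall x (6R)` are paths of the plane map (`pvdc_all_win`, 195 278).

* sec. 1  `PvkcPre` = (PRE) in encoded form: the actual datum of an (A1) pair of pins, pattern free.
* sec. 2  **`pvkc_pre`** : two pins of `pvxPins`, (A1), `b h ≤ R/12`  ⟹  `∃ 𝔇 j, PvkcPre`.      [from `Tr/Dict` sec. 10 + the tags of `pvlo_all`]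
* sec. 3  consequences of (PRE): ends of `g₀`, `g₀` misses the two mouths, the whole arc in `5R/2`.
* sec. 4  (STR) at the model: `pvkc_gate_sep`, `pvkc_core_trap`, `PvkcPre.out` (the rim meets the closed inside of a gate only along the inner arc), `PvkcPre.disj_w` (white banks), `PvkcPre.disj_b` (black banks: strand calculus in the completion).
* sec. 5  `pvkc_hull` (the hulls are finite, within `pvxBnd`).
* sec. 6  **`pvkc_arc`** = all the fields of `PvfhArc` (209), for `m` large.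
-/

set_option autoImplicit false

namespace Claimed.Agent.R289

open Set Claims.C0465

section pre

variable {τ : Type} {c : ℝ}

/-! ## 1. (PRE), encoded -/

/-- **(PRE) IN ENCODED FORM**: `𝔇` is the actual datum of the pair `s → t` of pins of the encoded rim `P`; `j` = the place of `g⁻(s)` on `P`.      Pattern free. -/
structure PvkcPre (𝔓 : PvxPar τ c) (x : ℂ) (R : ℝ) (m : ℕ) (ω : PVSample) (P : PvbRim) (s t : PvbPin τ) (𝔇 : PvwDat (pvxT ω)) (j : ℕ) : Prop where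
  col : 𝔇.col = pvxCol ω (𝔓.col s.typ)
  /-- the two pins have the colour of the rim -/
  cc : 𝔓.col s.typ = 𝔓.col t.typ
  at_s : PvxAt 𝔓 m ω s.ctr s.typ 𝔇.s
  at_t : PvxAt 𝔓 m ω t.ctr t.typ 𝔇.t
  pin_s : PvxPinOf 𝔇.s 𝔓.num (pvlmH m) ((𝔓.ty s.typ).cp (pvlmH m) s.ctr) ((𝔓.ty s.typ).cm (pvlmH m) s.ctr) (𝔓.box m s.ctr s.typ) P j
  arc : ∀ i, i ≤ 𝔇.g.n → P.v (j + 𝔇.s.inn.n + i) = pvxPos ω (𝔇.g.v i)
  pin_t : PvxPinOf 𝔇.t 𝔓.num (pvlmH m) ((𝔓.ty t.typ).cp (pvlmH m) t.ctr) ((𝔓.ty t.typ).cm (pvlmH m) t.ctr) (𝔓.box m t.ctr t.typ) P (j + 𝔇.s.inn.n + 𝔇.g.n)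
  idx_s : s.idx = j + 𝔇.s.ip
  idx_t : t.idx = j + 𝔇.s.inn.n + 𝔇.g.n + 𝔇.t.ip
  pos_n : 0 < 𝔇.g.n
  /-- `g₀` is a piece of the arc `s.idx → t.idx` -/
  g_in : ∀ i, i ≤ 𝔇.g.n → ‖pvxPos ω (𝔇.g.v i) - x‖ ≤ 2 * R
  near_s : ‖s.ctr - x‖ ≤ 2 * R + pvlmH m
  near_t : ‖t.ctr - x‖ ≤ 2 * R + pvlmH m
  grid_s : ∃ p : ℤ × ℤ, s.ctr = l9Pt (pvlmH m) p
  grid_t : ∃ p : ℤ × ℤ, t.ctr = l9Pt (pvlmH m) p
  black : ∀ v ∈ 𝔇.g.verts, pvxCol ω (𝔓.col s.typ) v = true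
  white : ∀ v ∈ 𝔇.apx, pvxCol ω (𝔓.col s.typ) v = false

/-! ## 2. the datum of a pair of pins -/

/-- `pvlo_all` (278) in the names of the model of record, with the TAGS (the third vertices of the right triangles have the other colour) -/
theorem pvkc_all_win {x : ℂ} {R : ℝ} {ω : PVSample} {P : PvbRim} (hR : 0 < R) (hY : DelGood (pvxY ω)) (hP : P ∈ pvhbAll x R ω) {i m : ℕ} (hm0 : 0 < m) (hm : m < P.len)
    (hin : ∀ k, k ≤ m → ‖P.v (i + k) - x‖ ≤ 6 * R) :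
    ∃ g : (pvxT ω).Pth, g.n = m ∧ (∀ k, k ≤ m → pvxPos ω (g.v k) = P.v (i + k)) ∧
      (∀ k, k ≤ m → cfCol (pvConf ω) (g.v k).1 = cfCol (pvConf ω) (P.v i)) ∧
      ∀ k, k < m → (pvxT ω).Tag (fun v => cfCol (pvConf ω) v.1) ((pvxT ω).opp (g.e k)) := by
  obtain ⟨g, -, -, h1, h2, -, -, -, -, -, -, h3, h4, -, -⟩ := pvlo_all hR hY hP hm0 hm hin
  unfold pvxT pvxPos
  rw [delb_pl_eq hY]
  exact ⟨g, h1, h2, fun k hk => h3 k (by rw [h1]; exact hk), h4⟩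

/-- **(PRE) HOLDS**: an (A1) pair of pins of an encoded rim of any completion has its actual datum -/
theorem pvkc_pre (𝔓 : PvxPar τ c) {x : ℂ} {R : ℝ} (hR : 0 < R) {m : ℕ} {ω : PVSample} {P : PvbRim} (hP : P ∈ pvhbAll x R ω) {s t : PvbPin τ}
    (hs : s ∈ pvxPins 𝔓 x R m ω P) (ht : t ∈ pvxPins 𝔓 x R m ω P) (hlt : s.idx < t.idx)
    (hin : ∀ k, s.idx ≤ k → k ≤ t.idx → ‖P.v k - x‖ ≤ 2 * R) (far : R / 3 ≤ ‖s.ctr - t.ctr‖)
    (hb : ∀ u, (𝔓.ty u).b * pvlmH m ≤ R / 12) :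
    ∃ (𝔇 : PvwDat (pvxT ω)) (j : ℕ), PvkcPre 𝔓 x R m ω P s t 𝔇 j := by
  obtain ⟨-, hsg, 𝔖s, js, As, Ps, is, -⟩ := hs
  obtain ⟨-, htg, 𝔖t, jt, At, Pt, it, -⟩ := ht
  have hY := As.good
  have hT : (pvxT ω).IsSph := delb_plane_isSph hY
  have Gs := As.st.out.gate
  have Gt := At.st.out.gate
  obtain ⟨s0, s1, sc⟩ := pvdc_inn_facts hT 𝔖s Gs
  obtain ⟨t0, t1, tc⟩ := pvdc_inn_facts hT 𝔖t Gt
  -- the inner arcs stay near the centres
  have ns : ∀ i, i ≤ 𝔖s.inn.n → ‖P.v (js + i) - s.ctr‖ ≤ R / 12 := fun i hi => by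
    rw [Ps.run i hi]; exact (Gs.inside _ (sc i hi)).le.trans (hb _)
  have nt : ∀ i, i ≤ 𝔖t.inn.n → ‖P.v (jt + i) - t.ctr‖ ≤ R / 12 := fun i hi => by
    rw [Pt.run i hi]; exact (Gt.inside _ (tc i hi)).le.trans (hb _)
  have hdis : ∀ i i', i ≤ 𝔖s.inn.n → i' ≤ 𝔖t.inn.n → js + i ≠ jt + i' := by
    intro i i' hi hi' e
    have h1 := ns i hi
    have h2 := nt i' hi'
    rw [← e] at h2
    have h3 : ‖s.ctr - t.ctr‖ ≤ ‖P.v (js + i) - s.ctr‖ + ‖P.v (js + i) - t.ctr‖ := by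
      calc ‖s.ctr - t.ctr‖ = ‖(P.v (js + i) - t.ctr) - (P.v (js + i) - s.ctr)‖ := by ring_nf
        _ ≤ ‖P.v (js + i) - t.ctr‖ + ‖P.v (js + i) - s.ctr‖ := norm_sub_le _ _
        _ = _ := add_comm _ _
    linarith
  have hips := Gs.ip_le
  have hipt := Gt.ip_le
  have hord : js + 𝔖s.inn.n < jt := by
    by_contra hcon
    rcases Nat.lt_or_ge jt js with h1 | h1
    · exact hdis 0 (js - jt) (Nat.zero_le _) (by omega) (by omega)
    · exact hdis (jt - js) 0 (by omega) (Nat.zero_le _) (by omega)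
  have hwin2 : ∀ k, k ≤ jt - (js + 𝔖s.inn.n) → ‖P.v (js + 𝔖s.inn.n + k) - x‖ ≤ 2 * R := fun k hk => hin _ (by omega) (by omega)
  obtain ⟨g, g1, g2, g3, g4⟩ := pvkc_all_win hR hY hP (i := js + 𝔖s.inn.n) (m := jt - (js + 𝔖s.inn.n)) (by omega) (by have := Pt.le; omega)
    (fun k hk => by linarith [hwin2 k hk])
  have hjt : js + 𝔖s.inn.n + g.n = jt := by omega
  -- colours
  have cs : cfCol (pvConf ω) (P.v (js + 𝔖s.inn.n)) = 𝔓.col s.typ := by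
    have h1 : pvxCol ω (𝔓.col s.typ) 𝔖s.gp = true := Gs.bw_p.1
    rw [Ps.run _ le_rfl, s1]
    exact beq_iff_eq.1 h1
  have ct : cfCol (pvConf ω) (P.v jt) = 𝔓.col t.typ := by
    have h1 : pvxCol ω (𝔓.col t.typ) 𝔖t.gm = true := Gt.bw_m.1
    have h2 := Pt.run 0 (Nat.zero_le _)
    rw [Nat.add_zero, t0] at h2
    rw [h2]
    exact beq_iff_eq.1 h1
  have cc : 𝔓.col s.typ = 𝔓.col t.typ := by
    rw [← cs, ← ct]
    refine pvdc_all_col hR hP ?_ ?_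
    · have := hwin2 0 (Nat.zero_le _); rw [Nat.add_zero] at this; linarith
    · have := hwin2 (jt - (js + 𝔖s.inn.n)) le_rfl
      rw [Nat.add_sub_cancel' hord.le] at this; linarith
  have tri : ∀ (z : ℂ) (k : ℕ), ‖P.v k - z‖ ≤ pvlmH m → ‖P.v k - x‖ ≤ 2 * R → ‖z - x‖ ≤ 2 * R + pvlmH m := by
    intro z k h1 h2
    calc ‖z - x‖ = ‖(P.v k - x) - (P.v k - z)‖ := by ring_nf
      _ ≤ ‖P.v k - x‖ + ‖P.v k - z‖ := norm_sub_le _ _
      _ ≤ 2 * R + pvlmH m := add_le_add h2 h1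
  refine ⟨⟨𝔖s, 𝔖t, g, pvxCol ω (𝔓.col s.typ)⟩, js, ⟨rfl, cc, As, At, Ps, fun i hi => (g2 i (by rw [← g1]; exact hi)).symm, ?_, is, ?_, by show 0 < g.n; omega, ?_, ?_, ?_, hsg, htg, ?_, ?_⟩⟩
  · show PvxPinOf 𝔖t _ _ _ _ _ P (js + 𝔖s.inn.n + g.n)
    rw [hjt]; exact Pt
  · show t.idx = js + 𝔖s.inn.n + g.n + 𝔖t.ip
    rw [hjt]; exact it
  · intro i hi
    show ‖pvxPos ω (g.v i) - x‖ ≤ 2 * R
    rw [g2 i (by rw [← g1]; exact hi)]
    exact hwin2 i (by rw [← g1]; exact hi)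
  · refine tri _ s.idx ?_ (hin _ le_rfl hlt.le)
    rw [is, Ps.run _ hips]; exact Gs.ip_near
  · refine tri _ t.idx ?_ (hin _ hlt.le le_rfl)
    rw [it, Pt.run _ hipt]; exact Gt.ip_near
  · rintro v ⟨i, hi, rfl⟩
    show (cfCol (pvConf ω) (g.v i).1 == 𝔓.col s.typ) = true
    rw [g3 i (by rw [← g1]; exact hi), cs]
    exact beq_self_eq_true _
  · rintro v ⟨i, hi, rfl⟩
    have hi' : i < jt - (js + 𝔖s.inn.n) := by rw [← g1]; exact hi
    have h1 := (g4 i hi').2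
    rw [(pvxT ω).src_opp', g.tgt_e i hi] at h1
    have h2 : cfCol (pvConf ω) ((pvxT ω).apex ((pvxT ω).opp (g.e i))).1 ≠ cfCol (pvConf ω) (g.v (i + 1)).1 := h1
    rw [g3 (i + 1) (by omega), cs] at h2
    show (cfCol (pvConf ω) ((pvxT ω).apex ((pvxT ω).opp (g.e i))).1 == 𝔓.col s.typ) = false
    exact beq_eq_false_iff_ne.2 h2

/-! ## 3. consequences of (PRE) -/

variable {𝔓 : PvxPar τ c} {x : ℂ} {R : ℝ} {m : ℕ} {ω : PVSample} {P : PvbRim} {s t : PvbPin τ} {𝔇 : PvwDat (pvxT ω)} {j : ℕ}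

/-- `g₀` starts at `g⁺(s)` -/
theorem PvkcPre.g0 (pre : PvkcPre 𝔓 x R m ω P s t 𝔇 j) : 𝔇.g.v 0 = 𝔇.s.gp := by
  have h1 := pre.arc 0 (Nat.zero_le _)
  have h2 := pre.pin_s.run 𝔇.s.inn.n le_rfl
  rw [Nat.add_zero] at h1
  have h3 : 𝔇.g.v 0 = 𝔇.s.inn.v 𝔇.s.inn.n := Subtype.ext (h1.symm.trans h2)
  obtain ⟨n, hn, -, jj, -, hj, hk, -⟩ := pre.at_s.st.out.gate.strand
  have h4 := (hk 𝔇.s.inn.n le_rfl).2.1
  rw [h3, h4, hj]
  show (pvxT ω).src (pvasIt (pvxT ω) _ 𝔇.s.dm n) = (pvxT ω).src 𝔇.s.dp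
  rw [hn]

/-- `g₀` ends at `g⁻(t)` -/
theorem PvkcPre.g1 (pre : PvkcPre 𝔓 x R m ω P s t 𝔇 j) : 𝔇.g.v 𝔇.g.n = 𝔇.t.gm := by
  have h1 := pre.arc 𝔇.g.n le_rfl
  have h2 := pre.pin_t.run 0 (Nat.zero_le _)
  rw [Nat.add_zero] at h2
  have h3 : 𝔇.g.v 𝔇.g.n = 𝔇.t.inn.v 0 := Subtype.ext (h1.symm.trans h2)
  obtain ⟨n, -, -, jj, h0, -, -, -⟩ := pre.at_t.st.out.gate.strand
  rw [h3, h0]
  rfl

/-- `g₀` avoids the mouth of `x⁺(t)` -/
theorem PvkcPre.mouth_t (pre : PvkcPre 𝔓 x R m ω P s t 𝔇 j) : ∀ v ∈ 𝔇.g.verts, 2 * 𝔓.num.rho * pvlmH m < ‖pvxPos ω v - (𝔓.ty t.typ).cp (pvlmH m) t.ctr‖ := by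
  rintro v ⟨i, hi, rfl⟩
  obtain ⟨B, -, -, hB⟩ := pre.pin_t.mouth_p
  have h1 := pre.arc i hi
  have h2 := pre.pin_t.le
  rw [← h1]
  exact hB _ (by omega) (Or.inl (by omega))

/-- `g₀` avoids the mouth of `x⁻(s)` -/
theorem PvkcPre.mouth_s (pre : PvkcPre 𝔓 x R m ω P s t 𝔇 j) : ∀ v ∈ 𝔇.g.verts, 2 * 𝔓.num.rho * pvlmH m < ‖pvxPos ω v - (𝔓.ty s.typ).cm (pvlmH m) s.ctr‖ := by
  rintro v ⟨i, hi, rfl⟩
  obtain ⟨A, -, -, hA⟩ := pre.pin_s.mouth_m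
  have h1 := pre.arc i hi
  have h2 := pre.pin_t.le
  rw [← h1]
  exact hA _ (by omega) (Or.inr (by omega))

/-- the whole arc `g⁻(s) → g⁺(t)` stays in `closedBall x (5R/2)` -/
theorem PvkcPre.conf (pre : PvkcPre 𝔓 x R m ω P s t 𝔇 j) (hb : ∀ u, (𝔓.ty u).b * pvlmH m ≤ R / 12) (hh : pvlmH m ≤ R / 12) :
    ∀ k, j ≤ k → k ≤ j + 𝔇.s.inn.n + 𝔇.g.n + 𝔇.t.inn.n → ‖P.v k - x‖ ≤ 5 / 2 * R := by
  have key : ∀ (𝔖 : PvwSt (pvxT ω)) (z : ℂ) (u : τ) (σ : ↥(pvxY ω) → Bool), 𝔖.Gate (pvxPos ω) (pvlmH m) z (𝔓.ty u) σ → ‖z - x‖ ≤ 2 * R + pvlmH m →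
      ∀ i, i ≤ 𝔖.inn.n → ‖pvxPos ω (𝔖.inn.v i) - x‖ ≤ 5 / 2 * R := by
    intro 𝔖 z u σ hG hz i hi
    have h1 : ‖pvxPos ω (𝔖.inn.v i) - z‖ ≤ (𝔓.ty u).b * pvlmH m := by
      obtain ⟨n, hn, hL, jj, -, hj, hk, -⟩ := hG.strand
      obtain ⟨hle, hv, -⟩ := hk i hi
      rw [hv]
      rcases Nat.lt_or_ge (jj i) n with hlt | hge
      · exact (hG.inside _ ⟨_, hL _ hlt, rfl⟩).le
      · have e : jj i = n := le_antisymm hle hge
        rw [e]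
        show ‖pvxPos ω ((pvxT ω).src (pvasIt (pvxT ω) σ 𝔖.dm n)) - z‖ ≤ _
        rw [hn]
        obtain ⟨q, hq⟩ := hG.dp_on
        refine (hG.ann _ ⟨q + 1, ?_⟩).2.le
        rw [← 𝔖.S.chain q, hq]
        unfold PvMap.tgt
        rw [← (pvxT ω).src_opp, (pvxT ω).opp_opp]
    have h2 : pvxPos ω (𝔖.inn.v i) - x = (pvxPos ω (𝔖.inn.v i) - z) + (z - x) := by ring
    have h3 := norm_add_le (pvxPos ω (𝔖.inn.v i) - z) (z - x)
    rw [h2]
    have h4 := hb u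
    have h5 := norm_nonneg (pvxPos ω (𝔖.inn.v i) - z)
    linarith
  intro k hk1 hk2
  rcases Nat.lt_or_ge k (j + 𝔇.s.inn.n) with h1 | h1
  · obtain ⟨i, rfl⟩ := Nat.exists_eq_add_of_le hk1
    rw [pre.pin_s.run i (by omega)]
    exact key _ _ _ _ pre.at_s.st.out.gate pre.near_s i (by omega)
  · rcases Nat.lt_or_ge k (j + 𝔇.s.inn.n + 𝔇.g.n) with h2 | h2
    · obtain ⟨i, rfl⟩ := Nat.exists_eq_add_of_le h1
      rw [pre.arc i (by omega)]
      have h3 := pre.g_in i (by omega)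
      have h4 : 0 ≤ R := by
        have := norm_nonneg (pvxPos ω (𝔇.g.v i) - x)
        linarith
      linarith
    · obtain ⟨i, rfl⟩ := Nat.exists_eq_add_of_le h2
      rw [pre.pin_t.run i (by omega)]
      exact key _ _ _ _ pre.at_t.st.out.gate pre.near_t i (by omega)

end pre

/-! ## 4. (STR) at the model -/

section trap

variable {V D : Type} {T : PvMap V D}

/-- a black path which starts in the closed inside of a gate and ends off it visits `g⁺` or `g⁻`      (`pvdc_gate_sep` of 195 for ANY starting point of the core) -/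
theorem pvkc_gate_sep (hT : T.IsSph) (𝔖 : PvwSt T) {pos : V → ℂ} {h : ℝ} {z : ℂ} {τ : PvwTy} {s : V → Bool} (hG : 𝔖.Gate pos h z τ s) (p : T.Pth)
    (hb : ∀ i, i ≤ p.n → s (p.v i) = true) (h0 : p.v 0 ∈ 𝔖.ins) (h1 : p.v p.n ∉ 𝔖.ins) : ∃ i, i ≤ p.n ∧ (p.v i = 𝔖.gp ∨ p.v i = 𝔖.gm) := by
  by_contra hno
  have hno' : ∀ i, i ≤ p.n → p.v i ≠ 𝔖.gp ∧ p.v i ≠ 𝔖.gm := fun i hi => ⟨fun h => hno ⟨i, hi, Or.inl h⟩, fun h => hno ⟨i, hi, Or.inr h⟩⟩
  have hint : ∀ i, i ≤ p.n → p.v i ∈ T.Int 𝔖.S.Left := by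
    intro i
    induction i with
    | zero =>
      intro _
      have h0' : p.v 0 ∈ 𝔖.S.verts ∪ T.Int 𝔖.S.Left := by
        rw [← pl_VOf_left hT]; exact h0
      rcases h0' with hv | hv
      · rcases hG.two _ hv (hb 0 (Nat.zero_le _)) with h | h
        · exact absurd h (hno' 0 (Nat.zero_le _)).1
        · exact absurd h (hno' 0 (Nat.zero_le _)).2
      · exact hv
    | succ i ih =>
      intro hi
      refine pl_int_adj hT (pl_left_face 𝔖.S) (ih (by omega)) ⟨p.e i, p.src_e i (by omega), p.tgt_e i (by omega)⟩ ?_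
      intro d hd hB
      have hv : p.v (i + 1) ∈ 𝔖.S.verts := by
        rw [← hd]
        exact pl_cyc_edg_src 𝔖.S (pl_left_bd_sub 𝔖.S hB)
      rcases hG.two _ hv (hb _ hi) with h | h
      · exact (hno' _ hi).1 h
      · exact (hno' _ hi).2 h
  refine h1 ?_
  show p.v p.n ∈ T.VOf 𝔖.S.Left
  rw [pl_VOf_left hT]
  exact Or.inr (hint p.n le_rfl)

/-- **CORE TRAP, encoded form**: a rim (of any completion) which runs through the gate from `g⁻` (place `j`) to `g⁺` (place `j + n`) and is cut beyond the gate meets the CLOSED INSIDE of the gate only between these two places -/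
theorem pvkc_core_trap (hT : T.IsSph) (𝔖 : PvwSt T) {pos : V → ℂ} (hpos : Function.Injective pos) {h : ℝ} {z : ℂ} {τ : PvwTy} {s : V → Bool} (hG : 𝔖.Gate pos h z τ s) {x : ℂ} {ρ μ : ℝ} {P : PvbRim}
    (hW : PvdcWindow T pos s x ρ P) (hinj : ∀ i i', i < P.len → i' < P.len → P.v i = P.v i' → ‖P.v i - x‖ ≤ ρ → i = i')
    (hcl : P.v P.len = P.v 0) (hfar : τ.b * h < ‖P.v 0 - z‖) (hμ : 0 ≤ μ) (hball : ∀ w, ‖w - z‖ ≤ τ.b * h + μ → ‖w - x‖ ≤ ρ)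
    (hmesh : ∀ k, k < P.len → (‖P.v k - z‖ ≤ τ.b * h ∨ ‖P.v (k + 1) - z‖ ≤ τ.b * h) → ‖P.v (k + 1) - P.v k‖ ≤ μ)
    {j n : ℕ} (hj : j + n < P.len) (hrun0 : P.v j = pos 𝔖.gm) (hrun1 : P.v (j + n) = pos 𝔖.gp)
    {k : ℕ} (hk : k < P.len) {v : V} (hv : pos v = P.v k) (hc : v ∈ 𝔖.ins) : j ≤ k ∧ k ≤ j + n := by
  have hgm := hG.ann _ (pvdc_gm_mem 𝔖 hG.dm_on)
  have hgp := hG.ann _ (pvdc_gp_mem 𝔖 hG.dp_on)
  have hkb : ¬ τ.b * h < ‖P.v k - z‖ := by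
    rw [← hv]; exact not_lt.2 (hG.inside _ hc).le
  -- an index whose vertex is `g⁺` or `g⁻`
  have hidx : ∀ i, i < P.len → ∀ v : V, pos v = P.v i → (v = 𝔖.gp ∨ v = 𝔖.gm) → i = j + n ∨ i = j := by
    intro i hi v hv hvg
    rcases hvg with rfl | rfl
    · left
      refine hinj i (j + n) hi hj (by rw [← hv, hrun1]) (hball _ ?_)
      rw [← hv]; linarith [hgp.2]
    · right
      refine hinj i j hi (by omega) (by rw [← hv, hrun0]) (hball _ ?_)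
      rw [← hv]; linarith [hgm.2]
  constructor
  · -- backwards to the cut vertex
    by_contra hcon
    have hkj : k < j := by omega
    obtain ⟨t, -, t2, t3, t4⟩ := pvb_last (p := fun i => τ.b * h < ‖P.v i - z‖) (Nat.zero_le k) hfar
    have htk : t < k := by
      rcases Nat.lt_or_ge t k with h1 | h1
      · exact h1
      · have : t = k := le_antisymm t2 h1
        rw [this] at t3
        exact absurd t3 hkb
    have hin : ∀ i, t < i → i ≤ k → ‖P.v i - z‖ ≤ τ.b * h := fun i h1 h2 => not_lt.1 (t4 i h1 h2)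
    have hwin : ∀ i, i ≤ k - t → ‖P.v (t + i) - x‖ ≤ ρ := by
      intro i hi
      rcases Nat.eq_zero_or_pos i with rfl | hpos
      · have h1 := hin (t + 1) (by omega) (by omega)
        have h2 := hmesh t (by omega) (Or.inr h1)
        refine hball _ ?_
        calc ‖P.v (t + 0) - z‖ = ‖(P.v (t + 1) - z) - (P.v (t + 1) - P.v t)‖ := by rw [Nat.add_zero]; ring_nf
          _ ≤ ‖P.v (t + 1) - z‖ + ‖P.v (t + 1) - P.v t‖ := norm_sub_le _ _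
          _ ≤ τ.b * h + μ := add_le_add h1 h2
      · exact hball _ (by linarith [hin (t + i) (by omega) (by omega)])
    obtain ⟨g, g1, g2, g3⟩ := hW t (k - t) (by omega) (by omega) hwin
    have r0 : g.rev.v 0 ∈ 𝔖.ins := by
      have e : g.rev.v 0 = v := by
        apply hpos
        show pos (g.v (g.n - 0)) = pos v
        rw [Nat.sub_zero, g1, g2 _ le_rfl, Nat.add_sub_cancel' htk.le, hv]
      rw [e]; exact hc
    have r1 : g.rev.v g.rev.n ∉ 𝔖.ins := by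
      show g.v (g.n - g.n) ∉ 𝔖.ins
      rw [Nat.sub_self]
      intro hc
      have := hG.inside _ hc
      rw [g2 0 (Nat.zero_le _), Nat.add_zero] at this
      exact absurd t3 (not_lt.2 this.le)
    obtain ⟨i, hi, hv'⟩ := pvkc_gate_sep hT 𝔖 hG g.rev (fun i _ => g3 _ (by rw [g1]; omega)) r0 r1
    have hi' : i ≤ k - t := by rw [← g1]; exact hi
    have e : pos (g.rev.v i) = P.v (t + (k - t - i)) := by
      show pos (g.v (g.n - i)) = _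
      rw [g1, g2 _ (Nat.sub_le _ _)]
    rcases hidx _ (by omega) _ e hv' with h1 | h1 <;> omega
  · -- forwards to the cut vertex
    by_contra hcon
    have hkj : j + n < k := by omega
    have hfar' : τ.b * h < ‖P.v P.len - z‖ := by rw [hcl]; exact hfar
    obtain ⟨t, t1, t2, t3, t4⟩ := pvb_first (p := fun i => τ.b * h < ‖P.v i - z‖) hk.le hfar'
    have htk : k < t := by
      rcases Nat.lt_or_ge k t with h1 | h1
      · exact h1
      · have : t = k := le_antisymm h1 t1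
        rw [this] at t3
        exact absurd t3 hkb
    have hin : ∀ i, k ≤ i → i < t → ‖P.v i - z‖ ≤ τ.b * h := fun i h1 h2 => not_lt.1 (t4 i h1 h2)
    have hwin : ∀ i, i ≤ t - k → ‖P.v (k + i) - x‖ ≤ ρ := by
      intro i hi
      rcases Nat.lt_or_ge i (t - k) with hlt | hge
      · exact hball _ (by linarith [hin (k + i) (by omega) (by omega)])
      · have hi' : k + i = (t - 1) + 1 := by omega
        have h1 := hin (t - 1) (by omega) (by omega)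
        have h2 := hmesh (t - 1) (by omega) (Or.inl h1)
        refine hball _ ?_
        rw [hi']
        calc ‖P.v (t - 1 + 1) - z‖ = ‖(P.v (t - 1) - z) + (P.v (t - 1 + 1) - P.v (t - 1))‖ := by ring_nf
          _ ≤ ‖P.v (t - 1) - z‖ + ‖P.v (t - 1 + 1) - P.v (t - 1)‖ := norm_add_le _ _
          _ ≤ τ.b * h + μ := add_le_add h1 h2
    obtain ⟨g, g1, g2, g3⟩ := hW k (t - k) (by omega) (by omega) hwin
    have r0 : g.v 0 ∈ 𝔖.ins := by
      have e : g.v 0 = v := by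
        apply hpos
        rw [g2 0 (Nat.zero_le _), Nat.add_zero, hv]
      rw [e]; exact hc
    have r1 : g.v g.n ∉ 𝔖.ins := by
      intro hc
      have := hG.inside _ hc
      rw [g1, g2 _ le_rfl, Nat.add_sub_cancel' htk.le] at this
      exact absurd t3 (not_lt.2 this.le)
    obtain ⟨i, hi, hv'⟩ := pvkc_gate_sep hT 𝔖 hG g (fun i hi => g3 i (by rw [← g1]; exact hi)) r0 r1
    have hi' : i ≤ t - k := by rw [← g1]; exact hi
    have e : pos (g.v i) = P.v (k + i) := g2 i hi'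
    have hlt : k + i < t := by
      by_contra hge
      have h1 : k + i = t := by omega
      rw [h1] at e
      have h2 : ‖pos (g.v i) - z‖ ≤ τ.b * h := by
        rcases hv' with h | h <;> rw [h]
        · exact hgp.2.le
        · exact hgm.2.le
      rw [e] at h2
      exact absurd t3 (not_lt.2 h2)
    rcases hidx _ (by omega) _ e hv' with h1 | h1 <;> omega

end trap

section str

variable {τ : Type} {c : ℝ} {𝔓 : PvxPar τ c} {x : ℂ} {R : ℝ} {m : ℕ} {ω : PVSample} {P : PvbRim} {s t : PvbPin τ} {𝔇 : PvwDat (pvxT ω)} {j : ℕ}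

/-- **(STR.out)** `g₀` runs outside the two gates -/
theorem PvkcPre.out (pre : PvkcPre 𝔓 x R m ω P s t 𝔇 j) (hR : 0 < R) (hP : P ∈ pvhbAll x R ω) {μ : ℝ} (hμ0 : 0 ≤ μ) (hμ : μ ≤ R)
    (hF : L9Fine (pvxY ω) (Metric.closedBall x (6 * R)) μ) (hb : ∀ u, (𝔓.ty u).b * pvlmH m + μ < R) (hh : pvlmH m ≤ R) :
    ∀ v ∈ 𝔇.g.inner, v ∉ 𝔇.s.ins ∧ v ∉ 𝔇.t.ins := by
  have hY := pre.at_s.good
  have hT : (pvxT ω).IsSph := delb_plane_isSph hY
  have hpos : Function.Injective (pvxPos ω) := fun u v e => Subtype.ext e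
  obtain ⟨hcl, hfar, hmv, -⟩ := pvdc_all_mesh hR hμ hF hP
  have Gs := pre.at_s.st.out.gate
  have Gt : 𝔇.t.Gate (pvxPos ω) (pvlmH m) t.ctr (𝔓.ty t.typ) (pvxCol ω (𝔓.col s.typ)) := by
    rw [pre.cc]; exact pre.at_t.st.out.gate
  obtain ⟨s0, s1, -⟩ := pvdc_inn_facts hT 𝔇.s Gs
  obtain ⟨t0, t1, -⟩ := pvdc_inn_facts hT 𝔇.t Gt
  have a0 := pre.arc 0 (Nat.zero_le _)
  rw [Nat.add_zero] at a0
  have hW : PvdcWindow (pvxT ω) (pvxPos ω) (pvxCol ω (𝔓.col s.typ)) x (6 * R) P := by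
    refine pvdc_all_window hR hY hP (i₀ := j + 𝔇.s.inn.n) ?_ ?_
    · rw [a0]; linarith [pre.g_in 0 (Nat.zero_le _)]
    · rw [a0]
      exact beq_iff_eq.1 (pre.black _ ⟨0, Nat.zero_le _, rfl⟩)
  have hinj : ∀ i i', i < P.len → i' < P.len → P.v i = P.v i' → ‖P.v i - x‖ ≤ 6 * R → i = i' := fun i i' hi hi' he h1 => pvdc_all_inj hR hP hi hi' he h1
  have key : ∀ (z : ℂ) (u : τ) (𝔖 : PvwSt (pvxT ω)) (j' : ℕ), ‖z - x‖ ≤ 2 * R + pvlmH m → 𝔖.Gate (pvxPos ω) (pvlmH m) z (𝔓.ty u) (pvxCol ω (𝔓.col s.typ)) → j' + 𝔖.inn.n < P.len →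
      P.v j' = pvxPos ω 𝔖.gm → P.v (j' + 𝔖.inn.n) = pvxPos ω 𝔖.gp → ∀ k, k < P.len → ∀ v, pvxPos ω v = P.v k → v ∈ 𝔖.ins → j' ≤ k ∧ k ≤ j' + 𝔖.inn.n := by
    intro z u 𝔖 j' hz hG hj' r0 r1 k hk v hv hc
    have tri : ∀ w : ℂ, ‖w - x‖ ≤ ‖w - z‖ + 3 * R := by
      intro w
      calc ‖w - x‖ = ‖(w - z) + (z - x)‖ := by ring_nf
        _ ≤ ‖w - z‖ + ‖z - x‖ := norm_add_le _ _
        _ ≤ ‖w - z‖ + 3 * R := by linarith
    have hbu := hb u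
    exact pvkc_core_trap hT 𝔖 hpos hG hW hinj hcl (by linarith [tri (P.v 0)]) hμ0 (fun w hw => by linarith [tri w])
      (fun k hk hor => hmv k hk (hor.imp (fun h1 => by linarith [tri (P.v k)]) fun h1 => by linarith [tri (P.v (k + 1))])) hj' r0 r1 hk hv hc
  rintro v ⟨i, hi0, hin, rfl⟩
  have hlen := pre.pin_t.le
  have hv := (pre.arc i hin.le).symm
  constructor
  · intro hc
    have := key s.ctr s.typ 𝔇.s j pre.near_s Gs pre.pin_s.le (by have := pre.pin_s.run 0 (Nat.zero_le _); rw [Nat.add_zero, s0] at this; exact this)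
      (by have := pre.pin_s.run _ le_rfl; rw [s1] at this; exact this) (j + 𝔇.s.inn.n + i) (by omega) _ hv hc
    omega
  · intro hc
    have := key t.ctr t.typ 𝔇.t (j + 𝔇.s.inn.n + 𝔇.g.n) pre.near_t Gt pre.pin_t.le (by have := pre.pin_t.run 0 (Nat.zero_le _); rw [Nat.add_zero, t0] at this; exact this)
      (by have := pre.pin_t.run _ le_rfl; rw [t1] at this; exact this) (j + 𝔇.s.inn.n + i) (by omega) _ hv hc
    omega

/-- **(STR.disj), white banks**: colours -/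
theorem PvkcPre.disj_w (pre : PvkcPre 𝔓 x R m ω P s t 𝔇 j) : ∀ v ∈ 𝔇.g.verts, v ∉ 𝔇.t.whP ∧ v ∉ 𝔇.s.whM := by
  intro v hv
  have hb := pre.black v hv
  constructor
  · rintro ⟨i, hi, rfl⟩
    have h1 := pre.at_t.st.out.stub.ep_it i hi
    have h2 := (pvas_it_bw pre.at_t.st.out.gate.bw_p i).2
    rw [← h1, ← pre.cc, hb] at h2
    exact Bool.false_ne_true h2.symm
  · rintro ⟨i, hi, rfl⟩
    have h1 := pre.at_s.st.inn.stub.em_it i hi
    have h3 : ∀ n : ℕ, pvasBW (pvxT ω) (pvxCol ω (𝔓.col s.typ)) ((pvasBack (pvxT ω) (pvxCol ω (𝔓.col s.typ)))^[n] 𝔇.s.dm) := by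
      intro n
      induction n with
      | zero => exact pre.at_s.st.inn.gate.bw_m
      | succ n ih => rw [Function.iterate_succ_apply']; exact pvas_back_bw ih
    have h2 := (h3 i).2
    rw [← h1, hb] at h2
    exact Bool.false_ne_true h2.symm

/-- **(STR.disj), black banks**      [LEAF, FREE: strand calculus].
PLAN.   `P = 𝔅.enc .. c`, `c` a rim of the completion `𝔅.T` (`l9a_mem`).   (i) the stub `Σ⁺(t)` lives in `B_k(t) ⊆ closedBall x (6R)`: its positions transfer to the completion (`Arm/LocIso` 219, `Tr/Local` 22);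
(ii) an edge of `inn(t)` is a bank dart of the inner strand (`pvt_sd_bk`) and a dart of `c` (`run`): the strand of the gate is the strand of the label of `c`;   (iii) SC1 (`pvt_s_arc`, `pvt_sd_rim`, `pvt_sd_last`): after the time of `g⁺(t)` the black bank
visits the vertices of `c` in the order of `c`; it comes back to a vertex number `< j_t` only after the cut vertex `P.v 0`, which is `4R` away from `x`, outside the box.      Same for `Σ⁻(s)` backwards. -/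
theorem PvkcPre.disj_b (pre : PvkcPre 𝔓 x R m ω P s t 𝔇 j) (hR : 0 < R) (hP : P ∈ pvhbAll x R ω) (hb : ∀ u, (𝔓.ty u).b * pvlmH m ≤ R) (hh : pvlmH m ≤ R)
    (hbox : ∀ u, 2 * pvwRad 𝔓.num (pvlmH m) (𝔓.ty u) (𝔓.ty u).k < R) :
    ∀ v ∈ 𝔇.g.verts, v ∉ 𝔇.t.bkP ∧ v ∉ 𝔇.s.bkM := by
  have hY := pre.at_s.good
  have tri : ∀ (z w : ℂ) (r : ℝ), ‖z - x‖ ≤ 2 * R + pvlmH m → ‖w - z‖ < r → r ≤ R → ‖w - x‖ < 4 * R := by
    intro z w r hz hw hr
    have h1 : ‖w - x‖ ≤ ‖w - z‖ + ‖z - x‖ := by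
      calc ‖w - x‖ = ‖(w - z) + (z - x)‖ := by ring_nf
        _ ≤ _ := norm_add_le _ _
    linarith
  have sq : ∀ (z w : ℂ) (u : τ), ‖z - x‖ ≤ 2 * R + pvlmH m → w ∈ pvwSq z (pvwRad 𝔓.num (pvlmH m) (𝔓.ty u) (𝔓.ty u).k) → ‖w - x‖ < 4 * R :=
    fun z w u hz hw => tri z w R hz (lt_of_le_of_lt (pvbnk_sq hw) (hbox u)) le_rfl
  rintro v ⟨i, hi, rfl⟩
  have hlen := pre.pin_t.le
  exact ⟨pvbnk_exit hR hY hP pre.at_t.st.out.gate pre.at_t.st.out.stub (fun w hw => tri _ w _ pre.near_t hw (hb _)) (fun w hw => sq _ w _ pre.near_t hw) pre.pin_t.le pre.pin_t.run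
      (k := j + 𝔇.s.inn.n + i) (by omega) (pre.arc i hi),
    pvbnk_entr hR hY hP pre.at_s.st.inn.gate pre.at_s.st.inn.stub (fun w hw => tri _ w _ pre.near_s hw (hb _)) (fun w hw => sq _ w _ pre.near_s hw) pre.pin_s.run
      (k := j + 𝔇.s.inn.n + i) (by omega) (by omega) (pre.arc i hi)⟩

end str

/-! ## 5. the hulls -/

/-- the cells which meet a subset of `closedBall x (6R)` form a `Finset` within the bound of record -/
theorem pvkc_hull (c : ℝ) (x : ℂ) {R : ℝ} (m : ℕ) {S : Set ℂ} (hS : ∀ w ∈ S, ‖w - x‖ ≤ 6 * R) :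
    ∃ Z : Finset (ℤ × ℤ), (Z : Set (ℤ × ℤ)) = pvtCells (pvlmDel c m) S ∧ ∀ q ∈ Z, q.1.natAbs ≤ pvxBnd c x R m ∧ q.2.natAbs ≤ pvxBnd c x R m := by
  classical
  have hδ : 0 < pvlmDel c m := pvlm_Del_pos c m
  have aux : ∀ (a : ℤ) (t : ℝ), |t| ≤ ‖x‖ + 6 * R → (a : ℝ) * pvlmDel c m ≤ t → t ≤ ((a : ℝ) + 1) * pvlmDel c m → a.natAbs ≤ pvxBnd c x R m := by
    intro a t ht h1 h2
    have hc : (‖x‖ + 6 * R) / pvlmDel c m ≤ (⌈(‖x‖ + 6 * R) / pvlmDel c m⌉₊ : ℝ) := Nat.le_ceil _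
    have h3 : (a : ℝ) ≤ (‖x‖ + 6 * R) / pvlmDel c m := by
      rw [le_div_iff₀ hδ]
      exact h1.trans ((le_abs_self t).trans ht)
    have h4 : -((‖x‖ + 6 * R) / pvlmDel c m) ≤ (a : ℝ) + 1 := by
      rw [← neg_div, div_le_iff₀ hδ]
      exact (neg_le_neg ht).trans ((neg_abs_le t).trans h2)
    have h5 : |(a : ℝ)| ≤ ((pvxBnd c x R m : ℕ) : ℝ) := by
      unfold pvxBnd
      rw [abs_le]
      push_cast
      constructor <;> linarith
    have h6 : ((a.natAbs : ℕ) : ℝ) = |(a : ℝ)| := by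
      rw [← Int.cast_abs, Int.abs_eq_natAbs]
      simp
    rw [← h6] at h5
    exact_mod_cast h5
  have key : ∀ q ∈ pvtCells (pvlmDel c m) S, q.1.natAbs ≤ pvxBnd c x R m ∧ q.2.natAbs ≤ pvxBnd c x R m := by
    rintro q ⟨p, hp, hpS⟩
    have h1 : ‖p‖ ≤ ‖x‖ + 6 * R := by
      have h0 := hS p hpS
      calc ‖p‖ = ‖(p - x) + x‖ := by rw [sub_add_cancel]
        _ ≤ ‖p - x‖ + ‖x‖ := norm_add_le _ _
        _ ≤ _ := by linarith
    exact ⟨aux q.1 p.re ((Complex.abs_re_le_norm p).trans h1) hp.1 hp.2.1, aux q.2 p.im ((Complex.abs_im_le_norm p).trans h1) hp.2.2.1 hp.2.2.2⟩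
  have hfin : (pvtCells (pvlmDel c m) S).Finite := by
    refine (Finset.Icc (-(pvxBnd c x R m : ℤ)) (pvxBnd c x R m) ×ˢ Finset.Icc (-(pvxBnd c x R m : ℤ)) (pvxBnd c x R m)).finite_toSet.subset ?_
    intro q hq
    obtain ⟨h1, h2⟩ := key q hq
    simp only [Finset.coe_product, Finset.coe_Icc, Set.mem_prod, Set.mem_Icc]
    omega
  exact ⟨hfin.toFinset, hfin.coe_toFinset, fun q hq => key q (hfin.mem_toFinset.1 hq)⟩

/-! ## 6. (L1) of `Tr/FitE` -/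

section arc

open Filter

/-- eventually `C h_m < ε` -/
theorem pvkc_small (C : ℝ) {ε : ℝ} (hε : 0 < ε) : ∀ᶠ m in atTop, C * pvlmH m < ε := by
  have h : Tendsto (fun m => C * pvlmH m) atTop (nhds (C * 0)) := pvlm_H_lim.const_mul C
  rw [mul_zero] at h
  exact h.eventually (gt_mem_nhds hε)

/-- **(L1) DICT-ARC**: all the fields of the record `PvfhArc` of 209 -/
theorem pvkc_arc {τ : Type} [Finite τ] {c : ℝ} (c0 : 0 < c) (𝔓 : PvxPar τ c) {x : ℂ} {R : ℝ} (hR : 0 < R) :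
    ∀ᶠ m in atTop, ∀ ω : PVSample, L9Fine (pvxY ω) (Metric.closedBall x (6 * R)) (pvlmDel c m / 10) → ∀ P ∈ pvhbAll x R ω, ∀ s ∈ pvxPins 𝔓 x R m ω P, ∀ t ∈ pvxPins 𝔓 x R m ω P, s.idx < t.idx →
      (∀ k, s.idx ≤ k → k ≤ t.idx → ‖P.v k - x‖ ≤ 2 * R) → R / 3 ≤ ‖s.ctr - t.ctr‖ → ∃ (𝔇 : PvwDat (pvxT ω)) (j : ℕ), PvkcPre 𝔓 x R m ω P s t 𝔇 j ∧
        (∀ v ∈ 𝔇.g.inner, v ∉ 𝔇.s.ins ∧ v ∉ 𝔇.t.ins) ∧ (∀ v ∈ 𝔇.g.verts, v ∉ 𝔇.t.bkP ∧ v ∉ 𝔇.t.whP ∧ v ∉ 𝔇.s.bkM ∧ v ∉ 𝔇.s.whM) ∧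
        (∃ 𝔖₂ : PvwSt (pvxT ω), 𝔖₂.Gate (pvxPos ω) (pvlmH m) s.ctr (𝔓.ty2 s.typ) (pvxCol ω (𝔓.col s.typ))) ∧
        ∃ 𝔖₂ : PvwSt (pvxT ω), 𝔖₂.Gate (pvxPos ω) (pvlmH m) t.ctr (𝔓.ty2 t.typ) (pvxCol ω (𝔓.col t.typ)) := by
  have e1 : ∀ᶠ m in atTop, ∀ u, (𝔓.ty u).b * pvlmH m < R / 12 := eventually_all.2 fun u => pvkc_small _ (by positivity)
  have e2 : ∀ᶠ m in atTop, ∀ u, (2 * (2 * (𝔓.ty u).b2 + 𝔓.num.K * 𝔓.num.rho1)) * pvlmH m < R / 2 := eventually_all.2 fun u => pvkc_small _ (by positivity)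
  have e3 : ∀ᶠ m in atTop, 1 * pvlmH m < R / 12 := pvkc_small _ (by positivity)
  have e4 : ∀ᶠ m in atTop, ∀ u, (2 * (2 * (𝔓.ty u).b2 + (𝔓.ty u).k * 𝔓.num.rho1)) * pvlmH m < R := eventually_all.2 fun u => pvkc_small _ hR
  filter_upwards [e1, e2, e3, e4] with m h1 h2 h3 h4 ω hF P hP s hs t ht hst h2R hfar
  rw [one_mul] at h3
  have hd0 := pvlm_Del_pos c m
  have hdh := pvlm_Del_le_H c0 m
  obtain ⟨𝔇, j, pre⟩ := pvkc_pre 𝔓 hR hP hs ht hst h2R hfar (fun u => (h1 u).le)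
  have hμ0 : 0 ≤ pvlmDel c m / 10 := by positivity
  have hμ : pvlmDel c m / 10 ≤ R := by linarith
  have o := pre.out hR hP hμ0 hμ hF (fun u => by linarith [h1 u]) (by linarith)
  have dw := pre.disj_w
  have db := pre.disj_b hR hP (fun u => by linarith [h1 u]) (by linarith) (fun u => by
    have := h4 u
    unfold pvwRad
    linarith)
  obtain ⟨-, -, -, -, -, -, -, g2s⟩ := hs
  obtain ⟨-, -, -, -, -, -, -, g2t⟩ := ht
  exact ⟨𝔇, j, pre, o, fun v hv => ⟨(db v hv).1, (dw v hv).1, (db v hv).2, (dw v hv).2⟩, g2s, g2t⟩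

/-- a finer mesh is a mesh -/
theorem pvkc_fine_mono {Y K : Set ℂ} {μ μ' : ℝ} (h : L9Fine Y K μ) (hμ : μ ≤ μ') : L9Fine Y K μ' := fun a b c hT hK => by
  obtain ⟨h1, h2, h3⟩ := h a b c hT hK
  exact ⟨h1.trans hμ, h2.trans hμ, h3.trans hμ⟩

/-- **(L1) DICT-ARC, THE STATEMENT OF RECORD** (`Defs/FitRec.lean`, 209): `Tr/FitE` cites this line for `pvfh_arc` -/
theorem pvkc_arcAt {τ : Type} [Finite τ] {c : ℝ} (c0 : 0 < c) (𝔓 : PvxPar τ c) (x : ℂ) {R : ℝ} (hR : 0 < R) : ∀ᶠ m in atTop, PvfhArcAt 𝔓 x R m := by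
  filter_upwards [pvkc_arc c0 𝔓 (x := x) hR] with m hm ω hG P hP s hs t ht hst h2R hfar
  have hd0 := pvlm_Del_pos c m
  obtain ⟨𝔇, j, pre, o, d, g2s, g2t⟩ := hm ω (pvkc_fine_mono hG.2 (by unfold pvxvMu; linarith)) P hP s hs t ht hst h2R hfar
  exact ⟨𝔇, j, ⟨pre.at_s, pre.at_t, pre.cc, pre.col, pre.pin_s, pre.pin_t, pre.idx_s, pre.idx_t, pre.arc, pre.pos_n, pre.g_in, pre.black, pre.white, o,
    pre.at_s.tip_m, pre.at_t.tip_p, fun i hi => pre.mouth_s _ ⟨i, hi, rfl⟩, fun i hi => pre.mouth_t _ ⟨i, hi, rfl⟩, d, g2s, g2t⟩⟩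

end arc

end Claimed.Agent.R289
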