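-- KEEP
import Claimed.Agent.R289.Defs.TrModel
import Claimed.Agent.R289.Defs.Three
import Claimed.Agent.R289.Defs.FitReg
import Claimed.Agent.R289.Defs.FitRec
import Claimed.Agent.R289.Exit.CorL2
import Claimed.Agent.R289.Tr.Loc
import Claimed.Agent.R289.Tr.StKit
import Claimed.Agent.R289.Tr.BuCover

/-!
# Row 289 (S0537), THE WALL, Tr/FitE : THE DETERMINISTIC FIT AT THE REAL MAP = (K3) OF THE ROOF `cover`      (helper209; prefix `pvfh_`, `Pvfh`; posts of 187, 243, 143)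

**v2 (11:30Z): on `Tr/Defs` v3; records and statements of the leaves moved to `Defs/FitRec.lean` (a leaf file imports `Defs/FitRec`, NOT this file);  radii of record `r_I = ρ h / 2`, `r_O = ρ h`, `r_A = 2 ρ h`, centres `PvwTy.cp cm`;
regions `pvfeRegAt`, doors `PvfeDoors`, index predicates `PvfeIx` (`Defs/FitReg` sec. 5);  events of 143: `PvxvGood x R (pvxvMu c m)`, `PvxvBad x R (pvxvS1 c m) (pvxvS2 ρ m)`.**
TEXT OF RECORD: `origin/helper208:notes/R289/W1_208_v3.md` D14 D15 D20, E19-E23;  FIT-DET = `origin/helper118:notes/R289/W1_118.md` Part V.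
WHAT.   **`pvfh_main`** : for `m` large, on the good samples, off the event THREE PASSAGES, EVERY pair of pins `s < t` of EVERY encoded rim `P ∈ pvhbAll x R ω` as in `PvxCover` fits a pattern `π ∈ pvxPatSet`, and `π` satisfies the index
predicates `PvfeIx`.      DETERMINISTIC: no probability in this file.
THE CUT (glue `pvfh_main` compiled over the leaves):
* (L1) `pvfh_arc : ∀ᶠ m, PvfhArcAt 𝔓 x R m`      DICT-ARC := `pvkc_arc` of 240 (`Tr/BuCover`) + 28 (`Tr/BuLift`)      OPEN (citation, after TrModel v4)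
* (L2) `pvfh_cor : ∀ᶠ m, PvfhCorAt 𝔓 x R m`      COR = FIT-DET at the model: pen 246 / 56 (`Tr/FitL2`), 270 (`Tr/CorE`), 211 49 20 257 266      OPEN
* (L3) `pvfh_ok` (297)   (L3b) `pvfh_core_off`   (L4) `pvfh_actual`   (L5) `pvfh_hull`   (L6) `pvfh_len`   (L7) `pvfh_fz_5R` (135)      PROVED
-/

set_option autoImplicit false

namespace Claimed.Agent.R289

open Set Metric Filter Claims.C0465

variable {τ : Type} {c : ℝ}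

/-! ## 2b. metric helpers for (L7) -/

/-- a point of the square -/
theorem pvfh_sq_norm {z w : ℂ} {r : ℝ} (h : w ∈ pvwSq z r) : ‖w - z‖ ≤ 2 * r := by
  have := Complex.norm_le_abs_re_add_abs_im (w - z)
  linarith [h.1, h.2]

theorem pvfh_sq_mid {z u w : ℂ} {r : ℝ} (hu : u ∈ pvwSq z r) (hw : w ∈ pvwSq z r) : (u + w) / 2 ∈ pvwSq z r := by
  obtain ⟨u1, u2⟩ := hu
  obtain ⟨w1, w2⟩ := hw
  rw [abs_le] at u1 u2 w1 w2
  have e1 : ((u + w) / 2 - z).re = ((u - z).re + (w - z).re) / 2 := by simp; ring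
  have e2 : ((u + w) / 2 - z).im = ((u - z).im + (w - z).im) / 2 := by simp; ring
  refine ⟨?_, ?_⟩
  · rw [e1, abs_le]; constructor <;> linarith [u1.1, u1.2, w1.1, w1.2]
  · rw [e2, abs_le]; constructor <;> linarith [u2.1, u2.2, w2.1, w2.2]

section st

variable {V D : Type} {T : PvMap V D} {𝔖 : PvwSt T} {pos : V → ℂ} {N : PvwNum} {h : ℝ} {z : ℂ} {ty : PvwTy} {s : V → Bool}

/-- the inner arc of a gate stays within `b h` of the centre -/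
theorem pvfh_inn_near (hg : 𝔖.Gate pos h z ty s) {i : ℕ} (hi : i ≤ 𝔖.inn.n) : ‖pos (𝔖.inn.v i) - z‖ ≤ ty.b * h := by
  obtain ⟨n, h1, h2, j, -, -, h3, -⟩ := hg.strand
  obtain ⟨a1, a2, -⟩ := h3 i hi
  simp only at a2
  rw [a2]
  rcases a1.eq_or_lt with e | e
  · rw [e, h1]
    obtain ⟨k, hk⟩ := hg.dp_on
    refine (hg.ann _ ⟨k + 1, ?_⟩).2.le
    rw [← 𝔖.S.chain, hk, T.tgt_opp]
  · exact (hg.inside _ ⟨_, h2 _ e, rfl⟩).le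

/-- all the frozen sites, the two tips -/
theorem pvfh_at_near (ha : 𝔖.At pos N h z ty s) {C : ℝ} (h1 : ty.b * h ≤ C) (h2 : 2 * pvwRad N h ty ty.k ≤ C) :
    (∀ v ∈ 𝔖.fz, ‖pos v - z‖ ≤ C) ∧ ‖𝔖.xp pos - z‖ ≤ C ∧ ‖𝔖.xm pos - z‖ ≤ C := by
  have hc : ∀ v ∈ 𝔖.core, ‖pos v - z‖ ≤ C := fun v hv => by
    have h3 : v ∈ 𝔖.dsc := hv
    rw [ha.out.gate.dsc_eq] at h3
    exact (le_of_lt h3).trans h1
  refine ⟨?_, ?_, ?_⟩
  · rintro v (((hv | ⟨i, hi, rfl⟩) | ⟨i, hi, rfl⟩) | ((hv | ⟨i, hi, rfl⟩) | ⟨i, hi, rfl⟩))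
    · exact hc v hv
    · exact (pvfh_sq_norm (ha.out.stub.ep_in i hi).1).trans h2
    · exact (pvfh_sq_norm (ha.out.stub.ep_in i hi).2).trans h2
    · exact hc v hv
    · exact (pvfh_sq_norm (ha.inn.stub.em_in i hi).1).trans h2
    · exact (pvfh_sq_norm (ha.inn.stub.em_in i hi).2).trans h2
  · exact (pvfh_sq_norm (pvfh_sq_mid (ha.out.stub.ep_in _ le_rfl).1 (ha.out.stub.ep_in _ le_rfl).2)).trans h2
  · exact (pvfh_sq_norm (pvfh_sq_mid (ha.inn.stub.em_in _ le_rfl).1 (ha.inn.stub.em_in _ le_rfl).2)).trans h2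

end st

/-! ## 3. the leaves -/

section leaves

variable [Finite τ] {𝔓 : PvxPar τ c} {x : ℂ} {R : ℝ}

/-- **(L1) DICT-ARC.**      `m` large: `2 L h_m < R / 3`. -/
theorem pvfh_arc (c0 : 0 < c) (hW : 𝔓.Wf) (hR : 0 < R) : ∀ᶠ m in atTop, PvfhArcAt 𝔓 x R m :=
  pvkc_arcAt c0 𝔓 x hR

/-- **(L2) COR = FIT-DET AT THE MODEL.** -/
theorem pvfh_cor (c0 : 0 < c) (hW : 𝔓.Wf) (hF : PvfhWf 𝔓) (hR : 0 < R) : ∀ᶠ m in atTop, PvfhCorAt 𝔓 x R m :=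
  pvcb_cor c0 hW hF hR

/-! ### helpers of (L3)      (helper297, prefix `pvjv_`) -/

theorem pvjv_sq_norm {z w : ℂ} {r : ℝ} (h : w ∈ pvwSq z r) : ‖w - z‖ ≤ 2 * r := by
  have h0 := Complex.norm_le_abs_re_add_abs_im (w - z)
  have h1 := h.1
  have h2 := h.2
  linarith

/-- the inner arc of a gate runs from `g⁻` to `g⁺` -/
theorem pvjv_inn_ends {V D : Type} {T : PvMap V D} {pos : V → ℂ} {h : ℝ} {z : ℂ} {ty : PvwTy} {σ : V → Bool} {𝔖 : PvwSt T} (hg : 𝔖.Gate pos h z ty σ) :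
    𝔖.inn.v 0 = 𝔖.gm ∧ 𝔖.inn.v 𝔖.inn.n = 𝔖.gp := by
  obtain ⟨n, h1, -, jj, h0, hjn, hk, -⟩ := hg.strand
  refine ⟨by rw [h0]; rfl, ?_⟩
  rw [(hk _ le_rfl).2.1, hjn]
  show T.src (pvasIt T σ 𝔖.dm n) = _
  rw [h1]; rfl

/-- the mesh, read on a dart of the plane map of the sample -/
theorem pvjv_mesh {ω : PVSample} {K : Set ℂ} {μ : ℝ} (hM : L9Fine (pvxY ω) K μ) (d : (delbPl (pvxY ω)).Dart) (hd : pvxPos ω ((pvxT ω).src d) ∈ K) :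
    ‖pvxPos ω ((pvxT ω).apex d) - pvxPos ω ((pvxT ω).src d)‖ ≤ μ :=
  (hM _ _ _ (delb_plane_face d) (Or.inl hd)).2.1

/-- a placed point of a small cell is near the placed centre -/
theorem pvjv_pl_near {z w y : ℂ} {h r : ℝ} {S : Set ℂ} (h0 : 0 ≤ h) (hS : ∀ u ∈ S, ‖u - y‖ ≤ r) (hw : w ∈ pvxPl z h S) : ‖w - (z + (h : ℂ) * y)‖ ≤ h * r := by
  obtain ⟨u, hu, rfl⟩ := hw
  have e : z + (h : ℂ) * u - (z + (h : ℂ) * y) = (h : ℂ) * (u - y) := by ring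
  rw [e, norm_mul, Complex.norm_real, Real.norm_eq_abs, abs_of_nonneg h0]
  exact mul_le_mul_of_nonneg_left (hS u hu) h0

/-- the sites of `YCL` lie over `Yin` -/
theorem pvjv_ycl_in {V D : Type} {T : PvMap V D} {𝔇 : PvwDat T} {pos : V → ℂ} {π : PvwPat} {v : V} (hv : v ∈ 𝔇.YCL pos π) : pos v ∈ π.Yin := by
  rcases hv with ⟨q, -, h1, h2⟩ | ⟨q, -, h1, h2⟩
  · exact (h2 v ⟨q.n, le_rfl, h1⟩).2
  · exact (h2 v ⟨q.n, le_rfl, h1⟩).2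

/-- the sites of `YC0` lie over `Yin` -/
theorem pvjv_yc0_in {V D : Type} {T : PvMap V D} {𝔇 : PvwDat T} {pos : V → ℂ} {π : PvwPat} {v : V} (hv : v ∈ 𝔇.YC0 pos π) : pos v ∈ π.Yin := by
  obtain ⟨a, -, q, -, h1, h2⟩ := hv
  exact (h2 v ⟨q.n, le_rfl, h1⟩).1.2

/-- the scales of (L3) -/
theorem pvjv_scales (c0 : 0 < c) (𝔓 : PvxPar τ c) (hρ : 0 < 𝔓.num.rho) {R : ℝ} (hR : 0 < R) :
    ∀ᶠ m in atTop, 16 * pvlmDel c m ≤ 𝔓.num.rho * pvlmH m ∧ pvlmDel c m ≤ R / 24 ∧ ∀ t, pvwRad 𝔓.num (pvlmH m) (𝔓.ty t) (𝔓.ty t).k ≤ R / 24 := by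
  have h1 : ∀ᶠ m in atTop, pvlmH m < min 1 (𝔓.num.rho / 16) := pvlm_H_lim.eventually (gt_mem_nhds (lt_min one_pos (by positivity)))
  have h2 : ∀ᶠ m in atTop, pvlmDel c m ≤ R / 24 := (pvlm_Del_lim c0).eventually (ge_mem_nhds (by positivity))
  have h3 : ∀ᶠ m in atTop, ∀ t, pvwRad 𝔓.num (pvlmH m) (𝔓.ty t) (𝔓.ty t).k ≤ R / 24 := by
    rw [eventually_all]
    intro t
    have : Tendsto (fun m => (2 * (𝔓.ty t).b2 + (𝔓.ty t).k * 𝔓.num.rho1) * pvlmH m) atTop (nhds ((2 * (𝔓.ty t).b2 + (𝔓.ty t).k * 𝔓.num.rho1) * 0)) := pvlm_H_lim.const_mul _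
    rw [mul_zero] at this
    exact this.eventually (ge_mem_nhds (by positivity))
  filter_upwards [h1, h2, h3] with m a1 a2 a3
  refine ⟨?_, a2, a3⟩
  have hp := pvlm_H_pos m
  have h4 := pvlm_Del_le_pow4 c0 m
  have b1 : pvlmH m < 1 := lt_of_lt_of_le a1 (min_le_left _ _)
  have b2 : pvlmH m < 𝔓.num.rho / 16 := lt_of_lt_of_le a1 (min_le_right _ _)
  have b3 : pvlmH m ^ 4 ≤ pvlmH m * pvlmH m := by
    have : pvlmH m ^ 4 = pvlmH m * pvlmH m * (pvlmH m * pvlmH m) := by ring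
    rw [this]
    have : pvlmH m * pvlmH m ≤ 1 := by nlinarith
    nlinarith [mul_pos hp hp]
  nlinarith

theorem pvjv_tri (a b y : ℂ) : ‖a - b‖ ≤ ‖y - a‖ + ‖y - b‖ := by
  have e : a - b = (y - b) - (y - a) := by ring
  rw [e]
  linarith [norm_sub_le (y - b) (y - a)]

theorem pvjv_tri' (a b y : ℂ) : ‖a - b‖ ≤ ‖a - y‖ + ‖b - y‖ := by
  have e : a - b = (a - y) - (b - y) := by ring
  rw [e]
  exact norm_sub_le _ _

/-- **(L3)** the datum is well formed for the regions of record.      `m` large: `4 δ_m < ρ h_m / 4`, the two boxes are far apart. -/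
theorem pvfh_ok (c0 : 0 < c) (hW : 𝔓.Wf) (hF : PvfhWf 𝔓) (hR : 0 < R) : ∀ᶠ m in atTop, ∀ ω : PVSample, PvxvGood x R (pvxvMu c m) ω → ∀ (P : PvbRim) (s t : PvbPin τ),
    ‖s.ctr - x‖ ≤ 3 * R → ‖t.ctr - x‖ ≤ 3 * R → R / 3 ≤ ‖s.ctr - t.ctr‖ → ∀ (𝔇 : PvwDat (pvxT ω)) (j : ℕ), PvfhArc 𝔓 x R m ω P s t 𝔇 j → ∀ (l : List PvtTurn) (Zs Zt : Finset (ℤ × ℤ)),
    (∀ v ∈ 𝔇.g.verts, pvxPos ω v ∉ pvfeTube 3 (pvfeZ (𝔓.Γ m) (pvfhP s t l)) (pvfeD (𝔓.Γ m) (pvfhP s t l)) l) →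
    (∀ v ∈ 𝔇.s.core ∪ 𝔇.t.core, pvxPos ω v ∉ (𝔓.reg m ⟨pvfhP s t l, Zs, Zt⟩).Yin) →
    𝔇.Ok (pvxPos ω) 𝔓.num (pvlmH m) (𝔓.reg m ⟨pvfhP s t l, Zs, Zt⟩) := by
  filter_upwards [pvjv_scales c0 𝔓 hW.rho0 hR] with m ⟨e1, e2, e3⟩
  intro ω hM P s t hs ht hfar 𝔇 j hA l Zs Zt hoff hcore
  have hh := pvlm_H_pos m
  have hδ := pvlm_Del_pos c m
  have hρ := hW.rho0
  have hρ1 : 0 ≤ 𝔓.num.rho1 := (hW.rho0.trans hW.rho1).le
  have hnD : ‖pvfeD (𝔓.Γ m) (pvfhP s t l)‖ = pvlmDel c m := by rw [pvfe_norm_D, hW.del m, abs_of_pos hδ]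
  have rYin : (𝔓.reg m ⟨pvfhP s t l, Zs, Zt⟩).Yin = pvfeIn (𝔓.num.rho * pvlmH m / 2) ((𝔓.ty s.typ).cm (pvlmH m) s.ctr) ((𝔓.ty t.typ).cp (pvlmH m) t.ctr) (pvfeZ (𝔓.Γ m) (pvfhP s t l)) (pvfeD (𝔓.Γ m) (pvfhP s t l)) l := by
    rw [hF.reg_eq]; rfl
  have rYreg : (𝔓.reg m ⟨pvfhP s t l, Zs, Zt⟩).Yreg = pvfeBody (𝔓.num.rho * pvlmH m) 3 ((𝔓.ty s.typ).cm (pvlmH m) s.ctr) ((𝔓.ty t.typ).cp (pvlmH m) t.ctr) (pvfeZ (𝔓.Γ m) (pvfhP s t l)) (pvfeD (𝔓.Γ m) (pvfhP s t l)) l := by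
    rw [hF.reg_eq]; rfl
  have rYcol : (𝔓.reg m ⟨pvfhP s t l, Zs, Zt⟩).Ycol = pvfeCol (pvfeZ (𝔓.Γ m) (pvfhP s t l)) (pvfeD (𝔓.Γ m) (pvfhP s t l)) l := by
    rw [hF.reg_eq]; rfl
  have hμ : pvxvMu c m ≤ pvlmDel c m / 10 := by unfold pvxvMu; linarith
  -- `g₀` is far from the mouths
  have yT := hA.far_t
  have yS := hA.far_s
  -- `g₀` avoids `YREG⁺`
  have hoffReg : ∀ v ∈ 𝔇.g.verts, pvxPos ω v ∉ (𝔓.reg m ⟨pvfhP s t l, Zs, Zt⟩).Yreg := by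
    rintro v ⟨i, hi, rfl⟩ hv
    rw [rYreg] at hv
    rcases hv with (hv | hv) | hv
    · exact hoff _ ⟨i, hi, rfl⟩ hv
    · rw [mem_closedBall_iff_norm, hnD] at hv
      have := yT i hi
      nlinarith
    · rw [mem_closedBall_iff_norm, hnD] at hv
      have := yS i hi
      nlinarith
  -- the right apexes are within the mesh of `g₀`
  have hapx : ∀ i, i < 𝔇.g.n → ‖pvxPos ω ((pvxT ω).apex ((pvxT ω).opp (𝔇.g.e i))) - pvxPos ω (𝔇.g.v (i + 1))‖ ≤ pvlmDel c m / 10 := by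
    intro i hi
    have e : (pvxT ω).src ((pvxT ω).opp (𝔇.g.e i)) = 𝔇.g.v (i + 1) := by rw [PvMap.src_opp', 𝔇.g.tgt_e i hi]
    have h1 := pvjv_mesh hM.2 ((pvxT ω).opp (𝔇.g.e i)) (by
      rw [e, mem_closedBall_iff_norm]
      have := hA.in2R (i + 1) hi
      linarith)
    rw [e] at h1
    exact h1.trans hμ
  have hoffIn : ∀ v ∈ 𝔇.g.verts ∪ 𝔇.apx, pvxPos ω v ∉ (𝔓.reg m ⟨pvfhP s t l, Zs, Zt⟩).Yin := by
    rintro v (hv | ⟨i, hi, rfl⟩) h1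
    · exact hoffReg v hv ((hW.reg_wf m _).in_sub h1)
    · rw [rYin] at h1
      have h2 := hapx i hi
      rcases h1 with (h1 | h1) | h1
      · have h3 := pvfe_lanes_sub_tube (κ := 1) (by norm_num) (by norm_num) le_rfl _ _ _ h1
        obtain ⟨k, hk, h4⟩ := pvfe_mem_tube.1 h3
        refine hoff _ ⟨i + 1, hi, rfl⟩ (pvfe_mem_tube.2 ⟨k, hk, ?_⟩)
        rw [hnD] at h4 ⊢
        have h5 := pvjv_tri (pvxPos ω (𝔇.g.v (i + 1))) (pvccC (pvfeZ (𝔓.Γ m) (pvfhP s t l)) (pvfeD (𝔓.Γ m) (pvfhP s t l)) l k) (pvxPos ω ((pvxT ω).apex ((pvxT ω).opp (𝔇.g.e i))))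
        linarith
      · rw [mem_closedBall_iff_norm] at h1
        have h5 := pvjv_tri (pvxPos ω (𝔇.g.v (i + 1))) ((𝔓.ty t.typ).cp (pvlmH m) t.ctr) (pvxPos ω ((pvxT ω).apex ((pvxT ω).opp (𝔇.g.e i))))
        have h6 := yT (i + 1) hi
        nlinarith
      · rw [mem_closedBall_iff_norm] at h1
        have h5 := pvjv_tri (pvxPos ω (𝔇.g.v (i + 1))) ((𝔓.ty s.typ).cm (pvlmH m) s.ctr) (pvxPos ω ((pvxT ω).apex ((pvxT ω).opp (𝔇.g.e i))))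
        have h6 := yS (i + 1) hi
        nlinarith
  have hoffCol : ∀ v ∈ 𝔇.g.verts ∪ 𝔇.apx, pvxPos ω v ∉ (𝔓.reg m ⟨pvfhP s t l, Zs, Zt⟩).Ycol := by
    intro v hv h1
    rw [rYcol] at h1
    obtain ⟨k, hk, h4⟩ := pvfe_mem_tube.1 (pvfe_col_sub_tube (κ := 2) le_rfl _ (pvfe_D_ne _ _) _ h1)
    rw [hnD] at h4
    rcases hv with hv | ⟨i, hi, rfl⟩
    · refine hoff v hv (pvfe_mem_tube.2 ⟨k, hk, ?_⟩)
      rw [hnD]; linarith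
    · refine hoff _ ⟨i + 1, hi, rfl⟩ (pvfe_mem_tube.2 ⟨k, hk, ?_⟩)
      rw [hnD]
      have h2 := hapx i hi
      have h5 := pvjv_tri (pvxPos ω (𝔇.g.v (i + 1))) (pvccC (pvfeZ (𝔓.Γ m) (pvfhP s t l)) (pvfeD (𝔓.Γ m) (pvfhP s t l)) l k) (pvxPos ω ((pvxT ω).apex ((pvxT ω).opp (𝔇.g.e i))))
      linarith
  have hoffY : ∀ v ∈ 𝔇.g.verts ∪ 𝔇.apx, v ∈ 𝔇.NU (pvxPos ω) (𝔓.reg m ⟨pvfhP s t l, Zs, Zt⟩) :=
    fun v hv => ⟨fun hy => hoffIn v hv (pvjv_yc0_in hy), hoffCol v hv⟩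
  -- the frozen sets lie in the boxes
  have sIn : ∀ v ∈ 𝔇.s.fzIn, ‖pvxPos ω v - s.ctr‖ ≤ R / 12 := by
    intro v hv
    have h1 : pvxPos ω v ∈ pvwSq s.ctr (pvwRad 𝔓.num (pvlmH m) (𝔓.ty s.typ) (𝔓.ty s.typ).k) := by
      rcases hv with (hv | hv) | hv
      · exact pvwk_core_sq hA.at_s.st.inn.gate (pvwk_rad_ge (hF.b_b2 _) hh.le hρ1 _) v hv
      · exact pvwk_banksM_in hA.at_s.st.inn.stub (Or.inl hv)
      · exact pvwk_banksM_in hA.at_s.st.inn.stub (Or.inr hv)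
    have := pvjv_sq_norm h1
    have := e3 s.typ
    linarith
  have tOut : ∀ v ∈ 𝔇.t.fzOut, ‖pvxPos ω v - t.ctr‖ ≤ R / 12 := by
    intro v hv
    have h1 : pvxPos ω v ∈ pvwSq t.ctr (pvwRad 𝔓.num (pvlmH m) (𝔓.ty t.typ) (𝔓.ty t.typ).k) := by
      rcases hv with (hv | hv) | hv
      · exact pvwk_core_sq hA.at_t.st.out.gate (pvwk_rad_ge (hF.b_b2 _) hh.le hρ1 _) v hv
      · exact pvwk_banksP_in hA.at_t.st.out.stub (Or.inl hv)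
      · exact pvwk_banksP_in hA.at_t.st.out.stub (Or.inr hv)
    have := pvjv_sq_norm h1
    have := e3 t.typ
    linarith
  have apT : ‖pvxPos ω 𝔇.t.ap - t.ctr‖ ≤ R / 12 + pvlmDel c m / 10 := by
    have h1 := tOut ((pvxT ω).src (𝔇.t.ep 𝔇.t.np)) (Or.inl (Or.inr ⟨𝔇.t.np, le_rfl, rfl⟩))
    have h2 := pvjv_mesh hM.2 (𝔇.t.ep 𝔇.t.np) (by
      rw [mem_closedBall_iff_norm]
      have := pvjv_tri' (pvxPos ω ((pvxT ω).src (𝔇.t.ep 𝔇.t.np))) x t.ctr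
      rw [norm_sub_rev x t.ctr] at this
      linarith)
    have h3 := pvjv_tri' (pvxPos ω 𝔇.t.ap) t.ctr (pvxPos ω ((pvxT ω).src (𝔇.t.ep 𝔇.t.np)))
    rw [norm_sub_rev t.ctr] at h3
    have h4 : pvxPos ω 𝔇.t.ap = pvxPos ω ((pvxT ω).apex (𝔇.t.ep 𝔇.t.np)) := rfl
    rw [h4] at h3 ⊢
    linarith
  have amS : ‖pvxPos ω 𝔇.s.am - s.ctr‖ ≤ R / 12 + pvlmDel c m / 10 := by
    have e : (pvxT ω).src ((pvxT ω).opp (𝔇.s.em 𝔇.s.nm)) = (pvxT ω).tgt (𝔇.s.em 𝔇.s.nm) := PvMap.src_opp' _ _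
    have h1 := sIn ((pvxT ω).tgt (𝔇.s.em 𝔇.s.nm)) (Or.inr ⟨𝔇.s.nm, le_rfl, rfl⟩)
    have h2 := pvjv_mesh hM.2 ((pvxT ω).opp (𝔇.s.em 𝔇.s.nm)) (by
      rw [e, mem_closedBall_iff_norm]
      have := pvjv_tri' (pvxPos ω ((pvxT ω).tgt (𝔇.s.em 𝔇.s.nm))) x s.ctr
      rw [norm_sub_rev x s.ctr] at this
      linarith)
    rw [e] at h2
    have h3 := pvjv_tri' (pvxPos ω 𝔇.s.am) s.ctr (pvxPos ω ((pvxT ω).tgt (𝔇.s.em 𝔇.s.nm)))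
    rw [norm_sub_rev s.ctr] at h3
    have h4 : pvxPos ω 𝔇.s.am = pvxPos ω ((pvxT ω).apex ((pvxT ω).opp (𝔇.s.em 𝔇.s.nm))) := rfl
    rw [h4] at h3 ⊢
    linarith
  have hcolT : 𝔇.col = pvxCol ω (𝔓.col t.typ) := by rw [hA.col, hA.col_eq]
  refine ⟨?_, ?_, ?_, ?_, ?_, ?_, hA.pos_n, hA.out, hoffReg, hA.disj, hoffY, ⟨?_, ?_⟩, ?_, ?_, ?_, hcore⟩
  · rw [hW.reg_zs, hW.reg_ts, hA.col]; exact hA.at_s.st.inn
  · rw [hW.reg_zt, hW.reg_tt, hcolT]; exact hA.at_t.st.out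
  · rw [hW.reg_cs]; exact hA.tip_s
  · rw [hW.reg_ct]; exact hA.tip_t
  · apply Subtype.val_injective
    have h1 := hA.arc 0 (Nat.zero_le _)
    have h2 := hA.pin_s.run 𝔇.s.inn.n le_rfl
    rw [(pvjv_inn_ends hA.at_s.st.inn.gate).2] at h2
    rw [Nat.add_zero, h2] at h1
    exact h1.symm
  · apply Subtype.val_injective
    have h1 := hA.arc 𝔇.g.n le_rfl
    have h2 := hA.pin_t.run 0 (Nat.zero_le _)
    rw [(pvjv_inn_ends hA.at_t.st.out.gate).1, Nat.add_zero] at h2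
    rw [h2] at h1
    exact h1.symm
  · rintro (hv | hv)
    · exact pvwk_atOut_ap hA.at_t.st.out (hF.b_b2 _) hh.le hρ1 hv
    · have h1 := sIn _ hv
      have h2 := pvjv_tri s.ctr t.ctr (pvxPos ω 𝔇.t.ap)
      linarith
  · rintro (hv | hv)
    · have h1 := tOut _ hv
      have h2 := pvjv_tri s.ctr t.ctr (pvxPos ω 𝔇.s.am)
      linarith
    · exact pvwk_atIn_am hA.at_s.st.inn (hF.b_b2 _) hh.le hρ1 hv
  · intro v hv _
    rw [hA.col]; exact hA.black v hv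
  · intro v hv _
    rw [hA.col]; exact hA.white v hv
  · intro v hv hv'
    have a1 := hA.black v hv'
    rw [hA.white v hv] at a1
    exact Bool.noConfusion a1

/-- **(L3b)** `Ok.core_off` (Tr/Defs v3): the two cores are not over `Yin`.      Lanes: D20 (the cell of a core site is a cell of the hull) + `At.far_p far_m` (`2 ρ h` round the grid centres);  own inner mouth: `At.far_p far_m`;  the other inner mouth: `R / 3`.      `m` large. -/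
theorem pvfh_core_off (c0 : 0 < c) (hW : 𝔓.Wf) (hF : PvfhWf 𝔓) (hR : 0 < R) : ∀ᶠ m in atTop, ∀ (ω : PVSample) (P : PvbRim) (s t : PvbPin τ),
    R / 3 ≤ ‖s.ctr - t.ctr‖ → ∀ (𝔇 : PvwDat (pvxT ω)) (j : ℕ), PvfhArc 𝔓 x R m ω P s t 𝔇 j → ∀ (l : List PvtTurn) (Zs Zt : Finset (ℤ × ℤ)),
    PvfeAdm (pvlmDel c m) 3 (2 * 𝔓.num.rho * pvlmH m) ((𝔓.ty s.typ).cm (pvlmH m) s.ctr) ((𝔓.ty t.typ).cp (pvlmH m) t.ctr) (pvfeZ (𝔓.Γ m) (pvfhP s t l)) (pvfeD (𝔓.Γ m) (pvfhP s t l)) l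
        (pvfhZ 𝔓 m s t 𝔇) →
    ∀ v ∈ 𝔇.s.core ∪ 𝔇.t.core, pvxPos ω v ∉ (𝔓.reg m ⟨pvfhP s t l, Zs, Zt⟩).Yin := by
  have lim : ∀ C : ℝ, ∀ᶠ m in atTop, C * pvlmH m ≤ R / 24 := fun C => by
    have : Tendsto (fun m => C * pvlmH m) atTop (nhds (C * 0)) := pvlm_H_lim.const_mul _
    rw [mul_zero] at this
    exact this.eventually (ge_mem_nhds (by positivity))
  have h1 : ∀ᶠ m in atTop, ∀ u, (𝔓.ty u).b * pvlmH m ≤ R / 24 := eventually_all.2 fun u => lim _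
  have h2 : ∀ᶠ m in atTop, ∀ u, ‖(𝔓.ty u).yp‖ * pvlmH m ≤ R / 24 := eventually_all.2 fun u => lim _
  have h3 : ∀ᶠ m in atTop, ∀ u, ‖(𝔓.ty u).ym‖ * pvlmH m ≤ R / 24 := eventually_all.2 fun u => lim _
  filter_upwards [h1, h2, h3, lim 𝔓.num.rho] with m e1 e2 e3 e4
  intro ω P s t hfar 𝔇 j hA l Zs Zt hadm
  have hh := pvlm_H_pos m
  have hδ := pvlm_Del_pos c m
  have hρ := hW.rho0
  have hρh : 0 < 𝔓.num.rho * pvlmH m := mul_pos hρ hh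
  have nT : ‖(𝔓.ty t.typ).cp (pvlmH m) t.ctr - t.ctr‖ ≤ R / 24 := by
    have e : (𝔓.ty t.typ).cp (pvlmH m) t.ctr - t.ctr = (pvlmH m : ℂ) * (𝔓.ty t.typ).yp := by unfold PvwTy.cp; ring
    rw [e, norm_mul, Complex.norm_real, Real.norm_eq_abs, abs_of_pos hh, mul_comm]
    exact e2 _
  have nS : ‖(𝔓.ty s.typ).cm (pvlmH m) s.ctr - s.ctr‖ ≤ R / 24 := by
    have e : (𝔓.ty s.typ).cm (pvlmH m) s.ctr - s.ctr = (pvlmH m : ℂ) * (𝔓.ty s.typ).ym := by unfold PvwTy.cm; ring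
    rw [e, norm_mul, Complex.norm_real, Real.norm_eq_abs, abs_of_pos hh, mul_comm]
    exact e3 _
  have cS : ∀ v ∈ 𝔇.s.core, ‖pvxPos ω v - s.ctr‖ ≤ R / 24 := fun v hv => by
    have h5 : v ∈ 𝔇.s.dsc := hv
    rw [hA.at_s.st.out.gate.dsc_eq] at h5
    exact (le_of_lt h5).trans (e1 _)
  have cT : ∀ v ∈ 𝔇.t.core, ‖pvxPos ω v - t.ctr‖ ≤ R / 24 := fun v hv => by
    have h5 : v ∈ 𝔇.t.dsc := hv
    rw [hA.at_t.st.out.gate.dsc_eq] at h5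
    exact (le_of_lt h5).trans (e1 _)
  -- the cores are far from the two grid centres
  have far : ∀ v ∈ 𝔇.s.core ∪ 𝔇.t.core, 2 * 𝔓.num.rho * pvlmH m < ‖pvxPos ω v - (𝔓.ty t.typ).cp (pvlmH m) t.ctr‖ ∧ 2 * 𝔓.num.rho * pvlmH m < ‖pvxPos ω v - (𝔓.ty s.typ).cm (pvlmH m) s.ctr‖ := by
    rintro v (hv | hv)
    · refine ⟨?_, hA.at_s.st.far_m v (Or.inl (Or.inl hv))⟩
      have a1 := cS v hv
      have a2 := pvjv_tri' s.ctr t.ctr (pvxPos ω v)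
      have a3 := pvjv_tri' (pvxPos ω v) t.ctr ((𝔓.ty t.typ).cp (pvlmH m) t.ctr)
      rw [norm_sub_rev s.ctr (pvxPos ω v), norm_sub_rev t.ctr (pvxPos ω v)] at a2
      rw [norm_sub_rev t.ctr ((𝔓.ty t.typ).cp (pvlmH m) t.ctr)] at a3
      linarith
    · refine ⟨hA.at_t.st.far_p v (Or.inl (Or.inl hv)), ?_⟩
      have a1 := cT v hv
      have a2 := pvjv_tri' s.ctr t.ctr (pvxPos ω v)
      have a3 := pvjv_tri' (pvxPos ω v) s.ctr ((𝔓.ty s.typ).cm (pvlmH m) s.ctr)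
      rw [norm_sub_rev s.ctr (pvxPos ω v), norm_sub_rev t.ctr (pvxPos ω v)] at a2
      rw [norm_sub_rev s.ctr ((𝔓.ty s.typ).cm (pvlmH m) s.ctr)] at a3
      linarith
  -- the cell of a core site is a cell of the hulls
  have hull : ∀ v ∈ 𝔇.s.core ∪ 𝔇.t.core, pvxPos ω v ∈ pvtU (pvlmDel c m) (pvtN8 (pvfhZ 𝔓 m s t 𝔇)) := by
    rintro v (hv | hv)
    · refine pvt_U_mono ((Set.subset_union_left).trans pvt_N8_sub) (pvt_cells_cover hδ (Or.inl ⟨v, Or.inl (Or.inl hv), rfl⟩))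
    · refine pvt_U_mono ((Set.subset_union_right).trans pvt_N8_sub) (pvt_cells_cover hδ (Or.inl ⟨v, Or.inl (Or.inl hv), rfl⟩))
  intro v hv hy
  have rYin : (𝔓.reg m ⟨pvfhP s t l, Zs, Zt⟩).Yin = pvfeIn (𝔓.num.rho * pvlmH m / 2) ((𝔓.ty s.typ).cm (pvlmH m) s.ctr) ((𝔓.ty t.typ).cp (pvlmH m) t.ctr) (pvfeZ (𝔓.Γ m) (pvfhP s t l)) (pvfeD (𝔓.Γ m) (pvfhP s t l)) l := by
    rw [hF.reg_eq]; rfl
  rw [rYin] at hy
  obtain ⟨f1, f2⟩ := far v hv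
  rcases hy with (hy | hy) | hy
  · rcases hadm _ (pvfe_lanes_sub_tube (κ := 3) (by norm_num) (by norm_num) (by norm_num) _ _ _ hy) (hull v hv) with h5 | h5
    · rw [mem_closedBall_iff_norm] at h5; linarith
    · rw [mem_closedBall_iff_norm] at h5; linarith
  · rw [mem_closedBall_iff_norm] at hy; linarith
  · rw [mem_closedBall_iff_norm] at hy; linarith

/-- **(L4)** the datum is actual -/
theorem pvfh_actual (hW : 𝔓.Wf) {m : ℕ} {ω : PVSample} {P : PvbRim} {s t : PvbPin τ} {𝔇 : PvwDat (pvxT ω)} {j : ℕ} (h : PvfhArc 𝔓 x R m ω P s t 𝔇 j)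
    (l : List PvtTurn) (Zs Zt : Finset (ℤ × ℤ)) : PvxActual 𝔇 𝔓.num (pvlmH m) (𝔓.reg m ⟨pvfhP s t l, Zs, Zt⟩) (𝔓.col s.typ) P j := by
  refine ⟨⟨fun v _ => by rw [h.col], h.black, h.white⟩, ?_, h.arc, ?_⟩
  · rw [hW.reg_zs, hW.reg_ts]
    exact h.pin_s
  · rw [hW.reg_zt, hW.reg_tt]
    exact h.pin_t

/-- an integer `a` with `a δ ≤ u ≤ (a+1) δ`, `|u| ≤ B` -/
theorem pvfh_natAbs_le {δ u B : ℝ} (hδ : 0 < δ) {a : ℤ} (h1 : (a : ℝ) * δ ≤ u) (h2 : u ≤ ((a : ℝ) + 1) * δ) (hu : |u| ≤ B) : a.natAbs ≤ ⌈B / δ⌉₊ + 1 := by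
  have hB : B / δ ≤ (⌈B / δ⌉₊ : ℝ) := Nat.le_ceil _
  rw [abs_le] at hu
  have e1 : (a : ℝ) ≤ B / δ := by rw [le_div_iff₀ hδ]; linarith
  have e2 : -(B / δ) - 1 ≤ (a : ℝ) := by
    have : -B / δ ≤ (a : ℝ) + 1 := by rw [div_le_iff₀ hδ]; linarith
    have e : -B / δ = -(B / δ) := by ring
    linarith
  have f1 : a ≤ (⌈B / δ⌉₊ : ℤ) + 1 := by
    have : (a : ℝ) ≤ ((⌈B / δ⌉₊ : ℤ) : ℝ) + 1 := by push_cast; linarith
    exact_mod_cast this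
  have f2 : -((⌈B / δ⌉₊ : ℤ) + 1) ≤ a := by
    have : -(((⌈B / δ⌉₊ : ℤ) : ℝ) + 1) ≤ (a : ℝ) := by push_cast; linarith
    exact_mod_cast this
  omega

/-- **(L5)** the hull of a frozen set which lies in `B(x,5R)` -/
theorem pvfh_hull (hR : 0 < R) {m : ℕ} {ω : PVSample} {F : Set ↥(pvxY ω)} {tip : ℂ} {r : ℝ} (hF : ∀ v ∈ F, ‖pvxPos ω v - x‖ ≤ 5 * R) (ht : ‖tip - x‖ + r ≤ 5 * R) :
    ∃ Z : Finset (ℤ × ℤ), (Z : Set (ℤ × ℤ)) = pvxHull (pvlmDel c m) F tip r ∧ ∀ q ∈ Z, q.1.natAbs ≤ pvxBnd c x R m ∧ q.2.natAbs ≤ pvxBnd c x R m := by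
  have δ0 : 0 < pvlmDel c m := pvlm_Del_pos c m
  have hK : ∀ w ∈ pvxPos ω '' F ∪ closedBall tip r, ‖w‖ ≤ ‖x‖ + 6 * R := by
    intro w hw
    have h5 : ‖w - x‖ ≤ 5 * R := by
      rcases hw with ⟨v, hv, rfl⟩ | hw
      · exact hF v hv
      · rw [mem_closedBall, dist_eq_norm] at hw
        calc ‖w - x‖ = ‖(w - tip) + (tip - x)‖ := by ring_nf
          _ ≤ ‖w - tip‖ + ‖tip - x‖ := norm_add_le _ _
          _ ≤ 5 * R := by linarith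
    calc ‖w‖ = ‖(w - x) + x‖ := by ring_nf
      _ ≤ ‖w - x‖ + ‖x‖ := norm_add_le _ _
      _ ≤ ‖x‖ + 6 * R := by linarith
  have hb : ∀ q ∈ pvxHull (pvlmDel c m) F tip r, q.1.natAbs ≤ pvxBnd c x R m ∧ q.2.natAbs ≤ pvxBnd c x R m := by
    rintro q ⟨w, ⟨h1, h2, h3, h4⟩, hw⟩
    have hn := hK w hw
    exact ⟨pvfh_natAbs_le δ0 h1 h2 ((Complex.abs_re_le_norm w).trans hn), pvfh_natAbs_le δ0 h3 h4 ((Complex.abs_im_le_norm w).trans hn)⟩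
  have hfin : (pvxHull (pvlmDel c m) F tip r).Finite := by
    refine ((Finset.Icc (-(pvxBnd c x R m : ℤ)) (pvxBnd c x R m) ×ˢ Finset.Icc (-(pvxBnd c x R m : ℤ)) (pvxBnd c x R m)).finite_toSet).subset ?_
    intro q hq
    obtain ⟨b1, b2⟩ := hb q hq
    simp only [Finset.coe_product, Finset.coe_Icc, Set.mem_prod, Set.mem_Icc]
    omega
  refine ⟨hfin.toFinset, hfin.coe_toFinset, fun q hq => hb q (hfin.mem_toFinset.1 hq)⟩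

/-- the frozen sets and the mouths of the two half states lie in `B(x,5R)`.      `m` large. -/
theorem pvfh_fz_5R (hW : 𝔓.Wf) (hF : PvfhWf 𝔓) (hR : 0 < R) : ∀ᶠ m in atTop, ∀ (ω : PVSample) (z : ℂ) (t : τ) (𝔖 : PvwSt (pvxT ω)), ‖z - x‖ ≤ 3 * R → PvxAt 𝔓 m ω z t 𝔖 →
    (∀ v ∈ 𝔖.fz, ‖pvxPos ω v - x‖ ≤ 5 * R) ∧ ‖𝔖.xp (pvxPos ω) - x‖ + 𝔓.num.rho * pvlmH m ≤ 5 * R ∧ ‖𝔖.xm (pvxPos ω) - x‖ + 𝔓.num.rho * pvlmH m ≤ 5 * R ∧
      ∀ i, i ≤ 𝔖.inn.n → ‖pvxPos ω (𝔖.inn.v i) - x‖ ≤ 5 * R := by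
  obtain ⟨C1, hC1⟩ := (Set.finite_range fun t : τ => |(𝔓.ty t).b|).bddAbove
  obtain ⟨C2, hC2⟩ := (Set.finite_range fun t : τ => |2 * (2 * (𝔓.ty t).b2 + (𝔓.ty t).k * 𝔓.num.rho1)|).bddAbove
  set C : ℝ := |C1| + |C2| + |𝔓.num.rho| with hC
  have hlim : Tendsto (fun m => C * pvlmH m) atTop (nhds 0) := by simpa using pvlm_H_lim.const_mul C
  filter_upwards [hlim.eventually (ge_mem_nhds (show (0 : ℝ) < 2 * R by positivity))] with m hm ω z t 𝔖 hz ha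
  have h0 : 0 < pvlmH m := pvlm_H_pos m
  have b1 : (𝔓.ty t).b * pvlmH m ≤ (|C1| + |C2|) * pvlmH m := by
    refine mul_le_mul_of_nonneg_right ?_ h0.le
    have := hC1 ⟨t, rfl⟩
    simp only at this
    linarith [le_abs_self (𝔓.ty t).b, le_abs_self C1, abs_nonneg C2]
  have b2 : 2 * pvwRad 𝔓.num (pvlmH m) (𝔓.ty t) (𝔓.ty t).k ≤ (|C1| + |C2|) * pvlmH m := by
    have e : 2 * pvwRad 𝔓.num (pvlmH m) (𝔓.ty t) (𝔓.ty t).k = (2 * (2 * (𝔓.ty t).b2 + (𝔓.ty t).k * 𝔓.num.rho1)) * pvlmH m := by unfold pvwRad; ring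
    rw [e]
    refine mul_le_mul_of_nonneg_right ?_ h0.le
    have := hC2 ⟨t, rfl⟩
    simp only at this
    linarith [le_abs_self (2 * (2 * (𝔓.ty t).b2 + (𝔓.ty t).k * 𝔓.num.rho1)), le_abs_self C2, abs_nonneg C1]
  have b3 : 𝔓.num.rho * pvlmH m ≤ |𝔓.num.rho| * pvlmH m := mul_le_mul_of_nonneg_right (le_abs_self _) h0.le
  have b4 : 0 ≤ |𝔓.num.rho| * pvlmH m := by positivity
  have hm' : (|C1| + |C2|) * pvlmH m + |𝔓.num.rho| * pvlmH m ≤ 2 * R := by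
    have : C * pvlmH m = (|C1| + |C2|) * pvlmH m + |𝔓.num.rho| * pvlmH m := by rw [hC]; ring
    linarith
  obtain ⟨f1, f2, f3⟩ := pvfh_at_near ha.st b1 b2
  have tri : ∀ w : ℂ, ‖w - x‖ ≤ ‖w - z‖ + ‖z - x‖ := fun w => by
    calc ‖w - x‖ = ‖(w - z) + (z - x)‖ := by ring_nf
      _ ≤ _ := norm_add_le _ _
  refine ⟨fun v hv => ?_, ?_, ?_, fun i hi => ?_⟩
  · linarith [tri (pvxPos ω v), f1 v hv]
  · linarith [tri (𝔖.xp (pvxPos ω))]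
  · linarith [tri (𝔖.xm (pvxPos ω))]
  · linarith [tri (pvxPos ω (𝔖.inn.v i)), pvfh_inn_near ha.st.out.gate hi]

/-- the integers of an interval of length `ℓ` -/
theorem pvfh_icc_card {u ℓ : ℝ} (hℓ : 0 ≤ ℓ) : ((Finset.Icc ⌈u⌉ ⌊u + ℓ⌋).card : ℝ) ≤ ℓ + 1 := by
  rw [Int.card_Icc]
  have h1 : (⌊u + ℓ⌋ : ℝ) ≤ u + ℓ := Int.floor_le _
  have h2 : u ≤ (⌈u⌉ : ℝ) := Int.le_ceil _
  rcases le_total 0 (⌊u + ℓ⌋ + 1 - ⌈u⌉) with h | h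
  · have : ((⌊u + ℓ⌋ + 1 - ⌈u⌉).toNat : ℝ) = ((⌊u + ℓ⌋ + 1 - ⌈u⌉ : ℤ) : ℝ) := by
      exact_mod_cast congrArg (Int.cast : ℤ → ℝ) (Int.toNat_of_nonneg h)
    rw [this]
    push_cast
    linarith
  · rw [Int.toNat_of_nonpos h]
    simp only [Nat.cast_zero]
    linarith

/-- counting the cells of the grid whose centres lie in a disc -/
theorem pvfh_count {δ r : ℝ} (hδ : 0 < δ) (hr : 0 ≤ r) (x : ℂ) {n : ℕ} (f : ℕ → ℤ × ℤ) (hinj : ∀ j k, j < n → k < n → f j = f k → j = k)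
    (hf : ∀ j, j < n → ‖pvtCtr δ (f j) - x‖ ≤ r) : (n : ℝ) ≤ (2 * r / δ + 1) ^ 2 := by
  set S : Finset (ℤ × ℤ) := Finset.Icc ⌈(x.re - r) / δ - 1 / 2⌉ ⌊(x.re - r) / δ - 1 / 2 + 2 * r / δ⌋ ×ˢ Finset.Icc ⌈(x.im - r) / δ - 1 / 2⌉ ⌊(x.im - r) / δ - 1 / 2 + 2 * r / δ⌋ with hS
  have hℓ : 0 ≤ 2 * r / δ := by positivity
  have hcard : n ≤ S.card := by
    have := Finset.card_le_card_of_injOn (s := Finset.range n) (t := S) f ?_ ?_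
    · simpa using this
    · intro j hj
      have hj' : j < n := by simpa using hj
      have h0 := hf j hj'
      have h1 : |(pvtCtr δ (f j) - x).re| ≤ r := (Complex.abs_re_le_norm _).trans h0
      have h2 : |(pvtCtr δ (f j) - x).im| ≤ r := (Complex.abs_im_le_norm _).trans h0
      simp only [pvtCtr, Complex.sub_re, Complex.sub_im] at h1 h2
      rw [abs_le] at h1 h2
      simp only [hS, Finset.coe_product, Finset.coe_Icc, Set.mem_prod, Set.mem_Icc]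
      refine ⟨⟨Int.ceil_le.2 ?_, Int.le_floor.2 ?_⟩, ⟨Int.ceil_le.2 ?_, Int.le_floor.2 ?_⟩⟩
      · rw [sub_le_iff_le_add, div_le_iff₀ hδ]; linarith [h1.1]
      · have : (x.re - r) / δ - 1 / 2 + 2 * r / δ = (x.re + r) / δ - 1 / 2 := by field_simp; ring
        rw [this, le_sub_iff_add_le, le_div_iff₀ hδ]; linarith [h1.2]
      · rw [sub_le_iff_le_add, div_le_iff₀ hδ]; linarith [h2.1]
      · have : (x.im - r) / δ - 1 / 2 + 2 * r / δ = (x.im + r) / δ - 1 / 2 := by field_simp; ring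
        rw [this, le_sub_iff_add_le, le_div_iff₀ hδ]; linarith [h2.2]
    · intro j hj k hk e
      exact hinj j k (by simpa using hj) (by simpa using hk) e
  have h3 : (S.card : ℝ) ≤ (2 * r / δ + 1) * (2 * r / δ + 1) := by
    rw [hS, Finset.card_product]
    push_cast
    exact mul_le_mul (pvfh_icc_card hℓ) (pvfh_icc_card hℓ) (Nat.cast_nonneg _) (by positivity)
  calc (n : ℝ) ≤ S.card := by exact_mod_cast hcard
    _ ≤ (2 * r / δ + 1) ^ 2 := by rw [sq]; exact h3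

/-- **(L6)** counting: a simple word whose cells are cells of the grid in `B(x,5R)`.      `m` large: `δ_m ≤ R`. -/
theorem pvfh_len (c0 : 0 < c) (hR : 0 < R) : ∀ᶠ m in atTop, ∀ (z d : ℂ) (l : List PvtTurn), d ^ 4 = 1 → (∃ q : ℤ × ℤ, z + (pvlmDel c m : ℂ) * d / 2 = pvtCtr (pvlmDel c m) q) → PvccSimple l l.length →
    (∀ i, i ≤ l.length → ‖pvccC z ((pvlmDel c m : ℂ) * d) l i - x‖ ≤ 5 * R) → l.length ≤ pvxLen c R m := by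
  have hlim := (pvlm_Del_lim c0).eventually (ge_mem_nhds hR)
  filter_upwards [hlim] with m hm z d l hd hq hsim hball
  obtain ⟨q, hq⟩ := hq
  set δ := pvlmDel c m with hδ
  have δ0 : 0 < δ := pvlm_Del_pos c m
  have hd0 : d ≠ 0 := by
    rintro rfl
    norm_num at hd
  have hδd : (δ : ℂ) * d ≠ 0 := mul_ne_zero (by exact_mod_cast δ0.ne') hd0
  -- the centres are centres of cells of the grid
  have hg : ∀ j, ∃ p : ℤ × ℤ, pvccC z ((δ : ℂ) * d) l j = pvtCtr δ p := by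
    intro j
    obtain ⟨a, b, hab⟩ := pvcc_acc_rot_gauss hd (l.take j)
    refine ⟨(q.1 + a, q.2 + b), ?_⟩
    rw [pvccC_eq, pvtAcc_mul, hq, hab]
    apply Complex.ext
    · simp [pvtCtr]; ring
    · simp [pvtCtr]; ring
  choose f hf using hg
  have hcount := pvfh_count (n := l.length + 1) δ0 (by positivity : (0 : ℝ) ≤ 5 * R) x f ?_ ?_
  · unfold pvxLen
    rw [← hδ]
    have h1 : 1 ≤ R / δ := by rw [le_div_iff₀ δ0]; linarith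
    have h2 : (2 * (5 * R) / δ + 1) ^ 2 ≤ (12 * R / δ) ^ 2 := by
      have e1 : 2 * (5 * R) / δ = 10 * (R / δ) := by ring
      have e2 : 12 * R / δ = 12 * (R / δ) := by ring
      rw [e1, e2]
      nlinarith
    have h3 : ((l.length : ℕ) : ℝ) ≤ (12 * R / δ) ^ 2 := by
      push_cast at hcount
      linarith
    exact_mod_cast h3.trans (Nat.le_ceil _)
  · intro j k hj hk e
    by_contra hne
    exact hsim.centre_ne z hδd (by omega) (by omega) hne (by rw [hf j, hf k, e])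
  · intro j hj
    rw [← hf j]
    exact hball j (by omega)

end leaves

/-! ## 4. the glue -/

/-- the four directions -/
theorem pvfh_dir4 {u : ℤ × ℤ} (hu : PvfeDir u) : pvtZ u ^ 4 = 1 := by
  have hI : Complex.I ^ 4 = 1 := Complex.I_pow_four
  rcases hu with rfl | rfl | rfl | rfl
  · simp [pvtZ]
  · simp only [pvtZ]; norm_num
  · simp [pvtZ, hI]
  · simp only [pvtZ]
    have : ((0 : ℤ) : ℂ) + ((-1 : ℤ) : ℂ) * Complex.I = -Complex.I := by push_cast; ring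
    rw [this, neg_pow, hI]; norm_num

theorem pvfh_ctr_sub (δ : ℝ) (e u : ℤ × ℤ) : pvtCtr δ (e - u) = pvtCtr δ e - (δ : ℂ) * pvtZ u := by
  apply Complex.ext
  · simp [pvtCtr, pvtZ]; ring
  · simp [pvtCtr, pvtZ]; ring

/-- the exit door of record: frame, first cell -/
theorem pvfh_door_out {Γ : PvtsGeo τ} {ty : τ → PvwTy} {N : PvwNum} {h : ℝ} (hD : PvfeDoors Γ ty N h) (t : τ) :
    Γ.dout t ^ 4 = 1 ∧ ∃ q : ℤ × ℤ, Γ.pout t + (Γ.δ : ℂ) * Γ.dout t / 2 = pvtCtr Γ.δ q := by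
  obtain ⟨e, u, hu, h1, h2, -, -⟩ := hD.out t
  refine ⟨by rw [h2]; exact pvfh_dir4 hu, e, ?_⟩
  rw [h1, h2, pvfh_ctr_sub]; ring

/-- the scales of the index clauses (b1) (b2) of `pvxPatSet` and of the hulls -/
theorem pvfh_scales [Finite τ] (𝔓 : PvxPar τ c) {R : ℝ} (hR : 0 < R) : ∀ᶠ m in atTop, (∀ u, 2 * pvwRad 𝔓.num (pvlmH m) (𝔓.ty u) 𝔓.num.K ≤ R / 12) ∧ 8 * pvlmH m ≤ R / 12 ∧
    (∀ u, ‖(𝔓.ty u).yp‖ * pvlmH m ≤ R / 12) ∧ (∀ u, ‖(𝔓.ty u).ym‖ * pvlmH m ≤ R / 12) ∧ 𝔓.num.rho * pvlmH m ≤ R / 12 := by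
  have lim : ∀ C : ℝ, ∀ᶠ m in atTop, C * pvlmH m ≤ R / 12 := fun C => by
    have : Tendsto (fun m => C * pvlmH m) atTop (nhds (C * 0)) := pvlm_H_lim.const_mul _
    rw [mul_zero] at this
    exact this.eventually (ge_mem_nhds (by positivity))
  have h1 : ∀ᶠ m in atTop, ∀ u, (2 * (2 * (𝔓.ty u).b2 + 𝔓.num.K * 𝔓.num.rho1)) * pvlmH m ≤ R / 12 := eventually_all.2 fun u => lim _
  have h2 : ∀ᶠ m in atTop, ∀ u, ‖(𝔓.ty u).yp‖ * pvlmH m ≤ R / 12 := eventually_all.2 fun u => lim _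
  have h3 : ∀ᶠ m in atTop, ∀ u, ‖(𝔓.ty u).ym‖ * pvlmH m ≤ R / 12 := eventually_all.2 fun u => lim _
  filter_upwards [h1, h2, h3, lim 𝔓.num.rho, lim 8] with m e1 e2 e3 e4 e5
  refine ⟨fun u => ?_, e5, e2, e3, e4⟩
  have := e1 u
  unfold pvwRad
  linarith

/-- **THE DETERMINISTIC FIT AT THE REAL MAP** = (K3) of the roof `cover` -/
theorem pvfh_main [Finite τ] (c0 : 0 < c) {𝔓 : PvxPar τ c} (hW : 𝔓.Wf) (hF : PvfhWf 𝔓) (x : ℂ) {R : ℝ} (hR : 0 < R) : ∀ᶠ m in atTop, PvxvFitAt 𝔓 x R m := by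
  filter_upwards [pvfh_arc (x := x) c0 hW hR, pvfh_cor (x := x) c0 hW hF hR, pvfh_ok (x := x) c0 hW hF hR, pvfh_fz_5R (x := x) hW hF hR, pvfh_len (x := x) c0 hR, pvfh_core_off (x := x) c0 hW hF hR,
    pvfh_scales 𝔓 hR] with m h1 h2 h3 h4 h6 h7 ⟨s1, s2, s3, s4, s5⟩
  intro ω hM hB P hP s hs t ht hst h2R hfar
  obtain ⟨𝔇, j, hA⟩ := h1 ω hM P hP s hs t ht hst h2R hfar
  obtain ⟨l, hOk, h5, hoff, hsim, hnr, hadm, hlk, hreg5⟩ := h2 ω hM hB P hP s t hs.1 ht.1 hs.2.1 ht.2.1 hfar 𝔇 j hA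
  obtain ⟨fs1, -, -, fs4⟩ := h4 ω s.ctr s.typ 𝔇.s hs.1 hA.at_s
  obtain ⟨ft1, -, -, ft4⟩ := h4 ω t.ctr t.typ 𝔇.t ht.1 hA.at_t
  have hh := pvlm_H_pos m
  have fs3 : ‖(𝔓.ty s.typ).cm (pvlmH m) s.ctr - x‖ + 𝔓.num.rho * pvlmH m ≤ 5 * R := by
    have e : (𝔓.ty s.typ).cm (pvlmH m) s.ctr - x = (s.ctr - x) + (pvlmH m : ℂ) * (𝔓.ty s.typ).ym := by unfold PvwTy.cm; ring
    have e2 : ‖(pvlmH m : ℂ) * (𝔓.ty s.typ).ym‖ = ‖(𝔓.ty s.typ).ym‖ * pvlmH m := by rw [norm_mul, Complex.norm_real, Real.norm_eq_abs, abs_of_pos hh, mul_comm]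
    have := norm_add_le (s.ctr - x) ((pvlmH m : ℂ) * (𝔓.ty s.typ).ym)
    rw [e]
    linarith [s4 s.typ, hs.1]
  have ft2 : ‖(𝔓.ty t.typ).cp (pvlmH m) t.ctr - x‖ + 𝔓.num.rho * pvlmH m ≤ 5 * R := by
    have e : (𝔓.ty t.typ).cp (pvlmH m) t.ctr - x = (t.ctr - x) + (pvlmH m : ℂ) * (𝔓.ty t.typ).yp := by unfold PvwTy.cp; ring
    have e2 : ‖(pvlmH m : ℂ) * (𝔓.ty t.typ).yp‖ = ‖(𝔓.ty t.typ).yp‖ * pvlmH m := by rw [norm_mul, Complex.norm_real, Real.norm_eq_abs, abs_of_pos hh, mul_comm]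
    have := norm_add_le (t.ctr - x) ((pvlmH m : ℂ) * (𝔓.ty t.typ).yp)
    rw [e]
    linarith [s3 t.typ, ht.1]
  obtain ⟨Zs, hZs, bZs⟩ := pvfh_hull (c := c) (m := m) hR (F := 𝔇.s.fzIn) (fun v hv => fs1 v (Or.inr hv)) fs3
  obtain ⟨Zt, hZt, bZt⟩ := pvfh_hull (c := c) (m := m) hR (F := 𝔇.t.fzOut) (fun v hv => ft1 v (Or.inl hv)) ft2
  have hδ : (𝔓.Γ m).δ = pvlmDel c m := hW.del m
  have hlen : l.length ≤ pvxLen c R m := by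
    obtain ⟨hd4, q, hq⟩ := pvfh_door_out (hF.doors m) t.typ
    obtain ⟨p, hp⟩ := ht.2.1
    refine h6 (pvfeZ (𝔓.Γ m) (pvfhP s t l)) ((𝔓.Γ m).dout t.typ) l hd4 ?_ hsim ?_
    · refine ⟨(q.1 + p.1 * (pvlmN c m : ℤ), q.2 + p.2 * (pvlmN c m : ℤ)), ?_⟩
      rw [hδ] at hq
      have hN := pvlm_N_mul_Del c m
      have e : pvfeZ (𝔓.Γ m) (pvfhP s t l) + (pvlmDel c m : ℂ) * (𝔓.Γ m).dout t.typ / 2 = t.ctr + pvtCtr (pvlmDel c m) q := by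
        rw [← hq]; unfold pvfeZ pvfhP; ring
      rw [e, hp]
      apply Complex.ext
      · simp only [l9Pt, pvtCtr, Complex.add_re]
        push_cast
        rw [← hN]; ring
      · simp only [l9Pt, pvtCtr, Complex.add_im]
        push_cast
        rw [← hN]; ring
    · intro i hi
      have := h5 i hi
      unfold pvfeD at this
      rw [hδ] at this
      exact this
  refine ⟨⟨pvfhP s t l, Zs, Zt⟩, ⟨⟨hOk, hs.2.1, ht.2.1, hs.1, ht.1, hA.col_eq, hlen, bZs, bZt⟩, ?_, ?_, ?_, ?_, hreg5 Zs Zt⟩, ?_⟩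
  · show 2 * (pvwRad 𝔓.num (pvlmH m) (𝔓.ty s.typ) 𝔓.num.K + pvwRad 𝔓.num (pvlmH m) (𝔓.ty t.typ) 𝔓.num.K) < ‖s.ctr - t.ctr‖
    linarith [s1 s.typ, s1 t.typ]
  · show 2 * pvwRad 𝔓.num (pvlmH m) (𝔓.ty s.typ) 𝔓.num.K + pvlmH m ≤ R
    linarith [s1 s.typ]
  · show 2 * pvwRad 𝔓.num (pvlmH m) (𝔓.ty t.typ) 𝔓.num.K + pvlmH m ≤ R
    linarith [s1 t.typ]
  · show PvfeIx _ _ _ _ _ (↑Zs ∪ ↑Zt)
    rw [hZs, hZt]
    refine ⟨hsim, hnr, ?_, ?_, ?_⟩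
    · rw [hδ]; exact hadm
    · rw [hδ]; exact hlk
    · show 2 * (pvwRad 𝔓.num (pvlmH m) (𝔓.ty s.typ) 𝔓.num.K + pvwRad 𝔓.num (pvlmH m) (𝔓.ty t.typ) 𝔓.num.K) + 8 * pvlmH m ≤ ‖s.ctr - t.ctr‖
      linarith [s1 s.typ, s1 t.typ]
  · refine ⟨⟨rfl, rfl⟩, ⟨rfl, rfl⟩, ⟨𝔇.s, hA.at_s⟩, ⟨𝔇.t, hA.at_t⟩, 𝔇, j, h3 ω hM P s t hs.1 ht.1 hfar 𝔇 j hA l Zs Zt hoff (h7 ω P s t hfar 𝔇 j hA l Zs Zt hadm), pvfh_actual hW hA l Zs Zt, hA.at_s, hA.at_t, hA.idx_s, hA.idx_t, ?_, hZs, hZt⟩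
    intro k hk1 hk2
    by_cases c1 : k ≤ j + 𝔇.s.inn.n
    · obtain ⟨i, rfl⟩ := Nat.exists_eq_add_of_le hk1
      rw [hA.pin_s.run i (by omega)]
      exact fs4 i (by omega)
    · by_cases c2 : k ≤ j + 𝔇.s.inn.n + 𝔇.g.n
      · obtain ⟨i, rfl⟩ := Nat.exists_eq_add_of_le (show j + 𝔇.s.inn.n ≤ k by omega)
        rw [hA.arc i (by omega)]
        have := hA.in2R i (by omega)
        linarith
      · obtain ⟨i, rfl⟩ := Nat.exists_eq_add_of_le (show j + 𝔇.s.inn.n + 𝔇.g.n ≤ k by omega)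
        rw [hA.pin_t.run i (by omega)]
        exact ft4 i (by omega)

end Claimed.Agent.R289
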