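import Claimed.Agent.R289.Tr.RingIn

/-!
# Row 289 (S0537, Cardy for Poisson-Voronoi), unit TR, ROAD P, GLUE-W, file Tr/GlueW : CONTOURS UNDER REFINEMENT, LANES ANCHORED AT THE DOORS      (owner helper205; prefix `pvgw_`, `Pvgw`, `pvgw`)

PROBLEM (GLUE-W).   The white lane `R` of a plug type is a stretch of the contour of the tube `K3` on the lattice of the MENU cells.   The white link of a pattern runs along a tube `A` of FINE cells round the arc between two pins `s`, `t`.
The link must pass through the (refined) cells of the lane `R_s` AND through those of `R_t`: a statement on the ORIENTATION of two contours which live on different lattices; no connectivity argument can give it.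
CURE.   `A` contains the PLAIN refinement of the tubes of the two plugs, the doors of `A` are the refined end doors `Dr⁻(s)`, `Dr⁺(t)`:
* §1 `PvgwMap` = a coordinatewise monotone, 1-Lipschitz, surjective map `M.ap` of the lattice (floor division `pvgwDiv`, the identity `pvgwId`);   it maps triangles to triangles of the same orientation or to degenerate ones (`pvgw_apex`);
     darts lift (`pvgw_dart_exists`), preimages of connected sets are connected (`pvgw_pre_conn`).
* §2 **`pvgw_lift`**: a dart `x'` of the contour of `A` over a dart `x` of the contour of `K` whose cells and apex are DECIDED:   `M (Step_A x') ∈ {x, Step_K x}`.      `PvgwDec`, **`pvgw_reach`** (the contour of `A` runs over a decided stretch of the contour of `K`, in the same direction).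
* §3 order on a lane from the inner interlacing of `Tr/RingIn` (`pvgw_order`);   the door stretches (`pvgw_before`, `pvgw_after`).
* §4 **`pvgw_start`** (the contour of `A` over the beginning of a lane of `K` is the beginning of THE lane of `A`),   **`pvgw_end`** (a dart of `A` over a dart of a lane of `K'` which ends at the second door lies on THE lane of `A`).
* §5 decided cells from ONE witness (`pvgw_dec_out`), hulls.
-/

set_option autoImplicit false
set_option linter.unusedSectionVars false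
set_option linter.unusedVariables false
set_option linter.unusedSimpArgs false

namespace Claimed.Agent.R289

open Relation Claims.C0467 Claimed.Agent.R291

/-! ## §1 monotone maps of the lattice -/

/-- a coordinatewise monotone, 1-Lipschitz, surjective map of the lattice -/
structure PvgwMap where
  f : ℤ → ℤ
  g : ℤ → ℤ
  f_step : ∀ x, f x ≤ f (x + 1) ∧ f (x + 1) ≤ f x + 1
  g_step : ∀ y, g y ≤ g (y + 1) ∧ g (y + 1) ≤ g y + 1
  f_surj : Function.Surjective f
  g_surj : Function.Surjective g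

/-- the map on cells -/
def PvgwMap.ap (M : PvgwMap) (v : ℤ × ℤ) : ℤ × ℤ := (M.f v.1, M.g v.2)

/-- the map on darts -/
def PvgwMap.dart (M : PvgwMap) (x : (ℤ × ℤ) × (ℤ × ℤ)) : (ℤ × ℤ) × (ℤ × ℤ) := (M.ap x.1, M.ap x.2)

/-- the refinement of a set of cells -/
def PvgwMap.pre (M : PvgwMap) (E : Set (ℤ × ℤ)) : Set (ℤ × ℤ) := {v | M.ap v ∈ E}

/-- the identity -/
def pvgwId : PvgwMap where
  f := id
  g := id
  f_step := fun x => ⟨by simp, by simp⟩
  g_step := fun x => ⟨by simp, by simp⟩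
  f_surj := Function.surjective_id
  g_surj := Function.surjective_id

theorem pvgw_div_step {k : ℤ} (hk : 0 < k) (o x : ℤ) : (x - o) / k ≤ (x + 1 - o) / k ∧ (x + 1 - o) / k ≤ (x - o) / k + 1 := by
  constructor
  · exact Int.ediv_le_ediv hk (by omega)
  · have h : (x - o + k) / k = (x - o) / k + 1 := by
      rw [Int.add_ediv_of_dvd_right (dvd_refl k), Int.ediv_self hk.ne']
    rw [← h]
    exact Int.ediv_le_ediv hk (by omega)

theorem pvgw_div_surj {k : ℤ} (hk : 0 < k) (o : ℤ) : Function.Surjective (fun x : ℤ => (x - o) / k) := by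
  intro X
  refine ⟨k * X + o, ?_⟩
  show (k * X + o - o) / k = X
  rw [add_sub_cancel_right, Int.mul_ediv_cancel_left _ hk.ne']

/-- floor division by `k` with the offset `o`: the cell `p` is cut into the `k × k` cells `k p + o ≤ v < k p + o + k` -/
def pvgwDiv (k : ℤ) (hk : 0 < k) (o : ℤ × ℤ) : PvgwMap where
  f := fun x => (x - o.1) / k
  g := fun y => (y - o.2) / k
  f_step := pvgw_div_step hk o.1
  g_step := pvgw_div_step hk o.2
  f_surj := pvgw_div_surj hk o.1
  g_surj := pvgw_div_surj hk o.2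

theorem pvgw_eqns_cite : True := by
  have := @PvgwMap.ap.eq_1; have := @PvgwMap.dart.eq_1; have := @PvgwMap.pre.eq_1; have := @pvgwId.eq_1; have := @pvgwDiv.eq_1
  trivial

section maps

variable (M : PvgwMap) {E E' : Set (ℤ × ℤ)} {a b u v : ℤ × ℤ}

theorem PvgwMap.f_pred (x : ℤ) : M.f (x - 1) ≤ M.f x ∧ M.f x ≤ M.f (x - 1) + 1 := by
  have := M.f_step (x - 1)
  rwa [sub_add_cancel] at this

theorem PvgwMap.g_pred (y : ℤ) : M.g (y - 1) ≤ M.g y ∧ M.g y ≤ M.g (y - 1) + 1 := by
  have := M.g_step (y - 1)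
  rwa [sub_add_cancel] at this

theorem PvgwMap.f_mono : Monotone M.f := monotone_int_of_le_succ fun x => (M.f_step x).1

theorem PvgwMap.g_mono : Monotone M.g := monotone_int_of_le_succ fun x => (M.g_step x).1

theorem pvgw_id_ap (v : ℤ × ℤ) : pvgwId.ap v = v := rfl

theorem pvgw_id_pre (E : Set (ℤ × ℤ)) : pvgwId.pre E = E := rfl

theorem pvgw_pre_mono (h : E ⊆ E') : M.pre E ⊆ M.pre E' := fun _ hv => h hv

theorem pvgw_pre_union : M.pre (E ∪ E') = M.pre E ∪ M.pre E' := rfl

theorem pvgw_pre_compl : M.pre Eᶜ = (M.pre E)ᶜ := rfl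

theorem pvgw_pre_disj (h : Disjoint E E') : Disjoint (M.pre E) (M.pre E') :=
  Set.disjoint_left.2 fun _ h1 h2 => Set.disjoint_left.1 h h1 h2

/-- adjacent cells have equal or adjacent images -/
theorem pvgw_adj (h : triAdj u v) : M.ap u = M.ap v ∨ triAdj (M.ap u) (M.ap v) := by
  obtain ⟨x, y⟩ := u
  obtain ⟨x', y'⟩ := v
  rw [tsc_adj_iff] at h ⊢
  simp only at h
  have f1 := M.f_step x; have f2 := M.f_pred x; have g1 := M.g_step y; have g2 := M.g_pred y
  simp only [PvgwMap.ap, Prod.mk.injEq]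
  rcases h with ⟨rfl, rfl⟩ | ⟨rfl, rfl⟩ | ⟨rfl, rfl⟩ | ⟨rfl, rfl⟩ | ⟨rfl, rfl⟩ | ⟨rfl, rfl⟩ <;> omega

/-- the apex in coordinates -/
theorem pvgw_apex_eq (x y x' y' : ℤ) : pvtrApex ((x, y), (x', y')) = (x - (y' - y), y + (x' - x) + (y' - y)) := by
  simp only [pvtrApex, pvtrRot, Prod.mk_sub_mk, Prod.mk_add_mk, Prod.mk.injEq]
  constructor <;> ring

/-- **triangles go to triangles of the same orientation, or degenerate** -/
theorem pvgw_apex (h : triAdj a b) (hne : M.ap a ≠ M.ap b) :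
    M.ap (pvtrApex (a, b)) = M.ap a ∨ M.ap (pvtrApex (a, b)) = M.ap b ∨ M.ap (pvtrApex (a, b)) = pvtrApex (M.ap a, M.ap b) := by
  obtain ⟨x, y⟩ := a
  obtain ⟨x', y'⟩ := b
  rw [tsc_adj_iff] at h
  simp only at h
  have f1 := M.f_step x; have f2 := M.f_pred x; have g1 := M.g_step y; have g2 := M.g_pred y
  simp only [PvgwMap.ap, Prod.mk.injEq, ne_eq, not_and_or] at hne
  simp only [PvgwMap.ap, pvgw_apex_eq, Prod.mk.injEq]
  rcases h with ⟨h1, h2⟩ | ⟨h1, h2⟩ | ⟨h1, h2⟩ | ⟨h1, h2⟩ | ⟨h1, h2⟩ | ⟨h1, h2⟩ <;> rw [h1, h2] at hne ⊢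
  · have e1 : x - (y - y) = x := by ring
    have e2 : y + (x + 1 - x) + (y - y) = y + 1 := by ring
    rw [e1, e2]; omega
  · have e1 : x - (y + 1 - y) = x - 1 := by ring
    have e2 : y + (x - x) + (y + 1 - y) = y + 1 := by ring
    rw [e1, e2]; omega
  · have e1 : x - (y + 1 - y) = x - 1 := by ring
    have e2 : y + (x - 1 - x) + (y + 1 - y) = y := by ring
    rw [e1, e2]; omega
  · have e1 : x - (y - y) = x := by ring
    have e2 : y + (x - 1 - x) + (y - y) = y - 1 := by ring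
    rw [e1, e2]; omega
  · have e1 : x - (y - 1 - y) = x + 1 := by ring
    have e2 : y + (x - x) + (y - 1 - y) = y - 1 := by ring
    rw [e1, e2]; omega
  · have e1 : x - (y - 1 - y) = x + 1 := by ring
    have e2 : y + (x + 1 - x) + (y - 1 - y) = y := by ring
    rw [e1, e2]; omega

/-- the last point of a fibre of a monotone 1-Lipschitz surjection of `ℤ` -/
theorem pvgw_last {f : ℤ → ℤ} (hs : ∀ x, f x ≤ f (x + 1) ∧ f (x + 1) ≤ f x + 1) (hsurj : Function.Surjective f) (X : ℤ) : ∃ x, f x = X ∧ f (x + 1) = X + 1 := by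
  obtain ⟨x0, h0⟩ := hsurj X
  obtain ⟨x1, h1⟩ := hsurj (X + 1)
  have hm : Monotone f := monotone_int_of_le_succ fun x => (hs x).1
  have hlt : x0 < x1 := by
    by_contra hc
    have := hm (not_lt.1 hc)
    omega
  have key : ∀ n : ℕ, ∀ x, f x = X → f (x + n) = X + 1 → ∃ y, f y = X ∧ f (y + 1) = X + 1 := by
    intro n
    induction n with
    | zero =>
      intro x e1 e2
      simp only [Nat.cast_zero, add_zero] at e2
      omega
    | succ n ih =>
      intro x e1 e2
      have := hs x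
      by_cases c : f (x + 1) = X
      · refine ih (x + 1) c ?_
        rw [← e2]
        congr 1
        push_cast
        ring
      · exact ⟨x, e1, by omega⟩
  refine key (x1 - x0).toNat x0 h0 ?_
  rw [Int.toNat_of_nonneg (by omega), add_sub_cancel, h1]

/-- **darts lift** -/
theorem pvgw_dart_exists (h : triAdj a b) : ∃ a' b', triAdj a' b' ∧ M.ap a' = a ∧ M.ap b' = b := by
  obtain ⟨X, Y⟩ := a
  obtain ⟨X', Y'⟩ := b
  rw [tsc_adj_iff] at h
  simp only at h
  obtain ⟨x, hx⟩ := M.f_surj X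
  obtain ⟨y, hy⟩ := M.g_surj Y
  obtain ⟨xp, xp1, xp2⟩ := pvgw_last M.f_step M.f_surj X
  obtain ⟨xm, xm1, xm2⟩ := pvgw_last M.f_step M.f_surj (X - 1)
  obtain ⟨yp, yp1, yp2⟩ := pvgw_last M.g_step M.g_surj Y
  obtain ⟨ym, ym1, ym2⟩ := pvgw_last M.g_step M.g_surj (Y - 1)
  rw [sub_add_cancel] at xm2 ym2
  rcases h with ⟨h1, h2⟩ | ⟨h1, h2⟩ | ⟨h1, h2⟩ | ⟨h1, h2⟩ | ⟨h1, h2⟩ | ⟨h1, h2⟩ <;> rw [h1, h2]
  · exact ⟨(xp, y), (xp + 1, y), by rw [tsc_adj_iff]; simp, by simp [PvgwMap.ap, xp1, hy], by simp [PvgwMap.ap, xp2, hy]⟩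
  · exact ⟨(x, yp), (x, yp + 1), by rw [tsc_adj_iff]; simp, by simp [PvgwMap.ap, hx, yp1], by simp [PvgwMap.ap, hx, yp2]⟩
  · exact ⟨(xm + 1, yp), (xm, yp + 1), by rw [tsc_adj_iff]; simp, by simp [PvgwMap.ap, xm2, yp1], by simp [PvgwMap.ap, xm1, yp2]⟩
  · exact ⟨(xm + 1, y), (xm, y), by rw [tsc_adj_iff]; simp, by simp [PvgwMap.ap, xm2, hy], by simp [PvgwMap.ap, xm1, hy]⟩
  · exact ⟨(x, ym + 1), (x, ym), by rw [tsc_adj_iff]; simp, by simp [PvgwMap.ap, hx, ym2], by simp [PvgwMap.ap, hx, ym1]⟩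
  · exact ⟨(xp, ym + 1), (xp + 1, ym), by rw [tsc_adj_iff]; simp, by simp [PvgwMap.ap, xp1, ym2], by simp [PvgwMap.ap, xp2, ym1]⟩

/-- a horizontal segment -/
theorem pvgw_seg_h {S : Set (ℤ × ℤ)} (y : ℤ) (n : ℕ) : ∀ x : ℤ, (∀ i : ℤ, x ≤ i → i ≤ x + n → (i, y) ∈ S) → TscR tscG S (x, y) (x + n, y) := by
  induction n with
  | zero =>
    intro x _
    simp only [Nat.cast_zero, add_zero]
    exact tsc_R_refl _
  | succ n ih =>
    intro x hS
    have h1 : TscR tscG S (x, y) (x + n, y) := ih x fun i h1 h2 => hS i h1 (by push_cast; omega)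
    refine h1.tail ⟨?_, hS _ (by omega) (by push_cast; omega), hS _ (by push_cast; omega) le_rfl⟩
    show triAdj _ _
    rw [tsc_adj_iff]
    left
    simp only [Nat.cast_add, Nat.cast_one, and_true]
    ring

/-- a vertical segment -/
theorem pvgw_seg_v {S : Set (ℤ × ℤ)} (x : ℤ) (n : ℕ) : ∀ y : ℤ, (∀ i : ℤ, y ≤ i → i ≤ y + n → (x, i) ∈ S) → TscR tscG S (x, y) (x, y + n) := by
  induction n with
  | zero =>
    intro y _
    simp only [Nat.cast_zero, add_zero]
    exact tsc_R_refl _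
  | succ n ih =>
    intro y hS
    have h1 : TscR tscG S (x, y) (x, y + n) := ih y fun i h1 h2 => hS i h1 (by push_cast; omega)
    refine h1.tail ⟨?_, hS _ (by omega) (by push_cast; omega), hS _ (by push_cast; omega) le_rfl⟩
    show triAdj _ _
    rw [tsc_adj_iff]
    right; left
    simp only [Nat.cast_add, Nat.cast_one, true_and]
    ring

/-- the fibres are connected -/
theorem pvgw_fibre (huv : M.ap u = M.ap v) (hu : M.ap u ∈ E) : TscR tscG (M.pre E) u v := by
  obtain ⟨x, y⟩ := u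
  obtain ⟨x', y'⟩ := v
  simp only [PvgwMap.ap, Prod.mk.injEq] at huv
  obtain ⟨e1, e2⟩ := huv
  have hf := M.f_mono
  have hg := M.g_mono
  -- horizontal move at the height `y`
  have H : TscR tscG (M.pre E) (x, y) (x', y) := by
    rcases le_total x x' with h | h
    · have := pvgw_seg_h (S := M.pre E) y (x' - x).toNat x (fun i h1 h2 => by
        rw [Int.toNat_of_nonneg (by omega)] at h2
        have a1 := hf h1
        have a2 : M.f i ≤ M.f x' := hf (by omega)
        have : M.f i = M.f x := by omega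
        show (M.f i, M.g y) ∈ E
        rw [this]; exact hu)
      rwa [Int.toNat_of_nonneg (by omega), add_sub_cancel] at this
    · have := pvgw_seg_h (S := M.pre E) y (x - x').toNat x' (fun i h1 h2 => by
        rw [Int.toNat_of_nonneg (by omega)] at h2
        have a1 := hf h1
        have a2 : M.f i ≤ M.f x := hf (by omega)
        have : M.f i = M.f x := by omega
        show (M.f i, M.g y) ∈ E
        rw [this]; exact hu)
      rw [Int.toNat_of_nonneg (by omega), add_sub_cancel] at this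
      exact tsc_R_symm this
  have V : TscR tscG (M.pre E) (x', y) (x', y') := by
    rcases le_total y y' with h | h
    · have := pvgw_seg_v (S := M.pre E) x' (y' - y).toNat y (fun i h1 h2 => by
        rw [Int.toNat_of_nonneg (by omega)] at h2
        have a1 := hg h1
        have a2 : M.g i ≤ M.g y' := hg (by omega)
        have : M.g i = M.g y := by omega
        show (M.f x', M.g i) ∈ E
        rw [this, ← e1]; exact hu)
      rwa [Int.toNat_of_nonneg (by omega), add_sub_cancel] at this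
    · have := pvgw_seg_v (S := M.pre E) x' (y - y').toNat y' (fun i h1 h2 => by
        rw [Int.toNat_of_nonneg (by omega)] at h2
        have a1 := hg h1
        have a2 : M.g i ≤ M.g y := hg (by omega)
        have : M.g i = M.g y := by omega
        show (M.f x', M.g i) ∈ E
        rw [this, ← e1]; exact hu)
      rw [Int.toNat_of_nonneg (by omega), add_sub_cancel] at this
      exact tsc_R_symm this
  exact tsc_R_trans H V

/-- paths lift -/
theorem pvgw_pre_R (hu : M.ap u ∈ E) (h : TscR tscG E (M.ap u) b) : ∀ w, M.ap w = b → TscR tscG (M.pre E) u w := by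
  induction h with
  | refl => exact fun w hw => pvgw_fibre M hw.symm hu
  | @tail b c _ hbc ih =>
    intro w hw
    obtain ⟨b', c', h1, h2, h3⟩ := pvgw_dart_exists M hbc.1
    have hb' : b' ∈ M.pre E := by show M.ap b' ∈ E; rw [h2]; exact hbc.2.1
    have hc' : c' ∈ M.pre E := by show M.ap c' ∈ E; rw [h3]; exact hbc.2.2
    exact tsc_R_trans ((ih b' h2).tail ⟨h1, hb', hc'⟩) (pvgw_fibre M (h3.trans hw.symm) hc')

/-- **the refinement of a connected set is connected** -/
theorem pvgw_pre_conn (hE : TscConn tscG E) : TscConn tscG (M.pre E) :=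
  fun u hu w hw => pvgw_pre_R M hu (hE _ hu _ hw) w rfl

/-- paths project -/
theorem pvgw_ap_R (h : TscR tscG (M.pre E) u v) : TscR tscG E (M.ap u) (M.ap v) := by
  induction h with
  | refl => exact tsc_R_refl _
  | @tail b c _ hbc ih =>
    rcases pvgw_adj M hbc.1 with e | e
    · rw [← e]; exact ih
    · exact ih.tail ⟨e, hbc.2.1, hbc.2.2⟩

theorem pvgw_pre_nonempty (h : E.Nonempty) : (M.pre E).Nonempty := by
  obtain ⟨⟨X, Y⟩, hc⟩ := h
  obtain ⟨x, hx⟩ := M.f_surj X
  obtain ⟨y, hy⟩ := M.g_surj Y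
  exact ⟨(x, y), by show (M.f x, M.g y) ∈ E; rw [hx, hy]; exact hc⟩

/-- the refinement of a finite set is finite -/
theorem pvgw_pre_finite (hE : E.Finite) : (M.pre E).Finite := by
  have h1 : ∀ c : ℤ × ℤ, (M.pre {c}).Finite := by
    rintro ⟨X, Y⟩
    obtain ⟨x0, hx0⟩ := M.f_surj (X - 1)
    obtain ⟨x1, hx1⟩ := M.f_surj (X + 1)
    obtain ⟨y0, hy0⟩ := M.g_surj (Y - 1)
    obtain ⟨y1, hy1⟩ := M.g_surj (Y + 1)
    refine ((Set.finite_Icc x0 x1).prod (Set.finite_Icc y0 y1)).subset ?_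
    rintro ⟨x, y⟩ hv
    have hv' : (M.f x, M.g y) = (X, Y) := hv
    simp only [Prod.mk.injEq] at hv'
    have hf := M.f_mono
    have hg := M.g_mono
    refine ⟨⟨?_, ?_⟩, ⟨?_, ?_⟩⟩
    · show x0 ≤ x
      by_contra hc
      have := hf (le_of_lt (not_le.1 hc))
      omega
    · show x ≤ x1
      by_contra hc
      have := hf (le_of_lt (not_le.1 hc))
      omega
    · show y0 ≤ y
      by_contra hc
      have := hg (le_of_lt (not_le.1 hc))
      omega
    · show y ≤ y1
      by_contra hc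
      have := hg (le_of_lt (not_le.1 hc))
      omega
  have h2 : M.pre E = ⋃ c ∈ E, M.pre {c} := by
    ext v
    simp only [Set.mem_iUnion, exists_prop]
    constructor
    · intro hv
      exact ⟨M.ap v, hv, rfl⟩
    · rintro ⟨c, hc, hv⟩
      have : M.ap v = c := hv
      show M.ap v ∈ E
      rw [this]; exact hc
  rw [h2]
  exact hE.biUnion fun c _ => h1 c

end maps

/-! ## §2 the contour of `A` over the contour of `K` -/

/-- the cells of the darts number `0 ≤ m ≤ c` of the orbit of `x` (contour of `K`) are DECIDED: the cells over the inner cells lie in `A`, the cells over the outer cells lie off `A` -/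
def PvgwDec (M : PvgwMap) (A K : Set (ℤ × ℤ)) (x : (ℤ × ℤ) × (ℤ × ℤ)) (c : ℕ) : Prop :=
  ∀ m ≤ c, (∀ v, M.ap v = ((pvtrStep K)^[m] x).1 → v ∈ A) ∧ (∀ v, M.ap v = ((pvtrStep K)^[m] x).2 → v ∉ A)

theorem pvgw_eqns_cite2 : True := by
  have := @PvgwDec.eq_1
  trivial

section lift

variable (M : PvgwMap) {A K : Set (ℤ × ℤ)} {x x' : (ℤ × ℤ) × (ℤ × ℤ)} {c : ℕ}

/-- **ONE STEP** -/
theorem pvgw_lift (hx' : x' ∈ pvtrBd A) (hx : M.dart x' ∈ pvtrBd K) (hin : ∀ v, M.ap v = (M.dart x').1 → v ∈ A) (hout : ∀ v, M.ap v = (M.dart x').2 → v ∉ A)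
    (hap : ∀ v, M.ap v = pvtrApex (M.dart x') → (v ∈ A ↔ pvtrApex (M.dart x') ∈ K)) :
    M.dart (pvtrStep A x') = M.dart x' ∨ M.dart (pvtrStep A x') = pvtrStep K (M.dart x') := by
  have hne : M.ap x'.1 ≠ M.ap x'.2 := fun e => hx.2.1 (by
    have : (M.dart x').2 = (M.dart x').1 := e.symm
    rw [this]; exact hx.1)
  rcases pvgw_apex M hx'.2.2 hne with e | e | e
  · left
    rw [pvtr_step_in (hin _ e)]
    show (M.ap (pvtrApex x'), M.ap x'.2) = (M.ap x'.1, M.ap x'.2)
    have : pvtrApex x' = pvtrApex (x'.1, x'.2) := rfl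
    rw [this, e]
  · left
    rw [pvtr_step_out (hout _ e)]
    show (M.ap x'.1, M.ap (pvtrApex x')) = (M.ap x'.1, M.ap x'.2)
    have : pvtrApex x' = pvtrApex (x'.1, x'.2) := rfl
    rw [this, e]
  · right
    have e' : M.ap (pvtrApex x') = pvtrApex (M.dart x') := e
    by_cases hK : pvtrApex (M.dart x') ∈ K
    · rw [pvtr_step_in ((hap _ e').2 hK), pvtr_step_in hK]
      show (M.ap (pvtrApex x'), M.ap x'.2) = _
      rw [e']; rfl
    · rw [pvtr_step_out (fun h => hK ((hap _ e').1 h)), pvtr_step_out hK]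
      show (M.ap x'.1, M.ap (pvtrApex x')) = _
      rw [e']; rfl

/-- one step on a decided stretch -/
theorem pvgw_lift_dec (hx : x ∈ pvtrBd K) (D : PvgwDec M A K x c) (hx' : x' ∈ pvtrBd A) {m : ℕ} (hm : m < c) (h : M.dart x' = (pvtrStep K)^[m] x) :
    M.dart (pvtrStep A x') = (pvtrStep K)^[m] x ∨ M.dart (pvtrStep A x') = (pvtrStep K)^[m + 1] x := by
  have hmem := pvtr_iter_mem hx m
  have hs : (pvtrStep K)^[m + 1] x = pvtrStep K ((pvtrStep K)^[m] x) := Function.iterate_succ_apply' _ _ _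
  have key := pvgw_lift M (K := K) hx' (by rw [h]; exact hmem) (by rw [h]; exact (D m hm.le).1) (by rw [h]; exact (D m hm.le).2) (by
    rw [h]
    intro v hv
    by_cases hK : pvtrApex ((pvtrStep K)^[m] x) ∈ K
    · have e : ((pvtrStep K)^[m + 1] x).1 = pvtrApex ((pvtrStep K)^[m] x) := by rw [hs, pvtr_step_in hK]
      exact ⟨fun _ => hK, fun _ => (D (m + 1) hm).1 v (by rw [e]; exact hv)⟩
    · have e : ((pvtrStep K)^[m + 1] x).2 = pvtrApex ((pvtrStep K)^[m] x) := by rw [hs, pvtr_step_out hK]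
      exact ⟨fun hA => ((D (m + 1) hm).2 v (by rw [e]; exact hv) hA).elim, fun h => (hK h).elim⟩)
  rw [h] at key
  rw [hs]
  exact key

/-- **THE CONTOUR OF `A` RUNS OVER A DECIDED STRETCH**: from a dart over `x`, before it reaches a dart which is over no dart of the stretch, it reaches a dart over the last dart of the stretch, and up to then it stays over the stretch -/
theorem pvgw_reach (hx : x ∈ pvtrBd K) (D : PvgwDec M A K x c) (hx' : x' ∈ pvtrBd A) (h0 : M.dart x' = x) {J : ℕ}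
    (hJ : ∀ m ≤ c, M.dart ((pvtrStep A)^[J] x') ≠ (pvtrStep K)^[m] x) :
    ∃ N < J, M.dart ((pvtrStep A)^[N] x') = (pvtrStep K)^[c] x ∧ ∀ i ≤ N, ∃ m ≤ c, M.dart ((pvtrStep A)^[i] x') = (pvtrStep K)^[m] x := by
  have key : ∀ i : ℕ, (∀ i' ≤ i, ∃ m ≤ c, M.dart ((pvtrStep A)^[i'] x') = (pvtrStep K)^[m] x) ∨
      ∃ N < i, M.dart ((pvtrStep A)^[N] x') = (pvtrStep K)^[c] x ∧ ∀ i' ≤ N, ∃ m ≤ c, M.dart ((pvtrStep A)^[i'] x') = (pvtrStep K)^[m] x := by
    intro i
    induction i with
    | zero =>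
      left
      intro i' hi'
      have : i' = 0 := by omega
      subst this
      exact ⟨0, Nat.zero_le _, h0⟩
    | succ i ih =>
      rcases ih with ih | ⟨N, hN, h1, h2⟩
      · obtain ⟨m, hm, e⟩ := ih i le_rfl
        rcases Nat.lt_or_ge m c with hlt | hge
        · left
          intro i' hi'
          rcases Nat.lt_or_ge i' (i + 1) with h | h
          · exact ih i' (by omega)
          · have : i' = i + 1 := by omega
            subst this
            rw [Function.iterate_succ_apply']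
            rcases pvgw_lift_dec M hx D (pvtr_iter_mem hx' i) hlt e with e' | e'
            · exact ⟨m, hm, e'⟩
            · exact ⟨m + 1, hlt, e'⟩
        · right
          have : m = c := by omega
          subst this
          exact ⟨i, by omega, e, ih⟩
      · right
        exact ⟨N, by omega, h1, h2⟩
  rcases key J with h | h
  · obtain ⟨m, hm, e⟩ := h J le_rfl
    exact (hJ m hm e).elim
  · exact h

/-- a decided dart has a dart of `A` over it -/
theorem pvgw_over (hx : x ∈ pvtrBd K) (D : PvgwDec M A K x c) {m : ℕ} (hm : m ≤ c) : ∃ x' ∈ pvtrBd A, M.dart x' = (pvtrStep K)^[m] x := by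
  obtain ⟨a', b', h1, h2, h3⟩ := pvgw_dart_exists M (pvtr_iter_mem hx m).2.2
  exact ⟨(a', b'), ⟨(D m hm).1 a' h2, (D m hm).2 b' h3, h1⟩, by show (M.ap a', M.ap b') = _; rw [h2, h3]⟩

/-- a tail of a decided stretch is decided -/
theorem PvgwDec.tail (D : PvgwDec M A K x c) {a : ℕ} (ha : a ≤ c) : PvgwDec M A K ((pvtrStep K)^[a] x) (c - a) := by
  intro m hm
  rw [← Function.iterate_add_apply]
  exact D (m + a) (by omega)

theorem PvgwDec.mono (D : PvgwDec M A K x c) {c' : ℕ} (h : c' ≤ c) : PvgwDec M A K x c' := fun m hm => D m (hm.trans h)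

end lift

/-! ## §3 order along the contour -/

section order

variable {H X Y D₁ D₂ A₁ A₂ : Set (ℤ × ℤ)} {e x : (ℤ × ℤ) × (ℤ × ℤ)} {n l i j : ℕ}

/-- **ORDER**: `X`, `Y ⊆ H` connected and disjoint, `X` hooked at the position `0`, `Y` at the position `l`: on the stretch `0..l` the places of `X` come before the places of `Y` -/
theorem pvgw_order (hH : H.Finite) (hf : HxFree H) (he : e ∈ pvtrBd H) (P : PvriPer H e n) (hX : TscConn tscG X) (hY : TscConn tscG Y) (hXH : X ⊆ H) (hYH : Y ⊆ H) (hd : Disjoint X Y)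
    (hl : l < n) (x0 : e.1 ∈ X) (yl : ((pvtrStep H)^[l] e).1 ∈ Y) (hi : i ≤ l) (hj : j ≤ l) (xi : ((pvtrStep H)^[i] e).1 ∈ X) (yj : ((pvtrStep H)^[j] e).1 ∈ Y) : i < j := by
  by_contra hc
  have hdd := Set.disjoint_left.1 hd
  have h1 : j ≠ i := fun h => hdd xi (h ▸ yj)
  have h2 : j ≠ 0 := fun h => hdd x0 (by rw [h] at yj; exact yj)
  have h3 : i ≠ l := fun h => hdd (by rw [h] at xi; exact xi) yl
  obtain ⟨a, ha1, ha2⟩ := pvri_interlace hH hf he hX hY hXH hYH (j := j) (k := i) (i := l) (n := n) (by omega) (by omega) (by omega) hl P.inj x0 xi yj yl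
  exact hdd ha1 ha2

/-- **the door stretch before a lane**: from ANY dart of the first door the contour reaches the start of the lane, and then runs along the lane, without touching the second door -/
theorem pvgw_before (S : PvriDoors H D₁ D₂ A₁ A₂) (L : PvtrLane H D₁ D₂ e l) (hx : x ∈ pvtrBd H) (hx1 : x.2 ∈ D₁) :
    ∃ a, (pvtrStep H)^[a] x = e ∧ ∀ m < a + l, ((pvtrStep H)^[m] x).2 ∉ D₂ := by
  obtain ⟨n, P⟩ := pvri_period S.fin L.mem
  obtain ⟨l0, ln⟩ := S.lane_lt L P
  have base : ∀ m < l, ((pvtrStep H)^[m] e).2 ∉ D₂ := by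
    intro m hm h2
    rcases Nat.eq_zero_or_pos m with rfl | h0
    · exact S.not_both L.mem L.start h2
    · exact L.off m h0 hm (Or.inr h2)
  obtain ⟨p, hp, rfl⟩ := P.position S.fin S.conn S.free L.mem hx
  rcases Nat.eq_zero_or_pos p with rfl | p0
  · exact ⟨0, rfl, fun m hm => base m (by omega)⟩
  have hpl : l < p := by
    by_contra hc
    rcases Nat.lt_or_ge p l with h | h
    · exact L.off p p0 h (Or.inl hx1)
    · have : p = l := by omega
      subst this
      exact S.not_both hx hx1 L.stop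
  refine ⟨n - p, ?_, ?_⟩
  · rw [← Function.iterate_add_apply, Nat.sub_add_cancel hp.le, P.per]
  · intro m hm h2
    rw [← Function.iterate_add_apply] at h2
    rcases Nat.lt_or_ge (m + p) n with h | h
    · have hm0 : m ≠ 0 := by
        rintro rfl
        rw [Nat.zero_add] at h2
        exact S.not_both hx hx1 h2
      obtain ⟨a, ha1, ha2⟩ := pvri_interlace S.fin S.free L.mem S.conn1 S.conn2 S.sub1 S.sub2 (j := l) (k := p) (i := m + p) (n := n) l0 hpl (by omega) h P.inj
        (S.in1 _ L.mem L.start) (S.in1 _ hx hx1) (S.in2 _ (pvtr_iter_mem L.mem l) L.stop) (S.in2 _ (pvtr_iter_mem L.mem _) h2)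
      exact Set.disjoint_left.1 S.disj ha1 ha2
    · have e1 : m + p = (m + p - n) + n := by omega
      rw [e1, P.add] at h2
      exact base _ (by omega) h2

/-- **the door stretch after a lane**: the contour runs along the lane and then reaches ANY dart of the second door without touching the first door again -/
theorem pvgw_after (S : PvriDoors H D₁ D₂ A₁ A₂) (L : PvtrLane H D₁ D₂ e l) (hx : x ∈ pvtrBd H) (hx2 : x.2 ∈ D₂) :
    ∃ a, (pvtrStep H)^[l + a] e = x ∧ ∀ m, 0 < m → m ≤ l + a → ((pvtrStep H)^[m] e).2 ∉ D₁ := by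
  obtain ⟨n, P⟩ := pvri_period S.fin L.mem
  obtain ⟨l0, ln⟩ := S.lane_lt L P
  obtain ⟨p, hp, rfl⟩ := P.position S.fin S.conn S.free L.mem hx
  have hpl : l ≤ p := by
    by_contra hc
    rcases Nat.eq_zero_or_pos p with rfl | p0
    · exact S.not_both L.mem L.start hx2
    · exact L.off p p0 (by omega) (Or.inr hx2)
  refine ⟨p - l, by rw [Nat.add_sub_cancel' hpl], ?_⟩
  intro m m0 hm h1
  rw [Nat.add_sub_cancel' hpl] at hm
  rcases Nat.lt_or_ge m l with h | h
  · exact L.off m m0 h (Or.inl h1)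
  rcases Nat.eq_or_lt_of_le h with h | h
  · subst h
    exact S.not_both (pvtr_iter_mem L.mem _) h1 L.stop
  rcases Nat.eq_or_lt_of_le hm with h' | h'
  · subst h'
    exact S.not_both hx h1 hx2
  obtain ⟨a, ha1, ha2⟩ := pvri_interlace S.fin S.free L.mem S.conn1 S.conn2 S.sub1 S.sub2 (j := l) (k := m) (i := p) (n := n) l0 h h' hp P.inj
    (S.in1 _ L.mem L.start) (S.in1 _ (pvtr_iter_mem L.mem _) h1) (S.in2 _ (pvtr_iter_mem L.mem l) L.stop) (S.in2 _ hx hx2)
  exact Set.disjoint_left.1 S.disj ha1 ha2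

/-- the outer cells of the darts number `a ≤ m ≤ b` -/
def pvgwOut (H : Set (ℤ × ℤ)) (e : (ℤ × ℤ) × (ℤ × ℤ)) (a b : ℕ) : Set (ℤ × ℤ) := {w | ∃ m, a ≤ m ∧ m ≤ b ∧ w = ((pvtrStep H)^[m] e).2}

theorem pvgw_eqns_cite3 : True := by
  have := @pvgwOut.eq_1
  trivial

/-- a stretch of outer cells is connected -/
theorem pvgw_out_conn (he : e ∈ pvtrBd H) (a b : ℕ) : TscConn tscG (pvgwOut H e a b) := by
  have key : ∀ k, a + k ≤ b → TscR tscG (pvgwOut H e a b) ((pvtrStep H)^[a] e).2 ((pvtrStep H)^[a + k] e).2 := by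
    intro k
    induction k with
    | zero => exact fun _ => tsc_R_refl _
    | succ k ih =>
      intro hk
      have h1 := ih (by omega)
      have e1 : (pvtrStep H)^[a + (k + 1)] e = pvtrStep H ((pvtrStep H)^[a + k] e) :=
        Function.iterate_succ_apply' (pvtrStep H) (a + k) e
      rcases pvtr_step_snd_adj (pvtr_iter_mem he (a + k)) with h | h
      · rw [e1, h]; exact h1
      · rw [e1]
        refine h1.tail ⟨h, ⟨a + k, by omega, by omega, rfl⟩, ⟨a + (k + 1), by omega, hk, by rw [e1]⟩⟩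
  have all : ∀ w ∈ pvgwOut H e a b, TscR tscG (pvgwOut H e a b) ((pvtrStep H)^[a] e).2 w := by
    rintro w ⟨m, h1, h2, rfl⟩
    have := key (m - a) (by omega)
    rwa [Nat.add_sub_cancel' h1] at this
  exact fun u hu v hv => tsc_R_trans (tsc_R_symm (all u hu)) (all v hv)

theorem pvgw_out_finite (H : Set (ℤ × ℤ)) (e : (ℤ × ℤ) × (ℤ × ℤ)) (a b : ℕ) : (pvgwOut H e a b).Finite := by
  refine ((Set.finite_Icc a b).image fun m => ((pvtrStep H)^[m] e).2).subset ?_
  rintro w ⟨m, h1, h2, rfl⟩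
  exact ⟨m, ⟨h1, h2⟩, rfl⟩

theorem pvgw_out_off (he : e ∈ pvtrBd H) (a b : ℕ) : Disjoint (pvgwOut H e a b) H := by
  rw [Set.disjoint_left]
  rintro w ⟨m, -, -, rfl⟩
  exact (pvtr_iter_mem he m).2.1

end order

/-! ## §4 lanes anchored at the doors -/

section anchor

variable (M : PvgwMap) {A K D₁ D₂ A₁ A₂ Y : Set (ℤ × ℤ)} {e x e' z' : (ℤ × ℤ) × (ℤ × ℤ)} {c l' : ℕ}

/-- **START ANCHOR**.   `e` = a dart of the contour of `K` whose outer cell is refined into the first door of `A`; the darts number `0 < m ≤ c` of its orbit are off the doors; the stretch is decided;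
the inner cells over the dart number `c` lie in a connected set `Y ⊆ A` which contains the core of the second door and misses the core of the first one.
Then the contour of `A` over this stretch is the beginning of a lane of `A` from the first door to the second one. -/
theorem pvgw_start (S : PvriDoors A D₁ D₂ A₁ A₂) (he : e ∈ pvtrBd K) (hc0 : 0 < c) (D : PvgwDec M A K e c)
    (hD1 : ∀ v, M.ap v = e.2 → v ∈ D₁) (hoff : ∀ m, 0 < m → m ≤ c → ∀ v, M.ap v = ((pvtrStep K)^[m] e).2 → v ∉ D₁ ∪ D₂)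
    (hY : TscConn tscG Y) (hYA : Y ⊆ A) (hdY : Disjoint A₁ Y) (hA2 : A₂ ⊆ Y) (hcY : ∀ v, M.ap v = ((pvtrStep K)^[c] e).1 → v ∈ Y)
    (hd2 : ∃ d ∈ pvtrBd A, d.2 ∈ D₂) :
    ∃ e' l' j, PvtrLane A D₁ D₂ e' l' ∧ M.dart e' = e ∧ 0 < j ∧ j < l' ∧ M.dart ((pvtrStep A)^[j] e') = (pvtrStep K)^[c] e ∧
      ∀ i ≤ j, ∃ m ≤ c, M.dart ((pvtrStep A)^[i] e') = (pvtrStep K)^[m] e := by
  classical
  obtain ⟨x', hx', h0⟩ := pvgw_over M he D (Nat.zero_le c)
  have h0' : M.dart x' = e := h0
  obtain ⟨n, P⟩ := pvri_period S.fin hx'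
  obtain ⟨d, hd, hdD⟩ := hd2
  obtain ⟨J, hJn, hJ⟩ := P.position S.fin S.conn S.free hx' hd
  -- a dart over the stretch: in the first door (`m = 0`) or off the doors
  have cls : ∀ y, y ∈ pvtrBd A → ∀ m ≤ c, M.dart y = (pvtrStep K)^[m] e → (m = 0 ∧ y.2 ∈ D₁) ∨ (0 < m ∧ y.2 ∉ D₁ ∪ D₂) := by
    intro y hy m hm hym
    have h2 : M.ap y.2 = ((pvtrStep K)^[m] e).2 := congrArg Prod.snd hym
    rcases Nat.eq_zero_or_pos m with rfl | hm0
    · exact Or.inl ⟨rfl, hD1 _ h2⟩
    · exact Or.inr ⟨hm0, hoff m hm0 hm _ h2⟩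
  have hJne : ∀ m ≤ c, M.dart ((pvtrStep A)^[J] x') ≠ (pvtrStep K)^[m] e := by
    intro m hm hh
    rw [hJ] at hh
    rcases cls d hd m hm hh with ⟨-, h⟩ | ⟨-, h⟩
    · exact S.not_both hd h hdD
    · exact h (Or.inr hdD)
  obtain ⟨N, hNJ, hN, hist⟩ := pvgw_reach M he D hx' h0' hJne
  have mem : ∀ i, (pvtrStep A)^[i] x' ∈ pvtrBd A := pvtr_iter_mem hx'
  -- the last dart in the first door
  set Q : ℕ → Prop := fun i => ((pvtrStep A)^[i] x').2 ∈ D₁ with hQ
  have Q0 : Q 0 := hD1 _ (congrArg Prod.snd h0')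
  set j0 := Nat.findGreatest Q N with hj0
  have hj0Q : Q j0 := Nat.findGreatest_spec (Nat.zero_le N) Q0
  have hj0N : j0 ≤ N := Nat.findGreatest_le N
  have hgr : ∀ i, j0 < i → i ≤ N → ¬ Q i := fun i h1 h2 => Nat.findGreatest_is_greatest h1 h2
  have offN : ∀ i, j0 < i → i ≤ N → ((pvtrStep A)^[i] x').2 ∉ D₁ ∪ D₂ := by
    intro i h1 h2
    obtain ⟨m, hm, hh⟩ := hist i h2
    rcases cls _ (mem i) m hm hh with ⟨-, h⟩ | ⟨-, h⟩
    · exact (hgr i h1 h2 h).elim
    · exact h
  have hNoff : ((pvtrStep A)^[N] x').2 ∉ D₁ ∪ D₂ := by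
    rcases cls _ (mem N) c le_rfl hN with ⟨h, -⟩ | ⟨-, h⟩
    · omega
    · exact h
  have hj0lt : j0 < N := by
    rcases Nat.eq_or_lt_of_le hj0N with h | h
    · exact (hNoff (Or.inl (h ▸ hj0Q))).elim
    · exact h
  have hj0e : M.dart ((pvtrStep A)^[j0] x') = e := by
    obtain ⟨m, hm, hh⟩ := hist j0 hj0N
    rcases cls _ (mem j0) m hm hh with ⟨rfl, -⟩ | ⟨-, h⟩
    · exact hh
    · exact (h (Or.inl hj0Q)).elim
  -- the first door dart after `j0`
  have hex : ∃ t, j0 < t ∧ ((pvtrStep A)^[t] x').2 ∈ D₁ ∪ D₂ := ⟨J, by omega, Or.inr (by rw [hJ]; exact hdD)⟩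
  set t1 := Nat.find hex with ht1
  have hspec : j0 < t1 ∧ ((pvtrStep A)^[t1] x').2 ∈ D₁ ∪ D₂ := Nat.find_spec hex
  obtain ⟨ht1a, ht1b⟩ := hspec
  have hmin : ∀ t, j0 < t → t < t1 → ((pvtrStep A)^[t] x').2 ∉ D₁ ∪ D₂ := fun t h1 h2 h3 => Nat.find_min hex h2 ⟨h1, h3⟩
  have ht1J : t1 ≤ J := Nat.find_min' hex ⟨by omega, Or.inr (by rw [hJ]; exact hdD)⟩
  have hNt1 : N < t1 := by
    by_contra hc
    exact offN t1 ht1a (not_lt.1 hc) ht1b
  have sh : ∀ t, j0 ≤ t → (pvtrStep A)^[t - j0] ((pvtrStep A)^[j0] x') = (pvtrStep A)^[t] x' := by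
    intro t ht
    rw [← Function.iterate_add_apply, Nat.sub_add_cancel ht]
  have stop2 : ((pvtrStep A)^[t1] x').2 ∈ D₂ := by
    rcases ht1b with h1 | h2
    · exfalso
      have hlt : t1 < J := by
        rcases Nat.eq_or_lt_of_le ht1J with h | h
        · rw [h, hJ] at h1
          exact (S.not_both hd h1 hdD).elim
        · exact h
      obtain ⟨a, ha1, ha2⟩ := pvri_interlace_cyc S.fin S.free hx' P S.conn1 hY S.sub1 hYA (p0 := j0) (p1 := N) (p2 := t1) (p3 := J) hj0lt hNt1 hlt (by omega)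
        (S.in1 _ (mem j0) hj0Q) (S.in1 _ (mem t1) h1) (hcY _ (congrArg Prod.fst hN)) (hA2 (S.in2 _ (mem J) (by rw [hJ]; exact hdD)))
      exact Set.disjoint_left.1 hdY ha1 ha2
    · exact h2
  refine ⟨(pvtrStep A)^[j0] x', t1 - j0, N - j0, ⟨mem j0, hj0Q, by rw [sh t1 ht1a.le]; exact stop2, ?_⟩, hj0e, by omega, by omega, by rw [sh N hj0N]; exact hN, ?_⟩
  · intro m m0 hm
    have := hmin (m + j0) (by omega) (by omega)
    rwa [Function.iterate_add_apply] at this
  · intro i hi
    have := hist (i + j0) (by omega)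
    rwa [Function.iterate_add_apply] at this

/-- **END ANCHOR**.   `x` = a dart of the contour of `K`, off the doors up to the dart number `c` of its orbit, whose outer cell is refined into the second door of `A`; the stretch is decided;
the inner cells over `x` lie in a connected set `Y ⊆ A` which contains the core of the first door and misses the core of the second one.      Then every dart of `A` over `x` lies on the lane of `A`. -/
theorem pvgw_end (S : PvriDoors A D₁ D₂ A₁ A₂) (L' : PvtrLane A D₁ D₂ e' l') (hx : x ∈ pvtrBd K) (D : PvgwDec M A K x c)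
    (hD2 : ∀ v, M.ap v = ((pvtrStep K)^[c] x).2 → v ∈ D₂) (hoff : ∀ m < c, ∀ v, M.ap v = ((pvtrStep K)^[m] x).2 → v ∉ D₁ ∪ D₂) (hc0 : 0 < c)
    (hY : TscConn tscG Y) (hYA : Y ⊆ A) (hdY : Disjoint A₂ Y) (hA1 : A₁ ⊆ Y) (hxY : ∀ v, M.ap v = x.1 → v ∈ Y)
    (hz' : z' ∈ pvtrBd A) (hz : M.dart z' = x) : ∃ j, 0 < j ∧ j < l' ∧ (pvtrStep A)^[j] e' = z' := by
  obtain ⟨n, P⟩ := pvri_period S.fin L'.mem
  obtain ⟨l0, ln⟩ := S.lane_lt L' P
  obtain ⟨p, hp, hpz⟩ := P.position S.fin S.conn S.free L'.mem hz'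
  have hzoff : z'.2 ∉ D₁ ∪ D₂ := hoff 0 hc0 _ (congrArg Prod.snd hz)
  have p0 : p ≠ 0 := by
    rintro rfl
    exact hzoff (Or.inl (by rw [← hpz]; exact L'.start))
  have pl : p ≠ l' := by
    rintro rfl
    exact hzoff (Or.inr (by rw [← hpz]; exact L'.stop))
  rcases Nat.lt_or_ge p l' with h | h
  · exact ⟨p, by omega, h, hpz⟩
  exfalso
  have back : (pvtrStep A)^[n - p] z' = e' := by
    rw [← hpz, ← Function.iterate_add_apply, Nat.sub_add_cancel hp.le, P.per]
  have hJne : ∀ m ≤ c, M.dart ((pvtrStep A)^[n - p] z') ≠ (pvtrStep K)^[m] x := by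
    intro m hm hh
    rw [back] at hh
    have h2 : M.ap e'.2 = ((pvtrStep K)^[m] x).2 := congrArg Prod.snd hh
    rcases Nat.lt_or_ge m c with h' | h'
    · exact hoff m h' _ h2 (Or.inl L'.start)
    · have : m = c := by omega
      subst this
      exact S.not_both L'.mem L'.start (hD2 _ h2)
  obtain ⟨N, hN1, hN2, -⟩ := pvgw_reach M hx D hz' hz hJne
  have hND : ((pvtrStep A)^[N] z').2 ∈ D₂ := hD2 _ (congrArg Prod.snd hN2)
  have hN0 : N ≠ 0 := by
    rintro rfl
    exact hzoff (Or.inr hND)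
  have eN : (pvtrStep A)^[N + p] e' = (pvtrStep A)^[N] z' := by rw [Function.iterate_add_apply, hpz]
  obtain ⟨a, ha1, ha2⟩ := pvri_interlace_cyc S.fin S.free L'.mem P S.conn2 hY S.sub2 hYA (p0 := l') (p1 := p) (p2 := N + p) (p3 := n) (by omega) (by omega) (by omega) (by omega)
    (S.in2 _ (pvtr_iter_mem L'.mem l') L'.stop) (by rw [eN]; exact S.in2 _ (pvtr_iter_mem hz' N) hND) (by rw [hpz]; exact hxY _ (congrArg Prod.fst hz))
    (by rw [P.per]; exact hA1 (S.in1 _ L'.mem L'.start))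
  exact Set.disjoint_left.1 hdY ha1 ha2

end anchor

/-! ## §5 decided cells, hulls -/

section hull

variable (M : PvgwMap) {F S : Set (ℤ × ℤ)} {v : ℤ × ℤ}

/-- **ONE WITNESS DECIDES A CONNECTED SET**: `S` connected, its refinement misses `F`, one cell over `S` is joined to infinity off `F` -/
theorem pvgw_dec_out (hS : TscConn tscG S) (hoff : Disjoint (M.pre S) F) (hv : v ∈ pvtOut F) (hvS : M.ap v ∈ S) : M.pre S ⊆ pvtOut F := by
  intro w hw
  refine pvt_out_R hv (tsc_R_mono ?_ (pvgw_pre_conn M hS v hvS w hw))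
  exact fun u hu hF => Set.disjoint_left.1 hoff hu hF

/-- the refinement of a hull lies in the hull of any set which contains the refinement -/
theorem pvgw_pre_hull {E : Set (ℤ × ℤ)} (hE : E.Finite) (h : M.pre E ⊆ F) : M.pre (pvtHull E) ⊆ pvtHull F := by
  intro w hw hout
  apply hw
  -- `w` is joined to infinity off `F`, so its image is joined to infinity off `E`
  intro B hB
  obtain ⟨t, ht, hR⟩ := hout (M.pre B) (pvgw_pre_finite M hB)
  refine ⟨M.ap t, ht, ?_⟩
  have hsub : Fᶜ ⊆ M.pre Eᶜ := fun u hu hE' => hu (h hE')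
  exact pvgw_ap_R M (tsc_R_mono hsub hR)

end hull

end Claimed.Agent.R289
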