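import Claimed.Agent.R289.Tr.ForceWI
import Claimed.Agent.R289.Tr.EndP
import Claimed.Agent.R289.Tr.ModP
import Claimed.Agent.R289.Tr.LaneS
import Claimed.Agent.R289.Tr.GlueW

/-!
# Row 289 (S0537, Cardy for Poisson-Voronoi), THE WALL, ROAD P, P16 / P16', file Tr/HookZ : THE FOUR HOOK ZONES OF A BIG PLUG AT THE MODEL OF ROAD P      (helper147; prefix `pvhh_`, `pvhh`)

`PvfpZone δ W A X Y` (272, `Tr/ForceP`): every path of the room `A` from the start `X` to the door `Y` passes through a link cell whose 3 x 3 block lies in the walk `W`, and ends off that block.      It is asked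
* by `PvqwDat.Hook` (147, `Tr/ForceWI`: fields `zs zt`, THE WHITE LANE of a pattern, P16'),      * by `PvnkLink.Geo` (272, `Tr/ForceI`: fields `z₁ z₁' z₂ z₂'`, P16) at the ends of record `pvfvEndP`, `pvfvEndM` (68, `Tr/ForceS`).
HERE: the four zones AT THE PLACED TYPES `𝔤.ty h z s` of `Tr/ModP` (8), from the corridor of 15 (`Tr/LaneP`), the type conditions (T2) (T3) of 205 (`Tr/Menu`) and the metric producer `pvnd_zone` of 272 (`Tr/EndP`).      0 sorry.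
NO ALIGNMENT of the lattice of the link (`pvlnC δ k`, ABSOLUTE coordinates, `20 δ ≤ dl h`) with the menu cells (side `dl h`, centred at `z`) is asked: the ONLY hypothesis on the walk is "every link cell which lies in the placed block .. belongs to the walk".
* sec. 1  the corridor in coordinates: `pvhh_cor_dist`, `pvhh_sq_far`, `pvhh_win_far` (`3 δc / 20` in one coordinate), `pvhh_mem_cth`, `pvhh_cover`, `pvhh_disj`, `pvhh_far`;   **`pvhh_zone_up`**, **`pvhh_zone_dn`** : hook in the windows `j+1 .. j+3` of ANY index `j`.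
* sec. 2  the two ends: `pvhh_loc`, `pvhh_C_last`, `pvhh_C_first`, `pvhh_blocks`, `pvhh_off_ball`, `pvhh_A1_mem`, `pvhh_A0_mem` (`A1 ∈ N⁹ C₉`, `A0 ∈ N⁹ C₀`), `pvhh_off_tube` (the strip misses `U(N² cells)`).
* sec. 3  WHITE.   THE HOOK IS AT THE END OF THE LANE (windows `N-5 .. N-3`, door = window `N`;  entrance: windows `3 .. 5`, door = window `0`): the start `Mp ∩ S₂`-zone must lie BEFORE the hook, which is free there (`pvhh_A1_off`: the block of `A1` misses `B(z, rB h)`).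
     **`pvhh_zone_pG`**, **`pvhh_zone_mG`** = GENERIC FORM (room = neighbourhood of ANY `M ⊆ strip ∪ B(z, rO h)`, start in `B(z, rO h)`, door in the last / first window: survives the SIDE-SEP switch of `Mp Mm` and the FOOT strips `Tp Tm` of ruling P13),
     `pvhh_door_p _m`, **`pvhh_zone_pT`**, **`pvhh_zone_mT`** (`Mp ∪ Tp`, `Mm ∪ Tm`),   **`pvhh_zone_p`** (walk `⊇` link cells of `z + U(N¹ {pvlpA1})`),   **`pvhh_zone_m`** (`pvlpA0`).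
* sec. 4  BLACK.   `pvhh_zone_cells` (three sets of coarse cells);   **`pvhh_zone_bp`** (hook in the piece 7: walk `⊇` link cells of `z + U(N³ C₇)`),   **`pvhh_zone_bm`** (piece 2).
* sec. 5  `pvhhDat 𝔤 h zs s zt t δ L : PvqwDat`,   `pvhh_dat_wf`, **`pvhh_dat_hook`**, **`pvhh_dat_exists`** (from a finite connected polyomino), `pvhh_W_congr`, `pvhh_U_congr`.
* sec. 6  GLUE-W (205):   **`pvhh_div_mem`** (DICTIONARY: `dl h = κ δ`, `z = pvmgPt δ o`: a link cell which lies in the placed set `E` of menu cells lies over a cell of `E`, `(pvgwDiv κ hκ o).ap k ∈ E`), `pvhh_conn` (`TscConn pvtbG4` ⟹ the words of `pvfp_walk_exists`),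
     **`pvhh_dat_of_maps`** : `Wc` finite, `pvtbG4`-connected, `Ms.pre (N¹ {A1(s)}) ∪ Mt.pre (N¹ {A0(t)}) ⊆ Wc`  ⟹  `∃ L, {k | k ∈ L} = Wc ∧ Wf ∧ Hook`   (at `Wc := pvgwW Ms Mt A1 A0 S` of `Tr/GlueWT`).
-/

set_option autoImplicit false
set_option linter.unusedSectionVars false
set_option linter.unusedVariables false

namespace Claimed.Agent.R289

open Set Metric Claims.C0467 Claimed.Agent.R291

/-! ## 1. the corridor: coordinates -/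

/-- a corridor moves by one cell at each step -/
theorem pvhh_cor_dist {n : ℕ} {c : ℕ → ℤ × ℤ} (h : PvtbCor n c) (i : ℕ) : ∀ d : ℕ, i + d ≤ n →
    |(c (i + d)).1 - (c i).1| ≤ d ∧ |(c (i + d)).2 - (c i).2| ≤ d := by
  intro d
  induction d with
  | zero => intro _; simp
  | succ d ih =>
    intro hd
    obtain ⟨h1, h2⟩ := ih (by omega)
    have hs := h.step (i + d) (by omega)
    rw [abs_le] at h1 h2
    rw [show i + (d + 1) = i + d + 1 by omega, abs_le, abs_le]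
    push_cast
    rcases hs with ⟨a, b⟩ | ⟨a, b⟩ | ⟨a, b⟩ | ⟨a, b⟩ <;> rw [a, b] <;> refine ⟨⟨?_, ?_⟩, ?_, ?_⟩ <;> omega

/-- windows of two cells which neither coincide nor touch are `3 δ / 20` apart in one coordinate -/
theorem pvhh_sq_far {δ : ℝ} (hδ : 0 < δ) {u v : ℤ × ℤ} (h1 : u ≠ v) (h2 : ¬ pvtbG8.Adj u v) {p q : ℂ} (hp : p ∈ pvlpSq (pvtCtr (δ / 5) u) (δ / 8)) (hq : q ∈ pvlpSq (pvtCtr (δ / 5) v) (δ / 8)) :
    3 * δ / 20 ≤ |q.re - p.re| ∨ 3 * δ / 20 ≤ |q.im - p.im| := by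
  obtain ⟨p1, p2⟩ := hp
  obtain ⟨q1, q2⟩ := hq
  simp only [pvtCtr] at p1 p2 q1 q2
  rw [abs_le] at p1 p2 q1 q2
  have key : ∀ (a b : ℤ) (x y : ℝ), a + 2 ≤ b → x - ((a : ℝ) + 1 / 2) * (δ / 5) ≤ δ / 8 → -(δ / 8) ≤ y - ((b : ℝ) + 1 / 2) * (δ / 5) → 3 * δ / 20 ≤ y - x := by
    intro a b x y hab hx hy
    have h' : (a : ℝ) + 2 ≤ (b : ℝ) := by exact_mod_cast hab
    have k : ((a : ℝ) + 2) * δ ≤ (b : ℝ) * δ := mul_le_mul_of_nonneg_right h' hδ.le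
    nlinarith
  have hcase : u.1 + 2 ≤ v.1 ∨ v.1 + 2 ≤ u.1 ∨ u.2 + 2 ≤ v.2 ∨ v.2 + 2 ≤ u.2 := by
    by_contra hc
    push Not at hc
    exact h2 ⟨h1, by omega, by omega, by omega, by omega⟩
  rcases hcase with hc | hc | hc | hc
  · left; exact le_trans (key _ _ _ _ hc p1.2 q1.1) (le_abs_self _)
  · left; rw [abs_sub_comm]; exact le_trans (key _ _ _ _ hc q1.2 p1.1) (le_abs_self _)
  · right; exact le_trans (key _ _ _ _ hc p2.2 q2.1) (le_abs_self _)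
  · right; rw [abs_sub_comm]; exact le_trans (key _ _ _ _ hc q2.2 p2.1) (le_abs_self _)

section win

variable {𝔑 : PvmnNum} {τ : PvmnType} {ln : ((ℤ × ℤ) × (ℤ × ℤ)) × ℕ} {δc μ : ℝ} {z : ℂ} {a b a' b' : ℕ}

/-- far windows, coordinate form -/
theorem pvhh_win_far (hτ : PvmnIsType 𝔑 τ) (hl : PvmnLaneR τ ln.1 ln.2) (hδ : 0 < δc) (hab : b + 3 ≤ a') (hb' : b' ≤ pvlpN τ ln) {p q : ℂ} (hp : p ∈ pvlpWin δc τ ln a b) (hq : q ∈ pvlpWin δc τ ln a' b') :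
    3 * δc / 20 ≤ |q.re - p.re| ∨ 3 * δc / 20 ≤ |q.im - p.im| := by
  obtain ⟨i, h1, h2, h3⟩ := pvlp_mem_win.1 hp
  obtain ⟨j, h4, h5, h6⟩ := pvlp_mem_win.1 hq
  obtain ⟨n1, n2⟩ := (pvlp_C_cor hτ hl).far i j (by omega) (by omega)
  exact pvhh_sq_far hδ n1 n2 h3 h6

/-- the closed neighbourhood of a placed window -/
theorem pvhh_mem_cth (hμ : 0 ≤ μ) {w : ℂ} : w ∈ cthickening μ (PvmhNum.at' z (pvlpWin δc τ ln a b)) ↔ ∃ p ∈ pvlpWin δc τ ln a b, ‖w - (p + z)‖ ≤ μ := by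
  have hc : IsCompact (PvmhNum.at' z (pvlpWin δc τ ln a b)) := (pvlp_win_compact δc τ ln a b).image (continuous_id.add continuous_const)
  rw [hc.cthickening_eq_biUnion_closedBall hμ]
  simp only [mem_iUnion, exists_prop, mem_closedBall, dist_eq_norm]
  constructor
  · rintro ⟨_, ⟨p, hp, rfl⟩, h⟩
    exact ⟨p, hp, h⟩
  · rintro ⟨p, hp, h⟩
    exact ⟨_, ⟨p, hp, rfl⟩, h⟩

/-- three parts of a window -/
theorem pvhh_cover (hμ : 0 ≤ μ) (j : ℕ) : cthickening μ (PvmhNum.at' z (pvlpWin δc τ ln a b)) ⊆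
    cthickening μ (PvmhNum.at' z (pvlpWin δc τ ln a j)) ∪ cthickening μ (PvmhNum.at' z (pvlpWin δc τ ln (j + 1) (j + 3))) ∪ cthickening μ (PvmhNum.at' z (pvlpWin δc τ ln (j + 4) b)) := by
  intro w hw
  obtain ⟨p, hp, hwp⟩ := (pvhh_mem_cth hμ).1 hw
  obtain ⟨i, h1, h2, h3⟩ := pvlp_mem_win.1 hp
  by_cases c1 : i ≤ j
  · exact Or.inl (Or.inl ((pvhh_mem_cth hμ).2 ⟨p, pvlp_mem_win.2 ⟨i, h1, c1, h3⟩, hwp⟩))
  by_cases c2 : i ≤ j + 3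
  · exact Or.inl (Or.inr ((pvhh_mem_cth hμ).2 ⟨p, pvlp_mem_win.2 ⟨i, by omega, c2, h3⟩, hwp⟩))
  · exact Or.inr ((pvhh_mem_cth hμ).2 ⟨p, pvlp_mem_win.2 ⟨i, by omega, h2, h3⟩, hwp⟩)

/-- the neighbourhoods of far windows are disjoint -/
theorem pvhh_disj (hτ : PvmnIsType 𝔑 τ) (hl : PvmnLaneR τ ln.1 ln.2) (hδ : 0 < δc) (hμ : 0 ≤ μ) (hμ' : 20 * μ ≤ δc) (hab : b + 3 ≤ a') (hb' : b' ≤ pvlpN τ ln) :
    Disjoint (cthickening μ (PvmhNum.at' z (pvlpWin δc τ ln a b))) (cthickening μ (PvmhNum.at' z (pvlpWin δc τ ln a' b'))) := by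
  rw [disjoint_left]
  intro w h1 h2
  obtain ⟨p, hp, hwp⟩ := (pvhh_mem_cth hμ).1 h1
  obtain ⟨q, hq, hwq⟩ := (pvhh_mem_cth hμ).1 h2
  have h3 := pvlp_win_far hτ hl hδ hab hb' hp hq
  have h4 : ‖q - p‖ ≤ ‖w - (p + z)‖ + ‖w - (q + z)‖ := by
    have e : q - p = (w - (p + z)) - (w - (q + z)) := by ring
    rw [e]
    exact norm_sub_le _ _
  linarith

/-- a point of the neighbourhood of a window is far, in one coordinate, from a far window -/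
theorem pvhh_far (hτ : PvmnIsType 𝔑 τ) (hl : PvmnLaneR τ ln.1 ln.2) (hδ : 0 < δc) (hμ : 0 ≤ μ) (hμ' : 20 * μ ≤ δc) (hN : b ≤ pvlpN τ ln) (hN' : b' ≤ pvlpN τ ln) (hab : b + 3 ≤ a' ∨ b' + 3 ≤ a)
    {w y : ℂ} (hw : w ∈ cthickening μ (PvmhNum.at' z (pvlpWin δc τ ln a b))) (hy : y ∈ PvmhNum.at' z (pvlpWin δc τ ln a' b')) :
    δc / 10 ≤ |y.re - w.re| ∨ δc / 10 ≤ |y.im - w.im| := by
  obtain ⟨p, hp, hwp⟩ := (pvhh_mem_cth hμ).1 hw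
  obtain ⟨q, hq, rfl⟩ := hy
  have h1 : 3 * δc / 20 ≤ |q.re - p.re| ∨ 3 * δc / 20 ≤ |q.im - p.im| := by
    rcases hab with h | h
    · exact pvhh_win_far hτ hl hδ h hN' hp hq
    · have := pvhh_win_far hτ hl hδ h hN hq hp
      rwa [abs_sub_comm p.re, abs_sub_comm p.im] at this
  have h2 : |(w - (p + z)).re| ≤ μ := (Complex.abs_re_le_norm _).trans hwp
  have h3 : |(w - (p + z)).im| ≤ μ := (Complex.abs_im_le_norm _).trans hwp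
  simp only [Complex.sub_re, Complex.add_re, Complex.sub_im, Complex.add_im] at h2 h3 ⊢
  rcases h1 with h | h
  · left
    have e : q.re - p.re = (q.re + z.re - w.re) + (w.re - (p.re + z.re)) := by ring
    have := abs_add_le (q.re + z.re - w.re) (w.re - (p.re + z.re))
    rw [← e] at this
    linarith
  · right
    have e : q.im - p.im = (q.im + z.im - w.im) + (w.im - (p.im + z.im)) := by ring
    have := abs_add_le (q.im + z.im - w.im) (w.im - (p.im + z.im))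
    rw [← e] at this
    linarith

/-- **ZONE, UPWARDS**: the paths of the neighbourhood of the windows `a..b` from the windows `≤ j` to the windows `≥ j + 6` are hooked in the windows `j+1 .. j+3` -/
theorem pvhh_zone_up (hτ : PvmnIsType 𝔑 τ) (hl : PvmnLaneR τ ln.1 ln.2) (hδc : 0 < δc) (hμ : 0 ≤ μ) (hμ' : 20 * μ ≤ δc) {δ : ℝ} (hδ : 0 < δ) (h20 : 20 * δ ≤ δc) (hb : b ≤ pvlpN τ ln) (j : ℕ) (hj : j + 3 ≤ pvlpN τ ln)
    {W : Set (ℤ × ℤ)} {X Y : Set ℂ} (hX : X ⊆ PvmhNum.at' z (pvlpWin δc τ ln a j)) (hY : Y ⊆ PvmhNum.at' z (pvlpWin δc τ ln (j + 6) b))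
    (hZ : ∀ k, (pvlnC δ k ∩ cthickening μ (PvmhNum.at' z (pvlpWin δc τ ln (j + 1) (j + 3)))).Nonempty → pvfpBlk k ⊆ W) :
    PvfpZone δ W (cthickening μ (PvmhNum.at' z (pvlpWin δc τ ln a b))) X Y := by
  refine pvnd_zone hδ (pvhh_cover hμ j) isClosed_cthickening isClosed_cthickening (pvhh_disj hτ hl hδc hμ hμ' (by omega) hb)
    (hX.trans (self_subset_cthickening _)) ((hY.trans (image_mono (pvlp_win_mono (by omega) le_rfl))).trans (self_subset_cthickening _)) hZ ?_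
  intro p hp y hy
  rcases pvhh_far hτ hl hδc hμ hμ' hj hb (Or.inl (by omega)) hp (hY hy) with h | h
  · left; linarith
  · right; linarith

/-- **ZONE, DOWNWARDS**: from the windows `≥ j + 4` to the windows `≤ j'`, `j' + 2 ≤ j` -/
theorem pvhh_zone_dn (hτ : PvmnIsType 𝔑 τ) (hl : PvmnLaneR τ ln.1 ln.2) (hδc : 0 < δc) (hμ : 0 ≤ μ) (hμ' : 20 * μ ≤ δc) {δ : ℝ} (hδ : 0 < δ) (h20 : 20 * δ ≤ δc) (hb : b ≤ pvlpN τ ln) (j j' : ℕ) (hj : j + 3 ≤ pvlpN τ ln) (hj' : j' + 2 ≤ j)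
    {W : Set (ℤ × ℤ)} {X Y : Set ℂ} (hX : X ⊆ PvmhNum.at' z (pvlpWin δc τ ln (j + 4) b)) (hY : Y ⊆ PvmhNum.at' z (pvlpWin δc τ ln a j'))
    (hZ : ∀ k, (pvlnC δ k ∩ cthickening μ (PvmhNum.at' z (pvlpWin δc τ ln (j + 1) (j + 3)))).Nonempty → pvfpBlk k ⊆ W) :
    PvfpZone δ W (cthickening μ (PvmhNum.at' z (pvlpWin δc τ ln a b))) X Y := by
  have hcov : cthickening μ (PvmhNum.at' z (pvlpWin δc τ ln a b)) ⊆
      cthickening μ (PvmhNum.at' z (pvlpWin δc τ ln (j + 4) b)) ∪ cthickening μ (PvmhNum.at' z (pvlpWin δc τ ln (j + 1) (j + 3))) ∪ cthickening μ (PvmhNum.at' z (pvlpWin δc τ ln a j)) := by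
    intro w hw
    rcases pvhh_cover hμ j hw with (h | h) | h
    · exact Or.inr h
    · exact Or.inl (Or.inr h)
    · exact Or.inl (Or.inl h)
  refine pvnd_zone hδ hcov isClosed_cthickening isClosed_cthickening (pvhh_disj hτ hl hδc hμ hμ' (by omega) hb).symm
    (hX.trans (self_subset_cthickening _)) ((hY.trans (image_mono (pvlp_win_mono le_rfl (by omega)))).trans (self_subset_cthickening _)) hZ ?_
  intro p hp y hy
  rcases pvhh_far hτ hl hδc hμ hμ' hj (by omega) (Or.inr (by omega)) hp (hY hy) with h | h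
  · left; linarith
  · right; linarith

end win

/-! ## 2. the two ends of the corridor: location -/

/-- a point near the window of a fine cell which is at most 5 steps from the central fine cell of the coarse cell `c0` lies in the 3 x 3 block of `c0` -/
theorem pvhh_loc {δc : ℝ} (hδ : 0 < δc) {z : ℂ} {c0 C : ℤ × ℤ} (h1 : |C.1 - (5 * c0.1 + 2)| ≤ 5) (h2 : |C.2 - (5 * c0.2 + 2)| ≤ 5) {p v : ℂ} (hp : p ∈ pvlpSq (pvtCtr (δc / 5) C) (δc / 8))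
    (hre : |v.re - (p.re + z.re)| ≤ 3 * δc / 10) (him : |v.im - (p.im + z.im)| ≤ 3 * δc / 10) : v ∈ pvmgPl z δc (pvtwN 1 {c0}) := by
  obtain ⟨p1, p2⟩ := hp
  simp only [pvtCtr] at p1 p2
  rw [abs_le] at p1 p2 hre him h1 h2
  have key : ∀ (c C : ℤ) (x y : ℝ), -5 ≤ C - (5 * c + 2) → C - (5 * c + 2) ≤ 5 → -(δc / 8) ≤ x - ((C : ℝ) + 1 / 2) * (δc / 5) → x - ((C : ℝ) + 1 / 2) * (δc / 5) ≤ δc / 8 →
      -(3 * δc / 10) ≤ y - x → y - x ≤ 3 * δc / 10 → ((c : ℝ) - 1) * δc ≤ y ∧ y ≤ ((c : ℝ) + 2) * δc := by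
    intro c C x y a1 a2 b1 b2 c1 c2
    have a1' : (-5 : ℝ) ≤ (C : ℝ) - (5 * (c : ℝ) + 2) := by exact_mod_cast a1
    have a2' : (C : ℝ) - (5 * (c : ℝ) + 2) ≤ 5 := by exact_mod_cast a2
    have k1 : (5 * (c : ℝ) - 3) * δc ≤ (C : ℝ) * δc := mul_le_mul_of_nonneg_right (by linarith) hδ.le
    have k2 : (C : ℝ) * δc ≤ (5 * (c : ℝ) + 7) * δc := mul_le_mul_of_nonneg_right (by linarith) hδ.le
    constructor <;> nlinarith
  obtain ⟨a1, a2⟩ := key c0.1 C.1 p.re (v - z).re h1.1 h1.2 p1.1 p1.2 (by rw [Complex.sub_re]; linarith [hre.1]) (by rw [Complex.sub_re]; linarith [hre.2])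
  obtain ⟨b1, b2⟩ := key c0.2 C.2 p.im (v - z).im h2.1 h2.2 p2.1 p2.2 (by rw [Complex.sub_im]; linarith [him.1]) (by rw [Complex.sub_im]; linarith [him.2])
  obtain ⟨w1, u1, u2, u3, u4⟩ := pvlp_three hδ c0.1 _ a1 a2
  obtain ⟨w2, v1, v2, v3, v4⟩ := pvlp_three hδ c0.2 _ b1 b2
  refine pvmg_mem_sq.2 ⟨(w1, w2), ⟨c0, rfl, ?_, ?_, ?_, ?_⟩, u3, u4, v3, v4⟩
  · show w1 ≤ c0.1 + ((1 : ℕ) : ℤ)
    push_cast; exact u1
  · show c0.1 ≤ w1 + ((1 : ℕ) : ℤ)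
    push_cast; exact u2
  · show w2 ≤ c0.2 + ((1 : ℕ) : ℤ)
    push_cast; exact v1
  · show c0.2 ≤ w2 + ((1 : ℕ) : ℤ)
    push_cast; exact v2

section ends

variable {𝔑 : PvmnNum} {τ : PvmnType} {ln : ((ℤ × ℤ) × (ℤ × ℤ)) × ℕ} {δc μ : ℝ} {z : ℂ} {a b : ℕ}

/-- the last six cells of the corridor -/
theorem pvhh_C_last (hτ : PvmnIsType 𝔑 τ) (hl : PvmnLaneR τ ln.1 ln.2) {i : ℕ} (hi : i ≤ pvlpN τ ln) (hi' : pvlpN τ ln ≤ i + 5) :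
    |(pvlpC τ ln i).1 - (5 * (pvlpA1 τ ln).1 + 2)| ≤ 5 ∧ |(pvlpC τ ln i).2 - (5 * (pvlpA1 τ ln).2 + 2)| ≤ 5 := by
  obtain ⟨d, hd⟩ := Nat.exists_eq_add_of_le hi
  obtain ⟨h1, h2⟩ := pvhh_cor_dist (pvlp_C_cor hτ hl) i d (by omega)
  rw [← hd, pvlp_C_last hτ hl] at h1 h2
  simp only at h1 h2
  have hd5 : (d : ℤ) ≤ 5 := by omega
  rw [abs_sub_comm] at h1 h2
  exact ⟨h1.trans hd5, h2.trans hd5⟩

/-- the first six cells of the corridor -/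
theorem pvhh_C_first (hτ : PvmnIsType 𝔑 τ) (hl : PvmnLaneR τ ln.1 ln.2) {i : ℕ} (hi : i ≤ pvlpN τ ln) (hi' : i ≤ 5) :
    |(pvlpC τ ln i).1 - (5 * (pvlpA0 τ ln).1 + 2)| ≤ 5 ∧ |(pvlpC τ ln i).2 - (5 * (pvlpA0 τ ln).2 + 2)| ≤ 5 := by
  obtain ⟨h1, h2⟩ := pvhh_cor_dist (pvlp_C_cor hτ hl) 0 i (by omega)
  rw [Nat.zero_add, pvlp_C_zero hτ hl] at h1 h2
  simp only at h1 h2
  have hd5 : (i : ℤ) ≤ 5 := by omega
  exact ⟨h1.trans hd5, h2.trans hd5⟩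

/-- the blocks of the link cells which meet the neighbourhood of windows near the centre of the coarse cell `c0` consist of cells of the 3 x 3 block of `c0` -/
theorem pvhh_blocks (hδc : 0 < δc) (hμ : 0 ≤ μ) (hμ' : 20 * μ ≤ δc) {δ : ℝ} (hδ : 0 < δ) (h20 : 20 * δ ≤ δc) {c0 : ℤ × ℤ}
    (hC : ∀ i, a ≤ i → i ≤ b → |(pvlpC τ ln i).1 - (5 * c0.1 + 2)| ≤ 5 ∧ |(pvlpC τ ln i).2 - (5 * c0.2 + 2)| ≤ 5)
    {W : Set (ℤ × ℤ)} (hW : ∀ k, pvlnC δ k ⊆ pvmgPl z δc (pvtwN 1 {c0}) → k ∈ W) (k : ℤ × ℤ) (hk : (pvlnC δ k ∩ cthickening μ (PvmhNum.at' z (pvlpWin δc τ ln a b))).Nonempty) : pvfpBlk k ⊆ W := by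
  obtain ⟨w, ⟨w1, w2, w3, w4⟩, hw⟩ := hk
  obtain ⟨p, hp, hwp⟩ := (pvhh_mem_cth hμ).1 hw
  obtain ⟨i, i1, i2, hpi⟩ := pvlp_mem_win.1 hp
  obtain ⟨c1, c2⟩ := hC i i1 i2
  have h2 : |(w - (p + z)).re| ≤ μ := (Complex.abs_re_le_norm _).trans hwp
  have h3 : |(w - (p + z)).im| ≤ μ := (Complex.abs_im_le_norm _).trans hwp
  simp only [Complex.sub_re, Complex.add_re, Complex.sub_im, Complex.add_im] at h2 h3
  rw [abs_le] at h2 h3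
  rintro k' ⟨k1, k2⟩
  rw [abs_le] at k1 k2
  refine hW k' ?_
  rintro v ⟨v1, v2, v3, v4⟩
  have e1 : (-1 : ℝ) ≤ (k'.1 : ℝ) - (k.1 : ℝ) := by exact_mod_cast k1.1
  have e2 : (k'.1 : ℝ) - (k.1 : ℝ) ≤ 1 := by exact_mod_cast k1.2
  have e3 : (-1 : ℝ) ≤ (k'.2 : ℝ) - (k.2 : ℝ) := by exact_mod_cast k2.1
  have e4 : (k'.2 : ℝ) - (k.2 : ℝ) ≤ 1 := by exact_mod_cast k2.2
  refine pvhh_loc hδc c1 c2 hpi ?_ ?_
  · rw [abs_le]
    constructor <;> nlinarith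
  · rw [abs_le]
    constructor <;> nlinarith

/-- the 3 x 3 block of a coarse cell of the 9-collar of a piece `≠ 4, 5` misses the ball part of the obstacle -/
theorem pvhh_off_ball (hτ : PvmnIsType 𝔑 τ) (hδc : 0 < δc) {c0 : ℤ × ℤ} {k : Fin 10} (h4 : k.1 ≠ 4) (h5 : k.1 ≠ 5) (hc : c0 ∈ pvtwN 9 (τ.C k : Set (ℤ × ℤ))) :
    Disjoint (pvmgPl z δc (pvtwN 1 {c0})) (closedBall z (δc * 𝔑.rB)) := by
  rw [disjoint_left]
  intro x hx hb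
  obtain ⟨c, hc1, hxc⟩ := pvmg_mem_sq.1 hx
  have h10 : c ∈ pvtwN 10 (τ.C k : Set (ℤ × ℤ)) := by
    have : c ∈ pvtwN 1 (pvtwN 9 (τ.C k : Set (ℤ × ℤ))) := pvtw_N_mono le_rfl (singleton_subset_iff.2 hc) hc1
    rwa [pvtw_N_add] at this
  have hB : c ∈ pvmnBl 𝔑.rB := by
    rw [← pvmn_Bl_scale hδc]
    refine ⟨x - z, hxc, ?_⟩
    rw [mem_closedBall, dist_eq_norm] at hb
    rw [mem_closedBall, dist_zero_right]
    exact hb
  exact (disjoint_left.1 (hτ.ball k h4 h5)) h10 hB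

theorem pvhh_A1_mem (hτ : PvmnIsType 𝔑 τ) (hl : PvmnLaneR τ ln.1 ln.2) : pvlpA1 τ ln ∈ pvtwN 9 (τ.C 9 : Set (ℤ × ℤ)) := by
  obtain ⟨-, x, hx, hadj⟩ := pvlp_A1 hτ hl
  have : pvlpA1 τ ln ∈ pvtwN 1 (pvtwN 8 (τ.C 9 : Set (ℤ × ℤ))) := by
    refine ⟨x, hx, ?_⟩
    have e1 : (x - pvlpA1 τ ln).1 = x.1 - (pvlpA1 τ ln).1 := rfl
    have e2 : (x - pvlpA1 τ ln).2 = x.2 - (pvlpA1 τ ln).2 := rfl
    push_cast
    rcases hadj with h | h | h | h | h | h <;> rw [h] at e1 e2 <;> simp only at e1 e2 <;> refine ⟨?_, ?_, ?_, ?_⟩ <;> omega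
  rwa [pvtw_N_add] at this

theorem pvhh_A0_mem (hτ : PvmnIsType 𝔑 τ) (hl : PvmnLaneR τ ln.1 ln.2) : pvlpA0 τ ln ∈ pvtwN 9 (τ.C 0 : Set (ℤ × ℤ)) := by
  obtain ⟨-, x, hx, hadj⟩ := pvlp_A0 hτ hl
  have : pvlpA0 τ ln ∈ pvtwN 1 (pvtwN 8 (τ.C 0 : Set (ℤ × ℤ))) := by
    refine ⟨x, hx, ?_⟩
    have e1 : (pvlpA0 τ ln - x).1 = (pvlpA0 τ ln).1 - x.1 := rfl
    have e2 : (pvlpA0 τ ln - x).2 = (pvlpA0 τ ln).2 - x.2 := rfl
    push_cast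
    rcases hadj with h | h | h | h | h | h <;> rw [h] at e1 e2 <;> simp only at e1 e2 <;> refine ⟨?_, ?_, ?_, ?_⟩ <;> omega
  rwa [pvtw_N_add] at this

/-- the strip misses the black tubes -/
theorem pvhh_off_tube (hτ : PvmnIsType 𝔑 τ) (hl : PvmnLaneR τ ln.1 ln.2) (hδc : 0 < δc) (hb : b ≤ pvlpN τ ln) :
    Disjoint (PvmhNum.at' z (pvlpWin δc τ ln a b)) (pvmgPl z δc (pvtwN 2 (pvmnCells τ 0 9))) := by
  rw [disjoint_left]
  intro y hy hy'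
  have h1 : y ∈ pvmgPl z δc (pvtwN 1 (pvlpR τ ln)) := image_mono (pvlp_win_sub hτ hl hδc hb) hy
  obtain ⟨c, ⟨hc1, r, hr, r1, r2, r3, r4⟩, -⟩ := pvmg_mem_sq.1 (pvmg_inter hδc ⟨hy', h1⟩)
  rw [pvtw_N_add] at hc1
  have h4 : r ∈ pvtwN 1 (pvtwN (1 + 2) (pvmnCells τ 0 9)) := ⟨c, hc1, r2, r1, r4, r3⟩
  rw [pvtw_N_add] at h4
  exact (pvlp_R_sub hτ hl hr).1.2 (pvt_hull_sub h4)

end ends

/-- a point of the closed `μ`-neighbourhood is within `μ'` of the set, `μ < μ'` -/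
theorem pvhh_cth_near {μ μ' : ℝ} (h0 : 0 < μ') (h : μ < μ') {S : Set ℂ} {w : ℂ} (hw : w ∈ cthickening μ S) : ∃ p ∈ S, ‖w - p‖ < μ' := by
  obtain ⟨p, hp, hd⟩ := mem_thickening_iff.1 (cthickening_subset_thickening' h0 h S hw)
  exact ⟨p, hp, by rwa [← dist_eq_norm]⟩

section tube

variable {𝔑 : PvmnNum} {τ : PvmnType}

theorem pvhh_N_cells {n a b : ℕ} {c : ℤ × ℤ} : c ∈ pvtwN n (pvmnCells τ a b) ↔ ∃ k : Fin 10, a ≤ k.1 ∧ k.1 ≤ b ∧ c ∈ pvtwN n (τ.C k : Set (ℤ × ℤ)) := by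
  constructor
  · rintro ⟨x, ⟨k, k1, k2, k3⟩, h⟩
    exact ⟨k, k1, k2, x, k3, h⟩
  · rintro ⟨k, k1, k2, x, k3, h⟩
    exact ⟨x, ⟨k, k1, k2, k3⟩, h⟩

/-- (T2) for collars `≤ 10` -/
theorem pvhh_T2 (hτ : PvmnIsType 𝔑 τ) {k k' : Fin 10} (hk : k.1 + 2 ≤ k'.1 ∨ k'.1 + 2 ≤ k.1) {n n' : ℕ} (hn : n ≤ 10) (hn' : n' ≤ 10) {c : ℤ × ℤ} (h1 : c ∈ pvtwN n (τ.C k : Set (ℤ × ℤ)))
    (h2 : c ∈ pvtwN n' (τ.C k' : Set (ℤ × ℤ))) : False := by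
  rcases hk with hk | hk
  · exact (disjoint_left.1 (hτ.far k k' hk)) (pvtw_N_mono hn le_rfl h1) (pvtw_N_mono hn' le_rfl h2)
  · exact (disjoint_left.1 (hτ.far k' k hk)) (pvtw_N_mono hn' le_rfl h2) (pvtw_N_mono hn le_rfl h1)

/-- a point of the placed collar of a piece `≠ 4, 5` is off the ball part of the obstacle -/
theorem pvhh_T3 (hτ : PvmnIsType 𝔑 τ) {δc : ℝ} (hδc : 0 < δc) {z : ℂ} {k : Fin 10} (h4 : k.1 ≠ 4) (h5 : k.1 ≠ 5) {n : ℕ} (hn : n ≤ 10) {c : ℤ × ℤ} (hc : c ∈ pvtwN n (τ.C k : Set (ℤ × ℤ))) {x : ℂ}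
    (hx : x - z ∈ pvtSq δc c) : x ∉ closedBall z (δc * 𝔑.rB) := by
  intro hb
  have hB : c ∈ pvmnBl 𝔑.rB := by
    rw [← pvmn_Bl_scale hδc]
    refine ⟨x - z, hx, ?_⟩
    rw [mem_closedBall, dist_eq_norm] at hb
    rw [mem_closedBall, dist_zero_right]
    exact hb
  exact (disjoint_left.1 (hτ.ball k h4 h5)) (pvtw_N_mono hn le_rfl hc) hB

end tube

/-! ## 3. THE WHITE HOOK ZONES AT THE MODEL OF ROAD P -/

section model

variable {𝔤 : PvmhNum} (H : 𝔤.OK) {h : ℝ} (z : ℂ) (s : PvmhT 𝔤)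

include H

/-- the 3 x 3 block of the last coarse cell of the lane misses `B(z, rB h)`, `rB = rO + 2` -/
theorem pvhh_A1_off (hh : 0 < h) : Disjoint (pvmgPl z (𝔤.dl * h) (pvtwN 1 {pvlpA1 s.typ s.ln})) (closedBall z (𝔤.rB * h)) := by
  have h0 := H.dl0
  have e : 𝔤.dl * h * 𝔤.NN.rB = 𝔤.rB * h := by
    show 𝔤.dl * h * (𝔤.rB / 𝔤.dl) = _
    field_simp
  rw [← e]
  exact pvhh_off_ball s.isType (mul_pos h0 hh) (k := 9) (by decide) (by decide) (pvhh_A1_mem s.isType s.isLane)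

/-- the 3 x 3 block of the first coarse cell of the lane misses `B(z, rB h)` -/
theorem pvhh_A0_off (hh : 0 < h) : Disjoint (pvmgPl z (𝔤.dl * h) (pvtwN 1 {pvlpA0 s.typ s.ln})) (closedBall z (𝔤.rB * h)) := by
  have h0 := H.dl0
  have e : 𝔤.dl * h * 𝔤.NN.rB = 𝔤.rB * h := by
    show 𝔤.dl * h * (𝔤.rB / 𝔤.dl) = _
    field_simp
  rw [← e]
  exact pvhh_off_ball s.isType (mul_pos h0 hh) (k := 0) (by decide) (by decide) (pvhh_A0_mem s.isType s.isLane)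

/-- the zone of `S₂` lies in `B(z, rB h)` -/
theorem pvhh_S2_sub (hh : 0 < h) : (𝔤.ty h z s).reg 𝔤.sp z h .S2 ⊆ closedBall z (𝔤.rB * h) := by
  obtain ⟨-, -, h2, -⟩ := pvmh_basic H
  refine closedBall_subset_closedBall ?_
  show (𝔤.b 1 + 1) * h ≤ (2 * 𝔤.b 1 + 2) * h
  exact mul_le_mul_of_nonneg_right (by linarith) hh.le

/-- the mesh radius is small -/
theorem pvhh_mu_lt (hh : 0 < h) : 𝔤.mu * h < h ∧ 0 ≤ 𝔤.mu * h ∧ 20 * (𝔤.mu * h) ≤ 𝔤.dl * h := by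
  obtain ⟨h0, h1, -⟩ := pvmh_basic H
  refine ⟨?_, mul_nonneg H.mu0.le hh.le, ?_⟩
  · rw [H.mu_eq]
    nlinarith
  · rw [H.mu_eq]
    exact le_of_eq (by ring)

/-- the neighbourhood of windows which lie in a block off `B(z, rB h)` misses `B(z, (rO + 1) h)` -/
theorem pvhh_ball_disj (hh : 0 < h) {a b : ℕ} {c0 : ℤ × ℤ} (hoff : Disjoint (pvmgPl z (𝔤.dl * h) (pvtwN 1 {c0})) (closedBall z (𝔤.rB * h)))
    (hC : ∀ i, a ≤ i → i ≤ b → |(pvlpC s.typ s.ln i).1 - (5 * c0.1 + 2)| ≤ 5 ∧ |(pvlpC s.typ s.ln i).2 - (5 * c0.2 + 2)| ≤ 5) :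
    Disjoint (closedBall z (𝔤.rO * h + h)) (cthickening (𝔤.mu * h) (PvmhNum.at' z (pvlpWin (𝔤.dl * h) s.typ s.ln a b))) := by
  obtain ⟨m1, m2, m3⟩ := pvhh_mu_lt H hh
  have hδc : 0 < 𝔤.dl * h := mul_pos H.dl0 hh
  rw [disjoint_left]
  intro w hw hw'
  obtain ⟨p, hp, hwp⟩ := (pvhh_mem_cth m2).1 hw'
  obtain ⟨i, i1, i2, hpi⟩ := pvlp_mem_win.1 hp
  obtain ⟨c1, c2⟩ := hC i i1 i2
  have hm : p + z ∈ pvmgPl z (𝔤.dl * h) (pvtwN 1 {c0}) :=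
    pvhh_loc hδc c1 c2 hpi (by rw [Complex.add_re, sub_self, abs_zero]; positivity) (by rw [Complex.add_im, sub_self, abs_zero]; positivity)
  refine (disjoint_left.1 hoff) hm ?_
  rw [mem_closedBall, dist_eq_norm] at hw ⊢
  have e : 𝔤.rB * h = 𝔤.rO * h + 2 * h := by
    show (𝔤.rO + 2) * h = _
    ring
  have h4 : ‖p + z - z‖ ≤ ‖w - z‖ + ‖w - (p + z)‖ := by
    have e' : p + z - z = (w - z) - (w - (p + z)) := by ring
    rw [e']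
    exact norm_sub_le _ _
  rw [e]
  linarith

/-- the closed neighbourhood of a subset of `strip ∪ ball` -/
theorem pvhh_cth_M (hh : 0 < h) {M : Set ℂ} (hM : M ⊆ PvmhNum.at' z (pvlpS (𝔤.dl * h) s.typ s.ln) ∪ closedBall z (𝔤.rO * h)) :
    cthickening (𝔤.mu * h) M ⊆ cthickening (𝔤.mu * h) (PvmhNum.at' z (pvlpS (𝔤.dl * h) s.typ s.ln)) ∪ closedBall z (𝔤.rO * h + h) := by
  obtain ⟨m1, m2, m3⟩ := pvhh_mu_lt H hh
  intro w hw
  have h1 := cthickening_subset_of_subset _ hM hw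
  rw [cthickening_union] at h1
  rcases h1 with h1 | h1
  · exact Or.inl h1
  · right
    obtain ⟨p, hp, hwp⟩ := pvhh_cth_near hh m1 h1
    rw [mem_closedBall, dist_eq_norm] at hp ⊢
    have h4 : ‖w - z‖ ≤ ‖w - p‖ + ‖p - z‖ := by
      have e' : w - z = (w - p) + (p - z) := by ring
      rw [e']
      exact norm_add_le _ _
    linarith

/-- **THE HOOK ZONE OF AN EXIT LANE, GENERIC FORM**: the room is the neighbourhood of ANY subset `M` of (strip `∪ B(z, rO h)`), the start lies in `B(z, rO h)`, the door in the last window -/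
theorem pvhh_zone_pG (hh : 0 < h) {δ : ℝ} (hδ : 0 < δ) (h20 : 20 * δ ≤ 𝔤.dl * h) {W : Set (ℤ × ℤ)}
    (hW : ∀ k, pvlnC δ k ⊆ pvmgPl z (𝔤.dl * h) (pvtwN 1 {pvlpA1 s.typ s.ln}) → k ∈ W) {M X Y : Set ℂ}
    (hM : M ⊆ PvmhNum.at' z (pvlpS (𝔤.dl * h) s.typ s.ln) ∪ closedBall z (𝔤.rO * h)) (hX : X ⊆ closedBall z (𝔤.rO * h)) (hY : Y ⊆ PvmhNum.at' z (pvlpDB (𝔤.dl * h) s.typ s.ln)) :
    PvfpZone δ W (cthickening (𝔤.mu * h) M) X Y := by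
  obtain ⟨m1, m2, m3⟩ := pvhh_mu_lt H hh
  have hδc : 0 < 𝔤.dl * h := mul_pos H.dl0 hh
  have hτ := s.isType
  have hl := s.isLane
  have hXb : X ⊆ closedBall z (𝔤.rO * h + h) := hX.trans (closedBall_subset_closedBall (by linarith))
  by_cases hN : pvlpN s.typ s.ln < 6
  · refine pvnd_zone (F₁ := closedBall z (𝔤.rO * h + h)) (Z := ∅) (F₂ := cthickening (𝔤.mu * h) (PvmhNum.at' z (pvlpS (𝔤.dl * h) s.typ s.ln))) hδ ?_ isClosed_closedBall isClosed_cthickening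
      (pvhh_ball_disj H z s hh (pvhh_A1_off H z s hh) fun i _ i2 => pvhh_C_last hτ hl i2 (by omega)) hXb
      ((hY.trans (image_mono (pvlp_win_mono (Nat.zero_le _) le_rfl))).trans (self_subset_cthickening _)) (fun k hk => absurd hk (by simp)) (fun p hp => absurd hp (notMem_empty p))
    intro w hw
    rcases pvhh_cth_M H z s hh hM hw with h1 | h1
    · exact Or.inr h1
    · exact Or.inl (Or.inl h1)
  obtain ⟨j, hj⟩ : ∃ j, pvlpN s.typ s.ln = j + 6 := ⟨pvlpN s.typ s.ln - 6, by omega⟩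
  refine pvnd_zone (F₁ := cthickening (𝔤.mu * h) (PvmhNum.at' z (pvlpWin (𝔤.dl * h) s.typ s.ln 0 j)) ∪ closedBall z (𝔤.rO * h + h))
    (Z := cthickening (𝔤.mu * h) (PvmhNum.at' z (pvlpWin (𝔤.dl * h) s.typ s.ln (j + 1) (j + 3))))
    (F₂ := cthickening (𝔤.mu * h) (PvmhNum.at' z (pvlpWin (𝔤.dl * h) s.typ s.ln (j + 4) (pvlpN s.typ s.ln)))) hδ ?_ (isClosed_cthickening.union isClosed_closedBall) isClosed_cthickening ?_
    (hXb.trans subset_union_right) ((hY.trans (image_mono (pvlp_win_mono (by omega) le_rfl))).trans (self_subset_cthickening _))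
    (pvhh_blocks hδc m2 m3 hδ h20 (fun i i1 i2 => pvhh_C_last hτ hl (by omega) (by omega)) hW) ?_
  · intro w hw
    rcases pvhh_cth_M H z s hh hM hw with h1 | h1
    · rcases pvhh_cover m2 j h1 with (h2 | h2) | h2
      · exact Or.inl (Or.inl (Or.inl h2))
      · exact Or.inl (Or.inr h2)
      · exact Or.inr h2
    · exact Or.inl (Or.inl (Or.inr h1))
  · exact Disjoint.union_left (pvhh_disj hτ hl hδc m2 m3 (by omega) le_rfl)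
      (pvhh_ball_disj H z s hh (pvhh_A1_off H z s hh) fun i i1 i2 => pvhh_C_last hτ hl i2 (by omega))
  · intro p hp y hy
    rcases pvhh_far hτ hl hδc m2 m3 (by omega) le_rfl (Or.inl (by omega)) hp (hY hy) with h1 | h1
    · left; linarith
    · right; linarith

/-- **THE HOOK ZONE OF AN ENTRANCE LANE, GENERIC FORM** -/
theorem pvhh_zone_mG (hh : 0 < h) {δ : ℝ} (hδ : 0 < δ) (h20 : 20 * δ ≤ 𝔤.dl * h) {W : Set (ℤ × ℤ)}
    (hW : ∀ k, pvlnC δ k ⊆ pvmgPl z (𝔤.dl * h) (pvtwN 1 {pvlpA0 s.typ s.ln}) → k ∈ W) {M X Y : Set ℂ}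
    (hM : M ⊆ PvmhNum.at' z (pvlpS (𝔤.dl * h) s.typ s.ln) ∪ closedBall z (𝔤.rO * h)) (hX : X ⊆ closedBall z (𝔤.rO * h)) (hY : Y ⊆ PvmhNum.at' z (pvlpDA (𝔤.dl * h) s.typ s.ln)) :
    PvfpZone δ W (cthickening (𝔤.mu * h) M) X Y := by
  obtain ⟨m1, m2, m3⟩ := pvhh_mu_lt H hh
  have hδc : 0 < 𝔤.dl * h := mul_pos H.dl0 hh
  have hτ := s.isType
  have hl := s.isLane
  have hXb : X ⊆ closedBall z (𝔤.rO * h + h) := hX.trans (closedBall_subset_closedBall (by linarith))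
  by_cases hN : pvlpN s.typ s.ln < 6
  · refine pvnd_zone (F₁ := closedBall z (𝔤.rO * h + h)) (Z := ∅) (F₂ := cthickening (𝔤.mu * h) (PvmhNum.at' z (pvlpS (𝔤.dl * h) s.typ s.ln))) hδ ?_ isClosed_closedBall isClosed_cthickening
      (pvhh_ball_disj H z s hh (pvhh_A0_off H z s hh) fun i _ i2 => pvhh_C_first hτ hl i2 (by omega)) hXb
      ((hY.trans (image_mono (pvlp_win_mono le_rfl (Nat.zero_le _)))).trans (self_subset_cthickening _)) (fun k hk => absurd hk (by simp)) (fun p hp => absurd hp (notMem_empty p))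
    intro w hw
    rcases pvhh_cth_M H z s hh hM hw with h1 | h1
    · exact Or.inr h1
    · exact Or.inl (Or.inl h1)
  refine pvnd_zone (F₁ := cthickening (𝔤.mu * h) (PvmhNum.at' z (pvlpWin (𝔤.dl * h) s.typ s.ln (2 + 4) (pvlpN s.typ s.ln))) ∪ closedBall z (𝔤.rO * h + h))
    (Z := cthickening (𝔤.mu * h) (PvmhNum.at' z (pvlpWin (𝔤.dl * h) s.typ s.ln (2 + 1) (2 + 3))))
    (F₂ := cthickening (𝔤.mu * h) (PvmhNum.at' z (pvlpWin (𝔤.dl * h) s.typ s.ln 0 2))) hδ ?_ (isClosed_cthickening.union isClosed_closedBall) isClosed_cthickening ?_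
    (hXb.trans subset_union_right) ((hY.trans (image_mono (pvlp_win_mono le_rfl (by omega)))).trans (self_subset_cthickening _))
    (pvhh_blocks hδc m2 m3 hδ h20 (fun i i1 i2 => pvhh_C_first hτ hl (by omega) (by omega)) hW) ?_
  · intro w hw
    rcases pvhh_cth_M H z s hh hM hw with h1 | h1
    · rcases pvhh_cover m2 2 h1 with (h2 | h2) | h2
      · exact Or.inr h2
      · exact Or.inl (Or.inr h2)
      · exact Or.inl (Or.inl (Or.inl h2))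
    · exact Or.inl (Or.inl (Or.inr h1))
  · exact Disjoint.union_left (pvhh_disj hτ hl hδc m2 m3 (by omega) le_rfl).symm
      (pvhh_ball_disj H z s hh (pvhh_A0_off H z s hh) fun i i1 i2 => pvhh_C_first hτ hl (by omega) (by omega))
  · intro p hp y hy
    rcases pvhh_far hτ hl hδc m2 m3 (by omega) (Nat.zero_le _) (Or.inr (by omega)) hp (hY hy) with h1 | h1
    · left; linarith
    · right; linarith

/-- the lanes of the model lie in the strip -/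
theorem pvhh_Mp_sub : (𝔤.ty h z s).Mp ⊆ PvmhNum.at' z (pvlpS (𝔤.dl * h) s.typ s.ln) := by
  exact image_mono (pvls_Mp_sub _ _ _)

theorem pvhh_Mm_sub : (𝔤.ty h z s).Mm ⊆ PvmhNum.at' z (pvlpS (𝔤.dl * h) s.typ s.ln) := by
  exact image_mono (pvls_Mm_sub _ _ _)

/-- the zone of `S₂` lies in the region of the state -/
theorem pvhh_S2_sub' (hh : 0 < h) : (𝔤.ty h z s).reg 𝔤.sp z h .S2 ⊆ closedBall z (𝔤.rO * h) := by
  obtain ⟨-, -, h2, -⟩ := pvmh_basic H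
  refine closedBall_subset_closedBall ?_
  show (𝔤.b 1 + 1) * h ≤ (2 * 𝔤.b 1) * h
  exact mul_le_mul_of_nonneg_right (by linarith) hh.le

/-- the exit door meets (strip `∪ B(z, rO h)`) in the last window only -/
theorem pvhh_door_p (hh : 0 < h) {M : Set ℂ} (hM : M ⊆ PvmhNum.at' z (pvlpS (𝔤.dl * h) s.typ s.ln) ∪ closedBall z (𝔤.rO * h)) :
    (𝔤.ty h z s).Dp ∩ M ⊆ PvmhNum.at' z (pvlpDB (𝔤.dl * h) s.typ s.ln) := by
  have hδc : 0 < 𝔤.dl * h := mul_pos H.dl0 hh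
  have eB : 𝔤.dl * h * 𝔤.NN.rB = 𝔤.rB * h := by
    show 𝔤.dl * h * (𝔤.rB / 𝔤.dl) = _
    have := H.dl0
    field_simp
  rintro y ⟨hy | hy, hyM⟩
  · exfalso
    rcases hM hyM with h1 | h1
    · refine (disjoint_left.1 (pvhh_off_tube (z := z) (a := 0) s.isType s.isLane hδc le_rfl)) h1 (pvmg_mono (pvtw_N_mono le_rfl ?_) hy.2)
      rintro c ⟨k, k1, k2, k3⟩
      exact ⟨k, by omega, by omega, k3⟩
    · obtain ⟨c, hc, hyc⟩ := pvmg_mem_sq.1 hy.1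
      refine pvhh_T3 s.isType hδc (k := 9) (by decide) (by decide) (n := 8) (by norm_num) hc hyc ?_
      rw [eB]
      exact closedBall_subset_closedBall (mul_le_mul_of_nonneg_right (by show 𝔤.rO ≤ 𝔤.rO + 2; linarith) hh.le) h1
  · exact hy

/-- the entrance door meets (strip `∪ B(z, rO h)`) in the first window only -/
theorem pvhh_door_m (hh : 0 < h) {M : Set ℂ} (hM : M ⊆ PvmhNum.at' z (pvlpS (𝔤.dl * h) s.typ s.ln) ∪ closedBall z (𝔤.rO * h)) :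
    (𝔤.ty h z s).Dm ∩ M ⊆ PvmhNum.at' z (pvlpDA (𝔤.dl * h) s.typ s.ln) := by
  have hδc : 0 < 𝔤.dl * h := mul_pos H.dl0 hh
  have eB : 𝔤.dl * h * 𝔤.NN.rB = 𝔤.rB * h := by
    show 𝔤.dl * h * (𝔤.rB / 𝔤.dl) = _
    have := H.dl0
    field_simp
  rintro y ⟨hy | hy, hyM⟩
  · exfalso
    rcases hM hyM with h1 | h1
    · refine (disjoint_left.1 (pvhh_off_tube (z := z) (a := 0) s.isType s.isLane hδc le_rfl)) h1 (pvmg_mono (pvtw_N_mono le_rfl ?_) hy.2)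
      rintro c ⟨k, k1, k2, k3⟩
      exact ⟨k, by omega, by omega, k3⟩
    · obtain ⟨c, hc, hyc⟩ := pvmg_mem_sq.1 hy.1
      refine pvhh_T3 s.isType hδc (k := 0) (by decide) (by decide) (n := 8) (by norm_num) hc hyc ?_
      rw [eB]
      exact closedBall_subset_closedBall (mul_le_mul_of_nonneg_right (by show 𝔤.rO ≤ 𝔤.rO + 2; linarith) hh.le) h1
  · exact hy

/-- **THE HOOK ZONE OF THE EXIT LANE WITH A FOOT STRIP** `Mp ∪ Tp`, `Tp ⊆ B(z, rO h)` ANY set (ruling P13 of 273) -/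
theorem pvhh_zone_pT (hh : 0 < h) {δ : ℝ} (hδ : 0 < δ) (h20 : 20 * δ ≤ 𝔤.dl * h) {W : Set (ℤ × ℤ)}
    (hW : ∀ k, pvlnC δ k ⊆ pvmgPl z (𝔤.dl * h) (pvtwN 1 {pvlpA1 s.typ s.ln}) → k ∈ W) {Tp : Set ℂ} (hT : Tp ⊆ closedBall z (𝔤.rO * h)) :
    PvfpZone δ W (cthickening (𝔤.sp.mu * h) ((𝔤.ty h z s).Mp ∪ Tp)) (((𝔤.ty h z s).Mp ∪ Tp) ∩ (𝔤.ty h z s).reg 𝔤.sp z h .S2) ((𝔤.ty h z s).Dp ∩ ((𝔤.ty h z s).Mp ∪ Tp)) :=
  have hM : (𝔤.ty h z s).Mp ∪ Tp ⊆ PvmhNum.at' z (pvlpS (𝔤.dl * h) s.typ s.ln) ∪ closedBall z (𝔤.rO * h) := union_subset_union (pvhh_Mp_sub H z s) hT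
  pvhh_zone_pG H z s hh hδ h20 hW hM (inter_subset_right.trans (pvhh_S2_sub' H z s hh)) (pvhh_door_p H z s hh hM)

/-- **THE HOOK ZONE OF THE ENTRANCE LANE WITH A FOOT STRIP** `Mm ∪ Tm` -/
theorem pvhh_zone_mT (hh : 0 < h) {δ : ℝ} (hδ : 0 < δ) (h20 : 20 * δ ≤ 𝔤.dl * h) {W : Set (ℤ × ℤ)}
    (hW : ∀ k, pvlnC δ k ⊆ pvmgPl z (𝔤.dl * h) (pvtwN 1 {pvlpA0 s.typ s.ln}) → k ∈ W) {Tm : Set ℂ} (hT : Tm ⊆ closedBall z (𝔤.rO * h)) :
    PvfpZone δ W (cthickening (𝔤.sp.mu * h) ((𝔤.ty h z s).Mm ∪ Tm)) (((𝔤.ty h z s).Mm ∪ Tm) ∩ (𝔤.ty h z s).reg 𝔤.sp z h .S2) ((𝔤.ty h z s).Dm ∩ ((𝔤.ty h z s).Mm ∪ Tm)) :=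
  have hM : (𝔤.ty h z s).Mm ∪ Tm ⊆ PvmhNum.at' z (pvlpS (𝔤.dl * h) s.typ s.ln) ∪ closedBall z (𝔤.rO * h) := union_subset_union (pvhh_Mm_sub H z s) hT
  pvhh_zone_mG H z s hh hδ h20 hW hM (inter_subset_right.trans (pvhh_S2_sub' H z s hh)) (pvhh_door_m H z s hh hM)

/-- **THE HOOK ZONE OF THE EXIT LANE** `Mp` (field `zs` of `PvqwDat.Hook`; field `z₂` of `PvnkLink.Geo` at `pvfvEndP`): the walk contains the link cells of the 3 x 3 block of the LAST coarse cell of the lane -/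
theorem pvhh_zone_p (hh : 0 < h) {δ : ℝ} (hδ : 0 < δ) (h20 : 20 * δ ≤ 𝔤.dl * h) {W : Set (ℤ × ℤ)}
    (hW : ∀ k, pvlnC δ k ⊆ pvmgPl z (𝔤.dl * h) (pvtwN 1 {pvlpA1 s.typ s.ln}) → k ∈ W) :
    PvfpZone δ W (cthickening (𝔤.sp.mu * h) (𝔤.ty h z s).Mp) ((𝔤.ty h z s).Mp ∩ (𝔤.ty h z s).reg 𝔤.sp z h .S2) ((𝔤.ty h z s).Dp ∩ (𝔤.ty h z s).Mp) := by
  have := pvhh_zone_pT H z s hh hδ h20 hW (Tp := ∅) (empty_subset _)
  rwa [union_empty] at this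

/-- **THE HOOK ZONE OF THE ENTRANCE LANE** `Mm` (field `zt` of `PvqwDat.Hook`; field `z₂'` of `PvnkLink.Geo` at `pvfvEndM`): the walk contains the link cells of the 3 x 3 block of the FIRST coarse cell of the lane -/
theorem pvhh_zone_m (hh : 0 < h) {δ : ℝ} (hδ : 0 < δ) (h20 : 20 * δ ≤ 𝔤.dl * h) {W : Set (ℤ × ℤ)}
    (hW : ∀ k, pvlnC δ k ⊆ pvmgPl z (𝔤.dl * h) (pvtwN 1 {pvlpA0 s.typ s.ln}) → k ∈ W) :
    PvfpZone δ W (cthickening (𝔤.sp.mu * h) (𝔤.ty h z s).Mm) ((𝔤.ty h z s).Mm ∩ (𝔤.ty h z s).reg 𝔤.sp z h .S2) ((𝔤.ty h z s).Dm ∩ (𝔤.ty h z s).Mm) := by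
  have := pvhh_zone_mT H z s hh hδ h20 hW (Tm := ∅) (empty_subset _)
  rwa [union_empty] at this

/-- **THE HOOK ZONE OF THE ROOM OF THE WHITE EXIT PATH** `reg .Mp = Mp ∪ Tp ∩ S2` (StateP v3, ruling P13: field `zs` of `PvqwDat.Hook`; field `z₂` of `PvnkLink.Geo` at `pvfvEndP`) -/
theorem pvhh_zone_pR (hh : 0 < h) {δ : ℝ} (hδ : 0 < δ) (h20 : 20 * δ ≤ 𝔤.dl * h) {W : Set (ℤ × ℤ)}
    (hW : ∀ k, pvlnC δ k ⊆ pvmgPl z (𝔤.dl * h) (pvtwN 1 {pvlpA1 s.typ s.ln}) → k ∈ W) :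
    PvfpZone δ W (cthickening (𝔤.sp.mu * h) ((𝔤.ty h z s).reg 𝔤.sp z h .Mp)) ((𝔤.ty h z s).reg 𝔤.sp z h .Mp ∩ (𝔤.ty h z s).reg 𝔤.sp z h .S2) ((𝔤.ty h z s).Dp ∩ (𝔤.ty h z s).reg 𝔤.sp z h .Mp) :=
  pvhh_zone_pT H z s hh hδ h20 hW (Tp := (𝔤.ty h z s).Tp ∩ (𝔤.ty h z s).reg 𝔤.sp z h .S2) (inter_subset_right.trans (pvhh_S2_sub' H z s hh))

/-- **THE HOOK ZONE OF THE ROOM OF THE WHITE ENTRANCE PATH** `reg .Mm = Mm ∪ Tm ∩ S2` -/
theorem pvhh_zone_mR (hh : 0 < h) {δ : ℝ} (hδ : 0 < δ) (h20 : 20 * δ ≤ 𝔤.dl * h) {W : Set (ℤ × ℤ)}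
    (hW : ∀ k, pvlnC δ k ⊆ pvmgPl z (𝔤.dl * h) (pvtwN 1 {pvlpA0 s.typ s.ln}) → k ∈ W) :
    PvfpZone δ W (cthickening (𝔤.sp.mu * h) ((𝔤.ty h z s).reg 𝔤.sp z h .Mm)) ((𝔤.ty h z s).reg 𝔤.sp z h .Mm ∩ (𝔤.ty h z s).reg 𝔤.sp z h .S2) ((𝔤.ty h z s).Dm ∩ (𝔤.ty h z s).reg 𝔤.sp z h .Mm) :=
  pvhh_zone_mT H z s hh hδ h20 hW (Tm := (𝔤.ty h z s).Tm ∩ (𝔤.ty h z s).reg 𝔤.sp z h .S2) (inter_subset_right.trans (pvhh_S2_sub' H z s hh))

end model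

/-! ## 4. THE BLACK HOOK ZONES -/

/-- **ZONE OF A TUBE OF CELLS**: three sets of coarse cells `E₁, Em, E₂`; `E₁` and `E₂` are 8 cells apart; the door lies in `E₂` and in `Ed`, 8 cells from `Em`; the walk contains the link cells of the 1-collar of `Em` -/
theorem pvhh_zone_cells {δc μ δ : ℝ} (hδc : 0 < δc) (hμ' : 20 * μ ≤ δc) (hδ : 0 < δ) (h20 : 20 * δ ≤ δc) {z : ℂ} {E₁ Em E₂ Ed : Set (ℤ × ℤ)}
    (d12 : Disjoint (pvtwN 8 E₁) E₂) (dmd : Disjoint (pvtwN 8 Em) Ed) {W : Set (ℤ × ℤ)} {X Y : Set ℂ} (hX : X ⊆ pvmgPl z δc E₁) (hY : Y ⊆ pvmgPl z δc E₂) (hYd : Y ⊆ pvmgPl z δc Ed)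
    (hW : ∀ k, pvlnC δ k ⊆ pvmgPl z δc (pvtwN 1 Em) → k ∈ W) : PvfpZone δ W (cthickening μ (pvmgPl z δc (E₁ ∪ Em ∪ E₂))) X Y := by
  have hμ1 : μ < δc / 10 := by linarith
  have h10 : 0 < δc / 10 := by positivity
  refine pvnd_zone (F₁ := cthickening μ (pvmgPl z δc E₁)) (Z := cthickening μ (pvmgPl z δc Em)) (F₂ := cthickening μ (pvmgPl z δc E₂)) hδ ?_ isClosed_cthickening isClosed_cthickening ?_
    (hX.trans (self_subset_cthickening _)) (hY.trans (self_subset_cthickening _)) ?_ ?_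
  · rw [pvmg_union, pvmg_union, cthickening_union, cthickening_union]
  · rw [disjoint_left]
    intro w h1 h2
    obtain ⟨p, hp, hwp⟩ := pvhh_cth_near h10 hμ1 h1
    obtain ⟨q, hq, hwq⟩ := pvhh_cth_near h10 hμ1 h2
    have h3 := pvmg_far hδc d12 hp hq
    have h4 : ‖p - q‖ ≤ ‖w - q‖ + ‖w - p‖ := by
      have e : p - q = (w - q) - (w - p) := by ring
      rw [e]
      exact norm_sub_le _ _
    push_cast at h3
    linarith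
  · rintro k ⟨w, ⟨w1, w2, w3, w4⟩, hw⟩ k' ⟨k1, k2⟩
    obtain ⟨p, hp, hwp⟩ := pvhh_cth_near h10 hμ1 hw
    rw [abs_le] at k1 k2
    refine hW k' ?_
    rintro v ⟨v1, v2, v3, v4⟩
    have e1 : (-1 : ℝ) ≤ (k'.1 : ℝ) - (k.1 : ℝ) := by exact_mod_cast k1.1
    have e2 : (k'.1 : ℝ) - (k.1 : ℝ) ≤ 1 := by exact_mod_cast k1.2
    have e3 : (-1 : ℝ) ≤ (k'.2 : ℝ) - (k.2 : ℝ) := by exact_mod_cast k2.1
    have e4 : (k'.2 : ℝ) - (k.2 : ℝ) ≤ 1 := by exact_mod_cast k2.2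
    refine pvmg_near (k := 1) hδc hp ?_
    have a1 : |(v - w).re| ≤ 2 * δ := by
      rw [Complex.sub_re, abs_le]
      constructor <;> nlinarith
    have a2 : |(v - w).im| ≤ 2 * δ := by
      rw [Complex.sub_im, abs_le]
      constructor <;> nlinarith
    have a3 := Complex.norm_le_abs_re_add_abs_im (v - w)
    have a4 : ‖v - p‖ ≤ ‖v - w‖ + ‖w - p‖ := by
      have e : v - p = (v - w) + (w - p) := by ring
      rw [e]
      exact norm_add_le _ _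
    push_cast
    linarith
  · intro p hp y hy
    obtain ⟨p', hp', hpp⟩ := pvhh_cth_near h10 hμ1 hp
    have h3 := pvmg_far hδc dmd hp' (hYd hy)
    refine pvnd_far_of_norm ?_
    have h4 : ‖p' - y‖ ≤ ‖y - p‖ + ‖p - p'‖ := by
      have e : p' - y = -((y - p) + (p - p')) := by ring
      rw [e, norm_neg]
      exact norm_add_le _ _
    push_cast at h3
    linarith


section modelB

variable {𝔤 : PvmhNum} (H : 𝔤.OK) {h : ℝ} (z : ℂ) (s : PvmhT 𝔤)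

include H

/-- **THE HOOK ZONE OF THE EXIT TUBE** `Np` (field `z₁` of `PvnkLink.Geo` at `pvfvEndP`): hook in the piece `7`; the walk contains the link cells of `N³ C₇` -/
theorem pvhh_zone_bp (hh : 0 < h) {δ : ℝ} (hδ : 0 < δ) (h20 : 20 * δ ≤ 𝔤.dl * h) {W : Set (ℤ × ℤ)}
    (hW : ∀ k, pvlnC δ k ⊆ pvmgPl z (𝔤.dl * h) (pvtwN 3 (s.typ.C 7 : Set (ℤ × ℤ))) → k ∈ W) :
    PvfpZone δ W (cthickening (𝔤.sp.mu * h) (𝔤.ty h z s).Np) ((𝔤.ty h z s).Np ∩ (𝔤.ty h z s).reg 𝔤.sp z h .S2) ((𝔤.ty h z s).Dp ∩ (𝔤.ty h z s).Np) := by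
  have hδc : 0 < 𝔤.dl * h := mul_pos H.dl0 hh
  have hμ' : 20 * (𝔤.sp.mu * h) ≤ 𝔤.dl * h := by
    show 20 * (𝔤.mu * h) ≤ _
    rw [H.mu_eq]
    exact le_of_eq (by ring)
  have hτ := s.isType
  have hl := s.isLane
  have eB : 𝔤.dl * h * 𝔤.NN.rB = 𝔤.rB * h := by
    show 𝔤.dl * h * (𝔤.rB / 𝔤.dl) = _
    have := H.dl0
    field_simp
  have hsplit : pvmhNp s.typ = pvtwN 2 (pvmnCells s.typ 5 6) ∪ pvtwN 2 (s.typ.C 7 : Set (ℤ × ℤ)) ∪ pvtwN 2 (pvmnCells s.typ 8 8) := by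
    ext c
    simp only [pvmhNp, mem_union, pvhh_N_cells]
    constructor
    · rintro ⟨k, k1, k2, hc⟩
      by_cases c1 : k.1 ≤ 6
      · exact Or.inl (Or.inl ⟨k, k1, c1, hc⟩)
      by_cases c2 : k.1 = 7
      · have : k = 7 := Fin.ext c2
        rw [this] at hc
        exact Or.inl (Or.inr hc)
      · exact Or.inr ⟨k, by omega, k2, hc⟩
    · rintro ((⟨k, k1, k2, hc⟩ | hc) | ⟨k, k1, k2, hc⟩)
      · exact ⟨k, k1, by omega, hc⟩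
      · exact ⟨7, by decide, by decide, hc⟩
      · exact ⟨k, by omega, k2, hc⟩
  have hNp : (𝔤.ty h z s).Np = pvmgPl z (𝔤.dl * h) (pvtwN 2 (pvmnCells s.typ 5 6) ∪ pvtwN 2 (s.typ.C 7 : Set (ℤ × ℤ)) ∪ pvtwN 2 (pvmnCells s.typ 8 8)) := by
    rw [← hsplit]; rfl
  have hYY : ∀ y ∈ (𝔤.ty h z s).Dp ∩ (𝔤.ty h z s).Np, y ∈ pvmgPl z (𝔤.dl * h) (pvtwN 2 (pvmnCells s.typ 8 8)) ∧ y ∈ pvmgPl z (𝔤.dl * h) (pvtwN 8 (s.typ.C 9 : Set (ℤ × ℤ))) := by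
    rintro y ⟨hy | hy, hyN⟩
    · refine ⟨?_, hy.1⟩
      obtain ⟨c, ⟨c1, c2⟩, hyc⟩ := pvmg_mem_sq.1 (pvmg_inter hδc ⟨hy.1, hy.2⟩)
      have c1' : c ∈ pvtwN (1 + 8) (s.typ.C 9 : Set (ℤ × ℤ)) := by rw [← pvtw_N_add]; exact c1
      obtain ⟨k, k1, k2, hc⟩ := pvhh_N_cells.1 c2
      refine pvmg_mem_sq.2 ⟨c, pvhh_N_cells.2 ⟨k, ?_, k2, hc⟩, hyc⟩
      by_contra hk
      exact pvhh_T2 hτ (k := k) (k' := 9) (Or.inl (by show k.1 + 2 ≤ 9; omega)) (by norm_num) (by norm_num) hc c1'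
    · exfalso
      refine (disjoint_left.1 (pvhh_off_tube (z := z) (a := pvlpN s.typ s.ln) hτ hl hδc le_rfl)) hy (pvmg_mono (pvtw_N_mono le_rfl ?_) hyN)
      rintro c ⟨k, k1, k2, k3⟩
      exact ⟨k, by omega, by omega, k3⟩
  rw [hNp]
  refine pvhh_zone_cells (Ed := pvtwN 8 (s.typ.C 9 : Set (ℤ × ℤ))) hδc hμ' hδ h20 ?_ ?_ ?_ (fun y hy => (hYY y (by rw [hNp]; exact hy)).1) (fun y hy => (hYY y (by rw [hNp]; exact hy)).2)
    (by rw [pvtw_N_add]; exact hW)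
  · rw [pvtw_N_add, disjoint_left]
    intro c c1 c2
    obtain ⟨k, k1, k2, hc⟩ := pvhh_N_cells.1 c1
    obtain ⟨k', k1', k2', hc'⟩ := pvhh_N_cells.1 c2
    exact pvhh_T2 hτ (Or.inl (by omega)) (by norm_num) (by norm_num) hc hc'
  · rw [pvtw_N_add, disjoint_left]
    intro c c1 c2
    exact pvhh_T2 hτ (k := 7) (k' := 9) (Or.inl (by decide)) (by norm_num) (by norm_num) c1 c2
  · rintro x ⟨hx, hxS⟩
    obtain ⟨c, hc, hxc⟩ := pvmg_mem_sq.1 hx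
    rw [← hsplit] at hc
    obtain ⟨k, k1, k2, hck⟩ := pvhh_N_cells.1 hc
    refine pvmg_mem_sq.2 ⟨c, pvhh_N_cells.2 ⟨k, k1, ?_, hck⟩, hxc⟩
    by_contra hk
    refine pvhh_T3 hτ hδc (by omega) (by omega) (by norm_num) hck hxc ?_
    rw [eB]
    exact pvhh_S2_sub H z s hh hxS

/-- **THE HOOK ZONE OF THE ENTRANCE TUBE** `Nm` (field `z₁'` of `PvnkLink.Geo` at `pvfvEndM`): hook in the piece `2`; the walk contains the link cells of `N³ C₂` -/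
theorem pvhh_zone_bm (hh : 0 < h) {δ : ℝ} (hδ : 0 < δ) (h20 : 20 * δ ≤ 𝔤.dl * h) {W : Set (ℤ × ℤ)}
    (hW : ∀ k, pvlnC δ k ⊆ pvmgPl z (𝔤.dl * h) (pvtwN 3 (s.typ.C 2 : Set (ℤ × ℤ))) → k ∈ W) :
    PvfpZone δ W (cthickening (𝔤.sp.mu * h) (𝔤.ty h z s).Nm) ((𝔤.ty h z s).Nm ∩ (𝔤.ty h z s).reg 𝔤.sp z h .S2) ((𝔤.ty h z s).Dm ∩ (𝔤.ty h z s).Nm) := by
  have hδc : 0 < 𝔤.dl * h := mul_pos H.dl0 hh
  have hμ' : 20 * (𝔤.sp.mu * h) ≤ 𝔤.dl * h := by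
    show 20 * (𝔤.mu * h) ≤ _
    rw [H.mu_eq]
    exact le_of_eq (by ring)
  have hτ := s.isType
  have hl := s.isLane
  have eB : 𝔤.dl * h * 𝔤.NN.rB = 𝔤.rB * h := by
    show 𝔤.dl * h * (𝔤.rB / 𝔤.dl) = _
    have := H.dl0
    field_simp
  have hsplit : pvmhNm s.typ = pvtwN 2 (pvmnCells s.typ 3 4) ∪ pvtwN 2 (s.typ.C 2 : Set (ℤ × ℤ)) ∪ pvtwN 2 (pvmnCells s.typ 1 1) := by
    ext c
    simp only [pvmhNm, mem_union, pvhh_N_cells]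
    constructor
    · rintro ⟨k, k1, k2, hc⟩
      by_cases c1 : 3 ≤ k.1
      · exact Or.inl (Or.inl ⟨k, c1, k2, hc⟩)
      by_cases c2 : k.1 = 2
      · have : k = 2 := Fin.ext c2
        rw [this] at hc
        exact Or.inl (Or.inr hc)
      · exact Or.inr ⟨k, k1, by omega, hc⟩
    · rintro ((⟨k, k1, k2, hc⟩ | hc) | ⟨k, k1, k2, hc⟩)
      · exact ⟨k, by omega, k2, hc⟩
      · exact ⟨2, by decide, by decide, hc⟩
      · exact ⟨k, k1, by omega, hc⟩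
  have hNm : (𝔤.ty h z s).Nm = pvmgPl z (𝔤.dl * h) (pvtwN 2 (pvmnCells s.typ 3 4) ∪ pvtwN 2 (s.typ.C 2 : Set (ℤ × ℤ)) ∪ pvtwN 2 (pvmnCells s.typ 1 1)) := by
    rw [← hsplit]; rfl
  have hYY : ∀ y ∈ (𝔤.ty h z s).Dm ∩ (𝔤.ty h z s).Nm, y ∈ pvmgPl z (𝔤.dl * h) (pvtwN 2 (pvmnCells s.typ 1 1)) ∧ y ∈ pvmgPl z (𝔤.dl * h) (pvtwN 8 (s.typ.C 0 : Set (ℤ × ℤ))) := by
    rintro y ⟨hy | hy, hyN⟩
    · refine ⟨?_, hy.1⟩
      obtain ⟨c, ⟨c1, c2⟩, hyc⟩ := pvmg_mem_sq.1 (pvmg_inter hδc ⟨hy.1, hy.2⟩)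
      have c1' : c ∈ pvtwN (1 + 8) (s.typ.C 0 : Set (ℤ × ℤ)) := by rw [← pvtw_N_add]; exact c1
      obtain ⟨k, k1, k2, hc⟩ := pvhh_N_cells.1 c2
      refine pvmg_mem_sq.2 ⟨c, pvhh_N_cells.2 ⟨k, k1, ?_, hc⟩, hyc⟩
      by_contra hk
      exact pvhh_T2 hτ (k := k) (k' := 0) (Or.inr (by show 0 + 2 ≤ k.1; omega)) (by norm_num) (by norm_num) hc c1'
    · exfalso
      refine (disjoint_left.1 (pvhh_off_tube (z := z) (a := 0) (b := 0) hτ hl hδc (Nat.zero_le _))) hy (pvmg_mono (pvtw_N_mono le_rfl ?_) hyN)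
      rintro c ⟨k, k1, k2, k3⟩
      exact ⟨k, by omega, by omega, k3⟩
  rw [hNm]
  refine pvhh_zone_cells (Ed := pvtwN 8 (s.typ.C 0 : Set (ℤ × ℤ))) hδc hμ' hδ h20 ?_ ?_ ?_ (fun y hy => (hYY y (by rw [hNm]; exact hy)).1) (fun y hy => (hYY y (by rw [hNm]; exact hy)).2)
    (by rw [pvtw_N_add]; exact hW)
  · rw [pvtw_N_add, disjoint_left]
    intro c c1 c2
    obtain ⟨k, k1, k2, hc⟩ := pvhh_N_cells.1 c1
    obtain ⟨k', k1', k2', hc'⟩ := pvhh_N_cells.1 c2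
    exact pvhh_T2 hτ (Or.inr (by omega)) (by norm_num) (by norm_num) hc hc'
  · rw [pvtw_N_add, disjoint_left]
    intro c c1 c2
    exact pvhh_T2 hτ (k := 2) (k' := 0) (Or.inr (by decide)) (by norm_num) (by norm_num) c1 c2
  · rintro x ⟨hx, hxS⟩
    obtain ⟨c, hc, hxc⟩ := pvmg_mem_sq.1 hx
    rw [← hsplit] at hc
    obtain ⟨k, k1, k2, hck⟩ := pvhh_N_cells.1 hc
    refine pvmg_mem_sq.2 ⟨c, pvhh_N_cells.2 ⟨k, ?_, k2, hck⟩, hxc⟩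
    by_contra hk
    refine pvhh_T3 hτ hδc (by omega) (by omega) (by norm_num) hck hxc ?_
    rw [eB]
    exact pvhh_S2_sub H z s hh hxS

end modelB

/-! ## 5. THE RECORD `PvqwDat.Hook` AT THE MODEL -/

/-- **the datum of the white lane of two placed candidates of the model** (exit end of `(zs, s)`, entrance end of `(zt, t)`, walk `L` of link cells of side `δ`) -/
noncomputable def pvhhDat (𝔤 : PvmhNum) (h : ℝ) (zs : ℂ) (s : PvmhT 𝔤) (zt : ℂ) (t : PvmhT 𝔤) (δ : ℝ) (L : List (ℤ × ℤ)) : PvqwDat where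
  N := 𝔤.sp
  h := h
  ts := 𝔤.ty h zs s
  zs := zs
  tt := 𝔤.ty h zt t
  zt := zt
  δ := δ
  L := L

theorem pvhh_eqns_cite : True := by
  have := @pvhhDat.eq_1
  trivial

section pack

variable {𝔤 : PvmhNum} (H : 𝔤.OK) {h : ℝ} {zs zt : ℂ} {s t : PvmhT 𝔤} {δ : ℝ}

include H

theorem pvhh_dat_wf (hh : 0 < h) (hcol : s.typ.col = t.typ.col) (hδ : 0 < δ) {L : List (ℤ × ℤ)} (hc : L.IsChain PvlnAdj) : (pvhhDat 𝔤 h zs s zt t δ L).Wf :=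
  ⟨pvmh_wf H zs s hh, pvmh_wf H zt t hh, hcol, hδ, hc⟩

/-- **`PvqwDat.Hook` AT THE MODEL**: a full walk which contains the link cells of the 3 x 3 blocks of the last coarse cell of the lane of `s` and of the first coarse cell of the lane of `t` -/
theorem pvhh_dat_hook (hh : 0 < h) (hδ : 0 < δ) (h20 : 20 * δ ≤ 𝔤.dl * h) {L : List (ℤ × ℤ)} (hne : L ≠ []) (hf : PvfpFull L)
    (hs : ∀ k, pvlnC δ k ⊆ pvmgPl zs (𝔤.dl * h) (pvtwN 1 {pvlpA1 s.typ s.ln}) → k ∈ L) (ht : ∀ k, pvlnC δ k ⊆ pvmgPl zt (𝔤.dl * h) (pvtwN 1 {pvlpA0 t.typ t.ln}) → k ∈ L) :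
    (pvhhDat 𝔤 h zs s zt t δ L).Hook :=
  ⟨hne, hf, pvhh_zone_pR H zs s hh hδ h20 hs, pvhh_zone_mR H zt t hh hδ h20 ht⟩

/-- **FROM A POLYOMINO**: every finite connected set `Wc` of link cells which contains the link cells of the two blocks carries a walk `L` with `Wf` and `Hook` -/
theorem pvhh_dat_exists (hh : 0 < h) (hcol : s.typ.col = t.typ.col) (hδ : 0 < δ) (h20 : 20 * δ ≤ 𝔤.dl * h) {Wc : Set (ℤ × ℤ)} (hfin : Wc.Finite) (hne : Wc.Nonempty)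
    (hconn : ∀ a ∈ Wc, ∀ b ∈ Wc, Relation.ReflTransGen (fun x y => PvlnAdj x y ∧ y ∈ Wc) a b)
    (hs : ∀ k, pvlnC δ k ⊆ pvmgPl zs (𝔤.dl * h) (pvtwN 1 {pvlpA1 s.typ s.ln}) → k ∈ Wc) (ht : ∀ k, pvlnC δ k ⊆ pvmgPl zt (𝔤.dl * h) (pvtwN 1 {pvlpA0 t.typ t.ln}) → k ∈ Wc) :
    ∃ L : List (ℤ × ℤ), {k | k ∈ L} = Wc ∧ (pvhhDat 𝔤 h zs s zt t δ L).Wf ∧ (pvhhDat 𝔤 h zs s zt t δ L).Hook := by
  obtain ⟨L, h1, h2, h3, h4⟩ := pvfp_walk_exists hfin hne hconn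
  have hm : ∀ k, k ∈ L ↔ k ∈ Wc := fun k => by rw [← h4]; rfl
  exact ⟨L, h4, pvhh_dat_wf H hh hcol hδ h2, pvhh_dat_hook H hh hδ h20 h1 h3 (fun k hk => (hm k).2 (hs k hk)) (fun k hk => (hm k).2 (ht k hk))⟩

end pack

/-- the window of the net depends on the SET of the cells of the walk only -/
theorem pvhh_W_congr (δ : ℝ) {L L' : List (ℤ × ℤ)} (h : {k | k ∈ L} = {k | k ∈ L'}) : pvlnW δ L = pvlnW δ L' := by
  unfold pvlnW
  rw [h]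

/-- the continuum region of the net depends on the SET of the cells of the walk only -/
theorem pvhh_U_congr (δ : ℝ) {L L' : List (ℤ × ℤ)} (h : {k | k ∈ L} = {k | k ∈ L'}) : pvlnU δ L = pvlnU δ L' := by
  unfold pvlnU
  rw [h]

/-! ## 6. GLUE-W (205) ⟹ THE DATUM OF THE WHITE LANE -/

/-- **DICTIONARY link cells / menu cells**: the menu cells have side `κ δ`, the corner of the menu cell `(0,0)` is the corner of the link cell `o`;   a link cell which lies in the placed set `E` of menu cells lies over a cell of `E` -/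
theorem pvhh_div_mem {δ : ℝ} (hδ : 0 < δ) {κ : ℤ} (hκ : 0 < κ) (o : ℤ × ℤ) {E : Set (ℤ × ℤ)} {k : ℤ × ℤ} (hk : pvlnC δ k ⊆ pvmgPl (pvmgPt δ o) ((κ : ℝ) * δ) E) : (pvgwDiv κ hκ o).ap k ∈ E := by
  have hc : pvlnCtr δ k ∈ pvlnC δ k := by
    refine ⟨?_, ?_, ?_, ?_⟩ <;> simp only [pvlnCtr] <;> nlinarith
  obtain ⟨c, hcE, c1, c2, c3, c4⟩ := pvmg_mem_sq.1 (hk hc)
  simp only [pvlnCtr, pvmgPt, Complex.sub_re, Complex.sub_im] at c1 c2 c3 c4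
  have key : ∀ (x o c : ℤ), (c : ℝ) * ((κ : ℝ) * δ) ≤ ((x : ℝ) + 1 / 2) * δ - (o : ℝ) * δ → ((x : ℝ) + 1 / 2) * δ - (o : ℝ) * δ ≤ ((c : ℝ) + 1) * ((κ : ℝ) * δ) → (x - o) / κ = c := by
    intro x o c a1 a2
    have b1 : (c : ℝ) * (κ : ℝ) ≤ (x : ℝ) + 1 / 2 - (o : ℝ) := by
      have : ((c : ℝ) * (κ : ℝ)) * δ ≤ ((x : ℝ) + 1 / 2 - (o : ℝ)) * δ := by nlinarith
      exact le_of_mul_le_mul_right this hδ
    have b2 : (x : ℝ) + 1 / 2 - (o : ℝ) ≤ ((c : ℝ) + 1) * (κ : ℝ) := by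
      have : ((x : ℝ) + 1 / 2 - (o : ℝ)) * δ ≤ (((c : ℝ) + 1) * (κ : ℝ)) * δ := by nlinarith
      exact le_of_mul_le_mul_right this hδ
    have d1 : c * κ ≤ x - o := by
      have : ((c * κ : ℤ) : ℝ) < ((x - o + 1 : ℤ) : ℝ) := by push_cast; linarith
      have := Int.cast_lt.1 this
      omega
    have d2 : x - o < (c + 1) * κ := by
      have : ((x - o : ℤ) : ℝ) < (((c + 1) * κ : ℤ) : ℝ) := by push_cast; linarith
      exact Int.cast_lt.1 this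
    apply le_antisymm
    · have := (Int.ediv_lt_iff_lt_mul hκ).2 d2
      omega
    · exact (Int.le_ediv_iff_mul_le hκ).2 d1
  have e : (pvgwDiv κ hκ o).ap k = c := Prod.ext (key k.1 o.1 c.1 c1 c2) (key k.2 o.2 c.2 c3 c4)
  rw [e]
  exact hcE

/-- side connection, in the words of 229 -/
theorem pvhh_conn {Wc : Set (ℤ × ℤ)} (h : TscConn pvtbG4 Wc) : ∀ a ∈ Wc, ∀ b ∈ Wc, Relation.ReflTransGen (fun x y => PvlnAdj x y ∧ y ∈ Wc) a b := by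
  intro a ha b hb
  refine Relation.ReflTransGen.mono ?_ _ _ (h a ha b hb)
  rintro x y ⟨hxy, -, hy⟩
  refine ⟨?_, hy⟩
  rcases hxy with ⟨a1, a2⟩ | ⟨a1, a2⟩ | ⟨a1, a2⟩ | ⟨a1, a2⟩
  · exact Or.inl ⟨a2, Or.inl a1⟩
  · exact Or.inl ⟨a2, Or.inr a1⟩
  · exact Or.inr ⟨a1, Or.inl a2⟩
  · exact Or.inr ⟨a1, Or.inr a2⟩

/-- **FROM THE POLYOMINO OF GLUE-W** (205, `Tr/GlueWT`: `Wc := pvgwW Ms Mt A1 A0 S`, `pvgw_W_finite`, `pvgw_W_conn`, `pvgw_W_s`, `pvgw_W_t`):   link cells of side `δ`, `dl h = κ δ`, the two centres are corners of link cells, `Ms Mt` = floor divisions -/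
theorem pvhh_dat_of_maps {𝔤 : PvmhNum} (H : 𝔤.OK) {h : ℝ} {s t : PvmhT 𝔤} {δ : ℝ} (hh : 0 < h) (hcol : s.typ.col = t.typ.col) (hδ : 0 < δ) {κ : ℤ} (hκ : 0 < κ) (h20 : 20 ≤ κ) (hκδ : 𝔤.dl * h = (κ : ℝ) * δ)
    (os ot : ℤ × ℤ) {Wc : Set (ℤ × ℤ)} (hfin : Wc.Finite) (hconn : TscConn pvtbG4 Wc) (hs : (pvgwDiv κ hκ os).pre (pvtwN 1 {pvlpA1 s.typ s.ln}) ⊆ Wc) (ht : (pvgwDiv κ hκ ot).pre (pvtwN 1 {pvlpA0 t.typ t.ln}) ⊆ Wc) :
    ∃ L : List (ℤ × ℤ), {k | k ∈ L} = Wc ∧ (pvhhDat 𝔤 h (pvmgPt δ os) s (pvmgPt δ ot) t δ L).Wf ∧ (pvhhDat 𝔤 h (pvmgPt δ os) s (pvmgPt δ ot) t δ L).Hook := by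
  have h20' : 20 * δ ≤ 𝔤.dl * h := by
    rw [hκδ]
    have : (20 : ℝ) ≤ (κ : ℝ) := by exact_mod_cast h20
    exact mul_le_mul_of_nonneg_right this hδ.le
  have hne : Wc.Nonempty := by
    obtain ⟨x, hx⟩ := (pvgwDiv κ hκ os).f_surj (pvlpA1 s.typ s.ln).1
    obtain ⟨y, hy⟩ := (pvgwDiv κ hκ os).g_surj (pvlpA1 s.typ s.ln).2
    refine ⟨(x, y), hs ?_⟩
    show ((pvgwDiv κ hκ os).f x, (pvgwDiv κ hκ os).g y) ∈ pvtwN 1 {pvlpA1 s.typ s.ln}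
    rw [hx, hy]
    exact pvtw_N_sub rfl
  refine pvhh_dat_exists H hh hcol hδ h20' hfin hne (pvhh_conn hconn) (fun k hk => hs ?_) (fun k hk => ht ?_)
  · rw [hκδ] at hk
    exact pvhh_div_mem hδ hκ os hk
  · rw [hκδ] at hk
    exact pvhh_div_mem hδ hκ ot hk

end Claimed.Agent.R289
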