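import Claimed.Agent.R289.Tr.GlueWT
import Claimed.Agent.R289.Tr.HookZ

/-!
# Row 289 (S0537, Cardy for Poisson-Voronoi), unit TR, ROAD P, GLUE-W, file Tr/GlueWM : THE WHITE LINK IN THE PLANE      (owner helper205; prefix `pvwg_`, `Pvwg`, `pvwg`)

Link cells of side `δ` (ABSOLUTE lattice), menu cells of side `κ δ`, the centre `z = pvmgPt δ o` of a pin is the corner of the link cell `o`, `M = pvgwDiv κ hκ o` (convention of 147, `Tr/HookZ` sec. 6).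
* sec. 1  DICTIONARY:   `pvwg_sq_sub` (a link square lies in the placed menu square under it),   **`pvwg_U_pre`** : `pvtU δ (M.pre E) = pvmgPl z (κ δ) E`,   `pvwg_N_pre1` (`N^k (M.pre E) ⊆ M.pre (N¹ E)` for `k ≤ κ`),
          `pvwg_W_U` (`pvlnW δ L ⊆ pvtU δ (N¹ {k ∈ L})`),   `pvwg_U_disj` (cells `2` apart: squares disjoint)
* sec. 2  **`pvwg_lane`** : `PvgwIn` at the model  ⟹  a walk `L` of link cells with `Wf`, `Hook` (147) and THE TWO LISTS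
          (IN)   `pvlnW δ L ⊆ zs + U(N⁶(cells_s 7..8) ∪ N²{A1}) ∪ pvtU δ (N³ Fa) ∪ zt + U(N⁶(cells_t 1..2) ∪ N²{A0})`
          (OFF)  `pvlnW δ L` misses `pvtU δ X` for every set `X` of link cells with `N³ X ⊆` the tube `pvgwA`, off the two `5 × 5` blocks
* sec. 3  instances of (OFF): the placed `N²(cells_s 0..8)`, `N²(cells_t 1..9)`, the thin tube `N^(a-3)` of the arc when `Fa = N^a ..`;   of (IN): off the balls `rB`, inside the placed `N⁸(cells 1..8)` (body of 138)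
-/

set_option autoImplicit false
set_option linter.unusedSectionVars false
set_option linter.unusedVariables false
set_option linter.unusedSimpArgs false

namespace Claimed.Agent.R289

open Relation Claims.C0467 Claimed.Agent.R291

/-! ## §1 dictionary -/

section dict

variable {δ : ℝ} {κ : ℤ} {o v e : ℤ × ℤ} {E X Y : Set (ℤ × ℤ)} {p : ℂ}

theorem pvwg_ap (hκ : 0 < κ) (o v : ℤ × ℤ) : (pvgwDiv κ hκ o).ap v = ((v.1 - o.1) / κ, (v.2 - o.2) / κ) := rfl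

/-- one coordinate: the link interval lies in the menu interval under it -/
theorem pvwg_dim_sub (hδ : 0 < δ) (hκ : 0 < κ) (x o : ℤ) {t : ℝ} (h1 : (x : ℝ) * δ ≤ t) (h2 : t ≤ ((x : ℝ) + 1) * δ) :
    (((x - o) / κ : ℤ) : ℝ) * ((κ : ℝ) * δ) ≤ t - (o : ℝ) * δ ∧ t - (o : ℝ) * δ ≤ ((((x - o) / κ : ℤ) : ℝ) + 1) * ((κ : ℝ) * δ) := by
  have a1 : (x - o) / κ * κ ≤ x - o := Int.ediv_mul_le _ hκ.ne'
  have a2 : x - o < ((x - o) / κ + 1) * κ := Int.lt_ediv_add_one_mul_self _ hκ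
  have b1 : (((x - o) / κ : ℤ) : ℝ) * (κ : ℝ) ≤ (x : ℝ) - (o : ℝ) := by exact_mod_cast a1
  have b2 : (x : ℝ) - (o : ℝ) + 1 ≤ ((((x - o) / κ : ℤ) : ℝ) + 1) * (κ : ℝ) := by
    have : x - o + 1 ≤ ((x - o) / κ + 1) * κ := a2
    exact_mod_cast this
  constructor
  · have := mul_le_mul_of_nonneg_right b1 hδ.le
    nlinarith
  · have := mul_le_mul_of_nonneg_right b2 hδ.le
    nlinarith

/-- a link square lies in the placed menu square under it -/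
theorem pvwg_sq_sub (hδ : 0 < δ) (hκ : 0 < κ) (o v : ℤ × ℤ) (hp : p ∈ pvtSq δ v) : p - pvmgPt δ o ∈ pvtSq ((κ : ℝ) * δ) ((pvgwDiv κ hκ o).ap v) := by
  obtain ⟨h1, h2, h3, h4⟩ := hp
  have a := pvwg_dim_sub hδ hκ v.1 o.1 h1 h2
  have b := pvwg_dim_sub hδ hκ v.2 o.2 h3 h4
  exact ⟨by simpa [pvmgPt, pvwg_ap] using a.1, by simpa [pvmgPt, pvwg_ap] using a.2, by simpa [pvmgPt, pvwg_ap] using b.1, by simpa [pvmgPt, pvwg_ap] using b.2⟩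

/-- one coordinate: a point of a menu interval lies in a link interval over it -/
theorem pvwg_dim_ex (hδ : 0 < δ) (hκ : 0 < κ) (o e : ℤ) {t : ℝ} (h1 : (e : ℝ) * ((κ : ℝ) * δ) ≤ t - (o : ℝ) * δ) (h2 : t - (o : ℝ) * δ ≤ ((e : ℝ) + 1) * ((κ : ℝ) * δ)) :
    ∃ x : ℤ, (x : ℝ) * δ ≤ t ∧ t ≤ ((x : ℝ) + 1) * δ ∧ (x - o) / κ = e := by
  have hdiv : ∀ x : ℤ, e * κ ≤ x - o → x - o < (e + 1) * κ → (x - o) / κ = e := by
    intro x d1 d2
    apply le_antisymm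
    · have := (Int.ediv_lt_iff_lt_mul hκ).2 d2
      omega
    · exact (Int.le_ediv_iff_mul_le hκ).2 d1
  have f1 := Int.floor_le (t / δ)
  have f2 := Int.lt_floor_add_one (t / δ)
  have g1 : (⌊t / δ⌋ : ℝ) * δ ≤ t := by rwa [← le_div_iff₀ hδ]
  have g2 : t < ((⌊t / δ⌋ : ℝ) + 1) * δ := by rwa [← div_lt_iff₀ hδ]
  have lo : e * κ + o ≤ ⌊t / δ⌋ := by
    rw [Int.le_floor, le_div_iff₀ hδ]
    push_cast
    nlinarith
  by_cases hc : ⌊t / δ⌋ - o < (e + 1) * κ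
  · exact ⟨⌊t / δ⌋, g1, g2.le, hdiv _ (by omega) hc⟩
  · have hc' : (e + 1) * κ + o ≤ ⌊t / δ⌋ := by omega
    have hc2 : (((e + 1) * κ + o : ℤ) : ℝ) * δ ≤ t := (mul_le_mul_of_nonneg_right (by exact_mod_cast hc') hδ.le).trans g1
    push_cast at hc2
    have heq : t = (((e : ℝ) + 1) * (κ : ℝ) + (o : ℝ)) * δ := le_antisymm (by nlinarith) hc2
    refine ⟨(e + 1) * κ + o - 1, ?_, ?_, hdiv _ (by nlinarith) (by omega)⟩
    · push_cast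
      nlinarith
    · push_cast
      nlinarith

/-- **the refinement of a set of menu cells fills exactly the placed set** -/
theorem pvwg_U_pre (hδ : 0 < δ) (hκ : 0 < κ) (o : ℤ × ℤ) (E : Set (ℤ × ℤ)) : pvtU δ ((pvgwDiv κ hκ o).pre E) = pvmgPl (pvmgPt δ o) ((κ : ℝ) * δ) E := by
  ext p
  constructor
  · intro hp
    obtain ⟨v, hv, hpv⟩ := Set.mem_iUnion₂.1 hp
    exact pvmg_mem_sq.2 ⟨_, hv, pvwg_sq_sub hδ hκ o v hpv⟩
  · intro hp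
    obtain ⟨e, he, h1, h2, h3, h4⟩ := pvmg_mem_sq.1 hp
    simp only [pvmgPt, Complex.sub_re, Complex.sub_im] at h1 h2 h3 h4
    obtain ⟨x, x1, x2, x3⟩ := pvwg_dim_ex hδ hκ o.1 e.1 h1 h2
    obtain ⟨y, y1, y2, y3⟩ := pvwg_dim_ex hδ hκ o.2 e.2 h3 h4
    refine Set.mem_iUnion₂.2 ⟨(x, y), ?_, x1, x2, y1, y2⟩
    show (pvgwDiv κ hκ o).ap (x, y) ∈ E
    rw [pvwg_ap, x3, y3]
    exact he

/-- floor division: `k ≤ κ` link cells cost at most one menu cell -/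
theorem pvwg_div_lip (hκ : 0 < κ) {k : ℕ} (hk : (k : ℤ) ≤ κ) {x y : ℤ} (h : x ≤ y + k) : x / κ ≤ y / κ + 1 := by
  have h1 : x / κ ≤ (y + κ) / κ := Int.ediv_le_ediv hκ (by omega)
  rwa [Int.add_ediv_of_dvd_right (dvd_refl κ), Int.ediv_self hκ.ne'] at h1

theorem pvwg_N_pre1 (hκ : 0 < κ) (o : ℤ × ℤ) {k : ℕ} (hk : (k : ℤ) ≤ κ) (E : Set (ℤ × ℤ)) : pvtwN k ((pvgwDiv κ hκ o).pre E) ⊆ (pvgwDiv κ hκ o).pre (pvtwN 1 E) := by
  rintro w ⟨z, hz, h1, h2, h3, h4⟩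
  refine ⟨_, hz, ?_, ?_, ?_, ?_⟩
  · simp only [pvwg_ap, Nat.cast_one]
    exact pvwg_div_lip hκ hk (by omega)
  · simp only [pvwg_ap, Nat.cast_one]
    exact pvwg_div_lip hκ hk (by omega)
  · simp only [pvwg_ap, Nat.cast_one]
    exact pvwg_div_lip hκ hk (by omega)
  · simp only [pvwg_ap, Nat.cast_one]
    exact pvwg_div_lip hκ hk (by omega)

/-- the window of a walk lies in the squares of the 1-collar of its cells -/
theorem pvwg_W_U (hδ : 0 < δ) (L : List (ℤ × ℤ)) : pvlnW δ L ⊆ pvtU δ (pvtwN 1 {k | k ∈ L}) := by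
  intro p hp
  obtain ⟨k, hk, h1, h2⟩ := Set.mem_iUnion₂.1 hp
  simp only [pvlnCtr] at h1 h2
  rw [abs_le] at h1 h2
  obtain ⟨c, c1, c2, c3, c4⟩ := pvt_sq_cover hδ p
  refine Set.mem_iUnion₂.2 ⟨c, ⟨k, hk, ?_, ?_, ?_, ?_⟩, c1, c2, c3, c4⟩
  · have : (c.1 : ℝ) < (k.1 : ℝ) + 2 := by
      by_contra hc
      push Not at hc
      nlinarith
    have : c.1 < k.1 + 2 := by exact_mod_cast this
    push_cast
    omega
  · have : (k.1 : ℝ) < (c.1 : ℝ) + 2 := by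
      by_contra hc
      push Not at hc
      nlinarith
    have : k.1 < c.1 + 2 := by exact_mod_cast this
    push_cast
    omega
  · have : (c.2 : ℝ) < (k.2 : ℝ) + 2 := by
      by_contra hc
      push Not at hc
      nlinarith
    have : c.2 < k.2 + 2 := by exact_mod_cast this
    push_cast
    omega
  · have : (k.2 : ℝ) < (c.2 : ℝ) + 2 := by
      by_contra hc
      push Not at hc
      nlinarith
    have : k.2 < c.2 + 2 := by exact_mod_cast this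
    push_cast
    omega

/-- sets of cells which are not neighbours: disjoint regions -/
theorem pvwg_U_disj (hδ : 0 < δ) (h : Disjoint (pvtwN 1 X) Y) : Disjoint (pvtU δ X) (pvtU δ Y) :=
  pvtw_U_disj hδ (by rwa [← pvtw_N_one])

end dict

/-! ## §2 the lane -/

/-- **THE RING PART OF THE WHITE LANE OF A PATTERN**: a walk of link cells with the contract of 147 and the two lists, CELL FORM -/
structure PvwgLane (𝔤 : PvmhNum) (h δ : ℝ) (κ : ℤ) (hκ : 0 < κ) (os ot : ℤ × ℤ) (s t : PvmhT 𝔤) (Fa : Set (ℤ × ℤ)) (L : List (ℤ × ℤ)) : Prop where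
  wf : (pvhhDat 𝔤 h (pvmgPt δ os) s (pvmgPt δ ot) t δ L).Wf
  hook : (pvhhDat 𝔤 h (pvmgPt δ os) s (pvmgPt δ ot) t δ L).Hook
  /-- (IN) -/
  inn : pvtwN 1 {k | k ∈ L} ⊆ (pvgwDiv κ hκ os).pre (pvtwN 5 (pvmnCells s.typ 7 8) ∪ pvtwN 2 {pvlpA1 s.typ s.ln}) ∪ pvtwN 3 Fa ∪
    (pvgwDiv κ hκ ot).pre (pvtwN 5 (pvmnCells t.typ 1 2) ∪ pvtwN 2 {pvlpA0 t.typ t.ln})
  /-- (OFF) -/
  off : ∀ X : Set (ℤ × ℤ), pvtwN 3 X ⊆ pvgwA (pvgwDiv κ hκ os) (pvgwDiv κ hκ ot) s.typ t.typ Fa → Disjoint X ((pvgwDiv κ hκ os).pre (pvtwN 2 {pvlpA1 s.typ s.ln})) →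
    Disjoint X ((pvgwDiv κ hκ ot).pre (pvtwN 2 {pvlpA0 t.typ t.ln})) → Disjoint (pvtwN 2 {k | k ∈ L}) X

section lane

variable {𝔤 : PvmhNum} {h δ : ℝ} {κ : ℤ} {hκ : 0 < κ} {os ot : ℤ × ℤ} {s t : PvmhT 𝔤} {Fa : Set (ℤ × ℤ)} {L : List (ℤ × ℤ)}

/-- symmetric form of the collars -/
theorem pvwg_N_symm {A B : Set (ℤ × ℤ)} {k : ℕ} (h : Disjoint A (pvtwN k B)) : Disjoint (pvtwN k A) B := by
  have := pvmn_N_disj (i := k) (j := 0) (A := A) (B := B) (by simpa using h)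
  rwa [pvtw_N_zero] at this

/-- **GLUE-W AT THE MODEL** -/
theorem pvwg_lane (H : 𝔤.OK) (hh : 0 < h) (hcol : s.typ.col = t.typ.col) (hδ : 0 < δ) (h20 : 20 ≤ κ) (hκδ : 𝔤.dl * h = (κ : ℝ) * δ)
    (I : PvgwIn 𝔤.NN (pvgwDiv κ hκ os) (pvgwDiv κ hκ ot) s.typ t.typ Fa) : ∃ L, PvwgLane 𝔤 h δ κ hκ os ot s t Fa L := by
  obtain ⟨S, hfin, hconn, hSA, hs, ht, hadj⟩ := pvgw_glue I s.isLane t.isLane
  obtain ⟨L, hL, hwf, hhook⟩ := pvhh_dat_of_maps H hh hcol hδ hκ h20 hκδ os ot (pvgw_W_finite (Ms := pvgwDiv κ hκ os) (Mt := pvgwDiv κ hκ ot) (rs := pvlpA1 s.typ s.ln) (rt := pvlpA0 t.typ t.ln) hfin)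
    (pvgw_W_conn hconn hs ht) pvgw_W_s pvgw_W_t
  have h3 : ((3 : ℕ) : ℤ) ≤ κ := by push_cast; omega
  have h2 : ((2 : ℕ) : ℤ) ≤ κ := by push_cast; omega
  refine ⟨L, hwf, hhook, ?_, ?_⟩
  · rw [hL, pvgwW, pvtw_N_add, pvtw_N_union, pvtw_N_union]
    have hS1 : S ⊆ pvtwN 1 ((pvgwDiv κ hκ os).pre (pvtwN 4 (pvmnCells s.typ 7 8)) ∪ Fa ∪ (pvgwDiv κ hκ ot).pre (pvtwN 4 (pvmnCells t.typ 1 2))) := by
      intro w hw
      obtain ⟨b, hbw, hb⟩ := hadj w hw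
      exact pvgw_N_adj (k := 0) (by rwa [pvtw_N_zero]) (Or.inr hbw)
    rintro v ((hv | hv) | hv)
    · have := pvtw_N_mono (k := 1 + 1) le_rfl hS1 hv
      rw [pvtw_N_add, pvtw_N_union, pvtw_N_union] at this
      rcases this with (h' | h') | h'
      · have := pvwg_N_pre1 hκ os h3 _ h'
        rw [pvtw_N_add] at this
        exact Or.inl (Or.inl (Or.inl this))
      · exact Or.inl (Or.inr h')
      · have := pvwg_N_pre1 hκ ot h3 _ h'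
        rw [pvtw_N_add] at this
        exact Or.inr (Or.inl this)
    · have := pvwg_N_pre1 hκ os h2 _ hv
      rw [pvtw_N_add] at this
      exact Or.inl (Or.inl (Or.inr this))
    · have := pvwg_N_pre1 hκ ot h2 _ hv
      rw [pvtw_N_add] at this
      exact Or.inr (Or.inr this)
  · intro X hXA hX1 hX0
    rw [hL, pvgwW, pvtw_N_add, pvtw_N_union, pvtw_N_union, Set.disjoint_union_left, Set.disjoint_union_left]
    refine ⟨⟨pvwg_N_symm (Set.disjoint_of_subset_right hXA hSA), ?_⟩, ?_⟩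
    · refine Set.disjoint_of_subset_left ?_ hX1.symm
      have := pvwg_N_pre1 hκ os h3 (pvtwN 1 {pvlpA1 s.typ s.ln})
      rwa [pvtw_N_add] at this
    · refine Set.disjoint_of_subset_left ?_ hX0.symm
      have := pvwg_N_pre1 hκ ot h3 (pvtwN 1 {pvlpA0 t.typ t.ln})
      rwa [pvtw_N_add] at this

end lane

/-! ## §3 the two lists in the plane, instances -/

section types

variable {𝔑 : PvmnNum} {τ : PvmnType} {ln : ((ℤ × ℤ) × (ℤ × ℤ)) × ℕ}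

/-- the last cell of the lane: off `K3`, off the door `Dr⁺`, in the 5-tube of the piece 8 -/
theorem pvwg_A1 (hτ : PvmnIsType 𝔑 τ) (hl : PvmnLaneR τ ln.1 ln.2) : pvlpA1 τ ln ∉ pvmnK3 τ ∧ pvlpA1 τ ln ∈ pvtwN 5 (τ.C 8 : Set (ℤ × ℤ)) ∧ pvlpA1 τ ln ∉ pvmnDrp τ := by
  have h2 := pvgw_lane_two hτ hl
  have hd := pvtr_iter_mem hl.mem (ln.2 - 1)
  exact ⟨hd.2.1, pvgw_N_adj (pvgw_lane_last hτ hl) (Or.inr hd.2.2), fun h => hl.off (ln.2 - 1) (by omega) (by omega) (Or.inr h)⟩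

/-- the first cell of the lane: off `K3`, off the door `Dr⁻`, in the 5-tube of the piece 1 -/
theorem pvwg_A0 (hτ : PvmnIsType 𝔑 τ) (hl : PvmnLaneR τ ln.1 ln.2) : pvlpA0 τ ln ∉ pvmnK3 τ ∧ pvlpA0 τ ln ∈ pvtwN 5 (τ.C 1 : Set (ℤ × ℤ)) ∧ pvlpA0 τ ln ∉ pvmnDrm τ := by
  have h2 := pvgw_lane_two hτ hl
  have hd := pvtr_iter_mem hl.mem 1
  exact ⟨hd.2.1, pvgw_N_adj (pvgw_lane_first hτ hl) (Or.inr hd.2.2), fun h => hl.off 1 (by omega) (by omega) (Or.inl h)⟩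

theorem pvwg_N_single {E : Set (ℤ × ℤ)} {a : ℤ × ℤ} {i j : ℕ} (h : a ∈ pvtwN i E) : pvtwN j {a} ⊆ pvtwN (j + i) E := by
  rw [← pvtw_N_add]
  exact pvtw_N_mono le_rfl (Set.singleton_subset_iff.2 h)

/-- a cell off the `(i+j)`-collar: the collars are disjoint -/
theorem pvwg_single_disj {E : Set (ℤ × ℤ)} {a : ℤ × ℤ} {i j : ℕ} (h : a ∉ pvtwN (i + j) E) : Disjoint (pvtwN j E) (pvtwN i {a}) :=
  (pvmn_N_disj (Set.disjoint_singleton_left.2 h)).symm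

/-- a placed set of cells off the grid ball misses the round ball -/
theorem pvwg_off_ball {z : ℂ} {lam ρ : ℝ} (hlam : 0 < lam) {E : Set (ℤ × ℤ)} (hE : Disjoint E (pvmnBl ρ)) : Disjoint (pvmgPl z lam E) (Metric.closedBall z (lam * ρ)) := by
  rw [Set.disjoint_left]
  intro p hp hb
  obtain ⟨c, hc, hpc⟩ := pvmg_mem_sq.1 hp
  refine Set.disjoint_left.1 hE hc ?_
  rw [← pvmn_Bl_scale hlam]
  exact ⟨p - z, hpc, by rwa [Metric.mem_closedBall, dist_zero_right, ← dist_eq_norm]⟩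

/-- the round ball lies in the placed grid ball -/
theorem pvwg_ball_sub {z : ℂ} {lam ρ : ℝ} (hlam : 0 < lam) : Metric.closedBall z (lam * ρ) ⊆ pvmgPl z lam (pvmnBl ρ) := by
  intro p hp
  obtain ⟨c, hc⟩ := pvt_sq_cover hlam (p - z)
  refine pvmg_mem_sq.2 ⟨c, ?_, hc⟩
  rw [← pvmn_Bl_scale hlam]
  exact ⟨p - z, hc, by rwa [Metric.mem_closedBall, dist_zero_right, ← dist_eq_norm]⟩

end types

namespace PvwgLane

variable {𝔤 : PvmhNum} {h δ : ℝ} {κ : ℤ} {hκ : 0 < κ} {os ot : ℤ × ℤ} {s t : PvmhT 𝔤} {Fa : Set (ℤ × ℤ)} {L : List (ℤ × ℤ)} (Λ : PvwgLane 𝔤 h δ κ hκ os ot s t Fa L)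

include Λ

/-- **(IN), in the plane** -/
theorem inn_pl (hδ : 0 < δ) : pvlnW δ L ⊆ pvmgPl (pvmgPt δ os) ((κ : ℝ) * δ) (pvtwN 5 (pvmnCells s.typ 7 8) ∪ pvtwN 2 {pvlpA1 s.typ s.ln}) ∪ pvtU δ (pvtwN 3 Fa) ∪
    pvmgPl (pvmgPt δ ot) ((κ : ℝ) * δ) (pvtwN 5 (pvmnCells t.typ 1 2) ∪ pvtwN 2 {pvlpA0 t.typ t.ln}) := by
  have := (pvwg_W_U hδ L).trans (pvt_U_mono Λ.inn)
  rwa [pvt_U_union, pvt_U_union, pvwg_U_pre hδ, pvwg_U_pre hδ] at this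

/-- **(OFF), in the plane** -/
theorem off_pl (hδ : 0 < δ) {X : Set (ℤ × ℤ)} (h1 : pvtwN 3 X ⊆ pvgwA (pvgwDiv κ hκ os) (pvgwDiv κ hκ ot) s.typ t.typ Fa) (h2 : Disjoint X ((pvgwDiv κ hκ os).pre (pvtwN 2 {pvlpA1 s.typ s.ln})))
    (h3 : Disjoint X ((pvgwDiv κ hκ ot).pre (pvtwN 2 {pvlpA0 t.typ t.ln}))) : Disjoint (pvlnW δ L) (pvtU δ X) :=
  Set.disjoint_of_subset_left (pvwg_W_U hδ L) (pvwg_U_disj hδ (by rw [pvtw_N_add]; exact Λ.off X h1 h2 h3))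

/-- the lane misses the placed 2-tube of the pieces `0..8` of `s` -/
theorem off_s (hδ : 0 < δ) (h3 : 3 ≤ κ) (I : PvgwIn 𝔤.NN (pvgwDiv κ hκ os) (pvgwDiv κ hκ ot) s.typ t.typ Fa) :
    Disjoint (pvlnW δ L) (pvmgPl (pvmgPt δ os) ((κ : ℝ) * δ) (pvtwN 2 (pvmnCells s.typ 0 8))) := by
  rw [← pvwg_U_pre hδ hκ]
  obtain ⟨a1, a2, a3⟩ := pvwg_A1 s.isType s.isLane
  obtain ⟨b1, b2, b3⟩ := pvwg_A0 t.isType t.isLane
  refine Λ.off_pl hδ ?_ ?_ ?_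
  · have := pvwg_N_pre1 hκ os (k := 3) (by push_cast; omega) (pvtwN 2 (pvmnCells s.typ 0 8))
    rw [pvtw_N_add] at this
    exact this.trans ((pvgw_pre_mono _ (pvtw_N_mono (by omega) le_rfl)).trans fun v hv => pvt_hull_sub (Or.inl (Or.inl hv)))
  · exact pvgw_pre_disj _ (pvwg_single_disj fun h => a1 (pvt_hull_sub (pvtw_N_mono le_rfl (pvmn_cells_mono le_rfl (by omega)) h)))
  · exact Set.disjoint_left.2 fun v h1 h2 => I.ap_st (j := 7) (p' := 1) (q' := 1) (by omega) (by omega) h1 (pvtw_N_mono le_rfl (pvmn_C_sub 1 (by simp) (by simp)) (pvwg_N_single b2 h2))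

/-- the lane misses the placed 2-tube of the pieces `1..9` of `t` -/
theorem off_t (hδ : 0 < δ) (h3 : 3 ≤ κ) (I : PvgwIn 𝔤.NN (pvgwDiv κ hκ os) (pvgwDiv κ hκ ot) s.typ t.typ Fa) :
    Disjoint (pvlnW δ L) (pvmgPl (pvmgPt δ ot) ((κ : ℝ) * δ) (pvtwN 2 (pvmnCells t.typ 1 9))) := by
  rw [← pvwg_U_pre hδ hκ]
  obtain ⟨a1, a2, a3⟩ := pvwg_A1 s.isType s.isLane
  obtain ⟨b1, b2, b3⟩ := pvwg_A0 t.isType t.isLane
  refine Λ.off_pl hδ ?_ ?_ ?_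
  · have := pvwg_N_pre1 hκ ot (k := 3) (by push_cast; omega) (pvtwN 2 (pvmnCells t.typ 1 9))
    rw [pvtw_N_add] at this
    exact this.trans ((pvgw_pre_mono _ (pvtw_N_mono (by omega) le_rfl)).trans fun v hv => pvt_hull_sub (Or.inr hv))
  · exact Set.disjoint_left.2 fun v h1 h2 => I.ap_st (i := 7) (p := 8) (q := 8) (by omega) (by omega) (pvtw_N_mono le_rfl (pvmn_C_sub 8 (by simp) (by simp)) (pvwg_N_single a2 h2)) h1
  · exact pvgw_pre_disj _ (pvwg_single_disj fun h => b1 (pvt_hull_sub (pvtw_N_mono le_rfl (pvmn_cells_mono (by omega) le_rfl) h)))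

/-- the lane misses the thin tube of the arc: every `X` whose 3-collar lies in `Fa` -/
theorem off_Fa (hδ : 0 < δ) (I : PvgwIn 𝔤.NN (pvgwDiv κ hκ os) (pvgwDiv κ hκ ot) s.typ t.typ Fa) {X : Set (ℤ × ℤ)} (hX : pvtwN 3 X ⊆ Fa) : Disjoint (pvlnW δ L) (pvtU δ X) := by
  obtain ⟨a1, a2, a3⟩ := pvwg_A1 s.isType s.isLane
  obtain ⟨b1, b2, b3⟩ := pvwg_A0 t.isType t.isLane
  have hXF : X ⊆ Fa := pvtw_N_sub.trans hX
  refine Λ.off_pl hδ (hX.trans fun v hv => pvt_hull_sub (Or.inl (Or.inr hv))) ?_ ?_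
  · refine Set.disjoint_left.2 fun v h1 h2 => a3 ?_
    have h7 : (pvgwDiv κ hκ os).ap v ∈ pvtwN 7 (s.typ.C 8 : Set (ℤ × ℤ)) := pvwg_N_single a2 h2
    have h9 := I.off_s v (hXF h1) (pvtw_N_mono (by omega) (pvmn_C_sub 8 (by simp) (by simp)) h7)
    obtain ⟨z, hz, z1, z2, z3, z4⟩ := h2
    obtain rfl : z = pvlpA1 s.typ s.ln := hz
    have : pvlpA1 s.typ s.ln ∈ pvtwN 2 {(pvgwDiv κ hκ os).ap v} := ⟨_, rfl, z2, z1, z4, z3⟩
    exact pvtw_N_mono (by omega) le_rfl (pvwg_N_single h9 this)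
  · refine Set.disjoint_left.2 fun v h1 h2 => b3 ?_
    have h7 : (pvgwDiv κ hκ ot).ap v ∈ pvtwN 7 (t.typ.C 1 : Set (ℤ × ℤ)) := pvwg_N_single b2 h2
    have h9 := I.off_t v (hXF h1) (pvtw_N_mono (by omega) (pvmn_C_sub 1 (by simp) (by simp)) h7)
    obtain ⟨z, hz, z1, z2, z3, z4⟩ := h2
    obtain rfl : z = pvlpA0 t.typ t.ln := hz
    have : pvlpA0 t.typ t.ln ∈ pvtwN 2 {(pvgwDiv κ hκ ot).ap v} := ⟨_, rfl, z2, z1, z4, z3⟩
    exact pvtw_N_mono (by omega) le_rfl (pvwg_N_single h9 this)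

/-- the lane lies in the placed bodies of 138 (collar `8` of the pieces `1..8`) and in the 3-collar of the tube of the arc -/
theorem inn_body (hδ : 0 < δ) : pvlnW δ L ⊆ pvmgPl (pvmgPt δ os) ((κ : ℝ) * δ) (pvtwN 8 (pvmnCells s.typ 1 8)) ∪ pvtU δ (pvtwN 3 Fa) ∪ pvmgPl (pvmgPt δ ot) ((κ : ℝ) * δ) (pvtwN 8 (pvmnCells t.typ 1 8)) := by
  obtain ⟨a1, a2, a3⟩ := pvwg_A1 s.isType s.isLane
  obtain ⟨b1, b2, b3⟩ := pvwg_A0 t.isType t.isLane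
  refine (Λ.inn_pl hδ).trans (Set.union_subset_union (Set.union_subset_union (pvmg_mono (Set.union_subset ?_ ?_)) le_rfl) (pvmg_mono (Set.union_subset ?_ ?_)))
  · exact pvtw_N_mono (by omega) (pvmn_cells_mono (by omega) le_rfl)
  · exact (pvwg_N_single a2).trans (pvtw_N_mono (by omega) (pvmn_C_sub 8 (by simp) (by simp)))
  · exact pvtw_N_mono (by omega) (pvmn_cells_mono le_rfl (by omega))
  · exact (pvwg_N_single b2).trans (pvtw_N_mono (by omega) (pvmn_C_sub 1 (by simp) (by simp)))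

end PvwgLane

/-- the two end parts of the list (IN) keep off the grid ball `rB` of their own pin -/
theorem pvwg_end_ball_s {𝔑 : PvmnNum} {τ : PvmnType} {ln : ((ℤ × ℤ) × (ℤ × ℤ)) × ℕ} (hτ : PvmnIsType 𝔑 τ) (hl : PvmnLaneR τ ln.1 ln.2) :
    Disjoint (pvtwN 5 (pvmnCells τ 7 8) ∪ pvtwN 2 {pvlpA1 τ ln}) (pvmnBl 𝔑.rB) := by
  obtain ⟨a1, a2, a3⟩ := pvwg_A1 hτ hl
  rw [Set.disjoint_union_left]
  constructor
  · rw [Set.disjoint_left]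
    intro c hc hb
    obtain ⟨k, k1, k2, hk⟩ := pvmn_N_cells.1 hc
    exact Set.disjoint_left.1 (hτ.ball k (by omega) (by omega)) (pvtw_N_mono (by omega) le_rfl hk) hb
  · exact Set.disjoint_of_subset_left ((pvwg_N_single a2).trans (pvtw_N_mono (by omega) le_rfl)) (hτ.ball 8 (by decide) (by decide))

theorem pvwg_end_ball_t {𝔑 : PvmnNum} {τ : PvmnType} {ln : ((ℤ × ℤ) × (ℤ × ℤ)) × ℕ} (hτ : PvmnIsType 𝔑 τ) (hl : PvmnLaneR τ ln.1 ln.2) :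
    Disjoint (pvtwN 5 (pvmnCells τ 1 2) ∪ pvtwN 2 {pvlpA0 τ ln}) (pvmnBl 𝔑.rB) := by
  obtain ⟨a1, a2, a3⟩ := pvwg_A0 hτ hl
  rw [Set.disjoint_union_left]
  constructor
  · rw [Set.disjoint_left]
    intro c hc hb
    obtain ⟨k, k1, k2, hk⟩ := pvmn_N_cells.1 hc
    exact Set.disjoint_left.1 (hτ.ball k (by omega) (by omega)) (pvtw_N_mono (by omega) le_rfl hk) hb
  · exact Set.disjoint_of_subset_left ((pvwg_N_single a2).trans (pvtw_N_mono (by omega) le_rfl)) (hτ.ball 1 (by decide) (by decide))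

/-- the end parts lie in the box -/
theorem pvwg_end_box_s {𝔑 : PvmnNum} {τ : PvmnType} {ln : ((ℤ × ℤ) × (ℤ × ℤ)) × ℕ} (hτ : PvmnIsType 𝔑 τ) (hl : PvmnLaneR τ ln.1 ln.2) :
    pvtwN 1 (pvtwN 5 (pvmnCells τ 7 8) ∪ pvtwN 2 {pvlpA1 τ ln}) ⊆ pvmnBox (𝔑.nBx + 10) := by
  obtain ⟨a1, a2, a3⟩ := pvwg_A1 hτ hl
  rw [pvtw_N_union, pvtw_N_add]
  refine Set.union_subset (fun c hc => pvgw_cells_box hτ (by omega) hc) ?_
  intro c hc
  have := pvtw_N_mono (k := 1) le_rfl (pvwg_N_single (j := 2) a2) hc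
  rw [pvtw_N_add] at this
  exact pvgw_C_box hτ (by omega) this

theorem pvwg_end_box_t {𝔑 : PvmnNum} {τ : PvmnType} {ln : ((ℤ × ℤ) × (ℤ × ℤ)) × ℕ} (hτ : PvmnIsType 𝔑 τ) (hl : PvmnLaneR τ ln.1 ln.2) :
    pvtwN 1 (pvtwN 5 (pvmnCells τ 1 2) ∪ pvtwN 2 {pvlpA0 τ ln}) ⊆ pvmnBox (𝔑.nBx + 10) := by
  obtain ⟨a1, a2, a3⟩ := pvwg_A0 hτ hl
  rw [pvtw_N_union, pvtw_N_add]
  refine Set.union_subset (fun c hc => pvgw_cells_box hτ (by omega) hc) ?_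
  intro c hc
  have := pvtw_N_mono (k := 1) le_rfl (pvwg_N_single (j := 2) a2) hc
  rw [pvtw_N_add] at this
  exact pvgw_C_box hτ (by omega) this

theorem pvwg_Bl_box {𝔑 : PvmnNum} (N : PvmnNumOK 𝔑) : pvmnBl 𝔑.rB ⊆ pvmnBox (𝔑.nBx + 10) :=
  (pvmn_Bl_box N.rB_nC).trans (pvmn_box_mono (by have := N.nC_nF; have := N.nF_nBx; omega))

namespace PvwgLane

variable {𝔤 : PvmhNum} {h δ : ℝ} {κ : ℤ} {hκ : 0 < κ} {os ot : ℤ × ℤ} {s t : PvmhT 𝔤} {Fa : Set (ℤ × ℤ)} {L : List (ℤ × ℤ)} (Λ : PvwgLane 𝔤 h δ κ hκ os ot s t Fa L)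

include Λ

/-- **the lane misses the ball `rB` of `s`** as soon as the 3-collar of the tube of the arc does -/
theorem off_ball_s (hδ : 0 < δ) (N : PvmnNumOK 𝔤.NN) (I : PvgwIn 𝔤.NN (pvgwDiv κ hκ os) (pvgwDiv κ hκ ot) s.typ t.typ Fa)
    (hF : Disjoint (pvtU δ (pvtwN 3 Fa)) (Metric.closedBall (pvmgPt δ os) ((κ : ℝ) * δ * 𝔤.NN.rB))) : Disjoint (pvlnW δ L) (Metric.closedBall (pvmgPt δ os) ((κ : ℝ) * δ * 𝔤.NN.rB)) := by
  have hlam : 0 < (κ : ℝ) * δ := mul_pos (by exact_mod_cast hκ) hδ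
  refine Set.disjoint_of_subset_left (Λ.inn_pl hδ) ?_
  rw [Set.disjoint_union_left, Set.disjoint_union_left]
  refine ⟨⟨pvwg_off_ball hlam (pvwg_end_ball_s s.isType s.isLane), hF⟩, ?_⟩
  refine Set.disjoint_of_subset_right (pvwg_ball_sub hlam) ?_
  rw [← pvwg_U_pre hδ hκ, ← pvwg_U_pre hδ hκ]
  refine pvwg_U_disj hδ (Set.disjoint_of_subset ((pvgw_N_pre _ 1 _).trans (pvgw_pre_mono _ (pvwg_end_box_t t.isType t.isLane))) (pvgw_pre_mono _ (pvwg_Bl_box N)) I.apart.symm)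

/-- **the lane misses the ball `rB` of `t`** -/
theorem off_ball_t (hδ : 0 < δ) (N : PvmnNumOK 𝔤.NN) (I : PvgwIn 𝔤.NN (pvgwDiv κ hκ os) (pvgwDiv κ hκ ot) s.typ t.typ Fa)
    (hF : Disjoint (pvtU δ (pvtwN 3 Fa)) (Metric.closedBall (pvmgPt δ ot) ((κ : ℝ) * δ * 𝔤.NN.rB))) : Disjoint (pvlnW δ L) (Metric.closedBall (pvmgPt δ ot) ((κ : ℝ) * δ * 𝔤.NN.rB)) := by
  have hlam : 0 < (κ : ℝ) * δ := mul_pos (by exact_mod_cast hκ) hδ
  refine Set.disjoint_of_subset_left (Λ.inn_pl hδ) ?_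
  rw [Set.disjoint_union_left, Set.disjoint_union_left]
  refine ⟨⟨?_, hF⟩, pvwg_off_ball hlam (pvwg_end_ball_t t.isType t.isLane)⟩
  refine Set.disjoint_of_subset_right (pvwg_ball_sub hlam) ?_
  rw [← pvwg_U_pre hδ hκ, ← pvwg_U_pre hδ hκ]
  refine pvwg_U_disj hδ (Set.disjoint_of_subset ((pvgw_N_pre _ 1 _).trans (pvgw_pre_mono _ (pvwg_end_box_s s.isType s.isLane))) (pvgw_pre_mono _ (pvwg_Bl_box N)) I.apart)

/-- the window of the lane is bounded and measurable data for `T`, `Ew` -/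
theorem chain : L.IsChain PvlnAdj := Λ.wf.5

end PvwgLane

end Claimed.Agent.R289
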