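import Claimed.Agent.R289.Tr.PatPF
import Claimed.Agent.R289.Tr.CellRef
import Claimed.Agent.R289.Tr.GlueW

/-!
# Row 289 (S0537, Cardy for Poisson-Voronoi), THE WALL, ROAD P, file Tr/HullRef : THE BODY WITH ITS HOLES      (pen helper183; prefix `pvyt_h`, as `Tr/PatPF`)

Finding HOLES of 135: a piece of a menu type may be a ring, and the closed region `KE` of a funnel (bounded, complement preconnected) contains the hole.      CURE (`Tr/PatPF`): `pvytFull 𝔓 mm c t := D_{mm+9}(c + pvtbHull (𝔓.B t))`.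
HERE, for the producers of `PvytPl`, `PvytCand`, `PvydDjFit`:
* sec. 1  **`pvyt_hull_ref`** : `pvtbHull (pvrcRef k S) = pvrcRef k (pvtbHull S)`  (the holes of the refined body are the refined holes of the menu body)
          **`pvyt_hull_tri`** : `pvtHull S ⊆ pvtbHull S` (THE BRIDGE),   **`pvyt_hullT_ref`** : `pvtHull (pvrcRef k S) = pvrcRef k (pvtHull S)`
          **`pvyt_hullT_pre`** : `pvtHull (M.pre E) = M.pre (pvtHull E)` for every `M : PvgwMap` (`Tr/GlueW`; link cells, any offset), `pvyt_hullT_pre_sub`, `pvyt_hullT_pre_mono`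
* sec. 2  `pvyt_full_fin`, `pvyt_full_co` (the complement of `pvytFull` is 4-connected), **`pvyt_full_hull`** : `X ⊆ pvytFull ⟹ pvtbHull X ⊆ pvytFull`;   `pvyt_full_hullT`, `pvyt_full_hullT_eq`, **`pvyt_full_pre`** (link cells over the container), `pvyt_front_o _i`, **`pvyt_full_o_eq _i_eq`, `pvyt_full_o_pre _i_pre`** (the container of ONE funnel = all but the last cell of the other nozzle has no TRI hole);   `pvyt_full_ref` : at a refined plug the hull is taken at the menu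
-/

set_option autoImplicit false

namespace Claimed.Agent.R289

open Set Relation Claims.C0467 Claimed.Agent.R291

/-! ## 1. hull and refinement -/

section ref

variable {k : ℤ} {S : Set (ℤ × ℤ)}

theorem pvyt_h_ref_fin (hk : 0 < k) (hS : S.Finite) : (pvrcRef k S).Finite := by
  obtain ⟨a, b, c, d, h⟩ := pvtb_finite_sub_box hS
  refine (tsc_box_finite (k * a) (k * b + k) (k * c) (k * d + k)).subset fun x hx => ?_
  obtain ⟨p, hp, h1, h2, h3, h4⟩ := (pvrc_ref_iff hk).1 hx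
  obtain ⟨u1, u2, u3, u4⟩ := h hp
  refine ⟨?_, ?_, ?_, ?_⟩ <;> nlinarith

/-- the refined outside is outside -/
theorem pvyt_h_ref_out (hk : 0 < k) (hS : S.Finite) : pvrcRef k (pvtbOut S) ⊆ pvtbOut (pvrcRef k S) := by
  obtain ⟨a, b, c, d, h⟩ := pvtb_finite_sub_box (pvyt_h_ref_fin hk hS)
  -- a cell of the refined outside off the box
  obtain ⟨a', b', c', d', h'⟩ := pvtb_finite_sub_box hS
  have hfin : (tscBox a' b' c' d' ∪ (fun x : ℤ × ℤ => (x.1 / k, x.2 / k)) '' tscBox a b c d).Finite := (tsc_box_finite _ _ _ _).union ((tsc_box_finite _ _ _ _).image _)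
  obtain ⟨t, ht⟩ := hfin.infinite_compl.nonempty
  simp only [Set.mem_compl_iff, Set.mem_union, not_or] at ht
  have ht1 : t ∈ pvtbOut S := pvtb_out_of_box h' ht.1
  have e1 : k * t.1 / k = t.1 := Int.mul_ediv_cancel_left _ hk.ne'
  have e2 : k * t.2 / k = t.2 := Int.mul_ediv_cancel_left _ hk.ne'
  have hw : ((k * t.1, k * t.2) : ℤ × ℤ) ∈ pvrcRef k (pvtbOut S) := by
    show ((k * t.1 / k, k * t.2 / k) : ℤ × ℤ) ∈ pvtbOut S
    rw [e1, e2]
    exact ht1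
  have hwb : ((k * t.1, k * t.2) : ℤ × ℤ) ∉ tscBox a b c d := fun hc => ht.2 ⟨_, hc, by simp only [e1, e2]⟩
  exact pvfj_access (pvrc_conn4 hk (pvtb_out_conn hS)) (pvrc_ref_disj (Set.disjoint_left.2 fun x hx hx' => pvtb_out_sub hx hx')) h hw hwb

/-- a 4-path of fine cells off the refinement goes down to a 4-path of coarse cells -/
theorem pvyt_h_R_down (hk : 0 < k) {T : Set (ℤ × ℤ)} {u v : ℤ × ℤ} (h : TscR pvtbG4 (pvrcRef k T) u v) : TscR pvtbG4 T (u.1 / k, u.2 / k) (v.1 / k, v.2 / k) := by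
  induction h with
  | refl => exact tsc_R_refl _
  | @tail x y _ hxy ih =>
    refine tsc_R_trans ih ?_
    obtain ⟨hadj, hx, hy⟩ := hxy
    by_cases e : ((x.1 / k, x.2 / k) : ℤ × ℤ) = (y.1 / k, y.2 / k)
    · rw [e]
      exact tsc_R_refl _
    · refine tsc_R_step ?_ hx hy
      rw [pvtb_G4_adj] at hadj
      rw [Prod.ext_iff, not_and_or] at e
      simp only at e
      have s1 : ∀ a : ℤ, (a + 1) / k = a / k ∨ (a + 1) / k = a / k + 1 := by
        intro a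
        have h1 : a / k ≤ (a + 1) / k := Int.ediv_le_ediv hk (by omega)
        have h2 : (a + 1) / k ≤ (a + k) / k := Int.ediv_le_ediv hk (by omega)
        rw [Int.add_ediv_of_dvd_right (dvd_refl k), Int.ediv_self hk.ne'] at h2
        omega
      apply pvtb_G4_of
      rcases hadj with ⟨a1, a2⟩ | ⟨a1, a2⟩ | ⟨a1, a2⟩ | ⟨a1, a2⟩
      · rw [a1, a2] at e ⊢
        have := s1 x.1
        omega
      · have := s1 y.1
        have e3 : y.1 + 1 = x.1 := by omega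
        rw [e3] at this
        rw [a2] at e ⊢
        omega
      · rw [a1, a2] at e ⊢
        have := s1 x.2
        omega
      · have := s1 y.2
        have e3 : y.2 + 1 = x.2 := by omega
        rw [e3] at this
        rw [a1] at e ⊢
        omega

/-- the outside of the refinement is the refined outside -/
theorem pvyt_h_out_ref (hk : 0 < k) : pvtbOut (pvrcRef k S) ⊆ pvrcRef k (pvtbOut S) := by
  intro z hz B hB
  obtain ⟨t, ht, h⟩ := hz (pvrcRef k B) (pvyt_h_ref_fin hk hB)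
  exact ⟨(t.1 / k, t.2 / k), ht, pvyt_h_R_down hk (T := Sᶜ) h⟩

/-- **the holes of the refined set are the refined holes** -/
theorem pvyt_hull_ref (hk : 0 < k) (hS : S.Finite) : pvtbHull (pvrcRef k S) = pvrcRef k (pvtbHull S) := by
  have e : pvtbOut (pvrcRef k S) = pvrcRef k (pvtbOut S) := Set.Subset.antisymm (pvyt_h_out_ref hk) (pvyt_h_ref_out hk hS)
  rw [pvtbHull, e]
  rfl

/-! ### the same for the TRI hull `pvtHull` of `Tr/Poly` (menu level and link level: P21 (c) of 273) -/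

/-- **THE BRIDGE**: the TRI hull is smaller than the (8,4) hull (a 4-escape is a TRI escape) -/
theorem pvyt_hull_tri (S : Set (ℤ × ℤ)) : pvtHull S ⊆ pvtbHull S := Set.compl_subset_compl.2 pvtb_out_sub_tri

/-- one step of the integer division -/
theorem pvyt_h_div_step (hk : 0 < k) (a : ℤ) : (a + 1) / k = a / k ∨ (a + 1) / k = a / k + 1 := by
  have h1 : a / k ≤ (a + 1) / k := Int.ediv_le_ediv hk (by omega)
  have h2 : (a + 1) / k ≤ (a + k) / k := Int.ediv_le_ediv hk (by omega)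
  rw [Int.add_ediv_of_dvd_right (dvd_refl k), Int.ediv_self hk.ne'] at h2
  omega

theorem pvyt_h_conn_tri (hk : 0 < k) {E : Set (ℤ × ℤ)} (hE : TscConn tscG E) : TscConn tscG (pvrcRef k E) := by
  refine pvrc_conn_gen hk (fun _ _ h => pvtb_G4_tri h) ?_ hE
  intro p q h
  rw [tsc_G_adj, tsc_adj_iff] at h
  simp only [pvrc_block hk]
  rcases h with ⟨h1, h2⟩ | ⟨h1, h2⟩ | ⟨h1, h2⟩ | ⟨h1, h2⟩ | ⟨h1, h2⟩ | ⟨h1, h2⟩
  · refine ⟨(k * p.1 + k - 1, k * p.2), ⟨by simp; omega, by simp, by simp, by simp; omega⟩, (k * q.1, k * q.2), ⟨by simp, by simp; omega, by simp, by simp; omega⟩, ?_⟩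
    rw [tsc_G_adj, tsc_adj_iff, h1, h2]
    left
    constructor <;> simp <;> ring
  · refine ⟨(k * p.1, k * p.2 + k - 1), ⟨by simp, by simp; omega, by simp; omega, by simp⟩, (k * q.1, k * q.2), ⟨by simp, by simp; omega, by simp, by simp; omega⟩, ?_⟩
    rw [tsc_G_adj, tsc_adj_iff, h1, h2]
    right; left
    constructor <;> simp <;> ring
  · refine ⟨(k * p.1, k * p.2 + k - 1), ⟨by simp, by simp; omega, by simp; omega, by simp⟩, (k * q.1 + k - 1, k * q.2), ⟨by simp; omega, by simp, by simp, by simp; omega⟩, ?_⟩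
    rw [tsc_G_adj, tsc_adj_iff, h1, h2]
    right; right; left
    constructor <;> simp <;> ring
  · refine ⟨(k * p.1, k * p.2), ⟨by simp, by simp; omega, by simp, by simp; omega⟩, (k * q.1 + k - 1, k * q.2), ⟨by simp; omega, by simp, by simp, by simp; omega⟩, ?_⟩
    rw [tsc_G_adj, tsc_adj_iff, h1, h2]
    right; right; right; left
    constructor <;> simp <;> ring
  · refine ⟨(k * p.1, k * p.2), ⟨by simp, by simp; omega, by simp, by simp; omega⟩, (k * q.1, k * q.2 + k - 1), ⟨by simp, by simp; omega, by simp; omega, by simp⟩, ?_⟩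
    rw [tsc_G_adj, tsc_adj_iff, h1, h2]
    right; right; right; right; left
    constructor <;> simp <;> ring
  · refine ⟨(k * p.1 + k - 1, k * p.2), ⟨by simp; omega, by simp, by simp, by simp; omega⟩, (k * q.1, k * q.2 + k - 1), ⟨by simp, by simp; omega, by simp; omega, by simp⟩, ?_⟩
    rw [tsc_G_adj, tsc_adj_iff, h1, h2]
    right; right; right; right; right
    constructor <;> simp <;> ring

/-- the refined TRI outside is outside -/
theorem pvyt_h_ref_outT (hk : 0 < k) (hS : S.Finite) : pvrcRef k (pvtOut S) ⊆ pvtOut (pvrcRef k S) := by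
  obtain ⟨a, b, c, d, h⟩ := pvtb_finite_sub_box (pvyt_h_ref_fin hk hS)
  obtain ⟨a', b', c', d', h'⟩ := pvtb_finite_sub_box hS
  have hfin : (tscBox a' b' c' d' ∪ (fun x : ℤ × ℤ => (x.1 / k, x.2 / k)) '' tscBox a b c d).Finite := (tsc_box_finite _ _ _ _).union ((tsc_box_finite _ _ _ _).image _)
  obtain ⟨t, ht⟩ := hfin.infinite_compl.nonempty
  simp only [Set.mem_compl_iff, Set.mem_union, not_or] at ht
  have ht1 : t ∈ pvtOut S := pvt_out_of_box h' ht.1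
  have e1 : k * t.1 / k = t.1 := Int.mul_ediv_cancel_left _ hk.ne'
  have e2 : k * t.2 / k = t.2 := Int.mul_ediv_cancel_left _ hk.ne'
  have hw : ((k * t.1, k * t.2) : ℤ × ℤ) ∈ pvrcRef k (pvtOut S) := by
    show ((k * t.1 / k, k * t.2 / k) : ℤ × ℤ) ∈ pvtOut S
    rw [e1, e2]
    exact ht1
  have hwb : ((k * t.1, k * t.2) : ℤ × ℤ) ∉ tscBox a b c d := fun hc => ht.2 ⟨_, hc, by simp only [e1, e2]⟩
  intro z hz
  refine pvt_out_R (pvt_out_of_box h hwb) (tsc_R_mono ?_ (pvyt_h_conn_tri hk (pvt_out_conn hS) _ hw z hz))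
  exact fun x hx hx' => pvt_out_sub (S := S) hx hx'

/-- a TRI path of fine cells in a refinement goes down to a TRI path of coarse cells -/
theorem pvyt_h_R_downT (hk : 0 < k) {T : Set (ℤ × ℤ)} {u v : ℤ × ℤ} (h : TscR tscG (pvrcRef k T) u v) : TscR tscG T (u.1 / k, u.2 / k) (v.1 / k, v.2 / k) := by
  induction h with
  | refl => exact tsc_R_refl _
  | @tail x y _ hxy ih =>
    refine tsc_R_trans ih ?_
    obtain ⟨hadj, hx, hy⟩ := hxy
    by_cases e : ((x.1 / k, x.2 / k) : ℤ × ℤ) = (y.1 / k, y.2 / k)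
    · rw [e]
      exact tsc_R_refl _
    · refine tsc_R_step ?_ hx hy
      rw [tsc_G_adj, tsc_adj_iff] at hadj ⊢
      rw [Prod.ext_iff, not_and_or] at e
      simp only at e ⊢
      have s1 := pvyt_h_div_step hk x.1
      have s2 := pvyt_h_div_step hk x.2
      have s3 := pvyt_h_div_step hk y.1
      have s4 := pvyt_h_div_step hk y.2
      rcases hadj with ⟨a1, a2⟩ | ⟨a1, a2⟩ | ⟨a1, a2⟩ | ⟨a1, a2⟩ | ⟨a1, a2⟩ | ⟨a1, a2⟩
      · rw [a1, a2] at e ⊢
        omega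
      · rw [a1, a2] at e ⊢
        omega
      · have e3 : y.1 + 1 = x.1 := by omega
        rw [e3] at s3
        rw [a2] at e ⊢
        omega
      · have e3 : y.1 + 1 = x.1 := by omega
        rw [e3] at s3
        rw [a2] at e ⊢
        omega
      · have e3 : y.2 + 1 = x.2 := by omega
        rw [e3] at s4
        rw [a1] at e ⊢
        omega
      · have e3 : y.2 + 1 = x.2 := by omega
        rw [e3] at s4
        rw [a1] at e ⊢
        omega

theorem pvyt_h_out_refT (hk : 0 < k) : pvtOut (pvrcRef k S) ⊆ pvrcRef k (pvtOut S) := by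
  intro z hz B hB
  obtain ⟨t, ht, h⟩ := hz (pvrcRef k B) (pvyt_h_ref_fin hk hB)
  exact ⟨(t.1 / k, t.2 / k), ht, pvyt_h_R_downT hk (T := Sᶜ) h⟩

/-- **the TRI holes of the refined set are the refined TRI holes** -/
theorem pvyt_hullT_ref (hk : 0 < k) (hS : S.Finite) : pvtHull (pvrcRef k S) = pvrcRef k (pvtHull S) := by
  have e : pvtOut (pvrcRef k S) = pvrcRef k (pvtOut S) := Set.Subset.antisymm (pvyt_h_out_refT hk) (pvyt_h_ref_outT hk hS)
  rw [pvtHull, e]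
  rfl

end ref

/-! ### the same along a monotone map of the lattice (`PvgwMap` of `Tr/GlueW`: `pvgwDiv k hk o` = the link cells over the menu / fine cells, ANY offset) -/

section pre

variable (M : PvgwMap) {E X Y : Set (ℤ × ℤ)}

/-- the refined TRI outside is outside -/
theorem pvyt_h_pre_out (hE : E.Finite) : M.pre (pvtOut E) ⊆ pvtOut (M.pre E) := by
  obtain ⟨a, b, c, d, h⟩ := pvtb_finite_sub_box (pvgw_pre_finite M hE)
  obtain ⟨a', b', c', d', h'⟩ := pvtb_finite_sub_box hE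
  have hfin : (tscBox a' b' c' d' ∪ M.ap '' tscBox a b c d).Finite := (tsc_box_finite _ _ _ _).union ((tsc_box_finite _ _ _ _).image _)
  obtain ⟨t, ht⟩ := hfin.infinite_compl.nonempty
  simp only [Set.mem_compl_iff, Set.mem_union, not_or] at ht
  obtain ⟨x, hx⟩ := M.f_surj t.1
  obtain ⟨y, hy⟩ := M.g_surj t.2
  have hv : M.ap (x, y) = t := Prod.ext hx hy
  refine pvgw_dec_out M (pvt_out_conn hE) (pvgw_pre_disj M (Set.disjoint_left.2 fun u hu hu' => pvt_out_sub hu hu')) (v := (x, y))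
    (pvt_out_of_box h fun hc => ht.2 ⟨_, hc, hv⟩) ?_
  rw [hv]
  exact pvt_out_of_box h' ht.1

/-- **the TRI holes of the refined set are the refined TRI holes** -/
theorem pvyt_hullT_pre (hE : E.Finite) : pvtHull (M.pre E) = M.pre (pvtHull E) :=
  Set.Subset.antisymm (fun _ hw hout => hw (pvyt_h_pre_out M hE hout)) (pvgw_pre_hull M hE Set.Subset.rfl)

/-- **cells over a set without holes: the hull stays over it** -/
theorem pvyt_hullT_pre_sub (hY : Y.Finite) (hh : pvtHull Y = Y) (hX : X ⊆ M.pre Y) : pvtHull X ⊆ M.pre Y := by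
  have := pvt_hull_mono hX
  rwa [pvyt_hullT_pre M hY, hh] at this

/-- cells over `E` : the hull lies over the hull of `E` -/
theorem pvyt_hullT_pre_mono (hE : E.Finite) (hX : X ⊆ M.pre E) : pvtHull X ⊆ M.pre (pvtHull E) := by
  have := pvt_hull_mono hX
  rwa [pvyt_hullT_pre M hE] at this

end pre

/-! ## 2. the container -/

section full

variable {τ : Type} {𝔓 : PvfjPlug τ} {mm : ℤ}

theorem pvyt_h_B_fin (h𝔓 : 𝔓.WF) (t : τ) : (𝔓.B t).Finite := (tsc_box_finite _ _ _ _).subset (h𝔓.B_box t)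

theorem pvyt_h_sh_conn8 {c : ℤ × ℤ} {E : Set (ℤ × ℤ)} (h : TscConn pvtbG8 E) : TscConn pvtbG8 (pvfjSh c E) := by
  have key : ∀ {u v : ℤ × ℤ}, TscR pvtbG8 E u v → TscR pvtbG8 (pvfjSh c E) (u + c) (v + c) := by
    intro u v huv
    induction huv with
    | refl => exact tsc_R_refl _
    | @tail x y _ hxy ih =>
      refine ih.tail ⟨?_, ⟨x, hxy.2.1, rfl⟩, ⟨y, hxy.2.2, rfl⟩⟩
      have := hxy.1
      rw [pvtb_G8_adj] at this ⊢
      obtain ⟨h0, h1, h2, h3, h4⟩ := this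
      refine ⟨fun e => h0 (add_right_cancel e), ?_, ?_, ?_, ?_⟩ <;> simp only [Prod.fst_add, Prod.snd_add] <;> omega
  rintro _ ⟨u, hu, rfl⟩ _ ⟨v, hv, rfl⟩
  exact key (h u hu v hv)

theorem pvyt_h_poly (h𝔓 : 𝔓.WF) (hm : 10 ≤ mm) (c : ℤ × ℤ) (t : τ) : (pvytFull 𝔓 mm c t).Finite ∧ TscConn pvtbG4 (pvytFull 𝔓 mm c t) ∧ TscConn pvtbG4 (pvytFull 𝔓 mm c t)ᶜ := by
  have h := pvtb_poly (m := mm) (r := mm + 9) (by omega) (by omega) (F0 := pvfjSh c (𝔓.B t)) ((pvyt_h_B_fin h𝔓 t).image _) (pvyt_h_sh_conn8 (h𝔓.B_conn t))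
  rw [← pvyt_sh_hull] at h
  exact ⟨h.1, h.2.2.1, h.2.2.2.1⟩

theorem pvyt_full_fin (h𝔓 : 𝔓.WF) (hm : 10 ≤ mm) (c : ℤ × ℤ) (t : τ) : (pvytFull 𝔓 mm c t).Finite := (pvyt_h_poly h𝔓 hm c t).1

/-- the complement of the container is 4-connected -/
theorem pvyt_full_co (h𝔓 : 𝔓.WF) (hm : 10 ≤ mm) (c : ℤ × ℤ) (t : τ) : TscConn pvtbG4 (pvytFull 𝔓 mm c t)ᶜ := (pvyt_h_poly h𝔓 hm c t).2.2

/-- **the container contains the holes of its subsets** -/
theorem pvyt_full_hull (h𝔓 : 𝔓.WF) (hm : 10 ≤ mm) (c : ℤ × ℤ) (t : τ) {X : Set (ℤ × ℤ)} (hX : X ⊆ pvytFull 𝔓 mm c t) : pvtbHull X ⊆ pvytFull 𝔓 mm c t := by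
  have := pvtb_hull_mono hX
  rwa [pvtb_hull_eq (pvyt_full_fin h𝔓 hm c t) (pvyt_full_co h𝔓 hm c t)] at this

/-- the same for the TRI hull -/
theorem pvyt_full_hullT (h𝔓 : 𝔓.WF) (hm : 10 ≤ mm) (c : ℤ × ℤ) (t : τ) {X : Set (ℤ × ℤ)} (hX : X ⊆ pvytFull 𝔓 mm c t) : pvtHull X ⊆ pvytFull 𝔓 mm c t :=
  (pvyt_hull_tri X).trans (pvyt_full_hull h𝔓 hm c t hX)

/-- the container has no TRI hole, also in the squares of `Tr/Poly` -/
theorem pvyt_full_hullT_eq (h𝔓 : 𝔓.WF) (hm : 10 ≤ mm) (c : ℤ × ℤ) (t : τ) : pvtHull (pvytSh mm '' pvytFull 𝔓 mm c t) = pvytSh mm '' pvytFull 𝔓 mm c t := by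
  have e : pvtHull (pvytFull 𝔓 mm c t) = pvytFull 𝔓 mm c t := Set.Subset.antisymm (pvyt_full_hullT h𝔓 hm c t Set.Subset.rfl) pvt_hull_sub
  have := pvmg_shift_hull (mm, mm) (pvytFull 𝔓 mm c t)
  rw [e] at this
  exact this

/-- **LINK CELLS OVER THE CONTAINER**: the TRI hull of a set of link cells over the fine cells of the container stays over the container -/
theorem pvyt_full_pre (M : PvgwMap) (h𝔓 : 𝔓.WF) (hm : 10 ≤ mm) (c : ℤ × ℤ) (t : τ) {X : Set (ℤ × ℤ)} (hX : X ⊆ M.pre (pvytSh mm '' pvytFull 𝔓 mm c t)) :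
    pvtHull X ⊆ M.pre (pvytSh mm '' pvytFull 𝔓 mm c t) :=
  pvyt_hullT_pre_sub M ((pvyt_full_fin h𝔓 hm c t).image _) (pvyt_full_hullT_eq h𝔓 hm c t) hX

/-- a set without TRI hole stays so when a cell next to its outside is deleted -/
theorem pvyt_h_del {Y : Set (ℤ × ℤ)} {b a : ℤ × ℤ} (hh : pvtHull Y = Y) (hadj : triAdj a b) (ha : a ∉ Y) : pvtHull (Y \ {b}) = Y \ {b} := by
  have hout : ∀ z, z ∉ Y → z ∈ pvtOut (Y \ {b}) := by
    intro z hz
    refine pvt_out_anti Set.sdiff_subset ?_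
    by_contra hc
    exact hz (hh ▸ (show z ∈ pvtHull Y from hc))
  refine Set.Subset.antisymm (fun z hz => ?_) pvt_hull_sub
  by_contra hzn
  apply hz
  by_cases hzY : z ∈ Y
  · have e : z = b := by
      by_contra hne
      exact hzn ⟨hzY, hne⟩
    subst e
    exact pvt_out_R (hout a ha) (tsc_R_step (G := tscG) hadj (fun h => ha h.1) (fun h => h.2 rfl))
  · exact hout z hzY

/-- the cell in front of the exit nozzle is off the container -/
theorem pvyt_front_o (h𝔓 : 𝔓.WF) (hm : 10 ≤ mm) (c : ℤ × ℤ) (t : τ) (hf : 𝔓.yp t + 𝔓.dp t ∉ pvtbHull (𝔓.B t)) : pvytBo 𝔓 mm c t + 𝔓.dp t ∉ pvytFull 𝔓 mm c t := by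
  have ho : 𝔓.yp t + c + 𝔓.dp t ∈ pvtbOut (pvfjSh c (𝔓.B t)) := by
    by_contra hc
    have h1 : 𝔓.yp t + c + 𝔓.dp t ∈ pvtbHull (pvfjSh c (𝔓.B t)) := hc
    rw [← pvyt_sh_hull] at h1
    obtain ⟨x, hx, e⟩ := h1
    have e' : x = 𝔓.yp t + 𝔓.dp t := by
      have : x + c = 𝔓.yp t + 𝔓.dp t + c := by
        have e2 : x + c = 𝔓.yp t + c + 𝔓.dp t := e
        rw [e2]; abel
      exact add_right_cancel this
    exact hf (e' ▸ hx)
  have := pvfj_noz_off (m := mm) (r := mm + 9) (t := mm + 10) (h𝔓.dp_dir t) ho (by omega) ⟨by omega, by omega⟩ (by omega)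
  rw [← pvyt_sh_hull] at this
  have e : pvytBo 𝔓 mm c t + 𝔓.dp t = pvtbPt mm (𝔓.yp t + c) (𝔓.dp t) (mm + 10) 0 := (pvfj_A_eq mm _ _).symm
  rw [e]
  exact this

/-- the cell in front of the entrance nozzle is off the container -/
theorem pvyt_front_i (h𝔓 : 𝔓.WF) (hm : 10 ≤ mm) (c : ℤ × ℤ) (t : τ) (hf : 𝔓.ym t + 𝔓.dm t ∉ pvtbHull (𝔓.B t)) : pvytBi 𝔓 mm c t + 𝔓.dm t ∉ pvytFull 𝔓 mm c t := by
  have ho : 𝔓.ym t + c + 𝔓.dm t ∈ pvtbOut (pvfjSh c (𝔓.B t)) := by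
    by_contra hc
    have h1 : 𝔓.ym t + c + 𝔓.dm t ∈ pvtbHull (pvfjSh c (𝔓.B t)) := hc
    rw [← pvyt_sh_hull] at h1
    obtain ⟨x, hx, e⟩ := h1
    have e' : x = 𝔓.ym t + 𝔓.dm t := by
      have : x + c = 𝔓.ym t + 𝔓.dm t + c := by
        have e2 : x + c = 𝔓.ym t + c + 𝔓.dm t := e
        rw [e2]; abel
      exact add_right_cancel this
    exact hf (e' ▸ hx)
  have := pvfj_noz_off (m := mm) (r := mm + 9) (t := mm + 10) (h𝔓.dm_dir t) ho (by omega) ⟨by omega, by omega⟩ (by omega)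
  rw [← pvyt_sh_hull] at this
  have e : pvytBi 𝔓 mm c t + 𝔓.dm t = pvtbPt mm (𝔓.ym t + c) (𝔓.dm t) (mm + 10) 0 := (pvfj_A_eq mm _ _).symm
  rw [e]
  exact this

theorem pvyt_h_dir_tri {d : ℤ × ℤ} (hd : PvfjDir d) (q : ℤ × ℤ) : triAdj (q + d) q := by
  rw [tsc_adj_iff]
  rcases hd with rfl | rfl | rfl | rfl <;> simp

/-- **THE CONTAINER OF THE EXIT FUNNEL** (everything but the last cell of the ENTRANCE nozzle) has no TRI hole -/
theorem pvyt_full_o_eq (h𝔓 : 𝔓.WF) (hm : 10 ≤ mm) (c : ℤ × ℤ) (t : τ) (hf : 𝔓.ym t + 𝔓.dm t ∉ pvtbHull (𝔓.B t)) :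
    pvtHull (pvytSh mm '' pvytFull 𝔓 mm c t \ {pvytSh mm (pvytBi 𝔓 mm c t)}) = pvytSh mm '' pvytFull 𝔓 mm c t \ {pvytSh mm (pvytBi 𝔓 mm c t)} := by
  refine pvyt_h_del (a := pvytSh mm (pvytBi 𝔓 mm c t) + 𝔓.dm t) (pvyt_full_hullT_eq h𝔓 hm c t) (pvyt_h_dir_tri (h𝔓.dm_dir t) _) ?_
  rintro ⟨q, hq, e⟩
  have e' : q = pvytBi 𝔓 mm c t + 𝔓.dm t := by
    apply pvyt_sh_inj mm
    rw [e]
    unfold pvytSh
    abel
  exact pvyt_front_i h𝔓 hm c t hf (e' ▸ hq)

/-- **THE CONTAINER OF THE ENTRANCE FUNNEL** (everything but the last cell of the EXIT nozzle) has no TRI hole -/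
theorem pvyt_full_i_eq (h𝔓 : 𝔓.WF) (hm : 10 ≤ mm) (c : ℤ × ℤ) (t : τ) (hf : 𝔓.yp t + 𝔓.dp t ∉ pvtbHull (𝔓.B t)) :
    pvtHull (pvytSh mm '' pvytFull 𝔓 mm c t \ {pvytSh mm (pvytBo 𝔓 mm c t)}) = pvytSh mm '' pvytFull 𝔓 mm c t \ {pvytSh mm (pvytBo 𝔓 mm c t)} := by
  refine pvyt_h_del (a := pvytSh mm (pvytBo 𝔓 mm c t) + 𝔓.dp t) (pvyt_full_hullT_eq h𝔓 hm c t) (pvyt_h_dir_tri (h𝔓.dp_dir t) _) ?_
  rintro ⟨q, hq, e⟩
  have e' : q = pvytBo 𝔓 mm c t + 𝔓.dp t := by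
    apply pvyt_sh_inj mm
    rw [e]
    unfold pvytSh
    abel
  exact pvyt_front_o h𝔓 hm c t hf (e' ▸ hq)

/-- LINK CELLS OVER THE CONTAINER OF THE EXIT FUNNEL -/
theorem pvyt_full_o_pre (M : PvgwMap) (h𝔓 : 𝔓.WF) (hm : 10 ≤ mm) (c : ℤ × ℤ) (t : τ) (hf : 𝔓.ym t + 𝔓.dm t ∉ pvtbHull (𝔓.B t)) {X : Set (ℤ × ℤ)}
    (hX : X ⊆ M.pre (pvytSh mm '' pvytFull 𝔓 mm c t \ {pvytSh mm (pvytBi 𝔓 mm c t)})) : pvtHull X ⊆ M.pre (pvytSh mm '' pvytFull 𝔓 mm c t \ {pvytSh mm (pvytBi 𝔓 mm c t)}) :=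
  pvyt_hullT_pre_sub M (((pvyt_full_fin h𝔓 hm c t).image _).subset Set.sdiff_subset) (pvyt_full_o_eq h𝔓 hm c t hf) hX

/-- LINK CELLS OVER THE CONTAINER OF THE ENTRANCE FUNNEL -/
theorem pvyt_full_i_pre (M : PvgwMap) (h𝔓 : 𝔓.WF) (hm : 10 ≤ mm) (c : ℤ × ℤ) (t : τ) (hf : 𝔓.yp t + 𝔓.dp t ∉ pvtbHull (𝔓.B t)) {X : Set (ℤ × ℤ)}
    (hX : X ⊆ M.pre (pvytSh mm '' pvytFull 𝔓 mm c t \ {pvytSh mm (pvytBo 𝔓 mm c t)})) : pvtHull X ⊆ M.pre (pvytSh mm '' pvytFull 𝔓 mm c t \ {pvytSh mm (pvytBo 𝔓 mm c t)}) :=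
  pvyt_hullT_pre_sub M (((pvyt_full_fin h𝔓 hm c t).image _).subset Set.sdiff_subset) (pvyt_full_i_eq h𝔓 hm c t hf) hX

/-- the container at a refined plug, in MENU cells: the hull is taken at the menu -/
theorem pvyt_full_ref (h𝔓 : 𝔓.WF) {k : ℕ} (hk : 0 < k) (c : ℤ × ℤ) (t : τ) :
    pvytFull (𝔓.ref k) mm c t = pvtbD (2 * mm + 1) (mm + 9) (pvfjSh c (pvrcRef (k : ℤ) (pvtbHull (𝔓.B t)))) := by
  unfold pvytFull
  rw [show (𝔓.ref k).B t = pvrcRef (k : ℤ) (𝔓.B t) from rfl, pvyt_hull_ref (by exact_mod_cast hk) (pvyt_h_B_fin h𝔓 t)]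

end full

end Claimed.Agent.R289
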