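-- KEEP
import Claimed.Agent.R289.Tr.ModP
import Claimed.Agent.R289.Tr.FitP

/-!
# R289 Tr/ModPB (8, prefix `pvmhb_`): THE WINDOWS OF A CANDIDATE OF THE MODEL LIE IN THE BODY OF ITS PLUG (138: `pvfjmB`)      [item (iii) of P14; consumers: 138 `Exit/LayP` (T3), 114, 164, 36 58 `Exit/GeoP` (dj1 dj2)]

CELLS (menu cells, mesh `δ = dl h`, relative to the centre):
* `pvmhb_strip` : `N¹ (cells of the strip) ⊆ N⁸ (cells 1..8)`;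
* `pvmhb_Ep_c`, `pvmhb_Em_c` : the cell part of `Ep` (`Em`) lies in `N⁷ (cells 5..9) ∩ N⁸ (cells 1..8)` (`N⁷ (cells 0..4) ∩ N⁸ (cells 1..8)`);
* `pvmhb_Ep_h`, `pvmhb_Em_h` : hence in `N⁸ (cells 5..8) ∪ bar 5` (`N⁸ (cells 1..4) ∪ bar 5`).
PLACED:
* `pvmhb_O` : `O ⊆ z + U(Bl rO) ⊆ z + U(Bl rB)`;
* **`pvmhb_Ep`, `pvmhb_Em`, `pvmhb_EJ`** : `Ep, Em, EJ ⊆ pvmgPl z (dl h) (pvfjmB 𝔤.NN s.typ)`;
* `pvmhb_Ep_off`, `pvmhb_Em_off` : `Ep \ O ⊆ z + U(N⁸ (cells 5..8))`, `Em \ O ⊆ z + U(N⁸ (cells 1..4))`;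
* (G1) is `pvmh_G1`, `pvmh_G1_far` of `Tr/ModP`.
-/

set_option autoImplicit false
set_option linter.unusedSectionVars false
set_option linter.unusedVariables false

namespace Claimed.Agent.R289

open Set Metric Claims.C0467 Claimed.Agent.R291

section cells

variable {𝔑 : PvmnNum} {τ : PvmnType} {ln : ((ℤ × ℤ) × (ℤ × ℤ)) × ℕ} {δ : ℝ}

/-- the lane zone lies in the 5-tube of the pieces `1..8` -/
theorem pvmhb_R (hτ : PvmnIsType 𝔑 τ) (hl : PvmnLaneR τ ln.1 ln.2) : pvlpR τ ln ⊆ pvtwN 5 (pvmnCells τ 1 8) := by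
  intro c hc
  obtain ⟨⟨h5, -⟩, hD⟩ := pvlp_R_sub hτ hl hc
  obtain ⟨k, -, -, hk⟩ := pvmn_N_cells.1 h5
  have h0 : k ≠ 0 := by
    rintro rfl
    exact hD (Or.inl (pvtw_N_mono (by omega) subset_rfl hk))
  have h9 : k ≠ 9 := by
    rintro rfl
    exact hD (Or.inr (pvtw_N_mono (by omega) subset_rfl hk))
  have k2 := k.2
  refine pvmn_N_cells.2 ⟨k, ?_, ?_, hk⟩
  · rcases Nat.eq_zero_or_pos k.1 with h | h
    · exact absurd (Fin.ext h) h0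
    · exact h
  · rcases Nat.lt_or_ge k.1 9 with h | h
    · omega
    · exact absurd (Fin.ext (by show k.1 = 9; omega)) h9

/-- the cells which meet the strip -/
theorem pvmhb_strip0 (hτ : PvmnIsType 𝔑 τ) (hl : PvmnLaneR τ ln.1 ln.2) (hδ : 0 < δ) : pvtCells δ (pvlpS δ τ ln) ⊆ pvtwN 7 (pvmnCells τ 1 8) := by
  have h1 : pvtCells δ (pvlpS δ τ ln) ⊆ pvtwN 1 (pvtwN 1 (pvlpR τ ln)) := (pvt_cells_mono (pvlp_win_sub hτ hl hδ le_rfl)).trans (pvmh_w88_cells_U hδ _)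
  refine h1.trans ?_
  rw [pvtw_N_add]
  refine (pvtw_N_mono le_rfl (pvmhb_R hτ hl)).trans ?_
  rw [pvtw_N_add]

theorem pvmhb_strip (hτ : PvmnIsType 𝔑 τ) (hl : PvmnLaneR τ ln.1 ln.2) (hδ : 0 < δ) : pvtwN 1 (pvtCells δ (pvlpS δ τ ln)) ⊆ pvtwN 8 (pvmnCells τ 1 8) := by
  refine (pvtw_N_mono le_rfl (pvmhb_strip0 hτ hl hδ)).trans ?_
  rw [pvtw_N_add]

theorem pvmhb_Ep_c (hτ : PvmnIsType 𝔑 τ) (hl : PvmnLaneR τ ln.1 ln.2) (hδ : 0 < δ) :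
    pvtwN 1 (pvmhNp τ ∪ pvtCells δ (pvlsMp δ τ ln)) ⊆ pvtwN 7 (pvmnCells τ 5 9) ∩ pvtwN 8 (pvmnCells τ 1 8) := by
  refine subset_inter ((pvtw_N_mono le_rfl (union_subset_union_left _ (pvmh_Np_sub τ))).trans (pvls_Ep_sub hδ)) ?_
  rw [pvtw_N_union]
  refine union_subset ?_ ((pvtw_N_mono le_rfl (pvt_cells_mono (pvls_Mp_sub _ _ _))).trans (pvmhb_strip hτ hl hδ))
  unfold pvmhNp
  rw [pvtw_N_add]
  exact pvtw_N_mono (by norm_num) (pvmn_cells_mono (by norm_num) le_rfl)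

theorem pvmhb_Em_c (hτ : PvmnIsType 𝔑 τ) (hl : PvmnLaneR τ ln.1 ln.2) (hδ : 0 < δ) :
    pvtwN 1 (pvmhNm τ ∪ pvtCells δ (pvlsMm δ τ ln)) ⊆ pvtwN 7 (pvmnCells τ 0 4) ∩ pvtwN 8 (pvmnCells τ 1 8) := by
  refine subset_inter ((pvtw_N_mono le_rfl (union_subset_union_left _ (pvmh_Nm_sub τ))).trans (pvls_Em_sub hτ hl hδ)) ?_
  rw [pvtw_N_union]
  refine union_subset ?_ ((pvtw_N_mono le_rfl (pvt_cells_mono (pvls_Mm_sub _ _ _))).trans (pvmhb_strip hτ hl hδ))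
  unfold pvmhNm
  rw [pvtw_N_add]
  exact pvtw_N_mono (by norm_num) (pvmn_cells_mono le_rfl (by norm_num))

/-- a cell of the 8-tube of the pieces `1..8` lies in one of the two halves -/
theorem pvmhb_split {c : ℤ × ℤ} (h : c ∈ pvtwN 8 (pvmnCells τ 1 8)) : c ∈ pvtwN 8 (pvmnCells τ 1 4) ∨ c ∈ pvtwN 8 (pvmnCells τ 5 8) := by
  obtain ⟨k, k1, k2, hk⟩ := pvmn_N_cells.1 h
  rcases Nat.lt_or_ge k.1 5 with h5 | h5
  · exact Or.inl (pvmn_N_cells.2 ⟨k, k1, by omega, hk⟩)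
  · exact Or.inr (pvmn_N_cells.2 ⟨k, h5, k2, hk⟩)

theorem pvmhb_Ep_h (hτ : PvmnIsType 𝔑 τ) (hl : PvmnLaneR τ ln.1 ln.2) (hδ : 0 < δ) :
    pvtwN 1 (pvmhNp τ ∪ pvtCells δ (pvlsMp δ τ ln)) ⊆ pvtwN 8 (pvmnCells τ 5 8) ∪ pvmnBar 𝔑 τ 5 := by
  intro c hc
  obtain ⟨h1, h2⟩ := pvmhb_Ep_c hτ hl hδ hc
  rcases pvmhb_split h2 with h | h
  · exact Or.inr (pvls_sep hτ (i := 8) (j := 7) (by norm_num) (by norm_num) ⟨pvtw_N_mono le_rfl (pvmn_cells_mono (by norm_num) le_rfl) h, h1⟩)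
  · exact Or.inl h

theorem pvmhb_Em_h (hτ : PvmnIsType 𝔑 τ) (hl : PvmnLaneR τ ln.1 ln.2) (hδ : 0 < δ) :
    pvtwN 1 (pvmhNm τ ∪ pvtCells δ (pvlsMm δ τ ln)) ⊆ pvtwN 8 (pvmnCells τ 1 4) ∪ pvmnBar 𝔑 τ 5 := by
  intro c hc
  obtain ⟨h1, h2⟩ := pvmhb_Em_c hτ hl hδ hc
  rcases pvmhb_split h2 with h | h
  · exact Or.inl h
  · exact Or.inr (pvls_sep hτ (i := 7) (j := 8) (by norm_num) (by norm_num) ⟨h1, pvtw_N_mono le_rfl (pvmn_cells_mono le_rfl (by norm_num)) h⟩)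

end cells

section placed

variable {𝔤 : PvmhNum} (H : 𝔤.OK) {h : ℝ} (z : ℂ) (s : PvmhT 𝔤)

include H

/-- the state region lies in the placed grid ball `rO` -/
theorem pvmhb_O0 (hh : 0 < h) : pvspO 𝔤.sp (𝔤.ty h z s) z h ⊆ pvmgPl z (𝔤.dl * h) (pvmnBl 𝔤.NN.rO) := by
  have hδ : 0 < 𝔤.dl * h := mul_pos H.dl0 hh
  have e : 𝔤.dl * h * 𝔤.NN.rO = 𝔤.rO * h := by
    show 𝔤.dl * h * (𝔤.rO / 𝔤.dl) = 𝔤.rO * h
    have := H.dl0.ne'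
    field_simp
  have := pvmg_ball_sub (z := z) (ρ := 𝔤.NN.rO) hδ
  rw [e] at this
  exact this

theorem pvmhb_O (hh : 0 < h) : pvspO 𝔤.sp (𝔤.ty h z s) z h ⊆ pvmgPl z (𝔤.dl * h) (pvmnBl 𝔤.NN.rB) := by
  refine (pvmhb_O0 H z s hh).trans (pvmg_mono (pvmn_Bl_mono ?_))
  show 𝔤.rO / 𝔤.dl ≤ (𝔤.rO + 2) / 𝔤.dl
  exact div_le_div_of_nonneg_right (by linarith) H.dl0.le

theorem pvmhb_O_B (hh : 0 < h) : pvspO 𝔤.sp (𝔤.ty h z s) z h ⊆ pvmgPl z (𝔤.dl * h) (pvfjmB 𝔤.NN s.typ) :=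
  (pvmhb_O H z s hh).trans (pvmg_mono fun _ hc => Or.inl (Or.inl hc))

/-- **the window of `L⁺` lies in the body of the plug** -/
theorem pvmhb_Ep (hh : 0 < h) : (𝔤.ty h z s).Ep ⊆ pvmgPl z (𝔤.dl * h) (pvfjmB 𝔤.NN s.typ) := by
  have hδ : 0 < 𝔤.dl * h := mul_pos H.dl0 hh
  exact union_subset (pvmhb_O_B H z s hh) (pvmg_mono fun _ hc => Or.inr (pvmhb_Ep_c s.isType s.isLane hδ hc).2)

/-- **the window of `L⁻` lies in the body of the plug** -/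
theorem pvmhb_Em (hh : 0 < h) : (𝔤.ty h z s).Em ⊆ pvmgPl z (𝔤.dl * h) (pvfjmB 𝔤.NN s.typ) := by
  have hδ : 0 < 𝔤.dl * h := mul_pos H.dl0 hh
  exact union_subset (pvmhb_O_B H z s hh) (pvmg_mono fun _ hc => Or.inr (pvmhb_Em_c s.isType s.isLane hδ hc).2)

/-- the window of the strip lies in the body of the plug -/
theorem pvmhb_EJ (hh : 0 < h) : (𝔤.ty h z s).EJ ⊆ pvmgPl z (𝔤.dl * h) (pvfjmB 𝔤.NN s.typ) := by
  have hδ : 0 < 𝔤.dl * h := mul_pos H.dl0 hh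
  exact pvmg_mono fun _ hc => Or.inr (pvmhb_strip s.isType s.isLane hδ hc)

/-- off the state region the window of `L⁺` lies over the 8-tube of the pieces `5..8` -/
theorem pvmhb_Ep_off (hh : 0 < h) : (𝔤.ty h z s).Ep \ pvspO 𝔤.sp (𝔤.ty h z s) z h ⊆ pvmgPl z (𝔤.dl * h) (pvtwN 8 (pvmnCells s.typ 5 8)) := by
  have hδ : 0 < 𝔤.dl * h := mul_pos H.dl0 hh
  rintro p ⟨hp, hO⟩
  have h1 : p ∈ pvmgPl z (𝔤.dl * h) (pvtwN 8 (pvmnCells s.typ 5 8) ∪ pvmnBar 𝔤.NN s.typ 5) := pvmg_mono (pvmhb_Ep_h s.isType s.isLane hδ) (hp.resolve_left hO)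
  rw [pvmg_union] at h1
  refine h1.resolve_right fun hb => hO (closedBall_subset_closedBall ?_ (pvmh_bar H z s hh hb))
  show 3 * h ≤ 2 * 𝔤.b 1 * h
  have a0 := H.a_pos; have b0 := H.ab 0; have b1 := H.ab 1; have n1 := H.nest01
  nlinarith

/-- off the state region the window of `L⁻` lies over the 8-tube of the pieces `1..4` -/
theorem pvmhb_Em_off (hh : 0 < h) : (𝔤.ty h z s).Em \ pvspO 𝔤.sp (𝔤.ty h z s) z h ⊆ pvmgPl z (𝔤.dl * h) (pvtwN 8 (pvmnCells s.typ 1 4)) := by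
  have hδ : 0 < 𝔤.dl * h := mul_pos H.dl0 hh
  rintro p ⟨hp, hO⟩
  have h1 : p ∈ pvmgPl z (𝔤.dl * h) (pvtwN 8 (pvmnCells s.typ 1 4) ∪ pvmnBar 𝔤.NN s.typ 5) := pvmg_mono (pvmhb_Em_h s.isType s.isLane hδ) (hp.resolve_left hO)
  rw [pvmg_union] at h1
  refine h1.resolve_right fun hb => hO (closedBall_subset_closedBall ?_ (pvmh_bar H z s hh hb))
  show 3 * h ≤ 2 * 𝔤.b 1 * h
  have a0 := H.a_pos; have b0 := H.ab 0; have b1 := H.ab 1; have n1 := H.nest01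
  nlinarith

end placed

end Claimed.Agent.R289
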