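import Claimed.Agent.R289.Tr.LinkGeoT
import Claimed.Agent.R289.Tr.HookZ
import Claimed.Agent.R289.Tr.ModPB

/-!
# Row 289 (S0537, Cardy for Poisson-Voronoi), THE WALL, ROAD P, file Tr/LinkBig : THE TWO BIG ENDS AT THE MODEL, IN FINE CELLS      (helper203; records of 164 `Tr/LinkGeoT`; prefix `pvlkg_`)

`PvlktBigM`, `PvlktBigP` (164) VERBATIM at the ends of record `pvfvEndM`, `pvfvEndP` (68, `Tr/ForceS`) of the placed type `𝔤.ty h z s` (8, `Tr/ModP`), `z = pvmgPt δ o`, `dl h = 40 δ`.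
* zones `z₁ z₂` : 147 (`Tr/HookZ`: `pvhh_zone_bp _bm _pR _mR`) + the dictionary `pvhh_div_mem`
* rooms `a₁` : the tube `U(N² cells)` thickened by `μ h = 2 δ` lies in `N³` (fine) of its refinement (`pvlkg_cth_U`)
* rooms `a₂` : the strip is within `0.225 dl h = 9 δ` of the coarse lane `pvlpR` (`pvlkg_strip`), the foot strip lies deep in `O`
* `O_sub`, `OE_sub` : 8 (`Tr/ModPB`) + `pvwg_U_pre` of 205.
GENERIC TOOLS: `pvlkg_cell`, `pvlkg_cth_U`, `pvlkg_strip`.      sec. 3  ANY FACTOR `κ ≥ 20` (`dl h = κ δ`, `φ = pvgwDiv κ _ o`; FUNNELS `o i`): **`pvlkg_bigP_k`**, **`pvlkg_bigM_k`** : `PvlktBig` with the collars `κ ≤ 20 j₁`, `11 κ ≤ 40 j₂`.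
-/

set_option autoImplicit false
set_option linter.unusedSectionVars false
set_option linter.unusedVariables false

namespace Claimed.Agent.R289

open Set Metric Claims.C0467 Claimed.Agent.R291

/-! ## 1. tools -/

/-- every point lies in the closed cell of its floors -/
theorem pvlkg_cell {δ : ℝ} (hδ : 0 < δ) (w : ℂ) : w ∈ pvtSq δ (⌊w.re / δ⌋, ⌊w.im / δ⌋) := by
  have a1 := Int.floor_le (w.re / δ)
  have a2 := Int.lt_floor_add_one (w.re / δ)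
  have b1 := Int.floor_le (w.im / δ)
  have b2 := Int.lt_floor_add_one (w.im / δ)
  rw [le_div_iff₀ hδ] at a1 b1
  rw [div_lt_iff₀ hδ] at a2 b2
  exact ⟨a1, a2.le, b1, b2.le⟩

/-- one coordinate: `A δ < x < B δ` ⟹ `A ≤ ⌊x / δ⌋ < B` -/
theorem pvlkg_floor {δ : ℝ} (hδ : 0 < δ) {A B : ℤ} {x : ℝ} (h1 : (A : ℝ) * δ ≤ x) (h2 : x < (B : ℝ) * δ) : A ≤ ⌊x / δ⌋ ∧ ⌊x / δ⌋ < B :=
  ⟨Int.le_floor.2 ((le_div_iff₀ hδ).2 h1), Int.floor_lt.2 ((div_lt_iff₀ hδ).2 h2)⟩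

/-- **the closed neighbourhood of a union of closed cells, in cells**, `μ ≤ j δ` -/
theorem pvlkg_cth_U {δ μ : ℝ} (hδ : 0 < δ) {j : ℕ} (hμ : μ ≤ j * δ) (E : Set (ℤ × ℤ)) : cthickening μ (pvtU δ E) ⊆ pvtU δ (pvtwN (j + 1) E) := by
  intro w hw
  obtain ⟨p, hp, hwp⟩ := pvhh_cth_near (μ' := ((j : ℝ) + 1) * δ) (by positivity) (by nlinarith) hw
  obtain ⟨k, hk, k1, k2, k3, k4⟩ := Set.mem_iUnion₂.1 hp
  have hre := (abs_lt.1 (lt_of_le_of_lt (Complex.abs_re_le_norm (w - p)) hwp))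
  have him := (abs_lt.1 (lt_of_le_of_lt (Complex.abs_im_le_norm (w - p)) hwp))
  rw [Complex.sub_re] at hre
  rw [Complex.sub_im] at him
  obtain ⟨a1, a2⟩ := pvlkg_floor hδ (A := k.1 - (j + 1)) (B := k.1 + 1 + (j + 1)) (x := w.re) (by push_cast; nlinarith [hre.1]) (by push_cast; nlinarith [hre.2])
  obtain ⟨b1, b2⟩ := pvlkg_floor hδ (A := k.2 - (j + 1)) (B := k.2 + 1 + (j + 1)) (x := w.im) (by push_cast; nlinarith [him.1]) (by push_cast; nlinarith [him.2])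
  refine Set.mem_iUnion₂.2 ⟨(⌊w.re / δ⌋, ⌊w.im / δ⌋), ⟨k, hk, ?_, ?_, ?_, ?_⟩, pvlkg_cell hδ w⟩ <;> simp only <;> push_cast <;> omega

/-- **the strip is within `9 δ` of the refinement of the coarse lane** (`dl h = 40 δ`): a point within `3 δ` of the placed strip lies in a fine cell of the collar `N¹²` -/
theorem pvlkg_strip {𝔑 : PvmnNum} {τ : PvmnType} {ln : ((ℤ × ℤ) × (ℤ × ℤ)) × ℕ} (hτ : PvmnIsType 𝔑 τ) (hl : PvmnLaneR τ ln.1 ln.2) {δ : ℝ} (hδ : 0 < δ) (o : ℤ × ℤ) {q w : ℂ}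
    (hq : q ∈ pvlpS (40 * δ) τ ln) (hw : ‖w - (q + pvmgPt δ o)‖ < 3 * δ) : w ∈ pvtU δ (pvtwN 12 ((pvlktPhi o).pre (pvlpR τ ln))) := by
  obtain ⟨i, -, hi, q1, q2⟩ := pvlp_mem_win.1 hq
  obtain ⟨p, hp, c1, c2, c3, c4⟩ := pvlp_C_mem hτ hl hi
  have hre := (abs_lt.1 (lt_of_le_of_lt (Complex.abs_re_le_norm (w - (q + pvmgPt δ o))) hw))
  have him := (abs_lt.1 (lt_of_le_of_lt (Complex.abs_im_le_norm (w - (q + pvmgPt δ o))) hw))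
  simp only [Complex.sub_re, Complex.add_re, Complex.sub_im, Complex.add_im, pvmgPt] at hre him
  simp only [pvtCtr] at q1 q2
  rw [abs_le] at q1 q2
  have r1 : (5 * (p.1 : ℝ) - 1) ≤ ((pvlpC τ ln i).1 : ℝ) := by exact_mod_cast c1
  have r2 : ((pvlpC τ ln i).1 : ℝ) ≤ 5 * (p.1 : ℝ) + 5 := by exact_mod_cast c2
  have r3 : (5 * (p.2 : ℝ) - 1) ≤ ((pvlpC τ ln i).2 : ℝ) := by exact_mod_cast c3
  have r4 : ((pvlpC τ ln i).2 : ℝ) ≤ 5 * (p.2 : ℝ) + 5 := by exact_mod_cast c4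
  obtain ⟨a1, a2⟩ := pvlkg_floor hδ (A := 40 * p.1 + o.1 - 12) (B := 40 * p.1 + o.1 + 52) (x := w.re) (by push_cast; nlinarith [hre.1, q1.1]) (by push_cast; nlinarith [hre.2, q1.2])
  obtain ⟨b1, b2⟩ := pvlkg_floor hδ (A := 40 * p.2 + o.2 - 12) (B := 40 * p.2 + o.2 + 52) (x := w.im) (by push_cast; nlinarith [him.1, q2.1]) (by push_cast; nlinarith [him.2, q2.2])
  refine Set.mem_iUnion₂.2 ⟨(⌊w.re / δ⌋, ⌊w.im / δ⌋),
    ⟨(max (40 * p.1 + o.1) (min ⌊w.re / δ⌋ (40 * p.1 + o.1 + 39)), max (40 * p.2 + o.2) (min ⌊w.im / δ⌋ (40 * p.2 + o.2 + 39))), ?_, ?_, ?_, ?_, ?_⟩, pvlkg_cell hδ w⟩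
  · show (((max (40 * p.1 + o.1) (min ⌊w.re / δ⌋ (40 * p.1 + o.1 + 39))) - o.1) / 40, ((max (40 * p.2 + o.2) (min ⌊w.im / δ⌋ (40 * p.2 + o.2 + 39))) - o.2) / 40) ∈ pvlpR τ ln
    have e1 : ((max (40 * p.1 + o.1) (min ⌊w.re / δ⌋ (40 * p.1 + o.1 + 39))) - o.1) / 40 = p.1 := by omega
    have e2 : ((max (40 * p.2 + o.2) (min ⌊w.im / δ⌋ (40 * p.2 + o.2 + 39))) - o.2) / 40 = p.2 := by omega
    rw [e1, e2]
    exact hp
  all_goals simp only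
  all_goals push_cast
  all_goals omega

/-! ## 2. the two big ends at the model -/

section model

variable {𝔤 : PvmhNum} (H : 𝔤.OK) {h δ : ℝ} (o : ℤ × ℤ) (s : PvmhT 𝔤)

include H

/-- placed sets of menu cells are unions of fine cells -/
theorem pvlkg_pl (hh : 0 < h) (hD : 𝔤.dl * h = 40 * δ) (E : Set (ℤ × ℤ)) : pvmgPl (pvmgPt δ o) (𝔤.dl * h) E = pvtU δ ((pvlktPhi o).pre E) := by
  have hδ : 0 < δ := by have := mul_pos H.dl0 hh; linarith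
  have := pvwg_U_pre hδ (κ := 40) (by norm_num) o E
  rw [hD]
  push_cast at this
  exact this.symm

theorem pvlkg_mu (hD : 𝔤.dl * h = 40 * δ) : 𝔤.sp.mu * h = 2 * δ := by
  show 𝔤.mu * h = _
  rw [H.mu_eq]
  linarith

/-- the walk contains the link cells of a placed set of menu cells -/
theorem pvlkg_hook (hh : 0 < h) (hD : 𝔤.dl * h = 40 * δ) {E Wc : Set (ℤ × ℤ)} (hW : (pvlktPhi o).pre E ⊆ Wc) (k : ℤ × ℤ) (hk : pvlnC δ k ⊆ pvmgPl (pvmgPt δ o) (𝔤.dl * h) E) : k ∈ Wc := by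
  have hδ : 0 < δ := by have := mul_pos H.dl0 hh; linarith
  refine hW (pvhh_div_mem hδ (κ := 40) (by norm_num) o ?_)
  push_cast
  rw [← hD]
  exact hk

/-- the room of a tube -/
theorem pvlkg_tube (hh : 0 < h) (hD : 𝔤.dl * h = 40 * δ) (E : Set (ℤ × ℤ)) : cthickening (𝔤.sp.mu * h) (pvmgPl (pvmgPt δ o) (𝔤.dl * h) E) ⊆ pvtU δ (pvtwN 3 ((pvlktPhi o).pre E)) := by
  have hδ : 0 < δ := by have := mul_pos H.dl0 hh; linarith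
  rw [pvlkg_pl H o hh hD, pvlkg_mu H hD]
  exact pvlkg_cth_U hδ (j := 2) (by push_cast; exact le_rfl) _

/-- the room of a lane with its foot strip -/
theorem pvlkg_lane (hh : 0 < h) (hD : 𝔤.dl * h = 40 * δ) {M T : Set ℂ} (hM : M ⊆ PvmhNum.at' (pvmgPt δ o) (pvlpS (𝔤.dl * h) s.typ s.ln)) :
    cthickening (𝔤.sp.mu * h) (M ∪ T ∩ closedBall (pvmgPt δ o) ((𝔤.b 1 + 1) * h)) ⊆ pvspO 𝔤.sp (𝔤.ty h (pvmgPt δ o) s) (pvmgPt δ o) h ∪ pvtU δ (pvtwN 12 ((pvlktPhi o).pre (pvlpR s.typ s.ln))) := by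
  have hδ : 0 < δ := by have := mul_pos H.dl0 hh; linarith
  obtain ⟨d0, d1, b1, -⟩ := pvmh_basic H
  intro w hw
  rw [pvlkg_mu H hD] at hw
  obtain ⟨p, hp, hwp⟩ := pvhh_cth_near (μ' := 3 * δ) (by positivity) (by linarith) hw
  rcases hp with hp | ⟨-, hp⟩
  · obtain ⟨q, hq, rfl⟩ := hM hp
    rw [hD] at hq
    exact Or.inr (pvlkg_strip s.isType s.isLane hδ o hq hwp)
  · left
    show w ∈ closedBall (pvmgPt δ o) (2 * 𝔤.b 1 * h)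
    rw [mem_closedBall, dist_eq_norm] at hp ⊢
    have h4 : ‖w - pvmgPt δ o‖ ≤ ‖w - p‖ + ‖p - pvmgPt δ o‖ := by
      have e' : w - pvmgPt δ o = (w - p) + (p - pvmgPt δ o) := by ring
      rw [e']
      exact norm_add_le _ _
    have h5 : 3 * δ ≤ h := by nlinarith
    nlinarith

/-- `O ∪ E` in the big box -/
theorem pvlkg_box (hh : 0 < h) (hD : 𝔤.dl * h = 40 * δ) : pvmgPl (pvmgPt δ o) (𝔤.dl * h) (pvfjmB 𝔤.NN s.typ) ⊆ pvtU δ ((pvlktPhi o).pre (pvmnBox (𝔤.NN.nBx + 10))) := by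
  rw [pvlkg_pl H o hh hD]
  exact pvt_U_mono fun v hv => pvmn_box_mono (by omega) (pvfjm_B_box (pvmh_numOK H) s.isType hv)

/-- **THE EXIT END OF THE BIG PLUG, IN FINE CELLS** (record of 164, verbatim) -/
theorem pvlkg_bigP (hh : 0 < h) (hD : 𝔤.dl * h = 40 * δ) : PvlktBigP 𝔤.NN s.typ s.ln o (pvfvEndP 𝔤.sp (𝔤.ty h (pvmgPt δ o) s) (pvmgPt δ o) h) δ := by
  have hδ : 0 < δ := by have := mul_pos H.dl0 hh; linarith
  have h20 : 20 * δ ≤ 𝔤.dl * h := by linarith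
  unfold PvlktBigP
  exact
    { mO := measurableSet_closedBall
      z₁ := fun Wc hW => pvhh_zone_bp H _ s hh hδ h20 (pvlkg_hook H o hh hD hW)
      z₂ := fun Wc hW => pvhh_zone_pR H _ s hh hδ h20 (pvlkg_hook H o hh hD hW)
      a₁ := (pvlkg_tube H o hh hD _).trans subset_union_right
      a₂ := pvlkg_lane H o s hh hD (pvhh_Mp_sub H _ s)
      O_sub := by
        rw [← pvlkg_pl H o hh hD]
        exact pvmhb_O0 H _ s hh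
      OE_sub := (union_subset (pvmhb_O_B H _ s hh) (pvmhb_Ep H _ s hh)).trans (pvlkg_box H o s hh hD) }

/-- **THE ENTRANCE END OF THE BIG PLUG, IN FINE CELLS** (record of 164, verbatim) -/
theorem pvlkg_bigM (hh : 0 < h) (hD : 𝔤.dl * h = 40 * δ) : PvlktBigM 𝔤.NN s.typ s.ln o (pvfvEndM 𝔤.sp (𝔤.ty h (pvmgPt δ o) s) (pvmgPt δ o) h) δ := by
  have hδ : 0 < δ := by have := mul_pos H.dl0 hh; linarith
  have h20 : 20 * δ ≤ 𝔤.dl * h := by linarith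
  unfold PvlktBigM
  exact
    { mO := measurableSet_closedBall
      z₁ := fun Wc hW => pvhh_zone_bm H _ s hh hδ h20 (pvlkg_hook H o hh hD hW)
      z₂ := fun Wc hW => pvhh_zone_mR H _ s hh hδ h20 (pvlkg_hook H o hh hD hW)
      a₁ := (pvlkg_tube H o hh hD _).trans subset_union_right
      a₂ := pvlkg_lane H o s hh hD (pvhh_Mm_sub H _ s)
      O_sub := by
        rw [← pvlkg_pl H o hh hD]
        exact pvmhb_O0 H _ s hh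
      OE_sub := (union_subset (pvmhb_O_B H _ s hh) (pvmhb_Em H _ s hh)).trans (pvlkg_box H o s hh hD) }

end model

/-! ## 3. ANY FACTOR `κ ≥ 20` (funnels `o i`: `dl h = κ δ`, `φ = pvgwDiv κ _ o`) -/

/-- the cell over which a fine cell lies -/
theorem pvlkg_div {κ : ℤ} (hκ : 0 < κ) {x p : ℤ} (h1 : κ * p ≤ x) (h2 : x < κ * p + κ) : x / κ = p := by
  refine le_antisymm ?_ ?_
  · have : x / κ < p + 1 := (Int.ediv_lt_iff_lt_mul hκ).2 (by nlinarith)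
    omega
  · exact (Int.le_ediv_iff_mul_le hκ).2 (by nlinarith)

/-- **the strip in fine cells, any factor**: `11 κ ≤ 40 j` -/
theorem pvlkg_strip_k {𝔑 : PvmnNum} {τ : PvmnType} {ln : ((ℤ × ℤ) × (ℤ × ℤ)) × ℕ} (hτ : PvmnIsType 𝔑 τ) (hl : PvmnLaneR τ ln.1 ln.2) {δ : ℝ} (hδ : 0 < δ) {κ : ℤ} (hκ : 0 < κ) (o : ℤ × ℤ)
    {j : ℕ} (hj : 11 * κ ≤ 40 * j) {q w : ℂ} (hq : q ∈ pvlpS ((κ : ℝ) * δ) τ ln) (hw : ‖w - (q + pvmgPt δ o)‖ < (κ : ℝ) * δ / 20 + δ) : w ∈ pvtU δ (pvtwN (j + 1) ((pvgwDiv κ hκ o).pre (pvlpR τ ln))) := by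
  obtain ⟨i, -, hi, q1, q2⟩ := pvlp_mem_win.1 hq
  obtain ⟨p, hp, c1, c2, c3, c4⟩ := pvlp_C_mem hτ hl hi
  have hre := (abs_lt.1 (lt_of_le_of_lt (Complex.abs_re_le_norm (w - (q + pvmgPt δ o))) hw))
  have him := (abs_lt.1 (lt_of_le_of_lt (Complex.abs_im_le_norm (w - (q + pvmgPt δ o))) hw))
  simp only [Complex.sub_re, Complex.add_re, Complex.sub_im, Complex.add_im, pvmgPt] at hre him
  simp only [pvtCtr] at q1 q2
  rw [abs_le] at q1 q2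
  have hD : 0 < (κ : ℝ) * δ := mul_pos (by exact_mod_cast hκ) hδ
  have hjr : 11 * ((κ : ℝ) * δ) ≤ 40 * ((j : ℝ) * δ) := by
    have : 11 * (κ : ℝ) ≤ 40 * (j : ℝ) := by exact_mod_cast hj
    nlinarith
  have r1 : (5 * (p.1 : ℝ) - 1) * ((κ : ℝ) * δ) ≤ ((pvlpC τ ln i).1 : ℝ) * ((κ : ℝ) * δ) := mul_le_mul_of_nonneg_right (by exact_mod_cast c1) hD.le
  have r2 : ((pvlpC τ ln i).1 : ℝ) * ((κ : ℝ) * δ) ≤ (5 * (p.1 : ℝ) + 5) * ((κ : ℝ) * δ) := mul_le_mul_of_nonneg_right (by exact_mod_cast c2) hD.le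
  have r3 : (5 * (p.2 : ℝ) - 1) * ((κ : ℝ) * δ) ≤ ((pvlpC τ ln i).2 : ℝ) * ((κ : ℝ) * δ) := mul_le_mul_of_nonneg_right (by exact_mod_cast c3) hD.le
  have r4 : ((pvlpC τ ln i).2 : ℝ) * ((κ : ℝ) * δ) ≤ (5 * (p.2 : ℝ) + 5) * ((κ : ℝ) * δ) := mul_le_mul_of_nonneg_right (by exact_mod_cast c4) hD.le
  obtain ⟨a1, a2⟩ := pvlkg_floor hδ (A := κ * p.1 + o.1 - (j + 1)) (B := κ * p.1 + o.1 + κ + (j + 1)) (x := w.re) (by push_cast; linarith [hre.1, q1.1]) (by push_cast; linarith [hre.2, q1.2])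
  obtain ⟨b1, b2⟩ := pvlkg_floor hδ (A := κ * p.2 + o.2 - (j + 1)) (B := κ * p.2 + o.2 + κ + (j + 1)) (x := w.im) (by push_cast; linarith [him.1, q2.1]) (by push_cast; linarith [him.2, q2.2])
  refine Set.mem_iUnion₂.2 ⟨(⌊w.re / δ⌋, ⌊w.im / δ⌋),
    ⟨(max (κ * p.1 + o.1) (min ⌊w.re / δ⌋ (κ * p.1 + o.1 + κ - 1)), max (κ * p.2 + o.2) (min ⌊w.im / δ⌋ (κ * p.2 + o.2 + κ - 1))), ?_, ?_, ?_, ?_, ?_⟩, pvlkg_cell hδ w⟩
  · show (((max (κ * p.1 + o.1) (min ⌊w.re / δ⌋ (κ * p.1 + o.1 + κ - 1))) - o.1) / κ, ((max (κ * p.2 + o.2) (min ⌊w.im / δ⌋ (κ * p.2 + o.2 + κ - 1))) - o.2) / κ) ∈ pvlpR τ ln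
    rw [pvlkg_div hκ (p := p.1) (by omega) (by omega), pvlkg_div hκ (p := p.2) (by omega) (by omega)]
    exact hp
  all_goals simp only
  all_goals push_cast
  all_goals omega

section modelk

variable {𝔤 : PvmhNum} (H : 𝔤.OK) {h δ : ℝ} {κ : ℤ} (hκ : 0 < κ) (o : ℤ × ℤ) (s : PvmhT 𝔤)

include H

theorem pvlkg_del_pos (hκ' : 0 < κ) (hh : 0 < h) (hD : 𝔤.dl * h = (κ : ℝ) * δ) : 0 < δ := by
  have h1 := mul_pos H.dl0 hh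
  rw [hD] at h1
  exact (pos_iff_pos_of_mul_pos h1).1 (by exact_mod_cast hκ')

theorem pvlkg_pl_k (hh : 0 < h) (hD : 𝔤.dl * h = (κ : ℝ) * δ) (E : Set (ℤ × ℤ)) : pvmgPl (pvmgPt δ o) (𝔤.dl * h) E = pvtU δ ((pvgwDiv κ hκ o).pre E) := by
  rw [hD]
  exact (pvwg_U_pre (pvlkg_del_pos H hκ hh hD) hκ o E).symm

theorem pvlkg_mu_k (hD : 𝔤.dl * h = (κ : ℝ) * δ) : 𝔤.sp.mu * h = (κ : ℝ) * δ / 20 := by
  show 𝔤.mu * h = _
  rw [H.mu_eq, ← hD]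
  ring

theorem pvlkg_hook_k (hh : 0 < h) (hD : 𝔤.dl * h = (κ : ℝ) * δ) {E Wc : Set (ℤ × ℤ)} (hW : (pvgwDiv κ hκ o).pre E ⊆ Wc) (k : ℤ × ℤ) (hk : pvlnC δ k ⊆ pvmgPl (pvmgPt δ o) (𝔤.dl * h) E) : k ∈ Wc := by
  refine hW (pvhh_div_mem (pvlkg_del_pos H hκ hh hD) hκ o ?_)
  rw [← hD]
  exact hk

theorem pvlkg_tube_k (hh : 0 < h) (hD : 𝔤.dl * h = (κ : ℝ) * δ) {j : ℕ} (hj : κ ≤ 20 * j) (E : Set (ℤ × ℤ)) :
    cthickening (𝔤.sp.mu * h) (pvmgPl (pvmgPt δ o) (𝔤.dl * h) E) ⊆ pvtU δ (pvtwN (j + 1) ((pvgwDiv κ hκ o).pre E)) := by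
  have hδ := pvlkg_del_pos H hκ hh hD
  rw [pvlkg_pl_k H hκ o hh hD, pvlkg_mu_k H hD]
  refine pvlkg_cth_U hδ ?_ _
  have : (κ : ℝ) ≤ 20 * (j : ℝ) := by exact_mod_cast hj
  nlinarith

theorem pvlkg_lane_k (hh : 0 < h) (hD : 𝔤.dl * h = (κ : ℝ) * δ) {j : ℕ} (hj : 11 * κ ≤ 40 * j) {M T : Set ℂ} (hM : M ⊆ PvmhNum.at' (pvmgPt δ o) (pvlpS (𝔤.dl * h) s.typ s.ln)) :
    cthickening (𝔤.sp.mu * h) (M ∪ T ∩ closedBall (pvmgPt δ o) ((𝔤.b 1 + 1) * h)) ⊆ pvspO 𝔤.sp (𝔤.ty h (pvmgPt δ o) s) (pvmgPt δ o) h ∪ pvtU δ (pvtwN (j + 1) ((pvgwDiv κ hκ o).pre (pvlpR s.typ s.ln))) := by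
  have hδ := pvlkg_del_pos H hκ hh hD
  obtain ⟨d0, d1, b1, -⟩ := pvmh_basic H
  have hκ1 : (1 : ℝ) ≤ (κ : ℝ) := by exact_mod_cast hκ
  intro w hw
  rw [pvlkg_mu_k H hD] at hw
  obtain ⟨p, hp, hwp⟩ := pvhh_cth_near (μ' := (κ : ℝ) * δ / 20 + δ) (by positivity) (by linarith) hw
  rcases hp with hp | ⟨-, hp⟩
  · obtain ⟨q, hq, rfl⟩ := hM hp
    rw [hD] at hq
    exact Or.inr (pvlkg_strip_k s.isType s.isLane hδ hκ o hj hq hwp)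
  · left
    show w ∈ closedBall (pvmgPt δ o) (2 * 𝔤.b 1 * h)
    rw [mem_closedBall, dist_eq_norm] at hp ⊢
    have h4 : ‖w - pvmgPt δ o‖ ≤ ‖w - p‖ + ‖p - pvmgPt δ o‖ := by
      have e' : w - pvmgPt δ o = (w - p) + (p - pvmgPt δ o) := by ring
      rw [e']
      exact norm_add_le _ _
    have h6 : δ ≤ (κ : ℝ) * δ := by nlinarith
    have h5 : (κ : ℝ) * δ / 20 + δ ≤ h := by
      rw [← hD] at h6 ⊢
      nlinarith
    nlinarith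

theorem pvlkg_box_k (hh : 0 < h) (hD : 𝔤.dl * h = (κ : ℝ) * δ) : pvmgPl (pvmgPt δ o) (𝔤.dl * h) (pvfjmB 𝔤.NN s.typ) ⊆ pvtU δ ((pvgwDiv κ hκ o).pre (pvmnBox (𝔤.NN.nBx + 10))) := by
  rw [pvlkg_pl_k H hκ o hh hD]
  exact pvt_U_mono fun v hv => pvmn_box_mono (by omega) (pvfjm_B_box (pvmh_numOK H) s.isType hv)

/-- **THE EXIT END OF THE BIG PLUG, IN CELLS OF ANY MESH** `δ = dl h / κ`, `κ ≥ 20`;   collars `κ ≤ 20 j₁`, `11 κ ≤ 40 j₂`      (funnel `o`) -/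
theorem pvlkg_bigP_k (hh : 0 < h) (h20 : 20 ≤ κ) (hD : 𝔤.dl * h = (κ : ℝ) * δ) {j₁ j₂ : ℕ} (hj₁ : κ ≤ 20 * j₁) (hj₂ : 11 * κ ≤ 40 * j₂) :
    PvlktBig (pvfvEndP 𝔤.sp (𝔤.ty h (pvmgPt δ o) s) (pvmgPt δ o) h) δ ((pvgwDiv κ hκ o).pre (pvtwN 3 (s.typ.C 7 : Set (ℤ × ℤ)))) ((pvgwDiv κ hκ o).pre (pvtwN 1 {pvlpA1 s.typ s.ln}))
      (pvtwN (j₁ + 1) ((pvgwDiv κ hκ o).pre (pvtwN 2 (pvmnCells s.typ 5 8)))) (pvtwN (j₂ + 1) ((pvgwDiv κ hκ o).pre (pvlpR s.typ s.ln)))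
      ((pvgwDiv κ hκ o).pre (pvmnBl 𝔤.NN.rO)) ((pvgwDiv κ hκ o).pre (pvmnBox (𝔤.NN.nBx + 10))) := by
  have hδ := pvlkg_del_pos H hκ hh hD
  have h20' : 20 * δ ≤ 𝔤.dl * h := by
    rw [hD]
    exact mul_le_mul_of_nonneg_right (by exact_mod_cast h20) hδ.le
  exact
    { mO := measurableSet_closedBall
      z₁ := fun Wc hW => pvhh_zone_bp H _ s hh hδ h20' (pvlkg_hook_k H hκ o hh hD hW)
      z₂ := fun Wc hW => pvhh_zone_pR H _ s hh hδ h20' (pvlkg_hook_k H hκ o hh hD hW)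
      a₁ := (pvlkg_tube_k H hκ o hh hD hj₁ _).trans subset_union_right
      a₂ := pvlkg_lane_k H hκ o s hh hD hj₂ (pvhh_Mp_sub H _ s)
      O_sub := by
        rw [← pvlkg_pl_k H hκ o hh hD]
        exact pvmhb_O0 H _ s hh
      OE_sub := (union_subset (pvmhb_O_B H _ s hh) (pvmhb_Ep H _ s hh)).trans (pvlkg_box_k H hκ o s hh hD) }

/-- **THE ENTRANCE END OF THE BIG PLUG, IN CELLS OF ANY MESH**      (funnel `i`) -/
theorem pvlkg_bigM_k (hh : 0 < h) (h20 : 20 ≤ κ) (hD : 𝔤.dl * h = (κ : ℝ) * δ) {j₁ j₂ : ℕ} (hj₁ : κ ≤ 20 * j₁) (hj₂ : 11 * κ ≤ 40 * j₂) :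
    PvlktBig (pvfvEndM 𝔤.sp (𝔤.ty h (pvmgPt δ o) s) (pvmgPt δ o) h) δ ((pvgwDiv κ hκ o).pre (pvtwN 3 (s.typ.C 2 : Set (ℤ × ℤ)))) ((pvgwDiv κ hκ o).pre (pvtwN 1 {pvlpA0 s.typ s.ln}))
      (pvtwN (j₁ + 1) ((pvgwDiv κ hκ o).pre (pvtwN 2 (pvmnCells s.typ 1 4)))) (pvtwN (j₂ + 1) ((pvgwDiv κ hκ o).pre (pvlpR s.typ s.ln)))
      ((pvgwDiv κ hκ o).pre (pvmnBl 𝔤.NN.rO)) ((pvgwDiv κ hκ o).pre (pvmnBox (𝔤.NN.nBx + 10))) := by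
  have hδ := pvlkg_del_pos H hκ hh hD
  have h20' : 20 * δ ≤ 𝔤.dl * h := by
    rw [hD]
    exact mul_le_mul_of_nonneg_right (by exact_mod_cast h20) hδ.le
  exact
    { mO := measurableSet_closedBall
      z₁ := fun Wc hW => pvhh_zone_bm H _ s hh hδ h20' (pvlkg_hook_k H hκ o hh hD hW)
      z₂ := fun Wc hW => pvhh_zone_mR H _ s hh hδ h20' (pvlkg_hook_k H hκ o hh hD hW)
      a₁ := (pvlkg_tube_k H hκ o hh hD hj₁ _).trans subset_union_right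
      a₂ := pvlkg_lane_k H hκ o s hh hD hj₂ (pvhh_Mm_sub H _ s)
      O_sub := by
        rw [← pvlkg_pl_k H hκ o hh hD]
        exact pvmhb_O0 H _ s hh
      OE_sub := (union_subset (pvmhb_O_B H _ s hh) (pvmhb_Em H _ s hh)).trans (pvlkg_box_k H hκ o s hh hD) }

end modelk

end Claimed.Agent.R289
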