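import Claimed.Agent.R289.Tr.GlueWE

/-!
# Row 289 (S0537, Cardy for Poisson-Voronoi), unit TR, ROAD P, THICK LINKS, file Tr/GlueWH : HALF GLUE = THE WHITE LANE BETWEEN ONE PLUG AND A STRAIGHT STRIP      (pen helper164; prefix `pvlkt_`, `Pvlkt`, `pvlkt`)

`pvgw_glue` of 205 (`Tr/GlueWT`) joins the lanes of TWO plugs of the menu.      The thick links `b : t → u`, `e : u → t` join a plug of the menu to the reference plug `u`, which is NOT a type of the menu: its rooms are straight (travel EAST, black NORTH, white SOUTH).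
Here the second plug is replaced by a straight horizontal BOX of link cells, travelled EAST:
* `pvlkt_half_s` (link `b`): tube `F = M⁻¹(N⁴ cells 0..8) ∪ Fa ∪ En`, `En = [Xm+1, X1] × [Y0, Y1]` = the END BOX (the tube of the arc `Fa` arrives from the West, its last column contains `(Xm, Y0)`).
      Door 1 = `M⁻¹(Dr⁻)`, door 2 = the cell `(X1+1, Y0)` in front of the box.      OUTPUT: `S` finite connected, off the hull, over `pvlpA1`, contains the cell `(Xm, Y0-1)` of the SOUTH row, every cell next to `M⁻¹(N⁴ cells 7..8) ∪ Fa` (NOT to the end box).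
* `pvlkt_half_t` (link `e`): tube `F = St ∪ Fa ∪ M⁻¹(N⁴ cells 1..9)`, `St = [X0, Xm-1] × [Y0, Y1]` = the START BOX.      Door 1 = the cell `(X0-1, Y0)` behind the box, door 2 = `M⁻¹(Dr⁺)`.
ROUTE OF THE PROOF = the proof of `pvgw_glue`, with `K := A`, `M := pvgwId` at the box (`PvgwDec pvgwId A A x c` is trivial: `pvtr_iter_mem`), and the explicit orbit on the south row:
`Step^{2k} ((x,Y0),(x,Y0-1)) = ((x+k,Y0),(x+k,Y0-1))`, `Step^{2k+1} = ((x+k,Y0),(x+k+1,Y0-1))`;   at the corner `((X1,Y0),(X1+1,Y0-1)) ↦ ((X1,Y0),(X1+1,Y0))`;   at the start `((X0,Y0),(X0-1,Y0)) ↦ ((X0,Y0),(X0,Y0-1))`.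
-/

set_option autoImplicit false
set_option linter.unusedSectionVars false
set_option linter.unusedVariables false
set_option linter.unusedSimpArgs false

namespace Claimed.Agent.R289

open Relation Claims.C0467 Claimed.Agent.R291

/-- the unfilled tube of the link `t → u` -/
def pvlktFs (M : PvgwMap) (τ : PvmnType) (Fa : Set (ℤ × ℤ)) (Xm X1 Y0 Y1 : ℤ) : Set (ℤ × ℤ) :=
  M.pre (pvtwN 4 (pvmnCells τ 0 8)) ∪ Fa ∪ tscBox (Xm + 1) X1 Y0 Y1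

/-- the unfilled tube of the link `u → t` -/
def pvlktFt (M : PvgwMap) (τ : PvmnType) (Fa : Set (ℤ × ℤ)) (X0 Xm Y0 Y1 : ℤ) : Set (ℤ × ℤ) :=
  tscBox X0 (Xm - 1) Y0 Y1 ∪ Fa ∪ M.pre (pvtwN 4 (pvmnCells τ 1 9))

/-- **THE CLAUSES OF THE HALF GLUE, EXIT SIDE** (plug, then the box) -/
structure PvlktHs (𝔑 : PvmnNum) (M : PvgwMap) (τ : PvmnType) (Fa : Set (ℤ × ℤ)) (Xm X1 Y0 Y1 : ℤ) : Prop where
  ts : PvmnIsType 𝔑 τ
  fin : Fa.Finite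
  conn : TscConn tscG Fa
  touch : ∃ v ∈ Fa, M.ap v ∈ pvtwN 4 (τ.C 8 : Set (ℤ × ℤ))
  off : ∀ v ∈ Fa, M.ap v ∈ pvtwN 9 (pvmnCells τ 0 8) → M.ap v ∈ pvtwN 1 (τ.C 9 : Set (ℤ × ℤ))
  hX : Xm < X1
  hY : Y0 < Y1
  /-- the tube of the arc arrives at the box -/
  last : (Xm, Y0) ∈ Fa
  /-- the end box is new -/
  box_Fa : Disjoint (tscBox (Xm + 1) X1 Y0 Y1) Fa
  /-- the end box is far from the plug -/
  box_far : ∀ v ∈ pvtwN 2 (tscBox Xm X1 Y0 Y1), M.ap v ∉ pvmnBox (𝔑.nBx + 10)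
  /-- the south row and the cells in front of the south-east corner are joined to infinity off the tube -/
  out : ∀ v : ℤ × ℤ, Xm ≤ v.1 → v.1 ≤ X1 + 2 → Y0 - 1 ≤ v.2 → v.2 ≤ Y0 + 1 → v ∉ tscBox Xm X1 Y0 Y1 → v ∈ pvtOut (pvlktFs M τ Fa Xm X1 Y0 Y1)
  /-- ONE witness at the entrance door of the plug -/
  wit : ∃ x ∈ pvtrBd (pvmnK3 τ), x.2 ∈ pvmnDrm τ ∧ ∃ v ∈ pvtOut (pvlktFs M τ Fa Xm X1 Y0 Y1), M.ap v = x.2

/-- **THE CLAUSES OF THE HALF GLUE, ENTRANCE SIDE** (the box, then the plug) -/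
structure PvlktHt (𝔑 : PvmnNum) (M : PvgwMap) (τ : PvmnType) (Fa : Set (ℤ × ℤ)) (X0 Xm Y0 Y1 : ℤ) : Prop where
  tt : PvmnIsType 𝔑 τ
  fin : Fa.Finite
  conn : TscConn tscG Fa
  touch : ∃ v ∈ Fa, M.ap v ∈ pvtwN 4 (τ.C 1 : Set (ℤ × ℤ))
  off : ∀ v ∈ Fa, M.ap v ∈ pvtwN 9 (pvmnCells τ 1 9) → M.ap v ∈ pvtwN 1 (τ.C 0 : Set (ℤ × ℤ))
  hX : X0 < Xm
  hY : Y0 < Y1
  /-- the tube of the arc starts at the box -/
  first : (Xm, Y0) ∈ Fa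
  box_Fa : Disjoint (tscBox X0 (Xm - 1) Y0 Y1) Fa
  box_far : ∀ v ∈ pvtwN 2 (tscBox X0 Xm Y0 Y1), M.ap v ∉ pvmnBox (𝔑.nBx + 10)
  /-- the south row and the cells behind the south-west corner are joined to infinity off the tube -/
  out : ∀ v : ℤ × ℤ, X0 - 2 ≤ v.1 → v.1 ≤ Xm → Y0 - 1 ≤ v.2 → v.2 ≤ Y0 + 1 → v ∉ tscBox X0 Xm Y0 Y1 → v ∈ pvtOut (pvlktFt M τ Fa X0 Xm Y0 Y1)
  /-- ONE witness at the exit door of the plug -/
  wit : ∃ x ∈ pvtrBd (pvmnK3 τ), x.2 ∈ pvmnDrp τ ∧ ∃ v ∈ pvtOut (pvlktFt M τ Fa X0 Xm Y0 Y1), M.ap v = x.2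

/-- **THE WEAK CLAUSES, EXIT SIDE** (205, after the hostile read of 273 138 114: exactly what the proof uses).      The end box need NOT be far from the plug: it may sit inside a menu cell of `N¹ C₉` at distance `≥ 6` from the pieces `0..8` (FUNNEL `o`);
the continuation (tube of the arc AND end box) may run over the whole door `Dr⁺ = N⁸ C₉` -/
structure PvlktWs (𝔑 : PvmnNum) (M : PvgwMap) (τ : PvmnType) (Fa : Set (ℤ × ℤ)) (Xm X1 Y0 Y1 : ℤ) : Prop where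
  ts : PvmnIsType 𝔑 τ
  fin : Fa.Finite
  conn : TscConn tscG Fa
  touch : ∃ v ∈ Fa, M.ap v ∈ pvtwN 4 (τ.C 8 : Set (ℤ × ℤ))
  off : ∀ v ∈ Fa ∪ tscBox (Xm + 1) X1 Y0 Y1, M.ap v ∈ pvtwN 9 (pvmnCells τ 0 8) → M.ap v ∈ pvtwN 8 (τ.C 9 : Set (ℤ × ℤ))
  hX : Xm < X1
  hY : Y0 < Y1
  last : (Xm, Y0) ∈ Fa
  box_Fa : Disjoint (tscBox (Xm + 1) X1 Y0 Y1) Fa
  /-- the 2-collar of the box is off the 5-tube of the pieces `0..8` and off the entrance door -/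
  box_off : ∀ v ∈ pvtwN 2 (tscBox Xm X1 Y0 Y1), M.ap v ∉ pvtwN 5 (pvmnCells τ 0 8) ∧ M.ap v ∉ pvmnDrm τ
  out : ∀ v : ℤ × ℤ, Xm ≤ v.1 → v.1 ≤ X1 + 2 → Y0 - 1 ≤ v.2 → v.2 ≤ Y0 + 1 → v ∉ tscBox Xm X1 Y0 Y1 → v ∈ pvtOut (pvlktFs M τ Fa Xm X1 Y0 Y1)
  wit : ∃ x ∈ pvtrBd (pvmnK3 τ), x.2 ∈ pvmnDrm τ ∧ ∃ v ∈ pvtOut (pvlktFs M τ Fa Xm X1 Y0 Y1), M.ap v = x.2

/-- **THE WEAK CLAUSES, ENTRANCE SIDE** (FUNNEL `i`) -/
structure PvlktWt (𝔑 : PvmnNum) (M : PvgwMap) (τ : PvmnType) (Fa : Set (ℤ × ℤ)) (X0 Xm Y0 Y1 : ℤ) : Prop where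
  tt : PvmnIsType 𝔑 τ
  fin : Fa.Finite
  conn : TscConn tscG Fa
  touch : ∃ v ∈ Fa, M.ap v ∈ pvtwN 4 (τ.C 1 : Set (ℤ × ℤ))
  off : ∀ v ∈ tscBox X0 (Xm - 1) Y0 Y1 ∪ Fa, M.ap v ∈ pvtwN 9 (pvmnCells τ 1 9) → M.ap v ∈ pvtwN 8 (τ.C 0 : Set (ℤ × ℤ))
  hX : X0 < Xm
  hY : Y0 < Y1
  first : (Xm, Y0) ∈ Fa
  box_Fa : Disjoint (tscBox X0 (Xm - 1) Y0 Y1) Fa
  box_off : ∀ v ∈ pvtwN 2 (tscBox X0 Xm Y0 Y1), M.ap v ∉ pvtwN 5 (pvmnCells τ 1 9) ∧ M.ap v ∉ pvmnDrp τ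
  out : ∀ v : ℤ × ℤ, X0 - 2 ≤ v.1 → v.1 ≤ Xm → Y0 - 1 ≤ v.2 → v.2 ≤ Y0 + 1 → v ∉ tscBox X0 Xm Y0 Y1 → v ∈ pvtOut (pvlktFt M τ Fa X0 Xm Y0 Y1)
  wit : ∃ x ∈ pvtrBd (pvmnK3 τ), x.2 ∈ pvmnDrp τ ∧ ∃ v ∈ pvtOut (pvlktFt M τ Fa X0 Xm Y0 Y1), M.ap v = x.2

theorem pvlkt_eqns_cite : True := by
  have := @pvlktFs.eq_1; have := @pvlktFt.eq_1
  trivial

variable {𝔑 : PvmnNum} {M : PvgwMap} {τ : PvmnType} {Fa : Set (ℤ × ℤ)} {X0 Xm X1 Y0 Y1 : ℤ}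

/-- the clauses of 164 (box far from the plug) give the weak clauses -/
theorem PvlktHs.weak (I : PvlktHs 𝔑 M τ Fa Xm X1 Y0 Y1) : PvlktWs 𝔑 M τ Fa Xm X1 Y0 Y1 where
  ts := I.ts
  fin := I.fin
  conn := I.conn
  touch := I.touch
  off := by
    rintro v (hv | hv) h
    · exact pvtw_N_mono (by omega) le_rfl (I.off v hv h)
    · exact (I.box_far v (pvtw_N_sub ⟨by have := hv.1; omega, hv.2.1, hv.2.2.1, hv.2.2.2⟩) (pvgw_cells_box I.ts (by omega) h)).elim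
  hX := I.hX
  hY := I.hY
  last := I.last
  box_Fa := I.box_Fa
  box_off := fun v hv => ⟨fun h => I.box_far v hv (pvgw_cells_box I.ts (by omega) h), fun h => I.box_far v hv (pvgw_C_box I.ts (i := 8) (by omega) h)⟩
  out := I.out
  wit := I.wit

theorem PvlktHt.weak (I : PvlktHt 𝔑 M τ Fa X0 Xm Y0 Y1) : PvlktWt 𝔑 M τ Fa X0 Xm Y0 Y1 where
  tt := I.tt
  fin := I.fin
  conn := I.conn
  touch := I.touch
  off := by
    rintro v (hv | hv) h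
    · exact (I.box_far v (pvtw_N_sub ⟨hv.1, by have := hv.2.1; omega, hv.2.2.1, hv.2.2.2⟩) (pvgw_cells_box I.tt (by omega) h)).elim
    · exact pvtw_N_mono (by omega) le_rfl (I.off v hv h)
  hX := I.hX
  hY := I.hY
  first := I.first
  box_Fa := I.box_Fa
  box_off := fun v hv => ⟨fun h => I.box_far v hv (pvgw_cells_box I.tt (by omega) h), fun h => I.box_far v hv (pvgw_C_box I.tt (i := 8) (by omega) h)⟩
  out := I.out
  wit := I.wit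

/-- **HALF GLUE, EXIT SIDE, under the weak clauses**      (205: `PvghEx.start` of `Tr/GlueWE` at the plug, `pvgw_end` at `M := pvgwId` + the explicit orbit on the south row at the box) -/
theorem pvlkt_weak_s (I : PvlktWs 𝔑 M τ Fa Xm X1 Y0 Y1) {ln : ((ℤ × ℤ) × (ℤ × ℤ)) × ℕ} (hl : PvmnLaneR τ ln.1 ln.2) :
    ∃ S : Set (ℤ × ℤ), S.Finite ∧ TscConn tscG S ∧ Disjoint S (pvtHull (pvlktFs M τ Fa Xm X1 Y0 Y1)) ∧ (∃ v ∈ S, M.ap v = pvlpA1 τ ln) ∧ (Xm, Y0 - 1) ∈ S ∧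
      ∀ w ∈ S, ∃ b, triAdj b w ∧ b ∈ M.pre (pvtwN 4 (pvmnCells τ 7 8)) ∪ Fa := by
  have hX := I.hX
  have hY := I.hY
  have hF : pvlktFs M τ Fa Xm X1 Y0 Y1 = pvghFs M τ (Fa ∪ tscBox (Xm + 1) X1 Y0 Y1) := Set.union_assoc _ _ _
  have hwit := I.wit
  have hout := I.out
  rw [hF] at hwit hout ⊢
  -- far from the plug
  have hfar : ∀ v : ℤ × ℤ, Xm - 2 ≤ v.1 → v.1 ≤ X1 + 2 → Y0 - 2 ≤ v.2 → v.2 ≤ Y1 + 2 → M.ap v ∉ pvtwN 5 (pvmnCells τ 0 8) ∧ M.ap v ∉ pvmnDrm τ := by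
    intro v h1 h2 h3 h4
    refine I.box_off v ⟨(max Xm (min v.1 X1), max Y0 (min v.2 Y1)), ⟨by simp only; omega, by simp only; omega, by simp only; omega, by simp only; omega⟩, ?_, ?_, ?_, ?_⟩ <;>
      simp only <;> push_cast <;> omega
  have hEnfar : ∀ v ∈ tscBox (Xm + 1) X1 Y0 Y1, M.ap v ∉ pvtwN 4 (pvmnCells τ 0 8) := by
    rintro v ⟨h1, h2, h3, h4⟩ h
    exact (hfar v (by omega) (by omega) (by omega) (by omega)).1 (pvtw_N_mono (by omega) le_rfl h)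
  have hadj0 : triAdj (Xm, Y0) (Xm + 1, Y0) := (tsc_adj_iff _ _).2 (Or.inl ⟨rfl, rfl⟩)
  have hEn0 : (Xm + 1, Y0) ∈ tscBox (Xm + 1) X1 Y0 Y1 := ⟨le_rfl, by simp only; omega, le_rfl, by simp only; omega⟩
  have E : PvghEx 𝔑 M τ (Fa ∪ tscBox (Xm + 1) X1 Y0 Y1) :=
    { ts := I.ts
      fin := I.fin.union (tsc_box_finite _ _ _ _)
      conn := tsc_conn_union I.conn (tsc_box_conn _ _ _ _) I.last hEn0 (Or.inr hadj0)
      touch := by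
        obtain ⟨v, hv, h⟩ := I.touch
        exact ⟨v, Or.inl hv, h⟩
      off := I.off
      wit := hwit }
  -- the cells round the south-east corner are off the hull
  have hoff : ∀ v : ℤ × ℤ, Xm ≤ v.1 → v.1 ≤ X1 + 2 → Y0 - 1 ≤ v.2 → v.2 ≤ Y0 + 1 → v ∉ tscBox Xm X1 Y0 Y1 → v ∉ pvtHull (pvghFs M τ (Fa ∪ tscBox (Xm + 1) X1 Y0 Y1)) :=
    fun v h1 h2 h3 h4 h5 h => h (hout v h1 h2 h3 h4 h5)
  have hEnA : tscBox (Xm + 1) X1 Y0 Y1 ⊆ pvtHull (pvghFs M τ (Fa ∪ tscBox (Xm + 1) X1 Y0 Y1)) := fun v hv => pvt_hull_sub (Or.inr (Or.inr hv))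
  have hFaA : Fa ⊆ pvtHull (pvghFs M τ (Fa ∪ tscBox (Xm + 1) X1 Y0 Y1)) := fun v hv => pvt_hull_sub (Or.inr (Or.inl hv))
  have hPsA : M.pre (pvtwN 4 (pvmnCells τ 0 8)) ⊆ pvtHull (pvghFs M τ (Fa ∪ tscBox (Xm + 1) X1 Y0 Y1)) := fun v hv => pvt_hull_sub (Or.inl hv)
  have in2 : ∀ x ∈ pvtrBd (pvtHull (pvghFs M τ (Fa ∪ tscBox (Xm + 1) X1 Y0 Y1))), x.2 ∈ ({(X1 + 1, Y0)} : Set (ℤ × ℤ)) → x.1 ∈ tscBox (Xm + 1) X1 Y0 Y1 := by
    rintro ⟨⟨a, b⟩, c⟩ hx hc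
    obtain rfl : c = (X1 + 1, Y0) := hc
    have had := (tsc_adj_iff _ _).1 hx.2.2
    simp only at had
    by_contra hne
    refine hoff (a, b) (by simp only; omega) (by simp only; omega) (by simp only; omega) (by simp only; omega) ?_ hx.1
    rintro ⟨h1, h2, h3, h4⟩
    simp only at h1 h2 h3 h4
    exact hne ⟨by simp only; omega, h2, h3, h4⟩
  have Dr := E.doors Set.subset_union_right (tsc_box_conn _ _ _ _) in2
  have hD2 : ∀ v ∈ ({(X1 + 1, Y0)} : Set (ℤ × ℤ)), M.ap v ∉ pvtwN 5 (pvmnCells τ 0 8) := by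
    rintro v rfl
    exact (hfar _ (by simp only; omega) (by simp only; omega) (by simp only; omega) (by simp only; omega)).1
  have hd2 : ∃ d ∈ pvtrBd (pvtHull (pvghFs M τ (Fa ∪ tscBox (Xm + 1) X1 Y0 Y1))), d.2 ∈ ({(X1 + 1, Y0)} : Set (ℤ × ℤ)) :=
    ⟨((X1, Y0), (X1 + 1, Y0)), ⟨hEnA ⟨by simp only; omega, le_rfl, le_rfl, by simp only; omega⟩,
      hoff _ (by simp only; omega) (by simp only; omega) (by simp only; omega) (by simp only; omega) (fun h => by have := h.2.1; simp only at this; omega), (tsc_adj_iff _ _).2 (Or.inl ⟨rfl, rfl⟩)⟩, rfl⟩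
  obtain ⟨e', l', js, L', hjs0, hjsl, hjs, hloc⟩ := E.start Dr Set.subset_union_right hD2 hd2 hl
  -- the south row
  obtain ⟨n, hn⟩ : ∃ n : ℕ, X1 = Xm + n := ⟨(X1 - Xm).toNat, by omega⟩
  have hin : ∀ x, Xm ≤ x → x ≤ Xm + n → (x, Y0) ∈ pvtHull (pvghFs M τ (Fa ∪ tscBox (Xm + 1) X1 Y0 Y1)) := by
    intro x h1 h2
    rcases eq_or_lt_of_le h1 with rfl | h1'
    · exact hFaA I.last
    · exact hEnA ⟨by simp only; omega, by simp only; omega, le_rfl, by simp only; omega⟩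
  have hso : ∀ x, Xm ≤ x → x ≤ Xm + n + 1 → (x, Y0 - 1) ∉ pvtHull (pvghFs M τ (Fa ∪ tscBox (Xm + 1) X1 Y0 Y1)) := by
    intro x h1 h2
    exact hoff _ h1 (by simp only; omega) (by simp only; omega) (by simp only; omega) (fun h => by have := h.2.2.1; simp only at this; omega)
  have hz' : ((Xm, Y0), (Xm, Y0 - 1)) ∈ pvtrBd (pvtHull (pvghFs M τ (Fa ∪ tscBox (Xm + 1) X1 Y0 Y1))) :=
    ⟨hFaA I.last, hso Xm le_rfl (by omega), (tsc_adj_iff _ _).2 (Or.inr (Or.inr (Or.inr (Or.inr (Or.inl ⟨rfl, rfl⟩)))))⟩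
  have hlast : (pvtrStep (pvtHull (pvghFs M τ (Fa ∪ tscBox (Xm + 1) X1 Y0 Y1))))^[2 * n + 2] ((Xm, Y0), (Xm, Y0 - 1)) = ((X1, Y0), (X1 + 1, Y0)) := by
    rw [Function.iterate_succ_apply', pvgh_row_odd n hin hso n le_rfl, ← hn]
    exact pvgh_stepC (hoff _ (by simp only; omega) (by simp only; omega) (by simp only; omega) (by simp only; omega) (fun h => by have := h.2.1; simp only at this; omega))
  have hrow : ∀ m < 2 * n + 2, ∃ x, Xm ≤ x ∧ x ≤ X1 + 1 ∧ ((pvtrStep (pvtHull (pvghFs M τ (Fa ∪ tscBox (Xm + 1) X1 Y0 Y1))))^[m] ((Xm, Y0), (Xm, Y0 - 1))).2 = (x, Y0 - 1) := by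
    intro m hm
    rcases Nat.even_or_odd' m with ⟨k, rfl | rfl⟩
    · rw [pvgh_row_even n hin (fun x h1 h2 => hso x h1 (by omega)) k (by omega)]
      exact ⟨Xm + k, by omega, by omega, rfl⟩
    · rw [pvgh_row_odd n hin hso k (by omega)]
      exact ⟨Xm + k + 1, by omega, by omega, rfl⟩
  have hYc : TscConn tscG (M.pre (pvtwN 4 (pvmnCells τ 0 8)) ∪ Fa) := by
    obtain ⟨v, hv, hvs⟩ := I.touch
    exact tsc_conn_union (pvgw_pre_conn M (pvtw_N_conn (pvmn_cells_conn I.ts (by omega) (by omega)))) I.conn (a := v) (b := v) (pvtw_N_mono le_rfl (pvmn_C_sub 8 (by simp) le_rfl) hvs) hv (Or.inl rfl)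
  have hYd : Disjoint (tscBox (Xm + 1) X1 Y0 Y1) (M.pre (pvtwN 4 (pvmnCells τ 0 8)) ∪ Fa) := by
    rw [Set.disjoint_union_right]
    exact ⟨Set.disjoint_left.2 fun v hv h => hEnfar v hv h, I.box_Fa⟩
  obtain ⟨jt, hjt0, hjtl, hjt⟩ := pvgw_end pvgwId Dr L' hz' (c := 2 * n + 2)
    (fun m _ => ⟨fun v hv => by rw [pvgw_id_ap] at hv; rw [hv]; exact (pvtr_iter_mem hz' m).1, fun v hv => by rw [pvgw_id_ap] at hv; rw [hv]; exact (pvtr_iter_mem hz' m).2.1⟩)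
    (fun v hv => by rw [pvgw_id_ap, hlast] at hv; exact hv)
    (fun m hm v hv => by
      obtain ⟨x, x1, x2, hx⟩ := hrow m hm
      rw [pvgw_id_ap, hx] at hv
      subst hv
      rintro (h | h)
      · exact (hfar (x, Y0 - 1) (by simp only; omega) (by simp only; omega) (by simp only; omega) (by simp only; omega)).2 h
      · have := congrArg Prod.snd (show (x, Y0 - 1) = (X1 + 1, Y0) from h)
        simp only at this
        omega)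
    (by omega) hYc (Set.union_subset hPsA hFaA) hYd (fun v hv => Or.inl (pvtw_N_mono le_rfl (pvmn_cells_mono le_rfl (by omega)) hv))
    (fun v hv => by rw [pvgw_id_ap] at hv; rw [hv]; exact Or.inr I.last) hz' rfl
  -- order
  obtain ⟨N, P⟩ := pvri_period Dr.fin L'.mem
  have hln := (Dr.lane_lt L' P).2
  have h0 := Dr.in1 _ L'.mem L'.start
  have h1 := Dr.in2 _ (pvtr_iter_mem L'.mem l') L'.stop
  have hjs8 : ((pvtrStep (pvtHull (pvghFs M τ (Fa ∪ tscBox (Xm + 1) X1 Y0 Y1))))^[js] e').1 ∈ M.pre (pvtwN 4 (pvmnCells τ 0 8)) := by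
    change M.ap _ ∈ pvtwN 4 (pvmnCells τ 0 8)
    have := congrArg Prod.fst hjs
    change M.ap _ = _ at this
    rw [this]
    exact pvtw_N_mono le_rfl (pvmn_C_sub 8 (by simp) (by simp)) (pvgw_lane_last I.ts hl)
  have hjj : js < jt := by
    refine pvgw_order Dr.fin Dr.free L'.mem P (pvgw_pre_conn M (pvtw_N_conn (pvmn_cells_conn I.ts (a := 0) (b := 8) (by omega) (by omega))))
      (tsc_conn_union (pvgw_single_conn (Xm, Y0)) (tsc_box_conn (Xm + 1) X1 Y0 Y1) rfl hEn0 (Or.inr hadj0)) hPsA (Set.union_subset (Set.singleton_subset_iff.2 (hFaA I.last)) hEnA) ?_ hln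
      (pvtw_N_mono le_rfl (pvmn_cells_mono le_rfl (by omega)) h0) (Or.inr h1) hjsl.le hjtl.le hjs8 (by rw [hjt]; exact Or.inl rfl)
    rw [Set.disjoint_left]
    rintro v hv (rfl | h)
    · exact (hfar _ (by simp only; omega) (by simp only; omega) (by simp only; omega) (by simp only; omega)).1 (pvtw_N_mono (by omega) le_rfl hv)
    · exact hEnfar v h hv
  refine ⟨pvgwOut _ e' js jt, pvgw_out_finite _ _ _ _, pvgw_out_conn L'.mem _ _, pvgw_out_off L'.mem _ _, ⟨_, ⟨js, le_rfl, hjj.le, rfl⟩, congrArg Prod.snd hjs⟩, ⟨jt, hjj.le, le_rfl, by rw [hjt]⟩, ?_⟩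
  rintro w ⟨i, hi1, hi2, rfl⟩
  have hd := pvtr_iter_mem L'.mem i
  refine ⟨_, hd.2.2, ?_⟩
  rcases hloc i hi1 (by omega) with h | h | h
  · exact Or.inl h
  · exact Or.inr h
  · have := pvgw_order Dr.fin Dr.free L'.mem P hYc (tsc_box_conn (Xm + 1) X1 Y0 Y1) (Set.union_subset hPsA hFaA) hEnA hYd.symm hln
      (Or.inl (pvtw_N_mono le_rfl (pvmn_cells_mono le_rfl (by omega)) h0)) h1 hjtl.le (by omega : i ≤ l') (by rw [hjt]; exact Or.inr I.last) h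
    omega

/-- **HALF GLUE, ENTRANCE SIDE, under the weak clauses**      (205: the explicit orbit on the south row at the box, `PvghEn.stop` of `Tr/GlueWE` at the plug) -/
theorem pvlkt_weak_t (I : PvlktWt 𝔑 M τ Fa X0 Xm Y0 Y1) {ln : ((ℤ × ℤ) × (ℤ × ℤ)) × ℕ} (hl : PvmnLaneR τ ln.1 ln.2) :
    ∃ S : Set (ℤ × ℤ), S.Finite ∧ TscConn tscG S ∧ Disjoint S (pvtHull (pvlktFt M τ Fa X0 Xm Y0 Y1)) ∧ (Xm, Y0 - 1) ∈ S ∧ (∃ v ∈ S, M.ap v = pvlpA0 τ ln) ∧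
      ∀ w ∈ S, ∃ b, triAdj b w ∧ b ∈ Fa ∪ M.pre (pvtwN 4 (pvmnCells τ 1 2)) := by
  have hX := I.hX
  have hY := I.hY
  have hF : pvlktFt M τ Fa X0 Xm Y0 Y1 = pvghFt M τ (tscBox X0 (Xm - 1) Y0 Y1 ∪ Fa) := rfl
  have hwit := I.wit
  have hout := I.out
  rw [hF] at hwit hout ⊢
  have hfar : ∀ v : ℤ × ℤ, X0 - 2 ≤ v.1 → v.1 ≤ Xm + 2 → Y0 - 2 ≤ v.2 → v.2 ≤ Y1 + 2 → M.ap v ∉ pvtwN 5 (pvmnCells τ 1 9) ∧ M.ap v ∉ pvmnDrp τ := by
    intro v h1 h2 h3 h4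
    refine I.box_off v ⟨(max X0 (min v.1 Xm), max Y0 (min v.2 Y1)), ⟨by simp only; omega, by simp only; omega, by simp only; omega, by simp only; omega⟩, ?_, ?_, ?_, ?_⟩ <;>
      simp only <;> push_cast <;> omega
  have hStfar : ∀ v ∈ tscBox X0 (Xm - 1) Y0 Y1, M.ap v ∉ pvtwN 4 (pvmnCells τ 1 9) := by
    rintro v ⟨h1, h2, h3, h4⟩ h
    exact (hfar v (by omega) (by omega) (by omega) (by omega)).1 (pvtw_N_mono (by omega) le_rfl h)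
  have hadj0 : triAdj (Xm - 1, Y0) (Xm, Y0) := (tsc_adj_iff _ _).2 (Or.inl ⟨by simp only; ring, rfl⟩)
  have hSt0 : (Xm - 1, Y0) ∈ tscBox X0 (Xm - 1) Y0 Y1 := ⟨by simp only; omega, le_rfl, le_rfl, by simp only; omega⟩
  have E : PvghEn 𝔑 M τ (tscBox X0 (Xm - 1) Y0 Y1 ∪ Fa) :=
    { tt := I.tt
      fin := (tsc_box_finite _ _ _ _).union I.fin
      conn := tsc_conn_union (tsc_box_conn _ _ _ _) I.conn hSt0 I.first (Or.inr hadj0)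
      touch := by
        obtain ⟨v, hv, h⟩ := I.touch
        exact ⟨v, Or.inr hv, h⟩
      off := I.off
      wit := hwit }
  have hoff : ∀ v : ℤ × ℤ, X0 - 2 ≤ v.1 → v.1 ≤ Xm → Y0 - 1 ≤ v.2 → v.2 ≤ Y0 + 1 → v ∉ tscBox X0 Xm Y0 Y1 → v ∉ pvtHull (pvghFt M τ (tscBox X0 (Xm - 1) Y0 Y1 ∪ Fa)) :=
    fun v h1 h2 h3 h4 h5 h => h (hout v h1 h2 h3 h4 h5)
  have hStA : tscBox X0 (Xm - 1) Y0 Y1 ⊆ pvtHull (pvghFt M τ (tscBox X0 (Xm - 1) Y0 Y1 ∪ Fa)) := fun v hv => pvt_hull_sub (Or.inl (Or.inl hv))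
  have hFaA : Fa ⊆ pvtHull (pvghFt M τ (tscBox X0 (Xm - 1) Y0 Y1 ∪ Fa)) := fun v hv => pvt_hull_sub (Or.inl (Or.inr hv))
  have hPtA : M.pre (pvtwN 4 (pvmnCells τ 1 9)) ⊆ pvtHull (pvghFt M τ (tscBox X0 (Xm - 1) Y0 Y1 ∪ Fa)) := fun v hv => pvt_hull_sub (Or.inr hv)
  -- the only dart of the first door
  have in1' : ∀ x ∈ pvtrBd (pvtHull (pvghFt M τ (tscBox X0 (Xm - 1) Y0 Y1 ∪ Fa))), x.2 ∈ ({(X0 - 1, Y0)} : Set (ℤ × ℤ)) → x = ((X0, Y0), (X0 - 1, Y0)) := by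
    rintro ⟨⟨a, b⟩, c⟩ hx hc
    obtain rfl : c = (X0 - 1, Y0) := hc
    have had := (tsc_adj_iff _ _).1 hx.2.2
    simp only at had
    by_contra hne
    refine hoff (a, b) (by simp only; omega) (by simp only; omega) (by simp only; omega) (by simp only; omega) ?_ hx.1
    rintro ⟨h1, h2, h3, h4⟩
    simp only at h1 h2 h3 h4
    refine hne ?_
    have ea : a = X0 := by omega
    have eb : b = Y0 := by omega
    rw [ea, eb]
  have hS00 : (X0, Y0) ∈ tscBox X0 (Xm - 1) Y0 Y1 := ⟨le_rfl, by simp only; omega, le_rfl, by simp only; omega⟩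
  have in1 : ∀ x ∈ pvtrBd (pvtHull (pvghFt M τ (tscBox X0 (Xm - 1) Y0 Y1 ∪ Fa))), x.2 ∈ ({(X0 - 1, Y0)} : Set (ℤ × ℤ)) → x.1 ∈ tscBox X0 (Xm - 1) Y0 Y1 := by
    intro x hx h
    rw [in1' x hx h]
    exact hS00
  have Dr := E.doors Set.subset_union_left (tsc_box_conn _ _ _ _) in1
  have hD1 : ∀ v ∈ ({(X0 - 1, Y0)} : Set (ℤ × ℤ)), M.ap v ∉ pvtwN 5 (pvmnCells τ 1 9) := by
    rintro v rfl
    exact (hfar _ (by simp only; omega) (by simp only; omega) (by simp only; omega) (by simp only; omega)).1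
  have hd1 : ∃ d ∈ pvtrBd (pvtHull (pvghFt M τ (tscBox X0 (Xm - 1) Y0 Y1 ∪ Fa))), d.2 ∈ ({(X0 - 1, Y0)} : Set (ℤ × ℤ)) :=
    ⟨((X0, Y0), (X0 - 1, Y0)), ⟨hStA hS00, hoff _ (by simp only; omega) (by simp only; omega) (by simp only; omega) (by simp only; omega) (fun h => by have := h.1; simp only at this; omega),
      (tsc_adj_iff _ _).2 (Or.inr (Or.inr (Or.inr (Or.inl ⟨rfl, rfl⟩))))⟩, rfl⟩
  obtain ⟨e', l', L'⟩ := pvtr_lane_exists Dr.fin Dr.conn (pvtw_free_compl_conn Dr.fin Dr.free) hd1 (E.door_dart hl)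
  obtain rfl : e' = ((X0, Y0), (X0 - 1, Y0)) := in1' e' L'.mem L'.start
  obtain ⟨jt, hjt0, hjtl, hjt, hloc⟩ := E.stop Dr Set.subset_union_left hD1 L' hl
  -- the south row
  obtain ⟨n, hn⟩ : ∃ n : ℕ, Xm = X0 + n := ⟨(Xm - X0).toNat, by omega⟩
  have hin : ∀ x, X0 ≤ x → x ≤ X0 + n → (x, Y0) ∈ pvtHull (pvghFt M τ (tscBox X0 (Xm - 1) Y0 Y1 ∪ Fa)) := by
    intro x h1 h2
    rcases eq_or_lt_of_le h2 with h2' | h2'
    · rw [h2', ← hn]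
      exact hFaA I.first
    · exact hStA ⟨h1, by simp only; omega, le_rfl, by simp only; omega⟩
  have hso : ∀ x, X0 ≤ x → x ≤ X0 + n → (x, Y0 - 1) ∉ pvtHull (pvghFt M τ (tscBox X0 (Xm - 1) Y0 Y1 ∪ Fa)) := by
    intro x h1 h2
    exact hoff _ (by simp only; omega) (by simp only; omega) (by simp only; omega) (by simp only; omega) (fun h => by have := h.2.2.1; simp only at this; omega)
  have hfirst : pvtrStep (pvtHull (pvghFt M τ (tscBox X0 (Xm - 1) Y0 Y1 ∪ Fa))) ((X0, Y0), (X0 - 1, Y0)) = ((X0, Y0), (X0, Y0 - 1)) := pvgh_stepD (hso X0 le_rfl (by omega))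
  have hsh : ∀ m, (pvtrStep (pvtHull (pvghFt M τ (tscBox X0 (Xm - 1) Y0 Y1 ∪ Fa))))^[m + 1] ((X0, Y0), (X0 - 1, Y0)) =
      (pvtrStep (pvtHull (pvghFt M τ (tscBox X0 (Xm - 1) Y0 Y1 ∪ Fa))))^[m] ((X0, Y0), (X0, Y0 - 1)) := by
    intro m
    rw [Function.iterate_succ_apply, hfirst]
  have hj0 : (pvtrStep (pvtHull (pvghFt M τ (tscBox X0 (Xm - 1) Y0 Y1 ∪ Fa))))^[2 * n + 1] ((X0, Y0), (X0 - 1, Y0)) = ((Xm, Y0), (Xm, Y0 - 1)) := by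
    rw [hsh, pvgh_row_even n hin hso n le_rfl, ← hn]
  have hl0 := (Dr.lane_lt L' (pvri_period Dr.fin L'.mem).choose_spec).1
  have hj0l : 2 * n + 1 < l' := by
    by_contra hc
    obtain ⟨m, rfl⟩ : ∃ m, l' = m + 1 := ⟨l' - 1, by omega⟩
    obtain ⟨x, x1, x2, hx⟩ := pvgh_row_out n hin hso m (by omega)
    have hstop := L'.stop
    rw [hsh, hx] at hstop
    exact (hfar (x, Y0 - 1) (by simp only; omega) (by simp only; omega) (by simp only; omega) (by simp only; omega)).2 hstop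
  -- order
  obtain ⟨N, P⟩ := pvri_period Dr.fin L'.mem
  have hln := (Dr.lane_lt L' P).2
  have h1 := Dr.in2 _ (pvtr_iter_mem L'.mem l') L'.stop
  have hjt1 : ((pvtrStep (pvtHull (pvghFt M τ (tscBox X0 (Xm - 1) Y0 Y1 ∪ Fa))))^[jt] ((X0, Y0), (X0 - 1, Y0))).1 ∈ M.pre (pvtwN 4 (pvmnCells τ 1 9)) := by
    change M.ap _ ∈ pvtwN 4 (pvmnCells τ 1 9)
    have := congrArg Prod.fst hjt
    change M.ap _ = _ at this
    rw [this]
    exact pvtw_N_mono le_rfl (pvmn_C_sub 1 (by simp) (by simp)) (pvgw_lane_first I.tt hl)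
  have hjj : 2 * n + 1 < jt := by
    refine pvgw_order Dr.fin Dr.free L'.mem P (tsc_conn_union (tsc_box_conn X0 (Xm - 1) Y0 Y1) (pvgw_single_conn (Xm, Y0)) hSt0 rfl (Or.inr hadj0))
      (pvgw_pre_conn M (pvtw_N_conn (pvmn_cells_conn I.tt (a := 1) (b := 9) (by omega) (by omega)))) (Set.union_subset hStA (Set.singleton_subset_iff.2 (hFaA I.first))) hPtA ?_ hln
      (Or.inl hS00) (pvtw_N_mono le_rfl (pvmn_cells_mono (by omega) le_rfl) h1) hj0l.le hjtl.le (by rw [hj0]; exact Or.inr rfl) hjt1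
    rw [Set.disjoint_left]
    rintro v (h | rfl) hv
    · exact hStfar v h hv
    · exact (hfar _ (by simp only; omega) (by simp only; omega) (by simp only; omega) (by simp only; omega)).1 (pvtw_N_mono (by omega) le_rfl hv)
  have hYc : TscConn tscG (Fa ∪ M.pre (pvtwN 4 (pvmnCells τ 1 9))) := by
    obtain ⟨v, hv, hvs⟩ := I.touch
    exact tsc_conn_union I.conn (pvgw_pre_conn M (pvtw_N_conn (pvmn_cells_conn I.tt (by omega) (by omega)))) (a := v) (b := v) hv (pvtw_N_mono le_rfl (pvmn_C_sub 1 le_rfl (by simp)) hvs) (Or.inl rfl)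
  have hYd : Disjoint (tscBox X0 (Xm - 1) Y0 Y1) (Fa ∪ M.pre (pvtwN 4 (pvmnCells τ 1 9))) := by
    rw [Set.disjoint_union_right]
    exact ⟨I.box_Fa, Set.disjoint_left.2 fun v hv h => hStfar v hv h⟩
  refine ⟨pvgwOut _ ((X0, Y0), (X0 - 1, Y0)) (2 * n + 1) jt, pvgw_out_finite _ _ _ _, pvgw_out_conn L'.mem _ _, pvgw_out_off L'.mem _ _, ⟨2 * n + 1, le_rfl, hjj.le, by rw [hj0]⟩,
    ⟨_, ⟨jt, hjj.le, le_rfl, rfl⟩, congrArg Prod.snd hjt⟩, ?_⟩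
  rintro w ⟨i, hi1, hi2, rfl⟩
  have hd := pvtr_iter_mem L'.mem i
  refine ⟨_, hd.2.2, ?_⟩
  rcases hloc i hi2 with (h | h) | h
  · have := pvgw_order Dr.fin Dr.free L'.mem P (tsc_box_conn X0 (Xm - 1) Y0 Y1) hYc hStA (Set.union_subset hFaA hPtA) hYd hln hS00
      (Or.inr (pvtw_N_mono le_rfl (pvmn_cells_mono (by omega) le_rfl) h1)) (by omega : i ≤ l') hj0l.le h (by rw [hj0]; exact Or.inl I.first)
    omega
  · exact Or.inl h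
  · exact Or.inr h

/-- **HALF GLUE, EXIT SIDE** (statement of 164) -/
theorem pvlkt_half_s (I : PvlktHs 𝔑 M τ Fa Xm X1 Y0 Y1) {ln : ((ℤ × ℤ) × (ℤ × ℤ)) × ℕ} (hl : PvmnLaneR τ ln.1 ln.2) :
    ∃ S : Set (ℤ × ℤ), S.Finite ∧ TscConn tscG S ∧ Disjoint S (pvtHull (pvlktFs M τ Fa Xm X1 Y0 Y1)) ∧ (∃ v ∈ S, M.ap v = pvlpA1 τ ln) ∧ (Xm, Y0 - 1) ∈ S ∧
      ∀ w ∈ S, ∃ b, triAdj b w ∧ b ∈ M.pre (pvtwN 4 (pvmnCells τ 7 8)) ∪ Fa := pvlkt_weak_s I.weak hl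

/-- **HALF GLUE, ENTRANCE SIDE** (statement of 164) -/
theorem pvlkt_half_t (I : PvlktHt 𝔑 M τ Fa X0 Xm Y0 Y1) {ln : ((ℤ × ℤ) × (ℤ × ℤ)) × ℕ} (hl : PvmnLaneR τ ln.1 ln.2) :
    ∃ S : Set (ℤ × ℤ), S.Finite ∧ TscConn tscG S ∧ Disjoint S (pvtHull (pvlktFt M τ Fa X0 Xm Y0 Y1)) ∧ (Xm, Y0 - 1) ∈ S ∧ (∃ v ∈ S, M.ap v = pvlpA0 τ ln) ∧
      ∀ w ∈ S, ∃ b, triAdj b w ∧ b ∈ Fa ∪ M.pre (pvtwN 4 (pvmnCells τ 1 2)) := pvlkt_weak_t I.weak hl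

end Claimed.Agent.R289
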