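import Claimed.Agent.R289.Tr.GlueWH
import Claimed.Agent.R289.Tr.LinkGam
import Claimed.Agent.R289.Tr.LinkDict

/-!
# Row 289 (S0537, Cardy for Poisson-Voronoi), THE WALL, ROAD P, file Tr/LinkLay : THE LAYOUT OF THE TWO THICK LINKS `e : u → t`, `b : t → u`      (architect helper164; prefix `pvlkt_`, `Pvlkt`, `pvlkt`)

LATTICES.   MENU cells (side `dl h`, relative to the centre `z` of the plug `t`), FINE cells (side `δ = dl h / 40`, ABSOLUTE grid), `z = pvmgPt δ o`, `φ = pvlktPhi o = pvgwDiv 40 _ o` : fine ↦ menu.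
`C = pvlzC 𝔑 τ` = the menu cell whose CORNER is the centre of `u` (114), `ou = pvlktOu o C = o + 40 C` = the centre of `u` in fine units;   `pvlktBx ou a b c d` = the box of fine cells `[a,b] × [c,d]` relative to `ou`.
THE REFERENCE PLUG at the scale `r = 40 δ` (ONE menu cell): `O_u` = open square `|x|,|y| < 130 δ`;   black rooms `130 δ ≤ |x| ≤ 202.5 δ`, `17.5 δ ≤ y ≤ 62.5 δ`;   white rooms `-62.5 δ ≤ y ≤ -17.5 δ`;   targets `160 δ ≤ |x| ≤ 200 δ`;   starts `|x| ≤ 80 δ`.      Travel EAST.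
LINK `e`.   Axis (menu) `C₀ ∪ pvlzAx` of 114.      Tube `Ft = St ∪ FaE ∪ φ⁻¹(N⁴ cells 1..9)`, `St = [120,139] × [-14,70]`, `FaE = N¹⁴ φ⁻¹(C₀ ∪ Ax) ∪ [140,340] × [-14,70]`;   half glue (`pvlkt_half_t`) ⟹ `S ∋ (140,-15)`.
   black `B = N¹ XB`, `XB = N⁹ φ⁻¹(C₀ ∪ C₁ ∪ Ax) ∪ φ⁻¹(N³ C₂) ∪ [133,330] × [16,64]`   (`N⁵ XB ⊆` tube);      white `W = N¹ XW`, `XW = S ∪ φ⁻¹(N¹ {A0}) ∪ [133,204] × [-65,-15]`.
LINK `b`.   Axis (menu) `C₉ ∪ AxB`, `AxB = ρ⁺ ∩ Box M ∪ (Ring M \ N³⁰ Re) ∪ (access ray of 114) ∩ Box M`, `M = 3 nBx + 200`;   `Re` = THE ESCAPE RAY from `C + (24,0)` in the direction `a⁻` (if `a⁻ = W`: North if `q₁₀.2 ≤ q₀.2`, else South).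
   Tube `Fs = φ⁻¹(N⁴ cells 0..8) ∪ FaB ∪ En`, `En = [-139,-120] × [-14,70]`, `FaB = N¹⁴ φ⁻¹(C₉ ∪ AxB) ∪ [-341,-140] × [-14,70]`;   half glue (`pvlkt_half_s`) ⟹ `S ∋ (-140,-15)`.
   The tube is a TREE (a ring with a gap and two spokes) up to harmless crossings of the spokes: the hull takes care of them.      ESCAPE SET `EscB = [-140,-120] × {-15} ∪ [-119,359] × [-15,39] ∪ φ⁻¹(Hs ∪ Re)`, `Hs = [C+8, C+24] × {C.2}`.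
-/

set_option autoImplicit false
set_option linter.unusedSectionVars false
set_option linter.unusedVariables false

namespace Claimed.Agent.R289

open Set Relation Claims.C0467 Claimed.Agent.R291

/-! ## 0. lattices -/

/-- fine cell ↦ menu cell -/
def pvlktPhi (o : ℤ × ℤ) : PvgwMap := pvgwDiv 40 (by norm_num) o

/-- the corner of the menu cell `C`, in fine units -/
def pvlktOu (o C : ℤ × ℤ) : ℤ × ℤ := (o.1 + 40 * C.1, o.2 + 40 * C.2)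

/-- a box of fine cells relative to `u` -/
def pvlktBx (u : ℤ × ℤ) (a b c d : ℤ) : Set (ℤ × ℤ) := tscBox (u.1 + a) (u.1 + b) (u.2 + c) (u.2 + d)

/-! ## 1. the layout of `e` -/

section defs

variable (𝔑 : PvmnNum) (τ : PvmnType) (ln : ((ℤ × ℤ) × (ℤ × ℤ)) × ℕ) (o : ℤ × ℤ) (S : Set (ℤ × ℤ))

/-- the centre of `u`, fine units -/
noncomputable def pvlktU0 : ℤ × ℤ := pvlktOu o (pvlzC 𝔑 τ)

/-- the axis of `e` outside the plug (114) -/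
noncomputable def pvlktAxE : Set (ℤ × ℤ) := pvlzAx (τ.q 0) (pvlzAm 𝔑 τ) (pvlzL 𝔑)

/-- the tube of the arc of `e` -/
noncomputable def pvlktFaE : Set (ℤ × ℤ) :=
  pvtwN 14 ((pvlktPhi o).pre ((τ.C 0 : Set (ℤ × ℤ)) ∪ pvlktAxE 𝔑 τ)) ∪ pvlktBx (pvlktU0 𝔑 τ o) 140 340 (-14) 70

/-- the core of the black polyomino of `e` -/
noncomputable def pvlktXBe : Set (ℤ × ℤ) :=
  pvtwN 9 ((pvlktPhi o).pre ((τ.C 0 : Set (ℤ × ℤ)) ∪ (τ.C 1 : Set (ℤ × ℤ)) ∪ pvlktAxE 𝔑 τ)) ∪ (pvlktPhi o).pre (pvtwN 3 (τ.C 2 : Set (ℤ × ℤ))) ∪ pvlktBx (pvlktU0 𝔑 τ o) 133 330 16 64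

/-- the core of the white polyomino of `e` -/
noncomputable def pvlktXWe : Set (ℤ × ℤ) :=
  S ∪ (pvlktPhi o).pre (pvtwN 1 {pvlpA0 τ ln}) ∪ pvlktBx (pvlktU0 𝔑 τ o) 133 204 (-65) (-15)

/-- the black cover of `e` -/
noncomputable def pvlktBke : Set (ℤ × ℤ) :=
  pvtwN 2 (pvlktXBe 𝔑 τ o) ∪ pvtwN 3 ((pvlktPhi o).pre (pvtwN 2 (pvmnCells τ 1 4))) ∪ pvlktBx (pvlktU0 𝔑 τ o) 130 331 15 65

/-- the white cover of `e` -/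
noncomputable def pvlktWhe : Set (ℤ × ℤ) :=
  pvtwN 2 (pvlktXWe 𝔑 τ ln o S) ∪ pvtwN 12 ((pvlktPhi o).pre (pvlpR τ ln)) ∪ pvlktBx (pvlktU0 𝔑 τ o) 130 205 (-66) (-14)

/-- the cells of the window of the corridor of `e` -/
noncomputable def pvlktEce : Set (ℤ × ℤ) :=
  pvtwN 6 (pvlktFaE 𝔑 τ o ∪ pvlktBx (pvlktU0 𝔑 τ o) 120 139 (-14) 70 ∪ (pvlktPhi o).pre (pvtwN 4 (pvmnCells τ 1 2))) ∪ pvlktBx (pvlktU0 𝔑 τ o) 120 210 (-72) 0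

/-- the escape set of `e` -/
noncomputable def pvlktEscE : Set (ℤ × ℤ) :=
  pvlktBx (pvlktU0 𝔑 τ o) (-360) 119 (-15) 39 ∪ pvlktBx (pvlktU0 𝔑 τ o) 120 140 (-15) (-15) ∪
    (pvlktPhi o).pre (pvlzRay (pvlzFr (τ.q 0) (pvlzAm 𝔑 τ) (pvlzL 𝔑)) (pvlzDw (pvlzAm 𝔑 τ)))

/-! ## 2. the layout of `b` -/

/-- the radius of the ring road -/
def pvlktM : ℕ := 3 * 𝔑.nBx + 200

/-- the direction of the escape ray -/
noncomputable def pvlktDe : ℤ × ℤ :=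
  if pvlzAm 𝔑 τ = (-1, 0) then (if (τ.q 10).2 ≤ (τ.q 0).2 then (0, 1) else (0, -1)) else pvlzAm 𝔑 τ

/-- THE ESCAPE RAY -/
noncomputable def pvlktRe : Set (ℤ × ℤ) := pvlzRay ((pvlzC 𝔑 τ).1 + 24, (pvlzC 𝔑 τ).2) (pvlktDe 𝔑 τ)

/-- the stub of the axis of `e` at the East door of `u` -/
noncomputable def pvlktHs : Set (ℤ × ℤ) := tscBox ((pvlzC 𝔑 τ).1 + 8) ((pvlzC 𝔑 τ).1 + 24) (pvlzC 𝔑 τ).2 (pvlzC 𝔑 τ).2

/-- the ring road with its gap -/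
noncomputable def pvlktRing : Set (ℤ × ℤ) := (pvmnBox (pvlktM 𝔑) \ pvmnBox (pvlktM 𝔑 - 1)) \ pvtwN 30 (pvlktRe 𝔑 τ)

/-- the axis of `b` outside the plug -/
noncomputable def pvlktAxB : Set (ℤ × ℤ) :=
  pvlzRay (τ.q 10) (pvlzAp 𝔑 τ) ∩ pvmnBox (pvlktM 𝔑) ∪ pvlktRing 𝔑 τ ∪
    pvlzRay (pvlzFr (τ.q 0) (pvlzAm 𝔑 τ) (pvlzL 𝔑)) (pvlzDw (pvlzAm 𝔑 τ)) ∩ pvmnBox (pvlktM 𝔑)

/-- the tube of the arc of `b` -/
noncomputable def pvlktFaB : Set (ℤ × ℤ) :=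
  pvtwN 14 ((pvlktPhi o).pre ((τ.C 9 : Set (ℤ × ℤ)) ∪ pvlktAxB 𝔑 τ)) ∪ pvlktBx (pvlktU0 𝔑 τ o) (-341) (-140) (-14) 70

/-- the core of the black polyomino of `b` -/
noncomputable def pvlktXBb : Set (ℤ × ℤ) :=
  pvtwN 9 ((pvlktPhi o).pre ((τ.C 8 : Set (ℤ × ℤ)) ∪ (τ.C 9 : Set (ℤ × ℤ)) ∪ pvlktAxB 𝔑 τ)) ∪ (pvlktPhi o).pre (pvtwN 3 (τ.C 7 : Set (ℤ × ℤ))) ∪ pvlktBx (pvlktU0 𝔑 τ o) (-331) (-134) 16 64

/-- the core of the white polyomino of `b` -/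
noncomputable def pvlktXWb : Set (ℤ × ℤ) :=
  S ∪ (pvlktPhi o).pre (pvtwN 1 {pvlpA1 τ ln}) ∪ pvlktBx (pvlktU0 𝔑 τ o) (-205) (-134) (-65) (-15)

/-- the black cover of `b` -/
noncomputable def pvlktBkb : Set (ℤ × ℤ) :=
  pvtwN 2 (pvlktXBb 𝔑 τ o) ∪ pvtwN 3 ((pvlktPhi o).pre (pvtwN 2 (pvmnCells τ 5 8))) ∪ pvlktBx (pvlktU0 𝔑 τ o) (-332) (-131) 15 65

/-- the white cover of `b` -/
noncomputable def pvlktWhb : Set (ℤ × ℤ) :=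
  pvtwN 2 (pvlktXWb 𝔑 τ ln o S) ∪ pvtwN 12 ((pvlktPhi o).pre (pvlpR τ ln)) ∪ pvlktBx (pvlktU0 𝔑 τ o) (-206) (-131) (-66) (-14)

/-- the cells of the window of the corridor of `b` -/
noncomputable def pvlktEcb : Set (ℤ × ℤ) :=
  pvtwN 6 (pvlktFaB 𝔑 τ o ∪ pvlktBx (pvlktU0 𝔑 τ o) (-139) (-120) (-14) 70 ∪ (pvlktPhi o).pre (pvtwN 4 (pvmnCells τ 7 8))) ∪ pvlktBx (pvlktU0 𝔑 τ o) (-211) (-121) (-72) 0

/-- the escape set of `b` -/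
noncomputable def pvlktEscB : Set (ℤ × ℤ) :=
  pvlktBx (pvlktU0 𝔑 τ o) (-140) (-120) (-15) (-15) ∪ pvlktBx (pvlktU0 𝔑 τ o) (-119) 359 (-15) 39 ∪ (pvlktPhi o).pre (pvlktHs 𝔑 τ ∪ pvlktRe 𝔑 τ)

/-- half side of the box of fine cells which contains everything -/
def pvlktNN : ℕ := 40 * (pvlktM 𝔑 + 4)

end defs

theorem pvlkt_eqns_cite3 : True := by
  have := @pvlktPhi.eq_1; have := @pvlktOu.eq_1; have := @pvlktBx.eq_1; have := @pvlktU0.eq_1; have := @pvlktAxE.eq_1; have := @pvlktFaE.eq_1; have := @pvlktXBe.eq_1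
  have := @pvlktXWe.eq_1; have := @pvlktBke.eq_1; have := @pvlktWhe.eq_1; have := @pvlktEce.eq_1; have := @pvlktEscE.eq_1; have := @pvlktM.eq_1; have := @pvlktDe.eq_1
  have := @pvlktRe.eq_1; have := @pvlktHs.eq_1; have := @pvlktRing.eq_1; have := @pvlktAxB.eq_1; have := @pvlktFaB.eq_1; have := @pvlktXBb.eq_1; have := @pvlktXWb.eq_1
  have := @pvlktBkb.eq_1; have := @pvlktWhb.eq_1; have := @pvlktEcb.eq_1; have := @pvlktEscB.eq_1; have := @pvlktNN.eq_1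
  trivial

end Claimed.Agent.R289
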