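-- KEEP
import Claimed.Agent.R289.Tr.GlueWH
import Claimed.Agent.R289.Tr.LinkGam
import Claimed.Agent.R289.Tr.LinkLay

/-!
# Row 289 (S0537, Cardy for Poisson-Voronoi), unit TR, ROAD P, THICK LINKS, file Tr/LinkGeoE : THE TUBE OF THE THICK LINK `e : u → t`      (helper221, second pen of helper164; prefix `pvlke_`, `Pvlke`, `pvlke`)

WHAT.   The clauses `PvlktHt` of the HALF GLUE, ENTRANCE SIDE (`Tr/GlueWH`, 164 / 205) AT THE TUBE OF RECORD of the thick link `e` from the reference plug `u` (114, `Tr/LinkGam`: centre cell `pvlzC 𝔑 τ`, body = box of half side 8 menu cells,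
        exit door = the cell `(8, 0)` of the EAST side) to the plug `t` of type `τ` at the origin.
LATTICE.   link cells = menu cells cut in `40 × 40` : `pvlkeM o = pvgwDiv 40 _ o` (`o` = the link cell at the corner of the menu cell `(0,0)`).
TUBE.   `pvlkeAx` = the axis `pvlzAx` of 114 WITHOUT its first four cells (columns `cu.1 + 8 .. cu.1 + 11`);   `pvlkeFa = M⁻¹ (N¹ (C 0 ∪ pvlkeAx))`;   first column `Xm = 40 (cu.1 + 11) + o.1`, rows `Y0 = 40 (cu.2 - 1) + o.2 .. Y1 = 40 (cu.2 + 2) - 1 + o.2`.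
        START BOX `[X0, Xm - 1] × [Y0, Y1]`, `X0` FREE in `[40 (cu.1 - 8) + o.1, Xm)` (anywhere in the body of `u` or in front of its east door).
OUTPUT. **`pvlke_Ht`** : `PvlktHt 𝔑 (pvlkeM o) τ (pvlkeFa 𝔑 τ o) X0 (pvlkeXm 𝔑 τ o) (pvlkeY0 𝔑 τ o) (pvlkeY1 𝔑 τ o)` from `PvmnIsType 𝔑 τ`, `PvlzHasAcc 𝔑 τ`.
        `pvlke_Ft_sub` (the unfilled tube over `N⁴ cells 1..9 ∪ N¹ (pvlzE) ∪ body of u`), `pvlke_Ft_box`, `pvlke_hull_box` (everything over the box `pvlzNT`).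
RECORD. sec. 3 : **`pvlke_ht_rec`** = `PvlktHt` AT THE LAYOUT OF RECORD OF 164 (`Tr/LinkLay`: `pvlktPhi o`, `pvlktFaE`, start box `[120,139] × [-14,70]` relative to `u = pvlktU0`), `pvlke_esc_rec` (`pvlktEscE ⊆ pvtOut Ft`), **`pvlke_lane_rec`** (the output of `pvlkt_half_t` there).
ESCAPES.   South row and the cells behind the box: to the WEST along the rows `Y0 - 1 .. Y0 + 1` (to the NORTH along the columns `X0 - 2, X0 - 1` if the entrance ray goes EAST) = the direction `pvlzDw` of 114.      Exit door of `t`: the ray `ρ⁺` of ACC.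
-/

set_option autoImplicit false
set_option linter.unusedSectionVars false
set_option linter.unusedVariables false
set_option linter.unusedSimpArgs false

namespace Claimed.Agent.R289

open Relation Claims.C0467 Claimed.Agent.R291

/-! ## 0. tools -/

/-- link cell ↦ menu cell -/
def pvlkeM (o : ℤ × ℤ) : PvgwMap := pvgwDiv 40 (by norm_num) o

theorem pvlke_ap (o v : ℤ × ℤ) : (pvlkeM o).ap v = ((v.1 - o.1) / 40, (v.2 - o.2) / 40) := rfl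

theorem pvlke_ap_fst (o v : ℤ × ℤ) : ((pvlkeM o).ap v).1 = (v.1 - o.1) / 40 := rfl

theorem pvlke_ap_snd (o v : ℤ × ℤ) : ((pvlkeM o).ap v).2 = (v.2 - o.2) / 40 := rfl

/-- the link cells over a box of menu cells -/
theorem pvlke_pre_box (o : ℤ × ℤ) (a b c d : ℤ) : (pvlkeM o).pre (tscBox a b c d) = tscBox (40 * a + o.1) (40 * b + 39 + o.1) (40 * c + o.2) (40 * d + 39 + o.2) := by
  ext v
  constructor
  · rintro ⟨h1, h2, h3, h4⟩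
    rw [pvlke_ap_fst] at h1 h2
    rw [pvlke_ap_snd] at h3 h4
    exact ⟨by omega, by omega, by omega, by omega⟩
  · rintro ⟨h1, h2, h3, h4⟩
    refine ⟨?_, ?_, ?_, ?_⟩
    · rw [pvlke_ap_fst]; omega
    · rw [pvlke_ap_fst]; omega
    · rw [pvlke_ap_snd]; omega
    · rw [pvlke_ap_snd]; omega

/-- a connected set off `S` which leaves a box containing `S` is joined to infinity off `S` -/
theorem pvlke_out_of {S W : Set (ℤ × ℤ)} {a b c d : ℤ} (hS : S ⊆ tscBox a b c d) (hW : TscConn tscG W) (hd : Disjoint W S) (hw : ∃ w ∈ W, w ∉ tscBox a b c d) : W ⊆ pvtOut S := by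
  obtain ⟨w, hw, hwb⟩ := hw
  intro z hz
  exact pvt_out_R (pvt_out_of_box hS hwb) (tsc_R_mono (fun x hx h => Set.disjoint_left.1 hd hx h) (hW w hw z hz))

theorem pvlke_mem_ray {q a z : ℤ × ℤ} (j : ℤ) (hj : 0 ≤ j) (h1 : z.1 = q.1 + j * a.1) (h2 : z.2 = q.2 + j * a.2) : z ∈ pvlzRay q a :=
  ⟨j.toNat, by rw [Int.toNat_of_nonneg hj]; exact Prod.ext h1 h2⟩

theorem pvlke_ray_tsc {q a : ℤ × ℤ} (ha : PvfjDir a) : TscConn tscG (pvlzRay q a) :=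
  fun u hu v hv => pvtb_R_le (fun _ _ => pvtb_G4_tri) (pvlz_ray_conn ha u hu v hv)

/-! ## 1. the axis beyond the start strip -/

/-- the axis of `e` without its first four cells -/
def pvlkeAx (q a : ℤ × ℤ) (L : ℤ) : Set (ℤ × ℤ) :=
  if a = (-1, 0) then tscBox (q.1 - L + 12) q.1 q.2 q.2
  else if a = (1, 0) then tscBox q.1 (q.1 + L + 24) q.2 q.2 ∪ tscBox (q.1 + L + 24) (q.1 + L + 24) q.2 (q.2 + 24) ∪ tscBox (q.1 + L + 12) (q.1 + L + 24) (q.2 + 24) (q.2 + 24)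
  else if a = (0, 1) then tscBox q.1 q.1 q.2 (q.2 + L) ∪ tscBox (q.1 - 12) q.1 (q.2 + L) (q.2 + L)
  else tscBox q.1 q.1 (q.2 - L) q.2 ∪ tscBox (q.1 - 12) q.1 (q.2 - L) (q.2 - L)

theorem pvlke_eqns_cite : True := by
  have := @pvlkeM.eq_1; have := @pvlkeAx.eq_1
  trivial

section axis

variable {q a : ℤ × ℤ} {L : ℤ}

theorem pvlke_ax_W : pvlkeAx q (-1, 0) L = tscBox (q.1 - L + 12) q.1 q.2 q.2 := by simp [pvlkeAx]
theorem pvlke_ax_E : pvlkeAx q (1, 0) L = tscBox q.1 (q.1 + L + 24) q.2 q.2 ∪ tscBox (q.1 + L + 24) (q.1 + L + 24) q.2 (q.2 + 24) ∪ tscBox (q.1 + L + 12) (q.1 + L + 24) (q.2 + 24) (q.2 + 24) := by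
  simp [pvlkeAx]
theorem pvlke_ax_N : pvlkeAx q (0, 1) L = tscBox q.1 q.1 q.2 (q.2 + L) ∪ tscBox (q.1 - 12) q.1 (q.2 + L) (q.2 + L) := by simp [pvlkeAx]
theorem pvlke_ax_S : pvlkeAx q (0, -1) L = tscBox q.1 q.1 (q.2 - L) q.2 ∪ tscBox (q.1 - 12) q.1 (q.2 - L) (q.2 - L) := by simp [pvlkeAx]

theorem pvlke_ax_sub (ha : PvfjDir a) : pvlkeAx q a L ⊆ pvlzAx q a L := by
  intro x hx
  rcases ha with rfl | rfl | rfl | rfl
  · rw [pvlke_ax_E] at hx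
    rw [pvlz_ax_E]
    rcases hx with (h | h) | ⟨h1, h2, h3, h4⟩
    · exact Or.inl (Or.inl h)
    · exact Or.inl (Or.inr h)
    · exact Or.inr ⟨by omega, h2, h3, h4⟩
  · rw [pvlke_ax_W] at hx
    rw [pvlz_ax_W]
    obtain ⟨h1, h2, h3, h4⟩ := hx
    exact ⟨by omega, h2, h3, h4⟩
  · rw [pvlke_ax_N] at hx
    rw [pvlz_ax_N]
    rcases hx with h | ⟨h1, h2, h3, h4⟩
    · exact Or.inl h
    · exact Or.inr ⟨by omega, h2, h3, h4⟩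
  · rw [pvlke_ax_S] at hx
    rw [pvlz_ax_S]
    rcases hx with h | ⟨h1, h2, h3, h4⟩
    · exact Or.inl h
    · exact Or.inr ⟨by omega, h2, h3, h4⟩

theorem pvlke_ax_tip (ha : PvfjDir a) (hL : 12 ≤ L) : q ∈ pvlkeAx q a L := by
  rcases ha with rfl | rfl | rfl | rfl
  · rw [pvlke_ax_E]; exact Or.inl (Or.inl ⟨le_rfl, by omega, le_rfl, le_rfl⟩)
  · rw [pvlke_ax_W]; exact ⟨by omega, le_rfl, le_rfl, le_rfl⟩
  · rw [pvlke_ax_N]; exact Or.inl ⟨le_rfl, le_rfl, le_rfl, by omega⟩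
  · rw [pvlke_ax_S]; exact Or.inl ⟨le_rfl, le_rfl, by omega, le_rfl⟩

/-- the first cell of the truncated axis -/
theorem pvlke_ax_first (ha : PvfjDir a) (hL : 12 ≤ L) : ((pvlzCu q a L).1 + 12, (pvlzCu q a L).2) ∈ pvlkeAx q a L := by
  rcases ha with rfl | rfl | rfl | rfl
  · rw [pvlke_ax_E, pvlz_cu_E]; exact Or.inr ⟨by simp only; omega, by simp only; omega, by simp only; omega, by simp only; omega⟩
  · rw [pvlke_ax_W, pvlz_cu_W]; exact ⟨by simp only; omega, by simp only; omega, by simp only; omega, by simp only; omega⟩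
  · rw [pvlke_ax_N, pvlz_cu_N]; exact Or.inr ⟨by simp only; omega, by simp only; omega, by simp only; omega, by simp only; omega⟩
  · rw [pvlke_ax_S, pvlz_cu_S]; exact Or.inr ⟨by simp only; omega, by simp only; omega, by simp only; omega, by simp only; omega⟩

theorem pvlke_ax_conn (ha : PvfjDir a) (hL : 12 ≤ L) : TscConn tscG (pvlkeAx q a L) := by
  rcases ha with rfl | rfl | rfl | rfl
  · rw [pvlke_ax_E]
    refine tsc_conn_union (tsc_conn_union (tsc_box_conn _ _ _ _) (tsc_box_conn _ _ _ _) (a := (q.1 + L + 24, q.2)) (b := (q.1 + L + 24, q.2)) ?_ ?_ (Or.inl rfl)) (tsc_box_conn _ _ _ _)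
      (a := (q.1 + L + 24, q.2 + 24)) (b := (q.1 + L + 24, q.2 + 24)) (Or.inr ?_) ?_ (Or.inl rfl)
    all_goals exact ⟨by simp only; omega, by simp only; omega, by simp only; omega, by simp only; omega⟩
  · rw [pvlke_ax_W]; exact tsc_box_conn _ _ _ _
  · rw [pvlke_ax_N]
    refine tsc_conn_union (tsc_box_conn _ _ _ _) (tsc_box_conn _ _ _ _) (a := (q.1, q.2 + L)) (b := (q.1, q.2 + L)) ?_ ?_ (Or.inl rfl)
    all_goals exact ⟨by simp only; omega, by simp only; omega, by simp only; omega, by simp only; omega⟩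
  · rw [pvlke_ax_S]
    refine tsc_conn_union (tsc_box_conn _ _ _ _) (tsc_box_conn _ _ _ _) (a := (q.1, q.2 - L)) (b := (q.1, q.2 - L)) ?_ ?_ (Or.inl rfl)
    all_goals exact ⟨by simp only; omega, by simp only; omega, by simp only; omega, by simp only; omega⟩

/-- **(G1)** a cell of the axis lies on the entrance ray or far from the box of the plug -/
theorem pvlke_ax_or (ha : PvfjDir a) {n : ℕ} (hq : q ∈ pvmnBox n) (hL : 2 * (n : ℤ) + 60 ≤ L) {z : ℤ × ℤ} (hz : z ∈ pvlkeAx q a L) : z ∈ pvlzRay q a ∨ z ∉ pvmnBox (n + 40) := by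
  obtain ⟨q1, q2, q3, q4⟩ := hq
  have far : ∀ P : Prop, (z ∈ pvmnBox (n + 40) → P) → (¬ P) → z ∉ pvmnBox (n + 40) := fun P h1 h2 h3 => h2 (h1 h3)
  rcases ha with rfl | rfl | rfl | rfl
  · rw [pvlke_ax_E] at hz
    rcases hz with (⟨h1, h2, h3, h4⟩ | ⟨h1, h2, h3, h4⟩) | ⟨h1, h2, h3, h4⟩
    · exact Or.inl (pvlke_mem_ray (z.1 - q.1) (by omega) (by simp only; omega) (by simp only; omega))
    · refine Or.inr ?_
      rintro ⟨g1, g2, g3, g4⟩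
      push_cast at g1 g2 g3 g4
      omega
    · refine Or.inr ?_
      rintro ⟨g1, g2, g3, g4⟩
      push_cast at g1 g2 g3 g4
      omega
  · rw [pvlke_ax_W] at hz
    obtain ⟨h1, h2, h3, h4⟩ := hz
    exact Or.inl (pvlke_mem_ray (q.1 - z.1) (by omega) (by simp only; omega) (by simp only; omega))
  · rw [pvlke_ax_N] at hz
    rcases hz with ⟨h1, h2, h3, h4⟩ | ⟨h1, h2, h3, h4⟩
    · exact Or.inl (pvlke_mem_ray (z.2 - q.2) (by omega) (by simp only; omega) (by simp only; omega))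
    · refine Or.inr ?_
      rintro ⟨g1, g2, g3, g4⟩
      push_cast at g1 g2 g3 g4
      omega
  · rw [pvlke_ax_S] at hz
    rcases hz with ⟨h1, h2, h3, h4⟩ | ⟨h1, h2, h3, h4⟩
    · exact Or.inl (pvlke_mem_ray (q.2 - z.2) (by omega) (by simp only; omega) (by simp only; omega))
    · refine Or.inr ?_
      rintro ⟨g1, g2, g3, g4⟩
      push_cast at g1 g2 g3 g4
      omega

/-- **(G2)** west of the column `cu.1 + 11` the tube of the axis is its first column, or (entrance ray to the EAST) the tube of the ray, far to the SOUTH -/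
theorem pvlke_ax_west (ha : PvfjDir a) {x : ℤ × ℤ} (hx : x ∈ pvtwN 1 (pvlkeAx q a L)) (h : x.1 ≤ (pvlzCu q a L).1 + 11) :
    (x.1 = (pvlzCu q a L).1 + 11 ∧ (pvlzCu q a L).2 - 1 ≤ x.2 ∧ x.2 ≤ (pvlzCu q a L).2 + 1) ∨ x.2 ≤ (pvlzCu q a L).2 - 23 := by
  obtain ⟨z, hz, g1, g2, g3, g4⟩ := hx
  push_cast at g1 g2 g3 g4
  rcases ha with rfl | rfl | rfl | rfl
  · rw [pvlke_ax_E] at hz
    rw [pvlz_cu_E] at h ⊢
    simp only at h ⊢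
    rcases hz with (⟨h1, h2, h3, h4⟩ | ⟨h1, h2, h3, h4⟩) | ⟨h1, h2, h3, h4⟩ <;> omega
  · rw [pvlke_ax_W] at hz
    rw [pvlz_cu_W] at h ⊢
    simp only at h ⊢
    obtain ⟨h1, h2, h3, h4⟩ := hz
    omega
  · rw [pvlke_ax_N] at hz
    rw [pvlz_cu_N] at h ⊢
    simp only at h ⊢
    rcases hz with ⟨h1, h2, h3, h4⟩ | ⟨h1, h2, h3, h4⟩ <;> omega
  · rw [pvlke_ax_S] at hz
    rw [pvlz_cu_S] at h ⊢
    simp only at h ⊢
    rcases hz with ⟨h1, h2, h3, h4⟩ | ⟨h1, h2, h3, h4⟩ <;> omega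

/-- **(G3)** the block of `u` and of the start strip is far from the box of the plug -/
theorem pvlke_cu_far (ha : PvfjDir a) {n : ℕ} (hq : q ∈ pvmnBox n) (hL : 2 * (n : ℤ) + 60 ≤ L) {x : ℤ × ℤ} (h1 : (pvlzCu q a L).1 - 9 ≤ x.1) (h2 : x.1 ≤ (pvlzCu q a L).1 + 11)
    (h3 : (pvlzCu q a L).2 - 2 ≤ x.2) (h4 : x.2 ≤ (pvlzCu q a L).2 + 2) : x ∉ pvmnBox (n + 10) := by
  obtain ⟨q1, q2, q3, q4⟩ := hq
  rintro ⟨g1, g2, g3, g4⟩
  push_cast at g1 g2 g3 g4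
  rcases ha with rfl | rfl | rfl | rfl
  · rw [pvlz_cu_E] at h1 h2 h3 h4; simp only at h1 h2 h3 h4; omega
  · rw [pvlz_cu_W] at h1 h2 h3 h4; simp only at h1 h2 h3 h4; omega
  · rw [pvlz_cu_N] at h1 h2 h3 h4; simp only at h1 h2 h3 h4; omega
  · rw [pvlz_cu_S] at h1 h2 h3 h4; simp only at h1 h2 h3 h4; omega

/-- **(G3 W)** the rows of the start strip, to the WEST, are off the box of the plug (entrance ray not to the EAST) -/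
theorem pvlke_west_far (ha : PvfjDir a) (hE : a ≠ (1, 0)) {n : ℕ} (hq : q ∈ pvmnBox n) (hL : 2 * (n : ℤ) + 60 ≤ L) {x : ℤ × ℤ} (h2 : x.1 ≤ (pvlzCu q a L).1 + 11)
    (h3 : (pvlzCu q a L).2 - 2 ≤ x.2) (h4 : x.2 ≤ (pvlzCu q a L).2 + 2) : x ∉ pvmnBox (n + 10) := by
  obtain ⟨q1, q2, q3, q4⟩ := hq
  rintro ⟨g1, g2, g3, g4⟩
  push_cast at g1 g2 g3 g4
  rcases ha with rfl | rfl | rfl | rfl
  · exact hE rfl
  · rw [pvlz_cu_W] at h2 h3 h4; simp only at h2 h3 h4; omega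
  · rw [pvlz_cu_N] at h2 h3 h4; simp only at h2 h3 h4; omega
  · rw [pvlz_cu_S] at h2 h3 h4; simp only at h2 h3 h4; omega

/-- **(G3 E)** the columns of `u` are off the box of the plug (entrance ray to the EAST) -/
theorem pvlke_north_far {n : ℕ} (hq : q ∈ pvmnBox n) (hL : 2 * (n : ℤ) + 60 ≤ L) {x : ℤ × ℤ} (h1 : (pvlzCu q (1, 0) L).1 - 9 ≤ x.1) : x ∉ pvmnBox (n + 10) := by
  obtain ⟨q1, q2, q3, q4⟩ := hq
  rintro ⟨g1, g2, g3, g4⟩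
  push_cast at g1 g2 g3 g4
  rw [pvlz_cu_E] at h1; simp only at h1; omega

/-- **(G4)** the block of `u` and of the start strip lies in the 32-collar of the entrance ray -/
theorem pvlke_cu_ray (ha : PvfjDir a) (hL : 12 ≤ L) {x : ℤ × ℤ} (h1 : (pvlzCu q a L).1 - 8 ≤ x.1) (h2 : x.1 ≤ (pvlzCu q a L).1 + 11)
    (h3 : (pvlzCu q a L).2 - 2 ≤ x.2) (h4 : x.2 ≤ (pvlzCu q a L).2 + 2) : x ∈ pvtwN 32 (pvlzRay q a) := by
  rcases ha with rfl | rfl | rfl | rfl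
  · rw [pvlz_cu_E] at h1 h2 h3 h4; simp only at h1 h2 h3 h4
    exact pvlz_mem_N_ray (x.1 - q.1) (by omega) (by rw [abs_le]; constructor <;> push_cast <;> omega) (by rw [abs_le]; constructor <;> push_cast <;> omega)
  · rw [pvlz_cu_W] at h1 h2 h3 h4; simp only at h1 h2 h3 h4
    exact pvlz_mem_N_ray (q.1 - x.1) (by omega) (by rw [abs_le]; constructor <;> push_cast <;> omega) (by rw [abs_le]; constructor <;> push_cast <;> omega)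
  · rw [pvlz_cu_N] at h1 h2 h3 h4; simp only at h1 h2 h3 h4
    exact pvlz_mem_N_ray (x.2 - q.2) (by omega) (by rw [abs_le]; constructor <;> push_cast <;> omega) (by rw [abs_le]; constructor <;> push_cast <;> omega)
  · rw [pvlz_cu_S] at h1 h2 h3 h4; simp only at h1 h2 h3 h4
    exact pvlz_mem_N_ray (q.2 - x.2) (by omega) (by rw [abs_le]; constructor <;> push_cast <;> omega) (by rw [abs_le]; constructor <;> push_cast <;> omega)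

end axis

/-! ## 2. the tube at the type -/

/-- the axis beyond the start strip, at the type -/
noncomputable def pvlkeA (𝔑 : PvmnNum) (τ : PvmnType) : Set (ℤ × ℤ) := pvlkeAx (τ.q 0) (pvlzAm 𝔑 τ) (pvlzL 𝔑)

/-- the tube of the arc, MENU cells -/
noncomputable def pvlkeT (𝔑 : PvmnNum) (τ : PvmnType) : Set (ℤ × ℤ) := pvtwN 1 ((τ.C 0 : Set (ℤ × ℤ)) ∪ pvlkeA 𝔑 τ)

/-- **the tube of the arc, LINK cells** -/
noncomputable def pvlkeFa (𝔑 : PvmnNum) (τ : PvmnType) (o : ℤ × ℤ) : Set (ℤ × ℤ) := (pvlkeM o).pre (pvlkeT 𝔑 τ)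

/-- the first column of the tube of the arc -/
noncomputable def pvlkeXm (𝔑 : PvmnNum) (τ : PvmnType) (o : ℤ × ℤ) : ℤ := 40 * ((pvlzC 𝔑 τ).1 + 11) + o.1

/-- the south row of the start box -/
noncomputable def pvlkeY0 (𝔑 : PvmnNum) (τ : PvmnType) (o : ℤ × ℤ) : ℤ := 40 * ((pvlzC 𝔑 τ).2 - 1) + o.2

/-- the north row of the start box -/
noncomputable def pvlkeY1 (𝔑 : PvmnNum) (τ : PvmnType) (o : ℤ × ℤ) : ℤ := 40 * ((pvlzC 𝔑 τ).2 + 2) - 1 + o.2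

theorem pvlke_eqns_cite2 : True := by
  have := @pvlkeA.eq_1; have := @pvlkeT.eq_1; have := @pvlkeFa.eq_1; have := @pvlkeXm.eq_1; have := @pvlkeY0.eq_1; have := @pvlkeY1.eq_1
  trivial

section tube

variable {𝔑 : PvmnNum} {τ : PvmnType} {o : ℤ × ℤ} {X0 : ℤ}

theorem pvlke_L12 (𝔑 : PvmnNum) : 12 ≤ pvlzL 𝔑 := by unfold pvlzL; omega

theorem pvlke_L60 (𝔑 : PvmnNum) : 2 * (𝔑.nBx : ℤ) + 60 ≤ pvlzL 𝔑 := le_of_eq rfl

theorem pvlke_T_or {x : ℤ × ℤ} (h : x ∈ pvlkeT 𝔑 τ) : x ∈ pvtwN 1 (τ.C 0 : Set (ℤ × ℤ)) ∨ x ∈ pvtwN 1 (pvlkeA 𝔑 τ) := by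
  unfold pvlkeT at h
  rwa [pvtw_N_union] at h

theorem pvlke_T_conn (hτ : PvmnIsType 𝔑 τ) (hacc : PvlzHasAcc 𝔑 τ) : TscConn tscG (pvlkeT 𝔑 τ) :=
  pvtw_N_conn (tsc_conn_union (hτ.conn 0) (pvlke_ax_conn (pvlz_acc_spec hacc).am_dir (pvlke_L12 𝔑)) (pvfjm_q0_mem hτ) (pvlke_ax_tip (pvlz_acc_spec hacc).am_dir (pvlke_L12 𝔑)) (Or.inl rfl))

/-- the tube of the arc lies in the 1-collar of the axis `pvlzE` of 114 -/
theorem pvlke_T_sub (hacc : PvlzHasAcc 𝔑 τ) : pvlkeT 𝔑 τ ⊆ pvtwN 1 (pvlzE 𝔑 τ) :=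
  pvtw_N_mono le_rfl (Set.union_subset_union_right _ (pvlke_ax_sub (pvlz_acc_spec hacc).am_dir))

theorem pvlke_T_box (hτ : PvmnIsType 𝔑 τ) (hacc : PvlzHasAcc 𝔑 τ) : pvlkeT 𝔑 τ ⊆ pvmnBox (pvlzNT 𝔑) := by
  intro x hx
  rcases pvlke_T_or hx with h | h
  · exact pvmn_box_mono (by unfold pvlzNT; omega) (pvgw_C_box hτ (by omega) h)
  · exact pvlz_ax_box (pvlz_acc_spec hacc).am_dir (pvlz_q0_box hτ) rfl (pvtw_N_mono (by omega) (pvlke_ax_sub (pvlz_acc_spec hacc).am_dir) h)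

theorem pvlke_T_finite (hτ : PvmnIsType 𝔑 τ) (hacc : PvlzHasAcc 𝔑 τ) : (pvlkeT 𝔑 τ).Finite := (pvmn_box_finite _).subset (pvlke_T_box hτ hacc)

/-- the tube of the arc lies in the 30-collar of `ρ⁻ ∪ C 0` -/
theorem pvlke_T_ray (hacc : PvlzHasAcc 𝔑 τ) : pvlkeT 𝔑 τ ⊆ pvtwN 30 (pvlzRay (τ.q 0) (pvlzAm 𝔑 τ) ∪ (τ.C 0 : Set (ℤ × ℤ))) := by
  intro x hx
  rcases pvlke_T_or hx with h | h
  · exact pvtw_N_mono (by omega) Set.subset_union_right h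
  · have h1 := pvtw_N_mono (le_refl 1) ((pvlke_ax_sub (pvlz_acc_spec hacc).am_dir).trans (pvlz_ax_ray (pvlz_acc_spec hacc).am_dir (pvlz_L8 𝔑))) h
    rw [pvtw_N_add] at h1
    exact pvtw_N_mono (by omega) Set.subset_union_left h1

/-- **(off)** near the pieces `1..9` the tube of the arc is the tube of the piece `0` -/
theorem pvlke_T_off (hτ : PvmnIsType 𝔑 τ) (hacc : PvlzHasAcc 𝔑 τ) {x : ℤ × ℤ} (hx : x ∈ pvlkeT 𝔑 τ) (h9 : x ∈ pvtwN 9 (pvmnCells τ 1 9)) : x ∈ pvtwN 1 (τ.C 0 : Set (ℤ × ℤ)) := by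
  have hA := pvlz_acc_spec hacc
  rcases pvlke_T_or hx with h | h
  · exact h
  · exfalso
    obtain ⟨z, hz, g1, g2, g3, g4⟩ := h
    have hz9 : z ∈ pvtwN 10 (pvmnCells τ 1 9) := by
      obtain ⟨c, hc, c1, c2, c3, c4⟩ := h9
      push_cast at g1 g2 g3 g4 c1 c2 c3 c4
      exact ⟨c, hc, by push_cast; omega, by push_cast; omega, by push_cast; omega, by push_cast; omega⟩
    rcases pvlke_ax_or hA.am_dir (pvlz_q0_box hτ) (pvlke_L60 𝔑) hz with h1 | h1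
    · exact Set.disjoint_left.1 hA.rm_cells h1 (pvtw_N_mono (by omega) le_rfl hz9)
    · exact h1 (pvmn_box_mono (by omega) (pvgw_cells_box hτ (le_refl 10) hz9))

/-- a menu cell west of the tube, not far to the south, off the box of the plug: it is off the tube -/
theorem pvlke_free (hτ : PvmnIsType 𝔑 τ) (hacc : PvlzHasAcc 𝔑 τ) {x : ℤ × ℤ} (h1 : x.1 ≤ (pvlzC 𝔑 τ).1 + 11) (h2 : (pvlzC 𝔑 τ).2 - 22 ≤ x.2)
    (h3 : ¬ (x.1 = (pvlzC 𝔑 τ).1 + 11 ∧ (pvlzC 𝔑 τ).2 - 1 ≤ x.2 ∧ x.2 ≤ (pvlzC 𝔑 τ).2 + 1)) (h4 : x ∉ pvmnBox (𝔑.nBx + 10)) :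
    x ∉ pvlkeT 𝔑 τ ∧ x ∉ pvtwN 4 (pvmnCells τ 1 9) := by
  refine ⟨fun h => ?_, fun h => h4 (pvgw_cells_box hτ (by omega) h)⟩
  rcases pvlke_T_or h with h | h
  · exact h4 (pvgw_C_box hτ (by omega) h)
  · rcases pvlke_ax_west (pvlz_acc_spec hacc).am_dir h h1 with h5 | h5
    · exact h3 h5
    · have : (pvlzCu (τ.q 0) (pvlzAm 𝔑 τ) (pvlzL 𝔑)).2 = (pvlzC 𝔑 τ).2 := rfl
      omega

/-- the unfilled tube of `e` lies over the box `pvlzNT` -/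
theorem pvlke_Ft_box (hτ : PvmnIsType 𝔑 τ) (hacc : PvlzHasAcc 𝔑 τ) (h0 : 40 * ((pvlzC 𝔑 τ).1 - 8) + o.1 ≤ X0) :
    pvlktFt (pvlkeM o) τ (pvlkeFa 𝔑 τ o) X0 (pvlkeXm 𝔑 τ o) (pvlkeY0 𝔑 τ o) (pvlkeY1 𝔑 τ o) ⊆ (pvlkeM o).pre (pvmnBox (pvlzNT 𝔑)) := by
  obtain ⟨c1, c2, c3, c4⟩ := pvlz_cu_box (pvlz_acc_spec hacc).am_dir (pvlz_q0_box hτ) (rfl : pvlzL 𝔑 = _)
  have e1 : (pvlzCu (τ.q 0) (pvlzAm 𝔑 τ) (pvlzL 𝔑)).1 = (pvlzC 𝔑 τ).1 := rfl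
  have e2 : (pvlzCu (τ.q 0) (pvlzAm 𝔑 τ) (pvlzL 𝔑)).2 = (pvlzC 𝔑 τ).2 := rfl
  rw [e1] at c1 c2
  rw [e2] at c3 c4
  push_cast at c1 c2 c3 c4
  rintro v ((⟨h1, h2, h3, h4⟩ | h) | h)
  · unfold pvlkeXm at h2
    unfold pvlkeY0 at h3
    unfold pvlkeY1 at h4
    show (pvlkeM o).ap v ∈ pvmnBox (pvlzNT 𝔑)
    unfold pvmnBox pvlzNT
    refine ⟨?_, ?_, ?_, ?_⟩
    · rw [pvlke_ap_fst]; push_cast; omega
    · rw [pvlke_ap_fst]; push_cast; omega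
    · rw [pvlke_ap_snd]; push_cast; omega
    · rw [pvlke_ap_snd]; push_cast; omega
  · exact pvlke_T_box hτ hacc h
  · exact pvmn_box_mono (by unfold pvlzNT; omega) (pvgw_cells_box hτ (by omega) h)

/-- a link cell off the start box whose menu cell is free is off the unfilled tube -/
theorem pvlke_notin_Ft {v : ℤ × ℤ} (hv : v ∉ tscBox X0 (pvlkeXm 𝔑 τ o - 1) (pvlkeY0 𝔑 τ o) (pvlkeY1 𝔑 τ o))
    (h : (pvlkeM o).ap v ∉ pvlkeT 𝔑 τ ∧ (pvlkeM o).ap v ∉ pvtwN 4 (pvmnCells τ 1 9)) :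
    v ∉ pvlktFt (pvlkeM o) τ (pvlkeFa 𝔑 τ o) X0 (pvlkeXm 𝔑 τ o) (pvlkeY0 𝔑 τ o) (pvlkeY1 𝔑 τ o) := by
  rintro ((h1 | h1) | h1)
  · exact hv h1
  · exact h.1 h1
  · exact h.2 h1

/-- `pvlke_free` in link cells -/
theorem pvlke_free_link (hτ : PvmnIsType 𝔑 τ) (hacc : PvlzHasAcc 𝔑 τ) {v : ℤ × ℤ} (h1 : v.1 ≤ pvlkeXm 𝔑 τ o) (h2 : pvlkeY0 𝔑 τ o - 1 ≤ v.2)
    (h3 : v.1 < pvlkeXm 𝔑 τ o ∨ v.2 < pvlkeY0 𝔑 τ o) (h4 : (pvlkeM o).ap v ∉ pvmnBox (𝔑.nBx + 10)) :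
    (pvlkeM o).ap v ∉ pvlkeT 𝔑 τ ∧ (pvlkeM o).ap v ∉ pvtwN 4 (pvmnCells τ 1 9) := by
  unfold pvlkeXm at h1 h3
  unfold pvlkeY0 at h2 h3
  refine pvlke_free hτ hacc ?_ ?_ ?_ h4
  · rw [pvlke_ap_fst]; omega
  · rw [pvlke_ap_snd]; omega
  · rw [pvlke_ap_fst, pvlke_ap_snd]; omega

theorem pvlke_north_far' {q a : ℤ × ℤ} {L : ℤ} (hE : a = (1, 0)) {n : ℕ} (hq : q ∈ pvmnBox n) (hL : 2 * (n : ℤ) + 60 ≤ L) {x : ℤ × ℤ} (h1 : (pvlzCu q a L).1 - 9 ≤ x.1) : x ∉ pvmnBox (n + 10) := by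
  subst hE
  exact pvlke_north_far hq hL h1

open Classical in
/-- **the escape of the south row and of the cells behind the start box** -/
noncomputable def pvlkeEs (𝔑 : PvmnNum) (τ : PvmnType) (o : ℤ × ℤ) (X0 : ℤ) : Set (ℤ × ℤ) :=
  tscBox (X0 - 2) (pvlkeXm 𝔑 τ o) (pvlkeY0 𝔑 τ o - 1) (pvlkeY0 𝔑 τ o - 1) ∪
    (if pvlzAm 𝔑 τ = (1, 0) then tscBox (X0 - 2) (X0 - 1) (pvlkeY0 𝔑 τ o - 1) (40 * ((pvlzNT 𝔑 : ℤ) + 1) + o.2)
      else tscBox (40 * (-(pvlzNT 𝔑 : ℤ) - 1) + o.1) (X0 - 1) (pvlkeY0 𝔑 τ o - 1) (pvlkeY0 𝔑 τ o + 1))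

theorem pvlke_eqns_cite3 : True := by
  have := @pvlkeEs.eq_1
  trivial

/-- **the escape is joined to infinity off the tube** -/
theorem pvlke_Es_out (hτ : PvmnIsType 𝔑 τ) (hacc : PvlzHasAcc 𝔑 τ) (h0 : 40 * ((pvlzC 𝔑 τ).1 - 8) + o.1 ≤ X0) (h1 : X0 < pvlkeXm 𝔑 τ o) :
    pvlkeEs 𝔑 τ o X0 ⊆ pvtOut (pvlktFt (pvlkeM o) τ (pvlkeFa 𝔑 τ o) X0 (pvlkeXm 𝔑 τ o) (pvlkeY0 𝔑 τ o) (pvlkeY1 𝔑 τ o)) := by
  have hA := pvlz_acc_spec hacc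
  have hq := pvlz_q0_box hτ
  have hb := pvlke_Ft_box (o := o) hτ hacc h0
  unfold pvmnBox at hb
  rw [pvlke_pre_box] at hb
  obtain ⟨c1, c2, c3, c4⟩ := pvlz_cu_box hA.am_dir hq (rfl : pvlzL 𝔑 = _)
  have e1 : (pvlzCu (τ.q 0) (pvlzAm 𝔑 τ) (pvlzL 𝔑)).1 = (pvlzC 𝔑 τ).1 := rfl
  have e2 : (pvlzCu (τ.q 0) (pvlzAm 𝔑 τ) (pvlzL 𝔑)).2 = (pvlzC 𝔑 τ).2 := rfl
  rw [e1] at c1 c2
  rw [e2] at c3 c4
  push_cast at c1 c2 c3 c4
  have hNT : ((pvlzNT 𝔑 : ℕ) : ℤ) = 3 * (𝔑.nBx : ℤ) + 100 := by unfold pvlzNT; push_cast; ring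
  have hXm : pvlkeXm 𝔑 τ o = 40 * ((pvlzC 𝔑 τ).1 + 11) + o.1 := rfl
  have hY0 : pvlkeY0 𝔑 τ o = 40 * ((pvlzC 𝔑 τ).2 - 1) + o.2 := rfl
  have hY1 : pvlkeY1 𝔑 τ o = 40 * ((pvlzC 𝔑 τ).2 + 2) - 1 + o.2 := rfl
  by_cases hE : pvlzAm 𝔑 τ = (1, 0)
  · -- to the NORTH
    have far : ∀ v : ℤ × ℤ, X0 - 2 ≤ v.1 → (pvlkeM o).ap v ∉ pvmnBox (𝔑.nBx + 10) := by
      intro v hv
      refine pvlke_north_far' hE hq (pvlke_L60 𝔑) ?_
      rw [e1, pvlke_ap_fst]; omega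
    unfold pvlkeEs
    rw [if_pos hE]
    refine pvlke_out_of hb (tsc_conn_union (tsc_box_conn _ _ _ _) (tsc_box_conn _ _ _ _) (a := (X0 - 2, pvlkeY0 𝔑 τ o - 1)) (b := (X0 - 2, pvlkeY0 𝔑 τ o - 1)) ?_ ?_ (Or.inl rfl)) ?_ ?_
    · exact ⟨by simp only; omega, by simp only; omega, by simp only; omega, by simp only; omega⟩
    · exact ⟨by simp only; omega, by simp only; omega, by simp only; omega, by simp only; omega⟩
    · rw [Set.disjoint_left]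
      rintro v (⟨g1, g2, g3, g4⟩ | ⟨g1, g2, g3, g4⟩)
      · exact pvlke_notin_Ft (fun h => by have := h.2.2.1; omega) (pvlke_free_link hτ hacc g2 g3 (Or.inr (by omega)) (far v g1))
      · exact pvlke_notin_Ft (fun h => by have := h.1; omega) (pvlke_free_link hτ hacc (by omega) g3 (Or.inl (by omega)) (far v g1))
    · refine ⟨(X0 - 2, 40 * ((pvlzNT 𝔑 : ℤ) + 1) + o.2), Or.inr ⟨by simp only; omega, by simp only; omega, by simp only; omega, by simp only; omega⟩, ?_⟩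
      rintro ⟨g1, g2, g3, g4⟩
      simp only at g1 g2 g3 g4
      omega
  · -- to the WEST
    have far : ∀ v : ℤ × ℤ, v.1 ≤ pvlkeXm 𝔑 τ o → pvlkeY0 𝔑 τ o - 1 ≤ v.2 → v.2 ≤ pvlkeY0 𝔑 τ o + 1 → (pvlkeM o).ap v ∉ pvmnBox (𝔑.nBx + 10) := by
      intro v v1 v2 v3
      refine pvlke_west_far hA.am_dir hE hq (pvlke_L60 𝔑) ?_ ?_ ?_
      · rw [e1, pvlke_ap_fst]; omega
      · rw [e2, pvlke_ap_snd]; omega
      · rw [e2, pvlke_ap_snd]; omega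
    unfold pvlkeEs
    rw [if_neg hE]
    refine pvlke_out_of hb (tsc_conn_union (tsc_box_conn _ _ _ _) (tsc_box_conn _ _ _ _) (a := (X0 - 2, pvlkeY0 𝔑 τ o - 1)) (b := (X0 - 2, pvlkeY0 𝔑 τ o - 1)) ?_ ?_ (Or.inl rfl)) ?_ ?_
    · exact ⟨by simp only; omega, by simp only; omega, by simp only; omega, by simp only; omega⟩
    · exact ⟨by simp only; omega, by simp only; omega, by simp only; omega, by simp only; omega⟩
    · rw [Set.disjoint_left]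
      rintro v (⟨g1, g2, g3, g4⟩ | ⟨g1, g2, g3, g4⟩)
      · exact pvlke_notin_Ft (fun h => by have := h.2.2.1; omega) (pvlke_free_link hτ hacc g2 g3 (Or.inr (by omega)) (far v g2 g3 (by omega)))
      · exact pvlke_notin_Ft (fun h => by have := h.1; omega) (pvlke_free_link hτ hacc (by omega) g3 (Or.inl (by omega)) (far v (by omega) g3 g4))
    · refine ⟨(40 * (-(pvlzNT 𝔑 : ℤ) - 1) + o.1, pvlkeY0 𝔑 τ o - 1), Or.inr ⟨by simp only; omega, by simp only; omega, by simp only; omega, by simp only; omega⟩, ?_⟩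
      rintro ⟨g1, g2, g3, g4⟩
      simp only at g1 g2 g3 g4
      omega

/-- **the witness at the exit door of the plug**: the ray `ρ⁺` of ACC -/
theorem pvlke_wit (hτ : PvmnIsType 𝔑 τ) (hacc : PvlzHasAcc 𝔑 τ) (h0 : 40 * ((pvlzC 𝔑 τ).1 - 8) + o.1 ≤ X0) :
    ∃ x ∈ pvtrBd (pvmnK3 τ), x.2 ∈ pvmnDrp τ ∧ ∃ v ∈ pvtOut (pvlktFt (pvlkeM o) τ (pvlkeFa 𝔑 τ o) X0 (pvlkeXm 𝔑 τ o) (pvlkeY0 𝔑 τ o) (pvlkeY1 𝔑 τ o)), (pvlkeM o).ap v = x.2 := by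
  have hA := pvlz_acc_spec hacc
  have hQ : TscConn tscG ((pvlkeM o).pre (pvlzRay (τ.q 10) (pvlzAp 𝔑 τ))) := pvgw_pre_conn _ (pvlke_ray_tsc hA.ap_dir)
  have e1 : (pvlzCu (τ.q 0) (pvlzAm 𝔑 τ) (pvlzL 𝔑)).1 = (pvlzC 𝔑 τ).1 := rfl
  have e2 : (pvlzCu (τ.q 0) (pvlzAm 𝔑 τ) (pvlzL 𝔑)).2 = (pvlzC 𝔑 τ).2 := rfl
  obtain ⟨x, hx, v, hvQ, hv, hvx⟩ := pvgw_wit_aux (pvlkeM o) (K := pvmnK3 τ)
    (F := pvlktFt (pvlkeM o) τ (pvlkeFa 𝔑 τ o) X0 (pvlkeXm 𝔑 τ o) (pvlkeY0 𝔑 τ o) (pvlkeY1 𝔑 τ o)) hQ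
    (by
      obtain ⟨v, hv⟩ := pvgw_pre_nonempty (pvlkeM o) (Set.singleton_nonempty (τ.q 10))
      have hv' : (pvlkeM o).ap v = τ.q 10 := hv
      refine ⟨v, ?_, ?_⟩
      · show (pvlkeM o).ap v ∈ pvlzRay (τ.q 10) (pvlzAp 𝔑 τ)
        rw [hv']; exact pvlz_ray_start _ _
      · rw [hv']
        exact pvt_hull_sub (pvtw_N_sub (pvmn_C_sub 9 (by decide) (by decide) (pvfjm_q10_mem hτ))))
    (by
      obtain ⟨w, hw, hwb⟩ := pvlz_ray_out (q := τ.q 10) hA.ap_dir (pvlzNT 𝔑)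
      obtain ⟨v, hv⟩ := pvgw_pre_nonempty (pvlkeM o) (Set.singleton_nonempty w)
      have hv' : (pvlkeM o).ap v = w := hv
      refine ⟨v, ?_, ?_, ?_⟩
      · show (pvlkeM o).ap v ∈ pvlzRay (τ.q 10) (pvlzAp 𝔑 τ)
        rw [hv']; exact hw
      · have hb := pvlke_Ft_box (o := o) hτ hacc h0
        have hvb : v ∉ (pvlkeM o).pre (pvmnBox (pvlzNT 𝔑)) := fun h => hwb (hv' ▸ h)
        unfold pvmnBox at hb hvb
        rw [pvlke_pre_box] at hb hvb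
        exact pvt_out_of_box hb hvb
      · rw [hv']
        exact fun h => hwb (pvmn_box_mono (by unfold pvlzNT; omega) (pvmn_K3_box hτ h)))
    (by
      rintro v hv ((⟨g1, g2, g3, g4⟩ | h) | h)
      · exfalso
        unfold pvlkeXm at g2
        unfold pvlkeY0 at g3
        unfold pvlkeY1 at g4
        refine pvlz_sep_use hA (pvtw_N_sub (Or.inl hv)) (pvlke_cu_ray hA.am_dir (pvlke_L12 𝔑) ?_ ?_ ?_ ?_)
        · rw [e1, pvlke_ap_fst]; omega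
        · rw [e1, pvlke_ap_fst]; omega
        · rw [e2, pvlke_ap_snd]; omega
        · rw [e2, pvlke_ap_snd]; omega
      · exact (Set.disjoint_left.1 hA.sep (pvtw_N_sub (Or.inl hv)) (pvlke_T_ray hacc h)).elim
      · exact pvgw_Pt_K3 h)
  refine ⟨x, hx, ?_, v, hv, hvx⟩
  obtain ⟨k, _, k2, hk⟩ := pvmn_N_cells.1 (pvmn_K3_dart hx).2
  rcases Nat.lt_or_ge k.1 9 with h | h
  · exfalso
    have hvQ' : (pvlkeM o).ap v ∈ pvlzRay (τ.q 10) (pvlzAp 𝔑 τ) := hvQ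
    rw [hvx] at hvQ'
    exact Set.disjoint_left.1 hA.rp_cells hvQ' (pvtw_N_mono (by omega) le_rfl (pvmn_N_cells.2 ⟨k, by omega, by omega, hk⟩))
  · have : k = 9 := Fin.ext (by change k.1 = 9; omega)
    subst this
    exact pvtw_N_mono (by omega) le_rfl hk

/-- **THE CLAUSES OF THE HALF GLUE, ENTRANCE SIDE, AT THE TUBE OF THE THICK LINK `e : u → t`** -/
theorem pvlke_Ht (hτ : PvmnIsType 𝔑 τ) (hacc : PvlzHasAcc 𝔑 τ) (h0 : 40 * ((pvlzC 𝔑 τ).1 - 8) + o.1 ≤ X0) (h1 : X0 < pvlkeXm 𝔑 τ o) :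
    PvlktHt 𝔑 (pvlkeM o) τ (pvlkeFa 𝔑 τ o) X0 (pvlkeXm 𝔑 τ o) (pvlkeY0 𝔑 τ o) (pvlkeY1 𝔑 τ o) := by
  have hA := pvlz_acc_spec hacc
  have hq := pvlz_q0_box hτ
  have e1 : (pvlzCu (τ.q 0) (pvlzAm 𝔑 τ) (pvlzL 𝔑)).1 = (pvlzC 𝔑 τ).1 := rfl
  have e2 : (pvlzCu (τ.q 0) (pvlzAm 𝔑 τ) (pvlzL 𝔑)).2 = (pvlzC 𝔑 τ).2 := rfl
  have hXm : pvlkeXm 𝔑 τ o = 40 * ((pvlzC 𝔑 τ).1 + 11) + o.1 := rfl
  have hY0 : pvlkeY0 𝔑 τ o = 40 * ((pvlzC 𝔑 τ).2 - 1) + o.2 := rfl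
  have hY1 : pvlkeY1 𝔑 τ o = 40 * ((pvlzC 𝔑 τ).2 + 2) - 1 + o.2 := rfl
  have far : ∀ v : ℤ × ℤ, X0 - 2 ≤ v.1 → v.1 ≤ pvlkeXm 𝔑 τ o + 2 → pvlkeY0 𝔑 τ o - 2 ≤ v.2 → v.2 ≤ pvlkeY1 𝔑 τ o + 2 → (pvlkeM o).ap v ∉ pvmnBox (𝔑.nBx + 10) := by
    intro v v1 v2 v3 v4
    refine pvlke_cu_far hA.am_dir hq (pvlke_L60 𝔑) ?_ ?_ ?_ ?_
    · rw [e1, pvlke_ap_fst]; omega
    · rw [e1, pvlke_ap_fst]; omega
    · rw [e2, pvlke_ap_snd]; omega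
    · rw [e2, pvlke_ap_snd]; omega
  refine ⟨hτ, pvgw_pre_finite _ (pvlke_T_finite hτ hacc), pvgw_pre_conn _ (pvlke_T_conn hτ hacc), ?_, fun v hv h => pvlke_T_off hτ hacc hv h, h1, by omega, ?_, ?_, ?_, ?_, pvlke_wit hτ hacc h0⟩
  · -- touch
    obtain ⟨v, hv⟩ := pvgw_pre_nonempty (pvlkeM o) (Set.singleton_nonempty (τ.q 1))
    have hv' : (pvlkeM o).ap v = τ.q 1 := hv
    refine ⟨v, ?_, ?_⟩
    · show (pvlkeM o).ap v ∈ pvlkeT 𝔑 τ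
      rw [hv']; exact pvtw_N_sub (Or.inl (pvfjm_q1_mem0 hτ))
    · rw [hv']; exact pvtw_N_sub (pvfjm_q1_mem1 hτ)
  · -- first
    show (pvlkeM o).ap (pvlkeXm 𝔑 τ o, pvlkeY0 𝔑 τ o) ∈ pvlkeT 𝔑 τ
    refine ⟨_, Or.inr (pvlke_ax_first hA.am_dir (pvlke_L12 𝔑)), ?_, ?_, ?_, ?_⟩
    · rw [e1, pvlke_ap_fst]; push_cast; omega
    · rw [e1, pvlke_ap_fst]; push_cast; omega
    · rw [e2, pvlke_ap_snd]; push_cast; omega
    · rw [e2, pvlke_ap_snd]; push_cast; omega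
  · -- box_Fa
    rw [Set.disjoint_left]
    rintro v ⟨g1, g2, g3, g4⟩ hv
    exact (pvlke_free_link hτ hacc (by omega) (by omega) (Or.inl (by omega)) (far v (by omega) (by omega) (by omega) (by omega))).1 hv
  · -- box_far
    rintro v ⟨z, ⟨z1, z2, z3, z4⟩, g1, g2, g3, g4⟩
    push_cast at g1 g2 g3 g4
    exact far v (by omega) (by omega) (by omega) (by omega)
  · -- out
    intro v v1 v2 v3 v4 hv
    refine pvlke_Es_out hτ hacc h0 h1 ?_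
    by_cases hrow : v.2 = pvlkeY0 𝔑 τ o - 1
    · exact Or.inl ⟨v1, v2, by omega, by omega⟩
    · have hcol : v.1 < X0 := by
        by_contra hc
        exact hv ⟨by omega, v2, by omega, by omega⟩
      right
      split_ifs
      · exact ⟨v1, by omega, v3, by
          obtain ⟨c1, c2, c3, c4⟩ := pvlz_cu_box hA.am_dir hq (rfl : pvlzL 𝔑 = _)
          rw [e2] at c3 c4
          have hNT : ((pvlzNT 𝔑 : ℕ) : ℤ) = 3 * (𝔑.nBx : ℤ) + 100 := by unfold pvlzNT; push_cast; ring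
          push_cast at c3 c4
          omega⟩
      · exact ⟨by
          obtain ⟨c1, c2, c3, c4⟩ := pvlz_cu_box hA.am_dir hq (rfl : pvlzL 𝔑 = _)
          rw [e1] at c1 c2
          have hNT : ((pvlzNT 𝔑 : ℕ) : ℤ) = 3 * (𝔑.nBx : ℤ) + 100 := by unfold pvlzNT; push_cast; ring
          push_cast at c1 c2
          omega, by omega, v3, v4⟩

/-- the first seventeen cells of the axis of 114 -/
theorem pvlke_ax_head {q a : ℤ × ℤ} {L : ℤ} (ha : PvfjDir a) (hL : 24 ≤ L) {s : ℤ} (h8 : 8 ≤ s) (h24 : s ≤ 24) : ((pvlzCu q a L).1 + s, (pvlzCu q a L).2) ∈ pvlzAx q a L := by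
  rcases ha with rfl | rfl | rfl | rfl
  · rw [pvlz_ax_E, pvlz_cu_E]; exact Or.inr ⟨by simp only; omega, by simp only; omega, by simp only; omega, by simp only; omega⟩
  · rw [pvlz_ax_W, pvlz_cu_W]; exact ⟨by simp only; omega, by simp only; omega, by simp only; omega, by simp only; omega⟩
  · rw [pvlz_ax_N, pvlz_cu_N]; exact Or.inr ⟨by simp only; omega, by simp only; omega, by simp only; omega, by simp only; omega⟩
  · rw [pvlz_ax_S, pvlz_cu_S]; exact Or.inr ⟨by simp only; omega, by simp only; omega, by simp only; omega, by simp only; omega⟩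

/-- **the unfilled tube of `e`**: over the 4-tube of the pieces `1..9`, the 1-collar of the axis `pvlzE` of 114 and the body of `u` -/
theorem pvlke_Ft_sub (hacc : PvlzHasAcc 𝔑 τ) (h0 : 40 * ((pvlzC 𝔑 τ).1 - 8) + o.1 ≤ X0) :
    pvlktFt (pvlkeM o) τ (pvlkeFa 𝔑 τ o) X0 (pvlkeXm 𝔑 τ o) (pvlkeY0 𝔑 τ o) (pvlkeY1 𝔑 τ o) ⊆
      (pvlkeM o).pre (pvtwN 4 (pvmnCells τ 1 9) ∪ pvtwN 1 (pvlzE 𝔑 τ) ∪ pvfjSh (pvlzC 𝔑 τ) (pvmnBox 8)) := by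
  have hA := pvlz_acc_spec hacc
  have e1 : (pvlzCu (τ.q 0) (pvlzAm 𝔑 τ) (pvlzL 𝔑)).1 = (pvlzC 𝔑 τ).1 := rfl
  have e2 : (pvlzCu (τ.q 0) (pvlzAm 𝔑 τ) (pvlzL 𝔑)).2 = (pvlzC 𝔑 τ).2 := rfl
  rintro v ((⟨h1, h2, h3, h4⟩ | h) | h)
  · unfold pvlkeXm at h2
    unfold pvlkeY0 at h3
    unfold pvlkeY1 at h4
    by_cases hc : ((pvlkeM o).ap v).1 ≤ (pvlzC 𝔑 τ).1 + 8
    · refine Or.inr ⟨(pvlkeM o).ap v - pvlzC 𝔑 τ, ⟨?_, ?_, ?_, ?_⟩, by simp⟩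
      · rw [Prod.fst_sub, pvlke_ap_fst]; push_cast; omega
      · rw [Prod.fst_sub]; push_cast; omega
      · rw [Prod.snd_sub, pvlke_ap_snd]; push_cast; omega
      · rw [Prod.snd_sub, pvlke_ap_snd]; push_cast; omega
    · refine Or.inl (Or.inr ⟨_, Or.inr (pvlke_ax_head hA.am_dir (by unfold pvlzL; omega) (s := ((pvlkeM o).ap v).1 - (pvlzC 𝔑 τ).1) (by omega) ?_), ?_, ?_, ?_, ?_⟩)
      · rw [pvlke_ap_fst]; omega
      · rw [e1]; push_cast; omega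
      · rw [e1]; push_cast; omega
      · rw [e2, pvlke_ap_snd]; push_cast; omega
      · rw [e2, pvlke_ap_snd]; push_cast; omega
  · exact Or.inl (Or.inr (pvlke_T_sub hacc h))
  · exact Or.inl (Or.inl h)

/-- the tube of `e` (filled) lies over the box `pvlzNT` -/
theorem pvlke_hull_box (hτ : PvmnIsType 𝔑 τ) (hacc : PvlzHasAcc 𝔑 τ) (h0 : 40 * ((pvlzC 𝔑 τ).1 - 8) + o.1 ≤ X0) :
    pvtHull (pvlktFt (pvlkeM o) τ (pvlkeFa 𝔑 τ o) X0 (pvlkeXm 𝔑 τ o) (pvlkeY0 𝔑 τ o) (pvlkeY1 𝔑 τ o)) ⊆ (pvlkeM o).pre (pvmnBox (pvlzNT 𝔑)) := by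
  have hb := pvlke_Ft_box (o := o) hτ hacc h0
  unfold pvmnBox at hb ⊢
  rw [pvlke_pre_box] at hb ⊢
  exact pvt_hull_box hb

/-- **THE WHITE LANE OF `e`** (`pvlkt_half_t` of 205 at the tube of record) -/
theorem pvlke_lane (hτ : PvmnIsType 𝔑 τ) (hacc : PvlzHasAcc 𝔑 τ) (h0 : 40 * ((pvlzC 𝔑 τ).1 - 8) + o.1 ≤ X0) (h1 : X0 < pvlkeXm 𝔑 τ o) {ln : ((ℤ × ℤ) × (ℤ × ℤ)) × ℕ} (hl : PvmnLaneR τ ln.1 ln.2) :
    ∃ S : Set (ℤ × ℤ), S.Finite ∧ TscConn tscG S ∧ Disjoint S (pvtHull (pvlktFt (pvlkeM o) τ (pvlkeFa 𝔑 τ o) X0 (pvlkeXm 𝔑 τ o) (pvlkeY0 𝔑 τ o) (pvlkeY1 𝔑 τ o))) ∧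
      (pvlkeXm 𝔑 τ o, pvlkeY0 𝔑 τ o - 1) ∈ S ∧ (∃ v ∈ S, (pvlkeM o).ap v = pvlpA0 τ ln) ∧ S ⊆ (pvlkeM o).pre (pvtwN 2 (pvlzE 𝔑 τ) ∪ pvtwN 5 (pvmnCells τ 1 2)) := by
  obtain ⟨S, s1, s2, s3, s4, s5, s6⟩ := pvlkt_half_t (pvlke_Ht hτ hacc h0 h1) hl
  refine ⟨S, s1, s2, s3, s4, s5, ?_⟩
  intro w hw
  obtain ⟨b, hbw, hb | hb⟩ := s6 w hw
  · exact Or.inl (by
      have := pvgw_N_adj (pvlke_T_sub hacc hb) (pvgw_adj (pvlkeM o) hbw)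
      exact this)
  · exact Or.inr (by
      have := pvgw_N_adj (k := 4) hb (pvgw_adj (pvlkeM o) hbw)
      exact this)

end tube

/-! ## 3. the clauses at the layout of record of 164 (`Tr/LinkLay`) -/

section axz

variable {q a : ℤ × ℤ} {L : ℤ}

/-- **(G1')** a cell of the axis of 114 lies on the entrance ray or far from the box of the plug -/
theorem pvlke_axz_or (ha : PvfjDir a) {n : ℕ} (hq : q ∈ pvmnBox n) (hL : 2 * (n : ℤ) + 60 ≤ L) {z : ℤ × ℤ} (hz : z ∈ pvlzAx q a L) : z ∈ pvlzRay q a ∨ z ∉ pvmnBox (n + 40) := by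
  obtain ⟨q1, q2, q3, q4⟩ := hq
  rcases ha with rfl | rfl | rfl | rfl
  · rw [pvlz_ax_E] at hz
    rcases hz with (⟨h1, h2, h3, h4⟩ | ⟨h1, h2, h3, h4⟩) | ⟨h1, h2, h3, h4⟩
    · exact Or.inl (pvlke_mem_ray (z.1 - q.1) (by omega) (by simp only; omega) (by simp only; omega))
    · refine Or.inr ?_
      rintro ⟨g1, g2, g3, g4⟩
      push_cast at g1 g2 g3 g4
      omega
    · refine Or.inr ?_
      rintro ⟨g1, g2, g3, g4⟩
      push_cast at g1 g2 g3 g4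
      omega
  · rw [pvlz_ax_W] at hz
    obtain ⟨h1, h2, h3, h4⟩ := hz
    exact Or.inl (pvlke_mem_ray (q.1 - z.1) (by omega) (by simp only; omega) (by simp only; omega))
  · rw [pvlz_ax_N] at hz
    rcases hz with ⟨h1, h2, h3, h4⟩ | ⟨h1, h2, h3, h4⟩
    · exact Or.inl (pvlke_mem_ray (z.2 - q.2) (by omega) (by simp only; omega) (by simp only; omega))
    · refine Or.inr ?_
      rintro ⟨g1, g2, g3, g4⟩
      push_cast at g1 g2 g3 g4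
      omega
  · rw [pvlz_ax_S] at hz
    rcases hz with ⟨h1, h2, h3, h4⟩ | ⟨h1, h2, h3, h4⟩
    · exact Or.inl (pvlke_mem_ray (q.2 - z.2) (by omega) (by simp only; omega) (by simp only; omega))
    · refine Or.inr ?_
      rintro ⟨g1, g2, g3, g4⟩
      push_cast at g1 g2 g3 g4
      omega

/-- **(G2')** west of the east door of `u` the axis of 114 is (entrance ray to the EAST) the ray, 24 cells to the SOUTH -/
theorem pvlke_axz_west (ha : PvfjDir a) {z : ℤ × ℤ} (hz : z ∈ pvlzAx q a L) (h : z.1 ≤ (pvlzCu q a L).1 + 7) : z.2 ≤ (pvlzCu q a L).2 - 24 := by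
  rcases ha with rfl | rfl | rfl | rfl
  · rw [pvlz_ax_E] at hz
    rw [pvlz_cu_E] at h ⊢
    simp only at h ⊢
    rcases hz with (⟨h1, h2, h3, h4⟩ | ⟨h1, h2, h3, h4⟩) | ⟨h1, h2, h3, h4⟩ <;> omega
  · rw [pvlz_ax_W] at hz
    rw [pvlz_cu_W] at h ⊢
    simp only at h ⊢
    obtain ⟨h1, h2, h3, h4⟩ := hz
    omega
  · rw [pvlz_ax_N] at hz
    rw [pvlz_cu_N] at h ⊢
    simp only at h ⊢
    rcases hz with ⟨h1, h2, h3, h4⟩ | ⟨h1, h2, h3, h4⟩ <;> omega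
  · rw [pvlz_ax_S] at hz
    rw [pvlz_cu_S] at h ⊢
    simp only at h ⊢
    rcases hz with ⟨h1, h2, h3, h4⟩ | ⟨h1, h2, h3, h4⟩ <;> omega

end axz

section rec

variable {𝔑 : PvmnNum} {τ : PvmnType} {o : ℤ × ℤ}

theorem pvlke_phi (o : ℤ × ℤ) : pvlktPhi o = pvlkeM o := rfl

theorem pvlke_u_fst (𝔑 : PvmnNum) (τ : PvmnType) (o : ℤ × ℤ) : (pvlktU0 𝔑 τ o).1 = o.1 + 40 * (pvlzC 𝔑 τ).1 := rfl

theorem pvlke_u_snd (𝔑 : PvmnNum) (τ : PvmnType) (o : ℤ × ℤ) : (pvlktU0 𝔑 τ o).2 = o.2 + 40 * (pvlzC 𝔑 τ).2 := rfl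

/-- a fine collar `≤ 40` of a refinement lies over the 1-collar -/
theorem pvlke_N_pre {j : ℕ} (hj : j ≤ 40) {E : Set (ℤ × ℤ)} {v : ℤ × ℤ} (h : v ∈ pvtwN j ((pvlkeM o).pre E)) : (pvlkeM o).ap v ∈ pvtwN 1 E := by
  obtain ⟨w, hw, h1, h2, h3, h4⟩ := h
  refine ⟨(pvlkeM o).ap w, hw, ?_, ?_, ?_, ?_⟩
  · rw [pvlke_ap_fst, pvlke_ap_fst]; push_cast; omega
  · rw [pvlke_ap_fst, pvlke_ap_fst]; push_cast; omega
  · rw [pvlke_ap_snd, pvlke_ap_snd]; push_cast; omega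
  · rw [pvlke_ap_snd, pvlke_ap_snd]; push_cast; omega

/-- the unfilled tube of record of `e` -/
noncomputable abbrev pvlkeFr (𝔑 : PvmnNum) (τ : PvmnType) (o : ℤ × ℤ) : Set (ℤ × ℤ) :=
  pvlktFt (pvlktPhi o) τ (pvlktFaE 𝔑 τ o) ((pvlktU0 𝔑 τ o).1 + 120) ((pvlktU0 𝔑 τ o).1 + 140) ((pvlktU0 𝔑 τ o).2 - 14) ((pvlktU0 𝔑 τ o).2 + 70)

/-- the coarse part of the tube of the arc lies over the 1-collar of `C 0` or of the axis -/
theorem pvlke_rec_or {v : ℤ × ℤ} (h : v ∈ pvtwN 14 ((pvlktPhi o).pre ((τ.C 0 : Set (ℤ × ℤ)) ∪ pvlktAxE 𝔑 τ))) :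
    (pvlkeM o).ap v ∈ pvtwN 1 (τ.C 0 : Set (ℤ × ℤ)) ∨ (pvlkeM o).ap v ∈ pvtwN 1 (pvlzAx (τ.q 0) (pvlzAm 𝔑 τ) (pvlzL 𝔑)) := by
  have := pvlke_N_pre (o := o) (by omega) h
  rwa [pvtw_N_union] at this

/-- a fine cell of the block `[120, 340] × [-14, 70]` lies over the body of `u` -/
theorem pvlke_rec_body {v : ℤ × ℤ} (h1 : (pvlktU0 𝔑 τ o).1 + 120 ≤ v.1) (h2 : v.1 ≤ (pvlktU0 𝔑 τ o).1 + 340) (h3 : (pvlktU0 𝔑 τ o).2 - 14 ≤ v.2) (h4 : v.2 ≤ (pvlktU0 𝔑 τ o).2 + 70) :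
    (pvlkeM o).ap v ∈ pvfjSh (pvlzC 𝔑 τ) (pvmnBox 8) := by
  rw [pvlke_u_fst] at h1 h2
  rw [pvlke_u_snd] at h3 h4
  refine ⟨(pvlkeM o).ap v - pvlzC 𝔑 τ, ⟨?_, ?_, ?_, ?_⟩, by simp⟩
  · rw [Prod.fst_sub, pvlke_ap_fst]; push_cast; omega
  · rw [Prod.fst_sub, pvlke_ap_fst]; push_cast; omega
  · rw [Prod.snd_sub, pvlke_ap_snd]; push_cast; omega
  · rw [Prod.snd_sub, pvlke_ap_snd]; push_cast; omega

/-- the four parts of the tube of record, over menu cells -/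
theorem pvlke_rec_cases {v : ℤ × ℤ} (h : v ∈ pvlkeFr 𝔑 τ o) :
    (pvlkeM o).ap v ∈ pvfjSh (pvlzC 𝔑 τ) (pvmnBox 8) ∨ (pvlkeM o).ap v ∈ pvtwN 1 (τ.C 0 : Set (ℤ × ℤ)) ∨ (pvlkeM o).ap v ∈ pvtwN 1 (pvlzAx (τ.q 0) (pvlzAm 𝔑 τ) (pvlzL 𝔑)) ∨
      (pvlkeM o).ap v ∈ pvtwN 4 (pvmnCells τ 1 9) := by
  rcases h with (⟨h1, h2, h3, h4⟩ | (h | ⟨h1, h2, h3, h4⟩)) | h
  · exact Or.inl (pvlke_rec_body h1 (by omega) h3 h4)
  · exact Or.inr ((pvlke_rec_or h).imp id Or.inl)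
  · exact Or.inl (pvlke_rec_body (by omega) h2 h3 h4)
  · exact Or.inr (Or.inr (Or.inr h))

/-- the tube of record lies over the box `pvlzNT` -/
theorem pvlke_rec_box (hτ : PvmnIsType 𝔑 τ) (hacc : PvlzHasAcc 𝔑 τ) : pvlkeFr 𝔑 τ o ⊆ (pvlkeM o).pre (pvmnBox (pvlzNT 𝔑)) := by
  have hA := pvlz_acc_spec hacc
  intro v hv
  rcases pvlke_rec_cases hv with h | h | h | h
  · exact pvlz_u_box hA.am_dir (pvlz_q0_box hτ) rfl h
  · exact pvmn_box_mono (by unfold pvlzNT; omega) (pvgw_C_box hτ (by omega) h)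
  · exact pvlz_ax_box hA.am_dir (pvlz_q0_box hτ) rfl (pvtw_N_mono (by omega) le_rfl h)
  · exact pvmn_box_mono (by unfold pvlzNT; omega) (pvgw_cells_box hτ (by omega) h)

/-- a fine cell west of the column `265`, not far to the south, over a menu cell off the box of the plug: it is off the coarse part of the tube -/
theorem pvlke_rec_free (hτ : PvmnIsType 𝔑 τ) (hacc : PvlzHasAcc 𝔑 τ) {v : ℤ × ℤ} (h1 : v.1 ≤ (pvlktU0 𝔑 τ o).1 + 265) (h2 : (pvlktU0 𝔑 τ o).2 - 900 ≤ v.2)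
    (h4 : (pvlkeM o).ap v ∉ pvmnBox (𝔑.nBx + 10)) :
    v ∉ pvtwN 14 ((pvlktPhi o).pre ((τ.C 0 : Set (ℤ × ℤ)) ∪ pvlktAxE 𝔑 τ)) ∧ (pvlkeM o).ap v ∉ pvtwN 4 (pvmnCells τ 1 9) := by
  rw [pvlke_u_fst] at h1
  rw [pvlke_u_snd] at h2
  refine ⟨?_, fun h => h4 (pvgw_cells_box hτ (by omega) h)⟩
  intro hv
  have hv' := hv
  obtain ⟨w, hw, g1, g2, g3, g4⟩ := hv
  push_cast at g1 g2 g3 g4
  rcases hw with hw | hw
  · rcases pvlke_rec_or hv' with h | h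
    · exact h4 (pvgw_C_box hτ (by omega) h)
    · -- over `C 0` and near: in the box
      apply h4
      obtain ⟨b1, b2, b3, b4⟩ := hτ.box 0 hw
      have e1 : ((pvlktPhi o).ap w).1 = (w.1 - o.1) / 40 := rfl
      have e2 : ((pvlktPhi o).ap w).2 = (w.2 - o.2) / 40 := rfl
      rw [e1] at b1 b2
      rw [e2] at b3 b4
      refine ⟨?_, ?_, ?_, ?_⟩
      · rw [pvlke_ap_fst]; push_cast; omega
      · rw [pvlke_ap_fst]; push_cast; omega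
      · rw [pvlke_ap_snd]; push_cast; omega
      · rw [pvlke_ap_snd]; push_cast; omega
  · have e1 : ((pvlktPhi o).ap w).1 = (w.1 - o.1) / 40 := rfl
    have e2 : ((pvlktPhi o).ap w).2 = (w.2 - o.2) / 40 := rfl
    have c1 : (pvlzCu (τ.q 0) (pvlzAm 𝔑 τ) (pvlzL 𝔑)).1 = (pvlzC 𝔑 τ).1 := rfl
    have c2 : (pvlzCu (τ.q 0) (pvlzAm 𝔑 τ) (pvlzL 𝔑)).2 = (pvlzC 𝔑 τ).2 := rfl
    have := pvlke_axz_west (pvlz_acc_spec hacc).am_dir hw (by rw [e1, c1]; omega)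
    rw [e2, c2] at this
    omega

/-- **the escape set of record is joined to infinity off the tube of record** -/
theorem pvlke_esc_rec (hτ : PvmnIsType 𝔑 τ) (hacc : PvlzHasAcc 𝔑 τ) : pvlktEscE 𝔑 τ o ⊆ pvtOut (pvlkeFr 𝔑 τ o) := by
  have hA := pvlz_acc_spec hacc
  have hq := pvlz_q0_box hτ
  have hb := pvlke_rec_box (o := o) hτ hacc
  unfold pvmnBox at hb
  rw [pvlke_pre_box] at hb
  have hu1 := pvlke_u_fst 𝔑 τ o
  have hu2 := pvlke_u_snd 𝔑 τ o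
  have c1 : (pvlzCu (τ.q 0) (pvlzAm 𝔑 τ) (pvlzL 𝔑)).1 = (pvlzC 𝔑 τ).1 := rfl
  have c2 : (pvlzCu (τ.q 0) (pvlzAm 𝔑 τ) (pvlzL 𝔑)).2 = (pvlzC 𝔑 τ).2 := rfl
  have far : ∀ v : ℤ × ℤ, (pvlktU0 𝔑 τ o).1 - 360 ≤ v.1 → v.1 ≤ (pvlktU0 𝔑 τ o).1 + 140 → (pvlktU0 𝔑 τ o).2 - 15 ≤ v.2 → v.2 ≤ (pvlktU0 𝔑 τ o).2 + 39 → (pvlkeM o).ap v ∉ pvmnBox (𝔑.nBx + 10) := by
    intro v v1 v2 v3 v4
    refine pvlke_cu_far hA.am_dir hq (pvlke_L60 𝔑) ?_ ?_ ?_ ?_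
    · rw [c1, pvlke_ap_fst]; omega
    · rw [c1, pvlke_ap_fst]; omega
    · rw [c2, pvlke_ap_snd]; omega
    · rw [c2, pvlke_ap_snd]; omega
  have hray : TscConn tscG ((pvlktPhi o).pre (pvlzRay (pvlzFr (τ.q 0) (pvlzAm 𝔑 τ) (pvlzL 𝔑)) (pvlzDw (pvlzAm 𝔑 τ)))) := pvgw_pre_conn _ (pvlke_ray_tsc pvlz_dw_dir)
  refine pvlke_out_of hb (tsc_conn_union (tsc_conn_union (tsc_box_conn _ _ _ _) (tsc_box_conn _ _ _ _) (a := ((pvlktU0 𝔑 τ o).1 + 119, (pvlktU0 𝔑 τ o).2 + -15))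
    (b := ((pvlktU0 𝔑 τ o).1 + 120, (pvlktU0 𝔑 τ o).2 + -15)) ?_ ?_ (Or.inr ?_)) hray (a := ((pvlktU0 𝔑 τ o).1 + -360, (pvlktU0 𝔑 τ o).2 + 0))
    (b := ((pvlktU0 𝔑 τ o).1 + -360, (pvlktU0 𝔑 τ o).2 + 0)) (Or.inl ?_) ?_ (Or.inl rfl)) ?_ ?_
  · exact ⟨by simp only; omega, by simp only; omega, by simp only; omega, by simp only; omega⟩
  · exact ⟨by simp only; omega, by simp only; omega, by simp only; omega, by simp only; omega⟩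
  · rw [tsc_G_adj, tsc_adj_iff]
    exact Or.inl ⟨by show (pvlktU0 𝔑 τ o).1 + 120 = (pvlktU0 𝔑 τ o).1 + 119 + 1; omega, rfl⟩
  · exact ⟨by simp only; omega, by simp only; omega, by simp only; omega, by simp only; omega⟩
  · show (pvlkeM o).ap _ ∈ pvlzRay _ _
    refine pvlke_mem_ray 0 le_rfl ?_ ?_
    · rw [pvlke_ap_fst, pvlz_fr_fst, c1]; simp only; omega
    · rw [pvlke_ap_snd, pvlz_fr_snd, c2]; simp only; omega
  · rw [Set.disjoint_left]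
    rintro v ((⟨g1, g2, g3, g4⟩ | ⟨g1, g2, g3, g4⟩) | hv) hF
    · have hf := pvlke_rec_free hτ hacc (v := v) (by omega) (by omega) (far v (by omega) (by omega) (by omega) (by omega))
      rcases hF with (⟨h1, h2, h3, h4⟩ | (h | ⟨h1, h2, h3, h4⟩)) | h
      · omega
      · exact hf.1 h
      · omega
      · exact hf.2 h
    · have hf := pvlke_rec_free hτ hacc (v := v) (by omega) (by omega) (far v (by omega) (by omega) (by omega) (by omega))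
      rcases hF with (⟨h1, h2, h3, h4⟩ | (h | ⟨h1, h2, h3, h4⟩)) | h
      · omega
      · exact hf.1 h
      · omega
      · exact hf.2 h
    · have hv' : (pvlkeM o).ap v ∈ pvlzRay (pvlzFr (τ.q 0) (pvlzAm 𝔑 τ) (pvlzL 𝔑)) (pvlzDw (pvlzAm 𝔑 τ)) := hv
      have hbx := Set.disjoint_left.1 (pvlz_wm_box hA.am_dir hq (pvlke_L60 𝔑)) hv'
      rcases pvlke_rec_cases hF with h | h | h | h
      · exact Set.disjoint_left.1 (pvlz_wm_u hA.am_dir) hv' h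
      · exact hbx (pvmn_box_mono (by omega) (pvgw_C_box hτ (by omega) h))
      · exact Set.disjoint_left.1 (pvlz_wm_ax hA.am_dir) hv' (pvtw_N_mono (by omega) le_rfl h)
      · exact hbx (pvmn_box_mono (by omega) (pvgw_cells_box hτ (by omega) h))
  · obtain ⟨w, hw, hwb⟩ := pvlz_ray_out (q := pvlzFr (τ.q 0) (pvlzAm 𝔑 τ) (pvlzL 𝔑)) (pvlz_dw_dir (a := pvlzAm 𝔑 τ)) (pvlzNT 𝔑)
    obtain ⟨v, hv⟩ := pvgw_pre_nonempty (pvlkeM o) (Set.singleton_nonempty w)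
    have hv' : (pvlkeM o).ap v = w := hv
    refine ⟨v, Or.inr ?_, ?_⟩
    · show (pvlkeM o).ap v ∈ pvlzRay _ _
      rw [hv']; exact hw
    · have hvb : v ∉ (pvlkeM o).pre (pvmnBox (pvlzNT 𝔑)) := fun h => hwb (hv' ▸ h)
      unfold pvmnBox at hvb
      rwa [pvlke_pre_box] at hvb

/-- the body of `u` lies in the 32-collar of the entrance ray, at the type -/
theorem pvlke_rec_sep (hacc : PvlzHasAcc 𝔑 τ) {x : ℤ × ℤ} (hx : x ∈ pvlzRay (τ.q 10) (pvlzAp 𝔑 τ)) :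
    x ∉ pvfjSh (pvlzC 𝔑 τ) (pvmnBox 8) ∧ x ∉ pvtwN 1 (τ.C 0 : Set (ℤ × ℤ)) ∧ x ∉ pvtwN 1 (pvlzAx (τ.q 0) (pvlzAm 𝔑 τ) (pvlzL 𝔑)) := by
  have hA := pvlz_acc_spec hacc
  refine ⟨fun h => ?_, fun h => ?_, fun h => ?_⟩
  · exact pvlz_sep_use hA (pvtw_N_sub (Or.inl hx)) (pvlz_u_ray hA.am_dir (pvlz_L8 𝔑) h)
  · exact Set.disjoint_left.1 hA.sep (pvtw_N_sub (Or.inl hx)) (pvtw_N_mono (by omega) Set.subset_union_right h)
  · have h1 := pvtw_N_mono (le_refl 1) (pvlz_ax_ray hA.am_dir (pvlz_L8 𝔑)) h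
    rw [pvtw_N_add] at h1
    exact pvlz_sep_use hA (pvtw_N_sub (Or.inl hx)) (pvtw_N_mono (by omega) le_rfl h1)

/-- **the witness at the exit door of the plug, tube of record** -/
theorem pvlke_wit_rec (hτ : PvmnIsType 𝔑 τ) (hacc : PvlzHasAcc 𝔑 τ) :
    ∃ x ∈ pvtrBd (pvmnK3 τ), x.2 ∈ pvmnDrp τ ∧ ∃ v ∈ pvtOut (pvlkeFr 𝔑 τ o), (pvlktPhi o).ap v = x.2 := by
  have hA := pvlz_acc_spec hacc
  have hQ : TscConn tscG ((pvlkeM o).pre (pvlzRay (τ.q 10) (pvlzAp 𝔑 τ))) := pvgw_pre_conn _ (pvlke_ray_tsc hA.ap_dir)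
  obtain ⟨x, hx, v, hvQ, hv, hvx⟩ := pvgw_wit_aux (pvlkeM o) (K := pvmnK3 τ) (F := pvlkeFr 𝔑 τ o) hQ
    (by
      obtain ⟨v, hv⟩ := pvgw_pre_nonempty (pvlkeM o) (Set.singleton_nonempty (τ.q 10))
      have hv' : (pvlkeM o).ap v = τ.q 10 := hv
      refine ⟨v, ?_, ?_⟩
      · show (pvlkeM o).ap v ∈ pvlzRay (τ.q 10) (pvlzAp 𝔑 τ)
        rw [hv']; exact pvlz_ray_start _ _
      · rw [hv']
        exact pvt_hull_sub (pvtw_N_sub (pvmn_C_sub 9 (by decide) (by decide) (pvfjm_q10_mem hτ))))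
    (by
      obtain ⟨w, hw, hwb⟩ := pvlz_ray_out (q := τ.q 10) hA.ap_dir (pvlzNT 𝔑)
      obtain ⟨v, hv⟩ := pvgw_pre_nonempty (pvlkeM o) (Set.singleton_nonempty w)
      have hv' : (pvlkeM o).ap v = w := hv
      refine ⟨v, ?_, ?_, ?_⟩
      · show (pvlkeM o).ap v ∈ pvlzRay (τ.q 10) (pvlzAp 𝔑 τ)
        rw [hv']; exact hw
      · have hb := pvlke_rec_box (o := o) hτ hacc
        have hvb : v ∉ (pvlkeM o).pre (pvmnBox (pvlzNT 𝔑)) := fun h => hwb (hv' ▸ h)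
        unfold pvmnBox at hb hvb
        rw [pvlke_pre_box] at hb hvb
        exact pvt_out_of_box hb hvb
      · rw [hv']
        exact fun h => hwb (pvmn_box_mono (by unfold pvlzNT; omega) (pvmn_K3_box hτ h)))
    (by
      intro v hv hF
      obtain ⟨s1, s2, s3⟩ := pvlke_rec_sep hacc (x := (pvlkeM o).ap v) hv
      rcases pvlke_rec_cases hF with h | h | h | h
      · exact (s1 h).elim
      · exact (s2 h).elim
      · exact (s3 h).elim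
      · exact pvgw_Pt_K3 (Mt := pvlkeM o) h)
  refine ⟨x, hx, ?_, v, hv, hvx⟩
  obtain ⟨k, _, k2, hk⟩ := pvmn_N_cells.1 (pvmn_K3_dart hx).2
  rcases Nat.lt_or_ge k.1 9 with h | h
  · exfalso
    have hvQ' : (pvlkeM o).ap v ∈ pvlzRay (τ.q 10) (pvlzAp 𝔑 τ) := hvQ
    rw [hvx] at hvQ'
    exact Set.disjoint_left.1 hA.rp_cells hvQ' (pvtw_N_mono (by omega) le_rfl (pvmn_N_cells.2 ⟨k, by omega, by omega, hk⟩))
  · have : k = 9 := Fin.ext (by change k.1 = 9; omega)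
    subst this
    exact pvtw_N_mono (by omega) le_rfl hk

/-- **THE CLAUSES OF THE HALF GLUE, ENTRANCE SIDE, AT THE LAYOUT OF RECORD OF THE THICK LINK `e : u → t`** (164, `Tr/LinkLay`) -/
theorem pvlke_ht_rec (hτ : PvmnIsType 𝔑 τ) (hacc : PvlzHasAcc 𝔑 τ) (o : ℤ × ℤ) :
    PvlktHt 𝔑 (pvlktPhi o) τ (pvlktFaE 𝔑 τ o) ((pvlktU0 𝔑 τ o).1 + 120) ((pvlktU0 𝔑 τ o).1 + 140) ((pvlktU0 𝔑 τ o).2 - 14) ((pvlktU0 𝔑 τ o).2 + 70) := by
  have hA := pvlz_acc_spec hacc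
  have hq := pvlz_q0_box hτ
  have hu1 := pvlke_u_fst 𝔑 τ o
  have hu2 := pvlke_u_snd 𝔑 τ o
  have c1 : (pvlzCu (τ.q 0) (pvlzAm 𝔑 τ) (pvlzL 𝔑)).1 = (pvlzC 𝔑 τ).1 := rfl
  have c2 : (pvlzCu (τ.q 0) (pvlzAm 𝔑 τ) (pvlzL 𝔑)).2 = (pvlzC 𝔑 τ).2 := rfl
  have far : ∀ v : ℤ × ℤ, (pvlktU0 𝔑 τ o).1 - 360 ≤ v.1 → v.1 ≤ (pvlktU0 𝔑 τ o).1 + 340 → (pvlktU0 𝔑 τ o).2 - 16 ≤ v.2 → v.2 ≤ (pvlktU0 𝔑 τ o).2 + 72 → (pvlkeM o).ap v ∉ pvmnBox (𝔑.nBx + 10) := by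
    intro v v1 v2 v3 v4
    refine pvlke_cu_far hA.am_dir hq (pvlke_L60 𝔑) ?_ ?_ ?_ ?_
    · rw [c1, pvlke_ap_fst]; omega
    · rw [c1, pvlke_ap_fst]; omega
    · rw [c2, pvlke_ap_snd]; omega
    · rw [c2, pvlke_ap_snd]; omega
  have hE : TscConn tscG ((τ.C 0 : Set (ℤ × ℤ)) ∪ pvlktAxE 𝔑 τ) :=
    tsc_conn_union (hτ.conn 0) (fun u hu v hv => pvtb_R_le (fun _ _ => pvtb_G4_tri) (pvlz_ax_conn hA.am_dir (pvlz_L8 𝔑) u hu v hv)) (pvfjm_q0_mem hτ) (pvlz_ax_tip hA.am_dir (pvlz_L8 𝔑)) (Or.inl rfl)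
  have hEf : ((τ.C 0 : Set (ℤ × ℤ)) ∪ pvlktAxE 𝔑 τ).Finite := by
    refine (pvmn_box_finite (pvlzNT 𝔑)).subset ?_
    rintro x (hx | hx)
    · exact pvmn_box_mono (by unfold pvlzNT; omega) (hτ.box 0 hx)
    · exact pvlz_ax_box hA.am_dir hq rfl (pvtw_N_sub hx)
  refine ⟨hτ, ?_, ?_, ?_, ?_, by omega, by omega, ?_, ?_, ?_, ?_, pvlke_wit_rec hτ hacc⟩
  · -- fin
    exact (pvtw_N_finite (pvgw_pre_finite _ hEf)).union (tsc_box_finite _ _ _ _)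
  · -- conn
    refine tsc_conn_union (pvtw_N_conn (pvgw_pre_conn _ hE)) (tsc_box_conn _ _ _ _) (a := ((pvlktU0 𝔑 τ o).1 + 320, (pvlktU0 𝔑 τ o).2 + 0)) (b := ((pvlktU0 𝔑 τ o).1 + 320, (pvlktU0 𝔑 τ o).2 + 0)) ?_ ?_ (Or.inl rfl)
    · refine pvtw_N_sub (Or.inr ?_)
      have h8 := pvlz_ax_door (q := τ.q 0) hA.am_dir (pvlz_L8 𝔑)
      have e : (pvlktPhi o).ap ((pvlktU0 𝔑 τ o).1 + 320, (pvlktU0 𝔑 τ o).2 + 0) = (8, 0) + pvlzCu (τ.q 0) (pvlzAm 𝔑 τ) (pvlzL 𝔑) := by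
        refine Prod.ext ?_ ?_
        · show ((pvlktU0 𝔑 τ o).1 + 320 - o.1) / 40 = 8 + (pvlzC 𝔑 τ).1
          omega
        · show ((pvlktU0 𝔑 τ o).2 + 0 - o.2) / 40 = 0 + (pvlzC 𝔑 τ).2
          omega
      rw [e]
      exact h8
    · exact ⟨by simp only; omega, by simp only; omega, by simp only; omega, by simp only; omega⟩
  · -- touch
    obtain ⟨v, hv⟩ := pvgw_pre_nonempty (pvlktPhi o) (Set.singleton_nonempty (τ.q 1))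
    have hv' : (pvlktPhi o).ap v = τ.q 1 := hv
    refine ⟨v, Or.inl (pvtw_N_sub (Or.inl ?_)), ?_⟩
    · rw [hv']; exact pvfjm_q1_mem0 hτ
    · rw [hv']; exact pvtw_N_sub (pvfjm_q1_mem1 hτ)
  · -- off
    rintro v (hv | ⟨g1, g2, g3, g4⟩) h9
    · rcases pvlke_rec_or hv with h | h
      · exact h
      · exfalso
        obtain ⟨z, hz, g1, g2, g3, g4⟩ := h
        have hz9 : z ∈ pvtwN 10 (pvmnCells τ 1 9) := by
          obtain ⟨c, hc, k1, k2, k3, k4⟩ := h9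
          have e : (pvlktPhi o).ap v = (pvlkeM o).ap v := rfl
          rw [e] at k1 k2 k3 k4
          push_cast at g1 g2 g3 g4 k1 k2 k3 k4
          exact ⟨c, hc, by push_cast; omega, by push_cast; omega, by push_cast; omega, by push_cast; omega⟩
        rcases pvlke_axz_or hA.am_dir hq (pvlke_L60 𝔑) hz with h1 | h1
        · exact Set.disjoint_left.1 hA.rm_cells h1 (pvtw_N_mono (by omega) le_rfl hz9)
        · exact h1 (pvmn_box_mono (by omega) (pvgw_cells_box hτ (le_refl 10) hz9))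
    · exact (far v (by omega) (by omega) (by omega) (by omega) (pvgw_cells_box hτ (by omega) h9)).elim
  · -- first
    exact Or.inr ⟨by simp only; omega, by simp only; omega, by simp only; omega, by simp only; omega⟩
  · -- box_Fa
    rw [Set.disjoint_left]
    rintro v ⟨g1, g2, g3, g4⟩ (hv | ⟨h1, h2, h3, h4⟩)
    · exact (pvlke_rec_free hτ hacc (v := v) (by omega) (by omega) (far v (by omega) (by omega) (by omega) (by omega))).1 hv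
    · omega
  · -- box_far
    rintro v ⟨z, ⟨z1, z2, z3, z4⟩, g1, g2, g3, g4⟩
    push_cast at g1 g2 g3 g4
    exact far v (by omega) (by omega) (by omega) (by omega)
  · -- out
    intro v v1 v2 v3 v4 hv
    refine pvlke_esc_rec hτ hacc ?_
    by_cases hcol : v.1 ≤ (pvlktU0 𝔑 τ o).1 + 119
    · exact Or.inl (Or.inl ⟨by omega, by omega, by omega, by omega⟩)
    · have hrow : v.2 = (pvlktU0 𝔑 τ o).2 - 15 := by
        by_contra hc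
        exact hv ⟨by omega, v2, by omega, by omega⟩
      exact Or.inl (Or.inr ⟨by omega, by omega, by omega, by omega⟩)

/-- **THE WHITE LANE OF `e` AT THE LAYOUT OF RECORD** = the output of `pvlkt_half_t` (205) -/
theorem pvlke_lane_rec (hτ : PvmnIsType 𝔑 τ) (hacc : PvlzHasAcc 𝔑 τ) (o : ℤ × ℤ) {ln : ((ℤ × ℤ) × (ℤ × ℤ)) × ℕ} (hl : PvmnLaneR τ ln.1 ln.2) :
    ∃ S : Set (ℤ × ℤ), S.Finite ∧ TscConn tscG S ∧ Disjoint S (pvtHull (pvlkeFr 𝔑 τ o)) ∧ ((pvlktU0 𝔑 τ o).1 + 140, (pvlktU0 𝔑 τ o).2 - 14 - 1) ∈ S ∧ (∃ v ∈ S, (pvlktPhi o).ap v = pvlpA0 τ ln) ∧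
      ∀ w ∈ S, ∃ b, triAdj b w ∧ b ∈ pvlktFaE 𝔑 τ o ∪ (pvlktPhi o).pre (pvtwN 4 (pvmnCells τ 1 2)) :=
  pvlkt_half_t (pvlke_ht_rec hτ hacc o) hl

/-- the filled tube of record lies over the box `pvlzNT` -/
theorem pvlke_hull_rec (hτ : PvmnIsType 𝔑 τ) (hacc : PvlzHasAcc 𝔑 τ) : pvtHull (pvlkeFr 𝔑 τ o) ⊆ (pvlktPhi o).pre (pvmnBox (pvlzNT 𝔑)) := by
  have hb := pvlke_rec_box (o := o) hτ hacc
  rw [pvlke_phi]
  unfold pvmnBox at hb ⊢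
  rw [pvlke_pre_box] at hb ⊢
  exact pvt_hull_box hb

end rec

end Claimed.Agent.R289
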