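import Claimed.Agent.R289.Tr.GlueWH
import Claimed.Agent.R289.Tr.LinkGam
import Claimed.Agent.R289.Tr.LinkLay

/-!
# Row 289 (S0537, Cardy for Poisson-Voronoi), unit TR, ROAD P, THICK LINKS, file Tr/LinkGeoB : H4 = THE FINE TRANSFER      (pen helper277; post of 273 P16ter; prefix `pvby_`, `Pvby`, `pvby`)

WHAT.   The clauses `PvlktHs` / `PvlktHt` of the half glue of 164 (`Tr/GlueWH`) speak of LINK cells (fine lattice, `M : PvgwMap` = floor division by `40`).      The layout of the thick links `b : t → u`, `e : u → t` (89 `Tr/LayB`, 221 `Tr/LinkGeoE`, 114 `Tr/LinkGam`) is a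
        matter of MENU cells: axis `Ab` (ray `ρ⁺`, ring road minus a gap, access ray of `u`), escape sets.      Here: ONE transfer, generic in `M`:
* tube of the arc  `pvbyFa M τ Ab Xs Xm Y0 Y1 := M⁻¹ (N¹ (C 9 ∪ Ab)) ∪ [Xs, Xm] × [Y0, Y1]`   (coarse tube + a straight fine strip which leaves it to the EAST);
* **`PvbyCs 𝔑 M τ Ab Bx Xs Xm X1 Y0 Y1`** = the clauses in menu cells (`Bx` = any finite set of menu cells which contains the image of the strip and of the end box);   **`pvby_hs : PvbyCs .. → PvlktHs 𝔑 M τ (pvbyFa ..) Xm X1 Y0 Y1`**;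
* mirror  `pvbyFe`, **`PvbyCt`**, **`pvby_ht : PvbyCt .. → PvlktHt 𝔑 M τ (pvbyFe ..) X0 Xm Y0 Y1`**;
* `out`, `wit` are asked in the form `.. ∈ pvtOut (coarse tube)`;   `pvby_esc_out` (an escape set: connected, off the tube, leaves a box of the tube), `pvby_wit_m`, `pvby_wit_p` (the dart of the door from a connected set which starts in `K3`) pay them;
* §6, §7: AT THE LAYOUT OF RECORD OF `b` (164, `Tr/LinkLay`): `pvby_Fs_sub` (the tube seen from the menu), `pvbyZ` (free zone), **`pvby_escB_out`** (`pvlktEscB ⊆ pvtOut` of the tube), **`pvby_out_rec`**, **`pvby_wit_rec`** = the fields `out`, `wit` of `PvlktHs` VERBATIM, from `PvmnIsType` + `PvlzHasAcc`.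
* §5: `M = pvgwDiv k hk o`, ALIGNED strips (columns `a0 .. am` of menu cells in the tube of the arc, `am + 1 .. a1` = end box, rows `b0 .. b1`): everything in menu cells (`pvby_hs_div`, `pvby_ht_div`).
-/

set_option autoImplicit false
set_option linter.unusedSectionVars false
set_option linter.unusedVariables false
set_option linter.unusedSimpArgs false

namespace Claimed.Agent.R289

open Relation Claims.C0467 Claimed.Agent.R291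

/-! ## 1. tools -/

section tools

variable (M : PvgwMap) {E F S : Set (ℤ × ℤ)} {v w : ℤ × ℤ}

theorem pvby_ap_surj (c : ℤ × ℤ) : ∃ v, M.ap v = c := by
  obtain ⟨x, hx⟩ := M.f_surj c.1
  obtain ⟨y, hy⟩ := M.g_surj c.2
  exact ⟨(x, y), Prod.ext hx hy⟩

/-- **a cell over a cell which is joined to infinity off `E` is joined to infinity off every `F ⊆ M⁻¹ E`** -/
theorem pvby_pre_out (h : F ⊆ M.pre E) : M.pre (pvtOut E) ⊆ pvtOut F := by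
  intro w hw B hB
  obtain ⟨t, ht, hR⟩ := hw (M.ap '' B) (hB.image _)
  obtain ⟨t', ht'⟩ := pvby_ap_surj M t
  refine ⟨t', fun hb => ht ⟨t', hb, ht'⟩, ?_⟩
  have h1 := pvgw_pre_R M (E := Eᶜ) (u := w) (pvt_out_sub hw) hR t' ht'
  have hsub : M.pre Eᶜ ⊆ Fᶜ := fun u hu hF => hu (h hF)
  exact tsc_R_mono hsub h1

theorem pvby_box_conn (a b c d : ℤ) : TscConn tscG (tscBox a b c d) :=
  fun u hu v hv => pvtb_R_le (fun _ _ => pvtb_G4_tri) (pvtb_box_conn a b c d u hu v hv)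

theorem pvby_conn4 (h : TscConn pvtbG4 S) : TscConn tscG S := fun u hu v hv => pvtb_R_le (fun _ _ => pvtb_G4_tri) (h u hu v hv)

/-- **AN ESCAPE SET**: connected, off `F`, leaves a box of `F` -/
theorem pvby_esc_out {a b c d : ℤ} (hF : F ⊆ tscBox a b c d) (hc : TscConn tscG S) (hd : Disjoint S F) (hw : ∃ w ∈ S, w ∉ tscBox a b c d) : S ⊆ pvtOut F := by
  obtain ⟨w, hw, hwb⟩ := hw
  intro u hu
  exact pvt_out_R (pvt_out_of_box hF hwb) (tsc_R_mono (fun x hx hxF => Set.disjoint_left.1 hd hx hxF) (hc w hw u hu))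

/-- horizontal segment, any two ends -/
theorem pvby_seg_h {y x x' : ℤ} (hx : x ≤ x') (h : ∀ i : ℤ, x ≤ i → i ≤ x' → (i, y) ∈ S) : TscR tscG S (x, y) (x', y) := by
  have := pvgw_seg_h (S := S) y (x' - x).toNat x (fun i h1 h2 => h i h1 (by omega))
  rwa [Int.toNat_of_nonneg (by omega), add_sub_cancel] at this

/-- vertical segment -/
theorem pvby_seg_v {x y y' : ℤ} (hy : y ≤ y') (h : ∀ i : ℤ, y ≤ i → i ≤ y' → (x, i) ∈ S) : TscR tscG S (x, y) (x, y') := by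
  have := pvgw_seg_v (S := S) x (y' - y).toNat y (fun i h1 h2 => h i h1 (by omega))
  rwa [Int.toNat_of_nonneg (by omega), add_sub_cancel] at this

end tools

/-! ## 2. the exit side: the link `b : t → u` -/

/-- the coarse tube of the arc part of `b` (menu cells): the 1-collar of the last piece and of the axis -/
def pvbyT (τ : PvmnType) (Ab : Set (ℤ × ℤ)) : Set (ℤ × ℤ) := pvtwN 1 ((τ.C 9 : Set (ℤ × ℤ)) ∪ Ab)

/-- **THE TUBE OF THE ARC PART OF `b`** (link cells): coarse tube + straight strip -/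
def pvbyFa (M : PvgwMap) (τ : PvmnType) (Ab : Set (ℤ × ℤ)) (Xs Xm Y0 Y1 : ℤ) : Set (ℤ × ℤ) := M.pre (pvbyT τ Ab) ∪ tscBox Xs Xm Y0 Y1

/-- the whole coarse tube of `b` (menu cells) -/
def pvbyTc (τ : PvmnType) (Ab Bx : Set (ℤ × ℤ)) : Set (ℤ × ℤ) := pvtwN 4 (pvmnCells τ 0 8) ∪ pvbyT τ Ab ∪ Bx

/-- **THE CLAUSES OF `b` IN MENU CELLS** -/
structure PvbyCs (𝔑 : PvmnNum) (M : PvgwMap) (τ : PvmnType) (Ab Bx : Set (ℤ × ℤ)) (Xs Xm X1 Y0 Y1 : ℤ) : Prop where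
  ts : PvmnIsType 𝔑 τ
  fin : Ab.Finite
  conn : TscConn tscG Ab
  /-- the axis starts at the tip of the last piece -/
  tip : τ.q 10 ∈ Ab
  /-- the axis is far from the pieces `0..8` -/
  far : Disjoint (pvtwN 1 Ab) (pvtwN 9 (pvmnCells τ 0 8))
  hs : Xs ≤ Xm
  hX : Xm < X1
  hY : Y0 < Y1
  /-- `Bx` contains the menu cells of the strip and of the end box -/
  img : ∀ v ∈ tscBox Xs X1 Y0 Y1, M.ap v ∈ Bx
  Bx_far : Disjoint Bx (pvtwN 9 (pvmnCells τ 0 8))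
  /-- the strip starts in the coarse tube -/
  root : M.ap (Xs, Y0) ∈ pvbyT τ Ab
  /-- the last column of the strip and the end box have left the coarse tube -/
  box_off : ∀ v ∈ pvtwN 2 (tscBox Xm X1 Y0 Y1), M.ap v ∉ pvbyT τ Ab
  box_far : ∀ v ∈ pvtwN 2 (tscBox Xm X1 Y0 Y1), M.ap v ∉ pvmnBox (𝔑.nBx + 10)
  /-- the menu cell of the south row is joined to infinity off the coarse tube -/
  out : M.ap (Xm, Y0 - 1) ∈ pvtOut (pvbyTc τ Ab Bx)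
  /-- ONE dart of the entrance door whose outer cell is joined to infinity off the coarse tube -/
  wit : ∃ x ∈ pvtrBd (pvmnK3 τ), x.2 ∈ pvmnDrm τ ∧ x.2 ∈ pvtOut (pvbyTc τ Ab Bx)

theorem pvby_eqns_cite : True := by
  have := @pvbyT.eq_1; have := @pvbyFa.eq_1; have := @pvbyTc.eq_1
  trivial

section exit

variable {𝔑 : PvmnNum} {M : PvgwMap} {τ : PvmnType} {Ab Bx : Set (ℤ × ℤ)} {Xs Xm X1 Y0 Y1 : ℤ}

theorem pvby_q9_mem8 (hτ : PvmnIsType 𝔑 τ) : τ.q 9 ∈ (τ.C 8 : Set (ℤ × ℤ)) := hτ.q_end 8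
theorem pvby_q9_mem9 (hτ : PvmnIsType 𝔑 τ) : τ.q 9 ∈ (τ.C 9 : Set (ℤ × ℤ)) := hτ.q_start 9
theorem pvby_q10_mem9 (hτ : PvmnIsType 𝔑 τ) : τ.q 10 ∈ (τ.C 9 : Set (ℤ × ℤ)) := hτ.q_end 9

theorem PvbyCs.T_conn (I : PvbyCs 𝔑 M τ Ab Bx Xs Xm X1 Y0 Y1) : TscConn tscG (pvbyT τ Ab) :=
  pvtw_N_conn (tsc_conn_union (I.ts.conn 9) I.conn (pvby_q10_mem9 I.ts) I.tip (Or.inl rfl))

theorem PvbyCs.T_fin (I : PvbyCs 𝔑 M τ Ab Bx Xs Xm X1 Y0 Y1) : (pvbyT τ Ab).Finite :=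
  pvtw_N_finite ((τ.C 9).finite_toSet.union I.fin)

/-- the fine tube lies over the coarse tube -/
theorem PvbyCs.Fs_sub (I : PvbyCs 𝔑 M τ Ab Bx Xs Xm X1 Y0 Y1) : pvlktFs M τ (pvbyFa M τ Ab Xs Xm Y0 Y1) Xm X1 Y0 Y1 ⊆ M.pre (pvbyTc τ Ab Bx) := by
  rintro v ((h | (h | ⟨h1, h2, h3, h4⟩)) | ⟨h1, h2, h3, h4⟩)
  · exact Or.inl (Or.inl h)
  · exact Or.inl (Or.inr h)
  · exact Or.inr (I.img v ⟨h1, by have := I.hX; omega, h3, h4⟩)
  · exact Or.inr (I.img v ⟨by have := I.hs; omega, h2, h3, h4⟩)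

/-- the cells around the south-east corner are off the fine tube -/
theorem PvbyCs.Q_off (I : PvbyCs 𝔑 M τ Ab Bx Xs Xm X1 Y0 Y1) {v : ℤ × ℤ} (h1 : Xm ≤ v.1) (h2 : v.1 ≤ X1 + 2) (h3 : Y0 - 1 ≤ v.2) (h4 : v.2 ≤ Y0 + 1) (h5 : v ∉ tscBox Xm X1 Y0 Y1) :
    v ∈ (pvlktFs M τ (pvbyFa M τ Ab Xs Xm Y0 Y1) Xm X1 Y0 Y1)ᶜ := by
  have hX := I.hX
  have hY := I.hY
  have hN : v ∈ pvtwN 2 (tscBox Xm X1 Y0 Y1) :=
    ⟨(min v.1 X1, max v.2 Y0), ⟨by simp only; omega, by simp only; omega, by simp only; omega, by simp only; omega⟩, by simp only; push_cast; omega, by simp only; push_cast; omega,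
      by simp only; push_cast; omega, by simp only; push_cast; omega⟩
  rintro ((h | (h | ⟨g1, g2, g3, g4⟩)) | ⟨g1, g2, g3, g4⟩)
  · exact I.box_far v hN (pvgw_cells_box I.ts (by omega) h)
  · exact I.box_off v hN h
  · exact h5 ⟨h1, by omega, g3, g4⟩
  · exact h5 ⟨h1, g2, g3, g4⟩

/-- **THE TRANSFER, EXIT SIDE** -/
theorem pvby_hs (I : PvbyCs 𝔑 M τ Ab Bx Xs Xm X1 Y0 Y1) : PvlktHs 𝔑 M τ (pvbyFa M τ Ab Xs Xm Y0 Y1) Xm X1 Y0 Y1 where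
  ts := I.ts
  fin := (pvgw_pre_finite M I.T_fin).union (tsc_box_finite _ _ _ _)
  conn := tsc_conn_union (pvgw_pre_conn M I.T_conn) (pvby_box_conn _ _ _ _) (a := (Xs, Y0)) (b := (Xs, Y0)) I.root ⟨le_rfl, I.hs, le_rfl, I.hY.le⟩ (Or.inl rfl)
  touch := by
    obtain ⟨v, hv⟩ := pvby_ap_surj M (τ.q 9)
    refine ⟨v, Or.inl ?_, ?_⟩
    · show M.ap v ∈ pvbyT τ Ab
      rw [hv]
      exact pvtw_N_sub (Or.inl (pvby_q9_mem9 I.ts))
    · rw [hv]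
      exact pvtw_N_sub (pvby_q9_mem8 I.ts)
  off := by
    rintro v (h | ⟨h1, h2, h3, h4⟩) h9
    · have h' : M.ap v ∈ pvtwN 1 (τ.C 9 : Set (ℤ × ℤ)) ∪ pvtwN 1 Ab := by
        rw [← pvtw_N_union]; exact h
      rcases h' with h' | h'
      · exact h'
      · exact (Set.disjoint_left.1 I.far h' h9).elim
    · exact (Set.disjoint_left.1 I.Bx_far (I.img v ⟨h1, by have := I.hX; omega, h3, h4⟩) h9).elim
  hX := I.hX
  hY := I.hY
  last := Or.inr ⟨I.hs, le_rfl, le_rfl, I.hY.le⟩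
  box_Fa := by
    rw [Set.disjoint_left]
    rintro v ⟨h1, h2, h3, h4⟩ (h | ⟨g1, g2, g3, g4⟩)
    · exact I.box_off v (pvtw_N_sub ⟨by omega, h2, h3, h4⟩) h
    · omega
  box_far := I.box_far
  out := by
    intro v h1 h2 h3 h4 h5
    have h0 : (Xm, Y0 - 1) ∈ pvtOut (pvlktFs M τ (pvbyFa M τ Ab Xs Xm Y0 Y1) Xm X1 Y0 Y1) := pvby_pre_out M I.Fs_sub I.out
    have hX := I.hX
    have hY := I.hY
    have r1 : TscR tscG (pvlktFs M τ (pvbyFa M τ Ab Xs Xm Y0 Y1) Xm X1 Y0 Y1)ᶜ (Xm, Y0 - 1) (v.1, Y0 - 1) :=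
      pvby_seg_h h1 (fun i g1 g2 => I.Q_off (v := (i, Y0 - 1)) g1 (by simp only; omega) (by simp only; omega) (by simp only; omega) (fun hb => by have := hb.2.2.1; simp only at this; omega))
    have r2 : TscR tscG (pvlktFs M τ (pvbyFa M τ Ab Xs Xm Y0 Y1) Xm X1 Y0 Y1)ᶜ (v.1, Y0 - 1) (v.1, v.2) := by
      refine pvby_seg_v h3 (fun i g1 g2 => I.Q_off (v := (v.1, i)) h1 h2 g1 (by simp only; omega) (fun hb => ?_))
      obtain ⟨b1, b2, b3, b4⟩ := hb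
      simp only at b1 b2 b3 b4
      exact h5 ⟨h1, b2, by omega, by omega⟩
    exact pvt_out_R h0 (tsc_R_trans r1 r2)
  wit := by
    obtain ⟨x, hx, hd, ho⟩ := I.wit
    obtain ⟨v, hv⟩ := pvby_ap_surj M x.2
    have hv' : v ∈ M.pre (pvtOut (pvbyTc τ Ab Bx)) := by
      show M.ap v ∈ pvtOut (pvbyTc τ Ab Bx)
      rw [hv]; exact ho
    exact ⟨x, hx, hd, v, pvby_pre_out M I.Fs_sub hv', hv⟩

/-- for the lists of distances (`dj2`): the whole fine tube lies over `N⁴ (cells 0..8) ∪ N¹ (C 9 ∪ Ab) ∪ Bx` -/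
theorem PvbyCs.hull_sub (I : PvbyCs 𝔑 M τ Ab Bx Xs Xm X1 Y0 Y1) : pvbyFa M τ Ab Xs Xm Y0 Y1 ∪ tscBox (Xm + 1) X1 Y0 Y1 ⊆ M.pre (pvbyT τ Ab ∪ Bx) := by
  rintro v ((h | ⟨h1, h2, h3, h4⟩) | ⟨h1, h2, h3, h4⟩)
  · exact Or.inl h
  · exact Or.inr (I.img v ⟨h1, by have := I.hX; omega, h3, h4⟩)
  · exact Or.inr (I.img v ⟨by have := I.hs; omega, h2, h3, h4⟩)

end exit

/-! ## 3. the entrance side: the link `e : u → t` -/

/-- the coarse tube of the arc part of `e` (menu cells) -/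
def pvbyTe (τ : PvmnType) (Ae : Set (ℤ × ℤ)) : Set (ℤ × ℤ) := pvtwN 1 ((τ.C 0 : Set (ℤ × ℤ)) ∪ Ae)

/-- **THE TUBE OF THE ARC PART OF `e`** (link cells): straight strip + coarse tube -/
def pvbyFe (M : PvgwMap) (τ : PvmnType) (Ae : Set (ℤ × ℤ)) (Xm Xe Y0 Y1 : ℤ) : Set (ℤ × ℤ) := tscBox Xm Xe Y0 Y1 ∪ M.pre (pvbyTe τ Ae)

/-- the whole coarse tube of `e` (menu cells) -/
def pvbyTd (τ : PvmnType) (Ae Bx : Set (ℤ × ℤ)) : Set (ℤ × ℤ) := Bx ∪ pvbyTe τ Ae ∪ pvtwN 4 (pvmnCells τ 1 9)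

/-- **THE CLAUSES OF `e` IN MENU CELLS** -/
structure PvbyCt (𝔑 : PvmnNum) (M : PvgwMap) (τ : PvmnType) (Ae Bx : Set (ℤ × ℤ)) (X0 Xm Xe Y0 Y1 : ℤ) : Prop where
  tt : PvmnIsType 𝔑 τ
  fin : Ae.Finite
  conn : TscConn tscG Ae
  /-- the axis ends at the tip of the first piece -/
  tip : τ.q 0 ∈ Ae
  far : Disjoint (pvtwN 1 Ae) (pvtwN 9 (pvmnCells τ 1 9))
  hX : X0 < Xm
  he : Xm ≤ Xe
  hY : Y0 < Y1
  img : ∀ v ∈ tscBox X0 Xe Y0 Y1, M.ap v ∈ Bx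
  Bx_far : Disjoint Bx (pvtwN 9 (pvmnCells τ 1 9))
  /-- the strip ends in the coarse tube -/
  root : M.ap (Xe, Y0) ∈ pvbyTe τ Ae
  box_off : ∀ v ∈ pvtwN 2 (tscBox X0 Xm Y0 Y1), M.ap v ∉ pvbyTe τ Ae
  box_far : ∀ v ∈ pvtwN 2 (tscBox X0 Xm Y0 Y1), M.ap v ∉ pvmnBox (𝔑.nBx + 10)
  out : M.ap (Xm, Y0 - 1) ∈ pvtOut (pvbyTd τ Ae Bx)
  wit : ∃ x ∈ pvtrBd (pvmnK3 τ), x.2 ∈ pvmnDrp τ ∧ x.2 ∈ pvtOut (pvbyTd τ Ae Bx)

theorem pvby_eqns_cite2 : True := by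
  have := @pvbyTe.eq_1; have := @pvbyFe.eq_1; have := @pvbyTd.eq_1
  trivial

section entrance

variable {𝔑 : PvmnNum} {M : PvgwMap} {τ : PvmnType} {Ae Bx : Set (ℤ × ℤ)} {X0 Xm Xe Y0 Y1 : ℤ}

theorem PvbyCt.T_conn (I : PvbyCt 𝔑 M τ Ae Bx X0 Xm Xe Y0 Y1) : TscConn tscG (pvbyTe τ Ae) :=
  pvtw_N_conn (tsc_conn_union (I.tt.conn 0) I.conn (pvfjm_q0_mem I.tt) I.tip (Or.inl rfl))

theorem PvbyCt.T_fin (I : PvbyCt 𝔑 M τ Ae Bx X0 Xm Xe Y0 Y1) : (pvbyTe τ Ae).Finite :=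
  pvtw_N_finite ((τ.C 0).finite_toSet.union I.fin)

theorem PvbyCt.Ft_sub (I : PvbyCt 𝔑 M τ Ae Bx X0 Xm Xe Y0 Y1) : pvlktFt M τ (pvbyFe M τ Ae Xm Xe Y0 Y1) X0 Xm Y0 Y1 ⊆ M.pre (pvbyTd τ Ae Bx) := by
  rintro v ((⟨h1, h2, h3, h4⟩ | (⟨h1, h2, h3, h4⟩ | h)) | h)
  · exact Or.inl (Or.inl (I.img v ⟨h1, by have := I.he; omega, h3, h4⟩))
  · exact Or.inl (Or.inl (I.img v ⟨by have := I.hX; omega, h2, h3, h4⟩))
  · exact Or.inl (Or.inr h)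
  · exact Or.inr h

theorem PvbyCt.Q_off (I : PvbyCt 𝔑 M τ Ae Bx X0 Xm Xe Y0 Y1) {v : ℤ × ℤ} (h1 : X0 - 2 ≤ v.1) (h2 : v.1 ≤ Xm) (h3 : Y0 - 1 ≤ v.2) (h4 : v.2 ≤ Y0 + 1) (h5 : v ∉ tscBox X0 Xm Y0 Y1) :
    v ∈ (pvlktFt M τ (pvbyFe M τ Ae Xm Xe Y0 Y1) X0 Xm Y0 Y1)ᶜ := by
  have hX := I.hX
  have hY := I.hY
  have hN : v ∈ pvtwN 2 (tscBox X0 Xm Y0 Y1) :=
    ⟨(max v.1 X0, max v.2 Y0), ⟨by simp only; omega, by simp only; omega, by simp only; omega, by simp only; omega⟩, by simp only; push_cast; omega, by simp only; push_cast; omega,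
      by simp only; push_cast; omega, by simp only; push_cast; omega⟩
  rintro ((⟨g1, g2, g3, g4⟩ | (⟨g1, g2, g3, g4⟩ | h)) | h)
  · exact h5 ⟨g1, h2, g3, g4⟩
  · exact h5 ⟨by omega, h2, g3, g4⟩
  · exact I.box_off v hN h
  · exact I.box_far v hN (pvgw_cells_box I.tt (by omega) h)

/-- **THE TRANSFER, ENTRANCE SIDE** -/
theorem pvby_ht (I : PvbyCt 𝔑 M τ Ae Bx X0 Xm Xe Y0 Y1) : PvlktHt 𝔑 M τ (pvbyFe M τ Ae Xm Xe Y0 Y1) X0 Xm Y0 Y1 where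
  tt := I.tt
  fin := (tsc_box_finite _ _ _ _).union (pvgw_pre_finite M I.T_fin)
  conn := tsc_conn_union (pvby_box_conn _ _ _ _) (pvgw_pre_conn M I.T_conn) (a := (Xe, Y0)) (b := (Xe, Y0)) ⟨I.he, le_rfl, le_rfl, I.hY.le⟩ I.root (Or.inl rfl)
  touch := by
    obtain ⟨v, hv⟩ := pvby_ap_surj M (τ.q 1)
    refine ⟨v, Or.inr ?_, ?_⟩
    · show M.ap v ∈ pvbyTe τ Ae
      rw [hv]
      exact pvtw_N_sub (Or.inl (pvfjm_q1_mem0 I.tt))
    · rw [hv]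
      exact pvtw_N_sub (pvfjm_q1_mem1 I.tt)
  off := by
    rintro v (⟨h1, h2, h3, h4⟩ | h) h9
    · exact (Set.disjoint_left.1 I.Bx_far (I.img v ⟨by have := I.hX; omega, h2, h3, h4⟩) h9).elim
    · have h' : M.ap v ∈ pvtwN 1 (τ.C 0 : Set (ℤ × ℤ)) ∪ pvtwN 1 Ae := by
        rw [← pvtw_N_union]; exact h
      rcases h' with h' | h'
      · exact h'
      · exact (Set.disjoint_left.1 I.far h' h9).elim
  hX := I.hX
  hY := I.hY
  first := Or.inl ⟨le_rfl, I.he, le_rfl, I.hY.le⟩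
  box_Fa := by
    rw [Set.disjoint_left]
    rintro v ⟨h1, h2, h3, h4⟩ (⟨g1, g2, g3, g4⟩ | h)
    · omega
    · exact I.box_off v (pvtw_N_sub ⟨h1, by omega, h3, h4⟩) h
  box_far := I.box_far
  out := by
    intro v h1 h2 h3 h4 h5
    have h0 : (Xm, Y0 - 1) ∈ pvtOut (pvlktFt M τ (pvbyFe M τ Ae Xm Xe Y0 Y1) X0 Xm Y0 Y1) := pvby_pre_out M I.Ft_sub I.out
    have hX := I.hX
    have hY := I.hY
    have r1 : TscR tscG (pvlktFt M τ (pvbyFe M τ Ae Xm Xe Y0 Y1) X0 Xm Y0 Y1)ᶜ (v.1, Y0 - 1) (Xm, Y0 - 1) :=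
      pvby_seg_h h2 (fun i g1 g2 => I.Q_off (v := (i, Y0 - 1)) (by simp only; omega) g2 (by simp only; omega) (by simp only; omega) (fun hb => by have := hb.2.2.1; simp only at this; omega))
    have r2 : TscR tscG (pvlktFt M τ (pvbyFe M τ Ae Xm Xe Y0 Y1) X0 Xm Y0 Y1)ᶜ (v.1, Y0 - 1) (v.1, v.2) := by
      refine pvby_seg_v h3 (fun i g1 g2 => I.Q_off (v := (v.1, i)) h1 h2 g1 (by simp only; omega) (fun hb => ?_))
      obtain ⟨b1, b2, b3, b4⟩ := hb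
      simp only at b1 b2 b3 b4
      exact h5 ⟨b1, h2, by omega, by omega⟩
    exact pvt_out_R h0 (tsc_R_trans (tsc_R_symm r1) r2)
  wit := by
    obtain ⟨x, hx, hd, ho⟩ := I.wit
    obtain ⟨v, hv⟩ := pvby_ap_surj M x.2
    have hv' : v ∈ M.pre (pvtOut (pvbyTd τ Ae Bx)) := by
      show M.ap v ∈ pvtOut (pvbyTd τ Ae Bx)
      rw [hv]; exact ho
    exact ⟨x, hx, hd, v, pvby_pre_out M I.Ft_sub hv', hv⟩

theorem PvbyCt.hull_sub (I : PvbyCt 𝔑 M τ Ae Bx X0 Xm Xe Y0 Y1) : tscBox X0 (Xm - 1) Y0 Y1 ∪ pvbyFe M τ Ae Xm Xe Y0 Y1 ⊆ M.pre (Bx ∪ pvbyTe τ Ae) := by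
  rintro v (⟨h1, h2, h3, h4⟩ | (⟨h1, h2, h3, h4⟩ | h))
  · exact Or.inl (I.img v ⟨h1, by have := I.he; omega, h3, h4⟩)
  · exact Or.inl (I.img v ⟨by have := I.hX; omega, h2, h3, h4⟩)
  · exact Or.inr h

end entrance

/-! ## 4. the witnesses of the doors, in menu cells -/

section wit

variable {𝔑 : PvmnNum} {τ : PvmnType} {Q T : Set (ℤ × ℤ)} {a b c d : ℤ}

/-- **the dart of the entrance door from a set**: `Q` connected, starts in `K3`, leaves a box of the tube, meets the tube `N⁴ (cells 0..8) ∪ T` only in the first part, stays off the 5-tube of the pieces `1..9` -/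
theorem pvby_wit_m (hbox : pvtwN 4 (pvmnCells τ 0 9) ∪ T ⊆ tscBox a b c d) (hQ : TscConn tscG Q) (h1 : ∃ v ∈ Q, v ∈ pvmnK3 τ) (h2 : ∃ v ∈ Q, v ∉ tscBox a b c d)
    (hT : Disjoint Q T) (hs : Disjoint Q (pvtwN 5 (pvmnCells τ 1 9))) :
    ∃ x ∈ pvtrBd (pvmnK3 τ), x.2 ∈ pvmnDrm τ ∧ x.2 ∈ pvtOut (pvtwN 4 (pvmnCells τ 0 8) ∪ T) := by
  have hsub : pvtwN 4 (pvmnCells τ 0 8) ⊆ pvtwN 4 (pvmnCells τ 0 9) := pvtw_N_mono le_rfl (pvmn_cells_mono (by omega) (by omega))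
  have hF : pvtwN 4 (pvmnCells τ 0 8) ∪ T ⊆ tscBox a b c d := by
    rintro v (h | h)
    · exact hbox (Or.inl (hsub h))
    · exact hbox (Or.inr h)
  have hK : pvmnK3 τ ⊆ tscBox a b c d := pvt_hull_box (fun v hv => hbox (Or.inl hv))
  obtain ⟨w, hw, hwb⟩ := h2
  obtain ⟨x, hx, v, hvQ, hv, hvx⟩ := pvgw_wit_aux pvgwId (F := pvtwN 4 (pvmnCells τ 0 8) ∪ T) (K := pvmnK3 τ) hQ h1 ⟨w, hw, pvt_out_of_box hF hwb, fun h => hwb (hK h)⟩ (by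
    rintro v hv (h | h)
    · exact pvt_hull_sub (hsub h)
    · exact (Set.disjoint_left.1 hT hv h).elim)
  rw [pvgw_id_ap] at hvx
  subst hvx
  refine ⟨x, hx, ?_, hv⟩
  obtain ⟨k, _, k2, hk⟩ := pvmn_N_cells.1 (pvmn_K3_dart hx).2
  rcases Nat.eq_zero_or_pos k.1 with h | h
  · have : k = 0 := Fin.ext (by change k.1 = 0; omega)
    subst this
    exact pvtw_N_mono (by omega) le_rfl hk
  · exact (Set.disjoint_left.1 hs hvQ (pvmn_N_cells.2 ⟨k, by omega, by omega, hk⟩)).elim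

/-- the dart of the exit door from a set -/
theorem pvby_wit_p (hbox : pvtwN 4 (pvmnCells τ 0 9) ∪ T ⊆ tscBox a b c d) (hQ : TscConn tscG Q) (h1 : ∃ v ∈ Q, v ∈ pvmnK3 τ) (h2 : ∃ v ∈ Q, v ∉ tscBox a b c d)
    (hT : Disjoint Q T) (hs : Disjoint Q (pvtwN 5 (pvmnCells τ 0 8))) :
    ∃ x ∈ pvtrBd (pvmnK3 τ), x.2 ∈ pvmnDrp τ ∧ x.2 ∈ pvtOut (T ∪ pvtwN 4 (pvmnCells τ 1 9)) := by
  have hsub : pvtwN 4 (pvmnCells τ 1 9) ⊆ pvtwN 4 (pvmnCells τ 0 9) := pvtw_N_mono le_rfl (pvmn_cells_mono (by omega) (by omega))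
  have hF : T ∪ pvtwN 4 (pvmnCells τ 1 9) ⊆ tscBox a b c d := by
    rintro v (h | h)
    · exact hbox (Or.inr h)
    · exact hbox (Or.inl (hsub h))
  have hK : pvmnK3 τ ⊆ tscBox a b c d := pvt_hull_box (fun v hv => hbox (Or.inl hv))
  obtain ⟨w, hw, hwb⟩ := h2
  obtain ⟨x, hx, v, hvQ, hv, hvx⟩ := pvgw_wit_aux pvgwId (F := T ∪ pvtwN 4 (pvmnCells τ 1 9)) (K := pvmnK3 τ) hQ h1 ⟨w, hw, pvt_out_of_box hF hwb, fun h => hwb (hK h)⟩ (by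
    rintro v hv (h | h)
    · exact (Set.disjoint_left.1 hT hv h).elim
    · exact pvt_hull_sub (hsub h))
  rw [pvgw_id_ap] at hvx
  subst hvx
  refine ⟨x, hx, ?_, hv⟩
  obtain ⟨k, _, k2, hk⟩ := pvmn_N_cells.1 (pvmn_K3_dart hx).2
  rcases Nat.lt_or_ge k.1 9 with h | h
  · exact (Set.disjoint_left.1 hs hvQ (pvmn_N_cells.2 ⟨k, by omega, by omega, hk⟩)).elim
  · have : k = 9 := Fin.ext (by change k.1 = 9; omega)
    subst this
    exact pvtw_N_mono (by omega) le_rfl hk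

/-- `pvby_wit_m` at the coarse tube of `b` -/
theorem pvby_wit_b {Ab Bx : Set (ℤ × ℤ)} (hbox : pvtwN 4 (pvmnCells τ 0 9) ∪ (pvbyT τ Ab ∪ Bx) ⊆ tscBox a b c d) (hQ : TscConn tscG Q) (h1 : ∃ v ∈ Q, v ∈ pvmnK3 τ) (h2 : ∃ v ∈ Q, v ∉ tscBox a b c d)
    (hT : Disjoint Q (pvbyT τ Ab ∪ Bx)) (hs : Disjoint Q (pvtwN 5 (pvmnCells τ 1 9))) :
    ∃ x ∈ pvtrBd (pvmnK3 τ), x.2 ∈ pvmnDrm τ ∧ x.2 ∈ pvtOut (pvbyTc τ Ab Bx) := by
  have := pvby_wit_m hbox hQ h1 h2 hT hs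
  rwa [← Set.union_assoc] at this

/-- `pvby_wit_p` at the coarse tube of `e` -/
theorem pvby_wit_e {Ae Bx : Set (ℤ × ℤ)} (hbox : pvtwN 4 (pvmnCells τ 0 9) ∪ (Bx ∪ pvbyTe τ Ae) ⊆ tscBox a b c d) (hQ : TscConn tscG Q) (h1 : ∃ v ∈ Q, v ∈ pvmnK3 τ) (h2 : ∃ v ∈ Q, v ∉ tscBox a b c d)
    (hT : Disjoint Q (Bx ∪ pvbyTe τ Ae)) (hs : Disjoint Q (pvtwN 5 (pvmnCells τ 0 8))) :
    ∃ x ∈ pvtrBd (pvmnK3 τ), x.2 ∈ pvmnDrp τ ∧ x.2 ∈ pvtOut (pvbyTd τ Ae Bx) :=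
  pvby_wit_p hbox hQ h1 h2 hT hs

end wit

/-! ## 5. floor division, aligned strips: everything in menu cells -/

section div

variable {k : ℤ} (hk : 0 < k) (o : ℤ × ℤ)

theorem pvby_div_ap (v : ℤ × ℤ) : (pvgwDiv k hk o).ap v = ((v.1 - o.1) / k, (v.2 - o.2) / k) := rfl

include hk in
theorem pvby_le_div {x c a : ℤ} : a ≤ (x - c) / k ↔ k * a + c ≤ x := by
  rw [Int.le_ediv_iff_mul_le hk, mul_comm]
  constructor <;> intro h <;> omega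

include hk in
theorem pvby_div_le {x c a : ℤ} : (x - c) / k ≤ a ↔ x ≤ k * a + c + k - 1 := by
  rw [← Int.lt_add_one_iff, Int.ediv_lt_iff_lt_mul hk, add_mul, one_mul, mul_comm]
  constructor <;> intro h <;> omega

/-- the link cells over a box of menu cells -/
theorem pvby_div_box {a a' b b' : ℤ} {v : ℤ × ℤ} : (pvgwDiv k hk o).ap v ∈ tscBox a a' b b' ↔ v ∈ tscBox (k * a + o.1) (k * a' + o.1 + k - 1) (k * b + o.2) (k * b' + o.2 + k - 1) := by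
  rw [pvby_div_ap]
  show (_ ∧ _ ∧ _ ∧ _) ↔ (_ ∧ _ ∧ _ ∧ _)
  simp only
  rw [pvby_le_div hk, pvby_div_le hk, pvby_le_div hk, pvby_div_le hk]

theorem pvby_div_pre_box (a a' b b' : ℤ) : (pvgwDiv k hk o).pre (tscBox a a' b b') = tscBox (k * a + o.1) (k * a' + o.1 + k - 1) (k * b + o.2) (k * b' + o.2 + k - 1) :=
  Set.ext fun _ => pvby_div_box hk o

theorem pvby_div_corner (c : ℤ × ℤ) : (pvgwDiv k hk o).ap (k * c.1 + o.1, k * c.2 + o.2) = c := by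
  rw [pvby_div_ap]
  simp only [add_sub_cancel_right]
  rw [Int.mul_ediv_cancel_left _ hk.ne', Int.mul_ediv_cancel_left _ hk.ne']

end div

/-- **THE CLAUSES OF `b`, ALIGNED STRIP, MENU CELLS ONLY**: the strip = the menu cells `[a0, am] × [b0, b1]`, the end box = `[am + 1, a1] × [b0, b1]` -/
structure PvbyAs (𝔑 : PvmnNum) (τ : PvmnType) (Ab : Set (ℤ × ℤ)) (a0 am a1 b0 b1 : ℤ) : Prop where
  ts : PvmnIsType 𝔑 τ
  fin : Ab.Finite
  conn : TscConn tscG Ab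
  tip : τ.q 10 ∈ Ab
  far : Disjoint (pvtwN 1 Ab) (pvtwN 9 (pvmnCells τ 0 8))
  h0 : a0 ≤ am
  h1 : am < a1
  hb : b0 ≤ b1
  Bx_far : Disjoint (tscBox a0 a1 b0 b1) (pvtwN 9 (pvmnCells τ 0 8))
  root : (a0, b0) ∈ pvbyT τ Ab
  box_off : Disjoint (tscBox am (a1 + 1) (b0 - 1) (b1 + 1)) (pvbyT τ Ab)
  box_far : Disjoint (tscBox am (a1 + 1) (b0 - 1) (b1 + 1)) (pvmnBox (𝔑.nBx + 10))
  out : (am, b0 - 1) ∈ pvtOut (pvbyTc τ Ab (tscBox a0 a1 b0 b1))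
  wit : ∃ x ∈ pvtrBd (pvmnK3 τ), x.2 ∈ pvmnDrm τ ∧ x.2 ∈ pvtOut (pvbyTc τ Ab (tscBox a0 a1 b0 b1))

/-- **THE CLAUSES OF `e`, ALIGNED STRIP, MENU CELLS ONLY**: the start box = `[a0, am - 1] × [b0, b1]`, the strip = `[am, ae] × [b0, b1]` -/
structure PvbyAt (𝔑 : PvmnNum) (τ : PvmnType) (Ae : Set (ℤ × ℤ)) (a0 am ae b0 b1 : ℤ) : Prop where
  tt : PvmnIsType 𝔑 τ
  fin : Ae.Finite
  conn : TscConn tscG Ae
  tip : τ.q 0 ∈ Ae
  far : Disjoint (pvtwN 1 Ae) (pvtwN 9 (pvmnCells τ 1 9))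
  h0 : a0 < am
  h1 : am ≤ ae
  hb : b0 ≤ b1
  Bx_far : Disjoint (tscBox a0 ae b0 b1) (pvtwN 9 (pvmnCells τ 1 9))
  root : (ae, b0) ∈ pvbyTe τ Ae
  box_off : Disjoint (tscBox (a0 - 1) am (b0 - 1) (b1 + 1)) (pvbyTe τ Ae)
  box_far : Disjoint (tscBox (a0 - 1) am (b0 - 1) (b1 + 1)) (pvmnBox (𝔑.nBx + 10))
  out : (am, b0 - 1) ∈ pvtOut (pvbyTd τ Ae (tscBox a0 ae b0 b1))
  wit : ∃ x ∈ pvtrBd (pvmnK3 τ), x.2 ∈ pvmnDrp τ ∧ x.2 ∈ pvtOut (pvbyTd τ Ae (tscBox a0 ae b0 b1))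

section aligned

variable {𝔑 : PvmnNum} {τ : PvmnType} {Ab Ae : Set (ℤ × ℤ)} {a0 am a1 ae b0 b1 : ℤ} {k : ℤ} (hk : 0 < k) (o : ℤ × ℤ)

theorem pvby_cs_div (h3 : 3 ≤ k) (I : PvbyAs 𝔑 τ Ab a0 am a1 b0 b1) :
    PvbyCs 𝔑 (pvgwDiv k hk o) τ Ab (tscBox a0 a1 b0 b1) (k * a0 + o.1) (k * am + o.1 + k - 1) (k * a1 + o.1 + k - 1) (k * b0 + o.2) (k * b1 + o.2 + k - 1) := by
  have e0 : k * a0 ≤ k * am := mul_le_mul_of_nonneg_left I.h0 hk.le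
  have e1 : k * (am + 1) ≤ k * a1 := mul_le_mul_of_nonneg_left I.h1 hk.le
  have e2 : k * b0 ≤ k * b1 := mul_le_mul_of_nonneg_left I.hb hk.le
  rw [mul_add, mul_one] at e1
  have hN : ∀ v ∈ pvtwN 2 (tscBox (k * am + o.1 + k - 1) (k * a1 + o.1 + k - 1) (k * b0 + o.2) (k * b1 + o.2 + k - 1)), (pvgwDiv k hk o).ap v ∈ tscBox am (a1 + 1) (b0 - 1) (b1 + 1) := by
    rintro v ⟨z, ⟨z1, z2, z3, z4⟩, g1, g2, g3, g4⟩
    rw [pvby_div_box]
    push_cast at g1 g2 g3 g4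
    refine ⟨by omega, ?_, ?_, ?_⟩
    · rw [mul_add, mul_one]; omega
    · rw [mul_sub, mul_one]; omega
    · rw [mul_add, mul_one]; omega
  exact
    { ts := I.ts
      fin := I.fin
      conn := I.conn
      tip := I.tip
      far := I.far
      hs := by omega
      hX := by omega
      hY := by omega
      img := fun v hv => (pvby_div_box hk o).2 hv
      Bx_far := I.Bx_far
      root := by
        have := pvby_div_corner hk o (a0, b0)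
        simp only at this
        rw [this]; exact I.root
      box_off := fun v hv => Set.disjoint_left.1 I.box_off (hN v hv)
      box_far := fun v hv => Set.disjoint_left.1 I.box_far (hN v hv)
      out := by
        have : (pvgwDiv k hk o).ap (k * am + o.1 + k - 1, k * b0 + o.2 - 1) = (am, b0 - 1) := by
          have h := (pvby_div_box hk o (a := am) (a' := am) (b := b0 - 1) (b' := b0 - 1) (v := (k * am + o.1 + k - 1, k * b0 + o.2 - 1))).2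
            ⟨by simp only; omega, by simp only; omega, by simp only; rw [mul_sub, mul_one]; omega, by simp only; rw [mul_sub, mul_one]; omega⟩
          obtain ⟨p1, p2, p3, p4⟩ := h
          exact Prod.ext (le_antisymm p2 p1) (le_antisymm p4 p3)
        rw [this]; exact I.out
      wit := I.wit }

/-- **`PvlktHs` FROM MENU CELLS** -/
theorem pvby_hs_div (h3 : 3 ≤ k) (I : PvbyAs 𝔑 τ Ab a0 am a1 b0 b1) :
    PvlktHs 𝔑 (pvgwDiv k hk o) τ (pvbyFa (pvgwDiv k hk o) τ Ab (k * a0 + o.1) (k * am + o.1 + k - 1) (k * b0 + o.2) (k * b1 + o.2 + k - 1)) (k * am + o.1 + k - 1) (k * a1 + o.1 + k - 1) (k * b0 + o.2) (k * b1 + o.2 + k - 1) :=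
  pvby_hs (pvby_cs_div hk o h3 I)

/-- at an aligned strip the tube of the arc is a refinement -/
theorem pvby_Fa_div : pvbyFa (pvgwDiv k hk o) τ Ab (k * a0 + o.1) (k * am + o.1 + k - 1) (k * b0 + o.2) (k * b1 + o.2 + k - 1) = (pvgwDiv k hk o).pre (pvbyT τ Ab ∪ tscBox a0 am b0 b1) := by
  rw [pvgw_pre_union, pvby_div_pre_box]
  rfl

theorem pvby_ct_div (h3 : 3 ≤ k) (I : PvbyAt 𝔑 τ Ae a0 am ae b0 b1) :
    PvbyCt 𝔑 (pvgwDiv k hk o) τ Ae (tscBox a0 ae b0 b1) (k * a0 + o.1) (k * am + o.1) (k * ae + o.1 + k - 1) (k * b0 + o.2) (k * b1 + o.2 + k - 1) := by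
  have e0 : k * (a0 + 1) ≤ k * am := mul_le_mul_of_nonneg_left I.h0 hk.le
  have e1 : k * am ≤ k * ae := mul_le_mul_of_nonneg_left I.h1 hk.le
  have e2 : k * b0 ≤ k * b1 := mul_le_mul_of_nonneg_left I.hb hk.le
  rw [mul_add, mul_one] at e0
  have hN : ∀ v ∈ pvtwN 2 (tscBox (k * a0 + o.1) (k * am + o.1) (k * b0 + o.2) (k * b1 + o.2 + k - 1)), (pvgwDiv k hk o).ap v ∈ tscBox (a0 - 1) am (b0 - 1) (b1 + 1) := by
    rintro v ⟨z, ⟨z1, z2, z3, z4⟩, g1, g2, g3, g4⟩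
    rw [pvby_div_box]
    push_cast at g1 g2 g3 g4
    refine ⟨?_, by omega, ?_, ?_⟩
    · rw [mul_sub, mul_one]; omega
    · rw [mul_sub, mul_one]; omega
    · rw [mul_add, mul_one]; omega
  exact
    { tt := I.tt
      fin := I.fin
      conn := I.conn
      tip := I.tip
      far := I.far
      hX := by omega
      he := by omega
      hY := by omega
      img := fun v hv => (pvby_div_box hk o).2 hv
      Bx_far := I.Bx_far
      root := by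
        have : (pvgwDiv k hk o).ap (k * ae + o.1 + k - 1, k * b0 + o.2) = (ae, b0) := by
          have h := (pvby_div_box hk o (a := ae) (a' := ae) (b := b0) (b' := b0) (v := (k * ae + o.1 + k - 1, k * b0 + o.2))).2
            ⟨by simp only; omega, by simp only; omega, by simp only; omega, by simp only; omega⟩
          obtain ⟨p1, p2, p3, p4⟩ := h
          exact Prod.ext (le_antisymm p2 p1) (le_antisymm p4 p3)
        rw [this]; exact I.root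
      box_off := fun v hv => Set.disjoint_left.1 I.box_off (hN v hv)
      box_far := fun v hv => Set.disjoint_left.1 I.box_far (hN v hv)
      out := by
        have : (pvgwDiv k hk o).ap (k * am + o.1, k * b0 + o.2 - 1) = (am, b0 - 1) := by
          have h := (pvby_div_box hk o (a := am) (a' := am) (b := b0 - 1) (b' := b0 - 1) (v := (k * am + o.1, k * b0 + o.2 - 1))).2
            ⟨by simp only; omega, by simp only; omega, by simp only; rw [mul_sub, mul_one]; omega, by simp only; rw [mul_sub, mul_one]; omega⟩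
          obtain ⟨p1, p2, p3, p4⟩ := h
          exact Prod.ext (le_antisymm p2 p1) (le_antisymm p4 p3)
        rw [this]; exact I.out
      wit := I.wit }

/-- **`PvlktHt` FROM MENU CELLS** -/
theorem pvby_ht_div (h3 : 3 ≤ k) (I : PvbyAt 𝔑 τ Ae a0 am ae b0 b1) :
    PvlktHt 𝔑 (pvgwDiv k hk o) τ (pvbyFe (pvgwDiv k hk o) τ Ae (k * am + o.1) (k * ae + o.1 + k - 1) (k * b0 + o.2) (k * b1 + o.2 + k - 1)) (k * a0 + o.1) (k * am + o.1) (k * b0 + o.2) (k * b1 + o.2 + k - 1) :=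
  pvby_ht (pvby_ct_div hk o h3 I)

theorem pvby_Fe_div : pvbyFe (pvgwDiv k hk o) τ Ae (k * am + o.1) (k * ae + o.1 + k - 1) (k * b0 + o.2) (k * b1 + o.2 + k - 1) = (pvgwDiv k hk o).pre (tscBox am ae b0 b1 ∪ pvbyTe τ Ae) := by
  rw [pvgw_pre_union, pvby_div_pre_box]
  rfl

end aligned

/-! ## 6. the layout of record of `b` (164, `Tr/LinkLay`): geometry in menu cells -/

section geo

variable {q a d : ℤ × ℤ} {L : ℤ} {n : ℕ} {x : ℤ × ℤ}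

theorem pvby_inf_out {S F : Set (ℤ × ℤ)} (hc : TscConn tscG S) (hd : Disjoint S F) (hi : S.Infinite) : S ⊆ pvtOut F := by
  intro u hu B hB
  obtain ⟨t, htS, htB⟩ := hi.exists_notMem_finite hB
  exact ⟨t, htB, tsc_R_mono (fun y hy hF => Set.disjoint_left.1 hd hy hF) (hc u hu t htS)⟩

theorem pvby_ray_inf (ha : PvfjDir a) : (pvlzRay q a).Infinite := by
  refine Set.infinite_of_injective_forall_mem (f := fun j : ℕ => (q.1 + (j : ℤ) * a.1, q.2 + (j : ℤ) * a.2)) ?_ (fun j => ⟨j, rfl⟩)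
  intro i j h
  simp only [Prod.mk.injEq] at h
  obtain ⟨h1, h2⟩ := h
  rcases ha with rfl | rfl | rfl | rfl <;> simp only at h1 h2 <;> omega

theorem pvby_pre_inf (M : PvgwMap) {E : Set (ℤ × ℤ)} (h : E.Infinite) : (M.pre E).Infinite := by
  intro hf
  refine h ((hf.image M.ap).subset ?_)
  intro c hc
  obtain ⟨v, hv⟩ := pvby_ap_surj M c
  exact ⟨v, by show M.ap v ∈ E; rw [hv]; exact hc, hv⟩

/-- the block of `u` (with the front column and the stub of the axis of `e`) is off the box of the plug and near the entrance ray -/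
theorem pvby_block (ha : PvfjDir a) (hq : q ∈ pvmnBox n) (hL : L = 2 * (n : ℤ) + 60)
    (hx : x ∈ tscBox ((pvlzCu q a L).1 - 9) ((pvlzCu q a L).1 + 24) ((pvlzCu q a L).2 - 1) ((pvlzCu q a L).2 + 2)) : x ∉ pvmnBox (n + 35) ∧ x ∈ pvtwN 33 (pvlzRay q a) ∧ x ∈ pvmnBox (3 * n + 100) := by
  obtain ⟨h1, h2, h3, h4⟩ := hq
  obtain ⟨x1, x2, x3, x4⟩ := hx
  rcases ha with rfl | rfl | rfl | rfl
  · rw [pvlz_cu_E] at x1 x2 x3 x4
    simp only at x1 x2 x3 x4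
    refine ⟨fun hb => ?_, pvlz_mem_N_ray (x.1 - q.1) (by omega) (by rw [abs_le]; constructor <;> push_cast <;> omega) (by rw [abs_le]; constructor <;> push_cast <;> omega), ?_⟩
    · obtain ⟨b1, b2, b3, b4⟩ := hb
      push_cast at b1 b2 b3 b4; omega
    · unfold pvmnBox; push_cast; exact ⟨by omega, by omega, by omega, by omega⟩
  · rw [pvlz_cu_W] at x1 x2 x3 x4
    simp only at x1 x2 x3 x4
    refine ⟨fun hb => ?_, pvlz_mem_N_ray (q.1 - x.1) (by omega) (by rw [abs_le]; constructor <;> push_cast <;> omega) (by rw [abs_le]; constructor <;> push_cast <;> omega), ?_⟩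
    · obtain ⟨b1, b2, b3, b4⟩ := hb
      push_cast at b1 b2 b3 b4; omega
    · unfold pvmnBox; push_cast; exact ⟨by omega, by omega, by omega, by omega⟩
  · rw [pvlz_cu_N] at x1 x2 x3 x4
    simp only at x1 x2 x3 x4
    refine ⟨fun hb => ?_, pvlz_mem_N_ray (x.2 - q.2) (by omega) (by rw [abs_le]; constructor <;> push_cast <;> omega) (by rw [abs_le]; constructor <;> push_cast <;> omega), ?_⟩
    · obtain ⟨b1, b2, b3, b4⟩ := hb
      push_cast at b1 b2 b3 b4; omega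
    · unfold pvmnBox; push_cast; exact ⟨by omega, by omega, by omega, by omega⟩
  · rw [pvlz_cu_S] at x1 x2 x3 x4
    simp only at x1 x2 x3 x4
    refine ⟨fun hb => ?_, pvlz_mem_N_ray (q.2 - x.2) (by omega) (by rw [abs_le]; constructor <;> push_cast <;> omega) (by rw [abs_le]; constructor <;> push_cast <;> omega), ?_⟩
    · obtain ⟨b1, b2, b3, b4⟩ := hb
      push_cast at b1 b2 b3 b4; omega
    · unfold pvmnBox; push_cast; exact ⟨by omega, by omega, by omega, by omega⟩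

/-- the admissible directions of the escape ray -/
def PvbyDe (a d : ℤ × ℤ) : Prop := (a ≠ (-1, 0) ∧ d = a) ∨ (a = (-1, 0) ∧ (d = (0, 1) ∨ d = (0, -1)))

theorem PvbyDe.dir (ha : PvfjDir a) (hd : PvbyDe a d) : PvfjDir d := by
  rcases hd with ⟨_, rfl⟩ | ⟨_, rfl | rfl⟩
  · exact ha
  · exact Or.inr (Or.inr (Or.inl rfl))
  · exact Or.inr (Or.inr (Or.inr rfl))

/-- the escape ray is off the box of the plug and East of the stub -/
theorem pvby_Re_box (ha : PvfjDir a) (hd : PvbyDe a d) (hq : q ∈ pvmnBox n) (hL : L = 2 * (n : ℤ) + 60)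
    (hx : x ∈ pvlzRay ((pvlzCu q a L).1 + 24, (pvlzCu q a L).2) d) : x ∉ pvmnBox (n + 35) ∧ (pvlzCu q a L).1 + 24 ≤ x.1 := by
  obtain ⟨h1, h2, h3, h4⟩ := hq
  obtain ⟨j, rfl⟩ := hx
  rcases ha with rfl | rfl | rfl | rfl
  · rcases hd with ⟨_, rfl⟩ | ⟨h, _⟩
    · rw [pvlz_cu_E]
      refine ⟨fun hb => ?_, by simp only; omega⟩
      obtain ⟨b1, b2, b3, b4⟩ := hb
      push_cast at b1 b2 b3 b4; omega
    · simp at h
  · rcases hd with ⟨h, _⟩ | ⟨_, rfl | rfl⟩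
    · exact (h rfl).elim
    · rw [pvlz_cu_W]
      refine ⟨fun hb => ?_, by simp only; omega⟩
      obtain ⟨b1, b2, b3, b4⟩ := hb
      push_cast at b1 b2 b3 b4; omega
    · rw [pvlz_cu_W]
      refine ⟨fun hb => ?_, by simp only; omega⟩
      obtain ⟨b1, b2, b3, b4⟩ := hb
      push_cast at b1 b2 b3 b4; omega
  · rcases hd with ⟨_, rfl⟩ | ⟨h, _⟩
    · rw [pvlz_cu_N]
      refine ⟨fun hb => ?_, by simp only; omega⟩
      obtain ⟨b1, b2, b3, b4⟩ := hb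
      push_cast at b1 b2 b3 b4; omega
    · simp at h
  · rcases hd with ⟨_, rfl⟩ | ⟨h, _⟩
    · rw [pvlz_cu_S]
      refine ⟨fun hb => ?_, by simp only; omega⟩
      obtain ⟨b1, b2, b3, b4⟩ := hb
      push_cast at b1 b2 b3 b4; omega
    · simp at h

/-- if the entrance ray does not head West the escape ray runs along it -/
theorem pvby_Re_ray (ha : PvfjDir a) (hW : a ≠ (-1, 0)) (hL : 0 ≤ L) (hx : x ∈ pvlzRay ((pvlzCu q a L).1 + 24, (pvlzCu q a L).2) a) : x ∈ pvtwN 24 (pvlzRay q a) := by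
  obtain ⟨j, rfl⟩ := hx
  rcases ha with rfl | rfl | rfl | rfl
  · rw [pvlz_cu_E]
    exact pvlz_mem_N_ray (L + 24 + j) (by omega) (by rw [abs_le]; constructor <;> simp only <;> push_cast <;> omega) (by rw [abs_le]; constructor <;> simp only <;> push_cast <;> omega)
  · exact (hW rfl).elim
  · rw [pvlz_cu_N]
    exact pvlz_mem_N_ray (L + j) (by omega) (by rw [abs_le]; constructor <;> simp only <;> push_cast <;> omega) (by rw [abs_le]; constructor <;> simp only <;> push_cast <;> omega)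
  · rw [pvlz_cu_S]
    exact pvlz_mem_N_ray (L + j) (by omega) (by rw [abs_le]; constructor <;> simp only <;> push_cast <;> omega) (by rw [abs_le]; constructor <;> simp only <;> push_cast <;> omega)

/-- the access ray of `u` stays West of the body -/
theorem pvby_wm_west (ha : PvfjDir a) (hx : x ∈ pvlzRay (pvlzFr q a L) (pvlzDw a)) : x.1 ≤ (pvlzCu q a L).1 - 9 := by
  obtain ⟨j, rfl⟩ := hx
  rw [pvlz_fr_fst]
  rcases ha with rfl | rfl | rfl | rfl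
  · rw [pvlz_dw_E]; simp only; omega
  · rw [pvlz_dw_W]; simp only; omega
  · rw [pvlz_dw_N]; simp only; omega
  · rw [pvlz_dw_S]; simp only; omega

/-- a cell of the axis of `e` lies on the entrance ray or off the box of the plug -/
theorem pvby_ax_or (ha : PvfjDir a) (hq : q ∈ pvmnBox n) (hL : L = 2 * (n : ℤ) + 60) (hx : x ∈ pvlzAx q a L) : x ∈ pvlzRay q a ∨ x ∉ pvmnBox (n + 35) := by
  obtain ⟨h1, h2, h3, h4⟩ := hq
  have key : ∀ j : ℤ, 0 ≤ j → x = (q.1 + j * a.1, q.2 + j * a.2) → x ∈ pvlzRay q a := by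
    intro j hj e
    exact ⟨j.toNat, by rw [Int.toNat_of_nonneg hj]; exact e⟩
  rcases ha with rfl | rfl | rfl | rfl
  · rw [pvlz_ax_E] at hx
    rcases hx with (⟨k1, k2, k3, k4⟩ | ⟨k1, k2, k3, k4⟩) | ⟨k1, k2, k3, k4⟩
    · exact Or.inl (key (x.1 - q.1) (by omega) (Prod.ext (by simp only; omega) (by simp only; omega)))
    · refine Or.inr (fun hb => ?_)
      obtain ⟨b1, b2, b3, b4⟩ := hb
      push_cast at b1 b2 b3 b4; omega
    · refine Or.inr (fun hb => ?_)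
      obtain ⟨b1, b2, b3, b4⟩ := hb
      push_cast at b1 b2 b3 b4; omega
  · rw [pvlz_ax_W] at hx
    obtain ⟨k1, k2, k3, k4⟩ := hx
    exact Or.inl (key (q.1 - x.1) (by omega) (Prod.ext (by simp only; omega) (by simp only; omega)))
  · rw [pvlz_ax_N] at hx
    rcases hx with ⟨k1, k2, k3, k4⟩ | ⟨k1, k2, k3, k4⟩
    · exact Or.inl (key (x.2 - q.2) (by omega) (Prod.ext (by simp only; omega) (by simp only; omega)))
    · refine Or.inr (fun hb => ?_)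
      obtain ⟨b1, b2, b3, b4⟩ := hb
      push_cast at b1 b2 b3 b4; omega
  · rw [pvlz_ax_S] at hx
    rcases hx with ⟨k1, k2, k3, k4⟩ | ⟨k1, k2, k3, k4⟩
    · exact Or.inl (key (q.2 - x.2) (by omega) (Prod.ext (by simp only; omega) (by simp only; omega)))
    · refine Or.inr (fun hb => ?_)
      obtain ⟨b1, b2, b3, b4⟩ := hb
      push_cast at b1 b2 b3 b4; omega

/-- the axis of `e` misses the menu cells of the strip of `b` -/
theorem pvby_ax_strip (ha : PvfjDir a) (hL : 60 ≤ L) (hx : x ∈ pvlzAx q a L) :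
    x ∉ tscBox ((pvlzCu q a L).1 - 9) ((pvlzCu q a L).1 + 7) ((pvlzCu q a L).2 - 1) ((pvlzCu q a L).2 + 2) := by
  rintro ⟨x1, x2, x3, x4⟩
  rcases ha with rfl | rfl | rfl | rfl
  · rw [pvlz_ax_E] at hx
    rw [pvlz_cu_E] at x1 x2 x3 x4
    simp only at x1 x2 x3 x4
    rcases hx with (⟨k1, k2, k3, k4⟩ | ⟨k1, k2, k3, k4⟩) | ⟨k1, k2, k3, k4⟩ <;> omega
  · rw [pvlz_ax_W] at hx
    rw [pvlz_cu_W] at x1 x2 x3 x4
    simp only at x1 x2 x3 x4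
    obtain ⟨k1, k2, k3, k4⟩ := hx
    omega
  · rw [pvlz_ax_N] at hx
    rw [pvlz_cu_N] at x1 x2 x3 x4
    simp only at x1 x2 x3 x4
    rcases hx with ⟨k1, k2, k3, k4⟩ | ⟨k1, k2, k3, k4⟩ <;> omega
  · rw [pvlz_ax_S] at hx
    rw [pvlz_cu_S] at x1 x2 x3 x4
    simp only at x1 x2 x3 x4
    rcases hx with ⟨k1, k2, k3, k4⟩ | ⟨k1, k2, k3, k4⟩ <;> omega

end geo

section rec

variable {𝔑 : PvmnNum} {τ : PvmnType} {x : ℤ × ℤ}

/-- `sep` of ACC, any two collars -/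
theorem pvby_sep {ap am : ℤ × ℤ} (hA : PvlzAcc 𝔑 τ ap am) {i j : ℕ} (hij : i + j ≤ 60)
    (h1 : x ∈ pvtwN i (pvlzRay (τ.q 10) ap ∪ (τ.C 9 : Set (ℤ × ℤ)))) (h2 : x ∈ pvtwN j (pvlzRay (τ.q 0) am ∪ (τ.C 0 : Set (ℤ × ℤ)))) : False := by
  obtain ⟨c, hc, c1, c2, c3, c4⟩ := h1
  obtain ⟨r, hr, r1, r2, r3, r4⟩ := h2
  have := pvlz_far_of_disj hA.sep hc hr
  push_cast at this
  rcases this with h | h <;> rw [lt_abs] at h <;> omega

theorem pvby_sep' {ap am : ℤ × ℤ} (hA : PvlzAcc 𝔑 τ ap am) {i j : ℕ} (hij : i + j ≤ 60)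
    (h1 : x ∈ pvtwN i (pvlzRay (τ.q 10) ap ∪ (τ.C 9 : Set (ℤ × ℤ)))) (h2 : x ∈ pvtwN j (pvlzRay (τ.q 0) am)) : False :=
  pvby_sep hA hij h1 (pvtw_N_mono le_rfl Set.subset_union_left h2)

theorem pvby_De_spec (𝔑 : PvmnNum) (τ : PvmnType) : PvbyDe (pvlzAm 𝔑 τ) (pvlktDe 𝔑 τ) := by
  unfold pvlktDe
  split_ifs with h1 h2
  · exact Or.inr ⟨h1, Or.inl rfl⟩
  · exact Or.inr ⟨h1, Or.inr rfl⟩
  · exact Or.inl ⟨h1, rfl⟩

theorem pvby_q10_box (hτ : PvmnIsType 𝔑 τ) : τ.q 10 ∈ pvmnBox 𝔑.nBx := hτ.box 9 (pvby_q10_mem9 hτ)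

/-- **the escape ray is off the exit ray and the last piece** -/
theorem pvby_Re_sep (hτ : PvmnIsType 𝔑 τ) (hacc : PvlzHasAcc 𝔑 τ) (hx : x ∈ pvlktRe 𝔑 τ) : x ∉ pvtwN 1 (pvlzRay (τ.q 10) (pvlzAp 𝔑 τ) ∪ (τ.C 9 : Set (ℤ × ℤ))) := by
  have hA := pvlz_acc_spec hacc
  intro h1
  by_cases hW : pvlzAm 𝔑 τ = (-1, 0)
  · obtain ⟨c, hc, c1, c2, c3, c4⟩ := h1
    obtain ⟨a1, a2, a3, a4⟩ := pvlz_q0_box hτ
    obtain ⟨b1, b2, b3, b4⟩ := pvby_q10_box hτ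
    have hx1 : x.1 = (τ.q 0).1 - pvlzL 𝔑 + 24 ∧ (((τ.q 10).2 ≤ (τ.q 0).2 ∧ (τ.q 0).2 ≤ x.2) ∨ ((τ.q 0).2 < (τ.q 10).2 ∧ x.2 ≤ (τ.q 0).2)) := by
      unfold pvlktRe pvlzC pvlktDe at hx
      rw [hW, pvlz_cu_W, if_pos rfl] at hx
      obtain ⟨j, rfl⟩ := hx
      split_ifs with h
      · exact ⟨by simp only; omega, Or.inl ⟨h, by simp only; omega⟩⟩
      · exact ⟨by simp only; omega, Or.inr ⟨by omega, by simp only; omega⟩⟩
    obtain ⟨e1, e2⟩ := hx1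
    have hL : pvlzL 𝔑 = 2 * (𝔑.nBx : ℤ) + 60 := rfl
    push_cast at c1 c2 c3 c4
    rcases hc with hc | hc
    · obtain ⟨i, hi⟩ := id hc
      have i1 := congrArg Prod.fst hi
      have i2 := congrArg Prod.snd hi
      simp only at i1 i2
      rcases hA.ap_dir with h | h | h | h
      · rw [h] at i1 i2; simp only at i1 i2; omega
      · rw [h] at i1 i2
        simp only at i1 i2
        refine pvby_sep' (x := c) hA (i := 0) (j := 1) (by omega) (pvtw_N_sub (Or.inl hc)) ?_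
        rw [hW]
        exact pvlz_mem_N_ray ((τ.q 0).1 - c.1) (by omega) (by rw [abs_le]; constructor <;> simp only <;> push_cast <;> omega)
          (by rw [abs_le]; constructor <;> simp only <;> push_cast <;> omega)
      · rw [h] at i1 i2; simp only at i1 i2; omega
      · rw [h] at i1 i2; simp only at i1 i2; omega
    · obtain ⟨d1, d2, d3, d4⟩ := hτ.box 9 hc
      omega
  · have hd : pvlktDe 𝔑 τ = pvlzAm 𝔑 τ := by
      unfold pvlktDe; rw [if_neg hW]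
    unfold pvlktRe pvlzC at hx
    rw [hd] at hx
    exact pvby_sep' hA (by omega) h1 (pvby_Re_ray hA.am_dir hW (by unfold pvlzL; omega) hx)

/-- **a cell is off the coarse tube of the arc of `b`** -/
theorem pvby_free (p2 : x ∉ pvtwN 1 (pvlzRay (τ.q 10) (pvlzAp 𝔑 τ) ∪ (τ.C 9 : Set (ℤ × ℤ))))
    (p3 : x ∉ pvtwN 1 (pvlzRay (pvlzFr (τ.q 0) (pvlzAm 𝔑 τ) (pvlzL 𝔑)) (pvlzDw (pvlzAm 𝔑 τ)))) (p4 : x ∈ pvmnBox (3 * 𝔑.nBx + 100) ∨ x ∈ pvlktRe 𝔑 τ) :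
    x ∉ pvtwN 1 ((τ.C 9 : Set (ℤ × ℤ)) ∪ pvlktAxB 𝔑 τ) := by
  rintro ⟨c, hc, c1, c2, c3, c4⟩
  rcases hc with hc | ((hc | hc) | hc)
  · exact p2 ⟨c, Or.inr hc, c1, c2, c3, c4⟩
  · exact p2 ⟨c, Or.inl hc.1, c1, c2, c3, c4⟩
  · obtain ⟨⟨_, hc1⟩, hc2⟩ := hc
    rcases p4 with p4 | p4
    · apply hc1
      obtain ⟨b1, b2, b3, b4⟩ := p4
      unfold pvlktM pvmnBox
      push_cast at b1 b2 b3 b4 c1 c2 c3 c4 ⊢
      exact ⟨by omega, by omega, by omega, by omega⟩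
    · exact hc2 ⟨x, p4, by push_cast at c1 c2 c3 c4 ⊢; omega, by push_cast at c1 c2 c3 c4 ⊢; omega, by push_cast at c1 c2 c3 c4 ⊢; omega, by push_cast at c1 c2 c3 c4 ⊢; omega⟩
  · exact p3 ⟨c, hc.1, c1, c2, c3, c4⟩

/-- East of the column `C.1 - 7` there is no cell of the 1-collar of the access ray -/
theorem pvby_off_wm (hacc : PvlzHasAcc 𝔑 τ) (h : (pvlzC 𝔑 τ).1 - 7 ≤ x.1) : x ∉ pvtwN 1 (pvlzRay (pvlzFr (τ.q 0) (pvlzAm 𝔑 τ) (pvlzL 𝔑)) (pvlzDw (pvlzAm 𝔑 τ))) := by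
  rintro ⟨c, hc, c1, c2, c3, c4⟩
  have := pvby_wm_west (pvlz_acc_spec hacc).am_dir hc
  unfold pvlzC at h
  push_cast at c1 c2
  omega

/-- **THE FREE ZONE OF `b`** (menu cells): the yard in the body of `u`, the stub, the escape ray -/
noncomputable def pvbyZ (𝔑 : PvmnNum) (τ : PvmnType) : Set (ℤ × ℤ) :=
  tscBox ((pvlzC 𝔑 τ).1 - 4) ((pvlzC 𝔑 τ).1 + 8) ((pvlzC 𝔑 τ).2 - 1) (pvlzC 𝔑 τ).2 ∪ pvlktHs 𝔑 τ ∪ pvlktRe 𝔑 τ

theorem pvby_Z_block (hx : x ∈ tscBox ((pvlzC 𝔑 τ).1 - 4) ((pvlzC 𝔑 τ).1 + 8) ((pvlzC 𝔑 τ).2 - 1) (pvlzC 𝔑 τ).2 ∪ pvlktHs 𝔑 τ) :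
    x ∈ tscBox ((pvlzC 𝔑 τ).1 - 4) ((pvlzC 𝔑 τ).1 + 24) ((pvlzC 𝔑 τ).2 - 1) ((pvlzC 𝔑 τ).2) := by
  rcases hx with ⟨h1, h2, h3, h4⟩ | ⟨h1, h2, h3, h4⟩ <;> exact ⟨by omega, by omega, by omega, by omega⟩

/-- the free zone is off the box of the plug and off the coarse tube -/
theorem pvby_Z_off (hτ : PvmnIsType 𝔑 τ) (hacc : PvlzHasAcc 𝔑 τ) (hx : x ∈ pvbyZ 𝔑 τ) :
    x ∉ pvmnBox (𝔑.nBx + 35) ∧ (pvlzC 𝔑 τ).1 - 4 ≤ x.1 ∧ x ∉ pvtwN 1 ((τ.C 9 : Set (ℤ × ℤ)) ∪ pvlktAxB 𝔑 τ) := by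
  have hA := pvlz_acc_spec hacc
  rcases hx with hx | hx
  · obtain ⟨h1, h2, h3, h4⟩ := pvby_Z_block hx
    obtain ⟨k1, k2, k3⟩ := pvby_block (x := x) hA.am_dir (pvlz_q0_box hτ) (rfl : pvlzL 𝔑 = _) (by
      unfold pvlzC at h1 h2 h3 h4
      exact ⟨by omega, by omega, by omega, by omega⟩)
    exact ⟨k1, h1, pvby_free (fun h => pvby_sep' hA (by omega) h k2) (pvby_off_wm hacc (by omega)) (Or.inl k3)⟩
  · obtain ⟨k1, k2⟩ := pvby_Re_box (x := x) hA.am_dir (pvby_De_spec 𝔑 τ) (pvlz_q0_box hτ) (rfl : pvlzL 𝔑 = _) hx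
    have k2' : (pvlzC 𝔑 τ).1 + 24 ≤ x.1 := k2
    exact ⟨k1, by omega, pvby_free (pvby_Re_sep hτ hacc hx) (pvby_off_wm hacc (by omega)) (Or.inr hx)⟩

theorem pvby_Z_off4 (hτ : PvmnIsType 𝔑 τ) (hacc : PvlzHasAcc 𝔑 τ) (hx : x ∈ pvbyZ 𝔑 τ) : x ∉ pvtwN 4 (pvmnCells τ 0 8) ∪ pvtwN 1 ((τ.C 9 : Set (ℤ × ℤ)) ∪ pvlktAxB 𝔑 τ) := by
  obtain ⟨k1, _, k3⟩ := pvby_Z_off hτ hacc hx
  rintro (h | h)
  · exact k1 (pvmn_box_mono (by omega) (pvgw_cells_box hτ (by omega) h))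
  · exact k3 h

end rec

/-! ## 7. the layout of record of `b`: the fields `out`, `wit` of `PvlktHs` -/

section fine

variable {𝔑 : PvmnNum} {τ : PvmnType} (o : ℤ × ℤ) {v : ℤ × ℤ}

theorem pvby_phi_box {A A' B B' : ℤ} : (pvlktPhi o).ap v ∈ tscBox A A' B B' ↔ v ∈ tscBox (40 * A + o.1) (40 * A' + o.1 + 40 - 1) (40 * B + o.2) (40 * B' + o.2 + 40 - 1) :=
  pvby_div_box (by norm_num) o

/-- the menu cells of a box of fine cells round `u` -/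
theorem pvby_phi_Bx {a b c d A A' B B' : ℤ} (h1 : 40 * A ≤ a) (h2 : b ≤ 40 * A' + 39) (h3 : 40 * B ≤ c) (h4 : d ≤ 40 * B' + 39) (hv : v ∈ pvlktBx (pvlktU0 𝔑 τ o) a b c d) :
    (pvlktPhi o).ap v ∈ tscBox ((pvlzC 𝔑 τ).1 + A) ((pvlzC 𝔑 τ).1 + A') ((pvlzC 𝔑 τ).2 + B) ((pvlzC 𝔑 τ).2 + B') := by
  rw [pvby_phi_box]
  obtain ⟨g1, g2, g3, g4⟩ := hv
  simp only [pvlktU0, pvlktOu] at g1 g2 g3 g4
  exact ⟨by omega, by omega, by omega, by omega⟩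

/-- **the tube of `b`, seen from the menu** -/
theorem pvby_Fs_sub : pvlktFs (pvlktPhi o) τ (pvlktFaB 𝔑 τ o) ((pvlktU0 𝔑 τ o).1 - 140) ((pvlktU0 𝔑 τ o).1 - 120) ((pvlktU0 𝔑 τ o).2 - 14) ((pvlktU0 𝔑 τ o).2 + 70) ⊆
    (pvlktPhi o).pre (pvtwN 4 (pvmnCells τ 0 8) ∪ pvtwN 1 ((τ.C 9 : Set (ℤ × ℤ)) ∪ pvlktAxB 𝔑 τ)) ∪ pvlktBx (pvlktU0 𝔑 τ o) (-341) (-120) (-14) 70 := by
  rintro v ((h | (h | ⟨h1, h2, h3, h4⟩)) | ⟨h1, h2, h3, h4⟩)
  · exact Or.inl (Or.inl h)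
  · exact Or.inl (Or.inr (pvwg_N_pre1 (by norm_num) o (k := 14) (by norm_num) _ h))
  · exact Or.inr ⟨h1, by omega, h3, h4⟩
  · exact Or.inr ⟨by omega, by omega, by omega, by omega⟩

/-- the escape set lies over the free zone -/
theorem pvby_EscB_Z (hv : v ∈ pvlktEscB 𝔑 τ o) : (pvlktPhi o).ap v ∈ pvbyZ 𝔑 τ := by
  rcases hv with (hv | hv) | hv
  · have := pvby_phi_Bx o (A := -4) (A' := -3) (B := -1) (B' := -1) (by norm_num) (by norm_num) (by norm_num) (by norm_num) hv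
    obtain ⟨g1, g2, g3, g4⟩ := this
    exact Or.inl (Or.inl ⟨by omega, by omega, by omega, by omega⟩)
  · have := pvby_phi_Bx o (A := -3) (A' := 8) (B := -1) (B' := 0) (by norm_num) (by norm_num) (by norm_num) (by norm_num) hv
    obtain ⟨g1, g2, g3, g4⟩ := this
    exact Or.inl (Or.inl ⟨by omega, by omega, by omega, by omega⟩)
  · rcases hv with hv | hv
    · exact Or.inl (Or.inr hv)
    · exact Or.inr hv

theorem pvby_EscB_disj (hτ : PvmnIsType 𝔑 τ) (hacc : PvlzHasAcc 𝔑 τ) :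
    Disjoint (pvlktEscB 𝔑 τ o) (pvlktFs (pvlktPhi o) τ (pvlktFaB 𝔑 τ o) ((pvlktU0 𝔑 τ o).1 - 140) ((pvlktU0 𝔑 τ o).1 - 120) ((pvlktU0 𝔑 τ o).2 - 14) ((pvlktU0 𝔑 τ o).2 + 70)) := by
  rw [Set.disjoint_left]
  intro v hv hF
  rcases pvby_Fs_sub o hF with h | ⟨h1, h2, h3, h4⟩
  · exact pvby_Z_off4 hτ hacc (pvby_EscB_Z o hv) h
  · rcases hv with (⟨g1, g2, g3, g4⟩ | ⟨g1, g2, g3, g4⟩) | hv
    · omega
    · omega
    · have hc : (pvlzC 𝔑 τ).1 + 8 ≤ ((pvlktPhi o).ap v).1 := by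
        rcases hv with ⟨g1, _, _, _⟩ | hv
        · exact g1
        · have := (pvby_Re_box (pvlz_acc_spec hacc).am_dir (pvby_De_spec 𝔑 τ) (pvlz_q0_box hτ) (rfl : pvlzL 𝔑 = _) hv).2
          have h' : (pvlzC 𝔑 τ).1 + 24 ≤ ((pvlktPhi o).ap v).1 := this
          omega
      have hb := pvby_phi_Bx o (A := -9) (A' := -3) (B := -1) (B' := 1) (by norm_num) (by norm_num) (by norm_num) (by norm_num) (⟨h1, h2, h3, h4⟩ : v ∈ pvlktBx (pvlktU0 𝔑 τ o) (-341) (-120) (-14) 70)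
      have := hb.2.1
      omega

theorem pvby_HsRe_conn (hacc : PvlzHasAcc 𝔑 τ) : TscConn tscG (pvlktHs 𝔑 τ ∪ pvlktRe 𝔑 τ) :=
  tsc_conn_union (pvby_box_conn _ _ _ _) (pvby_conn4 (pvlz_ray_conn ((pvby_De_spec 𝔑 τ).dir (pvlz_acc_spec hacc).am_dir)))
    (a := ((pvlzC 𝔑 τ).1 + 24, (pvlzC 𝔑 τ).2)) (b := ((pvlzC 𝔑 τ).1 + 24, (pvlzC 𝔑 τ).2)) ⟨by simp only; omega, le_rfl, le_rfl, le_rfl⟩ (pvlz_ray_start _ _) (Or.inl rfl)

theorem pvby_EscB_conn (hacc : PvlzHasAcc 𝔑 τ) : TscConn tscG (pvlktEscB 𝔑 τ o) := by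
  refine tsc_conn_union (tsc_conn_union (pvby_box_conn _ _ _ _) (pvby_box_conn _ _ _ _)
    (a := ((pvlktU0 𝔑 τ o).1 + -120, (pvlktU0 𝔑 τ o).2 + -15)) (b := ((pvlktU0 𝔑 τ o).1 + -119, (pvlktU0 𝔑 τ o).2 + -15)) ?_ ?_ (Or.inr ?_)) (pvgw_pre_conn _ (pvby_HsRe_conn hacc))
    (a := ((pvlktU0 𝔑 τ o).1 + 320, (pvlktU0 𝔑 τ o).2)) (b := ((pvlktU0 𝔑 τ o).1 + 320, (pvlktU0 𝔑 τ o).2)) (Or.inr ?_) ?_ (Or.inl rfl)
  · exact ⟨by simp only; omega, by simp only; omega, by simp only; omega, by simp only; omega⟩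
  · exact ⟨by simp only; omega, by simp only; omega, by simp only; omega, by simp only; omega⟩
  · exact pvtb_G4_tri ((pvtb_G4_adj _ _).2 (Or.inl ⟨by simp only; omega, rfl⟩))
  · exact ⟨by simp only; omega, by simp only; omega, by simp only; omega, by simp only; omega⟩
  · refine Or.inl ?_
    show (pvlktPhi o).ap _ ∈ tscBox _ _ _ _
    rw [pvby_phi_box]
    simp only [pvlktU0, pvlktOu]
    exact ⟨by simp only; omega, by simp only; omega, by simp only; omega, by simp only; omega⟩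

theorem pvby_EscB_inf (hacc : PvlzHasAcc 𝔑 τ) : (pvlktEscB 𝔑 τ o).Infinite :=
  (pvby_pre_inf (pvlktPhi o) (pvby_ray_inf ((pvby_De_spec 𝔑 τ).dir (pvlz_acc_spec hacc).am_dir))).mono (fun v hv => Or.inr (Or.inr hv))

/-- **THE ESCAPE SET OF `b` IS JOINED TO INFINITY OFF THE TUBE** -/
theorem pvby_escB_out (hτ : PvmnIsType 𝔑 τ) (hacc : PvlzHasAcc 𝔑 τ) :
    pvlktEscB 𝔑 τ o ⊆ pvtOut (pvlktFs (pvlktPhi o) τ (pvlktFaB 𝔑 τ o) ((pvlktU0 𝔑 τ o).1 - 140) ((pvlktU0 𝔑 τ o).1 - 120) ((pvlktU0 𝔑 τ o).2 - 14) ((pvlktU0 𝔑 τ o).2 + 70)) :=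
  pvby_inf_out (pvby_EscB_conn o hacc) (pvby_EscB_disj o hτ hacc) (pvby_EscB_inf o hacc)

/-- **THE FIELD `out` OF `PvlktHs` AT THE LAYOUT OF RECORD** -/
theorem pvby_out_rec (hτ : PvmnIsType 𝔑 τ) (hacc : PvlzHasAcc 𝔑 τ) :
    ∀ v : ℤ × ℤ, (pvlktU0 𝔑 τ o).1 - 140 ≤ v.1 → v.1 ≤ (pvlktU0 𝔑 τ o).1 - 120 + 2 → (pvlktU0 𝔑 τ o).2 - 14 - 1 ≤ v.2 → v.2 ≤ (pvlktU0 𝔑 τ o).2 - 14 + 1 →
      v ∉ tscBox ((pvlktU0 𝔑 τ o).1 - 140) ((pvlktU0 𝔑 τ o).1 - 120) ((pvlktU0 𝔑 τ o).2 - 14) ((pvlktU0 𝔑 τ o).2 + 70) →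
      v ∈ pvtOut (pvlktFs (pvlktPhi o) τ (pvlktFaB 𝔑 τ o) ((pvlktU0 𝔑 τ o).1 - 140) ((pvlktU0 𝔑 τ o).1 - 120) ((pvlktU0 𝔑 τ o).2 - 14) ((pvlktU0 𝔑 τ o).2 + 70)) := by
  intro v h1 h2 h3 h4 h5
  apply pvby_escB_out o hτ hacc
  by_cases hc : v.1 ≤ (pvlktU0 𝔑 τ o).1 - 120
  · refine Or.inl (Or.inl ⟨by omega, by omega, by omega, ?_⟩)
    by_contra hn
    exact h5 ⟨h1, hc, by omega, by omega⟩
  · exact Or.inl (Or.inr ⟨by omega, by omega, by omega, by omega⟩)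

/-- **THE FIELD `wit` OF `PvlktHs` AT THE LAYOUT OF RECORD** -/
theorem pvby_wit_rec (hτ : PvmnIsType 𝔑 τ) (hacc : PvlzHasAcc 𝔑 τ) :
    ∃ x ∈ pvtrBd (pvmnK3 τ), x.2 ∈ pvmnDrm τ ∧
      ∃ v ∈ pvtOut (pvlktFs (pvlktPhi o) τ (pvlktFaB 𝔑 τ o) ((pvlktU0 𝔑 τ o).1 - 140) ((pvlktU0 𝔑 τ o).1 - 120) ((pvlktU0 𝔑 τ o).2 - 14) ((pvlktU0 𝔑 τ o).2 + 70)), (pvlktPhi o).ap v = x.2 := by
  have hA := pvlz_acc_spec hacc
  have ha := hA.am_dir
  have hq := pvlz_q0_box hτ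
  have hL8 := pvlz_L8 𝔑
  have hK : pvmnK3 τ ⊆ pvmnBox (𝔑.nBx + 10) := pvt_hull_box (fun c hc => pvgw_cells_box hτ (by omega) hc)
  -- the axis of `e` is off the coarse tube of the arc of `b`
  have hAx : ∀ c ∈ pvlktAxE 𝔑 τ, c ∉ pvtwN 1 ((τ.C 9 : Set (ℤ × ℤ)) ∪ pvlktAxB 𝔑 τ) := by
    intro c hc
    refine pvby_free (fun h => pvby_sep' hA (by omega) h (pvlz_ax_ray ha hL8 hc)) ?_ (Or.inl (pvlz_ax_box ha hq rfl (pvtw_N_sub hc)))
    rintro ⟨r, hr, r1, r2, r3, r4⟩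
    exact Set.disjoint_left.1 (pvlz_wm_ax ha) hr ⟨c, hc, by push_cast at r1 r2 r3 r4 ⊢; omega, by push_cast at r1 r2 r3 r4 ⊢; omega, by push_cast at r1 r2 r3 r4 ⊢; omega, by push_cast at r1 r2 r3 r4 ⊢; omega⟩
  obtain ⟨v1, hv1⟩ := pvby_ap_surj (pvlktPhi o) (τ.q 0)
  obtain ⟨v2, hv2⟩ := pvby_ap_surj (pvlktPhi o) ((8, 0) + pvlzC 𝔑 τ)
  have hdoor : (8, 0) + pvlzC 𝔑 τ ∈ pvlktHs 𝔑 τ := ⟨by simp only [Prod.fst_add]; omega, by simp only [Prod.fst_add]; omega, by simp only [Prod.snd_add]; omega, by simp only [Prod.snd_add]; omega⟩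
  obtain ⟨x, hx, v, hvQ, hv, hvx⟩ := pvgw_wit_aux (pvlktPhi o) (Q := (pvlktPhi o).pre (pvlktAxE 𝔑 τ))
    (F := pvlktFs (pvlktPhi o) τ (pvlktFaB 𝔑 τ o) ((pvlktU0 𝔑 τ o).1 - 140) ((pvlktU0 𝔑 τ o).1 - 120) ((pvlktU0 𝔑 τ o).2 - 14) ((pvlktU0 𝔑 τ o).2 + 70)) (K := pvmnK3 τ)
    (pvgw_pre_conn _ (pvby_conn4 (pvlz_ax_conn ha hL8)))
    ⟨v1, by show (pvlktPhi o).ap v1 ∈ pvlktAxE 𝔑 τ; rw [hv1]; exact pvlz_ax_tip ha hL8, by
      rw [hv1]; exact pvt_hull_sub (pvtw_N_sub (pvmn_C_sub 0 (le_refl _) (by decide) (pvfjm_q0_mem hτ)))⟩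
    ⟨v2, by show (pvlktPhi o).ap v2 ∈ pvlktAxE 𝔑 τ; rw [hv2]; exact pvlz_ax_door ha hL8, pvby_escB_out o hτ hacc (Or.inr (Or.inl (by show (pvlktPhi o).ap v2 ∈ pvlktHs 𝔑 τ; rw [hv2]; exact hdoor))), by
      rw [hv2]
      intro hk
      exact (pvby_Z_off hτ hacc (Or.inl (Or.inr hdoor))).1 (pvmn_box_mono (by omega) (hK hk))⟩
    (by
      intro w hw hF
      rcases pvby_Fs_sub o hF with (h | h) | h
      · exact pvt_hull_sub (pvtw_N_mono le_rfl (pvmn_cells_mono (by omega) (by omega)) h)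
      · exact (hAx _ hw h).elim
      · have hb := pvby_phi_Bx o (A := -9) (A' := -3) (B := -1) (B' := 1) (by norm_num) (by norm_num) (by norm_num) (by norm_num) h
        obtain ⟨b1, b2, b3, b4⟩ := hb
        refine (pvby_ax_strip ha (by unfold pvlzL; omega) hw ?_).elim
        unfold pvlzC at b1 b2 b3 b4
        exact ⟨by omega, by omega, by omega, by omega⟩)
  refine ⟨x, hx, ?_, v, hv, hvx⟩
  obtain ⟨k, _, k2, hk⟩ := pvmn_N_cells.1 (pvmn_K3_dart hx).2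
  rcases Nat.eq_zero_or_pos k.1 with h | h
  · have : k = 0 := Fin.ext (by change k.1 = 0; omega)
    subst this
    exact pvtw_N_mono (by omega) le_rfl hk
  · exfalso
    have hvQ' : x.2 ∈ pvlktAxE 𝔑 τ := hvx ▸ hvQ
    have h5 : x.2 ∈ pvtwN 5 (pvmnCells τ 1 9) := pvmn_N_cells.2 ⟨k, by omega, by omega, hk⟩
    rcases pvby_ax_or ha hq rfl hvQ' with h' | h'
    · exact Set.disjoint_left.1 hA.rm_cells h' (pvtw_N_mono (by omega) le_rfl h5)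
    · exact h' (pvmn_box_mono (by omega) (pvgw_cells_box hτ (by omega) h5))

end fine

end Claimed.Agent.R289
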