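import Claimed.Agent.R289.Tr.LinkLay
import Claimed.Agent.R289.Tr.LinkGeoB

/-!
# Row 289 (S0537, Cardy for Poisson-Voronoi), unit TR, ROAD P, THICK LINKS, file Tr/LinkLayB : H4 = THE CLAUSES OF THE HALF GLUE AT THE LAYOUT OF `b : t → u`      (pen helper89; post of 164 / P16 of 273; prefix `pvlkb_`, `pvlkb`, `Pvlkb`)

**`pvlkb_Hs : PvlktHs 𝔑 (pvlktPhi o) τ (pvlktFaB 𝔑 τ o) (u.1 - 140) (u.1 - 120) (u.2 - 14) (u.2 + 70)`**, `u = pvlktU0 𝔑 τ o`, from `PvmnIsType 𝔑 τ`, `PvlzHasAcc 𝔑 τ`   (defs: `Tr/LinkLay` of 164).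
PLAN.   sec. 1 = segments of rays, the square ring minus a gap = 5 boxes (generic).      sec. 2 = fine cells ↦ menu cells (`φ = ⌊(· - o) / 40⌋`): a fine 14-collar lies over the menu 1-collar; a fine box relative to `u` lies over a menu box relative to `C = pvlzC`.
sec. 3 = THE MENU FACTS `pvlkb_m_*` (cells of side `dl h` only: `rcases` on the directions + `omega`).      sec. 4 = the fields.
-/

set_option autoImplicit false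
set_option linter.unusedSectionVars false
set_option linter.unusedVariables false
set_option linter.unusedSimpArgs false

namespace Claimed.Agent.R289

open Relation Claims.C0467 Claimed.Agent.R291

/-! ## 1. segments of rays, the ring with a gap -/

/-- the segment of the axis ray from `q` in the direction `a` up to the square ring of radius `R` -/
def pvlkbSeg (q a : ℤ × ℤ) (R : ℤ) : Set (ℤ × ℤ) := {c | ∃ j : ℕ, (j : ℤ) ≤ R - (q.1 * a.1 + q.2 * a.2) ∧ c = (q.1 + j * a.1, q.2 + j * a.2)}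

/-- the square ring of radius `R` minus the gap `[g1, g2]` of the horizontal side at the height `Y = ± R` -/
def pvlkbRgH (Y g1 g2 R : ℤ) : Set (ℤ × ℤ) :=
  tscBox (-R) (g1 - 1) Y Y ∪ tscBox (-R) (-R) (-R) R ∪ tscBox (-R) R (-Y) (-Y) ∪ tscBox R R (-R) R ∪ tscBox (g2 + 1) R Y Y

/-- the square ring of radius `R` minus the gap `[g1, g2]` of the vertical side at the abscissa `X = ± R` -/
def pvlkbRgV (X g1 g2 R : ℤ) : Set (ℤ × ℤ) :=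
  tscBox X X (-R) (g1 - 1) ∪ tscBox (-R) R (-R) (-R) ∪ tscBox (-X) (-X) (-R) R ∪ tscBox (-R) R R R ∪ tscBox X X (g2 + 1) R

theorem pvlkb_eqns_cite : True := by
  have := @pvlkbSeg.eq_1; have := @pvlkbRgH.eq_1; have := @pvlkbRgV.eq_1;
  trivial

section seg

variable {q a : ℤ × ℤ} {R : ℤ}

theorem pvlkb_seg_ray : pvlkbSeg q a R ⊆ pvlzRay q a := by
  rintro c ⟨j, -, rfl⟩
  exact ⟨j, rfl⟩

theorem pvlkb_seg_start (ha : PvfjDir a) (hq : q ∈ tscBox (-R) R (-R) R) : q ∈ pvlkbSeg q a R := by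
  obtain ⟨h1, h2, h3, h4⟩ := hq
  refine ⟨0, ?_, by simp⟩
  rcases ha with rfl | rfl | rfl | rfl <;> push_cast <;> omega

theorem pvlkb_seg_box (ha : PvfjDir a) (hq : q ∈ tscBox (-R) R (-R) R) : pvlkbSeg q a R ⊆ tscBox (-R) R (-R) R := by
  obtain ⟨h1, h2, h3, h4⟩ := hq
  rintro c ⟨j, hj, rfl⟩
  rcases ha with rfl | rfl | rfl | rfl <;> refine ⟨?_, ?_, ?_, ?_⟩ <;> simp only at hj ⊢ <;> omega

theorem pvlkb_seg_conn (ha : PvfjDir a) : TscConn pvtbG4 (pvlkbSeg q a R) := by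
  have key : ∀ j : ℕ, (j : ℤ) ≤ R - (q.1 * a.1 + q.2 * a.2) → TscR pvtbG4 (pvlkbSeg q a R) q (q.1 + j * a.1, q.2 + j * a.2) := by
    intro j
    induction j with
    | zero => intro _; simpa using tsc_R_refl (G := pvtbG4) (s := pvlkbSeg q a R) q
    | succ j ih =>
      intro hj
      have hj' : (j : ℤ) ≤ R - (q.1 * a.1 + q.2 * a.2) := by push_cast at hj; omega
      refine tsc_R_trans (ih hj') (tsc_R_step ?_ ⟨j, hj', rfl⟩ ⟨j + 1, hj, rfl⟩)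
      rw [pvtb_G4_adj]
      rcases ha with rfl | rfl | rfl | rfl <;> push_cast <;> omega
  rintro u ⟨i, hi, rfl⟩ v ⟨j, hj, rfl⟩
  exact tsc_R_trans (tsc_R_symm (key i hi)) (key j hj)

/-- the last cell of the segment -/
def pvlkbTip (q a : ℤ × ℤ) (R : ℤ) : ℤ × ℤ := (q.1 + (R - (q.1 * a.1 + q.2 * a.2)) * a.1, q.2 + (R - (q.1 * a.1 + q.2 * a.2)) * a.2)

theorem pvlkb_tip_mem (ha : PvfjDir a) (hq : q ∈ tscBox (-R) R (-R) R) : pvlkbTip q a R ∈ pvlkbSeg q a R := by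
  obtain ⟨h1, h2, h3, h4⟩ := hq
  have h0 : 0 ≤ R - (q.1 * a.1 + q.2 * a.2) := by
    rcases ha with rfl | rfl | rfl | rfl <;> simp only <;> omega
  refine ⟨(R - (q.1 * a.1 + q.2 * a.2)).toNat, ?_, ?_⟩
  · rw [Int.toNat_of_nonneg h0]
  · rw [Int.toNat_of_nonneg h0]; rfl

theorem pvlkb_tip_E : pvlkbTip q (1, 0) R = (R, q.2) := by
  unfold pvlkbTip; ext <;> simp only <;> ring
theorem pvlkb_tip_W : pvlkbTip q (-1, 0) R = (-R, q.2) := by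
  unfold pvlkbTip; ext <;> simp only <;> ring
theorem pvlkb_tip_N : pvlkbTip q (0, 1) R = (q.1, R) := by
  unfold pvlkbTip; ext <;> simp only <;> ring
theorem pvlkb_tip_S : pvlkbTip q (0, -1) R = (q.1, -R) := by
  unfold pvlkbTip; ext <;> simp only <;> ring

end seg

section ring

variable {Y X g1 g2 R : ℤ}

theorem pvlkb_rgH_conn (hY : Y = R ∨ Y = -R) (hR : 0 ≤ R) (h1 : -R < g1) (h2 : g2 < R) : TscConn pvtbG4 (pvlkbRgH Y g1 g2 R) := by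
  unfold pvlkbRgH
  refine tsc_conn_union (tsc_conn_union (tsc_conn_union (tsc_conn_union (pvtb_box_conn _ _ _ _) (pvtb_box_conn _ _ _ _) (a := (-R, Y)) (b := (-R, Y)) ?_ ?_ (Or.inl rfl))
    (pvtb_box_conn _ _ _ _) (a := (-R, -Y)) (b := (-R, -Y)) (Or.inr ?_) ?_ (Or.inl rfl)) (pvtb_box_conn _ _ _ _) (a := (R, -Y)) (b := (R, -Y)) (Or.inr ?_) ?_ (Or.inl rfl))
    (pvtb_box_conn _ _ _ _) (a := (R, Y)) (b := (R, Y)) (Or.inr ?_) ?_ (Or.inl rfl)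
  all_goals rcases hY with rfl | rfl <;> exact ⟨by simp only; omega, by simp only; omega, by simp only; omega, by simp only; omega⟩

theorem pvlkb_rgV_conn (hX : X = R ∨ X = -R) (hR : 0 ≤ R) (h1 : -R < g1) (h2 : g2 < R) : TscConn pvtbG4 (pvlkbRgV X g1 g2 R) := by
  unfold pvlkbRgV
  refine tsc_conn_union (tsc_conn_union (tsc_conn_union (tsc_conn_union (pvtb_box_conn _ _ _ _) (pvtb_box_conn _ _ _ _) (a := (X, -R)) (b := (X, -R)) ?_ ?_ (Or.inl rfl))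
    (pvtb_box_conn _ _ _ _) (a := (-X, -R)) (b := (-X, -R)) (Or.inr ?_) ?_ (Or.inl rfl)) (pvtb_box_conn _ _ _ _) (a := (-X, R)) (b := (-X, R)) (Or.inr ?_) ?_ (Or.inl rfl))
    (pvtb_box_conn _ _ _ _) (a := (X, R)) (b := (X, R)) (Or.inr ?_) ?_ (Or.inl rfl)
  all_goals rcases hX with rfl | rfl <;> exact ⟨by simp only; omega, by simp only; omega, by simp only; omega, by simp only; omega⟩

theorem pvlkb_mem_rgH {c : ℤ × ℤ} : c ∈ pvlkbRgH Y g1 g2 R ↔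
    (-R ≤ c.1 ∧ c.1 ≤ g1 - 1 ∧ c.2 = Y) ∨ (c.1 = -R ∧ -R ≤ c.2 ∧ c.2 ≤ R) ∨ (-R ≤ c.1 ∧ c.1 ≤ R ∧ c.2 = -Y) ∨ (c.1 = R ∧ -R ≤ c.2 ∧ c.2 ≤ R) ∨ (g2 + 1 ≤ c.1 ∧ c.1 ≤ R ∧ c.2 = Y) := by
  simp only [pvlkbRgH, tscBox, Set.mem_union, Set.mem_ofPred_eq]
  omega

theorem pvlkb_mem_rgV {c : ℤ × ℤ} : c ∈ pvlkbRgV X g1 g2 R ↔
    (c.1 = X ∧ -R ≤ c.2 ∧ c.2 ≤ g1 - 1) ∨ (-R ≤ c.1 ∧ c.1 ≤ R ∧ c.2 = -R) ∨ (c.1 = -X ∧ -R ≤ c.2 ∧ c.2 ≤ R) ∨ (-R ≤ c.1 ∧ c.1 ≤ R ∧ c.2 = R) ∨ (c.1 = X ∧ g2 + 1 ≤ c.2 ∧ c.2 ≤ R) := by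
  simp only [pvlkbRgV, tscBox, Set.mem_union, Set.mem_ofPred_eq]
  omega

end ring

/-! ## 2. fine cells and menu cells -/

section fine

variable {o C v : ℤ × ℤ} {E F S : Set (ℤ × ℤ)} {a b c d : ℤ}

theorem pvlkb_phi_ap (o v : ℤ × ℤ) : (pvlktPhi o).ap v = ((v.1 - o.1) / 40, (v.2 - o.2) / 40) := rfl

/-- a fine 14-collar lies over the menu 1-collar -/
theorem pvlkb_phi_N (h : v ∈ pvtwN 14 ((pvlktPhi o).pre E)) : (pvlktPhi o).ap v ∈ pvtwN 1 E := by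
  obtain ⟨z, hz, h1, h2, h3, h4⟩ := h
  push_cast at h1 h2 h3 h4
  refine ⟨(pvlktPhi o).ap z, hz, ?_, ?_, ?_, ?_⟩ <;> simp only [pvlkb_phi_ap] <;> push_cast <;> omega

/-- a fine box relative to the corner of the menu cell `C` lies over a menu box relative to `C` -/
theorem pvlkb_phi_bx (h : v ∈ pvlktBx (pvlktOu o C) a b c d) : (pvlktPhi o).ap v ∈ tscBox (C.1 + a / 40) (C.1 + b / 40) (C.2 + c / 40) (C.2 + d / 40) := by
  obtain ⟨h1, h2, h3, h4⟩ := h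
  simp only [pvlktOu] at h1 h2 h3 h4
  refine ⟨?_, ?_, ?_, ?_⟩ <;> simp only [pvlkb_phi_ap] <;> omega

theorem pvlkb_mem_pre {M : PvgwMap} : v ∈ M.pre E ↔ M.ap v ∈ E := Iff.rfl

theorem pvlkb_ap_surj (M : PvgwMap) : Function.Surjective M.ap := by
  intro c
  obtain ⟨x, hx⟩ := M.f_surj c.1
  obtain ⟨y, hy⟩ := M.g_surj c.2
  exact ⟨(x, y), Prod.ext hx hy⟩

theorem pvlkb_pre_inf (M : PvgwMap) (h : E.Infinite) : (M.pre E).Infinite :=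
  h.preimage fun c _ => pvlkb_ap_surj M c

/-- a connected infinite set off `F` is joined to infinity off `F` -/
theorem pvlkb_out_of_inf (hS : TscConn tscG S) (hinf : S.Infinite) (hd : Disjoint S F) : S ⊆ pvtOut F := by
  intro z hz B hB
  obtain ⟨t, ht, htB⟩ := hinf.exists_notMem_finite hB
  exact ⟨t, htB, tsc_R_mono (fun u hu hF => Set.disjoint_left.1 hd hu hF) (hS z hz t ht)⟩

theorem pvlkb_conn4 (h : TscConn pvtbG4 S) : TscConn tscG S := fun u hu v hv => pvtb_R_le (fun _ _ => pvtb_G4_tri) (h u hu v hv)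

end fine

theorem pvlkb_box_sub {a b c d a' b' c' d' : ℤ} (h1 : a' ≤ a) (h2 : b ≤ b') (h3 : c' ≤ c) (h4 : d ≤ d') : tscBox a b c d ⊆ tscBox a' b' c' d' := by
  rintro v ⟨v1, v2, v3, v4⟩
  exact ⟨by omega, by omega, by omega, by omega⟩

/-! ## 2bis. the layout in coordinates (generic in the tips `p q`, the directions `b a`, the half side `n`) -/

section nray

variable {x0 y0 : ℤ} {g : ℕ} {c : ℤ × ℤ}

theorem pvlkb_mem_NrayN : c ∈ pvtwN g (pvlzRay (x0, y0) (0, 1)) ↔ c.1 ≤ x0 + g ∧ x0 ≤ c.1 + g ∧ y0 ≤ c.2 + g := by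
  constructor
  · rintro ⟨z, ⟨j, rfl⟩, h1, h2, h3, h4⟩
    simp only at h1 h2 h3 h4
    omega
  · rintro ⟨h1, h2, h3⟩
    refine ⟨_, ⟨(c.2 - y0).toNat, rfl⟩, ?_, ?_, ?_, ?_⟩ <;> simp only <;> omega

theorem pvlkb_mem_NrayS : c ∈ pvtwN g (pvlzRay (x0, y0) (0, -1)) ↔ c.1 ≤ x0 + g ∧ x0 ≤ c.1 + g ∧ c.2 ≤ y0 + g := by
  constructor
  · rintro ⟨z, ⟨j, rfl⟩, h1, h2, h3, h4⟩
    simp only at h1 h2 h3 h4
    omega
  · rintro ⟨h1, h2, h3⟩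
    refine ⟨_, ⟨(y0 - c.2).toNat, rfl⟩, ?_, ?_, ?_, ?_⟩ <;> simp only <;> omega

theorem pvlkb_mem_NrayE : c ∈ pvtwN g (pvlzRay (x0, y0) (1, 0)) ↔ x0 ≤ c.1 + g ∧ c.2 ≤ y0 + g ∧ y0 ≤ c.2 + g := by
  constructor
  · rintro ⟨z, ⟨j, rfl⟩, h1, h2, h3, h4⟩
    simp only at h1 h2 h3 h4
    omega
  · rintro ⟨h1, h2, h3⟩
    refine ⟨_, ⟨(c.1 - x0).toNat, rfl⟩, ?_, ?_, ?_, ?_⟩ <;> simp only <;> omega

theorem pvlkb_mem_NrayW : c ∈ pvtwN g (pvlzRay (x0, y0) (-1, 0)) ↔ c.1 ≤ x0 + g ∧ c.2 ≤ y0 + g ∧ y0 ≤ c.2 + g := by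
  constructor
  · rintro ⟨z, ⟨j, rfl⟩, h1, h2, h3, h4⟩
    simp only at h1 h2 h3 h4
    omega
  · rintro ⟨h1, h2, h3⟩
    refine ⟨_, ⟨(x0 - c.1).toNat, rfl⟩, ?_, ?_, ?_, ?_⟩ <;> simp only <;> omega

end nray

section ringeq

variable {x0 y0 : ℤ} {g M : ℕ}

theorem pvlkb_mem_ring {c : ℤ × ℤ} (hM : 1 ≤ M) : c ∈ pvmnBox M \ pvmnBox (M - 1) ↔ (-(M : ℤ) ≤ c.1 ∧ c.1 ≤ M ∧ -(M : ℤ) ≤ c.2 ∧ c.2 ≤ M) ∧ (c.1 = M ∨ c.1 = -(M : ℤ) ∨ c.2 = M ∨ c.2 = -(M : ℤ)) := by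
  simp only [pvmnBox, tscBox, Set.mem_sdiff, Set.mem_ofPred_eq]
  omega

theorem pvlkb_ring_N (hM : 1 ≤ M) (h1 : -(M : ℤ) + g < x0) (h2 : x0 + g < M) (h3 : -(M : ℤ) + g < y0) (h4 : y0 ≤ M) :
    (pvmnBox M \ pvmnBox (M - 1)) \ pvtwN g (pvlzRay (x0, y0) (0, 1)) = pvlkbRgH M (x0 - g) (x0 + g) M := by
  ext c
  rw [Set.mem_sdiff, pvlkb_mem_ring hM, pvlkb_mem_NrayN, pvlkb_mem_rgH]
  omega

theorem pvlkb_ring_S (hM : 1 ≤ M) (h1 : -(M : ℤ) + g < x0) (h2 : x0 + g < M) (h3 : y0 + g < M) (h4 : -(M : ℤ) ≤ y0) :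
    (pvmnBox M \ pvmnBox (M - 1)) \ pvtwN g (pvlzRay (x0, y0) (0, -1)) = pvlkbRgH (-(M : ℤ)) (x0 - g) (x0 + g) M := by
  ext c
  rw [Set.mem_sdiff, pvlkb_mem_ring hM, pvlkb_mem_NrayS, pvlkb_mem_rgH]
  omega

theorem pvlkb_ring_E (hM : 1 ≤ M) (h1 : -(M : ℤ) + g < y0) (h2 : y0 + g < M) (h3 : -(M : ℤ) + g < x0) (h4 : x0 ≤ M) :
    (pvmnBox M \ pvmnBox (M - 1)) \ pvtwN g (pvlzRay (x0, y0) (1, 0)) = pvlkbRgV M (y0 - g) (y0 + g) M := by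
  ext c
  rw [Set.mem_sdiff, pvlkb_mem_ring hM, pvlkb_mem_NrayE, pvlkb_mem_rgV]
  omega

end ringeq

section lay

variable {p b q a d : ℤ × ℤ} {n M : ℕ} {L : ℤ}

/-- the direction of the escape ray, as a relation -/
def PvlkbDe (p q a d : ℤ × ℤ) : Prop := (a = (-1, 0) ∧ ((p.2 ≤ q.2 ∧ d = (0, 1)) ∨ (q.2 < p.2 ∧ d = (0, -1)))) ∨ (a ≠ (-1, 0) ∧ d = a)

theorem pvlkb_eqns_cite5 : True := by
  have := @PvlkbDe.eq_1; have := @pvlkbTip.eq_1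
  trivial

/-- **(K) the exit ray is off the 30-collar of the escape ray** -/
theorem pvlkb_re_far (ha : PvfjDir a) (hb : PvfjDir b) (hq : q ∈ pvmnBox n) (hp : p ∈ pvmnBox n) (hL : L = 2 * (n : ℤ) + 60)
    (hsep : ∀ i j : ℕ, 60 < |p.1 + (i : ℤ) * b.1 - (q.1 + (j : ℤ) * a.1)| ∨ 60 < |p.2 + (i : ℤ) * b.2 - (q.2 + (j : ℤ) * a.2)|) (hd : PvlkbDe p q a d) :
    Disjoint (pvlzRay p b) (pvtwN 30 (pvlzRay ((pvlzCu q a L).1 + 24, (pvlzCu q a L).2) d)) := by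
  obtain ⟨q1, q2, q3, q4⟩ := hq
  obtain ⟨p1, p2, p3, p4⟩ := hp
  rw [Set.disjoint_left]
  rintro x ⟨i, rfl⟩ hx
  rcases ha with rfl | rfl | rfl | rfl
  · rcases hd with ⟨h, -⟩ | ⟨-, rfl⟩
    · simp at h
    rw [pvlz_cu_E, pvlkb_mem_NrayE] at hx
    simp only at hx
    push_cast at hx
    have := hsep i (p.1 + (i : ℤ) * b.1 - q.1).toNat
    rcases hb with rfl | rfl | rfl | rfl <;> rcases this with h | h <;> rw [lt_abs] at h <;> omega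
  · rw [pvlz_cu_W] at hx
    have := hsep i (q.1 - (p.1 + (i : ℤ) * b.1)).toNat
    rcases hd with ⟨-, ⟨h1, rfl⟩ | ⟨h1, rfl⟩⟩ | ⟨h, -⟩
    · rw [pvlkb_mem_NrayN] at hx
      simp only at hx
      push_cast at hx
      rcases hb with rfl | rfl | rfl | rfl <;> rcases this with h | h <;> rw [lt_abs] at h <;> omega
    · rw [pvlkb_mem_NrayS] at hx
      simp only at hx
      push_cast at hx
      rcases hb with rfl | rfl | rfl | rfl <;> rcases this with h | h <;> rw [lt_abs] at h <;> omega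
    · exact h rfl
  · rcases hd with ⟨h, -⟩ | ⟨-, rfl⟩
    · simp at h
    rw [pvlz_cu_N, pvlkb_mem_NrayN] at hx
    simp only at hx
    push_cast at hx
    have := hsep i (p.2 + (i : ℤ) * b.2 - q.2).toNat
    rcases hb with rfl | rfl | rfl | rfl <;> rcases this with h | h <;> rw [lt_abs] at h <;> omega
  · rcases hd with ⟨h, -⟩ | ⟨-, rfl⟩
    · simp at h
    rw [pvlz_cu_S, pvlkb_mem_NrayS] at hx
    simp only at hx
    push_cast at hx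
    have := hsep i (q.2 - (p.2 + (i : ℤ) * b.2)).toNat
    rcases hb with rfl | rfl | rfl | rfl <;> rcases this with h | h <;> rw [lt_abs] at h <;> omega

/-- the ring road with its gap is 4-connected -/
theorem pvlkb_ring_conn (ha : PvfjDir a) (hq : q ∈ pvmnBox n) (hL : L = 2 * (n : ℤ) + 60) (hM : M = 3 * n + 200) (hd : PvlkbDe p q a d) :
    TscConn pvtbG4 ((pvmnBox M \ pvmnBox (M - 1)) \ pvtwN 30 (pvlzRay ((pvlzCu q a L).1 + 24, (pvlzCu q a L).2) d)) := by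
  obtain ⟨q1, q2, q3, q4⟩ := hq
  rcases ha with rfl | rfl | rfl | rfl
  · rcases hd with ⟨h, -⟩ | ⟨-, rfl⟩
    · simp at h
    rw [pvlz_cu_E, pvlkb_ring_E (by omega) (by push_cast; omega) (by push_cast; omega) (by push_cast; omega) (by push_cast; omega)]
    exact pvlkb_rgV_conn (Or.inl rfl) (by omega) (by push_cast; omega) (by push_cast; omega)
  · rw [pvlz_cu_W]
    rcases hd with ⟨-, ⟨h1, rfl⟩ | ⟨h1, rfl⟩⟩ | ⟨h, -⟩
    · rw [pvlkb_ring_N (by omega) (by push_cast; omega) (by push_cast; omega) (by push_cast; omega) (by push_cast; omega)]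
      exact pvlkb_rgH_conn (Or.inl rfl) (by omega) (by push_cast; omega) (by push_cast; omega)
    · rw [pvlkb_ring_S (by omega) (by push_cast; omega) (by push_cast; omega) (by push_cast; omega) (by push_cast; omega)]
      exact pvlkb_rgH_conn (Or.inr rfl) (by omega) (by push_cast; omega) (by push_cast; omega)
    · exact (h rfl).elim
  · rcases hd with ⟨h, -⟩ | ⟨-, rfl⟩
    · simp at h
    rw [pvlz_cu_N, pvlkb_ring_N (by omega) (by push_cast; omega) (by push_cast; omega) (by push_cast; omega) (by push_cast; omega)]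
    exact pvlkb_rgH_conn (Or.inl rfl) (by omega) (by push_cast; omega) (by push_cast; omega)
  · rcases hd with ⟨h, -⟩ | ⟨-, rfl⟩
    · simp at h
    rw [pvlz_cu_S, pvlkb_ring_S (by omega) (by push_cast; omega) (by push_cast; omega) (by push_cast; omega) (by push_cast; omega)]
    exact pvlkb_rgH_conn (Or.inr rfl) (by omega) (by push_cast; omega) (by push_cast; omega)

/-- a ray cut by a box which contains its origin -/
theorem pvlkb_ray_box (hb : PvfjDir b) (hp : p ∈ pvmnBox M) : pvlzRay p b ∩ pvmnBox M = pvlkbSeg p b M := by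
  ext c
  constructor
  · rintro ⟨⟨j, rfl⟩, c1, c2, c3, c4⟩
    refine ⟨j, ?_, rfl⟩
    simp only at c1 c2 c3 c4
    rcases hb with rfl | rfl | rfl | rfl <;> simp only <;> omega
  · intro hc
    exact ⟨pvlkb_seg_ray hc, pvlkb_seg_box hb hp hc⟩

/-- the access ray is off the 30-collar of the escape ray -/
theorem pvlkb_acc_far (ha : PvfjDir a) (hd : PvlkbDe p q a d) :
    Disjoint (pvlzRay (pvlzFr q a L) (pvlzDw a)) (pvtwN 30 (pvlzRay ((pvlzCu q a L).1 + 24, (pvlzCu q a L).2) d)) := by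
  rw [Set.disjoint_left]
  rintro x ⟨i, rfl⟩ hx
  rw [pvlz_fr_fst, pvlz_fr_snd] at hx
  rcases ha with rfl | rfl | rfl | rfl
  · rcases hd with ⟨h, -⟩ | ⟨-, rfl⟩
    · simp at h
    rw [pvlz_dw_E, pvlkb_mem_NrayE] at hx
    simp only at hx
    push_cast at hx
    omega
  · rw [pvlz_dw_W] at hx
    rcases hd with ⟨-, ⟨h1, rfl⟩ | ⟨h1, rfl⟩⟩ | ⟨h, -⟩
    · rw [pvlkb_mem_NrayN] at hx
      simp only at hx
      push_cast at hx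
      omega
    · rw [pvlkb_mem_NrayS] at hx
      simp only at hx
      push_cast at hx
      omega
    · exact h rfl
  · rcases hd with ⟨h, -⟩ | ⟨-, rfl⟩
    · simp at h
    rw [pvlz_dw_N, pvlkb_mem_NrayN] at hx
    simp only at hx
    push_cast at hx
    omega
  · rcases hd with ⟨h, -⟩ | ⟨-, rfl⟩
    · simp at h
    rw [pvlz_dw_S, pvlkb_mem_NrayS] at hx
    simp only at hx
    push_cast at hx
    omega

theorem pvlkb_tip_ring {R : ℤ} (hb : PvfjDir b) (hp : p ∈ tscBox (-R) R (-R) R) :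
    pvlkbTip p b R ∈ tscBox (-R) R (-R) R ∧ ((pvlkbTip p b R).1 = R ∨ (pvlkbTip p b R).1 = -R ∨ (pvlkbTip p b R).2 = R ∨ (pvlkbTip p b R).2 = -R) := by
  obtain ⟨h1, h2, h3, h4⟩ := hp
  rcases hb with rfl | rfl | rfl | rfl
  · rw [pvlkb_tip_E]; refine ⟨⟨?_, ?_, ?_, ?_⟩, by simp⟩ <;> simp only <;> omega
  · rw [pvlkb_tip_W]; refine ⟨⟨?_, ?_, ?_, ?_⟩, by simp⟩ <;> simp only <;> omega
  · rw [pvlkb_tip_N]; refine ⟨⟨?_, ?_, ?_, ?_⟩, by simp⟩ <;> simp only <;> omega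
  · rw [pvlkb_tip_S]; refine ⟨⟨?_, ?_, ?_, ?_⟩, by simp⟩ <;> simp only <;> omega

/-- the last cell of a segment lies on the ring -/
theorem pvlkb_tip_on (hb : PvfjDir b) (hp : p ∈ pvmnBox M) (hM : 1 ≤ M) : pvlkbTip p b M ∈ pvmnBox M \ pvmnBox (M - 1) := by
  obtain ⟨⟨t1, t2, t3, t4⟩, t5⟩ := pvlkb_tip_ring hb hp
  exact (pvlkb_mem_ring hM).2 ⟨⟨t1, t2, t3, t4⟩, t5⟩

theorem pvlkb_fr_box (ha : PvfjDir a) (hq : q ∈ pvmnBox n) (hL : L = 2 * (n : ℤ) + 60) (hM : M = 3 * n + 200) : pvlzFr q a L ∈ pvmnBox M := by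
  obtain ⟨h1, h2, h3, h4⟩ := hq
  refine ⟨?_, ?_, ?_, ?_⟩ <;> first | rw [pvlz_fr_fst] | rw [pvlz_fr_snd]
  all_goals rcases ha with rfl | rfl | rfl | rfl
  all_goals first | rw [pvlz_cu_E] | rw [pvlz_cu_W] | rw [pvlz_cu_N] | rw [pvlz_cu_S]
  all_goals simp only
  all_goals omega

/-- **the axis of `b` outside the plug is 4-connected** -/
theorem pvlkb_axis_conn (ha : PvfjDir a) (hb : PvfjDir b) (hq : q ∈ pvmnBox n) (hp : p ∈ pvmnBox n) (hL : L = 2 * (n : ℤ) + 60) (hM : M = 3 * n + 200)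
    (hsep : ∀ i j : ℕ, 60 < |p.1 + (i : ℤ) * b.1 - (q.1 + (j : ℤ) * a.1)| ∨ 60 < |p.2 + (i : ℤ) * b.2 - (q.2 + (j : ℤ) * a.2)|) (hd : PvlkbDe p q a d) :
    TscConn pvtbG4 (pvlzRay p b ∩ pvmnBox M ∪ (pvmnBox M \ pvmnBox (M - 1)) \ pvtwN 30 (pvlzRay ((pvlzCu q a L).1 + 24, (pvlzCu q a L).2) d) ∪ pvlzRay (pvlzFr q a L) (pvlzDw a) ∩ pvmnBox M) := by
  have hpM : p ∈ pvmnBox M := pvmn_box_mono (by omega) hp
  have hfM : pvlzFr q a L ∈ pvmnBox M := pvlkb_fr_box ha hq hL hM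
  rw [pvlkb_ray_box hb hpM, pvlkb_ray_box pvlz_dw_dir hfM]
  refine tsc_conn_union (tsc_conn_union (pvlkb_seg_conn hb) (pvlkb_ring_conn ha hq hL hM hd) (pvlkb_tip_mem hb hpM) ⟨pvlkb_tip_on hb hpM (by omega), ?_⟩ (Or.inl rfl))
    (pvlkb_seg_conn pvlz_dw_dir) (Or.inr ⟨pvlkb_tip_on pvlz_dw_dir hfM (by omega), ?_⟩) (pvlkb_tip_mem pvlz_dw_dir hfM) (Or.inl rfl)
  · exact Set.disjoint_left.1 (pvlkb_re_far ha hb hq hp hL hsep hd) (pvlkb_seg_ray (pvlkb_tip_mem hb hpM))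
  · exact Set.disjoint_left.1 (pvlkb_acc_far ha hd) (pvlkb_seg_ray (pvlkb_tip_mem pvlz_dw_dir hfM))

/-- the block of `u` and the escape ray are far from the plug -/
theorem pvlkb_blk_out (ha : PvfjDir a) (hq : q ∈ pvmnBox n) (hL : L = 2 * (n : ℤ) + 60) (hd : PvlkbDe p q a d) :
    Disjoint (tscBox ((pvlzCu q a L).1 - 9) ((pvlzCu q a L).1 + 24) ((pvlzCu q a L).2 - 1) ((pvlzCu q a L).2 + 1) ∪ pvlzRay ((pvlzCu q a L).1 + 24, (pvlzCu q a L).2) d) (pvmnBox (n + 10)) := by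
  obtain ⟨q1, q2, q3, q4⟩ := hq
  rw [Set.disjoint_left]
  rintro c hc ⟨c1, c2, c3, c4⟩
  push_cast at c1 c2 c3 c4
  rcases ha with rfl | rfl | rfl | rfl
  · rcases hd with ⟨h, -⟩ | ⟨-, rfl⟩
    · simp at h
    rw [pvlz_cu_E] at hc
    rcases hc with ⟨h1, h2, h3, h4⟩ | ⟨j, rfl⟩
    · simp only at h1 h2 h3 h4; omega
    · simp only at c1 c2 c3 c4; omega
  · rw [pvlz_cu_W] at hc
    rcases hd with ⟨-, ⟨h1, rfl⟩ | ⟨h1, rfl⟩⟩ | ⟨h, -⟩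
    · rcases hc with ⟨h1, h2, h3, h4⟩ | ⟨j, rfl⟩
      · simp only at h1 h2 h3 h4; omega
      · simp only at c1 c2 c3 c4; omega
    · rcases hc with ⟨h1, h2, h3, h4⟩ | ⟨j, rfl⟩
      · simp only at h1 h2 h3 h4; omega
      · simp only at c1 c2 c3 c4; omega
    · exact h rfl
  · rcases hd with ⟨h, -⟩ | ⟨-, rfl⟩
    · simp at h
    rw [pvlz_cu_N] at hc
    rcases hc with ⟨h1, h2, h3, h4⟩ | ⟨j, rfl⟩
    · simp only at h1 h2 h3 h4; omega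
    · simp only at c1 c2 c3 c4; omega
  · rcases hd with ⟨h, -⟩ | ⟨-, rfl⟩
    · simp at h
    rw [pvlz_cu_S] at hc
    rcases hc with ⟨h1, h2, h3, h4⟩ | ⟨j, rfl⟩
    · simp only at h1 h2 h3 h4; omega
    · simp only at c1 c2 c3 c4; omega

/-- the 1-collar of the exit ray is off the block of `u` -/
theorem pvlkb_ray_blk (ha : PvfjDir a) (hq : q ∈ pvmnBox n) (hL : L = 2 * (n : ℤ) + 60)
    (hsep : ∀ i j : ℕ, 60 < |p.1 + (i : ℤ) * b.1 - (q.1 + (j : ℤ) * a.1)| ∨ 60 < |p.2 + (i : ℤ) * b.2 - (q.2 + (j : ℤ) * a.2)|) :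
    Disjoint (pvtwN 1 (pvlzRay p b)) (tscBox ((pvlzCu q a L).1 - 4) ((pvlzCu q a L).1 + 24) ((pvlzCu q a L).2 - 1) ((pvlzCu q a L).2 + 1)) := by
  obtain ⟨q1, q2, q3, q4⟩ := hq
  rw [Set.disjoint_left]
  rintro c ⟨z, ⟨i, rfl⟩, z1, z2, z3, z4⟩ ⟨c1, c2, c3, c4⟩
  push_cast at z1 z2 z3 z4
  rcases ha with rfl | rfl | rfl | rfl
  · rw [pvlz_cu_E] at c1 c2 c3 c4
    simp only at c1 c2 c3 c4
    rcases hsep i (p.1 + (i : ℤ) * b.1 - q.1).toNat with h | h <;> rw [lt_abs] at h <;> omega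
  · rw [pvlz_cu_W] at c1 c2 c3 c4
    simp only at c1 c2 c3 c4
    rcases hsep i (q.1 - (p.1 + (i : ℤ) * b.1)).toNat with h | h <;> rw [lt_abs] at h <;> omega
  · rw [pvlz_cu_N] at c1 c2 c3 c4
    simp only at c1 c2 c3 c4
    rcases hsep i (p.2 + (i : ℤ) * b.2 - q.2).toNat with h | h <;> rw [lt_abs] at h <;> omega
  · rw [pvlz_cu_S] at c1 c2 c3 c4
    simp only at c1 c2 c3 c4
    rcases hsep i (q.2 - (p.2 + (i : ℤ) * b.2)).toNat with h | h <;> rw [lt_abs] at h <;> omega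

/-- the 1-collar of the access ray is off the block of `u` -/
theorem pvlkb_acc_blk (ha : PvfjDir a) :
    Disjoint (pvtwN 1 (pvlzRay (pvlzFr q a L) (pvlzDw a))) (tscBox ((pvlzCu q a L).1 - 4) ((pvlzCu q a L).1 + 24) ((pvlzCu q a L).2 - 1) ((pvlzCu q a L).2 + 1)) := by
  rw [Set.disjoint_left]
  rintro c ⟨z, ⟨i, rfl⟩, z1, z2, z3, z4⟩ ⟨c1, c2, c3, c4⟩
  rw [pvlz_fr_fst, pvlz_fr_snd] at z1 z2 z3 z4
  push_cast at z1 z2 z3 z4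
  rcases ha with rfl | rfl | rfl | rfl
  · rw [pvlz_dw_E] at z1 z2 z3 z4; simp only at z1 z2 z3 z4; omega
  · rw [pvlz_dw_W] at z1 z2 z3 z4; simp only at z1 z2 z3 z4; omega
  · rw [pvlz_dw_N] at z1 z2 z3 z4; simp only at z1 z2 z3 z4; omega
  · rw [pvlz_dw_S] at z1 z2 z3 z4; simp only at z1 z2 z3 z4; omega

/-- the block of `u` lies well inside the ring -/
theorem pvlkb_blk_in (ha : PvfjDir a) (hq : q ∈ pvmnBox n) (hL : L = 2 * (n : ℤ) + 60) :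
    tscBox ((pvlzCu q a L).1 - 9) ((pvlzCu q a L).1 + 24) ((pvlzCu q a L).2 - 1) ((pvlzCu q a L).2 + 1) ⊆ pvmnBox (3 * n + 100) := by
  obtain ⟨q1, q2, q3, q4⟩ := hq
  rintro c ⟨c1, c2, c3, c4⟩
  unfold pvmnBox
  push_cast
  rcases ha with rfl | rfl | rfl | rfl
  · rw [pvlz_cu_E] at c1 c2 c3 c4; simp only at c1 c2 c3 c4; exact ⟨by omega, by omega, by omega, by omega⟩
  · rw [pvlz_cu_W] at c1 c2 c3 c4; simp only at c1 c2 c3 c4; exact ⟨by omega, by omega, by omega, by omega⟩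
  · rw [pvlz_cu_N] at c1 c2 c3 c4; simp only at c1 c2 c3 c4; exact ⟨by omega, by omega, by omega, by omega⟩
  · rw [pvlz_cu_S] at c1 c2 c3 c4; simp only at c1 c2 c3 c4; exact ⟨by omega, by omega, by omega, by omega⟩

/-- **the 1-collar of the axis of `b` is off the block of `u` and off the escape ray** -/
theorem pvlkb_axis_blk {K9 : Set (ℤ × ℤ)} (hK : K9 ⊆ pvmnBox n) (ha : PvfjDir a) (hb : PvfjDir b) (hq : q ∈ pvmnBox n) (hp : p ∈ pvmnBox n) (hL : L = 2 * (n : ℤ) + 60) (hM : M = 3 * n + 200)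
    (hsep : ∀ i j : ℕ, 60 < |p.1 + (i : ℤ) * b.1 - (q.1 + (j : ℤ) * a.1)| ∨ 60 < |p.2 + (i : ℤ) * b.2 - (q.2 + (j : ℤ) * a.2)|) (hd : PvlkbDe p q a d) :
    Disjoint (pvtwN 1 (K9 ∪ (pvlzRay p b ∩ pvmnBox M ∪ (pvmnBox M \ pvmnBox (M - 1)) \ pvtwN 30 (pvlzRay ((pvlzCu q a L).1 + 24, (pvlzCu q a L).2) d) ∪ pvlzRay (pvlzFr q a L) (pvlzDw a) ∩ pvmnBox M)))
      (tscBox ((pvlzCu q a L).1 - 4) ((pvlzCu q a L).1 + 24) ((pvlzCu q a L).2 - 1) ((pvlzCu q a L).2 + 1) ∪ pvlzRay ((pvlzCu q a L).1 + 24, (pvlzCu q a L).2) d) := by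
  rw [Set.disjoint_left]
  rintro c ⟨z, hz, z1, z2, z3, z4⟩ hc
  have hnear : c ∈ pvlzRay ((pvlzCu q a L).1 + 24, (pvlzCu q a L).2) d → z ∈ pvtwN 30 (pvlzRay ((pvlzCu q a L).1 + 24, (pvlzCu q a L).2) d) := fun h =>
    ⟨c, h, by push_cast at z1 z2 z3 z4 ⊢; omega, by push_cast at z1 z2 z3 z4 ⊢; omega, by push_cast at z1 z2 z3 z4 ⊢; omega, by push_cast at z1 z2 z3 z4 ⊢; omega⟩
  rcases hz with hz | (hz | hz) | hz
  · obtain ⟨k1, k2, k3, k4⟩ := hK hz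
    refine Set.disjoint_left.1 (pvlkb_blk_out ha hq hL hd) (hc.imp (fun h => pvlkb_box_sub (by omega) le_rfl le_rfl le_rfl h) id) ?_
    push_cast at z1 z2 z3 z4
    refine ⟨?_, ?_, ?_, ?_⟩ <;> push_cast <;> omega
  · rcases hc with hc | hc
    · exact Set.disjoint_left.1 (pvlkb_ray_blk ha hq hL hsep) ⟨z, hz.1, z1, z2, z3, z4⟩ hc
    · exact Set.disjoint_left.1 (pvlkb_re_far ha hb hq hp hL hsep hd) hz.1 (hnear hc)
  · rcases hc with hc | hc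
    · obtain ⟨k1, k2, k3, k4⟩ := pvlkb_blk_in ha hq hL (pvlkb_box_sub (by omega) le_rfl le_rfl le_rfl hc)
      have := ((pvlkb_mem_ring (by omega)).1 hz.1).2
      push_cast at z1 z2 z3 z4 k1 k2 k3 k4
      omega
    · exact hz.2 (hnear hc)
  · rcases hc with hc | hc
    · exact Set.disjoint_left.1 (pvlkb_acc_blk ha) ⟨z, hz.1, z1, z2, z3, z4⟩ hc
    · exact Set.disjoint_left.1 (pvlkb_acc_far ha hd) hz.1 (hnear hc)

end lay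

section inst

variable {𝔑 : PvmnNum} {τ : PvmnType}

theorem pvlkb_de_spec (𝔑 : PvmnNum) (τ : PvmnType) : PvlkbDe (τ.q 10) (τ.q 0) (pvlzAm 𝔑 τ) (pvlktDe 𝔑 τ) := by
  unfold PvlkbDe pvlktDe
  split_ifs with h1 h2
  · exact Or.inl ⟨h1, Or.inl ⟨h2, rfl⟩⟩
  · exact Or.inl ⟨h1, Or.inr ⟨by omega, rfl⟩⟩
  · exact Or.inr ⟨h1, rfl⟩

theorem pvlkb_sep_ix {ap am : ℤ × ℤ} (hA : PvlzAcc 𝔑 τ ap am) (i j : ℕ) :
    60 < |(τ.q 10).1 + (i : ℤ) * ap.1 - ((τ.q 0).1 + (j : ℤ) * am.1)| ∨ 60 < |(τ.q 10).2 + (i : ℤ) * ap.2 - ((τ.q 0).2 + (j : ℤ) * am.2)| := by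
  have := pvlz_far_of_disj hA.sep (x := ((τ.q 10).1 + (i : ℤ) * ap.1, (τ.q 10).2 + (i : ℤ) * ap.2)) (y := ((τ.q 0).1 + (j : ℤ) * am.1, (τ.q 0).2 + (j : ℤ) * am.2)) (Or.inl ⟨i, rfl⟩) (Or.inl ⟨j, rfl⟩)
  norm_num at this
  exact this

theorem pvlkb_axB_eq (𝔑 : PvmnNum) (τ : PvmnType) : pvlktAxB 𝔑 τ = pvlzRay (τ.q 10) (pvlzAp 𝔑 τ) ∩ pvmnBox (pvlktM 𝔑) ∪
    (pvmnBox (pvlktM 𝔑) \ pvmnBox (pvlktM 𝔑 - 1)) \ pvtwN 30 (pvlzRay ((pvlzCu (τ.q 0) (pvlzAm 𝔑 τ) (pvlzL 𝔑)).1 + 24, (pvlzCu (τ.q 0) (pvlzAm 𝔑 τ) (pvlzL 𝔑)).2) (pvlktDe 𝔑 τ)) ∪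
      pvlzRay (pvlzFr (τ.q 0) (pvlzAm 𝔑 τ) (pvlzL 𝔑)) (pvlzDw (pvlzAm 𝔑 τ)) ∩ pvmnBox (pvlktM 𝔑) := rfl

end inst

/-! ## 3. THE MENU FACTS -/

section menu

variable {𝔑 : PvmnNum} {τ : PvmnType}

/-- (m1) the axis is connected -/
theorem pvlkb_m_conn (hτ : PvmnIsType 𝔑 τ) (hacc : PvlzHasAcc 𝔑 τ) : TscConn tscG ((τ.C 9 : Set (ℤ × ℤ)) ∪ pvlktAxB 𝔑 τ) := by
  have hA := pvlz_acc_spec hacc
  have hp := hτ.box 9 (pvfjm_q10_mem hτ)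
  have h := pvlkb_axis_conn (M := pvlktM 𝔑) (L := pvlzL 𝔑) hA.am_dir hA.ap_dir (pvlz_q0_box hτ) hp rfl rfl (pvlkb_sep_ix hA) (pvlkb_de_spec 𝔑 τ)
  rw [← pvlkb_axB_eq] at h
  refine tsc_conn_union (hτ.conn 9) (pvlkb_conn4 h) (pvfjm_q10_mem hτ) (Or.inl (Or.inl ⟨pvlz_ray_start _ _, pvmn_box_mono ?_ hp⟩)) (Or.inl rfl)
  unfold pvlktM
  omega

/-- (m2) the axis lies in the big box -/
theorem pvlkb_m_box : pvlktAxB 𝔑 τ ⊆ pvmnBox (pvlktM 𝔑) := by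
  rintro c ((hc | hc) | hc)
  · exact hc.2
  · exact hc.1.1
  · exact hc.2

/-- (m3) the axis = a piece of the exit ray and cells far from the plug -/
theorem pvlkb_m_far (hτ : PvmnIsType 𝔑 τ) (hacc : PvlzHasAcc 𝔑 τ) {c : ℤ × ℤ} (hc : c ∈ pvlktAxB 𝔑 τ) : c ∈ pvlzRay (τ.q 10) (pvlzAp 𝔑 τ) ∨ c ∉ pvmnBox (𝔑.nBx + 40) := by
  rcases hc with (hc | hc) | hc
  · exact Or.inl hc.1
  · refine Or.inr fun h => hc.1.2 (pvmn_box_mono ?_ h)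
    unfold pvlktM
    omega
  · exact Or.inr (Set.disjoint_left.1 (pvlz_wm_box (pvlz_acc_spec hacc).am_dir (pvlz_q0_box hτ) (le_of_eq rfl)) hc.1)

/-- (m4) the 1-collar of the axis is off the block of `u` east of the column `C.1 - 4` and off the escape ray -/
theorem pvlkb_m_blk (hτ : PvmnIsType 𝔑 τ) (hacc : PvlzHasAcc 𝔑 τ) :
    Disjoint (pvtwN 1 ((τ.C 9 : Set (ℤ × ℤ)) ∪ pvlktAxB 𝔑 τ)) (tscBox ((pvlzC 𝔑 τ).1 - 4) ((pvlzC 𝔑 τ).1 + 24) ((pvlzC 𝔑 τ).2 - 1) ((pvlzC 𝔑 τ).2 + 1) ∪ pvlktRe 𝔑 τ) := by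
  have hA := pvlz_acc_spec hacc
  have hp := hτ.box 9 (pvfjm_q10_mem hτ)
  exact pvlkb_axis_blk (M := pvlktM 𝔑) (L := pvlzL 𝔑) (hτ.box 9) hA.am_dir hA.ap_dir (pvlz_q0_box hτ) hp rfl rfl (pvlkb_sep_ix hA) (pvlkb_de_spec 𝔑 τ)

/-- (m5) the block of `u` and the escape ray are far from the plug -/
theorem pvlkb_m_out (hτ : PvmnIsType 𝔑 τ) (hacc : PvlzHasAcc 𝔑 τ) :
    Disjoint (tscBox ((pvlzC 𝔑 τ).1 - 9) ((pvlzC 𝔑 τ).1 + 24) ((pvlzC 𝔑 τ).2 - 1) ((pvlzC 𝔑 τ).2 + 1) ∪ pvlktRe 𝔑 τ) (pvmnBox (𝔑.nBx + 10)) := by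
  have hA := pvlz_acc_spec hacc
  rw [Set.disjoint_left]
  rintro x (⟨h1, h2, h3, h4⟩ | h) hb
  · exact (pvby_block (x := x) hA.am_dir (pvlz_q0_box hτ) (rfl : pvlzL 𝔑 = _) (by
      unfold pvlzC at h1 h2 h3 h4
      exact ⟨by omega, by omega, by omega, by omega⟩)).1 (pvmn_box_mono (by omega) hb)
  · exact (pvby_Z_off hτ hacc (Or.inr h)).1 (pvmn_box_mono (by omega) hb)

/-- (m6) the stub and the escape ray -/
theorem pvlkb_m_esc (hacc : PvlzHasAcc 𝔑 τ) : TscConn tscG (pvlktHs 𝔑 τ ∪ pvlktRe 𝔑 τ) ∧ (pvlktRe 𝔑 τ).Infinite := by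
  exact ⟨pvby_HsRe_conn hacc, pvby_ray_inf ((pvby_De_spec 𝔑 τ).dir (pvlz_acc_spec hacc).am_dir)⟩

/-- (m7) the axis of `e`: off the 5-tube of the pieces `1..9`, off the 1-collar of the axis of `b`, off the cells of the strip -/
theorem pvlkb_m_axE (hτ : PvmnIsType 𝔑 τ) (hacc : PvlzHasAcc 𝔑 τ) :
    Disjoint (pvlktAxE 𝔑 τ) (pvtwN 5 (pvmnCells τ 1 9)) ∧ Disjoint (pvlktAxE 𝔑 τ) (pvtwN 1 ((τ.C 9 : Set (ℤ × ℤ)) ∪ pvlktAxB 𝔑 τ)) ∧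
      Disjoint (pvlktAxE 𝔑 τ) (tscBox ((pvlzC 𝔑 τ).1 - 9) ((pvlzC 𝔑 τ).1 - 3) ((pvlzC 𝔑 τ).2 - 1) ((pvlzC 𝔑 τ).2 + 1)) := by
  have hA := pvlz_acc_spec hacc
  have ha := hA.am_dir
  have hq := pvlz_q0_box hτ
  have hL8 := pvlz_L8 𝔑
  refine ⟨?_, ?_, ?_⟩
  · rw [Set.disjoint_left]
    intro c hc h5
    rcases pvby_ax_or ha hq rfl hc with h' | h'
    · exact Set.disjoint_left.1 hA.rm_cells h' (pvtw_N_mono (by omega) le_rfl h5)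
    · exact h' (pvmn_box_mono (by omega) (pvgw_cells_box hτ (by omega) h5))
  · rw [Set.disjoint_left]
    intro c hc
    refine pvby_free (fun h => pvby_sep' hA (by omega) h (pvlz_ax_ray ha hL8 hc)) ?_ (Or.inl (pvlz_ax_box ha hq rfl (pvtw_N_sub hc)))
    rintro ⟨r, hr, r1, r2, r3, r4⟩
    exact Set.disjoint_left.1 (pvlz_wm_ax ha) hr ⟨c, hc, by push_cast at r1 r2 r3 r4 ⊢; omega, by push_cast at r1 r2 r3 r4 ⊢; omega, by push_cast at r1 r2 r3 r4 ⊢; omega, by push_cast at r1 r2 r3 r4 ⊢; omega⟩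
  · rw [Set.disjoint_left]
    rintro c hc ⟨b1, b2, b3, b4⟩
    refine pvby_ax_strip ha (by unfold pvlzL; omega) hc ?_
    unfold pvlzC at b1 b2 b3 b4
    exact ⟨by omega, by omega, by omega, by omega⟩

/-- (m8) the escape ray is off the cells of the strip -/
theorem pvlkb_m_re (hacc : PvlzHasAcc 𝔑 τ) : Disjoint (pvlktRe 𝔑 τ) (tscBox ((pvlzC 𝔑 τ).1 - 9) ((pvlzC 𝔑 τ).1 - 3) ((pvlzC 𝔑 τ).2 - 1) ((pvlzC 𝔑 τ).2 + 1)) := by
  have hd := (pvlz_acc_spec hacc).am_dir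
  have hx : 0 ≤ (pvlktDe 𝔑 τ).1 := by
    unfold pvlktDe
    split_ifs with g1 g2
    · simp
    · simp
    · rcases hd with h | h | h | h
      · rw [h]; simp
      · exact absurd h g1
      · rw [h]
      · rw [h]
  rw [Set.disjoint_left]
  rintro c ⟨j, rfl⟩ ⟨h1, h2, h3, h4⟩
  simp only at h2
  have : 0 ≤ (j : ℤ) * (pvlktDe 𝔑 τ).1 := mul_nonneg (Int.natCast_nonneg j) hx
  omega

/-- (m9) the front of the West door of `u` is the last cell of the axis -/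
theorem pvlkb_m_front (hτ : PvmnIsType 𝔑 τ) (hacc : PvlzHasAcc 𝔑 τ) : ((pvlzC 𝔑 τ).1 - 9, (pvlzC 𝔑 τ).2) ∈ pvlktAxB 𝔑 τ := by
  refine Or.inr ⟨?_, ?_⟩
  · have h := pvlz_ray_start (pvlzFr (τ.q 0) (pvlzAm 𝔑 τ) (pvlzL 𝔑)) (pvlzDw (pvlzAm 𝔑 τ))
    have e : pvlzFr (τ.q 0) (pvlzAm 𝔑 τ) (pvlzL 𝔑) = ((pvlzC 𝔑 τ).1 - 9, (pvlzC 𝔑 τ).2) := Prod.ext pvlz_fr_fst pvlz_fr_snd
    rw [← e]; exact h
  · have h := (pvby_block (x := ((pvlzC 𝔑 τ).1 - 9, (pvlzC 𝔑 τ).2)) (pvlz_acc_spec hacc).am_dir (pvlz_q0_box hτ) (rfl : pvlzL 𝔑 = _) (by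
      unfold pvlzC
      exact ⟨by simp only; omega, by simp only; omega, by simp only; omega, by simp only; omega⟩)).2.2
    exact pvmn_box_mono (by unfold pvlktM; omega) h

end menu

/-! ## 4. the fields -/

section fields

variable {𝔑 : PvmnNum} {τ : PvmnType} {o : ℤ × ℤ}

/-- a cell of the collar part of the tube lies over the 1-collar of the axis -/
theorem pvlkb_Fa_cases {v : ℤ × ℤ} (hv : v ∈ pvlktFaB 𝔑 τ o) :
    (pvlktPhi o).ap v ∈ pvtwN 1 ((τ.C 9 : Set (ℤ × ℤ)) ∪ pvlktAxB 𝔑 τ) ∨ v ∈ pvlktBx (pvlktU0 𝔑 τ o) (-341) (-140) (-14) 70 :=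
  hv.imp pvlkb_phi_N id

theorem pvlkb_strip_ap {v : ℤ × ℤ} (hv : v ∈ pvlktBx (pvlktU0 𝔑 τ o) (-341) (-140) (-14) 70) :
    (pvlktPhi o).ap v ∈ tscBox ((pvlzC 𝔑 τ).1 - 9) ((pvlzC 𝔑 τ).1 - 4) ((pvlzC 𝔑 τ).2 - 1) ((pvlzC 𝔑 τ).2 + 1) := by
  have := pvlkb_phi_bx (o := o) (C := pvlzC 𝔑 τ) hv
  norm_num at this
  exact pvlkb_box_sub (by omega) (by omega) (by omega) (by omega) this

theorem pvlkb_fin (hτ : PvmnIsType 𝔑 τ) : (pvlktFaB 𝔑 τ o).Finite := by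
  refine Set.Finite.union (pvtw_N_finite (pvgw_pre_finite _ ((Finset.finite_toSet _).union ((pvmn_box_finite _).subset pvlkb_m_box)))) (tsc_box_finite _ _ _ _)

theorem pvlkb_conn (hτ : PvmnIsType 𝔑 τ) (hacc : PvlzHasAcc 𝔑 τ) : TscConn tscG (pvlktFaB 𝔑 τ o) := by
  refine tsc_conn_union (pvtw_N_conn (pvgw_pre_conn _ (pvlkb_m_conn hτ hacc))) (pvlkb_conn4 (pvtb_box_conn _ _ _ _))
    (a := ((pvlktU0 𝔑 τ o).1 - 341, (pvlktU0 𝔑 τ o).2)) (b := ((pvlktU0 𝔑 τ o).1 - 341, (pvlktU0 𝔑 τ o).2)) (pvtw_N_sub ?_) ?_ (Or.inl rfl)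
  · have e : (pvlktPhi o).ap ((pvlktU0 𝔑 τ o).1 - 341, (pvlktU0 𝔑 τ o).2) = ((pvlzC 𝔑 τ).1 - 9, (pvlzC 𝔑 τ).2) := by
      rw [pvlkb_phi_ap]
      simp only [pvlktU0, pvlktOu]
      ext <;> simp only <;> omega
    rw [pvlkb_mem_pre, e]
    exact Or.inr (pvlkb_m_front hτ hacc)
  · exact ⟨by simp only; omega, by simp only; omega, by simp only; omega, by simp only; omega⟩

theorem pvlkb_touch (hτ : PvmnIsType 𝔑 τ) : ∃ v ∈ pvlktFaB 𝔑 τ o, (pvlktPhi o).ap v ∈ pvtwN 4 (τ.C 8 : Set (ℤ × ℤ)) := by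
  obtain ⟨v, hv⟩ := pvlkb_ap_surj (pvlktPhi o) (τ.q 9)
  refine ⟨v, Or.inl (pvtw_N_sub ?_), ?_⟩
  · rw [pvlkb_mem_pre, hv]
    exact Or.inl (pvfjm_q9_mem9 hτ)
  · rw [hv]
    exact pvtw_N_sub (pvfjm_q9_mem8 hτ)

theorem pvlkb_off (hτ : PvmnIsType 𝔑 τ) (hacc : PvlzHasAcc 𝔑 τ) : ∀ v ∈ pvlktFaB 𝔑 τ o, (pvlktPhi o).ap v ∈ pvtwN 9 (pvmnCells τ 0 8) → (pvlktPhi o).ap v ∈ pvtwN 1 (τ.C 9 : Set (ℤ × ℤ)) := by
  intro v hv h9
  have hb : (pvlktPhi o).ap v ∈ pvmnBox (𝔑.nBx + 9) := pvmn_N_box (pvmn_cells_box hτ) h9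
  rcases pvlkb_Fa_cases hv with h | h
  · rw [pvtw_N_union] at h
    rcases h with h | h
    · exact h
    · exfalso
      obtain ⟨z, hz, z1, z2, z3, z4⟩ := h
      push_cast at z1 z2 z3 z4
      rcases pvlkb_m_far hτ hacc hz with hr | hr
      · obtain ⟨w, hw, w1, w2, w3, w4⟩ := h9
        push_cast at w1 w2 w3 w4
        exact Set.disjoint_left.1 (pvlz_acc_spec hacc).rp_cells hr ⟨w, hw, by push_cast; omega, by push_cast; omega, by push_cast; omega, by push_cast; omega⟩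
      · obtain ⟨b1, b2, b3, b4⟩ := hb
        push_cast at b1 b2 b3 b4
        refine hr ⟨?_, ?_, ?_, ?_⟩ <;> push_cast <;> omega
  · exfalso
    refine Set.disjoint_left.1 (pvlkb_m_out hτ hacc) (Or.inl (pvlkb_box_sub le_rfl (by omega) le_rfl le_rfl (pvlkb_strip_ap h))) (pvmn_box_mono (by omega) hb)

theorem pvlkb_last : ((pvlktU0 𝔑 τ o).1 - 140, (pvlktU0 𝔑 τ o).2 - 14) ∈ pvlktFaB 𝔑 τ o :=
  Or.inr ⟨by simp only; omega, by simp only; omega, by simp only; omega, by simp only; omega⟩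

theorem pvlkb_En_ap {v : ℤ × ℤ} (hv : v ∈ tscBox ((pvlktU0 𝔑 τ o).1 - 142) ((pvlktU0 𝔑 τ o).1 - 118) ((pvlktU0 𝔑 τ o).2 - 16) ((pvlktU0 𝔑 τ o).2 + 72)) :
    (pvlktPhi o).ap v ∈ tscBox ((pvlzC 𝔑 τ).1 - 4) ((pvlzC 𝔑 τ).1 - 3) ((pvlzC 𝔑 τ).2 - 1) ((pvlzC 𝔑 τ).2 + 1) := by
  obtain ⟨h1, h2, h3, h4⟩ := hv
  simp only [pvlktU0, pvlktOu] at h1 h2 h3 h4
  refine ⟨?_, ?_, ?_, ?_⟩ <;> simp only [pvlkb_phi_ap] <;> omega

theorem pvlkb_box_Fa (hτ : PvmnIsType 𝔑 τ) (hacc : PvlzHasAcc 𝔑 τ) :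
    Disjoint (tscBox ((pvlktU0 𝔑 τ o).1 - 140 + 1) ((pvlktU0 𝔑 τ o).1 - 120) ((pvlktU0 𝔑 τ o).2 - 14) ((pvlktU0 𝔑 τ o).2 + 70)) (pvlktFaB 𝔑 τ o) := by
  rw [Set.disjoint_left]
  intro v hv hF
  rcases pvlkb_Fa_cases hF with h | h
  · exact Set.disjoint_left.1 (pvlkb_m_blk hτ hacc) h (Or.inl (pvlkb_box_sub le_rfl (by omega) le_rfl le_rfl (pvlkb_En_ap (pvlkb_box_sub (by omega) (by omega) (by omega) (by omega) hv))))
  · obtain ⟨v1, -, -, -⟩ := hv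
    obtain ⟨-, s2, -, -⟩ := h
    omega

theorem pvlkb_box_far (hτ : PvmnIsType 𝔑 τ) (hacc : PvlzHasAcc 𝔑 τ) :
    ∀ v ∈ pvtwN 2 (tscBox ((pvlktU0 𝔑 τ o).1 - 140) ((pvlktU0 𝔑 τ o).1 - 120) ((pvlktU0 𝔑 τ o).2 - 14) ((pvlktU0 𝔑 τ o).2 + 70)), (pvlktPhi o).ap v ∉ pvmnBox (𝔑.nBx + 10) := by
  intro v hv
  have h := pvtw_N_box (k := 2) (le_refl _) hv
  push_cast at h
  exact Set.disjoint_left.1 (pvlkb_m_out hτ hacc) (Or.inl (pvlkb_box_sub (by omega) (by omega) le_rfl le_rfl (pvlkb_En_ap (pvlkb_box_sub (by omega) (by omega) (by omega) (by omega) h))))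

/-- the tube -/
theorem pvlkb_Fs_cases {v : ℤ × ℤ} (hv : v ∈ pvlktFs (pvlktPhi o) τ (pvlktFaB 𝔑 τ o) ((pvlktU0 𝔑 τ o).1 - 140) ((pvlktU0 𝔑 τ o).1 - 120) ((pvlktU0 𝔑 τ o).2 - 14) ((pvlktU0 𝔑 τ o).2 + 70)) :
    (pvlktPhi o).ap v ∈ pvtwN 4 (pvmnCells τ 0 8) ∨ (pvlktPhi o).ap v ∈ pvtwN 1 ((τ.C 9 : Set (ℤ × ℤ)) ∪ pvlktAxB 𝔑 τ) ∨ v ∈ pvlktBx (pvlktU0 𝔑 τ o) (-341) (-120) (-14) 70 := by
  rcases hv with (hv | hv) | hv
  · exact Or.inl hv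
  · rcases pvlkb_Fa_cases hv with h | h
    · exact Or.inr (Or.inl h)
    · exact Or.inr (Or.inr (pvlkb_box_sub le_rfl (by omega) le_rfl le_rfl h))
  · exact Or.inr (Or.inr (pvlkb_box_sub (by omega) (by omega) (by omega) (by omega) hv))

theorem pvlkb_strip_ap' {v : ℤ × ℤ} (hv : v ∈ pvlktBx (pvlktU0 𝔑 τ o) (-341) (-120) (-14) 70) :
    (pvlktPhi o).ap v ∈ tscBox ((pvlzC 𝔑 τ).1 - 9) ((pvlzC 𝔑 τ).1 - 3) ((pvlzC 𝔑 τ).2 - 1) ((pvlzC 𝔑 τ).2 + 1) := by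
  have := pvlkb_phi_bx (o := o) (C := pvlzC 𝔑 τ) hv
  norm_num at this
  exact pvlkb_box_sub (by omega) (by omega) (by omega) (by omega) this

/-- the cells of the escape set lie over the block of `u` or over the escape ray -/
theorem pvlkb_esc_ap {v : ℤ × ℤ} (hv : v ∈ pvlktEscB 𝔑 τ o) :
    (pvlktPhi o).ap v ∈ tscBox ((pvlzC 𝔑 τ).1 - 4) ((pvlzC 𝔑 τ).1 + 24) ((pvlzC 𝔑 τ).2 - 1) ((pvlzC 𝔑 τ).2 + 1) ∪ pvlktRe 𝔑 τ := by
  rcases hv with (hv | hv) | hv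
  · have := pvlkb_phi_bx (o := o) (C := pvlzC 𝔑 τ) hv
    norm_num at this
    exact Or.inl (pvlkb_box_sub (by omega) (by omega) (by omega) (by omega) this)
  · have := pvlkb_phi_bx (o := o) (C := pvlzC 𝔑 τ) hv
    norm_num at this
    exact Or.inl (pvlkb_box_sub (by omega) (by omega) (by omega) (by omega) this)
  · rcases hv with hv | hv
    · exact Or.inl (pvlkb_box_sub (by omega) (by omega) (by omega) (by omega) hv)
    · exact Or.inr hv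

theorem pvlkb_esc_off (hτ : PvmnIsType 𝔑 τ) (hacc : PvlzHasAcc 𝔑 τ) :
    Disjoint (pvlktEscB 𝔑 τ o) (pvlktFs (pvlktPhi o) τ (pvlktFaB 𝔑 τ o) ((pvlktU0 𝔑 τ o).1 - 140) ((pvlktU0 𝔑 τ o).1 - 120) ((pvlktU0 𝔑 τ o).2 - 14) ((pvlktU0 𝔑 τ o).2 + 70)) := by
  rw [Set.disjoint_left]
  intro v hv hF
  have hap := pvlkb_esc_ap hv
  rcases pvlkb_Fs_cases hF with h | h | h
  · refine Set.disjoint_left.1 (pvlkb_m_out hτ hacc) (hap.imp (fun h' => pvlkb_box_sub (by omega) le_rfl le_rfl le_rfl h') id) (pvmn_box_mono (by omega) (pvmn_N_box (pvmn_cells_box hτ) h))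
  · exact Set.disjoint_left.1 (pvlkb_m_blk hτ hacc) h hap
  · obtain ⟨s1, s2, s3, s4⟩ := h
    rcases hv with (⟨v1, v2, v3, v4⟩ | ⟨v1, v2, v3, v4⟩) | hv
    · omega
    · omega
    · have hs := pvlkb_strip_ap' (𝔑 := 𝔑) (τ := τ) (o := o) (v := v) ⟨s1, s2, s3, s4⟩
      rcases hv with hv | hv
      · obtain ⟨a1, a2, a3, a4⟩ := hs
        obtain ⟨b1, b2, b3, b4⟩ := hv
        omega
      · exact Set.disjoint_left.1 (pvlkb_m_re hacc) hv hs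

theorem pvlkb_esc_conn (hacc : PvlzHasAcc 𝔑 τ) : TscConn tscG (pvlktEscB 𝔑 τ o) := by
  refine tsc_conn_union (tsc_conn_union (pvlkb_conn4 (pvtb_box_conn _ _ _ _)) (pvlkb_conn4 (pvtb_box_conn _ _ _ _))
    (a := ((pvlktU0 𝔑 τ o).1 - 120, (pvlktU0 𝔑 τ o).2 - 15)) (b := ((pvlktU0 𝔑 τ o).1 - 119, (pvlktU0 𝔑 τ o).2 - 15)) ?_ ?_ (Or.inr ?_))
    (pvgw_pre_conn _ (pvlkb_m_esc hacc).1) (a := ((pvlktU0 𝔑 τ o).1 + 320, (pvlktU0 𝔑 τ o).2)) (b := ((pvlktU0 𝔑 τ o).1 + 320, (pvlktU0 𝔑 τ o).2)) (Or.inr ?_) ?_ (Or.inl rfl)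
  · exact ⟨by simp only; omega, by simp only; omega, by simp only; omega, by simp only; omega⟩
  · exact ⟨by simp only; omega, by simp only; omega, by simp only; omega, by simp only; omega⟩
  · rw [tsc_G_adj, tsc_adj_iff]
    exact Or.inl ⟨by simp only; omega, rfl⟩
  · exact ⟨by simp only; omega, by simp only; omega, by simp only; omega, by simp only; omega⟩
  · refine Or.inl ?_
    rw [pvlkb_phi_ap]
    simp only [pvlktU0, pvlktOu]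
    exact ⟨by simp only; omega, by simp only; omega, by simp only; omega, by simp only; omega⟩

/-- **the escape set is joined to infinity off the tube** -/
theorem pvlkb_esc_out (hτ : PvmnIsType 𝔑 τ) (hacc : PvlzHasAcc 𝔑 τ) :
    pvlktEscB 𝔑 τ o ⊆ pvtOut (pvlktFs (pvlktPhi o) τ (pvlktFaB 𝔑 τ o) ((pvlktU0 𝔑 τ o).1 - 140) ((pvlktU0 𝔑 τ o).1 - 120) ((pvlktU0 𝔑 τ o).2 - 14) ((pvlktU0 𝔑 τ o).2 + 70)) :=
  pvlkb_out_of_inf (pvlkb_esc_conn hacc) ((pvlkb_pre_inf _ (pvlkb_m_esc hacc).2).mono fun v hv => Or.inr (Or.inr hv)) (pvlkb_esc_off hτ hacc)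

theorem pvlkb_wit (hτ : PvmnIsType 𝔑 τ) (hacc : PvlzHasAcc 𝔑 τ) :
    ∃ x ∈ pvtrBd (pvmnK3 τ), x.2 ∈ pvmnDrm τ ∧
      ∃ v ∈ pvtOut (pvlktFs (pvlktPhi o) τ (pvlktFaB 𝔑 τ o) ((pvlktU0 𝔑 τ o).1 - 140) ((pvlktU0 𝔑 τ o).1 - 120) ((pvlktU0 𝔑 τ o).2 - 14) ((pvlktU0 𝔑 τ o).2 + 70)), (pvlktPhi o).ap v = x.2 := by
  have hA := pvlz_acc_spec hacc
  obtain ⟨e1, e2, e3⟩ := pvlkb_m_axE hτ hacc
  have hQ : TscConn tscG ((pvlktPhi o).pre (pvlktAxE 𝔑 τ)) := pvgw_pre_conn _ (pvlkb_conn4 (pvlz_ax_conn hA.am_dir (pvlz_L8 𝔑)))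
  obtain ⟨v1, hv1⟩ := pvlkb_ap_surj (pvlktPhi o) (τ.q 0)
  have hd : (pvlktPhi o).ap ((pvlktU0 𝔑 τ o).1 + 320, (pvlktU0 𝔑 τ o).2) = (8, 0) + pvlzC 𝔑 τ := by
    rw [pvlkb_phi_ap]
    simp only [pvlktU0, pvlktOu]
    ext
    · simp only [Prod.fst_add]; omega
    · simp only [Prod.snd_add]; omega
  obtain ⟨x, hx, v, hvQ, hv, hvx⟩ := pvgw_wit_aux (pvlktPhi o) (K := pvmnK3 τ) hQ
    ⟨v1, by rw [pvlkb_mem_pre, hv1]; exact pvlz_ax_tip hA.am_dir (pvlz_L8 𝔑), by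
      rw [hv1]; exact pvt_hull_sub (pvtw_N_sub (pvmn_C_sub 0 (le_refl _) (by decide) (pvfjm_q0_mem hτ)))⟩
    ⟨((pvlktU0 𝔑 τ o).1 + 320, (pvlktU0 𝔑 τ o).2), by rw [pvlkb_mem_pre, hd]; exact pvlz_ax_door hA.am_dir (pvlz_L8 𝔑),
      pvlkb_esc_out (o := o) hτ hacc (Or.inl (Or.inr ⟨by simp only; omega, by simp only; omega, by simp only; omega, by simp only; omega⟩)), by
      intro hK
      refine Set.disjoint_left.1 (pvlkb_m_out hτ hacc) (Or.inl ?_) (pvmn_box_mono (by omega) (pvmn_K3_box hτ hK))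
      rw [hd]
      exact ⟨by simp only [Prod.fst_add]; omega, by simp only [Prod.fst_add]; omega, by simp only [Prod.snd_add]; omega, by simp only [Prod.snd_add]; omega⟩⟩
    (by
      intro v hv hF
      rcases pvlkb_Fs_cases hF with h | h | h
      · exact pvt_hull_sub (pvtw_N_mono le_rfl (pvmn_cells_mono (by omega) (by omega)) h)
      · exact (Set.disjoint_left.1 e2 hv h).elim
      · exact (Set.disjoint_left.1 e3 hv (pvlkb_strip_ap' h)).elim)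
  refine ⟨x, hx, ?_, v, hv, hvx⟩
  obtain ⟨k, _, k2, hk⟩ := pvmn_N_cells.1 (pvmn_K3_dart hx).2
  rcases Nat.eq_zero_or_pos k.1 with h | h
  · have : k = 0 := Fin.ext (by change k.1 = 0; omega)
    subst this
    exact pvtw_N_mono (by omega) le_rfl hk
  · refine (Set.disjoint_left.1 e1 hvQ ?_).elim
    rw [hvx]
    exact pvmn_N_cells.2 ⟨k, by omega, by omega, hk⟩

/-- **H4 : THE CLAUSES OF THE HALF GLUE AT THE LAYOUT OF `b`** -/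
theorem pvlkb_Hs (hτ : PvmnIsType 𝔑 τ) (hacc : PvlzHasAcc 𝔑 τ) (o : ℤ × ℤ) :
    PvlktHs 𝔑 (pvlktPhi o) τ (pvlktFaB 𝔑 τ o) ((pvlktU0 𝔑 τ o).1 - 140) ((pvlktU0 𝔑 τ o).1 - 120) ((pvlktU0 𝔑 τ o).2 - 14) ((pvlktU0 𝔑 τ o).2 + 70) where
  ts := hτ
  fin := pvlkb_fin hτ
  conn := pvlkb_conn hτ hacc
  touch := pvlkb_touch hτ
  off := pvlkb_off hτ hacc
  hX := by omega
  hY := by omega
  last := pvlkb_last
  box_Fa := pvlkb_box_Fa hτ hacc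
  box_far := pvlkb_box_far hτ hacc
  out := by
    intro v h1 h2 h3 h4 hv
    refine pvlkb_esc_out hτ hacc ?_
    by_cases hx : v.1 ≤ (pvlktU0 𝔑 τ o).1 - 120
    · refine Or.inl (Or.inl ⟨by omega, by omega, by omega, ?_⟩)
      by_contra hc
      exact hv ⟨h1, hx, by omega, by omega⟩
    · exact Or.inl (Or.inr ⟨by omega, by omega, by omega, by omega⟩)
  wit := pvlkb_wit hτ hacc

end fields

end Claimed.Agent.R289
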