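import Claimed.Agent.R289.Tr.LinkLayB

/-!
# Row 289 (S0537, Cardy for Poisson-Voronoi), unit TR, ROAD P, THICK LINKS, file Tr/LinkLayK : THE BLACK HALF (+ `dj`, `finE`) OF `PvlktCell` AT THE LAYOUTS OF `e`, `b`      (pen helper69; prefix `pvlkk_`)

The record `PvlktCell` lives in `Tr/LinkGeoT` (which imports this file's ancestors): the fields are stated here ONE BY ONE, VERBATIM at the defs of `Tr/LinkLay` (164), so that the roofs `pvlkt_e_cell`, `pvlkt_b_cell` read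
`{ cXB := pvlkk_e_cXB .., boxB := pvlkk_e_boxB .., subB := pvlkk_e_subB, uB := .., tB := .., zuB := .., ztB := .., ruB := .., rtB := .., dj := pvlkk_dj .., finE := pvlkk_e_finE .., (white half, sep) }`.
`pvlktBs true u a b c d = pvlktBx u a b c d`, `pvlktBs false u a b c d = pvlktBx u (-b - 1) (-a - 1) c d` (both by `rfl` / `if_pos rfl`).
-/

set_option autoImplicit false
set_option linter.unusedSectionVars false
set_option linter.unusedVariables false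
set_option linter.unusedSimpArgs false

namespace Claimed.Agent.R289

open Set Relation Claims.C0467 Claimed.Agent.R291

/-! ## 0. tools -/

section tools

variable {o C v : ℤ × ℤ} {E F : Set (ℤ × ℤ)} {a b c d : ℤ} {k n : ℕ}

/-- a fine `k`-collar, `k ≤ 40`, lies over the menu 1-collar -/
theorem pvlkk_phi_N (hk : k ≤ 40) (h : v ∈ pvtwN k ((pvlktPhi o).pre E)) : (pvlktPhi o).ap v ∈ pvtwN 1 E := by
  obtain ⟨z, hz, h1, h2, h3, h4⟩ := h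
  refine ⟨(pvlktPhi o).ap z, hz, ?_, ?_, ?_, ?_⟩ <;> simp only [pvlkb_phi_ap] <;> push_cast <;> omega

/-- the collar of a box relative to `u` -/
theorem pvlkk_N_bx {u : ℤ × ℤ} (h : v ∈ pvtwN k (pvlktBx u a b c d)) : v ∈ pvlktBx u (a - k) (b + k) (c - k) (d + k) := by
  obtain ⟨z, ⟨z1, z2, z3, z4⟩, h1, h2, h3, h4⟩ := h
  exact ⟨by omega, by omega, by omega, by omega⟩

theorem pvlkk_bx_mono {u : ℤ × ℤ} {a' b' c' d' : ℤ} (h1 : a' ≤ a) (h2 : b ≤ b') (h3 : c' ≤ c) (h4 : d ≤ d') : pvlktBx u a b c d ⊆ pvlktBx u a' b' c' d' := by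
  rintro v ⟨v1, v2, v3, v4⟩
  exact ⟨by omega, by omega, by omega, by omega⟩

/-- a fine cell over the menu box `n` lies in the fine box `40 (n + 1)` -/
theorem pvlkk_box_of_ap (h : (pvlktPhi o).ap v ∈ pvmnBox n) : |v.1 - o.1| ≤ 40 * ((n : ℤ) + 1) ∧ |v.2 - o.2| ≤ 40 * ((n : ℤ) + 1) := by
  obtain ⟨h1, h2, h3, h4⟩ := h
  simp only [pvlkb_phi_ap] at h1 h2 h3 h4
  constructor <;> rw [abs_le] <;> constructor <;> omega

/-- the corner of a menu cell -/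
theorem pvlkk_ap_corner (o c : ℤ × ℤ) {x y : ℤ} (hx0 : 0 ≤ x) (hx : x < 40) (hy0 : 0 ≤ y) (hy : y < 40) : (pvlktPhi o).ap (o.1 + 40 * c.1 + x, o.2 + 40 * c.2 + y) = c := by
  rw [pvlkb_phi_ap]
  exact Prod.ext (by simp only; omega) (by simp only; omega)

theorem pvlkk_sh_mem {x : ℤ × ℤ} (h1 : |x.1 - C.1| ≤ n) (h2 : |x.2 - C.2| ≤ n) : x ∈ pvfjSh C (pvmnBox n) := by
  rw [abs_le] at h1 h2
  exact ⟨(x.1 - C.1, x.2 - C.2), ⟨by simp only; omega, by simp only; omega, by simp only; omega, by simp only; omega⟩, Prod.ext (by simp) (by simp)⟩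

end tools

/-! ## 1. menu facts of `e` -/

section menuE

variable {𝔑 : PvmnNum} {τ : PvmnType}

theorem pvlkk_q1 (hτ : PvmnIsType 𝔑 τ) : τ.q 1 ∈ (τ.C 0 : Set (ℤ × ℤ)) ∧ τ.q 1 ∈ (τ.C 1 : Set (ℤ × ℤ)) := ⟨hτ.q_end 0, hτ.q_start 1⟩
theorem pvlkk_q2 (hτ : PvmnIsType 𝔑 τ) : τ.q 2 ∈ (τ.C 1 : Set (ℤ × ℤ)) ∧ τ.q 2 ∈ (τ.C 2 : Set (ℤ × ℤ)) := ⟨hτ.q_end 1, hτ.q_start 2⟩
theorem pvlkk_q8 (hτ : PvmnIsType 𝔑 τ) : τ.q 8 ∈ (τ.C 7 : Set (ℤ × ℤ)) ∧ τ.q 8 ∈ (τ.C 8 : Set (ℤ × ℤ)) := ⟨hτ.q_end 7, hτ.q_start 8⟩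
theorem pvlkk_q9 (hτ : PvmnIsType 𝔑 τ) : τ.q 9 ∈ (τ.C 8 : Set (ℤ × ℤ)) ∧ τ.q 9 ∈ (τ.C 9 : Set (ℤ × ℤ)) := ⟨hτ.q_end 8, hτ.q_start 9⟩

/-- the axis of the black walk of `e` is connected -/
theorem pvlkk_e_m_conn (hτ : PvmnIsType 𝔑 τ) (hacc : PvlzHasAcc 𝔑 τ) : TscConn tscG ((τ.C 0 : Set (ℤ × ℤ)) ∪ (τ.C 1 : Set (ℤ × ℤ)) ∪ pvlktAxE 𝔑 τ) := by
  have hA := pvlz_acc_spec hacc
  have h01 := tsc_conn_union (hτ.conn 0) (hτ.conn 1) (pvlkk_q1 hτ).1 (pvlkk_q1 hτ).2 (Or.inl rfl)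
  exact tsc_conn_union h01 (pvlkb_conn4 (pvlz_ax_conn hA.am_dir (pvlz_L8 𝔑))) (Or.inl (pvfjm_q0_mem hτ)) (pvlz_ax_tip hA.am_dir (pvlz_L8 𝔑)) (Or.inl rfl)

/-- the axis of `e` keeps 8 cells off the centre of `u` -/
theorem pvlkk_ax_far {q a : ℤ × ℤ} {L : ℤ} (ha : PvfjDir a) {x : ℤ × ℤ} (hx : x ∈ pvlzAx q a L) : 8 ≤ |x.1 - (pvlzCu q a L).1| ∨ 8 ≤ |x.2 - (pvlzCu q a L).2| := by
  rcases ha with rfl | rfl | rfl | rfl
  · rw [pvlz_ax_E] at hx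
    rw [pvlz_cu_E]
    rcases hx with (⟨h1, h2, h3, h4⟩ | ⟨h1, h2, h3, h4⟩) | ⟨h1, h2, h3, h4⟩
    · right; rw [le_abs]; simp only; omega
    · left; rw [le_abs]; simp only; omega
    · left; rw [le_abs]; simp only; omega
  · rw [pvlz_ax_W] at hx
    rw [pvlz_cu_W]
    obtain ⟨h1, h2, h3, h4⟩ := hx
    left; rw [le_abs]; simp only; omega
  · rw [pvlz_ax_N] at hx
    rw [pvlz_cu_N]
    rcases hx with ⟨h1, h2, h3, h4⟩ | ⟨h1, h2, h3, h4⟩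
    · left; rw [le_abs]; simp only; omega
    · left; rw [le_abs]; simp only; omega
  · rw [pvlz_ax_S] at hx
    rw [pvlz_cu_S]
    rcases hx with ⟨h1, h2, h3, h4⟩ | ⟨h1, h2, h3, h4⟩
    · left; rw [le_abs]; simp only; omega
    · left; rw [le_abs]; simp only; omega

/-- a cell of the axis of `e` lies on the entrance ray or far from the plug -/
theorem pvlkk_ax_alt {q a : ℤ × ℤ} {L : ℤ} {n : ℕ} (ha : PvfjDir a) (hq : q ∈ pvmnBox n) (hL : 2 * (n : ℤ) + 60 ≤ L) {x : ℤ × ℤ} (hx : x ∈ pvlzAx q a L) : x ∈ pvlzRay q a ∨ x ∉ pvmnBox (n + 40) := by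
  obtain ⟨q1, q2, q3, q4⟩ := hq
  rcases ha with rfl | rfl | rfl | rfl
  · rw [pvlz_ax_E] at hx
    rcases hx with (⟨h1, h2, h3, h4⟩ | ⟨h1, h2, h3, h4⟩) | ⟨h1, h2, h3, h4⟩
    · left; exact ⟨(x.1 - q.1).toNat, Prod.ext (by simp only; omega) (by simp only; omega)⟩
    · right; rintro ⟨b1, b2, b3, b4⟩; push_cast at b1 b2 b3 b4; omega
    · right; rintro ⟨b1, b2, b3, b4⟩; push_cast at b1 b2 b3 b4; omega
  · rw [pvlz_ax_W] at hx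
    obtain ⟨h1, h2, h3, h4⟩ := hx
    left; exact ⟨(q.1 - x.1).toNat, Prod.ext (by simp only; omega) (by simp only; omega)⟩
  · rw [pvlz_ax_N] at hx
    rcases hx with ⟨h1, h2, h3, h4⟩ | ⟨h1, h2, h3, h4⟩
    · left; exact ⟨(x.2 - q.2).toNat, Prod.ext (by simp only; omega) (by simp only; omega)⟩
    · right; rintro ⟨b1, b2, b3, b4⟩; push_cast at b1 b2 b3 b4; omega
  · rw [pvlz_ax_S] at hx
    rcases hx with ⟨h1, h2, h3, h4⟩ | ⟨h1, h2, h3, h4⟩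
    · left; exact ⟨(q.2 - x.2).toNat, Prod.ext (by simp only; omega) (by simp only; omega)⟩
    · right; rintro ⟨b1, b2, b3, b4⟩; push_cast at b1 b2 b3 b4; omega

theorem pvlkk_sh_C {x : ℤ × ℤ} (h1 : |x.1 - (pvlzC 𝔑 τ).1| ≤ 8) (h2 : |x.2 - (pvlzC 𝔑 τ).2| ≤ 8) : x ∈ pvfjSh (pvlzCu (τ.q 0) (pvlzAm 𝔑 τ) (pvlzL 𝔑)) (pvmnBox 8) :=
  pvlkk_sh_mem (C := pvlzC 𝔑 τ) (n := 8) (by exact_mod_cast h1) (by exact_mod_cast h2)

/-- the block of `u` is far from the plug -/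
theorem pvlkk_u_far (hτ : PvmnIsType 𝔑 τ) (hacc : PvlzHasAcc 𝔑 τ) {x : ℤ × ℤ} (h1 : |x.1 - (pvlzC 𝔑 τ).1| ≤ 8) (h2 : |x.2 - (pvlzC 𝔑 τ).2| ≤ 8) : x ∉ pvmnBox (𝔑.nBx + 40) :=
  Set.disjoint_left.1 (pvlz_u_off (pvlz_acc_spec hacc).am_dir (pvlz_q0_box hτ) (le_of_eq rfl)) (pvlkk_sh_mem (n := 8) (by exact_mod_cast h1) (by exact_mod_cast h2))

theorem pvlkk_u_far9 (hτ : PvmnIsType 𝔑 τ) (hacc : PvlzHasAcc 𝔑 τ) {x : ℤ × ℤ} (h1 : |x.1 - (pvlzC 𝔑 τ).1| ≤ 9) (h2 : |x.2 - (pvlzC 𝔑 τ).2| ≤ 9) : x ∉ pvmnBox (𝔑.nBx + 39) := by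
  rintro ⟨b1, b2, b3, b4⟩
  rw [abs_le] at h1 h2
  push_cast at b1 b2 b3 b4
  refine pvlkk_u_far hτ hacc (x := (max ((pvlzC 𝔑 τ).1 - 8) (min x.1 ((pvlzC 𝔑 τ).1 + 8)), max ((pvlzC 𝔑 τ).2 - 8) (min x.2 ((pvlzC 𝔑 τ).2 + 8)))) ?_ ?_ ⟨?_, ?_, ?_, ?_⟩
  · rw [abs_le]; constructor <;> simp only <;> omega
  · rw [abs_le]; constructor <;> simp only <;> omega
  all_goals simp only; push_cast; omega

/-- the state region with its 1-collar lies in the ball part of the obstacle, in the box -/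
theorem pvlkk_Bl_N (hN : PvmnNumOK 𝔑) : pvtwN 1 (pvmnBl 𝔑.rO) ⊆ pvmnBl 𝔑.rB :=
  pvmn_N_Bl 1 (by have := hN.rO_rB; push_cast; linarith)

theorem pvlkk_Bl_box (hN : PvmnNumOK 𝔑) : pvmnBl 𝔑.rB ⊆ pvmnBox 𝔑.nBx :=
  (pvmn_Bl_box hN.rB_nC).trans (pvmn_box_mono (by have := hN.nC_nF; have := hN.nF_nBx; omega))

/-- a set off the ball `rB`: its 1-collar is off the state region -/
theorem pvlkk_off_O (hN : PvmnNumOK 𝔑) {E : Set (ℤ × ℤ)} (h : Disjoint E (pvmnBl 𝔑.rB)) : Disjoint (pvtwN 1 E) (pvmnBl 𝔑.rO) := by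
  rw [Set.disjoint_left]
  rintro x ⟨z, hz, h1, h2, h3, h4⟩ hx
  exact Set.disjoint_left.1 h hz (pvlkk_Bl_N hN ⟨x, hx, h2, h1, h4, h3⟩)

theorem pvlkk_C_off (hN : PvmnNumOK 𝔑) (hτ : PvmnIsType 𝔑 τ) (k : Fin 10) (h4 : k.1 ≠ 4) (h5 : k.1 ≠ 5) {j : ℕ} (hj : j ≤ 10) : Disjoint (pvtwN j (τ.C k : Set (ℤ × ℤ))) (pvmnBl 𝔑.rO) :=
  ((hτ.ball k h4 h5).mono_left (pvtw_N_mono hj subset_rfl)).mono_right (pvmn_Bl_mono (by have := hN.rO_rB; linarith))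

/-- the 1-collar of the axis of `e` is off the state region -/
theorem pvlkk_e_m_O (hN : PvmnNumOK 𝔑) (hτ : PvmnIsType 𝔑 τ) (hacc : PvlzHasAcc 𝔑 τ) : Disjoint (pvtwN 1 (pvlktAxE 𝔑 τ)) (pvmnBl 𝔑.rO) := by
  have hA := pvlz_acc_spec hacc
  refine pvlkk_off_O hN ?_
  rw [Set.disjoint_left]
  intro x hx hB
  rcases pvlkk_ax_alt hA.am_dir (pvlz_q0_box hτ) (le_of_eq rfl) hx with h | h
  · exact Set.disjoint_left.1 hA.rm_B h (Or.inl (Or.inl hB))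
  · exact h (pvmn_box_mono (by omega) (pvlkk_Bl_box hN hB))

/-- the axis of the black walk of `e`, with its 1-collar, lies in the box `3 nBx + 100` -/
theorem pvlkk_e_m_box (hτ : PvmnIsType 𝔑 τ) (hacc : PvlzHasAcc 𝔑 τ) : pvtwN 1 ((τ.C 0 : Set (ℤ × ℤ)) ∪ (τ.C 1 : Set (ℤ × ℤ)) ∪ pvlktAxE 𝔑 τ) ⊆ pvmnBox (3 * 𝔑.nBx + 100) := by
  rw [pvtw_N_union, pvtw_N_union]
  rintro x ((hx | hx) | hx)
  · exact pvmn_box_mono (by omega) (pvmn_N_box (hτ.box 0) hx)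
  · exact pvmn_box_mono (by omega) (pvmn_N_box (hτ.box 1) hx)
  · exact pvlz_ax_box (pvlz_acc_spec hacc).am_dir (pvlz_q0_box hτ) rfl (pvtw_N_mono (by norm_num) subset_rfl hx)

/-- the axis of the black walk of `e`, with its 1-collar, is off the block `|x - C| ≤ 6` -/
theorem pvlkk_e_m_u (hτ : PvmnIsType 𝔑 τ) (hacc : PvlzHasAcc 𝔑 τ) {x : ℤ × ℤ} (hx : x ∈ pvtwN 1 ((τ.C 0 : Set (ℤ × ℤ)) ∪ (τ.C 1 : Set (ℤ × ℤ)) ∪ pvlktAxE 𝔑 τ)) :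
    6 < |x.1 - (pvlzC 𝔑 τ).1| ∨ 6 < |x.2 - (pvlzC 𝔑 τ).2| := by
  by_contra hc
  push Not at hc
  obtain ⟨c1, c2⟩ := hc
  obtain ⟨z, hz, h1, h2, h3, h4⟩ := hx
  push_cast at h1 h2 h3 h4
  rw [abs_le] at c1 c2
  have z1 : |z.1 - (pvlzC 𝔑 τ).1| ≤ 7 := by rw [abs_le]; constructor <;> omega
  have z2 : |z.2 - (pvlzC 𝔑 τ).2| ≤ 7 := by rw [abs_le]; constructor <;> omega
  rcases hz with (hz | hz) | hz
  · exact pvlkk_u_far hτ hacc (by omega) (by omega) (pvmn_box_mono (by omega) (hτ.box 0 hz))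
  · exact pvlkk_u_far hτ hacc (by omega) (by omega) (pvmn_box_mono (by omega) (hτ.box 1 hz))
  · rcases pvlkk_ax_far (pvlz_acc_spec hacc).am_dir hz with h | h
    · exact absurd (h.trans z1) (by norm_num)
    · exact absurd (h.trans z2) (by norm_num)

end menuE

/-! ## 2. the fields of `e` -/

section fieldsE

variable {𝔑 : PvmnNum} {τ : PvmnType} {o : ℤ × ℤ}

theorem pvlkk_U0 : pvlktU0 𝔑 τ o = (o.1 + 40 * (pvlzC 𝔑 τ).1, o.2 + 40 * (pvlzC 𝔑 τ).2) := rfl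

theorem pvlkk_C_box (hτ : PvmnIsType 𝔑 τ) (hacc : PvlzHasAcc 𝔑 τ) : pvlzC 𝔑 τ ∈ pvmnBox (3 * 𝔑.nBx + 60) :=
  pvlz_cu_box (pvlz_acc_spec hacc).am_dir (pvlz_q0_box hτ) rfl

/-- a fine cell in a box round `u` : its menu cell -/
theorem pvlkk_bx_ap {v : ℤ × ℤ} {a b c d : ℤ} (h : v ∈ pvlktBx (pvlktU0 𝔑 τ o) a b c d) :
    (pvlzC 𝔑 τ).1 + a / 40 ≤ ((pvlktPhi o).ap v).1 ∧ ((pvlktPhi o).ap v).1 ≤ (pvlzC 𝔑 τ).1 + b / 40 ∧ (pvlzC 𝔑 τ).2 + c / 40 ≤ ((pvlktPhi o).ap v).2 ∧ ((pvlktPhi o).ap v).2 ≤ (pvlzC 𝔑 τ).2 + d / 40 :=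
  pvlkb_phi_bx h

theorem pvlkk_e_cXB (hτ : PvmnIsType 𝔑 τ) (hacc : PvlzHasAcc 𝔑 τ) : TscConn tscG (pvlktXBe 𝔑 τ o) := by
  have hA := pvlz_acc_spec hacc
  have c1 : TscConn tscG (pvtwN 9 ((pvlktPhi o).pre ((τ.C 0 : Set (ℤ × ℤ)) ∪ (τ.C 1 : Set (ℤ × ℤ)) ∪ pvlktAxE 𝔑 τ))) := pvtw_N_conn (pvgw_pre_conn _ (pvlkk_e_m_conn hτ hacc))
  have c2 : TscConn tscG ((pvlktPhi o).pre (pvtwN 3 (τ.C 2 : Set (ℤ × ℤ)))) := pvgw_pre_conn _ (pvtw_N_conn (hτ.conn 2))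
  obtain ⟨v, hv⟩ := pvlkb_ap_surj (pvlktPhi o) (τ.q 2)
  have m1 : v ∈ (pvlktPhi o).pre ((τ.C 0 : Set (ℤ × ℤ)) ∪ (τ.C 1 : Set (ℤ × ℤ)) ∪ pvlktAxE 𝔑 τ) := by
    rw [pvlkb_mem_pre, hv]; exact Or.inl (Or.inr (pvlkk_q2 hτ).1)
  have m2 : v ∈ (pvlktPhi o).pre (pvtwN 3 (τ.C 2 : Set (ℤ × ℤ))) := by
    rw [pvlkb_mem_pre, hv]; exact pvtw_N_sub (pvlkk_q2 hτ).2
  have c12 := tsc_conn_union c1 c2 (pvtw_N_sub m1) m2 (Or.inl rfl)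
  refine tsc_conn_union c12 (tsc_box_conn _ _ _ _) (a := ((pvlktU0 𝔑 τ o).1 + 320, (pvlktU0 𝔑 τ o).2 + 16)) (Or.inl (pvtw_N_sub ?_)) ⟨by simp only; omega, by simp only; omega, by simp only; omega, by simp only; omega⟩ (Or.inl rfl)
  rw [pvlkb_mem_pre]
  have : (pvlktPhi o).ap ((pvlktU0 𝔑 τ o).1 + 320, (pvlktU0 𝔑 τ o).2 + 16) = (8, 0) + pvlzC 𝔑 τ := by
    rw [pvlkb_phi_ap, pvlkk_U0]
    exact Prod.ext (by simp only [Prod.fst_add]; omega) (by simp only [Prod.snd_add]; omega)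
  rw [this]
  exact Or.inr (pvlz_ax_door hA.am_dir (pvlz_L8 𝔑))

theorem pvlkk_NN (𝔑 : PvmnNum) : ((pvlktNN 𝔑 : ℕ) : ℤ) = 40 * (3 * (𝔑.nBx : ℤ) + 204) := by
  simp only [pvlktNN, pvlktM]; push_cast; ring

/-- a fine cell over the menu box `3 nBx + 203` is in the box of the layout -/
theorem pvlkk_box_NN {v : ℤ × ℤ} {n : ℕ} (hn : n ≤ 3 * 𝔑.nBx + 203) (h : (pvlktPhi o).ap v ∈ pvmnBox n) : |v.1 - o.1| ≤ pvlktNN 𝔑 ∧ |v.2 - o.2| ≤ pvlktNN 𝔑 := by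
  have := pvlkk_box_of_ap h
  rw [pvlkk_NN]
  constructor <;> omega

/-- a fine cell in a box round `u` is in the box of the layout -/
theorem pvlkk_bx_NN (hτ : PvmnIsType 𝔑 τ) (hacc : PvlzHasAcc 𝔑 τ) {v : ℤ × ℤ} (h : v ∈ pvlktBx (pvlktU0 𝔑 τ o) (-400) 400 (-400) 400) : |v.1 - o.1| ≤ pvlktNN 𝔑 ∧ |v.2 - o.2| ≤ pvlktNN 𝔑 := by
  obtain ⟨c1, c2, c3, c4⟩ := pvlkk_C_box hτ hacc
  obtain ⟨h1, h2, h3, h4⟩ := h
  rw [pvlkk_U0] at h1 h2 h3 h4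
  simp only at h1 h2 h3 h4
  push_cast at c1 c2 c3 c4
  rw [pvlkk_NN]
  constructor <;> rw [abs_le] <;> constructor <;> omega

theorem pvlkk_e_boxB (hτ : PvmnIsType 𝔑 τ) (hacc : PvlzHasAcc 𝔑 τ) : ∀ k ∈ pvtwN 1 (pvlktXBe 𝔑 τ o), |k.1 - o.1| ≤ pvlktNN 𝔑 ∧ |k.2 - o.2| ≤ pvlktNN 𝔑 := by
  intro k hk
  rw [pvlktXBe, pvtw_N_union, pvtw_N_union, pvtw_N_add] at hk
  rcases hk with (hk | hk) | hk
  · exact pvlkk_box_NN (by omega) (pvlkk_e_m_box hτ hacc (pvlkk_phi_N (by norm_num) hk))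
  · have := pvlkk_phi_N (by norm_num) hk
    rw [pvtw_N_add] at this
    exact pvlkk_box_NN (by omega) (pvmn_N_box (hτ.box 2) this)
  · exact pvlkk_bx_NN hτ hacc (pvlkk_bx_mono (by norm_num) (by norm_num) (by norm_num) (by norm_num) (pvlkk_N_bx hk))

theorem pvlkk_e_subB : pvtwN 2 (pvlktXBe 𝔑 τ o) ⊆ pvlktBke 𝔑 τ o := fun _ h => Or.inl (Or.inl h)

theorem pvlkk_e_uB (hτ : PvmnIsType 𝔑 τ) (hacc : PvlzHasAcc 𝔑 τ) : Disjoint (pvtwN 2 (pvlktXBe 𝔑 τ o)) (pvlktBx (pvlktU0 𝔑 τ o) (-130) 129 (-130) 129) := by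
  rw [Set.disjoint_left]
  intro k hk hu
  obtain ⟨u1, u2, u3, u4⟩ := pvlkk_bx_ap hu
  norm_num at u1 u2 u3 u4
  rw [pvlktXBe, pvtw_N_union, pvtw_N_union, pvtw_N_add] at hk
  rcases hk with (hk | hk) | hk
  · rcases pvlkk_e_m_u hτ hacc (pvlkk_phi_N (by norm_num) hk) with h | h <;> rw [lt_abs] at h <;> omega
  · have := pvlkk_phi_N (by norm_num) hk
    rw [pvtw_N_add] at this
    exact pvlkk_u_far hτ hacc (by rw [abs_le]; constructor <;> omega) (by rw [abs_le]; constructor <;> omega) (pvmn_box_mono (by omega) (pvmn_N_box (hτ.box 2) this))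
  · obtain ⟨h1, h2, h3, h4⟩ := pvlkk_N_bx hk
    obtain ⟨v1, v2, v3, v4⟩ := hu
    push_cast at h1
    omega

theorem pvlkk_e_tB (hN : PvmnNumOK 𝔑) (hτ : PvmnIsType 𝔑 τ) (hacc : PvlzHasAcc 𝔑 τ) : Disjoint (pvtwN 3 (pvlktXBe 𝔑 τ o)) ((pvlktPhi o).pre (pvmnBl 𝔑.rO)) := by
  rw [Set.disjoint_left]
  intro k hk hO
  change (pvlktPhi o).ap k ∈ pvmnBl 𝔑.rO at hO
  rw [pvlktXBe, pvtw_N_union, pvtw_N_union, pvtw_N_add] at hk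
  rcases hk with (hk | hk) | hk
  · have := pvlkk_phi_N (by norm_num) hk
    rw [pvtw_N_union, pvtw_N_union] at this
    rcases this with (h | h) | h
    · exact Set.disjoint_left.1 (pvlkk_C_off hN hτ 0 (by decide) (by decide) (by norm_num)) h hO
    · exact Set.disjoint_left.1 (pvlkk_C_off hN hτ 1 (by decide) (by decide) (by norm_num)) h hO
    · exact Set.disjoint_left.1 (pvlkk_e_m_O hN hτ hacc) h hO
  · have := pvlkk_phi_N (by norm_num) hk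
    rw [pvtw_N_add] at this
    exact Set.disjoint_left.1 (pvlkk_C_off hN hτ 2 (by decide) (by decide) (by norm_num)) this hO
  · obtain ⟨u1, u2, u3, u4⟩ := pvlkk_bx_ap (pvlkk_N_bx hk)
    norm_num at u1 u2 u3 u4
    exact pvlkk_u_far hτ hacc (by rw [abs_le]; constructor <;> omega) (by rw [abs_le]; constructor <;> omega)
      (pvmn_box_mono (by omega) (pvlkk_Bl_box hN (pvmn_Bl_mono (by have := hN.rO_rB; linarith) hO)))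

theorem pvlkk_e_zuB : pvlktBx (pvlktU0 𝔑 τ o) 143 147 15 64 ⊆ pvtwN 1 (pvlktXBe 𝔑 τ o) := by
  rintro v ⟨h1, h2, h3, h4⟩
  refine ⟨(v.1, max v.2 ((pvlktU0 𝔑 τ o).2 + 16)), Or.inr ⟨by simp only; omega, by simp only; omega, by simp only; omega, by simp only; omega⟩, by simp only; omega, by simp only; omega, by simp only; push_cast; omega, by simp only; push_cast; omega⟩

theorem pvlkk_e_ztB : (pvlktPhi o).pre (pvtwN 3 (τ.C 2 : Set (ℤ × ℤ))) ⊆ pvtwN 1 (pvlktXBe 𝔑 τ o) := fun _ h => pvtw_N_sub (Or.inl (Or.inr h))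

theorem pvlkk_e_ruB : pvlktBx (pvlktU0 𝔑 τ o) 130 202 17 62 ⊆ pvlktBke 𝔑 τ o := fun _ h => Or.inr (pvlkk_bx_mono (by norm_num) (by norm_num) (by norm_num) (by norm_num) h)

theorem pvlkk_e_rtB : pvtwN 3 ((pvlktPhi o).pre (pvtwN 2 (pvmnCells τ 1 4))) ⊆ pvlktBke 𝔑 τ o := fun _ h => Or.inl (Or.inr h)

/-- the two plugs with their windows are apart (both links) -/
theorem pvlkk_dj (hτ : PvmnIsType 𝔑 τ) (hacc : PvlzHasAcc 𝔑 τ) : Disjoint (pvtwN 1 (pvlktBx (pvlktU0 𝔑 τ o) (-220) 219 (-130) 129)) ((pvlktPhi o).pre (pvmnBox (𝔑.nBx + 10))) := by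
  rw [Set.disjoint_left]
  intro k hk hO
  change (pvlktPhi o).ap k ∈ pvmnBox (𝔑.nBx + 10) at hO
  obtain ⟨u1, u2, u3, u4⟩ := pvlkk_bx_ap (pvlkk_N_bx hk)
  norm_num at u1 u2 u3 u4
  exact pvlkk_u_far hτ hacc (by rw [abs_le]; constructor <;> omega) (by rw [abs_le]; constructor <;> omega) (pvmn_box_mono (by omega) hO)

theorem pvlkk_axE_fin (hτ : PvmnIsType 𝔑 τ) (hacc : PvlzHasAcc 𝔑 τ) : (pvlktAxE 𝔑 τ).Finite :=
  (pvmn_box_finite _).subset (pvtw_N_sub.trans (pvlz_ax_box (pvlz_acc_spec hacc).am_dir (pvlz_q0_box hτ) rfl))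

theorem pvlkk_e_finE (hτ : PvmnIsType 𝔑 τ) (hacc : PvlzHasAcc 𝔑 τ) : (pvlktEce 𝔑 τ o).Finite := by
  refine Set.Finite.union (pvtw_N_finite (Set.Finite.union (Set.Finite.union (Set.Finite.union (pvtw_N_finite (pvgw_pre_finite _ ?_)) (tsc_box_finite _ _ _ _)) (tsc_box_finite _ _ _ _)) (pvgw_pre_finite _ (pvtw_N_finite (pvmn_cells_finite τ 1 2))))) (tsc_box_finite _ _ _ _)
  exact (τ.C 0).finite_toSet.union (pvlkk_axE_fin hτ hacc)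

end fieldsE

/-! ## 3. menu facts of `b` -/

section menuB

variable {𝔑 : PvmnNum} {τ : PvmnType}

/-- the axis of the black walk of `b` is connected -/
theorem pvlkk_b_m_conn (hτ : PvmnIsType 𝔑 τ) (hacc : PvlzHasAcc 𝔑 τ) : TscConn tscG ((τ.C 8 : Set (ℤ × ℤ)) ∪ (τ.C 9 : Set (ℤ × ℤ)) ∪ pvlktAxB 𝔑 τ) := by
  rw [Set.union_assoc]
  exact tsc_conn_union (hτ.conn 8) (pvlkb_m_conn hτ hacc) (pvlkk_q9 hτ).1 (Or.inl (pvlkk_q9 hτ).2) (Or.inl rfl)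

/-- the 1-collar of the axis of `b` is off the state region -/
theorem pvlkk_b_m_O (hN : PvmnNumOK 𝔑) (hτ : PvmnIsType 𝔑 τ) (hacc : PvlzHasAcc 𝔑 τ) : Disjoint (pvtwN 1 (pvlktAxB 𝔑 τ)) (pvmnBl 𝔑.rO) := by
  have hA := pvlz_acc_spec hacc
  refine pvlkk_off_O hN ?_
  rw [Set.disjoint_left]
  intro x hx hB
  rcases pvlkb_m_far hτ hacc hx with h | h
  · exact Set.disjoint_left.1 hA.rp_B h (Or.inl (Or.inl hB))
  · exact h (pvmn_box_mono (by omega) (pvlkk_Bl_box hN hB))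

/-- the axis of the black walk of `b`, with its 1-collar, lies in the box `M + 1` -/
theorem pvlkk_b_m_box (hτ : PvmnIsType 𝔑 τ) : pvtwN 1 ((τ.C 8 : Set (ℤ × ℤ)) ∪ (τ.C 9 : Set (ℤ × ℤ)) ∪ pvlktAxB 𝔑 τ) ⊆ pvmnBox (3 * 𝔑.nBx + 201) := by
  rw [pvtw_N_union, pvtw_N_union]
  rintro x ((hx | hx) | hx)
  · exact pvmn_box_mono (by omega) (pvmn_N_box (hτ.box 8) hx)
  · exact pvmn_box_mono (by omega) (pvmn_N_box (hτ.box 9) hx)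
  · exact pvmn_N_box (n := 3 * 𝔑.nBx + 200) pvlkb_m_box hx

/-- the axis of the black walk of `b`, with its 1-collar, is off the block `|x - C| ≤ 6` -/
theorem pvlkk_b_m_u (hτ : PvmnIsType 𝔑 τ) (hacc : PvlzHasAcc 𝔑 τ) {x : ℤ × ℤ} (hx : x ∈ pvtwN 1 ((τ.C 8 : Set (ℤ × ℤ)) ∪ (τ.C 9 : Set (ℤ × ℤ)) ∪ pvlktAxB 𝔑 τ)) :
    6 < |x.1 - (pvlzC 𝔑 τ).1| ∨ 6 < |x.2 - (pvlzC 𝔑 τ).2| := by
  have hA := pvlz_acc_spec hacc
  by_contra hc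
  push Not at hc
  obtain ⟨c1, c2⟩ := hc
  obtain ⟨z, hz, h1, h2, h3, h4⟩ := hx
  have hx1 : x ∈ pvtwN 1 {z} := ⟨z, rfl, h1, h2, h3, h4⟩
  push_cast at h1 h2 h3 h4
  have c1' := c1
  have c2' := c2
  rw [abs_le] at c1 c2
  have z1 : |z.1 - (pvlzC 𝔑 τ).1| ≤ 7 := by rw [abs_le]; constructor <;> omega
  have z2 : |z.2 - (pvlzC 𝔑 τ).2| ≤ 7 := by rw [abs_le]; constructor <;> omega
  rcases hz with (hz | hz) | ((hz | hz) | hz)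
  · exact pvlkk_u_far hτ hacc (by omega) (by omega) (pvmn_box_mono (by omega) (hτ.box 8 hz))
  · exact pvlkk_u_far hτ hacc (by omega) (by omega) (pvmn_box_mono (by omega) (hτ.box 9 hz))
  · refine pvlz_sep_use hA (x := x) (pvtw_N_mono le_rfl (Set.singleton_subset_iff.2 (Or.inl hz.1)) hx1) ?_
    exact pvlz_u_ray hA.am_dir (pvlz_L8 𝔑) (pvlkk_sh_C (by omega) (by omega))
  · obtain ⟨b1, b2, b3, b4⟩ := pvlkk_C_box hτ hacc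
    push_cast at b1 b2 b3 b4
    rw [abs_le] at z1 z2
    refine hz.1.2 ⟨?_, ?_, ?_, ?_⟩ <;> simp only [pvlktM] <;> push_cast <;> omega
  · exact Set.disjoint_left.1 (pvlz_wm_u hA.am_dir) hz.1 (pvlkk_sh_C (by omega) (by omega))

end menuB

/-! ## 4. the fields of `b` -/

section fieldsB

variable {𝔑 : PvmnNum} {τ : PvmnType} {o : ℤ × ℤ}

theorem pvlkk_b_cXB (hτ : PvmnIsType 𝔑 τ) (hacc : PvlzHasAcc 𝔑 τ) : TscConn tscG (pvlktXBb 𝔑 τ o) := by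
  have c1 : TscConn tscG (pvtwN 9 ((pvlktPhi o).pre ((τ.C 8 : Set (ℤ × ℤ)) ∪ (τ.C 9 : Set (ℤ × ℤ)) ∪ pvlktAxB 𝔑 τ))) := pvtw_N_conn (pvgw_pre_conn _ (pvlkk_b_m_conn hτ hacc))
  have c2 : TscConn tscG ((pvlktPhi o).pre (pvtwN 3 (τ.C 7 : Set (ℤ × ℤ)))) := pvgw_pre_conn _ (pvtw_N_conn (hτ.conn 7))
  obtain ⟨v, hv⟩ := pvlkb_ap_surj (pvlktPhi o) (τ.q 8)
  have m1 : v ∈ (pvlktPhi o).pre ((τ.C 8 : Set (ℤ × ℤ)) ∪ (τ.C 9 : Set (ℤ × ℤ)) ∪ pvlktAxB 𝔑 τ) := by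
    rw [pvlkb_mem_pre, hv]; exact Or.inl (Or.inl (pvlkk_q8 hτ).2)
  have m2 : v ∈ (pvlktPhi o).pre (pvtwN 3 (τ.C 7 : Set (ℤ × ℤ))) := by
    rw [pvlkb_mem_pre, hv]; exact pvtw_N_sub (pvlkk_q8 hτ).1
  have c12 := tsc_conn_union c1 c2 (pvtw_N_sub m1) m2 (Or.inl rfl)
  refine tsc_conn_union c12 (tsc_box_conn _ _ _ _) (a := ((pvlktU0 𝔑 τ o).1 + (-331), (pvlktU0 𝔑 τ o).2 + 16)) (Or.inl (pvtw_N_sub ?_)) ⟨by simp only; omega, by simp only; omega, by simp only; omega, by simp only; omega⟩ (Or.inl rfl)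
  rw [pvlkb_mem_pre]
  have : (pvlktPhi o).ap ((pvlktU0 𝔑 τ o).1 + (-331), (pvlktU0 𝔑 τ o).2 + 16) = ((pvlzC 𝔑 τ).1 - 9, (pvlzC 𝔑 τ).2) := by
    rw [pvlkb_phi_ap, pvlkk_U0]
    exact Prod.ext (by simp only; omega) (by simp only; omega)
  rw [this]
  exact Or.inr (pvlkb_m_front hτ hacc)

theorem pvlkk_b_boxB (hτ : PvmnIsType 𝔑 τ) (hacc : PvlzHasAcc 𝔑 τ) : ∀ k ∈ pvtwN 1 (pvlktXBb 𝔑 τ o), |k.1 - o.1| ≤ pvlktNN 𝔑 ∧ |k.2 - o.2| ≤ pvlktNN 𝔑 := by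
  intro k hk
  rw [pvlktXBb, pvtw_N_union, pvtw_N_union, pvtw_N_add] at hk
  rcases hk with (hk | hk) | hk
  · exact pvlkk_box_NN (by omega) (pvlkk_b_m_box hτ (pvlkk_phi_N (by norm_num) hk))
  · have := pvlkk_phi_N (by norm_num) hk
    rw [pvtw_N_add] at this
    exact pvlkk_box_NN (by omega) (pvmn_N_box (hτ.box 7) this)
  · exact pvlkk_bx_NN hτ hacc (pvlkk_bx_mono (by norm_num) (by norm_num) (by norm_num) (by norm_num) (pvlkk_N_bx hk))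

theorem pvlkk_b_subB : pvtwN 2 (pvlktXBb 𝔑 τ o) ⊆ pvlktBkb 𝔑 τ o := fun _ h => Or.inl (Or.inl h)

theorem pvlkk_b_uB (hτ : PvmnIsType 𝔑 τ) (hacc : PvlzHasAcc 𝔑 τ) : Disjoint (pvtwN 2 (pvlktXBb 𝔑 τ o)) (pvlktBx (pvlktU0 𝔑 τ o) (-130) 129 (-130) 129) := by
  rw [Set.disjoint_left]
  intro k hk hu
  obtain ⟨u1, u2, u3, u4⟩ := pvlkk_bx_ap hu
  norm_num at u1 u2 u3 u4
  rw [pvlktXBb, pvtw_N_union, pvtw_N_union, pvtw_N_add] at hk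
  rcases hk with (hk | hk) | hk
  · rcases pvlkk_b_m_u hτ hacc (pvlkk_phi_N (by norm_num) hk) with h | h <;> rw [lt_abs] at h <;> omega
  · have := pvlkk_phi_N (by norm_num) hk
    rw [pvtw_N_add] at this
    exact pvlkk_u_far hτ hacc (by rw [abs_le]; constructor <;> omega) (by rw [abs_le]; constructor <;> omega) (pvmn_box_mono (by omega) (pvmn_N_box (hτ.box 7) this))
  · obtain ⟨h1, h2, h3, h4⟩ := pvlkk_N_bx hk
    obtain ⟨v1, v2, v3, v4⟩ := hu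
    push_cast at h2
    omega

theorem pvlkk_b_tB (hN : PvmnNumOK 𝔑) (hτ : PvmnIsType 𝔑 τ) (hacc : PvlzHasAcc 𝔑 τ) : Disjoint (pvtwN 3 (pvlktXBb 𝔑 τ o)) ((pvlktPhi o).pre (pvmnBl 𝔑.rO)) := by
  rw [Set.disjoint_left]
  intro k hk hO
  change (pvlktPhi o).ap k ∈ pvmnBl 𝔑.rO at hO
  rw [pvlktXBb, pvtw_N_union, pvtw_N_union, pvtw_N_add] at hk
  rcases hk with (hk | hk) | hk
  · have := pvlkk_phi_N (by norm_num) hk
    rw [pvtw_N_union, pvtw_N_union] at this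
    rcases this with (h | h) | h
    · exact Set.disjoint_left.1 (pvlkk_C_off hN hτ 8 (by decide) (by decide) (by norm_num)) h hO
    · exact Set.disjoint_left.1 (pvlkk_C_off hN hτ 9 (by decide) (by decide) (by norm_num)) h hO
    · exact Set.disjoint_left.1 (pvlkk_b_m_O hN hτ hacc) h hO
  · have := pvlkk_phi_N (by norm_num) hk
    rw [pvtw_N_add] at this
    exact Set.disjoint_left.1 (pvlkk_C_off hN hτ 7 (by decide) (by decide) (by norm_num)) this hO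
  · obtain ⟨u1, u2, u3, u4⟩ := pvlkk_bx_ap (pvlkk_N_bx hk)
    norm_num at u1 u2 u3 u4
    have hb := pvlkk_Bl_box hN (pvmn_Bl_mono (by have := hN.rO_rB; linarith) hO)
    exact pvlkk_u_far9 hτ hacc (by rw [abs_le]; constructor <;> omega) (by rw [abs_le]; constructor <;> omega) (pvmn_box_mono (by omega) hb)

theorem pvlkk_b_zuB : pvlktBx (pvlktU0 𝔑 τ o) (-147 - 1) (-143 - 1) 15 64 ⊆ pvtwN 1 (pvlktXBb 𝔑 τ o) := by
  rintro v ⟨h1, h2, h3, h4⟩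
  refine ⟨(v.1, max v.2 ((pvlktU0 𝔑 τ o).2 + 16)), Or.inr ⟨by simp only; omega, by simp only; omega, by simp only; omega, by simp only; omega⟩, by simp only; omega, by simp only; omega, by simp only; push_cast; omega, by simp only; push_cast; omega⟩

theorem pvlkk_b_ztB : (pvlktPhi o).pre (pvtwN 3 (τ.C 7 : Set (ℤ × ℤ))) ⊆ pvtwN 1 (pvlktXBb 𝔑 τ o) := fun _ h => pvtw_N_sub (Or.inl (Or.inr h))

theorem pvlkk_b_ruB : pvlktBx (pvlktU0 𝔑 τ o) (-202 - 1) (-130 - 1) 17 62 ⊆ pvlktBkb 𝔑 τ o := fun _ h => Or.inr (pvlkk_bx_mono (by norm_num) (by norm_num) (by norm_num) (by norm_num) h)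

theorem pvlkk_b_rtB : pvtwN 3 ((pvlktPhi o).pre (pvtwN 2 (pvmnCells τ 5 8))) ⊆ pvlktBkb 𝔑 τ o := fun _ h => Or.inl (Or.inr h)

theorem pvlkk_b_finE (hτ : PvmnIsType 𝔑 τ) : (pvlktEcb 𝔑 τ o).Finite :=
  Set.Finite.union (pvtw_N_finite (Set.Finite.union (Set.Finite.union (pvlkb_fin hτ) (tsc_box_finite _ _ _ _)) (pvgw_pre_finite _ (pvtw_N_finite (pvmn_cells_finite τ 7 8))))) (tsc_box_finite _ _ _ _)

end fieldsB

end Claimed.Agent.R289
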