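import Claimed.Agent.R289.Tr.LinkLay
import Claimed.Agent.R289.Tr.HookZ

/-!
# Row 289 (S0537, Cardy for Poisson-Voronoi), THE WALL, ROAD P, file Tr/LinkLayW : THE WHITE HALF AND THE SEPARATION OF `PvlktPoly` AT THE LAYOUT OF 164      (helper205; prefix `pvlkv_`, `Pvlkv`, `pvlkv`)

Layout = `Tr/LinkLay` of 164 (fine cells `δ = dl h / 40`, `φ = pvlktPhi o`, `u = pvlktU0 𝔑 τ o`).      INPUT = the OUTPUT `S` of the half glue (`pvlkt_half_s`, `pvlkt_half_t` of `Tr/GlueWH`) at the parameters of the layout.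
* sec. 0  boxes relative to `u`, refinements
* sec. 1  MENU FACTS: the lane `pvlpR`, its end cells, the block of `u`, the axes `pvlktAxB`, `pvlktAxE`
* sec. 2  `pvlkv_sep_gen` (generic separation of the two covers)
* sec. 3  LINK `b` : `pvlkv_in_b` (IN list), fields of `PvlktCell` (`Tr/LinkGeoT`) VERBATIM: `pvlkv_cXW_b _boxW_b _subW_b` **`_sep_b`** `_uW_b _tW_b _zuW_b _ztW_b _ruW_b _rtW_b`
* sec. 4  LINK `e` : the mirror (`.._e`)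
-/

set_option autoImplicit false
set_option linter.unusedSectionVars false
set_option linter.unusedVariables false
set_option linter.unusedSimpArgs false

namespace Claimed.Agent.R289

open Set Relation Claims.C0467 Claimed.Agent.R291

/-! ## 0. boxes, refinements -/

section box

variable {o C u : ℤ × ℤ} {a b c d a' b' c' d' : ℤ} {E E' : Set (ℤ × ℤ)} {i j : ℕ}

theorem pvlkv_bx_mono (h1 : a' ≤ a) (h2 : b ≤ b') (h3 : c' ≤ c) (h4 : d ≤ d') : pvlktBx u a b c d ⊆ pvlktBx u a' b' c' d' := by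
  rintro k ⟨k1, k2, k3, k4⟩
  exact ⟨by omega, by omega, by omega, by omega⟩

theorem pvlkv_N_bx (j : ℕ) (h1 : a' + j ≤ a) (h2 : b + j ≤ b') (h3 : c' + j ≤ c) (h4 : d + j ≤ d') : pvtwN j (pvlktBx u a b c d) ⊆ pvlktBx u a' b' c' d' := by
  rintro k ⟨z, ⟨z1, z2, z3, z4⟩, k1, k2, k3, k4⟩
  exact ⟨by omega, by omega, by omega, by omega⟩

theorem pvlkv_bx_disj (h : b < a' ∨ b' < a ∨ d < c' ∨ d' < c) : Disjoint (pvlktBx u a b c d) (pvlktBx u a' b' c' d') := by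
  rw [Set.disjoint_left]
  rintro k ⟨k1, k2, k3, k4⟩ ⟨l1, l2, l3, l4⟩
  omega

/-- a box relative to the corner of the menu cell `C` lies over a box of menu cells -/
theorem pvlkv_bx_pre (ha : 40 * a' ≤ a) (hb : b < 40 * (b' + 1)) (hc : 40 * c' ≤ c) (hd : d < 40 * (d' + 1)) :
    pvlktBx (pvlktOu o C) a b c d ⊆ (pvlktPhi o).pre (tscBox (C.1 + a') (C.1 + b') (C.2 + c') (C.2 + d')) := by
  rintro k ⟨h1, h2, h3, h4⟩
  simp only [pvlktOu] at h1 h2 h3 h4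
  show C.1 + a' ≤ (k.1 - o.1) / 40 ∧ (k.1 - o.1) / 40 ≤ C.1 + b' ∧ C.2 + c' ≤ (k.2 - o.2) / 40 ∧ (k.2 - o.2) / 40 ≤ C.2 + d'
  refine ⟨by omega, by omega, by omega, by omega⟩

theorem pvlkv_pre_mono (h : E ⊆ E') : (pvlktPhi o).pre E ⊆ (pvlktPhi o).pre E' := fun _ hv => h hv

/-- at most `40` fine cells = one menu cell -/
theorem pvlkv_N_pre (hj : j ≤ 40) (E : Set (ℤ × ℤ)) : pvtwN j ((pvlktPhi o).pre E) ⊆ (pvlktPhi o).pre (pvtwN 1 E) :=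
  pvwg_N_pre1 (by norm_num) o (by exact_mod_cast hj) E

/-- collars of refinements of non neighbouring menu sets -/
theorem pvlkv_close (hij : i + j ≤ 40) (h : Disjoint (pvtwN 1 E) E') : Disjoint (pvtwN i ((pvlktPhi o).pre E)) (pvtwN j ((pvlktPhi o).pre E')) :=
  pvlkt_close (by norm_num) o (by exact_mod_cast hij) h

theorem pvlkv_close_r {X : Set (ℤ × ℤ)} (hi : i ≤ 40) (hX : X ⊆ (pvlktPhi o).pre E') (h : Disjoint (pvtwN 1 E) E') : Disjoint (pvtwN i ((pvlktPhi o).pre E)) X := by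
  have := pvlkv_close (o := o) (i := i) (j := 0) (by omega) h
  rw [pvtw_N_zero] at this
  exact this.mono_right hX

theorem pvlkv_close_l {X : Set (ℤ × ℤ)} (hj : j ≤ 40) (hX : X ⊆ (pvlktPhi o).pre E) (h : Disjoint (pvtwN 1 E) E') : Disjoint X (pvtwN j ((pvlktPhi o).pre E')) := by
  have := pvlkv_close (o := o) (i := 0) (j := j) (by omega) h
  rw [pvtw_N_zero] at this
  exact this.mono_left hX

/-- the fine cells over a box of menu cells -/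
theorem pvlkv_pre_box {n : ℕ} {k : ℤ × ℤ} (hk : k ∈ (pvlktPhi o).pre (pvmnBox n)) : |k.1 - o.1| ≤ 40 * (n + 1) ∧ |k.2 - o.2| ≤ 40 * (n + 1) := by
  have h : -(n : ℤ) ≤ (k.1 - o.1) / 40 ∧ (k.1 - o.1) / 40 ≤ n ∧ -(n : ℤ) ≤ (k.2 - o.2) / 40 ∧ (k.2 - o.2) / 40 ≤ n := hk
  obtain ⟨h1, h2, h3, h4⟩ := h
  constructor <;> rw [abs_le] <;> constructor <;> omega

end box

/-! ## 1. menu facts -/

section menu

variable {𝔑 : PvmnNum} {τ : PvmnType} {ln : ((ℤ × ℤ) × (ℤ × ℤ)) × ℕ} {q a : ℤ × ℤ} {L : ℤ} {n : ℕ} {x : ℤ × ℤ}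

/-- the lane runs along the pieces `1..8` -/
theorem pvlkv_R_in (hτ : PvmnIsType 𝔑 τ) (hl : PvmnLaneR τ ln.1 ln.2) : pvlpR τ ln ⊆ pvtwN 5 (pvmnCells τ 1 8) := by
  intro x hx
  obtain ⟨⟨h5, -⟩, hD⟩ := pvlp_R_sub hτ hl hx
  obtain ⟨p, -, -, hp⟩ := pvmn_N_cells.1 h5
  refine pvmn_N_cells.2 ⟨p, ?_, ?_, hp⟩
  · by_contra h0
    have : p = 0 := Fin.ext (by change p.1 = 0; omega)
    subst this
    exact hD (Or.inl (pvtw_N_mono (by omega) le_rfl hp))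
  · by_contra h9
    have : p = 9 := Fin.ext (by change p.1 = 9; omega)
    subst this
    exact hD (Or.inr (pvtw_N_mono (by omega) le_rfl hp))

/-- the lane is off the 4-tube -/
theorem pvlkv_R_off (hτ : PvmnIsType 𝔑 τ) (hl : PvmnLaneR τ ln.1 ln.2) : Disjoint (pvtwN 4 (pvmnCells τ 0 9)) (pvlpR τ ln) := by
  rw [Set.disjoint_left]
  intro x h4 hx
  exact (pvlp_R_sub hτ hl hx).1.2 (pvt_hull_sub h4)

/-- the block of `u` (half side `19`) is off the box of the plug -/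
theorem pvlkv_cu_off (ha : PvfjDir a) (hq : q ∈ pvmnBox n) (hL : 2 * (n : ℤ) + 60 ≤ L) (h1 : |x.1 - (pvlzCu q a L).1| ≤ 19) (h2 : |x.2 - (pvlzCu q a L).2| ≤ 19) :
    x ∉ pvmnBox (n + 40) := by
  obtain ⟨q1, q2, q3, q4⟩ := hq
  rintro ⟨x1, x2, x3, x4⟩
  rw [abs_le] at h1 h2
  push_cast at x1 x2 x3 x4
  rcases ha with rfl | rfl | rfl | rfl
  · rw [pvlz_cu_E] at h1 h2; simp only at h1 h2; omega
  · rw [pvlz_cu_W] at h1 h2; simp only at h1 h2; omega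
  · rw [pvlz_cu_N] at h1 h2; simp only at h1 h2; omega
  · rw [pvlz_cu_S] at h1 h2; simp only at h1 h2; omega

/-- the access ray stays West of the column `Cu.1 - 8` -/
theorem pvlkv_acc_u (hx : x ∈ pvtwN 1 (pvlzRay (pvlzFr q a L) (pvlzDw a))) : x.1 ≤ (pvlzCu q a L).1 - 8 := by
  obtain ⟨r, ⟨j, rfl⟩, h1, -, -, -⟩ := hx
  rw [pvlz_fr_fst] at h1
  push_cast at h1
  have hj : (0 : ℤ) ≤ j := Int.natCast_nonneg j
  by_cases e : a = (1, 0)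
  · simp only [pvlzDw, if_pos e, mul_zero] at h1
    omega
  · simp only [pvlzDw, if_neg e] at h1
    omega

/-- the axis of `e` stays East of the column `Cu.1 + 7`, or far South -/
theorem pvlkv_ax_u (ha : PvfjDir a) (hx : x ∈ pvtwN 1 (pvlzAx q a L)) : (pvlzCu q a L).1 + 7 ≤ x.1 ∨ x.2 ≤ (pvlzCu q a L).2 - 23 := by
  obtain ⟨r, hr, h1, h2, h3, h4⟩ := hx
  push_cast at h1 h2 h3 h4
  rcases ha with rfl | rfl | rfl | rfl
  · rw [pvlz_ax_E] at hr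
    rw [pvlz_cu_E]
    simp only
    rcases hr with (⟨r1, r2, r3, r4⟩ | ⟨r1, r2, r3, r4⟩) | ⟨r1, r2, r3, r4⟩ <;> omega
  · rw [pvlz_ax_W] at hr
    rw [pvlz_cu_W]
    simp only
    obtain ⟨r1, r2, r3, r4⟩ := hr
    omega
  · rw [pvlz_ax_N] at hr
    rw [pvlz_cu_N]
    simp only
    rcases hr with ⟨r1, r2, r3, r4⟩ | ⟨r1, r2, r3, r4⟩ <;> omega
  · rw [pvlz_ax_S] at hr
    rw [pvlz_cu_S]
    simp only
    rcases hr with ⟨r1, r2, r3, r4⟩ | ⟨r1, r2, r3, r4⟩ <;> omega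

/-- the axis of `e` : on the ray, or off the box of the plug -/
theorem pvlkv_ax_or (ha : PvfjDir a) (hq : q ∈ pvmnBox n) (hL : 2 * (n : ℤ) + 60 ≤ L) (hx : x ∈ pvlzAx q a L) : x ∈ pvlzRay q a ∨ x ∉ pvmnBox (n + 40) := by
  obtain ⟨q1, q2, q3, q4⟩ := hq
  have key : ∀ P : Prop, (x ∈ pvmnBox (n + 40) → P) → P ∨ x ∉ pvmnBox (n + 40) := fun P h => by
    by_cases hb : x ∈ pvmnBox (n + 40)
    · exact Or.inl (h hb)
    · exact Or.inr hb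
  refine key _ ?_
  rintro ⟨x1, x2, x3, x4⟩
  push_cast at x1 x2 x3 x4
  rcases ha with rfl | rfl | rfl | rfl
  · rw [pvlz_ax_E] at hx
    rcases hx with (⟨r1, r2, r3, r4⟩ | ⟨r1, r2, r3, r4⟩) | ⟨r1, r2, r3, r4⟩
    · exact ⟨(x.1 - q.1).toNat, Prod.ext (by simp only; rw [Int.toNat_of_nonneg (by omega)]; omega) (by simp only; omega)⟩
    · omega
    · omega
  · rw [pvlz_ax_W] at hx
    obtain ⟨r1, r2, r3, r4⟩ := hx
    exact ⟨(q.1 - x.1).toNat, Prod.ext (by simp only; rw [Int.toNat_of_nonneg (by omega)]; omega) (by simp only; omega)⟩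
  · rw [pvlz_ax_N] at hx
    rcases hx with ⟨r1, r2, r3, r4⟩ | ⟨r1, r2, r3, r4⟩
    · exact ⟨(x.2 - q.2).toNat, Prod.ext (by simp only; omega) (by simp only; rw [Int.toNat_of_nonneg (by omega)]; omega)⟩
    · omega
  · rw [pvlz_ax_S] at hx
    rcases hx with ⟨r1, r2, r3, r4⟩ | ⟨r1, r2, r3, r4⟩
    · exact ⟨(q.2 - x.2).toNat, Prod.ext (by simp only; omega) (by simp only; rw [Int.toNat_of_nonneg (by omega)]; omega)⟩
    · omega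

/-- a set in the box of the plug and a set in the block of `u` -/
theorem pvlkv_plug_u (ha : PvfjDir a) (hq : q ∈ pvmnBox n) (hL : 2 * (n : ℤ) + 60 ≤ L) {X Y : Set (ℤ × ℤ)} (hX : X ⊆ pvmnBox (n + 40))
    (hY : ∀ y ∈ Y, |y.1 - (pvlzCu q a L).1| ≤ 19 ∧ |y.2 - (pvlzCu q a L).2| ≤ 19) : Disjoint X Y := by
  rw [Set.disjoint_left]
  intro y h1 h2
  exact pvlkv_cu_off ha hq hL (hY y h2).1 (hY y h2).2 (hX h1)

theorem pvlkv_L (𝔑 : PvmnNum) : 2 * (𝔑.nBx : ℤ) + 60 ≤ pvlzL 𝔑 := by unfold pvlzL; omega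

theorem pvlkv_C_eq (𝔑 : PvmnNum) (τ : PvmnType) : pvlzC 𝔑 τ = pvlzCu (τ.q 0) (pvlzAm 𝔑 τ) (pvlzL 𝔑) := rfl

/-- a cell of the block of `u` of half side `8` -/
theorem pvlkv_mem_sh {C : ℤ × ℤ} (h1 : C.1 - 8 ≤ x.1) (h2 : x.1 ≤ C.1 + 8) (h3 : C.2 - 8 ≤ x.2) (h4 : x.2 ≤ C.2 + 8) : x ∈ pvfjSh C (pvmnBox 8) :=
  ⟨(x.1 - C.1, x.2 - C.2), ⟨by push_cast; omega, by push_cast; omega, by push_cast; omega, by push_cast; omega⟩,
    Prod.ext (by simp) (by simp)⟩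

/-! ### the axis of `b` -/

theorem pvlkv_axB_box : pvlktAxB 𝔑 τ ⊆ pvmnBox (pvlktM 𝔑) := by
  rintro x ((h | h) | h)
  · exact h.2
  · exact h.1.1
  · exact h.2

theorem pvlkv_axB_plug (hτ : PvmnIsType 𝔑 τ) (hacc : PvlzHasAcc 𝔑 τ) : Disjoint (pvlktAxB 𝔑 τ) (pvtwN 20 (pvmnCells τ 0 8)) := by
  have hA := pvlz_acc_spec hacc
  rw [Set.disjoint_left]
  rintro x ((h | h) | h) hx
  · exact Set.disjoint_left.1 hA.rp_cells h.1 (pvtw_N_mono (by omega) le_rfl hx)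
  · have : x ∈ pvmnBox (𝔑.nBx + 20) := pvmn_N_box (pvmn_cells_box hτ) hx
    exact h.1.2 (pvmn_box_mono (by unfold pvlktM; omega) this)
  · have : x ∈ pvmnBox (𝔑.nBx + 20) := pvmn_N_box (pvmn_cells_box hτ) hx
    exact Set.disjoint_left.1 (pvlz_wm_box hA.am_dir (pvlz_q0_box hτ) (pvlkv_L 𝔑)) h.1 (pvmn_box_mono (by omega) this)

/-- the axis of `b` and the last two pieces keep off the block `[C.1 - 7, C.1 + 8] × [C.2 - 8, C.2 + 8]` -/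
theorem pvlkv_axB_u (hτ : PvmnIsType 𝔑 τ) (hacc : PvlzHasAcc 𝔑 τ) (hx : x ∈ pvtwN 1 ((τ.C 8 : Set (ℤ × ℤ)) ∪ (τ.C 9 : Set (ℤ × ℤ)) ∪ pvlktAxB 𝔑 τ)) :
    ¬ ((pvlzC 𝔑 τ).1 - 7 ≤ x.1 ∧ x.1 ≤ (pvlzC 𝔑 τ).1 + 8 ∧ (pvlzC 𝔑 τ).2 - 8 ≤ x.2 ∧ x.2 ≤ (pvlzC 𝔑 τ).2 + 8) := by
  rintro ⟨b1, b2, b3, b4⟩
  have hA := pvlz_acc_spec hacc
  have hq := pvlz_q0_box hτ
  have hoff : x ∉ pvmnBox (𝔑.nBx + 40) := by
    refine pvlkv_cu_off hA.am_dir hq (pvlkv_L 𝔑) ?_ ?_ <;> rw [← pvlkv_C_eq, abs_le] <;> constructor <;> omega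
  have hsh : x ∈ pvfjSh (pvlzC 𝔑 τ) (pvmnBox 8) := pvlkv_mem_sh (by omega) b2 b3 b4
  rw [pvtw_N_union, pvtw_N_union] at hx
  rcases hx with (h | h) | h
  · exact hoff (pvmn_box_mono (by omega) (pvmn_N_box (hτ.box 8) h))
  · exact hoff (pvmn_box_mono (by omega) (pvmn_N_box (hτ.box 9) h))
  · unfold pvlktAxB at h
    rw [pvtw_N_union, pvtw_N_union] at h
    rcases h with (h | h) | h
    · exact pvlz_sep_use hA (pvtw_N_mono le_rfl (fun y hy => Or.inl hy.1) h) (pvlz_u_ray hA.am_dir (pvlz_L8 𝔑) hsh)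
    · obtain ⟨r, hr, r1, r2, r3, r4⟩ := h
      obtain ⟨x1, x2, x3, x4⟩ := pvlz_u_box hA.am_dir hq rfl hsh
      refine hr.1.2 ⟨?_, ?_, ?_, ?_⟩ <;> unfold pvlktM <;> push_cast at * <;> omega
    · have := pvlkv_acc_u (pvtw_N_mono le_rfl Set.inter_subset_left h)
      rw [← pvlkv_C_eq] at this
      omega

/-- the axis of `b` keeps off the state region -/
theorem pvlkv_axB_ball (hN : PvmnNumOK 𝔑) (hτ : PvmnIsType 𝔑 τ) (hacc : PvlzHasAcc 𝔑 τ) : Disjoint (pvtwN 1 (pvlktAxB 𝔑 τ)) (pvmnBl 𝔑.rO) := by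
  have hA := pvlz_acc_spec hacc
  have hO : pvtwN 1 (pvmnBl 𝔑.rO) ⊆ pvmnBl 𝔑.rB := pvmn_N_Bl 1 (by have := hN.rO_rB; push_cast; linarith)
  have hbox : pvmnBl 𝔑.rB ⊆ pvmnBox 𝔑.nBx := (pvmn_Bl_box hN.rB_nC).trans (pvmn_box_mono (by have := hN.nC_nF; have := hN.nF_nBx; omega))
  have key : Disjoint (pvlktAxB 𝔑 τ) (pvtwN (1 + 0) (pvmnBl 𝔑.rO)) := by
    rw [Set.disjoint_left]
    rintro x ((h | h) | h) hx
    · exact Set.disjoint_left.1 hA.rp_B h.1 (Or.inl (Or.inl (hO hx)))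
    · exact h.1.2 (pvmn_box_mono (by unfold pvlktM; omega) (hbox (hO hx)))
    · exact Set.disjoint_left.1 (pvlz_wm_box hA.am_dir (pvlz_q0_box hτ) (pvlkv_L 𝔑)) h.1 (pvmn_box_mono (by omega) (hbox (hO hx)))
  have := pvmn_N_disj key
  rwa [pvtw_N_zero] at this

/-! ### the axis of `e` -/

theorem pvlkv_axE_box (hτ : PvmnIsType 𝔑 τ) (hacc : PvlzHasAcc 𝔑 τ) : pvlktAxE 𝔑 τ ⊆ pvmnBox (3 * 𝔑.nBx + 100) :=
  pvtw_N_sub.trans (pvlz_ax_box (pvlz_acc_spec hacc).am_dir (pvlz_q0_box hτ) rfl)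

theorem pvlkv_axE_plug (hτ : PvmnIsType 𝔑 τ) (hacc : PvlzHasAcc 𝔑 τ) : Disjoint (pvlktAxE 𝔑 τ) (pvtwN 20 (pvmnCells τ 1 9)) := by
  have hA := pvlz_acc_spec hacc
  rw [Set.disjoint_left]
  intro x h hx
  rcases pvlkv_ax_or hA.am_dir (pvlz_q0_box hτ) (pvlkv_L 𝔑) h with h | h
  · exact Set.disjoint_left.1 hA.rm_cells h (pvtw_N_mono (by omega) le_rfl hx)
  · exact h (pvmn_box_mono (by omega) (pvmn_N_box (pvmn_cells_box hτ) hx))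

/-- the axis of `e` and the first two pieces keep off the block `[C.1 - 8, C.1 + 6] × [C.2 - 8, C.2 + 8]` -/
theorem pvlkv_axE_u (hτ : PvmnIsType 𝔑 τ) (hacc : PvlzHasAcc 𝔑 τ) (hx : x ∈ pvtwN 1 ((τ.C 0 : Set (ℤ × ℤ)) ∪ (τ.C 1 : Set (ℤ × ℤ)) ∪ pvlktAxE 𝔑 τ)) :
    ¬ ((pvlzC 𝔑 τ).1 - 8 ≤ x.1 ∧ x.1 ≤ (pvlzC 𝔑 τ).1 + 6 ∧ (pvlzC 𝔑 τ).2 - 8 ≤ x.2 ∧ x.2 ≤ (pvlzC 𝔑 τ).2 + 8) := by
  rintro ⟨b1, b2, b3, b4⟩
  have hA := pvlz_acc_spec hacc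
  have hq := pvlz_q0_box hτ
  have hoff : x ∉ pvmnBox (𝔑.nBx + 40) := by
    refine pvlkv_cu_off hA.am_dir hq (pvlkv_L 𝔑) ?_ ?_ <;> rw [← pvlkv_C_eq, abs_le] <;> constructor <;> omega
  rw [pvtw_N_union, pvtw_N_union] at hx
  rcases hx with (h | h) | h
  · exact hoff (pvmn_box_mono (by omega) (pvmn_N_box (hτ.box 0) h))
  · exact hoff (pvmn_box_mono (by omega) (pvmn_N_box (hτ.box 1) h))
  · have := pvlkv_ax_u hA.am_dir h
    rw [← pvlkv_C_eq] at this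
    omega

/-- the axis of `e` keeps off the state region -/
theorem pvlkv_axE_ball (hN : PvmnNumOK 𝔑) (hτ : PvmnIsType 𝔑 τ) (hacc : PvlzHasAcc 𝔑 τ) : Disjoint (pvtwN 1 (pvlktAxE 𝔑 τ)) (pvmnBl 𝔑.rO) := by
  have hA := pvlz_acc_spec hacc
  have hO : pvtwN 1 (pvmnBl 𝔑.rO) ⊆ pvmnBl 𝔑.rB := pvmn_N_Bl 1 (by have := hN.rO_rB; push_cast; linarith)
  have hbox : pvmnBl 𝔑.rB ⊆ pvmnBox 𝔑.nBx := (pvmn_Bl_box hN.rB_nC).trans (pvmn_box_mono (by have := hN.nC_nF; have := hN.nF_nBx; omega))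
  have key : Disjoint (pvlktAxE 𝔑 τ) (pvtwN (1 + 0) (pvmnBl 𝔑.rO)) := by
    rw [Set.disjoint_left]
    intro x h hx
    rcases pvlkv_ax_or hA.am_dir (pvlz_q0_box hτ) (pvlkv_L 𝔑) h with h | h
    · exact Set.disjoint_left.1 hA.rm_B h (Or.inl (Or.inl (hO hx)))
    · exact h (pvmn_box_mono (by omega) (hbox (hO hx)))
  have := pvmn_N_disj key
  rwa [pvtw_N_zero] at this

end menu

/-! ## 2. the generic separation -/

section gen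

variable {o : ℤ × ℤ} {S F X : Set (ℤ × ℤ)} {i j : ℕ}

/-- what lies deep in the tube is far from `S` -/
theorem pvlkv_off_S (hS : Disjoint S (pvtHull F)) (hX : pvtwN (j + i) X ⊆ F) : Disjoint (pvtwN i X) (pvtwN j S) :=
  (pvmn_N_disj (hS.mono_right (hX.trans pvt_hull_sub))).symm

/-- **THE SEPARATION OF THE TWO COVERS**, generic: `E1` = axis, `E2`, `E4` = tubes of pieces, `bB wB` = the boxes at `u` (over the menu boxes `BB WB`), `A` = end cell of the lane `R` -/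
theorem pvlkv_sep_gen {E1 E2 E4 R BB WB bB wB : Set (ℤ × ℤ)} {A : ℤ × ℤ} (hS : Disjoint S (pvtHull F))
    (f1 : pvtwN 14 ((pvlktPhi o).pre E1) ⊆ F) (f2 : pvtwN 5 ((pvlktPhi o).pre E2) ⊆ F) (f4 : pvtwN 6 ((pvlktPhi o).pre E4) ⊆ F) (fB : pvtwN 2 bB ⊆ F)
    (hbB : bB ⊆ (pvlktPhi o).pre BB) (hwB : wB ⊆ (pvlktPhi o).pre WB) (hBW : Disjoint bB wB)
    (m1A : Disjoint (pvtwN 1 E1) (pvtwN 1 {A})) (m1R : Disjoint (pvtwN 1 E1) R) (m1W : Disjoint (pvtwN 1 E1) WB)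
    (m2A : Disjoint (pvtwN 1 E2) (pvtwN 1 {A})) (m2R : Disjoint (pvtwN 1 E2) R) (m2W : Disjoint (pvtwN 1 E2) WB)
    (m4A : Disjoint (pvtwN 1 E4) (pvtwN 1 {A})) (m4R : Disjoint (pvtwN 1 E4) R) (m4W : Disjoint (pvtwN 1 E4) WB)
    (mBA : Disjoint (pvtwN 1 BB) (pvtwN 1 {A})) (mBR : Disjoint (pvtwN 1 BB) R) :
    Disjoint (pvtwN 12 ((pvlktPhi o).pre E1) ∪ pvtwN 3 ((pvlktPhi o).pre E2) ∪ pvtwN 4 ((pvlktPhi o).pre E4) ∪ bB)
      (pvtwN 2 S ∪ pvtwN 2 ((pvlktPhi o).pre (pvtwN 1 {A})) ∪ pvtwN 12 ((pvlktPhi o).pre R) ∪ wB) := by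
  have fB' : Disjoint bB (pvtwN 2 S) := by
    have := pvlkv_off_S (i := 0) (j := 2) hS (X := bB) fB
    rwa [pvtw_N_zero] at this
  rw [Set.disjoint_left]
  rintro k (((h | h) | h) | h) (((g | g) | g) | g)
  · exact Set.disjoint_left.1 (pvlkv_off_S (i := 12) (j := 2) hS f1) h g
  · exact Set.disjoint_left.1 (pvlkv_close (by omega) m1A) h g
  · exact Set.disjoint_left.1 (pvlkv_close (by omega) m1R) h g
  · exact Set.disjoint_left.1 (pvlkv_close_r (by omega) hwB m1W) h g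
  · exact Set.disjoint_left.1 (pvlkv_off_S (i := 3) (j := 2) hS f2) h g
  · exact Set.disjoint_left.1 (pvlkv_close (by omega) m2A) h g
  · exact Set.disjoint_left.1 (pvlkv_close (by omega) m2R) h g
  · exact Set.disjoint_left.1 (pvlkv_close_r (by omega) hwB m2W) h g
  · exact Set.disjoint_left.1 (pvlkv_off_S (i := 4) (j := 2) hS f4) h g
  · exact Set.disjoint_left.1 (pvlkv_close (by omega) m4A) h g
  · exact Set.disjoint_left.1 (pvlkv_close (by omega) m4R) h g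
  · exact Set.disjoint_left.1 (pvlkv_close_r (by omega) hwB m4W) h g
  · exact Set.disjoint_left.1 fB' h g
  · exact Set.disjoint_left.1 (pvlkv_close_l (by omega) hbB mBA) h g
  · exact Set.disjoint_left.1 (pvlkv_close_l (by omega) hbB mBR) h g
  · exact Set.disjoint_left.1 hBW h g

/-- a cell off the `(i+1)`-collar: its block is off the `i`-collar -/
theorem pvlkv_blk_off {E : Set (ℤ × ℤ)} {A : ℤ × ℤ} (h : A ∉ pvtwN (1 + i) E) : Disjoint (pvtwN i E) (pvtwN 1 {A}) :=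
  (pvmn_N_disj (Set.disjoint_singleton_left.2 h)).symm

end gen

/-! ## 3. the link `b` -/

section linkb

variable {𝔑 : PvmnNum} {τ : PvmnType} {ln : ((ℤ × ℤ) × (ℤ × ℤ)) × ℕ} {o : ℤ × ℤ} {S : Set (ℤ × ℤ)}

/-- the last cell of the lane runs along the piece `8` -/
theorem pvlkv_A1_C8 (hτ : PvmnIsType 𝔑 τ) (hl : PvmnLaneR τ ln.1 ln.2) : pvlpA1 τ ln ∈ pvtwN 5 (τ.C 8 : Set (ℤ × ℤ)) := by
  obtain ⟨p, h1, h8, hp⟩ := pvmn_N_cells.1 (pvlkv_R_in hτ hl (pvlp_A1 hτ hl).1)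
  have h9 := (pvgw_far hτ (p := p) (q := 9) (by omega) (by omega) hp (pvhh_A1_mem hτ hl)).2
  have e9 : (9 : Fin 10).1 = 9 := rfl
  have : p = 8 := Fin.ext (by change p.1 = 8; omega)
  subst this
  exact hp

theorem pvlkv_A1_off (hτ : PvmnIsType 𝔑 τ) (hl : PvmnLaneR τ ln.1 ln.2) : pvlpA1 τ ln ∉ pvtwN 4 (pvmnCells τ 0 9) :=
  fun h => Set.disjoint_left.1 (pvlkv_R_off hτ hl) h (pvlp_A1 hτ hl).1

/-- where `S` is -/
theorem pvlkv_S_in_b (hadj : ∀ w ∈ S, ∃ b, triAdj b w ∧ b ∈ (pvlktPhi o).pre (pvtwN 4 (pvmnCells τ 7 8)) ∪ pvlktFaB 𝔑 τ o) :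
    S ⊆ pvtwN 1 ((pvlktPhi o).pre (pvtwN 4 (pvmnCells τ 7 8))) ∪ pvtwN 15 ((pvlktPhi o).pre ((τ.C 9 : Set (ℤ × ℤ)) ∪ pvlktAxB 𝔑 τ)) ∪ pvlktBx (pvlktU0 𝔑 τ o) (-342) (-139) (-15) 71 := by
  intro w hw
  obtain ⟨b, hbw, hb | hb | hb⟩ := hadj w hw
  · exact Or.inl (Or.inl (pvgw_N_adj (k := 0) (by rw [pvtw_N_zero]; exact hb) (Or.inr hbw)))
  · exact Or.inl (Or.inr (pvgw_N_adj (k := 14) hb (Or.inr hbw)))
  · have g : w ∈ pvtwN (0 + 1) (pvlktBx (pvlktU0 𝔑 τ o) (-341) (-140) (-14) 70) := pvgw_N_adj (k := 0) (by rw [pvtw_N_zero]; exact hb) (Or.inr hbw)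
    refine Or.inr (pvlkv_N_bx _ ?_ ?_ ?_ ?_ g) <;> norm_num

/-- **IN LIST of `b`** : where the 3-collar of the core of the white polyomino is -/
theorem pvlkv_in_b (hadj : ∀ w ∈ S, ∃ b, triAdj b w ∧ b ∈ (pvlktPhi o).pre (pvtwN 4 (pvmnCells τ 7 8)) ∪ pvlktFaB 𝔑 τ o) :
    pvtwN 3 (pvlktXWb 𝔑 τ ln o S) ⊆
      (pvlktPhi o).pre (pvtwN 5 (pvmnCells τ 7 8) ∪ pvtwN 1 ((τ.C 9 : Set (ℤ × ℤ)) ∪ pvlktAxB 𝔑 τ) ∪ pvtwN 2 {pvlpA1 τ ln}) ∪ pvlktBx (pvlktU0 𝔑 τ o) (-345) (-131) (-68) 74 := by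
  unfold pvlktXWb
  rw [pvtw_N_union, pvtw_N_union]
  rintro k ((h | h) | h)
  · have := pvtw_N_mono (k := 3) le_rfl (pvlkv_S_in_b hadj) h
    rw [pvtw_N_union, pvtw_N_union, pvtw_N_add, pvtw_N_add] at this
    rcases this with (g | g) | g
    · have := pvlkv_N_pre (by omega) _ g
      rw [pvtw_N_add] at this
      exact Or.inl (Or.inl (Or.inl this))
    · exact Or.inl (Or.inl (Or.inr (pvlkv_N_pre (by omega) _ g)))
    · refine Or.inr (pvlkv_N_bx _ ?_ ?_ ?_ ?_ g) <;> norm_num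
  · have := pvlkv_N_pre (j := 3) (by omega) _ h
    rw [pvtw_N_add] at this
    exact Or.inl (Or.inr this)
  · refine Or.inr (pvlkv_N_bx _ ?_ ?_ ?_ ?_ h) <;> norm_num

/-- field `cXW` -/
theorem pvlkv_cXW_b (hc : TscConn tscG S) (hov : ∃ v ∈ S, (pvlktPhi o).ap v = pvlpA1 τ ln) (hk : ((pvlktU0 𝔑 τ o).1 - 140, (pvlktU0 𝔑 τ o).2 - 14 - 1) ∈ S) :
    TscConn tscG (pvlktXWb 𝔑 τ ln o S) := by
  obtain ⟨v, hv, hvs⟩ := hov
  have c1 : TscConn tscG (S ∪ (pvlktPhi o).pre (pvtwN 1 {pvlpA1 τ ln})) :=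
    tsc_conn_union hc (pvgw_pre_conn _ (pvtw_N_conn (pvgw_single_conn _))) (a := v) (b := v) hv (pvtw_N_sub hvs) (Or.inl rfl)
  exact tsc_conn_union c1 (tsc_box_conn _ _ _ _) (Or.inl hk) ⟨by simp only; omega, by simp only; omega, by simp only; omega, by simp only; omega⟩ (Or.inl rfl)

/-- a box in the block of `u` -/
theorem pvlkv_bx_blk {a b c d : ℤ} (ha : -760 ≤ a) (hb : b ≤ 799) (hc : -760 ≤ c) (hd : d ≤ 799) {k : ℤ × ℤ} (hk : k ∈ pvlktBx (pvlktU0 𝔑 τ o) a b c d) :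
    |((pvlktPhi o).ap k).1 - (pvlzC 𝔑 τ).1| ≤ 19 ∧ |((pvlktPhi o).ap k).2 - (pvlzC 𝔑 τ).2| ≤ 19 := by
  obtain ⟨h1, h2, h3, h4⟩ := pvlkv_bx_pre (o := o) (C := pvlzC 𝔑 τ) (a := a) (b := b) (c := c) (d := d) (a' := -19) (b' := 19) (c' := -19) (d' := 19) (by omega) (by omega) (by omega) (by omega) hk
  constructor <;> rw [abs_le] <;> constructor <;> omega

/-- a cell of the block of `u` lies in the big box -/
theorem pvlkv_blk_box (hτ : PvmnIsType 𝔑 τ) (hacc : PvlzHasAcc 𝔑 τ) {x : ℤ × ℤ} (h1 : |x.1 - (pvlzC 𝔑 τ).1| ≤ 19) (h2 : |x.2 - (pvlzC 𝔑 τ).2| ≤ 19) : x ∈ pvmnBox (pvlktM 𝔑) := by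
  obtain ⟨c1, c2, c3, c4⟩ := pvlz_cu_box (pvlz_acc_spec hacc).am_dir (pvlz_q0_box hτ) (L := pvlzL 𝔑) rfl
  rw [← pvlkv_C_eq] at c1 c2 c3 c4
  rw [abs_le] at h1 h2
  refine ⟨?_, ?_, ?_, ?_⟩ <;> unfold pvlktM <;> push_cast at * <;> omega

theorem pvlkv_blk_off' (hτ : PvmnIsType 𝔑 τ) (hacc : PvlzHasAcc 𝔑 τ) {x : ℤ × ℤ} (h1 : |x.1 - (pvlzC 𝔑 τ).1| ≤ 19) (h2 : |x.2 - (pvlzC 𝔑 τ).2| ≤ 19) : x ∉ pvmnBox (𝔑.nBx + 40) :=
  pvlkv_cu_off (pvlz_acc_spec hacc).am_dir (pvlz_q0_box hτ) (pvlkv_L 𝔑) h1 h2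

/-- field `boxW` -/
theorem pvlkv_boxW_b (hτ : PvmnIsType 𝔑 τ) (hacc : PvlzHasAcc 𝔑 τ) (hl : PvmnLaneR τ ln.1 ln.2)
    (hadj : ∀ w ∈ S, ∃ b, triAdj b w ∧ b ∈ (pvlktPhi o).pre (pvtwN 4 (pvmnCells τ 7 8)) ∪ pvlktFaB 𝔑 τ o) :
    ∀ k ∈ pvtwN 1 (pvlktXWb 𝔑 τ ln o S), |k.1 - o.1| ≤ pvlktNN 𝔑 ∧ |k.2 - o.2| ≤ pvlktNN 𝔑 := by
  intro k hk
  have hin : k ∈ (pvlktPhi o).pre (pvmnBox (pvlktM 𝔑 + 1)) := by
    rcases pvlkv_in_b hadj (pvtw_N_mono (by omega) le_rfl hk) with ((h | h) | h) | h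
    · exact pvmn_box_mono (by unfold pvlktM; omega) (pvmn_N_box (pvmn_cells_box hτ) h)
    · refine pvmn_N_box ?_ h
      rintro x (hx | hx)
      · exact pvmn_box_mono (by unfold pvlktM; omega) (hτ.box 9 hx)
      · exact pvlkv_axB_box hx
    · have : (pvlktPhi o).ap k ∈ pvtwN (2 + 5) (τ.C 8 : Set (ℤ × ℤ)) := by
        rw [← pvtw_N_add]
        exact pvtw_N_mono le_rfl (Set.singleton_subset_iff.2 (pvlkv_A1_C8 hτ hl)) h
      exact pvmn_box_mono (by unfold pvlktM; omega) (pvmn_N_box (hτ.box 8) this)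
    · obtain ⟨h1, h2⟩ := pvlkv_bx_blk (a := -345) (b := -131) (c := -68) (d := 74) (by norm_num) (by norm_num) (by norm_num) (by norm_num) h
      exact pvmn_box_mono (by omega) (pvlkv_blk_box hτ hacc h1 h2)
  obtain ⟨h1, h2⟩ := pvlkv_pre_box hin
  unfold pvlktNN
  push_cast at h1 h2 ⊢
  constructor <;> omega

/-- field `subW` -/
theorem pvlkv_subW_b : pvtwN 2 (pvlktXWb 𝔑 τ ln o S) ⊆ pvlktWhb 𝔑 τ ln o S := fun _ hk => Or.inl (Or.inl hk)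

/-- a menu box in the block of `u` -/
theorem pvlkv_mbx_blk {C : ℤ × ℤ} {a b c d : ℤ} {j : ℕ} (ha : -19 + j ≤ a) (hb : b + j ≤ 19) (hc : -19 + j ≤ c) (hd : d + j ≤ 19) :
    ∀ y ∈ pvtwN j (tscBox (C.1 + a) (C.1 + b) (C.2 + c) (C.2 + d)), |y.1 - C.1| ≤ 19 ∧ |y.2 - C.2| ≤ 19 := by
  rintro y ⟨z, ⟨z1, z2, z3, z4⟩, y1, y2, y3, y4⟩
  constructor <;> rw [abs_le] <;> constructor <;> omega

/-- **field `sep` of `b`** -/
theorem pvlkv_sep_b (hτ : PvmnIsType 𝔑 τ) (hacc : PvlzHasAcc 𝔑 τ) (hl : PvmnLaneR τ ln.1 ln.2)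
    (hoff : Disjoint S (pvtHull (pvlktFs (pvlktPhi o) τ (pvlktFaB 𝔑 τ o) ((pvlktU0 𝔑 τ o).1 - 140) ((pvlktU0 𝔑 τ o).1 - 120) ((pvlktU0 𝔑 τ o).2 - 14) ((pvlktU0 𝔑 τ o).2 + 70)))) :
    Disjoint (pvtwN 1 (pvlktBkb 𝔑 τ o)) (pvlktWhb 𝔑 τ ln o S) := by
  have hA := pvlz_acc_spec hacc
  have hq := pvlz_q0_box hτ
  have hA1 := pvlkv_A1_off hτ hl
  have hR := pvlkv_R_off hτ hl
  have hRin := pvlkv_R_in hτ hl
  have hplug : ∀ {X Y : Set (ℤ × ℤ)}, X ⊆ pvmnBox (𝔑.nBx + 40) → (∀ y ∈ Y, |y.1 - (pvlzC 𝔑 τ).1| ≤ 19 ∧ |y.2 - (pvlzC 𝔑 τ).2| ≤ 19) → Disjoint X Y :=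
    fun hX hY => pvlkv_plug_u hA.am_dir hq (pvlkv_L 𝔑) hX hY
  have hcb : ∀ {j a b : ℕ}, j ≤ 40 → pvtwN j (pvmnCells τ a b) ⊆ pvmnBox (𝔑.nBx + 40) := fun hj =>
    (pvmn_N_box (pvmn_cells_box hτ)).trans (pvmn_box_mono (by omega))
  have hC7 : (τ.C 7 : Set (ℤ × ℤ)) ⊆ pvmnCells τ 0 8 := pvmn_C_sub 7 (by omega) (by show (7 : ℕ) ≤ 8; omega)
  have hC8 : (τ.C 8 : Set (ℤ × ℤ)) ⊆ pvmnCells τ 0 8 := pvmn_C_sub 8 (by omega) (by show (8 : ℕ) ≤ 8; omega)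
  have hC9 : (τ.C 9 : Set (ℤ × ℤ)) ⊆ pvmnCells τ 0 9 := pvmn_C_sub 9 (by omega) (by show (9 : ℕ) ≤ 9; omega)
  have h89 : (τ.C 8 : Set (ℤ × ℤ)) ∪ (τ.C 9 : Set (ℤ × ℤ)) ⊆ pvmnCells τ 0 9 := Set.union_subset (hC8.trans (pvmn_cells_mono le_rfl (by omega))) hC9
  have hAxR : Disjoint (pvtwN 2 (pvlktAxB 𝔑 τ)) (pvtwN 5 (pvmnCells τ 1 8)) :=
    pvmn_N_disj ((pvlkv_axB_plug hτ hacc).mono_right (pvtw_N_mono (by omega) (pvmn_cells_mono (by omega) le_rfl)))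
  refine (pvlkv_sep_gen (o := o) (S := S) (E1 := (τ.C 8 : Set (ℤ × ℤ)) ∪ (τ.C 9 : Set (ℤ × ℤ)) ∪ pvlktAxB 𝔑 τ) (E2 := pvtwN 3 (τ.C 7 : Set (ℤ × ℤ))) (E4 := pvtwN 2 (pvmnCells τ 5 8))
    (R := pvlpR τ ln) (A := pvlpA1 τ ln) (BB := tscBox ((pvlzC 𝔑 τ).1 + -9) ((pvlzC 𝔑 τ).1 + -4) ((pvlzC 𝔑 τ).2 + 0) ((pvlzC 𝔑 τ).2 + 1))
    (WB := tscBox ((pvlzC 𝔑 τ).1 + -6) ((pvlzC 𝔑 τ).1 + -4) ((pvlzC 𝔑 τ).2 + -2) ((pvlzC 𝔑 τ).2 + -1))
    (bB := pvlktBx (pvlktU0 𝔑 τ o) (-334) (-130) 13 67) (wB := pvlktBx (pvlktU0 𝔑 τ o) (-207) (-131) (-67) (-13)) hoff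
    ?f1 ?f2 ?f4 ?fB ?hbB ?hwB ?hBW ?m1A ?m1R ?m1W ?m2A ?m2R ?m2W ?m4A ?m4R ?m4W ?mBA ?mBR).mono ?hB ?hW
  case f1 =>
    rintro k ⟨z, (h8 | h9) | hx, hk⟩
    · exact Or.inl (Or.inl (pvtw_N_mono (by omega) hC8 (pvlkv_N_pre (j := 14) (by omega) _ ⟨z, h8, hk⟩)))
    · exact Or.inl (Or.inr (Or.inl ⟨z, Or.inl h9, hk⟩))
    · exact Or.inl (Or.inr (Or.inl ⟨z, Or.inr hx, hk⟩))
  case f2 =>
    intro k hk
    have := pvlkv_N_pre (j := 5) (by omega) _ hk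
    rw [pvtw_N_add] at this
    exact Or.inl (Or.inl (pvtw_N_mono (by omega) hC7 this))
  case f4 =>
    intro k hk
    have := pvlkv_N_pre (j := 6) (by omega) _ hk
    rw [pvtw_N_add] at this
    exact Or.inl (Or.inl (pvtw_N_mono (by omega) (pvmn_cells_mono (by omega) le_rfl) this))
  case fB =>
    intro k hk
    obtain ⟨k1, k2, k3, k4⟩ := pvlkv_N_bx (a' := -336) (b' := -128) (c' := 11) (d' := 69) 2 (by norm_num) (by norm_num) (by norm_num) (by norm_num) hk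
    by_cases hc : k.1 ≤ (pvlktU0 𝔑 τ o).1 - 140
    · exact Or.inl (Or.inr (Or.inr ⟨by omega, by omega, by omega, by omega⟩))
    · exact Or.inr ⟨by omega, by omega, by omega, by omega⟩
  case hbB => exact pvlkv_bx_pre (by norm_num) (by norm_num) (by norm_num) (by norm_num)
  case hwB => exact pvlkv_bx_pre (by norm_num) (by norm_num) (by norm_num) (by norm_num)
  case hBW => exact pvlkv_bx_disj (by norm_num)
  case m1A =>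
    refine pvlkv_blk_off ?_
    rw [pvtw_N_union]
    rintro (h | h)
    · exact hA1 (pvtw_N_mono (by omega) h89 h)
    · exact Set.disjoint_left.1 hAxR h (hRin (pvlp_A1 hτ hl).1)
  case m1R =>
    rw [pvtw_N_union, Set.disjoint_union_left]
    exact ⟨hR.mono_left (pvtw_N_mono (by omega) h89), (hAxR.mono_left (pvtw_N_mono (by omega) le_rfl)).mono_right hRin⟩
  case m1W =>
    rw [Set.disjoint_left]
    rintro x hx ⟨x1, x2, x3, x4⟩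
    exact pvlkv_axB_u hτ hacc hx ⟨by omega, by omega, by omega, by omega⟩
  case m2A =>
    rw [pvtw_N_add]
    refine pvlkv_blk_off ?_
    intro h
    have := (pvgw_far hτ (p := 7) (q := 9) (i := 1 + (1 + 3)) (j := 9) (by omega) (by omega) h (pvhh_A1_mem hτ hl)).2
    have e9 : (9 : Fin 10).1 = 9 := rfl
    have e7 : (7 : Fin 10).1 = 7 := rfl
    omega
  case m2R =>
    rw [pvtw_N_add]
    exact hR.mono_left (pvtw_N_mono (by omega) (hC7.trans (pvmn_cells_mono le_rfl (by omega))))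
  case m2W =>
    rw [pvtw_N_add]
    exact hplug ((pvtw_N_mono le_rfl hC7).trans (hcb (by omega))) (pvlkv_mbx_blk (j := 0) (by norm_num) (by norm_num) (by norm_num) (by norm_num) |> fun h y hy => h y (pvtw_N_sub hy))
  case m4A =>
    rw [pvtw_N_add]
    refine pvlkv_blk_off ?_
    intro h
    exact hA1 (pvtw_N_mono (by omega) (pvmn_cells_mono (by omega) (by omega)) h)
  case m4R =>
    rw [pvtw_N_add]
    exact hR.mono_left (pvtw_N_mono (by omega) (pvmn_cells_mono (by omega) (by omega)))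
  case m4W =>
    rw [pvtw_N_add]
    exact hplug (hcb (by omega)) (pvlkv_mbx_blk (j := 0) (by norm_num) (by norm_num) (by norm_num) (by norm_num) |> fun h y hy => h y (pvtw_N_sub hy))
  case mBA =>
    refine (hplug ?_ (pvlkv_mbx_blk (j := 1) (by norm_num) (by norm_num) (by norm_num) (by norm_num))).symm
    have : pvtwN 1 {pvlpA1 τ ln} ⊆ pvtwN 1 (pvtwN 5 (pvmnCells τ 1 8)) := pvtw_N_mono le_rfl (Set.singleton_subset_iff.2 (hRin (pvlp_A1 hτ hl).1))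
    rw [pvtw_N_add] at this
    exact this.trans (hcb (by omega))
  case mBR =>
    exact (hplug (hRin.trans (hcb (by omega))) (pvlkv_mbx_blk (j := 1) (by norm_num) (by norm_num) (by norm_num) (by norm_num))).symm
  case hB =>
    intro k hk
    unfold pvlktBkb pvlktXBb at hk
    simp only [pvtw_N_union, pvtw_N_add] at hk
    rcases hk with (((h | h) | h) | h) | h
    · exact Or.inl (Or.inl (Or.inl h))
    · exact Or.inl (Or.inl (Or.inr h))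
    · refine Or.inr (pvlkv_N_bx _ ?_ ?_ ?_ ?_ h) <;> norm_num
    · exact Or.inl (Or.inr h)
    · refine Or.inr (pvlkv_N_bx _ ?_ ?_ ?_ ?_ h) <;> norm_num
  case hW =>
    intro k hk
    unfold pvlktWhb pvlktXWb at hk
    simp only [pvtw_N_union, pvtw_N_add] at hk
    rcases hk with (((h | h) | h) | h) | h
    · exact Or.inl (Or.inl (Or.inl h))
    · exact Or.inl (Or.inl (Or.inr h))
    · refine Or.inr (pvlkv_N_bx _ ?_ ?_ ?_ ?_ h) <;> norm_num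
    · exact Or.inl (Or.inr h)
    · exact Or.inr (pvlkv_bx_mono (by norm_num) (by norm_num) (by norm_num) (by norm_num) h)

/-- field `uW` of `b` (even for the 3-collar) -/
theorem pvlkv_uW_b (hτ : PvmnIsType 𝔑 τ) (hacc : PvlzHasAcc 𝔑 τ) (hl : PvmnLaneR τ ln.1 ln.2)
    (hadj : ∀ w ∈ S, ∃ b, triAdj b w ∧ b ∈ (pvlktPhi o).pre (pvtwN 4 (pvmnCells τ 7 8)) ∪ pvlktFaB 𝔑 τ o) :
    Disjoint (pvtwN 2 (pvlktXWb 𝔑 τ ln o S)) (pvlktBx (pvlktU0 𝔑 τ o) (-130) 129 (-130) 129) := by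
  rw [Set.disjoint_left]
  intro k hk hb
  obtain ⟨c1, c2, c3, c4⟩ := pvlkv_bx_pre (o := o) (C := pvlzC 𝔑 τ) (a' := -4) (b' := 3) (c' := -4) (d' := 3) (by norm_num) (by norm_num) (by norm_num) (by norm_num) hb
  have hoff : (pvlktPhi o).ap k ∉ pvmnBox (𝔑.nBx + 40) := by
    refine pvlkv_blk_off' hτ hacc ?_ ?_ <;> rw [abs_le] <;> constructor <;> omega
  rcases pvlkv_in_b hadj (pvtw_N_mono (by omega) le_rfl hk) with ((h | h) | h) | h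
  · exact hoff (pvmn_box_mono (by omega) (pvmn_N_box (pvmn_cells_box hτ) h))
  · exact pvlkv_axB_u hτ hacc (pvtw_N_mono le_rfl (Set.union_subset_union_left _ Set.subset_union_right) h) ⟨by omega, by omega, by omega, by omega⟩
  · have : (pvlktPhi o).ap k ∈ pvtwN (2 + 5) (τ.C 8 : Set (ℤ × ℤ)) := by
      rw [← pvtw_N_add]
      exact pvtw_N_mono le_rfl (Set.singleton_subset_iff.2 (pvlkv_A1_C8 hτ hl)) h
    exact hoff (pvmn_box_mono (by omega) (pvmn_N_box (hτ.box 8) this))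
  · have h2 := h.2.1
    have h3 := hb.1
    omega

/-- field `tW` of `b` -/
theorem pvlkv_tW_b (hN : PvmnNumOK 𝔑) (hτ : PvmnIsType 𝔑 τ) (hacc : PvlzHasAcc 𝔑 τ) (hl : PvmnLaneR τ ln.1 ln.2)
    (hadj : ∀ w ∈ S, ∃ b, triAdj b w ∧ b ∈ (pvlktPhi o).pre (pvtwN 4 (pvmnCells τ 7 8)) ∪ pvlktFaB 𝔑 τ o) :
    Disjoint (pvtwN 3 (pvlktXWb 𝔑 τ ln o S)) ((pvlktPhi o).pre (pvmnBl 𝔑.rO)) := by
  have hOB : pvmnBl 𝔑.rO ⊆ pvmnBl 𝔑.rB := pvmn_Bl_mono (by have := hN.rO_rB; linarith)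
  have hbox : pvmnBl 𝔑.rB ⊆ pvmnBox 𝔑.nBx := (pvmn_Bl_box hN.rB_nC).trans (pvmn_box_mono (by have := hN.nC_nF; have := hN.nF_nBx; omega))
  have hT3 : ∀ (p : Fin 10) {j : ℕ} {x : ℤ × ℤ}, p.1 ≠ 4 → p.1 ≠ 5 → j ≤ 10 → x ∈ pvtwN j (τ.C p : Set (ℤ × ℤ)) → x ∉ pvmnBl 𝔑.rO := fun p j x h4 h5 hj hx hO =>
    Set.disjoint_left.1 (hτ.ball p h4 h5) (pvtw_N_mono hj le_rfl hx) (hOB hO)
  rw [Set.disjoint_left]
  intro k hk hb
  have hb' : (pvlktPhi o).ap k ∈ pvmnBl 𝔑.rO := hb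
  rcases pvlkv_in_b hadj hk with ((h | h) | h) | h
  · obtain ⟨p, p7, p8, hp⟩ := pvmn_N_cells.1 h
    exact hT3 p (by omega) (by omega) (by omega) hp hb'
  · rw [pvtw_N_union] at h
    rcases h with h | h
    · exact hT3 9 (by show (9 : ℕ) ≠ 4; omega) (by show (9 : ℕ) ≠ 5; omega) (by omega) h hb'
    · exact Set.disjoint_left.1 (pvlkv_axB_ball hN hτ hacc) h hb'
  · have : (pvlktPhi o).ap k ∈ pvtwN (2 + 5) (τ.C 8 : Set (ℤ × ℤ)) := by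
      rw [← pvtw_N_add]
      exact pvtw_N_mono le_rfl (Set.singleton_subset_iff.2 (pvlkv_A1_C8 hτ hl)) h
    exact hT3 8 (by show (8 : ℕ) ≠ 4; omega) (by show (8 : ℕ) ≠ 5; omega) (by omega) this hb'
  · obtain ⟨h1, h2⟩ := pvlkv_bx_blk (a := -345) (b := -131) (c := -68) (d := 74) (by norm_num) (by norm_num) (by norm_num) (by norm_num) h
    exact pvlkv_blk_off' hτ hacc h1 h2 (pvmn_box_mono (by omega) (hbox (hOB hb')))

/-- field `zuW` of `b` (`pvlktBs false u 143 147 (-65) (-16)`) -/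
theorem pvlkv_zuW_b : pvlktBx (pvlktU0 𝔑 τ o) (-147 - 1) (-143 - 1) (-65) (-16) ⊆ pvtwN 1 (pvlktXWb 𝔑 τ ln o S) := fun _ hk =>
  pvtw_N_sub (Or.inr (pvlkv_bx_mono (by norm_num) (by norm_num) (by norm_num) (by norm_num) hk))

/-- field `ztW` of `b` -/
theorem pvlkv_ztW_b : (pvlktPhi o).pre (pvtwN 1 {pvlpA1 τ ln}) ⊆ pvtwN 1 (pvlktXWb 𝔑 τ ln o S) := fun _ hk => pvtw_N_sub (Or.inl (Or.inr hk))

/-- field `ruW` of `b` (`pvlktBs false u 130 202 (-63) (-18)`) -/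
theorem pvlkv_ruW_b : pvlktBx (pvlktU0 𝔑 τ o) (-202 - 1) (-130 - 1) (-63) (-18) ⊆ pvlktWhb 𝔑 τ ln o S := fun _ hk =>
  Or.inr (pvlkv_bx_mono (by norm_num) (by norm_num) (by norm_num) (by norm_num) hk)

/-- field `rtW` of `b` -/
theorem pvlkv_rtW_b : pvtwN 12 ((pvlktPhi o).pre (pvlpR τ ln)) ⊆ pvlktWhb 𝔑 τ ln o S := fun _ hk => Or.inl (Or.inr hk)

end linkb

/-! ## 4. the link `e` -/

section linke

variable {𝔑 : PvmnNum} {τ : PvmnType} {ln : ((ℤ × ℤ) × (ℤ × ℤ)) × ℕ} {o : ℤ × ℤ} {S : Set (ℤ × ℤ)}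

/-- the first cell of the lane runs along the piece `1` -/
theorem pvlkv_A0_C1 (hτ : PvmnIsType 𝔑 τ) (hl : PvmnLaneR τ ln.1 ln.2) : pvlpA0 τ ln ∈ pvtwN 5 (τ.C 1 : Set (ℤ × ℤ)) := by
  obtain ⟨p, h1, h8, hp⟩ := pvmn_N_cells.1 (pvlkv_R_in hτ hl (pvlp_A0 hτ hl).1)
  have h9 := (pvgw_far hτ (p := p) (q := 0) (by omega) (by omega) hp (pvhh_A0_mem hτ hl)).1
  have e9 : (0 : Fin 10).1 = 0 := rfl
  have : p = 1 := Fin.ext (by change p.1 = 1; omega)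
  subst this
  exact hp

theorem pvlkv_A0_off (hτ : PvmnIsType 𝔑 τ) (hl : PvmnLaneR τ ln.1 ln.2) : pvlpA0 τ ln ∉ pvtwN 4 (pvmnCells τ 0 9) :=
  fun h => Set.disjoint_left.1 (pvlkv_R_off hτ hl) h (pvlp_A0 hτ hl).1

/-- where `S` is -/
theorem pvlkv_S_in_e (hadj : ∀ w ∈ S, ∃ b, triAdj b w ∧ b ∈ pvlktFaE 𝔑 τ o ∪ (pvlktPhi o).pre (pvtwN 4 (pvmnCells τ 1 2))) :
    S ⊆ pvtwN 1 ((pvlktPhi o).pre (pvtwN 4 (pvmnCells τ 1 2))) ∪ pvtwN 15 ((pvlktPhi o).pre ((τ.C 0 : Set (ℤ × ℤ)) ∪ pvlktAxE 𝔑 τ)) ∪ pvlktBx (pvlktU0 𝔑 τ o) 139 341 (-15) 71 := by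
  intro w hw
  obtain ⟨b, hbw, (hb | hb) | hb⟩ := hadj w hw
  · exact Or.inl (Or.inr (pvgw_N_adj (k := 14) hb (Or.inr hbw)))
  · have g : w ∈ pvtwN (0 + 1) (pvlktBx (pvlktU0 𝔑 τ o) 140 340 (-14) 70) := pvgw_N_adj (k := 0) (by rw [pvtw_N_zero]; exact hb) (Or.inr hbw)
    refine Or.inr (pvlkv_N_bx _ ?_ ?_ ?_ ?_ g) <;> norm_num
  · exact Or.inl (Or.inl (pvgw_N_adj (k := 0) (by rw [pvtw_N_zero]; exact hb) (Or.inr hbw)))

/-- **IN LIST of `e`** : where the 3-collar of the core of the white polyomino is -/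
theorem pvlkv_in_e (hadj : ∀ w ∈ S, ∃ b, triAdj b w ∧ b ∈ pvlktFaE 𝔑 τ o ∪ (pvlktPhi o).pre (pvtwN 4 (pvmnCells τ 1 2))) :
    pvtwN 3 (pvlktXWe 𝔑 τ ln o S) ⊆
      (pvlktPhi o).pre (pvtwN 5 (pvmnCells τ 1 2) ∪ pvtwN 1 ((τ.C 0 : Set (ℤ × ℤ)) ∪ pvlktAxE 𝔑 τ) ∪ pvtwN 2 {pvlpA0 τ ln}) ∪ pvlktBx (pvlktU0 𝔑 τ o) 130 344 (-68) 74 := by
  unfold pvlktXWe
  rw [pvtw_N_union, pvtw_N_union]
  rintro k ((h | h) | h)
  · have := pvtw_N_mono (k := 3) le_rfl (pvlkv_S_in_e hadj) h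
    rw [pvtw_N_union, pvtw_N_union, pvtw_N_add, pvtw_N_add] at this
    rcases this with (g | g) | g
    · have := pvlkv_N_pre (by omega) _ g
      rw [pvtw_N_add] at this
      exact Or.inl (Or.inl (Or.inl this))
    · exact Or.inl (Or.inl (Or.inr (pvlkv_N_pre (by omega) _ g)))
    · refine Or.inr (pvlkv_N_bx _ ?_ ?_ ?_ ?_ g) <;> norm_num
  · have := pvlkv_N_pre (j := 3) (by omega) _ h
    rw [pvtw_N_add] at this
    exact Or.inl (Or.inr this)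
  · refine Or.inr (pvlkv_N_bx _ ?_ ?_ ?_ ?_ h) <;> norm_num

/-- field `cXW` -/
theorem pvlkv_cXW_e (hc : TscConn tscG S) (hov : ∃ v ∈ S, (pvlktPhi o).ap v = pvlpA0 τ ln) (hk : ((pvlktU0 𝔑 τ o).1 + 140, (pvlktU0 𝔑 τ o).2 - 14 - 1) ∈ S) :
    TscConn tscG (pvlktXWe 𝔑 τ ln o S) := by
  obtain ⟨v, hv, hvs⟩ := hov
  have c1 : TscConn tscG (S ∪ (pvlktPhi o).pre (pvtwN 1 {pvlpA0 τ ln})) :=
    tsc_conn_union hc (pvgw_pre_conn _ (pvtw_N_conn (pvgw_single_conn _))) (a := v) (b := v) hv (pvtw_N_sub hvs) (Or.inl rfl)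
  exact tsc_conn_union c1 (tsc_box_conn _ _ _ _) (Or.inl hk) ⟨by simp only; omega, by simp only; omega, by simp only; omega, by simp only; omega⟩ (Or.inl rfl)

/-- field `boxW` -/
theorem pvlkv_boxW_e (hτ : PvmnIsType 𝔑 τ) (hacc : PvlzHasAcc 𝔑 τ) (hl : PvmnLaneR τ ln.1 ln.2)
    (hadj : ∀ w ∈ S, ∃ b, triAdj b w ∧ b ∈ pvlktFaE 𝔑 τ o ∪ (pvlktPhi o).pre (pvtwN 4 (pvmnCells τ 1 2))) :
    ∀ k ∈ pvtwN 1 (pvlktXWe 𝔑 τ ln o S), |k.1 - o.1| ≤ pvlktNN 𝔑 ∧ |k.2 - o.2| ≤ pvlktNN 𝔑 := by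
  intro k hk
  have hin : k ∈ (pvlktPhi o).pre (pvmnBox (pvlktM 𝔑 + 1)) := by
    rcases pvlkv_in_e hadj (pvtw_N_mono (by omega) le_rfl hk) with ((h | h) | h) | h
    · exact pvmn_box_mono (by unfold pvlktM; omega) (pvmn_N_box (pvmn_cells_box hτ) h)
    · refine pvmn_N_box ?_ h
      rintro x (hx | hx)
      · exact pvmn_box_mono (by unfold pvlktM; omega) (hτ.box 0 hx)
      · exact pvmn_box_mono (by unfold pvlktM; omega) (pvlkv_axE_box hτ hacc hx)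
    · have : (pvlktPhi o).ap k ∈ pvtwN (2 + 5) (τ.C 1 : Set (ℤ × ℤ)) := by
        rw [← pvtw_N_add]
        exact pvtw_N_mono le_rfl (Set.singleton_subset_iff.2 (pvlkv_A0_C1 hτ hl)) h
      exact pvmn_box_mono (by unfold pvlktM; omega) (pvmn_N_box (hτ.box 1) this)
    · obtain ⟨h1, h2⟩ := pvlkv_bx_blk (a := 130) (b := 344) (c := -68) (d := 74) (by norm_num) (by norm_num) (by norm_num) (by norm_num) h
      exact pvmn_box_mono (by omega) (pvlkv_blk_box hτ hacc h1 h2)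
  obtain ⟨h1, h2⟩ := pvlkv_pre_box hin
  unfold pvlktNN
  push_cast at h1 h2 ⊢
  constructor <;> omega

/-- field `subW` -/
theorem pvlkv_subW_e : pvtwN 2 (pvlktXWe 𝔑 τ ln o S) ⊆ pvlktWhe 𝔑 τ ln o S := fun _ hk => Or.inl (Or.inl hk)

/-- **field `sep` of `e`** -/
theorem pvlkv_sep_e (hτ : PvmnIsType 𝔑 τ) (hacc : PvlzHasAcc 𝔑 τ) (hl : PvmnLaneR τ ln.1 ln.2)
    (hoff : Disjoint S (pvtHull (pvlktFt (pvlktPhi o) τ (pvlktFaE 𝔑 τ o) ((pvlktU0 𝔑 τ o).1 + 120) ((pvlktU0 𝔑 τ o).1 + 140) ((pvlktU0 𝔑 τ o).2 - 14) ((pvlktU0 𝔑 τ o).2 + 70)))) :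
    Disjoint (pvtwN 1 (pvlktBke 𝔑 τ o)) (pvlktWhe 𝔑 τ ln o S) := by
  have hA := pvlz_acc_spec hacc
  have hq := pvlz_q0_box hτ
  have hA1 := pvlkv_A0_off hτ hl
  have hR := pvlkv_R_off hτ hl
  have hRin := pvlkv_R_in hτ hl
  have hplug : ∀ {X Y : Set (ℤ × ℤ)}, X ⊆ pvmnBox (𝔑.nBx + 40) → (∀ y ∈ Y, |y.1 - (pvlzC 𝔑 τ).1| ≤ 19 ∧ |y.2 - (pvlzC 𝔑 τ).2| ≤ 19) → Disjoint X Y :=
    fun hX hY => pvlkv_plug_u hA.am_dir hq (pvlkv_L 𝔑) hX hY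
  have hcb : ∀ {j a b : ℕ}, j ≤ 40 → pvtwN j (pvmnCells τ a b) ⊆ pvmnBox (𝔑.nBx + 40) := fun hj =>
    (pvmn_N_box (pvmn_cells_box hτ)).trans (pvmn_box_mono (by omega))
  have hC2 : (τ.C 2 : Set (ℤ × ℤ)) ⊆ pvmnCells τ 1 9 := pvmn_C_sub 2 (by show 1 ≤ (2 : ℕ); omega) (by show (2 : ℕ) ≤ 9; omega)
  have hC1 : (τ.C 1 : Set (ℤ × ℤ)) ⊆ pvmnCells τ 1 9 := pvmn_C_sub 1 (by show 1 ≤ (1 : ℕ); omega) (by show (1 : ℕ) ≤ 9; omega)
  have hC0 : (τ.C 0 : Set (ℤ × ℤ)) ⊆ pvmnCells τ 0 9 := pvmn_C_sub 0 (by omega) (by show (0 : ℕ) ≤ 9; omega)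
  have h01 : (τ.C 0 : Set (ℤ × ℤ)) ∪ (τ.C 1 : Set (ℤ × ℤ)) ⊆ pvmnCells τ 0 9 := Set.union_subset hC0 (hC1.trans (pvmn_cells_mono (by omega) le_rfl))
  have hAxR : Disjoint (pvtwN 2 (pvlktAxE 𝔑 τ)) (pvtwN 5 (pvmnCells τ 1 8)) :=
    pvmn_N_disj ((pvlkv_axE_plug hτ hacc).mono_right (pvtw_N_mono (by omega) (pvmn_cells_mono le_rfl (by omega))))
  refine (pvlkv_sep_gen (o := o) (S := S) (E1 := (τ.C 0 : Set (ℤ × ℤ)) ∪ (τ.C 1 : Set (ℤ × ℤ)) ∪ pvlktAxE 𝔑 τ) (E2 := pvtwN 3 (τ.C 2 : Set (ℤ × ℤ))) (E4 := pvtwN 2 (pvmnCells τ 1 4))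
    (R := pvlpR τ ln) (A := pvlpA0 τ ln) (BB := tscBox ((pvlzC 𝔑 τ).1 + 3) ((pvlzC 𝔑 τ).1 + 8) ((pvlzC 𝔑 τ).2 + 0) ((pvlzC 𝔑 τ).2 + 1))
    (WB := tscBox ((pvlzC 𝔑 τ).1 + 3) ((pvlzC 𝔑 τ).1 + 5) ((pvlzC 𝔑 τ).2 + -2) ((pvlzC 𝔑 τ).2 + -1))
    (bB := pvlktBx (pvlktU0 𝔑 τ o) 129 333 13 67) (wB := pvlktBx (pvlktU0 𝔑 τ o) 130 206 (-67) (-13)) hoff
    ?f1 ?f2 ?f4 ?fB ?hbB ?hwB ?hBW ?m1A ?m1R ?m1W ?m2A ?m2R ?m2W ?m4A ?m4R ?m4W ?mBA ?mBR).mono ?hB ?hW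
  case f1 =>
    rintro k ⟨z, (h0 | h1) | hx, hk⟩
    · exact Or.inl (Or.inr (Or.inl ⟨z, Or.inl h0, hk⟩))
    · exact Or.inr (pvtw_N_mono (by omega) hC1 (pvlkv_N_pre (j := 14) (by omega) _ ⟨z, h1, hk⟩))
    · exact Or.inl (Or.inr (Or.inl ⟨z, Or.inr hx, hk⟩))
  case f2 =>
    intro k hk
    have := pvlkv_N_pre (j := 5) (by omega) _ hk
    rw [pvtw_N_add] at this
    exact Or.inr (pvtw_N_mono (by omega) hC2 this)
  case f4 =>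
    intro k hk
    have := pvlkv_N_pre (j := 6) (by omega) _ hk
    rw [pvtw_N_add] at this
    exact Or.inr (pvtw_N_mono (by omega) (pvmn_cells_mono le_rfl (by omega)) this)
  case fB =>
    intro k hk
    obtain ⟨k1, k2, k3, k4⟩ := pvlkv_N_bx (a' := 127) (b' := 335) (c' := 11) (d' := 69) 2 (by norm_num) (by norm_num) (by norm_num) (by norm_num) hk
    by_cases hc : (pvlktU0 𝔑 τ o).1 + 140 ≤ k.1
    · exact Or.inl (Or.inr (Or.inr ⟨by omega, by omega, by omega, by omega⟩))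
    · exact Or.inl (Or.inl ⟨by omega, by omega, by omega, by omega⟩)
  case hbB => exact pvlkv_bx_pre (by norm_num) (by norm_num) (by norm_num) (by norm_num)
  case hwB => exact pvlkv_bx_pre (by norm_num) (by norm_num) (by norm_num) (by norm_num)
  case hBW => exact pvlkv_bx_disj (by norm_num)
  case m1A =>
    refine pvlkv_blk_off ?_
    rw [pvtw_N_union]
    rintro (h | h)
    · exact hA1 (pvtw_N_mono (by omega) h01 h)
    · exact Set.disjoint_left.1 hAxR h (hRin (pvlp_A0 hτ hl).1)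
  case m1R =>
    rw [pvtw_N_union, Set.disjoint_union_left]
    exact ⟨hR.mono_left (pvtw_N_mono (by omega) h01), (hAxR.mono_left (pvtw_N_mono (by omega) le_rfl)).mono_right hRin⟩
  case m1W =>
    rw [Set.disjoint_left]
    rintro x hx ⟨x1, x2, x3, x4⟩
    exact pvlkv_axE_u hτ hacc hx ⟨by omega, by omega, by omega, by omega⟩
  case m2A =>
    rw [pvtw_N_add]
    refine pvlkv_blk_off ?_
    intro h
    have := (pvgw_far hτ (p := 2) (q := 0) (i := 1 + (1 + 3)) (j := 9) (by omega) (by omega) h (pvhh_A0_mem hτ hl)).1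
    have e9 : (0 : Fin 10).1 = 0 := rfl
    have e7 : (2 : Fin 10).1 = 2 := rfl
    omega
  case m2R =>
    rw [pvtw_N_add]
    exact hR.mono_left (pvtw_N_mono (by omega) (hC2.trans (pvmn_cells_mono (by omega) le_rfl)))
  case m2W =>
    rw [pvtw_N_add]
    exact hplug ((pvtw_N_mono le_rfl hC2).trans (hcb (by omega))) (pvlkv_mbx_blk (j := 0) (by norm_num) (by norm_num) (by norm_num) (by norm_num) |> fun h y hy => h y (pvtw_N_sub hy))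
  case m4A =>
    rw [pvtw_N_add]
    refine pvlkv_blk_off ?_
    intro h
    exact hA1 (pvtw_N_mono (by omega) (pvmn_cells_mono (by omega) (by omega)) h)
  case m4R =>
    rw [pvtw_N_add]
    exact hR.mono_left (pvtw_N_mono (by omega) (pvmn_cells_mono (by omega) (by omega)))
  case m4W =>
    rw [pvtw_N_add]
    exact hplug (hcb (by omega)) (pvlkv_mbx_blk (j := 0) (by norm_num) (by norm_num) (by norm_num) (by norm_num) |> fun h y hy => h y (pvtw_N_sub hy))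
  case mBA =>
    refine (hplug ?_ (pvlkv_mbx_blk (j := 1) (by norm_num) (by norm_num) (by norm_num) (by norm_num))).symm
    have : pvtwN 1 {pvlpA0 τ ln} ⊆ pvtwN 1 (pvtwN 5 (pvmnCells τ 1 8)) := pvtw_N_mono le_rfl (Set.singleton_subset_iff.2 (hRin (pvlp_A0 hτ hl).1))
    rw [pvtw_N_add] at this
    exact this.trans (hcb (by omega))
  case mBR =>
    exact (hplug (hRin.trans (hcb (by omega))) (pvlkv_mbx_blk (j := 1) (by norm_num) (by norm_num) (by norm_num) (by norm_num))).symm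
  case hB =>
    intro k hk
    unfold pvlktBke pvlktXBe at hk
    simp only [pvtw_N_union, pvtw_N_add] at hk
    rcases hk with (((h | h) | h) | h) | h
    · exact Or.inl (Or.inl (Or.inl h))
    · exact Or.inl (Or.inl (Or.inr h))
    · refine Or.inr (pvlkv_N_bx _ ?_ ?_ ?_ ?_ h) <;> norm_num
    · exact Or.inl (Or.inr h)
    · refine Or.inr (pvlkv_N_bx _ ?_ ?_ ?_ ?_ h) <;> norm_num
  case hW =>
    intro k hk
    unfold pvlktWhe pvlktXWe at hk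
    simp only [pvtw_N_union, pvtw_N_add] at hk
    rcases hk with (((h | h) | h) | h) | h
    · exact Or.inl (Or.inl (Or.inl h))
    · exact Or.inl (Or.inl (Or.inr h))
    · refine Or.inr (pvlkv_N_bx _ ?_ ?_ ?_ ?_ h) <;> norm_num
    · exact Or.inl (Or.inr h)
    · exact Or.inr (pvlkv_bx_mono (by norm_num) (by norm_num) (by norm_num) (by norm_num) h)

/-- field `uW` of `e` -/
theorem pvlkv_uW_e (hτ : PvmnIsType 𝔑 τ) (hacc : PvlzHasAcc 𝔑 τ) (hl : PvmnLaneR τ ln.1 ln.2)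
    (hadj : ∀ w ∈ S, ∃ b, triAdj b w ∧ b ∈ pvlktFaE 𝔑 τ o ∪ (pvlktPhi o).pre (pvtwN 4 (pvmnCells τ 1 2))) :
    Disjoint (pvtwN 2 (pvlktXWe 𝔑 τ ln o S)) (pvlktBx (pvlktU0 𝔑 τ o) (-130) 129 (-130) 129) := by
  rw [Set.disjoint_left]
  intro k hk hb
  obtain ⟨c1, c2, c3, c4⟩ := pvlkv_bx_pre (o := o) (C := pvlzC 𝔑 τ) (a' := -4) (b' := 3) (c' := -4) (d' := 3) (by norm_num) (by norm_num) (by norm_num) (by norm_num) hb
  have hoff : (pvlktPhi o).ap k ∉ pvmnBox (𝔑.nBx + 40) := by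
    refine pvlkv_blk_off' hτ hacc ?_ ?_ <;> rw [abs_le] <;> constructor <;> omega
  rcases pvlkv_in_e hadj (pvtw_N_mono (by omega) le_rfl hk) with ((h | h) | h) | h
  · exact hoff (pvmn_box_mono (by omega) (pvmn_N_box (pvmn_cells_box hτ) h))
  · exact pvlkv_axE_u hτ hacc (pvtw_N_mono le_rfl (Set.union_subset_union_left _ Set.subset_union_left) h) ⟨by omega, by omega, by omega, by omega⟩
  · have : (pvlktPhi o).ap k ∈ pvtwN (2 + 5) (τ.C 1 : Set (ℤ × ℤ)) := by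
      rw [← pvtw_N_add]
      exact pvtw_N_mono le_rfl (Set.singleton_subset_iff.2 (pvlkv_A0_C1 hτ hl)) h
    exact hoff (pvmn_box_mono (by omega) (pvmn_N_box (hτ.box 1) this))
  · have h2 := h.1
    have h3 := hb.2.1
    omega

/-- field `tW` of `e` -/
theorem pvlkv_tW_e (hN : PvmnNumOK 𝔑) (hτ : PvmnIsType 𝔑 τ) (hacc : PvlzHasAcc 𝔑 τ) (hl : PvmnLaneR τ ln.1 ln.2)
    (hadj : ∀ w ∈ S, ∃ b, triAdj b w ∧ b ∈ pvlktFaE 𝔑 τ o ∪ (pvlktPhi o).pre (pvtwN 4 (pvmnCells τ 1 2))) :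
    Disjoint (pvtwN 3 (pvlktXWe 𝔑 τ ln o S)) ((pvlktPhi o).pre (pvmnBl 𝔑.rO)) := by
  have hOB : pvmnBl 𝔑.rO ⊆ pvmnBl 𝔑.rB := pvmn_Bl_mono (by have := hN.rO_rB; linarith)
  have hbox : pvmnBl 𝔑.rB ⊆ pvmnBox 𝔑.nBx := (pvmn_Bl_box hN.rB_nC).trans (pvmn_box_mono (by have := hN.nC_nF; have := hN.nF_nBx; omega))
  have hT3 : ∀ (p : Fin 10) {j : ℕ} {x : ℤ × ℤ}, p.1 ≠ 4 → p.1 ≠ 5 → j ≤ 10 → x ∈ pvtwN j (τ.C p : Set (ℤ × ℤ)) → x ∉ pvmnBl 𝔑.rO := fun p j x h4 h5 hj hx hO =>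
    Set.disjoint_left.1 (hτ.ball p h4 h5) (pvtw_N_mono hj le_rfl hx) (hOB hO)
  rw [Set.disjoint_left]
  intro k hk hb
  have hb' : (pvlktPhi o).ap k ∈ pvmnBl 𝔑.rO := hb
  rcases pvlkv_in_e hadj hk with ((h | h) | h) | h
  · obtain ⟨p, p7, p8, hp⟩ := pvmn_N_cells.1 h
    exact hT3 p (by omega) (by omega) (by omega) hp hb'
  · rw [pvtw_N_union] at h
    rcases h with h | h
    · exact hT3 0 (by show (0 : ℕ) ≠ 4; omega) (by show (0 : ℕ) ≠ 5; omega) (by omega) h hb'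
    · exact Set.disjoint_left.1 (pvlkv_axE_ball hN hτ hacc) h hb'
  · have : (pvlktPhi o).ap k ∈ pvtwN (2 + 5) (τ.C 1 : Set (ℤ × ℤ)) := by
      rw [← pvtw_N_add]
      exact pvtw_N_mono le_rfl (Set.singleton_subset_iff.2 (pvlkv_A0_C1 hτ hl)) h
    exact hT3 1 (by show (1 : ℕ) ≠ 4; omega) (by show (1 : ℕ) ≠ 5; omega) (by omega) this hb'
  · obtain ⟨h1, h2⟩ := pvlkv_bx_blk (a := 130) (b := 344) (c := -68) (d := 74) (by norm_num) (by norm_num) (by norm_num) (by norm_num) h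
    exact pvlkv_blk_off' hτ hacc h1 h2 (pvmn_box_mono (by omega) (hbox (hOB hb')))

/-- field `zuW` of `e` (`pvlktBs true u 143 147 (-65) (-16)`) -/
theorem pvlkv_zuW_e : pvlktBx (pvlktU0 𝔑 τ o) 143 147 (-65) (-16) ⊆ pvtwN 1 (pvlktXWe 𝔑 τ ln o S) := fun _ hk =>
  pvtw_N_sub (Or.inr (pvlkv_bx_mono (by norm_num) (by norm_num) (by norm_num) (by norm_num) hk))

/-- field `ztW` of `e` -/
theorem pvlkv_ztW_e : (pvlktPhi o).pre (pvtwN 1 {pvlpA0 τ ln}) ⊆ pvtwN 1 (pvlktXWe 𝔑 τ ln o S) := fun _ hk => pvtw_N_sub (Or.inl (Or.inr hk))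

/-- field `ruW` of `e` (`pvlktBs true u 130 202 (-63) (-18)`) -/
theorem pvlkv_ruW_e : pvlktBx (pvlktU0 𝔑 τ o) 130 202 (-63) (-18) ⊆ pvlktWhe 𝔑 τ ln o S := fun _ hk =>
  Or.inr (pvlkv_bx_mono (by norm_num) (by norm_num) (by norm_num) (by norm_num) hk)

/-- field `rtW` of `e` -/
theorem pvlkv_rtW_e : pvtwN 12 ((pvlktPhi o).pre (pvlpR τ ln)) ⊆ pvlktWhe 𝔑 τ ln o S := fun _ hk => Or.inl (Or.inr hk)

end linke

end Claimed.Agent.R289
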