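import Claimed.Agent.R289.Tr.LinkLay
import Claimed.Agent.R289.Tr.LinkGeoE
import Claimed.Agent.R289.Tr.LinkLayB
import Claimed.Agent.R289.Tr.LinkLayK
import Claimed.Agent.R289.Tr.LinkLayW

/-!
# Row 289 (S0537, Cardy for Poisson-Voronoi), THE WALL, ROAD P, file Tr/LinkGeoT : THE TWO THICK LINKS, GLUE      (architect helper164; prefix `pvlkt_`, `Pvlkt`, `pvlkt`)

THREE RECORDS ⟹ `PvlktPoly` (`Tr/LinkDict`) ⟹ `PvnkLink.Geo`, `.Rooms`, lengths, `PvnhWin`, `PvnhOff`, `lim`.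
* **`PvlktU eu δ u σ`**   = the end of side `σ` (`true` = exit = EAST) of the reference plug, in fine units round its centre `u δ`   [H2: 15, at `pvyeEnd (pvyeE0 ..) c w su`, `su = 1600 δ`]
* **`PvlktBig ep δ ZB ZW RB RW OB EB`** = a big end, in fine cells: `ZB ZW` = the cells which the walks must contain (hook zones of 147), `RB RW` = covers of the rooms off `O`, `OB EB` = covers of `O`, `O ∪ E`   [at the model: `pvlkt_bigM`, `pvlkt_bigP`]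
* **`PvlktCell u o N σ XB XW Bk Wh Ec ZB ZW RB RW OB EB`** = the facts on cells (NO plane, NO end): cores of the polyominoes `B = N¹ XB`, `W = N¹ XW`   [layouts: `Tr/LinkLayE`, `Tr/LinkLayB`]
GLUE (compiled): `pvlkt_poly_e` (`e = eu`, `e' = ep`), `pvlkt_poly_b` (`e = ep`, `e' = eu`).
-/

set_option autoImplicit false
set_option linter.unusedSectionVars false
set_option linter.unusedVariables false

namespace Claimed.Agent.R289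

open Set Metric Relation Claims.C0467 Claimed.Agent.R291

/-! ## 1. the end of the reference plug in fine units -/

/-- the abscissa counted from the centre of `u` towards the side `σ` -/
noncomputable def pvlktSx (σ : Bool) (δ : ℝ) (u : ℤ × ℤ) (p : ℂ) : ℝ := if σ then p.re - (u.1 : ℝ) * δ else (u.1 : ℝ) * δ - p.re

/-- **THE END OF SIDE `σ` OF THE REFERENCE PLUG**, fine units (`r = 40 δ`) -/
structure PvlktU (eu : PvnkEnd) (δ : ℝ) (u : ℤ × ℤ) (σ : Bool) : Prop where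
  mO : MeasurableSet eu.O
  O_sub : ∀ p ∈ eu.O, |p.re - (u.1 : ℝ) * δ| < 130 * δ ∧ |p.im - (u.2 : ℝ) * δ| < 130 * δ
  E_sub : ∀ p ∈ eu.E, |p.re - (u.1 : ℝ) * δ| ≤ 220 * δ ∧ |p.im - (u.2 : ℝ) * δ| ≤ 130 * δ
  A₁ : ∀ p ∈ eu.A₁, p ∈ eu.O ∨ (130 * δ ≤ pvlktSx σ δ u p ∧ pvlktSx σ δ u p ≤ 203 * δ ∧ 17 * δ ≤ p.im - (u.2 : ℝ) * δ ∧ p.im - (u.2 : ℝ) * δ ≤ 63 * δ)
  A₂ : ∀ p ∈ eu.A₂, p ∈ eu.O ∨ (130 * δ ≤ pvlktSx σ δ u p ∧ pvlktSx σ δ u p ≤ 203 * δ ∧ -(63 * δ) ≤ p.im - (u.2 : ℝ) * δ ∧ p.im - (u.2 : ℝ) * δ ≤ -(17 * δ))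
  X₁ : ∀ p ∈ eu.X₁, pvlktSx σ δ u p ≤ 80 * δ
  X₂ : ∀ p ∈ eu.X₂, pvlktSx σ δ u p ≤ 80 * δ
  Y₁ : ∀ p ∈ eu.Y₁, 160 * δ ≤ pvlktSx σ δ u p
  Y₂ : ∀ p ∈ eu.Y₂, 160 * δ ≤ pvlktSx σ δ u p

/-- a box on the side `σ` of `u`: columns `a .. b` counted from the centre (mirror: `-b-1 .. -a-1`) -/
def pvlktBs (σ : Bool) (u : ℤ × ℤ) (a b c d : ℤ) : Set (ℤ × ℤ) := if σ then pvlktBx u a b c d else pvlktBx u (-b - 1) (-a - 1) c d

theorem pvlkt_eqns_cite4 : True := by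
  have := @pvlktSx.eq_1; have := @pvlktBs.eq_1
  trivial

section uend

variable {eu : PvnkEnd} {δ : ℝ} {u : ℤ × ℤ} {σ : Bool}

/-- LEAF (H2): the black hook zone at `u` -/
theorem PvlktU.z₁ (U : PvlktU eu δ u σ) (hδ : 0 < δ) {Wc : Set (ℤ × ℤ)} (hW : pvlktBs σ u 143 147 15 64 ⊆ Wc) : PvfpZone δ Wc eu.A₁ eu.X₁ eu.Y₁ := by
  cases σ
  · refine pvlkt_zone_W hδ (u.1 - 146) (u.2 + 17) (u.2 + 62) ?_ ?_ ?_ ?_
    · intro p hp h1 h2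
      push_cast at h1 h2 ⊢
      rcases U.A₁ p hp with hO | ⟨-, -, h3, h4⟩
      · have := (abs_lt.1 (U.O_sub p hO).1).1
        nlinarith
      · constructor <;> nlinarith
    · intro p hp
      have := U.X₁ p hp
      simp only [pvlktSx, Bool.false_eq_true, if_false] at this
      push_cast
      nlinarith
    · intro p hp
      have := U.Y₁ p hp
      simp only [pvlktSx, Bool.false_eq_true, if_false] at this
      push_cast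
      nlinarith
    · refine Subset.trans ?_ hW
      intro k hk
      simp only [pvlktBs, Bool.false_eq_true, if_false, pvlktBx, tscBox, mem_setOf_eq] at hk ⊢
      omega
  · refine pvlkt_zone_E hδ (u.1 + 145) (u.2 + 17) (u.2 + 62) ?_ ?_ ?_ ?_
    · intro p hp h1 h2
      push_cast at h1 h2 ⊢
      rcases U.A₁ p hp with hO | ⟨-, -, h3, h4⟩
      · have := (abs_lt.1 (U.O_sub p hO).1).2
        nlinarith
      · constructor <;> nlinarith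
    · intro p hp
      have := U.X₁ p hp
      simp only [pvlktSx, if_true] at this
      push_cast
      nlinarith
    · intro p hp
      have := U.Y₁ p hp
      simp only [pvlktSx, if_true] at this
      push_cast
      nlinarith
    · refine Subset.trans ?_ hW
      intro k hk
      simp only [pvlktBs, if_true, pvlktBx, tscBox, mem_setOf_eq] at hk ⊢
      omega

/-- LEAF (H2): the white hook zone at `u` -/
theorem PvlktU.z₂ (U : PvlktU eu δ u σ) (hδ : 0 < δ) {Wc : Set (ℤ × ℤ)} (hW : pvlktBs σ u 143 147 (-65) (-16) ⊆ Wc) : PvfpZone δ Wc eu.A₂ eu.X₂ eu.Y₂ := by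
  cases σ
  · refine pvlkt_zone_W hδ (u.1 - 146) (u.2 - 63) (u.2 - 18) ?_ ?_ ?_ ?_
    · intro p hp h1 h2
      push_cast at h1 h2 ⊢
      rcases U.A₂ p hp with hO | ⟨-, -, h3, h4⟩
      · have := (abs_lt.1 (U.O_sub p hO).1).1
        nlinarith
      · constructor <;> nlinarith
    · intro p hp
      have := U.X₂ p hp
      simp only [pvlktSx, Bool.false_eq_true, if_false] at this
      push_cast
      nlinarith
    · intro p hp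
      have := U.Y₂ p hp
      simp only [pvlktSx, Bool.false_eq_true, if_false] at this
      push_cast
      nlinarith
    · refine Subset.trans ?_ hW
      intro k hk
      simp only [pvlktBs, Bool.false_eq_true, if_false, pvlktBx, tscBox, mem_setOf_eq] at hk ⊢
      omega
  · refine pvlkt_zone_E hδ (u.1 + 145) (u.2 - 63) (u.2 - 18) ?_ ?_ ?_ ?_
    · intro p hp h1 h2
      push_cast at h1 h2 ⊢
      rcases U.A₂ p hp with hO | ⟨-, -, h3, h4⟩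
      · have := (abs_lt.1 (U.O_sub p hO).1).2
        nlinarith
      · constructor <;> nlinarith
    · intro p hp
      have := U.X₂ p hp
      simp only [pvlktSx, if_true] at this
      push_cast
      nlinarith
    · intro p hp
      have := U.Y₂ p hp
      simp only [pvlktSx, if_true] at this
      push_cast
      nlinarith
    · refine Subset.trans ?_ hW
      intro k hk
      simp only [pvlktBs, if_true, pvlktBx, tscBox, mem_setOf_eq] at hk ⊢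
      omega

/-- one coordinate: a point of `[A δ, (B+1) δ]` lies in a closed interval `[k δ, (k+1) δ]`, `A ≤ k ≤ B` -/
theorem pvlkt_cell_1d {δ : ℝ} (hδ : 0 < δ) {A B : ℤ} (hAB : A ≤ B) {x : ℝ} (h1 : (A : ℝ) * δ ≤ x) (h2 : x ≤ ((B : ℝ) + 1) * δ) :
    ∃ k : ℤ, A ≤ k ∧ k ≤ B ∧ (k : ℝ) * δ ≤ x ∧ x ≤ ((k : ℝ) + 1) * δ := by
  have hA : A ≤ ⌊x / δ⌋ := Int.le_floor.2 ((le_div_iff₀ hδ).2 h1)
  by_cases hB : ⌊x / δ⌋ ≤ B
  · refine ⟨⌊x / δ⌋, hA, hB, ?_, ?_⟩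
    · exact (le_div_iff₀ hδ).1 (Int.floor_le _)
    · exact ((div_lt_iff₀ hδ).1 (Int.lt_floor_add_one _)).le
  · refine ⟨B, hAB, le_rfl, ?_, h2⟩
    have h3 : B ≤ ⌊x / δ⌋ := by omega
    have h4 : (B : ℝ) ≤ x / δ := Int.le_floor.1 h3
    exact (le_div_iff₀ hδ).1 h4

/-- a closed rectangle of the plane lies in the closed cells of the box -/
theorem pvlkt_rect_sub {δ : ℝ} (hδ : 0 < δ) {A B C D : ℤ} (hAB : A ≤ B) (hCD : C ≤ D) {p : ℂ} (h1 : (A : ℝ) * δ ≤ p.re) (h2 : p.re ≤ ((B : ℝ) + 1) * δ)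
    (h3 : (C : ℝ) * δ ≤ p.im) (h4 : p.im ≤ ((D : ℝ) + 1) * δ) : p ∈ pvtU δ (tscBox A B C D) := by
  obtain ⟨k, k1, k2, k3, k4⟩ := pvlkt_cell_1d hδ hAB h1 h2
  obtain ⟨l, l1, l2, l3, l4⟩ := pvlkt_cell_1d hδ hCD h3 h4
  unfold pvtU
  simp only [Set.mem_iUnion]
  exact ⟨(k, l), ⟨k1, k2, l1, l2⟩, k3, k4, l3, l4⟩

/-- a rectangle on the side `σ` of `u` -/
theorem pvlkt_side_sub {δ : ℝ} (hδ : 0 < δ) (σ : Bool) (u : ℤ × ℤ) {a b c d : ℤ} (hab : a ≤ b) (hcd : c ≤ d) {p : ℂ} (h1 : (a : ℝ) * δ ≤ pvlktSx σ δ u p) (h2 : pvlktSx σ δ u p ≤ ((b : ℝ) + 1) * δ)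
    (h3 : (c : ℝ) * δ ≤ p.im - (u.2 : ℝ) * δ) (h4 : p.im - (u.2 : ℝ) * δ ≤ ((d : ℝ) + 1) * δ) : p ∈ pvtU δ (pvlktBs σ u a b c d) := by
  unfold pvlktBs pvlktBx
  unfold pvlktSx at h1 h2
  cases σ
  · simp only [Bool.false_eq_true, if_false] at h1 h2 ⊢
    refine pvlkt_rect_sub hδ (by omega) (by omega) ?_ ?_ ?_ ?_
    · push_cast; nlinarith
    · push_cast; nlinarith
    · push_cast; nlinarith
    · push_cast; nlinarith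
  · simp only [if_true] at h1 h2 ⊢
    refine pvlkt_rect_sub hδ (by omega) (by omega) ?_ ?_ ?_ ?_
    · push_cast; nlinarith
    · push_cast; nlinarith
    · push_cast; nlinarith
    · push_cast; nlinarith

/-- LEAF (H2): the black room at `u` -/
theorem PvlktU.a₁ (U : PvlktU eu δ u σ) (hδ : 0 < δ) : eu.A₁ ⊆ eu.O ∪ pvtU δ (pvlktBs σ u 130 202 17 62) := by
  intro p hp
  rcases U.A₁ p hp with h | ⟨h1, h2, h3, h4⟩
  · exact Or.inl h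
  · refine Or.inr (pvlkt_side_sub hδ σ u (by norm_num) (by norm_num) ?_ ?_ ?_ ?_)
    · push_cast; linarith
    · push_cast; linarith
    · push_cast; linarith
    · push_cast; linarith

/-- LEAF (H2): the white room at `u` -/
theorem PvlktU.a₂ (U : PvlktU eu δ u σ) (hδ : 0 < δ) : eu.A₂ ⊆ eu.O ∪ pvtU δ (pvlktBs σ u 130 202 (-63) (-18)) := by
  intro p hp
  rcases U.A₂ p hp with h | ⟨h1, h2, h3, h4⟩
  · exact Or.inl h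
  · refine Or.inr (pvlkt_side_sub hδ σ u (by norm_num) (by norm_num) ?_ ?_ ?_ ?_)
    · push_cast; linarith
    · push_cast; linarith
    · push_cast; linarith
    · push_cast; linarith

/-- LEAF (H2): closed cells off the square of `u` miss `O_u` -/
theorem PvlktU.off (U : PvlktU eu δ u σ) (hδ : 0 < δ) {E : Set (ℤ × ℤ)} (hE : Disjoint E (pvlktBx u (-130) 129 (-130) 129)) : Disjoint (pvtU δ E) eu.O := by
  rw [Set.disjoint_left]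
  intro p hp hO
  unfold pvtU at hp
  simp only [Set.mem_iUnion] at hp
  obtain ⟨z, hz, z1, z2, z3, z4⟩ := hp
  obtain ⟨o1, o2⟩ := U.O_sub p hO
  rw [abs_lt] at o1 o2
  refine Set.disjoint_left.1 hE hz ?_
  have c1 : (z.1 : ℝ) < (u.1 : ℝ) + 130 := by
    by_contra hc
    have : ((u.1 : ℝ) + 130) * δ ≤ (z.1 : ℝ) * δ := mul_le_mul_of_nonneg_right (not_lt.1 hc) hδ.le
    nlinarith
  have c2 : (u.1 : ℝ) - 130 < (z.1 : ℝ) + 1 := by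
    by_contra hc
    have : ((z.1 : ℝ) + 1) * δ ≤ ((u.1 : ℝ) - 130) * δ := mul_le_mul_of_nonneg_right (not_lt.1 hc) hδ.le
    nlinarith
  have c3 : (z.2 : ℝ) < (u.2 : ℝ) + 130 := by
    by_contra hc
    have : ((u.2 : ℝ) + 130) * δ ≤ (z.2 : ℝ) * δ := mul_le_mul_of_nonneg_right (not_lt.1 hc) hδ.le
    nlinarith
  have c4 : (u.2 : ℝ) - 130 < (z.2 : ℝ) + 1 := by
    by_contra hc
    have : ((z.2 : ℝ) + 1) * δ ≤ ((u.2 : ℝ) - 130) * δ := mul_le_mul_of_nonneg_right (not_lt.1 hc) hδ.le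
    nlinarith
  have d1 : z.1 < u.1 + 130 := by exact_mod_cast c1
  have d2 : u.1 - 130 < z.1 + 1 := by exact_mod_cast c2
  have d3 : z.2 < u.2 + 130 := by exact_mod_cast c3
  have d4 : u.2 - 130 < z.2 + 1 := by exact_mod_cast c4
  exact ⟨by omega, by omega, by omega, by omega⟩

/-- LEAF (H2): the region and the window of `u` -/
theorem PvlktU.OE (U : PvlktU eu δ u σ) (hδ : 0 < δ) : eu.O ∪ eu.E ⊆ pvtU δ (pvlktBx u (-220) 219 (-130) 129) := by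
  have key : ∀ p : ℂ, |p.re - (u.1 : ℝ) * δ| ≤ 220 * δ → |p.im - (u.2 : ℝ) * δ| ≤ 130 * δ → p ∈ pvtU δ (pvlktBx u (-220) 219 (-130) 129) := by
    intro p h1 h2
    rw [abs_le] at h1 h2
    unfold pvlktBx
    refine pvlkt_rect_sub hδ (by omega) (by omega) ?_ ?_ ?_ ?_
    · push_cast; nlinarith
    · push_cast; nlinarith
    · push_cast; nlinarith
    · push_cast; nlinarith
  rintro p (hp | hp)
  · obtain ⟨o1, o2⟩ := U.O_sub p hp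
    exact key p (o1.le.trans (by nlinarith)) o2.le
  · obtain ⟨o1, o2⟩ := U.E_sub p hp
    exact key p o1 o2

end uend

/-! ## 2. a big end in fine cells -/

/-- **A BIG END**, fine cells -/
structure PvlktBig (ep : PvnkEnd) (δ : ℝ) (ZB ZW RB RW OB EB : Set (ℤ × ℤ)) : Prop where
  mO : MeasurableSet ep.O
  z₁ : ∀ Wc : Set (ℤ × ℤ), ZB ⊆ Wc → PvfpZone δ Wc ep.A₁ ep.X₁ ep.Y₁
  z₂ : ∀ Wc : Set (ℤ × ℤ), ZW ⊆ Wc → PvfpZone δ Wc ep.A₂ ep.X₂ ep.Y₂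
  a₁ : ep.A₁ ⊆ ep.O ∪ pvtU δ RB
  a₂ : ep.A₂ ⊆ ep.O ∪ pvtU δ RW
  O_sub : ep.O ⊆ pvtU δ OB
  OE_sub : ep.O ∪ ep.E ⊆ pvtU δ EB

/-! ## 3. the facts on cells -/

/-- **THE FACTS ON CELLS OF A THICK LINK** (`σ` = the side of `u` at which the link is hooked) -/
structure PvlktCell (u o : ℤ × ℤ) (N : ℕ) (σ : Bool) (XB XW Bk Wh Ec ZB ZW RB RW OB EB : Set (ℤ × ℤ)) : Prop where
  cXB : TscConn tscG XB
  cXW : TscConn tscG XW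
  boxB : ∀ k ∈ pvtwN 1 XB, |k.1 - o.1| ≤ N ∧ |k.2 - o.2| ≤ N
  boxW : ∀ k ∈ pvtwN 1 XW, |k.1 - o.1| ≤ N ∧ |k.2 - o.2| ≤ N
  subB : pvtwN 2 XB ⊆ Bk
  subW : pvtwN 2 XW ⊆ Wh
  sep : Disjoint (pvtwN 1 Bk) Wh
  /-- the walks keep off the square of `u` -/
  uB : Disjoint (pvtwN 2 XB) (pvlktBx u (-130) 129 (-130) 129)
  uW : Disjoint (pvtwN 2 XW) (pvlktBx u (-130) 129 (-130) 129)
  /-- the walks keep off the state region of `t` -/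
  tB : Disjoint (pvtwN 3 XB) OB
  tW : Disjoint (pvtwN 3 XW) OB
  /-- the hook zones -/
  zuB : pvlktBs σ u 143 147 15 64 ⊆ pvtwN 1 XB
  zuW : pvlktBs σ u 143 147 (-65) (-16) ⊆ pvtwN 1 XW
  ztB : ZB ⊆ pvtwN 1 XB
  ztW : ZW ⊆ pvtwN 1 XW
  /-- the rooms -/
  ruB : pvlktBs σ u 130 202 17 62 ⊆ Bk
  ruW : pvlktBs σ u 130 202 (-63) (-18) ⊆ Wh
  rtB : RB ⊆ Bk
  rtW : RW ⊆ Wh
  /-- the two plugs with their windows are apart -/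
  dj : Disjoint (pvtwN 1 (pvlktBx u (-220) 219 (-130) 129)) EB
  finE : Ec.Finite

section glue

variable {eu ep : PvnkEnd} {δ : ℝ} {u o : ℤ × ℤ} {N : ℕ} {σ : Bool} {XB XW Bk Wh Ec ZB ZW RB RW OB EB : Set (ℤ × ℤ)}

theorem pvlkt_ne_of_zone {a b c d : ℤ} (hab : a ≤ b) (hcd : c ≤ d) {X : Set (ℤ × ℤ)} (h : pvlktBs σ u a b c d ⊆ X) : X.Nonempty := by
  cases σ
  · exact ⟨(u.1 + (-b - 1), u.2 + c), h (by simp only [pvlktBs, pvlktBx, tscBox]; exact ⟨by simp, by simp only; omega, le_refl _, by simp only; omega⟩)⟩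
  · exact ⟨(u.1 + a, u.2 + c), h (by simp only [pvlktBs, pvlktBx, tscBox]; exact ⟨le_refl _, by simp only; omega, le_refl _, by simp only; omega⟩)⟩

theorem pvlkt_Et_meas (mu : MeasurableSet eu.O) (mp : MeasurableSet ep.O) (hE : Ec.Finite) : MeasurableSet (pvtU δ Ec \ (eu.O ∪ ep.O)) :=
  (pvt_U_compact hE).isClosed.measurableSet.diff (mu.union mp)

/-- **THE LINK `u → t`** -/
theorem pvlkt_poly_e (hδ : 0 < δ) (hcol : ep.c = eu.c) (U : PvlktU eu δ u σ) (P : PvlktBig ep δ ZB ZW RB RW OB EB) (K : PvlktCell u o N σ XB XW Bk Wh Ec ZB ZW RB RW OB EB) :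
    PvlktPoly eu ep δ o N (pvtwN 1 XB) (pvtwN 1 XW) Bk Wh (pvtU δ Ec \ (eu.O ∪ ep.O)) where
  col := hcol
  dj := ((pvwg_U_disj hδ K.dj).mono_left (U.OE hδ)).mono_right P.OE_sub
  δ_pos := hδ
  neB := pvlkt_ne_of_zone (by norm_num) (by norm_num) K.zuB
  neW := pvlkt_ne_of_zone (by norm_num) (by norm_num) K.zuW
  boxB := K.boxB
  boxW := K.boxW
  cB := pvgw_N1_conn4 K.cXB
  cW := pvgw_N1_conn4 K.cXW
  subB := by rw [pvtw_N_add]; exact K.subB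
  subW := by rw [pvtw_N_add]; exact K.subW
  sep := K.sep
  offB := by
    rw [pvtw_N_add, disjoint_union_right]
    refine ⟨U.off hδ K.uB, (pvwg_U_disj hδ ?_).mono_right P.O_sub⟩
    rw [pvtw_N_add]
    exact K.tB
  offW := by
    rw [pvtw_N_add, disjoint_union_right]
    refine ⟨U.off hδ K.uW, (pvwg_U_disj hδ ?_).mono_right P.O_sub⟩
    rw [pvtw_N_add]
    exact K.tW
  z₁ := U.z₁ hδ K.zuB
  z₁' := P.z₁ _ K.ztB
  z₂ := U.z₂ hδ K.zuW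
  z₂' := P.z₂ _ K.ztW
  a₁ := (U.a₁ hδ).trans (union_subset_union_right _ (pvt_U_mono K.ruB))
  a₂ := (U.a₂ hδ).trans (union_subset_union_right _ (pvt_U_mono K.ruW))
  a₁' := P.a₁.trans (union_subset_union_right _ (pvt_U_mono K.rtB))
  a₂' := P.a₂.trans (union_subset_union_right _ (pvt_U_mono K.rtW))
  mEt := pvlkt_Et_meas U.mO P.mO K.finE
  bEt := (pvt_U_compact K.finE).isBounded.subset sdiff_subset
  offEt := disjoint_sdiff_left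

/-- **THE LINK `t → u`** -/
theorem pvlkt_poly_b (hδ : 0 < δ) (hcol : eu.c = ep.c) (U : PvlktU eu δ u σ) (P : PvlktBig ep δ ZB ZW RB RW OB EB) (K : PvlktCell u o N σ XB XW Bk Wh Ec ZB ZW RB RW OB EB) :
    PvlktPoly ep eu δ o N (pvtwN 1 XB) (pvtwN 1 XW) Bk Wh (pvtU δ Ec \ (ep.O ∪ eu.O)) where
  col := hcol
  dj := (((pvwg_U_disj hδ K.dj).mono_left (U.OE hδ)).mono_right P.OE_sub).symm
  δ_pos := hδ
  neB := pvlkt_ne_of_zone (by norm_num) (by norm_num) K.zuB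
  neW := pvlkt_ne_of_zone (by norm_num) (by norm_num) K.zuW
  boxB := K.boxB
  boxW := K.boxW
  cB := pvgw_N1_conn4 K.cXB
  cW := pvgw_N1_conn4 K.cXW
  subB := by rw [pvtw_N_add]; exact K.subB
  subW := by rw [pvtw_N_add]; exact K.subW
  sep := K.sep
  offB := by
    rw [pvtw_N_add, disjoint_union_right]
    refine ⟨(pvwg_U_disj hδ ?_).mono_right P.O_sub, U.off hδ K.uB⟩
    rw [pvtw_N_add]
    exact K.tB
  offW := by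
    rw [pvtw_N_add, disjoint_union_right]
    refine ⟨(pvwg_U_disj hδ ?_).mono_right P.O_sub, U.off hδ K.uW⟩
    rw [pvtw_N_add]
    exact K.tW
  z₁ := P.z₁ _ K.ztB
  z₁' := U.z₁ hδ K.zuB
  z₂ := P.z₂ _ K.ztW
  z₂' := U.z₂ hδ K.zuW
  a₁ := P.a₁.trans (union_subset_union_right _ (pvt_U_mono K.rtB))
  a₂ := P.a₂.trans (union_subset_union_right _ (pvt_U_mono K.rtW))
  a₁' := (U.a₁ hδ).trans (union_subset_union_right _ (pvt_U_mono K.ruB))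
  a₂' := (U.a₂ hδ).trans (union_subset_union_right _ (pvt_U_mono K.ruW))
  mEt := pvlkt_Et_meas P.mO U.mO K.finE
  bEt := (pvt_U_compact K.finE).isBounded.subset sdiff_subset
  offEt := disjoint_sdiff_left

end glue

/-! ## 4. the two layouts: what is left -/

section lay

variable (𝔑 : PvmnNum) (τ : PvmnType) (ln : ((ℤ × ℤ) × (ℤ × ℤ)) × ℕ) (o : ℤ × ℤ) (S : Set (ℤ × ℤ))

/-- the output of the half glue for `e` -/
structure PvlktSe : Prop where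
  fin : S.Finite
  conn : TscConn tscG S
  off : Disjoint S (pvtHull (pvlktFt (pvlktPhi o) τ (pvlktFaE 𝔑 τ o) ((pvlktU0 𝔑 τ o).1 + 120) ((pvlktU0 𝔑 τ o).1 + 140) ((pvlktU0 𝔑 τ o).2 - 14) ((pvlktU0 𝔑 τ o).2 + 70)))
  hook : ((pvlktU0 𝔑 τ o).1 + 140, (pvlktU0 𝔑 τ o).2 - 14 - 1) ∈ S
  ovr : ∃ v ∈ S, (pvlktPhi o).ap v = pvlpA0 τ ln
  adj : ∀ w ∈ S, ∃ b, triAdj b w ∧ b ∈ pvlktFaE 𝔑 τ o ∪ (pvlktPhi o).pre (pvtwN 4 (pvmnCells τ 1 2))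

/-- the output of the half glue for `b` -/
structure PvlktSb : Prop where
  fin : S.Finite
  conn : TscConn tscG S
  off : Disjoint S (pvtHull (pvlktFs (pvlktPhi o) τ (pvlktFaB 𝔑 τ o) ((pvlktU0 𝔑 τ o).1 - 140) ((pvlktU0 𝔑 τ o).1 - 120) ((pvlktU0 𝔑 τ o).2 - 14) ((pvlktU0 𝔑 τ o).2 + 70)))
  ovr : ∃ v ∈ S, (pvlktPhi o).ap v = pvlpA1 τ ln
  hook : ((pvlktU0 𝔑 τ o).1 - 140, (pvlktU0 𝔑 τ o).2 - 14 - 1) ∈ S
  adj : ∀ w ∈ S, ∃ b, triAdj b w ∧ b ∈ (pvlktPhi o).pre (pvtwN 4 (pvmnCells τ 7 8)) ∪ pvlktFaB 𝔑 τ o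

end lay

section lay2

variable {𝔑 : PvmnNum} {τ : PvmnType} {ln : ((ℤ × ℤ) × (ℤ × ℤ)) × ℕ} {o : ℤ × ℤ} {S : Set (ℤ × ℤ)}

/-- **ROOF E1** (file `Tr/LinkLayE`): the clauses of the half glue for `e` -/
theorem pvlkt_e_Ht (hN : PvmnNumOK 𝔑) (hτ : PvmnIsType 𝔑 τ) (hacc : PvlzHasAcc 𝔑 τ) :
    PvlktHt 𝔑 (pvlktPhi o) τ (pvlktFaE 𝔑 τ o) ((pvlktU0 𝔑 τ o).1 + 120) ((pvlktU0 𝔑 τ o).1 + 140) ((pvlktU0 𝔑 τ o).2 - 14) ((pvlktU0 𝔑 τ o).2 + 70) :=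
  pvlke_ht_rec hτ hacc o

/-- **ROOF B1** = `pvlkb_Hs` of 89 (`Tr/LinkLayB`): the clauses of the half glue for `b` -/
theorem pvlkt_b_Hs (hN : PvmnNumOK 𝔑) (hτ : PvmnIsType 𝔑 τ) (hacc : PvlzHasAcc 𝔑 τ) :
    PvlktHs 𝔑 (pvlktPhi o) τ (pvlktFaB 𝔑 τ o) ((pvlktU0 𝔑 τ o).1 - 140) ((pvlktU0 𝔑 τ o).1 - 120) ((pvlktU0 𝔑 τ o).2 - 14) ((pvlktU0 𝔑 τ o).2 + 70) :=
  pvlkb_Hs hτ hacc o

theorem pvlkt_e_S (hN : PvmnNumOK 𝔑) (hτ : PvmnIsType 𝔑 τ) (hacc : PvlzHasAcc 𝔑 τ) (hl : PvmnLaneR τ ln.1 ln.2) : ∃ S, PvlktSe 𝔑 τ ln o S := by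
  obtain ⟨S, h1, h2, h3, h4, h5, h6⟩ := pvlkt_half_t (pvlkt_e_Ht (o := o) hN hτ hacc) hl
  exact ⟨S, h1, h2, h3, h4, h5, h6⟩

theorem pvlkt_b_S (hN : PvmnNumOK 𝔑) (hτ : PvmnIsType 𝔑 τ) (hacc : PvlzHasAcc 𝔑 τ) (hl : PvmnLaneR τ ln.1 ln.2) : ∃ S, PvlktSb 𝔑 τ ln o S := by
  obtain ⟨S, h1, h2, h3, h4, h5, h6⟩ := pvlkt_half_s (pvlkt_b_Hs (o := o) hN hτ hacc) hl
  exact ⟨S, h1, h2, h3, h4, h5, h6⟩

/-- **ROOF E2**: the facts on cells of `e` -/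
theorem pvlkt_e_cell (hN : PvmnNumOK 𝔑) (hτ : PvmnIsType 𝔑 τ) (hacc : PvlzHasAcc 𝔑 τ) (hl : PvmnLaneR τ ln.1 ln.2) (hS : PvlktSe 𝔑 τ ln o S) :
    PvlktCell (pvlktU0 𝔑 τ o) o (pvlktNN 𝔑) true (pvlktXBe 𝔑 τ o) (pvlktXWe 𝔑 τ ln o S) (pvlktBke 𝔑 τ o) (pvlktWhe 𝔑 τ ln o S) (pvlktEce 𝔑 τ o)
      ((pvlktPhi o).pre (pvtwN 3 (τ.C 2 : Set (ℤ × ℤ)))) ((pvlktPhi o).pre (pvtwN 1 {pvlpA0 τ ln})) (pvtwN 3 ((pvlktPhi o).pre (pvtwN 2 (pvmnCells τ 1 4)))) (pvtwN 12 ((pvlktPhi o).pre (pvlpR τ ln)))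
      ((pvlktPhi o).pre (pvmnBl 𝔑.rO)) ((pvlktPhi o).pre (pvmnBox (𝔑.nBx + 10))) where
  cXB := pvlkk_e_cXB hτ hacc
  cXW := pvlkv_cXW_e hS.conn hS.ovr hS.hook
  boxB := pvlkk_e_boxB hτ hacc
  boxW := pvlkv_boxW_e hτ hacc hl hS.adj
  subB := pvlkk_e_subB
  subW := pvlkv_subW_e
  sep := pvlkv_sep_e hτ hacc hl hS.off
  uB := pvlkk_e_uB hτ hacc
  uW := pvlkv_uW_e hτ hacc hl hS.adj
  tB := pvlkk_e_tB hN hτ hacc
  tW := pvlkv_tW_e hN hτ hacc hl hS.adj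
  zuB := pvlkk_e_zuB
  zuW := pvlkv_zuW_e
  ztB := pvlkk_e_ztB
  ztW := pvlkv_ztW_e
  ruB := pvlkk_e_ruB
  ruW := pvlkv_ruW_e
  rtB := pvlkk_e_rtB
  rtW := pvlkv_rtW_e
  dj := pvlkk_dj hτ hacc
  finE := pvlkk_e_finE hτ hacc

/-- **ROOF B2**: the facts on cells of `b` -/
theorem pvlkt_b_cell (hN : PvmnNumOK 𝔑) (hτ : PvmnIsType 𝔑 τ) (hacc : PvlzHasAcc 𝔑 τ) (hl : PvmnLaneR τ ln.1 ln.2) (hS : PvlktSb 𝔑 τ ln o S) :
    PvlktCell (pvlktU0 𝔑 τ o) o (pvlktNN 𝔑) false (pvlktXBb 𝔑 τ o) (pvlktXWb 𝔑 τ ln o S) (pvlktBkb 𝔑 τ o) (pvlktWhb 𝔑 τ ln o S) (pvlktEcb 𝔑 τ o)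
      ((pvlktPhi o).pre (pvtwN 3 (τ.C 7 : Set (ℤ × ℤ)))) ((pvlktPhi o).pre (pvtwN 1 {pvlpA1 τ ln})) (pvtwN 3 ((pvlktPhi o).pre (pvtwN 2 (pvmnCells τ 5 8)))) (pvtwN 12 ((pvlktPhi o).pre (pvlpR τ ln)))
      ((pvlktPhi o).pre (pvmnBl 𝔑.rO)) ((pvlktPhi o).pre (pvmnBox (𝔑.nBx + 10))) where
  cXB := pvlkk_b_cXB hτ hacc
  cXW := pvlkv_cXW_b hS.conn hS.ovr hS.hook
  boxB := pvlkk_b_boxB hτ hacc
  boxW := pvlkv_boxW_b hτ hacc hl hS.adj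
  subB := pvlkk_b_subB
  subW := pvlkv_subW_b
  sep := pvlkv_sep_b hτ hacc hl hS.off
  uB := pvlkk_b_uB hτ hacc
  uW := pvlkv_uW_b hτ hacc hl hS.adj
  tB := pvlkk_b_tB hN hτ hacc
  tW := pvlkv_tW_b hN hτ hacc hl hS.adj
  zuB := pvlkk_b_zuB
  zuW := pvlkv_zuW_b
  ztB := pvlkk_b_ztB
  ztW := pvlkv_ztW_b
  ruB := pvlkk_b_ruB
  ruW := pvlkv_ruW_b
  rtB := pvlkk_b_rtB
  rtW := pvlkv_rtW_b
  dj := pvlkk_dj hτ hacc
  finE := pvlkk_b_finE hτ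

/-- the entrance end of the plug `t`, in fine cells -/
def PvlktBigM (𝔑 : PvmnNum) (τ : PvmnType) (ln : ((ℤ × ℤ) × (ℤ × ℤ)) × ℕ) (o : ℤ × ℤ) (ep : PvnkEnd) (δ : ℝ) : Prop :=
  PvlktBig ep δ ((pvlktPhi o).pre (pvtwN 3 (τ.C 2 : Set (ℤ × ℤ)))) ((pvlktPhi o).pre (pvtwN 1 {pvlpA0 τ ln})) (pvtwN 3 ((pvlktPhi o).pre (pvtwN 2 (pvmnCells τ 1 4)))) (pvtwN 12 ((pvlktPhi o).pre (pvlpR τ ln)))
    ((pvlktPhi o).pre (pvmnBl 𝔑.rO)) ((pvlktPhi o).pre (pvmnBox (𝔑.nBx + 10)))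

/-- the exit end of the plug `t`, in fine cells -/
def PvlktBigP (𝔑 : PvmnNum) (τ : PvmnType) (ln : ((ℤ × ℤ) × (ℤ × ℤ)) × ℕ) (o : ℤ × ℤ) (ep : PvnkEnd) (δ : ℝ) : Prop :=
  PvlktBig ep δ ((pvlktPhi o).pre (pvtwN 3 (τ.C 7 : Set (ℤ × ℤ)))) ((pvlktPhi o).pre (pvtwN 1 {pvlpA1 τ ln})) (pvtwN 3 ((pvlktPhi o).pre (pvtwN 2 (pvmnCells τ 5 8)))) (pvtwN 12 ((pvlktPhi o).pre (pvlpR τ ln)))
    ((pvlktPhi o).pre (pvmnBl 𝔑.rO)) ((pvlktPhi o).pre (pvmnBox (𝔑.nBx + 10)))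

theorem pvlkt_eqns_cite5 : True := by
  have := @PvlktBigM.eq_1; have := @PvlktBigP.eq_1
  trivial

variable {eu ep : PvnkEnd} {δ ρ : ℝ} {nu : ℕ}

/-- **THE THICK LINK `e : u → t`** (any ends which satisfy the two records) -/
theorem pvlkt_e_exists (hnu : PvlktNu (pvlktNN 𝔑) nu) (hN : PvmnNumOK 𝔑) (hτ : PvmnIsType 𝔑 τ) (hacc : PvlzHasAcc 𝔑 τ) (hl : PvmnLaneR τ ln.1 ln.2) (hδ : 0 < δ) (hρ : 0 < ρ)
    (hcol : ep.c = eu.c) (U : PvlktU eu δ (pvlktU0 𝔑 τ o) true) (P : PvlktBigM 𝔑 τ ln o ep δ) :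
    ∃ (S : Set (ℤ × ℤ)) (w : PvydWalk), PvlktSe 𝔑 τ ln o S ∧
      PvlktOut eu ep δ ρ nu (pvtwN 1 (pvlktXBe 𝔑 τ o)) (pvtwN 1 (pvlktXWe 𝔑 τ ln o S)) (pvlktBke 𝔑 τ o) (pvlktWhe 𝔑 τ ln o S) (pvtU δ (pvlktEce 𝔑 τ o) \ (eu.O ∪ ep.O)) w := by
  obtain ⟨S, hS⟩ := pvlkt_e_S (o := o) hN hτ hacc hl
  obtain ⟨w, hw⟩ := pvlkt_dict hnu (pvlkt_poly_e hδ hcol U P (pvlkt_e_cell hN hτ hacc hl hS)) hρ
  exact ⟨S, w, hS, hw⟩

/-- **THE THICK LINK `b : t → u`** -/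
theorem pvlkt_b_exists (hnu : PvlktNu (pvlktNN 𝔑) nu) (hN : PvmnNumOK 𝔑) (hτ : PvmnIsType 𝔑 τ) (hacc : PvlzHasAcc 𝔑 τ) (hl : PvmnLaneR τ ln.1 ln.2) (hδ : 0 < δ) (hρ : 0 < ρ)
    (hcol : eu.c = ep.c) (U : PvlktU eu δ (pvlktU0 𝔑 τ o) false) (P : PvlktBigP 𝔑 τ ln o ep δ) :
    ∃ (S : Set (ℤ × ℤ)) (w : PvydWalk), PvlktSb 𝔑 τ ln o S ∧
      PvlktOut ep eu δ ρ nu (pvtwN 1 (pvlktXBb 𝔑 τ o)) (pvtwN 1 (pvlktXWb 𝔑 τ ln o S)) (pvlktBkb 𝔑 τ o) (pvlktWhb 𝔑 τ ln o S) (pvtU δ (pvlktEcb 𝔑 τ o) \ (ep.O ∪ eu.O)) w := by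
  obtain ⟨S, hS⟩ := pvlkt_b_S (o := o) hN hτ hacc hl
  obtain ⟨w, hw⟩ := pvlkt_dict hnu (pvlkt_poly_b hδ hcol U P (pvlkt_b_cell hN hτ hacc hl hS)) hρ
  exact ⟨S, w, hS, hw⟩

end lay2

end Claimed.Agent.R289
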