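-- KEEP
import Claimed.Agent.R289.Tr.KitEnd
import Claimed.Agent.R289.Tr.PlugFrcT

/-!
# Row 289 (S0537, Cardy for Poisson-Voronoi), THE WALL, ROAD P, file Tr/LinkGeoU : H2 = THE `U` GADGET AND THE `DOOR` GADGET = A KIT END SEEN BY A LINK      (helper15; post P16 of 273, H2 of 164; prefix `pvli_u`, `pvliU`)

THE END: `pvyeEnd (pvyeE0 (pvkdP r) (pvjoT r) O σ) c z (d * s)` (291, `Tr/KitEnd.lean`): the plug of record of 34 (unit `r`), truncation of record of 52 / 174, carried by `w ↦ z + d s w`, `d ^ 4 = 1`, `s > 0`.      SCALE FREE, DIRECTION FREE: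
reference plug `u`: `d = 1`, `s = su m`;   door plugs: `s = δ_m`, `d` = direction of the door.      UNIT OF LENGTH `R = r s`.      Frame of the plug, side `σ` (`true` = exit = East, `false` = entrance = West, mirror `x ↦ -x`), colour `β` (`true` = black = NORTH `y ∈ [R/2, 3R/2]`, `false` = white = SOUTH `y ∈ [-3R/2, -R/2]`).
NO ALIGNMENT of the lattice of the link (`pvlnC δ k`, ABSOLUTE coordinates, `32 δ ≤ R`) with the plug is asked.
* sec. 1  rectangles: `pvli_u_mem` (coordinates of `pvkdRect`), `pvli_u_cth` (thickened rectangles), `pvli_u_mul` (coordinates under `d s`), `pvli_u_norm`.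
* sec. 2  THE ROOM in coordinates: `pvliUy0 pvliUy1` (ordinates of the lane), `pvli_u_room` : `cthickening (r/16) (Ln σ β) ⊆` door part `∪` lane part;   **STUB** `pvliUSt r σ β = σ [13r/4, 5r + r/16] × [y0 - r/16, y1 + r/16]`;
          **`pvli_u_rooms`** : room `⊆ O ∪` stub (field `Rooms` of 272: put the placed stub in `K_β`);   `pvli_u_st_disj` (the two stubs are `7r/8` apart), `pvli_u_st_off` (stubs off the open door square).
* sec. 3  **HOOK BOX** `pvliUHB r σ β = σ [7r/2 - r/16, 18r/5 + r/16] × [y0 - r/8, y1 + r/8]`;   **`pvli_u_zone`** : if every link cell which lies in the placed hook box belongs to `W` then `PvfpZone δ W (room) (start) (target)`.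
* sec. 4  AT THE END OF RECORD: **`pvli_u_z₁` `pvli_u_z₂`** (fields `z₁ z₁' z₂ z₂'` of `PvnkLink.Geo`), **`pvli_u_a₁` `pvli_u_a₂`** (fields of `Rooms`), `pvli_u_E` (the window in coordinates), `pvli_u_cell_off` (the window of a link cell of the lane beyond `27r/8` misses the door square).
-/

set_option autoImplicit false
set_option linter.unusedSectionVars false
set_option linter.unusedVariables false
set_option linter.unusedSimpArgs false

namespace Claimed.Agent.R289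

open Set Metric

/-! ## 1. rectangles -/

/-- the sign of a side -/
def pvliUsg (σ : Bool) : ℝ := if σ then 1 else -1

theorem pvli_u_mem {σ : Bool} {x0 x1 y0 y1 : ℝ} {w : ℂ} : w ∈ pvkdRect σ x0 x1 y0 y1 ↔ x0 ≤ pvliUsg σ * w.re ∧ pvliUsg σ * w.re ≤ x1 ∧ y0 ≤ w.im ∧ w.im ≤ y1 := by
  cases σ <;> simp only [pvkdRect, pvliUsg, rswRect, if_true, if_false, Bool.false_eq_true, mem_ofPred_eq]
  · constructor
    · rintro ⟨a, b, c, d⟩
      exact ⟨by linarith, by linarith, c, d⟩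
    · rintro ⟨a, b, c, d⟩
      exact ⟨by linarith, by linarith, c, d⟩
  · rw [one_mul]

theorem pvli_u_sg_abs (σ : Bool) (x : ℝ) : |pvliUsg σ * x| = |x| := by
  cases σ <;> simp [pvliUsg]

theorem pvli_u_rect_compact (σ : Bool) (x0 x1 y0 y1 : ℝ) : IsCompact (pvkdRect σ x0 x1 y0 y1) :=
  Metric.isCompact_of_isClosed_isBounded (pvjo_t_rect_closed σ x0 x1 y0 y1) (pvjo_t_krect_bdd σ x0 x1 y0 y1)

/-- a thickened rectangle lies in the larger rectangle -/
theorem pvli_u_cth {σ : Bool} {x0 x1 y0 y1 ρ : ℝ} (hρ : 0 ≤ ρ) : cthickening ρ (pvkdRect σ x0 x1 y0 y1) ⊆ pvkdRect σ (x0 - ρ) (x1 + ρ) (y0 - ρ) (y1 + ρ) := by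
  intro w hw
  rw [(pvli_u_rect_compact σ x0 x1 y0 y1).cthickening_eq_biUnion_closedBall hρ] at hw
  obtain ⟨p, hp, hwp⟩ := mem_iUnion₂.1 hw
  obtain ⟨b1, b2, b3, b4⟩ := pvjo_t_ball hwp
  obtain ⟨a1, a2, a3, a4⟩ := pvli_u_mem.1 hp
  refine pvli_u_mem.2 ⟨?_, ?_, by linarith, by linarith⟩ <;> cases σ <;> simp only [pvliUsg, if_true, if_false, Bool.false_eq_true] at a1 a2 ⊢ <;> linarith

/-- coordinates under the similarity `d s`, `d ^ 4 = 1` -/
theorem pvli_u_mul {d : ℂ} (hd : d ^ 4 = 1) {s : ℝ} (hs : 0 < s) (u : ℂ) {t : ℝ} (h1 : |(d * s * u).re| ≤ t) (h2 : |(d * s * u).im| ≤ t) : s * |u.re| ≤ t ∧ s * |u.im| ≤ t := by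
  have e : ∀ x : ℝ, s * |x| = |s * x| := fun x => by rw [abs_mul, abs_of_pos hs]
  rw [e, e]
  rcases pvt_fourth_root hd with rfl | rfl | rfl | rfl
  · simp only [one_mul, Complex.re_ofReal_mul, Complex.im_ofReal_mul] at h1 h2
    exact ⟨h1, h2⟩
  · have a1 : (Complex.I * (s : ℂ) * u).re = -(s * u.im) := by simp [Complex.mul_re, Complex.mul_im]
    have a2 : (Complex.I * (s : ℂ) * u).im = s * u.re := by simp [Complex.mul_re, Complex.mul_im]
    rw [a1, abs_neg] at h1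
    rw [a2] at h2
    exact ⟨h2, h1⟩
  · have a1 : (-1 * (s : ℂ) * u).re = -(s * u.re) := by simp [Complex.mul_re, Complex.mul_im]
    have a2 : (-1 * (s : ℂ) * u).im = -(s * u.im) := by simp [Complex.mul_re, Complex.mul_im]
    rw [a1, abs_neg] at h1
    rw [a2, abs_neg] at h2
    exact ⟨h1, h2⟩
  · have a1 : (-Complex.I * (s : ℂ) * u).re = s * u.im := by simp [Complex.mul_re, Complex.mul_im]
    have a2 : (-Complex.I * (s : ℂ) * u).im = -(s * u.re) := by simp [Complex.mul_re, Complex.mul_im]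
    rw [a1] at h1
    rw [a2, abs_neg] at h2
    exact ⟨h2, h1⟩

theorem pvli_u_d_norm {d : ℂ} (hd : d ^ 4 = 1) : ‖d‖ = 1 := by
  rcases pvt_fourth_root hd with rfl | rfl | rfl | rfl <;> simp

theorem pvli_u_norm {d : ℂ} (hd : d ^ 4 = 1) {s : ℝ} (hs : 0 < s) (u : ℂ) : ‖d * s * u‖ = s * ‖u‖ := by
  rw [norm_mul, norm_mul, pvli_u_d_norm hd, one_mul, Complex.norm_real, Real.norm_eq_abs, abs_of_pos hs]

theorem pvli_u_ne {d : ℂ} (hd : d ^ 4 = 1) {s : ℝ} (hs : 0 < s) : d * (s : ℂ) ≠ 0 := by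
  have h1 : d ≠ 0 := by
    rintro rfl
    norm_num at hd
  exact mul_ne_zero h1 (by exact_mod_cast hs.ne')

/-! ## 2. the room -/

/-- the ordinates of the lane of colour `β` -/
noncomputable def pvliUy0 (r : ℝ) (β : Bool) : ℝ := if β then r / 2 else -(3 * r / 2)
noncomputable def pvliUy1 (r : ℝ) (β : Bool) : ℝ := if β then 3 * r / 2 else -(r / 2)

/-- **THE STUB**: what the thickened room of colour `β` shows off the open door square -/
noncomputable def pvliUSt (r : ℝ) (σ β : Bool) : Set ℂ := pvkdRect σ (13 * r / 4) (5 * r + r / 16) (pvliUy0 r β - r / 16) (pvliUy1 r β + r / 16)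

/-- **THE HOOK BOX** -/
noncomputable def pvliUHB (r : ℝ) (σ β : Bool) : Set ℂ := pvkdRect σ (7 * r / 2 - r / 16) (18 * r / 5 + r / 16) (pvliUy0 r β - r / 8) (pvliUy1 r β + r / 8)

theorem pvli_u_eqns_cite : True := by
  have := @pvliUsg.eq_1; have := @pvliUy0.eq_1; have := @pvliUy1.eq_1; have := @pvliUSt.eq_1; have := @pvliUHB.eq_1
  trivial

section room

variable {r : ℝ}

theorem pvli_u_Ln (r : ℝ) (σ β : Bool) : (pvjoT r).Ln σ β = pvkdRect σ (r / 2) (3 * r) (if β then -(r / 2) else -(3 * r / 2)) (if β then 3 * r / 2 else r / 2) ∪ pvkdRect σ (2 * r) (5 * r) (pvliUy0 r β) (pvliUy1 r β) := by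
  cases β <;> rfl

theorem pvli_u_Dr (r : ℝ) (σ β : Bool) : (pvjoT r).Dr σ β = pvkdRect σ (4 * r) (5 * r) (pvliUy0 r β) (pvliUy1 r β) := by
  cases β <;> rfl

/-- **the thickened room in coordinates**: door part, lane part -/
theorem pvli_u_room (hr : 0 < r) (σ β : Bool) : cthickening (r / 16) ((pvjoT r).Ln σ β) ⊆
    pvkdRect σ (r / 2 - r / 16) (3 * r + r / 16) (-(3 * r / 2) - r / 16) (3 * r / 2 + r / 16) ∪ pvkdRect σ (2 * r - r / 16) (5 * r + r / 16) (pvliUy0 r β - r / 16) (pvliUy1 r β + r / 16) := by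
  rw [pvli_u_Ln, cthickening_union]
  refine union_subset_union ?_ (pvli_u_cth (by positivity))
  refine (pvli_u_cth (by positivity)).trans ?_
  intro w hw
  obtain ⟨a1, a2, a3, a4⟩ := pvli_u_mem.1 hw
  refine pvli_u_mem.2 ⟨a1, a2, ?_, ?_⟩ <;> cases β <;> simp only [if_true, if_false, Bool.false_eq_true] at a3 a4 <;> linarith

/-- **ROOMS**: the thickened room lies in the door square and in the stub -/
theorem pvli_u_rooms (hr : 0 < r) (σ β : Bool) {O : Set ℂ} (hO : pvkgB (-(13 * r / 4)) (13 * r / 4) (-(13 * r / 4)) (13 * r / 4) ⊆ O) :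
    cthickening (r / 16) ((pvjoT r).Ln σ β) ⊆ O ∪ pvliUSt r σ β := by
  intro w hw
  have key : ∀ x : ℝ, -(13 * r / 4) < pvliUsg σ * x → pvliUsg σ * x < 13 * r / 4 → -(13 * r / 4) < x ∧ x < 13 * r / 4 := by
    intro x h1 h2
    cases σ <;> simp only [pvliUsg, if_true, if_false, Bool.false_eq_true] at h1 h2 <;> constructor <;> linarith
  rcases pvli_u_room hr σ β hw with h | h
  · obtain ⟨a1, a2, a3, a4⟩ := pvli_u_mem.1 h
    obtain ⟨k1, k2⟩ := key w.re (by linarith) (by linarith)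
    exact Or.inl (hO ⟨k1, k2, by linarith, by linarith⟩)
  · obtain ⟨a1, a2, a3, a4⟩ := pvli_u_mem.1 h
    rcases lt_or_ge (pvliUsg σ * w.re) (13 * r / 4) with h' | h'
    · obtain ⟨k1, k2⟩ := key w.re (by linarith) h'
      refine Or.inl (hO ⟨k1, k2, ?_, ?_⟩) <;> cases β <;> simp only [pvliUy0, pvliUy1, if_true, if_false, Bool.false_eq_true] at a3 a4 <;> linarith
    · exact Or.inr (pvli_u_mem.2 ⟨h', a2, a3, a4⟩)

/-- the two stubs of one side are apart -/
theorem pvli_u_st_disj (hr : 0 < r) (σ : Bool) {p q : ℂ} (hp : p ∈ pvliUSt r σ true) (hq : q ∈ pvliUSt r σ false) : 7 * r / 8 ≤ p.im - q.im := by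
  obtain ⟨-, -, a3, -⟩ := pvli_u_mem.1 hp
  obtain ⟨-, -, -, b4⟩ := pvli_u_mem.1 hq
  simp only [pvliUy0, pvliUy1, if_true, if_false, Bool.false_eq_true] at a3 b4
  linarith

/-- the stubs are off the open door square -/
theorem pvli_u_st_off (σ β : Bool) : Disjoint (pvliUSt r σ β) (pvkgB (-(13 * r / 4)) (13 * r / 4) (-(13 * r / 4)) (13 * r / 4)) := by
  rw [Set.disjoint_left]
  rintro w hw ⟨b1, b2, -, -⟩
  obtain ⟨a1, -, -, -⟩ := pvli_u_mem.1 hw
  cases σ <;> simp only [pvliUsg, if_true, if_false, Bool.false_eq_true] at a1 <;> linarith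

end room

/-! ## 3. the hook zone -/

section zone

variable {r s δ : ℝ} {d z : ℂ}

/-- **THE HOOK ZONE OF A KIT END** (side `σ`, colour `β`), scale free, direction free, no alignment -/
theorem pvli_u_zone (hr : 0 < r) (hs : 0 < s) (hd : d ^ 4 = 1) (hδ : 0 < δ) (h32 : 32 * δ ≤ r * s) (σ β : Bool) (z : ℂ) {W : Set (ℤ × ℤ)}
    (hW : ∀ k, pvlnC δ k ⊆ pvkdAt z (d * s) (pvliUHB r σ β) → k ∈ W) :
    PvfpZone δ W (pvkdAt z (d * s) (cthickening (r / 16) ((pvjoT r).Ln σ β))) (pvkdAt z (d * s) (ball 0 (2 * r) ∩ (pvjoT r).Ln σ β)) (pvkdAt z (d * s) ((pvjoT r).Dr σ β)) := by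
  have ha := pvli_u_ne hd hs
  have hcont : Continuous (pvthInv z (d * s)) := by
    unfold pvthInv
    fun_prop
  have hre : Continuous fun w : ℂ => pvliUsg σ * w.re := continuous_const.mul Complex.continuous_re
  refine pvnd_zone hδ (F₁ := pvthInv z (d * s) ⁻¹' {w | pvliUsg σ * w.re ≤ 7 * r / 2}) (F₂ := pvthInv z (d * s) ⁻¹' {w | 18 * r / 5 ≤ pvliUsg σ * w.re})
    (Z := pvkdAt z (d * s) (pvkdRect σ (7 * r / 2) (18 * r / 5) (pvliUy0 r β - r / 16) (pvliUy1 r β + r / 16))) ?_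
    ((isClosed_le hre continuous_const).preimage hcont) ((isClosed_le continuous_const hre).preimage hcont) ?_ ?_ ?_ ?_ ?_
  · rintro _ ⟨w, hw, rfl⟩
    rcases le_or_gt (pvliUsg σ * w.re) (7 * r / 2) with h1 | h1
    · refine Or.inl (Or.inl ?_)
      show pvliUsg σ * (pvthInv z (d * s) (pvthSim z (d * s) w)).re ≤ 7 * r / 2
      rw [pvjo_inv_sim ha]
      exact h1
    rcases le_or_gt (18 * r / 5) (pvliUsg σ * w.re) with h2 | h2
    · refine Or.inr ?_
      show 18 * r / 5 ≤ pvliUsg σ * (pvthInv z (d * s) (pvthSim z (d * s) w)).re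
      rw [pvjo_inv_sim ha]
      exact h2
    · refine Or.inl (Or.inr ⟨w, ?_, rfl⟩)
      rcases pvli_u_room hr σ β hw with h | h
      · obtain ⟨-, a2, -, -⟩ := pvli_u_mem.1 h
        linarith
      · obtain ⟨-, -, a3, a4⟩ := pvli_u_mem.1 h
        exact pvli_u_mem.2 ⟨h1.le, h2.le, a3, a4⟩
  · rw [Set.disjoint_left]
    intro p h1 h2
    have h1' : pvliUsg σ * (pvthInv z (d * s) p).re ≤ 7 * r / 2 := h1
    have h2' : 18 * r / 5 ≤ pvliUsg σ * (pvthInv z (d * s) p).re := h2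
    linarith
  · rintro _ ⟨w, ⟨hw, -⟩, rfl⟩
    show pvliUsg σ * (pvthInv z (d * s) (pvthSim z (d * s) w)).re ≤ 7 * r / 2
    rw [pvjo_inv_sim ha]
    have h1 := (le_abs_self (pvliUsg σ * w.re)).trans (le_of_eq (pvli_u_sg_abs σ w.re))
    have h2 := Complex.abs_re_le_norm w
    rw [mem_ball_zero_iff] at hw
    linarith
  · rintro _ ⟨w, hw, rfl⟩
    show 18 * r / 5 ≤ pvliUsg σ * (pvthInv z (d * s) (pvthSim z (d * s) w)).re
    rw [pvjo_inv_sim ha]
    rw [pvli_u_Dr] at hw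
    obtain ⟨a1, -, -, -⟩ := pvli_u_mem.1 hw
    linarith
  · rintro k ⟨_, hpk, ⟨w, hw, rfl⟩⟩ k' hk'
    refine hW k' ?_
    intro q hq
    refine ⟨pvthInv z (d * s) q, ?_, pvjo_sim_inv ha q⟩
    set w' := pvthInv z (d * s) q with hw'
    have hq' : pvthSim z (d * s) w' = q := pvjo_sim_inv ha q
    have hdiff : d * s * (w' - w) = q - pvthSim z (d * s) w := by
      rw [← hq']
      unfold pvthSim
      ring
    obtain ⟨p1, p2, p3, p4⟩ := hpk
    obtain ⟨q1, q2, q3, q4⟩ := hq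
    obtain ⟨c1, c2⟩ := hk'
    rw [abs_le] at c1 c2
    have i1 : ((k'.1 : ℝ)) ≤ (k.1 : ℝ) + 1 := by exact_mod_cast (by omega : k'.1 ≤ k.1 + 1)
    have i2 : ((k.1 : ℝ)) - 1 ≤ (k'.1 : ℝ) := by
      have : k.1 - 1 ≤ k'.1 := by omega
      exact_mod_cast this
    have i3 : ((k'.2 : ℝ)) ≤ (k.2 : ℝ) + 1 := by exact_mod_cast (by omega : k'.2 ≤ k.2 + 1)
    have i4 : ((k.2 : ℝ)) - 1 ≤ (k'.2 : ℝ) := by
      have : k.2 - 1 ≤ k'.2 := by omega
      exact_mod_cast this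
    have b1 : |(d * s * (w' - w)).re| ≤ 2 * δ := by
      rw [hdiff, Complex.sub_re, abs_le]
      constructor <;> nlinarith
    have b2 : |(d * s * (w' - w)).im| ≤ 2 * δ := by
      rw [hdiff, Complex.sub_im, abs_le]
      constructor <;> nlinarith
    obtain ⟨g1, g2⟩ := pvli_u_mul hd hs (w' - w) b1 b2
    have g1' : |(w' - w).re| ≤ r / 16 := by
      by_contra hc
      push Not at hc
      nlinarith
    have g2' : |(w' - w).im| ≤ r / 16 := by
      by_contra hc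
      push Not at hc
      nlinarith
    rw [Complex.sub_re, abs_le] at g1'
    rw [Complex.sub_im, abs_le] at g2'
    obtain ⟨a1, a2, a3, a4⟩ := pvli_u_mem.1 hw
    refine pvli_u_mem.2 ⟨?_, ?_, by linarith [g2'.1], by linarith [g2'.2]⟩ <;> cases σ <;> simp only [pvliUsg, if_true, if_false, Bool.false_eq_true] at a1 a2 ⊢ <;> linarith [g1'.1, g1'.2]
  · rintro _ ⟨w, hw, rfl⟩ _ ⟨y, hy, rfl⟩
    refine pvnd_far_of_norm ?_
    have e : pvthSim z (d * s) y - pvthSim z (d * s) w = d * s * (y - w) := by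
      unfold pvthSim
      ring
    rw [e, pvli_u_norm hd hs]
    rw [pvli_u_Dr] at hy
    obtain ⟨-, a2, -, -⟩ := pvli_u_mem.1 hw
    obtain ⟨b1, -, -, -⟩ := pvli_u_mem.1 hy
    have h1 : 2 * r / 5 ≤ |(y - w).re| := by
      rw [← pvli_u_sg_abs σ, Complex.sub_re, mul_sub]
      exact le_trans (by linarith) (le_abs_self _)
    have h2 := Complex.abs_re_le_norm (y - w)
    nlinarith

end zone

/-! ## 4. at the end of record -/

section record

variable {r s δ : ℝ} {d : ℂ}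

/-- membership in a placed rectangle, in the coordinates of the frame of the plug -/
theorem pvli_u_at_mem (hd : d ^ 4 = 1) (hs : 0 < s) {z p : ℂ} {σ : Bool} {x0 x1 y0 y1 : ℝ} :
    p ∈ pvkdAt z (d * s) (pvkdRect σ x0 x1 y0 y1) ↔ x0 ≤ pvliUsg σ * (pvthInv z (d * s) p).re ∧ pvliUsg σ * (pvthInv z (d * s) p).re ≤ x1 ∧ y0 ≤ (pvthInv z (d * s) p).im ∧ (pvthInv z (d * s) p).im ≤ y1 := by
  rw [← pvhf_at_eq z (pvli_u_ne hd hs)]
  exact pvli_u_mem

/-- two points which are close in the sup norm are close in the frame of the plug -/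
theorem pvli_u_close (hd : d ^ 4 = 1) (hs : 0 < s) (z : ℂ) {p q : ℂ} {t : ℝ} (h1 : |q.re - p.re| ≤ t) (h2 : |q.im - p.im| ≤ t) :
    s * |(pvthInv z (d * s) q).re - (pvthInv z (d * s) p).re| ≤ t ∧ s * |(pvthInv z (d * s) q).im - (pvthInv z (d * s) p).im| ≤ t := by
  have ha := pvli_u_ne hd hs
  have e : d * s * (pvthInv z (d * s) q - pvthInv z (d * s) p) = q - p := by
    have e1 := pvjo_sim_inv (z := z) ha q
    have e2 := pvjo_sim_inv (z := z) ha p
    unfold pvthSim at e1 e2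
    linear_combination e1 - e2
  have := pvli_u_mul hd hs (pvthInv z (d * s) q - pvthInv z (d * s) p) (t := t) (by rw [e, Complex.sub_re]; exact h1) (by rw [e, Complex.sub_im]; exact h2)
  rwa [Complex.sub_re, Complex.sub_im] at this

/-- **the window of a link cell which lies in a placed rectangle lies in the rectangle enlarged by `t`, `δ / 8 ≤ t s`** -/
theorem pvli_u_win (hd : d ^ 4 = 1) (hs : 0 < s) (hδ : 0 < δ) {z : ℂ} {σ : Bool} {x0 x1 y0 y1 t : ℝ} (ht : δ / 8 ≤ t * s) {k : ℤ × ℤ}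
    (hk : pvlnC δ k ⊆ pvkdAt z (d * s) (pvkdRect σ x0 x1 y0 y1)) : pvmSq (pvlnCtr δ k) (δ / 2 + 2 * (δ / 2 / 8)) ⊆ pvkdAt z (d * s) (pvkdRect σ (x0 - t) (x1 + t) (y0 - t) (y1 + t)) := by
  rintro q ⟨q1, q2⟩
  simp only [pvlnCtr] at q1 q2
  rw [abs_le] at q1 q2
  -- the nearest point of the cell
  set p : ℂ := ⟨max ((k.1 : ℝ) * δ) (min q.re (((k.1 : ℝ) + 1) * δ)), max ((k.2 : ℝ) * δ) (min q.im (((k.2 : ℝ) + 1) * δ))⟩ with hp
  have l1 : (k.1 : ℝ) * δ ≤ ((k.1 : ℝ) + 1) * δ := by nlinarith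
  have l2 : (k.2 : ℝ) * δ ≤ ((k.2 : ℝ) + 1) * δ := by nlinarith
  have hpc : p ∈ pvlnC δ k := ⟨le_max_left _ _, max_le l1 (min_le_right _ _), le_max_left _ _, max_le l2 (min_le_right _ _)⟩
  have c1 : |q.re - p.re| ≤ δ / 8 := by
    show |q.re - max ((k.1 : ℝ) * δ) (min q.re (((k.1 : ℝ) + 1) * δ))| ≤ δ / 8
    rw [abs_le]
    rcases le_total q.re (((k.1 : ℝ) + 1) * δ) with h | h
    · rw [min_eq_left h]
      rcases le_total ((k.1 : ℝ) * δ) q.re with h' | h'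
      · rw [max_eq_right h']; constructor <;> linarith
      · rw [max_eq_left h']; constructor <;> linarith
    · rw [min_eq_right h, max_eq_right l1]; constructor <;> linarith
  have c2 : |q.im - p.im| ≤ δ / 8 := by
    show |q.im - max ((k.2 : ℝ) * δ) (min q.im (((k.2 : ℝ) + 1) * δ))| ≤ δ / 8
    rw [abs_le]
    rcases le_total q.im (((k.2 : ℝ) + 1) * δ) with h | h
    · rw [min_eq_left h]
      rcases le_total ((k.2 : ℝ) * δ) q.im with h' | h'
      · rw [max_eq_right h']; constructor <;> linarith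
      · rw [max_eq_left h']; constructor <;> linarith
    · rw [min_eq_right h, max_eq_right l2]; constructor <;> linarith
  obtain ⟨g1, g2⟩ := pvli_u_close hd hs z c1 c2
  have g1' : |(pvthInv z (d * s) q).re - (pvthInv z (d * s) p).re| ≤ t := by
    by_contra hc
    push Not at hc
    nlinarith
  have g2' : |(pvthInv z (d * s) q).im - (pvthInv z (d * s) p).im| ≤ t := by
    by_contra hc
    push Not at hc
    nlinarith
  rw [abs_le] at g1' g2'
  obtain ⟨a1, a2, a3, a4⟩ := (pvli_u_at_mem hd hs).1 (hk hpc)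
  refine (pvli_u_at_mem hd hs).2 ⟨?_, ?_, by linarith [g2'.1], by linarith [g2'.2]⟩ <;> cases σ <;> simp only [pvliUsg, if_true, if_false, Bool.false_eq_true] at a1 a2 ⊢ <;> linarith [g1'.1, g1'.2]

/-- **OFF THE DOOR SQUARE**: the window of a link cell of the side `σ` beyond the abscissa `27 r / 8` misses the placed open door square -/
theorem pvli_u_cell_off (hr : 0 < r) (hd : d ^ 4 = 1) (hs : 0 < s) (hδ : 0 < δ) (h32 : 32 * δ ≤ r * s) {z : ℂ} {σ : Bool} {x1 y0 y1 : ℝ} {k : ℤ × ℤ}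
    (hk : pvlnC δ k ⊆ pvkdAt z (d * s) (pvkdRect σ (27 * r / 8) x1 y0 y1)) :
    Disjoint (pvmSq (pvlnCtr δ k) (δ / 2 + 2 * (δ / 2 / 8))) (pvkdAt z (d * s) (pvkgB (-(13 * r / 4)) (13 * r / 4) (-(13 * r / 4)) (13 * r / 4))) := by
  rw [Set.disjoint_left]
  rintro q hq ⟨w, ⟨b1, b2, -, -⟩, rfl⟩
  obtain ⟨a1, -, -, -⟩ := (pvli_u_at_mem hd hs).1 (pvli_u_win hd hs hδ (t := r / 16) (by nlinarith) hk hq)
  rw [pvjo_inv_sim (pvli_u_ne hd hs)] at a1
  cases σ <;> simp only [pvliUsg, if_true, if_false, Bool.false_eq_true] at a1 <;> linarith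

variable (hr : 0 < r) (hs : 0 < s) (hd : d ^ 4 = 1) (hδ : 0 < δ) (h32 : 32 * δ ≤ r * s) (σ c : Bool) (O : Set ℂ) (z : ℂ)

include hr hs hd hδ h32 in
/-- **field `z₁` / `z₁'` of `PvnkLink.Geo` at a kit end** -/
theorem pvli_u_z₁ {W : Set (ℤ × ℤ)} (hW : ∀ k, pvlnC δ k ⊆ pvkdAt z (d * s) (pvliUHB r σ true) → k ∈ W) :
    PvfpZone δ W (pvyeEnd (pvyeE0 (pvkdP r) (pvjoT r) O σ) c z (d * s)).A₁ (pvyeEnd (pvyeE0 (pvkdP r) (pvjoT r) O σ) c z (d * s)).X₁ (pvyeEnd (pvyeE0 (pvkdP r) (pvjoT r) O σ) c z (d * s)).Y₁ :=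
  pvli_u_zone hr hs hd hδ h32 σ true z hW

include hr hs hd hδ h32 in
/-- **field `z₂` / `z₂'` of `PvnkLink.Geo` at a kit end** -/
theorem pvli_u_z₂ {W : Set (ℤ × ℤ)} (hW : ∀ k, pvlnC δ k ⊆ pvkdAt z (d * s) (pvliUHB r σ false) → k ∈ W) :
    PvfpZone δ W (pvyeEnd (pvyeE0 (pvkdP r) (pvjoT r) O σ) c z (d * s)).A₂ (pvyeEnd (pvyeE0 (pvkdP r) (pvjoT r) O σ) c z (d * s)).X₂ (pvyeEnd (pvyeE0 (pvkdP r) (pvjoT r) O σ) c z (d * s)).Y₂ :=
  pvli_u_zone hr hs hd hδ h32 σ false z hW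

include hr in
/-- **field `a₁` / `a₁'` of `Rooms` at a kit end**: put the placed black stub in `K₁` -/
theorem pvli_u_a₁ (a : ℂ) (hO : pvkgB (-(13 * r / 4)) (13 * r / 4) (-(13 * r / 4)) (13 * r / 4) ⊆ O) :
    (pvyeEnd (pvyeE0 (pvkdP r) (pvjoT r) O σ) c z a).A₁ ⊆ (pvyeEnd (pvyeE0 (pvkdP r) (pvjoT r) O σ) c z a).O ∪ pvkdAt z a (pvliUSt r σ true) := by
  show pvkdAt z a (cthickening (r / 16) ((pvjoT r).Ln σ true)) ⊆ pvkdAt z a O ∪ pvkdAt z a (pvliUSt r σ true)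
  unfold pvkdAt
  rw [← image_union]
  exact image_mono (pvli_u_rooms hr σ true hO)

include hr in
/-- **field `a₂` / `a₂'` of `Rooms` at a kit end**: put the placed white stub in `K₂` -/
theorem pvli_u_a₂ (a : ℂ) (hO : pvkgB (-(13 * r / 4)) (13 * r / 4) (-(13 * r / 4)) (13 * r / 4) ⊆ O) :
    (pvyeEnd (pvyeE0 (pvkdP r) (pvjoT r) O σ) c z a).A₂ ⊆ (pvyeEnd (pvyeE0 (pvkdP r) (pvjoT r) O σ) c z a).O ∪ pvkdAt z a (pvliUSt r σ false) := by
  show pvkdAt z a (cthickening (r / 16) ((pvjoT r).Ln σ false)) ⊆ pvkdAt z a O ∪ pvkdAt z a (pvliUSt r σ false)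
  unfold pvkdAt
  rw [← image_union]
  exact image_mono (pvli_u_rooms hr σ false hO)

/-- the window of the side event -/
theorem pvli_u_E (a : ℂ) : (pvyeEnd (pvyeE0 (pvkdP r) (pvjoT r) O σ) c z a).E = pvkdAt z a (pvwSq 0 (13 * r / 4) ∪ pvkdRect σ 0 (11 * r / 2) (-(5 * r / 2)) (5 * r / 2)) := rfl

/-- the door square of record (`r = 1/40`) -/
theorem pvli_u_O40 : pvkgB (-(13 * (1 / 40 : ℝ) / 4)) (13 * (1 / 40 : ℝ) / 4) (-(13 * (1 / 40 : ℝ) / 4)) (13 * (1 / 40 : ℝ) / 4) ⊆ pvkgO := by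
  unfold pvkgO
  rintro w ⟨a, b, c, d⟩
  exact ⟨by linarith, by linarith, by linarith, by linarith⟩

include hd hs in
/-- the two placed stubs of one side are disjoint -/
theorem pvli_u_st_at_disj (hr : 0 < r) : Disjoint (pvkdAt z (d * s) (pvliUSt r σ true)) (pvkdAt z (d * s) (pvliUSt r σ false)) := by
  rw [Set.disjoint_left]
  rintro _ ⟨p, hp, rfl⟩ ⟨q, hq, e⟩
  have : q = p := by
    have h := congrArg (pvthInv z (d * s)) e
    rwa [pvjo_inv_sim (pvli_u_ne hd hs), pvjo_inv_sim (pvli_u_ne hd hs)] at h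
  subst this
  have := pvli_u_st_disj hr σ hp hq
  linarith

end record

end Claimed.Agent.R289
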