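-- KEEP
import Claimed.Agent.R289.Tr.LinkGeoU
import Claimed.Agent.R289.Tr.SideOpen
import Claimed.Agent.R289.Tr.LinkGeoT

/-!
# Row 289 (S0537, Cardy for Poisson-Voronoi), THE WALL, ROAD P, file Tr/LinkGeoV : THE `u`-END IN FINE UNITS, AT THE OPEN WINDOWS `pvk2T` (P18 of 273)      (helper15, H2 of P16; prefix `pvli_v_`, `pvliV`)

THE END.   `pvliVE δ u σ c := pvyeEnd (pvyeE0 pvkgG.toPvkdPlug pvk2T pvkgG.O₀ σ) c (pvmgPt δ u) (1600 δ)` : the reference plug of colour `c`, side `σ` (`true` = exit = EAST), centred at the CORNER `u` of the fine grid of mesh `δ`,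
at the scale `su = 1600 δ` (`δ = dl h / 40`, `su = 40 dl h`; the unit `r = 1/40` of the kit = 40 fine cells = ONE menu cell).      `pvli_v_eq`, **`pvli_v_end`** : the end of record of `Exit/GeoP` (`pveq_eu`), resp. the end `eU` of `Exit/DatP` (state region overridden), IS this end as soon as `w = pvmgPt δ u`, `su = 1600 δ`.
ALL THE FIELDS OF `PvlktPoly` (164, `Tr/LinkDict.lean`) AT THE `u`-END, IN BOXES OF FINE CELLS `pvlktBx u a b c d`: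
* `pvli_v_O` (`O` = open square `130 δ`), **`pvli_v_O_off`** (`E` misses `[-130,129]²` ⟹ `pvtU δ E` misses `O`), `pvli_v_O_sub`, **`pvli_v_E_sub`** (`E ⊆ O ∪ pvtU [130,219] × [-100,99]`, mirror `[-220,-131]`), `pvli_v_OE_sub`
* **`pvli_v_z`** (zone of colour `β`: hook box `[138,145] × [15,64]`, white `[-65,-16]`; mirror `[-146,-139]`)
* **`pvli_v_a`** (room of colour `β` `⊆ O ∪ pvtU [130,202] × [17,62]`, white `[-63,-18]`; mirror `[-203,-131]`)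
**`pvli_v_U : PvlktU (pvliVE δ u σ c) δ u σ`**, **`pvli_v_U'`** (the same at the end `eU` of `Exit/DatP`) = THE RECORD OF 164 (`Tr/LinkGeoT.lean`) AT THE END OF RECORD.
THE `u`-END SHARE OF H5 (sec. 6): **`pvli_v_h`** (cells of the `15/2 δ`-collar of the rooms `⊆ [9,210] × [-71,70]`), **`pvli_v_deep`** (13-collar of a cell of `[-116,205] × [-86,85]` `⊆ E`), **`pvli_v_V`** (far room of the gate `⊆` cells `[20,79] × [-20,19]` of the OTHER side), **`pvli_v_d`** (rooms `⊆ pvtrCore t E`, `t ≤ 17 δ`), `pvli_v_E_of`, `pvli_v_A_rect`.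
AT THE LAYOUTS OF 164 (`Tr/LinkLay.lean`): `pvli_v_e_z₁ _e_z₂ _e_a₁ _e_a₂` (link `e`, exit end of `u`), `pvli_v_b_z₁ _b_z₂ _b_a₁ _b_a₂` (link `b`, entrance end of `u`).
-/

set_option autoImplicit false
set_option linter.unusedSectionVars false
set_option linter.unusedVariables false

namespace Claimed.Agent.R289

open Set Metric Filter Topology Claims.C0467 Claims.C0465 Claimed.Agent.R291

/-- **the end of side `σ` of the reference plug in fine units** -/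
noncomputable def pvliVE (δ : ℝ) (u : ℤ × ℤ) (σ c : Bool) : PvnkEnd :=
  pvyeEnd (pvyeE0 pvkgG.toPvkdPlug pvk2T pvkgG.O₀ σ) c (pvmgPt δ u) ((1600 * δ : ℝ) : ℂ)

/-- the box of fine cells on the side `σ` of `u` : abscissae `[a, b]` (East), `[-b-1, -a-1]` (West) -/
def pvliVB (u : ℤ × ℤ) (σ : Bool) (a b c d : ℤ) : Set (ℤ × ℤ) := if σ then pvlktBx u a b c d else pvlktBx u (-b - 1) (-a - 1) c d

theorem pvli_v_eqns_cite : True := by
  have := @pvliVE.eq_1; have := @pvliVB.eq_1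
  trivial

theorem pvli_v_eq {δ s : ℝ} {u : ℤ × ℤ} {w : ℂ} (hw : w = pvmgPt δ u) (hs : s = 1600 * δ) (σ c : Bool) :
    pvyeEnd (pvyeE0 pvkgG.toPvkdPlug pvk2T pvkgG.O₀ σ) c w (s : ℂ) = pvliVE δ u σ c := by
  subst hw hs
  rfl

/-- **the end `eU` of `Exit/DatP`** (state region overridden by `pvthSim w 1 '' Ou`, `Ou = pvthSim 0 su '' O₀`) **IS the end in fine units** -/
theorem pvli_v_end {δ s : ℝ} {u : ℤ × ℤ} {w : ℂ} (hw : w = pvmgPt δ u) (hs : s = 1600 * δ) (σ c : Bool) :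
    pvydEnd (pvyeEnd (pvyeE0 pvkgG.toPvkdPlug pvk2T pvkgG.O₀ σ) c w (s : ℂ)) (pvthSim w 1 '' (pvthSim 0 (s : ℂ) '' pvkgG.O₀)) = pvliVE δ u σ c := by
  rw [pvli_v_eq hw hs]
  have e : pvthSim w 1 '' (pvthSim 0 (s : ℂ) '' pvkgG.O₀) = (pvliVE δ u σ c).O := by
    subst hw hs
    rw [image_image]
    show _ = pvthSim (pvmgPt δ u) ((1600 * δ : ℝ) : ℂ) '' pvkgG.O₀
    refine image_congr fun x _ => ?_
    simp [pvthSim]
  rw [e]
  rfl

section coord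

variable {δ : ℝ} {u : ℤ × ℤ}

theorem pvli_v_re (δ : ℝ) (u : ℤ × ℤ) (w : ℂ) : (pvthSim (pvmgPt δ u) ((1600 * δ : ℝ) : ℂ) w).re = ((u.1 : ℝ) + 1600 * w.re) * δ := by
  simp only [pvthSim, pvmgPt, Complex.add_re, Complex.re_ofReal_mul]
  ring

theorem pvli_v_im (δ : ℝ) (u : ℤ × ℤ) (w : ℂ) : (pvthSim (pvmgPt δ u) ((1600 * δ : ℝ) : ℂ) w).im = ((u.2 : ℝ) + 1600 * w.im) * δ := by
  simp only [pvthSim, pvmgPt, Complex.add_im, Complex.im_ofReal_mul]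
  ring

/-- one coordinate: a real number between two integers lies in a unit interval with integer end points in the range -/
theorem pvli_v_floor {a b : ℤ} (hab : a ≤ b) {x : ℝ} (h1 : (a : ℝ) ≤ x) (h2 : x ≤ (b : ℝ) + 1) : ∃ k : ℤ, a ≤ k ∧ k ≤ b ∧ (k : ℝ) ≤ x ∧ x ≤ (k : ℝ) + 1 := by
  rcases lt_or_ge x ((b : ℝ) + 1) with h | h
  · refine ⟨⌊x⌋, Int.le_floor.2 h1, ?_, Int.floor_le x, (Int.lt_floor_add_one x).le⟩
    have : ⌊x⌋ < b + 1 := Int.floor_lt.2 (by push_cast; exact h)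
    omega
  · exact ⟨b, hab, le_rfl, by linarith, h2⟩

/-- **a closed rectangle with integer corners is the union of its cells** -/
theorem pvli_v_cover (hδ : 0 < δ) {a b c d : ℤ} (hab : a ≤ b) (hcd : c ≤ d) {p : ℂ} (h1 : (a : ℝ) * δ ≤ p.re) (h2 : p.re ≤ ((b : ℝ) + 1) * δ)
    (h3 : (c : ℝ) * δ ≤ p.im) (h4 : p.im ≤ ((d : ℝ) + 1) * δ) : p ∈ pvtU δ (tscBox a b c d) := by
  obtain ⟨k, k1, k2, k3, k4⟩ := pvli_v_floor hab (x := p.re / δ) (by rw [le_div_iff₀ hδ]; exact h1) (by rw [div_le_iff₀ hδ]; exact h2)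
  obtain ⟨l, l1, l2, l3, l4⟩ := pvli_v_floor hcd (x := p.im / δ) (by rw [le_div_iff₀ hδ]; exact h3) (by rw [div_le_iff₀ hδ]; exact h4)
  rw [le_div_iff₀ hδ] at k3 l3
  rw [div_le_iff₀ hδ] at k4 l4
  exact mem_iUnion₂.2 ⟨(k, l), ⟨k1, k2, l1, l2⟩, k3, k4, l3, l4⟩

/-- the same, relative to `u`, in the frame of the plug, on the side `σ` -/
theorem pvli_v_cov (hδ : 0 < δ) (u : ℤ × ℤ) (σ : Bool) {a b c d : ℤ} (hab : a ≤ b) (hcd : c ≤ d) {w : ℂ} (h1 : (a : ℝ) ≤ 1600 * (pvliUsg σ * w.re)) (h2 : 1600 * (pvliUsg σ * w.re) ≤ (b : ℝ) + 1)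
    (h3 : (c : ℝ) ≤ 1600 * w.im) (h4 : 1600 * w.im ≤ (d : ℝ) + 1) : pvthSim (pvmgPt δ u) ((1600 * δ : ℝ) : ℂ) w ∈ pvtU δ (pvliVB u σ a b c d) := by
  cases σ <;> simp only [pvliUsg, pvliVB, pvlktBx, if_true, if_false, Bool.false_eq_true] at h1 h2 ⊢
  · refine pvli_v_cover hδ (by omega) (by omega) ?_ ?_ ?_ ?_
    · rw [pvli_v_re]; push_cast; nlinarith
    · rw [pvli_v_re]; push_cast; nlinarith
    · rw [pvli_v_im]; push_cast; nlinarith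
    · rw [pvli_v_im]; push_cast; nlinarith
  · refine pvli_v_cover hδ (by omega) (by omega) ?_ ?_ ?_ ?_
    · rw [pvli_v_re]; push_cast; nlinarith
    · rw [pvli_v_re]; push_cast; nlinarith
    · rw [pvli_v_im]; push_cast; nlinarith
    · rw [pvli_v_im]; push_cast; nlinarith

theorem pvli_v_ne (hδ : 0 < δ) : ((1600 * δ : ℝ) : ℂ) ≠ 0 := by
  exact_mod_cast (by positivity : (1600 * δ : ℝ) ≠ 0)

theorem pvli_v_inv_re (hδ : 0 < δ) (u : ℤ × ℤ) (p : ℂ) : 1600 * (pvthInv (pvmgPt δ u) ((1600 * δ : ℝ) : ℂ) p).re = p.re / δ - u.1 := by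
  have h := pvli_v_re δ u (pvthInv (pvmgPt δ u) ((1600 * δ : ℝ) : ℂ) p)
  rw [pvjo_sim_inv (pvli_v_ne hδ)] at h
  rw [h]
  field_simp
  ring

theorem pvli_v_inv_im (hδ : 0 < δ) (u : ℤ × ℤ) (p : ℂ) : 1600 * (pvthInv (pvmgPt δ u) ((1600 * δ : ℝ) : ℂ) p).im = p.im / δ - u.2 := by
  have h := pvli_v_im δ u (pvthInv (pvmgPt δ u) ((1600 * δ : ℝ) : ℂ) p)
  rw [pvjo_sim_inv (pvli_v_ne hδ)] at h
  rw [h]
  field_simp
  ring

end coord

/-! ## 2. the state region and the window -/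

section region

variable {δ : ℝ} (hδ : 0 < δ) (u : ℤ × ℤ) (σ c : Bool)

theorem pvli_v_O_eq (δ : ℝ) : (pvliVE δ u σ c).O = pvkdAt (pvmgPt δ u) ((1600 * δ : ℝ) : ℂ) pvkgO := rfl

theorem pvli_v_E_eq (δ : ℝ) : (pvliVE δ u σ c).E = pvkdAt (pvmgPt δ u) ((1600 * δ : ℝ) : ℂ) (pvk2Es σ) := rfl

include hδ in
/-- **the state region is the open square of half side `130 δ`** -/
theorem pvli_v_O {p : ℂ} : p ∈ (pvliVE δ u σ c).O ↔ ((u.1 : ℝ) - 130) * δ < p.re ∧ p.re < ((u.1 : ℝ) + 130) * δ ∧ ((u.2 : ℝ) - 130) * δ < p.im ∧ p.im < ((u.2 : ℝ) + 130) * δ := by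
  rw [pvli_v_O_eq, ← pvhf_at_eq _ (pvli_v_ne hδ)]
  show pvthInv _ _ p ∈ pvkgB _ _ _ _ ↔ _
  have e1 := pvli_v_inv_re hδ u p
  have e2 := pvli_v_inv_im hδ u p
  have f1 : p.re = p.re / δ * δ := by field_simp
  have f2 : p.im = p.im / δ * δ := by field_simp
  constructor
  · rintro ⟨a1, a2, a3, a4⟩
    refine ⟨?_, ?_, ?_, ?_⟩
    · rw [f1]; exact mul_lt_mul_of_pos_right (by linarith) hδ
    · rw [f1]; exact mul_lt_mul_of_pos_right (by linarith) hδ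
    · rw [f2]; exact mul_lt_mul_of_pos_right (by linarith) hδ
    · rw [f2]; exact mul_lt_mul_of_pos_right (by linarith) hδ
  · rintro ⟨a1, a2, a3, a4⟩
    rw [f1] at a1 a2
    rw [f2] at a3 a4
    have b1 := lt_of_mul_lt_mul_right a1 hδ.le
    have b2 := lt_of_mul_lt_mul_right a2 hδ.le
    have b3 := lt_of_mul_lt_mul_right a3 hδ.le
    have b4 := lt_of_mul_lt_mul_right a4 hδ.le
    exact ⟨by linarith, by linarith, by linarith, by linarith⟩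

include hδ in
/-- **OFF**: cells off the box `[-130,129]²` round `u` miss the state region -/
theorem pvli_v_O_off {E : Set (ℤ × ℤ)} (hE : Disjoint E (pvlktBx u (-130) 129 (-130) 129)) : Disjoint (pvtU δ E) (pvliVE δ u σ c).O := by
  rw [Set.disjoint_left]
  intro p hp hO
  obtain ⟨k, hk, k1, k2, k3, k4⟩ := mem_iUnion₂.1 hp
  obtain ⟨a1, a2, a3, a4⟩ := (pvli_v_O hδ u σ c).1 hO
  refine Set.disjoint_left.1 hE hk ⟨?_, ?_, ?_, ?_⟩
  · have : ((u.1 : ℝ) - 130) < (k.1 : ℝ) + 1 := lt_of_mul_lt_mul_right (a1.trans_le k2) hδ.le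
    have : u.1 - 130 < k.1 + 1 := by exact_mod_cast this
    omega
  · have : (k.1 : ℝ) < (u.1 : ℝ) + 130 := lt_of_mul_lt_mul_right (k1.trans_lt a2) hδ.le
    have : k.1 < u.1 + 130 := by exact_mod_cast this
    omega
  · have : ((u.2 : ℝ) - 130) < (k.2 : ℝ) + 1 := lt_of_mul_lt_mul_right (a3.trans_le k4) hδ.le
    have : u.2 - 130 < k.2 + 1 := by exact_mod_cast this
    omega
  · have : (k.2 : ℝ) < (u.2 : ℝ) + 130 := lt_of_mul_lt_mul_right (k3.trans_lt a4) hδ.le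
    have : k.2 < u.2 + 130 := by exact_mod_cast this
    omega

include hδ in
theorem pvli_v_O_sub : (pvliVE δ u σ c).O ⊆ pvtU δ (pvlktBx u (-130) 129 (-130) 129) := by
  intro p hp
  obtain ⟨a1, a2, a3, a4⟩ := (pvli_v_O hδ u σ c).1 hp
  refine pvli_v_cover hδ (by omega) (by omega) ?_ ?_ ?_ ?_ <;> push_cast <;> nlinarith

include hδ in
/-- **THE WINDOW OF THE SIDE EVENT**: off the state region it lies in the box `[130,219] × [-100,99]` of the side `σ` -/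
theorem pvli_v_E_sub : (pvliVE δ u σ c).E ⊆ (pvliVE δ u σ c).O ∪ pvtU δ (pvliVB u σ 130 219 (-100) 99) := by
  rw [pvli_v_E_eq]
  rintro _ ⟨w, hw, rfl⟩
  rcases pvk2_Es_sub σ hw with h | ⟨h1, h2, h3⟩
  · exact Or.inl ⟨w, h, rfl⟩
  · refine Or.inr (pvli_v_cov hδ u σ (by norm_num) (by norm_num) ?_ ?_ ?_ ?_)
    · cases σ <;> simp only [pvliUsg, if_true, if_false, Bool.false_eq_true] at h1 ⊢ <;> push_cast <;> linarith [h1.1, h1.2]
    · cases σ <;> simp only [pvliUsg, if_true, if_false, Bool.false_eq_true] at h1 ⊢ <;> push_cast <;> linarith [h1.1, h1.2]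
    · push_cast; linarith
    · push_cast; linarith

include hδ in
/-- the plug with its window, in cells -/
theorem pvli_v_OE_sub : (pvliVE δ u σ c).O ∪ (pvliVE δ u σ c).E ⊆ pvtU δ (pvlktBx u (-130) 129 (-130) 129 ∪ pvliVB u σ 130 219 (-100) 99) := by
  have h1 : (pvliVE δ u σ c).O ⊆ pvtU δ (pvlktBx u (-130) 129 (-130) 129 ∪ pvliVB u σ 130 219 (-100) 99) := (pvli_v_O_sub hδ u σ c).trans (pvt_U_mono subset_union_left)
  refine union_subset h1 ((pvli_v_E_sub hδ u σ c).trans (union_subset h1 (pvt_U_mono subset_union_right)))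

end region

/-! ## 3. zones and rooms -/

section zone

variable {δ : ℝ} (hδ : 0 < δ) (u : ℤ × ℤ) (σ c : Bool)

/-- first row of the hook box of colour `β` -/
def pvliVy0 (β : Bool) : ℤ := if β then 15 else -65
/-- last row of the hook box of colour `β` -/
def pvliVy1 (β : Bool) : ℤ := if β then 64 else -16

theorem pvli_v_eqns_cite2 : True := by
  have := @pvliVy0.eq_1; have := @pvliVy1.eq_1
  trivial

include hδ in
/-- the cells of the placed hook box -/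
theorem pvli_v_hb (β : Bool) {k : ℤ × ℤ} (hk : pvlnC δ k ⊆ pvkdAt (pvmgPt δ u) (1 * ((1600 * δ : ℝ) : ℂ)) (pvliUHB (1 / 40) σ β)) : k ∈ pvliVB u σ 138 145 (pvliVy0 β) (pvliVy1 β) := by
  have l1 : (k.1 : ℝ) * δ ≤ ((k.1 : ℝ) + 1) * δ := by nlinarith
  have l2 : (k.2 : ℝ) * δ ≤ ((k.2 : ℝ) + 1) * δ := by nlinarith
  have h0 : (⟨(k.1 : ℝ) * δ, (k.2 : ℝ) * δ⟩ : ℂ) ∈ pvlnC δ k := ⟨le_rfl, l1, le_rfl, l2⟩
  have h1 : (⟨((k.1 : ℝ) + 1) * δ, ((k.2 : ℝ) + 1) * δ⟩ : ℂ) ∈ pvlnC δ k := ⟨l1, le_rfl, l2, le_rfl⟩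
  have hs : (0 : ℝ) < 1600 * δ := by positivity
  obtain ⟨a1, a2, a3, a4⟩ := (pvli_u_at_mem (d := 1) (by norm_num) hs).1 (hk h0)
  obtain ⟨b1, b2, b3, b4⟩ := (pvli_u_at_mem (d := 1) (by norm_num) hs).1 (hk h1)
  rw [one_mul] at a1 a2 a3 a4 b1 b2 b3 b4
  have e1 := pvli_v_inv_re hδ u ⟨(k.1 : ℝ) * δ, (k.2 : ℝ) * δ⟩
  have e2 := pvli_v_inv_im hδ u ⟨(k.1 : ℝ) * δ, (k.2 : ℝ) * δ⟩
  have e3 := pvli_v_inv_re hδ u ⟨((k.1 : ℝ) + 1) * δ, ((k.2 : ℝ) + 1) * δ⟩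
  have e4 := pvli_v_inv_im hδ u ⟨((k.1 : ℝ) + 1) * δ, ((k.2 : ℝ) + 1) * δ⟩
  simp only [mul_div_assoc, div_self hδ.ne', mul_one] at e1 e2 e3 e4
  have y0 : (pvliVy0 β : ℝ) - 1 < (k.2 : ℝ) - u.2 := by
    cases β <;> simp only [pvliUy0, pvliVy0, if_true, if_false, Bool.false_eq_true] at a3 ⊢ <;> push_cast <;> linarith
  have y1 : (k.2 : ℝ) - u.2 < (pvliVy1 β : ℝ) + 1 := by
    cases β <;> simp only [pvliUy1, pvliVy1, if_true, if_false, Bool.false_eq_true] at b4 ⊢ <;> push_cast <;> linarith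
  have y0' : pvliVy0 β - 1 < k.2 - u.2 := by exact_mod_cast y0
  have y1' : k.2 - u.2 < pvliVy1 β + 1 := by exact_mod_cast y1
  cases σ <;> simp only [pvliUsg, pvliVB, pvlktBx, if_true, if_false, Bool.false_eq_true] at a1 a2 b1 b2 ⊢
  · have x0 : (-147 : ℝ) < (k.1 : ℝ) - u.1 := by linarith
    have x1 : (k.1 : ℝ) - u.1 < -138 := by linarith
    have x0' : (-147 : ℤ) < k.1 - u.1 := by exact_mod_cast x0
    have x1' : k.1 - u.1 < (-138 : ℤ) := by exact_mod_cast x1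
    exact ⟨by omega, by omega, by omega, by omega⟩
  · have x0 : (137 : ℝ) < (k.1 : ℝ) - u.1 := by linarith
    have x1 : (k.1 : ℝ) - u.1 < 146 := by linarith
    have x0' : (137 : ℤ) < k.1 - u.1 := by exact_mod_cast x0
    have x1' : k.1 - u.1 < (146 : ℤ) := by exact_mod_cast x1
    exact ⟨by omega, by omega, by omega, by omega⟩

include hδ in
/-- **field `z₁` / `z₁'` of `PvlktPoly` at the `u`-end** -/
theorem pvli_v_z₁ {W : Set (ℤ × ℤ)} (hW : pvliVB u σ 138 145 15 64 ⊆ W) : PvfpZone δ W (pvliVE δ u σ c).A₁ (pvliVE δ u σ c).X₁ (pvliVE δ u σ c).Y₁ := by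
  have h := pvli_u_zone (r := 1 / 40) (s := 1600 * δ) (d := 1) (by norm_num) (by positivity) (by norm_num) hδ (by linarith) σ true (pvmgPt δ u) (W := W)
    (fun k hk => hW (pvli_v_hb hδ u σ true hk))
  rw [one_mul] at h
  exact h

include hδ in
/-- **field `z₂` / `z₂'` of `PvlktPoly` at the `u`-end** -/
theorem pvli_v_z₂ {W : Set (ℤ × ℤ)} (hW : pvliVB u σ 138 145 (-65) (-16) ⊆ W) : PvfpZone δ W (pvliVE δ u σ c).A₂ (pvliVE δ u σ c).X₂ (pvliVE δ u σ c).Y₂ := by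
  have h := pvli_u_zone (r := 1 / 40) (s := 1600 * δ) (d := 1) (by norm_num) (by positivity) (by norm_num) hδ (by linarith) σ false (pvmgPt δ u) (W := W)
    (fun k hk => hW (pvli_v_hb hδ u σ false hk))
  rw [one_mul] at h
  exact h

include hδ in
/-- the placed stub, in cells -/
theorem pvli_v_st (β : Bool) : pvkdAt (pvmgPt δ u) ((1600 * δ : ℝ) : ℂ) (pvliUSt (1 / 40) σ β) ⊆ pvtU δ (pvliVB u σ 130 202 (pvliVy0 β + 2) (pvliVy1 β - 2)) := by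
  rintro _ ⟨w, hw, rfl⟩
  obtain ⟨a1, a2, a3, a4⟩ := pvli_u_mem.1 hw
  refine pvli_v_cov hδ u σ (by norm_num) (by cases β <;> simp [pvliVy0, pvliVy1]) ?_ ?_ ?_ ?_
  · push_cast; linarith
  · push_cast; linarith
  · cases β <;> simp only [pvliUy0, pvliVy0, if_true, if_false, Bool.false_eq_true] at a3 ⊢ <;> push_cast <;> linarith
  · cases β <;> simp only [pvliUy1, pvliVy1, if_true, if_false, Bool.false_eq_true] at a4 ⊢ <;> push_cast <;> linarith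

include hδ in
/-- **field `a₁` / `a₁'` of `PvlktPoly` at the `u`-end** -/
theorem pvli_v_a₁ {Bk : Set (ℤ × ℤ)} (hB : pvliVB u σ 130 202 17 62 ⊆ Bk) : (pvliVE δ u σ c).A₁ ⊆ (pvliVE δ u σ c).O ∪ pvtU δ Bk :=
  (pvli_u_a₁ (r := 1 / 40) (by norm_num) σ c pvkgO (pvmgPt δ u) ((1600 * δ : ℝ) : ℂ) pvli_u_O40).trans
    (union_subset_union_right _ ((pvli_v_st hδ u σ true).trans (pvt_U_mono hB)))

include hδ in
/-- **field `a₂` / `a₂'` of `PvlktPoly` at the `u`-end** -/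
theorem pvli_v_a₂ {Wh : Set (ℤ × ℤ)} (hW : pvliVB u σ 130 202 (-63) (-18) ⊆ Wh) : (pvliVE δ u σ c).A₂ ⊆ (pvliVE δ u σ c).O ∪ pvtU δ Wh :=
  (pvli_u_a₂ (r := 1 / 40) (by norm_num) σ c pvkgO (pvmgPt δ u) ((1600 * δ : ℝ) : ℂ) pvli_u_O40).trans
    (union_subset_union_right _ ((pvli_v_st hδ u σ false).trans (pvt_U_mono hW)))

end zone

/-! ## 4. at the layouts of 164 -/

section layout

theorem pvli_v_bx_mono {u : ℤ × ℤ} {a b c d a' b' c' d' : ℤ} (h1 : a ≤ a') (h2 : b' ≤ b) (h3 : c ≤ c') (h4 : d' ≤ d) : pvlktBx u a' b' c' d' ⊆ pvlktBx u a b c d := by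
  rintro k ⟨k1, k2, k3, k4⟩
  exact ⟨by omega, by omega, by omega, by omega⟩

/-- the collar of a box -/
theorem pvli_v_bx_N {u : ℤ × ℤ} {a b c d a' b' c' d' : ℤ} (j : ℕ) (hab : a ≤ b) (hcd : c ≤ d) (h1 : a - j ≤ a') (h2 : b' ≤ b + j) (h3 : c - j ≤ c') (h4 : d' ≤ d + j) :
    pvlktBx u a' b' c' d' ⊆ pvtwN j (pvlktBx u a b c d) := by
  rintro k ⟨k1, k2, k3, k4⟩
  refine ⟨(max (u.1 + a) (min k.1 (u.1 + b)), max (u.2 + c) (min k.2 (u.2 + d))), ⟨?_, ?_, ?_, ?_⟩, ?_, ?_, ?_, ?_⟩ <;> simp only [] <;> omega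

variable {δ : ℝ} (hδ : 0 < δ) (𝔑 : PvmnNum) (τ : PvmnType) (ln : ((ℤ × ℤ) × (ℤ × ℤ)) × ℕ) (o : ℤ × ℤ) (S : Set (ℤ × ℤ)) (c : Bool)

include hδ in
/-- link `e`, field `z₁` -/
theorem pvli_v_e_z₁ : PvfpZone δ (pvtwN 1 (pvlktXBe 𝔑 τ o)) (pvliVE δ (pvlktU0 𝔑 τ o) true c).A₁ (pvliVE δ (pvlktU0 𝔑 τ o) true c).X₁ (pvliVE δ (pvlktU0 𝔑 τ o) true c).Y₁ :=
  pvli_v_z₁ hδ _ true c ((pvli_v_bx_N 1 (by norm_num) (by norm_num) (by norm_num) (by norm_num) (by norm_num) (by norm_num)).trans (pvtw_N_mono le_rfl subset_union_right))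

include hδ in
/-- link `e`, field `z₂` -/
theorem pvli_v_e_z₂ : PvfpZone δ (pvtwN 1 (pvlktXWe 𝔑 τ ln o S)) (pvliVE δ (pvlktU0 𝔑 τ o) true c).A₂ (pvliVE δ (pvlktU0 𝔑 τ o) true c).X₂ (pvliVE δ (pvlktU0 𝔑 τ o) true c).Y₂ :=
  pvli_v_z₂ hδ _ true c ((pvli_v_bx_N 1 (by norm_num) (by norm_num) (by norm_num) (by norm_num) (by norm_num) (by norm_num)).trans (pvtw_N_mono le_rfl subset_union_right))

include hδ in
/-- link `e`, field `a₁` -/
theorem pvli_v_e_a₁ : (pvliVE δ (pvlktU0 𝔑 τ o) true c).A₁ ⊆ (pvliVE δ (pvlktU0 𝔑 τ o) true c).O ∪ pvtU δ (pvlktBke 𝔑 τ o) :=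
  pvli_v_a₁ hδ _ true c ((pvli_v_bx_mono (by norm_num) (by norm_num) (by norm_num) (by norm_num)).trans subset_union_right)

include hδ in
/-- link `e`, field `a₂` -/
theorem pvli_v_e_a₂ : (pvliVE δ (pvlktU0 𝔑 τ o) true c).A₂ ⊆ (pvliVE δ (pvlktU0 𝔑 τ o) true c).O ∪ pvtU δ (pvlktWhe 𝔑 τ ln o S) :=
  pvli_v_a₂ hδ _ true c ((pvli_v_bx_mono (by norm_num) (by norm_num) (by norm_num) (by norm_num)).trans subset_union_right)

include hδ in
/-- link `b`, field `z₁'` -/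
theorem pvli_v_b_z₁ : PvfpZone δ (pvtwN 1 (pvlktXBb 𝔑 τ o)) (pvliVE δ (pvlktU0 𝔑 τ o) false c).A₁ (pvliVE δ (pvlktU0 𝔑 τ o) false c).X₁ (pvliVE δ (pvlktU0 𝔑 τ o) false c).Y₁ :=
  pvli_v_z₁ hδ _ false c ((pvli_v_bx_N 1 (by norm_num) (by norm_num) (by norm_num) (by norm_num) (by norm_num) (by norm_num)).trans (pvtw_N_mono le_rfl subset_union_right))

include hδ in
/-- link `b`, field `z₂'` -/
theorem pvli_v_b_z₂ : PvfpZone δ (pvtwN 1 (pvlktXWb 𝔑 τ ln o S)) (pvliVE δ (pvlktU0 𝔑 τ o) false c).A₂ (pvliVE δ (pvlktU0 𝔑 τ o) false c).X₂ (pvliVE δ (pvlktU0 𝔑 τ o) false c).Y₂ :=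
  pvli_v_z₂ hδ _ false c ((pvli_v_bx_N 1 (by norm_num) (by norm_num) (by norm_num) (by norm_num) (by norm_num) (by norm_num)).trans (pvtw_N_mono le_rfl subset_union_right))

include hδ in
/-- link `b`, field `a₁'` -/
theorem pvli_v_b_a₁ : (pvliVE δ (pvlktU0 𝔑 τ o) false c).A₁ ⊆ (pvliVE δ (pvlktU0 𝔑 τ o) false c).O ∪ pvtU δ (pvlktBkb 𝔑 τ o) :=
  pvli_v_a₁ hδ _ false c ((pvli_v_bx_mono (by norm_num) (by norm_num) (by norm_num) (by norm_num)).trans subset_union_right)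

include hδ in
/-- link `b`, field `a₂'` -/
theorem pvli_v_b_a₂ : (pvliVE δ (pvlktU0 𝔑 τ o) false c).A₂ ⊆ (pvliVE δ (pvlktU0 𝔑 τ o) false c).O ∪ pvtU δ (pvlktWhb 𝔑 τ ln o S) :=
  pvli_v_a₂ hδ _ false c ((pvli_v_bx_mono (by norm_num) (by norm_num) (by norm_num) (by norm_num)).trans subset_union_right)

end layout

/-! ## 5. the record `PvlktU` of 164 at the end of record -/

section record

variable {δ : ℝ} (hδ : 0 < δ) (u : ℤ × ℤ) (σ c : Bool)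

theorem pvli_v_Sx (δ : ℝ) (u : ℤ × ℤ) (σ : Bool) (w : ℂ) : pvlktSx σ δ u (pvthSim (pvmgPt δ u) ((1600 * δ : ℝ) : ℂ) w) = 1600 * (pvliUsg σ * w.re) * δ := by
  unfold pvlktSx
  rw [pvli_v_re]
  cases σ <;> simp only [pvliUsg, if_true, if_false, Bool.false_eq_true] <;> ring

theorem pvli_v_Sy (δ : ℝ) (u : ℤ × ℤ) (w : ℂ) : (pvthSim (pvmgPt δ u) ((1600 * δ : ℝ) : ℂ) w).im - (u.2 : ℝ) * δ = 1600 * w.im * δ := by
  rw [pvli_v_im]
  ring

include hδ in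
theorem pvli_v_O_open : IsOpen (pvliVE δ u σ c).O := by
  have e : (pvliVE δ u σ c).O = {p : ℂ | ((u.1 : ℝ) - 130) * δ < p.re} ∩ {p : ℂ | p.re < ((u.1 : ℝ) + 130) * δ} ∩ {p : ℂ | ((u.2 : ℝ) - 130) * δ < p.im} ∩ {p : ℂ | p.im < ((u.2 : ℝ) + 130) * δ} := by
    ext p
    rw [pvli_v_O hδ u σ c]
    constructor
    · rintro ⟨a, b, c, d⟩
      exact ⟨⟨⟨a, b⟩, c⟩, d⟩
    · rintro ⟨⟨⟨a, b⟩, c⟩, d⟩
      exact ⟨a, b, c, d⟩
  rw [e]
  exact (((isOpen_lt continuous_const Complex.continuous_re).inter (isOpen_lt Complex.continuous_re continuous_const)).inter (isOpen_lt continuous_const Complex.continuous_im)).inter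
    (isOpen_lt Complex.continuous_im continuous_const)

include hδ in
/-- the stub in the words of 164 -/
theorem pvli_v_stub (β : Bool) {p : ℂ} (hp : p ∈ pvkdAt (pvmgPt δ u) ((1600 * δ : ℝ) : ℂ) (pvliUSt (1 / 40) σ β)) :
    130 * δ ≤ pvlktSx σ δ u p ∧ pvlktSx σ δ u p ≤ 203 * δ ∧ 1600 * (pvliUy0 (1 / 40) β - 1 / 40 / 16) * δ ≤ p.im - (u.2 : ℝ) * δ ∧ p.im - (u.2 : ℝ) * δ ≤ 1600 * (pvliUy1 (1 / 40) β + 1 / 40 / 16) * δ := by
  obtain ⟨w, hw, rfl⟩ := hp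
  obtain ⟨a1, a2, a3, a4⟩ := pvli_u_mem.1 hw
  rw [pvli_v_Sx, pvli_v_Sy]
  refine ⟨?_, ?_, ?_, ?_⟩
  · exact mul_le_mul_of_nonneg_right (by linarith) hδ.le
  · exact mul_le_mul_of_nonneg_right (by linarith) hδ.le
  · exact mul_le_mul_of_nonneg_right (by linarith) hδ.le
  · exact mul_le_mul_of_nonneg_right (by linarith) hδ.le

include hδ in
theorem pvli_v_X_aux {w : ℂ} (hw : w ∈ ball (0 : ℂ) (2 * (1 / 40))) : pvlktSx σ δ u (pvthSim (pvmgPt δ u) ((1600 * δ : ℝ) : ℂ) w) ≤ 80 * δ := by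
  rw [pvli_v_Sx]
  rw [mem_ball_zero_iff] at hw
  have h1 : |w.re| ≤ ‖w‖ := Complex.abs_re_le_norm w
  have h2 : pvliUsg σ * w.re ≤ |w.re| := by
    rw [← pvli_u_sg_abs σ w.re]
    exact le_abs_self _
  exact mul_le_mul_of_nonneg_right (by linarith) hδ.le

include hδ in
theorem pvli_v_Y_aux (β : Bool) {w : ℂ} (hw : w ∈ (pvjoT (1 / 40)).Dr σ β) : 160 * δ ≤ pvlktSx σ δ u (pvthSim (pvmgPt δ u) ((1600 * δ : ℝ) : ℂ) w) := by
  rw [pvli_v_Sx]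
  rw [pvli_u_Dr] at hw
  obtain ⟨a1, -, -, -⟩ := pvli_u_mem.1 hw
  exact mul_le_mul_of_nonneg_right (by linarith) hδ.le

include hδ in
/-- **`PvlktU` AT THE END OF RECORD** -/
theorem pvli_v_U : PvlktU (pvliVE δ u σ c) δ u σ where
  mO := (pvli_v_O_open hδ u σ c).measurableSet
  O_sub := by
    intro p hp
    obtain ⟨a1, a2, a3, a4⟩ := (pvli_v_O hδ u σ c).1 hp
    rw [abs_lt, abs_lt]
    exact ⟨⟨by linarith, by linarith⟩, by linarith, by linarith⟩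
  E_sub := by
    rintro _ ⟨w, hw, rfl⟩
    rw [pvli_v_re, pvli_v_im, abs_le, abs_le]
    rcases pvk2_Es_sub σ hw with ⟨h1, h2, h3, h4⟩ | ⟨h1, h2, h3⟩
    · refine ⟨⟨?_, ?_⟩, ?_, ?_⟩ <;> nlinarith
    · cases σ <;> simp only [if_true, if_false, Bool.false_eq_true] at h1 <;> obtain ⟨h0, h1⟩ := h1 <;> refine ⟨⟨?_, ?_⟩, ?_, ?_⟩ <;> nlinarith
  A₁ := by
    intro p hp
    rcases pvli_u_a₁ (r := 1 / 40) (by norm_num) σ c pvkgO (pvmgPt δ u) ((1600 * δ : ℝ) : ℂ) pvli_u_O40 hp with h | h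
    · exact Or.inl h
    · obtain ⟨a1, a2, a3, a4⟩ := pvli_v_stub hδ u σ true h
      simp only [pvliUy0, pvliUy1, if_true] at a3 a4
      exact Or.inr ⟨a1, a2, by nlinarith, by nlinarith⟩
  A₂ := by
    intro p hp
    rcases pvli_u_a₂ (r := 1 / 40) (by norm_num) σ c pvkgO (pvmgPt δ u) ((1600 * δ : ℝ) : ℂ) pvli_u_O40 hp with h | h
    · exact Or.inl h
    · obtain ⟨a1, a2, a3, a4⟩ := pvli_v_stub hδ u σ false h
      simp only [pvliUy0, pvliUy1, if_false, Bool.false_eq_true] at a3 a4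
      exact Or.inr ⟨a1, a2, by nlinarith, by nlinarith⟩
  X₁ := by
    rintro _ ⟨w, ⟨hw, -⟩, rfl⟩
    exact pvli_v_X_aux hδ u σ hw
  X₂ := by
    rintro _ ⟨w, ⟨hw, -⟩, rfl⟩
    exact pvli_v_X_aux hδ u σ hw
  Y₁ := by
    rintro _ ⟨w, hw, rfl⟩
    exact pvli_v_Y_aux hδ u σ true hw
  Y₂ := by
    rintro _ ⟨w, hw, rfl⟩
    exact pvli_v_Y_aux hδ u σ false hw

include hδ in
/-- **`PvlktU` at the end `eU` of `Exit/DatP`** (`w` = the centre of `u`, `s = su m`) -/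
theorem pvli_v_U' {s : ℝ} {w : ℂ} (hw : w = pvmgPt δ u) (hs : s = 1600 * δ) :
    PvlktU (pvydEnd (pvyeEnd (pvyeE0 pvkgG.toPvkdPlug pvk2T pvkgG.O₀ σ) c w (s : ℂ)) (pvthSim w 1 '' (pvthSim 0 (s : ℂ) '' pvkgG.O₀))) δ u σ := by
  rw [pvli_v_end hw hs]
  exact pvli_v_U hδ u σ c

end record

/-! ## 6. the `u`-end share of H5 (`Pvn2Dat.Ok` of 272, `PvvwLd.Ok` of 270): `h`, `k`, `vs` / `vt` -/

section h5

variable {δ : ℝ} (hδ : 0 < δ) (u : ℤ × ℤ) (σ c : Bool)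

/-- the two thickened rooms in one rectangle of the frame of the plug -/
theorem pvli_v_A_unit (β : Bool) : cthickening ((1 / 40 : ℝ) / 16) ((pvjoT (1 / 40)).Ln σ β) ⊆ pvkdRect σ (7 / 640) (81 / 640) (-(25 / 640)) (25 / 640) := by
  intro w hw
  rcases pvli_u_room (r := 1 / 40) (by norm_num) σ β hw with h | h
  · obtain ⟨a1, a2, a3, a4⟩ := pvli_u_mem.1 h
    exact pvli_u_mem.2 ⟨by linarith, by linarith, by linarith, by linarith⟩
  · obtain ⟨a1, a2, a3, a4⟩ := pvli_u_mem.1 h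
    refine pvli_u_mem.2 ⟨by linarith, by linarith, ?_, ?_⟩ <;> cases β <;> simp only [pvliUy0, pvliUy1, if_true, if_false, Bool.false_eq_true] at a3 a4 <;> linarith

include hδ in
/-- **the two rooms in one closed rectangle of the plane** -/
theorem pvli_v_A_rect : (pvliVE δ u σ c).A₁ ∪ (pvliVE δ u σ c).A₂ ⊆
    pvkdRect true (if σ then ((u.1 : ℝ) + 35 / 2) * δ else ((u.1 : ℝ) - 405 / 2) * δ) (if σ then ((u.1 : ℝ) + 405 / 2) * δ else ((u.1 : ℝ) - 35 / 2) * δ) (((u.2 : ℝ) - 125 / 2) * δ) (((u.2 : ℝ) + 125 / 2) * δ) := by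
  have key : ∀ w ∈ pvkdRect σ (7 / 640) (81 / 640) (-(25 / 640)) (25 / 640), pvthSim (pvmgPt δ u) ((1600 * δ : ℝ) : ℂ) w ∈
      pvkdRect true (if σ then ((u.1 : ℝ) + 35 / 2) * δ else ((u.1 : ℝ) - 405 / 2) * δ) (if σ then ((u.1 : ℝ) + 405 / 2) * δ else ((u.1 : ℝ) - 35 / 2) * δ) (((u.2 : ℝ) - 125 / 2) * δ) (((u.2 : ℝ) + 125 / 2) * δ) := by
    intro w hw
    obtain ⟨a1, a2, a3, a4⟩ := pvli_u_mem.1 hw
    refine pvli_u_mem.2 ?_
    rw [pvli_v_re, pvli_v_im]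
    cases σ <;> simp only [pvliUsg, if_true, if_false, Bool.false_eq_true, one_mul] at a1 a2 ⊢ <;> refine ⟨?_, ?_, ?_, ?_⟩ <;> exact mul_le_mul_of_nonneg_right (by linarith) hδ.le
  rintro _ (⟨w, hw, rfl⟩ | ⟨w, hw, rfl⟩)
  · exact key w (pvli_v_A_unit σ true hw)
  · exact key w (pvli_v_A_unit σ false hw)

include hδ in
/-- **(h)** the cells of the collar of the two rooms -/
theorem pvli_v_h {t : ℝ} (ht0 : 0 ≤ t) (ht : t ≤ 15 / 2 * δ) : pvtCells δ (cthickening t ((pvliVE δ u σ c).A₁ ∪ (pvliVE δ u σ c).A₂)) ⊆ pvliVB u σ 9 210 (-71) 70 := by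
  rintro k ⟨q, ⟨k1, k2, k3, k4⟩, hq⟩
  obtain ⟨a1, a2, a3, a4⟩ := pvli_u_mem.1 (pvli_u_cth ht0 (cthickening_subset_of_subset t (pvli_v_A_rect hδ u σ c) hq))
  simp only [pvliUsg, if_true, one_mul] at a1 a2
  have y0 : (u.2 : ℝ) - 71 < (k.2 : ℝ) + 1 := lt_of_mul_lt_mul_right (by nlinarith : ((u.2 : ℝ) - 71) * δ < ((k.2 : ℝ) + 1) * δ) hδ.le
  have y1 : (k.2 : ℝ) < (u.2 : ℝ) + 71 := lt_of_mul_lt_mul_right (by nlinarith : (k.2 : ℝ) * δ < ((u.2 : ℝ) + 71) * δ) hδ.le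
  have y0' : u.2 - 71 < k.2 + 1 := by exact_mod_cast y0
  have y1' : k.2 < u.2 + 71 := by exact_mod_cast y1
  cases σ <;> simp only [pvliVB, pvlktBx, if_true, if_false, Bool.false_eq_true] at a1 a2 ⊢
  · have x0 : (u.1 : ℝ) - 211 < (k.1 : ℝ) + 1 := lt_of_mul_lt_mul_right (by nlinarith : ((u.1 : ℝ) - 211) * δ < ((k.1 : ℝ) + 1) * δ) hδ.le
    have x1 : (k.1 : ℝ) < (u.1 : ℝ) - 9 := lt_of_mul_lt_mul_right (by nlinarith : (k.1 : ℝ) * δ < ((u.1 : ℝ) - 9) * δ) hδ.le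
    have x0' : u.1 - 211 < k.1 + 1 := by exact_mod_cast x0
    have x1' : k.1 < u.1 - 9 := by exact_mod_cast x1
    exact ⟨by omega, by omega, by omega, by omega⟩
  · have x0 : (u.1 : ℝ) + 9 < (k.1 : ℝ) + 1 := lt_of_mul_lt_mul_right (by nlinarith : ((u.1 : ℝ) + 9) * δ < ((k.1 : ℝ) + 1) * δ) hδ.le
    have x1 : (k.1 : ℝ) < (u.1 : ℝ) + 211 := lt_of_mul_lt_mul_right (by nlinarith : (k.1 : ℝ) * δ < ((u.1 : ℝ) + 211) * δ) hδ.le
    have x0' : u.1 + 9 < k.1 + 1 := by exact_mod_cast x0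
    have x1' : k.1 < u.1 + 211 := by exact_mod_cast x1
    exact ⟨by omega, by omega, by omega, by omega⟩

include hδ in
/-- **(k)** the cells which lie deep in the window of the side event: the 13-collar of a cell of `[-116,205] × [-86,85]` (side `σ`) lies in `E`;   `5 · (5/2 δ) < 13 δ` -/
theorem pvli_v_deep {k : ℤ × ℤ} (hk : k ∈ pvliVB u σ (-116) 205 (-86) 85) : pvtU δ (pvtwN 13 {k}) ⊆ (pvliVE δ u σ c).E := by
  intro q hq
  obtain ⟨j, ⟨_, rfl, j1, j2, j3, j4⟩, q1, q2, q3, q4⟩ := mem_iUnion₂.1 hq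
  push_cast at j1 j2 j3 j4
  rw [pvli_v_E_eq, ← pvhf_at_eq _ (pvli_v_ne hδ)]
  show pvthInv _ _ q ∈ pvk2Es σ
  have e1 := pvli_v_inv_re hδ u q
  have e2 := pvli_v_inv_im hδ u q
  have f1 : (j.1 : ℝ) ≤ q.re / δ := (le_div_iff₀ hδ).2 q1
  have f2 : q.re / δ ≤ (j.1 : ℝ) + 1 := (div_le_iff₀ hδ).2 q2
  have f3 : (j.2 : ℝ) ≤ q.im / δ := (le_div_iff₀ hδ).2 q3
  have f4 : q.im / δ ≤ (j.2 : ℝ) + 1 := (div_le_iff₀ hδ).2 q4
  cases σ <;> simp only [pvliVB, pvlktBx, if_true, if_false, Bool.false_eq_true] at hk <;> obtain ⟨k1, k2, k3, k4⟩ := hk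
  · have g1 : (u.1 : ℝ) - 219 ≤ (j.1 : ℝ) := by exact_mod_cast (by omega : u.1 - 219 ≤ j.1)
    have g2 : (j.1 : ℝ) ≤ (u.1 : ℝ) + 128 := by exact_mod_cast (by omega : j.1 ≤ u.1 + 128)
    have g3 : (u.2 : ℝ) - 99 ≤ (j.2 : ℝ) := by exact_mod_cast (by omega : u.2 - 99 ≤ j.2)
    have g4 : (j.2 : ℝ) ≤ (u.2 : ℝ) + 98 := by exact_mod_cast (by omega : j.2 ≤ u.2 + 98)
    show _ ∈ pvkgEm
    rcases lt_or_ge (-130 : ℝ) (q.re / δ - u.1) with h | h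
    · exact Or.inl ⟨by linarith, by linarith, by linarith, by linarith⟩
    · exact Or.inr ⟨by linarith, by linarith, by linarith, by linarith⟩
  · have g1 : (u.1 : ℝ) - 129 ≤ (j.1 : ℝ) := by exact_mod_cast (by omega : u.1 - 129 ≤ j.1)
    have g2 : (j.1 : ℝ) ≤ (u.1 : ℝ) + 218 := by exact_mod_cast (by omega : j.1 ≤ u.1 + 218)
    have g3 : (u.2 : ℝ) - 99 ≤ (j.2 : ℝ) := by exact_mod_cast (by omega : u.2 - 99 ≤ j.2)
    have g4 : (j.2 : ℝ) ≤ (u.2 : ℝ) + 98 := by exact_mod_cast (by omega : j.2 ≤ u.2 + 98)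
    show _ ∈ pvkgEp
    rcases lt_or_ge (q.re / δ - u.1) (130 : ℝ) with h | h
    · exact Or.inl ⟨by linarith, by linarith, by linarith, by linarith⟩
    · exact Or.inr ⟨by linarith, by linarith, by linarith, by linarith⟩

include hδ in
/-- **(vs / vt)** the room `pvkdAt w 1 (pvyhZ (pvkgG.toPvkdPlug.sc s) σ)` (`pvyhZ 𝔭 σ = cond σ 𝔭.Zm 𝔭.Zp`, `Exit/GeoKitD.lean`) of the FAR vertex of the gate of `u` (291: `σ = true` = the plug is the source), in cells: on the OTHER side of the centre -/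
theorem pvli_v_V {s : ℝ} {w : ℂ} (hw : w = pvmgPt δ u) (hs : s = 1600 * δ) : pvkdAt w 1 (cond σ (pvkgG.toPvkdPlug.sc s).Zm (pvkgG.toPvkdPlug.sc s).Zp) ⊆ pvtU δ (pvliVB u (!σ) 20 79 (-20) 19) := by
  subst hw hs
  have key : ∀ ζ : ℂ, pvthSim (pvmgPt δ u) 1 (vorSim ((1600 * δ : ℝ) : ℂ) 0 ζ) = pvthSim (pvmgPt δ u) ((1600 * δ : ℝ) : ℂ) ζ := by
    intro ζ
    simp [pvthSim, vorSim]
  cases σ
  · rintro _ ⟨_, ⟨ζ, ⟨a1, a2, a3, a4⟩, rfl⟩, rfl⟩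
    rw [key]
    refine pvli_v_cov hδ u true (by norm_num) (by norm_num) ?_ ?_ ?_ ?_ <;> (try simp only [pvliUsg, if_true, one_mul]) <;> push_cast <;> linarith
  · rintro _ ⟨_, ⟨ζ, ⟨a1, a2, a3, a4⟩, rfl⟩, rfl⟩
    rw [key]
    refine pvli_v_cov hδ u false (by norm_num) (by norm_num) ?_ ?_ ?_ ?_ <;> (try simp only [pvliUsg, if_false, Bool.false_eq_true]) <;> push_cast <;> linarith

include hδ in
/-- the open rectangle `(-130, 220) × (-100, 100)` of the side `σ` lies in the window of the side event -/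
theorem pvli_v_E_of {q : ℂ} (h1 : -(130 * δ) < pvlktSx σ δ u q) (h2 : pvlktSx σ δ u q < 220 * δ) (h3 : -(100 * δ) < q.im - (u.2 : ℝ) * δ) (h4 : q.im - (u.2 : ℝ) * δ < 100 * δ) : q ∈ (pvliVE δ u σ c).E := by
  rw [pvli_v_E_eq, ← pvhf_at_eq _ (pvli_v_ne hδ)]
  show pvthInv _ _ q ∈ pvk2Es σ
  have e1 := pvli_v_inv_re hδ u q
  have e2 := pvli_v_inv_im hδ u q
  have f3 : -100 < q.im / δ - u.2 := by
    rw [lt_sub_iff_add_lt, lt_div_iff₀ hδ]; linarith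
  have f4 : q.im / δ - u.2 < 100 := by
    rw [sub_lt_iff_lt_add, div_lt_iff₀ hδ]; linarith
  cases σ <;> simp only [pvlktSx, if_true, if_false, Bool.false_eq_true] at h1 h2
  · have f1 : -220 < q.re / δ - u.1 := by
      rw [lt_sub_iff_add_lt, lt_div_iff₀ hδ]; linarith
    have f2 : q.re / δ - u.1 < 130 := by
      rw [sub_lt_iff_lt_add, div_lt_iff₀ hδ]; linarith
    show _ ∈ pvkgEm
    rcases lt_or_ge (-130 : ℝ) (q.re / δ - u.1) with h | h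
    · exact Or.inl ⟨by linarith, by linarith, by linarith, by linarith⟩
    · exact Or.inr ⟨by linarith, by linarith, by linarith, by linarith⟩
  · have f1 : -130 < q.re / δ - u.1 := by
      rw [lt_sub_iff_add_lt, lt_div_iff₀ hδ]; linarith
    have f2 : q.re / δ - u.1 < 220 := by
      rw [sub_lt_iff_lt_add, div_lt_iff₀ hδ]; linarith
    show _ ∈ pvkgEp
    rcases lt_or_ge (q.re / δ - u.1) (130 : ℝ) with h | h
    · exact Or.inl ⟨by linarith, by linarith, by linarith, by linarith⟩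
    · exact Or.inr ⟨by linarith, by linarith, by linarith, by linarith⟩

include hδ in
/-- **(d)** the two rooms lie deep in the window of the side event (any depth `t ≤ 17 δ`; `5 · (5/2 δ) = 25/2 δ`) -/
theorem pvli_v_d {t : ℝ} (ht : t ≤ 17 * δ) : (pvliVE δ u σ c).A₁ ∪ (pvliVE δ u σ c).A₂ ⊆ pvtrCore t (pvliVE δ u σ c).E := by
  intro p hp q hq
  obtain ⟨a1, a2, a3, a4⟩ := pvli_u_mem.1 (pvli_v_A_rect hδ u σ c hp)
  simp only [pvliUsg, if_true, one_mul] at a1 a2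
  obtain ⟨b1, b2, b3, b4⟩ := pvjo_t_ball hq
  refine pvli_v_E_of hδ u σ c ?_ ?_ (by nlinarith) (by nlinarith) <;> cases σ <;> simp only [pvlktSx, if_true, if_false, Bool.false_eq_true] at a1 a2 ⊢ <;> nlinarith

end h5

end Claimed.Agent.R289
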