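import Claimed.Agent.R289.Tr.ForceP
import Claimed.Agent.R289.Tr.Band
import Claimed.Agent.R289.Tr.LinkDict

/-!
# Row 289 (S0537, Cardy for Poisson-Voronoi), THE WALL, ROAD P, P16, file Tr/WalkLen : H3 = A UNIFORM BOUND FOR THE LENGTH OF A FULL WALK      (helper203; statement of 164, post P16 of 273; prefix `pvlkw_`)

`pvfp_walk_exists` (272, `Tr/ForceP`): every finite side connected set of cells carries a full walk; NO bound on its length.
HERE  **`pvlkw_walk N`** : ONE bound `ν` for all the side connected sets in a box of half side `N`, centred anywhere      (finitely many subsets of the box centred at `0`; chains, fullness, side connection are translation invariant).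
`pvlkw_walk'` = the same in the words of 229 / 272 (`ReflTransGen (PvlnAdj ∧ ∈ W)`).
-/

set_option autoImplicit false

namespace Claimed.Agent.R289

open Set Claimed.Agent.R291

theorem pvlkw_adj_add {a b : ℤ × ℤ} (h : PvlnAdj a b) (o : ℤ × ℤ) : PvlnAdj (a + o) (b + o) := by
  obtain ⟨a1, a2⟩ := a
  obtain ⟨b1, b2⟩ := b
  obtain ⟨o1, o2⟩ := o
  simp only [PvlnAdj, Prod.mk_add_mk] at h ⊢
  omega

theorem pvlkw_chain_add {L : List (ℤ × ℤ)} (h : L.IsChain PvlnAdj) (o : ℤ × ℤ) : (L.map (· + o)).IsChain PvlnAdj := by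
  rw [List.isChain_map]
  exact h.imp fun a b hab => pvlkw_adj_add hab o

theorem pvlkw_full_add {L : List (ℤ × ℤ)} (h : PvfpFull L) (o : ℤ × ℤ) : PvfpFull (L.map (· + o)) := by
  intro k hk k' hk' hadj
  obtain ⟨a, ha, rfl⟩ := List.mem_map.1 hk
  obtain ⟨b, hb, rfl⟩ := List.mem_map.1 hk'
  have hab : PvlnAdj a b := by
    have := pvlkw_adj_add hadj (-o)
    simpa using this
  rcases h a ha b hb hab with h1 | h1
  · exact Or.inl (by simpa using h1.map (· + o))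
  · exact Or.inr (by simpa using h1.map (· + o))

/-- **H3**, in the words of `pvfp_walk_exists` -/
theorem pvlkw_walk' (N : ℕ) : ∃ ν : ℕ, ∀ (o : ℤ × ℤ) (W : Set (ℤ × ℤ)), W.Nonempty → (∀ k ∈ W, |k.1 - o.1| ≤ N ∧ |k.2 - o.2| ≤ N) →
    (∀ a ∈ W, ∀ b ∈ W, Relation.ReflTransGen (fun x y => PvlnAdj x y ∧ y ∈ W) a b) →
    ∃ L : List (ℤ × ℤ), L ≠ [] ∧ L.IsChain PvlnAdj ∧ PvfpFull L ∧ {k | k ∈ L} = W ∧ L.length ≤ ν := by
  classical
  set Bx : Set (ℤ × ℤ) := {k | |k.1| ≤ N ∧ |k.2| ≤ N} with hBxd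
  have hBx : Bx.Finite := by
    refine (Set.finite_Icc ((-(N : ℤ), -(N : ℤ)) : ℤ × ℤ) ((N : ℤ), (N : ℤ))).subset ?_
    rintro ⟨x, y⟩ ⟨h1, h2⟩
    exact ⟨⟨(abs_le.1 h1).1, (abs_le.1 h2).1⟩, ⟨(abs_le.1 h1).2, (abs_le.1 h2).2⟩⟩
  have hP : {W : Set (ℤ × ℤ) | W ⊆ Bx}.Finite := hBx.finite_subsets
  have key : ∀ W : Set (ℤ × ℤ), ∃ n : ℕ, W ⊆ Bx → W.Nonempty → (∀ a ∈ W, ∀ b ∈ W, Relation.ReflTransGen (fun x y => PvlnAdj x y ∧ y ∈ W) a b) →
      ∃ L : List (ℤ × ℤ), L ≠ [] ∧ L.IsChain PvlnAdj ∧ PvfpFull L ∧ {k | k ∈ L} = W ∧ L.length ≤ n := by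
    intro W
    by_cases h : W ⊆ Bx ∧ W.Nonempty ∧ ∀ a ∈ W, ∀ b ∈ W, Relation.ReflTransGen (fun x y => PvlnAdj x y ∧ y ∈ W) a b
    · obtain ⟨L, h1, h2, h3, h4⟩ := pvfp_walk_exists (hBx.subset h.1) h.2.1 h.2.2
      exact ⟨L.length, fun _ _ _ => ⟨L, h1, h2, h3, h4, le_rfl⟩⟩
    · exact ⟨0, fun a b c => absurd ⟨a, b, c⟩ h⟩
  choose f hf using key
  obtain ⟨ν, hν⟩ := (hP.image f).bddAbove
  refine ⟨ν, fun o W hne hbox hconn => ?_⟩
  set W' : Set (ℤ × ℤ) := {k | k + o ∈ W} with hW'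
  have hsub : W' ⊆ Bx := by
    intro k hk
    have := hbox _ hk
    simp only [Prod.fst_add, Prod.snd_add, add_sub_cancel_right] at this
    exact this
  have hne' : W'.Nonempty := by
    obtain ⟨k, hk⟩ := hne
    exact ⟨k - o, by show k - o + o ∈ W; rwa [sub_add_cancel]⟩
  have hconn' : ∀ a ∈ W', ∀ b ∈ W', Relation.ReflTransGen (fun x y => PvlnAdj x y ∧ y ∈ W') a b := by
    intro a ha b hb
    have h1 := hconn _ ha _ hb
    have h2 : Relation.ReflTransGen (fun x y => PvlnAdj x y ∧ y ∈ W') (a + o - o) (b + o - o) := by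
      refine Relation.ReflTransGen.lift (r := fun x y => PvlnAdj x y ∧ y ∈ W) (p := fun x y => PvlnAdj x y ∧ y ∈ W') (fun k => k - o) (fun x y hxy => ?_) _ _ h1
      refine ⟨by simpa [sub_eq_add_neg] using pvlkw_adj_add hxy.1 (-o), ?_⟩
      show y - o + o ∈ W
      rw [sub_add_cancel]
      exact hxy.2
    rwa [add_sub_cancel_right, add_sub_cancel_right] at h2
  obtain ⟨L, h1, h2, h3, h4, h5⟩ := hf W' hsub hne' hconn'
  refine ⟨L.map (· + o), by simpa using h1, pvlkw_chain_add h2 o, pvlkw_full_add h3 o, ?_, ?_⟩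
  · ext k
    constructor
    · intro hk
      obtain ⟨a, ha, rfl⟩ := List.mem_map.1 hk
      have : a ∈ W' := by rw [← h4]; exact ha
      exact this
    · intro hk
      have : k - o ∈ W' := by show k - o + o ∈ W; rwa [sub_add_cancel]
      rw [← h4] at this
      exact List.mem_map.2 ⟨k - o, this, sub_add_cancel _ _⟩
  · rw [List.length_map]
    exact h5.trans (hν ⟨W', hsub, rfl⟩)

/-- **H3** (statement of 164): ONE bound for the length of a full walk of a side connected set of cells in a box of half side `N` -/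
theorem pvlkw_walk (N : ℕ) : ∃ ν : ℕ, ∀ (o : ℤ × ℤ) (W : Set (ℤ × ℤ)), W.Nonempty → (∀ k ∈ W, |k.1 - o.1| ≤ N ∧ |k.2 - o.2| ≤ N) → TscConn pvtbG4 W →
    ∃ L : List (ℤ × ℤ), L ≠ [] ∧ L.IsChain PvlnAdj ∧ PvfpFull L ∧ {k | k ∈ L} = W ∧ L.length ≤ ν := by
  obtain ⟨ν, hν⟩ := pvlkw_walk' N
  refine ⟨ν, fun o W hne hbox hconn => hν o W hne hbox fun a ha b hb => ?_⟩
  refine Relation.ReflTransGen.mono ?_ _ _ (hconn a ha b hb)
  rintro x y ⟨hxy, -, hy⟩
  refine ⟨?_, hy⟩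
  rcases hxy with ⟨a1, a2⟩ | ⟨a1, a2⟩ | ⟨a1, a2⟩ | ⟨a1, a2⟩
  · exact Or.inl ⟨a2, Or.inl a1⟩
  · exact Or.inl ⟨a2, Or.inr a1⟩
  · exact Or.inr ⟨a1, Or.inl a2⟩
  · exact Or.inr ⟨a1, Or.inr a2⟩

/-- **H3 in the words of the dictionary of 164** (`Tr/LinkDict`) -/
theorem pvlkt_nu (N : ℕ) : ∃ nu, PvlktNu N nu := pvlkw_walk N

end Claimed.Agent.R289
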