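import Claimed.Agent.R289.Tr.FrcDetE
import Claimed.Agent.R289.Tr.HookYT
import Claimed.Agent.R289.Tr.HookCol
import Claimed.Agent.R289.Tr.FrcDetO
import Claimed.Agent.R289.Tr.DoorSoft
import Claimed.Agent.R289.Tr.HookLA
import Claimed.Agent.R289.Tr.FrcCarF
import Claimed.Agent.R289.Tr.PlugFrcR
import Claimed.Agent.R289.Exit.GoodEM
import Claimed.Agent.R289.Exit.FrcIEv
import Claimed.Agent.R289.Exit.FrcIEvR
import Claimed.Agent.R289.Exit.FrcODefs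
import Claimed.Agent.R289.Tr.FrcDetA

/-!
# Row 289 (S0537), THE WALL, ROAD E, E10 (b3) DET, file Tr/HookYM : THE RUN OF THE THIN HYBRID LINKS AT THE MODEL, ALL TIP CELLS (D FORM)      (helper23; prefix `pvhj_`)

* sec. 1  `pvhj_numD` : the numbers of record of 298 with `e₀ = 21 r / 200` (cure of the misfit `rt = R / 10 + 4 μ` of 266 against `e₀ = R / 10`: `pvdd_pat_*` ask `rt + 2 ρ < e₀`)
* sec. 2  **`pvhj_foot_oM`**, **`pvhj_foot_iM`**, **`pvhj_foot_eM`** = the one stops `pvhc_foot_o / _i / _e` of 235 in D FORM (no `hζ`, no `hout`: corner tip cells included): the conclusion is the slot `foot` of `pvdd_pat_o / _i` of 228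
* sec. 3-8  **`pvhj_A_o`** = THE MIRROR FOR THE FIRST LINK `t → door plug` OF `pviy_A` OF 19 (`Exit/FrcIEv`): `PvjeFin (pvjeO 𝔓 𝔈 w m ε z t) T η₀ η`, `η₀ ∈ U`, three meshes AT THE BASE  ⟹  `η ∈ (pvilLo 𝔓 𝔈 m z t).A 𝔓.num (𝔓.col t)  ∧  pvilZo 𝔓 m z t η = pvilZo 𝔓 m z t η₀`.
          sec. 9-10  **`pvhj_room_c`** (`PvhjRoomO` at `pvegOYc` of 245), **`pvhj_A_rec`**, **`pvhj_link_rec`** = `exit_pvj0_link` VERBATIM, **`pvhj_hull_rec`** = `exit_pvj0_hull` VERBATIM (`Exit/FrcO`): AT THE ENGINE OF RECORD AND THE TESTS OF RECORD `pvj0T`, `pvj0Mc`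
          GENERIC: engine `oM = pvegOM`, `oK = pvegOKa 𝔓 O₀`, `kit.O₀ = O₀ m ⊆ pvccSq 0 (13 q / 4)`, ANY room `oY` with the contract **`PvhjRoomO`** (bounded, no hole, small mouth `9R/32`, funnel, off the disc of the core);   tests as in `pviy_A` (side `false`: `S⁻`)
-/

set_option autoImplicit false
set_option linter.unusedSectionVars false
set_option linter.unusedVariables false

namespace Claimed.Agent.R289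

open Set Metric Claims.C0465

/-! ## 1. the numbers of record with a wider strip for the side of the box -/

theorem pvhj_numD {r δ q dl ρ b μ Sp lam : ℝ} (R : Pvge2Rec r δ q dl ρ b μ Sp lam) (β : Bool) :
    Pvge2Num (pvge2Aa r β) (r / 200) (23 * r / 200) (23 * r / 200) (3 * r / 20) dl ρ (21 * r / 200) b μ (r / 4) := by
  have N := R.num β
  have h1 := R.δ0; have h2 := R.dl0; have h3 := R.fine; have h4 := R.mesh; have h5 := R.ρ0; have h6 := R.ρ1; have h8 := R.qδ; have h9 := R.q0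
  refine ⟨N.dl0, N.core, N.ρ0, by linarith, N.bμ, ?_, by linarith, by linarith, N.strip, N.sepE, N.sepS, N.rs0, N.nearA, N.nearX⟩
  cases β <;> simp only [pvge2Aa, if_true, if_false, Bool.false_eq_true] <;> linarith

/-! ## 2. the tip foot at the model, one stop, D form -/

section model

variable {τ : Type} {c : ℝ} {𝔓 : PvxPar τ c} {𝔈 : PvieEng τ} {m : ℕ} {ε : ℝ} {z : ℂ} {t : τ} {μ μ' : ℝ} {η₀ η : Conf PvPt} {w : ∀ η : Conf PvPt, (delbPl (pvieY η)).Dart → ℂ} {T : PvjeTest}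
  {K₀ : Set (pvieY η₀)} {r r₁ ρ rs rt : ℝ} {ζ : ℂ}

/-- **THE FIRST LINK `t → door` AT A FINAL CONFIGURATION, THE END `t`, ONE STOP, ALL TIP CELLS** -/
theorem pvhj_foot_oM (hμ : 0 < μ) (h3 : 3 * μ ≤ pvlmDel c m) (hb : (𝔓.ty t).b * pvlmH m ≤ pviwRad 𝔓 m t) (hr : μ < (𝔓.ty t).b * pvlmH m)
    (hK : Disjoint (𝔈.oK m t) (pviwBox 𝔓 m t)) (hD : Disjoint (pviwDo 𝔓 𝔈 m ε t) (pviwBox 𝔓 m t))
    (hm : η₀ ∈ pvrgMesh μ (pvieSh z (pviwBox 𝔓 m t))) {𝔖₀ : PvwSt (pvieT η₀)} (h₀ : PvilOut 𝔓.num (𝔓.col t) (pvilPin 𝔓 m z t) η₀ 𝔖₀) (hF : PvjeFin (pvjeO 𝔓 𝔈 w m ε z t) T η₀ η)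
    (hMK : Disjoint (pvjeO 𝔓 𝔈 w m ε z t).M (pvjeO 𝔓 𝔈 w m ε z t).K) (hMD : Disjoint (pvjeO 𝔓 𝔈 w m ε z t).M (pvjeO 𝔓 𝔈 w m ε z t).D)
    (hμ' : 0 < μ') (hmM : η₀ ∈ pvrgMesh μ' (pvieSh z (𝔈.oM m t)))
    (E : PvhjEndD (pvieY η₀) 𝔓.num (pvlmH m) (𝔓.ty t) z ((𝔓.ty t).cp (pvlmH m) z) K₀ r r₁ ρ rs rt ζ)
    (ht1 : ‖((pvieT η₀).src (𝔖₀.ep 𝔖₀.np) : ℂ) - (𝔓.ty t).cp (pvlmH m) z‖ + 2 * ρ ≤ rt) (ht2 : ‖((pvieT η₀).tgt (𝔖₀.ep 𝔖₀.np) : ℂ) - (𝔓.ty t).cp (pvlmH m) z‖ + 2 * ρ ≤ rt)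
    (hU : closedBall ((𝔓.ty t).cp (pvlmH m) z) (rs + 4 * ρ + 3 * μ') ⊆ pvieSh z (𝔈.oM m t)) :
    ∃ 𝔖 : PvwSt (pvieT η), PvLocSP (pvfc7R η₀ η (pvtrCore (3 * μ) (pvfc7Wo 𝔓 m z t η₀))) 𝔖₀ 𝔖 ∧ PvilOut 𝔓.num (𝔓.col t) (pvilPin 𝔓 m z t) η 𝔖 ∧
      pvilFo 𝔓 m z t η = pvilFo 𝔓 m z t η₀ ∧ pvilZo 𝔓 m z t η = pvilZo 𝔓 m z t η₀ ∧
      ∃ κ : ℂ → Bool, cfOf (cfSites η) κ ∈ T.𝒦 ∧
        (∀ v' : pvieY η, (v' : ℂ) ∈ pvieSh z (𝔈.oM m t) ∪ pvieSh z (𝔈.oK m t) → (v' : ℂ) ∉ pvilFo 𝔓 m z t η₀ → pvieCol η (𝔓.col t) v' = pvhcK κ (𝔓.col t) v') ∧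
        (∀ v' : pvieY η, (v' : ℂ) ∈ pvieSh z (𝔈.oM m t) ∪ pvieSh z (𝔈.oK m t) → (v' : ℂ) ∉ pvwSq z (pviwRad 𝔓 m t) → pvieCol η (𝔓.col t) v' = pvhcK κ (𝔓.col t) v') ∧
        ∀ (K : Set (pvieY η)), (∀ v : pvieY η, ‖(v : ℂ) - (𝔓.ty t).cp (pvlmH m) z‖ < rs + 4 * ρ → v ∈ K) → ∀ (Sg GN GC : Bool → Set ℂ),
          (∀ β, PvhjArmT (pvieY η) (pvhcK κ (𝔓.col t)) β ζ ((𝔓.ty t).cp (pvlmH m) z) rt ρ rs β (GN β) (GC β) (Sg β)) →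
          PvhjFootP (delbPl (pvieY η)) (pvieCol η (𝔓.col t)) (pvhcK κ (𝔓.col t)) K (𝔖.ep 𝔖.np) GN := by
  obtain ⟨𝔖, G, hO, eF, eZ⟩ := pvfc7_fin_o hμ h3 hb hr hK hD hm h₀ hF
  have hFW : pvilFo 𝔓 m z t η₀ ⊆ pvfc7Wo 𝔓 m z t η₀ := (pvfc7_fo_core hb h₀).trans (pvfc7_core_sub (pvlm_Del_pos c m).le _)
  have hC := pvfc7_C_o (w := w) (z := z) (η₀ := η₀) hK hD
  have hKp : (pvjeO 𝔓 𝔈 w m ε z t).Fz η₀ ⊆ (pvjeO 𝔓 𝔈 w m ε z t).Kp ((pvjeO 𝔓 𝔈 w m ε z t).Hu η₀) := fun a ha =>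
    ⟨Or.inl ((pvfc7_Wo_eq 𝔓 m z t η₀).subset (hFW ha)), fun h => disjoint_left.1 hC h (hFW ha)⟩
  obtain ⟨κ, k1, k2, k3, k4, k5⟩ := pvhc_lines_out hF (pvhc_pin_fr 𝔓 m z t) h₀ rfl hKp hb
  refine ⟨𝔖, G, hO, eF, eZ, κ, k1, k4, k5, fun K hKK Sg GN GC A => ?_⟩
  have st := pvhc_st_out h₀
  have hρ := E.e.rho
  exact pvhj_foot_outU_pl (delb_pl_eq h₀.good) (delb_pl_eq hF.nice.good) hμ' (pvhc_sites hF (pvhc_M_kept hMK hMD _)) hmM st E ht1 ht2 hU A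
    (fun v v' e _ hv => k2 v v' e (pvwk_banksP_sub_fzOut 𝔖₀ hv))
    (fun v v' e hn hv => k3 v v' e (Or.inl (hU (by rw [mem_closedBall, dist_eq_norm]; linarith))) hv)
    hKK (pvhc_tip_out G).1 (pvhc_tip_out G).2

/-- **THE LAST LINK `door → t` AT A FINAL CONFIGURATION, THE END `t`, ONE STOP, ALL TIP CELLS** -/
theorem pvhj_foot_iM (hμ : 0 < μ) (h3 : 3 * μ ≤ pvlmDel c m) (hb : (𝔓.ty t).b * pvlmH m ≤ pviwRad 𝔓 m t) (hr : μ < (𝔓.ty t).b * pvlmH m)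
    (hK : Disjoint (𝔈.iK m t) (pviwBox 𝔓 m t)) (hD : Disjoint (pviwDi 𝔓 𝔈 m ε t) (pviwBox 𝔓 m t))
    (hm : η₀ ∈ pvrgMesh μ (pvieSh z (pviwBox 𝔓 m t))) {𝔖₀ : PvwSt (pvieT η₀)} (h₀ : PvilIn 𝔓.num (𝔓.col t) (pvilPin 𝔓 m z t) η₀ 𝔖₀) (hF : PvjeFin (pvjeI 𝔓 𝔈 w m ε z t) T η₀ η)
    (hMK : Disjoint (pvjeI 𝔓 𝔈 w m ε z t).M (pvjeI 𝔓 𝔈 w m ε z t).K) (hMD : Disjoint (pvjeI 𝔓 𝔈 w m ε z t).M (pvjeI 𝔓 𝔈 w m ε z t).D)
    (hμ' : 0 < μ') (hmM : η₀ ∈ pvrgMesh μ' (pvieSh z (𝔈.iM m t)))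
    (E : PvhjEndD (pvieY η₀) 𝔓.num (pvlmH m) (𝔓.ty t) z ((𝔓.ty t).cm (pvlmH m) z) K₀ r r₁ ρ rs rt ζ)
    (ht1 : ‖((pvieT η₀).src (𝔖₀.em 𝔖₀.nm) : ℂ) - (𝔓.ty t).cm (pvlmH m) z‖ + 2 * ρ ≤ rt) (ht2 : ‖((pvieT η₀).tgt (𝔖₀.em 𝔖₀.nm) : ℂ) - (𝔓.ty t).cm (pvlmH m) z‖ + 2 * ρ ≤ rt)
    (hU : closedBall ((𝔓.ty t).cm (pvlmH m) z) (rs + 4 * ρ + 3 * μ') ⊆ pvieSh z (𝔈.iM m t)) :
    ∃ 𝔖 : PvwSt (pvieT η), PvLocSM (pvfc7R η₀ η (pvtrCore (3 * μ) (pvfc7Wi 𝔓 m z t η₀))) 𝔖₀ 𝔖 ∧ PvilIn 𝔓.num (𝔓.col t) (pvilPin 𝔓 m z t) η 𝔖 ∧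
      pvilFi 𝔓 m z t η = pvilFi 𝔓 m z t η₀ ∧ pvilZi 𝔓 m z t η = pvilZi 𝔓 m z t η₀ ∧
      ∃ κ : ℂ → Bool, cfOf (cfSites η) κ ∈ T.𝒦 ∧
        (∀ v' : pvieY η, (v' : ℂ) ∈ pvieSh z (𝔈.iM m t) ∪ pvieSh z (𝔈.iK m t) → (v' : ℂ) ∉ pvilFi 𝔓 m z t η₀ → pvieCol η (𝔓.col t) v' = pvhcK κ (𝔓.col t) v') ∧
        (∀ v' : pvieY η, (v' : ℂ) ∈ pvieSh z (𝔈.iM m t) ∪ pvieSh z (𝔈.iK m t) → (v' : ℂ) ∉ pvwSq z (pviwRad 𝔓 m t) → pvieCol η (𝔓.col t) v' = pvhcK κ (𝔓.col t) v') ∧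
        ∀ (K : Set (pvieY η)), (∀ v : pvieY η, ‖(v : ℂ) - (𝔓.ty t).cm (pvlmH m) z‖ < rs + 4 * ρ → v ∈ K) → ∀ (Sg GN GC : Bool → Set ℂ),
          (∀ β, PvhjArmT (pvieY η) (pvhcK κ (𝔓.col t)) β ζ ((𝔓.ty t).cm (pvlmH m) z) rt ρ rs (!β) (GN β) (GC β) (Sg β)) →
          PvhjFootP (delbPl (pvieY η)) (pvieCol η (𝔓.col t)) (pvhcK κ (𝔓.col t)) K (𝔖.em 𝔖.nm) GN := by
  obtain ⟨𝔖, G, hO, eF, eZ⟩ := pvfc7_fin_i hμ h3 hb hr hK hD hm h₀ hF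
  have hFW : pvilFi 𝔓 m z t η₀ ⊆ pvfc7Wi 𝔓 m z t η₀ := (pvfc7_fi_core hb h₀).trans (pvfc7_core_sub (pvlm_Del_pos c m).le _)
  have hC := pvfc7_C_i (w := w) (z := z) (η₀ := η₀) hK hD
  have hKp : (pvjeI 𝔓 𝔈 w m ε z t).Fz η₀ ⊆ (pvjeI 𝔓 𝔈 w m ε z t).Kp ((pvjeI 𝔓 𝔈 w m ε z t).Hu η₀) := fun a ha =>
    ⟨Or.inl ((pvfc7_Wi_eq 𝔓 m z t η₀).subset (hFW ha)), fun h => disjoint_left.1 hC h (hFW ha)⟩
  obtain ⟨κ, k1, k2, k3, k4, k5⟩ := pvhc_lines_in hF (pvhc_pin_fr 𝔓 m z t) h₀ rfl hKp hb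
  refine ⟨𝔖, G, hO, eF, eZ, κ, k1, k4, k5, fun K hKK Sg GN GC A => ?_⟩
  have st := pvhc_st_in h₀
  have hρ := E.e.rho
  exact pvhj_foot_inU_pl (delb_pl_eq h₀.good) (delb_pl_eq hF.nice.good) hμ' (pvhc_sites hF (pvhc_M_kept hMK hMD _)) hmM st E ht1 ht2 hU A
    (fun v v' e _ hv => k2 v v' e (pvwk_banksM_sub_fzIn 𝔖₀ hv))
    (fun v v' e hn hv => k3 v v' e (Or.inl (hU (by rw [mem_closedBall, dist_eq_norm]; linarith))) hv)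
    hKK (pvhc_tip_in G).1 (pvhc_tip_in G).2

/-- **THE THICK LINK `reference plug → t` AT A FINAL CONFIGURATION, THE END `t`, ONE STOP, ALL TIP CELLS** -/
theorem pvhj_foot_eM (hμ : 0 < μ) (h3 : 3 * μ ≤ pvlmDel c m) (hb : (𝔓.ty t).b * pvlmH m ≤ pviwRad 𝔓 m t) (hr : μ < (𝔓.ty t).b * pvlmH m)
    (hK : Disjoint (𝔈.eK m t) (pviwBox 𝔓 m t)) (hD : Disjoint (pviwRo 𝔓 𝔈 m t) (pviwBox 𝔓 m t))
    (hm : η₀ ∈ pvrgMesh μ (pvieSh z (pviwBox 𝔓 m t))) {𝔖₀ : PvwSt (pvieT η₀)} (h₀ : PvilIn 𝔓.num (𝔓.col t) (pvilPin 𝔓 m z t) η₀ 𝔖₀) (hF : PvjeFin (pvjeE 𝔓 𝔈 w m ε z t) T η₀ η)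
    (hMK : Disjoint (pvjeE 𝔓 𝔈 w m ε z t).M (pvjeE 𝔓 𝔈 w m ε z t).K) (hMD : Disjoint (pvjeE 𝔓 𝔈 w m ε z t).M (pvjeE 𝔓 𝔈 w m ε z t).D)
    (hμ' : 0 < μ') (hmM : η₀ ∈ pvrgMesh μ' (pvieSh z (𝔈.eM m t)))
    (E : PvhjEndD (pvieY η₀) 𝔓.num (pvlmH m) (𝔓.ty t) z ((𝔓.ty t).cm (pvlmH m) z) K₀ r r₁ ρ rs rt ζ)
    (ht1 : ‖((pvieT η₀).src (𝔖₀.em 𝔖₀.nm) : ℂ) - (𝔓.ty t).cm (pvlmH m) z‖ + 2 * ρ ≤ rt) (ht2 : ‖((pvieT η₀).tgt (𝔖₀.em 𝔖₀.nm) : ℂ) - (𝔓.ty t).cm (pvlmH m) z‖ + 2 * ρ ≤ rt)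
    (hU : closedBall ((𝔓.ty t).cm (pvlmH m) z) (rs + 4 * ρ + 3 * μ') ⊆ pvieSh z (𝔈.eM m t)) :
    ∃ 𝔖 : PvwSt (pvieT η), PvLocSM (pvfc7R η₀ η (pvtrCore (3 * μ) (pvfc7Wi 𝔓 m z t η₀))) 𝔖₀ 𝔖 ∧ PvilIn 𝔓.num (𝔓.col t) (pvilPin 𝔓 m z t) η 𝔖 ∧
      pvilFi 𝔓 m z t η = pvilFi 𝔓 m z t η₀ ∧ pvilZi 𝔓 m z t η = pvilZi 𝔓 m z t η₀ ∧
      ∃ κ : ℂ → Bool, cfOf (cfSites η) κ ∈ T.𝒦 ∧
        (∀ v' : pvieY η, (v' : ℂ) ∈ pvieSh z (𝔈.eM m t) ∪ pvieSh z (𝔈.eK m t) → (v' : ℂ) ∉ pvilFi 𝔓 m z t η₀ → pvieCol η (𝔓.col t) v' = pvhcK κ (𝔓.col t) v') ∧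
        (∀ v' : pvieY η, (v' : ℂ) ∈ pvieSh z (𝔈.eM m t) ∪ pvieSh z (𝔈.eK m t) → (v' : ℂ) ∉ pvwSq z (pviwRad 𝔓 m t) → pvieCol η (𝔓.col t) v' = pvhcK κ (𝔓.col t) v') ∧
        ∀ (K : Set (pvieY η)), (∀ v : pvieY η, ‖(v : ℂ) - (𝔓.ty t).cm (pvlmH m) z‖ < rs + 4 * ρ → v ∈ K) → ∀ (Sg GN GC : Bool → Set ℂ),
          (∀ β, PvhjArmT (pvieY η) (pvhcK κ (𝔓.col t)) β ζ ((𝔓.ty t).cm (pvlmH m) z) rt ρ rs (!β) (GN β) (GC β) (Sg β)) →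
          PvhjFootP (delbPl (pvieY η)) (pvieCol η (𝔓.col t)) (pvhcK κ (𝔓.col t)) K (𝔖.em 𝔖.nm) GN := by
  obtain ⟨𝔖, G, hO, eF, eZ⟩ := pvfc7_fin_e hμ h3 hb hr hK hD hm h₀ hF
  have hFW : pvilFi 𝔓 m z t η₀ ⊆ pvfc7Wi 𝔓 m z t η₀ := (pvfc7_fi_core hb h₀).trans (pvfc7_core_sub (pvlm_Del_pos c m).le _)
  have hC := pvfc7_C_e (ε := ε) (w := w) (z := z) (η₀ := η₀) hK hD
  have hKp : (pvjeE 𝔓 𝔈 w m ε z t).Fz η₀ ⊆ (pvjeE 𝔓 𝔈 w m ε z t).Kp ((pvjeE 𝔓 𝔈 w m ε z t).Hu η₀) := fun a ha =>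
    ⟨Or.inl ((pvfc7_Wi_eq 𝔓 m z t η₀).subset (hFW ha)), fun h => disjoint_left.1 hC h (hFW ha)⟩
  obtain ⟨κ, k1, k2, k3, k4, k5⟩ := pvhc_lines_in hF (pvhc_pin_fr 𝔓 m z t) h₀ rfl hKp hb
  refine ⟨𝔖, G, hO, eF, eZ, κ, k1, k4, k5, fun K hKK Sg GN GC A => ?_⟩
  have st := pvhc_st_in h₀
  have hρ := E.e.rho
  exact pvhj_foot_inU_pl (delb_pl_eq h₀.good) (delb_pl_eq hF.nice.good) hμ' (pvhc_sites hF (pvhc_M_kept hMK hMD _)) hmM st E ht1 ht2 hU A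
    (fun v v' e _ hv => k2 v v' e (pvwk_banksM_sub_fzIn 𝔖₀ hv))
    (fun v v' e hn hv => k3 v v' e (Or.inl (hU (by rw [mem_closedBall, dist_eq_norm]; linarith))) hv)
    hKK (pvhc_tip_in G).1 (pvhc_tip_in G).2

end model


open Relation
open scoped ComplexConjugate

/-! ## 3. model free: `pvdd_pat_o` of 228 at the numbers of record of 298 -/

section recO

variable {Y : Set ℂ} {h : DelGood Y} {P : PlTri ↥Y} {K : Set Y} {c u : ℂ} {σ : Y → Bool} {κ : ℂ → Bool} {rt ρ : ℝ} {R₀ δ q dl ρl Sp lam : ℝ} {Rm : Bool → Set ℂ}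

/-- **FIRST LINK AT A FINAL CONFIGURATION, NUMBERS OF RECORD, FOOT FORM** (mirror of `pviy_rec_i` of 19) -/
theorem pvhj_rec_o (hP : P = delPl h) {a₀ : P.Dart} (h0 : pvasBW P.toMap σ a₀) (hu : ‖u‖ = 1)
    (foot : ∀ GN GC : Bool → Set ℂ, (∀ β, PvhjArmT Y κ β ((starRingEnd ℂ) u) c rt ρ (R₀ / 4) β (GN β) (GC β) (pvge2Cl c u β (pvge2Aa R₀ β) (23 * R₀ / 200) (3 * R₀ / 20) dl)) → PvhjFootP P σ κ K a₀ GN)
    (hK : K.Finite) (hco : ∀ u v, u ∉ K → v ∉ K → P.toMap.Join univ Kᶜ u v) (g : P.toMap.Gate σ) (hne : P.toMap.src a₀ ≠ g.vm)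
    (hO : ∃ f, P.toMap.src f ∉ K ∧ P.toMap.DJoin (pvldBar P.toMap σ K a₀ g.aIn) (P.toMap.opp a₀) f)
    (Rc : Pvge2Rec R₀ δ q dl ρl rt (2 * ρ) Sp lam) (hρ0 : 0 ≤ ρ) (he : rt + 2 * ρ < 21 * R₀ / 200)
    (hev : cfOf Y κ ∈ pvkqPat dl (pvge2PatRec c u true true R₀ q Sp lam))
    (hρl : dl / 16 ≤ ρl) (hdS : ∀ β, VorDense Y (pvge2Cl c u β (pvge2Aa R₀ β) (23 * R₀ / 200) (3 * R₀ / 20) dl) ρl)
    (mid : ∀ β, ∀ v : Y, (vorCell Y v ∩ pvge4Lane c u β R₀ q Sp (pvge2Aa R₀ β) (pvge2Lm lam β)).Nonempty → v ∈ K ∧ σ v = κ v)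
    (hroom : ∀ β, ∀ w ∈ Rm β, pvge2S c u w < Sp - 13 * q / 4 → pvge2Lm lam β + q / 2 ≤ pvge2T c u β w ∧ pvge2T c u β w ≤ pvge2Lm lam β + 3 * q / 2)
    (hH : ∀ β, ∃ v : Y, pvge2S c u (v : ℂ) ≤ Sp - 15 * q / 4 ∧ P.toMap.Join univ (pvldCol σ {u : Y | (u : ℂ) ∈ Rm β} β) (pvhiEnd P.toMap β g.aIn) v)
    (hfoot : ∀ β, Sp - 13 * q / 4 ≤ pvge2S c u ((pvhiEnd P.toMap β g.aIn : Y) : ℂ))
    (hRm : ∀ β, ∀ v : Y, (v : ℂ) ∈ Rm β → v ∈ K ∧ vorCell Y v ⊆ closedBall (v : ℂ) (q / 16))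
    (hRκ : ∀ β, ∀ v : Y, (v : ℂ) ∈ Rm β → pvge2S c u (v : ℂ) < Sp - 13 * q / 4 → σ v = κ v) :
    PvldRun P.toMap σ K a₀ g.aIn := by
  have h1' := Rc.δ0; have h3 := Rc.fine; have h4 := Rc.mesh; have h5 := Rc.dl0; have h9 := abs_le.1 Rc.lat; have h10 := Rc.qδ; have h11 := Rc.q0
  refine pvdd_pat_o (sd := fun β => β) (aa := pvge2Aa R₀) (ll := fun β => pvge2Lm lam β + q / 4) (l0 := fun β => pvge2Lm lam β + q / 2) (l1 := fun β => pvge2Lm lam β + 3 * q / 2) (sc := Sp - 13 * q / 4) (ρd := q / 16)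
    (e₀ := 21 * R₀ / 200) hP h0 hu foot hK hco g hne hO (pvhj_numD Rc) Rc.bar hρ0 he (fun β => ?_) hρl hdS mid (by linarith) (by linarith) hroom
    (fun β => by show pvge2Lm lam β + q / 4 + 3 / 2 * dl + q / 16 ≤ pvge2Lm lam β + q / 2; linarith) (fun β => ?_) (fun β => ?_) hfoot hRm hRκ
  · have := pvge2_patRec_ev hev β
    cases β <;> exact this
  · show pvge2Lm lam β + 3 * q / 2 + q / 16 + 3 / 2 * dl ≤ pvge2Aa R₀ β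
    cases β <;> simp only [pvge2Lm, pvge2Aa, if_true, if_false, Bool.false_eq_true] <;> linarith [h9.1, h9.2]
  · obtain ⟨v, hv, hj⟩ := hH β
    exact ⟨v, by linarith, hj⟩

end recO

/-! ## 4. the frame of the mouth against the frame of the door (`u = d`, entrance side of the door: picture `- conj d`) -/

section frameO

theorem pvhj_S_fr (c z₁ d w : ℂ) : pvge2S c d w = pvge2S c d z₁ - ((-(conj d) * w).re - (-(conj d) * z₁).re) := by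
  simp only [pvge2S, neg_mul, Complex.neg_re, Complex.mul_re, Complex.sub_re, Complex.sub_im, Complex.conj_re, Complex.conj_im]
  ring

theorem pvhj_T_fr (c z₁ d w : ℂ) (up : Bool) : pvge2T c d up w = pvge2T c d up z₁ - pvge2Sg up * ((-(conj d) * w).im - (-(conj d) * z₁).im) := by
  simp only [pvge2T, neg_mul, Complex.neg_im, Complex.mul_im, Complex.sub_re, Complex.sub_im, Complex.conj_re, Complex.conj_im]
  ring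

/-- a point within `a` of `z₁` -/
theorem pvhj_S_near {c z₁ d w : ℂ} {a : ℝ} (hd : ‖d‖ = 1) (hw : ‖w - z₁‖ ≤ a) : pvge2S c d z₁ - a ≤ pvge2S c d w := by
  have h1 := abs_le.1 ((pvge2_S_lip hd c w z₁).trans hw)
  linarith [h1.1]

end frameO

/-! ## 5. the door end: the side record of 173 (ENTRANCE side) in the frame of the mouth -/

section doorO

variable {b : Bool} {η : Conf PvPt} {z₁ d : ℂ} {a s : ℝ} {𝔱 : PvhfTr} {g : (pvkiT η).Gate (pvukS b η)}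

/-- **THE DOOR END OF THE FIRST LINK**: everything `pvhj_rec_o` asks at the door but the link region and the colours, from the entrance side record `S⁻` of 173.      `q = s a`, `Sp = S(z₁)`, `lam = T_true(z₁)`, rooms `Rm β = ` the placed truncated rooms of 174 -/
theorem pvhj_door_o (ha : 0 < a) (hs : 0 < s) (hd1 : ‖d‖ = 1) (hG : PvhfGeo (pvkdP a) 𝔱) (hL : 𝔱.Ln = (pvhfT a).Ln) (hD : 𝔱.Dr = (pvhfT a).Dr) (h : PvyoSd (pvkdP a) 𝔱 false b η z₁ d s g) (c : ℂ) :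
    (∀ β, ∀ w ∈ pvkdAt z₁ d ((pvhfT (s * a)).Ln false β), pvge2S c d w < pvge2S c d z₁ - 13 * (s * a) / 4 →
      pvge2Lm (pvge2T c d true z₁) β + s * a / 2 ≤ pvge2T c d β w ∧ pvge2T c d β w ≤ pvge2Lm (pvge2T c d true z₁) β + 3 * (s * a) / 2) ∧
    (∀ β, ∃ v : ↥(cfSites η), pvge2S c d (v : ℂ) ≤ pvge2S c d z₁ - 15 * (s * a) / 4 ∧
      (pvkiT η).Join univ (pvldCol (pvukS b η) {u : ↥(cfSites η) | (u : ℂ) ∈ pvkdAt z₁ d ((pvhfT (s * a)).Ln false β)} β) (pvhiEnd (pvkiT η) β g.aIn) v) ∧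
    (∀ β, pvge2S c d z₁ - 13 * (s * a) / 4 ≤ pvge2S c d ((pvhiEnd (pvkiT η) β g.aIn : ↥(cfSites η)) : ℂ)) ∧
    PvtrMesh (s * a / 16) (pvkdAt z₁ (d * s) (𝔱.Es false)) (cfSites η) ∧
    (∀ β, pvkdAt z₁ d ((pvhfT (s * a)).Ln false β) ⊆ pvtrCore (3 * (s * a / 16)) (pvkdAt z₁ (d * s) (𝔱.Es false))) := by
  have hq : 0 < s * a := mul_pos hs ha
  have hg := h.gate
  rw [pvdil_P hs] at hg
  have hb := h.black
  have hw := h.white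
  rw [hL, hD, pvvx_at_Ln hs, pvvx_at_Dr hs] at hb hw
  refine ⟨fun β w hw' hx => ?_, fun β => ?_, fun β => ?_, ?_, fun β => ?_⟩
  · rw [pvhj_S_fr c z₁ d w] at hx
    have h3 := pvvx_rec_Ln hd1 false β z₁ hw' (by show (-(conj d) * z₁).re + 3 * (s * a) < (-(conj d) * w).re; linarith)
    have h3a : (-(conj d) * z₁).im + pvvxLo (s * a) false β ≤ (-(conj d) * w).im := h3.1
    have h3b : (-(conj d) * w).im ≤ (-(conj d) * z₁).im + pvvxHi (s * a) false β := h3.2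
    rw [pvhj_T_fr c z₁ d w]
    cases β
    · have e1 : pvvxLo (s * a) false false = s * a / 2 := by simp [pvvxLo]
      have e2 : pvvxHi (s * a) false false = 3 * (s * a) / 2 := by simp [pvvxHi]
      rw [e1] at h3a
      rw [e2] at h3b
      simp only [pvge2Lm, pvge2Sg, if_true, if_false, Bool.false_eq_true, pviy_T_flip c d z₁]
      constructor <;> linarith
    · have e1 : pvvxLo (s * a) false true = -(3 * (s * a) / 2) := by simp [pvvxLo]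
      have e2 : pvvxHi (s * a) false true = -(s * a / 2) := by simp [pvvxHi]
      rw [e1] at h3a
      rw [e2] at h3b
      simp only [pvge2Lm, pvge2Sg, if_true, if_false, Bool.false_eq_true]
      constructor <;> linarith
  · have e' : pvhiEnd (pvkiT η) β g.aIn = pvkdFoot g false β := pvvx_end_foot g false β
    rw [e']
    cases β
    · obtain ⟨v, hv, hj⟩ := hw
      refine ⟨v, ?_, hj⟩
      have := pvvx_rec_Dr hd1 false false z₁ hv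
      have this' : (-(conj d) * z₁).re + 4 * (s * a) ≤ (-(conj d) * (v : ℂ)).re := this
      rw [pvhj_S_fr c z₁ d v]
      linarith
    · obtain ⟨v, hv, hj⟩ := hb
      refine ⟨v, ?_, hj⟩
      have := pvvx_rec_Dr hd1 false true z₁ hv
      have this' : (-(conj d) * z₁).re + 4 * (s * a) ≤ (-(conj d) * (v : ℂ)).re := this
      rw [pvhj_S_fr c z₁ d v]
      linarith
  · have e : pvhiEnd (pvkiT η) β g.aIn = pvkdFoot g false β := pvvx_end_foot g false β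
    rw [e]
    have hbl := pvvx_foot_ball hg false β
    have hbl' : ‖((pvkdFoot g false β : ↥(cfSites η)) : ℂ) - z₁‖ ≤ 2 * (s * a) := by
      have : ((pvkdFoot g false β : ↥(cfSites η)) : ℂ) ∈ ball z₁ (2 * (s * a)) := hbl
      rw [mem_ball, dist_eq_norm] at this
      exact this.le
    have := pvhj_S_near (c := c) hd1 hbl'
    linarith
  · have := h.mesh
    rwa [show s * (pvkdP a).ρ = s * a / 16 from by show s * (a / 16) = _; ring] at this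
  · have := pvvx_room_core_sc hG hd1 hs z₁ false β
    rwa [hL, pvvx_at_Ln hs, show 3 * (s * (pvkdP a).ρ) = 3 * (s * a / 16) from by show 3 * (s * (a / 16)) = _; ring] at this

end doorO

/-! ## 6. the regions of record at the parameters, absolute position -/

section regO

variable {τ : Type} {c : ℝ} {𝔓 : PvxPar τ c} {m : ℕ} {t : τ}

/-- abscissa of the exit door in the frame of the exit mouth -/
noncomputable def pvhjSp (𝔓 : PvxPar τ c) (m : ℕ) (t : τ) : ℝ := pvegS (pvegYp 𝔓 m t) ((𝔓.Γ m).dout t) ((𝔓.Γ m).pout t)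
/-- its lateral coordinate, side `true` -/
noncomputable def pvhjLam (𝔓 : PvxPar τ c) (m : ℕ) (t : τ) : ℝ := pvge2Sg true * pvegL (pvegYp 𝔓 m t) ((𝔓.Γ m).dout t) ((𝔓.Γ m).pout t)

theorem pvhj_eqns_citeM : True := by
  have := @pvhjSp.eq_1; have := @pvhjLam.eq_1
  trivial

theorem pvhj_S_Zo (𝔓 : PvxPar τ c) (m : ℕ) (z : ℂ) (t : τ) : pvge2S ((𝔓.ty t).cp (pvlmH m) z) ((𝔓.Γ m).dout t) (pvieZo 𝔓 m z t) = pvhjSp 𝔓 m t :=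
  pvge3_S_sh z (pvegYp 𝔓 m t) ((𝔓.Γ m).dout t) ((𝔓.Γ m).pout t)

theorem pvhj_T_Zo (𝔓 : PvxPar τ c) (m : ℕ) (z : ℂ) (t : τ) : pvge2T ((𝔓.ty t).cp (pvlmH m) z) ((𝔓.Γ m).dout t) true (pvieZo 𝔓 m z t) = pvhjLam 𝔓 m t := by
  show pvge2Sg true * pvegL (z + pvegYp 𝔓 m t) ((𝔓.Γ m).dout t) (z + (𝔓.Γ m).pout t) = _
  rw [pvge3_L_sh]
  rfl

/-- **(W)** the funnel before the door region lies in (mouth) ∪ (tile of record) -/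
theorem pvhj_mem_W_o (hL : PvegLev 𝔓 m) (hT : pviwTyOk 𝔓 t) {O₀ : ℕ → Set ℂ} (hO : O₀ m ⊆ pvccSq 0 (13 * pvge3Q c m / 4)) (z : ℂ) {v : ℂ}
    (h1 : pvegR 𝔓 m / 10 + 2 * pvlmDel c m ≤ pvge2S ((𝔓.ty t).cp (pvlmH m) z) ((𝔓.Γ m).dout t) v) (h2 : pvge2S ((𝔓.ty t).cp (pvlmH m) z) ((𝔓.Γ m).dout t) v ≤ pvhjSp 𝔓 m t - 13 * pvge3Q c m / 4)
    (h3 : |pvge2T ((𝔓.ty t).cp (pvlmH m) z) ((𝔓.Γ m).dout t) true v - pvhjLam 𝔓 m t| ≤ pvegR 𝔓 m / 5) : v ∈ pvieSh z (pvegOM 𝔓 m t) ∪ pvieSh z (pvegOKa 𝔓 O₀ m t) := by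
  have hq := pvge3_q_pos c m
  have eS : pvge2S ((𝔓.ty t).cp (pvlmH m) z) ((𝔓.Γ m).dout t) v = pvegS (pvegYp 𝔓 m t) ((𝔓.Γ m).dout t) (v - z) := by
    have := pvge3_S_sh z (pvegYp 𝔓 m t) ((𝔓.Γ m).dout t) (v - z)
    rwa [add_sub_cancel] at this
  have eL : pvge2T ((𝔓.ty t).cp (pvlmH m) z) ((𝔓.Γ m).dout t) true v = pvge2Sg true * pvegL (pvegYp 𝔓 m t) ((𝔓.Γ m).dout t) (v - z) := by
    have := pvge3_L_sh z (pvegYp 𝔓 m t) ((𝔓.Γ m).dout t) (v - z)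
    rw [add_sub_cancel] at this
    show pvge2Sg true * pvegL (z + pvegYp 𝔓 m t) ((𝔓.Γ m).dout t) v = _
    rw [this]
  rw [eS] at h1 h2
  rw [eL] at h3
  by_cases hb : v - z ∈ pvegOM 𝔓 m t
  · exact Or.inl (pvge3_mem_sh.2 hb)
  · refine Or.inr (pvge3_mem_sh.2 ⟨⟨⟨h1, ?_, ?_⟩, hb⟩, fun hvO => ?_⟩)
    · have : pvegA c m = pvge3Q c m / 4 := by unfold pvegA pvge3Q; ring
      unfold pvhjSp at h2
      linarith
    · have e : |pvegL (pvegYp 𝔓 m t) ((𝔓.Γ m).dout t) (v - z) - pvegL (pvegYp 𝔓 m t) ((𝔓.Γ m).dout t) ((𝔓.Γ m).pout t)| =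
          |pvge2Sg true * pvegL (pvegYp 𝔓 m t) ((𝔓.Γ m).dout t) (v - z) - pvhjLam 𝔓 m t| := by
        unfold pvhjLam
        rw [← mul_sub, abs_mul, pvge2_sg_abs, one_mul]
      rw [e]
      exact h3
    · have := pvge3_O_front (Y := pvegYp 𝔓 m t) (p := (𝔓.Γ m).pout t) (Or.inl (pvge3_dd_o hL hT)) hO (v - z) hvO
      unfold pvhjSp at h2
      linarith

/-- **(B)** a point in front of the side of the own-level box -/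
theorem pvhj_off_box_o (hL : PvegLev 𝔓 m) (hT : pviwTyOk 𝔓 t) (z : ℂ) {v : ℂ} (h : pvegR 𝔓 m / 10 < pvge2S ((𝔓.ty t).cp (pvlmH m) z) ((𝔓.Γ m).dout t) v) : v ∉ pvwSq z (pviwRad 𝔓 m t) := by
  intro hv
  have h1 := pviy_sq_side (pvho_dir_o hL t) hv
  have h2 := (abs_le.1 (pvho_side_o hL hT z)).2
  have e : pvge2S ((𝔓.ty t).cp (pvlmH m) z) ((𝔓.Γ m).dout t) v = ((starRingEnd ℂ) ((𝔓.Γ m).dout t) * v).re - ((starRingEnd ℂ) ((𝔓.Γ m).dout t) * (𝔓.ty t).cp (pvlmH m) z).re := by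
    unfold pvge2S
    rw [sub_mul, Complex.sub_re, mul_comm v, mul_comm ((𝔓.ty t).cp (pvlmH m) z)]
  rw [e] at h
  have e2 : pviwRad 𝔓 m t = pvwRad 𝔓.num (pvlmH m) (𝔓.ty t) (𝔓.ty t).k := rfl
  have e3 : pvegR 𝔓 m = 𝔓.num.rho * pvlmH m := rfl
  rw [e2] at h1
  rw [e3] at h
  linarith

end regO

/-! ## 7. the whole placed room of a half lane of the entrance side -/

section boxO

variable {z₁ d : ℂ} {r : ℝ}

theorem pvhj_Ln_box_o (hd : ‖d‖ = 1) (hr : 0 < r) (β : Bool) {w : ℂ} (hw : w ∈ pvkdAt z₁ d ((pvhfT r).Ln false β)) :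
    (-(conj d) * z₁).re + r / 2 ≤ (-(conj d) * w).re ∧ (-(conj d) * w).re ≤ (-(conj d) * z₁).re + 5 * r ∧ (-(conj d) * z₁).im - 3 * r / 2 ≤ (-(conj d) * w).im ∧ (-(conj d) * w).im ≤ (-(conj d) * z₁).im + 3 * r / 2 := by
  unfold pvkdAt at hw
  cases β
  · have hw' : w ∈ pvkdAt z₁ d (pvkdRect false (r / 2) (3 * r) (-(3 * r / 2)) (r / 2)) ∪ pvkdAt z₁ d (pvkdRect false (2 * r) (5 * r) (-(3 * r / 2)) (-(r / 2))) := by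
      unfold pvkdAt
      rw [← image_union]
      exact hw
    rcases hw' with h | h
    · obtain ⟨a1, a2, a3, a4⟩ := pvvx_rect hd false z₁ h
      simp only [pvvxZ, cond_false] at a1 a2 a3 a4
      refine ⟨?_, ?_, ?_, ?_⟩ <;> linarith
    · obtain ⟨a1, a2, a3, a4⟩ := pvvx_rect hd false z₁ h
      simp only [pvvxZ, cond_false] at a1 a2 a3 a4
      refine ⟨?_, ?_, ?_, ?_⟩ <;> linarith
  · have hw' : w ∈ pvkdAt z₁ d (pvkdRect false (r / 2) (3 * r) (-(r / 2)) (3 * r / 2)) ∪ pvkdAt z₁ d (pvkdRect false (2 * r) (5 * r) (r / 2) (3 * r / 2)) := by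
      unfold pvkdAt
      rw [← image_union]
      exact hw
    rcases hw' with h | h
    · obtain ⟨a1, a2, a3, a4⟩ := pvvx_rect hd false z₁ h
      simp only [pvvxZ, cond_false] at a1 a2 a3 a4
      refine ⟨?_, ?_, ?_, ?_⟩ <;> linarith
    · obtain ⟨a1, a2, a3, a4⟩ := pvvx_rect hd false z₁ h
      simp only [pvvxZ, cond_false] at a1 a2 a3 a4
      refine ⟨?_, ?_, ?_, ?_⟩ <;> linarith

/-- the room of a half lane of the entrance side in the frame of the mouth -/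
theorem pvhj_Ln_frame_o (hd : ‖d‖ = 1) (hr : 0 < r) (β : Bool) (c : ℂ) {w : ℂ} (hw : w ∈ pvkdAt z₁ d ((pvhfT r).Ln false β)) :
    pvge2S c d z₁ - 5 * r ≤ pvge2S c d w ∧ pvge2S c d w ≤ pvge2S c d z₁ - r / 2 ∧ |pvge2T c d true w - pvge2T c d true z₁| ≤ 3 * r / 2 := by
  obtain ⟨a1, a2, a3, a4⟩ := pvhj_Ln_box_o hd hr β hw
  rw [pvhj_S_fr c z₁ d w, pvhj_T_fr c z₁ d w]
  refine ⟨by linarith, by linarith, ?_⟩
  simp only [pvge2Sg, if_true]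
  rw [abs_le]
  constructor <;> linarith

end boxO

/-! ## 8. THE RUN -/

section mainO

variable {τ : Type} {c : ℝ} {𝔓 : PvxPar τ c} {𝔈 : PvieEng τ} {m : ℕ} {ε : ℝ} {z : ℂ} {t : τ} {η₀ η : Conf PvPt} {w : ∀ η : Conf PvPt, (delbPl (pvieY η)).Dart → ℂ} {T : PvjeTest}

/-- **WHAT THE RUN ASKS OF THE ROOM `Yr` OF THE FIRST LINK** (absolute position; frame of the exit mouth: `S`, `T` = abscissa and lateral coordinate, `R = ρ h`, `q = δ / 40`) -/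
structure PvhjRoomO (𝔓 : PvxPar τ c) (m : ℕ) (z : ℂ) (t : τ) (Yr : Set ℂ) : Prop where
  bdd : Bornology.IsBounded Yr
  co : IsPreconnected Yrᶜ
  /-- the small mouth with a collar -/
  ball : closedBall ((𝔓.ty t).cp (pvlmH m) z) (9 * pvegR 𝔓 m / 32) ⊆ Yr
  /-- the funnel, up to the plane `3 q / 8` in front of the door -/
  fnl : ∀ v : ℂ, 21 * pvegR 𝔓 m / 200 ≤ pvge2S ((𝔓.ty t).cp (pvlmH m) z) ((𝔓.Γ m).dout t) v → pvge2S ((𝔓.ty t).cp (pvlmH m) z) ((𝔓.Γ m).dout t) v ≤ pvhjSp 𝔓 m t - 3 * pvge3Q c m / 8 →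
    |pvge2T ((𝔓.ty t).cp (pvlmH m) z) ((𝔓.Γ m).dout t) true v - pvhjLam 𝔓 m t| ≤ 19 * pvegR 𝔓 m / 100 → v ∈ Yr
  /-- the room is off the disc of the core of the pin -/
  core : ∀ v ∈ Yr, (𝔓.ty t).b * pvlmH m ≤ ‖v - z‖

theorem pvhj_pat_rel_o (𝔓 : PvxPar τ c) (m : ℕ) (z : ℂ) (t : τ) : pvw7Fl (𝔓.col t) (pvge3PatO 𝔓 m z t) =
    pvge2PatRec ((𝔓.ty t).cp (pvlmH m) z) ((𝔓.Γ m).dout t) true true (pvegR 𝔓 m) (pvge3Q c m) (pvhjSp 𝔓 m t) (pvhjLam 𝔓 m t) := by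
  unfold pvge3PatO pvge3PatOb pvge2PatRec pvge2Pat pvw7Fl pvhjSp pvhjLam
  cases 𝔓.col t <;> rfl

/-- **(b3) + (b1): THE FIRST LINK SUCCEEDS AT EVERY FINAL CONFIGURATION, WITH THE HULL OF THE BASE.**      Mirror of `pviy_A` of 19.   Generic in the engine: mouth and tile of record (`eM eK eO hO`), ANY room with the contract `PvhjRoomO`, ANY tests whose pattern carries the pattern of record and a mesh `μ₁` of mouth ∪ tile,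
whose side event is the placed `S⁻` of 174 for ANY truncation with the lanes of record;   certificates AT THE BASE: mesh `μ₀` of the own-level box, of the mouth, of the big mouth. -/
theorem pvhj_A_o (n : PvhoNum 𝔓) (hL : PvegLev 𝔓 m) (hT : pviwTyOk 𝔓 t) (hf : 10000 * pvlmDel c m ≤ pvegR 𝔓 m)
    (hc : ∀ w ∈ 𝔓.cp t, ‖w - (𝔓.ty t).yp‖ ≤ 𝔓.num.rho / 10)
    {O₀ : ℕ → Set ℂ} (eM : 𝔈.oM m t = pvegOM 𝔓 m t) (eK : 𝔈.oK m t = pvegOKa 𝔓 O₀ m t) (eO : (𝔈.kit m ε).O₀ = O₀ m) (hO : O₀ m ⊆ pvccSq 0 (13 * pvge3Q c m / 4))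
    (hY : PvhjRoomO 𝔓 m z t (pvieSh z (𝔈.oY m t)))
    {μ₀ μ₁ : ℝ} (hμ₀ : 0 < μ₀) (h3 : 3 * μ₀ ≤ pvlmDel c m) (hr : μ₀ < (𝔓.ty t).b * pvlmH m) (hμ₁ : 0 < μ₁) (h32 : 32 * μ₁ ≤ pvge3Q c m)
    (hm : η₀ ∈ pvrgMesh μ₀ (pvieSh z (pviwBox 𝔓 m t))) (hmM : η₀ ∈ pvrgMesh μ₀ (pvieSh z (𝔈.oM m t)))
    (mesh : VorDense (pvieY η₀) (closedBall ((𝔓.ty t).cp (pvlmH m) z) (𝔓.num.rho2 * pvlmH m + 3 * μ₀)) μ₀)
    (hTK : T.𝒦 ⊆ pvkqPat (pvge3Dl c m) (pvge3PatO 𝔓 m z t)) (hTM : ∀ ξ ∈ T.𝒦, PvtrMesh μ₁ (pvieSh z (𝔈.oM m t) ∪ pvieSh z (𝔈.oK m t)) (cfSites ξ))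
    {𝔱 : PvhfTr} (hG : PvhfGeo (pvkdP (1 / 40)) 𝔱) (hLn : 𝔱.Ln = (pvhfT (1 / 40)).Ln) (hDr : 𝔱.Dr = (pvhfT (1 / 40)).Dr)
    (hTH : T.ℋ ⊆ pvdpPl (pvieZo 𝔓 m z t) ((𝔓.Γ m).dout t * pvlmDel c m) (𝔓.col t) (pvhfS (pvkdP (1 / 40)) 𝔱 false))
    (hU : η₀ ∈ pvilUo 𝔓.num (𝔓.col t) (pvilPin 𝔓 m z t)) (hF : PvjeFin (pvjeO 𝔓 𝔈 w m ε z t) T η₀ η) :
    η ∈ (pvilLo 𝔓 𝔈 m z t).A 𝔓.num (𝔓.col t) ∧ pvilZo 𝔓 m z t η = pvilZo 𝔓 m z t η₀ := by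
  obtain ⟨𝔖₀, h₀⟩ := hU
  have hδ := pvlm_Del_pos c m
  have hR : 0 < pvegR 𝔓 m := pveg_R_pos hL
  have eR : pvegR 𝔓 m = 𝔓.num.rho * pvlmH m := rfl
  have hq := pvge3_q_pos c m
  have eq : pvge3Q c m = pvlmDel c m / 40 := rfl
  have edl : pvge3Dl c m = pvlmDel c m / 1280 := rfl
  have hu : ‖(𝔓.Γ m).dout t‖ = 1 := pvge3_u_o hL hT
  obtain ⟨s1, s2, s3, s0⟩ := pvho_small n m
  have hOr : 13 * pvge3Q c m / 4 ≤ pvlmDel c m / 4 := by rw [eq]; linarith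
  -- the regions
  have hKoff : Disjoint (𝔈.oK m t) (pviwBox 𝔓 m t) := eK ▸ pveg_oKa_off hL hT O₀
  have hDoff : Disjoint (pviwDo 𝔓 𝔈 m ε t) (pviwBox 𝔓 m t) := by
    show Disjoint (pvthSim ((𝔓.Γ m).pout t) ((𝔓.Γ m).dout t) '' (𝔈.kit m ε).O₀) _
    rw [eO]
    exact pvho_door_off_o hL hT hO hOr
  have hpw := pveg_o_disj_a hL hT hO hOr
  simp only [List.pairwise_cons, List.mem_cons, List.not_mem_nil, or_false, forall_eq_or_imp, forall_eq, IsEmpty.forall_iff, implies_true, List.Pairwise.nil, and_true] at hpw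
  have hinj : Function.Injective (fun w : ℂ => z + w) := add_right_injective z
  have hMK : Disjoint (pvjeO 𝔓 𝔈 w m ε z t).M (pvjeO 𝔓 𝔈 w m ε z t).K := by
    show Disjoint (pvieSh z (𝔈.oM m t)) (pvieSh z (𝔈.oK m t))
    rw [eM, eK]
    exact (Set.disjoint_image_iff hinj).2 hpw.1.1
  have hMD : Disjoint (pvjeO 𝔓 𝔈 w m ε z t).M (pvjeO 𝔓 𝔈 w m ε z t).D := by
    show Disjoint (pvieSh z (𝔈.oM m t)) (pvthSim (z + (𝔓.Γ m).pout t) ((𝔓.Γ m).dout t) '' (𝔈.kit m ε).O₀)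
    rw [eM, eO, pvho_sh_sim]
    exact (Set.disjoint_image_iff hinj).2 hpw.1.2
  have eMb : pvieSh z (𝔈.oM m t) = closedBall ((𝔓.ty t).cp (pvlmH m) z) (5 * pvegR 𝔓 m / 16) := by rw [eM]; exact pvho_oM 𝔓 m t z
  -- the tip at the base
  have hb : (𝔓.ty t).b * pvlmH m ≤ pviwRad 𝔓 m t := by
    have := pvho_rad n m t
    have h4 := pvlm_H_pos m
    show _ ≤ pvwRad 𝔓.num (pvlmH m) (𝔓.ty t) (𝔓.ty t).k
    linarith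
  have tip := pvho_tip_o hc h₀ hμ₀ (pvho_dense_mono mesh (by linarith))
  have E : PvhjEndD (pvieY η₀) 𝔓.num (pvlmH m) (𝔓.ty t) z ((𝔓.ty t).cp (pvlmH m) z) univ (𝔓.num.rho2 * pvlmH m) (𝔓.num.rho * pvlmH m / 2) μ₀ (pvegR 𝔓 m / 4) (pvegR 𝔓 m / 10 + 4 * μ₀)
      ((starRingEnd ℂ) ((𝔓.Γ m).dout t)) :=
    pvho_endD_o n hL hT z hμ₀ (by rw [← eR]; linarith) (by rw [← eR]) (by rw [← eR]; linarith) (by rw [← eR]; linarith) (by rw [← eR]; linarith) mesh (fun _ _ => mem_univ _)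
  obtain ⟨𝔖', -, hp', -, eZ, κ, k1, -, k5, foot⟩ := pvhj_foot_oM hμ₀ h3 hb hr hKoff hDoff hm h₀ hF hMK hMD hμ₀ hmM E (by rw [eR]; linarith [tip.1]) (by rw [eR]; linarith [tip.2])
    (by rw [eMb]; exact closedBall_subset_closedBall (by linarith))
  refine ⟨?_, eZ⟩
  -- the final configuration: mesh of mouth ∪ tile, pattern in relative colours
  have hgood : DelGood (pvieY η) := hF.nice.good
  have hmW : PvtrMesh μ₁ (pvieSh z (𝔈.oM m t) ∪ pvieSh z (𝔈.oK m t)) (pvieY η) := by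
    have := hTM _ k1
    rwa [cfOf_sites] at this
  have hev : cfOf (pvieY η) (pvhcK κ (𝔓.col t)) ∈ pvkqPat (pvge3Dl c m)
      (pvge2PatRec ((𝔓.ty t).cp (pvlmH m) z) ((𝔓.Γ m).dout t) true true (pvegR 𝔓 m) (pvge3Q c m) (pvhjSp 𝔓 m t) (pvhjLam 𝔓 m t)) := by
    rw [← pvhj_pat_rel_o]
    exact (pvw7_pat_iff (cfSites η) κ (𝔓.col t) (pvge3Dl c m) (pvge3PatO 𝔓 m z t)).2 (hTK k1)
  have Rc : Pvge2Rec (pvegR 𝔓 m) (pvlmDel c m) (pvge3Q c m) (pvge3Dl c m) (pvlmDel c m / 1000) (pvegR 𝔓 m / 10 + 4 * μ₀) (2 * μ₀) (pvhjSp 𝔓 m t) (pvhjLam 𝔓 m t) :=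
    pvge3_rec_o hL hT hf (by linarith) (by linarith) (by linarith) (by linarith)
  have hSlo := Rc.s_lo
  have memW : ∀ v : ℂ, pvegR 𝔓 m / 10 + 2 * pvlmDel c m ≤ pvge2S ((𝔓.ty t).cp (pvlmH m) z) ((𝔓.Γ m).dout t) v → pvge2S ((𝔓.ty t).cp (pvlmH m) z) ((𝔓.Γ m).dout t) v ≤ pvhjSp 𝔓 m t - 13 * pvge3Q c m / 4 →
      |pvge2T ((𝔓.ty t).cp (pvlmH m) z) ((𝔓.Γ m).dout t) true v - pvhjLam 𝔓 m t| ≤ pvegR 𝔓 m / 5 → v ∈ pvieSh z (𝔈.oM m t) ∪ pvieSh z (𝔈.oK m t) := by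
    intro v a1 a2 a3
    rw [eM, eK]
    exact pvhj_mem_W_o hL hT hO z a1 a2 a3
  -- the door
  obtain ⟨g, hsd⟩ := pvyo_side hG false hu hδ hF.one hgood (hTH hF.side)
  have eqa : pvlmDel c m * (1 / 40) = pvge3Q c m := by rw [eq]; ring
  have hdoor : PvilDoor (pvkdP (pvge3Q c m)) (𝔓.col t) η (pvieZo 𝔓 m z t) ((𝔓.Γ m).dout t) (pvilStS (pvkdP (pvge3Q c m)) η (pvieCol η (𝔓.col t)) (pvieZo 𝔓 m z t) g) := by
    have := hsd.door hG hF.nice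
    rwa [pvdil_P hδ, eqa] at this
  obtain ⟨D1, D2, D3, D4, D5⟩ := pvhj_door_o (by norm_num : (0 : ℝ) < 1 / 40) hδ hu hG hLn hDr hsd ((𝔓.ty t).cp (pvlmH m) z)
  rw [eqa, pvhj_S_Zo] at D2 D3
  rw [eqa] at D4 D5
  simp only [eqa, pvhj_S_Zo, pvhj_T_Zo] at D1
  -- the link region
  obtain ⟨kf, kco⟩ := pvhj_K_pl (h := hgood) (delb_pl_eq hgood) hY.co (by rw [compl_compl]; exact hY.bdd)
  have hYd : ∀ A : Set ℂ, A ⊆ pvieSh z (𝔈.oY m t) → Disjoint A (pvieSh z (𝔈.oY m t))ᶜ := fun A hA => Set.disjoint_compl_right_iff_subset.2 hA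
  have tri : ∀ (x y : ℂ) (a b : ℝ), ‖y - (𝔓.ty t).cp (pvlmH m) z‖ ≤ a → x ∈ closedBall y b → x ∈ closedBall ((𝔓.ty t).cp (pvlmH m) z) (a + b) := by
    intro x y a b h1 h2
    rw [mem_closedBall, dist_eq_norm] at h2 ⊢
    have := pvhg_tri3 x y ((𝔓.ty t).cp (pvlmH m) z)
    linarith
  have inK : ∀ v : pvieY η, ‖(v : ℂ) - (𝔓.ty t).cp (pvlmH m) z‖ < pvegR 𝔓 m / 4 + 4 * μ₀ → v ∈ pvgeKV (pvieY η) (pvieSh z (𝔈.oY m t))ᶜ := by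
    intro v hv
    have hcore : (v : ℂ) ∈ pvtrCore (3 * μ₁) (pvieSh z (𝔈.oM m t) ∪ pvieSh z (𝔈.oK m t)) := by
      intro x hx
      refine Or.inl ?_
      rw [eMb]
      exact closedBall_subset_closedBall (by linarith) (tri x v _ _ hv.le hx)
    refine pvdd_mem_KV (pvdd_cell_ball hμ₁ hmW hcore) (hYd _ fun x hx => hY.ball ?_)
    exact closedBall_subset_closedBall (by linarith) (tri x v _ _ hv.le hx)
  -- the tip dart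
  have st := pvha_stp_pin hp'
  have hbw : pvasBW (pvieT η) (pvieCol η (𝔓.col t)) (𝔖'.ep 𝔖'.np) := pvwk_ep_bw hp'.st.stub hp'.st.gate.bw_p le_rfl
  have htc : ‖((pvieT η).src (𝔖'.ep 𝔖'.np) : ℂ) - (𝔓.ty t).cp (pvlmH m) z‖ ≤ pvegR 𝔓 m / 10 := by
    have h1 := pvho_cell hc (pvlm_H_pos m) hp'.tip
    have h2 : ‖((pvieT η).src (𝔖'.ep 𝔖'.np) : ℂ) - (𝔓.ty t).cp (pvlmH m) z‖ ≤ 𝔓.num.rho / 10 * pvlmH m := h1
    have h3 : 𝔓.num.rho / 10 * pvlmH m = 𝔓.num.rho * pvlmH m / 10 := by ring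
    rw [eR]
    linarith
  have hStip : pvge2S ((𝔓.ty t).cp (pvlmH m) z) ((𝔓.Γ m).dout t) (((pvieT η).src (𝔖'.ep 𝔖'.np) : pvieY η) : ℂ) ≤ pvegR 𝔓 m / 10 := by
    have h1 := pvge2_S_lip hu ((𝔓.ty t).cp (pvlmH m) z) (((pvieT η).src (𝔖'.ep 𝔖'.np) : pvieY η) : ℂ) ((𝔓.ty t).cp (pvlmH m) z)
    have h2 : pvge2S ((𝔓.ty t).cp (pvlmH m) z) ((𝔓.Γ m).dout t) ((𝔓.ty t).cp (pvlmH m) z) = 0 := by unfold pvge2S; simp
    rw [h2, sub_zero] at h1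
    exact (abs_le.1 (h1.trans htc)).2
  have hvm : pvhjSp 𝔓 m t - 13 * pvge3Q c m / 4 ≤ pvge2S ((𝔓.ty t).cp (pvlmH m) z) ((𝔓.Γ m).dout t) ((g.vm : pvieY η) : ℂ) := D3 true
  have hne : (pvieT η).src (𝔖'.ep 𝔖'.np) ≠ g.vm := by
    intro e
    rw [← e] at hvm
    linarith
  have hgK : 𝔖'.gp ∉ pvgeKV (pvieY η) (pvieSh z (𝔈.oY m t))ᶜ := fun hK =>
    absurd (pvhg_il_gp_disc (Or.inl rfl) hp') (not_lt.2 (hY.core _ (pvhg_KV_over hK)))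
  have ebx : pvhaBx 𝔓.num (pvilPin 𝔓 m z t) = pvwSq z (pviwRad 𝔓 m t) := pvha_bx_std (N := 𝔓.num) (pvhc_pin_fr 𝔓 m z t)
  have hbk : (pvieT η).src g.aIn ∉ 𝔖'.bkP := by
    rintro ⟨i, hi, e⟩
    have h1 := (st.ep_in i hi).1
    rw [e, ebx] at h1
    exact pvhj_off_box_o hL hT z (lt_of_lt_of_le (by linarith) hvm) h1
  have hOut : ∃ f, (pvieT η).src f ∉ pvgeKV (pvieY η) (pvieSh z (𝔈.oY m t))ᶜ ∧
      (pvieT η).DJoin (pvldBar (pvieT η) (pvieCol η (𝔓.col t)) (pvgeKV (pvieY η) (pvieSh z (𝔈.oY m t))ᶜ) (𝔖'.ep 𝔖'.np) g.aIn) ((pvieT η).opp (𝔖'.ep 𝔖'.np)) f :=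
    pvhj_out_stubT st hp'.st.gate.bw_p (inK _ (by linarith)) hgK (pvtg_aIn_bw g) hbk
  -- closing sets, lanes
  have eβ : ∀ β : Bool, (if β then true else !true) = β := fun β => by cases β <;> rfl
  have hdS : ∀ β, VorDense (pvieY η) (pvge2Cl ((𝔓.ty t).cp (pvlmH m) z) ((𝔓.Γ m).dout t) β (pvge2Aa (pvegR 𝔓 m) β) (23 * pvegR 𝔓 m / 200) (3 * pvegR 𝔓 m / 20) (pvge3Dl c m)) (pvlmDel c m / 1000) := by
    intro β
    refine pvdd_dense_of hmW (fun x hx y hy => Or.inl ?_) (by linarith)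
    have h1 : ‖x - (𝔓.ty t).cp (pvlmH m) z‖ ≤ pvegR 𝔓 m / 4 :=
      pvge2_arm_near hu (Rc.num β) ⟨x, Or.inr hx, by rw [sub_self, norm_zero]; linarith⟩
    rw [eMb]
    exact closedBall_subset_closedBall (by linarith) (tri y x _ _ h1 hy)
  have mid : ∀ β, ∀ v : pvieY η, (vorCell (pvieY η) v ∩ pvge4Lane ((𝔓.ty t).cp (pvlmH m) z) ((𝔓.Γ m).dout t) β (pvegR 𝔓 m) (pvge3Q c m) (pvhjSp 𝔓 m t) (pvge2Aa (pvegR 𝔓 m) β) (pvge2Lm (pvhjLam 𝔓 m t) β)).Nonempty →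
      v ∈ pvgeKV (pvieY η) (pvieSh z (𝔈.oY m t))ᶜ ∧ pvieCol η (𝔓.col t) v = pvhcK κ (𝔓.col t) v := by
    intro β
    have nb : ∀ ρ' : ℝ, ρ' ≤ pvge3Q c m / 8 → ∀ x ∈ vorNbd (pvge4Lane ((𝔓.ty t).cp (pvlmH m) z) ((𝔓.Γ m).dout t) β (pvegR 𝔓 m) (pvge3Q c m) (pvhjSp 𝔓 m t) (pvge2Aa (pvegR 𝔓 m) β) (pvge2Lm (pvhjLam 𝔓 m t) β)) ρ',
        21 * pvegR 𝔓 m / 200 ≤ pvge2S ((𝔓.ty t).cp (pvlmH m) z) ((𝔓.Γ m).dout t) x ∧ pvge2S ((𝔓.ty t).cp (pvlmH m) z) ((𝔓.Γ m).dout t) x ≤ pvhjSp 𝔓 m t - 27 * pvge3Q c m / 8 ∧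
          |pvge2T ((𝔓.ty t).cp (pvlmH m) z) ((𝔓.Γ m).dout t) true x - pvhjLam 𝔓 m t| ≤ 19 * pvegR 𝔓 m / 100 := by
      intro ρ' hρ' x hx
      have hx' : x ∈ vorNbd (pvge4Lane ((𝔓.ty t).cp (pvlmH m) z) ((𝔓.Γ m).dout t) (if β then true else !true) (pvegR 𝔓 m) (pvge3Q c m) (pvhjSp 𝔓 m t) (pvge2Aa (pvegR 𝔓 m) β) (pvge2Lm (pvhjLam 𝔓 m t) β)) ρ' := by
        rw [eβ β]; exact hx
      exact pviy_lane_nbd hu Rc β hρ' hx'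
    refine pvdd_mid_of hμ₁ hmW (fun x hx y hy => ?_) (hYd _ fun x hx => ?_) (fun v hv => ?_)
    · obtain ⟨a1, a2, a3⟩ := nb (4 * μ₁) (by linarith) y ⟨x, hx, by rwa [mem_closedBall, dist_eq_norm] at hy⟩
      exact memW y (by linarith) (by linarith) (by linarith)
    · obtain ⟨a1, a2, a3⟩ := nb (2 * μ₁) (by linarith) x hx
      exact hY.fnl x a1 (by linarith) a3
    · obtain ⟨a1, a2, a3⟩ := nb μ₁ (by linarith) v hv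
      exact k5 v (memW v (by linarith) (by linarith) (by linarith)) (pvhj_off_box_o hL hT z (by linarith))
  -- the rooms of the half lanes
  have hRm : ∀ β, ∀ v : pvieY η, (v : ℂ) ∈ pvkdAt (pvieZo 𝔓 m z t) ((𝔓.Γ m).dout t) ((pvhfT (pvge3Q c m)).Ln false β) →
      v ∈ pvgeKV (pvieY η) (pvieSh z (𝔈.oY m t))ᶜ ∧ vorCell (pvieY η) v ⊆ closedBall (v : ℂ) (pvge3Q c m / 16) := by
    intro β
    refine pvdd_room_of (by linarith) D4 (D5 β) (hYd _ ?_)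
    rintro x ⟨y, hy, hxy⟩
    obtain ⟨a1, a2, a3⟩ := pvhj_Ln_frame_o hu hq β ((𝔓.ty t).cp (pvlmH m) z) hy
    rw [pvhj_S_Zo] at a1 a2
    rw [pvhj_T_Zo] at a3
    have hS := abs_le.1 ((pvge2_S_lip hu ((𝔓.ty t).cp (pvlmH m) z) x y).trans hxy)
    have hT' := abs_le.1 ((pvge2_T_lip hu ((𝔓.ty t).cp (pvlmH m) z) true x y).trans hxy)
    have a3' := abs_le.1 a3
    refine hY.fnl x (by linarith [hS.1]) (by linarith [hS.2]) ?_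
    rw [abs_le]
    constructor <;> linarith [hT'.1, hT'.2, a3'.1, a3'.2]
  have hRκ : ∀ β, ∀ v : pvieY η, (v : ℂ) ∈ pvkdAt (pvieZo 𝔓 m z t) ((𝔓.Γ m).dout t) ((pvhfT (pvge3Q c m)).Ln false β) →
      pvge2S ((𝔓.ty t).cp (pvlmH m) z) ((𝔓.Γ m).dout t) (v : ℂ) < pvhjSp 𝔓 m t - 13 * pvge3Q c m / 4 → pvieCol η (𝔓.col t) v = pvhcK κ (𝔓.col t) v := by
    intro β v hv hx
    obtain ⟨a1, a2, a3⟩ := pvhj_Ln_frame_o hu hq β ((𝔓.ty t).cp (pvlmH m) z) hv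
    rw [pvhj_S_Zo] at a1 a2
    rw [pvhj_T_Zo] at a3
    exact k5 v (memW v (by linarith) hx.le (by linarith)) (pvhj_off_box_o hL hT z (by linarith))
  -- the run
  have hrun : PvldRun (pvieT η) (pvieCol η (𝔓.col t)) (pvgeKV (pvieY η) (pvieSh z (𝔈.oY m t))ᶜ) (𝔖'.ep 𝔖'.np) g.aIn :=
    pvhj_rec_o (h := hgood) (delb_pl_eq hgood) hbw hu (fun GN GC A => foot _ inK _ GN GC A) kf kco g hne hOut Rc hμ₀.le (by linarith) hev (by rw [edl]; linarith) hdS mid D1 D2 D3 hRm hRκ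
  exact pvha_A_pd (L := pvilLo 𝔓 𝔈 m z t) (K := pvgeKV (pvieY η) (pvieSh z (𝔈.oY m t))ᶜ) rfl rfl hp' hdoor hgK (fun v hv => pvhg_KV_over hv) hrun

end mainO

/-! ## 9. the room with collar of 245 -/

section roomO

variable {τ : Type} {c : ℝ} {𝔓 : PvxPar τ c} {m : ℕ} {t : τ}

theorem pvhj_cp (𝔓 : PvxPar τ c) (m : ℕ) (z : ℂ) (t : τ) : (𝔓.ty t).cp (pvlmH m) z = z + pvegYp 𝔓 m t := rfl

theorem pvhj_S_sh (𝔓 : PvxPar τ c) (m : ℕ) (z : ℂ) (t : τ) (v : ℂ) : pvge2S ((𝔓.ty t).cp (pvlmH m) z) ((𝔓.Γ m).dout t) v = pvegS (pvegYp 𝔓 m t) ((𝔓.Γ m).dout t) (v - z) := by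
  have := pvge3_S_sh z (pvegYp 𝔓 m t) ((𝔓.Γ m).dout t) (v - z)
  rwa [add_sub_cancel] at this

theorem pvhj_T_sh (𝔓 : PvxPar τ c) (m : ℕ) (z : ℂ) (t : τ) (v : ℂ) : |pvge2T ((𝔓.ty t).cp (pvlmH m) z) ((𝔓.Γ m).dout t) true v - pvhjLam 𝔓 m t| =
    |pvegL (pvegYp 𝔓 m t) ((𝔓.Γ m).dout t) (v - z) - pvegL (pvegYp 𝔓 m t) ((𝔓.Γ m).dout t) ((𝔓.Γ m).pout t)| := by
  have h := pvge3_L_sh z (pvegYp 𝔓 m t) ((𝔓.Γ m).dout t) (v - z)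
  rw [add_sub_cancel] at h
  have e : pvge2T ((𝔓.ty t).cp (pvlmH m) z) ((𝔓.Γ m).dout t) true v = pvge2Sg true * pvegL (pvegYp 𝔓 m t) ((𝔓.Γ m).dout t) (v - z) := by
    show pvge2Sg true * pvegL (z + pvegYp 𝔓 m t) ((𝔓.Γ m).dout t) v = _
    rw [h]
  rw [e]
  unfold pvhjLam
  rw [← mul_sub, abs_mul, pvge2_sg_abs, one_mul]

/-- **THE ROOM OF RECORD `pvegOYc` (245) HAS THE CONTRACT OF THE RUN** -/
theorem pvhj_room_c (n : PvhoNum 𝔓) (hL : PvegLev 𝔓 m) (hT : pviwTyOk 𝔓 t) (hf : 10000 * pvlmDel c m ≤ pvegR 𝔓 m) (h0 : 0 ≤ pvilMu 𝔓 m) (z : ℂ) : PvhjRoomO 𝔓 m z t (pvieSh z (pvegOYc 𝔓 m t)) where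
  bdd := by
    have h : pvieSh z (pvegOYc 𝔓 m t) ⊆ closedBall (z + pvegYp 𝔓 m t) (pvegR 𝔓 m / 2) := (image_mono (pvey_oYc_bdd hL h0 hT)).trans (pveg_sh_ball _ _ _).subset
    exact isBounded_closedBall.subset h
  co := by
    have h := pvey_oYc_hole hL h0 hT
    have e : (pvieSh z (pvegOYc 𝔓 m t))ᶜ = (fun w : ℂ => z + w) '' (pvegOYc 𝔓 m t)ᶜ := (Set.image_compl_eq (AddGroup.addLeft_bijective z)).symm
    rw [e]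
    exact h.image _ (continuous_const.add continuous_id).continuousOn
  ball := by
    intro v hv
    have hδ := pvlm_Del_pos c m
    have hμ := pvey_mu_le (𝔓 := 𝔓) m
    rw [mem_closedBall, dist_eq_norm] at hv
    refine pvge3_mem_sh.2 (pvey_mem_ball ?_)
    have e : v - z - pvegYp 𝔓 m t = v - (𝔓.ty t).cp (pvlmH m) z := by rw [pvhj_cp]; ring
    rw [e]
    linarith
  fnl := by
    intro v h1 h2 h3
    have hδ := pvlm_Del_pos c m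
    have hμ := pvey_mu_le (𝔓 := 𝔓) m
    have eq : pvge3Q c m = pvlmDel c m / 40 := rfl
    have eA : pvegA c m = pvlmDel c m / 160 := rfl
    rw [pvhj_S_sh] at h1 h2
    rw [pvhj_T_sh] at h3
    unfold pvhjSp at h2
    exact pvge3_mem_sh.2 (pvey_mem_fun (by linarith) (by linarith) (by linarith))
  core := by
    intro v hv
    have h1 : v ∈ closedBall (z + pvegYp 𝔓 m t) (pvegR 𝔓 m / 2) := ((image_mono (pvey_oYc_bdd hL h0 hT)).trans (pveg_sh_ball _ _ _).subset) hv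
    rw [mem_closedBall, dist_eq_norm] at h1
    have h1' : ‖v - (𝔓.ty t).cp (pvlmH m) z‖ ≤ pvegR 𝔓 m / 2 := h1
    have h2 := pvho_far_o hL hT z v
    have h3 := pvho_rad n m t
    obtain ⟨s1, s2, s3, s0⟩ := pvho_small n m
    have hh := pvlm_H_pos m
    have eR : pvegR 𝔓 m = 𝔓.num.rho * pvlmH m := rfl
    rw [eR] at h1'
    linarith

end roomO

/-! ## 10. the statements of `exit_pvj0_link`, `exit_pvj0_hull` -/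

section recE

open MeasureTheory Filter Topology
open scoped ENNReal

variable {c : ℝ}

/-- **[DET.ev] (b1) (b2) (b3) OF THE FIRST LINK AT THE ENGINE OF RECORD AND THE TESTS OF RECORD** -/
theorem pvhj_A_rec (c0 : 0 < c) (N : PvxNums) (hN : N.Ok) (nb : PvnaNb N) (q₀ : ℝ) {m : ℕ} (hm : (pvxParOf N hN c).m0 ≤ m) (ε : ℝ) (z : ℂ) (t : pvxTau N)
    {η₀ : Conf PvPt} (hU : η₀ ∈ pvilUo (pvxParOf N hN c).num ((pvxParOf N hN c).col t) (pvilPin (pvxParOf N hN c) m z t)) (hMc : η₀ ∈ pvj0Mc (pvxParOf N hN c) m z t)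
    {η : Conf PvPt} (hF : PvjeFin (pvjeO (pvxParOf N hN c) (pvnaEngRec N hN c nb) pvilQ m ε z t) (pvj0T (pvxParOf N hN c) (pvnaEngRec N hN c nb) q₀ nb.b m z t) η₀ η) :
    η ∈ (pvilLo (pvxParOf N hN c) (pvnaEngRec N hN c nb) m z t).A (pvxParOf N hN c).num ((pvxParOf N hN c).col t) ∧ pvilZo (pvxParOf N hN c) m z t η = pvilZo (pvxParOf N hN c) m z t η₀ := by
  have hδ := pvlm_Del_pos c m
  have hμ := pvim9_Mu_le (c := c) hN m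
  have hμ0 := pvim9_Mu_pos (c := c) hN m
  have eq : pvge3Q c m = pvlmDel c m / 40 := rfl
  have n := pvho_num_par hN c
  have hL := pvqh_lev hN c0 hm
  have hT := pvqh_tyOk hN c t
  have hf := pvuo_fine hN c0 hm
  have eR : pvegR (pvxParOf N hN c) m = (pvxParOf N hN c).num.rho * pvlmH m := rfl
  have h3 : 3 * (pvilMu (pvxParOf N hN c) m / 20) ≤ pvlmDel c m := by linarith
  have cert : η₀ ∈ pvrgMesh (pvilMu (pvxParOf N hN c) m / 20) (closedBall z (2 * pviwRad (pvxParOf N hN c) m t + 4 * pvlmH m)) := hMc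
  have hK : (pvj0T (pvxParOf N hN c) (pvnaEngRec N hN c nb) q₀ nb.b m z t).𝒦 ⊆ pvkqPat (pvge3Dl c m) (pvge3PatO (pvxParOf N hN c) m z t) := inter_subset_left
  have hM : ∀ ξ ∈ (pvj0T (pvxParOf N hN c) (pvnaEngRec N hN c nb) q₀ nb.b m z t).𝒦,
      PvtrMesh (pvilMu (pvxParOf N hN c) m / 20) (pvieSh z ((pvnaEngRec N hN c nb).oM m t) ∪ pvieSh z ((pvnaEngRec N hN c nb).oK m t)) (cfSites ξ) := fun ξ hξ => pvjo_mesh_of hξ.2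
  have hH : (pvj0T (pvxParOf N hN c) (pvnaEngRec N hN c nb) q₀ nb.b m z t).ℋ ⊆
      pvdpPl (pvieZo (pvxParOf N hN c) m z t) (((pvxParOf N hN c).Γ m).dout t * pvlmDel c m) ((pvxParOf N hN c).col t) (pvhfS (pvkdP (1 / 40)) (pvnaT N) false) :=
    pvdp_Pl_mono _ _ _ (pvna_Hf_S N 2).subset
  have hroom : PvhjRoomO (pvxParOf N hN c) m z t (pvieSh z ((pvnaEngRec N hN c nb).oY m t)) := by
    rw [pvnr_oY]
    exact pvhj_room_c n hL hT hf hμ0.le z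
  exact pvhj_A_o n hL hT hf (pvqh_cp hN c t)
    (pvnr_oM N hN c nb m t) (pvnr_oK N hN c nb m t) (pviy_rec_eO hN nb m ε) (pviy_rec_O hN nb m) hroom
    (μ₀ := pvilMu (pvxParOf N hN c) m / 20) (μ₁ := pvilMu (pvxParOf N hN c) m / 20) (by positivity) h3 (pvjv_carf_hr (pvxParOf N hN c) (pvxo_wf N hN c).toWfB h3 t)
    (by positivity) (by rw [eq]; linarith)
    (pvho_cert_box n hL z cert) (by rw [pvnr_oM]; exact pvho_cert_oM n hT z cert) (pvho_cert_o n hT z (by rw [← eR]; linarith) cert) hK hM (pvna_geo hN) rfl rfl hH hU hF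

/-- **THE STATEMENT OF `exit_pvj0_link`** (`Exit/FrcO`) VERBATIM -/
theorem pvhj_link_rec (c0 : 0 < c) (N : PvxNums) (hN : N.Ok) (nb : PvnaNb N) (q₀ : ℝ) {m : ℕ} (hm : (pvxParOf N hN c).m0 ≤ m) (z : ℂ) (t : pvxTau N) :
    ∀ᶠ ε in 𝓝[>] (0 : ℝ), ∀ η₀ ∈ pvilUo (pvxParOf N hN c).num ((pvxParOf N hN c).col t) (pvilPin (pvxParOf N hN c) m z t), η₀ ∈ pvj0Mc (pvxParOf N hN c) m z t → CfOK η₀ →
      ∀ η, PvjeFin (pvjeO (pvxParOf N hN c) (pvnaEngRec N hN c nb) pvilQ m ε z t) (pvj0T (pvxParOf N hN c) (pvnaEngRec N hN c nb) q₀ nb.b m z t) η₀ η →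
        η ∈ (pvilLo (pvxParOf N hN c) (pvnaEngRec N hN c nb) m z t).A (pvxParOf N hN c).num ((pvxParOf N hN c).col t) :=
  Eventually.of_forall fun ε η₀ hU hMc _ η hF => (pvhj_A_rec c0 N hN nb q₀ hm ε z t hU hMc hF).1

/-- **THE STATEMENT OF `exit_pvj0_hull`** (`Exit/FrcO`) VERBATIM -/
theorem pvhj_hull_rec (c0 : 0 < c) (N : PvxNums) (hN : N.Ok) (nb : PvnaNb N) (q₀ : ℝ) {m : ℕ} (hm : (pvxParOf N hN c).m0 ≤ m) (z : ℂ) (t : pvxTau N) :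
    ∀ᶠ ε in 𝓝[>] (0 : ℝ), ∀ η₀ ∈ pvilUo (pvxParOf N hN c).num ((pvxParOf N hN c).col t) (pvilPin (pvxParOf N hN c) m z t), η₀ ∈ pvj0Mc (pvxParOf N hN c) m z t → CfOK η₀ →
      ∀ η, PvjeFin (pvjeO (pvxParOf N hN c) (pvnaEngRec N hN c nb) pvilQ m ε z t) (pvj0T (pvxParOf N hN c) (pvnaEngRec N hN c nb) q₀ nb.b m z t) η₀ η →
        pvilZo (pvxParOf N hN c) m z t η = pvilZo (pvxParOf N hN c) m z t η₀ :=
  Eventually.of_forall fun ε η₀ hU hMc _ η hF => (pvhj_A_rec c0 N hN nb q₀ hm ε z t hU hMc hF).2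

end recE

end Claimed.Agent.R289
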