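import Claimed.Agent.R289.Tr.ForceW
import Claimed.Agent.R289.Tr.LaneW
import Claimed.Agent.R289.Tr.ForceS
import Claimed.Agent.R289.Tr.Arc
import Claimed.Agent.R289.Tr.GateN

/-!
# Row 289 (S0537, Cardy for Poisson-Voronoi), THE WALL, ROAD P, item P16' = THE WHITE LANE, file Tr/ForceWI : THE INSTANCE ON THE STATES OF 185      (helper147, squad of helper272; prefix `pvqw_`, `pvqw`, `Pvqw`)

`Tr/ForceW.lean` proves the abstract white lane (`pvfw_lane`, `pvfw_lane_P`) from named hypotheses on the two side events and on the net of the link.      THIS FILE DISCHARGES THEM on `Tr/StateP.lean` (185), `Tr/Lane.lean` (229), `Tr/LaneW.lean` (277).      0 sorry here.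
CONSUMERS: 279 `Tr/N1Q.lean` (`PvnwGeo.W`, fields `hq stabW rW` of `PvnwGeo.Hyp`), 59 + 225 `Tr/N1SysP.lean`, 159 `PvdmSys.Hyp`;   68 `Tr/ForceS.lean` (sec. 1-2 = up-ness of ALL the five events).
* sec. 1 (LEVEL A, any map)   `pvqwLn 𝔯 k` (lane of the side path), `pvqwCl c k` (its colour);   **`pvqw_pred_mono`** : colours kept on a set `Z` of vertices which contains the stars of the vertices marked in `S₂`, colour of the side path kept along its lane ⟹ `PvspPred 𝔯 c k` is kept.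
* sec. 2 (LEVEL B, FIXED SITES `Y`, `DelGood Y`)   `PvqwPl 𝔯 c k Y f` (the predicate in the Delaunay plane of `Y`, colours `f : ℂ → Bool`),   **`pvqw_evt_iff`** (dictionary: `cfOf Y s ∈ pvspEvt N t z h k ↔ finite ∧ mesh ∧ PvqwPl ..`),
     **`pvqw_evt_mono`** (colours of `Y ∩ O` kept + monotone along the lane),   **`pvqw_rd`** (`PvfwRd Y (O ∪ lane)`: SHARP reading, no collar),   **`pvqw_inc`** (`PvfwInc` on the cylinder of any `F ⊇ Y ∩ O`).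
* sec. 3 (the net)   `K = pvlnLaneEv δ c L` of 229:   `pvqw_net_reads _rd _mono _inc`;   **`pvqwHl q δ c L`** `= {ξ | q ≤ pvpQ (pvlnW δ L) c K ξ}` = THE GOOD GEOMETRIES OF THE LINK:   `pvqw_Hl_reads`, `pvqw_Hl_geo` (blind to ALL colours), **`pvqw_Hl_of_good`** (`PvmwGood` of 277 ⟹ good: cost by `pvmw_good_prob`).
* sec. 4 (THE EVENT OF RECORD)   `PvqwDat` (two placed candidates + walk `L`),   **`𝔇.W = L^{+,w}(s) ∩ L^{-,w}(t) ∩ Net`**,   `𝔇.O2`, `𝔇.Tw` (fresh sites read), `𝔇.Win` (window);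
     `pvqw_W_meas`, **`pvqw_W_reads`** (field `rW`), **`pvqw_W_stab`**, **`pvqw_W_stabW`** (field `stabW` of `PvdmSys.Hyp` VERBATIM, `col = true`), **`pvqw_W_hq`** (field `hq`: `q β² ≤ colLaw ℂ {κ | cfOf Y (pvdmOv Fᶜ κ σ) ∈ W}`).
* sec. 5 (HALF EVENTS, D3 of 59)   `pvqwHp N t z h`, `pvqwHm N t z h` (exit / entrance half of `Hq`):   `pvqw_Hq_sub`, `pvqw_Gq_sub`, `pvqw_Hp_reads` (window `Ep`), `pvqw_Hm_reads` (window `Em`), `pvqw_Q_congr`, **`pvqw_Hp_stab`, `pvqw_Hm_stab`** (events of the sites and of the colours of `O`: what `stabE` asks),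
     **`pvqw_W_hq'`** = field `hq` on `Hp(s) ∩ Hm(t) ∩ pvqwHl` (FORM OF RECORD).
* sec. 6 (FOR CLOSE)   `𝔇.Hook` (full walk + the two hook zones `PvfpZone` of 272: pure cell geometry), `𝔇.Tc` (`T_w` in the continuum),   **`pvqw_W_link`** (`JoinedIn (pvlnReg b η ∩ Tc) x x'`, `x ∈ pvfvR .. s η`, `x' ∈ pvfvR .. t η` of 68),   `pvqw_W_net`,
     **`pvqw_W_join`** (`(delMap _).Join univ (pvkqV _ _ b (thickening ρ Tc)) a b`: sites of the colour of the lane from the right arc of `S₂(s)` to the right arc of `S₂(t)`).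
* sec. 7 (NUMBERS, COST)   `pvqwQ0` (constant of QBX), **`pvqwQ3 n = pvqwQ0 ^ (15 n) / 2`** (`q3` of a walk of `≤ n` cells), `pvqw_Q3_pos`,   `pvqw_Hl_prob`, **`pvqw_Hl_lim`** : `(pvhbUp ε).P {q | pvConf (pvMerge q) ∉ pvqwHl (pvqwQ3 n) δ c L} → 0` as `ε ↓ 0` (hypothesis `hE` of `pvra_cover_cut` of 286).
* sec. 8 (FOR CLOSE, MAP OF RECORD, GIVEN STATES `𝔖s 𝔖t` with `.At`)   `pvqw_rib` (`T.Join univ g.R u v`), `pvqw_R_unique`, `pvqw_W_joinA` (`∃ a ∈ 𝔖s.g2.R, ∃ b ∈ 𝔖t.g2.R`, joined in `{white, mark in thickening ρ Tc}`),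
     **`pvqw_W_joinF`** : `T.Join univ ({white ∧ mark ∈ thickening ρ Tc} ∪ 𝔖s.g2.R ∪ 𝔖t.g2.R) (T.tgt 𝔖t.g2.aIn) (T.tgt 𝔖s.g2.aOut)`,   **`pvqw_W_mono`** : `T.Mono s r r'` for ALL `r ∈ 𝔖s.g2.R`, `r' ∈ 𝔖t.g2.R` (`hw` of `pvgz_close`, `pvgz_wall_link`, `pvgz_link_gfaced`).
WARNING (for the records above): `W` names the right arc `S_R` of the gates, so it is monotone ONLY ON THE CYLINDER of the two states (`stabW` must be asked in the form of `PvdmSys.Hyp`, not unconditionally).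
-/

set_option autoImplicit false
set_option linter.unusedSectionVars false
set_option linter.unusedVariables false

namespace Claimed.Agent.R289

open MeasureTheory ProbabilityTheory Set Metric Claims.C0465
open scoped ENNReal

/-! ## 1. LEVEL A: the five predicates of 185 are frozen on the star zone and monotone along their lane -/

/-- the lane of the side path number `k` -/
def pvqwLn {κ : Type} (𝔯 : PvspReg κ) : PvspKind → Set κ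
  | .has => ∅
  | .pb => 𝔯 .Np
  | .pw => 𝔯 .Mp
  | .mb => 𝔯 .Nm
  | .mw => 𝔯 .Mm

/-- the colour of the side path number `k` (`c` = the colour of the rim) -/
def pvqwCl (c : Bool) : PvspKind → Bool
  | .has => c
  | .pb => c
  | .pw => !c
  | .mb => c
  | .mw => !c

theorem pvqw_eqns_cite : True := by
  have := @pvqwLn.eq_1; have := @pvqwCl.eq_1
  trivial

section levelA

variable {V D κ : Type}

theorem pvqw_S_true {c : Bool} {s : V → Bool} {x : V} : pvspS c s x = true ↔ s x = c := by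
  unfold pvspS
  exact beq_iff_eq

theorem pvqw_S_false {c : Bool} {s : V → Bool} {x : V} : pvspS c s x = false ↔ s x = !c := by
  unfold pvspS
  cases s x <;> cases c <;> simp

/-- **MONOTONE TRANSFER** (level A): the colours of a set `Z` of vertices which contains the stars of the vertices marked in `S₂` are kept, along the lane the colour of the side path is kept: the predicate is kept -/
theorem pvqw_pred_mono {T : PvMap V D} (hS : T.Simple) {mk : V → κ} {𝔯 : PvspReg κ} (hN : 𝔯.Nest) (c : Bool) (k : PvspKind) {s s' : V → Bool} {Z : Set V}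
    (hZ : ∀ d, mk (T.src d) ∈ 𝔯 .S2 → T.src d ∈ Z ∧ T.tgt d ∈ Z ∧ T.apex d ∈ Z) (hs : ∀ v ∈ Z, s' v = s v)
    (hp : ∀ v, mk v ∈ pvqwLn 𝔯 k → s v = pvqwCl c k → s' v = pvqwCl c k) (h : PvspPred 𝔯 c k V D T mk s) : PvspPred 𝔯 c k V D T mk s' := by
  obtain ⟨hst, 𝔖, hA, hside⟩ := h
  have iso : PvplIso T mk s T mk s' (𝔯 .S2) (fun u u' => u = u' ∧ u ∈ Z) :=
    { mark := by rintro u _ ⟨rfl, -⟩; rfl
      col := by rintro u _ ⟨rfl, hu⟩; exact hs u hu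
      fn := by rintro u _ _ ⟨rfl, -⟩ ⟨rfl, -⟩; rfl
      inj := by rintro u v _ ⟨rfl, -⟩ ⟨rfl, -⟩; rfl
      ex := fun d hd => ⟨d, ⟨rfl, (hZ d hd).1⟩, ⟨rfl, (hZ d hd).2.1⟩, ⟨rfl, (hZ d hd).2.2⟩⟩
      ex' := fun d hd => ⟨d, ⟨rfl, (hZ d hd).1⟩, ⟨rfl, (hZ d hd).2.1⟩, ⟨rfl, (hZ d hd).2.2⟩⟩ }
  obtain ⟨𝔖', hA', hm, hcc⟩ := pvsp_tr_at hN (pvsp_tr_S iso c) hS hS hst hA
  refine ⟨hst, 𝔖', hA', ?_⟩
  have hvp : ({𝔖.g2.vp} : Set V) ⊆ {𝔖'.g2.vp} := by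
    rintro a rfl
    show T.src (𝔖.g2.c.e 𝔖.g2.m) = T.src (𝔖'.g2.c.e 𝔖'.g2.m)
    rw [hm]
    exact (hcc _).1.1
  have hvm : ({𝔖.g2.vm} : Set V) ⊆ {𝔖'.g2.vm} := by
    rintro a rfl
    exact (hcc 0).1.1
  have hfo : ({T.tgt 𝔖.g2.aOut} : Set V) ⊆ {T.tgt 𝔖'.g2.aOut} := by
    rintro a rfl
    show T.tgt 𝔖.g2.aOut = T.tgt 𝔖'.g2.aOut
    rw [pvtg_aOut_tgt, pvtg_aOut_tgt, hm]
    exact (hcc _).1.1
  have hfi : ({T.tgt 𝔖.g2.aIn} : Set V) ⊆ {T.tgt 𝔖'.g2.aIn} := by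
    rintro a rfl
    show T.tgt 𝔖.g2.aIn = T.tgt 𝔖'.g2.aIn
    rw [pvtg_aIn_tgt, pvtg_aIn_tgt]
    exact (hcc 1).1.1
  cases k
  · trivial
  · exact (PvspPath.mono hside hvp Subset.rfl Subset.rfl).recolor fun x hx hc => pvqw_S_true.2 (hp x hx (pvqw_S_true.1 hc))
  · exact (PvspPath.mono hside hfo Subset.rfl Subset.rfl).recolor fun x hx hc => pvqw_S_false.2 (hp x hx (pvqw_S_false.1 hc))
  · exact (PvspPath.mono hside hvm Subset.rfl Subset.rfl).recolor fun x hx hc => pvqw_S_true.2 (hp x hx (pvqw_S_true.1 hc))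
  · exact (PvspPath.mono hside hfi Subset.rfl Subset.rfl).recolor fun x hx hc => pvqw_S_false.2 (hp x hx (pvqw_S_false.1 hc))

end levelA

/-! ## 2. LEVEL B: the five events of a candidate at a FIXED set of sites, as events of the colouring -/

/-- the predicate number `k` in the Delaunay plane of the sites `A`, colours = a function on the plane -/
def PvqwPl (𝔯 : PvspReg ℂ) (c : Bool) (k : PvspKind) (A : Set ℂ) (f : ℂ → Bool) : Prop :=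
  PvspPred 𝔯 c k _ _ (delbPl A).toMap (fun v : ↥A => v.1) (fun v : ↥A => f v.1)

theorem pvqw_eqns_cite2 : True := by
  have := @PvqwPl.eq_1
  trivial

theorem pvqw_pl_congr {𝔯 : PvspReg ℂ} {c : Bool} {k : PvspKind} {A : Set ℂ} {f f' : ℂ → Bool} (h : ∀ z ∈ A, f z = f' z) : PvqwPl 𝔯 c k A f ↔ PvqwPl 𝔯 c k A f' := by
  have e : (fun v : ↥A => f v.1) = fun v : ↥A => f' v.1 := funext fun v => h v.1 v.2
  unfold PvqwPl
  rw [e]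

theorem pvqw_col_cfOf {Y : Set ℂ} (s : ℂ → Bool) {z : ℂ} (hz : z ∈ Y) : cfCol (cfOf Y s) z = s z := by
  classical
  have e : cfCol (cfOf Y s) z = decide ((z, true) ∈ (cfOf Y s).pts) := by
    unfold cfCol
    congr
  rw [e]
  by_cases h : s z = true
  · rw [h, decide_eq_true_eq]
    exact ⟨hz, h.symm⟩
  · rw [Bool.not_eq_true] at h
    rw [h, decide_eq_false_iff_not]
    rintro ⟨-, h2⟩
    have h3 : true = s z := h2
    rw [h] at h3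
    exact Bool.noConfusion h3

theorem pvqw_fin_cfOf (Y E : Set ℂ) (s : ℂ → Bool) : PvtnFin E (cfOf Y s) ↔ (Y ∩ E).Finite := by
  unfold PvtnFin
  constructor
  · intro h
    refine (h.image Prod.fst).subset ?_
    rintro z ⟨hz, hE⟩
    exact ⟨(z, s z), ⟨⟨hz, rfl⟩, ⟨hE, mem_univ _⟩⟩, rfl⟩
  · intro h
    refine (h.image fun z => (z, s z)).subset ?_
    rintro ⟨z, b⟩ ⟨⟨hz, hb⟩, hE, -⟩
    exact ⟨z, ⟨hz, hE⟩, Prod.ext rfl hb.symm⟩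

section levelB

variable {N : PvspNum} {t : PvspTy} {z : ℂ} {h : ℝ}

/-- **DICTIONARY AT FIXED SITES** -/
theorem pvqw_evt_iff (hW : t.Wf N z h) (k : PvspKind) {Y : Set ℂ} (hY : DelGood Y) (s : ℂ → Bool) :
    cfOf Y s ∈ pvspEvt N t z h k ↔ (Y ∩ t.win N z h k).Finite ∧ PvtrMesh (N.mu * h) (t.win N z h k) Y ∧ PvqwPl (t.reg N z h) t.col k Y s := by
  have e : cfSites (cfOf Y s) = Y := pvfw_sites_cfOf Y s
  have h1 := pvsp_evt_plane hW k (η := cfOf Y s) (by rw [e]; exact hY)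
  have h2 : PvspPred (t.reg N z h) t.col k _ _ (delbPlane.T (cfSites (cfOf Y s))) (delbPlane.pos (cfSites (cfOf Y s))) (delbPlane.col (cfOf Y s) Empty.elim)
      ↔ PvqwPl (t.reg N z h) t.col k (cfSites (cfOf Y s)) (cfCol (cfOf Y s)) := Iff.rfl
  rw [h1, h2, e, pvqw_fin_cfOf, pvqw_pl_congr fun w hw => pvqw_col_cfOf s hw]

/-- the star of a site of the star zone `S₂` lies in `O` -/
theorem pvqw_star_O (hW : t.Wf N z h) {Y : Set ℂ} (hm : PvtrMesh (N.mu * h) (pvspO N t z h) Y) (d : (delbPl Y).Dart) (hd : ((delbPl Y).toMap.src d).1 ∈ t.reg N z h .S2) :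
    ((delbPl Y).toMap.src d).1 ∈ pvspO N t z h ∧ ((delbPl Y).toMap.tgt d).1 ∈ pvspO N t z h ∧ ((delbPl Y).toMap.apex d).1 ∈ pvspO N t z h := by
  have hr := pvtr_of_mesh_vertex hW.rho0 hm (hW.S2_core hd) (delb_plane_face d)
  exact ⟨hr.mem_a.2, hr.mem_b.2, hr.mem_c.2⟩

/-- **MONOTONE TRANSFER AT FIXED SITES**: the colours of the sites of `O` are kept, along the lane the colour of the side path is kept: the event is kept -/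
theorem pvqw_evt_mono (hW : t.Wf N z h) (k : PvspKind) {Y : Set ℂ} (hY : DelGood Y) {s s' : ℂ → Bool} (hO : ∀ w ∈ Y, w ∈ pvspO N t z h → s' w = s w)
    (hp : ∀ w ∈ Y, w ∈ pvqwLn (t.reg N z h) k → s w = pvqwCl t.col k → s' w = pvqwCl t.col k) (hs : cfOf Y s ∈ pvspEvt N t z h k) : cfOf Y s' ∈ pvspEvt N t z h k := by
  obtain ⟨h1, h2, h3⟩ := (pvqw_evt_iff hW k hY s).1 hs
  refine (pvqw_evt_iff hW k hY s').2 ⟨h1, h2, ?_⟩
  have hmO : PvtrMesh (N.mu * h) (pvspO N t z h) Y := VorDense.mono h2 Subset.rfl (pvtr_core_mono (hW.O_sub_win k)) le_rfl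
  exact pvqw_pred_mono (delbPl Y).toMap_simple hW.nest t.col k (Z := {v : ↥Y | v.1 ∈ pvspO N t z h}) (fun d hd => pvqw_star_O hW hmO d hd)
    (fun v hv => hO v.1 v.2 hv) (fun v hv hc => hp v.1 v.2 hv hc) h3

/-- **READING**: at fixed sites the event number `k` reads the colours of `O` and of its lane -/
theorem pvqw_rd (hW : t.Wf N z h) (k : PvspKind) {Y : Set ℂ} (hY : DelGood Y) : PvfwRd Y (pvspO N t z h ∪ pvqwLn (t.reg N z h) k) (pvspEvt N t z h k) :=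
  fun s s' e hs => pvqw_evt_mono hW k hY (fun w hw hO => (e w hw (Or.inl hO)).symm) (fun w hw hL hc => (e w hw (Or.inr hL)).symm.trans hc) hs

/-- **UP-NESS ON THE CYLINDER**: the colours of `F ⊇ Y ∩ O` being frozen, more sites of the colour of the side path keep the event -/
theorem pvqw_inc (hW : t.Wf N z h) (k : PvspKind) {Y F : Set ℂ} (hY : DelGood Y) (hF : Y ∩ pvspO N t z h ⊆ F) (σ : ℂ → Bool) : PvfwInc (pvqwCl t.col k) Y F σ (pvspEvt N t z h k) :=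
  fun s s' e e' hb hs => pvqw_evt_mono hW k hY (fun w hw hO => (e' w hw (hF ⟨hw, hO⟩)).trans (e w hw (hF ⟨hw, hO⟩)).symm) (fun w hw _ hc => hb w hw hc) hs

/-- THE FOOT (ruling P13): the foot room of the white exit path is FROZEN: off `O` the room is the lane -/
theorem pvqw_room_p (hW : t.Wf N z h) : pvqwLn (t.reg N z h) .pw \ pvspO N t z h = t.Mp \ pvspO N t z h := by
  ext w
  exact ⟨fun hw => ⟨hw.1.resolve_right fun h1 => hw.2 (pvfv_S2_sub_O hW h1.2), hw.2⟩, fun hw => ⟨Or.inl hw.1, hw.2⟩⟩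

/-- THE FOOT (ruling P13), entrance -/
theorem pvqw_room_m (hW : t.Wf N z h) : pvqwLn (t.reg N z h) .mw \ pvspO N t z h = t.Mm \ pvspO N t z h := by
  ext w
  exact ⟨fun hw => ⟨hw.1.resolve_right fun h1 => hw.2 (pvfv_S2_sub_O hW h1.2), hw.2⟩, fun hw => ⟨Or.inl hw.1, hw.2⟩⟩

/-- reading of the white exit event, in the words of the lane -/
theorem pvqw_rd_p (hW : t.Wf N z h) {Y : Set ℂ} (hY : DelGood Y) : PvfwRd Y (pvspO N t z h ∪ t.Mp) (pvspEvt N t z h .pw) :=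
  fun s s' e hs => pvqw_rd hW .pw hY s s' (fun w hw hwR => e w hw (hwR.elim Or.inl fun h1 => h1.elim Or.inr fun h2 => Or.inl (pvfv_S2_sub_O hW h2.2))) hs

/-- reading of the white entrance event, in the words of the lane -/
theorem pvqw_rd_m (hW : t.Wf N z h) {Y : Set ℂ} (hY : DelGood Y) : PvfwRd Y (pvspO N t z h ∪ t.Mm) (pvspEvt N t z h .mw) :=
  fun s s' e hs => pvqw_rd hW .mw hY s s' (fun w hw hwR => e w hw (hwR.elim Or.inl fun h1 => h1.elim Or.inr fun h2 => Or.inl (pvfv_S2_sub_O hW h2.2))) hs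

/-- the rooms of the white paths are bounded -/
theorem pvqw_room_bdd_p (hW : t.Wf N z h) : Bornology.IsBounded (pvqwLn (t.reg N z h) .pw) :=
  (hW.win_bdd .pw).subset ((subset_union_right.trans (hW.K_core .pw)).trans (pvtr_core_subset (by have := hW.rho0; positivity)))

theorem pvqw_room_bdd_m (hW : t.Wf N z h) : Bornology.IsBounded (pvqwLn (t.reg N z h) .mw) :=
  (hW.win_bdd .mw).subset ((subset_union_right.trans (hW.K_core .mw)).trans (pvtr_core_subset (by have := hW.rho0; positivity)))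

end levelB

/-! ## 3. the net of the link (lane event of 229 on a walk of cells) at fixed sites -/

section net

theorem pvqw_restr_cfOf {Y R : Set ℂ} {s s' : ℂ → Bool} (h : ∀ z ∈ Y, z ∈ R → s z = s' z) :
    Conf.restr (R ×ˢ (univ : Set Bool)) (cfOf Y s) = Conf.restr (R ×ˢ (univ : Set Bool)) (cfOf Y s') := by
  ext p
  simp only [Conf.restr, cfOf, mem_inter_iff, mem_ofPred_eq]
  constructor
  · rintro ⟨⟨h1, h2⟩, h3⟩
    exact ⟨⟨h1, by rw [h2, h _ h1 h3.1]⟩, h3⟩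
  · rintro ⟨⟨h1, h2⟩, h3⟩
    exact ⟨⟨h1, by rw [h2, h _ h1 h3.1]⟩, h3⟩

/-- an event which is read from the window `R × Bool` reads, at fixed sites, the colours of `R` -/
theorem pvqw_rd_of_reads {R : Set ℂ} {𝒜 : Set (Conf PvPt)} (h : Conf.ReadsSet (R ×ˢ univ) 𝒜) (Y : Set ℂ) : PvfwRd Y R 𝒜 := by
  intro s s' e hs
  rw [← h, ← pvqw_restr_cfOf e, h]
  exact hs

theorem pvqw_finite {Y : Set ℂ} (hY : VorLF Y) {S : Set ℂ} (hS : Bornology.IsBounded S) : (Y ∩ S).Finite := by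
  obtain ⟨R, hR⟩ := hS.subset_closedBall (0 : ℂ)
  exact (hY R).subset (inter_subset_inter_right _ hR)

theorem pvqw_net_reads (δ : ℝ) (c : Bool) (L : List (ℤ × ℤ)) : Conf.ReadsSet (pvlnW δ L ×ˢ univ) (pvlnLaneEv δ c L) := pvln_loc_reads _ _ _ _ _

theorem pvqw_net_rd (δ : ℝ) (c : Bool) (L : List (ℤ × ℤ)) (Y : Set ℂ) : PvfwRd Y (pvlnW δ L) (pvlnLaneEv δ c L) := pvqw_rd_of_reads (pvqw_net_reads δ c L) Y

/-- more sites of the colour `c` in the window keep the net of the colour `c` -/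
theorem pvqw_net_mono (δ : ℝ) (c : Bool) (L : List (ℤ × ℤ)) {Y : Set ℂ} {s s' : ℂ → Bool} (h : ∀ z ∈ Y, z ∈ pvlnW δ L → s z = c → s' z = c)
    (hs : cfOf Y s ∈ pvlnLaneEv δ c L) : cfOf Y s' ∈ pvlnLaneEv δ c L := by
  set Nw := pvlnW δ L with hNw
  obtain ⟨⟨h1, h2⟩, h3⟩ := hs
  -- the map which recolours the points
  have hmap : ∀ p : PvPt, p ∈ (Conf.restr (Nw ×ˢ univ) (cfOf Y s')).pts → (p.1, s p.1) ∈ (Conf.restr (Nw ×ˢ univ) (cfOf Y s)).pts := by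
    rintro p ⟨⟨hp, -⟩, hN, -⟩
    exact ⟨⟨hp, rfl⟩, hN, mem_univ _⟩
  have hmap' : ∀ p : PvPt, p ∈ (Conf.restr (Nw ×ˢ univ) (cfOf Y s)).pts → (p.1, s' p.1) ∈ (Conf.restr (Nw ×ˢ univ) (cfOf Y s')).pts := by
    rintro p ⟨⟨hp, -⟩, hN, -⟩
    exact ⟨⟨hp, rfl⟩, hN, mem_univ _⟩
  refine ⟨⟨?_, ?_⟩, ?_⟩
  · -- the patterns
    intro e he
    have hc : ∀ v, (v, c) ∈ (Conf.restr (Nw ×ˢ univ) (cfOf Y s)).pts → (v, c) ∈ (Conf.restr (Nw ×ˢ univ) (cfOf Y s')).pts := by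
      rintro v ⟨⟨hv, hvc⟩, hN⟩
      exact ⟨⟨hv, (h v hv hN.1 hvc.symm).symm⟩, hN⟩
    have hn : ∀ v, (v, !c) ∈ (Conf.restr (Nw ×ˢ univ) (cfOf Y s')).pts → (v, !c) ∈ (Conf.restr (Nw ×ˢ univ) (cfOf Y s)).pts := by
      rintro v ⟨⟨hv, hvc⟩, hN⟩
      refine ⟨⟨hv, ?_⟩, hN⟩
      show (!c) = s v
      have hvc' : (!c) = s' v := hvc
      by_contra hne
      have : s v = c := by
        revert hne
        cases s v <;> cases c <;> simp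
      have h4 := h v hv hN.1 this
      rw [h4] at hvc'
      revert hvc'
      cases c <;> simp
    cases c
    · exact pvlq_holds_mono (pvlq_reg_mono (η := Conf.restr (Nw ×ˢ univ) (cfOf Y s')) (η' := Conf.restr (Nw ×ˢ univ) (cfOf Y s)) ⟨hn, hc⟩).2 (h1 e he)
    · exact pvlq_holds_mono (pvlq_reg_mono (η := Conf.restr (Nw ×ˢ univ) (cfOf Y s)) (η' := Conf.restr (Nw ×ˢ univ) (cfOf Y s')) ⟨hc, hn⟩).1 (h1 e he)
  · -- local finiteness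
    intro k
    refine ((h2 k).image fun p => (p.1, s' p.1)).subset ?_
    rintro p ⟨hp, hk⟩
    refine ⟨(p.1, s p.1), ⟨hmap p hp, hk⟩, ?_⟩
    exact Prod.ext rfl hp.1.2.symm
  · -- the mesh
    intro w hw
    have h0 := h3 w hw
    simp only [pvmGood, pvmGrid, mem_iInter] at h0 ⊢
    intro k hk
    obtain ⟨p, hp, hpQ⟩ := h0 k hk
    exact ⟨(p.1, s' p.1), hmap' p hp, ⟨hpQ.1, mem_univ _⟩⟩

theorem pvqw_net_inc (δ : ℝ) (c : Bool) (L : List (ℤ × ℤ)) (Y F : Set ℂ) (σ : ℂ → Bool) : PvfwInc c Y F σ (pvlnLaneEv δ c L) :=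
  fun s s' _ _ hb hs => pvqw_net_mono δ c L (fun z hz _ hc => hb z hz hc) hs

/-- **THE GOOD GEOMETRIES OF THE LINK**: the quenched probability of the net is at least `q` -/
noncomputable def pvqwHl (q δ : ℝ) (c : Bool) (L : List (ℤ × ℤ)) : Set (Conf PvPt) := {ξ | q ≤ pvpQ (pvlnW δ L) c (pvlnLaneEv δ c L) ξ}

theorem pvqw_eqns_cite3 : True := by
  have := @pvqwHl.eq_1
  trivial

theorem pvqw_Hl_reads (q δ : ℝ) (c : Bool) (L : List (ℤ × ℤ)) : Conf.ReadsSet (pvlnW δ L ×ˢ univ) (pvqwHl q δ c L) :=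
  (pvpQ_reads (W := pvlnW δ L ×ˢ univ) (by rw [prod_univ]) (pvqw_net_reads δ c L) c).preimage (Ici q)

/-- the good geometries of the link do not see the colours -/
theorem pvqw_Hl_geo (q δ : ℝ) (c : Bool) (L : List (ℤ × ℤ)) {Y : Set ℂ} (hY : VorLF Y) (s s' : ℂ → Bool) (h : cfOf Y s ∈ pvqwHl q δ c L) : cfOf Y s' ∈ pvqwHl q δ c L := by
  have hf : (Y ∩ pvlnW δ L).Finite := pvqw_finite hY (pvlq_W_bdd δ L)
  have e : ∀ σ : ℂ → Bool, ENNReal.ofReal (pvpQ (pvlnW δ L) c (pvlnLaneEv δ c L) (cfOf Y σ)) = colLaw ℂ {κ | cfOf Y κ ∈ pvlnLaneEv δ c L} := by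
    intro σ
    rw [pvfw_Q_eq hf]
    congr 1
    ext κ
    exact ⟨pvqw_net_rd δ c L Y _ _ fun z _ hz => pvdm_ov_mem hz _ _, pvqw_net_rd δ c L Y _ _ fun z _ hz => (pvdm_ov_mem hz _ _).symm⟩
  have h1 : pvpQ (pvlnW δ L) c (pvlnLaneEv δ c L) (cfOf Y s) = pvpQ (pvlnW δ L) c (pvlnLaneEv δ c L) (cfOf Y s') := by
    have := (e s).trans (e s').symm
    rwa [ENNReal.ofReal_eq_ofReal_iff (pvpQ_nonneg _ _ _ _) (pvpQ_nonneg _ _ _ _)] at this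
  show q ≤ _
  rw [← h1]
  exact h

/-- **COST**: a good labelled geometry of 277 is a good geometry of the link, for EVERY colouring      (probability: `pvmw_good_prob`, `pvmw_exit` of 277) -/
theorem pvqw_Hl_of_good {p δ : ℝ} {c : Bool} {L : List (ℤ × ℤ)} {g : PvGeoT} (hg : PvmwGood p δ c L g) (hδ : 0 < δ) (hc : L.IsChain PvlnAdj) (x : PvColT) :
    pvConf (pvMerge (g, x)) ∈ pvqwHl p δ c L := by
  have hmeas : MeasurableSet {y | pvConf (pvMerge (g, y)) ∈ pvlnLaneEv δ c L} :=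
    (measurable_pvConf.comp (measurable_pvMerge.comp (measurable_const.prodMk measurable_id))) (pvln_loc_meas (pvln_lane_fit hδ hc) c)
  have hdep : PvDep (pvpIdx (pvlnW δ L) g) {y | pvConf (pvMerge (g, y)) ∈ pvlnLaneEv δ c L} := by
    intro y y' hy h
    refine pvqu_loc_dep (pvqw_net_reads δ c L) g y y' (fun i hi => ?_) h
    obtain ⟨hi1, b', hb'⟩ := hi
    exact hy i (Finset.mem_coe.2 ((pvp_mem_idx hg.ok (pvlq_W_bdd δ L)).2 ⟨hi1, hb'.1⟩))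
  have h1 := hg.lane.trans (pvmw_Q_ge hg.ok (pvlq_W_bdd δ L) c hmeas (fun _ h => h) hdep x)
  exact (ENNReal.ofReal_le_ofReal_iff (pvpQ_nonneg _ _ _ _)).1 h1

end net

/-! ## 4. THE WHITE LANE OF A PATTERN: the event of record `𝔇.W`, its fields -/

/-- **the data of the white lane of a pattern** `π = (s, t, link)`: the two placed candidates (exit end of `s`, entrance end of `t`) and a walk `L` of cells of side `δ` (link lane + hook zones in the ends of `Mp(s)`, `Mm(t)`) -/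
structure PvqwDat where
  N : PvspNum
  h : ℝ
  ts : PvspTy
  zs : ℂ
  tt : PvspTy
  zt : ℂ
  δ : ℝ
  L : List (ℤ × ℤ)

namespace PvqwDat

variable (𝔇 : PvqwDat)

/-- the colour of the lane -/
def b : Bool := !𝔇.ts.col
/-- the region of the state of `s` -/
noncomputable def Os : Set ℂ := pvspO 𝔇.N 𝔇.ts 𝔇.zs 𝔇.h
/-- the region of the state of `t` -/
noncomputable def Ot : Set ℂ := pvspO 𝔇.N 𝔇.tt 𝔇.zt 𝔇.h
/-- the two state regions -/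
noncomputable def O2 : Set ℂ := 𝔇.Os ∪ 𝔇.Ot
/-- **`T_w` minus the state regions**: the FRESH sites whose colour the lane event reads -/
noncomputable def Tw : Set ℂ := (𝔇.ts.Mp \ 𝔇.Os) ∪ (𝔇.tt.Mm \ 𝔇.Ot) ∪ pvlnW 𝔇.δ 𝔇.L
/-- the window of the lane event (points AND colours) -/
def Win : Set ℂ := 𝔇.ts.Ep ∪ 𝔇.tt.Em ∪ pvlnW 𝔇.δ 𝔇.L
/-- **THE WHITE LANE EVENT OF RECORD** `W = L^{+,w}(s) ∩ L^{-,w}(t) ∩ Net` -/
noncomputable def W : Set (Conf PvPt) := pvspEvt 𝔇.N 𝔇.ts 𝔇.zs 𝔇.h .pw ∩ pvspEvt 𝔇.N 𝔇.tt 𝔇.zt 𝔇.h .mw ∩ pvlnLaneEv 𝔇.δ 𝔇.b 𝔇.L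

/-- what is asked of the data -/
structure Wf : Prop where
  ws : 𝔇.ts.Wf 𝔇.N 𝔇.zs 𝔇.h
  wt : 𝔇.tt.Wf 𝔇.N 𝔇.zt 𝔇.h
  col : 𝔇.ts.col = 𝔇.tt.col
  δ0 : 0 < 𝔇.δ
  ch : 𝔇.L.IsChain PvlnAdj

end PvqwDat

theorem pvqw_eqns_cite4 : True := by
  have := @PvqwDat.b.eq_1; have := @PvqwDat.Os.eq_1; have := @PvqwDat.Ot.eq_1; have := @PvqwDat.O2.eq_1; have := @PvqwDat.Tw.eq_1; have := @PvqwDat.Win.eq_1; have := @PvqwDat.W.eq_1
  trivial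

section pack

variable {𝔇 : PvqwDat}

/-- `W` is measurable -/
theorem pvqw_W_meas (hD : 𝔇.Wf) : MeasurableSet 𝔇.W :=
  ((pvsp_evt_meas hD.ws .pw).inter (pvsp_evt_meas hD.wt .mw)).inter (pvln_loc_meas (pvln_lane_fit hD.δ0 hD.ch) _)

/-- **field `rW`**: `W` is read from its window -/
theorem pvqw_W_reads (hD : 𝔇.Wf) : Conf.ReadsSet (𝔇.Win ×ˢ univ) 𝔇.W :=
  (((pvsp_evt_reads hD.ws .pw).mono (prod_mono (fun _ hz => Or.inl (Or.inl hz)) Subset.rfl)).inter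
    ((pvsp_evt_reads hD.wt .mw).mono (prod_mono (fun _ hz => Or.inl (Or.inr hz)) Subset.rfl))).inter
    ((pvqw_net_reads 𝔇.δ 𝔇.b 𝔇.L).mono (prod_mono (fun _ hz => Or.inr hz) Subset.rfl))

/-- `W` is read from every window which contains its own -/
theorem pvqw_W_reads' (hD : 𝔇.Wf) {M : Set PvPt} (hM : Prod.fst ⁻¹' 𝔇.Win ⊆ M) : Conf.ReadsSet M 𝔇.W :=
  (pvqw_W_reads hD).mono (by rw [prod_univ]; exact hM)

/-- **field `stabW`, CYLINDER FORM**: the colours of the two state regions are kept, on the fresh sites of `T_w` the colour of the lane is kept (the other colours are ARBITRARY): `W` is kept -/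
theorem pvqw_W_stab (hD : 𝔇.Wf) {Y : Set ℂ} (hY : DelGood Y) {σ σ' : ℂ → Bool} (hO : ∀ z ∈ Y, z ∈ 𝔇.O2 → σ' z = σ z) (hT : ∀ z ∈ Y, z ∈ 𝔇.Tw → σ z = 𝔇.b → σ' z = 𝔇.b)
    (h : cfOf Y σ ∈ 𝔇.W) : cfOf Y σ' ∈ 𝔇.W := by
  obtain ⟨⟨h1, h2⟩, h3⟩ := h
  refine ⟨⟨?_, ?_⟩, ?_⟩
  · refine pvqw_evt_mono hD.ws .pw hY (fun w hw hwO => hO w hw (Or.inl hwO)) (fun w hw hwM hc => ?_) h1
    by_cases hwO : w ∈ 𝔇.Os
    · rw [hO w hw (Or.inl hwO)]; exact hc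
    · exact hT w hw (Or.inl (Or.inl ((pvqw_room_p hD.ws).subset ⟨hwM, hwO⟩))) hc
  · refine pvqw_evt_mono hD.wt .mw hY (fun w hw hwO => hO w hw (Or.inr hwO)) (fun w hw hwM hc => ?_) h2
    have eb : pvqwCl 𝔇.tt.col .mw = 𝔇.b := by
      show (!𝔇.tt.col) = !𝔇.ts.col
      rw [hD.col]
    rw [eb] at hc ⊢
    by_cases hwO : w ∈ 𝔇.Ot
    · rw [hO w hw (Or.inr hwO)]; exact hc
    · exact hT w hw (Or.inl (Or.inr ((pvqw_room_m hD.wt).subset ⟨hwM, hwO⟩))) hc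
  · exact pvqw_net_mono 𝔇.δ 𝔇.b 𝔇.L (fun z hz hzW hc => hT z hz (Or.inr hzW) hc) h3

/-- **field `stabW` of `PvdmSys.Hyp`** (159) VERBATIM for black rims (`col = true`): `frz ⊇ O2` on the sites, `T_w` off `yf` -/
theorem pvqw_W_stabW (hD : 𝔇.Wf) (hcol : 𝔇.ts.col = true) {Y : Set ℂ} (hY : DelGood Y) {F yf : Set ℂ} (hF : Y ∩ 𝔇.O2 ⊆ F) (hyf : Disjoint (Y ∩ 𝔇.Tw) yf) {σ₀ σ σ' : ℂ → Bool}
    (e : ∀ z ∈ Y, z ∈ F → σ z = σ₀ z) (e' : ∀ z ∈ Y, z ∈ F → σ' z = σ₀ z) (hle : ∀ z ∈ Y, z ∉ yf → σ' z ≤ σ z) (h : cfOf Y σ ∈ 𝔇.W) : cfOf Y σ' ∈ 𝔇.W := by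
  refine pvqw_W_stab hD hY (fun z hz hzO => (e' z hz (hF ⟨hz, hzO⟩)).trans (e z hz (hF ⟨hz, hzO⟩)).symm) (fun z hz hzT hc => ?_) h
  have hb : 𝔇.b = false := by
    show (!𝔇.ts.col) = false
    rw [hcol]; rfl
  rw [hb] at hc ⊢
  have h1 := hle z hz fun hy => (disjoint_left.1 hyf) ⟨hz, hzT⟩ hy
  rw [hc] at h1
  revert h1
  cases σ' z
  · exact fun _ => rfl
  · exact fun h1 => absurd h1 (by decide)

/-- **field `hq` = P16'**: on `Hq_s ∩ Hq_t ∩ {good geometry of the link}`, the frozen set `F` contains the sites of the two state regions and misses the fresh sites of `T_w` -/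
theorem pvqw_W_hq (hD : 𝔇.Wf) (QB QB' : Set (Conf PvPt)) {Y : Set ℂ} (hY : DelGood Y) {F : Set ℂ} {σ : ℂ → Bool} (hF : Y ∩ 𝔇.O2 ⊆ F) (hT : Disjoint (Y ∩ 𝔇.Tw) F)
    (Hs : cfOf Y σ ∈ pvspHq 𝔇.N QB 𝔇.ts 𝔇.zs 𝔇.h) (Ht : cfOf Y σ ∈ pvspHq 𝔇.N QB' 𝔇.tt 𝔇.zt 𝔇.h) {q : ℝ} (Hl : cfOf Y σ ∈ pvqwHl q 𝔇.δ 𝔇.b 𝔇.L) (β0 : 0 ≤ 𝔇.N.β) (q0 : 0 ≤ q) :
    ENNReal.ofReal (q * 𝔇.N.β ^ 2) ≤ colLaw ℂ {κ | cfOf Y (pvdmOv Fᶜ κ σ) ∈ 𝔇.W} := by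
  have eb : pvqwCl 𝔇.tt.col .mw = !𝔇.ts.col := by
    show (!𝔇.tt.col) = !𝔇.ts.col
    rw [hD.col]
  have u₂ := pvqw_inc hD.wt .mw hY (F := F) (fun z hz => hF ⟨hz.1, Or.inr hz.2⟩) σ
  rw [eb] at u₂
  exact pvfw_lane_P 𝔇.N QB QB' 𝔇.ts 𝔇.tt 𝔇.zs 𝔇.zt 𝔇.h hD.col (S₃ := pvlnW 𝔇.δ 𝔇.L) (K := pvlnLaneEv 𝔇.δ 𝔇.b 𝔇.L) Hs Ht
    (pvqw_finite hY.lf (hD.ws.bEp.subset hD.ws.Mp_sub)) (pvqw_finite hY.lf (hD.wt.bEm.subset hD.wt.Mm_sub)) (pvqw_finite hY.lf (pvlq_W_bdd _ _))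
    (fun z hz => hF ⟨hz.1, Or.inl hz.2⟩) (fun z hz => hF ⟨hz.1, Or.inr hz.2⟩)
    (hT.mono_left (inter_subset_inter_right _ fun _ hz => Or.inl (Or.inl hz))) (hT.mono_left (inter_subset_inter_right _ fun _ hz => Or.inl (Or.inr hz)))
    (hT.mono_left (inter_subset_inter_right _ fun _ hz => Or.inr hz))
    (pvqw_rd_p hD.ws hY) (pvqw_rd_m hD.wt hY) (pvqw_net_rd _ _ _ _)
    (pvqw_inc hD.ws .pw hY (fun z hz => hF ⟨hz.1, Or.inl hz.2⟩) σ) u₂ (pvqw_net_inc _ _ _ _ _ _)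
    (W := 𝔇.W) (fun s _ h1 h2 h3 => ⟨⟨h1, h2⟩, h3⟩) β0 q0 Hl

end pack

/-! ## 5. THE HALF QUENCHED EVENTS (D3 of 59: `Hq_t` reads BOTH lanes of `t` and `QB`, so it meets the corridor; P16' uses only the exit half of `s` and the entrance half of `t`) -/

/-- `Hp` = the exit half of `Hq` -/
noncomputable def pvqwHp (N : PvspNum) (t : PvspTy) (z : ℂ) (h : ℝ) : Set (Conf PvPt) := {ξ | N.β ≤ pvpQ (t.Mp \ pvspO N t z h) (!t.col) (pvspEvt N t z h .pw) ξ}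
/-- `Hm` = the entrance half of `Hq` -/
noncomputable def pvqwHm (N : PvspNum) (t : PvspTy) (z : ℂ) (h : ℝ) : Set (Conf PvPt) := {ξ | N.β ≤ pvpQ (t.Mm \ pvspO N t z h) (!t.col) (pvspEvt N t z h .mw) ξ}

theorem pvqw_eqns_cite5 : True := by
  have := @pvqwHp.eq_1; have := @pvqwHm.eq_1
  trivial

section half

variable {N : PvspNum} {t : PvspTy} {z : ℂ} {h : ℝ}

theorem pvqw_Hq_sub (N : PvspNum) (QB : Set (Conf PvPt)) (t : PvspTy) (z : ℂ) (h : ℝ) : pvspHq N QB t z h ⊆ pvqwHp N t z h ∩ pvqwHm N t z h :=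
  fun _ hξ => ⟨hξ.1, hξ.2.1⟩

theorem pvqw_Gq_sub (N : PvspNum) (QB : Set (Conf PvPt)) (ε : ℝ) (t : PvspTy) (z : ℂ) (h : ℝ) : pvspGq N QB ε t z h ⊆ pvqwHp N t z h ∩ pvqwHm N t z h :=
  fun _ hξ => pvqw_Hq_sub N QB t z h hξ.2

/-- `Hp` is read from the window of `L^+` -/
theorem pvqw_Hp_reads (hW : t.Wf N z h) : Conf.ReadsSet (t.Ep ×ˢ univ) (pvqwHp N t z h) :=
  (pvpQ_reads (W := t.Ep ×ˢ univ) (by rw [prod_univ]; exact preimage_mono (sdiff_subset.trans hW.Mp_sub)) (pvsp_evt_reads hW .pw) (!t.col)).preimage (Ici N.β)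

/-- `Hm` is read from the window of `L^-` -/
theorem pvqw_Hm_reads (hW : t.Wf N z h) : Conf.ReadsSet (t.Em ×ˢ univ) (pvqwHm N t z h) :=
  (pvpQ_reads (W := t.Em ×ˢ univ) (by rw [prod_univ]; exact preimage_mono (sdiff_subset.trans hW.Mm_sub)) (pvsp_evt_reads hW .mw) (!t.col)).preimage (Ici N.β)

theorem PvfwRd.mono {Y R R' : Set ℂ} {𝒜 : Set (Conf PvPt)} (h : PvfwRd Y R 𝒜) (hR : R ⊆ R') : PvfwRd Y R' 𝒜 :=
  fun s s' e hs => h s s' (fun z hz hzR => e z hz (hR hzR)) hs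

/-- the quenched probability of a side event, the colours of its lane off `O` being resampled, is a function of the sites and of the colours of `O` -/
theorem pvqw_Q_congr (hW : t.Wf N z h) (k : PvspKind) (b : Bool) {Y : Set ℂ} (hY : DelGood Y) (hb : Bornology.IsBounded (pvqwLn (t.reg N z h) k)) {σ σ' : ℂ → Bool}
    (hO : ∀ w ∈ Y, w ∈ pvspO N t z h → σ' w = σ w) :
    pvpQ (pvqwLn (t.reg N z h) k \ pvspO N t z h) b (pvspEvt N t z h k) (cfOf Y σ') = pvpQ (pvqwLn (t.reg N z h) k \ pvspO N t z h) b (pvspEvt N t z h k) (cfOf Y σ) := by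
  have hf : (Y ∩ (pvqwLn (t.reg N z h) k \ pvspO N t z h)).Finite := pvqw_finite hY.lf (hb.subset sdiff_subset)
  have key : ∀ s s' : ℂ → Bool, (∀ w ∈ Y, w ∈ pvspO N t z h → s' w = s w) → ∀ κ : ℂ → Bool,
      cfOf Y (pvdmOv (pvqwLn (t.reg N z h) k \ pvspO N t z h) κ s) ∈ pvspEvt N t z h k → cfOf Y (pvdmOv (pvqwLn (t.reg N z h) k \ pvspO N t z h) κ s') ∈ pvspEvt N t z h k := by
    intro s s' e κ
    refine pvqw_rd hW k hY _ _ fun w hw hwR => ?_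
    by_cases hwO : w ∈ pvspO N t z h
    · rw [pvdm_ov_notMem (fun hc => hc.2 hwO), pvdm_ov_notMem (fun hc => hc.2 hwO), e w hw hwO]
    · have hwS : w ∈ pvqwLn (t.reg N z h) k \ pvspO N t z h := ⟨hwR.resolve_left hwO, hwO⟩
      rw [pvdm_ov_mem hwS, pvdm_ov_mem hwS]
  have e : ENNReal.ofReal (pvpQ (pvqwLn (t.reg N z h) k \ pvspO N t z h) b (pvspEvt N t z h k) (cfOf Y σ'))
      = ENNReal.ofReal (pvpQ (pvqwLn (t.reg N z h) k \ pvspO N t z h) b (pvspEvt N t z h k) (cfOf Y σ)) := by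
    rw [pvfw_Q_eq hf, pvfw_Q_eq hf]
    congr 1
    ext κ
    exact ⟨key σ' σ (fun w hw hwO => (hO w hw hwO).symm) κ, key σ σ' hO κ⟩
  rwa [ENNReal.ofReal_eq_ofReal_iff (pvpQ_nonneg _ _ _ _) (pvpQ_nonneg _ _ _ _)] at e

/-- **`Hp` is an event of the sites and of the colours of `O`** (what `stabE` asks) -/
theorem pvqw_Hp_stab (hW : t.Wf N z h) {Y : Set ℂ} (hY : DelGood Y) {σ σ' : ℂ → Bool} (hO : ∀ w ∈ Y, w ∈ pvspO N t z h → σ' w = σ w) (hs : cfOf Y σ ∈ pvqwHp N t z h) :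
    cfOf Y σ' ∈ pvqwHp N t z h := by
  have e := pvqw_Q_congr hW .pw (!t.col) hY (pvqw_room_bdd_p hW) hO
  rw [pvqw_room_p hW] at e
  show N.β ≤ _
  exact le_of_le_of_eq hs e.symm

/-- **`Hm` is an event of the sites and of the colours of `O`** -/
theorem pvqw_Hm_stab (hW : t.Wf N z h) {Y : Set ℂ} (hY : DelGood Y) {σ σ' : ℂ → Bool} (hO : ∀ w ∈ Y, w ∈ pvspO N t z h → σ' w = σ w) (hs : cfOf Y σ ∈ pvqwHm N t z h) :
    cfOf Y σ' ∈ pvqwHm N t z h := by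
  have e := pvqw_Q_congr hW .mw (!t.col) hY (pvqw_room_bdd_m hW) hO
  rw [pvqw_room_m hW] at e
  show N.β ≤ _
  exact le_of_le_of_eq hs e.symm

end half

/-- **field `hq` = P16', HALF FORM** (form of record for 59): on `Hp(s) ∩ Hm(t) ∩ {good geometry of the link}` -/
theorem pvqw_W_hq' {𝔇 : PvqwDat} (hD : 𝔇.Wf) {Y : Set ℂ} (hY : DelGood Y) {F : Set ℂ} {σ : ℂ → Bool} (hF : Y ∩ 𝔇.O2 ⊆ F) (hT : Disjoint (Y ∩ 𝔇.Tw) F)
    (Hs : cfOf Y σ ∈ pvqwHp 𝔇.N 𝔇.ts 𝔇.zs 𝔇.h) (Ht : cfOf Y σ ∈ pvqwHm 𝔇.N 𝔇.tt 𝔇.zt 𝔇.h) {q : ℝ} (Hl : cfOf Y σ ∈ pvqwHl q 𝔇.δ 𝔇.b 𝔇.L) (β0 : 0 ≤ 𝔇.N.β) (q0 : 0 ≤ q) :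
    ENNReal.ofReal (q * 𝔇.N.β ^ 2) ≤ colLaw ℂ {κ | cfOf Y (pvdmOv Fᶜ κ σ) ∈ 𝔇.W} := by
  have eb : (!𝔇.tt.col) = !𝔇.ts.col := by rw [hD.col]
  have u₂ := pvqw_inc hD.wt .mw hY (F := F) (fun z hz => hF ⟨hz.1, Or.inr hz.2⟩) σ
  have Ht' : 𝔇.N.β ≤ pvpQ (𝔇.tt.Mm \ pvspO 𝔇.N 𝔇.tt 𝔇.zt 𝔇.h) (!𝔇.tt.col) (pvspEvt 𝔇.N 𝔇.tt 𝔇.zt 𝔇.h .mw) (cfOf Y σ) := Ht
  have eb' : pvqwCl 𝔇.tt.col .mw = !𝔇.ts.col := eb
  rw [eb'] at u₂
  rw [eb] at Ht'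
  have hsub : ∀ O M : Set ℂ, O ∪ M ⊆ O ∪ M \ O := fun O M w hw => by
    by_cases hO : w ∈ O
    · exact Or.inl hO
    · exact Or.inr ⟨hw.resolve_left hO, hO⟩
  exact pvfw_lane (!𝔇.ts.col) (O₁ := pvspO 𝔇.N 𝔇.ts 𝔇.zs 𝔇.h) (O₂ := pvspO 𝔇.N 𝔇.tt 𝔇.zt 𝔇.h) (S₁ := 𝔇.ts.Mp \ pvspO 𝔇.N 𝔇.ts 𝔇.zs 𝔇.h) (S₂ := 𝔇.tt.Mm \ pvspO 𝔇.N 𝔇.tt 𝔇.zt 𝔇.h)
    (S₃ := pvlnW 𝔇.δ 𝔇.L) (E₁ := pvspEvt 𝔇.N 𝔇.ts 𝔇.zs 𝔇.h .pw) (E₂ := pvspEvt 𝔇.N 𝔇.tt 𝔇.zt 𝔇.h .mw) (K := pvlnLaneEv 𝔇.δ 𝔇.b 𝔇.L) (W := 𝔇.W)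
    (pvqw_finite hY.lf ((hD.ws.bEp.subset hD.ws.Mp_sub).subset sdiff_subset)) (pvqw_finite hY.lf ((hD.wt.bEm.subset hD.wt.Mm_sub).subset sdiff_subset)) (pvqw_finite hY.lf (pvlq_W_bdd _ _))
    (fun z hz => hF ⟨hz.1, Or.inl hz.2⟩) (fun z hz => hF ⟨hz.1, Or.inr hz.2⟩) disjoint_sdiff_left disjoint_sdiff_left
    (hT.mono_left (inter_subset_inter_right _ fun _ hz => Or.inl (Or.inl hz))) (hT.mono_left (inter_subset_inter_right _ fun _ hz => Or.inl (Or.inr hz)))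
    (hT.mono_left (inter_subset_inter_right _ fun _ hz => Or.inr hz))
    ((pvqw_rd_p hD.ws hY).mono (hsub _ _)) ((pvqw_rd_m hD.wt hY).mono (hsub _ _)) (pvqw_net_rd _ _ _ _)
    (pvqw_inc hD.ws .pw hY (fun z hz => hF ⟨hz.1, Or.inl hz.2⟩) σ) u₂ (pvqw_net_inc _ _ _ _ _ _)
    (fun s _ h1 h2 h3 => ⟨⟨h1, h2⟩, h3⟩) β0 q0 Hs Ht' Hl

/-! ## 6. WHAT `W` GIVES TO CLOSE: a path of the colour of the lane from the right arc of `S₂(s)` to the right arc of `S₂(t)` -/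

/-- **the geometry of the two hooks** (pure cell geometry: producer `pvfp_zone_of_cells` of 272; GLUE-W of 205) -/
structure PvqwDat.Hook (𝔇 : PvqwDat) : Prop where
  ne : 𝔇.L ≠ []
  full : PvfpFull 𝔇.L
  zs : PvfpZone 𝔇.δ {k | k ∈ 𝔇.L} (cthickening (𝔇.N.mu * 𝔇.h) (𝔇.ts.reg 𝔇.N 𝔇.zs 𝔇.h .Mp)) (𝔇.ts.reg 𝔇.N 𝔇.zs 𝔇.h .Mp ∩ 𝔇.ts.reg 𝔇.N 𝔇.zs 𝔇.h .S2) (𝔇.ts.Dp ∩ 𝔇.ts.reg 𝔇.N 𝔇.zs 𝔇.h .Mp)
  zt : PvfpZone 𝔇.δ {k | k ∈ 𝔇.L} (cthickening (𝔇.N.mu * 𝔇.h) (𝔇.tt.reg 𝔇.N 𝔇.zt 𝔇.h .Mm)) (𝔇.tt.reg 𝔇.N 𝔇.zt 𝔇.h .Mm ∩ 𝔇.tt.reg 𝔇.N 𝔇.zt 𝔇.h .S2) (𝔇.tt.Dm ∩ 𝔇.tt.reg 𝔇.N 𝔇.zt 𝔇.h .Mm)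

/-- `T_w`, continuum form: the region in which the path runs -/
noncomputable def PvqwDat.Tc (𝔇 : PvqwDat) : Set ℂ := cthickening (𝔇.N.mu * 𝔇.h) (𝔇.ts.reg 𝔇.N 𝔇.zs 𝔇.h .Mp) ∪ pvlnU 𝔇.δ 𝔇.L ∪ cthickening (𝔇.N.mu * 𝔇.h) (𝔇.tt.reg 𝔇.N 𝔇.zt 𝔇.h .Mm)

theorem pvqw_eqns_cite6 : True := by
  have := @PvqwDat.Tc.eq_1
  trivial

section close

variable {𝔇 : PvqwDat}

/-- **LINK, continuum form, FROM FOOT TO FOOT** (ruling P13) -/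
theorem pvqw_W_linkF (hD : 𝔇.Wf) (hH : 𝔇.Hook) {η : Conf PvPt} (hη : η ∈ 𝔇.W) (hn : CfOK η) :
    ∃ x ∈ pvfvFp 𝔇.N 𝔇.ts 𝔇.zs 𝔇.h η, ∃ x' ∈ pvfvFm 𝔇.N 𝔇.tt 𝔇.zt 𝔇.h η, JoinedIn (pvlnReg 𝔇.b η ∩ 𝔇.Tc) x x' := by
  obtain ⟨⟨h1, h2⟩, h3⟩ := hη
  obtain ⟨-, hm, hst, 𝔖, hA, hs⟩ := (pvsp_evt_plane hD.ws .pw hn.del).1 h1
  obtain ⟨v, rfl, y, hy, hv, hj⟩ := pvfv_side_joined hD.ws .pw hn hm (subset_union_right.trans (hD.ws.K_core .pw)) hs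
  obtain ⟨-, hm', hst', 𝔖', hA', hs'⟩ := (pvsp_evt_plane hD.wt .mw hn.del).1 h2
  obtain ⟨v', rfl, y', hy', hv', hj'⟩ := pvfv_side_joined hD.wt .mw hn hm' (subset_union_right.trans (hD.wt.K_core .mw)) hs'
  have hj1 : JoinedIn (pvlnReg 𝔇.b η ∩ cthickening (𝔇.N.mu * 𝔇.h) (𝔇.ts.reg 𝔇.N 𝔇.zs 𝔇.h .Mp)) (delbPlane.pos (cfSites η) ((delbPlane.T (cfSites η)).tgt 𝔖.g2.aOut)) y := hj
  have hj2 : JoinedIn (pvlnReg 𝔇.b η ∩ cthickening (𝔇.N.mu * 𝔇.h) (𝔇.tt.reg 𝔇.N 𝔇.zt 𝔇.h .Mm)) (delbPlane.pos (cfSites η) ((delbPlane.T (cfSites η)).tgt 𝔖'.g2.aIn)) y' := by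
    have e : 𝔇.b = !𝔇.tt.col := by
      show (!𝔇.ts.col) = !𝔇.tt.col
      rw [hD.col]
    rw [e]
    exact hj'
  have s1 : delbPlane.pos (cfSites η) ((delbPlane.T (cfSites η)).tgt 𝔖.g2.aOut) ∈ 𝔇.ts.reg 𝔇.N 𝔇.zs 𝔇.h .S2 := by
    rw [pvtg_aOut_tgt]
    exact pvfv_gate_S2 hD.ws.nest hst hA _
  have s2 : delbPlane.pos (cfSites η) ((delbPlane.T (cfSites η)).tgt 𝔖'.g2.aIn) ∈ 𝔇.tt.reg 𝔇.N 𝔇.zt 𝔇.h .S2 := by
    rw [pvtg_aIn_tgt]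
    exact pvfv_gate_S2 hD.wt.nest hst' hA' _
  exact ⟨_, ⟨𝔖, hA, rfl⟩, _, ⟨𝔖', hA', rfl⟩, pvfp_lane_glue hD.δ0 hH.ne hD.ch hH.full h3 rfl hH.zs hH.zt hj1 ⟨hv, s1⟩ hy hj2 ⟨hv', s2⟩ hy'⟩

/-- **LINK, continuum form** -/
theorem pvqw_W_link (hD : 𝔇.Wf) (hH : 𝔇.Hook) {η : Conf PvPt} (hη : η ∈ 𝔇.W) (hn : CfOK η) :
    ∃ x ∈ pvfvR 𝔇.N 𝔇.ts 𝔇.zs 𝔇.h η, ∃ x' ∈ pvfvR 𝔇.N 𝔇.tt 𝔇.zt 𝔇.h η, JoinedIn (pvlnReg 𝔇.b η ∩ 𝔇.Tc) x x' := by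
  obtain ⟨x, hx, x', hx', hj⟩ := pvqw_W_linkF hD hH hη hn
  exact ⟨x, pvfv_Fp_sub_R _ _ _ _ _ hx, x', pvfv_Fm_sub_R _ _ _ _ _ hx', hj⟩

/-- a point of the closed `ρ`-neighbourhood of a set which lies in the `3ρ`-core of the window has a site within `ρ` -/
theorem pvqw_net_cth {ρ : ℝ} (hρ : 0 < ρ) {E M Y : Set ℂ} (hm : PvtrMesh ρ E Y) (hM : M ⊆ pvtrCore (3 * ρ) E) {z : ℂ} (hz : z ∈ cthickening ρ M) : ∃ s ∈ Y, ‖s - z‖ ≤ ρ := by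
  have h1 : z ∈ thickening (2 * ρ) M := cthickening_subset_thickening' (by positivity) (by linarith) M hz
  obtain ⟨m, hmM, hzm⟩ := mem_thickening_iff.1 h1
  have hc : z ∈ pvtrCore ρ E := by
    intro w hw
    refine hM hmM ?_
    rw [mem_closedBall] at hw ⊢
    calc dist w m ≤ dist w z + dist z m := dist_triangle _ _ _
      _ ≤ ρ + 2 * ρ := add_le_add hw hzm.le
      _ = 3 * ρ := by ring
  obtain ⟨u, hu, hzu⟩ := hm z hc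
  exact ⟨u, hu, by rw [norm_sub_rev]; exact hzu⟩

/-- on `W` the region `T_w` has a net of sites -/
theorem pvqw_W_net (hD : 𝔇.Wf) {η : Conf PvPt} (hη : η ∈ 𝔇.W) {ρ : ℝ} (h1 : 𝔇.N.mu * 𝔇.h < ρ) (h2 : 𝔇.δ / 2 / 8 ≤ ρ) : ∀ z ∈ 𝔇.Tc, ∃ s ∈ cfSites η, ‖s - z‖ < ρ := by
  obtain ⟨⟨⟨-, hm, -⟩, ⟨-, hm', -⟩⟩, h3⟩ := hη
  rintro z ((hz | hz) | hz)
  · obtain ⟨s, hs, hsz⟩ := pvqw_net_cth hD.ws.rho0 hm (subset_union_right.trans (hD.ws.K_core .pw)) hz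
    exact ⟨s, hs, lt_of_le_of_lt hsz h1⟩
  · obtain ⟨s, hs, hsz⟩ := pvln_lane_net hD.δ0 hD.ch h3 rfl hz
    exact ⟨s, hs, lt_of_lt_of_le hsz h2⟩
  · obtain ⟨s, hs, hsz⟩ := pvqw_net_cth hD.wt.rho0 hm' (subset_union_right.trans (hD.wt.K_core .mw)) hz
    exact ⟨s, hs, lt_of_le_of_lt hsz h1⟩

/-- **LINK, `Join` form**: in the Delaunay map the right arc of `S₂(s)` is joined to the right arc of `S₂(t)` through sites of the colour of the lane which lie in the open `ρ`-neighbourhood of `T_w` -/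
theorem pvqw_W_join (hD : 𝔇.Wf) (hH : 𝔇.Hook) {η : Conf PvPt} (hη : η ∈ 𝔇.W) (hn : CfOK η) {ρ : ℝ} (h1 : 𝔇.N.mu * 𝔇.h < ρ) (h2 : 𝔇.δ / 2 / 8 ≤ ρ) :
    ∃ a b : cfSites η, (a : ℂ) ∈ pvfvR 𝔇.N 𝔇.ts 𝔇.zs 𝔇.h η ∧ (b : ℂ) ∈ pvfvR 𝔇.N 𝔇.tt 𝔇.zt 𝔇.h η ∧
      (delMap hn.del).Join univ (pvkqV (cfSites η) (cfCol η) 𝔇.b (thickening ρ 𝔇.Tc)) a b := by
  obtain ⟨x, hx, x', hx', hj⟩ := pvqw_W_link hD hH hη hn
  refine ⟨⟨x, pvfv_start_sites _ _ _ _ η (Or.inr hx)⟩, ⟨x', pvfv_start_sites _ _ _ _ η (Or.inr hx')⟩, hx, hx', ?_⟩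
  exact pvnk_join_sites hn _ (pvqw_W_net hD hη h1 h2) (fun z hz w hw => mem_thickening_iff.2 ⟨z, hz, by rw [dist_eq_norm]; exact hw⟩) _ _ hj

end close

/-! ## 7. NUMBERS AND COST: the constant of the lane, the bad geometries of the link are exceptional (for `pvra_cover_cut` of 286) -/

/-- the constant of QBX (277: `pvmw_exit`) -/
noncomputable def pvqwQ0 : ℝ := pvmw_exit.choose

/-- **the quenched lower bound of the net of a walk of at most `n` cells** -/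
noncomputable def pvqwQ3 (n : ℕ) : ℝ := pvqwQ0 ^ (15 * n) / 2

theorem pvqw_eqns_cite7 : True := by
  have := @pvqwQ0.eq_1; have := @pvqwQ3.eq_1
  trivial

theorem pvqw_Q0_pos : 0 < pvqwQ0 := pvmw_exit.choose_spec.1

theorem pvqw_Q0_le : pvqwQ0 ≤ 1 := pvmw_exit.choose_spec.2.1

theorem pvqw_Q3_pos (n : ℕ) : 0 < pvqwQ3 n := by
  have := pvqw_Q0_pos
  unfold pvqwQ3
  positivity

/-- the bad geometries of a walk of at most `n` cells of side `δ ≥ U(n, θ) ε` -/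
theorem pvqw_Hl_prob (n : ℕ) {θ : ℝ} (hθ : 0 < θ) : ∃ U : ℝ, 1 ≤ U ∧ ∀ ε : ℝ, 0 < ε → ∀ δ : ℝ, U * ε ≤ δ → ∀ (c : Bool) (L : List (ℤ × ℤ)), L ≠ [] → L.IsChain PvlnAdj → L.length ≤ n →
    (pvhbUp ε).P {q | pvConf (pvMerge q) ∉ pvqwHl (pvqwQ3 n) δ c L} ≤ ENNReal.ofReal θ := by
  obtain ⟨U, hU, H⟩ := pvmw_exit.choose_spec.2.2 n θ hθ
  refine ⟨U, hU, fun ε hε δ hδ c L hne hc hn => ?_⟩
  have hδ0 : 0 < δ := lt_of_lt_of_le (by positivity) hδ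
  refine le_trans ((pvhbUp ε).P_mono ?_) ((pvhb_up_P_geo ε _).trans (H ε hε δ hδ c L hne hc hn))
  rintro ⟨g, x⟩ hq hg
  exact hq (pvqw_Hl_of_good hg hδ0 hc x)

/-- **COST**: at a fixed walk the bad geometries of the link are exceptional as `ε ↓ 0`      (`Exc m ε π := pvConf ⁻¹' (pvqwHl ..)ᶜ` in `pvra_cover_cut`) -/
theorem pvqw_Hl_lim {δ : ℝ} (hδ : 0 < δ) (c : Bool) {L : List (ℤ × ℤ)} (hne : L ≠ []) (hc : L.IsChain PvlnAdj) {n : ℕ} (hn : L.length ≤ n) :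
    Filter.Tendsto (fun ε => (pvhbUp ε).P {q | pvConf (pvMerge q) ∉ pvqwHl (pvqwQ3 n) δ c L}) (nhdsWithin (0 : ℝ) (Ioi 0)) (nhds 0) := by
  refine ENNReal.tendsto_nhds_zero.2 fun e he => ?_
  by_cases htop : e = ⊤
  · exact Filter.Eventually.of_forall fun ε => htop ▸ le_top
  have hθ : 0 < e.toReal := ENNReal.toReal_pos he.ne' htop
  obtain ⟨U, hU, H⟩ := pvqw_Hl_prob n hθ
  have hU0 : 0 < U := lt_of_lt_of_le one_pos hU
  filter_upwards [Ioo_mem_nhdsGT (div_pos hδ hU0)] with ε hε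
  have h1 : U * ε ≤ δ := by
    have := (lt_div_iff₀ hU0).1 hε.2
    linarith
  have := H ε hε.1 δ h1 c L hne hc hn
  rwa [ENNReal.ofReal_toReal htop] at this

/-! ## 8. FORM OF RECORD FOR CLOSE (260, `Tr/CloseN.lean`): on the plane map of record `delbPlane.T (cfSites η)`, for GIVEN states of `s` and `t` -/

theorem pvqw_join_pl {Y : Set ℂ} (h : DelGood Y) {X : Set ↥Y} {a b : ↥Y} (hj : (delMap h).Join univ X a b) : (delbPl Y).toMap.Join univ X a b := by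
  rw [delb_pl_eq h]
  exact hj

/-- the right arc of a gate is joined along itself -/
theorem pvqw_rib {V D : Type} {T : PvMap V D} {s : V → Bool} (g : T.Gate s) {u v : V} (hu : u ∈ g.R) (hv : v ∈ g.R) : T.Join univ g.R u v := by
  have key : ∀ j k, 0 < k → k + j < g.m → T.Join univ g.R (T.src (g.c.e k)) (T.src (g.c.e (k + j))) := by
    intro j
    induction j with
    | zero => intro k h0 hk; exact pl_hx_join_refl ⟨k, h0, hk, rfl⟩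
    | succ j ih =>
      intro k h0 hk
      exact pl_hx_join_tail (ih k h0 (by omega)) ⟨g.c.e (k + j), Or.inl (mem_univ _), rfl, g.c.chain _⟩ ⟨k + (j + 1), by omega, hk, rfl⟩
  obtain ⟨k, k0, k1, rfl⟩ := hu
  obtain ⟨l, l0, l1, rfl⟩ := hv
  rcases Nat.le_total k l with h | h
  · have := key (l - k) k k0 (by omega)
    rwa [show k + (l - k) = l by omega] at this
  · have := key (k - l) l l0 (by omega)
    rw [show l + (k - l) = k by omega] at this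
    exact pl_hx_join_symm this

section closeA

variable {𝔇 : PvqwDat}

theorem pvqw_R_unique {N : PvspNum} {t : PvspTy} {z : ℂ} {h : ℝ} (hW : t.Wf N z h) {η : Conf PvPt} (hn : DelGood (cfSites η))
    {𝔖 𝔖' : PvspSt (delbPlane.T (cfSites η)) (pvspS t.col (delbPlane.col η Empty.elim))} (h1 : 𝔖.At (delbPlane.pos (cfSites η)) (t.reg N z h)) (h2 : 𝔖'.At (delbPlane.pos (cfSites η)) (t.reg N z h)) :
    𝔖.g2.R = 𝔖'.g2.R :=
  (pvsp_at_unique (delb_plane_isSph hn) (delbPl (cfSites η)).toMap_simple (fun v hp hm => hW.tubes ⟨hp, hm⟩) h1 h2).2.2.2.2.1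

theorem pvqw_W_joinA (hD : 𝔇.Wf) (hH : 𝔇.Hook) {η : Conf PvPt} (hη : η ∈ 𝔇.W) (hn : CfOK η) {ρ : ℝ} (h1 : 𝔇.N.mu * 𝔇.h < ρ) (h2 : 𝔇.δ / 2 / 8 ≤ ρ)
    {𝔖s : PvspSt (delbPlane.T (cfSites η)) (pvspS 𝔇.ts.col (delbPlane.col η Empty.elim))} (hs : 𝔖s.At (delbPlane.pos (cfSites η)) (𝔇.ts.reg 𝔇.N 𝔇.zs 𝔇.h))
    {𝔖t : PvspSt (delbPlane.T (cfSites η)) (pvspS 𝔇.tt.col (delbPlane.col η Empty.elim))} (ht : 𝔖t.At (delbPlane.pos (cfSites η)) (𝔇.tt.reg 𝔇.N 𝔇.zt 𝔇.h)) :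
    ∃ a ∈ 𝔖s.g2.R, ∃ b ∈ 𝔖t.g2.R, (delbPlane.T (cfSites η)).Join univ
      {v | pvspS 𝔇.ts.col (delbPlane.col η Empty.elim) v = false ∧ delbPlane.pos (cfSites η) v ∈ thickening ρ 𝔇.Tc} a b := by
  obtain ⟨a, b, ⟨𝔖, hA, v, hv, ea⟩, ⟨𝔖', hA', v', hv', eb⟩, hj⟩ := pvqw_W_join hD hH hη hn h1 h2
  have e1 : a = v := Subtype.ext ea
  have e2 : b = v' := Subtype.ext eb
  subst e1 e2
  refine ⟨a, (pvqw_R_unique hD.ws hn.del hA hs) ▸ hv, b, (pvqw_R_unique hD.wt hn.del hA' ht) ▸ hv', ?_⟩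
  refine pvta_join_mono ?_ (pvqw_join_pl hn.del hj)
  intro w hw
  exact ⟨pvqw_S_false.2 hw.1, hw.2⟩

/-- **FORM OF RECORD FOR CLOSE** -/
theorem pvqw_W_joinF (hD : 𝔇.Wf) (hH : 𝔇.Hook) {η : Conf PvPt} (hη : η ∈ 𝔇.W) (hn : CfOK η) {ρ : ℝ} (h1 : 𝔇.N.mu * 𝔇.h < ρ) (h2 : 𝔇.δ / 2 / 8 ≤ ρ)
    {𝔖s : PvspSt (delbPlane.T (cfSites η)) (pvspS 𝔇.ts.col (delbPlane.col η Empty.elim))} (hs : 𝔖s.At (delbPlane.pos (cfSites η)) (𝔇.ts.reg 𝔇.N 𝔇.zs 𝔇.h))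
    {𝔖t : PvspSt (delbPlane.T (cfSites η)) (pvspS 𝔇.tt.col (delbPlane.col η Empty.elim))} (ht : 𝔖t.At (delbPlane.pos (cfSites η)) (𝔇.tt.reg 𝔇.N 𝔇.zt 𝔇.h)) :
    (delbPlane.T (cfSites η)).Join univ
      ({v | pvspS 𝔇.ts.col (delbPlane.col η Empty.elim) v = false ∧ delbPlane.pos (cfSites η) v ∈ thickening ρ 𝔇.Tc} ∪ 𝔖s.g2.R ∪ 𝔖t.g2.R)
      ((delbPlane.T (cfSites η)).tgt 𝔖t.g2.aIn) ((delbPlane.T (cfSites η)).tgt 𝔖s.g2.aOut) := by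
  obtain ⟨a, ha, b, hb, hj⟩ := pvqw_W_joinA hD hH hη hn h1 h2 hs ht
  have j1 := pvta_join_mono (Y := {v | pvspS 𝔇.ts.col (delbPlane.col η Empty.elim) v = false ∧ delbPlane.pos (cfSites η) v ∈ thickening ρ 𝔇.Tc} ∪ 𝔖s.g2.R ∪ 𝔖t.g2.R)
    (fun _ h => Or.inr h) (pvqw_rib 𝔖t.g2 (pvtg_aIn_tgt_R 𝔖t.g2) hb)
  have j2 := pvta_join_mono (Y := {v | pvspS 𝔇.ts.col (delbPlane.col η Empty.elim) v = false ∧ delbPlane.pos (cfSites η) v ∈ thickening ρ 𝔇.Tc} ∪ 𝔖s.g2.R ∪ 𝔖t.g2.R)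
    (fun _ h => Or.inl (Or.inl h)) (pl_hx_join_symm hj)
  have j3 := pvta_join_mono (Y := {v | pvspS 𝔇.ts.col (delbPlane.col η Empty.elim) v = false ∧ delbPlane.pos (cfSites η) v ∈ thickening ρ 𝔇.Tc} ∪ 𝔖s.g2.R ∪ 𝔖t.g2.R)
    (fun _ h => Or.inl (Or.inr h)) (pvqw_rib 𝔖s.g2 ha (pvtg_aOut_tgt_R 𝔖s.g2))
  exact pl_hx_join_trans (pl_hx_join_trans j1 j2) j3

/-- the two ribs are white-joined: hypothesis `hw` of `pvgz_close`, `pvgz_wall_link`, `pvgz_link_gfaced` (260) -/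
theorem pvqw_W_mono (hD : 𝔇.Wf) (hH : 𝔇.Hook) {η : Conf PvPt} (hη : η ∈ 𝔇.W) (hn : CfOK η)
    {𝔖s : PvspSt (delbPlane.T (cfSites η)) (pvspS 𝔇.ts.col (delbPlane.col η Empty.elim))} (hs : 𝔖s.At (delbPlane.pos (cfSites η)) (𝔇.ts.reg 𝔇.N 𝔇.zs 𝔇.h))
    {𝔖t : PvspSt (delbPlane.T (cfSites η)) (pvspS 𝔇.tt.col (delbPlane.col η Empty.elim))} (ht : 𝔖t.At (delbPlane.pos (cfSites η)) (𝔇.tt.reg 𝔇.N 𝔇.zt 𝔇.h))
    {r r' : ↥(cfSites η)} (hr : r ∈ 𝔖s.g2.R) (hr' : r' ∈ 𝔖t.g2.R) :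
    (delbPlane.T (cfSites η)).Mono (pvspS 𝔇.ts.col (delbPlane.col η Empty.elim)) r r' := by
  obtain ⟨a, ha, b, hb, hj⟩ := pvqw_W_joinA hD hH hη hn (ρ := max (𝔇.N.mu * 𝔇.h + 1) (𝔇.δ / 2 / 8)) (lt_of_lt_of_le (lt_add_one _) (le_max_left _ _)) (le_max_right _ _) hs ht
  have hw : ∀ v ∈ 𝔖t.g2.R, pvspS 𝔇.ts.col (delbPlane.col η Empty.elim) v = false := by
    intro v hv
    rw [hD.col]
    exact pvtg_R_white 𝔖t.g2 hv
  have j1 : (delbPlane.T (cfSites η)).Join univ {v | pvspS 𝔇.ts.col (delbPlane.col η Empty.elim) v = false} r a :=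
    pvta_join_mono (fun _ h => pvtg_R_white 𝔖s.g2 h) (pvqw_rib 𝔖s.g2 hr ha)
  have j2 : (delbPlane.T (cfSites η)).Join univ {v | pvspS 𝔇.ts.col (delbPlane.col η Empty.elim) v = false} a b := pvta_join_mono (fun _ h => h.1) hj
  have j3 : (delbPlane.T (cfSites η)).Join univ {v | pvspS 𝔇.ts.col (delbPlane.col η Empty.elim) v = false} b r' :=
    pvta_join_mono hw (pvqw_rib 𝔖t.g2 hb hr')
  exact pvt_c_join_mono (pl_hx_join_trans (pl_hx_join_trans j1 j2) j3)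

end closeA

end Claimed.Agent.R289
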