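-- KEEP
import Claimed.Agent.R289.Defs.GdReg
import Claimed.Agent.R289.Exit.FrcDefs

/-!
# Row 289 (S0537), THE WALL, ROAD E, file Tr/MeshCv : (b6) THE MESH OF A WINDOW FROM THE MESHES OF ITS ATOMS, MODEL FREE      (helper256; prefix `pvrg_cv_`, `pvrg_mesh_win`)

The plain events of `Tr/InstL` v2.2 contain `PvtrMesh μ Wn (sites)`, `Wn` = kept part `∪` tile `K` `∪` plug region `D`.      In a final configuration the sites of `K` are fresh, those of `D` are given, the others are those of the base.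
* sec. 1  **`pvrg_cv_off`** (a point off a convex open / closed set lies on a closed ball of any radius which misses the set: Hahn-Banach), **`pvrg_cv_dich`** (every closed ball of radius `ρ` contains a closed ball of radius `ρ/4` INSIDE `C` or DISJOINT from `C`),
          **`pvrg_cv_list`** (`n` convex sets: radius `ρ / 4 ^ n`, pure for each of them)
* sec. 2  **`pvrg_mesh_win`** : `D` convex, `K` any Boolean combination of convex sets, mesh of the plug `ρD ≤ μ/4` (read in `ED ⊇ D`), mesh `μ / 4 ^ (n+1)` read in `K`, density `μ / 4 ^ (n+1)` of the base on the window  ⟹  `PvtrMesh μ Wn`.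
          `PvrgComb 𝒞 K` (the hypothesis on `K`): `pvrg_cv_comb_mem`, `.compl .inter .union .diff .mono`
* sec. 3  **`pvrg_mesh_fin`** : the same AT THE RECORDS OF 35 (`Exit/FrcDefs`): `PvjeFin E T η₀ η` + [plug: `η ∈ pvrgMesh ρD ED`] + [tile: `T.𝒦 ⊆ pvrgMesh r E.K`] + [base: `η₀ ∈ pvrgMesh r E₀`, window in the `r`-core of `E₀`]  ⟹  `PvtrMesh μ (E.Wn (E.Hu η₀)) (cfSites η)` = the conjunct `pvilMs` of `pvilMo Mi Me`
* sec. 4  (v1.1) THE SHARP RATIO `1/3` FOR THE PLUG: `pvrg_cv_dich3`, **`pvrg_mesh_win3`**, **`pvrg_mesh_fin3`** : the same with `ρD ≤ μ / 3` (R23 (1') of 234: `μ₁ δ_m ≤ pvilMu / 3`), free scale `r := μ / 3 / 4 ^ n`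
0 sorry
-/

set_option autoImplicit false

namespace Claimed.Agent.R289

open Set Metric

/-! ## 1. convex sets and balls -/

/-- a point off a convex (open or closed) set lies on a closed ball of radius `r` which misses the set -/
theorem pvrg_cv_off {C : Set ℂ} (cC : Convex ℝ C) (hC : IsOpen C ∨ IsClosed C) {x : ℂ} (hx : x ∉ C) {r : ℝ} (hr : 0 ≤ r) : ∃ y, ‖y - x‖ ≤ r ∧ Disjoint (closedBall y r) C := by
  obtain ⟨f, hf⟩ : ∃ f : StrongDual ℝ ℂ, ∀ a ∈ C, f a < f x := by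
    rcases hC with hC | hC
    · exact geometric_hahn_banach_open_point cC hC hx
    · obtain ⟨f, u, h1, h2⟩ := geometric_hahn_banach_closed_point cC hC hx
      exact ⟨f, fun a ha => (h1 a ha).trans h2⟩
  set a : ℂ := (InnerProductSpace.toDual ℝ ℂ).symm f with ha
  have hfa : ∀ v, f v = inner ℝ a v := fun v => (InnerProductSpace.toDual_symm_apply).symm
  by_cases h0 : a = 0
  · refine ⟨x, by simpa using hr, Set.disjoint_left.2 fun w _ hw => ?_⟩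
    have := hf w hw
    rw [hfa, hfa, h0, inner_zero_left, inner_zero_left] at this
    exact lt_irrefl _ this
  · have hn : 0 < ‖a‖ := norm_pos_iff.2 h0
    refine ⟨x + (r / ‖a‖ : ℝ) • a, ?_, Set.disjoint_left.2 fun w hw hwC => ?_⟩
    · rw [add_sub_cancel_left, norm_smul, Real.norm_eq_abs, abs_of_nonneg (div_nonneg hr hn.le), div_mul_cancel₀ _ hn.ne']
    · have h1 := hf w hwC
      rw [mem_closedBall_iff_norm] at hw
      have e : w = x + (r / ‖a‖ : ℝ) • a + (w - (x + (r / ‖a‖ : ℝ) • a)) := by ring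
      have h2 : f w = f x + r * ‖a‖ + inner ℝ a (w - (x + (r / ‖a‖ : ℝ) • a)) := by
        conv_lhs => rw [e]
        rw [map_add, map_add, hfa ((r / ‖a‖ : ℝ) • a), hfa (w - _), inner_smul_right, real_inner_self_eq_norm_sq]
        congr 2
        field_simp
      have h3 : -(‖a‖ * r) ≤ inner ℝ a (w - (x + (r / ‖a‖ : ℝ) • a)) := by
        have := abs_real_inner_le_norm a (w - (x + (r / ‖a‖ : ℝ) • a))
        have h4 := (abs_le.1 this).1
        have h5 : ‖a‖ * ‖w - (x + (r / ‖a‖ : ℝ) • a)‖ ≤ ‖a‖ * r := mul_le_mul_of_nonneg_left hw hn.le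
        linarith
      nlinarith

/-- **DICHOTOMY**: every closed ball of radius `ρ` contains a closed ball of radius `ρ/4` which is inside `C` or disjoint from `C` -/
theorem pvrg_cv_dich {C : Set ℂ} (cC : Convex ℝ C) (hC : IsOpen C ∨ IsClosed C) (z : ℂ) {ρ : ℝ} (hρ : 0 ≤ ρ) :
    ∃ y, closedBall y (ρ / 4) ⊆ closedBall z ρ ∧ (closedBall y (ρ / 4) ⊆ C ∨ Disjoint (closedBall y (ρ / 4)) C) := by
  by_cases h : closedBall z (ρ / 4) ⊆ C
  · exact ⟨z, closedBall_subset_closedBall (by linarith), Or.inl h⟩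
  · obtain ⟨x, hx, hxC⟩ := Set.not_subset.1 h
    obtain ⟨y, hy, hd⟩ := pvrg_cv_off cC hC hxC (r := ρ / 4) (by linarith)
    refine ⟨y, fun w hw => ?_, Or.inr hd⟩
    rw [mem_closedBall_iff_norm] at hx hw ⊢
    calc ‖w - z‖ = ‖(w - y) + (y - x) + (x - z)‖ := by congr 1; ring
      _ ≤ ‖w - y‖ + ‖y - x‖ + ‖x - z‖ := norm_add₃_le
      _ ≤ ρ := by linarith

/-- **a finite list of convex sets**: a closed ball of radius `ρ / 4 ^ n` which is pure for each of them -/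
theorem pvrg_cv_list (𝒞 : List (Set ℂ)) (h : ∀ C ∈ 𝒞, Convex ℝ C ∧ (IsOpen C ∨ IsClosed C)) (z : ℂ) {ρ : ℝ} (hρ : 0 ≤ ρ) :
    ∃ y, closedBall y (ρ / 4 ^ 𝒞.length) ⊆ closedBall z ρ ∧ ∀ C ∈ 𝒞, closedBall y (ρ / 4 ^ 𝒞.length) ⊆ C ∨ Disjoint (closedBall y (ρ / 4 ^ 𝒞.length)) C := by
  induction 𝒞 generalizing z ρ with
  | nil => exact ⟨z, by simp, by simp⟩
  | cons C t ih =>
    obtain ⟨y1, h1, h2⟩ := pvrg_cv_dich (h C (List.mem_cons_self)).1 (h C (List.mem_cons_self)).2 z hρ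
    obtain ⟨y, h3, h4⟩ := ih (fun C' hC' => h C' (List.mem_cons_of_mem _ hC')) y1 (ρ := ρ / 4) (by linarith)
    have e : ρ / 4 ^ (C :: t).length = ρ / 4 / 4 ^ t.length := by
      rw [List.length_cons, pow_succ, div_div, mul_comm]
    rw [e]
    refine ⟨y, h3.trans h1, fun C' hC' => ?_⟩
    rcases List.mem_cons.1 hC' with rfl | hC'
    · rcases h2 with h2 | h2
      · exact Or.inl (h3.trans h2)
      · exact Or.inr (h2.mono_left h3)
    · exact h4 C' hC'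

/-! ## 2. the mesh of a window -/

/-- `b` is PURE for the sets of the list -/
def PvrgPure (𝒞 : List (Set ℂ)) (b : Set ℂ) : Prop := ∀ C ∈ 𝒞, b ⊆ C ∨ Disjoint b C

/-- `K` is a BOOLEAN COMBINATION of the sets of the list: a pure set is inside `K` or disjoint from `K` -/
def PvrgComb (𝒞 : List (Set ℂ)) (K : Set ℂ) : Prop := ∀ b, PvrgPure 𝒞 b → b ⊆ K ∨ Disjoint b K

theorem pvrg_cv_eqns_cite : True := by
  have := @PvrgPure.eq_1; have := @PvrgComb.eq_1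
  trivial

theorem pvrg_cv_comb_mem {𝒞 : List (Set ℂ)} {C : Set ℂ} (h : C ∈ 𝒞) : PvrgComb 𝒞 C := fun _ hb => hb C h

theorem PvrgComb.compl {𝒞 : List (Set ℂ)} {K : Set ℂ} (h : PvrgComb 𝒞 K) : PvrgComb 𝒞 Kᶜ := fun b hb => by
  rcases h b hb with h1 | h1
  · exact Or.inr (Set.disjoint_compl_right_iff_subset.2 h1)
  · exact Or.inl (Set.subset_compl_iff_disjoint_right.2 h1)

theorem PvrgComb.inter {𝒞 : List (Set ℂ)} {K K' : Set ℂ} (h : PvrgComb 𝒞 K) (h' : PvrgComb 𝒞 K') : PvrgComb 𝒞 (K ∩ K') := fun b hb => by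
  rcases h b hb with h1 | h1
  · rcases h' b hb with h2 | h2
    · exact Or.inl (subset_inter h1 h2)
    · exact Or.inr (h2.mono_right inter_subset_right)
  · exact Or.inr (h1.mono_right inter_subset_left)

theorem PvrgComb.union {𝒞 : List (Set ℂ)} {K K' : Set ℂ} (h : PvrgComb 𝒞 K) (h' : PvrgComb 𝒞 K') : PvrgComb 𝒞 (K ∪ K') := fun b hb => by
  rcases h b hb with h1 | h1
  · exact Or.inl (h1.trans subset_union_left)
  · rcases h' b hb with h2 | h2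
    · exact Or.inl (h2.trans subset_union_right)
    · exact Or.inr (Set.disjoint_union_right.2 ⟨h1, h2⟩)

theorem PvrgComb.diff {𝒞 : List (Set ℂ)} {K K' : Set ℂ} (h : PvrgComb 𝒞 K) (h' : PvrgComb 𝒞 K') : PvrgComb 𝒞 (K \ K') := by
  rw [Set.sdiff_eq]
  exact h.inter h'.compl

theorem PvrgComb.mono {𝒞 𝒞' : List (Set ℂ)} {K : Set ℂ} (h : PvrgComb 𝒞 K) (hs : ∀ C ∈ 𝒞, C ∈ 𝒞') : PvrgComb 𝒞' K := fun b hb => h b fun C hC => hb C (hs C hC)

/-- **(b6) THE MESH OF THE WINDOW OF A FINAL CONFIGURATION**.      `Y` = the sites of the final configuration, `Y₀` = the sites of the base.      `D` = the region of the plug (convex), its mesh `ρD ≤ μ/4` is read in `ED ⊇ D`;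
`K` = the tile, a Boolean combination of the `n` convex sets of `𝒞`; its mesh and the density of the base have the FREE scale `μ / 4 ^ (n + 1)`. -/
theorem pvrg_mesh_win {μ : ℝ} (hμ : 0 ≤ μ) {D ED : Set ℂ} (cD : Convex ℝ D) (oD : IsOpen D ∨ IsClosed D) (hDE : D ⊆ ED) {𝒞 : List (Set ℂ)} (h𝒞 : ∀ C ∈ 𝒞, Convex ℝ C ∧ (IsOpen C ∨ IsClosed C))
    {K Wn : Set ℂ} (hK : PvrgComb 𝒞 K) {Y Y₀ : Set ℂ} (hs : ∀ v ∈ Wn, v ∉ K ∪ D → v ∈ Y₀ → v ∈ Y) {ρD : ℝ} (hρD : ρD ≤ μ / 4) (mD : PvtrMesh ρD ED Y)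
    (mK : PvtrMesh (μ / 4 / 4 ^ 𝒞.length) K Y) (m0 : VorDense Y₀ Wn (μ / 4 / 4 ^ 𝒞.length)) : PvtrMesh μ Wn Y := by
  intro z hz
  have hz' : closedBall z μ ⊆ Wn := hz
  have key : ∀ (y u : ℂ) (r : ℝ), closedBall y r ⊆ closedBall z μ → ‖y - u‖ ≤ r → ‖z - u‖ ≤ μ := by
    intro y u r h1 h2
    have : u ∈ closedBall z μ := h1 (by rw [mem_closedBall_iff_norm, ← norm_neg]; simpa using h2)
    rw [mem_closedBall_iff_norm, ← norm_neg] at this
    simpa using this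
  obtain ⟨y1, h1, h2⟩ := pvrg_cv_dich cD oD z hμ
  rcases h2 with h2 | h2
  · -- inside the plug
    have hc : y1 ∈ pvtrCore ρD ED := (closedBall_subset_closedBall hρD).trans (h2.trans hDE)
    obtain ⟨u, hu, hd⟩ := mD y1 hc
    exact ⟨u, hu, key y1 u (μ / 4) h1 (hd.trans hρD)⟩
  · obtain ⟨y, h3, h4⟩ := pvrg_cv_list 𝒞 h𝒞 y1 (ρ := μ / 4) (by linarith)
    have hr : 0 ≤ μ / 4 / 4 ^ 𝒞.length := by positivity
    rcases hK _ h4 with h5 | h5
    · -- inside the tile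
      obtain ⟨u, hu, hd⟩ := mK y h5
      exact ⟨u, hu, key y u _ (h3.trans h1) hd⟩
    · -- off the tile and off the plug: a site of the base
      have hyW : y ∈ Wn := hz' (h1 (h3 (mem_closedBall_self hr)))
      obtain ⟨u, hu, hd⟩ := m0 y hyW
      have hub : u ∈ closedBall y (μ / 4 / 4 ^ 𝒞.length) := by
        rw [mem_closedBall_iff_norm, ← norm_neg]; simpa using hd
      refine ⟨u, hs u (hz' (h1 (h3 hub))) ?_ hu, key y u _ (h3.trans h1) hd⟩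
      rintro (hk | hk)
      · exact Set.disjoint_left.1 h5 hub hk
      · exact Set.disjoint_left.1 h2 (h3 hub) hk

/-! ## 3. at the records of `Exit/FrcDefs` -/

/-- **(b6) AT A FINAL CONFIGURATION**: the mesh conjunct of the plain success.      `r := μ / 4 / 4 ^ n`, `n` = the number of convex pieces of the tile. -/
theorem pvrg_mesh_fin {E : PvjeEnd} {T : PvjeTest} {η₀ η : Conf PvPt} (h : PvjeFin E T η₀ η) {μ : ℝ} (hμ : 0 ≤ μ) {ED E₀ : Set ℂ} (cD : Convex ℝ E.D) (oD : IsOpen E.D ∨ IsClosed E.D) (hDE : E.D ⊆ ED)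
    {𝒞 : List (Set ℂ)} (h𝒞 : ∀ C ∈ 𝒞, Convex ℝ C ∧ (IsOpen C ∨ IsClosed C)) (hK : PvrgComb 𝒞 E.K) {ρD : ℝ} (hρD : ρD ≤ μ / 4) (mD : η ∈ pvrgMesh ρD ED)
    (mK : T.𝒦 ⊆ pvrgMesh (μ / 4 / 4 ^ 𝒞.length) E.K) (m0 : η₀ ∈ pvrgMesh (μ / 4 / 4 ^ 𝒞.length) E₀) (hW : E.Wn (E.Hu η₀) ⊆ pvtrCore (μ / 4 / 4 ^ 𝒞.length) E₀) :
    PvtrMesh μ (E.Wn (E.Hu η₀)) (cfSites η) := by
  obtain ⟨τ, hτ, -⟩ := h.copy
  have mK' : PvtrMesh (μ / 4 / 4 ^ 𝒞.length) E.K (cfSites η) := by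
    have := mK hτ
    rw [pvrgMesh, mem_ofPred_eq, cfOf_sites] at this
    exact this
  refine pvrg_mesh_win hμ cD oD hDE h𝒞 hK (Y₀ := cfSites η₀) (fun v hv hn h0 => ?_) hρD mD mK' fun z hz => m0 z (hW hz)
  have hvK : v ∈ E.Kp (E.Hu η₀) := by
    refine ⟨?_, hn⟩
    rcases hv with ((hv | hv) | hv) | hv
    · exact Or.inl hv
    · exact Or.inr hv
    · exact absurd (Or.inl hv) hn
    · exact absurd (Or.inr hv) hn
  have : v ∈ cfSites η ∩ E.Kp (E.Hu η₀) := by rw [h.sites]; exact ⟨h0, hvK⟩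
  exact this.1

/-! ## 4. the sharp ratio for the plug -/

/-- **DICHOTOMY, SHARP RATIO**: every closed ball of radius `ρ` contains a closed ball of radius `ρ/3` which is inside `C` or disjoint from `C` -/
theorem pvrg_cv_dich3 {C : Set ℂ} (cC : Convex ℝ C) (hC : IsOpen C ∨ IsClosed C) (z : ℂ) {ρ : ℝ} (hρ : 0 ≤ ρ) :
    ∃ y, closedBall y (ρ / 3) ⊆ closedBall z ρ ∧ (closedBall y (ρ / 3) ⊆ C ∨ Disjoint (closedBall y (ρ / 3)) C) := by
  by_cases h : closedBall z (ρ / 3) ⊆ C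
  · exact ⟨z, closedBall_subset_closedBall (by linarith), Or.inl h⟩
  · obtain ⟨x, hx, hxC⟩ := Set.not_subset.1 h
    obtain ⟨y, hy, hd⟩ := pvrg_cv_off cC hC hxC (r := ρ / 3) (by linarith)
    refine ⟨y, fun w hw => ?_, Or.inr hd⟩
    rw [mem_closedBall_iff_norm] at hx hw ⊢
    calc ‖w - z‖ = ‖(w - y) + (y - x) + (x - z)‖ := by congr 1; ring
      _ ≤ ‖w - y‖ + ‖y - x‖ + ‖x - z‖ := norm_add₃_le
      _ ≤ ρ := by linarith

/-- **(b6)**, mesh of the plug `ρD ≤ μ / 3` -/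
theorem pvrg_mesh_win3 {μ : ℝ} (hμ : 0 ≤ μ) {D ED : Set ℂ} (cD : Convex ℝ D) (oD : IsOpen D ∨ IsClosed D) (hDE : D ⊆ ED) {𝒞 : List (Set ℂ)} (h𝒞 : ∀ C ∈ 𝒞, Convex ℝ C ∧ (IsOpen C ∨ IsClosed C))
    {K Wn : Set ℂ} (hK : PvrgComb 𝒞 K) {Y Y₀ : Set ℂ} (hs : ∀ v ∈ Wn, v ∉ K ∪ D → v ∈ Y₀ → v ∈ Y) {ρD : ℝ} (hρD : ρD ≤ μ / 3) (mD : PvtrMesh ρD ED Y)
    (mK : PvtrMesh (μ / 3 / 4 ^ 𝒞.length) K Y) (m0 : VorDense Y₀ Wn (μ / 3 / 4 ^ 𝒞.length)) : PvtrMesh μ Wn Y := by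
  intro z hz
  have hz' : closedBall z μ ⊆ Wn := hz
  have key : ∀ (y u : ℂ) (r : ℝ), closedBall y r ⊆ closedBall z μ → ‖y - u‖ ≤ r → ‖z - u‖ ≤ μ := by
    intro y u r h1 h2
    have : u ∈ closedBall z μ := h1 (by rw [mem_closedBall_iff_norm, ← norm_neg]; simpa using h2)
    rw [mem_closedBall_iff_norm, ← norm_neg] at this
    simpa using this
  obtain ⟨y1, h1, h2⟩ := pvrg_cv_dich3 cD oD z hμ
  rcases h2 with h2 | h2
  · have hc : y1 ∈ pvtrCore ρD ED := (closedBall_subset_closedBall hρD).trans (h2.trans hDE)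
    obtain ⟨u, hu, hd⟩ := mD y1 hc
    exact ⟨u, hu, key y1 u (μ / 3) h1 (hd.trans hρD)⟩
  · obtain ⟨y, h3, h4⟩ := pvrg_cv_list 𝒞 h𝒞 y1 (ρ := μ / 3) (by linarith)
    have hr : 0 ≤ μ / 3 / 4 ^ 𝒞.length := by positivity
    rcases hK _ h4 with h5 | h5
    · obtain ⟨u, hu, hd⟩ := mK y h5
      exact ⟨u, hu, key y u _ (h3.trans h1) hd⟩
    · have hyW : y ∈ Wn := hz' (h1 (h3 (mem_closedBall_self hr)))
      obtain ⟨u, hu, hd⟩ := m0 y hyW
      have hub : u ∈ closedBall y (μ / 3 / 4 ^ 𝒞.length) := by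
        rw [mem_closedBall_iff_norm, ← norm_neg]; simpa using hd
      refine ⟨u, hs u (hz' (h1 (h3 hub))) ?_ hu, key y u _ (h3.trans h1) hd⟩
      rintro (hk | hk)
      · exact Set.disjoint_left.1 h5 hub hk
      · exact Set.disjoint_left.1 h2 (h3 hub) hk

/-- **(b6) AT A FINAL CONFIGURATION**, mesh of the plug `ρD ≤ μ / 3`;   `r := μ / 3 / 4 ^ n` -/
theorem pvrg_mesh_fin3 {E : PvjeEnd} {T : PvjeTest} {η₀ η : Conf PvPt} (h : PvjeFin E T η₀ η) {μ : ℝ} (hμ : 0 ≤ μ) {ED E₀ : Set ℂ} (cD : Convex ℝ E.D) (oD : IsOpen E.D ∨ IsClosed E.D) (hDE : E.D ⊆ ED)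
    {𝒞 : List (Set ℂ)} (h𝒞 : ∀ C ∈ 𝒞, Convex ℝ C ∧ (IsOpen C ∨ IsClosed C)) (hK : PvrgComb 𝒞 E.K) {ρD : ℝ} (hρD : ρD ≤ μ / 3) (mD : η ∈ pvrgMesh ρD ED)
    (mK : T.𝒦 ⊆ pvrgMesh (μ / 3 / 4 ^ 𝒞.length) E.K) (m0 : η₀ ∈ pvrgMesh (μ / 3 / 4 ^ 𝒞.length) E₀) (hW : E.Wn (E.Hu η₀) ⊆ pvtrCore (μ / 3 / 4 ^ 𝒞.length) E₀) :
    PvtrMesh μ (E.Wn (E.Hu η₀)) (cfSites η) := by
  obtain ⟨τ, hτ, -⟩ := h.copy
  have mK' : PvtrMesh (μ / 3 / 4 ^ 𝒞.length) E.K (cfSites η) := by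
    have := mK hτ
    rw [pvrgMesh, mem_ofPred_eq, cfOf_sites] at this
    exact this
  refine pvrg_mesh_win3 hμ cD oD hDE h𝒞 hK (Y₀ := cfSites η₀) (fun v hv hn h0 => ?_) hρD mD mK' fun z hz => m0 z (hW hz)
  have hvK : v ∈ E.Kp (E.Hu η₀) := by
    refine ⟨?_, hn⟩
    rcases hv with ((hv | hv) | hv) | hv
    · exact Or.inl hv
    · exact Or.inr hv
    · exact absurd (Or.inl hv) hn
    · exact absurd (Or.inr hv) hn
  have : v ∈ cfSites η ∩ E.Kp (E.Hu η₀) := by rw [h.sites]; exact ⟨h0, hvK⟩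
  exact this.1

end Claimed.Agent.R289
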