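import Claimed.Agent.R289.Tr.Ret

/-!
# Row 289 (S0537), THE WALL, ROAD E, file Tr/MeshU : (UM) THE UNION MESH      (helper208, RULING W-8; prefix `pvmq_`, `Pvmq`)

MODEL FREE.   `PvtrMesh ρ E Y` (220, `Tr/Ret`) = every point of the `ρ`-core of `E` has a site at distance `≤ ρ`.      The sites of the pieces of a window come from INDEPENDENT sources (kept part, tile, plug region): a mesh on every piece gives a mesh on the union, SEAMS INCLUDED, as soon as
one piece is cut out by half planes (a square, a box, a disc, their placed images).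
* sec. 1  `PvmqCut D` : every point off `D` lies on the boundary of a closed half plane which misses `D`;   half planes (closed, strict), `.inter`, squares, boxes (closed, strict), discs (closed, strict), `.image` (`w ↦ z + d w`, `‖d‖ = 1`), `.shift`
* sec. 2  `pvmq_mono` (coarser scale, smaller region),   **`pvmq_union`** : `PvmqCut D`, `U ∩ D ⊆ P₁`, `U \ D ⊆ P₂`, mesh `ρ₁` on `P₁`, mesh `ρ₂` on `P₂`   ⟹   mesh `ρ₁ + 2 ρ₂` on `U`;      `pvmq_union3` (one scale: `3 ρ`),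
          `pvmq_window` (USE (a) of W-8: plug region `D`, window `E ∪ D`),   `pvmq_dense` (the `VorDense` form on a set whose collar lies in the union)
-/

set_option autoImplicit false

namespace Claimed.Agent.R289

open Set Metric
open scoped ComplexConjugate

/-! ## 1. sets cut out by half planes -/

/-- every point off `D` lies on the boundary of a closed half plane which misses `D` -/
def PvmqCut (D : Set ℂ) : Prop := ∀ u, u ∉ D → ∃ n : ℂ, ‖n‖ = 1 ∧ ∀ x, 0 ≤ ((x - u) * conj n).re → x ∉ D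

theorem pvmq_eqns_cite : True := by
  have := @PvmqCut.eq_1
  trivial

theorem pvmq_split (x u n : ℂ) : (x * conj n).re = ((x - u) * conj n).re + (u * conj n).re := by
  rw [← Complex.add_re, ← add_mul, sub_add_cancel]

/-- a closed half plane -/
theorem pvmq_cut_le {n : ℂ} (hn : ‖n‖ = 1) (a : ℝ) : PvmqCut {w | (w * conj n).re ≤ a} := by
  intro u hu
  refine ⟨n, hn, fun x hx h => hu ?_⟩
  have h1 : (x * conj n).re ≤ a := h
  rw [pvmq_split x u n] at h1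
  show (u * conj n).re ≤ a
  linarith

/-- a strict half plane -/
theorem pvmq_cut_lt {n : ℂ} (hn : ‖n‖ = 1) (a : ℝ) : PvmqCut {w | (w * conj n).re < a} := by
  intro u hu
  refine ⟨n, hn, fun x hx h => hu ?_⟩
  have h1 : (x * conj n).re < a := h
  rw [pvmq_split x u n] at h1
  show (u * conj n).re < a
  linarith

theorem PvmqCut.inter {D D' : Set ℂ} (h : PvmqCut D) (h' : PvmqCut D') : PvmqCut (D ∩ D') := by
  intro u hu
  by_cases h1 : u ∈ D
  · obtain ⟨n, hn, H⟩ := h' u fun h2 => hu ⟨h1, h2⟩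
    exact ⟨n, hn, fun x hx hx' => H x hx hx'.2⟩
  · obtain ⟨n, hn, H⟩ := h u h1
    exact ⟨n, hn, fun x hx hx' => H x hx hx'.1⟩

theorem pvmq_cut_univ : PvmqCut univ := fun u hu => absurd (mem_univ u) hu

theorem PvmqCut.congr {D D' : Set ℂ} (h : PvmqCut D) (e : D = D') : PvmqCut D' := e ▸ h

theorem pvmq_cut_re_le (a : ℝ) : PvmqCut {w : ℂ | w.re ≤ a} :=
  (pvmq_cut_le (n := 1) (by simp) a).congr (by ext w; simp)
theorem pvmq_cut_re_lt (a : ℝ) : PvmqCut {w : ℂ | w.re < a} :=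
  (pvmq_cut_lt (n := 1) (by simp) a).congr (by ext w; simp)
theorem pvmq_cut_re_ge (a : ℝ) : PvmqCut {w : ℂ | a ≤ w.re} :=
  (pvmq_cut_le (n := -1) (by simp) (-a)).congr (by ext w; simp)
theorem pvmq_cut_re_gt (a : ℝ) : PvmqCut {w : ℂ | a < w.re} :=
  (pvmq_cut_lt (n := -1) (by simp) (-a)).congr (by ext w; simp)
theorem pvmq_cut_im_le (a : ℝ) : PvmqCut {w : ℂ | w.im ≤ a} :=
  (pvmq_cut_le (n := Complex.I) (by simp) a).congr (by ext w; simp)
theorem pvmq_cut_im_lt (a : ℝ) : PvmqCut {w : ℂ | w.im < a} :=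
  (pvmq_cut_lt (n := Complex.I) (by simp) a).congr (by ext w; simp)
theorem pvmq_cut_im_ge (a : ℝ) : PvmqCut {w : ℂ | a ≤ w.im} :=
  (pvmq_cut_le (n := -Complex.I) (by simp) (-a)).congr (by ext w; simp)
theorem pvmq_cut_im_gt (a : ℝ) : PvmqCut {w : ℂ | a < w.im} :=
  (pvmq_cut_lt (n := -Complex.I) (by simp) (-a)).congr (by ext w; simp)

/-- a strict box (`pvkgB` of 258 by `rfl`) -/
theorem pvmq_cut_box_lt (x0 x1 y0 y1 : ℝ) : PvmqCut {w : ℂ | x0 < w.re ∧ w.re < x1 ∧ y0 < w.im ∧ w.im < y1} :=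
  (pvmq_cut_re_gt x0).inter ((pvmq_cut_re_lt x1).inter ((pvmq_cut_im_gt y0).inter (pvmq_cut_im_lt y1)))

/-- a closed box -/
theorem pvmq_cut_box_le (x0 x1 y0 y1 : ℝ) : PvmqCut {w : ℂ | x0 ≤ w.re ∧ w.re ≤ x1 ∧ y0 ≤ w.im ∧ w.im ≤ y1} :=
  (pvmq_cut_re_ge x0).inter ((pvmq_cut_re_le x1).inter ((pvmq_cut_im_ge y0).inter (pvmq_cut_im_le y1)))

/-- a closed square (`pvwSq z r` of `Tr/Defs` by `rfl`) -/
theorem pvmq_cut_sq (z : ℂ) (r : ℝ) : PvmqCut {w : ℂ | |(w - z).re| ≤ r ∧ |(w - z).im| ≤ r} :=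
  (pvmq_cut_box_le (z.re - r) (z.re + r) (z.im - r) (z.im + r)).congr (by
    ext w
    simp only [mem_ofPred_eq, Complex.sub_re, Complex.sub_im, abs_le]
    constructor
    · rintro ⟨a, b, c, d⟩; exact ⟨⟨by linarith, by linarith⟩, by linarith, by linarith⟩
    · rintro ⟨⟨a, b⟩, c, d⟩; exact ⟨by linarith, by linarith, by linarith, by linarith⟩)

/-- a strict square -/
theorem pvmq_cut_sq_lt (z : ℂ) (r : ℝ) : PvmqCut {w : ℂ | |(w - z).re| < r ∧ |(w - z).im| < r} :=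
  (pvmq_cut_box_lt (z.re - r) (z.re + r) (z.im - r) (z.im + r)).congr (by
    ext w
    simp only [mem_ofPred_eq, Complex.sub_re, Complex.sub_im, abs_lt]
    constructor
    · rintro ⟨a, b, c, d⟩; exact ⟨⟨by linarith, by linarith⟩, by linarith, by linarith⟩
    · rintro ⟨⟨a, b⟩, c, d⟩; exact ⟨by linarith, by linarith, by linarith, by linarith⟩)

theorem pvmq_re_le_norm {n : ℂ} (hn : ‖n‖ = 1) (x : ℂ) : (x * conj n).re ≤ ‖x‖ := by
  calc (x * conj n).re ≤ ‖x * conj n‖ := Complex.re_le_norm _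
    _ = ‖x‖ := by rw [norm_mul, Complex.norm_conj, hn, mul_one]

theorem pvmq_self {n : ℂ} (hn : ‖n‖ = 1) : n * conj n = 1 := by
  rw [Complex.mul_conj, Complex.normSq_eq_norm_sq, hn]; simp

/-- the direction from `c` to `u ≠ c` -/
theorem pvmq_dir {c u : ℂ} (h : u ≠ c) : ∃ n : ℂ, ‖n‖ = 1 ∧ ((u - c) * conj n).re = ‖u - c‖ := by
  have h0 : ‖u - c‖ ≠ 0 := norm_ne_zero_iff.2 (sub_ne_zero.2 h)
  refine ⟨(u - c) / (‖u - c‖ : ℂ), ?_, ?_⟩
  · rw [norm_div, Complex.norm_real, norm_norm, div_self h0]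
  · rw [map_div₀, Complex.conj_ofReal, mul_div_assoc', Complex.mul_conj, Complex.normSq_eq_norm_sq, ← Complex.ofReal_div, Complex.ofReal_re, sq, mul_div_assoc, div_self h0, mul_one]

/-- a closed disc -/
theorem pvmq_cut_closedBall (c : ℂ) (r : ℝ) : PvmqCut (closedBall c r) := by
  intro u hu
  rw [mem_closedBall_iff_norm, not_le] at hu
  by_cases hr : u = c
  · subst hr
    rw [sub_self, norm_zero] at hu
    refine ⟨1, by simp, fun x _ hx => ?_⟩
    rw [mem_closedBall_iff_norm] at hx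
    exact absurd (norm_nonneg _) (not_le.2 (lt_of_le_of_lt hx hu))
  obtain ⟨n, hn, e⟩ := pvmq_dir hr
  refine ⟨n, hn, fun x hx hx' => ?_⟩
  rw [mem_closedBall_iff_norm] at hx'
  have h1 := pvmq_re_le_norm hn (x - c)
  have h2 : ((x - c) * conj n).re = ((x - u) * conj n).re + ((u - c) * conj n).re := by
    rw [← Complex.add_re, ← add_mul]; congr 2; ring
  linarith

/-- an open disc -/
theorem pvmq_cut_ball (c : ℂ) (r : ℝ) : PvmqCut (ball c r) := by
  intro u hu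
  rw [mem_ball_iff_norm, not_lt] at hu
  by_cases hr : u = c
  · subst hr
    rw [sub_self, norm_zero] at hu
    refine ⟨1, by simp, fun x _ hx => ?_⟩
    rw [mem_ball_iff_norm] at hx
    exact absurd (norm_nonneg _) (not_le.2 (lt_of_lt_of_le hx hu))
  obtain ⟨n, hn, e⟩ := pvmq_dir hr
  refine ⟨n, hn, fun x hx hx' => ?_⟩
  rw [mem_ball_iff_norm] at hx'
  have h1 := pvmq_re_le_norm hn (x - c)
  have h2 : ((x - c) * conj n).re = ((x - u) * conj n).re + ((u - c) * conj n).re := by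
    rw [← Complex.add_re, ← add_mul]; congr 2; ring
  linarith

/-- the placed image `w ↦ z + d w`, `‖d‖ = 1`      (`pvthSim z d '' D`, `pvccPl z d D` by `rfl`) -/
theorem PvmqCut.image {D : Set ℂ} (h : PvmqCut D) (z : ℂ) {d : ℂ} (hd : ‖d‖ = 1) : PvmqCut ((fun w : ℂ => z + d * w) '' D) := by
  have hdd : d * conj d = 1 := pvmq_self hd
  have hd' : conj d * d = 1 := by rw [mul_comm]; exact hdd
  intro u hu
  have hu' : conj d * (u - z) ∉ D := fun hm => hu ⟨_, hm, by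
    show z + d * (conj d * (u - z)) = u
    rw [← mul_assoc, hdd, one_mul]; ring⟩
  obtain ⟨n, hn, H⟩ := h _ hu'
  refine ⟨d * n, by rw [norm_mul, hd, hn, one_mul], ?_⟩
  rintro x hx ⟨w, hw, rfl⟩
  refine H w ?_ hw
  have e : (w - conj d * (u - z)) * conj n = (z + d * w - u) * conj (d * n) := by
    rw [map_mul]
    calc (w - conj d * (u - z)) * conj n = ((conj d * d) * w - conj d * (u - z)) * conj n := by rw [hd', one_mul]
      _ = (z + d * w - u) * (conj d * conj n) := by ring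
  rw [e]
  exact hx

/-- the translate (`pvieSh z D` by `rfl`) -/
theorem PvmqCut.shift {D : Set ℂ} (h : PvmqCut D) (z : ℂ) : PvmqCut ((fun w : ℂ => z + w) '' D) :=
  (h.image z (d := 1) (by simp)).congr (by simp)

/-! ## 2. the union mesh -/

variable {ρ ρ' ρ₁ ρ₂ : ℝ} {D U E P₁ P₂ Y : Set ℂ}

/-- a mesh at a finer scale on a larger region -/
theorem pvmq_mono (h : PvtrMesh ρ E Y) (hρ : ρ ≤ ρ') (hU : U ⊆ E) : PvtrMesh ρ' U Y := by
  intro z hz
  have hz' : z ∈ pvtrCore ρ E := fun x hx => hU (hz (closedBall_subset_closedBall hρ hx))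
  obtain ⟨u, hu, h1⟩ := h z hz'
  exact ⟨u, hu, h1.trans hρ⟩

/-- **(UM) THE UNION MESH** -/
theorem pvmq_union (h2 : 0 ≤ ρ₂) (hD : PvmqCut D) (s1 : U ∩ D ⊆ P₁) (s2 : U \ D ⊆ P₂) (m1 : PvtrMesh ρ₁ P₁ Y) (m2 : PvtrMesh ρ₂ P₂ Y) :
    PvtrMesh (ρ₁ + 2 * ρ₂) U Y := by
  intro z hz
  have hzU : closedBall z (ρ₁ + 2 * ρ₂) ⊆ U := hz
  by_cases hc : closedBall z ρ₁ ⊆ D
  · have hz1 : z ∈ pvtrCore ρ₁ P₁ := fun x hx => s1 ⟨hzU (closedBall_subset_closedBall (by linarith) hx), hc hx⟩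
    obtain ⟨u, hu, h3⟩ := m1 z hz1
    exact ⟨u, hu, by linarith⟩
  · obtain ⟨u, hu, huD⟩ := not_subset.1 hc
    obtain ⟨n, hn, H⟩ := hD u huD
    rw [mem_closedBall_iff_norm] at hu
    have hw : ‖(u + (ρ₂ : ℂ) * n) - u‖ = ρ₂ := by
      rw [add_sub_cancel_left, norm_mul, hn, mul_one, Complex.norm_real, Real.norm_of_nonneg h2]
    have hz2 : u + (ρ₂ : ℂ) * n ∈ pvtrCore ρ₂ P₂ := by
      intro x hx
      rw [mem_closedBall_iff_norm] at hx
      refine s2 ⟨hzU ?_, H x ?_⟩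
      · rw [mem_closedBall_iff_norm]
        calc ‖x - z‖ = ‖(x - (u + (ρ₂ : ℂ) * n)) + ((u + (ρ₂ : ℂ) * n) - u) + (u - z)‖ := by congr 1; ring
          _ ≤ ‖x - (u + (ρ₂ : ℂ) * n)‖ + ‖(u + (ρ₂ : ℂ) * n) - u‖ + ‖u - z‖ := norm_add₃_le
          _ ≤ ρ₁ + 2 * ρ₂ := by rw [hw]; linarith
      · have e : (x - u) * conj n = (ρ₂ : ℂ) - ((u + (ρ₂ : ℂ) * n) - x) * conj n := by
          have := pvmq_self hn
          calc (x - u) * conj n = (ρ₂ : ℂ) * (n * conj n) - ((u + (ρ₂ : ℂ) * n) - x) * conj n := by ring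
            _ = _ := by rw [this, mul_one]
        rw [e, Complex.sub_re, Complex.ofReal_re]
        have := pvmq_re_le_norm hn ((u + (ρ₂ : ℂ) * n) - x)
        rw [norm_sub_rev] at this
        linarith
    obtain ⟨v, hv, h3⟩ := m2 _ hz2
    refine ⟨v, hv, ?_⟩
    calc ‖z - v‖ = ‖(z - u) + (u - (u + (ρ₂ : ℂ) * n)) + ((u + (ρ₂ : ℂ) * n) - v)‖ := by congr 1; ring
      _ ≤ ‖z - u‖ + ‖u - (u + (ρ₂ : ℂ) * n)‖ + ‖(u + (ρ₂ : ℂ) * n) - v‖ := norm_add₃_le
      _ ≤ ρ₁ + 2 * ρ₂ := by rw [norm_sub_rev z u, norm_sub_rev u (u + (ρ₂ : ℂ) * n), hw]; linarith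

/-- (UM), one scale -/
theorem pvmq_union3 (h0 : 0 ≤ ρ) (hD : PvmqCut D) (s1 : U ∩ D ⊆ P₁) (s2 : U \ D ⊆ P₂) (m1 : PvtrMesh ρ P₁ Y) (m2 : PvtrMesh ρ P₂ Y) : PvtrMesh (3 * ρ) U Y := by
  have := pvmq_union h0 hD s1 s2 m1 m2
  rwa [show ρ + 2 * ρ = 3 * ρ by ring] at this

/-- **USE (a) OF W-8**: plug region `D` with the mesh `ρ` of the usable plugs, the window without its plug region `E` with a finer mesh `μ`: ONE mesh on the whole window `E ∪ D` -/
theorem pvmq_window {μ : ℝ} (hμ : 0 ≤ μ) (hμρ : μ ≤ ρ) (hD : PvmqCut D) (mD : PvtrMesh ρ D Y) (mE : PvtrMesh μ E Y) : PvtrMesh (3 * ρ) (E ∪ D) Y :=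
  pvmq_union3 (hμ.trans hμρ) hD inter_subset_right (fun _ hx => hx.1.resolve_right hx.2) mD (pvmq_mono mE hμρ Subset.rfl)

/-- two plug regions -/
theorem pvmq_window2 {μ : ℝ} {D' : Set ℂ} (hμ : 0 ≤ μ) (hμρ : μ ≤ ρ) (hD : PvmqCut D) (hD' : PvmqCut D') (mD : PvtrMesh ρ D Y) (mD' : PvtrMesh ρ D' Y) (mE : PvtrMesh μ E Y) :
    PvtrMesh (7 * ρ) (E ∪ D ∪ D') Y := by
  have h0 : 0 ≤ ρ := hμ.trans hμρ
  have h1 := pvmq_window hμ hμρ hD mD mE
  have h2 := pvmq_union (by positivity : 0 ≤ 3 * ρ) hD' (U := E ∪ D ∪ D') inter_subset_right (fun _ hx => hx.1.resolve_right hx.2) mD' h1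
  rwa [show ρ + 2 * (3 * ρ) = 7 * ρ by ring] at h2

/-- the `VorDense` form -/
theorem pvmq_dense {S : Set ℂ} (h : PvtrMesh ρ U Y) (hS : S ⊆ pvtrCore ρ U) : VorDense Y S ρ := fun z hz => h z (hS hz)

end Claimed.Agent.R289
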