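-- KEEP
import Claimed.Agent.R289.Tr.HookWMI
import Claimed.Agent.R289.Tr.FitFz
import Claimed.Agent.R289.Exit.N1Q
import Claimed.Agent.R289.Exit.FitWf

/-!
# Row 289 (S0537), THE WALL, ROAD E, HOOK-DET, file Tr/HookWMF : THE DETERMINISTIC CONTRACT `PvwhDet` OF 5 AT THE HOOKED CORRIDOR OF RECORD      (owner helper155; prefix `pvhvf_`)

* sec. 1  **`pvhvf_fitH`** : the record `PvhvFitH` (numbers + pattern) of `Tr/HookWM`, model free, from `PvfeDoors` + `PvfeIx` (209) at the regions of record `pvfeRegAt`, `r = ρ₂ h`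
* sec. 2  **`pvhvf_det`**  : `PvwhDet 𝔓 x R m π μ (pvkqEv (δ/100) false (pvhvfR 𝔓 m π) ..)` for any parameter `Wf` + `PvfhWf`, at a fine level
* sec. 3  at `pvxParOf N hN c`, `N.m0 ≤ m` : **`pvhvf_det_at`**, **`pvhvf_wo_at`** (`∃ q₁ ≠ 0, PvnbkWO`), **`pvhvf_qbx_at`** (`Pvn1bQbx`)
-/

set_option autoImplicit false
set_option linter.unusedSectionVars false
set_option linter.unusedVariables false
set_option linter.unusedSimpArgs false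

namespace Claimed.Agent.R289

open Set Metric Complex

/-! ## 1. the numbers and the pattern -/

section fitH

variable {τ : Type}

theorem pvhvf_dir {u : ℤ × ℤ} (hu : PvfeDir u) : pvtZ u ∈ pvtzdDir := by
  rcases hu with rfl | rfl | rfl | rfl <;> simp [pvtZ, pvtzdDir]

theorem pvhvf_N_le (y : ℂ) : pvccN y ≤ ‖y‖ := max_le (abs_re_le_norm y) (abs_im_le_norm y)

/-- the picture of the tip: the coordinate of the grid centre along the dominant direction -/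
theorem pvhvf_pic {u z y : ℂ} {h : ℝ} (hy : (y * (starRingEnd ℂ) u).re = pvccN y) : ((starRingEnd ℂ) u * (z + (h : ℂ) * y)).re = ((starRingEnd ℂ) u * z).re + h * pvccN y := by
  rw [← hy, mul_add, add_re]
  congr 1
  have : (starRingEnd ℂ) u * ((h : ℂ) * y) = (h : ℂ) * (y * (starRingEnd ℂ) u) := by ring
  rw [this, re_ofReal_mul]

theorem pvhvf_tri4 (a b w c : ℂ) : ‖a - b‖ ≤ ‖a - c‖ + ‖w - c‖ + ‖w - b‖ := by
  have e : a - b = (a - c) - (w - c) + (w - b) := by ring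
  rw [e]
  exact (norm_add_le _ _).trans (add_le_add ((norm_sub_le _ _)) le_rfl)

/-- a box is far from the landing zone of the other pin -/
theorem pvhvf_far {N : PvwNum} {h : ℝ} (hh : 0 < h) (hρ : N.rho ≤ 1) (h1 : 0 ≤ N.rho1) {T T' : PvwTy} (hk : T.k ≤ N.K) (hk' : T'.k ≤ N.K) {y' z z' : ℂ}
    (hy : |pvccN y' - (2 * T'.b2 + T'.k * N.rho1)| ≤ N.rho / 4) (hsep : 2 * (pvwRad N h T' N.K + pvwRad N h T N.K) + 8 * h ≤ ‖z' - z‖) {w : ℂ} (hw : w ∈ pvwSq z (pvwRad N h T T.k)) :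
    N.rho * h < ‖w - (z' + (h : ℂ) * y')‖ := by
  have t1 := pvwh_tip_le hh h1 T' hk' hy
  have t2 := pvffz_sq_norm hw
  have t3 : pvwRad N h T T.k ≤ pvwRad N h T N.K := by
    unfold pvwRad
    have : (T.k : ℝ) * N.rho1 ≤ N.K * N.rho1 := mul_le_mul_of_nonneg_right (by exact_mod_cast hk) h1
    nlinarith
  have t4 := pvhvf_tri4 z' z w (z' + (h : ℂ) * y')
  have e : z' - (z' + (h : ℂ) * y') = - ((h : ℂ) * y') := by ring
  rw [e, norm_neg] at t4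
  have t5 : N.rho * h ≤ h := by nlinarith
  linarith

/-- **`PvhvFitH` FROM THE RECORDS OF 209**, model free, `r = ρ₂ h` -/
theorem pvhvf_fitH {Γ : PvtsGeo τ} {ty : τ → PvwTy} (cp cm : τ → Set ℂ) {N : PvwNum} {h : ℝ} (hD : PvfeDoors Γ ty N h) (hh : 0 < h) (hfine : 1000 * Γ.δ ≤ N.rho * h)
    (hρ0 : 0 < N.rho) (hρ1 : 8 * N.rho ≤ N.rho1) (hρ2 : 8 * N.rho1 ≤ N.rho2) (hρ3 : 8 * N.rho2 ≤ 1) (hk : ∀ t, (ty t).k ≤ N.K) (hb0 : ∀ t, 0 ≤ (ty t).b) (hb : ∀ t, (ty t).b + 2 ≤ 2 * (ty t).b2)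
    {p : PvtsPat τ} {Z : Set (ℤ × ℤ)} (hI : PvfeIx Γ ty N h p Z) {m : ℝ} (m0 : 0 < m) (mδ : m ≤ Γ.δ) :
    PvhvFitH N h (pvfeRegAt Γ ty cp cm N h p) Γ.δ m (N.rho2 * h) (Γ.dout p.tt) (- Γ.din p.ts) (pvfeZ Γ p) (pvfeD Γ p) p.l := by
  obtain ⟨e, u, hu, -, o2, -, o4⟩ := hD.out p.tt
  obtain ⟨e', u', hu', -, i2, -, i4⟩ := hD.inn p.ts
  have i2' : - Γ.din p.ts = pvtZ u' := by rw [i2, neg_neg]
  have np := abs_le.1 (hD.nd_p p.tt)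
  have nm := abs_le.1 (hD.nd_m p.ts)
  have kt : 0 ≤ ((ty p.tt).k : ℝ) * N.rho1 := mul_nonneg (Nat.cast_nonneg _) (by linarith)
  have ks : 0 ≤ ((ty p.ts).k : ℝ) * N.rho1 := mul_nonneg (Nat.cast_nonneg _) (by linarith)
  have bt := hb p.tt
  have bs := hb p.ts
  have bt0 := hb0 p.tt
  have bs0 := hb0 p.ts
  have hρh : 0 < N.rho * h := mul_pos hρ0 hh
  have q1 : 8 * (N.rho * h) ≤ N.rho1 * h := by nlinarith
  have q2 : 8 * (N.rho1 * h) ≤ N.rho2 * h := by nlinarith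
  have q3 : 8 * (N.rho2 * h) ≤ h := by nlinarith
  have Rt : ((ty p.tt).b + 2) * h ≤ pvwRad N h (ty p.tt) (ty p.tt).k := by
    unfold pvwRad
    exact mul_le_mul_of_nonneg_right (by linarith) hh.le
  have Rs : ((ty p.ts).b + 2) * h ≤ pvwRad N h (ty p.ts) (ty p.ts).k := by
    unfold pvwRad
    exact mul_le_mul_of_nonneg_right (by linarith) hh.le
  have bth : 0 ≤ (ty p.tt).b * h := mul_nonneg bt0 hh.le
  have bsh : 0 ≤ (ty p.ts).b * h := mul_nonneg bs0 hh.le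
  have At : pvwRad N h (ty p.tt) (ty p.tt).k ≤ h * pvccN (ty p.tt).yp + N.rho * h / 4 := by
    unfold pvwRad
    nlinarith [np.1]
  have As : pvwRad N h (ty p.ts) (ty p.ts).k ≤ h * pvccN (ty p.ts).ym + N.rho * h / 4 := by
    unfold pvwRad
    nlinarith [nm.1]
  have nt : ‖(ty p.tt).cp h p.zt - p.zt‖ = h * ‖(ty p.tt).yp‖ := by
    unfold PvwTy.cp
    rw [add_sub_cancel_left, norm_mul, Complex.norm_real, Real.norm_eq_abs, abs_of_pos hh]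
  have ns : ‖(ty p.ts).cm h p.zs - p.zs‖ = h * ‖(ty p.ts).ym‖ := by
    unfold PvwTy.cm
    rw [add_sub_cancel_left, norm_mul, Complex.norm_real, Real.norm_eq_abs, abs_of_pos hh]
  have Nt : h * pvccN (ty p.tt).yp ≤ h * ‖(ty p.tt).yp‖ := mul_le_mul_of_nonneg_left (pvhvf_N_le _) hh.le
  have Ns : h * pvccN (ty p.ts).ym ≤ h * ‖(ty p.ts).ym‖ := mul_le_mul_of_nonneg_left (pvhvf_N_le _) hh.le
  have hsep' : 2 * (pvwRad N h (ty p.tt) N.K + pvwRad N h (ty p.ts) N.K) + 8 * h ≤ ‖p.zt - p.zs‖ := by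
    rw [norm_sub_rev]; linarith [hI.sep]
  refine
    { m0 := m0
      mδ := mδ
      dir_t := by rw [o2]; exact pvhvf_dir hu
      dir_s := by rw [i2']; exact pvhvf_dir hu'
      adm_t := ?_
      adm_s := ?_
      big_t := ?_
      big_s := ?_
      core_t := ?_
      core_s := ?_
      r1 := by linarith
      r2 := le_rfl
      r3 := by linarith
      gate_t := ?_
      gate_s := ?_
      far_ts := ?_
      far_st := ?_
      out := Subset.rfl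
      reg := Subset.rfl }
  · show pvwRad N h (ty p.tt) (ty p.tt).k + ((starRingEnd ℂ) (Γ.dout p.tt) * p.zt).re ≤ ((starRingEnd ℂ) (Γ.dout p.tt) * (ty p.tt).cp h p.zt).re + N.rho * h / 4
    unfold PvwTy.cp
    rw [o2, pvhvf_pic o4]
    linarith
  · show pvwRad N h (ty p.ts) (ty p.ts).k + ((starRingEnd ℂ) (- Γ.din p.ts) * p.zs).re ≤ ((starRingEnd ℂ) (- Γ.din p.ts) * (ty p.ts).cm h p.zs).re + N.rho * h / 4
    unfold PvwTy.cm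
    rw [i2', pvhvf_pic i4]
    linarith
  · show N.rho * h / 4 + 2 * m ≤ pvwRad N h (ty p.tt) (ty p.tt).k
    linarith
  · show N.rho * h / 4 + 2 * m ≤ pvwRad N h (ty p.ts) (ty p.ts).k
    linarith
  · show (ty p.tt).b * h ≤ pvwRad N h (ty p.tt) (ty p.tt).k
    linarith
  · show (ty p.ts).b * h ≤ pvwRad N h (ty p.ts) (ty p.ts).k
    linarith
  · show N.rho2 * h + 4 * m + (ty p.tt).b * h ≤ ‖(ty p.tt).cp h p.zt - p.zt‖
    rw [nt]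
    linarith
  · show N.rho2 * h + 4 * m + (ty p.ts).b * h ≤ ‖(ty p.ts).cm h p.zs - p.zs‖
    rw [ns]
    linarith
  · intro w hw
    exact pvhvf_far hh (by linarith) (by linarith) (hk p.tt) (hk p.ts) (hD.nd_m p.ts) hI.sep hw
  · intro w hw
    exact pvhvf_far hh (by linarith) (by linarith) (hk p.ts) (hk p.tt) (hD.nd_p p.tt) hsep' hw

end fitH

/-! ## 2. the deterministic contract, any parameter -/

section det

variable {τ : Type} {c : ℝ} (𝔓 : PvxPar τ c) (m : ℕ) (π : PvxIx τ)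

/-- **THE HOOKED OUTER CORRIDOR OF RECORD OF A PATTERN** -/
noncomputable def pvhvfR : Set ℂ :=
  pvhvR (𝔓.num.rho * pvlmH m) (pvlmDel c m) (pvxYt 𝔓 m π.p) (pvxYs 𝔓 m π.p) ((𝔓.Γ m).dout π.p.tt) (- (𝔓.Γ m).din π.p.ts) (pvfeZ (𝔓.Γ m) π.p) (pvfeD (𝔓.Γ m) π.p) π.p.l

/-- its first end -/
noncomputable def pvhvfA : ℂ := pvhvXa (𝔓.num.rho * pvlmH m) (pvxYt 𝔓 m π.p) ((𝔓.Γ m).dout π.p.tt)

/-- its last end -/
noncomputable def pvhvfB : ℂ := pvhvXb (𝔓.num.rho * pvlmH m) (pvxYs 𝔓 m π.p) (- (𝔓.Γ m).din π.p.ts)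

theorem pvhvf_eqns_cite : True := by
  have := @pvhvfR.eq_1; have := @pvhvfA.eq_1; have := @pvhvfB.eq_1
  trivial

variable {𝔓 m π} {x : ℂ} {R : ℝ}

/-- the core of the corridor of record -/
theorem pvhvf_core (hW : 𝔓.Wf) (hF : PvfhWf 𝔓) (hfine : 1000 * pvlmDel c m ≤ 𝔓.num.rho * pvlmH m) (hπ : π ∈ pvxPatSet 𝔓 x R m) :
    PvkqCore (pvlmDel c m / 100) (pvhvfR 𝔓 m π) (pvhvfA 𝔓 m π) (pvhvfB 𝔓 m π) := by
  obtain ⟨nt, ns, G⟩ := pvhs_geo_pat hW.toWfB (hW.del m) (hF.doors m) hfine hπ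
  exact G.core

/-- the corridor of record is bounded -/
theorem pvhvf_bdd (hW : 𝔓.Wf) (hF : PvfhWf 𝔓) (hfine : 1000 * pvlmDel c m ≤ 𝔓.num.rho * pvlmH m) (hπ : π ∈ pvxPatSet 𝔓 x R m) : Bornology.IsBounded (pvhvfR 𝔓 m π) := by
  obtain ⟨nt, ns, G⟩ := pvhs_geo_pat hW.toWfB (hW.del m) (hF.doors m) hfine hπ
  exact isBounded_closedBall.subset G.bdd

/-- the corridor of record lies in the outer region of the pattern -/
theorem pvhvf_out (hW : 𝔓.Wf) (hF : PvfhWf 𝔓) (hfine : 1000 * pvlmDel c m ≤ 𝔓.num.rho * pvlmH m) (hπ : π ∈ pvxPatSet 𝔓 x R m) : pvhvfR 𝔓 m π ⊆ (𝔓.reg m π).Yout := by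
  obtain ⟨nt, ns, G⟩ := pvhs_geo_pat hW.toWfB (hW.del m) (hF.doors m) hfine hπ
  rw [hF.reg_eq]
  exact G.out

/-- **(b5)** (TrModel v4.1 of 187): the outer region of a pattern lies in the patch -/
theorem pvhvf_yout (hW : 𝔓.Wf) (hR : 0 ≤ R) (hπ : π ∈ pvxPatSet 𝔓 x R m) : (𝔓.reg m π).Yout ⊆ closedBall x (6 * R) :=
  ((hW.reg_wf m π).out_sub.trans (subset_union_left.trans hπ.2.2.2.2.2)).trans (ball_subset_closedBall.trans (closedBall_subset_closedBall (by linarith)))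

/-- a tip is within `R` of the centre of its pin -/
theorem pvhvf_tip {N : PvwNum} {h : ℝ} (hh : 0 < h) (hρ : N.rho ≤ 1) (h1 : 0 ≤ N.rho1) {T : PvwTy} (hk : T.k ≤ N.K) {y z : ℂ} (hy : |pvccN y - (2 * T.b2 + T.k * N.rho1)| ≤ N.rho / 4)
    (hR : 2 * pvwRad N h T N.K + h ≤ R) (hz : ‖z - x‖ ≤ 3 * R) {r : ℝ} (hr : r ≤ h / 2 + 3 * R) : closedBall (z + (h : ℂ) * y) r ⊆ closedBall x (7 * R) := by
  intro w hw
  rw [mem_closedBall_iff_norm] at hw ⊢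
  have t1 := pvwh_tip_le hh h1 T hk hy
  have e : w - x = (w - (z + (h : ℂ) * y)) + (h : ℂ) * y + (z - x) := by ring
  have t2 : ‖w - x‖ ≤ ‖w - (z + (h : ℂ) * y)‖ + ‖(h : ℂ) * y‖ + ‖z - x‖ := by
    rw [e]
    exact (norm_add_le _ _).trans (add_le_add (norm_add_le _ _) le_rfl)
  have t3 : N.rho * h ≤ h := by nlinarith
  linarith

/-- **THE DETERMINISTIC CONTRACT OF 5 AT THE HOOKED CORRIDOR OF RECORD** -/
theorem pvhvf_det (hW : 𝔓.Wf) (hF : PvfhWf 𝔓) (hfine : 1000 * pvlmDel c m ≤ 𝔓.num.rho * pvlmH m) (hρ1 : 8 * 𝔓.num.rho ≤ 𝔓.num.rho1) (hρ2 : 8 * 𝔓.num.rho1 ≤ 𝔓.num.rho2) (hρ3 : 8 * 𝔓.num.rho2 ≤ 1)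
    (hπ : π ∈ pvxPatSet 𝔓 x R m) (hYo : (𝔓.reg m π).Yout ⊆ closedBall x (6 * R)) {μ : ℝ} (μ0 : 0 < μ) (hμ : μ ≤ pvlmDel c m) :
    PvwhDet 𝔓 x R m π μ (pvkqEv (pvlmDel c m / 100) false (pvhvfR 𝔓 m π) (pvhvfA 𝔓 m π) (pvhvfB 𝔓 m π)) := by
  intro Y hY hd 𝔇 hOk hZs hZt hg κ σ hκ hσ
  obtain ⟨nt, ns, G⟩ := pvhs_geo_pat hW.toWfB (hW.del m) (hF.doors m) hfine hπ
  have hh := pvlm_H_pos m
  have hδ := pvlm_Del_pos c m
  have ρ0 := hW.rho0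
  have ρh : 𝔓.num.rho * pvlmH m ≤ pvlmH m := by nlinarith
  have q3 : 8 * (𝔓.num.rho2 * pvlmH m) ≤ pvlmH m := by nlinarith
  have hRs := hπ.2.2.1
  have hRt := hπ.2.2.2.1
  have hRpos : 0 ≤ pvwRad 𝔓.num (pvlmH m) (𝔓.ty π.p.tt) 𝔓.num.K := by
    unfold pvwRad
    have := hF.b_gap π.p.tt
    have := (hW.a0 π.p.tt).trans (hW.ab π.p.tt)
    have : 0 ≤ (𝔓.num.K : ℝ) * 𝔓.num.rho1 := mul_nonneg (Nat.cast_nonneg _) (by linarith)
    exact mul_nonneg (by linarith) hh.le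
  have H := pvhvf_fitH 𝔓.cp 𝔓.cm (hF.doors m) hh (by rw [hW.del]; exact hfine) ρ0 hρ1 hρ2 hρ3 hW.lev (fun t => ((hW.a0 t).trans (hW.ab t)).le) hF.b_gap hπ.2.2.2.2.1 μ0 (by rw [hW.del]; exact hμ)
  rw [hW.del m, ← hF.reg_eq] at H
  have hFZ : ∀ v ∈ 𝔇.fzY, ∀ i, i < π.p.l.length → pvlmDel c m < ‖(v : ℂ) - pvccC (pvfeZ (𝔓.Γ m) π.p) (pvfeD (𝔓.Γ m) π.p) π.p.l i‖ := by
    intro v hv i hi
    have := pvffz_model hW hF (by linarith) hπ hOk hZs hZt hv i hi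
    rw [hW.del m] at this
    linarith
  have e1 : (𝔓.reg m π).tt.cp (pvlmH m) (𝔓.reg m π).zt = pvxYt 𝔓 m π.p := by rw [hW.reg_tt, hW.reg_zt]; rfl
  have e2 : (𝔓.reg m π).ts.cm (pvlmH m) (𝔓.reg m π).zs = pvxYs 𝔓 m π.p := by rw [hW.reg_ts, hW.reg_zs]; rfl
  have hsm : 𝔓.num.rho2 * pvlmH m + 3 * μ ≤ pvlmH m / 2 + 3 * R := by linarith
  refine pvhv_det (N := 𝔓.num) (hh := pvlmH m) (π := 𝔓.reg m π) (δ := pvlmDel c m) (m := μ) (r := 𝔓.num.rho2 * pvlmH m) (nt := nt) (ns := ns) hY (delb_pl_eq hY) hOk (hW.reg_wf m π)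
    (by rw [e1, e2]; exact G) H hFZ ?_ ?_ ?_ (κ := κ) (by rw [e1, e2]; exact hκ) hσ
  · rw [e1]
    exact hd.mono Subset.rfl (pvhvf_tip hh (by linarith) (by linarith) (hW.lev _) ((hF.doors m).nd_p π.p.tt) hRt hπ.1.2.2.2.2.1 hsm) le_rfl
  · rw [e2]
    exact hd.mono Subset.rfl (pvhvf_tip hh (by linarith) (by linarith) (hW.lev _) ((hF.doors m).nd_m π.p.ts) hRs hπ.1.2.2.2.1 hsm) le_rfl
  · rw [e1, e2]
    intro w hw
    refine hd.mono Subset.rfl ?_ le_rfl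
    have h1 := mem_closedBall_iff_norm.1 (hYo (pvhvf_out hW hF hfine hπ hw))
    intro v hv
    rw [mem_closedBall_iff_norm] at hv ⊢
    have e : v - x = (v - w) + (w - x) := by ring
    rw [e]
    refine (norm_add_le _ _).trans ?_
    linarith

end det

/-! ## 3. at the parameters of record -/

section model

open scoped ENNReal
open Filter Topology

variable {N : PvxNums} (hN : N.Ok) {c : ℝ} (c0 : 0 < c) {x : ℂ} {R : ℝ} {m : ℕ} {π : PvxIx (pvxTau N)}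

include c0 in
theorem pvhvf_fine_at (hm : N.m0 ≤ m) : 1000 * pvlmDel c m ≤ (pvxParOf N hN c).num.rho * pvlmH m := by
  have h1 := pvxo_fine hN c0 hm
  have h2 := pvlm_Del_pos c m
  show 1000 * pvlmDel c m ≤ N.rho * pvlmH m
  linarith

include c0 in
/-- **`PvwhDet` AT THE PARAMETERS OF RECORD**, every pattern of a level `m0 ≤ m` -/
theorem pvhvf_det_at (hR : 0 < R) (hm : N.m0 ≤ m) (hπ : π ∈ pvxPatSet (pvxParOf N hN c) x R m) {μ : ℝ} (μ0 : 0 < μ) (hμ : μ ≤ pvlmDel c m) :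
    PvwhDet (pvxParOf N hN c) x R m π μ (pvkqEv (pvlmDel c m / 100) false (pvhvfR (pvxParOf N hN c) m π) (pvhvfA (pvxParOf N hN c) m π) (pvhvfB (pvxParOf N hN c) m π)) :=
  pvhvf_det (pvxo_wf N hN c) (pvfhw_par N hN c) (pvhvf_fine_at hN c0 hm) hN.rho1 hN.rho2 hN.rho3 hπ (pvhvf_yout (pvxo_wf N hN c) hR.le hπ) μ0 hμ

include c0 in
/-- **THE `WO` HALF OF E4 AT THE PARAMETERS OF RECORD** -/
theorem pvhvf_wo_at (a : ℂ) (hR : 0 < R) (hm : N.m0 ≤ m) (hπ : π ∈ pvxPatSet (pvxParOf N hN c) x R m) :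
    ∃ q₁ : ℝ≥0∞, q₁ ≠ 0 ∧ ∀ (Cs : ℝ → Set ℂ) (rs : ℝ → ℝ) (q : ℝ≥0∞), PvnbkWO (pvxParOf N hN c) m π a (fun ε => pvhqKit x R ((pvxParOf N hN c).reg m π) (Cs ε) (rs ε) q) q₁ :=
  pvwh_wo_ev a hR (pvlm_Del_pos c m) (pvhvf_core (pvxo_wf N hN c) (pvfhw_par N hN c) (pvhvf_fine_at hN c0 hm) hπ) (pvhvf_bdd (pvxo_wf N hN c) (pvfhw_par N hN c) (pvhvf_fine_at hN c0 hm) hπ)
    (pvhvf_det_at hN c0 hR hm hπ (pvlm_Del_pos c m) le_rfl)

include c0 in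
/-- **`Pvn1bQbx` AT THE PARAMETERS OF RECORD**: ONE `q ≠ 0` for all the families `(C ε, r ε)` -/
theorem pvhvf_qbx_at (a : ℂ) (hR : 0 < R) (hm : N.m0 ≤ m) (hπ : π ∈ pvxPatSet (pvxParOf N hN c) x R m) (hLR : (pvxParOf N hN c).𝔐.L * pvlmH m + pvlmH m ≤ R) :
    ∃ q : ℝ≥0∞, q ≠ 0 ∧ ∀ (Cs : ℝ → Set ℂ) (rs : ℝ → ℝ) (B₀ : Set ℂ), Bornology.IsBounded B₀ → ∀ r₀ r₁ : ℝ, 0 < r₀ → (∀ᶠ ε in 𝓝[>] (0 : ℝ), Cs ε ⊆ B₀ ∧ r₀ ≤ rs ε ∧ rs ε ≤ r₁) →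
      Pvn1bQbx (pvxParOf N hN c) m π a fun ε => pvhqKit x R ((pvxParOf N hN c).reg m π) (Cs ε) (rs ε) q := by
  obtain ⟨hμ, hμ4⟩ := pvnbk_mu (pvxo_wf N hN c) hπ hLR
  exact pvwh_qbx a (pvxo_wf N hN c) hR hπ hμ hμ4 (pvhvf_yout (pvxo_wf N hN c) hR.le hπ) (pvlm_Del_pos c m) (pvhvf_core (pvxo_wf N hN c) (pvfhw_par N hN c) (pvhvf_fine_at hN c0 hm) hπ)
    (pvhvf_bdd (pvxo_wf N hN c) (pvfhw_par N hN c) (pvhvf_fine_at hN c0 hm) hπ) (pvhvf_det_at hN c0 hR hm hπ (pvlm_Del_pos c m) le_rfl)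

end model

end Claimed.Agent.R289
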