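import Claimed.Agent.R289.Tr.ConnQ
import Claimed.Agent.R289.S1P.Fin
import Claimed.Agent.R289.Ppp.Counts
import Claimed.Agent.R289.Vor.Mesh

/-!
# Row 289 (S0537, Cardy for Poisson-Voronoi), THE WALL, ROAD P, file Tr/ConnL1 : INTEGRABILITY OF THE MASSES OF THE CONNECTORS      (pen helper183; prefix `pvyt_`)

`pvkjX C` of 113 (`Tr/ConnQ`) is `0` off the guard of its window and `‖pvkjX C η‖ ≤ 3 D N²` at every good configuration (`pvkj_X_bound`, leaf [B12] of 113, proved by 69), `N` = number of points of the bounded window.   So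
* **`pvyt_X_l1`**       `∫ ‖pvkjX C‖ ∂(pvP ε) < ∞`   for every well formed connector, every `ε ≠ 0`      (second moment of a Poisson count; no ring, no Bessel: this serves the ENTRANCE funnels, through which no cycle of road P passes)
-/

set_option autoImplicit false

namespace Claimed.Agent.R289

open MeasureTheory Filter Topology Set Metric Claims.C0465
open scoped ENNReal

/-- **THE MASS OF A CONNECTOR IS INTEGRABLE** -/
theorem pvyt_X_l1 {C : PvkjCn} (hW : C.Wf) {ε : ℝ} (hε : ε ≠ 0) : ∫⁻ η, ‖pvkjX C η‖ₑ ∂(pvP ε) ≠ ∞ := by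
  obtain ⟨D, hD⟩ := Metric.isBounded_iff.1 hW.bdd
  have hD' : ∀ x ∈ C.E, ∀ y ∈ C.E, ‖x - y‖ ≤ max D 0 := fun x hx y hy => by
    rw [← dist_eq_norm]
    exact (hD hx hy).trans (le_max_left _ _)
  have hB : MeasurableSet (C.E ×ˢ (univ : Set Bool)) := hW.win.1.prod MeasurableSet.univ
  have hm : pvInt ε (C.E ×ˢ (univ : Set Bool)) ≠ ∞ := by
    have e : (C.E ×ˢ (univ : Set Bool) : Set PvPt) = Prod.fst ⁻¹' C.E := by ext p; simp
    rw [e, vorm_int_fst]
    exact ENNReal.mul_ne_top ENNReal.ofReal_ne_top hW.bdd.measure_lt_top.ne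
  have h1 : ∫⁻ η, ‖pvkjX C η‖ₑ ∂(pvP ε) ≤ ∫⁻ η, ENNReal.ofReal (3 * max D 0) * ((η.pts ∩ C.E ×ˢ (univ : Set Bool)).ncard : ℝ≥0∞) ^ 2 ∂(pvP ε) := by
    refine lintegral_mono_ae ?_
    filter_upwards [pvqf_good_ae ε hε] with η hη
    have h := pvkj_X_bound hW hD' hη.del
    rw [← ofReal_norm]
    refine (ENNReal.ofReal_le_ofReal h).trans (le_of_eq ?_)
    rw [ENNReal.ofReal_mul (by positivity), ENNReal.ofReal_pow (Nat.cast_nonneg _), ENNReal.ofReal_natCast]
  rw [lintegral_const_mul' _ _ ENNReal.ofReal_ne_top, pvc_sq_moment (pv_isPpp ε) hB hm] at h1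
  exact ne_top_of_le_ne_top (ENNReal.mul_ne_top ENNReal.ofReal_ne_top (ENNReal.add_ne_top.2 ⟨hm, ENNReal.pow_ne_top hm⟩)) h1

end Claimed.Agent.R289
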