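import Claimed.Agent.R289.Tr.DenseS
import Claimed.Agent.R289.Tr.DenseM
import Claimed.Agent.R289.Exit.PinsA6
import Claimed.Agent.R289.Arm.GateB

/-!
# Row 289 (S0537), chapter C, A6 of 281, block G8 / leaf (D3) of `exit_pvx2_di` (200): THE STATIC BAD BLOCK AT THE MODEL OF RECORD      (owner helper101; prefix `pvdu_`, defs `pvdu…`)

`Tr/DenseS.lean` constructs the static bad block `PvdsPar.SB h x` (c-bad, J-bad, mesh failure), its window and its probability.      This file puts it in the form of the cut of 200 (`Exit/PinsA6.lean`: `PvX2Glob.B0 reads small`,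
copies `pvtdEv (L * h) B0 x`) and of the plane-only (DI) of 281 (`Arm/GateB.lean`: `pvagb_DI`), at the TOTAL Delaunay plane `pvx2T Y = (delbPl Y).toMap`, colourings `fun v => cfCol η v == col`.

* sec. 1  USE at the plane:   `Wf.five_ball`, `Wf.five_dense`, `Wf.five_plane` (`¬ PvdnFive`, vocabulary of 89 / 75 / 54),   `Wf.J_plane` (`¬ PvdnJ`),   **`Wf.hJ_plane`** (= hypothesis `hJ` of `pvagb_DI`)
* sec. 2  covariance:   `pvdu_ev_eq` (`pvtdEv` is a `pvdsAt`), `pvdu_at_at`, `Wf.sb_cov` : `SB h x ⊆ pvtdEv (L * h) (SB L⁻¹ 0) x`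
* sec. 3  `PvdsPar.B0`, `Wf.b0_reads`, `Wf.b0_small`, **`Wf.b0_use`**
* sec. 4  the numbers: `pvduPar`, `pvdu_par_wf`, **`pvdu_exists`**
-/

set_option autoImplicit false
set_option linter.unusedSectionVars false
set_option linter.unusedVariables false

namespace Claimed.Agent.R289

open MeasureTheory ProbabilityTheory Set Filter Topology Metric Claims.C0465
open scoped ENNReal

/-! ## 1. USE at the total Delaunay plane -/

theorem pvdu_not_not {V : Type} (s : V → Bool) : pvasNot (pvasNot s) = s := by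
  funext v
  simp [pvasNot]

theorem pvdu_col_true {V : Type} (σ : V → Bool) : (fun v => σ v == true) = σ := by
  funext v
  simp

theorem pvdu_col_false {V : Type} (σ : V → Bool) : (fun v => σ v == false) = pvasNot σ := by
  funext v
  cases h : σ v <;> simp [pvasNot, h]

/-- a point of the block `x` is within `2 ℓ` of its corner -/
theorem pvdu_blk_ball {ℓ : ℝ} (hℓ : 0 < ℓ) {z : ℂ} {x : ℤ × ℤ} (h : pv5Blk ℓ z = x) : ‖z - pv5Ctr ℓ x‖ ≤ 2 * ℓ := by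
  have key : ∀ u : ℝ, |u - ℓ * (⌊u / ℓ⌋ : ℝ)| ≤ ℓ := by
    intro u
    have g1 : ((⌊u / ℓ⌋ : ℤ) : ℝ) ≤ u / ℓ := Int.floor_le _
    have g2 : u / ℓ < (⌊u / ℓ⌋ : ℝ) + 1 := Int.lt_floor_add_one _
    have e : u = u / ℓ * ℓ := by field_simp
    rw [abs_le]
    constructor
    · have : ((⌊u / ℓ⌋ : ℤ) : ℝ) * ℓ ≤ u / ℓ * ℓ := mul_le_mul_of_nonneg_right g1 hℓ.le
      nlinarith
    · have : u / ℓ * ℓ ≤ ((⌊u / ℓ⌋ : ℝ) + 1) * ℓ := mul_le_mul_of_nonneg_right g2.le hℓ.le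
      nlinarith
  subst h
  refine (Complex.norm_le_abs_re_add_abs_im _).trans ?_
  have e1 : (z - pv5Ctr ℓ (pv5Blk ℓ z)).re = z.re - ℓ * (⌊z.re / ℓ⌋ : ℝ) := by simp [pv5Ctr, pv5Blk]
  have e2 : (z - pv5Ctr ℓ (pv5Blk ℓ z)).im = z.im - ℓ * (⌊z.im / ℓ⌋ : ℝ) := by simp [pv5Ctr, pv5Blk]
  rw [e1, e2]
  linarith [key z.re, key z.im]

/-- disjoint witnesses of 221 are disjoint crossings -/
theorem pvdu_cross_of_disj {V D : Type} [DecidableEq V] {T : PvMap V D} {c' c : T.Cyc} {col : Bool} {J : ℕ} {s : V → Bool} (h : PvbkDisj (fun _ => pvakW c' c) col J s) :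
    PvdsCross T c' c col J s := by
  obtain ⟨f, hf, hd⟩ := h
  exact ⟨fun i => (↑(f i) : Set V), fun i hi => ⟨Finset.finite_toSet _, (hf i hi).1, fun v hv => (hf i hi).2 v hv⟩, fun i hi j hj hij => Finset.disjoint_coe.2 (hd i hi j hj hij)⟩

/-- black for `σ == col` is `col` for `σ` -/
theorem pvdu_cross_col {V D : Type} {T : PvMap V D} {c' c : T.Cyc} {col : Bool} {J : ℕ} {σ : V → Bool} (h : PvdsCross T c' c true J (fun v => σ v == col)) : PvdsCross T c' c col J σ := by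
  obtain ⟨f, hf, hd⟩ := h
  exact ⟨f, fun i hi => ⟨(hf i hi).1, (hf i hi).2.1, fun v hv => by simpa using (hf i hi).2.2 v hv⟩, hd⟩

namespace PvdsPar

variable {P : PvdsPar}

/-- a point beyond the radius `r` round `z` -/
theorem _root_.Claimed.Agent.R289.pvdu_far (z : ℂ) {r : ℝ} (hr : 0 ≤ r) : r < ‖(z + ((r + 1 : ℝ) : ℂ)) - z‖ := by
  rw [add_sub_cancel_left, Complex.norm_real, Real.norm_of_nonneg (by positivity)]
  linarith

/-- **NOT FLAGGED, at the plane**, mesh in the window of the flag (vocabulary of 89; consumers: `pvkl_buf` of 54, `Arm/GateS` of 75) -/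
theorem Wf.five_ball (hP : P.Wf) {h : ℝ} (hh : 0 < h) {η : Conf PvPt} (hg : DelGood (cfSites η)) {i : ℕ} (hi : i < P.n) (b : ℤ × ℤ)
    (hm : PvtrMesh (P.ρ * (P.w * (P.A i * h))) (closedBall (pv5Ctr (P.A i * h) b) ((pvdsLam P.Mc + 3 * P.ρ) * (P.w * (P.A i * h)))) (cfSites η)) (hnf : η ∉ P.Fl h i b) (col : Bool) :
    ¬ PvdnFive (pvx2T (cfSites η)) (fun v => (v : ℂ)) (fun v => cfCol η v == col) (pv5Ctr (P.A i * h) b) (P.w * (P.A i * h)) (pvdsLam P.Mc * (P.w * (P.A i * h))) := by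
  have hA : (0 : ℝ) < P.A i := by exact_mod_cast hP.A_pos i hi
  have hw : (0 : ℝ) < P.w := by exact_mod_cast hP.w_pos
  have hΛ := pvds_lam_one P.Mc
  have ht : 0 < (P.w : ℝ) * (P.A i * h) := by positivity
  have hr : 0 ≤ pvdsLam P.Mc * (P.w * (P.A i * h)) := by positivity
  obtain ⟨k0, k1, k2, h1, h2, h3, h4, h5, h6, h7⟩ := (pvds_B5_spec P.Mc hP.ρ_pos).five_not hΛ ht _ delbPlane η Empty.elim _ (pvds_fin hg.lf isBounded_closedBall)
    ((delb_plane_ok hg).mono (subset_univ _)) hm (pvdu_far _ hr) hnf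
  intro H
  have e : delbPlane.col η Empty.elim = fun v : ↥(cfSites η) => cfCol η v := rfl
  rw [e] at h6 h7
  cases col with
  | true =>
    rw [pvdu_col_true] at H
    rcases H k0 k1 k2 h1 h2 h3 h4 h5 with hc | hc
    · exact h6 hc
    · exact h7 hc
  | false =>
    rw [pvdu_col_false] at H
    rcases H k0 k1 k2 h1 h2 h3 h4 h5 with hc | hc
    · exact h7 hc
    · rw [pvdu_not_not] at hc
      exact h6 hc

/-- the same from the density of the sites in a set which contains the window of the flag (e.g. `PvklPar.G.dense` of 54) -/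
theorem Wf.five_dense (hP : P.Wf) {h : ℝ} (hh : 0 < h) {η : Conf PvPt} (hg : DelGood (cfSites η)) {i : ℕ} (hi : i < P.n) (b : ℤ × ℤ) {K : Set ℂ} {r : ℝ} (hd : VorDense (cfSites η) K r)
    (hr : r ≤ P.ρ * (P.w * (P.A i * h))) (hK : closedBall (pv5Ctr (P.A i * h) b) ((pvdsLam P.Mc + 3 * P.ρ) * (P.w * (P.A i * h))) ⊆ K) (hnf : η ∉ P.Fl h i b) (col : Bool) :
    ¬ PvdnFive (pvx2T (cfSites η)) (fun v => (v : ℂ)) (fun v => cfCol η v == col) (pv5Ctr (P.A i * h) b) (P.w * (P.A i * h)) (pvdsLam P.Mc * (P.w * (P.A i * h))) := by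
  have hA : (0 : ℝ) < P.A i := by exact_mod_cast hP.A_pos i hi
  have hw : (0 : ℝ) < P.w := by exact_mod_cast hP.w_pos
  have hρ := hP.ρ_pos
  exact hP.five_ball hh hg hi b (pvds_mesh_of_dense (hd.mono Subset.rfl Subset.rfl hr) (by positivity) hK) hnf col

/-- **NOT FLAGGED, at the plane**, mesh in the window of the block -/
theorem Wf.five_plane (hP : P.Wf) {h : ℝ} (hh : 0 < h) (x : ℤ × ℤ) {η : Conf PvPt} (hg : DelGood (cfSites η)) (hm : PvtrMesh (P.ρ * h) (pvdsSq (P.L * h) P.a' x) (cfSites η)) {i : ℕ} (hi : i < P.n)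
    {Q : ℤ × ℤ} (hQ : Q ∈ pvtdReach (pvtdCells (P.N i) P.d x) P.n0) {b : ℤ × ℤ} (hb : b ∈ pvtdCells P.Mc 1 Q) (hnf : η ∉ P.Fl h i b) (col : Bool) :
    ¬ PvdnFive (pvx2T (cfSites η)) (fun v => (v : ℂ)) (fun v => cfCol η v == col) (pv5Ctr (P.A i * h) b) (P.w * (P.A i * h)) (pvdsLam P.Mc * (P.w * (P.A i * h))) := by
  have hA : (1 : ℝ) ≤ P.A i := by exact_mod_cast hP.A_pos i hi
  have hw : (1 : ℝ) ≤ P.w := by exact_mod_cast hP.w_pos
  refine hP.five_ball hh hg hi b (pvds_mesh_mono hm ?_ (hP.fl_sq hh x hi hQ hb)) hnf col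
  refine mul_le_mul_of_nonneg_left ?_ hP.ρ_pos.le
  have : (1 : ℝ) ≤ P.w * P.A i := by nlinarith
  nlinarith

section J

variable [∀ Y : Set ℂ, DecidableEq ↥Y]

/-- **NOT J-BAD, at the plane**: the cycles -/
theorem Wf.J_plane (hP : P.Wf) {h : ℝ} (hh : 0 < h) (x : ℤ × ℤ) {η : Conf PvPt} (hg : DelGood (cfSites η)) (hm : PvtrMesh (P.ρ * h) (pvdsSq (P.L * h) P.a' x) (cfSites η)) (hnj : η ∉ P.JB h x) :
    ∃ c' c : (pvx2T (cfSites η)).Cyc, c.Left.Finite ∧ c'.Inside c ∧ (∀ v : ↥(cfSites η), ‖(v : ℂ) - pv5Ctr (P.L * h) x‖ ≤ 2 * (P.L * h) → v ∈ (pvx2T (cfSites η)).Int c'.Left) ∧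
      (∀ v ∈ (pvx2T (cfSites η)).VOf c.Left, ‖(v : ℂ) - pv5Ctr (P.L * h) x‖ ≤ 10 * (P.L * h)) ∧ ∀ col, ¬ PvbkDisj (fun _ => pvakW c' c) true P.J (fun v : ↥(cfSites η) => cfCol η v == col) := by
  have hL : (0 : ℝ) < P.L := by exact_mod_cast hP.L_pos
  have hr : 0 ≤ 5 * (2 * ((P.L : ℝ) * h)) := by positivity
  obtain ⟨c', c, h1, h2, h3, h4, h5⟩ := hP.J_use hh x hm hg.lf delbPlane Empty.elim _ ((delb_plane_ok hg).mono (subset_univ _)) (pvdu_far _ hr) hnj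
  refine ⟨c', c, h1, h2, h3, fun v hv => (h4 v hv).trans (le_of_eq (by ring)), fun col hd => h5 col ?_⟩
  have h6 : PvdsCross (pvx2T (cfSites η)) c' c col P.J (fun v : ↥(cfSites η) => cfCol η v) := pvdu_cross_col (pvdu_cross_of_disj (V := ↥(cfSites η)) (T := pvx2T (cfSites η)) hd)
  exact h6

/-- **`hJ` of `pvagb_DI`** (281): off the J-bad blocks `Γ(χ_e)` has fewer than `J` minimal crossings from the block `x` to the blocks at sup-distance `≥ en ≥ 11` -/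
theorem Wf.hJ_plane (hP : P.Wf) {h : ℝ} (hh : 0 < h) (x : ℤ × ℤ) {η : Conf PvPt} (hg : DelGood (cfSites η)) (hm : PvtrMesh (P.ρ * h) (pvdsSq (P.L * h) P.a' x) (cfSites η)) (hnj : η ∉ P.JB h x)
    (B : Set (delbPl (cfSites η)).Dart) (e : (delbPl (cfSites η)).Dart) (col : Bool) (blk : (delbPl (cfSites η)).Dart → ℤ × ℤ)
    (hblk : ∀ d, blk d = pv5Blk (P.L * h) ((pvx2T (cfSites η)).src d : ℂ)) {en : ℕ} (hen : 11 ≤ en) :
    (pvafCrs (pvafGam (pvx2T (cfSites η)) B e (fun v => cfCol η v == col)).length (PvafIn (pvafGam (pvx2T (cfSites η)) B e (fun v => cfCol η v == col)) blk x)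
      (PvafFar (pvafGam (pvx2T (cfSites η)) B e (fun v => cfCol η v == col)) blk en x)).card ≤ P.J := by
  have hL : (0 : ℝ) < P.L := by exact_mod_cast hP.L_pos
  have hℓ : 0 < (P.L : ℝ) * h := by positivity
  obtain ⟨c', c, h1, h2, h3, h4, h5⟩ := hP.J_plane hh x hg hm hnj
  by_contra hcon
  push Not at hcon
  refine h5 col (pvaf_gam_crs_disj (delb_plane_isSph hg) h2 B e _ blk (by omega : 0 < en) x (fun d _ hd => ?_) (fun d _ hd hint => ?_) hcon.le)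
  · rw [hblk] at hd
    exact ⟨d, h3 _ (pvdu_blk_ball hℓ hd) d rfl, rfl⟩
  · have h6 := h4 _ ⟨d, hint d rfl, rfl⟩
    have h7 : pv5Dist (pv5Blk (P.L * h) ((pvx2T (cfSites η)).src d : ℂ)) (pv5Blk (P.L * h) (pv5Ctr (P.L * h) x)) ≤ ((10 : ℕ) : ℤ) := pvtd_blk_close hℓ (by push_cast; exact h6)
    rw [pvtd_blk_ctr hℓ, pvtd_dist_comm, ← hblk] at h7
    have : (11 : ℤ) ≤ en := by exact_mod_cast hen
    push_cast at h7
    linarith

end J

end PvdsPar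

/-! ## 2. covariance -/

theorem pvdu_sim_eq (ℓ : ℝ) (x : ℤ × ℤ) : pvtdSim ℓ x = vorSim ((ℓ : ℂ)⁻¹) (-((ℓ : ℂ)⁻¹ * pv5Ctr ℓ x)) := by
  funext z
  unfold pvtdSim vorSim
  rw [Complex.real_smul]
  push_cast
  ring

/-- the copy at a block is the copy at its corner -/
theorem pvdu_ev_eq (ℓ : ℝ) (B : Set (Conf PvPt)) (x : ℤ × ℤ) : pvtdEv ℓ B x = pvdsAt B (pv5Ctr ℓ x) ℓ := by
  unfold pvtdEv pvdsAt
  rw [pvdu_sim_eq]

/-- a copy of a copy is a copy -/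
theorem pvdu_at_at (B : Set (Conf PvPt)) (z z' : ℂ) {t t' : ℝ} (ht : t ≠ 0) (ht' : t' ≠ 0) : pvdsAt (pvdsAt B z t) z' t' = pvdsAt B (z' + t' * z) (t' * t) := by
  have e : vorSim ((t : ℂ)⁻¹) (-((t : ℂ)⁻¹ * z)) ∘ vorSim ((t' : ℂ)⁻¹) (-((t' : ℂ)⁻¹ * z')) = vorSim (((t' * t : ℝ) : ℂ)⁻¹) (-((((t' * t : ℝ) : ℂ))⁻¹ * (z' + t' * z))) := by
    funext y
    have h1 : (t : ℂ) ≠ 0 := by exact_mod_cast ht
    have h2 : (t' : ℂ) ≠ 0 := by exact_mod_cast ht'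
    simp only [vorSim, Function.comp]
    push_cast
    field_simp
    ring
  ext η
  show cfMap _ (cfMap _ η) ∈ B ↔ cfMap _ η ∈ B
  rw [← pvtd_cfMap_comp, e]

theorem pvdu_ev_at (B : Set (Conf PvPt)) (z : ℂ) {t ℓ : ℝ} (ht : t ≠ 0) (hℓ : ℓ ≠ 0) (x : ℤ × ℤ) : pvtdEv ℓ (pvdsAt B z t) x = pvdsAt B (pv5Ctr ℓ x + ℓ * z) (ℓ * t) := by
  rw [pvdu_ev_eq, pvdu_at_at B z _ ht hℓ]

/-- coarse graining commutes with the translations of the coarse lattice -/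
theorem pvdu_cg_sub {M : ℕ} (hM : 0 < M) (b u : ℤ × ℤ) : pvagCg M (b - (M : ℤ) • u) = pvagCg M b - u := by
  have hM' : (M : ℤ) ≠ 0 := by exact_mod_cast hM.ne'
  have key : ∀ p q : ℤ, (p - (M : ℤ) * q) / (M : ℤ) = p / (M : ℤ) - q := by
    intro p q
    rw [sub_eq_add_neg, ← mul_neg, Int.add_mul_ediv_left _ _ hM']
    ring
  unfold pvagCg
  ext
  · simp [key]
  · simp [key]

/-- light cells are translated -/
theorem pvdu_light_shift {M : ℕ} (hM : 0 < M) {F F' : ℤ × ℤ → ℤ × ℤ → Prop} (u : ℤ × ℤ) {Q : ℤ × ℤ} (hF : ∀ b, F Q b → F' (Q - u) (b - (M : ℤ) • u)) (h : PvagLight M F' (Q - u)) :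
    PvagLight M F Q := by
  classical
  intro B hB
  have hinj : Function.Injective fun b : ℤ × ℤ => b - (M : ℤ) • u := fun a b hab => sub_left_injective hab
  rw [← Finset.card_image_of_injective B hinj]
  refine h _ fun b' hb' => ?_
  obtain ⟨b, hb, rfl⟩ := Finset.mem_image.1 hb'
  refine ⟨hF b (hB b hb).1, ?_⟩
  rw [pvdu_cg_sub hM]
  have := (hB b hb).2
  unfold PvagNear at this ⊢
  simpa using this

/-- chains are translated -/
theorem pvdu_chain_shift {k : ℕ} {c : ℕ → ℤ × ℤ} (hc : Pv5Chain k c) (u : ℤ × ℤ) : Pv5Chain k fun j => c j - u := by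
  refine ⟨fun i hi => ?_, fun i hi j hj hij => hc.2 hi hj (sub_left_injective hij)⟩
  obtain ⟨h1, h2, h3⟩ := hc.1 i hi
  refine ⟨fun h => h1 (sub_left_injective h), ?_, ?_⟩
  · simpa using h2
  · simpa using h3

theorem pvdu_sq_sim {ℓ : ℝ} (hℓ : 0 < ℓ) (a : ℕ) (x : ℤ × ℤ) : pvtdSim ℓ x '' pvdsSq ℓ a x = pvdsSq 1 a 0 := by
  have e : pvdsSq ℓ a x = pvtdSim ℓ x ⁻¹' pvdsSq 1 a 0 := by
    ext z
    show pv5Dist (pv5Blk ℓ z) x ≤ a ↔ pv5Dist (pv5Blk 1 (pvtdSim ℓ x z)) 0 ≤ a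
    rw [pvtd_blk_sim hℓ]
    simp [pv5Dist]
  have hsur : Function.Surjective (pvtdSim ℓ x) := by
    rw [pvdu_sim_eq]
    exact vorSim_surjective (inv_ne_zero (by exact_mod_cast hℓ.ne')) _
  rw [e, image_preimage_eq _ hsur]

/-- the mesh event is covariant -/
theorem pvdu_mesh_sim {ℓ : ℝ} (hℓ : 0 < ℓ) (a : ℕ) (x : ℤ × ℤ) (r : ℝ) (η : Conf PvPt) :
    PvtrMesh (ℓ⁻¹ * r) (pvdsSq 1 a 0) (cfSites (cfMap (pvtdSim ℓ x) η)) ↔ PvtrMesh r (pvdsSq ℓ a x) (cfSites η) := by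
  have hα : ((ℓ : ℂ)⁻¹) ≠ 0 := inv_ne_zero (by exact_mod_cast hℓ.ne')
  have hn : ‖((ℓ : ℂ)⁻¹)‖ = ℓ⁻¹ := by rw [norm_inv, Complex.norm_real, Real.norm_of_nonneg hℓ.le]
  have := pvtr_mesh_sim (ρ := r) (E := pvdsSq ℓ a x) (Y := cfSites η) hα (-((ℓ : ℂ)⁻¹ * pv5Ctr ℓ x))
  rw [hn, ← pvcv_sites, ← pvdu_sim_eq, pvdu_sq_sim hℓ] at this
  exact this

namespace PvdsPar

variable {P : PvdsPar}

/-- the flags are covariant -/
theorem Wf.fl_cov (hP : P.Wf) {h : ℝ} (hh : 0 < h) (x : ℤ × ℤ) {i : ℕ} (hi : i < P.n) (b : ℤ × ℤ) :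
    pvtdEv (P.L * h) (P.Fl (P.L : ℝ)⁻¹ i (b - (P.Mc : ℤ) • ((P.N i : ℤ) • x))) x = P.Fl h i b := by
  have hL : (0 : ℝ) < P.L := by exact_mod_cast hP.L_pos
  have hA : (0 : ℝ) < P.A i := by exact_mod_cast hP.A_pos i hi
  have hw : (0 : ℝ) < P.w := by exact_mod_cast hP.w_pos
  have eL : (P.L : ℝ) = P.N i * (P.Mc * P.A i) := by exact_mod_cast hP.L_eq i hi
  unfold Fl
  rw [pvdu_ev_at _ _ (by positivity) (by positivity)]
  congr 1
  · apply Complex.ext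
    · simp only [pv5Ctr, Complex.add_re, Complex.mul_re, Complex.ofReal_re, Complex.ofReal_im, zero_mul, sub_zero, Prod.fst_sub, Prod.smul_fst, smul_eq_mul]
      push_cast
      field_simp
      rw [eL]
      ring
    · simp only [pv5Ctr, Complex.add_im, Complex.mul_im, Complex.ofReal_re, Complex.ofReal_im, zero_mul, add_zero, Prod.snd_sub, Prod.smul_snd, smul_eq_mul]
      push_cast
      field_simp
      rw [eL]
      ring
  · field_simp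

/-- c-bad is covariant -/
theorem Wf.cb_cov (hP : P.Wf) {h : ℝ} (hh : 0 < h) (x : ℤ × ℤ) : P.CB h x ⊆ pvtdEv (P.L * h) (P.CB (P.L : ℝ)⁻¹ 0) x := by
  rintro η ⟨i, hi, c, hc, h0, hv⟩
  refine ⟨i, hi, fun j => c j - (P.N i : ℤ) • x, pvdu_chain_shift hc _, ?_, fun j hj hl => hv j hj ?_⟩
  · rw [pvtd_cells_mem (hP.N_pos i hi)] at h0 ⊢
    rw [pvdu_cg_sub (hP.N_pos i hi)]
    simpa [pv5Dist] using h0
  · refine pvdu_light_shift hP.Mc_pos ((P.N i : ℤ) • x) (fun b hb => ?_) hl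
    have : η ∈ pvtdEv (P.L * h) (P.Fl (P.L : ℝ)⁻¹ i (b - (P.Mc : ℤ) • ((P.N i : ℤ) • x))) x := by
      rw [hP.fl_cov hh x hi b]
      exact hb
    exact this

/-- **covariance of the static bad block** -/
theorem Wf.sb_cov (hP : P.Wf) {h : ℝ} (hh : 0 < h) (x : ℤ × ℤ) : P.SB h x ⊆ pvtdEv (P.L * h) (P.SB (P.L : ℝ)⁻¹ 0) x := by
  have hL : (0 : ℝ) < P.L := by exact_mod_cast hP.L_pos
  have hℓ : 0 < (P.L : ℝ) * h := by positivity
  have e1 : (P.L : ℝ) * (P.L : ℝ)⁻¹ = 1 := mul_inv_cancel₀ hL.ne'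
  rintro η (hη | hη | hη)
  · exact Or.inl (hP.cb_cov hh x hη)
  · refine Or.inr (Or.inl ?_)
    have : pvtdEv (P.L * h) (P.JB (P.L : ℝ)⁻¹ 0) x = P.JB h x := by
      unfold JB
      rw [pvdu_ev_at _ _ (by rw [e1]; norm_num) hℓ.ne', e1]
      congr 1
      · simp [pv5Ctr, Complex.ext_iff]
      · ring
    have h2 : η ∈ pvtdEv (P.L * h) (P.JB (P.L : ℝ)⁻¹ 0) x := by rw [this]; exact hη
    exact h2
  · refine Or.inr (Or.inr ?_)
    show ¬ PvtrMesh (P.ρ * (P.L : ℝ)⁻¹) (pvdsSq (P.L * (P.L : ℝ)⁻¹) P.a' 0) (cfSites (cfMap (pvtdSim (P.L * h) x) η))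
    rw [e1]
    have e2 : P.ρ * (P.L : ℝ)⁻¹ = ((P.L : ℝ) * h)⁻¹ * (P.ρ * h) := by field_simp
    rw [e2, pvdu_mesh_sim hℓ]
    exact hη

end PvdsPar

/-! ## 3. the static bad block of unit scale (`PvX2Glob.B0` of 200) -/

/-- **THE STATIC BAD BLOCK OF UNIT SCALE** (side of the block `= 1`, i.e. `h = 1 / L`, block `0`): c-bad, J-bad, mesh failure -/
noncomputable def PvdsPar.B0 (P : PvdsPar) : Set (Conf PvPt) := P.SB (P.L : ℝ)⁻¹ 0

theorem pvdu_eqns_cite : True := by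
  have := @PvdsPar.B0.eq_1
  trivial

namespace PvdsPar

variable {P : PvdsPar}

/-- field `reads` of `PvX2Glob` -/
theorem Wf.b0_reads (hP : P.Wf) : Conf.ReadsSet (pvtdWin 1 P.a' 0) P.B0 := by
  have hL : (0 : ℝ) < P.L := by exact_mod_cast hP.L_pos
  have := hP.sb_reads (h := (P.L : ℝ)⁻¹) (by positivity) 0
  rwa [mul_inv_cancel₀ hL.ne'] at this

/-- field `small` of `PvX2Glob` -/
theorem Wf.b0_small (hP : P.Wf) {q : ℝ} (hq : 0 < q) (hFr : PvdsFr q) (hK : pvdsK q P.w ≤ P.Mc) {τ δ : ℝ≥0∞} (hδ : 0 < δ)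
    (hτ : (P.cbNum q : ℝ≥0∞) / P.Mc + ENNReal.ofReal (2 * (1 - q) ^ P.J) + δ ≤ τ) : ∀ᶠ ε in 𝓝[>] (0 : ℝ), pvP ε P.B0 ≤ τ := by
  have hL : (0 : ℝ) < P.L := by exact_mod_cast hP.L_pos
  filter_upwards [hP.sb_le hq hFr hK (h := (P.L : ℝ)⁻¹) (by positivity) 0 hδ] with ε hε
  exact hε.trans hτ

/-- **off the copy of `B0` at the block `x`**: mesh in the window, not J-bad, the hypothesis of `pvag_select` at all levels -/
theorem Wf.b0_use (hP : P.Wf) {h : ℝ} (hh : 0 < h) {x : ℤ × ℤ} {η : Conf PvPt} (hη : η ∉ pvtdEv (P.L * h) P.B0 x) :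
    PvtrMesh (P.ρ * h) (pvdsSq (P.L * h) P.a' x) (cfSites η) ∧ η ∉ P.JB h x ∧
      ∀ i < P.n, ∀ c, Pv5Chain P.n0 c → c 0 ∈ pvtdCells (P.N i) P.d x → ∃ j ≤ P.n0, PvagLight P.Mc (fun _ b => η ∈ P.Fl h i b) (c j) :=
  PvdsPar.use fun h' => hη (hP.sb_cov hh x h')

theorem Wf.n0_ge (hP : P.Wf) : 2 ≤ P.n0 := by
  have h1 := hP.he
  have h2 : 0 < (2 * P.a + 1) ^ 2 := by positivity
  have h3 : 1 ≤ (P.n0 + 1) / (2 * P.a + 1) ^ 2 := le_trans (by omega) h1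
  have h4 := (Nat.le_div_iff_mul_le h2).1 h3
  have h5 : 1 ≤ P.a := by unfold PvdsPar.a; omega
  have h6 : 3 ^ 2 ≤ (2 * P.a + 1) ^ 2 := Nat.pow_le_pow_left (by omega) 2
  omega

/-- the cell of a unit box of a block at sup-distance `≤ d` of `x` -/
theorem Wf.cell_of_box (hP : P.Wf) {x : ℤ × ℤ} {i : ℕ} (hi : i < P.n) {z : ℤ × ℤ} (hz : pv5Dist (pvagCg P.L z) x ≤ P.d) : pvagCg (P.Mc * P.A i) z ∈ pvtdCells (P.N i) P.d x := by
  rw [pvtd_cells_mem (hP.N_pos i hi), pvag_cg_cg, ← hP.L_eq i hi]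
  exact hz

/-- the cells and boxes which `pvag_select` can pick at a unit box `z` of a block at sup-distance `≤ d` of `x` -/
theorem Wf.reach_of_box (hP : P.Wf) {x : ℤ × ℤ} {i : ℕ} (hi : i < P.n) {z Q b : ℤ × ℤ} (hz : pv5Dist (pvagCg P.L z) x ≤ P.d) (hQ : PvagNear 1 (pvagCg P.Mc b) Q)
    (hb : PvagNear 1 (pvagCg (P.A i) z) b) : Q ∈ pvtdReach (pvtdCells (P.N i) P.d x) P.n0 ∧ b ∈ pvtdCells P.Mc 1 Q := by
  refine ⟨⟨_, hP.cell_of_box hi hz, ?_⟩, (pvtd_nb_mem hP.Mc_pos Q b).2 hQ⟩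
  have h1 : pv5Dist (pvagCg (P.A i) z) b ≤ ((1 : ℕ) : ℤ) := (pvtd_near_iff 1 _ _).1 hb
  have h2 : pv5Dist (pvagCg P.Mc b) Q ≤ ((1 : ℕ) : ℤ) := (pvtd_near_iff 1 _ _).1 hQ
  have h3 : pv5Dist (pvagCg P.Mc (pvagCg (P.A i) z)) (pvagCg P.Mc b) ≤ ((1 : ℕ) : ℤ) := by
    refine pvtd_cg_dist hP.Mc_pos (h1.trans ?_)
    have := hP.Mc_pos
    push_cast
    omega
  rw [pvag_cg_cg] at h3
  have h4 := pv5_dist_triangle (pvagCg (P.Mc * P.A i) z) (pvagCg P.Mc b) Q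
  have h5 : (2 : ℤ) ≤ P.n0 := by exact_mod_cast hP.n0_ge
  push_cast at h2 h3
  linarith

/-- **`hlight` of `pvagb_DI`** (281), abstract in the walk: every simple `*`-chain of `n0 + 1` cells which starts at the cell of a unit box of a block at sup-distance `≤ d` of `x` contains a light cell -/
theorem Wf.b0_light (hP : P.Wf) {h : ℝ} (hh : 0 < h) {x : ℤ × ℤ} {η : Conf PvPt} (hη : η ∉ pvtdEv (P.L * h) P.B0 x) {i : ℕ} (hi : i < P.n) {c : ℕ → ℤ × ℤ} (hc : Pv5Chain P.n0 c)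
    {z : ℤ × ℤ} (hz : pv5Dist (pvagCg P.L z) x ≤ P.d) (h0 : c 0 = pvagCg (P.Mc * P.A i) z) : ∃ l ≤ P.n0, PvagLight P.Mc (fun _ b => η ∈ P.Fl h i b) (c l) :=
  (hP.b0_use hh hη).2.2 i hi c hc (h0 ▸ hP.cell_of_box hi hz)

/-- **`hbuf`, `hbuf'` of `pvagb_DI`** (281) in the vocabulary of 89 / 75: a box which is not flagged has no five arms at the plane -/
theorem Wf.b0_five (hP : P.Wf) {h : ℝ} (hh : 0 < h) {x : ℤ × ℤ} {η : Conf PvPt} (hg : DelGood (cfSites η)) (hη : η ∉ pvtdEv (P.L * h) P.B0 x) {i : ℕ} (hi : i < P.n) {z Q b : ℤ × ℤ}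
    (hz : pv5Dist (pvagCg P.L z) x ≤ P.d) (hF : η ∉ P.Fl h i b) (hQ : PvagNear 1 (pvagCg P.Mc b) Q) (hb : PvagNear 1 (pvagCg (P.A i) z) b) (col : Bool) :
    ¬ PvdnFive (pvx2T (cfSites η)) (fun v => (v : ℂ)) (fun v => cfCol η v == col) (pv5Ctr (P.A i * h) b) (P.w * (P.A i * h)) (pvdsLam P.Mc * (P.w * (P.A i * h))) :=
  hP.five_plane hh x hg (hP.b0_use hh hη).1 hi (hP.reach_of_box hi hz hQ hb).1 (hP.reach_of_box hi hz hQ hb).2 hF col

/-- **`hJ` of `pvagb_DI`** (281) -/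
theorem Wf.b0_hJ [∀ Y : Set ℂ, DecidableEq ↥Y] (hP : P.Wf) {h : ℝ} (hh : 0 < h) {x : ℤ × ℤ} {η : Conf PvPt} (hg : DelGood (cfSites η)) (hη : η ∉ pvtdEv (P.L * h) P.B0 x)
    (B : Set (delbPl (cfSites η)).Dart) (e : (delbPl (cfSites η)).Dart) (col : Bool) (blk : (delbPl (cfSites η)).Dart → ℤ × ℤ)
    (hblk : ∀ d, blk d = pv5Blk (P.L * h) ((pvx2T (cfSites η)).src d : ℂ)) {en : ℕ} (hen : 11 ≤ en) :
    (pvafCrs (pvafGam (pvx2T (cfSites η)) B e (fun v => cfCol η v == col)).length (PvafIn (pvafGam (pvx2T (cfSites η)) B e (fun v => cfCol η v == col)) blk x)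
      (PvafFar (pvafGam (pvx2T (cfSites η)) B e (fun v => cfCol η v == col)) blk en x)).card ≤ P.J :=
  hP.hJ_plane hh x hg (hP.b0_use hh hη).1 (hP.b0_use hh hη).2.1 B e col blk hblk hen

end PvdsPar

/-! ## 4. the numbers -/

/-- the sides of the boxes: `A 0 = A0`, `A (i + 1) = κ i * Mc * A i` -/
def pvduA (A0 Mc : ℕ) (κ : ℕ → ℕ) : ℕ → ℕ
  | 0 => A0
  | i + 1 => κ i * Mc * pvduA A0 Mc κ i

/-- the length of the chains -/
def pvduN0 (n w : ℕ) : ℕ := (2 * n + 1) * (2 * (257 * w + 1) + 1) ^ 2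

/-- **the numbers of record**: `n` levels, `A (i + 1) = κ i * Mc * A i`, block side `L = A n`, mesh `ρ = 1` -/
noncomputable def pvduPar (n w d a' J A0 : ℕ) (κ : ℕ → ℕ) (Mc : ℕ) : PvdsPar where
  n := n
  n0 := pvduN0 n w
  d := d
  w := w
  Mc := Mc
  J := J
  a' := a'
  C0 := ∏ j ∈ Finset.range n, κ j
  L := pvduA A0 Mc κ n
  A := pvduA A0 Mc κ
  N := fun i => κ i * ∏ j ∈ Finset.Ico (i + 1) n, (κ j * Mc)
  ρ := 1

theorem pvdu_eqns_cite2 : True := by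
  have := @pvduA.eq_1; have := @pvduN0.eq_1; have := @pvduPar.eq_1
  trivial

theorem pvdu_A_prod (A0 Mc : ℕ) (κ : ℕ → ℕ) {i n : ℕ} (hin : i ≤ n) : pvduA A0 Mc κ n = (∏ j ∈ Finset.Ico i n, (κ j * Mc)) * pvduA A0 Mc κ i := by
  induction n, hin using Nat.le_induction with
  | base => simp
  | succ n hn ih =>
    rw [Finset.prod_Ico_succ_top hn, pvduA, ih]
    ring

theorem pvdu_A_pos {A0 Mc : ℕ} {κ : ℕ → ℕ} (hA : 0 < A0) (hM : 0 < Mc) {n : ℕ} (hκ : ∀ i < n, 0 < κ i) : ∀ i ≤ n, 0 < pvduA A0 Mc κ i := by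
  intro i
  induction i with
  | zero => exact fun _ => hA
  | succ i ih =>
    intro hi
    have := hκ i (by omega)
    have := ih (by omega)
    unfold pvduA
    positivity

theorem pvdu_par_wf {n w d a' J A0 : ℕ} {κ : ℕ → ℕ} {Mc : ℕ} (hw : 0 < w) (hd : d + 1 ≤ a') (ha : 16 ≤ a') (hA : 0 < A0) (hκ : ∀ i < n, pvduN0 n w + (257 * w + 1) ≤ κ i) (hMc : 1310723 ≤ Mc) :
    (pvduPar n w d a' J A0 κ Mc).Wf := by
  have hM : 0 < Mc := by omega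
  have hκ0 : ∀ i < n, 0 < κ i := fun i hi => lt_of_lt_of_le (by omega) (hκ i hi)
  have hpos : ∀ i, 0 < ∏ j ∈ Finset.Ico (i + 1) n, (κ j * Mc) := fun i => Finset.prod_pos fun j hj => Nat.mul_pos (hκ0 j (Finset.mem_Ico.1 hj).2) hM
  refine ⟨hw, hMc, one_pos, le_rfl, fun i hi => pvdu_A_pos hA hM hκ0 i hi.le, fun i hi => Nat.mul_pos (hκ0 i hi) (hpos i), fun i hi => ?_, pvdu_A_pos hA hM hκ0 n le_rfl, fun i hi => ?_, fun i hi => ?_, ?_, hd, ha⟩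
  · have hi' : i < n := hi
    show pvduA A0 Mc κ n = (κ i * ∏ j ∈ Finset.Ico (i + 1) n, (κ j * Mc)) * (Mc * pvduA A0 Mc κ i)
    rw [pvdu_A_prod A0 Mc κ hi'.le, Finset.prod_eq_prod_Ico_succ_bot hi']
    ring
  · show pvduN0 n w + (257 * w + 1) ≤ κ i * ∏ j ∈ Finset.Ico (i + 1) n, (κ j * Mc)
    exact (hκ i hi).trans (Nat.le_mul_of_pos_right _ (hpos i))
  · have hi' : i < n := hi
    show κ i * ∏ j ∈ Finset.Ico (i + 1) n, (κ j * Mc) ≤ (∏ j ∈ Finset.range n, κ j) * Mc ^ n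
    rw [Finset.prod_mul_distrib, Finset.prod_const, ← mul_assoc, ← Finset.prod_eq_prod_Ico_succ_bot hi']
    refine Nat.mul_le_mul ?_ (Nat.pow_le_pow_right hM ?_)
    · rw [Finset.range_eq_Ico, ← Finset.prod_Ico_consecutive κ (Nat.zero_le i) hi'.le]
      exact Nat.le_mul_of_pos_left _ (Finset.prod_pos fun j hj => hκ0 j (lt_trans (Finset.mem_Ico.1 hj).2 hi'))
    · rw [Nat.card_Ico]
      omega
  · show 2 * n + 1 ≤ (pvduN0 n w + 1) / (2 * (257 * w + 1) + 1) ^ 2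
    rw [Nat.le_div_iff_mul_le (by positivity)]
    unfold pvduN0
    omega

/-- **THE STATIC BAD BLOCK EXISTS.**   ORDER OF THE CONSTANTS: `n w d a' τ` → `J0`;   `J ≥ J0`, `A0`, the ratios `κ i ≥ n0 + 257 w + 1` (they may depend on `J`) → `M0`;   `Mc ≥ M0` LAST. -/
theorem pvdu_exists (n w d a' : ℕ) (hw : 0 < w) (hd : d + 1 ≤ a') (ha : 16 ≤ a') {τ : ℝ≥0∞} (hτ : 0 < τ) :
    ∃ J0 : ℕ, ∀ J ≥ J0, ∀ (A0 : ℕ) (κ : ℕ → ℕ), 0 < A0 → (∀ i < n, pvduN0 n w + (257 * w + 1) ≤ κ i) → ∃ M0 : ℕ, ∀ Mc ≥ M0,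
      (pvduPar n w d a' J A0 κ Mc).Wf ∧ ∀ᶠ ε in 𝓝[>] (0 : ℝ), pvP ε (pvduPar n w d a' J A0 κ Mc).B0 ≤ τ := by
  obtain ⟨q, hq, hq1, hFr⟩ := pvds_fr_exists
  have hτ3 : 0 < τ / 3 := ENNReal.div_pos hτ.ne' (by norm_num)
  obtain ⟨J0, hJ0⟩ := pvds_choose_J hq hq1 hτ3
  refine ⟨J0, fun J hJ A0 κ hA hκ => ?_⟩
  obtain ⟨M0, hM0⟩ := pvds_choose_Mc (n * ((2 * d + 1) * ∏ j ∈ Finset.range n, κ j) ^ 2 * 8 ^ pvduN0 n w * pvdsK q w ^ (2 * n + 1)) hτ3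
  refine ⟨max M0 (max 1310723 (pvdsK q w)), fun Mc hMc => ?_⟩
  have h1 : M0 ≤ Mc := (le_max_left _ _).trans hMc
  have h2 : 1310723 ≤ Mc := ((le_max_left _ _).trans (le_max_right _ _)).trans hMc
  have h3 : pvdsK q w ≤ Mc := ((le_max_right _ _).trans (le_max_right _ _)).trans hMc
  have hW := pvdu_par_wf (J := J) hw hd ha hA hκ h2
  refine ⟨hW, hW.b0_small hq hFr h3 hτ3 ?_⟩
  have e1 : ((pvduPar n w d a' J A0 κ Mc).cbNum q : ℝ≥0∞) / ((pvduPar n w d a' J A0 κ Mc).Mc : ℝ≥0∞) ≤ τ / 3 := hM0 Mc h1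
  have e2 : ENNReal.ofReal (2 * (1 - q) ^ (pvduPar n w d a' J A0 κ Mc).J) ≤ τ / 3 := hJ0 J hJ
  calc _ ≤ τ / 3 + τ / 3 + τ / 3 := add_le_add (add_le_add e1 e2) le_rfl
    _ = τ := ENNReal.add_thirds τ

end Claimed.Agent.R289
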