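-- KEEP
import Claimed.Agent.R289.Defs.TrModel
import Claimed.Agent.R289.Tr.Loc

/-!
# Row 289 (S0537, Cardy for Poisson-Voronoi), THE WALL, road E, file Tr/PinTrap : PINS ARE PINS = (X1) of the roof PINS      (helper278, post of helper187; prefix `pvpt_`)

WHAT.   The first half of the field `pinsOK` of `PvhbLocU` at the data of record (`Defs/TrModel.lean`, 187) is DETERMINISTIC:
for every sample `ω`, every encoded reaching rim `P` of ANY completion (`P ∈ pvhbAll x R ω`) and every `s ∈ pvxPins 𝔓 x R m ω P`, as soon as `L h_m < R`,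
      `PvbIsPin 𝔓.𝔐 (pvlmH m) P s`      (`idx_lt`, `near`, TRAP with `lo = j` = the place of `g⁻`, `hi = j + inn.n` = the place of `g⁺`, diameter `≤ 2 L h`).
No event, no mesh, no flag, no second gate: ONE gate is enough (W1_208 sec.1).

PROOF OF TRAP.   `In k` := the vertex number `k` of the rim is a site of the closed inside of the gate `S`.   A vertex of the rim on `S` is black, so it is `g⁻` or `g⁺`, i.e. `k = j` or `k = j + inn.n` (the rim is simple).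
So for `k` outside `[j, j + inn.n]`, `In k` puts the vertex in the OPEN inside of `S`; the completion agrees with the Delaunay plane at the sites of `closedBall x (6R)` (`PvBulk.Ok.del`), so the next and the previous vertex of the rim
are Delaunay neighbours, hence again in the closed inside (`pl_int_edge`).   Induction forwards (`k > j + inn.n`) or backwards (`k < j`) reaches the cut vertex `P.v 0 = P.v len`, which is at distance `≥ 4R` from `x`: contradiction with `S ⊆ B(z, b h)`, `|z - x| ≤ 3R`, `b h < R`.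

EXPORTS.   `pvpt_trap_abs` (any cycle of any completion against any cycle of the plane), `pvpt_inn_core`, `pvpt_inn_first`, `pvpt_inn_last` (inner arc of a gate of `Tr/Defs`), **`pvpt_pin`**, `pvpt_pins_ok` (the first conjunct of `PvxPinsOK`, for all rims and pins at once),
`pvpt_pins_ev` (`PvxPinsOK` ⟸ DENSE alone).
-/

set_option autoImplicit false

namespace Claimed.Agent.R289

open Set Claims.C0465

/-! ## 1. one step along a cycle of a completion -/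

section step

variable {X : Type} {𝔅 : PvBulk X} {Y K : Set ℂ}

/-- the vertex which follows a site of `K` on a cycle of a completion is a Delaunay neighbour -/
theorem pvpt_next (hOk : 𝔅.Ok Y K) (c : (𝔅.T Y).Cyc) {k : ℕ} {a : ℂ} (ha : 𝔅.lab Y ((𝔅.T Y).src (c.e k)) = Sum.inl a) (haK : a ∈ K) :
    ∃ b : ℂ, 𝔅.lab Y ((𝔅.T Y).src (c.e (k + 1))) = Sum.inl b ∧ DelAdj Y a b := by
  obtain ⟨b, c', hb, -, ht⟩ := hOk.del (c.e k) a ha haK
  exact ⟨b, by rw [← c.chain]; exact hb, ht.adj⟩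

/-- the vertex which precedes a site of `K` on a cycle of a completion is a Delaunay neighbour -/
theorem pvpt_prev (hOk : 𝔅.Ok Y K) (c : (𝔅.T Y).Cyc) {k : ℕ} {a : ℂ} (ha : 𝔅.lab Y ((𝔅.T Y).src (c.e (k + 1))) = Sum.inl a) (haK : a ∈ K) :
    ∃ b : ℂ, 𝔅.lab Y ((𝔅.T Y).src (c.e k)) = Sum.inl b ∧ DelAdj Y a b := by
  have h1 : (𝔅.T Y).src ((𝔅.T Y).opp (c.e k)) = (𝔅.T Y).src (c.e (k + 1)) := by
    rw [(𝔅.T Y).src_opp, ← c.chain]; rfl
  obtain ⟨b, c', hb, -, ht⟩ := hOk.del ((𝔅.T Y).opp (c.e k)) a (by rw [h1]; exact ha) haK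
  have h2 : (𝔅.T Y).tgt ((𝔅.T Y).opp (c.e k)) = (𝔅.T Y).src (c.e k) := by
    unfold PvMap.tgt; rw [← (𝔅.T Y).src_opp, (𝔅.T Y).opp_opp]
  exact ⟨b, by rw [← h2]; exact hb, ht.adj⟩

/-- a Delaunay neighbour of a site of the open inside of a cycle of the plane lies in the closed inside -/
theorem pvpt_nbr (hG : DelGood Y) (S : (delbPl Y).toMap.Cyc) {v : ↥Y} (hv : v ∈ (delbPl Y).toMap.VOf S.Left) (hvS : v ∉ S.verts) {b : ℂ} (hab : DelAdj Y v b) :
    ∃ w : ↥Y, (w : ℂ) = b ∧ w ∈ (delbPl Y).toMap.VOf S.Left := by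
  have hT := delb_plane_isSph hG
  have hbY : b ∈ Y := hab.2.1
  have hint : v ∈ (delbPl Y).toMap.Int S.Left := by
    rw [pl_VOf_left hT S] at hv
    exact hv.resolve_left hvS
  let e : (delbPl Y).Dart := ⟨(v, ⟨b, hbY⟩), ⟨hG, hab⟩⟩
  have he : (delbPl Y).toMap.src e = v := rfl
  have := (pl_int_edge hT S (d := e) (by rw [he]; exact hint)).2.2
  exact ⟨⟨b, hbY⟩, rfl, this⟩

/-- **TRAP, abstract form**: a cycle `c` of a completion, a cycle `S` of the Delaunay plane whose closed inside lies in `K`; the only vertices of `c` on `S` are number `j` and `j + n`; the cut vertex is not in the closed inside of `S`.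
Then every vertex of `c` in the closed inside of `S` has its number in `[j, j + n]`. -/
theorem pvpt_trap_abs (hG : DelGood Y) (hOk : 𝔅.Ok Y K) (c : (𝔅.T Y).Cyc) (S : (delbPl Y).toMap.Cyc)
    (hSK : ∀ v ∈ (delbPl Y).toMap.VOf S.Left, (v : ℂ) ∈ K) {j n : ℕ} (hjn : j + n < c.n)
    (hS : ∀ k, k < c.n → ∀ v ∈ S.verts, 𝔅.lab Y ((𝔅.T Y).src (c.e k)) = Sum.inl (v : ℂ) → k = j ∨ k = j + n)
    (h0 : ∀ v ∈ (delbPl Y).toMap.VOf S.Left, 𝔅.lab Y ((𝔅.T Y).src (c.e 0)) ≠ Sum.inl (v : ℂ))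
    {i : ℕ} (hi : i ≤ c.n) {v : ↥Y} (hv : v ∈ (delbPl Y).toMap.VOf S.Left) (hiv : 𝔅.lab Y ((𝔅.T Y).src (c.e i)) = Sum.inl (v : ℂ)) :
    j ≤ i ∧ i ≤ j + n := by
  by_contra hcon
  have hcase : i < j ∨ j + n < i := by omega
  rcases hcase with hlt | hgt
  · -- backwards to the cut vertex
    have key : ∀ d, d ≤ i → ∃ w ∈ (delbPl Y).toMap.VOf S.Left, 𝔅.lab Y ((𝔅.T Y).src (c.e (i - d))) = Sum.inl (w : ℂ) := by
      intro d
      induction d with
      | zero => intro _; exact ⟨v, hv, hiv⟩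
      | succ d ih =>
        intro hd
        obtain ⟨w, hw, hlw⟩ := ih (by omega)
        have e1 : i - d = (i - (d + 1)) + 1 := by omega
        rw [e1] at hlw
        have hwS : w ∉ S.verts := by
          intro hwS
          have := hS ((i - (d + 1)) + 1) (by omega) w hwS hlw
          omega
        obtain ⟨b, hb, hab⟩ := pvpt_prev hOk c hlw (hSK w hw)
        obtain ⟨w', hw', hw'S⟩ := pvpt_nbr hG S hw hwS hab
        exact ⟨w', hw'S, by rw [hw']; exact hb⟩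
    obtain ⟨w, hw, hlw⟩ := key i le_rfl
    rw [Nat.sub_self] at hlw
    exact h0 w hw hlw
  · -- forwards to the cut vertex
    have key : ∀ d, i + d ≤ c.n → ∃ w ∈ (delbPl Y).toMap.VOf S.Left, 𝔅.lab Y ((𝔅.T Y).src (c.e (i + d))) = Sum.inl (w : ℂ) := by
      intro d
      induction d with
      | zero => intro _; exact ⟨v, hv, hiv⟩
      | succ d ih =>
        intro hd
        obtain ⟨w, hw, hlw⟩ := ih (by omega)
        have hwS : w ∉ S.verts := by
          intro hwS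
          have := hS (i + d) (by omega) w hwS hlw
          omega
        obtain ⟨b, hb, hab⟩ := pvpt_next hOk c hlw (hSK w hw)
        obtain ⟨w', hw', hw'S⟩ := pvpt_nbr hG S hw hwS hab
        exact ⟨w', hw'S, by rw [hw']; exact hb⟩
    obtain ⟨w, hw, hlw⟩ := key (c.n - i) (by omega)
    have e1 : i + (c.n - i) = 0 + c.n := by omega
    rw [e1, c.per] at hlw
    exact h0 w hw hlw

end step

/-! ## 2. the inner arc of a gate of `Tr/Defs` -/

section gate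

variable {V D : Type} {T : PvMap V D} {𝔖 : PvwSt T} {pos : V → ℂ} {h : ℝ} {z : ℂ} {τ : PvwTy} {s : V → Bool}

/-- the inner arc starts at `g⁻` -/
theorem pvpt_inn_first (hg : 𝔖.Gate pos h z τ s) : 𝔖.inn.v 0 = 𝔖.gm := by
  obtain ⟨n, -, -, jj, h0, -, -, -⟩ := hg.strand
  exact h0

/-- the inner arc ends at `g⁺` -/
theorem pvpt_inn_last (hg : 𝔖.Gate pos h z τ s) : 𝔖.inn.v 𝔖.inn.n = 𝔖.gp := by
  obtain ⟨n, hn, -, jj, -, hj, hk, -⟩ := hg.strand
  have := (hk 𝔖.inn.n le_rfl).2.1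
  rw [this, hj]
  show T.src (pvasIt T s 𝔖.dm n) = 𝔖.gp
  rw [hn]
  rfl

/-- `g⁺` is a vertex of the gate -/
theorem pvpt_gp_verts (hg : 𝔖.Gate pos h z τ s) : 𝔖.gp ∈ 𝔖.S.verts := by
  obtain ⟨i, hi⟩ := hg.dp_on
  refine ⟨i + 1, ?_⟩
  rw [← 𝔖.S.chain, hi]
  unfold PvMap.tgt PvwSt.gp
  rw [← T.src_opp, T.opp_opp]

/-- the inner arc lies in the closed inside of the gate -/
theorem pvpt_inn_core (hT : T.IsSph) (hg : 𝔖.Gate pos h z τ s) {i : ℕ} (hi : i ≤ 𝔖.inn.n) : 𝔖.inn.v i ∈ 𝔖.ins := by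
  obtain ⟨n, hn, hin, jj, -, -, hk, -⟩ := hg.strand
  obtain ⟨h1, h2, -⟩ := hk i hi
  rw [h2]
  rcases Nat.lt_or_ge (jj i) n with hlt | hge
  · exact ⟨_, hin _ hlt, rfl⟩
  · have e : jj i = n := le_antisymm h1 hge
    rw [e]
    show T.src (pvasIt T s 𝔖.dm n) ∈ 𝔖.ins
    rw [hn]
    show 𝔖.gp ∈ T.VOf 𝔖.S.Left
    rw [pl_VOf_left hT 𝔖.S]
    exact Or.inl (pvpt_gp_verts hg)

end gate

/-! ## 3. pins are pins -/

section pin

variable {τ : Type} {c : ℝ} (𝔓 : PvxPar τ c)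

/-- **PINS ARE PINS** (deterministic): a qualified pin of an encoded reaching rim of any completion is a pin in the sense of S6b. -/
theorem pvpt_pin (hW : 𝔓.WfB) {x : ℂ} {R : ℝ} (hR : 0 < R) {m : ℕ} (hL : 𝔓.𝔐.L * pvlmH m < R) {ω : PVSample} {P : PvbRim} (hP : P ∈ pvhbAll x R ω)
    {s : PvbPin τ} (hs : s ∈ pvxPins 𝔓 x R m ω P) : PvbIsPin 𝔓.𝔐 (pvlmH m) P s := by
  obtain ⟨hctr, -, 𝔖, j, hAt, hPin, hidx, -⟩ := hs
  obtain ⟨X, _, 𝔅, ξ, -, hOk, cy, hc, h4, rfl⟩ := l9a_mem (show P ∈ l9All x R ω from hP)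
  have hh := pvlm_H_pos m
  have hG : DelGood (pvxY ω) := hAt.good
  have hT : (pvxT ω).IsSph := delb_plane_isSph hG
  have hg := hAt.st.out.gate
  set z := s.ctr with hz
  set hm := pvlmH m with hhm
  -- the closed inside of the gate is small
  have hbL : (𝔓.ty s.typ).b * hm ≤ 𝔓.𝔐.L * hm := mul_le_mul_of_nonneg_right (hW.b_le _) hh.le
  have hcore : ∀ v ∈ 𝔖.ins, ‖(v : ℂ) - z‖ ≤ 𝔓.𝔐.L * hm := fun v hv => (hg.inside v hv).le.trans hbL
  have hcx : ∀ v ∈ 𝔖.ins, ‖(v : ℂ) - x‖ < 4 * R := by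
    intro v hv
    have h1 : ‖(v : ℂ) - x‖ ≤ ‖(v : ℂ) - z‖ + ‖z - x‖ := by
      have := norm_add_le ((v : ℂ) - z) (z - x)
      rwa [sub_add_sub_cancel] at this
    have := hcore v hv
    linarith
  have hcK : ∀ v ∈ (delbPl (pvxY ω)).toMap.VOf 𝔖.S.Left, (v : ℂ) ∈ Metric.closedBall x (6 * R) := by
    intro v hv
    rw [mem_closedBall_iff_norm]
    have := hcx v hv
    linarith
  -- the labels along the inner arc
  have hlab : ∀ i, i ≤ 𝔖.inn.n → 𝔅.lab (cfSites (pvConf ω)) ((𝔅.T (cfSites (pvConf ω))).src (cy.e (j + i))) = Sum.inl ((𝔖.inn.v i : ↥(pvxY ω)) : ℂ) := by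
    intro i hi
    have h1 : 𝔅.posF (cfSites (pvConf ω)) (x + 7 * R) ((𝔅.T (cfSites (pvConf ω))).src (cy.e (j + i))) = ((𝔖.inn.v i : ↥(pvxY ω)) : ℂ) := hPin.run i hi
    have h2 := pvlo_lab_of_near 𝔅 hR (v := (𝔅.T (cfSites (pvConf ω))).src (cy.e (j + i))) (by
      rw [h1]
      have := hcx _ (pvpt_inn_core hT hg hi)
      linarith)
    rw [h2, h1]
  have hlen : j + 𝔖.inn.n < cy.n := hPin.le
  refine ⟨?_, ?_, j, j + 𝔖.inn.n, ?_, ?_, hlen.le, ?_, ?_⟩
  · -- idx_lt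
    have := hg.ip_le
    show s.idx < cy.n
    omega
  · -- near
    rw [hidx]
    have h1 : (𝔅.enc (cfSites (pvConf ω)) (x + 7 * R) cy).v (j + 𝔖.ip) = ((𝔖.inn.v 𝔖.ip : ↥(pvxY ω)) : ℂ) := hPin.run _ hg.ip_le
    rw [h1]
    exact hg.ip_near
  · omega
  · have := hg.ip_le
    omega
  · -- TRAP
    intro i hi hnear
    have hi' : i ≤ cy.n := hi
    have hnear' : ‖𝔅.posF (cfSites (pvConf ω)) (x + 7 * R) ((𝔅.T (cfSites (pvConf ω))).src (cy.e i)) - z‖ < 𝔓.𝔐.a3 s.typ * hm := hnear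
    set a := 𝔅.posF (cfSites (pvConf ω)) (x + 7 * R) ((𝔅.T (cfSites (pvConf ω))).src (cy.e i)) with ha
    have ha3 : 𝔓.𝔐.a3 s.typ * hm ≤ (𝔓.ty s.typ).a * hm := mul_le_mul_of_nonneg_right (hW.a3_le _) hh.le
    have haL : (𝔓.ty s.typ).a * hm ≤ 𝔓.𝔐.L * hm := (mul_le_mul_of_nonneg_right (hW.ab _).le hh.le).trans hbL
    have hax : ‖a - x‖ ≤ 6 * R := by
      have h1 : ‖a - x‖ ≤ ‖a - z‖ + ‖z - x‖ := by
        have := norm_add_le (a - z) (z - x)
        rwa [sub_add_sub_cancel] at this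
      linarith
    have hla := pvlo_lab_of_near 𝔅 hR (v := (𝔅.T (cfSites (pvConf ω))).src (cy.e i)) hax
    rw [← ha] at hla
    have haY : a ∈ pvxY ω := hOk.site _ _ hla
    have hvc : (⟨a, haY⟩ : ↥(pvxY ω)) ∈ 𝔖.ins := hg.round ⟨a, haY⟩ (lt_of_lt_of_le hnear' ha3)
    refine pvpt_trap_abs (𝔅 := 𝔅) (K := Metric.closedBall x (6 * R)) hG hOk cy 𝔖.S hcK hlen ?_ ?_ hi' hvc hla
    · -- the vertices of the rim on the gate
      intro k hk v hv hlv
      have hcol : pvxCol ω (𝔓.col s.typ) v = true := by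
        have e1 := delb_col_inl 𝔅 (pvConf ω) ξ hlv
        have e2 := delb_col_inl 𝔅 (pvConf ω) ξ (hlab 0 (Nat.zero_le _))
        have e3 := pl_rim_col hc k (j + 0)
        have e4 : pvxCol ω (𝔓.col s.typ) (𝔖.inn.v 0) = true := by
          rw [pvpt_inn_first hg]; exact hg.bw_m.1
        have e5 : cfCol (pvConf ω) (v : ℂ) = cfCol (pvConf ω) ((𝔖.inn.v 0 : ↥(pvxY ω)) : ℂ) := e1.symm.trans (e3.trans e2)
        unfold pvxCol at e4 ⊢
        rw [e5]
        exact e4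
      rcases hg.two v hv hcol with e | e
      · right
        have e5 := hlab 𝔖.inn.n le_rfl
        rw [pvpt_inn_last hg, ← e, ← hlv] at e5
        exact (cy.inj _ _ hlen hk (hOk.inj e5)).symm
      · left
        have e5 := hlab 0 (Nat.zero_le _)
        rw [pvpt_inn_first hg, ← e, ← hlv] at e5
        have := cy.inj _ _ (by omega) hk (hOk.inj e5)
        omega
    · -- the cut vertex
      intro v hv hlv
      have := hcx v hv
      have e6 : 𝔅.posF (cfSites (pvConf ω)) (x + 7 * R) ((𝔅.T (cfSites (pvConf ω))).src (cy.e 0)) = (v : ℂ) := pvlo_posF_inl 𝔅 hlv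
      rw [e6] at h4
      linarith
  · -- diameter
    intro i i' h1 h2 h3 h4'
    have e1 : (𝔅.enc (cfSites (pvConf ω)) (x + 7 * R) cy).v i = ((𝔖.inn.v (i - j) : ↥(pvxY ω)) : ℂ) := by
      have := hPin.run (i - j) (by omega)
      rwa [show j + (i - j) = i by omega] at this
    have e2 : (𝔅.enc (cfSites (pvConf ω)) (x + 7 * R) cy).v i' = ((𝔖.inn.v (i' - j) : ↥(pvxY ω)) : ℂ) := by
      have := hPin.run (i' - j) (by omega)
      rwa [show j + (i' - j) = i' by omega] at this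
    rw [e1, e2]
    have b1 := hcore _ (pvpt_inn_core hT hg (show i - j ≤ 𝔖.inn.n by omega))
    have b2 := hcore _ (pvpt_inn_core hT hg (show i' - j ≤ 𝔖.inn.n by omega))
    have h5 : ‖((𝔖.inn.v (i - j) : ↥(pvxY ω)) : ℂ) - ((𝔖.inn.v (i' - j) : ↥(pvxY ω)) : ℂ)‖ ≤
        ‖((𝔖.inn.v (i - j) : ↥(pvxY ω)) : ℂ) - z‖ + ‖((𝔖.inn.v (i' - j) : ↥(pvxY ω)) : ℂ) - z‖ := by
      have := norm_sub_le (((𝔖.inn.v (i - j) : ↥(pvxY ω)) : ℂ) - z) (((𝔖.inn.v (i' - j) : ↥(pvxY ω)) : ℂ) - z)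
      rwa [sub_sub_sub_cancel_right] at this
    linarith

/-- the first conjunct of `PvxPinsOK`, for all rims and all pins at once -/
theorem pvpt_pins_ok (hW : 𝔓.WfB) {x : ℂ} {R : ℝ} (hR : 0 < R) {m : ℕ} (hL : 𝔓.𝔐.L * pvlmH m < R) (ω : PVSample) :
    ∀ P ∈ pvhbAll x R ω, ∀ s ∈ pvxPins 𝔓 x R m ω P, PvbIsPin 𝔓.𝔐 (pvlmH m) P s ∧ ∃ p : ℤ × ℤ, s.ctr = l9Pt (pvlmH m) p :=
  fun _ hP _ hs => ⟨pvpt_pin 𝔓 hW hR hL hP hs, hs.2.1⟩

open Filter Topology in
/-- **DENSE** = what is left of `PvxPinsOK` -/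
def PvptDense (x : ℂ) (R : ℝ) : Prop :=
  PvhbOrd (fun m ε => ((pvhbUp ε).P {q | ¬ ∀ P ∈ pvhbAll x R (pvMerge q),
    ∀ i i', i ≤ i' → i' ≤ P.len → (∀ k, i ≤ k → k ≤ i' → ‖P.v k - x‖ ≤ 2 * R) → pvlmR c m ≤ ‖P.v i' - P.v i‖ → ∃ s ∈ pvxPins 𝔓 x R m (pvMerge q) P, i ≤ s.idx ∧ s.idx ≤ i'}).toReal)

theorem pvpt_eqns_cite : True := by
  have := @PvptDense.eq_1
  trivial

open Filter Topology in
/-- the scale of the pins is eventually small -/
theorem pvpt_scale (L : ℝ) {R : ℝ} (hR : 0 < R) : ∀ᶠ m in atTop, L * pvlmH m < R := by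
  have h1 : Tendsto (fun m => L * pvlmH m) atTop (𝓝 (L * 0)) := pvlm_H_lim.const_mul L
  rw [mul_zero] at h1
  exact h1.eventually (gt_mem_nhds hR)

/-- **the field `pinsOK` at the data of record follows from DENSE alone** -/
theorem pvpt_pins_ev (hW : 𝔓.WfB) {x : ℂ} {R : ℝ} (hR : 0 < R) (h : PvptDense 𝔓 x R) : PvxPinsOK 𝔓 x R := by
  intro η hη
  filter_upwards [h η hη, pvpt_scale 𝔓.𝔐.L hR] with m hm hL
  filter_upwards [hm] with ε hε
  refine le_trans (le_of_eq ?_) hε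
  congr 2
  ext q
  simp only [mem_setOf_eq, not_iff_not]
  constructor
  · intro hall P hP
    exact (hall P hP).2
  · intro hall P hP
    exact ⟨pvpt_pins_ok 𝔓 hW hR hL (pvMerge q) P hP, hall P hP⟩

end pin

end Claimed.Agent.R289
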