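-- KEEP
import Claimed.Agent.R289.Arm.Strand
import Claimed.Agent.R289.Arm.Bxp
import Claimed.Agent.R289.Tr.StKit

/-!
# Row 289 (S0537), THE WALL, road E, (H4b) DETERMINISTIC HALF, file Tr/Seal : THE SEALING LEMMA      (architect helper189; ruling 8 item D of helper234; prefix `pvbk2_`, defs `Pvbk2…`)

POTENTIAL FORM: no sectors, no chords, no half disc, no box.      Vocabulary: `PvanStr`, `PvanSide`, `pvan_cut`, `PvanSide.other` (`Arm/NonCross`, 42), `pvasIt`, `pvasBack` (`Arm/Strand`, 158), `PvaxCr`, `pvax_ncr_iff` (`Arm/Bxp`, 196).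

* `O : T.Cyc`                    the BIG disc round the tip (`O.Left` finite)
* `G : PvanStr T s O.Left`       the PASSAGE of the wall through `O` which contains the tip: the explored last piece `F` of the stub + the continuation UP TO ITS FIRST EXIT OF `O`
* `c₁ c₂ : T.Cyc`                two circuits inside `O`;   every WHITE vertex of `c₁` lies on the white layer of `G`, every BLACK vertex of `c₂` lies on the black layer of `G`
                                 (= BLOCK of 233: vertices of `c₁` black-or-frozen, of `c₂` white-or-frozen, + CALM LEVEL of 235: the frozen vertices met by the circuits belong to the last piece `F`)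
* **`pvbk2_seal`**               every OTHER passage of `O` stays off `c₁.Left` or off `c₂.Left`
* **`pvbk2_it`**, `pvbk2_back`   a position of ANY strand which leaves `O` (in the past or in the future), inside both circuits, is a position of `G`
* sec.4  STUB FORM `Pvbk2Fwd`, `Pvbk2Bwd` (producer of `G`, `h₁`, `h₂` from RET of 235), **`pvbk2_fwd_seal`**, **`pvbk2_bwd_seal`** (no record in the statement)
* sec.5  METRIC FORM on `PvaxAt` (what `PvbpCirc` of 233 unfolds to): `pvbk2_fwd_of_metric`, `pvbk2_bwd_of_metric`, `pvbk2_fwd_mouth`, `pvbk2_bwd_mouth`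
* sec.6  STATE FORM on the half states of record (`Tr/Defs` v2): **`pvbk2_state_out`** : `AtOut` + block for `fzOutᶜ` ⟹ `Pvbk2Fwd T s O c₁ c₂ 𝔖.dp 𝔖.np`,   **`pvbk2_state_in`** : `AtIn` + block for `fzInᶜ` ⟹ `Pvbk2Bwd T s O c₁ c₂ 𝔖.dm 𝔖.nm`
WHAT IS NOT EXCLUDED (and cannot be: two excursions of `F` out of the circuits with a forced strand between a white bank and a black bank): returns of the continuation to the mouth BEFORE its first exit of `O`.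
-/

set_option autoImplicit false
set_option linter.unusedSectionVars false

namespace Claimed.Agent.R289

open Relation Set

variable {V D : Type} {T : PvMap V D} {s : V → Bool}

/-! ## 1. the sealing lemma -/

/-- a dart inside a cycle whose opposite is outside is a dart of the cycle -/
theorem pvbk2_bd_dart (hT : T.IsSph) (c : T.Cyc) {d : D} (h1 : d ∈ c.Left) (h2 : T.opp d ∉ c.Left) : ∃ i, c.e i = d := by
  obtain ⟨j1, j2, j3, j4⟩ := pl_jordan hT c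
  have hB : T.Bd c.Left d := fun h => h2 (h.1 h1)
  rcases (j4 _).1 hB with ⟨i, hi⟩ | ⟨i, hi⟩
  · exact ⟨i, hi⟩
  · exact absurd (hi ▸ j2 i) h2

/-- both ends of a dart of a cycle are vertices of the cycle -/
theorem pvbk2_dart_verts (c : T.Cyc) (i : ℕ) : T.src (c.e i) ∈ c.verts ∧ T.tgt (c.e i) ∈ c.verts :=
  ⟨⟨i, rfl⟩, ⟨i + 1, (c.chain i).symm⟩⟩

/-- a passage of `A` none of whose positions is a dart of the cycle `c` (`c.Left ⊆ A`) stays off `c.Left` -/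
theorem pvbk2_off (hT : T.IsSph) {A : Set D} (c : T.Cyc) (hcA : c.Left ⊆ A) (γ : PvanStr T s A) (h : ∀ k, k ≤ γ.n → ∀ i, c.e i ≠ γ.e k) :
    ∀ k, k ≤ γ.n → γ.e k ∉ c.Left := by
  have hL := pl_left_face c
  intro k
  induction k with
  | zero =>
    intro hk hin
    obtain ⟨i, hi⟩ := pvbk2_bd_dart hT c hin fun ho => γ.ent (hcA ho)
    exact h 0 hk i hi
  | succ k ih =>
    intro hk hin
    have h0 := ih (Nat.le_of_succ_le hk)
    have ho : T.opp (γ.e (k + 1)) ∉ c.Left := by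
      rw [γ.step k hk]
      exact fun ho => h0 ((hL.sf T (pvan_step_sf (s := s) (γ.e k))).1 ho)
    obtain ⟨i, hi⟩ := pvbk2_bd_dart hT c hin ho
    exact h (k + 1) hk i hi

variable {O : T.Cyc} {G : PvanStr T s O.Left} {S : Set V}

/-- a passage on the BLACK side of `G` does not enter a circuit whose white vertices lie on the white layer of `G` -/
theorem pvbk2_off_black (hT : T.IsSph) (hS : PvanSide O G S) {c₁ : T.Cyc} (hc : c₁.Left ⊆ O.Left) (h₁ : ∀ v ∈ c₁.verts, s v = false → v ∈ G.LayW)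
    (γ : PvanStr T s O.Left) (hγ : γ.LayW ⊆ S) : ∀ k, k ≤ γ.n → γ.e k ∉ c₁.Left := by
  refine pvbk2_off hT c₁ hc γ fun k hk i hi => ?_
  have hw : T.tgt (γ.e k) ∈ G.LayW := h₁ _ (hi ▸ (pvbk2_dart_verts c₁ i).2) (pvan_ok γ k hk).2
  exact hS.white hw (hγ ⟨k, hk, rfl⟩)

/-- a passage on the WHITE side of `G` does not enter a circuit whose black vertices lie on the black layer of `G` -/
theorem pvbk2_off_white (hT : T.IsSph) (hS : PvanSide O G S) {c₂ : T.Cyc} (hc : c₂.Left ⊆ O.Left) (h₂ : ∀ v ∈ c₂.verts, s v = true → v ∈ G.LayB)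
    (γ : PvanStr T s O.Left) (hγ : γ.LayB ⊆ Sᶜ) : ∀ k, k ≤ γ.n → γ.e k ∉ c₂.Left := by
  refine pvbk2_off hT c₂ hc γ fun k hk i hi => ?_
  have hb : T.src (γ.e k) ∈ G.LayB := h₂ _ (hi ▸ (pvbk2_dart_verts c₂ i).1) (pvan_ok γ k hk).1
  exact hγ ⟨k, hk, rfl⟩ (hS.black hb)

/-- **THE SEALING LEMMA** -/
theorem pvbk2_seal (hT : T.IsSph) (hfin : O.Left.Finite) (G : PvanStr T s O.Left) {c₁ c₂ : T.Cyc} (hc₁ : c₁.Left ⊆ O.Left) (hc₂ : c₂.Left ⊆ O.Left)
    (h₁ : ∀ v ∈ c₁.verts, s v = false → v ∈ G.LayW) (h₂ : ∀ v ∈ c₂.verts, s v = true → v ∈ G.LayB) (γ : PvanStr T s O.Left) (hne : γ.e 0 ≠ G.e 0) :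
    (∀ k, k ≤ γ.n → γ.e k ∉ c₁.Left) ∨ (∀ k, k ≤ γ.n → γ.e k ∉ c₂.Left) := by
  obtain ⟨S, hS⟩ := pvan_cut hT O hfin G
  rcases hS.other γ hne.symm with ⟨_, hw⟩ | ⟨hb, _⟩
  · exact Or.inl (pvbk2_off_black hT hS hc₁ h₁ γ hw)
  · exact Or.inr (pvbk2_off_white hT hS hc₂ h₂ γ hb)

/-! ## 2. a position inside a finite face set, on a strand which leaves it (in the past or in the future), lies on a passage -/

section piece

variable {A : Set D}

/-- PAST: the strand started outside `A` -/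
theorem pvbk2_piece_past (hA : T.FaceSet A) (hfin : A.Finite) {d0 : D} (h0 : pvasBW T s d0) (h0A : d0 ∉ A) :
    ∀ t, pvasIt T s d0 t ∈ A → ∃ (γ : PvanStr T s A) (u : ℕ), 0 < u ∧ u ≤ t ∧ t - u < γ.n ∧ pvasIt T s d0 (u - 1) ∉ A ∧ ∀ i, i ≤ γ.n → γ.e i = pvasIt T s d0 (u + i) := by
  intro t
  induction t with
  | zero => intro h; exact absurd h h0A
  | succ t ih =>
    intro h
    by_cases ht : pvasIt T s d0 t ∈ A
    · obtain ⟨γ, u, hu0, hu, hlt, hout, he⟩ := ih ht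
      refine ⟨γ, u, hu0, by omega, ?_, hout, he⟩
      by_contra hc
      have hn : γ.n = t + 1 - u := by omega
      have hx := γ.ext
      rw [he γ.n le_rfl, hn] at hx
      apply hx
      have e : u + (t + 1 - u) = t + 1 := by omega
      rw [e]; exact h
    · have hin : pvasIn T A s (pvasIt T s d0 (t + 1)) := ⟨h, by rw [pvas_it_succ, pvas_step_opp_mem hA]; exact ht, pvas_it_bw h0 _⟩
      refine ⟨pvasStr hA hfin hin, t + 1, by omega, le_rfl, ?_, by simpa using ht, fun i _ => ?_⟩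
      · simpa using (pvasStr hA hfin hin).pos
      · show pvasIt T s (pvasIt T s d0 (t + 1)) i = _
        rw [← pvas_it_add]

/-- FUTURE: the strand will leave `A` -/
theorem pvbk2_piece_future (hA : T.FaceSet A) (hfin : A.Finite) {d : D} (hd : pvasBW T s d) (hdA : d ∈ A) (hex : ∃ k, pvasIt T s d k ∉ A) :
    ∃ (γ : PvanStr T s A) (i : ℕ), i < γ.n ∧ γ.e i = d := by
  classical
  have hk : pvasIt T s d (Nat.find hex) ∉ A := Nat.find_spec hex
  have hmin : ∀ j, j < Nat.find hex → pvasIt T s d j ∈ A := fun j hj => by_contra fun h => Nat.find_min hex hj h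
  generalize Nat.find hex = k at hk hmin
  have hk0 : 0 < k := by
    rcases Nat.eq_zero_or_pos k with h | h
    · rw [h] at hk; exact absurd hdA hk
    · exact h
  have hout : pvasOut T A s (pvasIt T s d k) := by
    refine ⟨hk, ?_, pvas_it_bw hd k⟩
    obtain ⟨j, hj⟩ : ∃ j, k = j + 1 := ⟨k - 1, by omega⟩
    rw [hj, pvas_it_succ, pvas_step_opp_mem hA]
    exact hmin j (by omega)
  obtain ⟨din, hin, hexit⟩ := (pvas_exit_bij hA hfin s).surjOn hout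
  obtain ⟨γ, hγ⟩ : ∃ γ : PvanStr T s A, γ.e γ.n = pvasIt T s d k := ⟨pvasStr hA hfin hin, hexit⟩
  have key : ∀ j, j ≤ k → j ≤ γ.n ∧ γ.e (γ.n - j) = pvasIt T s d (k - j) := by
    intro j
    induction j with
    | zero => intro _; exact ⟨Nat.zero_le _, hγ⟩
    | succ j ih =>
      intro hj
      obtain ⟨h1, h2⟩ := ih (by omega)
      obtain ⟨l, hl⟩ : ∃ l, k - j = l + 1 := ⟨k - j - 1, by omega⟩
      have hlA : pvasIt T s d l ∈ A := hmin l (by omega)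
      have hne : γ.n - j ≠ 0 := by
        intro h0
        rw [h0, hl, pvas_it_succ] at h2
        apply γ.ent
        rw [h2, pvas_step_opp_mem hA]
        exact hlA
      obtain ⟨p, hp⟩ : ∃ p, γ.n - j = p + 1 := ⟨γ.n - j - 1, by omega⟩
      refine ⟨by omega, ?_⟩
      have e1 : γ.n - (j + 1) = p := by omega
      have e2 : k - (j + 1) = l := by omega
      rw [e1, e2]
      rw [hp, hl, γ.step p (by omega), pvas_it_succ] at h2
      exact pvas_step_inj (pvan_ok γ p (by omega)) (pvas_it_bw hd l) h2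
  obtain ⟨h1, h2⟩ := key k le_rfl
  rw [Nat.sub_self] at h2
  exact ⟨γ, γ.n - k, by omega, h2⟩

/-- a run inside `A` which starts on a passage stays on it -/
theorem pvbk2_run (γ : PvanStr T s A) {j : ℕ} (hj : j < γ.n) : ∀ k, (∀ i, i ≤ k → pvasIt T s (γ.e j) i ∈ A) → j + k < γ.n ∧ γ.e (j + k) = pvasIt T s (γ.e j) k := by
  intro k
  induction k with
  | zero => intro _; exact ⟨hj, rfl⟩
  | succ k ih =>
    intro h
    obtain ⟨h1, h2⟩ := ih fun i hi => h i (by omega)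
    have h3 : γ.e (j + (k + 1)) = pvasIt T s (γ.e j) (k + 1) := by
      rw [pvas_it_succ, ← h2]
      exact γ.step (j + k) h1
    refine ⟨?_, h3⟩
    by_contra hc
    have hn : j + (k + 1) = γ.n := by omega
    apply γ.ext
    rw [← hn, h3]
    exact h (k + 1) le_rfl

/-- a run inside `A` which ends on a passage lies on it -/
theorem pvbk2_run_back (hA : T.FaceSet A) (γ : PvanStr T s A) {d : D} (hd : pvasBW T s d) :
    ∀ k j, j ≤ γ.n → (∀ i, i < k → pvasIt T s d i ∈ A) → pvasIt T s d k = γ.e j → k ≤ j ∧ γ.e (j - k) = d := by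
  intro k
  induction k with
  | zero => intro j _ _ h; exact ⟨Nat.zero_le _, h.symm⟩
  | succ k ih =>
    intro j hj h he
    have hkA : pvasIt T s d k ∈ A := h k (Nat.lt_succ_self k)
    have hne : j ≠ 0 := by
      intro h0
      rw [h0, pvas_it_succ] at he
      apply γ.ent
      rw [← he, pvas_step_opp_mem hA]
      exact hkA
    obtain ⟨p, rfl⟩ : ∃ p, j = p + 1 := ⟨j - 1, by omega⟩
    rw [pvas_it_succ, γ.step p (by omega)] at he
    have e := pvas_step_inj (pvas_it_bw hd k) (pvan_ok γ p (by omega)) he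
    obtain ⟨h1, h2⟩ := ih p (by omega) (fun i hi => h i (by omega)) e
    refine ⟨by omega, ?_⟩
    have e1 : p + 1 - (k + 1) = p - k := by omega
    rw [e1]; exact h2

end piece

/-! ## 3. positions in the mouth -/

section mouth

variable {c₁ c₂ : T.Cyc}

/-- a passage which has a position inside both circuits is `G` -/
theorem pvbk2_eq (hT : T.IsSph) (hfin : O.Left.Finite) (G : PvanStr T s O.Left) (hc₁ : c₁.Left ⊆ O.Left) (hc₂ : c₂.Left ⊆ O.Left)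
    (h₁ : ∀ v ∈ c₁.verts, s v = false → v ∈ G.LayW) (h₂ : ∀ v ∈ c₂.verts, s v = true → v ∈ G.LayB) (γ : PvanStr T s O.Left) {k : ℕ} (hk : k ≤ γ.n)
    (hk₁ : γ.e k ∈ c₁.Left) (hk₂ : γ.e k ∈ c₂.Left) : γ.n = G.n ∧ ∀ i, i ≤ γ.n → γ.e i = G.e i := by
  by_cases he : γ.e 0 = G.e 0
  · exact pvan_unique γ G he
  · rcases pvbk2_seal hT hfin G hc₁ hc₂ h₁ h₂ γ he with h | h
    · exact absurd hk₁ (h k hk)
    · exact absurd hk₂ (h k hk)

/-- **FUTURE FORM**: a position inside both circuits whose strand will leave `O` is a position of `G` -/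
theorem pvbk2_pos (hT : T.IsSph) (hfin : O.Left.Finite) (G : PvanStr T s O.Left) (hc₁ : c₁.Left ⊆ O.Left) (hc₂ : c₂.Left ⊆ O.Left)
    (h₁ : ∀ v ∈ c₁.verts, s v = false → v ∈ G.LayW) (h₂ : ∀ v ∈ c₂.verts, s v = true → v ∈ G.LayB) {d : D} (hd : pvasBW T s d) (hd₁ : d ∈ c₁.Left) (hd₂ : d ∈ c₂.Left)
    (hex : ∃ k, pvasIt T s d k ∉ O.Left) : ∃ i, i < G.n ∧ G.e i = d := by
  obtain ⟨γ, i, hi, rfl⟩ := pvbk2_piece_future (pl_left_face O) hfin hd (hc₁ hd₁) hex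
  obtain ⟨e1, e2⟩ := pvbk2_eq hT hfin G hc₁ hc₂ h₁ h₂ γ hi.le hd₁ hd₂
  exact ⟨i, e1 ▸ hi, (e2 i hi.le).symm⟩

/-- **PAST FORM**: a strand which starts outside `O`: each of its positions inside both circuits is a position of `G` -/
theorem pvbk2_it (hT : T.IsSph) (hfin : O.Left.Finite) (G : PvanStr T s O.Left) (hc₁ : c₁.Left ⊆ O.Left) (hc₂ : c₂.Left ⊆ O.Left)
    (h₁ : ∀ v ∈ c₁.verts, s v = false → v ∈ G.LayW) (h₂ : ∀ v ∈ c₂.verts, s v = true → v ∈ G.LayB) {d0 : D} (h0 : pvasBW T s d0) (h0O : d0 ∉ O.Left) {t : ℕ}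
    (ht₁ : pvasIt T s d0 t ∈ c₁.Left) (ht₂ : pvasIt T s d0 t ∈ c₂.Left) : ∃ i, i < G.n ∧ G.e i = pvasIt T s d0 t := by
  obtain ⟨γ, u, _, hu, hlt, _, he⟩ := pvbk2_piece_past (pl_left_face O) hfin h0 h0O t (hc₁ ht₁)
  have e : γ.e (t - u) = pvasIt T s d0 t := by
    rw [he _ hlt.le]
    congr 1
    omega
  obtain ⟨e1, e2⟩ := pvbk2_eq hT hfin G hc₁ hc₂ h₁ h₂ γ hlt.le (e ▸ ht₁) (e ▸ ht₂)
  exact ⟨t - u, e1 ▸ hlt, by rw [← e2 _ hlt.le, e]⟩

/-- **BACKWARD FORM**: a strand followed backwards from a position outside `O` -/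
theorem pvbk2_back (hT : T.IsSph) (hfin : O.Left.Finite) (G : PvanStr T s O.Left) (hc₁ : c₁.Left ⊆ O.Left) (hc₂ : c₂.Left ⊆ O.Left)
    (h₁ : ∀ v ∈ c₁.verts, s v = false → v ∈ G.LayW) (h₂ : ∀ v ∈ c₂.verts, s v = true → v ∈ G.LayB) {d0 : D} (h0 : pvasBW T s d0) (h0O : d0 ∉ O.Left) {t : ℕ}
    (ht₁ : (pvasBack T s)^[t] d0 ∈ c₁.Left) (ht₂ : (pvasBack T s)^[t] d0 ∈ c₂.Left) : ∃ i, i < G.n ∧ G.e i = (pvasBack T s)^[t] d0 :=
  pvbk2_pos hT hfin G hc₁ hc₂ h₁ h₂ (pvwk_back_bw h0 t) ht₁ ht₂ ⟨t, by rw [pvwk_it_back_end h0]; exact h0O⟩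

/-- a dart with an end strictly inside a cycle lies inside it -/
theorem pvbk2_int_mem (hT : T.IsSph) (c : T.Cyc) {d : D} (h : T.src d ∈ T.Int c.Left ∨ T.tgt d ∈ T.Int c.Left) : d ∈ c.Left := by
  rcases h with h | h
  · exact h d rfl
  · have := (pl_int_edge hT c (d := T.opp d) (by rw [T.src_opp']; exact h)).2.1
    rwa [T.opp_opp] at this

/-- **VERTEX FORM**: a vertex strictly inside both circuits which lies on a bank of a strand leaving `O` lies on the bank of `G` -/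
theorem pvbk2_vert (hT : T.IsSph) (hfin : O.Left.Finite) (G : PvanStr T s O.Left) (hc₁ : c₁.Left ⊆ O.Left) (hc₂ : c₂.Left ⊆ O.Left)
    (h₁ : ∀ v ∈ c₁.verts, s v = false → v ∈ G.LayW) (h₂ : ∀ v ∈ c₂.verts, s v = true → v ∈ G.LayB) {d : D} (hd : pvasBW T s d) {v : V} (hv : T.src d = v ∨ T.tgt d = v)
    (hv₁ : v ∈ T.Int c₁.Left) (hv₂ : v ∈ T.Int c₂.Left) (hex : ∃ k, pvasIt T s d k ∉ O.Left) : ∃ i, i < G.n ∧ G.e i = d := by
  refine pvbk2_pos hT hfin G hc₁ hc₂ h₁ h₂ hd (pvbk2_int_mem hT c₁ ?_) (pvbk2_int_mem hT c₂ ?_) hex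
  · rcases hv with h | h
    · exact Or.inl (h ▸ hv₁)
    · exact Or.inr (h ▸ hv₁)
  · rcases hv with h | h
    · exact Or.inl (h ▸ hv₂)
    · exact Or.inr (h ▸ hv₂)

end mouth

/-! ## 4. STUB FORM: the producer of `G`, `h₁`, `h₂` from an explored stub and RET (= `PvlvGood.ret` of `Tr/Level`, 235) -/

/-- **EXIT STUB** `x_t = pvasIt T s d0 t`, `t ≤ n`, which starts outside the big disc `O` and has its tip `x_n` in `O`;   the white vertices of `c₁` lie on its white bank, the black vertices of `c₂` on its black bank;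
RET: after a visit to a vertex of the circuits the stub stays in `O` up to its tip -/
structure Pvbk2Fwd (T : PvMap V D) (s : V → Bool) (O c₁ c₂ : T.Cyc) (d0 : D) (n : ℕ) : Prop where
  bw : pvasBW T s d0
  out : d0 ∉ O.Left
  tip : pvasIt T s d0 n ∈ O.Left
  sub₁ : c₁.Left ⊆ O.Left
  sub₂ : c₂.Left ⊆ O.Left
  wh : ∀ v ∈ c₁.verts, s v = false → ∃ u, u ≤ n ∧ T.tgt (pvasIt T s d0 u) = v
  bk : ∀ v ∈ c₂.verts, s v = true → ∃ u, u ≤ n ∧ T.src (pvasIt T s d0 u) = v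
  ret : ∀ u, u ≤ n → (T.tgt (pvasIt T s d0 u) ∈ c₁.verts ∨ T.src (pvasIt T s d0 u) ∈ c₂.verts) → ∀ t, u ≤ t → t ≤ n → pvasIt T s d0 t ∈ O.Left

/-- **ENTRANCE STUB** `y_t = (pvasBack T s)^[t] d0`, `t ≤ n` -/
structure Pvbk2Bwd (T : PvMap V D) (s : V → Bool) (O c₁ c₂ : T.Cyc) (d0 : D) (n : ℕ) : Prop where
  bw : pvasBW T s d0
  out : d0 ∉ O.Left
  tip : (pvasBack T s)^[n] d0 ∈ O.Left
  sub₁ : c₁.Left ⊆ O.Left
  sub₂ : c₂.Left ⊆ O.Left
  wh : ∀ v ∈ c₁.verts, s v = false → ∃ u, u ≤ n ∧ T.tgt ((pvasBack T s)^[u] d0) = v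
  bk : ∀ v ∈ c₂.verts, s v = true → ∃ u, u ≤ n ∧ T.src ((pvasBack T s)^[u] d0) = v
  ret : ∀ u, u ≤ n → (T.tgt ((pvasBack T s)^[u] d0) ∈ c₁.verts ∨ T.src ((pvasBack T s)^[u] d0) ∈ c₂.verts) → ∀ t, u ≤ t → t ≤ n → (pvasBack T s)^[t] d0 ∈ O.Left

section stub

variable {c₁ c₂ : T.Cyc} {d0 : D} {n : ℕ}

/-- the passage of the tip of an exit stub: it starts at the time `m` of the last entrance of the stub into `O` -/
theorem pvbk2_fwd (hfin : O.Left.Finite) (h : Pvbk2Fwd T s O c₁ c₂ d0 n) :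
    ∃ (G : PvanStr T s O.Left) (m : ℕ), 0 < m ∧ m ≤ n ∧ n - m < G.n ∧ pvasIt T s d0 (m - 1) ∉ O.Left ∧ (∀ i, i ≤ G.n → G.e i = pvasIt T s d0 (m + i)) ∧
      (∀ v ∈ c₁.verts, s v = false → v ∈ G.LayW) ∧ (∀ v ∈ c₂.verts, s v = true → v ∈ G.LayB) := by
  obtain ⟨G, m, hm0, hmn, hlt, hout, he⟩ := pvbk2_piece_past (pl_left_face O) hfin h.bw h.out n h.tip
  have key : ∀ u, u ≤ n → (T.tgt (pvasIt T s d0 u) ∈ c₁.verts ∨ T.src (pvasIt T s d0 u) ∈ c₂.verts) → m ≤ u ∧ G.e (u - m) = pvasIt T s d0 u := by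
    intro u hu hv
    have hmu : m ≤ u := by
      by_contra hc
      exact hout (h.ret u hu hv (m - 1) (by omega) (by omega))
    refine ⟨hmu, ?_⟩
    rw [he _ (by omega)]
    congr 1
    omega
  refine ⟨G, m, hm0, hmn, hlt, hout, he, ?_, ?_⟩
  · intro v hv hs
    obtain ⟨u, hu, rfl⟩ := h.wh v hv hs
    obtain ⟨h1, h2⟩ := key u hu (Or.inl hv)
    exact ⟨u - m, by omega, by rw [h2]⟩
  · intro v hv hs
    obtain ⟨u, hu, rfl⟩ := h.bk v hv hs
    obtain ⟨h1, h2⟩ := key u hu (Or.inr hv)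
    exact ⟨u - m, by omega, by rw [h2]⟩

/-- the passage of the tip of an entrance stub: the tip is its position number `j`, the explored positions follow -/
theorem pvbk2_bwd (hfin : O.Left.Finite) (h : Pvbk2Bwd T s O c₁ c₂ d0 n) :
    ∃ (G : PvanStr T s O.Left) (j : ℕ), j < G.n ∧ G.e j = (pvasBack T s)^[n] d0 ∧ G.n - j ≤ n ∧ (∀ i, j + i ≤ G.n → G.e (j + i) = (pvasBack T s)^[n - i] d0) ∧
      (∀ v ∈ c₁.verts, s v = false → v ∈ G.LayW) ∧ (∀ v ∈ c₂.verts, s v = true → v ∈ G.LayB) := by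
  have hbw := pvwk_back_bw h.bw n
  obtain ⟨G, j, hj, hGj⟩ := pvbk2_piece_future (pl_left_face O) hfin hbw h.tip ⟨n, by rw [pvwk_it_back_end h.bw]; exact h.out⟩
  have hit : ∀ i, j + i ≤ G.n → G.e (j + i) = pvasIt T s ((pvasBack T s)^[n] d0) i := by
    intro i hi
    rw [pvas_str_it G _ hi, pvas_it_add, ← pvas_str_it G j hj.le, hGj]
  have hle : G.n - j ≤ n := by
    by_contra hc
    have h1 := hit n (by omega)
    rw [pvwk_it_back_end h.bw] at h1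
    exact h.out (h1 ▸ G.mem (j + n) (by omega))
  have key : ∀ u, u ≤ n → (T.tgt ((pvasBack T s)^[u] d0) ∈ c₁.verts ∨ T.src ((pvasBack T s)^[u] d0) ∈ c₂.verts) → j + (n - u) < G.n ∧ G.e (j + (n - u)) = (pvasBack T s)^[u] d0 := by
    intro u hu hv
    obtain ⟨h1, h2⟩ := pvbk2_run G hj (n - u) fun i hi => by
      rw [hGj, pvwk_it_back h.bw (by omega)]
      exact h.ret u hu hv (n - i) (by omega) (by omega)
    refine ⟨h1, ?_⟩
    rw [h2, hGj, pvwk_it_back h.bw (by omega)]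
    congr 1
    omega
  refine ⟨G, j, hj, hGj, hle, ?_, ?_, ?_⟩
  · intro i hi
    rw [hit i hi, pvwk_it_back h.bw (by omega)]
  · intro v hv hs
    obtain ⟨u, hu, rfl⟩ := h.wh v hv hs
    obtain ⟨h1, h2⟩ := key u hu (Or.inl hv)
    exact ⟨j + (n - u), h1.le, by rw [h2]⟩
  · intro v hv hs
    obtain ⟨u, hu, rfl⟩ := h.bk v hv hs
    obtain ⟨h1, h2⟩ := key u hu (Or.inr hv)
    exact ⟨j + (n - u), h1.le, by rw [h2]⟩

/-- **SEALED MOUTH, EXIT STUB** (no record in the statement): `m` = last entrance of the stub into `O`, `m + N` = first exit of the continuation;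
a position of any strand which leaves `O`, inside both circuits, is one of `x_m, …, x_{m+N-1}` -/
theorem pvbk2_fwd_seal (hT : T.IsSph) (hfin : O.Left.Finite) (h : Pvbk2Fwd T s O c₁ c₂ d0 n) :
    ∃ m N : ℕ, 0 < m ∧ m ≤ n ∧ n < m + N ∧ pvasIt T s d0 (m - 1) ∉ O.Left ∧ (∀ i, i < N → pvasIt T s d0 (m + i) ∈ O.Left) ∧ pvasIt T s d0 (m + N) ∉ O.Left ∧
      ∀ d, pvasBW T s d → d ∈ c₁.Left → d ∈ c₂.Left → (∃ k, pvasIt T s d k ∉ O.Left) → ∃ i, i < N ∧ d = pvasIt T s d0 (m + i) := by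
  obtain ⟨G, m, hm0, hmn, hlt, hout, he, h₁, h₂⟩ := pvbk2_fwd hfin h
  refine ⟨m, G.n, hm0, hmn, by omega, hout, fun i hi => ?_, ?_, fun d hd hd₁ hd₂ hex => ?_⟩
  · rw [← he i hi.le]; exact G.mem i hi
  · rw [← he _ le_rfl]; exact G.ext
  · obtain ⟨i, hi, rfl⟩ := pvbk2_pos hT hfin G h.sub₁ h.sub₂ h₁ h₂ hd hd₁ hd₂ hex
    exact ⟨i, hi, he i hi.le⟩

/-- **SEALED MOUTH, ENTRANCE STUB**: `a` = number of steps of the backward continuation before its first exit of `O`, `b` = number of explored positions back from the tip which stay in `O` -/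
theorem pvbk2_bwd_seal (hT : T.IsSph) (hfin : O.Left.Finite) (h : Pvbk2Bwd T s O c₁ c₂ d0 n) :
    ∃ a b : ℕ, b ≤ n ∧ (∀ i, i ≤ a → (pvasBack T s)^[n + i] d0 ∈ O.Left) ∧ (pvasBack T s)^[n + a + 1] d0 ∉ O.Left ∧ (∀ i, i < b → (pvasBack T s)^[n - i] d0 ∈ O.Left) ∧ (pvasBack T s)^[n - b] d0 ∉ O.Left ∧
      ∀ d, pvasBW T s d → d ∈ c₁.Left → d ∈ c₂.Left → (∃ k, pvasIt T s d k ∉ O.Left) → ∃ t, n - b < t ∧ t ≤ n + a ∧ d = (pvasBack T s)^[t] d0 := by
  obtain ⟨G, j, hj, hGj, hle, he, h₁, h₂⟩ := pvbk2_bwd hfin h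
  have hL := pl_left_face O
  -- the positions before the tip
  have hb : ∀ i, i ≤ j → G.e (j - i) = (pvasBack T s)^[n + i] d0 := by
    intro i
    induction i with
    | zero => intro _; exact hGj
    | succ i ih =>
      intro hi
      have e1 : j - i = (j - (i + 1)) + 1 := by omega
      have h2 := pvan_back G (j - (i + 1)) (by omega)
      rw [← e1, ih (by omega)] at h2
      rw [← h2, ← Nat.add_assoc, Function.iterate_succ_apply']
      rfl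
  refine ⟨j, G.n - j, hle, fun i hi => ?_, ?_, fun i hi => ?_, ?_, fun d hd hd₁ hd₂ hex => ?_⟩
  · rw [← hb i hi]; exact G.mem _ (by omega)
  · rw [Function.iterate_succ_apply', ← hb j le_rfl, Nat.sub_self]
    intro hc
    exact G.ent ((hL.sf T (pvas_back_sf s (G.e 0))).1 hc)
  · rw [← he i (by omega)]; exact G.mem _ (by omega)
  · rw [← he (G.n - j) (by omega)]
    have e : j + (G.n - j) = G.n := by omega
    rw [e]; exact G.ext
  · obtain ⟨i, hi, rfl⟩ := pvbk2_pos hT hfin G h.sub₁ h.sub₂ h₁ h₂ hd hd₁ hd₂ hex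
    rcases Nat.lt_or_ge i j with hij | hij
    · refine ⟨n + (j - i), by omega, by omega, ?_⟩
      rw [← hb (j - i) (by omega)]
      congr 1
      omega
    · refine ⟨n - (i - j), by omega, by omega, ?_⟩
      rw [← he (i - j) (by omega)]
      congr 1
      omega

end stub

/-! ## 5. METRIC FORM: circuits AT A RADIUS (`PvaxAt` of `Arm/Bxp`; = `PvbpCirc` of `Tr/BlockP`, 233), frozen set `Fz`, fresh set `Fzᶜ` -/

section metric

variable [DecidableEq V] {pos : V → ℂ} {y : ℂ} {r₁ r₁' r₂ r₂' R R' ρm : ℝ} {c₁ c₂ : T.Cyc} {Fz : Set V} {d0 : D} {n : ℕ}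

/-- a dart with its source within the inner radius lies inside the cycle -/
theorem pvbk2_at_mem {r r' : ℝ} {c : T.Cyc} (h : PvaxAt T pos y r r' c) {d : D} (hd : ‖pos (T.src d) - y‖ ≤ r) : d ∈ c.Left := h.inn _ hd d rfl

/-- a dart with its source beyond the outer radius lies outside the cycle -/
theorem pvbk2_at_not_mem {r r' : ℝ} {c : T.Cyc} (h : PvaxAt T pos y r r' c) {d : D} (hd : r' ≤ ‖pos (T.src d) - y‖) : d ∉ c.Left :=
  fun hc => absurd (h.out _ ⟨d, hc, rfl⟩) (not_lt.2 hd)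

/-- **EXIT STUB, METRIC PRODUCER**.   `O` at radius `(R, R')`, `c₁` at radius `(r₁, r₁')` with FRESH vertices black, `c₂` at radius `(r₂, r₂')` with FRESH vertices white, `r₁', r₂' ≤ ρm ≤ R`;
the frozen vertices within `ρm` of `y` lie on the banks of the stub;   RET at the radii `(ρm, R)` -/
theorem pvbk2_fwd_of_metric (hT : T.IsSph) (hO : PvaxAt T pos y R R' O) (h₁ : PvaxAt T pos y r₁ r₁' c₁) (h₂ : PvaxAt T pos y r₂ r₂' c₂) (hr₁ : r₁' ≤ ρm) (hr₂ : r₂' ≤ ρm) (hρ : ρm ≤ R)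
    (hb : ∀ v ∈ c₁.verts, v ∉ Fz → s v = true) (hw : ∀ v ∈ c₂.verts, v ∉ Fz → s v = false) (h0 : pvasBW T s d0) (hfar : R' ≤ ‖pos (T.src d0) - y‖)
    (htip : ‖pos (T.src (pvasIt T s d0 n)) - y‖ ≤ R)
    (hFz : ∀ v ∈ Fz, ‖pos v - y‖ < ρm → ∃ u, u ≤ n ∧ (T.src (pvasIt T s d0 u) = v ∨ T.tgt (pvasIt T s d0 u) = v))
    (hret : ∀ u, u ≤ n → (‖pos (T.src (pvasIt T s d0 u)) - y‖ < ρm ∨ ‖pos (T.tgt (pvasIt T s d0 u)) - y‖ < ρm) → ∀ t, u ≤ t → t ≤ n → ‖pos (T.src (pvasIt T s d0 t)) - y‖ ≤ R) :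
    Pvbk2Fwd T s O c₁ c₂ d0 n where
  bw := h0
  out := pvbk2_at_not_mem hO hfar
  tip := pvbk2_at_mem hO htip
  sub₁ := (pvax_at_inside hT h₁ hO (by simpa using hr₁.trans hρ)).2
  sub₂ := (pvax_at_inside hT h₂ hO (by simpa using hr₂.trans hρ)).2
  wh := by
    intro v hv hs
    have hvF : v ∈ Fz := by
      by_contra hc
      rw [hb v hv hc] at hs
      exact Bool.noConfusion hs
    obtain ⟨u, hu, h | h⟩ := hFz v hvF ((pvax_at_verts hT h₁ hv).2.trans_le hr₁)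
    · rw [← h, (pvas_it_bw h0 u).1] at hs
      exact Bool.noConfusion hs
    · exact ⟨u, hu, h⟩
  bk := by
    intro v hv hs
    have hvF : v ∈ Fz := by
      by_contra hc
      rw [hw v hv hc] at hs
      exact Bool.noConfusion hs
    obtain ⟨u, hu, h | h⟩ := hFz v hvF ((pvax_at_verts hT h₂ hv).2.trans_le hr₂)
    · exact ⟨u, hu, h⟩
    · rw [← h, (pvas_it_bw h0 u).2] at hs
      exact Bool.noConfusion hs
  ret := by
    intro u hu hv t h1 h2
    refine pvbk2_at_mem hO (hret u hu ?_ t h1 h2)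
    rcases hv with hv | hv
    · exact Or.inr ((pvax_at_verts hT h₁ hv).2.trans_le hr₁)
    · exact Or.inl ((pvax_at_verts hT h₂ hv).2.trans_le hr₂)

/-- **ENTRANCE STUB, METRIC PRODUCER** -/
theorem pvbk2_bwd_of_metric (hT : T.IsSph) (hO : PvaxAt T pos y R R' O) (h₁ : PvaxAt T pos y r₁ r₁' c₁) (h₂ : PvaxAt T pos y r₂ r₂' c₂) (hr₁ : r₁' ≤ ρm) (hr₂ : r₂' ≤ ρm) (hρ : ρm ≤ R)
    (hb : ∀ v ∈ c₁.verts, v ∉ Fz → s v = true) (hw : ∀ v ∈ c₂.verts, v ∉ Fz → s v = false) (h0 : pvasBW T s d0) (hfar : R' ≤ ‖pos (T.src d0) - y‖)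
    (htip : ‖pos (T.src ((pvasBack T s)^[n] d0)) - y‖ ≤ R)
    (hFz : ∀ v ∈ Fz, ‖pos v - y‖ < ρm → ∃ u, u ≤ n ∧ (T.src ((pvasBack T s)^[u] d0) = v ∨ T.tgt ((pvasBack T s)^[u] d0) = v))
    (hret : ∀ u, u ≤ n → (‖pos (T.src ((pvasBack T s)^[u] d0)) - y‖ < ρm ∨ ‖pos (T.tgt ((pvasBack T s)^[u] d0)) - y‖ < ρm) → ∀ t, u ≤ t → t ≤ n → ‖pos (T.src ((pvasBack T s)^[t] d0)) - y‖ ≤ R) :
    Pvbk2Bwd T s O c₁ c₂ d0 n where
  bw := h0
  out := pvbk2_at_not_mem hO hfar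
  tip := pvbk2_at_mem hO htip
  sub₁ := (pvax_at_inside hT h₁ hO (by simpa using hr₁.trans hρ)).2
  sub₂ := (pvax_at_inside hT h₂ hO (by simpa using hr₂.trans hρ)).2
  wh := by
    intro v hv hs
    have hvF : v ∈ Fz := by
      by_contra hc
      rw [hb v hv hc] at hs
      exact Bool.noConfusion hs
    obtain ⟨u, hu, h | h⟩ := hFz v hvF ((pvax_at_verts hT h₁ hv).2.trans_le hr₁)
    · rw [← h, (pvwk_back_bw h0 u).1] at hs
      exact Bool.noConfusion hs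
    · exact ⟨u, hu, h⟩
  bk := by
    intro v hv hs
    have hvF : v ∈ Fz := by
      by_contra hc
      rw [hw v hv hc] at hs
      exact Bool.noConfusion hs
    obtain ⟨u, hu, h | h⟩ := hFz v hvF ((pvax_at_verts hT h₂ hv).2.trans_le hr₂)
    · exact ⟨u, hu, h⟩
    · rw [← h, (pvwk_back_bw h0 u).2] at hs
      exact Bool.noConfusion hs
  ret := by
    intro u hu hv t h1 h2
    refine pvbk2_at_mem hO (hret u hu ?_ t h1 h2)
    rcases hv with hv | hv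
    · exact Or.inr ((pvax_at_verts hT h₁ hv).2.trans_le hr₁)
    · exact Or.inl ((pvax_at_verts hT h₂ hv).2.trans_le hr₂)

/-- a black-white dart with an end within `min r₁ r₂` of `y` lies inside both circuits -/
theorem pvbk2_at_both (hT : T.IsSph) (h₁ : PvaxAt T pos y r₁ r₁' c₁) (h₂ : PvaxAt T pos y r₂ r₂' c₂) {d : D} {r : ℝ} (hr₁ : r ≤ r₁) (hr₂ : r ≤ r₂)
    (hd : ‖pos (T.src d) - y‖ ≤ r ∨ ‖pos (T.tgt d) - y‖ ≤ r) : d ∈ c₁.Left ∧ d ∈ c₂.Left := by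
  constructor
  · exact pvbk2_int_mem hT c₁ (hd.imp (fun h => h₁.inn _ (h.trans hr₁)) fun h => h₁.inn _ (h.trans hr₁))
  · exact pvbk2_int_mem hT c₂ (hd.imp (fun h => h₂.inn _ (h.trans hr₂)) fun h => h₂.inn _ (h.trans hr₂))

/-- a strand which reaches a position with its source beyond `R'` leaves `O` -/
theorem pvbk2_at_leaves (hO : PvaxAt T pos y R R' O) {d : D} (h : ∃ k, R' ≤ ‖pos (T.src (pvasIt T s d k)) - y‖) : ∃ k, pvasIt T s d k ∉ O.Left :=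
  h.imp fun _ hk => pvbk2_at_not_mem hO hk

/-- **E13, EXIT STUB, METRIC FORM**: every position of a strand reaching the distance `R'` of `y`, with an end in the MOUTH `B(y, r)`, `r ≤ min r₁ r₂`, is a position `x_{m+i}` of the last passage of the stub through `O` continued to its first exit of `O` -/
theorem pvbk2_fwd_mouth (hT : T.IsSph) (hO : PvaxAt T pos y R R' O) (h₁ : PvaxAt T pos y r₁ r₁' c₁) (h₂ : PvaxAt T pos y r₂ r₂' c₂) (h : Pvbk2Fwd T s O c₁ c₂ d0 n)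
    {r : ℝ} (hr₁ : r ≤ r₁) (hr₂ : r ≤ r₂) :
    ∃ m N : ℕ, 0 < m ∧ m ≤ n ∧ n < m + N ∧ pvasIt T s d0 (m - 1) ∉ O.Left ∧ (∀ i, i < N → pvasIt T s d0 (m + i) ∈ O.Left) ∧ pvasIt T s d0 (m + N) ∉ O.Left ∧
      ∀ d, pvasBW T s d → (‖pos (T.src d) - y‖ ≤ r ∨ ‖pos (T.tgt d) - y‖ ≤ r) → (∃ k, R' ≤ ‖pos (T.src (pvasIt T s d k)) - y‖) → ∃ i, i < N ∧ d = pvasIt T s d0 (m + i) := by
  obtain ⟨m, N, a1, a2, a3, a4, a5, a6, a7⟩ := pvbk2_fwd_seal hT hO.fin h
  refine ⟨m, N, a1, a2, a3, a4, a5, a6, fun d hd hm hk => ?_⟩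
  obtain ⟨b1, b2⟩ := pvbk2_at_both hT h₁ h₂ hr₁ hr₂ hm
  exact a7 d hd b1 b2 (pvbk2_at_leaves hO hk)

/-- **E13, ENTRANCE STUB, METRIC FORM** -/
theorem pvbk2_bwd_mouth (hT : T.IsSph) (hO : PvaxAt T pos y R R' O) (h₁ : PvaxAt T pos y r₁ r₁' c₁) (h₂ : PvaxAt T pos y r₂ r₂' c₂) (h : Pvbk2Bwd T s O c₁ c₂ d0 n)
    {r : ℝ} (hr₁ : r ≤ r₁) (hr₂ : r ≤ r₂) :
    ∃ a b : ℕ, b ≤ n ∧ (∀ i, i ≤ a → (pvasBack T s)^[n + i] d0 ∈ O.Left) ∧ (pvasBack T s)^[n + a + 1] d0 ∉ O.Left ∧ (∀ i, i < b → (pvasBack T s)^[n - i] d0 ∈ O.Left) ∧ (pvasBack T s)^[n - b] d0 ∉ O.Left ∧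
      ∀ d, pvasBW T s d → (‖pos (T.src d) - y‖ ≤ r ∨ ‖pos (T.tgt d) - y‖ ≤ r) → (∃ k, R' ≤ ‖pos (T.src (pvasIt T s d k)) - y‖) → ∃ t, n - b < t ∧ t ≤ n + a ∧ d = (pvasBack T s)^[t] d0 := by
  obtain ⟨a, b, a1, a2, a3, a4, a5, a6⟩ := pvbk2_bwd_seal hT hO.fin h
  refine ⟨a, b, a1, a2, a3, a4, a5, fun d hd hm hk => ?_⟩
  obtain ⟨b1, b2⟩ := pvbk2_at_both hT h₁ h₂ hr₁ hr₂ hm
  exact a6 d hd b1 b2 (pvbk2_at_leaves hO hk)

end metric

/-! ## 6. STATE FORM: the half states of record (`Tr/Defs` v3: `PvwSt.AtOut`, `PvwSt.AtIn`; the clauses of CALM are centred at the grid centres `τ.cp h z`, `τ.cm h z`), centre of the circuits `y`, `‖τ.cp h z - y‖ ≤ η` (`η = 0`: the grid centre itself) -/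

section state

variable [DecidableEq V] {pos : V → ℂ} {y z : ℂ} {r₁ r₁' r₂ r₂' R R' ρm η h : ℝ} {c₁ c₂ : T.Cyc} {N : PvwNum} {τ : PvwTy} {𝔖 : PvwSt T}

theorem pvbk2_tri {a x y : ℂ} {u v : ℝ} (h1 : ‖a - x‖ < u) (h2 : ‖x - y‖ ≤ v) : ‖a - y‖ < u + v := by
  have h3 : a - y = (a - x) + (x - y) := by ring
  have h4 := norm_add_le (a - x) (x - y)
  rw [h3]
  linarith

theorem pvbk2_gp_core (hg : 𝔖.Gate pos h z τ s) (hT : T.IsSph) : 𝔖.gp ∈ 𝔖.core := pvwk_ins_sub_core hg (pvwk_gate_ends hT hg).1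

theorem pvbk2_gm_core (hg : 𝔖.Gate pos h z τ s) (hT : T.IsSph) : 𝔖.gm ∈ 𝔖.core := pvwk_ins_sub_core hg (pvwk_gate_ends hT hg).2.2.1

/-- **E13 AT THE EXIT HALF STATE**: `Σ_out` good (calm radii `ρ₁ h / 2`, `ρ₂ h`), the core beyond `R'`, the two circuits of a BLOCK for the fresh set `fzOutᶜ` within `ρm`, `ρm + η ≤ ρ₁ h / 2`, the big disc `O` at radius `(R, R')`, `ρ₂ h + η ≤ R` -/
theorem pvbk2_state_out (hT : T.IsSph) (hat : 𝔖.AtOut pos N h z τ s) (hy : ‖τ.cp h z - y‖ ≤ η) (hO : PvaxAt T pos y R R' O) (h₁ : PvaxAt T pos y r₁ r₁' c₁) (h₂ : PvaxAt T pos y r₂ r₂' c₂)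
    (hr₁ : r₁' ≤ ρm) (hr₂ : r₂' ≤ ρm) (hρ : ρm ≤ R) (hρm : ρm + η ≤ N.rho1 * h / 2) (hR : N.rho2 * h + η ≤ R) (hb : ∀ v ∈ c₁.verts, v ∉ 𝔖.fzOut → s v = true) (hw : ∀ v ∈ c₂.verts, v ∉ 𝔖.fzOut → s v = false)
    (hcore : ∀ v ∈ 𝔖.core, R' ≤ ‖pos v - y‖) (hRR : ρm ≤ R') : Pvbk2Fwd T s O c₁ c₂ 𝔖.dp 𝔖.np := by
  obtain ⟨i₀, hi₀, hin, hout⟩ := hat.good.late_p
  have hit := hat.stub.ep_it
  have hy' : ‖y - τ.cp h z‖ ≤ η := by rw [norm_sub_rev]; exact hy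
  refine pvbk2_fwd_of_metric (Fz := 𝔖.fzOut) hT hO h₁ h₂ hr₁ hr₂ hρ hb hw hat.gate.bw_p (hcore _ (pvbk2_gp_core hat.gate hT)) ?_ ?_ ?_
  · rw [← hit _ le_rfl]
    exact ((pvbk2_tri (hin 𝔖.np hi₀ le_rfl).1 hy).trans_le hR).le
  · rintro v ((hv | ⟨u, hu, rfl⟩) | ⟨u, hu, rfl⟩) hlt
    · exact absurd hlt (not_lt.2 (hRR.trans (hcore v hv)))
    · exact ⟨u, hu, Or.inl (by rw [hit u hu])⟩
    · exact ⟨u, hu, Or.inr (by rw [hit u hu])⟩
  · intro u hu hv t h1 h2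
    have hiu : i₀ ≤ u := by
      by_contra hc
      obtain ⟨a1, a2⟩ := hout u (by omega)
      rw [← hit u hu] at hv
      rcases hv with hv | hv
      · have := pvbk2_tri hv hy'
        linarith
      · have := pvbk2_tri hv hy'
        linarith
    rw [← hit t h2]
    exact ((pvbk2_tri (hin t (by omega) h2).1 hy).trans_le hR).le

/-- **E13 AT THE ENTRANCE HALF STATE** -/
theorem pvbk2_state_in (hT : T.IsSph) (hat : 𝔖.AtIn pos N h z τ s) (hy : ‖τ.cm h z - y‖ ≤ η) (hO : PvaxAt T pos y R R' O) (h₁ : PvaxAt T pos y r₁ r₁' c₁) (h₂ : PvaxAt T pos y r₂ r₂' c₂)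
    (hr₁ : r₁' ≤ ρm) (hr₂ : r₂' ≤ ρm) (hρ : ρm ≤ R) (hρm : ρm + η ≤ N.rho1 * h / 2) (hR : N.rho2 * h + η ≤ R) (hb : ∀ v ∈ c₁.verts, v ∉ 𝔖.fzIn → s v = true) (hw : ∀ v ∈ c₂.verts, v ∉ 𝔖.fzIn → s v = false)
    (hcore : ∀ v ∈ 𝔖.core, R' ≤ ‖pos v - y‖) (hRR : ρm ≤ R') : Pvbk2Bwd T s O c₁ c₂ 𝔖.dm 𝔖.nm := by
  obtain ⟨i₀, hi₀, hin, hout⟩ := hat.good.late_m
  have hit := hat.stub.em_it
  have hy' : ‖y - τ.cm h z‖ ≤ η := by rw [norm_sub_rev]; exact hy
  refine pvbk2_bwd_of_metric (Fz := 𝔖.fzIn) hT hO h₁ h₂ hr₁ hr₂ hρ hb hw hat.gate.bw_m (hcore _ (pvbk2_gm_core hat.gate hT)) ?_ ?_ ?_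
  · rw [← hit _ le_rfl]
    exact ((pvbk2_tri (hin 𝔖.nm hi₀ le_rfl).1 hy).trans_le hR).le
  · rintro v ((hv | ⟨u, hu, rfl⟩) | ⟨u, hu, rfl⟩) hlt
    · exact absurd hlt (not_lt.2 (hRR.trans (hcore v hv)))
    · exact ⟨u, hu, Or.inl (by rw [hit u hu])⟩
    · exact ⟨u, hu, Or.inr (by rw [hit u hu])⟩
  · intro u hu hv t h1 h2
    have hiu : i₀ ≤ u := by
      by_contra hc
      obtain ⟨a1, a2⟩ := hout u (by omega)
      rw [← hit u hu] at hv
      rcases hv with hv | hv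
      · have := pvbk2_tri hv hy'
        linarith
      · have := pvbk2_tri hv hy'
        linarith
    rw [← hit t h2]
    exact ((pvbk2_tri (hin t (by omega) h2).1 hy).trans_le hR).le

end state

end Claimed.Agent.R289
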