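-- KEEP
import Claimed.Agent.R289.Tr.Seal
import Claimed.Agent.R289.Tr.StrandD

/-!
# Row 289 (S0537), THE WALL, road E, E15 HALF B, file Tr/GoodMouth : FROM THE SEALING LEMMA TO THE MOUTH CLAUSES AND (g3)      (architect helper42; prefix `pvzm_`, defs `Pvzm…`)

MODEL FREE (no `PvwSt`, survives every version of `Tr/Defs`).      Input: `Tr/Seal` of helper189 (`Pvbk2Fwd`, `Pvbk2Bwd`, `pvbk2_fwd_seal`, `pvbk2_bwd_seal`), strand calculus of helper64 (`pvt_sf_rim_ex`, `pvt_sf_rim`, `pvt_sd_le`).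

NOTATION.   `c` = a black rim, `a = rotInv (c.e j)` = the RIM TIME of the dart number `j` of `c` (`j` = the place of `g⁻`); the wall of `c` is finite = ONE periodic orbit of the wall step, period `P` (`PvzmPer`).
   exit gate edge `dp = pvasIt T s a δ`, entry gate edge `dm = (pvasBack T s)^[δ'] a`;      `q` = length of the inner arc (`j + q` = the place of `g⁺`).

* `pvzm_per_ex`, `pvzm_per_inj`, `pvzm_per_mod`, `pvzm_per_back`      periodic strands;      `pvzm_nr`, `pvzm_nr_back`      a stub explored to its first exit of a box does not come back to its start (= the hypotheses `hnr`)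
* `pvzm_gate`           the clauses `Gate.strand` + `PinOf.run` give `δ' + δ = n₀`, `dm = back^[δ'] a`, `dp = pvasIt a δ`, `inn.n < c.n`
* **`pvzm_clock`**      RIM CLOCK: the rim times `τ 0 = 0 < τ 1 < … < τ (c.n - 1) < P`
* **`pvzm_exit`**       `PinOut.mouth_p`, dart form: the rim indices whose rim time lies before the first exit `δ + m + N` of the passage of the tip through `O` form an initial arc `j + q, …, j + q + B`; all its vertices are sources of positions of the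
                        inner strand, of the stub or of `O`; no later rim time lies inside both circuits
* **`pvzm_entr`**       `PinIn.mouth_m`, dart form
* **`pvzm_g3_p`, `pvzm_g3_m`**      (g3), dart form: if SOME position of the wall lies off `Z ⊇` (inner strand, both stubs, `O.Left`) [= the rim is not small] then no position of the entrance stub lies inside both circuits of the exit tip, and conversely.
                        WITHOUT the hypothesis (g3) IS FALSE: the continuation may run from `x⁺` to `x⁻` inside `O` (the sealing lemma allows returns of the continuation before its first exit of `O`).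
* `pvzm_exit_metric`, `pvzm_entr_metric`, `pvzm_g3_p_metric`, `pvzm_g3_m_metric`      the same with circuits at a radius (`PvaxAt`), in the very form of the clauses `mouth_p`, `mouth_m`, `far_p`, `far_m` of `Tr/Defs`
* sec. 6  `PvzmWinP/M`, **`PvzmSealP`, `PvzmSealM`** = SEALED MOUTHS (the conclusion of `pvbk2_fwd_mouth` / `pvbk2_bwd_mouth` as a hypothesis; free centre `y`, mouth radius `r`, big radius `R'`);  `pvzm_sealP_of_fwd`, `pvzm_sealM_of_bwd`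
* sec. 7  `pvzm_exit_w`, `pvzm_entr_w`, `pvzm_g3_p_w`, `pvzm_g3_m_w`      the same theorems from sealed mouths
* sec. 8  THE STATES OF RECORD (`Tr/Defs` v3): `pvzm_st_gate`, `pvzm_st_nr_p/m`, **`pvzm_st_mouth_p`, `pvzm_st_mouth_m`, `pvzm_st_far_p`, `pvzm_st_far_m`**
* sec. 9  **E15, HALF B**: `pvzm_at_pin` (free `BK`), `pvzm_at_pin_sq` (`BK` = a box, explicit inequalities): `AtOut` + `AtIn` + sealed mouths + a black rim along the inner arc with a vertex outside `BK` ⟹ `At` ∧ `PinOf`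
* sec. 10 BLOCK ⟹ SEALED at the half states: `pvzm_st_sealP`, `pvzm_st_sealM`
REMARK FOR `Tr/Defs`: the set `BK` of `mouth_p / mouth_m` must contain the ball `B(x^±, R')` of the big disc `O` (radius `~ ρ₂ h`), not only the box `B_K`: at the levels `k` close to `K` the passage of the tip through `O` leaves `B_K`.
-/

set_option autoImplicit false
set_option linter.unusedSectionVars false

namespace Claimed.Agent.R289

open Relation Set

variable {V D : Type} {T : PvMap V D} {s : V → Bool}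

/-! ## 1. periodic strands -/

/-- `P` is the (minimal) period of the strand of the position `a` -/
structure PvzmPer (T : PvMap V D) (s : V → Bool) (a : D) (P : ℕ) : Prop where
  bw : pvasBW T s a
  pos : 0 < P
  ret : pvasIt T s a P = a
  min : ∀ t, 0 < t → t < P → pvasIt T s a t ≠ a

section per
variable {a : D} {P : ℕ}

/-- a position on a finite wall is periodic -/
theorem pvzm_per_ex (ha : pvasBW T s a) (hfin : {d | T.Wall s a d}.Finite) : ∃ P, PvzmPer T s a P := by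
  classical
  have hb := pvas_step_bw ha
  have h1 : T.Wall s a (pvasStep T s a) := by
    have h2 : T.Wall s a (T.opp (pvasStep T s a)) := pl_ra_wall_sf s (pvas_step_sf s a)
    have h3 := pl_ra_wall_opp h2 (pl_ra_occ_opp (pvas_bw_occ hb))
    rwa [T.opp_opp] at h3
  obtain ⟨m, hm⟩ := pvt_sf_orbit hb ha (pl_ra_wall_symm h1) (hfin.subset fun d hd => pl_ra_wall_trans h1 hd)
  have hex : ∃ P, 0 < P ∧ pvasIt T s a P = a := ⟨m + 1, Nat.succ_pos _, by rw [pvas_it_succ']; exact hm⟩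
  refine ⟨Nat.find hex, ha, (Nat.find_spec hex).1, (Nat.find_spec hex).2, fun t h0 ht e => Nat.find_min hex ht ⟨h0, e⟩⟩

/-- a return time is a period -/
theorem pvzm_ret_mod {t : ℕ} (e : pvasIt T s a t = a) (u : ℕ) : pvasIt T s a u = pvasIt T s a (u % t) := by
  have key : ∀ k, pvasIt T s a (t * k) = a := by
    intro k
    induction k with
    | zero => rfl
    | succ k ih => rw [Nat.mul_succ, pvas_it_add, ih, e]
  conv_lhs => rw [← Nat.div_add_mod u t]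
  rw [pvas_it_add, key]

/-- **NO RETURN** (exit stub): the positions before the time `L` lie in `Z`, the position number `L` does not: no return to `a` up to the time `L` -/
theorem pvzm_nr {L : ℕ} {Z : Set D} (hZ : ∀ t, t < L → pvasIt T s a t ∈ Z) (hL : pvasIt T s a L ∉ Z) : ∀ t, 0 < t → t ≤ L → pvasIt T s a t ≠ a := by
  intro t h0 ht e
  apply hL
  rw [pvzm_ret_mod e L]
  exact hZ _ (lt_of_lt_of_le (Nat.mod_lt _ h0) ht)

/-- **NO RETURN** (entrance stub) -/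
theorem pvzm_nr_back {L : ℕ} {Z : Set D} (hZ : ∀ t, t < L → (pvasBack T s)^[t] a ∈ Z) (hL : (pvasBack T s)^[L] a ∉ Z) : ∀ t, 0 < t → t ≤ L → (pvasBack T s)^[t] a ≠ a := by
  intro t h0 ht e
  have key : ∀ k, (pvasBack T s)^[t * k] a = a := by
    intro k
    induction k with
    | zero => rfl
    | succ k ih => rw [Nat.mul_succ, Nat.add_comm, Function.iterate_add_apply, ih, e]
  apply hL
  have : (pvasBack T s)^[L] a = (pvasBack T s)^[L % t] a := by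
    conv_lhs => rw [← Nat.div_add_mod L t]
    rw [Nat.add_comm, Function.iterate_add_apply, key]
  rw [this]
  exact hZ _ (lt_of_lt_of_le (Nat.mod_lt _ h0) ht)

theorem pvzm_per_inj (h : PvzmPer T s a P) {i j : ℕ} (hi : i < P) (hj : j < P) (e : pvasIt T s a i = pvasIt T s a j) : i = j :=
  pvt_sd_inj h.bw h.min i j hi hj e

theorem pvzm_per_mod (h : PvzmPer T s a P) (t : ℕ) : pvasIt T s a t = pvasIt T s a (t % P) := pvzm_ret_mod h.ret t

theorem pvzm_per_back (h : PvzmPer T s a P) {t : ℕ} (ht : t ≤ P) : (pvasBack T s)^[t] a = pvasIt T s a (P - t) := by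
  induction t with
  | zero => exact h.ret.symm
  | succ t ih =>
    rw [Function.iterate_succ_apply', ih (by omega)]
    have e : P - t = (P - (t + 1)) + 1 := by omega
    rw [e, pvas_it_back h.bw]

/-- no return up to the time `L`: the period is larger -/
theorem pvzm_per_lt (h : PvzmPer T s a P) {L : ℕ} (hL : ∀ t, 0 < t → t ≤ L → pvasIt T s a t ≠ a) : L < P := by
  by_contra hc
  exact hL P h.pos (by omega) h.ret

theorem pvzm_per_lt_back (h : PvzmPer T s a P) {L : ℕ} (hL : ∀ t, 0 < t → t ≤ L → (pvasBack T s)^[t] a ≠ a) : L < P := by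
  by_contra hc
  refine hL P h.pos (by omega) ?_
  rw [pvzm_per_back h le_rfl, Nat.sub_self]; rfl

end per


/-! ## 2. the rim clock -/

/-- what a black rim gives to the strand calculus -/
theorem pvzm_rim_kit {c : T.Cyc} (hc : c.IsRim s) (hb : s (T.src (c.e 0)) = true) :
    (∀ i, T.Tag s (T.opp (c.e i))) ∧ (∀ i, T.Wall s (T.opp (c.e 0)) (T.opp (c.e i))) ∧ (∀ i, s (T.src (c.e i)) = true) ∧ ∀ i, pvasBW T s (T.rotInv (c.e i)) := by
  have h1 : ∀ i, T.Tag s (T.opp (c.e i)) := pl_rim_tag hc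
  have h3 : ∀ i, s (T.src (c.e i)) = true := fun i => by rw [pl_rim_col hc i 0]; exact hb
  exact ⟨h1, fun i => (pl_rim_lab hc i).2.2.1, h3, fun i => pvt_s_rim_bw (h1 i) (h3 i)⟩

/-- **RIM CLOCK** -/
theorem pvzm_clock (hT : T.IsSph) (hS : T.Simple) {c : T.Cyc} (hc : c.IsRim s) (hb : s (T.src (c.e 0)) = true) (hfin : {d | T.Wall s (T.opp (c.e 0)) d}.Finite) (j : ℕ) :
    ∃ (P : ℕ) (τ : ℕ → ℕ), PvzmPer T s (T.rotInv (c.e j)) P ∧ τ 0 = 0 ∧ (∀ k, k + 1 < c.n → τ k < τ (k + 1)) ∧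
      ∀ k, k < c.n → τ k < P ∧ pvasIt T s (T.rotInv (c.e j)) (τ k) = T.rotInv (c.e (j + k)) := by
  classical
  obtain ⟨htag, hw, hbl, hbw⟩ := pvzm_rim_kit hc hb
  have ha := hbw j
  have hwa : T.Wall s (T.opp (c.e 0)) (T.rotInv (c.e j)) := pl_ra_wall_trans (hw j) (pl_ra_wall_sf s (T.sf_nxt _))
  obtain ⟨P, hP⟩ := pvzm_per_ex ha (hfin.subset fun d hd => pl_ra_wall_trans hwa hd)
  have h3 := c.three
  obtain ⟨m, hm, hmin⟩ := pvt_sf_rim_ex c htag hw hbl hfin j (j + c.n - 1)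
  have hinj := pvt_sd_inj ha (n := m + 1) (fun k hk0 hk => hmin k hk0 (by omega))
  obtain ⟨g1, g2, -⟩ := pvt_sf_rim hT hS c htag hw hbl (by omega : j < j + c.n - 1) (by omega) hm hmin
  obtain ⟨jj, h0, hn, h1, h2⟩ := pvt_sd_le hT hS ha (n := m) (fun i j hi hj => hinj i j (by omega) (by omega))
  have hyn : (pvtArc T s (T.rotInv (c.e j)) m).n = c.n - 1 := by rw [g1]; omega
  have hlt : ∀ k, k < c.n - 1 → jj k < m := fun k hk => pvt_sd_idx_lt (b := fun i => T.src (pvasIt T s (T.rotInv (c.e j)) i)) hn h1 (by rw [hyn]; exact hk)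
  have hpos : ∀ k, k < c.n → pvasIt T s (T.rotInv (c.e j)) (jj k) = T.rotInv (c.e (j + k)) := by
    intro k hk
    rcases Nat.lt_or_ge k (c.n - 1) with hk1 | hk1
    · have hky : k < (pvtArc T s (T.rotInv (c.e j)) m).n := by rw [hyn]; exact hk1
      have e1 : (pvtArc T s (T.rotInv (c.e j)) m).v k = T.src (pvasIt T s (T.rotInv (c.e j)) (jj k)) := (h1 k hky.le).2.1
      have e2 : (pvtArc T s (T.rotInv (c.e j)) m).v (k + 1) = T.src (pvasIt T s (T.rotInv (c.e j)) (jj k + 1)) := h2 k hky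
      rw [pvas_it_succ] at e2
      rcases pvas_step_ends s (pvasIt T s (T.rotInv (c.e j)) (jj k)) with ⟨h, e, -⟩ | ⟨-, e, -⟩
      · have e3 : (pvtArc T s (T.rotInv (c.e j)) m).e k = T.rot (pvasIt T s (T.rotInv (c.e j)) (jj k)) := by
          refine hS _ _ ?_ ?_
          · rw [(pvtArc T s (T.rotInv (c.e j)) m).src_e k hky, e1, T.src_rot]
          · rw [(pvtArc T s (T.rotInv (c.e j)) m).tgt_e k hky, e2, e, T.tgt_rot]
        rw [← g2 k (by omega), e3, T.rotInv_rot]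
      · exfalso
        have := (pvtArc T s (T.rotInv (c.e j)) m).inj (k + 1) k hky hky.le (by rw [e1, e2, e])
        omega
    · have e : k = (pvtArc T s (T.rotInv (c.e j)) m).n := by rw [hyn]; omega
      rw [e, hn, hm, hyn]
      congr 2
      omega
  have hle : ∀ k, k < c.n → jj k ≤ m := fun k hk => (h1 k (by rw [hyn]; omega)).1
  refine ⟨P, jj, hP, ?_, ?_, fun k hk => ⟨lt_of_le_of_lt (hle k hk) (pvzm_per_lt hP hmin), hpos k hk⟩⟩
  · exact hinj _ _ (by have := hle 0 (by omega); omega) (by omega) (by rw [hpos 0 (by omega)]; rfl)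
  · intro k hk
    by_contra hcon
    have hky : k < (pvtArc T s (T.rotInv (c.e j)) m).n := by rw [hyn]; omega
    have a1 := (h1 (k + 1) hky).2.2 (jj k + 1) (by omega) (by have := hlt k (by omega); omega)
    have a2 := (h1 (k + 1) hky).2.1
    exact a1 (by rw [← a2, h2 k hky])

/-- every rim time lies on the strand of every other one -/
theorem pvzm_rim_time {c : T.Cyc} (hc : c.IsRim s) (hb : s (T.src (c.e 0)) = true) (hfin : {d | T.Wall s (T.opp (c.e 0)) d}.Finite) (j i : ℕ) :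
    ∃ t, pvasIt T s (T.rotInv (c.e j)) t = T.rotInv (c.e i) := by
  obtain ⟨htag, hw, hbl, -⟩ := pvzm_rim_kit hc hb
  obtain ⟨m, hm, -⟩ := pvt_sf_rim_ex c htag hw hbl hfin j i
  exact ⟨m, hm⟩



theorem pvzm_back_it {d : D} (h : pvasBW T s d) (n : ℕ) : (pvasBack T s)^[n] (pvasIt T s d n) = d := by
  induction n with
  | zero => rfl
  | succ n ih => rw [Function.iterate_succ_apply, pvas_it_back h, ih]

/-- **THE GATE ON THE CLOCK**: the rim runs through the gate along the inner arc `inn` = last-exit decomposition of the black bank of the inner strand `dm → dp` (`n₀` steps): the rim time `a` of the first dart of `inn` cuts the inner strand in `δ' + δ = n₀` -/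
theorem pvzm_gate (hS : T.Simple) {c : T.Cyc} {j n₀ : ℕ} {dm dp : D} {inn : T.Pth} (hm : pvasBW T s dm) (hn₀ : pvasIt T s dm n₀ = dp) (hle : PvwLE T (fun i => T.src (pvasIt T s dm i)) n₀ inn)
    (hpos : 0 < inn.n) (run : ∀ i, i < inn.n → c.e (j + i) = inn.e i) :
    inn.n < c.n ∧ T.src dp = T.src (c.e (j + inn.n)) ∧ ∃ δ' δ, δ' + δ = n₀ ∧ 0 < δ ∧ pvasIt T s dm δ' = T.rotInv (c.e j) ∧ (pvasBack T s)^[δ'] (T.rotInv (c.e j)) = dm ∧ pvasIt T s (T.rotInv (c.e j)) δ = dp := by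
  have hv : ∀ k, k ≤ inn.n → inn.v k = T.src (c.e (j + k)) := by
    intro k hk
    rcases Nat.lt_or_ge k inn.n with h | h
    · rw [run k h, inn.src_e k h]
    · obtain ⟨k', rfl⟩ : ∃ k', k = k' + 1 := ⟨k - 1, by omega⟩
      rw [← inn.tgt_e k' (by omega), ← run k' (by omega), c.chain]
      rfl
  refine ⟨?_, ?_, ?_⟩
  · by_contra hc
    have h1 := hv c.n (by omega)
    rw [c.per, ← Nat.add_zero j, ← hv 0 (Nat.zero_le _)] at h1
    have := inn.inj _ _ (by omega) (Nat.zero_le _) h1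
    have := c.three
    omega
  · rw [← hv _ le_rfl, pvt_sd_vn hle, hn₀]
  · obtain ⟨t, ht, -, he⟩ := pvt_sd_time hS hle hpos
    have e : pvasIt T s dm t = T.rotInv (c.e j) := by
      have := run 0 hpos
      rw [Nat.add_zero] at this
      rw [this, he, T.rotInv_rot]
    refine ⟨t, n₀ - t, by omega, by omega, e, ?_, ?_⟩
    · rw [← e, pvzm_back_it hm]
    · rw [← e, ← pvas_it_add, ← hn₀]
      congr 1
      omega

/-! ## 3. the mouth clauses, dart form -/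

section mouth

variable {c O c₁ c₂ : T.Cyc} {j q δ n : ℕ} {d0 : D}

/-- **EXIT MOUTH** (`mouth_p`) -/
theorem pvzm_exit (hT : T.IsSph) (hS : T.Simple) (hc : c.IsRim s) (hb : s (T.src (c.e 0)) = true) (hfin : {d | T.Wall s (T.opp (c.e 0)) d}.Finite) (hq : q < c.n)
    (hδ : pvasIt T s (T.rotInv (c.e j)) δ = d0) (hsrc : T.src d0 = T.src (c.e (j + q))) (hO : O.Left.Finite) (h : Pvbk2Fwd T s O c₁ c₂ d0 n)
    (hA : T.rotInv (c.e j) ∉ O.Left) (hnr : ∀ t, 0 < t → t ≤ δ + n → pvasIt T s (T.rotInv (c.e j)) t ≠ T.rotInv (c.e j)) :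
    ∃ B, q + B < c.n ∧
      (∀ i, i ≤ B → ∃ t, T.src (c.e (j + q + i)) = T.src (pvasIt T s (T.rotInv (c.e j)) t) ∧ (t ≤ δ + n ∨ pvasIt T s (T.rotInv (c.e j)) t ∈ O.Left)) ∧
      ∀ i, q + B < i → i ≤ c.n → ¬ (T.rotInv (c.e (j + i)) ∈ c₁.Left ∧ T.rotInv (c.e (j + i)) ∈ c₂.Left) := by
  classical
  obtain ⟨P, τ, hP, hτ0, hτm, hτ⟩ := pvzm_clock hT hS hc hb hfin j
  obtain ⟨-, -, -, hbw⟩ := pvzm_rim_kit hc hb
  obtain ⟨m, N, hm0, hmn, hnN, -, hin, -, hseal⟩ := pvbk2_fwd_seal hT hO h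
  have hx : ∀ t, pvasIt T s d0 t = pvasIt T s (T.rotInv (c.e j)) (δ + t) := fun t => by rw [pvas_it_add, hδ]
  have hPn : δ + n < P := pvzm_per_lt hP hnr
  have hPM : δ + (m + N) ≤ P := by
    by_contra hcon
    apply hA
    have := hin (P - δ - m) (by omega)
    rw [hx] at this
    have e : δ + (m + (P - δ - m)) = P := by omega
    rwa [e, hP.ret] at this
  have hmono : ∀ k k', k ≤ k' → k' < c.n → τ k ≤ τ k' := by
    intro k k' hk
    induction k', hk using Nat.le_induction with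
    | base => intro _; exact le_rfl
    | succ k' hk' ih => intro hlt; exact (ih (by omega)).trans (hτm k' hlt).le
  obtain ⟨B, hB1, hB2, hB3⟩ : ∃ B, B ≤ c.n - 1 - q ∧ (B ≠ 0 → τ (q + B) < δ + (m + N)) ∧ ∀ k, B < k → k ≤ c.n - 1 - q → ¬ τ (q + k) < δ + (m + N) :=
    ⟨Nat.findGreatest (fun i => τ (q + i) < δ + (m + N)) (c.n - 1 - q), Nat.findGreatest_le _,
      fun hne => Nat.findGreatest_of_ne_zero (P := fun i => τ (q + i) < δ + (m + N)) rfl hne, fun k h1 h2 => Nat.findGreatest_is_greatest (P := fun i => τ (q + i) < δ + (m + N)) h1 h2⟩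
  refine ⟨B, by omega, ?_, ?_⟩
  · intro i hi
    rcases Nat.eq_zero_or_pos i with rfl | hi0
    · exact ⟨δ, by rw [hδ, hsrc]; rfl, Or.inl (by omega)⟩
    · have hsp := hB2 (by omega)
      have h1 := hmono (q + i) _ (Nat.add_le_add_left hi q) (by omega)
      refine ⟨τ (q + i), ?_, ?_⟩
      · rw [(hτ (q + i) (by omega)).2, T.src_rotInv, Nat.add_assoc]
      · by_cases h2 : τ (q + i) ≤ δ + n
        · exact Or.inl h2
        · right
          have := hin (τ (q + i) - δ - m) (by omega)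
          rw [hx] at this
          have e : δ + (m + (τ (q + i) - δ - m)) = τ (q + i) := by omega
          rwa [e] at this
  · rintro i hi1 hi2 ⟨hi3, hi4⟩
    rcases Nat.lt_or_ge i c.n with hlt | hge
    · obtain ⟨h1, h2⟩ := hτ i hlt
      obtain ⟨i', hi', e⟩ := hseal _ (hbw (j + i)) hi3 hi4 ⟨P - τ i, by
        rw [← h2, ← pvas_it_add]
        have e : τ i + (P - τ i) = P := by omega
        rw [e, hP.ret]; exact hA⟩
      rw [← h2, hx] at e
      have e' := pvzm_per_inj hP h1 (by omega) e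
      refine hB3 (i - q) (by omega) (by omega) ?_
      have e2 : q + (i - q) = i := by omega
      rw [e2]; omega
    · obtain rfl : i = c.n := by omega
      rw [c.per] at hi3
      exact hA (h.sub₁ hi3)

/-- **ENTRANCE MOUTH** (`mouth_m`) -/
theorem pvzm_entr (hT : T.IsSph) (hS : T.Simple) (hc : c.IsRim s) (hb : s (T.src (c.e 0)) = true) (hfin : {d | T.Wall s (T.opp (c.e 0)) d}.Finite) (hq : q < c.n)
    (hδ : (pvasBack T s)^[δ] (T.rotInv (c.e j)) = d0) (hO : O.Left.Finite) (h : Pvbk2Bwd T s O c₁ c₂ d0 n)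
    (hA : T.rotInv (c.e j) ∉ O.Left) (hQ : T.rotInv (c.e (j + q)) ∉ O.Left) (hnr : ∀ t, 0 < t → t ≤ δ + n → (pvasBack T s)^[t] (T.rotInv (c.e j)) ≠ T.rotInv (c.e j)) :
    ∃ A, q + A < c.n ∧
      (∀ i, i ≤ A → ∃ t, T.src (c.e (j + c.n - i)) = T.src ((pvasBack T s)^[t] (T.rotInv (c.e j))) ∧ (t ≤ δ + n ∨ (pvasBack T s)^[t] (T.rotInv (c.e j)) ∈ O.Left)) ∧
      ∀ i, q ≤ i → i + A < c.n → ¬ (T.rotInv (c.e (j + i)) ∈ c₁.Left ∧ T.rotInv (c.e (j + i)) ∈ c₂.Left) := by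
  classical
  obtain ⟨P, τ, hP, hτ0, hτm, hτ⟩ := pvzm_clock hT hS hc hb hfin j
  obtain ⟨-, -, -, hbw⟩ := pvzm_rim_kit hc hb
  obtain ⟨a', b, -, hin, -, -, -, hseal⟩ := pvbk2_bwd_seal hT hO h
  have hy : ∀ t, (pvasBack T s)^[t] d0 = (pvasBack T s)^[t + δ] (T.rotInv (c.e j)) := fun t => by rw [Function.iterate_add_apply, hδ]
  have hPn : δ + n < P := pvzm_per_lt_back hP hnr
  have hPL : δ + n + a' < P := by
    by_contra hcon
    apply hA
    have := hin (P - δ - n) (by omega)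
    rw [hy] at this
    have e : n + (P - δ - n) + δ = P := by omega
    rwa [e, pvzm_per_back hP le_rfl, Nat.sub_self] at this
  have hmono : ∀ k k', k ≤ k' → k' < c.n → τ k ≤ τ k' := by
    intro k k' hk
    induction k', hk using Nat.le_induction with
    | base => intro _; exact le_rfl
    | succ k' hk' ih => intro hlt; exact (ih (by omega)).trans (hτm k' hlt).le
  obtain ⟨A, hA1, hA2, hA3⟩ : ∃ A, A ≤ c.n - 1 - q ∧ (A ≠ 0 → P ≤ τ (c.n - A) + (δ + n + a')) ∧ ∀ k, A < k → k ≤ c.n - 1 - q → ¬ P ≤ τ (c.n - k) + (δ + n + a') :=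
    ⟨Nat.findGreatest (fun i => P ≤ τ (c.n - i) + (δ + n + a')) (c.n - 1 - q), Nat.findGreatest_le _,
      fun hne => Nat.findGreatest_of_ne_zero (P := fun i => P ≤ τ (c.n - i) + (δ + n + a')) rfl hne,
      fun k h1 h2 => Nat.findGreatest_is_greatest (P := fun i => P ≤ τ (c.n - i) + (δ + n + a')) h1 h2⟩
  refine ⟨A, by omega, ?_, ?_⟩
  · intro i hi
    rcases Nat.eq_zero_or_pos i with rfl | hi0
    · exact ⟨0, by rw [Nat.sub_zero, c.per, Function.iterate_zero, id, T.src_rotInv], Or.inl (Nat.zero_le _)⟩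
    · have hsp := hA2 (by omega)
      have h1 := hmono (c.n - A) (c.n - i) (by omega) (by omega)
      obtain ⟨h2, h3⟩ := hτ (c.n - i) (by omega)
      have e0 : (pvasBack T s)^[P - τ (c.n - i)] (T.rotInv (c.e j)) = T.rotInv (c.e (j + (c.n - i))) := by
        rw [pvzm_per_back hP (by omega), ← h3]
        congr 1
        omega
      refine ⟨P - τ (c.n - i), ?_, ?_⟩
      · rw [e0, T.src_rotInv]
        congr 2
        omega
      · by_cases h4 : P - τ (c.n - i) ≤ δ + n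
        · exact Or.inl h4
        · right
          have := hin (P - τ (c.n - i) - δ - n) (by omega)
          rw [hy] at this
          have e : n + (P - τ (c.n - i) - δ - n) + δ = P - τ (c.n - i) := by omega
          rwa [e] at this
  · rintro i hi1 hi2 ⟨hi3, hi4⟩
    rcases Nat.eq_or_lt_of_le hi1 with rfl | hlt
    · exact hQ (h.sub₁ hi3)
    · obtain ⟨h1, h2⟩ := hτ i (by omega)
      obtain ⟨t, ht0, ht, e⟩ := hseal _ (hbw (j + i)) hi3 hi4 ⟨P - τ i, by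
        rw [← h2, ← pvas_it_add]
        have e : τ i + (P - τ i) = P := by omega
        rw [e, hP.ret]; exact hA⟩
      rw [← h2, hy, pvzm_per_back hP (by omega)] at e
      have e' := pvzm_per_inj hP h1 (by omega) e
      refine hA3 (c.n - i) (by omega) (by omega) ?_
      have e2 : c.n - (c.n - i) = i := by omega
      rw [e2]; omega

end mouth



/-! ## 4. (g3), dart form -/

section g3

variable {O c₁ c₂ : T.Cyc} {a d0 : D} {P δ n L : ℕ} {Z : Set D}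

/-- **(g3) AT THE EXIT TIP**: the positions `(pvasBack T s)^[t] a`, `t ≤ L` (inner strand before `a` + entrance stub) are not inside both circuits of the exit tip -/
theorem pvzm_g3_p (hT : T.IsSph) (hP : PvzmPer T s a P) (hδ : pvasIt T s a δ = d0) (hO : O.Left.Finite) (h : Pvbk2Fwd T s O c₁ c₂ d0 n) (hA : a ∉ O.Left)
    (hnr : ∀ t, 0 < t → t ≤ δ + n → pvasIt T s a t ≠ a) (hnr' : ∀ t, 0 < t → t ≤ L → (pvasBack T s)^[t] a ≠ a)
    (hZ₁ : ∀ t, t ≤ δ + n → pvasIt T s a t ∈ Z) (hZ₂ : O.Left ⊆ Z) (hZ₃ : ∀ t, t ≤ L → (pvasBack T s)^[t] a ∈ Z) (hbig : ∃ t, pvasIt T s a t ∉ Z) :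
    ∀ t, t ≤ L → ¬ ((pvasBack T s)^[t] a ∈ c₁.Left ∧ (pvasBack T s)^[t] a ∈ c₂.Left) := by
  rintro t ht ⟨h1, h2⟩
  obtain ⟨m, N, hm0, hmn, hnN, -, hin, -, hseal⟩ := pvbk2_fwd_seal hT hO h
  have hx : ∀ t, pvasIt T s d0 t = pvasIt T s a (δ + t) := fun t => by rw [pvas_it_add, hδ]
  have hPn : δ + n < P := pvzm_per_lt hP hnr
  have hPL : L < P := pvzm_per_lt_back hP hnr'
  have hPM : δ + (m + N) ≤ P := by
    by_contra hcon
    apply hA
    have := hin (P - δ - m) (by omega)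
    rw [hx] at this
    have e : δ + (m + (P - δ - m)) = P := by omega
    rwa [e, hP.ret] at this
  have ht0 : 0 < t := by
    rcases Nat.eq_zero_or_pos t with rfl | h0
    · exact absurd (h.sub₁ h1) hA
    · exact h0
  obtain ⟨i, hi, e⟩ := hseal _ (pvwk_back_bw hP.bw t) h1 h2 ⟨t, by rw [pvwk_it_back_end hP.bw]; exact hA⟩
  rw [pvzm_per_back hP (by omega), hx] at e
  have e' := pvzm_per_inj hP (by omega) (by omega) e
  obtain ⟨u, hu⟩ := hbig
  apply hu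
  rw [pvzm_per_mod hP u]
  have hlt := Nat.mod_lt u hP.pos
  generalize u % P = u' at hlt
  by_cases c1 : u' ≤ δ + n
  · exact hZ₁ _ c1
  · by_cases c2 : u' < δ + (m + N)
    · have := hin (u' - δ - m) (by omega)
      rw [hx] at this
      have e2 : δ + (m + (u' - δ - m)) = u' := by omega
      rw [e2] at this
      exact hZ₂ this
    · have := hZ₃ (P - u') (by omega)
      rw [pvzm_per_back hP (by omega)] at this
      have e2 : P - (P - u') = u' := by omega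
      rwa [e2] at this

/-- **(g3) AT THE ENTRANCE TIP**: the positions `pvasIt T s a t`, `t ≤ L` (inner strand after `a` + exit stub) are not inside both circuits of the entrance tip -/
theorem pvzm_g3_m (hT : T.IsSph) (hP : PvzmPer T s a P) (hδ : (pvasBack T s)^[δ] a = d0) (hO : O.Left.Finite) (h : Pvbk2Bwd T s O c₁ c₂ d0 n) (hA : a ∉ O.Left)
    (hnr : ∀ t, 0 < t → t ≤ δ + n → (pvasBack T s)^[t] a ≠ a) (hnr' : ∀ t, 0 < t → t ≤ L → pvasIt T s a t ≠ a)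
    (hZ₁ : ∀ t, t ≤ δ + n → (pvasBack T s)^[t] a ∈ Z) (hZ₂ : O.Left ⊆ Z) (hZ₃ : ∀ t, t ≤ L → pvasIt T s a t ∈ Z) (hbig : ∃ t, pvasIt T s a t ∉ Z) :
    ∀ t, t ≤ L → ¬ (pvasIt T s a t ∈ c₁.Left ∧ pvasIt T s a t ∈ c₂.Left) := by
  rintro t ht ⟨h1, h2⟩
  obtain ⟨a', b, -, hin, -, -, -, hseal⟩ := pvbk2_bwd_seal hT hO h
  have hy : ∀ t, (pvasBack T s)^[t] d0 = (pvasBack T s)^[t + δ] a := fun t => by rw [Function.iterate_add_apply, hδ]
  have hPn : δ + n < P := pvzm_per_lt_back hP hnr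
  have hPL : L < P := pvzm_per_lt hP hnr'
  have hPM : δ + n + a' < P := by
    by_contra hcon
    apply hA
    have := hin (P - δ - n) (by omega)
    rw [hy] at this
    have e : n + (P - δ - n) + δ = P := by omega
    rwa [e, pvzm_per_back hP le_rfl, Nat.sub_self] at this
  obtain ⟨w, hw0, hw, e⟩ := hseal _ (pvas_it_bw hP.bw t) h1 h2 ⟨P - t, by
    rw [← pvas_it_add]
    have e : t + (P - t) = P := by omega
    rw [e, hP.ret]; exact hA⟩
  rw [hy, pvzm_per_back hP (by omega)] at e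
  have e' := pvzm_per_inj hP (by omega) (by omega) e
  obtain ⟨u, hu⟩ := hbig
  apply hu
  rw [pvzm_per_mod hP u]
  have hlt := Nat.mod_lt u hP.pos
  generalize u % P = u' at hlt
  by_cases c1 : u' ≤ L
  · exact hZ₃ _ c1
  · have e3 : pvasIt T s a u' = (pvasBack T s)^[P - u'] a := by
      rw [pvzm_per_back hP (by omega)]
      congr 1
      omega
    rw [e3]
    by_cases c2 : P - u' ≤ δ + n
    · exact hZ₁ _ c2
    · have := hin (P - u' - δ - n) (by omega)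
      rw [hy] at this
      have e2 : n + (P - u' - δ - n) + δ = P - u' := by omega
      rw [e2] at this
      exact hZ₂ this

end g3

/-! ## 5. metric forms = the clauses of `Tr/Defs` -/

section metric

variable [DecidableEq V] {pos : V → ℂ} {y : ℂ} {r r₁ r₁' r₂ r₂' R R' : ℝ} {c O c₁ c₂ : T.Cyc} {j q δ n L P : ℕ} {a d0 : D} {BK : Set ℂ}

/-- **`mouth_p`** -/
theorem pvzm_exit_metric (hT : T.IsSph) (hS : T.Simple) (hc : c.IsRim s) (hb : s (T.src (c.e 0)) = true) (hfin : {d | T.Wall s (T.opp (c.e 0)) d}.Finite) (hq : q < c.n)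
    (hδ : pvasIt T s (T.rotInv (c.e j)) δ = d0) (hsrc : T.src d0 = T.src (c.e (j + q)))
    (hO : PvaxAt T pos y R R' O) (h₁ : PvaxAt T pos y r₁ r₁' c₁) (h₂ : PvaxAt T pos y r₂ r₂' c₂) (hr₁ : r ≤ r₁) (hr₂ : r ≤ r₂) (h : Pvbk2Fwd T s O c₁ c₂ d0 n)
    (hA : R' ≤ ‖pos (T.src (c.e j)) - y‖) (hnr : ∀ t, 0 < t → t ≤ δ + n → pvasIt T s (T.rotInv (c.e j)) t ≠ T.rotInv (c.e j))
    (hB₁ : ∀ t, t ≤ δ + n → pos (T.src (pvasIt T s (T.rotInv (c.e j)) t)) ∈ BK) (hB₂ : ∀ v, ‖pos v - y‖ < R' → pos v ∈ BK) :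
    ∃ B, q + B < c.n ∧ (∀ i, i ≤ B → pos (T.src (c.e (j + q + i))) ∈ BK) ∧ ∀ i, q + B < i → i ≤ c.n → r < ‖pos (T.src (c.e (j + i))) - y‖ := by
  obtain ⟨B, b1, b2, b3⟩ := pvzm_exit hT hS hc hb hfin hq hδ hsrc hO.fin h (pvbk2_at_not_mem hO (by rw [T.src_rotInv]; exact hA)) hnr
  refine ⟨B, b1, fun i hi => ?_, fun i hi1 hi2 => ?_⟩
  · obtain ⟨t, e, ht | ht⟩ := b2 i hi
    · rw [e]; exact hB₁ t ht
    · rw [e]; exact hB₂ _ (hO.out _ ⟨_, ht, rfl⟩)
  · by_contra hcon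
    exact b3 i hi1 hi2 (pvbk2_at_both hT h₁ h₂ hr₁ hr₂ (Or.inl (by rw [T.src_rotInv]; exact not_lt.1 hcon)))

/-- **`mouth_m`** -/
theorem pvzm_entr_metric (hT : T.IsSph) (hS : T.Simple) (hc : c.IsRim s) (hb : s (T.src (c.e 0)) = true) (hfin : {d | T.Wall s (T.opp (c.e 0)) d}.Finite) (hq : q < c.n)
    (hδ : (pvasBack T s)^[δ] (T.rotInv (c.e j)) = d0)
    (hO : PvaxAt T pos y R R' O) (h₁ : PvaxAt T pos y r₁ r₁' c₁) (h₂ : PvaxAt T pos y r₂ r₂' c₂) (hr₁ : r ≤ r₁) (hr₂ : r ≤ r₂) (h : Pvbk2Bwd T s O c₁ c₂ d0 n)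
    (hA : R' ≤ ‖pos (T.src (c.e j)) - y‖) (hQ : R' ≤ ‖pos (T.src (c.e (j + q))) - y‖) (hnr : ∀ t, 0 < t → t ≤ δ + n → (pvasBack T s)^[t] (T.rotInv (c.e j)) ≠ T.rotInv (c.e j))
    (hB₁ : ∀ t, t ≤ δ + n → pos (T.src ((pvasBack T s)^[t] (T.rotInv (c.e j)))) ∈ BK) (hB₂ : ∀ v, ‖pos v - y‖ < R' → pos v ∈ BK) :
    ∃ A, q + A < c.n ∧ (∀ i, i ≤ A → pos (T.src (c.e (j + c.n - i))) ∈ BK) ∧ ∀ i, q ≤ i → i + A < c.n → r < ‖pos (T.src (c.e (j + i))) - y‖ := by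
  obtain ⟨A, b1, b2, b3⟩ := pvzm_entr hT hS hc hb hfin hq hδ hO.fin h (pvbk2_at_not_mem hO (by rw [T.src_rotInv]; exact hA)) (pvbk2_at_not_mem hO (by rw [T.src_rotInv]; exact hQ)) hnr
  refine ⟨A, b1, fun i hi => ?_, fun i hi1 hi2 => ?_⟩
  · obtain ⟨t, e, ht | ht⟩ := b2 i hi
    · rw [e]; exact hB₁ t ht
    · rw [e]; exact hB₂ _ (hO.out _ ⟨_, ht, rfl⟩)
  · by_contra hcon
    exact b3 i hi1 hi2 (pvbk2_at_both hT h₁ h₂ hr₁ hr₂ (Or.inl (by rw [T.src_rotInv]; exact not_lt.1 hcon)))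

/-- **(g3), `far_p` on the banks of the entrance stub** -/
theorem pvzm_g3_p_metric (hT : T.IsSph) (hP : PvzmPer T s a P) (hδ : pvasIt T s a δ = d0)
    (hO : PvaxAt T pos y R R' O) (h₁ : PvaxAt T pos y r₁ r₁' c₁) (h₂ : PvaxAt T pos y r₂ r₂' c₂) (hr₁ : r ≤ r₁) (hr₂ : r ≤ r₂) (h : Pvbk2Fwd T s O c₁ c₂ d0 n)
    (hA : R' ≤ ‖pos (T.src a) - y‖) (hnr : ∀ t, 0 < t → t ≤ δ + n → pvasIt T s a t ≠ a) (hnr' : ∀ t, 0 < t → t ≤ L → (pvasBack T s)^[t] a ≠ a)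
    (hB₁ : ∀ t, t ≤ δ + n → pos (T.src (pvasIt T s a t)) ∈ BK) (hB₂ : ∀ v, ‖pos v - y‖ < R' → pos v ∈ BK) (hB₃ : ∀ t, t ≤ L → pos (T.src ((pvasBack T s)^[t] a)) ∈ BK)
    (hbig : ∃ t, pos (T.src (pvasIt T s a t)) ∉ BK) :
    ∀ t, t ≤ L → r < ‖pos (T.src ((pvasBack T s)^[t] a)) - y‖ ∧ r < ‖pos (T.tgt ((pvasBack T s)^[t] a)) - y‖ := by
  intro t ht
  have key := pvzm_g3_p (Z := {d | pos (T.src d) ∈ BK}) hT hP hδ hO.fin h (pvbk2_at_not_mem hO hA) hnr hnr' hB₁ (fun d hd => hB₂ _ (hO.out _ ⟨d, hd, rfl⟩)) hB₃ hbig t ht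
  constructor
  · by_contra hcon
    exact key (pvbk2_at_both hT h₁ h₂ hr₁ hr₂ (Or.inl (not_lt.1 hcon)))
  · by_contra hcon
    exact key (pvbk2_at_both hT h₁ h₂ hr₁ hr₂ (Or.inr (not_lt.1 hcon)))

/-- **(g3), `far_m` on the banks of the exit stub** -/
theorem pvzm_g3_m_metric (hT : T.IsSph) (hP : PvzmPer T s a P) (hδ : (pvasBack T s)^[δ] a = d0)
    (hO : PvaxAt T pos y R R' O) (h₁ : PvaxAt T pos y r₁ r₁' c₁) (h₂ : PvaxAt T pos y r₂ r₂' c₂) (hr₁ : r ≤ r₁) (hr₂ : r ≤ r₂) (h : Pvbk2Bwd T s O c₁ c₂ d0 n)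
    (hA : R' ≤ ‖pos (T.src a) - y‖) (hnr : ∀ t, 0 < t → t ≤ δ + n → (pvasBack T s)^[t] a ≠ a) (hnr' : ∀ t, 0 < t → t ≤ L → pvasIt T s a t ≠ a)
    (hB₁ : ∀ t, t ≤ δ + n → pos (T.src ((pvasBack T s)^[t] a)) ∈ BK) (hB₂ : ∀ v, ‖pos v - y‖ < R' → pos v ∈ BK) (hB₃ : ∀ t, t ≤ L → pos (T.src (pvasIt T s a t)) ∈ BK)
    (hbig : ∃ t, pos (T.src (pvasIt T s a t)) ∉ BK) :
    ∀ t, t ≤ L → r < ‖pos (T.src (pvasIt T s a t)) - y‖ ∧ r < ‖pos (T.tgt (pvasIt T s a t)) - y‖ := by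
  intro t ht
  have key := pvzm_g3_m (Z := {d | pos (T.src d) ∈ BK}) hT hP hδ hO.fin h (pvbk2_at_not_mem hO hA) hnr hnr' hB₁ (fun d hd => hB₂ _ (hO.out _ ⟨d, hd, rfl⟩)) hB₃ hbig t ht
  constructor
  · by_contra hcon
    exact key (pvbk2_at_both hT h₁ h₂ hr₁ hr₂ (Or.inl (not_lt.1 hcon)))
  · by_contra hcon
    exact key (pvbk2_at_both hT h₁ h₂ hr₁ hr₂ (Or.inr (not_lt.1 hcon)))

end metric

/-! ## 6. SEALED MOUTHS: the conclusion of the sealing lemma as a hypothesis -/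

/-- **SEALED EXIT MOUTH, window form**: `W` = the big disc (a set of darts), `M` = the mouth; `m` = an entrance time of the stub `x_t = pvasIt T s d0 t`, `t ≤ n`, into `W`, the positions `m, …, m + N - 1` lie in `W`;
every position in `M` of a strand which leaves `W` is one of them -/
def PvzmWinP (T : PvMap V D) (s : V → Bool) (d0 : D) (n : ℕ) (W M : Set D) : Prop :=
  ∃ m N : ℕ, m ≤ n ∧ n < m + N ∧ (∀ i, i < N → pvasIt T s d0 (m + i) ∈ W) ∧
    ∀ d, pvasBW T s d → d ∈ M → (∃ k, pvasIt T s d k ∉ W) → ∃ i, i < N ∧ d = pvasIt T s d0 (m + i)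

/-- **SEALED ENTRANCE MOUTH, window form** -/
def PvzmWinM (T : PvMap V D) (s : V → Bool) (d0 : D) (n : ℕ) (W M : Set D) : Prop :=
  ∃ a b : ℕ, b ≤ n ∧ (∀ t, n - b < t → t ≤ n + a → (pvasBack T s)^[t] d0 ∈ W) ∧
    ∀ d, pvasBW T s d → d ∈ M → (∃ k, pvasIt T s d k ∉ W) → ∃ t, n - b < t ∧ t ≤ n + a ∧ d = (pvasBack T s)^[t] d0

/-- **SEALED EXIT MOUTH, metric form** = the conclusion of `pvbk2_fwd_mouth` (189): centre `y`, mouth radius `r`, big radius `R'` -/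
def PvzmSealP (T : PvMap V D) (pos : V → ℂ) (s : V → Bool) (d0 : D) (n : ℕ) (y : ℂ) (r R' : ℝ) : Prop :=
  ∃ m N : ℕ, m ≤ n ∧ n < m + N ∧ (∀ i, i < N → ‖pos (T.src (pvasIt T s d0 (m + i))) - y‖ < R') ∧
    ∀ d, pvasBW T s d → (‖pos (T.src d) - y‖ ≤ r ∨ ‖pos (T.tgt d) - y‖ ≤ r) → (∃ k, R' ≤ ‖pos (T.src (pvasIt T s d k)) - y‖) → ∃ i, i < N ∧ d = pvasIt T s d0 (m + i)

/-- **SEALED ENTRANCE MOUTH, metric form** = the conclusion of `pvbk2_bwd_mouth` -/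
def PvzmSealM (T : PvMap V D) (pos : V → ℂ) (s : V → Bool) (d0 : D) (n : ℕ) (y : ℂ) (r R' : ℝ) : Prop :=
  ∃ a b : ℕ, b ≤ n ∧ (∀ t, n - b < t → t ≤ n + a → ‖pos (T.src ((pvasBack T s)^[t] d0)) - y‖ < R') ∧
    ∀ d, pvasBW T s d → (‖pos (T.src d) - y‖ ≤ r ∨ ‖pos (T.tgt d) - y‖ ≤ r) → (∃ k, R' ≤ ‖pos (T.src (pvasIt T s d k)) - y‖) → ∃ t, n - b < t ∧ t ≤ n + a ∧ d = (pvasBack T s)^[t] d0

theorem pvzm_seal_eqns_cite : True := by
  have := @PvzmWinP.eq_1; have := @PvzmWinM.eq_1; have := @PvzmSealP.eq_1; have := @PvzmSealM.eq_1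
  trivial

theorem pvzm_sealP_win {pos : V → ℂ} {d0 : D} {n : ℕ} {y : ℂ} {r R' : ℝ} (h : PvzmSealP T pos s d0 n y r R') :
    PvzmWinP T s d0 n {d | ‖pos (T.src d) - y‖ < R'} {d | ‖pos (T.src d) - y‖ ≤ r ∨ ‖pos (T.tgt d) - y‖ ≤ r} := by
  obtain ⟨m, N, h1, h2, h3, h4⟩ := h
  exact ⟨m, N, h1, h2, h3, fun d hd hM ⟨k, hk⟩ => h4 d hd hM ⟨k, not_lt.1 hk⟩⟩

theorem pvzm_sealM_win {pos : V → ℂ} {d0 : D} {n : ℕ} {y : ℂ} {r R' : ℝ} (h : PvzmSealM T pos s d0 n y r R') :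
    PvzmWinM T s d0 n {d | ‖pos (T.src d) - y‖ < R'} {d | ‖pos (T.src d) - y‖ ≤ r ∨ ‖pos (T.tgt d) - y‖ ≤ r} := by
  obtain ⟨a, b, h1, h2, h3⟩ := h
  exact ⟨a, b, h1, h2, fun d hd hM ⟨k, hk⟩ => h3 d hd hM ⟨k, not_lt.1 hk⟩⟩

section producers

variable [DecidableEq V] {pos : V → ℂ} {y : ℂ} {r r₁ r₁' r₂ r₂' R R' : ℝ} {O c₁ c₂ : T.Cyc} {d0 : D} {n : ℕ}

/-- **BLOCK ⟹ SEALED** (exit) -/
theorem pvzm_sealP_of_fwd (hT : T.IsSph) (hO : PvaxAt T pos y R R' O) (h₁ : PvaxAt T pos y r₁ r₁' c₁) (h₂ : PvaxAt T pos y r₂ r₂' c₂) (h : Pvbk2Fwd T s O c₁ c₂ d0 n)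
    (hr₁ : r ≤ r₁) (hr₂ : r ≤ r₂) : PvzmSealP T pos s d0 n y r R' := by
  obtain ⟨m, N, -, a2, a3, -, a5, -, a7⟩ := pvbk2_fwd_mouth hT hO h₁ h₂ h hr₁ hr₂
  exact ⟨m, N, a2, a3, fun i hi => hO.out _ ⟨_, a5 i hi, rfl⟩, a7⟩

/-- **BLOCK ⟹ SEALED** (entrance) -/
theorem pvzm_sealM_of_bwd (hT : T.IsSph) (hO : PvaxAt T pos y R R' O) (h₁ : PvaxAt T pos y r₁ r₁' c₁) (h₂ : PvaxAt T pos y r₂ r₂' c₂) (h : Pvbk2Bwd T s O c₁ c₂ d0 n)
    (hr₁ : r ≤ r₁) (hr₂ : r ≤ r₂) : PvzmSealM T pos s d0 n y r R' := by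
  obtain ⟨a, b, a1, a2, -, a4, -, a6⟩ := pvbk2_bwd_mouth hT hO h₁ h₂ h hr₁ hr₂
  refine ⟨a, b, a1, fun t h1 h2 => hO.out _ ⟨_, ?_, rfl⟩, a6⟩
  rcases Nat.lt_or_ge n t with hlt | hge
  · have := a2 (t - n) (by omega)
    have e : n + (t - n) = t := by omega
    rwa [e] at this
  · have := a4 (n - t) (by omega)
    have e : n - (n - t) = t := by omega
    rwa [e] at this

end producers

/-! ## 7. the mouth clauses and (g3) from sealed mouths, window form -/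

section win

variable {c : T.Cyc} {j q δ n : ℕ} {d0 : D} {W M : Set D}

theorem pvzm_clock_mono {τ : ℕ → ℕ} {K : ℕ} (hτm : ∀ k, k + 1 < K → τ k < τ (k + 1)) : ∀ k k', k ≤ k' → k' < K → τ k ≤ τ k' := by
  intro k k' hk
  induction k', hk using Nat.le_induction with
  | base => intro _; exact le_rfl
  | succ k' hk' ih => intro hlt; exact (ih (by omega)).trans (hτm k' hlt).le

/-- **EXIT MOUTH from a sealed mouth** -/
theorem pvzm_exit_w (hT : T.IsSph) (hS : T.Simple) (hc : c.IsRim s) (hb : s (T.src (c.e 0)) = true) (hfin : {d | T.Wall s (T.opp (c.e 0)) d}.Finite) (hq : q < c.n)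
    (hδ : pvasIt T s (T.rotInv (c.e j)) δ = d0) (hsrc : T.src d0 = T.src (c.e (j + q))) (h : PvzmWinP T s d0 n W M)
    (hA : T.rotInv (c.e j) ∉ W) (hnr : ∀ t, 0 < t → t ≤ δ + n → pvasIt T s (T.rotInv (c.e j)) t ≠ T.rotInv (c.e j)) :
    ∃ B, q + B < c.n ∧
      (∀ i, i ≤ B → ∃ t, T.src (c.e (j + q + i)) = T.src (pvasIt T s (T.rotInv (c.e j)) t) ∧ (t ≤ δ + n ∨ pvasIt T s (T.rotInv (c.e j)) t ∈ W)) ∧
      ∀ i, q + B < i → i < c.n → T.rotInv (c.e (j + i)) ∉ M := by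
  classical
  obtain ⟨P, τ, hP, hτ0, hτm, hτ⟩ := pvzm_clock hT hS hc hb hfin j
  obtain ⟨-, -, -, hbw⟩ := pvzm_rim_kit hc hb
  obtain ⟨m, N, hmn, hnN, hin, hseal⟩ := h
  have hx : ∀ t, pvasIt T s d0 t = pvasIt T s (T.rotInv (c.e j)) (δ + t) := fun t => by rw [pvas_it_add, hδ]
  have hPn : δ + n < P := pvzm_per_lt hP hnr
  have hPM : δ + (m + N) ≤ P := by
    by_contra hcon
    apply hA
    have := hin (P - δ - m) (by omega)
    rw [hx] at this
    have e : δ + (m + (P - δ - m)) = P := by omega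
    rwa [e, hP.ret] at this
  have hmono := pvzm_clock_mono hτm
  obtain ⟨B, hB1, hB2, hB3⟩ : ∃ B, B ≤ c.n - 1 - q ∧ (B ≠ 0 → τ (q + B) < δ + (m + N)) ∧ ∀ k, B < k → k ≤ c.n - 1 - q → ¬ τ (q + k) < δ + (m + N) :=
    ⟨Nat.findGreatest (fun i => τ (q + i) < δ + (m + N)) (c.n - 1 - q), Nat.findGreatest_le _,
      fun hne => Nat.findGreatest_of_ne_zero (P := fun i => τ (q + i) < δ + (m + N)) rfl hne, fun k h1 h2 => Nat.findGreatest_is_greatest (P := fun i => τ (q + i) < δ + (m + N)) h1 h2⟩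
  refine ⟨B, by omega, ?_, ?_⟩
  · intro i hi
    rcases Nat.eq_zero_or_pos i with rfl | hi0
    · exact ⟨δ, by rw [hδ, hsrc]; rfl, Or.inl (by omega)⟩
    · have hsp := hB2 (by omega)
      have h1 := hmono (q + i) _ (Nat.add_le_add_left hi q) (by omega)
      refine ⟨τ (q + i), ?_, ?_⟩
      · rw [(hτ (q + i) (by omega)).2, T.src_rotInv, Nat.add_assoc]
      · by_cases h2 : τ (q + i) ≤ δ + n
        · exact Or.inl h2
        · right
          have := hin (τ (q + i) - δ - m) (by omega)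
          rw [hx] at this
          have e : δ + (m + (τ (q + i) - δ - m)) = τ (q + i) := by omega
          rwa [e] at this
  · intro i hi1 hlt hi3
    obtain ⟨h1, h2⟩ := hτ i hlt
    obtain ⟨i', hi', e⟩ := hseal _ (hbw (j + i)) hi3 ⟨P - τ i, by
      rw [← h2, ← pvas_it_add]
      have e : τ i + (P - τ i) = P := by omega
      rw [e, hP.ret]; exact hA⟩
    rw [← h2, hx] at e
    have e' := pvzm_per_inj hP h1 (by omega) e
    refine hB3 (i - q) (by omega) (by omega) ?_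
    have e2 : q + (i - q) = i := by omega
    rw [e2]; omega

/-- **ENTRANCE MOUTH from a sealed mouth** -/
theorem pvzm_entr_w (hT : T.IsSph) (hS : T.Simple) (hc : c.IsRim s) (hb : s (T.src (c.e 0)) = true) (hfin : {d | T.Wall s (T.opp (c.e 0)) d}.Finite) (hq : q < c.n)
    (hδ : (pvasBack T s)^[δ] (T.rotInv (c.e j)) = d0) (h : PvzmWinM T s d0 n W M)
    (hA : T.rotInv (c.e j) ∉ W) (hnr : ∀ t, 0 < t → t ≤ δ + n → (pvasBack T s)^[t] (T.rotInv (c.e j)) ≠ T.rotInv (c.e j)) :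
    ∃ A, q + A < c.n ∧
      (∀ i, i ≤ A → ∃ t, T.src (c.e (j + c.n - i)) = T.src ((pvasBack T s)^[t] (T.rotInv (c.e j))) ∧ (t ≤ δ + n ∨ (pvasBack T s)^[t] (T.rotInv (c.e j)) ∈ W)) ∧
      ∀ i, q < i → i + A < c.n → T.rotInv (c.e (j + i)) ∉ M := by
  classical
  obtain ⟨P, τ, hP, hτ0, hτm, hτ⟩ := pvzm_clock hT hS hc hb hfin j
  obtain ⟨-, -, -, hbw⟩ := pvzm_rim_kit hc hb
  obtain ⟨a', b, -, hin, hseal⟩ := h
  have hy : ∀ t, (pvasBack T s)^[t] d0 = (pvasBack T s)^[t + δ] (T.rotInv (c.e j)) := fun t => by rw [Function.iterate_add_apply, hδ]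
  have hPn : δ + n < P := pvzm_per_lt_back hP hnr
  have hPL : δ + n + a' < P := by
    by_contra hcon
    apply hA
    have := hin (P - δ) (by omega) (by omega)
    rw [hy] at this
    have e : P - δ + δ = P := by omega
    rwa [e, pvzm_per_back hP le_rfl, Nat.sub_self] at this
  have hmono := pvzm_clock_mono hτm
  obtain ⟨A, hA1, hA2, hA3⟩ : ∃ A, A ≤ c.n - 1 - q ∧ (A ≠ 0 → P ≤ τ (c.n - A) + (δ + n + a')) ∧ ∀ k, A < k → k ≤ c.n - 1 - q → ¬ P ≤ τ (c.n - k) + (δ + n + a') :=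
    ⟨Nat.findGreatest (fun i => P ≤ τ (c.n - i) + (δ + n + a')) (c.n - 1 - q), Nat.findGreatest_le _,
      fun hne => Nat.findGreatest_of_ne_zero (P := fun i => P ≤ τ (c.n - i) + (δ + n + a')) rfl hne,
      fun k h1 h2 => Nat.findGreatest_is_greatest (P := fun i => P ≤ τ (c.n - i) + (δ + n + a')) h1 h2⟩
  refine ⟨A, by omega, ?_, ?_⟩
  · intro i hi
    rcases Nat.eq_zero_or_pos i with rfl | hi0
    · exact ⟨0, by rw [Nat.sub_zero, c.per, Function.iterate_zero, id, T.src_rotInv], Or.inl (Nat.zero_le _)⟩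
    · have hsp := hA2 (by omega)
      have h1 := hmono (c.n - A) (c.n - i) (by omega) (by omega)
      obtain ⟨h2, h3⟩ := hτ (c.n - i) (by omega)
      have e0 : (pvasBack T s)^[P - τ (c.n - i)] (T.rotInv (c.e j)) = T.rotInv (c.e (j + (c.n - i))) := by
        rw [pvzm_per_back hP (by omega), ← h3]
        congr 1
        omega
      refine ⟨P - τ (c.n - i), ?_, ?_⟩
      · rw [e0, T.src_rotInv]
        congr 2
        omega
      · by_cases h4 : P - τ (c.n - i) ≤ δ + n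
        · exact Or.inl h4
        · right
          have := hin (P - τ (c.n - i) - δ) (by omega) (by omega)
          rw [hy] at this
          have e : P - τ (c.n - i) - δ + δ = P - τ (c.n - i) := by omega
          rwa [e] at this
  · intro i hlt hi2 hi3
    obtain ⟨h1, h2⟩ := hτ i (by omega)
    obtain ⟨t, ht0, ht, e⟩ := hseal _ (hbw (j + i)) hi3 ⟨P - τ i, by
      rw [← h2, ← pvas_it_add]
      have e : τ i + (P - τ i) = P := by omega
      rw [e, hP.ret]; exact hA⟩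
    rw [← h2, hy, pvzm_per_back hP (by omega)] at e
    have e' := pvzm_per_inj hP h1 (by omega) e
    refine hA3 (c.n - i) (by omega) (by omega) ?_
    have e2 : c.n - (c.n - i) = i := by omega
    rw [e2]; omega

end win

section g3w

variable {a d0 : D} {P δ n L : ℕ} {W M Z : Set D}

/-- **(g3) AT A SEALED EXIT MOUTH** -/
theorem pvzm_g3_p_w (hP : PvzmPer T s a P) (hδ : pvasIt T s a δ = d0) (h : PvzmWinP T s d0 n W M) (hA : a ∉ W)
    (hnr : ∀ t, 0 < t → t ≤ δ + n → pvasIt T s a t ≠ a) (hnr' : ∀ t, 0 < t → t ≤ L → (pvasBack T s)^[t] a ≠ a)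
    (hZ₁ : ∀ t, t ≤ δ + n → pvasIt T s a t ∈ Z) (hZ₂ : W ⊆ Z) (hZ₃ : ∀ t, t ≤ L → (pvasBack T s)^[t] a ∈ Z) (hbig : ∃ t, pvasIt T s a t ∉ Z) :
    ∀ t, t ≤ L → (pvasBack T s)^[t] a ∉ M := by
  intro t ht h1
  obtain ⟨m, N, hmn, hnN, hin, hseal⟩ := h
  have hx : ∀ t, pvasIt T s d0 t = pvasIt T s a (δ + t) := fun t => by rw [pvas_it_add, hδ]
  have hPn : δ + n < P := pvzm_per_lt hP hnr
  have hPL : L < P := pvzm_per_lt_back hP hnr'
  have hPM : δ + (m + N) ≤ P := by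
    by_contra hcon
    apply hA
    have := hin (P - δ - m) (by omega)
    rw [hx] at this
    have e : δ + (m + (P - δ - m)) = P := by omega
    rwa [e, hP.ret] at this
  obtain ⟨i, hi, e⟩ := hseal _ (pvwk_back_bw hP.bw t) h1 ⟨t, by rw [pvwk_it_back_end hP.bw]; exact hA⟩
  have ht0 : 0 < t := by
    rcases Nat.eq_zero_or_pos t with rfl | h0
    · exact absurd (show a ∈ W by have := hin i hi; rwa [← e] at this) hA
    · exact h0
  rw [pvzm_per_back hP (by omega), hx] at e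
  have e' := pvzm_per_inj hP (by omega) (by omega) e
  obtain ⟨u, hu⟩ := hbig
  apply hu
  rw [pvzm_per_mod hP u]
  have hlt := Nat.mod_lt u hP.pos
  generalize u % P = u' at hlt
  by_cases c1 : u' ≤ δ + n
  · exact hZ₁ _ c1
  · by_cases c2 : u' < δ + (m + N)
    · have := hin (u' - δ - m) (by omega)
      rw [hx] at this
      have e2 : δ + (m + (u' - δ - m)) = u' := by omega
      rw [e2] at this
      exact hZ₂ this
    · have := hZ₃ (P - u') (by omega)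
      rw [pvzm_per_back hP (by omega)] at this
      have e2 : P - (P - u') = u' := by omega
      rwa [e2] at this

/-- **(g3) AT A SEALED ENTRANCE MOUTH** -/
theorem pvzm_g3_m_w (hP : PvzmPer T s a P) (hδ : (pvasBack T s)^[δ] a = d0) (h : PvzmWinM T s d0 n W M) (hA : a ∉ W)
    (hnr : ∀ t, 0 < t → t ≤ δ + n → (pvasBack T s)^[t] a ≠ a) (hnr' : ∀ t, 0 < t → t ≤ L → pvasIt T s a t ≠ a)
    (hZ₁ : ∀ t, t ≤ δ + n → (pvasBack T s)^[t] a ∈ Z) (hZ₂ : W ⊆ Z) (hZ₃ : ∀ t, t ≤ L → pvasIt T s a t ∈ Z) (hbig : ∃ t, pvasIt T s a t ∉ Z) :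
    ∀ t, t ≤ L → pvasIt T s a t ∉ M := by
  intro t ht h1
  obtain ⟨a', b, -, hin, hseal⟩ := h
  have hy : ∀ t, (pvasBack T s)^[t] d0 = (pvasBack T s)^[t + δ] a := fun t => by rw [Function.iterate_add_apply, hδ]
  have hPn : δ + n < P := pvzm_per_lt_back hP hnr
  have hPL : L < P := pvzm_per_lt hP hnr'
  have hPM : δ + n + a' < P := by
    by_contra hcon
    apply hA
    have := hin (P - δ) (by omega) (by omega)
    rw [hy] at this
    have e : P - δ + δ = P := by omega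
    rwa [e, pvzm_per_back hP le_rfl, Nat.sub_self] at this
  obtain ⟨w, hw0, hw, e⟩ := hseal _ (pvas_it_bw hP.bw t) h1 ⟨P - t, by
    rw [← pvas_it_add]
    have e : t + (P - t) = P := by omega
    rw [e, hP.ret]; exact hA⟩
  rw [hy, pvzm_per_back hP (by omega)] at e
  have e' := pvzm_per_inj hP (by omega) (by omega) e
  obtain ⟨u, hu⟩ := hbig
  apply hu
  rw [pvzm_per_mod hP u]
  have hlt := Nat.mod_lt u hP.pos
  generalize u % P = u' at hlt
  by_cases c1 : u' ≤ L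
  · exact hZ₃ _ c1
  · have e3 : pvasIt T s a u' = (pvasBack T s)^[P - u'] a := by
      rw [pvzm_per_back hP (by omega)]
      congr 1
      omega
    rw [e3]
    by_cases c2 : P - u' ≤ δ + n
    · exact hZ₁ _ c2
    · have := hin (P - u' - δ) (by omega) (by omega)
      rw [hy] at this
      have e2 : P - u' - δ + δ = P - u' := by omega
      rw [e2] at this
      exact hZ₂ this

end g3w

/-! ## 8. THE STATES OF RECORD (`Tr/Defs` v3) -/

theorem pvzm_back_it_le {d : D} (h : pvasBW T s d) {n : ℕ} : ∀ t, t ≤ n → (pvasBack T s)^[t] (pvasIt T s d n) = pvasIt T s d (n - t) := by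
  intro t
  induction t with
  | zero => intro _; rfl
  | succ t ih =>
    intro ht
    rw [Function.iterate_succ_apply', ih (by omega)]
    have e : n - t = (n - (t + 1)) + 1 := by omega
    rw [e, pvas_it_back h]

section state

variable {pos : V → ℂ} {h : ℝ} {z y : ℂ} {τ : PvwTy} {𝔖 : PvwSt T} {c : T.Cyc} {j : ℕ} {r R' : ℝ} {B BK : Set ℂ}

/-- **THE GATE OF A STATE ON THE CLOCK OF A RIM** which runs along its inner arc: `a = rotInv (c.e j)` -/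
theorem pvzm_st_gate (hS : T.Simple) (hg : 𝔖.Gate pos h z τ s) (run : ∀ i, i < 𝔖.inn.n → c.e (j + i) = 𝔖.inn.e i) :
    𝔖.inn.n < c.n ∧ T.src 𝔖.dp = T.src (c.e (j + 𝔖.inn.n)) ∧ ∃ δ' δ, (pvasBack T s)^[δ'] (T.rotInv (c.e j)) = 𝔖.dm ∧ pvasIt T s (T.rotInv (c.e j)) δ = 𝔖.dp ∧
      (∀ t, t ≤ δ' → (pvasBack T s)^[t] (T.rotInv (c.e j)) ∈ 𝔖.S.Left) ∧ ∀ t, t < δ → pvasIt T s (T.rotInv (c.e j)) t ∈ 𝔖.S.Left := by
  obtain ⟨n₀, hn₀, hin, hle⟩ := hg.strand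
  have hpos : 0 < 𝔖.inn.n := by
    rcases Nat.eq_zero_or_pos 𝔖.inn.n with h0 | h0
    · exfalso
      apply hg.ne
      have e1 := pvt_sd_v0 hle
      have e2 := pvt_sd_vn hle
      rw [h0, e1, hn₀] at e2
      exact e2.symm
    · exact h0
  obtain ⟨h1, h2, δ', δ, e1, e2, e3, e4, e5⟩ := pvzm_gate hS hg.bw_m hn₀ hle hpos run
  refine ⟨h1, h2, δ', δ, e4, e5, fun t ht => ?_, fun t ht => ?_⟩
  · rw [← e3, pvzm_back_it_le hg.bw_m t ht]
    exact hin _ (by omega)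
  · rw [← e3, ← pvas_it_add]
    exact hin _ (by omega)

/-- a dart of the inside of the gate has its source in the disc -/
theorem pvzm_st_left (hg : 𝔖.Gate pos h z τ s) {d : D} (hd : d ∈ 𝔖.S.Left) : ‖pos (T.src d) - z‖ < τ.b * h := hg.inside _ ⟨d, hd, rfl⟩

/-- the positions `1 .. nm + 1` of the backward strand from `dm` are outside the gate -/
theorem pvzm_st_off_m (hst : 𝔖.StubM pos B s) (hoff : ∀ i, i ≤ 𝔖.nm → T.opp (𝔖.em i) ∉ 𝔖.S.Left) : ∀ i, i ≤ 𝔖.nm → (pvasBack T s)^[i + 1] 𝔖.dm ∉ 𝔖.S.Left := by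
  intro i hi hc
  rw [Function.iterate_succ_apply', ← hst.em_it i hi] at hc
  exact hoff i hi (((pl_left_face 𝔖.S).sf T (pvas_back_sf s (𝔖.em i))).1 hc)

/-- NO RETURN, forwards -/
theorem pvzm_st_nr_p (hst : 𝔖.StubP pos B s) (hoff : ∀ i, i ≤ 𝔖.np → 𝔖.ep i ∉ 𝔖.S.Left) {a : D} {δ : ℕ} (hδ : pvasIt T s a δ = 𝔖.dp) (ha : a ∈ 𝔖.S.Left)
    (hin : ∀ t, t < δ → pvasIt T s a t ∈ 𝔖.S.Left) : ∀ t, 0 < t → t ≤ δ + 𝔖.np → pvasIt T s a t ≠ a := by
  have hx : ∀ i, i ≤ 𝔖.np → pvasIt T s a (δ + i) ∉ 𝔖.S.Left := fun i hi => by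
    rw [pvas_it_add, hδ, ← hst.ep_it i hi]; exact hoff i hi
  intro t h0 ht
  rcases Nat.lt_or_ge δ t with hlt | hge
  · intro e
    have := hx (t - δ) (by omega)
    have e2 : δ + (t - δ) = t := by omega
    rw [e2, e] at this
    exact this ha
  · exact pvzm_nr hin (hx 0 (Nat.zero_le _)) t h0 hge

/-- NO RETURN, backwards -/
theorem pvzm_st_nr_m (hst : 𝔖.StubM pos B s) (hoff : ∀ i, i ≤ 𝔖.nm → T.opp (𝔖.em i) ∉ 𝔖.S.Left) {a : D} {δ : ℕ} (hδ : (pvasBack T s)^[δ] a = 𝔖.dm)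
    (hin : ∀ t, t ≤ δ → (pvasBack T s)^[t] a ∈ 𝔖.S.Left) : ∀ t, 0 < t → t ≤ δ + 𝔖.nm → (pvasBack T s)^[t] a ≠ a := by
  have hx : ∀ i, i ≤ 𝔖.nm → (pvasBack T s)^[i + 1 + δ] a ∉ 𝔖.S.Left := fun i hi => by
    rw [Function.iterate_add_apply, hδ]; exact pvzm_st_off_m hst hoff i hi
  intro t h0 ht
  rcases Nat.lt_or_ge δ t with hlt | hge
  · intro e
    have := hx (t - δ - 1) (by omega)
    have e2 : t - δ - 1 + 1 + δ = t := by omega
    rw [e2, e] at this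
    exact this (hin 0 (Nat.zero_le _))
  · refine pvzm_nr_back (L := δ + 1) (Z := 𝔖.S.Left) (fun t ht => hin t (by omega)) ?_ t h0 (by omega)
    have := hx 0 (Nat.zero_le _)
    have e2 : 0 + 1 + δ = δ + 1 := by omega
    rwa [e2] at this

/-- **`mouth_p` AT A STATE**: gate + exit stub + no return into the gate + SEALED exit mouth (centre `y`, radii `r < R'`), the disc of the core beyond `R'`, `BK ⊇` disc, box, big ball -/
theorem pvzm_st_mouth_p (hT : T.IsSph) (hS : T.Simple) (hg : 𝔖.Gate pos h z τ s) (hst : 𝔖.StubP pos B s) (hoff : ∀ i, i ≤ 𝔖.np → 𝔖.ep i ∉ 𝔖.S.Left)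
    (hc : c.IsRim s) (hb : s (T.src (c.e 0)) = true) (hfin : {d | T.Wall s (T.opp (c.e 0)) d}.Finite) (run : ∀ i, i < 𝔖.inn.n → c.e (j + i) = 𝔖.inn.e i)
    (hseal : PvzmSealP T pos s 𝔖.dp 𝔖.np y r R') (hrR : r < R') (hcore : ∀ v, ‖pos v - z‖ < τ.b * h → R' ≤ ‖pos v - y‖)
    (hK₁ : ∀ v, ‖pos v - z‖ < τ.b * h → pos v ∈ BK) (hK₂ : B ⊆ BK) (hK₃ : ∀ v, ‖pos v - y‖ < R' → pos v ∈ BK) :
    ∃ B', 𝔖.inn.n + B' < c.n ∧ (∀ i, i ≤ B' → pos (T.src (c.e (j + 𝔖.inn.n + i))) ∈ BK) ∧ ∀ i, 𝔖.inn.n + B' < i → i ≤ c.n → r < ‖pos (T.src (c.e (j + i))) - y‖ := by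
  obtain ⟨hq, hsrc, δ', δ, e1, e2, i1, i2⟩ := pvzm_st_gate hS hg run
  have ha : T.rotInv (c.e j) ∈ 𝔖.S.Left := i1 0 (Nat.zero_le _)
  have hfa : R' ≤ ‖pos (T.src (T.rotInv (c.e j))) - y‖ := hcore _ (pvzm_st_left hg ha)
  obtain ⟨B', b1, b2, b3⟩ := pvzm_exit_w hT hS hc hb hfin hq e2 hsrc (pvzm_sealP_win hseal) (fun hW => absurd hW (not_lt.2 hfa)) (pvzm_st_nr_p hst hoff e2 ha i2)
  refine ⟨B', b1, fun i hi => ?_, fun i hi1 hi2 => ?_⟩
  · obtain ⟨t, e, ht | ht⟩ := b2 i hi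
    · rw [e]
      rcases Nat.lt_or_ge t δ with hlt | hge
      · exact hK₁ _ (pvzm_st_left hg (i2 t hlt))
      · have e3 : pvasIt T s (T.rotInv (c.e j)) t = 𝔖.ep (t - δ) := by
          rw [hst.ep_it _ (by omega), ← e2, ← pvas_it_add]
          congr 1
          omega
        rw [e3]
        exact hK₂ (hst.ep_in _ (by omega)).1
    · rw [e]; exact hK₃ _ ht
  · rcases Nat.lt_or_ge i c.n with hlt | hge
    · by_contra hcon
      exact b3 i hi1 hlt (Or.inl (by rw [T.src_rotInv]; exact not_lt.1 hcon))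
    · obtain rfl : i = c.n := by omega
      rw [c.per, ← T.src_rotInv]
      exact lt_of_lt_of_le hrR hfa

/-- **`mouth_m` AT A STATE** -/
theorem pvzm_st_mouth_m (hT : T.IsSph) (hS : T.Simple) (hg : 𝔖.Gate pos h z τ s) (hst : 𝔖.StubM pos B s) (hoff : ∀ i, i ≤ 𝔖.nm → T.opp (𝔖.em i) ∉ 𝔖.S.Left)
    (hc : c.IsRim s) (hb : s (T.src (c.e 0)) = true) (hfin : {d | T.Wall s (T.opp (c.e 0)) d}.Finite) (run : ∀ i, i < 𝔖.inn.n → c.e (j + i) = 𝔖.inn.e i)
    (hseal : PvzmSealM T pos s 𝔖.dm 𝔖.nm y r R') (hrR : r < R') (hcore : ∀ v, ‖pos v - z‖ < τ.b * h → R' ≤ ‖pos v - y‖)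
    (hK₁ : ∀ v, ‖pos v - z‖ < τ.b * h → pos v ∈ BK) (hK₂ : B ⊆ BK) (hK₃ : ∀ v, ‖pos v - y‖ < R' → pos v ∈ BK) :
    ∃ A, 𝔖.inn.n + A < c.n ∧ (∀ i, i ≤ A → pos (T.src (c.e (j + c.n - i))) ∈ BK) ∧ ∀ i, 𝔖.inn.n ≤ i → i + A < c.n → r < ‖pos (T.src (c.e (j + i))) - y‖ := by
  obtain ⟨hq, hsrc, δ', δ, e1, e2, i1, i2⟩ := pvzm_st_gate hS hg run
  have ha : T.rotInv (c.e j) ∈ 𝔖.S.Left := i1 0 (Nat.zero_le _)
  have hfa : R' ≤ ‖pos (T.src (T.rotInv (c.e j))) - y‖ := hcore _ (pvzm_st_left hg ha)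
  obtain ⟨A, b1, b2, b3⟩ := pvzm_entr_w hT hS hc hb hfin hq e1 (pvzm_sealM_win hseal) (fun hW => absurd hW (not_lt.2 hfa)) (pvzm_st_nr_m hst hoff e1 i1)
  refine ⟨A, b1, fun i hi => ?_, fun i hi1 hi2 => ?_⟩
  · obtain ⟨t, e, ht | ht⟩ := b2 i hi
    · rw [e]
      rcases Nat.lt_or_ge δ' t with hlt | hge
      · have e3 : (pvasBack T s)^[t] (T.rotInv (c.e j)) = 𝔖.em (t - δ') := by
          rw [hst.em_it _ (by omega), ← e1, ← Function.iterate_add_apply]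
          congr 1
          omega
        rw [e3]
        exact hK₂ (hst.em_in _ (by omega)).1
      · exact hK₁ _ (pvzm_st_left hg (i1 t hge))
    · rw [e]; exact hK₃ _ ht
  · rcases Nat.eq_or_lt_of_le hi1 with rfl | hlt
    · rw [← hsrc]
      exact lt_of_lt_of_le hrR (hcore _ (hg.inside _ (pvwk_gate_ends hT hg).1))
    · by_contra hcon
      exact b3 i hlt hi2 (Or.inl (by rw [T.src_rotInv]; exact not_lt.1 hcon))

/-- **(g3) `far_p` AT A STATE**: the sites frozen by `Σ_in` are farther than `r` from the centre `y` of the SEALED exit mouth, as soon as the rim has a vertex outside `BK` -/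
theorem pvzm_st_far_p (hT : T.IsSph) (hS : T.Simple) (hg : 𝔖.Gate pos h z τ s) (hst : 𝔖.StubP pos B s) (hoff : ∀ i, i ≤ 𝔖.np → 𝔖.ep i ∉ 𝔖.S.Left)
    (hstm : 𝔖.StubM pos B s) (hoffm : ∀ i, i ≤ 𝔖.nm → T.opp (𝔖.em i) ∉ 𝔖.S.Left)
    (hc : c.IsRim s) (hb : s (T.src (c.e 0)) = true) (hfin : {d | T.Wall s (T.opp (c.e 0)) d}.Finite) (run : ∀ i, i < 𝔖.inn.n → c.e (j + i) = 𝔖.inn.e i)
    (hseal : PvzmSealP T pos s 𝔖.dp 𝔖.np y r R') (hrR : r < R') (hcore : ∀ v, ‖pos v - z‖ < τ.b * h → R' ≤ ‖pos v - y‖)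
    (hK₁ : ∀ v, ‖pos v - z‖ < τ.b * h → pos v ∈ BK) (hK₂ : B ⊆ BK) (hK₃ : ∀ v, ‖pos v - y‖ < R' → pos v ∈ BK) (hbig : ∃ i, pos (T.src (c.e i)) ∉ BK) :
    ∀ v ∈ 𝔖.fzIn, r < ‖pos v - y‖ := by
  obtain ⟨hq, hsrc, δ', δ, e1, e2, i1, i2⟩ := pvzm_st_gate hS hg run
  have ha : T.rotInv (c.e j) ∈ 𝔖.S.Left := i1 0 (Nat.zero_le _)
  have hfa : R' ≤ ‖pos (T.src (T.rotInv (c.e j))) - y‖ := hcore _ (pvzm_st_left hg ha)
  obtain ⟨P, -, hP, -⟩ := pvzm_clock hT hS hc hb hfin j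
  have hem : ∀ i, i ≤ 𝔖.nm → 𝔖.em i = (pvasBack T s)^[i + δ'] (T.rotInv (c.e j)) := fun i hi => by rw [hstm.em_it i hi, Function.iterate_add_apply, e1]
  have key := pvzm_g3_p_w (L := δ' + 𝔖.nm) (Z := {d | pos (T.src d) ∈ BK}) hP e2 (pvzm_sealP_win hseal) (fun hW => absurd hW (not_lt.2 hfa)) (pvzm_st_nr_p hst hoff e2 ha i2)
    (pvzm_st_nr_m hstm hoffm e1 i1) ?_ (fun d hd => hK₃ _ hd) ?_ ?_
  · rintro v ((hv | ⟨i, hi, rfl⟩) | ⟨i, hi, rfl⟩)
    · exact lt_of_lt_of_le hrR (hcore _ ((pvwk_mem_core hg).1 hv))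
    · by_contra hcon
      refine key (i + δ') (by omega) (Or.inl ?_)
      rw [← hem i hi]; exact not_lt.1 hcon
    · by_contra hcon
      refine key (i + δ') (by omega) (Or.inr ?_)
      rw [← hem i hi]; exact not_lt.1 hcon
  · intro t ht
    rcases Nat.lt_or_ge t δ with hlt | hge
    · exact hK₁ _ (pvzm_st_left hg (i2 t hlt))
    · have e3 : pvasIt T s (T.rotInv (c.e j)) t = 𝔖.ep (t - δ) := by
        rw [hst.ep_it _ (by omega), ← e2, ← pvas_it_add]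
        congr 1
        omega
      show pos (T.src (pvasIt T s (T.rotInv (c.e j)) t)) ∈ BK
      rw [e3]
      exact hK₂ (hst.ep_in _ (by omega)).1
  · intro t ht
    rcases Nat.lt_or_ge δ' t with hlt | hge
    · show pos (T.src ((pvasBack T s)^[t] (T.rotInv (c.e j)))) ∈ BK
      have e3 := hem (t - δ') (by omega)
      have e4 : t - δ' + δ' = t := by omega
      rw [e4] at e3
      rw [← e3]
      exact hK₂ (hstm.em_in _ (by omega)).1
    · exact hK₁ _ (pvzm_st_left hg (i1 t hge))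
  · obtain ⟨i, hi⟩ := hbig
    obtain ⟨t, ht⟩ := pvzm_rim_time hc hb hfin j i
    exact ⟨t, by show pos (T.src (pvasIt T s (T.rotInv (c.e j)) t)) ∉ BK; rw [ht, T.src_rotInv]; exact hi⟩

/-- **(g3) `far_m` AT A STATE** -/
theorem pvzm_st_far_m (hT : T.IsSph) (hS : T.Simple) (hg : 𝔖.Gate pos h z τ s) (hst : 𝔖.StubP pos B s) (hoff : ∀ i, i ≤ 𝔖.np → 𝔖.ep i ∉ 𝔖.S.Left)
    (hstm : 𝔖.StubM pos B s) (hoffm : ∀ i, i ≤ 𝔖.nm → T.opp (𝔖.em i) ∉ 𝔖.S.Left)
    (hc : c.IsRim s) (hb : s (T.src (c.e 0)) = true) (hfin : {d | T.Wall s (T.opp (c.e 0)) d}.Finite) (run : ∀ i, i < 𝔖.inn.n → c.e (j + i) = 𝔖.inn.e i)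
    (hseal : PvzmSealM T pos s 𝔖.dm 𝔖.nm y r R') (hrR : r < R') (hcore : ∀ v, ‖pos v - z‖ < τ.b * h → R' ≤ ‖pos v - y‖)
    (hK₁ : ∀ v, ‖pos v - z‖ < τ.b * h → pos v ∈ BK) (hK₂ : B ⊆ BK) (hK₃ : ∀ v, ‖pos v - y‖ < R' → pos v ∈ BK) (hbig : ∃ i, pos (T.src (c.e i)) ∉ BK) :
    ∀ v ∈ 𝔖.fzOut, r < ‖pos v - y‖ := by
  obtain ⟨hq, hsrc, δ', δ, e1, e2, i1, i2⟩ := pvzm_st_gate hS hg run
  have ha : T.rotInv (c.e j) ∈ 𝔖.S.Left := i1 0 (Nat.zero_le _)
  have hfa : R' ≤ ‖pos (T.src (T.rotInv (c.e j))) - y‖ := hcore _ (pvzm_st_left hg ha)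
  obtain ⟨P, -, hP, -⟩ := pvzm_clock hT hS hc hb hfin j
  have hem : ∀ i, i ≤ 𝔖.nm → 𝔖.em i = (pvasBack T s)^[i + δ'] (T.rotInv (c.e j)) := fun i hi => by rw [hstm.em_it i hi, Function.iterate_add_apply, e1]
  have hep : ∀ i, i ≤ 𝔖.np → 𝔖.ep i = pvasIt T s (T.rotInv (c.e j)) (δ + i) := fun i hi => by rw [hst.ep_it i hi, pvas_it_add, e2]
  have key := pvzm_g3_m_w (L := δ + 𝔖.np) (Z := {d | pos (T.src d) ∈ BK}) hP e1 (pvzm_sealM_win hseal) (fun hW => absurd hW (not_lt.2 hfa)) (pvzm_st_nr_m hstm hoffm e1 i1)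
    (pvzm_st_nr_p hst hoff e2 ha i2) ?_ (fun d hd => hK₃ _ hd) ?_ ?_
  · rintro v ((hv | ⟨i, hi, rfl⟩) | ⟨i, hi, rfl⟩)
    · exact lt_of_lt_of_le hrR (hcore _ ((pvwk_mem_core hg).1 hv))
    · by_contra hcon
      refine key (δ + i) (by omega) (Or.inl ?_)
      rw [← hep i hi]; exact not_lt.1 hcon
    · by_contra hcon
      refine key (δ + i) (by omega) (Or.inr ?_)
      rw [← hep i hi]; exact not_lt.1 hcon
  · intro t ht
    rcases Nat.lt_or_ge δ' t with hlt | hge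
    · show pos (T.src ((pvasBack T s)^[t] (T.rotInv (c.e j)))) ∈ BK
      have e3 := hem (t - δ') (by omega)
      have e4 : t - δ' + δ' = t := by omega
      rw [e4] at e3
      rw [← e3]
      exact hK₂ (hstm.em_in _ (by omega)).1
    · exact hK₁ _ (pvzm_st_left hg (i1 t hge))
  · intro t ht
    rcases Nat.lt_or_ge t δ with hlt | hge
    · exact hK₁ _ (pvzm_st_left hg (i2 t hlt))
    · show pos (T.src (pvasIt T s (T.rotInv (c.e j)) t)) ∈ BK
      have e3 := hep (t - δ) (by omega)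
      have e4 : δ + (t - δ) = t := by omega
      rw [e4] at e3
      rw [← e3]
      exact hK₂ (hst.ep_in _ (by omega)).1
  · obtain ⟨i, hi⟩ := hbig
    obtain ⟨t, ht⟩ := pvzm_rim_time hc hb hfin j i
    exact ⟨t, by show pos (T.src (pvasIt T s (T.rotInv (c.e j)) t)) ∉ BK; rw [ht, T.src_rotInv]; exact hi⟩

end state



/-! ## 9. E15, HALF B: half states + sealed mouths + a rim which leaves `BK` ⟹ the full state and the pin -/

section final

variable {pos : V → ℂ} {N : PvwNum} {h : ℝ} {z : ℂ} {τ : PvwTy} {𝔖 : PvwSt T} {c : T.Cyc} {j : ℕ} {R' μ rK : ℝ} {BK : Set ℂ}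

/-- **E15, HALF B** (free `BK`) -/
theorem pvzm_at_pin (hT : T.IsSph) (hS : T.Simple) (hO : 𝔖.AtOut pos N h z τ s) (hI : 𝔖.AtIn pos N h z τ s)
    (hc : c.IsRim s) (hb : s (T.src (c.e 0)) = true) (hfin : {d | T.Wall s (T.opp (c.e 0)) d}.Finite) (run : ∀ i, i < 𝔖.inn.n → c.e (j + i) = 𝔖.inn.e i) (hbig : ∃ i, pos (T.src (c.e i)) ∉ BK)
    (hSp : PvzmSealP T pos s 𝔖.dp 𝔖.np (τ.cp h z) (2 * N.rho * h) R') (hSm : PvzmSealM T pos s 𝔖.dm 𝔖.nm (τ.cm h z) (2 * N.rho * h) R') (hrR : 2 * N.rho * h < R')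
    (hcp : ∀ v, ‖pos v - z‖ < τ.b * h → R' ≤ ‖pos v - τ.cp h z‖) (hcm : ∀ v, ‖pos v - z‖ < τ.b * h → R' ≤ ‖pos v - τ.cm h z‖)
    (hK₁ : ∀ v, ‖pos v - z‖ < τ.b * h → pos v ∈ BK) (hK₂ : pvwSq z (pvwRad N h τ τ.k) ⊆ BK)
    (hKp : ∀ v, ‖pos v - τ.cp h z‖ < R' → pos v ∈ BK) (hKm : ∀ v, ‖pos v - τ.cm h z‖ < R' → pos v ∈ BK) :
    𝔖.At pos N h z τ s ∧ 𝔖.PinOf pos N h (τ.cp h z) (τ.cm h z) BK c j :=
  ⟨⟨hO, hI, pvzm_st_far_p hT hS hO.gate hO.stub hO.good.off_p hI.stub hI.good.off_m hc hb hfin run hSp hrR hcp hK₁ hK₂ hKp hbig,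
      pvzm_st_far_m hT hS hO.gate hO.stub hO.good.off_p hI.stub hI.good.off_m hc hb hfin run hSm hrR hcm hK₁ hK₂ hKm hbig⟩,
    ⟨run, pvzm_st_mouth_p hT hS hO.gate hO.stub hO.good.off_p hc hb hfin run hSp hrR hcp hK₁ hK₂ hKp⟩,
    ⟨run, pvzm_st_mouth_m hT hS hO.gate hI.stub hI.good.off_m hc hb hfin run hSm hrR hcm hK₁ hK₂ hKm⟩⟩

theorem pvzm_sq_of_norm {w z : ℂ} {r : ℝ} (hw : ‖w - z‖ ≤ r) : w ∈ pvwSq z r :=
  ⟨(Complex.abs_re_le_norm _).trans hw, (Complex.abs_im_le_norm _).trans hw⟩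

theorem pvzm_sq_add {w p z : ℂ} {r u : ℝ} (hp : p ∈ pvwSq z r) (hw : ‖w - p‖ ≤ u) : w ∈ pvwSq z (r + u) := by
  have e : w - z = (p - z) + (w - p) := by ring
  constructor
  · rw [e, Complex.add_re]
    exact (abs_add_le _ _).trans (add_le_add hp.1 ((Complex.abs_re_le_norm _).trans hw))
  · rw [e, Complex.add_im]
    exact (abs_add_le _ _).trans (add_le_add hp.2 ((Complex.abs_im_le_norm _).trans hw))

theorem pvzm_sq_mono {z : ℂ} {r r' : ℝ} (hr : r ≤ r') : pvwSq z r ⊆ pvwSq z r' := fun _ hw => ⟨hw.1.trans hr, hw.2.trans hr⟩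

/-- the big ball round the centre of a tip cell lies in the larger box -/
theorem pvzm_ball_sq {p y z : ℂ} {r u R' rK : ℝ} (hp : p ∈ pvwSq z r) (hy : ‖p - y‖ ≤ u) (hn : r + u + R' ≤ rK) {w : ℂ} (hw : ‖w - y‖ < R') : w ∈ pvwSq z rK := by
  refine pvzm_sq_mono hn (?_ : w ∈ pvwSq z (r + u + R'))
  rw [add_assoc]
  refine pvzm_sq_add hp ?_
  have e : w - p = (w - y) - (p - y) := by ring
  rw [e]
  exact (norm_sub_le _ _).trans (by linarith)

/-- the disc of the core is far from the centre of a tip cell: `q` = the tip apex (outside the box), `p` = an end of the tip dart -/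
theorem pvzm_disc_far {p q y z : ℂ} {r u μ R' β : ℝ} (hq : q ∉ pvwSq z r) (hqp : ‖q - p‖ ≤ μ) (hy : ‖p - y‖ ≤ u) (hn : β + μ + u + R' ≤ r) {w : ℂ} (hw : ‖w - z‖ < β) : R' ≤ ‖w - y‖ := by
  have h1 : r < ‖q - z‖ := by
    by_contra hcon
    exact hq (pvzm_sq_of_norm (not_lt.1 hcon))
  have e : q - z = (q - p) + (p - y) - (w - y) + (w - z) := by ring
  have h2 : ‖q - z‖ ≤ ‖q - p‖ + ‖p - y‖ + ‖w - y‖ + ‖w - z‖ := by
    rw [e]
    have a1 := norm_add_le ((q - p) + (p - y) - (w - y)) (w - z)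
    have a2 := norm_sub_le ((q - p) + (p - y)) (w - y)
    have a3 := norm_add_le (q - p) (p - y)
    linarith
  linarith

/-- **E15, HALF B** (`BK` = a box of half side `rK`; `μ` = a bound for the two edges from the tip darts to the tip apexes) -/
theorem pvzm_at_pin_sq (hT : T.IsSph) (hS : T.Simple) (hO : 𝔖.AtOut pos N h z τ s) (hI : 𝔖.AtIn pos N h z τ s)
    (hc : c.IsRim s) (hb : s (T.src (c.e 0)) = true) (hfin : {d | T.Wall s (T.opp (c.e 0)) d}.Finite) (run : ∀ i, i < 𝔖.inn.n → c.e (j + i) = 𝔖.inn.e i) (hbig : ∃ i, pos (T.src (c.e i)) ∉ pvwSq z rK)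
    (hSp : PvzmSealP T pos s 𝔖.dp 𝔖.np (τ.cp h z) (2 * N.rho * h) R') (hSm : PvzmSealM T pos s 𝔖.dm 𝔖.nm (τ.cm h z) (2 * N.rho * h) R') (hrR : 2 * N.rho * h < R')
    (hμ0 : 0 ≤ μ) (hρ0 : 0 ≤ N.rho * h) (hμp : ‖pos 𝔖.ap - pos (T.src (𝔖.ep 𝔖.np))‖ ≤ μ) (hμm : ‖pos 𝔖.am - pos (T.src (𝔖.em 𝔖.nm))‖ ≤ μ)
    (hn1 : τ.b * h + μ + N.rho * h / 4 + R' ≤ pvwRad N h τ τ.k) (hn2 : pvwRad N h τ τ.k + N.rho * h / 4 + R' ≤ rK) :
    𝔖.At pos N h z τ s ∧ 𝔖.PinOf pos N h (τ.cp h z) (τ.cm h z) (pvwSq z rK) c j := by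
  have hR0 : 0 ≤ R' := by nlinarith
  refine pvzm_at_pin hT hS hO hI hc hb hfin run hbig hSp hSm hrR ?_ ?_ ?_ ?_ ?_ ?_
  · exact fun v hv => pvzm_disc_far hO.stub.ep_out hμp hO.good.tip_p.1 hn1 hv
  · exact fun v hv => pvzm_disc_far hI.stub.em_out hμm hI.good.tip_m.1 hn1 hv
  · exact fun v hv => pvzm_sq_of_norm (by linarith)
  · exact pvzm_sq_mono (by linarith)
  · exact fun v hv => pvzm_ball_sq (hO.stub.ep_in _ le_rfl).1 hO.good.tip_p.1 hn2 hv
  · exact fun v hv => pvzm_ball_sq (hI.stub.em_in _ le_rfl).1 hI.good.tip_m.1 hn2 hv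

end final



/-! ## 10. BLOCK ⟹ SEALED at the half states of record (E13 + E14, deterministic half): `pvbk2_state_out`, `pvbk2_state_in` of 189 + sec. 6 -/

section block

variable [DecidableEq V] {pos : V → ℂ} {N : PvwNum} {h : ℝ} {z : ℂ} {τ : PvwTy} {𝔖 : PvwSt T} {O c₁ c₂ : T.Cyc} {r r₁ r₁' r₂ r₂' R R' ρm : ℝ}

/-- the exit half state, the two circuits of a BLOCK for the fresh set `fzOutᶜ` round the grid centre `τ.cp h z`, the big disc `O` ⟹ the exit mouth is sealed -/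
theorem pvzm_st_sealP (hT : T.IsSph) (hat : 𝔖.AtOut pos N h z τ s) (hO : PvaxAt T pos (τ.cp h z) R R' O) (h₁ : PvaxAt T pos (τ.cp h z) r₁ r₁' c₁) (h₂ : PvaxAt T pos (τ.cp h z) r₂ r₂' c₂)
    (hr₁ : r₁' ≤ ρm) (hr₂ : r₂' ≤ ρm) (hρ : ρm ≤ R) (hρm : ρm ≤ N.rho1 * h / 2) (hR : N.rho2 * h ≤ R) (hb : ∀ v ∈ c₁.verts, v ∉ 𝔖.fzOut → s v = true) (hw : ∀ v ∈ c₂.verts, v ∉ 𝔖.fzOut → s v = false)
    (hcore : ∀ v ∈ 𝔖.core, R' ≤ ‖pos v - τ.cp h z‖) (hRR : ρm ≤ R') (hm₁ : r ≤ r₁) (hm₂ : r ≤ r₂) : PvzmSealP T pos s 𝔖.dp 𝔖.np (τ.cp h z) r R' :=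
  pvzm_sealP_of_fwd hT hO h₁ h₂ (pvbk2_state_out (η := 0) hT hat (by simp) hO h₁ h₂ hr₁ hr₂ hρ (by linarith) (by linarith) hb hw hcore hRR) hm₁ hm₂

/-- the entrance half state -/
theorem pvzm_st_sealM (hT : T.IsSph) (hat : 𝔖.AtIn pos N h z τ s) (hO : PvaxAt T pos (τ.cm h z) R R' O) (h₁ : PvaxAt T pos (τ.cm h z) r₁ r₁' c₁) (h₂ : PvaxAt T pos (τ.cm h z) r₂ r₂' c₂)
    (hr₁ : r₁' ≤ ρm) (hr₂ : r₂' ≤ ρm) (hρ : ρm ≤ R) (hρm : ρm ≤ N.rho1 * h / 2) (hR : N.rho2 * h ≤ R) (hb : ∀ v ∈ c₁.verts, v ∉ 𝔖.fzIn → s v = true) (hw : ∀ v ∈ c₂.verts, v ∉ 𝔖.fzIn → s v = false)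
    (hcore : ∀ v ∈ 𝔖.core, R' ≤ ‖pos v - τ.cm h z‖) (hRR : ρm ≤ R') (hm₁ : r ≤ r₁) (hm₂ : r ≤ r₂) : PvzmSealM T pos s 𝔖.dm 𝔖.nm (τ.cm h z) r R' :=
  pvzm_sealM_of_bwd hT hO h₁ h₂ (pvbk2_state_in (η := 0) hT hat (by simp) hO h₁ h₂ hr₁ hr₂ hρ (by linarith) (by linarith) hb hw hcore hRR) hm₁ hm₂

end block

end Claimed.Agent.R289
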