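-- KEEP CAPOK
import Claimed.Agent.R289.Defs.TrModel
import Claimed.Agent.R289.Tr.LocalF
import Claimed.Agent.R289.Tr.GoodMouth

/-!
# Row 289 (S0537, Cardy for Poisson-Voronoi), THE WALL, road E, X3 = PIN EXISTS, file Tr/PinEK : THE MOUTH CLAUSES AND (g3) AT THE MODEL, FREE OF `PvwSt`      (helper152; prefix `pvek_`, `Pvek`)

WHY.  `pvpe_wall_p / pvpe_wall_m` of `Tr/PinE` are false as typed (276, 210, 287: the lobes of the black bank may leave the ball of agreement).      This file gives (d) of `Tr/PinE` (`pvpe_far`, `pvpe_mouth_p`, `pvpe_mouth_m`) WITHOUT them,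
for flags / seals which live on the PLANE map `pvxT ω` and a rim `P ∈ pvhbAll x R ω` of ANY completion.      No `PvwSt`, no type, no level: ANY centre `y`, ANY radii `r1 < r2`, ANY set `BK ⊆ ball x (4R)`: survives every version of `Tr/Defs`.

* sec. 1  `PvekL` (positioned coloured local isomorphism, DEEP on `K5`), `pvek_step pvek_back pvek_it pvek_bk` : TWIN STRANDS as long as the black ends of the PLANE strand stay in `K5`
* sec. 2  `pvek_it_bk`, `pvek_bk_it`
* sec. 3  `PvekG` = the data (completion `T`, rim `c` cut far, plane `T'`, inner strand `dm → dp` in `n₀` steps, `inn` = its last-exit decomposition, the rim runs along `inn` from the place `j`, `BK`);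
          `pvek_link` (the rim time of the first dart of `inn` is the twin of a position of the inner strand), `pvek_clock` (RIM CLOCK `pvzm_clock` started at the gate), `pvek_reach` (the plane strand from the twin of ANY rim time leaves every ball without the cut vertex),
          **`pvek_esc`** (K0: the plane strand from `dp` leaves `BK`),   **`pvek_mouth_p`** (K1),   **`pvek_mouth_m`** (K2),   **`pvek_noloop`** (K3)
* sec. 4  THE MODEL: `pvek_bulk`, `PvekM x R μ ω P b dm dp n₀ inn j BK` (the hypotheses, all read off `Gate.strand`, `PvpeRun`, the mesh), `PvekM.inst`,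
          **`PvekM.esc`**, **`PvekM.mouth_p`**, **`PvekM.mouth_m`**, **`PvekM.noloop`**
USE.   `M` = the last sealed time.   `hM` : the black ends of the positions `0..M` of the strand from `dp` lie in `BK` (stub: box; sealed passage: ball round the tip).   `hseal` = the conclusion of the sealing lemma, black ends only
(`PvpeSealP`, `PvzmSealP`: take `u = m + i`).      (g3): a position of `Σ⁻` in the mouth of `x⁺` reaches far (at `dm`), so it is sealed: `= pvasIt dp u`, against `noloop`.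
-/

set_option autoImplicit false
set_option linter.unusedSectionVars false
set_option linter.unusedVariables false

namespace Claimed.Agent.R289

open Set Claims.C0465

/-! ## 1. twin strands -/

section twin

variable {V D V' D' : Type}

/-- **a positioned, coloured local isomorphism, DEEP on `K5`**: a vertex of `T` placed in `K5` is full, and so are its neighbours -/
structure PvekL (T : PvMap V D) (T' : PvMap V' D') (Rl : D → D' → Prop) (pos : V → ℂ) (pos' : V' → ℂ) (s : V → Bool) (s' : V' → Bool) (K5 : Set ℂ) : Prop where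
  loc : PvLoc T T' Rl
  pos_eq : ∀ d d', Rl d d' → pos (T.src d) = pos' (T'.src d')
  col : ∀ d d', Rl d d' → s (T.src d) = s' (T'.src d')
  full : ∀ v, pos v ∈ K5 → v ∈ T.Int (plDom Rl)
  nbr : ∀ d, pos (T.src d) ∈ K5 → T.tgt d ∈ T.Int (plDom Rl)

variable {T : PvMap V D} {T' : PvMap V' D'} {Rl : D → D' → Prop} {pos : V → ℂ} {pos' : V' → ℂ} {s : V → Bool} {s' : V' → Bool} {K5 : Set ℂ}

theorem pvek_step (L : PvekL T T' Rl pos pos' s s' K5) {d : D} {d' : D'} (h : Rl d d') (hK : pos' (T'.src d') ∈ K5) : Rl (pvasStep T s d) (pvasStep T' s' d') := by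
  have hK' : pos (T.src d) ∈ K5 := by rw [L.pos_eq d d' h]; exact hK
  refine pvloc_step L.loc L.col h ?_
  rcases pvas_step_cases s d with ⟨-, e⟩ | ⟨-, e⟩
  · rw [e]
    exact pvloc_opp_mem L.loc (Or.inl (by rw [T.src_nxt]; exact L.nbr d hK'))
  · rw [e]
    exact pvloc_opp_mem L.loc (Or.inr (by rw [T.tgt_nxt2]; exact L.full _ hK'))

theorem pvek_back (L : PvekL T T' Rl pos pos' s s' K5) {d : D} {d' : D'} (h : Rl d d') (hK : pos' (T'.src d') ∈ K5) : Rl (pvasBack T s d) (pvasBack T' s' d') := by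
  have hK' : pos (T.src d) ∈ K5 := by rw [L.pos_eq d d' h]; exact hK
  have ho : Rl (T.opp d) (T'.opp d') := pvloc_opp L.loc h (Or.inl (L.full _ hK'))
  have hc : s (T.apex (T.opp d)) = s' (T'.apex (T'.opp d')) := L.col _ _ (L.loc.iso.nxt (L.loc.iso.nxt ho))
  unfold pvasBack
  rw [← hc]
  by_cases hb : s (T.apex (T.opp d)) = true
  · rw [if_pos hb, if_pos hb]; exact L.loc.iso.nxt (L.loc.iso.nxt ho)
  · rw [if_neg hb, if_neg hb]; exact L.loc.iso.nxt ho

/-- **TWIN STRANDS, forwards**: as long as the black ends of the strand of `T'` stay in `K5` -/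
theorem pvek_it (L : PvekL T T' Rl pos pos' s s' K5) {a : D} {a' : D'} (h : Rl a a') {n : ℕ} (hK : ∀ i, i < n → pos' (T'.src (pvasIt T' s' a' i)) ∈ K5) :
    ∀ k, k ≤ n → Rl (pvasIt T s a k) (pvasIt T' s' a' k) := by
  intro k
  induction k with
  | zero => intro _; exact h
  | succ k ih =>
    intro hk
    rw [pvas_it_succ, pvas_it_succ]
    exact pvek_step L (ih (by omega)) (hK k (by omega))

/-- **TWIN STRANDS, backwards** -/
theorem pvek_bk (L : PvekL T T' Rl pos pos' s s' K5) {a : D} {a' : D'} (h : Rl a a') {n : ℕ} (hK : ∀ i, i < n → pos' (T'.src ((pvasBack T' s')^[i] a')) ∈ K5) :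
    ∀ k, k ≤ n → Rl ((pvasBack T s)^[k] a) ((pvasBack T' s')^[k] a') := by
  intro k
  induction k with
  | zero => intro _; exact h
  | succ k ih =>
    intro hk
    rw [Function.iterate_succ_apply', Function.iterate_succ_apply']
    exact pvek_back L (ih (by omega)) (hK k (by omega))

/-- a dart of `T` whose source is placed in `K5` has a twin -/
theorem pvek_dart (L : PvekL T T' Rl pos pos' s s' K5) {d : D} (hK : pos (T.src d) ∈ K5) : ∃ d', Rl d d' := L.full _ hK d rfl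

theorem pvek_tgt (L : PvekL T T' Rl pos pos' s s' K5) {d : D} {d' : D'} (h : Rl d d') : pos (T.tgt d) = pos' (T'.tgt d') := L.pos_eq _ _ (L.loc.iso.nxt h)

theorem pvek_rotInv (L : PvekL T T' Rl pos pos' s s' K5) {d : D} {d' : D'} (h : Rl d d') (hK : pos (T.src d) ∈ K5) : Rl (T.rotInv d) (T'.rotInv d') :=
  L.loc.iso.nxt (pvloc_opp L.loc h (Or.inl (L.full _ hK)))

end twin

/-! ## 2. strands, one map -/

section one

variable {V D : Type} {T : PvMap V D} {s : V → Bool}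

/-- forwards after backwards -/
theorem pvek_it_bk {d : D} (h : pvasBW T s d) : ∀ {t k : ℕ}, k ≤ t → pvasIt T s ((pvasBack T s)^[t] d) k = (pvasBack T s)^[t - k] d := by
  have hbw : ∀ t, pvasBW T s ((pvasBack T s)^[t] d) := by
    intro t
    induction t with
    | zero => exact h
    | succ t ih => rw [Function.iterate_succ_apply']; exact pvas_back_bw ih
  intro t k
  induction k with
  | zero => intro _; rfl
  | succ k ih =>
    intro hk
    rw [pvas_it_succ, ih (by omega)]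
    have e : t - k = (t - (k + 1)) + 1 := by omega
    rw [e, Function.iterate_succ_apply', pvas_step_back (hbw _)]

theorem pvek_bk_bw {d : D} (h : pvasBW T s d) (t : ℕ) : pvasBW T s ((pvasBack T s)^[t] d) := by
  induction t with
  | zero => exact h
  | succ t ih => rw [Function.iterate_succ_apply']; exact pvas_back_bw ih

/-- backwards after forwards -/
theorem pvek_bk_it {d : D} (h : pvasBW T s d) : ∀ {t k : ℕ}, k ≤ t → (pvasBack T s)^[k] (pvasIt T s d t) = pvasIt T s d (t - k) := by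
  intro t k
  induction k with
  | zero => intro _; rfl
  | succ k ih =>
    intro hk
    rw [Function.iterate_succ_apply', ih (by omega)]
    have e : t - k = (t - (k + 1)) + 1 := by omega
    rw [e, pvas_it_back h]

end one

/-! ## 3. a gate of the plane on a rim of the completion -/

section gate

variable {V D V' D' : Type}

/-- **THE DATA**: `T` = the completion (finite walls), `c` = the rim, cut at `c.e 0`, far;   `T'` = the plane;   `dm → dp` = the inner strand of a gate of the plane (`n₀` steps), `inn` = the last-exit decomposition of its black bank;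
the rim runs along `inn` from the place `j`;   `BK` = a set of the deep region `K5` which contains the black ends of the inner strand and not the cut vertex -/
structure PvekG (T : PvMap V D) (T' : PvMap V' D') (Rl : D → D' → Prop) (pos : V → ℂ) (pos' : V' → ℂ) (s : V → Bool) (s' : V' → Bool) (K5 : Set ℂ)
    (c : T.Cyc) (dm dp : D') (n₀ : ℕ) (inn : T'.Pth) (j : ℕ) (BK : Set ℂ) : Prop where
  L : PvekL T T' Rl pos pos' s s' K5
  sph : T.IsSph
  simple : T.Simple
  simple' : T'.Simple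
  inj' : Function.Injective pos'
  rim : c.IsRim s
  fin : {d | T.Wall s (T.opp (c.e 0)) d}.Finite
  bw : pvasBW T' s' dm
  it : pvasIt T' s' dm n₀ = dp
  le : PvwLE T' (fun i => T'.src (pvasIt T' s' dm i)) n₀ inn
  pos_n : 0 < inn.n
  jl : j + inn.n < c.n
  run : ∀ i, i ≤ inn.n → pos (T.src (c.e (j + i))) = pos' (inn.v i)
  sub : BK ⊆ K5
  inner : ∀ i, i ≤ n₀ → pos' (T'.src (pvasIt T' s' dm i)) ∈ BK
  far : pos (T.src (c.e 0)) ∉ BK

variable {T : PvMap V D} {T' : PvMap V' D'} {Rl : D → D' → Prop} {pos : V → ℂ} {pos' : V' → ℂ} {s : V → Bool} {s' : V' → Bool} {K5 : Set ℂ}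
  {c : T.Cyc} {dm dp : D'} {n₀ : ℕ} {inn : T'.Pth} {j : ℕ} {BK : Set ℂ}

/-- the first vertex of the inner arc is the black end of `dm` -/
theorem PvekG.v0 (G : PvekG T T' Rl pos pos' s s' K5 c dm dp n₀ inn j BK) : inn.v 0 = T'.src dm := by
  obtain ⟨jj, h0, -⟩ := G.le
  exact h0

/-- the last vertex of the inner arc is the black end of `dp` -/
theorem PvekG.vn (G : PvekG T T' Rl pos pos' s s' K5 c dm dp n₀ inn j BK) : inn.v inn.n = T'.src dp := by
  obtain ⟨jj, -, hn, h1, -⟩ := G.le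
  rw [(h1 inn.n le_rfl).2.1, hn]
  show T'.src (pvasIt T' s' dm n₀) = _
  rw [G.it]

/-- the vertices of the inner arc are placed in `BK` -/
theorem PvekG.inn_mem (G : PvekG T T' Rl pos pos' s s' K5 c dm dp n₀ inn j BK) {i : ℕ} (hi : i ≤ inn.n) : pos' (inn.v i) ∈ BK := by
  obtain ⟨jj, -, -, h1, -⟩ := G.le
  rw [(h1 i hi).2.1]
  exact G.inner _ (h1 i hi).1

/-- **THE GATE LINK**: the rim time of the first dart of the inner arc is the twin of a position of the inner strand -/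
theorem pvek_link (G : PvekG T T' Rl pos pos' s s' K5 c dm dp n₀ inn j BK) :
    ∃ δ' δ, δ' + δ = n₀ ∧ 0 < δ ∧ Rl (T.rotInv (c.e j)) (pvasIt T' s' dm δ') := by
  obtain ⟨jj, h0, hn, h1, h2⟩ := G.le
  have hlt : jj 0 < n₀ := pvt_sd_idx_lt (b := fun i => T'.src (pvasIt T' s' dm i)) hn h1 G.pos_n
  set d := pvasIt T' s' dm (jj 0) with hd
  have e0 : T'.src d = inn.v 0 := ((h1 0 (Nat.zero_le _)).2.1).symm
  have e1 : T'.src (pvasStep T' s' d) = inn.v 1 := by
    rw [hd, ← pvas_it_succ]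
    exact (h2 0 G.pos_n).symm
  have hne : inn.v 1 ≠ inn.v 0 := by
    intro e
    have := inn.inj 1 0 G.pos_n (Nat.zero_le _) e
    omega
  have hap : T'.apex d = inn.v 1 := by
    rcases pvas_step_ends s' d with ⟨-, a1, -⟩ | ⟨-, a1, -⟩
    · rw [← a1, e1]
    · exfalso; apply hne; rw [← e1, a1, e0]
  have hrot : T'.rot d = inn.e 0 := by
    refine G.simple' _ _ ?_ ?_
    · rw [T'.src_rot, e0, inn.src_e 0 G.pos_n]
    · rw [inn.tgt_e 0 G.pos_n]
      unfold PvMap.rot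
      rw [T'.tgt_opp, T'.src_nxt2, hap]
  -- the twin of the dart `c.e j`
  have hK : pos (T.src (c.e j)) ∈ K5 := by
    have := G.run 0 (Nat.zero_le _)
    rw [Nat.add_zero] at this
    rw [this]
    exact G.sub (G.inn_mem (Nat.zero_le _))
  obtain ⟨e', he'⟩ := pvek_dart G.L hK
  have a0 : T'.src e' = inn.v 0 := by
    apply G.inj'
    rw [← G.L.pos_eq _ _ he']
    have := G.run 0 (Nat.zero_le _)
    rwa [Nat.add_zero] at this
  have a1 : T'.tgt e' = inn.v 1 := by
    apply G.inj'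
    rw [← pvek_tgt G.L he', c.chain]
    exact G.run 1 G.pos_n
  have a2 : e' = inn.e 0 := G.simple' _ _ (by rw [a0, inn.src_e 0 G.pos_n]) (by rw [a1, inn.tgt_e 0 G.pos_n])
  have a3 := pvek_rotInv G.L he' hK
  rw [a2, ← hrot, T'.rotInv_rot] at a3
  exact ⟨jj 0, n₀ - jj 0, by omega, by omega, a3⟩

/-- the rim is black -/
theorem pvek_black (G : PvekG T T' Rl pos pos' s s' K5 c dm dp n₀ inn j BK) (i : ℕ) : s (T.src (c.e i)) = true := by
  obtain ⟨δ', δ, -, -, h⟩ := pvek_link G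
  rw [pl_rim_col G.rim i j, ← T.src_rotInv, G.L.col _ _ h]
  exact (pvas_it_bw G.bw δ').1

/-- the place of the gate is not the cut -/
theorem PvekG.j_pos (G : PvekG T T' Rl pos pos' s s' K5 c dm dp n₀ inn j BK) : 0 < j := by
  rcases Nat.eq_zero_or_pos j with e | e
  · exfalso
    apply G.far
    have := G.run 0 (Nat.zero_le _)
    rw [e] at this
    rw [this]
    exact G.inn_mem (Nat.zero_le _)
  · exact e

theorem pvek_mono {n : ℕ} {τ : ℕ → ℕ} (h : ∀ k, k + 1 < n → τ k < τ (k + 1)) : ∀ {k l : ℕ}, k < l → l < n → τ k < τ l := by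
  intro k l hkl
  induction l with
  | zero => omega
  | succ l ih =>
    intro hl
    rcases Nat.lt_or_ge k l with h1 | h1
    · exact (ih h1 (by omega)).trans (h l hl)
    · have : k = l := by omega
      subst this
      exact h k hl

theorem pvek_mono_le {n : ℕ} {τ : ℕ → ℕ} (h : ∀ k, k + 1 < n → τ k < τ (k + 1)) {k l : ℕ} (hkl : k ≤ l) (hl : l < n) : τ k ≤ τ l := by
  rcases Nat.eq_or_lt_of_le hkl with e | e
  · rw [e]
  · exact (pvek_mono h e hl).le

/-- **(E) forwards**: as long as the black ends of the plane strand from the twin of the rim time stay in `BK`, the rim time of the cut vertex is not reached -/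
theorem pvek_lt (G : PvekG T T' Rl pos pos' s s' K5 c dm dp n₀ inn j BK) {a' : D'} (ha : Rl (T.rotInv (c.e j)) a') {t N : ℕ}
    (ht : pvasIt T s (T.rotInv (c.e j)) t = T.rotInv (c.e 0)) (hN : ∀ u, u ≤ N → pos' (T'.src (pvasIt T' s' a' u)) ∈ BK) : N < t := by
  by_contra hcon
  have h1 := pvek_it G.L ha (n := t) (fun i hi => G.sub (hN i (by omega))) t le_rfl
  apply G.far
  rw [← T.src_rotInv, ← ht, G.L.pos_eq _ _ h1]
  exact hN t (by omega)

/-- **(E) backwards** -/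
theorem pvek_lt_bk (G : PvekG T T' Rl pos pos' s s' K5 c dm dp n₀ inn j BK) {a' : D'} (ha : Rl (T.rotInv (c.e j)) a') {t N : ℕ}
    (ht : (pvasBack T s)^[t] (T.rotInv (c.e j)) = T.rotInv (c.e 0)) (hN : ∀ u, u ≤ N → pos' (T'.src ((pvasBack T' s')^[u] a')) ∈ BK) : N < t := by
  by_contra hcon
  have h1 := pvek_bk G.L ha (n := t) (fun i hi => G.sub (hN i (by omega))) t le_rfl
  apply G.far
  rw [← T.src_rotInv, ← ht, G.L.pos_eq _ _ h1]
  exact hN t (by omega)

/-- **THE CLOCK OF THE RIM, started at the gate** -/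
theorem pvek_clock (G : PvekG T T' Rl pos pos' s s' K5 c dm dp n₀ inn j BK) :
    ∃ (δ' δ Per : ℕ) (τ : ℕ → ℕ), δ' + δ = n₀ ∧ 0 < δ ∧ Rl (T.rotInv (c.e j)) (pvasIt T' s' dm δ') ∧ PvzmPer T s (T.rotInv (c.e j)) Per ∧ τ 0 = 0 ∧
      (∀ k, k + 1 < c.n → τ k < τ (k + 1)) ∧ (∀ k, k < c.n → τ k < Per ∧ pvasIt T s (T.rotInv (c.e j)) (τ k) = T.rotInv (c.e (j + k))) := by
  obtain ⟨δ', δ, h1, h2, h3⟩ := pvek_link G
  obtain ⟨Per, τ, a1, a2, a3, a4⟩ := pvzm_clock G.sph G.simple G.rim (pvek_black G 0) G.fin j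
  exact ⟨δ', δ, Per, τ, h1, h2, h3, a1, a2, a3, a4⟩

/-- the place `l ≤ c.n` of the cut rim, counted from the gate -/
theorem pvek_idx (G : PvekG T T' Rl pos pos' s s' K5 c dm dp n₀ inn j BK) {l : ℕ} (hl : l ≤ c.n) :
    ∃ k, k < c.n ∧ c.e (j + k) = c.e l ∧ (j ≤ l → k = l - j) ∧ (l < j → k = l + c.n - j) := by
  have hj := G.j_pos
  have hjl := G.jl
  rcases Nat.lt_or_ge l j with h | h
  · refine ⟨l + c.n - j, by omega, ?_, fun h' => by omega, fun _ => rfl⟩
    have e : j + (l + c.n - j) = l + c.n := by omega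
    rw [e, c.per]
  · refine ⟨l - j, by omega, ?_, fun _ => rfl, fun h' => by omega⟩
    have e : j + (l - j) = l := by omega
    rw [e]

/-- **(A) THE WALL OF THE RIM REACHES FAR**: the plane strand from the twin of ANY rim time leaves every ball of the deep region which does not contain the cut vertex -/
theorem pvek_reach (G : PvekG T T' Rl pos pos' s s' K5 c dm dp n₀ inn j BK) {l : ℕ} {a' : D'} (ha : Rl (T.rotInv (c.e l)) a') {y : ℂ} {r : ℝ}
    (hball : ∀ w : ℂ, ‖w - y‖ < r → w ∈ K5) (hfar : r ≤ ‖pos (T.src (c.e 0)) - y‖) : ∃ k, r ≤ ‖pos' (T'.src (pvasIt T' s' a' k)) - y‖ := by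
  by_contra hcon
  push Not at hcon
  obtain ⟨m, hm, -⟩ := pvt_sf_rim_ex c (pl_rim_tag G.rim) (fun i => (pl_rim_lab G.rim i).2.2.1) (pvek_black G) G.fin l 0
  have h1 := pvek_it G.L ha (n := m) (fun i _ => hball _ (hcon i)) m le_rfl
  have h2 := hcon m
  rw [← G.L.pos_eq _ _ h1, hm, T.src_rotInv] at h2
  linarith

/-- the positions of the plane strand from the twin of the rim time of the gate -/
theorem pvek_W (G : PvekG T T' Rl pos pos' s s' K5 c dm dp n₀ inn j BK) {δ' δ M : ℕ} (hs : δ' + δ = n₀) (hM : ∀ u, u ≤ M → pos' (T'.src (pvasIt T' s' dp u)) ∈ BK) :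
    ∀ u, u ≤ δ + M → pos' (T'.src (pvasIt T' s' (pvasIt T' s' dm δ') u)) ∈ BK := by
  intro u hu
  rw [← pvas_it_add]
  rcases Nat.lt_or_ge u δ with h | h
  · exact G.inner _ (by omega)
  · have e : δ' + u = n₀ + (u - δ) := by omega
    rw [e, pvas_it_add, G.it]
    exact hM _ (by omega)

/-- **(K0) THE PLANE STRAND FROM THE EXIT GATE EDGE LEAVES `BK`** -/
theorem pvek_esc (G : PvekG T T' Rl pos pos' s s' K5 c dm dp n₀ inn j BK) : ∃ u, pos' (T'.src (pvasIt T' s' dp u)) ∉ BK := by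
  by_contra hcon
  push Not at hcon
  obtain ⟨δ', δ, Per, τ, h1, h2, h3, -, -, -, h7⟩ := pvek_clock G
  have hj := G.j_pos
  have hjl := G.jl
  have hk0 := (h7 (c.n - j) (by omega)).2
  have e : j + (c.n - j) = 0 + c.n := by omega
  rw [e, c.per] at hk0
  have := pvek_lt G h3 hk0 (N := δ + τ (c.n - j)) (pvek_W G h1 (fun u _ => hcon u))
  omega

/-- **(K1) THE MOUTH CLAUSE AT THE EXIT TIP**.      `M` = the last sealed time of the strand from `dp`; `y` = ANY centre, `r1 < r2` ANY radii -/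
theorem pvek_mouth_p (G : PvekG T T' Rl pos pos' s s' K5 c dm dp n₀ inn j BK) {M : ℕ} (hM : ∀ u, u ≤ M → pos' (T'.src (pvasIt T' s' dp u)) ∈ BK) {y : ℂ} {r1 r2 : ℝ} (h12 : r1 < r2)
    (hball : ∀ w : ℂ, ‖w - y‖ < r2 → w ∈ K5) (hfar : r2 ≤ ‖pos (T.src (c.e 0)) - y‖)
    (hseal : ∀ d, pvasBW T' s' d → ‖pos' (T'.src d) - y‖ ≤ r1 → (∃ k, r2 ≤ ‖pos' (T'.src (pvasIt T' s' d k)) - y‖) → ∃ u, u ≤ M ∧ d = pvasIt T' s' dp u) :
    ∃ B, j + inn.n + B < c.n ∧ (∀ i, i ≤ B → pos (T.src (c.e (j + inn.n + i))) ∈ BK) ∧ ∀ l, l ≤ c.n → (l ≤ j ∨ j + inn.n + B < l) → r1 < ‖pos (T.src (c.e l)) - y‖ := by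
  classical
  obtain ⟨δ', δ, Per, τ, h1, h2, h3, h4, h5, h6, h7⟩ := pvek_clock G
  have hj := G.j_pos
  have hjl := G.jl
  have hW := pvek_W G h1 hM
  have hk0 := (h7 (c.n - j) (by omega)).2
  have e0 : j + (c.n - j) = 0 + c.n := by omega
  rw [e0, c.per] at hk0
  have hlt : δ + M < τ (c.n - j) := pvek_lt G h3 hk0 hW
  have hPer : τ (c.n - j) < Per := (h7 (c.n - j) (by omega)).1
  have htw := pvek_it G.L h3 (n := δ + M) (fun i hi => G.sub (hW i (by omega)))
  set kmax := Nat.findGreatest (fun k => τ k ≤ δ + M) (c.n - 1) with hkmax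
  have hk1 : τ kmax ≤ δ + M := Nat.findGreatest_spec (P := fun k => τ k ≤ δ + M) (m := 0) (Nat.zero_le _) (by show τ 0 ≤ δ + M; omega)
  have hk2 : kmax ≤ c.n - 1 := Nat.findGreatest_le _
  have hk3 : ∀ k, kmax < k → k < c.n → δ + M < τ k := by
    intro k hk hkn
    have : ¬ τ k ≤ δ + M := Nat.findGreatest_is_greatest (P := fun k => τ k ≤ δ + M) hk (by omega)
    omega
  have hk4 : kmax < c.n - j := by
    by_contra hcon
    have := pvek_mono_le h6 (k := c.n - j) (l := kmax) (by omega) (by omega)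
    omega
  refine ⟨kmax - inn.n, by omega, ?_, ?_⟩
  · intro i hi
    rcases Nat.eq_zero_or_pos i with e | e
    · subst e
      rw [Nat.add_zero, G.run inn.n le_rfl]
      exact G.inn_mem le_rfl
    · have hk : inn.n + i ≤ kmax := by omega
      have a1 := (h7 (inn.n + i) (by omega)).2
      have a2 : τ (inn.n + i) ≤ δ + M := (pvek_mono_le h6 hk (by omega)).trans hk1
      have a3 := htw _ a2
      rw [a1] at a3
      rw [Nat.add_assoc, ← T.src_rotInv, G.L.pos_eq _ _ a3]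
      exact hW _ a2
  · intro l hl hcase
    by_contra hcon
    push Not at hcon
    obtain ⟨k, hk, hke, hkA, hkB⟩ := pvek_idx G hl
    have hK5 : pos (T.src (c.e l)) ∈ K5 := hball _ (lt_of_le_of_lt hcon h12)
    obtain ⟨a', ha'⟩ := pvek_dart G.L (d := T.rotInv (c.e l)) (by rw [T.src_rotInv]; exact hK5)
    have hbw : pvasBW T' s' a' := (pvloc_bw G.L.loc G.L.col ha').1 (pvt_s_rim_bw (pl_rim_tag G.rim l) (pvek_black G l))
    have hsrc : pos' (T'.src a') = pos (T.src (c.e l)) := by rw [← G.L.pos_eq _ _ ha', T.src_rotInv]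
    obtain ⟨u, hu, hd⟩ := hseal a' hbw (by rw [hsrc]; exact hcon) (pvek_reach G ha' hball hfar)
    have b1 := htw (δ + u) (by omega)
    have b2 : pvasIt T' s' (pvasIt T' s' dm δ') (δ + u) = a' := by
      rw [hd, ← pvas_it_add, ← Nat.add_assoc, h1, pvas_it_add, G.it]
    rw [b2] at b1
    have b3 : pvasIt T s (T.rotInv (c.e j)) (δ + u) = T.rotInv (c.e l) := G.L.loc.iso.inj b1 ha'
    have b4 := (h7 k hk).2
    rw [hke, ← b3] at b4
    have b5 : τ k = δ + u := pvzm_per_inj h4 (h7 k hk).1 (by omega) b4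
    have b6 : k ≤ kmax := by
      by_contra hc2
      have := hk3 k (by omega) hk
      omega
    have b7 : k ≠ 0 := by
      intro e
      rw [e, h5] at b5
      omega
    rcases hcase with hc | hc
    · rcases Nat.lt_or_ge l j with h | h
      · have := hkB h
        omega
      · have := hkA h
        omega
    · have := hkA (by omega)
      omega

/-- the positions of the plane strand backwards from the twin of the rim time of the gate -/
theorem pvek_Wb (G : PvekG T T' Rl pos pos' s s' K5 c dm dp n₀ inn j BK) {δ' δ M : ℕ} (hs : δ' + δ = n₀) (hM : ∀ t, t ≤ M → pos' (T'.src ((pvasBack T' s')^[t] dm)) ∈ BK) :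
    ∀ t, t ≤ δ' + M → pos' (T'.src ((pvasBack T' s')^[t] (pvasIt T' s' dm δ'))) ∈ BK := by
  intro t ht
  rcases Nat.lt_or_ge δ' t with h | h
  · have e : t = (t - δ') + δ' := by omega
    rw [e, Function.iterate_add_apply, pvek_bk_it G.bw le_rfl, Nat.sub_self]
    exact hM _ (by omega)
  · rw [pvek_bk_it G.bw h]
    exact G.inner _ (by omega)

/-- **(K2) THE MOUTH CLAUSE AT THE ENTRANCE TIP** -/
theorem pvek_mouth_m (G : PvekG T T' Rl pos pos' s s' K5 c dm dp n₀ inn j BK) {M : ℕ} (hM : ∀ t, t ≤ M → pos' (T'.src ((pvasBack T' s')^[t] dm)) ∈ BK) {y : ℂ} {r1 r2 : ℝ} (h12 : r1 < r2)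
    (hball : ∀ w : ℂ, ‖w - y‖ < r2 → w ∈ K5) (hfar : r2 ≤ ‖pos (T.src (c.e 0)) - y‖)
    (hseal : ∀ d, pvasBW T' s' d → ‖pos' (T'.src d) - y‖ ≤ r1 → (∃ k, r2 ≤ ‖pos' (T'.src (pvasIt T' s' d k)) - y‖) → ∃ t, t ≤ M ∧ d = (pvasBack T' s')^[t] dm) :
    ∃ A, A < j ∧ (∀ i, i ≤ A → pos (T.src (c.e (j - i))) ∈ BK) ∧ ∀ l, l ≤ c.n → (l + A < j ∨ j + inn.n ≤ l) → r1 < ‖pos (T.src (c.e l)) - y‖ := by
  classical
  obtain ⟨δ', δ, Per, τ, h1, h2, h3, h4, h5, h6, h7⟩ := pvek_clock G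
  have hj := G.j_pos
  have hjl := G.jl
  have hq := G.pos_n
  have hW := pvek_Wb G h1 hM
  have hk0 := (h7 (c.n - j) (by omega)).2
  have e0 : j + (c.n - j) = 0 + c.n := by omega
  rw [e0, c.per] at hk0
  have hPer : τ (c.n - j) < Per := (h7 (c.n - j) (by omega)).1
  have hk0' : (pvasBack T s)^[Per - τ (c.n - j)] (T.rotInv (c.e j)) = T.rotInv (c.e 0) := by
    rw [pvzm_per_back h4 (by omega), ← hk0]
    congr 1
    omega
  have hlt : δ' + M < Per - τ (c.n - j) := pvek_lt_bk G h3 hk0' hW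
  have htw := pvek_bk G.L h3 (n := δ' + M) (fun i hi => G.sub (hW i (by omega)))
  set A := Nat.findGreatest (fun i => i = 0 ∨ Per ≤ τ (c.n - i) + δ' + M) (c.n - 1) with hA
  have hA1 : A = 0 ∨ Per ≤ τ (c.n - A) + δ' + M :=
    Nat.findGreatest_spec (P := fun i => i = 0 ∨ Per ≤ τ (c.n - i) + δ' + M) (m := 0) (Nat.zero_le _) (Or.inl rfl)
  have hA2 : A ≤ c.n - 1 := Nat.findGreatest_le _
  have hA3 : ∀ i, A < i → i < c.n → τ (c.n - i) + δ' + M < Per := by
    intro i hi hin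
    have : ¬ (i = 0 ∨ Per ≤ τ (c.n - i) + δ' + M) := Nat.findGreatest_is_greatest (P := fun i => i = 0 ∨ Per ≤ τ (c.n - i) + δ' + M) hi (by omega)
    push Not at this
    exact this.2
  have hA4 : ∀ i, 0 < i → i ≤ A → Per ≤ τ (c.n - i) + δ' + M := by
    intro i hi hiA
    rcases hA1 with e | e
    · omega
    · have := pvek_mono_le h6 (k := c.n - A) (l := c.n - i) (by omega) (by omega)
      omega
  have hA5 : A < j := by
    by_contra hcon
    have := hA4 j hj (by omega)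
    omega
  refine ⟨A, hA5, ?_, ?_⟩
  · intro i hi
    rcases Nat.eq_zero_or_pos i with e | e
    · subst e
      have := G.run 0 (Nat.zero_le _)
      rw [Nat.add_zero] at this
      rw [Nat.sub_zero, this]
      exact G.inn_mem (Nat.zero_le _)
    · have a0 := hA4 i e hi
      have a1 := h7 (c.n - i) (by omega)
      have a2 : Per - τ (c.n - i) ≤ δ' + M := by omega
      have a3 := htw _ a2
      have a4 : (pvasBack T s)^[Per - τ (c.n - i)] (T.rotInv (c.e j)) = T.rotInv (c.e (j - i)) := by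
        rw [pvzm_per_back h4 (by omega)]
        have e1 : Per - (Per - τ (c.n - i)) = τ (c.n - i) := by have := a1.1; omega
        rw [e1, a1.2]
        have e2 : j + (c.n - i) = (j - i) + c.n := by omega
        rw [e2, c.per]
      rw [a4] at a3
      rw [← T.src_rotInv, G.L.pos_eq _ _ a3]
      exact hW _ a2
  · intro l hl hcase
    by_contra hcon
    push Not at hcon
    obtain ⟨k, hk, hke, hkA, hkB⟩ := pvek_idx G hl
    have hK5 : pos (T.src (c.e l)) ∈ K5 := hball _ (lt_of_le_of_lt hcon h12)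
    obtain ⟨a', ha'⟩ := pvek_dart G.L (d := T.rotInv (c.e l)) (by rw [T.src_rotInv]; exact hK5)
    have hbw : pvasBW T' s' a' := (pvloc_bw G.L.loc G.L.col ha').1 (pvt_s_rim_bw (pl_rim_tag G.rim l) (pvek_black G l))
    have hsrc : pos' (T'.src a') = pos (T.src (c.e l)) := by rw [← G.L.pos_eq _ _ ha', T.src_rotInv]
    obtain ⟨t, ht, hd⟩ := hseal a' hbw (by rw [hsrc]; exact hcon) (pvek_reach G ha' hball hfar)
    have b1 := htw (t + δ') (by omega)
    have b2 : (pvasBack T' s')^[t + δ'] (pvasIt T' s' dm δ') = a' := by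
      rw [hd, Function.iterate_add_apply, pvek_bk_it G.bw le_rfl, Nat.sub_self]
      rfl
    rw [b2] at b1
    have b3 : (pvasBack T s)^[t + δ'] (T.rotInv (c.e j)) = T.rotInv (c.e l) := G.L.loc.iso.inj b1 ha'
    rw [pvzm_per_back h4 (by omega)] at b3
    have b4 := (h7 k hk).2
    rw [hke, ← b3] at b4
    have hkpos : 0 < k := by
      rcases hcase with hc | hc
      · have := hkB (by omega)
        omega
      · have := hkA (by omega)
        omega
    have hτk : 0 < τ k := by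
      have := pvek_mono h6 hkpos hk
      omega
    rcases Nat.eq_zero_or_pos (t + δ') with e | e
    · rw [e, Nat.sub_zero, h4.ret] at b4
      have b5 : τ k = 0 := pvzm_per_inj h4 (h7 k hk).1 h4.pos b4
      omega
    · have b5 : τ k = Per - (t + δ') := pvzm_per_inj h4 (h7 k hk).1 (by omega) b4
      have b6 : c.n - k ≤ A := by
        by_contra hc2
        have := hA3 (c.n - k) (by omega) (by omega)
        have e3 : c.n - (c.n - k) = k := by omega
        rw [e3] at this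
        omega
      rcases hcase with hc | hc
      · have := hkB (by omega)
        omega
      · have := hkA (by omega)
        omega

/-- **(K3) NO LOOP** = (g3): a position of the exit side is not a position of the entrance side -/
theorem pvek_noloop (G : PvekG T T' Rl pos pos' s s' K5 c dm dp n₀ inn j BK) {Mp Mm : ℕ} (hp : ∀ u, u ≤ Mp → pos' (T'.src (pvasIt T' s' dp u)) ∈ BK)
    (hm : ∀ t, t ≤ Mm → pos' (T'.src ((pvasBack T' s')^[t] dm)) ∈ BK) : ∀ u, u ≤ Mp → ∀ t, t ≤ Mm → pvasIt T' s' dp u ≠ (pvasBack T' s')^[t] dm := by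
  intro u hu t ht e
  obtain ⟨w, hw⟩ := pvek_esc G
  apply hw
  obtain ⟨δ', δ, h1, h2, -⟩ := pvek_link G
  have e1 : pvasIt T' s' dm (n₀ + u) = (pvasBack T' s')^[t] dm := by rw [pvas_it_add, G.it, e]
  have hQ : pvasIt T' s' dm (n₀ + u + t) = dm := by
    rw [pvas_it_add, e1, pvek_it_bk G.bw le_rfl, Nat.sub_self]
    rfl
  have e2 : pvasIt T' s' dp w = pvasIt T' s' dm ((n₀ + w) % (n₀ + u + t)) := by
    rw [← pvzm_ret_mod hQ, pvas_it_add, G.it]
  rw [e2]
  have hv : (n₀ + w) % (n₀ + u + t) < n₀ + u + t := Nat.mod_lt _ (by omega)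
  set v := (n₀ + w) % (n₀ + u + t) with hvdef
  rcases Nat.lt_or_ge n₀ v with a1 | a1
  · rcases Nat.lt_or_ge (n₀ + u) v with a2 | a2
    · have e3 : v = (n₀ + u) + (v - (n₀ + u)) := by omega
      rw [e3, pvas_it_add, e1, pvek_it_bk G.bw (by omega)]
      exact hm _ (by omega)
    · have e3 : v = n₀ + (v - n₀) := by omega
      rw [e3, pvas_it_add, G.it]
      exact hp _ (by omega)
  · exact G.inner _ a1

end gate

/-! ## 4. the model -/

section model

variable {x : ℂ} {R μ : ℝ} {ω : PVSample}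

/-- a completion against the plane of record: deep on `closedBall x (5R)` -/
theorem pvek_bulk {X : Type} {𝔅 : PvBulk X} (hR : 0 < R) (hμ : μ ≤ R) (hG : DelGood (pvxY ω)) (hF : L9Fine (pvxY ω) (Metric.closedBall x (6 * R)) μ)
    (hOk : 𝔅.Ok (pvxY ω) (Metric.closedBall x (6 * R))) (ξ : X → Bool) (b : Bool) :
    ∃ Rl : 𝔅.D (pvxY ω) → (delbPl (pvxY ω)).Dart → Prop,
      PvekL (𝔅.T (pvxY ω)) (pvxT ω) Rl (𝔅.posF (pvxY ω) (x + 7 * R)) (pvxPos ω) (pvlfFl b (𝔅.col (pvConf ω) ξ)) (pvxCol ω b) (Metric.closedBall x (5 * R)) := by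
  unfold pvxT pvxCol pvxPos
  rw [delb_pl_eq hG]
  have hlab : ∀ v, 𝔅.posF (pvxY ω) (x + 7 * R) v ∈ Metric.closedBall x (5 * R) →
      𝔅.lab (pvxY ω) v = Sum.inl (𝔅.posF (pvxY ω) (x + 7 * R) v) ∧ 𝔅.posF (pvxY ω) (x + 7 * R) v ∈ Metric.closedBall x (6 * R) := by
    intro v hv
    have h5 : ‖𝔅.posF (pvxY ω) (x + 7 * R) v - x‖ ≤ 5 * R := mem_closedBall_iff_norm.1 hv
    exact ⟨pvloc_posF hR (by linarith), mem_closedBall_iff_norm.2 (by linarith)⟩
  refine ⟨pvlocR 𝔅 hG (Metric.closedBall x (6 * R)), pvloc_bulk hOk, fun d d' h => pvloc_posF_inl h.1.1, fun d d' hd => ?_, fun v hv => ?_, fun d hd => ?_⟩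
  · unfold pvlfFl
    have e : 𝔅.col (pvConf ω) ξ ((𝔅.T (pvxY ω)).src d) = cfCol (pvConf ω) ((delPl hG).toMap.src d' : ℂ) := pvloc_bulk_col (delb_col 𝔅 (pvConf ω) ξ) d d' hd
    exact congrArg (· == b) e
  · exact pvloc_bulk_int hOk (hlab v hv).1 (hlab v hv).2
  · obtain ⟨h1, h2⟩ := hlab _ hd
    obtain ⟨b', c', hb', -, hD⟩ := hOk.del d _ h1 h2
    have h3 := (hF _ b' c' hD (Or.inl h2)).1
    refine pvloc_bulk_int hOk hb' (mem_closedBall_iff_norm.2 ?_)
    have h5 : ‖𝔅.posF (pvxY ω) (x + 7 * R) ((𝔅.T (pvxY ω)).src d) - x‖ ≤ 5 * R := mem_closedBall_iff_norm.1 hd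
    calc ‖b' - x‖ = ‖(b' - 𝔅.posF (pvxY ω) (x + 7 * R) ((𝔅.T (pvxY ω)).src d)) + (𝔅.posF (pvxY ω) (x + 7 * R) ((𝔅.T (pvxY ω)).src d) - x)‖ := by ring_nf
      _ ≤ ‖b' - 𝔅.posF (pvxY ω) (x + 7 * R) ((𝔅.T (pvxY ω)).src d)‖ + ‖𝔅.posF (pvxY ω) (x + 7 * R) ((𝔅.T (pvxY ω)).src d) - x‖ := norm_add_le _ _
      _ ≤ 6 * R := by linarith

/-- **THE HYPOTHESES AT THE MODEL**: an encoded rim `P` of ANY completion of the good sample `ω` runs along the inner arc `inn` of the inner strand `dm → dp` (`n₀` steps) of the PLANE map, colour `b`; `j` = the place of `g⁻`;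
`BK ⊆ ball x (4R)` contains the black ends of the inner strand -/
structure PvekM (x : ℂ) (R μ : ℝ) (ω : PVSample) (P : PvbRim) (b : Bool) (dm dp : (delbPl (pvxY ω)).Dart) (n₀ : ℕ) (inn : (pvxT ω).Pth) (j : ℕ) (BK : Set ℂ) : Prop where
  hR : 0 < R
  hμ : μ ≤ R
  good : DelGood (pvxY ω)
  fine : L9Fine (pvxY ω) (Metric.closedBall x (6 * R)) μ
  mem : P ∈ pvhbAll x R ω
  bw : pvasBW (pvxT ω) (pvxCol ω b) dm
  it : pvasIt (pvxT ω) (pvxCol ω b) dm n₀ = dp
  le : PvwLE (pvxT ω) (fun i => (pvxT ω).src (pvasIt (pvxT ω) (pvxCol ω b) dm i)) n₀ inn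
  pos_n : 0 < inn.n
  jl : j + inn.n < P.len
  run : ∀ i, i ≤ inn.n → P.v (j + i) = pvxPos ω (inn.v i)
  sub : BK ⊆ Metric.ball x (4 * R)
  inner : ∀ i, i ≤ n₀ → pvxPos ω ((pvxT ω).src (pvasIt (pvxT ω) (pvxCol ω b) dm i)) ∈ BK

variable {P : PvbRim} {b : Bool} {dm dp : (delbPl (pvxY ω)).Dart} {n₀ : ℕ} {inn : (pvxT ω).Pth} {j : ℕ} {BK : Set ℂ}

/-- the model is an instance of `PvekG` -/
theorem PvekM.inst (H : PvekM x R μ ω P b dm dp n₀ inn j BK) :
    ∃ (V D : Type) (T : PvMap V D) (Rl : D → (delbPl (pvxY ω)).Dart → Prop) (pos : V → ℂ) (s : V → Bool) (c : T.Cyc), P.len = c.n ∧ (∀ k, P.v k = pos (T.src (c.e k))) ∧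
      4 * R ≤ ‖pos (T.src (c.e 0)) - x‖ ∧ PvekG T (pvxT ω) Rl pos (pvxPos ω) s (pvxCol ω b) (Metric.closedBall x (5 * R)) c dm dp n₀ inn j BK := by
  obtain ⟨X, _, 𝔅, ξ, hAdm, hOk, c, hc, h4, hPe⟩ := H.mem
  obtain ⟨Rl, L⟩ := pvek_bulk (𝔅 := 𝔅) H.hR H.hμ H.good H.fine hOk ξ b
  have hlen : P.len = c.n := by rw [hPe]; rfl
  have hv : ∀ k, P.v k = 𝔅.posF (pvxY ω) (x + 7 * R) ((𝔅.T (pvxY ω)).src (c.e k)) := fun k => by rw [hPe]; rfl
  have hfinD : Finite (𝔅.D (pvxY ω)) := hAdm.2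
  refine ⟨_, _, 𝔅.T (pvxY ω), Rl, 𝔅.posF (pvxY ω) (x + 7 * R), pvlfFl b (𝔅.col (pvConf ω) ξ), c, hlen, hv, h4, ?_⟩
  exact
    { L := L
      sph := hOk.sph
      simple := hOk.simple
      simple' := (delbPl (pvxY ω)).toMap_simple
      inj' := Subtype.val_injective
      rim := (pvlf_rim_fl b).2 hc
      fin := Set.toFinite _
      bw := H.bw
      it := H.it
      le := H.le
      pos_n := H.pos_n
      jl := hlen ▸ H.jl
      run := fun i hi => by rw [← hv]; exact H.run i hi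
      sub := H.sub.trans (Metric.ball_subset_closedBall.trans (Metric.closedBall_subset_closedBall (by linarith [H.hR])))
      inner := H.inner
      far := fun hm => by
        have := mem_ball_iff_norm.1 (H.sub hm)
        exact absurd h4 (not_le.2 this) }

theorem pvek_ball {y w : ℂ} {r : ℝ} (hR : 0 < R) (hy : ‖y - x‖ + r ≤ 4 * R) (hw : ‖w - y‖ < r) : w ∈ Metric.closedBall x (5 * R) := by
  rw [mem_closedBall_iff_norm]
  calc ‖w - x‖ = ‖(w - y) + (y - x)‖ := by ring_nf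
    _ ≤ ‖w - y‖ + ‖y - x‖ := norm_add_le _ _
    _ ≤ 5 * R := by linarith

theorem pvek_far {y v : ℂ} {r : ℝ} (hy : ‖y - x‖ + r ≤ 4 * R) (hv : 4 * R ≤ ‖v - x‖) : r ≤ ‖v - y‖ := by
  have : ‖v - x‖ ≤ ‖v - y‖ + ‖y - x‖ := by
    calc ‖v - x‖ = ‖(v - y) + (y - x)‖ := by ring_nf
      _ ≤ _ := norm_add_le _ _
  linarith

/-- **(K0) AT THE MODEL** -/
theorem PvekM.esc (H : PvekM x R μ ω P b dm dp n₀ inn j BK) : ∃ u, pvxPos ω ((pvxT ω).src (pvasIt (pvxT ω) (pvxCol ω b) dp u)) ∉ BK := by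
  obtain ⟨V, D, T, Rl, pos, s, c, -, -, -, G⟩ := H.inst
  exact pvek_esc G

/-- **(K1) AT THE MODEL = `mouth_p`** -/
theorem PvekM.mouth_p (H : PvekM x R μ ω P b dm dp n₀ inn j BK) {M : ℕ} (hM : ∀ u, u ≤ M → pvxPos ω ((pvxT ω).src (pvasIt (pvxT ω) (pvxCol ω b) dp u)) ∈ BK) {y : ℂ} {r1 r2 : ℝ} (h12 : r1 < r2)
    (hy : ‖y - x‖ + r2 ≤ 4 * R)
    (hseal : ∀ d, pvasBW (pvxT ω) (pvxCol ω b) d → ‖pvxPos ω ((pvxT ω).src d) - y‖ ≤ r1 → (∃ k, r2 ≤ ‖pvxPos ω ((pvxT ω).src (pvasIt (pvxT ω) (pvxCol ω b) d k)) - y‖) →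
      ∃ u, u ≤ M ∧ d = pvasIt (pvxT ω) (pvxCol ω b) dp u) :
    ∃ B, j + inn.n + B < P.len ∧ (∀ i, i ≤ B → P.v (j + inn.n + i) ∈ BK) ∧ ∀ l, l ≤ P.len → (l ≤ j ∨ j + inn.n + B < l) → r1 < ‖P.v l - y‖ := by
  obtain ⟨V, D, T, Rl, pos, s, c, hlen, hv, h4, G⟩ := H.inst
  obtain ⟨B, h1, h2, h3⟩ := pvek_mouth_p G hM h12 (fun w hw => pvek_ball H.hR hy hw) (pvek_far hy h4) hseal
  exact ⟨B, hlen ▸ h1, fun i hi => by rw [hv]; exact h2 i hi, fun l hl hc => by rw [hv]; exact h3 l (hlen ▸ hl) hc⟩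

/-- **(K2) AT THE MODEL = `mouth_m`** -/
theorem PvekM.mouth_m (H : PvekM x R μ ω P b dm dp n₀ inn j BK) {M : ℕ} (hM : ∀ t, t ≤ M → pvxPos ω ((pvxT ω).src ((pvasBack (pvxT ω) (pvxCol ω b))^[t] dm)) ∈ BK) {y : ℂ} {r1 r2 : ℝ} (h12 : r1 < r2)
    (hy : ‖y - x‖ + r2 ≤ 4 * R)
    (hseal : ∀ d, pvasBW (pvxT ω) (pvxCol ω b) d → ‖pvxPos ω ((pvxT ω).src d) - y‖ ≤ r1 → (∃ k, r2 ≤ ‖pvxPos ω ((pvxT ω).src (pvasIt (pvxT ω) (pvxCol ω b) d k)) - y‖) →
      ∃ t, t ≤ M ∧ d = (pvasBack (pvxT ω) (pvxCol ω b))^[t] dm) :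
    ∃ A, A < j ∧ (∀ i, i ≤ A → P.v (j - i) ∈ BK) ∧ ∀ l, l ≤ P.len → (l + A < j ∨ j + inn.n ≤ l) → r1 < ‖P.v l - y‖ := by
  obtain ⟨V, D, T, Rl, pos, s, c, hlen, hv, h4, G⟩ := H.inst
  obtain ⟨A, h1, h2, h3⟩ := pvek_mouth_m G hM h12 (fun w hw => pvek_ball H.hR hy hw) (pvek_far hy h4) hseal
  exact ⟨A, h1, fun i hi => by rw [hv]; exact h2 i hi, fun l hl hc => by rw [hv]; exact h3 l (hlen ▸ hl) hc⟩

/-- **(K3) AT THE MODEL = (g3)** -/
theorem PvekM.noloop (H : PvekM x R μ ω P b dm dp n₀ inn j BK) {Mp Mm : ℕ} (hp : ∀ u, u ≤ Mp → pvxPos ω ((pvxT ω).src (pvasIt (pvxT ω) (pvxCol ω b) dp u)) ∈ BK)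
    (hm : ∀ t, t ≤ Mm → pvxPos ω ((pvxT ω).src ((pvasBack (pvxT ω) (pvxCol ω b))^[t] dm)) ∈ BK) :
    ∀ u, u ≤ Mp → ∀ t, t ≤ Mm → pvasIt (pvxT ω) (pvxCol ω b) dp u ≠ (pvasBack (pvxT ω) (pvxCol ω b))^[t] dm := by
  obtain ⟨V, D, T, Rl, pos, s, c, -, -, -, G⟩ := H.inst
  exact pvek_noloop G hp hm

end model

end Claimed.Agent.R289
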