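-- KEEP
import Claimed.Agent.R289.Arm.Strand

/-!
# Row 289 (S0537, Cardy for Poisson-Voronoi), WALL, block WB5 HOOK, item (H4), file Tr/Level : GOOD LEVELS BY PIGEONHOLE      (helper235; squad of helper165 with helper70; prefix `pvlv_`, defs `pvlv…`, `Pvlv…`)

Source: `origin/helper208:notes/R289/W1_208.md` sec.1 (GOOD LEVEL) + sec.4 (H4).   A stub = a strand explored until its first exit of a box `B_k`, `k < K`, radii `r_k = r₀ + k ρ₁` (THIN SHELL: `K ρ₁ ≪ ρ₂`).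
WHAT THE PIGEONHOLE GIVES (and what it does not, msg of 235 to 208, 08:50Z):

* a STEP TIME of a walk `z : ℕ → E` at scale `a` (`a = ρ₂ h / 4`): the walk is at distance `≥ a` from its ANCHOR = its position at the last step time.  `pvlvCnt z a t` = number of step times `≤ t` (= the `N` of (H4)).
* HEIGHT `h : ℕ → ℝ` (sup-norm radius of the face entered at time `t`).  `PvlvExit h r T`: `T` = first time with `h > r` (the TIP of level `r`).
* **the level `r` is CALM** (`PvlvCalm z a h r ρ T`) if no step time lies in `(t*, T]`, `t*` = first time with `h > r - ρ`.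
* **`pvlv_calm_card`**   the number of levels which are not calm is `≤ N`  (a step time spoils at most one level, because `ρ ≤ ρ₁`);   `pvlv_calm_exists`, `pvlv_calm_exists2` (two stubs: `N⁺ + N⁻ < K`).
* **`pvlv_calm_window`** at a calm level all the positions between a visit to `{h > r - ρ}` and the tip are within `2a` of each other;   **`pvlv_calm_g1`** = (g1) of GOOD LEVEL: after a visit to the MOUTH `B(x⁺, ρ_m)` the stub stays in
  `B(x⁺, 2a)` up to its tip;   **`pvlv_calm_g2`**: if the other stub (calm too) visits the mouth of `x⁺` then the two tips are within `2a + ρ_m`.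
* NOT given by the pigeonhole (all the tips of a thin shell are close to each other, one parallel piece spoils all the mouths): tips of the two stubs close to each other, tip close to a corner, later pieces of the wall in the mouth.
  These are FLAGS: hypotheses `far`, of `pvlv_good_exists`.
* sec.4  **many steps ⟹ many crossings of one annulus of a finite family** (`pvlv_cross_pigeon`, `pvlv_cross_seq`): `|G| m ≤ N` ⟹ for one centre `g` of the `a/4`-net `G`, `m` time-disjoint pieces of the walk run from `B(g, a/4)` to the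
  complement of `B(g, 3a/4)`.      `pvlv_flag_tail`: union bound, the tail of the number of crossings (ARM: `pvs_K_tail`, `Arm/Bk`) is a hypothesis.
* sec.5  instance: `ℂ`, sup-norm radius `pvlvRad`, boxes `pvlvBox` as face sets of a dart map with positions, the strand `pvasIt T s d` (`pvlvZ`, `pvlvH`); the backward stub is the strand of `pvasNot s` from `T.opp d`.
-/

set_option autoImplicit false
set_option linter.unusedSectionVars false
set_option linter.unusedVariables false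

namespace Claimed.Agent.R289

/-! ## 1. Anchors and step times of a walk -/

section walk

variable {E : Type} [PseudoMetricSpace E]

/-- the ANCHOR at time `t`: the last step time `≤ t` (`0` if there is none) -/
noncomputable def pvlvAnc (z : ℕ → E) (a : ℝ) : ℕ → ℕ
  | 0 => 0
  | t + 1 => if a ≤ dist (z (t + 1)) (z (pvlvAnc z a t)) then t + 1 else pvlvAnc z a t

/-- `t` is a STEP TIME: the walk is at distance `≥ a` from its anchor -/
def pvlvStep (z : ℕ → E) (a : ℝ) (t : ℕ) : Prop := ∃ u, t = u + 1 ∧ a ≤ dist (z (u + 1)) (z (pvlvAnc z a u))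

open Classical in
/-- the step times `≤ t` -/
noncomputable def pvlvSteps (z : ℕ → E) (a : ℝ) (t : ℕ) : Finset ℕ := (Finset.range (t + 1)).filter (fun u => pvlvStep z a u)

/-- the number of step times `≤ t` -/
noncomputable def pvlvCnt (z : ℕ → E) (a : ℝ) (t : ℕ) : ℕ := (pvlvSteps z a t).card

/-- `T` is the first time at which the height exceeds `r` -/
def PvlvExit (h : ℕ → ℝ) (r : ℝ) (T : ℕ) : Prop := r < h T ∧ ∀ t, t < T → h t ≤ r

/-- **CALM LEVEL**: every step time `≤ T` comes before the first visit to `{h > r - ρ}` (or is that visit) -/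
def PvlvCalm (z : ℕ → E) (a : ℝ) (h : ℕ → ℝ) (r ρ : ℝ) (T : ℕ) : Prop := ∀ t, t ≤ T → pvlvStep z a t → ∀ u, u < t → h u ≤ r - ρ

open Classical in
/-- the step times `≤ tend` whose step is a crossing of the annulus `B(g, 3a/4) \ B(g, a/4)` from the inside to the outside -/
noncomputable def pvlvCrS (z : ℕ → E) (a : ℝ) (g : E) (tend : ℕ) : Finset ℕ :=
  (pvlvSteps z a tend).filter (fun t => dist (z (pvlvAnc z a (t - 1))) g ≤ a / 4)

theorem pvlv_eqns_cite : True := by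
  have := @pvlvAnc.eq_1; have := @pvlvStep.eq_1; have := @pvlvSteps.eq_1; have := @pvlvCnt.eq_1; have := @PvlvExit.eq_1; have := @PvlvCalm.eq_1
  have := @pvlvCrS.eq_1
  trivial

variable {z : ℕ → E} {a : ℝ}

theorem pvlv_anc_zero : pvlvAnc z a 0 = 0 := rfl

theorem pvlv_anc_succ (t : ℕ) : pvlvAnc z a (t + 1) = if a ≤ dist (z (t + 1)) (z (pvlvAnc z a t)) then t + 1 else pvlvAnc z a t := rfl

theorem pvlv_step_succ (t : ℕ) : pvlvStep z a (t + 1) ↔ a ≤ dist (z (t + 1)) (z (pvlvAnc z a t)) := by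
  constructor
  · rintro ⟨u, hu, h⟩
    have : t = u := by omega
    subst this
    exact h
  · intro h
    exact ⟨t, rfl, h⟩

theorem pvlv_step_pos {t : ℕ} (h : pvlvStep z a t) : 0 < t := by
  obtain ⟨u, rfl, -⟩ := h
  exact Nat.succ_pos u

theorem pvlv_anc_of_step {t : ℕ} (h : pvlvStep z a t) : pvlvAnc z a t = t := by
  obtain ⟨u, rfl, hu⟩ := h
  rw [pvlv_anc_succ, if_pos hu]

theorem pvlv_anc_of_not {t : ℕ} (h : ¬ pvlvStep z a (t + 1)) : pvlvAnc z a (t + 1) = pvlvAnc z a t := by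
  rw [pvlv_anc_succ, if_neg fun h' => h ((pvlv_step_succ t).2 h')]

theorem pvlv_anc_le (t : ℕ) : pvlvAnc z a t ≤ t := by
  induction t with
  | zero => exact le_rfl
  | succ t ih =>
    rw [pvlv_anc_succ]
    split_ifs
    · exact le_rfl
    · exact ih.trans (Nat.le_succ t)

theorem pvlv_anc_mono {t t' : ℕ} (h : t ≤ t') : pvlvAnc z a t ≤ pvlvAnc z a t' := by
  induction h with
  | refl => exact le_rfl
  | @step m _ ih =>
    rw [pvlv_anc_succ]
    split_ifs
    · exact ih.trans ((pvlv_anc_le m).trans (Nat.le_succ m))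
    · exact ih

/-- the anchor is after every earlier step time -/
theorem pvlv_le_anc {t t' : ℕ} (h : pvlvStep z a t) (htt : t ≤ t') : t ≤ pvlvAnc z a t' := by
  have := pvlv_anc_mono (z := z) (a := a) htt
  rwa [pvlv_anc_of_step h] at this

/-- the walk is always within `a` of its anchor -/
theorem pvlv_anc_dist (ha : 0 < a) (t : ℕ) : dist (z t) (z (pvlvAnc z a t)) < a := by
  cases t with
  | zero => rw [pvlv_anc_zero, dist_self]; exact ha
  | succ t =>
    rw [pvlv_anc_succ]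
    split_ifs with h
    · rw [dist_self]; exact ha
    · exact not_le.1 h

/-- no step time in `(t₁, t₂]`: the anchor does not move -/
theorem pvlv_anc_const {t₁ t₂ : ℕ} (h12 : t₁ ≤ t₂) (hno : ∀ t, t₁ < t → t ≤ t₂ → ¬ pvlvStep z a t) : pvlvAnc z a t₂ = pvlvAnc z a t₁ := by
  induction h12 with
  | refl => rfl
  | @step m hm ih =>
    rw [pvlv_anc_of_not (hno (m + 1) (Nat.lt_succ_of_le hm) le_rfl)]
    exact ih fun t h1 h2 => hno t h1 (h2.trans (Nat.le_succ m))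

/-- **window**: no step time in `(t₁, t₂]`: all the positions of the window `[t₁, t₂]` are within `2a` of each other -/
theorem pvlv_window (ha : 0 < a) {t₁ t₂ : ℕ} (hno : ∀ t, t₁ < t → t ≤ t₂ → ¬ pvlvStep z a t) {t t' : ℕ} (h1 : t₁ ≤ t) (h2 : t ≤ t₂) (h1' : t₁ ≤ t') (h2' : t' ≤ t₂) :
    dist (z t) (z t') < 2 * a := by
  have e : pvlvAnc z a t = pvlvAnc z a t₁ := pvlv_anc_const h1 fun u hu1 hu2 => hno u hu1 (hu2.trans h2)
  have e' : pvlvAnc z a t' = pvlvAnc z a t₁ := pvlv_anc_const h1' fun u hu1 hu2 => hno u hu1 (hu2.trans h2')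
  have d := pvlv_anc_dist (z := z) ha t
  have d' := pvlv_anc_dist (z := z) ha t'
  rw [e] at d
  rw [e'] at d'
  have := dist_triangle_right (z t) (z t') (z (pvlvAnc z a t₁))
  linarith

theorem pvlv_mem_steps {t tend : ℕ} : t ∈ pvlvSteps z a tend ↔ t ≤ tend ∧ pvlvStep z a t := by
  classical
  unfold pvlvSteps
  rw [Finset.mem_filter, Finset.mem_range, Nat.lt_succ_iff]

theorem pvlv_cnt_mono {t t' : ℕ} (h : t ≤ t') : pvlvCnt z a t ≤ pvlvCnt z a t' := by
  refine Finset.card_le_card fun u hu => ?_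
  rw [pvlv_mem_steps] at hu ⊢
  exact ⟨hu.1.trans h, hu.2⟩

theorem pvlv_cnt_le (t : ℕ) : pvlvCnt z a t ≤ t := by
  have h : pvlvSteps z a t ⊆ Finset.Icc 1 t := by
    intro u hu
    rw [pvlv_mem_steps] at hu
    exact Finset.mem_Icc.2 ⟨pvlv_step_pos hu.2, hu.1⟩
  have := Finset.card_le_card h
  rwa [Nat.card_Icc, Nat.add_sub_cancel] at this

/-! ## 2. Calm levels: the pigeonhole -/

variable {h : ℕ → ℝ}

theorem PvlvExit.unique {r : ℝ} {T T' : ℕ} (hT : PvlvExit h r T) (hT' : PvlvExit h r T') : T = T' := by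
  rcases lt_trichotomy T T' with h1 | h1 | h1
  · exact absurd hT.1 (not_lt.2 (hT'.2 T h1))
  · exact h1
  · exact absurd hT'.1 (not_lt.2 (hT.2 T' h1))

theorem PvlvExit.mono {r r' : ℝ} {T T' : ℕ} (hT : PvlvExit h r T) (hT' : PvlvExit h r' T') (hr : r ≤ r') : T ≤ T' := by
  by_contra hlt
  exact absurd (hr.trans_lt hT'.1) (not_lt.2 (hT.2 T' (not_le.1 hlt)))

theorem pvlv_exit_exists {r : ℝ} (hex : ∃ t, r < h t) : ∃ T, PvlvExit h r T := by
  classical
  exact ⟨Nat.find hex, Nat.find_spec hex, fun t ht => not_lt.1 (Nat.find_min hex ht)⟩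

/-- a step time spoils at most one level -/
theorem pvlv_spoil_unique {r r' ρ : ℝ} {T t : ℕ} (hT : PvlvExit h r T) (hrr : r + ρ ≤ r') (ht : t ≤ T) {u' : ℕ} (hu' : u' < t) (hh : r' - ρ < h u') : False := by
  have h1 : h u' ≤ r := hT.2 u' (hu'.trans_le ht)
  linarith

/-- **PIGEONHOLE**: the number of levels `r₀ + k ρ₁`, `k < K`, which are not calm is at most the number of step times -/
theorem pvlv_calm_card (z : ℕ → E) (a : ℝ) (h : ℕ → ℝ) {r₀ ρ ρ₁ : ℝ} (hρ : ρ ≤ ρ₁) (h1 : 0 ≤ ρ₁) (K : ℕ) (T : ℕ → ℕ) (hT : ∀ k, k < K → PvlvExit h (r₀ + k * ρ₁) (T k))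
    (tend : ℕ) (hend : ∀ k, k < K → T k ≤ tend) :
    ∃ B : Finset ℕ, B.card ≤ pvlvCnt z a tend ∧ ∀ k, k < K → k ∉ B → PvlvCalm z a h (r₀ + k * ρ₁) ρ (T k) := by
  classical
  -- the witness of a level which is not calm
  have hw : ∀ k : ℕ, ¬ PvlvCalm z a h (r₀ + k * ρ₁) ρ (T k) → ∃ t, t ≤ T k ∧ pvlvStep z a t ∧ ∃ u, u < t ∧ r₀ + k * ρ₁ - ρ < h u := by
    intro k hk
    unfold PvlvCalm at hk
    push Not at hk
    obtain ⟨t, h1, h2, u, h3, h4⟩ := hk
    exact ⟨t, h1, h2, u, h3, h4⟩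
  let f : ℕ → ℕ := fun k => if hk : ¬ PvlvCalm z a h (r₀ + k * ρ₁) ρ (T k) then Classical.choose (hw k hk) else 0
  have hf : ∀ k : ℕ, (hk : ¬ PvlvCalm z a h (r₀ + k * ρ₁) ρ (T k)) → f k ≤ T k ∧ pvlvStep z a (f k) ∧ ∃ u, u < f k ∧ r₀ + k * ρ₁ - ρ < h u := by
    intro k hk
    have : f k = Classical.choose (hw k hk) := dif_pos hk
    rw [this]
    exact Classical.choose_spec (hw k hk)
  refine ⟨(Finset.range K).filter (fun k => ¬ PvlvCalm z a h (r₀ + k * ρ₁) ρ (T k)), ?_, ?_⟩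
  · refine Finset.card_le_card_of_injOn f ?_ ?_
    · intro k hk
      rw [Finset.mem_coe, Finset.mem_filter, Finset.mem_range] at hk
      obtain ⟨h2, h3, -⟩ := hf k hk.2
      exact Finset.mem_coe.2 (pvlv_mem_steps.2 ⟨h2.trans (hend k hk.1), h3⟩)
    · -- injectivity
      have key : ∀ k k' : ℕ, k < K → k' < K → ¬ PvlvCalm z a h (r₀ + k * ρ₁) ρ (T k) → ¬ PvlvCalm z a h (r₀ + k' * ρ₁) ρ (T k') → k < k' → f k ≠ f k' := by
        intro k k' hk hk' hc hc' hlt he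
        obtain ⟨h2, -, -⟩ := hf k hc
        obtain ⟨-, -, u', hu', hh'⟩ := hf k' hc'
        rw [← he] at hu'
        refine pvlv_spoil_unique (hT k hk) (r' := r₀ + k' * ρ₁) (ρ := ρ) ?_ h2 hu' hh'
        have h5 : (k : ℝ) + 1 ≤ k' := by exact_mod_cast hlt
        nlinarith
      intro k hk k' hk' he
      rw [Finset.mem_coe, Finset.mem_filter, Finset.mem_range] at hk hk'
      rcases lt_trichotomy k k' with h5 | h5 | h5
      · exact absurd he (key k k' hk.1 hk'.1 hk.2 hk'.2 h5)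
      · exact h5
      · exact absurd he.symm (key k' k hk'.1 hk.1 hk'.2 hk.2 h5)
  · intro k hk hkB
    by_contra hc
    exact hkB (Finset.mem_filter.2 ⟨Finset.mem_range.2 hk, hc⟩)

/-- more levels than steps: a calm level exists -/
theorem pvlv_calm_exists (z : ℕ → E) (a : ℝ) (h : ℕ → ℝ) {r₀ ρ ρ₁ : ℝ} (hρ : ρ ≤ ρ₁) (h1 : 0 ≤ ρ₁) (K : ℕ) (T : ℕ → ℕ) (hT : ∀ k, k < K → PvlvExit h (r₀ + k * ρ₁) (T k))
    (tend : ℕ) (hend : ∀ k, k < K → T k ≤ tend) (hK : pvlvCnt z a tend < K) : ∃ k, k < K ∧ PvlvCalm z a h (r₀ + k * ρ₁) ρ (T k) := by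
  obtain ⟨B, hB, hcalm⟩ := pvlv_calm_card z a h hρ h1 K T hT tend hend
  by_contra hcon
  push Not at hcon
  have hsub : Finset.range K ⊆ B := by
    intro k hk
    by_contra hkB
    exact hcon k (Finset.mem_range.1 hk) (hcalm k (Finset.mem_range.1 hk) hkB)
  have := Finset.card_le_card hsub
  rw [Finset.card_range] at this
  omega

/-- two stubs -/
theorem pvlv_calm_exists2 (z z' : ℕ → E) (a : ℝ) (h h' : ℕ → ℝ) {r₀ ρ ρ₁ : ℝ} (hρ : ρ ≤ ρ₁) (h1 : 0 ≤ ρ₁) (K : ℕ) (T T' : ℕ → ℕ)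
    (hT : ∀ k, k < K → PvlvExit h (r₀ + k * ρ₁) (T k)) (hT' : ∀ k, k < K → PvlvExit h' (r₀ + k * ρ₁) (T' k))
    (tend tend' : ℕ) (hend : ∀ k, k < K → T k ≤ tend) (hend' : ∀ k, k < K → T' k ≤ tend') (hK : pvlvCnt z a tend + pvlvCnt z' a tend' < K) :
    ∃ k, k < K ∧ PvlvCalm z a h (r₀ + k * ρ₁) ρ (T k) ∧ PvlvCalm z' a h' (r₀ + k * ρ₁) ρ (T' k) := by
  classical
  obtain ⟨B, hB, hcalm⟩ := pvlv_calm_card z a h hρ h1 K T hT tend hend
  obtain ⟨B', hB', hcalm'⟩ := pvlv_calm_card z' a h' hρ h1 K T' hT' tend' hend'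
  by_contra hcon
  push Not at hcon
  have hsub : Finset.range K ⊆ B ∪ B' := by
    intro k hk
    by_contra hkB
    rw [Finset.mem_union, not_or] at hkB
    exact hcon k (Finset.mem_range.1 hk) (hcalm k (Finset.mem_range.1 hk) hkB.1) (hcalm' k (Finset.mem_range.1 hk) hkB.2)
  have h2 := Finset.card_le_card hsub
  have h3 := Finset.card_union_le B B'
  rw [Finset.card_range] at h2
  omega

/-! ## 3. What a calm level gives -/

/-- at a calm level no step time lies between a visit to `{h > r - ρ}` and the tip -/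
theorem PvlvCalm.no_step {r ρ : ℝ} {T : ℕ} (hc : PvlvCalm z a h r ρ T) {u : ℕ} (hh : r - ρ < h u) : ∀ t, u < t → t ≤ T → ¬ pvlvStep z a t :=
  fun t hut htT hs => absurd hh (not_lt.2 (hc t htT hs u hut))

/-- **WINDOW at a calm level** -/
theorem pvlv_calm_window (ha : 0 < a) {r ρ : ℝ} {T : ℕ} (hc : PvlvCalm z a h r ρ T) {u : ℕ} (hh : r - ρ < h u) {t t' : ℕ} (h1 : u ≤ t) (h2 : t ≤ T) (h1' : u ≤ t') (h2' : t' ≤ T) :
    dist (z t) (z t') < 2 * a :=
  pvlv_window ha (hc.no_step hh) h1 h2 h1' h2'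

/-- **(g1) of GOOD LEVEL**: after a visit to the mouth `B(x⁺, ρ_m)` the stub stays in `B(x⁺, 2a)` up to its tip.   `δ` = mesh error between height and position. -/
theorem pvlv_calm_g1 (ha : 0 < a) {δ r ρ ρm : ℝ} {T : ℕ} (hLip : ∀ t u, h t ≤ h u + dist (z t) (z u) + δ) (hE : PvlvExit h r T) (hc : PvlvCalm z a h r ρ T) (hρ : ρm + δ ≤ ρ)
    {u : ℕ} (hu : u ≤ T) (hvis : dist (z u) (z T) ≤ ρm) : ∀ t, u ≤ t → t ≤ T → dist (z t) (z T) < 2 * a := by
  have hh : r - ρ < h u := by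
    have h1 := hLip T u
    have h2 := hE.1
    rw [dist_comm] at h1
    linarith
  intro t h1 h2
  exact pvlv_calm_window ha hc hh h1 h2 hu le_rfl

/-- **(g2), mouth form**: if the other stub, calm at the same level, visits the mouth of `x⁺` then the two tips are within `2a + ρ_m` -/
theorem pvlv_calm_g2 (ha : 0 < a) {z' : ℕ → E} {h' : ℕ → ℝ} {δ r ρ ρm : ℝ} {T T' : ℕ} (hLip : ∀ u, h T ≤ h' u + dist (z T) (z' u) + δ) (hE : PvlvExit h r T)
    (hc' : PvlvCalm z' a h' r ρ T') (hρ : ρm + δ ≤ ρ) {u : ℕ} (hu : u ≤ T') (hvis : dist (z' u) (z T) ≤ ρm) : dist (z' T') (z T) < 2 * a + ρm := by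
  have hh : r - ρ < h' u := by
    have h1 := hLip u
    have h2 := hE.1
    rw [dist_comm] at h1
    linarith
  have h3 : dist (z' T') (z' u) < 2 * a := pvlv_calm_window ha hc' hh hu le_rfl le_rfl hu
  have h4 := dist_triangle (z' T') (z' u) (z T)
  linarith

/-- **GOOD LEVEL** (the part of sec.1 of W1_208 which concerns the two stubs; `x⁺ = z T`, `x⁻ = z' T'`) -/
structure PvlvGood (z z' : ℕ → E) (T T' : ℕ) (ρm ρ₂ : ℝ) : Prop where
  ret : ∀ u, u ≤ T → dist (z u) (z T) ≤ ρm → ∀ t, u ≤ t → t ≤ T → dist (z t) (z T) < ρ₂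
  ret' : ∀ u, u ≤ T' → dist (z' u) (z' T') ≤ ρm → ∀ t, u ≤ t → t ≤ T' → dist (z' t) (z' T') < ρ₂
  off : ∀ u, u ≤ T' → ρm < dist (z' u) (z T)
  off' : ∀ u, u ≤ T → ρm < dist (z u) (z' T')

/-- **a good level exists**: `N⁺ + N⁻ < K` and the FLAG `far` (the two tips of every level are `2a + ρ_m` apart) -/
theorem pvlv_good_exists (ha : 0 < a) (z z' : ℕ → E) (h h' : ℕ → ℝ) {δ r₀ ρ ρ₁ ρm ρ₂ : ℝ} (hρ : ρ ≤ ρ₁) (h1 : 0 ≤ ρ₁) (hρm : ρm + δ ≤ ρ) (h2a : 2 * a ≤ ρ₂) (K : ℕ) (T T' : ℕ → ℕ)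
    (hT : ∀ k, k < K → PvlvExit h (r₀ + k * ρ₁) (T k)) (hT' : ∀ k, k < K → PvlvExit h' (r₀ + k * ρ₁) (T' k))
    (hL : ∀ t u, h t ≤ h u + dist (z t) (z u) + δ) (hL' : ∀ t u, h' t ≤ h' u + dist (z' t) (z' u) + δ)
    (hX : ∀ t u, h t ≤ h' u + dist (z t) (z' u) + δ) (hX' : ∀ t u, h' t ≤ h u + dist (z' t) (z u) + δ)
    (tend tend' : ℕ) (hend : ∀ k, k < K → T k ≤ tend) (hend' : ∀ k, k < K → T' k ≤ tend') (hK : pvlvCnt z a tend + pvlvCnt z' a tend' < K)
    (far : ∀ k, k < K → 2 * a + ρm ≤ dist (z (T k)) (z' (T' k))) : ∃ k, k < K ∧ PvlvGood z z' (T k) (T' k) ρm ρ₂ := by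
  obtain ⟨k, hk, hc, hc'⟩ := pvlv_calm_exists2 z z' a h h' hρ h1 K T T' hT hT' tend tend' hend hend' hK
  refine ⟨k, hk, ?_, ?_, ?_, ?_⟩
  · intro u hu hv t h2 h3
    exact (pvlv_calm_g1 ha hL (hT k hk) hc hρm hu hv t h2 h3).trans_le h2a
  · intro u hu hv t h2 h3
    exact (pvlv_calm_g1 ha hL' (hT' k hk) hc' hρm hu hv t h2 h3).trans_le h2a
  · intro u hu
    by_contra hv
    have h2 := pvlv_calm_g2 ha (fun u => hX (T k) u) (hT k hk) hc' hρm hu (not_lt.1 hv)
    have h3 := far k hk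
    rw [dist_comm] at h3
    linarith
  · intro u hu
    by_contra hv
    have h2 := pvlv_calm_g2 ha (fun u => hX' (T' k) u) (hT' k hk) hc hρm hu (not_lt.1 hv)
    have h3 := far k hk
    linarith

/-! ## 4. Many steps: many crossings of one annulus of a finite family -/

/-- a step whose anchor is within `a/4` of `g` ends at distance `≥ 3a/4` of `g`, and the walk stays within `5a/4` of `g` in between -/
theorem pvlv_crS_spec {g : E} {tend t : ℕ} (ht : t ∈ pvlvCrS z a g tend) :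
    t ≤ tend ∧ pvlvStep z a t ∧ pvlvAnc z a (t - 1) < t ∧ dist (z (pvlvAnc z a (t - 1))) g ≤ a / 4 ∧ 3 * a / 4 ≤ dist (z t) g := by
  classical
  unfold pvlvCrS at ht
  rw [Finset.mem_filter, pvlv_mem_steps] at ht
  obtain ⟨⟨h1, h2⟩, h3⟩ := ht
  have hpos := pvlv_step_pos h2
  refine ⟨h1, h2, lt_of_le_of_lt (pvlv_anc_le _) (by omega), h3, ?_⟩
  obtain ⟨u, rfl, hu⟩ := h2
  rw [Nat.add_sub_cancel] at h3
  have h4 := dist_triangle (z (u + 1)) g (z (pvlvAnc z a u))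
  rw [dist_comm g] at h4
  linarith

/-- two different steps are disjoint in time -/
theorem pvlv_step_disj {t t' : ℕ} (ht : pvlvStep z a t) (htt : t < t') : t ≤ pvlvAnc z a (t' - 1) :=
  pvlv_le_anc ht (by omega)

/-- **PIGEONHOLE over the centres of an `a/4`-net** -/
theorem pvlv_cross_pigeon (G : Finset E) (tend : ℕ) (hG : ∀ t, t ≤ tend → ∃ g ∈ G, dist (z t) g ≤ a / 4) (m : ℕ) (hm : G.card * m ≤ pvlvCnt z a tend) :
    ∃ g ∈ G, m ≤ (pvlvCrS z a g tend).card := by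
  classical
  have hch : ∀ t, t ∈ pvlvSteps z a tend → ∃ g ∈ G, dist (z (pvlvAnc z a (t - 1))) g ≤ a / 4 := by
    intro t ht
    rw [pvlv_mem_steps] at ht
    exact hG _ ((pvlv_anc_le _).trans ((Nat.sub_le _ _).trans ht.1))
  obtain ⟨g₀, hg₀, -⟩ := hG 0 (Nat.zero_le _)
  let f : ℕ → E := fun t => if ht : t ∈ pvlvSteps z a tend then Classical.choose (hch t ht) else g₀
  have hf : ∀ t, (ht : t ∈ pvlvSteps z a tend) → f t ∈ G ∧ dist (z (pvlvAnc z a (t - 1))) (f t) ≤ a / 4 := by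
    intro t ht
    have : f t = Classical.choose (hch t ht) := dif_pos ht
    rw [this]
    exact Classical.choose_spec (hch t ht)
  obtain ⟨g, hg, hm'⟩ := Finset.exists_le_card_fiber_of_mul_le_card_of_maps_to (s := pvlvSteps z a tend) (t := G) (f := f) (n := m)
    (fun t ht => (hf t ht).1) ⟨g₀, hg₀⟩ hm
  refine ⟨g, hg, hm'.trans (Finset.card_le_card ?_)⟩
  intro t ht
  rw [Finset.mem_filter] at ht
  unfold pvlvCrS
  rw [Finset.mem_filter]
  refine ⟨ht.1, ?_⟩
  rw [← ht.2]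
  exact (hf t ht.1).2

theorem pvlv_anc_anc (t : ℕ) : pvlvAnc z a (pvlvAnc z a t) = pvlvAnc z a t := by
  induction t with
  | zero => rfl
  | succ t ih =>
    by_cases hs : pvlvStep z a (t + 1)
    · rw [pvlv_anc_of_step hs, pvlv_anc_of_step hs]
    · rw [pvlv_anc_of_not hs, ih]

/-- between the anchor of `t` and `t` the anchor does not move -/
theorem pvlv_anc_between {t u : ℕ} (h1 : pvlvAnc z a t ≤ u) (h2 : u ≤ t) : pvlvAnc z a u = pvlvAnc z a t := by
  apply le_antisymm (pvlv_anc_mono h2)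
  have := pvlv_anc_mono (z := z) (a := a) h1
  rwa [pvlv_anc_anc] at this

/-- sequence form: `m` time-disjoint pieces `[lo j, hi j]` of the walk from `B(g, a/4)` to the complement of `B(g, 3a/4)` -/
theorem pvlv_cross_seq (ha : 0 < a) {g : E} {tend m : ℕ} (hm : m ≤ (pvlvCrS z a g tend).card) :
    ∃ lo hi : ℕ → ℕ, (∀ j, j < m → lo j < hi j ∧ hi j ≤ tend ∧ dist (z (lo j)) g ≤ a / 4 ∧ 3 * a / 4 ≤ dist (z (hi j)) g ∧ ∀ t, lo j ≤ t → t < hi j → dist (z t) (z (lo j)) < a) ∧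
      ∀ j, j + 1 < m → hi j ≤ lo (j + 1) := by
  classical
  obtain ⟨S, hS, hcard⟩ := Finset.exists_subset_card_eq hm
  let φ := S.orderEmbOfFin hcard
  let hi : ℕ → ℕ := fun j => if hj : j < m then φ ⟨j, hj⟩ else 0
  have hhi : ∀ j, (hj : j < m) → hi j = φ ⟨j, hj⟩ := fun j hj => dif_pos hj
  have hmem : ∀ j, j < m → hi j ∈ pvlvCrS z a g tend := by
    intro j hj
    rw [hhi j hj]
    exact hS (Finset.orderEmbOfFin_mem S hcard _)
  refine ⟨fun j => pvlvAnc z a (hi j - 1), hi, ?_, ?_⟩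
  · intro j hj
    obtain ⟨h1, h2, h3, h4, h5⟩ := pvlv_crS_spec (hmem j hj)
    refine ⟨h3, h1, h4, h5, ?_⟩
    intro t ht1 ht2
    have := pvlv_anc_dist (z := z) ha t
    rwa [pvlv_anc_between ht1 (by omega)] at this
  · intro j hj
    obtain ⟨-, h2, -, -, -⟩ := pvlv_crS_spec (hmem j (by omega))
    refine pvlv_step_disj h2 ?_
    rw [hhi j (by omega), hhi (j + 1) hj]
    exact φ.strictMono (by show j < j + 1; omega)

/-! ## 4b. The same with a net of ANY radius `σ` (the producer of BXP, `pvax_bxp` / `PvaxFrame` of `Arm/BxpPv`, needs annuli of ratio `≥ 10`: take `σ ≤ a / 21`) -/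

open Classical in
/-- the step times `≤ tend` whose anchor is within `σ` of `g` -/
noncomputable def pvlvCrG (z : ℕ → E) (a σ : ℝ) (g : E) (tend : ℕ) : Finset ℕ :=
  (pvlvSteps z a tend).filter (fun t => dist (z (pvlvAnc z a (t - 1))) g ≤ σ)

theorem pvlv_eqns_cite3 : True := by
  have := @pvlvCrG.eq_1
  trivial

theorem pvlv_crG_quarter (g : E) (tend : ℕ) : pvlvCrG z a (a / 4) g tend = pvlvCrS z a g tend := rfl

/-- a step whose anchor is within `σ` of `g` ends at distance `≥ a - σ` of `g` -/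
theorem pvlv_crG_spec {σ : ℝ} {g : E} {tend t : ℕ} (ht : t ∈ pvlvCrG z a σ g tend) :
    t ≤ tend ∧ pvlvStep z a t ∧ pvlvAnc z a (t - 1) < t ∧ dist (z (pvlvAnc z a (t - 1))) g ≤ σ ∧ a - σ ≤ dist (z t) g := by
  classical
  unfold pvlvCrG at ht
  rw [Finset.mem_filter, pvlv_mem_steps] at ht
  obtain ⟨⟨h1, h2⟩, h3⟩ := ht
  have hpos := pvlv_step_pos h2
  refine ⟨h1, h2, lt_of_le_of_lt (pvlv_anc_le _) (by omega), h3, ?_⟩
  obtain ⟨u, rfl, hu⟩ := h2
  rw [Nat.add_sub_cancel] at h3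
  have h4 := dist_triangle (z (u + 1)) g (z (pvlvAnc z a u))
  rw [dist_comm g] at h4
  linarith

/-- **PIGEONHOLE over the centres of a `σ`-net** -/
theorem pvlv_crossG_pigeon {σ : ℝ} (G : Finset E) (tend : ℕ) (hG : ∀ t, t ≤ tend → ∃ g ∈ G, dist (z t) g ≤ σ) (m : ℕ) (hm : G.card * m ≤ pvlvCnt z a tend) :
    ∃ g ∈ G, m ≤ (pvlvCrG z a σ g tend).card := by
  classical
  have hch : ∀ t, t ∈ pvlvSteps z a tend → ∃ g ∈ G, dist (z (pvlvAnc z a (t - 1))) g ≤ σ := by
    intro t ht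
    rw [pvlv_mem_steps] at ht
    exact hG _ ((pvlv_anc_le _).trans ((Nat.sub_le _ _).trans ht.1))
  obtain ⟨g₀, hg₀, -⟩ := hG 0 (Nat.zero_le _)
  let f : ℕ → E := fun t => if ht : t ∈ pvlvSteps z a tend then Classical.choose (hch t ht) else g₀
  have hf : ∀ t, (ht : t ∈ pvlvSteps z a tend) → f t ∈ G ∧ dist (z (pvlvAnc z a (t - 1))) (f t) ≤ σ := by
    intro t ht
    have : f t = Classical.choose (hch t ht) := dif_pos ht
    rw [this]
    exact Classical.choose_spec (hch t ht)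
  obtain ⟨g, hg, hm'⟩ := Finset.exists_le_card_fiber_of_mul_le_card_of_maps_to (s := pvlvSteps z a tend) (t := G) (f := f) (n := m)
    (fun t ht => (hf t ht).1) ⟨g₀, hg₀⟩ hm
  refine ⟨g, hg, hm'.trans (Finset.card_le_card ?_)⟩
  intro t ht
  rw [Finset.mem_filter] at ht
  unfold pvlvCrG
  rw [Finset.mem_filter]
  refine ⟨ht.1, ?_⟩
  rw [← ht.2]
  exact (hf t ht.1).2

/-- sequence form: `m` time-disjoint pieces `[lo j, hi j]` of the walk from `B(g, σ)` to the complement of `B(g, a - σ)` -/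
theorem pvlv_crossG_seq (ha : 0 < a) {σ : ℝ} {g : E} {tend m : ℕ} (hm : m ≤ (pvlvCrG z a σ g tend).card) :
    ∃ lo hi : ℕ → ℕ, (∀ j, j < m → lo j < hi j ∧ hi j ≤ tend ∧ dist (z (lo j)) g ≤ σ ∧ a - σ ≤ dist (z (hi j)) g ∧ ∀ t, lo j ≤ t → t < hi j → dist (z t) (z (lo j)) < a) ∧
      ∀ j, j + 1 < m → hi j ≤ lo (j + 1) := by
  classical
  obtain ⟨S, hS, hcard⟩ := Finset.exists_subset_card_eq hm
  let φ := S.orderEmbOfFin hcard
  let hi : ℕ → ℕ := fun j => if hj : j < m then φ ⟨j, hj⟩ else 0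
  have hhi : ∀ j, (hj : j < m) → hi j = φ ⟨j, hj⟩ := fun j hj => dif_pos hj
  have hmem : ∀ j, j < m → hi j ∈ pvlvCrG z a σ g tend := by
    intro j hj
    rw [hhi j hj]
    exact hS (Finset.orderEmbOfFin_mem S hcard _)
  refine ⟨fun j => pvlvAnc z a (hi j - 1), hi, ?_, ?_⟩
  · intro j hj
    obtain ⟨h1, h2, h3, h4, h5⟩ := pvlv_crG_spec (hmem j hj)
    refine ⟨h3, h1, h4, h5, ?_⟩
    intro t ht1 ht2
    have := pvlv_anc_dist (z := z) ha t
    rwa [pvlv_anc_between ht1 (by omega)] at this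
  · intro j hj
    obtain ⟨-, h2, -, -, -⟩ := pvlv_crG_spec (hmem j (by omega))
    refine pvlv_step_disj h2 ?_
    rw [hhi j (by omega), hhi (j + 1) hj]
    exact φ.strictMono (by show j < j + 1; omega)

end walk

/-- **the FLAG `N` large**: union bound over the centres; the tail of the number of crossings of one annulus is the input from ARM -/
theorem pvlv_flag_tail {Ω E : Type} [MeasurableSpace Ω] (μ : MeasureTheory.Measure Ω) (G : Finset E) (N : Ω → ℕ) (Cr : Ω → E → ℕ) (m : ℕ)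
    (hdet : ∀ ω, G.card * m ≤ N ω → ∃ g ∈ G, m ≤ Cr ω g) (b : ENNReal) (hb : ∀ g ∈ G, μ {ω | m ≤ Cr ω g} ≤ b) : μ {ω | G.card * m ≤ N ω} ≤ G.card * b := by
  have hsub : {ω | G.card * m ≤ N ω} ⊆ ⋃ g ∈ G, {ω | m ≤ Cr ω g} := by
    intro ω hω
    obtain ⟨g, hg, hm⟩ := hdet ω hω
    exact Set.mem_biUnion hg hm
  calc μ {ω | G.card * m ≤ N ω} ≤ μ (⋃ g ∈ G, {ω | m ≤ Cr ω g}) := MeasureTheory.measure_mono hsub
    _ ≤ ∑ g ∈ G, μ {ω | m ≤ Cr ω g} := MeasureTheory.measure_biUnion_finset_le G _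
    _ ≤ ∑ _g ∈ G, b := Finset.sum_le_sum hb
    _ = G.card * b := by rw [Finset.sum_const, nsmul_eq_mul]

/-! ## 5. Instance: boxes of a dart map with positions, strands -/

/-- sup-norm radius round `zc` -/
noncomputable def pvlvRad (zc x : ℂ) : ℝ := max |(x - zc).re| |(x - zc).im|

theorem pvlv_rad_lip (zc x y : ℂ) : pvlvRad zc x ≤ pvlvRad zc y + dist x y := by
  have h1 : |(x - zc).re| ≤ |(y - zc).re| + dist x y := by
    have e : (x - zc).re = (y - zc).re + (x - y).re := by simp only [Complex.sub_re]; ring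
    rw [e, Complex.dist_eq]
    exact (abs_add_le _ _).trans (add_le_add le_rfl (Complex.abs_re_le_norm _))
  have h2 : |(x - zc).im| ≤ |(y - zc).im| + dist x y := by
    have e : (x - zc).im = (y - zc).im + (x - y).im := by simp only [Complex.sub_im]; ring
    rw [e, Complex.dist_eq]
    exact (abs_add_le _ _).trans (add_le_add le_rfl (Complex.abs_im_le_norm _))
  unfold pvlvRad
  refine max_le ?_ ?_
  · exact h1.trans (add_le_add (le_max_left _ _) le_rfl)
  · exact h2.trans (add_le_add (le_max_right _ _) le_rfl)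

section strand

variable {V D : Type} (T : PvMap V D) (pos : V → ℂ) (zc : ℂ)

/-- the radius of the face of `d` -/
noncomputable def pvlvFR (d : D) : ℝ := max (max (pvlvRad zc (pos (T.src d))) (pvlvRad zc (pos (T.tgt d)))) (pvlvRad zc (pos (T.apex d)))

/-- the faces inside the closed box of radius `r` -/
def pvlvBox (r : ℝ) : Set D := {d | pvlvFR T pos zc d ≤ r}

/-- position of the strand at time `t`: its black end -/
noncomputable def pvlvZ (s : V → Bool) (d : D) (t : ℕ) : ℂ := pos (T.src (pvasIt T s d t))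

/-- height of the strand at time `t`: the radius of the face it has entered -/
noncomputable def pvlvH (s : V → Bool) (d : D) (t : ℕ) : ℝ := pvlvFR T pos zc (pvasIt T s d t)

theorem pvlv_eqns_cite2 : True := by
  have := @pvlvRad.eq_1; have := @pvlvFR.eq_1; have := @pvlvBox.eq_1; have := @pvlvZ.eq_1; have := @pvlvH.eq_1
  trivial

variable {T pos zc}

theorem pvlv_FR_nxt (d : D) : pvlvFR T pos zc (T.nxt d) = pvlvFR T pos zc d := by
  unfold pvlvFR
  rw [T.src_nxt, T.tgt_nxt, T.apex_nxt, max_comm (max _ _), max_assoc]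

theorem pvlv_box_face (r : ℝ) : T.FaceSet (pvlvBox T pos zc r) := by
  intro d
  show pvlvFR T pos zc (T.nxt d) ≤ r ↔ pvlvFR T pos zc d ≤ r
  rw [pvlv_FR_nxt]

theorem pvlv_box_mono {r r' : ℝ} (h : r ≤ r') : pvlvBox T pos zc r ⊆ pvlvBox T pos zc r' := fun _ hd => le_trans hd h

/-- the first exit of the box is the first time at which the height exceeds `r` -/
theorem pvlv_exit_hit {s : V → Bool} {d : D} {r : ℝ} (hex : ∃ t, pvasIt T s d t ∉ pvlvBox T pos zc r) :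
    PvlvExit (pvlvH T pos zc s d) r (pvasHit T s d (pvlvBox T pos zc r)ᶜ) := by
  have hne : {n | pvasIt T s d n ∈ (pvlvBox T pos zc r)ᶜ}.Nonempty := hex
  constructor
  · have h1 : pvasIt T s d (pvasHit T s d (pvlvBox T pos zc r)ᶜ) ∈ (pvlvBox T pos zc r)ᶜ := Nat.sInf_mem hne
    exact not_le.1 h1
  · intro t ht
    by_contra hcon
    exact Nat.notMem_of_lt_sInf ht hcon

/-- height against position: `δ` bounds the edges of the faces visited -/
theorem pvlv_H_lip {s s' : V → Bool} {d d' : D} {δ : ℝ} (hδ : ∀ t, dist (pos (T.tgt (pvasIt T s d t))) (pos (T.src (pvasIt T s d t))) ≤ δ ∧ dist (pos (T.apex (pvasIt T s d t))) (pos (T.src (pvasIt T s d t))) ≤ δ)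
    (h0 : 0 ≤ δ) (t u : ℕ) : pvlvH T pos zc s d t ≤ pvlvH T pos zc s' d' u + dist (pvlvZ T pos s d t) (pvlvZ T pos s' d' u) + δ := by
  have hZ : pvlvRad zc (pvlvZ T pos s' d' u) ≤ pvlvH T pos zc s' d' u := le_trans (le_max_left _ _) (le_max_left _ _)
  have key : ∀ x : ℂ, dist x (pvlvZ T pos s d t) ≤ δ → pvlvRad zc x ≤ pvlvH T pos zc s' d' u + dist (pvlvZ T pos s d t) (pvlvZ T pos s' d' u) + δ := by
    intro x hx
    have h1 := pvlv_rad_lip zc x (pvlvZ T pos s' d' u)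
    have h2 := dist_triangle x (pvlvZ T pos s d t) (pvlvZ T pos s' d' u)
    linarith
  unfold pvlvH pvlvFR
  refine max_le (max_le ?_ ?_) ?_
  · exact key _ (by rw [show pos (T.src (pvasIt T s d t)) = pvlvZ T pos s d t from rfl, dist_self]; exact h0)
  · exact key _ (hδ t).1
  · exact key _ (hδ t).2

/-- **EXIT OF THE FILE (deterministic)**: two stubs `(s, d)` (forward) and `(s', d')` (the backward stub: `s' = pvasNot s`, `d' = T.opp` of the entry position) which leave all the boxes `r₀ + k ρ₁`, `k < K`; mesh `≤ δ`;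
fewer than `K` steps of size `a` before the last exits; tips of each level `2a + ρ_m` apart (FLAG): some level is GOOD. -/
theorem pvlv_strand_good {s s' : V → Bool} {d d' : D} {a δ r₀ ρ₁ ρm ρ₂ : ℝ} (ha : 0 < a) (h0 : 0 ≤ δ) (hρm : ρm + δ ≤ ρ₁) (h1 : 0 ≤ ρ₁) (h2a : 2 * a ≤ ρ₂) (K : ℕ) (hK0 : 0 < K)
    (hδ : ∀ t, dist (pos (T.tgt (pvasIt T s d t))) (pos (T.src (pvasIt T s d t))) ≤ δ ∧ dist (pos (T.apex (pvasIt T s d t))) (pos (T.src (pvasIt T s d t))) ≤ δ)
    (hδ' : ∀ t, dist (pos (T.tgt (pvasIt T s' d' t))) (pos (T.src (pvasIt T s' d' t))) ≤ δ ∧ dist (pos (T.apex (pvasIt T s' d' t))) (pos (T.src (pvasIt T s' d' t))) ≤ δ)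
    (hex : ∃ t, pvasIt T s d t ∉ pvlvBox T pos zc (r₀ + (K - 1 : ℕ) * ρ₁)) (hex' : ∃ t, pvasIt T s' d' t ∉ pvlvBox T pos zc (r₀ + (K - 1 : ℕ) * ρ₁))
    (hN : pvlvCnt (pvlvZ T pos s d) a (pvasHit T s d (pvlvBox T pos zc (r₀ + (K - 1 : ℕ) * ρ₁))ᶜ) + pvlvCnt (pvlvZ T pos s' d') a (pvasHit T s' d' (pvlvBox T pos zc (r₀ + (K - 1 : ℕ) * ρ₁))ᶜ) < K)
    (far : ∀ k, k < K → 2 * a + ρm ≤ dist (pvlvZ T pos s d (pvasHit T s d (pvlvBox T pos zc (r₀ + k * ρ₁))ᶜ)) (pvlvZ T pos s' d' (pvasHit T s' d' (pvlvBox T pos zc (r₀ + k * ρ₁))ᶜ))) :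
    ∃ k, k < K ∧ PvlvGood (pvlvZ T pos s d) (pvlvZ T pos s' d') (pvasHit T s d (pvlvBox T pos zc (r₀ + k * ρ₁))ᶜ) (pvasHit T s' d' (pvlvBox T pos zc (r₀ + k * ρ₁))ᶜ) ρm ρ₂ := by
  have hle : ∀ k : ℕ, k < K → r₀ + k * ρ₁ ≤ r₀ + (K - 1 : ℕ) * ρ₁ := by
    intro k hk
    have h2 : (k : ℝ) ≤ ((K - 1 : ℕ) : ℝ) := by exact_mod_cast (by omega : k ≤ K - 1)
    nlinarith
  have hexk : ∀ k : ℕ, k < K → ∃ t, pvasIt T s d t ∉ pvlvBox T pos zc (r₀ + k * ρ₁) := by
    intro k hk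
    obtain ⟨t, ht⟩ := hex
    exact ⟨t, fun h => ht (pvlv_box_mono (hle k hk) h)⟩
  have hexk' : ∀ k : ℕ, k < K → ∃ t, pvasIt T s' d' t ∉ pvlvBox T pos zc (r₀ + k * ρ₁) := by
    intro k hk
    obtain ⟨t, ht⟩ := hex'
    exact ⟨t, fun h => ht (pvlv_box_mono (hle k hk) h)⟩
  have hT : ∀ k : ℕ, k < K → PvlvExit (pvlvH T pos zc s d) (r₀ + k * ρ₁) (pvasHit T s d (pvlvBox T pos zc (r₀ + k * ρ₁))ᶜ) := fun k hk => pvlv_exit_hit (hexk k hk)
  have hT' : ∀ k : ℕ, k < K → PvlvExit (pvlvH T pos zc s' d') (r₀ + k * ρ₁) (pvasHit T s' d' (pvlvBox T pos zc (r₀ + k * ρ₁))ᶜ) := fun k hk => pvlv_exit_hit (hexk' k hk)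
  exact pvlv_good_exists ha _ _ (pvlvH T pos zc s d) (pvlvH T pos zc s' d') (δ := δ) (ρ := ρ₁) le_rfl h1 hρm h2a K
    (fun k : ℕ => pvasHit T s d (pvlvBox T pos zc (r₀ + k * ρ₁))ᶜ) (fun k : ℕ => pvasHit T s' d' (pvlvBox T pos zc (r₀ + k * ρ₁))ᶜ) hT hT'
    (pvlv_H_lip hδ h0) (pvlv_H_lip hδ' h0) (pvlv_H_lip hδ h0) (pvlv_H_lip hδ' h0) _ _
    (fun k hk => (hT k hk).mono (pvlv_exit_hit hex) (hle k hk)) (fun k hk => (hT' k hk).mono (pvlv_exit_hit hex') (hle k hk)) hN far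

end strand

end Claimed.Agent.R289
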