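-- KEEP
import Claimed.Agent.R289.Tr.Level
import Claimed.Agent.R289.Arm.KCount
import Claimed.Agent.R289.Arm.Bxp
import Claimed.Agent.R289.Arm.BxpPv

/-!
# Row 289 (S0537, Cardy for Poisson-Voronoi), WALL, block WB5 HOOK, item (H4a) FLAG1, file Tr/Flag : A STRAND WHICH MAKES MANY STEPS IS RARE      (owner helper16; squad of helper263; prefix `pvfl_`, defs `Pvfl…`)

Source: `origin/helper208:notes/R289/W1_208.md` sec.4 (H4) and addendum R-A (H4a): `FLAG1 = {N ≥ K}`, `P ≤ C(ϱ) (1-q)^{cK}`: "many steps ⟹ many disjoint crossings of one of finitely many fixed annuli".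
THIS FILE = THE GLUE between
* `Tr/Level` sec.4 (helper235): `|G| m ≤ N` ⟹ `m` time-disjoint pieces of the walk run from `B(g, a/4)` to the complement of `B(g, 3a/4)`, for one centre `g` of the `a/4`-net `G`   (`pvlv_cross_pigeon`, `pvlv_cross_seq`);
* `Arm/KCount` sec.11 (helper221): `pvakR c' c s` = the number of runs of the annulus, `pvak_tailR : P(2k ≤ pvakR) ≤ (1-q)^k`;
* `Arm/Bxp` (helper196): cycles at a radius `PvaxAt`, blocking `PvaxBlk`, `PvaxBxp`.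

* sec.1  `pvfl_piece`    a piece of a strand from the inner disc `c'.Left` to the outside of `c.Left` contains an OUTWARD crossing of the annulus = (reversal) a run of `pvasNot s`, entrance `opp (position of the first exit)`
* sec.2  `pvfl_pieces`   `m` time-disjoint pieces of a strand which does not close up: `m ≤ pvakR c' c s`
* sec.3  `pvfl_inj_of_exit`   a strand which leaves a face set at time `T` for the first time has pairwise distinct positions `0..T`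
* sec.4  `PvflMany T pos G a n s`   THE FLAG (no starting dart, no gate, no box in the statement): SOME strand of `s` makes `n` steps of size `a`, near the net `G`, before it closes up;
         **`pvfl_det`** : `PvflMany … (|G| m) s` ⟹ `m ≤ pvakR (ci g) (co g) s` for one `g ∈ G`  (`ci g` at radius `(a/4, r₁)`, `co g` at radius `(r₁, 3a/4)` round `g`);   `pvfl_many_mono`, `pvfl_R_not`
* sec.5  **`pvfl_flag`** : quenched, fair colours on `A`, any background: `P(PvflMany … (|G| 2k)) ≤ |G| (1-q)^k` if every annulus of the net has a white circuit with probability `≥ q`;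
         `pvfl_flag_not` (strands of the exchanged colouring = backward stubs), `pvfl_flag_both`;   `pvfl_circ_of_blk`, **`pvfl_flag_blk`** (hypothesis `PvaxBlk`), `pvfl_flag_bxp` (hypothesis `PvaxBxp`)
* sec.6  STUB FORM: `pvfl_stub` : the strand from `d` (in the box `pvlvBox T pos zc r`) up to its first exit `T` of the box, `n ≤ pvlvCnt (pvlvZ T pos s d) a T` ⟹ `PvflMany`, for every net `G` of the box;   `PvflStub`, **`pvfl_flag_stub`**;
         explicit grid `pvflNet zc M b` (`pvfl_net_card ≤ (2M+1)²`, `pvfl_net_cover`), **`pvfl_flag_grid`** : `P(a stub of the box, forward or backward, makes (2M+1)² 2k steps) ≤ (2M+1)² (1-q)^k`, `M ≥ 4r/a`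
* sec.7  (v2, request of helper235: the only producer of BXP, `pvax_bxp` / `PvaxFrame` of `Arm/BxpPv`, needs annuli of ratio `≥ 10`)   THE SAME WITH A NET OF ANY RADIUS `σ`, RADII AS PARAMETERS:
         `PvflManyG T pos G a σ n s`, **`pvfl_detG`** (`ci g` at radius `(σ, r₁)`, `co g` at radius `(R₁, a - σ)`, `r₁ ≤ R₁`), `pvfl_flagG_both`, `pvfl_flagG_blk`, **`pvfl_flagG_bxp`** (hypothesis `PvaxBxp … g r₁ R₁`), `pvfl_stubG`, `pvfl_flagG_stub`, `pvfl_flagG_grid`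
* sec.8  **`pvfl_flag_frame`** : THE FRAME FORM on the Delaunay plane `delMap h`, `dlsPos Y`: `PvaxFrame q G {σ, 16 σ} Y`, `21 σ ≤ a`, `G` a `σ`-net of the box ⟹ `P(a stub of the box, forward or backward, makes |G| 2k steps of size a) ≤ |G| (1-q)^k`;
         `pvfl_flag_frame_grid` (explicit grid `pvflNet zc M σ`, constant `(2M+1)²`, `M ≥ r/σ`)
CONSUMERS: (H4a) `K > N⁺ + N⁻` of `pvlv_calm_exists2` / `pvlv_strand_good` off this flag;   the passage `colLaw` → `pvaP` is `Arm/Law` (helper128), cycles + blocking at the centres of the net = `PvaxFrame` (`Arm/Bxp`, `Arm/BxpPv`, helper196).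
-/

set_option autoImplicit false
set_option linter.unusedSectionVars false
set_option linter.unusedVariables false

namespace Claimed.Agent.R289

open Relation

/-! ## 1. One piece from the inner disc to the outside: a run of the exchanged colouring -/

section det

variable {V D : Type} {T : PvMap V D} {s : V → Bool} {d : D}

/-- the opposite of the position number `k + 1` lies in the face of the position number `k` -/
theorem pvfl_opp_mem {A : Set D} (hA : T.FaceSet A) (s : V → Bool) (d : D) (k : ℕ) : T.opp (pvasIt T s d (k + 1)) ∈ A ↔ pvasIt T s d k ∈ A := by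
  rw [pvas_it_succ]
  exact pvas_step_opp_mem hA s

/-- **a piece of a strand from `c'.Left` to the outside of `c.Left` contains an outward crossing** -/
theorem pvfl_piece {c' c : T.Cyc} (hsub : c'.Left ⊆ c.Left) (hbw : pvasBW T s d) {lo hi : ℕ} (hlh : lo ≤ hi) (h1 : pvasIt T s d lo ∈ c'.Left)
    (h2 : pvasIt T s d hi ∉ c.Left) : ∃ k n, lo < k ∧ k ≤ hi ∧ PvakRun c' c (pvasNot s) (T.opp (pvasIt T s d k)) n := by
  classical
  -- the first exit of `c.Left` after `lo`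
  have hex : ∃ k, lo ≤ k ∧ pvasIt T s d k ∉ c.Left := ⟨hi, hlh, h2⟩
  obtain ⟨hk1, hk2⟩ := Nat.find_spec hex
  have hkmin : ∀ j, lo ≤ j → j < Nat.find hex → pvasIt T s d j ∈ c.Left := by
    intro j hj1 hj2
    by_contra hn
    exact Nat.find_min hex hj2 ⟨hj1, hn⟩
  have hkhi : Nat.find hex ≤ hi := Nat.find_min' hex ⟨hlh, h2⟩
  generalize Nat.find hex = k at hk1 hk2 hkmin hkhi
  have hlk : lo < k := by
    rcases Nat.lt_or_ge lo k with h | h
    · exact h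
    · have : k = lo := le_antisymm h hk1
      rw [this] at hk2
      exact absurd (hsub h1) hk2
  -- the last visit of `c'.Left` before `k`
  have hex' : ∃ w, w ≤ k - 1 - lo ∧ pvasIt T s d (k - 1 - w) ∈ c'.Left := ⟨k - 1 - lo, le_rfl, by
    have : k - 1 - (k - 1 - lo) = lo := by omega
    rw [this]; exact h1⟩
  obtain ⟨hn1, hn2⟩ := Nat.find_spec hex'
  have hnmin : ∀ j, j < Nat.find hex' → pvasIt T s d (k - 1 - j) ∉ c'.Left := by
    intro j hj hn
    exact Nat.find_min hex' hj ⟨by omega, hn⟩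
  generalize Nat.find hex' = n at hn1 hn2 hnmin
  have hL := pl_left_face c
  have hL' := pl_left_face c'
  obtain ⟨k₀, rfl⟩ : ∃ k₀, k = k₀ + 1 := ⟨k - 1, by omega⟩
  have hrev : ∀ j, j ≤ k₀ → pvasIt T (pvasNot s) (T.opp (pvasIt T s d (k₀ + 1))) j = T.opp (pvasIt T s d (k₀ - j + 1)) := by
    intro j hj
    rw [pvas_it_rev hbw (by omega)]
    congr 2
    omega
  refine ⟨k₀ + 1, n, hlk, hkhi, ⟨?_, ?_, ?_⟩, ?_, ?_⟩
  · exact (pvfl_opp_mem hL s d k₀).2 (hkmin k₀ (by omega) (by omega))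
  · rw [T.opp_opp]; exact hk2
  · exact pvas_bw_not.2 (pvas_it_bw hbw _)
  · intro j hj
    have hj' : j ≤ k₀ := by omega
    rw [hrev j hj', pvfl_opp_mem hL, pvfl_opp_mem hL']
    refine ⟨hkmin _ (by omega) (by omega), ?_⟩
    have := hnmin j hj
    rwa [Nat.add_sub_cancel] at this
  · rw [hrev n (by omega), pvfl_opp_mem hL']
    rwa [Nat.add_sub_cancel] at hn2

/-! ## 2. Time-disjoint pieces -/

/-- the pieces are ordered in time -/
theorem pvfl_order {m : ℕ} {lo hi : ℕ → ℕ} (h1 : ∀ j, j < m → lo j ≤ hi j) (h2 : ∀ j, j + 1 < m → hi j ≤ lo (j + 1)) :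
    ∀ i j, i < j → j < m → hi i ≤ lo j := by
  intro i j hij
  induction j, hij using Nat.le_induction with
  | base => exact fun hm => h2 i hm
  | succ j hj ih =>
    intro hm
    exact ((ih (by omega)).trans (h1 j (by omega))).trans (h2 j hm)

/-- **`m` time-disjoint pieces of a strand which does not close up give `m` runs** -/
theorem pvfl_pieces (hT : T.IsSph) {c' c : T.Cyc} (hsub : c'.Left ⊆ c.Left) (hbw : pvasBW T s d) {tend m : ℕ}
    (hinj : ∀ i j, i ≤ tend → j ≤ tend → pvasIt T s d i = pvasIt T s d j → i = j) {lo hi : ℕ → ℕ}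
    (hp : ∀ j, j < m → lo j ≤ hi j ∧ hi j ≤ tend ∧ pvasIt T s d (lo j) ∈ c'.Left ∧ pvasIt T s d (hi j) ∉ c.Left)
    (hord : ∀ j, j + 1 < m → hi j ≤ lo (j + 1)) : m ≤ pvakR c' c s := by
  classical
  have hch : ∀ j, j < m → ∃ k, lo j < k ∧ k ≤ hi j ∧ ∃ n, PvakRun c' c (pvasNot s) (T.opp (pvasIt T s d k)) n := by
    intro j hj
    obtain ⟨a1, a2, a3, a4⟩ := hp j hj
    obtain ⟨k, n, b1, b2, b3⟩ := pvfl_piece hsub hbw a1 a3 a4
    exact ⟨k, b1, b2, n, b3⟩
  let κ : ℕ → ℕ := fun j => if hj : j < m then Classical.choose (hch j hj) else 0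
  have hκ : ∀ j, j < m → lo j < κ j ∧ κ j ≤ hi j ∧ ∃ n, PvakRun c' c (pvasNot s) (T.opp (pvasIt T s d (κ j))) n := by
    intro j hj
    have : κ j = Classical.choose (hch j hj) := dif_pos hj
    rw [this]
    exact Classical.choose_spec (hch j hj)
  have hO := pvfl_order (fun j hj => (hp j hj).1) hord
  have hlt : ∀ i j, i < j → j < m → κ i < κ j := by
    intro i j hij hj
    exact lt_of_le_of_lt ((hκ i (by omega)).2.1.trans (hO i j hij hj)) (hκ j hj).1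
  have hinjF : Set.InjOn (fun j => T.opp (pvasIt T s d (κ j))) (↑(Finset.range m) : Set ℕ) := by
    intro i hi' j hj' e
    have hi : i < m := Finset.mem_range.1 hi'
    have hj : j < m := Finset.mem_range.1 hj'
    have e' : κ i = κ j := hinj _ _ ((hκ i hi).2.1.trans (hp i hi).2.1) ((hκ j hj).2.1.trans (hp j hj).2.1) (T.opp_injective e)
    rcases Nat.lt_trichotomy i j with h | h | h
    · exact absurd e' (hlt i j h hj).ne
    · exact h
    · exact absurd e'.symm (hlt j i h hi).ne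
  have hcard : ((Finset.range m).image (fun j => T.opp (pvasIt T s d (κ j)))).card = m := by
    rw [Finset.card_image_of_injOn hinjF, Finset.card_range]
  rw [← hcard]
  refine pvak_card_le_R hT c' c s _ ?_
  intro x hx
  obtain ⟨j, hj, rfl⟩ := Finset.mem_image.1 hx
  exact Or.inr (hκ j (Finset.mem_range.1 hj)).2.2

/-! ## 3. A strand which leaves a face set does not close up before -/

/-- the positions `0..T` are pairwise distinct if `T` is the first exit of a set of darts -/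
theorem pvfl_inj_of_exit (hbw : pvasBW T s d) {B : Set D} {tend : ℕ} (h1 : ∀ t, t < tend → pvasIt T s d t ∈ B) (h2 : pvasIt T s d tend ∉ B) :
    ∀ i j, i ≤ tend → j ≤ tend → pvasIt T s d i = pvasIt T s d j → i = j := by
  have key : ∀ i j, i < j → j ≤ tend → pvasIt T s d i ≠ pvasIt T s d j := by
    intro i j hij hj e
    have hret := pvas_it_return hbw hij.le e
    -- period `p = j - i`
    have hper : pvasIt T s d tend = pvasIt T s d (tend - (j - i)) := by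
      have : tend = (j - i) + (tend - (j - i)) := by omega
      conv_lhs => rw [this, pvas_it_add, hret]
    exact h2 (hper ▸ h1 _ (by omega))
  intro i j hi hj e
  rcases Nat.lt_trichotomy i j with h | h | h
  · exact absurd e (key i j h hj)
  · exact h
  · exact absurd e.symm (key j i h hi)

/-! ## 4. THE FLAG, deterministic half -/

/-- **THE FLAG**: some strand of `s` makes `n` steps of size `a`, within `a/4` of the net `G`, before it closes up -/
def PvflMany (T : PvMap V D) (pos : V → ℂ) (G : Finset ℂ) (a : ℝ) (n : ℕ) (s : V → Bool) : Prop :=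
  ∃ (d : D) (tend : ℕ), pvasBW T s d ∧ (∀ i j, i ≤ tend → j ≤ tend → pvasIt T s d i = pvasIt T s d j → i = j) ∧
    (∀ t, t ≤ tend → ∃ g ∈ G, dist (pvlvZ T pos s d t) g ≤ a / 4) ∧ n ≤ pvlvCnt (pvlvZ T pos s d) a tend

theorem pvfl_eqns_cite : True := by
  have := @PvflMany.eq_1
  trivial

theorem pvfl_many_mono {pos : V → ℂ} {G : Finset ℂ} {a : ℝ} {n n' : ℕ} (hn : n' ≤ n) (h : PvflMany T pos G a n s) : PvflMany T pos G a n' s := by
  obtain ⟨d, tend, h1, h2, h3, h4⟩ := h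
  exact ⟨d, tend, h1, h2, h3, hn.trans h4⟩

theorem pvfl_many_net {pos : V → ℂ} {G G' : Finset ℂ} {a : ℝ} {n : ℕ} (hG : G ⊆ G') (h : PvflMany T pos G a n s) : PvflMany T pos G' a n s := by
  obtain ⟨d, tend, h1, h2, h3, h4⟩ := h
  exact ⟨d, tend, h1, h2, fun t ht => by obtain ⟨g, hg, hd⟩ := h3 t ht; exact ⟨g, hG hg, hd⟩, h4⟩

/-- the number of runs does not see the exchange of the colours -/
theorem pvfl_R_not (c' c : T.Cyc) (s : V → Bool) : pvakR c' c (pvasNot s) = pvakR c' c s := by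
  unfold pvakR
  rw [pvas_not_not, add_comm]

/-- a position whose black end is within `r` of `z` lies in the disc of a cycle at radius `(r, r')` -/
theorem pvfl_at_mem {pos : V → ℂ} {z : ℂ} {r r' : ℝ} {c : T.Cyc} (h : PvaxAt T pos z r r' c) {x : D} (hx : dist (pos (T.src x)) z ≤ r) : x ∈ c.Left :=
  h.inn _ (by rwa [← dist_eq_norm]) x rfl

/-- a position whose black end is at distance `≥ r'` of `z` lies outside the disc of a cycle at radius `(r, r')` -/
theorem pvfl_at_not_mem {pos : V → ℂ} {z : ℂ} {r r' : ℝ} {c : T.Cyc} (h : PvaxAt T pos z r r' c) {x : D} (hx : r' ≤ dist (pos (T.src x)) z) : x ∉ c.Left := by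
  intro hm
  have := h.out _ ⟨x, hm, rfl⟩
  rw [← dist_eq_norm] at this
  exact absurd this (not_lt.2 hx)

/-- **many steps ⟹ many runs of one annulus of the net** -/
theorem pvfl_det (hT : T.IsSph) {pos : V → ℂ} {G : Finset ℂ} {a r₁ : ℝ} (ha : 0 < a) {ci co : ℂ → T.Cyc}
    (hi : ∀ g ∈ G, PvaxAt T pos g (a / 4) r₁ (ci g)) (ho : ∀ g ∈ G, PvaxAt T pos g r₁ (3 * a / 4) (co g)) {m : ℕ}
    (h : PvflMany T pos G a (G.card * m) s) : ∃ g ∈ G, m ≤ pvakR (ci g) (co g) s := by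
  classical
  obtain ⟨d, tend, hbw, hinj, hnet, hcnt⟩ := h
  obtain ⟨g, hg, hm⟩ := pvlv_cross_pigeon G tend hnet m hcnt
  obtain ⟨lo, hi', hp, hord⟩ := pvlv_cross_seq ha hm
  have hins : (ci g).Inside (co g) := pvax_at_inside hT (hi g hg) (ho g hg) (by simp)
  refine ⟨g, hg, pvfl_pieces hT hins.2 hbw hinj (lo := lo) (hi := hi') ?_ hord⟩
  intro j hj
  obtain ⟨b1, b2, b3, b4, -⟩ := hp j hj
  exact ⟨b1.le, b2, pvfl_at_mem (hi g hg) b3, pvfl_at_not_mem (ho g hg) b4⟩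

end det

/-! ## 5. THE FLAG, probability (quenched: fair colours on a finite set `A`, any background `ξ`) -/

section prob

variable {V D : Type} [DecidableEq V] {T : PvMap V D}

/-- **FLAG1**: `P(some strand makes |G| 2k steps) ≤ |G| (1-q)^k` -/
theorem pvfl_flag (hT : T.IsSph) {pos : V → ℂ} {G : Finset ℂ} {a r₁ : ℝ} (ha : 0 < a) {ci co : ℂ → T.Cyc}
    (hi : ∀ g ∈ G, PvaxAt T pos g (a / 4) r₁ (ci g)) (ho : ∀ g ∈ G, PvaxAt T pos g r₁ (3 * a / 4) (co g))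
    (A : Finset V) (ξ : V → Bool) {q : ℝ} (hq : ∀ g ∈ G, q ≤ pvaP A ξ (PvakCirc (ci g) (co g) false)) (k : ℕ) :
    pvaP A ξ (PvflMany T pos G a (G.card * (2 * k))) ≤ G.card * (1 - q) ^ k := by
  calc pvaP A ξ (PvflMany T pos G a (G.card * (2 * k))) ≤ pvaP A ξ (fun ω => ∃ g ∈ G, 2 * k ≤ pvakR (ci g) (co g) ω) :=
        pva_P_mono fun ω _ h => pvfl_det hT ha hi ho h
    _ ≤ ∑ g ∈ G, pvaP A ξ (fun ω => 2 * k ≤ pvakR (ci g) (co g) ω) := pva_P_exists_le A ξ G _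
    _ ≤ ∑ _g ∈ G, (1 - q) ^ k := Finset.sum_le_sum fun g hg =>
        pvak_tailR hT (pvax_at_inside hT (hi g hg) (ho g hg) (by simp)) A ξ (hq g hg) k
    _ = G.card * (1 - q) ^ k := by rw [Finset.sum_const, nsmul_eq_mul]

/-- the same for the strands of the exchanged colouring (backward stubs) -/
theorem pvfl_flag_not (hT : T.IsSph) {pos : V → ℂ} {G : Finset ℂ} {a r₁ : ℝ} (ha : 0 < a) {ci co : ℂ → T.Cyc}
    (hi : ∀ g ∈ G, PvaxAt T pos g (a / 4) r₁ (ci g)) (ho : ∀ g ∈ G, PvaxAt T pos g r₁ (3 * a / 4) (co g))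
    (A : Finset V) (ξ : V → Bool) {q : ℝ} (hq : ∀ g ∈ G, q ≤ pvaP A ξ (PvakCirc (ci g) (co g) false)) (k : ℕ) :
    pvaP A ξ (fun ω => PvflMany T pos G a (G.card * (2 * k)) (pvasNot ω)) ≤ G.card * (1 - q) ^ k := by
  calc pvaP A ξ (fun ω => PvflMany T pos G a (G.card * (2 * k)) (pvasNot ω)) ≤ pvaP A ξ (fun ω => ∃ g ∈ G, 2 * k ≤ pvakR (ci g) (co g) ω) :=
        pva_P_mono fun ω _ h => by
          obtain ⟨g, hg, hm⟩ := pvfl_det hT ha hi ho h
          exact ⟨g, hg, by rwa [pvfl_R_not] at hm⟩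
    _ ≤ ∑ g ∈ G, pvaP A ξ (fun ω => 2 * k ≤ pvakR (ci g) (co g) ω) := pva_P_exists_le A ξ G _
    _ ≤ ∑ _g ∈ G, (1 - q) ^ k := Finset.sum_le_sum fun g hg =>
        pvak_tailR hT (pvax_at_inside hT (hi g hg) (ho g hg) (by simp)) A ξ (hq g hg) k
    _ = G.card * (1 - q) ^ k := by rw [Finset.sum_const, nsmul_eq_mul]

/-- both directions at once (NO factor 2: the two events force the same count) -/
theorem pvfl_flag_both (hT : T.IsSph) {pos : V → ℂ} {G : Finset ℂ} {a r₁ : ℝ} (ha : 0 < a) {ci co : ℂ → T.Cyc}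
    (hi : ∀ g ∈ G, PvaxAt T pos g (a / 4) r₁ (ci g)) (ho : ∀ g ∈ G, PvaxAt T pos g r₁ (3 * a / 4) (co g))
    (A : Finset V) (ξ : V → Bool) {q : ℝ} (hq : ∀ g ∈ G, q ≤ pvaP A ξ (PvakCirc (ci g) (co g) false)) (k : ℕ) :
    pvaP A ξ (fun ω => PvflMany T pos G a (G.card * (2 * k)) ω ∨ PvflMany T pos G a (G.card * (2 * k)) (pvasNot ω)) ≤ G.card * (1 - q) ^ k := by
  calc pvaP A ξ (fun ω => PvflMany T pos G a (G.card * (2 * k)) ω ∨ PvflMany T pos G a (G.card * (2 * k)) (pvasNot ω))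
      ≤ pvaP A ξ (fun ω => ∃ g ∈ G, 2 * k ≤ pvakR (ci g) (co g) ω) :=
        pva_P_mono fun ω _ h => by
          rcases h with h | h
          · exact pvfl_det hT ha hi ho h
          · obtain ⟨g, hg, hm⟩ := pvfl_det hT ha hi ho h
            exact ⟨g, hg, by rwa [pvfl_R_not] at hm⟩
    _ ≤ ∑ g ∈ G, pvaP A ξ (fun ω => 2 * k ≤ pvakR (ci g) (co g) ω) := pva_P_exists_le A ξ G _
    _ ≤ ∑ _g ∈ G, (1 - q) ^ k := Finset.sum_le_sum fun g hg =>
        pvak_tailR hT (pvax_at_inside hT (hi g hg) (ho g hg) (by simp)) A ξ (hq g hg) k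
    _ = G.card * (1 - q) ^ k := by rw [Finset.sum_const, nsmul_eq_mul]

/-- blocking gives circuits: no black crossing = a white circuit -/
theorem pvfl_circ_of_blk (hT : T.IsSph) (hS : T.Simple) {c' c : T.Cyc} (h : c'.Inside c) (hfin : c.Left.Finite) {q : ℝ} (hb : PvaxBlk T c' c q)
    (A : Finset V) (ξ : V → Bool) (hA : ∀ v ∈ T.VOf (c'.Ann c), v ∈ A) (col : Bool) : q ≤ pvaP A ξ (PvakCirc c' c col) := by
  refine (hb A ξ (!col) hA).trans (pva_P_mono fun ω _ hn => ?_)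
  obtain ⟨c'', h1, h2, h3⟩ := (pvax_ncr_iff hT hS h hfin Set.univ (!col) ω).1 hn
  refine ⟨c'', fun v hv => ?_, h2, h3⟩
  have := h1 v hv
  by_contra hne
  apply this
  refine ⟨Set.mem_univ v, ?_⟩
  cases hω : ω v <;> cases col <;> simp_all

/-- **FLAG1 from blocking** -/
theorem pvfl_flag_blk (hT : T.IsSph) (hS : T.Simple) {pos : V → ℂ} {G : Finset ℂ} {a r₁ : ℝ} (ha : 0 < a) {ci co : ℂ → T.Cyc}
    (hi : ∀ g ∈ G, PvaxAt T pos g (a / 4) r₁ (ci g)) (ho : ∀ g ∈ G, PvaxAt T pos g r₁ (3 * a / 4) (co g))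
    {q : ℝ} (hb : ∀ g ∈ G, PvaxBlk T (ci g) (co g) q) (A : Finset V) (ξ : V → Bool) (hA : ∀ g ∈ G, ∀ v ∈ T.VOf ((ci g).Ann (co g)), v ∈ A) (k : ℕ) :
    pvaP A ξ (fun ω => PvflMany T pos G a (G.card * (2 * k)) ω ∨ PvflMany T pos G a (G.card * (2 * k)) (pvasNot ω)) ≤ G.card * (1 - q) ^ k :=
  pvfl_flag_both hT ha hi ho A ξ (fun g hg =>
    pvfl_circ_of_blk hT hS (pvax_at_inside hT (hi g hg) (ho g hg) (by simp)) (ho g hg).fin (hb g hg) A ξ (hA g hg) false) k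

/-- **FLAG1 from BXP(q)** between the radii `r₁` and `r₁` of every centre of the net -/
theorem pvfl_flag_bxp (hT : T.IsSph) (hS : T.Simple) {pos : V → ℂ} {G : Finset ℂ} {a r₁ : ℝ} (ha : 0 < a) {ci co : ℂ → T.Cyc}
    (hi : ∀ g ∈ G, PvaxAt T pos g (a / 4) r₁ (ci g)) (ho : ∀ g ∈ G, PvaxAt T pos g r₁ (3 * a / 4) (co g))
    {q : ℝ} (hb : ∀ g ∈ G, PvaxBxp T pos q g r₁ r₁) (A : Finset V) (ξ : V → Bool) (hA : ∀ g ∈ G, ∀ v ∈ T.VOf ((ci g).Ann (co g)), v ∈ A) (k : ℕ) :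
    pvaP A ξ (fun ω => PvflMany T pos G a (G.card * (2 * k)) ω ∨ PvflMany T pos G a (G.card * (2 * k)) (pvasNot ω)) ≤ G.card * (1 - q) ^ k :=
  pvfl_flag_blk hT hS ha hi ho (fun g hg => (pvax_at_blk hT (hi g hg) (ho g hg) (hb g hg) le_rfl).2) A ξ hA k

end prob

/-! ## 6. STUB FORM: the strand from a dart of a box up to its first exit of the box; an explicit net -/

section stub

variable {V D : Type} {T : PvMap V D}

/-- **the flag of a box**: some strand which starts in the box `pvlvBox T pos zc r` makes `n` steps of size `a` up to its first exit of the box -/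
def PvflStub (T : PvMap V D) (pos : V → ℂ) (zc : ℂ) (r a : ℝ) (n : ℕ) (s : V → Bool) : Prop :=
  ∃ (d : D) (tend : ℕ), pvasBW T s d ∧ d ∈ pvlvBox T pos zc r ∧ (∀ t, t < tend → pvasIt T s d t ∈ pvlvBox T pos zc r) ∧
    pvasIt T s d tend ∉ pvlvBox T pos zc r ∧ n ≤ pvlvCnt (pvlvZ T pos s d) a tend

/-- the grid of mesh `b`, `(2M+1)²` points, centre `zc` -/
noncomputable def pvflNet (zc : ℂ) (M : ℕ) (b : ℝ) : Finset ℂ :=
  ((Finset.Icc (-(M : ℤ)) M) ×ˢ (Finset.Icc (-(M : ℤ)) M)).image (fun p => zc + ⟨b * (p.1 : ℝ), b * (p.2 : ℝ)⟩)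

theorem pvfl_eqns_cite2 : True := by
  have := @PvflStub.eq_1; have := @pvflNet.eq_1
  trivial

theorem pvfl_box_src {pos : V → ℂ} {zc : ℂ} {r : ℝ} {x : D} (h : x ∈ pvlvBox T pos zc r) : pvlvRad zc (pos (T.src x)) ≤ r :=
  ((le_max_left _ _).trans (le_max_left _ _)).trans h

theorem pvfl_box_apex {pos : V → ℂ} {zc : ℂ} {r : ℝ} {x : D} (h : x ∈ pvlvBox T pos zc r) : pvlvRad zc (pos (T.apex x)) ≤ r :=
  (le_max_right _ _).trans h

/-- the black end of the next position is a vertex of the face of the present one -/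
theorem pvfl_box_step {pos : V → ℂ} {zc : ℂ} {r : ℝ} (s : V → Bool) {x : D} (h : x ∈ pvlvBox T pos zc r) : pvlvRad zc (pos (T.src (pvasStep T s x))) ≤ r := by
  rcases pvas_step_ends s x with ⟨-, e, -⟩ | ⟨-, e, -⟩
  · rw [e]; exact pvfl_box_apex h
  · rw [e]; exact pvfl_box_src h

/-- **a stub is a strand near every net of the box, and it does not close up** -/
theorem pvfl_stub {pos : V → ℂ} {zc : ℂ} {r a : ℝ} {n : ℕ} {s : V → Bool} {G : Finset ℂ} (hG : ∀ x : ℂ, pvlvRad zc x ≤ r → ∃ g ∈ G, dist x g ≤ a / 4)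
    (h : PvflStub T pos zc r a n s) : PvflMany T pos G a n s := by
  obtain ⟨d, tend, hbw, hd, h1, h2, h3⟩ := h
  refine ⟨d, tend, hbw, pvfl_inj_of_exit hbw h1 h2, fun t ht => hG _ ?_, h3⟩
  show pvlvRad zc (pos (T.src (pvasIt T s d t))) ≤ r
  rcases Nat.eq_zero_or_pos t with rfl | hpos
  · exact pvfl_box_src hd
  · obtain ⟨u, rfl⟩ : ∃ u, t = u + 1 := ⟨t - 1, by omega⟩
    rw [pvas_it_succ]
    exact pvfl_box_step s (h1 u (by omega))

theorem pvfl_net_card (zc : ℂ) (M : ℕ) (b : ℝ) : (pvflNet zc M b).card ≤ (2 * M + 1) ^ 2 := by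
  unfold pvflNet
  refine Finset.card_image_le.trans ?_
  rw [Finset.card_product, Int.card_Icc]
  have : ((M : ℤ) + 1 - -(M : ℤ)).toNat = 2 * M + 1 := by omega
  rw [this, sq]

theorem pvfl_round_mem {M : ℕ} {y : ℝ} (hy : |y| ≤ M) : round y ∈ Finset.Icc (-(M : ℤ)) M := by
  obtain ⟨h1, h2⟩ := abs_le.1 hy
  rw [Finset.mem_Icc, round_eq]
  constructor
  · rw [Int.le_floor]
    push_cast
    linarith
  · have : ⌊y + 1 / 2⌋ < (M : ℤ) + 1 := by
      rw [Int.floor_lt]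
      push_cast
      linarith
    omega

theorem pvfl_round_dist {b : ℝ} (hb : 0 < b) (u : ℝ) : |u - b * (round (u / b) : ℝ)| ≤ b / 2 := by
  have h := abs_sub_round (u / b)
  have e : u - b * (round (u / b) : ℝ) = b * (u / b - (round (u / b) : ℝ)) := by field_simp
  rw [e, abs_mul, abs_of_pos hb]
  nlinarith

/-- the grid is a `b`-net of the box of radius `b M` -/
theorem pvfl_net_cover {zc : ℂ} {M : ℕ} {b r : ℝ} (hb : 0 < b) (hr : r ≤ b * M) {x : ℂ} (hx : pvlvRad zc x ≤ r) : ∃ g ∈ pvflNet zc M b, dist x g ≤ b := by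
  have h1 : |(x - zc).re| ≤ b * M := ((le_max_left _ _).trans hx).trans hr
  have h2 : |(x - zc).im| ≤ b * M := ((le_max_right _ _).trans hx).trans hr
  have k : ∀ u : ℝ, |u| ≤ b * M → |u / b| ≤ M := by
    intro u hu
    rw [abs_div, abs_of_pos hb, div_le_iff₀ hb]
    linarith
  refine ⟨zc + ⟨b * (round ((x - zc).re / b) : ℝ), b * (round ((x - zc).im / b) : ℝ)⟩, ?_, ?_⟩
  · unfold pvflNet
    exact Finset.mem_image.2 ⟨(round ((x - zc).re / b), round ((x - zc).im / b)),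
      Finset.mem_product.2 ⟨pvfl_round_mem (k _ h1), pvfl_round_mem (k _ h2)⟩, rfl⟩
  · rw [Complex.dist_eq]
    refine (Complex.norm_le_abs_re_add_abs_im _).trans ?_
    have e1 : (x - (zc + ⟨b * (round ((x - zc).re / b) : ℝ), b * (round ((x - zc).im / b) : ℝ)⟩)).re = (x - zc).re - b * (round ((x - zc).re / b) : ℝ) := by
      simp only [Complex.sub_re, Complex.add_re]; ring
    have e2 : (x - (zc + ⟨b * (round ((x - zc).re / b) : ℝ), b * (round ((x - zc).im / b) : ℝ)⟩)).im = (x - zc).im - b * (round ((x - zc).im / b) : ℝ) := by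
      simp only [Complex.sub_im, Complex.add_im]; ring
    rw [e1, e2]
    have := pvfl_round_dist hb (x - zc).re
    have := pvfl_round_dist hb (x - zc).im
    linarith

end stub

section stubprob

variable {V D : Type} [DecidableEq V] {T : PvMap V D}

/-- **FLAG1 for the stubs of a box**, forward and backward, any net `G` of the box -/
theorem pvfl_flag_stub (hT : T.IsSph) (hS : T.Simple) {pos : V → ℂ} {zc : ℂ} {r : ℝ} {G : Finset ℂ} {a r₁ : ℝ} (ha : 0 < a)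
    (hG : ∀ x : ℂ, pvlvRad zc x ≤ r → ∃ g ∈ G, dist x g ≤ a / 4) {ci co : ℂ → T.Cyc}
    (hi : ∀ g ∈ G, PvaxAt T pos g (a / 4) r₁ (ci g)) (ho : ∀ g ∈ G, PvaxAt T pos g r₁ (3 * a / 4) (co g))
    {q : ℝ} (hb : ∀ g ∈ G, PvaxBlk T (ci g) (co g) q) (A : Finset V) (ξ : V → Bool) (hA : ∀ g ∈ G, ∀ v ∈ T.VOf ((ci g).Ann (co g)), v ∈ A) (k : ℕ) :
    pvaP A ξ (fun ω => PvflStub T pos zc r a (G.card * (2 * k)) ω ∨ PvflStub T pos zc r a (G.card * (2 * k)) (pvasNot ω)) ≤ G.card * (1 - q) ^ k :=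
  (pva_P_mono fun ω _ h => h.imp (pvfl_stub hG) (pvfl_stub hG)).trans (pvfl_flag_blk hT hS ha hi ho hb A ξ hA k)

/-- the same with the explicit grid: the constant `C = (2M+1)²`, `M ≥ 4r/a`, depends on `r/a` only -/
theorem pvfl_flag_grid (hT : T.IsSph) (hS : T.Simple) {pos : V → ℂ} {zc : ℂ} {r : ℝ} {M : ℕ} {a r₁ : ℝ} (ha : 0 < a) (hM : r ≤ a / 4 * M) {ci co : ℂ → T.Cyc}
    (hi : ∀ g ∈ pvflNet zc M (a / 4), PvaxAt T pos g (a / 4) r₁ (ci g)) (ho : ∀ g ∈ pvflNet zc M (a / 4), PvaxAt T pos g r₁ (3 * a / 4) (co g))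
    {q : ℝ} (hq1 : q ≤ 1) (hb : ∀ g ∈ pvflNet zc M (a / 4), PvaxBlk T (ci g) (co g) q) (A : Finset V) (ξ : V → Bool)
    (hA : ∀ g ∈ pvflNet zc M (a / 4), ∀ v ∈ T.VOf ((ci g).Ann (co g)), v ∈ A) (k : ℕ) :
    pvaP A ξ (fun ω => PvflStub T pos zc r a ((2 * M + 1) ^ 2 * (2 * k)) ω ∨ PvflStub T pos zc r a ((2 * M + 1) ^ 2 * (2 * k)) (pvasNot ω))
      ≤ ((2 * M + 1) ^ 2 : ℕ) * (1 - q) ^ k := by
  have hc := pvfl_net_card zc M (a / 4)
  have hmono : ∀ s : V → Bool, PvflStub T pos zc r a ((2 * M + 1) ^ 2 * (2 * k)) s → PvflStub T pos zc r a ((pvflNet zc M (a / 4)).card * (2 * k)) s := by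
    rintro s ⟨d, tend, h1, h2, h3, h4, h5⟩
    exact ⟨d, tend, h1, h2, h3, h4, (Nat.mul_le_mul_right _ hc).trans h5⟩
  refine (pva_P_mono fun ω _ h => h.imp (hmono _) (hmono _)).trans ?_
  refine (pvfl_flag_stub hT hS ha (fun x hx => pvfl_net_cover (by positivity) hM hx) hi ho hb A ξ hA k).trans ?_
  exact mul_le_mul_of_nonneg_right (by exact_mod_cast hc) (pow_nonneg (by linarith) k)

end stubprob

/-! ## 7. The same with a net of ANY radius `σ`; the radii of the cycles are parameters -/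

section detG

variable {V D : Type} {T : PvMap V D} {s : V → Bool}

/-- **THE FLAG, net of radius `σ`**: some strand of `s` makes `n` steps of size `a`, within `σ` of the net `G`, before it closes up -/
def PvflManyG (T : PvMap V D) (pos : V → ℂ) (G : Finset ℂ) (a σ : ℝ) (n : ℕ) (s : V → Bool) : Prop :=
  ∃ (d : D) (tend : ℕ), pvasBW T s d ∧ (∀ i j, i ≤ tend → j ≤ tend → pvasIt T s d i = pvasIt T s d j → i = j) ∧
    (∀ t, t ≤ tend → ∃ g ∈ G, dist (pvlvZ T pos s d t) g ≤ σ) ∧ n ≤ pvlvCnt (pvlvZ T pos s d) a tend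

theorem pvfl_eqns_cite3 : True := by
  have := @PvflManyG.eq_1
  trivial

theorem pvfl_manyG_quarter {pos : V → ℂ} {G : Finset ℂ} {a : ℝ} {n : ℕ} : PvflManyG T pos G a (a / 4) n s ↔ PvflMany T pos G a n s := Iff.rfl

theorem pvfl_manyG_mono {pos : V → ℂ} {G : Finset ℂ} {a σ : ℝ} {n n' : ℕ} (hn : n' ≤ n) (h : PvflManyG T pos G a σ n s) : PvflManyG T pos G a σ n' s := by
  obtain ⟨d, tend, h1, h2, h3, h4⟩ := h
  exact ⟨d, tend, h1, h2, h3, hn.trans h4⟩

theorem pvfl_manyG_net {pos : V → ℂ} {G G' : Finset ℂ} {a σ σ' : ℝ} {n : ℕ} (hG : G ⊆ G') (hσ : σ ≤ σ') (h : PvflManyG T pos G a σ n s) : PvflManyG T pos G' a σ' n s := by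
  obtain ⟨d, tend, h1, h2, h3, h4⟩ := h
  exact ⟨d, tend, h1, h2, fun t ht => by obtain ⟨g, hg, hd⟩ := h3 t ht; exact ⟨g, hG hg, hd.trans hσ⟩, h4⟩

/-- **many steps ⟹ many runs of one annulus of the net**, radii as parameters -/
theorem pvfl_detG (hT : T.IsSph) {pos : V → ℂ} {G : Finset ℂ} {a σ r₁ R₁ : ℝ} (ha : 0 < a) (hrR : r₁ ≤ R₁) {ci co : ℂ → T.Cyc}
    (hi : ∀ g ∈ G, PvaxAt T pos g σ r₁ (ci g)) (ho : ∀ g ∈ G, PvaxAt T pos g R₁ (a - σ) (co g)) {m : ℕ}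
    (h : PvflManyG T pos G a σ (G.card * m) s) : ∃ g ∈ G, m ≤ pvakR (ci g) (co g) s := by
  classical
  obtain ⟨d, tend, hbw, hinj, hnet, hcnt⟩ := h
  obtain ⟨g, hg, hm⟩ := pvlv_crossG_pigeon G tend hnet m hcnt
  obtain ⟨lo, hi', hp, hord⟩ := pvlv_crossG_seq ha hm
  have hins : (ci g).Inside (co g) := pvax_at_inside hT (hi g hg) (ho g hg) (by simpa using hrR)
  refine ⟨g, hg, pvfl_pieces hT hins.2 hbw hinj (lo := lo) (hi := hi') ?_ hord⟩
  intro j hj
  obtain ⟨b1, b2, b3, b4, -⟩ := hp j hj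
  exact ⟨b1.le, b2, pvfl_at_mem (hi g hg) b3, pvfl_at_not_mem (ho g hg) b4⟩

/-- **a stub is a strand near every net of the box, and it does not close up** -/
theorem pvfl_stubG {pos : V → ℂ} {zc : ℂ} {r a σ : ℝ} {n : ℕ} {G : Finset ℂ} (hG : ∀ x : ℂ, pvlvRad zc x ≤ r → ∃ g ∈ G, dist x g ≤ σ)
    (h : PvflStub T pos zc r a n s) : PvflManyG T pos G a σ n s := by
  obtain ⟨d, tend, hbw, hd, h1, h2, h3⟩ := h
  refine ⟨d, tend, hbw, pvfl_inj_of_exit hbw h1 h2, fun t ht => hG _ ?_, h3⟩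
  show pvlvRad zc (pos (T.src (pvasIt T s d t))) ≤ r
  rcases Nat.eq_zero_or_pos t with rfl | hpos
  · exact pvfl_box_src hd
  · obtain ⟨u, rfl⟩ : ∃ u, t = u + 1 := ⟨t - 1, by omega⟩
    rw [pvas_it_succ]
    exact pvfl_box_step s (h1 u (by omega))

theorem pvfl_stub_mono {pos : V → ℂ} {zc : ℂ} {r a : ℝ} {n n' : ℕ} (hn : n' ≤ n) (h : PvflStub T pos zc r a n s) : PvflStub T pos zc r a n' s := by
  obtain ⟨d, tend, h1, h2, h3, h4, h5⟩ := h
  exact ⟨d, tend, h1, h2, h3, h4, hn.trans h5⟩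

end detG

section probG

variable {V D : Type} [DecidableEq V] {T : PvMap V D}

/-- **FLAG1**, both directions at once, radii as parameters -/
theorem pvfl_flagG_both (hT : T.IsSph) {pos : V → ℂ} {G : Finset ℂ} {a σ r₁ R₁ : ℝ} (ha : 0 < a) (hrR : r₁ ≤ R₁) {ci co : ℂ → T.Cyc}
    (hi : ∀ g ∈ G, PvaxAt T pos g σ r₁ (ci g)) (ho : ∀ g ∈ G, PvaxAt T pos g R₁ (a - σ) (co g))
    (A : Finset V) (ξ : V → Bool) {q : ℝ} (hq : ∀ g ∈ G, q ≤ pvaP A ξ (PvakCirc (ci g) (co g) false)) (k : ℕ) :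
    pvaP A ξ (fun ω => PvflManyG T pos G a σ (G.card * (2 * k)) ω ∨ PvflManyG T pos G a σ (G.card * (2 * k)) (pvasNot ω)) ≤ G.card * (1 - q) ^ k := by
  calc pvaP A ξ (fun ω => PvflManyG T pos G a σ (G.card * (2 * k)) ω ∨ PvflManyG T pos G a σ (G.card * (2 * k)) (pvasNot ω))
      ≤ pvaP A ξ (fun ω => ∃ g ∈ G, 2 * k ≤ pvakR (ci g) (co g) ω) :=
        pva_P_mono fun ω _ h => by
          rcases h with h | h
          · exact pvfl_detG hT ha hrR hi ho h
          · obtain ⟨g, hg, hm⟩ := pvfl_detG hT ha hrR hi ho h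
            exact ⟨g, hg, by rwa [pvfl_R_not] at hm⟩
    _ ≤ ∑ g ∈ G, pvaP A ξ (fun ω => 2 * k ≤ pvakR (ci g) (co g) ω) := pva_P_exists_le A ξ G _
    _ ≤ ∑ _g ∈ G, (1 - q) ^ k := Finset.sum_le_sum fun g hg =>
        pvak_tailR hT (pvax_at_inside hT (hi g hg) (ho g hg) (by simpa using hrR)) A ξ (hq g hg) k
    _ = G.card * (1 - q) ^ k := by rw [Finset.sum_const, nsmul_eq_mul]

/-- **FLAG1 from blocking**, radii as parameters -/
theorem pvfl_flagG_blk (hT : T.IsSph) (hS : T.Simple) {pos : V → ℂ} {G : Finset ℂ} {a σ r₁ R₁ : ℝ} (ha : 0 < a) (hrR : r₁ ≤ R₁) {ci co : ℂ → T.Cyc}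
    (hi : ∀ g ∈ G, PvaxAt T pos g σ r₁ (ci g)) (ho : ∀ g ∈ G, PvaxAt T pos g R₁ (a - σ) (co g))
    {q : ℝ} (hb : ∀ g ∈ G, PvaxBlk T (ci g) (co g) q) (A : Finset V) (ξ : V → Bool) (hA : ∀ g ∈ G, ∀ v ∈ T.VOf ((ci g).Ann (co g)), v ∈ A) (k : ℕ) :
    pvaP A ξ (fun ω => PvflManyG T pos G a σ (G.card * (2 * k)) ω ∨ PvflManyG T pos G a σ (G.card * (2 * k)) (pvasNot ω)) ≤ G.card * (1 - q) ^ k :=
  pvfl_flagG_both hT ha hrR hi ho A ξ (fun g hg =>
    pvfl_circ_of_blk hT hS (pvax_at_inside hT (hi g hg) (ho g hg) (by simpa using hrR)) (ho g hg).fin (hb g hg) A ξ (hA g hg) false) k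

/-- **FLAG1 from BXP(q)** between the radii `r₁` and `R₁` of every centre of the net -/
theorem pvfl_flagG_bxp (hT : T.IsSph) (hS : T.Simple) {pos : V → ℂ} {G : Finset ℂ} {a σ r₁ R₁ : ℝ} (ha : 0 < a) (hrR : r₁ ≤ R₁) {ci co : ℂ → T.Cyc}
    (hi : ∀ g ∈ G, PvaxAt T pos g σ r₁ (ci g)) (ho : ∀ g ∈ G, PvaxAt T pos g R₁ (a - σ) (co g))
    {q : ℝ} (hb : ∀ g ∈ G, PvaxBxp T pos q g r₁ R₁) (A : Finset V) (ξ : V → Bool) (hA : ∀ g ∈ G, ∀ v ∈ T.VOf ((ci g).Ann (co g)), v ∈ A) (k : ℕ) :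
    pvaP A ξ (fun ω => PvflManyG T pos G a σ (G.card * (2 * k)) ω ∨ PvflManyG T pos G a σ (G.card * (2 * k)) (pvasNot ω)) ≤ G.card * (1 - q) ^ k :=
  pvfl_flagG_blk hT hS ha hrR hi ho (fun g hg => (pvax_at_blk hT (hi g hg) (ho g hg) (hb g hg) hrR).2) A ξ hA k

/-- **FLAG1 for the stubs of a box**, forward and backward, any `σ`-net `G` of the box -/
theorem pvfl_flagG_stub (hT : T.IsSph) (hS : T.Simple) {pos : V → ℂ} {zc : ℂ} {r : ℝ} {G : Finset ℂ} {a σ r₁ R₁ : ℝ} (ha : 0 < a) (hrR : r₁ ≤ R₁)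
    (hG : ∀ x : ℂ, pvlvRad zc x ≤ r → ∃ g ∈ G, dist x g ≤ σ) {ci co : ℂ → T.Cyc}
    (hi : ∀ g ∈ G, PvaxAt T pos g σ r₁ (ci g)) (ho : ∀ g ∈ G, PvaxAt T pos g R₁ (a - σ) (co g))
    {q : ℝ} (hb : ∀ g ∈ G, PvaxBxp T pos q g r₁ R₁) (A : Finset V) (ξ : V → Bool) (hA : ∀ g ∈ G, ∀ v ∈ T.VOf ((ci g).Ann (co g)), v ∈ A) (k : ℕ) :
    pvaP A ξ (fun ω => PvflStub T pos zc r a (G.card * (2 * k)) ω ∨ PvflStub T pos zc r a (G.card * (2 * k)) (pvasNot ω)) ≤ G.card * (1 - q) ^ k :=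
  (pva_P_mono fun ω _ h => h.imp (pvfl_stubG hG) (pvfl_stubG hG)).trans (pvfl_flagG_bxp hT hS ha hrR hi ho hb A ξ hA k)

/-- the same with the explicit grid of mesh `σ`: the constant `C = (2M+1)²`, `M ≥ r/σ` -/
theorem pvfl_flagG_grid (hT : T.IsSph) (hS : T.Simple) {pos : V → ℂ} {zc : ℂ} {r : ℝ} {M : ℕ} {a σ r₁ R₁ : ℝ} (ha : 0 < a) (hσ : 0 < σ) (hrR : r₁ ≤ R₁) (hM : r ≤ σ * M)
    {ci co : ℂ → T.Cyc} (hi : ∀ g ∈ pvflNet zc M σ, PvaxAt T pos g σ r₁ (ci g)) (ho : ∀ g ∈ pvflNet zc M σ, PvaxAt T pos g R₁ (a - σ) (co g))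
    {q : ℝ} (hq1 : q ≤ 1) (hb : ∀ g ∈ pvflNet zc M σ, PvaxBxp T pos q g r₁ R₁) (A : Finset V) (ξ : V → Bool)
    (hA : ∀ g ∈ pvflNet zc M σ, ∀ v ∈ T.VOf ((ci g).Ann (co g)), v ∈ A) (k : ℕ) :
    pvaP A ξ (fun ω => PvflStub T pos zc r a ((2 * M + 1) ^ 2 * (2 * k)) ω ∨ PvflStub T pos zc r a ((2 * M + 1) ^ 2 * (2 * k)) (pvasNot ω))
      ≤ ((2 * M + 1) ^ 2 : ℕ) * (1 - q) ^ k := by
  have hc := pvfl_net_card zc M σ
  have hmono : ∀ s : V → Bool, PvflStub T pos zc r a ((2 * M + 1) ^ 2 * (2 * k)) s → PvflStub T pos zc r a ((pvflNet zc M σ).card * (2 * k)) s :=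
    fun s => pvfl_stub_mono (Nat.mul_le_mul_right _ hc)
  refine (pva_P_mono fun ω _ h => h.imp (hmono _) (hmono _)).trans ?_
  refine (pvfl_flagG_stub hT hS ha hrR (fun x hx => pvfl_net_cover hσ hM hx) hi ho hb A ξ hA k).trans ?_
  exact mul_le_mul_of_nonneg_right (by exact_mod_cast hc) (pow_nonneg (by linarith) k)

end probG

/-! ## 8. THE FRAME FORM on the Delaunay plane of a site set -/

section frame

open Classical in
/-- **FLAG1 ON A FRAME**: `G` a `σ`-net of the box, `21 σ ≤ a`, frame at the centres of the net with the radii `σ`, `16 σ` -/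
theorem pvfl_flag_frame {q : ℝ} {Y : Set ℂ} {G : Finset ℂ} {σ a : ℝ} (hσ : 0 < σ) (h21 : 21 * σ ≤ a) (hF : PvaxFrame q G {σ, 16 * σ} Y) (h : DelGood Y)
    {zc : ℂ} {r : ℝ} (hG : ∀ x : ℂ, pvlvRad zc x ≤ r → ∃ g ∈ G, dist x g ≤ σ) (A : Finset Y) (ξ : Y → Bool)
    (hA : ∀ g ∈ G, ∀ v : Y, ‖dlsPos Y v - g‖ < 20 * σ → v ∈ A) (k : ℕ) :
    pvaP A ξ (fun ω => PvflStub (delMap h) (dlsPos Y) zc r a (G.card * (2 * k)) ω ∨ PvflStub (delMap h) (dlsPos Y) zc r a (G.card * (2 * k)) (pvasNot ω))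
      ≤ G.card * (1 - q) ^ k := by
  have hT : (delMap h).IsSph := dls_isSph h
  have hS : (delMap h).Simple := dls_simple h
  have m1 : σ ∈ ({σ, 16 * σ} : Finset ℝ) := by simp
  have m2 : 16 * σ ∈ ({σ, 16 * σ} : Finset ℝ) := by simp
  by_cases hne : G.Nonempty
  · obtain ⟨g₀, hg₀⟩ := hne
    obtain ⟨c₀, -⟩ := (pvax_frame_spec hF h hg₀ m1).1
    have hex1 : ∀ g, ∃ c : (delMap h).Cyc, g ∈ G → PvaxAt (delMap h) (dlsPos Y) g σ (5 / 4 * σ) c := by
      intro g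
      by_cases hg : g ∈ G
      · obtain ⟨c, hc⟩ := (pvax_frame_spec hF h hg m1).1
        exact ⟨c, fun _ => hc⟩
      · exact ⟨c₀, fun h' => absurd h' hg⟩
    have hex2 : ∀ g, ∃ c : (delMap h).Cyc, g ∈ G → PvaxAt (delMap h) (dlsPos Y) g (16 * σ) (5 / 4 * (16 * σ)) c := by
      intro g
      by_cases hg : g ∈ G
      · obtain ⟨c, hc⟩ := (pvax_frame_spec hF h hg m2).1
        exact ⟨c, fun _ => hc⟩
      · exact ⟨c₀, fun h' => absurd h' hg⟩
    choose ci hci using hex1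
    choose co hco using hex2
    refine pvfl_flagG_stub hT hS (r₁ := 5 / 4 * σ) (R₁ := 16 * σ) (by linarith) (by linarith) hG (ci := ci) (co := co) hci
      (fun g hg => pvax_at_mono (hco g hg) le_rfl (by linarith))
      (fun g hg => pvax_bxp_mono (pvax_frame_spec hF h hg m1).2 le_rfl (by linarith)) A ξ ?_ k
    intro g hg v hv
    refine hA g hg v ?_
    obtain ⟨x, hx, rfl⟩ := hv
    have := (hco g hg).out _ ⟨x, hx.1, rfl⟩
    linarith
  · -- an empty net: no stub at all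
    rw [Finset.not_nonempty_iff_eq_empty] at hne
    subst hne
    have h0 : pvaP A ξ (fun ω => PvflStub (delMap h) (dlsPos Y) zc r a ((∅ : Finset ℂ).card * (2 * k)) ω ∨
        PvflStub (delMap h) (dlsPos Y) zc r a ((∅ : Finset ℂ).card * (2 * k)) (pvasNot ω)) ≤ pvaP A ξ (fun _ => False) := by
      refine pva_P_mono fun ω _ hh => ?_
      rcases hh with ⟨d, tend, -, hd, -⟩ | ⟨d, tend, -, hd, -⟩
      · obtain ⟨g, hg, -⟩ := hG _ (pvfl_box_src hd)
        simp at hg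
      · obtain ⟨g, hg, -⟩ := hG _ (pvfl_box_src hd)
        simp at hg
    refine h0.trans ?_
    simp [pva_P_false]

open Classical in
/-- the same with the explicit grid of mesh `σ` -/
theorem pvfl_flag_frame_grid {q : ℝ} (hq1 : q ≤ 1) {Y : Set ℂ} {σ a : ℝ} (hσ : 0 < σ) (h21 : 21 * σ ≤ a) {zc : ℂ} {r : ℝ} {M : ℕ} (hM : r ≤ σ * M)
    (hF : PvaxFrame q (pvflNet zc M σ) {σ, 16 * σ} Y) (h : DelGood Y) (A : Finset Y) (ξ : Y → Bool)
    (hA : ∀ g ∈ pvflNet zc M σ, ∀ v : Y, ‖dlsPos Y v - g‖ < 20 * σ → v ∈ A) (k : ℕ) :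
    pvaP A ξ (fun ω => PvflStub (delMap h) (dlsPos Y) zc r a ((2 * M + 1) ^ 2 * (2 * k)) ω ∨ PvflStub (delMap h) (dlsPos Y) zc r a ((2 * M + 1) ^ 2 * (2 * k)) (pvasNot ω))
      ≤ ((2 * M + 1) ^ 2 : ℕ) * (1 - q) ^ k := by
  have hc := pvfl_net_card zc M σ
  refine (pva_P_mono fun ω _ hh => hh.imp (pvfl_stub_mono (Nat.mul_le_mul_right _ hc)) (pvfl_stub_mono (Nat.mul_le_mul_right _ hc))).trans ?_
  refine (pvfl_flag_frame hσ h21 hF h (fun x hx => pvfl_net_cover hσ hM hx) A ξ hA k).trans ?_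
  exact mul_le_mul_of_nonneg_right (by exact_mod_cast hc) (pow_nonneg (by linarith) k)

end frame

end Claimed.Agent.R289
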