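-- KEEP
import Claimed.Agent.R289.Tr.Flag
import Claimed.Agent.R289.Tr.PinLocB
import Claimed.Agent.R289.Del.Bulk
import Claimed.Agent.R289.Arm.BxpPv

/-!
# Row 289 (S0537, Cardy for Poisson-Voronoi), WALL, block WB5 HOOK / chapter C (X4 = FLAG COSTS), file Tr/FlagA : FLAG1 IN MARKS FORM, LOCALITY, QUENCHED COST ON THE FRAME EVENT, GENERIC ANNEALING OF LOCAL PREDICATES      (helper235; prefix `pvfa_`, defs `pvfa…`, `Pvfa…`)

WHY.   A static flag of the Peierls step of chapter C (A6 of 281, roof of 12) must be (a) read from a window, (b) of small probability under the JOINT law: it must be jointly measurable.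
The only producer of (a) + measurability is `pvpl_main` (238, `Tr/PinLoc`): predicates on MARKED coloured maps with COUNTABLY many marks `θ : ℂ → κ`, invariant under local isomorphisms (`PvplPred.Local`).
`PvflStub` of `Tr/Flag` (16) reads real distances: not of this form.   Moreover the only producer of blocking (`pvax_bxp`, `PvaxFrame` of `Arm/BxpPv`, 196) needs annuli of ratio `≥ 10`.

* sec.1  **`pvfa_cnt_le`** COMPARISON: the number of `a`-steps of a walk `z` is at most the number of `a'`-steps of any walk `z'` (other metric space) such that `a ≤ dist (z t) (z u) → 2 a' ≤ dist (z' t) (z' u)`.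
         So the STATE may count its steps with real positions (mid points, black ends, …) and the FLAG with cells.
* sec.2  MARKS `mk : V → ℤ × ℤ` (the cell of mesh `λ` of the position), sup metric of `ℤ × ℤ`.   `pvfaBox T mk B` = faces with three marks in `B`;   **`PvfaFlag T mk B a n s`** = some strand of `s` makes `n` steps of size `a` (cells) inside the box, before it closes up.
* sec.3  LOCALITY: **`pvfa_flag_local`** : `PvplPred.Local` at `K ⊇ B` (transfer of strands along `PvplRD`), also for the exchanged colouring (`pvfa_flag_local_not`), `pvfa_flag1_local`.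
* sec.4  DETERMINISTIC: `|B| m` steps ⟹ `m ≤ pvakR (ci g) (co g) s` for one cell `g ∈ B` (net = the cells themselves, `σ = 0` in `pvlv_crossG_pigeon`).
* sec.5  QUENCHED COST: **`pvfa_cost_blk`**, `pvfa_cost_bxp` : `pvaP A ξ (FLAG1 (|B| 2k)) ≤ |B| (1-q)^k`;
         sec.5b grid marks `pvplGrid l` (238), places `pvfaPl l g`, **`pvfa_cost_frame`** : the same on `PvaxFrame q (places of B) {2l, 32l}` for steps of `a ≥ 41` cells.
* sec.6  **GENERIC ANNEALING** (for EVERY static flag, both roads): `pvfa_local_dep` (a local predicate reads the colours of the faces with a vertex marked in `K`), `pvfa_plane_iff` (`delbPl` of 219 = `delMap` of 271),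
         `pvfa_quench` (`pvQc B g ≤ p` at a good geometry), **`pvfa_anneal`** : `B` measurable, `PvplRep θ Φ K E ρ B`, quenched cost `≤ p` on every Delaunay plane with `Γ` and mesh  ⟹  `pvP ε B ≤ p + pvGeo ε {not (Γ and mesh)}` (outer measure of the bad geometries: NO measurability of `Γ`).
* sec.7  **`pvfa_flag1_exit`** : `PvaxQbx q` ⟹ ONE measurable event `𝔹` of unit scale, read from `closedBall 0 rE ×ˢ univ`, which represents FLAG1 (`PvplRep`), with `pvP ε 𝔹 ≤ |B| (1-q)^k + e ε`, `e → 0`;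
         `pvfa_law_at`, `pvfa_tendsto_at` : its copies at all centres `z` and scales `h` (`cfMap (vorSim h⁻¹ (-h⁻¹ z)) ⁻¹' 𝔹`, `PvplRep.sim` of 238): the same bound, UNIFORM in `z`.
CONSUMERS: (X4) of the roof of PINS (12, `Exit/Pins`), E12 / E18 of `W1_208_v3.md`;   FLAG2, FLAG4 and the flags of road P: prove `Φ.Local K` + the quenched cost, then cite `pvfa_anneal`.
-/

set_option autoImplicit false
set_option linter.unusedSectionVars false
set_option linter.unusedVariables false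

namespace Claimed.Agent.R289

open Relation

/-! ## 1. Comparison of the numbers of steps of two walks -/

section cmp

variable {E E' : Type} [PseudoMetricSpace E] [PseudoMetricSpace E']

/-- a step of `z` contains a step time of `z'` -/
theorem pvfa_step_in {z : ℕ → E} {z' : ℕ → E'} {a a' : ℝ} (ha' : 0 < a') (hcmp : ∀ t u, a ≤ dist (z t) (z u) → 2 * a' ≤ dist (z' t) (z' u)) {t : ℕ}
    (ht : pvlvStep z a t) : ∃ t', pvlvAnc z a (t - 1) < t' ∧ t' ≤ t ∧ pvlvStep z' a' t' := by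
  by_contra hno
  push Not at hno
  obtain ⟨u, rfl, hu⟩ := ht
  rw [Nat.add_sub_cancel] at hno
  have h1 := hcmp _ _ hu
  have h2 := pvlv_window (z := z') ha' (t₁ := pvlvAnc z a u) (t₂ := u + 1) (fun t h1 h2 h3 => hno t h1 h2 h3) (t := u + 1) (t' := pvlvAnc z a u)
    ((pvlv_anc_le u).trans (Nat.le_succ u)) le_rfl le_rfl ((pvlv_anc_le u).trans (Nat.le_succ u))
  linarith

/-- **COMPARISON** -/
theorem pvfa_cnt_le {z : ℕ → E} {z' : ℕ → E'} {a a' : ℝ} (ha' : 0 < a') (hcmp : ∀ t u, a ≤ dist (z t) (z u) → 2 * a' ≤ dist (z' t) (z' u)) (T : ℕ) :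
    pvlvCnt z a T ≤ pvlvCnt z' a' T := by
  classical
  have hch : ∀ t, t ∈ pvlvSteps z a T → ∃ t', pvlvAnc z a (t - 1) < t' ∧ t' ≤ t ∧ pvlvStep z' a' t' := fun t ht => pvfa_step_in ha' hcmp (pvlv_mem_steps.1 ht).2
  let f : ℕ → ℕ := fun t => if ht : t ∈ pvlvSteps z a T then Classical.choose (hch t ht) else 0
  have hf : ∀ t, t ∈ pvlvSteps z a T → pvlvAnc z a (t - 1) < f t ∧ f t ≤ t ∧ pvlvStep z' a' (f t) := by
    intro t ht
    have : f t = Classical.choose (hch t ht) := dif_pos ht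
    rw [this]
    exact Classical.choose_spec (hch t ht)
  have hlt : ∀ t₁ t₂, t₁ ∈ pvlvSteps z a T → t₂ ∈ pvlvSteps z a T → t₁ < t₂ → f t₁ < f t₂ := by
    intro t₁ t₂ h1 h2 h12
    exact lt_of_le_of_lt ((hf t₁ h1).2.1.trans (pvlv_step_disj (pvlv_mem_steps.1 h1).2 h12)) (hf t₂ h2).1
  unfold pvlvCnt
  refine Finset.card_le_card_of_injOn f ?_ ?_
  · intro t ht
    have ht' : t ∈ pvlvSteps z a T := ht
    exact Finset.mem_coe.2 (pvlv_mem_steps.2 ⟨(hf t ht').2.1.trans (pvlv_mem_steps.1 ht').1, (hf t ht').2.2⟩)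
  · intro t₁ h1 t₂ h2 e
    rcases Nat.lt_trichotomy t₁ t₂ with h | h | h
    · exact absurd e (hlt t₁ t₂ h1 h2 h).ne
    · exact h
    · exact absurd e.symm (hlt t₂ t₁ h2 h1 h).ne

end cmp

/-! ## 2. Marks, boxes of cells, the flag -/

section marks

variable {V D : Type}

/-- the faces whose three vertices have their marks in `B` -/
def pvfaBox {κ : Type} (T : PvMap V D) (mk : V → κ) (B : Set κ) : Set D := {d | mk (T.src d) ∈ B ∧ mk (T.tgt d) ∈ B ∧ mk (T.apex d) ∈ B}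

/-- the mark of the black end of the position number `t` -/
def pvfaZ {κ : Type} (T : PvMap V D) (mk : V → κ) (s : V → Bool) (d : D) (t : ℕ) : κ := mk (T.src (pvasIt T s d t))

/-- **FLAG1 IN MARKS FORM**: some strand of `s` makes `n` steps of size `a` (in the metric of the marks) through faces of the box `B`, before it closes up -/
def PvfaFlag {κ : Type} [PseudoMetricSpace κ] (T : PvMap V D) (mk : V → κ) (B : Set κ) (a : ℝ) (n : ℕ) (s : V → Bool) : Prop :=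
  ∃ (d : D) (tend : ℕ), 0 < tend ∧ pvasBW T s d ∧ (∀ t, t < tend → pvasIt T s d t ∈ pvfaBox T mk B) ∧
    (∀ i j, i ≤ tend → j ≤ tend → pvasIt T s d i = pvasIt T s d j → i = j) ∧ n ≤ pvlvCnt (pvfaZ T mk s d) a tend

/-- both hands: forward stubs (strands of `s`) and backward stubs (strands of `pvasNot s`) -/
def PvfaFlag1 {κ : Type} [PseudoMetricSpace κ] (T : PvMap V D) (mk : V → κ) (B : Set κ) (a : ℝ) (n : ℕ) (s : V → Bool) : Prop :=
  PvfaFlag T mk B a n s ∨ PvfaFlag T mk B a n (pvasNot s)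

theorem pvfa_eqns_cite : True := by
  have := @pvfaBox.eq_1; have := @pvfaZ.eq_1; have := @PvfaFlag.eq_1; have := @PvfaFlag1.eq_1
  trivial

variable {κ : Type} {T : PvMap V D} {mk : V → κ} {B : Set κ} {s : V → Bool}

theorem pvfa_box_nxt {d : D} : T.nxt d ∈ pvfaBox T mk B ↔ d ∈ pvfaBox T mk B := by
  unfold pvfaBox
  show (mk (T.src (T.nxt d)) ∈ B ∧ mk (T.tgt (T.nxt d)) ∈ B ∧ mk (T.apex (T.nxt d)) ∈ B) ↔ (mk (T.src d) ∈ B ∧ mk (T.tgt d) ∈ B ∧ mk (T.apex d) ∈ B)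
  rw [T.src_nxt, T.tgt_nxt, T.apex_nxt]
  tauto

theorem pvfa_box_face : T.FaceSet (pvfaBox T mk B) := fun _ => pvfa_box_nxt

theorem pvfa_box_mono {B' : Set κ} (h : B ⊆ B') : pvfaBox T mk B ⊆ pvfaBox T mk B' := fun _ hd => ⟨h hd.1, h hd.2.1, h hd.2.2⟩

/-- the black end of the next position is a vertex of the face of the present one -/
theorem pvfa_box_step (s : V → Bool) {x : D} (h : x ∈ pvfaBox T mk B) : mk (T.src (pvasStep T s x)) ∈ B := by
  rcases pvas_step_ends s x with ⟨-, e, -⟩ | ⟨-, e, -⟩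
  · rw [e]; exact h.2.2
  · rw [e]; exact h.1

/-- all the black ends of the positions `0..tend` have their marks in the box -/
theorem pvfa_Z_mem {d : D} {tend : ℕ} (h0 : 0 < tend) (h : ∀ t, t < tend → pvasIt T s d t ∈ pvfaBox T mk B) {t : ℕ} (ht : t ≤ tend) : pvfaZ T mk s d t ∈ B := by
  rcases Nat.eq_zero_or_pos t with rfl | hpos
  · exact (h 0 h0).1
  · obtain ⟨u, rfl⟩ : ∃ u, t = u + 1 := ⟨t - 1, by omega⟩
    show mk (T.src (pvasIt T s d (u + 1))) ∈ B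
    rw [pvas_it_succ]
    exact pvfa_box_step s (h u (by omega))

variable [PseudoMetricSpace κ] {a : ℝ} {n : ℕ}

theorem pvfa_flag_mono {n' : ℕ} (hn : n' ≤ n) (h : PvfaFlag T mk B a n s) : PvfaFlag T mk B a n' s := by
  obtain ⟨d, tend, h0, h1, h2, h3, h4⟩ := h
  exact ⟨d, tend, h0, h1, h2, h3, hn.trans h4⟩

theorem pvfa_flag_box {B' : Set κ} (hB : B ⊆ B') (h : PvfaFlag T mk B a n s) : PvfaFlag T mk B' a n s := by
  obtain ⟨d, tend, h0, h1, h2, h3, h4⟩ := h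
  exact ⟨d, tend, h0, h1, fun t ht => pvfa_box_mono hB (h2 t ht), h3, h4⟩

theorem pvfa_flag1_mono {n' : ℕ} (hn : n' ≤ n) (h : PvfaFlag1 T mk B a n s) : PvfaFlag1 T mk B a n' s :=
  h.imp (pvfa_flag_mono hn) (pvfa_flag_mono hn)

theorem pvfa_flag1_not : PvfaFlag1 T mk B a n (pvasNot s) ↔ PvfaFlag1 T mk B a n s := by
  unfold PvfaFlag1
  rw [pvas_not_not]
  exact or_comm

/-- **STUB FORM (consumer)**: a strand from `d` whose positions `0..tend-1` are faces of the box and which leaves a set `S` of darts for the first time at `tend`;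
its steps are counted with ANY walk `z` (real positions) comparable with the marks: `n ≤ N_z(a₀)` raises the flag -/
theorem pvfa_of_stub {E : Type} [PseudoMetricSpace E] {d : D} {tend : ℕ} {S : Set D} (h0 : 0 < tend) (hbw : pvasBW T s d) (hbox : ∀ t, t < tend → pvasIt T s d t ∈ pvfaBox T mk B)
    (hS : ∀ t, t < tend → pvasIt T s d t ∈ S) (hout : pvasIt T s d tend ∉ S) {z : ℕ → E} {a₀ : ℝ} (ha : 0 < a)
    (hcmp : ∀ t u, a₀ ≤ dist (z t) (z u) → 2 * a ≤ dist (pvfaZ T mk s d t) (pvfaZ T mk s d u)) (hn : n ≤ pvlvCnt z a₀ tend) : PvfaFlag T mk B a n s :=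
  ⟨d, tend, h0, hbw, hbox, pvfl_inj_of_exit hbw hS hout, hn.trans (pvfa_cnt_le ha hcmp tend)⟩

end marks

/-! ## 3. Locality: the flag is read at the vertices with a mark in the box -/

section congr

variable {E : Type} [PseudoMetricSpace E] {z z' : ℕ → E} {a : ℝ} {T : ℕ}

theorem pvfa_anc_congr (h : ∀ t, t ≤ T → z t = z' t) : ∀ t, t ≤ T → pvlvAnc z a t = pvlvAnc z' a t := by
  intro t
  induction t with
  | zero => exact fun _ => rfl
  | succ t ih =>
    intro ht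
    rw [pvlv_anc_succ, pvlv_anc_succ, ih (by omega), h (t + 1) ht, h (pvlvAnc z' a t) ((pvlv_anc_le t).trans (by omega))]

theorem pvfa_step_congr (h : ∀ t, t ≤ T → z t = z' t) : ∀ t, t ≤ T → (pvlvStep z a t ↔ pvlvStep z' a t) := by
  intro t ht
  rcases Nat.eq_zero_or_pos t with rfl | hpos
  · exact ⟨fun h0 => absurd (pvlv_step_pos h0) (lt_irrefl 0), fun h0 => absurd (pvlv_step_pos h0) (lt_irrefl 0)⟩
  · obtain ⟨u, rfl⟩ : ∃ u, t = u + 1 := ⟨t - 1, by omega⟩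
    rw [pvlv_step_succ, pvlv_step_succ, pvfa_anc_congr h u (by omega), h (u + 1) ht, h (pvlvAnc z' a u) ((pvlv_anc_le u).trans (by omega))]

/-- the number of steps up to `T` reads the walk up to `T` -/
theorem pvfa_cnt_congr (h : ∀ t, t ≤ T → z t = z' t) : pvlvCnt z a T = pvlvCnt z' a T := by
  classical
  unfold pvlvCnt pvlvSteps
  congr 1
  refine Finset.filter_congr fun t ht => pvfa_step_congr h t ?_
  have := Finset.mem_range.1 ht
  omega

end congr

section loc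

variable {κ : Type} {V D V' D' : Type} {T : PvMap V D} {mk : V → κ} {s : V → Bool} {T' : PvMap V' D'} {mk' : V' → κ} {s' : V' → Bool} {K : Set κ} {R : V → V' → Prop}

theorem pvfa_iso_not (h : PvplIso T mk s T' mk' s' K R) : PvplIso T mk (pvasNot s) T' mk' (pvasNot s') K R where
  mark := h.mark
  col := fun u u' hu => by show (!s' u') = !s u; rw [h.col u u' hu]
  fn := h.fn
  inj := h.inj
  ex := h.ex
  ex' := h.ex'

/-- one step of a strand along the correspondence of darts -/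
theorem pvfa_rd_step (h : PvplIso T mk s T' mk' s' K R) (hS' : T'.Simple) {d : D} {d' : D'} (hd : PvplRD T T' R d d') (h1 : mk (T.src d) ∈ K) (h2 : mk (T.apex d) ∈ K) :
    PvplRD T T' R (pvasStep T s d) (pvasStep T' s' d') := by
  have hc : s' (T'.apex d') = s (T.apex d) := h.col _ _ hd.2.2
  rcases pvas_step_cases s d with ⟨e1, e2⟩ | ⟨e1, e2⟩
  · rw [e2, pvas_step_black (hc.trans e1)]
    exact h.opp hS' hd.nxt (by rw [T.tgt_nxt]; exact h2)
  · rw [e2, pvas_step_white (hc.trans e1)]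
    exact h.opp hS' hd.nxt.nxt (by rw [T.tgt_nxt, T.apex_nxt]; exact h1)

/-- the strand along the correspondence of darts, as long as it runs through faces of the box -/
theorem pvfa_rd_it (h : PvplIso T mk s T' mk' s' K R) (hS' : T'.Simple) {B : Set κ} (hBK : B ⊆ K) {d : D} {d' : D'} (hd : PvplRD T T' R d d') {tend : ℕ}
    (hbox : ∀ t, t < tend → pvasIt T s d t ∈ pvfaBox T mk B) : ∀ t, t ≤ tend → PvplRD T T' R (pvasIt T s d t) (pvasIt T' s' d' t) := by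
  intro t
  induction t with
  | zero => exact fun _ => hd
  | succ t ih =>
    intro ht
    rw [pvas_it_succ, pvas_it_succ]
    exact pvfa_rd_step h hS' (ih (by omega)) (hBK (hbox t (by omega)).1) (hBK (hbox t (by omega)).2.2)

theorem pvfa_rd_box (h : PvplIso T mk s T' mk' s' K R) {B : Set κ} {d : D} {d' : D'} (hd : PvplRD T T' R d d') : d' ∈ pvfaBox T' mk' B ↔ d ∈ pvfaBox T mk B := by
  show (mk' (T'.src d') ∈ B ∧ mk' (T'.tgt d') ∈ B ∧ mk' (T'.apex d') ∈ B) ↔ (mk (T.src d) ∈ B ∧ mk (T.tgt d) ∈ B ∧ mk (T.apex d) ∈ B)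
  rw [h.mark _ _ hd.1, h.mark _ _ hd.2.1, h.mark _ _ hd.2.2]

variable [PseudoMetricSpace κ]

theorem pvfa_flag_transfer (h : PvplIso T mk s T' mk' s' K R) (hS : T.Simple) (hS' : T'.Simple) {B : Set κ} (hBK : B ⊆ K) {a : ℝ} {n : ℕ}
    (hf : PvfaFlag T mk B a n s) : PvfaFlag T' mk' B a n s' := by
  obtain ⟨d, tend, h0, hbw, hbox, hinj, hcnt⟩ := hf
  obtain ⟨d', hd⟩ := h.ex d (hBK (hbox 0 h0).1)
  have hrd := pvfa_rd_it h hS' hBK (d := d) (d' := d') hd hbox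
  refine ⟨d', tend, h0, ⟨?_, ?_⟩, ?_, ?_, ?_⟩
  · rw [h.col _ _ hd.1]; exact hbw.1
  · rw [h.col _ _ hd.2.1]; exact hbw.2
  · intro t ht
    exact (pvfa_rd_box h (hrd t ht.le)).2 (hbox t ht)
  · intro i j hi hj e
    refine hinj i j hi hj (h.rd_inj hS (hrd i hi) ?_)
    rw [e]
    exact hrd j hj
  · refine hcnt.trans (le_of_eq (pvfa_cnt_congr fun t ht => ?_))
    exact (h.mark _ _ (hrd t ht).1).symm

/-- **LOCALITY OF THE FLAG** -/
theorem pvfa_flag_local {B K : Set κ} (hBK : B ⊆ K) (a : ℝ) (n : ℕ) : PvplPred.Local (fun V D T mk s => PvfaFlag T mk B a n s) K := by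
  intro V D V' D' T mk s T' mk' s' R hS hS' h
  exact ⟨pvfa_flag_transfer h hS hS' hBK, pvfa_flag_transfer h.symm hS' hS hBK⟩

theorem pvfa_flag1_local {B K : Set κ} (hBK : B ⊆ K) (a : ℝ) (n : ℕ) : PvplPred.Local (fun V D T mk s => PvfaFlag1 T mk B a n s) K := by
  intro V D V' D' T mk s T' mk' s' R hS hS' h
  have h1 := pvfa_flag_local hBK a n V D V' D' T mk s T' mk' s' R hS hS' h
  have h2 := pvfa_flag_local hBK a n V D V' D' T mk (pvasNot s) T' mk' (pvasNot s') R hS hS' (pvfa_iso_not h)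
  exact or_congr h1 h2

end loc

/-! ## 4. Many steps: many runs of the annulus round one cell of the box -/

section det

variable {κ : Type} [PseudoMetricSpace κ] {V D : Type} {T : PvMap V D} {mk : V → κ} {s : V → Bool}

/-- **many steps ⟹ many runs of one annulus**.   `P g` = the place of the cell `g`; `ci g` at radius `(ri, ri')`, `co g` at radius `(ro', ro)` round `P g`;
a vertex of the cell `g` is within `ri` of `P g`, a vertex at `a` cells from `g` is at distance `≥ ro` of `P g`. -/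
theorem pvfa_det (hT : T.IsSph) {pos : V → ℂ} {P : κ → ℂ} {B : Finset κ} {a ri ri' ro' ro : ℝ} (ha : 0 < a) {ci co : κ → T.Cyc}
    (hi : ∀ g ∈ B, PvaxAt T pos (P g) ri ri' (ci g)) (ho : ∀ g ∈ B, PvaxAt T pos (P g) ro' ro (co g)) (hio : ri' ≤ ro')
    (hin : ∀ v, ∀ g ∈ B, dist (mk v) g ≤ 0 → dist (pos v) (P g) ≤ ri) (hout : ∀ v, ∀ g ∈ B, a ≤ dist (mk v) g → ro ≤ dist (pos v) (P g)) {m : ℕ}
    (h : PvfaFlag T mk (↑B : Set κ) a (B.card * m) s) : ∃ g ∈ B, m ≤ pvakR (ci g) (co g) s := by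
  classical
  obtain ⟨d, tend, h0, hbw, hbox, hinj, hcnt⟩ := h
  have hnet : ∀ t, t ≤ tend → ∃ g ∈ B, dist (pvfaZ T mk s d t) g ≤ 0 := fun t ht =>
    ⟨pvfaZ T mk s d t, Finset.mem_coe.1 (pvfa_Z_mem h0 hbox ht), (dist_self _).le⟩
  obtain ⟨g, hg, hm⟩ := pvlv_crossG_pigeon B tend hnet m hcnt
  obtain ⟨lo, hi', hp, hord⟩ := pvlv_crossG_seq ha hm
  have hins : (ci g).Inside (co g) := pvax_at_inside hT (hi g hg) (ho g hg) (by simpa using hio)
  refine ⟨g, hg, pvfl_pieces hT hins.2 hbw hinj (lo := lo) (hi := hi') ?_ hord⟩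
  intro j hj
  obtain ⟨b1, b2, b3, b4, -⟩ := hp j hj
  exact ⟨b1.le, b2, pvfl_at_mem (hi g hg) (hin _ g hg b3), pvfl_at_not_mem (ho g hg) (hout _ g hg (by rw [sub_zero] at b4; exact b4))⟩

theorem pvfa_det1 (hT : T.IsSph) {pos : V → ℂ} {P : κ → ℂ} {B : Finset κ} {a ri ri' ro' ro : ℝ} (ha : 0 < a) {ci co : κ → T.Cyc}
    (hi : ∀ g ∈ B, PvaxAt T pos (P g) ri ri' (ci g)) (ho : ∀ g ∈ B, PvaxAt T pos (P g) ro' ro (co g)) (hio : ri' ≤ ro')
    (hin : ∀ v, ∀ g ∈ B, dist (mk v) g ≤ 0 → dist (pos v) (P g) ≤ ri) (hout : ∀ v, ∀ g ∈ B, a ≤ dist (mk v) g → ro ≤ dist (pos v) (P g)) {m : ℕ}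
    (h : PvfaFlag1 T mk (↑B : Set κ) a (B.card * m) s) : ∃ g ∈ B, m ≤ pvakR (ci g) (co g) s := by
  rcases h with h | h
  · exact pvfa_det hT ha hi ho hio hin hout h
  · obtain ⟨g, hg, hm⟩ := pvfa_det hT ha hi ho hio hin hout h
    exact ⟨g, hg, by rwa [pvfl_R_not] at hm⟩

end det

/-! ## 5. The quenched cost (fair colours on a finite set `A`, any background `ξ`) -/

section prob

variable {κ : Type} [PseudoMetricSpace κ] {V D : Type} [DecidableEq V] {T : PvMap V D} {mk : V → κ}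

/-- **FLAG1, quenched, from blocking**: `P(a stub, forward or backward, makes |B| 2k steps in the box) ≤ |B| (1-q)^k` -/
theorem pvfa_cost_blk (hT : T.IsSph) {pos : V → ℂ} {P : κ → ℂ} {B : Finset κ} {a ri ri' ro' ro : ℝ} (ha : 0 < a) {ci co : κ → T.Cyc}
    (hi : ∀ g ∈ B, PvaxAt T pos (P g) ri ri' (ci g)) (ho : ∀ g ∈ B, PvaxAt T pos (P g) ro' ro (co g)) (hio : ri' ≤ ro')
    (hin : ∀ v, ∀ g ∈ B, dist (mk v) g ≤ 0 → dist (pos v) (P g) ≤ ri) (hout : ∀ v, ∀ g ∈ B, a ≤ dist (mk v) g → ro ≤ dist (pos v) (P g))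
    {q : ℝ} (hb : ∀ g ∈ B, PvaxBlk T (ci g) (co g) q) (A : Finset V) (ξ : V → Bool) (hA : ∀ g ∈ B, ∀ v ∈ T.VOf ((ci g).Ann (co g)), v ∈ A) (k : ℕ) :
    pvaP A ξ (PvfaFlag1 T mk (↑B : Set κ) a (B.card * (2 * k))) ≤ B.card * (1 - q) ^ k := by
  calc pvaP A ξ (PvfaFlag1 T mk (↑B : Set κ) a (B.card * (2 * k))) ≤ pvaP A ξ (fun ω => ∃ g ∈ B, 2 * k ≤ pvakR (ci g) (co g) ω) :=
        pva_P_mono fun ω _ h => pvfa_det1 hT ha hi ho hio hin hout h
    _ ≤ ∑ g ∈ B, pvaP A ξ (fun ω => 2 * k ≤ pvakR (ci g) (co g) ω) := pva_P_exists_le A ξ B _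
    _ ≤ ∑ _g ∈ B, (1 - q) ^ k := Finset.sum_le_sum fun g hg =>
        pvak_tail_blk hT (pvax_at_inside hT (hi g hg) (ho g hg) (by simpa using hio)) (hb g hg) A (hA g hg) ξ k
    _ = B.card * (1 - q) ^ k := by rw [Finset.sum_const, nsmul_eq_mul]

/-- the same from BXP(q) between the radii `ri'` and `ro'` -/
theorem pvfa_cost_bxp (hT : T.IsSph) {pos : V → ℂ} {P : κ → ℂ} {B : Finset κ} {a ri ri' ro' ro : ℝ} (ha : 0 < a) {ci co : κ → T.Cyc}
    (hi : ∀ g ∈ B, PvaxAt T pos (P g) ri ri' (ci g)) (ho : ∀ g ∈ B, PvaxAt T pos (P g) ro' ro (co g)) (hio : ri' ≤ ro')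
    (hin : ∀ v, ∀ g ∈ B, dist (mk v) g ≤ 0 → dist (pos v) (P g) ≤ ri) (hout : ∀ v, ∀ g ∈ B, a ≤ dist (mk v) g → ro ≤ dist (pos v) (P g))
    {q : ℝ} (hb : ∀ g ∈ B, PvaxBxp T pos q (P g) ri' ro') (A : Finset V) (ξ : V → Bool) (hA : ∀ g ∈ B, ∀ v ∈ T.VOf ((ci g).Ann (co g)), v ∈ A) (k : ℕ) :
    pvaP A ξ (PvfaFlag1 T mk (↑B : Set κ) a (B.card * (2 * k))) ≤ B.card * (1 - q) ^ k :=
  pvfa_cost_blk hT ha hi ho hio hin hout (fun g hg => (pvax_at_blk hT (hi g hg) (ho g hg) (hb g hg) hio).2) A ξ hA k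

end prob

/-! ## 5b. Grid marks (`pvplGrid` of 238), the cost on the frame event of 196 -/

section grid

/-- the place of the cell `g` of mesh `l`: its lower left corner -/
noncomputable def pvfaPl (l : ℝ) (g : ℤ × ℤ) : ℂ := ⟨l * g.1, l * g.2⟩

theorem pvfa_eqns_cite2 : True := by
  have := @pvfaPl.eq_1
  trivial

theorem pvfa_floor_near {l : ℝ} (hl : 0 < l) (u : ℝ) : |u - l * (⌊u / l⌋ : ℝ)| ≤ l := by
  have h1 := Int.floor_le (u / l)
  have h2 := Int.lt_floor_add_one (u / l)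
  have e : u = l * (u / l) := by field_simp
  rw [abs_le]
  constructor
  · nlinarith
  · nlinarith

theorem pvfa_floor_far {l : ℝ} (hl : 0 < l) (u : ℝ) (k : ℤ) {a : ℝ} (h : a ≤ |((⌊u / l⌋ : ℤ) : ℝ) - k|) : (a - 1) * l ≤ |u - l * (k : ℝ)| := by
  have h1 := pvfa_floor_near hl u
  have h2 : |l * ((⌊u / l⌋ : ℤ) : ℝ) - l * (k : ℝ)| = l * |((⌊u / l⌋ : ℤ) : ℝ) - k| := by rw [← mul_sub, abs_mul, abs_of_pos hl]
  have h3 : |l * ((⌊u / l⌋ : ℤ) : ℝ) - l * (k : ℝ)| ≤ |u - l * (k : ℝ)| + |u - l * ((⌊u / l⌋ : ℤ) : ℝ)| := by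
    have := abs_sub_abs_le_abs_sub (u - l * (k : ℝ)) (u - l * ((⌊u / l⌋ : ℤ) : ℝ))
    have e : u - l * (k : ℝ) - (u - l * ((⌊u / l⌋ : ℤ) : ℝ)) = l * ((⌊u / l⌋ : ℤ) : ℝ) - l * (k : ℝ) := by ring
    have h4 := abs_sub (u - l * (k : ℝ)) (u - l * ((⌊u / l⌋ : ℤ) : ℝ))
    rw [e] at h4
    exact h4
  have h5 : l * a ≤ l * |((⌊u / l⌋ : ℤ) : ℝ) - k| := mul_le_mul_of_nonneg_left h hl.le
  nlinarith

/-- a point of the cell `g` is within `2 l` of its place -/
theorem pvfa_grid_near {l : ℝ} (hl : 0 < l) (x : ℂ) (g : ℤ × ℤ) (h : dist (pvplGrid l x) g ≤ 0) : dist x (pvfaPl l g) ≤ 2 * l := by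
  have e : pvplGrid l x = g := dist_le_zero.1 h
  subst e
  rw [dist_eq_norm]
  refine (Complex.norm_le_abs_re_add_abs_im _).trans ?_
  have h1 : (x - pvfaPl l (pvplGrid l x)).re = x.re - l * (⌊x.re / l⌋ : ℝ) := rfl
  have h2 : (x - pvfaPl l (pvplGrid l x)).im = x.im - l * (⌊x.im / l⌋ : ℝ) := rfl
  rw [h1, h2]
  linarith [pvfa_floor_near hl x.re, pvfa_floor_near hl x.im]

/-- a point whose cell is at `a` cells from `g` is at distance `≥ (a - 1) l` of the place of `g` -/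
theorem pvfa_grid_far {l : ℝ} (hl : 0 < l) (x : ℂ) (g : ℤ × ℤ) {a : ℝ} (h : a ≤ dist (pvplGrid l x) g) : (a - 1) * l ≤ dist x (pvfaPl l g) := by
  rw [Prod.dist_eq, le_max_iff, Int.dist_eq, Int.dist_eq] at h
  rw [dist_eq_norm]
  rcases h with h | h
  · refine le_trans ?_ (Complex.abs_re_le_norm _)
    exact pvfa_floor_far hl x.re g.1 h
  · refine le_trans ?_ (Complex.abs_im_le_norm _)
    exact pvfa_floor_far hl x.im g.2 h

open Classical in
/-- **FLAG1 ON THE FRAME EVENT**: cells of mesh `l`, steps of `a ≥ 41` cells; frame = cycles at the radii `2l`, `32l` round the places of the cells of the box + BXP(q) of ratio `10` -/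
theorem pvfa_cost_frame {q l : ℝ} (hl : 0 < l) {B : Finset (ℤ × ℤ)} {Y : Set ℂ} (h : DelGood Y) (hF : PvaxFrame q (B.image (pvfaPl l)) {2 * l, 32 * l} Y) {a : ℝ} (ha : 41 ≤ a)
    (A : Finset ↥Y) (ξ : ↥Y → Bool) (hA : ∀ v : ↥Y, (∃ g ∈ B, dist (v : ℂ) (pvfaPl l g) < 40 * l) → v ∈ A) (k : ℕ) :
    pvaP A ξ (PvfaFlag1 (delMap h) (fun v => pvplGrid l (dlsPos Y v)) (↑B : Set (ℤ × ℤ)) a (B.card * (2 * k))) ≤ B.card * (1 - q) ^ k := by
  rcases B.eq_empty_or_nonempty with rfl | ⟨g₀, hg₀⟩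
  · rw [pva_P_false]
    · simp
    · rintro ω - (⟨d, tend, h0, -, hbox, -⟩ | ⟨d, tend, h0, -, hbox, -⟩)
      · exact absurd (hbox 0 h0).1 (by simp)
      · exact absurd (hbox 0 h0).1 (by simp)
  have hmem : ∀ g ∈ B, pvfaPl l g ∈ B.image (pvfaPl l) := fun g hg => Finset.mem_image_of_mem _ hg
  have h2 : (2 * l) ∈ ({2 * l, 32 * l} : Finset ℝ) := by simp
  have h32 : (32 * l) ∈ ({2 * l, 32 * l} : Finset ℝ) := by simp
  have hexi : ∀ g, ∃ c : (delMap h).Cyc, g ∈ B → PvaxAt (delMap h) (dlsPos Y) (pvfaPl l g) (2 * l) (5 / 4 * (2 * l)) c := by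
    intro g
    by_cases hg : g ∈ B
    · obtain ⟨c, hc⟩ := (pvax_frame_spec hF h (hmem g hg) h2).1
      exact ⟨c, fun _ => hc⟩
    · obtain ⟨c, -⟩ := (pvax_frame_spec hF h (hmem g₀ hg₀) h2).1
      exact ⟨c, fun h' => absurd h' hg⟩
  have hexo : ∀ g, ∃ c : (delMap h).Cyc, g ∈ B → PvaxAt (delMap h) (dlsPos Y) (pvfaPl l g) (32 * l) (5 / 4 * (32 * l)) c := by
    intro g
    by_cases hg : g ∈ B
    · obtain ⟨c, hc⟩ := (pvax_frame_spec hF h (hmem g hg) h32).1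
      exact ⟨c, fun _ => hc⟩
    · obtain ⟨c, -⟩ := (pvax_frame_spec hF h (hmem g₀ hg₀) h32).1
      exact ⟨c, fun h' => absurd h' hg⟩
  choose ci hci using hexi
  choose co hco using hexo
  refine pvfa_cost_bxp (dls_isSph h) (pos := dlsPos Y) (P := pvfaPl l) (by linarith) hci hco (by linarith) (fun v g _ hd => pvfa_grid_near hl _ g hd) ?_ ?_ A ξ ?_ k
  · intro v g _ hd
    have := pvfa_grid_far hl (dlsPos Y v) g hd
    nlinarith
  · intro g hg
    exact pvax_bxp_mono (pvax_frame_spec hF h (hmem g hg) h2).2 le_rfl (by linarith)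
  · rintro g hg v ⟨d, hd, rfl⟩
    refine hA _ ⟨g, hg, ?_⟩
    have := (hco g hg).out _ ⟨d, hd.1, rfl⟩
    rw [← dist_eq_norm] at this
    calc dist (((delMap h).src d : ↥Y) : ℂ) (pvfaPl l g) < 5 / 4 * (32 * l) := this
      _ = 40 * l := by ring

end grid

/-! ## 6. GENERIC ANNEALING OF LOCAL PREDICATES (X4 = flag costs, for every static flag of both roads) -/

section anneal

open MeasureTheory Set Filter Topology Claims.C0465
open scoped ENNReal

variable {κ : Type}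

/-- a local predicate reads only the colours of the vertices of the faces with a vertex marked in `K` -/
theorem pvfa_local_dep {Φ : PvplPred κ} {K : Set κ} (hΦ : Φ.Local K) {V D : Type} {T : PvMap V D} (hS : T.Simple) (mk : V → κ) {s s' : V → Bool}
    (h : ∀ d, mk (T.src d) ∈ K → s' (T.src d) = s (T.src d) ∧ s' (T.tgt d) = s (T.tgt d) ∧ s' (T.apex d) = s (T.apex d)) : Φ V D T mk s ↔ Φ V D T mk s' := by
  refine hΦ V D V D T mk s T mk s' (fun u u' => u = u' ∧ ∃ d, mk (T.src d) ∈ K ∧ (u = T.src d ∨ u = T.tgt d ∨ u = T.apex d)) hS hS ⟨?_, ?_, ?_, ?_, ?_, ?_⟩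
  · rintro u u' ⟨rfl, -⟩
    rfl
  · rintro u u' ⟨rfl, d, hd, rfl | rfl | rfl⟩
    · exact (h d hd).1
    · exact (h d hd).2.1
    · exact (h d hd).2.2
  · rintro u u' u'' ⟨rfl, -⟩ ⟨rfl, -⟩
    rfl
  · rintro u v u' ⟨rfl, -⟩ ⟨rfl, -⟩
    rfl
  · intro d hd
    exact ⟨d, ⟨rfl, d, hd, Or.inl rfl⟩, ⟨rfl, d, hd, Or.inr (Or.inl rfl)⟩, ⟨rfl, d, hd, Or.inr (Or.inr rfl)⟩⟩
  · intro d hd
    exact ⟨d, ⟨rfl, d, hd, Or.inl rfl⟩, ⟨rfl, d, hd, Or.inr (Or.inl rfl)⟩, ⟨rfl, d, hd, Or.inr (Or.inr rfl)⟩⟩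

/-- the total plane map of 219 and the plane map of 271 -/
theorem pvfa_plane_iff (Φ : PvplPred κ) {Y : Set ℂ} (h : DelGood Y) (mk : ↥Y → κ) (s : ↥Y → Bool) :
    Φ _ _ (delbPl Y).toMap mk s ↔ Φ _ _ (delMap h) mk s := by
  have key : ∀ t : PlTri ↥Y, t = delPl h → (Φ _ _ t.toMap mk s ↔ Φ _ _ (delPl h).toMap mk s) := by
    rintro t rfl
    exact Iff.rfl
  exact key _ (delb_pl_eq h)

/-- the points of a good sample in a bounded window -/
theorem pvfa_fin {g : PvGeoT} (hg : PvgOk g) (c : PvColT) {E : Set ℂ} (hE : Bornology.IsBounded E) : ((pvConf (pvMerge (g, c))).pts ∩ E ×ˢ univ).Finite := by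
  rw [hg.conf_eq c]
  refine ((hg.sites_finite hE).image fun z => (z, pvgColAt g c z)).subset ?_
  rintro ⟨z, b⟩ ⟨⟨h1, h2⟩, h3, -⟩
  exact ⟨z, ⟨h1, h3⟩, by rw [show b = pvgColAt g c z from h2]⟩

open Classical in
/-- **QUENCHED FORM**: at a good geometry (`DelGood`, mesh) the quenched probability of the representing event is the probability of `Φ` on the Delaunay plane under fair colours -/
theorem pvfa_quench {θ : ℂ → κ} {Φ : PvplPred κ} {K : Set κ} (hΦ : Φ.Local K) {E : Set ℂ} (hE : Bornology.IsBounded E) {ρ : ℝ} {B : Set (Conf PvPt)} (hB : PvplRep θ Φ K E ρ B)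
    {zi : ℂ} (hzi : θ zi ∉ K) {g : PvGeoT} (hg : PvgOk g) (h : DelGood (pvgSites g)) (hm : PvtrMesh ρ E (pvgSites g)) {p : ℝ} (A : Finset ↥(pvgSites g))
    (hA : ∀ d, θ ((delMap h).src d : ℂ) ∈ K → (delMap h).src d ∈ A ∧ (delMap h).tgt d ∈ A ∧ (delMap h).apex d ∈ A)
    (hp : ∀ ξ, pvaP A ξ (fun s => Φ _ _ (delMap h) (fun v => θ (dlsPos _ v)) s) ≤ p) : pvQc B g ≤ ENNReal.ofReal p := by
  let P : ∀ Y : Set ℂ, (delbPlane.V Y → Bool) → Prop := fun Y s => Φ _ _ (delbPlane.T Y) (fun v => θ (delbPlane.posF Y zi v)) s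
  have hok := delb_plane_ok h
  -- step 1: the section of `B`
  have e1 : {c : PvColT | pvConf (pvMerge (g, c)) ∈ B} ×ˢ (univ : Set (Empty → Bool)) =
      {q : PvColT × (Empty → Bool) | P (cfSites (pvConf (pvMerge (g, q.1)))) (delbPlane.col (pvConf (pvMerge (g, q.1))) q.2)} := by
    ext ⟨c, ξ⟩
    have hs : cfSites (pvConf (pvMerge (g, c))) = pvgSites g := pvqu_cfSites g c
    have h' : DelGood (cfSites (pvConf (pvMerge (g, c)))) := by rw [hs]; exact h
    have hm' : PvtrMesh ρ E (cfSites (pvConf (pvMerge (g, c)))) := by rw [hs]; exact hm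
    have := hB Empty delbPlane (pvConf (pvMerge (g, c))) ξ zi (pvfa_fin hg c hE) (delb_ok_mono (subset_univ _) (delb_plane_ok h')) hm' hzi
    simp only [mem_prod, mem_ofPred_eq, mem_univ, and_true]
    exact this
  have e2 : pvQc B g = (pvCol.prod (colLaw Empty)) ({c : PvColT | pvConf (pvMerge (g, c)) ∈ B} ×ˢ (univ : Set (Empty → Bool))) := by
    rw [Measure.prod_prod, measure_univ, mul_one]
    rfl
  rw [e2, e1]
  refine (pval_quench_le delbPlane P hg hok.inj hok.site).trans ?_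
  -- step 2: fair colours on the plane
  have e3 : {s : delbPlane.V (pvgSites g) → Bool | P (pvgSites g) s} = {s : ↥(pvgSites g) → Bool | Φ _ _ (delMap h) (fun v => θ (dlsPos _ v)) s} := by
    ext s
    exact pvfa_plane_iff Φ h _ s
  have hloc : PvalLoc A (fun s : ↥(pvgSites g) → Bool => Φ _ _ (delMap h) (fun v => θ (dlsPos _ v)) s) := by
    intro s s' hss
    refine propext (pvfa_local_dep hΦ (dls_simple h) _ fun d hd => ?_)
    obtain ⟨a1, a2, a3⟩ := hA d hd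
    exact ⟨(hss _ a1).symm, (hss _ a2).symm, (hss _ a3).symm⟩
  calc colLaw (delbPlane.V (pvgSites g)) {s | P (pvgSites g) s} = colLaw ↥(pvgSites g) {s : ↥(pvgSites g) → Bool | Φ _ _ (delMap h) (fun v => θ (dlsPos _ v)) s} := by rw [e3]; rfl
    _ = ENNReal.ofReal (pvaP A (fun _ => false) _) := pval_measure hloc _
    _ ≤ ENNReal.ofReal p := ENNReal.ofReal_le_ofReal (hp _)

open Classical in
/-- **GENERIC ANNEALING**: `B` = the measurable event of `pvpl_main` which represents the local predicate `Φ`;   `Γ` = any property of the site set (frame event);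
at every Delaunay plane with `Γ` the quenched probability of `Φ` is `≤ p` (fair colours on a finite set `A` which contains the faces read by `Φ`, ANY background).   Then `P(B) ≤ p + P*(not Γ or not mesh)`. -/
theorem pvfa_anneal {θ : ℂ → κ} {Φ : PvplPred κ} {K : Set κ} (hΦ : Φ.Local K) {E : Set ℂ} (hE : Bornology.IsBounded E) {ρ : ℝ} {B : Set (Conf PvPt)} (hBm : MeasurableSet B)
    (hB : PvplRep θ Φ K E ρ B) {zi : ℂ} (hzi : θ zi ∉ K) (Γ : Set ℂ → Prop) {p : ℝ}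
    (hq : ∀ (Y : Set ℂ) (h : DelGood Y), VorLF Y → Γ Y → PvtrMesh ρ E Y → ∃ A : Finset ↥Y,
      (∀ d, θ ((delMap h).src d : ℂ) ∈ K → (delMap h).src d ∈ A ∧ (delMap h).tgt d ∈ A ∧ (delMap h).apex d ∈ A) ∧
        ∀ ξ, pvaP A ξ (fun s => Φ _ _ (delMap h) (fun v => θ (dlsPos Y v)) s) ≤ p)
    {ε : ℝ} (hε : 0 < ε) : pvP ε B ≤ ENNReal.ofReal p + pvGeo ε {g | ¬ (Γ (pvgSites g) ∧ PvtrMesh ρ E (pvgSites g))} := by
  set Bad : Set PvGeoT := {g | ¬ (Γ (pvgSites g) ∧ PvtrMesh ρ E (pvgSites g))} with hBad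
  set M := toMeasurable (pvGeo ε) Bad with hM
  have hMm : MeasurableSet M := measurableSet_toMeasurable _ _
  rw [← pvqu_Qc_lintegral ε hBm]
  calc ∫⁻ g, pvQc B g ∂(pvGeo ε) ≤ ∫⁻ g, (ENNReal.ofReal p + M.indicator 1 g) ∂(pvGeo ε) := by
        refine lintegral_mono_ae ?_
        filter_upwards [pvqu_ok_ae ε, dls_ae_geo hε] with g hg hd
        by_cases hgM : g ∈ M
        · rw [indicator_of_mem hgM]
          exact (pvqu_Q_le_one _ g).trans le_add_self
        · have hgB : g ∉ Bad := fun hb => hgM (subset_toMeasurable _ _ hb)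
          have hgood : Γ (pvgSites g) ∧ PvtrMesh ρ E (pvgSites g) := not_not.1 hgB
          obtain ⟨A, hA, hp⟩ := hq _ hd hg.lf hgood.1 hgood.2
          exact (pvfa_quench hΦ hE hB hzi hg hd hgood.2 A hA hp).trans le_self_add
    _ = ENNReal.ofReal p + pvGeo ε Bad := by
        rw [lintegral_add_left measurable_const, lintegral_const, measure_univ, mul_one, lintegral_indicator_one hMm, hM, measure_toMeasurable]

end anneal

/-! ## 7. THE EXIT FOR FLAG1 : one measurable event of unit scale, read from a ball, of probability `≤ |B| (1-q)^k + o(1)`; its copies at all centres and scales -/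

section exit

open MeasureTheory Set Filter Topology Metric Claims.C0465
open scoped ENNReal

theorem pvfa_grid_pl {l : ℝ} (hl : 0 < l) (g : ℤ × ℤ) : pvplGrid l (pvfaPl l g) = g := by
  have h1 : l * (g.1 : ℝ) / l = (g.1 : ℝ) := by field_simp
  have h2 : l * (g.2 : ℝ) / l = (g.2 : ℝ) := by field_simp
  show ((⌊l * (g.1 : ℝ) / l⌋, ⌊l * (g.2 : ℝ) / l⌋) : ℤ × ℤ) = g
  rw [h1, h2, Int.floor_intCast, Int.floor_intCast]

/-- the cells of the box lie in a ball -/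
theorem pvfa_cells_ball {l : ℝ} (hl : 0 < l) {B : Finset (ℤ × ℤ)} {rB : ℝ} (hrB : ∀ g ∈ B, ‖pvfaPl l g‖ ≤ rB) {x : ℂ} (hx : pvplGrid l x ∈ B) : ‖x‖ ≤ rB + 2 * l := by
  have h1 := pvfa_grid_near hl x _ (dist_self (pvplGrid l x)).le
  have h2 := hrB _ hx
  rw [dist_eq_norm] at h1
  calc ‖x‖ = ‖pvfaPl l (pvplGrid l x) + (x - pvfaPl l (pvplGrid l x))‖ := by congr 1; ring
    _ ≤ ‖pvfaPl l (pvplGrid l x)‖ + ‖x - pvfaPl l (pvplGrid l x)‖ := norm_add_le _ _
    _ ≤ rB + 2 * l := by linarith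

theorem pvfa_cells_core {l : ℝ} (hl : 0 < l) {B : Finset (ℤ × ℤ)} {rB ρ rE : ℝ} (hrB : ∀ g ∈ B, ‖pvfaPl l g‖ ≤ rB) (h2 : rB + 2 * l + 3 * ρ ≤ rE) :
    pvplGrid l ⁻¹' (↑B : Set (ℤ × ℤ)) ⊆ pvtrCore (3 * ρ) (closedBall 0 rE) := by
  intro x hx
  have h1 := pvfa_cells_ball hl hrB (Finset.mem_coe.1 hx)
  refine closedBall_subset_closedBall' ?_
  rw [dist_zero_right]
  linarith

/-- the bad geometries of FLAG1 -/
theorem pvfa_geo_tendsto {q : ℝ} (hQ : PvaxQbx q) (Z : Finset ℂ) (Rs : Finset ℝ) (hRs : ∀ r ∈ Rs, 0 < r) {ρ rE : ℝ} (hρ : 0 < ρ) :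
    Tendsto (fun ε : ℝ => pvGeo ε {g | ¬ (PvaxFrame q Z Rs (pvgSites g) ∧ PvtrMesh ρ (closedBall 0 rE) (pvgSites g))}) (𝓝[>] 0) (𝓝 0) := by
  have hb : Bornology.IsBounded (pvtrCore ρ (closedBall (0 : ℂ) rE)) :=
    isBounded_closedBall.subset fun x hx => hx (mem_closedBall_self hρ.le)
  have h1 := pvax_frame_geo hQ Z Rs hRs
  have h2 := pvax_dense hb hρ
  simp only [pvax_sites_eq _ (fun Y => ¬ VorDense Y (pvtrCore ρ (closedBall (0 : ℂ) rE)) ρ)] at h2
  have h3 := h1.add h2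
  rw [add_zero] at h3
  refine tendsto_of_tendsto_of_tendsto_of_le_of_le tendsto_const_nhds h3 (fun _ => zero_le) fun ε => ?_
  refine (measure_mono ?_).trans (measure_union_le _ _)
  intro g hg
  by_contra hn
  simp only [mem_union, mem_ofPred_eq, not_or, not_not] at hn
  exact hg ⟨hn.1, hn.2⟩

/-- **FLAG1, THE EXIT (unit scale)** -/
theorem pvfa_flag1_exit {q : ℝ} (hQ : PvaxQbx q) {l : ℝ} (hl : 0 < l) (B : Finset (ℤ × ℤ)) {a : ℝ} (ha : 41 ≤ a) (k : ℕ) {rB ρ rE : ℝ} (hρ : 0 < ρ)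
    (hrB : ∀ g ∈ B, ‖pvfaPl l g‖ ≤ rB) (h1 : rB + 40 * l ≤ rE) (h2 : rB + 2 * l + 3 * ρ ≤ rE) :
    ∃ 𝔹 : Set (Conf PvPt), MeasurableSet 𝔹 ∧ Conf.ReadsSet (closedBall 0 rE ×ˢ univ) 𝔹 ∧
      PvplRep (pvplGrid l) (fun V D T mk s => PvfaFlag1 T mk (↑B : Set (ℤ × ℤ)) a (B.card * (2 * k)) s) (↑B : Set (ℤ × ℤ)) (closedBall 0 rE) ρ 𝔹 ∧
      ∃ e : ℝ → ℝ≥0∞, Tendsto e (𝓝[>] 0) (𝓝 0) ∧ ∀ ε, 0 < ε → pvP ε 𝔹 ≤ ENNReal.ofReal (B.card * (1 - q) ^ k) + e ε := by
  classical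
  have hΦ := pvfa_flag1_local (κ := ℤ × ℤ) (B := (↑B : Set (ℤ × ℤ))) (K := (↑B : Set (ℤ × ℤ))) subset_rfl a (B.card * (2 * k))
  have hK := pvfa_cells_core hl hrB h2
  obtain ⟨𝔹, hm, hr, hrep⟩ := pvplb_main (pvplb_grid_measurable l) hΦ (pvpl_win_ball 0 rE) hρ hK
  obtain ⟨g', hg'⟩ := Infinite.exists_notMem_finset B
  have hzi : pvplGrid l (pvfaPl l g') ∉ (↑B : Set (ℤ × ℤ)) := by rw [pvfa_grid_pl hl]; exact fun h => hg' (Finset.mem_coe.1 h)
  have hRs : ∀ r ∈ ({2 * l, 32 * l} : Finset ℝ), 0 < r := by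
    intro r hr
    simp only [Finset.mem_insert, Finset.mem_singleton] at hr
    rcases hr with rfl | rfl <;> linarith
  refine ⟨𝔹, hm, hr, hrep, _, pvfa_geo_tendsto hQ (B.image (pvfaPl l)) {2 * l, 32 * l} hRs (rE := rE) hρ, ?_⟩
  intro ε hε
  refine pvfa_anneal hΦ isBounded_closedBall hm hrep hzi (fun Y => PvaxFrame q (B.image (pvfaPl l)) {2 * l, 32 * l} Y) ?_ hε
  intro Y h hlf hF hmesh
  have hfin : {v : ↥Y | (v : ℂ) ∈ Y ∩ closedBall (0 : ℂ) rE}.Finite := (hlf rE).preimage Subtype.val_injective.injOn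
  have hmemA : ∀ v : ↥Y, v ∈ hfin.toFinset ↔ (v : ℂ) ∈ closedBall (0 : ℂ) rE := by
    intro v
    rw [Set.Finite.mem_toFinset]
    exact ⟨fun hv => hv.2, fun hv => ⟨v.2, hv⟩⟩
  refine ⟨hfin.toFinset, ?_, fun ξ => ?_⟩
  · intro d hd
    have hret := pvtr_of_mesh_vertex hρ hmesh (hK hd) (dls_face d)
    exact ⟨(hmemA _).2 hret.1.2, (hmemA _).2 hret.2.1.2, (hmemA _).2 hret.2.2.1.2⟩
  · convert pvfa_cost_frame hl h hF ha hfin.toFinset ξ ?_ k using 2
    rintro v ⟨g, hg, hd⟩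
    rw [hmemA, mem_closedBall, dist_zero_right]
    rw [dist_eq_norm] at hd
    calc ‖(v : ℂ)‖ = ‖pvfaPl l g + ((v : ℂ) - pvfaPl l g)‖ := by congr 1; ring
      _ ≤ ‖pvfaPl l g‖ + ‖(v : ℂ) - pvfaPl l g‖ := norm_add_le _ _
      _ ≤ rE := by linarith [hrB g hg]

/-- the copies at all centres `z` and scales `h`: same bound, UNIFORM in `z` -/
theorem pvfa_law_at {𝔹 : Set (Conf PvPt)} (hm : MeasurableSet 𝔹) {p : ℝ≥0∞} {e : ℝ → ℝ≥0∞} (he : ∀ ε, 0 < ε → pvP ε 𝔹 ≤ p + e ε) {h : ℝ} (hh : 0 < h) (z : ℂ) {ε : ℝ} (hε : 0 < ε) :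
    pvP ε (cfMap (vorSim ((h : ℂ)⁻¹) (-((h : ℂ)⁻¹ * z))) ⁻¹' 𝔹) ≤ p + e (h⁻¹ * ε) := by
  rw [pvplb_law_sim hh z ε hm]
  exact he _ (by positivity)

theorem pvfa_tendsto_at {e : ℝ → ℝ≥0∞} (he : Tendsto e (𝓝[>] 0) (𝓝 0)) {h : ℝ} (hh : 0 < h) : Tendsto (fun ε => e (h⁻¹ * ε)) (𝓝[>] 0) (𝓝 0) := by
  refine he.comp (tendsto_nhdsWithin_iff.2 ⟨?_, ?_⟩)
  · have : Tendsto (fun ε : ℝ => h⁻¹ * ε) (𝓝 0) (𝓝 (h⁻¹ * 0)) := tendsto_const_nhds.mul tendsto_id
    rw [mul_zero] at this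
    exact this.mono_left nhdsWithin_le_nhds
  · filter_upwards [self_mem_nhdsWithin] with ε hε
    exact mul_pos (inv_pos.2 hh) hε

end exit

end Claimed.Agent.R289
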