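import Claimed.Agent.R289.Tr.GoodMouth
import Claimed.Agent.R289.Tr.StKit

/-!
# Row 289 (S0537, Cardy for Poisson-Voronoi), THE WALL, road E, node E15, file Tr/GoodFol : THE STRAND FOLLOWS THE RIM OUT OF THE GATE      (helper80 for helper112; prefix `pvzf_`)

MODEL FREE (no `PvwSt`: survives every version of `Tr/Defs`).      Consumer: `pvzc_follow_p`, `pvzc_follow_m` of `Tr/GoodLev` (112).

SETTING.   `S` = a circuit (the gate), `dm ∈ S.darts` the entry gate edge `g⁻ → w'`, `opp dp ∈ S.darts` the exit gate edge `g⁺ → w`; the only black sites of `S` are `g⁺ ≠ g⁻`;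
the inner strand runs `dm → dp` in `n₀` steps inside `S.Left`; `inn` = last-exit decomposition of its black bank;  `c` = a black rim with a FINITE wall which runs along `inn` from the place `j`;  `v₀ = src (c.e i₀)` a site of the rim which is not a site of `S.Left`.

CLAIM.     the strand continued from `dp` reaches the rim time `rotInv (c.e i₀)` of `v₀` before it comes back into `S.Left`;  the strand followed backwards from `dm` reaches the same rim time before the face behind it lies in `S.Left`.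

PROOF.     Clock of 42 / 152 (`pvzm_clock`) at the base `j`: `a = rotInv (c.e j)`, period `P`, rim times `0 = τ 0 < τ 1 < … < P`;  `pvzm_gate`: `dm = back^[δ'] a`, `dp = It a δ`.
* `pvzf_norev` (LEMMA R): between the rim time of the place `j` and a later rim time (less than one turn) the black bank does not come back to `src (c.e j)`.
      [the arc of the rim is the last-exit decomposition of the bank (`pvt_sd_rim_le` of 64); its first dart `c.e j = rot (position at the last visit)`, so the last visit is the position `a` itself.]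
* a strand enters `S.Left` through a dart of `S` (`pvzf_enter`), leaves it through the opposite of a dart of `S` (`pvzf_leave`); these darts are black → white, so their black end is `g⁺` or `g⁻`.
* FORWARDS: a first entrance before `τ k₀` at `g⁻` contradicts R at the base `j`;  at `g⁺`: the strand has to leave again before `τ k₀`; the exit at `g⁻` contradicts R, the exit at `g⁺` is `dp` itself = a return before the period.
* BACKWARDS: an entrance in `(τ k₀, P - δ')` at `g⁻` is `dm` = a return before the period;  at `g⁺` it contradicts R at the base `j + q` (`q = inn.n`, `τ q < τ k₀`).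
WITHOUT the finiteness of the wall the claim is FALSE (a finite rim hanging at a pinch vertex of a bi-infinite strand).
-/

set_option autoImplicit false
set_option linter.unusedSectionVars false

namespace Claimed.Agent.R289

open Relation Set

variable {V D : Type} {T : PvMap V D} {s : V → Bool}

/-! ## 1. crossing a circuit -/

/-- a strand enters the inside of a circuit through a dart of the circuit -/
theorem pvzf_enter (hT : T.IsSph) (S : T.Cyc) {d : D} (h1 : d ∉ S.Left) (h2 : pvasStep T s d ∈ S.Left) : pvasStep T s d ∈ S.darts :=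
  (pl_cyc_darts_iff hT S _).2 ⟨h2, fun h => h1 ((pvas_step_opp_mem (pl_left_face S) s).1 h)⟩

/-- a strand leaves the inside of a circuit through the opposite of a dart of the circuit -/
theorem pvzf_leave (hT : T.IsSph) (S : T.Cyc) {d : D} (h1 : d ∈ S.Left) (h2 : pvasStep T s d ∉ S.Left) : T.opp (pvasStep T s d) ∈ S.darts :=
  (pl_cyc_darts_iff hT S _).2 ⟨(pvas_step_opp_mem (pl_left_face S) s).2 h1, by rw [T.opp_opp]; exact h2⟩

/-- a circuit has one dart out of each of its vertices -/
theorem pvzf_dart_src (S : T.Cyc) {d d' : D} (h : d ∈ S.darts) (h' : d' ∈ S.darts) (e : T.src d = T.src d') : d = d' := by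
  obtain ⟨i, rfl⟩ := h
  obtain ⟨i', rfl⟩ := h'
  exact pl_cyc_eq_of_src S e

/-- a circuit has one dart into each of its vertices -/
theorem pvzf_dart_tgt (S : T.Cyc) {d d' : D} (h : d ∈ S.darts) (h' : d' ∈ S.darts) (e : T.tgt d = T.tgt d') : d = d' := by
  obtain ⟨i, rfl⟩ := h
  obtain ⟨i', rfl⟩ := h'
  rw [S.chain, S.chain] at e
  have h1 : (i + 1) % S.n = (i' + 1) % S.n := pl_cyc_src_inj S e
  exact pl_cyc_eq_of_mod S (Nat.ModEq.add_right_cancel' 1 h1)

theorem pvzf_src_verts (S : T.Cyc) {d : D} (h : d ∈ S.darts) : T.src d ∈ S.verts := by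
  obtain ⟨i, rfl⟩ := h
  exact ⟨i, rfl⟩

theorem pvzf_tgt_verts (S : T.Cyc) {d : D} (h : d ∈ S.darts) : T.tgt d ∈ S.verts := by
  obtain ⟨i, rfl⟩ := h
  exact ⟨i + 1, (S.chain i).symm⟩

/-- every place of a circuit is a place `j + k`, `k < n` -/
theorem pvzf_place (c : T.Cyc) (j i : ℕ) : ∃ k, k < c.n ∧ c.e (j + k) = c.e i := by
  have hn := pl_cyc_pos c
  refine ⟨(i + j * (c.n - 1)) % c.n, Nat.mod_lt _ hn, pl_cyc_eq_of_mod c ?_⟩
  obtain ⟨m, hm⟩ : ∃ m, c.n = m + 1 := ⟨c.n - 1, by omega⟩
  rw [Nat.add_mod_mod, hm, Nat.add_sub_cancel, show j + (i + j * m) = i + j * (m + 1) by ring, Nat.add_mul_mod_self_right]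

/-! ## 2. LEMMA R -/

/-- **LEMMA R**: from the rim time of the place `j` to a later rim time (less than one turn, no return) the black bank does not come back to the vertex number `j` -/
theorem pvzf_norev (hT : T.IsSph) (hS : T.Simple) {c : T.Cyc} (hc : c.IsRim s) (hb : s (T.src (c.e 0)) = true) {j k m : ℕ} (hk0 : 0 < k) (hk : k < c.n)
    (hm : pvasIt T s (T.rotInv (c.e j)) m = T.rotInv (c.e (j + k)))
    (hmin : ∀ t, 0 < t → t ≤ m → pvasIt T s (T.rotInv (c.e j)) t ≠ T.rotInv (c.e j)) :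
    ∀ t, 0 < t → t ≤ m → T.src (pvasIt T s (T.rotInv (c.e j)) t) ≠ T.src (c.e j) := by
  obtain ⟨y, hy, hn, he⟩ := pvt_sd_rim_le hT hS c (pl_rim_tag hc) (fun i => (pl_rim_lab hc i).2.2.1) (fun i => by rw [pl_rim_col hc i 0, hb])
    (i := j) (j := j + k) (by omega) (by omega) hm hmin
  obtain ⟨jj, h0, hnn, h1, h2⟩ := hy
  have hpos : 0 < y.n := by omega
  have e1 : y.v 0 = T.src (pvasIt T s (T.rotInv (c.e j)) (jj 0)) := (h1 0 hpos.le).2.1
  have e2 : y.v (0 + 1) = T.src (pvasIt T s (T.rotInv (c.e j)) (jj 0 + 1)) := h2 0 hpos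
  rw [pvas_it_succ] at e2
  have e3 : y.e 0 = T.rot (pvasIt T s (T.rotInv (c.e j)) (jj 0)) := by
    rcases pvas_step_ends s (pvasIt T s (T.rotInv (c.e j)) (jj 0)) with ⟨h, e, -⟩ | ⟨-, e, -⟩
    · refine hS _ _ ?_ ?_
      · rw [y.src_e 0 hpos, e1, T.src_rot]
      · rw [y.tgt_e 0 hpos, e2, e, T.tgt_rot]
    · exfalso
      have := y.inj (0 + 1) 0 hpos hpos.le (by rw [e1, e2, e])
      omega
  have e4 : pvasIt T s (T.rotInv (c.e j)) (jj 0) = T.rotInv (c.e j) := by
    have := he 0 (by omega)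
    rw [Nat.add_zero] at this
    have e5 : T.rotInv (y.e 0) = pvasIt T s (T.rotInv (c.e j)) (jj 0) := by rw [e3, T.rotInv_rot]
    rw [this] at e5
    exact e5.symm
  have hj0 : jj 0 = 0 := by
    by_contra hne
    exact hmin (jj 0) (Nat.pos_of_ne_zero hne) (h1 0 hpos.le).1 e4
  intro t ht0 ht e
  refine (h1 0 hpos.le).2.2 t (by omega) ht ?_
  show T.src (pvasIt T s (T.rotInv (c.e j)) t) = T.src (pvasIt T s (T.rotInv (c.e j)) (jj 0))
  rw [e, e4, T.src_rotInv]

/-! ## 3. the strand follows the rim -/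

/-- **THE STRAND FOLLOWS THE RIM OUT OF THE GATE**, both directions -/
theorem pvzf_follow (hT : T.IsSph) (hS : T.Simple) {S c : T.Cyc} {dp dm : D} {inn : T.Pth} {j n₀ i₀ : ℕ}
    (hdp : T.opp dp ∈ S.darts) (hdm : dm ∈ S.darts) (bwm : pvasBW T s dm) (hne : T.src dp ≠ T.src dm)
    (two : ∀ v ∈ S.verts, s v = true → v = T.src dp ∨ v = T.src dm)
    (hn₀ : pvasIt T s dm n₀ = dp) (hin : ∀ i, i < n₀ → pvasIt T s dm i ∈ S.Left) (hle : PvwLE T (fun i => T.src (pvasIt T s dm i)) n₀ inn)
    (hc : c.IsRim s) (hb : s (T.src (c.e 0)) = true) (hfin : {d | T.Wall s (T.opp (c.e 0)) d}.Finite) (run : ∀ i, i < inn.n → c.e (j + i) = inn.e i)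
    (hv₀ : T.src (c.e i₀) ∉ T.VOf S.Left) :
    (∃ t, pvasIt T s dp t = T.rotInv (c.e i₀) ∧ ∀ i, i ≤ t → pvasIt T s dp i ∉ S.Left) ∧
      ∃ t, (pvasBack T s)^[t] dm = T.rotInv (c.e i₀) ∧ ∀ i, i ≤ t → T.opp ((pvasBack T s)^[i] dm) ∉ S.Left := by
  classical
  have hA := pl_left_face S
  have hdpL := (pl_cyc_darts_iff hT S _).1 hdp
  rw [T.opp_opp] at hdpL
  have hpos : 0 < inn.n := by
    rcases Nat.eq_zero_or_pos inn.n with h0 | h0
    · exfalso
      apply hne
      rw [← hn₀, ← pvt_sd_vn hle, h0, pvt_sd_v0 hle]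
    · exact h0
  obtain ⟨hq, hsrc, δ', δ, hδ, hδ0, ea, eback, edp⟩ := pvzm_gate hS bwm hn₀ hle hpos run
  obtain ⟨P, τ, hP, hτ0, hτs, hτ⟩ := pvzm_clock hT hS hc hb hfin j
  obtain ⟨k₀, hk₀n, hk₀⟩ := pvzf_place c j i₀
  set a := T.rotInv (c.e j) with ha
  set q := inn.n with hqd
  have bwa : pvasBW T s a := hP.bw
  -- the clock is increasing
  have mono : ∀ k k', k < k' → k' < c.n → τ k < τ k' := by
    intro k k' hk
    induction k', hk using Nat.le_induction with
    | base => intro h1; exact hτs k h1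
    | succ k' hk' ih => intro h1; exact (ih (by omega)).trans (hτs k' h1)
  -- the vertices of the inner arc
  have hv : ∀ i, i ≤ q → T.src (c.e (j + i)) = inn.v i := by
    intro i hi
    rcases Nat.lt_or_ge i q with h | h
    · rw [run i h, inn.src_e i h]
    · obtain rfl : i = q := le_antisymm hi h
      obtain ⟨k, hk⟩ : ∃ k, q = k + 1 := ⟨q - 1, by omega⟩
      rw [hk, ← Nat.add_assoc, ← c.chain, run k (by omega), inn.tgt_e k (by omega)]
  have hcore : ∀ i, i ≤ q → inn.v i ∈ T.VOf S.Left := by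
    intro i hi
    obtain ⟨t, ht, e⟩ := pvt_sd_verts hle ⟨i, hi, rfl⟩
    rw [← e]
    rcases Nat.lt_or_ge t n₀ with h | h
    · exact ⟨_, hin t h, rfl⟩
    · obtain rfl : t = n₀ := le_antisymm ht h
      rw [hn₀, ← T.tgt_opp]
      exact (pvwk_vof hA hdpL.1).2.1
  have hgm : T.src dm = T.src (c.e j) := by
    rw [← Nat.add_zero j, hv 0 (Nat.zero_le _), pvt_sd_v0 hle]
  -- the rim time of `v₀`
  have hr₀ : pvasIt T s a (τ k₀) = T.rotInv (c.e i₀) := by rw [(hτ k₀ hk₀n).2, hk₀]
  have hτP : τ k₀ < P := (hτ k₀ hk₀n).1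
  have hoff : ∀ d, T.src d = T.src (c.e i₀) → d ∉ S.Left := fun d e hd => hv₀ ⟨d, hd, e⟩
  have hout : pvasIt T s a (τ k₀) ∉ S.Left := hoff _ (by rw [hr₀, T.src_rotInv])
  have hqk : q < k₀ := by
    by_contra hcon
    apply hv₀
    rw [← hk₀, hv k₀ (by omega)]
    exact hcore k₀ (by omega)
  have hτq : τ q < τ k₀ := mono q k₀ hqk hk₀n
  have hτq0 : 0 < τ q := by rw [← hτ0]; exact mono 0 q hpos hq
  have hδle : δ ≤ τ k₀ := by
    by_contra hcon
    apply hout
    rw [← ea, ← pvas_it_add]
    exact hin _ (by omega)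
  -- LEMMA R at the base `j`
  have hR := pvzf_norev hT hS hc hb (by omega : 0 < k₀) hk₀n (hτ k₀ hk₀n).2 (fun t h0 ht => hP.min t h0 (by omega))
  -- LEMMA R at the base `j + q`
  have hR' : ∀ u, τ q < u → u ≤ P → T.src (pvasIt T s a u) ≠ T.src dp := by
    have e1 : pvasIt T s (T.rotInv (c.e (j + q))) (P - τ q) = T.rotInv (c.e (j + q + (c.n - q))) := by
      rw [← (hτ q hq).2, ← pvas_it_add, show τ q + (P - τ q) = P by have := (hτ q hq).1; omega, hP.ret, show j + q + (c.n - q) = j + c.n by omega, c.per]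
    have e2 : ∀ t, 0 < t → t ≤ P - τ q → pvasIt T s (T.rotInv (c.e (j + q))) t ≠ T.rotInv (c.e (j + q)) := by
      intro t h0 ht e
      rw [← (hτ q hq).2, ← pvas_it_add] at e
      have := pvas_it_return bwa (by omega : τ q ≤ τ q + t) e.symm
      rw [Nat.add_sub_cancel_left] at this
      exact hP.min t h0 (by omega) this
    have h3 := pvzf_norev hT hS hc hb (by omega : 0 < c.n - q) (by omega) e1 e2
    intro u h1 h2
    have := h3 (u - τ q) (by omega) (by omega)
    rwa [← (hτ q hq).2, ← pvas_it_add, show τ q + (u - τ q) = u by omega, ← hsrc] at this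
  have hblack : ∀ u, s (T.src (pvasIt T s a u)) = true := fun u => (pvas_it_bw bwa u).1
  constructor
  · -- FORWARDS
    have hrun : ∀ i, pvasIt T s dp i = pvasIt T s a (δ + i) := fun i => by rw [pvas_it_add, edp]
    refine ⟨τ k₀ - δ, by rw [hrun, show δ + (τ k₀ - δ) = τ k₀ by omega, hr₀], ?_⟩
    by_contra hcon
    push Not at hcon
    have hex : ∃ i, i ≤ τ k₀ - δ ∧ pvasIt T s a (δ + i) ∈ S.Left := by
      obtain ⟨i, h1, h2⟩ := hcon
      exact ⟨i, h1, by rw [← hrun]; exact h2⟩
    obtain ⟨h1, h2⟩ := Nat.find_spec hex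
    have hmin : ∀ i, i < Nat.find hex → ¬ (i ≤ τ k₀ - δ ∧ pvasIt T s a (δ + i) ∈ S.Left) := fun i hi => Nat.find_min hex hi
    generalize Nat.find hex = i₁ at *
    have hi₁ : 0 < i₁ := by
      rcases Nat.eq_zero_or_pos i₁ with rfl | h
      · rw [Nat.add_zero, edp] at h2
        exact absurd h2 hdpL.2
      · exact h
    obtain ⟨i', rfl⟩ : ∃ i', i₁ = i' + 1 := ⟨i₁ - 1, by omega⟩
    have h3 : pvasIt T s a (δ + i') ∉ S.Left := fun h => hmin i' (by omega) ⟨by omega, h⟩
    rw [← Nat.add_assoc, pvas_it_succ] at h2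
    have h4 := pvzf_enter hT S h3 h2
    rw [← pvas_it_succ] at h2 h4
    rcases two _ (pvzf_src_verts S h4) (hblack _) with e | e
    · -- entrance at `g⁺`: the strand has to leave again
      have hex2 : ∃ i, δ + i' + 1 < i ∧ pvasIt T s a i ∉ S.Left := by
        refine ⟨τ k₀, ?_, hout⟩
        rcases Nat.lt_or_ge (δ + i' + 1) (τ k₀) with h | h
        · exact h
        · exfalso
          have : δ + i' + 1 = τ k₀ := by omega
          rw [this] at h2
          exact hout h2
      obtain ⟨g1, g2⟩ := Nat.find_spec hex2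
      have gmin : ∀ i, i < Nat.find hex2 → ¬ (δ + i' + 1 < i ∧ pvasIt T s a i ∉ S.Left) := fun i hi => Nat.find_min hex2 hi
      have gle : Nat.find hex2 ≤ τ k₀ := by
        refine Nat.find_min' hex2 ⟨?_, hout⟩
        rcases Nat.lt_or_ge (δ + i' + 1) (τ k₀) with h | h
        · exact h
        · exfalso
          have : δ + i' + 1 = τ k₀ := by omega
          rw [this] at h2
          exact hout h2
      generalize Nat.find hex2 = i₂ at *
      obtain ⟨i'', rfl⟩ : ∃ i'', i₂ = i'' + 1 := ⟨i₂ - 1, by omega⟩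
      have g3 : pvasIt T s a i'' ∈ S.Left := by
        rcases Nat.lt_or_ge (δ + i' + 1) i'' with h | h
        · by_contra hn
          exact gmin i'' (by omega) ⟨h, hn⟩
        · have : i'' = δ + i' + 1 := by omega
          rw [this]
          exact h2
      rw [pvas_it_succ] at g2
      have g4 := pvzf_leave hT S g3 g2
      rw [← pvas_it_succ] at g4
      have g5 := pvzf_tgt_verts S g4
      rw [T.tgt_opp] at g5
      rcases two _ g5 (hblack _) with e' | e'
      · have g6 := pvzf_dart_tgt S g4 hdp (by rw [T.tgt_opp, T.tgt_opp, e'])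
        have g7 : pvasIt T s a (i'' + 1) = pvasIt T s a δ := by rw [edp, ← T.opp_opp (pvasIt T s a (i'' + 1)), g6, T.opp_opp]
        have := pvzm_per_inj hP (by omega) (by omega) g7
        omega
      · exact hR (i'' + 1) (by omega) gle (by rw [e', hgm])
    · exact hR (δ + i' + 1) (by omega) (by omega) (by rw [e, hgm])
  · -- BACKWARDS
    have hW : δ' + τ k₀ ≤ P := by
      by_contra hcon
      apply hout
      have e1 : (pvasBack T s)^[P - τ k₀] a = pvasIt T s a (τ k₀) := by
        rw [pvzm_per_back hP (by omega), show P - (P - τ k₀) = τ k₀ by omega]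
      have e2 := pvwk_it_back bwa (i := δ' - (P - τ k₀)) (n := δ') (by omega)
      rw [eback, show δ' - (δ' - (P - τ k₀)) = P - τ k₀ by omega, e1] at e2
      rw [← e2]
      exact hin _ (by omega)
    have hrun : ∀ i, i ≤ P - δ' → (pvasBack T s)^[i] dm = pvasIt T s a (P - δ' - i) := by
      intro i hi
      rw [← eback, ← Function.iterate_add_apply, pvzm_per_back hP (by omega)]
      congr 1
      omega
    -- the strand stays outside from the rim time of `v₀` to the entry gate edge
    have key : ∀ u, τ k₀ ≤ u → u + δ' < P → pvasIt T s a u ∉ S.Left := by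
      intro u hu
      induction u, hu using Nat.le_induction with
      | base => intro _; exact hout
      | succ u hu ih =>
        intro h1 h2
        have h3 := ih (by omega)
        rw [pvas_it_succ] at h2
        have h4 := pvzf_enter hT S h3 h2
        rw [← pvas_it_succ] at h4
        rcases two _ (pvzf_src_verts S h4) (hblack _) with e | e
        · exact hR' (u + 1) (by omega) (by omega) e
        · have h5 := pvzf_dart_src S h4 hdm e
          have h6 : pvasIt T s a (u + 1 + δ') = a := by rw [pvas_it_add, h5, ea]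
          exact hP.min _ (by omega) h1 h6
    refine ⟨P - δ' - τ k₀, by rw [hrun _ (by omega), show P - δ' - (P - δ' - τ k₀) = τ k₀ by omega, hr₀], ?_⟩
    intro i hi hmem
    rw [hrun i (by omega)] at hmem
    rcases Nat.eq_or_lt_of_le hi with rfl | hlt
    · rw [show P - δ' - (P - δ' - τ k₀) = τ k₀ by omega, hr₀] at hmem
      apply hv₀
      have := (pvwk_vof hA hmem).2.1
      rwa [T.tgt_opp, T.src_rotInv] at this
    · obtain ⟨u, hu⟩ : ∃ u, P - δ' - i = u + 1 := ⟨P - δ' - i - 1, by omega⟩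
      rw [hu, pvas_it_succ, pvas_step_opp_mem hA] at hmem
      exact key u (by omega) (by omega) hmem

/-- **FORWARDS**: the strand continued from the exit gate edge meets `v₀` before it comes back into the gate -/
theorem pvzf_follow_p (hT : T.IsSph) (hS : T.Simple) {S c : T.Cyc} {dp dm : D} {inn : T.Pth} {j n₀ i₀ : ℕ}
    (hdp : T.opp dp ∈ S.darts) (hdm : dm ∈ S.darts) (bwm : pvasBW T s dm) (hne : T.src dp ≠ T.src dm)
    (two : ∀ v ∈ S.verts, s v = true → v = T.src dp ∨ v = T.src dm)
    (hn₀ : pvasIt T s dm n₀ = dp) (hin : ∀ i, i < n₀ → pvasIt T s dm i ∈ S.Left) (hle : PvwLE T (fun i => T.src (pvasIt T s dm i)) n₀ inn)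
    (hc : c.IsRim s) (hb : s (T.src (c.e 0)) = true) (hfin : {d | T.Wall s (T.opp (c.e 0)) d}.Finite) (run : ∀ i, i < inn.n → c.e (j + i) = inn.e i)
    (hv₀ : T.src (c.e i₀) ∉ T.VOf S.Left) :
    ∃ t, T.src (pvasIt T s dp t) = T.src (c.e i₀) ∧ ∀ i, i ≤ t → pvasIt T s dp i ∉ S.Left := by
  obtain ⟨t, h1, h2⟩ := (pvzf_follow hT hS hdp hdm bwm hne two hn₀ hin hle hc hb hfin run hv₀).1
  exact ⟨t, by rw [h1, T.src_rotInv], h2⟩

/-- **BACKWARDS**: the strand followed backwards from the entry gate edge meets `v₀` before the face behind it lies in the gate -/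
theorem pvzf_follow_m (hT : T.IsSph) (hS : T.Simple) {S c : T.Cyc} {dp dm : D} {inn : T.Pth} {j n₀ i₀ : ℕ}
    (hdp : T.opp dp ∈ S.darts) (hdm : dm ∈ S.darts) (bwm : pvasBW T s dm) (hne : T.src dp ≠ T.src dm)
    (two : ∀ v ∈ S.verts, s v = true → v = T.src dp ∨ v = T.src dm)
    (hn₀ : pvasIt T s dm n₀ = dp) (hin : ∀ i, i < n₀ → pvasIt T s dm i ∈ S.Left) (hle : PvwLE T (fun i => T.src (pvasIt T s dm i)) n₀ inn)
    (hc : c.IsRim s) (hb : s (T.src (c.e 0)) = true) (hfin : {d | T.Wall s (T.opp (c.e 0)) d}.Finite) (run : ∀ i, i < inn.n → c.e (j + i) = inn.e i)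
    (hv₀ : T.src (c.e i₀) ∉ T.VOf S.Left) :
    ∃ t, T.src ((pvasBack T s)^[t] dm) = T.src (c.e i₀) ∧ ∀ i, i ≤ t → T.opp ((pvasBack T s)^[i] dm) ∉ S.Left := by
  obtain ⟨t, h1, h2⟩ := (pvzf_follow hT hS hdp hdm bwm hne two hn₀ hin hle hc hb hfin run hv₀).2
  exact ⟨t, by rw [h1, T.src_rotInv], h2⟩

end Claimed.Agent.R289
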