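import Claimed.Agent.R289.Tr.Defs
import Claimed.Agent.R289.Tr.StKit
import Claimed.Agent.R289.Tr.Level
import Claimed.Agent.R289.Tr.FlagA
import Claimed.Agent.R289.Tr.GoodFol

/-!
# Row 289 (S0537, Cardy for Poisson-Voronoi), THE WALL, road E, node E15 = A GOOD LEVEL EXISTS, file Tr/GoodLev : HALF A = THE LEVELS + THE FINAL STATEMENT      (pen helper112; second helper42 = HALF B = THE MOUTHS, `Tr/GoodMouth`, prefix `pvzm_`; prefix here `pvzc_`, defs `pvzc…`, `Pvzc…`)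

E15 of `origin/helper208:notes/R289/W1_208_v3.md`: "not FLAG1, not FLAG2 ⟹ some `k ≤ K` with the full state GOOD (g1)(g3) and the mouth clauses of D12".      Vocabulary = `Tr/Defs` v3 (216, 25; FROZEN e1517fba99).      DETERMINISTIC: `(T, pos, s, N, h, z, τ)`.

* sec.0  numbers `PvzcNum`;  the type at level `k` with the tip centres `yp ym` (units of `h`, relative to `z`) `pvzcTy τ k yp ym`;  **THE FAMILY** `pvzcSt 𝔊 pos z s r` = the gate data of `𝔊` + the two stubs explored to the first exits of the box of half side `r`;  `pvzcLv … k` = the member of level `k`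
* sec.1  boxes: `pvwSq` against `pvlvRad`, `pvlvBox` (235);  the gate data do not read the level nor the stubs (`pvzc_gate`, `pvzc_inmost`)
* sec.2  STUBS: `pvzc_stubP`, `pvzc_stubM` (first exit of the FACE = `pvasHit` of the complement of `pvlvBox`)
* sec.3  CALM ⟹ (g1): `pvzc_late` (one strand, symmetric in the two ends), `pvzc_late_p`, `pvzc_late_m`
* sec.4  PIGEONHOLE (E11): `pvzc_calm_exists` (counts), `pvzc_cnt_of_flag` (FLAG1 in the marks form of 235, `PvfaFlag1`)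
* sec.5  THE RIM: a black rim through the gate which leaves the largest box ⟹ the two stubs leave every box (`pvzc_exit_p/m`) and do not return into the gate (`pvzc_off_p/m`)
* sec.6  **`pvzc_levels`** : some `k ≤ K0` (`K0 ≤ K` free: 42, 136, 249) with `AtOut` and `AtIn`;      **`pvzc_e15`** : the final statement, HALF B = the hypothesis `PvzcMouth` at every level with both half states (producer: 42)
CONSUMER: X3 = PIN EXISTS (126, `Tr/PinE`).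
-/

set_option autoImplicit false
set_option linter.unusedSectionVars false
set_option linter.unusedVariables false

namespace Claimed.Agent.R289

open Set

variable {V D : Type} {T : PvMap V D}

/-! ## 0. numbers, the family of the levels -/

/-- the numbers of the levels: step size `a` of FLAG1 (real length), mesh `δ` (real length) -/
structure PvzcNum (N : PvwNum) (h : ℝ) (τ : PvwTy) (a δ : ℝ) : Prop where
  h_pos : 0 < h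
  a_pos : 0 < a
  d_nn : 0 ≤ δ
  r1_nn : 0 ≤ N.rho1
  r_nn : 0 ≤ N.rho
  /-- the mesh and the radius `ρ h / 4` of the tip cells against the spacing of the levels -/
  mesh : N.rho * h / 4 + δ ≤ N.rho1 * h / 2
  /-- the window of a calm level against the protection radius -/
  step : 2 * a + δ + N.rho * h / 4 ≤ N.rho2 * h
  /-- the gate lies in every box -/
  gate : τ.b ≤ 2 * τ.b2

/-- the type `τ` at the level `k`, tip centres `yp`, `ym` -/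
def pvzcTy (τ : PvwTy) (k : ℕ) (yp ym : ℂ) : PvwTy := { τ with k := k, yp := yp, ym := ym }

/-- **THE FAMILY**: the gate data of `𝔊`, the two stubs explored until the first position whose face is not in the box of centre `z`, half side `r` -/
noncomputable def pvzcSt (𝔊 : PvwSt T) (pos : V → ℂ) (z : ℂ) (s : V → Bool) (r : ℝ) : PvwSt T :=
  { 𝔊 with
    np := pvasHit T s 𝔊.dp (pvlvBox T pos z r)ᶜ
    ep := fun i => pvasIt T s 𝔊.dp i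
    nm := pvasHit T (pvasNot s) (T.opp 𝔊.dm) (pvlvBox T pos z r)ᶜ
    em := fun i => (pvasBack T s)^[i] 𝔊.dm }

/-- the member of level `k` -/
noncomputable def pvzcLv (𝔊 : PvwSt T) (pos : V → ℂ) (N : PvwNum) (h : ℝ) (z : ℂ) (τ : PvwTy) (s : V → Bool) (k : ℕ) : PvwSt T := pvzcSt 𝔊 pos z s (pvwRad N h τ k)

/-- **HALF B** (42): the clauses (g3) and the mouth clauses of D12 for the state `𝔖`, the centres `yp ym` (ABSOLUTE) and the rim `c` -/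
structure PvzcMouth (𝔖 : PvwSt T) (pos : V → ℂ) (N : PvwNum) (h : ℝ) (yp ym : ℂ) (BK : Set ℂ) (c : T.Cyc) (j : ℕ) : Prop where
  far_p : ∀ v ∈ 𝔖.fzIn, 2 * N.rho * h < ‖pos v - yp‖
  far_m : ∀ v ∈ 𝔖.fzOut, 2 * N.rho * h < ‖pos v - ym‖
  pin : 𝔖.PinOf pos N h yp ym BK c j

/-- `y` (ABSOLUTE) is a centre for the exit tip (= clause `GoodOut.tip_p`) -/
def PvzcTipP (𝔖 : PvwSt T) (pos : V → ℂ) (N : PvwNum) (h : ℝ) (y : ℂ) : Prop :=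
  ‖pos (T.src (𝔖.ep 𝔖.np)) - y‖ ≤ N.rho * h / 4 ∧ ‖pos (T.tgt (𝔖.ep 𝔖.np)) - y‖ ≤ N.rho * h / 4

/-- `y` (ABSOLUTE) is a centre for the entrance tip (= clause `GoodIn.tip_m`) -/
def PvzcTipM (𝔖 : PvwSt T) (pos : V → ℂ) (N : PvwNum) (h : ℝ) (y : ℂ) : Prop :=
  ‖pos (T.src (𝔖.em 𝔖.nm)) - y‖ ≤ N.rho * h / 4 ∧ ‖pos (T.tgt (𝔖.em 𝔖.nm)) - y‖ ≤ N.rho * h / 4

theorem pvzc_eqns_cite : True := by
  have := @pvzcTy.eq_1; have := @pvzcSt.eq_1; have := @pvzcLv.eq_1; have := @PvzcTipP.eq_1; have := @PvzcTipM.eq_1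
  trivial

variable {pos : V → ℂ} {N : PvwNum} {h : ℝ} {z : ℂ} {τ : PvwTy} {s : V → Bool} {𝔊 : PvwSt T} {a δ r : ℝ}

/-! ## 1. boxes; the gate data -/

theorem pvzc_sq_iff {x : ℂ} : x ∈ pvwSq z r ↔ pvlvRad z x ≤ r := by
  unfold pvwSq pvlvRad
  exact max_le_iff.symm

theorem pvzc_box_iff {d : D} : d ∈ pvlvBox T pos z r ↔ pos (T.src d) ∈ pvwSq z r ∧ pos (T.tgt d) ∈ pvwSq z r ∧ pos (T.apex d) ∈ pvwSq z r := by
  rw [pvzc_sq_iff, pvzc_sq_iff, pvzc_sq_iff]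
  show pvlvFR T pos z d ≤ r ↔ _
  unfold pvlvFR
  rw [max_le_iff, max_le_iff, and_assoc]

theorem pvzc_rad_eq (N : PvwNum) (h : ℝ) (τ : PvwTy) (k : ℕ) : pvwRad N h τ k = 2 * τ.b2 * h + k * (N.rho1 * h) := by
  unfold pvwRad; ring

theorem pvzc_rad_ty (N : PvwNum) (h : ℝ) (τ : PvwTy) (k k' : ℕ) (yp ym : ℂ) : pvwRad N h (pvzcTy τ k' yp ym) k = pvwRad N h τ k := rfl

theorem pvzc_cp (τ : PvwTy) (k : ℕ) (yp ym : ℂ) (h : ℝ) (z : ℂ) : (pvzcTy τ k yp ym).cp h z = z + (h : ℂ) * yp := rfl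

theorem pvzc_cm (τ : PvwTy) (k : ℕ) (yp ym : ℂ) (h : ℝ) (z : ℂ) : (pvzcTy τ k yp ym).cm h z = z + (h : ℂ) * ym := rfl

theorem pvzc_rad_mono (hN : PvzcNum N h τ a δ) {k k' : ℕ} (hk : k ≤ k') : pvwRad N h τ k ≤ pvwRad N h τ k' := by
  rw [pvzc_rad_eq, pvzc_rad_eq]
  have h1 : (k : ℝ) ≤ k' := by exact_mod_cast hk
  have h2 : 0 ≤ N.rho1 * h := mul_nonneg hN.r1_nn hN.h_pos.le
  nlinarith

/-- the gate clause reads neither the level nor the stubs -/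
theorem pvzc_gate (hg : 𝔊.Gate pos h z τ s) (r : ℝ) (k : ℕ) (yp ym : ℂ) : (pvzcSt 𝔊 pos z s r).Gate pos h z (pvzcTy τ k yp ym) s :=
  ⟨hg.fin, hg.dsc_eq, hg.core_fin, hg.ann, hg.round, hg.inside, hg.dp_on, hg.dm_on, hg.bw_p, hg.bw_m, hg.ne, hg.ori, hg.two, hg.left, hg.strand, hg.ip_le, hg.ip_near, hg.ip_first⟩

theorem pvzc_gate_ty {𝔖 : PvwSt T} {k : ℕ} {yp ym : ℂ} : 𝔖.Gate pos h z (pvzcTy τ k yp ym) s ↔ 𝔖.Gate pos h z τ s :=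
  ⟨fun hg => ⟨hg.fin, hg.dsc_eq, hg.core_fin, hg.ann, hg.round, hg.inside, hg.dp_on, hg.dm_on, hg.bw_p, hg.bw_m, hg.ne, hg.ori, hg.two, hg.left, hg.strand, hg.ip_le, hg.ip_near, hg.ip_first⟩,
   fun hg => ⟨hg.fin, hg.dsc_eq, hg.core_fin, hg.ann, hg.round, hg.inside, hg.dp_on, hg.dm_on, hg.bw_p, hg.bw_m, hg.ne, hg.ori, hg.two, hg.left, hg.strand, hg.ip_le, hg.ip_near, hg.ip_first⟩⟩

theorem pvzc_inmost (hi : 𝔊.Inmost pos h z τ s) (r : ℝ) (k : ℕ) (yp ym : ℂ) : (pvzcSt 𝔊 pos z s r).Inmost pos h z (pvzcTy τ k yp ym) s := hi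

/-! ## 2. the stubs of the family -/

/-- the exit stub of the family is the exit stub of the box -/
theorem pvzc_stubP (h0 : pos (T.src 𝔊.dp) ∈ pvwSq z r ∧ pos (T.tgt 𝔊.dp) ∈ pvwSq z r) (hex : ∃ t, pvasIt T s 𝔊.dp t ∉ pvlvBox T pos z r) :
    (pvzcSt 𝔊 pos z s r).StubP pos (pvwSq z r) s := by
  have hex' : ∃ t, pvasIt T s 𝔊.dp t ∈ (pvlvBox T pos z r)ᶜ := hex
  have hax : ∀ i, i < pvasHit T s 𝔊.dp (pvlvBox T pos z r)ᶜ → pos (T.apex (pvasIt T s 𝔊.dp i)) ∈ pvwSq z r := fun i hi =>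
    (pvzc_box_iff.1 (not_not.1 (pvas_hit_min hi))).2.2
  have hin := pvwk_it_in (s := s) h0 hax
  refine ⟨fun _ _ => rfl, hin, hax, fun hap => ?_⟩
  exact pvas_hit_mem hex' (pvzc_box_iff.2 ⟨(hin _ le_rfl).1, (hin _ le_rfl).2, hap⟩)

/-- the entrance stub of the family is the entrance stub of the box -/
theorem pvzc_stubM (h0 : pos (T.src 𝔊.dm) ∈ pvwSq z r ∧ pos (T.tgt 𝔊.dm) ∈ pvwSq z r) (hex : ∃ t, pvasIt T (pvasNot s) (T.opp 𝔊.dm) t ∉ pvlvBox T pos z r) :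
    (pvzcSt 𝔊 pos z s r).StubM pos (pvwSq z r) s := by
  have hex' : ∃ t, pvasIt T (pvasNot s) (T.opp 𝔊.dm) t ∈ (pvlvBox T pos z r)ᶜ := hex
  have hax : ∀ i, i < pvasHit T (pvasNot s) (T.opp 𝔊.dm) (pvlvBox T pos z r)ᶜ → pos (T.apex (pvasIt T (pvasNot s) (T.opp 𝔊.dm) i)) ∈ pvwSq z r := fun i hi =>
    (pvzc_box_iff.1 (not_not.1 (pvas_hit_min hi))).2.2
  have h1 : pos (T.src (T.opp 𝔊.dm)) ∈ pvwSq z r ∧ pos (T.tgt (T.opp 𝔊.dm)) ∈ pvwSq z r := by rw [T.src_opp', T.tgt_opp]; exact ⟨h0.2, h0.1⟩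
  have hin := pvwk_it_in (s := pvasNot s) h1 hax
  refine ⟨fun _ _ => rfl, fun i hi => ?_, fun i hi => ?_, fun hap => ?_⟩
  · show pos (T.src ((pvasBack T s)^[i] 𝔊.dm)) ∈ _ ∧ pos (T.tgt ((pvasBack T s)^[i] 𝔊.dm)) ∈ _
    rw [pvwk_back_it, T.src_opp', T.tgt_opp]
    exact ⟨(hin i hi).2, (hin i hi).1⟩
  · show pos (T.apex (T.opp ((pvasBack T s)^[i] 𝔊.dm))) ∈ _
    rw [pvwk_back_it, T.opp_opp]
    exact hax i hi
  · have hap' : pos (T.apex (T.opp ((pvasBack T s)^[pvasHit T (pvasNot s) (T.opp 𝔊.dm) (pvlvBox T pos z r)ᶜ] 𝔊.dm))) ∈ pvwSq z r := hap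
    rw [pvwk_back_it, T.opp_opp] at hap'
    exact pvas_hit_mem hex' (pvzc_box_iff.2 ⟨(hin _ le_rfl).1, (hin _ le_rfl).2, hap'⟩)

/-! ## 3. a calm level gives (g1) -/

open Classical in
/-- **CALM ⟹ (g1)**, one strand `(s, d)`, first exit `n` of the box `r`; symmetric in the two ends of the positions; `y` = a point within `η` of the two ends of the last position.
`ρc` = the calm radius (= the spacing of the levels), `δ` = the mesh on the positions `0..n`. -/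
theorem pvzc_late {d : D} {n : ℕ} {ρc ρ₂ η : ℝ} {y : ℂ} (ha : 0 < a) (h0 : 0 ≤ δ) (hm : η + δ ≤ ρc / 2) (hst : 2 * a + δ + η ≤ ρ₂)
    (hδ : ∀ t, t ≤ n → dist (pos (T.tgt (pvasIt T s d t))) (pos (T.src (pvasIt T s d t))) ≤ δ ∧ dist (pos (T.apex (pvasIt T s d t))) (pos (T.src (pvasIt T s d t))) ≤ δ)
    (hy : ‖pos (T.src (pvasIt T s d n)) - y‖ ≤ η ∧ ‖pos (T.tgt (pvasIt T s d n)) - y‖ ≤ η)
    (hE : PvlvExit (pvlvH T pos z s d) r n) (hc : PvlvCalm (pvlvZ T pos s d) a (pvlvH T pos z s d) r ρc n) :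
    ∃ i₀, i₀ ≤ n ∧
      (∀ i, i₀ ≤ i → i ≤ n → ‖pos (T.src (pvasIt T s d i)) - y‖ < ρ₂ ∧ ‖pos (T.tgt (pvasIt T s d i)) - y‖ < ρ₂) ∧
      ∀ i, i < i₀ → ρc / 2 < ‖pos (T.src (pvasIt T s d i)) - y‖ ∧ ρc / 2 < ‖pos (T.tgt (pvasIt T s d i)) - y‖ := by
  simp only [← Complex.dist_eq] at hy ⊢
  obtain ⟨m1, m2⟩ := hy
  have hn := hδ n le_rfl
  have hex : ∃ i, dist (pos (T.src (pvasIt T s d i))) y ≤ ρc / 2 ∨ dist (pos (T.tgt (pvasIt T s d i))) y ≤ ρc / 2 := ⟨n, Or.inl (by linarith)⟩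
  have hle : Nat.find hex ≤ n := Nat.find_min' hex (Or.inl (by linarith))
  refine ⟨Nat.find hex, hle, ?_, ?_⟩
  · -- the height at the first visit
    have hH : r - ρc < pvlvH T pos z s d (Nat.find hex) := by
      have hxr : pvlvRad z y ≤ pvlvH T pos z s d (Nat.find hex) + ρc / 2 := by
        rcases Nat.find_spec hex with h1 | h1
        · have h2 := pvlv_rad_lip z y (pos (T.src (pvasIt T s d (Nat.find hex))))
          have h3 : pvlvRad z (pos (T.src (pvasIt T s d (Nat.find hex)))) ≤ pvlvH T pos z s d (Nat.find hex) := le_trans (le_max_left _ _) (le_max_left _ _)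
          rw [dist_comm] at h2
          linarith
        · have h2 := pvlv_rad_lip z y (pos (T.tgt (pvasIt T s d (Nat.find hex))))
          have h3 : pvlvRad z (pos (T.tgt (pvasIt T s d (Nat.find hex)))) ≤ pvlvH T pos z s d (Nat.find hex) := le_trans (le_max_right _ _) (le_max_left _ _)
          rw [dist_comm] at h2
          linarith
      have hHn : pvlvH T pos z s d n ≤ pvlvRad z y + (η + δ) := by
        unfold pvlvH pvlvFR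
        refine max_le (max_le ?_ ?_) ?_
        · have := pvlv_rad_lip z (pos (T.src (pvasIt T s d n))) y
          linarith
        · have := pvlv_rad_lip z (pos (T.tgt (pvasIt T s d n))) y
          linarith
        · have := pvlv_rad_lip z (pos (T.apex (pvasIt T s d n))) y
          have h4 := dist_triangle (pos (T.apex (pvasIt T s d n))) (pos (T.src (pvasIt T s d n))) y
          linarith [hn.2]
      have := hE.1
      linarith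
    intro i hi hin
    have hw : dist (pos (T.src (pvasIt T s d i))) (pos (T.src (pvasIt T s d n))) < 2 * a := pvlv_calm_window ha hc hH hi hin hle le_rfl
    have h5 := dist_triangle (pos (T.src (pvasIt T s d i))) (pos (T.src (pvasIt T s d n))) y
    have h6 := dist_triangle (pos (T.tgt (pvasIt T s d i))) (pos (T.src (pvasIt T s d i))) y
    have h7 := (hδ i hin).1
    constructor
    · linarith
    · linarith
  · intro i hi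
    have := Nat.find_min hex hi
    rw [not_or, not_le, not_le] at this
    exact this

/-- the mesh hypothesis of record: every edge with an end in the box `r` is shorter than `δ` -/
def PvzcMesh (T : PvMap V D) (pos : V → ℂ) (z : ℂ) (r δ : ℝ) : Prop := ∀ d, pos (T.src d) ∈ pvwSq z r → dist (pos (T.tgt d)) (pos (T.src d)) ≤ δ

theorem pvzc_eqns_cite2 : True := by
  have := @PvzcMesh.eq_1
  trivial

/-- the mesh on the positions of a stub -/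
theorem pvzc_mesh_it {d : D} {n : ℕ} {r' : ℝ} (hM : PvzcMesh T pos z r' δ) (hr : r ≤ r') (h0 : pos (T.src d) ∈ pvwSq z r ∧ pos (T.tgt d) ∈ pvwSq z r) (hE : PvlvExit (pvlvH T pos z s d) r n) :
    ∀ t, t ≤ n → dist (pos (T.tgt (pvasIt T s d t))) (pos (T.src (pvasIt T s d t))) ≤ δ ∧ dist (pos (T.apex (pvasIt T s d t))) (pos (T.src (pvasIt T s d t))) ≤ δ := by
  have hax : ∀ i, i < n → pos (T.apex (pvasIt T s d i)) ∈ pvwSq z r := fun i hi => (pvzc_box_iff.1 (show pvasIt T s d i ∈ pvlvBox T pos z r from hE.2 i hi)).2.2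
  have hin := pvwk_it_in (s := s) h0 hax
  intro t ht
  have h1 : pos (T.src (pvasIt T s d t)) ∈ pvwSq z r' := pvzc_sq_iff.2 ((pvzc_sq_iff.1 (hin t ht).1).trans hr)
  refine ⟨hM _ h1, ?_⟩
  have h2 := hM (T.opp (T.nxt (T.nxt (pvasIt T s d t))))
  rw [T.src_opp', T.tgt_opp, T.tgt_nxt, T.apex_nxt] at h2
  exact h2 h1

/-! ## 4. the pigeonhole -/

theorem pvzc_exit_mono {d : D} {r' : ℝ} (hr : r ≤ r') (hex : ∃ t, pvasIt T s d t ∉ pvlvBox T pos z r') : ∃ t, pvasIt T s d t ∉ pvlvBox T pos z r := by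
  obtain ⟨t, ht⟩ := hex
  exact ⟨t, fun h => ht (pvlv_box_mono hr h)⟩

/-- **E11**: fewer than `K0 + 1` steps of size `a` on the two stubs of the box of level `K0` ⟹ some level `k ≤ K0` is calm for both stubs -/
theorem pvzc_calm_exists (hN : PvzcNum N h τ a δ) {K0 : ℕ}
    (hexP : ∃ t, pvasIt T s 𝔊.dp t ∉ pvlvBox T pos z (pvwRad N h τ K0)) (hexM : ∃ t, pvasIt T (pvasNot s) (T.opp 𝔊.dm) t ∉ pvlvBox T pos z (pvwRad N h τ K0))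
    (hcnt : pvlvCnt (pvlvZ T pos s 𝔊.dp) a (pvzcLv 𝔊 pos N h z τ s K0).np + pvlvCnt (pvlvZ T pos (pvasNot s) (T.opp 𝔊.dm)) a (pvzcLv 𝔊 pos N h z τ s K0).nm < K0 + 1) :
    ∃ k, k ≤ K0 ∧ PvlvCalm (pvlvZ T pos s 𝔊.dp) a (pvlvH T pos z s 𝔊.dp) (pvwRad N h τ k) (N.rho1 * h) (pvzcLv 𝔊 pos N h z τ s k).np ∧
      PvlvCalm (pvlvZ T pos (pvasNot s) (T.opp 𝔊.dm)) a (pvlvH T pos z (pvasNot s) (T.opp 𝔊.dm)) (pvwRad N h τ k) (N.rho1 * h) (pvzcLv 𝔊 pos N h z τ s k).nm := by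
  have hE : ∀ k, k < K0 + 1 → PvlvExit (pvlvH T pos z s 𝔊.dp) (2 * τ.b2 * h + k * (N.rho1 * h)) (pvzcLv 𝔊 pos N h z τ s k).np := by
    intro k hk
    rw [← pvzc_rad_eq]
    exact pvlv_exit_hit (pvzc_exit_mono (pvzc_rad_mono hN (Nat.lt_succ_iff.1 hk)) hexP)
  have hE' : ∀ k, k < K0 + 1 → PvlvExit (pvlvH T pos z (pvasNot s) (T.opp 𝔊.dm)) (2 * τ.b2 * h + k * (N.rho1 * h)) (pvzcLv 𝔊 pos N h z τ s k).nm := by
    intro k hk
    rw [← pvzc_rad_eq]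
    exact pvlv_exit_hit (pvzc_exit_mono (pvzc_rad_mono hN (Nat.lt_succ_iff.1 hk)) hexM)
  have hr : ∀ k, k < K0 + 1 → 2 * τ.b2 * h + k * (N.rho1 * h) ≤ 2 * τ.b2 * h + K0 * (N.rho1 * h) := by
    intro k hk
    rw [← pvzc_rad_eq, ← pvzc_rad_eq]
    exact pvzc_rad_mono hN (Nat.lt_succ_iff.1 hk)
  obtain ⟨k, hk, h1, h2⟩ := pvlv_calm_exists2 (pvlvZ T pos s 𝔊.dp) (pvlvZ T pos (pvasNot s) (T.opp 𝔊.dm)) a (pvlvH T pos z s 𝔊.dp) (pvlvH T pos z (pvasNot s) (T.opp 𝔊.dm))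
    (r₀ := 2 * τ.b2 * h) (ρ := N.rho1 * h) (ρ₁ := N.rho1 * h) le_rfl (mul_nonneg hN.r1_nn hN.h_pos.le) (K0 + 1)
    (fun k => (pvzcLv 𝔊 pos N h z τ s k).np) (fun k => (pvzcLv 𝔊 pos N h z τ s k).nm) hE hE'
    (pvzcLv 𝔊 pos N h z τ s K0).np (pvzcLv 𝔊 pos N h z τ s K0).nm
    (fun k hk => (hE k hk).mono (hE K0 (Nat.lt_succ_self _)) (hr k hk)) (fun k hk => (hE' k hk).mono (hE' K0 (Nat.lt_succ_self _)) (hr k hk)) hcnt
  rw [← pvzc_rad_eq] at h1 h2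
  exact ⟨k, Nat.lt_succ_iff.1 hk, h1, h2⟩

/-- one strand: fewer than `n` steps unless the flag is up -/
theorem pvzc_cnt_one {κ : Type} [PseudoMetricSpace κ] {mk : V → κ} {B : Set κ} {a' : ℝ} {n : ℕ} (ha' : 0 < a') (hn0 : 0 < n) {d : D} (hbw : pvasBW T s d)
    (hB : ∀ v, pos v ∈ pvwSq z r → mk v ∈ B) (hcmp : ∀ u v : V, a ≤ dist (pos u) (pos v) → 2 * a' ≤ dist (mk u) (mk v))
    (hex : ∃ t, pvasIt T s d t ∉ pvlvBox T pos z r) (hfl : ¬ PvfaFlag T mk B a' n s) :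
    pvlvCnt (pvlvZ T pos s d) a (pvasHit T s d (pvlvBox T pos z r)ᶜ) < n := by
  by_contra hcon
  rw [not_lt] at hcon
  have hex' : ∃ t, pvasIt T s d t ∈ (pvlvBox T pos z r)ᶜ := hex
  rcases Nat.eq_zero_or_pos (pvasHit T s d (pvlvBox T pos z r)ᶜ) with h0 | h0
  · rw [h0] at hcon
    have := pvlv_cnt_le (z := pvlvZ T pos s d) (a := a) 0
    omega
  · refine hfl (pvfa_of_stub (S := pvlvBox T pos z r) (z := pvlvZ T pos s d) (a₀ := a) h0 hbw (fun t ht => ?_) (fun t ht => not_not.1 (pvas_hit_min ht)) (pvas_hit_mem hex') ha'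
      (fun t u htu => hcmp _ _ htu) hcon)
    have h1 := pvzc_box_iff.1 (not_not.1 (pvas_hit_min ht))
    exact ⟨hB _ h1.1, hB _ h1.2.1, hB _ h1.2.2⟩

/-- **NOT FLAG1 (marks form of 235) ⟹ the counts are small**: marks `mk`, box of cells `B ⊇` the marks of the largest box, steps comparable -/
theorem pvzc_cnt_of_flag {κ : Type} [PseudoMetricSpace κ] {mk : V → κ} {B : Set κ} {a' : ℝ} {n K0 : ℕ} (ha' : 0 < a') (hn : 2 * n ≤ K0 + 2) (hn0 : 0 < n)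
    (hbwP : pvasBW T s 𝔊.dp) (hbwM : pvasBW T s 𝔊.dm)
    (hB : ∀ v, pos v ∈ pvwSq z (pvwRad N h τ K0) → mk v ∈ B) (hcmp : ∀ u v : V, a ≤ dist (pos u) (pos v) → 2 * a' ≤ dist (mk u) (mk v))
    (hexP : ∃ t, pvasIt T s 𝔊.dp t ∉ pvlvBox T pos z (pvwRad N h τ K0)) (hexM : ∃ t, pvasIt T (pvasNot s) (T.opp 𝔊.dm) t ∉ pvlvBox T pos z (pvwRad N h τ K0))
    (hfl : ¬ PvfaFlag1 T mk B a' n s) :
    pvlvCnt (pvlvZ T pos s 𝔊.dp) a (pvzcLv 𝔊 pos N h z τ s K0).np + pvlvCnt (pvlvZ T pos (pvasNot s) (T.opp 𝔊.dm)) a (pvzcLv 𝔊 pos N h z τ s K0).nm < K0 + 1 := by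
  have h1 := pvzc_cnt_one (a := a) ha' hn0 hbwP hB hcmp hexP (fun hf => hfl (Or.inl hf))
  have h2 := pvzc_cnt_one (a := a) ha' hn0 (pvas_bw_not.2 hbwM) hB hcmp hexM (fun hf => hfl (Or.inr hf))
  have e1 : (pvzcLv 𝔊 pos N h z τ s K0).np = pvasHit T s 𝔊.dp (pvlvBox T pos z (pvwRad N h τ K0))ᶜ := rfl
  have e2 : (pvzcLv 𝔊 pos N h z τ s K0).nm = pvasHit T (pvasNot s) (T.opp 𝔊.dm) (pvlvBox T pos z (pvwRad N h τ K0))ᶜ := rfl
  rw [e1, e2]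
  omega

/-! ## 5. the rim through the gate -/

/-- **THE RIM THROUGH THE GATE** (hypotheses of record of E15 on the rim): a black rim `c` of `s` which runs through the gate along the inner arc (`j` = the place of `g⁻`) and has a vertex outside the box `BK` -/
structure PvzcRim (𝔊 : PvwSt T) (pos : V → ℂ) (s : V → Bool) (BK : Set ℂ) (c : T.Cyc) (j : ℕ) : Prop where
  rim : c.IsRim s
  black : s (T.src (c.e 0)) = true
  /-- the wall of the rim is finite (so it is ONE periodic strand: `pvzm_per_ex`, `pvzm_clock` of 42 / 152) -/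
  fin : {d | T.Wall s (T.opp (c.e 0)) d}.Finite
  run : ∀ i, i < 𝔊.inn.n → c.e (j + i) = 𝔊.inn.e i
  leave : ∃ i, pos (T.src (c.e i)) ∉ BK

theorem PvzcRim.mono {BK BK' : Set ℂ} {c : T.Cyc} {j : ℕ} (hc : PvzcRim 𝔊 pos s BK c j) (hB : BK' ⊆ BK) : PvzcRim 𝔊 pos s BK' c j :=
  ⟨hc.rim, hc.black, hc.fin, hc.run, hc.leave.imp fun _ hi hi' => hi (hB hi')⟩

/-- the strand continued from the exit gate edge stays off the inside of the gate until it has met a site outside the box.      (`hBK`: 80, 136: FALSE for a free `BK`.) -/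
theorem pvzc_follow_p (hT : T.IsSph) (hS : T.Simple) {BK : Set ℂ} {c : T.Cyc} {j : ℕ} (hg : 𝔊.Gate pos h z τ s) (hc : PvzcRim 𝔊 pos s BK c j) (hBK : ∀ v ∈ T.VOf 𝔊.S.Left, pos v ∈ BK) :
    ∃ t, pos (T.src (pvasIt T s 𝔊.dp t)) ∉ BK ∧ ∀ i, i ≤ t → pvasIt T s 𝔊.dp i ∉ 𝔊.S.Left := by
  obtain ⟨i₀, hi₀⟩ := hc.leave
  obtain ⟨n₀, h1, h2, h3⟩ := hg.strand
  obtain ⟨t, e, ht⟩ := pvzf_follow_p hT hS hg.dp_on hg.dm_on hg.bw_m hg.ne hg.two h1 h2 h3 hc.rim hc.black hc.fin hc.run (i₀ := i₀) (fun hv => hi₀ (hBK _ hv))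
  exact ⟨t, by rw [e]; exact hi₀, ht⟩

/-- the same backwards from the entry gate edge -/
theorem pvzc_follow_m (hT : T.IsSph) (hS : T.Simple) {BK : Set ℂ} {c : T.Cyc} {j : ℕ} (hg : 𝔊.Gate pos h z τ s) (hc : PvzcRim 𝔊 pos s BK c j) (hBK : ∀ v ∈ T.VOf 𝔊.S.Left, pos v ∈ BK) :
    ∃ t, pos (T.src ((pvasBack T s)^[t] 𝔊.dm)) ∉ BK ∧ ∀ i, i ≤ t → T.opp ((pvasBack T s)^[i] 𝔊.dm) ∉ 𝔊.S.Left := by
  obtain ⟨i₀, hi₀⟩ := hc.leave
  obtain ⟨n₀, h1, h2, h3⟩ := hg.strand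
  obtain ⟨t, e, ht⟩ := pvzf_follow_m hT hS hg.dp_on hg.dm_on hg.bw_m hg.ne hg.two h1 h2 h3 hc.rim hc.black hc.fin hc.run (i₀ := i₀) (fun hv => hi₀ (hBK _ hv))
  exact ⟨t, by rw [e]; exact hi₀, ht⟩

/-! ## 6. the levels, E15 -/

/-- **HALF A**: exits, no return, mesh, counts ⟹ some level `k ≤ K0` carries both half states, for EVERY choice of centres of the two tips.      (`K0 ≤ K`: 42, 136, 249: at the top levels the disc of the seal sticks out of `B_K`.) -/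
theorem pvzc_levels (hT : T.IsSph) (hN : PvzcNum N h τ a δ) {K0 : ℕ} (hK0 : K0 ≤ N.K) (hg : 𝔊.Gate pos h z τ s) (hi : 𝔊.Inmost pos h z τ s) (hM : PvzcMesh T pos z (pvwRad N h τ K0) δ)
    (hP : ∃ t, pos (T.src (pvasIt T s 𝔊.dp t)) ∉ pvwSq z (pvwRad N h τ K0) ∧ ∀ i, i ≤ t → pvasIt T s 𝔊.dp i ∉ 𝔊.S.Left)
    (hMm : ∃ t, pos (T.src ((pvasBack T s)^[t] 𝔊.dm)) ∉ pvwSq z (pvwRad N h τ K0) ∧ ∀ i, i ≤ t → T.opp ((pvasBack T s)^[i] 𝔊.dm) ∉ 𝔊.S.Left)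
    (hcnt : pvlvCnt (pvlvZ T pos s 𝔊.dp) a (pvzcLv 𝔊 pos N h z τ s K0).np + pvlvCnt (pvlvZ T pos (pvasNot s) (T.opp 𝔊.dm)) a (pvzcLv 𝔊 pos N h z τ s K0).nm < K0 + 1) :
    ∃ k, k ≤ K0 ∧ (pvzcLv 𝔊 pos N h z τ s k).Stub pos (pvwSq z (pvwRad N h τ k)) s ∧
      (∀ yp ym, PvzcTipP (pvzcLv 𝔊 pos N h z τ s k) pos N h (z + (h : ℂ) * yp) → (pvzcLv 𝔊 pos N h z τ s k).AtOut pos N h z (pvzcTy τ k yp ym) s) ∧
      ∀ yp ym, PvzcTipM (pvzcLv 𝔊 pos N h z τ s k) pos N h (z + (h : ℂ) * ym) → (pvzcLv 𝔊 pos N h z τ s k).AtIn pos N h z (pvzcTy τ k yp ym) s := by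
  obtain ⟨tp, hp1, hp2⟩ := hP
  obtain ⟨tm, hm1, hm2⟩ := hMm
  rw [pvwk_back_it, T.src_opp'] at hm1
  have hoP : pvasIt T s 𝔊.dp tp ∉ pvlvBox T pos z (pvwRad N h τ K0) := fun hb => hp1 (pvzc_box_iff.1 hb).1
  have hoM : pvasIt T (pvasNot s) (T.opp 𝔊.dm) tm ∉ pvlvBox T pos z (pvwRad N h τ K0) := fun hb => hm1 (pvzc_box_iff.1 hb).2.1
  obtain ⟨k, hk, hc1, hc2⟩ := pvzc_calm_exists hN ⟨tp, hoP⟩ ⟨tm, hoM⟩ hcnt
  have hrk := pvzc_rad_mono hN hk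
  have hoPk : pvasIt T s 𝔊.dp tp ∉ pvlvBox T pos z (pvwRad N h τ k) := fun hb => hoP (pvlv_box_mono hrk hb)
  have hoMk : pvasIt T (pvasNot s) (T.opp 𝔊.dm) tm ∉ pvlvBox T pos z (pvwRad N h τ k) := fun hb => hoM (pvlv_box_mono hrk hb)
  have hcore : ∀ v ∈ 𝔊.ins, pos v ∈ pvwSq z (pvwRad N h τ k) := fun v hv => pvwk_core_sq hg (pvwk_rad_ge (N := N) hN.gate hN.h_pos.le hN.r1_nn k) v (pvwk_ins_sub_core hg hv)
  obtain ⟨g1, g2, g3, g4⟩ := pvwk_gate_ends hT hg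
  have hnp : (pvzcLv 𝔊 pos N h z τ s k).np ≤ tp := pvas_hit_le hoPk
  have hnm : (pvzcLv 𝔊 pos N h z τ s k).nm ≤ tm := pvas_hit_le hoMk
  have hEp : PvlvExit (pvlvH T pos z s 𝔊.dp) (pvwRad N h τ k) (pvzcLv 𝔊 pos N h z τ s k).np := pvlv_exit_hit ⟨tp, hoPk⟩
  have hEm : PvlvExit (pvlvH T pos z (pvasNot s) (T.opp 𝔊.dm)) (pvwRad N h τ k) (pvzcLv 𝔊 pos N h z τ s k).nm := pvlv_exit_hit ⟨tm, hoMk⟩
  have h0m : pos (T.src (T.opp 𝔊.dm)) ∈ pvwSq z (pvwRad N h τ k) ∧ pos (T.tgt (T.opp 𝔊.dm)) ∈ pvwSq z (pvwRad N h τ k) := by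
    rw [T.src_opp', T.tgt_opp]; exact ⟨hcore _ g4, hcore _ g3⟩
  have hsP := pvzc_stubP (s := s) ⟨hcore _ g1, hcore _ g2⟩ ⟨tp, hoPk⟩
  have hsM := pvzc_stubM (s := s) ⟨hcore _ g3, hcore _ g4⟩ ⟨tm, hoMk⟩
  refine ⟨k, hk, ⟨hsP, hsM⟩, fun yp ym hy => ⟨pvzc_gate hg _ k yp ym, pvzc_inmost hi _ k yp ym, hsP, ⟨hy, ?_, fun i hi' => hp2 i (hi'.trans hnp)⟩, hk.trans hK0⟩,
    fun yp ym hy => ⟨pvzc_gate hg _ k yp ym, pvzc_inmost hi _ k yp ym, hsM, ⟨hy, ?_, fun i hi' => hm2 i (hi'.trans hnm)⟩, hk.trans hK0⟩⟩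
  · exact pvzc_late hN.a_pos hN.d_nn hN.mesh hN.step (pvzc_mesh_it hM hrk ⟨hcore _ g1, hcore _ g2⟩ hEp) hy hEp hc1
  · have e : ∀ i, T.src ((pvzcLv 𝔊 pos N h z τ s k).em i) = T.tgt (pvasIt T (pvasNot s) (T.opp 𝔊.dm) i) ∧ T.tgt ((pvzcLv 𝔊 pos N h z τ s k).em i) = T.src (pvasIt T (pvasNot s) (T.opp 𝔊.dm) i) := by
      intro i
      show T.src ((pvasBack T s)^[i] 𝔊.dm) = _ ∧ T.tgt ((pvasBack T s)^[i] 𝔊.dm) = _
      rw [pvwk_back_it, T.src_opp', T.tgt_opp]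
      exact ⟨rfl, rfl⟩
    have hy' := hy
    unfold PvzcTipM at hy'
    rw [(e _).1, (e _).2] at hy'
    obtain ⟨i₀, h1, h2, h3⟩ := pvzc_late hN.a_pos hN.d_nn hN.mesh hN.step (pvzc_mesh_it hM hrk h0m hEm) ⟨hy'.2, hy'.1⟩ hEm hc2
    refine ⟨i₀, h1, fun i hi1 hi2 => ?_, fun i hi1 => ?_⟩
    · rw [(e i).1, (e i).2]; exact ⟨(h2 i hi1 hi2).2, (h2 i hi1 hi2).1⟩
    · rw [(e i).1, (e i).2]; exact ⟨(h3 i hi1).2, (h3 i hi1).1⟩

/-- **E15, FINAL STATEMENT** (counts form).      HALF B = `hB` (producer 42, from the blocks = not FLAG2).      `BK ⊇ B_{K0}` is FREE (the set of the clauses `mouth_p`, `mouth_m`; the rim leaves it); the levels searched are `k ≤ K0 ≤ K`;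
the state does not depend on the centres: EVERY pair of centres `yp ym` (units of `h`, relative to `z`) of the two tips gives the full state and the pin. -/
theorem pvzc_e15 (hT : T.IsSph) (hS : T.Simple) (hN : PvzcNum N h τ a δ) {K0 : ℕ} (hK0 : K0 ≤ N.K) (hg : 𝔊.Gate pos h z τ s) (hi : 𝔊.Inmost pos h z τ s) (hM : PvzcMesh T pos z (pvwRad N h τ K0) δ)
    {BK : Set ℂ} (hsub : pvwSq z (pvwRad N h τ K0) ⊆ BK) {c : T.Cyc} {j : ℕ} (hc : PvzcRim 𝔊 pos s BK c j)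
    (hcnt : pvlvCnt (pvlvZ T pos s 𝔊.dp) a (pvzcLv 𝔊 pos N h z τ s K0).np + pvlvCnt (pvlvZ T pos (pvasNot s) (T.opp 𝔊.dm)) a (pvzcLv 𝔊 pos N h z τ s K0).nm < K0 + 1)
    (hB : ∀ k, k ≤ K0 → ∀ yp ym, (pvzcLv 𝔊 pos N h z τ s k).AtOut pos N h z (pvzcTy τ k yp ym) s → (pvzcLv 𝔊 pos N h z τ s k).AtIn pos N h z (pvzcTy τ k yp ym) s →
      PvzcMouth (pvzcLv 𝔊 pos N h z τ s k) pos N h (z + (h : ℂ) * yp) (z + (h : ℂ) * ym) BK c j) :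
    ∃ k, k ≤ K0 ∧ ∃ 𝔖 : PvwSt T, 𝔖.dsc = 𝔊.dsc ∧ 𝔖.S = 𝔊.S ∧ 𝔖.dp = 𝔊.dp ∧ 𝔖.dm = 𝔊.dm ∧ 𝔖.inn = 𝔊.inn ∧ 𝔖.ip = 𝔊.ip ∧ 𝔖.Stub pos (pvwSq z (pvwRad N h τ k)) s ∧
      ∀ yp ym, PvzcTipP 𝔖 pos N h (z + (h : ℂ) * yp) → PvzcTipM 𝔖 pos N h (z + (h : ℂ) * ym) →
        𝔖.At pos N h z (pvzcTy τ k yp ym) s ∧ 𝔖.PinOf pos N h (z + (h : ℂ) * yp) (z + (h : ℂ) * ym) BK c j := by
  have hcore : ∀ v ∈ T.VOf 𝔊.S.Left, pos v ∈ pvwSq z (pvwRad N h τ K0) := fun v hv => pvwk_core_sq hg (pvwk_rad_ge (N := N) hN.gate hN.h_pos.le hN.r1_nn K0) v (pvwk_ins_sub_core hg hv)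
  obtain ⟨k, hk, h0, h1, h2⟩ := pvzc_levels hT hN hK0 hg hi hM (pvzc_follow_p hT hS hg (hc.mono hsub) hcore) (pvzc_follow_m hT hS hg (hc.mono hsub) hcore) hcnt
  refine ⟨k, hk, pvzcLv 𝔊 pos N h z τ s k, rfl, rfl, rfl, rfl, rfl, rfl, h0, fun yp ym hp hm => ?_⟩
  have h3 := hB k hk yp ym (h1 yp ym hp) (h2 yp ym hm)
  exact ⟨⟨h1 yp ym hp, h2 yp ym hm, h3.far_p, h3.far_m⟩, h3.pin⟩

/-- centres from a NET: if every point of the box is within `ρ h / 4 - δ` of a centre of the menu `Y`, both tips have centres in `Y` -/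
theorem pvzc_tips_net {𝔖 : PvwSt T} {Y : Set ℂ} (hM : PvzcMesh T pos z r δ) (hst : 𝔖.Stub pos (pvwSq z r) s)
    (hnet : ∀ x ∈ pvwSq z r, ∃ y ∈ Y, ‖x - (z + (h : ℂ) * y)‖ ≤ N.rho * h / 4 - δ) (h0 : 0 ≤ δ) :
    (∃ yp ∈ Y, PvzcTipP 𝔖 pos N h (z + (h : ℂ) * yp)) ∧ ∃ ym ∈ Y, PvzcTipM 𝔖 pos N h (z + (h : ℂ) * ym) := by
  have key : ∀ d : D, pos (T.src d) ∈ pvwSq z r → ∃ y ∈ Y, ‖pos (T.src d) - (z + (h : ℂ) * y)‖ ≤ N.rho * h / 4 ∧ ‖pos (T.tgt d) - (z + (h : ℂ) * y)‖ ≤ N.rho * h / 4 := by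
    intro d hd
    obtain ⟨y, hy, h1⟩ := hnet _ hd
    refine ⟨y, hy, by linarith, ?_⟩
    have h2 := hM d hd
    have h3 := dist_triangle (pos (T.tgt d)) (pos (T.src d)) (z + (h : ℂ) * y)
    rw [Complex.dist_eq, Complex.dist_eq, Complex.dist_eq] at h3
    rw [Complex.dist_eq] at h2
    linarith
  exact ⟨key _ (hst.1.ep_in _ le_rfl).1, key _ (hst.2.em_in _ le_rfl).1⟩

/-- **E15, FINAL STATEMENT** (counts form, centres from a net `Y`) -/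
theorem pvzc_e15_net (hT : T.IsSph) (hS : T.Simple) (hN : PvzcNum N h τ a δ) {K0 : ℕ} (hK0 : K0 ≤ N.K) (hg : 𝔊.Gate pos h z τ s) (hi : 𝔊.Inmost pos h z τ s) (hM : PvzcMesh T pos z (pvwRad N h τ K0) δ)
    {BK : Set ℂ} (hsub : pvwSq z (pvwRad N h τ K0) ⊆ BK) {c : T.Cyc} {j : ℕ} (hc : PvzcRim 𝔊 pos s BK c j)
    (hcnt : pvlvCnt (pvlvZ T pos s 𝔊.dp) a (pvzcLv 𝔊 pos N h z τ s K0).np + pvlvCnt (pvlvZ T pos (pvasNot s) (T.opp 𝔊.dm)) a (pvzcLv 𝔊 pos N h z τ s K0).nm < K0 + 1)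
    {Y : Set ℂ} (hnet : ∀ x ∈ pvwSq z (pvwRad N h τ K0), ∃ y ∈ Y, ‖x - (z + (h : ℂ) * y)‖ ≤ N.rho * h / 4 - δ)
    (hB : ∀ k, k ≤ K0 → ∀ yp ym, (pvzcLv 𝔊 pos N h z τ s k).AtOut pos N h z (pvzcTy τ k yp ym) s → (pvzcLv 𝔊 pos N h z τ s k).AtIn pos N h z (pvzcTy τ k yp ym) s →
      PvzcMouth (pvzcLv 𝔊 pos N h z τ s k) pos N h (z + (h : ℂ) * yp) (z + (h : ℂ) * ym) BK c j) :
    ∃ k, k ≤ K0 ∧ ∃ yp ∈ Y, ∃ ym ∈ Y, ∃ 𝔖 : PvwSt T, 𝔖.dsc = 𝔊.dsc ∧ 𝔖.S = 𝔊.S ∧ 𝔖.dp = 𝔊.dp ∧ 𝔖.dm = 𝔊.dm ∧ 𝔖.inn = 𝔊.inn ∧ 𝔖.ip = 𝔊.ip ∧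
      𝔖.At pos N h z (pvzcTy τ k yp ym) s ∧ 𝔖.PinOf pos N h ((pvzcTy τ k yp ym).cp h z) ((pvzcTy τ k yp ym).cm h z) BK c j := by
  obtain ⟨k, hk, 𝔖, e0, e1, e2, e3, e4, e5, hst, hall⟩ := pvzc_e15 hT hS hN hK0 hg hi hM hsub hc hcnt hB
  have hrk := pvzc_rad_mono hN hk
  have hsq : pvwSq z (pvwRad N h τ k) ⊆ pvwSq z (pvwRad N h τ K0) := fun x hx => pvzc_sq_iff.2 ((pvzc_sq_iff.1 hx).trans hrk)
  obtain ⟨⟨yp, hyp, hp⟩, ym, hym, hm⟩ := pvzc_tips_net (N := N) (h := h) (Y := Y) (fun d hd => hM d (hsq hd)) hst (fun x hx => hnet x (hsq hx)) hN.d_nn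
  exact ⟨k, hk, yp, hyp, ym, hym, 𝔖, e0, e1, e2, e3, e4, e5, hall yp ym hp hm⟩

/-- **E15, FINAL STATEMENT** (FLAG1 in the marks form of 235, centres from a net `Y`) -/
theorem pvzc_e15_flag (hT : T.IsSph) (hS : T.Simple) (hN : PvzcNum N h τ a δ) {K0 : ℕ} (hK0 : K0 ≤ N.K) (hg : 𝔊.Gate pos h z τ s) (hi : 𝔊.Inmost pos h z τ s) (hM : PvzcMesh T pos z (pvwRad N h τ K0) δ)
    {BK : Set ℂ} (hsub : pvwSq z (pvwRad N h τ K0) ⊆ BK) {c : T.Cyc} {j : ℕ} (hc : PvzcRim 𝔊 pos s BK c j)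
    {κ : Type} [PseudoMetricSpace κ] {mk : V → κ} {B : Set κ} {a' : ℝ} {n : ℕ} (ha' : 0 < a') (hn : 2 * n ≤ K0 + 2) (hn0 : 0 < n)
    (hBx : ∀ v, pos v ∈ pvwSq z (pvwRad N h τ K0) → mk v ∈ B) (hcmp : ∀ u v : V, a ≤ dist (pos u) (pos v) → 2 * a' ≤ dist (mk u) (mk v))
    (hfl : ¬ PvfaFlag1 T mk B a' n s)
    {Y : Set ℂ} (hnet : ∀ x ∈ pvwSq z (pvwRad N h τ K0), ∃ y ∈ Y, ‖x - (z + (h : ℂ) * y)‖ ≤ N.rho * h / 4 - δ)
    (hB : ∀ k, k ≤ K0 → ∀ yp ym, (pvzcLv 𝔊 pos N h z τ s k).AtOut pos N h z (pvzcTy τ k yp ym) s → (pvzcLv 𝔊 pos N h z τ s k).AtIn pos N h z (pvzcTy τ k yp ym) s →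
      PvzcMouth (pvzcLv 𝔊 pos N h z τ s k) pos N h (z + (h : ℂ) * yp) (z + (h : ℂ) * ym) BK c j) :
    ∃ k, k ≤ K0 ∧ ∃ yp ∈ Y, ∃ ym ∈ Y, ∃ 𝔖 : PvwSt T, 𝔖.dsc = 𝔊.dsc ∧ 𝔖.S = 𝔊.S ∧ 𝔖.dp = 𝔊.dp ∧ 𝔖.dm = 𝔊.dm ∧ 𝔖.inn = 𝔊.inn ∧ 𝔖.ip = 𝔊.ip ∧
      𝔖.At pos N h z (pvzcTy τ k yp ym) s ∧ 𝔖.PinOf pos N h ((pvzcTy τ k yp ym).cp h z) ((pvzcTy τ k yp ym).cm h z) BK c j := by
  have hcore : ∀ v ∈ T.VOf 𝔊.S.Left, pos v ∈ pvwSq z (pvwRad N h τ K0) := fun v hv => pvwk_core_sq hg (pvwk_rad_ge (N := N) hN.gate hN.h_pos.le hN.r1_nn K0) v (pvwk_ins_sub_core hg hv)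
  obtain ⟨tp, hp1, -⟩ := pvzc_follow_p hT hS hg (hc.mono hsub) hcore
  obtain ⟨tm, hm1, -⟩ := pvzc_follow_m hT hS hg (hc.mono hsub) hcore
  rw [pvwk_back_it, T.src_opp'] at hm1
  exact pvzc_e15_net hT hS hN hK0 hg hi hM hsub hc (pvzc_cnt_of_flag ha' hn hn0 hg.bw_p hg.bw_m hBx hcmp ⟨tp, fun hb => hp1 (pvzc_box_iff.1 hb).1⟩ ⟨tm, fun hb => hm1 (pvzc_box_iff.1 hb).2.1⟩ hfl) hnet hB

end Claimed.Agent.R289
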