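import Claimed.Agent.R289.Tr.GoodMouth
import Claimed.Agent.R289.Tr.BlockP
import Claimed.Agent.R289.Tr.GoodLev

/-!
# Row 289 (S0537), THE WALL, road E, file Tr/Shield : THE SHIELD = (4) of `W1_208` v3.2 (BL of 165)      (owner helper165; prefix `pvsh_`, defs `Pvsh…`)

ONE circuit, ONE colour, NO calm level, NO big disc.      `C` = a circuit round the tip of a stub all of whose FRESH vertices are white (`PvbpCirc … false` of 233 with `X` = the complement of the frozen set of the half state).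
Then every BLACK vertex of `C` lies on the black bank of the stub (`hC`).      For a black rim `c` through the gate which is not swallowed by the explored part (`hbig`):

* `pvsh_walk_in`, `pvsh_walk_out`      a walk which enters / leaves the closed disc of `C` visits a vertex of `C`
* `pvsh_sep`            no black path off the bank crosses `C`
* `pvsh_nt`             NT of 64 on the rim clock of 42: two visits of one vertex do not separate two rim times
* **`pvsh_exit`**       `mouth_p`: the rim vertices visited by (inner strand + exit stub) form an initial arc `j + q, …, j + q + B`; NO LATER RIM VERTEX LIES STRICTLY INSIDE `C`.      (All the vertices of the initial arc are sources of EXPLORED positions: they lie in the own box `B_k`: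
                        the defect (1) of 42 (top levels) does not occur on this road.)
* **`pvsh_entr`**       `mouth_m`
* **`pvsh_g3_p`, `pvsh_g3_m`**      (g3): no black site of the other stub in the closed disc of `C`, no white site of the other stub strictly inside
* `pvsh_exit_metric`, `pvsh_entr_metric`, `pvsh_g3_p_metric`, `pvsh_g3_m_metric`      the same with `PvaxAt`, in the very form of the clauses of `Tr/Defs` (ANY radius `r`: `ρ h` of Defs v2, `ρ₂ h` of v3.2)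
* `pvsh_circ_bank_p`, `pvsh_circ_bank_m`      `PvbpCirc T pos fzOutᶜ y r R false s` + the core is far ⟹ `hC`
* **`pvsh_state`**, **`pvsh_mouth`**      the wrapper (Defs v3, centres = grid centres of the type): `PvzcMouth` (= hypothesis `hB` of `pvzc_e15` of 112) from the gate, the two stubs, the rim and one shield at each tip
-/

set_option autoImplicit false
set_option linter.unusedSectionVars false
set_option linter.unusedVariables false

namespace Claimed.Agent.R289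

open Relation Set

variable {V D : Type} {T : PvMap V D} {s : V → Bool}

/-! ## 1. walks and circuits -/

theorem pvsh_adj_symm {u v : V} (h : T.Adj u v) : T.Adj v u := by
  obtain ⟨d, h1, h2⟩ := h
  exact ⟨T.opp d, by rw [T.src_opp', h2], by rw [T.tgt_opp, h1]⟩

/-- a neighbour of a vertex strictly inside lies in the closed disc -/
theorem pvsh_int_adj (hT : T.IsSph) (C : T.Cyc) {u v : V} (hu : u ∈ T.Int C.Left) (h : T.Adj u v) : v ∈ T.VOf C.Left := by
  obtain ⟨d, h1, h2⟩ := h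
  have := (pl_int_edge hT C (d := d) (by rw [h1]; exact hu)).2.2
  rwa [h2] at this

theorem pvsh_int_vof (hT : T.IsSph) (C : T.Cyc) {v : V} (h : v ∈ T.Int C.Left) : v ∈ T.VOf C.Left := by
  rw [pl_VOf_left hT]; exact Or.inr h

theorem pvsh_verts_vof (hT : T.IsSph) (C : T.Cyc) {v : V} (h : v ∈ C.verts) : v ∈ T.VOf C.Left := by
  rw [pl_VOf_left hT]; exact Or.inl h

/-- a walk which starts off the closed disc and meets it visits the circuit -/
theorem pvsh_walk_in (hT : T.IsSph) (C : T.Cyc) {b : ℕ → V} {t : ℕ} (hb : ∀ i, i < t → b (i + 1) = b i ∨ T.Adj (b i) (b (i + 1))) (h0 : b 0 ∉ T.VOf C.Left)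
    (ht : b t ∈ T.VOf C.Left) : ∃ t', t' ≤ t ∧ b t' ∈ C.verts := by
  classical
  have hex : ∃ r, b r ∈ T.VOf C.Left := ⟨t, ht⟩
  have h1 := Nat.find_spec hex
  have h2 : Nat.find hex ≤ t := Nat.find_min' hex ht
  refine ⟨Nat.find hex, h2, ?_⟩
  rcases Nat.eq_zero_or_pos (Nat.find hex) with e | e
  · rw [e] at h1; exact absurd h1 h0
  obtain ⟨r, hr⟩ : ∃ r, Nat.find hex = r + 1 := ⟨Nat.find hex - 1, by omega⟩
  have h3 : b r ∉ T.VOf C.Left := Nat.find_min hex (by omega)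
  rw [hr] at h1 ⊢
  rw [pl_VOf_left hT] at h1
  rcases h1 with h1 | h1
  · exact h1
  · exfalso
    rcases hb r (by omega) with e' | e'
    · rw [e'] at h1; exact h3 (pvsh_int_vof hT C h1)
    · exact h3 (pvsh_int_adj hT C h1 (pvsh_adj_symm e'))

/-- a walk which starts strictly inside and leaves the open disc visits the circuit -/
theorem pvsh_walk_out (hT : T.IsSph) (C : T.Cyc) {b : ℕ → V} {t : ℕ} (hb : ∀ i, i < t → b (i + 1) = b i ∨ T.Adj (b i) (b (i + 1))) (h0 : b 0 ∈ T.Int C.Left)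
    (ht : b t ∉ T.Int C.Left) : ∃ t', 0 < t' ∧ t' ≤ t ∧ b t' ∈ C.verts := by
  classical
  have hex : ∃ r, b r ∉ T.Int C.Left := ⟨t, ht⟩
  have h1 := Nat.find_spec hex
  have h2 : Nat.find hex ≤ t := Nat.find_min' hex ht
  rcases Nat.eq_zero_or_pos (Nat.find hex) with e | e
  · rw [e] at h1; exact absurd h0 h1
  refine ⟨Nat.find hex, e, h2, ?_⟩
  obtain ⟨r, hr⟩ : ∃ r, Nat.find hex = r + 1 := ⟨Nat.find hex - 1, by omega⟩
  have h3 : b r ∈ T.Int C.Left := not_not.1 (Nat.find_min hex (by omega))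
  rw [hr] at h1 ⊢
  have h4 : b (r + 1) ∈ T.VOf C.Left := by
    rcases hb r (by omega) with e' | e'
    · rw [e']; exact pvsh_int_vof hT C h3
    · exact pvsh_int_adj hT C h3 e'
  rw [pl_VOf_left hT] at h4
  exact h4.resolve_right h1

/-- **THE SHIELD, path form**: the black vertices of `C` lie in `LB`: a black path off `LB` which starts strictly inside `C` stays strictly inside -/
theorem pvsh_sep (hT : T.IsSph) (C : T.Cyc) {LB : Set V} (hC : ∀ v ∈ C.verts, s v = true → v ∈ LB) {X : Set V} (hX : ∀ v ∈ X, s v = true ∧ v ∉ LB) {a b : V}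
    (ha : a ∈ T.Int C.Left) (hab : ReflTransGen (fun u v => T.Adj u v ∧ v ∈ X) a b) : b ∈ T.Int C.Left :=
  pl_jordan_sep hT C ha (ReflTransGen.mono (fun _ v h => ⟨h.1, fun hv => (hX v h.2).2 (hC v hv (hX v h.2).1)⟩) _ _ hab)

/-- the black ends of two consecutive positions are equal or adjacent -/
theorem pvsh_src_step (s : V → Bool) (d : D) : T.src (pvasStep T s d) = T.src d ∨ T.Adj (T.src d) (T.src (pvasStep T s d)) := by
  rcases pvas_step_ends s d with ⟨-, e, -⟩ | ⟨-, e, -⟩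
  · exact Or.inr ⟨T.opp (T.nxt (T.nxt d)), by rw [T.src_opp', T.tgt_nxt2], by rw [T.tgt_opp, T.src_nxt2, e]⟩
  · exact Or.inl e

theorem pvsh_src_it (s : V → Bool) (d : D) (i : ℕ) : T.src (pvasIt T s d (i + 1)) = T.src (pvasIt T s d i) ∨ T.Adj (T.src (pvasIt T s d i)) (T.src (pvasIt T s d (i + 1))) := by
  rw [pvas_it_succ]; exact pvsh_src_step s _

theorem pvsh_src_back {d : D} (h : pvasBW T s d) (i : ℕ) :
    T.src ((pvasBack T s)^[i + 1] d) = T.src ((pvasBack T s)^[i] d) ∨ T.Adj (T.src ((pvasBack T s)^[i] d)) (T.src ((pvasBack T s)^[i + 1] d)) := by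
  have h1 := pvsh_src_step (T := T) s ((pvasBack T s)^[i + 1] d)
  rw [Function.iterate_succ_apply', pvas_step_back (pvwk_back_bw h i)] at h1
  rw [Function.iterate_succ_apply']
  rcases h1 with e | e
  · exact Or.inl e.symm
  · exact Or.inr (pvsh_adj_symm e)

/-! ## 2. the rim: indices, clock, NT -/

theorem pvsh_per (c : T.Cyc) (x q : ℕ) : c.e (x + q * c.n) = c.e x := by
  induction q with
  | zero => simp
  | succ q ih => rw [Nat.succ_mul, ← Nat.add_assoc, c.per, ih]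

/-- every dart of the cycle has an index `j + k`, `k < n` -/
theorem pvsh_reindex (c : T.Cyc) (j i : ℕ) : ∃ k, k < c.n ∧ c.e (j + k) = c.e i := by
  have hn : 0 < c.n := by have := c.three; omega
  have h1 : j ≤ i + j * c.n := by nlinarith
  obtain ⟨m, hm⟩ := Nat.exists_eq_add_of_le h1
  refine ⟨m % c.n, Nat.mod_lt _ hn, ?_⟩
  rw [← pvsh_per c i j, hm, ← pvsh_per c (j + m % c.n) (m / c.n)]
  congr 1
  have := Nat.mod_add_div m c.n
  rw [Nat.mul_comm] at this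
  omega

theorem pvsh_rim_black {c : T.Cyc} (hc : c.IsRim s) (hb : s (T.src (c.e 0)) = true) (i : ℕ) : s (T.src (c.e i)) = true := by rw [pl_rim_col hc i 0, hb]

theorem pvsh_rim_adj (c : T.Cyc) (i : ℕ) : T.Adj (T.src (c.e i)) (T.src (c.e (i + 1))) := ⟨c.e i, rfl, c.chain i⟩

/-- the RIM CLOCK of 42, as a record -/
structure PvshClock (T : PvMap V D) (s : V → Bool) (c : T.Cyc) (j P : ℕ) (τ : ℕ → ℕ) : Prop where
  per : PvzmPer T s (T.rotInv (c.e j)) P
  zero : τ 0 = 0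
  step : ∀ k, k + 1 < c.n → τ k < τ (k + 1)
  time : ∀ k, k < c.n → τ k < P ∧ pvasIt T s (T.rotInv (c.e j)) (τ k) = T.rotInv (c.e (j + k))

theorem pvsh_clock (hT : T.IsSph) (hS : T.Simple) {c : T.Cyc} (hc : c.IsRim s) (hb : s (T.src (c.e 0)) = true) (hfin : {d | T.Wall s (T.opp (c.e 0)) d}.Finite) (j : ℕ) :
    ∃ P τ, PvshClock T s c j P τ := by
  obtain ⟨P, τ, h1, h2, h3, h4⟩ := pvzm_clock hT hS hc hb hfin j
  exact ⟨P, τ, h1, h2, h3, h4⟩

section clock

variable {c : T.Cyc} {j P : ℕ} {τ : ℕ → ℕ}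

theorem PvshClock.mono (H : PvshClock T s c j P τ) {k l : ℕ} (hkl : k < l) (hl : l < c.n) : τ k < τ l := by
  induction l with
  | zero => omega
  | succ l ih =>
    rcases Nat.lt_or_ge k l with h | h
    · exact lt_trans (ih h (by omega)) (H.step l hl)
    · have : k = l := by omega
      subst this
      exact H.step k hl

theorem PvshClock.src (H : PvshClock T s c j P τ) {k : ℕ} (hk : k < c.n) : T.src (pvasIt T s (T.rotInv (c.e j)) (τ k)) = T.src (c.e (j + k)) := by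
  rw [(H.time k hk).2, T.src_rotInv]

theorem PvshClock.back (H : PvshClock T s c j P τ) {t : ℕ} (ht : t ≤ P) : (pvasBack T s)^[t] (T.rotInv (c.e j)) = pvasIt T s (T.rotInv (c.e j)) (P - t) := pvzm_per_back H.per ht

/-- **NT on the clock**: two visits `k ≤ k'` of one vertex; if one rim time lies in `[k, k')`, all do -/
theorem pvsh_nt (hT : T.IsSph) (hS : T.Simple) (hc : c.IsRim s) (hb : s (T.src (c.e 0)) = true) (H : PvshClock T s c j P τ) {k k' : ℕ} (hk : k ≤ k') (hk' : k' ≤ P)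
    (hv : T.src (pvasIt T s (T.rotInv (c.e j)) k') = T.src (pvasIt T s (T.rotInv (c.e j)) k)) {m m' : ℕ} (hm : m < c.n) (hm' : m' < c.n) (h1 : k ≤ τ m) (h2 : τ m < k') :
    k ≤ τ m' ∧ τ m' < k' := by
  refine pvt_sf_nt hT hS H.per.bw (n := P) (fun i j hi hj e => pvzm_per_inj H.per hi hj e) hk hk' hv h1 h2 (H.time m' hm').1 ?_ ?_
  · rw [(H.time m hm).2]
    unfold PvMap.rotInv
    rw [T.apex_nxt, T.src_opp', c.chain]
    exact pvsh_rim_black hc hb _
  · rw [(H.time m hm).2, (H.time m' hm').2, T.rot_rotInv, T.rot_rotInv]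
    exact pl_rim_lab' hc _ _

/-- a rim vertex which is not visited up to the time `L`: its rim time is later, so `L` is less than the period -/
theorem PvshClock.late (H : PvshClock T s c j P τ) {k L : ℕ} (hk : k < c.n) (h : ∀ t, t ≤ L → T.src (pvasIt T s (T.rotInv (c.e j)) t) ≠ T.src (c.e (j + k))) : L < τ k := by
  by_contra hcon
  exact h (τ k) (by omega) (H.src hk)

theorem PvshClock.late_back (H : PvshClock T s c j P τ) {k L : ℕ} (hk : k < c.n) (h : ∀ t, t ≤ L → T.src ((pvasBack T s)^[t] (T.rotInv (c.e j))) ≠ T.src (c.e (j + k))) : τ k + L < P := by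
  by_contra hcon
  have h1 := (H.time k hk).1
  refine h (P - τ k) (by omega) ?_
  rw [H.back (by omega), show P - (P - τ k) = τ k by omega, H.src hk]

end clock

/-! ## 3. the mouth clauses -/

section mouth

variable {c C : T.Cyc} {j q δ n L : ℕ} {d0 : D}

/-- **EXIT MOUTH** (`mouth_p`) -/
theorem pvsh_exit (hT : T.IsSph) (hS : T.Simple) (hc : c.IsRim s) (hb : s (T.src (c.e 0)) = true) (hfin : {d | T.Wall s (T.opp (c.e 0)) d}.Finite) (hq : q < c.n)
    (hδ : pvasIt T s (T.rotInv (c.e j)) δ = d0) (hsrc : T.src d0 = T.src (c.e (j + q)))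
    (hC : ∀ v ∈ C.verts, s v = true → ∃ i, i ≤ n ∧ T.src (pvasIt T s d0 i) = v) (hA : T.src (c.e j) ∉ T.VOf C.Left) :
    ∃ B, q + B < c.n ∧ (∀ i, i ≤ B → ∃ t, t ≤ δ + n ∧ T.src (c.e (j + q + i)) = T.src (pvasIt T s (T.rotInv (c.e j)) t)) ∧
      ∀ i, q + B < i → i ≤ c.n → T.src (c.e (j + i)) ∉ T.Int C.Left := by
  classical
  obtain ⟨P, τ, H⟩ := pvsh_clock hT hS hc hb hfin j
  let Adm : ℕ → Prop := fun i => q + i < c.n ∧ ∃ t, t ≤ δ + n ∧ T.src (c.e (j + q + i)) = T.src (pvasIt T s (T.rotInv (c.e j)) t)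
  have h0 : Adm 0 := ⟨hq, δ, by omega, by rw [hδ, hsrc]; rfl⟩
  have hB : Adm (Nat.findGreatest Adm c.n) := Nat.findGreatest_spec (Nat.zero_le _) h0
  have hmax : ∀ i, Nat.findGreatest Adm c.n < i → i ≤ c.n → ¬ Adm i := fun i h1 h2 => Nat.findGreatest_is_greatest h1 h2
  generalize Nat.findGreatest Adm c.n = B at hB hmax
  refine ⟨B, hB.1, ?_, ?_⟩
  · intro i hi
    rcases Nat.lt_or_ge i B with hlt | hge
    · obtain ⟨t, ht, e⟩ := hB.2
      have hi' : q + i < c.n := by have := hB.1; omega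
      refine ⟨τ (q + i), ?_, by rw [H.src hi', Nat.add_assoc]⟩
      by_contra hcon
      have h1 := H.mono (show q + i < q + B by omega) hB.1
      have h2 := pvsh_nt hT hS hc hb H (k := t) (k' := τ (q + B)) (by omega) (H.time _ hB.1).1.le (by rw [H.src hB.1, ← e, Nat.add_assoc]) hi' hB.1 (by omega) h1
      omega
    · have : i = B := by omega
      subst this
      exact hB.2
  · intro i hi1 hi2 hint
    have hlast : T.src (c.e (j + i + (c.n - i))) ∉ T.VOf C.Left := by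
      rw [show j + i + (c.n - i) = j + c.n by omega, c.per]; exact hA
    obtain ⟨r, hr0, hr, hv⟩ := pvsh_walk_out hT C (b := fun r => T.src (c.e (j + i + r))) (t := c.n - i) (fun r _ => Or.inr (pvsh_rim_adj c _)) hint
      (fun h => hlast (pvsh_int_vof hT C h))
    have hr' : r ≠ c.n - i := by
      rintro rfl
      exact hlast (pvsh_verts_vof hT C hv)
    obtain ⟨i', hi', e⟩ := hC _ hv (pvsh_rim_black hc hb _)
    refine hmax (i + r - q) (by omega) (by omega) ⟨by omega, δ + i', by omega, ?_⟩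
    rw [pvas_it_add, hδ, e]
    show T.src (c.e (j + q + (i + r - q))) = T.src (c.e (j + i + r))
    congr 2
    omega

/-- **ENTRANCE MOUTH** (`mouth_m`) -/
theorem pvsh_entr (hT : T.IsSph) (hS : T.Simple) (hc : c.IsRim s) (hb : s (T.src (c.e 0)) = true) (hfin : {d | T.Wall s (T.opp (c.e 0)) d}.Finite) (hq : q < c.n)
    (hδ : (pvasBack T s)^[δ] (T.rotInv (c.e j)) = d0)
    (hC : ∀ v ∈ C.verts, s v = true → ∃ i, i ≤ n ∧ T.src ((pvasBack T s)^[i] d0) = v) (hQ : T.src (c.e (j + q)) ∉ T.VOf C.Left)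
    (hbig : ∃ k, k < c.n ∧ ∀ t, t ≤ δ + n → T.src ((pvasBack T s)^[t] (T.rotInv (c.e j))) ≠ T.src (c.e (j + k))) :
    ∃ A, q + A < c.n ∧ (∀ i, i ≤ A → ∃ t, t ≤ δ + n ∧ T.src (c.e (j + c.n - i)) = T.src ((pvasBack T s)^[t] (T.rotInv (c.e j)))) ∧
      ∀ i, q ≤ i → i + A < c.n → T.src (c.e (j + i)) ∉ T.Int C.Left := by
  classical
  obtain ⟨P, τ, H⟩ := pvsh_clock hT hS hc hb hfin j
  obtain ⟨kb, hkb, hbig⟩ := hbig
  have hLP : δ + n < P := by have := H.late_back hkb hbig; omega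
  let Adm : ℕ → Prop := fun i => q + i < c.n ∧ ∃ t, t ≤ δ + n ∧ T.src (c.e (j + c.n - i)) = T.src ((pvasBack T s)^[t] (T.rotInv (c.e j)))
  have h0 : Adm 0 := ⟨hq, 0, by omega, by
    show T.src (c.e (j + c.n - 0)) = T.src (T.rotInv (c.e j))
    rw [Nat.sub_zero, c.per, T.src_rotInv]⟩
  have hA : Adm (Nat.findGreatest Adm c.n) := Nat.findGreatest_spec (Nat.zero_le _) h0
  have hmax : ∀ i, Nat.findGreatest Adm c.n < i → i ≤ c.n → ¬ Adm i := fun i h1 h2 => Nat.findGreatest_is_greatest h1 h2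
  generalize Nat.findGreatest Adm c.n = A at hA hmax
  refine ⟨A, hA.1, ?_, ?_⟩
  · intro i hi
    rcases Nat.lt_or_ge i A with hlt | hge
    · rcases Nat.eq_zero_or_pos i with rfl | hi0
      · exact h0.2
      obtain ⟨t, ht, e⟩ := hA.2
      have hk1 : c.n - A < c.n := by omega
      have hk0 : c.n - i < c.n := by omega
      have hk10 : 0 < c.n - A := by have := hA.1; omega
      -- the visit `P - t` of the vertex number `c.n - A` comes before its rim time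
      have hT1 : P - t ≤ τ (c.n - A) := by
        by_contra hcon
        have h2 := pvsh_nt hT hS hc hb H (k := τ (c.n - A)) (k' := P - t) (by omega) (by omega)
          (by rw [H.src hk1, ← H.back (by omega), ← e]; congr 2; omega) hk1 (show 0 < c.n by omega) le_rfl (by omega)
        have h3 := H.mono hk10 hk1
        rw [H.zero] at h2 h3
        omega
      have h4 := H.mono (show c.n - A < c.n - i by omega) hk0
      have h5 := (H.time _ hk0).1
      refine ⟨P - τ (c.n - i), by omega, ?_⟩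
      rw [H.back (by omega), show P - (P - τ (c.n - i)) = τ (c.n - i) by omega, H.src hk0]
      congr 2
      omega
    · have : i = A := by omega
      subst this
      exact hA.2
  · intro i hi1 hi2 hint
    have hlast : T.src (c.e (j + i - (i - q))) ∉ T.VOf C.Left := by
      rw [show j + i - (i - q) = j + q by omega]; exact hQ
    obtain ⟨r, hr0, hr, hv⟩ := pvsh_walk_out hT C (b := fun r => T.src (c.e (j + i - r))) (t := i - q)
      (fun r hr => Or.inr (by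
        have := pvsh_adj_symm (pvsh_rim_adj c (j + i - (r + 1)))
        rwa [show j + i - (r + 1) + 1 = j + i - r by omega] at this)) hint
      (fun h => hlast (pvsh_int_vof hT C h))
    have hr' : r ≠ i - q := by
      rintro rfl
      exact hlast (pvsh_verts_vof hT C hv)
    obtain ⟨i', hi', e⟩ := hC _ hv (pvsh_rim_black hc hb _)
    refine hmax (c.n - (i - r)) (by omega) (by omega) ⟨by omega, i' + δ, by omega, ?_⟩
    rw [Function.iterate_add_apply, hδ, e]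
    show T.src (c.e (j + c.n - (c.n - (i - r)))) = T.src (c.e (j + i - r))
    congr 2
    omega

/-- **(g3) AT THE EXIT TIP**: the positions `(pvasBack T s)^[t] a`, `t ≤ L` (inner strand before `a` + entrance stub): no black end in the closed disc of the shield of the exit tip, no white end strictly inside -/
theorem pvsh_g3_p (hT : T.IsSph) (hS : T.Simple) (hc : c.IsRim s) (hb : s (T.src (c.e 0)) = true) (hfin : {d | T.Wall s (T.opp (c.e 0)) d}.Finite)
    (hδ : pvasIt T s (T.rotInv (c.e j)) δ = d0) (hC : ∀ v ∈ C.verts, s v = true → ∃ i, i ≤ n ∧ T.src (pvasIt T s d0 i) = v) (hA : T.src (c.e j) ∉ T.VOf C.Left)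
    (hbig : ∃ k, k < c.n ∧ (∀ t, t ≤ δ + n → T.src (pvasIt T s (T.rotInv (c.e j)) t) ≠ T.src (c.e (j + k))) ∧
      ∀ t, t ≤ L → T.src ((pvasBack T s)^[t] (T.rotInv (c.e j))) ≠ T.src (c.e (j + k))) :
    ∀ t, t ≤ L → T.src ((pvasBack T s)^[t] (T.rotInv (c.e j))) ∉ T.VOf C.Left ∧ T.tgt ((pvasBack T s)^[t] (T.rotInv (c.e j))) ∉ T.Int C.Left := by
  obtain ⟨P, τ, H⟩ := pvsh_clock hT hS hc hb hfin j
  obtain ⟨kb, hkb, hb1, hb2⟩ := hbig
  have h1 := H.late hkb hb1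
  have h2 := H.late_back hkb hb2
  have key : ∀ t, t ≤ L → T.src ((pvasBack T s)^[t] (T.rotInv (c.e j))) ∉ T.VOf C.Left := by
    intro t ht hin
    obtain ⟨t', ht', hv⟩ := pvsh_walk_in hT C (b := fun r => T.src ((pvasBack T s)^[r] (T.rotInv (c.e j)))) (t := t) (fun r _ => pvsh_src_back H.per.bw r)
      (by show T.src (T.rotInv (c.e j)) ∉ _; rw [T.src_rotInv]; exact hA) hin
    obtain ⟨i, hi, e⟩ := hC _ hv (pvwk_back_bw H.per.bw t').1
    have e' : T.src (pvasIt T s (T.rotInv (c.e j)) (P - t')) = T.src (pvasIt T s (T.rotInv (c.e j)) (δ + i)) := by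
      rw [pvas_it_add, hδ, e, ← H.back (by omega)]
    have h3 := pvsh_nt hT hS hc hb H (k := δ + i) (k' := P - t') (by omega) (by omega) e' hkb (show 0 < c.n by omega) (by omega) (by omega)
    rw [H.zero] at h3
    have h4 : δ + i = 0 := by omega
    rw [h4] at e'
    apply hA
    have h5 : T.src ((pvasBack T s)^[t'] (T.rotInv (c.e j))) = T.src (c.e j) := by
      rw [H.back (by omega), e']
      show T.src (T.rotInv (c.e j)) = _
      rw [T.src_rotInv]
    rw [← h5]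
    exact pvsh_verts_vof hT C hv
  intro t ht
  refine ⟨key t ht, fun hin => key t ht ?_⟩
  exact pvsh_int_adj hT C hin ⟨T.opp ((pvasBack T s)^[t] (T.rotInv (c.e j))), by rw [T.src_opp'], by rw [T.tgt_opp]⟩

/-- **(g3) AT THE ENTRANCE TIP**: the positions `pvasIt T s a t`, `t ≤ L` (inner strand after `a` + exit stub) -/
theorem pvsh_g3_m (hT : T.IsSph) (hS : T.Simple) (hc : c.IsRim s) (hb : s (T.src (c.e 0)) = true) (hfin : {d | T.Wall s (T.opp (c.e 0)) d}.Finite)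
    (hδ : (pvasBack T s)^[δ] (T.rotInv (c.e j)) = d0) (hC : ∀ v ∈ C.verts, s v = true → ∃ i, i ≤ n ∧ T.src ((pvasBack T s)^[i] d0) = v) (hA : T.src (c.e j) ∉ T.VOf C.Left)
    (hbig : ∃ k, k < c.n ∧ (∀ t, t ≤ L → T.src (pvasIt T s (T.rotInv (c.e j)) t) ≠ T.src (c.e (j + k))) ∧
      ∀ t, t ≤ δ + n → T.src ((pvasBack T s)^[t] (T.rotInv (c.e j))) ≠ T.src (c.e (j + k))) :
    ∀ t, t ≤ L → T.src (pvasIt T s (T.rotInv (c.e j)) t) ∉ T.VOf C.Left ∧ T.tgt (pvasIt T s (T.rotInv (c.e j)) t) ∉ T.Int C.Left := by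
  obtain ⟨P, τ, H⟩ := pvsh_clock hT hS hc hb hfin j
  obtain ⟨kb, hkb, hb1, hb2⟩ := hbig
  have h1 := H.late hkb hb1
  have h2 := H.late_back hkb hb2
  have key : ∀ t, t ≤ L → T.src (pvasIt T s (T.rotInv (c.e j)) t) ∉ T.VOf C.Left := by
    intro t ht hin
    obtain ⟨t', ht', hv⟩ := pvsh_walk_in hT C (b := fun r => T.src (pvasIt T s (T.rotInv (c.e j)) r)) (t := t) (fun r _ => pvsh_src_it s _ r)
      (by show T.src (T.rotInv (c.e j)) ∉ _; rw [T.src_rotInv]; exact hA) hin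
    obtain ⟨i, hi, e⟩ := hC _ hv (pvas_it_bw H.per.bw t').1
    have e' : T.src (pvasIt T s (T.rotInv (c.e j)) (P - (i + δ))) = T.src (pvasIt T s (T.rotInv (c.e j)) t') := by
      rw [← H.back (by omega), Function.iterate_add_apply, hδ, e]
    have h3 := pvsh_nt hT hS hc hb H (k := t') (k' := P - (i + δ)) (by omega) (by omega) e' hkb (show 0 < c.n by omega) (by omega) (by omega)
    rw [H.zero] at h3
    have h4 : t' = 0 := by omega
    subst h4
    apply hA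
    have h5 := pvsh_verts_vof hT C hv
    have h6 : T.src (pvasIt T s (T.rotInv (c.e j)) 0) = T.src (c.e j) := by
      show T.src (T.rotInv (c.e j)) = _
      rw [T.src_rotInv]
    rwa [h6] at h5
  intro t ht
  refine ⟨key t ht, fun hin => key t ht ?_⟩
  exact pvsh_int_adj hT C hin ⟨T.opp (pvasIt T s (T.rotInv (c.e j)) t), by rw [T.src_opp'], by rw [T.tgt_opp]⟩

end mouth


/-! ## 4. metric forms = the clauses of `Tr/Defs` -/

section metric

variable [DecidableEq V] {pos : V → ℂ} {y : ℂ} {r r' : ℝ} {c C : T.Cyc} {j q δ n L : ℕ} {d0 : D} {BK : Set ℂ}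

theorem pvsh_at_not_vof (h : PvaxAt T pos y r r' C) {v : V} (hv : r' ≤ ‖pos v - y‖) : v ∉ T.VOf C.Left := fun hm => absurd (h.out v hm) (not_lt.2 hv)

theorem pvsh_at_lt (h : PvaxAt T pos y r r' C) {v : V} (hv : v ∉ T.Int C.Left) : r < ‖pos v - y‖ := by
  by_contra hc
  exact hv (h.inn v (not_lt.1 hc))

theorem pvsh_at_lt' (hT : T.IsSph) (h : PvaxAt T pos y r r' C) {v : V} (hv : v ∉ T.VOf C.Left) : r < ‖pos v - y‖ :=
  pvsh_at_lt h fun hm => hv (pvsh_int_vof hT C hm)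

/-- a rim vertex outside `BK`, indexed from `j` -/
theorem pvsh_leave (c : T.Cyc) (j : ℕ) (h : ∃ i, pos (T.src (c.e i)) ∉ BK) : ∃ k, k < c.n ∧ pos (T.src (c.e (j + k))) ∉ BK := by
  obtain ⟨i, hi⟩ := h
  obtain ⟨k, hk, e⟩ := pvsh_reindex c j i
  exact ⟨k, hk, by rw [e]; exact hi⟩

/-- **`mouth_p`** -/
theorem pvsh_exit_metric (hT : T.IsSph) (hS : T.Simple) (hc : c.IsRim s) (hb : s (T.src (c.e 0)) = true) (hfin : {d | T.Wall s (T.opp (c.e 0)) d}.Finite) (hq : q < c.n)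
    (hδ : pvasIt T s (T.rotInv (c.e j)) δ = d0) (hsrc : T.src d0 = T.src (c.e (j + q))) (hat : PvaxAt T pos y r r' C)
    (hC : ∀ v ∈ C.verts, s v = true → ∃ i, i ≤ n ∧ T.src (pvasIt T s d0 i) = v) (hA : r' ≤ ‖pos (T.src (c.e j)) - y‖)
    (hB₁ : ∀ t, t ≤ δ + n → pos (T.src (pvasIt T s (T.rotInv (c.e j)) t)) ∈ BK) :
    ∃ B, q + B < c.n ∧ (∀ i, i ≤ B → pos (T.src (c.e (j + q + i))) ∈ BK) ∧ ∀ i, q + B < i → i ≤ c.n → r < ‖pos (T.src (c.e (j + i))) - y‖ := by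
  obtain ⟨B, hB, h1, h2⟩ := pvsh_exit hT hS hc hb hfin hq hδ hsrc hC (pvsh_at_not_vof hat hA)
  refine ⟨B, hB, fun i hi => ?_, fun i hi hi' => pvsh_at_lt hat (h2 i hi hi')⟩
  obtain ⟨t, ht, e⟩ := h1 i hi
  rw [e]; exact hB₁ t ht

/-- **`mouth_m`** -/
theorem pvsh_entr_metric (hT : T.IsSph) (hS : T.Simple) (hc : c.IsRim s) (hb : s (T.src (c.e 0)) = true) (hfin : {d | T.Wall s (T.opp (c.e 0)) d}.Finite) (hq : q < c.n)
    (hδ : (pvasBack T s)^[δ] (T.rotInv (c.e j)) = d0) (hat : PvaxAt T pos y r r' C)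
    (hC : ∀ v ∈ C.verts, s v = true → ∃ i, i ≤ n ∧ T.src ((pvasBack T s)^[i] d0) = v) (hQ : r' ≤ ‖pos (T.src (c.e (j + q))) - y‖)
    (hB₁ : ∀ t, t ≤ δ + n → pos (T.src ((pvasBack T s)^[t] (T.rotInv (c.e j)))) ∈ BK) (hbig : ∃ i, pos (T.src (c.e i)) ∉ BK) :
    ∃ A, q + A < c.n ∧ (∀ i, i ≤ A → pos (T.src (c.e (j + c.n - i))) ∈ BK) ∧ ∀ i, q ≤ i → i + A < c.n → r < ‖pos (T.src (c.e (j + i))) - y‖ := by
  obtain ⟨k, hk, hkb⟩ := pvsh_leave c j hbig
  obtain ⟨A, hA, h1, h2⟩ := pvsh_entr hT hS hc hb hfin hq hδ hC (pvsh_at_not_vof hat hQ) ⟨k, hk, fun t ht e => hkb (e ▸ hB₁ t ht)⟩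
  refine ⟨A, hA, fun i hi => ?_, fun i hi hi' => pvsh_at_lt hat (h2 i hi hi')⟩
  obtain ⟨t, ht, e⟩ := h1 i hi
  rw [e]; exact hB₁ t ht

/-- **(g3), `far_p` on the banks of the entrance stub** -/
theorem pvsh_g3_p_metric (hT : T.IsSph) (hS : T.Simple) (hc : c.IsRim s) (hb : s (T.src (c.e 0)) = true) (hfin : {d | T.Wall s (T.opp (c.e 0)) d}.Finite)
    (hδ : pvasIt T s (T.rotInv (c.e j)) δ = d0) (hat : PvaxAt T pos y r r' C)
    (hC : ∀ v ∈ C.verts, s v = true → ∃ i, i ≤ n ∧ T.src (pvasIt T s d0 i) = v) (hA : r' ≤ ‖pos (T.src (c.e j)) - y‖)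
    (hB₁ : ∀ t, t ≤ δ + n → pos (T.src (pvasIt T s (T.rotInv (c.e j)) t)) ∈ BK) (hB₃ : ∀ t, t ≤ L → pos (T.src ((pvasBack T s)^[t] (T.rotInv (c.e j)))) ∈ BK)
    (hbig : ∃ i, pos (T.src (c.e i)) ∉ BK) :
    ∀ t, t ≤ L → r < ‖pos (T.src ((pvasBack T s)^[t] (T.rotInv (c.e j)))) - y‖ ∧ r < ‖pos (T.tgt ((pvasBack T s)^[t] (T.rotInv (c.e j)))) - y‖ := by
  obtain ⟨k, hk, hkb⟩ := pvsh_leave c j hbig
  intro t ht
  obtain ⟨h1, h2⟩ := pvsh_g3_p hT hS hc hb hfin hδ hC (pvsh_at_not_vof hat hA) ⟨k, hk, fun t ht e => hkb (e ▸ hB₁ t ht), fun t ht e => hkb (e ▸ hB₃ t ht)⟩ t ht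
  exact ⟨pvsh_at_lt' hT hat h1, pvsh_at_lt hat h2⟩

/-- **(g3), `far_m` on the banks of the exit stub** -/
theorem pvsh_g3_m_metric (hT : T.IsSph) (hS : T.Simple) (hc : c.IsRim s) (hb : s (T.src (c.e 0)) = true) (hfin : {d | T.Wall s (T.opp (c.e 0)) d}.Finite)
    (hδ : (pvasBack T s)^[δ] (T.rotInv (c.e j)) = d0) (hat : PvaxAt T pos y r r' C)
    (hC : ∀ v ∈ C.verts, s v = true → ∃ i, i ≤ n ∧ T.src ((pvasBack T s)^[i] d0) = v) (hA : r' ≤ ‖pos (T.src (c.e j)) - y‖)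
    (hB₁ : ∀ t, t ≤ δ + n → pos (T.src ((pvasBack T s)^[t] (T.rotInv (c.e j)))) ∈ BK) (hB₃ : ∀ t, t ≤ L → pos (T.src (pvasIt T s (T.rotInv (c.e j)) t)) ∈ BK)
    (hbig : ∃ i, pos (T.src (c.e i)) ∉ BK) :
    ∀ t, t ≤ L → r < ‖pos (T.src (pvasIt T s (T.rotInv (c.e j)) t)) - y‖ ∧ r < ‖pos (T.tgt (pvasIt T s (T.rotInv (c.e j)) t)) - y‖ := by
  obtain ⟨k, hk, hkb⟩ := pvsh_leave c j hbig
  intro t ht
  obtain ⟨h1, h2⟩ := pvsh_g3_m hT hS hc hb hfin hδ hC (pvsh_at_not_vof hat hA) ⟨k, hk, fun t ht e => hkb (e ▸ hB₃ t ht), fun t ht e => hkb (e ▸ hB₁ t ht)⟩ t ht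
  exact ⟨pvsh_at_lt' hT hat h1, pvsh_at_lt hat h2⟩

end metric

/-! ## 5. the states of `Tr/Defs` -/

section state

variable [DecidableEq V] {pos : V → ℂ} {𝔖 : PvwSt T} {Bx BK : Set ℂ} {C : T.Cyc}

/-- the black vertices of a shield of the exit half state lie on the black bank of the exit stub -/
theorem pvsh_circ_bank_p (hst : 𝔖.StubP pos Bx s) (hbw : pvasBW T s 𝔖.dp) (hfr : ∀ v ∈ C.verts, v ∈ (𝔖.fzOut)ᶜ → s v = false) (hcore : ∀ v ∈ C.verts, v ∉ 𝔖.core) :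
    ∀ v ∈ C.verts, s v = true → ∃ i, i ≤ 𝔖.np ∧ T.src (pvasIt T s 𝔖.dp i) = v := by
  intro v hv hb
  by_cases hf : v ∈ 𝔖.fzOut
  · rcases hf with (hf | ⟨i, hi, e⟩) | hf
    · exact absurd hf (hcore v hv)
    · exact ⟨i, hi, by rw [← hst.ep_it i hi]; exact e⟩
    · rw [pvwk_whP_col hst hbw hf] at hb
      exact absurd hb Bool.false_ne_true
  · rw [hfr v hv hf] at hb
    exact absurd hb Bool.false_ne_true

/-- the black vertices of a shield of the entrance half state lie on the black bank of the entrance stub -/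
theorem pvsh_circ_bank_m (hst : 𝔖.StubM pos Bx s) (hbw : pvasBW T s 𝔖.dm) (hfr : ∀ v ∈ C.verts, v ∈ (𝔖.fzIn)ᶜ → s v = false) (hcore : ∀ v ∈ C.verts, v ∉ 𝔖.core) :
    ∀ v ∈ C.verts, s v = true → ∃ i, i ≤ 𝔖.nm ∧ T.src ((pvasBack T s)^[i] 𝔖.dm) = v := by
  intro v hv hb
  by_cases hf : v ∈ 𝔖.fzIn
  · rcases hf with (hf | ⟨i, hi, e⟩) | hf
    · exact absurd hf (hcore v hv)
    · exact ⟨i, hi, by rw [← hst.em_it i hi]; exact e⟩
    · rw [pvwk_whM_col hst hbw hf] at hb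
      exact absurd hb Bool.false_ne_true
  · rw [hfr v hv hf] at hb
    exact absurd hb Bool.false_ne_true

theorem pvsh_tri {x y w : ℂ} {r ρ₀ : ℝ} (h : ‖x - y‖ + ρ₀ ≤ r) (hw : r < ‖w - y‖) : ρ₀ < ‖w - x‖ := by
  have h1 : ‖w - y‖ ≤ ‖w - x‖ + ‖x - y‖ := by
    have := norm_add_le (w - x) (x - y)
    rwa [sub_add_sub_cancel] at this
  linarith

/-- **THE FOUR CLAUSES** (g3) + mouths, centred at the centres `yp`, `ym` of the two shields (= the grid centres of Defs v3), radius `r` = inner radius of the shields; from the gate, the two stubs, the rim, one shield at each tip.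
`hins` : `ins ⊆ core` (`pvwk` kit). -/
theorem pvsh_state (hT : T.IsSph) (hS : T.Simple) {h : ℝ} {z : ℂ} {τ : PvwTy} (hg : 𝔖.Gate pos h z τ s) (hsp : 𝔖.StubP pos Bx s) (hsm : 𝔖.StubM pos Bx s) (hBx : Bx ⊆ BK)
    (hins : T.VOf 𝔖.S.Left ⊆ 𝔖.core) (hcB : ∀ v ∈ 𝔖.core, pos v ∈ BK) {c : T.Cyc} {j : ℕ} (hc : PvzcRim 𝔖 pos s BK c j) (hfin : {d | T.Wall s (T.opp (c.e 0)) d}.Finite)
    {yp ym : ℂ} {r R : ℝ} (hp : PvbpCirc T pos (𝔖.fzOut)ᶜ yp r R false s) (hm : PvbpCirc T pos (𝔖.fzIn)ᶜ ym r R false s)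
    (hcp : ∀ v ∈ 𝔖.core, R ≤ ‖pos v - yp‖) (hcm : ∀ v ∈ 𝔖.core, R ≤ ‖pos v - ym‖) :
    (∀ v ∈ 𝔖.fzIn, r < ‖pos v - yp‖) ∧ (∀ v ∈ 𝔖.fzOut, r < ‖pos v - ym‖) ∧
      (∃ B, 𝔖.inn.n + B < c.n ∧ (∀ i, i ≤ B → pos (T.src (c.e (j + 𝔖.inn.n + i))) ∈ BK) ∧ ∀ i, 𝔖.inn.n + B < i → i ≤ c.n → r < ‖pos (T.src (c.e (j + i))) - yp‖) ∧
      ∃ A, 𝔖.inn.n + A < c.n ∧ (∀ i, i ≤ A → pos (T.src (c.e (j + c.n - i))) ∈ BK) ∧ ∀ i, 𝔖.inn.n ≤ i → i + A < c.n → r < ‖pos (T.src (c.e (j + i))) - ym‖ := by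
  obtain ⟨n₀, hn₀, hin₀, hle⟩ := hg.strand
  have hinn : 0 < 𝔖.inn.n := by
    rcases Nat.eq_zero_or_pos 𝔖.inn.n with e | e
    · exfalso
      have h1 := pvt_sd_v0 hle
      have h2 := pvt_sd_vn hle
      rw [e, h1, hn₀] at h2
      exact hg.ne h2.symm
    · exact e
  obtain ⟨hq, hsrc, δ', δ, hδδ, hδ0, ha, hdm, hdp⟩ := pvzm_gate hS hg.bw_m hn₀ hle hinn hc.run
  obtain ⟨Cp, hatp, hfrp⟩ := hp
  obtain ⟨Cm, hatm, hfrm⟩ := hm
  have hbwa : pvasBW T s (T.rotInv (c.e j)) := by rw [← ha]; exact pvas_it_bw hg.bw_m _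
  have hCp := pvsh_circ_bank_p hsp hg.bw_p hfrp fun v hv hcore => pvsh_at_not_vof hatp (hcp v hcore) (pvsh_verts_vof hT Cp hv)
  have hCm := pvsh_circ_bank_m hsm hg.bw_m hfrm fun v hv hcore => pvsh_at_not_vof hatm (hcm v hcore) (pvsh_verts_vof hT Cm hv)
  -- the inner strand
  have hinner : ∀ i, i < n₀ → T.src (pvasIt T s 𝔖.dm i) ∈ 𝔖.core := fun i hi => hins ⟨_, hin₀ i hi, rfl⟩
  have hsa : T.src (c.e j) ∈ 𝔖.core := by
    have := hinner δ' (by omega)
    rwa [ha, T.src_rotInv] at this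
  have hsq : T.src (c.e (j + 𝔖.inn.n)) ∈ 𝔖.core := by rw [← hsrc]; exact hins (pvwk_gate_ends hT hg).1
  -- forward positions
  have hfw : ∀ t, t ≤ δ + 𝔖.np → (T.src (pvasIt T s (T.rotInv (c.e j)) t) ∈ 𝔖.core ∧ t < δ) ∨ ∃ i, i ≤ 𝔖.np ∧ t = δ + i ∧ pvasIt T s (T.rotInv (c.e j)) t = 𝔖.ep i := by
    intro t ht
    rcases Nat.lt_or_ge t δ with h1 | h1
    · left
      refine ⟨?_, h1⟩
      rw [← ha, ← pvas_it_add]
      exact hinner _ (by omega)
    · right
      obtain ⟨i, rfl⟩ := Nat.exists_eq_add_of_le h1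
      exact ⟨i, by omega, rfl, by rw [pvas_it_add, hdp, hsp.ep_it i (by omega)]⟩
  have hbk : ∀ t, t ≤ δ' + 𝔖.nm → (T.src ((pvasBack T s)^[t] (T.rotInv (c.e j))) ∈ 𝔖.core ∧ t < δ') ∨ ∃ i, i ≤ 𝔖.nm ∧ t = i + δ' ∧ (pvasBack T s)^[t] (T.rotInv (c.e j)) = 𝔖.em i := by
    intro t ht
    rcases Nat.lt_or_ge t δ' with h1 | h1
    · left
      refine ⟨?_, h1⟩
      have h2 := pvwk_it_back hbwa (i := δ' - t) (n := δ') (by omega)
      rw [hdm, show δ' - (δ' - t) = t by omega] at h2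
      rw [← h2]
      exact hinner _ (by omega)
    · right
      obtain ⟨i, rfl⟩ := Nat.exists_eq_add_of_le h1
      exact ⟨i, by omega, by omega, by rw [Nat.add_comm, Function.iterate_add_apply, hdm, hsm.em_it i (by omega)]⟩
  have hB₁ : ∀ t, t ≤ δ + 𝔖.np → pos (T.src (pvasIt T s (T.rotInv (c.e j)) t)) ∈ BK := by
    intro t ht
    rcases hfw t ht with ⟨h1, -⟩ | ⟨i, hi, -, e⟩
    · exact hcB _ h1
    · rw [e]; exact hBx (hsp.ep_in i hi).1
  have hB₃ : ∀ t, t ≤ δ' + 𝔖.nm → pos (T.src ((pvasBack T s)^[t] (T.rotInv (c.e j)))) ∈ BK := by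
    intro t ht
    rcases hbk t ht with ⟨h1, -⟩ | ⟨i, hi, -, e⟩
    · exact hcB _ h1
    · rw [e]; exact hBx (hsm.em_in i hi).1
  have g3p := pvsh_g3_p_metric (L := δ' + 𝔖.nm) hT hS hc.rim hc.black hfin hdp hatp hCp (hcp _ hsa) hB₁ hB₃ hc.leave
  have g3m := pvsh_g3_m_metric (L := δ + 𝔖.np) hT hS hc.rim hc.black hfin hdm hatm hCm (hcm _ hsa) hB₃ hB₁ hc.leave
  refine ⟨?_, ?_, ?_, ?_⟩
  · rintro v ((hv | ⟨i, hi, rfl⟩) | ⟨i, hi, rfl⟩)
    · exact pvsh_at_lt' hT hatp (pvsh_at_not_vof hatp (hcp v hv))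
    · have := (g3p (i + δ') (by omega)).1
      rwa [Function.iterate_add_apply, hdm, ← hsm.em_it i hi] at this
    · have := (g3p (i + δ') (by omega)).2
      rwa [Function.iterate_add_apply, hdm, ← hsm.em_it i hi] at this
  · rintro v ((hv | ⟨i, hi, rfl⟩) | ⟨i, hi, rfl⟩)
    · exact pvsh_at_lt' hT hatm (pvsh_at_not_vof hatm (hcm v hv))
    · have := (g3m (δ + i) (by omega)).1
      rwa [pvas_it_add, hdp, ← hsp.ep_it i hi] at this
    · have := (g3m (δ + i) (by omega)).2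
      rwa [pvas_it_add, hdp, ← hsp.ep_it i hi] at this
  · exact pvsh_exit_metric hT hS hc.rim hc.black hfin hq hdp hsrc hatp hCp (hcp _ hsa) hB₁
  · exact pvsh_entr_metric hT hS hc.rim hc.black hfin hq hdm hatm hCm (hcm _ hsq) hB₃ hc.leave

/-- **HALF B OF E15** (hypothesis `hB` of `pvzc_e15` of 112, Defs v3) from one shield at each tip, centred at the grid centres -/
theorem pvsh_mouth (hT : T.IsSph) (hS : T.Simple) {N : PvwNum} {h : ℝ} {z : ℂ} {τ : PvwTy} (hg : 𝔖.Gate pos h z τ s) (hsp : 𝔖.StubP pos Bx s) (hsm : 𝔖.StubM pos Bx s) (hBx : Bx ⊆ BK)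
    (hins : T.VOf 𝔖.S.Left ⊆ 𝔖.core) (hcB : ∀ v ∈ 𝔖.core, pos v ∈ BK) {c : T.Cyc} {j : ℕ} (hc : PvzcRim 𝔖 pos s BK c j) (hfin : {d | T.Wall s (T.opp (c.e 0)) d}.Finite)
    {yp ym : ℂ} {r R : ℝ} (hp : PvbpCirc T pos (𝔖.fzOut)ᶜ yp r R false s) (hm : PvbpCirc T pos (𝔖.fzIn)ᶜ ym r R false s) (hr : 2 * N.rho * h ≤ r)
    (hcp : ∀ v ∈ 𝔖.core, R ≤ ‖pos v - yp‖) (hcm : ∀ v ∈ 𝔖.core, R ≤ ‖pos v - ym‖) :
    PvzcMouth 𝔖 pos N h yp ym BK c j := by
  obtain ⟨h1, h2, ⟨B, b1, b2, b3⟩, ⟨A, a1, a2, a3⟩⟩ := pvsh_state hT hS hg hsp hsm hBx hins hcB hc hfin hp hm hcp hcm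
  exact ⟨fun v hv => lt_of_le_of_lt hr (h1 v hv), fun v hv => lt_of_le_of_lt hr (h2 v hv), ⟨hc.run, B, b1, b2, fun i hi hi' => lt_of_le_of_lt hr (b3 i hi hi')⟩,
    ⟨hc.run, A, a1, a2, fun i hi hi' => lt_of_le_of_lt hr (a3 i hi hi')⟩⟩

end state

end Claimed.Agent.R289
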