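-- KEEP
import Claimed.Agent.R289.Tr.StrandD
import Claimed.Agent.R289.Tr.Di
import Claimed.Agent.R289.Tr.GateLat

/-!
# Row 289 (S0537, Cardy for Poisson-Voronoi), THE WALL, bridge GATE (order (b) of helper24), file Tr/GateBr : A RIM THROUGH A GATE      (owner helper3; prefix `pvgb_`)

No new vocabulary.      Everything is stated for ONE coloured map `(T, s)`, a black rim `c` (`PvMap.Cyc.IsRim`, `Pl/Rim`), its strand (`pvasIt`, `Arm/Strand`), the last-exit decomposition `PvwLE` (`Tr/Defs`) and the record gate `PvMap.Gate` (`Tr/GateB`).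
* sec. 1  **`pvgb_times`** : the strand started in the tag triangle of `c.e i` meets the tag triangles of `c.e (i + k)` at increasing times `j k` = LAST visits of the vertices of the rim; between two of them the black bank meets the rim in one vertex (NO BYPASS).
* sec. 2  **`pvgb_rim_strand`** : RIM ⟹ INNER STRAND for an arbitrary circuit `S` with at most the two black vertices `c.v p`, `c.v q` : ONE journey `dm → dp` through `S.Left`, `dm ∈ S.darts`, `opp dp ∈ S.darts`, and `PvwLE bank n (c.pth p (q - p))`.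
* sec. 3  **`pvgb_thru_reach`**, **`pvgb_thru_fin`** : the statement `pvsb_thru` of `Tr/StabS.lean` (`g.Thru ∧ PvwLE .. g.len (γ.pth lo (hi - lo))`) when the strand runs from the tag before the gate to the tag after it / when the wall of the rim is finite.
The state part (G1) (G3) (`PvwSt.Gate` ⟹ `PvltG`, `PvMap.Gate`) waits for v3 of `Tr/Defs` and goes to `Tr/GateBs.lean`.
-/

set_option autoImplicit false

namespace Claimed.Agent.R289

open Relation Set

variable {V D : Type} {T : PvMap V D} {s : V → Bool}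

/-! ## 1. the times of a rim on its strand -/

/-- the three standard facts on a black rim -/
theorem pvgb_rim_facts {c : T.Cyc} (h : c.IsRim s) (hb : s (T.src (c.e 0)) = true) :
    (∀ i, T.Tag s (T.opp (c.e i))) ∧ (∀ i, T.Wall s (T.opp (c.e 0)) (T.opp (c.e i))) ∧ ∀ i, s (T.src (c.e i)) = true :=
  ⟨pl_rim_tag h, fun i => (pl_rim_lab h i).2.2.1, fun i => by rw [pl_rim_col h i 0, hb]⟩

/-- the positions of the strand of a rim lie on the right of the rim -/
theorem pvgb_strand_right {c : T.Cyc} (h : c.IsRim s) (hb : s (T.src (c.e 0)) = true) (i t : ℕ) :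
    pvasIt T s (T.rotInv (c.e i)) t ∈ c.Right := by
  obtain ⟨hc, hw, hbl⟩ := pvgb_rim_facts h hb
  have ha : pvasBW T s (T.rotInv (c.e i)) := pvt_s_rim_bw (hc i) (hbl i)
  have h1 : T.Wall s (T.opp (c.e 0)) (T.rotInv (c.e i)) := pl_ra_wall_trans (hw i) (pl_ra_wall_sf s (T.sf_nxt _))
  have h2 : T.Wall s (T.opp (c.e 0)) (pvasIt T s (T.rotInv (c.e i)) t) := pl_ra_wall_trans h1 (pvt_s_it_wall ha t)
  exact pvt_s_wall_djoin c (fun k => pl_rim_not_occ h k) h2

/-- **THE TIMES OF A RIM**: the strand started in the tag triangle of `c.e i` meets the tag triangles of `c.e (i + k)`, `k ≤ q - i`, at increasing times `j k`;  `j k` is the LAST visit of the vertex number `i + k`;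
between `j k` and `j (k + 1)` the black bank meets the rim only at the vertex number `i + k + 1` -/
theorem pvgb_times (hT : T.IsSph) (hS : T.Simple) {c : T.Cyc} (h : c.IsRim s) (hb : s (T.src (c.e 0)) = true)
    {i q : ℕ} (hex : ∃ m, pvasIt T s (T.rotInv (c.e i)) m = T.rotInv (c.e q)) (hiq : i < q) (hq : q < i + c.n) :
    ∃ (M : ℕ) (j : ℕ → ℕ), j 0 = 0 ∧ j (q - i) = M ∧
      (∀ t t', t ≤ M → t' ≤ M → pvasIt T s (T.rotInv (c.e i)) t = pvasIt T s (T.rotInv (c.e i)) t' → t = t') ∧
      (∀ k, k ≤ q - i → pvasIt T s (T.rotInv (c.e i)) (j k) = T.rotInv (c.e (i + k))) ∧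
      (∀ k, k < q - i → j k < j (k + 1)) ∧
      (∀ k, k ≤ q - i → ∀ t, j k < t → t ≤ M → T.src (pvasIt T s (T.rotInv (c.e i)) t) ≠ T.src (c.e (i + k))) ∧
      (∀ k, k < q - i → T.src (pvasIt T s (T.rotInv (c.e i)) (j k + 1)) = T.src (c.e (i + k + 1))) ∧
      (∀ k, k < q - i → ∀ t, j k < t → t ≤ j (k + 1) → T.src (pvasIt T s (T.rotInv (c.e i)) t) ∈ c.verts →
        T.src (pvasIt T s (T.rotInv (c.e i)) t) = T.src (c.e (i + k + 1))) := by
  classical
  obtain ⟨hc, hw, hbl⟩ := pvgb_rim_facts h hb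
  set a := T.rotInv (c.e i) with ha_def
  have ha : pvasBW T s a := pvt_s_rim_bw (hc i) (hbl i)
  obtain ⟨M, hM, hmin⟩ := pvt_sf_first hex
  obtain ⟨y, hy, hyn, hye⟩ := pvt_sd_rim_le hT hS c hc hw hbl hiq hq hM hmin
  have hinj : ∀ t t', t ≤ M → t' ≤ M → pvasIt T s a t = pvasIt T s a t' → t = t' := fun t t' ht ht' e =>
    pvt_sd_inj ha (n := M + 1) (fun k hk0 hk => hmin k hk0 (by omega)) t t' (by omega) (by omega) e
  obtain ⟨j, h0, hn, h1, h2⟩ := hy
  -- the vertices of `y`
  have hyv : ∀ k, k ≤ q - i → y.v k = T.src (c.e (i + k)) := by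
    intro k hk
    rcases Nat.lt_or_ge k (q - i) with hlt | hge
    · rw [← y.src_e k (by omega), hye k hlt]
    · have hk' : k = (q - i - 1) + 1 := by omega
      rw [hk', ← y.tgt_e (q - i - 1) (by omega), hye _ (by omega), c.chain]
      congr 2
  -- the positions at the times `j k`
  have hpos : ∀ k, k < q - i → pvasIt T s a (j k) = T.rotInv (c.e (i + k)) := by
    intro k hk
    have e1 : y.v k = T.src (pvasIt T s a (j k)) := (h1 k (by omega)).2.1
    have e2 : y.v (k + 1) = T.src (pvasIt T s a (j k + 1)) := h2 k (by omega)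
    rw [pvas_it_succ] at e2
    rcases pvas_step_ends s (pvasIt T s a (j k)) with ⟨-, e, -⟩ | ⟨-, e, -⟩
    · have : y.e k = T.rot (pvasIt T s a (j k)) := by
        refine hS _ _ ?_ ?_
        · rw [y.src_e k (by omega), e1, T.src_rot]
        · rw [y.tgt_e k (by omega), e2, e, T.tgt_rot]
      rw [← hye k hk, this, T.rotInv_rot]
    · exfalso
      have := y.inj (k + 1) k (by omega) (by omega) (by rw [e1, e2, e])
      omega
  have hjn : j (q - i) = M := by rw [← hyn]; exact hn
  have hpos' : ∀ k, k ≤ q - i → pvasIt T s a (j k) = T.rotInv (c.e (i + k)) := by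
    intro k hk
    rcases Nat.lt_or_ge k (q - i) with hlt | hge
    · exact hpos k hlt
    · have : k = q - i := by omega
      rw [this, hjn, hM]
      congr 2
      omega
  have hjle : ∀ k, k ≤ q - i → j k ≤ M := fun k hk => (h1 k (by omega)).1
  have hlast : ∀ k, k ≤ q - i → ∀ t, j k < t → t ≤ M → T.src (pvasIt T s a t) ≠ T.src (c.e (i + k)) := by
    intro k hk t h3 h4
    have := (h1 k (by omega)).2.2 t h3 h4
    rw [← hyv k hk, (h1 k (by omega)).2.1]
    exact this
  have hnext : ∀ k, k < q - i → T.src (pvasIt T s a (j k + 1)) = T.src (c.e (i + k + 1)) := by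
    intro k hk
    have e2 : y.v (k + 1) = T.src (pvasIt T s a (j k + 1)) := h2 k (by omega)
    rw [← e2, hyv (k + 1) (by omega)]
    rfl
  have hlt' : ∀ k, k < q - i → j k < M := fun k hk => by
    have := pvt_sd_idx_lt (b := fun t => T.src (pvasIt T s a t)) hn h1 (k := k) (by omega)
    exact this
  have hmono : ∀ k, k < q - i → j k < j (k + 1) := by
    intro k hk
    by_contra hcon
    have h3 : j (k + 1) < j k + 1 := by omega
    exact hlast (k + 1) (by omega) (j k + 1) h3 (hlt' k hk) (hnext k hk)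
  have hj0 : j 0 = 0 := hinj _ _ (hjle 0 (Nat.zero_le _)) (Nat.zero_le _) (by rw [hpos' 0 (Nat.zero_le _)]; rfl)
  refine ⟨M, j, hj0, hjn, hinj, hpos', hmono, hlast, hnext, ?_⟩
  -- no bypass
  obtain ⟨hR, hL, -, -⟩ := pl_jordan hT c
  have hright : ∀ t, pvasIt T s a t ∉ c.Left := fun t ht => by
    have := pvgb_strand_right h hb i t
    rw [hR] at this
    exact this ht
  intro k hk
  have key : ∀ r, j k + 1 + r ≤ j (k + 1) →
      ReflTransGen (fun x y => ∃ e, T.src e = x ∧ T.tgt e = y ∧ ¬ T.Occ s e ∧ e ∉ c.Left ∧ T.opp e ∉ c.Left) (T.src (c.e (i + k + 1))) (T.src (pvasIt T s a (j k + 1 + r))) := by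
    intro r
    induction r with
    | zero => intro _; rw [Nat.add_zero, hnext k hk]
    | succ r ih =>
      intro hr
      have ih' := ih (by omega)
      set t := j k + 1 + r with ht
      have e1 : j k + 1 + (r + 1) = t + 1 := by omega
      rw [e1, pvas_it_succ]
      rcases pvas_step_ends s (pvasIt T s a t) with ⟨hbk, e, -⟩ | ⟨-, e, -⟩
      · rw [e]
        have hbw := pvas_it_bw ha t
        have hopp : T.opp (T.rot (pvasIt T s a t)) ∉ c.Left := by
          rw [pvt_s_opp_rot]
          intro hmem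
          exact hright t (((pl_left_face c).nxt2 T _).1 hmem)
        by_cases hin : T.rot (pvasIt T s a t) ∈ c.Left
        · exfalso
          obtain ⟨l, hl⟩ := (pl_cyc_darts_iff hT c _).2 ⟨hin, hopp⟩
          have hv : T.src (pvasIt T s a t) ∈ c.verts := ⟨l, by rw [hl, T.src_rot]⟩
          have h5 := pl_no_bypass hT h ⟨i + k + 1, rfl⟩ hv ih'
          have h6 : c.e l = c.e (i + k + 1) := by
            refine pl_cyc_eq_of_mod c (pl_cyc_src_inj c ?_)
            rw [hl, T.src_rot, h5]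
          have h7 : pvasIt T s a t = pvasIt T s a (j (k + 1)) := by
            rw [hpos' (k + 1) (by omega), ← T.rotInv_rot (pvasIt T s a t), ← hl, h6]
            rfl
          have := hinj _ _ (by have := hjle (k + 1) (by omega); omega) (hjle (k + 1) (by omega)) h7
          omega
        · refine ih'.tail ⟨T.rot (pvasIt T s a t), T.src_rot _, T.tgt_rot _, ?_, hin, hopp⟩
          unfold PvMap.Occ
          rw [T.src_rot, T.tgt_rot, hbw.1, hbk]
          exact fun h => h rfl
      · rw [e]; exact ih'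
  intro t h3 h4 hv
  obtain ⟨r, rfl⟩ := Nat.exists_eq_add_of_le (show j k + 1 ≤ t by omega)
  exact (pl_no_bypass hT h ⟨i + k + 1, rfl⟩ hv (key r h4)).symm

/-! ## 2. one journey -/

/-- a predicate which is false at `t₀`, true at `t₁` and has at most one up-crossing in between: false, then true -/
theorem pvgb_switch {I : ℕ → Prop} {t₀ t₁ : ℕ} (h01 : t₀ ≤ t₁) (h0 : ¬ I t₀) (h1 : I t₁)
    (huniq : ∀ t t', t₀ ≤ t → t < t₁ → t₀ ≤ t' → t' < t₁ → ¬ I t → I (t + 1) → ¬ I t' → I (t' + 1) → t = t') :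
    ∃ te, t₀ < te ∧ te ≤ t₁ ∧ (∀ t, t₀ ≤ t → t < te → ¬ I t) ∧ ∀ t, te ≤ t → t ≤ t₁ → I t := by
  classical
  -- the first time at which `I` holds
  have hex : ∃ t, t₀ ≤ t ∧ I t := ⟨t₁, h01, h1⟩
  set te := Nat.find hex with hte
  have h2 : t₀ ≤ te ∧ I te := Nat.find_spec hex
  have h3 : ∀ t, t < te → ¬ (t₀ ≤ t ∧ I t) := fun t ht => Nat.find_min hex ht
  have h4 : te ≤ t₁ := Nat.find_min' hex ⟨h01, h1⟩
  have h5 : t₀ < te := lt_of_le_of_ne h2.1 fun e => h0 (e ▸ h2.2)
  refine ⟨te, h5, h4, fun t ht ht' hI => h3 t ht' ⟨ht, hI⟩, ?_⟩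
  by_contra hcon
  rw [not_forall] at hcon
  obtain ⟨u, hu⟩ := hcon
  have hu1 : te ≤ u := by by_contra hh; exact hu fun a => absurd a hh
  have hu2 : u ≤ t₁ := by by_contra hh; exact hu fun _ a => absurd a hh
  have hu3 : ¬ I u := fun hI => hu fun _ _ => hI
  -- an up-crossing after `u`
  have hex2 : ∃ t, u ≤ t ∧ I t := ⟨t₁, hu2, h1⟩
  set tf := Nat.find hex2 with htf
  have g2 : u ≤ tf ∧ I tf := Nat.find_spec hex2
  have g3 : ∀ t, t < tf → ¬ (u ≤ t ∧ I t) := fun t ht => Nat.find_min hex2 ht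
  have g4 : tf ≤ t₁ := Nat.find_min' hex2 ⟨hu2, h1⟩
  have g5 : u < tf := lt_of_le_of_ne g2.1 fun e => hu3 (e ▸ g2.2)
  have e1 : te - 1 + 1 = te := by omega
  have e2 : tf - 1 + 1 = tf := by omega
  have := huniq (te - 1) (tf - 1) (by omega) (by omega) (by omega) (by omega) (fun hI => h3 (te - 1) (by omega) ⟨by omega, hI⟩) (e1 ▸ h2.2)
    (fun hI => g3 (tf - 1) (by omega) ⟨by omega, hI⟩) (e2 ▸ g2.2)
  omega

/-- two darts of a cycle with the same source are equal -/
theorem pvgb_cyc_dart_src (c : T.Cyc) {d d' : D} (hd : d ∈ c.darts) (hd' : d' ∈ c.darts) (h : T.src d = T.src d') : d = d' := by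
  obtain ⟨i, rfl⟩ := hd
  obtain ⟨j, rfl⟩ := hd'
  exact pl_cyc_eq_of_mod c (pl_cyc_src_inj c h)

/-- two darts of a cycle with the same target are equal -/
theorem pvgb_cyc_dart_tgt (c : T.Cyc) {d d' : D} (hd : d ∈ c.darts) (hd' : d' ∈ c.darts) (h : T.tgt d = T.tgt d') : d = d' := by
  obtain ⟨i, rfl⟩ := hd
  obtain ⟨j, rfl⟩ := hd'
  rw [c.chain, c.chain] at h
  have h1 := pl_cyc_src_inj c h
  have hn := pl_cyc_pos c
  refine pl_cyc_eq_of_mod c ?_
  have h2 : i + 1 ≡ j + 1 [MOD c.n] := h1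
  exact Nat.ModEq.add_right_cancel' 1 h2

/-- a vertex of a cycle is not strictly inside -/
theorem pvgb_vert_not_int (hT : T.IsSph) (c : T.Cyc) {v : V} (hv : v ∈ c.verts) : v ∉ T.Int c.Left := by
  intro h
  obtain ⟨-, d, hd, e⟩ := pvlt_vert_darts hT c hv
  rw [(pl_jordan hT c).1] at hd
  exact hd (h d e)

theorem pvgb_mod_window {n a b : ℕ} (h : a % n = b % n) (h1 : a ≤ b) (h2 : b < a + n) : a = b := by
  obtain ⟨r, rfl⟩ := Nat.exists_eq_add_of_le h1
  have h3 : a + 0 ≡ a + r [MOD n] := by rw [Nat.add_zero]; exact h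
  have h4 : 0 ≡ r [MOD n] := Nat.ModEq.add_left_cancel' a h3
  have h5 : r % n = 0 := by rw [← h4]; exact Nat.zero_mod n
  rw [Nat.mod_eq_of_lt (by omega)] at h5
  omega

/-- **RIM ⟹ INNER STRAND**.      A black rim `c` crosses the circuit `S` at its vertices number `p` and `q`, runs strictly inside in between and strictly outside on the other arc, and `S` has no other black vertex.
Then the strand on the right of `c` makes ONE journey through `S.Left`: it enters at a dart `dm` of `S` issued from `c.v p`, leaves at `dp` (the opposite of a dart of `S`) issued from `c.v q`, and the last-exit decomposition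
of its black bank is the arc `p → q` of the rim. -/
theorem pvgb_rim_strand (hT : T.IsSph) (hS : T.Simple) {c : T.Cyc} (h : c.IsRim s) (hb : s (T.src (c.e 0)) = true)
    (S : T.Cyc) {p q : ℕ} (hex : ∃ m, pvasIt T s (T.rotInv (c.e (p - 1))) m = T.rotInv (c.e q)) (hp : 1 ≤ p) (hpq : p + 2 ≤ q) (hq : q + 1 < p + c.n)
    (hin : ∀ k, p < k → k < q → T.src (c.e k) ∈ T.Int S.Left) (hout : ∀ k, q < k → k < p + c.n → T.src (c.e k) ∈ T.Int S.Right)
    (htwo : ∀ v ∈ S.verts, s v = true → v = T.src (c.e p) ∨ v = T.src (c.e q)) :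
    ∃ (dm dp : D) (n : ℕ), dm ∈ S.darts ∧ T.opp dp ∈ S.darts ∧ pvasBW T s dm ∧ pvasBW T s dp ∧ T.src dm = T.src (c.e p) ∧ T.src dp = T.src (c.e q) ∧
      pvasIt T s dm n = dp ∧ (∀ i, i < n → pvasIt T s dm i ∈ S.Left) ∧ PvwLE T (fun i => T.src (pvasIt T s dm i)) n (c.pth p (q - p)) := by
  classical
  obtain ⟨i, rfl⟩ : ∃ i, p = i + 1 := ⟨p - 1, by omega⟩
  obtain ⟨hc, -, hbl⟩ := pvgb_rim_facts h hb
  obtain ⟨M, j, hj0, hjM, hinj, hpos, hmono, hlast, hnext, hbyp⟩ := pvgb_times hT hS h hb (i := i) (q := q) hex (by omega) (by omega)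
  set a := T.rotInv (c.e i) with ha_def
  have ha : pvasBW T s a := pvt_s_rim_bw (hc i) (hbl i)
  obtain ⟨hR, -, -, -⟩ := pl_jordan hT S
  have hF := pl_left_face S
  set L := q - i with hL
  have hL2 : 3 ≤ L := by omega
  -- monotonicity of the times
  have hle : ∀ m k, k + m ≤ L → j k ≤ j (k + m) := by
    intro m
    induction m with
    | zero => intro k _; exact le_rfl
    | succ m ih => intro k hk; exact (ih k (by omega)).trans (hmono (k + m) (by omega)).le
  have hle' : ∀ k k', k ≤ k' → k' ≤ L → j k ≤ j k' := by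
    intro k k' h1 h2
    obtain ⟨m, rfl⟩ := Nat.exists_eq_add_of_le h1
    exact hle m k h2
  -- every positive time lies in one interval
  have hloc : ∀ m, m ≤ L → ∀ t, 0 < t → t ≤ j m → ∃ k, k < m ∧ j k < t ∧ t ≤ j (k + 1) := by
    intro m
    induction m with
    | zero => intro _ t h1 h2; rw [hj0] at h2; omega
    | succ m ih =>
      intro hm t h1 h2
      rcases Nat.lt_or_ge (j m) t with h3 | h3
      · exact ⟨m, by omega, h3, h2⟩
      · obtain ⟨k, k1, k2, k3⟩ := ih (by omega) t h1 h3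
        exact ⟨k, by omega, k2, k3⟩
  -- the visits of the circuit
  have hvis : ∀ t, 0 < t → t ≤ M → T.src (pvasIt T s a t) ∈ S.verts →
      (t ≤ j 1 ∧ T.src (pvasIt T s a t) = T.src (c.e (i + 1))) ∨ (j (L - 1) < t ∧ T.src (pvasIt T s a t) = T.src (c.e q)) := by
    intro t h1 h2 h3
    obtain ⟨k, k1, k2, k3⟩ := hloc L le_rfl t h1 (by rw [hjM]; exact h2)
    have h4 := htwo _ h3 (pvas_it_bw ha t).1
    have h5 : T.src (pvasIt T s a t) = T.src (c.e (i + k + 1)) := by
      refine hbyp k k1 t k2 k3 ?_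
      rcases h4 with h4 | h4
      · exact ⟨_, h4.symm⟩
      · exact ⟨_, h4.symm⟩
    rcases h4 with h4 | h4
    · left
      have h6 := pl_cyc_src_inj c (h4.symm.trans h5)
      have h7 := pvgb_mod_window h6 (by omega) (by omega)
      have h8 : k = 0 := by omega
      subst h8
      exact ⟨k3, h4⟩
    · right
      have h6 := pl_cyc_src_inj c (h5.symm.trans h4)
      have h7 := pvgb_mod_window h6 (by omega) (by omega)
      have h8 : k = L - 1 := by omega
      subst h8
      exact ⟨k2, h4⟩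
  -- crossings of the circuit
  have hup : ∀ t, pvasIt T s a t ∉ S.Left → pvasIt T s a (t + 1) ∈ S.Left → pvasIt T s a (t + 1) ∈ S.darts := by
    intro t h1 h2
    refine (pl_cyc_darts_iff hT S _).2 ⟨h2, fun h3 => h1 ?_⟩
    rw [pvas_it_succ] at h3
    exact (pvas_step_opp_mem hF s).1 h3
  have hdown : ∀ t, pvasIt T s a t ∈ S.Left → pvasIt T s a (t + 1) ∉ S.Left → T.opp (pvasIt T s a (t + 1)) ∈ S.darts := by
    intro t h1 h2
    refine (pl_cyc_darts_iff hT S _).2 ⟨?_, by rw [T.opp_opp]; exact h2⟩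
    rw [pvas_it_succ]
    exact (pvas_step_opp_mem hF s).2 h1
  have hupv : ∀ t, pvasIt T s a t ∉ S.Left → pvasIt T s a (t + 1) ∈ S.Left → T.src (pvasIt T s a (t + 1)) ∈ S.verts := fun t h1 h2 =>
    (pvlt_tgt_mem S (hup t h1 h2)).1
  have hdownv : ∀ t, pvasIt T s a t ∈ S.Left → pvasIt T s a (t + 1) ∉ S.Left → T.src (pvasIt T s a (t + 1)) ∈ S.verts := fun t h1 h2 => by
    have := (pvlt_tgt_mem S (hdown t h1 h2)).2
    rwa [T.tgt_opp] at this
  -- the four reference positions
  have hI0 : pvasIt T s a 0 ∉ S.Left := by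
    have h1 : T.src (c.e i) ∈ T.Int S.Right := by
      have := hout (i + c.n) (by omega) (by omega)
      rwa [c.per] at this
    have h2 : a ∈ S.Right := h1 a (T.src_rotInv _)
    rw [hR] at h2
    exact h2
  have hI1 : pvasIt T s a (j 1) ∈ S.Left := by
    rw [hpos 1 (by omega)]
    have h1 : T.opp (c.e (i + 1)) ∈ S.Left := hin (i + 1 + 1) (by omega) (by omega) _ (by rw [T.src_opp', c.chain])
    exact (hF _).2 h1
  have hI2 : pvasIt T s a (j (L - 1)) ∈ S.Left := by
    rw [hpos (L - 1) (by omega)]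
    exact hin (i + (L - 1)) (by omega) (by omega) _ (T.src_rotInv _)
  have hI3 : pvasIt T s a M ∉ S.Left := by
    rw [← hjM, hpos L le_rfl]
    have e : i + L = q := by omega
    rw [e]
    have h1 : T.opp (c.e q) ∈ S.Right := hout (q + 1) (by omega) (by omega) _ (by rw [T.src_opp', c.chain])
    have h2 : T.rotInv (c.e q) ∈ S.Right := ((pl_right_face S) _).2 h1
    rw [hR] at h2
    exact h2
  have hj1M : j 1 ≤ M := by rw [← hjM]; exact hle' 1 L (by omega) le_rfl
  have hjLM : j (L - 1) < M := by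
    have := hmono (L - 1) (by omega)
    have e : L - 1 + 1 = L := by omega
    rw [e, hjM] at this
    exact this
  have hj1L : j 1 ≤ j (L - 1) := hle' 1 (L - 1) (by omega) (by omega)
  -- the entrance
  obtain ⟨te, te1, te2, te3, te4⟩ := pvgb_switch (I := fun t => pvasIt T s a t ∈ S.Left) (t₀ := 0) (t₁ := j 1) (Nat.zero_le _) hI0 hI1 (by
    intro t t' _ h2 _ h4 h5 h6 h7 h8
    have v1 := hvis (t + 1) (by omega) (by omega) (hupv t h5 h6)
    have v2 := hvis (t' + 1) (by omega) (by omega) (hupv t' h7 h8)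
    have w1 : T.src (pvasIt T s a (t + 1)) = T.src (c.e (i + 1)) := by
      rcases v1 with v1 | v1
      · exact v1.2
      · omega
    have w2 : T.src (pvasIt T s a (t' + 1)) = T.src (c.e (i + 1)) := by
      rcases v2 with v2 | v2
      · exact v2.2
      · omega
    have := hinj _ _ (by omega) (by omega) (pvgb_cyc_dart_src S (hup t h5 h6) (hup t' h7 h8) (w1.trans w2.symm))
    omega)
  -- the exit
  obtain ⟨tx, tx1, tx2, tx3, tx4⟩ := pvgb_switch (I := fun t => pvasIt T s a t ∉ S.Left) (t₀ := j (L - 1)) (t₁ := M) hjLM.le (fun hh => hh hI2) hI3 (by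
    intro t t' h1 h2 h3 h4 h5 h6 h7 h8
    have h5' : pvasIt T s a t ∈ S.Left := by by_contra hh; exact h5 hh
    have h7' : pvasIt T s a t' ∈ S.Left := by by_contra hh; exact h7 hh
    have v1 := hvis (t + 1) (by omega) (by omega) (hdownv t h5' h6)
    have v2 := hvis (t' + 1) (by omega) (by omega) (hdownv t' h7' h8)
    have w1 : T.src (pvasIt T s a (t + 1)) = T.src (c.e q) := by
      rcases v1 with v1 | v1
      · omega
      · exact v1.2
    have w2 : T.src (pvasIt T s a (t' + 1)) = T.src (c.e q) := by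
      rcases v2 with v2 | v2
      · omega
      · exact v2.2
    have e := pvgb_cyc_dart_tgt S (hdown t h5' h6) (hdown t' h7' h8) (by rw [T.tgt_opp, T.tgt_opp, w1, w2])
    have := hinj _ _ (by omega) (by omega) (T.opp_injective e)
    omega)
  -- inside in between
  have hmid : ∀ r, j 1 + r ≤ j (L - 1) → pvasIt T s a (j 1 + r) ∈ S.Left := by
    intro r
    induction r with
    | zero => intro _; exact hI1
    | succ r ih =>
      intro hr
      by_contra hcon
      have v := hvis (j 1 + r + 1) (by omega) (by omega) (hdownv (j 1 + r) (ih (by omega)) hcon)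
      rcases v with v | v <;> omega
  have hins : ∀ t, te ≤ t → t < tx → pvasIt T s a t ∈ S.Left := by
    intro t h1 h2
    rcases Nat.lt_or_ge t (j 1) with h3 | h3
    · exact te4 t h1 h3.le
    · rcases Nat.lt_or_ge (j (L - 1)) t with h4 | h4
      · by_contra hh
        exact tx3 t h4.le h2 hh
      · obtain ⟨r, rfl⟩ := Nat.exists_eq_add_of_le h3
        exact hmid r h4
  have e1 : te - 1 + 1 = te := by omega
  have e2 : tx - 1 + 1 = tx := by omega
  have hte_not : pvasIt T s a (te - 1) ∉ S.Left := te3 (te - 1) (Nat.zero_le _) (by omega)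
  have hte_in : pvasIt T s a (te - 1 + 1) ∈ S.Left := by rw [e1]; exact te4 te le_rfl te2
  have htx_in : pvasIt T s a (tx - 1) ∈ S.Left := hins (tx - 1) (by omega) (by omega)
  have htx_not : pvasIt T s a (tx - 1 + 1) ∉ S.Left := by rw [e2]; exact tx4 tx le_rfl tx2
  have hdm : pvasIt T s a te ∈ S.darts := e1 ▸ hup _ hte_not hte_in
  have hdp : T.opp (pvasIt T s a tx) ∈ S.darts := e2 ▸ hdown _ htx_in htx_not
  have hsm : T.src (pvasIt T s a te) = T.src (c.e (i + 1)) := by
    rcases hvis te te1 (by omega) (pvlt_tgt_mem S hdm).1 with v | v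
    · exact v.2
    · omega
  have hsp : T.src (pvasIt T s a tx) = T.src (c.e q) := by
    have hv : T.src (pvasIt T s a tx) ∈ S.verts := by
      have := (pvlt_tgt_mem S hdp).2
      rwa [T.tgt_opp] at this
    rcases hvis tx (by omega) tx2 hv with v | v
    · omega
    · exact v.2
  have hadd : ∀ r, pvasIt T s (pvasIt T s a te) r = pvasIt T s a (te + r) := fun r => (pvas_it_add s a te r).symm
  refine ⟨pvasIt T s a te, pvasIt T s a tx, tx - te, hdm, hdp, pvas_it_bw ha te, pvas_it_bw ha tx, hsm, hsp, ?_, ?_, ?_⟩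
  · rw [hadd]; congr 1; omega
  · intro r hr; rw [hadd]; exact hins _ (by omega) (by omega)
  · have hyn : (c.pth (i + 1) (q - (i + 1))).n = q - (i + 1) := by
      show min (q - (i + 1)) (c.n - 1) = q - (i + 1)
      omega
    refine ⟨fun k => if k < q - (i + 1) then j (k + 1) - te else tx - te, ?_, ?_, ?_, ?_⟩
    · show T.src (c.e (i + 1 + 0)) = T.src (pvasIt T s (pvasIt T s a te) 0)
      rw [pvas_it_zero, hsm]
    · rw [hyn]
      show (if q - (i + 1) < q - (i + 1) then j (q - (i + 1) + 1) - te else tx - te) = tx - te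
      rw [if_neg (lt_irrefl _)]
    · intro k hk
      rw [hyn] at hk
      by_cases hlt : k < q - (i + 1)
      · simp only [if_pos hlt]
        have g1 : j 1 ≤ j (k + 1) := hle' 1 (k + 1) (by omega) (by omega)
        have g2 : j (k + 1) ≤ j (L - 1) := hle' (k + 1) (L - 1) (by omega) (by omega)
        have g3 : te + (j (k + 1) - te) = j (k + 1) := by omega
        refine ⟨by omega, ?_, ?_⟩
        · show T.src (c.e (i + 1 + k)) = _
          rw [hadd, g3, hpos (k + 1) (by omega), T.src_rotInv]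
          congr 2; omega
        · intro r h1 h2
          rw [hadd, hadd, g3, hpos (k + 1) (by omega), T.src_rotInv]
          exact hlast (k + 1) (by omega) (te + r) (by omega) (by omega)
      · simp only [if_neg hlt]
        have hk' : k = q - (i + 1) := by omega
        refine ⟨le_rfl, ?_, fun r h1 h2 => by omega⟩
        show T.src (c.e (i + 1 + k)) = _
        rw [hadd]
        have g3 : te + (tx - te) = tx := by omega
        rw [g3, hsp]
        congr 2; omega
    · intro k hk
      rw [hyn] at hk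
      simp only [if_pos hk]
      have g1 : j 1 ≤ j (k + 1) := hle' 1 (k + 1) (by omega) (by omega)
      show T.src (c.e (i + 1 + (k + 1))) = _
      rw [hadd]
      have g3 : te + (j (k + 1) - te + 1) = j (k + 1) + 1 := by omega
      rw [g3, hnext (k + 1) (by omega)]
      congr 2; omega


/-! ## 3. the record gate `PvMap.Gate` : RIM ⟹ `Thru` + the last-exit decomposition -/

/-- **RIM ⟹ STATE**, reach form: the statement `pvsb_thru` of `Tr/StabS.lean` under the hypothesis that the strand of the rim runs from the tag triangle before the gate to the tag triangle after the gate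
(automatic for a finite wall: `pvgb_thru_fin`) -/
theorem pvgb_thru_reach (hT : T.IsSph) (hS : T.Simple) {γ : T.Cyc} (hrim : γ.IsRim s) (hb : ∀ i, s (T.src (γ.e i)) = true) (g : T.Gate s) {k lo hi : ℕ} {X : Finset V}
    (hp : PvdiPass T g.c.Left X γ k lo hi) (hm : g.vm = T.src (γ.e lo)) (hv : g.vp = T.src (γ.e hi))
    (hex : ∃ m, pvasIt T s (T.rotInv (γ.e (lo - 1))) m = T.rotInv (γ.e hi)) :
    g.Thru ∧ PvwLE T (fun i => T.src (pvasIt T s g.aIn i)) g.len (γ.pth lo (hi - lo)) := by
  obtain ⟨hR, -, -, -⟩ := pl_jordan hT g.c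
  have l1 := hp.lo_pos
  have l2 := hp.lo_lt
  have l3 := hp.lt_hi
  have l4 := hp.hi_lt
  obtain ⟨dm, dp, n, h1, h2, -, -, h5, h6, h7, h8, h9⟩ := pvgb_rim_strand hT hS hrim (hb 0) g.c (p := lo) (q := hi) hex l1 (by omega) (by omega) hp.mid
    (fun j j1 j2 => by
      rw [hR]
      rcases Nat.lt_or_ge γ.n j with j3 | j3
      · obtain ⟨r, rfl⟩ := Nat.exists_eq_add_of_le j3.le
        rw [Nat.add_comm, γ.per]
        exact hp.before r (by omega)
      · exact hp.after j j1 j3)
    (fun v v1 v2 => by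
      rcases pvtg_black g v1 v2 with e | e
      · exact Or.inl (e.trans hm)
      · exact Or.inr (e.trans hv))
  have e1 : dm = g.aIn := pvgb_cyc_dart_src g.c h1 ⟨0, rfl⟩ (h5.trans hm.symm)
  have e2 : dp = g.aOut := by
    have : T.opp dp = g.c.e (g.m - 1) := by
      refine pvgb_cyc_dart_tgt g.c h2 ⟨g.m - 1, rfl⟩ ?_
      rw [T.tgt_opp, h6, ← hv, ← pvtg_aOut_src g]
      unfold PvMap.Gate.aOut
      rw [T.src_opp']
    unfold PvMap.Gate.aOut
    rw [← this, T.opp_opp]
  subst e1
  have hout : pvasIt T s g.aIn n ∉ g.c.Left := by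
    rw [h7]
    exact ((pl_cyc_darts_iff hT g.c _).1 h2).2 ∘ fun hh => by rwa [T.opp_opp]
  have hlen : g.len = n := pvas_hit_eq (fun hh => hout hh) (fun i hi hh => hh (h8 i hi))
  refine ⟨?_, by rw [hlen]; exact h9⟩
  unfold PvMap.Gate.Thru
  rw [(pvas_exit_eq h8 hout).2, h7, e2]

/-- **RIM ⟹ STATE** for a rim with a finite wall -/
theorem pvgb_thru_fin (hT : T.IsSph) (hS : T.Simple) {γ : T.Cyc} (hrim : γ.IsRim s) (hb : ∀ i, s (T.src (γ.e i)) = true) (g : T.Gate s) {k lo hi : ℕ} {X : Finset V}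
    (hp : PvdiPass T g.c.Left X γ k lo hi) (hm : g.vm = T.src (γ.e lo)) (hv : g.vp = T.src (γ.e hi)) (hw : {d | T.Wall s (T.opp (γ.e 0)) d}.Finite) :
    g.Thru ∧ PvwLE T (fun i => T.src (pvasIt T s g.aIn i)) g.len (γ.pth lo (hi - lo)) := by
  obtain ⟨hc, hw', hbl⟩ := pvgb_rim_facts hrim (hb 0)
  obtain ⟨m, e, -⟩ := pvt_sf_rim_ex γ hc hw' hbl hw (lo - 1) hi
  exact pvgb_thru_reach hT hS hrim hb g hp hm hv ⟨m, e⟩

end Claimed.Agent.R289
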