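-- KEEP
import Claimed.Agent.R289.Tr.GateBr
import Claimed.Agent.R289.Tr.StKit
import Claimed.Agent.R289.Tr.GateN

/-!
# Row 289 (S0537, Cardy for Poisson-Voronoi), THE WALL, bridge GATE (order (b) of helper24), file Tr/GateBs : THE STATE GATE OF `Tr/Defs` v3 AGAINST THE RECORD GATE `PvMap.Gate`      (owner helper3; prefix `pvgb_`)

* **(G2) `pvgb_st`** : a record gate `g : T.Gate s` (`Tr/GateB`) with `g.Thru`, the last-exit decomposition `p` of the black bank of its inner strand, the metric clauses and a vertex of `p` within `h` of the centre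
  ⟹ the gate data `(disc, g.c, g.aOut, g.aIn, p, ip)` are a `PvwSt.Gate` for EVERY choice of the stubs and every type with the numbers `a`, `b` and the bit of `(g⁻, g⁺)`.
* `pvgb_st_inmost` : `g.c.Left = pvgnHull ..` + frame ⟹ `Inmost`.
* **(G1) `pvgb_gate_of_st`** : a state gate is a record gate with `Thru`, same data;  `pvgb_len_of_st` : its `len` and its last-exit decomposition.
* **(G3) `pvgb_G_of_st`** : a state gate belongs to the family `PvltG` of `Tr/GateLat`.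
* **(G5) `pvgb_pin_gate`** : a black RIM `c` (cut at a vertex beyond the disc) which passes within `h` of the centre + the frame `(pvwI, pvwO)` + one face-set gate `PvgnG` (A6)
  ⟹ the record gate `g` of the FIXED RULE, labelled in the direction of the rim, `0 < lo < k < hi < c.n`, and the gate data `(disc, g.c, g.aOut, g.aIn, c.pth lo (hi - lo), ip)` satisfy `Gate` AND `Inmost`; the rim RUNS along the inner arc by definition of `pth`.
* `pvgb_gate_ext`, `pvgb_inmost_ext` : `Gate`, `Inmost` read only the gate part of the record (to be combined with `pvwk_stub_exists`).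
-/

set_option autoImplicit false

namespace Claimed.Agent.R289

open Relation Set

variable {V D : Type} {T : PvMap V D} {s : V → Bool}

/-- the sites of the open ball -/
def pvgbK (pos : V → ℂ) (z : ℂ) (ra : ℝ) : Set V := {v | ‖pos v - z‖ < ra}
/-- the sites of the closed annulus -/
def pvgbN (pos : V → ℂ) (z : ℂ) (ra rb : ℝ) : Set V := {v | ra ≤ ‖pos v - z‖ ∧ ‖pos v - z‖ ≤ rb}
/-- the sites beyond the closed ball -/
def pvgbO (pos : V → ℂ) (z : ℂ) (rb : ℝ) : Set V := {v | rb < ‖pos v - z‖}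
/-- `u` comes before `w` in the lexicographic order of the plane -/
def pvgbLex (u w : ℂ) : Prop := u.re < w.re ∨ (u.re = w.re ∧ u.im < w.im)

theorem pvgb_eqns_cite : True := by
  have := @pvgbK.eq_1; have := @pvgbN.eq_1; have := @pvgbO.eq_1; have := @pvgbLex.eq_1
  trivial

section st

variable {pos : V → ℂ} {h : ℝ} {z : ℂ} {τ : PvwTy} {𝔖 𝔖' : PvwSt T}

/-- every vertex of a sphere which carries a cycle has a dart -/
theorem pvgb_has_dart (hT : T.IsSph) (c : T.Cyc) (v : V) : ∃ d, T.src d = v := by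
  by_cases hv : v = T.src (c.e 0)
  · exact ⟨c.e 0, hv.symm⟩
  · rcases (hT.conn v (T.src (c.e 0))).cases_head with e | ⟨w, ⟨d, hd, -⟩, -⟩
    · exact absurd e hv
    · exact ⟨d, hd⟩

/-- `Gate` reads only the gate part of the record -/
theorem pvgb_gate_ext (hg : 𝔖.Gate pos h z τ s) (e0 : 𝔖'.dsc = 𝔖.dsc) (e1 : 𝔖'.S = 𝔖.S) (e2 : 𝔖'.dp = 𝔖.dp) (e3 : 𝔖'.dm = 𝔖.dm) (e4 : 𝔖'.inn = 𝔖.inn) (e5 : 𝔖'.ip = 𝔖.ip) :
    𝔖'.Gate pos h z τ s := by
  obtain ⟨C, S, dp, dm, inn, ip, np, ep, nm, em⟩ := 𝔖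
  obtain ⟨C', S', dp', dm', inn', ip', np', ep', nm', em'⟩ := 𝔖'
  simp only at e0 e1 e2 e3 e4 e5
  subst e0 e1 e2 e3 e4 e5
  exact ⟨hg.fin, hg.dsc_eq, hg.core_fin, hg.ann, hg.round, hg.inside, hg.dp_on, hg.dm_on, hg.bw_p, hg.bw_m, hg.ne, hg.ori, hg.two, hg.left, hg.strand, hg.ip_le, hg.ip_near, hg.ip_first⟩

/-- `Inmost` reads only the inside of the circuit -/
theorem pvgb_inmost_ext (hi : 𝔖.Inmost pos h z τ s) (e1 : 𝔖'.S.Left = 𝔖.S.Left) : 𝔖'.Inmost pos h z τ s := e1.trans hi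

/-- **(G2) RECORD GATE ⟹ STATE GATE** -/
theorem pvgb_st (hT : T.IsSph) (g : T.Gate s) (hfin : g.c.Left.Finite) (hthru : g.Thru) {p : T.Pth}
    (hle : PvwLE T (fun i => T.src (pvasIt T s g.aIn i)) g.len p) {a b : ℝ} (hdisc : {v | ‖pos v - z‖ < b * h}.Finite)
    (hann : ∀ v ∈ g.c.verts, a * h ≤ ‖pos v - z‖ ∧ ‖pos v - z‖ < b * h) (hround : ∀ v, ‖pos v - z‖ < a * h → v ∈ T.VOf g.c.Left)
    (hinside : ∀ v ∈ T.VOf g.c.Left, ‖pos v - z‖ < b * h) (hnear : ∃ i, i ≤ p.n ∧ ‖pos (p.v i) - z‖ ≤ h) :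
    ∃ ip, ip ≤ p.n ∧ ‖pos (p.v ip) - z‖ ≤ h ∧ (∀ i, i < ip → h < ‖pos (p.v i) - z‖) ∧
      ∀ (τ : PvwTy) (np : ℕ) (ep : ℕ → D) (nm : ℕ) (em : ℕ → D), τ.a = a → τ.b = b → (τ.o = true ↔ pvgbLex (pos g.vm) (pos g.vp)) →
        (⟨{v | ‖pos v - z‖ < b * h}, g.c, g.aOut, g.aIn, p, ip, np, ep, nm, em⟩ : PvwSt T).Gate pos h z τ s := by
  classical
  have hex : ∃ i, ‖pos (p.v i) - z‖ ≤ h := ⟨hnear.choose, hnear.choose_spec.2⟩
  have h1 : Nat.find hex ≤ p.n := (Nat.find_min' hex hnear.choose_spec.2).trans hnear.choose_spec.1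
  have h2 : ∀ i, i < Nat.find hex → h < ‖pos (p.v i) - z‖ := fun i hi => not_le.1 (Nat.find_min hex hi)
  refine ⟨Nat.find hex, h1, Nat.find_spec hex, h2, ?_⟩
  rintro τ np ep nm em rfl rfl ho
  obtain ⟨-, l2, l3⟩ := pvtg_len hT g hfin
  have hm := g.hm
  exact
    { fin := hfin
      dsc_eq := rfl
      core_fin := hdisc
      ann := hann
      round := hround
      inside := hinside
      dp_on := ⟨g.m - 1, (T.opp_opp _).symm⟩
      dm_on := ⟨0, rfl⟩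
      bw_p := pvtg_aOut_bw g
      bw_m := pvtg_aIn_bw g
      ne := fun e => pvtg_ne g ((pvtg_aOut_src g).symm.trans e).symm
      ori := by
        show τ.o = true ↔ pvgbLex (pos (T.src g.aIn)) (pos (T.src g.aOut))
        rw [pvtg_aOut_src, pvtg_aIn_src]
        exact ho
      two := fun v hv hb => by
        rcases pvtg_black g hv hb with e | e
        · exact Or.inr e
        · exact Or.inl (e.trans (pvtg_aOut_src g).symm)
      left := fun d hd e => by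
        have : d = g.bIn := pvgb_cyc_dart_src g.c hd ⟨g.m, rfl⟩ (e.trans (pvtg_aOut_src g))
        rw [this]
        exact (pvtg_bIn_bw g).2
      strand := ⟨g.len, l3.trans hthru, l2, hle⟩
      ip_le := h1
      ip_near := Nat.find_spec hex
      ip_first := h2 }

/-- the FIXED RULE: a record whose circuit bounds the hull of the frame `(pvwI, pvwO)` -/
theorem pvgb_st_inmost {o : D} (hF : PvgnFr T (pvwI T pos z (τ.a * h)) (pvwO T pos z (τ.b * h)) o)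
    (hL : 𝔖.S.Left = pvgnHull T s (pvwI T pos z (τ.a * h)) (pvwO T pos z (τ.b * h)) o) : 𝔖.Inmost pos h z τ s := by
  unfold PvwSt.Inmost
  rw [pvgn_rule_eq hF, hL]

/-- **(G3)** a state gate belongs to the family `PvltG` of the annulus -/
theorem pvgb_G_of_st (hT : T.IsSph) (hg : 𝔖.Gate pos h z τ s) : PvltG T s (pvgbK pos z (τ.a * h)) (pvgbN pos z (τ.a * h) (τ.b * h)) (pvgbO pos z (τ.b * h)) 𝔖.S := by
  obtain ⟨hR, -, -, -⟩ := pl_jordan hT 𝔖.S
  refine ⟨fun v hv => ?_, fun v hv d hd => ?_, fun v hv => ⟨(hg.ann v hv).1, (hg.ann v hv).2.le⟩, ?_, ?_⟩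
  · obtain ⟨d, hd, rfl⟩ := hg.round v hv
    refine pvlt_int_of_dart hT 𝔖.S hd fun hmem => ?_
    have h1 := (hg.ann _ hmem).1
    have h2 : ‖pos (T.src d) - z‖ < τ.a * h := hv
    linarith
  · rw [hR]
    intro hmem
    have h1 := hg.inside v ⟨d, hmem, hd⟩
    have h2 : τ.b * h < ‖pos v - z‖ := hv
    linarith
  · have hsub : 𝔖.S.verts ∩ {v | s v = true} ⊆ {𝔖.gp, 𝔖.gm} := fun v hv => hg.two v hv.1 hv.2
    exact (Set.ncard_le_ncard hsub (Set.toFinite _)).trans (Set.ncard_insert_le _ _ |>.trans (by rw [Set.ncard_singleton]))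
  · rintro d hd ⟨h1, h2⟩
    have hv := pvlt_tgt_mem 𝔖.S hd
    rcases hg.two _ hv.1 h1 with e | e
    · rw [hg.left d hd e] at h2
      exact Bool.false_ne_true h2
    · have : d = 𝔖.dm := pvgb_cyc_dart_src 𝔖.S hd hg.dm_on e
      rw [this, hg.bw_m.2] at h2
      exact Bool.false_ne_true h2

/-- the black vertices of a state gate -/
theorem pvgb_st_black (hg : 𝔖.Gate pos h z τ s) : 𝔖.S.verts ∩ {v | s v = true} = {𝔖.gm, 𝔖.gp} := by
  ext v
  constructor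
  · intro hv
    rcases hg.two v hv.1 hv.2 with e | e
    · exact Or.inr e
    · exact Or.inl e
  · rintro (rfl | rfl)
    · exact ⟨(pvlt_tgt_mem 𝔖.S hg.dm_on).1, hg.bw_m.1⟩
    · refine ⟨?_, hg.bw_p.1⟩
      have := (pvlt_tgt_mem 𝔖.S hg.dp_on).2
      rwa [T.tgt_opp] at this

/-- **(G1)** a state gate is a `PvMap.Gate` with `Thru`: same inside, same darts, `aIn = dm`, `aOut = dp`, and the inner arc is the last-exit decomposition of the bank of length `g.len` -/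
theorem pvgb_gate_of_st (hT : T.IsSph) (hg : 𝔖.Gate pos h z τ s) :
    ∃ g : T.Gate s, g.c.Left = 𝔖.S.Left ∧ g.c.Right = 𝔖.S.Right ∧ g.c.darts = 𝔖.S.darts ∧ g.c.verts = 𝔖.S.verts ∧ g.vm = 𝔖.gm ∧ g.vp = 𝔖.gp ∧
      g.aIn = 𝔖.dm ∧ g.aOut = 𝔖.dp ∧ g.Thru ∧ PvwLE T (fun i => T.src (pvasIt T s g.aIn i)) g.len 𝔖.inn := by
  obtain ⟨g, g1, g2, g3, g4, g5, g6⟩ := pvlt_gate hT 𝔖.S hg.ne.symm (pvgb_st_black hg) (pvgb_G_of_st hT hg).nadj
  have hm := g.hm
  have e1 : g.aIn = 𝔖.dm := pvgb_cyc_dart_src 𝔖.S (g3 ▸ ⟨0, rfl⟩) hg.dm_on g5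
  have e2 : g.aOut = 𝔖.dp := by
    have h1 : g.c.e (g.m - 1) = T.opp 𝔖.dp := by
      refine pvgb_cyc_dart_tgt 𝔖.S (g3 ▸ ⟨g.m - 1, rfl⟩) hg.dp_on ?_
      rw [T.tgt_opp, g.c.chain]
      have : g.m - 1 + 1 = g.m := by omega
      rw [this]
      exact g6
    show T.opp (g.c.e (g.m - 1)) = 𝔖.dp
    rw [h1, T.opp_opp]
  obtain ⟨n, n1, n2, n3⟩ := hg.strand
  have hout : 𝔖.dp ∉ 𝔖.S.Left := by
    have := ((pl_cyc_darts_iff hT 𝔖.S _).1 hg.dp_on).2
    rwa [T.opp_opp] at this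
  have hx := pvas_exit_eq n2 (by rw [n1]; exact hout)
  refine ⟨g, g1, g2, g3, g4, g5, g6, e1, e2, ?_, ?_⟩
  · show pvasExit T g.c.Left s g.aIn = g.aOut
    rw [g1, e1, e2, hx.2, n1]
  · have : g.len = n := by
      show pvasHit T s g.aIn g.c.Leftᶜ = n
      rw [g1, e1]
      exact hx.1
    rw [this, e1]
    exact n3

/-- the metric clauses of a circuit between the two face sets of the frame `(pvwI, pvwO)` -/
theorem pvgb_frame_metric (hT : T.IsSph) (S : T.Cyc) {ra rb : ℝ} (h1 : pvwI T pos z ra ⊆ S.Left) (h2 : S.Left ⊆ pvwO T pos z rb) :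
    (∀ v ∈ S.verts, ra ≤ ‖pos v - z‖ ∧ ‖pos v - z‖ < rb) ∧ (∀ v, ‖pos v - z‖ < ra → v ∈ T.VOf S.Left) ∧ ∀ v ∈ T.VOf S.Left, ‖pos v - z‖ < rb := by
  have hin : ∀ v ∈ T.VOf S.Left, ‖pos v - z‖ < rb := fun v hv => pvwk_VOf_O (pvdi_VOf_mono h2 hv)
  refine ⟨fun v hv => ⟨?_, hin v (by rw [pl_VOf_left hT S]; exact Or.inl hv)⟩, fun v hv => ?_, hin⟩
  · by_contra hlt
    exact pvgb_vert_not_int hT S hv fun d hd => h1 (Or.inl (by rw [hd]; exact not_le.1 hlt))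
  · obtain ⟨d, hd⟩ := pvgb_has_dart hT S v
    exact ⟨d, h1 (Or.inl (by rw [hd]; exact hv)), hd⟩

/-- **(G5) RIM ⟹ GATE + FIXED RULE + RUN** -/
theorem pvgb_pin_gate (hT : T.IsSph) (hS : T.Simple) {c : T.Cyc} (hrim : c.IsRim s) (hb : ∀ i, s (T.src (c.e i)) = true) {a b : ℝ} {o : D}
    (hF : PvgnFr T (pvwI T pos z (a * h)) (pvwO T pos z (b * h)) o) (hne : ∃ G, PvgnG T s (pvwI T pos z (a * h)) (pvwO T pos z (b * h)) G)
    (hdisc : {v | ‖pos v - z‖ < b * h}.Finite) (hah : h < a * h) {k : ℕ} (hk : k < c.n) (hkz : ‖pos (T.src (c.e k)) - z‖ ≤ h) (h0 : b * h ≤ ‖pos (T.src (c.e 0)) - z‖) :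
    ∃ (g : T.Gate s) (lo hi ip : ℕ), 0 < lo ∧ lo < k ∧ k < hi ∧ hi < c.n ∧ g.c.Left = pvgnHull T s (pvwI T pos z (a * h)) (pvwO T pos z (b * h)) o ∧
      g.vm = T.src (c.e lo) ∧ g.vp = T.src (c.e hi) ∧ g.Thru ∧ (c.pth lo (hi - lo)).n = hi - lo ∧ lo + ip ≤ k ∧
      (∀ j, lo < j → j < hi → T.src (c.e j) ∈ T.Int g.c.Left) ∧ (∀ j, j < lo → T.src (c.e j) ∈ T.Int g.c.Leftᶜ) ∧ (∀ j, hi < j → j ≤ c.n → T.src (c.e j) ∈ T.Int g.c.Leftᶜ) ∧
      ∀ (τ : PvwTy) (np : ℕ) (ep : ℕ → D) (nm : ℕ) (em : ℕ → D), τ.a = a → τ.b = b → (τ.o = true ↔ pvgbLex (pos g.vm) (pos g.vp)) →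
        (⟨{v | ‖pos v - z‖ < b * h}, g.c, g.aOut, g.aIn, c.pth lo (hi - lo), ip, np, ep, nm, em⟩ : PvwSt T).Gate pos h z τ s ∧
        (⟨{v | ‖pos v - z‖ < b * h}, g.c, g.aOut, g.aIn, c.pth lo (hi - lo), ip, np, ep, nm, em⟩ : PvwSt T).Inmost pos h z τ s := by
  classical
  have hki : T.src (c.e k) ∈ T.Int (pvwI T pos z (a * h)) := fun d hd => Or.inl (by rw [hd]; exact lt_of_le_of_lt hkz hah)
  have h0o : T.src (c.e 0) ∈ T.Int (pvwO T pos z (b * h))ᶜ := fun d hd => by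
    unfold pvwO
    rw [compl_compl]
    exact Or.inl (by rw [hd]; exact h0)
  obtain ⟨g₀, hL₀, a1₀, a2₀, -⟩ := pvgn_gate hT hS hF hne (γ := c) ⟨hb, ⟨k, hki⟩, ⟨0, h0o⟩⟩
  obtain ⟨lo, hi, hp₀⟩ := pvdi_pass hT (pvtg_pvg g₀) c hb hk (pvdi_int_mono (Set.compl_subset_compl.2 a2₀) h0o) (pvdi_int_mono a1₀ hki)
  -- the labelling in the direction of the rim
  obtain ⟨g, X, hL, hp, hm, hv⟩ : ∃ (g : T.Gate s) (X : Finset V), g.c.Left = g₀.c.Left ∧ PvdiPass T g.c.Left X c k lo hi ∧ g.vm = T.src (c.e lo) ∧ g.vp = T.src (c.e hi) := by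
    have hne' := hp₀.ne
    have hlo := hp₀.lo_X
    have hhi := hp₀.hi_X
    simp only [Finset.mem_insert, Finset.mem_singleton] at hlo hhi
    rcases hlo with hlo | hlo
    · rcases hhi with hhi | hhi
      · exact absurd (hlo.trans hhi.symm) hne'
      · exact ⟨g₀, _, rfl, hp₀, hlo.symm, hhi.symm⟩
    · rcases hhi with hhi | hhi
      · obtain ⟨g', e1, -, -, e4, e5⟩ := pvgn_gate_swap hT g₀
        exact ⟨g', _, e1, e1 ▸ hp₀, e4.trans hlo.symm, e5.trans hhi.symm⟩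
      · exact absurd (hlo.trans hhi.symm) hne'
  have a1 : pvwI T pos z (a * h) ⊆ g.c.Left := hL ▸ a1₀
  have a2 : g.c.Left ⊆ pvwO T pos z (b * h) := hL ▸ a2₀
  have hfin : g.c.Left.Finite := hF.fin.subset a2
  obtain ⟨hthru, hle⟩ := pvgz_pass_rim_le hT hS g hfin hrim (hb 0) (pvgz_pass_of_di hT g hp hm hv)
  have l1 := hp.lo_pos
  have l2 := hp.lo_lt
  have l3 := hp.lt_hi
  have l4 := hp.hi_lt
  have hn : (c.pth lo (hi - lo)).n = hi - lo := by
    show min (hi - lo) (c.n - 1) = hi - lo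
    omega
  obtain ⟨m1, m2, m3⟩ := pvgb_frame_metric hT g.c a1 a2
  obtain ⟨ip, i1, i2, i3, i4⟩ := pvgb_st hT g hfin hthru hle hdisc m1 m2 m3 ⟨k - lo, by rw [hn]; omega, by
    show ‖pos (T.src (c.e (lo + (k - lo)))) - z‖ ≤ h
    rw [show lo + (k - lo) = k by omega]
    exact hkz⟩
  have hipk : lo + ip ≤ k := by
    by_contra hcon
    have := i3 (k - lo) (by omega)
    have e : ‖pos ((c.pth lo (hi - lo)).v (k - lo)) - z‖ ≤ h := by
      show ‖pos (T.src (c.e (lo + (k - lo)))) - z‖ ≤ h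
      rw [show lo + (k - lo) = k by omega]
      exact hkz
    linarith
  refine ⟨g, lo, hi, ip, l1, l2, l3, l4, hL.trans hL₀, hm, hv, hthru, hn, hipk, hp.mid, hp.before, hp.after, ?_⟩
  intro τ np ep nm em ea eb ho
  refine ⟨i4 τ np ep nm em ea eb ho, ?_⟩
  subst ea eb
  exact pvgb_st_inmost hF (hL.trans hL₀)

end st

end Claimed.Agent.R289
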