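-- KEEP
import Claimed.Agent.R289.Tr.LocalX
import Claimed.Agent.R289.Arm.Transfer
import Claimed.Agent.R289.Arm.SixRuns
import Claimed.Agent.R289.Arm.GateSp

/-!
# Row 289 (S0537), THE WALL, THE SEAM completion <-> plane, file Tr/SeamK : THE TRANSFER KITS ARE ONE KIT      (helper45, head of the seam, post of 82 11:05Z; prefix `pvsea_`, `pvsea`, `Pvsea`)

INDEX of everything which is carried across the seam: `origin/helper45:notes/R289/SEAM.md`.
Four relational kits live on main:  `PlIso` + `PvLoc` / `PvLocP` (22, `Tr/Local`, `Tr/LocalW`: paths, cycles, `Left`, strands, gates, rule, states, data, `NB`),  `PlIsoV` (97, `Arm/Transfer`: `ArmxFS ArmxCyc ArmxCol`),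
`PvdqIso` (33, `Arm/Dict`; 13 `Arm/GateTr`: chords, `Γ(χ_e)`, selection, (DI), L8),  `PvplIso` (238; `PvplIso.toIsoV` of `Tr/DenseS`).      A lemma proved over one kit is usable over the others:
* sec. 1  `PvLoc.toIsoV`, `PlIsoV.toLoc`;   twin cycles `PvLocCyc ⟷ ArmxCyc ⟷ PvdqCyc`;   colours
* sec. 2  **`PvdqIso.toLoc`** : `PvLoc T T' (pvseaR G r)` (`r` cut down to the shared face set), `pvsea_dom`, `pvsea_ran`, `pvsea_v_iff`
* sec. 3  **`PvLoc.toDq`** : `PvdqIso T T' (plDom R) (plRan R) (pvseaX T T' R) (pvlocV T T' R)` (`R` extended to the opposite darts)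
* sec. 4  AT THE MODEL: **`PvseaB`** = ONE record with all that an encoded rim `P ∈ pvhbAll x R ω` is (completion `Ok`, sphere, simple, rim, CUT VERTEX at distance `≥ 4R`, `PvlxB` of 22, colours for both colours of the rim) and **`pvsea_all`**;
          the SAME relation `Rl` in the three kits: `PvseaB.loc`, `.isoV`, `.dq`;   `PvseaB.afRim` (`PvafRim` of 13 through `pvsr_rim` of 275);   positions `PvseaB.v_eq`
-/

set_option autoImplicit false

namespace Claimed.Agent.R289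

open Set Claims.C0465

/-! ## 1. `PvLoc` = `PlIsoV` -/

section one

variable {V D V' D' : Type} {T : PvMap V D} {T' : PvMap V' D'} {R : D → D' → Prop}

theorem PvLoc.toIsoV (L : PvLoc T T' R) : PlIsoV T T' R := { L.iso with vfn := L.vfn, vinj := L.vinj }

theorem PlIsoV.toLoc (L : PlIsoV T T' R) : PvLoc T T' R := ⟨L.toPlIso, L.vfn, L.vinj⟩

theorem pvsea_V_iff {v : V} {v' : V'} : armxV T T' R v v' ↔ pvlocV T T' R v v' := Iff.rfl

theorem PvLocCyc.toArmx {c : T.Cyc} {c' : T'.Cyc} (P : PvLocCyc R c c') : ArmxCyc R c c' := ⟨P.n_eq.symm, P.e_rel⟩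

theorem pvsea_cyc_of_armx {c : T.Cyc} {c' : T'.Cyc} (P : ArmxCyc R c c') : PvLocCyc R c c' := ⟨P.1.symm, P.2⟩

theorem PvLocCyc.toDq {c : T.Cyc} {c' : T'.Cyc} (P : PvLocCyc R c c') : PvdqCyc R c c' := ⟨P.n_eq, P.e_rel⟩

theorem pvsea_cyc_of_dq {c : T.Cyc} {c' : T'.Cyc} (P : PvdqCyc R c c') : PvLocCyc R c c' := ⟨P.1, P.2⟩

/-- the colour hypothesis of 97 is the colour hypothesis of 22, verbatim -/
theorem pvsea_col_iff {s : V → Bool} {s' : V' → Bool} : ArmxCol T T' R s s' ↔ ∀ d d', R d d' → s (T.src d) = s' (T'.src d') := Iff.rfl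

/-- the colour hypothesis of 33 (on related vertices) from that of 22 (on related darts) -/
theorem pvsea_col_v {s : V → Bool} {s' : V' → Bool} (h : ∀ d d', R d d' → s (T.src d) = s' (T'.src d')) : ∀ v w, pvlocV T T' R v w → s v = s' w := by
  rintro v w ⟨d, d', hr, rfl, rfl⟩
  exact h d d' hr

end one

/-! ## 2. `PvdqIso ⟹ PvLoc` -/

/-- the relation of a `PvdqIso` cut down to the shared face set -/
def pvseaR {D D' : Type} (G : Set D) (r : D → D' → Prop) (d : D) (e : D') : Prop := d ∈ G ∧ r d e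

/-- the relation of a `PvLoc` extended to the opposite darts -/
def pvseaX {V D V' D' : Type} (T : PvMap V D) (T' : PvMap V' D') (R : D → D' → Prop) (d : D) (e : D') : Prop := R d e ∨ R (T.opp d) (T'.opp e)

theorem pvsea_eqns_cite : True := by
  have := @pvseaR.eq_1; have := @pvseaX.eq_1
  trivial

section two

variable {V D V' D' : Type} {T : PvMap V D} {T' : PvMap V' D'} {G : Set D} {G' : Set D'} {r : D → D' → Prop} {rv : V → V' → Prop}

/-- **a `PvdqIso` of 33 is a `PvLoc` of 22** on its shared face set -/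
theorem PvdqIso.toLoc (I : PvdqIso T T' G G' r rv) : PvLoc T T' (pvseaR G r) where
  iso :=
    { fn := fun h1 h2 => I.fn h1.2 h2.2
      inj := fun h1 h2 => I.inj h1.2 h2.2
      nxt := fun h => ⟨(I.fs _).2 h.1, I.nxt h.2 h.1⟩
      opp := fun h1 h2 => I.fn h2.2 (I.opp h1.2)
      opp' := fun h1 h2 => I.inj h2.2 (I.opp h1.2) }
  vfn := fun h1 h2 e => I.vfn (e ▸ I.src h1.2) (I.src h2.2)
  vinj := fun h1 h2 e => I.vinj (e ▸ I.src h1.2) (I.src h2.2)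

theorem pvsea_dom (I : PvdqIso T T' G G' r rv) : plDom (pvseaR G r) = G := by
  ext d
  exact ⟨fun ⟨_, h⟩ => h.1, fun h => (I.tot h).imp fun _ he => ⟨h, he⟩⟩

theorem pvsea_ran (I : PvdqIso T T' G G' r rv) : plRan (pvseaR G r) = G' := by
  ext e
  exact ⟨fun ⟨_, h⟩ => (I.mem h.2).1 h.1, fun h => (I.tot' h).imp fun _ hd => ⟨(I.mem hd).2 h, hd⟩⟩

/-- related vertices of the `PvLoc` are related vertices of the `PvdqIso` -/
theorem pvsea_v_of (I : PvdqIso T T' G G' r rv) {v : V} {w : V'} (h : pvlocV T T' (pvseaR G r) v w) : rv v w := by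
  obtain ⟨d, e, hr, rfl, rfl⟩ := h
  exact I.src hr.2

/-- the colour hypothesis of 22 from that of 33 -/
theorem pvsea_col_d (I : PvdqIso T T' G G' r rv) {s : V → Bool} {s' : V' → Bool} (hc : ∀ v w, rv v w → s v = s' w) : ∀ d e, pvseaR G r d e → s (T.src d) = s' (T'.src e) :=
  fun _ _ h => hc _ _ (I.src h.2)

/-- twin cycles inside the shared face set -/
theorem pvsea_cyc_R {c : T.Cyc} {c' : T'.Cyc} (h : PvdqCyc r c c') (hG : ∀ i, c.e i ∈ G) : PvLocCyc (pvseaR G r) c c' := ⟨h.1, fun k => ⟨hG k, h.2 k⟩⟩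

end two

/-! ## 3. `PvLoc ⟹ PvdqIso` -/

section three

variable {V D V' D' : Type} {T : PvMap V D} {T' : PvMap V' D'} {R : D → D' → Prop}

theorem pvsea_X_fn (L : PvLoc T T' R) {d : D} {e e' : D'} (h1 : pvseaX T T' R d e) (h2 : pvseaX T T' R d e') : e = e' := by
  rcases h1 with h1 | h1 <;> rcases h2 with h2 | h2
  · exact L.iso.fn h1 h2
  · have := L.iso.opp h1 h2
    rw [← T'.opp_opp e', this, T'.opp_opp]
  · have := L.iso.opp h2 h1
    rw [← T'.opp_opp e, this, T'.opp_opp]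
  · have := L.iso.fn h1 h2
    rw [← T'.opp_opp e, this, T'.opp_opp]

theorem pvsea_X_symm {d : D} {e : D'} (h : pvseaX T T' R d e) : pvseaX T' T (fun d' d => R d d') e d := h

theorem pvsea_X_inj (L : PvLoc T T' R) {d d' : D} {e : D'} (h1 : pvseaX T T' R d e) (h2 : pvseaX T T' R d' e) : d = d' :=
  pvsea_X_fn L.symm (pvsea_X_symm h1) (pvsea_X_symm h2)

theorem pvsea_face_dom (L : PvLoc T T' R) : T.FaceSet (plDom R) := fun d =>
  ⟨fun ⟨e, h⟩ => ⟨_, by have := L.iso.nxt (L.iso.nxt h); rwa [T.nxt3] at this⟩, fun ⟨e, h⟩ => ⟨_, L.iso.nxt h⟩⟩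

theorem pvsea_face_ran (L : PvLoc T T' R) : T'.FaceSet (plRan R) := pvsea_face_dom L.symm

/-- on the shared face set the extended relation is the relation -/
theorem pvsea_X_dom (L : PvLoc T T' R) {d : D} {e : D'} (h : pvseaX T T' R d e) (hd : d ∈ plDom R) : R d e := by
  obtain ⟨e0, h0⟩ := hd
  rwa [pvsea_X_fn L h (Or.inl h0)]

theorem pvsea_X_ran (L : PvLoc T T' R) {d : D} {e : D'} (h : pvseaX T T' R d e) (he : e ∈ plRan R) : R d e := by
  obtain ⟨d0, h0⟩ := he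
  rwa [pvsea_X_inj L h (Or.inl h0)]

/-- **a `PvLoc` of 22 is a `PvdqIso` of 33** (relation extended to the opposite darts) -/
theorem PvLoc.toDq (L : PvLoc T T' R) : PvdqIso T T' (plDom R) (plRan R) (pvseaX T T' R) (pvlocV T T' R) where
  fn := fun h1 h2 => pvsea_X_fn L h1 h2
  inj := fun h1 h2 => pvsea_X_inj L h1 h2
  vfn := fun h1 h2 => pvloc_v_fn L h1 h2
  vinj := fun h1 h2 => pvloc_v_inj L h1 h2
  src := fun {d e} h => by
    rcases h with h | h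
    · exact ⟨d, e, h, rfl, rfl⟩
    · exact ⟨_, _, L.iso.nxt h, by rw [← T.src_opp, T.opp_opp], by rw [← T'.src_opp, T'.opp_opp]⟩
  opp := fun {d e} h => by
    rcases h with h | h
    · exact Or.inr (by rwa [T.opp_opp, T'.opp_opp])
    · exact Or.inl h
  nxt := fun h hd => Or.inl (L.iso.nxt (pvsea_X_dom L h hd))
  mem := fun h => ⟨fun hd => ⟨_, pvsea_X_dom L h hd⟩, fun he => ⟨_, pvsea_X_ran L h he⟩⟩
  tot := fun ⟨e, h⟩ => ⟨e, Or.inl h⟩
  tot' := fun ⟨d, h⟩ => ⟨d, Or.inl h⟩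
  fs := pvsea_face_dom L
  fs' := pvsea_face_ran L

/-- twin cycles -/
theorem PvLocCyc.toDqX {c : T.Cyc} {c' : T'.Cyc} (P : PvLocCyc R c c') : PvdqCyc (pvseaX T T' R) c c' := ⟨P.n_eq, fun i => Or.inl (P.e_rel i)⟩

/-- corresponding face sets: the form of 97 gives the form of 33 -/
theorem pvsea_cor_of_fs (L : PvLoc T T' R) {B : Set D} {B' : Set D'} (h : ArmxFS R B B') : PvdqCor (pvseaX T T' R) B B' := fun d e hr =>
  ⟨fun hd => (h.2.2 d e (pvsea_X_dom L hr (h.1 hd))).1 hd, fun he => (h.2.2 d e (pvsea_X_ran L hr (h.2.1 he))).2 he⟩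

end three

/-! ## 4. at the model: ONE explicit relation for all the kits -/

section model

variable {X : Type} (𝔅 : PvBulk X) (Y K : Set ℂ)

/-- **THE RELATION OF RECORD** completion → total plane: the dart `d` of the completion and the plane dart `e` have the same end points, the face of `e` has a vertex in `K`.
`= pvlocR` of 22 (after `delb_pl_eq`) `=` the relation `pvagyR` of 13 cut down to `pvagyG`, read from the completion -/
def pvseaRl (d : 𝔅.D Y) (e : (delbPl Y).Dart) : Prop := pvseaR (pvagyG Y K) (pvagyR 𝔅 Y) e d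

theorem pvsea_eqns_cite2 : True := by
  have := @pvseaRl.eq_1
  trivial

variable {𝔅 Y K}

theorem pvsea_Rl_iff {d : 𝔅.D Y} {e : (delbPl Y).Dart} : pvseaRl 𝔅 Y K d e ↔ e ∈ pvagyG Y K ∧ pvagyR 𝔅 Y e d := Iff.rfl

/-- **the record of 22 at the explicit relation** -/
theorem pvsea_lxB (h : DelGood Y) (hOk : 𝔅.Ok Y K) {zi : ℂ} (hzi : zi ∉ K) : PvlxB 𝔅 Y K zi (delbPl Y) (pvseaRl 𝔅 Y K) := by
  have key : ∀ Pl : PlTri ↥Y, Pl = delPl h → PvlxB 𝔅 Y K zi Pl (fun d e =>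
      e ∈ {e | ((Pl.toMap.src e : ↥Y) : ℂ) ∈ K ∨ ((Pl.toMap.tgt e : ↥Y) : ℂ) ∈ K ∨ ((Pl.toMap.apex e : ↥Y) : ℂ) ∈ K} ∧
        (𝔅.lab Y ((𝔅.T Y).src d) = Sum.inl ((Pl.toMap.src e : ↥Y) : ℂ) ∧ 𝔅.lab Y ((𝔅.T Y).tgt d) = Sum.inl ((Pl.toMap.tgt e : ↥Y) : ℂ))) := by
    rintro _ rfl
    have e : (fun (d : 𝔅.D Y) (e : (delPl h).Dart) =>
        e ∈ {e | (((delPl h).toMap.src e : ↥Y) : ℂ) ∈ K ∨ (((delPl h).toMap.tgt e : ↥Y) : ℂ) ∈ K ∨ (((delPl h).toMap.apex e : ↥Y) : ℂ) ∈ K} ∧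
          (𝔅.lab Y ((𝔅.T Y).src d) = Sum.inl (((delPl h).toMap.src e : ↥Y) : ℂ) ∧ 𝔅.lab Y ((𝔅.T Y).tgt d) = Sum.inl (((delPl h).toMap.tgt e : ↥Y) : ℂ))) = pvlocR 𝔅 h K := by
      funext d e
      exact propext ⟨fun hh => ⟨hh.2, hh.1⟩, fun hh => ⟨hh.2, hh.1⟩⟩
    rw [e]
    refine ⟨pvlw_bulk h hOk hzi, fun s σ hs => pvloc_bulk_col hs, fun c k e hr hK => ?_⟩
    have hemb : 𝔅.Emb _ ((𝔅.T _).opp (c.e k)) := delb_emb_opp_of_src hOk hr.1.1 hK
    have hr' := delb_rel_opp hr.1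
    refine ⟨?_, ?_, ?_⟩
    · unfold PvBulk.enc
      simp only
      rw [if_pos hemb]
      exact delb_rel_bary hOk hr' hemb
    · unfold PvBulk.enc
      simp only
      rw [if_pos hemb]
      exact delb_rel_qpart hOk hr' hemb
    · unfold PvBulk.enc
      simp only
      rw [if_pos hemb]
      exact delb_rel_side hr'
  exact key _ (delb_pl_eq h)

/-- a related pair of 22 is a related pair of 13 -/
theorem pvsea_Rl_agy {d : 𝔅.D Y} {e : (delbPl Y).Dart} (h : pvseaRl 𝔅 Y K d e) : pvagyR 𝔅 Y e d := h.2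

/-- a related pair of 13 whose plane face has a vertex in `K` is a related pair of 22 -/
theorem pvsea_Rl_of_agy {d : 𝔅.D Y} {e : (delbPl Y).Dart} (h : pvagyR 𝔅 Y e d) (he : e ∈ pvagyG Y K) : pvseaRl 𝔅 Y K d e := ⟨he, h⟩

theorem pvsea_Rl_dom (h : DelGood Y) (hOk : 𝔅.Ok Y K) : plDom (pvseaRl 𝔅 Y K) = pvagyG' 𝔅 Y K := pvsea_ran (pvagy_model h hOk)

theorem pvsea_Rl_ran (h : DelGood Y) (hOk : 𝔅.Ok Y K) : plRan (pvseaRl 𝔅 Y K) = pvagyG Y K := pvsea_dom (pvagy_model h hOk)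

end model

section all

variable {x : ℂ} {R : ℝ} {ω : PVSample}

/-- **ALL THAT AN ENCODED RIM OF `pvhbAll x R ω` IS**: `c` = the rim in the completion `𝔅`, coins `ξ` -/
structure PvseaB {X : Type} (𝔅 : PvBulk X) (ξ : X → Bool) (x : ℂ) (R : ℝ) (ω : PVSample) (c : (𝔅.T (pvxY ω)).Cyc) : Prop where
  fin : Finite (𝔅.V (pvxY ω)) ∧ Finite (𝔅.D (pvxY ω))
  ok : 𝔅.Ok (pvxY ω) (Metric.closedBall x (6 * R))
  rim : c.IsRim (𝔅.col (pvConf ω) ξ)
  /-- the cut vertex is far -/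
  cut : 4 * R ≤ ‖𝔅.posF (pvxY ω) (x + 7 * R) ((𝔅.T (pvxY ω)).src (c.e 0)) - x‖
  lx : PvlxB 𝔅 (pvxY ω) (Metric.closedBall x (6 * R)) (x + 7 * R) (delbPl (pvxY ω)) (pvseaRl 𝔅 (pvxY ω) (Metric.closedBall x (6 * R)))

/-- **THE UNPACKER** -/
theorem pvsea_all (hR : 0 < R) (hG : DelGood (pvxY ω)) {P : PvbRim} (hP : P ∈ pvhbAll x R ω) :
    ∃ (X : Type) (𝔅 : PvBulk X) (ξ : X → Bool) (c : (𝔅.T (pvxY ω)).Cyc), PvseaB 𝔅 ξ x R ω c ∧ P = 𝔅.enc (pvxY ω) (x + 7 * R) c := by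
  obtain ⟨X, -, 𝔅, ξ, hA, hOk, c, hc, h4, rfl⟩ := hP
  exact ⟨X, 𝔅, ξ, c, ⟨hA, hOk, hc, h4, pvsea_lxB hG hOk (pvlx_zi hR)⟩, rfl⟩

namespace PvseaB

variable {X : Type} {𝔅 : PvBulk X} {ξ : X → Bool} {c : (𝔅.T (pvxY ω)).Cyc}

/-- kit of 22, positions -/
theorem loc (B : PvseaB 𝔅 ξ x R ω c) : PvLocP (𝔅.T (pvxY ω)) (pvxT ω) (pvseaRl 𝔅 (pvxY ω) (Metric.closedBall x (6 * R))) (𝔅.posF (pvxY ω) (x + 7 * R)) (pvxPos ω) (Metric.closedBall x (6 * R)) := B.lx.loc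

/-- kit of 97 -/
theorem isoV (B : PvseaB 𝔅 ξ x R ω c) : PlIsoV (𝔅.T (pvxY ω)) (pvxT ω) (pvseaRl 𝔅 (pvxY ω) (Metric.closedBall x (6 * R))) := B.lx.loc.loc.toIsoV

/-- kit of 33 / 13 (plane → completion, the iso of record of `Arm/GateSp`) -/
theorem dq (B : PvseaB 𝔅 ξ x R ω c) (hG : DelGood (pvxY ω)) :
    PvdqIso (pvxT ω) (𝔅.T (pvxY ω)) (pvagyG (pvxY ω) (Metric.closedBall x (6 * R))) (pvagyG' 𝔅 (pvxY ω) (Metric.closedBall x (6 * R))) (pvagyR 𝔅 (pvxY ω)) (pvagyRv 𝔅 (pvxY ω)) := pvagy_model hG B.ok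

/-- colours, the form of 22 (`true` = the colour `b`) -/
theorem col (B : PvseaB 𝔅 ξ x R ω c) (b : Bool) : ∀ d d', pvseaRl 𝔅 (pvxY ω) (Metric.closedBall x (6 * R)) d d' →
    pvlfFl b (𝔅.col (pvConf ω) ξ) ((𝔅.T (pvxY ω)).src d) = pvxCol ω b ((pvxT ω).src d') := fun d d' hd => by
  unfold pvlfFl pvxCol
  rw [B.lx.col _ _ (delb_col 𝔅 (pvConf ω) ξ) d d' hd]
  rfl

/-- the rim for the chords of 13 -/
theorem afRim [DecidableEq (𝔅.V (pvxY ω))] (B : PvseaB 𝔅 ξ x R ω c) : PvafRim (𝔅.T (pvxY ω)) (fun v => 𝔅.col (pvConf ω) ξ v == 𝔅.col (pvConf ω) ξ ((𝔅.T (pvxY ω)).src (c.e 0))) c := pvsr_rim B.rim rfl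

/-- the vertices of the encoded rim -/
theorem v_eq (_B : PvseaB 𝔅 ξ x R ω c) (k : ℕ) : (𝔅.enc (pvxY ω) (x + 7 * R) c).v k = 𝔅.posF (pvxY ω) (x + 7 * R) ((𝔅.T (pvxY ω)).src (c.e k)) := rfl

theorem len_eq (_B : PvseaB 𝔅 ξ x R ω c) : (𝔅.enc (pvxY ω) (x + 7 * R) c).len = c.n := rfl

/-- a dart of the rim whose source lies in the patch has a plane twin -/
theorem twin (B : PvseaB 𝔅 ξ x R ω c) {k : ℕ} (hk : ‖(𝔅.enc (pvxY ω) (x + 7 * R) c).v k - x‖ ≤ 6 * R) :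
    ∃ e, pvseaRl 𝔅 (pvxY ω) (Metric.closedBall x (6 * R)) (c.e k) e ∧ pvxPos ω ((pvxT ω).src e) = (𝔅.enc (pvxY ω) (x + 7 * R) c).v k := by
  obtain ⟨e, he⟩ := pvlw_dart_src B.loc (d := c.e k) (mem_closedBall_iff_norm.2 hk)
  exact ⟨e, he, (B.loc.pos_eq _ _ he).symm⟩

end PvseaB

end all

end Claimed.Agent.R289
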