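import Claimed.Agent.R289.Tr.GoodLev
import Claimed.Agent.R289.Tr.LocalW
import Claimed.Agent.R289.Tr.LocalF
import Claimed.Agent.R289.Tr.GateBs
import Claimed.Agent.R289.Tr.GateFs
import Claimed.Agent.R289.Tr.SeamK

/-!
# Row 289 (S0537, Cardy for Poisson-Voronoi), THE WALL, road E, file Tr/GoodRimE : E15 ON A COMPLETION, RIM HALF      (owner helper83, post Z2 of 82; prefix `pvku_`, `pvku`)

0 sorry.      WHAT IT GIVES: for the rim `c` of a completion `T = 𝔅.T Y` which passes within `h` of `z`, and a gate of A6 of the PLANE of the sample,   gate data `𝔊` ON THE COMPLETION with `PvwSt.Gate` + `PvwSt.Inmost` (`Tr/Defs` v3, the fixed rule)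
and the record `PvzcRim 𝔊 pos s BK c j` of 112 (`Tr/GoodLev`): rim, black, finite wall, run (the inner arc IS `c.pth j n`), leave.      These are the inputs of `pvzw_e15`, `pvzw_e15_net` (112), `pvn7_e15_bulk` (17), and `hg₂` of `pvpn_main` (66).
ROUTE (second rope for `pvqg_gate` of 190, who finds the gate on the plane): everything is done ON THE COMPLETION, where the rim is a `T.Cyc` with `IsRim`, by `pvgb_pin_gate` of helper3 (`Tr/GateBs`).  Its two inputs which were missing on a completion: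

* sec. 1, 2  THE FRAME.   `pvku_one_wall`, `pvku_mono_of_wall` : on a sphere, both colour classes are connected  ⟺  all the occupied darts lie on ONE wall.      The wall of the colouring "placed in `C`", `C ⊆ Kr`, lies in the shared part, so:
             **`pvku_conn`** : connectivity of `{pos ∈ C}` and of `{pos ∉ C}` is carried from `T'` to `T` (NO hypothesis on the part of `T` which is not shared);   **`pvku_frame`** : `PvgnFr T (pvwI T pos z ra) (pvwO T pos z rb) o`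
* sec. 3     THE FACE-SET GATE.   `pvku_im_weak`, `pvku_inner`, `pvku_outer`, `pvku_ann`, `pvku_mesh`, `pvku_walk`;   **`pvku_G`** : `PvgGate` of `T'` (A6) + black rim of `T` without near return ⟹ `PvgnG T s I O (image)`
* sec. 4     **`pvku_gate`** (model free): `PvLocP T T' R pos pos' Kr`, `B(z, b h) ⊆ Kr`  ⟹  `𝔊`, bit `o`, place `j` with `Gate`, `Inmost`, `PvzcRim`, the places of the rim inside / outside the gate
* sec. 5     **`pvku_model`** : the same for `PvseaB 𝔅 ξ x R ω c` of 45 (`Tr/SeamK`; `pvsea_all` unpacks `P ∈ pvhbAll x R ω`), hypotheses of `pvqg_gate` with weaker numbers;   `pvku_mesh_plane`, `pvku_black`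
-/

set_option autoImplicit false

namespace Claimed.Agent.R289

open Relation Set Claims.C0465

/-! ## 1. one wall -/

section wall

variable {V D : Type} {T : PvMap V D}

theorem pvku_bool3 {a b c d : Bool} (h0 : a ≠ b) (h1 : c ≠ d) (h : c = a) : d = b := by
  revert a b c d; decide

theorem pvku_bool4 {a b c d : Bool} (h0 : a ≠ b) (h1 : c ≠ d) (h : c ≠ a) : c = b ∧ d = a := by
  revert a b c d; decide

/-- **ONE WALL**: if each of the two colour classes is connected, all the occupied darts lie on one wall -/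
theorem pvku_one_wall (hT : T.IsSph) {σ : V → Bool} (hc : ∀ u v, σ u = σ v → T.Mono σ u v) {d₀ d : D} (h0 : T.Occ σ d₀) (hd : T.Occ σ d) : T.Wall σ d₀ d := by
  obtain ⟨τ, hτ⟩ := pl_w_pot hT σ d₀
  have h1 : τ (T.src d₀) ≠ τ (T.tgt d₀) := (hτ d₀).2 ⟨h0, pl_w_refl σ d₀⟩
  have key : ∀ u v, σ u = σ v → τ u = τ v := fun u v h => pl_w_mono_side hτ (hc u v h)
  refine ((hτ d).1 ?_).2
  show τ (T.src d) ≠ τ (T.tgt d)
  by_cases hs : σ (T.src d) = σ (T.src d₀)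
  · rw [key _ _ hs, key _ _ (pvku_bool3 h0 hd hs)]
    exact h1
  · obtain ⟨e1, e2⟩ := pvku_bool4 h0 hd hs
    rw [key _ _ e1, key _ _ e2]
    exact h1.symm

/-- conversely: all the occupied darts on one wall ⟹ each colour class is connected -/
theorem pvku_mono_of_wall (hT : T.IsSph) {σ : V → Bool} (o : D) (hw : ∀ d₀ d, T.Occ σ d₀ → T.Occ σ d → T.Wall σ d₀ d) {u v : V} (huv : σ u = σ v) : T.Mono σ u v := by
  by_cases hex : ∃ d₀, T.Occ σ d₀
  · obtain ⟨d₀, h0⟩ := hex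
    exact pl_w_two_sides hT (s := σ) (τ := σ) (d₀ := d₀) (fun d => ⟨fun h => ⟨h, hw d₀ d h0 h⟩, fun h => h.1⟩) huv
  · exact pl_w_two_sides hT (s := σ) (τ := σ) (d₀ := o) (fun d => ⟨fun h => absurd ⟨d, h⟩ hex, fun h => h.1⟩) huv

/-- a face of the wall of an occupied dart has an occupied dart -/
theorem pvku_wall_occ {σ : V → Bool} {d₀ e : D} (h0 : T.Occ σ d₀) (h : T.Wall σ d₀ e) : ∃ b, T.SF e b ∧ T.Occ σ b := by
  have h' : ReflTransGen (fun a b => T.SF a b ∨ (T.Occ σ a ∧ b = T.opp a)) d₀ e := h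
  induction h' with
  | refl => exact ⟨d₀, T.sf_refl _, h0⟩
  | @tail a b hab hstep ih =>
    rcases hstep with hsf | ⟨ho, rfl⟩
    · obtain ⟨x, h1, h2⟩ := ih hab
      exact ⟨x, T.sf_trans (T.sf_symm hsf) h1, h2⟩
    · exact ⟨T.opp a, T.sf_refl _, (pl_w_occ_opp σ a).2 ho⟩

open Classical in
/-- the colouring `true` = placed in `C` -/
noncomputable def pvkuIn (pos : V → ℂ) (C : Set ℂ) : V → Bool := fun v => decide (pos v ∈ C)

theorem pvku_rimE_eqns_cite : True := by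
  have := @pvkuIn.eq_1
  trivial

theorem pvku_in_true {pos : V → ℂ} {C : Set ℂ} {v : V} : pvkuIn pos C v = true ↔ pos v ∈ C := by
  classical
  unfold pvkuIn; exact decide_eq_true_iff

theorem pvku_in_false {pos : V → ℂ} {C : Set ℂ} {v : V} : pvkuIn pos C v = false ↔ pos v ∉ C := by
  classical
  unfold pvkuIn; exact decide_eq_false_iff_not

/-- chains inside / outside `C` are monochromatic chains -/
theorem pvku_mono_of_chain {pos : V → ℂ} {C : Set ℂ} {b : Bool} {u v : V} (hu : pvkuIn pos C u = b) (h : ReflTransGen (fun x y => T.Adj x y ∧ pvkuIn pos C y = b) u v) : T.Mono (pvkuIn pos C) u v := by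
  have key : pvkuIn pos C v = b ∧ T.Mono (pvkuIn pos C) u v := by
    induction h with
    | refl => exact ⟨hu, ReflTransGen.refl⟩
    | @tail x y _ hxy ih => exact ⟨hxy.2, ih.2.tail ⟨hxy.1, ih.1.trans hxy.2.symm⟩⟩
  exact key.2

theorem pvku_chain_of_mono {pos : V → ℂ} {C : Set ℂ} {b : Bool} {u v : V} (hu : pvkuIn pos C u = b) (h : T.Mono (pvkuIn pos C) u v) : ReflTransGen (fun x y => T.Adj x y ∧ pvkuIn pos C y = b) u v := by
  have h' : ReflTransGen (fun x y => T.Adj x y ∧ pvkuIn pos C x = pvkuIn pos C y) u v := h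
  clear h
  have key : pvkuIn pos C v = b ∧ ReflTransGen (fun x y => T.Adj x y ∧ pvkuIn pos C y = b) u v := by
    induction h' with
    | refl => exact ⟨hu, ReflTransGen.refl⟩
    | @tail x y _ hxy ih => exact ⟨hxy.2.symm.trans ih.1, ih.2.tail ⟨hxy.1, hxy.2.symm.trans ih.1⟩⟩
  exact key.2

end wall

/-! ## 2. the two classes "placed in `C`", "not placed in `C`" are connected on BOTH surfaces -/

section transfer

variable {V D V' D' : Type} {T : PvMap V D} {T' : PvMap V' D'} {R : D → D' → Prop} {pos : V → ℂ} {pos' : V' → ℂ} {Kr : Set ℂ}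

theorem pvku_in_rel (L : PvLocP T T' R pos pos' Kr) (C : Set ℂ) : ∀ d d', R d d' → pvkuIn pos C (T.src d) = pvkuIn pos' C (T'.src d') := by
  intro d d' h
  unfold pvkuIn
  rw [L.pos_eq d d' h]

/-- an occupied dart of the colouring "placed in `C`", `C ⊆ Kr`, is shared -/
theorem pvku_occ_dom (L : PvLocP T T' R pos pos' Kr) {C : Set ℂ} (hC : C ⊆ Kr) {b : D} (hb : T.Occ (pvkuIn pos C) b) : b ∈ plDom R := by
  by_cases h1 : pos (T.src b) ∈ C
  · exact pvlw_dart_src L (hC h1)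
  · have h2 : pos (T.tgt b) ∈ C := by
      by_contra h2
      exact hb ((pvku_in_false.2 h1).trans (pvku_in_false.2 h2).symm)
    exact pvlw_dart_tgt L (hC h2)

theorem pvku_wall_dom (L : PvLocP T T' R pos pos' Kr) {C : Set ℂ} (hC : C ⊆ Kr) {d₀ e : D} (h0 : T.Occ (pvkuIn pos C) d₀) (h : T.Wall (pvkuIn pos C) d₀ e) : e ∈ plDom R := by
  obtain ⟨b, h1, h2⟩ := pvku_wall_occ h0 h
  exact (PvMap.FaceSet.sf T L.loc.iso.dom_face h1).1 (pvku_occ_dom L hC h2)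

/-- the wall of the boundary of `C` is ONE wall on the surface `T` as soon as both classes are connected on `T'` -/
theorem pvku_all_wall (L : PvLocP T T' R pos pos' Kr) (hT' : T'.IsSph) {C : Set ℂ} (hC : C ⊆ Kr) (hc' : ∀ u v, pvkuIn pos' C u = pvkuIn pos' C v → T'.Mono (pvkuIn pos' C) u v)
    {d₀ d : D} (h0 : T.Occ (pvkuIn pos C) d₀) (hd : T.Occ (pvkuIn pos C) d) : T.Wall (pvkuIn pos C) d₀ d := by
  obtain ⟨d₀', r0⟩ := pvku_occ_dom L hC h0
  obtain ⟨d', r1⟩ := pvku_occ_dom L hC hd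
  have hs := pvku_in_rel L C
  exact (pl_ex_wall L.loc.iso hs r0 r1 (fun e he => pvku_wall_dom L hC h0 he)).2 (pvku_one_wall hT' hc' ((pl_ex_occ L.loc.iso hs r0).1 h0) ((pl_ex_occ L.loc.iso hs r1).1 hd))

/-- **CONNECTIVITY IS CARRIED OVER** (no hypothesis on the part of `T` which is not shared): `C ⊆ Kr`; on `T'` the vertices placed in `C` are connected and the vertices not placed in `C` are connected.      Then the same holds on `T`. -/
theorem pvku_conn (L : PvLocP T T' R pos pos' Kr) (hT : T.IsSph) (hT' : T'.IsSph) (o : D) {C : Set ℂ} (hC : C ⊆ Kr)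
    (h1 : ∀ u v, pos' u ∈ C → pos' v ∈ C → ReflTransGen (fun x y => T'.Adj x y ∧ pos' y ∈ C) u v)
    (h2 : ∀ u v, pos' u ∉ C → pos' v ∉ C → ReflTransGen (fun x y => T'.Adj x y ∧ pos' y ∉ C) u v) :
    (∀ u v, pos u ∈ C → pos v ∈ C → ReflTransGen (fun x y => T.Adj x y ∧ pos y ∈ C) u v) ∧
      ∀ u v, pos u ∉ C → pos v ∉ C → ReflTransGen (fun x y => T.Adj x y ∧ pos y ∉ C) u v := by
  have hc' : ∀ u v, pvkuIn pos' C u = pvkuIn pos' C v → T'.Mono (pvkuIn pos' C) u v := by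
    intro u v huv
    by_cases hu : pos' u ∈ C
    · have hu' := pvku_in_true.2 hu
      have hv : pos' v ∈ C := pvku_in_true.1 (huv ▸ hu')
      exact pvku_mono_of_chain hu' (ReflTransGen.mono (fun x y hxy => ⟨hxy.1, pvku_in_true.2 hxy.2⟩) _ _ (h1 u v hu hv))
    · have hu' := pvku_in_false.2 hu
      have hv : pos' v ∉ C := pvku_in_false.1 (huv ▸ hu')
      exact pvku_mono_of_chain hu' (ReflTransGen.mono (fun x y hxy => ⟨hxy.1, pvku_in_false.2 hxy.2⟩) _ _ (h2 u v hu hv))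
  have hm : ∀ u v, pvkuIn pos C u = pvkuIn pos C v → T.Mono (pvkuIn pos C) u v := fun u v huv =>
    pvku_mono_of_wall hT o (fun d₀ d h0 hd => pvku_all_wall L hT' hC hc' h0 hd) huv
  refine ⟨fun u v hu hv => ?_, fun u v hu hv => ?_⟩
  · exact ReflTransGen.mono (fun x y hxy => ⟨hxy.1, pvku_in_true.1 hxy.2⟩) _ _ (pvku_chain_of_mono (pvku_in_true.2 hu) (hm u v ((pvku_in_true.2 hu).trans (pvku_in_true.2 hv).symm)))
  · exact ReflTransGen.mono (fun x y hxy => ⟨hxy.1, pvku_in_false.1 hxy.2⟩) _ _ (pvku_chain_of_mono (pvku_in_false.2 hu) (hm u v ((pvku_in_false.2 hu).trans (pvku_in_false.2 hv).symm)))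

/-- **THE FRAME OF THE GATES ON A SURFACE WHICH SHARES THE DISC `B(z, rb)` WITH A SURFACE ON WHICH DISCS AND CO-DISCS ARE CONNECTED** -/
theorem pvku_frame (L : PvLocP T T' R pos pos' Kr) (hT : T.IsSph) (hT' : T'.IsSph) {z : ℂ} {ra rb : ℝ} (hab : ra ≤ rb) (hrb : Metric.ball z rb ⊆ Kr)
    (hd' : ∀ r : ℝ, ∀ u v : V', ‖pos' u - z‖ < r → ‖pos' v - z‖ < r → ReflTransGen (fun x y => T'.Adj x y ∧ ‖pos' y - z‖ < r) u v)
    (hc' : ∀ r : ℝ, ∀ u v : V', r ≤ ‖pos' u - z‖ → r ≤ ‖pos' v - z‖ → ReflTransGen (fun x y => T'.Adj x y ∧ r ≤ ‖pos' y - z‖) u v)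
    (hsep : ∀ u v, T.Adj u v → ‖pos u - z‖ < ra → ‖pos v - z‖ < rb) (hfin : {v | ‖pos v - z‖ < rb}.Finite)
    {d₀ o : D} (hd₀ : ‖pos (T.src d₀) - z‖ < ra) (ho : rb ≤ ‖pos (T.src o) - z‖) :
    PvgnFr T (pvwI T pos z ra) (pvwO T pos z rb) o := by
  have key : ∀ r : ℝ, r ≤ rb → (∀ u v, ‖pos u - z‖ < r → ‖pos v - z‖ < r → ReflTransGen (fun x y => T.Adj x y ∧ ‖pos y - z‖ < r) u v) ∧
      ∀ u v, r ≤ ‖pos u - z‖ → r ≤ ‖pos v - z‖ → ReflTransGen (fun x y => T.Adj x y ∧ r ≤ ‖pos y - z‖) u v := by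
    intro r hr
    obtain ⟨k1, k2⟩ := pvku_conn L hT hT' o (C := Metric.ball z r) ((Metric.ball_subset_ball hr).trans hrb)
      (fun u v hu hv => ReflTransGen.mono (fun x y hxy => ⟨hxy.1, mem_ball_iff_norm.2 hxy.2⟩) _ _ (hd' r u v (mem_ball_iff_norm.1 hu) (mem_ball_iff_norm.1 hv)))
      (fun u v hu hv => ReflTransGen.mono (fun x y hxy => ⟨hxy.1, fun hy => absurd (mem_ball_iff_norm.1 hy) (not_lt.2 hxy.2)⟩) _ _
        (hc' r u v (not_lt.1 fun h => hu (mem_ball_iff_norm.2 h)) (not_lt.1 fun h => hv (mem_ball_iff_norm.2 h))))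
    refine ⟨fun u v hu hv => ?_, fun u v hu hv => ?_⟩
    · exact ReflTransGen.mono (fun x y hxy => ⟨hxy.1, mem_ball_iff_norm.1 hxy.2⟩) _ _ (k1 u v (mem_ball_iff_norm.2 hu) (mem_ball_iff_norm.2 hv))
    · exact ReflTransGen.mono (fun x y hxy => ⟨hxy.1, not_lt.1 fun h => hxy.2 (mem_ball_iff_norm.2 h)⟩) _ _
        (k2 u v (fun h => absurd (mem_ball_iff_norm.1 h) (not_lt.2 hu)) (fun h => absurd (mem_ball_iff_norm.1 h) (not_lt.2 hv)))
  refine pvgy_frame hT (A := {v | ‖pos v - z‖ < ra}) (B := {v | rb ≤ ‖pos v - z‖}) (fun u hu v hv => (key ra hab).1 u v hu hv) (fun u hu v hv => (key rb le_rfl).2 u v hu hv) ⟨d₀, Or.inl hd₀⟩ ?_ ?_ (Or.inl ho)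
  · refine pvgy_star_disj (disjoint_left.2 fun v (h1 : ‖pos v - z‖ < ra) (h2 : rb ≤ ‖pos v - z‖) => ?_) fun u v huv hu hv => ?_
    · linarith
    · exact absurd (hsep u v huv hu) (not_lt.2 hv)
  · refine (pl_star_finite hT hfin).subset fun d hd => Or.inl ?_
    by_contra hn
    have h1 : rb ≤ ‖pos (T.src d) - z‖ := not_lt.1 hn
    exact hd (Or.inl h1)

end transfer

/-! ## 3. a gate of A6 of the plane is a face-set gate of record of the surface which carries the rim -/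

section gate

variable {V D V' D' : Type} {T : PvMap V D} {T' : PvMap V' D'} {R : D → D' → Prop} {s : V → Bool} {s' : V' → Bool}

/-- the image of a face set with at most two black boundary vertices (`pvlw_im_gate` of 22 without the clause `nobb`) -/
theorem pvku_im_weak {I O : Set D} {I' O' : Set D'} (L : PvLoc T T' R) (hs : ∀ d d', R d d' → s (T.src d) = s' (T'.src d')) (F : PvLocFr T T' R I O I' O') {G : Set D}
    (h1 : T.FaceSet G) (h2 : I ⊆ G) (h3 : G ⊆ O) (h4 : (pvgnX T s G).encard ≤ 2) :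
    T'.FaceSet (pvlwIm R G) ∧ I' ⊆ pvlwIm R G ∧ pvlwIm R G ⊆ O' ∧ (pvgnX T' s' (pvlwIm R G)).encard ≤ 2 := by
  refine ⟨fun d' => ⟨?_, ?_⟩, fun d' hd' => ?_, ?_, ?_⟩
  · rintro ⟨e, he, hr⟩
    obtain ⟨d, hd⟩ : d' ∈ plRan R := (L.iso.ran_face d').1 ⟨e, hr⟩
    have e1 : e = T.nxt d := L.iso.inj hr (L.iso.nxt hd)
    exact ⟨d, (h1 d).1 (e1 ▸ he), hd⟩
  · rintro ⟨d, hd, hr⟩
    exact ⟨T.nxt d, (h1 d).2 hd, L.iso.nxt hr⟩
  · obtain ⟨d, hd⟩ := F.I_ran hd'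
    exact ⟨d, h2 ((F.I_iff d d' hd).2 hd'), hd⟩
  · rintro d' ⟨d, hd, hr⟩
    exact (F.O_iff d d' hr).1 (h3 hd)
  · have hex : ∀ v' : ↥(pvgnX T' s' (pvlwIm R G)), ∃ v, pvlocV T T' R v v'.1 ∧ v ∈ pvgnX T s G := by
      rintro ⟨v', ⟨d', rfl, hb⟩, hc⟩
      obtain ⟨d, k1, -, k3⟩ := pvlw_im_bd L F h3 hb
      exact ⟨T.src d, pvloc_v_src k1, ⟨d, rfl, k3⟩, by rw [hs _ _ k1]; exact hc⟩
    choose f hf using hex
    let e : ↥(pvgnX T' s' (pvlwIm R G)) ↪ ↥(pvgnX T s G) := ⟨fun v' => ⟨f v', (hf v').2⟩, fun a b hab => by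
      have k1 : f a = f b := congrArg Subtype.val hab
      have k2 := (hf a).1
      rw [k1] at k2
      exact Subtype.ext (pvloc_v_fn L k2 (hf b).1)⟩
    exact e.encard_le.trans h4

variable {pos : V → ℂ} {pos' : V' → ℂ} {Kr : Set ℂ}

/-- the faces with a vertex in the open ball of radius `ra ≤ r₁` meet `clB(z, r₁)` -/
theorem pvku_inner {z : ℂ} {ra r₁ : ℝ} (hra : ra ≤ r₁) : pvwI T pos z ra ⊆ pvdiB T pos z r₁ := by
  rintro d (h | h | h)
  · exact Or.inl (le_of_lt (lt_of_lt_of_le h hra))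
  · exact Or.inr (Or.inl (le_of_lt (lt_of_lt_of_le h hra)))
  · exact Or.inr (Or.inr (le_of_lt (lt_of_lt_of_le h hra)))

/-- the faces which meet `clB(z, r₂)` have no vertex beyond `rb` -/
theorem pvku_outer {z : ℂ} {r₂ rb μ : ℝ} (hμ0 : 0 ≤ μ) (hμ : r₂ + μ < rb) (hmesh : ∀ u v, T.Adj u v → ‖pos u - z‖ < rb → ‖pos v - pos u‖ ≤ μ) : pvdiB T pos z r₂ ⊆ pvwO T pos z rb := by
  have key : ∀ u w : V, ‖pos u - z‖ ≤ r₂ → (u = w ∨ T.Adj u w) → ‖pos w - z‖ < rb := by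
    rintro u w hu (rfl | hw)
    · linarith
    · have e1 := hmesh u w hw (by linarith)
      have e2 : ‖pos w - z‖ ≤ ‖pos w - pos u‖ + ‖pos u - z‖ := by
        have := norm_add_le (pos w - pos u) (pos u - z)
        rwa [sub_add_sub_cancel] at this
      linarith
  have fin : ∀ d : D, ‖pos (T.src d) - z‖ < rb → ‖pos (T.tgt d) - z‖ < rb → ‖pos (T.apex d) - z‖ < rb → d ∈ pvwO T pos z rb := by
    intro d a1 a2 a3
    rintro (h | h | h)
    · exact absurd a1 (not_lt.2 h)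
    · exact absurd a2 (not_lt.2 h)
    · exact absurd a3 (not_lt.2 h)
  rintro d (h | h | h)
  · exact fin d (key _ _ h (Or.inl rfl)) (key _ _ h (Or.inr ⟨d, rfl, rfl⟩)) (key _ _ h (Or.inr (T.adj_symm (pl_adj_apex_src d))))
  · exact fin d (key _ _ h (Or.inr (T.adj_symm ⟨d, rfl, rfl⟩))) (key _ _ h (Or.inl rfl)) (key _ _ h (Or.inr (T.adj_symm (pl_adj_apex_tgt d))))
  · exact fin d (key _ _ h (Or.inr (pl_adj_apex_src d))) (key _ _ h (Or.inr (pl_adj_apex_tgt d))) (key _ _ h (Or.inl rfl))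

/-- the boundary vertices of a face set between `pvdiB z r₁` and `pvwO z rb` -/
theorem pvku_ann {z : ℂ} {r₁ rb : ℝ} {G : Set D} (hI : pvdiB T pos z r₁ ⊆ G) (hO : G ⊆ pvwO T pos z rb) {d : D} (hd : T.Bd G d) : r₁ < ‖pos (T.src d) - z‖ ∧ ‖pos (T.src d) - z‖ < rb := by
  by_cases h1 : d ∈ G
  · have h2 : T.opp d ∉ G := fun h2 => hd ⟨fun _ => h2, fun _ => h1⟩
    constructor
    · by_contra hle
      refine h2 (hI (Or.inr (Or.inl ?_)))
      rw [T.tgt_opp]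
      exact not_lt.1 hle
    · by_contra hge
      exact hO h1 (Or.inl (not_lt.1 hge))
  · have h2 : T.opp d ∈ G := by
      by_contra h2
      exact hd ⟨fun h => absurd h h1, fun h => absurd h h2⟩
    constructor
    · by_contra hle
      exact h1 (hI (Or.inl (not_lt.1 hle)))
    · by_contra hge
      refine hO h2 (Or.inr (Or.inl ?_))
      show rb ≤ ‖pos (T.tgt (T.opp d)) - z‖
      rw [T.tgt_opp]
      exact not_lt.1 hge

/-- the mesh is carried over -/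
theorem pvku_mesh (L : PvLocP T T' R pos pos' Kr) {z : ℂ} {rb μ : ℝ} (hrb : Metric.ball z rb ⊆ Kr) (hmesh : ∀ u v, T'.Adj u v → ‖pos' u - z‖ < rb → ‖pos' v - pos' u‖ ≤ μ) :
    ∀ u v, T.Adj u v → ‖pos u - z‖ < rb → ‖pos v - pos u‖ ≤ μ := by
  rintro u v ⟨d, rfl, rfl⟩ hu
  obtain ⟨d', hd'⟩ := pvlw_dart_src L (hrb (mem_ball_iff_norm.2 hu))
  have e1 := L.pos_eq _ _ hd'
  have e2 : pos (T.tgt d) = pos' (T'.tgt d') := L.pos_eq _ _ (L.loc.iso.nxt hd')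
  rw [e1, e2]
  exact hmesh _ _ ⟨d', rfl, rfl⟩ (e1 ▸ hu)

/-- a rim, cut at a far vertex, is a walk through the annulus -/
theorem pvku_walk {z : ℂ} {ra rb : ℝ} {c : T.Cyc} (hb : ∀ i, s (T.src (c.e i)) = true) {k : ℕ} (hk : k < c.n) (hkz : ‖pos (T.src (c.e k)) - z‖ < ra) (h0 : rb ≤ ‖pos (T.src (c.e 0)) - z‖) :
    PvgfsWalk T s (pvwI T pos z ra) (pvwO T pos z rb) (fun i => T.src (c.e i)) c.n k := by
  have hn : c.e c.n = c.e 0 := by simpa using c.per 0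
  refine ⟨fun i _ => ⟨c.e i, rfl, c.chain i⟩, fun i _ => hb i, fun i j hi hj h => c.inj i j hi hj h, ?_, ?_, hk.le, ?_⟩
  · unfold pvwO; rw [compl_compl]; intro d hd; exact Or.inl (by rw [hd]; exact h0)
  · unfold pvwO; rw [compl_compl]; intro d hd; exact Or.inl (by rw [hd]; show rb ≤ ‖pos (T.src (c.e c.n)) - z‖; rw [hn]; exact h0)
  · intro d hd; exact Or.inl (by rw [hd]; exact hkz)

/-- **A GATE OF A6 OF `T'` (the plane) IS A FACE-SET GATE OF RECORD OF `T`** (the surface which carries the rim `c`), as soon as the two surfaces share `B(z, rb)`.      The clause `nobb` is paid by the rim of `T`: no near return `(μ, S)`, `S + ρ < r₁`,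
asked only at the places `i` of the rim in `B(z, rb)`. -/
theorem pvku_G (L : PvLocP T T' R pos pos' Kr) (hT : T.IsSph) (hs : ∀ d d', R d d' → s (T.src d) = s' (T'.src d')) {z : ℂ} {ra rb r₁ r₂ μ ρ S : ℝ} {G' : Set D'} {X' : Finset V'}
    (hg : PvgGate T' s' true (pvdiB T' pos' z r₁) (pvdiB T' pos' z r₂) G' X') (hra : ra ≤ r₁) (hab : ra ≤ rb) (hμ0 : 0 ≤ μ) (hμ : r₂ + μ < rb) (hrb : Metric.ball z rb ⊆ Kr)
    (hmesh : ∀ u v, T'.Adj u v → ‖pos' u - z‖ < rb → ‖pos' v - pos' u‖ ≤ μ)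
    {c : T.Cyc} (hb : ∀ i, s (T.src (c.e i)) = true) {k : ℕ} (hk : k < c.n) (hkz : ‖pos (T.src (c.e k)) - z‖ ≤ ρ) (hρ : ρ < ra) (h0 : rb ≤ ‖pos (T.src (c.e 0)) - z‖)
    (hNR : ∀ i i', i ≤ i' → i' ≤ c.n → ‖pos (T.src (c.e i)) - z‖ < rb → ‖pos (T.src (c.e i')) - pos (T.src (c.e i))‖ ≤ μ → ∀ l, i ≤ l → l ≤ i' → ‖pos (T.src (c.e l)) - pos (T.src (c.e i))‖ ≤ S)
    (hS : S + ρ ≤ r₁) :
    PvgnG T s (pvwI T pos z ra) (pvwO T pos z rb) (pvlwIm (fun d' d => R d d') G') := by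
  have F := pvlw_frame L.symm (z := z) (a := ra) (b := rb) ((Metric.ball_subset_ball hab).trans hrb) hrb
  have hI' : pvwI T' pos' z ra ⊆ G' := (pvku_inner hra).trans hg.inner
  have hO' : G' ⊆ pvwO T' pos' z rb := hg.outer.trans (pvku_outer hμ0 hμ hmesh)
  obtain ⟨w1, w2, w3, w4⟩ := pvku_im_weak (s := s') (s' := s) L.symm.loc (fun d' d h => (hs d d' h).symm) F hg.face hI' hO' (pvgfs_two hg)
  refine ⟨w1, w2, w3, w4, fun d hd hbb => ?_⟩
  have W := pvku_walk (pos := pos) (z := z) (ra := ra) (rb := rb) hb hk (lt_of_le_of_lt hkz hρ) h0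
  obtain ⟨k₁, k₂, a0, a1, a2, a3, -, hX⟩ := pvgfs_pass hT w1 w2 w3 w4 W (by have := c.three; omega)
  have hadj := pvgfs_bb_adj hX hd hbb.1 hbb.2
  obtain ⟨e, he, hbe⟩ : T.src (c.e k₁) ∈ T.BdV (pvlwIm (fun d' d => R d d') G') := by
    have : T.src (c.e k₁) ∈ pvgnX T s (pvlwIm (fun d' d => R d d') G') := by rw [hX]; exact Or.inl rfl
    exact this.1
  obtain ⟨e', r1, -, r3⟩ := pvlw_im_bd L.symm.loc F hO' hbe
  obtain ⟨b1, b2⟩ := pvku_ann hg.inner hO' r3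
  have epos : pos (T.src (c.e k₁)) = pos' (T'.src e') := by rw [← he]; exact L.pos_eq _ _ r1
  rw [← epos] at b1 b2
  have m1 := pvku_mesh L hrb hmesh _ _ hadj b2
  have m2 := hNR k₁ k₂ (by omega) a3.le b2 m1 k a1.le a2.le
  have m3 : ‖pos (T.src (c.e k₁)) - z‖ ≤ ‖pos (T.src (c.e k)) - pos (T.src (c.e k₁))‖ + ‖pos (T.src (c.e k)) - z‖ := by
    have := norm_sub_le (pos (T.src (c.e k)) - z) (pos (T.src (c.e k)) - pos (T.src (c.e k₁)))
    rw [sub_sub_sub_cancel_left] at this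
    linarith
  linarith

end gate

/-! ## 4. the gate of record, the fixed rule and the record `PvzcRim` on the surface which carries the rim -/

section rim

variable {V D V' D' : Type} {T : PvMap V D} {T' : PvMap V' D'} {R : D → D' → Prop} {s : V → Bool} {s' : V' → Bool} {pos : V → ℂ} {pos' : V' → ℂ} {Kr : Set ℂ}

/-- **GATE OF A6 OF THE PLANE `T'` + RIM OF THE SURFACE `T`  ⟹  STATE GATE + FIXED RULE + `PvzcRim`, ALL ON `T`**.
`T` shares `B(z, b h)` with `T'`;  on `T'` discs and co-discs are connected (`pvgy_m_disc`, `pvgy_m_codisc` at the Delaunay plane);  `c` = a black rim of `T`, cut beyond `b h`, which passes within `h` of `z`;   no `(μ, S)` near return in `B(z, b h)`. -/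
theorem pvku_gate (L : PvLocP T T' R pos pos' Kr) (hT : T.IsSph) (hS : T.Simple) (hT' : T'.IsSph) (hs : ∀ d d', R d d' → s (T.src d) = s' (T'.src d')) {z : ℂ} {h a b α β μ S : ℝ}
    (hd' : ∀ r : ℝ, ∀ u v : V', ‖pos' u - z‖ < r → ‖pos' v - z‖ < r → ReflTransGen (fun x y => T'.Adj x y ∧ ‖pos' y - z‖ < r) u v)
    (hc' : ∀ r : ℝ, ∀ u v : V', r ≤ ‖pos' u - z‖ → r ≤ ‖pos' v - z‖ → ReflTransGen (fun x y => T'.Adj x y ∧ r ≤ ‖pos' y - z‖) u v)
    (hA6 : ∃ G' X', PvgGate T' s' true (pvdiB T' pos' z (α * h)) (pvdiB T' pos' z (β * h)) G' X')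
    (hah : h < a * h) (haα : a * h ≤ α * h) (hαβ : α * h ≤ β * h) (hμ0 : 0 ≤ μ) (hμ : β * h + μ < b * h) (hrb : Metric.ball z (b * h) ⊆ Kr)
    (hmesh : ∀ u v, T'.Adj u v → ‖pos' u - z‖ < b * h → ‖pos' v - pos' u‖ ≤ μ) (hfin : {v | ‖pos v - z‖ < b * h}.Finite)
    {c : T.Cyc} (hrim : c.IsRim s) (hb : ∀ i, s (T.src (c.e i)) = true) (hw : {d | T.Wall s (T.opp (c.e 0)) d}.Finite)
    {k : ℕ} (hk : k < c.n) (hkz : ‖pos (T.src (c.e k)) - z‖ ≤ h) (h0 : b * h ≤ ‖pos (T.src (c.e 0)) - z‖)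
    (hNR : ∀ i i', i ≤ i' → i' ≤ c.n → ‖pos (T.src (c.e i)) - z‖ < b * h → ‖pos (T.src (c.e i')) - pos (T.src (c.e i))‖ ≤ μ → ∀ l, i ≤ l → l ≤ i' → ‖pos (T.src (c.e l)) - pos (T.src (c.e i))‖ ≤ S)
    (hSα : S + h ≤ α * h) :
    ∃ (𝔊 : PvwSt T) (o : Bool) (j : ℕ), (∀ τ : PvwTy, τ.a = a → τ.b = b → τ.o = o → 𝔊.Gate pos h z τ s ∧ 𝔊.Inmost pos h z τ s) ∧
      (∀ BK : Set ℂ, pos (T.src (c.e 0)) ∉ BK → PvzcRim 𝔊 pos s BK c j) ∧ 𝔊.inn = c.pth j 𝔊.inn.n ∧ 0 < j ∧ j < k ∧ k < j + 𝔊.inn.n ∧ j + 𝔊.inn.n < c.n ∧ j + 𝔊.ip ≤ k ∧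
      𝔊.dsc = {v | ‖pos v - z‖ < b * h} ∧ (∀ i, j < i → i < j + 𝔊.inn.n → T.src (c.e i) ∈ T.Int 𝔊.S.Left) ∧
      (∀ i, i < j → T.src (c.e i) ∈ T.Int 𝔊.S.Leftᶜ) ∧ ∀ i, j + 𝔊.inn.n < i → i ≤ c.n → T.src (c.e i) ∈ T.Int 𝔊.S.Leftᶜ := by
  classical
  obtain ⟨G', X', hg⟩ := hA6
  have hab : a * h ≤ b * h := by linarith
  have hmT := pvku_mesh L hrb hmesh
  have hsep : ∀ u v, T.Adj u v → ‖pos u - z‖ < a * h → ‖pos v - z‖ < b * h := by
    intro u v huv hu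
    have e1 := hmT u v huv (by linarith)
    have e2 : ‖pos v - z‖ ≤ ‖pos v - pos u‖ + ‖pos u - z‖ := by
      have := norm_add_le (pos v - pos u) (pos u - z)
      rwa [sub_add_sub_cancel] at this
    linarith
  have hF := pvku_frame L hT hT' hab hrb hd' hc' hsep hfin (d₀ := c.e k) (o := c.e 0) (lt_of_le_of_lt hkz hah) h0
  have hG := pvku_G L hT hs hg haα hab hμ0 hμ hrb hmesh hb hk hkz hah h0 hNR hSα
  obtain ⟨g, lo, hi, ip, l1, l2, l3, l4, -, -, -, -, hn, hip, m1, m2, m3, hst⟩ := pvgb_pin_gate hT hS hrim hb hF ⟨_, hG⟩ hfin hah hk hkz h0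
  refine ⟨⟨{v | ‖pos v - z‖ < b * h}, g.c, g.aOut, g.aIn, c.pth lo (hi - lo), ip, 0, fun _ => g.aOut, 0, fun _ => g.aIn⟩, decide (pvgbLex (pos g.vm) (pos g.vp)), lo, ?_, ?_, ?_, l1, l2, ?_, ?_, hip, rfl, ?_, m2, ?_⟩
  · intro τ ea eb eo
    exact hst τ 0 _ 0 _ ea eb (by rw [eo]; exact decide_eq_true_iff)
  · intro BK hBK
    exact ⟨hrim, hb 0, hw, fun i _ => rfl, ⟨0, hBK⟩⟩
  · show c.pth lo (hi - lo) = c.pth lo (c.pth lo (hi - lo)).n
    rw [hn]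
  · show k < lo + (c.pth lo (hi - lo)).n
    rw [hn]; omega
  · show lo + (c.pth lo (hi - lo)).n < c.n
    rw [hn]; omega
  · intro i i1 i2
    have i2' : i < lo + (c.pth lo (hi - lo)).n := i2
    rw [hn] at i2'
    exact m1 i i1 (by omega)
  · intro i i1 i2
    have i1' : lo + (c.pth lo (hi - lo)).n < i := i1
    rw [hn] at i1'
    exact m3 i (by omega) i2

end rim

/-! ## 5. at the model: the rim of a completion -/

section model

variable {x z : ℂ} {R h μ : ℝ} {ω : PVSample} {X : Type} {𝔅 : PvBulk X} {ξ : X → Bool} {c : (𝔅.T (pvxY ω)).Cyc}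

/-- the mesh of the plane map of the sample -/
theorem pvku_mesh_plane (hF : L9Fine (pvxY ω) (Metric.closedBall x (6 * R)) μ) {r : ℝ} (hr : Metric.ball z r ⊆ Metric.closedBall x (6 * R)) :
    ∀ u v, (pvxT ω).Adj u v → ‖pvxPos ω u - z‖ < r → ‖pvxPos ω v - pvxPos ω u‖ ≤ μ := by
  rintro u v ⟨d, rfl, rfl⟩ hu
  have htri : DelTri (pvxY ω) ((pvxT ω).src d : ℂ) ((pvxT ω).tgt d : ℂ) ((pvxT ω).apex d : ℂ) := delp_apex_spec d.2.1 d.2.2
  exact (hF _ _ _ htri (Or.inl (hr (mem_ball_iff_norm.2 hu)))).1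

/-- the rim is black for the colouring "`true` = the colour of the site at the passage `k`" -/
theorem pvku_black (B : PvseaB 𝔅 ξ x R ω c) (hR : 0 < R) {b : Bool} {k : ℕ} (hkx : ‖𝔅.posF (pvxY ω) (x + 7 * R) ((𝔅.T (pvxY ω)).src (c.e k)) - x‖ ≤ 6 * R)
    (hb : b = cfCol (pvConf ω) (𝔅.posF (pvxY ω) (x + 7 * R) ((𝔅.T (pvxY ω)).src (c.e k)))) : ∀ i, pvlfFl b (𝔅.col (pvConf ω) ξ) ((𝔅.T (pvxY ω)).src (c.e i)) = true := by
  have hlabk := pvloc_posF hR hkx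
  intro i
  refine pvlf_fl_eq.2 ((pl_rim_col B.rim i k).trans ?_)
  show Sum.elim (cfCol (pvConf ω)) ξ (𝔅.lab (pvxY ω) ((𝔅.T (pvxY ω)).src (c.e k))) = b
  rw [hlabk, hb]
  rfl

/-- **E15, RIM HALF, ON A COMPLETION**: `c` = the rim of a completion (`PvseaB` of 45 = what `pvsea_all` gives for `P ∈ pvhbAll x R ω`), which passes within `h` of `z` at the place `k`, `‖P.v k - x‖ ≤ 2R`;
a gate of A6 of the PLANE of the sample in the annulus `(α h, β h)` for the colour of the rim;   mesh `μ < h`;   no `(μ, h)` near return of the rim at its places in `clB(x, 3R)`.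
THEN, ON THE COMPLETION: gate data `𝔊` with `Gate` + `Inmost` (the fixed rule) for the types with `a`, `b'` and the bit `o`,   and the record `PvzcRim 𝔊 … BK c j` of 112 for EVERY `BK ⊆ B(x, 4R)`;   the inner arc IS the arc `c.pth j n` of the rim.
Same hypotheses as `pvqg_gate` of 190 (weaker numbers).      Consumers: `pvn7_e15_bulk` (17), `pvzw_e15`, `pvzw_e15_net` (112), `hg₂` of `pvpn_main` (66) with the second annulus. -/
theorem pvku_model (B : PvseaB 𝔅 ξ x R ω c) {b : Bool} {a b' α β : ℝ} (hR : 0 < R) (h0 : 0 < h) (hμ0 : 0 ≤ μ) (hμ : μ < h) (ha : 1 < a) (haα : a ≤ α) (h2α : 2 ≤ α) (hαβ : α ≤ β) (hβb : β + 1 ≤ b')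
    (hbR : (b' + 1) * h ≤ R) (hG : DelGood (pvxY ω)) (hF : L9Fine (pvxY ω) (Metric.closedBall x (6 * R)) μ)
    (hNR : ∀ i i', i ≤ i' → i' ≤ c.n → ‖𝔅.posF (pvxY ω) (x + 7 * R) ((𝔅.T (pvxY ω)).src (c.e i)) - x‖ ≤ 3 * R →
      ‖𝔅.posF (pvxY ω) (x + 7 * R) ((𝔅.T (pvxY ω)).src (c.e i')) - 𝔅.posF (pvxY ω) (x + 7 * R) ((𝔅.T (pvxY ω)).src (c.e i))‖ ≤ μ →
      ∀ l, i ≤ l → l ≤ i' → ‖𝔅.posF (pvxY ω) (x + 7 * R) ((𝔅.T (pvxY ω)).src (c.e l)) - 𝔅.posF (pvxY ω) (x + 7 * R) ((𝔅.T (pvxY ω)).src (c.e i))‖ ≤ h)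
    {k : ℕ} (hk : k ≤ c.n) (hkx : ‖𝔅.posF (pvxY ω) (x + 7 * R) ((𝔅.T (pvxY ω)).src (c.e k)) - x‖ ≤ 2 * R) (hkz : ‖𝔅.posF (pvxY ω) (x + 7 * R) ((𝔅.T (pvxY ω)).src (c.e k)) - z‖ ≤ h)
    (hb : b = cfCol (pvConf ω) (𝔅.posF (pvxY ω) (x + 7 * R) ((𝔅.T (pvxY ω)).src (c.e k))))
    (hA6 : ∃ G X, PvgGate (pvxT ω) (pvxCol ω b) true (pvdiB (pvxT ω) (pvxPos ω) z (α * h)) (pvdiB (pvxT ω) (pvxPos ω) z (β * h)) G X) :
    ∃ (𝔊 : PvwSt (𝔅.T (pvxY ω))) (o : Bool) (j : ℕ),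
      (∀ τ : PvwTy, τ.a = a → τ.b = b' → τ.o = o → 𝔊.Gate (𝔅.posF (pvxY ω) (x + 7 * R)) h z τ (pvlfFl b (𝔅.col (pvConf ω) ξ)) ∧ 𝔊.Inmost (𝔅.posF (pvxY ω) (x + 7 * R)) h z τ (pvlfFl b (𝔅.col (pvConf ω) ξ))) ∧
      (∀ BK : Set ℂ, BK ⊆ Metric.ball x (4 * R) → PvzcRim 𝔊 (𝔅.posF (pvxY ω) (x + 7 * R)) (pvlfFl b (𝔅.col (pvConf ω) ξ)) BK c j) ∧
      𝔊.inn = c.pth j 𝔊.inn.n ∧ 0 < j ∧ j < k ∧ k < j + 𝔊.inn.n ∧ j + 𝔊.inn.n < c.n ∧ j + 𝔊.ip ≤ k ∧ 𝔊.dsc = {v | ‖𝔅.posF (pvxY ω) (x + 7 * R) v - z‖ < b' * h} ∧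
      (∀ i, j < i → i < j + 𝔊.inn.n → (𝔅.T (pvxY ω)).src (c.e i) ∈ (𝔅.T (pvxY ω)).Int 𝔊.S.Left) ∧
      (∀ i, i < j → (𝔅.T (pvxY ω)).src (c.e i) ∈ (𝔅.T (pvxY ω)).Int 𝔊.S.Leftᶜ) ∧ ∀ i, j + 𝔊.inn.n < i → i ≤ c.n → (𝔅.T (pvxY ω)).src (c.e i) ∈ (𝔅.T (pvxY ω)).Int 𝔊.S.Leftᶜ := by
  set q : ℕ → ℂ := fun i => 𝔅.posF (pvxY ω) (x + 7 * R) ((𝔅.T (pvxY ω)).src (c.e i)) with hq
  have hkx' : ‖q k - x‖ ≤ 2 * R := hkx
  have hkz' : ‖q k - z‖ ≤ h := hkz
  have h4 : 4 * R ≤ ‖q 0 - x‖ := B.cut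
  have tri : ∀ u : ℂ, ‖u - x‖ ≤ ‖u - z‖ + (h + 2 * R) := fun u => by
    have e1 := norm_add_le (u - z) (z - x)
    rw [show u - z + (z - x) = u - x by ring] at e1
    have e2 := norm_add_le (-(q k - z)) (q k - x)
    rw [show -(q k - z) + (q k - x) = z - x by ring, norm_neg] at e2
    linarith
  have hbh : b' * h + h ≤ R := by linarith
  have hrb : Metric.ball z (b' * h) ⊆ Metric.closedBall x (6 * R) := fun u hu => by
    have e1 := mem_ball_iff_norm.1 hu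
    have e2 := tri u
    exact mem_closedBall_iff_norm.2 (by linarith)
  have hqn : q c.n = q 0 := by
    show 𝔅.posF (pvxY ω) (x + 7 * R) ((𝔅.T (pvxY ω)).src (c.e c.n)) = _
    have := c.per 0
    rw [Nat.zero_add] at this
    rw [this]
  have hk' : k < c.n := by
    rcases Nat.lt_or_ge k c.n with e | e
    · exact e
    · have : k = c.n := le_antisymm hk e
      rw [this, hqn] at hkx'
      linarith
  have fV : Finite (𝔅.V (pvxY ω)) := B.fin.1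
  have fD : Finite (𝔅.D (pvxY ω)) := B.fin.2
  obtain ⟨𝔊, o, j, e1, e2, e3⟩ := pvku_gate (s := pvlfFl b (𝔅.col (pvConf ω) ξ)) (s' := pvxCol ω b) (z := z) (h := h) (a := a) (b := b') (α := α) (β := β) (μ := μ) (S := h)
    B.loc B.ok.sph B.ok.simple (delb_plane_isSph hG) (B.col b) (fun r u v hu hv => pvgy_m_disc hG hu hv) (fun r u v hu hv => pvgy_m_codisc hG hu hv) hA6
    (by nlinarith) (mul_le_mul_of_nonneg_right haα h0.le) (mul_le_mul_of_nonneg_right hαβ h0.le) hμ0 (by nlinarith) hrb (pvku_mesh_plane hF hrb) ((@Set.finite_univ _ fV).subset (Set.subset_univ _))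
    ((pvlf_rim_fl b).2 B.rim) (pvku_black B hR (hkx.trans (by linarith)) hb) ((@Set.finite_univ _ fD).subset (Set.subset_univ _)) hk' hkz
    (by show b' * h ≤ ‖q 0 - z‖; have := tri (q 0); linarith)
    (fun i i' h1 h2 h3 h5 l l1 l2 => hNR i i' h1 h2 (by show ‖q i - x‖ ≤ 3 * R; have := tri (q i); have h3' : ‖q i - z‖ < b' * h := h3; linarith) h5 l l1 l2)
    (by nlinarith)
  refine ⟨𝔊, o, j, e1, fun BK hBK => e2 BK fun hmem => ?_, e3⟩
  have := mem_ball_iff_norm.1 (hBK hmem)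
  have h4' : 4 * R ≤ ‖𝔅.posF (pvxY ω) (x + 7 * R) ((𝔅.T (pvxY ω)).src (c.e 0)) - x‖ := B.cut
  linarith

end model

end Claimed.Agent.R289
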