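-- KEEP
import Claimed.Agent.R289.Tr.LocalW
import Claimed.Agent.R289.Tr.LocalF
import Claimed.Agent.R289.Defs.TrModel
import Claimed.Agent.R289.Exit.ParCell

/-!
# Row 289 (S0537, Cardy for Poisson-Voronoi), THE WALL, X3 = PIN EXISTS, item (f) ENC, file Tr/PinEnc : FROM A PIN OF A RIM OF A COMPLETION TO A PIN OF THE ENCODED RIM      (owner helper66, second of helper126; prefix `pvpn_`, `Pvpn`)

WHAT.  E15 (112 42) and X3 (126) produce, on the surface `T = 𝔅.T Y` of a COMPLETION, a state `𝔖` with `𝔖.At ..` and `𝔖.PinOf .. c j` (CYCLIC form, `j` any place of `g⁻` on the circuit `c`).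
The data of record (187, `Defs/TrModel.lean`) want a PLANE state `𝔖' : PvwSt (pvxT ω)` and the CUT form `PvxPinOf 𝔖' .. P j'` for the encoded rim `P = 𝔅.enc Y (x + 7R) c`.      This file is the converse of `pvlx_pin`, `pvlx_pinOf` of 22 (`Tr/LocalX.lean`).

* sec. 1  model free: `pvpn_e_congr` (periodicity), **`pvpn_cut`** (cyclic `PinOf` + the cut vertex `c.e 0` outside the largest box  ⟹  the cut form at `j % c.n`: no wrap-around)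
* sec. 2  one surface against the total plane: **`pvpn_pinOf`** (`PvxPinOf` of the plane twin)
* sec. 3  a completion: `pvpn_bulk` (the positioned local isomorphism with `pvxT ω`, colours), **`pvpn_enc`** (state + pin + second gate of the completion  ⟹  plane state + `PvxPinOf` + plane second gate)
* sec. 4  THE EXIT: **`pvpn_pins`** (`∃ s ∈ pvxPins 𝔓 x R m ω P`, centre `z`, index `j % c.n + ip`)
* sec. 5  (e) THE MENU COVERS: `pvpnXp pvpnXm PvpnSep` (SEP, metric form = NOT FLAG4), `PvpnHas` (the menu contains the geometric types `PvzgGeo` of 285), **`pvpn_menu`**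
* sec. 6  **`pvpn_main`** = (e) + (f) with numerical hypotheses = the conclusion of `PvxpDIH` (`Exit/Pins.lean`) from data on the completion + SEP on the plane
v4 (11:45Z 15 Oct): on `Tr/Defs` v3 + `Tr/LocalW` v3 + `Defs/TrModel` v4 (mouths `2 ρ h` round the grid centres; tips = BLACK ENDS `pvpnTp`, `pvpnTm` of the tip darts; masks with the halves of the inner arc; `m0 ≤ m`).
-/

set_option autoImplicit false

namespace Claimed.Agent.R289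

open Set Claims.C0465

/-! ## 1. Model free -/

section free

variable {V D : Type} {T : PvMap V D} {pos : V → ℂ}

theorem pvpn_e_add_mul (c : T.Cyc) (k q : ℕ) : c.e (k + c.n * q) = c.e k := by
  induction q with
  | zero => simp
  | succ q ih => rw [Nat.mul_succ, ← Nat.add_assoc, c.per, ih]

theorem pvpn_e_mod (c : T.Cyc) (k : ℕ) : c.e (k % c.n) = c.e k := by
  conv_rhs => rw [← Nat.mod_add_div k c.n]
  exact (pvpn_e_add_mul c _ _).symm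

/-- periodicity -/
theorem pvpn_e_congr (c : T.Cyc) {a b : ℕ} (h : a % c.n = b % c.n) : c.e a = c.e b := by
  rw [← pvpn_e_mod c a, h, pvpn_e_mod]

/-- the position of the BLACK END of the exit tip dart (the point tested by `PvxAt.tip_p`) -/
def pvpnTp (𝔖 : PvwSt T) (pos : V → ℂ) : ℂ := pos (T.src (𝔖.ep 𝔖.np))

/-- the position of the BLACK END of the entrance tip dart (the point tested by `PvxAt.tip_m`) -/
def pvpnTm (𝔖 : PvwSt T) (pos : V → ℂ) : ℂ := pos (T.src (𝔖.em 𝔖.nm))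

theorem pvpn_eqns_cite0 : True := by
  have := @pvpnTp.eq_1; have := @pvpnTm.eq_1
  trivial

/-- **the CUT form of a pin** (hypotheses of `pvlx_pin` of 22) -/
structure PvpnCut (𝔖 : PvwSt T) (pos : V → ℂ) (N : PvwNum) (h : ℝ) (yp ym : ℂ) (BK : Set ℂ) (c : T.Cyc) (j : ℕ) : Prop where
  le : j + 𝔖.inn.n < c.n
  run : ∀ i, i < 𝔖.inn.n → c.e (j + i) = 𝔖.inn.e i
  runv : ∀ i, i ≤ 𝔖.inn.n → T.src (c.e (j + i)) = 𝔖.inn.v i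
  mp : ∃ B, j + 𝔖.inn.n + B < c.n ∧ (∀ i, i ≤ B → pos (T.src (c.e (j + 𝔖.inn.n + i))) ∈ BK) ∧
      ∀ k, k ≤ c.n → (k ≤ j ∨ j + 𝔖.inn.n + B < k) → 2 * N.rho * h < ‖pos (T.src (c.e k)) - yp‖
  mm : ∃ A, A < j ∧ (∀ i, i ≤ A → pos (T.src (c.e (j - i))) ∈ BK) ∧
      ∀ k, k ≤ c.n → (k + A < j ∨ j + 𝔖.inn.n ≤ k) → 2 * N.rho * h < ‖pos (T.src (c.e k)) - ym‖

/-- the circuit runs along the inner arc: vertices -/
theorem pvpn_runv {c : T.Cyc} {p : T.Pth} {j : ℕ} (hl : 0 < p.n) (run : ∀ i, i < p.n → c.e (j + i) = p.e i) {i : ℕ} (hi : i ≤ p.n) : T.src (c.e (j + i)) = p.v i := by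
  rcases Nat.lt_or_ge i p.n with h | h
  · rw [run i h, p.src_e i h]
  · obtain ⟨k, rfl⟩ : ∃ k, i = k + 1 := ⟨i - 1, by omega⟩
    rw [← Nat.add_assoc, ← c.chain, run k (by omega), p.tgt_e k (by omega)]

/-- **from the cyclic form of a pin to the CUT form**: the inner arc lies in the largest box `BK`, the cut vertex `c.e 0` does not -/
theorem pvpn_cut {c : T.Cyc} {𝔖 : PvwSt T} {N : PvwNum} {h : ℝ} {yp ym : ℂ} {BK : Set ℂ} {j : ℕ} (hl : 0 < 𝔖.inn.n) (hin : ∀ i, i ≤ 𝔖.inn.n → pos (𝔖.inn.v i) ∈ BK)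
    (h0 : pos (T.src (c.e 0)) ∉ BK) (hp : 𝔖.PinOf pos N h yp ym BK c j) : PvpnCut 𝔖 pos N h yp ym BK c (j % c.n) := by
  obtain ⟨⟨run, B, b1, b2, b3⟩, ⟨-, A, a1, a2, a3⟩⟩ := hp
  have hn : 0 < c.n := by have := c.three; omega
  have hj : j % c.n < c.n := Nat.mod_lt _ hn
  set j' := j % c.n with hj'
  -- everything at `j'`
  have sh : ∀ i, c.e (j + i) = c.e (j' + i) := fun i => pvpn_e_congr c (by rw [hj', Nat.mod_add_mod])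
  have run' : ∀ i, i < 𝔖.inn.n → c.e (j' + i) = 𝔖.inn.e i := fun i hi => by rw [← sh]; exact run i hi
  have runv : ∀ i, i ≤ 𝔖.inn.n → T.src (c.e (j' + i)) = 𝔖.inn.v i := fun i hi => pvpn_runv hl run' hi
  have b2' : ∀ i, i ≤ B → pos (T.src (c.e (j' + 𝔖.inn.n + i))) ∈ BK := fun i hi => by
    have := b2 i hi
    rwa [Nat.add_assoc, sh, ← Nat.add_assoc] at this
  have a2' : ∀ i, i ≤ A → pos (T.src (c.e (j' + c.n - i))) ∈ BK := fun i hi => by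
    have := a2 i hi
    rwa [show j + c.n - i = j + (c.n - i) by omega, sh, show j' + (c.n - i) = j' + c.n - i by omega] at this
  have hz : ∀ k, k % c.n = 0 → pos (T.src (c.e k)) ∉ BK := fun k hk => by
    rw [pvpn_e_congr c (a := k) (b := 0) (by rw [hk, Nat.zero_mod])]; exact h0
  -- no wrap-around after the gate
  have c1 : j' + 𝔖.inn.n + B < c.n := by
    by_contra hcon
    have hk : pos (T.src (c.e (j' + (c.n - j')))) ∉ BK := hz _ (by rw [show j' + (c.n - j') = c.n by omega, Nat.mod_self])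
    rcases Nat.lt_or_ge 𝔖.inn.n (c.n - j') with h1 | h1
    · have := b2' (c.n - j' - 𝔖.inn.n) (by omega)
      rw [show j' + 𝔖.inn.n + (c.n - j' - 𝔖.inn.n) = j' + (c.n - j') by omega] at this
      exact hk this
    · rw [runv _ h1] at hk
      exact hk (hin _ h1)
  -- no wrap-around before the gate
  have c2 : A < j' := by
    by_contra hcon
    have := a2' j' (by omega)
    exact hz _ (by rw [show j' + c.n - j' = c.n by omega, Nat.mod_self]) this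
  refine ⟨by omega, run', runv, ⟨B, c1, b2', fun k hk hor => ?_⟩, ⟨A, c2, fun i hi => ?_, fun k hk hor => ?_⟩⟩
  · rcases Nat.lt_or_ge j' k with h1 | h1
    · have := b3 (k - j') (by omega) (by omega)
      rwa [sh, show j' + (k - j') = k by omega] at this
    · have := b3 (k + c.n - j') (by omega) (by omega)
      rwa [sh, show j' + (k + c.n - j') = k + c.n by omega, c.per] at this
  · have := a2' i hi
    rwa [show j' + c.n - i = (j' - i) + c.n by omega, c.per] at this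
  · rcases Nat.lt_or_ge k j' with h1 | h1
    · have := a3 (k + c.n - j') (by omega) (by omega)
      rwa [sh, show j' + (k + c.n - j') = k + c.n by omega, c.per] at this
    · have := a3 (k - j') (by omega) (by omega)
      rwa [sh, show j' + (k - j') = k by omega] at this

end free

/-! ## 2. One surface against the total plane of the sample -/

section plane

variable {V D : Type} {T : PvMap V D} {ω : PVSample} {R : D → (delbPl (pvxY ω)).Dart → Prop} {pos : V → ℂ} {Kr : Set ℂ}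

/-- what is read of the gate of a state: ends and place of the inner arc      (= `pvlx_inner` of 22) -/
theorem pvpn_inner {V D : Type} {T : PvMap V D} {pos : V → ℂ} {𝔖 : PvwSt T} {h : ℝ} {z : ℂ} {τ : PvwTy} {s : V → Bool} (hg : 𝔖.Gate pos h z τ s) :
    0 < 𝔖.inn.n ∧ 𝔖.inn.v 0 = 𝔖.gm ∧ 𝔖.inn.v 𝔖.inn.n = 𝔖.gp ∧ ∀ k, k ≤ 𝔖.inn.n → pos (𝔖.inn.v k) ∈ Metric.closedBall z (τ.b * h) := by
  have hKv : ∀ v ∈ 𝔖.S.verts, pos v ∈ Metric.closedBall z (τ.b * h) := fun v hv => mem_closedBall_iff_norm.2 (hg.ann v hv).2.le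
  have hKc : ∀ v ∈ 𝔖.ins, pos v ∈ Metric.closedBall z (τ.b * h) := fun v hv => mem_closedBall_iff_norm.2 (hg.inside v hv).le
  have hgp : 𝔖.gp ∈ 𝔖.S.verts := by
    obtain ⟨k, hk⟩ := hg.dp_on
    refine ⟨k + 1, ?_⟩
    rw [← 𝔖.S.chain k, hk, T.tgt_opp]
    rfl
  obtain ⟨n, h1, h2, j, a0, an, a1, a2⟩ := hg.strand
  have e2 : 𝔖.inn.v 𝔖.inn.n = 𝔖.gp := by
    have e1 := (a1 𝔖.inn.n le_rfl).2.1
    rw [an] at e1
    rw [e1]; show T.src (pvasIt T s 𝔖.dm n) = _; rw [h1]; rfl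
  have e3 : 𝔖.inn.v 0 = 𝔖.gm := a0
  refine ⟨?_, e3, e2, ?_⟩
  · rcases Nat.eq_zero_or_pos 𝔖.inn.n with h0 | h0
    · exfalso
      rw [h0, e3] at e2
      exact hg.ne e2.symm
    · exact h0
  · intro k hk
    obtain ⟨b1, b2, -⟩ := a1 k hk
    rw [b2]
    rcases Nat.lt_or_ge (j k) n with h3 | h3
    · exact hKc _ ⟨_, h2 _ h3, rfl⟩
    · have : j k = n := le_antisymm b1 h3
      show pos (T.src (pvasIt T s 𝔖.dm (j k))) ∈ _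
      rw [this, h1]
      exact hKv _ hgp

/-- the black ends of the tip darts of twin states have the same positions -/
theorem pvpn_tp (L : PvLocP T (pvxT ω) R pos (pvxPos ω) Kr) {𝔖 : PvwSt T} {𝔖' : PvwSt (pvxT ω)} (G : PvLocSt R 𝔖 𝔖') : pvpnTp 𝔖' (pvxPos ω) = pvpnTp 𝔖 pos := by
  unfold pvpnTp
  rw [G.np]
  exact (L.pos_eq _ _ (G.ep _ le_rfl)).symm

theorem pvpn_tm (L : PvLocP T (pvxT ω) R pos (pvxPos ω) Kr) {𝔖 : PvwSt T} {𝔖' : PvwSt (pvxT ω)} (G : PvLocSt R 𝔖 𝔖') : pvpnTm 𝔖' (pvxPos ω) = pvpnTm 𝔖 pos := by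
  unfold pvpnTm
  rw [G.nm]
  exact (L.pos_eq _ _ (G.em _ le_rfl)).symm

/-- **the cut form, carried to the plane twin, in ENCODED form**      (`Defs/TrModel` v4 = `Tr/Defs` v3: mouths of radius `2 ρ h` round the centres of the tip cells) -/
theorem pvpn_pinOf_cut (L : PvLocP T (pvxT ω) R pos (pvxPos ω) Kr) {c : T.Cyc} {P : PvbRim} (hlen : P.len = c.n) (hPv : ∀ k, P.v k = pos (T.src (c.e k)))
    {𝔖 : PvwSt T} {𝔖' : PvwSt (pvxT ω)} (G : PvLocSt R 𝔖 𝔖') {N : PvwNum} {h : ℝ} {yp ym : ℂ} {BK : Set ℂ} {j : ℕ}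
    (hp : PvpnCut 𝔖 pos N h yp ym BK c j) : PvxPinOf 𝔖' N h yp ym BK P j := by
  have hn : 𝔖'.inn.n = 𝔖.inn.n := G.gt.inn.n_eq
  obtain ⟨h1, -, h2, ⟨B, b1, b2, b3⟩, ⟨A, a1, a2, a3⟩⟩ := hp
  refine ⟨by rw [hn, hlen]; exact h1, fun i hi => ?_, ⟨B, ?_, fun i hi => ?_, fun k hk hor => ?_⟩, ⟨A, a1, fun i hi => ?_, fun k hk hor => ?_⟩⟩
  · rw [hn] at hi
    rw [hPv, h2 i hi]
    exact pvlw_pos L (G.gt.inn.v_rel i hi)
  · rw [hn, hlen]; exact b1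
  · rw [hn, hPv]; exact b2 i hi
  · rw [hPv]
    rw [hn] at hor
    exact b3 k (hlen ▸ hk) hor
  · rw [hPv]; exact a2 i hi
  · rw [hPv]
    rw [hn] at hor
    exact a3 k (hlen ▸ hk) hor

/-- **the pin of the rim of the surface `T`, carried to the plane twin, in ENCODED form** (converse of `pvlx_pinOf` of 22) -/
theorem pvpn_pinOf (L : PvLocP T (pvxT ω) R pos (pvxPos ω) Kr) {c : T.Cyc} {P : PvbRim} (hlen : P.len = c.n) (hPv : ∀ k, P.v k = pos (T.src (c.e k)))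
    {𝔖 : PvwSt T} {𝔖' : PvwSt (pvxT ω)} (G : PvLocSt R 𝔖 𝔖') {N : PvwNum} {h : ℝ} {yp ym : ℂ} {BK : Set ℂ} {j : ℕ}
    (hl : 0 < 𝔖.inn.n) (hin : ∀ i, i ≤ 𝔖.inn.n → pos (𝔖.inn.v i) ∈ BK)
    (h0 : pos (T.src (c.e 0)) ∉ BK) (hp : 𝔖.PinOf pos N h yp ym BK c j) : PvxPinOf 𝔖' N h yp ym BK P (j % c.n) :=
  pvpn_pinOf_cut L hlen hPv G (pvpn_cut hl hin h0 hp)

/-- **STATE + PIN + SECOND GATE of the surface `T`  ⟹  the same on the plane**.      `s` = the colouring of `T` (`true` = the colour `b` of the rim). -/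
theorem pvpn_plane (L : PvLocP T (pvxT ω) R pos (pvxPos ω) Kr) (hT : T.IsSph) (hG : DelGood (pvxY ω)) {s : V → Bool} {b : Bool} (hs : ∀ d d', R d d' → s (T.src d) = pvxCol ω b ((pvxT ω).src d'))
    {c : T.Cyc} {P : PvbRim} (hlen : P.len = c.n) (hPv : ∀ k, P.v k = pos (T.src (c.e k))) {𝔖 𝔖₂ : PvwSt T} {N : PvwNum} {h : ℝ} {z : ℂ} {τ τ₂ : PvwTy} {BK : Set ℂ} {j : ℕ}
    (hK : Metric.closedBall z (τ.b * h) ⊆ BK) (hB : pvwSq z (pvwRad N h τ τ.k) ⊆ BK) (hBK : BK ⊆ Kr) (hK₂ : Metric.closedBall z (τ₂.b * h) ⊆ Kr) (h0 : pos (T.src (c.e 0)) ∉ BK)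
    (hat : 𝔖.At pos N h z τ s) (hp : 𝔖.PinOf pos N h (τ.cp h z) (τ.cm h z) BK c j) (hg₂ : 𝔖₂.Gate pos h z τ₂ s) :
    ∃ 𝔖' 𝔖₂' : PvwSt (pvxT ω), PvLocSt R 𝔖 𝔖' ∧ 𝔖'.At (pvxPos ω) N h z τ (pvxCol ω b) ∧ PvxPinOf 𝔖' N h (τ.cp h z) (τ.cm h z) BK P (j % c.n) ∧ 𝔖₂'.Gate (pvxPos ω) h z τ₂ (pvxCol ω b) := by
  have hT' : (pvxT ω).IsSph := delb_plane_isSph hG
  obtain ⟨𝔖', G⟩ := pvlw_st_exists L (hK.trans hBK) (hB.trans hBK) hat.out.gate ⟨hat.out.stub, hat.inn.stub⟩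
  obtain ⟨𝔖₂', G₂⟩ := pvlw_gt_exists L hK₂ hg₂
  obtain ⟨i1, -, -, i4⟩ := pvpn_inner hat.out.gate
  exact ⟨𝔖', 𝔖₂', G, pvlw_at L hT hT' hs G (hK.trans hBK) (hB.trans hBK) hat,
    pvpn_pinOf L hlen hPv G i1 (fun i hi => hK (i4 i hi)) h0 hp, pvlw_gate L hT hs G₂ hK₂ hg₂⟩

end plane

/-! ## 3. A completion -/

section inst

variable {X : Type} {𝔅 : PvBulk X} {x : ℂ} {R : ℝ} {ω : PVSample}

theorem pvpn_zi (hR : 0 < R) : x + 7 * (R : ℂ) ∉ Metric.closedBall x (6 * R) := by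
  rw [mem_closedBall_iff_norm, add_sub_cancel_left, norm_mul, Complex.norm_real, Real.norm_of_nonneg hR.le]
  have : ‖(7 : ℂ)‖ = 7 := by simp
  rw [this]
  linarith

/-- the positioned local isomorphism between a completion and the plane of record, with the colours -/
theorem pvpn_bulk (hR : 0 < R) (hG : DelGood (pvxY ω)) (hOk : 𝔅.Ok (pvxY ω) (Metric.closedBall x (6 * R))) (ξ : X → Bool) :
    ∃ Rl : 𝔅.D (pvxY ω) → (delbPl (pvxY ω)).Dart → Prop, PvLocP (𝔅.T (pvxY ω)) (pvxT ω) Rl (𝔅.posF (pvxY ω) (x + 7 * R)) (pvxPos ω) (Metric.closedBall x (6 * R)) ∧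
      ∀ b d d', Rl d d' → pvlfFl b (𝔅.col (pvConf ω) ξ) ((𝔅.T (pvxY ω)).src d) = pvxCol ω b ((pvxT ω).src d') := by
  unfold pvxT pvxCol pvxPos
  rw [delb_pl_eq hG]
  refine ⟨pvlocR 𝔅 hG _, pvlw_bulk hG hOk (pvpn_zi hR), fun b d d' hd => ?_⟩
  unfold pvlfFl
  have e : 𝔅.col (pvConf ω) ξ ((𝔅.T (pvxY ω)).src d) = cfCol (pvConf ω) ((delPl hG).toMap.src d' : ℂ) := pvloc_bulk_col (delb_col 𝔅 (pvConf ω) ξ) d d' hd
  exact congrArg (· == b) e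

/-- **what an encoded rim of `pvhbAll` is** (= `pvlx_all` of 22, KEEPING the place of the cut vertex) -/
theorem pvpn_all {P : PvbRim} (hP : P ∈ pvhbAll x R ω) :
    ∃ (X : Type) (𝔅 : PvBulk X) (ξ : X → Bool) (c : (𝔅.T (pvxY ω)).Cyc), 𝔅.Ok (pvxY ω) (Metric.closedBall x (6 * R)) ∧ c.IsRim (𝔅.col (pvConf ω) ξ) ∧
      4 * R ≤ ‖𝔅.posF (pvxY ω) (x + 7 * R) ((𝔅.T (pvxY ω)).src (c.e 0)) - x‖ ∧ P = 𝔅.enc (pvxY ω) (x + 7 * R) c := by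
  obtain ⟨X, -, 𝔅, ξ, -, hOk, c, hc, h4, rfl⟩ := hP
  exact ⟨X, 𝔅, ξ, c, hOk, hc, h4, rfl⟩

/-- the same with the admissibility of the bulk and the finiteness of the extra vertices (request of 12) -/
theorem pvpn_allA {P : PvbRim} (hP : P ∈ pvhbAll x R ω) :
    ∃ (X : Type) (_ : Fintype X) (𝔅 : PvBulk X) (ξ : X → Bool) (c : (𝔅.T (pvxY ω)).Cyc), 𝔅.Adm (pvxY ω) ∧ 𝔅.Ok (pvxY ω) (Metric.closedBall x (6 * R)) ∧ c.IsRim (𝔅.col (pvConf ω) ξ) ∧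
      4 * R ≤ ‖𝔅.posF (pvxY ω) (x + 7 * R) ((𝔅.T (pvxY ω)).src (c.e 0)) - x‖ ∧ P = 𝔅.enc (pvxY ω) (x + 7 * R) c := by
  obtain ⟨X, iX, 𝔅, ξ, hA, hOk, c, hc, h4, rfl⟩ := hP
  exact ⟨X, iX, 𝔅, ξ, c, hA, hOk, hc, h4, rfl⟩

/-- **(f) ENC**: state + pin + second gate on a completion (colouring `pvlfFl b col`: `true` = the colour `b`)  ⟹  plane state + encoded pin + plane second gate.      `BK` = the largest box, inside `ball x (4R)`: the cut vertex is outside. -/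
theorem pvpn_enc (hR : 0 < R) (hG : DelGood (pvxY ω)) (hOk : 𝔅.Ok (pvxY ω) (Metric.closedBall x (6 * R))) (ξ : X → Bool) {c : (𝔅.T (pvxY ω)).Cyc}
    (h4 : 4 * R ≤ ‖𝔅.posF (pvxY ω) (x + 7 * R) ((𝔅.T (pvxY ω)).src (c.e 0)) - x‖) {b : Bool} {𝔖 𝔖₂ : PvwSt (𝔅.T (pvxY ω))} {N : PvwNum} {h : ℝ} {z : ℂ} {τ τ₂ : PvwTy} {BK : Set ℂ} {j : ℕ}
    (hK : Metric.closedBall z (τ.b * h) ⊆ BK) (hB : pvwSq z (pvwRad N h τ τ.k) ⊆ BK) (hBK : BK ⊆ Metric.ball x (4 * R)) (hK₂ : Metric.closedBall z (τ₂.b * h) ⊆ Metric.closedBall x (6 * R))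
    (hat : 𝔖.At (𝔅.posF (pvxY ω) (x + 7 * R)) N h z τ (pvlfFl b (𝔅.col (pvConf ω) ξ))) (hp : 𝔖.PinOf (𝔅.posF (pvxY ω) (x + 7 * R)) N h (τ.cp h z) (τ.cm h z) BK c j)
    (hg₂ : 𝔖₂.Gate (𝔅.posF (pvxY ω) (x + 7 * R)) h z τ₂ (pvlfFl b (𝔅.col (pvConf ω) ξ))) :
    ∃ 𝔖' 𝔖₂' : PvwSt (pvxT ω), 𝔖'.ip = 𝔖.ip ∧ 𝔖'.inn.n = 𝔖.inn.n ∧ pvpnTp 𝔖' (pvxPos ω) = pvpnTp 𝔖 (𝔅.posF (pvxY ω) (x + 7 * R)) ∧ pvpnTm 𝔖' (pvxPos ω) = pvpnTm 𝔖 (𝔅.posF (pvxY ω) (x + 7 * R)) ∧ 𝔖'.At (pvxPos ω) N h z τ (pvxCol ω b) ∧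
      PvxPinOf 𝔖' N h (τ.cp h z) (τ.cm h z) BK (𝔅.enc (pvxY ω) (x + 7 * R) c) (j % c.n) ∧
      𝔖₂'.Gate (pvxPos ω) h z τ₂ (pvxCol ω b) := by
  obtain ⟨Rl, L, hcol⟩ := pvpn_bulk (𝔅 := 𝔅) hR hG hOk ξ
  have h0 : 𝔅.posF (pvxY ω) (x + 7 * R) ((𝔅.T (pvxY ω)).src (c.e 0)) ∉ BK := fun hm => by
    have := mem_ball_iff_norm.1 (hBK hm)
    linarith
  have hBK' : BK ⊆ Metric.closedBall x (6 * R) := hBK.trans (Metric.ball_subset_closedBall.trans (Metric.closedBall_subset_closedBall (by linarith)))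
  obtain ⟨𝔖', 𝔖₂', G, e1, e2, e3⟩ := pvpn_plane L hOk.sph hG (hcol b) (P := 𝔅.enc (pvxY ω) (x + 7 * R) c) rfl (fun _ => rfl) hK hB hBK' hK₂ h0 hat hp hg₂
  exact ⟨𝔖', 𝔖₂', G.gt.ip, G.gt.inn.n_eq, pvpn_tp L G, pvpn_tm L G, e1, e2, e3⟩

end inst

/-! ## 4. The exit -/

section exit

variable {τ : Type} {c₀ : ℝ} (𝔓 : PvxPar τ c₀) {X : Type} {𝔅 : PvBulk X} {x : ℂ} {R : ℝ} {ω : PVSample}

/-- the place of a vertex of the inner arc on the CUT rim -/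
theorem pvpn_idx {P : PvbRim} {𝔖 : PvwSt (pvxT ω)} {N : PvwNum} {h : ℝ} {yp ym : ℂ} {BK : Set ℂ} {j k i₀ : ℕ} (hp : PvxPinOf 𝔖 N h yp ym BK P (j % P.len)) (hk : k ≤ P.len) (hi : i₀ ≤ 𝔖.inn.n)
    (hki : k % P.len = (j + i₀) % P.len) : k = j % P.len + i₀ := by
  obtain ⟨A, hA, -⟩ := hp.mouth_m
  have h1 := hp.le
  have e : (j + i₀) % P.len = j % P.len + i₀ := by rw [← Nat.mod_add_mod, Nat.mod_eq_of_lt (by omega)]
  rw [e] at hki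
  rcases Nat.lt_or_ge k P.len with h2 | h2
  · rwa [Nat.mod_eq_of_lt h2] at hki
  · have : k = P.len := le_antisymm hk h2
    rw [this, Nat.mod_self] at hki
    omega

/-- the arc of the encoded rim between two places of the inner arc stays in the disc of the gate -/
theorem pvpn_join {P : PvbRim} {𝔖 : PvwSt (pvxT ω)} {N : PvwNum} {h : ℝ} {yp ym : ℂ} {BK : Set ℂ} {j : ℕ} {z : ℂ} {τ₀ : PvwTy} {s : ↥(pvxY ω) → Bool} (hg : 𝔖.Gate (pvxPos ω) h z τ₀ s) (hp : PvxPinOf 𝔖 N h yp ym BK P j)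
    {i : ℕ} (h1 : j ≤ i) (h2 : i ≤ j + 𝔖.inn.n) : ‖P.v i - z‖ ≤ τ₀.b * h := by
  obtain ⟨-, -, -, i4⟩ := pvpn_inner hg
  have := hp.run (i - j) (by omega)
  rw [show j + (i - j) = i by omega] at this
  rw [this]
  exact mem_closedBall_iff_norm.1 (i4 _ (by omega))

/-- **THE EXIT OF (f)**: a state `𝔖` of type `τ₀` at the grid centre `z` on a completion, pin of the rim `c`, with a second gate;   the MENU (`hmenu`, item (e)) finds a type `t` for the plane twin.      Then the encoded rim has a pin of record at `z`, with marked index `j % c.n + ip`,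
and every place `k ≡ j + i₀` (`i₀ ≤ inn.n`) of the inner arc is joined to the marked vertex inside `clB(z, b h)`      (= the conclusion of `PvxpDIH`, `Exit/Pins.lean`). -/
theorem pvpn_pins (hR : 0 < R) (hG : DelGood (pvxY ω)) (hOk : 𝔅.Ok (pvxY ω) (Metric.closedBall x (6 * R))) (ξ : X → Bool) {c : (𝔅.T (pvxY ω)).Cyc}
    (h4 : 4 * R ≤ ‖𝔅.posF (pvxY ω) (x + 7 * R) ((𝔅.T (pvxY ω)).src (c.e 0)) - x‖) {m : ℕ} {p : ℤ × ℤ} (hz : ‖l9Pt (pvlmH m) p - x‖ ≤ 3 * R) {b : Bool} {𝔖 𝔖₂ : PvwSt (𝔅.T (pvxY ω))} {τ₀ τ₂ : PvwTy} {j : ℕ}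
    (hK : Metric.closedBall (l9Pt (pvlmH m) p) (τ₀.b * pvlmH m) ⊆ pvwSq (l9Pt (pvlmH m) p) (pvwRad 𝔓.num (pvlmH m) τ₀ 𝔓.num.K))
    (hB : pvwSq (l9Pt (pvlmH m) p) (pvwRad 𝔓.num (pvlmH m) τ₀ τ₀.k) ⊆ pvwSq (l9Pt (pvlmH m) p) (pvwRad 𝔓.num (pvlmH m) τ₀ 𝔓.num.K))
    (hBK : pvwSq (l9Pt (pvlmH m) p) (pvwRad 𝔓.num (pvlmH m) τ₀ 𝔓.num.K) ⊆ Metric.ball x (4 * R)) (hK₂ : Metric.closedBall (l9Pt (pvlmH m) p) (τ₂.b * pvlmH m) ⊆ Metric.closedBall x (6 * R))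
    (hat : 𝔖.At (𝔅.posF (pvxY ω) (x + 7 * R)) 𝔓.num (pvlmH m) (l9Pt (pvlmH m) p) τ₀ (pvlfFl b (𝔅.col (pvConf ω) ξ)))
    (hp : 𝔖.PinOf (𝔅.posF (pvxY ω) (x + 7 * R)) 𝔓.num (pvlmH m) (τ₀.cp (pvlmH m) (l9Pt (pvlmH m) p)) (τ₀.cm (pvlmH m) (l9Pt (pvlmH m) p)) (pvwSq (l9Pt (pvlmH m) p) (pvwRad 𝔓.num (pvlmH m) τ₀ 𝔓.num.K)) c j)
    (hg₂ : 𝔖₂.Gate (𝔅.posF (pvxY ω) (x + 7 * R)) (pvlmH m) (l9Pt (pvlmH m) p) τ₂ (pvlfFl b (𝔅.col (pvConf ω) ξ)))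
    (hmenu : ∀ 𝔖' : PvwSt (pvxT ω), pvpnTp 𝔖' (pvxPos ω) = pvpnTp 𝔖 (𝔅.posF (pvxY ω) (x + 7 * R)) → pvpnTm 𝔖' (pvxPos ω) = pvpnTm 𝔖 (𝔅.posF (pvxY ω) (x + 7 * R)) →
      𝔖'.At (pvxPos ω) 𝔓.num (pvlmH m) (l9Pt (pvlmH m) p) τ₀ (pvxCol ω b) →
      PvxPinOf 𝔖' 𝔓.num (pvlmH m) (τ₀.cp (pvlmH m) (l9Pt (pvlmH m) p)) (τ₀.cm (pvlmH m) (l9Pt (pvlmH m) p)) (pvwSq (l9Pt (pvlmH m) p) (pvwRad 𝔓.num (pvlmH m) τ₀ 𝔓.num.K)) (𝔅.enc (pvxY ω) (x + 7 * R) c) (j % c.n) →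
      ∃ t, 𝔓.ty t = τ₀ ∧ 𝔓.ty2 t = τ₂ ∧ 𝔓.col t = b ∧ PvxAt 𝔓 m ω (l9Pt (pvlmH m) p) t 𝔖') :
    ∃ s ∈ pvxPins 𝔓 x R m ω (𝔅.enc (pvxY ω) (x + 7 * R) c), s.ctr = l9Pt (pvlmH m) p ∧ s.idx = j % c.n + 𝔖.ip ∧
      ∀ k i₀, k ≤ c.n → i₀ ≤ 𝔖.inn.n → k % c.n = (j + i₀) % c.n → ∀ i, (s.idx ≤ i ∧ i ≤ k ∨ k ≤ i ∧ i ≤ s.idx) → ‖(𝔅.enc (pvxY ω) (x + 7 * R) c).v i - l9Pt (pvlmH m) p‖ ≤ τ₀.b * pvlmH m := by
  obtain ⟨𝔖', 𝔖₂', e1, e2, x1, x2, e3, e4, e5⟩ := pvpn_enc hR hG hOk ξ h4 hK hB hBK hK₂ hat hp hg₂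
  obtain ⟨t, t1, t2, t3, t4⟩ := hmenu 𝔖' x1 x2 e3 e4
  refine ⟨⟨j % c.n + 𝔖.ip, l9Pt (pvlmH m) p, t⟩, ⟨hz, ⟨p, rfl⟩, 𝔖', j % c.n, t4, ?_, by rw [e1], 𝔖₂', ?_⟩, rfl, rfl, fun k i₀ hk hi hki i hor => ?_⟩
  · show PvxPinOf 𝔖' 𝔓.num (pvlmH m) ((𝔓.ty t).cp (pvlmH m) (l9Pt (pvlmH m) p)) ((𝔓.ty t).cm (pvlmH m) (l9Pt (pvlmH m) p)) (𝔓.box m (l9Pt (pvlmH m) p) t) _ _
    unfold PvxPar.box
    rw [t1]
    exact e4
  · show 𝔖₂'.Gate (pvxPos ω) (pvlmH m) (l9Pt (pvlmH m) p) (𝔓.ty2 t) (pvxCol ω (𝔓.col t))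
    rw [t2, t3]
    exact e5
  · have hk' : k = j % c.n + i₀ := pvpn_idx (P := 𝔅.enc (pvxY ω) (x + 7 * R) c) e4 hk (e2 ▸ hi) hki
    have hip : 𝔖.ip ≤ 𝔖.inn.n := hat.out.gate.ip_le
    refine pvpn_join e3.out.gate e4 ?_ ?_
    · rcases hor with ⟨a1, -⟩ | ⟨a1, -⟩
      · exact le_trans (Nat.le_add_right _ _) a1
      · omega
    · rw [e2]
      rcases hor with ⟨-, a2⟩ | ⟨-, a2⟩
      · omega
      · exact a2.trans (by show j % c.n + 𝔖.ip ≤ _; omega)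

end exit

/-! ## 5. (e) THE MENU COVERS EVERY GOOD STATE -/

section menu

variable {V D : Type} {T : PvMap V D}

/-- the positions of the sites of the rim arc carried by the exit stub, `LE(black bank of Σ⁺)`, and of the half `inn[ip, n]` of the inner arc off `closedBall z r`      (= what `PvxAt.mask_p`, `PvxAt.inn_p` put in the mask `Mp`; `r = (m - 1) h`) -/
def pvpnXp (𝔖 : PvwSt T) (pos : V → ℂ) (z : ℂ) (r : ℝ) : Set ℂ :=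
  {w | (∃ y : T.Pth, PvwLE T (fun i => T.src (𝔖.ep i)) 𝔖.np y ∧ ∃ v ∈ y.verts, pos v = w) ∨ ∃ i, 𝔖.ip ≤ i ∧ i ≤ 𝔖.inn.n ∧ r < ‖pos (𝔖.inn.v i) - z‖ ∧ pos (𝔖.inn.v i) = w}

/-- the positions of the sites of the rim arc carried by the entrance stub, `LE(black bank of Σ⁻)`, and of the half `inn[0, ip]` of the inner arc off `closedBall z r` -/
def pvpnXm (𝔖 : PvwSt T) (pos : V → ℂ) (z : ℂ) (r : ℝ) : Set ℂ :=
  {w | (∃ y : T.Pth, PvwLE T (fun i => T.src (𝔖.em i)) 𝔖.nm y ∧ ∃ v ∈ y.verts, pos v = w) ∨ ∃ i, i ≤ 𝔖.ip ∧ r < ‖pos (𝔖.inn.v i) - z‖ ∧ pos (𝔖.inn.v i) = w}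

/-- **SEP, metric form** (= NOT FLAG4 of 55 / 285, with the inner halves of R17 (a) of 234): the two rim arcs stay at distance `> d` -/
def PvpnSep (𝔖 : PvwSt T) (pos : V → ℂ) (z : ℂ) (r d : ℝ) : Prop := ∀ a ∈ pvpnXp 𝔖 pos z r, ∀ b ∈ pvpnXm 𝔖 pos z r, d < ‖a - b‖

theorem pvpn_eqns_cite : True := by
  have := @pvpnXp.eq_1; have := @pvpnXm.eq_1; have := @PvpnSep.eq_1
  trivial

/-- the vertices of a loop erasure are vertices of the walk -/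
theorem pvpn_le_sub {b : ℕ → V} {n : ℕ} {y : T.Pth} (h : PvwLE T b n y) {v : V} (hv : v ∈ y.verts) : ∃ i, i ≤ n ∧ v = b i := by
  obtain ⟨j, -, -, h1, -⟩ := h
  obtain ⟨k, hk, rfl⟩ := hv
  exact ⟨j k, (h1 k hk).1, (h1 k hk).2.1⟩

theorem pvpn_Xp_sub {𝔖 : PvwSt T} {pos : V → ℂ} {B : Set ℂ} {z : ℂ} {r : ℝ} (h : ∀ i, i ≤ 𝔖.np → pos (T.src (𝔖.ep i)) ∈ B) (hin : ∀ i, i ≤ 𝔖.inn.n → pos (𝔖.inn.v i) ∈ B) : pvpnXp 𝔖 pos z r ⊆ B := by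
  rintro w (⟨y, hy, v, hv, rfl⟩ | ⟨i, -, hi, -, rfl⟩)
  · obtain ⟨i, hi, rfl⟩ := pvpn_le_sub hy hv
    exact h i hi
  · exact hin i hi

theorem pvpn_Xm_sub {𝔖 : PvwSt T} {pos : V → ℂ} {B : Set ℂ} {z : ℂ} {r : ℝ} (h : ∀ i, i ≤ 𝔖.nm → pos (T.src (𝔖.em i)) ∈ B) (hip : 𝔖.ip ≤ 𝔖.inn.n) (hin : ∀ i, i ≤ 𝔖.inn.n → pos (𝔖.inn.v i) ∈ B) : pvpnXm 𝔖 pos z r ⊆ B := by
  rintro w (⟨y, hy, v, hv, rfl⟩ | ⟨i, hi, -, rfl⟩)
  · obtain ⟨i, hi, rfl⟩ := pvpn_le_sub hy hv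
    exact h i hi
  · exact hin i (hi.trans hip)

theorem pvpn_sq_mono (z : ℂ) {r r' : ℝ} (h : r ≤ r') : pvwSq z r ⊆ pvwSq z r' := fun _ hw => ⟨hw.1.trans h, hw.2.trans h⟩

end menu

section menu2

variable {τ : Type} {c₀ : ℝ} (𝔓 : PvxPar τ c₀) {ω : PVSample}

/-- **the menu of `𝔓` contains all the geometric types of 285** whose tip cells have the centres `τ₀.yp`, `τ₀.ym`, for the gate type `τ₀`, second annulus `τ₂`, colour `b`      (for `pvxParOf` of 73: `rfl`) -/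
def PvpnHas (n1 n2 g : ℕ) (e1 e2 : ℝ) (τ₀ τ₂ : PvwTy) (b : Bool) : Prop :=
  ∀ G : PvzgGeo n1 n2 g, G.cyp e1 = τ₀.yp → G.cym e1 = τ₀.ym →
    ∃ t, 𝔓.ty t = τ₀ ∧ 𝔓.ty2 t = τ₂ ∧ 𝔓.col t = b ∧ 𝔓.cp t = G.cp e1 ∧ 𝔓.cm t = G.cm e1 ∧ 𝔓.Mp t = G.Mp e2 ∧ 𝔓.Mm t = G.Mm e2

theorem pvpn_eqns_cite2 : True := by
  have := @PvpnHas.eq_1
  trivial

/-- the centre (units of `h`, relative to `z`) of the tip cell of mesh `e1` which contains the point `w` -/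
noncomputable def pvpnCtr (e1 h : ℝ) (z w : ℂ) : ℂ := pvzgCtr e1 (pvzgIdx e1 ((w - z) / (h : ℂ)))

theorem pvpn_eqns_cite3 : True := by
  have := @pvpnCtr.eq_1
  trivial

/-- **(e) THE FINITE MENU COVERS EVERY GOOD STATE**: a plane state of gate type `τ₀`, colour `b`, whose box has half side `≤ r h` (and contains the disc of the gate), the centres `τ₀.yp`, `τ₀.ym` = the centres of the cells of the black ends of its tip darts, with SEP (metric form), has a type -/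
theorem pvpn_menu {n1 n2 g : ℕ} {e1 e2 r : ℝ} {τ₀ τ₂ : PvwTy} {b : Bool} (hcov : PvpnHas 𝔓 n1 n2 g e1 e2 τ₀ τ₂ b) (he1 : 0 < e1) (he2 : 0 < e2) (hr1 : r ≤ n1 * e1) (hr2 : r ≤ n2 * e2)
    {m : ℕ} (hm0 : 𝔓.m0 ≤ m) {z : ℂ} (hrad : pvwRad 𝔓.num (pvlmH m) τ₀ τ₀.k ≤ r * pvlmH m) (hb : τ₀.b ≤ r) (hG : DelGood (pvxY ω)) {𝔖 : PvwSt (pvxT ω)} (hat : 𝔖.At (pvxPos ω) 𝔓.num (pvlmH m) z τ₀ (pvxCol ω b))
    (hyp : τ₀.yp = pvpnCtr e1 (pvlmH m) z (pvpnTp 𝔖 (pvxPos ω))) (hym : τ₀.ym = pvpnCtr e1 (pvlmH m) z (pvpnTm 𝔖 (pvxPos ω)))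
    (hsep : PvpnSep 𝔖 (pvxPos ω) z ((𝔓.num.m - 1) * pvlmH m) (2 * ((g : ℝ) + 1) * e2 * pvlmH m)) : ∃ t, 𝔓.ty t = τ₀ ∧ 𝔓.ty2 t = τ₂ ∧ 𝔓.col t = b ∧ PvxAt 𝔓 m ω z t 𝔖 := by
  have hm := pvpn_sq_mono z hrad
  obtain ⟨-, -, -, i4⟩ := pvpn_inner hat.out.gate
  have hin : ∀ i, i ≤ 𝔖.inn.n → pvxPos ω (𝔖.inn.v i) ∈ pvwSq z (r * pvlmH m) := fun i hi => by
    have h1 := mem_closedBall_iff_norm.1 (i4 i hi)
    have h2 : τ₀.b * pvlmH m ≤ r * pvlmH m := mul_le_mul_of_nonneg_right hb (pvlm_H_pos m).le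
    exact ⟨((Complex.abs_re_le_norm _).trans h1).trans h2, ((Complex.abs_im_le_norm _).trans h1).trans h2⟩
  have hsP : ∀ i, i ≤ 𝔖.np → pvxPos ω ((pvxT ω).src (𝔖.ep i)) ∈ pvwSq z (r * pvlmH m) := fun i hi => hm (hat.out.stub.ep_in i hi).1
  have hsM : ∀ i, i ≤ 𝔖.nm → pvxPos ω ((pvxT ω).src (𝔖.em i)) ∈ pvwSq z (r * pvlmH m) := fun i hi => hm (hat.inn.stub.em_in i hi).1
  obtain ⟨G, g1, g2, g3, g4, -, -⟩ := pvzg_geo (n1 := n1) (n2 := n2) (g := g) (pvlm_H_pos m) he1 he2 hr1 hr2 (xp := pvpnTp 𝔖 (pvxPos ω)) (xm := pvpnTm 𝔖 (pvxPos ω)) (hsP _ le_rfl) (hsM _ le_rfl)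
    (pvpn_Xp_sub hsP hin) (pvpn_Xm_sub hsM hat.out.gate.ip_le hin) hsep
  have c1 : G.cyp e1 = τ₀.yp := by
    rw [hyp]
    unfold pvpnCtr PvzgGeo.cyp
    rw [(pvzg_mem_cell_iff he1).1 ((pvzg_mem_pl (pvlm_H_pos m)).1 g1)]
  have c2 : G.cym e1 = τ₀.ym := by
    rw [hym]
    unfold pvpnCtr PvzgGeo.cym
    rw [(pvzg_mem_cell_iff he1).1 ((pvzg_mem_pl (pvlm_H_pos m)).1 g2)]
  obtain ⟨t, t1, t2, t3, t4, t5, t6, t7⟩ := hcov G c1 c2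
  refine ⟨t, t1, t2, t3, hG, by rw [t1, t3]; exact hat, by rw [t4]; exact g1, by rw [t5]; exact g2, fun y hy v hv => ?_, fun y hy v hv => ?_, fun i h1 h2 h3 => ?_, fun i h1 h3 => ?_, hm0⟩
  · rw [t6]; exact g3 (Or.inl ⟨y, hy, v, hv, rfl⟩)
  · rw [t7]; exact g4 (Or.inl ⟨y, hy, v, hv, rfl⟩)
  · rw [t6]; exact g3 (Or.inr ⟨i, h1, h2, h3, rfl⟩)
  · rw [t7]; exact g4 (Or.inr ⟨i, h1, h3, rfl⟩)

end menu2

/-! ## 6. (e) + (f) with numerical hypotheses -/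

section main

theorem pvpn_ball_sub_sq (z : ℂ) {r r' : ℝ} (h : r ≤ r') : Metric.closedBall z r ⊆ pvwSq z r' := fun w hw => by
  have hw' := mem_closedBall_iff_norm.1 hw
  exact ⟨((Complex.abs_re_le_norm _).trans hw').trans h, ((Complex.abs_im_le_norm _).trans hw').trans h⟩

theorem pvpn_sq_norm {z w : ℂ} {r : ℝ} (hw : w ∈ pvwSq z r) : ‖w - z‖ ≤ 2 * r := by
  have := Complex.norm_le_abs_re_add_abs_im (w - z)
  linarith [hw.1, hw.2]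

theorem pvpn_sq_sub_ball {x z : ℂ} {r R : ℝ} (hz : ‖z - x‖ ≤ 3 * R) (hr : 2 * r < R) : pvwSq z r ⊆ Metric.ball x (4 * R) := fun w hw => by
  rw [mem_ball_iff_norm]
  have h1 := pvpn_sq_norm hw
  have h2 : ‖w - x‖ ≤ ‖w - z‖ + ‖z - x‖ := by
    calc ‖w - x‖ = ‖(w - z) + (z - x)‖ := by ring_nf
      _ ≤ _ := norm_add_le _ _
  linarith

theorem pvpn_ball_sub_ball {x z : ℂ} {r R : ℝ} (hz : ‖z - x‖ ≤ 3 * R) (hr : r ≤ 3 * R) : Metric.closedBall z r ⊆ Metric.closedBall x (6 * R) := fun w hw => by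
  rw [mem_closedBall_iff_norm] at hw ⊢
  have h2 : ‖w - x‖ ≤ ‖w - z‖ + ‖z - x‖ := by
    calc ‖w - x‖ = ‖(w - z) + (z - x)‖ := by ring_nf
      _ ≤ _ := norm_add_le _ _
  linarith

theorem pvpn_rad_mono {N : PvwNum} {h : ℝ} (τ : PvwTy) {k k' : ℕ} (hρ : 0 ≤ N.rho1) (hh : 0 ≤ h) (hk : k ≤ k') : pvwRad N h τ k ≤ pvwRad N h τ k' := by
  unfold pvwRad
  have : (k : ℝ) ≤ k' := by exact_mod_cast hk
  exact mul_le_mul_of_nonneg_right (by nlinarith) hh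

variable {τ : Type} {c₀ : ℝ} (𝔓 : PvxPar τ c₀) {X : Type} {𝔅 : PvBulk X} {x : ℂ} {R : ℝ} {ω : PVSample}

/-- **(e) + (f), THE EXIT FOR `PvxpDIH`** (`Exit/Pins.lean`).      ON THE COMPLETION: a state `𝔖` of gate type `τ₀` at the grid centre `z`, pin of the rim `c` at the place `j` (ANY representative), a second gate of type `τ₂`.      ON THE PLANE: SEP (= NOT FLAG4) for the states of type `τ₀`, colour `b` at `z`.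
NUMBERS: the menu has the geometric types of 285;   the largest box is small against `R`.      THEN the encoded rim has a pin of record at `z`, joined inside `clB(z, b h)` to every place of the inner arc. -/
theorem pvpn_main {n1 n2 g : ℕ} {e1 e2 r : ℝ} {τ₀ τ₂ : PvwTy} {b : Bool} (hcov : PvpnHas 𝔓 n1 n2 g e1 e2 τ₀ τ₂ b) (he1 : 0 < e1) (he2 : 0 < e2) (hr1 : r ≤ n1 * e1) (hr2 : r ≤ n2 * e2)
    (hρ : 0 ≤ 𝔓.num.rho1) (hb : τ₀.b ≤ 2 * τ₀.b2) (hr : 2 * τ₀.b2 + 𝔓.num.K * 𝔓.num.rho1 ≤ r)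
    (hR : 0 < R) (hG : DelGood (pvxY ω)) (hOk : 𝔅.Ok (pvxY ω) (Metric.closedBall x (6 * R))) (ξ : X → Bool) {c : (𝔅.T (pvxY ω)).Cyc}
    (h4 : 4 * R ≤ ‖𝔅.posF (pvxY ω) (x + 7 * R) ((𝔅.T (pvxY ω)).src (c.e 0)) - x‖) {m : ℕ} (hm0 : 𝔓.m0 ≤ m) {p : ℤ × ℤ} (hz : ‖l9Pt (pvlmH m) p - x‖ ≤ 3 * R)
    (hsm : 2 * (r * pvlmH m) < R) (hb₂ : τ₂.b * pvlmH m ≤ 3 * R) {𝔖 𝔖₂ : PvwSt (𝔅.T (pvxY ω))} {j : ℕ}
    (hat : 𝔖.At (𝔅.posF (pvxY ω) (x + 7 * R)) 𝔓.num (pvlmH m) (l9Pt (pvlmH m) p) τ₀ (pvlfFl b (𝔅.col (pvConf ω) ξ)))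
    (hp : 𝔖.PinOf (𝔅.posF (pvxY ω) (x + 7 * R)) 𝔓.num (pvlmH m) (τ₀.cp (pvlmH m) (l9Pt (pvlmH m) p)) (τ₀.cm (pvlmH m) (l9Pt (pvlmH m) p)) (pvwSq (l9Pt (pvlmH m) p) (pvwRad 𝔓.num (pvlmH m) τ₀ 𝔓.num.K)) c j)
    (hg₂ : 𝔖₂.Gate (𝔅.posF (pvxY ω) (x + 7 * R)) (pvlmH m) (l9Pt (pvlmH m) p) τ₂ (pvlfFl b (𝔅.col (pvConf ω) ξ)))
    (hyp : τ₀.yp = pvpnCtr e1 (pvlmH m) (l9Pt (pvlmH m) p) (pvpnTp 𝔖 (𝔅.posF (pvxY ω) (x + 7 * R)))) (hym : τ₀.ym = pvpnCtr e1 (pvlmH m) (l9Pt (pvlmH m) p) (pvpnTm 𝔖 (𝔅.posF (pvxY ω) (x + 7 * R))))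
    (hsep : ∀ 𝔖' : PvwSt (pvxT ω), 𝔖'.At (pvxPos ω) 𝔓.num (pvlmH m) (l9Pt (pvlmH m) p) τ₀ (pvxCol ω b) →
      PvxPinOf 𝔖' 𝔓.num (pvlmH m) (τ₀.cp (pvlmH m) (l9Pt (pvlmH m) p)) (τ₀.cm (pvlmH m) (l9Pt (pvlmH m) p)) (pvwSq (l9Pt (pvlmH m) p) (pvwRad 𝔓.num (pvlmH m) τ₀ 𝔓.num.K)) (𝔅.enc (pvxY ω) (x + 7 * R) c) (j % c.n) → PvpnSep 𝔖' (pvxPos ω) (l9Pt (pvlmH m) p) ((𝔓.num.m - 1) * pvlmH m) (2 * ((g : ℝ) + 1) * e2 * pvlmH m)) :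
    ∃ s ∈ pvxPins 𝔓 x R m ω (𝔅.enc (pvxY ω) (x + 7 * R) c), s.ctr = l9Pt (pvlmH m) p ∧ s.idx = j % c.n + 𝔖.ip ∧
      ∀ k i₀, k ≤ c.n → i₀ ≤ 𝔖.inn.n → k % c.n = (j + i₀) % c.n → ∀ i, (s.idx ≤ i ∧ i ≤ k ∨ k ≤ i ∧ i ≤ s.idx) → ‖(𝔅.enc (pvxY ω) (x + 7 * R) c).v i - l9Pt (pvlmH m) p‖ ≤ τ₀.b * pvlmH m := by
  have hh := pvlm_H_pos m
  have hK0 : (0 : ℝ) ≤ 𝔓.num.K * 𝔓.num.rho1 := mul_nonneg (Nat.cast_nonneg _) hρ
  have hradK : pvwRad 𝔓.num (pvlmH m) τ₀ 𝔓.num.K ≤ r * pvlmH m := by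
    unfold pvwRad
    exact mul_le_mul_of_nonneg_right hr hh.le
  have hmono := pvpn_rad_mono (N := 𝔓.num) τ₀ hρ hh.le hat.out.lev
  refine pvpn_pins 𝔓 hR hG hOk ξ h4 hz (pvpn_ball_sub_sq _ ?_) (pvpn_sq_mono _ hmono) (pvpn_sq_sub_ball hz (by linarith)) (pvpn_ball_sub_ball hz hb₂) hat hp hg₂
    fun 𝔖' x1 x2 h' hp' => pvpn_menu 𝔓 hcov he1 he2 hr1 hr2 hm0 (hmono.trans hradK) (by linarith) hG h' (x1 ▸ hyp) (x2 ▸ hym) (hsep 𝔖' h' hp')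
  unfold pvwRad
  exact mul_le_mul_of_nonneg_right (by linarith) hh.le

end main

end Claimed.Agent.R289
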