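-- KEEP
import Claimed.Agent.R289.Tr.PinEnc
import Claimed.Agent.R289.Exit.Par

/-!
# Row 289 (S0537, Cardy for Poisson-Voronoi), THE WALL, X3 = PIN EXISTS, items (e) + (f) AT THE PARAMETERS OF RECORD, file Tr/PinEncP      (owner helper66; prefix `pvpo_`, `Pvpo`)

WHAT.  `Tr/PinEnc.lean` proves (e) THE MENU COVERS + (f) ENC for abstract parameters `𝔓` whose menu contains the geometric types of 285 (`PvpnHas`).      Here `𝔓 = pvxParOf N hN c` of 73 (`Exit/Par.lean` v2: NON DEGENERATE types, levels `k ≤ N.K0`).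

* `pvpo_has`   : `PvpnHas (pvxParOf N hN c) ..` for a non degenerate gate type `⟨a₁, b₁, a₂, b₂, k, o, yp, ym⟩`
* `pvpo_nd`    : the tip inside the box of level `k`, its apex outside, at distance `≤ ρ h / 20`  ⟹  the centre of the cell of the tip is non degenerate
* `pvpo_far`   : the two centres are far from each other (clauses `far_p`, `tip_m` of the state)
* **`pvpo_main`** = `pvpn_main` at `pvxParOf N hN c`: state + pin + second gate ON THE COMPLETION, mesh at the two tip faces, SEP on the plane  ⟹  a pin of record of the encoded rim (conclusion of `PvpjDI` / `PvxpDIH`)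
-/

set_option autoImplicit false

namespace Claimed.Agent.R289

open Set Claims.C0465

section has

variable (N : PvxNums) (hN : N.Ok) (c : ℝ)

/-- the menu of record contains the geometric types of a non degenerate gate type -/
theorem pvpo_has {k : ℕ} (hk : k ≤ N.K0) (b o o2 : Bool) {yp ym : ℂ} (hp : |pvccN yp - N.rad k| ≤ N.rho / 10) (hm : |pvccN ym - N.rad k| ≤ N.rho / 10) (hf : 7 / 4 * N.rho ≤ ‖yp - ym‖) :
    PvpnHas (pvxParOf N hN c) N.n1 N.n2 N.g N.e1 N.rho3 ⟨N.a1, N.b1, N.a2, N.b2, k, o, yp, ym⟩ ((⟨N.a1, N.b1, N.a2, N.b2, k, o, yp, ym⟩ : PvwTy).outer o2) b := by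
  intro G c1 c2
  have c1' : G.cyp N.e1 = yp := c1
  have c2' : G.cym N.e1 = ym := c2
  have e1 : PvxoNd N k G.yp := by
    unfold PvxoNd
    have : pvzgCtr N.e1 G.yp = yp := c1'
    rw [this]; exact hp
  have e2 : PvxoNd N k G.ym := by
    unfold PvxoNd
    have : pvzgCtr N.e1 G.ym = ym := c2'
    rw [this]; exact hm
  have e3 : PvxoFar N G.yp G.ym := by
    unfold PvxoFar
    have h1 : pvzgCtr N.e1 G.yp = yp := c1'
    have h2 : pvzgCtr N.e1 G.ym = ym := c2'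
    rw [h1, h2]; exact hf
  have t1 : (pvxParOf N hN c).ty (pvxoMk k hk b o o2 G e1 e2 e3) = ⟨N.a1, N.b1, N.a2, N.b2, k, o, yp, ym⟩ := by
    rw [pvxo_ty, pvxo_mk_ty, c1', c2']
  refine ⟨pvxoMk k hk b o o2 G e1 e2 e3, t1, ?_, rfl, rfl, rfl, rfl, rfl⟩
  rw [pvxo_ty2, t1]
  rfl

end has

section nd

/-- sup norm against the norm -/
theorem pvpo_N_le (w : ℂ) : pvccN w ≤ ‖w‖ := max_le (Complex.abs_re_le_norm w) (Complex.abs_im_le_norm w)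

/-- a point of the box of half side `r` with a neighbour outside at distance `≤ d` lies within `d` (sup norm) of the boundary -/
theorem pvpo_bdry {z w a : ℂ} {r d : ℝ} (hw : w ∈ pvwSq z r) (ha : a ∉ pvwSq z r) (hd : ‖a - w‖ ≤ d) : |pvccN (w - z) - r| ≤ d := by
  rw [pvxo_mem_sq] at hw ha
  have h1 : |pvccN (a - z) - pvccN (w - z)| ≤ pvccN ((a - z) - (w - z)) := pvxo_N_sub _ _
  have h2 : (a - z) - (w - z) = a - w := by ring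
  rw [h2] at h1
  have h3 := (abs_le.1 (h1.trans ((pvpo_N_le _).trans hd))).2
  rw [abs_le]
  constructor <;> linarith

/-- **the centre of the cell of a tip is NON DEGENERATE** -/
theorem pvpo_nd {N : PvxNums} (hN : N.Ok) {k : ℕ} {z w a : ℂ} {h : ℝ} (hh : 0 < h) (hw : w ∈ pvwSq z (N.rad k * h)) (ha : a ∉ pvwSq z (N.rad k * h)) (hd : ‖a - w‖ ≤ N.rho / 20 * h) :
    |pvccN (pvpnCtr N.e1 h z w) - N.rad k| ≤ N.rho / 10 := by
  have h1 : w ∈ pvxPl z h (pvzgCell N.e1 (pvzgIdx N.e1 ((w - z) / (h : ℂ)))) := (pvzg_mem_pl hh).2 (pvzg_mem_cell_idx hN.e1_pos _)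
  exact pvxo_nd_of_pl hh h1 (pvpo_bdry hw ha hd)

/-- the tip lies within `ρ h / 10` of the centre of its cell -/
theorem pvpo_ctr_near {N : PvxNums} (hN : N.Ok) {z w : ℂ} {h : ℝ} (hh : 0 < h) : ‖w - (z + (h : ℂ) * pvpnCtr N.e1 h z w)‖ ≤ N.rho / 10 * h := by
  have hc : (h : ℂ) ≠ 0 := by exact_mod_cast hh.ne'
  have h1 := pvzg_ctr_near (pvzg_mem_cell_idx hN.e1_pos ((w - z) / (h : ℂ)))
  have e : w - (z + (h : ℂ) * pvpnCtr N.e1 h z w) = (h : ℂ) * ((w - z) / (h : ℂ) - pvzgCtr N.e1 (pvzgIdx N.e1 ((w - z) / (h : ℂ)))) := by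
    unfold pvpnCtr
    field_simp
    ring
  rw [e, norm_mul, Complex.norm_real, Real.norm_eq_abs, abs_of_pos hh, mul_comm]
  exact mul_le_mul_of_nonneg_right h1 hh.le

end nd

section main

variable (N : PvxNums) (hN : N.Ok) (c₀ : ℝ) {X : Type} {𝔅 : PvBulk X} {x : ℂ} {R : ℝ} {ω : PVSample}

/-- the two centres of a state are far from each other -/
theorem pvpo_far {V D : Type} {T : PvMap V D} {pos : V → ℂ} {𝔖 : PvwSt T} {M : PvwNum} {h : ℝ} {z : ℂ} {τ : PvwTy} {s : V → Bool} (hh : 0 < h) (hat : 𝔖.At pos M h z τ s) : 7 / 4 * M.rho ≤ ‖τ.yp - τ.ym‖ := by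
  have h1 : 2 * M.rho * h < ‖pos (T.src (𝔖.em 𝔖.nm)) - τ.cp h z‖ := hat.far_p _ (Or.inl (Or.inr ⟨𝔖.nm, le_rfl, rfl⟩))
  have h2 : ‖pos (T.src (𝔖.em 𝔖.nm)) - τ.cm h z‖ ≤ M.rho * h / 4 := hat.inn.good.tip_m.1
  unfold PvwTy.cp at h1
  unfold PvwTy.cm at h2
  have h3 : ‖pos (T.src (𝔖.em 𝔖.nm)) - (z + (h : ℂ) * τ.yp)‖ ≤ ‖pos (T.src (𝔖.em 𝔖.nm)) - (z + (h : ℂ) * τ.ym)‖ + ‖(h : ℂ) * (τ.yp - τ.ym)‖ := by
    have e : pos (T.src (𝔖.em 𝔖.nm)) - (z + (h : ℂ) * τ.yp) = (pos (T.src (𝔖.em 𝔖.nm)) - (z + (h : ℂ) * τ.ym)) - (h : ℂ) * (τ.yp - τ.ym) := by ring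
    rw [e]
    exact norm_sub_le _ _
  rw [norm_mul, Complex.norm_real, Real.norm_eq_abs, abs_of_pos hh] at h3
  have h5 : (7 / 4 * M.rho) * h ≤ ‖τ.yp - τ.ym‖ * h := by linarith
  exact le_of_mul_le_mul_right h5 hh

/-- **(e) + (f) AT THE PARAMETERS OF RECORD**.      ON THE COMPLETION: a state `𝔖` of gate type `⟨a₁, b₁, a₂, b₂, k, o, yp, ym⟩`, `k ≤ N.K0`, `yp ym` = the centres of the cells (mesh `e₁ = ρ / 10`) of the black ends of its tip darts, at the grid centre `z`;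
pin of the rim `c` at the place `j` (ANY representative);   a second gate of type `outer o2`;   MESH: the tip apexes within `ρ h / 20` of the black ends of the tip darts.      ON THE PLANE: SEP for the states of this type.
THEN the encoded rim has a pin of record at `z`, joined inside `clB(z, b₁ h)` to every place of the inner arc. -/
theorem pvpo_main {k : ℕ} (hk : k ≤ N.K0) {b o o2 : Bool} {yp ym : ℂ}
    (hR : 0 < R) (hG : DelGood (pvxY ω)) (hOk : 𝔅.Ok (pvxY ω) (Metric.closedBall x (6 * R))) (ξ : X → Bool) {c : (𝔅.T (pvxY ω)).Cyc}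
    (h4 : 4 * R ≤ ‖𝔅.posF (pvxY ω) (x + 7 * R) ((𝔅.T (pvxY ω)).src (c.e 0)) - x‖) {m : ℕ} (hm0 : N.m0 ≤ m) {p : ℤ × ℤ} (hz : ‖l9Pt (pvlmH m) p - x‖ ≤ 3 * R)
    (hsm : 2 * (N.big * pvlmH m) < R) {𝔖 𝔖₂ : PvwSt (𝔅.T (pvxY ω))} {j : ℕ}
    (hat : 𝔖.At (𝔅.posF (pvxY ω) (x + 7 * R)) N.num (pvlmH m) (l9Pt (pvlmH m) p) ⟨N.a1, N.b1, N.a2, N.b2, k, o, yp, ym⟩ (pvlfFl b (𝔅.col (pvConf ω) ξ)))
    (hp : 𝔖.PinOf (𝔅.posF (pvxY ω) (x + 7 * R)) N.num (pvlmH m) (l9Pt (pvlmH m) p + (pvlmH m : ℂ) * yp) (l9Pt (pvlmH m) p + (pvlmH m : ℂ) * ym) (pvwSq (l9Pt (pvlmH m) p) (N.rad N.K * pvlmH m)) c j)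
    (hg₂ : 𝔖₂.Gate (𝔅.posF (pvxY ω) (x + 7 * R)) (pvlmH m) (l9Pt (pvlmH m) p) ((⟨N.a1, N.b1, N.a2, N.b2, k, o, yp, ym⟩ : PvwTy).outer o2) (pvlfFl b (𝔅.col (pvConf ω) ξ)))
    (hyp : yp = pvpnCtr N.e1 (pvlmH m) (l9Pt (pvlmH m) p) (pvpnTp 𝔖 (𝔅.posF (pvxY ω) (x + 7 * R)))) (hym : ym = pvpnCtr N.e1 (pvlmH m) (l9Pt (pvlmH m) p) (pvpnTm 𝔖 (𝔅.posF (pvxY ω) (x + 7 * R))))
    (hap : ‖𝔅.posF (pvxY ω) (x + 7 * R) 𝔖.ap - pvpnTp 𝔖 (𝔅.posF (pvxY ω) (x + 7 * R))‖ ≤ N.rho / 20 * pvlmH m)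
    (ham : ‖𝔅.posF (pvxY ω) (x + 7 * R) 𝔖.am - pvpnTm 𝔖 (𝔅.posF (pvxY ω) (x + 7 * R))‖ ≤ N.rho / 20 * pvlmH m)
    (hsep : ∀ 𝔖' : PvwSt (pvxT ω), 𝔖'.At (pvxPos ω) N.num (pvlmH m) (l9Pt (pvlmH m) p) ⟨N.a1, N.b1, N.a2, N.b2, k, o, yp, ym⟩ (pvxCol ω b) →
      PvxPinOf 𝔖' N.num (pvlmH m) (l9Pt (pvlmH m) p + (pvlmH m : ℂ) * yp) (l9Pt (pvlmH m) p + (pvlmH m : ℂ) * ym) (pvwSq (l9Pt (pvlmH m) p) (N.rad N.K * pvlmH m)) (𝔅.enc (pvxY ω) (x + 7 * R) c) (j % c.n) →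
      PvpnSep 𝔖' (pvxPos ω) (l9Pt (pvlmH m) p) ((N.m - 1) * pvlmH m) (2 * ((N.g : ℝ) + 1) * N.rho3 * pvlmH m)) :
    ∃ s ∈ pvxPins (pvxParOf N hN c₀) x R m ω (𝔅.enc (pvxY ω) (x + 7 * R) c), s.ctr = l9Pt (pvlmH m) p ∧ s.idx = j % c.n + 𝔖.ip ∧
      ∀ k' i₀, k' ≤ c.n → i₀ ≤ 𝔖.inn.n → k' % c.n = (j + i₀) % c.n → ∀ i, (s.idx ≤ i ∧ i ≤ k' ∨ k' ≤ i ∧ i ≤ s.idx) → ‖(𝔅.enc (pvxY ω) (x + 7 * R) c).v i - l9Pt (pvlmH m) p‖ ≤ N.b1 * pvlmH m := by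
  have hh := pvlm_H_pos m
  have n1 : |pvccN yp - N.rad k| ≤ N.rho / 10 := by
    rw [hyp]
    exact pvpo_nd hN hh (hat.out.stub.ep_in _ le_rfl).1 hat.out.stub.ep_out hap
  have n2 : |pvccN ym - N.rad k| ≤ N.rho / 10 := by
    rw [hym]
    exact pvpo_nd hN hh (hat.inn.stub.em_in _ le_rfl).1 hat.inn.stub.em_out ham
  have n3 : 7 / 4 * N.rho ≤ ‖yp - ym‖ := pvpo_far hh hat
  have hb2 := hN.b2_pos
  have hb12 : N.b1 ≤ N.b2 := by linarith [hN.gap, hN.ab2]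
  exact pvpn_main (pvxParOf N hN c₀) (pvpo_has N hN c₀ hk b o o2 n1 n2 n3) hN.e1_pos hN.msk0 hN.big_le_n1 hN.big_le_n2 hN.rho1_pos.le
    (show N.b1 ≤ 2 * N.b2 by linarith) (show 2 * N.b2 + (N.K : ℝ) * N.rho1 ≤ N.big by unfold PvxNums.big; linarith [hN.shell]) hR hG hOk ξ h4 hm0 hz hsm
    (show N.b2 * pvlmH m ≤ 3 * R by
      have : N.b2 * pvlmH m ≤ N.big * pvlmH m := mul_le_mul_of_nonneg_right (by unfold PvxNums.big; linarith) hh.le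
      linarith) hat hp hg₂ hyp hym hsep

end main

end Claimed.Agent.R289
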