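-- KEEP
import Claimed.Agent.R289.Tr.FlagA
import Claimed.Agent.R289.Exit.Pins

/-!
# Row 289 (S0537, Cardy for Poisson-Voronoi), THE WALL, chapter C (X4 = FLAG COSTS), file Tr/FlagAM : FLAG1 AT THE MODEL, IN THE SHAPE IN WHICH THE ROOF OF THE PINS CONSUMES A FLAG      (helper235; prefix `pvfam_`)

CONSUMER: `Exit/Pins.lean` (12): `PvxpFlag h w ζ Flag` = `Flag m p` reads the window `pvtdWin (h m) w p`, and `pvP ε (Flag m p) ≤ ζ` in the ordered limit, uniformly in `p`.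

* sec.1  CALCULUS OF `PvxpFlag`: `pvfam_mono` (window, budget), `pvfam_union`, `pvfam_empty`.
* sec.2  **GENERIC PRODUCER** `pvfam_of_unit`: ONE measurable event `𝔽` of unit scale, read from `closedBall 0 rE ×ˢ univ`, `rE ≤ w`, with `pvP ε 𝔽 ≤ p + e ε`, `e → 0`, `p < ζ`
         ⟹ its copies `pvfamAt h 𝔽 m p` at the centres `l9Pt (h m) p` and the scales `h m` are static local flags (`PvxpFlag h w ζ`), for EVERY sequence of scales.      For FLAG2, FLAG4 and the flags of road P.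
* sec.3  FLAG0 = THE MESH FAILS IN THE WINDOW (`vormG` of `Vor/Mesh`: measurable, local, probability `→ 0`).      WHY: the fine event `L9Fine` of the roof does NOT give `VorDense`; a representing event (`PvplRep`, 238) speaks only on the mesh event.
         So every flag produced from `PvplRep` CONTAINS FLAG0: `pvfam_rep_use` (off the flag: the mesh holds in the window and the predicate `Φ` FAILS at the plane map of the sample `pvxT ω`, marks `θ ((pos v - z) / h)`, colours `cfCol`).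
* sec.4  grid marks against real positions: boxes, far points.
* sec.5  **`pvfam_flag1`** THE EXIT: `PvaxQbx q`, box `r`, step `a₀`, budget `ζ`, `2 r + a₀ ≤ w`  ⟹  `∃ K₁ > 0`, for all scales `∃ Flag`, `PvxpFlag h w ζ Flag` and, off the flag at `(m,p)`, on `DelGood`:
         EVERY strand of `pvxCol ω b` (both `b`: forward stubs and backward stubs) makes `< K₁` steps of size `a₀ h` before it leaves a face box `pvlvBox (pvxT ω) (pvxPos ω) z r'`, `r' ≤ r h`   (= the two summands of `hN` in `pvlv_strand_good`).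
* sec.6  THE VOCABULARY OF RECORD (`Tr/Defs` v2): `pvfam_stubP_hit`, `pvfam_stubM_hit` (`np`, `nm` = first exits of the face box `pvlvBox`), `pvfam_stubP_cnt`, `pvfam_stubM_cnt`, **`pvfam_flag1_rec`** (the two stubs of any state data at any level make `< K₁` steps each).
STATUS: 0 sorry;   input `PvaxQbx q` = `exit_pv_qbx` (`Exit/Qbx.lean`).
-/

set_option autoImplicit false
set_option linter.unusedSectionVars false
set_option linter.unusedVariables false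

namespace Claimed.Agent.R289

open MeasureTheory Filter Topology Set Metric Claims.C0465
open scoped ENNReal

/-! ## 1. Calculus of static local flags -/

section calculus

variable {h : ℕ → ℝ} {w w' : ℕ} {ζ ζ' : ℝ≥0∞} {Flag Flag' : ℕ → ℤ × ℤ → Set (Conf PvPt)}

theorem pvfam_mono (H : PvxpFlag h w ζ Flag) (hw : w ≤ w') (hζ : ζ ≤ ζ') : PvxpFlag h w' ζ' Flag where
  reads := fun m p => (H.reads m p).mono (pvtd_win_mono (h m) hw p)
  small := fun x R => by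
    filter_upwards [H.small x R] with m hm
    filter_upwards [hm] with ε hε p hp
    exact (hε p hp).trans hζ

theorem pvfam_union (H : PvxpFlag h w ζ Flag) (H' : PvxpFlag h w ζ' Flag') : PvxpFlag h w (ζ + ζ') fun m p => Flag m p ∪ Flag' m p where
  reads := fun m p => (H.reads m p).union (H'.reads m p)
  small := fun x R => by
    filter_upwards [H.small x R, H'.small x R] with m hm hm'
    filter_upwards [hm, hm'] with ε hε hε' p hp
    exact (measure_union_le _ _).trans (add_le_add (hε p hp) (hε' p hp))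

theorem pvfam_empty (h : ℕ → ℝ) (w : ℕ) (ζ : ℝ≥0∞) : PvxpFlag h w ζ fun _ _ => ∅ where
  reads := fun _ _ _ => Iff.rfl
  small := fun _ _ => Eventually.of_forall fun _ => Eventually.of_forall fun ε p _ => by rw [measure_empty]; exact zero_le

end calculus

/-! ## 2. The generic producer: copies of one event of unit scale -/

section unit

/-- the similarity which maps the centre `z` to `0` and the scale `h` to `1` -/
noncomputable def pvfamSim (h : ℝ) (z : ℂ) : ℂ → ℂ := vorSim ((h : ℂ)⁻¹) (-((h : ℂ)⁻¹ * z))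

/-- the copy of the event `𝔽` of unit scale at the grid centre `l9Pt (h m) p`, scale `h m` -/
def pvfamAt (h : ℕ → ℝ) (𝔽 : Set (Conf PvPt)) (m : ℕ) (p : ℤ × ℤ) : Set (Conf PvPt) := cfMap (pvfamSim (h m) (l9Pt (h m) p)) ⁻¹' 𝔽

theorem pvfam_eqns_cite : True := by
  have := @pvfamSim.eq_1; have := @pvfamAt.eq_1
  trivial

theorem pvfam_sim_apply {h : ℝ} (z x : ℂ) : pvfamSim h z x = (h : ℂ)⁻¹ * (x - z) := by
  unfold pvfamSim vorSim; ring

theorem pvfam_sim_re {h : ℝ} (z x : ℂ) : (pvfamSim h z x).re = (x - z).re / h := by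
  rw [pvfam_sim_apply, ← Complex.ofReal_inv, Complex.re_ofReal_mul]
  ring

theorem pvfam_sim_im {h : ℝ} (z x : ℂ) : (pvfamSim h z x).im = (x - z).im / h := by
  rw [pvfam_sim_apply, ← Complex.ofReal_inv, Complex.im_ofReal_mul]
  ring

theorem pvfam_sim_dist {h : ℝ} (hh : 0 < h) (z x y : ℂ) : dist (pvfamSim h z x) (pvfamSim h z y) = dist x y / h := by
  rw [dist_eq_norm, dist_eq_norm, pvfam_sim_apply, pvfam_sim_apply, ← mul_sub, norm_mul, norm_inv, Complex.norm_real, Real.norm_of_nonneg hh.le]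
  rw [show x - z - (y - z) = x - y by ring]
  field_simp

theorem pvfam_sim_measurable (h : ℝ) (z : ℂ) : Measurable (pvfamSim h z) := by
  unfold pvfamSim vorSim
  exact (measurable_const.mul measurable_id).add measurable_const

/-- the ball of radius `rE h` round the grid centre lies in the window of range `w ≥ rE` -/
theorem pvfam_ball_win {h : ℝ} (hh : 0 < h) {rE : ℝ} {w : ℕ} (hw : rE ≤ w) (p : ℤ × ℤ) :
    Prod.map (pvfamSim h (l9Pt h p)) id ⁻¹' (closedBall (0 : ℂ) rE ×ˢ (univ : Set Bool)) ⊆ pvtdWin h w p := by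
  rintro ⟨x, b⟩ ⟨hx, -⟩
  have hx' : ‖pvfamSim h (l9Pt h p) x‖ ≤ rE := by simpa [mem_closedBall, dist_zero_right] using hx
  have h1 : |(pvfamSim h (l9Pt h p) x).re| ≤ w := ((Complex.abs_re_le_norm _).trans hx').trans hw
  have h2 : |(pvfamSim h (l9Pt h p) x).im| ≤ w := ((Complex.abs_im_le_norm _).trans hx').trans hw
  rw [pvfam_sim_re] at h1
  rw [pvfam_sim_im] at h2
  have e1 : (x - l9Pt h p).re / h = x.re / h - (p.1 : ℝ) := by
    rw [Complex.sub_re]; unfold l9Pt; field_simp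
  have e2 : (x - l9Pt h p).im / h = x.im / h - (p.2 : ℝ) := by
    rw [Complex.sub_im]; unfold l9Pt; field_simp
  rw [e1] at h1
  rw [e2] at h2
  have f1 := pvtd_floor_close h1
  have f2 := pvtd_floor_close h2
  rw [Int.floor_intCast] at f1 f2
  exact max_le f1 f2

theorem pvfam_at_reads {h : ℕ → ℝ} (hh : ∀ m, 0 < h m) {𝔽 : Set (Conf PvPt)} {rE : ℝ} (hr : Conf.ReadsSet (closedBall (0 : ℂ) rE ×ˢ (univ : Set Bool)) 𝔽) {w : ℕ} (hw : rE ≤ w) (m : ℕ) (p : ℤ × ℤ) :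
    Conf.ReadsSet (pvtdWin (h m) w p) (pvfamAt h 𝔽 m p) := by
  refine Conf.ReadsSet.mono ?_ (pvfam_ball_win (hh m) hw p)
  intro η
  show cfMap _ (Conf.restr _ η) ∈ 𝔽 ↔ cfMap _ η ∈ 𝔽
  rw [pvtd_cfMap_restr]
  exact hr _

theorem pvfam_at_meas {h : ℕ → ℝ} {𝔽 : Set (Conf PvPt)} (hm : MeasurableSet 𝔽) (m : ℕ) (p : ℤ × ℤ) : MeasurableSet (pvfamAt h 𝔽 m p) :=
  measurable_cfMap (pvfam_sim_measurable _ _) hm

/-- **GENERIC PRODUCER OF STATIC LOCAL FLAGS** -/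
theorem pvfam_of_unit {𝔽 : Set (Conf PvPt)} (hm : MeasurableSet 𝔽) {rE : ℝ} (hr : Conf.ReadsSet (closedBall (0 : ℂ) rE ×ˢ (univ : Set Bool)) 𝔽) {w : ℕ} (hw : rE ≤ w)
    {p₀ ζ : ℝ≥0∞} (hp : p₀ < ζ) {e : ℝ → ℝ≥0∞} (he : Tendsto e (𝓝[>] 0) (𝓝 0)) (hc : ∀ ε, 0 < ε → pvP ε 𝔽 ≤ p₀ + e ε) {h : ℕ → ℝ} (hh : ∀ m, 0 < h m) :
    PvxpFlag h w ζ (pvfamAt h 𝔽) where
  reads := pvfam_at_reads hh hr hw
  small := fun x R => Eventually.of_forall fun m => by
    have h1 : Tendsto (fun ε => p₀ + e ((h m)⁻¹ * ε)) (𝓝[>] 0) (𝓝 (p₀ + 0)) := tendsto_const_nhds.add (pvfa_tendsto_at he (hh m))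
    rw [add_zero] at h1
    filter_upwards [h1.eventually (gt_mem_nhds hp), self_mem_nhdsWithin] with ε hε hε0 p _
    exact (pvfa_law_at hm hc (hh m) (l9Pt (h m) p) hε0).trans hε.le

end unit

/-! ## 3. FLAG0 = the mesh fails in the window;  use of a representing event at the plane map of the sample -/

section rep

variable {κ : Type}

/-- **FLAG0 (unit scale)**: the grid event which gives the mesh `ρ` in the core of `closedBall 0 rE` fails -/
def pvfamMesh (ρ rE : ℝ) : Set (Conf PvPt) := (vormG (pvtrCore ρ (closedBall (0 : ℂ) rE)) ρ)ᶜ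

theorem pvfam_eqns_cite2 : True := by
  have := @pvfamMesh.eq_1
  trivial

theorem pvfam_mesh_meas (ρ rE : ℝ) : MeasurableSet (pvfamMesh ρ rE) := (vorm_G_meas _ _).compl

theorem pvfam_mesh_reads (ρ rE : ℝ) : Conf.ReadsSet (closedBall (0 : ℂ) rE ×ˢ (univ : Set Bool)) (pvfamMesh ρ rE) := by
  have hO : vorNbd (pvtrCore ρ (closedBall (0 : ℂ) rE)) ρ ⊆ closedBall (0 : ℂ) rE := by
    rintro x ⟨y, hy, hxy⟩
    exact hy (by rw [mem_closedBall, dist_eq_norm]; exact hxy)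
  have e : (closedBall (0 : ℂ) rE ×ˢ (univ : Set Bool)) = Prod.fst ⁻¹' closedBall (0 : ℂ) rE := by
    ext x; simp
  rw [e]
  exact Conf.ReadsSet.compl fun η => vorm_G_restr hO η

theorem pvfam_mesh_tendsto {ρ : ℝ} (hρ : 0 < ρ) (rE : ℝ) : Tendsto (fun ε : ℝ => pvP ε (pvfamMesh ρ rE)) (𝓝[>] 0) (𝓝 0) :=
  vorm_G_tendsto ((isBounded_closedBall (x := (0 : ℂ)) (r := rE)).subset fun x (hx : closedBall x ρ ⊆ closedBall (0 : ℂ) rE) => hx (mem_closedBall_self hρ.le)) hρ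

theorem pvfam_sim_ne {h : ℝ} (hh : 0 < h) : ((h : ℂ)⁻¹) ≠ 0 := inv_ne_zero (Complex.ofReal_ne_zero.2 hh.ne')

theorem pvfam_sim_norm {h : ℝ} (hh : 0 < h) : ‖((h : ℂ)⁻¹)‖ = h⁻¹ := by
  rw [norm_inv, Complex.norm_real, Real.norm_of_nonneg hh.le]

/-- off FLAG0 at `(z,h)`: the mesh `ρ h` in the window `closedBall z (rE h)` -/
theorem pvfam_mesh_use {ρ rE : ℝ} (hρ : 0 < ρ) {h : ℝ} (hh : 0 < h) (z : ℂ) {η : Conf PvPt} (hη : cfMap (pvfamSim h z) η ∉ pvfamMesh ρ rE) :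
    PvtrMesh (ρ * h) (closedBall z (rE * h)) (cfSites η) := by
  have h1 : VorDense (cfSites (cfMap (pvfamSim h z) η)) (pvtrCore ρ (closedBall (0 : ℂ) rE)) ρ := vorm_G_dense hρ (not_not.1 hη)
  have h2 : PvtrMesh ρ (closedBall (0 : ℂ) rE) (cfSites (cfMap (pvfamSim h z) η)) := h1
  have hsur : Function.Surjective (pvfamSim h z) := vorSim_surjective (pvfam_sim_ne hh) _
  have e1 : cfSites (cfMap (pvfamSim h z) η) = pvfamSim h z '' cfSites η := pvcv_sites _ _ η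
  have e2 : closedBall (0 : ℂ) rE = pvfamSim h z '' closedBall z (rE * h) := by
    rw [← pvplb_sim_ball hh z rE]
    exact (image_preimage_eq _ hsur).symm
  have e3 : ρ = ‖((h : ℂ)⁻¹)‖ * (ρ * h) := by
    rw [pvfam_sim_norm hh]; field_simp
  rw [e1, e2, e3] at h2
  exact (pvtr_mesh_sim (pvfam_sim_ne hh) _).1 h2

/-- the points of a good sample in a bounded window -/
theorem pvfam_fin {η : Conf PvPt} (hlf : VorLF (cfSites η)) {E : Set ℂ} (hE : Bornology.IsBounded E) : (η.pts ∩ E ×ˢ univ).Finite := by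
  obtain ⟨R, hR⟩ := hE.subset_closedBall 0
  refine (((hlf R).prod (finite_univ (α := Bool)))).subset ?_
  rintro ⟨x, b⟩ ⟨h1, h2, -⟩
  exact ⟨⟨⟨(x, b), h1, rfl⟩, hR h2⟩, mem_univ _⟩

theorem pvfam_col_true (ω : PVSample) : pvxCol ω true = fun v => cfCol (pvConf ω) v.1 := by
  funext v
  show (cfCol (pvConf ω) v.1 == true) = cfCol (pvConf ω) v.1
  cases cfCol (pvConf ω) v.1 <;> rfl

theorem pvfam_col_false (ω : PVSample) : pvxCol ω false = pvasNot (pvxCol ω true) := by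
  funext v
  show (cfCol (pvConf ω) v.1 == false) = !(cfCol (pvConf ω) v.1 == true)
  cases cfCol (pvConf ω) v.1 <;> rfl

theorem pvfam_col_not (ω : PVSample) (b : Bool) : pvxCol ω (!b) = pvasNot (pvxCol ω b) := by
  funext v
  show (cfCol (pvConf ω) v.1 == !b) = !(cfCol (pvConf ω) v.1 == b)
  cases cfCol (pvConf ω) v.1 <;> cases b <;> rfl

/-- **a representing event of unit scale, read at the plane map of the sample**, centre `z`, scale `h`, on the mesh event -/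
theorem pvfam_rep_iff {θ : ℂ → κ} {Φ : PvplPred κ} {K : Set κ} {ρ rE : ℝ} {𝔹 : Set (Conf PvPt)} (hB : PvplRep θ Φ K (closedBall 0 rE) ρ 𝔹) {zi : ℂ} (hzi : θ zi ∉ K)
    {h : ℝ} (hh : 0 < h) (z : ℂ) {ω : PVSample} (hG : DelGood (pvxY ω)) (hm : PvtrMesh (ρ * h) (closedBall z (rE * h)) (pvxY ω)) :
    cfMap (pvfamSim h z) (pvConf ω) ∈ 𝔹 ↔ Φ _ _ (pvxT ω) (fun v => θ (pvfamSim h z (pvxPos ω v))) (pvxCol ω true) := by
  have hn : ρ / ‖((h : ℂ)⁻¹)‖ = ρ * h := by rw [pvfam_sim_norm hh, div_inv_eq_mul]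
  have key := hB.sim (pvfam_sim_ne hh) (-((h : ℂ)⁻¹ * z)) Empty delbPlane (pvConf ω) (fun x => x.elim) (z + (h : ℂ) * zi)
  rw [pvplb_sim_ball hh, hn] at key
  have hz : pvfamSim h z (z + (h : ℂ) * zi) = zi := by
    rw [pvfam_sim_apply]
    have : (h : ℂ) ≠ 0 := Complex.ofReal_ne_zero.2 hh.ne'
    field_simp
    ring
  have := key (pvfam_fin hG.lf isBounded_closedBall) (delb_ok_mono (subset_univ _) (delb_plane_ok hG)) hm (by show θ (pvfamSim h z (z + (h : ℂ) * zi)) ∉ K; rw [hz]; exact hzi)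
  rw [pvfam_col_true]
  exact this

/-- **USE OF A FLAG `𝔹 ∪ FLAG0`**: off the flag the mesh holds in the window and the predicate fails -/
theorem pvfam_rep_use {θ : ℂ → κ} {Φ : PvplPred κ} {K : Set κ} {ρ rE : ℝ} (hρ : 0 < ρ) {𝔹 : Set (Conf PvPt)} (hB : PvplRep θ Φ K (closedBall 0 rE) ρ 𝔹) {zi : ℂ} (hzi : θ zi ∉ K)
    {h : ℝ} (hh : 0 < h) (z : ℂ) {ω : PVSample} (hG : DelGood (pvxY ω)) (hn : cfMap (pvfamSim h z) (pvConf ω) ∉ 𝔹 ∪ pvfamMesh ρ rE) :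
    PvtrMesh (ρ * h) (closedBall z (rE * h)) (pvxY ω) ∧ ¬ Φ _ _ (pvxT ω) (fun v => θ (pvfamSim h z (pvxPos ω v))) (pvxCol ω true) := by
  have hm := pvfam_mesh_use hρ hh z fun hc => hn (Or.inr hc)
  exact ⟨hm, fun hc => hn (Or.inl ((pvfam_rep_iff hB hzi hh z hG hm).2 hc))⟩

/-- cost of `𝔹 ∪ FLAG0` -/
theorem pvfam_rep_cost {𝔹 : Set (Conf PvPt)} {p₀ : ℝ≥0∞} {e : ℝ → ℝ≥0∞} (he : Tendsto e (𝓝[>] 0) (𝓝 0)) (hc : ∀ ε, 0 < ε → pvP ε 𝔹 ≤ p₀ + e ε) {ρ : ℝ} (hρ : 0 < ρ) (rE : ℝ) :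
    ∃ e' : ℝ → ℝ≥0∞, Tendsto e' (𝓝[>] 0) (𝓝 0) ∧ ∀ ε, 0 < ε → pvP ε (𝔹 ∪ pvfamMesh ρ rE) ≤ p₀ + e' ε := by
  refine ⟨fun ε => e ε + pvP ε (pvfamMesh ρ rE), ?_, fun ε hε => ?_⟩
  · have := he.add (pvfam_mesh_tendsto hρ rE)
    rwa [add_zero] at this
  · calc pvP ε (𝔹 ∪ pvfamMesh ρ rE) ≤ pvP ε 𝔹 + pvP ε (pvfamMesh ρ rE) := measure_union_le _ _
      _ ≤ p₀ + e ε + pvP ε (pvfamMesh ρ rE) := by gcongr; exact hc ε hε
      _ = p₀ + (e ε + pvP ε (pvfamMesh ρ rE)) := add_assoc _ _ _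

end rep

/-! ## 4. Grid marks against real positions -/

section grid

theorem pvfam_floor_mem {l : ℝ} (hl : 0 < l) {M : ℕ} {r u : ℝ} (hr : r ≤ l * M) (hu : |u| ≤ r) : -(M : ℤ) ≤ ⌊u / l⌋ ∧ ⌊u / l⌋ ≤ M := by
  obtain ⟨h1, h2⟩ := abs_le.1 hu
  constructor
  · rw [Int.le_floor, le_div_iff₀ hl]
    push_cast
    nlinarith
  · have h3 : ((⌊u / l⌋ : ℤ) : ℝ) ≤ u / l := Int.floor_le _
    have h4 : u / l ≤ M := by rw [div_le_iff₀ hl]; nlinarith
    exact_mod_cast h3.trans h4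

/-- a point of the square of half side `r ≤ l M` has its cell in the box `vormBx M` -/
theorem pvfam_grid_mem {l : ℝ} (hl : 0 < l) {M : ℕ} {r : ℝ} (hr : r ≤ l * M) {x : ℂ} (h1 : |x.re| ≤ r) (h2 : |x.im| ≤ r) : pvplGrid l x ∈ vormBx M :=
  vorm_mem_bx.2 ⟨pvfam_floor_mem hl hr h1, pvfam_floor_mem hl hr h2⟩

/-- the places of the cells of the box -/
theorem pvfam_pl_norm {l : ℝ} (hl : 0 ≤ l) {M : ℕ} {g : ℤ × ℤ} (hg : g ∈ vormBx M) : ‖pvfaPl l g‖ ≤ 2 * (l * M) := by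
  obtain ⟨⟨a1, a2⟩, b1, b2⟩ := vorm_mem_bx.1 hg
  have c1 : |(g.1 : ℝ)| ≤ M := abs_le.2 ⟨by exact_mod_cast a1, by exact_mod_cast a2⟩
  have c2 : |(g.2 : ℝ)| ≤ M := abs_le.2 ⟨by exact_mod_cast b1, by exact_mod_cast b2⟩
  have h1 := Complex.norm_le_abs_re_add_abs_im (pvfaPl l g)
  have e1 : |(pvfaPl l g).re| = l * |(g.1 : ℝ)| := by show |l * (g.1 : ℝ)| = _; rw [abs_mul, abs_of_nonneg hl]
  have e2 : |(pvfaPl l g).im| = l * |(g.2 : ℝ)| := by show |l * (g.2 : ℝ)| = _; rw [abs_mul, abs_of_nonneg hl]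
  rw [e1, e2] at h1
  nlinarith [mul_le_mul_of_nonneg_left c1 hl, mul_le_mul_of_nonneg_left c2 hl]

theorem pvfam_floor_lt {l : ℝ} (hl : 0 < l) (u v : ℝ) : |u - v| < (|((⌊u / l⌋ : ℤ) : ℝ) - ((⌊v / l⌋ : ℤ) : ℝ)| + 1) * l := by
  have a1 : ((⌊u / l⌋ : ℤ) : ℝ) ≤ u / l := Int.floor_le _
  have a2 : u / l < ((⌊u / l⌋ : ℤ) : ℝ) + 1 := Int.lt_floor_add_one _
  have b1 : ((⌊v / l⌋ : ℤ) : ℝ) ≤ v / l := Int.floor_le _
  have b2 : v / l < ((⌊v / l⌋ : ℤ) : ℝ) + 1 := Int.lt_floor_add_one _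
  have c1 := le_abs_self (((⌊u / l⌋ : ℤ) : ℝ) - ((⌊v / l⌋ : ℤ) : ℝ))
  have c2 := neg_abs_le (((⌊u / l⌋ : ℤ) : ℝ) - ((⌊v / l⌋ : ℤ) : ℝ))
  have e : u - v = (u / l - v / l) * l := by field_simp
  rw [e, abs_mul, abs_of_pos hl]
  refine mul_lt_mul_of_pos_right ?_ hl
  rw [abs_lt]
  constructor <;> linarith

/-- far points have far cells (sup metric of `ℤ × ℤ`) -/
theorem pvfam_grid_far {l : ℝ} (hl : 0 < l) {x y : ℂ} {a : ℝ} (h : 2 * (a + 1) * l ≤ dist x y) : a ≤ dist (pvplGrid l x) (pvplGrid l y) := by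
  by_contra hlt
  rw [not_le, Prod.dist_eq, max_lt_iff, Int.dist_eq, Int.dist_eq] at hlt
  have h1 := pvfam_floor_lt hl x.re y.re
  have h2 := pvfam_floor_lt hl x.im y.im
  have h3 := Complex.norm_le_abs_re_add_abs_im (x - y)
  rw [Complex.sub_re, Complex.sub_im, ← dist_eq_norm] at h3
  have g1 : |((⌊x.re / l⌋ : ℤ) : ℝ) - ((⌊y.re / l⌋ : ℤ) : ℝ)| < a := hlt.1
  have g2 : |((⌊x.im / l⌋ : ℤ) : ℝ) - ((⌊y.im / l⌋ : ℤ) : ℝ)| < a := hlt.2
  nlinarith

end grid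

/-! ## 5. FLAG1: the exit -/

section exit

variable {V D : Type} {T : PvMap V D} {pos : V → ℂ} {s : V → Bool}

/-- a face of the face box of `Tr/Level` (half side `r' ≤ l M h`) has its three marks in the box of cells -/
theorem pvfam_box_sub {h l r' : ℝ} (hh : 0 < h) (hl : 0 < l) {M : ℕ} (hM : r' ≤ l * M * h) (z : ℂ) :
    pvlvBox T pos z r' ⊆ pvfaBox T (fun v => pvplGrid l (pvfamSim h z (pos v))) (↑(vormBx M) : Set (ℤ × ℤ)) := by
  have key : ∀ x : ℂ, pvlvRad z x ≤ r' → pvplGrid l (pvfamSim h z x) ∈ vormBx M := by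
    intro x hx
    have h1 : |(x - z).re| ≤ l * M * h := ((le_max_left _ _).trans hx).trans hM
    have h2 : |(x - z).im| ≤ l * M * h := ((le_max_right _ _).trans hx).trans hM
    refine pvfam_grid_mem hl le_rfl ?_ ?_
    · rw [pvfam_sim_re, abs_div, abs_of_pos hh, div_le_iff₀ hh]; exact h1
    · rw [pvfam_sim_im, abs_div, abs_of_pos hh, div_le_iff₀ hh]; exact h2
  intro d hd
  have hd' : max (max (pvlvRad z (pos (T.src d))) (pvlvRad z (pos (T.tgt d)))) (pvlvRad z (pos (T.apex d))) ≤ r' := hd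
  exact ⟨Finset.mem_coe.2 (key _ (((le_max_left _ _).trans (le_max_left _ _)).trans hd')), Finset.mem_coe.2 (key _ (((le_max_right _ _).trans (le_max_left _ _)).trans hd')),
    Finset.mem_coe.2 (key _ ((le_max_right _ _).trans hd'))⟩

/-- **no flag ⟹ few steps** (deterministic; any map with positions): a strand makes `< K₁` steps of size `a₀ h` before its first exit from a face box of half side `r' ≤ l M h` -/
theorem pvfam_stub_lt {h l r' a₀ : ℝ} (hh : 0 < h) (hl : 0 < l) {M : ℕ} (hM : r' ≤ l * M * h) (ha : 166 * l ≤ a₀) (z : ℂ) {K₁ : ℕ} (hK : 0 < K₁)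
    (hn : ¬ PvfaFlag T (fun v => pvplGrid l (pvfamSim h z (pos v))) (↑(vormBx M) : Set (ℤ × ℤ)) 41 K₁ s) {d : D} (hbw : pvasBW T s d)
    (hex : ∃ t, pvasIt T s d t ∉ pvlvBox T pos z r') : pvlvCnt (pvlvZ T pos s d) (a₀ * h) (pvasHit T s d (pvlvBox T pos z r')ᶜ) < K₁ := by
  by_contra hge
  rw [not_lt] at hge
  set tend := pvasHit T s d (pvlvBox T pos z r')ᶜ with htend
  have h0 : 0 < tend := by
    have := pvlv_cnt_le (z := pvlvZ T pos s d) (a := a₀ * h) tend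
    omega
  have hin : ∀ t, t < tend → pvasIt T s d t ∈ pvlvBox T pos z r' := fun t ht => not_not.1 (pvas_hit_min ht)
  have hout : pvasIt T s d tend ∉ pvlvBox T pos z r' := pvas_hit_mem (Z := (pvlvBox T pos z r')ᶜ) hex
  refine hn (pvfa_of_stub (z := pvlvZ T pos s d) (a₀ := a₀ * h) h0 hbw (fun t ht => pvfam_box_sub hh hl hM z (hin t ht)) hin hout (by norm_num) ?_ hge)
  intro t u htu
  refine pvfam_grid_far hl ?_
  rw [pvfam_sim_dist hh, le_div_iff₀ hh]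
  have : dist (pos (T.src (pvasIt T s d t))) (pos (T.src (pvasIt T s d u))) = dist (pvlvZ T pos s d t) (pvlvZ T pos s d u) := rfl
  rw [this]
  nlinarith

/-- the budget: a geometric sequence falls below any positive number -/
theorem pvfam_budget {q : ℝ} (hq0 : 0 < q) (hq1 : q ≤ 1) (c : ℝ) {ζ : ℝ≥0∞} (hζ : 0 < ζ) : ∃ k : ℕ, 0 < k ∧ ENNReal.ofReal (c * (1 - q) ^ k) < ζ := by
  have h1 : Tendsto (fun k : ℕ => c * (1 - q) ^ k) atTop (𝓝 (c * 0)) :=
    (tendsto_pow_atTop_nhds_zero_of_lt_one (by linarith) (by linarith)).const_mul c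
  rw [mul_zero] at h1
  have h2 := (ENNReal.continuous_ofReal.tendsto 0).comp h1
  rw [ENNReal.ofReal_zero] at h2
  obtain ⟨k, hk1, hk2⟩ := ((h2.eventually (gt_mem_nhds hζ)).and (eventually_ge_atTop 1)).exists
  exact ⟨k, hk2, hk1⟩

/-- **FLAG1, THE EXIT AT THE MODEL**.      ORDER OF THE CONSTANTS: `q` (QBX), half side `r` of the largest box, step `a₀`, budget `ζ` (all in units of `h`)  ⟹  the number `K₁` and ONE measurable event `𝔽` of unit scale.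
Its copies `pvfamAt h 𝔽 m p` are static local flags of range `w ≥ 2 r + a₀`, for every sequence of scales.      Off the copy at `(z,h)`, on `DelGood`: the mesh `a₀ h / 166` holds in `closedBall z ((2r + a₀) h)`, and
every strand of `pvxCol ω b` (`b` = any colour: forward stub `(b, dp)`, backward stub `(!b, opp dm)`, `pvfam_col_not`) makes `< K₁` steps of size `a₀ h` before its first exit from ANY face box of half side `r' ≤ r h` (all the levels). -/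
theorem pvfam_flag1 {q : ℝ} (hq : 0 < q) (hQ : PvaxQbx q) {r a₀ : ℝ} (hr : 0 ≤ r) (ha₀ : 0 < a₀) {ζ : ℝ≥0∞} (hζ : 0 < ζ) :
    ∃ (K₁ : ℕ) (𝔽 : Set (Conf PvPt)), 0 < K₁ ∧ MeasurableSet 𝔽 ∧ Conf.ReadsSet (closedBall (0 : ℂ) (2 * r + a₀) ×ˢ (univ : Set Bool)) 𝔽 ∧
      (∀ (w : ℕ), 2 * r + a₀ ≤ w → ∀ h : ℕ → ℝ, (∀ m, 0 < h m) → PvxpFlag h w ζ (pvfamAt h 𝔽)) ∧
      ∀ (h : ℝ), 0 < h → ∀ (z : ℂ) (ω : PVSample), DelGood (pvxY ω) → cfMap (pvfamSim h z) (pvConf ω) ∉ 𝔽 →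
        PvtrMesh (a₀ / 166 * h) (closedBall z ((2 * r + a₀) * h)) (pvxY ω) ∧
        ∀ (b : Bool) (d : (delbPl (pvxY ω)).Dart) (r' : ℝ), r' ≤ r * h → pvasBW (pvxT ω) (pvxCol ω b) d → (∃ t, pvasIt (pvxT ω) (pvxCol ω b) d t ∉ pvlvBox (pvxT ω) (pvxPos ω) z r') →
          pvlvCnt (pvlvZ (pvxT ω) (pvxPos ω) (pvxCol ω b) d) (a₀ * h) (pvasHit (pvxT ω) (pvxCol ω b) d (pvlvBox (pvxT ω) (pvxPos ω) z r')ᶜ) < K₁ := by
  classical
  set l : ℝ := a₀ / 166 with hl_def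
  have hl : 0 < l := by positivity
  have hla : 166 * l = a₀ := by rw [hl_def]; ring
  set M : ℕ := ⌈r / l⌉₊ with hM_def
  have hM1 : r ≤ l * M := by
    have := Nat.le_ceil (r / l)
    rw [div_le_iff₀ hl] at this
    linarith
  have hM2 : l * M ≤ r + l := by
    have := (Nat.ceil_lt_add_one (div_nonneg hr hl.le)).le
    have h2 : (M : ℝ) ≤ r / l + 1 := this
    have h3 : l * (r / l + 1) = r + l := by field_simp
    nlinarith
  set q' : ℝ := min q (1 / 2) with hq'_def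
  have hq'0 : 0 < q' := lt_min hq (by norm_num)
  have hq'1 : q' ≤ 1 := (min_le_right _ _).trans (by norm_num)
  have hQ' : PvaxQbx q' := pvax_qbx_mono hQ (min_le_left _ _)
  obtain ⟨k, hk0, hk⟩ := pvfam_budget hq'0 hq'1 ((vormBx M).card : ℝ) hζ
  obtain ⟨𝔹, hm, hrd, hrep, e, he, hc⟩ := pvfa_flag1_exit hQ' hl (vormBx M) (a := 41) le_rfl k (rB := 2 * (l * M)) (ρ := l) (rE := 2 * r + a₀) hl
    (fun g hg => pvfam_pl_norm hl.le hg) (by nlinarith) (by nlinarith)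
  obtain ⟨e', he', hc'⟩ := pvfam_rep_cost he hc hl (2 * r + a₀)
  have hcard : 0 < (vormBx M).card := by rw [vorm_bx_card]; positivity
  have hK : 0 < (vormBx M).card * (2 * k) := by positivity
  obtain ⟨g', hg'⟩ := Infinite.exists_notMem_finset (vormBx M)
  have hzi : pvplGrid l (pvfaPl l g') ∉ (↑(vormBx M) : Set (ℤ × ℤ)) := by rw [pvfa_grid_pl hl]; exact fun h => hg' (Finset.mem_coe.1 h)
  refine ⟨(vormBx M).card * (2 * k), 𝔹 ∪ pvfamMesh l (2 * r + a₀), hK, hm.union (pvfam_mesh_meas _ _), hrd.union (pvfam_mesh_reads _ _), ?_, ?_⟩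
  · intro w hw h hh
    exact pvfam_of_unit (hm.union (pvfam_mesh_meas _ _)) (hrd.union (pvfam_mesh_reads _ _)) hw hk he' hc' hh
  · intro h hh z ω hG hn
    obtain ⟨hmesh, hno⟩ := pvfam_rep_use hl hrep hzi hh z hG hn
    refine ⟨hmesh, fun b d r' hr' hbw hex => ?_⟩
    have hno1 : ¬ PvfaFlag (pvxT ω) (fun v => pvplGrid l (pvfamSim h z (pvxPos ω v))) (↑(vormBx M) : Set (ℤ × ℤ)) 41 ((vormBx M).card * (2 * k)) (pvxCol ω b) := by
      intro hf
      cases b with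
      | true => exact hno (Or.inl hf)
      | false => exact hno (Or.inr (by rw [← pvfam_col_false]; exact hf))
    exact pvfam_stub_lt hh hl (hr'.trans (mul_le_mul_of_nonneg_right hM1 hh.le)) hla.le z hK hno1 hbw hex

end exit

/-! ## 6. The same in the vocabulary of record (`PvwSt.StubP`, `PvwSt.StubM` of `Tr/Defs` v2: a stub stops at the first position whose FACE is not in the square) -/

section record

variable {V D : Type} {T : PvMap V D} {pos : V → ℂ} {s : V → Bool} {z : ℂ} {r' : ℝ}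

theorem pvfam_rad_le {x : ℂ} : pvlvRad z x ≤ r' ↔ x ∈ pvwSq z r' := max_le_iff

/-- a face lies in the face box iff its three vertices lie in the square -/
theorem pvfam_mem_box {d : D} : d ∈ pvlvBox T pos z r' ↔ pos (T.src d) ∈ pvwSq z r' ∧ pos (T.tgt d) ∈ pvwSq z r' ∧ pos (T.apex d) ∈ pvwSq z r' := by
  show max (max (pvlvRad z (pos (T.src d))) (pvlvRad z (pos (T.tgt d)))) (pvlvRad z (pos (T.apex d))) ≤ r' ↔ _
  rw [max_le_iff, max_le_iff, pvfam_rad_le, pvfam_rad_le, pvfam_rad_le, and_assoc]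

theorem pvfam_back_it (s : V → Bool) (d : D) (i : ℕ) : (pvasBack T s)^[i] d = T.opp (pvasIt T (pvasNot s) (T.opp d) i) := by
  induction i with
  | zero => exact (T.opp_opp d).symm
  | succ i ih => rw [Function.iterate_succ_apply', ih, pvas_back_eq, T.opp_opp, pvas_it_succ]

variable {𝔖 : PvwSt T}

/-- EXIT STUB: `np` = the first exit of the face box -/
theorem pvfam_stubP_hit (h : 𝔖.StubP pos (pvwSq z r') s) : pvasIt T s 𝔖.dp 𝔖.np ∉ pvlvBox T pos z r' ∧ pvasHit T s 𝔖.dp (pvlvBox T pos z r')ᶜ = 𝔖.np := by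
  have hout : pvasIt T s 𝔖.dp 𝔖.np ∉ pvlvBox T pos z r' := by
    rw [← h.ep_it _ le_rfl]
    exact fun hb => h.ep_out (pvfam_mem_box.1 hb).2.2
  refine ⟨hout, pvas_hit_eq hout fun i hi => not_not.2 ?_⟩
  rw [← h.ep_it i hi.le]
  exact pvfam_mem_box.2 ⟨(h.ep_in i hi.le).1, (h.ep_in i hi.le).2, h.ep_ax i hi⟩

/-- the positions of the entrance stub, read on the opposite darts, are the strand of the exchanged colouring -/
theorem pvfam_em_opp (h : 𝔖.StubM pos (pvwSq z r') s) {i : ℕ} (hi : i ≤ 𝔖.nm) : T.opp (𝔖.em i) = pvasIt T (pvasNot s) (T.opp 𝔖.dm) i := by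
  rw [h.em_it i hi, pvfam_back_it, T.opp_opp]

/-- ENTRANCE STUB: `nm` = the first exit of the face box by the strand of the exchanged colouring from `opp dm` -/
theorem pvfam_stubM_hit (h : 𝔖.StubM pos (pvwSq z r') s) :
    pvasIt T (pvasNot s) (T.opp 𝔖.dm) 𝔖.nm ∉ pvlvBox T pos z r' ∧ pvasHit T (pvasNot s) (T.opp 𝔖.dm) (pvlvBox T pos z r')ᶜ = 𝔖.nm := by
  have hout : pvasIt T (pvasNot s) (T.opp 𝔖.dm) 𝔖.nm ∉ pvlvBox T pos z r' := by
    rw [← pvfam_em_opp h le_rfl]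
    exact fun hb => h.em_out (pvfam_mem_box.1 hb).2.2
  refine ⟨hout, pvas_hit_eq hout fun i hi => not_not.2 ?_⟩
  rw [← pvfam_em_opp h hi.le]
  refine pvfam_mem_box.2 ⟨?_, ?_, h.em_ax i hi⟩
  · rw [T.src_opp']; exact (h.em_in i hi.le).2
  · rw [T.tgt_opp]; exact (h.em_in i hi.le).1

/-- the steps of the exit stub, counted on its BLACK ends -/
theorem pvfam_stubP_cnt (h : 𝔖.StubP pos (pvwSq z r') s) (a : ℝ) :
    pvlvCnt (fun t => pos (T.src (𝔖.ep t))) a 𝔖.np = pvlvCnt (pvlvZ T pos s 𝔖.dp) a (pvasHit T s 𝔖.dp (pvlvBox T pos z r')ᶜ) := by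
  rw [(pvfam_stubP_hit h).2]
  exact pvfa_cnt_congr fun t ht => by rw [h.ep_it t ht]; rfl

/-- the steps of the entrance stub, counted on its WHITE ends (= the black ends for the exchanged colouring) -/
theorem pvfam_stubM_cnt (h : 𝔖.StubM pos (pvwSq z r') s) (a : ℝ) :
    pvlvCnt (fun t => pos (T.tgt (𝔖.em t))) a 𝔖.nm = pvlvCnt (pvlvZ T pos (pvasNot s) (T.opp 𝔖.dm)) a (pvasHit T (pvasNot s) (T.opp 𝔖.dm) (pvlvBox T pos z r')ᶜ) := by
  rw [(pvfam_stubM_hit h).2]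
  refine pvfa_cnt_congr fun t ht => ?_
  show pos (T.tgt (𝔖.em t)) = pos (T.src (pvasIt T (pvasNot s) (T.opp 𝔖.dm) t))
  rw [← pvfam_em_opp h ht, T.src_opp']

end record

/-- **FLAG1 AT THE MODEL, VOCABULARY OF RECORD**: off the flag the two stubs of ANY state data at ANY level `r' ≤ r h` make `< K₁` steps of size `a₀ h` each -/
theorem pvfam_flag1_rec {q : ℝ} (hq : 0 < q) (hQ : PvaxQbx q) {r a₀ : ℝ} (hr : 0 ≤ r) (ha₀ : 0 < a₀) {ζ : ℝ≥0∞} (hζ : 0 < ζ) :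
    ∃ (K₁ : ℕ) (𝔽 : Set (Conf PvPt)), 0 < K₁ ∧ MeasurableSet 𝔽 ∧ Conf.ReadsSet (closedBall (0 : ℂ) (2 * r + a₀) ×ˢ (univ : Set Bool)) 𝔽 ∧
      (∀ (w : ℕ), 2 * r + a₀ ≤ w → ∀ h : ℕ → ℝ, (∀ m, 0 < h m) → PvxpFlag h w ζ (pvfamAt h 𝔽)) ∧
      ∀ (h : ℝ), 0 < h → ∀ (z : ℂ) (ω : PVSample), DelGood (pvxY ω) → cfMap (pvfamSim h z) (pvConf ω) ∉ 𝔽 →
        PvtrMesh (a₀ / 166 * h) (closedBall z ((2 * r + a₀) * h)) (pvxY ω) ∧
        ∀ (b : Bool) (𝔖 : PvwSt (pvxT ω)) (r' : ℝ), r' ≤ r * h →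
          (pvasBW (pvxT ω) (pvxCol ω b) 𝔖.dp → 𝔖.StubP (pvxPos ω) (pvwSq z r') (pvxCol ω b) → pvlvCnt (fun t => pvxPos ω ((pvxT ω).src (𝔖.ep t))) (a₀ * h) 𝔖.np < K₁) ∧
          (pvasBW (pvxT ω) (pvxCol ω b) 𝔖.dm → 𝔖.StubM (pvxPos ω) (pvwSq z r') (pvxCol ω b) → pvlvCnt (fun t => pvxPos ω ((pvxT ω).tgt (𝔖.em t))) (a₀ * h) 𝔖.nm < K₁) := by
  obtain ⟨K₁, 𝔽, h1, h2, h3, h4, h5⟩ := pvfam_flag1 hq hQ hr ha₀ hζ
  refine ⟨K₁, 𝔽, h1, h2, h3, h4, fun h hh z ω hG hn => ?_⟩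
  obtain ⟨hm, hs⟩ := h5 h hh z ω hG hn
  refine ⟨hm, fun b 𝔖 r' hr' => ⟨fun hbw hst => ?_, fun hbw hst => ?_⟩⟩
  · rw [pvfam_stubP_cnt hst]
    exact hs b 𝔖.dp r' hr' hbw ⟨_, (pvfam_stubP_hit hst).1⟩
  · rw [pvfam_stubM_cnt hst, ← pvfam_col_not]
    refine hs (!b) ((pvxT ω).opp 𝔖.dm) r' hr' ?_ ⟨𝔖.nm, ?_⟩
    · rw [pvfam_col_not]; exact pvas_bw_not.2 hbw
    · rw [pvfam_col_not]; exact (pvfam_stubM_hit hst).1

end Claimed.Agent.R289
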