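import Claimed.Agent.R289.Arm.TopGlue

/-!
# Row 289 (S0537, Cardy for Poisson-Voronoi), THE WALL, road E, item E16 of `W1_208_v3.md`, file Tr/Flag4 : THE COST OF `FLAG4` (= "the state is good, the masks are not separated")      (helper71, second of helper55; post Y of helper82; prefix `pvf4_`, `Pvf4`, `pvf4`)

TEXT (E16 + 210's repair of 10:06Z).   `FLAG4 := {(g1)(g3) hold, SEP fails}`.   COST: close the state by a SHORT THICK SELF LOOP `tip⁺ → tip⁻`, ROUTED FAR (probability `≥ q` given the state, on good geometry): the two halves of the state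
become arcs of ONE rim `P'` which has a near return `(s; S, 2R)` at the place where SEP fails:    `ν(FLAG4) ≤ q⁻¹ ∑_{y ∈ grid} ν(near return at y) + ν(bad geometry) ≤ q⁻¹ C (b/ρ'')² (ρ''/S₀)^(2+c) + o(1)`.
DEFINITION INDEPENDENT: nothing here knows what a state, a mask or a type is.   Everything below the record `Pvf4Q` is PROVED from the closed pole ARM (`armt_prob_main`, `armt_meas`, `armt_col`) and `Arm/Stop` (`pva_smarkov_ge`).

* sec. 1  near returns: `pvf4_ret_move` (change of centre / radii), `pvf4_nr_plane` (a near return of a rim of the Delaunay plane is `ArmtNR`), `pvf4_snap` (grid), the event `pvf4N z t L s S R = ⋃_{p ∈ armtBox L} armtN (z + t p) s S R`: measurable, `pvf4_N_prob`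
* sec. 2  **`Pvf4Q Y K N q`** = THE QUENCHED CLOSING ARGUMENT at one geometry: exploration `S` (stopping set), `K` read from the exploration, closing event `L` with `P(L | exploration) ≥ q` on `K`, `K ∧ L ⟹ N`;   **`pvf4_quench`** : `q P(K) ≤ P(N)`
* sec. 3  **`pvf4_anneal`** (joint law, `F` measurable), `pvf4_anneal_up` (two-level upper expectation `PvUp.iter (pvGeo ε) pvCol`: NO measurability of `F`)
* sec. 4  `pvf4_cost`, numbers `pvf4_num`, **`pvf4_small`** : THE STATIC FLAG `pvf4N` COSTS `≤ ζ` for a fine net (filter form `ε ↓ 0`)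
RULING ADOPTED 10:26Z (idea (2) of helper98, 10:19Z): **FLAG4(z) := `pvf4N z (ρ'' h) L (3 ρ'' h) (ρ h/100) (ρ h/100)`, A STATIC UNION OF NEAR-RETURN EVENTS**: `ArmtNR` asks for a near return in SOME local model, so the state is closed
DETERMINISTICALLY by a fan completion: no self loop, no `q_thick`, no conditioning.      The deterministic half (state (g1)(g3) + LE vertex disjoint + mesh + not SEP ⟹ `η ∈ pvf4N`) = `Tr/Flag4D.lean` (98), through `pvf4_mem_N'`.      sec. 2-3 stay as a generic tool.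
-/

set_option autoImplicit false
set_option linter.unusedSectionVars false
set_option linter.unusedVariables false

namespace Claimed.Agent.R289

open MeasureTheory ProbabilityTheory Set Filter Topology Metric
open scoped ENNReal NNReal
open Claims.C0465

/-! ## 1. near returns -/

theorem pvf4_near_move {V : Type} {lab : V → Option ℂ} {z y : ℂ} {r r' t : ℝ} {v : V} (h : ArmtNear lab z r v) (hzy : ‖z - y‖ ≤ t) (hr : r + t ≤ r') : ArmtNear lab y r' v := by
  obtain ⟨p, hp, hpz⟩ := h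
  refine ⟨p, hp, ?_⟩
  have e : p - y = (p - z) + (z - y) := by ring
  have := norm_add_le (p - z) (z - y)
  rw [← e] at this
  linarith

theorem pvf4_far_move {V : Type} {lab : V → Option ℂ} {z y : ℂ} {r r' t : ℝ} {v : V} (h : ArmtFar lab z r v) (hzy : ‖z - y‖ ≤ t) (hr : r' ≤ r - t) : ArmtFar lab y r' v := by
  intro p hp
  have h1 := h p hp
  have e : p - z = (p - y) + (y - z) := by ring
  have := norm_add_le (p - y) (y - z)
  rw [← e, norm_sub_rev y z] at this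
  linarith

/-- change of centre and radii -/
theorem pvf4_ret_move {V D : Type} {T : PvMap V D} {lab : V → Option ℂ} {col : V → Bool} {z y : ℂ} {s S R s' S' R' t : ℝ} (h : ArmtRet T lab col z s S R)
    (hzy : ‖z - y‖ ≤ t) (hs : s + t ≤ s') (hS : S' ≤ S - t) (hR : 2 * R' ≤ 2 * R - t) : ArmtRet T lab col y s' S' R' := by
  obtain ⟨c, hc, k, i, k', i', h1, h2, h3, h4, n1, n2, f1, f2⟩ := h
  exact ⟨c, hc, k, i, k', i', h1, h2, h3, h4, pvf4_near_move n1 hzy hs, pvf4_near_move n2 hzy hs, pvf4_far_move f1 hzy hS, pvf4_far_move f2 hzy hR⟩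

/-- a near return of a rim of the Delaunay plane -/
theorem pvf4_nr_plane {Y : Set ℂ} (h : DelGood Y) (σ : ℂ → Bool) {z : ℂ} {s S R : ℝ}
    (hr : ArmtRet (delMap h) (fun v => some (v : ℂ)) (fun v => σ v) z s S R) : ArmtNR Y σ z s S R := by
  refine ⟨_, _, delMap h, _, _, armt_loc_plane h _, ?_, hr⟩
  intro v p hv
  have h1 : (v : ℂ) = p := Option.some.inj hv
  rw [← h1]

/-- **SNAP**: every point of the square of half side `L t` is within `t` of a point of the grid -/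
theorem pvf4_snap {z w : ℂ} {t : ℝ} (ht : 0 < t) (L : ℕ) (h1 : |(w - z).re| ≤ L * t) (h2 : |(w - z).im| ≤ L * t) : ∃ p ∈ armtBox L, ‖w - armtCtr z t p‖ ≤ t := by
  have key : ∀ x : ℝ, |x| ≤ L * t → -(L : ℤ) ≤ round (x / t) ∧ round (x / t) ≤ (L : ℤ) ∧ |x - (round (x / t) : ℝ) * t| ≤ t / 2 := by
    intro x hx
    have h0 := abs_sub_round (x / t)
    obtain ⟨a1, a2⟩ := abs_le.1 h0
    obtain ⟨b1, b2⟩ := abs_le.1 hx
    have c1 : x / t ≤ L := by rw [div_le_iff₀ ht]; exact b2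
    have c2 : -(L : ℝ) ≤ x / t := by rw [le_div_iff₀ ht]; linarith
    refine ⟨?_, ?_, ?_⟩
    · have : (-(L : ℝ) - 1) < (round (x / t) : ℝ) := by linarith
      have h' : ((-(L : ℤ) - 1 : ℤ) : ℝ) < (round (x / t) : ℝ) := by push_cast; linarith
      have := Int.cast_lt.1 h'
      omega
    · have h' : (round (x / t) : ℝ) < ((L + 1 : ℤ) : ℝ) := by push_cast; linarith
      have := Int.cast_lt.1 h'
      omega
    · have e : x - (round (x / t) : ℝ) * t = (x / t - round (x / t)) * t := by field_simp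
      rw [e, abs_mul, abs_of_pos ht]
      nlinarith
  obtain ⟨p1, p2, p3⟩ := key _ h1
  obtain ⟨q1, q2, q3⟩ := key _ h2
  refine ⟨(round ((w - z).re / t), round ((w - z).im / t)), ?_, ?_⟩
  · unfold armtBox
    simp only [Finset.mem_product, Finset.mem_Icc]
    exact ⟨⟨p1, p2⟩, ⟨q1, q2⟩⟩
  · refine (Complex.norm_le_abs_re_add_abs_im _).trans ?_
    have e1 : (w - armtCtr z t (round ((w - z).re / t), round ((w - z).im / t))).re = (w - z).re - (round ((w - z).re / t) : ℝ) * t := by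
      simp only [armtCtr, l9Pt, Complex.sub_re, Complex.add_re]; ring
    have e2 : (w - armtCtr z t (round ((w - z).re / t), round ((w - z).im / t))).im = (w - z).im - (round ((w - z).im / t) : ℝ) * t := by
      simp only [armtCtr, l9Pt, Complex.sub_im, Complex.add_im]; ring
    rw [e1, e2]
    linarith

/-- **the near-return event of a grid** of mesh `t`, `(2L+1)²` points round `z` -/
def pvf4N (z : ℂ) (t : ℝ) (L : ℕ) (s S R : ℝ) : Set (Conf PvPt) := ⋃ p ∈ armtBox L, armtN (armtCtr z t p) s S R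

theorem pvf4_eqns_cite : True := by
  have := @pvf4N.eq_1
  trivial

theorem pvf4_N_meas (z : ℂ) (t : ℝ) (L : ℕ) (s S R : ℝ) : MeasurableSet (pvConf ⁻¹' pvf4N z t L s S R) := by
  unfold pvf4N
  rw [preimage_iUnion₂]
  exact Finset.measurableSet_biUnion _ fun p _ => armt_meas _ s S R

/-- union bound over the grid -/
theorem pvf4_N_prob : ∃ c C M₀ : ℝ, 0 < c ∧ 0 ≤ C ∧ 1 ≤ M₀ ∧ ∀ εs : ℕ → ℝ, (∀ n, 0 < εs n) → Tendsto εs atTop (𝓝 0) → ∀ (z : ℂ) (t : ℝ) (L : ℕ) (s S R : ℝ), 0 < s → M₀ * s ≤ S → S ≤ R →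
    ∀ᶠ n in atTop, (pvP (εs n) (pvf4N z t L s S R)).toReal ≤ ((2 * L + 1) ^ 2 : ℕ) * (C * (s / S) ^ (2 + c) * (S / R) ^ c) := by
  obtain ⟨c, C, M₀, hc, hC, hM, hmain⟩ := armt_prob_main
  refine ⟨c, C, M₀, hc, hC, hM, fun εs h0 hε z t L s S R hs hS hR => ?_⟩
  have hall : ∀ᶠ n in atTop, ∀ p ∈ armtBox L, (pvP (εs n) (armtN (armtCtr z t p) s S R)).toReal ≤ C * (s / S) ^ (2 + c) * (S / R) ^ c :=
    (Finset.eventually_all (armtBox L)).2 fun p _ => hmain εs h0 hε _ s S R hs hS hR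
  filter_upwards [hall] with n hn
  have h1 : pvP (εs n) (pvf4N z t L s S R) ≤ ∑ p ∈ armtBox L, pvP (εs n) (armtN (armtCtr z t p) s S R) := measure_biUnion_finset_le _ _
  have h2 : (pvP (εs n) (pvf4N z t L s S R)).toReal ≤ ∑ p ∈ armtBox L, (pvP (εs n) (armtN (armtCtr z t p) s S R)).toReal := by
    rw [← ENNReal.toReal_sum fun p _ => measure_ne_top _ _]
    exact ENNReal.toReal_mono (ENNReal.sum_ne_top.2 fun p _ => measure_ne_top _ _) h1
  refine h2.trans ((Finset.sum_le_sum hn).trans ?_)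
  rw [Finset.sum_const, armt_box_card, nsmul_eq_mul]

/-- a near return of a rim of the Delaunay plane somewhere in the square puts the configuration in the event of the grid -/
theorem pvf4_mem_N {η : Conf PvPt} (h : DelGood (cfSites η)) (hn : PvatNice (cfSites η)) {z w : ℂ} {t : ℝ} (ht : 0 < t) (L : ℕ) (h1 : |(w - z).re| ≤ L * t) (h2 : |(w - z).im| ≤ L * t)
    {s S R s' S' R' : ℝ} (hr : ArmtRet (delMap h) (fun v => some (v : ℂ)) (fun v => cfCol η v) w s S R) (hs : s + t ≤ s') (hS : S' ≤ S - t) (hR : 2 * R' ≤ 2 * R - t) :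
    η ∈ pvf4N z t L s' S' R' := by
  obtain ⟨p, hp, hwp⟩ := pvf4_snap ht L h1 h2
  unfold pvf4N
  rw [mem_iUnion₂]
  exact ⟨p, hp, pvf4_nr_plane h (cfCol η) (pvf4_ret_move hr hwp hs hS hR), hn⟩

/-- change of centre and radii for `ArmtNR` (the local model must cover the new ball) -/
theorem pvf4_nr_move {Y : Set ℂ} {σ : ℂ → Bool} {z y : ℂ} {s S R s' S' R' t : ℝ} (h : ArmtNR Y σ z s S R)
    (hzy : ‖z - y‖ ≤ t) (hs : s + t ≤ s') (hS : S' ≤ S - t) (hR : 2 * R' ≤ 2 * R - t) (hR4 : 4 * R' + t ≤ 4 * R) : ArmtNR Y σ y s' S' R' := by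
  obtain ⟨V, D, T, lab, col, hloc, hcol, hret⟩ := h
  refine ⟨V, D, T, lab, col, armt_loc_mono hloc ?_, hcol, pvf4_ret_move hret hzy hs hS hR⟩
  intro p hp
  rw [mem_closedBall, dist_eq_norm] at hp ⊢
  have e : p - z = (p - y) + (y - z) := by ring
  have := norm_add_le (p - y) (y - z)
  rw [← e, norm_sub_rev y z] at this
  linarith

/-- **a near return in ANY local model somewhere in the square puts the configuration in the event of the grid** (the form consumed by the deterministic half: fan completion of 98) -/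
theorem pvf4_mem_N' {η : Conf PvPt} (hn : PvatNice (cfSites η)) {z w : ℂ} {t : ℝ} (ht : 0 < t) (L : ℕ) (h1 : |(w - z).re| ≤ L * t) (h2 : |(w - z).im| ≤ L * t)
    {s S R s' S' R' : ℝ} (hr : ArmtNR (cfSites η) (cfCol η) w s S R) (hs : s + t ≤ s') (hS : S' ≤ S - t) (hR : 2 * R' ≤ 2 * R - t) (hR4 : 4 * R' + t ≤ 4 * R) :
    η ∈ pvf4N z t L s' S' R' := by
  obtain ⟨p, hp, hwp⟩ := pvf4_snap ht L h1 h2
  unfold pvf4N
  rw [mem_iUnion₂]
  exact ⟨p, hp, pvf4_nr_move hr hwp hs hS hR hR4, hn⟩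

/-- covariance under translations -/
theorem pvf4_N_cov (a z : ℂ) (t : ℝ) (L : ℕ) (s S R : ℝ) (η : Conf PvPt) : cfMap (fun w => w + a) η ∈ pvf4N (z + a) t L s S R ↔ η ∈ pvf4N z t L s S R := by
  unfold pvf4N
  simp only [mem_iUnion₂]
  have e : ∀ p : ℤ × ℤ, armtCtr (z + a) t p = armtCtr z t p + a := fun p => by unfold armtCtr; ring
  constructor
  · rintro ⟨p, hp, h⟩
    rw [e p] at h
    exact ⟨p, hp, (armt_cov a _ s S R η).1 h⟩
  · rintro ⟨p, hp, h⟩
    refine ⟨p, hp, ?_⟩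
    rw [e p]
    exact (armt_cov a _ s S R η).2 h

/-- stationarity -/
theorem pvf4_N_inv (ε : ℝ) (a z : ℂ) (t : ℝ) (L : ℕ) (s S R : ℝ) : pvP ε (pvf4N (z + a) t L s S R) = pvP ε (pvf4N z t L s S R) := by
  have hn : NullMeasurableSet (pvf4N (z + a) t L s S R) (pvP ε) := pvcn_bridge_null ε (pvf4_N_meas _ _ _ _ _ _)
  have hm : Measurable (cfMap fun w : ℂ => w + a) := measurable_cfMap (by fun_prop)
  conv_lhs => rw [← pvP_translate a ε]
  rw [Measure.map_apply₀ hm.aemeasurable (by rw [pvP_translate]; exact hn)]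
  congr 1
  ext η
  exact pvf4_N_cov a z t L s S R η

/-! ## 2. the quenched closing argument -/

open Classical in
/-- **THE QUENCHED CLOSING ARGUMENT** at one site set `Y`.      `K` = the flag (read from the exploration `S`), `L` = the closing event, `N` = what the closed configuration shows. -/
structure Pvf4Q (Y : Set ℂ) (K N : (Y → Bool) → Prop) (q : ℝ) where
  /-- the finite window -/
  A : Finset Y
  /-- the exploration = the frozen sites of the state (anything when there is no state) -/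
  S : (Y → Bool) → Finset Y
  stop : PvaStop S
  K_meas : PvaMeas S K
  K_loc : PvalLoc A K
  /-- the closing event -/
  L : (Y → Bool) → Prop
  L_loc : PvalLoc A L
  /-- E10 / E26: the thick self loop has conditional probability `≥ q` given a good state -/
  link : ∀ ω, K ω → q ≤ pvaP (A \ S ω) ω L
  /-- E2 / E9 + geometry -/
  close : ∀ ω, K ω → L ω → N ω

/-- **`q P(K) ≤ P(N)`** at fixed geometry -/
theorem pvf4_quench {g : PvGeoT} (hg : PvgOk g) {K N : (pvgSites g → Bool) → Prop} {q : ℝ} (Q : Pvf4Q (pvgSites g) K N q) :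
    ENNReal.ofReal q * pvCol {c | K (fun v => pvgColAt g c v)} ≤ pvCol {c | N (fun v => pvgColAt g c v)} := by
  classical
  rcases le_or_gt q 0 with hq | hq
  · rw [ENNReal.ofReal_of_nonpos hq, zero_mul]
    exact zero_le
  set ξ : pvgSites g → Bool := fun _ => false with hξ
  have hKL : PvalLoc Q.A (fun ω => K ω ∧ Q.L ω) := fun ω ω' h => by
    have h1 : K ω = K ω' := Q.K_loc ω ω' h
    have h2 : Q.L ω = Q.L ω' := Q.L_loc ω ω' h
    show (K ω ∧ Q.L ω) = (K ω' ∧ Q.L ω')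
    rw [h1, h2]
  have h1 := armt_col hg Q.A K Q.K_loc ξ
  have h2 := armt_col hg Q.A (fun ω => K ω ∧ Q.L ω) hKL ξ
  have h3 : q * pvaP Q.A ξ K ≤ pvaP Q.A ξ (fun ω => K ω ∧ Q.L ω) := pva_smarkov_ge Q.stop Q.K_meas Q.A ξ fun ω _ hk => Q.link ω hk
  calc ENNReal.ofReal q * pvCol {c | K (fun v => pvgColAt g c v)} = ENNReal.ofReal (q * pvaP Q.A ξ K) := by rw [h1, ENNReal.ofReal_mul hq.le]
    _ ≤ ENNReal.ofReal (pvaP Q.A ξ (fun ω => K ω ∧ Q.L ω)) := ENNReal.ofReal_le_ofReal h3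
    _ = pvCol {c | K (fun v => pvgColAt g c v) ∧ Q.L (fun v => pvgColAt g c v)} := h2.symm
    _ ≤ pvCol {c | N (fun v => pvgColAt g c v)} := measure_mono fun c hc => Q.close _ hc.1 hc.2

/-- the same for events of the configuration -/
theorem pvf4_quench_conf {g : PvGeoT} (hg : PvgOk g) {K N : (pvgSites g → Bool) → Prop} {q : ℝ} (Q : Pvf4Q (pvgSites g) K N q) {F E : Set (Conf PvPt)}
    (hF : ∀ c, pvConf (pvMerge (g, c)) ∈ F → K (fun v => pvgColAt g c v)) (hE : ∀ c, N (fun v => pvgColAt g c v) → pvConf (pvMerge (g, c)) ∈ E) :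
    ENNReal.ofReal q * pvQc F g ≤ pvQc E g := by
  rw [pvqu_Qc_eq, pvqu_Qc_eq]
  calc ENNReal.ofReal q * pvCol {c | pvConf (pvMerge (g, c)) ∈ F} ≤ ENNReal.ofReal q * pvCol {c | K (fun v => pvgColAt g c v)} := by
        refine mul_le_mul_right (measure_mono fun c hc => hF c hc) _
    _ ≤ pvCol {c | N (fun v => pvgColAt g c v)} := pvf4_quench hg Q
    _ ≤ pvCol {c | pvConf (pvMerge (g, c)) ∈ E} := measure_mono fun c hc => hE c hc

/-! ## 3. annealing -/

/-- **ANNEALING**, joint law -/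
theorem pvf4_anneal (ε : ℝ) {F E : Set (Conf PvPt)} (hF : MeasurableSet (pvConf ⁻¹' F)) (hE : MeasurableSet (pvConf ⁻¹' E)) (Bad : Set PvGeoT) (q : ℝ≥0∞) (hq : q ≤ 1)
    (h : ∀ g, g ∉ Bad → q * pvQc F g ≤ pvQc E g) : q * pvP ε F ≤ pvP ε E + pvGeo ε Bad := by
  set B' : Set PvGeoT := toMeasurable (pvGeo ε) Bad with hB'
  have hB'm : MeasurableSet B' := measurableSet_toMeasurable _ _
  have mF : Measurable (pvQc F) := pvqu_Q_meas hF
  have mE : Measurable (pvQc E) := pvqu_Q_meas hE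
  have eF : pvP ε F = ∫⁻ g, pvQc F g ∂(pvGeo ε) := by
    rw [pvcn_bridge_apply ε hF, ← pvqu_Q_lintegral ε hF]
    rfl
  have eE : pvP ε E = ∫⁻ g, pvQc E g ∂(pvGeo ε) := by
    rw [pvcn_bridge_apply ε hE, ← pvqu_Q_lintegral ε hE]
    rfl
  have hle : ∀ g, q * pvQc F g ≤ pvQc E g + B'.indicator (fun _ => (1 : ℝ≥0∞)) g := by
    intro g
    by_cases hg : g ∈ B'
    · rw [Set.indicator_of_mem hg]
      refine le_trans ?_ le_add_self
      calc q * pvQc F g ≤ 1 * 1 := mul_le_mul' hq (pvqu_Q_le_one _ g)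
        _ = 1 := one_mul 1
    · rw [Set.indicator_of_notMem hg, add_zero]
      exact h g fun hb => hg (subset_toMeasurable _ _ hb)
  calc q * pvP ε F = ∫⁻ g, q * pvQc F g ∂(pvGeo ε) := by rw [eF, lintegral_const_mul _ mF]
    _ ≤ ∫⁻ g, (pvQc E g + B'.indicator (fun _ => (1 : ℝ≥0∞)) g) ∂(pvGeo ε) := lintegral_mono hle
    _ = pvP ε E + pvGeo ε Bad := by
        rw [lintegral_add_left mE, ← eE, lintegral_indicator hB'm, lintegral_const, one_mul, Measure.restrict_apply MeasurableSet.univ, Set.univ_inter, measure_toMeasurable]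

/-- **ANNEALING**, two-level upper expectation: no measurability of the flag -/
theorem pvf4_anneal_up (ε : ℝ) {F E : Set (Conf PvPt)} (hE : MeasurableSet (pvConf ⁻¹' E)) (Bad : Set PvGeoT) (q : ℝ≥0∞) (hq : q ≤ 1) (hq0 : q ≠ 0)
    (h : ∀ g, g ∉ Bad → q * pvQc F g ≤ pvQc E g) : q * (PvUp.iter (pvGeo ε) pvCol).P {x | pvConf (pvMerge x) ∈ F} ≤ pvP ε E + pvGeo ε Bad := by
  have hqt : q ≠ ⊤ := ne_top_of_le_ne_top ENNReal.one_ne_top hq
  set B' : Set PvGeoT := toMeasurable (pvGeo ε) Bad with hB'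
  have hB'm : MeasurableSet B' := measurableSet_toMeasurable _ _
  have mE : Measurable (pvQc E) := pvqu_Q_meas hE
  have eE : pvP ε E = ∫⁻ g, pvQc E g ∂(pvGeo ε) := by
    rw [pvcn_bridge_apply ε hE, ← pvqu_Q_lintegral ε hE]
    rfl
  have mφ : Measurable fun g => q⁻¹ * (pvQc E g + B'.indicator (fun _ => (1 : ℝ≥0∞)) g) := (mE.add (measurable_const.indicator hB'm)).const_mul _
  have hle : ∀ g, pvQc F g ≤ q⁻¹ * (pvQc E g + B'.indicator (fun _ => (1 : ℝ≥0∞)) g) := by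
    intro g
    rw [← ENNReal.div_eq_inv_mul, ENNReal.le_div_iff_mul_le (Or.inl hq0) (Or.inl hqt), mul_comm]
    by_cases hg : g ∈ B'
    · rw [Set.indicator_of_mem hg]
      refine le_trans ?_ le_add_self
      calc q * pvQc F g ≤ 1 * 1 := mul_le_mul' hq (pvqu_Q_le_one _ g)
        _ = 1 := one_mul 1
    · rw [Set.indicator_of_notMem hg, add_zero]
      exact h g fun hb => hg (subset_toMeasurable _ _ hb)
  have h1 : (PvUp.iter (pvGeo ε) pvCol).P {x | pvConf (pvMerge x) ∈ F} ≤ ∫⁻ g, q⁻¹ * (pvQc E g + B'.indicator (fun _ => (1 : ℝ≥0∞)) g) ∂(pvGeo ε) := by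
    rw [pvup_iter_P]
    exact pvup_int_le _ mφ hle
  have h2 : ∫⁻ g, q⁻¹ * (pvQc E g + B'.indicator (fun _ => (1 : ℝ≥0∞)) g) ∂(pvGeo ε) = q⁻¹ * (pvP ε E + pvGeo ε Bad) := by
    have mψ : Measurable fun g => pvQc E g + B'.indicator (fun _ => (1 : ℝ≥0∞)) g := mE.add (measurable_const.indicator hB'm)
    rw [lintegral_const_mul _ mψ, lintegral_add_left mE, ← eE, lintegral_indicator hB'm, lintegral_const, one_mul,
      Measure.restrict_apply MeasurableSet.univ, Set.univ_inter, measure_toMeasurable]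
  calc q * (PvUp.iter (pvGeo ε) pvCol).P {x | pvConf (pvMerge x) ∈ F} ≤ q * (q⁻¹ * (pvP ε E + pvGeo ε Bad)) := by
        rw [← h2]
        exact mul_le_mul_right h1 _
    _ = pvP ε E + pvGeo ε Bad := by rw [← mul_assoc, ENNReal.mul_inv_cancel hq0 hqt, one_mul]

/-! ## 4. the cost -/

/-- **THE COST OF A FLAG WHICH CAN BE CLOSED TO A NEAR RETURN** -/
theorem pvf4_cost : ∃ c C M₀ : ℝ, 0 < c ∧ 0 ≤ C ∧ 1 ≤ M₀ ∧ ∀ εs : ℕ → ℝ, (∀ n, 0 < εs n) → Tendsto εs atTop (𝓝 0) →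
    ∀ (F : Set (Conf PvPt)), MeasurableSet (pvConf ⁻¹' F) → ∀ (q : ℝ), 0 < q → q ≤ 1 → ∀ (Bad : Set PvGeoT) (z : ℂ) (t : ℝ) (L : ℕ) (s S R : ℝ), 0 < s → M₀ * s ≤ S → S ≤ R →
      (∀ g, g ∉ Bad → ENNReal.ofReal q * pvQc F g ≤ pvQc (pvf4N z t L s S R) g) →
      ∀ᶠ n in atTop, (pvP (εs n) F).toReal ≤ q⁻¹ * (((2 * L + 1) ^ 2 : ℕ) * (C * (s / S) ^ (2 + c) * (S / R) ^ c) + (pvGeo (εs n) Bad).toReal) := by
  obtain ⟨c, C, M₀, hc, hC, hM, hmain⟩ := pvf4_N_prob
  refine ⟨c, C, M₀, hc, hC, hM, fun εs h0 hε F hF q hq hq1 Bad z t L s S R hs hS hR hQ => ?_⟩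
  filter_upwards [hmain εs h0 hε z t L s S R hs hS hR] with n hn
  have h1 := pvf4_anneal (εs n) hF (pvf4_N_meas z t L s S R) Bad (ENNReal.ofReal q) (by rw [← ENNReal.ofReal_one]; exact ENNReal.ofReal_le_ofReal hq1) hQ
  have h2 := ENNReal.toReal_mono (ENNReal.add_ne_top.2 ⟨measure_ne_top _ _, measure_ne_top _ _⟩) h1
  rw [ENNReal.toReal_mul, ENNReal.toReal_ofReal hq.le, ENNReal.toReal_add (measure_ne_top _ _) (measure_ne_top _ _)] at h2
  rw [inv_mul_eq_div, le_div_iff₀ hq, mul_comm]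
  linarith

/-- numbers: `b` = half side of the window, `S₀` = departure, `a` = near radius, all in units of `h`; mesh `ρ`, `L = ⌈b/ρ⌉` -/
theorem pvf4_num (c C : ℝ) (hc : 0 < c) (hC : 0 ≤ C) (b S₀ a κ : ℝ) (hb : 0 < b) (hS : 0 < S₀) (ha : 0 < a) (hκ : 0 < κ) :
    ∃ ρ₀ : ℝ, 0 < ρ₀ ∧ ∀ ρ : ℝ, 0 < ρ → ρ ≤ ρ₀ → ((2 * ⌈b / ρ⌉₊ + 1) ^ 2 : ℕ) * (C * (a * ρ / S₀) ^ (2 + c)) ≤ κ := by
  obtain ⟨M, hMdef⟩ : ∃ M : ℝ, M = 25 * b ^ 2 * C * (a / S₀) ^ (2 + c) := ⟨_, rfl⟩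
  have hM : 0 ≤ M := by rw [hMdef]; positivity
  have hx : 0 < κ / (M + 1) := by positivity
  refine ⟨min b ((κ / (M + 1)) ^ (1 / c)), lt_min hb (Real.rpow_pos_of_pos hx _), fun ρ hρ hle => ?_⟩
  have h1 : ρ ≤ b := hle.trans (min_le_left _ _)
  have h2 : ρ ≤ (κ / (M + 1)) ^ (1 / c) := hle.trans (min_le_right _ _)
  have h3 : ρ ^ c ≤ κ / (M + 1) := by
    calc ρ ^ c ≤ ((κ / (M + 1)) ^ (1 / c)) ^ c := Real.rpow_le_rpow hρ.le h2 hc.le
      _ = κ / (M + 1) := by rw [← Real.rpow_mul hx.le, one_div, inv_mul_cancel₀ hc.ne', Real.rpow_one]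
  have h4 : (1 : ℝ) ≤ b / ρ := by rw [le_div_iff₀ hρ]; linarith
  have h5 : ((⌈b / ρ⌉₊ : ℕ) : ℝ) ≤ b / ρ + 1 := (Nat.ceil_lt_add_one (by positivity)).le
  have h6 : (((2 * ⌈b / ρ⌉₊ + 1) ^ 2 : ℕ) : ℝ) ≤ 25 * (b / ρ) ^ 2 := by
    push_cast
    have : (2 * ((⌈b / ρ⌉₊ : ℕ) : ℝ) + 1) ≤ 5 * (b / ρ) := by linarith
    calc (2 * ((⌈b / ρ⌉₊ : ℕ) : ℝ) + 1) ^ 2 ≤ (5 * (b / ρ)) ^ 2 := pow_le_pow_left₀ (by positivity) this 2
      _ = 25 * (b / ρ) ^ 2 := by ring
  have h7 : (a * ρ / S₀) ^ (2 + c) = (a / S₀) ^ (2 + c) * (ρ ^ 2 * ρ ^ c) := by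
    have e : a * ρ / S₀ = a / S₀ * ρ := by ring
    rw [e, Real.mul_rpow (by positivity) hρ.le, Real.rpow_add hρ, Real.rpow_two]
  have h8 : 0 ≤ C * (a * ρ / S₀) ^ (2 + c) := by positivity
  calc (((2 * ⌈b / ρ⌉₊ + 1) ^ 2 : ℕ) : ℝ) * (C * (a * ρ / S₀) ^ (2 + c)) ≤ 25 * (b / ρ) ^ 2 * (C * (a * ρ / S₀) ^ (2 + c)) := mul_le_mul_of_nonneg_right h6 h8
    _ = M * ρ ^ c := by
        rw [h7, hMdef]
        field_simp
    _ ≤ M * (κ / (M + 1)) := mul_le_mul_of_nonneg_left h3 hM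
    _ ≤ κ := by
        rw [mul_div_assoc', div_le_iff₀ (by positivity)]
        nlinarith

/-- **(R3) THE STATIC FLAG IS SMALL**: `b` = half side of the window, `ρ` = departure radius, `a r` = near radius, `r` = mesh of the net, all in units of `h`.      `r₀` depends on `(a, b, ρ, ζ)` only. -/
theorem pvf4_small (a b ρ ζ : ℝ) (ha : 0 < a) (hb : 0 < b) (hρ : 0 < ρ) (hζ : 0 < ζ) : ∃ r₀ : ℝ, 0 < r₀ ∧ ∀ r : ℝ, 0 < r → r ≤ r₀ → ∀ (z : ℂ) (h : ℝ), 0 < h →
    ∀ᶠ ε in 𝓝[>] (0 : ℝ), (pvP ε (pvf4N z (r * h) ⌈b / r⌉₊ (a * r * h) (ρ * h) (ρ * h))).toReal ≤ ζ := by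
  obtain ⟨c, C, M₀, hc, hC, hM, hmain⟩ := pvf4_N_prob
  obtain ⟨ρ₀, hρ₀, hnum⟩ := pvf4_num c C hc hC b ρ a ζ hb hρ ha hζ
  have hM0 : 0 < M₀ := lt_of_lt_of_le one_pos hM
  refine ⟨min ρ₀ (ρ / (M₀ * a)), lt_min hρ₀ (by positivity), fun r hr hle z h hh => ?_⟩
  have h1 : r ≤ ρ₀ := hle.trans (min_le_left _ _)
  have h2 : r ≤ ρ / (M₀ * a) := hle.trans (min_le_right _ _)
  have h3 : M₀ * (a * r * h) ≤ ρ * h := by
    rw [le_div_iff₀ (by positivity)] at h2
    nlinarith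
  rw [Filter.eventually_iff_seq_eventually]
  intro εs hεs
  have hpos : ∀ᶠ n in atTop, 0 < εs n := (tendsto_nhdsWithin_iff.1 hεs).2
  have hlim : Tendsto εs atTop (𝓝 0) := (tendsto_nhdsWithin_iff.1 hεs).1
  -- make the sequence positive everywhere
  set εs' : ℕ → ℝ := fun n => if 0 < εs n then εs n else 1 / ((n : ℝ) + 1) with hεs'
  have hpos' : ∀ n, 0 < εs' n := fun n => by
    by_cases hn : 0 < εs n
    · simp only [hεs', if_pos hn]; exact hn
    · simp only [hεs', if_neg hn]; positivity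
  have heq : ∀ᶠ n in atTop, εs' n = εs n := hpos.mono fun n hn => by simp only [hεs', if_pos hn]
  have hlim' : Tendsto εs' atTop (𝓝 0) := hlim.congr' (heq.mono fun n hn => hn.symm)
  filter_upwards [hmain εs' hpos' hlim' z (r * h) ⌈b / r⌉₊ (a * r * h) (ρ * h) (ρ * h) (by positivity) h3 le_rfl, heq] with n hn he
  rw [← he]
  refine hn.trans ?_
  have e1 : a * r * h / (ρ * h) = a * r / ρ := by field_simp
  have e2 : ρ * h / (ρ * h) = 1 := div_self (by positivity)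
  rw [e1, e2, Real.one_rpow, mul_one]
  exact hnum r hr h1

end Claimed.Agent.R289
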