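import Claimed.Agent.R289.Tr.FanRim
import Claimed.Agent.R289.Tr.Flag4
import Claimed.Agent.R289.Tr.StKit
import Claimed.Agent.R289.Tr.LocalF
import Claimed.Agent.R289.Del.Circ

/-!
# Row 289 (S0537, Cardy for Poisson-Voronoi), THE WALL, road E, item E16 of `W1_208_v3.md`, file Tr/Flag4D : THE DETERMINISTIC HALF OF `FLAG4`      (helper98, second helper71; prefix `pvf4d_`, `pvf4d`)

CLAIM.   A state `(g1)(g3)` whose two erased banks `LE(LB Σ⁺)`, `LE(LB Σ⁻)` are vertex disjoint and come within `t` of each other at `y₀`   ⟹   `ArmtNR Y σ y₀ t S R` (near return in SOME local model)   ⟹   `η ∈ pvf4N …` (`Tr/Flag4`, 71).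
NO self loop, no `q_thick`, no conditioning: the state is closed DETERMINISTICALLY by a fan completion (`Tr/FanRim`).
PROOF.   ONE forward strand `a := em nm` (tip `x⁻`) `→ dm → dp → ep np` (tip `x⁺`), `n` steps; `P₀ := LE(LB Σ⁻).rev · inn · LE(LB Σ⁺)` is faced in the faces `pvasFc` crossed by the strand.
`X := vorMeet Y (closedBall y₀ (4R))` (finite, Delaunay connected: `dlc_conn`), `A₀ := pvasFc ∪ Star X`, `c :=` its hull (`pl_hull_plane`): vertices of `c` in `box ∪ closedBall y₀ (4R + 3μ)`.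
ESCAPE (sec. 1): a site `p` outside the box, at distance `≥ 3 (4R + 3μ)` from `y₀`, is not a vertex of the disc `c.Left`: MAXIMUM PRINCIPLE twice: (1) linear (`dlc_nbr`): the disc lies below the level `r + r₀`;
(2) GREEDY ROUTING (`pvf4d_closer`: a site which is not nearest to `q` has a Delaunay neighbour strictly closer to `q`) towards `q := p + (r₀ + μ) e`: the closest vertex of the disc to `q` is interior, hence nearest to `q`, hence above the level `r + r₀`.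
So the faces beyond the two tips are outside the disc, the tips are on `c` (`pvfk_marks`), the fan closes `P₀` to a rim (`pvfk_rim`).   The sites of `closedBall y₀ (4R)` are interior: `ArmtLoc` (sec. 2).
* sec. 1  `pvf4d_closer`, `pvf4d_lin`, `pvf4d_esc_half`, **`pvf4d_esc`**
* sec. 2  `pvf4dLab`, `pvf4d_loc` (the fan completion is a local model), `pvf4d_adj_le`, `pvf4d_X_*`
* sec. 3  **`pvf4d_core`** (strand form), `pvf4d_nr_fl` (colour exchange)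
* sec. 4  the state: `pvf4d_strand`, `pvf4d_cat`, **`pvf4d_det`**;   `pvf4d_flag` (conclusion in `pvf4N`);   `pvf4d_pinch` (shared vertex ⟹ a small rim through the inner arc)
-/

set_option autoImplicit false
set_option linter.unusedSectionVars false
set_option linter.unusedVariables false

namespace Claimed.Agent.R289

open Set Metric Relation
open Claims.C0465

/-! ## 1. greedy routing, the escape lemma -/

/-- **GREEDY ROUTING**: a site which is not a nearest site of `q` has a Delaunay neighbour which is strictly closer to `q` -/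
theorem pvf4d_closer {Y : Set ℂ} (h : DelGood Y) {v : ℂ} (hv : v ∈ Y) {q u : ℂ} (hu : u ∈ Y) (huv : ‖q - u‖ < ‖q - v‖) : ∃ b, DelAdj Y v b ∧ ‖q - b‖ < ‖q - v‖ := by
  have hqv : q - v ≠ 0 := by
    intro h0
    rw [h0, norm_zero] at huv
    exact absurd huv (not_lt.2 (norm_nonneg _))
  have hun : 0 < ‖q - v‖ := norm_pos_iff.2 hqv
  set f : ℝ → ℂ := fun t => v + (t : ℂ) * (q - v) with hf
  have hfc : Continuous f := by rw [hf]; fun_prop
  have hfn : ∀ t : ℝ, ‖f t - v‖ = |t| * ‖q - v‖ := fun t => by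
    rw [hf]; simp only [add_sub_cancel_left, norm_mul, Complex.norm_real, Real.norm_eq_abs]
  set S : Set ℝ := f ⁻¹' vorCell Y v with hS
  have hScl : IsClosed S := (vor_isClosed_cell Y v).preimage hfc
  obtain ⟨R, hR⟩ := (h.bdd v).subset_closedBall v
  have hSb : BddAbove S := ⟨R / ‖q - v‖, fun t ht => by
    have h1 := hR ht
    rw [mem_closedBall, dist_eq_norm, hfn] at h1
    rw [le_div_iff₀ hun]
    exact (mul_le_mul_of_nonneg_right (le_abs_self t) hun.le).trans h1⟩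
  obtain ⟨δ, hδ, hball⟩ := vor_ball_subset_cell h.lf v
  have h0 : δ / (2 * ‖q - v‖) ∈ S := by
    apply hball
    rw [mem_ball, dist_eq_norm, hfn, abs_of_pos (by positivity)]
    have : δ / (2 * ‖q - v‖) * ‖q - v‖ = δ / 2 := by field_simp
    rw [this]; linarith
  have hmem : sSup S ∈ S := hScl.csSup_mem ⟨_, h0⟩ hSb
  have hpos : 0 < sSup S := lt_of_lt_of_le (by positivity) (le_csSup hSb h0)
  set t := sSup S with ht
  have hfr : f t ∈ frontier (vorCell Y v) := by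
    rw [frontier, (vor_isClosed_cell Y v).closure_eq]
    refine ⟨hmem, fun hint => ?_⟩
    obtain ⟨ε, hε, hb⟩ := Metric.isOpen_iff.1 isOpen_interior _ hint
    have h1 : t + ε / (2 * ‖q - v‖) ∈ S := by
      refine interior_subset (s := vorCell Y v) (hb ?_)
      rw [mem_ball, dist_eq_norm]
      have e : f (t + ε / (2 * ‖q - v‖)) - f t = ((ε / (2 * ‖q - v‖) : ℝ) : ℂ) * (q - v) := by
        rw [hf]; push_cast; ring
      rw [e, norm_mul, Complex.norm_real, Real.norm_eq_abs, abs_of_pos (by positivity)]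
      have : ε / (2 * ‖q - v‖) * ‖q - v‖ = ε / 2 := by field_simp
      rw [this]; linarith
    have h2 := le_csSup hSb h1
    have h3 : 0 < ε / (2 * ‖q - v‖) := by positivity
    linarith
  have ht1 : t < 1 := by
    by_contra hge
    have hge' : 1 ≤ t := not_lt.1 hge
    have hq : q ∈ vorCell Y v := by
      have h1 := (vor_convex_cell Y v) (vor_self_mem Y v) hmem (a := 1 - 1 / t) (b := 1 / t) (by rw [sub_nonneg, div_le_one hpos]; exact hge') (by positivity) (by ring)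
      have e : (1 - 1 / t) • v + (1 / t) • f t = q := by
        rw [hf]
        simp only [Complex.real_smul]
        have htc : (t : ℂ) ≠ 0 := by exact_mod_cast hpos.ne'
        push_cast
        field_simp
        ring
      rwa [e] at h1
    exact absurd (hq u hu) (not_le.2 huv)
  obtain ⟨hc, b, hb, hbv, hcb⟩ := vor_frontier_subset h.lf hv hfr
  refine ⟨b, ⟨hv, hb, hbv.symm, _, hc, hcb⟩, ?_⟩
  have h1 := (delp_half (f t) b v).1 (hcb v hv)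
  have hre : (f t).re = v.re + t * (q.re - v.re) := by rw [hf]; simp
  have him : (f t).im = v.im + t * (q.im - v.im) := by rw [hf]; simp
  rw [hre, him] at h1
  have h2 : 0 < (v.re - b.re) ^ 2 + (v.im - b.im) ^ 2 := by
    by_contra hn
    apply hbv
    have a1 : v.re - b.re = 0 := by nlinarith [sq_nonneg (v.re - b.re), sq_nonneg (v.im - b.im)]
    have a2 : v.im - b.im = 0 := by nlinarith [sq_nonneg (v.re - b.re), sq_nonneg (v.im - b.im)]
    exact Complex.ext (by linarith) (by linarith)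
  set ip : ℝ := (b.re - v.re) * (q.re - v.re) + (b.im - v.im) * (q.im - v.im) with hip
  have h3 : (v.re - b.re) ^ 2 + (v.im - b.im) ^ 2 ≤ 2 * (t * ip) := by rw [hip]; nlinarith
  have h4 : 0 < ip := by
    have : 0 < t * ip := by linarith
    exact (pos_iff_pos_of_mul_pos this).1 hpos
  have h5 : 0 < (1 - t) * ip := mul_pos (by linarith) h4
  rw [← abs_of_nonneg (norm_nonneg (q - b)), ← abs_of_nonneg (norm_nonneg (q - v)), ← sq_lt_sq, Complex.sq_norm, Complex.sq_norm,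
    Complex.normSq_apply, Complex.normSq_apply]
  simp only [Complex.sub_re, Complex.sub_im]
  rw [hip] at h3 h5
  nlinarith

/-- linear maximum principle on a finite disc -/
theorem pvf4d_lin {Y : Set ℂ} (h : DelGood Y) (c : (delMap h).Cyc) (hfin : c.Left.Finite) {e : ℂ} (he : e ≠ 0) {M : ℝ}
    (hM : ∀ v ∈ c.verts, (v : ℂ).re * e.re + (v : ℂ).im * e.im ≤ M) {v : Y} (hv : v ∈ (delMap h).VOf c.Left) : (v : ℂ).re * e.re + (v : ℂ).im * e.im ≤ M := by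
  have hT := dls_isSph h
  obtain ⟨w, hw, hmax⟩ := Set.exists_max_image _ (fun x : Y => (x : ℂ).re * e.re + (x : ℂ).im * e.im) (pl_VOf_finite hT c hfin) ⟨v, hv⟩
  refine (hmax v hv).trans ?_
  have hw' := hw
  rw [pl_VOf_left hT c] at hw'
  rcases hw' with h1 | h1
  · exact hM w h1
  · exfalso
    obtain ⟨b, hb, hlt⟩ := dlc_nbr h w.2 he
    have h2 := (pl_int_edge hT c (d := dlsD h hb) h1).2.2
    have h3 := hmax _ h2
    have h4 : ((((delMap h).tgt (dlsD h hb) : Y)) : ℂ) = b := rfl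
    simp only [h4] at h3
    nlinarith

/-- the linear form is `1`-Lipschitz -/
theorem pvf4d_form_le {e : ℂ} (he : ‖e‖ = 1) (a : ℂ) : a.re * e.re + a.im * e.im ≤ ‖a‖ := by
  have h1 : e.re ^ 2 + e.im ^ 2 = 1 := by
    have := Complex.sq_norm e
    rw [he, Complex.normSq_apply] at this
    nlinarith
  have h2 : ‖a‖ ^ 2 = a.re ^ 2 + a.im ^ 2 := by
    rw [Complex.sq_norm, Complex.normSq_apply]; ring
  have h3 : (a.re * e.re + a.im * e.im) ^ 2 ≤ ‖a‖ ^ 2 := by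
    rw [h2]
    nlinarith [sq_nonneg (a.re * e.im - a.im * e.re)]
  exact le_of_abs_le (abs_le_of_sq_le_sq h3 (norm_nonneg _))

/-- **ESCAPE**, half plane form: the boundary cycle lies in `{ℓ ≤ t} ∪ closedBall y₀ r₀`, `ℓ y₀ ≤ t`; a site `p` with `t < ℓ p`, far from `y₀`, is not a vertex of the disc -/
theorem pvf4d_esc_half {Y : Set ℂ} (h : DelGood Y) (c : (delMap h).Cyc) (hfin : c.Left.Finite) {e : ℂ} (he : ‖e‖ = 1) {t r₀ μ : ℝ} {y₀ : ℂ}
    (hy₀ : y₀.re * e.re + y₀.im * e.im ≤ t) (hμ : 0 ≤ μ) (hμr : μ ≤ r₀) (hr₀ : 0 < r₀)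
    (hc : ∀ v ∈ c.verts, (v : ℂ).re * e.re + (v : ℂ).im * e.im ≤ t ∨ ‖(v : ℂ) - y₀‖ ≤ r₀) {p : Y} (hp : t < (p : ℂ).re * e.re + (p : ℂ).im * e.im)
    (hfar : 3 * r₀ ≤ ‖(p : ℂ) - y₀‖) (hd : ∃ u ∈ Y, ‖((p : ℂ) + ((r₀ + μ : ℝ) : ℂ) * e) - u‖ ≤ μ) : p ∉ (delMap h).VOf c.Left := by
  intro hpL
  have hT := dls_isSph h
  have he0 : e ≠ 0 := by
    intro h0
    rw [h0, norm_zero] at he
    exact zero_ne_one he
  have hee : e.re * e.re + e.im * e.im = 1 := by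
    have := Complex.sq_norm e
    rw [he, Complex.normSq_apply] at this
    linarith
  -- Cauchy-Schwarz for the unit vector `e`
  have hcs : ∀ w : ℂ, w.re * e.re + w.im * e.im ≤ ‖w‖ := by
    intro w
    have h1 : (w.re * e.re + w.im * e.im) ^ 2 ≤ ‖w‖ ^ 2 := by
      rw [Complex.sq_norm, Complex.normSq_apply]
      nlinarith [sq_nonneg (w.re * e.im - w.im * e.re)]
    exact le_of_abs_le (abs_le_of_sq_le_sq h1 (norm_nonneg _)) 
  set q : ℂ := (p : ℂ) + ((r₀ + μ : ℝ) : ℂ) * e with hq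
  have hqre : q.re = (p : ℂ).re + (r₀ + μ) * e.re := by rw [hq]; simp
  have hqim : q.im = (p : ℂ).im + (r₀ + μ) * e.im := by rw [hq]; simp
  have hqp : ‖q - (p : ℂ)‖ = r₀ + μ := by
    rw [hq, add_sub_cancel_left, norm_mul, he, mul_one, Complex.norm_real, Real.norm_of_nonneg (by linarith)]
  -- (1) the disc lies below the level `t + r₀`
  have hlev : ∀ v ∈ (delMap h).VOf c.Left, (v : ℂ).re * e.re + (v : ℂ).im * e.im ≤ t + r₀ := by
    intro v hv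
    refine pvf4d_lin h c hfin he0 (fun x hx => ?_) hv
    rcases hc x hx with h1 | h1
    · linarith
    · have h2 := hcs ((x : ℂ) - y₀)
      simp only [Complex.sub_re, Complex.sub_im] at h2
      nlinarith
  -- (2) the vertex of the disc closest to `q`
  obtain ⟨w, hw, hmin⟩ := Set.exists_min_image _ (fun x : Y => ‖q - (x : ℂ)‖) (pl_VOf_finite hT c hfin) ⟨p, hpL⟩
  have hwp : ‖q - (w : ℂ)‖ ≤ r₀ + μ := (hmin p hpL).trans hqp.le
  have hw' := hw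
  rw [pl_VOf_left hT c] at hw'
  rcases hw' with h1 | h1
  · -- `w` on the boundary cycle: too far from `q`
    rcases hc w h1 with h2 | h2
    · have h3 := hcs (q - (w : ℂ))
      simp only [Complex.sub_re, Complex.sub_im] at h3
      rw [hqre, hqim] at h3
      nlinarith
    · have h3 : ‖q - y₀‖ ≤ 2 * r₀ + μ := by
        calc ‖q - y₀‖ = ‖(q - (w : ℂ)) + ((w : ℂ) - y₀)‖ := by ring_nf
          _ ≤ ‖q - (w : ℂ)‖ + ‖(w : ℂ) - y₀‖ := norm_add_le _ _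
          _ ≤ 2 * r₀ + μ := by linarith
      have h4 : ‖q - y₀‖ ^ 2 ≤ (2 * r₀ + μ) ^ 2 := pow_le_pow_left₀ (norm_nonneg _) h3 2
      have h5 : (3 * r₀) ^ 2 ≤ ‖(p : ℂ) - y₀‖ ^ 2 := pow_le_pow_left₀ (by linarith) hfar 2
      rw [Complex.sq_norm, Complex.normSq_apply] at h4 h5
      simp only [Complex.sub_re, Complex.sub_im] at h4 h5
      rw [hqre, hqim] at h4
      have h6 : 0 < ((p : ℂ).re - y₀.re) * e.re + ((p : ℂ).im - y₀.im) * e.im := by nlinarith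
      have h7 : 0 ≤ (r₀ + μ) * (((p : ℂ).re - y₀.re) * e.re + ((p : ℂ).im - y₀.im) * e.im) := mul_nonneg (by linarith) h6.le
      have h8 : (r₀ + μ) ^ 2 * (e.re * e.re + e.im * e.im) = (r₀ + μ) ^ 2 := by rw [hee, mul_one]
      nlinarith
  · -- `w` interior: nearest site of `q`
    obtain ⟨u, hu, huq⟩ := hd
    have hnear : ‖q - (w : ℂ)‖ ≤ ‖q - u‖ := by
      by_contra hlt
      obtain ⟨b, hb, hbl⟩ := pvf4d_closer h w.2 hu (not_le.1 hlt)
      have h2 := (pl_int_edge hT c (d := dlsD h hb) h1).2.2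
      have h3 := hmin _ h2
      have h4 : ((((delMap h).tgt (dlsD h hb) : Y)) : ℂ) = b := rfl
      simp only [h4] at h3
      linarith
    have h2 := hcs (q - (w : ℂ))
    simp only [Complex.sub_re, Complex.sub_im] at h2
    rw [hqre, hqim] at h2
    have h3 := hlev w hw
    nlinarith

/-- **ESCAPE**: the boundary cycle lies in `box ∪ closedBall y₀ r₀`, `y₀` in the box; a site outside the box, far from `y₀`, is not a vertex of the disc -/
theorem pvf4d_esc {Y : Set ℂ} (h : DelGood Y) (c : (delMap h).Cyc) (hfin : c.Left.Finite) {z y₀ : ℂ} {r r₀ μ : ℝ} (hy₀ : y₀ ∈ pvwSq z r) (hμ : 0 ≤ μ) (hμr : μ ≤ r₀) (hr₀ : 0 < r₀)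
    (hc : ∀ v ∈ c.verts, (v : ℂ) ∈ pvwSq z r ∨ ‖(v : ℂ) - y₀‖ ≤ r₀) {p : Y} (hp : (p : ℂ) ∉ pvwSq z r) (hfar : 3 * r₀ ≤ ‖(p : ℂ) - y₀‖)
    (hd : VorDense Y (closedBall (p : ℂ) (r₀ + μ)) μ) : p ∉ (delMap h).VOf c.Left := by
  have hy := hy₀
  obtain ⟨hy1, hy2⟩ := hy
  rw [Complex.sub_re, abs_le] at hy1
  rw [Complex.sub_im, abs_le] at hy2
  have hbox : ∀ v : ℂ, v ∈ pvwSq z r → (-r ≤ v.re - z.re ∧ v.re - z.re ≤ r) ∧ (-r ≤ v.im - z.im ∧ v.im - z.im ≤ r) := by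
    rintro v ⟨h1, h2⟩
    rw [Complex.sub_re, abs_le] at h1
    rw [Complex.sub_im, abs_le] at h2
    exact ⟨h1, h2⟩
  have hdq : ∀ e : ℂ, ‖e‖ = 1 → ∃ u ∈ Y, ‖((p : ℂ) + ((r₀ + μ : ℝ) : ℂ) * e) - u‖ ≤ μ := by
    intro e he
    refine hd _ ?_
    rw [mem_closedBall, dist_eq_norm, add_sub_cancel_left, norm_mul, he, mul_one, Complex.norm_real, Real.norm_of_nonneg (by linarith)]
  have hp' : ¬ ((-r ≤ (p : ℂ).re - z.re ∧ (p : ℂ).re - z.re ≤ r) ∧ (-r ≤ (p : ℂ).im - z.im ∧ (p : ℂ).im - z.im ≤ r)) := by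
    rintro ⟨h1, h2⟩
    exact hp ⟨by rw [Complex.sub_re, abs_le]; exact h1, by rw [Complex.sub_im, abs_le]; exact h2⟩
  by_cases c1 : (p : ℂ).re - z.re ≤ r
  · by_cases c2 : -r ≤ (p : ℂ).re - z.re
    · by_cases c3 : (p : ℂ).im - z.im ≤ r
      · have c4 : ¬ (-r ≤ (p : ℂ).im - z.im) := fun c4 => hp' ⟨⟨c2, c1⟩, c4, c3⟩
        refine pvf4d_esc_half h c hfin (e := -Complex.I) (t := r - z.im) (by simp) (by simp; linarith) hμ hμr hr₀ (fun v hv => ?_) (by simp; linarith) hfar (hdq _ (by simp))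
        rcases hc v hv with h1 | h1
        · left; have := hbox _ h1; simp; linarith [this.2.1]
        · exact Or.inr h1
      · refine pvf4d_esc_half h c hfin (e := Complex.I) (t := r + z.im) (by simp) (by simp; linarith) hμ hμr hr₀ (fun v hv => ?_) (by simp; linarith) hfar (hdq _ (by simp))
        rcases hc v hv with h1 | h1
        · left; have := hbox _ h1; simp; linarith [this.2.2]
        · exact Or.inr h1
    · refine pvf4d_esc_half h c hfin (e := -1) (t := r - z.re) (by simp) (by simp; linarith) hμ hμr hr₀ (fun v hv => ?_) (by simp; linarith) hfar (hdq _ (by simp))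
      rcases hc v hv with h1 | h1
      · left; have := hbox _ h1; simp; linarith [this.1.1]
      · exact Or.inr h1
  · refine pvf4d_esc_half h c hfin (e := 1) (t := r + z.re) (by simp) (by simp; linarith) hμ hμr hr₀ (fun v hv => ?_) (by simp; linarith) hfar (hdq _ (by simp))
    rcases hc v hv with h1 | h1
    · left; have := hbox _ h1; simp; linarith [this.1.2]
    · exact Or.inr h1

/-! ## 2. the fan completion of a disc of the Delaunay plane is a local model -/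

/-- the labels of the completed sphere: the sites of the disc keep their names, the three outer vertices have none -/
def pvf4dLab {Y : Set ℂ} {D : Type} (F : PvFan Y D) (x : F.V') : Option ℂ := Sum.elim (fun v : Y => some (v : ℂ)) (fun _ => none) (F.nm x)

theorem pvf4d_eqns_cite : True := by
  have := @pvf4dLab.eq_1
  trivial

/-- **LOCAL MODEL**: all the darts which start at a site of `K` lie in the disc -/
theorem pvf4d_loc {Y : Set ℂ} (h : DelGood Y) (c : (delMap h).Cyc) (hfin : c.Left.Finite) (i1 i2 : ℕ) (h1 : 0 < i1) (h2 : i1 < i2) (h3 : i2 < c.n) {K : Set ℂ}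
    (hK : ∀ d : DelDart h, (((delMap h).src d : Y) : ℂ) ∈ K → d ∈ c.Left) :
    ArmtLoc Y K (PvFan.mk (delMap h) (dls_isSph h) c hfin i1 i2 h1 h2 h3).map (pvf4dLab (PvFan.mk (delMap h) (dls_isSph h) c hfin i1 i2 h1 h2 h3)) := by
  generalize hF : PvFan.mk (delMap h) (dls_isSph h) c hfin i1 i2 h1 h2 h3 = F
  -- the label decides the name
  have e : ∀ (x : F.V') (p : ℂ), pvf4dLab F x = some p ↔ ∃ v : Y, F.nm x = Sum.inl v ∧ (v : ℂ) = p := by
    intro x p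
    unfold pvf4dLab
    rcases hx : F.nm x with v | j
    · simp only [Sum.elim_inl, Option.some.injEq, Sum.inl.injEq]
      constructor
      · intro hh; exact ⟨v, rfl, hh⟩
      · rintro ⟨w, rfl, hh⟩; exact hh
    · simp
  subst hF
  refine ⟨PvFan.isSph _, PvFan.simple _ (dls_simple h), ?_, ?_, ?_, ?_⟩
  · intro v w p hv hw
    obtain ⟨v', hv1, hv2⟩ := (e v p).1 hv
    obtain ⟨w', hw1, hw2⟩ := (e w p).1 hw
    have : v' = w' := Subtype.ext (hv2.trans hw2.symm)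
    exact PvFan.nm_injective _ (by rw [hv1, hw1, this])
  · intro v p hv
    obtain ⟨v', -, hv2⟩ := (e v p).1 hv
    exact hv2 ▸ v'.2
  · intro a b c' ht ha
    obtain ⟨d, e1, e2, e3⟩ := (dls_face_iff h a b c').1 ht
    have hd : d ∈ c.Left := hK d (by rw [e1]; exact ha)
    refine ⟨.inn ⟨d, hd⟩, (e _ _).2 ⟨_, rfl, e1⟩, (e _ _).2 ⟨_, rfl, e2⟩, (e _ _).2 ⟨_, rfl, e3⟩⟩
  · intro x a hx ha
    obtain ⟨v, hv1, hv2⟩ := (e _ _).1 hx
    have hint : v ∈ (delMap h).Int c.Left := by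
      intro d hd
      exact hK d (by rw [hd, hv2]; exact ha)
    obtain ⟨d, hd, rfl⟩ := PvFan.int_em _ x v hv1 hint
    rw [PvFan.em_of_mem _ hd] at hv1 ⊢
    have hs : (delMap h).src d = v := Sum.inl.inj hv1
    refine ⟨_, _, (e _ _).2 ⟨_, rfl, rfl⟩, (e _ _).2 ⟨_, rfl, rfl⟩, ?_⟩
    have := dls_face d
    rw [hs, hv2] at this
    exact this

/-- Delaunay edges are short where the sites are dense -/
theorem pvf4d_adj_le {Y : Set ℂ} {a b : ℂ} {μ R : ℝ} (hμ : 0 ≤ μ) (hR : μ < R) (hd : VorDense Y (closedBall a R) μ) (hab : DelAdj Y a b) : ‖a - b‖ ≤ 2 * μ := by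
  obtain ⟨ha, hb, -, p, hpa, hpb⟩ := hab
  have h1 := vor_cell_subset_ball hμ hR hd hpa
  rw [mem_closedBall, dist_eq_norm] at h1
  have h2 : ‖p - b‖ ≤ ‖p - a‖ := hpb a ha
  calc ‖a - b‖ = ‖(p - b) - (p - a)‖ := by ring_nf
    _ ≤ ‖p - b‖ + ‖p - a‖ := norm_sub_le _ _
    _ ≤ 2 * μ := by linarith

/-- the sites whose cell meets a ball: finite, connected, close to the ball, with short stars -/
theorem pvf4d_X {Y : Set ℂ} (h : DelGood Y) {y₀ : ℂ} {ϱ μ : ℝ} (hϱ : 0 ≤ ϱ) (hμ : 0 < μ) (hd : VorDense Y (closedBall y₀ (ϱ + 3 * μ)) μ) :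
    {v : Y | (v : ℂ) ∈ vorMeet Y (closedBall y₀ ϱ)}.Finite ∧
    (∀ u ∈ {v : Y | (v : ℂ) ∈ vorMeet Y (closedBall y₀ ϱ)}, ∀ w ∈ {v : Y | (v : ℂ) ∈ vorMeet Y (closedBall y₀ ϱ)},
      ReflTransGen (fun u v : Y => (delMap h).Adj u v ∧ v ∈ {v : Y | (v : ℂ) ∈ vorMeet Y (closedBall y₀ ϱ)}) u w) ∧
    (∀ v : Y, ‖(v : ℂ) - y₀‖ ≤ ϱ → v ∈ {v : Y | (v : ℂ) ∈ vorMeet Y (closedBall y₀ ϱ)}) ∧
    ∀ v ∈ (delMap h).VOf ((delMap h).Star {v : Y | (v : ℂ) ∈ vorMeet Y (closedBall y₀ ϱ)}), ‖(v : ℂ) - y₀‖ ≤ ϱ + 3 * μ := by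
  have hA : ∀ v ∈ vorMeet Y (closedBall y₀ ϱ), ‖v - y₀‖ ≤ ϱ + μ := by
    rintro v ⟨hvY, w, hwc, hwb⟩
    have hw : ‖w - y₀‖ ≤ ϱ := mem_closedBall_iff_norm.1 hwb
    obtain ⟨u, hu, h1⟩ := hd w (mem_closedBall_iff_norm.2 (by linarith))
    have h2 : ‖w - v‖ ≤ μ := (hwc u hu).trans h1
    have h3 : ‖v - y₀‖ ≤ ‖v - w‖ + ‖w - y₀‖ := by
      have := norm_add_le (v - w) (w - y₀)
      rwa [sub_add_sub_cancel] at this
    rw [norm_sub_rev v w] at h3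
    linarith
  have hB : ∀ a b : ℂ, a ∈ vorMeet Y (closedBall y₀ ϱ) → DelAdj Y a b → ‖b - y₀‖ ≤ ϱ + 3 * μ := by
    intro a b ha hab
    have h1 := hA a ha
    have hd' : VorDense Y (closedBall a (2 * μ)) μ := hd.mono Subset.rfl (fun w hw => by
      rw [mem_closedBall_iff_norm] at hw ⊢
      have := norm_add_le (w - a) (a - y₀)
      rw [sub_add_sub_cancel] at this
      linarith) le_rfl
    have h2 := pvf4d_adj_le hμ.le (by linarith) hd' hab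
    have h3 := norm_add_le (b - a) (a - y₀)
    rw [sub_add_sub_cancel, norm_sub_rev b a] at h3
    linarith
  refine ⟨?_, ?_, ?_, ?_⟩
  · have h1 := (h.lf (‖y₀‖ + (ϱ + μ))).preimage (f := (Subtype.val : Y → ℂ)) Subtype.val_injective.injOn
    refine h1.subset fun v hv => ⟨v.2, ?_⟩
    rw [mem_closedBall_iff_norm, sub_zero]
    have h2 := hA _ hv
    have h3 := norm_add_le ((v : ℂ) - y₀) y₀
    rw [sub_add_cancel] at h3
    linarith
  · intro u hu w hw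
    exact dlc_conn h (convex_closedBall _ _).isPreconnected u hu w hw
  · intro v hv
    exact ⟨v.2, v, fun u _ => by rw [sub_self, norm_zero]; exact norm_nonneg _, mem_closedBall_iff_norm.2 hv⟩
  · rintro v ⟨d, hd', rfl⟩
    rcases hd' with h1 | h1 | h1
    · have := hA _ h1
      linarith
    · exact hB _ _ h1 (dls_dart_adj d).symm
    · have h2 := dls_dart_adj ((delMap h).nxt ((delMap h).nxt d))
      rw [(delMap h).src_nxt2, (delMap h).tgt_nxt2] at h2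
      exact hB _ _ h1 h2

/-! ## 3. the core -/

/-- **CORE** (strand form).   `a = a_0, …, a_n` a strand of the Delaunay plane whose faces lie over the box, the faces beyond its two ends do not; `y` a path from `src a_0` to `src a_n`, faced in the faces crossed by the strand;
two vertices of `y` within `s` of `y₀`, a vertex between them at distance `≥ S`; the two tip apexes far from `y₀`.   Then there is a near return at `y₀` in a local model. -/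
theorem pvf4d_core {Y : Set ℂ} (h : DelGood Y) (σ : ℂ → Bool) {a : DelDart h} (ha : pvasBW (delMap h) (fun v : Y => σ v) a) {n : ℕ}
    {y : (delMap h).Pth} (hy : y.Faced (fun v : Y => σ v) (pvasFc (delMap h) (fun v : Y => σ v) a n) ((delMap h).tgt a))
    (h0 : y.v 0 = (delMap h).src a) (h1 : y.v y.n = (delMap h).src (pvasIt (delMap h) (fun v : Y => σ v) a n))
    {z y₀ : ℂ} {r R μ s S : ℝ} (hbox : ∀ v ∈ (delMap h).VOf (pvasFc (delMap h) (fun v : Y => σ v) a n), (v : ℂ) ∈ pvwSq z r)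
    (hp : (((delMap h).apex (pvasIt (delMap h) (fun v : Y => σ v) a n) : Y) : ℂ) ∉ pvwSq z r) (hm : (((delMap h).apex ((delMap h).opp a) : Y) : ℂ) ∉ pvwSq z r)
    (hy₀ : y₀ ∈ pvwSq z r) (hμ : 0 < μ) (hR : 0 ≤ R) (hs : s ≤ 4 * R) (hd : VorDense Y (vorNbd (pvwSq z r) (4 * R + 6 * μ)) μ)
    (hfp : 3 * (4 * R + 3 * μ) ≤ ‖(((delMap h).apex (pvasIt (delMap h) (fun v : Y => σ v) a n) : Y) : ℂ) - y₀‖)
    (hfm : 3 * (4 * R + 3 * μ) ≤ ‖(((delMap h).apex ((delMap h).opp a) : Y) : ℂ) - y₀‖)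
    {k i k' : ℕ} (hki : k < i) (hik : i < k') (hk' : k' ≤ y.n) (n1 : ‖(y.v k : ℂ) - y₀‖ ≤ s) (n2 : ‖(y.v k' : ℂ) - y₀‖ ≤ s) (f1 : S ≤ ‖(y.v i : ℂ) - y₀‖) :
    ArmtNR Y σ y₀ s S R := by
  classical
  have hinf : Infinite (DelDart h) := dlc_infinite_dart h
  have hyn : 0 < y.n := by omega
  have hk : k < y.n := by omega
  have hd1 : VorDense Y (closedBall y₀ (4 * R + 3 * μ)) μ :=
    hd.mono Subset.rfl (fun w hw => ⟨y₀, hy₀, by have := mem_closedBall_iff_norm.1 hw; linarith⟩) le_rfl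
  obtain ⟨X1, X2, X3, X4⟩ := pvf4d_X h (y₀ := y₀) (ϱ := 4 * R) (μ := μ) (by positivity) hμ hd1
  -- a common face
  have hxF : (delMap h).opp (y.e k) ∈ pvasFc (delMap h) (fun v : Y => σ v) a n := (hy.2 k hk).1
  have hxS : (delMap h).opp (y.e k) ∈ (delMap h).Star {v : Y | (v : ℂ) ∈ vorMeet Y (closedBall y₀ (4 * R))} :=
    Or.inr (Or.inl (by rw [(delMap h).tgt_opp, y.src_e k hk]; exact X3 _ (n1.trans hs)))
  have hn : 0 < n := by
    obtain ⟨j, hj, -⟩ := hxF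
    omega
  -- the density round the two tip apexes
  have hnear : ∀ d : DelDart h, (((delMap h).src d : Y) : ℂ) ∈ pvwSq z r → VorDense Y (closedBall (((delMap h).apex d : Y) : ℂ) (4 * R + 3 * μ + μ)) μ := by
    intro d hq
    have h2 := dls_dart_adj ((delMap h).nxt ((delMap h).nxt d))
    rw [(delMap h).src_nxt2, (delMap h).tgt_nxt2] at h2
    have hd2 : VorDense Y (closedBall (((delMap h).src d : Y) : ℂ) (2 * μ)) μ :=
      hd.mono Subset.rfl (fun w hw => ⟨_, hq, by have := mem_closedBall_iff_norm.1 hw; linarith⟩) le_rfl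
    have h3 := pvf4d_adj_le hμ.le (by linarith) hd2 h2.symm
    refine hd.mono Subset.rfl (fun w hw => ⟨_, hq, ?_⟩) le_rfl
    have h4 := mem_closedBall_iff_norm.1 hw
    have h5 := norm_add_le (w - (((delMap h).apex d : Y) : ℂ)) ((((delMap h).apex d : Y) : ℂ) - (((delMap h).src d : Y) : ℂ))
    rw [sub_add_sub_cancel, norm_sub_rev (((delMap h).apex d : Y) : ℂ)] at h5
    linarith
  have hsp : (((delMap h).src (pvasIt (delMap h) (fun v : Y => σ v) a n) : Y) : ℂ) ∈ pvwSq z r := by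
    obtain ⟨n', rfl⟩ : ∃ n', n = n' + 1 := ⟨n - 1, by omega⟩
    refine hbox _ ⟨(delMap h).nxt ((delMap h).opp (pvasIt (delMap h) (fun v : Y => σ v) a (n' + 1))), ⟨n', Nat.lt_succ_self _, ?_⟩, ?_⟩
    · rw [pvas_it_succ]
      exact (delMap h).sf_trans (pvas_step_sf _ _) ((delMap h).sf_nxt _)
    · rw [(delMap h).src_nxt, (delMap h).tgt_opp]
  have hsm : (((delMap h).src ((delMap h).opp a) : Y) : ℂ) ∈ pvwSq z r := by
    refine hbox _ ⟨(delMap h).nxt a, ⟨0, hn, (delMap h).sf_nxt a⟩, ?_⟩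
    rw [(delMap h).src_nxt, (delMap h).src_opp']
  -- escape
  have hesc : ∀ c : (delMap h).Cyc, c.Left.Finite →
      (∀ i, c.e i ∈ pvasFc (delMap h) (fun v : Y => σ v) a n ∪ (delMap h).Star {v : Y | (v : ℂ) ∈ vorMeet Y (closedBall y₀ (4 * R))}) →
      (delMap h).apex (pvasIt (delMap h) (fun v : Y => σ v) a n) ∉ (delMap h).VOf c.Left ∧ (delMap h).apex ((delMap h).opp a) ∉ (delMap h).VOf c.Left := by
    intro c hfin hc
    have hcv : ∀ v ∈ c.verts, (v : ℂ) ∈ pvwSq z r ∨ ‖(v : ℂ) - y₀‖ ≤ 4 * R + 3 * μ := by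
      rintro v ⟨i, rfl⟩
      rcases hc i with h1 | h1
      · exact Or.inl (hbox _ ⟨_, h1, rfl⟩)
      · exact Or.inr (X4 _ ⟨_, h1, rfl⟩)
    exact ⟨pvf4d_esc h c hfin hy₀ hμ.le (by linarith) (by positivity) hcv hp hfp (hnear _ hsp),
      pvf4d_esc h c hfin hy₀ hμ.le (by linarith) (by positivity) hcv hm hfm (hnear _ hsm)⟩
  obtain ⟨c, hfin, i1, i2, g1, g2, g3, hStar, C, hC, hCn, hCv, hCs⟩ := pvfk_model (dls_isSph h) (dls_simple h) ha X1 X2 hxF hxS hesc hy h0 h1 hyn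
  refine ⟨_, _, (PvFan.mk (delMap h) (dls_isSph h) c hfin i1 i2 g1 g2 g3).map, pvf4dLab (PvFan.mk (delMap h) (dls_isSph h) c hfin i1 i2 g1 g2 g3),
    (PvFan.mk (delMap h) (dls_isSph h) c hfin i1 i2 g1 g2 g3).col (fun v : Y => σ v) ![true, false, false], ?_, ?_, C, hC, k, i, k', y.n + 1, hki, hik, by omega, by omega, ?_, ?_, ?_, ?_⟩
  · exact pvf4d_loc h c hfin i1 i2 g1 g2 g3 fun d hd => hStar (Or.inl (X3 _ (mem_closedBall_iff_norm.1 hd)))
  · intro v p hv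
    rcases v with v | j
    · have e : (v.1 : ℂ) = p := Option.some.inj hv
      rw [← e]
      rfl
    · exact absurd hv (by simp [pvf4dLab, PvFan.nm])
  · exact ⟨y.v k, by unfold pvf4dLab; rw [hCv k (by omega)]; rfl, n1⟩
  · exact ⟨y.v k', by unfold pvf4dLab; rw [hCv k' hk']; rfl, n2⟩
  · intro p hp'
    unfold pvf4dLab at hp'
    rw [hCv i (by omega)] at hp'
    have e : (y.v i : ℂ) = p := Option.some.inj hp'
    rw [← e]
    exact f1
  · intro p hp'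
    rw [hCs] at hp'
    exact absurd hp' (by simp [pvf4dLab, PvFan.nm, PvFan.sv])

/-- near returns do not see the exchange of the two colours -/
theorem pvf4d_nr_fl {Y : Set ℂ} {σ : ℂ → Bool} (b : Bool) {z : ℂ} {s S R : ℝ} (h : ArmtNR Y (fun p => σ p == b) z s S R) : ArmtNR Y σ z s S R := by
  obtain ⟨V, D, T, lab, col, hL, hc, c, hr, rest⟩ := h
  cases b
  · refine ⟨V, D, T, lab, pvasNot col, hL, fun v p hv => ?_, c, pvlf_rim_not.2 hr, rest⟩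
    have : col v = (σ p == false) := hc v p hv
    unfold pvasNot
    rw [this]
    cases σ p <;> rfl
  · refine ⟨V, D, T, lab, col, hL, fun v p hv => ?_, c, hr, rest⟩
    have : col v = (σ p == true) := hc v p hv
    rw [this]
    cases σ p <;> rfl

/-! ## 4. the state -/

section state

variable {V D : Type} {T : PvMap V D}

/-- **ONE FORWARD STRAND** from the tip `x⁻` to the tip `x⁺` -/
theorem pvf4d_strand {𝔖 : PvwSt T} {pos : V → ℂ} {h : ℝ} {z : ℂ} {τ : PvwTy} {B : Set ℂ} {s : V → Bool} (hg : 𝔖.Gate pos h z τ s) (hp : 𝔖.StubP pos B s) (hm : 𝔖.StubM pos B s) :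
    pvasBW T s (𝔖.em 𝔖.nm) ∧ ∃ ni, pvasIt T s (𝔖.em 𝔖.nm) 𝔖.nm = 𝔖.dm ∧ pvasIt T s 𝔖.dm ni = 𝔖.dp ∧ (∀ i, i < ni → pvasIt T s 𝔖.dm i ∈ 𝔖.S.Left) ∧
      PvwLE T (fun i => T.src (pvasIt T s 𝔖.dm i)) ni 𝔖.inn ∧ (∀ i, i ≤ 𝔖.nm → pvasIt T s (𝔖.em 𝔖.nm) i = 𝔖.em (𝔖.nm - i)) ∧
      (∀ i, i ≤ ni → pvasIt T s (𝔖.em 𝔖.nm) (𝔖.nm + i) = pvasIt T s 𝔖.dm i) ∧ ∀ i, i ≤ 𝔖.np → pvasIt T s (𝔖.em 𝔖.nm) (𝔖.nm + ni + i) = 𝔖.ep i := by
  obtain ⟨ni, h1, h2, h3⟩ := hg.strand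
  have he := pvwk_em_fwd_end hm hg.bw_m
  refine ⟨pvwk_em_bw hm hg.bw_m le_rfl, ni, he, h1, h2, h3, fun i hi => pvwk_em_fwd hm hg.bw_m hi, fun i _ => ?_, fun i hi => ?_⟩
  · rw [pvas_it_add, he]
  · rw [pvas_it_add, pvas_it_add, he, h1, hp.ep_it i hi]

/-- a black bank site of the exit stub which is a site of the closed inside of the gate is one of the two black sites of the gate -/
theorem pvf4d_bkP_ins (hT : T.IsSph) {𝔖 : PvwSt T} {pos : V → ℂ} {N : PvwNum} {h : ℝ} {z : ℂ} {τ : PvwTy} {s : V → Bool} (hA : 𝔖.AtOut pos N h z τ s) {v : V} (hv : v ∈ 𝔖.bkP)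
    (hi : v ∈ 𝔖.ins) : v ∈ 𝔖.S.verts ∧ (v = 𝔖.gp ∨ v = 𝔖.gm) := by
  have hb : s v = true := pvwk_bkP_col hA.stub hA.gate.bw_p hv
  have hvS : v ∈ 𝔖.S.verts := by
    unfold PvwSt.ins at hi
    rw [pl_VOf_left hT] at hi
    rcases hi with hi | hi
    · exact hi
    · obtain ⟨i, hi', rfl⟩ := hv
      exact absurd (hi _ rfl) (hA.good.off_p i hi')
  exact ⟨hvS, hA.gate.two v hvS hb⟩

theorem pvf4d_bkM_ins (hT : T.IsSph) {𝔖 : PvwSt T} {pos : V → ℂ} {N : PvwNum} {h : ℝ} {z : ℂ} {τ : PvwTy} {s : V → Bool} (hA : 𝔖.AtIn pos N h z τ s) {v : V} (hv : v ∈ 𝔖.bkM)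
    (hi : v ∈ 𝔖.ins) : v ∈ 𝔖.S.verts ∧ (v = 𝔖.gp ∨ v = 𝔖.gm) := by
  have hb : s v = true := pvwk_bkM_col hA.stub hA.gate.bw_m hv
  have hvS : v ∈ 𝔖.S.verts := by
    unfold PvwSt.ins at hi
    rw [pl_VOf_left hT] at hi
    rcases hi with hi | hi
    · exact hi
    · obtain ⟨i, hi', rfl⟩ := hv
      have h1 : T.nxt (T.opp (𝔖.em i)) ∈ 𝔖.S.Left := hi _ (by rw [T.src_nxt, T.tgt_opp])
      exact absurd ((pl_left_face 𝔖.S _).1 h1) (hA.good.off_m i hi')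
  exact ⟨hvS, hA.gate.two v hvS hb⟩

/-- the vertices of a last-exit decomposition are values of the walk -/
theorem pvf4d_le_verts {b : ℕ → V} {n : ℕ} {y : T.Pth} (hy : PvwLE T b n y) {v : V} (hv : v ∈ y.verts) : ∃ i, i ≤ n ∧ b i = v := by
  obtain ⟨j, -, -, h1, -⟩ := hy
  obtain ⟨k, hk, rfl⟩ := hv
  exact ⟨j k, (h1 k hk).1, (h1 k hk).2.1.symm⟩

theorem pvf4d_le_vn {b : ℕ → V} {n : ℕ} {y : T.Pth} (hy : PvwLE T b n y) : y.v y.n = b n := by
  obtain ⟨j, -, hn, h1, -⟩ := hy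
  rw [(h1 y.n le_rfl).2.1, hn]

/-- the darts of the last-exit decomposition of the black bank of the BACKWARD strand -/
theorem pvf4d_back_time (hS : T.Simple) {s : V → Bool} {e : ℕ → D} {n : ℕ} (hstep : ∀ i, i < n → e i = pvasStep T s (e (i + 1)))
    {y : T.Pth} (hy : PvwLE T (fun i => T.src (e i)) n y) {k : ℕ} (hk : k < y.n) : ∃ i, i < n ∧ y.e k = T.nxt (T.nxt (e (i + 1))) := by
  obtain ⟨j, h0, hn, h1, h2⟩ := hy
  have hlt := pvt_sd_idx_lt (b := fun i => T.src (e i)) hn h1 hk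
  have e1 : y.v k = T.src (e (j k)) := (h1 k hk.le).2.1
  have e2 : y.v (k + 1) = T.src (e (j k + 1)) := h2 k hk
  rw [hstep _ hlt] at e1
  rcases pvas_step_ends s (e (j k + 1)) with ⟨-, e3, -⟩ | ⟨-, e3, -⟩
  · refine ⟨j k, hlt, hS _ _ ?_ ?_⟩
    · rw [y.src_e k hk, e1, e3, T.src_nxt2]
    · rw [y.tgt_e k hk, e2, T.tgt_nxt2]
  · exfalso
    have := y.inj (k + 1) k hk hk.le (by rw [e1, e2, e3])
    omega

/-- **THE PATH `P₀ = LE(LB Σ⁻).rev · inn · LE(LB Σ⁺)`** of a state whose two erased banks are vertex disjoint: a simple path, faced in the faces crossed by the strand -/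
theorem pvf4d_cat (hT : T.IsSph) (hS : T.Simple) {𝔖 : PvwSt T} {pos : V → ℂ} {N : PvwNum} {h : ℝ} {z : ℂ} {τ : PvwTy} {s : V → Bool} (hAt : 𝔖.At pos N h z τ s)
    {yp ym : T.Pth} (hyp : PvwLE T (fun i => T.src (𝔖.ep i)) 𝔖.np yp) (hym : PvwLE T (fun i => T.src (𝔖.em i)) 𝔖.nm ym) (hdis : ∀ v ∈ yp.verts, v ∉ ym.verts) :
    ∃ (n : ℕ) (y : T.Pth), pvasIt T s (𝔖.em 𝔖.nm) n = 𝔖.ep 𝔖.np ∧ y.Faced s (pvasFc T s (𝔖.em 𝔖.nm) n) (T.tgt (𝔖.em 𝔖.nm)) ∧ y.n = ym.n + 𝔖.inn.n + yp.n ∧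
      (∀ k, k ≤ ym.n → y.v k = ym.v (ym.n - k)) ∧ (∀ k, k ≤ 𝔖.inn.n → y.v (ym.n + k) = 𝔖.inn.v k) ∧ (∀ k, k ≤ yp.n → y.v (ym.n + 𝔖.inn.n + k) = yp.v k) ∧
      ∀ v ∈ T.VOf (pvasFc T s (𝔖.em 𝔖.nm) n), v ∈ 𝔖.fz := by
  have hg := hAt.out.gate
  have hP := hAt.out.stub
  have hM := hAt.inn.stub
  obtain ⟨ha, ni, e1, e2, e3, e4, e5, e6, e7⟩ := pvf4d_strand hg hP hM
  set a := 𝔖.em 𝔖.nm with hadef
  set n := 𝔖.nm + ni + 𝔖.np with hn
  set R := pvasFc T s a n with hR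
  have hwhite : ∀ v ∈ pvasLayW T s a n, v ∈ {v | s v = s (T.tgt a)} := by
    intro v hv
    show s v = s (T.tgt a)
    rw [pvas_layW_white ha hv, ha.2]
  have hjoin : ∀ i, i ≤ n → T.Join R {v | s v = s (T.tgt a)} (T.tgt a) (T.tgt (pvasIt T s a i)) := fun i hi =>
    pvt_c_join_mono_set (le_refl _) hwhite (pvas_layW_join s a hi)
  -- vertex sets
  have hypv : ∀ v ∈ yp.verts, v ∈ 𝔖.bkP := fun v hv => pvf4d_le_verts hyp hv
  have hymv : ∀ v ∈ ym.verts, v ∈ 𝔖.bkM := fun v hv => pvf4d_le_verts hym hv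
  have hinv : ∀ v ∈ 𝔖.inn.verts, v ∈ 𝔖.ins := by
    intro v hv
    obtain ⟨i, hi, rfl⟩ := pvt_sd_verts e4 hv
    rcases Nat.lt_or_ge i ni with h1 | h1
    · exact ⟨_, e3 i h1, rfl⟩
    · have : i = ni := le_antisymm hi h1
      rw [this, e2]
      exact (pvwk_gate_ends hT hg).1
  have hym0 : ym.v 0 = 𝔖.gm := by
    rw [hym.choose_spec.1]
    show T.src (𝔖.em 0) = _
    rw [pvwk_em_zero hM]
    rfl
  have hyp0 : yp.v 0 = 𝔖.gp := by
    rw [hyp.choose_spec.1]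
    show T.src (𝔖.ep 0) = _
    rw [pvwk_ep_zero hP]
    rfl
  have hin0 : 𝔖.inn.v 0 = 𝔖.gm := pvt_sd_v0 e4
  have hinn : 𝔖.inn.v 𝔖.inn.n = 𝔖.gp := by
    rw [pvt_sd_vn e4, e2]
    rfl
  have hgm_ym : 𝔖.gm ∈ ym.verts := ⟨0, Nat.zero_le _, hym0⟩
  have hgp_yp : 𝔖.gp ∈ yp.verts := ⟨0, Nat.zero_le _, hyp0⟩
  -- the three faced pieces
  have F1 : ym.rev.Faced s R (T.tgt a) := by
    constructor
    · intro i hi
      have : ym.rev.v i ∈ ym.verts := ⟨ym.n - i, Nat.sub_le _ _, rfl⟩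
      rw [pvwk_bkM_col hM hg.bw_m (hymv _ this), ha.2]
      exact Bool.false_ne_true.symm
    · intro k hk
      have hk' : ym.n - 1 - k < ym.n := by
        have : k < ym.n := hk
        omega
      obtain ⟨i, hi, he⟩ := pvf4d_back_time (s := s) hS (fun i hi => by
        rw [pvwk_em_succ hM hi, pvas_step_back (pvwk_em_bw hM hg.bw_m hi.le)]) hym hk'
      have hop : T.opp (ym.rev.e k) = T.nxt (T.nxt (𝔖.em (i + 1))) := by
        show T.opp (T.opp (ym.e (ym.n - 1 - k))) = _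
        rw [T.opp_opp, he]
      have hit : pvasIt T s a (𝔖.nm - (i + 1)) = 𝔖.em (i + 1) := by
        rw [e5 _ (Nat.sub_le _ _)]
        congr 1
        omega
      rw [hop, T.apex_nxt2, ← hit]
      exact ⟨⟨𝔖.nm - (i + 1), by omega, T.sf_nxt2 _⟩, pvt_sf_join_symm (hjoin _ (by omega))⟩
  have F2 : 𝔖.inn.Faced s R (T.tgt a) := by
    have f := pvt_sd_faced hS hg.bw_m e4
    have hsub : pvasFc T s 𝔖.dm ni ⊆ R := by
      rintro f ⟨i, hi, hf⟩
      exact ⟨𝔖.nm + i, by omega, by rw [e6 i hi.le]; exact hf⟩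
    have f' := f.mono hsub
    refine f'.anchor ?_
    have hj := pvt_sf_join_symm (hjoin 𝔖.nm (by omega))
    rw [e1] at hj
    have hc : s (T.tgt 𝔖.dm) = s (T.tgt a) := by rw [hg.bw_m.2, ha.2]
    rw [hc]
    exact hj
  have F3 : yp.Faced s R (T.tgt a) := by
    have hyp' : PvwLE T (fun i => T.src (pvasIt T s 𝔖.dp i)) 𝔖.np yp :=
      pvt_sd_le_congr' (fun i hi => by show T.src (𝔖.ep i) = _; rw [hP.ep_it i hi]) hyp
    have f := pvt_sd_faced hS hg.bw_p hyp'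
    have hsub : pvasFc T s 𝔖.dp 𝔖.np ⊆ R := by
      rintro f ⟨i, hi, hf⟩
      exact ⟨𝔖.nm + ni + i, by omega, by rw [e7 i hi.le, hP.ep_it i hi.le]; exact hf⟩
    have f' := f.mono hsub
    refine f'.anchor ?_
    have hj := pvt_sf_join_symm (hjoin (𝔖.nm + ni) (by omega))
    rw [e6 ni le_rfl, e2] at hj
    have hc : s (T.tgt 𝔖.dp) = s (T.tgt a) := by rw [hg.bw_p.2, ha.2]
    rw [hc]
    exact hj
  -- concatenations
  have A1 : ym.rev.App 𝔖.inn := by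
    refine ⟨?_, ?_⟩
    · show ym.v (ym.n - ym.n) = _
      rw [Nat.sub_self, hym0, hin0]
    · intro i j hi hj hij
      have hi' : i ≤ ym.n := hi
      have hx1 : ym.rev.v i ∈ ym.verts := ⟨ym.n - i, Nat.sub_le _ _, rfl⟩
      have hx2 : ym.rev.v i ∈ 𝔖.ins := by rw [hij]; exact hinv _ ⟨j, hj, rfl⟩
      rcases (pvf4d_bkM_ins hT hAt.inn (hymv _ hx1) hx2).2 with h1 | h1
      · rw [h1] at hx1
        exact absurd hx1 (hdis _ hgp_yp)
      · have h2 : ym.n - i = 0 := ym.inj _ _ (Nat.sub_le _ _) (Nat.zero_le _) (by rw [hym0]; exact h1)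
        have h3 : j = 0 := 𝔖.inn.inj _ _ hj (Nat.zero_le _) (by rw [hin0, ← hij]; exact h1)
        exact ⟨by show i = ym.n; omega, h3⟩
  have A2 : (ym.rev.app 𝔖.inn A1).App yp := by
    refine ⟨?_, ?_⟩
    · rw [pvt_c_app_vn, hinn, hyp0]
    · intro i j hi hj hij
      rw [pvt_c_app_n] at hi ⊢
      have hx2 : yp.v j ∈ yp.verts := ⟨j, hj, rfl⟩
      have hx1 : (ym.rev.app 𝔖.inn A1).v i ∈ (ym.rev.app 𝔖.inn A1).verts := ⟨i, by rw [pvt_c_app_n]; exact hi, rfl⟩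
      rcases Nat.lt_or_ge i ym.rev.n with h1 | h1
      · exfalso
        rw [pvt_c_app_v1 _ _ _ h1.le] at hij
        have : ym.rev.v i ∈ ym.verts := ⟨ym.n - i, Nat.sub_le _ _, rfl⟩
        rw [hij] at this
        exact hdis _ hx2 this
      · obtain ⟨m, rfl⟩ := Nat.exists_eq_add_of_le h1
        rw [pvt_c_app_v2] at hij
        have hm : m ≤ 𝔖.inn.n := by omega
        have hx3 : yp.v j ∈ 𝔖.ins := by rw [← hij]; exact hinv _ ⟨m, hm, rfl⟩
        rcases (pvf4d_bkP_ins hT hAt.out (hypv _ hx2) hx3).2 with h2 | h2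
        · have h3 : j = 0 := yp.inj _ _ hj (Nat.zero_le _) (by rw [hyp0]; exact h2)
          have h4 : m = 𝔖.inn.n := 𝔖.inn.inj _ _ hm le_rfl (by rw [hinn, hij]; exact h2)
          exact ⟨by rw [h4], h3⟩
        · rw [h2] at hx2
          exact absurd hgm_ym (hdis _ hx2)
  refine ⟨n, (ym.rev.app 𝔖.inn A1).app yp A2, e7 _ le_rfl, pvt_c_app_faced _ _ A2 (pvt_c_app_faced _ _ A1 F1 F2) F3, rfl, ?_, ?_, ?_, ?_⟩
  · intro k hk
    rw [pvt_c_app_v1 _ _ _ (by rw [pvt_c_app_n]; show k ≤ ym.n + _; omega), pvt_c_app_v1 _ _ _ (by show k ≤ ym.n; exact hk)]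
    rfl
  · intro k hk
    rw [pvt_c_app_v1 _ _ _ (by rw [pvt_c_app_n]; show ym.n + k ≤ ym.n + _; omega)]
    exact pvt_c_app_v2 ym.rev 𝔖.inn A1 k
  · intro k _
    exact pvt_c_app_v2 (ym.rev.app 𝔖.inn A1) yp A2 k
  · intro v hv
    have hn1 : 1 ≤ n := by
      obtain ⟨d, ⟨i, hi, -⟩, -⟩ := hv
      omega
    rw [pvas_fc_verts s a hn1] at hv
    have key : ∀ i, i ≤ n → T.src (pvasIt T s a i) ∈ 𝔖.fz ∧ T.tgt (pvasIt T s a i) ∈ 𝔖.fz := by
      intro i hi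
      rcases Nat.lt_or_ge i 𝔖.nm with h1 | h1
      · rw [e5 i h1.le]
        exact ⟨Or.inr (Or.inl (Or.inr ⟨_, Nat.sub_le _ _, rfl⟩)), Or.inr (Or.inr ⟨_, Nat.sub_le _ _, rfl⟩)⟩
      · obtain ⟨m, rfl⟩ := Nat.exists_eq_add_of_le h1
        rcases Nat.lt_or_ge m ni with h2 | h2
        · rw [e6 m h2.le]
          have h3 := pvwk_vof (pl_left_face 𝔖.S) (e3 m h2)
          exact ⟨Or.inl (Or.inl (Or.inl (pvwk_ins_sub_core hg h3.1))), Or.inl (Or.inl (Or.inl (pvwk_ins_sub_core hg h3.2.1)))⟩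
        · obtain ⟨l, rfl⟩ := Nat.exists_eq_add_of_le h2
          rw [← Nat.add_assoc, e7 l (by omega)]
          exact ⟨Or.inl (Or.inl (Or.inr ⟨l, by omega, rfl⟩)), Or.inl (Or.inr ⟨l, by omega, rfl⟩)⟩
    rcases hv with ⟨i, hi, rfl⟩ | ⟨i, hi, rfl⟩
    · exact (key i hi).1
    · exact (key i hi).2

/-- the sites of the exit stub are outside the open disc `B(z, a h)` -/
theorem pvf4d_off (hT : T.IsSph) {𝔖 : PvwSt T} {pos : V → ℂ} {N : PvwNum} {h : ℝ} {z : ℂ} {τ : PvwTy} {s : V → Bool} (hAt : 𝔖.At pos N h z τ s) {v : V} (hv : v ∈ 𝔖.bkP ∨ v ∈ 𝔖.bkM) :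
    τ.a * h ≤ ‖pos v - z‖ := by
  by_contra hlt
  rw [not_le] at hlt
  have hi : v ∈ 𝔖.ins := hAt.out.gate.round v hlt
  have hvS : v ∈ 𝔖.S.verts := by
    rcases hv with hv | hv
    · exact (pvf4d_bkP_ins hT hAt.out hv hi).1
    · exact (pvf4d_bkM_ins hT hAt.inn hv hi).1
  exact absurd hlt (not_lt.2 (hAt.out.gate.ann v hvS).1)

end state

/-- **E16, DETERMINISTIC HALF**.   `σ` = the colours of the sites, `b` = the colour of the rim.   A state with `(g3)` whose erased banks are vertex disjoint and come within `t` of each other carries a near return `(t; S, R)` in a local model. -/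
theorem pvf4d_det {Y : Set ℂ} (hY : DelGood Y) (σ : ℂ → Bool) (b : Bool) {𝔖 : PvwSt (delMap hY)} {N : PvwNum} {h : ℝ} {z : ℂ} {τ : PvwTy}
    (hAt : 𝔖.At (dlsPos Y) N h z τ (fun v : Y => σ v == b)) {μ R t S : ℝ} (hμ : 0 < μ) (hR : 0 ≤ R) (ht : t ≤ 4 * R) (htS : t < S) (hh : 0 < h)
    (hd : VorDense Y (vorNbd (pvwSq z (pvwRad N h τ τ.k)) (4 * R + 6 * μ)) μ) (hb : τ.b * h ≤ pvwRad N h τ τ.k)
    (hρ : 3 * (4 * R + 3 * μ) + 3 * μ + t ≤ N.rho * h) (hS : S + h ≤ τ.a * h)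
    {yp ym : (delMap hY).Pth} (hyp : PvwLE (delMap hY) (fun i => (delMap hY).src (𝔖.ep i)) 𝔖.np yp) (hym : PvwLE (delMap hY) (fun i => (delMap hY).src (𝔖.em i)) 𝔖.nm ym)
    (hdis : ∀ v ∈ yp.verts, v ∉ ym.verts) {v w : Y} (hv : v ∈ yp.verts) (hw : w ∈ ym.verts) (hvw : ‖(v : ℂ) - w‖ ≤ t) : ArmtNR Y σ v t S R := by
  have hT := dls_isSph hY
  have hSm := dls_simple hY
  have hg := hAt.out.gate
  have hP := hAt.out.stub
  have hM := hAt.inn.stub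
  have ht0 : 0 ≤ t := (norm_nonneg _).trans hvw
  obtain ⟨n, y, c1, c2, c3, c4, c5, c6, c7⟩ := pvf4d_cat hT hSm hAt hyp hym hdis
  have ha : pvasBW (delMap hY) (fun v : Y => σ v == b) (𝔖.em 𝔖.nm) := pvwk_em_bw hM hg.bw_m le_rfl
  have hvP : v ∈ 𝔖.bkP := pvf4d_le_verts hyp hv
  have hwM : w ∈ 𝔖.bkM := pvf4d_le_verts hym hw
  set r := pvwRad N h τ τ.k with hr
  -- short edges at the sites of the box
  have hshort : ∀ d : DelDart hY, (((delMap hY).src d : Y) : ℂ) ∈ pvwSq z r → ‖(((delMap hY).src d : Y) : ℂ) - (((delMap hY).tgt d : Y) : ℂ)‖ ≤ 2 * μ := by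
    intro d hdb
    refine pvf4d_adj_le (R := 4 * R + 6 * μ) hμ.le (by linarith) (hd.mono Subset.rfl ?_ le_rfl) (dls_dart_adj d)
    intro p hp
    exact ⟨_, hdb, by rw [← dist_eq_norm]; exact hp⟩
  have hbox : ∀ u ∈ 𝔖.fz, (u : ℂ) ∈ pvwSq z r := by
    rintro u (((hu | hu) | hu) | ((hu | hu) | hu))
    · exact pvwk_core_sq hg hb u hu
    · exact pvwk_banksP_in hP (Or.inl hu)
    · exact pvwk_banksP_in hP (Or.inr hu)
    · exact pvwk_core_sq hg hb u hu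
    · exact pvwk_banksM_in hM (Or.inl hu)
    · exact pvwk_banksM_in hM (Or.inr hu)
  have hvbox : (v : ℂ) ∈ pvwSq z r := hbox v (Or.inl (Or.inl (Or.inr hvP)))
  -- the two tip apexes are far from `v`
  have hap : ‖(((delMap hY).apex (𝔖.ep 𝔖.np) : Y) : ℂ) - τ.cp h z‖ ≤ N.rho * h / 4 + 2 * μ := by
    have h1 := hshort ((delMap hY).rot (𝔖.ep 𝔖.np)) (by rw [(delMap hY).src_rot]; exact (hP.ep_in _ le_rfl).1)
    rw [(delMap hY).src_rot, (delMap hY).tgt_rot] at h1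
    have h2 : ‖(((delMap hY).src (𝔖.ep 𝔖.np) : Y) : ℂ) - τ.cp h z‖ ≤ N.rho * h / 4 := hAt.out.good.tip_p.1
    have h3 : (((delMap hY).apex (𝔖.ep 𝔖.np) : Y) : ℂ) - τ.cp h z =
      ((((delMap hY).src (𝔖.ep 𝔖.np) : Y) : ℂ) - τ.cp h z) - ((((delMap hY).src (𝔖.ep 𝔖.np) : Y) : ℂ) - (((delMap hY).apex (𝔖.ep 𝔖.np) : Y) : ℂ)) := by ring
    rw [h3]
    exact (norm_sub_le _ _).trans (add_le_add h2 h1)
  have ham : ‖(((delMap hY).apex ((delMap hY).opp (𝔖.em 𝔖.nm)) : Y) : ℂ) - τ.cm h z‖ ≤ N.rho * h / 4 + 2 * μ := by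
    have h1 := hshort ((delMap hY).nxt ((delMap hY).opp (𝔖.em 𝔖.nm))) (by rw [(delMap hY).src_nxt, (delMap hY).tgt_opp]; exact (hM.em_in _ le_rfl).1)
    rw [(delMap hY).src_nxt, (delMap hY).tgt_opp, (delMap hY).tgt_nxt] at h1
    have h2 : ‖(((delMap hY).src (𝔖.em 𝔖.nm) : Y) : ℂ) - τ.cm h z‖ ≤ N.rho * h / 4 := hAt.inn.good.tip_m.1
    have h3 : (((delMap hY).apex ((delMap hY).opp (𝔖.em 𝔖.nm)) : Y) : ℂ) - τ.cm h z =
      ((((delMap hY).src (𝔖.em 𝔖.nm) : Y) : ℂ) - τ.cm h z) - ((((delMap hY).src (𝔖.em 𝔖.nm) : Y) : ℂ) - (((delMap hY).apex ((delMap hY).opp (𝔖.em 𝔖.nm)) : Y) : ℂ)) := by ring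
    rw [h3]
    exact (norm_sub_le _ _).trans (add_le_add h2 h1)
  have hρ0 : 0 ≤ N.rho * h := by linarith
  have hwfar : 2 * N.rho * h < ‖(w : ℂ) - τ.cp h z‖ := hAt.far_p w (Or.inl (Or.inr hwM))
  have hvfar : 2 * N.rho * h < ‖(v : ℂ) - τ.cm h z‖ := hAt.far_m v (Or.inl (Or.inr hvP))
  have hfp : 3 * (4 * R + 3 * μ) ≤ ‖(((delMap hY).apex (𝔖.ep 𝔖.np) : Y) : ℂ) - v‖ := by
    have h3 : (w : ℂ) - τ.cp h z = ((((delMap hY).apex (𝔖.ep 𝔖.np) : Y) : ℂ) - τ.cp h z) - ((((delMap hY).apex (𝔖.ep 𝔖.np) : Y) : ℂ) - v) - ((v : ℂ) - w) := by ring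
    have h4 : ‖(w : ℂ) - τ.cp h z‖ ≤ ‖(((delMap hY).apex (𝔖.ep 𝔖.np) : Y) : ℂ) - τ.cp h z‖ + ‖(((delMap hY).apex (𝔖.ep 𝔖.np) : Y) : ℂ) - v‖ + ‖(v : ℂ) - w‖ := by
      rw [h3]
      exact (norm_sub_le _ _).trans (add_le_add (norm_sub_le _ _) le_rfl)
    nlinarith
  have hfm : 3 * (4 * R + 3 * μ) ≤ ‖(((delMap hY).apex ((delMap hY).opp (𝔖.em 𝔖.nm)) : Y) : ℂ) - v‖ := by
    have h3 : (v : ℂ) - τ.cm h z = ((((delMap hY).apex ((delMap hY).opp (𝔖.em 𝔖.nm)) : Y) : ℂ) - τ.cm h z) - ((((delMap hY).apex ((delMap hY).opp (𝔖.em 𝔖.nm)) : Y) : ℂ) - v) := by ring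
    have h4 : ‖(v : ℂ) - τ.cm h z‖ ≤ ‖(((delMap hY).apex ((delMap hY).opp (𝔖.em 𝔖.nm)) : Y) : ℂ) - τ.cm h z‖ + ‖(((delMap hY).apex ((delMap hY).opp (𝔖.em 𝔖.nm)) : Y) : ℂ) - v‖ := by
      rw [h3]
      exact norm_sub_le _ _
    nlinarith
  -- the three indices
  obtain ⟨kw, hkw, rfl⟩ := hw
  obtain ⟨kv, hkv, rfl⟩ := hv
  have hah : h < τ.a * h := by linarith
  have hin0 : 𝔖.inn.v 0 = 𝔖.gm := by
    obtain ⟨ni, -, -, e4⟩ := hg.strand
    exact pvt_sd_v0 e4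
  have hinn : 𝔖.inn.v 𝔖.inn.n = 𝔖.gp := by
    obtain ⟨ni, e2, -, e4⟩ := hg.strand
    rw [pvt_sd_vn e4, e2]
    rfl
  have hgmS : 𝔖.gm ∈ 𝔖.S.verts := by
    obtain ⟨i, hi⟩ := hg.dm_on
    exact ⟨i, by rw [hi]; rfl⟩
  have hgpS : 𝔖.gp ∈ 𝔖.S.verts := by
    obtain ⟨i, hi⟩ := hg.dp_on
    exact ⟨i + 1, by rw [← 𝔖.S.chain, hi, (delMap hY).tgt_opp]; rfl⟩
  have hip0 : 0 < 𝔖.ip := by
    rcases Nat.eq_zero_or_pos 𝔖.ip with h0 | h0
    · exfalso
      have h1 := hg.ip_near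
      rw [h0, hin0] at h1
      have h2 := (hg.ann _ hgmS).1
      linarith
    · exact h0
  have hipn : 𝔖.ip < 𝔖.inn.n := by
    rcases Nat.lt_or_ge 𝔖.ip 𝔖.inn.n with h0 | h0
    · exact h0
    · exfalso
      have h1 := hg.ip_near
      rw [le_antisymm hg.ip_le h0, hinn] at h1
      have h2 := (hg.ann _ hgpS).1
      linarith
  refine pvf4d_nr_fl b (pvf4d_core hY (fun p => σ p == b) (a := 𝔖.em 𝔖.nm) ha (n := n) (y := y) c2 ?_ ?_ (z := z) (r := r) (μ := μ) (fun u hu => hbox u (c7 u hu)) ?_ hM.em_out hvbox hμ hR ht hd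
    ?_ hfm (k := ym.n - kw) (i := ym.n + 𝔖.ip) (k' := ym.n + 𝔖.inn.n + kv) (by omega) (by omega) (by omega) ?_ ?_ ?_)
  · rw [c4 0 (Nat.zero_le _), Nat.sub_zero]
    exact pvf4d_le_vn hym
  · rw [c1, c3, c6 _ le_rfl]
    exact pvf4d_le_vn hyp
  · rw [c1]
    exact hP.ep_out
  · rw [c1]
    exact hfp
  · rw [c4 _ (Nat.sub_le _ _), Nat.sub_sub_self hkw, norm_sub_rev]
    exact hvw
  · rw [c6 _ hkv, sub_self, norm_zero]
    exact ht0
  · rw [c5 _ hg.ip_le]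
    have h1 : ‖((𝔖.inn.v 𝔖.ip : Y) : ℂ) - z‖ ≤ h := hg.ip_near
    have h2 : τ.a * h ≤ ‖((yp.v kv : Y) : ℂ) - z‖ := pvf4d_off hT hAt (Or.inl hvP)
    have h3 : ((yp.v kv : Y) : ℂ) - z = (((𝔖.inn.v 𝔖.ip : Y) : ℂ) - z) - (((𝔖.inn.v 𝔖.ip : Y) : ℂ) - (yp.v kv : Y)) := by ring
    have h4 : ‖((yp.v kv : Y) : ℂ) - z‖ ≤ ‖((𝔖.inn.v 𝔖.ip : Y) : ℂ) - z‖ + ‖((𝔖.inn.v 𝔖.ip : Y) : ℂ) - (yp.v kv : Y)‖ := by
      rw [h3]
      exact norm_sub_le _ _
    linarith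

/-- **E16, DETERMINISTIC HALF, form with the inner halves** (R17 (a) of 234: the masks of `PvxAt` v4 cover the two halves of the inner arc outside the cut-off ball).      `v` on `inn[ip, n] · LE(LB Σ⁺)`, `w` on `LE(LB Σ⁻) · inn[0, ip]`, `v` at distance `≥ S + h` from the centre.
Same proof as `pvf4d_det`: far index `= ym.n + ip` (the marked vertex, within `h` of `z`); `k < i < k'` because `t < S`. -/
theorem pvf4d_det2 {Y : Set ℂ} (hY : DelGood Y) (σ : ℂ → Bool) (b : Bool) {𝔖 : PvwSt (delMap hY)} {N : PvwNum} {h : ℝ} {z : ℂ} {τ : PvwTy}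
    (hAt : 𝔖.At (dlsPos Y) N h z τ (fun v : Y => σ v == b)) {μ R t S : ℝ} (hμ : 0 < μ) (hR : 0 ≤ R) (ht : t ≤ 4 * R) (htS : t < S) (hh : 0 < h)
    (hd : VorDense Y (vorNbd (pvwSq z (pvwRad N h τ τ.k)) (4 * R + 6 * μ)) μ) (hb : τ.b * h ≤ pvwRad N h τ τ.k)
    (hρ : 3 * (4 * R + 3 * μ) + 3 * μ + t ≤ N.rho * h)
    {yp ym : (delMap hY).Pth} (hyp : PvwLE (delMap hY) (fun i => (delMap hY).src (𝔖.ep i)) 𝔖.np yp) (hym : PvwLE (delMap hY) (fun i => (delMap hY).src (𝔖.em i)) 𝔖.nm ym)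
    (hdis : ∀ v ∈ yp.verts, v ∉ ym.verts) {v w : Y} (hv : v ∈ yp.verts ∨ ∃ j, 𝔖.ip ≤ j ∧ j ≤ 𝔖.inn.n ∧ 𝔖.inn.v j = v) (hw : w ∈ ym.verts ∨ ∃ j, j ≤ 𝔖.ip ∧ 𝔖.inn.v j = w)
    (hvw : ‖(v : ℂ) - w‖ ≤ t) (hvz : S + h ≤ ‖(v : ℂ) - z‖) : ArmtNR Y σ v t S R := by
  have hT := dls_isSph hY
  have hSm := dls_simple hY
  have hg := hAt.out.gate
  have hP := hAt.out.stub
  have hM := hAt.inn.stub
  have ht0 : 0 ≤ t := (norm_nonneg _).trans hvw
  obtain ⟨n, y, c1, c2, c3, c4, c5, c6, c7⟩ := pvf4d_cat hT hSm hAt hyp hym hdis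
  have ha : pvasBW (delMap hY) (fun v : Y => σ v == b) (𝔖.em 𝔖.nm) := pvwk_em_bw hM hg.bw_m le_rfl
  have hinc : ∀ j, j ≤ 𝔖.inn.n → 𝔖.inn.v j ∈ 𝔖.core := by
    intro j hj
    obtain ⟨ni, e1, e2, e3⟩ := hg.strand
    obtain ⟨i, hi, e⟩ := pvf4d_le_verts e3 ⟨j, hj, rfl⟩
    refine pvwk_ins_sub_core hg ?_
    rw [← e]
    rcases Nat.lt_or_ge i ni with hlt | hge
    · exact ⟨_, e2 i hlt, rfl⟩
    · have : i = ni := le_antisymm hi hge
      subst this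
      show (delMap hY).src (pvasIt _ _ 𝔖.dm i) ∈ 𝔖.ins
      rw [e1]
      exact (pvwk_gate_ends hT hg).1
  have hvOut : v ∈ 𝔖.fzOut := by
    rcases hv with hv | ⟨j, -, hj, rfl⟩
    · exact Or.inl (Or.inr (pvf4d_le_verts hyp hv))
    · exact Or.inl (Or.inl (hinc j hj))
  have hwIn : w ∈ 𝔖.fzIn := by
    rcases hw with hw | ⟨j, hj, rfl⟩
    · exact Or.inl (Or.inr (pvf4d_le_verts hym hw))
    · exact Or.inl (Or.inl (hinc j (hj.trans hg.ip_le)))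
  set r := pvwRad N h τ τ.k with hr
  -- short edges at the sites of the box
  have hshort : ∀ d : DelDart hY, (((delMap hY).src d : Y) : ℂ) ∈ pvwSq z r → ‖(((delMap hY).src d : Y) : ℂ) - (((delMap hY).tgt d : Y) : ℂ)‖ ≤ 2 * μ := by
    intro d hdb
    refine pvf4d_adj_le (R := 4 * R + 6 * μ) hμ.le (by linarith) (hd.mono Subset.rfl ?_ le_rfl) (dls_dart_adj d)
    intro p hp
    exact ⟨_, hdb, by rw [← dist_eq_norm]; exact hp⟩
  have hbox : ∀ u ∈ 𝔖.fz, (u : ℂ) ∈ pvwSq z r := by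
    rintro u (((hu | hu) | hu) | ((hu | hu) | hu))
    · exact pvwk_core_sq hg hb u hu
    · exact pvwk_banksP_in hP (Or.inl hu)
    · exact pvwk_banksP_in hP (Or.inr hu)
    · exact pvwk_core_sq hg hb u hu
    · exact pvwk_banksM_in hM (Or.inl hu)
    · exact pvwk_banksM_in hM (Or.inr hu)
  have hvbox : (v : ℂ) ∈ pvwSq z r := hbox v (Or.inl hvOut)
  -- the two tip apexes are far from `v`
  have hap : ‖(((delMap hY).apex (𝔖.ep 𝔖.np) : Y) : ℂ) - τ.cp h z‖ ≤ N.rho * h / 4 + 2 * μ := by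
    have h1 := hshort ((delMap hY).rot (𝔖.ep 𝔖.np)) (by rw [(delMap hY).src_rot]; exact (hP.ep_in _ le_rfl).1)
    rw [(delMap hY).src_rot, (delMap hY).tgt_rot] at h1
    have h2 : ‖(((delMap hY).src (𝔖.ep 𝔖.np) : Y) : ℂ) - τ.cp h z‖ ≤ N.rho * h / 4 := hAt.out.good.tip_p.1
    have h3 : (((delMap hY).apex (𝔖.ep 𝔖.np) : Y) : ℂ) - τ.cp h z =
      ((((delMap hY).src (𝔖.ep 𝔖.np) : Y) : ℂ) - τ.cp h z) - ((((delMap hY).src (𝔖.ep 𝔖.np) : Y) : ℂ) - (((delMap hY).apex (𝔖.ep 𝔖.np) : Y) : ℂ)) := by ring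
    rw [h3]
    exact (norm_sub_le _ _).trans (add_le_add h2 h1)
  have ham : ‖(((delMap hY).apex ((delMap hY).opp (𝔖.em 𝔖.nm)) : Y) : ℂ) - τ.cm h z‖ ≤ N.rho * h / 4 + 2 * μ := by
    have h1 := hshort ((delMap hY).nxt ((delMap hY).opp (𝔖.em 𝔖.nm))) (by rw [(delMap hY).src_nxt, (delMap hY).tgt_opp]; exact (hM.em_in _ le_rfl).1)
    rw [(delMap hY).src_nxt, (delMap hY).tgt_opp, (delMap hY).tgt_nxt] at h1
    have h2 : ‖(((delMap hY).src (𝔖.em 𝔖.nm) : Y) : ℂ) - τ.cm h z‖ ≤ N.rho * h / 4 := hAt.inn.good.tip_m.1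
    have h3 : (((delMap hY).apex ((delMap hY).opp (𝔖.em 𝔖.nm)) : Y) : ℂ) - τ.cm h z =
      ((((delMap hY).src (𝔖.em 𝔖.nm) : Y) : ℂ) - τ.cm h z) - ((((delMap hY).src (𝔖.em 𝔖.nm) : Y) : ℂ) - (((delMap hY).apex ((delMap hY).opp (𝔖.em 𝔖.nm)) : Y) : ℂ)) := by ring
    rw [h3]
    exact (norm_sub_le _ _).trans (add_le_add h2 h1)
  have hρ0 : 0 ≤ N.rho * h := by linarith
  have hwfar : 2 * N.rho * h < ‖(w : ℂ) - τ.cp h z‖ := hAt.far_p w hwIn
  have hvfar : 2 * N.rho * h < ‖(v : ℂ) - τ.cm h z‖ := hAt.far_m v hvOut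
  have hfp : 3 * (4 * R + 3 * μ) ≤ ‖(((delMap hY).apex (𝔖.ep 𝔖.np) : Y) : ℂ) - v‖ := by
    have h3 : (w : ℂ) - τ.cp h z = ((((delMap hY).apex (𝔖.ep 𝔖.np) : Y) : ℂ) - τ.cp h z) - ((((delMap hY).apex (𝔖.ep 𝔖.np) : Y) : ℂ) - v) - ((v : ℂ) - w) := by ring
    have h4 : ‖(w : ℂ) - τ.cp h z‖ ≤ ‖(((delMap hY).apex (𝔖.ep 𝔖.np) : Y) : ℂ) - τ.cp h z‖ + ‖(((delMap hY).apex (𝔖.ep 𝔖.np) : Y) : ℂ) - v‖ + ‖(v : ℂ) - w‖ := by
      rw [h3]
      exact (norm_sub_le _ _).trans (add_le_add (norm_sub_le _ _) le_rfl)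
    nlinarith
  have hfm : 3 * (4 * R + 3 * μ) ≤ ‖(((delMap hY).apex ((delMap hY).opp (𝔖.em 𝔖.nm)) : Y) : ℂ) - v‖ := by
    have h3 : (v : ℂ) - τ.cm h z = ((((delMap hY).apex ((delMap hY).opp (𝔖.em 𝔖.nm)) : Y) : ℂ) - τ.cm h z) - ((((delMap hY).apex ((delMap hY).opp (𝔖.em 𝔖.nm)) : Y) : ℂ) - v) := by ring
    have h4 : ‖(v : ℂ) - τ.cm h z‖ ≤ ‖(((delMap hY).apex ((delMap hY).opp (𝔖.em 𝔖.nm)) : Y) : ℂ) - τ.cm h z‖ + ‖(((delMap hY).apex ((delMap hY).opp (𝔖.em 𝔖.nm)) : Y) : ℂ) - v‖ := by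
      rw [h3]
      exact norm_sub_le _ _
    nlinarith
  -- the three indices
  obtain ⟨m, hm⟩ : ∃ m : Y, m = 𝔖.inn.v 𝔖.ip := ⟨_, rfl⟩
  have hmz : ‖(m : ℂ) - z‖ ≤ h := by rw [hm]; exact hg.ip_near
  have hmv : S ≤ ‖(m : ℂ) - v‖ := by
    have h3 : (v : ℂ) - z = ((m : ℂ) - z) - ((m : ℂ) - v) := by ring
    have h4 : ‖(v : ℂ) - z‖ ≤ ‖(m : ℂ) - z‖ + ‖(m : ℂ) - v‖ := by
      rw [h3]
      exact norm_sub_le _ _
    linarith
  have hvm : v ≠ m := by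
    intro e
    rw [e, sub_self, norm_zero] at hmv
    linarith
  have hwm : w ≠ m := by
    intro e
    rw [e, norm_sub_rev] at hvw
    linarith
  have hyi : y.v (ym.n + 𝔖.ip) = m := by rw [hm]; exact c5 _ hg.ip_le
  obtain ⟨k, hk, hyk⟩ : ∃ k, k ≤ ym.n + 𝔖.ip ∧ y.v k = w := by
    rcases hw with ⟨kw, hkw, e⟩ | ⟨j, hj, e⟩
    · exact ⟨ym.n - kw, by omega, by rw [c4 _ (Nat.sub_le _ _), Nat.sub_sub_self hkw, e]⟩
    · exact ⟨ym.n + j, by omega, by rw [c5 j (hj.trans hg.ip_le), e]⟩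
  obtain ⟨k', hk'1, hk'2, hyk'⟩ : ∃ k', ym.n + 𝔖.ip ≤ k' ∧ k' ≤ y.n ∧ y.v k' = v := by
    rcases hv with ⟨kv, hkv, e⟩ | ⟨j, hj1, hj2, e⟩
    · exact ⟨ym.n + 𝔖.inn.n + kv, by have := hg.ip_le; omega, by omega, by rw [c6 _ hkv, e]⟩
    · exact ⟨ym.n + j, by omega, by omega, by rw [c5 j hj2, e]⟩
  have hki : k < ym.n + 𝔖.ip := lt_of_le_of_ne hk (by
    intro e
    rw [e] at hyk
    exact hwm (hyk.symm.trans hyi))
  have hik : ym.n + 𝔖.ip < k' := lt_of_le_of_ne hk'1 (by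
    intro e
    rw [← e] at hyk'
    exact hvm (hyk'.symm.trans hyi))
  refine pvf4d_nr_fl b (pvf4d_core hY (fun p => σ p == b) (a := 𝔖.em 𝔖.nm) ha (n := n) (y := y) c2 ?_ ?_ (z := z) (r := r) (μ := μ) (fun u hu => hbox u (c7 u hu)) ?_ hM.em_out hvbox hμ hR ht hd
    ?_ hfm (k := k) (i := ym.n + 𝔖.ip) (k' := k') hki hik hk'2 ?_ ?_ ?_)
  · rw [c4 0 (Nat.zero_le _), Nat.sub_zero]
    exact pvf4d_le_vn hym
  · rw [c1, c3, c6 _ le_rfl]
    exact pvf4d_le_vn hyp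
  · rw [c1]
    exact hP.ep_out
  · rw [c1]
    exact hfp
  · rw [hyk, norm_sub_rev]
    exact hvw
  · rw [hyk', sub_self, norm_zero]
    exact ht0
  · rw [hyi]
    exact hmv

end Claimed.Agent.R289
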