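-- KEEP
import Claimed.Agent.R289.Tr.FlagA
import Claimed.Agent.R289.Tr.Dense
import Claimed.Agent.R289.Tr.RetMeas
import Claimed.Agent.R289.Tr.StKit
import Claimed.Agent.R289.Defs.TrModel
import Claimed.Agent.R289.Exit.Qbx

/-!
# Row 289 (S0537, Cardy for Poisson-Voronoi), THE WALL, roof PINS, item (X4) / E12, file Tr/FlagM : FLAG1 AT THE MODEL      (helper276; order "AT THE MODEL" of 82, 10:01Z; prefix `pvflm_`, defs `pvflm…`)

WHAT.   `Tr/Flag` (16) = FLAG1 on an abstract map, real distances;   `Tr/FlagA` (235) = FLAG1 in marks form, ONE measurable event of unit scale, annealed cost `|B| (1-q)^k + o(1)`.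
THIS FILE = the instance at the data of record of road E (`Defs/TrModel`, 187: `pvxT ω`, `pvxPos ω`, `pvxCol ω b`), in the shape in which the roof of the pins consumes a flag
(`PvxpFlag h w ζ Flag` of `Exit/Pins.lean`, 12: `reads` + `small`; copies `pvtdEv` of ONE event of unit scale, 101).      0 sorry;  `exit_pv_qbx` is the only probabilistic input.      NOT imported: `Exit/Pins` (no cycle: the roof may import this file).

* sec.1  `pvflm_sim_eq` (the similarity `pvtdSim h p` of 101 = `vorSim h⁻¹ (-h⁻¹ l9Pt h p)` of 238), the box of cells `pvflmB M`, `pvflm_grid_mem`, `pvflm_grid_far`, `pvflm_ball_win`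
* sec.2  `pvflm_unit` : the event of unit scale `𝔹 ∪ pvflmNo l M` (= FLAG1 of 235, or NO MESH in the window): reads a ball, cost `(2M+1)² (1-q)^k + e ε`, `e → 0`
* sec.3  **`pvflm_det`** : off its copy at `(l9Pt h p, h)` no stub of the box makes `n` steps: `¬ PvflStub (pvxT ω) (pvxPos ω) (l9Pt h p) (rb h) (a₀ h) n (pvxCol ω b)`, both colours `b`.
         NO HYPOTHESIS ON THE SAMPLE: no mesh (it is in the flag), no `DelGood` (`delbPl` has no dart otherwise).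
* sec.4  **`pvflm_flag1_unit`** (`rb a₀ w ζ` ⟹ `n`, `𝔽`; needs `2 rb + a₀ ≤ w`),   **`pvflm_flag1`** (the two fields of `PvxpFlag` verbatim + the deterministic clause; `n` independent of the scales)
* sec.5  vocabulary of `Tr/Defs` v2: `pvflm_stubP` (`N⁺ < n` for `PvwSt.StubP pos (pvwSq z r) s`), `pvflm_stubM` (`N⁻ < n` for `PvwSt.StubM`, strand of `pvasNot s` from `opp dm`), `pvflm_Z_fwd`, `pvflm_Z_back`;
         **`pvflm_state`** : both at the model, for every state and both colours.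
USE (E11, E12, E15 of `W1_208_v3.md`): `rb := 2 b₂ + K ρ₁` (`pvwRad N h τ K = rb h`), `a₀ := ρ₂ / 4`, budget `ζ / 3`;   `K ≥ 2 n` gives `N⁺ + N⁻ < K`.      BEWARE: `n` depends on `rb`, hence on `K ρ₁`: take `ρ₁ := 1 / K` (v3 sec. 0), `rb := 2 b₂ + 1`, and `pvlv_box_mono` / the largest box.
-/

set_option autoImplicit false
set_option linter.unusedSectionVars false
set_option linter.unusedVariables false

namespace Claimed.Agent.R289

open MeasureTheory Set Filter Topology Metric Claims.C0465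
open scoped ENNReal

/-! ## 1. the similarity of a block, cells of the grid -/

/-- the similarity of 101 (`Tr/Dense`) is the similarity of 238 (`Tr/PinLocB`) at the grid centre `l9Pt h p` -/
theorem pvflm_sim_eq (h : ℝ) (p : ℤ × ℤ) : pvtdSim h p = vorSim ((h : ℂ)⁻¹) (-((h : ℂ)⁻¹ * l9Pt h p)) := by
  funext z
  have e : pv5Ctr h p = l9Pt h p := by
    unfold pv5Ctr l9Pt
    congr 1 <;> ring
  show h⁻¹ • (z + -pv5Ctr h p) = (h : ℂ)⁻¹ * z + -((h : ℂ)⁻¹ * l9Pt h p)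
  rw [e, Complex.real_smul]
  push_cast
  ring

/-- the square box of cells of half side `M` -/
noncomputable def pvflmB (M : ℕ) : Finset (ℤ × ℤ) := Finset.Icc (-(M : ℤ)) M ×ˢ Finset.Icc (-(M : ℤ)) M

theorem pvflm_eqns_cite : True := by
  have := @pvflmB.eq_1
  trivial

theorem pvflm_B_card (M : ℕ) : (pvflmB M).card = (2 * M + 1) ^ 2 := by
  unfold pvflmB
  rw [Finset.card_product, Int.card_Icc]
  have : ((M : ℤ) + 1 - -(M : ℤ)).toNat = 2 * M + 1 := by omega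
  rw [this, sq]

theorem pvflm_B_norm {l : ℝ} (hl : 0 < l) {M : ℕ} {g : ℤ × ℤ} (hg : g ∈ pvflmB M) : ‖pvfaPl l g‖ ≤ 2 * l * M := by
  obtain ⟨h1, h2⟩ := Finset.mem_product.1 hg
  rw [Finset.mem_Icc] at h1 h2
  have a1 : |(g.1 : ℝ)| ≤ M := by
    rw [abs_le]
    constructor
    · have := h1.1
      have : ((-(M : ℤ) : ℤ) : ℝ) ≤ (g.1 : ℝ) := by exact_mod_cast this
      simpa using this
    · exact_mod_cast h1.2
  have a2 : |(g.2 : ℝ)| ≤ M := by
    rw [abs_le]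
    constructor
    · have := h2.1
      have : ((-(M : ℤ) : ℤ) : ℝ) ≤ (g.2 : ℝ) := by exact_mod_cast this
      simpa using this
    · exact_mod_cast h2.2
  refine (Complex.norm_le_abs_re_add_abs_im _).trans ?_
  show |l * (g.1 : ℝ)| + |l * (g.2 : ℝ)| ≤ 2 * l * M
  rw [abs_mul, abs_mul, abs_of_pos hl]
  nlinarith

/-- a point of the square of half side `r ≤ l M` lies in a cell of the box -/
theorem pvflm_grid_mem {l : ℝ} (hl : 0 < l) {M : ℕ} {r : ℝ} (hr : r + l ≤ l * M) {x : ℂ} (h1 : |x.re| ≤ r) (h2 : |x.im| ≤ r) : pvplGrid l x ∈ pvflmB M := by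
  have key : ∀ u : ℝ, |u| ≤ r → ⌊u / l⌋ ∈ Finset.Icc (-(M : ℤ)) M := by
    intro u hu
    obtain ⟨b1, b2⟩ := abs_le.1 hu
    rw [Finset.mem_Icc]
    constructor
    · rw [Int.le_floor, le_div_iff₀ hl]
      push_cast
      nlinarith
    · have : ⌊u / l⌋ ≤ ⌊(M : ℝ)⌋ := Int.floor_le_floor (by rw [div_le_iff₀ hl]; nlinarith)
      simpa using this
  exact Finset.mem_product.2 ⟨key _ h1, key _ h2⟩

/-- far points lie in far cells -/
theorem pvflm_grid_far {l : ℝ} (hl : 0 < l) {K : ℕ} {x y : ℂ} (h : 2 * (((K : ℝ) + 1) * l) ≤ dist x y) : (K : ℝ) ≤ dist (pvplGrid l x) (pvplGrid l y) := by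
  rw [Complex.dist_eq] at h
  have h1 : ‖x - y‖ ≤ |(x - y).re| + |(x - y).im| := Complex.norm_le_abs_re_add_abs_im _
  have h2 : ((K : ℝ) + 1) * l ≤ |(x - y).re| ∨ ((K : ℝ) + 1) * l ≤ |(x - y).im| := by
    by_contra hcon
    push Not at hcon
    nlinarith [hcon.1, hcon.2]
  rw [Prod.dist_eq, Int.dist_eq, Int.dist_eq]
  rcases h2 with h2 | h2
  · refine le_max_of_le_left ?_
    have : (K : ℤ) ≤ |⌊x.re / l⌋ - ⌊y.re / l⌋| := pv5_floor_far (by
      rw [← sub_div, abs_div, abs_of_pos hl, le_div_iff₀ hl, ← Complex.sub_re]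
      exact h2)
    have h3 : ((K : ℤ) : ℝ) ≤ ((|⌊x.re / l⌋ - ⌊y.re / l⌋| : ℤ) : ℝ) := by exact_mod_cast this
    simpa [pvplGrid] using h3
  · refine le_max_of_le_right ?_
    have : (K : ℤ) ≤ |⌊x.im / l⌋ - ⌊y.im / l⌋| := pv5_floor_far (by
      rw [← sub_div, abs_div, abs_of_pos hl, le_div_iff₀ hl, ← Complex.sub_im]
      exact h2)
    have h3 : ((K : ℤ) : ℝ) ≤ ((|⌊x.im / l⌋ - ⌊y.im / l⌋| : ℤ) : ℝ) := by exact_mod_cast this
    simpa [pvplGrid] using h3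

/-- a ball of radius `≤ w` round the origin lies in the window of range `w` of the unit block `0` -/
theorem pvflm_ball_win {rE : ℝ} {w : ℕ} (h : rE ≤ w) : closedBall (0 : ℂ) rE ×ˢ (univ : Set Bool) ⊆ pvtdWin 1 w 0 := by
  rintro ⟨z, b⟩ ⟨hz, -⟩
  rw [mem_closedBall, dist_zero_right] at hz
  show pv5Dist (pv5Blk 1 z) 0 ≤ w
  have k : ∀ u : ℝ, |u| ≤ ‖z‖ → |⌊u / 1⌋ - (0 : ℤ)| ≤ (w : ℤ) := by
    intro u hu
    have := pvtd_floor_close (u := u / 1) (v := 0) (a := w) (by rw [div_one, sub_zero]; linarith)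
    simpa using this
  exact max_le (k _ (Complex.abs_re_le_norm z)) (k _ (Complex.abs_im_le_norm z))

theorem pvflm_sim_sub {h : ℝ} (z x : ℂ) : vorSim ((h : ℂ)⁻¹) (-((h : ℂ)⁻¹ * z)) x = ((h⁻¹ : ℝ) : ℂ) * (x - z) := by
  rw [vorSim_apply]
  push_cast
  ring

theorem pvflm_sim_re {h : ℝ} (z x : ℂ) : (vorSim ((h : ℂ)⁻¹) (-((h : ℂ)⁻¹ * z)) x).re = (x - z).re / h := by
  rw [pvflm_sim_sub, Complex.re_ofReal_mul, div_eq_inv_mul]

theorem pvflm_sim_im {h : ℝ} (z x : ℂ) : (vorSim ((h : ℂ)⁻¹) (-((h : ℂ)⁻¹ * z)) x).im = (x - z).im / h := by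
  rw [pvflm_sim_sub, Complex.im_ofReal_mul, div_eq_inv_mul]

theorem pvflm_sim_dist {h : ℝ} (hh : 0 < h) (z x y : ℂ) :
    dist (vorSim ((h : ℂ)⁻¹) (-((h : ℂ)⁻¹ * z)) x) (vorSim ((h : ℂ)⁻¹) (-((h : ℂ)⁻¹ * z)) y) = dist x y / h := by
  rw [pvflm_sim_sub, pvflm_sim_sub, Complex.dist_eq, Complex.dist_eq, ← mul_sub, norm_mul, Complex.norm_real, Real.norm_of_nonneg (inv_nonneg.2 hh.le), div_eq_inv_mul]
  congr 2
  ring

/-! ## 2. the event of unit scale: FLAG1 in marks form (235) or no mesh -/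

/-- the mesh fails with small probability, in the law of the configuration -/
theorem pvflm_mesh_tendsto {ρ : ℝ} (hρ : 0 < ρ) (rE : ℝ) :
    Tendsto (fun ε : ℝ => pvP ε {η | ¬ PvtrMesh ρ (closedBall 0 rE) (cfSites η)}) (𝓝[>] 0) (𝓝 0) := by
  have hb : Bornology.IsBounded (pvtrCore ρ (closedBall (0 : ℂ) rE)) :=
    isBounded_closedBall.subset fun x hx => hx (mem_closedBall_self hρ.le)
  refine (pvax_dense hb hρ).congr fun ε => ?_
  have hn : NullMeasurableSet {η : Conf PvPt | ¬ PvtrMesh ρ (closedBall 0 rE) (cfSites η)} (pvP ε) := (pvtm_null_mesh ρ _ ε).compl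
  unfold pvP at hn ⊢
  rw [Measure.map_apply₀ measurable_pvConf.aemeasurable hn]
  rfl

/-- the predicate FLAG1 of 235 for the box of cells of half side `M`, steps of `41` cells -/
def pvflmPhi (M n : ℕ) : PvplPred (ℤ × ℤ) := fun _ _ T mk s => PvfaFlag1 T mk (↑(pvflmB M) : Set (ℤ × ℤ)) 41 n s

/-- radius of the window of the event of unit scale -/
def pvflmRE (l : ℝ) (M : ℕ) : ℝ := 2 * l * M + 43 * l

/-- no mesh `l` in the window -/
def pvflmNo (l : ℝ) (M : ℕ) : Set (Conf PvPt) := {η | ¬ PvtrMesh l (closedBall 0 (pvflmRE l M)) (cfSites η)}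

theorem pvflm_eqns_cite2 : True := by
  have := @pvflmPhi.eq_1; have := @pvflmRE.eq_1; have := @pvflmNo.eq_1
  trivial

/-- **THE EVENT OF UNIT SCALE** -/
theorem pvflm_unit {q : ℝ} (hQ : PvaxQbx q) {l : ℝ} (hl : 0 < l) (M k : ℕ) :
    ∃ 𝔹 : Set (Conf PvPt), PvplRep (pvplGrid l) (pvflmPhi M ((2 * M + 1) ^ 2 * (2 * k))) (↑(pvflmB M) : Set (ℤ × ℤ)) (closedBall 0 (pvflmRE l M)) l 𝔹 ∧
      Conf.ReadsSet (closedBall 0 (pvflmRE l M) ×ˢ univ) (𝔹 ∪ pvflmNo l M) ∧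
      ∃ e : ℝ → ℝ≥0∞, Tendsto e (𝓝[>] 0) (𝓝 0) ∧ ∀ ε, 0 < ε → pvP ε (𝔹 ∪ pvflmNo l M) ≤ ENNReal.ofReal (((2 * M + 1) ^ 2 : ℕ) * (1 - q) ^ k) + e ε := by
  obtain ⟨𝔹, -, hr, hrep, e, he, hp⟩ := pvfa_flag1_exit hQ hl (pvflmB M) (a := 41) le_rfl k (rB := 2 * l * M) (ρ := l) (rE := pvflmRE l M) hl
    (fun g hg => pvflm_B_norm hl hg) (by unfold pvflmRE; linarith) (by unfold pvflmRE; linarith)
  rw [pvflm_B_card] at hrep hp
  refine ⟨𝔹, hrep, hr.union ?_, fun ε => e ε + pvP ε (pvflmNo l M), ?_, fun ε hε => ?_⟩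
  · exact (Conf.readsSet_iff_reads.2 (pvtr_reads_mesh l _)).compl
  · have := he.add (pvflm_mesh_tendsto hl (pvflmRE l M))
    rwa [add_zero] at this
  · calc pvP ε (𝔹 ∪ pvflmNo l M) ≤ pvP ε 𝔹 + pvP ε (pvflmNo l M) := measure_union_le _ _
      _ ≤ (ENNReal.ofReal (((2 * M + 1) ^ 2 : ℕ) * (1 - q) ^ k) + e ε) + pvP ε (pvflmNo l M) := by gcongr; exact hp ε hε
      _ = _ := by rw [add_assoc]

/-! ## 3. the deterministic consumer at the model -/

/-- the colouring of the model seen by the colour `b` is the colouring of the sample or its exchange -/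
theorem pvflm_col_true (ω : PVSample) : pvxCol ω true = fun v => cfCol (pvConf ω) v.1 := by
  funext v
  simp [pvxCol]

theorem pvflm_col_false (ω : PVSample) : pvxCol ω false = pvasNot fun v => cfCol (pvConf ω) v.1 := by
  funext v
  simp [pvxCol, pvasNot]

theorem pvflm_col_not (ω : PVSample) (b : Bool) : pvasNot (pvxCol ω b) = pvxCol ω (!b) := by
  funext v
  cases b <;> simp [pvxCol, pvasNot]

/-- the points of a good sample in a bounded window -/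
theorem pvflm_fin {η : Conf PvPt} (h : VorLF (cfSites η)) {E : Set ℂ} (hE : Bornology.IsBounded E) : (η.pts ∩ E ×ˢ univ).Finite := by
  obtain ⟨R, hR⟩ := hE.subset_closedBall (0 : ℂ)
  refine ((h R).prod (finite_univ : (univ : Set Bool).Finite)).subset ?_
  rintro ⟨z, b⟩ ⟨h1, h2, -⟩
  exact ⟨⟨⟨(z, b), h1, rfl⟩, hR h2⟩, mem_univ _⟩

/-- **off the copy at `(l9Pt h p, h)` of the event of unit scale, no stub of the box makes `n` steps** -/
theorem pvflm_det {l : ℝ} (hl : 0 < l) {M n : ℕ} {𝔹 : Set (Conf PvPt)}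
    (hrep : PvplRep (pvplGrid l) (pvflmPhi M n) (↑(pvflmB M) : Set (ℤ × ℤ)) (closedBall 0 (pvflmRE l M)) l 𝔹)
    {h : ℝ} (hh : 0 < h) (p : ℤ × ℤ) {rb a₀ : ℝ} (hrb : rb + l ≤ l * M) (ha₀ : 166 * l ≤ a₀) (ω : PVSample)
    (hout : pvConf ω ∉ pvtdEv h (𝔹 ∪ pvflmNo l M) p) (b : Bool) :
    ¬ PvflStub (pvxT ω) (pvxPos ω) (l9Pt h p) (rb * h) (a₀ * h) n (pvxCol ω b) := by
  rintro ⟨d, tend, hbw, hd, hin, hex, hcnt⟩
  have hgood : DelGood (cfSites (pvConf ω)) := d.2.1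
  set z := l9Pt h p with hz
  set η := pvConf ω with hη
  have hα : ((h : ℂ)⁻¹) ≠ 0 := inv_ne_zero (Complex.ofReal_ne_zero.2 hh.ne')
  have hn : ‖((h : ℂ)⁻¹)‖ ≠ 0 := norm_ne_zero_iff.2 hα
  set β : ℂ := -((h : ℂ)⁻¹ * z) with hβ
  have hsur : Function.Surjective (vorSim ((h : ℂ)⁻¹) β) := vorSim_surjective hα β
  have hout' : cfMap (vorSim ((h : ℂ)⁻¹) β) η ∉ 𝔹 ∪ pvflmNo l M := by
    have := hout
    unfold pvtdEv at this
    rwa [pvflm_sim_eq] at this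
  have h𝔹 : cfMap (vorSim ((h : ℂ)⁻¹) β) η ∉ 𝔹 := fun hc => hout' (Or.inl hc)
  have hmesh : PvtrMesh l (closedBall 0 (pvflmRE l M)) (cfSites (cfMap (vorSim ((h : ℂ)⁻¹) β) η)) := by
    by_contra hc
    exact hout' (Or.inr hc)
  have hm : PvtrMesh (l / ‖((h : ℂ)⁻¹)‖) (vorSim ((h : ℂ)⁻¹) β ⁻¹' closedBall 0 (pvflmRE l M)) (cfSites η) := by
    refine (pvtr_mesh_sim hα β).1 ?_
    rwa [image_preimage_eq _ hsur, mul_div_cancel₀ _ hn, ← pvcv_sites]
  have hf : (η.pts ∩ (vorSim ((h : ℂ)⁻¹) β ⁻¹' closedBall 0 (pvflmRE l M)) ×ˢ univ).Finite := by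
    refine pvflm_fin hgood.lf ?_
    rw [hβ, pvplb_sim_ball hh]
    exact isBounded_closedBall
  obtain ⟨g', hg'⟩ := Infinite.exists_notMem_finset (pvflmB M)
  obtain ⟨zi, hzi⟩ := hsur (pvfaPl l g')
  have hzi' : (pvplGrid l ∘ vorSim ((h : ℂ)⁻¹) β) zi ∉ (↑(pvflmB M) : Set (ℤ × ℤ)) := by
    show pvplGrid l (vorSim ((h : ℂ)⁻¹) β zi) ∉ _
    rw [hzi, pvfa_grid_pl hl]
    exact fun hc => hg' (Finset.mem_coe.1 hc)
  have key := hrep.sim hα β Empty delbPlane η (fun e => e.elim) zi hf (delb_ok_mono (subset_univ _) (delb_plane_ok hgood)) hm hzi'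
  refine h𝔹 (key.2 ?_)
  -- the stub raises the flag
  set mk : ↥(pvxY ω) → ℤ × ℤ := fun v => pvplGrid l (vorSim ((h : ℂ)⁻¹) β v.1) with hmk
  have h0 : 0 < tend := by
    rcases Nat.eq_zero_or_pos tend with rfl | h0
    · exact absurd hd hex
    · exact h0
  have hcell : ∀ v : ↥(pvxY ω), pvlvRad z (pvxPos ω v) ≤ rb * h → mk v ∈ (↑(pvflmB M) : Set (ℤ × ℤ)) := by
    intro v hv
    refine Finset.mem_coe.2 (pvflm_grid_mem hl hrb ?_ ?_)
    · rw [hβ, pvflm_sim_re, abs_div, abs_of_pos hh, div_le_iff₀ hh]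
      exact (le_max_left _ _).trans hv
    · rw [hβ, pvflm_sim_im, abs_div, abs_of_pos hh, div_le_iff₀ hh]
      exact (le_max_right _ _).trans hv
  have hbox : ∀ t, t < tend → pvasIt (pvxT ω) (pvxCol ω b) d t ∈ pvfaBox (pvxT ω) mk (↑(pvflmB M) : Set (ℤ × ℤ)) := by
    intro t ht
    have h1 : pvlvFR (pvxT ω) (pvxPos ω) z (pvasIt (pvxT ω) (pvxCol ω b) d t) ≤ rb * h := hin t ht
    exact ⟨hcell _ (((le_max_left _ _).trans (le_max_left _ _)).trans h1), hcell _ (((le_max_right _ _).trans (le_max_left _ _)).trans h1),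
      hcell _ ((le_max_right _ _).trans h1)⟩
  have hcmp : ∀ t u, a₀ * h ≤ dist (pvlvZ (pvxT ω) (pvxPos ω) (pvxCol ω b) d t) (pvlvZ (pvxT ω) (pvxPos ω) (pvxCol ω b) d u) →
      2 * (41 : ℝ) ≤ dist (pvfaZ (pvxT ω) mk (pvxCol ω b) d t) (pvfaZ (pvxT ω) mk (pvxCol ω b) d u) := by
    intro t u htu
    have := pvflm_grid_far hl (K := 82) (x := vorSim ((h : ℂ)⁻¹) β (pvlvZ (pvxT ω) (pvxPos ω) (pvxCol ω b) d t))
      (y := vorSim ((h : ℂ)⁻¹) β (pvlvZ (pvxT ω) (pvxPos ω) (pvxCol ω b) d u)) (by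
        rw [hβ, pvflm_sim_dist hh, le_div_iff₀ hh]
        push_cast
        nlinarith)
    push_cast at this
    have e : (2 : ℝ) * 41 = 82 := by norm_num
    rw [e]
    exact this
  have hflag : PvfaFlag (pvxT ω) mk (↑(pvflmB M) : Set (ℤ × ℤ)) 41 n (pvxCol ω b) :=
    pvfa_of_stub h0 hbw hbox hin hex (by norm_num) hcmp hcnt
  show PvfaFlag1 (pvxT ω) mk (↑(pvflmB M) : Set (ℤ × ℤ)) 41 n (fun v => cfCol (pvConf ω) v.1)
  cases b with
  | true => rw [pvflm_col_true] at hflag; exact Or.inl hflag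
  | false => rw [pvflm_col_false] at hflag; exact Or.inr hflag

/-! ## 4. FLAG1 AT THE MODEL -/

/-- eventually for the mesh `ε` ⟹ eventually for the mesh `h⁻¹ ε` -/
theorem pvflm_ev_scale {P : ℝ → Prop} (hP : ∀ᶠ ε in 𝓝[>] (0 : ℝ), P ε) {h : ℝ} (hh : 0 < h) : ∀ᶠ ε in 𝓝[>] (0 : ℝ), P (h⁻¹ * ε) := by
  have ht : Tendsto (fun ε : ℝ => h⁻¹ * ε) (𝓝[>] 0) (𝓝[>] 0) := by
    refine tendsto_nhdsWithin_iff.2 ⟨?_, ?_⟩
    · have : Tendsto (fun ε : ℝ => h⁻¹ * ε) (𝓝 0) (𝓝 (h⁻¹ * 0)) := tendsto_const_nhds.mul tendsto_id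
      rw [mul_zero] at this
      exact this.mono_left nhdsWithin_le_nhds
    · filter_upwards [self_mem_nhdsWithin] with ε hε
      exact mul_pos (inv_pos.2 hh) hε
  exact ht.eventually hP

/-- **FLAG1, ONE EVENT OF UNIT SCALE FOR ALL CENTRES AND ALL SCALES.**      `rb` = half side of the box, `a₀` = size of a step, both in units of `h`;   `w` = range of the flag;   `ζ` = the budget.
`n` (= `N₀` of `W1_208_v3.md` sec. 0: it depends on `rb a₀ ζ` only) and the event `𝔽` of unit scale, read from the window of range `w` of the unit block `0`, of probability `≤ ζ` for small meshes;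
off its copy `pvtdEv h 𝔽 p` (101) at the grid centre `l9Pt h p` NO strand of the plane map of the sample, of either colour, forwards or backwards, which starts in the box `l9Pt h p + [-rb h, rb h]²`,
makes `n` steps of size `a₀ h` before its first exit of the box.      No hypothesis on the sample (no mesh, no `DelGood`: the failure of the mesh is part of the flag). -/
theorem pvflm_flag1_unit {rb a₀ : ℝ} (hrb : 0 < rb) (ha₀ : 0 < a₀) {w : ℕ} (hw : 2 * rb + a₀ ≤ w) {ζ : ℝ≥0∞} (hζ : 0 < ζ) :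
    ∃ (n : ℕ) (𝔽 : Set (Conf PvPt)), 0 < n ∧ Conf.ReadsSet (pvtdWin 1 w 0) 𝔽 ∧ (∀ᶠ ε in 𝓝[>] (0 : ℝ), pvP ε 𝔽 ≤ ζ) ∧
      ∀ (h : ℝ), 0 < h → ∀ (p : ℤ × ℤ) (ω : PVSample), pvConf ω ∉ pvtdEv h 𝔽 p → ∀ b : Bool,
        ¬ PvflStub (pvxT ω) (pvxPos ω) (l9Pt h p) (rb * h) (a₀ * h) n (pvxCol ω b) := by
  obtain ⟨q₀, hq₀, hQ₀⟩ := exit_pv_qbx
  set q := min q₀ 1 with hq
  have hQ : PvaxQbx q := pvax_qbx_mono hQ₀ (min_le_left _ _)
  have hq0 : 0 < q := lt_min hq₀ one_pos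
  have hq1 : q ≤ 1 := min_le_right _ _
  set l := a₀ / 200 with hl'
  have hl : 0 < l := by positivity
  set M := ⌈rb / l⌉₊ + 1 with hM
  have hM1 : rb ≤ l * (⌈rb / l⌉₊ : ℝ) := by
    have := Nat.le_ceil (rb / l)
    rw [div_le_iff₀ hl] at this
    linarith
  have hM2 : l * (⌈rb / l⌉₊ : ℝ) ≤ rb + l := by
    have := (Nat.ceil_lt_add_one (div_nonneg hrb.le hl.le)).le
    have h2 : l * (⌈rb / l⌉₊ : ℝ) ≤ l * (rb / l + 1) := mul_le_mul_of_nonneg_left this hl.le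
    have h3 : l * (rb / l + 1) = rb + l := by field_simp
    linarith
  have hMc : (M : ℝ) = (⌈rb / l⌉₊ : ℝ) + 1 := by rw [hM]; push_cast; ring
  -- the number of blocks
  have hlim : Tendsto (fun k : ℕ => ENNReal.ofReal (((2 * M + 1) ^ 2 : ℕ) * (1 - q) ^ k)) atTop (𝓝 0) := by
    have h1 : Tendsto (fun k : ℕ => (((2 * M + 1) ^ 2 : ℕ) : ℝ) * (1 - q) ^ k) atTop (𝓝 ((((2 * M + 1) ^ 2 : ℕ) : ℝ) * 0)) :=
      (tendsto_pow_atTop_nhds_zero_of_lt_one (by linarith) (by linarith)).const_mul _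
    rw [mul_zero] at h1
    have := (ENNReal.continuous_ofReal.tendsto 0).comp h1
    rwa [ENNReal.ofReal_zero] at this
  have hζ2 : 0 < ζ / 2 := ENNReal.half_pos hζ.ne'
  obtain ⟨k, hk⟩ := (hlim.eventually (ge_mem_nhds hζ2)).exists
  obtain ⟨𝔹, hrep, hreads, e, he, hp⟩ := pvflm_unit hQ hl M (k + 1)
  have hk' : ENNReal.ofReal (((2 * M + 1) ^ 2 : ℕ) * (1 - q) ^ (k + 1)) ≤ ζ / 2 := by
    refine le_trans (ENNReal.ofReal_le_ofReal ?_) hk
    exact mul_le_mul_of_nonneg_left (pow_le_pow_of_le_one (by linarith) (by linarith) (Nat.le_succ k)) (Nat.cast_nonneg _)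
  refine ⟨(2 * M + 1) ^ 2 * (2 * (k + 1)), 𝔹 ∪ pvflmNo l M, by positivity, hreads.mono (pvflm_ball_win ?_), ?_, ?_⟩
  · unfold pvflmRE
    rw [hMc]
    have : l = a₀ / 200 := hl'
    nlinarith
  · filter_upwards [he.eventually (ge_mem_nhds hζ2), self_mem_nhdsWithin] with ε h1 h2
    calc pvP ε (𝔹 ∪ pvflmNo l M) ≤ ENNReal.ofReal (((2 * M + 1) ^ 2 : ℕ) * (1 - q) ^ (k + 1)) + e ε := hp ε h2
      _ ≤ ζ / 2 + ζ / 2 := add_le_add hk' h1
      _ = ζ := ENNReal.add_halves ζ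
  · intro h hh p ω hout b
    refine pvflm_det hl hrep hh p ?_ ?_ ω hout b
    · rw [hMc]; nlinarith
    · have : l = a₀ / 200 := hl'
      linarith

/-- **FLAG1 IN THE SHAPE CONSUMED BY THE ROOF OF THE PINS**: the first two clauses are the two fields `reads`, `small` of `PvxpFlag h w ζ Flag` (`Exit/Pins.lean`, 12), verbatim;   `n` does not depend on the scales `h` -/
theorem pvflm_flag1 {rb a₀ : ℝ} (hrb : 0 < rb) (ha₀ : 0 < a₀) {w : ℕ} (hw : 2 * rb + a₀ ≤ w) {ζ : ℝ≥0∞} (hζ : 0 < ζ) :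
    ∃ n : ℕ, 0 < n ∧ ∀ h : ℕ → ℝ, (∀ m, 0 < h m) → ∃ Flag : ℕ → ℤ × ℤ → Set (Conf PvPt),
      (∀ m p, Conf.ReadsSet (pvtdWin (h m) w p) (Flag m p)) ∧
      (∀ (x : ℂ) (R : ℝ), ∀ᶠ m in atTop, ∀ᶠ ε in 𝓝[>] (0 : ℝ), ∀ p, ‖l9Pt (h m) p - x‖ ≤ R → pvP ε (Flag m p) ≤ ζ) ∧
      ∀ (m : ℕ) (p : ℤ × ℤ) (ω : PVSample), pvConf ω ∉ Flag m p → ∀ b : Bool,
        ¬ PvflStub (pvxT ω) (pvxPos ω) (l9Pt (h m) p) (rb * h m) (a₀ * h m) n (pvxCol ω b) := by
  obtain ⟨n, 𝔽, hn, hr, hs, hdet⟩ := pvflm_flag1_unit hrb ha₀ hw hζ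
  refine ⟨n, hn, fun h hh => ⟨fun m p => pvtdEv (h m) 𝔽 p, fun m p => pvtd_ev_reads (hh m) w p hr, fun x R => Eventually.of_forall fun m => ?_,
    fun m p ω => hdet (h m) (hh m) p ω⟩⟩
  filter_upwards [pvflm_ev_scale hs (hh m)] with ε hε p _
  exact (pvtd_ev_le (hh m).ne' p ε 𝔽).trans hε

/-! ## 5. the vocabulary of `Tr/Defs`: the two stubs of a state -/

section defs

variable {V D : Type} {T : PvMap V D} {pos : V → ℂ} {s : V → Bool}

theorem pvflm_sq_iff (z x : ℂ) (r : ℝ) : x ∈ pvwSq z r ↔ pvlvRad z x ≤ r := by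
  unfold pvwSq pvlvRad
  exact max_le_iff.symm

theorem pvflm_box_iff (z : ℂ) (r : ℝ) (d : D) : d ∈ pvlvBox T pos z r ↔ pos (T.src d) ∈ pvwSq z r ∧ pos (T.tgt d) ∈ pvwSq z r ∧ pos (T.apex d) ∈ pvwSq z r := by
  show pvlvFR T pos z d ≤ r ↔ _
  unfold pvlvFR
  rw [max_le_iff, max_le_iff, pvflm_sq_iff, pvflm_sq_iff, pvflm_sq_iff, and_assoc]

theorem pvflm_cnt_zero {E : Type} [PseudoMetricSpace E] (z : ℕ → E) (a : ℝ) : pvlvCnt z a 0 = 0 := by
  classical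
  unfold pvlvCnt
  rw [Finset.card_eq_zero, Finset.eq_empty_iff_forall_notMem]
  intro t ht
  obtain ⟨h1, h2⟩ := pvlv_mem_steps.1 ht
  have := pvlv_step_pos h2
  omega

/-- a strand explored to the first position whose face is not in the box makes fewer than `n` steps, off the flag -/
theorem pvflm_cnt_lt {z : ℂ} {r a : ℝ} {n : ℕ} (hn : 0 < n) (hno : ¬ PvflStub T pos z r a n s) {d : D} (hbw : pvasBW T s d) {N : ℕ}
    (hin : ∀ i, i < N → pvasIt T s d i ∈ pvlvBox T pos z r) (hout : pvasIt T s d N ∉ pvlvBox T pos z r) : pvlvCnt (pvlvZ T pos s d) a N < n := by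
  by_contra hc
  rcases Nat.eq_zero_or_pos N with rfl | hN
  · rw [pvflm_cnt_zero] at hc
    omega
  · exact hno ⟨d, N, hbw, hin 0 hN, hin, hout, not_lt.1 hc⟩

/-- **EXIT STUB** of a state (`PvwSt.StubP`), box `pvwSq z r`: `N⁺ < n` off the flag;   steps counted at the black ends of the positions -/
theorem pvflm_stubP {𝔖 : PvwSt T} {z : ℂ} {r a : ℝ} {n : ℕ} (hn : 0 < n) (hst : 𝔖.StubP pos (pvwSq z r) s) (hbw : pvasBW T s 𝔖.dp)
    (hno : ¬ PvflStub T pos z r a n s) : pvlvCnt (pvlvZ T pos s 𝔖.dp) a 𝔖.np < n := by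
  refine pvflm_cnt_lt hn hno hbw (fun i hi => ?_) ?_
  · rw [← hst.ep_it i hi.le, pvflm_box_iff]
    exact ⟨(hst.ep_in i hi.le).1, (hst.ep_in i hi.le).2, hst.ep_ax i hi⟩
  · rw [← hst.ep_it _ le_rfl, pvflm_box_iff]
    exact fun h => hst.ep_out h.2.2

/-- **ENTRANCE STUB** of a state (`PvwSt.StubM`): `N⁻ < n` off the flag of the exchanged colouring;   the backward positions are the opposites of the positions of the strand of `pvasNot s` from `opp dm` (`pvwk_back_it` of 25):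
steps counted at the WHITE ends of the positions `em i` -/
theorem pvflm_stubM {𝔖 : PvwSt T} {z : ℂ} {r a : ℝ} {n : ℕ} (hn : 0 < n) (hst : 𝔖.StubM pos (pvwSq z r) s) (hbw : pvasBW T s 𝔖.dm)
    (hno : ¬ PvflStub T pos z r a n (pvasNot s)) : pvlvCnt (pvlvZ T pos (pvasNot s) (T.opp 𝔖.dm)) a 𝔖.nm < n := by
  have e : ∀ i, i ≤ 𝔖.nm → pvasIt T (pvasNot s) (T.opp 𝔖.dm) i = T.opp (𝔖.em i) := by
    intro i hi
    rw [hst.em_it i hi, pvwk_back_it, T.opp_opp]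
  refine pvflm_cnt_lt hn hno (pvas_bw_not.2 hbw) (fun i hi => ?_) ?_
  · rw [e i hi.le, pvflm_box_iff, T.src_opp, T.tgt_opp]
    exact ⟨(hst.em_in i hi.le).2, (hst.em_in i hi.le).1, hst.em_ax i hi⟩
  · rw [e _ le_rfl, pvflm_box_iff]
    exact fun h => hst.em_out h.2.2

theorem pvflm_Z_back {𝔖 : PvwSt T} {B : Set ℂ} (hst : 𝔖.StubM pos B s) {i : ℕ} (hi : i ≤ 𝔖.nm) : pvlvZ T pos (pvasNot s) (T.opp 𝔖.dm) i = pos (T.tgt (𝔖.em i)) := by
  show pos (T.src (pvasIt T (pvasNot s) (T.opp 𝔖.dm) i)) = _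
  rw [hst.em_it i hi, pvwk_back_it, T.tgt_opp]

theorem pvflm_Z_fwd {𝔖 : PvwSt T} {B : Set ℂ} (hst : 𝔖.StubP pos B s) {i : ℕ} (hi : i ≤ 𝔖.np) : pvlvZ T pos s 𝔖.dp i = pos (T.src (𝔖.ep i)) := by
  show pos (T.src (pvasIt T s 𝔖.dp i)) = _
  rw [hst.ep_it i hi]

end defs

/-- **BOTH STUBS OF EVERY STATE AT THE MODEL**: off the flag, `N⁺ < n` and `N⁻ < n` -/
theorem pvflm_state {ω : PVSample} {z : ℂ} {r a : ℝ} {n : ℕ} (hn : 0 < n) (hno : ∀ b : Bool, ¬ PvflStub (pvxT ω) (pvxPos ω) z r a n (pvxCol ω b)) (b : Bool)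
    (𝔖 : PvwSt (pvxT ω)) (hst : 𝔖.Stub (pvxPos ω) (pvwSq z r) (pvxCol ω b)) (hp : pvasBW (pvxT ω) (pvxCol ω b) 𝔖.dp) (hm : pvasBW (pvxT ω) (pvxCol ω b) 𝔖.dm) :
    pvlvCnt (pvlvZ (pvxT ω) (pvxPos ω) (pvxCol ω b) 𝔖.dp) a 𝔖.np < n ∧
      pvlvCnt (pvlvZ (pvxT ω) (pvxPos ω) (pvasNot (pvxCol ω b)) ((pvxT ω).opp 𝔖.dm)) a 𝔖.nm < n :=
  ⟨pvflm_stubP hn hst.1 hp (hno b), pvflm_stubM hn hst.2 hm (by rw [pvflm_col_not]; exact hno _)⟩

end Claimed.Agent.R289
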