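import Claimed.Agent.R289.Arm.TopGlue
import Claimed.Agent.R289.Tr.Port
import Claimed.Agent.R289.Tr.Hub
import Claimed.Agent.R289.Tr.Dense

/-!
# Row 289 (S0537, Cardy for Poisson-Voronoi), ROAD P, statement P14, flag F2 : THE LOCAL NEAR-RETURN TEST, file Tr/FlagNR      (owner helper36; prefix `pvnf_`, `pvnf`)

Blueprint: `origin/helper273:notes/R289/ROADP_273.md` P14 (F2 = near-return tests at the two levels `(d_k, e_k)` on the `d_k`-grids of `B(z, 8 b3 h)`), P7 (`NR_0`, `NR_1`), P10 (FIT + PORT consume `PvtpNR` of `Tr/Port`, 164).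
WHY A NEW FILE.   `PvNearExit` (`Exit/Arm`, 33) is tied to the GLOBAL pair `(x,R)` of `rimsAt`: its event `F y s S R` is read in `clB(y,4R)`, a macroscopic window, and it has no locality field.
A static local flag (`PvxpFlag` of `Exit/Pins`, 12; Peierls of `Tr/Dense`, 101) must be read LITERALLY in a window of size `O(h)`.      Everything needed is on main:
the event `ArmtNR` of 186 (`Arm/Top`: near return in SOME local model), its invariance `armt_nr_iso`, `pvat_iso_loc` of 98 (`Arm/Stat`), the cost `armt_prob_main` (`Arm/TopGlue`), the void estimate `pvm_good_prob` (`Mesh/Net`).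

* sec. 1  `pvnfW pvnfE pvnfDense pvnfNR pvnfTest`;   `pvnf_tri_close`, `pvnf_nr_loc`, **`pvnf_test_reads`** : the test is read LITERALLY from `pvnfE y R₁ ρ ×ˢ univ` (no a.s. good set, no saturation).
* sec. 2  **`pvnf_det`** : a near return `(y; s, S)` of an encoded rim of ANY completion at the global pair `(x,R)` is seen by the test at every LOCAL radius `S ≤ R₁ ≤ R`.
* sec. 3  cost: `pvnf_test_le`, `pvnf_dense_le` (explicit, uniform in the centre), **`pvnf_test_small`** (filter form, uniform in the centre).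
* sec. 4  grid and shift: `pvnfGrid`, `pvnf_shift`, the flag `pvnfF2`, **`pvnf_F2_use`** (`¬ F2 ⟹ PvtpNR`), `pvnf_F2_reads`, **`pvnf_F2_small`**.
* sec. 5  consumer form (units of `h m`, centres `l9Pt (h m) p`): `pvnfFlag h μ rw d e R₁ m p`, **`pvnf_flag_reads`** (= field `reads` of `PvxpFlag`, window `pvtdWin (h m) w p`), **`pvnf_flag_small`** (= field `small`, at every level, all centres),
          **`pvnf_flag_use`**, **`pvnf_num`** (at fixed `rw`, `e`: `#tests × cost → 0` as `d ↓ 0`: the order `e₁ → d₁ → e₀ → d₀` of ROADP sec. 0).      0 sorry in this file; the only open input is `armt_prob_main` (ARM).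
-/

set_option autoImplicit false
set_option linter.unusedSectionVars false

namespace Claimed.Agent.R289

open MeasureTheory ProbabilityTheory Set Filter Topology Metric Claims.C0465
open scoped ENNReal NNReal

/-! ## 1. the test, locality -/

/-- the combinatorial window: contains `K = clB(y, 4R₁)` and, on the density event, the Delaunay neighbours of the sites of `K` -/
def pvnfW (y : ℂ) (R₁ ρ : ℝ) : Set ℂ := closedBall y (4 * R₁ + 2 * ρ)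

/-- the reading window -/
def pvnfE (y : ℂ) (R₁ ρ : ℝ) : Set ℂ := vorNbd (pvnfW y R₁ ρ) (3 * ρ)

/-- the density event -/
def pvnfDense (y : ℂ) (R₁ ρ : ℝ) : Set (Conf PvPt) := {η | VorDense (cfSites η) (vorNbd (pvnfW y R₁ ρ) (2 * ρ)) ρ}

/-- near return in some local model on `clB(y, 4R₁)` (186), NOT cut by the nice site sets -/
def pvnfNR (y : ℂ) (s S R₁ : ℝ) : Set (Conf PvPt) := {η | ArmtNR (cfSites η) (cfCol η) y s S R₁}

/-- **THE LOCAL NEAR-RETURN TEST** -/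
def pvnfTest (y : ℂ) (s S R₁ ρ : ℝ) : Set (Conf PvPt) := (pvnfDense y R₁ ρ)ᶜ ∪ pvnfNR y s S R₁

theorem pvnf_eqns_cite : True := by
  have := @pvnfW.eq_1; have := @pvnfE.eq_1; have := @pvnfDense.eq_1; have := @pvnfNR.eq_1; have := @pvnfTest.eq_1
  trivial

/-- on the density event the Delaunay neighbours of a site of `K` are within `2ρ` -/
theorem pvnf_tri_close {Y : Set ℂ} {y : ℂ} {R₁ ρ : ℝ} (hρ : 0 < ρ) (hd : VorDense Y (vorNbd (pvnfW y R₁ ρ) (2 * ρ)) ρ) {a b c : ℂ} (ht : DelTri Y a b c)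
    (ha : ‖a - y‖ ≤ 4 * R₁) : b ∈ pvnfW y R₁ ρ ∧ c ∈ pvnfW y R₁ ρ := by
  obtain ⟨haY, hbY, hcY, -, z, ⟨hza, hzb⟩, hzc⟩ := ht
  have haW : a ∈ pvnfW y R₁ ρ := by
    unfold pvnfW
    rw [mem_closedBall, dist_eq_norm]
    linarith
  have hsub : closedBall a (2 * ρ) ⊆ vorNbd (pvnfW y R₁ ρ) (2 * ρ) := fun w hw => ⟨a, haW, by rwa [mem_closedBall, dist_eq_norm] at hw⟩
  have h1 : vorCell Y a ⊆ closedBall a ρ := vor_cell_subset_ball hρ.le (by linarith) (hd.mono Subset.rfl hsub le_rfl)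
  have h2 : ‖z - a‖ ≤ ρ := by
    have := h1 hza
    rwa [mem_closedBall, dist_eq_norm] at this
  have key : ∀ u : ℂ, z ∈ vorCell Y u → u ∈ pvnfW y R₁ ρ := by
    intro u hu
    have h3 : ‖z - u‖ ≤ ‖z - a‖ := hu a haY
    unfold pvnfW
    rw [mem_closedBall, dist_eq_norm]
    have e : u - y = -(z - u) + (z - a) + (a - y) := by ring
    rw [e]
    calc ‖-(z - u) + (z - a) + (a - y)‖ ≤ ‖-(z - u)‖ + ‖z - a‖ + ‖a - y‖ := norm_add₃_le
      _ ≤ 4 * R₁ + 2 * ρ := by rw [norm_neg]; linarith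
  exact ⟨key b hzb, key c hzc⟩

theorem pvnf_inter_mono {Y Y' A B : Set ℂ} (h : Y ∩ B = Y' ∩ B) (hAB : A ⊆ B) : Y ∩ A = Y' ∩ A := by
  ext z
  have := Set.ext_iff.1 h z
  simp only [mem_inter_iff] at this ⊢
  exact ⟨fun ⟨h1, h2⟩ => ⟨(this.1 ⟨h1, hAB h2⟩).1, h2⟩, fun ⟨h1, h2⟩ => ⟨(this.2 ⟨h1, hAB h2⟩).1, h2⟩⟩

theorem pvnf_nbd_sub (W : Set ℂ) (ρ : ℝ) : vorNbd (vorNbd W (2 * ρ)) ρ ⊆ vorNbd W (3 * ρ) :=
  (pvat_nbd_nbd W (2 * ρ) ρ).trans (by rw [show 2 * ρ + ρ = 3 * ρ by ring])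

/-- the density event is read in the window -/
theorem pvnf_dense_loc {Y Y' : Set ℂ} {y : ℂ} {R₁ ρ : ℝ} (hYY : Y ∩ pvnfE y R₁ ρ = Y' ∩ pvnfE y R₁ ρ) (hd : VorDense Y (vorNbd (pvnfW y R₁ ρ) (2 * ρ)) ρ) :
    VorDense Y' (vorNbd (pvnfW y R₁ ρ) (2 * ρ)) ρ :=
  vor_dense_transfer hd (pvnf_inter_mono hYY (pvnf_nbd_sub _ ρ))

/-- **LOC**, site sets: on the density event the near return in some local model is read in the window -/
theorem pvnf_nr_loc {Y Y' : Set ℂ} {σ σ' : ℂ → Bool} {y : ℂ} {s S R₁ ρ : ℝ} (hρ : 0 < ρ) (hs : s ≤ 4 * R₁) (hd : VorDense Y (vorNbd (pvnfW y R₁ ρ) (2 * ρ)) ρ)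
    (hYY : Y ∩ pvnfE y R₁ ρ = Y' ∩ pvnfE y R₁ ρ) (hσ : ∀ a ∈ Y ∩ pvnfW y R₁ ρ, σ' a = σ a) (hN : ArmtNR Y σ y s S R₁) : ArmtNR Y' σ' y s S R₁ := by
  have hd' := pvnf_dense_loc hYY hd
  refine armt_nr_iso (W := pvnfW y R₁ ρ) (W' := pvnfW y R₁ ρ) (φ := id) (pvat_iso_loc (armtReg y s S R₁) hρ hd hYY hσ) ?_ ?_ ?_ ?_ hN
  · intro p hp
    unfold pvnfW
    rw [mem_closedBall, dist_eq_norm]
    linarith
  · intro p hp
    unfold pvnfW
    rw [mem_closedBall, dist_eq_norm]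
    linarith
  · exact fun a b c ht ha => pvnf_tri_close hρ hd ht ha
  · exact fun a b c ht ha => pvnf_tri_close hρ hd' ht ha

/-- **THE TEST IS READ LITERALLY IN THE WINDOW** -/
theorem pvnf_test_reads (y : ℂ) {s S R₁ ρ : ℝ} (hρ : 0 < ρ) (hs : s ≤ 4 * R₁) : Conf.ReadsSet (pvnfE y R₁ ρ ×ˢ univ) (pvnfTest y s S R₁ ρ) := by
  have key : ∀ η η' : Conf PvPt, Conf.restr (pvnfE y R₁ ρ ×ˢ univ) η = Conf.restr (pvnfE y R₁ ρ ×ˢ univ) η' → η ∈ pvnfTest y s S R₁ ρ → η' ∈ pvnfTest y s S R₁ ρ := by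
    intro η η' e h
    have hYY := pvat_restr_sites e
    by_cases hd' : η' ∈ pvnfDense y R₁ ρ
    · have hd : η ∈ pvnfDense y R₁ ρ := pvnf_dense_loc hYY.symm hd'
      rcases h with h | h
      · exact absurd hd h
      · refine Or.inr (pvnf_nr_loc hρ hs hd hYY (fun a ha => ?_) h)
        exact pvat_restr_col e (vor_subset_nbd _ (by linarith) ha.2)
    · exact Or.inl hd'
  intro η
  have e : Conf.restr (pvnfE y R₁ ρ ×ˢ univ) (Conf.restr (pvnfE y R₁ ρ ×ˢ univ) η) = Conf.restr (pvnfE y R₁ ρ ×ˢ univ) η := pvi_restr_idem _ _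
  exact ⟨key _ _ e, key _ _ e.symm⟩

/-! ## 2. (DET) at a local radius -/

/-- the event is decreasing in the local radius -/
theorem pvnf_nr_anti {Y : Set ℂ} {σ : ℂ → Bool} {y : ℂ} {s S R₁ R : ℝ} (hRR : R₁ ≤ R) (h : ArmtNR Y σ y s S R) : ArmtNR Y σ y s S R₁ := by
  obtain ⟨V, D, T, lab, col, hL, hc, c, hrim, k, i, k', i', h1, h2, h3, h4, n1, n2, f1, f2⟩ := h
  refine ⟨V, D, T, lab, col, armt_loc_mono hL (closedBall_subset_closedBall (by linarith)), hc, c, hrim, k, i, k', i', h1, h2, h3, h4, n1, n2, f1, ?_⟩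
  intro p hp
  have := f2 p hp
  linarith

/-- **(DET)** for one bulk family (the proof of `armt_det` of 186 without the cut by the nice site sets) -/
theorem pvnf_det_bulk (X : Type) [Fintype X] (𝔅 : PvBulk X) (η : Conf PvPt) (ξ : X → Bool) (x y : ℂ) (s S R : ℝ) (hy : ‖y - x‖ ≤ 2 * R) (hs : 0 < s) (hsS : s ≤ S) (hSR : S ≤ R)
    (hOk : 𝔅.Ok (cfSites η) (closedBall x (6 * R))) (P : PvbRim) (hP : P ∈ 𝔅.rimsAt (cfSites η) (𝔅.col η ξ) x R) (hret : PvbNearRet P y s S) :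
    ArmtNR (cfSites η) (cfCol η) y s S R := by
  obtain ⟨c, hrim, hfar, rfl⟩ := hP
  obtain ⟨k, i, k', hki, hik', hk'n, hk, hk', hi⟩ := hret
  have hR : 0 < R := by linarith
  have hk'n' : k' ≤ c.n := hk'n
  have hk1 : ‖𝔅.posF (cfSites η) (x + 7 * R) ((𝔅.T (cfSites η)).src (c.e k)) - y‖ ≤ s := hk
  have hk1' : ‖𝔅.posF (cfSites η) (x + 7 * R) ((𝔅.T (cfSites η)).src (c.e k')) - y‖ ≤ s := hk'
  have hi1 : S < ‖𝔅.posF (cfSites η) (x + 7 * R) ((𝔅.T (cfSites η)).src (c.e i)) - y‖ := hi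
  have hzi : 5 * R ≤ ‖(x + 7 * R : ℂ) - y‖ := by
    have h1 : (x + 7 * R : ℂ) - y = ((7 * R : ℝ) : ℂ) - (y - x) := by push_cast; ring
    have h2 : ‖((7 * R : ℝ) : ℂ)‖ = 7 * R := by rw [Complex.norm_real, Real.norm_eq_abs, abs_of_pos (by linarith)]
    have h3 := norm_sub_norm_le ((7 * R : ℝ) : ℂ) (y - x)
    rw [h1]
    linarith
  have hsite : ∀ v, ‖𝔅.posF (cfSites η) (x + 7 * R) v - y‖ ≤ s → ArmtNear (𝔅.labO (cfSites η)) y s v := by
    intro v h1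
    rcases hl : 𝔅.lab (cfSites η) v with p | e
    · refine ⟨p, by simp [PvBulk.labO, hl], ?_⟩
      simpa [PvBulk.posF, hl] using h1
    · exfalso
      have : 𝔅.posF (cfSites η) (x + 7 * R) v = x + 7 * R := by simp [PvBulk.posF, hl]
      rw [this] at h1
      linarith
  have hpos : ∀ v p, 𝔅.labO (cfSites η) v = some p → 𝔅.posF (cfSites η) (x + 7 * R) v = p := by
    intro v p h
    have hl : 𝔅.lab (cfSites η) v = Sum.inl p := by
      simpa [PvBulk.labO, Sum.getLeft?_eq_some_iff] using h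
    simp [PvBulk.posF, hl]
  have h0far : 2 * R ≤ ‖𝔅.posF (cfSites η) (x + 7 * R) ((𝔅.T (cfSites η)).src (c.e 0)) - y‖ := by
    have h1 := norm_sub_le_norm_sub_add_norm_sub (𝔅.posF (cfSites η) (x + 7 * R) ((𝔅.T (cfSites η)).src (c.e 0))) y x
    linarith
  have hn0 : c.e c.n = c.e 0 := by simpa using c.per 0
  have hk0 : 0 < k := by
    rcases Nat.eq_zero_or_pos k with h | h
    · subst h; linarith
    · exact h
  have hk'lt : k' < c.n := by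
    rcases Nat.lt_or_ge k' c.n with h | h
    · exact h
    · have : k' = c.n := le_antisymm hk'n' h
      rw [this, hn0] at hk1'
      linarith
  refine ⟨𝔅.V (cfSites η), 𝔅.D (cfSites η), 𝔅.T (cfSites η), 𝔅.labO (cfSites η), 𝔅.col η ξ, ?_, ?_, ?_⟩
  · refine armt_loc_mono (armt_loc_bulk 𝔅 hOk) ?_
    intro w hw
    rw [mem_closedBall, dist_eq_norm] at hw ⊢
    have := norm_sub_le_norm_sub_add_norm_sub w y x
    linarith
  · intro v p h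
    have hl : 𝔅.lab (cfSites η) v = Sum.inl p := by
      simpa [PvBulk.labO, Sum.getLeft?_eq_some_iff] using h
    simp [PvBulk.col, hl]
  · refine ⟨c, hrim, k, i, k', c.n, hki, hik', hk'lt, by omega, hsite _ hk1, hsite _ hk1', ?_, ?_⟩
    · intro p hp
      rw [hpos _ p hp] at hi1
      exact hi1.le
    · intro p hp
      rw [hn0] at hp
      rw [hpos _ p hp] at h0far
      exact h0far

/-- **(DET)**: a near return of an encoded reaching rim of ANY completion, at the global pair `(x,R)`, is seen by the test at every local radius `S ≤ R₁ ≤ R` -/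
theorem pvnf_det {x y : ℂ} {s S R₁ R : ℝ} {ω : PVSample} {P : PvbRim} (hP : P ∈ pvhbAll x R ω) (hy : ‖y - x‖ ≤ 2 * R) (hs : 0 < s) (hsS : s ≤ S) (hSR : S ≤ R₁) (hRR : R₁ ≤ R)
    (hret : PvbNearRet P y s S) (ρ : ℝ) : pvConf ω ∈ pvnfTest y s S R₁ ρ := by
  obtain ⟨X, _, 𝔅, ξ, -, hOk, hP'⟩ := hP
  exact Or.inr (pvnf_nr_anti hRR (pvnf_det_bulk X 𝔅 (pvConf ω) ξ x y s S R hy hs hsS (hSR.trans hRR) hOk P hP' hret))

/-! ## 3. the cost -/

theorem pvnf_test_le {ε : ℝ} (hε : ε ≠ 0) (y : ℂ) (s S R₁ ρ : ℝ) : pvP ε (pvnfTest y s S R₁ ρ) ≤ pvP ε (pvnfDense y R₁ ρ)ᶜ + pvP ε (armtN y s S R₁) := by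
  refine (measure_union_le _ _).trans (add_le_add le_rfl (measure_mono_ae ?_))
  filter_upwards [pvat_nice_ae hε] with η hη h
  exact ⟨h, hη⟩

/-- the void estimate, uniform in the centre -/
theorem pvnf_dense_le (ε : ℝ) {R₁ ρ : ℝ} (hρ : 0 < ρ) (hR : 0 ≤ R₁) (y : ℂ) :
    pvP ε (pvnfDense y R₁ ρ)ᶜ ≤ ENNReal.ofReal ((4 * (4 * R₁ + 4 * ρ) / ρ + 5) ^ 2 * Real.exp (-(ρ ^ 2 / (8 * ε ^ 2)))) := by
  refine le_trans (measure_mono ?_) (pvm_good_prob hρ (by positivity : 0 ≤ 4 * R₁ + 4 * ρ) (pv_isPpp ε) (c := univ) ⟨true, mem_univ _⟩ y)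
  intro η hη hgood
  refine hη ?_
  have h1 : PvNet ρ (pvmSq y (4 * R₁ + 4 * ρ)) η := pvm_net_of_netC (pvm_good_net hρ hgood)
  rintro w ⟨u, hu, hwu⟩
  unfold pvnfW at hu
  rw [mem_closedBall, dist_eq_norm] at hu
  have h2 : ‖w - y‖ ≤ 4 * R₁ + 4 * ρ := by
    have e : w - y = (w - u) + (u - y) := by ring
    rw [e]
    exact (norm_add_le _ _).trans (by linarith)
  obtain ⟨p, hp, hpw⟩ := h1 w ⟨by rw [← Complex.sub_re]; exact (Complex.abs_re_le_norm _).trans h2, by rw [← Complex.sub_im]; exact (Complex.abs_im_le_norm _).trans h2⟩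
  exact ⟨p.1, ⟨p, hp, rfl⟩, by rw [norm_sub_rev]; exact hpw.le⟩

/-- from sequences to the filter `𝓝[>] 0` -/
theorem pvnf_eventually_of_seq {p : ℝ → Prop} (h : ∀ εs : ℕ → ℝ, (∀ n, 0 < εs n) → Tendsto εs atTop (𝓝 0) → ∀ᶠ n in atTop, p (εs n)) : ∀ᶠ ε in 𝓝[>] (0 : ℝ), p ε := by
  by_contra hcon
  rw [not_eventually] at hcon
  have h2 : ∃ᶠ ε in 𝓝[>] (0 : ℝ), ¬ p ε ∧ 0 < ε := hcon.and_eventually self_mem_nhdsWithin
  obtain ⟨ns, hns, hp⟩ := exists_seq_forall_of_frequently h2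
  obtain ⟨n, hn⟩ := (h ns (fun n => (hp n).2) (hns.mono_right nhdsWithin_le_nhds)).exists
  exact (hp n).1 hn

/-- **THE COST OF ONE TEST**, filter form, UNIFORM IN THE CENTRE -/
theorem pvnf_test_small : ∃ c C M₀ : ℝ, 0 < c ∧ 0 ≤ C ∧ 1 ≤ M₀ ∧ ∀ s S R₁ ρ δ : ℝ, 0 < s → M₀ * s ≤ S → S ≤ R₁ → 0 < ρ → 0 < δ →
    ∀ᶠ ε in 𝓝[>] (0 : ℝ), ∀ y : ℂ, pvP ε (pvnfTest y s S R₁ ρ) ≤ ENNReal.ofReal (C * (s / S) ^ (2 + c) * (S / R₁) ^ c + δ) := by
  obtain ⟨c, C, M₀, hc, hC, hM, hmain⟩ := armt_prob_main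
  refine ⟨c, C, M₀, hc, hC, hM, fun s S R₁ ρ δ hs hS hR hρ hδ => ?_⟩
  have hSpos : 0 < S := lt_of_lt_of_le (by positivity) hS
  have hR₁ : 0 < R₁ := lt_of_lt_of_le hSpos hR
  have h1 : ∀ᶠ ε in 𝓝[>] (0 : ℝ), (pvP ε (armtN 0 s S R₁)).toReal ≤ C * (s / S) ^ (2 + c) * (S / R₁) ^ c :=
    pvnf_eventually_of_seq fun εs h0 hε => hmain εs h0 hε 0 s S R₁ hs hS hR
  have h2 : ∀ᶠ ε in 𝓝[>] (0 : ℝ), (4 * (4 * R₁ + 4 * ρ) / ρ + 5) ^ 2 * Real.exp (-(ρ ^ 2 / 8 / ε ^ 2)) < δ :=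
    (pvm_exp_tendsto (a := ρ ^ 2 / 8) (by positivity) ((4 * (4 * R₁ + 4 * ρ) / ρ + 5) ^ 2)).eventually (gt_mem_nhds hδ)
  filter_upwards [h1, h2, self_mem_nhdsWithin] with ε a1 a2 a3 y
  have hε : ε ≠ 0 := ne_of_gt a3
  have := (pv_isPpp ε).prob
  have b0 : 0 ≤ C * (s / S) ^ (2 + c) * (S / R₁) ^ c := by positivity
  have b1 : pvP ε (armtN y s S R₁) ≤ ENNReal.ofReal (C * (s / S) ^ (2 + c) * (S / R₁) ^ c) := by
    have e : pvP ε (armtN y s S R₁) = pvP ε (armtN 0 s S R₁) := by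
      have := armt_inv ε y 0 s S R₁
      rwa [zero_add] at this
    rw [e]
    exact (ENNReal.le_ofReal_iff_toReal_le (measure_ne_top _ _) b0).2 a1
  have b2 : pvP ε (pvnfDense y R₁ ρ)ᶜ ≤ ENNReal.ofReal δ := by
    refine (pvnf_dense_le ε hρ hR₁.le y).trans (ENNReal.ofReal_le_ofReal ?_)
    rw [div_div] at a2
    exact a2.le
  calc pvP ε (pvnfTest y s S R₁ ρ) ≤ pvP ε (pvnfDense y R₁ ρ)ᶜ + pvP ε (armtN y s S R₁) := pvnf_test_le hε y s S R₁ ρ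
    _ ≤ ENNReal.ofReal δ + ENNReal.ofReal (C * (s / S) ^ (2 + c) * (S / R₁) ^ c) := add_le_add b2 b1
    _ = ENNReal.ofReal (C * (s / S) ^ (2 + c) * (S / R₁) ^ c + δ) := by rw [add_comm, ENNReal.ofReal_add b0 hδ.le]

/-! ## 4. grid and shift;  the flag F2 -/

/-- a near return seen from a neighbouring centre -/
theorem pvnf_shift {P : PvbRim} {y w : ℂ} {s S g : ℝ} (h : PvbNearRet P w s S) (hyw : ‖y - w‖ ≤ g) : PvbNearRet P y (s + g) (S - g) := by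
  obtain ⟨k, i, k', h1, h2, h3, a1, a2, a3⟩ := h
  have hwy : ‖w - y‖ ≤ g := by rw [norm_sub_rev]; exact hyw
  refine ⟨k, i, k', h1, h2, h3, ?_, ?_, ?_⟩
  · exact (pvtp_tri (P.v k) w y).trans (by linarith)
  · exact (pvtp_tri (P.v k') w y).trans (by linarith)
  · have := pvtp_tri (P.v i) y w
    linarith

open Classical in
/-- the `g`-grid of the window `clB(z, rw)` -/
noncomputable def pvnfGrid (z : ℂ) (rw g : ℝ) : Finset ℂ := (armtBox (⌈rw / g⌉₊ + 1)).image fun p => z + pv5Ctr g p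

/-- the number of tests -/
noncomputable def pvnfCard (rw g : ℝ) : ℕ := (2 * (⌈rw / g⌉₊ + 1) + 1) ^ 2

/-- **THE FLAG F2** at one level `(d,e)`: some test `(2d, e/2 - d)` of the `d`-grid of `clB(z,rw)` fires -/
def pvnfF2 (z : ℂ) (rw d e R₁ ρ : ℝ) : Set (Conf PvPt) := ⋃ y ∈ pvnfGrid z rw d, pvnfTest y (2 * d) (e / 2 - d) R₁ ρ

theorem pvnf_eqns_cite4 : True := by
  have := @pvnfGrid.eq_1; have := @pvnfCard.eq_1; have := @pvnfF2.eq_1
  trivial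

theorem pvnf_grid_card (z : ℂ) (rw g : ℝ) : (pvnfGrid z rw g).card ≤ pvnfCard rw g := by
  classical
  unfold pvnfGrid pvnfCard
  exact Finset.card_image_le.trans (le_of_eq (armt_box_card _))

theorem pvnf_floor_abs {t N : ℝ} (h : |t| ≤ N) : |(⌊t + 1 / 2⌋ : ℝ)| ≤ N + 1 := by
  have h1 := Int.floor_le (t + 1 / 2)
  have h2 := Int.lt_floor_add_one (t + 1 / 2)
  obtain ⟨h3, h4⟩ := abs_le.1 h
  rw [abs_le]
  constructor <;> linarith

theorem pvnf_grid_cover {z w : ℂ} {rw g : ℝ} (hg : 0 < g) (hw : ‖w - z‖ ≤ rw) : ∃ y ∈ pvnfGrid z rw g, ‖y - w‖ ≤ g := by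
  classical
  set p : ℤ × ℤ := pv5Blk g ((w - z) + ⟨g / 2, g / 2⟩) with hp
  have hnear := pv5_ctr_near g hg (w - z)
  rw [← hp] at hnear
  have hN : rw / g ≤ (⌈rw / g⌉₊ : ℝ) := Nat.le_ceil _
  have key : ∀ t : ℝ, |t| ≤ rw → |⌊(t + g / 2) / g⌋| ≤ ((⌈rw / g⌉₊ + 1 : ℕ) : ℤ) := by
    intro t ht
    have e : (t + g / 2) / g = t / g + 1 / 2 := by field_simp
    have h1 : |t / g| ≤ (⌈rw / g⌉₊ : ℝ) := by
      rw [abs_div, abs_of_pos hg]
      exact (div_le_div_of_nonneg_right ht hg.le).trans hN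
    have h2 := pvnf_floor_abs h1
    rw [e]
    have h3 : ((|⌊t / g + 1 / 2⌋| : ℤ) : ℝ) ≤ (((⌈rw / g⌉₊ + 1 : ℕ) : ℤ) : ℝ) := by
      push_cast
      exact h2
    exact_mod_cast h3
  refine ⟨z + pv5Ctr g p, Finset.mem_image.2 ⟨p, ?_, rfl⟩, ?_⟩
  · unfold armtBox
    rw [Finset.mem_product, Finset.mem_Icc, Finset.mem_Icc]
    have a1 := key (w - z).re ((Complex.abs_re_le_norm _).trans hw)
    have a2 := key (w - z).im ((Complex.abs_im_le_norm _).trans hw)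
    have b1 : p.1 = ⌊((w - z).re + g / 2) / g⌋ := by rw [hp]; simp [pv5Blk]
    have b2 : p.2 = ⌊((w - z).im + g / 2) / g⌋ := by rw [hp]; simp [pv5Blk]
    rw [b1, b2]
    exact ⟨abs_le.1 a1, abs_le.1 a2⟩
  · have e : z + pv5Ctr g p - w = -((w - z) - pv5Ctr g p) := by ring
    rw [e, norm_neg]
    exact hnear

/-- the grid points stay near the window -/
theorem pvnf_grid_near {z y : ℂ} {rw g : ℝ} (hg : 0 < g) (hrw : 0 ≤ rw) (hy : y ∈ pvnfGrid z rw g) : ‖y - z‖ ≤ 2 * (rw + 2 * g) := by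
  classical
  obtain ⟨p, hp, rfl⟩ := Finset.mem_image.1 hy
  unfold armtBox at hp
  rw [Finset.mem_product, Finset.mem_Icc, Finset.mem_Icc] at hp
  have hN : (⌈rw / g⌉₊ : ℝ) ≤ rw / g + 1 := pvm_ceil_le (by positivity)
  have key : ∀ q : ℤ, -((⌈rw / g⌉₊ + 1 : ℕ) : ℤ) ≤ q → q ≤ ((⌈rw / g⌉₊ + 1 : ℕ) : ℤ) → |g * (q : ℝ)| ≤ rw + 2 * g := by
    intro q h1 h2
    have h1' : -(((⌈rw / g⌉₊ : ℝ)) + 1) ≤ (q : ℝ) := by exact_mod_cast h1
    have h2' : (q : ℝ) ≤ (⌈rw / g⌉₊ : ℝ) + 1 := by exact_mod_cast h2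
    have h3 : |(q : ℝ)| ≤ rw / g + 2 := abs_le.2 ⟨by linarith, by linarith⟩
    rw [abs_mul, abs_of_pos hg]
    calc g * |(q : ℝ)| ≤ g * (rw / g + 2) := mul_le_mul_of_nonneg_left h3 hg.le
      _ = rw + 2 * g := by field_simp
  have e : z + pv5Ctr g p - z = pv5Ctr g p := by ring
  rw [e]
  refine (Complex.norm_le_abs_re_add_abs_im _).trans ?_
  have a1 := key p.1 hp.1.1 hp.1.2
  have a2 := key p.2 hp.2.1 hp.2.2
  simp only [pv5Ctr]
  linarith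

/-- **USE OF F2**: off the flag every encoded reaching rim of every completion satisfies `NR(d,e)` in the window `clB(z,rw)` -/
theorem pvnf_F2_use {x z : ℂ} {rw d e R₁ R ρ : ℝ} {ω : PVSample} {P : PvbRim} (hP : P ∈ pvhbAll x R ω) (hd : 0 < d) (hrw : 0 ≤ rw) (hde : 6 * d ≤ e) (heR : e / 2 - d ≤ R₁) (hRR : R₁ ≤ R)
    (hz : ‖z - x‖ + 2 * (rw + 2 * d) ≤ 2 * R) (hno : pvConf ω ∉ pvnfF2 z rw d e R₁ ρ) : PvtpNR P z rw d e := by
  refine pvtp_nr_of_not hd.le (by linarith) fun w hw hret => hno ?_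
  obtain ⟨y, hy, hyw⟩ := pvnf_grid_cover hd hw
  have h1 : PvbNearRet P y (2 * d) (e / 2 - d) := by
    have := pvnf_shift hret hyw
    rwa [show d + d = 2 * d by ring] at this
  have hyx : ‖y - x‖ ≤ 2 * R := (pvtp_tri y z x).trans (by have := pvnf_grid_near hd hrw hy; linarith)
  exact mem_iUnion₂.2 ⟨y, hy, pvnf_det hP hyx (by linarith) (by linarith) heR hRR h1 ρ⟩

/-- the reading window of a test sits in a ball -/
theorem pvnf_E_sub (y : ℂ) (R₁ ρ : ℝ) : pvnfE y R₁ ρ ⊆ closedBall y (4 * R₁ + 5 * ρ) := by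
  rintro w ⟨u, hu, hwu⟩
  unfold pvnfW at hu
  rw [mem_closedBall, dist_eq_norm] at hu ⊢
  exact (pvtp_tri w u y).trans (by linarith)

/-- **F2 IS READ LITERALLY** in a ball round the centre -/
theorem pvnf_F2_reads (z : ℂ) {rw d e R₁ ρ : ℝ} (hd : 0 < d) (hrw : 0 ≤ rw) (hρ : 0 < ρ) (hdR : d ≤ 2 * R₁) :
    Conf.ReadsSet (closedBall z (2 * (rw + 2 * d) + 4 * R₁ + 5 * ρ) ×ˢ univ) (pvnfF2 z rw d e R₁ ρ) := by
  unfold pvnfF2
  refine Conf.ReadsSet.iUnion fun y => Conf.ReadsSet.iUnion fun hy => ?_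
  refine (pvnf_test_reads y hρ (by linarith)).mono (prod_mono ((pvnf_E_sub y R₁ ρ).trans ?_) Subset.rfl)
  intro w hw
  rw [mem_closedBall, dist_eq_norm] at hw ⊢
  have := pvnf_grid_near hd hrw hy
  exact (pvtp_tri w y z).trans (by linarith)

/-- **THE COST OF F2**, filter form, uniform in the centre: `#grid × (C (2d / (e/2-d))^(2+c) ((e/2-d)/R₁)^c + δ)` -/
theorem pvnf_F2_small : ∃ c C M₀ : ℝ, 0 < c ∧ 0 ≤ C ∧ 1 ≤ M₀ ∧ ∀ rw d e R₁ ρ δ : ℝ, 0 < d → M₀ * (2 * d) ≤ e / 2 - d → e / 2 - d ≤ R₁ → 0 < ρ → 0 < δ →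
    ∀ᶠ ε in 𝓝[>] (0 : ℝ), ∀ z : ℂ, pvP ε (pvnfF2 z rw d e R₁ ρ) ≤ pvnfCard rw d * ENNReal.ofReal (C * (2 * d / (e / 2 - d)) ^ (2 + c) * ((e / 2 - d) / R₁) ^ c + δ) := by
  obtain ⟨c, C, M₀, hc, hC, hM, hmain⟩ := pvnf_test_small
  refine ⟨c, C, M₀, hc, hC, hM, fun rw d e R₁ ρ δ hd h1 h2 hρ hδ => ?_⟩
  filter_upwards [hmain (2 * d) (e / 2 - d) R₁ ρ δ (by linarith) h1 h2 hρ hδ] with ε hε z
  unfold pvnfF2
  calc pvP ε (⋃ y ∈ pvnfGrid z rw d, pvnfTest y (2 * d) (e / 2 - d) R₁ ρ) ≤ ∑ y ∈ pvnfGrid z rw d, pvP ε (pvnfTest y (2 * d) (e / 2 - d) R₁ ρ) := measure_biUnion_finset_le _ _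
    _ ≤ ∑ _y ∈ pvnfGrid z rw d, ENNReal.ofReal (C * (2 * d / (e / 2 - d)) ^ (2 + c) * ((e / 2 - d) / R₁) ^ c + δ) := Finset.sum_le_sum fun y _ => hε y
    _ = (pvnfGrid z rw d).card * ENNReal.ofReal (C * (2 * d / (e / 2 - d)) ^ (2 + c) * ((e / 2 - d) / R₁) ^ c + δ) := by rw [Finset.sum_const, nsmul_eq_mul]
    _ ≤ pvnfCard rw d * ENNReal.ofReal (C * (2 * d / (e / 2 - d)) ^ (2 + c) * ((e / 2 - d) / R₁) ^ c + δ) := by
        gcongr
        exact pvnf_grid_card z rw d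

/-! ## 5. the consumer form: units of `h m`, centres `l9Pt (h m) p`, windows `pvtdWin` (fields `reads`, `small` of `PvxpFlag`, `Exit/Pins`), numbers -/

/-- **F2 AS A STATIC LOCAL FLAG**: level `(d,e)`, window `rw`, local radius `R₁` in units of `h m`; density scale `μ m` (absolute) -/
def pvnfFlag (h μ : ℕ → ℝ) (rw d e R₁ : ℝ) (m : ℕ) (p : ℤ × ℤ) : Set (Conf PvPt) := pvnfF2 (l9Pt (h m) p) (rw * h m) (d * h m) (e * h m) (R₁ * h m) (μ m)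

/-- the cost per test, in units of `h` -/
noncomputable def pvnfA (c C d e R₁ : ℝ) : ℝ := C * (2 * d / (e / 2 - d)) ^ (2 + c) * ((e / 2 - d) / R₁) ^ c

theorem pvnf_eqns_cite5 : True := by
  have := @pvnfFlag.eq_1; have := @pvnfA.eq_1
  trivial

theorem pvnf_l9Pt (h : ℝ) (p : ℤ × ℤ) : l9Pt h p = pv5Ctr h p := by
  unfold l9Pt pv5Ctr
  rw [mul_comm, mul_comm (p.2 : ℝ)]

/-- field `reads` -/
theorem pvnf_flag_reads {h μ : ℕ → ℝ} {rw d e R₁ : ℝ} {w : ℕ} (hh : ∀ m, 0 < h m) (hμ : ∀ m, 0 < μ m ∧ μ m ≤ h m) (hd : 0 < d) (hrw : 0 ≤ rw) (hdR : d ≤ 2 * R₁)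
    (hw : 2 * (rw + 2 * d) + 4 * R₁ + 5 ≤ w) (m : ℕ) (p : ℤ × ℤ) : Conf.ReadsSet (pvtdWin (h m) w p) (pvnfFlag h μ rw d e R₁ m p) := by
  have h1 := pvnf_F2_reads (l9Pt (h m) p) (e := e * h m) (mul_pos hd (hh m)) (mul_nonneg hrw (hh m).le) (hμ m).1 (show d * h m ≤ 2 * (R₁ * h m) by nlinarith [hh m])
  refine h1.mono ?_
  have h2 : pv5Dist (pv5Blk (h m) (l9Pt (h m) p)) p ≤ ((0 : ℕ) : ℤ) := by
    rw [pvnf_l9Pt, pvtd_blk_ctr (hh m), pv5_dist_self]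
    simp
  have h3 := pvtd_ball_sub_win (hh m) (a := w) (b := 0) h2 (ρ := 2 * (rw * h m + 2 * (d * h m)) + 4 * (R₁ * h m) + 5 * μ m) (by nlinarith [hh m, (hμ m).2])
  rwa [add_zero] at h3

theorem pvnf_card_scale {rw d t : ℝ} (ht : 0 < t) : pvnfCard (rw * t) (d * t) = pvnfCard rw d := by
  unfold pvnfCard
  rw [mul_div_mul_right _ _ ht.ne']

theorem pvnf_A_scale (c C d e R₁ : ℝ) {t : ℝ} (ht : 0 < t) : pvnfA c C (d * t) (e * t) (R₁ * t) = pvnfA c C d e R₁ := by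
  unfold pvnfA
  have e1 : 2 * (d * t) / (e * t / 2 - d * t) = 2 * d / (e / 2 - d) := by
    rw [show 2 * (d * t) = 2 * d * t by ring, show e * t / 2 - d * t = (e / 2 - d) * t by ring, mul_div_mul_right _ _ ht.ne']
  have e2 : (e * t / 2 - d * t) / (R₁ * t) = (e / 2 - d) / R₁ := by
    rw [show e * t / 2 - d * t = (e / 2 - d) * t by ring, mul_div_mul_right _ _ ht.ne']
  rw [e1, e2]

/-- field `small` (at EVERY level `m`, uniformly over ALL centres) -/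
theorem pvnf_flag_small : ∃ c C M₀ : ℝ, 0 < c ∧ 0 ≤ C ∧ 1 ≤ M₀ ∧ ∀ (h μ : ℕ → ℝ) (rw d e R₁ δ : ℝ), (∀ m, 0 < h m) → (∀ m, 0 < μ m) → 0 < d → M₀ * (2 * d) ≤ e / 2 - d → e / 2 - d ≤ R₁ → 0 < δ →
    ∀ m, ∀ᶠ ε in 𝓝[>] (0 : ℝ), ∀ p, pvP ε (pvnfFlag h μ rw d e R₁ m p) ≤ ENNReal.ofReal (pvnfCard rw d * (pvnfA c C d e R₁ + δ)) := by
  obtain ⟨c, C, M₀, hc, hC, hM, hmain⟩ := pvnf_F2_small
  refine ⟨c, C, M₀, hc, hC, hM, fun h μ rw d e R₁ δ hh hμ hd h1 h2 hδ m => ?_⟩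
  have ht := hh m
  filter_upwards [hmain (rw * h m) (d * h m) (e * h m) (R₁ * h m) (μ m) δ (mul_pos hd ht) (by nlinarith) (by nlinarith) (hμ m) hδ] with ε hε p
  refine (hε (l9Pt (h m) p)).trans (le_of_eq ?_)
  have e0 : C * (2 * (d * h m) / (e * h m / 2 - d * h m)) ^ (2 + c) * ((e * h m / 2 - d * h m) / (R₁ * h m)) ^ c = pvnfA c C d e R₁ := pvnf_A_scale c C d e R₁ ht
  rw [e0, pvnf_card_scale ht, ENNReal.ofReal_mul (Nat.cast_nonneg _), ENNReal.ofReal_natCast]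

/-- **USE** in units of `h m` -/
theorem pvnf_flag_use {h μ : ℕ → ℝ} {rw d e R₁ R : ℝ} {x : ℂ} {m : ℕ} {p : ℤ × ℤ} {ω : PVSample} {P : PvbRim} (hP : P ∈ pvhbAll x R ω) (hh : 0 < h m) (hd : 0 < d) (hrw : 0 ≤ rw)
    (hde : 6 * d ≤ e) (heR : e / 2 - d ≤ R₁) (hRR : R₁ * h m ≤ R) (hz : ‖l9Pt (h m) p - x‖ + 2 * (rw + 2 * d) * h m ≤ 2 * R) (hno : pvConf ω ∉ pvnfFlag h μ rw d e R₁ m p) :
    PvtpNR P (l9Pt (h m) p) (rw * h m) (d * h m) (e * h m) :=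
  pvnf_F2_use hP (mul_pos hd hh) (mul_nonneg hrw hh.le) (by nlinarith) (by nlinarith) hRR (by nlinarith) hno

/-- **NUMBERS** (`P(F2) ≤ C b3² d^c e^(-2-c)`): at fixed `rw`, `e` the total cost tends to `0` with `d` -/
theorem pvnf_num {c C : ℝ} (hc : 0 < c) (hC : 0 ≤ C) {rw e ζ : ℝ} (hrw : 0 < rw) (he : 0 < e) (hζ : 0 < ζ) :
    ∀ᶠ d in 𝓝[>] (0 : ℝ), ∀ R₁, e / 2 - d ≤ R₁ → (pvnfCard rw d : ℝ) * pvnfA c C d e R₁ ≤ ζ := by
  set K : ℝ := 49 * rw ^ 2 * C * (36 / e ^ 2) with hK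
  have hcont : Continuous fun d : ℝ => K * (6 * d / e) ^ c := continuous_const.mul ((Real.continuous_rpow_const hc.le).comp (by fun_prop))
  have h0 : K * (6 * 0 / e) ^ c = 0 := by
    rw [mul_zero, zero_div, Real.zero_rpow hc.ne', mul_zero]
  have hev : ∀ᶠ d in 𝓝 (0 : ℝ), K * (6 * d / e) ^ c < ζ := by
    have := hcont.tendsto 0
    rw [h0] at this
    exact this.eventually (gt_mem_nhds hζ)
  have hsm : ∀ᶠ d in 𝓝 (0 : ℝ), d < min rw (e / 6) := gt_mem_nhds (lt_min hrw (by positivity))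
  filter_upwards [nhdsWithin_le_nhds hev, nhdsWithin_le_nhds hsm, self_mem_nhdsWithin] with d a1 a2 a3 R₁ hR
  have hd : 0 < d := a3
  have hdrw : d ≤ rw := (a2.trans_le (min_le_left _ _)).le
  have hde : d ≤ e / 6 := (a2.trans_le (min_le_right _ _)).le
  have hS : e / 3 ≤ e / 2 - d := by linarith
  have hSpos : 0 < e / 2 - d := by linarith
  have hR₁ : 0 < R₁ := lt_of_lt_of_le hSpos hR
  -- the number of tests
  have hcard : (pvnfCard rw d : ℝ) ≤ 49 * rw ^ 2 / d ^ 2 := by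
    unfold pvnfCard
    push_cast
    have h1 : (⌈rw / d⌉₊ : ℝ) ≤ rw / d + 1 := pvm_ceil_le (by positivity)
    have h2 : 1 ≤ rw / d := (one_le_div hd).2 hdrw
    have h3 : 2 * ((⌈rw / d⌉₊ : ℝ) + 1) + 1 ≤ 7 * (rw / d) := by linarith
    calc (2 * ((⌈rw / d⌉₊ : ℝ) + 1) + 1) ^ 2 ≤ (7 * (rw / d)) ^ 2 := pow_le_pow_left₀ (by positivity) h3 2
      _ = 49 * rw ^ 2 / d ^ 2 := by rw [mul_pow, div_pow]; ring
  -- the cost of a test
  have hx : 2 * d / (e / 2 - d) ≤ 6 * d / e := by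
    rw [div_le_div_iff₀ hSpos he]
    nlinarith
  have hx0 : 0 ≤ 2 * d / (e / 2 - d) := by positivity
  have hA : pvnfA c C d e R₁ ≤ C * (6 * d / e) ^ (2 + c) := by
    unfold pvnfA
    have b1 : (2 * d / (e / 2 - d)) ^ (2 + c) ≤ (6 * d / e) ^ (2 + c) := Real.rpow_le_rpow hx0 hx (by linarith)
    have b2 : ((e / 2 - d) / R₁) ^ c ≤ 1 := Real.rpow_le_one (by positivity) ((div_le_one hR₁).2 hR) hc.le
    calc C * (2 * d / (e / 2 - d)) ^ (2 + c) * ((e / 2 - d) / R₁) ^ c ≤ C * (6 * d / e) ^ (2 + c) * 1 :=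
          mul_le_mul (mul_le_mul_of_nonneg_left b1 hC) b2 (by positivity) (by positivity)
      _ = C * (6 * d / e) ^ (2 + c) := mul_one _
  have hA0 : 0 ≤ pvnfA c C d e R₁ := by unfold pvnfA; positivity
  have hsplit : (6 * d / e) ^ (2 + c) = 36 * d ^ 2 / e ^ 2 * (6 * d / e) ^ c := by
    rw [Real.rpow_add (by positivity), Real.rpow_two, div_pow, mul_pow]
    norm_num
  calc (pvnfCard rw d : ℝ) * pvnfA c C d e R₁ ≤ 49 * rw ^ 2 / d ^ 2 * (C * (6 * d / e) ^ (2 + c)) := mul_le_mul hcard hA hA0 (by positivity)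
    _ = K * (6 * d / e) ^ c := by
        rw [hsplit, hK]
        field_simp
    _ ≤ ζ := a1.le

end Claimed.Agent.R289
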