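import Claimed.Agent.R289.Tr.StKit
import Claimed.Agent.R289.Tr.Flag
import Claimed.Agent.R289.Tr.TipDel

/-!
# Row 289 (S0537, Cardy for Poisson-Voronoi), THE WALL, BRIDGES (head helper113), file Tr/BrLev : THE BRIDGE OF THE LEVELS      (owner helper288, post Y of helper82; prefix `pvjl_`)

v3 (10:58Z) = for `Tr/Defs` v3 of helper25 (10:42Z, FROZEN: `dsc`, `ins`, `core = dsc`, `Inmost = pvgnRule`, every ball centred at the grid centres `yp ym` of the tip cells, mouths `2 ρ h`).      New: `PvjlTip` (= clauses `tip_p tip_m`); the good level is `Good` for ALL centres of its tip cells.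
PARALLEL VOCABULARIES for "boxes `B_k`, stubs, tips, good level" (FIT_216 sec. W, line `levels`):
* `Tr/Level` + `Tr/Flag` (235, 16):   sup-norm radius `pvlvRad`, radius of a FACE `pvlvFR`, FACE boxes `pvlvBox T pos zc r`;   a stub = the strand `pvasIt T s d` up to `pvasHit T s d (pvlvBox ..)ᶜ` = the first position whose FACE
  is not in the box;   position of the strand = its BLACK END `pvlvZ`;   the backward stub = the strand of `pvasNot s` from `T.opp d`;   `PvlvGood`, `pvlv_good_exists` (pigeonhole), `PvflStub` (flag "many steps").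
* `Tr/Defs` v3 + `Tr/StKit` (216, 25) = THE DEFINITIONS OF RECORD:   squares `pvwSq z r`, radii `pvwRad N h τ k`;   `PvwSt.StubP / StubM pos B s` = positions `ep 0..np` up to the first position whose face is not in `B`;   backward stub = `(pvasBack T s)^[i] dm`;
  tips `xp xm` = MIDPOINTS of the last positions;   `PvwSt.GoodOut / GoodIn / Good` speak of the SITES of both banks.
* `Tr/TipDel` (23): `pvtzdSq` (`= pvwSq`).      (`pvwBox` of 25 is a draft which never landed.)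

THE DICTIONARY
* sec. 1  `pvjl_rad_le` (`pvlvRad z x ≤ r ↔ x ∈ pvwSq z r`), `pvjl_mem_box` (a face is in the face box iff its three vertices lie in the square), `pvjl_sq_tzd`, squares against discs, `pvjl_rad_level` (`pvwRad N h τ k = r₀ + k ρ₁`)
* sec. 2  edge exit against face exit for any strand (`pvjl_ends_iff`, `pvjl_hit`: they differ by ONE step);   **THE STOPPING RULE OF RECORD IS THE ONE OF `Tr/Level`**: `pvjl_stub_np : 𝔖.np = pvasHit T s 𝔖.dp (pvlvBox T pos z r)ᶜ`, `pvjl_stub_nm`, `pvjl_em_opp`;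
          `pvjl_stub_of_exit` (stubs of record from exits of the face box), `pvjl_stub_lvexit_p/m` (`PvlvExit`)
* sec. 3  positions: sites and midpoints against black ends (`pvjl_mid_Z`, `pvjl_W_Z`), `pvjl_H_lip` (mesh at ONE face), walks which agree up to a time (`pvjl_cnt_congr`)
* sec. 4  `pvjl_late` : `PvlvGood.ret` ⟹ the clause `late` of `GoodOut / GoodIn`;   `pvjl_far` : `PvlvGood.off` ⟹ the banks of the other stub miss the mouth;   `pvjl_far_core`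
* sec. 5  `PvjlOff` (what the pigeonhole does NOT give: the two tips apart, the stubs do not return into the gate), `pvjl_good_of_lv` (ONE level: `PvlvGood` + `PvjlOff` ⟹ `PvwSt.Good`),
          **`pvjl_good_level`** = (H4) IN THE VOCABULARY OF RECORD: few steps + `PvjlOff` at every level ⟹ some level `k < K` carries stubs of record with `PvwSt.Good`.      MESH IS ASKED ONLY AT THE FACES VISITED UP TO THE EXIT OF THE LARGEST BOX
          (`pvlv_strand_good` asks it at all times: the walks are stopped here).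
* sec. 6  `pvjl_cnt_lt`, `pvjl_good_level_flag` (few steps = `¬ PvflStub` of `Tr/Flag` for `s` and for `pvasNot s`);   `pvjl_gate_congr`, `pvjl_inmost_congr` (the gate is read from the gate data and `(a, b, o)`), `pvjl_gate_in`,
          **`pvjl_at_level`** : innermost gate + (H4) ⟹ for some `k < K ≤ N.K + 1`: `𝔖.At pos N h z (τ.pvjlAt k yp ym) s` for all `yp ym` with `PvjlTip 𝔖 pos (ρ h / 4) (z + h yp) (z + h ym)`.
NUMBERS asked: `5 δ ≤ ρ₁ h`,   `2 ρ h ≤ ρ₁ h / 2`,   `2a + δ + ρ h / 4 ≤ ρ₂ h`,   `b h + 2 ρ h + δ + ρ h / 4 ≤ 2 b₂ h`   (`a` = size of a step, `δ` = mesh),   `2 n ≤ K + 1` (`n` = threshold of the flag);   flag `PvjlOff` with `c = 2a + ρ₁ h / 2 + 2δ + ρ h / 4`.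
-/

set_option autoImplicit false
set_option linter.unusedSectionVars false
set_option linter.unusedVariables false

namespace Claimed.Agent.R289

open Set

variable {V D : Type} {T : PvMap V D} {pos : V → ℂ} {s : V → Bool} {z x : ℂ} {r r' : ℝ} {d : D}

/-! ## 1. squares, sup-norm radius, face boxes -/

theorem pvjl_rad_le : pvlvRad z x ≤ r ↔ x ∈ pvwSq z r := max_le_iff

theorem pvjl_FR_le : pvlvFR T pos z d ≤ r ↔ pos (T.src d) ∈ pvwSq z r ∧ pos (T.tgt d) ∈ pvwSq z r ∧ pos (T.apex d) ∈ pvwSq z r := by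
  unfold pvlvFR
  rw [max_le_iff, max_le_iff, pvjl_rad_le, pvjl_rad_le, pvjl_rad_le, and_assoc]

/-- a face lies in the face box iff its three vertices lie in the square -/
theorem pvjl_mem_box : d ∈ pvlvBox T pos z r ↔ pos (T.src d) ∈ pvwSq z r ∧ pos (T.tgt d) ∈ pvwSq z r ∧ pos (T.apex d) ∈ pvwSq z r := pvjl_FR_le

theorem pvjl_sq_tzd (z : ℂ) (r : ℝ) : pvtzdSq z r = pvwSq z r := rfl

theorem pvjl_sq_mono (h : r ≤ r') : pvwSq z r ⊆ pvwSq z r' := fun _ hw => ⟨hw.1.trans h, hw.2.trans h⟩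

theorem pvjl_rad_le_norm (z x : ℂ) : pvlvRad z x ≤ ‖x - z‖ := max_le (Complex.abs_re_le_norm _) (Complex.abs_im_le_norm _)

theorem pvjl_norm_le_rad (z x : ℂ) : ‖x - z‖ ≤ 2 * pvlvRad z x := by
  have h1 := Complex.norm_le_abs_re_add_abs_im (x - z)
  have h2 : |(x - z).re| ≤ pvlvRad z x := le_max_left _ _
  have h3 : |(x - z).im| ≤ pvlvRad z x := le_max_right _ _
  linarith

theorem pvjl_ball_sub_sq (z : ℂ) (r : ℝ) : Metric.closedBall z r ⊆ pvwSq z r := fun w hw => by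
  rw [Metric.mem_closedBall, dist_eq_norm] at hw
  exact pvjl_rad_le.1 ((pvjl_rad_le_norm z w).trans hw)

theorem pvjl_sq_sub_ball (z : ℂ) (r : ℝ) : pvwSq z r ⊆ Metric.closedBall z (2 * r) := fun w hw => by
  rw [Metric.mem_closedBall, dist_eq_norm]
  have := pvjl_rad_le.2 hw
  linarith [pvjl_norm_le_rad z w]

/-- the radii of record are the arithmetic progression of `Tr/Level` -/
theorem pvjl_rad_level (N : PvwNum) (h : ℝ) (τ : PvwTy) (k : ℕ) : pvwRad N h τ k = 2 * τ.b2 * h + k * (N.rho1 * h) := by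
  unfold pvwRad; ring

theorem pvjl_rad_mono (N : PvwNum) {h : ℝ} (h0 : 0 ≤ N.rho1 * h) (τ : PvwTy) {k k' : ℕ} (hk : k ≤ k') : pvwRad N h τ k ≤ pvwRad N h τ k' := by
  rw [pvjl_rad_level, pvjl_rad_level]
  have : (k : ℝ) ≤ k' := by exact_mod_cast hk
  nlinarith

/-! ## 2. the stopping rules -/

/-- both ends of the position `d` lie in `B` (the clause of `PvwSt.Stub`) -/
def PvjlIn (T : PvMap V D) (pos : V → ℂ) (B : Set ℂ) (d : D) : Prop := pos (T.src d) ∈ B ∧ pos (T.tgt d) ∈ B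

theorem pvjl_eqns_cite : True := by
  have := @PvjlIn.eq_1
  trivial

theorem pvjl_in_opp {B : Set ℂ} : PvjlIn T pos B (T.opp d) ↔ PvjlIn T pos B d := by
  unfold PvjlIn
  rw [T.src_opp', T.tgt_opp, and_comm]

/-- a face of the box: the present position and the next one have their ends in the square -/
theorem pvjl_box_in (h : d ∈ pvlvBox T pos z r) : PvjlIn T pos (pvwSq z r) d ∧ PvjlIn T pos (pvwSq z r) (pvasStep T s d) := by
  obtain ⟨h1, h2, h3⟩ := pvjl_mem_box.1 h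
  refine ⟨⟨h1, h2⟩, ?_⟩
  rcases pvas_step_ends s d with ⟨-, e1, e2⟩ | ⟨-, e1, e2⟩
  · exact ⟨by rw [e1]; exact h3, by rw [e2]; exact h2⟩
  · exact ⟨by rw [e1]; exact h1, by rw [e2]; exact h3⟩

/-- conversely -/
theorem pvjl_in_box (h : PvjlIn T pos (pvwSq z r) d) (h' : PvjlIn T pos (pvwSq z r) (pvasStep T s d)) : d ∈ pvlvBox T pos z r := by
  refine pvjl_mem_box.2 ⟨h.1, h.2, ?_⟩
  rcases pvas_step_ends s d with ⟨-, e1, e2⟩ | ⟨-, e1, e2⟩
  · rw [← e1]; exact h'.1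
  · rw [← e2]; exact h'.2

/-- **the positions `0..n` have their ends in the square iff the first one has and the faces of the positions `0..n-1` are faces of the box** -/
theorem pvjl_ends_iff (n : ℕ) : (∀ i, i ≤ n → PvjlIn T pos (pvwSq z r) (pvasIt T s d i)) ↔ PvjlIn T pos (pvwSq z r) d ∧ ∀ i, i < n → pvasIt T s d i ∈ pvlvBox T pos z r := by
  constructor
  · intro h
    refine ⟨h 0 (Nat.zero_le _), fun i hi => pvjl_in_box (s := s) (h i hi.le) ?_⟩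
    rw [← pvas_it_succ]
    exact h (i + 1) hi
  · rintro ⟨h0, h⟩ i hi
    rcases Nat.eq_zero_or_pos i with rfl | hpos
    · exact h0
    · obtain ⟨u, rfl⟩ : ∃ u, i = u + 1 := ⟨i - 1, by omega⟩
      rw [pvas_it_succ]
      exact (pvjl_box_in (h u (by omega))).2

/-- **EXIT TIMES**: the first position with an end outside the square is number `n + 1` iff the first face outside the face box is number `n` -/
theorem pvjl_hit {n : ℕ} (hin : ∀ i, i < n + 1 → PvjlIn T pos (pvwSq z r) (pvasIt T s d i)) (hout : ¬ PvjlIn T pos (pvwSq z r) (pvasIt T s d (n + 1))) :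
    pvasHit T s d (pvlvBox T pos z r)ᶜ = n := by
  have h1 := (pvjl_ends_iff (s := s) (d := d) (z := z) (r := r) (pos := pos) n).1 fun i hi => hin i (by omega)
  refine pvas_hit_eq (fun hb => hout ?_) fun i hi => not_not.2 (h1.2 i hi)
  rw [pvas_it_succ]
  exact (pvjl_box_in hb).2

/-- the face exit gives the edge exit -/
theorem pvjl_exit_of_box (h : ∃ t, pvasIt T s d t ∉ pvlvBox T pos z r) : ∃ n, ¬ PvjlIn T pos (pvwSq z r) (pvasIt T s d n) := by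
  obtain ⟨t, ht⟩ := h
  by_contra hcon
  rw [not_exists] at hcon
  refine ht (pvjl_in_box (s := s) (not_not.1 (hcon t)) ?_)
  rw [← pvas_it_succ]
  exact not_not.1 (hcon (t + 1))

section stub

variable {𝔖 : PvwSt T}

/-- the positions of the entrance stub, read on the opposite darts, are the strand of the exchanged colouring -/
theorem pvjl_em_opp {B : Set ℂ} (h : 𝔖.StubM pos B s) {i : ℕ} (hi : i ≤ 𝔖.nm) : T.opp (𝔖.em i) = pvasIt T (pvasNot s) (T.opp 𝔖.dm) i := by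
  rw [h.em_it i hi, pvwk_back_it, T.opp_opp]

/-- **EXIT STUB**: `np` = the first exit of the face box -/
theorem pvjl_stub_np (h : 𝔖.StubP pos (pvwSq z r) s) : 𝔖.np = pvasHit T s 𝔖.dp (pvlvBox T pos z r)ᶜ := by
  refine (pvas_hit_eq (Z := (pvlvBox T pos z r)ᶜ) (n := 𝔖.np) (fun hb => h.ep_out ?_) fun i hi => not_not.2 ?_).symm
  · rw [← h.ep_it _ le_rfl] at hb
    exact (pvjl_mem_box.1 hb).2.2
  · rw [← h.ep_it i hi.le]
    exact pvjl_mem_box.2 ⟨(h.ep_in i hi.le).1, (h.ep_in i hi.le).2, h.ep_ax i hi⟩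

/-- **ENTRANCE STUB**: `nm` = the first exit of the face box by the strand of the exchanged colouring from `opp dm` -/
theorem pvjl_stub_nm (h : 𝔖.StubM pos (pvwSq z r) s) : 𝔖.nm = pvasHit T (pvasNot s) (T.opp 𝔖.dm) (pvlvBox T pos z r)ᶜ := by
  refine (pvas_hit_eq (Z := (pvlvBox T pos z r)ᶜ) (n := 𝔖.nm) (fun hb => h.em_out ?_) fun i hi => not_not.2 ?_).symm
  · rw [← pvjl_em_opp h le_rfl] at hb
    exact (pvjl_mem_box.1 hb).2.2
  · rw [← pvjl_em_opp h hi.le]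
    refine pvjl_mem_box.2 ⟨?_, ?_, h.em_ax i hi⟩
    · rw [T.src_opp']; exact (h.em_in i hi.le).2
    · rw [T.tgt_opp]; exact (h.em_in i hi.le).1

/-- the strand of the exit stub leaves the face box -/
theorem pvjl_stub_exit_p (h : 𝔖.StubP pos (pvwSq z r) s) : ∃ t, pvasIt T s 𝔖.dp t ∉ pvlvBox T pos z r := by
  refine ⟨𝔖.np, fun hb => h.ep_out ?_⟩
  rw [← h.ep_it _ le_rfl] at hb
  exact (pvjl_mem_box.1 hb).2.2

theorem pvjl_stub_exit_m (h : 𝔖.StubM pos (pvwSq z r) s) : ∃ t, pvasIt T (pvasNot s) (T.opp 𝔖.dm) t ∉ pvlvBox T pos z r := by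
  refine ⟨𝔖.nm, fun hb => h.em_out ?_⟩
  rw [← pvjl_em_opp h le_rfl] at hb
  exact (pvjl_mem_box.1 hb).2.2

/-- the tip of level `r` in the sense of `Tr/Level` -/
theorem pvjl_stub_lvexit_p (h : 𝔖.StubP pos (pvwSq z r) s) : PvlvExit (pvlvH T pos z s 𝔖.dp) r 𝔖.np := by
  have := pvlv_exit_hit (pvjl_stub_exit_p h)
  rwa [← pvjl_stub_np h] at this

theorem pvjl_stub_lvexit_m (h : 𝔖.StubM pos (pvwSq z r) s) : PvlvExit (pvlvH T pos z (pvasNot s) (T.opp 𝔖.dm)) r 𝔖.nm := by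
  have := pvlv_exit_hit (pvjl_stub_exit_m h)
  rwa [← pvjl_stub_nm h] at this

end stub

/-- a strand which starts with both ends in the square and leaves the face box meets an apex outside the square -/
theorem pvjl_apex_of_exit (h0 : PvjlIn T pos (pvwSq z r) d) (h : ∃ t, pvasIt T s d t ∉ pvlvBox T pos z r) : ∃ n, pos (T.apex (pvasIt T s d n)) ∉ pvwSq z r := by
  obtain ⟨t, ht⟩ := h
  by_contra hcon
  rw [not_exists] at hcon
  have h1 := pvwk_it_in (s := s) (n := t) h0 (fun i _ => not_not.1 (hcon i)) t le_rfl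
  exact ht (pvjl_mem_box.2 ⟨h1.1, h1.2, not_not.1 (hcon t)⟩)

/-- **the stubs of record exist as soon as the two strands of `Tr/Level` leave the face box** (gate data arbitrary, gate edges in the square) -/
theorem pvjl_stub_of_exit (C : Set V) (S : T.Cyc) (dp dm : D) (inn : T.Pth) (ip : ℕ) (hdp : PvjlIn T pos (pvwSq z r) dp) (hdm : PvjlIn T pos (pvwSq z r) dm)
    (hp : ∃ t, pvasIt T s dp t ∉ pvlvBox T pos z r) (hm : ∃ t, pvasIt T (pvasNot s) (T.opp dm) t ∉ pvlvBox T pos z r) :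
    ∃ 𝔖 : PvwSt T, 𝔖.dsc = C ∧ 𝔖.S = S ∧ 𝔖.dp = dp ∧ 𝔖.dm = dm ∧ 𝔖.inn = inn ∧ 𝔖.ip = ip ∧ 𝔖.Stub pos (pvwSq z r) s := by
  refine pvwk_stub_exists C S dp dm inn ip hdp hdm (pvjl_apex_of_exit hdp hp) ?_
  obtain ⟨n, hn⟩ := pvjl_apex_of_exit (pvjl_in_opp.2 hdm) hm
  refine ⟨n, ?_⟩
  rw [pvwk_back_it, T.opp_opp]
  exact hn

/-! ## 3. positions: sites and midpoints against black ends; walks which agree up to a time -/

/-- the midpoint of the edge of the position number `i` of the strand -/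
noncomputable def pvjlM (T : PvMap V D) (pos : V → ℂ) (s : V → Bool) (d : D) (i : ℕ) : ℂ := (pos (T.src (pvasIt T s d i)) + pos (T.tgt (pvasIt T s d i))) / 2

/-- MESH at the face of the dart `d`: the two edges at its source are `≤ δ` (the hypothesis `hδ` of `Tr/Level`, at ONE face) -/
def PvjlMesh (T : PvMap V D) (pos : V → ℂ) (δ : ℝ) (d : D) : Prop := dist (pos (T.tgt d)) (pos (T.src d)) ≤ δ ∧ dist (pos (T.apex d)) (pos (T.src d)) ≤ δ

theorem pvjl_eqns_cite2 : True := by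
  have := @pvjlM.eq_1; have := @PvjlMesh.eq_1
  trivial

theorem pvjl_half_dist (p q c : ℂ) : dist ((p + q) / 2) c ≤ (dist p c + dist q c) / 2 := by
  rw [dist_eq_norm, dist_eq_norm, dist_eq_norm]
  have e : (p + q) / 2 - c = ((p - c) + (q - c)) / 2 := by ring
  rw [e, norm_div]
  have h2 : ‖(2 : ℂ)‖ = 2 := by simp
  rw [h2]
  have := norm_add_le (p - c) (q - c)
  linarith

/-- the midpoint is within `δ/2` of the black end -/
theorem pvjl_mid_Z {δ : ℝ} {i : ℕ} (h : PvjlMesh T pos δ (pvasIt T s d i)) : dist (pvjlM T pos s d i) (pvlvZ T pos s d i) ≤ δ / 2 := by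
  have := pvjl_half_dist (pos (T.src (pvasIt T s d i))) (pos (T.tgt (pvasIt T s d i))) (pos (T.src (pvasIt T s d i)))
  rw [dist_self] at this
  have h1 := h.1
  unfold pvjlM pvlvZ
  linarith

/-- the NEXT midpoint is within `δ` of the black end -/
theorem pvjl_mid_succ {δ : ℝ} {i : ℕ} (h0 : 0 ≤ δ) (h : PvjlMesh T pos δ (pvasIt T s d i)) : dist (pvjlM T pos s d (i + 1)) (pvlvZ T pos s d i) ≤ δ := by
  have h1 := h.1
  have h2 := h.2
  unfold pvjlM pvlvZ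
  rw [pvas_it_succ]
  rcases pvas_step_ends s (pvasIt T s d i) with ⟨-, e1, e2⟩ | ⟨-, e1, e2⟩
  · rw [e1, e2]
    have := pvjl_half_dist (pos (T.apex (pvasIt T s d i))) (pos (T.tgt (pvasIt T s d i))) (pos (T.src (pvasIt T s d i)))
    linarith
  · rw [e1, e2]
    have := pvjl_half_dist (pos (T.src (pvasIt T s d i))) (pos (T.apex (pvasIt T s d i))) (pos (T.src (pvasIt T s d i)))
    rw [dist_self] at this
    linarith

/-- height against position, mesh at ONE face (local form of `pvlv_H_lip`) -/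
theorem pvjl_H_lip {s' : V → Bool} {d' : D} {δ : ℝ} {t : ℕ} (hδ : PvjlMesh T pos δ (pvasIt T s d t)) (h0 : 0 ≤ δ) (u : ℕ) :
    pvlvH T pos z s d t ≤ pvlvH T pos z s' d' u + dist (pvlvZ T pos s d t) (pvlvZ T pos s' d' u) + δ := by
  have hZ : pvlvRad z (pvlvZ T pos s' d' u) ≤ pvlvH T pos z s' d' u := le_trans (le_max_left _ _) (le_max_left _ _)
  have key : ∀ x : ℂ, dist x (pvlvZ T pos s d t) ≤ δ → pvlvRad z x ≤ pvlvH T pos z s' d' u + dist (pvlvZ T pos s d t) (pvlvZ T pos s' d' u) + δ := by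
    intro x hx
    have h1 := pvlv_rad_lip z x (pvlvZ T pos s' d' u)
    have h2 := dist_triangle x (pvlvZ T pos s d t) (pvlvZ T pos s' d' u)
    linarith
  unfold pvlvH pvlvFR
  refine max_le (max_le ?_ ?_) ?_
  · exact key _ (by rw [show pos (T.src (pvasIt T s d t)) = pvlvZ T pos s d t from rfl, dist_self]; exact h0)
  · exact key _ hδ.1
  · exact key _ hδ.2

section walk

variable {E : Type} [PseudoMetricSpace E] {w w' : ℕ → E} {a : ℝ}

/-- two walks which agree up to time `n` have the same anchors up to time `n` -/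
theorem pvjl_anc_congr {n : ℕ} (h : ∀ t, t ≤ n → w t = w' t) : ∀ t, t ≤ n → pvlvAnc w a t = pvlvAnc w' a t := by
  intro t
  induction t with
  | zero => intro _; rfl
  | succ t ih =>
    intro ht
    have e := ih (by omega)
    rw [pvlv_anc_succ, pvlv_anc_succ, ← e, h (t + 1) ht, h (pvlvAnc w a t) ((pvlv_anc_le t).trans (by omega))]

theorem pvjl_step_congr {n : ℕ} (h : ∀ t, t ≤ n → w t = w' t) {t : ℕ} (ht : t ≤ n) : pvlvStep w a t ↔ pvlvStep w' a t := by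
  rcases Nat.eq_zero_or_pos t with rfl | hpos
  · exact ⟨fun h' => absurd (pvlv_step_pos h') (lt_irrefl 0), fun h' => absurd (pvlv_step_pos h') (lt_irrefl 0)⟩
  · obtain ⟨u, rfl⟩ : ∃ u, t = u + 1 := ⟨t - 1, by omega⟩
    rw [pvlv_step_succ, pvlv_step_succ, ← pvjl_anc_congr (a := a) h u (by omega), h (u + 1) ht, h (pvlvAnc w a u) ((pvlv_anc_le u).trans (by omega))]

/-- the number of steps up to time `n` is read from the walk up to time `n` -/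
theorem pvjl_cnt_congr {n : ℕ} (h : ∀ t, t ≤ n → w t = w' t) : pvlvCnt w a n = pvlvCnt w' a n := by
  classical
  unfold pvlvCnt pvlvSteps
  congr 1
  refine Finset.filter_congr fun t ht => ?_
  exact pvjl_step_congr h (by have := Finset.mem_range.1 ht; omega)

end walk

/-! ## 4. the clauses `late`, `far` of the good level of record      (v3: every ball is centred at a point `y` within `η` of the black end of the tip position) -/

/-- **`PvlvGood.ret` ⟹ `late`** (form of `GoodOut`: the SITES of both banks against the centre `y` of the tip cell; `n` = the last position = first exit of the face box) -/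
theorem pvjl_late {δ η ρ1 ρ2 ρm ρ2' : ℝ} {n : ℕ} {y : ℂ} (hδ : ∀ t, t ≤ n → PvjlMesh T pos δ (pvasIt T s d t)) (hy : dist y (pvlvZ T pos s d n) ≤ η)
    (hret : ∀ u, u ≤ n → dist (pvlvZ T pos s d u) (pvlvZ T pos s d n) ≤ ρm → ∀ t, u ≤ t → t ≤ n → dist (pvlvZ T pos s d t) (pvlvZ T pos s d n) < ρ2')
    (h1 : ρ1 + δ + η ≤ ρm) (h2 : ρ2' + δ + η ≤ ρ2) (h3 : η ≤ ρ1) :
    ∃ i₀, i₀ ≤ n ∧ (∀ i, i₀ ≤ i → i ≤ n → ‖pos (T.src (pvasIt T s d i)) - y‖ < ρ2 ∧ ‖pos (T.tgt (pvasIt T s d i)) - y‖ < ρ2) ∧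
      ∀ i, i < i₀ → ρ1 < ‖pos (T.src (pvasIt T s d i)) - y‖ ∧ ρ1 < ‖pos (T.tgt (pvasIt T s d i)) - y‖ := by
  classical
  have htip := hy
  have hδ0 : 0 ≤ δ := dist_nonneg.trans (hδ n le_rfl).1
  have hZ : ∀ i, pos (T.src (pvasIt T s d i)) = pvlvZ T pos s d i := fun _ => rfl
  have hex : ∃ i, ‖pos (T.src (pvasIt T s d i)) - y‖ ≤ ρ1 ∨ ‖pos (T.tgt (pvasIt T s d i)) - y‖ ≤ ρ1 :=
    ⟨n, Or.inl (by rw [← dist_eq_norm, hZ, dist_comm]; linarith)⟩
  have hle : Nat.find hex ≤ n := Nat.find_min' hex (Or.inl (by rw [← dist_eq_norm, hZ, dist_comm]; linarith))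
  refine ⟨Nat.find hex, hle, ?_, fun i hi => ?_⟩
  · intro i hi1 hi2
    have b1 : dist (pvlvZ T pos s d (Nat.find hex)) (pvlvZ T pos s d n) ≤ ρm := by
      rcases Nat.find_spec hex with hs | hs
      · rw [← dist_eq_norm, hZ] at hs
        have t1 := dist_triangle (pvlvZ T pos s d (Nat.find hex)) y (pvlvZ T pos s d n)
        linarith
      · rw [← dist_eq_norm] at hs
        have t0 := (hδ _ hle).1
        rw [hZ, dist_comm] at t0
        have t1 := dist_triangle (pvlvZ T pos s d (Nat.find hex)) (pos (T.tgt (pvasIt T s d (Nat.find hex)))) (pvlvZ T pos s d n)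
        have t2 := dist_triangle (pos (T.tgt (pvasIt T s d (Nat.find hex)))) y (pvlvZ T pos s d n)
        linarith
    have b2 := hret _ hle b1 i hi1 hi2
    rw [dist_comm] at htip
    constructor
    · rw [← dist_eq_norm, hZ]
      have t3 := dist_triangle (pvlvZ T pos s d i) (pvlvZ T pos s d n) y
      linarith
    · rw [← dist_eq_norm]
      have t0 := (hδ _ hi2).1
      rw [hZ] at t0
      have t3 := dist_triangle (pos (T.tgt (pvasIt T s d i))) (pvlvZ T pos s d i) y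
      have t4 := dist_triangle (pvlvZ T pos s d i) (pvlvZ T pos s d n) y
      linarith
  · have := Nat.find_min hex hi
    rw [not_or, not_le, not_le] at this
    exact this

/-- **`PvlvGood.off` ⟹ the two banks of the other stub miss the mouth** -/
theorem pvjl_far {s' : V → Bool} {d' : D} {δ η ρ ρm : ℝ} {n i : ℕ} {y : ℂ} (hy : dist y (pvlvZ T pos s d n) ≤ η) (hδ' : PvjlMesh T pos δ (pvasIt T s' d' i))
    (hoff : ρm < dist (pvlvZ T pos s' d' i) (pvlvZ T pos s d n)) (h1 : ρ + δ + η ≤ ρm) :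
    ρ < ‖pos (T.src (pvasIt T s' d' i)) - y‖ ∧ ρ < ‖pos (T.tgt (pvasIt T s' d' i)) - y‖ := by
  have hδ0 : 0 ≤ δ := dist_nonneg.trans hδ'.1
  have hZ : pos (T.src (pvasIt T s' d' i)) = pvlvZ T pos s' d' i := rfl
  constructor
  · rw [← dist_eq_norm, hZ]
    have t1 := dist_triangle (pvlvZ T pos s' d' i) y (pvlvZ T pos s d n)
    linarith
  · rw [← dist_eq_norm]
    have t0 := hδ'.1
    rw [hZ, dist_comm] at t0
    have t1 := dist_triangle (pvlvZ T pos s' d' i) (pos (T.tgt (pvasIt T s' d' i))) (pvlvZ T pos s d n)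
    have t2 := dist_triangle (pos (T.tgt (pvasIt T s' d' i))) y (pvlvZ T pos s d n)
    linarith

/-- the centre of the tip cell lies within `δ + η` of the outside of the square -/
theorem pvjl_tip_rad {δ η : ℝ} {n : ℕ} {y : ℂ} (hδ : PvjlMesh T pos δ (pvasIt T s d n)) (hy : dist y (pvlvZ T pos s d n) ≤ η) (hout : pos (T.apex (pvasIt T s d n)) ∉ pvwSq z r) : r - δ - η < ‖y - z‖ := by
  have h1 : r < pvlvRad z (pos (T.apex (pvasIt T s d n))) := not_le.1 fun h => hout (pvjl_rad_le.1 h)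
  have h2 := pvlv_rad_lip z (pos (T.apex (pvasIt T s d n))) y
  have h3 := pvjl_rad_le_norm z y
  have h6 := dist_triangle (pos (T.apex (pvasIt T s d n))) (pvlvZ T pos s d n) y
  rw [dist_comm (pvlvZ T pos s d n) y] at h6
  have h7 : dist (pos (T.apex (pvasIt T s d n))) (pvlvZ T pos s d n) ≤ δ := hδ.2
  linarith

/-- the sites within `β` of the centre miss the mouth -/
theorem pvjl_far_core {δ η ρ β : ℝ} {n : ℕ} {y : ℂ} (hδ : PvjlMesh T pos δ (pvasIt T s d n)) (hy : dist y (pvlvZ T pos s d n) ≤ η) (hout : pos (T.apex (pvasIt T s d n)) ∉ pvwSq z r) (hβ : β + ρ + δ + η ≤ r)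
    {p : ℂ} (hp : ‖p - z‖ ≤ β) : ρ < ‖p - y‖ := by
  have h1 := pvjl_tip_rad hδ hy hout
  have h2 : ‖y - z‖ ≤ ‖y - p‖ + ‖p - z‖ := by
    have : y - z = (y - p) + (p - z) := by ring
    rw [this]; exact norm_add_le _ _
  rw [norm_sub_rev p]
  linarith

section stub

variable {𝔖 : PvwSt T} {B : Set ℂ}

theorem pvjl_xp (h : 𝔖.StubP pos B s) : 𝔖.xp pos = pvjlM T pos s 𝔖.dp 𝔖.np := by
  unfold PvwSt.xp PvwSt.mid pvjlM
  rw [h.ep_it _ le_rfl]

theorem pvjl_xm (h : 𝔖.StubM pos B s) : 𝔖.xm pos = pvjlM T pos (pvasNot s) (T.opp 𝔖.dm) 𝔖.nm := by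
  unfold PvwSt.xm PvwSt.mid pvjlM
  rw [← pvjl_em_opp h le_rfl, T.src_opp', T.tgt_opp, add_comm]

theorem pvjl_em_src (h : 𝔖.StubM pos B s) {i : ℕ} (hi : i ≤ 𝔖.nm) : T.src (𝔖.em i) = T.tgt (pvasIt T (pvasNot s) (T.opp 𝔖.dm) i) := by
  rw [← pvjl_em_opp h hi, T.tgt_opp]

theorem pvjl_em_tgt (h : 𝔖.StubM pos B s) {i : ℕ} (hi : i ≤ 𝔖.nm) : T.tgt (𝔖.em i) = T.src (pvasIt T (pvasNot s) (T.opp 𝔖.dm) i) := by
  rw [← pvjl_em_opp h hi, T.src_opp']

end stub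

/-! ## 5. (H4) in the vocabulary of record -/

/-- **what the pigeonhole does NOT give** (FLAGS): the two tips are `c` apart;   the stubs do not return into the gate -/
structure PvjlOff (𝔖 : PvwSt T) (pos : V → ℂ) (c : ℝ) : Prop where
  tips : c ≤ ‖𝔖.xp pos - 𝔖.xm pos‖
  off_p : ∀ i, i ≤ 𝔖.np → 𝔖.ep i ∉ 𝔖.S.Left
  off_m : ∀ i, i ≤ 𝔖.nm → T.opp (𝔖.em i) ∉ 𝔖.S.Left

/-- the clauses `tip_p`, `tip_m` of `GoodOut`, `GoodIn`: `yp`, `ym` are centres of the tip cells of the state -/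
def PvjlTip (𝔖 : PvwSt T) (pos : V → ℂ) (η : ℝ) (yp ym : ℂ) : Prop :=
  (‖pos (T.src (𝔖.ep 𝔖.np)) - yp‖ ≤ η ∧ ‖pos (T.tgt (𝔖.ep 𝔖.np)) - yp‖ ≤ η) ∧ (‖pos (T.src (𝔖.em 𝔖.nm)) - ym‖ ≤ η ∧ ‖pos (T.tgt (𝔖.em 𝔖.nm)) - ym‖ ≤ η)

theorem pvjl_eqns_cite4 : True := by
  have := @PvjlTip.eq_1
  trivial

/-- **ONE LEVEL**: stubs of record + `PvlvGood` at the tips + the stubs do not return into the gate + the core within `β` of the centre + `yp`, `ym` centres of the tip cells ⟹ `PvwSt.Good` -/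
theorem pvjl_good_of_lv {𝔖 : PvwSt T} {N : PvwNum} {h δ ρm ρ2' β : ℝ} {yp ym : ℂ} (hst : 𝔖.Stub pos (pvwSq z r) s)
    (hδ : ∀ t, t ≤ 𝔖.np → PvjlMesh T pos δ (pvasIt T s 𝔖.dp t)) (hδ' : ∀ t, t ≤ 𝔖.nm → PvjlMesh T pos δ (pvasIt T (pvasNot s) (T.opp 𝔖.dm) t))
    (hg : PvlvGood (pvlvZ T pos s 𝔖.dp) (pvlvZ T pos (pvasNot s) (T.opp 𝔖.dm)) 𝔖.np 𝔖.nm ρm ρ2') (htip : PvjlTip 𝔖 pos (N.rho * h / 4) yp ym)
    (h1 : N.rho1 * h / 2 + δ + N.rho * h / 4 ≤ ρm) (h2 : ρ2' + δ + N.rho * h / 4 ≤ N.rho2 * h) (h4 : 2 * N.rho * h ≤ N.rho1 * h / 2)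
    (hcore : ∀ v ∈ 𝔖.core, ‖pos v - z‖ ≤ β) (hβ : β + 2 * N.rho * h + δ + N.rho * h / 4 ≤ r)
    (off_p : ∀ i, i ≤ 𝔖.np → 𝔖.ep i ∉ 𝔖.S.Left) (off_m : ∀ i, i ≤ 𝔖.nm → T.opp (𝔖.em i) ∉ 𝔖.S.Left) : 𝔖.Good pos N h yp ym := by
  obtain ⟨hP, hM⟩ := hst
  have outP : pos (T.apex (pvasIt T s 𝔖.dp 𝔖.np)) ∉ pvwSq z r := by rw [← hP.ep_it _ le_rfl]; exact hP.ep_out
  have outM : pos (T.apex (pvasIt T (pvasNot s) (T.opp 𝔖.dm) 𝔖.nm)) ∉ pvwSq z r := by rw [← pvjl_em_opp hM le_rfl]; exact hM.em_out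
  have hyp : dist yp (pvlvZ T pos s 𝔖.dp 𝔖.np) ≤ N.rho * h / 4 := by
    have := htip.1.1
    rw [hP.ep_it _ le_rfl, ← dist_eq_norm, dist_comm] at this
    exact this
  have hym : dist ym (pvlvZ T pos (pvasNot s) (T.opp 𝔖.dm) 𝔖.nm) ≤ N.rho * h / 4 := by
    have := htip.2.2
    rw [pvjl_em_tgt hM le_rfl, ← dist_eq_norm, dist_comm] at this
    exact this
  have hη0 : 0 ≤ N.rho * h / 4 := dist_nonneg.trans hyp
  refine ⟨⟨htip.1, ?_, off_p⟩, ⟨htip.2, ?_, off_m⟩, ?_, ?_⟩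
  · obtain ⟨i₀, a1, a2, a3⟩ := pvjl_late (s := s) (d := 𝔖.dp) (ρ1 := N.rho1 * h / 2) (ρ2 := N.rho2 * h) hδ hyp hg.ret h1 h2 (by linarith)
    refine ⟨i₀, a1, fun i hi1 hi2 => ?_, fun i hi => ?_⟩
    · rw [hP.ep_it i hi2]; exact a2 i hi1 hi2
    · rw [hP.ep_it i (by omega)]; exact a3 i hi
  · obtain ⟨i₀, a1, a2, a3⟩ := pvjl_late (s := pvasNot s) (d := T.opp 𝔖.dm) (ρ1 := N.rho1 * h / 2) (ρ2 := N.rho2 * h) hδ' hym hg.ret' h1 h2 (by linarith)
    refine ⟨i₀, a1, fun i hi1 hi2 => ?_, fun i hi => ?_⟩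
    · rw [pvjl_em_src hM hi2, pvjl_em_tgt hM hi2]; exact (a2 i hi1 hi2).symm
    · rw [pvjl_em_src hM (by omega), pvjl_em_tgt hM (by omega)]; exact (a3 i hi).symm
  · rintro v ((hv | ⟨i, hi, rfl⟩) | ⟨i, hi, rfl⟩)
    · exact pvjl_far_core (hδ _ le_rfl) hyp outP hβ (hcore v hv)
    · rw [pvjl_em_src hM hi]
      exact (pvjl_far hyp (hδ' i hi) (hg.off i hi) (by linarith)).2
    · rw [pvjl_em_tgt hM hi]
      exact (pvjl_far hyp (hδ' i hi) (hg.off i hi) (by linarith)).1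
  · rintro v ((hv | ⟨i, hi, rfl⟩) | ⟨i, hi, rfl⟩)
    · exact pvjl_far_core (hδ' _ le_rfl) hym outM hβ (hcore v hv)
    · rw [hP.ep_it i hi]
      exact (pvjl_far hym (hδ i hi) (hg.off' i hi) (by linarith)).1
    · rw [hP.ep_it i hi]
      exact (pvjl_far hym (hδ i hi) (hg.off' i hi) (by linarith)).2

/-- the tips of record against the tips of `Tr/Level` -/
theorem pvjl_tips_far {𝔖 : PvwSt T} {δ : ℝ} {B : Set ℂ} (hst : 𝔖.Stub pos B s) (hδ : PvjlMesh T pos δ (pvasIt T s 𝔖.dp 𝔖.np)) (hδ' : PvjlMesh T pos δ (pvasIt T (pvasNot s) (T.opp 𝔖.dm) 𝔖.nm)) :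
    ‖𝔖.xp pos - 𝔖.xm pos‖ - δ ≤ dist (pvlvZ T pos s 𝔖.dp 𝔖.np) (pvlvZ T pos (pvasNot s) (T.opp 𝔖.dm) 𝔖.nm) := by
  rw [pvjl_xp hst.1, pvjl_xm hst.2, ← dist_eq_norm]
  have a1 := pvjl_mid_Z (s := s) (d := 𝔖.dp) hδ
  have a2 := pvjl_mid_Z (s := pvasNot s) (d := T.opp 𝔖.dm) hδ'
  have t1 := dist_triangle (pvjlM T pos s 𝔖.dp 𝔖.np) (pvlvZ T pos s 𝔖.dp 𝔖.np) (pvjlM T pos (pvasNot s) (T.opp 𝔖.dm) 𝔖.nm)
  have t2 := dist_triangle (pvlvZ T pos s 𝔖.dp 𝔖.np) (pvlvZ T pos (pvasNot s) (T.opp 𝔖.dm) 𝔖.nm) (pvjlM T pos (pvasNot s) (T.opp 𝔖.dm) 𝔖.nm)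
  rw [dist_comm (pvlvZ T pos (pvasNot s) (T.opp 𝔖.dm) 𝔖.nm) (pvjlM T pos (pvasNot s) (T.opp 𝔖.dm) 𝔖.nm)] at t2
  linarith

/-- **(H4) GOOD LEVEL, VOCABULARY OF RECORD**.      Gate data `C S dp dm inn ip` arbitrary;   levels `k < K`, squares `pvwSq z (pvwRad N h τ k)`;   both gate edges in the smallest square, the core `C` within `β` of the centre;   the two strands leave the largest FACE box;
mesh `≤ δ` at the faces visited UP TO these exits only;   fewer than `K` steps of size `a` before these exits (`Tr/Flag`);   at every level the flags `PvjlOff` are off.      Then some level carries stubs of record which are `PvwSt.Good` for ALL centres `yp ym` of their tip cells. -/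
theorem pvjl_good_level (N : PvwNum) {h : ℝ} (τ : PvwTy) (z : ℂ) (C : Set V) (S : T.Cyc) (dp dm : D) (inn : T.Pth) (ip : ℕ) {a δ β : ℝ} (ha : 0 < a) (h0 : 0 ≤ δ) (K : ℕ)
    (hr1 : 5 * δ ≤ N.rho1 * h) (hr0 : 2 * N.rho * h ≤ N.rho1 * h / 2) (hr2 : 2 * a + δ + N.rho * h / 4 ≤ N.rho2 * h)
    (hcore : ∀ v ∈ C, ‖pos v - z‖ ≤ β) (hβ : β + 2 * N.rho * h + δ + N.rho * h / 4 ≤ pvwRad N h τ 0)
    (hdp : PvjlIn T pos (pvwSq z (pvwRad N h τ 0)) dp) (hdm : PvjlIn T pos (pvwSq z (pvwRad N h τ 0)) dm)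
    (hex : ∃ t, pvasIt T s dp t ∉ pvlvBox T pos z (pvwRad N h τ (K - 1))) (hex' : ∃ t, pvasIt T (pvasNot s) (T.opp dm) t ∉ pvlvBox T pos z (pvwRad N h τ (K - 1)))
    (hδ : ∀ t, t ≤ pvasHit T s dp (pvlvBox T pos z (pvwRad N h τ (K - 1)))ᶜ → PvjlMesh T pos δ (pvasIt T s dp t))
    (hδ' : ∀ t, t ≤ pvasHit T (pvasNot s) (T.opp dm) (pvlvBox T pos z (pvwRad N h τ (K - 1)))ᶜ → PvjlMesh T pos δ (pvasIt T (pvasNot s) (T.opp dm) t))
    (hN : pvlvCnt (pvlvZ T pos s dp) a (pvasHit T s dp (pvlvBox T pos z (pvwRad N h τ (K - 1)))ᶜ) +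
      pvlvCnt (pvlvZ T pos (pvasNot s) (T.opp dm)) a (pvasHit T (pvasNot s) (T.opp dm) (pvlvBox T pos z (pvwRad N h τ (K - 1)))ᶜ) < K)
    (flag : ∀ k, k < K → ∀ 𝔖 : PvwSt T, 𝔖.dsc = C → 𝔖.S = S → 𝔖.dp = dp → 𝔖.dm = dm → 𝔖.inn = inn → 𝔖.ip = ip → 𝔖.Stub pos (pvwSq z (pvwRad N h τ k)) s →
      PvjlOff 𝔖 pos (2 * a + N.rho1 * h / 2 + 2 * δ + N.rho * h / 4)) :
    ∃ k, k < K ∧ ∃ 𝔖 : PvwSt T, 𝔖.dsc = C ∧ 𝔖.S = S ∧ 𝔖.dp = dp ∧ 𝔖.dm = dm ∧ 𝔖.inn = inn ∧ 𝔖.ip = ip ∧ 𝔖.Stub pos (pvwSq z (pvwRad N h τ k)) s ∧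
      ∀ yp ym, PvjlTip 𝔖 pos (N.rho * h / 4) yp ym → 𝔖.Good pos N h yp ym := by
  have hρ1 : 0 ≤ N.rho1 * h := by linarith
  set R : ℕ → ℝ := fun k => pvwRad N h τ k with hR
  have hRm : ∀ k, k < K → R k ≤ R (K - 1) := fun k hk => pvjl_rad_mono N hρ1 τ (by omega)
  have hR0 : ∀ k, R 0 ≤ R k := fun k => pvjl_rad_mono N hρ1 τ (Nat.zero_le k)
  set tend := pvasHit T s dp (pvlvBox T pos z (R (K - 1)))ᶜ with htend
  set tend' := pvasHit T (pvasNot s) (T.opp dm) (pvlvBox T pos z (R (K - 1)))ᶜ with htend'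
  have hexk : ∀ k, k < K → ∃ t, pvasIt T s dp t ∉ pvlvBox T pos z (R k) := fun k hk => by
    obtain ⟨t, ht⟩ := hex
    exact ⟨t, fun hb => ht (pvlv_box_mono (hRm k hk) hb)⟩
  have hexk' : ∀ k, k < K → ∃ t, pvasIt T (pvasNot s) (T.opp dm) t ∉ pvlvBox T pos z (R k) := fun k hk => by
    obtain ⟨t, ht⟩ := hex'
    exact ⟨t, fun hb => ht (pvlv_box_mono (hRm k hk) hb)⟩
  -- the exit times of `Tr/Level`
  set Tp : ℕ → ℕ := fun k => pvasHit T s dp (pvlvBox T pos z (R k))ᶜ with hTp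
  set Tm : ℕ → ℕ := fun k => pvasHit T (pvasNot s) (T.opp dm) (pvlvBox T pos z (R k))ᶜ with hTm
  have hE : ∀ k, k < K → PvlvExit (pvlvH T pos z s dp) (R k) (Tp k) := fun k hk => pvlv_exit_hit (hexk k hk)
  have hE' : ∀ k, k < K → PvlvExit (pvlvH T pos z (pvasNot s) (T.opp dm)) (R k) (Tm k) := fun k hk => pvlv_exit_hit (hexk' k hk)
  have hend : ∀ k, k < K → Tp k ≤ tend := fun k hk => (hE k hk).mono (pvlv_exit_hit hex) (hRm k hk)
  have hend' : ∀ k, k < K → Tm k ≤ tend' := fun k hk => (hE' k hk).mono (pvlv_exit_hit hex') (hRm k hk)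
  -- the stubs of record
  have hin : ∀ k, PvjlIn T pos (pvwSq z (R k)) dp := fun k => ⟨pvjl_sq_mono (hR0 k) hdp.1, pvjl_sq_mono (hR0 k) hdp.2⟩
  have hin' : ∀ k, PvjlIn T pos (pvwSq z (R k)) dm := fun k => ⟨pvjl_sq_mono (hR0 k) hdm.1, pvjl_sq_mono (hR0 k) hdm.2⟩
  have hst : ∀ k, k < K → ∃ 𝔖 : PvwSt T, 𝔖.dsc = C ∧ 𝔖.S = S ∧ 𝔖.dp = dp ∧ 𝔖.dm = dm ∧ 𝔖.inn = inn ∧ 𝔖.ip = ip ∧ 𝔖.Stub pos (pvwSq z (R k)) s :=
    fun k hk => pvjl_stub_of_exit C S dp dm inn ip (hin k) (hin' k) (hexk k hk) (hexk' k hk)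
  -- the walks stopped at the last exits
  set Z : ℕ → ℂ := fun t => pvlvZ T pos s dp (min t tend) with hZ
  set Z' : ℕ → ℂ := fun t => pvlvZ T pos (pvasNot s) (T.opp dm) (min t tend') with hZ'
  set H : ℕ → ℝ := fun t => pvlvH T pos z s dp (min t tend) with hH
  set H' : ℕ → ℝ := fun t => pvlvH T pos z (pvasNot s) (T.opp dm) (min t tend') with hH'
  have hZe : ∀ t, t ≤ tend → Z t = pvlvZ T pos s dp t := fun t ht => by rw [hZ]; simp only [min_eq_left ht]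
  have hZe' : ∀ t, t ≤ tend' → Z' t = pvlvZ T pos (pvasNot s) (T.opp dm) t := fun t ht => by rw [hZ']; simp only [min_eq_left ht]
  have hHe : ∀ t, t ≤ tend → H t = pvlvH T pos z s dp t := fun t ht => by rw [hH]; simp only [min_eq_left ht]
  have hHe' : ∀ t, t ≤ tend' → H' t = pvlvH T pos z (pvasNot s) (T.opp dm) t := fun t ht => by rw [hH']; simp only [min_eq_left ht]
  have hT : ∀ k : ℕ, k < K → PvlvExit H (2 * τ.b2 * h + k * (N.rho1 * h)) (Tp k) := by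
    intro k hk
    rw [← pvjl_rad_level]
    refine ⟨?_, fun t ht => ?_⟩
    · rw [hHe _ (hend k hk)]; exact (hE k hk).1
    · rw [hHe _ (ht.le.trans (hend k hk))]; exact (hE k hk).2 t ht
  have hT' : ∀ k : ℕ, k < K → PvlvExit H' (2 * τ.b2 * h + k * (N.rho1 * h)) (Tm k) := by
    intro k hk
    rw [← pvjl_rad_level]
    refine ⟨?_, fun t ht => ?_⟩
    · rw [hHe' _ (hend' k hk)]; exact (hE' k hk).1
    · rw [hHe' _ (ht.le.trans (hend' k hk))]; exact (hE' k hk).2 t ht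
  have hcnt : pvlvCnt Z a tend + pvlvCnt Z' a tend' < K := by
    rw [pvjl_cnt_congr (a := a) hZe, pvjl_cnt_congr (a := a) hZe']
    exact hN
  have far : ∀ k, k < K → 2 * a + (N.rho1 * h / 2 + δ + N.rho * h / 4) ≤ dist (Z (Tp k)) (Z' (Tm k)) := by
    intro k hk
    obtain ⟨𝔖, b0, b1, b2, b3, b4, b5, b6⟩ := hst k hk
    have off := flag k hk 𝔖 b0 b1 b2 b3 b4 b5 b6
    have enp : 𝔖.np = Tp k := by rw [pvjl_stub_np b6.1, b2]
    have enm : 𝔖.nm = Tm k := by rw [pvjl_stub_nm b6.2, b3]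
    have := pvjl_tips_far (δ := δ) b6 (by rw [enp, b2]; exact hδ _ (hend k hk)) (by rw [enm, b3]; exact hδ' _ (hend' k hk))
    rw [enp, enm, b2, b3] at this
    rw [hZe _ (hend k hk), hZe' _ (hend' k hk)]
    have := off.tips
    linarith
  obtain ⟨k, hk, hg⟩ := pvlv_good_exists ha Z Z' H H' (δ := δ) (r₀ := 2 * τ.b2 * h) (ρ := N.rho1 * h) (ρ₁ := N.rho1 * h) (ρm := N.rho1 * h / 2 + δ + N.rho * h / 4) (ρ₂ := 2 * a) le_rfl hρ1
    (by linarith) le_rfl K Tp Tm hT hT'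
    (fun t u => pvjl_H_lip (hδ _ (min_le_right _ _)) h0 _) (fun t u => pvjl_H_lip (hδ' _ (min_le_right _ _)) h0 _)
    (fun t u => pvjl_H_lip (hδ _ (min_le_right _ _)) h0 _) (fun t u => pvjl_H_lip (hδ' _ (min_le_right _ _)) h0 _) tend tend' hend hend' hcnt far
  obtain ⟨𝔖, b0, b1, b2, b3, b4, b5, b6⟩ := hst k hk
  refine ⟨k, hk, 𝔖, b0, b1, b2, b3, b4, b5, b6, fun yp ym htip => ?_⟩
  have enp : 𝔖.np = Tp k := by rw [pvjl_stub_np b6.1, b2]
  have enm : 𝔖.nm = Tm k := by rw [pvjl_stub_nm b6.2, b3]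
  have hp := hend k hk
  have hm := hend' k hk
  have off := flag k hk 𝔖 b0 b1 b2 b3 b4 b5 b6
  refine pvjl_good_of_lv (z := z) (r := R k) (δ := δ) (ρm := N.rho1 * h / 2 + δ + N.rho * h / 4) (ρ2' := 2 * a) (β := β) b6
    (fun t ht => by rw [b2]; exact hδ t (by omega)) (fun t ht => by rw [b3]; exact hδ' t (by omega)) ?_ htip le_rfl hr2 hr0
    (fun v hv => hcore v (by rw [← b0]; exact hv)) (hβ.trans (hR0 k)) off.off_p off.off_m
  rw [b2, b3, enp, enm]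
  refine ⟨fun u hu hv t h1 h2 => ?_, fun u hu hv t h1 h2 => ?_, fun u hu => ?_, fun u hu => ?_⟩
  · have := hg.ret u hu (by rw [hZe u (hu.trans hp), hZe _ hp]; exact hv) t h1 h2
    rwa [hZe t (h2.trans hp), hZe _ hp] at this
  · have := hg.ret' u hu (by rw [hZe' u (hu.trans hm), hZe' _ hm]; exact hv) t h1 h2
    rwa [hZe' t (h2.trans hm), hZe' _ hm] at this
  · have := hg.off u hu
    rwa [hZe' u (hu.trans hm), hZe _ hp] at this
  · have := hg.off' u hu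
    rwa [hZe u (hu.trans hp), hZe' _ hm] at this

/-! ## 6. few steps = the flag of `Tr/Flag` is off;   the state of record at a good level -/

theorem pvjl_cnt_zero {E : Type} [PseudoMetricSpace E] (w : ℕ → E) (a : ℝ) : pvlvCnt w a 0 = 0 := by
  classical
  unfold pvlvCnt
  rw [Finset.card_eq_zero, Finset.eq_empty_iff_forall_notMem]
  intro t ht
  obtain ⟨h1, h2⟩ := pvlv_mem_steps.1 ht
  have := pvlv_step_pos h2
  omega

/-- off the flag `PvflStub` the stub makes fewer than `n` steps before its first exit of the face box -/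
theorem pvjl_cnt_lt {a : ℝ} {n : ℕ} (hn : 0 < n) (hbw : pvasBW T s d) (hex : ∃ t, pvasIt T s d t ∉ pvlvBox T pos z r) (hf : ¬ PvflStub T pos z r a n s) :
    pvlvCnt (pvlvZ T pos s d) a (pvasHit T s d (pvlvBox T pos z r)ᶜ) < n := by
  by_contra hge
  rw [not_lt] at hge
  rcases Nat.eq_zero_or_pos (pvasHit T s d (pvlvBox T pos z r)ᶜ) with h0 | hpos
  · rw [h0, pvjl_cnt_zero] at hge
    omega
  · exact hf ⟨d, _, hbw, not_not.1 (pvas_hit_min hpos), fun t ht => not_not.1 (pvas_hit_min ht), pvas_hit_mem (Z := (pvlvBox T pos z r)ᶜ) hex, hge⟩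

/-- **(H4)**, the hypothesis "few steps" in the form of `Tr/Flag`: the flag `PvflStub` of the largest box is off for the colouring and for the exchanged colouring -/
theorem pvjl_good_level_flag (N : PvwNum) {h : ℝ} (τ : PvwTy) (z : ℂ) (C : Set V) (S : T.Cyc) (dp dm : D) (inn : T.Pth) (ip : ℕ) {a δ β : ℝ} (ha : 0 < a) (h0 : 0 ≤ δ) (K n : ℕ) (hn : 0 < n) (hK : 2 * n ≤ K + 1)
    (hr1 : 5 * δ ≤ N.rho1 * h) (hr0 : 2 * N.rho * h ≤ N.rho1 * h / 2) (hr2 : 2 * a + δ + N.rho * h / 4 ≤ N.rho2 * h)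
    (hcore : ∀ v ∈ C, ‖pos v - z‖ ≤ β) (hβ : β + 2 * N.rho * h + δ + N.rho * h / 4 ≤ pvwRad N h τ 0)
    (hbp : pvasBW T s dp) (hbm : pvasBW T s dm)
    (hdp : PvjlIn T pos (pvwSq z (pvwRad N h τ 0)) dp) (hdm : PvjlIn T pos (pvwSq z (pvwRad N h τ 0)) dm)
    (hex : ∃ t, pvasIt T s dp t ∉ pvlvBox T pos z (pvwRad N h τ (K - 1))) (hex' : ∃ t, pvasIt T (pvasNot s) (T.opp dm) t ∉ pvlvBox T pos z (pvwRad N h τ (K - 1)))
    (hδ : ∀ t, t ≤ pvasHit T s dp (pvlvBox T pos z (pvwRad N h τ (K - 1)))ᶜ → PvjlMesh T pos δ (pvasIt T s dp t))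
    (hδ' : ∀ t, t ≤ pvasHit T (pvasNot s) (T.opp dm) (pvlvBox T pos z (pvwRad N h τ (K - 1)))ᶜ → PvjlMesh T pos δ (pvasIt T (pvasNot s) (T.opp dm) t))
    (hf : ¬ PvflStub T pos z (pvwRad N h τ (K - 1)) a n s) (hf' : ¬ PvflStub T pos z (pvwRad N h τ (K - 1)) a n (pvasNot s))
    (flag : ∀ k, k < K → ∀ 𝔖 : PvwSt T, 𝔖.dsc = C → 𝔖.S = S → 𝔖.dp = dp → 𝔖.dm = dm → 𝔖.inn = inn → 𝔖.ip = ip → 𝔖.Stub pos (pvwSq z (pvwRad N h τ k)) s →
      PvjlOff 𝔖 pos (2 * a + N.rho1 * h / 2 + 2 * δ + N.rho * h / 4)) :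
    ∃ k, k < K ∧ ∃ 𝔖 : PvwSt T, 𝔖.dsc = C ∧ 𝔖.S = S ∧ 𝔖.dp = dp ∧ 𝔖.dm = dm ∧ 𝔖.inn = inn ∧ 𝔖.ip = ip ∧ 𝔖.Stub pos (pvwSq z (pvwRad N h τ k)) s ∧
      ∀ yp ym, PvjlTip 𝔖 pos (N.rho * h / 4) yp ym → 𝔖.Good pos N h yp ym := by
  have c1 := pvjl_cnt_lt hn hbp hex hf
  have c2 := pvjl_cnt_lt hn (pvas_bw_not.2 hbm) hex' hf'
  exact pvjl_good_level N τ z C S dp dm inn ip ha h0 K hr1 hr0 hr2 hcore hβ hdp hdm hex hex' hδ hδ' (by omega) flag

/-- the type `τ` at the level `k`, with the centres `yp`, `ym` of the tip cells -/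
def PvwTy.pvjlAt (τ : PvwTy) (k : ℕ) (yp ym : ℂ) : PvwTy := { τ with k := k, yp := yp, ym := ym }

theorem pvjl_eqns_cite3 : True := by
  have := @PvwTy.pvjlAt.eq_1
  trivial

theorem pvjl_rad_at (N : PvwNum) (h : ℝ) (τ : PvwTy) (k j : ℕ) (yp ym : ℂ) : pvwRad N h (τ.pvjlAt k yp ym) j = pvwRad N h τ j := rfl

/-- **the gate is read from the gate data and from `(a, b, o)`** (not from the stubs, not from the level, not from the outer annulus, not from the tip cells) -/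
theorem pvjl_gate_congr {𝔖 𝔖' : PvwSt T} {h : ℝ} {τ τ' : PvwTy} (e0 : 𝔖'.dsc = 𝔖.dsc) (e1 : 𝔖'.S = 𝔖.S) (e2 : 𝔖'.dp = 𝔖.dp) (e3 : 𝔖'.dm = 𝔖.dm) (e4 : 𝔖'.inn = 𝔖.inn) (e5 : 𝔖'.ip = 𝔖.ip)
    (ea : τ'.a = τ.a) (eb : τ'.b = τ.b) (eo : τ'.o = τ.o) (g : 𝔖.Gate pos h z τ s) : 𝔖'.Gate pos h z τ' s := by
  obtain ⟨C, S, dp, dm, inn, ip, np, ep, nm, em⟩ := 𝔖
  obtain ⟨C', S', dp', dm', inn', ip', np', ep', nm', em'⟩ := 𝔖'
  obtain ⟨a, b, a2, b2, k, o, yp, ym⟩ := τ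
  obtain ⟨a', b', a2', b2', k', o', yp', ym'⟩ := τ'
  simp only at e0 e1 e2 e3 e4 e5 ea eb eo
  subst e0 e1 e2 e3 e4 e5 ea eb eo
  exact ⟨g.fin, g.dsc_eq, g.core_fin, g.ann, g.round, g.inside, g.dp_on, g.dm_on, g.bw_p, g.bw_m, g.ne, g.ori, g.two, g.left, g.strand, g.ip_le, g.ip_near, g.ip_first⟩

theorem pvjl_inmost_congr {𝔖 𝔖' : PvwSt T} {h : ℝ} {τ τ' : PvwTy} (e1 : 𝔖'.S = 𝔖.S) (ea : τ'.a = τ.a) (eb : τ'.b = τ.b) (g : 𝔖.Inmost pos h z τ s) : 𝔖'.Inmost pos h z τ' s := by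
  unfold PvwSt.Inmost at g ⊢
  rw [e1, ea, eb]
  exact g

/-- the gate edges of a gate lie in every square of half side `≥ b h` -/
theorem pvjl_gate_in (hT : T.IsSph) {𝔖 : PvwSt T} {h : ℝ} {τ : PvwTy} (hg : 𝔖.Gate pos h z τ s) (hb : τ.b * h ≤ r) : PvjlIn T pos (pvwSq z r) 𝔖.dp ∧ PvjlIn T pos (pvwSq z r) 𝔖.dm := by
  obtain ⟨h1, h2, h3, h4⟩ := pvwk_gate_ends hT hg
  have key := fun v hv => pvwk_core_sq hg hb v (pvwk_ins_sub_core hg hv)
  exact ⟨⟨key _ h1, key _ h2⟩, ⟨key _ h3, key _ h4⟩⟩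

/-- **THE STATE OF RECORD AT A GOOD LEVEL**: an innermost gate `𝔖₀` (its stubs are ignored) + the hypotheses of (H4) ⟹ a level `k < K` and a state `𝔖` with the same gate data,
`𝔖.At pos N h z (τ at level k, tip cells yp ym) s` for ALL `yp ym` such that `z + h yp`, `z + h ym` are centres of the tip cells of `𝔖` -/
theorem pvjl_at_level (hT : T.IsSph) (N : PvwNum) {h : ℝ} (τ : PvwTy) (z : ℂ) (𝔖₀ : PvwSt T) (hg : 𝔖₀.Gate pos h z τ s) (hi : 𝔖₀.Inmost pos h z τ s) {a δ : ℝ} (ha : 0 < a) (h0 : 0 ≤ δ) (K n : ℕ) (hn : 0 < n)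
    (hK : 2 * n ≤ K + 1) (hKN : K ≤ N.K + 1) (hρ : 0 ≤ N.rho * h) (hr1 : 5 * δ ≤ N.rho1 * h) (hr0 : 2 * N.rho * h ≤ N.rho1 * h / 2) (hr2 : 2 * a + δ + N.rho * h / 4 ≤ N.rho2 * h)
    (hβ : τ.b * h + 2 * N.rho * h + δ + N.rho * h / 4 ≤ pvwRad N h τ 0)
    (hex : ∃ t, pvasIt T s 𝔖₀.dp t ∉ pvlvBox T pos z (pvwRad N h τ (K - 1))) (hex' : ∃ t, pvasIt T (pvasNot s) (T.opp 𝔖₀.dm) t ∉ pvlvBox T pos z (pvwRad N h τ (K - 1)))
    (hδ : ∀ t, t ≤ pvasHit T s 𝔖₀.dp (pvlvBox T pos z (pvwRad N h τ (K - 1)))ᶜ → PvjlMesh T pos δ (pvasIt T s 𝔖₀.dp t))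
    (hδ' : ∀ t, t ≤ pvasHit T (pvasNot s) (T.opp 𝔖₀.dm) (pvlvBox T pos z (pvwRad N h τ (K - 1)))ᶜ → PvjlMesh T pos δ (pvasIt T (pvasNot s) (T.opp 𝔖₀.dm) t))
    (hf : ¬ PvflStub T pos z (pvwRad N h τ (K - 1)) a n s) (hf' : ¬ PvflStub T pos z (pvwRad N h τ (K - 1)) a n (pvasNot s))
    (flag : ∀ k, k < K → ∀ 𝔖 : PvwSt T, 𝔖.dsc = 𝔖₀.dsc → 𝔖.S = 𝔖₀.S → 𝔖.dp = 𝔖₀.dp → 𝔖.dm = 𝔖₀.dm → 𝔖.inn = 𝔖₀.inn → 𝔖.ip = 𝔖₀.ip → 𝔖.Stub pos (pvwSq z (pvwRad N h τ k)) s →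
      PvjlOff 𝔖 pos (2 * a + N.rho1 * h / 2 + 2 * δ + N.rho * h / 4)) :
    ∃ k, k < K ∧ ∃ 𝔖 : PvwSt T, 𝔖.dsc = 𝔖₀.dsc ∧ 𝔖.S = 𝔖₀.S ∧ 𝔖.dp = 𝔖₀.dp ∧ 𝔖.dm = 𝔖₀.dm ∧ 𝔖.inn = 𝔖₀.inn ∧ 𝔖.ip = 𝔖₀.ip ∧
      ∀ yp ym : ℂ, PvjlTip 𝔖 pos (N.rho * h / 4) (z + (h : ℂ) * yp) (z + (h : ℂ) * ym) → 𝔖.At pos N h z (τ.pvjlAt k yp ym) s := by
  obtain ⟨hdp, hdm⟩ := pvjl_gate_in (r := pvwRad N h τ 0) hT hg (by linarith)
  obtain ⟨k, hk, 𝔖, b0, b1, b2, b3, b4, b5, b6, b7⟩ := pvjl_good_level_flag N τ z 𝔖₀.dsc 𝔖₀.S 𝔖₀.dp 𝔖₀.dm 𝔖₀.inn 𝔖₀.ip ha h0 K n hn hK hr1 hr0 hr2 (fun v hv => (pvwk_core_lt hg hv).le) hβ hg.bw_p hg.bw_m hdp hdm hex hex' hδ hδ' hf hf' flag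
  refine ⟨k, hk, 𝔖, b0, b1, b2, b3, b4, b5, fun yp ym htip => ?_⟩
  have g' : 𝔖.Gate pos h z (τ.pvjlAt k yp ym) s := pvjl_gate_congr (τ := τ) b0 b1 b2 b3 b4 b5 rfl rfl rfl hg
  have i' : 𝔖.Inmost pos h z (τ.pvjlAt k yp ym) s := pvjl_inmost_congr (τ := τ) b1 rfl rfl hi
  have hl : (τ.pvjlAt k yp ym).k ≤ N.K := by show k ≤ N.K; omega
  have b8 := b7 _ _ htip
  exact ⟨⟨g', i', b6.1, b8.out, hl⟩, ⟨g', i', b6.2, b8.inn, hl⟩, b8.far_p, b8.far_m⟩

end Claimed.Agent.R289
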