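-- KEEP
import Claimed.Agent.R289.Tr.Local
import Claimed.Agent.R289.Tr.Flag

/-!
# Row 289 (S0537, Cardy for Poisson-Voronoi), THE WALL, X3 = PIN EXISTS, file Tr/SealLoc : THE SEAL IS CARRIED OVER      (owner helper66, request of helper42 10:58Z; prefix `pvsl_`, `Pvsl`)

WHAT.  The flags of road E live on the PLANE map of the sample, the rim lives in a COMPLETION.      FLAG2 gives on the plane the SEALED MOUTH of a stub (conclusion of `pvbk2_fwd_mouth` / `pvbk2_bwd_mouth` of 189, free centre `y`, mouth radius `r`, big radius `R'`);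
(d) of X3 (42: `pvzm_pin_out`, `pvzm_pin_in`, `pvzm_far`) consumes it on the completion.      This file: the sealed mouth is the SAME EVENT on two surfaces which share the open ball `B(y, R')`.

INDEPENDENT OF `Tr/Defs`, `Tr/LocalW`: stated over `PvLoc` (`Tr/Local`; sec. 4: `Tr/Level`, `Tr/Flag`) + `PvslPos` = the three positional fields of `PvLocP` of 22.
* sec. 1  `PvslPos`, shared darts, one step of a strand forwards / backwards (`pvsl_step_v`: the ENDS of the next position are always twins, even if the next position is not shared)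
* sec. 2  `pvsl_it` (a strand is shared as long as its black ends stay in `Kr`), **`pvsl_reach`** ("the strand reaches the distance `R'` of `y`" is the same event: only the OPEN ball has to be shared)
* sec. 3  `PvslSealP`, `PvslSealM`, **`pvsl_sealP`**, **`pvsl_sealM`**
* sec. 4  FLAG1: `pvsl_cnt_congr`, `pvsl_it_box` (a strand is shared up to and including its first exit of a box placed in `Kr`), **`pvsl_stub`** (`PvflStub` of 16), `pvsl_hit_box`, **`pvsl_cnt_box`** (the counts `hcnt` of E15, 112)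
-/

set_option autoImplicit false

namespace Claimed.Agent.R289

open Set

variable {V D V' D' : Type}

/-! ## 1. positions -/

/-- the positional fields of `PvLocP` (22, `Tr/LocalW`): twins have the same position, the vertices placed in `Kr` are full on both sides -/
structure PvslPos (T : PvMap V D) (T' : PvMap V' D') (R : D → D' → Prop) (pos : V → ℂ) (pos' : V' → ℂ) (Kr : Set ℂ) : Prop where
  pos_eq : ∀ d d', R d d' → pos (T.src d) = pos' (T'.src d')
  full : ∀ v, pos v ∈ Kr → v ∈ T.Int (plDom R)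
  full' : ∀ v', pos' v' ∈ Kr → v' ∈ T'.Int (plRan R)

section kit

variable {T : PvMap V D} {T' : PvMap V' D'} {R : D → D' → Prop} {pos : V → ℂ} {pos' : V' → ℂ} {Kr : Set ℂ} {s : V → Bool} {s' : V' → Bool}

theorem PvslPos.symm (P : PvslPos T T' R pos pos' Kr) : PvslPos T' T (fun d' d => R d d') pos' pos Kr :=
  ⟨fun d' d h => (P.pos_eq d d' h).symm, P.full', P.full⟩

theorem pvsl_pos_v (P : PvslPos T T' R pos pos' Kr) {v : V} {v' : V'} (h : pvlocV T T' R v v') : pos v = pos' v' := by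
  obtain ⟨d, d', h1, rfl, rfl⟩ := h
  exact P.pos_eq d d' h1

theorem pvsl_dart_src (P : PvslPos T T' R pos pos' Kr) {d : D} (h : pos (T.src d) ∈ Kr) : d ∈ plDom R := P.full _ h d rfl

theorem pvsl_dart_tgt (L : PvLoc T T' R) (P : PvslPos T T' R pos pos' Kr) {d : D} (h : pos (T.tgt d) ∈ Kr) : d ∈ plDom R :=
  (L.iso.dom_face d).1 (P.full _ h (T.nxt d) rfl)

/-- the ends of the next position of a strand are twins, whether the next position is shared or not -/
theorem pvsl_step_v (L : PvLoc T T' R) (hs : ∀ d d', R d d' → s (T.src d) = s' (T'.src d')) {a : D} {a' : D'} (h : R a a') :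
    pvlocV T T' R (T.src (pvasStep T s a)) (T'.src (pvasStep T' s' a')) := by
  have h3 : s (T.apex a) = s' (T'.apex a') := hs _ _ (L.iso.nxt (L.iso.nxt h))
  unfold pvasStep
  rw [← h3]
  by_cases hc : s (T.apex a) = true
  · rw [if_pos hc, if_pos hc, T.src_opp', T'.src_opp', T.tgt_nxt, T'.tgt_nxt]
    exact pvloc_v_apex L h
  · rw [if_neg hc, if_neg hc, T.src_opp', T'.src_opp', T.tgt_nxt2, T'.tgt_nxt2]
    exact pvloc_v_src h

/-- one step backwards -/
theorem pvsl_back (L : PvLoc T T' R) (hs : ∀ d d', R d d' → s (T.src d) = s' (T'.src d')) {a : D} {a' : D'} (h : R a a') (hm : T.opp a ∈ plDom R) :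
    R (pvasBack T s a) (pvasBack T' s' a') := by
  have ho : R (T.opp a) (T'.opp a') := L.iso.opp_rel h hm
  have h3 : s (T.apex (T.opp a)) = s' (T'.apex (T'.opp a')) := hs _ _ (L.iso.nxt (L.iso.nxt ho))
  unfold pvasBack
  rw [← h3]
  by_cases hc : s (T.apex (T.opp a)) = true
  · rw [if_pos hc, if_pos hc]
    exact L.iso.nxt (L.iso.nxt ho)
  · rw [if_neg hc, if_neg hc]
    exact L.iso.nxt ho

/-! ## 2. strands -/

theorem pvsl_it_succ (T : PvMap V D) (s : V → Bool) (a : D) (j : ℕ) : pvasIt T s a (j + 1) = pvasStep T s (pvasIt T s a j) := by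
  unfold pvasIt
  rw [Function.iterate_succ_apply']

/-- a strand is shared as long as its black ends are placed in `Kr` -/
theorem pvsl_it (L : PvLoc T T' R) (P : PvslPos T T' R pos pos' Kr) (hs : ∀ d d', R d d' → s (T.src d) = s' (T'.src d')) {a : D} {a' : D'} (h : R a a') {n : ℕ}
    (hK : ∀ j, 0 < j → j ≤ n → pos (T.src (pvasIt T s a j)) ∈ Kr) : ∀ j, j ≤ n → R (pvasIt T s a j) (pvasIt T' s' a' j) :=
  pvloc_it L hs h fun j hj => by
    rcases Nat.eq_zero_or_pos j with rfl | h0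
    · exact ⟨a', h⟩
    · exact pvsl_dart_src P (hK j h0 hj)

/-- .. and the black end of the FIRST position whose black end leaves `Kr` is still a twin -/
theorem pvsl_it_v (L : PvLoc T T' R) (P : PvslPos T T' R pos pos' Kr) (hs : ∀ d d', R d d' → s (T.src d) = s' (T'.src d')) {a : D} {a' : D'} (h : R a a') {n : ℕ}
    (hK : ∀ j, 0 < j → j < n → pos (T.src (pvasIt T s a j)) ∈ Kr) : pvlocV T T' R (T.src (pvasIt T s a n)) (T'.src (pvasIt T' s' a' n)) := by
  rcases Nat.eq_zero_or_pos n with rfl | h0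
  · exact pvloc_v_src h
  · obtain ⟨k, rfl⟩ : ∃ k, n = k + 1 := ⟨n - 1, by omega⟩
    rw [pvsl_it_succ, pvsl_it_succ]
    exact pvsl_step_v L hs (pvsl_it L P hs h (n := k) (fun j h1 h2 => hK j h1 (by omega)) k le_rfl)

/-- **"THE STRAND REACHES THE DISTANCE `R'` OF `y`" IS CARRIED OVER**: only the OPEN ball `B(y, R')` has to be shared -/
theorem pvsl_reach (L : PvLoc T T' R) (P : PvslPos T T' R pos pos' Kr) (hs : ∀ d d', R d d' → s (T.src d) = s' (T'.src d')) {y : ℂ} {R' : ℝ} (hB : Metric.ball y R' ⊆ Kr)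
    {a : D} {a' : D'} (h : R a a') (hr : ∃ k, R' ≤ ‖pos (T.src (pvasIt T s a k)) - y‖) : ∃ k, R' ≤ ‖pos' (T'.src (pvasIt T' s' a' k)) - y‖ := by
  classical
  refine ⟨Nat.find hr, ?_⟩
  have h1 := Nat.find_spec hr
  have h2 : ∀ j, 0 < j → j < Nat.find hr → pos (T.src (pvasIt T s a j)) ∈ Kr := fun j _ hj =>
    hB (mem_ball_iff_norm.2 (not_le.1 (Nat.find_min hr hj)))
  rw [← pvsl_pos_v P (pvsl_it_v L P hs h h2)]
  exact h1

/-- backward strands -/
theorem pvsl_back_it (L : PvLoc T T' R) (P : PvslPos T T' R pos pos' Kr) (hs : ∀ d d', R d d' → s (T.src d) = s' (T'.src d')) {a : D} {a' : D'} (h : R a a') {n : ℕ}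
    (hK : ∀ j, j < n → pos (T.src ((pvasBack T s)^[j] a)) ∈ Kr) : ∀ j, j ≤ n → R ((pvasBack T s)^[j] a) ((pvasBack T' s')^[j] a') := by
  intro j
  induction j with
  | zero => intro _; exact h
  | succ j ih =>
    intro hj
    rw [Function.iterate_succ_apply', Function.iterate_succ_apply']
    exact pvsl_back L hs (ih (by omega)) (pvloc_opp_mem L (Or.inl (P.full _ (hK j (by omega)))))

end kit

/-! ## 3. sealed mouths -/

/-- **SEALED MOUTH OF AN EXIT STUB** `d0, …, It n` (= the conclusion of `pvbk2_fwd_mouth` of 189; = `PvpeSealP` of 126 with free centre `y`, mouth radius `r`, big radius `R'`): `m` = last entrance of the stub into the big disc, `m + N` = first exit of the continuation;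
every position of a strand which reaches the distance `R'` of `y`, with an end in the mouth `clB(y, r)`, is one of the positions `m, …, m + N - 1` of the strand from `d0` -/
def PvslSealP (T : PvMap V D) (pos : V → ℂ) (s : V → Bool) (d0 : D) (n : ℕ) (y : ℂ) (r R' : ℝ) : Prop :=
  ∃ m N : ℕ, m ≤ n ∧ n < m + N ∧ (∀ i, i < N → ‖pos (T.src (pvasIt T s d0 (m + i))) - y‖ < R') ∧
    ∀ d, pvasBW T s d → (‖pos (T.src d) - y‖ ≤ r ∨ ‖pos (T.tgt d) - y‖ ≤ r) → (∃ k, R' ≤ ‖pos (T.src (pvasIt T s d k)) - y‖) → ∃ i, i < N ∧ d = pvasIt T s d0 (m + i)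

/-- **SEALED MOUTH OF AN ENTRANCE STUB** `d0, …, Back^[n] d0` (= the conclusion of `pvbk2_bwd_mouth`; = `PvpeSealM` of 126) -/
def PvslSealM (T : PvMap V D) (pos : V → ℂ) (s : V → Bool) (d0 : D) (n : ℕ) (y : ℂ) (r R' : ℝ) : Prop :=
  ∃ a b : ℕ, b ≤ n ∧ (∀ t, n - b < t → t ≤ n + a → ‖pos (T.src ((pvasBack T s)^[t] d0)) - y‖ < R') ∧
    ∀ d, pvasBW T s d → (‖pos (T.src d) - y‖ ≤ r ∨ ‖pos (T.tgt d) - y‖ ≤ r) → (∃ k, R' ≤ ‖pos (T.src (pvasIt T s d k)) - y‖) → ∃ t, n - b < t ∧ t ≤ n + a ∧ d = (pvasBack T s)^[t] d0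

theorem pvsl_eqns_cite : True := by
  have := @PvslSealP.eq_1; have := @PvslSealM.eq_1
  trivial

section carry

variable {T : PvMap V D} {T' : PvMap V' D'} {R : D → D' → Prop} {pos : V → ℂ} {pos' : V' → ℂ} {Kr : Set ℂ} {s : V → Bool} {s' : V' → Bool}

/-- a position of `T'` with an end in the mouth is shared, with the same properties -/
theorem pvsl_mouth_dart (L : PvLoc T T' R) (P : PvslPos T T' R pos pos' Kr) (hs : ∀ d d', R d d' → s (T.src d) = s' (T'.src d')) {y : ℂ} {r R' : ℝ} (hr : r < R') (hB : Metric.ball y R' ⊆ Kr)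
    {d' : D'} (hbw : pvasBW T' s' d') (hm : ‖pos' (T'.src d') - y‖ ≤ r ∨ ‖pos' (T'.tgt d') - y‖ ≤ r) (hk : ∃ k, R' ≤ ‖pos' (T'.src (pvasIt T' s' d' k)) - y‖) :
    ∃ d, R d d' ∧ pvasBW T s d ∧ (‖pos (T.src d) - y‖ ≤ r ∨ ‖pos (T.tgt d) - y‖ ≤ r) ∧ ∃ k, R' ≤ ‖pos (T.src (pvasIt T s d k)) - y‖ := by
  have hd' : d' ∈ plRan R := by
    rcases hm with h1 | h1
    · exact pvsl_dart_src P.symm (hB (mem_ball_iff_norm.2 (lt_of_le_of_lt h1 hr)))
    · exact pvsl_dart_tgt L.symm P.symm (hB (mem_ball_iff_norm.2 (lt_of_le_of_lt h1 hr)))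
  obtain ⟨d, hd⟩ := hd'
  refine ⟨d, hd, (pvloc_bw L hs hd).2 hbw, ?_, pvsl_reach L.symm P.symm (fun a' a h => (hs a a' h).symm) hB hd hk⟩
  rw [P.pos_eq _ _ hd, show pos (T.tgt d) = pos' (T'.tgt d') from P.pos_eq _ _ (L.iso.nxt hd)]
  exact hm

/-- **THE SEAL OF AN EXIT STUB IS CARRIED OVER**.      The positions `0..n` of the stub are shared (twin half states), the open ball `B(y, R')` is shared, `r < R'`. -/
theorem pvsl_sealP (L : PvLoc T T' R) (P : PvslPos T T' R pos pos' Kr) (hs : ∀ d d', R d d' → s (T.src d) = s' (T'.src d')) {y : ℂ} {r R' : ℝ} (hr : r < R') (hB : Metric.ball y R' ⊆ Kr)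
    {d0 : D} {d0' : D'} {n : ℕ} (h0 : ∀ i, i ≤ n → R (pvasIt T s d0 i) (pvasIt T' s' d0' i)) (hS : PvslSealP T pos s d0 n y r R') : PvslSealP T' pos' s' d0' n y r R' := by
  obtain ⟨m, N, h1, h2, h3, h4⟩ := hS
  -- the positions `m, …, m + N - 1` are shared
  have hsh : ∀ i, i < N → R (pvasIt T s d0 (m + i)) (pvasIt T' s' d0' (m + i)) := by
    intro i
    induction i with
    | zero => intro _; exact h0 m h1
    | succ i ih =>
      intro hi
      rw [← Nat.add_assoc, pvsl_it_succ, pvsl_it_succ]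
      refine pvloc_step L hs (ih (by omega)) ?_
      rw [← pvsl_it_succ, Nat.add_assoc]
      exact pvsl_dart_src P (hB (mem_ball_iff_norm.2 (h3 _ hi)))
  refine ⟨m, N, h1, h2, fun i hi => ?_, fun d' hbw hm hk => ?_⟩
  · rw [← P.pos_eq _ _ (hsh i hi)]
    exact h3 i hi
  · obtain ⟨d, hd, e1, e2, e3⟩ := pvsl_mouth_dart L P hs hr hB hbw hm hk
    obtain ⟨i, hi, rfl⟩ := h4 d e1 e2 e3
    exact ⟨i, hi, L.iso.fn hd (hsh i hi)⟩

/-- **THE SEAL OF AN ENTRANCE STUB IS CARRIED OVER**.      The positions `0..n` of the stub are shared, the black end of the last one is placed in `Kr`. -/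
theorem pvsl_sealM (L : PvLoc T T' R) (P : PvslPos T T' R pos pos' Kr) (hs : ∀ d d', R d d' → s (T.src d) = s' (T'.src d')) {y : ℂ} {r R' : ℝ} (hr : r < R') (hB : Metric.ball y R' ⊆ Kr)
    {d0 : D} {d0' : D'} {n : ℕ} (h0 : ∀ i, i ≤ n → R ((pvasBack T s)^[i] d0) ((pvasBack T' s')^[i] d0')) (hn : pos (T.src ((pvasBack T s)^[n] d0)) ∈ Kr)
    (hS : PvslSealM T pos s d0 n y r R') : PvslSealM T' pos' s' d0' n y r R' := by
  obtain ⟨a, b, h1, h3, h4⟩ := hS
  have hsh : ∀ t, t ≤ n + a → R ((pvasBack T s)^[t] d0) ((pvasBack T' s')^[t] d0') := by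
    intro t
    induction t with
    | zero => intro _; exact h0 0 (Nat.zero_le _)
    | succ t ih =>
      intro ht
      rcases Nat.lt_or_ge t n with hlt | hge
      · exact h0 _ hlt
      · rw [Function.iterate_succ_apply', Function.iterate_succ_apply']
        refine pvsl_back L hs (ih (by omega)) (pvloc_opp_mem L (Or.inl (P.full _ ?_)))
        rcases Nat.eq_or_lt_of_le hge with he | hgt
        · rw [← he]; exact hn
        · exact hB (mem_ball_iff_norm.2 (h3 t (by omega) (by omega)))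
  refine ⟨a, b, h1, fun t ht1 ht2 => ?_, fun d' hbw hm hk => ?_⟩
  · rw [← P.pos_eq _ _ (hsh t ht2)]
    exact h3 t ht1 ht2
  · obtain ⟨d, hd, e1, e2, e3⟩ := pvsl_mouth_dart L P hs hr hB hbw hm hk
    obtain ⟨t, t1, t2, rfl⟩ := h4 d e1 e2 e3
    exact ⟨t, t1, t2, L.iso.fn hd (hsh t t2)⟩

end carry

/-! ## 4. FLAG1 is carried over -/

section cnt

variable {E : Type} [PseudoMetricSpace E] {z z' : ℕ → E} {a : ℝ}

theorem pvsl_anc_congr {t : ℕ} (h : ∀ u, u ≤ t → z u = z' u) : ∀ u, u ≤ t → pvlvAnc z a u = pvlvAnc z' a u := by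
  intro u
  induction u with
  | zero => intro _; rfl
  | succ u ih =>
    intro hu
    have e := ih (by omega)
    rw [pvlv_anc_succ, pvlv_anc_succ, ← e, h (u + 1) hu, h (pvlvAnc z a u) ((pvlv_anc_le u).trans (by omega))]

theorem pvsl_step_congr {t : ℕ} (h : ∀ u, u ≤ t → z u = z' u) {u : ℕ} (hu : u ≤ t) : pvlvStep z a u ↔ pvlvStep z' a u := by
  rcases Nat.eq_zero_or_pos u with rfl | h0
  · exact ⟨fun hs => absurd (pvlv_step_pos hs) (lt_irrefl _), fun hs => absurd (pvlv_step_pos hs) (lt_irrefl _)⟩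
  · obtain ⟨k, rfl⟩ : ∃ k, u = k + 1 := ⟨u - 1, by omega⟩
    rw [pvlv_step_succ, pvlv_step_succ, ← pvsl_anc_congr h k (by omega), h (k + 1) hu, h (pvlvAnc z a k) ((pvlv_anc_le k).trans (by omega))]

/-- the number of steps up to the time `t` reads the walk up to the time `t` -/
theorem pvsl_cnt_congr {t : ℕ} (h : ∀ u, u ≤ t → z u = z' u) : pvlvCnt z a t = pvlvCnt z' a t := by
  classical
  unfold pvlvCnt pvlvSteps
  congr 1
  refine Finset.filter_congr fun u hu => ?_
  exact pvsl_step_congr h (by have := Finset.mem_range.1 hu; omega)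

end cnt

section flag1

variable {T : PvMap V D} {T' : PvMap V' D'} {R : D → D' → Prop} {pos : V → ℂ} {pos' : V' → ℂ} {Kr : Set ℂ} {s : V → Bool} {s' : V' → Bool}

theorem pvsl_FR (L : PvLoc T T' R) (P : PvslPos T T' R pos pos' Kr) (zc : ℂ) {d : D} {d' : D'} (h : R d d') : pvlvFR T pos zc d = pvlvFR T' pos' zc d' := by
  unfold pvlvFR
  rw [P.pos_eq _ _ h, show pos (T.tgt d) = pos' (T'.tgt d') from P.pos_eq _ _ (L.iso.nxt h), show pos (T.apex d) = pos' (T'.apex d') from P.pos_eq _ _ (L.iso.nxt (L.iso.nxt h))]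

theorem pvsl_box_iff (L : PvLoc T T' R) (P : PvslPos T T' R pos pos' Kr) (zc : ℂ) (r : ℝ) {d : D} {d' : D'} (h : R d d') : d ∈ pvlvBox T pos zc r ↔ d' ∈ pvlvBox T' pos' zc r := by
  unfold pvlvBox
  rw [mem_ofPred_eq, mem_ofPred_eq, pvsl_FR L P zc h]

/-- the three vertices of a face of the box -/
theorem pvsl_box_K {zc : ℂ} {r : ℝ} (hK : ∀ w : ℂ, pvlvRad zc w ≤ r → w ∈ Kr) {d : D} (h : d ∈ pvlvBox T pos zc r) : pos (T.src d) ∈ Kr ∧ pos (T.tgt d) ∈ Kr ∧ pos (T.apex d) ∈ Kr := by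
  have h' : max (max (pvlvRad zc (pos (T.src d))) (pvlvRad zc (pos (T.tgt d)))) (pvlvRad zc (pos (T.apex d))) ≤ r := h
  exact ⟨hK _ (((le_max_left _ _).trans (le_max_left _ _)).trans h'), hK _ (((le_max_right _ _).trans (le_max_left _ _)).trans h'), hK _ ((le_max_right _ _).trans h')⟩

/-- the position after a position of the box is shared -/
theorem pvsl_step_box (P : PvslPos T T' R pos pos' Kr) {zc : ℂ} {r : ℝ} (hK : ∀ w : ℂ, pvlvRad zc w ≤ r → w ∈ Kr) {d : D} (h : d ∈ pvlvBox T pos zc r) : pvasStep T s d ∈ plDom R := by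
  obtain ⟨h1, h2, h3⟩ := pvsl_box_K (pos := pos) hK h
  refine pvsl_dart_src P ?_
  unfold pvasStep
  split_ifs
  · rw [T.src_opp', T.tgt_nxt]; exact h3
  · rw [T.src_opp', T.tgt_nxt2]; exact h1

/-- a strand is shared up to and including its first exit of a box placed in `Kr` -/
theorem pvsl_it_box (L : PvLoc T T' R) (P : PvslPos T T' R pos pos' Kr) (hs : ∀ d d', R d d' → s (T.src d) = s' (T'.src d')) {zc : ℂ} {r : ℝ} (hK : ∀ w : ℂ, pvlvRad zc w ≤ r → w ∈ Kr)
    {d : D} {d' : D'} (h : R d d') {n : ℕ} (hin : ∀ t, t < n → pvasIt T s d t ∈ pvlvBox T pos zc r) : ∀ t, t ≤ n → R (pvasIt T s d t) (pvasIt T' s' d' t) :=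
  pvloc_it L hs h fun j hj => by
    rcases Nat.eq_zero_or_pos j with rfl | h0
    · exact ⟨d', h⟩
    · obtain ⟨k, rfl⟩ : ∃ k, j = k + 1 := ⟨j - 1, by omega⟩
      rw [pvsl_it_succ]
      exact pvsl_step_box P hK (hin k (by omega))

/-- **FLAG1 (`PvflStub` of 16) IS CARRIED OVER**: the closed box is placed in `Kr` -/
theorem pvsl_stub (L : PvLoc T T' R) (P : PvslPos T T' R pos pos' Kr) (hs : ∀ d d', R d d' → s (T.src d) = s' (T'.src d')) {zc : ℂ} {r a : ℝ} {n : ℕ} (hK : ∀ w : ℂ, pvlvRad zc w ≤ r → w ∈ Kr)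
    (h : PvflStub T pos zc r a n s) : PvflStub T' pos' zc r a n s' := by
  obtain ⟨d, tend, h1, h2, h3, h4, h5⟩ := h
  obtain ⟨d', hd⟩ : d ∈ plDom R := pvsl_dart_src P (pvsl_box_K (pos := pos) hK h2).1
  have hsh := pvsl_it_box L P hs hK hd h3
  refine ⟨d', tend, (pvloc_bw L hs hd).1 h1, (pvsl_box_iff L P zc r hd).1 h2, fun t ht => (pvsl_box_iff L P zc r (hsh t ht.le)).1 (h3 t ht), fun hm => h4 ((pvsl_box_iff L P zc r (hsh tend le_rfl)).2 hm), ?_⟩
  rw [← pvsl_cnt_congr (z := pvlvZ T pos s d) (z' := pvlvZ T' pos' s' d') fun u hu => P.pos_eq _ _ (hsh u hu)]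
  exact h5

/-- the first exit time of a box is carried over -/
theorem pvsl_hit_box (L : PvLoc T T' R) (P : PvslPos T T' R pos pos' Kr) (hs : ∀ d d', R d d' → s (T.src d) = s' (T'.src d')) {zc : ℂ} {r : ℝ} (hK : ∀ w : ℂ, pvlvRad zc w ≤ r → w ∈ Kr)
    {d : D} {d' : D'} (h : R d d') : pvasHit T' s' d' (pvlvBox T' pos' zc r)ᶜ = pvasHit T s d (pvlvBox T pos zc r)ᶜ := by
  unfold pvasHit
  rcases Set.eq_empty_or_nonempty {n | pvasIt T s d n ∈ (pvlvBox T pos zc r)ᶜ} with he | hne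
  · have hall : ∀ n, pvasIt T s d n ∈ pvlvBox T pos zc r := fun n => by
      by_contra hn
      have : n ∈ {n | pvasIt T s d n ∈ (pvlvBox T pos zc r)ᶜ} := hn
      rw [he] at this
      exact this
    have he' : {n | pvasIt T' s' d' n ∈ (pvlvBox T' pos' zc r)ᶜ} = ∅ := by
      apply Set.eq_empty_of_forall_notMem
      intro n hn
      exact hn ((pvsl_box_iff L P zc r (pvsl_it_box L P hs hK h (n := n) (fun j _ => hall j) n le_rfl)).1 (hall n))
    rw [he, he']
  · have hN := Nat.sInf_mem hne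
    set N := sInf {n | pvasIt T s d n ∈ (pvlvBox T pos zc r)ᶜ} with hNdef
    have hin : ∀ j, j < N → pvasIt T s d j ∈ pvlvBox T pos zc r := fun j hj => by
      by_contra hn
      exact Nat.notMem_of_lt_sInf hj hn
    have hrel := pvsl_it_box L P hs hK h hin
    have hN' : N ∈ {n | pvasIt T' s' d' n ∈ (pvlvBox T' pos' zc r)ᶜ} := fun hm => hN ((pvsl_box_iff L P zc r (hrel N le_rfl)).2 hm)
    apply le_antisymm (Nat.sInf_le hN')
    by_contra hlt
    push Not at hlt
    have hm := Nat.sInf_mem (⟨N, hN'⟩ : {n | pvasIt T' s' d' n ∈ (pvlvBox T' pos' zc r)ᶜ}.Nonempty)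
    exact hm ((pvsl_box_iff L P zc r (hrel _ hlt.le)).1 (hin _ hlt))

/-- **the count of E15 (112: `hcnt`) is carried over**: number of steps of size `a` of a strand up to its first exit of the box -/
theorem pvsl_cnt_box (L : PvLoc T T' R) (P : PvslPos T T' R pos pos' Kr) (hs : ∀ d d', R d d' → s (T.src d) = s' (T'.src d')) {zc : ℂ} {r a : ℝ} (hK : ∀ w : ℂ, pvlvRad zc w ≤ r → w ∈ Kr)
    {d : D} {d' : D'} (h : R d d') (hex : ∃ t, pvasIt T s d t ∉ pvlvBox T pos zc r) :
    pvlvCnt (pvlvZ T' pos' s' d') a (pvasHit T' s' d' (pvlvBox T' pos' zc r)ᶜ) = pvlvCnt (pvlvZ T pos s d) a (pvasHit T s d (pvlvBox T pos zc r)ᶜ) := by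
  rw [pvsl_hit_box L P hs hK h]
  have hne : {n | pvasIt T s d n ∈ (pvlvBox T pos zc r)ᶜ}.Nonempty := hex
  have hin : ∀ j, j < pvasHit T s d (pvlvBox T pos zc r)ᶜ → pvasIt T s d j ∈ pvlvBox T pos zc r := fun j hj => by
    by_contra hn
    exact Nat.notMem_of_lt_sInf hj hn
  exact (pvsl_cnt_congr fun u hu => P.pos_eq _ _ (pvsl_it_box L P hs hK h hin u hu)).symm

end flag1

end Claimed.Agent.R289
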