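import Claimed.Agent.R289.Tr.GoodAll
import Claimed.Agent.R289.Tr.BrLev
import Claimed.Agent.R289.Tr.SealLoc
import Claimed.Agent.R289.Tr.LocalF
import Claimed.Agent.R289.Exit.Par

/-!
# Row 289 (S0537, Cardy for Poisson-Voronoi), THE WALL, road E, X3 = PIN EXISTS, file Tr/GoodNumE : THE INSTANCE OF E15 AT THE MODEL, NUMBERS HALF      (helper17, post Z2 of 82; prefix `pvn7_`, `Pvn7`, `pvn7`;   `pvkv_` of the post is taken by 263)

E15 (`pvzw_e15`, `Tr/GoodAll`, 112 80 165) is ABSTRACT in `(T, pos, s)` and has to be used ON A COMPLETION (there the rim is a circuit with a finite wall);   the flags live ON THE PLANE of the sample.      This file pays every hypothesis of E15 which is a NUMBER, a MESH or a COUNT.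
WHICH POSITIONS ON A COMPLETION: `𝔅.posF Y (x + 7 R)` (extra vertices at the far point; = 66 `Tr/PinEnc`, 22 `Tr/LocalW`).      With `𝔅.pos Y` (junk `0` at the extra vertices) `PvzcMesh` is FALSE as soon as `0` lies in the box.

* sec. 1  NUMBERS, raw: **`pvn7_num`** (`PvzcNum` at the step `a = ρ₂ h / 4` from `0 < ρ < ρ₁ < ρ₂`, `b ≤ 2 b₂`, `4 δ ≤ ρ₁ h`), `pvn7_rm` (`hRm`), `pvn7_rad_le pvn7_rad_mono pvn7_sub` (`hsub`), `pvn7_sq_ball` (boxes in the ball of agreement)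
* sec. 2  MESH, abstract: `Pvn7Fine T pos K δ`;   **`Pvn7Fine.zc`** (producer of `PvzcMesh` of 112), **`Pvn7Fine.jl`**, `pvn7_jl_p`, `pvn7_jl_m` (producers of `PvjlMesh` of 288, at one face / at the positions of the two stubs of a record)
* sec. 3  CENTRES OF THE TIPS: `pvn7_tipP pvn7_tipM` (a point near the midpoint tip), **`pvn7_tipP_b pvn7_tipM_b`** (a point near the BLACK END of the tip dart = `PvxAt.tip_p/m` of `Defs/TrModel` v4), `.._self`, `.._bself` (the tip itself is a centre),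
          **`pvn7_bd_p pvn7_bd_m`** (NON DEGENERATE: the black ends sit within `δ`, sup norm, of the boundary of the box = `hxp hxm` of `pvxo_cover` v2 of 73), **`pvn7_ends_far`** (`hx` of `pvxo_cover`), tips and erased banks lie in the box (`pvn7_xp_sq pvn7_arcP_sq ..`)
* sec. 4  **NOT FLAG1 IS CARRIED OVER** (over `PvLoc` + `PvslPos` of 66): `pvn7_it` (a strand is shared up to its first exit of a box placed in `Kr`), `pvn7_hit` (same exit time), `pvn7_cnt_one`, **`pvn7_hcnt`** (`hcnt` of E15 on `T` from `¬ PvflStub` on `T'`, SAME box `r_{K0}`, `2 n ≤ K0 + 2`),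
          **`pvn7_e15_loc`** (E15 on `T`, FLAG1 read on `T'`: mesh, counts, exits paid)
* sec. 5  THE TWO MODELS: **`pvn7_fine_plane`**, **`pvn7_fine_bulk`** (`L9Fine` ⟹ fine), `pvn7_mesh_plane`, `pvn7_mesh_bulk`, `pvn7_bulk` (the local isomorphism completion ⟷ plane of record with positions and colours, over `Tr/Local` only)
* sec. 6  THE NUMBERS OF RECORD (`PvxNums.Ok` of 73, `Exit/Par` v2): `pvn7Ty N k o yp ym`, **`pvn7_num_rec`**, `pvn7_rm_rec` (shields of big radius `≤ b₂ h`), `pvn7_rad_big`, `pvn7_box_ball`,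
          **`pvn7_type`** = (e) THE TYPE at the menu of record, from the conclusion of E15 + mesh `20 δ ≤ ρ h` + SEP of two sets `Xp Xm`
* sec. 7  **`pvn7_e15_bulk`** = E15 AT A COMPLETION, numbers of record: LEFT = gate + rule on the completion (3, 190), `PvzcRim` (83), shields on the completion (112)
ROOM ASKED FROM THE ROOF (all explicit): `4 μ ≤ ρ₁ h` (E15), `20 μ ≤ ρ h` (type), `‖z - x‖ ≤ 3 R`, `2 big h ≤ 3 R`, `0 < n`, `2 n ≤ K0 + 2`.      `PvxNums.Ok` needs NO new field.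
CONSUMERS: 199 (`exit_pinsE_di`), 126 157 184 (`Tr/PinE` v3), 66 (`Tr/PinEnc`), 121.      STATUS: 0 sorry.
-/

set_option autoImplicit false
set_option linter.unusedSectionVars false
set_option linter.unusedVariables false

namespace Claimed.Agent.R289

open Set Claims.C0465

/-! ## 1. numbers -/

section numbers

variable {N : PvwNum} {h δ : ℝ} {τ : PvwTy}

/-- **`PvzcNum`, raw form**: step of FLAG1 `a = ρ₂ h / 4`, mesh `4 δ ≤ ρ₁ h` -/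
theorem pvn7_num (h0 : 0 < h) (r0 : 0 < N.rho) (r1 : N.rho < N.rho1) (r2 : N.rho1 < N.rho2) (hb : τ.b ≤ 2 * τ.b2) (d0 : 0 ≤ δ) (hδ : 4 * δ ≤ N.rho1 * h) :
    PvzcNum N h τ (N.rho2 * h / 4) δ where
  h_pos := h0
  a_pos := by have : 0 < N.rho2 := by linarith
              positivity
  d_nn := d0
  r1_nn := by linarith
  r_nn := r0.le
  mesh := by nlinarith
  step := by nlinarith
  gate := hb

/-- the debt `hRm` of `pvzg_e15` (the core is far from the centres of the tips), big radius of the shields `Rm = c h` -/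
theorem pvn7_rm {c : ℝ} (h0 : 0 < h) (r3 : N.rho ≤ 1) (hδ : δ ≤ h) (hc : c + τ.b + 2 ≤ 2 * τ.b2) : c * h + τ.b * h + δ + N.rho * h / 4 ≤ 2 * τ.b2 * h := by
  nlinarith

theorem pvn7_rad_le {K0 : ℕ} {c : ℝ} (h0 : 0 ≤ h) (hK : K0 * N.rho1 ≤ c) : pvwRad N h τ K0 ≤ (2 * τ.b2 + c) * h := by
  unfold pvwRad
  exact mul_le_mul_of_nonneg_right (by linarith) h0

theorem pvn7_rad_mono {k k' : ℕ} (h0 : 0 ≤ h) (r1 : 0 ≤ N.rho1) (hk : k ≤ k') : pvwRad N h τ k ≤ pvwRad N h τ k' := by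
  unfold pvwRad
  have h1 : (k : ℝ) ≤ k' := by exact_mod_cast hk
  exact mul_le_mul_of_nonneg_right (by nlinarith) h0

theorem pvn7_sq_mono (z : ℂ) {r r' : ℝ} (hr : r ≤ r') : pvwSq z r ⊆ pvwSq z r' := fun _ hw => ⟨hw.1.trans hr, hw.2.trans hr⟩

/-- `hsub` of E15: the box of the last level in use lies in the largest box -/
theorem pvn7_sub (z : ℂ) {K0 : ℕ} (h0 : 0 ≤ h) (r1 : 0 ≤ N.rho1) (hK : K0 ≤ N.K) : pvwSq z (pvwRad N h τ K0) ⊆ pvwSq z (pvwRad N h τ N.K) :=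
  pvn7_sq_mono z (pvn7_rad_mono h0 r1 hK)

/-- a square lies in the disc of twice its half side -/
theorem pvn7_sq_norm {z w : ℂ} {r : ℝ} (hw : w ∈ pvwSq z r) : ‖w - z‖ ≤ 2 * r :=
  (Complex.norm_le_abs_re_add_abs_im _).trans (by linarith [hw.1, hw.2])

/-- the boxes of the centres of `clB(x, 3R)` lie in the ball of agreement -/
theorem pvn7_sq_ball {x z : ℂ} {R r : ℝ} (hzx : ‖z - x‖ ≤ 3 * R) (hr : 2 * r ≤ 3 * R) : pvwSq z r ⊆ Metric.closedBall x (6 * R) := fun w hw => by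
  rw [mem_closedBall_iff_norm]
  calc ‖w - x‖ = ‖(w - z) + (z - x)‖ := by ring_nf
    _ ≤ ‖w - z‖ + ‖z - x‖ := norm_add_le _ _
    _ ≤ 6 * R := by linarith [pvn7_sq_norm hw]

end numbers

/-! ## 2. the mesh, abstract -/

section mesh

variable {V D : Type} {T : PvMap V D} {pos : V → ℂ} {s : V → Bool} {z : ℂ} {r δ : ℝ}

/-- **FINE ON `K`**: the three sides of every face with its source placed in `K` are `≤ δ`      (what `L9Fine` gives on the plane of the sample AND on every completion) -/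
def Pvn7Fine (T : PvMap V D) (pos : V → ℂ) (K : Set ℂ) (δ : ℝ) : Prop :=
  ∀ d, pos (T.src d) ∈ K → dist (pos (T.tgt d)) (pos (T.src d)) ≤ δ ∧ dist (pos (T.apex d)) (pos (T.src d)) ≤ δ

theorem pvn7_eqns_cite : True := by
  have := @Pvn7Fine.eq_1
  trivial

theorem Pvn7Fine.mono {K K' : Set ℂ} {δ' : ℝ} (hF : Pvn7Fine T pos K δ) (hK : K' ⊆ K) (hδ : δ ≤ δ') : Pvn7Fine T pos K' δ' :=
  fun d hd => ⟨((hF d (hK hd)).1).trans hδ, ((hF d (hK hd)).2).trans hδ⟩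

/-- **producer of `PvzcMesh`** (112) -/
theorem Pvn7Fine.zc {K : Set ℂ} (hF : Pvn7Fine T pos K δ) (hK : pvwSq z r ⊆ K) : PvzcMesh T pos z r δ := fun d hd => (hF d (hK hd)).1

/-- **producer of `PvjlMesh`** (288) at ONE face -/
theorem Pvn7Fine.jl {K : Set ℂ} (hF : Pvn7Fine T pos K δ) {d : D} (hd : pos (T.src d) ∈ K) : PvjlMesh T pos δ d := hF d hd

/-- `PvzcMesh` is `Pvn7Fine` on the square -/
theorem pvn7_fine_of_zc (hM : PvzcMesh T pos z r δ) : Pvn7Fine T pos (pvwSq z r) δ := fun d hd => ⟨hM d hd, pvzw_mesh_apex hM hd⟩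

/-- `PvjlMesh` at the positions of the exit stub of a record -/
theorem pvn7_jl_p {K : Set ℂ} (hF : Pvn7Fine T pos K δ) (hK : pvwSq z r ⊆ K) {𝔖 : PvwSt T} (hst : 𝔖.StubP pos (pvwSq z r) s) :
    ∀ t, t ≤ 𝔖.np → PvjlMesh T pos δ (pvasIt T s 𝔖.dp t) := fun t ht => by
  rw [← hst.ep_it t ht]
  exact hF _ (hK (hst.ep_in t ht).1)

/-- `PvjlMesh` at the positions of the entrance stub of a record (strand of the exchanged colouring from `opp dm`) -/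
theorem pvn7_jl_m {K : Set ℂ} (hF : Pvn7Fine T pos K δ) (hK : pvwSq z r ⊆ K) {𝔖 : PvwSt T} (hst : 𝔖.StubM pos (pvwSq z r) s) :
    ∀ t, t ≤ 𝔖.nm → PvjlMesh T pos δ (pvasIt T (pvasNot s) (T.opp 𝔖.dm) t) := fun t ht => by
  have e : pvasIt T (pvasNot s) (T.opp 𝔖.dm) t = T.opp (𝔖.em t) := by rw [hst.em_it t ht, pvwk_back_it, T.opp_opp]
  rw [e]
  refine hF _ (hK ?_)
  rw [T.src_opp']
  exact (hst.em_in t ht).2

end mesh

/-! ## 3. the centres of the tips -/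

section tips

variable {V D : Type} {T : PvMap V D} {pos : V → ℂ} {s : V → Bool} {z : ℂ} {r δ h : ℝ} {N : PvwNum} {𝔖 : PvwSt T}

theorem pvn7_mid_dist (p q : ℂ) : ‖p - (p + q) / 2‖ = ‖q - p‖ / 2 ∧ ‖q - (p + q) / 2‖ = ‖q - p‖ / 2 := by
  have h2 : ‖(2 : ℂ)‖ = 2 := by simp
  constructor
  · have e : p - (p + q) / 2 = -(q - p) / 2 := by ring
    rw [e, norm_div, norm_neg, h2]
  · have e : q - (p + q) / 2 = (q - p) / 2 := by ring
    rw [e, norm_div, h2]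

/-- one position: both ends are within `η + δ / 2` of every point within `η` of the midpoint -/
theorem pvn7_ends_near {d : D} (hd : dist (pos (T.tgt d)) (pos (T.src d)) ≤ δ) {y : ℂ} {η : ℝ} (hy : ‖(pos (T.src d) + pos (T.tgt d)) / 2 - y‖ ≤ η) :
    ‖pos (T.src d) - y‖ ≤ η + δ / 2 ∧ ‖pos (T.tgt d) - y‖ ≤ η + δ / 2 := by
  rw [Complex.dist_eq] at hd
  obtain ⟨e1, e2⟩ := pvn7_mid_dist (pos (T.src d)) (pos (T.tgt d))
  constructor
  · have : pos (T.src d) - y = (pos (T.src d) - (pos (T.src d) + pos (T.tgt d)) / 2) + ((pos (T.src d) + pos (T.tgt d)) / 2 - y) := by ring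
    rw [this]
    refine (norm_add_le _ _).trans ?_
    rw [e1]
    linarith
  · have : pos (T.tgt d) - y = (pos (T.tgt d) - (pos (T.src d) + pos (T.tgt d)) / 2) + ((pos (T.src d) + pos (T.tgt d)) / 2 - y) := by ring
    rw [this]
    refine (norm_add_le _ _).trans ?_
    rw [e2]
    linarith

/-- **producer of `PvzcTipP`**: a point within `η` of the tip `x⁺`, `η + δ / 2 ≤ ρ h / 4` -/
theorem pvn7_tipP (hM : PvzcMesh T pos z r δ) (hst : 𝔖.StubP pos (pvwSq z r) s) {y : ℂ} {η : ℝ} (hy : ‖𝔖.xp pos - y‖ ≤ η) (hη : η + δ / 2 ≤ N.rho * h / 4) : PvzcTipP 𝔖 pos N h y := by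
  obtain ⟨h1, h2⟩ := pvn7_ends_near (hM _ (hst.ep_in _ le_rfl).1) hy
  exact ⟨h1.trans hη, h2.trans hη⟩

/-- **producer of `PvzcTipM`** -/
theorem pvn7_tipM (hM : PvzcMesh T pos z r δ) (hst : 𝔖.StubM pos (pvwSq z r) s) {y : ℂ} {η : ℝ} (hy : ‖𝔖.xm pos - y‖ ≤ η) (hη : η + δ / 2 ≤ N.rho * h / 4) : PvzcTipM 𝔖 pos N h y := by
  obtain ⟨h1, h2⟩ := pvn7_ends_near (hM _ (hst.em_in _ le_rfl).1) hy
  exact ⟨h1.trans hη, h2.trans hη⟩

/-- the point `w` in units of `h`, relative to `z` -/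
theorem pvn7_unit (h0 : h ≠ 0) (z w : ℂ) : z + (h : ℂ) * ((w - z) / (h : ℂ)) = w := by
  have : (h : ℂ) ≠ 0 := Complex.ofReal_ne_zero.2 h0
  field_simp
  ring

/-- THE TIP ITSELF IS A CENTRE.      (USE: FLAG4 speaks of full states `At` at SOME type; the menu gives a type only after SEP.   Apply the conclusion of E15 twice: first at the centres `(x^± - z) / h`, then at the grid centres of the type.) -/
theorem pvn7_tipP_self (h0 : h ≠ 0) (hM : PvzcMesh T pos z r δ) (hst : 𝔖.StubP pos (pvwSq z r) s) (hδ : 2 * δ ≤ N.rho * h) : PvzcTipP 𝔖 pos N h (z + (h : ℂ) * ((𝔖.xp pos - z) / (h : ℂ))) := by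
  rw [pvn7_unit h0]
  exact pvn7_tipP (η := 0) hM hst (by simp) (by linarith)

theorem pvn7_tipM_self (h0 : h ≠ 0) (hM : PvzcMesh T pos z r δ) (hst : 𝔖.StubM pos (pvwSq z r) s) (hδ : 2 * δ ≤ N.rho * h) : PvzcTipM 𝔖 pos N h (z + (h : ℂ) * ((𝔖.xm pos - z) / (h : ℂ))) := by
  rw [pvn7_unit h0]
  exact pvn7_tipM (η := 0) hM hst (by simp) (by linarith)

/-- squares are convex: the midpoint of two points of a square -/
theorem pvn7_sq_mid {p q : ℂ} (hp : p ∈ pvwSq z r) (hq : q ∈ pvwSq z r) : (p + q) / 2 ∈ pvwSq z r := by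
  have e : (p + q) / 2 - z = ((1 / 2 : ℝ) : ℂ) * ((p - z) + (q - z)) := by push_cast; ring
  obtain ⟨p1, p2⟩ := hp
  obtain ⟨q1, q2⟩ := hq
  rw [abs_le] at p1 p2 q1 q2
  constructor
  · rw [e, Complex.re_ofReal_mul, Complex.add_re, abs_le]
    constructor <;> linarith [p1.1, p1.2, q1.1, q1.2]
  · rw [e, Complex.im_ofReal_mul, Complex.add_im, abs_le]
    constructor <;> linarith [p2.1, p2.2, q2.1, q2.2]

/-- the tips lie in the box of the level -/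
theorem pvn7_xp_sq (hst : 𝔖.StubP pos (pvwSq z r) s) : 𝔖.xp pos ∈ pvwSq z r := pvn7_sq_mid (hst.ep_in _ le_rfl).1 (hst.ep_in _ le_rfl).2

theorem pvn7_xm_sq (hst : 𝔖.StubM pos (pvwSq z r) s) : 𝔖.xm pos ∈ pvwSq z r := pvn7_sq_mid (hst.em_in _ le_rfl).1 (hst.em_in _ le_rfl).2

/-- the vertices of the loop erasure of a walk are vertices of the walk -/
theorem pvn7_le_mem {b : ℕ → V} {n : ℕ} {y : T.Pth} (hy : PvwLE T b n y) {k : ℕ} (hk : k ≤ y.n) : ∃ i, i ≤ n ∧ y.v k = b i := by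
  obtain ⟨j, -, -, h3, -⟩ := hy
  exact ⟨j k, (h3 k hk).1, (h3 k hk).2.1⟩

/-- the rim arc carried by the exit stub lies in the box of the level -/
theorem pvn7_arcP_sq (hst : 𝔖.StubP pos (pvwSq z r) s) {y : T.Pth} (hy : PvwLE T (fun i => T.src (𝔖.ep i)) 𝔖.np y) : ∀ v ∈ y.verts, pos v ∈ pvwSq z r := by
  rintro v ⟨k, hk, rfl⟩
  obtain ⟨i, hi, e⟩ := pvn7_le_mem hy hk
  rw [e]
  exact (hst.ep_in i hi).1

theorem pvn7_arcM_sq (hst : 𝔖.StubM pos (pvwSq z r) s) {y : T.Pth} (hy : PvwLE T (fun i => T.src (𝔖.em i)) 𝔖.nm y) : ∀ v ∈ y.verts, pos v ∈ pvwSq z r := by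
  rintro v ⟨k, hk, rfl⟩
  obtain ⟨i, hi, e⟩ := pvn7_le_mem hy hk
  rw [e]
  exact (hst.em_in i hi).1

/-! ### the BLACK ENDS of the tip darts (`PvxAt.tip_p`, `tip_m` of `Defs/TrModel` v4) -/

/-- **producer of `PvzcTipP`**: a point within `η` of the BLACK END of the exit tip dart, `η + δ ≤ ρ h / 4` -/
theorem pvn7_tipP_b (hM : PvzcMesh T pos z r δ) (hst : 𝔖.StubP pos (pvwSq z r) s) (d0 : 0 ≤ δ) {y : ℂ} {η : ℝ} (hy : ‖pos (T.src (𝔖.ep 𝔖.np)) - y‖ ≤ η) (hη : η + δ ≤ N.rho * h / 4) :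
    PvzcTipP 𝔖 pos N h y := by
  have h1 := hM _ (hst.ep_in _ le_rfl).1
  have h2 := dist_triangle (pos (T.tgt (𝔖.ep 𝔖.np))) (pos (T.src (𝔖.ep 𝔖.np))) y
  rw [Complex.dist_eq, Complex.dist_eq, Complex.dist_eq] at h2
  rw [Complex.dist_eq] at h1
  exact ⟨by linarith, by linarith⟩

/-- **producer of `PvzcTipM`** -/
theorem pvn7_tipM_b (hM : PvzcMesh T pos z r δ) (hst : 𝔖.StubM pos (pvwSq z r) s) (d0 : 0 ≤ δ) {y : ℂ} {η : ℝ} (hy : ‖pos (T.src (𝔖.em 𝔖.nm)) - y‖ ≤ η) (hη : η + δ ≤ N.rho * h / 4) :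
    PvzcTipM 𝔖 pos N h y := by
  have h1 := hM _ (hst.em_in _ le_rfl).1
  have h2 := dist_triangle (pos (T.tgt (𝔖.em 𝔖.nm))) (pos (T.src (𝔖.em 𝔖.nm))) y
  rw [Complex.dist_eq, Complex.dist_eq, Complex.dist_eq] at h2
  rw [Complex.dist_eq] at h1
  exact ⟨by linarith, by linarith⟩

/-- THE BLACK END ITSELF IS A CENTRE -/
theorem pvn7_tipP_bself (h0 : h ≠ 0) (hM : PvzcMesh T pos z r δ) (hst : 𝔖.StubP pos (pvwSq z r) s) (d0 : 0 ≤ δ) (hδ : 4 * δ ≤ N.rho * h) :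
    PvzcTipP 𝔖 pos N h (z + (h : ℂ) * ((pos (T.src (𝔖.ep 𝔖.np)) - z) / (h : ℂ))) := by
  rw [pvn7_unit h0]
  exact pvn7_tipP_b (η := 0) hM hst d0 (by simp) (by linarith)

theorem pvn7_tipM_bself (h0 : h ≠ 0) (hM : PvzcMesh T pos z r δ) (hst : 𝔖.StubM pos (pvwSq z r) s) (d0 : 0 ≤ δ) (hδ : 4 * δ ≤ N.rho * h) :
    PvzcTipM 𝔖 pos N h (z + (h : ℂ) * ((pos (T.src (𝔖.em 𝔖.nm)) - z) / (h : ℂ))) := by
  rw [pvn7_unit h0]
  exact pvn7_tipM_b (η := 0) hM hst d0 (by simp) (by linarith)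

theorem pvn7_N_rad (z w : ℂ) : pvccN (w - z) = pvlvRad z w := rfl

/-- a site of the box with a neighbour outside is within `δ` (sup norm) of the boundary of the box -/
theorem pvn7_bd {p q : ℂ} (hp : p ∈ pvwSq z r) (hq : q ∉ pvwSq z r) (hpq : dist q p ≤ δ) : |pvccN (p - z) - r| ≤ δ := by
  rw [pvn7_N_rad]
  have h1 := pvzc_sq_iff.1 hp
  have h2 : r < pvlvRad z q := not_le.1 fun hle => hq (pvzc_sq_iff.2 hle)
  have h3 := pvlv_rad_lip z q p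
  rw [abs_le]
  constructor <;> linarith

/-- **NON DEGENERATE, exit side** (`hxp` of `pvxo_cover` v2 of 73): the black end of the exit tip dart sits on the boundary of the box of the level -/
theorem pvn7_bd_p (hM : PvzcMesh T pos z r δ) (hst : 𝔖.StubP pos (pvwSq z r) s) : |pvccN (pos (T.src (𝔖.ep 𝔖.np)) - z) - r| ≤ δ :=
  pvn7_bd (hst.ep_in _ le_rfl).1 hst.ep_out (pvzw_mesh_apex hM (hst.ep_in _ le_rfl).1)

/-- **NON DEGENERATE, entrance side** -/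
theorem pvn7_bd_m (hM : PvzcMesh T pos z r δ) (hst : 𝔖.StubM pos (pvwSq z r) s) : |pvccN (pos (T.src (𝔖.em 𝔖.nm)) - z) - r| ≤ δ := by
  refine pvn7_bd (hst.em_in _ le_rfl).1 hst.em_out ?_
  have h1 := hM (T.nxt (T.opp (𝔖.em 𝔖.nm)))
  rw [T.src_nxt, T.tgt_opp, T.tgt_nxt] at h1
  exact h1 (hst.em_in _ le_rfl).1

/-- **THE TWO BLACK ENDS ARE FAR FROM EACH OTHER** (`hx` of `pvxo_cover` v2): clause `far_p` of the full state at the centre `y⁺ :=` the black end of the exit tip dart -/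
theorem pvn7_ends_far {τ : PvwTy} (hat : 𝔖.At pos N h z τ s) (hy : τ.cp h z = pos (T.src (𝔖.ep 𝔖.np))) : 2 * N.rho * h ≤ ‖pos (T.src (𝔖.ep 𝔖.np)) - pos (T.src (𝔖.em 𝔖.nm))‖ := by
  have h1 := hat.far_p (T.src (𝔖.em 𝔖.nm)) (Or.inl (Or.inr ⟨𝔖.nm, le_rfl, rfl⟩))
  rw [hy, norm_sub_rev] at h1
  exact h1.le

end tips

/-! ## 4. NOT FLAG1 IS CARRIED OVER: the counts of a surface from the flag of another surface which shares the box -/

section counts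

variable {V D V' D' : Type} {T : PvMap V D} {T' : PvMap V' D'} {R : D → D' → Prop} {pos : V → ℂ} {pos' : V' → ℂ} {Kr : Set ℂ} {s : V → Bool} {s' : V' → Bool} {z : ℂ} {r : ℝ}

/-- twins have the same three positions -/
theorem pvn7_twin_pos (L : PvLoc T T' R) (P : PvslPos T T' R pos pos' Kr) {d : D} {d' : D'} (h : R d d') :
    pos (T.src d) = pos' (T'.src d') ∧ pos (T.tgt d) = pos' (T'.tgt d') ∧ pos (T.apex d) = pos' (T'.apex d') :=
  ⟨P.pos_eq d d' h, pvsl_pos_v P (pvloc_v_tgt L h), pvsl_pos_v P (pvloc_v_apex L h)⟩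

/-- twins are in the face box together -/
theorem pvn7_twin_box (L : PvLoc T T' R) (P : PvslPos T T' R pos pos' Kr) {d : D} {d' : D'} (h : R d d') : d ∈ pvlvBox T pos z r ↔ d' ∈ pvlvBox T' pos' z r := by
  obtain ⟨e1, e2, e3⟩ := pvn7_twin_pos L P h
  rw [pvzc_box_iff, pvzc_box_iff, e1, e2, e3]

theorem pvn7_twin_bw (L : PvLoc T T' R) (hs : ∀ d d', R d d' → s (T.src d) = s' (T'.src d')) {d : D} {d' : D'} (h : R d d') (hbw : pvasBW T s d) : pvasBW T' s' d' :=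
  ⟨(hs d d' h).symm.trans hbw.1, (pvloc_v_col hs (pvloc_v_tgt L h)).symm.trans hbw.2⟩

theorem pvn7_col_not (hs : ∀ d d', R d d' → s (T.src d) = s' (T'.src d')) : ∀ d d', R d d' → pvasNot s (T.src d) = pvasNot s' (T'.src d') := fun d d' h => by
  unfold pvasNot
  rw [hs d d' h]

/-- a strand is shared up to (and including) its first exit of a face box placed in `Kr` -/
theorem pvn7_it (L : PvLoc T T' R) (P : PvslPos T T' R pos pos' Kr) (hs : ∀ d d', R d d' → s (T.src d) = s' (T'.src d')) (hK : pvwSq z r ⊆ Kr) {a : D} {a' : D'} (h : R a a')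
    (ha : pos (T.src a) ∈ pvwSq z r ∧ pos (T.tgt a) ∈ pvwSq z r) {n : ℕ} (hin : ∀ t, t < n → pvasIt T s a t ∈ pvlvBox T pos z r) : ∀ j, j ≤ n → R (pvasIt T s a j) (pvasIt T' s' a' j) :=
  pvsl_it L P hs h fun j _ hj => hK (pvwk_it_in (s := s) ha (fun i hi => (pvzc_box_iff.1 (hin i hi)).2.2) j hj).1

/-- **the first exit of the box is the same time on both surfaces** -/
theorem pvn7_hit (L : PvLoc T T' R) (P : PvslPos T T' R pos pos' Kr) (hs : ∀ d d', R d d' → s (T.src d) = s' (T'.src d')) (hK : pvwSq z r ⊆ Kr) {a : D} {a' : D'} (h : R a a')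
    (ha : pos (T.src a) ∈ pvwSq z r ∧ pos (T.tgt a) ∈ pvwSq z r) (hex : ∃ t, pvasIt T s a t ∉ pvlvBox T pos z r) :
    pvasHit T' s' a' (pvlvBox T' pos' z r)ᶜ = pvasHit T s a (pvlvBox T pos z r)ᶜ ∧
      ∀ j, j ≤ pvasHit T s a (pvlvBox T pos z r)ᶜ → R (pvasIt T s a j) (pvasIt T' s' a' j) := by
  have hex' : ∃ t, pvasIt T s a t ∈ (pvlvBox T pos z r)ᶜ := hex
  have hR := pvn7_it L P hs hK h ha (n := pvasHit T s a (pvlvBox T pos z r)ᶜ) fun t ht => not_not.1 (pvas_hit_min ht)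
  refine ⟨pvas_hit_eq (fun hb => pvas_hit_mem hex' ((pvn7_twin_box L P (hR _ le_rfl)).2 hb)) fun i hi => not_not.2 ?_, hR⟩
  exact (pvn7_twin_box L P (hR i hi.le)).1 (not_not.1 (pvas_hit_min hi))

/-- **ONE STRAND**: fewer than `n` steps up to the first exit of the box, unless the flag of the box is up ON THE OTHER SURFACE -/
theorem pvn7_cnt_one (L : PvLoc T T' R) (P : PvslPos T T' R pos pos' Kr) (hs : ∀ d d', R d d' → s (T.src d) = s' (T'.src d')) (hK : pvwSq z r ⊆ Kr) {a : D}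
    (ha : pos (T.src a) ∈ pvwSq z r ∧ pos (T.tgt a) ∈ pvwSq z r) (hbw : pvasBW T s a) (hex : ∃ t, pvasIt T s a t ∉ pvlvBox T pos z r) {α : ℝ} {n : ℕ} (hn : 0 < n)
    (hf : ¬ PvflStub T' pos' z r α n s') : pvlvCnt (pvlvZ T pos s a) α (pvasHit T s a (pvlvBox T pos z r)ᶜ) < n := by
  obtain ⟨a', h⟩ : a ∈ plDom R := pvsl_dart_src P (hK ha.1)
  obtain ⟨e, hR⟩ := pvn7_hit L P hs hK h ha hex
  have hex' : ∃ t, pvasIt T s a t ∈ (pvlvBox T pos z r)ᶜ := hex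
  have hex2 : ∃ t, pvasIt T' s' a' t ∉ pvlvBox T' pos' z r := ⟨_, fun hb => pvas_hit_mem hex' ((pvn7_twin_box L P (hR _ le_rfl)).2 hb)⟩
  have h1 := pvjl_cnt_lt (a := α) hn (pvn7_twin_bw L hs h hbw) hex2 hf
  rw [e] at h1
  rwa [pvjl_cnt_congr (w := pvlvZ T pos s a) (w' := pvlvZ T' pos' s' a') fun t ht => P.pos_eq _ _ (hR t ht)]

/-- **`hcnt` OF E15 ON `T` FROM NOT FLAG1 ON `T'`** (flag of the box of the last level in use, both colourings; `2 n ≤ K0 + 2`) -/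
theorem pvn7_hcnt (hT : T.IsSph) (L : PvLoc T T' R) (P : PvslPos T T' R pos pos' Kr) (hs : ∀ d d', R d d' → s (T.src d) = s' (T'.src d')) {N : PvwNum} {h a δ : ℝ} {τ : PvwTy} {K0 : ℕ}
    (hN : PvzcNum N h τ a δ) (hK : pvwSq z (pvwRad N h τ K0) ⊆ Kr) {𝔊 : PvwSt T} (hg : 𝔊.Gate pos h z τ s)
    (hexP : ∃ t, pvasIt T s 𝔊.dp t ∉ pvlvBox T pos z (pvwRad N h τ K0)) (hexM : ∃ t, pvasIt T (pvasNot s) (T.opp 𝔊.dm) t ∉ pvlvBox T pos z (pvwRad N h τ K0))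
    {α : ℝ} {n : ℕ} (hn : 0 < n) (h2n : 2 * n ≤ K0 + 2)
    (hf : ¬ PvflStub T' pos' z (pvwRad N h τ K0) α n s') (hf' : ¬ PvflStub T' pos' z (pvwRad N h τ K0) α n (pvasNot s')) :
    pvlvCnt (pvlvZ T pos s 𝔊.dp) α (pvzcLv 𝔊 pos N h z τ s K0).np + pvlvCnt (pvlvZ T pos (pvasNot s) (T.opp 𝔊.dm)) α (pvzcLv 𝔊 pos N h z τ s K0).nm < K0 + 1 := by
  have hcore : ∀ v ∈ 𝔊.ins, pos v ∈ pvwSq z (pvwRad N h τ K0) := fun v hv => pvwk_core_sq hg (pvwk_rad_ge (N := N) hN.gate hN.h_pos.le hN.r1_nn K0) v (pvwk_ins_sub_core hg hv)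
  obtain ⟨g1, g2, g3, g4⟩ := pvwk_gate_ends hT hg
  have h1 := pvn7_cnt_one L P hs hK ⟨hcore _ g1, hcore _ g2⟩ hg.bw_p hexP (α := α) hn hf
  have h2 := pvn7_cnt_one L P (pvn7_col_not hs) hK (a := T.opp 𝔊.dm) (by rw [T.src_opp', T.tgt_opp]; exact ⟨hcore _ g4, hcore _ g3⟩) (pvas_bw_not.2 hg.bw_m) hexM (α := α) hn hf'
  have e1 : (pvzcLv 𝔊 pos N h z τ s K0).np = pvasHit T s 𝔊.dp (pvlvBox T pos z (pvwRad N h τ K0))ᶜ := rfl
  have e2 : (pvzcLv 𝔊 pos N h z τ s K0).nm = pvasHit T (pvasNot s) (T.opp 𝔊.dm) (pvlvBox T pos z (pvwRad N h τ K0))ᶜ := rfl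
  rw [e1, e2]
  omega

/-- **E15 ON `T` (where the rim is a circuit), FLAG1 READ ON `T'` (where the flags live)**: `hM`, `hcnt` and the exits are paid;   left: gate + rule, rim, shields -/
theorem pvn7_e15_loc (hT : T.IsSph) (hS : T.Simple) (L : PvLoc T T' R) (P : PvslPos T T' R pos pos' Kr) (hs : ∀ d d', R d d' → s (T.src d) = s' (T'.src d')) {N : PvwNum} {h a δ : ℝ} {τ : PvwTy} {K0 : ℕ}
    (hN : PvzcNum N h τ a δ) (hK0 : K0 ≤ N.K) (hF : Pvn7Fine T pos Kr δ) (hK : pvwSq z (pvwRad N h τ K0) ⊆ Kr) {𝔊 : PvwSt T} (hg : 𝔊.Gate pos h z τ s) (hi : 𝔊.Inmost pos h z τ s)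
    {BK : Set ℂ} (hsub : pvwSq z (pvwRad N h τ K0) ⊆ BK) {c : T.Cyc} {j : ℕ} (hc : PvzcRim 𝔊 pos s BK c j)
    {n : ℕ} (hn : 0 < n) (h2n : 2 * n ≤ K0 + 2) (hf : ¬ PvflStub T' pos' z (pvwRad N h τ K0) a n s') (hf' : ¬ PvflStub T' pos' z (pvwRad N h τ K0) a n (pvasNot s'))
    {Rm : ℝ} (hRm : Rm + τ.b * h + δ + N.rho * h / 4 ≤ 2 * τ.b2 * h) (hP : PvzwShP 𝔊 pos N h z τ s K0 Rm) (hMm : PvzwShM 𝔊 pos N h z τ s K0 Rm) :
    ∃ k, k ≤ K0 ∧ ∃ 𝔖 : PvwSt T, 𝔖.dsc = 𝔊.dsc ∧ 𝔖.S = 𝔊.S ∧ 𝔖.dp = 𝔊.dp ∧ 𝔖.dm = 𝔊.dm ∧ 𝔖.inn = 𝔊.inn ∧ 𝔖.ip = 𝔊.ip ∧ 𝔖.Stub pos (pvwSq z (pvwRad N h τ k)) s ∧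
      ∀ yp ym, PvzcTipP 𝔖 pos N h (z + (h : ℂ) * yp) → PvzcTipM 𝔖 pos N h (z + (h : ℂ) * ym) →
        𝔖.At pos N h z (pvzcTy τ k yp ym) s ∧ 𝔖.PinOf pos N h (z + (h : ℂ) * yp) (z + (h : ℂ) * ym) BK c j := by
  have hcore : ∀ v ∈ T.VOf 𝔊.S.Left, pos v ∈ pvwSq z (pvwRad N h τ K0) := fun v hv => pvwk_core_sq hg (pvwk_rad_ge (N := N) hN.gate hN.h_pos.le hN.r1_nn K0) v (pvwk_ins_sub_core hg hv)
  obtain ⟨tp, hp1, -⟩ := pvzc_follow_p hT hS hg (hc.mono hsub) hcore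
  obtain ⟨tm, hm1, -⟩ := pvzc_follow_m hT hS hg (hc.mono hsub) hcore
  rw [pvwk_back_it, T.src_opp'] at hm1
  exact pvzw_e15 hT hS hN hK0 hg hi (hF.zc hK) hsub hc
    (pvn7_hcnt hT L P hs hN hK hg ⟨tp, fun hb => hp1 (pvzc_box_iff.1 hb).1⟩ ⟨tm, fun hb => hm1 (pvzc_box_iff.1 hb).2.1⟩ hn h2n hf hf') hRm hP hMm

end counts

/-! ## 5. the two models: the plane of the sample, a completion -/

section model

variable {X : Type} {𝔅 : PvBulk X} {ω : PVSample} {x : ℂ} {R μ : ℝ}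

/-- **the plane of the sample is fine** -/
theorem pvn7_fine_plane {K : Set ℂ} (hF : L9Fine (pvxY ω) K μ) : Pvn7Fine (pvxT ω) (pvxPos ω) K μ := fun d hd => by
  have h1 := hF _ _ _ (delb_plane_face (Y := pvxY ω) d) (Or.inl hd)
  rw [Complex.dist_eq, Complex.dist_eq]
  exact ⟨h1.1, h1.2.1⟩

/-- **every completion is fine** on the ball of agreement.      POSITIONS OF A COMPLETION = `𝔅.posF Y (x + 7 R)` (the extra vertices at the far point), NOT `𝔅.pos Y` (junk `0` at the extra vertices: `PvzcMesh` is FALSE for it when `0` lies in the box). -/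
theorem pvn7_fine_bulk {Y : Set ℂ} (hR : 0 < R) (hOk : 𝔅.Ok Y (Metric.closedBall x (6 * R))) (hF : L9Fine Y (Metric.closedBall x (6 * R)) μ) :
    Pvn7Fine (𝔅.T Y) (𝔅.posF Y (x + 7 * R)) (Metric.closedBall x (6 * R)) μ := fun d hd => by
  obtain ⟨b, c, k1, k2, k3⟩ := hOk.del d _ (pvloc_posF hR (mem_closedBall_iff_norm.1 hd)) hd
  have h1 := hF _ _ _ k3 (Or.inl hd)
  rw [l9_posF_inl 𝔅 k1, l9_posF_inl 𝔅 k2, Complex.dist_eq, Complex.dist_eq]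
  exact ⟨h1.1, h1.2.1⟩

/-- producer of `PvzcMesh` on the plane of the sample -/
theorem pvn7_mesh_plane {z : ℂ} {r : ℝ} (hF : L9Fine (pvxY ω) (Metric.closedBall x (6 * R)) μ) (hzx : ‖z - x‖ ≤ 3 * R) (hr : 2 * r ≤ 3 * R) : PvzcMesh (pvxT ω) (pvxPos ω) z r μ :=
  (pvn7_fine_plane hF).zc (pvn7_sq_ball hzx hr)

/-- producer of `PvzcMesh` on a completion -/
theorem pvn7_mesh_bulk {Y : Set ℂ} {z : ℂ} {r : ℝ} (hR : 0 < R) (hOk : 𝔅.Ok Y (Metric.closedBall x (6 * R))) (hF : L9Fine Y (Metric.closedBall x (6 * R)) μ) (hzx : ‖z - x‖ ≤ 3 * R) (hr : 2 * r ≤ 3 * R) :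
    PvzcMesh (𝔅.T Y) (𝔅.posF Y (x + 7 * R)) z r μ :=
  (pvn7_fine_bulk hR hOk hF).zc (pvn7_sq_ball hzx hr)

theorem pvn7_zi (hR : 0 < R) : x + 7 * (R : ℂ) ∉ Metric.closedBall x (6 * R) := by
  rw [mem_closedBall_iff_norm, add_sub_cancel_left, norm_mul, Complex.norm_real, Real.norm_of_nonneg hR.le]
  have : ‖(7 : ℂ)‖ = 7 := by simp
  rw [this]
  linarith

/-- **THE LOCAL ISOMORPHISM completion ⟷ plane of record**, with positions and colours, over `Tr/Local` + `Tr/SealLoc` only (= `pvpn_bulk` of 66 without `Tr/LocalW`) -/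
theorem pvn7_bulk (hR : 0 < R) (hG : DelGood (pvxY ω)) (hOk : 𝔅.Ok (pvxY ω) (Metric.closedBall x (6 * R))) (ξ : X → Bool) :
    ∃ Rl : 𝔅.D (pvxY ω) → (delbPl (pvxY ω)).Dart → Prop, PvLoc (𝔅.T (pvxY ω)) (pvxT ω) Rl ∧
      PvslPos (𝔅.T (pvxY ω)) (pvxT ω) Rl (𝔅.posF (pvxY ω) (x + 7 * R)) (pvxPos ω) (Metric.closedBall x (6 * R)) ∧
      ∀ b d d', Rl d d' → pvlfFl b (𝔅.col (pvConf ω) ξ) ((𝔅.T (pvxY ω)).src d) = pvxCol ω b ((pvxT ω).src d') := by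
  unfold pvxT pvxCol pvxPos
  rw [delb_pl_eq hG]
  refine ⟨pvlocR 𝔅 hG _, pvloc_bulk hOk, ⟨fun d e hd => pvloc_posF_inl hd.1.1, fun v hv => ?_, fun v' hv' => pvloc_plane_int hOk hv'⟩, fun b d d' hd => ?_⟩
  · exact pvloc_bulk_int hOk (pvloc_posF hR (mem_closedBall_iff_norm.1 hv)) hv
  · unfold pvlfFl
    have e : 𝔅.col (pvConf ω) ξ ((𝔅.T (pvxY ω)).src d) = cfCol (pvConf ω) ((delPl hG).toMap.src d' : ℂ) := pvloc_bulk_col (delb_col 𝔅 (pvConf ω) ξ) d d' hd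
    exact congrArg (· == b) e

end model

/-! ## 6. the numbers of record (`PvxNums` of 73, `Exit/Par` v2) -/

section record

variable (N : PvxNums) (hN : N.Ok)

/-- the gate data of the types of record;   level, bit and centres free -/
def pvn7Ty (k : ℕ) (o : Bool) (yp ym : ℂ) : PvwTy := ⟨N.a1, N.b1, N.a2, N.b2, k, o, yp, ym⟩

theorem pvn7_eqns_cite2 : True := by
  have := @pvn7Ty.eq_1
  trivial

theorem pvn7_ty_zc (k k' : ℕ) (o : Bool) (yp ym yp' ym' : ℂ) : pvzcTy (pvn7Ty N k' o yp' ym') k yp ym = pvn7Ty N k o yp ym := rfl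

/-- the type of record of `t` -/
theorem pvn7_ty_rec (t : pvxTau N) : pvxoTy t = pvn7Ty N (pvxoK t) (pvxoO t) (pvxoYp t) (pvxoYm t) := rfl

theorem pvn7_rad_rec (h : ℝ) (k k' : ℕ) (o : Bool) (yp ym : ℂ) : pvwRad N.num h (pvn7Ty N k' o yp ym) k = N.rad k * h := rfl

include hN

/-- **producer of `PvzcNum` from `PvxNums.Ok`**: step `ρ₂ h / 4`, mesh `4 δ ≤ ρ₁ h`;   no further inequality between the numbers is needed -/
theorem pvn7_num_rec {h δ : ℝ} (h0 : 0 < h) (d0 : 0 ≤ δ) (hδ : 4 * δ ≤ N.rho1 * h) (k : ℕ) (o : Bool) (yp ym : ℂ) : PvzcNum N.num h (pvn7Ty N k o yp ym) (N.rho2 * h / 4) δ :=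
  pvn7_num (N := N.num) (τ := pvn7Ty N k o yp ym) h0 hN.rho0 hN.rho_lt_rho1 hN.rho1_lt_rho2 (by show N.b1 ≤ 2 * N.b2; linarith [hN.gap, hN.ab2, hN.b2_pos]) d0 hδ

/-- the debt `hRm` of `pvzw_e15`: shields of big radius `≤ b₂ h` are allowed -/
theorem pvn7_rm_rec {h δ : ℝ} (h0 : 0 < h) (hδ : δ ≤ h) (k : ℕ) (o : Bool) (yp ym : ℂ) :
    N.b2 * h + (pvn7Ty N k o yp ym).b * h + δ + N.num.rho * h / 4 ≤ 2 * (pvn7Ty N k o yp ym).b2 * h :=
  pvn7_rm (N := N.num) (τ := pvn7Ty N k o yp ym) h0 (by show N.rho ≤ 1; exact hN.rho_lt_one.le) hδ (by show N.b2 + N.b1 + 2 ≤ 2 * N.b2; linarith [hN.gap, hN.ab2])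

/-- every box of a level `k ≤ K` lies in the square `big` -/
theorem pvn7_rad_big {h : ℝ} (h0 : 0 < h) {k : ℕ} (hk : k ≤ N.K) : N.rad k * h ≤ N.big * h := by
  refine mul_le_mul_of_nonneg_right ?_ h0.le
  have := hN.rad_le hk
  unfold PvxNums.big
  linarith

/-- the boxes of the centres of `clB(x, 3R)` lie in the ball of agreement as soon as `2 big h ≤ 3 R` -/
theorem pvn7_box_ball {x z : ℂ} {R h : ℝ} (h0 : 0 < h) (hzx : ‖z - x‖ ≤ 3 * R) (hR : 2 * (N.big * h) ≤ 3 * R) {k : ℕ} (hk : k ≤ N.K) : pvwSq z (N.rad k * h) ⊆ Metric.closedBall x (6 * R) :=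
  pvn7_sq_ball hzx (by linarith [pvn7_rad_big N hN h0 hk])

/-- **(e) THE TYPE, at the menu of record**, abstract `(T, pos, s)` (plane or completion).      INPUT = the conclusion of E15 (`pvzw_e15`: stubs of level `k ≤ K0`, full state and pin for EVERY pair of centres of the tips), the mesh `20 δ ≤ ρ h` of the box,
two sets `Xp Xm` of the square `big` (= what the masks have to contain: erased banks, halves of the inner arc) at distance `> 2 (g + 1) ρ'' h`.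
OUTPUT = a type `t` of the menu with the prescribed level, colour and bits: full state and pin AT THE TYPE OF RECORD, black ends of the tip darts in the tip cells, `Xp Xm` in the masks.
E15 is used TWICE: at the black ends themselves (⟹ the two tips are `2 ρ h` apart = `hx` of `pvxo_cover`), then at the grid centres of the type. -/
theorem pvn7_type {V D : Type} {T : PvMap V D} {pos : V → ℂ} {s : V → Bool} (c : ℝ) {z : ℂ} {h δ : ℝ} (h0 : 0 < h) (d0 : 0 ≤ δ) (hδ : 20 * δ ≤ N.rho * h) {k : ℕ} (hk : k ≤ N.K0) (b o o2 : Bool) {y0 y1 : ℂ} {k' : ℕ}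
    {𝔖 : PvwSt T} (hM : PvzcMesh T pos z (N.rad k * h) δ) (hst : 𝔖.Stub pos (pvwSq z (N.rad k * h)) s) {Q : ℂ → ℂ → Prop}
    (hall : ∀ yp ym, PvzcTipP 𝔖 pos N.num h (z + (h : ℂ) * yp) → PvzcTipM 𝔖 pos N.num h (z + (h : ℂ) * ym) →
      𝔖.At pos N.num h z (pvzcTy (pvn7Ty N k' o y0 y1) k yp ym) s ∧ Q (z + (h : ℂ) * yp) (z + (h : ℂ) * ym))
    {Xp Xm : Set ℂ} (hXp : Xp ⊆ pvwSq z (N.big * h)) (hXm : Xm ⊆ pvwSq z (N.big * h)) (hfar : ∀ a ∈ Xp, ∀ b ∈ Xm, 2 * ((N.g : ℝ) + 1) * N.rho3 * h < ‖a - b‖) :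
    ∃ t : pvxTau N, pvxoK t = k ∧ (pvxParOf N hN c).col t = b ∧ pvxoO t = o ∧ pvxoO2 t = o2 ∧
      𝔖.At pos (pvxParOf N hN c).num h z ((pvxParOf N hN c).ty t) s ∧ Q (((pvxParOf N hN c).ty t).cp h z) (((pvxParOf N hN c).ty t).cm h z) ∧
      pos (T.src (𝔖.ep 𝔖.np)) ∈ pvxPl z h ((pvxParOf N hN c).cp t) ∧ pos (T.src (𝔖.em 𝔖.nm)) ∈ pvxPl z h ((pvxParOf N hN c).cm t) ∧
      Xp ⊆ pvxPl z h ((pvxParOf N hN c).Mp t) ∧ Xm ⊆ pvxPl z h ((pvxParOf N hN c).Mm t) := by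
  have hρh : 0 < N.rho * h := mul_pos hN.rho0 h0
  -- the two black ends are far from each other
  have hA := (hall _ _ (pvn7_tipP_bself (N := N.num) h0.ne' hM hst.1 d0 (by show 4 * δ ≤ N.rho * h; linarith)) (pvn7_tipM_bself (N := N.num) h0.ne' hM hst.2 d0 (by show 4 * δ ≤ N.rho * h; linarith))).1
  have hx := pvn7_ends_far hA (pvn7_unit h0.ne' z _)
  -- the menu
  obtain ⟨t, e1, e2, e3, e4, c1, c2, c3, c4, -, -⟩ := pvxo_cover N hN c h0 k hk b o o2 (xp := pos (T.src (𝔖.ep 𝔖.np))) (xm := pos (T.src (𝔖.em 𝔖.nm)))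
    ((pvn7_bd_p hM hst.1).trans (by linarith)) ((pvn7_bd_m hM hst.2).trans (by linarith)) hx hXp hXm hfar
  -- the grid centres of the type are centres of the tips
  have t1 : PvzcTipP 𝔖 pos N.num h (z + (h : ℂ) * pvxoYp t) := pvn7_tipP_b hM hst.1 d0 (pvxo_tip_p N hN c t h0 c1) (by show N.rho / 10 * h + δ ≤ N.rho * h / 4; linarith)
  have t2 : PvzcTipM 𝔖 pos N.num h (z + (h : ℂ) * pvxoYm t) := pvn7_tipM_b hM hst.2 d0 (pvxo_tip_m N hN c t h0 c2) (by show N.rho / 10 * h + δ ≤ N.rho * h / 4; linarith)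
  obtain ⟨a1, a2⟩ := hall _ _ t1 t2
  have ety : (pvxParOf N hN c).ty t = pvzcTy (pvn7Ty N k' o y0 y1) k (pvxoYp t) (pvxoYm t) := by
    rw [pvn7_ty_zc, ← e1, ← e3]
    rfl
  refine ⟨t, e1, e2, e3, e4, ?_, ?_, c1, c2, c3, c4⟩
  · rw [ety]; exact a1
  · rw [ety]; exact a2

end record

/-! ## 7. THE INSTANCE OF E15 AT A COMPLETION, numbers of record -/

section final

variable {X : Type} {𝔅 : PvBulk X} {ω : PVSample} {x z : ℂ} {R μ : ℝ} {m : ℕ}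

/-- **E15 AT A COMPLETION**, numbers of record, FLAG1 read on the plane of the sample.      PAID HERE: `hT hS hN hK0 hM hsub hcnt hRm` of `pvzw_e15`.
LEFT: the gate with its rule ON THE COMPLETION (3, 190), the rim (83: `PvzcRim`, `BK` = the largest box), the shields on the completion (112: `Tr/ShieldLoc`). -/
theorem pvn7_e15_bulk (N : PvxNums) (hN : N.Ok) (hR : 0 < R) (hG : DelGood (pvxY ω)) (hOk : 𝔅.Ok (pvxY ω) (Metric.closedBall x (6 * R))) (ξ : X → Bool) (b : Bool)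
    (hF : L9Fine (pvxY ω) (Metric.closedBall x (6 * R)) μ) (hμ0 : 0 ≤ μ) (hμ : 4 * μ ≤ N.rho1 * pvlmH m) (hzx : ‖z - x‖ ≤ 3 * R) (hbox : 2 * (N.big * pvlmH m) ≤ 3 * R)
    {k' : ℕ} {o : Bool} {y0 y1 : ℂ} {𝔊 : PvwSt (𝔅.T (pvxY ω))}
    (hg : 𝔊.Gate (𝔅.posF (pvxY ω) (x + 7 * R)) (pvlmH m) z (pvn7Ty N k' o y0 y1) (pvlfFl b (𝔅.col (pvConf ω) ξ)))
    (hi : 𝔊.Inmost (𝔅.posF (pvxY ω) (x + 7 * R)) (pvlmH m) z (pvn7Ty N k' o y0 y1) (pvlfFl b (𝔅.col (pvConf ω) ξ)))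
    {c : (𝔅.T (pvxY ω)).Cyc} {j : ℕ} (hc : PvzcRim 𝔊 (𝔅.posF (pvxY ω) (x + 7 * R)) (pvlfFl b (𝔅.col (pvConf ω) ξ)) (pvwSq z (N.rad N.K * pvlmH m)) c j)
    {n : ℕ} (hn : 0 < n) (h2n : 2 * n ≤ N.K0 + 2)
    (hf : ¬ PvflStub (pvxT ω) (pvxPos ω) z (N.rad N.K0 * pvlmH m) (N.rho2 * pvlmH m / 4) n (pvxCol ω b))
    (hf' : ¬ PvflStub (pvxT ω) (pvxPos ω) z (N.rad N.K0 * pvlmH m) (N.rho2 * pvlmH m / 4) n (pvasNot (pvxCol ω b)))
    (hP : PvzwShP 𝔊 (𝔅.posF (pvxY ω) (x + 7 * R)) N.num (pvlmH m) z (pvn7Ty N k' o y0 y1) (pvlfFl b (𝔅.col (pvConf ω) ξ)) N.K0 (N.b2 * pvlmH m))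
    (hMm : PvzwShM 𝔊 (𝔅.posF (pvxY ω) (x + 7 * R)) N.num (pvlmH m) z (pvn7Ty N k' o y0 y1) (pvlfFl b (𝔅.col (pvConf ω) ξ)) N.K0 (N.b2 * pvlmH m)) :
    ∃ k, k ≤ N.K0 ∧ ∃ 𝔖 : PvwSt (𝔅.T (pvxY ω)), 𝔖.dsc = 𝔊.dsc ∧ 𝔖.S = 𝔊.S ∧ 𝔖.dp = 𝔊.dp ∧ 𝔖.dm = 𝔊.dm ∧ 𝔖.inn = 𝔊.inn ∧ 𝔖.ip = 𝔊.ip ∧
      𝔖.Stub (𝔅.posF (pvxY ω) (x + 7 * R)) (pvwSq z (N.rad k * pvlmH m)) (pvlfFl b (𝔅.col (pvConf ω) ξ)) ∧
      ∀ yp ym, PvzcTipP 𝔖 (𝔅.posF (pvxY ω) (x + 7 * R)) N.num (pvlmH m) (z + (pvlmH m : ℂ) * yp) → PvzcTipM 𝔖 (𝔅.posF (pvxY ω) (x + 7 * R)) N.num (pvlmH m) (z + (pvlmH m : ℂ) * ym) →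
        𝔖.At (𝔅.posF (pvxY ω) (x + 7 * R)) N.num (pvlmH m) z (pvzcTy (pvn7Ty N k' o y0 y1) k yp ym) (pvlfFl b (𝔅.col (pvConf ω) ξ)) ∧
          𝔖.PinOf (𝔅.posF (pvxY ω) (x + 7 * R)) N.num (pvlmH m) (z + (pvlmH m : ℂ) * yp) (z + (pvlmH m : ℂ) * ym) (pvwSq z (N.rad N.K * pvlmH m)) c j := by
  have h0 := pvlm_H_pos m
  obtain ⟨Rl, L, P, hs⟩ := pvn7_bulk hR hG hOk ξ
  have hμh : μ ≤ pvlmH m := by nlinarith [hN.rho1_lt_rho2, hN.rho2_lt_one, hN.rho1_pos]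
  exact pvn7_e15_loc hOk.sph hOk.simple L P (hs b) (pvn7_num_rec N hN h0 hμ0 hμ k' o y0 y1) hN.K0_le (pvn7_fine_bulk hR hOk hF) (pvn7_box_ball N hN h0 hzx hbox hN.K0_le) hg hi
    (pvn7_sub (N := N.num) (τ := pvn7Ty N k' o y0 y1) z h0.le hN.rho1_pos.le hN.K0_le) hc hn h2n hf hf' (pvn7_rm_rec N hN h0 hμh k' o y0 y1) hP hMm

end final

end Claimed.Agent.R289
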