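-- KEEP
import Claimed.Agent.R289.Tr.SealLoc
import Claimed.Agent.R289.Tr.BlockP

/-!
# Row 289 (S0537, Cardy for Poisson-Voronoi), THE WALL, road E, file Tr/ShieldLoc : THE SHIELD IS CARRIED OVER      (owner helper112; prefix `pvzy_`, `Pvzy`)

WHAT.  Ruling W-6 of 208: "not FLAG2" is consumed by E15 (`Tr/GoodAll` : `PvzwShP`, `PvzwShM`; `Tr/Shield` of 165) as a SHIELD = a circuit `PvbpCirc T pos X y r R b s` round a tip, whose vertices in `X` have the
colour `b`.      The flags of road E live on the PLANE map of the sample, the rim and its half states live in a COMPLETION.      This file: the circuit is the SAME EVENT on two surfaces which share the open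
ball `B(y, R)`.

INDEPENDENT OF `Tr/Defs`, `Tr/LocalW`: stated over `PvLoc` (22, `Tr/Local`) + `PvslPos` (66, `Tr/SealLoc`).
* `pvzy_left_dom`  the closed disc of a cycle at radius `(r, R)` lies in the shared part
* **`pvzy_at`**    the twin cycle exists and is at the same radius
* **`pvzy_circ`**  `PvbpCirc` is carried over (`X' ` pulled back into `X` along twins); `pvzy_circ_iff`
-/

set_option autoImplicit false

namespace Claimed.Agent.R289

open Set

set_option linter.unusedSectionVars false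

variable {V D V' D' : Type} [DecidableEq V] [DecidableEq V']

section kit

variable {T : PvMap V D} {T' : PvMap V' D'} {R : D → D' → Prop} {pos : V → ℂ} {pos' : V' → ℂ} {Kr : Set ℂ} {s : V → Bool} {s' : V' → Bool}

/-- the closed disc of a cycle at radius `(r, Rr)` round `y` lies in the shared part as soon as the open ball `B(y, Rr)` does -/
theorem pvzy_left_dom (P : PvslPos T T' R pos pos' Kr) {y : ℂ} {r Rr : ℝ} (hB : Metric.ball y Rr ⊆ Kr) {c : T.Cyc} (h : PvaxAt T pos y r Rr c) : c.Left ⊆ plDom R := by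
  intro d hd
  refine pvsl_dart_src P (hB ?_)
  rw [Metric.mem_ball, dist_eq_norm]
  exact h.out _ ⟨d, hd, rfl⟩

/-- **a cycle at radius `(r, Rr)` round `y` is carried over** -/
theorem pvzy_at_twin (L : PvLoc T T' R) (P : PvslPos T T' R pos pos' Kr) {y : ℂ} {r Rr : ℝ} (hr : r < Rr) (hB : Metric.ball y Rr ⊆ Kr) {c : T.Cyc} {c' : T'.Cyc}
    (Q : PvLocCyc R c c') (h : PvaxAt T pos y r Rr c) : PvaxAt T' pos' y r Rr c' := by
  have hL := pvzy_left_dom P hB h
  refine ⟨?_, ?_, ?_⟩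
  · classical
    have : Nonempty D' := ⟨c'.e 0⟩
    choose! f hf using fun d (hd : d ∈ c.Left) => pvloc_left_fwd L Q hL hd
    refine (h.fin.image f).subset ?_
    intro d' hd'
    obtain ⟨d, h1, h2⟩ := pvloc_left_bwd L Q hL hd'
    exact ⟨d, h2, L.iso.fn (hf d h2).1 h1⟩
  · intro v' hv' d' hd'
    have h1 : pos' v' ∈ Kr := by
      refine hB ?_
      rw [Metric.mem_ball, dist_eq_norm]
      exact lt_of_le_of_lt hv' hr
    obtain ⟨d, hd⟩ := P.full' v' h1 d' hd'
    have h2 : pos (T.src d) = pos' v' := by rw [P.pos_eq d d' hd, hd']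
    exact (pvloc_left L Q hL hd).1 (h.inn (T.src d) (by rw [h2]; exact hv') d rfl)
  · rintro v' ⟨d', hd', rfl⟩
    obtain ⟨d, h1, h2⟩ := pvloc_left_bwd L Q hL hd'
    rw [← P.pos_eq d d' h1]
    exact h.out _ ⟨d, h2, rfl⟩

theorem pvzy_at (L : PvLoc T T' R) (P : PvslPos T T' R pos pos' Kr) (hT : T.IsSph) {y : ℂ} {r Rr : ℝ} (hr : r < Rr) (hB : Metric.ball y Rr ⊆ Kr) {c : T.Cyc}
    (h : PvaxAt T pos y r Rr c) : ∃ c' : T'.Cyc, PvLocCyc R c c' ∧ PvaxAt T' pos' y r Rr c' := by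
  obtain ⟨c', Q⟩ := pvloc_cyc_exists L c (fun k => pvzy_left_dom P hB h ((pl_jordan hT c).2.1 k))
  exact ⟨c', Q, pvzy_at_twin L P hr hB Q h⟩

/-- **THE SHIELD IS CARRIED OVER.**      `X'` is pulled back into `X` along twins (in the open ball). -/
theorem pvzy_circ (L : PvLoc T T' R) (P : PvslPos T T' R pos pos' Kr) (hT : T.IsSph) (hs : ∀ d d', R d d' → s (T.src d) = s' (T'.src d')) {y : ℂ} {r Rr : ℝ} (hr : r < Rr)
    (hB : Metric.ball y Rr ⊆ Kr) {X : Set V} {X' : Set V'} (hX : ∀ v v', pvlocV T T' R v v' → ‖pos v - y‖ < Rr → v' ∈ X' → v ∈ X) {b : Bool}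
    (h : PvbpCirc T pos X y r Rr b s) : PvbpCirc T' pos' X' y r Rr b s' := by
  obtain ⟨c, h1, h2⟩ := h
  obtain ⟨c', Q, h3⟩ := pvzy_at L P hT hr hB h1
  refine ⟨c', h3, ?_⟩
  rintro v' ⟨k, rfl⟩ hv'
  have h4 : pvlocV T T' R (T.src (c.e k)) (T'.src (c'.e k)) := pvloc_v_src (Q.e_rel k)
  have h5 : T.src (c.e k) ∈ c.verts := ⟨k, rfl⟩
  rw [← pvloc_v_col hs h4]
  exact h2 _ h5 (hX _ _ h4 (pvax_at_verts hT h1 h5).2 hv')

theorem pvzy_circ_iff (L : PvLoc T T' R) (P : PvslPos T T' R pos pos' Kr) (hT : T.IsSph) (hT' : T'.IsSph) (hs : ∀ d d', R d d' → s (T.src d) = s' (T'.src d')) {y : ℂ} {r Rr : ℝ}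
    (hr : r < Rr) (hB : Metric.ball y Rr ⊆ Kr) {X : Set V} {X' : Set V'} (hX : ∀ v v', pvlocV T T' R v v' → ‖pos v - y‖ < Rr → (v ∈ X ↔ v' ∈ X')) {b : Bool} :
    PvbpCirc T pos X y r Rr b s ↔ PvbpCirc T' pos' X' y r Rr b s' := by
  refine ⟨pvzy_circ L P hT hs hr hB (fun v v' h1 h2 h3 => (hX v v' h1 h2).2 h3), ?_⟩
  refine pvzy_circ L.symm P.symm hT' (fun d' d h => (hs d d' h).symm) hr hB (fun v' v h1 h2 h3 => ?_)
  have h4 : pvlocV T T' R v v' := pvloc_v_symm h1
  exact (hX v v' h4 (by rw [pvsl_pos_v P h4]; exact h2)).1 h3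

end kit

end Claimed.Agent.R289
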