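-- KEEP
import Claimed.Agent.R289.Tr.ShieldLoc
import Claimed.Agent.R289.Tr.LocalW
import Claimed.Agent.R289.Tr.GoodNumE
import Claimed.Agent.R289.Tr.PinEnc
import Claimed.Agent.R289.Exit.PinsE

/-!
# Row 289 (S0537, Cardy for Poisson-Voronoi), THE WALL, road E, file Tr/ShieldW : NOT FLAG2 ON THE PLANE ⟹ THE SHIELDS OF E15 ON A COMPLETION      (owner helper112; prefix `pvzy_`, `Pvzy`; continues `Tr/ShieldLoc`)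

E15 (`pvzw_e15`, `Tr/GoodAll`) runs on a COMPLETION (there the rim is a circuit with a finite wall) and consumes "not FLAG2" as `PvzwShP`, `PvzwShM`: every half state OF THE FAMILY `pvzcLv` has a shield.
The flag lives on the PLANE of the sample: `PvpjNF2` (121, `Exit/PinsE` v2.1, form W-6 of 208): EVERY plane half state has a shield.
PROOF: a half state of the completion has a plane twin (`pvlw_sp_exists`, `pvlw_atOut` of 22), its frozen sets are twins (`pvlw_fzOut`), the shield of the twin comes back (`pvzy_circ`, `Tr/ShieldLoc`).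
* sec. 1  abstract, over `PvLocP`: `pvzy_pos`, `pvzy_half_p`, `pvzy_half_m` (one half state), **`pvzy_shP`**, **`pvzy_shM`**
* sec. 2  the model: **`pvzy_shP_bulk`**, **`pvzy_shM_bulk`** (from `PvpjNF2`), **`pvzy_e15_bulk`** = `pvn7_e15_bulk` of 17 with FLAG1 := `PvpjNF1`, FLAG2 := `PvpjNF2`: LEFT = gate + rule on the completion, `PvzcRim`
STATUS: 0 sorry.
-/

set_option autoImplicit false
set_option linter.unusedSectionVars false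
set_option linter.unusedVariables false

namespace Claimed.Agent.R289

open Set Claims.C0465

/-! ## 1. abstract -/

section abs

variable {V D V' D' : Type} [DecidableEq V] [DecidableEq V'] {T : PvMap V D} {T' : PvMap V' D'} {R : D → D' → Prop} {pos : V → ℂ} {pos' : V' → ℂ} {Kr : Set ℂ} {s : V → Bool} {s' : V' → Bool}

theorem pvzy_pos (L : PvLocP T T' R pos pos' Kr) : PvslPos T T' R pos pos' Kr := ⟨L.pos_eq, fun v hv => (L.full v hv).1, fun v' hv' => (L.full' v' hv').1⟩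

/-- the radii of a circuit are ordered -/
theorem pvzy_circ_lt (hT : T.IsSph) {X : Set V} {y : ℂ} {r Rr : ℝ} {b : Bool} (h : PvbpCirc T pos X y r Rr b s) : r < Rr := by
  obtain ⟨c, h1, -⟩ := h
  have := pvax_at_verts hT h1 (v := T.src (c.e 0)) ⟨0, rfl⟩
  exact this.1.trans this.2

theorem pvzy_ball_sub {w y : ℂ} {a r Rm : ℝ} (hw : ‖w - y‖ ≤ a) (hr : r ≤ Rm) : Metric.ball y r ⊆ Metric.ball w (Rm + a) := fun u hu => by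
  rw [Metric.mem_ball, dist_eq_norm] at hu ⊢
  have h1 : u - w = (u - y) - (w - y) := by ring
  have h2 := norm_sub_le (u - y) (w - y)
  rw [h1]
  linarith

/-- **ONE EXIT HALF STATE**: the shield of the twin comes back -/
theorem pvzy_half_p (L : PvLocP T T' R pos pos' Kr) (hT : T.IsSph) (hT' : T'.IsSph) (hs : ∀ d d', R d d' → s (T.src d) = s' (T'.src d')) {𝔖 : PvwSt T} {N : PvwNum} {h : ℝ} {z : ℂ} {τ : PvwTy} {Rm : ℝ}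
    (hK : Metric.closedBall z (τ.b * h) ⊆ Kr) (hB : ∀ w ∈ pvwSq z (pvwRad N h τ τ.k), w ∈ Kr ∧ Metric.ball w (Rm + N.rho * h / 4) ⊆ Kr) (ha : 𝔖.AtOut pos N h z τ s)
    (hNF : ∀ 𝔖' : PvwSt T', 𝔖'.AtOut pos' N h z τ s' → ∃ r Rr, 2 * N.rho * h ≤ r ∧ Rr ≤ Rm ∧ PvbpCirc T' pos' (𝔖'.fzOut)ᶜ (τ.cp h z) r Rr false s') :
    ∃ r Rr, 2 * N.rho * h ≤ r ∧ Rr ≤ Rm ∧ PvbpCirc T pos (𝔖.fzOut)ᶜ (τ.cp h z) r Rr false s := by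
  obtain ⟨𝔖', G⟩ := pvlw_sp_exists L hK (fun w hw => (hB w hw).1) ha.gate ha.stub
  obtain ⟨r, Rr, h1, h2, h3⟩ := hNF 𝔖' (pvlw_atOut L hT hs G hK ha)
  refine ⟨r, Rr, h1, h2, pvzy_circ L.loc.symm (pvzy_pos L).symm hT' (fun d' d hd => (hs d d' hd).symm) (pvzy_circ_lt hT' h3) ?_ ?_ h3⟩
  · exact (pvzy_ball_sub ha.good.tip_p.1 h2).trans (hB _ (ha.stub.ep_in _ le_rfl).1).2
  · intro v' v hv _ hn hm
    exact hn (((pvlw_fzOut L.loc G).iff L.loc (pvloc_v_symm hv)).2 hm)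

/-- **ONE ENTRANCE HALF STATE** -/
theorem pvzy_half_m (L : PvLocP T T' R pos pos' Kr) (hT : T.IsSph) (hT' : T'.IsSph) (hs : ∀ d d', R d d' → s (T.src d) = s' (T'.src d')) {𝔖 : PvwSt T} {N : PvwNum} {h : ℝ} {z : ℂ} {τ : PvwTy} {Rm : ℝ}
    (hK : Metric.closedBall z (τ.b * h) ⊆ Kr) (hB : ∀ w ∈ pvwSq z (pvwRad N h τ τ.k), w ∈ Kr ∧ Metric.ball w (Rm + N.rho * h / 4) ⊆ Kr) (ha : 𝔖.AtIn pos N h z τ s)
    (hNF : ∀ 𝔖' : PvwSt T', 𝔖'.AtIn pos' N h z τ s' → ∃ r Rr, 2 * N.rho * h ≤ r ∧ Rr ≤ Rm ∧ PvbpCirc T' pos' (𝔖'.fzIn)ᶜ (τ.cm h z) r Rr false s') :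
    ∃ r Rr, 2 * N.rho * h ≤ r ∧ Rr ≤ Rm ∧ PvbpCirc T pos (𝔖.fzIn)ᶜ (τ.cm h z) r Rr false s := by
  obtain ⟨𝔖', G⟩ := pvlw_sm_exists L hK (fun w hw => (hB w hw).1) ha.gate ha.stub
  obtain ⟨r, Rr, h1, h2, h3⟩ := hNF 𝔖' (pvlw_atIn L hT hs G hK (fun w hw => (hB w hw).1) ha)
  refine ⟨r, Rr, h1, h2, pvzy_circ L.loc.symm (pvzy_pos L).symm hT' (fun d' d hd => (hs d d' hd).symm) (pvzy_circ_lt hT' h3) ?_ ?_ h3⟩
  · exact (pvzy_ball_sub ha.good.tip_m.1 h2).trans (hB _ (ha.stub.em_in _ le_rfl).1).2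
  · intro v' v hv _ hn hm
    exact hn (((pvlw_fzIn L.loc G).iff L.loc (pvloc_v_symm hv)).2 hm)

/-- **NOT FLAG2 ON `T'` ⟹ THE SHIELDS OF E15 ON `T`, exit side** -/
theorem pvzy_shP (L : PvLocP T T' R pos pos' Kr) (hT : T.IsSph) (hT' : T'.IsSph) (hs : ∀ d d', R d d' → s (T.src d) = s' (T'.src d')) {𝔊 : PvwSt T} {N : PvwNum} {h : ℝ} {z : ℂ} {τ : PvwTy} {K0 : ℕ} {Rm : ℝ}
    (hK : Metric.closedBall z (τ.b * h) ⊆ Kr) (hB : ∀ k, k ≤ K0 → ∀ w ∈ pvwSq z (pvwRad N h τ k), w ∈ Kr ∧ Metric.ball w (Rm + N.rho * h / 4) ⊆ Kr)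
    (hNF : ∀ k, k ≤ K0 → ∀ (yp ym : ℂ) (𝔖' : PvwSt T'), 𝔖'.AtOut pos' N h z (pvzcTy τ k yp ym) s' →
      ∃ r Rr, 2 * N.rho * h ≤ r ∧ Rr ≤ Rm ∧ PvbpCirc T' pos' (𝔖'.fzOut)ᶜ (z + (h : ℂ) * yp) r Rr false s') :
    PvzwShP 𝔊 pos N h z τ s K0 Rm := fun k hk yp ym ha =>
  pvzy_half_p (τ := pvzcTy τ k yp ym) L hT hT' hs hK (hB k hk) ha (hNF k hk yp ym)

/-- **NOT FLAG2 ON `T'` ⟹ THE SHIELDS OF E15 ON `T`, entrance side** -/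
theorem pvzy_shM (L : PvLocP T T' R pos pos' Kr) (hT : T.IsSph) (hT' : T'.IsSph) (hs : ∀ d d', R d d' → s (T.src d) = s' (T'.src d')) {𝔊 : PvwSt T} {N : PvwNum} {h : ℝ} {z : ℂ} {τ : PvwTy} {K0 : ℕ} {Rm : ℝ}
    (hK : Metric.closedBall z (τ.b * h) ⊆ Kr) (hB : ∀ k, k ≤ K0 → ∀ w ∈ pvwSq z (pvwRad N h τ k), w ∈ Kr ∧ Metric.ball w (Rm + N.rho * h / 4) ⊆ Kr)
    (hNF : ∀ k, k ≤ K0 → ∀ (yp ym : ℂ) (𝔖' : PvwSt T'), 𝔖'.AtIn pos' N h z (pvzcTy τ k yp ym) s' →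
      ∃ r Rr, 2 * N.rho * h ≤ r ∧ Rr ≤ Rm ∧ PvbpCirc T' pos' (𝔖'.fzIn)ᶜ (z + (h : ℂ) * ym) r Rr false s') :
    PvzwShM 𝔊 pos N h z τ s K0 Rm := fun k hk yp ym ha =>
  pvzy_half_m (τ := pvzcTy τ k yp ym) L hT hT' hs hK (hB k hk) ha (hNF k hk yp ym)

theorem pvzy_shP_mono {𝔊 : PvwSt T} {N : PvwNum} {h : ℝ} {z : ℂ} {τ : PvwTy} {K0 : ℕ} {Rm Rm' : ℝ} (hR : Rm ≤ Rm') (H : PvzwShP 𝔊 pos N h z τ s K0 Rm) : PvzwShP 𝔊 pos N h z τ s K0 Rm' := fun k hk yp ym ha => by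
  obtain ⟨r, Rr, h1, h2, h3⟩ := H k hk yp ym ha
  exact ⟨r, Rr, h1, h2.trans hR, h3⟩

theorem pvzy_shM_mono {𝔊 : PvwSt T} {N : PvwNum} {h : ℝ} {z : ℂ} {τ : PvwTy} {K0 : ℕ} {Rm Rm' : ℝ} (hR : Rm ≤ Rm') (H : PvzwShM 𝔊 pos N h z τ s K0 Rm) : PvzwShM 𝔊 pos N h z τ s K0 Rm' := fun k hk yp ym ha => by
  obtain ⟨r, Rr, h1, h2, h3⟩ := H k hk yp ym ha
  exact ⟨r, Rr, h1, h2.trans hR, h3⟩

end abs

/-! ## 2. the model -/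

section model

variable {X : Type} {𝔅 : PvBulk X} {ω : PVSample} {x : ℂ} {R μ : ℝ} {m : ℕ} {p : ℤ × ℤ}

/-- room: the boxes of the levels in use, fattened by `(1 + ρ/4) h`, lie in the ball of agreement -/
theorem pvzy_room (N : PvxNums) (hN : N.Ok) {z : ℂ} {h : ℝ} (h0 : 0 < h) (hzx : ‖z - x‖ ≤ 3 * R) (hbox : 2 * (N.big * h) ≤ 3 * R) {k : ℕ} (hk : k ≤ N.K0) {w : ℂ} (hw : w ∈ pvwSq z (N.rad k * h)) :
    w ∈ Metric.closedBall x (6 * R) ∧ Metric.ball w (h + N.rho * h / 4) ⊆ Metric.closedBall x (6 * R) := by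
  have h1 : ‖w - z‖ ≤ 2 * (N.rad k * h) := pvn7_sq_norm hw
  have h2 : N.rad k ≤ 2 * N.b2 + 3 := hN.rad_le (hk.trans hN.K0_le)
  have h3 : N.rad k * h ≤ (2 * N.b2 + 3) * h := mul_le_mul_of_nonneg_right h2 h0.le
  have h4 : N.rho * h ≤ h := by nlinarith [hN.rho_lt_one]
  have h5 : N.big * h = (2 * N.b2 + 3) * h + h := by unfold PvxNums.big; ring
  have h6 : 0 < N.rho * h := mul_pos hN.rho0 h0
  refine ⟨?_, fun u hu => ?_⟩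
  · rw [mem_closedBall_iff_norm]
    have e : w - x = (w - z) + (z - x) := by ring
    have := norm_add_le (w - z) (z - x)
    rw [e]
    linarith
  · rw [Metric.mem_ball, dist_eq_norm] at hu
    rw [mem_closedBall_iff_norm]
    have e : u - x = (u - w) + (w - z) + (z - x) := by ring
    have a1 := norm_add_le ((u - w) + (w - z)) (z - x)
    have a2 := norm_add_le (u - w) (w - z)
    rw [e]
    linarith

/-- **THE SHIELDS OF E15 ON A COMPLETION, exit side**, from `PvpjNF2` (plane of the sample) -/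
theorem pvzy_shP_bulk (N : PvxNums) (hN : N.Ok) (hR : 0 < R) (hG : DelGood (pvxY ω)) (hOk : 𝔅.Ok (pvxY ω) (Metric.closedBall x (6 * R))) (ξ : X → Bool) (b : Bool)
    (hzx : ‖l9Pt (pvlmH m) p - x‖ ≤ 3 * R) (hbox : 2 * (N.big * pvlmH m) ≤ 3 * R) (hNF : PvpjNF2 N m p ω) (k' : ℕ) (o : Bool) (y0 y1 : ℂ) (𝔊 : PvwSt (𝔅.T (pvxY ω))) :
    PvzwShP 𝔊 (𝔅.posF (pvxY ω) (x + 7 * R)) N.num (pvlmH m) (l9Pt (pvlmH m) p) (pvn7Ty N k' o y0 y1) (pvlfFl b (𝔅.col (pvConf ω) ξ)) N.K0 (N.b2 * pvlmH m) := by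
  classical
  have h0 := pvlm_H_pos m
  obtain ⟨Rl, L, hs⟩ := pvpn_bulk hR hG hOk ξ
  have hb2 : (1 : ℝ) ≤ N.b2 := by linarith [hN.m_gt, hN.m_lt, hN.B_lt, hN.ab1, hN.gap, hN.ab2]
  have hb1 : N.b1 * pvlmH m ≤ 3 * R := by
    have : N.b1 ≤ 2 * N.big := by unfold PvxNums.big; linarith [hN.gap, hN.ab2]
    nlinarith
  refine pvzy_shP_mono (by nlinarith) (pvzy_shP (Rm := pvlmH m) L hOk.sph (delb_plane_isSph hG) (hs b) (pvpn_ball_sub_ball hzx hb1) (fun k hk w hw => pvzy_room N hN h0 hzx hbox hk hw) ?_)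
  intro k hk yp ym 𝔖' ha
  exact (hNF b o k yp ym 𝔖' hk).1 ha

/-- **THE SHIELDS OF E15 ON A COMPLETION, entrance side** -/
theorem pvzy_shM_bulk (N : PvxNums) (hN : N.Ok) (hR : 0 < R) (hG : DelGood (pvxY ω)) (hOk : 𝔅.Ok (pvxY ω) (Metric.closedBall x (6 * R))) (ξ : X → Bool) (b : Bool)
    (hzx : ‖l9Pt (pvlmH m) p - x‖ ≤ 3 * R) (hbox : 2 * (N.big * pvlmH m) ≤ 3 * R) (hNF : PvpjNF2 N m p ω) (k' : ℕ) (o : Bool) (y0 y1 : ℂ) (𝔊 : PvwSt (𝔅.T (pvxY ω))) :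
    PvzwShM 𝔊 (𝔅.posF (pvxY ω) (x + 7 * R)) N.num (pvlmH m) (l9Pt (pvlmH m) p) (pvn7Ty N k' o y0 y1) (pvlfFl b (𝔅.col (pvConf ω) ξ)) N.K0 (N.b2 * pvlmH m) := by
  classical
  have h0 := pvlm_H_pos m
  obtain ⟨Rl, L, hs⟩ := pvpn_bulk hR hG hOk ξ
  have hb2 : (1 : ℝ) ≤ N.b2 := by linarith [hN.m_gt, hN.m_lt, hN.B_lt, hN.ab1, hN.gap, hN.ab2]
  have hb1 : N.b1 * pvlmH m ≤ 3 * R := by
    have : N.b1 ≤ 2 * N.big := by unfold PvxNums.big; linarith [hN.gap, hN.ab2]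
    nlinarith
  refine pvzy_shM_mono (by nlinarith) (pvzy_shM (Rm := pvlmH m) L hOk.sph (delb_plane_isSph hG) (hs b) (pvpn_ball_sub_ball hzx hb1) (fun k hk w hw => pvzy_room N hN h0 hzx hbox hk hw) ?_)
  intro k hk yp ym 𝔖' ha
  exact (hNF b o k yp ym 𝔖' hk).2 ha

/-- **E15 AT A COMPLETION FROM THE PLANE FLAGS** = `pvn7_e15_bulk` of 17 with FLAG1 := `PvpjNF1` (box of level `K0`, step `ρ₂ h / 4`), FLAG2 := `PvpjNF2`.      LEFT: the gate with its rule on the completion, the rim `PvzcRim`. -/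
theorem pvzy_e15_bulk (N : PvxNums) (hN : N.Ok) (hR : 0 < R) (hG : DelGood (pvxY ω)) (hOk : 𝔅.Ok (pvxY ω) (Metric.closedBall x (6 * R))) (ξ : X → Bool) (b : Bool)
    (hF : L9Fine (pvxY ω) (Metric.closedBall x (6 * R)) μ) (hμ0 : 0 ≤ μ) (hμ : 4 * μ ≤ N.rho1 * pvlmH m) (hzx : ‖l9Pt (pvlmH m) p - x‖ ≤ 3 * R) (hbox : 2 * (N.big * pvlmH m) ≤ 3 * R)
    {k' : ℕ} {o : Bool} {y0 y1 : ℂ} {𝔊 : PvwSt (𝔅.T (pvxY ω))}
    (hg : 𝔊.Gate (𝔅.posF (pvxY ω) (x + 7 * R)) (pvlmH m) (l9Pt (pvlmH m) p) (pvn7Ty N k' o y0 y1) (pvlfFl b (𝔅.col (pvConf ω) ξ)))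
    (hi : 𝔊.Inmost (𝔅.posF (pvxY ω) (x + 7 * R)) (pvlmH m) (l9Pt (pvlmH m) p) (pvn7Ty N k' o y0 y1) (pvlfFl b (𝔅.col (pvConf ω) ξ)))
    {c : (𝔅.T (pvxY ω)).Cyc} {j : ℕ} (hc : PvzcRim 𝔊 (𝔅.posF (pvxY ω) (x + 7 * R)) (pvlfFl b (𝔅.col (pvConf ω) ξ)) (pvwSq (l9Pt (pvlmH m) p) (N.rad N.K * pvlmH m)) c j)
    {n : ℕ} (hn : 0 < n) (h2n : 2 * n ≤ N.K0 + 2) (hF1 : PvpjNF1 m p ω (2 * N.b2 + N.K0 * N.rho1) (N.rho2 / 4) n) (hF2 : PvpjNF2 N m p ω) :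
    ∃ k, k ≤ N.K0 ∧ ∃ 𝔖 : PvwSt (𝔅.T (pvxY ω)), 𝔖.dsc = 𝔊.dsc ∧ 𝔖.S = 𝔊.S ∧ 𝔖.dp = 𝔊.dp ∧ 𝔖.dm = 𝔊.dm ∧ 𝔖.inn = 𝔊.inn ∧ 𝔖.ip = 𝔊.ip ∧
      𝔖.Stub (𝔅.posF (pvxY ω) (x + 7 * R)) (pvwSq (l9Pt (pvlmH m) p) (N.rad k * pvlmH m)) (pvlfFl b (𝔅.col (pvConf ω) ξ)) ∧
      ∀ yp ym, PvzcTipP 𝔖 (𝔅.posF (pvxY ω) (x + 7 * R)) N.num (pvlmH m) (l9Pt (pvlmH m) p + (pvlmH m : ℂ) * yp) → PvzcTipM 𝔖 (𝔅.posF (pvxY ω) (x + 7 * R)) N.num (pvlmH m) (l9Pt (pvlmH m) p + (pvlmH m : ℂ) * ym) →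
        𝔖.At (𝔅.posF (pvxY ω) (x + 7 * R)) N.num (pvlmH m) (l9Pt (pvlmH m) p) (pvzcTy (pvn7Ty N k' o y0 y1) k yp ym) (pvlfFl b (𝔅.col (pvConf ω) ξ)) ∧
          𝔖.PinOf (𝔅.posF (pvxY ω) (x + 7 * R)) N.num (pvlmH m) (l9Pt (pvlmH m) p + (pvlmH m : ℂ) * yp) (l9Pt (pvlmH m) p + (pvlmH m : ℂ) * ym) (pvwSq (l9Pt (pvlmH m) p) (N.rad N.K * pvlmH m)) c j := by
  have e1 : N.rad N.K0 * pvlmH m = (2 * N.b2 + N.K0 * N.rho1) * pvlmH m := rfl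
  have e2 : N.rho2 * pvlmH m / 4 = N.rho2 / 4 * pvlmH m := by ring
  have e3 : pvasNot (pvxCol ω b) = pvxCol ω (!b) := by
    funext v
    cases b <;> simp [pvasNot, pvxCol]
  refine pvn7_e15_bulk N hN hR hG hOk ξ b hF hμ0 hμ hzx hbox hg hi hc hn h2n ?_ ?_ (pvzy_shP_bulk N hN hR hG hOk ξ b hzx hbox hF2 k' o y0 y1 𝔊) (pvzy_shM_bulk N hN hR hG hOk ξ b hzx hbox hF2 k' o y0 y1 𝔊)
  · rw [e1, e2]; exact hF1 b
  · rw [e1, e2, e3]; exact hF1 (!b)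

end model

end Claimed.Agent.R289
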