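import Claimed.Agent.R289.Tr.GoodLev
import Claimed.Agent.R289.Tr.Shield

/-!
# Row 289 (S0537, Cardy for Poisson-Voronoi), THE WALL, road E, node E15 = A GOOD LEVEL EXISTS, file Tr/GoodAll : THE TWO HALVES TOGETHER      (pen helper112; prefix `pvzw_`)

HALF A = `Tr/GoodLev` (112: levels, calm ⟹ (g1), pigeonhole = not FLAG1, no return into the gate);      HALF B = `Tr/Shield` (165: `pvsh_mouth`: ONE circuit round each tip whose fresh vertices are WHITE ⟹ (g3) + the mouth clauses).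
DETERMINISTIC, ABSTRACT `(T, pos, s)`: to be used on the map in which the rim `c` is a genuine `T.Cyc` with a finite wall (a completion).      Vocabulary = `Tr/Defs` v3 (FROZEN).

* `pvzw_circ_mono`      a circuit at radius `(r, R)` is a circuit at radius `(r', R')`, `r' ≤ r`, `R ≤ R'`
* `pvzw_far`            GEOMETRY: the core `B(z, b h)` is at distance `≥ Rm` from every centre of a tip (`Rm + b h + δ + ρ h / 4 ≤ 2 b₂ h`): the debt `hcp`, `hcm` of `pvsh_mouth` is paid here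
* `pvzw_mouth`          HALF B for a member of the family, shields of ANY radii `2 ρ h ≤ r`, `R ≤ Rm` (the two tips may use different scales `j`)
* **`pvzw_e15`**        E15: gate + rule + mesh + rim + counts (not FLAG1) + a shield at every half state of a level `k ≤ K0` (not FLAG2)  ⟹  some `k ≤ K0`, ONE state `𝔖`, and for EVERY pair of centres of its tips: `𝔖.At` and `𝔖.PinOf`
* **`pvzw_e15_net`**    the same with centres taken from a net `Y`;      `pvzw_shield_of_block` : a geometric block `PvbpGBlock` of 233 contains a shield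
CONSUMER: X3 = PIN EXISTS (126 / 66).
-/

set_option autoImplicit false
set_option linter.unusedSectionVars false
set_option linter.unusedVariables false

namespace Claimed.Agent.R289

open Set

variable {V D : Type} {T : PvMap V D} {pos : V → ℂ} {N : PvwNum} {h : ℝ} {z : ℂ} {τ : PvwTy} {s : V → Bool} {𝔊 : PvwSt T} {a δ : ℝ}

/-! ## 1. circuits, geometry -/

theorem pvzw_at_mono {y : ℂ} {r R r' R' : ℝ} {C : T.Cyc} (hr : r' ≤ r) (hR : R ≤ R') (h : PvaxAt T pos y r R C) : PvaxAt T pos y r' R' C :=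
  ⟨h.fin, fun v hv => h.inn v (hv.trans hr), fun v hv => (h.out v hv).trans_le hR⟩

theorem pvzw_circ_mono {X : Set V} {y : ℂ} {r R r' R' : ℝ} {b : Bool} (hr : r' ≤ r) (hR : R ≤ R') (h : PvbpCirc T pos X y r R b s) : PvbpCirc T pos X y r' R' b s := by
  obtain ⟨C, h1, h2⟩ := h
  exact ⟨C, pvzw_at_mono hr hR h1, h2⟩

/-- the sup-norm radius is at most the norm -/
theorem pvzw_rad_le (z x : ℂ) : pvlvRad z x ≤ ‖x - z‖ := max_le (Complex.abs_re_le_norm _) (Complex.abs_im_le_norm _)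

/-- the mesh at the apex of a dart with its source in the box -/
theorem pvzw_mesh_apex {r : ℝ} (hM : PvzcMesh T pos z r δ) {d : D} (hd : pos (T.src d) ∈ pvwSq z r) : dist (pos (T.apex d)) (pos (T.src d)) ≤ δ := by
  have h2 := hM (T.opp (T.nxt (T.nxt d)))
  rw [T.src_opp', T.tgt_opp, T.tgt_nxt, T.apex_nxt] at h2
  exact h2 hd

/-- **THE CORE IS FAR FROM THE CENTRES OF THE TIPS** -/
theorem pvzw_far {𝔖 : PvwSt T} (hg : 𝔖.Gate pos h z τ s) {y : ℂ} {d : D} {r η Rm : ℝ} (hsrc : ‖pos (T.src d) - y‖ ≤ η) (hax : pos (T.apex d) ∉ pvwSq z r)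
    (hmesh : dist (pos (T.apex d)) (pos (T.src d)) ≤ δ) (hR : Rm + τ.b * h + δ + η ≤ r) : ∀ v ∈ 𝔖.core, Rm ≤ ‖pos v - y‖ := by
  intro v hv
  have h1 : r < ‖pos (T.apex d) - z‖ := lt_of_lt_of_le (not_le.1 fun hle => hax (pvzc_sq_iff.2 hle)) (pvzw_rad_le z _)
  have h2 := pvwk_core_lt hg hv
  rw [Complex.dist_eq] at hmesh
  have h3 : ‖pos (T.apex d) - z‖ ≤ ‖pos (T.apex d) - pos (T.src d)‖ + ‖pos (T.src d) - y‖ + ‖pos v - y‖ + ‖pos v - z‖ := by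
    have e : pos (T.apex d) - z = (pos (T.apex d) - pos (T.src d)) + (pos (T.src d) - y) - (pos v - y) + (pos v - z) := by ring
    rw [e]
    refine (norm_add_le _ _).trans (add_le_add ((norm_sub_le _ _).trans (add_le_add (norm_add_le _ _) le_rfl)) le_rfl)
  linarith

/-! ## 2. half B for a member of the family -/

/-- **HALF B**, from the two half states and one shield at each tip (radii free) -/
theorem pvzw_mouth (hT : T.IsSph) (hS : T.Simple) (hN : PvzcNum N h τ a δ) {𝔖 : PvwSt T} {τ' : PvwTy} (hb : τ'.b = τ.b) (hb2 : τ'.b2 = τ.b2) {rM : ℝ} (hM : PvzcMesh T pos z rM δ) (hrM : pvwRad N h τ' τ'.k ≤ rM)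
    (hO : 𝔖.AtOut pos N h z τ' s) (hI : 𝔖.AtIn pos N h z τ' s) {BK : Set ℂ} (hsub : pvwSq z (pvwRad N h τ' τ'.k) ⊆ BK) {c : T.Cyc} {j : ℕ} (hc : PvzcRim 𝔖 pos s BK c j)
    {Rm : ℝ} (hRm : Rm + τ.b * h + δ + N.rho * h / 4 ≤ 2 * τ.b2 * h)
    {rp Rp rm Rm' : ℝ} (hrp : 2 * N.rho * h ≤ rp) (hRp : Rp ≤ Rm) (hp : PvbpCirc T pos (𝔖.fzOut)ᶜ (τ'.cp h z) rp Rp false s)
    (hrm : 2 * N.rho * h ≤ rm) (hRm' : Rm' ≤ Rm) (hm : PvbpCirc T pos (𝔖.fzIn)ᶜ (τ'.cm h z) rm Rm' false s) :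
    PvzcMouth 𝔖 pos N h (τ'.cp h z) (τ'.cm h z) BK c j := by
  classical
  have hrk : 2 * τ.b2 * h ≤ pvwRad N h τ' τ'.k := by
    rw [pvzc_rad_eq, hb2]
    have : 0 ≤ (τ'.k : ℝ) * (N.rho1 * h) := mul_nonneg (Nat.cast_nonneg _) (mul_nonneg hN.r1_nn hN.h_pos.le)
    linarith
  have hsq : pvwSq z (pvwRad N h τ' τ'.k) ⊆ pvwSq z rM := fun x hx => pvzc_sq_iff.2 ((pvzc_sq_iff.1 hx).trans hrM)
  have hcB : ∀ v ∈ 𝔖.core, pos v ∈ BK := fun v hv => hsub (pvwk_core_sq hO.gate (by rw [hb]; nlinarith [hN.gate, hN.h_pos]) v hv)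
  have hcp : ∀ v ∈ 𝔖.core, Rm ≤ ‖pos v - τ'.cp h z‖ :=
    pvzw_far (δ := δ) hO.gate hO.good.tip_p.1 hO.stub.ep_out (pvzw_mesh_apex hM (hsq (hO.stub.ep_in _ le_rfl).1)) (by rw [hb]; linarith)
  have hcm : ∀ v ∈ 𝔖.core, Rm ≤ ‖pos v - τ'.cm h z‖ := by
    refine pvzw_far (δ := δ) (η := N.rho * h / 4) (d := T.opp (𝔖.em 𝔖.nm)) hO.gate ?_ hI.stub.em_out (pvzw_mesh_apex hM ?_) (by rw [hb]; linarith)
    · rw [T.src_opp']; exact hI.good.tip_m.2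
    · rw [T.src_opp']; exact hsq (hI.stub.em_in _ le_rfl).2
  exact pvsh_mouth hT hS hO.gate hO.stub hI.stub hsub (pvwk_ins_sub_core hO.gate) hcB hc hc.fin (pvzw_circ_mono (min_le_left rp rm) hRp hp) (pvzw_circ_mono (min_le_right rp rm) hRm' hm)
    (le_min hrp hrm) hcp hcm

/-! ## 3. E15 -/

/-- **NOT FLAG2, exit side** at the levels `k ≤ K0` of the family: every exit half state has a shield round the centre of its tip -/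
def PvzwShP (𝔊 : PvwSt T) (pos : V → ℂ) (N : PvwNum) (h : ℝ) (z : ℂ) (τ : PvwTy) (s : V → Bool) (K0 : ℕ) (Rm : ℝ) : Prop :=
  ∀ k, k ≤ K0 → ∀ yp ym, (pvzcLv 𝔊 pos N h z τ s k).AtOut pos N h z (pvzcTy τ k yp ym) s →
    ∃ r R, 2 * N.rho * h ≤ r ∧ R ≤ Rm ∧ PvbpCirc T pos ((pvzcLv 𝔊 pos N h z τ s k).fzOut)ᶜ (z + (h : ℂ) * yp) r R false s

/-- **NOT FLAG2, entrance side** -/
def PvzwShM (𝔊 : PvwSt T) (pos : V → ℂ) (N : PvwNum) (h : ℝ) (z : ℂ) (τ : PvwTy) (s : V → Bool) (K0 : ℕ) (Rm : ℝ) : Prop :=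
  ∀ k, k ≤ K0 → ∀ yp ym, (pvzcLv 𝔊 pos N h z τ s k).AtIn pos N h z (pvzcTy τ k yp ym) s →
    ∃ r R, 2 * N.rho * h ≤ r ∧ R ≤ Rm ∧ PvbpCirc T pos ((pvzcLv 𝔊 pos N h z τ s k).fzIn)ᶜ (z + (h : ℂ) * ym) r R false s

theorem pvzw_eqns_cite : True := by
  have := @PvzwShP.eq_1; have := @PvzwShM.eq_1
  trivial

/-- the hypothesis `hB` of `pvzc_e15` from the shields -/
theorem pvzw_hB (hT : T.IsSph) (hS : T.Simple) (hN : PvzcNum N h τ a δ) {K0 : ℕ} (hM : PvzcMesh T pos z (pvwRad N h τ K0) δ)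
    {BK : Set ℂ} (hsub : pvwSq z (pvwRad N h τ K0) ⊆ BK) {c : T.Cyc} {j : ℕ} (hc : PvzcRim 𝔊 pos s BK c j)
    {Rm : ℝ} (hRm : Rm + τ.b * h + δ + N.rho * h / 4 ≤ 2 * τ.b2 * h) (hP : PvzwShP 𝔊 pos N h z τ s K0 Rm) (hMm : PvzwShM 𝔊 pos N h z τ s K0 Rm) :
    ∀ k, k ≤ K0 → ∀ yp ym, (pvzcLv 𝔊 pos N h z τ s k).AtOut pos N h z (pvzcTy τ k yp ym) s → (pvzcLv 𝔊 pos N h z τ s k).AtIn pos N h z (pvzcTy τ k yp ym) s →
      PvzcMouth (pvzcLv 𝔊 pos N h z τ s k) pos N h (z + (h : ℂ) * yp) (z + (h : ℂ) * ym) BK c j := by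
  intro k hk yp ym hO hI
  obtain ⟨rp, Rp, h1, h2, h3⟩ := hP k hk yp ym hO
  obtain ⟨rm, Rm', h4, h5, h6⟩ := hMm k hk yp ym hI
  have hrk : pvwRad N h τ k ≤ pvwRad N h τ K0 := pvzc_rad_mono hN hk
  exact pvzw_mouth (τ' := pvzcTy τ k yp ym) hT hS hN rfl rfl hM hrk hO hI (fun x hx => hsub (pvzc_sq_iff.2 ((pvzc_sq_iff.1 hx).trans hrk)))
    ⟨hc.rim, hc.black, hc.fin, hc.run, hc.leave⟩ hRm h1 h2 h3 h4 h5 h6

/-- **E15** (counts form): the two halves together -/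
theorem pvzw_e15 (hT : T.IsSph) (hS : T.Simple) (hN : PvzcNum N h τ a δ) {K0 : ℕ} (hK0 : K0 ≤ N.K) (hg : 𝔊.Gate pos h z τ s) (hi : 𝔊.Inmost pos h z τ s) (hM : PvzcMesh T pos z (pvwRad N h τ K0) δ)
    {BK : Set ℂ} (hsub : pvwSq z (pvwRad N h τ K0) ⊆ BK) {c : T.Cyc} {j : ℕ} (hc : PvzcRim 𝔊 pos s BK c j)
    (hcnt : pvlvCnt (pvlvZ T pos s 𝔊.dp) a (pvzcLv 𝔊 pos N h z τ s K0).np + pvlvCnt (pvlvZ T pos (pvasNot s) (T.opp 𝔊.dm)) a (pvzcLv 𝔊 pos N h z τ s K0).nm < K0 + 1)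
    {Rm : ℝ} (hRm : Rm + τ.b * h + δ + N.rho * h / 4 ≤ 2 * τ.b2 * h) (hP : PvzwShP 𝔊 pos N h z τ s K0 Rm) (hMm : PvzwShM 𝔊 pos N h z τ s K0 Rm) :
    ∃ k, k ≤ K0 ∧ ∃ 𝔖 : PvwSt T, 𝔖.dsc = 𝔊.dsc ∧ 𝔖.S = 𝔊.S ∧ 𝔖.dp = 𝔊.dp ∧ 𝔖.dm = 𝔊.dm ∧ 𝔖.inn = 𝔊.inn ∧ 𝔖.ip = 𝔊.ip ∧ 𝔖.Stub pos (pvwSq z (pvwRad N h τ k)) s ∧
      ∀ yp ym, PvzcTipP 𝔖 pos N h (z + (h : ℂ) * yp) → PvzcTipM 𝔖 pos N h (z + (h : ℂ) * ym) →
        𝔖.At pos N h z (pvzcTy τ k yp ym) s ∧ 𝔖.PinOf pos N h (z + (h : ℂ) * yp) (z + (h : ℂ) * ym) BK c j :=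
  pvzc_e15 hT hS hN hK0 hg hi hM hsub hc hcnt (pvzw_hB hT hS hN hM hsub hc hRm hP hMm)

/-- **E15** (counts form, centres from a net `Y`) -/
theorem pvzw_e15_net (hT : T.IsSph) (hS : T.Simple) (hN : PvzcNum N h τ a δ) {K0 : ℕ} (hK0 : K0 ≤ N.K) (hg : 𝔊.Gate pos h z τ s) (hi : 𝔊.Inmost pos h z τ s) (hM : PvzcMesh T pos z (pvwRad N h τ K0) δ)
    {BK : Set ℂ} (hsub : pvwSq z (pvwRad N h τ K0) ⊆ BK) {c : T.Cyc} {j : ℕ} (hc : PvzcRim 𝔊 pos s BK c j)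
    (hcnt : pvlvCnt (pvlvZ T pos s 𝔊.dp) a (pvzcLv 𝔊 pos N h z τ s K0).np + pvlvCnt (pvlvZ T pos (pvasNot s) (T.opp 𝔊.dm)) a (pvzcLv 𝔊 pos N h z τ s K0).nm < K0 + 1)
    {Y : Set ℂ} (hnet : ∀ x ∈ pvwSq z (pvwRad N h τ K0), ∃ y ∈ Y, ‖x - (z + (h : ℂ) * y)‖ ≤ N.rho * h / 4 - δ)
    {Rm : ℝ} (hRm : Rm + τ.b * h + δ + N.rho * h / 4 ≤ 2 * τ.b2 * h) (hP : PvzwShP 𝔊 pos N h z τ s K0 Rm) (hMm : PvzwShM 𝔊 pos N h z τ s K0 Rm) :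
    ∃ k, k ≤ K0 ∧ ∃ yp ∈ Y, ∃ ym ∈ Y, ∃ 𝔖 : PvwSt T, 𝔖.dsc = 𝔊.dsc ∧ 𝔖.S = 𝔊.S ∧ 𝔖.dp = 𝔊.dp ∧ 𝔖.dm = 𝔊.dm ∧ 𝔖.inn = 𝔊.inn ∧ 𝔖.ip = 𝔊.ip ∧
      𝔖.At pos N h z (pvzcTy τ k yp ym) s ∧ 𝔖.PinOf pos N h ((pvzcTy τ k yp ym).cp h z) ((pvzcTy τ k yp ym).cm h z) BK c j :=
  pvzc_e15_net hT hS hN hK0 hg hi hM hsub hc hcnt hnet (pvzw_hB hT hS hN hM hsub hc hRm hP hMm)

/-- a geometric block of 233 at the scale `ρ₀`, `j < J`, contains a shield: radii `16^(4j+2) ρ₀ ≥ ρ₀`, `5/4 · 16^(4j+3) ρ₀ ≤ 5/4 · 16^(4J) ρ₀` -/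
theorem pvzw_shield_of_block {X : Set V} {y : ℂ} {ρ₀ : ℝ} (h0 : 0 ≤ ρ₀) {J j : ℕ} (hj : j < J) (hb : PvbpGBlock T pos X y ρ₀ j s) :
    ∃ r R, ρ₀ ≤ r ∧ R ≤ 5 / 4 * ((16 : ℝ) ^ (4 * J) * ρ₀) ∧ PvbpCirc T pos X y r R false s := by
  refine ⟨_, _, ?_, ?_, hb.2⟩
  · have : (1 : ℝ) ≤ (16 : ℝ) ^ (4 * j + 2) := one_le_pow₀ (by norm_num)
    nlinarith
  · have : (16 : ℝ) ^ (4 * j + 3) ≤ (16 : ℝ) ^ (4 * J) := pow_le_pow_right₀ (by norm_num) (by omega)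
    nlinarith

end Claimed.Agent.R289
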