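-- KEEP CAPOK
import Claimed.Agent.R289.Tr.PinEK
import Claimed.Agent.R289.Tr.StKit

/-!
# Row 289 (S0537, Cardy for Poisson-Voronoi), THE WALL, road E, file Tr/PinEL : (d) OF X3 AT THE MODEL, ON THE RECORDS OF `Tr/Defs` v3      (helper152; sequel of `Tr/PinEK`; prefix `pvej_`)

DETERMINISTIC.      The twin of `pvzm_at_pin_sq` of 42 (`Tr/GoodMouth`, ONE map with a genuine rim) for an ENCODED rim `P ∈ pvhbAll x R ω` of ANY completion against the PLANE map of the sample: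

* `pvej_of_gate`  : `PvwSt.Gate` (v3) + the rim runs along the inner arc + the box `BK ⊆ ball x (4R)` contains the disc of the core   ⟹   the record `PvekM` of `Tr/PinEK`
* `pvej_esc_p` : the strand from the exit gate edge leaves every such box      (stubs and `off`: `Tr/PinOff` of 106)
* `pvej_at_pin`   : `AtOut` + `AtIn` + the two SEALED MOUTHS (`PvzmSealP`, `PvzmSealM` of 42, centres `τ.cp h z`, `τ.cm h z`, radii `2 ρ h < R'`) + explicit inequalities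
                    ⟹   `𝔖.At` (the clauses `far_p far_m` = (g3))   ∧   `PvxPinOf 𝔖 N h (τ.cp h z) (τ.cm h z) (pvwSq z rK) P j` (`Defs/TrModel` v4: `le run mouth_p mouth_m`)
* `pvej_mouth_p`, `pvej_mouth_m` : the two mouth clauses from ONE half state each
NO WALL LEMMA: everything comes from (K0)-(K3) of `Tr/PinEK` (clock of the completion read on the plane strand as long as the strand stays in the box).
-/

set_option autoImplicit false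

namespace Claimed.Agent.R289

open Set Claims.C0465

section model

variable {x z : ℂ} {R μ h : ℝ} {ω : PVSample} {P : PvbRim} {b : Bool} {τ : PvwTy} {𝔖 : PvwSt (pvxT ω)} {j : ℕ} {BK : Set ℂ}

/-- **GATE ⟹ THE RECORD OF `Tr/PinEK`** -/
theorem pvej_of_gate (hR : 0 < R) (hμ : μ ≤ R) (hG : DelGood (pvxY ω)) (hF : L9Fine (pvxY ω) (Metric.closedBall x (6 * R)) μ) (hP : P ∈ pvhbAll x R ω)
    (hg : 𝔖.Gate (pvxPos ω) h z τ (pvxCol ω b)) (hjl : j + 𝔖.inn.n < P.len) (hrun : ∀ i, i ≤ 𝔖.inn.n → P.v (j + i) = pvxPos ω (𝔖.inn.v i))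
    (hsub : BK ⊆ Metric.ball x (4 * R)) (hK : ∀ v, ‖pvxPos ω v - z‖ < τ.b * h → pvxPos ω v ∈ BK) :
    ∃ n₀, PvekM x R μ ω P b 𝔖.dm 𝔖.dp n₀ 𝔖.inn j BK := by
  have hT : (pvxT ω).IsSph := delb_plane_isSph hG
  obtain ⟨n₀, hit, hleft, hle⟩ := hg.strand
  obtain ⟨g1, -, -, -⟩ := pvwk_gate_ends hT hg
  refine ⟨n₀, hR, hμ, hG, hF, hP, hg.bw_m, hit, hle, ?_, hjl, hrun, hsub, fun i hi => hK _ ?_⟩
  · obtain ⟨jj, h0, hn, h1, -⟩ := hle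
    by_contra hcon
    have e0 : 𝔖.inn.n = 0 := by omega
    have h2 := (h1 𝔖.inn.n le_rfl).2.1
    rw [hn] at h2
    simp only at h2 h0
    rw [hit, e0, h0] at h2
    exact hg.ne h2.symm
  · rcases Nat.lt_or_ge i n₀ with h1 | h1
    · exact hg.inside _ ⟨_, hleft i h1, rfl⟩
    · have e : i = n₀ := by omega
      rw [e, hit]
      exact hg.inside _ g1

/-- a box of half side `rK`, `2 rK < R`, round a centre of `closedBall x (3R)` lies in `ball x (4R)` -/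
theorem pvej_sq_ball {rK : ℝ} (hzx : ‖z - x‖ ≤ 3 * R) (hrK : 2 * rK < R) : pvwSq z rK ⊆ Metric.ball x (4 * R) := by
  intro w hw
  rw [mem_ball_iff_norm]
  have h1 : ‖w - z‖ ≤ 2 * rK := (Complex.norm_le_abs_re_add_abs_im _).trans (by linarith [hw.1, hw.2])
  calc ‖w - x‖ = ‖(w - z) + (z - x)‖ := by ring_nf
    _ ≤ ‖w - z‖ + ‖z - x‖ := norm_add_le _ _
    _ < 4 * R := by linarith

/-- the strand from the exit gate edge leaves the box -/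
theorem pvej_esc_p (hR : 0 < R) (hμ : μ ≤ R) (hG : DelGood (pvxY ω)) (hF : L9Fine (pvxY ω) (Metric.closedBall x (6 * R)) μ) (hP : P ∈ pvhbAll x R ω)
    (hg : 𝔖.Gate (pvxPos ω) h z τ (pvxCol ω b)) (hjl : j + 𝔖.inn.n < P.len) (hrun : ∀ i, i ≤ 𝔖.inn.n → P.v (j + i) = pvxPos ω (𝔖.inn.v i))
    (hsub : BK ⊆ Metric.ball x (4 * R)) (hK : ∀ v, ‖pvxPos ω v - z‖ < τ.b * h → pvxPos ω v ∈ BK) :
    ∃ u, pvxPos ω ((pvxT ω).src (pvasIt (pvxT ω) (pvxCol ω b) 𝔖.dp u)) ∉ BK := by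
  obtain ⟨n₀, H⟩ := pvej_of_gate hR hμ hG hF hP hg hjl hrun hsub hK
  exact H.esc

end model

section final

variable {x z : ℂ} {R μ h R' rK : ℝ} {ω : PVSample} {P : PvbRim} {b : Bool} {τ : PvwTy} {N : PvwNum} {𝔖 : PvwSt (pvxT ω)} {j : ℕ}

/-- **E15, HALF B, AT THE MODEL**: half states + sealed mouths + an encoded rim of any completion along the inner arc ⟹ the full state and the pin in encoded form -/
theorem pvej_at_pin (hR : 0 < R) (hμ0 : 0 ≤ μ) (hμ : μ ≤ R) (hG : DelGood (pvxY ω)) (hF : L9Fine (pvxY ω) (Metric.closedBall x (6 * R)) μ) (hP : P ∈ pvhbAll x R ω) (hzx : ‖z - x‖ ≤ 3 * R)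
    (hO : 𝔖.AtOut (pvxPos ω) N h z τ (pvxCol ω b)) (hI : 𝔖.AtIn (pvxPos ω) N h z τ (pvxCol ω b))
    (hjl : j + 𝔖.inn.n < P.len) (hrun : ∀ i, i ≤ 𝔖.inn.n → P.v (j + i) = pvxPos ω (𝔖.inn.v i))
    (hSp : PvzmSealP (pvxT ω) (pvxPos ω) (pvxCol ω b) 𝔖.dp 𝔖.np (τ.cp h z) (2 * N.rho * h) R') (hSm : PvzmSealM (pvxT ω) (pvxPos ω) (pvxCol ω b) 𝔖.dm 𝔖.nm (τ.cm h z) (2 * N.rho * h) R')
    (hrR : 2 * N.rho * h < R') (hρ0 : 0 ≤ N.rho * h) (hn1 : τ.b * h + μ + N.rho * h / 4 + R' ≤ pvwRad N h τ τ.k) (hn2 : pvwRad N h τ τ.k + N.rho * h / 4 + R' ≤ rK) (hrK : 2 * rK < R) :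
    𝔖.At (pvxPos ω) N h z τ (pvxCol ω b) ∧ PvxPinOf 𝔖 N h (τ.cp h z) (τ.cm h z) (pvwSq z rK) P j := by
  have hT : (pvxT ω).IsSph := delb_plane_isSph hG
  have hR0 : 0 ≤ R' := by nlinarith
  have hg := hO.gate
  set r := pvwRad N h τ τ.k with hr
  have hrr : r ≤ rK := by linarith
  have hsub := pvej_sq_ball hzx hrK
  have hK : ∀ v, ‖pvxPos ω v - z‖ < τ.b * h → pvxPos ω v ∈ pvwSq z rK := fun v hv => pvzm_sq_of_norm (by linarith)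
  obtain ⟨n₀, H⟩ := pvej_of_gate hR hμ hG hF hP hg hjl hrun hsub hK
  obtain ⟨g1, -, g3, -⟩ := pvwk_gate_ends hT hg
  -- a site of the box is in the closed ball of the mesh
  have h6 : ∀ w ∈ pvwSq z r, w ∈ Metric.closedBall x (6 * R) := fun w hw =>
    Metric.ball_subset_closedBall (Metric.ball_subset_ball (by linarith) (hsub (pvzm_sq_mono hrr hw)))
  -- the two edges from the tip darts to the tip apexes
  have hμp : ‖pvxPos ω 𝔖.ap - pvxPos ω ((pvxT ω).src (𝔖.ep 𝔖.np))‖ ≤ μ :=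
    (hF _ _ _ (delb_plane_face (Y := pvxY ω) (𝔖.ep 𝔖.np)) (Or.inl (h6 _ (hO.stub.ep_in _ le_rfl).1))).2.1
  have hμm : ‖pvxPos ω 𝔖.am - pvxPos ω ((pvxT ω).src (𝔖.em 𝔖.nm))‖ ≤ μ := by
    have h1 := delb_plane_face (Y := pvxY ω) ((pvxT ω).opp (𝔖.em 𝔖.nm))
    have e : (delbPl (pvxY ω)).toMap.tgt ((pvxT ω).opp (𝔖.em 𝔖.nm)) = (pvxT ω).src (𝔖.em 𝔖.nm) := (pvxT ω).tgt_opp _
    rw [e] at h1
    exact (hF _ _ _ h1 (Or.inr (Or.inl (h6 _ (hI.stub.em_in _ le_rfl).1)))).2.2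
  -- the discs
  have hcp : ∀ v, ‖pvxPos ω v - z‖ < τ.b * h → R' ≤ ‖pvxPos ω v - τ.cp h z‖ := fun v hv => pvzm_disc_far hO.stub.ep_out hμp hO.good.tip_p.1 hn1 hv
  have hcm : ∀ v, ‖pvxPos ω v - z‖ < τ.b * h → R' ≤ ‖pvxPos ω v - τ.cm h z‖ := fun v hv => pvzm_disc_far hI.stub.em_out hμm hI.good.tip_m.1 hn1 hv
  have hKp : ∀ w : ℂ, ‖w - τ.cp h z‖ < R' → w ∈ pvwSq z rK := fun w hw => pvzm_ball_sq (hO.stub.ep_in _ le_rfl).1 hO.good.tip_p.1 hn2 hw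
  have hKm : ∀ w : ℂ, ‖w - τ.cm h z‖ < R' → w ∈ pvwSq z rK := fun w hw => pvzm_ball_sq (hI.stub.em_in _ le_rfl).1 hI.good.tip_m.1 hn2 hw
  -- the centres of the tip cells are deep in the patch
  have hyx : ∀ (p y : ℂ), p ∈ pvwSq z r → ‖p - y‖ ≤ N.rho * h / 4 → ‖y - x‖ + R' ≤ 4 * R := by
    intro p y hp hy
    have h1 : ‖p - z‖ ≤ 2 * r := (Complex.norm_le_abs_re_add_abs_im _).trans (by linarith [hp.1, hp.2])
    have h2 : ‖y - x‖ ≤ ‖p - y‖ + ‖p - z‖ + ‖z - x‖ := by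
      have e : y - x = -(p - y) + (p - z) + (z - x) := by ring
      rw [e]
      have a1 := norm_add_le (-(p - y) + (p - z)) (z - x)
      have a2 := norm_add_le (-(p - y)) (p - z)
      rw [norm_neg] at a2
      linarith
    linarith
  have hyp := hyx _ _ (hO.stub.ep_in _ le_rfl).1 hO.good.tip_p.1
  have hym := hyx _ _ (hI.stub.em_in _ le_rfl).1 hI.good.tip_m.1
  -- the two windows
  obtain ⟨m, Nn, hm1, hm2, hm3, hm4⟩ := hSp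
  obtain ⟨a, bb, hb1, hb2, hb3⟩ := hSm
  have hstP : ∀ u, u ≤ 𝔖.np → pvxPos ω ((pvxT ω).src (pvasIt (pvxT ω) (pvxCol ω b) 𝔖.dp u)) ∈ pvwSq z rK := by
    intro u hu
    rw [← hO.stub.ep_it u hu]
    exact pvzm_sq_mono hrr (hO.stub.ep_in u hu).1
  have hstM : ∀ t, t ≤ 𝔖.nm → pvxPos ω ((pvxT ω).src ((pvasBack (pvxT ω) (pvxCol ω b))^[t] 𝔖.dm)) ∈ pvwSq z rK := by
    intro t ht
    rw [← hI.stub.em_it t ht]
    exact pvzm_sq_mono hrr (hI.stub.em_in t ht).1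
  have hMp : ∀ u, u ≤ m + Nn - 1 → pvxPos ω ((pvxT ω).src (pvasIt (pvxT ω) (pvxCol ω b) 𝔖.dp u)) ∈ pvwSq z rK := by
    intro u hu
    rcases Nat.lt_or_ge 𝔖.np u with h1 | h1
    · have e : u = m + (u - m) := by omega
      rw [e]
      exact hKp _ (hm3 _ (by omega))
    · exact hstP u h1
  have hMm : ∀ t, t ≤ 𝔖.nm + a → pvxPos ω ((pvxT ω).src ((pvasBack (pvxT ω) (pvxCol ω b))^[t] 𝔖.dm)) ∈ pvwSq z rK := by
    intro t ht
    rcases Nat.lt_or_ge 𝔖.nm t with h1 | h1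
    · exact hKm _ (hb2 t (by omega) ht)
    · exact hstM t h1
  -- (g3)
  have hfp : ∀ v ∈ 𝔖.fzIn, 2 * N.rho * h < ‖pvxPos ω v - τ.cp h z‖ := by
    have key : ∀ i, i ≤ 𝔖.nm → ¬ (‖pvxPos ω ((pvxT ω).src (𝔖.em i)) - τ.cp h z‖ ≤ 2 * N.rho * h ∨ ‖pvxPos ω ((pvxT ω).tgt (𝔖.em i)) - τ.cp h z‖ ≤ 2 * N.rho * h) := by
      intro i hi hcon
      rw [hI.stub.em_it i hi] at hcon
      obtain ⟨i', hi', e⟩ := hm4 _ (pvek_bk_bw hg.bw_m i) hcon ⟨i, by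
        rw [pvek_it_bk hg.bw_m le_rfl, Nat.sub_self]
        exact hcp _ (hg.inside _ g3)⟩
      exact H.noloop hMp hstM (m + i') (by omega) i hi e.symm
    rintro v ((hv | ⟨i, hi, rfl⟩) | ⟨i, hi, rfl⟩)
    · exact lt_of_lt_of_le hrR (hcp v (pvwk_core_lt hg hv))
    · by_contra hcon
      exact key i hi (Or.inl (not_lt.1 hcon))
    · by_contra hcon
      exact key i hi (Or.inr (not_lt.1 hcon))
  have hfm : ∀ v ∈ 𝔖.fzOut, 2 * N.rho * h < ‖pvxPos ω v - τ.cm h z‖ := by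
    obtain ⟨u, hu⟩ := H.esc
    have hun : 𝔖.np < u := by
      by_contra hcon
      exact hu (hstP u (not_lt.1 hcon))
    have key : ∀ i, i ≤ 𝔖.np → ¬ (‖pvxPos ω ((pvxT ω).src (𝔖.ep i)) - τ.cm h z‖ ≤ 2 * N.rho * h ∨ ‖pvxPos ω ((pvxT ω).tgt (𝔖.ep i)) - τ.cm h z‖ ≤ 2 * N.rho * h) := by
      intro i hi hcon
      rw [hO.stub.ep_it i hi] at hcon
      obtain ⟨t, -, ht, e⟩ := hb3 _ (pvas_it_bw hg.bw_p i) hcon ⟨u - i, by
        rw [← pvas_it_add]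
        have e : i + (u - i) = u := by omega
        rw [e]
        by_contra hc
        exact hu (hKm _ (not_le.1 hc))⟩
      exact H.noloop hstP hMm i hi t ht e
    rintro v ((hv | ⟨i, hi, rfl⟩) | ⟨i, hi, rfl⟩)
    · exact lt_of_lt_of_le hrR (hcm v (pvwk_core_lt hg hv))
    · by_contra hcon
      exact key i hi (Or.inl (not_lt.1 hcon))
    · by_contra hcon
      exact key i hi (Or.inr (not_lt.1 hcon))
  refine ⟨⟨hO, hI, hfp, hfm⟩, hjl, hrun, ?_, ?_⟩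
  · exact H.mouth_p hMp hrR hyp fun d hd h1 hk => by
      obtain ⟨i, hi, e⟩ := hm4 d hd (Or.inl h1) hk
      exact ⟨m + i, by omega, e⟩
  · exact H.mouth_m hMm hrR hym fun d hd h1 hk => by
      obtain ⟨t, -, ht, e⟩ := hb3 d hd (Or.inl h1) hk
      exact ⟨t, ht, e⟩

/-- the centre of a tip cell is deep in the patch -/
theorem pvej_ctr {p y : ℂ} {r u : ℝ} (hzx : ‖z - x‖ ≤ 3 * R) (hp : p ∈ pvwSq z r) (hy : ‖p - y‖ ≤ u) (hn : 2 * r + u + R' ≤ R) : ‖y - x‖ + R' ≤ 4 * R := by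
  have h1 : ‖p - z‖ ≤ 2 * r := (Complex.norm_le_abs_re_add_abs_im _).trans (by linarith [hp.1, hp.2])
  have h2 : ‖y - x‖ ≤ ‖p - y‖ + ‖p - z‖ + ‖z - x‖ := by
    have e : y - x = -(p - y) + (p - z) + (z - x) := by ring
    rw [e]
    have a1 := norm_add_le (-(p - y) + (p - z)) (z - x)
    have a2 := norm_add_le (-(p - y)) (p - z)
    rw [norm_neg] at a2
    linarith
  linarith

/-- **MOUTH CLAUSE AT `y⁺`, AT THE MODEL**: the exit half state alone -/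
theorem pvej_mouth_p (hR : 0 < R) (hμ : μ ≤ R) (hG : DelGood (pvxY ω)) (hF : L9Fine (pvxY ω) (Metric.closedBall x (6 * R)) μ) (hP : P ∈ pvhbAll x R ω) (hzx : ‖z - x‖ ≤ 3 * R)
    (hO : 𝔖.AtOut (pvxPos ω) N h z τ (pvxCol ω b)) (hjl : j + 𝔖.inn.n < P.len) (hrun : ∀ i, i ≤ 𝔖.inn.n → P.v (j + i) = pvxPos ω (𝔖.inn.v i))
    (hSp : PvzmSealP (pvxT ω) (pvxPos ω) (pvxCol ω b) 𝔖.dp 𝔖.np (τ.cp h z) (2 * N.rho * h) R')
    (hrR : 2 * N.rho * h < R') (hρ0 : 0 ≤ N.rho * h) (hb : τ.b * h ≤ rK) (hn2 : pvwRad N h τ τ.k + N.rho * h / 4 + R' ≤ rK) (hrK : 2 * rK < R) :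
    ∃ B, j + 𝔖.inn.n + B < P.len ∧ (∀ i, i ≤ B → P.v (j + 𝔖.inn.n + i) ∈ pvwSq z rK) ∧ ∀ l, l ≤ P.len → (l ≤ j ∨ j + 𝔖.inn.n + B < l) → 2 * N.rho * h < ‖P.v l - τ.cp h z‖ := by
  have hR0 : 0 ≤ R' := by nlinarith
  obtain ⟨n₀, H⟩ := pvej_of_gate hR hμ hG hF hP hO.gate hjl hrun (pvej_sq_ball hzx hrK) (fun v hv => pvzm_sq_of_norm (by linarith))
  obtain ⟨m, Nn, hm1, hm2, hm3, hm4⟩ := hSp
  have hMp : ∀ u, u ≤ m + Nn - 1 → pvxPos ω ((pvxT ω).src (pvasIt (pvxT ω) (pvxCol ω b) 𝔖.dp u)) ∈ pvwSq z rK := by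
    intro u hu
    rcases Nat.lt_or_ge 𝔖.np u with h1 | h1
    · have e : u = m + (u - m) := by omega
      rw [e]
      exact pvzm_ball_sq (hO.stub.ep_in _ le_rfl).1 hO.good.tip_p.1 hn2 (hm3 _ (by omega))
    · rw [← hO.stub.ep_it u h1]
      exact pvzm_sq_mono (by linarith) (hO.stub.ep_in u h1).1
  exact H.mouth_p hMp hrR (pvej_ctr hzx (hO.stub.ep_in _ le_rfl).1 hO.good.tip_p.1 (by linarith)) fun d hd h1 hk => by
    obtain ⟨i, hi, e⟩ := hm4 d hd (Or.inl h1) hk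
    exact ⟨m + i, by omega, e⟩

/-- **MOUTH CLAUSE AT `y⁻`, AT THE MODEL**: the entrance half state alone -/
theorem pvej_mouth_m (hR : 0 < R) (hμ : μ ≤ R) (hG : DelGood (pvxY ω)) (hF : L9Fine (pvxY ω) (Metric.closedBall x (6 * R)) μ) (hP : P ∈ pvhbAll x R ω) (hzx : ‖z - x‖ ≤ 3 * R)
    (hI : 𝔖.AtIn (pvxPos ω) N h z τ (pvxCol ω b)) (hjl : j + 𝔖.inn.n < P.len) (hrun : ∀ i, i ≤ 𝔖.inn.n → P.v (j + i) = pvxPos ω (𝔖.inn.v i))
    (hSm : PvzmSealM (pvxT ω) (pvxPos ω) (pvxCol ω b) 𝔖.dm 𝔖.nm (τ.cm h z) (2 * N.rho * h) R')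
    (hrR : 2 * N.rho * h < R') (hρ0 : 0 ≤ N.rho * h) (hb : τ.b * h ≤ rK) (hn2 : pvwRad N h τ τ.k + N.rho * h / 4 + R' ≤ rK) (hrK : 2 * rK < R) :
    ∃ A, A < j ∧ (∀ i, i ≤ A → P.v (j - i) ∈ pvwSq z rK) ∧ ∀ l, l ≤ P.len → (l + A < j ∨ j + 𝔖.inn.n ≤ l) → 2 * N.rho * h < ‖P.v l - τ.cm h z‖ := by
  have hR0 : 0 ≤ R' := by nlinarith
  obtain ⟨n₀, H⟩ := pvej_of_gate hR hμ hG hF hP hI.gate hjl hrun (pvej_sq_ball hzx hrK) (fun v hv => pvzm_sq_of_norm (by linarith))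
  obtain ⟨a, bb, hb1, hb2, hb3⟩ := hSm
  have hMm : ∀ t, t ≤ 𝔖.nm + a → pvxPos ω ((pvxT ω).src ((pvasBack (pvxT ω) (pvxCol ω b))^[t] 𝔖.dm)) ∈ pvwSq z rK := by
    intro t ht
    rcases Nat.lt_or_ge 𝔖.nm t with h1 | h1
    · exact pvzm_ball_sq (hI.stub.em_in _ le_rfl).1 hI.good.tip_m.1 hn2 (hb2 t (by omega) ht)
    · rw [← hI.stub.em_it t h1]
      exact pvzm_sq_mono (by linarith) (hI.stub.em_in t h1).1
  exact H.mouth_m hMm hrR (pvej_ctr hzx (hI.stub.em_in _ le_rfl).1 hI.good.tip_m.1 (by linarith)) fun d hd h1 hk => by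
    obtain ⟨t, -, ht, e⟩ := hb3 d hd (Or.inl h1) hk
    exact ⟨t, ht, e⟩

end final

end Claimed.Agent.R289
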