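import Claimed.Agent.R289.Tr.GateBs
import Claimed.Agent.R289.Tr.GateFs
import Claimed.Agent.R289.Tr.LocalF
import Claimed.Agent.R289.Defs.TrModel

/-!
# Row 289 (S0537, Cardy for Poisson-Voronoi), THE WALL, road E, X3 (a), file Tr/PinGate : GATE OF A6 + ENCODED RIM  ⟹  STATE GATE + FIXED RULE + RUN, ON THE PLANE      (owner helper190; prefix `pvqg_`)

TARGET = the leaf `pvpe_gate` of `Tr/PinE.lean` (helper126), at `Tr/Defs` v3.      0 sorry.      ROUTE: the gate is found ON THE PLANE (`pvgfs_m_gate`, `Tr/GateFs`: face set of A6 + plane walk ⟹ record gate with `Left = pvgnHull`),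
the strand analysis is done IN THE COMPLETION, where the rim is a `T.Cyc` with `IsRim` (`pvdi_pass`, `pvgz_pass_rim_le` of helper260), and only circuits, strands and paths travel between the two surfaces (`Tr/Local` of helper22: NO transfer of `Inmost`, no `LocalW`).
The state gate is assembled by `pvgb_st`, `pvgb_frame_metric`, `pvgb_st_inmost` of helper3 (`Tr/GateBs`).

* sec. 1  model free (`PvLoc T T' R`): `pvqg_twin` (twin of a record gate), `pvqg_le` (`PvwLE` is carried over by twins),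
          **`pvqg_thru`** (A): `g : T.Gate s` whose inside + collar is shared, `c` a black rim of `T'` through the twins of `g⁻`, `g⁺`  ⟹  `g.Thru` ∧ `PvwLE T (bank of g.aIn) g.len y`, `y` = the twin in `T` of the arc `c.pth lo (hi - lo)`
* sec. 2  **`pvqg_core`** (B0): the Delaunay plane `(delbPl Y).toMap` against ANY surface `T'` which shares a region `K ⊇ clB(z, b h + μ)` with it
* sec. 3  `pvqg_bulk` (the dictionary plane ↔ completion, plane first), **`pvqg_gate`** = `pvpe_gate` (`PvpeRun`, `PvpeNoRet` unfolded; near returns asked in `clB(x, 3R)` only; `μ < h` STRICT; extra conclusions `j + ip ≤ k`, inner arc in the OPEN disc)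
-/

set_option autoImplicit false

namespace Claimed.Agent.R289

open Set Relation Claims.C0465

/-! ## 1. model free: a rim of a surface `T'` through a record gate of a surface `T` which shares the closed inside of the gate with `T'` -/

section abs

variable {V D V' D' : Type} {T : PvMap V D} {T' : PvMap V' D'} {R : D → D' → Prop} {s : V → Bool} {s' : V' → Bool}

/-- the twin of a record gate -/
theorem pvqg_twin (L : PvLoc T T' R) (hs : ∀ d d', R d d' → s (T.src d) = s' (T'.src d')) (g : T.Gate s) (hc : ∀ k, g.c.e k ∈ plDom R) :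
    ∃ g' : T'.Gate s', PvLocCyc R g.c g'.c ∧ g'.m = g.m := by
  obtain ⟨c', P⟩ := pvloc_cyc_exists L g.c hc
  refine ⟨⟨c', g.m, g.hm, by rw [P.n_eq]; exact g.hmn, fun i hi => ?_⟩, P, rfl⟩
  rw [← hs _ _ (P.e_rel i)]
  exact g.col i (P.n_eq ▸ hi)

/-- the last-exit decomposition is carried over by twins -/
theorem pvqg_le (L : PvLoc T T' R) {b : ℕ → V} {b' : ℕ → V'} {n : ℕ} (hb : ∀ i, i ≤ n → pvlocV T T' R (b i) (b' i)) {y : T.Pth} {y' : T'.Pth} (P : PvLocPth R y y')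
    (h : PvwLE T' b' n y') : PvwLE T b n y := by
  obtain ⟨j, h0, hn, h1, h2⟩ := h
  refine ⟨j, ?_, by rw [← P.n_eq]; exact hn, fun k hk => ?_, fun k hk => ?_⟩
  · exact pvloc_v_inj L (P.v_rel 0 (Nat.zero_le _)) (h0 ▸ hb 0 (Nat.zero_le _))
  · obtain ⟨a1, a2, a3⟩ := h1 k (by rw [P.n_eq]; exact hk)
    refine ⟨a1, pvloc_v_inj L (P.v_rel k hk) (a2 ▸ hb (j k) a1), fun i hi hin e => a3 i hi hin ?_⟩
    exact pvloc_v_fn L (hb i hin) (e ▸ hb (j k) a1)
  · obtain ⟨a1, -, -⟩ := h1 k (by rw [P.n_eq]; omega)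
    have a4 := h2 k (by rw [P.n_eq]; exact hk)
    have a5 : j k + 1 ≤ n := by
      by_contra hcon
      have e : j k = n := by omega
      obtain ⟨-, b2, -⟩ := h1 y'.n le_rfl
      obtain ⟨-, c2, -⟩ := h1 k (by rw [P.n_eq]; omega)
      have := y'.inj k y'.n (by rw [P.n_eq]; omega) le_rfl (by rw [b2, c2, hn, e])
      rw [P.n_eq] at this
      omega
    exact pvloc_v_inj L (P.v_rel (k + 1) hk) (a4 ▸ hb (j k + 1) a5)

/-- **(A) RIM OF A TWIN SURFACE ⟹ `Thru` + LAST-EXIT DECOMPOSITION**.      `g` = a record gate of `T` whose inside and collar are shared with `T'`;  `c` = a black rim of `T'`, cut at a vertex which has no twin in the closed inside of `g`,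
through the twins of `g⁻` (place `lo`) and `g⁺` (place `hi`), with a vertex strictly inside in between. -/
theorem pvqg_thru (L : PvLoc T T' R) (hT : T.IsSph) (hT' : T'.IsSph) (hS' : T'.Simple) (hs : ∀ d d', R d d' → s (T.src d) = s' (T'.src d'))
    (g : T.Gate s) (hfin : g.c.Left.Finite) (hL : g.c.Left ⊆ plDom R) (hcol : ∀ k, T.opp (g.c.e k) ∈ plDom R)
    {c : T'.Cyc} (hrim : c.IsRim s') (hb : ∀ i, s' (T'.src (c.e i)) = true) {lo k hi : ℕ} (h1 : lo < k) (h2 : k < hi) (h3 : hi < c.n)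
    (hlo : pvlocV T T' R g.vm (T'.src (c.e lo))) (hhi : pvlocV T T' R g.vp (T'.src (c.e hi)))
    {v : V} (hv : v ∈ T.Int g.c.Left) (hvk : pvlocV T T' R v (T'.src (c.e k)))
    (h0 : ∀ w, pvlocV T T' R w (T'.src (c.e 0)) → w ∉ T.VOf g.c.Left) :
    g.Thru ∧ ∃ y : T.Pth, PvLocPth R y (c.pth lo (hi - lo)) ∧ PvwLE T (fun i => T.src (pvasIt T s g.aIn i)) g.len y := by
  classical
  have hc : ∀ k, g.c.e k ∈ plDom R := fun k => hL ((pl_cyc_darts_iff hT g.c _).1 ⟨k, rfl⟩).1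
  obtain ⟨g', P, hm⟩ := pvqg_twin L hs g hc
  -- finiteness
  have hfin' : g'.c.Left.Finite := by
    let f : D → D' := fun d => if h : d ∈ plDom R then h.choose else g'.c.e 0
    refine (hfin.image f).subset fun d' hd' => ?_
    obtain ⟨d, hd, hdL⟩ := pvloc_left_bwd L P hL hd'
    have hmem : d ∈ plDom R := ⟨d', hd⟩
    refine ⟨d, hdL, ?_⟩
    show (if h : d ∈ plDom R then h.choose else g'.c.e 0) = d'
    rw [dif_pos hmem]
    exact L.iso.fn hmem.choose_spec hd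
  -- the passage in `T'`
  have hk' : T'.src (c.e k) ∈ T'.Int g'.c.Left := pvloc_left_int_fwd L hT' P hL hvk hv
  have h0' : T'.src (c.e 0) ∈ T'.Int g'.c.Leftᶜ := by
    intro d' hd' hd'L
    obtain ⟨d, hd, hdL⟩ := pvloc_left_bwd L P hL hd'L
    exact h0 (T.src d) ⟨d, d', hd, rfl, hd'⟩ ⟨d, hdL, rfl⟩
  obtain ⟨lo', hi', hp⟩ := pvdi_pass hT' (pvtg_pvg g') c hb (h2.trans h3) h0' hk'
  have evm : g'.vm = T'.src (c.e lo) := pvloc_v_fn L (pvloc_v_src (P.e_rel 0)) hlo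
  have evp : g'.vp = T'.src (c.e hi) := by
    have : pvlocV T T' R g.vp g'.vp := by
      have := pvloc_v_src (T := T) (T' := T') (P.e_rel g.m)
      unfold PvMap.Gate.vp
      rw [hm]
      exact this
    exact pvloc_v_fn L this hhi
  have l2 := hp.lo_lt
  have l3 := hp.lt_hi
  have l4 := hp.hi_lt
  have elo : lo' = lo := by
    have := hp.lo_X
    simp only [Finset.mem_insert, Finset.mem_singleton] at this
    rcases this with e | e
    · exact c.inj _ _ (by omega) (by omega) (e.trans evm)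
    · have := c.inj _ _ (by omega) (by omega) (e.trans evp)
      omega
  have ehi : hi' = hi := by
    have := hp.hi_X
    simp only [Finset.mem_insert, Finset.mem_singleton] at this
    rcases this with e | e
    · have := c.inj _ _ (by omega) (by omega) (e.trans evm)
      omega
    · exact c.inj _ _ (by omega) (by omega) (e.trans evp)
  subst elo ehi
  obtain ⟨hthru', hle'⟩ := pvgz_pass_rim_le hT' hS' g' hfin' hrim (hb 0) (pvgz_pass_of_di hT' g' hp evm evp)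
  -- the inner strands are twins
  obtain ⟨-, m2, m3⟩ := pvtg_len hT g hfin
  obtain ⟨-, -, m3'⟩ := pvtg_len hT' g' hfin'
  have hlen : g'.len = g.len := pvloc_hit L hT hs P hL hcol (P.e_rel 0)
  have hrel : ∀ j, j ≤ g.len → R (pvasIt T s g.aIn j) (pvasIt T' s' g'.aIn j) := pvloc_it_disc L hT hs hL hcol (P.e_rel 0) m2
  have hout : R g.aOut g'.aOut := by
    unfold PvMap.Gate.aOut
    rw [hm]
    exact L.iso.opp_rel (P.e_rel _) (hcol _)
  have hthru : g.Thru := by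
    unfold PvMap.Gate.Thru
    rw [← m3]
    have e1 := hrel g.len le_rfl
    rw [← hlen, m3', show pvasExit T' g'.c.Left s' g'.aIn = g'.aOut from hthru', hlen] at e1
    exact L.iso.inj e1 hout
  refine ⟨hthru, ?_⟩
  -- the twin of the arc
  have hn : (c.pth lo' (hi' - lo')).n = hi' - lo' := by
    show min (hi' - lo') (c.n - 1) = hi' - lo'
    omega
  have hdarts : ∀ i, i < (c.pth lo' (hi' - lo')).n → (c.pth lo' (hi' - lo')).e i ∈ plDom (fun d' d => R d d') := by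
    intro i hi
    rw [hn] at hi
    show c.e (lo' + i) ∈ plRan R
    apply pvloc_left_ran L P hL
    rcases Nat.eq_zero_or_pos i with rfl | hi0
    · refine (pl_left_face g'.c _).1 (hp.mid (lo' + 1) (by omega) (by omega) _ ?_)
      show T'.tgt (c.e (lo' + 0)) = _
      rw [c.chain]
    · exact hp.mid (lo' + i) (by omega) (by omega) _ rfl
  obtain ⟨y, Py⟩ := pvloc_pth_exists L.symm (c.pth lo' (hi' - lo')) (by rw [hn]; omega) hdarts
  refine ⟨y, Py.symm, pvqg_le L (b' := fun i => T'.src (pvasIt T' s' g'.aIn i)) (fun i hi => pvloc_v_src (hrel i hi)) Py.symm ?_⟩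
  rw [← hlen]
  exact hle'

end abs

/-! ## 2. the Delaunay plane against a surface which shares a region `K` with it -/

section core

variable {Y : Set ℂ} {V' D' : Type} {T' : PvMap V' D'} {Rl : (delbPl Y).Dart → D' → Prop} {s : Y → Bool} {s' : V' → Bool} {pos' : V' → ℂ} {K : Set ℂ} {z : ℂ} {h μ a b α β : ℝ}

set_option maxHeartbeats 1000000 in
/-- **(B0)**  a gate of A6 of the plane (face-set form) + a black rim `c` of a surface `T'` which shares the region `K ⊇ clB(z, b h + μ)` with the plane, cut beyond `clB(z, b h + μ)`, which passes within `h` of `z`, without `(μ, h)` near return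
in `clB(z, b h + μ)`   ⟹   gate data on the plane with `Gate`, `Inmost` (fixed rule), and `c` runs along the inner arc through the passage `k`. -/
theorem pvqg_core (hG : DelGood Y) (L : PvLoc (delbPl Y).toMap T' Rl) (hT' : T'.IsSph) (hS' : T'.Simple)
    (hs : ∀ d d', Rl d d' → s ((delbPl Y).toMap.src d) = s' (T'.src d'))
    (hpos : ∀ d d', Rl d d' → (((delbPl Y).toMap.src d : Y) : ℂ) = pos' (T'.src d'))
    (hfull : ∀ v : Y, (v : ℂ) ∈ K → v ∈ (delbPl Y).toMap.Int (plDom Rl)) (hfull' : ∀ v', pos' v' ∈ K → v' ∈ T'.Int (plRan Rl))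
    (hF : L9Fine Y K μ) (hK : Metric.closedBall z (b * h + μ) ⊆ K)
    (h0 : 0 < h) (hμ0 : 0 < μ) (hμ : μ < h) (ha : 10 ≤ a) (haα : a + 1 ≤ α) (hαβ : α < β) (hβb : β + 1 ≤ b)
    {c : T'.Cyc} (hrim : c.IsRim s') (hb : ∀ i, s' (T'.src (c.e i)) = true) (hcut : b * h + μ < ‖pos' (T'.src (c.e 0)) - z‖)
    (hNR : ∀ i i', i ≤ i' → i' ≤ c.n → ‖pos' (T'.src (c.e i)) - z‖ ≤ b * h + μ → ‖pos' (T'.src (c.e i')) - pos' (T'.src (c.e i))‖ ≤ μ →
      ∀ k, i ≤ k → k ≤ i' → ‖pos' (T'.src (c.e k)) - pos' (T'.src (c.e i))‖ ≤ h)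
    {k : ℕ} (hk : k ≤ c.n) (hkz : ‖pos' (T'.src (c.e k)) - z‖ ≤ h)
    (hA6 : ∃ G X, PvgGate (delbPl Y).toMap s true (pvdiB (delbPl Y).toMap Subtype.val z (α * h)) (pvdiB (delbPl Y).toMap Subtype.val z (β * h)) G X) :
    ∃ (𝔖 : PvwSt (delbPl Y).toMap) (o : Bool) (j : ℕ),
      (∀ τ : PvwTy, τ.a = a → τ.b = b → τ.o = o → 𝔖.Gate Subtype.val h z τ s ∧ 𝔖.Inmost Subtype.val h z τ s) ∧
      j + 𝔖.inn.n < c.n ∧ (∀ i, i ≤ 𝔖.inn.n → pos' (T'.src (c.e (j + i))) = (𝔖.inn.v i : ℂ)) ∧ j ≤ k ∧ k ≤ j + 𝔖.inn.n ∧ j + 𝔖.ip ≤ k ∧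
      ∀ i, i ≤ 𝔖.inn.n → ‖(𝔖.inn.v i : ℂ) - z‖ < b * h := by
  classical
  have hT := delb_plane_isSph hG
  set T := (delbPl Y).toMap with hTdef
  set p : ℕ → ℂ := fun i => pos' (T'.src (c.e i)) with hp
  have hb12 : 12 ≤ b := by linarith
  have hrb : h < b * h := by nlinarith
  have hposV : ∀ (v : Y) (v' : V'), pvlocV T T' Rl v v' → (v : ℂ) = pos' v' := by
    rintro v v' ⟨d, d', hd, rfl, rfl⟩
    exact hpos d d' hd
  -- mesh
  have htri : ∀ d : (delbPl Y).Dart, DelTri Y (T.src d : ℂ) (T.tgt d : ℂ) (T.apex d : ℂ) := fun d => delp_apex_spec d.2.1 d.2.2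
  have hmd : ∀ d : (delbPl Y).Dart, ((T.src d : ℂ) ∈ K ∨ (T.tgt d : ℂ) ∈ K) → ‖(T.tgt d : ℂ) - (T.src d : ℂ)‖ ≤ μ :=
    fun d hd => (hF _ _ _ (htri d) (hd.elim Or.inl fun h => Or.inr (Or.inl h))).1
  have hKz : ∀ w : ℂ, ‖w - z‖ ≤ b * h + μ → w ∈ K := fun w hw => hK (mem_closedBall_iff_norm.2 hw)
  -- shared darts of the rim
  have hsh : ∀ i, (p i ∈ K ∨ p (i + 1) ∈ K) → ∃ d, Rl d (c.e i) := by
    intro i hi
    rcases hi with hi | hi
    · exact hfull' _ hi _ rfl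
    · have : T'.nxt (c.e i) ∈ plRan Rl := hfull' _ hi _ (c.chain i)
      exact (L.iso.ran_face _).1 this
  have hstep : ∀ i, (p i ∈ K ∨ p (i + 1) ∈ K) → ‖p (i + 1) - p i‖ ≤ μ := by
    intro i hi
    obtain ⟨d, hd⟩ := hsh i hi
    have e1 : (T.src d : ℂ) = p i := hpos d _ hd
    have e2 : (T.tgt d : ℂ) = p (i + 1) := by
      have := hpos _ _ (L.iso.nxt hd)
      rw [show T'.src (T'.nxt (c.e i)) = T'.src (c.e (i + 1)) from c.chain i] at this
      exact this
    have := hmd d (by rw [e1, e2]; exact hi)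
    rwa [e1, e2] at this
  -- the window
  have hpn : p c.n = p 0 := by
    show pos' (T'.src (c.e c.n)) = _
    have := c.per 0
    rw [Nat.zero_add] at this
    rw [this]
  have hcut' : b * h + μ < ‖p 0 - z‖ := hcut
  have hkz' : ‖p k - z‖ ≤ h := hkz
  have hk0 : 0 < k := by
    rcases Nat.eq_zero_or_pos k with e | e
    · exfalso; rw [e] at hkz'; linarith
    · exact e
  have hkn : k < c.n := by
    rcases Nat.lt_or_ge k c.n with e | e
    · exact e
    · exfalso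
      have : k = c.n := le_antisymm hk e
      rw [this, hpn] at hkz'; linarith
  obtain ⟨A, -, hAk, hAo, hAin⟩ := pvb_last (p := fun i => b * h ≤ ‖p i - z‖) (a := 0) (b := k) (Nat.zero_le _) (by show b * h ≤ ‖p 0 - z‖; linarith)
  obtain ⟨B, hkB, hBn, hBo, hBin⟩ := pvb_first (p := fun i => b * h ≤ ‖p i - z‖) (a := k) (b := c.n) hkn.le (by show b * h ≤ ‖p c.n - z‖; rw [hpn]; linarith)
  have hAk' : A < k := lt_of_le_of_ne hAk (by rintro rfl; linarith)
  have hkB' : k < B := lt_of_le_of_ne hkB (by rintro rfl; linarith)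
  have hin : ∀ i, A < i → i < B → ‖p i - z‖ < b * h := fun i h1 h2 => by
    rcases Nat.lt_or_ge i k with h | h
    · exact not_le.1 (hAin i h1 h.le)
    · exact not_le.1 (hBin i h h2)
  have tri : ∀ u w : ℂ, ‖u - z‖ ≤ ‖w - z‖ + ‖u - w‖ := fun u w => by
    have := norm_add_le (w - z) (u - w)
    rwa [show w - z + (u - w) = u - z by ring] at this
  have hnear : ∀ i, A ≤ i → i ≤ B → ‖p i - z‖ ≤ b * h + μ := by
    intro i h1 h2
    rcases Nat.eq_or_lt_of_le h1 with e | e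
    · subst e
      have e1 := hin (A + 1) (by omega) (by omega)
      have e2 := hstep A (Or.inr (hKz _ (by linarith)))
      have e3 := tri (p A) (p (A + 1))
      rw [norm_sub_rev (p A) (p (A + 1))] at e3
      linarith
    · rcases Nat.eq_or_lt_of_le h2 with e' | e'
      · subst e'
        obtain ⟨B', rfl⟩ : ∃ B', i = B' + 1 := ⟨i - 1, by omega⟩
        have e1 := hin B' (by omega) (by omega)
        have e2 := hstep B' (Or.inl (hKz _ (by linarith)))
        have e3 := tri (p (B' + 1)) (p B')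
        linarith
      · have := hin i e e'
        linarith
  have hA0 : 0 < A := by
    rcases Nat.eq_zero_or_pos A with e | e
    · have := hnear A le_rfl (by omega)
      rw [e] at this; linarith
    · exact e
  set N := B - A with hN
  have hcpn : (c.pth A N).n = N := by
    show min N (c.n - 1) = N
    omega
  have hcpd : ∀ i, i < (c.pth A N).n → (c.pth A N).e i ∈ plDom (fun d' d => Rl d d') := by
    intro i hi
    rw [hcpn] at hi
    obtain ⟨d, hd⟩ := hsh (A + i) (Or.inl (hKz _ (hnear _ (by omega) (by omega))))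
    exact ⟨d, hd⟩
  obtain ⟨w, Pw⟩ := pvloc_pth_exists L.symm (c.pth A N) (by rw [hcpn]; omega) hcpd
  have hwn : w.n = N := Pw.n_eq.trans hcpn
  have hwv : ∀ i, i ≤ N → pvlocV T T' Rl (w.v i) (T'.src (c.e (A + i))) := fun i hi => pvloc_v_symm (Pw.v_rel i (by rw [hcpn]; exact hi))
  have hwp : ∀ i, i ≤ N → (w.v i : ℂ) = p (A + i) := fun i hi => hposV _ _ (hwv i hi)
  -- the gate of the fixed rule
  have hmesh : ∀ u v : Y, T.Adj u v → ‖(u : ℂ) - z‖ < b * h → ‖(v : ℂ) - (u : ℂ)‖ ≤ μ := by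
    rintro u v ⟨d, rfl, rfl⟩ hu
    exact hmd d (Or.inl (hKz _ (by linarith)))
  have ho : b * h ≤ ‖((T.src (w.e 0) : Y) : ℂ) - z‖ := by
    rw [w.src_e 0 (by omega), hwp 0 (Nat.zero_le _)]
    exact hAo
  have hadj : ∀ i, i < N → T.Adj (w.v i) (w.v (i + 1)) := fun i hi => ⟨w.e i, w.src_e i (by omega), w.tgt_e i (by omega)⟩
  have hblack : ∀ i, i ≤ N → s (w.v i) = true := fun i hi => by rw [pvloc_v_col hs (hwv i hi)]; exact hb _
  have hinj : ∀ i l, i < N → l < N → w.v i = w.v l → i = l := fun i l hi hl e => w.inj i l (by omega) (by omega) e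
  have hkA : A + (k - A) = k := by omega
  have hpz : ‖(w.v (k - A) : ℂ) - z‖ ≤ h := by rw [hwp _ (by omega), hkA]; exact hkz'
  have hNR' : ¬ ∃ u i u', u < i ∧ i < u' ∧ u' ≤ N ∧ ‖(w.v u' : ℂ) - (w.v u : ℂ)‖ ≤ μ ∧ α * h - h ≤ ‖(w.v i : ℂ) - (w.v u : ℂ)‖ := by
    rintro ⟨u, i, u', h1, h2, h3, h4, h5⟩
    rw [hwp u' h3, hwp u (by omega)] at h4
    rw [hwp i (by omega), hwp u (by omega)] at h5
    have := hNR (A + u) (A + u') (by omega) (by omega) (hnear _ (by omega) (by omega)) h4 (A + i) (by omega) (by omega)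
    have : ‖p (A + i) - p (A + u)‖ ≤ h := this
    nlinarith
  obtain ⟨G, X, hg⟩ := hA6
  obtain ⟨g, k₁, k₂, hLeft, hI, hO, -, hk1, hk1', hk2, hk2', hvm, hvp⟩ := pvgfs_m_gate hG hg (ra := a * h) (rb := b * h) (μ := μ) (by nlinarith) (by nlinarith) (by nlinarith) hμ0.le
    hmesh ho (f := w.v) (N := N) (i₀ := k - A) (by omega) hadj hblack hinj (by rw [hwp 0 (Nat.zero_le _)]; exact hAo)
    (by rw [hwp N le_rfl, show A + N = B by omega]; exact hBo) (by omega) (ρ := h) hpz (by nlinarith) hNR'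
  -- the frame
  have hsep : ∀ u v : Y, T.Adj u v → ‖(u : ℂ) - z‖ < a * h → ‖(v : ℂ) - z‖ < b * h := by
    intro u v huv hu
    have e1 := hmesh u v huv (by nlinarith)
    have e2 := tri (v : ℂ) (u : ℂ)
    nlinarith
  have hFr : PvgnFr T (pvwI T Subtype.val z (a * h)) (pvwO T Subtype.val z (b * h)) (w.e 0) :=
    pvgy_m_frame hG (ra := a * h) (rb := b * h) (z := z) (by nlinarith) hsep (d₀ := w.e (k - A))
      (by rw [← hTdef, w.src_e _ (by omega)]; exact lt_of_le_of_lt hpz (by nlinarith)) ho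
  have hJ := (pl_jordan hT g.c).1
  have hIL : pvwI T Subtype.val z (a * h) ⊆ g.c.Left := by
    rintro d (hd | hd | hd)
    · exact hI hd d rfl
    · exact (pl_left_face g.c d).1 (hI hd _ rfl)
    · exact ((pl_left_face g.c).nxt2 T d).1 (hI hd _ rfl)
  have hLO : g.c.Left ⊆ pvwO T Subtype.val z (b * h) := by
    rintro d hdL (hd | hd | hd)
    · have := hO hd d rfl
      rw [hJ] at this
      exact this hdL
    · have := hO hd (T.nxt d) rfl
      rw [hJ] at this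
      exact this ((pl_left_face g.c d).2 hdL)
    · have := hO hd (T.nxt (T.nxt d)) rfl
      rw [hJ] at this
      exact this (((pl_left_face g.c).nxt2 T d).2 hdL)
  have hfin : g.c.Left.Finite := hFr.fin.subset hLO
  obtain ⟨m1, m2, m3⟩ := pvgb_frame_metric hT g.c hIL hLO
  -- the closed inside of the gate and its collar are shared
  have hL : g.c.Left ⊆ plDom Rl := fun d hd => hfull _ (hKz _ (by have := m3 _ ⟨d, hd, rfl⟩; linarith)) d rfl
  have hcol : ∀ i, T.opp (g.c.e i) ∈ plDom Rl := fun i => by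
    refine hfull (T.src (T.opp (g.c.e i))) (hKz _ ?_) _ rfl
    have := (m1 (T.src (T.opp (g.c.e i))) ⟨i + 1, by rw [T.src_opp', g.c.chain]⟩).2
    linarith
  -- the inner strand
  have hkk : A + k₁ < k := by omega
  obtain ⟨hthru, y, Py, hle⟩ := pvqg_thru L hT hT' hS' hs g hfin hL hcol hrim hb (lo := A + k₁) (k := k) (hi := A + k₂) (by omega) (by omega) (by omega)
    (by rw [hvm]; exact hwv _ (by omega)) (by rw [hvp]; exact hwv _ (by omega)) (v := w.v (k - A)) (hI (lt_of_le_of_lt hpz (by nlinarith)))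
    (by have := hwv (k - A) (by omega); rwa [hkA] at this)
    (fun u hu huL => by
      have e1 := m3 u huL
      rw [hposV u _ hu] at e1
      linarith)
  have hyn : y.n = k₂ - k₁ := by
    have e1 := Py.n_eq
    have e2 : (c.pth (A + k₁) (A + k₂ - (A + k₁))).n = k₂ - k₁ := by
      show min (A + k₂ - (A + k₁)) (c.n - 1) = k₂ - k₁
      omega
    omega
  have hyp : ∀ i, i ≤ y.n → (y.v i : ℂ) = p (A + k₁ + i) := fun i hi => hposV _ _ (Py.v_rel i hi)
  have hdisc : {v : Y | ‖(v : ℂ) - z‖ < b * h}.Finite := by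
    refine ((pvgy_ball_finite hG.lf z (b * h)).preimage Subtype.val_injective.injOn).subset fun v (hv : ‖(v : ℂ) - z‖ < b * h) => ⟨v.2, ?_⟩
    exact mem_closedBall_iff_norm.2 hv.le
  obtain ⟨ip, i1, i2, i3, i4⟩ := pvgb_st (pos := Subtype.val) (z := z) (h := h) hT g hfin hthru hle (a := a) (b := b) hdisc m1 m2 m3
    ⟨k - (A + k₁), by omega, by rw [hyp _ (by omega), show A + k₁ + (k - (A + k₁)) = k by omega]; exact hkz'⟩
  refine ⟨⟨{v : Y | ‖(v : ℂ) - z‖ < b * h}, g.c, g.aOut, g.aIn, y, ip, 0, fun _ => g.aOut, 0, fun _ => g.aIn⟩, decide (pvgbLex (g.vm : ℂ) (g.vp : ℂ)), A + k₁, ?_, ?_, ?_, ?_, ?_, ?_, ?_⟩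
  · intro τ ea eb eo
    refine ⟨i4 τ _ _ _ _ ea eb (by rw [eo]; exact decide_eq_true_iff), ?_⟩
    subst ea eb
    exact pvgb_st_inmost hFr hLeft
  · show A + k₁ + y.n < c.n
    omega
  · intro i hi
    exact (hyp i hi).symm
  · omega
  · show k ≤ A + k₁ + y.n
    omega
  · show A + k₁ + ip ≤ k
    by_contra hcon
    have e1 := i3 (k - (A + k₁)) (by omega)
    rw [hyp _ (by omega), show A + k₁ + (k - (A + k₁)) = k by omega] at e1
    linarith
  · intro i hi
    have hi' : i ≤ y.n := hi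
    show ‖(y.v i : ℂ) - z‖ < b * h
    rw [hyp i hi']
    exact hin _ (by omega) (by omega)

end core

/-! ## 3. at the model: the encoded rims of all completions -/

section inst

variable {x z : ℂ} {R μ h : ℝ} {ω : PVSample}

/-- the local isomorphism between the plane of record and a completion (plane first), positions, full vertices, colours -/
theorem pvqg_bulk {X : Type} {𝔅 : PvBulk X} (hR : 0 < R) (hG : DelGood (pvxY ω)) (hOk : 𝔅.Ok (pvxY ω) (Metric.closedBall x (6 * R))) (ξ : X → Bool) :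
    ∃ Rl : (delbPl (pvxY ω)).Dart → 𝔅.D (pvxY ω) → Prop, PvLoc (delbPl (pvxY ω)).toMap (𝔅.T (pvxY ω)) Rl ∧
      (∀ d d', Rl d d' → (((delbPl (pvxY ω)).toMap.src d : ↥(pvxY ω)) : ℂ) = 𝔅.posF (pvxY ω) (x + 7 * R) ((𝔅.T (pvxY ω)).src d')) ∧
      (∀ v : ↥(pvxY ω), (v : ℂ) ∈ Metric.closedBall x (6 * R) → v ∈ (delbPl (pvxY ω)).toMap.Int (plDom Rl)) ∧
      (∀ v', 𝔅.posF (pvxY ω) (x + 7 * R) v' ∈ Metric.closedBall x (6 * R) → v' ∈ (𝔅.T (pvxY ω)).Int (plRan Rl)) ∧
      ∀ b d d', Rl d d' → pvxCol ω b ((delbPl (pvxY ω)).toMap.src d) = pvlfFl b (𝔅.col (pvConf ω) ξ) ((𝔅.T (pvxY ω)).src d') := by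
  unfold pvxCol
  rw [delb_pl_eq hG]
  refine ⟨fun d d' => pvlocR 𝔅 hG (Metric.closedBall x (6 * R)) d' d, (pvloc_bulk hOk).symm, fun d d' hd => (pvloc_posF_inl hd.1.1).symm, fun v hv => pvloc_plane_int hOk hv,
    fun v' hv' => pvloc_bulk_int hOk (pvloc_posF hR (mem_closedBall_iff_norm.1 hv')) hv', fun b d d' hd => ?_⟩
  unfold pvlfFl
  have e : 𝔅.col (pvConf ω) ξ ((𝔅.T (pvxY ω)).src d') = cfCol (pvConf ω) ((delPl hG).toMap.src d : ℂ) := pvloc_bulk_col (delb_col 𝔅 (pvConf ω) ξ) d' d hd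
  exact (congrArg (· == b) e).symm

/-- **X3 (a) = `pvpe_gate` of `Tr/PinE`** (`PvpeRun`, `PvpeNoRet` unfolded; near returns asked in `clB(x, 3R)` only; `μ < h`). -/
theorem pvqg_gate {P : PvbRim} {b : Bool} {a b' α β : ℝ} (hR : 0 < R) (h0 : 0 < h) (hμ0 : 0 < μ) (hμ : μ < h) (ha : 10 ≤ a) (haα : a + 1 ≤ α) (hαβ : α < β) (hβb : β + 1 ≤ b')
    (hbR : 4 * (b' + 1) * h ≤ R) (hG : DelGood (pvxY ω)) (hF : L9Fine (pvxY ω) (Metric.closedBall x (6 * R)) μ) (hP : P ∈ pvhbAll x R ω)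
    (hNR : ∀ i i', i ≤ i' → i' ≤ P.len → ‖P.v i - x‖ ≤ 3 * R → ‖P.v i' - P.v i‖ ≤ μ → ∀ k, i ≤ k → k ≤ i' → ‖P.v k - P.v i‖ ≤ h)
    {k : ℕ} (hk : k ≤ P.len) (hkx : ‖P.v k - x‖ ≤ 2 * R) (hkz : ‖P.v k - z‖ ≤ h) (hb : b = cfCol (pvConf ω) (P.v k))
    (hA6 : ∃ G X, PvgGate (pvxT ω) (pvxCol ω b) true (pvdiB (pvxT ω) (pvxPos ω) z (α * h)) (pvdiB (pvxT ω) (pvxPos ω) z (β * h)) G X) :
    ∃ (𝔖 : PvwSt (pvxT ω)) (o : Bool) (j : ℕ),
      (∀ τ : PvwTy, τ.a = a → τ.b = b' → τ.o = o → 𝔖.Gate (pvxPos ω) h z τ (pvxCol ω b) ∧ 𝔖.Inmost (pvxPos ω) h z τ (pvxCol ω b)) ∧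
      (j + 𝔖.inn.n < P.len ∧ ∀ i, i ≤ 𝔖.inn.n → P.v (j + i) = pvxPos ω (𝔖.inn.v i)) ∧ j ≤ k ∧ k ≤ j + 𝔖.inn.n ∧ j + 𝔖.ip ≤ k ∧
      ∀ i, i ≤ 𝔖.inn.n → ‖pvxPos ω (𝔖.inn.v i) - z‖ < b' * h := by
  obtain ⟨X, -, 𝔅, ξ, -, hOk, c, hc, h4, rfl⟩ := hP
  obtain ⟨Rl, L, hpos, hfull, hfull', hcol⟩ := pvqg_bulk (x := x) hR hG hOk ξ
  have hb12 : 12 ≤ b' := by linarith
  have hbh : (b' + 2) * h ≤ R / 2 := by nlinarith
  set q : ℕ → ℂ := fun i => 𝔅.posF (pvxY ω) (x + 7 * R) ((𝔅.T (pvxY ω)).src (c.e i)) with hq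
  have hkx' : ‖q k - x‖ ≤ 2 * R := hkx
  have hkz' : ‖q k - z‖ ≤ h := hkz
  have h4' : 4 * R ≤ ‖q 0 - x‖ := h4
  have tri : ∀ u : ℂ, ‖u - x‖ ≤ ‖u - z‖ + (h + 2 * R) := fun u => by
    have e1 := norm_add_le (u - z) (z - x)
    rw [show u - z + (z - x) = u - x by ring] at e1
    have e2 := norm_add_le (-(q k - z)) (q k - x)
    rw [show -(q k - z) + (q k - x) = z - x by ring, norm_neg] at e2
    linarith
  have hK : Metric.closedBall z (b' * h + μ) ⊆ Metric.closedBall x (6 * R) := fun u hu => by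
    have e1 := mem_closedBall_iff_norm.1 hu
    have e2 := tri u
    exact mem_closedBall_iff_norm.2 (by nlinarith)
  -- the colour of the rim
  have hlabk : 𝔅.lab (pvxY ω) ((𝔅.T (pvxY ω)).src (c.e k)) = Sum.inl (q k) := pvloc_posF hR (hkx'.trans (by linarith))
  have hbl : ∀ i, pvlfFl b (𝔅.col (pvConf ω) ξ) ((𝔅.T (pvxY ω)).src (c.e i)) = true := fun i => pvlf_fl_eq.2 ((pl_rim_col hc i k).trans (by
    show Sum.elim (cfCol (pvConf ω)) ξ (𝔅.lab (pvxY ω) ((𝔅.T (pvxY ω)).src (c.e k))) = b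
    rw [hlabk, hb]
    rfl))
  obtain ⟨𝔖, o, j, e1, e2, e3, e4, e5, e6, e7⟩ := pvqg_core (s := pvxCol ω b) (s' := pvlfFl b (𝔅.col (pvConf ω) ξ)) (pos' := 𝔅.posF (pvxY ω) (x + 7 * R)) (z := z) (h := h) (μ := μ) (a := a) (b := b')
    (α := α) (β := β) hG L hOk.sph hOk.simple (hcol b) hpos hfull hfull' hF hK h0 hμ0 hμ ha haα hαβ hβb ((pvlf_rim_fl b).2 hc) hbl
    (by show b' * h + μ < ‖q 0 - z‖; have := tri (q 0); nlinarith)
    (fun i i' h1 h2 h3 h5 l l1 l2 => hNR i i' h1 h2 (by show ‖q i - x‖ ≤ 3 * R; have := tri (q i); have h3' : ‖q i - z‖ ≤ b' * h + μ := h3; nlinarith) h5 l l1 l2)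
    hk hkz hA6
  exact ⟨𝔖, o, j, e1, ⟨e2, e3⟩, e4, e5, e6, e7⟩

end inst

end Claimed.Agent.R289
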