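import Claimed.Agent.R289.Tr.StKit
import Claimed.Agent.R289.Pl.Bond
import Claimed.Agent.R289.Tr.BuLift

/-!
# Row 289 (S0537), THE WALL, road E, file Tr/PinOff : THE STUBS EXIST AND DO NOT COME BACK INTO THE GATE      (helper106; node `pvpe_off` of `Tr/PinE`, 126; prefix `pvof_`)

DETERMINISTIC.  Model free part: `T : PvMap V D`, `T.IsSph`.
A gate of record has exactly two entrances (`dm`, and the dart of `S` which leaves `g⁺`) and two exits (`dp`, and the opposite of the dart of `S` which arrives at `g⁻`).  The strand of `dm` goes out at `dp`, so the strand of the other entrance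
goes out at a position whose black end is `g⁻`.  Hence: a strand from `dp` which comes back into the gate visits `g⁻` before it leaves the closed inside of the gate again.
* `pvof_reenter`, `pvof_off` : face sets, strands (no circuit)
* `pvof_gate_in`, `pvof_gate_out`, `pvof_out_cases`, `pvof_in_cases` : the entrances and exits of a gate of record
* `pvof_off_p` : a time `tB` at which the strand from `dp` has an end outside the box, `g⁻` not visited up to `tB`   ⟹   `GoodOut.off_p`;      `pvof_off_m` : the same backwards from `dm`, `g⁺` not visited   ⟹   `GoodIn.off_m`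
* `pvof_off_p'`, `pvof_off_m'` : first exit forms;   `pvof_stub` : the stubs exist as soon as the strand leaves the box on both sides
* `pvof_leave_p`, `pvof_leave_m` : a strand which stays in the box for ever is periodic, so it visits its past = the other gate edge: THE STRAND LEAVES THE BOX as soon as "(W) as long as it stays in the box it does not visit the other gate vertex"
* AT THE MODEL: (W) = `pvof_W_p`, `pvof_W_m` from `pvbnk_model` of 28 (`Tr/BuLift`, closed);   **`pvof_model_stub`, `pvof_model_off`** = `pvpe_stub`, `pvpe_off` for any type `τ` and any box inside `B(x, 4R)`: NO "wall follows the rim" lemma is used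
-/

set_option autoImplicit false

namespace Claimed.Agent.R289

open Set Claims.C0465

variable {V D : Type} {T : PvMap V D}

section faces

variable {A : Set D} {s : V → Bool}

/-- a strand which has left `A` at `dout` and is again in `A` at time `i`: it came in at a time `i₀ ≤ i`, and it stays in `A` until a time `i'` at which its position is `Bad` (`Bad` = the entrance of `dout`, and all the other exits) -/
theorem pvof_reenter (hA : T.FaceSet A) (hfin : A.Finite) {din dout : D} {n : ℕ} (hin : pvasIn T A s din) (hn : pvasIt T s din n = dout) (hins : ∀ i, i < n → pvasIt T s din i ∈ A) (hout : dout ∉ A)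
    {Bad : D → Prop} (h1 : Bad din) (h2 : ∀ d, pvasOut T A s d → d = dout ∨ Bad d) {i : ℕ} (hi : pvasIt T s dout i ∈ A) :
    ∃ i₀ i', i₀ ≤ i ∧ i₀ ≤ i' ∧ Bad (pvasIt T s dout i') ∧ ∀ k, i₀ ≤ k → k < i' → pvasIt T s dout k ∈ A := by
  classical
  have hex : ∃ i, pvasIt T s dout i ∈ A := ⟨i, hi⟩
  have hbw : pvasBW T s dout := hn ▸ pvas_it_bw hin.2.2 n
  obtain ⟨m, hm⟩ : ∃ m, Nat.find hex = m + 1 := by
    refine ⟨Nat.find hex - 1, ?_⟩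
    have : Nat.find hex ≠ 0 := by
      intro h0
      have := Nat.find_spec hex
      rw [h0] at this
      exact hout this
    omega
  have hmem : pvasIt T s dout (m + 1) ∈ A := hm ▸ Nat.find_spec hex
  have hnot : pvasIt T s dout m ∉ A := Nat.find_min hex (by omega)
  have hle : m + 1 ≤ i := hm ▸ Nat.find_min' hex hi
  have hE : pvasIn T A s (pvasIt T s dout (m + 1)) := by
    refine ⟨hmem, ?_, pvas_it_bw hbw _⟩
    rw [pvas_it_succ, pvas_step_opp_mem hA]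
    exact hnot
  by_cases he : pvasIt T s dout (m + 1) = din
  · exact ⟨m + 1, m + 1, hle, le_rfl, he ▸ h1, fun k h3 h4 => by omega⟩
  · obtain ⟨-, g2, g3⟩ := pvas_exit_spec hA hfin hE
    refine ⟨m + 1, m + 1 + pvasHit T s (pvasIt T s dout (m + 1)) Aᶜ, hle, by omega, ?_, fun k h3 h4 => ?_⟩
    · rw [pvas_it_add]
      rcases h2 _ g3 with h5 | h5
      · exfalso
        apply he
        have h6 := (pvas_exit_eq (T := T) (s := s) (A := A) hins (hn ▸ hout)).2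
        rw [hn] at h6
        exact (pvas_exit_bij hA hfin s).2.1 hE hin (h5.trans h6.symm)
      · exact h5
    · obtain ⟨l, rfl⟩ := Nat.exists_eq_add_of_le h3
      rw [pvas_it_add]
      exact g2 l (by omega)

/-- **no return**: `Q` = "in the box";  `A` and the bad positions are in the box, the strand from `dout` is in the box up to time `np`, out of the box at time `tB`, never bad up to `tB` -/
theorem pvof_off (hA : T.FaceSet A) (hfin : A.Finite) {din dout : D} {n : ℕ} (hin : pvasIn T A s din) (hn : pvasIt T s din n = dout) (hins : ∀ i, i < n → pvasIt T s din i ∈ A) (hout : dout ∉ A)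
    {Bad Q : D → Prop} (h1 : Bad din) (h2 : ∀ d, pvasOut T A s d → d = dout ∨ Bad d) (hQA : ∀ d ∈ A, Q d) (hQB : ∀ d, Bad d → Q d)
    {tB np : ℕ} (hQ : ∀ i, i ≤ np → Q (pvasIt T s dout i)) (htB : ¬ Q (pvasIt T s dout tB)) (hno : ∀ u, u ≤ tB → ¬ Bad (pvasIt T s dout u)) :
    ∀ i, i ≤ np → pvasIt T s dout i ∉ A := by
  intro i hi hmem
  obtain ⟨i₀, i', g1, g2, g3, g4⟩ := pvof_reenter hA hfin hin hn hins hout h1 h2 hmem
  have h3 : np < tB := by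
    by_contra hc
    exact htB (hQ tB (by omega))
  rcases Nat.lt_or_ge i' tB with h4 | h4
  · exact hno i' h4.le g3
  · rcases Nat.lt_or_ge tB i' with h5 | h5
    · exact htB (hQA _ (g4 tB (by omega) h5))
    · have : tB = i' := by omega
      exact htB (this ▸ hQB _ g3)

end faces

section gate

variable {pos : V → ℂ} {s : V → Bool} {h : ℝ} {z : ℂ} {τ : PvwTy} {𝔖 : PvwSt T}

/-- the entry gate edge is an entrance of the inside of the gate -/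
theorem pvof_gate_in (hT : T.IsSph) (hg : 𝔖.Gate pos h z τ s) : pvasIn T 𝔖.S.Left s 𝔖.dm :=
  ⟨((pl_cyc_darts_iff hT 𝔖.S _).1 hg.dm_on).1, ((pl_cyc_darts_iff hT 𝔖.S _).1 hg.dm_on).2, hg.bw_m⟩

/-- the exit gate edge is an exit of the inside of the gate -/
theorem pvof_gate_out (hT : T.IsSph) (hg : 𝔖.Gate pos h z τ s) : pvasOut T 𝔖.S.Left s 𝔖.dp := by
  have := (pl_cyc_darts_iff hT 𝔖.S _).1 hg.dp_on
  rw [T.opp_opp] at this
  exact ⟨this.2, this.1, hg.bw_p⟩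

/-- the exits: `dp`, or a position at `g⁻` -/
theorem pvof_out_cases (hT : T.IsSph) (hg : 𝔖.Gate pos h z τ s) {d : D} (hd : pvasOut T 𝔖.S.Left s d) : d = 𝔖.dp ∨ T.src d = 𝔖.gm := by
  have h1 : T.opp d ∈ 𝔖.S.darts := (pl_cyc_darts_iff hT 𝔖.S _).2 ⟨hd.2.1, by rw [T.opp_opp]; exact hd.1⟩
  have h2 : T.src d ∈ 𝔖.S.verts := pl_cyc_edg_src 𝔖.S (Or.inr h1)
  rcases hg.two _ h2 hd.2.2.1 with h3 | h3
  · left
    obtain ⟨i, hi⟩ := hg.dp_on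
    have h4 : T.src d = T.src (𝔖.S.e (i + 1)) := by
      rw [h3, ← 𝔖.S.chain, hi, T.tgt_opp]
      rfl
    rcases pl_cyc_at 𝔖.S i h4 (Or.inr h1) with h5 | h5
    · exact absurd ((pl_cyc_darts_iff hT 𝔖.S _).1 ⟨i + 1, h5.symm⟩).1 hd.1
    · rw [h5, hi, T.opp_opp]
  · exact Or.inr h3

/-- the entrances: `dm`, or a position at `g⁺` -/
theorem pvof_in_cases (hT : T.IsSph) (hg : 𝔖.Gate pos h z τ s) {d : D} (hd : pvasIn T 𝔖.S.Left s d) : d = 𝔖.dm ∨ T.src d = 𝔖.gp := by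
  have h1 : d ∈ 𝔖.S.darts := (pl_cyc_darts_iff hT 𝔖.S _).2 ⟨hd.1, hd.2.1⟩
  have h2 : T.src d ∈ 𝔖.S.verts := pl_cyc_edg_src 𝔖.S (Or.inl h1)
  rcases hg.two _ h2 hd.2.2.1 with h3 | h3
  · exact Or.inr h3
  · left
    obtain ⟨i, rfl⟩ := h1
    obtain ⟨i', hi'⟩ := hg.dm_on
    rw [← hi']
    refine pl_cyc_eq_of_src 𝔖.S ?_
    rw [h3, hi']
    rfl

/-- **(c') forwards**, no record of a stub: the strand from `dp` is in the box up to the time `np`, has an end outside the box at the time `tB`, does not visit `g⁻` up to `tB` -/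
theorem pvof_off_p0 (hT : T.IsSph) (hg : 𝔖.Gate pos h z τ s) {B : Set ℂ} (hB : ∀ v ∈ 𝔖.ins, pos v ∈ B) {np : ℕ}
    (hQ : ∀ i, i ≤ np → pos (T.src (pvasIt T s 𝔖.dp i)) ∈ B ∧ pos (T.tgt (pvasIt T s 𝔖.dp i)) ∈ B)
    {tB : ℕ} (hout : ¬ (pos (T.src (pvasIt T s 𝔖.dp tB)) ∈ B ∧ pos (T.tgt (pvasIt T s 𝔖.dp tB)) ∈ B)) (hno : ∀ u, u ≤ tB → T.src (pvasIt T s 𝔖.dp u) ≠ 𝔖.gm) :
    ∀ i, i ≤ np → pvasIt T s 𝔖.dp i ∉ 𝔖.S.Left := by
  obtain ⟨n, g1, g2, -⟩ := hg.strand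
  have hA := pl_left_face 𝔖.S
  refine pvof_off hA hg.fin (pvof_gate_in hT hg) g1 g2 (pvof_gate_out hT hg).1 (Bad := fun d => T.src d = 𝔖.gm ∧ T.tgt d ∈ 𝔖.ins) (Q := fun d => pos (T.src d) ∈ B ∧ pos (T.tgt d) ∈ B)
    ⟨rfl, (pvwk_gate_ends hT hg).2.2.2⟩ (fun d hd => ?_) (fun d hd => ⟨hB _ (pvwk_vof hA hd).1, hB _ (pvwk_vof hA hd).2.1⟩) (fun d hd => ?_) hQ hout (fun u hu hbad => hno u hu hbad.1)
  · rcases pvof_out_cases hT hg hd with h1 | h1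
    · exact Or.inl h1
    · refine Or.inr ⟨h1, ?_⟩
      have := (pvwk_vof hA hd.2.1).1
      rwa [T.src_opp'] at this
  · refine ⟨?_, hB _ hd.2⟩
    rw [hd.1]
    exact hB _ (pvwk_gate_ends hT hg).2.2.1

/-- **(c') forwards**: the exit stub does not come back into the gate -/
theorem pvof_off_p (hT : T.IsSph) (hg : 𝔖.Gate pos h z τ s) {B : Set ℂ} (hst : 𝔖.StubP pos B s) (hB : ∀ v ∈ 𝔖.ins, pos v ∈ B)
    {tB : ℕ} (hout : ¬ (pos (T.src (pvasIt T s 𝔖.dp tB)) ∈ B ∧ pos (T.tgt (pvasIt T s 𝔖.dp tB)) ∈ B)) (hno : ∀ u, u ≤ tB → T.src (pvasIt T s 𝔖.dp u) ≠ 𝔖.gm) :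
    ∀ i, i ≤ 𝔖.np → 𝔖.ep i ∉ 𝔖.S.Left := by
  intro i hi
  rw [hst.ep_it i hi]
  exact pvof_off_p0 hT hg hB (fun k hk => by rw [← hst.ep_it k hk]; exact hst.ep_in k hk) hout hno i hi

/-- the reversed inner strand -/
theorem pvof_gate_rev (hT : T.IsSph) (hg : 𝔖.Gate pos h z τ s) :
    ∃ n, pvasIn T 𝔖.S.Left (pvasNot s) (T.opp 𝔖.dp) ∧ pvasIt T (pvasNot s) (T.opp 𝔖.dp) n = T.opp 𝔖.dm ∧ ∀ i, i < n → pvasIt T (pvasNot s) (T.opp 𝔖.dp) i ∈ 𝔖.S.Left := by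
  obtain ⟨n, g1, g2, -⟩ := hg.strand
  have hA := pl_left_face 𝔖.S
  have hI := pvof_gate_in hT hg
  have hO := pvof_gate_out hT hg
  have hx := pvas_exit_eq (T := T) (s := s) (A := 𝔖.S.Left) g2 (g1 ▸ hO.1)
  rw [g1] at hx
  obtain ⟨r1, r2, r3⟩ := pvas_exit_rev hA hg.fin hI
  rw [hx.2] at r1 r2 r3
  rw [hx.1] at r2
  obtain ⟨-, q2, -⟩ := pvas_exit_spec hA hg.fin r1
  rw [r2] at q2
  refine ⟨n, r1, ?_, q2⟩
  have : pvasExit T 𝔖.S.Left (pvasNot s) (T.opp 𝔖.dp) = pvasIt T (pvasNot s) (T.opp 𝔖.dp) n := by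
    unfold pvasExit
    rw [r2]
  rw [← this, r3]

theorem pvof_back_opp (s : V → Bool) (d : D) (u : ℕ) : pvasIt T (pvasNot s) (T.opp d) u = T.opp ((pvasBack T s)^[u] d) := by
  rw [pvwk_back_it, T.opp_opp]

/-- **(c') backwards**, no record of a stub -/
theorem pvof_off_m0 (hT : T.IsSph) (hg : 𝔖.Gate pos h z τ s) {B : Set ℂ} (hB : ∀ v ∈ 𝔖.ins, pos v ∈ B) {nm : ℕ}
    (hQ : ∀ i, i ≤ nm → pos (T.src ((pvasBack T s)^[i] 𝔖.dm)) ∈ B ∧ pos (T.tgt ((pvasBack T s)^[i] 𝔖.dm)) ∈ B)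
    {tA : ℕ} (hout : ¬ (pos (T.src ((pvasBack T s)^[tA] 𝔖.dm)) ∈ B ∧ pos (T.tgt ((pvasBack T s)^[tA] 𝔖.dm)) ∈ B)) (hno : ∀ u, u ≤ tA → T.src ((pvasBack T s)^[u] 𝔖.dm) ≠ 𝔖.gp) :
    ∀ i, i ≤ nm → T.opp ((pvasBack T s)^[i] 𝔖.dm) ∉ 𝔖.S.Left := by
  obtain ⟨n, r1, q1, q2⟩ := pvof_gate_rev hT hg
  have hA := pl_left_face 𝔖.S
  have hI := pvof_gate_in hT hg
  intro i hi
  rw [← pvof_back_opp]
  refine pvof_off hA hg.fin r1 q1 q2 hI.2.1 (Bad := fun d => T.tgt d = 𝔖.gp ∧ T.src d ∈ 𝔖.ins) (Q := fun d => pos (T.tgt d) ∈ B ∧ pos (T.src d) ∈ B) ⟨T.tgt_opp _, ?_⟩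
    (fun d hd => ?_) (fun d hd => ⟨hB _ (pvwk_vof hA hd).2.1, hB _ (pvwk_vof hA hd).1⟩) (fun d hd => ?_) (fun i hi => ?_) (tB := tA) ?_ (fun u hu hbad => ?_) i hi
  · rw [T.src_opp']
    exact (pvwk_gate_ends hT hg).2.1
  · have h3 : pvasIn T 𝔖.S.Left s (T.opp d) := by
      have := pvas_out_not (T := T) (A := 𝔖.S.Left) (s := pvasNot s) (d := d)
      rw [pvas_not_not] at this
      exact this.2 hd
    rcases pvof_in_cases hT hg h3 with h4 | h4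
    · left
      rw [← h4, T.opp_opp]
    · right
      rw [T.src_opp'] at h4
      refine ⟨h4, ?_⟩
      have := (pvwk_vof hA h3.1).2.1
      rwa [T.tgt_opp] at this
  · refine ⟨?_, hB _ hd.2⟩
    rw [hd.1]
    exact hB _ (pvwk_gate_ends hT hg).1
  · show pos (T.tgt (pvasIt T (pvasNot s) (T.opp 𝔖.dm) i)) ∈ B ∧ pos (T.src (pvasIt T (pvasNot s) (T.opp 𝔖.dm) i)) ∈ B
    rw [pvof_back_opp, T.tgt_opp, T.src_opp']
    exact hQ i hi
  · show ¬ (pos (T.tgt (pvasIt T (pvasNot s) (T.opp 𝔖.dm) tA)) ∈ B ∧ pos (T.src (pvasIt T (pvasNot s) (T.opp 𝔖.dm) tA)) ∈ B)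
    rw [pvof_back_opp, T.tgt_opp, T.src_opp']
    exact hout
  · have := hbad.1
    rw [pvof_back_opp, T.tgt_opp] at this
    exact hno u hu this

/-- **(c') backwards**: the entrance stub does not come back into the gate -/
theorem pvof_off_m (hT : T.IsSph) (hg : 𝔖.Gate pos h z τ s) {B : Set ℂ} (hst : 𝔖.StubM pos B s) (hB : ∀ v ∈ 𝔖.ins, pos v ∈ B)
    {tA : ℕ} (hout : ¬ (pos (T.src ((pvasBack T s)^[tA] 𝔖.dm)) ∈ B ∧ pos (T.tgt ((pvasBack T s)^[tA] 𝔖.dm)) ∈ B)) (hno : ∀ u, u ≤ tA → T.src ((pvasBack T s)^[u] 𝔖.dm) ≠ 𝔖.gp) :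
    ∀ i, i ≤ 𝔖.nm → T.opp (𝔖.em i) ∉ 𝔖.S.Left := by
  intro i hi
  rw [hst.em_it i hi]
  exact pvof_off_m0 hT hg hB (fun k hk => by rw [← hst.em_it k hk]; exact hst.em_in k hk) hout hno i hi

/-- **(c') forwards, first exit form**: the strand from `dp` leaves the box, and it does not visit `g⁻` as long as it stays in the box -/
theorem pvof_off_p' (hT : T.IsSph) (hg : 𝔖.Gate pos h z τ s) {B : Set ℂ} (hst : 𝔖.StubP pos B s) (hB : ∀ v ∈ 𝔖.ins, pos v ∈ B)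
    (hex : ∃ u, ¬ (pos (T.src (pvasIt T s 𝔖.dp u)) ∈ B ∧ pos (T.tgt (pvasIt T s 𝔖.dp u)) ∈ B))
    (hW : ∀ u, (∀ u', u' < u → pos (T.src (pvasIt T s 𝔖.dp u')) ∈ B ∧ pos (T.tgt (pvasIt T s 𝔖.dp u')) ∈ B) → T.src (pvasIt T s 𝔖.dp u) ≠ 𝔖.gm) :
    ∀ i, i ≤ 𝔖.np → 𝔖.ep i ∉ 𝔖.S.Left := by
  classical
  exact pvof_off_p hT hg hst hB (tB := Nat.find hex) (Nat.find_spec hex) fun u hu => hW u fun u' hu' => not_not.1 (Nat.find_min hex (lt_of_lt_of_le hu' hu))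

/-- **(c') backwards, first exit form** -/
theorem pvof_off_m' (hT : T.IsSph) (hg : 𝔖.Gate pos h z τ s) {B : Set ℂ} (hst : 𝔖.StubM pos B s) (hB : ∀ v ∈ 𝔖.ins, pos v ∈ B)
    (hex : ∃ u, ¬ (pos (T.src ((pvasBack T s)^[u] 𝔖.dm)) ∈ B ∧ pos (T.tgt ((pvasBack T s)^[u] 𝔖.dm)) ∈ B))
    (hW : ∀ u, (∀ u', u' < u → pos (T.src ((pvasBack T s)^[u'] 𝔖.dm)) ∈ B ∧ pos (T.tgt ((pvasBack T s)^[u'] 𝔖.dm)) ∈ B) → T.src ((pvasBack T s)^[u] 𝔖.dm) ≠ 𝔖.gp) :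
    ∀ i, i ≤ 𝔖.nm → T.opp (𝔖.em i) ∉ 𝔖.S.Left := by
  classical
  exact pvof_off_m hT hg hst hB (tA := Nat.find hex) (Nat.find_spec hex) fun u hu => hW u fun u' hu' => not_not.1 (Nat.find_min hex (lt_of_lt_of_le hu' hu))

/-- **FOLLOW, forwards**: the strand from `dp` leaves the box and does not come back into the gate before -/
theorem pvof_follow_p (hT : T.IsSph) (hg : 𝔖.Gate pos h z τ s) {B : Set ℂ} (hB : ∀ v ∈ 𝔖.ins, pos v ∈ B)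
    (hex : ∃ u, ¬ (pos (T.src (pvasIt T s 𝔖.dp u)) ∈ B ∧ pos (T.tgt (pvasIt T s 𝔖.dp u)) ∈ B))
    (hW : ∀ u, (∀ u', u' < u → pos (T.src (pvasIt T s 𝔖.dp u')) ∈ B ∧ pos (T.tgt (pvasIt T s 𝔖.dp u')) ∈ B) → T.src (pvasIt T s 𝔖.dp u) ≠ 𝔖.gm) :
    ∃ t, ¬ (pos (T.src (pvasIt T s 𝔖.dp t)) ∈ B ∧ pos (T.tgt (pvasIt T s 𝔖.dp t)) ∈ B) ∧ ∀ i, i ≤ t → pvasIt T s 𝔖.dp i ∉ 𝔖.S.Left := by
  classical
  have hA := pl_left_face 𝔖.S
  refine ⟨Nat.find hex, Nat.find_spec hex, fun i hi => ?_⟩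
  rcases Nat.lt_or_ge i (Nat.find hex) with h1 | h1
  · exact pvof_off_p0 hT hg hB (np := i) (fun k hk => not_not.1 (Nat.find_min hex (lt_of_le_of_lt hk h1))) (tB := Nat.find hex) (Nat.find_spec hex)
      (fun u hu => hW u fun u' hu' => not_not.1 (Nat.find_min hex (lt_of_lt_of_le hu' hu))) i le_rfl
  · intro hmem
    rw [le_antisymm hi h1] at hmem
    exact Nat.find_spec hex ⟨hB _ (pvwk_vof hA hmem).1, hB _ (pvwk_vof hA hmem).2.1⟩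

/-- **FOLLOW, backwards** -/
theorem pvof_follow_m (hT : T.IsSph) (hg : 𝔖.Gate pos h z τ s) {B : Set ℂ} (hB : ∀ v ∈ 𝔖.ins, pos v ∈ B)
    (hex : ∃ u, ¬ (pos (T.src ((pvasBack T s)^[u] 𝔖.dm)) ∈ B ∧ pos (T.tgt ((pvasBack T s)^[u] 𝔖.dm)) ∈ B))
    (hW : ∀ u, (∀ u', u' < u → pos (T.src ((pvasBack T s)^[u'] 𝔖.dm)) ∈ B ∧ pos (T.tgt ((pvasBack T s)^[u'] 𝔖.dm)) ∈ B) → T.src ((pvasBack T s)^[u] 𝔖.dm) ≠ 𝔖.gp) :
    ∃ t, ¬ (pos (T.src ((pvasBack T s)^[t] 𝔖.dm)) ∈ B ∧ pos (T.tgt ((pvasBack T s)^[t] 𝔖.dm)) ∈ B) ∧ ∀ i, i ≤ t → T.opp ((pvasBack T s)^[i] 𝔖.dm) ∉ 𝔖.S.Left := by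
  classical
  have hA := pl_left_face 𝔖.S
  refine ⟨Nat.find hex, Nat.find_spec hex, fun i hi => ?_⟩
  rcases Nat.lt_or_ge i (Nat.find hex) with h1 | h1
  · exact pvof_off_m0 hT hg hB (nm := i) (fun k hk => not_not.1 (Nat.find_min hex (lt_of_le_of_lt hk h1))) (tA := Nat.find hex) (Nat.find_spec hex)
      (fun u hu => hW u fun u' hu' => not_not.1 (Nat.find_min hex (lt_of_lt_of_le hu' hu))) i le_rfl
  · intro hmem
    rw [le_antisymm hi h1] at hmem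
    have h2 := pvwk_vof hA hmem
    rw [T.src_opp', T.tgt_opp] at h2
    exact Nat.find_spec hex ⟨hB _ h2.2.1, hB _ h2.1⟩

/-- a strand with an end outside `B` has crossed a face with its apex outside `B` -/
theorem pvof_apex_out {B : Set ℂ} {d : D} (h0 : pos (T.src d) ∈ B ∧ pos (T.tgt d) ∈ B) (hex : ∃ u, ¬ (pos (T.src (pvasIt T s d u)) ∈ B ∧ pos (T.tgt (pvasIt T s d u)) ∈ B)) :
    ∃ n, pos (T.apex (pvasIt T s d n)) ∉ B := by
  by_contra hc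
  obtain ⟨u, hu⟩ := hex
  exact hu (pvwk_it_in h0 (n := u) (fun i _ => by
    by_contra h1
    exact hc ⟨i, h1⟩) u le_rfl)

/-- **(b) THE STUBS EXIST**: the gate edges are in the box, the strand leaves the box forwards from `dp` and backwards from `dm` -/
theorem pvof_stub (𝔖₀ : PvwSt T) {B : Set ℂ} (hp0 : pos (T.src 𝔖₀.dp) ∈ B ∧ pos (T.tgt 𝔖₀.dp) ∈ B) (hm0 : pos (T.src 𝔖₀.dm) ∈ B ∧ pos (T.tgt 𝔖₀.dm) ∈ B)
    (hp : ∃ u, ¬ (pos (T.src (pvasIt T s 𝔖₀.dp u)) ∈ B ∧ pos (T.tgt (pvasIt T s 𝔖₀.dp u)) ∈ B))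
    (hm : ∃ u, ¬ (pos (T.src ((pvasBack T s)^[u] 𝔖₀.dm)) ∈ B ∧ pos (T.tgt ((pvasBack T s)^[u] 𝔖₀.dm)) ∈ B)) :
    ∃ 𝔖 : PvwSt T, 𝔖.dsc = 𝔖₀.dsc ∧ 𝔖.S = 𝔖₀.S ∧ 𝔖.dp = 𝔖₀.dp ∧ 𝔖.dm = 𝔖₀.dm ∧ 𝔖.inn = 𝔖₀.inn ∧ 𝔖.ip = 𝔖₀.ip ∧ 𝔖.Stub pos B s := by
  refine pvwk_stub_exists 𝔖₀.dsc 𝔖₀.S 𝔖₀.dp 𝔖₀.dm 𝔖₀.inn 𝔖₀.ip hp0 hm0 (pvof_apex_out hp0 hp) ?_
  obtain ⟨u, hu⟩ := hm
  have h1 : pos (T.src (T.opp 𝔖₀.dm)) ∈ B ∧ pos (T.tgt (T.opp 𝔖₀.dm)) ∈ B := by rw [T.src_opp', T.tgt_opp]; exact ⟨hm0.2, hm0.1⟩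
  obtain ⟨n, hn⟩ := pvof_apex_out (s := pvasNot s) h1 ⟨u, fun h2 => hu (by
    rw [pvof_back_opp, T.src_opp', T.tgt_opp] at h2
    exact ⟨h2.2, h2.1⟩)⟩
  exact ⟨n, by rwa [pvof_back_opp] at hn⟩

/-- a strand which stays in a finite set of darts comes back to its first position -/
theorem pvof_return {d : D} (hbw : pvasBW T s d) {F : Set D} (hF : F.Finite) (hall : ∀ u, pvasIt T s d u ∈ F) : ∃ p, 0 < p ∧ pvasIt T s d p = d := by
  by_contra hc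
  have key : ∀ m n, m < n → pvasIt T s d m ≠ pvasIt T s d n := by
    intro m n hmn e
    exact hc ⟨n - m, by omega, pvas_it_return hbw hmn.le e⟩
  have hinj : Function.Injective (fun n => pvasIt T s d n) := by
    intro m n e
    rcases Nat.lt_trichotomy m n with hlt | heq | hlt
    · exact absurd e (key m n hlt)
    · exact heq
    · exact absurd e.symm (key n m hlt)
  exact (Set.infinite_of_injective_forall_mem hinj hall) hF

/-- a periodic strand visits its past -/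
theorem pvof_past {a d : D} (ha : pvasBW T s a) {n p : ℕ} (hn : pvasIt T s a n = d) (hp : 0 < p) (hd : pvasIt T s d p = d) : ∃ u, pvasIt T s d u = a := by
  have hbw : pvasBW T s d := hn ▸ pvas_it_bw ha n
  have hk : ∀ k, pvasIt T s d (k * p) = d := by
    intro k
    induction k with
    | zero => rw [Nat.zero_mul]; rfl
    | succ k ih => rw [Nat.succ_mul, pvas_it_add, ih, hd]
  have hle : n ≤ n * p := Nat.le_mul_of_pos_right n hp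
  refine ⟨n * p - n, pvas_it_cancel (pvas_it_bw hbw _) ha n ?_⟩
  rw [← pvas_it_add, Nat.sub_add_cancel hle, hk, hn]

/-- in a simple map the darts with both ends over `B` are finitely many -/
theorem pvof_fin (hS : T.Simple) {B : Set ℂ} (hfin : {v | pos v ∈ B}.Finite) : {d | pos (T.src d) ∈ B ∧ pos (T.tgt d) ∈ B}.Finite := by
  refine Set.Finite.of_finite_image (f := fun d => (T.src d, T.tgt d)) ((hfin.prod hfin).subset ?_) ?_
  · rintro _ ⟨d, hd, rfl⟩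
    exact ⟨hd.1, hd.2⟩
  · intro d _ d' _ e
    exact hS d d' (congrArg Prod.fst e) (congrArg Prod.snd e)

/-- **the strand from `dp` leaves the box**, if it does not visit `g⁻` as long as it stays in the box -/
theorem pvof_leave_p (hS : T.Simple) (hg : 𝔖.Gate pos h z τ s) {B : Set ℂ} (hfin : {v | pos v ∈ B}.Finite)
    (hW : ∀ u, (∀ u', u' < u → pos (T.src (pvasIt T s 𝔖.dp u')) ∈ B ∧ pos (T.tgt (pvasIt T s 𝔖.dp u')) ∈ B) → T.src (pvasIt T s 𝔖.dp u) ≠ 𝔖.gm) :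
    ∃ u, ¬ (pos (T.src (pvasIt T s 𝔖.dp u)) ∈ B ∧ pos (T.tgt (pvasIt T s 𝔖.dp u)) ∈ B) := by
  by_contra hc
  have hall : ∀ u, pos (T.src (pvasIt T s 𝔖.dp u)) ∈ B ∧ pos (T.tgt (pvasIt T s 𝔖.dp u)) ∈ B := fun u => by
    by_contra h1
    exact hc ⟨u, h1⟩
  obtain ⟨n, g1, -, -⟩ := hg.strand
  obtain ⟨p, hp, hd⟩ := pvof_return hg.bw_p (pvof_fin hS hfin) hall
  obtain ⟨u, hu⟩ := pvof_past hg.bw_m g1 hp hd
  exact hW u (fun u' _ => hall u') (by rw [hu]; rfl)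

/-- **the strand leaves the box backwards from `dm`**, if it does not visit `g⁺` as long as it stays in the box -/
theorem pvof_leave_m (hT : T.IsSph) (hS : T.Simple) (hg : 𝔖.Gate pos h z τ s) {B : Set ℂ} (hfin : {v | pos v ∈ B}.Finite)
    (hW : ∀ u, (∀ u', u' < u → pos (T.src ((pvasBack T s)^[u'] 𝔖.dm)) ∈ B ∧ pos (T.tgt ((pvasBack T s)^[u'] 𝔖.dm)) ∈ B) → T.src ((pvasBack T s)^[u] 𝔖.dm) ≠ 𝔖.gp) :
    ∃ u, ¬ (pos (T.src ((pvasBack T s)^[u] 𝔖.dm)) ∈ B ∧ pos (T.tgt ((pvasBack T s)^[u] 𝔖.dm)) ∈ B) := by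
  by_contra hc
  have hall : ∀ u, pos (T.src ((pvasBack T s)^[u] 𝔖.dm)) ∈ B ∧ pos (T.tgt ((pvasBack T s)^[u] 𝔖.dm)) ∈ B := fun u => by
    by_contra h1
    exact hc ⟨u, h1⟩
  obtain ⟨n, r1, q1, -⟩ := pvof_gate_rev hT hg
  obtain ⟨p, hp, hd⟩ := pvof_return (s := pvasNot s) (d := T.opp 𝔖.dm) (pvas_bw_not.2 hg.bw_m) (pvof_fin hS hfin) (fun u => by
    rw [pvof_back_opp]
    show pos (T.src (T.opp _)) ∈ B ∧ pos (T.tgt (T.opp _)) ∈ B
    rw [T.src_opp', T.tgt_opp]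
    exact ⟨(hall u).2, (hall u).1⟩)
  obtain ⟨u, hu⟩ := pvof_past r1.2.2 q1 hp hd
  rw [pvof_back_opp] at hu
  exact hW u (fun u' _ => hall u') (by rw [T.opp_injective hu]; rfl)

end gate

/-! ## at the model of record: NO WALL LEMMA NEEDED, only `pvbnk_model` of 28 (`Tr/BuLift`, closed) -/

section model

variable {x z : ℂ} {R hh : ℝ} {ω : PVSample} {P : PvbRim} {b : Bool} {𝔖 : PvwSt (pvxT ω)} {τ : PvwTy} {B : Set ℂ} {j : ℕ}

/-- the sites over a bounded set are finitely many -/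
theorem pvof_sites_fin (hY : DelGood (pvxY ω)) (hB : ∀ w ∈ B, ‖w - x‖ < 4 * R) : {v : ↥(pvxY ω) | pvxPos ω v ∈ B}.Finite := by
  refine ((hY.lf (‖x‖ + 4 * R)).preimage (f := (Subtype.val : ↥(pvxY ω) → ℂ)) Subtype.val_injective.injOn).subset ?_
  intro v hv
  refine ⟨v.2, ?_⟩
  rw [mem_closedBall_zero_iff]
  have h1 := hB _ hv
  have h2 : ‖(v : ℂ)‖ ≤ ‖(v : ℂ) - x‖ + ‖x‖ := by
    calc ‖(v : ℂ)‖ = ‖((v : ℂ) - x) + x‖ := by ring_nf
      _ ≤ _ := norm_add_le _ _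
  have h3 : ‖(v : ℂ) - x‖ < 4 * R := h1
  linarith

/-- **as long as the strand from `dp` stays in the box it does not visit `g⁻`** -/
theorem pvof_W_p (hR : 0 < R) (hY : DelGood (pvxY ω)) (hP : P ∈ pvhbAll x R ω) (hG : 𝔖.Gate (pvxPos ω) hh z τ (pvxCol ω b))
    (hGin : ∀ w : ℂ, ‖w - z‖ < τ.b * hh → ‖w - x‖ < 4 * R) (hB : ∀ w ∈ B, ‖w - x‖ < 4 * R) (hle : j + 𝔖.inn.n < P.len) (hrun : ∀ i, i ≤ 𝔖.inn.n → P.v (j + i) = pvxPos ω (𝔖.inn.v i)) :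
    ∀ u, (∀ u', u' < u → pvxPos ω ((pvxT ω).src (pvasIt (pvxT ω) (pvxCol ω b) 𝔖.dp u')) ∈ B ∧ pvxPos ω ((pvxT ω).tgt (pvasIt (pvxT ω) (pvxCol ω b) 𝔖.dp u')) ∈ B) →
      (pvxT ω).src (pvasIt (pvxT ω) (pvxCol ω b) 𝔖.dp u) ≠ 𝔖.gm := by
  intro u hu he
  obtain ⟨n, t, hn, ht, hbk, v0, -, hpos, w0, w1, hin⟩ := pvbnk_gate hG
  have hadd : ∀ i', pvasIt (pvxT ω) (pvxCol ω b) 𝔖.dm (n + i') = pvasIt (pvxT ω) (pvxCol ω b) 𝔖.dp i' := fun i' => by rw [pvas_it_add, hn]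
  refine pvbnk_model hR hY hP b 𝔖.dm hG.bw_m (n + u) j j j t ?_ le_rfl (by omega) ?_ ?_ (by omega) hbk ?_ ?_
  · intro i' hi'
    rcases Nat.lt_or_ge i' n with hlt | hge
    · exact hGin _ (hin i' hlt.le)
    · obtain ⟨i'', rfl⟩ := Nat.exists_eq_add_of_le hge
      rw [hadd]
      rcases Nat.lt_or_ge i'' u with h1 | h1
      · exact hB _ (hu i'' h1).1
      · rw [show i'' = u by omega, he]
        exact hGin _ (hin 0 (Nat.zero_le _))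
  · rw [← v0]; exact hrun 0 (Nat.zero_le _)
  · rw [hadd, he]
    show P.v j = pvxPos ω ((pvxT ω).src 𝔖.dm)
    rw [← v0]; exact hrun 0 (Nat.zero_le _)
  · rw [← w0]; exact hrun 0 (Nat.zero_le _)
  · rw [← w1]; exact hrun 1 hpos

/-- **as long as the strand stays in the box backwards from `dm` it does not visit `g⁺`** -/
theorem pvof_W_m (hR : 0 < R) (hY : DelGood (pvxY ω)) (hP : P ∈ pvhbAll x R ω) (hG : 𝔖.Gate (pvxPos ω) hh z τ (pvxCol ω b))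
    (hGin : ∀ w : ℂ, ‖w - z‖ < τ.b * hh → ‖w - x‖ < 4 * R) (hB : ∀ w ∈ B, ‖w - x‖ < 4 * R) (hle : j + 𝔖.inn.n < P.len) (hrun : ∀ i, i ≤ 𝔖.inn.n → P.v (j + i) = pvxPos ω (𝔖.inn.v i)) :
    ∀ u, (∀ u', u' < u → pvxPos ω ((pvxT ω).src ((pvasBack (pvxT ω) (pvxCol ω b))^[u'] 𝔖.dm)) ∈ B ∧ pvxPos ω ((pvxT ω).tgt ((pvasBack (pvxT ω) (pvxCol ω b))^[u'] 𝔖.dm)) ∈ B) →
      (pvxT ω).src ((pvasBack (pvxT ω) (pvxCol ω b))^[u] 𝔖.dm) ≠ 𝔖.gp := by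
  intro u hu he
  obtain ⟨n, t, hn, ht, hbk, -, vn, hpos, w0, w1, hin⟩ := pvbnk_gate hG
  have hfw : ∀ i', i' ≤ u → pvasIt (pvxT ω) (pvxCol ω b) ((pvasBack (pvxT ω) (pvxCol ω b))^[u] 𝔖.dm) i' = (pvasBack (pvxT ω) (pvxCol ω b))^[u - i'] 𝔖.dm := fun i' hi' =>
    pvbnk_it_back hG.bw_m hi'
  have hadd : ∀ i', pvasIt (pvxT ω) (pvxCol ω b) ((pvasBack (pvxT ω) (pvxCol ω b))^[u] 𝔖.dm) (u + i') = pvasIt (pvxT ω) (pvxCol ω b) 𝔖.dm i' := fun i' => by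
    rw [pvas_it_add, hfw u le_rfl, Nat.sub_self]; rfl
  have hgp : P.v (j + 𝔖.inn.n) = pvxPos ω 𝔖.gp := by
    show P.v (j + 𝔖.inn.n) = pvxPos ω ((pvxT ω).src 𝔖.dp)
    rw [← vn]; exact hrun _ le_rfl
  refine pvbnk_model hR hY hP b ((pvasBack (pvxT ω) (pvxCol ω b))^[u] 𝔖.dm) (pvbnk_back_bw hG.bw_m u) (u + n) (j + 𝔖.inn.n) (j + 𝔖.inn.n) j (u + t) ?_ le_rfl hle ?_ ?_ (by omega) ?_ ?_ ?_
  · intro i' hi'
    rcases Nat.lt_or_ge i' u with hlt | hge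
    · rw [hfw i' hlt.le]
      rcases Nat.eq_zero_or_pos i' with h0 | h0
      · rw [h0, Nat.sub_zero, he]
        have := hin n le_rfl
        rw [hn] at this
        exact hGin _ this
      · exact hB _ (hu _ (by omega)).1
    · obtain ⟨i'', rfl⟩ := Nat.exists_eq_add_of_le hge
      rw [hadd]
      exact hGin _ (hin i'' (by omega))
  · rw [he]; exact hgp
  · rw [hadd, hn]; exact hgp
  · rw [hadd]; exact hbk
  · rw [hadd, ← w0]; exact hrun 0 (Nat.zero_le _)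
  · rw [hadd, ← w1]; exact hrun 1 hpos

/-- **(b) THE STUBS EXIST AT THE MODEL**, any box `B` inside `B(x, 4R)` which contains the closed inside of the gate -/
theorem pvof_model_stub (hR : 0 < R) (hY : DelGood (pvxY ω)) (hP : P ∈ pvhbAll x R ω) (hG : 𝔖.Gate (pvxPos ω) hh z τ (pvxCol ω b))
    (hGin : ∀ w : ℂ, ‖w - z‖ < τ.b * hh → ‖w - x‖ < 4 * R) (hB : ∀ w ∈ B, ‖w - x‖ < 4 * R) (hle : j + 𝔖.inn.n < P.len) (hrun : ∀ i, i ≤ 𝔖.inn.n → P.v (j + i) = pvxPos ω (𝔖.inn.v i))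
    (hins : ∀ v ∈ 𝔖.ins, pvxPos ω v ∈ B) :
    ∃ 𝔖' : PvwSt (pvxT ω), 𝔖'.dsc = 𝔖.dsc ∧ 𝔖'.S = 𝔖.S ∧ 𝔖'.dp = 𝔖.dp ∧ 𝔖'.dm = 𝔖.dm ∧ 𝔖'.inn = 𝔖.inn ∧ 𝔖'.ip = 𝔖.ip ∧ 𝔖'.Stub (pvxPos ω) B (pvxCol ω b) := by
  have hT := delb_plane_isSph hY
  have hS : (pvxT ω).Simple := (delbPl (pvxY ω)).toMap_simple
  obtain ⟨g1, g2, g3, g4⟩ := pvwk_gate_ends hT hG
  exact pvof_stub 𝔖 ⟨hins _ g1, hins _ g2⟩ ⟨hins _ g3, hins _ g4⟩ (pvof_leave_p hS hG (pvof_sites_fin hY hB) (pvof_W_p hR hY hP hG hGin hB hle hrun))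
    (pvof_leave_m hT hS hG (pvof_sites_fin hY hB) (pvof_W_m hR hY hP hG hGin hB hle hrun))

/-- **(c') THE STUBS DO NOT COME BACK INTO THE GATE, AT THE MODEL** -/
theorem pvof_model_off (hR : 0 < R) (hY : DelGood (pvxY ω)) (hP : P ∈ pvhbAll x R ω) (hG : 𝔖.Gate (pvxPos ω) hh z τ (pvxCol ω b))
    (hGin : ∀ w : ℂ, ‖w - z‖ < τ.b * hh → ‖w - x‖ < 4 * R) (hB : ∀ w ∈ B, ‖w - x‖ < 4 * R) (hle : j + 𝔖.inn.n < P.len) (hrun : ∀ i, i ≤ 𝔖.inn.n → P.v (j + i) = pvxPos ω (𝔖.inn.v i))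
    (hins : ∀ v ∈ 𝔖.ins, pvxPos ω v ∈ B) (hst : 𝔖.Stub (pvxPos ω) B (pvxCol ω b)) :
    (∀ i, i ≤ 𝔖.np → 𝔖.ep i ∉ 𝔖.S.Left) ∧ ∀ i, i ≤ 𝔖.nm → (pvxT ω).opp (𝔖.em i) ∉ 𝔖.S.Left := by
  have hT := delb_plane_isSph hY
  have hS : (pvxT ω).Simple := (delbPl (pvxY ω)).toMap_simple
  have hWp := pvof_W_p hR hY hP hG hGin hB hle hrun
  have hWm := pvof_W_m hR hY hP hG hGin hB hle hrun
  exact ⟨pvof_off_p' hT hG hst.1 hins (pvof_leave_p hS hG (pvof_sites_fin hY hB) hWp) hWp, pvof_off_m' hT hG hst.2 hins (pvof_leave_m hT hS hG (pvof_sites_fin hY hB) hWm) hWm⟩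

/-- the box of half side `r + μ` against the mesh: a dart with an end outside it has its origin outside the box of half side `r` -/
theorem pvof_mesh_out {r μ : ℝ} (hμ0 : 0 ≤ μ) (hrR : 2 * r ≤ 3 * R) (hF : L9Fine (pvxY ω) (Metric.closedBall x (6 * R)) μ) (hzx : ‖z - x‖ ≤ 3 * R) {d : (delbPl (pvxY ω)).Dart}
    (hd : ¬ (pvxPos ω ((pvxT ω).src d) ∈ pvwSq z (r + μ) ∧ pvxPos ω ((pvxT ω).tgt d) ∈ pvwSq z (r + μ))) : pvxPos ω ((pvxT ω).src d) ∉ pvwSq z r := by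
  intro hs
  apply hd
  have htri := delb_plane_face (Y := pvxY ω) d
  have h2 : pvxPos ω ((pvxT ω).src d) ∈ Metric.closedBall x (6 * R) := by
    rw [mem_closedBall_iff_norm]
    have h1 := pvbnk_sq hs
    calc ‖pvxPos ω ((pvxT ω).src d) - x‖ = ‖(pvxPos ω ((pvxT ω).src d) - z) + (z - x)‖ := by ring_nf
      _ ≤ ‖pvxPos ω ((pvxT ω).src d) - z‖ + ‖z - x‖ := norm_add_le _ _
      _ ≤ 6 * R := by linarith
  have h3 : ‖pvxPos ω ((pvxT ω).tgt d) - pvxPos ω ((pvxT ω).src d)‖ ≤ μ := (hF _ _ _ htri (Or.inl h2)).1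
  have e : pvxPos ω ((pvxT ω).tgt d) - z = (pvxPos ω ((pvxT ω).tgt d) - pvxPos ω ((pvxT ω).src d)) + (pvxPos ω ((pvxT ω).src d) - z) := by ring
  have h4 := Complex.abs_re_le_norm (pvxPos ω ((pvxT ω).tgt d) - pvxPos ω ((pvxT ω).src d))
  have h5 := Complex.abs_im_le_norm (pvxPos ω ((pvxT ω).tgt d) - pvxPos ω ((pvxT ω).src d))
  refine ⟨⟨by linarith [hs.1], by linarith [hs.2]⟩, ?_, ?_⟩
  · rw [e, Complex.add_re]
    exact (abs_add_le _ _).trans (by linarith [hs.1])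
  · rw [e, Complex.add_im]
    exact (abs_add_le _ _).trans (by linarith [hs.2])

/-- **(f) THE PLANE STRAND FOLLOWS THE RIM OUT OF THE BOX, forwards** -/
theorem pvof_model_follow_p {r μ : ℝ} (hR : 0 < R) (hμ0 : 0 ≤ μ) (hbr : τ.b * hh ≤ r) (hrR : 2 * (r + μ) < R) (hY : DelGood (pvxY ω)) (hF : L9Fine (pvxY ω) (Metric.closedBall x (6 * R)) μ)
    (hP : P ∈ pvhbAll x R ω) (hzx : ‖z - x‖ ≤ 3 * R) (hG : 𝔖.Gate (pvxPos ω) hh z τ (pvxCol ω b)) (hle : j + 𝔖.inn.n < P.len) (hrun : ∀ i, i ≤ 𝔖.inn.n → P.v (j + i) = pvxPos ω (𝔖.inn.v i)) :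
    ∃ t, pvxPos ω ((pvxT ω).src (pvasIt (pvxT ω) (pvxCol ω b) 𝔖.dp t)) ∉ pvwSq z r ∧ ∀ i, i ≤ t → pvasIt (pvxT ω) (pvxCol ω b) 𝔖.dp i ∉ 𝔖.S.Left := by
  have hT := delb_plane_isSph hY
  have hS : (pvxT ω).Simple := (delbPl (pvxY ω)).toMap_simple
  have hx : ∀ w : ℂ, ‖w - z‖ < R → ‖w - x‖ < 4 * R := fun w hw => by
    calc ‖w - x‖ = ‖(w - z) + (z - x)‖ := by ring_nf
      _ ≤ ‖w - z‖ + ‖z - x‖ := norm_add_le _ _
      _ < 4 * R := by linarith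
  have hGin : ∀ w : ℂ, ‖w - z‖ < τ.b * hh → ‖w - x‖ < 4 * R := fun w hw => hx w (by linarith)
  have hB : ∀ w ∈ pvwSq z (r + μ), ‖w - x‖ < 4 * R := fun w hw => hx w (by linarith [pvbnk_sq hw])
  have hins : ∀ v ∈ 𝔖.ins, pvxPos ω v ∈ pvwSq z (r + μ) := fun v hv => pvwk_core_sq hG (by linarith) v (pvwk_ins_sub_core hG hv)
  have hW := pvof_W_p hR hY hP hG hGin hB hle hrun
  obtain ⟨t, h1, h2⟩ := pvof_follow_p hT hG hins (pvof_leave_p hS hG (pvof_sites_fin hY hB) hW) hW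
  exact ⟨t, pvof_mesh_out hμ0 (by linarith) hF hzx h1, h2⟩

/-- **(f) THE PLANE STRAND FOLLOWS THE RIM OUT OF THE BOX, backwards** -/
theorem pvof_model_follow_m {r μ : ℝ} (hR : 0 < R) (hμ0 : 0 ≤ μ) (hbr : τ.b * hh ≤ r) (hrR : 2 * (r + μ) < R) (hY : DelGood (pvxY ω)) (hF : L9Fine (pvxY ω) (Metric.closedBall x (6 * R)) μ)
    (hP : P ∈ pvhbAll x R ω) (hzx : ‖z - x‖ ≤ 3 * R) (hG : 𝔖.Gate (pvxPos ω) hh z τ (pvxCol ω b)) (hle : j + 𝔖.inn.n < P.len) (hrun : ∀ i, i ≤ 𝔖.inn.n → P.v (j + i) = pvxPos ω (𝔖.inn.v i)) :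
    ∃ t, pvxPos ω ((pvxT ω).src ((pvasBack (pvxT ω) (pvxCol ω b))^[t] 𝔖.dm)) ∉ pvwSq z r ∧ ∀ i, i ≤ t → (pvxT ω).opp ((pvasBack (pvxT ω) (pvxCol ω b))^[i] 𝔖.dm) ∉ 𝔖.S.Left := by
  have hT := delb_plane_isSph hY
  have hS : (pvxT ω).Simple := (delbPl (pvxY ω)).toMap_simple
  have hx : ∀ w : ℂ, ‖w - z‖ < R → ‖w - x‖ < 4 * R := fun w hw => by
    calc ‖w - x‖ = ‖(w - z) + (z - x)‖ := by ring_nf
      _ ≤ ‖w - z‖ + ‖z - x‖ := norm_add_le _ _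
      _ < 4 * R := by linarith
  have hGin : ∀ w : ℂ, ‖w - z‖ < τ.b * hh → ‖w - x‖ < 4 * R := fun w hw => hx w (by linarith)
  have hB : ∀ w ∈ pvwSq z (r + μ), ‖w - x‖ < 4 * R := fun w hw => hx w (by linarith [pvbnk_sq hw])
  have hins : ∀ v ∈ 𝔖.ins, pvxPos ω v ∈ pvwSq z (r + μ) := fun v hv => pvwk_core_sq hG (by linarith) v (pvwk_ins_sub_core hG hv)
  have hW := pvof_W_m hR hY hP hG hGin hB hle hrun
  obtain ⟨t, h1, h2⟩ := pvof_follow_m hT hG hins (pvof_leave_m hT hS hG (pvof_sites_fin hY hB) hW) hW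
  exact ⟨t, pvof_mesh_out hμ0 (by linarith) hF hzx h1, h2⟩

end model

/-! ## the two banks of a pin are disjoint (closed-walk twins of `pvbnk_core`, `pvbnk_bulk`, `pvbnk_model` of 28) -/

section closed

variable {s : V → Bool}

/-- a strand whose bank walk is CLOSED and contains a dart of the rim `c` goes round `c`: it visits the cut vertex -/
theorem pvof_core_closed (hT : T.IsSph) (hS : T.Simple) (c : T.Cyc) (hc : ∀ i, T.Tag s (T.opp (c.e i))) (hw : ∀ i, T.Wall s (T.opp (c.e 0)) (T.opp (c.e i)))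
    {a : D} (ha : pvasBW T s a) {N r : ℕ} (h1 : T.src (pvasIt T s a N) = T.src a) (hr : c.e r ∈ pvtBank T s a N) : T.src (c.e 0) ∈ pvasLayB T s a N := by
  classical
  have w1 := pvt_s_bank_walk (T := T) (s := s) a N
  rw [h1] at w1
  have h2 := pvt_s_sat_list hT hS w1 (fun f hf => pvt_s_bank_bk ha hf) hr ((pvt_s_recog' hT c hc hw r _).2 ⟨0, rfl⟩)
  rw [T.opp_opp] at h2
  exact pvt_s_bank_src h2

end closed

section bulk

variable {X : Type} {𝔅 : PvBulk X} {Y : Set ℂ} {h : DelGood Y}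

/-- a plane strand which stays `< 4R` from `x` and runs along the rim `c` of a completion at the time `t` does not come back to its first black site -/
theorem pvof_bulk_closed {x : ℂ} {R : ℝ} (hR : 0 < R) (hOk : 𝔅.Ok Y (Metric.closedBall x (6 * R))) {s : 𝔅.V Y → Bool} {σ : ℂ → Bool} (hs : DelbCol 𝔅 s σ) (c : (𝔅.T Y).Cyc)
    (hc : ∀ i, (𝔅.T Y).Tag s ((𝔅.T Y).opp (c.e i))) (hw : ∀ i, (𝔅.T Y).Wall s ((𝔅.T Y).opp (c.e 0)) ((𝔅.T Y).opp (c.e i)))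
    (hfar : 4 * R ≤ ‖𝔅.posF Y (x + 7 * R) ((𝔅.T Y).src (c.e 0)) - x‖)
    {a : (delPl h).Dart} (ha : pvasBW (delPl h).toMap (fun v => σ v) a) {N r t : ℕ}
    (hin : ∀ i, i ≤ N → ‖((delPl h).toMap.src (pvasIt (delPl h).toMap (fun v => σ v) a i) : ℂ) - x‖ < 4 * R)
    (h1 : (delPl h).toMap.src (pvasIt (delPl h).toMap (fun v => σ v) a N) = (delPl h).toMap.src a)
    (ht : t < N) (hbk : σ ((delPl h).toMap.apex (pvasIt (delPl h).toMap (fun v => σ v) a t)) = true)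
    (hr0 : 𝔅.posF Y (x + 7 * R) ((𝔅.T Y).src (c.e r)) = (delPl h).toMap.src (pvasIt (delPl h).toMap (fun v => σ v) a t))
    (hr1 : 𝔅.posF Y (x + 7 * R) ((𝔅.T Y).src (c.e (r + 1))) = (delPl h).toMap.apex (pvasIt (delPl h).toMap (fun v => σ v) a t)) : False := by
  have hK : ∀ i, i ≤ N → ((delPl h).toMap.src (pvasIt (delPl h).toMap (fun v => σ v) a i) : ℂ) ∈ Metric.closedBall x (6 * R) := fun i hi => by
    rw [mem_closedBall_iff_norm]; linarith [hin i hi]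
  have hlab : ∀ (k : ℕ) (z : ℂ), 𝔅.posF Y (x + 7 * R) ((𝔅.T Y).src (c.e k)) = z → ‖z - x‖ < 4 * R → 𝔅.lab Y ((𝔅.T Y).src (c.e k)) = Sum.inl z := by
    intro k z hz hn
    have := pvlo_lab_of_near 𝔅 hR (x := x) (v := (𝔅.T Y).src (c.e k)) (by rw [hz]; linarith)
    rwa [hz] at this
  obtain ⟨d, hd, -⟩ := delb_rel_of_star hOk (e := a) (Or.inl (hK 0 (Nat.zero_le _)))
  have hit : ∀ i, i ≤ N → DelbRel 𝔅 h (pvasIt (𝔅.T Y) s d i) (pvasIt (delPl h).toMap (fun v => σ v) a i) := fun i hi =>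
    pvbnk_it hOk hs hd (fun k hk => hK k (by omega))
  have hdbw : pvasBW (𝔅.T Y) s d := ⟨by rw [hs _ _ hd.1]; exact ha.1, by rw [hs _ _ hd.2]; exact ha.2⟩
  have e1 : (𝔅.T Y).src (pvasIt (𝔅.T Y) s d N) = (𝔅.T Y).src d := hOk.inj ((hit N le_rfl).1.trans (by rw [h1]; exact hd.1.symm))
  have hEt : 𝔅.Emb Y (pvasIt (𝔅.T Y) s d t) := delb_emb_of_src hOk (hit t ht.le).1 (hK t ht.le)
  have hax := delb_rel_apex hOk (hit t ht.le) hEt
  have hbk' : s ((𝔅.T Y).apex (pvasIt (𝔅.T Y) s d t)) = true := by rw [hs _ _ hax]; exact hbk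
  have hnear : ‖((delPl h).toMap.apex (pvasIt (delPl h).toMap (fun v => σ v) a t) : ℂ) - x‖ < 4 * R := by
    have h2 := hin (t + 1) ht
    rw [pvas_it_succ] at h2
    rcases pvas_step_ends (T := (delPl h).toMap) (fun v => σ v) (pvasIt (delPl h).toMap (fun v => σ v) a t) with ⟨-, e, -⟩ | ⟨e, -, -⟩
    · rwa [e] at h2
    · rw [hbk] at e
      exact absurd e (by decide)
  have her : c.e r = (𝔅.T Y).rot (pvasIt (𝔅.T Y) s d t) := by
    refine delb_dart_ext hOk ?_ ?_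
    · rw [PvMap.src_rot, hlab r _ hr0 (hin t ht.le)]
      exact (hit t ht.le).1.symm
    · rw [PvMap.tgt_rot, c.chain, hlab (r + 1) _ hr1 hnear]
      exact hax.symm
  have hmem : c.e r ∈ pvtBank (𝔅.T Y) s d N := pvt_s_bank_mem.2 ⟨t, ht, hbk', her⟩
  obtain ⟨i, hi, hi'⟩ := pvof_core_closed hOk.sph hOk.simple c hc hw hdbw e1 hmem
  have h3 : 𝔅.posF Y (x + 7 * R) ((𝔅.T Y).src (c.e 0)) = (delPl h).toMap.src (pvasIt (delPl h).toMap (fun v => σ v) a i) := by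
    rw [← hi']
    exact pvlo_posF_inl 𝔅 (hit i hi).1
  rw [h3] at hfar
  linarith [hin i hi]

end bulk

section model2

variable {x z : ℂ} {R hh : ℝ} {ω : PVSample} {P : PvbRim} {b : Bool} {𝔖 : PvwSt (pvxT ω)} {τ : PvwTy} {B : Set ℂ} {j : ℕ}

/-- **a strand of the plane which runs along an encoded rim of a completion does not come back to its first black site before it has left `B(x, 4R)`** -/
theorem pvof_model_closed (hR : 0 < R) (hY : DelGood (pvxY ω)) (hP : P ∈ pvhbAll x R ω) (b : Bool) :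
    ∀ (a : (delbPl (pvxY ω)).Dart), pvasBW (pvxT ω) (pvxCol ω b) a → ∀ (N r t : ℕ),
      (∀ i, i ≤ N → ‖pvxPos ω ((pvxT ω).src (pvasIt (pvxT ω) (pvxCol ω b) a i)) - x‖ < 4 * R) →
      (pvxT ω).src (pvasIt (pvxT ω) (pvxCol ω b) a N) = (pvxT ω).src a → t < N →
      pvxCol ω b ((pvxT ω).apex (pvasIt (pvxT ω) (pvxCol ω b) a t)) = true →
      P.v r = pvxPos ω ((pvxT ω).src (pvasIt (pvxT ω) (pvxCol ω b) a t)) → P.v (r + 1) = pvxPos ω ((pvxT ω).apex (pvasIt (pvxT ω) (pvxCol ω b) a t)) → False := by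
  obtain ⟨X, _, 𝔅, ξ, -, hOk, c, hc, hfar, rfl⟩ := l9a_mem (show P ∈ l9All x R ω from hP)
  unfold pvxT pvxPos
  rw [delb_pl_eq hY]
  intro a ha N r t hin h1 ht hbk hr0 hr1
  have hs : DelbCol 𝔅 (fun v => 𝔅.col (pvConf ω) ξ v == b) (fun z => cfCol (pvConf ω) z == b) := fun v z hv => by
    show (𝔅.col (pvConf ω) ξ v == b) = (cfCol (pvConf ω) z == b)
    rw [delb_col 𝔅 (pvConf ω) ξ v z hv]
  exact pvof_bulk_closed (h := hY) hR hOk hs c (fun i => (pvbnk_tag_beq _ b _).2 (pl_rim_tag hc i)) (fun i => (pvbnk_wall_beq _ b _ _).2 (pl_rim_lab hc i).2.2.1) hfar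
    ha hin h1 ht hbk hr0 hr1

/-- **THE BLACK BANKS OF THE TWO STUBS OF A PIN ARE DISJOINT** -/
theorem pvof_banks_disj (hR : 0 < R) (hY : DelGood (pvxY ω)) (hP : P ∈ pvhbAll x R ω) (hG : 𝔖.Gate (pvxPos ω) hh z τ (pvxCol ω b))
    (hGin : ∀ w : ℂ, ‖w - z‖ < τ.b * hh → ‖w - x‖ < 4 * R) (hB : ∀ w ∈ B, ‖w - x‖ < 4 * R) (hrun : ∀ i, i ≤ 𝔖.inn.n → P.v (j + i) = pvxPos ω (𝔖.inn.v i))
    (hp : 𝔖.StubP (pvxPos ω) B (pvxCol ω b)) (hm : 𝔖.StubM (pvxPos ω) B (pvxCol ω b)) : ∀ v ∈ 𝔖.bkP, v ∉ 𝔖.bkM := by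
  rintro v ⟨i, hi, rfl⟩ ⟨i', hi', he⟩
  obtain ⟨n, t, hn, ht, hbk, -, -, hpos, w0, w1, hin⟩ := pvbnk_gate hG
  have hem := hm.em_it i' hi'
  have hfw : ∀ k, k ≤ i' → pvasIt (pvxT ω) (pvxCol ω b) (𝔖.em i') k = 𝔖.em (i' - k) := fun k hk => by
    rw [hem, pvbnk_it_back hG.bw_m hk, ← hm.em_it (i' - k) (by omega)]
  have h0 : 𝔖.em 0 = 𝔖.dm := hm.em_it 0 (Nat.zero_le _)
  have hadd : ∀ k, pvasIt (pvxT ω) (pvxCol ω b) (𝔖.em i') (i' + k) = pvasIt (pvxT ω) (pvxCol ω b) 𝔖.dm k := fun k => by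
    rw [pvas_it_add, hfw i' le_rfl, Nat.sub_self, h0]
  have hadd2 : ∀ k, pvasIt (pvxT ω) (pvxCol ω b) (𝔖.em i') (i' + n + k) = pvasIt (pvxT ω) (pvxCol ω b) 𝔖.dp k := fun k => by
    rw [Nat.add_assoc, hadd, pvas_it_add, hn]
  refine pvof_model_closed hR hY hP b (𝔖.em i') (by rw [hem]; exact pvbnk_back_bw hG.bw_m i') (i' + n + i) j (i' + t) ?_ ?_ (by omega) ?_ ?_ ?_
  · intro k hk
    rcases Nat.lt_or_ge k i' with hlt | hge
    · rw [hfw k hlt.le]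
      exact hB _ (hm.em_in _ (by omega)).1
    · obtain ⟨k', rfl⟩ := Nat.exists_eq_add_of_le hge
      rcases Nat.lt_or_ge k' n with hlt | hge'
      · rw [hadd]
        exact hGin _ (hin k' hlt.le)
      · obtain ⟨k'', rfl⟩ := Nat.exists_eq_add_of_le hge'
        rw [← Nat.add_assoc, hadd2, ← hp.ep_it k'' (by omega)]
        exact hB _ (hp.ep_in k'' (by omega)).1
  · rw [hadd2, ← hp.ep_it i hi, he]
  · rw [hadd]; exact hbk
  · rw [hadd, ← w0]; exact hrun 0 (Nat.zero_le _)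
  · rw [hadd, ← w1]; exact hrun 1 hpos

end model2

end Claimed.Agent.R289
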