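import Claimed.Agent.R289.Defs.TrModel
import Claimed.Agent.R289.Tr.StKit
import Claimed.Agent.R289.Tr.Flag
import Claimed.Agent.R289.Tr.Di
import Claimed.Agent.R289.Tr.GoodLev
import Claimed.Agent.R289.Tr.GoodMouth
import Claimed.Agent.R289.Tr.Dict
import Claimed.Agent.R289.Tr.BlockP
import Claimed.Agent.R289.Tr.PinOff
import Claimed.Agent.R289.Tr.PinEL
import Claimed.Agent.R289.Tr.PinGate
import Claimed.Agent.R289.Exit.PinsDJ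
import Claimed.Agent.R289.Exit.PinsDM

/-!
# Row 289 (S0537, Cardy for Poisson-Voronoi), THE WALL, road E, file Tr/PinE : X3 = PIN EXISTS      (owner helper126, post of 187, node X3 = (R4) of the roof PINS of 12 / 121; second 66 `Tr/PinEnc.lean`; prefix `pvpe_`, `Pvpe`)

v3.1 (12:20Z) = `Defs/TrModel` v4 (187) + FROZEN `Tr/Defs` v3 (25: disc core, fixed rule, grid centres `y^±` in the type, mouths `clB(y^±, 2 ρ h)`) + `Tr/GoodLev` v3 (112) + sealed mouths `PvzmSealP/M` of 42 (`Tr/GoodMouth` sec. 6).      DETERMINISTIC.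
TARGET = `exit_pinsE_di` of `Exit/PinsE.lean` (121) = (DI) of `exit_pins_roadE` (12) for the pins of record `pvxPins 𝔓 x R m` (`Defs/TrModel.lean`):
a rim `P` of ANY completion passes within `h` of the grid centre `z`;  the two gates of A6 at `z` (colour of the rim);  the CONSEQUENCES of "no flag at `z`"   ⟹   a pin `⟨idx, z, t⟩ ∈ pvxPins 𝔓 x R m ω P` whose marked vertex is joined to the passage inside `clB(z, b₁ h)`.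

"NO FLAG" IS CONSUMED IN POSITIVE FORM, ON THE PLANE MAP OF THE SAMPLE (shapes of 121, `PvpjNF1 NF2 NF4`):
* `PvpeNF1` (E12): `¬ PvflStub` for `s` and for `pvasNot s`, box of half side `rF h`, steps of size `ρ₂ / 4 h`, threshold `n1` = the conclusion of `pvflm_flag1` of 276 VERBATIM
* `PvpeNF2` (E13 E14, RULING W-6 of 208: PROOF OF RECORD = SHIELD of 165): every half state (any bit, level `k ≤ K0`, centres) has a SHIELD: a circuit at radius `(2 ρ h, h)` round the centre `y^±` of the type whose FRESH vertices are white (`PvbpCirc`)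
* `PvpeNF2s` (second rope, CLOSED by 152): every half state has its mouth SEALED: `PvzmSealP`, `PvzmSealM` of 42 = the CONCLUSION of `pvbk2_fwd_mouth` / `pvbk2_bwd_mouth` (189), mouth radius `2 ρ h`, big radius `2 ρ₂ h`;  needs `K0 ρ₁ + 3 ρ₂ ≤ K ρ₁`
* `PvpeNF4` (E16, RULING 15 (2) + RULING 17 (a) of 234; 131 98 71 55): every full state whose three arcs `LE(LB Σ⁻)`, inner arc, `LE(LB Σ⁺)` chain up to a SIMPLE path (`PvpeDisj`) has its two marked halves `pvpeXp`, `pvpeXm`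
  (erasure + half of the inner arc beyond the mark, outside `clB(z, (m - 1) h)`) `sep h` apart (`PvpeSep`).      `PvpeDisj` comes from the RIM: leaf `pvpe_disj`.
GLOBAL good events (not flags): the mesh `L9Fine`, and `PvpeNoRet` = no `(s, S)` near return of the rim at a centre of `clB(x, 3R)` (`PvbNearRet`; producer `pvxp_near` of 12).
THE MENU enters by ONE property, `PvpeMenu` (completeness; shape of `pvxTau` of 73: the grid cell of the tip = BLACK END of the tip dart DETERMINES the centre: `PvpeNum.cell`).      LEVELS: the menu uses the levels `k ≤ K0 ≤ K` only.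

THE CUT.      (a) `pvpe_gate` : gate of A6 + rim ⟹ `PvwSt.Gate` + `Inmost` (the rule) + the rim runs along the inner arc      [190 `Tr/PinGate.lean`; kit 190 `pvgfs_m_gate`, 150, 3 `Tr/GateBs`, 260]
(f) `pvpe_follow_p`, `pvpe_follow_m` : the PLANE strand from the gate edges leaves the box without coming back into the gate (= `pvzc_follow_p/m` of 112 / 80 in the completion + transfer; = `pvpe_reach_p/m` of 157; replaces `pvpe_stub`, `pvpe_off` of v2)      [157 287]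
(c) LEVELS = `pvzc_levels` of 112 AT THE PLANE (cited);  counts from `PvpeNF1`, centres = cells of the tips: proved in the roof
(d) `pvpe_shield` : the two shields ON THE PLANE MAP ⟹ `PvpeD` = (g3) + the mouth clauses of D12, encoded      [165 152 66]
(d') second rope: `pvpe_far`, `pvpe_mouth_p`, `pvpe_mouth_m` : sealed mouths ⟹ the same      [152: PROVED, `Tr/PinEK`, `Tr/PinEL`]
(j) `pvpe_disj` : at a rim the three arcs chain up to a simple path (NT of 64 on the rim clock of 42)      [free]            (e) `pvpe_type` : SEP + menu ⟹ the type      [152: PROVED]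
ROOFS (compiled glue): `pvpe_core` (abstract (d)), **`pvpe_main`** (shields, OF RECORD), **`pvpe_main_seal`** (seals).      WITHDRAWN: `pvpe_wall_p/m` (FALSE as typed: 210, 276, 287: lobes of the wall leave the ball of agreement), `pvpe_stub`, `pvpe_calm`, `pvpe_off` (absorbed by `pvzc_levels`).
-/

set_option autoImplicit false

namespace Claimed.Agent.R289

open Set Claims.C0465

/-! ## 0. numbers, small vocabulary -/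

/-- the numbers chosen by the roof of the pins, in units of `h`: the annuli of the two gates, the number `K0` of levels in use, half side `rF` of the box and threshold `n1` of FLAG1, the separation `sep` of FLAG4, `cell u` = the centre of the grid cell of `u` (tip cells) -/
structure PvpeNum where
  a1 : ℝ
  b1 : ℝ
  a2 : ℝ
  b2 : ℝ
  K0 : ℕ
  rF : ℝ
  n1 : ℕ
  sep : ℝ
  cell : ℂ → ℂ

/-- the type of `Tr/Defs` of level `k`, orientation bit `o`, centres `yp ym` -/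
def PvpeNum.ty (𝔑 : PvpeNum) (k : ℕ) (o : Bool) (yp ym : ℂ) : PvwTy := ⟨𝔑.a1, 𝔑.b1, 𝔑.a2, 𝔑.b2, k, o, yp, ym⟩

/-- the encoded rim `P` runs along the inner arc of `𝔖`, `j` = the place of `g⁻` -/
def PvpeRun {ω : PVSample} (𝔖 : PvwSt (pvxT ω)) (P : PvbRim) (j : ℕ) : Prop := j + 𝔖.inn.n < P.len ∧ ∀ i, i ≤ 𝔖.inn.n → P.v (j + i) = pvxPos ω (𝔖.inn.v i)

/-- **no `(s, S)` near return** of the encoded rim at a centre of `clB(x, 3R)` -/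
def PvpeNoRet (P : PvbRim) (x : ℂ) (R s S : ℝ) : Prop := ∀ w : ℂ, ‖w - x‖ ≤ 3 * R → ¬ PvbNearRet P w s S

/-! ## 1. sealed mouths, consequences of "no flag", menu -/

section abstract

variable {V D : Type} (T : PvMap V D) (pos : V → ℂ) (s : V → Bool)

/-- the vertices of the EXIT HALF of the rim carried by the state (mask `M⁺` of D10, ruling 17 (a)): the erasure `LE(LB Σ⁺)` and the half of the inner arc AFTER the mark, outside `clB(z, ρ)` -/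
def pvpeXp (z : ℂ) (ρ : ℝ) (𝔖 : PvwSt T) : Set V :=
  {v | (∃ y : T.Pth, PvwLE T (fun i => T.src (𝔖.ep i)) 𝔖.np y ∧ v ∈ y.verts) ∨ ∃ i, 𝔖.ip ≤ i ∧ i ≤ 𝔖.inn.n ∧ ρ < ‖pos (𝔖.inn.v i) - z‖ ∧ v = 𝔖.inn.v i}

/-- the vertices of the ENTRANCE HALF (mask `M⁻`): the erasure `LE(LB Σ⁻)` and the half of the inner arc BEFORE the mark, outside `clB(z, ρ)` -/
def pvpeXm (z : ℂ) (ρ : ℝ) (𝔖 : PvwSt T) : Set V :=
  {v | (∃ y : T.Pth, PvwLE T (fun i => T.src (𝔖.em i)) 𝔖.nm y ∧ v ∈ y.verts) ∨ ∃ i, i ≤ 𝔖.ip ∧ ρ < ‖pos (𝔖.inn.v i) - z‖ ∧ v = 𝔖.inn.v i}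

/-- the three arcs `LE(LB Σ⁻)` (reversed), inner arc, `LE(LB Σ⁺)` chain up to a SIMPLE path: they meet at `g⁻`, `g⁺` only -/
def PvpeDisj (𝔖 : PvwSt T) : Prop :=
  ∀ yp ym : T.Pth, PvwLE T (fun i => T.src (𝔖.ep i)) 𝔖.np yp → PvwLE T (fun i => T.src (𝔖.em i)) 𝔖.nm ym →
    (∀ u ∈ yp.verts, u ∉ ym.verts) ∧ (∀ u ∈ yp.verts, ∀ i, i < 𝔖.inn.n → u ≠ 𝔖.inn.v i) ∧ ∀ u ∈ ym.verts, ∀ i, 0 < i → i ≤ 𝔖.inn.n → u ≠ 𝔖.inn.v i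

/-- **SEP** of the two halves -/
def PvpeSep (h sep : ℝ) (z : ℂ) (ρ : ℝ) (𝔖 : PvwSt T) : Prop :=
  ∀ u ∈ pvpeXp T pos z ρ 𝔖, ∀ v ∈ pvpeXm T pos z ρ 𝔖, sep * h < ‖pos u - pos v‖

/-- **NO FLAG1** (E12) at the centre `z` = the conclusion of `pvflm_flag1` (276) -/
def PvpeNF1 (N : PvwNum) (h : ℝ) (𝔑 : PvpeNum) (z : ℂ) : Prop :=
  ¬ PvflStub T pos z (𝔑.rF * h) (N.rho2 / 4 * h) 𝔑.n1 s ∧ ¬ PvflStub T pos z (𝔑.rF * h) (N.rho2 / 4 * h) 𝔑.n1 (pvasNot s)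

/-- **NO FLAG2** (E13 E14, ruling W-6) at the centre `z`: SHIELDS -/
def PvpeNF2 (N : PvwNum) (h : ℝ) (𝔑 : PvpeNum) (z : ℂ) : Prop :=
  ∀ (o : Bool) (k : ℕ) (yp ym : ℂ) (𝔖 : PvwSt T), k ≤ 𝔑.K0 →
    (𝔖.AtOut pos N h z (𝔑.ty k o yp ym) s → PvbpCirc T pos (𝔖.fzOut)ᶜ ((𝔑.ty k o yp ym).cp h z) (2 * N.rho * h) h false s) ∧
    (𝔖.AtIn pos N h z (𝔑.ty k o yp ym) s → PvbpCirc T pos (𝔖.fzIn)ᶜ ((𝔑.ty k o yp ym).cm h z) (2 * N.rho * h) h false s)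

/-- **NO FLAG2**, second form: SEALS -/
def PvpeNF2s (N : PvwNum) (h : ℝ) (𝔑 : PvpeNum) (z : ℂ) : Prop :=
  ∀ (o : Bool) (k : ℕ) (yp ym : ℂ) (𝔖 : PvwSt T), k ≤ 𝔑.K0 →
    (𝔖.AtOut pos N h z (𝔑.ty k o yp ym) s → PvzmSealP T pos s 𝔖.dp 𝔖.np ((𝔑.ty k o yp ym).cp h z) (2 * N.rho * h) (2 * N.rho2 * h)) ∧
    (𝔖.AtIn pos N h z (𝔑.ty k o yp ym) s → PvzmSealM T pos s 𝔖.dm 𝔖.nm ((𝔑.ty k o yp ym).cm h z) (2 * N.rho * h) (2 * N.rho2 * h))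

/-- **NO FLAG4** (E16, ruling 15 (2)) at the centre `z` -/
def PvpeNF4 (N : PvwNum) (h : ℝ) (𝔑 : PvpeNum) (z : ℂ) : Prop :=
  ∀ (o : Bool) (k : ℕ) (yp ym : ℂ) (𝔖 : PvwSt T), k ≤ 𝔑.K0 → 𝔖.At pos N h z (𝔑.ty k o yp ym) s → PvpeDisj T 𝔖 → PvpeSep T pos h 𝔑.sep z ((N.m - 1) * h) 𝔖

end abstract

/-- **THE MENU IS COMPLETE**: colour, bits of the two gates, level `≤ K0`, tips (BLACK ENDS of the tip darts) near the boundary of the box of the level (their grid cells give the centres, which are `7/4 ρ` apart) and SEPARATED pictures of the two halves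
in the largest box (units of `h`, relative to the centre) are covered by a type -/
def PvpeMenu {τ : Type} {c : ℝ} (𝔓 : PvxPar τ c) (𝔑 : PvpeNum) : Prop :=
  ∀ (b o o2 : Bool) (k : ℕ) (xp xm : ℂ) (Ap Am : Set ℂ), k ≤ 𝔑.K0 →
    xp ∈ pvwSq 0 (2 * 𝔑.b2 + k * 𝔓.num.rho1) → xp ∉ pvwSq 0 (2 * 𝔑.b2 + k * 𝔓.num.rho1 - 𝔓.num.rho / 20) → xm ∈ pvwSq 0 (2 * 𝔑.b2 + k * 𝔓.num.rho1) → xm ∉ pvwSq 0 (2 * 𝔑.b2 + k * 𝔓.num.rho1 - 𝔓.num.rho / 20) →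
    7 / 4 * 𝔓.num.rho ≤ ‖𝔑.cell xp - 𝔑.cell xm‖ →
    Ap ⊆ pvwSq 0 (2 * 𝔑.b2 + 𝔓.num.K * 𝔓.num.rho1) → Am ⊆ pvwSq 0 (2 * 𝔑.b2 + 𝔓.num.K * 𝔓.num.rho1) → (∀ u ∈ Ap, ∀ v ∈ Am, 𝔑.sep < ‖u - v‖) →
    ∃ t : τ, 𝔓.col t = b ∧ 𝔓.ty t = 𝔑.ty k o (𝔑.cell xp) (𝔑.cell xm) ∧ (𝔓.ty2 t).a = 𝔑.a2 ∧ (𝔓.ty2 t).b = 𝔑.b2 ∧ (𝔓.ty2 t).o = o2 ∧ xp ∈ 𝔓.cp t ∧ xm ∈ 𝔓.cm t ∧ Ap ⊆ 𝔓.Mp t ∧ Am ⊆ 𝔓.Mm t

/-- **(d)**: (g3) and the mouth clauses of D12 in encoded form, for the state `𝔖`, the type `τ'`, the encoded rim `P`, `j` = the place of `g⁻` -/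
structure PvpeD {ω : PVSample} (N : PvwNum) (h : ℝ) (z : ℂ) (τ' : PvwTy) (𝔖 : PvwSt (pvxT ω)) (P : PvbRim) (j : ℕ) : Prop where
  far_p : ∀ v ∈ 𝔖.fzIn, 2 * N.rho * h < ‖pvxPos ω v - τ'.cp h z‖
  far_m : ∀ v ∈ 𝔖.fzOut, 2 * N.rho * h < ‖pvxPos ω v - τ'.cm h z‖
  mouth_p : ∃ B, j + 𝔖.inn.n + B < P.len ∧ (∀ i, i ≤ B → P.v (j + 𝔖.inn.n + i) ∈ pvwSq z (pvwRad N h τ' N.K)) ∧ ∀ l, l ≤ P.len → (l ≤ j ∨ j + 𝔖.inn.n + B < l) → 2 * N.rho * h < ‖P.v l - τ'.cp h z‖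
  mouth_m : ∃ A, A < j ∧ (∀ i, i ≤ A → P.v (j - i) ∈ pvwSq z (pvwRad N h τ' N.K)) ∧ ∀ l, l ≤ P.len → (l + A < j ∨ j + 𝔖.inn.n ≤ l) → 2 * N.rho * h < ‖P.v l - τ'.cm h z‖

/-- **the explicit inequalities** between the numbers, the level `h`, the mesh `μ` and the radius `R` of the patch -/
structure PvpeRoom (N : PvwNum) (𝔑 : PvpeNum) (h μ R : ℝ) : Prop where
  h0 : 0 < h
  mu0 : 0 < μ
  /-- the mesh is far below every scale of the state -/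
  mu_le : 100 * μ ≤ N.rho * h
  rho0 : 0 < N.rho
  rho1 : 4 * N.rho ≤ N.rho1
  rho2 : 4 * N.rho1 ≤ N.rho2
  rho3 : N.rho2 < 1
  a1 : 10 ≤ 𝔑.a1
  ab1 : 𝔑.a1 < 𝔑.b1
  gap : 𝔑.b1 + 2 ≤ 𝔑.a2
  ab2 : 𝔑.a2 < 𝔑.b2
  K0_le : 𝔑.K0 ≤ N.K
  /-- the box of FLAG1 lies between the last level in use and the largest box -/
  rF_ge : 2 * 𝔑.b2 + 𝔑.K0 * N.rho1 ≤ 𝔑.rF
  rF_le : 𝔑.rF ≤ 2 * 𝔑.b2 + N.K * N.rho1
  /-- FLAG1 against the pigeonhole of E11 -/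
  n1 : 2 * 𝔑.n1 ≤ 𝔑.K0 + 2
  sep0 : 0 < 𝔑.sep
  /-- the grid cells of the tips are small -/
  cell : ∀ u ∈ pvwSq 0 (2 * 𝔑.b2 + 𝔑.K0 * N.rho1), ‖u - 𝔑.cell u‖ ≤ N.rho / 8
  /-- the largest box is small in the patch -/
  box : 4 * (2 * 𝔑.b2 + N.K * N.rho1 + 1) * h ≤ R

theorem pvpe_eqns_cite : True := by
  have := @PvpeNum.ty.eq_1; have := @PvpeRun.eq_1; have := @PvpeNoRet.eq_1; have := @pvpeXp.eq_1; have := @pvpeXm.eq_1; have := @PvpeDisj.eq_1; have := @PvpeSep.eq_1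
  have := @PvpeNF1.eq_1; have := @PvpeNF2.eq_1; have := @PvpeNF2s.eq_1; have := @PvpeNF4.eq_1; have := @PvpeMenu.eq_1
  trivial

/-! ## 1b. kit (157) -/

section kit

variable {V D : Type} {T : PvMap V D} {pos : V → ℂ} {s : V → Bool} {z : ℂ} {r : ℝ}

/-- one strand: fewer than `n1` steps up to the first exit of the box, unless the flag of the box is up -/
theorem pvpe_cnt {d : D} {n n1 : ℕ} {a : ℝ} (hbw : pvasBW T s d) (hd : d ∈ pvlvBox T pos z r) (hE : PvlvExit (pvlvH T pos z s d) r n) (hfl : ¬ PvflStub T pos z r a n1 s) :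
    pvlvCnt (pvlvZ T pos s d) a n < n1 := by
  by_contra hcon
  exact hfl ⟨d, n, hbw, hd, fun t ht => hE.2 t ht, fun hm => absurd hE.1 (not_lt.2 hm), not_lt.1 hcon⟩

/-- a position with both ends well inside the box has its face in the box -/
theorem pvpe_mesh_box {δ r' ρ : ℝ} (hM : PvzcMesh T pos z r' δ) {d : D} (h1 : pos (T.src d) ∈ pvwSq z ρ) (h2 : pos (T.tgt d) ∈ pvwSq z ρ) (hρ : ρ + δ ≤ r) (hρ' : ρ ≤ r') (hδ : 0 ≤ δ) :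
    d ∈ pvlvBox T pos z r := by
  have h3 := hM (T.opp (T.nxt (T.nxt d)))
  rw [T.src_opp', T.tgt_opp, T.tgt_nxt, T.apex_nxt] at h3
  have h4 : dist (pos (T.apex d)) (pos (T.src d)) ≤ δ := h3 (pvzc_sq_iff.2 ((pvzc_sq_iff.1 h1).trans hρ'))
  have h5 := pvlv_rad_lip z (pos (T.apex d)) (pos (T.src d))
  have h6 := pvzc_sq_iff.1 h1
  have h7 := pvzc_sq_iff.1 h2
  exact pvzc_box_iff.2 ⟨pvzc_sq_iff.2 (by linarith), pvzc_sq_iff.2 (by linarith), pvzc_sq_iff.2 (by linarith)⟩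

end kit

/-- **the mesh of a box of the patch**: every edge of the plane map with an end in the box is shorter than `μ` -/
theorem pvpe_mesh {ω : PVSample} {x z : ℂ} {R μ r : ℝ} (hF : L9Fine (pvxY ω) (Metric.closedBall x (6 * R)) μ) (hzx : ‖z - x‖ ≤ 3 * R) (hr : 2 * r ≤ 3 * R) :
    PvzcMesh (pvxT ω) (pvxPos ω) z r μ := by
  intro d hd
  have htri := delb_plane_face (Y := pvxY ω) d
  have h1 : ‖pvxPos ω ((pvxT ω).src d) - z‖ ≤ 2 * r := by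
    refine (Complex.norm_le_abs_re_add_abs_im _).trans ?_
    linarith [hd.1, hd.2]
  have h2 : pvxPos ω ((pvxT ω).src d) ∈ Metric.closedBall x (6 * R) := by
    rw [mem_closedBall_iff_norm]
    calc ‖pvxPos ω ((pvxT ω).src d) - x‖ = ‖(pvxPos ω ((pvxT ω).src d) - z) + (z - x)‖ := by ring_nf
      _ ≤ ‖pvxPos ω ((pvxT ω).src d) - z‖ + ‖z - x‖ := norm_add_le _ _
      _ ≤ 6 * R := by linarith
  rw [Complex.dist_eq]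
  exact (hF _ _ _ htri (Or.inl h2)).1

/-! ## 1c. kit of `pvpe_stub`, `pvpe_off` (157): no return into the gate (abstract), the rim leaves the box -/

section noret

variable {V D : Type} {T : PvMap V D} {pos : V → ℂ} {s : V → Bool} {h : ℝ} {z : ℂ} {τ : PvwTy}

/-- two darts of a circuit with the same head are equal -/
theorem pvpe_cyc_eq_of_tgt (c : T.Cyc) {d d' : D} (hd : d ∈ c.darts) (hd' : d' ∈ c.darts) (e : T.tgt d = T.tgt d') : d = d' := by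
  obtain ⟨i, rfl⟩ := hd
  obtain ⟨i', rfl⟩ := hd'
  rw [c.chain, c.chain] at e
  have h1 := pl_cyc_src_inj c e
  have h2 : i % c.n = i' % c.n := Nat.ModEq.add_right_cancel' 1 h1
  exact pl_cyc_eq_of_mod c h2

/-- two darts of a circuit with the same tail are equal -/
theorem pvpe_cyc_eq_of_src (c : T.Cyc) {d d' : D} (hd : d ∈ c.darts) (hd' : d' ∈ c.darts) (e : T.src d = T.src d') : d = d' := by
  obtain ⟨i, rfl⟩ := hd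
  obtain ⟨i', rfl⟩ := hd'
  exact pl_cyc_eq_of_src c e

/-- **NO RETURN INTO THE GATE, forwards**: the strand from the exit gate edge is outside the gate at time `tB` and has not met `g⁻` before: it has not been inside the gate -/
theorem pvpe_noret_p (hT : T.IsSph) {𝔖 : PvwSt T} (hg : 𝔖.Gate pos h z τ s) {tB : ℕ} (hout : pvasIt T s 𝔖.dp tB ∉ 𝔖.S.Left)
    (hgm : ∀ u, u ≤ tB → T.src (pvasIt T s 𝔖.dp u) ≠ 𝔖.gm) : ∀ u, u ≤ tB → pvasIt T s 𝔖.dp u ∉ 𝔖.S.Left := by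
  classical
  intro u hu hin
  have hL := pl_left_face 𝔖.S
  have hex : ∃ w, u ≤ w ∧ pvasIt T s 𝔖.dp w ∉ 𝔖.S.Left := ⟨tB, hu, hout⟩
  obtain ⟨hw1, hw2⟩ := Nat.find_spec hex
  have hwmin : ∀ i, u ≤ i → i < Nat.find hex → pvasIt T s 𝔖.dp i ∈ 𝔖.S.Left := by
    intro i hi1 hi2
    by_contra hn
    exact Nat.find_min hex hi2 ⟨hi1, hn⟩
  have hwB : Nat.find hex ≤ tB := Nat.find_min' hex ⟨hu, hout⟩
  generalize Nat.find hex = w₁ at hw1 hw2 hwmin hwB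
  have huw : u < w₁ := by
    rcases Nat.lt_or_ge u w₁ with h1 | h1
    · exact h1
    · have : w₁ = u := le_antisymm h1 hw1
      rw [this] at hw2
      exact absurd hin hw2
  obtain ⟨w, rfl⟩ : ∃ w, w₁ = w + 1 := ⟨w₁ - 1, by omega⟩
  have h1 : T.opp (pvasIt T s 𝔖.dp (w + 1)) ∈ 𝔖.S.Left := (pvfl_opp_mem hL s 𝔖.dp w).2 (hwmin w (by omega) (by omega))
  have h2 : T.opp (pvasIt T s 𝔖.dp (w + 1)) ∈ 𝔖.S.darts := (pl_cyc_darts_iff hT 𝔖.S _).2 ⟨h1, by rw [T.opp_opp]; exact hw2⟩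
  have hbw := pvas_it_bw hg.bw_p (w + 1)
  have hv : T.src (pvasIt T s 𝔖.dp (w + 1)) ∈ 𝔖.S.verts := by
    obtain ⟨i, hi⟩ := h2
    refine ⟨i + 1, ?_⟩
    rw [← 𝔖.S.chain, hi, T.tgt_opp]
  have hdpL : 𝔖.dp ∉ 𝔖.S.Left := by
    have := ((pl_cyc_darts_iff hT 𝔖.S _).1 hg.dp_on).2
    rwa [T.opp_opp] at this
  rcases hg.two _ hv hbw.1 with e | e
  · -- the strand has closed up
    have e1 : pvasIt T s 𝔖.dp (w + 1) = 𝔖.dp := by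
      apply T.opp_injective
      refine pvpe_cyc_eq_of_tgt 𝔖.S h2 hg.dp_on ?_
      rw [T.tgt_opp, T.tgt_opp]
      exact e
    obtain ⟨n, hn1, hn2, -⟩ := hg.strand
    rcases le_or_gt n (w + 1) with hnw | hnw
    · have e2 : pvasIt T s 𝔖.dp (w + 1 - n) = 𝔖.dm := by
        refine pvas_it_cancel (pvas_it_bw hg.bw_p _) hg.bw_m n ?_
        rw [← pvas_it_add, hn1, show w + 1 - n + n = w + 1 by omega, e1]
      exact hgm (w + 1 - n) (by omega) (by rw [e2]; rfl)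
    · have e2 : pvasIt T s 𝔖.dm (n - (w + 1)) = 𝔖.dp := by
        refine pvas_it_cancel (pvas_it_bw hg.bw_m _) hg.bw_p (w + 1) ?_
        rw [← pvas_it_add, show n - (w + 1) + (w + 1) = n by omega, hn1, e1]
      exact hdpL (e2 ▸ hn2 _ (by omega))
  · exact hgm (w + 1) hwB e

/-- **NO RETURN INTO THE GATE, backwards** -/
theorem pvpe_noret_m (hT : T.IsSph) {𝔖 : PvwSt T} (hg : 𝔖.Gate pos h z τ s) {tA : ℕ} (hout : T.opp ((pvasBack T s)^[tA] 𝔖.dm) ∉ 𝔖.S.Left)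
    (hgp : ∀ u, u ≤ tA → T.src ((pvasBack T s)^[u] 𝔖.dm) ≠ 𝔖.gp) : ∀ u, u ≤ tA → T.opp ((pvasBack T s)^[u] 𝔖.dm) ∉ 𝔖.S.Left := by
  classical
  intro u hu hin
  have hL := pl_left_face 𝔖.S
  have hex : ∃ w, u ≤ w ∧ T.opp ((pvasBack T s)^[w] 𝔖.dm) ∉ 𝔖.S.Left := ⟨tA, hu, hout⟩
  obtain ⟨hw1, hw2⟩ := Nat.find_spec hex
  have hwmin : ∀ i, u ≤ i → i < Nat.find hex → T.opp ((pvasBack T s)^[i] 𝔖.dm) ∈ 𝔖.S.Left := by
    intro i hi1 hi2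
    by_contra hn
    exact Nat.find_min hex hi2 ⟨hi1, hn⟩
  have hwB : Nat.find hex ≤ tA := Nat.find_min' hex ⟨hu, hout⟩
  generalize Nat.find hex = w₁ at hw1 hw2 hwmin hwB
  have huw : u < w₁ := by
    rcases Nat.lt_or_ge u w₁ with h1 | h1
    · exact h1
    · have : w₁ = u := le_antisymm h1 hw1
      rw [this] at hw2
      exact absurd hin hw2
  obtain ⟨w, rfl⟩ : ∃ w, w₁ = w + 1 := ⟨w₁ - 1, by omega⟩
  have h1 : (pvasBack T s)^[w + 1] 𝔖.dm ∈ 𝔖.S.Left := by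
    have h3 := hwmin w (by omega) (by omega)
    rw [pvwk_back_it, T.opp_opp] at h3
    rw [pvwk_back_it]
    exact (pvfl_opp_mem hL (pvasNot s) (T.opp 𝔖.dm) w).2 h3
  have h2 : (pvasBack T s)^[w + 1] 𝔖.dm ∈ 𝔖.S.darts := (pl_cyc_darts_iff hT 𝔖.S _).2 ⟨h1, hw2⟩
  have hbw := pvwk_back_bw hg.bw_m (w + 1)
  have hv : T.src ((pvasBack T s)^[w + 1] 𝔖.dm) ∈ 𝔖.S.verts := by
    obtain ⟨i, hi⟩ := h2
    exact ⟨i, by rw [hi]⟩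
  have hdpL : 𝔖.dp ∉ 𝔖.S.Left := by
    have := ((pl_cyc_darts_iff hT 𝔖.S _).1 hg.dp_on).2
    rwa [T.opp_opp] at this
  rcases hg.two _ hv hbw.1 with e | e
  · exact hgp (w + 1) hwB e
  · have e1 : (pvasBack T s)^[w + 1] 𝔖.dm = 𝔖.dm := pvpe_cyc_eq_of_src 𝔖.S h2 hg.dm_on e
    obtain ⟨n, hn1, hn2, -⟩ := hg.strand
    rcases le_or_gt n (w + 1) with hnw | hnw
    · have e2 := pvwk_it_back hg.bw_m hnw
      rw [e1, hn1] at e2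
      exact hgp (w + 1 - n) (by omega) (by rw [← e2]; rfl)
    · have e2 := pvwk_it_back_end hg.bw_m (w + 1)
      rw [e1] at e2
      have e3 : pvasIt T s 𝔖.dm (n - (w + 1)) = 𝔖.dp := by
        rw [← hn1]
        conv_rhs => rw [show n = (w + 1) + (n - (w + 1)) by omega, pvas_it_add, e2]
      exact hdpL (e3 ▸ hn2 _ (by omega))

end noret

section rimexit

variable {x z : ℂ} {R μ r : ℝ} {P : PvbRim}

theorem pvpe_sq_near (hzx : ‖z - x‖ ≤ 3 * R) {w : ℂ} (hw : w ∈ pvwSq z r) : ‖w - x‖ ≤ 2 * r + 3 * R := by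
  have h1 : ‖w - z‖ ≤ 2 * r := by
    refine (Complex.norm_le_abs_re_add_abs_im _).trans ?_
    linarith [hw.1, hw.2]
  calc ‖w - x‖ = ‖(w - z) + (z - x)‖ := by ring_nf
    _ ≤ ‖w - z‖ + ‖z - x‖ := norm_add_le _ _
    _ ≤ 2 * r + 3 * R := by linarith

/-- **the rim leaves the box after the place `a`**, inside `clB(x, 5R)` -/
theorem pvpe_rim_exit_p (hM : PvdcMesh x R μ P) (hzx : ‖z - x‖ ≤ 3 * R) (hr : 2 * r < R) (hμ : μ ≤ R) {a : ℕ} (ha : a ≤ P.len) (h0 : P.v a ∈ pvwSq z r) :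
    ∃ B, a + B ≤ P.len ∧ (∀ i, i ≤ B → ‖P.v (a + i) - x‖ ≤ 5 * R) ∧ P.v (a + B) ∉ pvwSq z r := by
  classical
  have hR0 : 0 ≤ R := hM.mu0.trans hμ
  have hfar : P.v 0 ∉ pvwSq z r := fun hin => by linarith [pvpe_sq_near hzx hin, hM.far]
  have hex : ∃ i, P.v (a + i) ∉ pvwSq z r := ⟨P.len - a, by rw [show a + (P.len - a) = P.len by omega, hM.closed]; exact hfar⟩
  have hB := Nat.find_spec hex
  have hmin : ∀ i, i < Nat.find hex → P.v (a + i) ∈ pvwSq z r := fun i hi => not_not.1 (Nat.find_min hex hi)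
  have hle : Nat.find hex ≤ P.len - a := Nat.find_min' hex (by rw [show a + (P.len - a) = P.len by omega, hM.closed]; exact hfar)
  generalize Nat.find hex = B at hB hmin hle
  refine ⟨B, by omega, fun i hi => ?_, hB⟩
  rcases Nat.lt_or_ge i B with h1 | h1
  · linarith [pvpe_sq_near hzx (hmin i h1)]
  · have e : i = B := le_antisymm hi h1
    subst e
    rcases Nat.eq_zero_or_pos i with h2 | h2
    · subst h2; exact absurd h0 hB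
    · obtain ⟨i', rfl⟩ : ∃ i', i = i' + 1 := ⟨i - 1, by omega⟩
      have h3 := pvpe_sq_near hzx (hmin i' (by omega))
      have h4 := hM.mesh_v (a + i') (by omega) (Or.inl (by linarith))
      calc ‖P.v (a + (i' + 1)) - x‖ = ‖(P.v (a + i' + 1) - P.v (a + i')) + (P.v (a + i') - x)‖ := by rw [← add_assoc]; ring_nf
        _ ≤ ‖P.v (a + i' + 1) - P.v (a + i')‖ + ‖P.v (a + i') - x‖ := norm_add_le _ _
        _ ≤ 5 * R := by linarith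

/-- **the rim comes from outside the box before the place `a`**, inside `clB(x, 5R)` -/
theorem pvpe_rim_exit_m (hM : PvdcMesh x R μ P) (hzx : ‖z - x‖ ≤ 3 * R) (hr : 2 * r < R) (hμ : μ ≤ R) {a : ℕ} (ha : a ≤ P.len) (h0 : P.v a ∈ pvwSq z r) :
    ∃ A, A ≤ a ∧ (∀ i, i ≤ A → ‖P.v (a - i) - x‖ ≤ 5 * R) ∧ P.v (a - A) ∉ pvwSq z r := by
  classical
  have hR0 : 0 ≤ R := hM.mu0.trans hμ
  have hfar : P.v 0 ∉ pvwSq z r := fun hin => by linarith [pvpe_sq_near hzx hin, hM.far]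
  have hex : ∃ i, P.v (a - i) ∉ pvwSq z r := ⟨a, by rw [Nat.sub_self]; exact hfar⟩
  have hB := Nat.find_spec hex
  have hmin : ∀ i, i < Nat.find hex → P.v (a - i) ∈ pvwSq z r := fun i hi => not_not.1 (Nat.find_min hex hi)
  have hle : Nat.find hex ≤ a := Nat.find_min' hex (by rw [Nat.sub_self]; exact hfar)
  generalize Nat.find hex = A at hB hmin hle
  refine ⟨A, hle, fun i hi => ?_, hB⟩
  rcases Nat.lt_or_ge i A with h1 | h1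
  · linarith [pvpe_sq_near hzx (hmin i h1)]
  · have e : i = A := le_antisymm hi h1
    subst e
    rcases Nat.eq_zero_or_pos i with h2 | h2
    · subst h2; exact absurd h0 hB
    · obtain ⟨i', rfl⟩ : ∃ i', i = i' + 1 := ⟨i - 1, by omega⟩
      have h3 := pvpe_sq_near hzx (hmin i' (by omega))
      have h4 := hM.mesh_v (a - (i' + 1)) (by omega) (Or.inr (by rw [show a - (i' + 1) + 1 = a - i' by omega]; linarith))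
      rw [show a - (i' + 1) + 1 = a - i' by omega] at h4
      calc ‖P.v (a - (i' + 1)) - x‖ = ‖-(P.v (a - i') - P.v (a - (i' + 1))) + (P.v (a - i') - x)‖ := by ring_nf
        _ ≤ ‖-(P.v (a - i') - P.v (a - (i' + 1)))‖ + ‖P.v (a - i') - x‖ := norm_add_le _ _
        _ ≤ 5 * R := by rw [norm_neg]; linarith

end rimexit

/-! ## 2. the leaves -/

section leaves

variable {N : PvwNum} {𝔑 : PvpeNum} {x z : ℂ} {R μ : ℝ} {m : ℕ} {ω : PVSample} {P : PvbRim} {b : Bool}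

/-- **(a) GATE + FIXED RULE + RUN**.      A gate of A6 (face set between the faces which meet `clB(z, α h)` and those which meet `clB(z, β h)`, at most two boundary vertices of the colour of the rim), `a + 1 ≤ α`, `β + 1 ≤ b'`,
and a rim which passes within `h` of `z`:   THE circuit gate of record (the fixed rule) in `[a h, b' h)`, with its bit, and the rim runs along its inner arc through the passage `k`. -/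
theorem pvpe_gate {a b' α β : ℝ} (hR : 0 < R) (h0 : 0 < pvlmH m) (hμ0 : 0 < μ) (hμ : μ < pvlmH m) (ha : 10 ≤ a) (haα : a + 1 ≤ α) (hαβ : α < β) (hβb : β + 1 ≤ b') (hbR : 4 * (b' + 1) * pvlmH m ≤ R)
    (hG : DelGood (pvxY ω)) (hF : L9Fine (pvxY ω) (Metric.closedBall x (6 * R)) μ) (hP : P ∈ pvhbAll x R ω) (hNR : PvpeNoRet P x R μ (pvlmH m))
    {k : ℕ} (hk : k ≤ P.len) (hkx : ‖P.v k - x‖ ≤ 2 * R) (hkz : ‖P.v k - z‖ ≤ pvlmH m) (hb : b = cfCol (pvConf ω) (P.v k))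
    (hA6 : ∃ G X, PvgGate (pvxT ω) (pvxCol ω b) true (pvdiB (pvxT ω) (pvxPos ω) z (α * pvlmH m)) (pvdiB (pvxT ω) (pvxPos ω) z (β * pvlmH m)) G X) :
    ∃ (𝔖 : PvwSt (pvxT ω)) (o : Bool) (j : ℕ), (∀ τ : PvwTy, τ.a = a → τ.b = b' → τ.o = o → 𝔖.Gate (pvxPos ω) (pvlmH m) z τ (pvxCol ω b) ∧ 𝔖.Inmost (pvxPos ω) (pvlmH m) z τ (pvxCol ω b)) ∧
      PvpeRun 𝔖 P j ∧ j ≤ k ∧ k ≤ j + 𝔖.inn.n ∧ ∀ i, i ≤ 𝔖.inn.n → ‖pvxPos ω (𝔖.inn.v i) - z‖ ≤ b' * pvlmH m := by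
  obtain ⟨𝔖, o, j, e1, e2, e3, e4, -, e6⟩ := pvqg_gate (z := z) hR h0 hμ0 hμ ha haα hαβ hβb hbR hG hF hP
    (fun i i' h1 h2 h3 h4 l l1 l2 => by
      by_contra hcon
      have hl : pvlmH m < ‖P.v l - P.v i‖ := not_le.1 hcon
      have hil : i ≠ l := by rintro rfl; rw [sub_self, norm_zero] at hl; linarith
      have hli : l ≠ i' := by rintro rfl; linarith
      exact hNR (P.v i) h3 ⟨i, l, i', by omega, by omega, h2, by rw [sub_self, norm_zero]; exact hμ0.le, h4, hl⟩)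
    hk hkx hkz hb hA6
  exact ⟨𝔖, o, j, e1, e2, e3, e4, fun i hi => (e6 i hi).le⟩

/-- **(f) THE PLANE STRAND FOLLOWS THE RIM OUT OF THE BOX, forwards**: the strand from the exit gate edge meets a site outside the box of half side `r` (`4 (r + h) ≤ R`: the box lies deep in the ball of agreement, the cut vertex of the rim is outside)
and does not come back into the gate before      (= `pvzc_follow_p` of 112 in the completion + transfer of the strand up to its first exit of the box) -/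
theorem pvpe_follow_p {τ : PvwTy} {r : ℝ} (hR : 0 < R) (h0 : 0 < pvlmH m) (hμ0 : 0 < μ) (hμ : μ ≤ pvlmH m) (hbr : τ.b * pvlmH m ≤ r) (hrR : 4 * (r + pvlmH m) ≤ R)
    (hG : DelGood (pvxY ω)) (hF : L9Fine (pvxY ω) (Metric.closedBall x (6 * R)) μ) (hP : P ∈ pvhbAll x R ω) (hzx : ‖z - x‖ ≤ 3 * R)
    {𝔖 : PvwSt (pvxT ω)} {j : ℕ} (hg : 𝔖.Gate (pvxPos ω) (pvlmH m) z τ (pvxCol ω b)) (hrun : PvpeRun 𝔖 P j) :
    ∃ t, pvxPos ω ((pvxT ω).src (pvasIt (pvxT ω) (pvxCol ω b) 𝔖.dp t)) ∉ pvwSq z r ∧ ∀ i, i ≤ t → pvasIt (pvxT ω) (pvxCol ω b) 𝔖.dp i ∉ 𝔖.S.Left :=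
  pvof_model_follow_p hR hμ0.le hbr (by linarith) hG hF hP hzx hg hrun.1 hrun.2

/-- **(f) THE PLANE STRAND FOLLOWS THE RIM OUT OF THE BOX, backwards** -/
theorem pvpe_follow_m {τ : PvwTy} {r : ℝ} (hR : 0 < R) (h0 : 0 < pvlmH m) (hμ0 : 0 < μ) (hμ : μ ≤ pvlmH m) (hbr : τ.b * pvlmH m ≤ r) (hrR : 4 * (r + pvlmH m) ≤ R)
    (hG : DelGood (pvxY ω)) (hF : L9Fine (pvxY ω) (Metric.closedBall x (6 * R)) μ) (hP : P ∈ pvhbAll x R ω) (hzx : ‖z - x‖ ≤ 3 * R)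
    {𝔖 : PvwSt (pvxT ω)} {j : ℕ} (hg : 𝔖.Gate (pvxPos ω) (pvlmH m) z τ (pvxCol ω b)) (hrun : PvpeRun 𝔖 P j) :
    ∃ t, pvxPos ω ((pvxT ω).src ((pvasBack (pvxT ω) (pvxCol ω b))^[t] 𝔖.dm)) ∉ pvwSq z r ∧ ∀ i, i ≤ t → (pvxT ω).opp ((pvasBack (pvxT ω) (pvxCol ω b))^[i] 𝔖.dm) ∉ 𝔖.S.Left :=
  pvof_model_follow_m hR hμ0.le hbr (by linarith) hG hF hP hzx hg hrun.1 hrun.2

/-- **(d) SHIELDS ⟹ (g3) + MOUTHS** (ruling W-6 of 208; 165 `Tr/Shield`: `pvsh_state`, `pvsh_exit_metric`, `pvsh_entr_metric`, `pvsh_g3_p_metric`, `pvsh_g3_m_metric` in the completion; 152 `Tr/PinEK`: `PvekM.inst`, twin strands, rim clock).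
The shields live ON THE PLANE MAP, inside `clB(y^±, h)`, deep in the ball of agreement: their black vertices are bank vertices of the own stub;  a rim vertex inside the shield of `y⁺` leaves it, both ways along the rim, through bank vertices of `Σ⁺` = vertices of the
initial arc `P[j + q, j + q + B]` visited by `Σ⁺` (inside the OWN box);  a black end of `Σ⁻` on the shield of `y⁺` would be visited on both sides of the far cut vertex (NT). -/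
theorem pvpe_shield (hRm : PvpeRoom N 𝔑 (pvlmH m) μ R) (hR : 0 < R) (hG : DelGood (pvxY ω)) (hF : L9Fine (pvxY ω) (Metric.closedBall x (6 * R)) μ) (hP : P ∈ pvhbAll x R ω) (hzx : ‖z - x‖ ≤ 3 * R)
    {𝔖 : PvwSt (pvxT ω)} {o : Bool} {j k : ℕ} {yp ym : ℂ} (hk : k ≤ 𝔑.K0) (hrun : PvpeRun 𝔖 P j)
    (hO : 𝔖.AtOut (pvxPos ω) N (pvlmH m) z (𝔑.ty k o yp ym) (pvxCol ω b)) (hI : 𝔖.AtIn (pvxPos ω) N (pvlmH m) z (𝔑.ty k o yp ym) (pvxCol ω b))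
    (hSp : PvbpCirc (pvxT ω) (pvxPos ω) (𝔖.fzOut)ᶜ ((𝔑.ty k o yp ym).cp (pvlmH m) z) (2 * N.rho * pvlmH m) (pvlmH m) false (pvxCol ω b))
    (hSm : PvbpCirc (pvxT ω) (pvxPos ω) (𝔖.fzIn)ᶜ ((𝔑.ty k o yp ym).cm (pvlmH m) z) (2 * N.rho * pvlmH m) (pvlmH m) false (pvxCol ω b)) :
    PvpeD N (pvlmH m) z (𝔑.ty k o yp ym) 𝔖 P j := by
  have h0 := hRm.h0
  have hμ0 := hRm.mu0
  have hρ0 := hRm.rho0
  have hρ1 : 0 < N.rho1 := by linarith [hRm.rho1]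
  have hρh : 0 < N.rho * pvlmH m := mul_pos hρ0 h0
  have hρ16 : N.rho * pvlmH m ≤ pvlmH m := by nlinarith [hRm.rho1, hRm.rho2, hRm.rho3]
  have hkρ : 0 ≤ (k : ℝ) * N.rho1 := by positivity
  have hKρ : 0 ≤ (N.K : ℝ) * N.rho1 := by positivity
  have hkK : (k : ℝ) * N.rho1 ≤ N.K * N.rho1 := mul_le_mul_of_nonneg_right (by exact_mod_cast hk.trans hRm.K0_le) hρ1.le
  have hb2 : 𝔑.b1 + 2 < 𝔑.b2 := by linarith [hRm.gap, hRm.ab2]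
  have hb1 : 10 < 𝔑.b1 := by linarith [hRm.a1, hRm.ab1]
  have hbox := hRm.box
  have hμle := hRm.mu_le
  have e1 : pvwRad N (pvlmH m) (𝔑.ty k o yp ym) (𝔑.ty k o yp ym).k = (2 * 𝔑.b2 + k * N.rho1) * pvlmH m := rfl
  have e2 : pvwRad N (pvlmH m) (𝔑.ty k o yp ym) N.K = (2 * 𝔑.b2 + N.K * N.rho1) * pvlmH m := rfl
  have e3 : (𝔑.ty k o yp ym).b = 𝔑.b1 := rfl
  obtain ⟨hAt, hPin⟩ := pvdk_at_pin (Rm := pvlmH m) (rK := pvwRad N (pvlmH m) (𝔑.ty k o yp ym) N.K) hR hμ0.le (by nlinarith) hG hF hP hzx hO hI hrun.1 hrun.2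
    ⟨_, _, le_rfl, le_rfl, hSp⟩ ⟨_, _, le_rfl, le_rfl, hSm⟩ hρh.le (by rw [e1, e3]; nlinarith) (by rw [e1, e2]; exact mul_le_mul_of_nonneg_right (by linarith) h0.le) (by rw [e2]; nlinarith)
  exact ⟨hAt.far_p, hAt.far_m, hPin.mouth_p, hPin.mouth_m⟩

/-- the numbers of (d) -/
theorem pvpe_room_far {h : ℝ} (hRm : PvpeRoom N 𝔑 h μ R) (hlev : 𝔑.K0 * N.rho1 + 3 * N.rho2 ≤ N.K * N.rho1) {k : ℕ} (hk : k ≤ 𝔑.K0) (o : Bool) (yp ym : ℂ) :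
    μ ≤ R ∧ 2 * N.rho * h < 2 * N.rho2 * h ∧ 0 ≤ N.rho * h ∧ (𝔑.ty k o yp ym).b * h + μ + N.rho * h / 4 + 2 * N.rho2 * h ≤ pvwRad N h (𝔑.ty k o yp ym) (𝔑.ty k o yp ym).k ∧
      pvwRad N h (𝔑.ty k o yp ym) (𝔑.ty k o yp ym).k + N.rho * h / 4 + 2 * N.rho2 * h ≤ pvwRad N h (𝔑.ty k o yp ym) N.K ∧ 2 * pvwRad N h (𝔑.ty k o yp ym) N.K < R ∧
      (𝔑.ty k o yp ym).b * h ≤ pvwRad N h (𝔑.ty k o yp ym) N.K := by
  have h0 := hRm.h0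
  have hμ0 := hRm.mu0
  have hρ0 := hRm.rho0
  have hρ1 : 0 < N.rho1 := by linarith [hRm.rho1]
  have hρ2 : 0 < N.rho2 := by linarith [hRm.rho2]
  have hρh : 0 < N.rho * h := mul_pos hρ0 h0
  have hkρ : 0 ≤ (k : ℝ) * N.rho1 := by positivity
  have hKρ : 0 ≤ (N.K : ℝ) * N.rho1 := by positivity
  have hkK0 : (k : ℝ) * N.rho1 ≤ 𝔑.K0 * N.rho1 := mul_le_mul_of_nonneg_right (by exact_mod_cast hk) hρ1.le
  have e1 : pvwRad N h (𝔑.ty k o yp ym) (𝔑.ty k o yp ym).k = (2 * 𝔑.b2 + k * N.rho1) * h := rfl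
  have e2 : pvwRad N h (𝔑.ty k o yp ym) N.K = (2 * 𝔑.b2 + N.K * N.rho1) * h := rfl
  have e3 : (𝔑.ty k o yp ym).b = 𝔑.b1 := rfl
  rw [e1, e2, e3]
  have hbox := hRm.box
  have hμρ := hRm.mu_le
  have hb2 : 12 < 𝔑.b2 := by linarith [hRm.a1, hRm.ab1, hRm.gap, hRm.ab2]
  have hρ16 : 16 * N.rho ≤ N.rho2 := by linarith [hRm.rho1, hRm.rho2]
  have hρh1 : N.rho * h ≤ h := by nlinarith [hRm.rho3]
  have hρ2h : N.rho2 * h ≤ h := by nlinarith [hRm.rho3]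
  have hbb : 𝔑.b1 + 2 < 𝔑.b2 := by linarith [hRm.gap, hRm.ab2]
  refine ⟨by nlinarith, by nlinarith, hρh.le, ?_, ?_, by nlinarith, ?_⟩
  · have a1 : (𝔑.b1 + 4) * h ≤ (2 * 𝔑.b2 + k * N.rho1) * h := mul_le_mul_of_nonneg_right (by linarith) h0.le
    nlinarith
  · have a1 : (2 * 𝔑.b2 + k * N.rho1 + 3 * N.rho2) * h ≤ (2 * 𝔑.b2 + N.K * N.rho1) * h := mul_le_mul_of_nonneg_right (by linarith) h0.le
    have a2 : N.rho * h / 4 ≤ N.rho2 * h := by nlinarith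
    nlinarith
  · exact mul_le_mul_of_nonneg_right (by linarith) h0.le

/-- **(d') (g3)**, second rope: both mouths sealed + the rim has a far vertex ⟹ `fzIn` misses the mouth of `y⁺`, `fzOut` misses the mouth of `y⁻` -/
theorem pvpe_far (hRm : PvpeRoom N 𝔑 (pvlmH m) μ R) (hlev : 𝔑.K0 * N.rho1 + 3 * N.rho2 ≤ N.K * N.rho1) (hR : 0 < R) (hG : DelGood (pvxY ω)) (hF : L9Fine (pvxY ω) (Metric.closedBall x (6 * R)) μ) (hP : P ∈ pvhbAll x R ω) (hzx : ‖z - x‖ ≤ 3 * R)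
    {𝔖 : PvwSt (pvxT ω)} {o : Bool} {j k : ℕ} {yp ym : ℂ} (hk : k ≤ 𝔑.K0) (hrun : PvpeRun 𝔖 P j)
    (hO : 𝔖.AtOut (pvxPos ω) N (pvlmH m) z (𝔑.ty k o yp ym) (pvxCol ω b)) (hI : 𝔖.AtIn (pvxPos ω) N (pvlmH m) z (𝔑.ty k o yp ym) (pvxCol ω b))
    (hSp : PvzmSealP (pvxT ω) (pvxPos ω) (pvxCol ω b) 𝔖.dp 𝔖.np ((𝔑.ty k o yp ym).cp (pvlmH m) z) (2 * N.rho * pvlmH m) (2 * N.rho2 * pvlmH m))
    (hSm : PvzmSealM (pvxT ω) (pvxPos ω) (pvxCol ω b) 𝔖.dm 𝔖.nm ((𝔑.ty k o yp ym).cm (pvlmH m) z) (2 * N.rho * pvlmH m) (2 * N.rho2 * pvlmH m)) :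
    (∀ v ∈ 𝔖.fzIn, 2 * N.rho * pvlmH m < ‖pvxPos ω v - (𝔑.ty k o yp ym).cp (pvlmH m) z‖) ∧ ∀ v ∈ 𝔖.fzOut, 2 * N.rho * pvlmH m < ‖pvxPos ω v - (𝔑.ty k o yp ym).cm (pvlmH m) z‖ := by
  obtain ⟨n1, n2, n3, n4, n5, n6, -⟩ := pvpe_room_far hRm hlev hk o yp ym
  have := (pvej_at_pin hR hRm.mu0.le n1 hG hF hP hzx hO hI hrun.1 hrun.2 hSp hSm n2 n3 n4 n5 n6).1
  exact ⟨this.far_p, this.far_m⟩

/-- **(d') MOUTH CLAUSE AT `y⁺`** of D12, encoded form, second rope -/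
theorem pvpe_mouth_p (hRm : PvpeRoom N 𝔑 (pvlmH m) μ R) (hlev : 𝔑.K0 * N.rho1 + 3 * N.rho2 ≤ N.K * N.rho1) (hR : 0 < R) (hG : DelGood (pvxY ω)) (hF : L9Fine (pvxY ω) (Metric.closedBall x (6 * R)) μ) (hP : P ∈ pvhbAll x R ω) (hzx : ‖z - x‖ ≤ 3 * R)
    {𝔖 : PvwSt (pvxT ω)} {o : Bool} {j k : ℕ} {yp ym : ℂ} (hk : k ≤ 𝔑.K0) (hrun : PvpeRun 𝔖 P j) (hO : 𝔖.AtOut (pvxPos ω) N (pvlmH m) z (𝔑.ty k o yp ym) (pvxCol ω b))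
    (hSp : PvzmSealP (pvxT ω) (pvxPos ω) (pvxCol ω b) 𝔖.dp 𝔖.np ((𝔑.ty k o yp ym).cp (pvlmH m) z) (2 * N.rho * pvlmH m) (2 * N.rho2 * pvlmH m)) :
    ∃ B, j + 𝔖.inn.n + B < P.len ∧ (∀ i, i ≤ B → P.v (j + 𝔖.inn.n + i) ∈ pvwSq z (pvwRad N (pvlmH m) (𝔑.ty k o yp ym) N.K)) ∧
      ∀ l, l ≤ P.len → (l ≤ j ∨ j + 𝔖.inn.n + B < l) → 2 * N.rho * pvlmH m < ‖P.v l - (𝔑.ty k o yp ym).cp (pvlmH m) z‖ := by
  obtain ⟨n1, n2, n3, -, n5, n6, n7⟩ := pvpe_room_far hRm hlev hk o yp ym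
  exact pvej_mouth_p hR n1 hG hF hP hzx hO hrun.1 hrun.2 hSp n2 n3 n7 n5 n6

/-- **(d') MOUTH CLAUSE AT `y⁻`** of D12, encoded form, second rope -/
theorem pvpe_mouth_m (hRm : PvpeRoom N 𝔑 (pvlmH m) μ R) (hlev : 𝔑.K0 * N.rho1 + 3 * N.rho2 ≤ N.K * N.rho1) (hR : 0 < R) (hG : DelGood (pvxY ω)) (hF : L9Fine (pvxY ω) (Metric.closedBall x (6 * R)) μ) (hP : P ∈ pvhbAll x R ω) (hzx : ‖z - x‖ ≤ 3 * R)
    {𝔖 : PvwSt (pvxT ω)} {o : Bool} {j k : ℕ} {yp ym : ℂ} (hk : k ≤ 𝔑.K0) (hrun : PvpeRun 𝔖 P j) (hI : 𝔖.AtIn (pvxPos ω) N (pvlmH m) z (𝔑.ty k o yp ym) (pvxCol ω b))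
    (hSm : PvzmSealM (pvxT ω) (pvxPos ω) (pvxCol ω b) 𝔖.dm 𝔖.nm ((𝔑.ty k o yp ym).cm (pvlmH m) z) (2 * N.rho * pvlmH m) (2 * N.rho2 * pvlmH m)) :
    ∃ A, A < j ∧ (∀ i, i ≤ A → P.v (j - i) ∈ pvwSq z (pvwRad N (pvlmH m) (𝔑.ty k o yp ym) N.K)) ∧
      ∀ l, l ≤ P.len → (l + A < j ∨ j + 𝔖.inn.n ≤ l) → 2 * N.rho * pvlmH m < ‖P.v l - (𝔑.ty k o yp ym).cm (pvlmH m) z‖ := by
  obtain ⟨n1, n2, n3, -, n5, n6, n7⟩ := pvpe_room_far hRm hlev hk o yp ym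
  exact pvej_mouth_m hR n1 hG hF hP hzx hI hrun.1 hrun.2 hSm n2 n3 n7 n5 n6

/-- **(j) AT A RIM THE TWO ERASURES ARE VERTEX DISJOINT** (131, 98, ruling 15 (2)): `LE(LB Σ⁺)` is the arc of `P` after `g⁺`, `LE(LB Σ⁻)` the arc of `P` before `g⁻`, both inside the box; `P` is simple and its cut vertex is far -/
theorem pvpe_disj (hRm : PvpeRoom N 𝔑 (pvlmH m) μ R) (hR : 0 < R) (hG : DelGood (pvxY ω)) (hF : L9Fine (pvxY ω) (Metric.closedBall x (6 * R)) μ) (hP : P ∈ pvhbAll x R ω) (hzx : ‖z - x‖ ≤ 3 * R)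
    {𝔖 : PvwSt (pvxT ω)} {o : Bool} {j k : ℕ} {yp ym : ℂ} (hk : k ≤ 𝔑.K0) (hrun : PvpeRun 𝔖 P j)
    (hO : 𝔖.AtOut (pvxPos ω) N (pvlmH m) z (𝔑.ty k o yp ym) (pvxCol ω b)) (hI : 𝔖.AtIn (pvxPos ω) N (pvlmH m) z (𝔑.ty k o yp ym) (pvxCol ω b)) :
    PvpeDisj (pvxT ω) 𝔖 := by
  have h0 := hRm.h0
  have hρ1 : 0 < N.rho1 := by linarith [hRm.rho1, hRm.rho0]
  have hρ2 : 0 < N.rho2 := by linarith [hRm.rho2]
  have hb2 : 12 < 𝔑.b2 := by linarith [hRm.a1, hRm.ab1, hRm.gap, hRm.ab2]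
  have hkρ : 0 ≤ (k : ℝ) * N.rho1 := by positivity
  have hkK : (k : ℝ) * N.rho1 ≤ N.K * N.rho1 := by
    exact mul_le_mul_of_nonneg_right (by exact_mod_cast hk.trans hRm.K0_le) hρ1.le
  have hbox := hRm.box
  have hμR : μ ≤ R := by nlinarith [hRm.mu_le, hRm.rho1, hRm.rho2, hRm.rho3, hRm.mu0]
  have e : pvwRad N (pvlmH m) (𝔑.ty k o yp ym) (𝔑.ty k o yp ym).k = (2 * 𝔑.b2 + k * N.rho1) * pvlmH m := rfl
  have hr : 2 * pvwRad N (pvlmH m) (𝔑.ty k o yp ym) (𝔑.ty k o yp ym).k < R := by rw [e]; nlinarith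
  have hbr : (𝔑.ty k o yp ym).b * pvlmH m ≤ pvwRad N (pvlmH m) (𝔑.ty k o yp ym) (𝔑.ty k o yp ym).k := by
    rw [e]
    exact mul_le_mul_of_nonneg_right (by show 𝔑.b1 ≤ _; linarith [hRm.ab1, hRm.gap, hRm.ab2]) h0.le
  exact pvdj_state hR hμR hG hF hP hO.gate hrun.1 hrun.2 (fun w hw => mem_ball_iff_norm.2 (by linarith [pvpe_sq_near hzx hw])) (pvwk_core_sq hO.gate hbr) hO.stub hI.stub subset_rfl

end leaves

/-- the mid point of two points of a closed ball -/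
theorem pvpe_mid_ball {u v y : ℂ} {r : ℝ} (hu : ‖u - y‖ ≤ r) (hv : ‖v - y‖ ≤ r) : ‖(u + v) / 2 - y‖ ≤ r := by
  have e : (u + v) / 2 - y = ((u - y) + (v - y)) / 2 := by ring
  rw [e, norm_div]
  have h1 := norm_add_le (u - y) (v - y)
  have h2 : ‖(2 : ℂ)‖ = 2 := by simp
  rw [h2, div_le_iff₀ (by norm_num)]
  linarith

/-- rescaling: a point of the box of half side `r h` round `z`, in units of `h` relative to `z` -/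
theorem pvpe_scale_sq {z w : ℂ} {h r r' : ℝ} (h0 : 0 < h) (hr : r' ≤ r * h) (hw : w ∈ pvwSq z r') : (w - z) / (h : ℂ) ∈ pvwSq 0 r := by
  obtain ⟨a1, a2⟩ := hw
  have e1 : ((w - z) / (h : ℂ) - 0).re = (w - z).re / h := by rw [sub_zero, Complex.div_ofReal_re]
  have e2 : ((w - z) / (h : ℂ) - 0).im = (w - z).im / h := by rw [sub_zero, Complex.div_ofReal_im]
  refine ⟨?_, ?_⟩
  · rw [e1, abs_div, abs_of_pos h0, div_le_iff₀ h0]; exact a1.trans hr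
  · rw [e2, abs_div, abs_of_pos h0, div_le_iff₀ h0]; exact a2.trans hr

/-- rescaling of a distance to a centre of the type -/
theorem pvpe_scale_norm {z w y : ℂ} {h : ℝ} (h0 : 0 < h) : ‖w - (z + (h : ℂ) * y)‖ = ‖(w - z) / (h : ℂ) - y‖ * h := by
  have hne : (h : ℂ) ≠ 0 := by exact_mod_cast h0.ne'
  have e : (w - z) / (h : ℂ) - y = (w - (z + (h : ℂ) * y)) / (h : ℂ) := by field_simp; ring
  rw [e, norm_div, Complex.norm_real, Real.norm_of_nonneg h0.le, div_mul_cancel₀ _ h0.ne']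

/-- the mid point of two points of a box -/
theorem pvpe_mid_sq {z u v : ℂ} {r : ℝ} (hu : u ∈ pvwSq z r) (hv : v ∈ pvwSq z r) : (u + v) / 2 ∈ pvwSq z r := by
  obtain ⟨a1, a2⟩ := hu
  obtain ⟨b1, b2⟩ := hv
  have e1 : ((u + v) / 2 - z).re = ((u - z).re + (v - z).re) / 2 := by
    have : (u + v) / 2 - z = ((u - z) + (v - z)) / ((2 : ℝ) : ℂ) := by push_cast; ring
    rw [this, Complex.div_ofReal_re, Complex.add_re]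
  have e2 : ((u + v) / 2 - z).im = ((u - z).im + (v - z).im) / 2 := by
    have : (u + v) / 2 - z = ((u - z) + (v - z)) / ((2 : ℝ) : ℂ) := by push_cast; ring
    rw [this, Complex.div_ofReal_im, Complex.add_im]
  rw [abs_le] at a1 a2 b1 b2
  refine ⟨?_, ?_⟩
  · rw [e1, abs_le]; constructor <;> linarith [a1.1, a1.2, b1.1, b1.2]
  · rw [e2, abs_le]; constructor <;> linarith [a2.1, a2.2, b2.1, b2.2]

/-- rescaling back -/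
theorem pvpe_unscale_sq {z w : ℂ} {h r : ℝ} (h0 : 0 < h) (hw : (w - z) / (h : ℂ) ∈ pvwSq 0 r) : w ∈ pvwSq z (r * h) := by
  obtain ⟨a1, a2⟩ := hw
  have e1 : ((w - z) / (h : ℂ) - 0).re = (w - z).re / h := by rw [sub_zero, Complex.div_ofReal_re]
  have e2 : ((w - z) / (h : ℂ) - 0).im = (w - z).im / h := by rw [sub_zero, Complex.div_ofReal_im]
  rw [e1, abs_div, abs_of_pos h0, div_le_iff₀ h0] at a1
  rw [e2, abs_div, abs_of_pos h0, div_le_iff₀ h0] at a2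
  exact ⟨a1, a2⟩

/-- the black end of a position whose face sticks out of the box is close to the boundary of the box -/
theorem pvpe_tip_near {V D : Type} {T : PvMap V D} {pos : V → ℂ} {z : ℂ} {r δ : ℝ} (hM : PvzcMesh T pos z r δ) {d : D} (h1 : pos (T.src d) ∈ pvwSq z r) (h3 : pos (T.apex d) ∉ pvwSq z r) :
    pos (T.src d) ∉ pvwSq z (r - δ) := by
  intro hin
  have a2 : dist (pos (T.apex d)) (pos (T.src d)) ≤ δ := by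
    have h3' := hM (T.opp (T.nxt (T.nxt d)))
    rw [T.src_opp', T.tgt_opp, T.tgt_nxt, T.apex_nxt] at h3'
    exact h3' h1
  have b1 := pvlv_rad_lip z (pos (T.apex d)) (pos (T.src d))
  have b3 := pvzc_sq_iff.1 hin
  exact h3 (pvzc_sq_iff.2 (by linarith))

/-- the same for the face BEHIND the position -/
theorem pvpe_tip_near' {V D : Type} {T : PvMap V D} {pos : V → ℂ} {z : ℂ} {r δ : ℝ} (hM : PvzcMesh T pos z r δ) {d : D} (h1 : pos (T.src d) ∈ pvwSq z r) (h2 : pos (T.tgt d) ∈ pvwSq z r)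
    (h3 : pos (T.apex (T.opp d)) ∉ pvwSq z r) : pos (T.src d) ∉ pvwSq z (r - 2 * δ) := by
  intro hin
  have a1 : dist (pos (T.tgt d)) (pos (T.src d)) ≤ δ := hM d h1
  have a2 := pvpe_tip_near (d := T.opp d) hM (by rw [T.src_opp']; exact h2) h3
  rw [T.src_opp'] at a2
  have b1 := pvlv_rad_lip z (pos (T.tgt d)) (pos (T.src d))
  have b3 := pvzc_sq_iff.1 hin
  exact a2 (pvzc_sq_iff.2 (by linarith))

/-- **(e) THE TYPE** (152): full state at a level `k ≤ K0`, centres = the grid cells of the tips (black ends of the tip darts) + SEP + complete menu ⟹ a type of the menu with the right colour, gate type, bit of the second gate, tip cells and masks (the masks cover the two HALVES: ruling 17 (a)) -/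
theorem pvpe_type {τ : Type} {c : ℝ} (𝔓 : PvxPar τ c) {𝔑 : PvpeNum} (hM : PvpeMenu 𝔓 𝔑) {m : ℕ} {ω : PVSample} (hG : DelGood (pvxY ω)) {b o o2 : Bool} {z : ℂ} {k : ℕ} {ρ μ : ℝ} (hk : k ≤ 𝔑.K0) (hKK : 𝔑.K0 ≤ 𝔓.num.K)
    (h1 : 0 ≤ 𝔓.num.rho1) (hb12 : 𝔑.b1 ≤ 2 * 𝔑.b2) (hμ0 : 0 ≤ μ) (hμ : 40 * μ ≤ 𝔓.num.rho * pvlmH m) {𝔖 : PvwSt (pvxT ω)} (hMesh : PvzcMesh (pvxT ω) (pvxPos ω) z ((2 * 𝔑.b2 + k * 𝔓.num.rho1) * pvlmH m) μ)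
    (hAt : 𝔖.At (pvxPos ω) 𝔓.num (pvlmH m) z (𝔑.ty k o (𝔑.cell ((pvxPos ω ((pvxT ω).src (𝔖.ep 𝔖.np)) - z) / (pvlmH m : ℂ))) (𝔑.cell ((pvxPos ω ((pvxT ω).src (𝔖.em 𝔖.nm)) - z) / (pvlmH m : ℂ)))) (pvxCol ω b))
    (hsep : PvpeSep (pvxT ω) (pvxPos ω) (pvlmH m) 𝔑.sep z ρ 𝔖) :
    ∃ t : τ, 𝔓.col t = b ∧ 𝔓.ty t = 𝔑.ty k o (𝔑.cell ((pvxPos ω ((pvxT ω).src (𝔖.ep 𝔖.np)) - z) / (pvlmH m : ℂ))) (𝔑.cell ((pvxPos ω ((pvxT ω).src (𝔖.em 𝔖.nm)) - z) / (pvlmH m : ℂ))) ∧ (𝔓.ty2 t).a = 𝔑.a2 ∧ (𝔓.ty2 t).b = 𝔑.b2 ∧ (𝔓.ty2 t).o = o2 ∧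
      pvxPos ω ((pvxT ω).src (𝔖.ep 𝔖.np)) ∈ pvxPl z (pvlmH m) (𝔓.cp t) ∧ pvxPos ω ((pvxT ω).src (𝔖.em 𝔖.nm)) ∈ pvxPl z (pvlmH m) (𝔓.cm t) ∧
      (∀ v ∈ pvpeXp (pvxT ω) (pvxPos ω) z ρ 𝔖, pvxPos ω v ∈ pvxPl z (pvlmH m) (𝔓.Mp t)) ∧ ∀ v ∈ pvpeXm (pvxT ω) (pvxPos ω) z ρ 𝔖, pvxPos ω v ∈ pvxPl z (pvlmH m) (𝔓.Mm t) := by
  have h0 : 0 < pvlmH m := pvlm_H_pos m
  have hT : (pvxT ω).IsSph := delb_plane_isSph hG
  set h := pvlmH m with hh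
  set yp := 𝔑.cell ((pvxPos ω ((pvxT ω).src (𝔖.ep 𝔖.np)) - z) / (h : ℂ)) with hyp
  set ym := 𝔑.cell ((pvxPos ω ((pvxT ω).src (𝔖.em 𝔖.nm)) - z) / (h : ℂ)) with hym
  set r : ℝ := 2 * 𝔑.b2 + 𝔓.num.K * 𝔓.num.rho1 with hr
  have erk : pvwRad 𝔓.num h (𝔑.ty k o yp ym) (𝔑.ty k o yp ym).k = (2 * 𝔑.b2 + (k : ℝ) * 𝔓.num.rho1) * h := rfl
  have hrk : pvwRad 𝔓.num h (𝔑.ty k o yp ym) (𝔑.ty k o yp ym).k ≤ r * h := by
    rw [erk]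
    have h2 : (k : ℝ) ≤ 𝔓.num.K := by exact_mod_cast hk.trans hKK
    have h3 : (k : ℝ) * 𝔓.num.rho1 ≤ 𝔓.num.K * 𝔓.num.rho1 := mul_le_mul_of_nonneg_right h2 h1
    exact mul_le_mul_of_nonneg_right (by linarith) h0.le
  -- rescaling
  have hback : ∀ w : ℂ, z + (h : ℂ) * ((w - z) / (h : ℂ)) = w := by
    intro w
    have : (h : ℂ) ≠ 0 := by exact_mod_cast h0.ne'
    field_simp
    ring
  have hsq : ∀ w : ℂ, w ∈ pvwSq z (pvwRad 𝔓.num h (𝔑.ty k o yp ym) (𝔑.ty k o yp ym).k) → (w - z) / (h : ℂ) ∈ pvwSq 0 r := fun w hw => pvpe_scale_sq h0 hrk hw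
  have hle : ∀ (bb : ℕ → ↥(pvxY ω)) (n : ℕ) (y : (pvxT ω).Pth), PvwLE (pvxT ω) bb n y → ∀ v ∈ y.verts, ∃ i, i ≤ n ∧ v = bb i := by
    rintro bb n y ⟨jj, -, -, h3, -⟩ v ⟨i, hi, rfl⟩
    exact ⟨jj i, (h3 i hi).1, (h3 i hi).2.1⟩
  have hinn : ∀ i, i ≤ 𝔖.inn.n → pvxPos ω (𝔖.inn.v i) ∈ pvwSq z (pvwRad 𝔓.num h (𝔑.ty k o yp ym) (𝔑.ty k o yp ym).k) := fun i hi =>
    pvwk_core_sq hAt.out.gate (pvwk_rad_ge (N := 𝔓.num) (τ := 𝔑.ty k o yp ym) hb12 h0.le h1 _) _ (pvwk_ins_sub_core hAt.out.gate ((pvdc_inn_facts hT 𝔖 hAt.out.gate).2.2 i hi))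
  set Ap : Set ℂ := {w | ∃ v ∈ pvpeXp (pvxT ω) (pvxPos ω) z ρ 𝔖, w = (pvxPos ω v - z) / (h : ℂ)} with hAp
  set Am : Set ℂ := {w | ∃ v ∈ pvpeXm (pvxT ω) (pvxPos ω) z ρ 𝔖, w = (pvxPos ω v - z) / (h : ℂ)} with hAm
  -- the tips
  have hep := hAt.out.stub.ep_in 𝔖.np le_rfl
  have hem := hAt.inn.stub.em_in 𝔖.nm le_rfl
  have hxp : (pvxPos ω ((pvxT ω).src (𝔖.ep 𝔖.np)) - z) / (h : ℂ) ∈ pvwSq 0 (2 * 𝔑.b2 + k * 𝔓.num.rho1) := pvpe_scale_sq h0 erk.le hep.1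
  have hxm : (pvxPos ω ((pvxT ω).src (𝔖.em 𝔖.nm)) - z) / (h : ℂ) ∈ pvwSq 0 (2 * 𝔑.b2 + k * 𝔓.num.rho1) := pvpe_scale_sq h0 erk.le hem.1
  have hmono : ∀ w : ℂ, (w - z) / (h : ℂ) ∈ pvwSq 0 (2 * 𝔑.b2 + k * 𝔓.num.rho1 - 𝔓.num.rho / 20) → w ∈ pvwSq z ((2 * 𝔑.b2 + k * 𝔓.num.rho1) * h - 2 * μ) := by
    intro w hw
    have a1 := pvzc_sq_iff.1 (pvpe_unscale_sq h0 hw)
    exact pvzc_sq_iff.2 (a1.trans (by nlinarith))
  have hxpn : (pvxPos ω ((pvxT ω).src (𝔖.ep 𝔖.np)) - z) / (h : ℂ) ∉ pvwSq 0 (2 * 𝔑.b2 + k * 𝔓.num.rho1 - 𝔓.num.rho / 20) := fun hin =>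
    pvpe_tip_near hMesh hep.1 hAt.out.stub.ep_out (pvzc_sq_iff.2 ((pvzc_sq_iff.1 (hmono _ hin)).trans (by linarith)))
  have hxmn : (pvxPos ω ((pvxT ω).src (𝔖.em 𝔖.nm)) - z) / (h : ℂ) ∉ pvwSq 0 (2 * 𝔑.b2 + k * 𝔓.num.rho1 - 𝔓.num.rho / 20) := fun hin =>
    pvpe_tip_near' hMesh hem.1 hem.2 hAt.inn.stub.em_out (hmono _ hin)
  have hfar : 7 / 4 * 𝔓.num.rho ≤ ‖yp - ym‖ := by
    have a1 : 2 * 𝔓.num.rho * h < ‖pvxPos ω ((pvxT ω).src (𝔖.em 𝔖.nm)) - (z + (h : ℂ) * yp)‖ := hAt.far_p _ (Or.inl (Or.inr ⟨𝔖.nm, le_rfl, rfl⟩))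
    have a2 : ‖pvxPos ω ((pvxT ω).src (𝔖.em 𝔖.nm)) - (z + (h : ℂ) * ym)‖ ≤ 𝔓.num.rho * h / 4 := hAt.inn.good.tip_m.1
    have a3 : ‖pvxPos ω ((pvxT ω).src (𝔖.em 𝔖.nm)) - (z + (h : ℂ) * yp)‖ ≤ ‖pvxPos ω ((pvxT ω).src (𝔖.em 𝔖.nm)) - (z + (h : ℂ) * ym)‖ + ‖(h : ℂ) * (yp - ym)‖ := by
      have e : pvxPos ω ((pvxT ω).src (𝔖.em 𝔖.nm)) - (z + (h : ℂ) * yp) = (pvxPos ω ((pvxT ω).src (𝔖.em 𝔖.nm)) - (z + (h : ℂ) * ym)) - (h : ℂ) * (yp - ym) := by ring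
      rw [e]
      exact norm_sub_le _ _
    rw [norm_mul, Complex.norm_real, Real.norm_of_nonneg h0.le] at a3
    have a4 : 7 / 4 * 𝔓.num.rho * h ≤ ‖yp - ym‖ * h := by linarith
    exact le_of_mul_le_mul_right a4 h0
  have hApS : Ap ⊆ pvwSq 0 r := by
    rintro w ⟨v, hv, rfl⟩
    rcases hv with ⟨y, hy, hv⟩ | ⟨i, -, hi, -, rfl⟩
    · obtain ⟨i, hi, rfl⟩ := hle _ _ y hy v hv
      exact hsq _ (hAt.out.stub.ep_in i hi).1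
    · exact hsq _ (hinn i hi)
  have hAmS : Am ⊆ pvwSq 0 r := by
    rintro w ⟨v, hv, rfl⟩
    rcases hv with ⟨y, hy, hv⟩ | ⟨i, hi, -, rfl⟩
    · obtain ⟨i, hi, rfl⟩ := hle _ _ y hy v hv
      exact hsq _ (hAt.inn.stub.em_in i hi).1
    · exact hsq _ (hinn i (hi.trans hAt.out.gate.ip_le))
  have hS : ∀ u ∈ Ap, ∀ v ∈ Am, 𝔑.sep < ‖u - v‖ := by
    rintro _ ⟨u, hu, rfl⟩ _ ⟨v, hv, rfl⟩
    have a1 := hsep u hu v hv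
    have e : (pvxPos ω u - z) / (h : ℂ) - (pvxPos ω v - z) / (h : ℂ) = (pvxPos ω u - pvxPos ω v) / (h : ℂ) := by ring
    rw [e, norm_div, Complex.norm_real, Real.norm_of_nonneg h0.le, lt_div_iff₀ h0]
    exact a1
  obtain ⟨t, t1, t2, t3, t4, t5, t6, t7, t8, t9⟩ := hM b o o2 k _ _ Ap Am hk hxp hxpn hxm hxmn hfar hApS hAmS hS
  exact ⟨t, t1, t2, t3, t4, t5, ⟨_, t6, hback _⟩, ⟨_, t7, hback _⟩, fun v hv => ⟨_, t8 ⟨v, hv, rfl⟩, hback _⟩, fun v hv => ⟨_, t9 ⟨v, hv, rfl⟩, hback _⟩⟩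

/-! ## 3. the roofs -/

/-- the counts of E11 at the last level in use, from `PvpeNF1` -/
theorem pvpe_counts {V D : Type} {T : PvMap V D} {pos : V → ℂ} {s : V → Bool} {z : ℂ} {r rF a : ℝ} {n : ℕ} (hfl : ¬ PvflStub T pos z rF a n s) (hr : r ≤ rF) {d : D} (hbw : pvasBW T s d) (hd : d ∈ pvlvBox T pos z rF)
    (hex : ∃ t, pvasIt T s d t ∉ pvlvBox T pos z rF) : pvlvCnt (pvlvZ T pos s d) a (pvasHit T s d (pvlvBox T pos z r)ᶜ) < n :=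
  lt_of_le_of_lt (pvlv_cnt_mono (pvas_hit_anti (show (pvlvBox T pos z rF)ᶜ ⊆ (pvlvBox T pos z r)ᶜ from fun _ hd hd' => hd (pvlv_box_mono hr hd')) hex)) (pvpe_cnt hbw hd (pvlv_exit_hit hex) hfl)

set_option maxHeartbeats 1000000 in
/-- **X3 = PIN EXISTS**, abstract (d): `hD` = (g3) + the mouth clauses for every pair of half states along the rim -/
theorem pvpe_core {τ : Type} {c : ℝ} (𝔓 : PvxPar τ c) {𝔑 : PvpeNum} (hM : PvpeMenu 𝔓 𝔑) {α1 β1 α2 β2 : ℝ} (h1a : 𝔑.a1 + 1 ≤ α1) (h1 : α1 < β1) (h1b : β1 + 1 ≤ 𝔑.b1)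
    (h2a : 𝔑.a2 + 1 ≤ α2) (h2 : α2 < β2) (h2b : β2 + 1 ≤ 𝔑.b2) {x : ℂ} {R μ : ℝ} {m : ℕ} (hm0 : 𝔓.m0 ≤ m) (hR : 0 < R) (hRm : PvpeRoom 𝔓.num 𝔑 (pvlmH m) μ R) {ω : PVSample} (hG : DelGood (pvxY ω))
    (hF : L9Fine (pvxY ω) (Metric.closedBall x (6 * R)) μ) {P : PvbRim} (hP : P ∈ pvhbAll x R ω) (hNR : PvpeNoRet P x R μ (pvlmH m)) {k : ℕ} {p : ℤ × ℤ} (hk : k ≤ P.len)
    (hkx : ‖P.v k - x‖ ≤ 2 * R) (hkz : ‖P.v k - l9Pt (pvlmH m) p‖ ≤ pvlmH m)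
    (hF1 : PvpeNF1 (pvxT ω) (pvxPos ω) (pvxCol ω (cfCol (pvConf ω) (P.v k))) 𝔓.num (pvlmH m) 𝔑 (l9Pt (pvlmH m) p))
    (hD : ∀ (o : Bool) (l : ℕ) (yp ym : ℂ) (𝔖 : PvwSt (pvxT ω)) (j : ℕ), l ≤ 𝔑.K0 → PvpeRun 𝔖 P j →
      𝔖.AtOut (pvxPos ω) 𝔓.num (pvlmH m) (l9Pt (pvlmH m) p) (𝔑.ty l o yp ym) (pvxCol ω (cfCol (pvConf ω) (P.v k))) → 𝔖.AtIn (pvxPos ω) 𝔓.num (pvlmH m) (l9Pt (pvlmH m) p) (𝔑.ty l o yp ym) (pvxCol ω (cfCol (pvConf ω) (P.v k))) →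
      PvpeD 𝔓.num (pvlmH m) (l9Pt (pvlmH m) p) (𝔑.ty l o yp ym) 𝔖 P j)
    (hF4 : PvpeNF4 (pvxT ω) (pvxPos ω) (pvxCol ω (cfCol (pvConf ω) (P.v k))) 𝔓.num (pvlmH m) 𝔑 (l9Pt (pvlmH m) p))
    (hA1 : ∃ G X, PvgGate (pvxT ω) (pvxCol ω (cfCol (pvConf ω) (P.v k))) true (pvdiB (pvxT ω) (pvxPos ω) (l9Pt (pvlmH m) p) (α1 * pvlmH m)) (pvdiB (pvxT ω) (pvxPos ω) (l9Pt (pvlmH m) p) (β1 * pvlmH m)) G X)
    (hA2 : ∃ G X, PvgGate (pvxT ω) (pvxCol ω (cfCol (pvConf ω) (P.v k))) true (pvdiB (pvxT ω) (pvxPos ω) (l9Pt (pvlmH m) p) (α2 * pvlmH m)) (pvdiB (pvxT ω) (pvxPos ω) (l9Pt (pvlmH m) p) (β2 * pvlmH m)) G X) :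
    ∃ s ∈ pvxPins 𝔓 x R m ω P, s.ctr = l9Pt (pvlmH m) p ∧ ∀ i, (s.idx ≤ i ∧ i ≤ k ∨ k ≤ i ∧ i ≤ s.idx) → ‖P.v i - l9Pt (pvlmH m) p‖ ≤ 𝔑.b1 * pvlmH m := by
  set z := l9Pt (pvlmH m) p with hz
  set b := cfCol (pvConf ω) (P.v k) with hb
  set h := pvlmH m with hh
  set N := 𝔓.num with hNdef
  have hT : (pvxT ω).IsSph := delb_plane_isSph hG
  have h0 := hRm.h0
  have hρ0 := hRm.rho0
  have hρ1 : 0 < N.rho1 := by linarith [hRm.rho1]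
  have hρ2 : 0 < N.rho2 := by linarith [hRm.rho2]
  have hKρ : 0 ≤ (N.K : ℝ) * N.rho1 := by positivity
  have hK0ρ : 0 ≤ (𝔑.K0 : ℝ) * N.rho1 := by positivity
  have hb2 : 12 < 𝔑.b2 := by linarith [hRm.a1, hRm.ab1, hRm.gap, hRm.ab2]
  have hb12 : 𝔑.b1 ≤ 2 * 𝔑.b2 := by linarith [hRm.a1, hRm.ab1, hRm.gap, hRm.ab2]
  have hρh : 0 < N.rho * h := mul_pos hρ0 h0
  have hρ1h : 4 * (N.rho * h) ≤ N.rho1 * h := by nlinarith [hRm.rho1]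
  have hρ2h : 4 * (N.rho1 * h) ≤ N.rho2 * h := by nlinarith [hRm.rho2]
  have hρ3h : N.rho2 * h < h := by nlinarith [hRm.rho3]
  have hμρ := hRm.mu_le
  have hμ0 := hRm.mu0
  have hμh : μ < h := by linarith
  have hbox := hRm.box
  have hhR : h ≤ R := by nlinarith
  have hKK : 𝔑.K0 ≤ N.K := hRm.K0_le
  have hzx : ‖z - x‖ ≤ 3 * R := by
    calc ‖z - x‖ = ‖-(P.v k - z) + (P.v k - x)‖ := by ring_nf
      _ ≤ ‖-(P.v k - z)‖ + ‖P.v k - x‖ := norm_add_le _ _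
      _ ≤ h + 2 * R := by rw [norm_neg]; exact add_le_add hkz hkx
      _ ≤ 3 * R := by linarith
  -- the two gates
  obtain ⟨𝔖₀, o, j, hg0, hrun0, hjk, hkj, hin0⟩ := pvpe_gate (z := z) (b := b) hR h0 hμ0 hμh hRm.a1 h1a h1 h1b (by nlinarith [hRm.ab1, hRm.gap, hRm.ab2]) hG hF hP hNR hk hkx hkz hb hA1
  obtain ⟨𝔖₂, o2, -, hg2, -⟩ := pvpe_gate (z := z) (b := b) hR h0 hμ0 hμh (by linarith [hRm.a1, hRm.ab1, hRm.gap]) h2a h2 h2b (by nlinarith) hG hF hP hNR hk hkx hkz hb hA2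
  set τ0 : PvwTy := 𝔑.ty 0 o 0 0 with hτ0
  obtain ⟨hg, hi⟩ := hg0 τ0 rfl rfl rfl
  -- the numbers of the levels
  have hNum : PvzcNum N h τ0 (N.rho2 / 4 * h) μ := ⟨h0, by nlinarith, hμ0.le, hρ1.le, hρ0.le, by linarith, by linarith, hb12⟩
  have erK0 : pvwRad N h τ0 𝔑.K0 = (2 * 𝔑.b2 + 𝔑.K0 * N.rho1) * h := rfl
  have hrF : pvwRad N h τ0 𝔑.K0 ≤ 𝔑.rF * h := by rw [erK0]; exact mul_le_mul_of_nonneg_right hRm.rF_ge h0.le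
  have hrFK : 𝔑.rF * h ≤ (2 * 𝔑.b2 + N.K * N.rho1) * h := mul_le_mul_of_nonneg_right hRm.rF_le h0.le
  have hMesh : PvzcMesh (pvxT ω) (pvxPos ω) z (pvwRad N h τ0 𝔑.K0) μ := pvpe_mesh hF hzx (by nlinarith)
  -- the strands leave the box of FLAG1
  have hbr : τ0.b * h ≤ 𝔑.rF * h := mul_le_mul_of_nonneg_right (by show 𝔑.b1 ≤ 𝔑.rF; linarith [hRm.rF_ge]) h0.le
  obtain ⟨tp, hp1, hp2⟩ := pvpe_follow_p (μ := μ) hR h0 hμ0 hμh.le hbr (by nlinarith) hG hF hP hzx hg hrun0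
  obtain ⟨tm, hm1, hm2⟩ := pvpe_follow_m (μ := μ) hR h0 hμ0 hμh.le hbr (by nlinarith) hG hF hP hzx hg hrun0
  have hsqF : pvwSq z (pvwRad N h τ0 𝔑.K0) ⊆ pvwSq z (𝔑.rF * h) := fun w hw => pvzc_sq_iff.2 ((pvzc_sq_iff.1 hw).trans hrF)
  have hexP : ∃ t, pvasIt (pvxT ω) (pvxCol ω b) 𝔖₀.dp t ∉ pvlvBox (pvxT ω) (pvxPos ω) z (𝔑.rF * h) := ⟨tp, fun hb' => hp1 (pvzc_box_iff.1 hb').1⟩
  have hexM : ∃ t, pvasIt (pvxT ω) (pvasNot (pvxCol ω b)) ((pvxT ω).opp 𝔖₀.dm) t ∉ pvlvBox (pvxT ω) (pvxPos ω) z (𝔑.rF * h) := by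
    refine ⟨tm, fun hb' => hm1 ?_⟩
    rw [pvwk_back_it, (pvxT ω).src_opp']
    exact (pvzc_box_iff.1 hb').2.1
  obtain ⟨g1, g2, g3, g4⟩ := pvwk_gate_ends hT hg
  have hcore := pvwk_core_sq hg (le_refl (τ0.b * h))
  have hcs : ∀ v ∈ 𝔖₀.ins, pvxPos ω v ∈ pvwSq z (τ0.b * h) := fun v hv => hcore v (pvwk_ins_sub_core hg hv)
  have eb : τ0.b * h = 𝔑.b1 * h := rfl
  have hbK0 : τ0.b * h ≤ pvwRad N h τ0 𝔑.K0 := by rw [erK0, eb]; exact mul_le_mul_of_nonneg_right (by linarith) h0.le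
  have hbμ : τ0.b * h + μ ≤ 𝔑.rF * h := by
    have : (𝔑.b1 + 1) * h ≤ 𝔑.rF * h := mul_le_mul_of_nonneg_right (by linarith [hRm.rF_ge, hRm.gap, hRm.ab2]) h0.le
    rw [eb]; linarith
  have hdpB : 𝔖₀.dp ∈ pvlvBox (pvxT ω) (pvxPos ω) z (𝔑.rF * h) := pvpe_mesh_box hMesh (hcs _ g1) (hcs _ g2) hbμ hbK0 hμ0.le
  have hdmB : (pvxT ω).opp 𝔖₀.dm ∈ pvlvBox (pvxT ω) (pvxPos ω) z (𝔑.rF * h) :=
    pvpe_mesh_box hMesh (by rw [(pvxT ω).src_opp']; exact hcs _ g4) (by rw [(pvxT ω).tgt_opp]; exact hcs _ g3) hbμ hbK0 hμ0.le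
  have hc1 := pvpe_counts hF1.1 hrF hg.bw_p hdpB hexP
  have hc2 := pvpe_counts hF1.2 hrF (pvas_bw_not.2 hg.bw_m) hdmB hexM
  have hn1 := hRm.n1
  -- the level
  obtain ⟨l, hl, hstub, hOut, hIn⟩ := pvzc_levels hT hNum hKK hg hi hMesh ⟨tp, fun hin => hp1 (hsqF hin), hp2⟩ ⟨tm, fun hin => hm1 (hsqF hin), hm2⟩
    (by
      show pvlvCnt _ _ (pvasHit (pvxT ω) (pvxCol ω b) 𝔖₀.dp (pvlvBox (pvxT ω) (pvxPos ω) z (pvwRad N h τ0 𝔑.K0))ᶜ) +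
        pvlvCnt _ _ (pvasHit (pvxT ω) (pvasNot (pvxCol ω b)) ((pvxT ω).opp 𝔖₀.dm) (pvlvBox (pvxT ω) (pvxPos ω) z (pvwRad N h τ0 𝔑.K0))ᶜ) < 𝔑.K0 + 1
      omega)
  set 𝔖 : PvwSt (pvxT ω) := pvzcLv 𝔖₀ (pvxPos ω) N h z τ0 (pvxCol ω b) l with h𝔖
  have hrl := pvzc_rad_mono hNum hl
  have hsql : pvwSq z (pvwRad N h τ0 l) ⊆ pvwSq z (pvwRad N h τ0 𝔑.K0) := fun w hw => pvzc_sq_iff.2 ((pvzc_sq_iff.1 hw).trans hrl)
  have hMl : PvzcMesh (pvxT ω) (pvxPos ω) z (pvwRad N h τ0 l) μ := fun d hd => hMesh d (hsql hd)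
  -- the centres = the grid cells of the tips
  set yp := 𝔑.cell ((pvxPos ω ((pvxT ω).src (𝔖.ep 𝔖.np)) - z) / (h : ℂ)) with hyp
  set ym := 𝔑.cell ((pvxPos ω ((pvxT ω).src (𝔖.em 𝔖.nm)) - z) / (h : ℂ)) with hym
  have hep := hstub.1.ep_in 𝔖.np le_rfl
  have hem := hstub.2.em_in 𝔖.nm le_rfl
  have hcen : ∀ u v : ℂ, u ∈ pvwSq z (pvwRad N h τ0 l) → dist v u ≤ μ →
      ‖u - (z + (h : ℂ) * 𝔑.cell ((u - z) / (h : ℂ)))‖ ≤ N.rho * h / 4 ∧ ‖v - (z + (h : ℂ) * 𝔑.cell ((u - z) / (h : ℂ)))‖ ≤ N.rho * h / 4 := by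
    intro u v hu huv
    have a1 := hRm.cell _ (pvpe_scale_sq h0 erK0.le (hsql hu))
    have a2 : ‖u - (z + (h : ℂ) * 𝔑.cell ((u - z) / (h : ℂ)))‖ ≤ N.rho * h / 8 := by
      rw [pvpe_scale_norm h0]
      nlinarith
    rw [Complex.dist_eq] at huv
    refine ⟨by linarith, ?_⟩
    calc ‖v - (z + (h : ℂ) * 𝔑.cell ((u - z) / (h : ℂ)))‖ = ‖(v - u) + (u - (z + (h : ℂ) * 𝔑.cell ((u - z) / (h : ℂ))))‖ := by ring_nf
      _ ≤ ‖v - u‖ + ‖u - (z + (h : ℂ) * 𝔑.cell ((u - z) / (h : ℂ)))‖ := norm_add_le _ _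
      _ ≤ N.rho * h / 4 := by linarith
  have htp : PvzcTipP 𝔖 (pvxPos ω) N h (z + (h : ℂ) * yp) := hcen _ _ hep.1 (hMl _ hep.1)
  have htm : PvzcTipM 𝔖 (pvxPos ω) N h (z + (h : ℂ) * ym) := hcen _ _ hem.1 (hMl _ hem.1)
  have hO : 𝔖.AtOut (pvxPos ω) N h z (𝔑.ty l o yp ym) (pvxCol ω b) := hOut yp ym htp
  have hI : 𝔖.AtIn (pvxPos ω) N h z (𝔑.ty l o yp ym) (pvxCol ω b) := hIn yp ym htm
  have hrun : PvpeRun 𝔖 P j := hrun0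
  -- the mouths
  obtain ⟨hfp, hfm, ⟨B, hB1, hB2, hB3⟩, A, hA1', hA2', hA3⟩ := hD o l yp ym 𝔖 j hl hrun hO hI
  have hAt : 𝔖.At (pvxPos ω) N h z (𝔑.ty l o yp ym) (pvxCol ω b) := ⟨hO, hI, hfp, hfm⟩
  have hsep := hF4 o l yp ym 𝔖 hl hAt (pvpe_disj hRm hR hG hF hP hzx hl hrun hO hI)
  -- the type
  obtain ⟨t, ht1, ht2, ht3, ht4, ht5, ht6, ht7, ht8, ht9⟩ := pvpe_type 𝔓 hM hG (o2 := o2) (μ := μ) hl hKK hρ1.le hb12 hμ0.le (by linarith) hMl hAt hsep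
  refine ⟨⟨j + 𝔖.ip, z, t⟩, ⟨hzx, ⟨p, rfl⟩, 𝔖, j, ⟨hG, ?_, ht6, ht7, fun y hy v hv => ht8 v (Or.inl ⟨y, hy, hv⟩), fun y hy v hv => ht9 v (Or.inl ⟨y, hy, hv⟩),
    fun i a1 a2 a3 => ht8 _ (Or.inr ⟨i, a1, a2, a3, rfl⟩), fun i a1 a2 => ht9 _ (Or.inr ⟨i, a1, a2, rfl⟩), hm0⟩, ⟨hrun.1, hrun.2, ⟨B, hB1, ?_, ?_⟩, ⟨A, hA1', ?_, ?_⟩⟩, rfl, 𝔖₂, ?_⟩, rfl, ?_⟩
  · show 𝔖.At (pvxPos ω) 𝔓.num h z (𝔓.ty t) (pvxCol ω (𝔓.col t))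
    rw [ht1, ht2]; exact hAt
  · show ∀ i, i ≤ B → P.v (j + 𝔖.inn.n + i) ∈ pvwSq z (pvwRad 𝔓.num h (𝔓.ty t) 𝔓.num.K)
    rw [ht2]; exact hB2
  · show ∀ k, k ≤ P.len → (k ≤ j ∨ j + 𝔖.inn.n + B < k) → 2 * 𝔓.num.rho * h < ‖P.v k - (𝔓.ty t).cp h z‖
    rw [ht2]; exact hB3
  · show ∀ i, i ≤ A → P.v (j - i) ∈ pvwSq z (pvwRad 𝔓.num h (𝔓.ty t) 𝔓.num.K)
    rw [ht2]; exact hA2'
  · show ∀ k, k ≤ P.len → (k + A < j ∨ j + 𝔖.inn.n ≤ k) → 2 * 𝔓.num.rho * h < ‖P.v k - (𝔓.ty t).cm h z‖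
    rw [ht2]; exact hA3
  · show 𝔖₂.Gate (pvxPos ω) h z (𝔓.ty2 t) (pvxCol ω (𝔓.col t))
    rw [ht1]; exact (hg2 _ ht3 ht4 ht5).1
  · intro i hi'
    have hip : 𝔖₀.ip ≤ 𝔖₀.inn.n := hg.ip_le
    have hi'' : j ≤ i ∧ i ≤ j + 𝔖₀.inn.n := by
      have e : (⟨j + 𝔖.ip, z, t⟩ : PvbPin τ).idx = j + 𝔖₀.ip := rfl
      rw [e] at hi'
      omega
    obtain ⟨i', rfl⟩ : ∃ i', i = j + i' := ⟨i - j, by omega⟩
    rw [hrun0.2 i' (by omega)]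
    exact hin0 i' (by omega)

/-- the centre of the pin lies in `clB(x, 3R)` -/
theorem pvpe_zx {x z w : ℂ} {R h : ℝ} (hhR : h ≤ R) (hkx : ‖w - x‖ ≤ 2 * R) (hkz : ‖w - z‖ ≤ h) : ‖z - x‖ ≤ 3 * R := by
  calc ‖z - x‖ = ‖-(w - z) + (w - x)‖ := by ring_nf
    _ ≤ ‖-(w - z)‖ + ‖w - x‖ := norm_add_le _ _
    _ ≤ h + 2 * R := by rw [norm_neg]; exact add_le_add hkz hkx
    _ ≤ 3 * R := by linarith

theorem PvpeRoom.h_le {N : PvwNum} {𝔑 : PvpeNum} {h μ R : ℝ} (hRm : PvpeRoom N 𝔑 h μ R) : h ≤ R := by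
  have h0 := hRm.h0
  have hρ1 : 0 < N.rho1 := by linarith [hRm.rho1, hRm.rho0]
  have hKρ : 0 ≤ (N.K : ℝ) * N.rho1 := by positivity
  have hb2 : 12 < 𝔑.b2 := by linarith [hRm.a1, hRm.ab1, hRm.gap, hRm.ab2]
  have hbox := hRm.box
  nlinarith

/-- **X3 = PIN EXISTS** (deterministic) = (DI) of the roof of the pins, road E.      OF RECORD (ruling W-6): FLAG2 is consumed through the SHIELDS. -/
theorem pvpe_main {τ : Type} {c : ℝ} (𝔓 : PvxPar τ c) {𝔑 : PvpeNum} (hM : PvpeMenu 𝔓 𝔑) {α1 β1 α2 β2 : ℝ} (h1a : 𝔑.a1 + 1 ≤ α1) (h1 : α1 < β1) (h1b : β1 + 1 ≤ 𝔑.b1)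
    (h2a : 𝔑.a2 + 1 ≤ α2) (h2 : α2 < β2) (h2b : β2 + 1 ≤ 𝔑.b2) {x : ℂ} {R μ : ℝ} {m : ℕ} (hm0 : 𝔓.m0 ≤ m) (hR : 0 < R) (hRm : PvpeRoom 𝔓.num 𝔑 (pvlmH m) μ R) {ω : PVSample} (hG : DelGood (pvxY ω))
    (hF : L9Fine (pvxY ω) (Metric.closedBall x (6 * R)) μ) {P : PvbRim} (hP : P ∈ pvhbAll x R ω) (hNR : PvpeNoRet P x R μ (pvlmH m)) {k : ℕ} {p : ℤ × ℤ} (hk : k ≤ P.len)
    (hkx : ‖P.v k - x‖ ≤ 2 * R) (hkz : ‖P.v k - l9Pt (pvlmH m) p‖ ≤ pvlmH m)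
    (hF1 : PvpeNF1 (pvxT ω) (pvxPos ω) (pvxCol ω (cfCol (pvConf ω) (P.v k))) 𝔓.num (pvlmH m) 𝔑 (l9Pt (pvlmH m) p))
    (hF2 : PvpeNF2 (pvxT ω) (pvxPos ω) (pvxCol ω (cfCol (pvConf ω) (P.v k))) 𝔓.num (pvlmH m) 𝔑 (l9Pt (pvlmH m) p))
    (hF4 : PvpeNF4 (pvxT ω) (pvxPos ω) (pvxCol ω (cfCol (pvConf ω) (P.v k))) 𝔓.num (pvlmH m) 𝔑 (l9Pt (pvlmH m) p))
    (hA1 : ∃ G X, PvgGate (pvxT ω) (pvxCol ω (cfCol (pvConf ω) (P.v k))) true (pvdiB (pvxT ω) (pvxPos ω) (l9Pt (pvlmH m) p) (α1 * pvlmH m)) (pvdiB (pvxT ω) (pvxPos ω) (l9Pt (pvlmH m) p) (β1 * pvlmH m)) G X)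
    (hA2 : ∃ G X, PvgGate (pvxT ω) (pvxCol ω (cfCol (pvConf ω) (P.v k))) true (pvdiB (pvxT ω) (pvxPos ω) (l9Pt (pvlmH m) p) (α2 * pvlmH m)) (pvdiB (pvxT ω) (pvxPos ω) (l9Pt (pvlmH m) p) (β2 * pvlmH m)) G X) :
    ∃ s ∈ pvxPins 𝔓 x R m ω P, s.ctr = l9Pt (pvlmH m) p ∧ ∀ i, (s.idx ≤ i ∧ i ≤ k ∨ k ≤ i ∧ i ≤ s.idx) → ‖P.v i - l9Pt (pvlmH m) p‖ ≤ 𝔑.b1 * pvlmH m :=
  pvpe_core 𝔓 hM h1a h1 h1b h2a h2 h2b hm0 hR hRm hG hF hP hNR hk hkx hkz hF1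
    (fun o l yp ym 𝔖 j hl hrun hO hI => pvpe_shield hRm hR hG hF hP (pvpe_zx hRm.h_le hkx hkz) hl hrun hO hI ((hF2 o l yp ym 𝔖 hl).1 hO) ((hF2 o l yp ym 𝔖 hl).2 hI)) hF4 hA1 hA2

/-- **X3 = PIN EXISTS**, second rope: FLAG2 is consumed through the SEALS -/
theorem pvpe_main_seal {τ : Type} {c : ℝ} (𝔓 : PvxPar τ c) {𝔑 : PvpeNum} (hM : PvpeMenu 𝔓 𝔑) {α1 β1 α2 β2 : ℝ} (h1a : 𝔑.a1 + 1 ≤ α1) (h1 : α1 < β1) (h1b : β1 + 1 ≤ 𝔑.b1)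
    (h2a : 𝔑.a2 + 1 ≤ α2) (h2 : α2 < β2) (h2b : β2 + 1 ≤ 𝔑.b2) {x : ℂ} {R μ : ℝ} {m : ℕ} (hm0 : 𝔓.m0 ≤ m) (hR : 0 < R) (hRm : PvpeRoom 𝔓.num 𝔑 (pvlmH m) μ R) (hlev : 𝔑.K0 * 𝔓.num.rho1 + 3 * 𝔓.num.rho2 ≤ 𝔓.num.K * 𝔓.num.rho1)
    {ω : PVSample} (hG : DelGood (pvxY ω))
    (hF : L9Fine (pvxY ω) (Metric.closedBall x (6 * R)) μ) {P : PvbRim} (hP : P ∈ pvhbAll x R ω) (hNR : PvpeNoRet P x R μ (pvlmH m)) {k : ℕ} {p : ℤ × ℤ} (hk : k ≤ P.len)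
    (hkx : ‖P.v k - x‖ ≤ 2 * R) (hkz : ‖P.v k - l9Pt (pvlmH m) p‖ ≤ pvlmH m)
    (hF1 : PvpeNF1 (pvxT ω) (pvxPos ω) (pvxCol ω (cfCol (pvConf ω) (P.v k))) 𝔓.num (pvlmH m) 𝔑 (l9Pt (pvlmH m) p))
    (hF2 : PvpeNF2s (pvxT ω) (pvxPos ω) (pvxCol ω (cfCol (pvConf ω) (P.v k))) 𝔓.num (pvlmH m) 𝔑 (l9Pt (pvlmH m) p))
    (hF4 : PvpeNF4 (pvxT ω) (pvxPos ω) (pvxCol ω (cfCol (pvConf ω) (P.v k))) 𝔓.num (pvlmH m) 𝔑 (l9Pt (pvlmH m) p))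
    (hA1 : ∃ G X, PvgGate (pvxT ω) (pvxCol ω (cfCol (pvConf ω) (P.v k))) true (pvdiB (pvxT ω) (pvxPos ω) (l9Pt (pvlmH m) p) (α1 * pvlmH m)) (pvdiB (pvxT ω) (pvxPos ω) (l9Pt (pvlmH m) p) (β1 * pvlmH m)) G X)
    (hA2 : ∃ G X, PvgGate (pvxT ω) (pvxCol ω (cfCol (pvConf ω) (P.v k))) true (pvdiB (pvxT ω) (pvxPos ω) (l9Pt (pvlmH m) p) (α2 * pvlmH m)) (pvdiB (pvxT ω) (pvxPos ω) (l9Pt (pvlmH m) p) (β2 * pvlmH m)) G X) :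
    ∃ s ∈ pvxPins 𝔓 x R m ω P, s.ctr = l9Pt (pvlmH m) p ∧ ∀ i, (s.idx ≤ i ∧ i ≤ k ∨ k ≤ i ∧ i ≤ s.idx) → ‖P.v i - l9Pt (pvlmH m) p‖ ≤ 𝔑.b1 * pvlmH m :=
  pvpe_core 𝔓 hM h1a h1 h1b h2a h2 h2b hm0 hR hRm hG hF hP hNR hk hkx hkz hF1
    (fun o l yp ym 𝔖 j hl hrun hO hI =>
      have hzx := pvpe_zx hRm.h_le hkx hkz
      have hSp := (hF2 o l yp ym 𝔖 hl).1 hO
      have hSm := (hF2 o l yp ym 𝔖 hl).2 hI
      ⟨(pvpe_far hRm hlev hR hG hF hP hzx hl hrun hO hI hSp hSm).1, (pvpe_far hRm hlev hR hG hF hP hzx hl hrun hO hI hSp hSm).2,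
        pvpe_mouth_p hRm hlev hR hG hF hP hzx hl hrun hO hSp, pvpe_mouth_m hRm hlev hR hG hF hP hzx hl hrun hI hSm⟩) hF4 hA1 hA2

end Claimed.Agent.R289
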