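import Claimed.Agent.R289.Defs.TrModel
import Claimed.Agent.R289.Tr.StKit
import Claimed.Agent.R289.Tr.Flag
import Claimed.Agent.R289.Tr.GoodLev
import Claimed.Agent.R289.Tr.PinOff

/-!
# Row 289 (S0537, Cardy for Poisson-Voronoi), THE WALL, road E, X3 = PIN EXISTS, file Tr/PinKit : KIT OF THE LEVELS AT THE MODEL      (helper157; prefix `pvpy_`; on `Tr/Defs` v3; NO definition of `Tr/PinE` is used: survives its retyping)

* sec.1  records against `Tr/Level` (235), `Tr/GoodLev` (112): `pvpy_exit_p/m` (a stub of a record = first exit of the box by the FACE), `pvpy_cnt` (not `PvflStub` ⟹ fewer than `n1` steps), `pvpy_mesh_box`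
* sec.2  ABSTRACT **NO RETURN INTO THE GATE** `pvpy_noret_p`, `pvpy_noret_m`: the strand from `dp` is outside the gate at time `tB` and has not met `g⁻` up to `tB` ⟹ it has not been inside the gate up to `tB`  (no sector argument, no Jordan)
* sec.3  the encoded rim leaves every small box on both sides of a place, inside `clB(x, 5R)`: `pvpy_rim_exit_p/m`
* sec.4  the model: `pvpy_mesh` (`L9Fine` ⟹ `PvzcMesh`), **`pvpy_levels`** : gate + fixed rule + REACH (both sides) + not FLAG1 ⟹ a level `k ≤ K0` with `Stub`, `AtOut`, `AtIn` for every admissible pair of tip centres (= `pvzc_levels` of 112 with all its hypotheses discharged but REACH)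
* sec.5  **`pvpy_reach_model_p/m`** (REACH at the model, over `Tr/PinOff` of 106), **`pvpy_levels_model`** : (b) + (c) + (c') of X3 with NO open hypothesis
REACH (`PvpyReachP`, `PvpyReachM`) = "the wall meets a site outside the box and has not been inside the gate before" = conclusion of `pvzc_follow_p/m`;  `pvpy_reach_p/m` : REACH from "leaves the box" + "does not meet `g∓` before".
-/

set_option autoImplicit false

namespace Claimed.Agent.R289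

open Set Claims.C0465

/-! ## 1. records against `Tr/Level`, `Tr/GoodLev` -/

section calm

variable {V D : Type} {T : PvMap V D} {pos : V → ℂ} {s : V → Bool} {z : ℂ} {r : ℝ}

/-- the exit stub of a record = the first exit of the box by the FACE of the strand from `dp` -/
theorem pvpy_exit_p {𝔖 : PvwSt T} (hst : 𝔖.StubP pos (pvwSq z r) s) : PvlvExit (pvlvH T pos z s 𝔖.dp) r 𝔖.np := by
  constructor
  · by_contra hcon
    have h1 : pvasIt T s 𝔖.dp 𝔖.np ∈ pvlvBox T pos z r := not_lt.1 hcon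
    have h3 := (pvzc_box_iff.1 h1).2.2
    rw [← hst.ep_it _ le_rfl] at h3
    exact hst.ep_out h3
  · intro t ht
    show pvasIt T s 𝔖.dp t ∈ pvlvBox T pos z r
    rw [← hst.ep_it t ht.le]
    exact pvzc_box_iff.2 ⟨(hst.ep_in t ht.le).1, (hst.ep_in t ht.le).2, hst.ep_ax t ht⟩

/-- the positions of the entrance stub are the opposites of the positions of the strand of the exchanged colouring from `opp dm` -/
theorem pvpy_em_opp {B : Set ℂ} {𝔖 : PvwSt T} (hst : 𝔖.StubM pos B s) {i : ℕ} (hi : i ≤ 𝔖.nm) : pvasIt T (pvasNot s) (T.opp 𝔖.dm) i = T.opp (𝔖.em i) := by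
  rw [hst.em_it i hi, pvwk_back_it, T.opp_opp]

/-- the entrance stub of a record = the first exit of the box by the FACE of the strand of the exchanged colouring from `opp dm` -/
theorem pvpy_exit_m {𝔖 : PvwSt T} (hst : 𝔖.StubM pos (pvwSq z r) s) : PvlvExit (pvlvH T pos z (pvasNot s) (T.opp 𝔖.dm)) r 𝔖.nm := by
  constructor
  · by_contra hcon
    have h1 : pvasIt T (pvasNot s) (T.opp 𝔖.dm) 𝔖.nm ∈ pvlvBox T pos z r := not_lt.1 hcon
    have h3 := (pvzc_box_iff.1 h1).2.2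
    rw [pvpy_em_opp hst le_rfl] at h3
    exact hst.em_out h3
  · intro t ht
    show pvasIt T (pvasNot s) (T.opp 𝔖.dm) t ∈ pvlvBox T pos z r
    rw [pvpy_em_opp hst ht.le]
    refine pvzc_box_iff.2 ⟨?_, ?_, hst.em_ax t ht⟩
    · rw [T.src_opp']; exact (hst.em_in t ht.le).2
    · rw [T.tgt_opp]; exact (hst.em_in t ht.le).1

/-- one strand: fewer than `n1` steps up to the first exit of the box, unless the flag of the box is up -/
theorem pvpy_cnt {d : D} {n n1 : ℕ} {a : ℝ} (hbw : pvasBW T s d) (hd : d ∈ pvlvBox T pos z r) (hE : PvlvExit (pvlvH T pos z s d) r n) (hfl : ¬ PvflStub T pos z r a n1 s) :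
    pvlvCnt (pvlvZ T pos s d) a n < n1 := by
  by_contra hcon
  exact hfl ⟨d, n, hbw, hd, fun t ht => hE.2 t ht, fun hm => absurd hE.1 (not_lt.2 hm), not_lt.1 hcon⟩

/-- a position with both ends well inside the box has its face in the box -/
theorem pvpy_mesh_box {δ r' ρ : ℝ} (hM : PvzcMesh T pos z r' δ) {d : D} (h1 : pos (T.src d) ∈ pvwSq z ρ) (h2 : pos (T.tgt d) ∈ pvwSq z ρ) (hρ : ρ + δ ≤ r) (hρ' : ρ ≤ r') (hδ : 0 ≤ δ) :
    d ∈ pvlvBox T pos z r := by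
  have h3 := hM (T.opp (T.nxt (T.nxt d)))
  rw [T.src_opp', T.tgt_opp, T.tgt_nxt, T.apex_nxt] at h3
  have h4 : dist (pos (T.apex d)) (pos (T.src d)) ≤ δ := h3 (pvzc_sq_iff.2 ((pvzc_sq_iff.1 h1).trans hρ'))
  have h5 := pvlv_rad_lip z (pos (T.apex d)) (pos (T.src d))
  have h6 := pvzc_sq_iff.1 h1
  have h7 := pvzc_sq_iff.1 h2
  exact pvzc_box_iff.2 ⟨pvzc_sq_iff.2 (by linarith), pvzc_sq_iff.2 (by linarith), pvzc_sq_iff.2 (by linarith)⟩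

end calm

/-! ## 2. no return into the gate -/

section noret

variable {V D : Type} {T : PvMap V D} {pos : V → ℂ} {s : V → Bool} {h : ℝ} {z : ℂ} {τ : PvwTy}

/-- two darts of a circuit with the same head are equal -/
theorem pvpy_cyc_eq_of_tgt (c : T.Cyc) {d d' : D} (hd : d ∈ c.darts) (hd' : d' ∈ c.darts) (e : T.tgt d = T.tgt d') : d = d' := by
  obtain ⟨i, rfl⟩ := hd
  obtain ⟨i', rfl⟩ := hd'
  rw [c.chain, c.chain] at e
  have h1 := pl_cyc_src_inj c e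
  have h2 : i % c.n = i' % c.n := Nat.ModEq.add_right_cancel' 1 h1
  exact pl_cyc_eq_of_mod c h2

/-- two darts of a circuit with the same tail are equal -/
theorem pvpy_cyc_eq_of_src (c : T.Cyc) {d d' : D} (hd : d ∈ c.darts) (hd' : d' ∈ c.darts) (e : T.src d = T.src d') : d = d' := by
  obtain ⟨i, rfl⟩ := hd
  obtain ⟨i', rfl⟩ := hd'
  exact pl_cyc_eq_of_src c e

/-- **NO RETURN INTO THE GATE, forwards**: the strand from the exit gate edge is outside the gate at time `tB` and has not met `g⁻` before: it has not been inside the gate -/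
theorem pvpy_noret_p (hT : T.IsSph) {𝔖 : PvwSt T} (hg : 𝔖.Gate pos h z τ s) {tB : ℕ} (hout : pvasIt T s 𝔖.dp tB ∉ 𝔖.S.Left)
    (hgm : ∀ u, u ≤ tB → T.src (pvasIt T s 𝔖.dp u) ≠ 𝔖.gm) : ∀ u, u ≤ tB → pvasIt T s 𝔖.dp u ∉ 𝔖.S.Left := by
  classical
  intro u hu hin
  have hL := pl_left_face 𝔖.S
  have hex : ∃ w, u ≤ w ∧ pvasIt T s 𝔖.dp w ∉ 𝔖.S.Left := ⟨tB, hu, hout⟩
  obtain ⟨hw1, hw2⟩ := Nat.find_spec hex
  have hwmin : ∀ i, u ≤ i → i < Nat.find hex → pvasIt T s 𝔖.dp i ∈ 𝔖.S.Left := by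
    intro i hi1 hi2
    by_contra hn
    exact Nat.find_min hex hi2 ⟨hi1, hn⟩
  have hwB : Nat.find hex ≤ tB := Nat.find_min' hex ⟨hu, hout⟩
  generalize Nat.find hex = w₁ at hw1 hw2 hwmin hwB
  have huw : u < w₁ := by
    rcases Nat.lt_or_ge u w₁ with h1 | h1
    · exact h1
    · have : w₁ = u := le_antisymm h1 hw1
      rw [this] at hw2
      exact absurd hin hw2
  obtain ⟨w, rfl⟩ : ∃ w, w₁ = w + 1 := ⟨w₁ - 1, by omega⟩
  have h1 : T.opp (pvasIt T s 𝔖.dp (w + 1)) ∈ 𝔖.S.Left := (pvfl_opp_mem hL s 𝔖.dp w).2 (hwmin w (by omega) (by omega))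
  have h2 : T.opp (pvasIt T s 𝔖.dp (w + 1)) ∈ 𝔖.S.darts := (pl_cyc_darts_iff hT 𝔖.S _).2 ⟨h1, by rw [T.opp_opp]; exact hw2⟩
  have hbw := pvas_it_bw hg.bw_p (w + 1)
  have hv : T.src (pvasIt T s 𝔖.dp (w + 1)) ∈ 𝔖.S.verts := by
    obtain ⟨i, hi⟩ := h2
    refine ⟨i + 1, ?_⟩
    rw [← 𝔖.S.chain, hi, T.tgt_opp]
  have hdpL : 𝔖.dp ∉ 𝔖.S.Left := by
    have := ((pl_cyc_darts_iff hT 𝔖.S _).1 hg.dp_on).2
    rwa [T.opp_opp] at this
  rcases hg.two _ hv hbw.1 with e | e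
  · -- the strand has closed up
    have e1 : pvasIt T s 𝔖.dp (w + 1) = 𝔖.dp := by
      apply T.opp_injective
      refine pvpy_cyc_eq_of_tgt 𝔖.S h2 hg.dp_on ?_
      rw [T.tgt_opp, T.tgt_opp]
      exact e
    obtain ⟨n, hn1, hn2, -⟩ := hg.strand
    rcases le_or_gt n (w + 1) with hnw | hnw
    · have e2 : pvasIt T s 𝔖.dp (w + 1 - n) = 𝔖.dm := by
        refine pvas_it_cancel (pvas_it_bw hg.bw_p _) hg.bw_m n ?_
        rw [← pvas_it_add, hn1, show w + 1 - n + n = w + 1 by omega, e1]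
      exact hgm (w + 1 - n) (by omega) (by rw [e2]; rfl)
    · have e2 : pvasIt T s 𝔖.dm (n - (w + 1)) = 𝔖.dp := by
        refine pvas_it_cancel (pvas_it_bw hg.bw_m _) hg.bw_p (w + 1) ?_
        rw [← pvas_it_add, show n - (w + 1) + (w + 1) = n by omega, hn1, e1]
      exact hdpL (e2 ▸ hn2 _ (by omega))
  · exact hgm (w + 1) hwB e

/-- **NO RETURN INTO THE GATE, backwards** -/
theorem pvpy_noret_m (hT : T.IsSph) {𝔖 : PvwSt T} (hg : 𝔖.Gate pos h z τ s) {tA : ℕ} (hout : T.opp ((pvasBack T s)^[tA] 𝔖.dm) ∉ 𝔖.S.Left)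
    (hgp : ∀ u, u ≤ tA → T.src ((pvasBack T s)^[u] 𝔖.dm) ≠ 𝔖.gp) : ∀ u, u ≤ tA → T.opp ((pvasBack T s)^[u] 𝔖.dm) ∉ 𝔖.S.Left := by
  classical
  intro u hu hin
  have hL := pl_left_face 𝔖.S
  have hex : ∃ w, u ≤ w ∧ T.opp ((pvasBack T s)^[w] 𝔖.dm) ∉ 𝔖.S.Left := ⟨tA, hu, hout⟩
  obtain ⟨hw1, hw2⟩ := Nat.find_spec hex
  have hwmin : ∀ i, u ≤ i → i < Nat.find hex → T.opp ((pvasBack T s)^[i] 𝔖.dm) ∈ 𝔖.S.Left := by
    intro i hi1 hi2
    by_contra hn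
    exact Nat.find_min hex hi2 ⟨hi1, hn⟩
  have hwB : Nat.find hex ≤ tA := Nat.find_min' hex ⟨hu, hout⟩
  generalize Nat.find hex = w₁ at hw1 hw2 hwmin hwB
  have huw : u < w₁ := by
    rcases Nat.lt_or_ge u w₁ with h1 | h1
    · exact h1
    · have : w₁ = u := le_antisymm h1 hw1
      rw [this] at hw2
      exact absurd hin hw2
  obtain ⟨w, rfl⟩ : ∃ w, w₁ = w + 1 := ⟨w₁ - 1, by omega⟩
  have h1 : (pvasBack T s)^[w + 1] 𝔖.dm ∈ 𝔖.S.Left := by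
    have h3 := hwmin w (by omega) (by omega)
    rw [pvwk_back_it, T.opp_opp] at h3
    rw [pvwk_back_it]
    exact (pvfl_opp_mem hL (pvasNot s) (T.opp 𝔖.dm) w).2 h3
  have h2 : (pvasBack T s)^[w + 1] 𝔖.dm ∈ 𝔖.S.darts := (pl_cyc_darts_iff hT 𝔖.S _).2 ⟨h1, hw2⟩
  have hbw := pvwk_back_bw hg.bw_m (w + 1)
  have hv : T.src ((pvasBack T s)^[w + 1] 𝔖.dm) ∈ 𝔖.S.verts := by
    obtain ⟨i, hi⟩ := h2
    exact ⟨i, by rw [hi]⟩
  have hdpL : 𝔖.dp ∉ 𝔖.S.Left := by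
    have := ((pl_cyc_darts_iff hT 𝔖.S _).1 hg.dp_on).2
    rwa [T.opp_opp] at this
  rcases hg.two _ hv hbw.1 with e | e
  · exact hgp (w + 1) hwB e
  · have e1 : (pvasBack T s)^[w + 1] 𝔖.dm = 𝔖.dm := pvpy_cyc_eq_of_src 𝔖.S h2 hg.dm_on e
    obtain ⟨n, hn1, hn2, -⟩ := hg.strand
    rcases le_or_gt n (w + 1) with hnw | hnw
    · have e2 := pvwk_it_back hg.bw_m hnw
      rw [e1, hn1] at e2
      exact hgp (w + 1 - n) (by omega) (by rw [← e2]; rfl)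
    · have e2 := pvwk_it_back_end hg.bw_m (w + 1)
      rw [e1] at e2
      have e3 : pvasIt T s 𝔖.dm (n - (w + 1)) = 𝔖.dp := by
        rw [← hn1]
        conv_rhs => rw [show n = (w + 1) + (n - (w + 1)) by omega, pvas_it_add, e2]
      exact hdpL (e3 ▸ hn2 _ (by omega))

end noret

/-! ## 3. the rim leaves the box -/

section rimexit

variable {x z : ℂ} {R μ r : ℝ} {P : PvbRim}

theorem pvpy_sq_near (hzx : ‖z - x‖ ≤ 3 * R) {w : ℂ} (hw : w ∈ pvwSq z r) : ‖w - x‖ ≤ 2 * r + 3 * R := by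
  have h1 : ‖w - z‖ ≤ 2 * r := by
    refine (Complex.norm_le_abs_re_add_abs_im _).trans ?_
    linarith [hw.1, hw.2]
  calc ‖w - x‖ = ‖(w - z) + (z - x)‖ := by ring_nf
    _ ≤ ‖w - z‖ + ‖z - x‖ := norm_add_le _ _
    _ ≤ 2 * r + 3 * R := by linarith

/-- **the rim leaves the box after the place `a`**, inside `clB(x, 5R)` -/
theorem pvpy_rim_exit_p (hμ0 : 0 ≤ μ) (hcl : P.v P.len = P.v 0) (hfr : 4 * R ≤ ‖P.v 0 - x‖) (hmv : ∀ k < P.len, (‖P.v k - x‖ ≤ 5 * R ∨ ‖P.v (k + 1) - x‖ ≤ 5 * R) → ‖P.v (k + 1) - P.v k‖ ≤ μ) (hzx : ‖z - x‖ ≤ 3 * R) (hr : 2 * r < R) (hμ : μ ≤ R) {a : ℕ} (ha : a ≤ P.len) (h0 : P.v a ∈ pvwSq z r) :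
    ∃ B, a + B ≤ P.len ∧ (∀ i, i ≤ B → ‖P.v (a + i) - x‖ ≤ 5 * R) ∧ P.v (a + B) ∉ pvwSq z r := by
  classical
  have hR0 : 0 ≤ R := hμ0.trans hμ
  have hfar : P.v 0 ∉ pvwSq z r := fun hin => by linarith [pvpy_sq_near hzx hin, hfr]
  have hex : ∃ i, P.v (a + i) ∉ pvwSq z r := ⟨P.len - a, by rw [show a + (P.len - a) = P.len by omega, hcl]; exact hfar⟩
  have hB := Nat.find_spec hex
  have hmin : ∀ i, i < Nat.find hex → P.v (a + i) ∈ pvwSq z r := fun i hi => not_not.1 (Nat.find_min hex hi)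
  have hle : Nat.find hex ≤ P.len - a := Nat.find_min' hex (by rw [show a + (P.len - a) = P.len by omega, hcl]; exact hfar)
  generalize Nat.find hex = B at hB hmin hle
  refine ⟨B, by omega, fun i hi => ?_, hB⟩
  rcases Nat.lt_or_ge i B with h1 | h1
  · linarith [pvpy_sq_near hzx (hmin i h1)]
  · have e : i = B := le_antisymm hi h1
    subst e
    rcases Nat.eq_zero_or_pos i with h2 | h2
    · subst h2; exact absurd h0 hB
    · obtain ⟨i', rfl⟩ : ∃ i', i = i' + 1 := ⟨i - 1, by omega⟩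
      have h3 := pvpy_sq_near hzx (hmin i' (by omega))
      have h4 := hmv (a + i') (by omega) (Or.inl (by linarith))
      calc ‖P.v (a + (i' + 1)) - x‖ = ‖(P.v (a + i' + 1) - P.v (a + i')) + (P.v (a + i') - x)‖ := by rw [← add_assoc]; ring_nf
        _ ≤ ‖P.v (a + i' + 1) - P.v (a + i')‖ + ‖P.v (a + i') - x‖ := norm_add_le _ _
        _ ≤ 5 * R := by linarith

/-- **the rim comes from outside the box before the place `a`**, inside `clB(x, 5R)` -/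
theorem pvpy_rim_exit_m (hμ0 : 0 ≤ μ) (hfr : 4 * R ≤ ‖P.v 0 - x‖) (hmv : ∀ k < P.len, (‖P.v k - x‖ ≤ 5 * R ∨ ‖P.v (k + 1) - x‖ ≤ 5 * R) → ‖P.v (k + 1) - P.v k‖ ≤ μ) (hzx : ‖z - x‖ ≤ 3 * R) (hr : 2 * r < R) (hμ : μ ≤ R) {a : ℕ} (ha : a ≤ P.len) (h0 : P.v a ∈ pvwSq z r) :
    ∃ A, A ≤ a ∧ (∀ i, i ≤ A → ‖P.v (a - i) - x‖ ≤ 5 * R) ∧ P.v (a - A) ∉ pvwSq z r := by
  classical
  have hR0 : 0 ≤ R := hμ0.trans hμ
  have hfar : P.v 0 ∉ pvwSq z r := fun hin => by linarith [pvpy_sq_near hzx hin, hfr]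
  have hex : ∃ i, P.v (a - i) ∉ pvwSq z r := ⟨a, by rw [Nat.sub_self]; exact hfar⟩
  have hB := Nat.find_spec hex
  have hmin : ∀ i, i < Nat.find hex → P.v (a - i) ∈ pvwSq z r := fun i hi => not_not.1 (Nat.find_min hex hi)
  have hle : Nat.find hex ≤ a := Nat.find_min' hex (by rw [Nat.sub_self]; exact hfar)
  generalize Nat.find hex = A at hB hmin hle
  refine ⟨A, hle, fun i hi => ?_, hB⟩
  rcases Nat.lt_or_ge i A with h1 | h1
  · linarith [pvpy_sq_near hzx (hmin i h1)]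
  · have e : i = A := le_antisymm hi h1
    subst e
    rcases Nat.eq_zero_or_pos i with h2 | h2
    · subst h2; exact absurd h0 hB
    · obtain ⟨i', rfl⟩ : ∃ i', i = i' + 1 := ⟨i - 1, by omega⟩
      have h3 := pvpy_sq_near hzx (hmin i' (by omega))
      have h4 := hmv (a - (i' + 1)) (by omega) (Or.inr (by rw [show a - (i' + 1) + 1 = a - i' by omega]; linarith))
      rw [show a - (i' + 1) + 1 = a - i' by omega] at h4
      calc ‖P.v (a - (i' + 1)) - x‖ = ‖-(P.v (a - i') - P.v (a - (i' + 1))) + (P.v (a - i') - x)‖ := by ring_nf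
        _ ≤ ‖-(P.v (a - i') - P.v (a - (i' + 1)))‖ + ‖P.v (a - i') - x‖ := norm_add_le _ _
        _ ≤ 5 * R := by rw [norm_neg]; linarith

end rimexit

/-! ## 4. the model -/

/-- **the mesh of a box of the patch**: every edge of the plane map with an end in the box is shorter than `μ` -/
theorem pvpy_mesh {ω : PVSample} {x z : ℂ} {R μ r : ℝ} (hF : L9Fine (pvxY ω) (Metric.closedBall x (6 * R)) μ) (hzx : ‖z - x‖ ≤ 3 * R) (hr : 2 * r ≤ 3 * R) :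
    PvzcMesh (pvxT ω) (pvxPos ω) z r μ := by
  intro d hd
  have htri := delb_plane_face (Y := pvxY ω) d
  have h1 : ‖pvxPos ω ((pvxT ω).src d) - z‖ ≤ 2 * r := by
    refine (Complex.norm_le_abs_re_add_abs_im _).trans ?_
    linarith [hd.1, hd.2]
  have h2 : pvxPos ω ((pvxT ω).src d) ∈ Metric.closedBall x (6 * R) := by
    rw [mem_closedBall_iff_norm]
    calc ‖pvxPos ω ((pvxT ω).src d) - x‖ = ‖(pvxPos ω ((pvxT ω).src d) - z) + (z - x)‖ := by ring_nf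
      _ ≤ ‖pvxPos ω ((pvxT ω).src d) - z‖ + ‖z - x‖ := norm_add_le _ _
      _ ≤ 6 * R := by linarith
  rw [Complex.dist_eq]
  exact (hF _ _ _ htri (Or.inl h2)).1


section levels

variable {V D : Type} {T : PvMap V D} {pos : V → ℂ} {s : V → Bool} {h : ℝ} {z : ℂ} {τ : PvwTy} {𝔊 : PvwSt T}

/-- **REACH, forwards**: the strand from the exit gate edge meets a site outside `B` and has not been inside the gate before -/
def PvpyReachP (𝔊 : PvwSt T) (pos : V → ℂ) (s : V → Bool) (B : Set ℂ) : Prop :=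
  ∃ t, pos (T.src (pvasIt T s 𝔊.dp t)) ∉ B ∧ ∀ i, i ≤ t → pvasIt T s 𝔊.dp i ∉ 𝔊.S.Left

/-- **REACH, backwards** -/
def PvpyReachM (𝔊 : PvwSt T) (pos : V → ℂ) (s : V → Bool) (B : Set ℂ) : Prop :=
  ∃ t, pos (T.src ((pvasBack T s)^[t] 𝔊.dm)) ∉ B ∧ ∀ i, i ≤ t → T.opp ((pvasBack T s)^[i] 𝔊.dm) ∉ 𝔊.S.Left

theorem pvpy_eqns_cite : True := by
  have := @PvpyReachP.eq_1; have := @PvpyReachM.eq_1
  trivial

theorem PvpyReachP.mono {B B' : Set ℂ} (H : PvpyReachP 𝔊 pos s B) (hB : B' ⊆ B) : PvpyReachP 𝔊 pos s B' := by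
  obtain ⟨t, h1, h2⟩ := H
  exact ⟨t, fun hin => h1 (hB hin), h2⟩

theorem PvpyReachM.mono {B B' : Set ℂ} (H : PvpyReachM 𝔊 pos s B) (hB : B' ⊆ B) : PvpyReachM 𝔊 pos s B' := by
  obtain ⟨t, h1, h2⟩ := H
  exact ⟨t, fun hin => h1 (hB hin), h2⟩

/-- REACH from: the strand leaves `B ⊇` the gate, and does not meet `g⁻` before -/
theorem pvpy_reach_p (hT : T.IsSph) (hg : 𝔊.Gate pos h z τ s) {B : Set ℂ} (hB : ∀ v ∈ 𝔊.ins, pos v ∈ B) {t : ℕ} (hout : pos (T.src (pvasIt T s 𝔊.dp t)) ∉ B)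
    (hgm : ∀ u, u ≤ t → T.src (pvasIt T s 𝔊.dp u) ≠ 𝔊.gm) : PvpyReachP 𝔊 pos s B :=
  ⟨t, hout, pvpy_noret_p hT hg (fun hin => hout (hB _ ⟨_, hin, rfl⟩)) hgm⟩

/-- REACH from: the backward strand leaves `B ⊇` the gate, and does not meet `g⁺` before -/
theorem pvpy_reach_m (hT : T.IsSph) (hg : 𝔊.Gate pos h z τ s) {B : Set ℂ} (hB : ∀ v ∈ 𝔊.ins, pos v ∈ B) {t : ℕ} (hout : pos (T.src ((pvasBack T s)^[t] 𝔊.dm)) ∉ B)
    (hgp : ∀ u, u ≤ t → T.src ((pvasBack T s)^[u] 𝔊.dm) ≠ 𝔊.gp) : PvpyReachM 𝔊 pos s B := by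
  refine ⟨t, hout, pvpy_noret_m hT hg (fun hin => hout (hB _ ?_)) hgp⟩
  have := (pvwk_vof (pl_left_face 𝔊.S) hin).2.1
  rwa [T.tgt_opp] at this

/-- the stubs of a record stay off the inside of the gate (`GoodOut.off_p`, `GoodIn.off_m`) -/
theorem pvpy_off {B : Set ℂ} (hP : PvpyReachP 𝔊 pos s B) (hM : PvpyReachM 𝔊 pos s B) (hst : 𝔊.Stub pos B s) :
    (∀ i, i ≤ 𝔊.np → 𝔊.ep i ∉ 𝔊.S.Left) ∧ ∀ i, i ≤ 𝔊.nm → T.opp (𝔊.em i) ∉ 𝔊.S.Left := by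
  obtain ⟨tp, hp1, hp2⟩ := hP
  obtain ⟨tm, hm1, hm2⟩ := hM
  constructor
  · intro i hi
    rw [hst.1.ep_it i hi]
    refine hp2 i ?_
    by_contra hcon
    have h1 : tp ≤ 𝔊.np := by omega
    exact hp1 (by rw [← hst.1.ep_it tp h1]; exact (hst.1.ep_in tp h1).1)
  · intro i hi
    rw [hst.2.em_it i hi]
    refine hm2 i ?_
    by_contra hcon
    have h1 : tm ≤ 𝔊.nm := by omega
    exact hm1 (by rw [← hst.2.em_it tm h1]; exact (hst.2.em_in tm h1).1)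

/-- **THE LEVELS**, abstract form: `pvzc_levels` of 112 with the numbers, the counts (from not FLAG1 in the form `PvflStub` of 16) discharged -/
theorem pvpy_levels_abs (hT : T.IsSph) {N : PvwNum} {μ : ℝ} {K0 n1 : ℕ} (h0 : 0 < h) (hμ0 : 0 < μ) (hμ : 100 * μ ≤ N.rho * h) (hρ0 : 0 < N.rho) (hρ1 : 4 * N.rho ≤ N.rho1) (hρ2 : 4 * N.rho1 ≤ N.rho2)
    (hb : τ.b * h + μ ≤ 2 * τ.b2 * h) (hK0 : K0 ≤ N.K) (hn1 : 2 * n1 ≤ K0 + 1) (hg : 𝔊.Gate pos h z τ s) (hi : 𝔊.Inmost pos h z τ s) (hM : PvzcMesh T pos z (pvwRad N h τ K0) μ)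
    (hP : PvpyReachP 𝔊 pos s (pvwSq z (pvwRad N h τ K0))) (hMm : PvpyReachM 𝔊 pos s (pvwSq z (pvwRad N h τ K0)))
    (hF : ¬ PvflStub T pos z (pvwRad N h τ K0) (N.rho2 * h / 4) n1 s) (hF' : ¬ PvflStub T pos z (pvwRad N h τ K0) (N.rho2 * h / 4) n1 (pvasNot s)) :
    ∃ k, k ≤ K0 ∧ (pvzcLv 𝔊 pos N h z τ s k).Stub pos (pvwSq z (pvwRad N h τ k)) s ∧
      (∀ yp ym, PvzcTipP (pvzcLv 𝔊 pos N h z τ s k) pos N h (z + (h : ℂ) * yp) → (pvzcLv 𝔊 pos N h z τ s k).AtOut pos N h z (pvzcTy τ k yp ym) s) ∧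
      ∀ yp ym, PvzcTipM (pvzcLv 𝔊 pos N h z τ s k) pos N h (z + (h : ℂ) * ym) → (pvzcLv 𝔊 pos N h z τ s k).AtIn pos N h z (pvzcTy τ k yp ym) s := by
  have hρ1' : 0 < N.rho1 := by linarith
  have hρ2' : 0 < N.rho2 := by linarith
  have hρρ1 : 4 * (N.rho * h) ≤ N.rho1 * h := by nlinarith
  have hρρ2 : 4 * (N.rho1 * h) ≤ N.rho2 * h := by nlinarith
  have hρh : 0 < N.rho * h := mul_pos hρ0 h0
  have hN : PvzcNum N h τ (N.rho2 * h / 4) μ :=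
    ⟨h0, by positivity, hμ0.le, hρ1'.le, hρ0.le, by linarith, by linarith, by
      have : τ.b * h ≤ 2 * τ.b2 * h := by linarith
      exact le_of_mul_le_mul_right this h0⟩
  have hr0 : 2 * τ.b2 * h ≤ pvwRad N h τ K0 := by
    rw [pvzc_rad_eq]
    have : (0 : ℝ) ≤ K0 * (N.rho1 * h) := by positivity
    linarith
  obtain ⟨g1, g2, g3, g4⟩ := pvwk_gate_ends hT hg
  have hcore : ∀ v ∈ 𝔊.ins, pos v ∈ pvwSq z (τ.b * h) := fun v hv => pvwk_core_sq hg le_rfl v (pvwk_ins_sub_core hg hv)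
  have hdp : 𝔊.dp ∈ pvlvBox T pos z (pvwRad N h τ K0) := pvpy_mesh_box hM (hcore _ g1) (hcore _ g2) (by linarith) (by linarith) hμ0.le
  have hdm : T.opp 𝔊.dm ∈ pvlvBox T pos z (pvwRad N h τ K0) :=
    pvpy_mesh_box hM (by rw [T.src_opp']; exact hcore _ g4) (by rw [T.tgt_opp]; exact hcore _ g3) (by linarith) (by linarith) hμ0.le
  have hexP : ∃ t, pvasIt T s 𝔊.dp t ∉ pvlvBox T pos z (pvwRad N h τ K0) := by
    obtain ⟨t, ht, -⟩ := hP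
    exact ⟨t, fun hb => ht (pvzc_box_iff.1 hb).1⟩
  have hexM : ∃ t, pvasIt T (pvasNot s) (T.opp 𝔊.dm) t ∉ pvlvBox T pos z (pvwRad N h τ K0) := by
    obtain ⟨t, ht, -⟩ := hMm
    rw [pvwk_back_it, T.src_opp'] at ht
    exact ⟨t, fun hb => ht (pvzc_box_iff.1 hb).2.1⟩
  have hc1 := pvpy_cnt hg.bw_p hdp (pvlv_exit_hit hexP) hF
  have hc2 := pvpy_cnt (pvas_bw_not.2 hg.bw_m) hdm (pvlv_exit_hit hexM) hF'
  refine pvzc_levels hT hN hK0 hg hi hM hP hMm ?_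
  have e1 : (pvzcLv 𝔊 pos N h z τ s K0).np = pvasHit T s 𝔊.dp (pvlvBox T pos z (pvwRad N h τ K0))ᶜ := rfl
  have e2 : (pvzcLv 𝔊 pos N h z τ s K0).nm = pvasHit T (pvasNot s) (T.opp 𝔊.dm) (pvlvBox T pos z (pvwRad N h τ K0))ᶜ := rfl
  rw [e1, e2]
  omega

end levels

/-- **THE LEVELS AT THE MODEL** -/
theorem pvpy_levels {ω : PVSample} {x z : ℂ} {R μ h : ℝ} {b : Bool} {τ : PvwTy} {𝔊 : PvwSt (pvxT ω)} {N : PvwNum} {K0 n1 : ℕ} (hG : DelGood (pvxY ω)) (hF : L9Fine (pvxY ω) (Metric.closedBall x (6 * R)) μ)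
    (hzx : ‖z - x‖ ≤ 3 * R) (hbox : 2 * pvwRad N h τ K0 ≤ 3 * R) (h0 : 0 < h) (hμ0 : 0 < μ) (hμ : 100 * μ ≤ N.rho * h) (hρ0 : 0 < N.rho) (hρ1 : 4 * N.rho ≤ N.rho1) (hρ2 : 4 * N.rho1 ≤ N.rho2)
    (hb : τ.b * h + μ ≤ 2 * τ.b2 * h) (hK0 : K0 ≤ N.K) (hn1 : 2 * n1 ≤ K0 + 1) (hg : 𝔊.Gate (pvxPos ω) h z τ (pvxCol ω b)) (hi : 𝔊.Inmost (pvxPos ω) h z τ (pvxCol ω b))
    (hP : PvpyReachP 𝔊 (pvxPos ω) (pvxCol ω b) (pvwSq z (pvwRad N h τ K0))) (hMm : PvpyReachM 𝔊 (pvxPos ω) (pvxCol ω b) (pvwSq z (pvwRad N h τ K0)))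
    (hF1 : ¬ PvflStub (pvxT ω) (pvxPos ω) z (pvwRad N h τ K0) (N.rho2 * h / 4) n1 (pvxCol ω b)) (hF1' : ¬ PvflStub (pvxT ω) (pvxPos ω) z (pvwRad N h τ K0) (N.rho2 * h / 4) n1 (pvasNot (pvxCol ω b))) :
    ∃ k, k ≤ K0 ∧ (pvzcLv 𝔊 (pvxPos ω) N h z τ (pvxCol ω b) k).Stub (pvxPos ω) (pvwSq z (pvwRad N h τ k)) (pvxCol ω b) ∧
      (∀ yp ym, PvzcTipP (pvzcLv 𝔊 (pvxPos ω) N h z τ (pvxCol ω b) k) (pvxPos ω) N h (z + (h : ℂ) * yp) → (pvzcLv 𝔊 (pvxPos ω) N h z τ (pvxCol ω b) k).AtOut (pvxPos ω) N h z (pvzcTy τ k yp ym) (pvxCol ω b)) ∧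
      ∀ yp ym, PvzcTipM (pvzcLv 𝔊 (pvxPos ω) N h z τ (pvxCol ω b) k) (pvxPos ω) N h (z + (h : ℂ) * ym) → (pvzcLv 𝔊 (pvxPos ω) N h z τ (pvxCol ω b) k).AtIn (pvxPos ω) N h z (pvzcTy τ k yp ym) (pvxCol ω b) :=
  pvpy_levels_abs (delb_plane_isSph hG) h0 hμ0 hμ hρ0 hρ1 hρ2 hb hK0 hn1 hg hi (pvpy_mesh hF hzx hbox) hP hMm hF1 hF1'

/-! ## 5. REACH at the model (over `pvof_W_p/m`, `pvof_leave_p/m` of 106, `Tr/PinOff`), the levels with no open hypothesis -/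

section reachmodel

variable {x z : ℂ} {R μ hh r : ℝ} {ω : PVSample} {P : PvbRim} {b : Bool} {𝔖 : PvwSt (pvxT ω)} {τ : PvwTy} {j : ℕ}

/-- an edge of the mesh with its black end in the box `r` has its white end in the box `r + μ` -/
theorem pvpy_src_out {V D : Type} {T : PvMap V D} {pos : V → ℂ} {r' : ℝ} (hM : PvzcMesh T pos z r' μ) (hr : r + μ ≤ r') {d : D}
    (h : ¬ (pos (T.src d) ∈ pvwSq z (r + μ) ∧ pos (T.tgt d) ∈ pvwSq z (r + μ))) (hμ0 : 0 ≤ μ) : pos (T.src d) ∉ pvwSq z r := by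
  intro hin
  have h1 := pvzc_sq_iff.1 hin
  refine h ⟨pvzc_sq_iff.2 (by linarith), pvzc_sq_iff.2 ?_⟩
  have h2 := hM d (pvzc_sq_iff.2 (by linarith))
  have h3 := pvlv_rad_lip z (pos (T.tgt d)) (pos (T.src d))
  linarith

/-- **REACH AT THE MODEL, forwards** -/
theorem pvpy_reach_model_p (hR : 0 < R) (hY : DelGood (pvxY ω)) (hF : L9Fine (pvxY ω) (Metric.closedBall x (6 * R)) μ) (hP : P ∈ pvhbAll x R ω) (hzx : ‖z - x‖ ≤ 3 * R) (hμ0 : 0 ≤ μ)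
    (hG : 𝔖.Gate (pvxPos ω) hh z τ (pvxCol ω b)) (hle : j + 𝔖.inn.n < P.len) (hrun : ∀ i, i ≤ 𝔖.inn.n → P.v (j + i) = pvxPos ω (𝔖.inn.v i)) (hr : 2 * (r + μ) < R) (hbr : τ.b * hh ≤ r) :
    PvpyReachP 𝔖 (pvxPos ω) (pvxCol ω b) (pvwSq z r) := by
  classical
  have hT := delb_plane_isSph hY
  have hS : (pvxT ω).Simple := (delbPl (pvxY ω)).toMap_simple
  have hB : ∀ w ∈ pvwSq z (r + μ), ‖w - x‖ < 4 * R := fun w hw => by linarith [pvpy_sq_near hzx hw]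
  have hGin : ∀ w : ℂ, ‖w - z‖ < τ.b * hh → ‖w - x‖ < 4 * R := by
    intro w hw
    calc ‖w - x‖ = ‖(w - z) + (z - x)‖ := by ring_nf
      _ ≤ ‖w - z‖ + ‖z - x‖ := norm_add_le _ _
      _ < 4 * R := by linarith
  have hW := pvof_W_p hR hY hP hG hGin hB hle hrun
  have hex := pvof_leave_p hS hG (pvof_sites_fin hY hB) hW
  have hM : PvzcMesh (pvxT ω) (pvxPos ω) z (r + μ) μ := pvpy_mesh hF hzx (by linarith)
  exact pvpy_reach_p hT hG (fun v hv => pvwk_core_sq hG hbr v (pvwk_ins_sub_core hG hv)) (t := Nat.find hex) (pvpy_src_out hM le_rfl (Nat.find_spec hex) hμ0)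
    fun u hu => hW u fun u' hu' => not_not.1 (Nat.find_min hex (lt_of_lt_of_le hu' hu))

/-- **REACH AT THE MODEL, backwards** -/
theorem pvpy_reach_model_m (hR : 0 < R) (hY : DelGood (pvxY ω)) (hF : L9Fine (pvxY ω) (Metric.closedBall x (6 * R)) μ) (hP : P ∈ pvhbAll x R ω) (hzx : ‖z - x‖ ≤ 3 * R) (hμ0 : 0 ≤ μ)
    (hG : 𝔖.Gate (pvxPos ω) hh z τ (pvxCol ω b)) (hle : j + 𝔖.inn.n < P.len) (hrun : ∀ i, i ≤ 𝔖.inn.n → P.v (j + i) = pvxPos ω (𝔖.inn.v i)) (hr : 2 * (r + μ) < R) (hbr : τ.b * hh ≤ r) :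
    PvpyReachM 𝔖 (pvxPos ω) (pvxCol ω b) (pvwSq z r) := by
  classical
  have hT := delb_plane_isSph hY
  have hS : (pvxT ω).Simple := (delbPl (pvxY ω)).toMap_simple
  have hB : ∀ w ∈ pvwSq z (r + μ), ‖w - x‖ < 4 * R := fun w hw => by linarith [pvpy_sq_near hzx hw]
  have hGin : ∀ w : ℂ, ‖w - z‖ < τ.b * hh → ‖w - x‖ < 4 * R := by
    intro w hw
    calc ‖w - x‖ = ‖(w - z) + (z - x)‖ := by ring_nf
      _ ≤ ‖w - z‖ + ‖z - x‖ := norm_add_le _ _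
      _ < 4 * R := by linarith
  have hW := pvof_W_m hR hY hP hG hGin hB hle hrun
  have hex := pvof_leave_m hT hS hG (pvof_sites_fin hY hB) hW
  have hM : PvzcMesh (pvxT ω) (pvxPos ω) z (r + μ) μ := pvpy_mesh hF hzx (by linarith)
  exact pvpy_reach_m hT hG (fun v hv => pvwk_core_sq hG hbr v (pvwk_ins_sub_core hG hv)) (t := Nat.find hex) (pvpy_src_out hM le_rfl (Nat.find_spec hex) hμ0)
    fun u hu => hW u fun u' hu' => not_not.1 (Nat.find_min hex (lt_of_lt_of_le hu' hu))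

/-- **THE LEVELS AT THE MODEL, NO OPEN HYPOTHESIS** = (b) + (c) + (c') of X3 on `Tr/Defs` v3:   gate of record + fixed rule + the rim runs along the inner arc + not FLAG1   ⟹   a level `k ≤ K0` at which the member `pvzcLv 𝔖 .. k` of the family of 112
has its two stubs, and is the exit (entrance) half state for EVERY type `pvzcTy τ k yp ym` whose centre `yp` (`ym`) is within `ρ h / 4` of the two ends of the tip dart -/
theorem pvpy_levels_model {N : PvwNum} {K0 n1 : ℕ} (hR : 0 < R) (hY : DelGood (pvxY ω)) (hF : L9Fine (pvxY ω) (Metric.closedBall x (6 * R)) μ) (hP : P ∈ pvhbAll x R ω) (hzx : ‖z - x‖ ≤ 3 * R)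
    (hbox : 2 * (pvwRad N hh τ K0 + μ) < R) (h0 : 0 < hh) (hμ0 : 0 < μ) (hμ : 100 * μ ≤ N.rho * hh) (hρ0 : 0 < N.rho) (hρ1 : 4 * N.rho ≤ N.rho1) (hρ2 : 4 * N.rho1 ≤ N.rho2)
    (hb : τ.b * hh + μ ≤ 2 * τ.b2 * hh) (hK0 : K0 ≤ N.K) (hn1 : 2 * n1 ≤ K0 + 1) (hG : 𝔖.Gate (pvxPos ω) hh z τ (pvxCol ω b)) (hi : 𝔖.Inmost (pvxPos ω) hh z τ (pvxCol ω b))
    (hle : j + 𝔖.inn.n < P.len) (hrun : ∀ i, i ≤ 𝔖.inn.n → P.v (j + i) = pvxPos ω (𝔖.inn.v i))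
    (hF1 : ¬ PvflStub (pvxT ω) (pvxPos ω) z (pvwRad N hh τ K0) (N.rho2 * hh / 4) n1 (pvxCol ω b)) (hF1' : ¬ PvflStub (pvxT ω) (pvxPos ω) z (pvwRad N hh τ K0) (N.rho2 * hh / 4) n1 (pvasNot (pvxCol ω b))) :
    ∃ k, k ≤ K0 ∧ (pvzcLv 𝔖 (pvxPos ω) N hh z τ (pvxCol ω b) k).Stub (pvxPos ω) (pvwSq z (pvwRad N hh τ k)) (pvxCol ω b) ∧
      (∀ yp ym, PvzcTipP (pvzcLv 𝔖 (pvxPos ω) N hh z τ (pvxCol ω b) k) (pvxPos ω) N hh (z + (hh : ℂ) * yp) → (pvzcLv 𝔖 (pvxPos ω) N hh z τ (pvxCol ω b) k).AtOut (pvxPos ω) N hh z (pvzcTy τ k yp ym) (pvxCol ω b)) ∧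
      ∀ yp ym, PvzcTipM (pvzcLv 𝔖 (pvxPos ω) N hh z τ (pvxCol ω b) k) (pvxPos ω) N hh (z + (hh : ℂ) * ym) → (pvzcLv 𝔖 (pvxPos ω) N hh z τ (pvxCol ω b) k).AtIn (pvxPos ω) N hh z (pvzcTy τ k yp ym) (pvxCol ω b) := by
  have hbr : τ.b * hh ≤ pvwRad N hh τ K0 := by
    rw [pvzc_rad_eq]
    have : (0 : ℝ) ≤ K0 * (N.rho1 * hh) := mul_nonneg (Nat.cast_nonneg _) (mul_nonneg (by linarith) h0.le)
    linarith
  exact pvpy_levels hY hF hzx (by linarith) h0 hμ0 hμ hρ0 hρ1 hρ2 hb hK0 hn1 hG hi (pvpy_reach_model_p hR hY hF hP hzx hμ0.le hG hle hrun hbox hbr)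
    (pvpy_reach_model_m hR hY hF hP hzx hμ0.le hG hle hrun hbox hbr) hF1 hF1'

end reachmodel

end Claimed.Agent.R289
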