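import Claimed.Agent.R289.Tr.Prep

/-!
# Row 289 (S0537, Cardy for Poisson-Voronoi), box TR, ROAD P, file Tr/MsConf : THE BRIDGE `PvpMs F → AEMeasurable F (pvP ε)`      (owner helper59, question of helper36; prefix `pvmz_`, `pvmz`, `Pvmz`)

`PvpMs F` (263, `Tr/Prep.lean`) : there is a measurable `Φ` on the frozen sample space with `Φ ω = F (pvConf ω)` on the good samples `DelgpOk ω`.      The consumers of the flags (`Tr/Dense`, `PinLoc`, `A6`, `Exit/Pins`) work with
the OUTER measure `pvP ε = (pvLaw ε).map pvConf` on `Conf PvPt`.      Only `pvLaw (pvConf ⁻¹' A) ≤ pvP A` is free.      `DelgpOk` speaks of ALL indices, also of the inactive ones, so the measurable section of `pvcn_section` (junk in the inactive marks) does not land in `DelgpOk`.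

PROOF.   (1) `{DelgpOk}` is measurable and depends on the marks only.      (2) `pvmzFill ω y` = the sample `ω` with its INACTIVE marks replaced by those of `y`: same configuration; for independent `ω`, `y` the marks of the fill have the law of the marks (`pvfq_split`, counts fixed by Fubini):
so ONE `y₀` makes `pvmzFill ω y₀` good for a.e. `ω`.      (3) `DelgpOk` is invariant under injective re-indexings which keep the cell.      (4) the section re-enumerates the active points inside each cell.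
(5) `s' η := pvmzFill (s η) y₀` is a measurable section which lands in `DelgpOk` for `pvP ε`-a.e. `η`:   `F = Φ ∘ s'` a.e.

EXITS: **`pvmz_bridge`**, `pvmz_null`, **`pvmz_apply`** (`pvP ε G = pvLaw ε (pvConf ⁻¹' G)`), `pvmz_lintegral`.
-/

set_option autoImplicit false
set_option linter.unusedSectionVars false

namespace Claimed.Agent.R289

open MeasureTheory ProbabilityTheory Set Filter Claims.C0465
open scoped ENNReal

/-! ## 1. the good samples: measurability, dependence on the marks only -/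

instance pvmz_P2_prob : IsProbabilityMeasure delgpP2 := by unfold delgpP2; infer_instance

theorem pvmz_ok_meas : MeasurableSet {ω : PVSample | DelgpOk ω} := by
  have hW := delgp_measurable_W
  have hQ : ∀ (k : ℤ × ℤ) (j : ℕ), Measurable fun ω : PVSample => (ω.2 (k, j)).1 ∈ Ico (0 : ℝ) 1 ×ˢ Ico (0 : ℝ) 1 := fun k j =>
    measurableSet_setOfPred.1 ((measurable_fst.comp ((measurable_pi_apply (k, j)).comp measurable_snd)) (measurableSet_Ico.prod measurableSet_Ico))
  have hE : ∀ i j : DelgpIx, Measurable fun ω : PVSample => delgpW ω i = delgpW ω j := fun i j =>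
    measurableSet_setOfPred.1 (measurableSet_eq_fun (hW i) (hW j))
  have hD : ∀ i j l : DelgpIx, Measurable fun ω : PVSample => vorDet (delgpW ω i) (delgpW ω j) (delgpW ω l) = 0 := fun i j l =>
    measurableSet_setOfPred.1 ((delgp_meas_det (hW i) (hW j) (hW l)) (measurableSet_singleton 0))
  have hR : ∀ i j l m : DelgpIx, Measurable fun ω : PVSample =>
      ‖delgpCc (delgpW ω i) (delgpW ω j) (delgpW ω l) - delgpW ω m‖ = ‖delgpCc (delgpW ω i) (delgpW ω j) (delgpW ω l) - delgpW ω i‖ := fun i j l m =>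
    measurableSet_setOfPred.1 (measurableSet_eq_fun ((delgp_meas_cc (hW i) (hW j) (hW l)).sub (hW m)).norm ((delgp_meas_cc (hW i) (hW j) (hW l)).sub (hW i)).norm)
  have e : ∀ ω : PVSample, DelgpOk ω ↔ (∀ k j, (ω.2 (k, j)).1 ∈ Ico (0 : ℝ) 1 ×ˢ Ico (0 : ℝ) 1) ∧ (∀ i j : DelgpIx, i ≠ j → ¬ delgpW ω i = delgpW ω j) ∧
      (∀ i j l : DelgpIx, i ≠ j → i ≠ l → j ≠ l → ¬ vorDet (delgpW ω i) (delgpW ω j) (delgpW ω l) = 0) ∧
      (∀ i j l m : DelgpIx, i ≠ j → i ≠ l → i ≠ m → j ≠ l → j ≠ m → l ≠ m →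
        ¬ ‖delgpCc (delgpW ω i) (delgpW ω j) (delgpW ω l) - delgpW ω m‖ = ‖delgpCc (delgpW ω i) (delgpW ω j) (delgpW ω l) - delgpW ω i‖) :=
    fun ω => ⟨fun h => ⟨h.sq, h.inj, h.col, h.cir⟩, fun h => ⟨h.1, h.2.1, h.2.2.1, h.2.2.2⟩⟩
  simp only [e]
  rw [measurableSet_setOfPred]
  refine Measurable.and ?_ (Measurable.and ?_ (Measurable.and ?_ ?_))
  · exact Measurable.forall fun k => Measurable.forall fun j => hQ k j
  · exact Measurable.forall fun i => Measurable.forall fun j => measurable_const.imp (hE i j).not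
  · exact Measurable.forall fun i => Measurable.forall fun j => Measurable.forall fun l =>
      measurable_const.imp (measurable_const.imp (measurable_const.imp (hD i j l).not))
  · exact Measurable.forall fun i => Measurable.forall fun j => Measurable.forall fun l => Measurable.forall fun m =>
      measurable_const.imp (measurable_const.imp (measurable_const.imp (measurable_const.imp (measurable_const.imp (measurable_const.imp (hR i j l m).not)))))

/-- `DelgpOk` depends on the marks only -/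
theorem pvmz_ok_congr {ω ω' : PVSample} (h : ω.2 = ω'.2) (hω : DelgpOk ω) : DelgpOk ω' := by
  obtain ⟨n, y⟩ := ω
  obtain ⟨n', y'⟩ := ω'
  have h' : y = y' := h
  subst h'
  exact ⟨hω.sq, hω.inj, hω.col, hω.cir⟩

theorem pvmz_marks_ae (n : ℤ × ℤ → ℕ) : ∀ᵐ y ∂delgpP2, DelgpOk (n, y) := by
  have h := delgp_ae 1
  rw [delgp_law_eq] at h
  obtain ⟨n₀, hn₀⟩ := (Measure.ae_ae_of_ae_prod h).exists
  filter_upwards [hn₀] with y hy
  exact pvmz_ok_congr (ω := (n₀, y)) (ω' := (n, y)) rfl hy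

/-- invariance under injective re-indexings which keep the cell -/
theorem pvmz_ok_reindex {n n' : ℤ × ℤ → ℕ} {y : DelgpIx → (ℝ × ℝ) × Bool} (h : DelgpOk (n, y)) {f : DelgpIx → DelgpIx} (hf : Function.Injective f)
    (hc : ∀ i, (f i).1 = i.1) : DelgpOk (n', fun i => y (f i)) := by
  have hW : ∀ i, delgpW (n', fun i => y (f i)) i = delgpW (n, y) (f i) := by
    intro i
    show delgpSt i.1 (y (f i)) = delgpSt (f i).1 (y (f i))
    rw [hc i]
  refine ⟨fun k j => ?_, fun i j hij => ?_, fun i j l h1 h2 h3 => ?_, fun i j l m h1 h2 h3 h4 h5 h6 => ?_⟩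
  · exact h.sq (f (k, j)).1 (f (k, j)).2
  · rw [hW, hW]
    exact h.inj _ _ (hf.ne hij)
  · rw [hW, hW, hW]
    exact h.col _ _ _ (hf.ne h1) (hf.ne h2) (hf.ne h3)
  · rw [hW, hW, hW, hW]
    exact h.cir _ _ _ _ (hf.ne h1) (hf.ne h2) (hf.ne h3) (hf.ne h4) (hf.ne h5) (hf.ne h6)

/-! ## 2. filling the inactive marks -/

/-- the active indices for the counts `n` -/
def pvmzAct (n : ℤ × ℤ → ℕ) : Set DelgpIx := {i | i.2 < n i.1}

/-- the sample `ω` with its inactive marks replaced by those of `y` -/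
noncomputable def pvmzFill (ω : PVSample) (y : DelgpIx → (ℝ × ℝ) × Bool) : PVSample := (ω.1, pvfqMix (pvmzAct ω.1) (ω.2, y))

theorem pvmz_eqns_cite : True := by
  have := @pvmzAct.eq_1; have := @pvmzFill.eq_1
  trivial

theorem pvmz_fill_conf (ω : PVSample) (y : DelgpIx → (ℝ × ℝ) × Bool) : pvConf (pvmzFill ω y) = pvConf ω := by
  ext p
  constructor
  · rintro ⟨k, j, hj, rfl⟩
    refine ⟨k, j, hj, ?_⟩
    rw [pvPt_eq, pvPt_eq]
    show pvShift k (pvfqMix (pvmzAct ω.1) (ω.2, y) (k, j)) = _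
    rw [pvfqMix_of_mem (show ((k, j) : DelgpIx) ∈ pvmzAct ω.1 from hj)]
  · rintro ⟨k, j, hj, rfl⟩
    refine ⟨k, j, hj, ?_⟩
    rw [pvPt_eq, pvPt_eq]
    show _ = pvShift k (pvfqMix (pvmzAct ω.1) (ω.2, y) (k, j))
    rw [pvfqMix_of_mem (show ((k, j) : DelgpIx) ∈ pvmzAct ω.1 from hj)]

theorem measurable_pvmzFill : Measurable fun x : PVSample × (DelgpIx → (ℝ × ℝ) × Bool) => pvmzFill x.1 x.2 := by
  classical
  refine Measurable.prodMk (measurable_fst.comp measurable_fst) (measurable_pi_lambda _ fun i => ?_)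
  have e : (fun x : PVSample × (DelgpIx → (ℝ × ℝ) × Bool) => pvfqMix (pvmzAct x.1.1) (x.1.2, x.2) i)
      = fun x => if i.2 < x.1.1 i.1 then x.1.2 i else x.2 i := by
    funext x
    unfold pvfqMix
    by_cases h : i.2 < x.1.1 i.1
    · rw [if_pos h, if_pos (show i ∈ pvmzAct x.1.1 from h)]
    · rw [if_neg h, if_neg (show i ∉ pvmzAct x.1.1 from h)]
  rw [e]
  refine Measurable.ite ?_ ((measurable_pi_apply i).comp (measurable_snd.comp measurable_fst)) ((measurable_pi_apply i).comp measurable_snd)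
  exact measurableSet_lt measurable_const ((measurable_pi_apply i.1).comp (measurable_fst.comp measurable_fst))

theorem pvmz_fill_meas_set : MeasurableSet {x : PVSample × (DelgpIx → (ℝ × ℝ) × Bool) | DelgpOk (pvmzFill x.1 x.2)} :=
  measurable_pvmzFill pvmz_ok_meas

/-- for independent `ω`, `y` the fill is good -/
theorem pvmz_fill_ae (ε : ℝ) : ∀ᵐ x ∂((pvLaw ε).prod delgpP2), DelgpOk (pvmzFill x.1 x.2) := by
  rw [ae_iff]
  have hE : MeasurableSet {x : PVSample × (DelgpIx → (ℝ × ℝ) × Bool) | ¬ DelgpOk (pvmzFill x.1 x.2)} := pvmz_fill_meas_set.compl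
  rw [Measure.prod_apply hE, delgp_law_eq, lintegral_prod _ (measurable_measure_prodMk_left hE).aemeasurable]
  have hn : ∀ n : ℤ × ℤ → ℕ, ∫⁻ y, delgpP2 (Prod.mk ((n, y) : PVSample) ⁻¹' {x : PVSample × (DelgpIx → (ℝ × ℝ) × Bool) | ¬ DelgpOk (pvmzFill x.1 x.2)}) ∂delgpP2 = 0 := by
    intro n
    have hm : Measurable fun z : (DelgpIx → (ℝ × ℝ) × Bool) × (DelgpIx → (ℝ × ℝ) × Bool) => (((n, z.1) : PVSample), z.2) :=
      (measurable_const.prodMk measurable_fst).prodMk measurable_snd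
    have hEn : MeasurableSet {z : (DelgpIx → (ℝ × ℝ) × Bool) × (DelgpIx → (ℝ × ℝ) × Bool) | ¬ DelgpOk (pvmzFill (n, z.1) z.2)} := hm hE
    have h1 := Measure.prod_apply (μ := delgpP2) (ν := delgpP2) hEn
    have h2 : (delgpP2.prod delgpP2) {z : (DelgpIx → (ℝ × ℝ) × Bool) × (DelgpIx → (ℝ × ℝ) × Bool) | ¬ DelgpOk (pvmzFill (n, z.1) z.2)} = 0 := by
      have mp : MeasurePreserving (pvfqMix (pvmzAct n) : (DelgpIx → (ℝ × ℝ) × Bool) × (DelgpIx → (ℝ × ℝ) × Bool) → DelgpIx → (ℝ × ℝ) × Bool)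
          (delgpP2.prod delgpP2) delgpP2 := ⟨measurable_pvfqMix _, pvfq_split (fun _ : DelgpIx => delgpMk) (pvmzAct n)⟩
      exact ae_iff.1 (mp.quasiMeasurePreserving.ae (pvmz_marks_ae n))
    rw [h2] at h1
    exact h1.symm
  simp only [hn, lintegral_zero]

/-- ONE filling works for almost every sample -/
theorem pvmz_exists_fill (ε : ℝ) : ∃ y₀ : DelgpIx → (ℝ × ℝ) × Bool, ∀ᵐ ω ∂(pvLaw ε), DelgpOk (pvmzFill ω y₀) := by
  have h := Measure.ae_ae_of_ae_prod (pvmz_fill_ae ε)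
  exact ((Measure.ae_ae_comm (p := fun ω y => DelgpOk (pvmzFill ω y)) pvmz_fill_meas_set).1 h).exists

/-! ## 3. a measurable section with its bookkeeping -/

/-- the section of `pvcn_section`, with what it does in each unit cell -/
theorem pvmz_section : ∃ s : Conf PvPt → PVSample, Measurable s ∧ ∀ η, PvLF η → ∀ k,
    (s η).1 k = (η.pts ∩ pvBox k).ncard ∧ η.pts ∩ pvBox k = {p | ∃ j, j < (s η).1 k ∧ p = pvPt (s η) k j} := by
  choose X hXm hX using fun k : ℤ × ℤ => pvcn_enum (pvcn_box_meas k)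
  have hun : ∀ k : ℤ × ℤ, Measurable fun p : PvPt => (((p.1.re - (k.1 : ℝ), p.1.im - (k.2 : ℝ)), p.2) : (ℝ × ℝ) × Bool) := by
    intro k
    have h1 : Measurable fun p : PvPt => p.1.re := Complex.measurable_re.comp measurable_fst
    have h2 : Measurable fun p : PvPt => p.1.im := Complex.measurable_im.comp measurable_fst
    exact ((h1.sub_const _).prodMk (h2.sub_const _)).prodMk measurable_snd
  refine ⟨fun η => (fun k => (η.pts ∩ pvBox k).ncard,
    fun kj => (((X kj.1 η kj.2).1.re - (kj.1.1 : ℝ), (X kj.1 η kj.2).1.im - (kj.1.2 : ℝ)), (X kj.1 η kj.2).2)), ?_, ?_⟩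
  · refine Measurable.prodMk (measurable_pi_lambda _ fun k => pvcn_ncard (pvcn_box_meas k)) (measurable_pi_lambda _ fun kj => ?_)
    exact (hun kj.1).comp ((measurable_pi_apply kj.2).comp (hXm kj.1))
  · intro η hη k
    have hpt : ∀ (k : ℤ × ℤ) (j : ℕ), pvPt (fun k => (η.pts ∩ pvBox k).ncard,
        fun kj => (((X kj.1 η kj.2).1.re - (kj.1.1 : ℝ), (X kj.1 η kj.2).1.im - (kj.1.2 : ℝ)), (X kj.1 η kj.2).2)) k j = X k η j := by
      intro k j
      refine Prod.ext ?_ rfl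
      apply Complex.ext
      · show (k.1 : ℝ) + ((X k η j).1.re - (k.1 : ℝ)) = (X k η j).1.re
        ring
      · show (k.2 : ℝ) + ((X k η j).1.im - (k.2 : ℝ)) = (X k η j).1.im
        ring
    refine ⟨rfl, ?_⟩
    ext p
    constructor
    · intro hp
      have : p ∈ (Conf.restr (pvBox k) η).pts := hp
      rw [hX k η (hη k)] at this
      obtain ⟨j, hj, rfl⟩ := this
      exact ⟨j, hj, (hpt k j).symm⟩
    · rintro ⟨j, hj, rfl⟩
      rw [hpt]
      have : X k η j ∈ (Conf.restr (pvBox k) η).pts := by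
        rw [hX k η (hη k)]
        exact ⟨j, hj, rfl⟩
      exact this

theorem pvmz_conf_of_cells {η : Conf PvPt} {ω : PVSample} (h : ∀ k, η.pts ∩ pvBox k = {p | ∃ j, j < ω.1 k ∧ p = pvPt ω k j}) : pvConf ω = η := by
  ext p
  constructor
  · rintro ⟨k, j, hj, rfl⟩
    have : pvPt ω k j ∈ η.pts ∩ pvBox k := by
      rw [h k]
      exact ⟨j, hj, rfl⟩
    exact this.1
  · intro hp
    obtain ⟨k, hk⟩ := pvcn_box_cover p
    have : p ∈ η.pts ∩ pvBox k := ⟨hp, hk⟩
    rw [h k] at this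
    obtain ⟨j, hj, rfl⟩ := this
    exact ⟨k, j, hj, rfl⟩

/-! ## 4. the cells of a good sample; the re-enumeration -/

theorem pvmz_shift_inj (k : ℤ × ℤ) : Function.Injective (pvShift k) := by
  rintro ⟨⟨a, b⟩, c⟩ ⟨⟨a', b'⟩, c'⟩ h
  have h1 : (k.1 : ℝ) + a = (k.1 : ℝ) + a' := congrArg (fun p : PvPt => p.1.re) h
  have h2 : (k.2 : ℝ) + b = (k.2 : ℝ) + b' := congrArg (fun p : PvPt => p.1.im) h
  have h3 : c = c' := congrArg (fun p : PvPt => p.2) h
  rw [add_left_cancel h1, add_left_cancel h2, h3]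

theorem pvmz_shift_box {k : ℤ × ℤ} {u : (ℝ × ℝ) × Bool} (hu : u.1 ∈ Ico (0 : ℝ) 1 ×ˢ Ico (0 : ℝ) 1) : pvShift k u ∈ pvBox k := by
  obtain ⟨⟨a1, a2⟩, b1, b2⟩ := hu
  refine ⟨⟨?_, ?_⟩, ⟨?_, ?_⟩⟩
  · show (k.1 : ℝ) ≤ (k.1 : ℝ) + u.1.1
    linarith
  · show (k.1 : ℝ) + u.1.1 < (k.1 : ℝ) + 1
    linarith
  · show (k.2 : ℝ) ≤ (k.2 : ℝ) + u.1.2
    linarith
  · show (k.2 : ℝ) + u.1.2 < (k.2 : ℝ) + 1
    linarith

theorem pvmz_box_unique {p : PvPt} {k k' : ℤ × ℤ} (h : p ∈ pvBox k) (h' : p ∈ pvBox k') : k = k' := by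
  obtain ⟨⟨a1, a2⟩, b1, b2⟩ := h
  obtain ⟨⟨a1', a2'⟩, b1', b2'⟩ := h'
  have h1 : k.1 = k'.1 := by
    have c1 : (k.1 : ℝ) < k'.1 + 1 := by linarith
    have c2 : (k'.1 : ℝ) < k.1 + 1 := by linarith
    have c1' : k.1 < k'.1 + 1 := by exact_mod_cast c1
    have c2' : k'.1 < k.1 + 1 := by exact_mod_cast c2
    omega
  have h2 : k.2 = k'.2 := by
    have c1 : (k.2 : ℝ) < k'.2 + 1 := by linarith
    have c2 : (k'.2 : ℝ) < k.2 + 1 := by linarith
    have c1' : k.2 < k'.2 + 1 := by exact_mod_cast c1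
    have c2' : k'.2 < k.2 + 1 := by exact_mod_cast c2
    omega
  exact Prod.ext h1 h2

/-- the points of a sample in the unit cell `k` are its active points of index `(k, ·)` -/
theorem pvmz_cell {ω : PVSample} (h : ∀ k j, (ω.2 (k, j)).1 ∈ Ico (0 : ℝ) 1 ×ˢ Ico (0 : ℝ) 1) (k : ℤ × ℤ) :
    (pvConf ω).pts ∩ pvBox k = {p | ∃ j, j < ω.1 k ∧ p = pvPt ω k j} := by
  ext p
  constructor
  · rintro ⟨⟨k', j, hj, rfl⟩, hb⟩
    have hk : k' = k := pvmz_box_unique (by rw [pvPt_eq]; exact pvmz_shift_box (h k' j)) hb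
    subst hk
    exact ⟨j, hj, rfl⟩
  · rintro ⟨j, hj, rfl⟩
    exact ⟨⟨k, j, hj, rfl⟩, by rw [pvPt_eq]; exact pvmz_shift_box (h k j)⟩

theorem pvmz_pt_inj {ω : PVSample} (h : DelgpOk ω) (k : ℤ × ℤ) : Function.Injective fun j => pvPt ω k j := by
  intro j j' hjj
  by_contra hne
  exact h.inj (k, j) (k, j') (fun e => hne (congrArg Prod.snd e)) (congrArg Prod.fst hjj)

theorem pvmz_cell_eq_image (ω : PVSample) (k : ℤ × ℤ) : {p | ∃ j, j < ω.1 k ∧ p = pvPt ω k j} = (fun j => pvPt ω k j) '' (↑(Finset.range (ω.1 k)) : Set ℕ) := by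
  ext p
  constructor
  · rintro ⟨j, hj, rfl⟩
    exact ⟨j, Finset.mem_coe.2 (Finset.mem_range.2 hj), rfl⟩
  · rintro ⟨j, hj, rfl⟩
    exact ⟨j, Finset.mem_range.1 (Finset.mem_coe.1 hj), rfl⟩

theorem pvmz_cell_ncard {ω : PVSample} (h : DelgpOk ω) (k : ℤ × ℤ) : ((pvConf ω).pts ∩ pvBox k).ncard = ω.1 k := by
  rw [pvmz_cell h.sq, pvmz_cell_eq_image, Set.ncard_image_of_injective _ (pvmz_pt_inj h k), Set.ncard_coe_finset, Finset.card_range]

/-- **RE-ENUMERATION**: a sample `ω'` which enumerates, cell by cell and without repetition (right counts), the configuration of a good sample `ω` is a re-indexing of `ω` on the active indices -/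
theorem pvmz_reenum {ω ω' : PVSample} (h : DelgpOk ω)
    (h' : ∀ k, ω'.1 k = ((pvConf ω).pts ∩ pvBox k).ncard ∧ (pvConf ω).pts ∩ pvBox k = {p | ∃ j, j < ω'.1 k ∧ p = pvPt ω' k j})
    (y₀ : DelgpIx → (ℝ × ℝ) × Bool) (hy : DelgpOk (pvmzFill ω y₀)) : DelgpOk (pvmzFill ω' y₀) := by
  classical
  have hn : ω'.1 = ω.1 := by
    funext k
    rw [(h' k).1, pvmz_cell_ncard h]
  -- the enumeration of `ω'` has no repetition
  have hinj' : ∀ k, Set.InjOn (fun j => pvPt ω' k j) (↑(Finset.range (ω.1 k)) : Set ℕ) := by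
    intro k
    rw [← Finset.card_image_iff, Finset.card_range]
    have e1 : (↑((Finset.range (ω.1 k)).image fun j => pvPt ω' k j) : Set PvPt) = (pvConf ω).pts ∩ pvBox k := by
      rw [(h' k).2, pvmz_cell_eq_image, Finset.coe_image, hn]
    rw [← Set.ncard_coe_finset, e1, pvmz_cell_ncard h]
  have hex : ∀ i : DelgpIx, i.2 < ω.1 i.1 → ∃ j', j' < ω.1 i.1 ∧ pvPt ω' i.1 i.2 = pvPt ω i.1 j' := by
    intro i hi
    have h1 : pvPt ω' i.1 i.2 ∈ (pvConf ω).pts ∩ pvBox i.1 := by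
      rw [(h' i.1).2]
      exact ⟨i.2, by rw [hn]; exact hi, rfl⟩
    rw [pvmz_cell h.sq] at h1
    obtain ⟨j', hj', e⟩ := h1
    exact ⟨j', hj', e⟩
  choose! g hg using hex
  set f : DelgpIx → DelgpIx := fun i => if i.2 < ω.1 i.1 then (i.1, g i) else i with hf
  have hfa : ∀ i : DelgpIx, i.2 < ω.1 i.1 → f i = (i.1, g i) := fun i hi => if_pos hi
  have hfn : ∀ i : DelgpIx, ¬ i.2 < ω.1 i.1 → f i = i := fun i hi => if_neg hi
  have hcell : ∀ i, (f i).1 = i.1 := by
    intro i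
    by_cases hi : i.2 < ω.1 i.1
    · rw [hfa i hi]
    · rw [hfn i hi]
  have hfinj : Function.Injective f := by
    intro i i' e
    have hc : i.1 = i'.1 := by rw [← hcell i, ← hcell i', e]
    by_cases hi : i.2 < ω.1 i.1
    · by_cases hi' : i'.2 < ω.1 i'.1
      · rw [hfa i hi, hfa i' hi'] at e
        have eg : g i = g i' := congrArg Prod.snd e
        have e2 : pvPt ω' i.1 i.2 = pvPt ω' i.1 i'.2 := by
          rw [(hg i hi).2, eg, hc, (hg i' hi').2]
        have := hinj' i.1 (Finset.mem_coe.2 (Finset.mem_range.2 hi)) (Finset.mem_coe.2 (Finset.mem_range.2 (by rw [hc]; exact hi'))) e2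
        exact Prod.ext hc this
      · rw [hfa i hi, hfn i' hi'] at e
        exact absurd (by rw [← e]; exact (hg i hi).1) hi'
    · by_cases hi' : i'.2 < ω.1 i'.1
      · rw [hfn i hi, hfa i' hi'] at e
        exact absurd (by rw [e]; exact (hg i' hi').1) hi
      · rw [hfn i hi, hfn i' hi'] at e
        exact e
  have hmarks : (pvmzFill ω' y₀).2 = fun i => (pvmzFill ω y₀).2 (f i) := by
    funext i
    show pvfqMix (pvmzAct ω'.1) (ω'.2, y₀) i = pvfqMix (pvmzAct ω.1) (ω.2, y₀) (f i)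
    rw [hn]
    by_cases hi : i.2 < ω.1 i.1
    · rw [hfa i hi, pvfqMix_of_mem (show i ∈ pvmzAct ω.1 from hi), pvfqMix_of_mem (show ((i.1, g i) : DelgpIx) ∈ pvmzAct ω.1 from (hg i hi).1)]
      have e := (hg i hi).2
      rw [pvPt_eq, pvPt_eq] at e
      exact pvmz_shift_inj i.1 e
    · rw [hfn i hi, pvfqMix_of_notMem (show i ∉ pvmzAct ω.1 from hi), pvfqMix_of_notMem (show i ∉ pvmzAct ω.1 from hi)]
  have hre := pvmz_ok_reindex (n := (pvmzFill ω y₀).1) (n' := (pvmzFill ω' y₀).1) (y := (pvmzFill ω y₀).2) hy hfinj hcell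
  exact pvmz_ok_congr (ω := ((pvmzFill ω' y₀).1, fun i => (pvmzFill ω y₀).2 (f i))) (ω' := pvmzFill ω' y₀) hmarks.symm hre

/-! ## 5. the bridge -/

/-- **a measurable section which lands in the good samples** -/
theorem pvmz_good_section (ε : ℝ) : ∃ s : Conf PvPt → PVSample, Measurable s ∧ ∀ᵐ η ∂(pvP ε), pvConf (s η) = η ∧ DelgpOk (s η) := by
  obtain ⟨s, hs, hs'⟩ := pvmz_section
  obtain ⟨y₀, hy₀⟩ := pvmz_exists_fill ε
  have hm : Measurable fun η => pvmzFill (s η) y₀ := measurable_pvmzFill.comp (hs.prodMk measurable_const)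
  refine ⟨fun η => pvmzFill (s η) y₀, hm, ?_⟩
  have h1 : ∀ᵐ η ∂(pvP ε), PvLF η ∧ DelgpOk (pvmzFill (s η) y₀) := by
    unfold pvP
    have hms : MeasurableSet {η : Conf PvPt | PvLF η ∧ DelgpOk (pvmzFill (s η) y₀)} := pvcn_LF_meas.inter (hm pvmz_ok_meas)
    rw [ae_map_iff measurable_pvConf.aemeasurable hms]
    filter_upwards [delgp_ae ε, hy₀] with ω a1 a2
    have hLF : PvLF (pvConf ω) := pvcn_LF_conf ω a1.sq
    exact ⟨hLF, pvmz_reenum a1 (hs' _ hLF) y₀ a2⟩
  filter_upwards [h1] with η hη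
  refine ⟨?_, hη.2⟩
  rw [pvmz_fill_conf]
  exact pvmz_conf_of_cells fun k => (hs' η hη.1 k).2

/-- **THE BRIDGE** -/
theorem pvmz_bridge {γ : Type} [MeasurableSpace γ] {F : Conf PvPt → γ} (h : PvpMs F) (ε : ℝ) : AEMeasurable F (pvP ε) := by
  obtain ⟨Φ, hΦ, hE⟩ := h
  obtain ⟨s, hs, hae⟩ := pvmz_good_section ε
  refine ⟨fun η => Φ (s η), hΦ.comp hs, ?_⟩
  filter_upwards [hae] with η hη
  rw [hE _ hη.2, hη.1]

theorem pvmz_null {G : Set (Conf PvPt)} (h : PvpMs fun ξ => ξ ∈ G) (ε : ℝ) : NullMeasurableSet G (pvP ε) := by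
  have h1 := (pvmz_bridge h ε).nullMeasurable (measurableSet_singleton True)
  have e : (fun ξ => ξ ∈ G) ⁻¹' {True} = G := by
    ext ξ
    simp
  rwa [e] at h1

/-- the outer measure `pvP ε` of an event of the stable class is computed on the frozen sample space -/
theorem pvmz_apply {G : Set (Conf PvPt)} (h : PvpMs fun ξ => ξ ∈ G) (ε : ℝ) : pvP ε G = pvLaw ε (pvConf ⁻¹' G) :=
  Measure.map_apply₀ measurable_pvConf.aemeasurable (pvmz_null h ε)

theorem pvmz_lintegral {F : Conf PvPt → ℝ≥0∞} (h : PvpMs F) (ε : ℝ) : ∫⁻ η, F η ∂(pvP ε) = ∫⁻ ω, F (pvConf ω) ∂(pvLaw ε) :=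
  lintegral_map' (pvmz_bridge h ε) measurable_pvConf.aemeasurable

theorem pvmz_ae {p : Conf PvPt → Prop} (h : PvpMs p) (ε : ℝ) : (∀ᵐ η ∂(pvP ε), p η) ↔ ∀ᵐ ω ∂(pvLaw ε), p (pvConf ω) := by
  have h1 : PvpMs fun ξ => ξ ∈ {η | ¬ p η} := h.comp (φ := fun q : Prop => ¬ q) measurable_from_top
  rw [ae_iff, ae_iff, pvmz_apply h1 ε]
  rfl

end Claimed.Agent.R289
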