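import Claimed.Agent.R289.Tr.Prep
import Claimed.Agent.R289.Tr.S5Kit
import Claimed.Agent.R289.PppCnt
import Claimed.Agent.R289.Tr.MsConf

/-!
# Row 289 (S0537, Cardy for Poisson-Voronoi), ROAD P, statement P14 (COSTS OF THE FLAGS), file Tr/FlagP      (owner helper36; prefix `pvfx_`, `pvfx`, `Pvfx`)

Blueprint: `origin/helper273:notes/R289/ROADP_273.md` P14 (F3, F5), P5 (propensities), `origin/helper59:notes/R289/TR18_59.md` TR18.4 (FLAG), TeX 05-pins (5.3) `pin:small-propensity`.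
MODEL FREE in the strip `S`, the forced colour `b`, the event `𝒜` of the preparation and the side events: nothing here knows what a type, a state or a lane is.

* sec. 0  **THE BRIDGE** `pvfx_bridge : PvpMs F → AEMeasurable F (pvP ε)`.      `Tr/Prep` (263) works under `pvLaw ε` on the LABELLED samples, in the class `PvpMs` (measurable rule on the samples with `DelgpOk`);  the consumers of the flags
          (`Tr/Dense`, `Tr/PinLoc`: Peierls, independence = `IsPpp`) use the OUTER measure `pvP ε` on configurations, and only `pvLaw (pvConf ⁻¹' A) ≤ pvP A` is free: the wrong direction for a cost.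
          `pvcn_bridge` (PppCnt) asks honest measurability on ALL samples, `pvcd_bridge` (S1P/Meas) a rule valid on all samples with a good CONFIGURATION;  `DelgpOk` also speaks of the INACTIVE marks.
          Proof: the measurable section `pvcn_section` with its inactive marks replaced by those of ONE generic sample.
          Consequences `pvfx_bridge_set`, `pvfx_bridge_apply : pvP ε G = pvLaw ε (pvConf ⁻¹' G)`.
* sec. 1  ANNEALED PROPENSITY `pvfxProp μ O L σ = μ {η' | σ|O ∪ η'|Oᶜ ∈ L}` (honest integral over an independent copy outside `O`): read from `O`, a.e. measurable, **`pvfx_small_ann`** : `μ (L ∩ {propensity < t}) ≤ t`.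
* sec. 2  QUENCHED PROPENSITY `= pvpQ S b L` (the colours of the bounded region `S` are resampled, positions and the other colours fixed): `pvfx_avg`, `pvfx_quenched`, **`pvfx_small_q`** (NO monotonicity of `L`).
* sec. 3  **`pvfx_flag`** = TR18.4: `P(Q ≥ p, K 1_Bad > θ) ≤ θ⁻¹ p⁻¹ P(𝒜 ∩ Bad)`;  `pvfx_flag_outer` (`Bad` arbitrary: outer measure).
* sec. 4  the event `pvfxBad` of P14 (four terms), `pvfx_bad_le : ≤ 4β`, the flag `pvfxF5`, **`pvfx_F5_cost`** : `pvP ε (F5 \ F3) ≤ 8 β / p`;  locality `pvfx_F5_reads`, `pvfx_F3_reads`.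
* sec. 5  finite unions of tests (F2): `pvfx_tests`.
-/

set_option autoImplicit false
set_option linter.unusedSectionVars false

namespace Claimed.Agent.R289

open MeasureTheory ProbabilityTheory Set Filter Topology Claims.C0465
open scoped ENNReal NNReal

/-! ## 0. the bridge -/

section bridge

/-- **THE BRIDGE**: the stable class of `Tr/Prep` consists of a.e. measurable functions of the CONFIGURATION -/
theorem pvfx_bridge {γ : Type} [MeasurableSpace γ] {F : Conf PvPt → γ} (h : PvpMs F) (ε : ℝ) : AEMeasurable F (pvP ε) :=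
  pvmz_bridge h ε

theorem pvfx_bridge_set {G : Set (Conf PvPt)} (h : PvpMs fun ξ => ξ ∈ G) (ε : ℝ) : NullMeasurableSet G (pvP ε) := by
  have h1 := pvfx_bridge h ε
  exact h1.nullMeasurableSet_preimage (s := {p : Prop | p}) (MeasurableSet.of_discrete)

theorem pvfx_bridge_apply {G : Set (Conf PvPt)} (h : PvpMs fun ξ => ξ ∈ G) (ε : ℝ) : pvP ε G = pvLaw ε (pvConf ⁻¹' G) :=
  Measure.map_apply₀ measurable_pvConf.aemeasurable (pvfx_bridge_set h ε)

end bridge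

/-! ## 1. the annealed propensity -/

section ann

variable {E : Type*} [MeasurableSpace E] {m : Measure E} {μ : Measure (Conf E)} {O : Set E} {L L' : Set (Conf E)}

/-- **THE ANNEALED PROPENSITY** `ν(L | η ∩ O)`: the honest integral over an independent copy outside `O` -/
noncomputable def pvfxProp (μ : Measure (Conf E)) (O : Set E) (L : Set (Conf E)) (σ : Conf E) : ℝ≥0∞ :=
  μ {η' | Conf.union (Conf.restr O σ) (Conf.restr Oᶜ η') ∈ L}

theorem pvfx_eqns_cite : True := by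
  have := @pvfxProp.eq_1.{0}
  trivial

theorem pvfxProp_reads (μ : Measure (Conf E)) (O : Set E) (L : Set (Conf E)) : Conf.Reads O (pvfxProp μ O L) := fun η => by
  unfold pvfxProp
  rw [pvi_restr_idem]

theorem pvfxProp_mono (μ : Measure (Conf E)) (O : Set E) (h : L ⊆ L') (σ : Conf E) : pvfxProp μ O L σ ≤ pvfxProp μ O L' σ :=
  measure_mono fun _ hη => h hη

theorem pvfxProp_le_one [IsProbabilityMeasure μ] (O : Set E) (L : Set (Conf E)) (σ : Conf E) : pvfxProp μ O L σ ≤ 1 := prob_le_one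

theorem pvfxProp_meas [SFinite μ] (hO : MeasurableSet O) (hL : MeasurableSet L) : Measurable (pvfxProp μ O L) :=
  measurable_measure_prodMk_left (IsPpp.pvi_measurable_splice hO hL)

/-- the propensity does not see null modifications of the event -/
theorem pvfx_prop_congr (h : IsPpp m μ) (hO : MeasurableSet O) (hLL : L =ᵐ[μ] L') : pvfxProp μ O L =ᵐ[μ] pvfxProp μ O L' := by
  have h0 : ∀ᵐ η ∂μ, (η ∈ L ↔ η ∈ L') := by
    filter_upwards [hLL] with η hη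
    exact iff_of_eq hη
  filter_upwards [h.ae_ae_splice hO h0] with σ hσ
  refine measure_congr ?_
  filter_upwards [hσ] with η' hη'
  exact propext hη'

theorem pvfx_prop_aemeas (h : IsPpp m μ) (hO : MeasurableSet O) (hL : NullMeasurableSet L μ) : AEMeasurable (pvfxProp μ O L) μ := by
  have := h.prob
  obtain ⟨L', -, hL'm, hLL'⟩ := hL.exists_measurable_superset_ae_eq
  exact ⟨pvfxProp μ O L', pvfxProp_meas hO hL'm, pvfx_prop_congr h hO hLL'.symm⟩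

/-- the mean of the propensity is the probability -/
theorem pvfx_prop_lintegral (h : IsPpp m μ) (hO : MeasurableSet O) (hL : NullMeasurableSet L μ) : ∫⁻ σ, pvfxProp μ O L σ ∂μ = μ L := by
  have h1 := h.measure_inter_reads_eq hO (A := univ) (B := L) nullMeasurableSet_univ (fun _ => Iff.rfl) hL
  rw [univ_inter, Measure.restrict_univ] at h1
  exact h1.symm

/-- **(5.3) SMALL PROPENSITY, annealed**: success together with a propensity `< t` has probability `≤ t` -/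
theorem pvfx_small_ann (h : IsPpp m μ) (hO : MeasurableSet O) (hL : NullMeasurableSet L μ) (t : ℝ≥0∞) :
    μ (L ∩ {σ | pvfxProp μ O L σ < t}) ≤ t := by
  have := h.prob
  have hA : NullMeasurableSet {σ | pvfxProp μ O L σ < t} μ := nullMeasurableSet_lt (pvfx_prop_aemeas h hO hL) aemeasurable_const
  have hr : Conf.ReadsSet O {σ | pvfxProp μ O L σ < t} := fun η => by
    show pvfxProp μ O L (Conf.restr O η) < t ↔ pvfxProp μ O L η < t
    rw [pvfxProp_reads]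
  rw [inter_comm, h.measure_inter_reads_eq hO hA hr hL]
  calc ∫⁻ σ in {σ | pvfxProp μ O L σ < t}, μ {η' | Conf.union (Conf.restr O σ) (Conf.restr Oᶜ η') ∈ L} ∂μ
      ≤ ∫⁻ _ in {σ | pvfxProp μ O L σ < t}, t ∂μ := by
        exact lintegral_mono_ae ((ae_restrict_iff'₀ hA).2 (ae_of_all _ fun σ hσ => le_of_lt hσ))
    _ ≤ t := by
        rw [setLIntegral_const]
        calc t * μ {σ | pvfxProp μ O L σ < t} ≤ t * 1 := by gcongr; exact prob_le_one
          _ = t := mul_one t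

end ann

/-! ## 2. the quenched propensity -/

section quen

variable {S : Set ℂ} {b : Bool} {L G : Set (Conf PvPt)}

/-- probabilities of events of the stable class are integrals of indicators -/
theorem pvfx_law_eq (hG : PvpMs fun ξ => ξ ∈ G) (ε : ℝ) : pvLaw ε (pvConf ⁻¹' G) = ∫⁻ ω, G.indicator (fun _ => (1 : ℝ≥0∞)) (pvConf ω) ∂(pvLaw ε) := by
  have hn : NullMeasurableSet (pvConf ⁻¹' G) (pvLaw ε) := (hG.aemeasurable ε).nullMeasurableSet_preimage (s := {p : Prop | p}) MeasurableSet.of_discrete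
  rw [← lintegral_indicator_one₀ hn]
  rfl

theorem pvfx_ms_lt {f : Conf PvPt → ℝ} (hf : PvpMs f) (t : ℝ) : PvpMs fun ξ => ξ ∈ {ξ | f ξ < t} :=
  hf.comp (φ := fun x => x < t) (measurableSet_setOfPred.1 measurableSet_Iio)

theorem pvfx_ms_le {f : Conf PvPt → ℝ} (hf : PvpMs f) (t : ℝ) : PvpMs fun ξ => ξ ∈ {ξ | t ≤ f ξ} :=
  hf.comp (φ := fun x => t ≤ x) (measurableSet_setOfPred.1 measurableSet_Ici)

theorem pvfx_ms_inter {G G' : Set (Conf PvPt)} (h : PvpMs fun ξ => ξ ∈ G) (h' : PvpMs fun ξ => ξ ∈ G') : PvpMs fun ξ => ξ ∈ G ∩ G' :=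
  (h.prodMk h').comp (φ := fun x : Prop × Prop => x.1 ∧ x.2) (measurable_of_countable _)

theorem pvfx_ms_union {G G' : Set (Conf PvPt)} (h : PvpMs fun ξ => ξ ∈ G) (h' : PvpMs fun ξ => ξ ∈ G') : PvpMs fun ξ => ξ ∈ G ∪ G' :=
  (h.prodMk h').comp (φ := fun x : Prop × Prop => x.1 ∨ x.2) (measurable_of_countable _)

theorem pvfx_ms_ind (h : PvpMs fun ξ => ξ ∈ G) : PvpMs (G.indicator fun _ => (1 : ℝ≥0∞)) := (PvpMs.const (1 : ℝ≥0∞)).indicator h

/-- the quenched probability is the average of the indicator over the repaintings of the region -/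
theorem pvfx_avg (S : Set ℂ) (b : Bool) (L : Set (Conf PvPt)) (ξ : Conf PvPt) :
    (2⁻¹ : ℝ≥0∞) ^ (cfStrip S ξ).card * ∑ B ∈ (cfStrip S ξ).powerset, L.indicator (fun _ => (1 : ℝ≥0∞)) (cfPaint S b B ξ)
      = ENNReal.ofReal (pvpQ S b L ξ) := by
  classical
  have e : ∑ B ∈ (cfStrip S ξ).powerset, L.indicator (fun _ => (1 : ℝ≥0∞)) (cfPaint S b B ξ) = (pvpCnt (cfStrip S ξ) (pvpTab S b L ξ) : ℝ≥0∞) := by
    unfold pvpCnt pvpTab
    rw [Finset.card_filter, Nat.cast_sum]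
    refine Finset.sum_congr rfl fun B _ => ?_
    by_cases h : cfPaint S b B ξ ∈ L
    · rw [Set.indicator_of_mem h, if_pos h]; simp
    · rw [Set.indicator_of_notMem h, if_neg h]; simp
  unfold pvpQ
  rw [e, ENNReal.ofReal_div_of_pos (by positivity), ENNReal.ofReal_natCast, ENNReal.ofReal_pow (by norm_num), ENNReal.ofReal_ofNat,
    div_eq_mul_inv, ENNReal.inv_pow, mul_comm]

/-- **RESAMPLING THE COLOURS OF A BOUNDED REGION**, one geometry: blind weights do not see it -/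
theorem pvfx_quenched {g : PvGeoT} (hg : PvgOk g) (hSb : Bornology.IsBounded S) (b : Bool) {F H : Conf PvPt → ℝ≥0∞} (hF : PvpMs F) (hH : PvpMs H)
    (hHb : PvpBlind S H) :
    ∫⁻ c, H (pvConf (pvMerge (g, c))) * F (pvConf (pvMerge (g, c))) ∂pvCol
      = ∫⁻ c, H (pvConf (pvMerge (g, c))) * ((2⁻¹ : ℝ≥0∞) ^ (cfStrip S (pvConf (pvMerge (g, c)))).card *
          ∑ B ∈ (cfStrip S (pvConf (pvMerge (g, c)))).powerset, F (cfPaint S b B (pvConf (pvMerge (g, c))))) ∂pvCol := by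
  classical
  have m1 := (hH.mul hF).sec hg
  rw [pvp_resample (pvpIdx S g) b m1]
  refine lintegral_congr fun c => ?_
  rw [pvp_sum_idx hg hSb b c (fun ξ => H ξ * F ξ)]
  have e1 : ∀ B, H (cfPaint S b B (pvConf (pvMerge (g, c)))) = H (pvConf (pvMerge (g, c))) := fun B => hHb b B _
  simp only [e1]
  rw [← Finset.mul_sum]
  have e2 : (cfStrip S (pvConf (pvMerge (g, c)))).card = (pvpIdx S g).card := by
    rw [pvp_strip_eq hg hSb c, Finset.card_image_of_injective _ hg.inj]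
  rw [e2]
  ring

/-- **(5.3) SMALL PROPENSITY, quenched** (positions and the colours off `S` fixed; NO monotonicity): success together with a quenched propensity `< t` has probability `≤ t` -/
theorem pvfx_small_q (ε : ℝ) (hS : MeasurableSet S) (hSb : Bornology.IsBounded S) (b : Bool) (hL : PvpMs fun ξ => ξ ∈ L) (t : ℝ) :
    pvLaw ε (pvConf ⁻¹' (L ∩ {ξ | pvpQ S b L ξ < t})) ≤ ENNReal.ofReal t := by
  have hQ := pvfx_ms_lt (pvpQ_ms hS hSb b hL) t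
  have hH := pvfx_ms_ind hQ
  have hF := pvfx_ms_ind hL
  have hHb : PvpBlind S ({ξ | pvpQ S b L ξ < t}.indicator fun _ => (1 : ℝ≥0∞)) := by
    intro b' B ξ
    have : pvpQ S b L (cfPaint S b' B ξ) = pvpQ S b L ξ := pvpQ_blind S b L b' B ξ
    by_cases h : pvpQ S b L ξ < t
    · rw [Set.indicator_of_mem (show ξ ∈ {ξ | pvpQ S b L ξ < t} from h), Set.indicator_of_mem (show cfPaint S b' B ξ ∈ {ξ | pvpQ S b L ξ < t} by show _ < t; rw [this]; exact h)]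
    · rw [Set.indicator_of_notMem (show ξ ∉ {ξ | pvpQ S b L ξ < t} from h), Set.indicator_of_notMem (show cfPaint S b' B ξ ∉ {ξ | pvpQ S b L ξ < t} by show ¬ _ < t; rw [this]; exact h)]
  rw [pvfx_law_eq (pvfx_ms_inter hL hQ) ε]
  have e0 : ∀ ξ, (L ∩ {ξ | pvpQ S b L ξ < t}).indicator (fun _ => (1 : ℝ≥0∞)) ξ
      = {ξ | pvpQ S b L ξ < t}.indicator (fun _ => (1 : ℝ≥0∞)) ξ * L.indicator (fun _ => (1 : ℝ≥0∞)) ξ := by
    intro ξ
    rw [inter_comm]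
    exact congrFun (Set.inter_indicator_one (s := {ξ | pvpQ S b L ξ < t}) (t := L)) ξ
  simp only [e0]
  rw [(hH.mul hF).lintegral_eq ε]
  calc ∫⁻ g, ∫⁻ c, {ξ | pvpQ S b L ξ < t}.indicator (fun _ => (1 : ℝ≥0∞)) (pvConf (pvMerge (g, c))) * L.indicator (fun _ => (1 : ℝ≥0∞)) (pvConf (pvMerge (g, c))) ∂pvCol ∂(pvGeo ε)
      ≤ ∫⁻ _, ENNReal.ofReal t ∂(pvGeo ε) := by
        refine lintegral_mono_ae ?_
        filter_upwards [pvqu_ok_ae ε] with g hg
        rw [pvfx_quenched hg hSb b hF hH hHb]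
        calc _ ≤ ∫⁻ _, ENNReal.ofReal t ∂pvCol := by
              refine lintegral_mono fun c => ?_
              rw [pvfx_avg]
              by_cases h : pvpQ S b L (pvConf (pvMerge (g, c))) < t
              · rw [Set.indicator_of_mem (show pvConf (pvMerge (g, c)) ∈ {ξ | pvpQ S b L ξ < t} from h), one_mul]
                exact ENNReal.ofReal_le_ofReal h.le
              · rw [Set.indicator_of_notMem (show pvConf (pvMerge (g, c)) ∉ {ξ | pvpQ S b L ξ < t} from h), zero_mul]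
                exact zero_le
          _ = ENNReal.ofReal t := by simp
    _ = ENNReal.ofReal t := by simp

end quen

/-! ## 3. TR18.4 : the cost of a flag `{K 1_Bad > θ}` -/

section flag

variable {S : Set ℂ} {b : Bool} {𝒜 Bad Bad' : Set (Conf PvPt)}

theorem pvfx_blind_le (S : Set ℂ) (b : Bool) (𝒜 : Set (Conf PvPt)) (p : ℝ) : PvpBlind S ({ξ | p ≤ pvpQ S b 𝒜 ξ}.indicator fun _ => (1 : ℝ≥0∞)) := by
  intro b' B ξ
  have : pvpQ S b 𝒜 (cfPaint S b' B ξ) = pvpQ S b 𝒜 ξ := pvpQ_blind S b 𝒜 b' B ξ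
  by_cases h : p ≤ pvpQ S b 𝒜 ξ
  · rw [Set.indicator_of_mem (show ξ ∈ {ξ | p ≤ pvpQ S b 𝒜 ξ} from h), Set.indicator_of_mem (show cfPaint S b' B ξ ∈ {ξ | p ≤ pvpQ S b 𝒜 ξ} by show p ≤ _; rw [this]; exact h)]
  · rw [Set.indicator_of_notMem (show ξ ∉ {ξ | p ≤ pvpQ S b 𝒜 ξ} from h), Set.indicator_of_notMem (show cfPaint S b' B ξ ∉ {ξ | p ≤ pvpQ S b 𝒜 ξ} by show ¬ p ≤ _; rw [this]; exact h)]

/-- **TR18.4 (FLAG)**, labelled samples: on the geometries where the preparation costs at most `p⁻¹`, the prepared probability of `Bad` exceeds `θ` with probability `≤ θ⁻¹ p⁻¹ P(𝒜 ∩ Bad)` -/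
theorem pvfx_flag (ε : ℝ) (hS : MeasurableSet S) (hSb : Bornology.IsBounded S) (hinc : PvpInc S b 𝒜) (hA : PvpMs fun ξ => ξ ∈ 𝒜) (hB : PvpMs fun ξ => ξ ∈ Bad)
    {p : ℝ} (hp : 0 < p) {θ : ℝ≥0∞} (hθ : θ ≠ 0) (hθ' : θ ≠ ∞) :
    pvLaw ε {ω | p ≤ pvpQ S b 𝒜 (pvConf ω) ∧ θ < pvpOp S b 𝒜 (Bad.indicator fun _ => 1) (pvConf ω)}
      ≤ θ⁻¹ * ((ENNReal.ofReal p)⁻¹ * pvLaw ε (pvConf ⁻¹' (𝒜 ∩ Bad))) := by
  set H : Conf PvPt → ℝ≥0∞ := {ξ | p ≤ pvpQ S b 𝒜 ξ}.indicator fun _ => (1 : ℝ≥0∞) with hHdef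
  set F : Conf PvPt → ℝ≥0∞ := Bad.indicator fun _ => (1 : ℝ≥0∞) with hFdef
  have hH : PvpMs H := pvfx_ms_ind (pvfx_ms_le (pvpQ_ms hS hSb b hA) p)
  have hF : PvpMs F := pvfx_ms_ind hB
  have hHb : PvpBlind S H := pvfx_blind_le S b 𝒜 p
  have hHp : ∀ ξ, pvpQ S b 𝒜 ξ < p → H ξ = 0 := fun ξ h => Set.indicator_of_notMem (show ξ ∉ {ξ | p ≤ pvpQ S b 𝒜 ξ} from not_le.2 h) _
  have hdom := pvp_dom_w ε hS hSb hinc hA hF hH hHb hp hHp
  have hae : AEMeasurable (fun ω => H (pvConf ω) * pvpOp S b 𝒜 F (pvConf ω)) (pvLaw ε) := (hH.mul (PvpMs.op hS hSb b hA hF)).aemeasurable ε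
  have hsub : {ω | p ≤ pvpQ S b 𝒜 (pvConf ω) ∧ θ < pvpOp S b 𝒜 F (pvConf ω)} ⊆ {ω | θ ≤ H (pvConf ω) * pvpOp S b 𝒜 F (pvConf ω)} := by
    rintro ω ⟨h1, h2⟩
    show θ ≤ H (pvConf ω) * _
    rw [hHdef, Set.indicator_of_mem (show pvConf ω ∈ {ξ | p ≤ pvpQ S b 𝒜 ξ} from h1), one_mul]
    exact h2.le
  have hlast : ∫⁻ ω, H (pvConf ω) * 𝒜.indicator F (pvConf ω) ∂(pvLaw ε) ≤ pvLaw ε (pvConf ⁻¹' (𝒜 ∩ Bad)) := by
    refine le_trans (lintegral_mono fun ω => ?_) (lintegral_indicator_one_le (pvConf ⁻¹' (𝒜 ∩ Bad)))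
    by_cases h : pvConf ω ∈ 𝒜 ∩ Bad
    · rw [Set.indicator_of_mem (show ω ∈ pvConf ⁻¹' (𝒜 ∩ Bad) from h), Set.indicator_of_mem h.1, hFdef, Set.indicator_of_mem h.2, mul_one]
      exact Set.indicator_le_self' (fun _ _ => zero_le) _ |>.trans le_rfl
    · have : 𝒜.indicator F (pvConf ω) = 0 := by
        by_cases h1 : pvConf ω ∈ 𝒜
        · rw [Set.indicator_of_mem h1, hFdef, Set.indicator_of_notMem fun h2 => h ⟨h1, h2⟩]
        · rw [Set.indicator_of_notMem h1]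
      rw [this, mul_zero]
      exact zero_le
  calc pvLaw ε {ω | p ≤ pvpQ S b 𝒜 (pvConf ω) ∧ θ < pvpOp S b 𝒜 F (pvConf ω)}
      ≤ pvLaw ε {ω | θ ≤ H (pvConf ω) * pvpOp S b 𝒜 F (pvConf ω)} := measure_mono hsub
    _ ≤ (∫⁻ ω, H (pvConf ω) * pvpOp S b 𝒜 F (pvConf ω) ∂(pvLaw ε)) / θ := meas_ge_le_lintegral_div hae hθ hθ'
    _ = θ⁻¹ * ∫⁻ ω, H (pvConf ω) * pvpOp S b 𝒜 F (pvConf ω) ∂(pvLaw ε) := by rw [div_eq_mul_inv, mul_comm]
    _ ≤ θ⁻¹ * ((ENNReal.ofReal p)⁻¹ * pvLaw ε (pvConf ⁻¹' (𝒜 ∩ Bad))) := by gcongr; exact hdom.trans (by gcongr)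

/-- the set of configurations of the flag is in the stable class -/
theorem pvfx_flag_ms (hS : MeasurableSet S) (hSb : Bornology.IsBounded S) (b : Bool) (hA : PvpMs fun ξ => ξ ∈ 𝒜) (hB : PvpMs fun ξ => ξ ∈ Bad) (p : ℝ) (θ : ℝ≥0∞) :
    PvpMs fun ξ => ξ ∈ {ξ | p ≤ pvpQ S b 𝒜 ξ ∧ θ < pvpOp S b 𝒜 (Bad.indicator fun _ => 1) ξ} :=
  ((pvpQ_ms hS hSb b hA).prodMk (PvpMs.op hS hSb b hA (pvfx_ms_ind hB))).comp (φ := fun x : ℝ × ℝ≥0∞ => p ≤ x.1 ∧ θ < x.2)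
    (measurableSet_setOfPred.1 ((measurableSet_le measurable_const measurable_fst).inter (measurableSet_lt measurable_const measurable_snd)))

/-- **TR18.4 (FLAG)**, configurations, `Bad` ARBITRARY (outer measures on both sides) -/
theorem pvfx_flag_outer (ε : ℝ) (hS : MeasurableSet S) (hSb : Bornology.IsBounded S) (hinc : PvpInc S b 𝒜) (hA : PvpMs fun ξ => ξ ∈ 𝒜) (Bad : Set (Conf PvPt))
    {p : ℝ} (hp : 0 < p) {θ : ℝ≥0∞} (hθ : θ ≠ 0) (hθ' : θ ≠ ∞) :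
    pvP ε {ξ | p ≤ pvpQ S b 𝒜 ξ ∧ θ < pvpOp S b 𝒜 (Bad.indicator fun _ => 1) ξ} ≤ θ⁻¹ * ((ENNReal.ofReal p)⁻¹ * pvP ε Bad) := by
  set B' := toMeasurable (pvP ε) Bad with hB'
  have hB'm : MeasurableSet B' := measurableSet_toMeasurable _ _
  have hms : PvpMs fun ξ => ξ ∈ B' := PvpMs.of_set (measurable_pvConf hB'm)
  have hsub : {ξ | p ≤ pvpQ S b 𝒜 ξ ∧ θ < pvpOp S b 𝒜 (Bad.indicator fun _ => 1) ξ} ⊆ {ξ | p ≤ pvpQ S b 𝒜 ξ ∧ θ < pvpOp S b 𝒜 (B'.indicator fun _ => 1) ξ} := by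
    rintro ξ ⟨h1, h2⟩
    refine ⟨h1, h2.trans_le (pvpOp_mono S b 𝒜 (fun ζ => ?_) ξ)⟩
    exact Set.indicator_le_indicator_of_subset (subset_toMeasurable _ _) (fun _ => zero_le) ζ
  calc pvP ε {ξ | p ≤ pvpQ S b 𝒜 ξ ∧ θ < pvpOp S b 𝒜 (Bad.indicator fun _ => 1) ξ}
      ≤ pvP ε {ξ | p ≤ pvpQ S b 𝒜 ξ ∧ θ < pvpOp S b 𝒜 (B'.indicator fun _ => 1) ξ} := measure_mono hsub
    _ = pvLaw ε (pvConf ⁻¹' {ξ | p ≤ pvpQ S b 𝒜 ξ ∧ θ < pvpOp S b 𝒜 (B'.indicator fun _ => 1) ξ}) := pvfx_bridge_apply (pvfx_flag_ms hS hSb b hA hms p θ) ε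
    _ ≤ θ⁻¹ * ((ENNReal.ofReal p)⁻¹ * pvLaw ε (pvConf ⁻¹' (𝒜 ∩ B'))) := pvfx_flag ε hS hSb hinc hA hms hp hθ hθ'
    _ ≤ θ⁻¹ * ((ENNReal.ofReal p)⁻¹ * pvP ε Bad) := by
        gcongr
        calc pvLaw ε (pvConf ⁻¹' (𝒜 ∩ B')) ≤ pvLaw ε (pvConf ⁻¹' B') := measure_mono fun _ h => h.2
          _ = pvP ε B' := (Measure.map_apply measurable_pvConf hB'm).symm
          _ = pvP ε Bad := measure_toMeasurable _

end flag

/-! ## 4. the flags F3, F5 of P14 -/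

section P14

variable {S Tp Tm : Set ℂ} {b : Bool} {𝒜 Lp Lm Wp Wm Bad Gq : Set (Conf PvPt)} {O : Set PvPt}

/-- success with a small ANNEALED propensity -/
def pvfxSmA (μ : Measure (Conf PvPt)) (O : Set PvPt) (L : Set (Conf PvPt)) (β : ℝ) : Set (Conf PvPt) := L ∩ {σ | pvfxProp μ O L σ < ENNReal.ofReal β}

/-- success with a small QUENCHED propensity (the colours of the sites of `T` are resampled) -/
def pvfxSmQ (T : Set ℂ) (b : Bool) (W : Set (Conf PvPt)) (β : ℝ) : Set (Conf PvPt) := W ∩ {ξ | pvpQ T b W ξ < β}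

/-- **the event `Bad` of P14**: one of the two side events `L^±` holds with annealed propensity `< β`, or one of the two white side events `L^{±,w}` holds with quenched propensity `< β` -/
def pvfxBad (μ : Measure (Conf PvPt)) (O : Set PvPt) (Tp Tm : Set ℂ) (b : Bool) (Lp Lm Wp Wm : Set (Conf PvPt)) (β : ℝ) : Set (Conf PvPt) :=
  pvfxSmA μ O Lp β ∪ pvfxSmA μ O Lm β ∪ pvfxSmQ Tp b Wp β ∪ pvfxSmQ Tm b Wm β

/-- the flag F3: the preparation is too expensive at this geometry -/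
def pvfxF3 (S : Set ℂ) (b : Bool) (𝒜 : Set (Conf PvPt)) (p : ℝ) : Set (Conf PvPt) := {ξ | pvpQ S b 𝒜 ξ < p}

/-- the flag F5: the prepared configuration is `Bad` with probability `> 1/2` -/
def pvfxF5 (S : Set ℂ) (b : Bool) (𝒜 Bad : Set (Conf PvPt)) : Set (Conf PvPt) := {ξ | 2⁻¹ < pvpOp S b 𝒜 (Bad.indicator fun _ => 1) ξ}

theorem pvfx_eqns_cite2 : True := by
  have := @pvfxSmA.eq_1; have := @pvfxSmQ.eq_1; have := @pvfxBad.eq_1; have := @pvfxF3.eq_1; have := @pvfxF5.eq_1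
  trivial

theorem pvfx_smA_le (ε : ℝ) (hO : MeasurableSet O) {L : Set (Conf PvPt)} (hL : NullMeasurableSet L (pvP ε)) (β : ℝ) : pvP ε (pvfxSmA (pvP ε) O L β) ≤ ENNReal.ofReal β :=
  pvfx_small_ann (pv_isPpp ε) hO hL _

theorem pvfx_smQ_ms {T : Set ℂ} (hT : MeasurableSet T) (hTb : Bornology.IsBounded T) (b : Bool) {W : Set (Conf PvPt)} (hW : PvpMs fun ξ => ξ ∈ W) (β : ℝ) :
    PvpMs fun ξ => ξ ∈ pvfxSmQ T b W β := pvfx_ms_inter hW (pvfx_ms_lt (pvpQ_ms hT hTb b hW) β)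

theorem pvfx_smQ_le (ε : ℝ) {T : Set ℂ} (hT : MeasurableSet T) (hTb : Bornology.IsBounded T) (b : Bool) {W : Set (Conf PvPt)} (hW : PvpMs fun ξ => ξ ∈ W) (β : ℝ) :
    pvP ε (pvfxSmQ T b W β) ≤ ENNReal.ofReal β := by
  rw [pvfx_bridge_apply (pvfx_smQ_ms hT hTb b hW β) ε]
  exact pvfx_small_q ε hT hTb b hW β

/-- **`P(Bad) ≤ 4β`** -/
theorem pvfx_bad_le (ε : ℝ) (hO : MeasurableSet O) (hLp : NullMeasurableSet Lp (pvP ε)) (hLm : NullMeasurableSet Lm (pvP ε)) (hTp : MeasurableSet Tp) (hTpb : Bornology.IsBounded Tp)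
    (hTm : MeasurableSet Tm) (hTmb : Bornology.IsBounded Tm) (b : Bool) (hWp : PvpMs fun ξ => ξ ∈ Wp) (hWm : PvpMs fun ξ => ξ ∈ Wm) (β : ℝ) :
    pvP ε (pvfxBad (pvP ε) O Tp Tm b Lp Lm Wp Wm β) ≤ 4 * ENNReal.ofReal β := by
  unfold pvfxBad
  calc _ ≤ pvP ε (pvfxSmA (pvP ε) O Lp β) + pvP ε (pvfxSmA (pvP ε) O Lm β) + pvP ε (pvfxSmQ Tp b Wp β) + pvP ε (pvfxSmQ Tm b Wm β) :=
        (measure_union_le _ _).trans (add_le_add_left ((measure_union_le _ _).trans (add_le_add_left (measure_union_le _ _) _)) _)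
    _ ≤ ENNReal.ofReal β + ENNReal.ofReal β + ENNReal.ofReal β + ENNReal.ofReal β :=
        add_le_add (add_le_add (add_le_add (pvfx_smA_le ε hO hLp β) (pvfx_smA_le ε hO hLm β)) (pvfx_smQ_le ε hTp hTpb b hWp β)) (pvfx_smQ_le ε hTm hTmb b hWm β)
    _ = 4 * ENNReal.ofReal β := by ring

/-- **THE COST OF F5** off F3, `Bad` arbitrary -/
theorem pvfx_F5_le (ε : ℝ) (hS : MeasurableSet S) (hSb : Bornology.IsBounded S) (hinc : PvpInc S b 𝒜) (hA : PvpMs fun ξ => ξ ∈ 𝒜) (Bad : Set (Conf PvPt)) {p : ℝ} (hp : 0 < p) :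
    pvP ε (pvfxF5 S b 𝒜 Bad \ pvfxF3 S b 𝒜 p) ≤ 2 * ((ENNReal.ofReal p)⁻¹ * pvP ε Bad) := by
  have h := pvfx_flag_outer ε hS hSb hinc hA Bad hp (θ := 2⁻¹) (by simp) (by simp)
  rw [inv_inv] at h
  refine le_trans (measure_mono ?_) h
  rintro ξ ⟨h1, h2⟩
  exact ⟨not_lt.1 h2, h1⟩

/-- **P14, COST OF F5**: `P(F5 \ F3) ≤ 8 β / p` -/
theorem pvfx_F5_cost (ε : ℝ) (hS : MeasurableSet S) (hSb : Bornology.IsBounded S) (hinc : PvpInc S b 𝒜) (hA : PvpMs fun ξ => ξ ∈ 𝒜) {p : ℝ} (hp : 0 < p)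
    (hO : MeasurableSet O) (hLp : NullMeasurableSet Lp (pvP ε)) (hLm : NullMeasurableSet Lm (pvP ε)) (hTp : MeasurableSet Tp) (hTpb : Bornology.IsBounded Tp)
    (hTm : MeasurableSet Tm) (hTmb : Bornology.IsBounded Tm) (b' : Bool) (hWp : PvpMs fun ξ => ξ ∈ Wp) (hWm : PvpMs fun ξ => ξ ∈ Wm) (β : ℝ) :
    pvP ε (pvfxF5 S b 𝒜 (pvfxBad (pvP ε) O Tp Tm b' Lp Lm Wp Wm β) \ pvfxF3 S b 𝒜 p) ≤ ENNReal.ofReal (8 * β / p) := by
  refine (pvfx_F5_le ε hS hSb hinc hA _ hp).trans ?_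
  calc 2 * ((ENNReal.ofReal p)⁻¹ * pvP ε (pvfxBad (pvP ε) O Tp Tm b' Lp Lm Wp Wm β))
      ≤ 2 * ((ENNReal.ofReal p)⁻¹ * (4 * ENNReal.ofReal β)) := by
        gcongr
        exact pvfx_bad_le ε hO hLp hLm hTp hTpb hTm hTmb b' hWp hWm β
    _ = ENNReal.ofReal (8 * β / p) := by
        rw [ENNReal.ofReal_div_of_pos hp, ENNReal.ofReal_mul (by norm_num), div_eq_mul_inv]
        have : ENNReal.ofReal 8 = 8 := by simp
        rw [this]
        ring_nf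

/-! ### locality -/

theorem pvfx_F3_reads {W : Set PvPt} (hW : Prod.fst ⁻¹' S ⊆ W) (hA : Conf.ReadsSet W 𝒜) (b : Bool) (p : ℝ) : Conf.ReadsSet W (pvfxF3 S b 𝒜 p) := fun η => by
  show pvpQ S b 𝒜 (Conf.restr W η) < p ↔ pvpQ S b 𝒜 η < p
  rw [pvpQ_reads hW hA b η]

theorem pvfx_F5_reads {W : Set PvPt} (hW : Prod.fst ⁻¹' S ⊆ W) (hA : Conf.ReadsSet W 𝒜) (hB : Conf.ReadsSet W Bad) (b : Bool) : Conf.ReadsSet W (pvfxF5 S b 𝒜 Bad) := fun η => by
  show 2⁻¹ < pvpOp S b 𝒜 (Bad.indicator fun _ => 1) (Conf.restr W η) ↔ 2⁻¹ < pvpOp S b 𝒜 (Bad.indicator fun _ => 1) η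
  rw [pvpOp_reads hW hA (hB.indicator (Conf.reads_const _ _)) b η]

theorem pvfx_smA_reads (μ : Measure (Conf PvPt)) {W : Set PvPt} (hO : O ⊆ W) {L : Set (Conf PvPt)} (hL : Conf.ReadsSet W L) (β : ℝ) : Conf.ReadsSet W (pvfxSmA μ O L β) :=
  hL.inter (((pvfxProp_reads μ O L).mono hO).preimage (Iio (ENNReal.ofReal β)))

theorem pvfx_smQ_reads {T : Set ℂ} {W : Set PvPt} (hT : Prod.fst ⁻¹' T ⊆ W) {L : Set (Conf PvPt)} (hL : Conf.ReadsSet W L) (b : Bool) (β : ℝ) : Conf.ReadsSet W (pvfxSmQ T b L β) :=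
  hL.inter ((pvpQ_reads hT hL b).preimage (Iio β))

theorem pvfx_bad_reads (μ : Measure (Conf PvPt)) {W : Set PvPt} (hO : O ⊆ W) (hTp : Prod.fst ⁻¹' Tp ⊆ W) (hTm : Prod.fst ⁻¹' Tm ⊆ W) (hLp : Conf.ReadsSet W Lp) (hLm : Conf.ReadsSet W Lm)
    (hWp : Conf.ReadsSet W Wp) (hWm : Conf.ReadsSet W Wm) (b : Bool) (β : ℝ) : Conf.ReadsSet W (pvfxBad μ O Tp Tm b Lp Lm Wp Wm β) :=
  (((pvfx_smA_reads μ hO hLp β).union (pvfx_smA_reads μ hO hLm β)).union (pvfx_smQ_reads hTp hWp b β)).union (pvfx_smQ_reads hTm hWm b β)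

/-! ### the step of DI-P (P15) -/

/-- **P15, the probabilistic step**: off F3 and F5, if every admissible repainting (colour `b` added in the strip, `𝒜` holds) is in `Gq ∪ Bad`, then `gam = K 1_Gq ≥ 1/2` -/
theorem pvfx_gam (hinc : PvpInc S b 𝒜) {p : ℝ} (hp : 0 < p) {ξ : Conf PvPt} (h3 : ξ ∉ pvfxF3 S b 𝒜 p) (h5 : ξ ∉ pvfxF5 S b 𝒜 Bad)
    (hst : ∀ B', cfStripOn S b ξ ⊆ B' → B' ⊆ cfStrip S ξ → cfPaint S b B' ξ ∈ 𝒜 → cfPaint S b B' ξ ∈ Gq ∪ Bad) :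
    2⁻¹ ≤ pvpOp S b 𝒜 (Gq.indicator fun _ => 1) ξ := by
  have hQ : 0 < pvpQ S b 𝒜 ξ := lt_of_lt_of_le hp (not_lt.1 h3)
  have h1 : (1 : ℝ≥0∞) ≤ pvpOp S b 𝒜 (fun ζ => Gq.indicator (fun _ => 1) ζ + Bad.indicator (fun _ => 1) ζ) ξ := by
    refine pvp_le_op_of_supp hinc hQ fun B' a1 a2 a3 => ?_
    rcases hst B' a1 a2 a3 with h | h
    · rw [Set.indicator_of_mem h]; exact le_self_add
    · rw [Set.indicator_of_mem h]; exact le_add_self
  rw [pvpOp_add] at h1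
  have h2 : pvpOp S b 𝒜 (Bad.indicator fun _ => 1) ξ ≤ 2⁻¹ := not_lt.1 h5
  by_contra hcon
  have h4 : pvpOp S b 𝒜 (Gq.indicator fun _ => 1) ξ < 2⁻¹ := not_le.1 hcon
  have h6 : pvpOp S b 𝒜 (Gq.indicator fun _ => 1) ξ + pvpOp S b 𝒜 (Bad.indicator fun _ => 1) ξ < 2⁻¹ + 2⁻¹ := ENNReal.add_lt_add_of_lt_of_le (by
    exact ne_top_of_le_ne_top (by simp) h2) h4 h2
  rw [ENNReal.inv_two_add_inv_two] at h6
  exact absurd h1 (not_le.2 h6)

end P14

/-! ## 5. finite families of tests (F2, F0) -/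

section tests

/-- union bound, eventually, for a FINITE family of tests each of which has an eventual bound (form of `PvNearExit.prob`, `pvqzz_exit_Qc`) -/
theorem pvfx_tests {ι : Type*} (T : Finset ι) (εs : ℕ → ℝ) (F : ι → Set (Conf PvPt)) (a : ι → ℝ) (h : ∀ i ∈ T, ∀ᶠ n in atTop, (pvP (εs n) (F i)).toReal ≤ a i) :
    ∀ᶠ n in atTop, (pvP (εs n) (⋃ i ∈ T, F i)).toReal ≤ ∑ i ∈ T, a i := by
  have h' : ∀ᶠ n in atTop, ∀ i ∈ T, (pvP (εs n) (F i)).toReal ≤ a i := (Finset.eventually_all T).2 h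
  filter_upwards [h'] with n hn
  have := (pv_isPpp (εs n)).prob
  calc (pvP (εs n) (⋃ i ∈ T, F i)).toReal ≤ (∑ i ∈ T, pvP (εs n) (F i)).toReal :=
        ENNReal.toReal_mono (ENNReal.sum_ne_top.2 fun i _ => measure_ne_top _ _) (measure_biUnion_finset_le T F)
    _ = ∑ i ∈ T, (pvP (εs n) (F i)).toReal := ENNReal.toReal_sum fun i _ => measure_ne_top _ _
    _ ≤ ∑ i ∈ T, a i := Finset.sum_le_sum hn

end tests

end Claimed.Agent.R289
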