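import Claimed.Agent.R289.Tr.Prep

/-!
# Row 289 (S0537, Cardy for Poisson-Voronoi), box TR, ROAD P, file Tr/PrepAvg : TR18 = sec. D of THE LOCAL PREPARATION: PREPARED POTENTIALS, FLAGS, TRANSFER      (owner helper59; prefix `pvpr_`, `pvpr`, `Pvpr`)

Blueprint: `origin/helper59:notes/R289/TR18_59.md` (TR18.1 - TR18.5).      The operator `pvpOp`, `pvpAv` on `Conf PvPt`, its calculus and `pvp_dom` are `Tr/Prep.lean` (helper263), sec. A - C; this file is its sec. D.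
WHY: the potentials of the real arc read the PREPARED state.   Instead of carrying the seeds of the monotone kernel in the sample space, AVERAGE over them:
`γ = K 1_G`, `Ψ = K[1_G ψ] / γ` are functions of the ACTUAL configuration, and Jensen is applied POINTWISE.   So `L9Loc` / `L9ExitTR` (`Ω = PVSample × (X → Bool)`, `Ψ` measurable) are met as typed.

* sec. 1  finite inequalities (model free): `pvpr_cs`, `pvpr_pointwise`, `pvpr_l2`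
* sec. 2  `pvprGam` (propensity `γ`), `pvprNum`, `pvprPsi`, **`pvprPot`** (`= Ψ` on `{θ ≤ γ, p ≤ Q}`, `0` elsewhere); bridges to `pvpAv`, `pvpOp`; blindness to a disjoint strip; locality (`Conf.Reads`)
* sec. 3  two disjoint strips, POINTWISE: `pvpr_two_av` (product structure), **`pvpr_two`** (TR18.2), `pvpr_pot_sq` (TR18.3), `pvpr_rank` (TR18.5)
* sec. 4  integrals: `pvpr_pot_meas`, **`pvpr_pot_l2`** (TR18.3), **`pvpr_flag`** (TR18.4), **`pvpr_dom2`** (TR18.1 for two strips), **`pvpr_transfer`** (A1: one exceptional event for ALL rims)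
-/

set_option autoImplicit false
set_option linter.unusedSectionVars false

namespace Claimed.Agent.R289

open MeasureTheory ProbabilityTheory Set Filter Claims.C0465
open scoped ENNReal

/-! ## 1. finite weighted averages -/

/-- weighted Cauchy-Schwarz (= Jensen for a sub-probability weight) -/
theorem pvpr_cs {ι : Type*} (s : Finset ι) (w : ι → ℝ) (hw : ∀ i ∈ s, 0 ≤ w i) (v : ι → ℂ) :
    ‖∑ i ∈ s, (w i : ℂ) * v i‖ ^ 2 ≤ (∑ i ∈ s, w i) * ∑ i ∈ s, w i * ‖v i‖ ^ 2 := by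
  have h1 : ‖∑ i ∈ s, (w i : ℂ) * v i‖ ≤ ∑ i ∈ s, w i * ‖v i‖ := by
    refine (norm_sum_le _ _).trans (le_of_eq (Finset.sum_congr rfl fun i hi => ?_))
    rw [norm_mul, Complex.norm_real, Real.norm_eq_abs, abs_of_nonneg (hw i hi)]
  have h2 := Finset.sum_mul_sq_le_sq_mul_sq s (fun i => Real.sqrt (w i)) (fun i => Real.sqrt (w i) * ‖v i‖)
  have e1 : ∑ i ∈ s, Real.sqrt (w i) * (Real.sqrt (w i) * ‖v i‖) = ∑ i ∈ s, w i * ‖v i‖ :=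
    Finset.sum_congr rfl fun i hi => by rw [← mul_assoc, Real.mul_self_sqrt (hw i hi)]
  have e2 : ∑ i ∈ s, Real.sqrt (w i) ^ 2 = ∑ i ∈ s, w i := Finset.sum_congr rfl fun i hi => Real.sq_sqrt (hw i hi)
  have e3 : ∑ i ∈ s, (Real.sqrt (w i) * ‖v i‖) ^ 2 = ∑ i ∈ s, w i * ‖v i‖ ^ 2 :=
    Finset.sum_congr rfl fun i hi => by rw [mul_pow, Real.sq_sqrt (hw i hi)]
  rw [e1, e2, e3] at h2
  have h0 : 0 ≤ ‖∑ i ∈ s, (w i : ℂ) * v i‖ := norm_nonneg _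
  calc ‖∑ i ∈ s, (w i : ℂ) * v i‖ ^ 2 ≤ (∑ i ∈ s, w i * ‖v i‖) ^ 2 := by gcongr
    _ ≤ _ := h2

/-- **TR18.2 (POINTWISE), finite form.**   `a`, `b` = the weights of the two kernels restricted to the usable outputs;   `γ = ∑ a`, `Ψ = (∑ a ψ) / γ`. -/
theorem pvpr_pointwise {X Y : Type*} [Fintype X] [Fintype Y] (a : X → ℝ) (b : Y → ℝ) (ha : ∀ x, 0 ≤ a x) (hb : ∀ y, 0 ≤ b y)
    (ψs : X → ℂ) (ψt : Y → ℂ) (I : ℂ) (Z : X → Y → ℝ) (hZ : ∀ x y, a x ≠ 0 → b y ≠ 0 → ‖I + ψs x + ψt y‖ ^ 2 ≤ Z x y)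
    (hγs : 0 < ∑ x, a x) (hγt : 0 < ∑ y, b y) :
    (∑ x, a x) * (∑ y, b y) * ‖I + (∑ x, (a x : ℂ) * ψs x) / ((∑ x, a x : ℝ) : ℂ) + (∑ y, (b y : ℂ) * ψt y) / ((∑ y, b y : ℝ) : ℂ)‖ ^ 2
      ≤ ∑ x, ∑ y, a x * b y * Z x y := by
  set γs := ∑ x, a x with hs
  set γt := ∑ y, b y with ht
  have hsC : ((γs : ℝ) : ℂ) ≠ 0 := by exact_mod_cast hγs.ne'
  have htC : ((γt : ℝ) : ℂ) ≠ 0 := by exact_mod_cast hγt.ne'
  have hcs := pvpr_cs (Finset.univ : Finset (X × Y)) (fun p => a p.1 * b p.2) (fun p _ => mul_nonneg (ha _) (hb _))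
    (fun p => I + ψs p.1 + ψt p.2)
  have e1 : ∑ p : X × Y, a p.1 * b p.2 = γs * γt := by
    rw [Fintype.sum_prod_type, hs, ht, Finset.sum_mul_sum]
  have e2 : ∑ p : X × Y, ((a p.1 * b p.2 : ℝ) : ℂ) * (I + ψs p.1 + ψt p.2)
      = ((γs * γt : ℝ) : ℂ) * (I + (∑ x, (a x : ℂ) * ψs x) / ((γs : ℝ) : ℂ) + (∑ y, (b y : ℂ) * ψt y) / ((γt : ℝ) : ℂ)) := by
    have hsC' : ((γs : ℝ) : ℂ) = ∑ x, (a x : ℂ) := by rw [hs]; push_cast; rfl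
    have htC' : ((γt : ℝ) : ℂ) = ∑ y, (b y : ℂ) := by rw [ht]; push_cast; rfl
    have r1 : ((γs * γt : ℝ) : ℂ) * (I + (∑ x, (a x : ℂ) * ψs x) / ((γs : ℝ) : ℂ) + (∑ y, (b y : ℂ) * ψt y) / ((γt : ℝ) : ℂ))
        = ((γs : ℝ) : ℂ) * ((γt : ℝ) : ℂ) * I + ((γt : ℝ) : ℂ) * (∑ x, (a x : ℂ) * ψs x) + ((γs : ℝ) : ℂ) * (∑ y, (b y : ℂ) * ψt y) := by
      push_cast
      field_simp
    rw [r1, Fintype.sum_prod_type]
    have r2 : ∀ x, ∑ y, ((a x * b y : ℝ) : ℂ) * (I + ψs x + ψt y)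
        = (a x : ℂ) * ((γt : ℝ) : ℂ) * I + ((γt : ℝ) : ℂ) * ((a x : ℂ) * ψs x) + (a x : ℂ) * ∑ y, (b y : ℂ) * ψt y := by
      intro x
      rw [htC', Finset.mul_sum, Finset.sum_mul, Finset.sum_mul, Finset.mul_sum, ← Finset.sum_add_distrib, ← Finset.sum_add_distrib]
      refine Finset.sum_congr rfl fun y _ => ?_
      push_cast
      ring
    rw [Finset.sum_congr rfl fun x _ => r2 x, Finset.sum_add_distrib, Finset.sum_add_distrib, ← Finset.mul_sum, ← Finset.sum_mul,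
      ← Finset.sum_mul, ← Finset.sum_mul, ← hsC']
  rw [e1, e2, norm_mul, Complex.norm_real, Real.norm_eq_abs, abs_of_pos (mul_pos hγs hγt), mul_pow] at hcs
  have h3 : ∑ p : X × Y, a p.1 * b p.2 * ‖I + ψs p.1 + ψt p.2‖ ^ 2 ≤ ∑ x, ∑ y, a x * b y * Z x y := by
    rw [Fintype.sum_prod_type]
    refine Finset.sum_le_sum fun x _ => Finset.sum_le_sum fun y _ => ?_
    by_cases hx : a x = 0
    · simp [hx]
    by_cases hy : b y = 0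
    · simp [hy]
    exact mul_le_mul_of_nonneg_left (hZ x y hx hy) (mul_nonneg (ha _) (hb _))
  have hpos : 0 < γs * γt := mul_pos hγs hγt
  have h4 : (γs * γt) * ((γs * γt) * ‖I + (∑ x, (a x : ℂ) * ψs x) / ((γs : ℝ) : ℂ) + (∑ y, (b y : ℂ) * ψt y) / ((γt : ℝ) : ℂ)‖ ^ 2)
      ≤ (γs * γt) * ∑ x, ∑ y, a x * b y * Z x y := by
    calc _ = (γs * γt) ^ 2 * ‖I + (∑ x, (a x : ℂ) * ψs x) / ((γs : ℝ) : ℂ) + (∑ y, (b y : ℂ) * ψt y) / ((γt : ℝ) : ℂ)‖ ^ 2 := by ring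
      _ ≤ _ := hcs.trans (mul_le_mul_of_nonneg_left h3 hpos.le)
  exact le_of_mul_le_mul_left h4 hpos

/-- **TR18.3 (L2), finite form** -/
theorem pvpr_l2 {X : Type*} [Fintype X] (a : X → ℝ) (ha : ∀ x, 0 ≤ a x) (ψ : X → ℂ) (hγ : 0 < ∑ x, a x) :
    (∑ x, a x) * ‖(∑ x, (a x : ℂ) * ψ x) / ((∑ x, a x : ℝ) : ℂ)‖ ^ 2 ≤ ∑ x, a x * ‖ψ x‖ ^ 2 := by
  have hcs := pvpr_cs (Finset.univ : Finset X) a (fun x _ => ha x) ψ
  rw [norm_div, Complex.norm_real, Real.norm_eq_abs, abs_of_pos hγ, div_pow]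
  have : (∑ x, a x) * (‖∑ x, (a x : ℂ) * ψ x‖ ^ 2 / (∑ x, a x) ^ 2) = ‖∑ x, (a x : ℂ) * ψ x‖ ^ 2 / (∑ x, a x) := by
    field_simp
  rw [this, div_le_iff₀ hγ]
  linarith [hcs]


/-! ## 2. propensity, numerator, prepared potential -/

section pot

variable {S S' : Set ℂ} {b b' : Bool} {𝒜 𝒜' G G' : Set (Conf PvPt)} {ψ ψ' : Conf PvPt → ℂ} {ξ : Conf PvPt}

/-- the PROPENSITY `γ = K 1_G`: the probability that the prepared configuration is in `G` -/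
noncomputable def pvprGam (S : Set ℂ) (b : Bool) (𝒜 G : Set (Conf PvPt)) (ξ : Conf PvPt) : ℝ :=
  ∑ B' ∈ (cfStrip S ξ).powerset, pvpWt S b 𝒜 ξ B' * G.indicator (fun _ => (1 : ℝ)) (cfPaint S b B' ξ)

/-- the numerator `K[1_G ψ]` -/
noncomputable def pvprNum (S : Set ℂ) (b : Bool) (𝒜 G : Set (Conf PvPt)) (ψ : Conf PvPt → ℂ) (ξ : Conf PvPt) : ℂ :=
  pvpAv S b 𝒜 (G.indicator ψ) ξ

/-- `Ψ = K[1_G ψ] / K 1_G`: the mean of `ψ(prepared state)` given that the prepared state is in `G` -/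
noncomputable def pvprPsi (S : Set ℂ) (b : Bool) (𝒜 G : Set (Conf PvPt)) (ψ : Conf PvPt → ℂ) (ξ : Conf PvPt) : ℂ :=
  pvprNum S b 𝒜 G ψ ξ / (pvprGam S b 𝒜 G ξ : ℂ)

open Classical in
/-- **THE PREPARED POTENTIAL**: `Ψ` where the propensity is `≥ θ` and the quenched probability of `𝒜` is `≥ p`, `0` elsewhere -/
noncomputable def pvprPot (S : Set ℂ) (b : Bool) (𝒜 G : Set (Conf PvPt)) (ψ : Conf PvPt → ℂ) (θ p : ℝ) (ξ : Conf PvPt) : ℂ :=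
  if θ ≤ pvprGam S b 𝒜 G ξ ∧ p ≤ pvpQ S b 𝒜 ξ then pvprPsi S b 𝒜 G ψ ξ else 0

/-- the blind weight `1{p ≤ Q}` -/
noncomputable def pvprH (S : Set ℂ) (b : Bool) (𝒜 : Set (Conf PvPt)) (p : ℝ) : Conf PvPt → ℝ≥0∞ :=
  {ξ | p ≤ pvpQ S b 𝒜 ξ}.indicator fun _ => 1

theorem pvpr_eqns_cite : True := by
  have := @pvprGam.eq_1; have := @pvprNum.eq_1; have := @pvprPsi.eq_1; have := @pvprPot.eq_1; have := @pvprH.eq_1
  trivial

theorem pvpr_gam_nonneg (S : Set ℂ) (b : Bool) (𝒜 G : Set (Conf PvPt)) (ξ : Conf PvPt) : 0 ≤ pvprGam S b 𝒜 G ξ :=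
  Finset.sum_nonneg fun B' _ => mul_nonneg (pvpWt_nonneg S b 𝒜 ξ B') (Set.indicator_nonneg (fun _ _ => zero_le_one) _)

theorem pvpr_gam_le_one (S : Set ℂ) (b : Bool) (𝒜 G : Set (Conf PvPt)) (ξ : Conf PvPt) : pvprGam S b 𝒜 G ξ ≤ 1 := by
  rw [← pvpWt_sum S b 𝒜 ξ]
  unfold pvprGam
  refine Finset.sum_le_sum fun B' _ => ?_
  calc pvpWt S b 𝒜 ξ B' * G.indicator (fun _ => (1 : ℝ)) (cfPaint S b B' ξ) ≤ pvpWt S b 𝒜 ξ B' * 1 :=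
        mul_le_mul_of_nonneg_left (Set.indicator_le' (fun _ _ => le_rfl) (fun _ _ => zero_le_one) _) (pvpWt_nonneg S b 𝒜 ξ B')
    _ = _ := mul_one _

/-- bridge to the complex average -/
theorem pvpr_gam_av (S : Set ℂ) (b : Bool) (𝒜 G : Set (Conf PvPt)) (ξ : Conf PvPt) :
    pvpAv S b 𝒜 (G.indicator fun _ => (1 : ℂ)) ξ = (pvprGam S b 𝒜 G ξ : ℂ) := by
  unfold pvpAv pvprGam
  rw [Complex.ofReal_sum]
  refine Finset.sum_congr rfl fun B' _ => ?_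
  rw [Complex.ofReal_mul]
  congr 1
  by_cases h : cfPaint S b B' ξ ∈ G
  · rw [Set.indicator_of_mem h, Set.indicator_of_mem h, Complex.ofReal_one]
  · rw [Set.indicator_of_notMem h, Set.indicator_of_notMem h, Complex.ofReal_zero]

/-- bridge to the `ℝ≥0∞` operator -/
theorem pvpr_gam_op (S : Set ℂ) (b : Bool) (𝒜 G : Set (Conf PvPt)) (ξ : Conf PvPt) :
    pvpOp S b 𝒜 (G.indicator fun _ => (1 : ℝ≥0∞)) ξ = ENNReal.ofReal (pvprGam S b 𝒜 G ξ) := by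
  unfold pvpOp pvprGam
  rw [ENNReal.ofReal_sum_of_nonneg fun B' _ => mul_nonneg (pvpWt_nonneg S b 𝒜 ξ B') (Set.indicator_nonneg (fun _ _ => zero_le_one) _)]
  refine Finset.sum_congr rfl fun B' _ => ?_
  rw [ENNReal.ofReal_mul (pvpWt_nonneg S b 𝒜 ξ B')]
  congr 1
  by_cases h : cfPaint S b B' ξ ∈ G
  · rw [Set.indicator_of_mem h, Set.indicator_of_mem h, ENNReal.ofReal_one]
  · rw [Set.indicator_of_notMem h, Set.indicator_of_notMem h, ENNReal.ofReal_zero]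

/-- comparison of propensities ON THE SUPPORT of the kernel -/
theorem pvpr_gam_le_of_supp (h : PvpInc S b 𝒜) (hQ : 0 < pvpQ S b 𝒜 ξ)
    (hG : ∀ B', cfStripOn S b ξ ⊆ B' → B' ⊆ cfStrip S ξ → cfPaint S b B' ξ ∈ 𝒜 → cfPaint S b B' ξ ∈ G → cfPaint S b B' ξ ∈ G') :
    pvprGam S b 𝒜 G ξ ≤ pvprGam S b 𝒜 G' ξ := by
  unfold pvprGam
  refine Finset.sum_le_sum fun B' hB' => ?_
  by_cases hw : pvpWt S b 𝒜 ξ B' = 0
  · rw [hw]; simp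
  · obtain ⟨h1, h2⟩ := pvpWt_supp h hQ (Finset.mem_powerset.1 hB') hw
    refine mul_le_mul_of_nonneg_left ?_ (pvpWt_nonneg S b 𝒜 ξ B')
    by_cases hg : cfPaint S b B' ξ ∈ G
    · rw [Set.indicator_of_mem hg, Set.indicator_of_mem (hG B' h1 (Finset.mem_powerset.1 hB') h2 hg)]
    · rw [Set.indicator_of_notMem hg]
      exact Set.indicator_nonneg (fun _ _ => zero_le_one) _

theorem pvpr_gam_mono (S : Set ℂ) (b : Bool) (𝒜 : Set (Conf PvPt)) (hG : G ⊆ G') (ξ : Conf PvPt) : pvprGam S b 𝒜 G ξ ≤ pvprGam S b 𝒜 G' ξ := by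
  unfold pvprGam
  refine Finset.sum_le_sum fun B' _ => mul_le_mul_of_nonneg_left ?_ (pvpWt_nonneg S b 𝒜 ξ B')
  exact Set.indicator_le_indicator_of_subset hG (fun _ => zero_le_one) _

theorem pvpr_gam_compl (S : Set ℂ) (b : Bool) (𝒜 G : Set (Conf PvPt)) (ξ : Conf PvPt) : pvprGam S b 𝒜 G ξ + pvprGam S b 𝒜 Gᶜ ξ = 1 := by
  rw [← pvpWt_sum S b 𝒜 ξ]
  unfold pvprGam
  rw [← Finset.sum_add_distrib]
  refine Finset.sum_congr rfl fun B' _ => ?_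
  by_cases hg : cfPaint S b B' ξ ∈ G
  · rw [Set.indicator_of_mem hg, Set.indicator_of_notMem (show cfPaint S b B' ξ ∉ Gᶜ from fun h => h hg)]; ring
  · rw [Set.indicator_of_notMem hg, Set.indicator_of_mem (show cfPaint S b B' ξ ∈ Gᶜ from hg)]; ring

/-- blind factors come out of the complex average -/
theorem pvpr_av_mul_blind {H : Conf PvPt → ℂ} (hH : PvpBlind S H) (b : Bool) (𝒜 : Set (Conf PvPt)) (Y : Conf PvPt → ℂ) (ξ : Conf PvPt) :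
    pvpAv S b 𝒜 (fun ζ => H ζ * Y ζ) ξ = H ξ * pvpAv S b 𝒜 Y ξ := by
  unfold pvpAv
  rw [Finset.mul_sum]
  refine Finset.sum_congr rfl fun B' _ => ?_
  show (pvpWt S b 𝒜 ξ B' : ℂ) * (H (cfPaint S b B' ξ) * Y (cfPaint S b B' ξ)) = _
  rw [hH b B' ξ]
  ring

theorem pvpr_av_const_mul (S : Set ℂ) (b : Bool) (𝒜 : Set (Conf PvPt)) (a : ℂ) (Y : Conf PvPt → ℂ) (ξ : Conf PvPt) :
    pvpAv S b 𝒜 (fun ζ => a * Y ζ) ξ = a * pvpAv S b 𝒜 Y ξ :=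
  pvpr_av_mul_blind (H := fun _ => a) (fun _ _ _ => rfl) b 𝒜 Y ξ

theorem pvpr_blind_indicator {β : Type*} [Zero β] {f : Conf PvPt → β} (hG : PvpBlind S (fun ζ => ζ ∈ G)) (hf : PvpBlind S f) : PvpBlind S (G.indicator f) := by
  intro b B ξ
  have h := hG b B ξ
  by_cases hg : ξ ∈ G
  · rw [Set.indicator_of_mem hg, Set.indicator_of_mem (show cfPaint S b B ξ ∈ G from h.mpr hg), hf]
  · rw [Set.indicator_of_notMem hg, Set.indicator_of_notMem (fun h' => hg (h.mp h'))]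

theorem pvpr_blind_const {β : Type*} (S : Set ℂ) (a : β) : PvpBlind S (fun _ : Conf PvPt => a) := fun _ _ _ => rfl

theorem pvpr_blind_inter (hG : PvpBlind S (fun ζ => ζ ∈ G)) (hG' : PvpBlind S (fun ζ => ζ ∈ G')) : PvpBlind S (fun ζ => ζ ∈ G ∩ G') := by
  intro b B ξ
  show (cfPaint S b B ξ ∈ G ∧ cfPaint S b B ξ ∈ G') = (ξ ∈ G ∧ ξ ∈ G')
  have h1 : (cfPaint S b B ξ ∈ G) = (ξ ∈ G) := hG b B ξ
  have h2 : (cfPaint S b B ξ ∈ G') = (ξ ∈ G') := hG' b B ξ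
  rw [h1, h2]

/-- the quenched probability of `𝒜` does not see a disjoint strip which `𝒜` does not see -/
theorem pvpr_Q_blind (hd : Disjoint S S') (hA : PvpBlind S' (fun ζ => ζ ∈ 𝒜)) (b : Bool) : PvpBlind S' (pvpQ S b 𝒜) := by
  intro b' B ξ
  unfold pvpQ
  rw [cfStrip_congr (S := S) (ξ' := cfPaint S' b' B ξ) (ξ := ξ) (by rw [cfPaint_sites]), pvpTab_paint_disj hd hA]

theorem pvpr_gam_blind (hd : Disjoint S S') (hA : PvpBlind S' (fun ζ => ζ ∈ 𝒜)) (hG : PvpBlind S' (fun ζ => ζ ∈ G)) (b : Bool) :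
    PvpBlind S' (pvprGam S b 𝒜 G) := by
  intro b' B ξ
  have h := pvpAv_blind' hd hA (pvpr_blind_indicator hG (pvpr_blind_const S' (1 : ℂ))) b b' B ξ
  rw [pvpr_gam_av, pvpr_gam_av] at h
  exact_mod_cast h

theorem pvpr_num_blind (hd : Disjoint S S') (hA : PvpBlind S' (fun ζ => ζ ∈ 𝒜)) (hG : PvpBlind S' (fun ζ => ζ ∈ G)) (hψ : PvpBlind S' ψ) (b : Bool) :
    PvpBlind S' (pvprNum S b 𝒜 G ψ) :=
  pvpAv_blind' hd hA (pvpr_blind_indicator hG hψ) b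

theorem pvpr_pot_blind (hd : Disjoint S S') (hA : PvpBlind S' (fun ζ => ζ ∈ 𝒜)) (hG : PvpBlind S' (fun ζ => ζ ∈ G)) (hψ : PvpBlind S' ψ) (b : Bool)
    (θ p : ℝ) : PvpBlind S' (pvprPot S b 𝒜 G ψ θ p) := by
  intro b' B ξ
  unfold pvprPot pvprPsi
  rw [pvpr_gam_blind hd hA hG b b' B ξ, pvpr_Q_blind hd hA b b' B ξ, pvpr_num_blind hd hA hG hψ b b' B ξ]

theorem pvpr_H_blind (S : Set ℂ) (b : Bool) (𝒜 : Set (Conf PvPt)) (p : ℝ) : PvpBlind S (pvprH S b 𝒜 p) := by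
  intro b' B ξ
  unfold pvprH
  simp only [Set.indicator_apply, Set.mem_ofPred_eq, pvpQ_blind S b 𝒜 b' B ξ]

theorem pvpr_H_blind' (hd : Disjoint S S') (hA : PvpBlind S' (fun ζ => ζ ∈ 𝒜)) (b : Bool) (p : ℝ) : PvpBlind S' (pvprH S b 𝒜 p) := by
  intro b' B ξ
  unfold pvprH
  simp only [Set.indicator_apply, Set.mem_ofPred_eq, pvpr_Q_blind hd hA b b' B ξ]

theorem pvpr_H_zero {p : ℝ} (h : pvpQ S b 𝒜 ξ < p) : pvprH S b 𝒜 p ξ = 0 := by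
  unfold pvprH
  exact Set.indicator_of_notMem (show ξ ∉ {ξ | p ≤ pvpQ S b 𝒜 ξ} from fun h' => absurd h (not_lt.2 h')) _

theorem pvpr_H_one {p : ℝ} (h : p ≤ pvpQ S b 𝒜 ξ) : pvprH S b 𝒜 p ξ = 1 := by
  unfold pvprH
  exact Set.indicator_of_mem (show ξ ∈ {ξ | p ≤ pvpQ S b 𝒜 ξ} from h) _

/-! ### locality -/

theorem pvpr_gam_reads {W : Set PvPt} (hW : Prod.fst ⁻¹' S ⊆ W) (hA : Conf.ReadsSet W 𝒜) (hG : Conf.ReadsSet W G) (b : Bool) :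
    Conf.Reads W (pvprGam S b 𝒜 G) := by
  intro η
  have h := pvpAv_reads hW hA (hG.indicator (Conf.reads_const W (1 : ℂ))) b η
  rw [pvpr_gam_av, pvpr_gam_av] at h
  exact_mod_cast h

theorem pvpr_num_reads {W : Set PvPt} (hW : Prod.fst ⁻¹' S ⊆ W) (hA : Conf.ReadsSet W 𝒜) (hG : Conf.ReadsSet W G) (hψ : Conf.Reads W ψ) (b : Bool) :
    Conf.Reads W (pvprNum S b 𝒜 G ψ) :=
  pvpAv_reads hW hA (hG.indicator hψ) b

/-- LOCALITY of the prepared potential -/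
theorem pvpr_pot_reads {W : Set PvPt} (hW : Prod.fst ⁻¹' S ⊆ W) (hA : Conf.ReadsSet W 𝒜) (hG : Conf.ReadsSet W G) (hψ : Conf.Reads W ψ) (b : Bool)
    (θ p : ℝ) : Conf.Reads W (pvprPot S b 𝒜 G ψ θ p) := by
  intro η
  unfold pvprPot pvprPsi
  rw [pvpr_gam_reads hW hA hG b η, pvpQ_reads hW hA b η, pvpr_num_reads hW hA hG hψ b η]

theorem pvpr_pot_of (θ p : ℝ) (h1 : θ ≤ pvprGam S b 𝒜 G ξ) (h2 : p ≤ pvpQ S b 𝒜 ξ) : pvprPot S b 𝒜 G ψ θ p ξ = pvprPsi S b 𝒜 G ψ ξ := by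
  unfold pvprPot
  rw [if_pos ⟨h1, h2⟩]

/-! ## 3. two disjoint strips: the pointwise transfer -/

/-- one strip: `K[1_G (I + ψ)] = γ I + K[1_G ψ]` -/
theorem pvpr_one_av (S : Set ℂ) (b : Bool) (𝒜 G : Set (Conf PvPt)) (ψ : Conf PvPt → ℂ) (I : ℂ) (ξ : Conf PvPt) :
    pvpAv S b 𝒜 (G.indicator fun ζ => I + ψ ζ) ξ = (pvprGam S b 𝒜 G ξ : ℂ) * I + pvprNum S b 𝒜 G ψ ξ := by
  have e : (G.indicator fun ζ => I + ψ ζ) = fun ζ => I * G.indicator (fun _ => (1 : ℂ)) ζ + G.indicator ψ ζ := by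
    funext ζ
    by_cases h : ζ ∈ G
    · simp only [Set.indicator_of_mem h, mul_one]
    · simp only [Set.indicator_of_notMem h, mul_zero, add_zero]
  rw [e, pvpAv_add, pvpr_av_const_mul, pvpr_gam_av, mul_comm]
  rfl

/-- **PRODUCT STRUCTURE**: the two preparations act on disjoint strips, each state does not read the strip of the other -/
theorem pvpr_two_av (hd : Disjoint S S') (hA' : PvpBlind S (fun ζ => ζ ∈ 𝒜')) (hG : PvpBlind S' (fun ζ => ζ ∈ G)) (hG' : PvpBlind S (fun ζ => ζ ∈ G'))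
    (hψ : PvpBlind S' ψ) (hψ' : PvpBlind S ψ') (b b' : Bool) (𝒜 : Set (Conf PvPt)) (I : ℂ) (ξ : Conf PvPt) :
    pvpAv S b 𝒜 (pvpAv S' b' 𝒜' ((G ∩ G').indicator fun ζ => I + ψ ζ + ψ' ζ)) ξ
      = (pvprGam S b 𝒜 G ξ : ℂ) * (pvprGam S' b' 𝒜' G' ξ : ℂ) * I + (pvprGam S' b' 𝒜' G' ξ : ℂ) * pvprNum S b 𝒜 G ψ ξ
        + (pvprGam S b 𝒜 G ξ : ℂ) * pvprNum S' b' 𝒜' G' ψ' ξ := by
  have e : ((G ∩ G').indicator fun ζ => I + ψ ζ + ψ' ζ)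
      = fun ζ => G.indicator (fun ζ => I + ψ ζ) ζ * G'.indicator (fun _ => (1 : ℂ)) ζ + G.indicator (fun _ => (1 : ℂ)) ζ * G'.indicator ψ' ζ := by
    funext ζ
    by_cases h : ζ ∈ G
    · by_cases h' : ζ ∈ G'
      · simp only [Set.indicator_of_mem h, Set.indicator_of_mem h', Set.indicator_of_mem (show ζ ∈ G ∩ G' from ⟨h, h'⟩), mul_one, one_mul]
      · simp only [Set.indicator_of_mem h, Set.indicator_of_notMem h', Set.indicator_of_notMem (show ζ ∉ G ∩ G' from fun x => h' x.2), mul_zero, add_zero]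
    · simp only [Set.indicator_of_notMem h, Set.indicator_of_notMem (show ζ ∉ G ∩ G' from fun x => h x.1), zero_mul, add_zero]
  have hb1 : PvpBlind S' (G.indicator fun ζ => I + ψ ζ) := pvpr_blind_indicator hG fun b B ξ => by
    show I + ψ (cfPaint S' b B ξ) = I + ψ ξ
    rw [hψ b B ξ]
  have hb2 : PvpBlind S' (G.indicator fun _ => (1 : ℂ)) := pvpr_blind_indicator hG (pvpr_blind_const S' (1 : ℂ))
  have e2 : pvpAv S' b' 𝒜' ((G ∩ G').indicator fun ζ => I + ψ ζ + ψ' ζ)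
      = fun ζ => (pvprGam S' b' 𝒜' G' ζ : ℂ) * G.indicator (fun ζ => I + ψ ζ) ζ + pvprNum S' b' 𝒜' G' ψ' ζ * G.indicator (fun _ => (1 : ℂ)) ζ := by
    funext ζ
    rw [e, pvpAv_add, pvpr_av_mul_blind hb1, pvpr_av_mul_blind hb2, pvpr_gam_av, mul_comm, mul_comm (G.indicator (fun _ => (1 : ℂ)) ζ)]
    rfl
  have hb3 : PvpBlind S (fun ζ => (pvprGam S' b' 𝒜' G' ζ : ℂ)) := fun b B ξ => by
    show ((pvprGam S' b' 𝒜' G' (cfPaint S b B ξ) : ℝ) : ℂ) = _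
    rw [pvpr_gam_blind hd.symm hA' hG' b' b B ξ]
  have hb4 : PvpBlind S (pvprNum S' b' 𝒜' G' ψ') := pvpr_num_blind hd.symm hA' hG' hψ' b'
  rw [e2, pvpAv_add, pvpr_av_mul_blind hb3, pvpr_av_mul_blind hb4, pvpr_one_av, pvpr_gam_av]
  ring

/-- the same, divided: `K K' [1_G 1_G' (I + ψ + ψ')] = γ γ' (I + Ψ + Ψ')` -/
theorem pvpr_two_psi (hd : Disjoint S S') (hA' : PvpBlind S (fun ζ => ζ ∈ 𝒜')) (hG : PvpBlind S' (fun ζ => ζ ∈ G)) (hG' : PvpBlind S (fun ζ => ζ ∈ G'))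
    (hψ : PvpBlind S' ψ) (hψ' : PvpBlind S ψ') (b b' : Bool) (𝒜 : Set (Conf PvPt)) (I : ℂ) (ξ : Conf PvPt)
    (hγ : 0 < pvprGam S b 𝒜 G ξ) (hγ' : 0 < pvprGam S' b' 𝒜' G' ξ) :
    pvpAv S b 𝒜 (pvpAv S' b' 𝒜' ((G ∩ G').indicator fun ζ => I + ψ ζ + ψ' ζ)) ξ
      = ((pvprGam S b 𝒜 G ξ * pvprGam S' b' 𝒜' G' ξ : ℝ) : ℂ) * (I + pvprPsi S b 𝒜 G ψ ξ + pvprPsi S' b' 𝒜' G' ψ' ξ) := by
  rw [pvpr_two_av hd hA' hG hG' hψ hψ']
  unfold pvprPsi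
  have h1 : (pvprGam S b 𝒜 G ξ : ℂ) ≠ 0 := by exact_mod_cast hγ.ne'
  have h2 : (pvprGam S' b' 𝒜' G' ξ : ℂ) ≠ 0 := by exact_mod_cast hγ'.ne'
  push_cast
  field_simp

/-- **TR18.2 (POINTWISE TRANSFER).**   `I` = any number (the integral of the arc of a rim between the two pins), `Z` = the integrand of the ordinary second moment.
If `‖I + ψ + ψ'‖² ≤ Z` at every configuration which the two preparations can produce from `ξ` (colour `b` added in `S`, colour `b'` added in `S'`, both events forced) and which is usable (`G`, `G'`),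
then the AVERAGED potentials satisfy the same inequality at `ξ` itself, with `K K' Z` in place of `Z`, up to the propensities. -/
theorem pvpr_two (hd : Disjoint S S') (hinc : PvpInc S b 𝒜) (hinc' : PvpInc S' b' 𝒜') (hA : PvpBlind S' (fun ζ => ζ ∈ 𝒜)) (hA' : PvpBlind S (fun ζ => ζ ∈ 𝒜'))
    (hG : PvpBlind S' (fun ζ => ζ ∈ G)) (hG' : PvpBlind S (fun ζ => ζ ∈ G')) (hψ : PvpBlind S' ψ) (hψ' : PvpBlind S ψ')
    (hQ : 0 < pvpQ S b 𝒜 ξ) (hQ' : 0 < pvpQ S' b' 𝒜' ξ) (hγ : 0 < pvprGam S b 𝒜 G ξ) (hγ' : 0 < pvprGam S' b' 𝒜' G' ξ)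
    (I : ℂ) (Z : Conf PvPt → ℝ≥0∞)
    (hZ : ∀ B B', cfStripOn S b ξ ⊆ B → B ⊆ cfStrip S ξ → cfStripOn S' b' ξ ⊆ B' → B' ⊆ cfStrip S' ξ →
      cfPaint S' b' B' (cfPaint S b B ξ) ∈ 𝒜 → cfPaint S' b' B' (cfPaint S b B ξ) ∈ 𝒜' → cfPaint S' b' B' (cfPaint S b B ξ) ∈ G → cfPaint S' b' B' (cfPaint S b B ξ) ∈ G' →
      ENNReal.ofReal (‖I + ψ (cfPaint S' b' B' (cfPaint S b B ξ)) + ψ' (cfPaint S' b' B' (cfPaint S b B ξ))‖ ^ 2) ≤ Z (cfPaint S' b' B' (cfPaint S b B ξ))) :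
    ENNReal.ofReal ((pvprGam S b 𝒜 G ξ * pvprGam S' b' 𝒜' G' ξ) ^ 2 * ‖I + pvprPsi S b 𝒜 G ψ ξ + pvprPsi S' b' 𝒜' G' ψ' ξ‖ ^ 2)
      ≤ pvpOp S b 𝒜 (pvpOp S' b' 𝒜' Z) ξ := by
  have e := pvpr_two_psi hd hA' hG hG' hψ hψ' b b' 𝒜 I ξ hγ hγ'
  have e2 : (pvprGam S b 𝒜 G ξ * pvprGam S' b' 𝒜' G' ξ) ^ 2 * ‖I + pvprPsi S b 𝒜 G ψ ξ + pvprPsi S' b' 𝒜' G' ψ' ξ‖ ^ 2
      = ‖pvpAv S b 𝒜 (pvpAv S' b' 𝒜' ((G ∩ G').indicator fun ζ => I + ψ ζ + ψ' ζ)) ξ‖ ^ 2 := by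
    rw [e, norm_mul, Complex.norm_real, Real.norm_eq_abs, mul_pow |pvprGam S b 𝒜 G ξ * pvprGam S' b' 𝒜' G' ξ|, sq_abs]
  rw [e2]
  refine (pvp_jensen S b 𝒜 _ ξ).trans (pvpOp_le_of_supp hinc hQ fun B h1 h2 h3 => ?_)
  refine (pvp_jensen S' b' 𝒜' _ _).trans (pvpOp_le_of_supp hinc' ?_ fun B' h1' h2' h3' => ?_)
  · rw [pvpr_Q_blind hd.symm hA' b' b B ξ]
    exact hQ'
  · rw [cfStripOn_paint_disj hd.symm] at h1'
    rw [cfStrip_congr (S := S') (ξ' := cfPaint S b B ξ) (ξ := ξ) (by rw [cfPaint_sites])] at h2'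
    by_cases hg : cfPaint S' b' B' (cfPaint S b B ξ) ∈ G ∩ G'
    · rw [Set.indicator_of_mem hg]
      exact hZ B B' h1 h2 h1' h2' ((hA b' B' _).mpr h3) h3' hg.1 hg.2
    · rw [Set.indicator_of_notMem hg]
      simp

/-- the form used by the pins: propensities `≥ θ`, quenched probabilities `≥ p, p' > 0`, prepared potentials -/
theorem pvpr_two_pot (hd : Disjoint S S') (hinc : PvpInc S b 𝒜) (hinc' : PvpInc S' b' 𝒜') (hA : PvpBlind S' (fun ζ => ζ ∈ 𝒜)) (hA' : PvpBlind S (fun ζ => ζ ∈ 𝒜'))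
    (hG : PvpBlind S' (fun ζ => ζ ∈ G)) (hG' : PvpBlind S (fun ζ => ζ ∈ G')) (hψ : PvpBlind S' ψ) (hψ' : PvpBlind S ψ')
    {θ p p' : ℝ} (hθ : 0 < θ) (hp : 0 < p) (hp' : 0 < p')
    (hQ : p ≤ pvpQ S b 𝒜 ξ) (hQ' : p' ≤ pvpQ S' b' 𝒜' ξ) (hγ : θ ≤ pvprGam S b 𝒜 G ξ) (hγ' : θ ≤ pvprGam S' b' 𝒜' G' ξ)
    (I : ℂ) (Z : Conf PvPt → ℝ≥0∞)
    (hZ : ∀ B B', cfStripOn S b ξ ⊆ B → B ⊆ cfStrip S ξ → cfStripOn S' b' ξ ⊆ B' → B' ⊆ cfStrip S' ξ →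
      cfPaint S' b' B' (cfPaint S b B ξ) ∈ 𝒜 → cfPaint S' b' B' (cfPaint S b B ξ) ∈ 𝒜' → cfPaint S' b' B' (cfPaint S b B ξ) ∈ G → cfPaint S' b' B' (cfPaint S b B ξ) ∈ G' →
      ENNReal.ofReal (‖I + ψ (cfPaint S' b' B' (cfPaint S b B ξ)) + ψ' (cfPaint S' b' B' (cfPaint S b B ξ))‖ ^ 2) ≤ Z (cfPaint S' b' B' (cfPaint S b B ξ)))
    {E : ℝ} (hE : 0 ≤ E) (hop : pvpOp S b 𝒜 (pvpOp S' b' 𝒜' Z) ξ ≤ ENNReal.ofReal ((θ ^ 2 * E) ^ 2)) :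
    ‖I + pvprPot S b 𝒜 G ψ θ p ξ + pvprPot S' b' 𝒜' G' ψ' θ p' ξ‖ ≤ E := by
  rw [pvpr_pot_of θ p hγ hQ, pvpr_pot_of θ p' hγ' hQ']
  have h := (pvpr_two hd hinc hinc' hA hA' hG hG' hψ hψ' (hp.trans_le hQ) (hp'.trans_le hQ') (hθ.trans_le hγ) (hθ.trans_le hγ') I Z hZ).trans hop
  rw [ENNReal.ofReal_le_ofReal_iff (sq_nonneg _)] at h
  set N := ‖I + pvprPsi S b 𝒜 G ψ ξ + pvprPsi S' b' 𝒜' G' ψ' ξ‖ with hN
  have hN0 : 0 ≤ N := norm_nonneg _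
  have h1 : θ ^ 2 ≤ pvprGam S b 𝒜 G ξ * pvprGam S' b' 𝒜' G' ξ := by
    rw [sq]
    exact mul_le_mul hγ hγ' hθ.le (hθ.le.trans hγ)
  have h2 : (θ ^ 2 * N) ^ 2 ≤ (θ ^ 2 * E) ^ 2 := by
    refine le_trans ?_ h
    rw [← mul_pow]
    exact pow_le_pow_left₀ (by positivity) (mul_le_mul_of_nonneg_right h1 hN0) 2
  have h3 : θ ^ 2 * N ≤ θ ^ 2 * E := (pow_le_pow_iff_left₀ (by positivity) (by positivity) two_ne_zero).1 h2
  exact le_of_mul_le_mul_left h3 (by positivity)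

/-- **TR18.3 (L2), pointwise** -/
theorem pvpr_pot_sq (S : Set ℂ) (b : Bool) (𝒜 G : Set (Conf PvPt)) (ψ : Conf PvPt → ℂ) {θ : ℝ} (hθ : 0 < θ) (p : ℝ) (ξ : Conf PvPt) :
    ENNReal.ofReal (‖pvprPot S b 𝒜 G ψ θ p ξ‖ ^ 2)
      ≤ ENNReal.ofReal ((θ⁻¹) ^ 2) * (pvprH S b 𝒜 p ξ * pvpOp S b 𝒜 (G.indicator fun ζ => ENNReal.ofReal (‖ψ ζ‖ ^ 2)) ξ) := by
  unfold pvprPot
  by_cases h : θ ≤ pvprGam S b 𝒜 G ξ ∧ p ≤ pvpQ S b 𝒜 ξ
  · rw [if_pos h, pvpr_H_one h.2, one_mul]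
    have hγ : 0 < pvprGam S b 𝒜 G ξ := hθ.trans_le h.1
    have h1 : ‖pvprPsi S b 𝒜 G ψ ξ‖ ^ 2 ≤ (θ⁻¹) ^ 2 * ‖pvprNum S b 𝒜 G ψ ξ‖ ^ 2 := by
      unfold pvprPsi
      rw [norm_div, Complex.norm_real, Real.norm_eq_abs, abs_of_pos hγ, div_eq_mul_inv, mul_pow, mul_comm]
      refine mul_le_mul_of_nonneg_right ?_ (sq_nonneg _)
      exact pow_le_pow_left₀ (inv_nonneg.2 hγ.le) (inv_anti₀ hθ h.1) 2
    refine (ENNReal.ofReal_le_ofReal h1).trans ?_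
    rw [ENNReal.ofReal_mul (sq_nonneg _)]
    refine mul_le_mul_right ?_ _
    refine (pvp_jensen S b 𝒜 _ ξ).trans (le_of_eq ?_)
    congr 1
    funext ζ
    by_cases hg : ζ ∈ G
    · rw [Set.indicator_of_mem hg, Set.indicator_of_mem hg]
    · rw [Set.indicator_of_notMem hg, Set.indicator_of_notMem hg]
      simp
  · rw [if_neg h]
    simp

/-- sub-additivity of the propensity -/
theorem pvpr_gam_union_le {R : Type*} (s : Finset R) (Gs : R → Set (Conf PvPt)) (S : Set ℂ) (b : Bool) (𝒜 : Set (Conf PvPt)) (ξ : Conf PvPt) :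
    pvprGam S b 𝒜 (⋃ r ∈ s, Gs r) ξ ≤ ∑ r ∈ s, pvprGam S b 𝒜 (Gs r) ξ := by
  unfold pvprGam
  rw [Finset.sum_comm]
  refine Finset.sum_le_sum fun B' _ => ?_
  rw [← Finset.mul_sum]
  refine mul_le_mul_of_nonneg_left ?_ (pvpWt_nonneg S b 𝒜 ξ B')
  by_cases h : cfPaint S b B' ξ ∈ ⋃ r ∈ s, Gs r
  · rw [Set.indicator_of_mem h]
    simp only [Set.mem_iUnion, exists_prop] at h
    obtain ⟨r, hr, hr'⟩ := h
    calc (1 : ℝ) = (Gs r).indicator (fun _ => (1 : ℝ)) (cfPaint S b B' ξ) := (Set.indicator_of_mem hr' (fun _ => (1 : ℝ))).symm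
      _ ≤ _ := Finset.single_le_sum (f := fun r => (Gs r).indicator (fun _ => (1 : ℝ)) (cfPaint S b B' ξ))
        (fun i _ => Set.indicator_nonneg (fun _ _ => zero_le_one) _) hr
  · rw [Set.indicator_of_notMem h]
    exact Finset.sum_nonneg fun i _ => Set.indicator_nonneg (fun _ _ => zero_le_one) _

/-- **TR18.5 (RANK)**: if the prepared state is usable with probability `≥ c` for SOME rank among `#s`, one rank has propensity `≥ c / #s` -/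
theorem pvpr_rank {R : Type*} (s : Finset R) (hs : s.Nonempty) (Gs : R → Set (Conf PvPt)) {c : ℝ} (h : c ≤ pvprGam S b 𝒜 (⋃ r ∈ s, Gs r) ξ) :
    ∃ r ∈ s, c / s.card ≤ pvprGam S b 𝒜 (Gs r) ξ := by
  by_contra hcon
  push Not at hcon
  have h1 : ∑ r ∈ s, pvprGam S b 𝒜 (Gs r) ξ < ∑ _r ∈ s, c / s.card := Finset.sum_lt_sum_of_nonempty hs hcon
  rw [Finset.sum_const, nsmul_eq_mul] at h1
  have hc : (s.card : ℝ) ≠ 0 := by exact_mod_cast (Finset.card_pos.2 hs).ne'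
  rw [mul_div_cancel₀ _ hc] at h1
  exact absurd (h.trans (pvpr_gam_union_le s Gs S b 𝒜 ξ)) (not_le.2 h1)

/-- UNFLAGGED ⟹ USABLE: if on the support of the kernel every output is usable or bad, and the bad outputs weigh `≤ 1/2`, the usable ones weigh `≥ 1/2` -/
theorem pvpr_usable {Bad : Set (Conf PvPt)} (h : PvpInc S b 𝒜) (hQ : 0 < pvpQ S b 𝒜 ξ)
    (hG : ∀ B', cfStripOn S b ξ ⊆ B' → B' ⊆ cfStrip S ξ → cfPaint S b B' ξ ∈ 𝒜 → cfPaint S b B' ξ ∈ G ∨ cfPaint S b B' ξ ∈ Bad)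
    {c : ℝ} (hB : pvprGam S b 𝒜 Bad ξ ≤ c) : 1 - c ≤ pvprGam S b 𝒜 G ξ := by
  have h1 := pvpr_gam_compl S b 𝒜 G ξ
  have h2 : pvprGam S b 𝒜 Gᶜ ξ ≤ pvprGam S b 𝒜 Bad ξ :=
    pvpr_gam_le_of_supp h hQ fun B' a1 a2 a3 a4 => (hG B' a1 a2 a3).resolve_left a4
  linarith

end pot

/-! ## 4. integrals: measurability, L2 bound, flags, domination for two strips, the exceptional event -/

section int

variable {S S' : Set ℂ} {b b' : Bool} {𝒜 𝒜' G G' : Set (Conf PvPt)} {ψ ψ' : Conf PvPt → ℂ}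

/-! ### measurability of the prepared objects -/

theorem pvpr_gam_meas (hS : MeasurableSet S) (hSb : Bornology.IsBounded S) (b : Bool) (hA : PvpMs fun ξ => ξ ∈ 𝒜) (hG : PvpMs fun ξ => ξ ∈ G) :
    PvpMs (pvprGam S b 𝒜 G) := by
  have h := (PvpMs.av hS hSb b hA ((PvpMs.const (1 : ℂ)).indicator hG)).comp Complex.measurable_re
  have e : (fun ξ => (pvpAv S b 𝒜 (G.indicator fun _ => (1 : ℂ)) ξ).re) = pvprGam S b 𝒜 G := by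
    funext ξ
    rw [pvpr_gam_av, Complex.ofReal_re]
  rwa [e] at h

theorem pvpr_num_meas (hS : MeasurableSet S) (hSb : Bornology.IsBounded S) (b : Bool) (hA : PvpMs fun ξ => ξ ∈ 𝒜) (hG : PvpMs fun ξ => ξ ∈ G)
    (hψ : PvpMs ψ) : PvpMs (pvprNum S b 𝒜 G ψ) :=
  PvpMs.av hS hSb b hA (hψ.indicator hG)

/-- **the prepared potential is a measurable function of the sample** (on the good samples) -/
theorem pvpr_pot_meas (hS : MeasurableSet S) (hSb : Bornology.IsBounded S) (b : Bool) (hA : PvpMs fun ξ => ξ ∈ 𝒜) (hG : PvpMs fun ξ => ξ ∈ G)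
    (hψ : PvpMs ψ) (θ p : ℝ) : PvpMs (pvprPot S b 𝒜 G ψ θ p) := by
  classical
  have h1 := pvpr_gam_meas hS hSb b hA hG
  have h2 := pvpQ_ms (𝒜 := 𝒜) hS hSb b hA
  have h3 := pvpr_num_meas hS hSb b hA hG hψ
  have hg : Measurable fun x : (ℝ × ℝ) × ℂ => if θ ≤ x.1.1 ∧ p ≤ x.1.2 then x.2 / (x.1.1 : ℂ) else 0 := by
    refine Measurable.ite ?_ ?_ measurable_const
    · exact (measurableSet_le measurable_const measurable_fst.fst).inter (measurableSet_le measurable_const measurable_fst.snd)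
    · exact measurable_snd.div (Complex.measurable_ofReal.comp measurable_fst.fst)
  have h := ((h1.prodMk h2).prodMk h3).comp hg
  have e : (fun ξ => if θ ≤ pvprGam S b 𝒜 G ξ ∧ p ≤ pvpQ S b 𝒜 ξ then pvprNum S b 𝒜 G ψ ξ / (pvprGam S b 𝒜 G ξ : ℂ) else 0) = pvprPot S b 𝒜 G ψ θ p := by
    funext ξ
    unfold pvprPot pvprPsi
    congr
  rw [← e]
  exact h

theorem pvpr_H_meas (hS : MeasurableSet S) (hSb : Bornology.IsBounded S) (b : Bool) (hA : PvpMs fun ξ => ξ ∈ 𝒜) (p : ℝ) : PvpMs (pvprH S b 𝒜 p) :=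
  (pvpQ_ms (𝒜 := 𝒜) hS hSb b hA).comp (φ := (Set.Ici p).indicator fun _ => (1 : ℝ≥0∞)) (measurable_const.indicator measurableSet_Ici)

theorem pvpr_H_le_one (S : Set ℂ) (b : Bool) (𝒜 : Set (Conf PvPt)) (p : ℝ) (ξ : Conf PvPt) : pvprH S b 𝒜 p ξ ≤ 1 := by
  unfold pvprH
  exact Set.indicator_le' (fun _ _ => le_rfl) (fun _ _ => zero_le_one) _

/-- **TR18.3 (L2 BOUND OF THE PREPARED POTENTIAL)** -/
theorem pvpr_pot_l2 (ε : ℝ) (hS : MeasurableSet S) (hSb : Bornology.IsBounded S) (hinc : PvpInc S b 𝒜) (hA : PvpMs fun ξ => ξ ∈ 𝒜)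
    (hG : PvpMs fun ξ => ξ ∈ G) (hψ : PvpMs ψ) {θ p : ℝ} (hθ : 0 < θ) (hp : 0 < p) :
    ∫⁻ ω, ENNReal.ofReal (‖pvprPot S b 𝒜 G ψ θ p (pvConf ω)‖ ^ 2) ∂(pvLaw ε)
      ≤ ENNReal.ofReal ((θ⁻¹) ^ 2) * ((ENNReal.ofReal p)⁻¹ * ∫⁻ ω, (𝒜 ∩ G).indicator (fun ζ => ENNReal.ofReal (‖ψ ζ‖ ^ 2)) (pvConf ω) ∂(pvLaw ε)) := by
  have hF : PvpMs (G.indicator fun ζ => ENNReal.ofReal (‖ψ ζ‖ ^ 2)) :=
    (hψ.comp (φ := fun z : ℂ => ENNReal.ofReal (‖z‖ ^ 2)) (measurable_norm.pow_const 2).ennreal_ofReal).indicator hG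
  calc ∫⁻ ω, ENNReal.ofReal (‖pvprPot S b 𝒜 G ψ θ p (pvConf ω)‖ ^ 2) ∂(pvLaw ε)
      ≤ ∫⁻ ω, ENNReal.ofReal ((θ⁻¹) ^ 2) * (pvprH S b 𝒜 p (pvConf ω) * pvpOp S b 𝒜 (G.indicator fun ζ => ENNReal.ofReal (‖ψ ζ‖ ^ 2)) (pvConf ω)) ∂(pvLaw ε) :=
        lintegral_mono fun ω => pvpr_pot_sq S b 𝒜 G ψ hθ p (pvConf ω)
    _ = ENNReal.ofReal ((θ⁻¹) ^ 2) * ∫⁻ ω, pvprH S b 𝒜 p (pvConf ω) * pvpOp S b 𝒜 (G.indicator fun ζ => ENNReal.ofReal (‖ψ ζ‖ ^ 2)) (pvConf ω) ∂(pvLaw ε) :=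
        lintegral_const_mul' _ _ ENNReal.ofReal_ne_top
    _ ≤ ENNReal.ofReal ((θ⁻¹) ^ 2) * ((ENNReal.ofReal p)⁻¹ *
          ∫⁻ ω, pvprH S b 𝒜 p (pvConf ω) * 𝒜.indicator (G.indicator fun ζ => ENNReal.ofReal (‖ψ ζ‖ ^ 2)) (pvConf ω) ∂(pvLaw ε)) :=
        mul_le_mul_right (pvp_dom_w ε hS hSb hinc hA hF (pvpr_H_meas hS hSb b hA p) (pvpr_H_blind S b 𝒜 p) hp fun ξ h => pvpr_H_zero h) _
    _ ≤ _ := by
        refine mul_le_mul_right (mul_le_mul_right (lintegral_mono fun ω => ?_) _) _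
        rw [Set.indicator_indicator]
        calc pvprH S b 𝒜 p (pvConf ω) * (𝒜 ∩ G).indicator (fun ζ => ENNReal.ofReal (‖ψ ζ‖ ^ 2)) (pvConf ω)
            ≤ 1 * (𝒜 ∩ G).indicator (fun ζ => ENNReal.ofReal (‖ψ ζ‖ ^ 2)) (pvConf ω) := mul_le_mul_left (pvpr_H_le_one S b 𝒜 p _) _
          _ = _ := one_mul _

/-- **TR18.4 (FLAG)**: `{K 1_Bad ≥ a}` costs `(a p)⁻¹ P(𝒜 ∩ Bad)`: flags on the PREPARED state are paid by ORDINARY events -/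
theorem pvpr_flag (ε : ℝ) (hS : MeasurableSet S) (hSb : Bornology.IsBounded S) (hinc : PvpInc S b 𝒜) (hA : PvpMs fun ξ => ξ ∈ 𝒜)
    {Bad : Set (Conf PvPt)} (hB : PvpMs fun ξ => ξ ∈ Bad) {p a : ℝ} (hp : 0 < p) (ha : 0 < a) :
    pvLaw ε {ω | p ≤ pvpQ S b 𝒜 (pvConf ω) ∧ a ≤ pvprGam S b 𝒜 Bad (pvConf ω)}
      ≤ (ENNReal.ofReal a)⁻¹ * ((ENNReal.ofReal p)⁻¹ * pvLaw ε (pvConf ⁻¹' (𝒜 ∩ Bad))) := by
  have hF : PvpMs (Bad.indicator fun _ => (1 : ℝ≥0∞)) := (PvpMs.const (1 : ℝ≥0∞)).indicator hB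
  have hH := pvpr_H_meas (𝒜 := 𝒜) hS hSb b hA p
  have hm : AEMeasurable (fun ω => pvprH S b 𝒜 p (pvConf ω) * pvpOp S b 𝒜 (Bad.indicator fun _ => (1 : ℝ≥0∞)) (pvConf ω)) (pvLaw ε) :=
    (hH.mul (PvpMs.op hS hSb b hA hF)).aemeasurable ε
  have h1 : {ω | p ≤ pvpQ S b 𝒜 (pvConf ω) ∧ a ≤ pvprGam S b 𝒜 Bad (pvConf ω)}
      ⊆ {ω | ENNReal.ofReal a ≤ pvprH S b 𝒜 p (pvConf ω) * pvpOp S b 𝒜 (Bad.indicator fun _ => (1 : ℝ≥0∞)) (pvConf ω)} := by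
    rintro ω ⟨h, h'⟩
    show ENNReal.ofReal a ≤ _
    rw [pvpr_H_one h, one_mul, pvpr_gam_op]
    exact ENNReal.ofReal_le_ofReal h'
  have ha0 : ENNReal.ofReal a ≠ 0 := by
    rw [Ne, ENNReal.ofReal_eq_zero, not_le]
    exact ha
  refine (measure_mono h1).trans ((meas_ge_le_lintegral_div hm ha0 ENNReal.ofReal_ne_top).trans ?_)
  rw [ENNReal.div_eq_inv_mul]
  refine mul_le_mul_right ?_ _
  refine (pvp_dom_w ε hS hSb hinc hA hF hH (pvpr_H_blind S b 𝒜 p) hp fun ξ h => pvpr_H_zero h).trans (mul_le_mul_right ?_ _)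
  refine le_trans (lintegral_mono fun ω => ?_) (lintegral_indicator_one_le (pvConf ⁻¹' (𝒜 ∩ Bad)))
  rw [Set.indicator_indicator]
  calc pvprH S b 𝒜 p (pvConf ω) * (𝒜 ∩ Bad).indicator (fun _ => (1 : ℝ≥0∞)) (pvConf ω)
      ≤ 1 * (𝒜 ∩ Bad).indicator (fun _ => (1 : ℝ≥0∞)) (pvConf ω) := mul_le_mul_left (pvpr_H_le_one S b 𝒜 p _) _
    _ = (pvConf ⁻¹' (𝒜 ∩ Bad)).indicator 1 ω := by
        rw [one_mul]
        rfl

/-- **TR18.1 (DOMINATION) FOR TWO DISJOINT STRIPS** -/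
theorem pvpr_dom2 (ε : ℝ) (hS : MeasurableSet S) (hSb : Bornology.IsBounded S) (hS' : MeasurableSet S') (hSb' : Bornology.IsBounded S')
    (hinc : PvpInc S b 𝒜) (hinc' : PvpInc S' b' 𝒜') (hA : PvpMs fun ξ => ξ ∈ 𝒜) (hA' : PvpMs fun ξ => ξ ∈ 𝒜')
    (hAb : PvpBlind S' (fun ζ => ζ ∈ 𝒜)) {Z H : Conf PvPt → ℝ≥0∞} (hZ : PvpMs Z) (hH : PvpMs H) (hHb : PvpBlind S H) (hHb' : PvpBlind S' H)
    {p p' : ℝ} (hp : 0 < p) (hp' : 0 < p') (hHp : ∀ ξ, pvpQ S b 𝒜 ξ < p → H ξ = 0) (hHp' : ∀ ξ, pvpQ S' b' 𝒜' ξ < p' → H ξ = 0) :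
    ∫⁻ ω, H (pvConf ω) * pvpOp S b 𝒜 (pvpOp S' b' 𝒜' Z) (pvConf ω) ∂(pvLaw ε)
      ≤ (ENNReal.ofReal p)⁻¹ * ((ENNReal.ofReal p')⁻¹ * ∫⁻ ω, H (pvConf ω) * (𝒜 ∩ 𝒜').indicator Z (pvConf ω) ∂(pvLaw ε)) := by
  refine (pvp_dom_w ε hS hSb hinc hA (PvpMs.op hS' hSb' b' hA' hZ) hH hHb hp hHp).trans (mul_le_mul_right ?_ _)
  have hH2 : PvpMs (fun ξ => H ξ * 𝒜.indicator (fun _ => (1 : ℝ≥0∞)) ξ) := hH.mul ((PvpMs.const (1 : ℝ≥0∞)).indicator hA)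
  have hH2b : PvpBlind S' (fun ξ => H ξ * 𝒜.indicator (fun _ => (1 : ℝ≥0∞)) ξ) := fun c B ξ => by
    show H (cfPaint S' c B ξ) * 𝒜.indicator (fun _ => (1 : ℝ≥0∞)) (cfPaint S' c B ξ) = _
    rw [hHb' c B ξ, pvpr_blind_indicator hAb (pvpr_blind_const S' (1 : ℝ≥0∞)) c B ξ]
  have h2 := pvp_dom_w ε hS' hSb' hinc' hA' hZ hH2 hH2b hp' fun ξ h => by
    show H ξ * _ = 0
    rw [hHp' ξ h, zero_mul]
  have e1 : ∀ ω, H (pvConf ω) * 𝒜.indicator (pvpOp S' b' 𝒜' Z) (pvConf ω)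
      = H (pvConf ω) * 𝒜.indicator (fun _ => (1 : ℝ≥0∞)) (pvConf ω) * pvpOp S' b' 𝒜' Z (pvConf ω) := fun ω => by
    by_cases h : pvConf ω ∈ 𝒜
    · rw [Set.indicator_of_mem h, Set.indicator_of_mem h, mul_one]
    · rw [Set.indicator_of_notMem h, Set.indicator_of_notMem h, mul_zero, zero_mul]
  have e2 : ∀ ω, H (pvConf ω) * 𝒜.indicator (fun _ => (1 : ℝ≥0∞)) (pvConf ω) * 𝒜'.indicator Z (pvConf ω)
      = H (pvConf ω) * (𝒜 ∩ 𝒜').indicator Z (pvConf ω) := fun ω => by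
    rw [← Set.indicator_indicator]
    by_cases h : pvConf ω ∈ 𝒜
    · rw [Set.indicator_of_mem h, Set.indicator_of_mem h, mul_one]
    · rw [Set.indicator_of_notMem h, Set.indicator_of_notMem h, mul_zero, zero_mul]
  simp only [e1]
  simp only [e2] at h2
  exact h2

/-- the EXCEPTIONAL EVENT of a pair of candidates: the averaged second moment is large -/
def pvprExc (S : Set ℂ) (b : Bool) (𝒜 : Set (Conf PvPt)) (S' : Set ℂ) (b' : Bool) (𝒜' : Set (Conf PvPt)) (Z : Conf PvPt → ℝ≥0∞) (p p' : ℝ) (t : ℝ≥0∞) :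
    Set (Conf PvPt) :=
  {ξ | p ≤ pvpQ S b 𝒜 ξ ∧ p' ≤ pvpQ S' b' 𝒜' ξ ∧ t < pvpOp S b 𝒜 (pvpOp S' b' 𝒜' Z) ξ}

theorem pvpr_eqns_cite2 : True := by
  have := @pvprExc.eq_1
  trivial

/-- **(A1), probabilistic half**: the exceptional event is paid by the ORDINARY second moment `∫ 1_𝒜 1_𝒜' Z` -/
theorem pvpr_exc_le (ε : ℝ) (hS : MeasurableSet S) (hSb : Bornology.IsBounded S) (hS' : MeasurableSet S') (hSb' : Bornology.IsBounded S') (hd : Disjoint S S')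
    (hinc : PvpInc S b 𝒜) (hinc' : PvpInc S' b' 𝒜') (hA : PvpMs fun ξ => ξ ∈ 𝒜) (hA' : PvpMs fun ξ => ξ ∈ 𝒜')
    (hAb : PvpBlind S' (fun ζ => ζ ∈ 𝒜)) (hAb' : PvpBlind S (fun ζ => ζ ∈ 𝒜')) {Z : Conf PvPt → ℝ≥0∞} (hZ : PvpMs Z)
    {p p' : ℝ} (hp : 0 < p) (hp' : 0 < p') {t : ℝ≥0∞} (ht : t ≠ 0) (ht' : t ≠ ∞) :
    pvLaw ε (pvConf ⁻¹' pvprExc S b 𝒜 S' b' 𝒜' Z p p' t)
      ≤ t⁻¹ * ((ENNReal.ofReal p)⁻¹ * ((ENNReal.ofReal p')⁻¹ * ∫⁻ ω, (𝒜 ∩ 𝒜').indicator Z (pvConf ω) ∂(pvLaw ε))) := by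
  set H : Conf PvPt → ℝ≥0∞ := fun ξ => pvprH S b 𝒜 p ξ * pvprH S' b' 𝒜' p' ξ with hHdef
  have hH : PvpMs H := (pvpr_H_meas hS hSb b hA p).mul (pvpr_H_meas hS' hSb' b' hA' p')
  have hHb : PvpBlind S H := fun c B ξ => by
    show pvprH S b 𝒜 p (cfPaint S c B ξ) * pvprH S' b' 𝒜' p' (cfPaint S c B ξ) = _
    rw [pvpr_H_blind S b 𝒜 p c B ξ, pvpr_H_blind' hd.symm hAb' b' p' c B ξ]
  have hHb' : PvpBlind S' H := fun c B ξ => by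
    show pvprH S b 𝒜 p (cfPaint S' c B ξ) * pvprH S' b' 𝒜' p' (cfPaint S' c B ξ) = _
    rw [pvpr_H_blind S' b' 𝒜' p' c B ξ, pvpr_H_blind' hd hAb b p c B ξ]
  have hm : AEMeasurable (fun ω => H (pvConf ω) * pvpOp S b 𝒜 (pvpOp S' b' 𝒜' Z) (pvConf ω)) (pvLaw ε) :=
    (hH.mul (PvpMs.op hS hSb b hA (PvpMs.op hS' hSb' b' hA' hZ))).aemeasurable ε
  have h1 : pvConf ⁻¹' pvprExc S b 𝒜 S' b' 𝒜' Z p p' t ⊆ {ω | t ≤ H (pvConf ω) * pvpOp S b 𝒜 (pvpOp S' b' 𝒜' Z) (pvConf ω)} := by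
    rintro ω ⟨h, h', h''⟩
    show t ≤ pvprH S b 𝒜 p (pvConf ω) * pvprH S' b' 𝒜' p' (pvConf ω) * _
    rw [pvpr_H_one h, pvpr_H_one h', one_mul, one_mul]
    exact h''.le
  refine (measure_mono h1).trans ((meas_ge_le_lintegral_div hm ht ht').trans ?_)
  rw [ENNReal.div_eq_inv_mul]
  refine mul_le_mul_right ?_ _
  refine (pvpr_dom2 ε hS hSb hS' hSb' hinc hinc' hA hA' hAb hZ hH hHb hHb' hp hp' (fun ξ h => ?_) (fun ξ h => ?_)).trans ?_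
  · show pvprH S b 𝒜 p ξ * _ = 0
    rw [pvpr_H_zero h, zero_mul]
  · show _ * pvprH S' b' 𝒜' p' ξ = 0
    rw [pvpr_H_zero h, mul_zero]
  · refine mul_le_mul_right (mul_le_mul_right (lintegral_mono fun ω => ?_) _) _
    calc H (pvConf ω) * (𝒜 ∩ 𝒜').indicator Z (pvConf ω) ≤ 1 * (𝒜 ∩ 𝒜').indicator Z (pvConf ω) := by
          refine mul_le_mul_left ?_ _
          calc pvprH S b 𝒜 p (pvConf ω) * pvprH S' b' 𝒜' p' (pvConf ω) ≤ 1 * 1 := mul_le_mul' (pvpr_H_le_one _ _ _ _ _) (pvpr_H_le_one _ _ _ _ _)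
            _ = 1 := one_mul 1
      _ = _ := one_mul _

/-- LOCALITY of the exceptional event -/
theorem pvpr_exc_reads {W : Set PvPt} (hW : Prod.fst ⁻¹' S ⊆ W) (hW' : Prod.fst ⁻¹' S' ⊆ W) (hA : Conf.ReadsSet W 𝒜) (hA' : Conf.ReadsSet W 𝒜')
    {Z : Conf PvPt → ℝ≥0∞} (hZ : Conf.Reads W Z) (b b' : Bool) (p p' : ℝ) (t : ℝ≥0∞) : Conf.ReadsSet W (pvprExc S b 𝒜 S' b' 𝒜' Z p p' t) := by
  intro η
  unfold pvprExc
  simp only [Set.mem_ofPred_eq]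
  rw [pvpQ_reads hW hA b η, pvpQ_reads hW' hA' b' η, pvpOp_reads hW hA (pvpOp_reads hW' hA' hZ b') b η]

/-- **(A1), THE TRANSFER**: off the exceptional event, at a configuration where both candidates are pins (`Q ≥ p`, `γ ≥ θ`), EVERY number `I` which satisfies the deterministic input
(STAB: `‖I + ψ + ψ'‖² ≤ Z` at all usable prepared configurations) is within `E` of minus the sum of the two prepared potentials.      One event for ALL rims. -/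
theorem pvpr_transfer (hd : Disjoint S S') (hinc : PvpInc S b 𝒜) (hinc' : PvpInc S' b' 𝒜') (hA : PvpBlind S' (fun ζ => ζ ∈ 𝒜)) (hA' : PvpBlind S (fun ζ => ζ ∈ 𝒜'))
    (hG : PvpBlind S' (fun ζ => ζ ∈ G)) (hG' : PvpBlind S (fun ζ => ζ ∈ G')) (hψ : PvpBlind S' ψ) (hψ' : PvpBlind S ψ')
    {θ p p' : ℝ} (hθ : 0 < θ) (hp : 0 < p) (hp' : 0 < p') {E : ℝ} (hE : 0 ≤ E) (Z : Conf PvPt → ℝ≥0∞) {ξ : Conf PvPt}
    (hξ : ξ ∉ pvprExc S b 𝒜 S' b' 𝒜' Z p p' (ENNReal.ofReal ((θ ^ 2 * E) ^ 2)))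
    (hQ : p ≤ pvpQ S b 𝒜 ξ) (hQ' : p' ≤ pvpQ S' b' 𝒜' ξ) (hγ : θ ≤ pvprGam S b 𝒜 G ξ) (hγ' : θ ≤ pvprGam S' b' 𝒜' G' ξ) (I : ℂ)
    (hZ : ∀ B B', cfStripOn S b ξ ⊆ B → B ⊆ cfStrip S ξ → cfStripOn S' b' ξ ⊆ B' → B' ⊆ cfStrip S' ξ →
      cfPaint S' b' B' (cfPaint S b B ξ) ∈ 𝒜 → cfPaint S' b' B' (cfPaint S b B ξ) ∈ 𝒜' → cfPaint S' b' B' (cfPaint S b B ξ) ∈ G → cfPaint S' b' B' (cfPaint S b B ξ) ∈ G' →
      ENNReal.ofReal (‖I + ψ (cfPaint S' b' B' (cfPaint S b B ξ)) + ψ' (cfPaint S' b' B' (cfPaint S b B ξ))‖ ^ 2) ≤ Z (cfPaint S' b' B' (cfPaint S b B ξ))) :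
    ‖I + pvprPot S b 𝒜 G ψ θ p ξ + pvprPot S' b' 𝒜' G' ψ' θ p' ξ‖ ≤ E := by
  refine pvpr_two_pot hd hinc hinc' hA hA' hG hG' hψ hψ' hθ hp hp' hQ hQ' hγ hγ' I Z hZ hE ?_
  by_contra hcon
  exact hξ ⟨hQ, hQ', not_le.1 hcon⟩

end int

end Claimed.Agent.R289
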