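import Claimed.Agent.R289.Tr.RoadP
import Claimed.Agent.R289.Tr.PrepAvg

/-!
# Row 289 (S0537, Cardy for Poisson-Voronoi), box TR, ROAD P, file Tr/PrepIn : THE PREPARATION OPERATOR OF 263 AS AN INSTANCE OF `PvrpK`, AND THE PREP FIELDS OF THE RECORD `PvrpIn` OF 273      (owner helper59; prefix `pvpr`, `Pvpr`)

`Tr/RoadP.lean` (273) : abstract finite weight operators `PvrpK Ξ ι`, the interface record `PvrpIn`.      `Tr/Prep.lean` (263) : `cfPaint`, `pvpWt`, `pvpOp`, `pvpAv`, `PvpMs`, `pvp_dom_w`.      `Tr/PrepAvg.lean` (59) : `pvprGam`, `pvprPsi`, blindness, locality, `pvpr_dom2`.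
This file is pure glue:

* sec. 1  **`pvprK S b 𝒜 : PvrpK (Conf PvPt) (Finset ℂ)`**, bridges `pvpr_K_op _av _gam _nrm` , `pvpr_K_blind`, `pvpr_K_blindS`, SUPPORT `pvpr_K_supp`, `pvpr_K_supp2` (what a move of non zero weight is: for the field `stab`)
* sec. 2  `pvprVer F` = THE measurable version of a function of the configuration (`Measurable` unconditionally, exact on `DelgpOk` as soon as `PvpMs F`);   `pvprHg`, `pvprU` : fields `Hg U U_meas U_iff`, `kout kout_meas kout_eq`, `ke ..`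
* sec. 3  fields `bl_G bl_kin bl_gam bl_av` from blindness, and from `Conf.Reads` + disjoint windows
* sec. 4  fields `dom1 dom2 dom2_ae`
* sec. 5  **`PvprFam τ`** = the data which the menu / the states must supply for the PREP group of fields (strips, strip events, usable states, windows), with every PREP field of `PvrpIn` in the exact shape of the record
-/

set_option autoImplicit false
set_option linter.unusedSectionVars false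

namespace Claimed.Agent.R289

open MeasureTheory ProbabilityTheory Set Filter Claims.C0465
open scoped ENNReal

/-! ## 1. the instance -/

section inst

variable {S S' : Set ℂ} {b b' : Bool} {𝒜 𝒜' G G' : Set (Conf PvPt)} {ψ ψ' : Conf PvPt → ℂ} {ξ : Conf PvPt}

/-- **THE INSTANCE**: moves = repaintings of the strip, weights = the label invariant monotone kernel of 263 -/
noncomputable def pvprK (S : Set ℂ) (b : Bool) (𝒜 : Set (Conf PvPt)) : PvrpK (Conf PvPt) (Finset ℂ) where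
  I ξ := (cfStrip S ξ).powerset
  mv ξ B := cfPaint S b B ξ
  wt ξ B := pvpWt S b 𝒜 ξ B
  wt0 ξ B := pvpWt_nonneg S b 𝒜 ξ B
  wt1 ξ := pvpWt_sum S b 𝒜 ξ

/-- the geometries on which the strip event has quenched probability `≥ p` (not F3) -/
def pvprHg (S : Set ℂ) (b : Bool) (𝒜 : Set (Conf PvPt)) (p : ℝ) : Set (Conf PvPt) := {ξ | p ≤ pvpQ S b 𝒜 ξ}

theorem pvpr_eqns_cite3 : True := by
  have := @pvprK.eq_1; have := @pvprHg.eq_1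
  trivial

theorem pvpr_K_I (S : Set ℂ) (b : Bool) (𝒜 : Set (Conf PvPt)) (ξ : Conf PvPt) : (pvprK S b 𝒜).I ξ = (cfStrip S ξ).powerset := rfl

theorem pvpr_K_mv (S : Set ℂ) (b : Bool) (𝒜 : Set (Conf PvPt)) (ξ : Conf PvPt) (B : Finset ℂ) : (pvprK S b 𝒜).mv ξ B = cfPaint S b B ξ := rfl

theorem pvpr_K_wt (S : Set ℂ) (b : Bool) (𝒜 : Set (Conf PvPt)) (ξ : Conf PvPt) (B : Finset ℂ) : (pvprK S b 𝒜).wt ξ B = pvpWt S b 𝒜 ξ B := rfl

theorem pvpr_K_op (S : Set ℂ) (b : Bool) (𝒜 : Set (Conf PvPt)) (F : Conf PvPt → ℝ≥0∞) : (pvprK S b 𝒜).Op F = pvpOp S b 𝒜 F := rfl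

theorem pvpr_K_av (S : Set ℂ) (b : Bool) (𝒜 : Set (Conf PvPt)) (Y : Conf PvPt → ℂ) : (pvprK S b 𝒜).Av Y = pvpAv S b 𝒜 Y := rfl

theorem pvpr_K_gam (S : Set ℂ) (b : Bool) (𝒜 G : Set (Conf PvPt)) : (pvprK S b 𝒜).gam G = pvprGam S b 𝒜 G := rfl

theorem pvpr_K_nrm (S : Set ℂ) (b : Bool) (𝒜 G : Set (Conf PvPt)) (ψ : Conf PvPt → ℂ) : (pvprK S b 𝒜).Nrm G ψ = pvprPsi S b 𝒜 G ψ := by
  funext ξ
  unfold PvrpK.Nrm pvprPsi pvprNum
  rw [div_eq_inv_mul]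
  rfl

theorem pvpr_K_blind {γ : Type} {f : Conf PvPt → γ} (h : PvpBlind S f) (b : Bool) (𝒜 : Set (Conf PvPt)) : (pvprK S b 𝒜).Blind f := fun ξ B _ => h b B ξ

theorem pvpr_K_blindS {A : Set (Conf PvPt)} (h : PvpBlind S (fun ζ => ζ ∈ A)) (b : Bool) (𝒜 : Set (Conf PvPt)) : (pvprK S b 𝒜).BlindS A :=
  fun ξ B _ => iff_of_eq (h b B ξ)

/-- **SUPPORT** (for the field `stab`): a move of non zero weight only ADDS the colour `b` inside the strip, and it realises the strip event -/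
theorem pvpr_K_supp (hinc : PvpInc S b 𝒜) (hQ : 0 < pvpQ S b 𝒜 ξ) {B : Finset ℂ} (hB : B ∈ (pvprK S b 𝒜).I ξ) (hw : (pvprK S b 𝒜).wt ξ B ≠ 0) :
    cfStripOn S b ξ ⊆ B ∧ B ⊆ cfStrip S ξ ∧ cfPaint S b B ξ ∈ 𝒜 := by
  have hB' : B ⊆ cfStrip S ξ := Finset.mem_powerset.1 hB
  obtain ⟨h1, h2⟩ := pvpWt_supp hinc hQ hB' hw
  exact ⟨h1, hB', h2⟩

/-- SUPPORT of two successive moves in disjoint strips -/
theorem pvpr_K_supp2 (hd : Disjoint S S') (hinc : PvpInc S b 𝒜) (hinc' : PvpInc S' b' 𝒜') (hA : PvpBlind S' (fun ζ => ζ ∈ 𝒜)) (hA' : PvpBlind S (fun ζ => ζ ∈ 𝒜'))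
    (hQ : 0 < pvpQ S b 𝒜 ξ) (hQ' : 0 < pvpQ S' b' 𝒜' ξ) {B B' : Finset ℂ} (hB : B ∈ (pvprK S b 𝒜).I ξ) (hw : (pvprK S b 𝒜).wt ξ B ≠ 0)
    (hB' : B' ∈ (pvprK S' b' 𝒜').I ((pvprK S b 𝒜).mv ξ B)) (hw' : (pvprK S' b' 𝒜').wt ((pvprK S b 𝒜).mv ξ B) B' ≠ 0) :
    cfStripOn S b ξ ⊆ B ∧ B ⊆ cfStrip S ξ ∧ cfStripOn S' b' ξ ⊆ B' ∧ B' ⊆ cfStrip S' ξ ∧
      cfPaint S' b' B' (cfPaint S b B ξ) ∈ 𝒜 ∧ cfPaint S' b' B' (cfPaint S b B ξ) ∈ 𝒜' := by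
  obtain ⟨h1, h2, h3⟩ := pvpr_K_supp hinc hQ hB hw
  have hQ1 : 0 < pvpQ S' b' 𝒜' (cfPaint S b B ξ) := by
    rw [pvpr_Q_blind hd.symm hA' b' b B ξ]
    exact hQ'
  obtain ⟨h1', h2', h3'⟩ := pvpr_K_supp (ξ := cfPaint S b B ξ) hinc' hQ1 hB' hw'
  rw [cfStripOn_paint_disj hd.symm] at h1'
  rw [cfStrip_congr (S := S') (ξ' := cfPaint S b B ξ) (ξ := ξ) (by rw [cfPaint_sites])] at h2'
  exact ⟨h1, h2, h1', h2', (hA b' B' _).mpr h3, h3'⟩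

end inst

/-! ## 2. measurable versions -/

section ver

variable {S : Set ℂ} {b : Bool} {𝒜 G : Set (Conf PvPt)} {ψ : Conf PvPt → ℂ}

open Classical in
/-- THE measurable version on the frozen sample space of a function of the configuration (a constant if there is none) -/
noncomputable def pvprVer {γ : Type} [MeasurableSpace γ] [Inhabited γ] (F : Conf PvPt → γ) : PVSample → γ :=
  if h : PvpMs F then h.choose else fun _ => default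

/-- the measurable version of `{Hg, θ ≤ K(·, G)}` -/
def pvprU (S : Set ℂ) (b : Bool) (𝒜 G : Set (Conf PvPt)) (p θ : ℝ) : Set PVSample :=
  {ω | pvprVer (fun ξ => ξ ∈ pvprHg S b 𝒜 p ∧ θ ≤ (pvprK S b 𝒜).gam G ξ) ω}

theorem pvpr_eqns_cite4 : True := by
  have := @pvprVer.eq_1; have := @pvprU.eq_1
  trivial

theorem pvpr_ver_meas {γ : Type} [MeasurableSpace γ] [Inhabited γ] (F : Conf PvPt → γ) : Measurable (pvprVer F) := by
  unfold pvprVer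
  by_cases h : PvpMs F
  · rw [dif_pos h]
    exact h.choose_spec.1
  · rw [dif_neg h]
    exact measurable_const

theorem pvpr_ver_eq {γ : Type} [MeasurableSpace γ] [Inhabited γ] {F : Conf PvPt → γ} (h : PvpMs F) {ω : PVSample} (hω : DelgpOk ω) : pvprVer F ω = F (pvConf ω) := by
  unfold pvprVer
  rw [dif_pos h]
  exact h.choose_spec.2 ω hω

theorem pvpr_psi_meas (hS : MeasurableSet S) (hSb : Bornology.IsBounded S) (b : Bool) (hA : PvpMs fun ξ => ξ ∈ 𝒜) (hG : PvpMs fun ξ => ξ ∈ G) (hψ : PvpMs ψ) :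
    PvpMs (pvprPsi S b 𝒜 G ψ) :=
  ((pvpr_num_meas hS hSb b hA hG hψ).prodMk (pvpr_gam_meas hS hSb b hA hG)).comp (φ := fun x : ℂ × ℝ => x.1 / (x.2 : ℂ))
    (measurable_fst.div (Complex.measurable_ofReal.comp measurable_snd))

theorem pvpr_nrm_meas (hS : MeasurableSet S) (hSb : Bornology.IsBounded S) (b : Bool) (hA : PvpMs fun ξ => ξ ∈ 𝒜) (hG : PvpMs fun ξ => ξ ∈ G) (hψ : PvpMs ψ) :
    PvpMs ((pvprK S b 𝒜).Nrm G ψ) := by
  rw [pvpr_K_nrm]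
  exact pvpr_psi_meas hS hSb b hA hG hψ

theorem pvpr_Hg_ms (hS : MeasurableSet S) (hSb : Bornology.IsBounded S) (b : Bool) (hA : PvpMs fun ξ => ξ ∈ 𝒜) (p : ℝ) : PvpMs fun ξ => ξ ∈ pvprHg S b 𝒜 p :=
  (pvpQ_ms (𝒜 := 𝒜) hS hSb b hA).comp (φ := fun q : ℝ => p ≤ q) (measurableSet_setOfPred.1 measurableSet_Ici)

theorem pvpr_U_ms (hS : MeasurableSet S) (hSb : Bornology.IsBounded S) (b : Bool) (hA : PvpMs fun ξ => ξ ∈ 𝒜) (hG : PvpMs fun ξ => ξ ∈ G) (p θ : ℝ) :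
    PvpMs fun ξ => ξ ∈ pvprHg S b 𝒜 p ∧ θ ≤ (pvprK S b 𝒜).gam G ξ :=
  ((pvpQ_ms (𝒜 := 𝒜) hS hSb b hA).prodMk (pvpr_gam_meas hS hSb b hA hG)).comp (φ := fun x : ℝ × ℝ => p ≤ x.1 ∧ θ ≤ x.2)
    (measurableSet_setOfPred.1 ((measurableSet_le measurable_const measurable_fst).inter (measurableSet_le measurable_const measurable_snd)))

/-- field `U_meas` (unconditional) -/
theorem pvpr_U_meas (S : Set ℂ) (b : Bool) (𝒜 G : Set (Conf PvPt)) (p θ : ℝ) : MeasurableSet (pvprU S b 𝒜 G p θ) :=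
  measurableSet_setOfPred.2 (pvpr_ver_meas _)

/-- field `U_iff` -/
theorem pvpr_U_iff (hS : MeasurableSet S) (hSb : Bornology.IsBounded S) (b : Bool) (hA : PvpMs fun ξ => ξ ∈ 𝒜) (hG : PvpMs fun ξ => ξ ∈ G) (p θ : ℝ)
    {ω : PVSample} (hω : DelgpOk ω) : ω ∈ pvprU S b 𝒜 G p θ ↔ pvConf ω ∈ pvprHg S b 𝒜 p ∧ θ ≤ (pvprK S b 𝒜).gam G (pvConf ω) :=
  iff_of_eq (pvpr_ver_eq (pvpr_U_ms hS hSb b hA hG p θ) hω)

/-- fields `kout_eq`, `ke_eq` (the fields `kout_meas`, `ke_meas` are `pvpr_ver_meas`) -/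
theorem pvpr_nrm_ver (hS : MeasurableSet S) (hSb : Bornology.IsBounded S) (b : Bool) (hA : PvpMs fun ξ => ξ ∈ 𝒜) (hG : PvpMs fun ξ => ξ ∈ G) (hψ : PvpMs ψ)
    {ω : PVSample} (hω : DelgpOk ω) : pvprVer ((pvprK S b 𝒜).Nrm G ψ) ω = (pvprK S b 𝒜).Nrm G ψ (pvConf ω) :=
  pvpr_ver_eq (pvpr_nrm_meas hS hSb b hA hG hψ) hω

end ver

/-! ## 3. blindness of two far candidates -/

section far

variable {S S' : Set ℂ} {b b' : Bool} {𝒜 𝒜' G G' : Set (Conf PvPt)} {ψ ψ' : Conf PvPt → ℂ}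

/-- field `bl_gam` -/
theorem pvpr_bl_gam (hd : Disjoint S S') (hA' : PvpBlind S (fun ζ => ζ ∈ 𝒜')) (hG' : PvpBlind S (fun ζ => ζ ∈ G')) (b b' : Bool) (𝒜 : Set (Conf PvPt)) :
    (pvprK S b 𝒜).Blind ((pvprK S' b' 𝒜').gam G') :=
  pvpr_K_blind (pvpr_gam_blind hd.symm hA' hG' b') b 𝒜

/-- field `bl_av` -/
theorem pvpr_bl_av (hd : Disjoint S S') (hA' : PvpBlind S (fun ζ => ζ ∈ 𝒜')) (hG' : PvpBlind S (fun ζ => ζ ∈ G')) (hψ' : PvpBlind S ψ') (b b' : Bool)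
    (𝒜 : Set (Conf PvPt)) : (pvprK S b 𝒜).Blind ((pvprK S' b' 𝒜').Av (G'.indicator ψ')) :=
  pvpr_K_blind (pvpr_num_blind hd.symm hA' hG' hψ' b') b 𝒜

/-- an event which reads a window disjoint from the strip does not see the strip -/
theorem pvpr_blind_of_reads {γ : Type} {W : Set ℂ} {f : Conf PvPt → γ} (h : Conf.Reads (Prod.fst ⁻¹' W : Set PvPt) f) (hW : Disjoint S W) : PvpBlind S f :=
  h.pvpBlind (hW.preimage _)

theorem pvpr_blind_of_readsSet {W : Set ℂ} {A : Set (Conf PvPt)} (h : Conf.ReadsSet (Prod.fst ⁻¹' W : Set PvPt) A) (hW : Disjoint S W) :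
    PvpBlind S (fun ζ => ζ ∈ A) :=
  pvpr_blind_of_reads (Conf.readsSet_iff_reads.1 h) hW

end far

/-! ## 4. domination -/

section dom

variable {S S' : Set ℂ} {b b' : Bool} {𝒜 𝒜' : Set (Conf PvPt)}

theorem pvpr_Hg_ind (S : Set ℂ) (b : Bool) (𝒜 : Set (Conf PvPt)) (p : ℝ) (F : Conf PvPt → ℝ≥0∞) (ξ : Conf PvPt) :
    (pvprHg S b 𝒜 p).indicator F ξ = pvprH S b 𝒜 p ξ * F ξ := by
  by_cases h : p ≤ pvpQ S b 𝒜 ξ
  · rw [Set.indicator_of_mem (show ξ ∈ pvprHg S b 𝒜 p from h), pvpr_H_one h, one_mul]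
  · rw [Set.indicator_of_notMem (show ξ ∉ pvprHg S b 𝒜 p from h), pvpr_H_zero (not_le.1 h), zero_mul]

/-- field **`dom1`** -/
theorem pvpr_dom1 (ε : ℝ) (hS : MeasurableSet S) (hSb : Bornology.IsBounded S) (hinc : PvpInc S b 𝒜) (hA : PvpMs fun ξ => ξ ∈ 𝒜) {p : ℝ} (hp : 0 < p)
    {F : Conf PvPt → ℝ≥0∞} (hF : PvpMs F) :
    ∫⁻ ω, (pvprHg S b 𝒜 p).indicator ((pvprK S b 𝒜).Op F) (pvConf ω) ∂(pvLaw ε) ≤ ENNReal.ofReal p⁻¹ * ∫⁻ ω, F (pvConf ω) ∂(pvLaw ε) := by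
  simp only [pvpr_Hg_ind, pvpr_K_op]
  rw [ENNReal.ofReal_inv_of_pos hp]
  refine (pvp_dom_w ε hS hSb hinc hA hF (pvpr_H_meas hS hSb b hA p) (pvpr_H_blind S b 𝒜 p) hp fun ξ h => pvpr_H_zero h).trans (mul_le_mul_right ?_ _)
  refine lintegral_mono fun ω => ?_
  calc pvprH S b 𝒜 p (pvConf ω) * 𝒜.indicator F (pvConf ω) ≤ 1 * F (pvConf ω) :=
        mul_le_mul' (pvpr_H_le_one S b 𝒜 p _) (Set.indicator_le_self _ _ _)
    _ = _ := one_mul _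

theorem pvpr_Hg_ind2 (S : Set ℂ) (b : Bool) (𝒜 : Set (Conf PvPt)) (p : ℝ) (S' : Set ℂ) (b' : Bool) (𝒜' : Set (Conf PvPt)) (p' : ℝ) (F : Conf PvPt → ℝ≥0∞)
    (ξ : Conf PvPt) : (pvprHg S b 𝒜 p ∩ pvprHg S' b' 𝒜' p').indicator F ξ = pvprH S b 𝒜 p ξ * pvprH S' b' 𝒜' p' ξ * F ξ := by
  rw [← Set.indicator_indicator, pvpr_Hg_ind, pvpr_Hg_ind, mul_assoc]

/-- field **`dom2`** -/
theorem pvpr_dom2' (ε : ℝ) (hS : MeasurableSet S) (hSb : Bornology.IsBounded S) (hS' : MeasurableSet S') (hSb' : Bornology.IsBounded S') (hd : Disjoint S S')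
    (hinc : PvpInc S b 𝒜) (hinc' : PvpInc S' b' 𝒜') (hA : PvpMs fun ξ => ξ ∈ 𝒜) (hA' : PvpMs fun ξ => ξ ∈ 𝒜')
    (hAb : PvpBlind S' (fun ζ => ζ ∈ 𝒜)) (hAb' : PvpBlind S (fun ζ => ζ ∈ 𝒜')) {Z : Conf PvPt → ℝ≥0∞} (hZ : PvpMs Z) {p : ℝ} (hp : 0 < p) :
    ∫⁻ ω, (pvprHg S b 𝒜 p ∩ pvprHg S' b' 𝒜' p).indicator ((pvprK S b 𝒜).Op ((pvprK S' b' 𝒜').Op Z)) (pvConf ω) ∂(pvLaw ε)
      ≤ ENNReal.ofReal (p⁻¹ ^ 2) * ∫⁻ ω, Z (pvConf ω) ∂(pvLaw ε) := by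
  simp only [pvpr_Hg_ind2, pvpr_K_op]
  have hH : PvpMs (fun ξ => pvprH S b 𝒜 p ξ * pvprH S' b' 𝒜' p ξ) := (pvpr_H_meas hS hSb b hA p).mul (pvpr_H_meas hS' hSb' b' hA' p)
  have hHb : PvpBlind S (fun ξ => pvprH S b 𝒜 p ξ * pvprH S' b' 𝒜' p ξ) := fun c B ξ => by
    show pvprH S b 𝒜 p (cfPaint S c B ξ) * pvprH S' b' 𝒜' p (cfPaint S c B ξ) = _
    rw [pvpr_H_blind S b 𝒜 p c B ξ, pvpr_H_blind' hd.symm hAb' b' p c B ξ]
  have hHb' : PvpBlind S' (fun ξ => pvprH S b 𝒜 p ξ * pvprH S' b' 𝒜' p ξ) := fun c B ξ => by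
    show pvprH S b 𝒜 p (cfPaint S' c B ξ) * pvprH S' b' 𝒜' p (cfPaint S' c B ξ) = _
    rw [pvpr_H_blind S' b' 𝒜' p c B ξ, pvpr_H_blind' hd hAb b p c B ξ]
  refine (pvpr_dom2 ε hS hSb hS' hSb' hinc hinc' hA hA' hAb hZ hH hHb hHb' hp hp (fun ξ h => ?_) (fun ξ h => ?_)).trans ?_
  · show pvprH S b 𝒜 p ξ * _ = 0
    rw [pvpr_H_zero h, zero_mul]
  · show _ * pvprH S' b' 𝒜' p ξ = 0
    rw [pvpr_H_zero h, mul_zero]
  · rw [← mul_assoc, sq, ENNReal.ofReal_mul (inv_nonneg.2 hp.le), ENNReal.ofReal_inv_of_pos hp]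
    refine mul_le_mul_right (lintegral_mono fun ω => ?_) _
    calc pvprH S b 𝒜 p (pvConf ω) * pvprH S' b' 𝒜' p (pvConf ω) * (𝒜 ∩ 𝒜').indicator Z (pvConf ω) ≤ 1 * 1 * Z (pvConf ω) :=
          mul_le_mul' (mul_le_mul' (pvpr_H_le_one _ _ _ _ _) (pvpr_H_le_one _ _ _ _ _)) (Set.indicator_le_self _ _ _)
      _ = _ := by rw [one_mul, one_mul]

/-- field **`dom2_ae`** -/
theorem pvpr_dom2_ae (ε : ℝ) (hS : MeasurableSet S) (hSb : Bornology.IsBounded S) (hS' : MeasurableSet S') (hSb' : Bornology.IsBounded S')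
    (b b' : Bool) (hA : PvpMs fun ξ => ξ ∈ 𝒜) (hA' : PvpMs fun ξ => ξ ∈ 𝒜') {Z : Conf PvPt → ℝ≥0∞} (hZ : PvpMs Z) (p p' : ℝ) :
    AEMeasurable (fun ω => (pvprHg S b 𝒜 p ∩ pvprHg S' b' 𝒜' p').indicator ((pvprK S b 𝒜).Op ((pvprK S' b' 𝒜').Op Z)) (pvConf ω)) (pvLaw ε) := by
  simp only [pvpr_Hg_ind2, pvpr_K_op]
  exact (((pvpr_H_meas hS hSb b hA p).mul (pvpr_H_meas hS' hSb' b' hA' p')).mul (PvpMs.op hS hSb b hA (PvpMs.op hS' hSb' b' hA' hZ))).aemeasurable ε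

end dom

end Claimed.Agent.R289
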