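import Claimed.Agent.R289.Tr.Dense
import Claimed.Agent.R289.Tr.PrepIn
import Claimed.Agent.R289.Tr.RetNat
import Claimed.Agent.R289.Tr.MsConf

/-!
# Row 289 (S0537, Cardy for Poisson-Voronoi), THE WALL, ROAD P, P14 : THE FLAGS, ASSEMBLY      (helper220, second pen next to 238 36; prefix `pvfz_`, `Pvfz`, `pvfz`)

Master note: `origin/helper273:notes/R289/ROADP_273.md` P14, P15.      Kits which are CITED, not retyped: `Tr/Dense` (101: Peierls at the level of the marked PPP), `Tr/Prep`, `Tr/PrepAvg`, `Tr/PrepIn` (263 59: the preparation operator),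
`Tr/Ret`, `Tr/RetMeas`, `Tr/RetNat` (220: retained triangles, measurability by naturality), `Tr/PinLoc(B)` (238: local predicates on completions), `Tr/FlagP` (36: costs of the four terms of `Bad`).

* sec. 1  **MISFIT REPAIRED**: the flag `F5 = {K 1_Bad > 1/2}` contains the ANNEALED propensities `ν_ε(L | σ)`, so the static bad blocks DEPEND ON `ε`.   `pvtd_dense_ord`, `pvtd_dense_main` of 101 take `SB m b`, ONE unit event `B`.
          `pvfz_dense_ord` (`SB m i b`), **`pvfz_dense_main`** (unit events `B ε'`, `ε' = ε / ℓ`): same proofs.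
* sec. 2  one candidate `κ = (S, b, 𝒜, Bad)`:   `κ.F3 p = {Q < p}`,   `κ.F5 = {1/2 < K 1_Bad}`;   locality (`pvfz_F3_reads`, `pvfz_F5_reads`), class `PvpMs`, cost at the level of `pvLaw` (`pvfz_F5_law`),
          **`pvfz_use`** = the core of P15 (DI-P): not F3, not F5, every move of the support lands in `G` or in `Bad`  ⟹  `1/2 ≤ K(ξ, G)`;   `pvfz_use_K` the same for the operator `pvprK` of record (field `U_iff` of `PvrpIn`).
* sec. 3  `PvfzBr ε` = the bridge `pvP ε F ≤ pvLaw ε (pvConf ⁻¹' F)` for `F` of class `PvpMs` (36 / 59: `Tr/MsConf`);   costs at the level of `pvP` (outer measure, the level of Peierls).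
* sec. 4  the flag of a block `pvfzBlock s κ p F0` = `F0 ∪ ⋃ (F3 ∪ F5)` over the finitely many candidates (centres of the block `×` MENU):   `pvfz_block_reads`, `pvfz_block_le`, **`pvfz_block_cost`**, `pvfz_block_use`, `pvfz_block_ev` (copies).
* sec. 5  covariance of the preparation operator under an injective map (`pvfz_Q_map`, `pvfz_op_map`, `pvfz_gam_map`), `PvfzCand.pull`, `pvfz_block_ev`.
* sec. 7  **`pvfz_br`** (the bridge HOLDS: 59's `pvmz_apply`), `pvfz_flag_copies`, `pvfzFlag`, **`pvfz_flag_main`** = P14, THE EXIT (reads, small, USE at all centres and scales, `ε`-form of `PvxpFlag`).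
* sec. 6  WALK EVENTS OF RECORD on the retained triangles: `pvfzWalk ρ E c T A B`:   measurable, read from `E ×ˢ univ`, `PvpMs`, `PvpInc S c` for EVERY strip, `PvpBlind S` for strips disjoint from `T`, Delaunay meaning.
-/

set_option autoImplicit false
set_option linter.unusedSectionVars false

namespace Claimed.Agent.R289

open MeasureTheory ProbabilityTheory Set Filter Topology Metric Claims.C0465
open scoped ENNReal NNReal

/-! ## 1. DENSE with static bad blocks which depend on `ε` -/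

section dense

variable {Ω : Type} [MeasurableSpace Ω] {τ : Type} {ι : Type}

/-- **DENSE IN THE ORDERED LIMIT, static bad blocks `SB m i b` depending on the index `i` of `ε`** (twin of `pvtd_dense_ord`) -/
theorem pvfz_dense_ord (l : Filter ι) (Pr : ι → Measure Ω) [∀ i, IsProbabilityMeasure (Pr i)] {cf : Ω → Conf PvPt} (εs : ι → ℝ)
    (hlaw : ∀ i A, Pr i (cf ⁻¹' A) ≤ pvP (εs i) A) (rims : ι → Ω → Set PvbRim) (pins : ℕ → ι → Ω → PvbRim → Set (PvbPin τ)) (ℓ r : ℕ → ℝ) {R : ℝ} {x : ℂ}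
    (k : ℕ → ℕ) (a a' : ℕ) (SB : ℕ → ι → ℤ × ℤ → Set (Conf PvPt)) (AB : ℕ → ι → Ω → PvbRim → ℤ × ℤ → Prop) (Start : ℕ → Finset (ℤ × ℤ)) (Ex : ℕ → ι → Set Ω)
    (hℓ : ∀ m, 0 < ℓ m) (hSr : ∀ m i, ∀ b ∈ pvtdReach (Start m) (k m), Conf.ReadsSet (pvtdWin (ℓ m) a' b) (SB m i b))
    (hSq : ∀ᶠ m in atTop, ∀ᶠ i in l, ∀ b ∈ pvtdReach (Start m) (k m), pvP (εs i) (SB m i b) ≤ pvtdQ a')
    (hEx : PvtdOrd l fun m i => (Pr i (Ex m i)).toReal)
    (hAB : PvtdOrd l fun m i => (Pr i {o | ∃ P ∈ rims i o, PvtdHalf (Start m) (k m) (AB m i o P)}).toReal)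
    (hmesh : ∀ m i, ∀ o ∉ Ex m i, ∀ P ∈ rims i o, ∀ t < P.len, ‖P.v t - x‖ ≤ 2 * R → ‖P.v (t + 1) - P.v t‖ ≤ ℓ m)
    (hDI : ∀ m i, ∀ o ∉ Ex m i, ∀ P ∈ rims i o, PvtdDI (ℓ m) a x R P (pins m i o P) (fun b => cf o ∈ SB m i b) (AB m i o P))
    (hr : ∀ᶠ m in atTop, (((k m + a : ℕ) : ℝ) + 1) * (2 * ℓ m) ≤ r m) (hStart : ∀ m, ∀ w : ℂ, ‖w - x‖ ≤ 2 * R → pv5Blk (ℓ m) w ∈ Start m)
    (hnum : Tendsto (fun m => ((Start m).card : ℝ) * (2⁻¹ : ℝ) ^ k m) atTop (𝓝 0)) :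
    PvtdOrd l fun m i => (Pr i {o | ¬ ∀ P ∈ rims i o, PvtdDense x R (r m) P (pins m i o P)}).toReal := by
  have hb : Tendsto (fun m => (pvtdC a').toReal * (((Start m).card : ℝ) * (2⁻¹ : ℝ) ^ k m)) atTop (𝓝 0) := by
    simpa using hnum.const_mul (pvtdC a').toReal
  refine ((hEx.add (PvtdOrd.of_tendsto hb)).add hAB).mono ?_
  filter_upwards [hSq, hr] with m hm1 hm2
  filter_upwards [hm1] with n hn
  have h1 := pvtd_dense_prob (Pr n) (hlaw n) (rims n) (pins m n) (hℓ m) (k m) a a' (SB m n) (AB m n) (Start m) (Ex m n) (hSr m n) hn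
    (hmesh m n) (hDI m n) hm2 (hStart m)
  have hfin : ((Start m).card : ℝ≥0∞) * (pvtdC a' * (2⁻¹ : ℝ≥0∞) ^ k m) ≠ ⊤ :=
    ENNReal.mul_ne_top (ENNReal.natCast_ne_top _) (ENNReal.mul_ne_top (pvtd_C_ne_top a') (ENNReal.pow_ne_top (by norm_num)))
  have h2 := ENNReal.toReal_mono (ENNReal.add_ne_top.2 ⟨ENNReal.add_ne_top.2 ⟨measure_ne_top _ _, hfin⟩, measure_ne_top _ _⟩) h1
  rw [ENNReal.toReal_add (ENNReal.add_ne_top.2 ⟨measure_ne_top _ _, hfin⟩) (measure_ne_top _ _), ENNReal.toReal_add (measure_ne_top _ _) hfin] at h2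
  refine h2.trans (le_of_eq ?_)
  rw [ENNReal.toReal_mul, ENNReal.toReal_mul, ENNReal.toReal_pow, ENNReal.toReal_inv, ENNReal.toReal_natCast]
  norm_num
  ring

/-- **DENSE, PACKAGED, unit events depending on the intensity**: the static bad block `b` at `(m, i)` is the copy `pvtdEv (ℓ m) (B ((ℓ m)⁻¹ * εs i)) b` of the unit event `B ε'` at the RESCALED parameter `ε' = ε / ℓ` -/
theorem pvfz_dense_main (l : Filter ι) (Pr : ι → Measure Ω) [∀ i, IsProbabilityMeasure (Pr i)] {cf : Ω → Conf PvPt} (εs : ι → ℝ)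
    (hε : Tendsto εs l (𝓝[>] 0)) (hlaw : ∀ i A, Pr i (cf ⁻¹' A) ≤ pvP (εs i) A) (rims : ι → Ω → Set PvbRim)
    (pins : ℕ → ι → Ω → PvbRim → Set (PvbPin τ)) (ℓ r : ℕ → ℝ) {R : ℝ} (hR : 0 ≤ R) {x : ℂ} (a a' : ℕ) {κ : ℝ} (hκ : 0 < κ)
    (hℓ0 : ∀ m, 0 < ℓ m) (hℓ : Tendsto ℓ atTop (𝓝 0)) (hr : ∀ᶠ m in atTop, ℓ m ^ (1 - κ) ≤ r m)
    (B : ℝ → Set (Conf PvPt)) (hBr : ∀ ε, Conf.ReadsSet (pvtdWin 1 a' 0) (B ε)) (hBq : ∀ᶠ ε in 𝓝[>] 0, pvP ε (B ε) ≤ pvtdQ a')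
    (AB : ℕ → ι → Ω → PvbRim → ℤ × ℤ → Prop) (Ex : ℕ → ι → Set Ω)
    (hEx : PvtdOrd l fun m i => (Pr i (Ex m i)).toReal)
    (hAB : PvtdOrd l fun m i => (Pr i {o | ∃ P ∈ rims i o, PvtdHalf (pvtdStart (ℓ m) x R) (pvtdK (ℓ m) (r m) a) (AB m i o P)}).toReal)
    (hmesh : ∀ m i, ∀ o ∉ Ex m i, ∀ P ∈ rims i o, ∀ t < P.len, ‖P.v t - x‖ ≤ 2 * R → ‖P.v (t + 1) - P.v t‖ ≤ ℓ m)
    (hDI : ∀ m i, ∀ o ∉ Ex m i, ∀ P ∈ rims i o, PvtdDI (ℓ m) a x R P (pins m i o P) (fun b => cf o ∈ pvtdEv (ℓ m) (B ((ℓ m)⁻¹ * εs i)) b) (AB m i o P)) :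
    PvtdOrd l fun m i => (Pr i {o | ¬ ∀ P ∈ rims i o, PvtdDense x R (r m) P (pins m i o P)}).toReal := by
  obtain ⟨hnum, hlong⟩ := pvtd_num_lim ℓ r hℓ0 hℓ hκ hr x hR a
  refine pvfz_dense_ord l Pr εs hlaw rims pins ℓ r (fun m => pvtdK (ℓ m) (r m) a) a a' (fun m i => pvtdEv (ℓ m) (B ((ℓ m)⁻¹ * εs i))) AB (fun m => pvtdStart (ℓ m) x R) Ex hℓ0
    (fun m i b _ => pvtd_ev_reads (hℓ0 m) a' b (hBr _)) ?_ hEx hAB hmesh hDI ?_ (fun m w hw => pvtd_start_mem (hℓ0 m) hw) hnum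
  · refine Eventually.of_forall fun m => ?_
    have h1 : Tendsto (fun i => (ℓ m)⁻¹ * εs i) l (𝓝[>] 0) := by
      have h2 := tendsto_nhdsWithin_iff.1 hε
      refine tendsto_nhdsWithin_iff.2 ⟨by simpa using h2.1.const_mul (ℓ m)⁻¹, h2.2.mono fun i hi => ?_⟩
      exact mul_pos (inv_pos.2 (hℓ0 m)) hi
    filter_upwards [h1.eventually hBq] with i hi b _
    exact (pvtd_ev_le (hℓ0 m).ne' b (εs i) _).trans hi
  · filter_upwards [hlong, hr] with m hm1 hm2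
    exact pvtd_K_le (hℓ0 m) ((Real.rpow_nonneg (hℓ0 m).le _).trans hm2) hm1

end dense

/-! ## 2. the flags of one candidate -/

/-- the data of ONE candidate `κ = (z, τ)` which the flags F3, F5 see: the strip, the forced colour, the strip event `A_κ`, the bad prepared states -/
structure PvfzCand where
  S : Set ℂ
  b : Bool
  A : Set (Conf PvPt)
  Bad : Set (Conf PvPt)

/-- **F3**: the quenched probability of the strip event is small -/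
def PvfzCand.F3 (κ : PvfzCand) (p : ℝ) : Set (Conf PvPt) := {ξ | pvpQ κ.S κ.b κ.A ξ < p}

/-- **F5**: the preparation lands in `Bad` with probability `> 1/2` -/
def PvfzCand.F5 (κ : PvfzCand) : Set (Conf PvPt) := {ξ | 1 / 2 < pvprGam κ.S κ.b κ.A κ.Bad ξ}

/-- the candidate is LOCAL: everything is read from the window `W` -/
structure PvfzCand.Loc (κ : PvfzCand) (W : Set PvPt) : Prop where
  strip : Prod.fst ⁻¹' κ.S ⊆ W
  A : Conf.ReadsSet W κ.A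
  Bad : Conf.ReadsSet W κ.Bad

/-- the candidate is REGULAR: what the integral statements of 263 / 59 ask -/
structure PvfzCand.Reg (κ : PvfzCand) : Prop where
  Sm : MeasurableSet κ.S
  Sb : Bornology.IsBounded κ.S
  inc : PvpInc κ.S κ.b κ.A
  A : PvpMs fun ξ => ξ ∈ κ.A
  Bad : PvpMs fun ξ => ξ ∈ κ.Bad

theorem pvfz_eqns_cite : True := by
  have := @PvfzCand.F3.eq_1; have := @PvfzCand.F5.eq_1
  trivial

theorem pvfz_F3_reads {κ : PvfzCand} {W : Set PvPt} (h : κ.Loc W) (p : ℝ) : Conf.ReadsSet W (κ.F3 p) :=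
  (pvpQ_reads h.strip h.A κ.b).preimage (Iio p)

theorem pvfz_F5_reads {κ : PvfzCand} {W : Set PvPt} (h : κ.Loc W) : Conf.ReadsSet W κ.F5 :=
  (pvpr_gam_reads h.strip h.A h.Bad κ.b).preimage (Ioi (1 / 2))

theorem pvfz_gam_ms {κ : PvfzCand} (h : κ.Reg) : PvpMs (pvprGam κ.S κ.b κ.A κ.Bad) := by
  exact pvpr_gam_meas h.Sm h.Sb κ.b h.A h.Bad

theorem pvfz_F3_ms {κ : PvfzCand} (h : κ.Reg) (p : ℝ) : PvpMs fun ξ => ξ ∈ κ.F3 p := by
  exact (pvpQ_ms h.Sm h.Sb κ.b h.A).comp (φ := fun x : ℝ => x < p) (measurableSet_setOfPred.1 measurableSet_Iio)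

theorem pvfz_F5_ms {κ : PvfzCand} (h : κ.Reg) : PvpMs fun ξ => ξ ∈ κ.F5 := by
  exact (pvfz_gam_ms h).comp (φ := fun x : ℝ => 1 / 2 < x) (measurableSet_setOfPred.1 measurableSet_Ioi)

/-- **cost of F5 off F3, at the level of `pvLaw`** (TR18.4 = `pvpr_flag` of 59 with `a = 1/2`) -/
theorem pvfz_F5_law {κ : PvfzCand} (h : κ.Reg) {p : ℝ} (hp : 0 < p) (ε : ℝ) :
    pvLaw ε (pvConf ⁻¹' (κ.F5 \ κ.F3 p)) ≤ 2 * ((ENNReal.ofReal p)⁻¹ * pvLaw ε (pvConf ⁻¹' (κ.A ∩ κ.Bad))) := by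
  have k := pvpr_flag ε h.Sm h.Sb h.inc h.A h.Bad hp (a := 1 / 2) (by norm_num)
  have e : (ENNReal.ofReal (1 / 2))⁻¹ = 2 := by
    rw [one_div, ENNReal.ofReal_inv_of_pos (by norm_num), inv_inv]
    norm_num
  rw [e] at k
  refine (measure_mono ?_).trans k
  rintro ω ⟨h5, h3⟩
  exact ⟨not_lt.1 h3, le_of_lt h5⟩

/-- **THE CORE OF P15 (DI-P)**: not F3, not F5, and every repainting of the SUPPORT of the kernel (more colour `b`, strip event realised) lands in `G` or in `Bad`  ⟹  the propensity of `G` is `≥ 1/2` -/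
theorem pvfz_use {κ : PvfzCand} (hinc : PvpInc κ.S κ.b κ.A) {p : ℝ} (hp : 0 < p) {ξ : Conf PvPt} (h3 : ξ ∉ κ.F3 p) (h5 : ξ ∉ κ.F5) {G : Set (Conf PvPt)}
    (hG : ∀ B', cfStripOn κ.S κ.b ξ ⊆ B' → B' ⊆ cfStrip κ.S ξ → cfPaint κ.S κ.b B' ξ ∈ κ.A → cfPaint κ.S κ.b B' ξ ∉ G → cfPaint κ.S κ.b B' ξ ∈ κ.Bad) :
    1 / 2 ≤ pvprGam κ.S κ.b κ.A G ξ := by
  classical
  have hQ : 0 < pvpQ κ.S κ.b κ.A ξ := lt_of_lt_of_le hp (not_lt.1 h3)
  have h5' : pvprGam κ.S κ.b κ.A κ.Bad ξ ≤ 1 / 2 := not_lt.1 h5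
  have key : (1 : ℝ) ≤ pvprGam κ.S κ.b κ.A G ξ + pvprGam κ.S κ.b κ.A κ.Bad ξ := by
    unfold pvprGam
    rw [← Finset.sum_add_distrib]
    refine le_trans (le_of_eq (pvpWt_sum κ.S κ.b κ.A ξ).symm) ?_
    refine Finset.sum_le_sum fun B' hB' => ?_
    rw [← mul_add]
    by_cases hw : pvpWt κ.S κ.b κ.A ξ B' = 0
    · rw [hw, zero_mul]
    · obtain ⟨s1, s2⟩ := pvpWt_supp hinc hQ (Finset.mem_powerset.1 hB') hw
      have h1 : (1 : ℝ) ≤ G.indicator (fun _ => (1 : ℝ)) (cfPaint κ.S κ.b B' ξ) + κ.Bad.indicator (fun _ => (1 : ℝ)) (cfPaint κ.S κ.b B' ξ) := by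
        by_cases hg : cfPaint κ.S κ.b B' ξ ∈ G
        · rw [Set.indicator_of_mem hg]
          have := Set.indicator_nonneg (s := κ.Bad) (f := fun _ => (1 : ℝ)) (fun _ _ => zero_le_one) (cfPaint κ.S κ.b B' ξ)
          linarith
        · rw [Set.indicator_of_notMem hg, Set.indicator_of_mem (hG B' s1 (Finset.mem_powerset.1 hB') s2 hg)]
          norm_num
      calc pvpWt κ.S κ.b κ.A ξ B' = pvpWt κ.S κ.b κ.A ξ B' * 1 := (mul_one _).symm
        _ ≤ _ := mul_le_mul_of_nonneg_left h1 (pvpWt_nonneg _ _ _ _ _)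
  linarith

/-- the same for the operator of record: this is the right hand side of the field `U_iff` of `PvrpIn` (`Hg = pvprHg`) -/
theorem pvfz_use_K {κ : PvfzCand} (hinc : PvpInc κ.S κ.b κ.A) {p : ℝ} (hp : 0 < p) {ξ : Conf PvPt} (h3 : ξ ∉ κ.F3 p) (h5 : ξ ∉ κ.F5) {G : Set (Conf PvPt)}
    (hG : ∀ B', cfStripOn κ.S κ.b ξ ⊆ B' → B' ⊆ cfStrip κ.S ξ → cfPaint κ.S κ.b B' ξ ∈ κ.A → cfPaint κ.S κ.b B' ξ ∉ G → cfPaint κ.S κ.b B' ξ ∈ κ.Bad) :
    ξ ∈ pvprHg κ.S κ.b κ.A p ∧ 1 / 2 ≤ (pvprK κ.S κ.b κ.A).gam G ξ := by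
  refine ⟨show p ≤ pvpQ κ.S κ.b κ.A ξ from not_lt.1 h3, ?_⟩
  rw [pvpr_K_gam]
  exact pvfz_use hinc hp h3 h5 hG

/-! ## 3. the bridge `pvP` / `pvLaw`, costs at the level of Peierls -/

/-- **THE BRIDGE** (FIT GAP of 36, 09:55Z): an event of the class `PvpMs` costs under the OUTER measure `pvP ε` what its pull-back costs under `pvLaw ε`.      Producer: `Tr/MsConf` (36) or the `ActOk` refactor of `PvpMs` (59). -/
def PvfzBr (ε : ℝ) : Prop := ∀ F : Set (Conf PvPt), (PvpMs fun ξ => ξ ∈ F) → pvP ε F ≤ pvLaw ε (pvConf ⁻¹' F)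

theorem pvfz_eqns_cite3 : True := by
  have := @PvfzBr.eq_1
  trivial

/-- the free direction -/
theorem pvfz_law_le (ε : ℝ) (F : Set (Conf PvPt)) : pvLaw ε (pvConf ⁻¹' F) ≤ pvP ε F :=
  Measure.le_map_apply measurable_pvConf.aemeasurable F

theorem PvfzBr.eq {ε : ℝ} (h : PvfzBr ε) {F : Set (Conf PvPt)} (hF : PvpMs fun ξ => ξ ∈ F) : pvP ε F = pvLaw ε (pvConf ⁻¹' F) :=
  le_antisymm (h F hF) (pvfz_law_le ε F)

/-- the bridge holds for the events whose pull-back is measurable (`pvcn_bridge_apply`) -/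
theorem pvfz_br_of_meas (ε : ℝ) {F : Set (Conf PvPt)} (h : MeasurableSet (pvConf ⁻¹' F)) : pvP ε F = pvLaw ε (pvConf ⁻¹' F) :=
  pvcn_bridge_apply ε h

/-- Boolean calculus of the class `PvpMs` for events -/
theorem pvfz_ms_inter {F G : Set (Conf PvPt)} (hF : PvpMs fun ξ => ξ ∈ F) (hG : PvpMs fun ξ => ξ ∈ G) : PvpMs fun ξ => ξ ∈ F ∩ G := by
  exact (hF.prodMk hG).comp (φ := fun p : Prop × Prop => p.1 ∧ p.2) Measurable.of_discrete

theorem pvfz_ms_union {F G : Set (Conf PvPt)} (hF : PvpMs fun ξ => ξ ∈ F) (hG : PvpMs fun ξ => ξ ∈ G) : PvpMs fun ξ => ξ ∈ F ∪ G := by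
  exact (hF.prodMk hG).comp (φ := fun p : Prop × Prop => p.1 ∨ p.2) Measurable.of_discrete

theorem pvfz_ms_compl {F : Set (Conf PvPt)} (hF : PvpMs fun ξ => ξ ∈ F) : PvpMs fun ξ => ξ ∈ Fᶜ := by
  exact hF.comp (φ := fun p : Prop => ¬ p) Measurable.of_discrete

theorem pvfz_ms_diff {F G : Set (Conf PvPt)} (hF : PvpMs fun ξ => ξ ∈ F) (hG : PvpMs fun ξ => ξ ∈ G) : PvpMs fun ξ => ξ ∈ F \ G := by
  exact (hF.prodMk hG).comp (φ := fun p : Prop × Prop => p.1 ∧ ¬ p.2) Measurable.of_discrete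

theorem pvfz_ms_biUnion {I : Type} (s : Finset I) {F : I → Set (Conf PvPt)} (hF : ∀ i ∈ s, PvpMs fun ξ => ξ ∈ F i) : PvpMs fun ξ => ξ ∈ ⋃ i ∈ s, F i := by
  classical
  induction s using Finset.induction_on with
  | empty => simpa using PvpMs.const False
  | insert a s _ ih =>
    have h1 := pvfz_ms_union (hF a (Finset.mem_insert_self a s)) (ih fun i hi => hF i (Finset.mem_insert_of_mem hi))
    rwa [← Finset.set_biUnion_insert] at h1

/-- level sets -/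
theorem pvfz_ms_preimage {γ : Type} [MeasurableSpace γ] {f : Conf PvPt → γ} (hf : PvpMs f) {t : Set γ} (ht : MeasurableSet t) : PvpMs fun ξ => ξ ∈ f ⁻¹' t := by
  exact hf.comp (φ := fun x => x ∈ t) (measurableSet_setOfPred.1 ht)

/-- **cost of F5 off F3 at the level of `pvP`** -/
theorem pvfz_F5_cost {ε : ℝ} (hbr : PvfzBr ε) {κ : PvfzCand} (h : κ.Reg) {p : ℝ} (hp : 0 < p) :
    pvP ε (κ.F5 \ κ.F3 p) ≤ 2 * ((ENNReal.ofReal p)⁻¹ * pvP ε (κ.A ∩ κ.Bad)) := by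
  have hms : PvpMs fun ξ => ξ ∈ κ.F5 \ κ.F3 p := pvfz_ms_diff (pvfz_F5_ms h) (pvfz_F3_ms h p)
  rw [hbr.eq hms]
  refine (pvfz_F5_law h hp ε).trans ?_
  gcongr
  exact pvfz_law_le ε _

/-! ## 4. the flag of a block -/

section block

variable {I : Type}

/-- **THE FLAG OF A BLOCK**: `F0` (mesh / QBX failure, near return tests F2: static events which do not see the candidates) or F3 or F5 for one of the finitely many candidates (centres of the block `×` MENU) -/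
def pvfzBlock (s : Finset I) (κ : I → PvfzCand) (p : ℝ) (F0 : Set (Conf PvPt)) : Set (Conf PvPt) := F0 ∪ ⋃ i ∈ s, ((κ i).F3 p ∪ (κ i).F5)

theorem pvfz_eqns_cite4 : True := by
  have := @pvfzBlock.eq_1
  trivial

theorem pvfz_block_reads {s : Finset I} {κ : I → PvfzCand} {W : Set PvPt} {F0 : Set (Conf PvPt)} (h0 : Conf.ReadsSet W F0) (h : ∀ i ∈ s, (κ i).Loc W) (p : ℝ) :
    Conf.ReadsSet W (pvfzBlock s κ p F0) := by
  unfold pvfzBlock
  exact h0.union (Conf.ReadsSet.iUnion fun i => Conf.ReadsSet.iUnion fun hi => (pvfz_F3_reads (h i hi) p).union (pvfz_F5_reads (h i hi)))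

/-- **USE** -/
theorem pvfz_block_use {s : Finset I} {κ : I → PvfzCand} {p : ℝ} {F0 : Set (Conf PvPt)} {ξ : Conf PvPt} (h : ξ ∉ pvfzBlock s κ p F0) :
    ξ ∉ F0 ∧ ∀ i ∈ s, ξ ∉ (κ i).F3 p ∧ ξ ∉ (κ i).F5 := by
  unfold pvfzBlock at h
  refine ⟨fun h0 => h (Or.inl h0), fun i hi => ⟨fun h3 => h (Or.inr ?_), fun h5 => h (Or.inr ?_)⟩⟩
  · exact mem_iUnion₂.2 ⟨i, hi, Or.inl h3⟩
  · exact mem_iUnion₂.2 ⟨i, hi, Or.inr h5⟩

/-- union bound, any (outer) measure -/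
theorem pvfz_block_le (μ : Measure (Conf PvPt)) (s : Finset I) (κ : I → PvfzCand) (p : ℝ) (F0 : Set (Conf PvPt)) :
    μ (pvfzBlock s κ p F0) ≤ μ F0 + ∑ i ∈ s, (μ ((κ i).F3 p) + μ ((κ i).F5 \ (κ i).F3 p)) := by
  unfold pvfzBlock
  refine (measure_union_le _ _).trans ?_
  gcongr
  refine (measure_biUnion_finset_le s _).trans ?_
  refine Finset.sum_le_sum fun i _ => ?_
  have e : (κ i).F3 p ∪ (κ i).F5 = (κ i).F3 p ∪ ((κ i).F5 \ (κ i).F3 p) := by rw [Set.union_sdiff_self]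
  rw [e]
  exact measure_union_le _ _

/-- **COST OF THE FLAG OF A BLOCK** -/
theorem pvfz_block_cost {ε : ℝ} (hbr : PvfzBr ε) (s : Finset I) {κ : I → PvfzCand} (h : ∀ i ∈ s, (κ i).Reg) {p : ℝ} (hp : 0 < p) (F0 : Set (Conf PvPt)) :
    pvP ε (pvfzBlock s κ p F0) ≤ pvP ε F0 + ∑ i ∈ s, (pvP ε ((κ i).F3 p) + 2 * ((ENNReal.ofReal p)⁻¹ * pvP ε ((κ i).A ∩ (κ i).Bad))) := by
  refine (pvfz_block_le (pvP ε) s κ p F0).trans ?_
  gcongr with i hi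
  exact pvfz_F5_cost hbr (h i hi) hp

/-- **hypothesis `hBq` of `pvfz_dense_main`**: three numbers (`q0`: F0 ∪ F2;  `q3`: F3 = M12;  `q5 = 4 β`: the four small propensities of 36) -/
theorem pvfz_block_small (hbr : ∀ ε, PvfzBr ε) (s : Finset I) (κ : ℝ → I → PvfzCand) (h : ∀ ε, ∀ i ∈ s, (κ ε i).Reg) {p : ℝ} (hp : 0 < p) (F0 : ℝ → Set (Conf PvPt))
    {q0 q3 q5 Q : ℝ≥0∞} (h0 : ∀ᶠ ε in 𝓝[>] (0 : ℝ), pvP ε (F0 ε) ≤ q0) (h3 : ∀ i ∈ s, ∀ᶠ ε in 𝓝[>] (0 : ℝ), pvP ε ((κ ε i).F3 p) ≤ q3)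
    (h5 : ∀ i ∈ s, ∀ᶠ ε in 𝓝[>] (0 : ℝ), pvP ε ((κ ε i).A ∩ (κ ε i).Bad) ≤ q5) (hnum : q0 + s.card * (q3 + 2 * ((ENNReal.ofReal p)⁻¹ * q5)) ≤ Q) :
    ∀ᶠ ε in 𝓝[>] (0 : ℝ), pvP ε (pvfzBlock s (κ ε) p (F0 ε)) ≤ Q := by
  have h3' := (Filter.eventually_all_finset s).2 h3
  have h5' := (Filter.eventually_all_finset s).2 h5
  filter_upwards [h0, h3', h5'] with ε e0 e3 e5
  refine (pvfz_block_cost (hbr ε) s (h ε) hp (F0 ε)).trans (le_trans ?_ hnum)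
  refine add_le_add e0 ?_
  refine (Finset.sum_le_card_nsmul s _ (q3 + 2 * ((ENNReal.ofReal p)⁻¹ * q5)) fun i hi => ?_).trans (le_of_eq (nsmul_eq_mul _ _))
  exact add_le_add (e3 i hi) (mul_le_mul_right (mul_le_mul_right (e5 i hi) _) _)

end block

/-! ## 5. covariance: ONE unit event for all blocks and all scales -/

section cov

variable {g : ℂ → ℂ}

theorem pvfz_sites_map (g : ℂ → ℂ) (η : Conf PvPt) : cfSites (cfMap g η) = g '' cfSites η := by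
  ext z
  simp only [cfSites, cfMap, Conf.image, mem_image]
  constructor
  · rintro ⟨p, ⟨q, hq, rfl⟩, rfl⟩
    exact ⟨q.1, ⟨q, hq, rfl⟩, rfl⟩
  · rintro ⟨w, ⟨q, hq, rfl⟩, rfl⟩
    exact ⟨Prod.map g id q, ⟨q, hq, rfl⟩, rfl⟩

theorem pvfz_mem_map (hg : Function.Injective g) (η : Conf PvPt) (z : ℂ) (c : Bool) : (g z, c) ∈ (cfMap g η).pts ↔ (z, c) ∈ η.pts := by
  constructor
  · rintro ⟨q, hq, he⟩
    have h1 : g q.1 = g z := congrArg Prod.fst he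
    have h2 : q.2 = c := congrArg Prod.snd he
    have : q = (z, c) := Prod.ext (hg h1) h2
    rwa [← this]
  · intro h
    exact ⟨(z, c), h, rfl⟩

theorem pvfz_strip_map (hg : Function.Injective g) (S : Set ℂ) (η : Conf PvPt) : cfStrip S (cfMap g η) = (cfStrip (g ⁻¹' S) η).image g := by
  classical
  have e : cfSites (cfMap g η) ∩ S = g '' (cfSites η ∩ g ⁻¹' S) := by
    rw [pvfz_sites_map, image_inter_preimage]
  unfold cfStrip
  by_cases h : (cfSites η ∩ g ⁻¹' S).Finite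
  · have h' : (cfSites (cfMap g η) ∩ S).Finite := by rw [e]; exact h.image g
    rw [dif_pos h, dif_pos h']
    ext z
    simp only [Finite.mem_toFinset, Finset.mem_image]
    rw [e]
    rfl
  · have h' : ¬ (cfSites (cfMap g η) ∩ S).Finite := by
      rw [e]
      exact fun hf => h (hf.of_finite_image hg.injOn)
    rw [dif_neg h, dif_neg h', Finset.image_empty]

theorem pvfz_stripOn_map (hg : Function.Injective g) (S : Set ℂ) (b : Bool) (η : Conf PvPt) : cfStripOn S b (cfMap g η) = (cfStripOn (g ⁻¹' S) b η).image g := by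
  classical
  unfold cfStripOn
  rw [pvfz_strip_map hg]
  ext z
  simp only [Finset.mem_filter, Finset.mem_image]
  constructor
  · rintro ⟨⟨w, hw, rfl⟩, h⟩
    exact ⟨w, ⟨hw, (pvfz_mem_map hg η w b).1 h⟩, rfl⟩
  · rintro ⟨w, ⟨hw, h⟩, rfl⟩
    exact ⟨⟨w, hw, rfl⟩, (pvfz_mem_map hg η w b).2 h⟩

theorem pvfz_paint_map (hg : Function.Injective g) (S : Set ℂ) (b : Bool) (B : Finset ℂ) (η : Conf PvPt) :
    cfPaint S b (B.image g) (cfMap g η) = cfMap g (cfPaint (g ⁻¹' S) b B η) := by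
  classical
  have hB : ∀ z, g z ∈ B.image g ↔ z ∈ B := fun z => by
    rw [Finset.mem_image]
    exact ⟨fun ⟨w, hw, e⟩ => hg e ▸ hw, fun h => ⟨z, h, rfl⟩⟩
  ext p
  constructor
  · rintro (⟨⟨q, hq, rfl⟩, h2⟩ | ⟨h1, h2, h3⟩)
    · exact ⟨q, Or.inl ⟨hq, h2⟩, rfl⟩
    · rw [pvfz_sites_map] at h1
      obtain ⟨z, hz, hzp⟩ := h1
      refine ⟨(z, p.2), Or.inr ⟨hz, by show g z ∈ S; rw [hzp]; exact h2, ?_⟩, Prod.ext hzp rfl⟩
      show p.2 = if z ∈ B then b else !b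
      rw [h3, ← hzp]
      simp only [hB]
  · rintro ⟨q, (⟨h1, h2⟩ | ⟨h1, h2, h3⟩), rfl⟩
    · exact Or.inl ⟨⟨q, h1, rfl⟩, h2⟩
    · refine Or.inr ⟨by rw [pvfz_sites_map]; exact ⟨q.1, h1, rfl⟩, h2, ?_⟩
      show q.2 = if g q.1 ∈ B.image g then b else !b
      rw [h3]
      simp only [hB]

theorem pvfz_tab_map (hg : Function.Injective g) (S : Set ℂ) (b : Bool) (𝒜 : Set (Conf PvPt)) (η : Conf PvPt) (C : Finset ℂ) :
    pvpTab S b 𝒜 (cfMap g η) (C.image g) ↔ pvpTab (g ⁻¹' S) b (cfMap g ⁻¹' 𝒜) η C := by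
  unfold pvpTab
  rw [pvfz_paint_map hg]
  rfl

theorem pvfz_Q_map (hg : Function.Injective g) (S : Set ℂ) (b : Bool) (𝒜 : Set (Conf PvPt)) (η : Conf PvPt) :
    pvpQ S b 𝒜 (cfMap g η) = pvpQ (g ⁻¹' S) b (cfMap g ⁻¹' 𝒜) η := by
  classical
  unfold pvpQ
  rw [pvfz_strip_map hg, pvpCnt_image hg, Finset.card_image_of_injective _ hg]
  congr 2
  exact pvpCnt_congr fun C _ => pvfz_tab_map hg S b 𝒜 η C

theorem pvfz_wt_map (hg : Function.Injective g) (S : Set ℂ) (b : Bool) (𝒜 : Set (Conf PvPt)) (η : Conf PvPt) (B : Finset ℂ) :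
    pvpWt S b 𝒜 (cfMap g η) (B.image g) = pvpWt (g ⁻¹' S) b (cfMap g ⁻¹' 𝒜) η B := by
  classical
  unfold pvpWt
  rw [pvfz_strip_map hg, pvfz_stripOn_map hg, pvpK_map hg]
  congr 1
  funext C
  exact propext (pvfz_tab_map hg S b 𝒜 η C)

theorem pvfz_sum_map {M : Type*} [AddCommMonoid M] (hg : Function.Injective g) (J : Finset ℂ) (f : Finset ℂ → M) :
    ∑ B' ∈ (J.image g).powerset, f B' = ∑ B ∈ J.powerset, f (B.image g) := by
  classical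
  have e : (J.image g).powerset = J.powerset.image (Finset.image g) := by
    ext C
    simp only [Finset.mem_powerset, Finset.mem_image]
    constructor
    · intro h
      obtain ⟨D, hD, rfl⟩ := Finset.subset_image_iff.1 h
      exact ⟨D, by exact_mod_cast hD, rfl⟩
    · rintro ⟨D, hD, rfl⟩
      exact Finset.image_subset_image hD
  rw [e, Finset.sum_image fun a _ b _ h => Finset.image_injective hg h]

/-- **covariance of the preparation operator** (label invariance `pvpK_map` of 263) -/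
theorem pvfz_op_map (hg : Function.Injective g) (S : Set ℂ) (b : Bool) (𝒜 : Set (Conf PvPt)) (F : Conf PvPt → ℝ≥0∞) (η : Conf PvPt) :
    pvpOp S b 𝒜 F (cfMap g η) = pvpOp (g ⁻¹' S) b (cfMap g ⁻¹' 𝒜) (fun ζ => F (cfMap g ζ)) η := by
  unfold pvpOp
  rw [pvfz_strip_map hg, pvfz_sum_map hg]
  exact Finset.sum_congr rfl fun B _ => by rw [pvfz_wt_map hg, pvfz_paint_map hg]

theorem pvfz_av_map (hg : Function.Injective g) (S : Set ℂ) (b : Bool) (𝒜 : Set (Conf PvPt)) (Y : Conf PvPt → ℂ) (η : Conf PvPt) :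
    pvpAv S b 𝒜 Y (cfMap g η) = pvpAv (g ⁻¹' S) b (cfMap g ⁻¹' 𝒜) (fun ζ => Y (cfMap g ζ)) η := by
  unfold pvpAv
  rw [pvfz_strip_map hg, pvfz_sum_map hg]
  exact Finset.sum_congr rfl fun B _ => by rw [pvfz_wt_map hg, pvfz_paint_map hg]

theorem pvfz_gam_map (hg : Function.Injective g) (S : Set ℂ) (b : Bool) (𝒜 G : Set (Conf PvPt)) (η : Conf PvPt) :
    pvprGam S b 𝒜 G (cfMap g η) = pvprGam (g ⁻¹' S) b (cfMap g ⁻¹' 𝒜) (cfMap g ⁻¹' G) η := by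
  unfold pvprGam
  rw [pvfz_strip_map hg, pvfz_sum_map hg]
  refine Finset.sum_congr rfl fun B _ => ?_
  rw [pvfz_wt_map hg, pvfz_paint_map hg]
  rfl

/-- the candidate seen through `g` (`g` = the similarity which maps the block to the unit block) -/
def PvfzCand.pull (κ : PvfzCand) (g : ℂ → ℂ) : PvfzCand := ⟨g ⁻¹' κ.S, κ.b, cfMap g ⁻¹' κ.A, cfMap g ⁻¹' κ.Bad⟩

theorem pvfz_eqns_cite5 : True := by
  have := @PvfzCand.pull.eq_1
  trivial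

theorem pvfz_F3_pull (hg : Function.Injective g) (κ : PvfzCand) (p : ℝ) : cfMap g ⁻¹' κ.F3 p = (κ.pull g).F3 p := by
  ext η
  show pvpQ κ.S κ.b κ.A (cfMap g η) < p ↔ pvpQ (g ⁻¹' κ.S) κ.b (cfMap g ⁻¹' κ.A) η < p
  rw [pvfz_Q_map hg]

theorem pvfz_F5_pull (hg : Function.Injective g) (κ : PvfzCand) : cfMap g ⁻¹' κ.F5 = (κ.pull g).F5 := by
  ext η
  show 1 / 2 < pvprGam κ.S κ.b κ.A κ.Bad (cfMap g η) ↔ 1 / 2 < pvprGam (g ⁻¹' κ.S) κ.b (cfMap g ⁻¹' κ.A) (cfMap g ⁻¹' κ.Bad) η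
  rw [pvfz_gam_map hg]

theorem pvfz_sim_inj {ℓ : ℝ} (hℓ : ℓ ≠ 0) (x : ℤ × ℤ) : Function.Injective (pvtdSim ℓ x) := by
  intro z w h
  simp only [pvtdSim] at h
  have h1 := smul_right_injective ℂ (inv_ne_zero hℓ) h
  exact add_right_cancel h1

/-- **the copy at the block `x`, side `ℓ`, of the flag of the unit block is the flag of the pulled back candidates** -/
theorem pvfz_block_ev {I : Type} {ℓ : ℝ} (hℓ : ℓ ≠ 0) (x : ℤ × ℤ) (s : Finset I) (κ : I → PvfzCand) (p : ℝ) (F0 : Set (Conf PvPt)) :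
    pvtdEv ℓ (pvfzBlock s κ p F0) x = pvfzBlock s (fun i => (κ i).pull (pvtdSim ℓ x)) p (pvtdEv ℓ F0 x) := by
  have hg := pvfz_sim_inj hℓ x
  simp only [pvtdEv, pvfzBlock, preimage_union, preimage_iUnion, pvfz_F3_pull hg, pvfz_F5_pull hg]

end cov

/-! ## 6. walk events of record on the retained triangles -/

section walk

variable {ρ : ℝ} {E T A B S : Set ℂ} {c : Bool}

/-- **a walk of colour `c` in the retained triangulation of the window `E`, sites in `T`, from `A` to `B`** (finitely many points in the window) -/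
def pvfzWalk (ρ : ℝ) (E : Set ℂ) (c : Bool) (T A B : Set ℂ) : Set (Conf PvPt) := {η | PvtmCross (pvtrSet ρ E η) c T A B ∧ PvtnFin E η}

theorem pvfz_eqns_cite6 : True := by
  have := @pvfzWalk.eq_1
  trivial

theorem pvfz_walk_reads (ρ : ℝ) (E : Set ℂ) (c : Bool) (T A B : Set ℂ) : Conf.ReadsSet (E ×ˢ univ) (pvfzWalk ρ E c T A B) := by
  have hr : Conf.ReadsSet (E ×ˢ univ) {η : Conf PvPt | PvtmCross (pvtrSet ρ E η) c T A B} := fun η => by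
    show PvtmCross (pvtrSet ρ E (Conf.restr (E ×ˢ univ) η)) c T A B ↔ PvtmCross (pvtrSet ρ E η) c T A B
    rw [pvtr_reads_set ρ E η]
  exact hr.inter (pvtn_reads_fin E)

theorem pvfz_walk_meas (hEm : MeasurableSet E) (hE : MeasurableSet (pvtmIn E)) (hb : Bornology.IsBounded E) (ρ : ℝ) (c : Bool) (hT : MeasurableSet T) (hA : MeasurableSet A)
    (hB : MeasurableSet B) : MeasurableSet (pvfzWalk ρ E c T A B) := by
  have hr : Conf.ReadsSet (E ×ˢ univ) {η : Conf PvPt | PvtmCross (pvtrSet ρ E η) c T A B} := fun η => by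
    show PvtmCross (pvtrSet ρ E (Conf.restr (E ×ˢ univ) η)) c T A B ↔ PvtmCross (pvtrSet ρ E η) c T A B
    rw [pvtr_reads_set ρ E η]
  exact pvtn_local_meas hEm hb (C := {η : Conf PvPt | PvtmCross (pvtrSet ρ E η) c T A B}) (pvtm_cf_cross hE ρ c hT hA hB) hr

theorem pvfz_walk_ms (hEm : MeasurableSet E) (hE : MeasurableSet (pvtmIn E)) (hb : Bornology.IsBounded E) (ρ : ℝ) (c : Bool) (hT : MeasurableSet T) (hA : MeasurableSet A)
    (hB : MeasurableSet B) : PvpMs fun ξ => ξ ∈ pvfzWalk ρ E c T A B := by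
  exact PvpMs.of_set (measurable_pvConf (pvfz_walk_meas hEm hE hb ρ c hT hA hB))

theorem pvfz_fin_iff (E : Set ℂ) (η : Conf PvPt) : PvtnFin E η ↔ (cfSites η ∩ E).Finite := by
  unfold PvtnFin
  constructor
  · intro h
    refine (h.image Prod.fst).subset ?_
    rintro z ⟨⟨p, hp, rfl⟩, hz⟩
    exact ⟨p, ⟨hp, hz, mem_univ _⟩, rfl⟩
  · intro h
    refine (h.prod (finite_univ : (univ : Set Bool).Finite)).subset ?_
    rintro p ⟨hp, hE, -⟩
    exact ⟨⟨⟨p, hp, rfl⟩, hE⟩, mem_univ _⟩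

theorem pvfz_fin_paint (E S : Set ℂ) (b : Bool) (C : Finset ℂ) (ξ : Conf PvPt) : PvtnFin E (cfPaint S b C ξ) ↔ PvtnFin E ξ := by
  rw [pvfz_fin_iff, pvfz_fin_iff, cfPaint_sites]

/-- a triangle of `ξ` gives a triangle of `ξ'` on the same sites; the points which are known to be kept are kept -/
theorem pvfz_tri_mono {ξ ξ' : Conf PvPt} (hs : cfSites ξ' = cfSites ξ) {p q r : PvPt} (h : (p, q, r) ∈ pvtrSet ρ E ξ) :
    ∀ p' ∈ ξ'.pts, ∀ q' ∈ ξ'.pts, ∀ r' ∈ ξ'.pts, p'.1 = p.1 → q'.1 = q.1 → r'.1 = r.1 → (p', q', r') ∈ pvtrSet ρ E ξ' := by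
  intro p' hp' q' hq' r' hr' e1 e2 e3
  refine ⟨hp', hq', hr', ?_⟩
  show PvRet ρ E (cfSites ξ') p'.1 q'.1 r'.1
  rw [hs, e1, e2, e3]
  exact h.2.2.2

theorem pvfz_lift {ξ ξ' : Conf PvPt} (hs : cfSites ξ' = cfSites ξ) {p : PvPt} (hp : p ∈ ξ.pts) : ∃ p' ∈ ξ'.pts, p'.1 = p.1 := by
  have : p.1 ∈ cfSites ξ' := by rw [hs]; exact ⟨p, hp, rfl⟩
  obtain ⟨p', hp', e⟩ := this
  exact ⟨p', hp', e⟩

/-- transfer of a walk between two colourings of the same sites: the points of colour `c` with site in `T` are kept -/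
theorem pvfz_cross_mono {ξ ξ' : Conf PvPt} (hs : cfSites ξ' = cfSites ξ) (hk : ∀ z ∈ T, (z, c) ∈ ξ.pts → (z, c) ∈ ξ'.pts)
    (h : PvtmCross (pvtrSet ρ E ξ) c T A B) : PvtmCross (pvtrSet ρ E ξ') c T A B := by
  obtain ⟨l, ⟨hch, hl⟩, ha, hb⟩ := h
  have hmem : ∀ p ∈ l, p ∈ ξ.pts := by
    intro p hp
    obtain ⟨q, r, h | h | h⟩ := (hl p hp).1
    · exact h.1
    · exact h.2.1
    · exact h.2.2.1
  have hkeep : ∀ p ∈ l, p ∈ ξ'.pts := by
    intro p hp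
    have h1 := hl p hp
    have e : p = (p.1, c) := Prod.ext rfl h1.2.1
    rw [e]
    exact hk _ h1.2.2 (by rw [← e]; exact hmem p hp)
  refine ⟨l, ⟨?_, fun p hp => ⟨?_, (hl p hp).2⟩⟩, ha, hb⟩
  · refine hch.imp_of_mem_imp ?_
    intro p q hp hq hpq
    obtain ⟨r, h | h⟩ := hpq
    · obtain ⟨r', hr', e⟩ := pvfz_lift hs h.2.2.1
      exact ⟨r', Or.inl (pvfz_tri_mono hs h p (hkeep p hp) q (hkeep q hq) r' hr' rfl rfl e)⟩
    · obtain ⟨r', hr', e⟩ := pvfz_lift hs h.2.2.1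
      exact ⟨r', Or.inr (pvfz_tri_mono hs h q (hkeep q hq) p (hkeep p hp) r' hr' rfl rfl e)⟩
  · obtain ⟨q, r, h | h | h⟩ := (hl p hp).1
    · obtain ⟨q', hq', e⟩ := pvfz_lift hs h.2.1
      obtain ⟨r', hr', e'⟩ := pvfz_lift hs h.2.2.1
      exact ⟨q', r', Or.inl (pvfz_tri_mono hs h p (hkeep p hp) q' hq' r' hr' rfl e e')⟩
    · obtain ⟨q', hq', e⟩ := pvfz_lift hs h.1
      obtain ⟨r', hr', e'⟩ := pvfz_lift hs h.2.2.1
      exact ⟨q', r', Or.inr (Or.inl (pvfz_tri_mono hs h q' hq' p (hkeep p hp) r' hr' e rfl e'))⟩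
    · obtain ⟨q', hq', e⟩ := pvfz_lift hs h.1
      obtain ⟨r', hr', e'⟩ := pvfz_lift hs h.2.1
      exact ⟨q', r', Or.inr (Or.inr (pvfz_tri_mono hs h q' hq' r' hr' p (hkeep p hp) e e' rfl))⟩

/-- **the walk event of colour `c` is increasing in the sites of colour `c`, for EVERY strip** -/
theorem pvfz_walk_inc (ρ : ℝ) (E : Set ℂ) (c : Bool) (T A B S : Set ℂ) : PvpInc S c (pvfzWalk ρ E c T A B) := by
  intro ξ B₁ B₂ hB h
  refine ⟨pvfz_cross_mono (by rw [cfPaint_sites, cfPaint_sites]) (fun z _ hz => ?_) h.1, (pvfz_fin_paint E S c B₂ ξ).2 ((pvfz_fin_paint E S c B₁ ξ).1 h.2)⟩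
  rcases pvp_mem_paint.1 hz with h1 | ⟨h1, h2, h3⟩
  · exact pvp_mem_paint.2 (Or.inl h1)
  · refine pvp_mem_paint.2 (Or.inr ⟨h1, h2, ?_⟩)
    have hz1 : z ∈ B₁ := by
      by_contra hn
      simp only [if_neg hn] at h3
      cases c <;> simp at h3
    simp only [if_pos (hB hz1)]

/-- **the walk event does not see the colours of a strip disjoint from `T`** -/
theorem pvfz_walk_blind (ρ : ℝ) (E : Set ℂ) (c : Bool) (A B : Set ℂ) (hd : Disjoint S T) : PvpBlind S fun ξ => ξ ∈ pvfzWalk ρ E c T A B := by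
  intro b C ξ
  have hS : ∀ z ∈ T, z ∉ S := fun z hz hs => Set.disjoint_left.1 hd hs hz
  apply propext
  constructor
  · intro h
    refine ⟨pvfz_cross_mono (by rw [cfPaint_sites]) (fun z hzT hz => ?_) h.1, (pvfz_fin_paint E S b C ξ).1 h.2⟩
    rcases pvp_mem_paint.1 hz with h1 | ⟨-, h2, -⟩
    · exact h1.1
    · exact absurd h2 (hS z hzT)
  · intro h
    refine ⟨pvfz_cross_mono (by rw [cfPaint_sites]) (fun z hzT hz => ?_) h.1, (pvfz_fin_paint E S b C ξ).2 h.2⟩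
    exact pvp_mem_paint.2 (Or.inl ⟨hz, hS z hzT⟩)

/-- Delaunay meaning: consecutive points of a retained walk are joined by an edge of a Delaunay triangle of the FULL configuration -/
theorem pvfz_adj_tri {η : Conf PvPt} {p q : PvPt} (h : PvtmAdj (pvtrSet ρ E η) p q) :
    ∃ r : ℂ, DelTri (cfSites η) p.1 q.1 r ∨ DelTri (cfSites η) q.1 p.1 r := by
  obtain ⟨r, h | h⟩ := h
  · exact ⟨r.1, Or.inl (pvtr_set_tri h)⟩
  · exact ⟨r.1, Or.inr (pvtr_set_tri h)⟩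

/-- converse on the mesh event: an edge of a Delaunay triangle with an end in the `3ρ`-core is retained -/
theorem pvfz_adj_of_tri (hρ : 0 < ρ) {η : Conf PvPt} (hm : PvtrMesh ρ E (cfSites η)) {p q : PvPt} (hp : p ∈ η.pts) (hq : q ∈ η.pts) (hc : p.1 ∈ pvtrCore (3 * ρ) E) {r : ℂ}
    (h : DelTri (cfSites η) p.1 q.1 r ∨ DelTri (cfSites η) q.1 p.1 r) : PvtmAdj (pvtrSet ρ E η) p q := by
  rcases h with h | h
  · obtain ⟨s, hs, rfl⟩ : r ∈ cfSites η := h.2.2.1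
    exact ⟨s, Or.inl ⟨hp, hq, hs, pvtr_of_mesh_vertex hρ hm hc h⟩⟩
  · obtain ⟨s, hs, rfl⟩ : r ∈ cfSites η := h.2.2.1
    exact ⟨s, Or.inr ⟨hq, hp, hs, (pvtr_of_mesh_vertex hρ hm hc (del_tri_cyc h)).cyc.cyc⟩⟩

/-- the similarity as a permutation of the coloured points -/
noncomputable def pvfzPerm (α β : ℂ) (hα : α ≠ 0) : Equiv.Perm PvPt := (vorSimH α β hα).toEquiv.prodCongr (Equiv.refl Bool)

theorem pvfz_perm_apply (α β : ℂ) (hα : α ≠ 0) (p : PvPt) : pvfzPerm α β hα p = (vorSim α β p.1, p.2) := rfl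

/-- covariance of the set of coloured retained triangles -/
theorem pvfz_set_sim {α : ℂ} (hα : α ≠ 0) (β : ℂ) (ρ : ℝ) (E : Set ℂ) (η : Conf PvPt) :
    pvtrSet (‖α‖ * ρ) (vorSim α β '' E) (cfMap (vorSim α β) η) = pvtnMap (pvfzPerm α β hα) '' pvtrSet ρ E η := by
  have hinj := vorSim_injective hα β
  ext ⟨a, b, d⟩
  constructor
  · rintro ⟨⟨a', ha, rfl⟩, ⟨b', hb, rfl⟩, ⟨d', hd, rfl⟩, h⟩
    refine ⟨(a', b', d'), ⟨ha, hb, hd, ?_⟩, rfl⟩
    rw [pvfz_sites_map] at h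
    exact (pvtr_sim hα β).1 h
  · rintro ⟨⟨a', b', d'⟩, ⟨ha, hb, hd, h⟩, e⟩
    simp only [pvtnMap, Prod.mk.injEq] at e
    obtain ⟨rfl, rfl, rfl⟩ := e
    refine ⟨⟨a', ha, rfl⟩, ⟨b', hb, rfl⟩, ⟨d', hd, rfl⟩, ?_⟩
    rw [pvfz_sites_map]
    exact (pvtr_sim hα β).2 h

/-- a crossing is transported by a permutation which keeps the colours -/
theorem pvfz_cross_map (φ : Equiv.Perm PvPt) (g : ℂ → ℂ) (hg : Function.Injective g) (hφ : ∀ p, φ p = (g p.1, p.2)) {Z : Set (PvPt × PvPt × PvPt)} :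
    PvtmCross (pvtnMap φ '' Z) c (g '' T) (g '' A) (g '' B) ↔ PvtmCross Z c T A B := by
  have hmem : ∀ (U : Set ℂ) (p : PvPt), (φ p).1 ∈ g '' U ↔ p.1 ∈ U := fun U p => by
    rw [hφ]
    exact hg.mem_set_image
  have hfor : ∀ {Z : Set (PvPt × PvPt × PvPt)} (l : List PvPt), PvtmPath Z c T l → PvtmPath (pvtnMap φ '' Z) c (g '' T) (l.map φ) := by
    intro Z l H
    refine ⟨(pvtn_chain_map φ).2 H.1, fun p hp => ?_⟩
    obtain ⟨q, hq, rfl⟩ := List.mem_map.1 hp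
    obtain ⟨h1, h2, h3⟩ := H.2 q hq
    exact ⟨(pvtn_V_map φ).2 h1, by rw [hφ]; exact h2, (hmem T q).2 h3⟩
  constructor
  · rintro ⟨l, hl, ⟨a, ha, haA⟩, ⟨b, hb, hbB⟩⟩
    have el : l = (l.map φ.symm).map φ := by
      rw [List.map_map]
      simp
    rw [el] at hl ha hb
    set l' := l.map φ.symm with hl'
    refine ⟨l', ⟨(pvtn_chain_map φ).1 hl.1, fun p hp => ?_⟩, ?_, ?_⟩
    · obtain ⟨h1, h2, h3⟩ := hl.2 (φ p) (List.mem_map_of_mem hp)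
      exact ⟨(pvtn_V_map φ).1 h1, by rw [hφ] at h2; exact h2, (hmem T p).1 h3⟩
    · rw [List.head?_map] at ha
      obtain ⟨a', ha', rfl⟩ := Option.mem_map.1 ha
      exact ⟨a', ha', (hmem A a').1 haA⟩
    · rw [List.getLast?_map] at hb
      obtain ⟨b', hb', rfl⟩ := Option.mem_map.1 hb
      exact ⟨b', hb', (hmem B b').1 hbB⟩
  · rintro ⟨l, hl, ⟨a, ha, haA⟩, ⟨b, hb, hbB⟩⟩
    exact ⟨l.map φ, hfor l hl, ⟨φ a, by rw [List.head?_map]; exact Option.mem_map_of_mem _ ha, (hmem A a).2 haA⟩,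
      ⟨φ b, by rw [List.getLast?_map]; exact Option.mem_map_of_mem _ hb, (hmem B b).2 hbB⟩⟩

theorem pvfz_fin_sim {g : ℂ → ℂ} (hg : Function.Injective g) (E : Set ℂ) (η : Conf PvPt) : PvtnFin (g '' E) (cfMap g η) ↔ PvtnFin E η := by
  rw [pvfz_fin_iff, pvfz_fin_iff, pvfz_sites_map, ← image_inter hg]
  exact finite_image_iff hg.injOn

/-- covariance of the walk events under a similarity -/
theorem pvfz_walk_sim {α : ℂ} (hα : α ≠ 0) (β : ℂ) (ρ : ℝ) (E : Set ℂ) (c : Bool) (T A B : Set ℂ) :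
    cfMap (vorSim α β) ⁻¹' pvfzWalk (‖α‖ * ρ) (vorSim α β '' E) c (vorSim α β '' T) (vorSim α β '' A) (vorSim α β '' B) = pvfzWalk ρ E c T A B := by
  ext η
  show (PvtmCross (pvtrSet (‖α‖ * ρ) (vorSim α β '' E) (cfMap (vorSim α β) η)) c _ _ _ ∧ PvtnFin (vorSim α β '' E) (cfMap (vorSim α β) η)) ↔ _
  rw [pvfz_set_sim hα β, pvfz_cross_map (pvfzPerm α β hα) (vorSim α β) (vorSim_injective hα β) (pvfz_perm_apply α β hα), pvfz_fin_sim (vorSim_injective hα β)]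
  rfl

/-- **the strip candidate of record**: strip `S`, forced colour `c`, strip event = a walk of colour `c` through `T ⊆ S`;   everything `PvfzCand.Reg` / `.Loc` asks of `A` -/
theorem pvfz_walk_cand (hEm : MeasurableSet E) (hE : MeasurableSet (pvtmIn E)) (hb : Bornology.IsBounded E) (ρ : ℝ) (c : Bool) (hT : MeasurableSet T) (hA : MeasurableSet A)
    (hB : MeasurableSet B) (hSm : MeasurableSet S) (hSE : S ⊆ E) {Bad : Set (Conf PvPt)} (hBr : Conf.ReadsSet (E ×ˢ univ) Bad) (hBm : PvpMs fun ξ => ξ ∈ Bad) :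
    (PvfzCand.mk S c (pvfzWalk ρ E c T A B) Bad).Reg ∧ (PvfzCand.mk S c (pvfzWalk ρ E c T A B) Bad).Loc (E ×ˢ univ) := by
  exact ⟨⟨hSm, hb.subset hSE, pvfz_walk_inc ρ E c T A B S, pvfz_walk_ms hEm hE hb ρ c hT hA hB, hBm⟩,
    ⟨fun p hp => ⟨hSE hp, mem_univ _⟩, pvfz_walk_reads ρ E c T A B, hBr⟩⟩

end walk

/-- **THE BRIDGE HOLDS** (`pvmz_apply` of 59, `Tr/MsConf`) -/
theorem pvfz_br (ε : ℝ) : PvfzBr ε := fun _ hF => (pvmz_apply hF ε).le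

/-! ## 7. THE FLAG OF ROAD P at all centres and all scales -/

section main

variable {I : Type}

/-- **unit events which depend on the intensity ⟹ the two fields (`reads`, `small`) of the `ε`-form of `PvxpFlag`** (`Flag m ε p` = the copy at the centre `l9Pt (h m) p`, scale `h m`, of the unit event at `ε' = ε / h m`) -/
theorem pvfz_flag_copies {h : ℕ → ℝ} (hh : ∀ m, 0 < h m) {w : ℕ} {𝔽 : ℝ → Set (Conf PvPt)} (hr : ∀ ε, Conf.ReadsSet (pvtdWin 1 w 0) (𝔽 ε)) {ζ : ℝ≥0∞}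
    (hq : ∀ᶠ ε in 𝓝[>] (0 : ℝ), pvP ε (𝔽 ε) ≤ ζ) :
    (∀ m ε p, Conf.ReadsSet (pvtdWin (h m) w p) (pvtdEv (h m) (𝔽 ((h m)⁻¹ * ε)) p)) ∧
      ∀ m, ∀ᶠ ε in 𝓝[>] (0 : ℝ), ∀ p, pvP ε (pvtdEv (h m) (𝔽 ((h m)⁻¹ * ε)) p) ≤ ζ := by
  refine ⟨fun m ε p => pvtd_ev_reads (hh m) w p (hr _), fun m => ?_⟩
  have h1 : Tendsto (fun ε : ℝ => (h m)⁻¹ * ε) (𝓝[>] 0) (𝓝[>] 0) := by
    refine tendsto_nhdsWithin_iff.2 ⟨?_, ?_⟩
    · have : Tendsto (fun ε : ℝ => (h m)⁻¹ * ε) (𝓝 0) (𝓝 ((h m)⁻¹ * 0)) := tendsto_const_nhds.mul tendsto_id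
      rw [mul_zero] at this
      exact this.mono_left nhdsWithin_le_nhds
    · filter_upwards [self_mem_nhdsWithin] with ε hε
      exact mul_pos (inv_pos.2 (hh m)) hε
  filter_upwards [h1.eventually hq] with ε hε p
  exact (pvtd_ev_le (hh m).ne' p ε _).trans hε

/-- the flag of road P at the centre `l9Pt (h m) p`: the copy of the unit block flag -/
def pvfzFlag (h : ℕ → ℝ) (s : Finset I) (κ : ℝ → I → PvfzCand) (p₀ : ℝ) (F0 : ℝ → Set (Conf PvPt)) (m : ℕ) (ε : ℝ) (p : ℤ × ℤ) : Set (Conf PvPt) :=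
  pvtdEv (h m) (pvfzBlock s (κ ((h m)⁻¹ * ε)) p₀ (F0 ((h m)⁻¹ * ε))) p

theorem pvfz_eqns_cite7 : True := by
  have := @pvfzFlag.eq_1; have := @pvfzPerm.eq_1
  trivial

/-- **P14, THE EXIT**.   DATA AT UNIT SCALE (`h = 1`, centre `0`, intensity parameter `ε'`): the finite menu `s`, the candidates `κ ε' i`, the static part `F0 ε'` (F0 ∪ F2), all read from the window `pvtdWin 1 w 0`;   three costs `q0 q3 q5`.
CONCLUSION: `pvfzFlag` has the two fields of the `ε`-form of `PvxpFlag`, and off the flag, for EVERY type `i` of the menu, the PULLED BACK candidate is neither F3 nor F5 (feed `pvfz_use`, `pvfz_use_K`). -/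
theorem pvfz_flag_main {h : ℕ → ℝ} (hh : ∀ m, 0 < h m) {w : ℕ} (s : Finset I) (κ : ℝ → I → PvfzCand) (hloc : ∀ ε, ∀ i ∈ s, (κ ε i).Loc (pvtdWin 1 w 0)) (hreg : ∀ ε, ∀ i ∈ s, (κ ε i).Reg)
    {p₀ : ℝ} (hp : 0 < p₀) (F0 : ℝ → Set (Conf PvPt)) (h0r : ∀ ε, Conf.ReadsSet (pvtdWin 1 w 0) (F0 ε))
    {q0 q3 q5 ζ : ℝ≥0∞} (h0 : ∀ᶠ ε in 𝓝[>] (0 : ℝ), pvP ε (F0 ε) ≤ q0) (h3 : ∀ i ∈ s, ∀ᶠ ε in 𝓝[>] (0 : ℝ), pvP ε ((κ ε i).F3 p₀) ≤ q3)
    (h5 : ∀ i ∈ s, ∀ᶠ ε in 𝓝[>] (0 : ℝ), pvP ε ((κ ε i).A ∩ (κ ε i).Bad) ≤ q5) (hnum : q0 + s.card * (q3 + 2 * ((ENNReal.ofReal p₀)⁻¹ * q5)) ≤ ζ) :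
    (∀ m ε p, Conf.ReadsSet (pvtdWin (h m) w p) (pvfzFlag h s κ p₀ F0 m ε p)) ∧
    (∀ m, ∀ᶠ ε in 𝓝[>] (0 : ℝ), ∀ p, pvP ε (pvfzFlag h s κ p₀ F0 m ε p) ≤ ζ) ∧
    ∀ m ε p ξ, ξ ∉ pvfzFlag h s κ p₀ F0 m ε p → ξ ∉ pvtdEv (h m) (F0 ((h m)⁻¹ * ε)) p ∧
      ∀ i ∈ s, ξ ∉ ((κ ((h m)⁻¹ * ε) i).pull (pvtdSim (h m) p)).F3 p₀ ∧ ξ ∉ ((κ ((h m)⁻¹ * ε) i).pull (pvtdSim (h m) p)).F5 := by
  obtain ⟨a1, a2⟩ := pvfz_flag_copies hh (𝔽 := fun ε => pvfzBlock s (κ ε) p₀ (F0 ε)) (fun ε => pvfz_block_reads (h0r ε) (hloc ε) p₀)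
    (pvfz_block_small pvfz_br s κ hreg hp F0 h0 h3 h5 hnum)
  refine ⟨a1, a2, fun m ε p ξ hξ => ?_⟩
  unfold pvfzFlag at hξ
  rw [pvfz_block_ev (hh m).ne'] at hξ
  exact pvfz_block_use hξ

end main

end Claimed.Agent.R289
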