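import Claimed.Agent.R289.Tr.Prep
import Claimed.Agent.R289.Tr.RoadP

/-!
# Row 289 (S0537, Cardy for Poisson-Voronoi), THE WALL, ROAD P, file Tr/PrepU : TR18.1 (DOMINATION) OVER UPPER EXPECTATIONS      (helper286; prefix `pvnz_`, `pvnz`)

Master note: `origin/helper273:notes/R289/ROADP_273.md` (P13, P17 (b)), `origin/helper59:notes/R289/TR18_59.md` (TR18.1).      On: `Tr/Prep.lean` (263: the label invariant monotone kernel `pvpK`, the operator `pvpOp`),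
`Tr/RoadP.lean` (273: finite weight operators `PvrpK`), `Defs/Up.lean` (163: `PvUp`, `pvUpInt`, `PvUp.iter`), `PppQ.lean` (261: quenched split).

WHY.   The record of the exit of the wall runs over the ITERATED upper expectation `PvUp.iter (pvGeo ε) pvCol` (ruling H1 of 73).   The integrand `Z_π` of the free arc (a sum over all arcs `g`), the usable states `G`,
the potentials are NOT known to be jointly measurable.   Here the domination `E[1{Q ≥ p} K F] ≤ p⁻¹ E[F]` is proved for EVERY `F : Conf PvPt → ℝ≥0∞`: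
at a fixed good geometry `g` the operator acts on the functions of the colouring (`pvnzOp`), it maps a measurable majorant of `c ↦ F (ξ_c)` to a measurable majorant of `c ↦ (K F)(ξ_c)`, and the column identity `pvpK_col` of 263 gives the bound.
The only measurability which is used: the sections `{c | ξ_c ∈ 𝒜}` of the strip event (free for an event read in a bounded window: `pvqu_loc_apply`).

* sec. 0  upper integrals: `pvnz_int_mono_ae`, `pvnz_iter_le_ae`, `pvnz_iter_quenched_ae`.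
* sec. 1  the operator in labels at a fixed geometry: `pvnzOp`, `pvnz_op_eq` (dictionary), `pvnz_op_meas`, `pvnz_col` (columns), **`pvnz_lab_dom`**.
* sec. 2  **`pvnz_sec_dom`** (fixed geometry, arbitrary `F`, upper integral in the colours), **`pvnz_dom1`** (`PvUp.iter`), `pvnzH` (the geometries-with-colours on which `Q ≥ p`).
* sec. 3  two disjoint strips: `pvnz_Q_blind`, `pvnz_ind_two`, **`pvnz_dom2`**.
* sec. 4  the instance `pvnzK S b 𝒜 : PvrpK (Conf PvPt) (Finset ℂ)` of the finite weight operators of 273; `Op = pvpOp`, `Av = pvpAv`; the blindness fields `bl_G bl_kin bl_gam bl_av` of `PvrpIn`; `dom1`, `dom2` in the words of `PvrpK`.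
* sec. 5  Markov after two preparations: **`pvnz_markov2`** (the probability side of P17 (b)).
-/

set_option autoImplicit false
set_option linter.unusedSectionVars false

namespace Claimed.Agent.R289

open MeasureTheory ProbabilityTheory Set Filter Topology Claims.C0465
open scoped ENNReal NNReal

/-! ## 0. upper integrals -/

section up

variable {α : Type} [MeasurableSpace α] (μ : Measure α)

/-- the upper integral does not see null sets -/
theorem pvnz_int_mono_ae {F G : α → ℝ≥0∞} (h : ∀ᵐ a ∂μ, F a ≤ G a) : pvUpInt μ F ≤ pvUpInt μ G := by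
  refine le_iInf fun φ => ?_
  set N := toMeasurable μ {a | ¬ F a ≤ G a} with hNdef
  have hN : MeasurableSet N := measurableSet_toMeasurable _ _
  have hN0 : μ N = 0 := by
    rw [hNdef, measure_toMeasurable]
    exact ae_iff.1 h
  refine (pvup_int_le μ (φ := fun a => φ.1 a + N.indicator (fun _ => ∞) a) (φ.2.1.add (measurable_const.indicator hN)) fun a => ?_).trans ?_
  · by_cases ha : a ∈ N
    · rw [indicator_of_mem ha]
      simp
    · have h1 : F a ≤ G a := by_contra fun hc => ha (subset_toMeasurable _ _ hc)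
      exact (h1.trans (φ.2.2 a)).trans le_self_add
  · rw [lintegral_add_left φ.2.1, lintegral_indicator_const hN, hN0, mul_zero, add_zero]

variable {G K : Type} [MeasurableSpace G] [MeasurableSpace K] (γ : Measure G) (κ : Measure K) [IsProbabilityMeasure γ] [IsProbabilityMeasure κ]

/-- comparison of two iterated upper expectations from a comparison of the inner upper integrals at almost every geometry -/
theorem pvnz_iter_le_ae {F F' : G × K → ℝ≥0∞} {C : ℝ≥0∞} (hC : C ≠ ∞)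
    (h : ∀ᵐ g ∂γ, pvUpInt κ (fun k => F (g, k)) ≤ C * pvUpInt κ (fun k => F' (g, k))) :
    (PvUp.iter γ κ).E F ≤ C * (PvUp.iter γ κ).E F' :=
  (pvnz_int_mono_ae γ h).trans (pvup_int_smul γ C _ hC)

/-- INPUT 3 of `Defs/Up` with the quenched bound at almost every geometry only -/
theorem pvnz_iter_quenched_ae {F : G × K → ℝ≥0∞} {w : G → ℝ≥0∞} (hw : Measurable w) (h : ∀ᵐ g ∂γ, pvUpInt κ (fun k => F (g, k)) ≤ w g) :
    (PvUp.iter γ κ).E F ≤ ∫⁻ g, w g ∂γ :=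
  (pvnz_int_mono_ae γ h).trans (pvup_int_of_meas γ hw).le

end up

/-! ## 1. the operator in labels at a fixed geometry -/

section lab

variable {S : Set ℂ} {b : Bool} {𝒜 : Set (Conf PvPt)}

/-- the preparation operator in labels, acting on the functions of the colouring (geometry `g` fixed, `I` = the labels of the strip) -/
noncomputable def pvnzOp (g : PvGeoT) (I : Finset PvIx) (b : Bool) (𝒜 : Set (Conf PvPt)) (φ : PvColT → ℝ≥0∞) (c : PvColT) : ℝ≥0∞ :=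
  ∑ C ∈ I.powerset, ENNReal.ofReal (pvpWtI I b 𝒜 (pvMerge (g, c)) C) * φ (pvpPaintI I b C c)

/-- the truth table of the strip event in labels -/
def pvnzTab (g : PvGeoT) (I : Finset PvIx) (b : Bool) (𝒜 : Set (Conf PvPt)) (c : PvColT) (C : Finset PvIx) : Prop :=
  pvConf (pvMerge (g, pvpPaintI I b C c)) ∈ 𝒜

/-- the quenched probability of the strip event in labels -/
noncomputable def pvnzQ (g : PvGeoT) (I : Finset PvIx) (b : Bool) (𝒜 : Set (Conf PvPt)) (c : PvColT) : ℝ :=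
  (pvpCnt I (pvnzTab g I b 𝒜 c) : ℝ) / 2 ^ I.card

theorem pvnz_eqns_cite : True := by
  have := @pvnzOp.eq_1; have := @pvnzTab.eq_1; have := @pvnzQ.eq_1
  trivial

/-- dictionary: the operator of 263 at the configuration of `(g, c)` -/
theorem pvnz_op_eq {g : PvGeoT} (hg : PvgOk g) (hSb : Bornology.IsBounded S) (b : Bool) (𝒜 : Set (Conf PvPt)) (F : Conf PvPt → ℝ≥0∞) (c : PvColT) :
    pvpOp S b 𝒜 F (pvConf (pvMerge (g, c))) = pvnzOp g (pvpIdx S g) b 𝒜 (fun c' => F (pvConf (pvMerge (g, c')))) c :=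
  pvp_op_eq (hg.ok c) hSb b 𝒜 F

theorem pvnz_Q_eq {g : PvGeoT} (hg : PvgOk g) (hSb : Bornology.IsBounded S) (b : Bool) (𝒜 : Set (Conf PvPt)) (c : PvColT) :
    pvpQ S b 𝒜 (pvConf (pvMerge (g, c))) = pvnzQ g (pvpIdx S g) b 𝒜 c :=
  pvp_Q_eq (hg.ok c) hSb b 𝒜

theorem pvnz_paint_paint (I : Finset PvIx) (b : Bool) (C B : Finset PvIx) (c : PvColT) : pvpPaintI I b C (pvpPaintI I b B c) = pvpPaintI I b C c := by
  funext i
  unfold pvpPaintI
  by_cases h : i ∈ I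
  · simp only [if_pos h]
  · simp only [if_neg h]

theorem pvnz_tab_paint (g : PvGeoT) (I : Finset PvIx) (b : Bool) (𝒜 : Set (Conf PvPt)) (B : Finset PvIx) (c : PvColT) :
    pvnzTab g I b 𝒜 (pvpPaintI I b B c) = pvnzTab g I b 𝒜 c := by
  funext C
  unfold pvnzTab
  rw [pvnz_paint_paint]

theorem pvnz_Q_paint (g : PvGeoT) (I : Finset PvIx) (b : Bool) (𝒜 : Set (Conf PvPt)) (B : Finset PvIx) (c : PvColT) :
    pvnzQ g I b 𝒜 (pvpPaintI I b B c) = pvnzQ g I b 𝒜 c := by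
  unfold pvnzQ
  rw [pvnz_tab_paint]

theorem pvnz_filter_paint (I B : Finset PvIx) (b : Bool) (c : PvColT) : ∀ i ∈ I, (i ∈ I.filter (fun i => pvpPaintI I b B c i = b) ↔ i ∈ B) := by
  intro i hi
  rw [Finset.mem_filter]
  unfold pvpPaintI
  simp only [if_pos hi]
  by_cases h : i ∈ B
  · simp [h, hi]
  · simp [h, hi]

/-- the weight at a repainted colouring -/
theorem pvnz_wt_paint (g : PvGeoT) (I B : Finset PvIx) (b : Bool) (𝒜 : Set (Conf PvPt)) (c : PvColT) (C : Finset PvIx) :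
    pvpWtI I b 𝒜 (pvMerge (g, pvpPaintI I b B c)) C = pvpK I (pvnzTab g I b 𝒜 c) B C := by
  unfold pvpWtI
  refine pvpK_congr (fun C' _ => ?_) (fun i hi => ?_) (fun _ _ => Iff.rfl)
  · show pvConf (pvMerge (g, pvpPaintI I b C' (pvpPaintI I b B c))) ∈ 𝒜 ↔ _
    rw [pvnz_paint_paint]
    rfl
  · exact pvnz_filter_paint I B b c i hi

/-- the table is an up-set -/
theorem pvnz_tab_up {g : PvGeoT} (hg : PvgOk g) (hSb : Bornology.IsBounded S) (hinc : PvpInc S b 𝒜) (c : PvColT) :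
    PvpUp (pvpIdx S g) (pvnzTab g (pvpIdx S g) b 𝒜 c) := by
  intro C C' hCC' _ hC
  unfold pvnzTab at hC ⊢
  rw [← pvp_paint_eq hg hSb] at hC ⊢
  exact hinc _ _ _ (Finset.image_subset_image hCC') hC

/-- measurability of the weights in the colouring -/
theorem pvnz_wt_meas (g : PvGeoT) (I : Finset PvIx) (b : Bool) (hA : MeasurableSet {c : PvColT | pvConf (pvMerge (g, c)) ∈ 𝒜}) (C : Finset PvIx) :
    Measurable fun c : PvColT => pvpWtI I b 𝒜 (pvMerge (g, c)) C := by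
  refine pvp_meas_of_pattern (κ := {C' // C' ∈ I.powerset} ⊕ {i // i ∈ I})
    (fun k => Sum.elim (fun C' => {c : PvColT | pvConf (pvMerge (g, pvpPaintI I b C'.1 c)) ∈ 𝒜}) (fun i => {c : PvColT | c i.1 = b}) k) ?_ _ ?_
  · rintro (C' | i)
    · exact (measurable_pvpPaintI I b C'.1) hA
    · have hm : Measurable fun c : PvColT => c i.1 := measurable_pi_apply i.1
      exact hm (measurableSet_singleton b)
  · intro c c' h
    unfold pvpWtI
    refine pvpK_congr (fun C' hC' => h (Sum.inl ⟨C', Finset.mem_powerset.2 hC'⟩)) (fun i hi => ?_) (fun _ _ => Iff.rfl)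
    have h2 : c i = b ↔ c' i = b := h (Sum.inr ⟨i, hi⟩)
    show i ∈ I.filter (fun i => c i = b) ↔ i ∈ I.filter (fun i => c' i = b)
    simp only [Finset.mem_filter, h2]

theorem pvnz_Q_meas (g : PvGeoT) (I : Finset PvIx) (b : Bool) (hA : MeasurableSet {c : PvColT | pvConf (pvMerge (g, c)) ∈ 𝒜}) :
    Measurable (pvnzQ g I b 𝒜) := by
  refine pvp_meas_of_pattern (κ := {C' // C' ∈ I.powerset}) (fun C' => {c : PvColT | pvConf (pvMerge (g, pvpPaintI I b C'.1 c)) ∈ 𝒜}) ?_ _ ?_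
  · intro C'
    exact (measurable_pvpPaintI I b C'.1) hA
  · intro c c' h
    unfold pvnzQ
    congr 2
    exact pvpCnt_congr fun C' hC' => h ⟨C', Finset.mem_powerset.2 hC'⟩

/-- the operator in labels maps measurable functions to measurable functions -/
theorem pvnz_op_meas (g : PvGeoT) (I : Finset PvIx) (b : Bool) (hA : MeasurableSet {c : PvColT | pvConf (pvMerge (g, c)) ∈ 𝒜}) {φ : PvColT → ℝ≥0∞}
    (hφ : Measurable φ) : Measurable (pvnzOp g I b 𝒜 φ) := by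
  unfold pvnzOp
  exact Finset.measurable_fun_sum _ fun C _ => (pvnz_wt_meas g I b hA C).ennreal_ofReal.mul (hφ.comp (measurable_pvpPaintI I b C))

theorem pvnz_op_mono (g : PvGeoT) (I : Finset PvIx) (b : Bool) (𝒜 : Set (Conf PvPt)) {φ ψ : PvColT → ℝ≥0∞} (h : ∀ c, φ c ≤ ψ c) (c : PvColT) :
    pvnzOp g I b 𝒜 φ c ≤ pvnzOp g I b 𝒜 ψ c := by
  unfold pvnzOp
  exact Finset.sum_le_sum fun C _ => mul_le_mul_right (h _) _

open Classical in
/-- **COLUMNS**: the sum of the prepared function over all repaintings of the strip -/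
theorem pvnz_col (g : PvGeoT) (I : Finset PvIx) (b : Bool) (𝒜 : Set (Conf PvPt)) (c : PvColT) (hup : PvpUp I (pvnzTab g I b 𝒜 c))
    (hne : pvpCnt I (pvnzTab g I b 𝒜 c) ≠ 0) (φ : PvColT → ℝ≥0∞) :
    ∑ B ∈ I.powerset, pvnzOp g I b 𝒜 φ (pvpPaintI I b B c)
      = ∑ C ∈ I.powerset, ENNReal.ofReal (if pvnzTab g I b 𝒜 c C then (2 : ℝ) ^ I.card / pvpCnt I (pvnzTab g I b 𝒜 c) else 0) * φ (pvpPaintI I b C c) := by
  have h1 : ∀ B ∈ I.powerset, pvnzOp g I b 𝒜 φ (pvpPaintI I b B c)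
      = ∑ C ∈ I.powerset, ENNReal.ofReal (pvpK I (pvnzTab g I b 𝒜 c) B C) * φ (pvpPaintI I b C c) := by
    intro B _
    unfold pvnzOp
    refine Finset.sum_congr rfl fun C _ => ?_
    rw [pvnz_wt_paint g I B, pvnz_paint_paint]
  rw [Finset.sum_congr rfl h1, Finset.sum_comm]
  refine Finset.sum_congr rfl fun C hC => ?_
  rw [← Finset.sum_mul, ← ENNReal.ofReal_sum_of_nonneg (fun B _ => pvpK_nonneg I _ B C), pvpK_col hup hne (Finset.mem_powerset.1 hC)]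

/-- **DOMINATION IN LABELS** at a fixed geometry: `∫ 1{p ≤ Q} K φ ≤ p⁻¹ ∫ φ` for measurable `φ` -/
theorem pvnz_lab_dom (g : PvGeoT) (I : Finset PvIx) (b : Bool) (hA : MeasurableSet {c : PvColT | pvConf (pvMerge (g, c)) ∈ 𝒜})
    (hup : ∀ c, PvpUp I (pvnzTab g I b 𝒜 c)) {p : ℝ} (hp : 0 < p) {φ : PvColT → ℝ≥0∞} (hφ : Measurable φ) :
    ∫⁻ c, {c | p ≤ pvnzQ g I b 𝒜 c}.indicator (pvnzOp g I b 𝒜 φ) c ∂pvCol ≤ (ENNReal.ofReal p)⁻¹ * ∫⁻ c, φ c ∂pvCol := by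
  classical
  have hH : MeasurableSet {c | p ≤ pvnzQ g I b 𝒜 c} := measurableSet_le measurable_const (pvnz_Q_meas g I b hA)
  have m1 : Measurable ({c | p ≤ pvnzQ g I b 𝒜 c}.indicator (pvnzOp g I b 𝒜 φ)) := (pvnz_op_meas g I b hA hφ).indicator hH
  have hpt : (ENNReal.ofReal p)⁻¹ ≠ ∞ := by
    rw [Ne, ENNReal.inv_eq_top, ENNReal.ofReal_eq_zero, not_le]
    exact hp
  rw [pvp_resample I b m1, pvp_resample I b hφ, ← lintegral_const_mul' _ _ hpt]
  refine lintegral_mono fun c => ?_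
  rw [← mul_assoc, mul_comm (ENNReal.ofReal p)⁻¹, mul_assoc]
  refine mul_le_mul_right ?_ _
  by_cases hc : p ≤ pvnzQ g I b 𝒜 c
  · have e1 : ∀ B ∈ I.powerset, {c | p ≤ pvnzQ g I b 𝒜 c}.indicator (pvnzOp g I b 𝒜 φ) (pvpPaintI I b B c) = pvnzOp g I b 𝒜 φ (pvpPaintI I b B c) := by
      intro B _
      refine indicator_of_mem ?_ _
      show p ≤ pvnzQ g I b 𝒜 (pvpPaintI I b B c)
      rw [pvnz_Q_paint]
      exact hc
    have hne : pvpCnt I (pvnzTab g I b 𝒜 c) ≠ 0 := by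
      intro h0
      unfold pvnzQ at hc
      rw [h0] at hc
      simp at hc
      linarith
    rw [Finset.sum_congr rfl e1, pvnz_col g I b 𝒜 c (hup c) hne, Finset.mul_sum]
    refine Finset.sum_le_sum fun C _ => mul_le_mul_left ?_ _
    have hcnt : (0 : ℝ) < pvpCnt I (pvnzTab g I b 𝒜 c) := by exact_mod_cast Nat.pos_of_ne_zero hne
    have h2 : (2 : ℝ) ^ I.card / pvpCnt I (pvnzTab g I b 𝒜 c) ≤ p⁻¹ := by
      unfold pvnzQ at hc
      rw [le_div_iff₀ (by positivity)] at hc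
      rw [div_le_iff₀ hcnt, ← div_eq_inv_mul, le_div_iff₀ hp, mul_comm]
      exact hc
    rw [← ENNReal.ofReal_inv_of_pos hp]
    refine ENNReal.ofReal_le_ofReal ?_
    split_ifs
    · exact h2
    · exact (inv_pos.2 hp).le
  · have e1 : ∀ B ∈ I.powerset, {c | p ≤ pvnzQ g I b 𝒜 c}.indicator (pvnzOp g I b 𝒜 φ) (pvpPaintI I b B c) = 0 := by
      intro B _
      refine indicator_of_notMem ?_ _
      show ¬ p ≤ pvnzQ g I b 𝒜 (pvpPaintI I b B c)
      rw [pvnz_Q_paint]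
      exact hc
    rw [Finset.sum_congr rfl e1]
    simp

end lab

/-! ## 2. one strip: arbitrary `F`, upper integrals -/

section one

variable {S : Set ℂ} {b : Bool} {𝒜 : Set (Conf PvPt)}

/-- the configurations at which the strip event has quenched probability `≥ p`   (`not F3` of ROADP_273; field `Hg` of `PvrpIn`) -/
def pvnzH (S : Set ℂ) (b : Bool) (𝒜 : Set (Conf PvPt)) (p : ℝ) : Set (Conf PvPt) := {ξ | p ≤ pvpQ S b 𝒜 ξ}

theorem pvnz_eqns_cite2 : True := by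
  have := @pvnzH.eq_1
  trivial

theorem pvnz_inv_ne_top {p : ℝ} (hp : 0 < p) : (ENNReal.ofReal p)⁻¹ ≠ ∞ := by
  rw [Ne, ENNReal.inv_eq_top, ENNReal.ofReal_eq_zero, not_le]
  exact hp

/-- the sections of an event which is read in a bounded window are measurable (261) -/
theorem pvnz_sec_meas {W : Set PvPt} (hW : Bornology.IsBounded (Prod.fst '' W)) (h : Conf.ReadsSet W 𝒜) {g : PvGeoT} (hg : PvgOk g) :
    MeasurableSet {c : PvColT | pvConf (pvMerge (g, c)) ∈ 𝒜} := (pvqu_loc_apply hW h hg).1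

/-- **DOMINATION AT A FIXED GEOMETRY**, upper integral in the colours, ARBITRARY `F` -/
theorem pvnz_sec_dom {g : PvGeoT} (hg : PvgOk g) (hSb : Bornology.IsBounded S) (hinc : PvpInc S b 𝒜)
    (hA : MeasurableSet {c : PvColT | pvConf (pvMerge (g, c)) ∈ 𝒜}) {p : ℝ} (hp : 0 < p) (F : Conf PvPt → ℝ≥0∞) :
    pvUpInt pvCol (fun c => (pvnzH S b 𝒜 p).indicator (pvpOp S b 𝒜 F) (pvConf (pvMerge (g, c))))
      ≤ (ENNReal.ofReal p)⁻¹ * pvUpInt pvCol (fun c => F (pvConf (pvMerge (g, c)))) := by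
  have hp0 : (ENNReal.ofReal p)⁻¹ ≠ 0 := ENNReal.inv_ne_zero.2 ENNReal.ofReal_ne_top
  conv_rhs => unfold pvUpInt
  rw [ENNReal.mul_iInf_of_ne hp0 (pvnz_inv_ne_top hp)]
  refine le_iInf fun φ => ?_
  have hH : MeasurableSet {c | p ≤ pvnzQ g (pvpIdx S g) b 𝒜 c} := measurableSet_le measurable_const (pvnz_Q_meas g _ b hA)
  refine (pvup_int_le pvCol (φ := {c | p ≤ pvnzQ g (pvpIdx S g) b 𝒜 c}.indicator (pvnzOp g (pvpIdx S g) b 𝒜 φ.1))
    ((pvnz_op_meas g _ b hA φ.2.1).indicator hH) fun c => ?_).trans (pvnz_lab_dom g _ b hA (fun c => pvnz_tab_up hg hSb hinc c) hp φ.2.1)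
  by_cases hc : p ≤ pvnzQ g (pvpIdx S g) b 𝒜 c
  · have h1 : pvConf (pvMerge (g, c)) ∈ pvnzH S b 𝒜 p := by
      show p ≤ pvpQ S b 𝒜 _
      rw [pvnz_Q_eq hg hSb]
      exact hc
    rw [indicator_of_mem h1, indicator_of_mem (show c ∈ {c | p ≤ pvnzQ g (pvpIdx S g) b 𝒜 c} from hc), pvnz_op_eq hg hSb]
    exact pvnz_op_mono g _ b 𝒜 φ.2.2 c
  · have h1 : pvConf (pvMerge (g, c)) ∉ pvnzH S b 𝒜 p := by
      show ¬ p ≤ pvpQ S b 𝒜 _
      rw [pvnz_Q_eq hg hSb]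
      exact hc
    rw [indicator_of_notMem h1]
    exact zero_le

/-- **TR18.1 DOM OVER THE ITERATED UPPER EXPECTATION**, ARBITRARY `F`:   `E*[1{Q ≥ p} K F] ≤ p⁻¹ E*[F]` -/
theorem pvnz_dom1 (ε : ℝ) (hSb : Bornology.IsBounded S) (hinc : PvpInc S b 𝒜)
    (hA : ∀ g, PvgOk g → MeasurableSet {c : PvColT | pvConf (pvMerge (g, c)) ∈ 𝒜}) {p : ℝ} (hp : 0 < p) (F : Conf PvPt → ℝ≥0∞) :
    (PvUp.iter (pvGeo ε) pvCol).E (fun q => (pvnzH S b 𝒜 p).indicator (pvpOp S b 𝒜 F) (pvConf (pvMerge q)))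
      ≤ (ENNReal.ofReal p)⁻¹ * (PvUp.iter (pvGeo ε) pvCol).E (fun q => F (pvConf (pvMerge q))) :=
  pvnz_iter_le_ae (pvGeo ε) pvCol (pvnz_inv_ne_top hp) ((pvqu_ok_ae ε).mono fun g hg => pvnz_sec_dom hg hSb hinc (hA g hg) hp F)

end one

/-! ## 3. two disjoint strips -/

section two

variable {S S' : Set ℂ} {b b' : Bool} {𝒜 𝒜' : Set (Conf PvPt)}

/-- the quenched probability of the strip event does not see the colours of a disjoint strip which the event does not see -/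
theorem pvnz_Q_blind (hd : Disjoint S S') (hA : PvpBlind S' (fun ζ => ζ ∈ 𝒜)) (b : Bool) : PvpBlind S' (pvpQ S b 𝒜) := by
  intro b' B ξ
  unfold pvpQ
  rw [cfStrip_congr (S := S) (ξ' := cfPaint S' b' B ξ) (ξ := ξ) (by rw [cfPaint_sites]), pvpTab_paint_disj hd hA]

theorem pvnz_H_blind (hd : Disjoint S S') (hA : PvpBlind S' (fun ζ => ζ ∈ 𝒜)) (b : Bool) (p : ℝ) : PvpBlind S' (fun ζ => ζ ∈ pvnzH S b 𝒜 p) := by
  intro b' B ξ
  show (p ≤ pvpQ S b 𝒜 (cfPaint S' b' B ξ)) = (p ≤ pvpQ S b 𝒜 ξ)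
  rw [pvnz_Q_blind hd hA b b' B ξ]

/-- the event `{Q ≥ p}` of a strip does not see the colours of this strip -/
theorem pvnz_H_blind_self (S : Set ℂ) (b : Bool) (𝒜 : Set (Conf PvPt)) (p : ℝ) : PvpBlind S (fun ζ => ζ ∈ pvnzH S b 𝒜 p) := by
  intro b' B ξ
  show (p ≤ pvpQ S b 𝒜 (cfPaint S b' B ξ)) = (p ≤ pvpQ S b 𝒜 ξ)
  rw [pvpQ_blind S b 𝒜 b' B ξ]

/-- a blind event goes through the operator -/
theorem pvnz_op_ind {H : Set (Conf PvPt)} (hH : PvpBlind S (fun ζ => ζ ∈ H)) (b : Bool) (𝒜 : Set (Conf PvPt)) (F : Conf PvPt → ℝ≥0∞) (ξ : Conf PvPt) :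
    pvpOp S b 𝒜 (H.indicator F) ξ = H.indicator (pvpOp S b 𝒜 F) ξ := by
  by_cases hξ : ξ ∈ H
  · rw [indicator_of_mem hξ]
    unfold pvpOp
    refine Finset.sum_congr rfl fun B _ => ?_
    have h1 : cfPaint S b B ξ ∈ H := (iff_of_eq (hH b B ξ)).2 hξ
    rw [indicator_of_mem h1]
  · rw [indicator_of_notMem hξ]
    unfold pvpOp
    refine Finset.sum_eq_zero fun B _ => ?_
    have h1 : cfPaint S b B ξ ∉ H := fun h2 => hξ ((iff_of_eq (hH b B ξ)).1 h2)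
    rw [indicator_of_notMem h1, mul_zero]

theorem pvnz_ind_two {H H' : Set (Conf PvPt)} (hH' : PvpBlind S (fun ζ => ζ ∈ H')) (b : Bool) (𝒜 : Set (Conf PvPt)) (F : Conf PvPt → ℝ≥0∞) (ξ : Conf PvPt) :
    (H ∩ H').indicator (pvpOp S b 𝒜 F) ξ = H.indicator (pvpOp S b 𝒜 (H'.indicator F)) ξ := by
  by_cases h : ξ ∈ H
  · rw [indicator_of_mem h, pvnz_op_ind hH']
    by_cases h' : ξ ∈ H'
    · rw [indicator_of_mem h', indicator_of_mem (show ξ ∈ H ∩ H' from ⟨h, h'⟩)]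
    · rw [indicator_of_notMem h', indicator_of_notMem fun h2 => h' h2.2]
  · rw [indicator_of_notMem h, indicator_of_notMem fun h2 => h h2.1]

/-- **TR18.1 DOM, TWO STRIPS, OVER THE ITERATED UPPER EXPECTATION**, ARBITRARY `Z`:   `E*[1{Q ≥ p, Q' ≥ p'} K K' Z] ≤ p⁻¹ p'⁻¹ E*[Z]` -/
theorem pvnz_dom2 (ε : ℝ) (hd : Disjoint S S') (hSb : Bornology.IsBounded S) (hSb' : Bornology.IsBounded S') (hinc : PvpInc S b 𝒜) (hinc' : PvpInc S' b' 𝒜')
    (hA : ∀ g, PvgOk g → MeasurableSet {c : PvColT | pvConf (pvMerge (g, c)) ∈ 𝒜})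
    (hA' : ∀ g, PvgOk g → MeasurableSet {c : PvColT | pvConf (pvMerge (g, c)) ∈ 𝒜'})
    (hbl : PvpBlind S (fun ζ => ζ ∈ 𝒜')) {p p' : ℝ} (hp : 0 < p) (hp' : 0 < p') (Z : Conf PvPt → ℝ≥0∞) :
    (PvUp.iter (pvGeo ε) pvCol).E (fun q => (pvnzH S b 𝒜 p ∩ pvnzH S' b' 𝒜' p').indicator (pvpOp S b 𝒜 (pvpOp S' b' 𝒜' Z)) (pvConf (pvMerge q)))
      ≤ (ENNReal.ofReal p)⁻¹ * ((ENNReal.ofReal p')⁻¹ * (PvUp.iter (pvGeo ε) pvCol).E (fun q => Z (pvConf (pvMerge q)))) := by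
  have e : (fun q : PvGeoT × PvColT => (pvnzH S b 𝒜 p ∩ pvnzH S' b' 𝒜' p').indicator (pvpOp S b 𝒜 (pvpOp S' b' 𝒜' Z)) (pvConf (pvMerge q)))
      = fun q => (pvnzH S b 𝒜 p).indicator (pvpOp S b 𝒜 ((pvnzH S' b' 𝒜' p').indicator (pvpOp S' b' 𝒜' Z))) (pvConf (pvMerge q)) := by
    funext q
    exact pvnz_ind_two (pvnz_H_blind hd.symm hbl b' p') b 𝒜 _ _
  rw [e]
  refine (pvnz_dom1 ε hSb hinc hA hp _).trans ?_
  gcongr
  exact pvnz_dom1 ε hSb' hinc' hA' hp' Z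

end two

/-! ## 4. the instance of the finite weight operators of 273 -/

section inst

variable {S S' : Set ℂ} {b b' : Bool} {𝒜 𝒜' : Set (Conf PvPt)}

/-- **the preparation operator of 263 as a finite weight operator of `Tr/RoadP`** -/
noncomputable def pvnzK (S : Set ℂ) (b : Bool) (𝒜 : Set (Conf PvPt)) : PvrpK (Conf PvPt) (Finset ℂ) where
  I ξ := (cfStrip S ξ).powerset
  mv ξ B := cfPaint S b B ξ
  wt := pvpWt S b 𝒜
  wt0 := pvpWt_nonneg S b 𝒜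
  wt1 := pvpWt_sum S b 𝒜

theorem pvnz_eqns_cite3 : True := by
  have := @pvnzK.eq_1
  trivial

theorem pvnz_K_op (S : Set ℂ) (b : Bool) (𝒜 : Set (Conf PvPt)) (F : Conf PvPt → ℝ≥0∞) : (pvnzK S b 𝒜).Op F = pvpOp S b 𝒜 F := rfl

theorem pvnz_K_av (S : Set ℂ) (b : Bool) (𝒜 : Set (Conf PvPt)) (Y : Conf PvPt → ℂ) : (pvnzK S b 𝒜).Av Y = pvpAv S b 𝒜 Y := rfl

theorem pvnz_K_blind {γ : Type} {f : Conf PvPt → γ} (h : PvpBlind S f) (b : Bool) (𝒜 : Set (Conf PvPt)) : (pvnzK S b 𝒜).Blind f :=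
  fun ξ B _ => h b B ξ

theorem pvnz_K_blindS {A : Set (Conf PvPt)} (h : PvpBlind S (fun ζ => ζ ∈ A)) (b : Bool) (𝒜 : Set (Conf PvPt)) : (pvnzK S b 𝒜).BlindS A :=
  fun ξ B _ => iff_of_eq (h b B ξ)

/-- the moves of positive weight: whitenings (`b`-increasing repaintings) which realise the strip event -/
theorem pvnz_K_supp (hinc : PvpInc S b 𝒜) {ξ : Conf PvPt} (hQ : 0 < pvpQ S b 𝒜 ξ) {B : Finset ℂ} (hB : B ∈ (pvnzK S b 𝒜).I ξ) (hw : (pvnzK S b 𝒜).wt ξ B ≠ 0) :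
    cfStripOn S b ξ ⊆ B ∧ (pvnzK S b 𝒜).mv ξ B ∈ 𝒜 :=
  pvpWt_supp hinc hQ (Finset.mem_powerset.1 hB) hw

/-- `K(ξ, G)` as a complex average -/
theorem pvnz_K_gam (S : Set ℂ) (b : Bool) (𝒜 : Set (Conf PvPt)) (G : Set (Conf PvPt)) (ξ : Conf PvPt) :
    (((pvnzK S b 𝒜).gam G ξ : ℝ) : ℂ) = pvpAv S b 𝒜 (G.indicator fun _ => (1 : ℂ)) ξ := by
  have := pvrp_av_const (pvnzK S b 𝒜) G 1 ξ
  rw [mul_one] at this
  exact this.symm

theorem pvnz_ind_blind {γ : Type} [Zero γ] {G : Set (Conf PvPt)} {f : Conf PvPt → γ} (hG : PvpBlind S (fun ζ => ζ ∈ G)) (hf : PvpBlind S f) : PvpBlind S (G.indicator f) := by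
  intro b B ξ
  have h1 : cfPaint S b B ξ ∈ G ↔ ξ ∈ G := iff_of_eq (hG b B ξ)
  by_cases h : ξ ∈ G
  · rw [indicator_of_mem h, indicator_of_mem (h1.2 h), hf]
  · rw [indicator_of_notMem h, indicator_of_notMem fun h2 => h (h1.1 h2)]

/-- field `bl_av` of `PvrpIn` -/
theorem pvnz_bl_av (hd : Disjoint S S') (hA : PvpBlind S' (fun ζ => ζ ∈ 𝒜)) {G : Set (Conf PvPt)} (hG : PvpBlind S' (fun ζ => ζ ∈ G)) {ψ : Conf PvPt → ℂ} (hψ : PvpBlind S' ψ)
    (b b' : Bool) (𝒜' : Set (Conf PvPt)) : (pvnzK S' b' 𝒜').Blind ((pvnzK S b 𝒜).Av (G.indicator ψ)) :=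
  pvnz_K_blind (pvpAv_blind' hd hA (pvnz_ind_blind hG hψ) b) b' 𝒜'

/-- field `bl_gam` of `PvrpIn` -/
theorem pvnz_bl_gam (hd : Disjoint S S') (hA : PvpBlind S' (fun ζ => ζ ∈ 𝒜)) {G : Set (Conf PvPt)} (hG : PvpBlind S' (fun ζ => ζ ∈ G))
    (b b' : Bool) (𝒜' : Set (Conf PvPt)) : (pvnzK S' b' 𝒜').Blind ((pvnzK S b 𝒜).gam G) := by
  intro ξ B _
  have h1 : PvpBlind S' (pvpAv S b 𝒜 (G.indicator fun _ => (1 : ℂ))) := pvpAv_blind' hd hA (pvnz_ind_blind hG fun _ _ _ => rfl) b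
  have h2 := h1 b' B ξ
  rw [← pvnz_K_gam, ← pvnz_K_gam] at h2
  exact Complex.ofReal_injective h2

/-- field `dom1` of `PvrpIn`, U-form -/
theorem pvnz_K_dom1 (ε : ℝ) (hSb : Bornology.IsBounded S) (hinc : PvpInc S b 𝒜)
    (hA : ∀ g, PvgOk g → MeasurableSet {c : PvColT | pvConf (pvMerge (g, c)) ∈ 𝒜}) {p : ℝ} (hp : 0 < p) (F : Conf PvPt → ℝ≥0∞) :
    (PvUp.iter (pvGeo ε) pvCol).E (fun q => (pvnzH S b 𝒜 p).indicator ((pvnzK S b 𝒜).Op F) (pvConf (pvMerge q)))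
      ≤ ENNReal.ofReal p⁻¹ * (PvUp.iter (pvGeo ε) pvCol).E (fun q => F (pvConf (pvMerge q))) := by
  rw [ENNReal.ofReal_inv_of_pos hp]
  exact pvnz_dom1 ε hSb hinc hA hp F

/-- field `dom2` of `PvrpIn`, U-form -/
theorem pvnz_K_dom2 (ε : ℝ) (hd : Disjoint S S') (hSb : Bornology.IsBounded S) (hSb' : Bornology.IsBounded S') (hinc : PvpInc S b 𝒜) (hinc' : PvpInc S' b' 𝒜')
    (hA : ∀ g, PvgOk g → MeasurableSet {c : PvColT | pvConf (pvMerge (g, c)) ∈ 𝒜})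
    (hA' : ∀ g, PvgOk g → MeasurableSet {c : PvColT | pvConf (pvMerge (g, c)) ∈ 𝒜'})
    (hbl : PvpBlind S (fun ζ => ζ ∈ 𝒜')) {p : ℝ} (hp : 0 < p) (Z : Conf PvPt → ℝ≥0∞) :
    (PvUp.iter (pvGeo ε) pvCol).E (fun q => (pvnzH S b 𝒜 p ∩ pvnzH S' b' 𝒜' p).indicator ((pvnzK S b 𝒜).Op ((pvnzK S' b' 𝒜').Op Z)) (pvConf (pvMerge q)))
      ≤ ENNReal.ofReal (p⁻¹ ^ 2) * (PvUp.iter (pvGeo ε) pvCol).E (fun q => Z (pvConf (pvMerge q))) := by
  rw [pow_two, ENNReal.ofReal_mul (inv_pos.2 hp).le, ENNReal.ofReal_inv_of_pos hp, mul_assoc]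
  exact pvnz_dom2 ε hd hSb hSb' hinc hinc' hA hA' hbl hp hp Z

end inst

/-! ## 5. Markov after two preparations -/

section markov

variable {S S' : Set ℂ} {b b' : Bool} {𝒜 𝒜' : Set (Conf PvPt)}

/-- **THE PROBABILITY SIDE OF P17 (b)**: an ARBITRARY event `B` of the sample on which both strips have `Q ≥ p` and the twice prepared integrand is `≥ v` -/
theorem pvnz_markov2 (ε : ℝ) (hd : Disjoint S S') (hSb : Bornology.IsBounded S) (hSb' : Bornology.IsBounded S') (hinc : PvpInc S b 𝒜) (hinc' : PvpInc S' b' 𝒜')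
    (hA : ∀ g, PvgOk g → MeasurableSet {c : PvColT | pvConf (pvMerge (g, c)) ∈ 𝒜})
    (hA' : ∀ g, PvgOk g → MeasurableSet {c : PvColT | pvConf (pvMerge (g, c)) ∈ 𝒜'})
    (hbl : PvpBlind S (fun ζ => ζ ∈ 𝒜')) {p : ℝ} (hp : 0 < p) (Z : Conf PvPt → ℝ≥0∞) {v : ℝ≥0∞} (hv0 : v ≠ 0) (hv1 : v ≠ ∞) {B : Set (PvGeoT × PvColT)}
    (hB : ∀ q ∈ B, pvConf (pvMerge q) ∈ pvnzH S b 𝒜 p ∧ pvConf (pvMerge q) ∈ pvnzH S' b' 𝒜' p ∧ v ≤ pvpOp S b 𝒜 (pvpOp S' b' 𝒜' Z) (pvConf (pvMerge q))) :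
    (PvUp.iter (pvGeo ε) pvCol).P B ≤ ENNReal.ofReal (p⁻¹ ^ 2) * (PvUp.iter (pvGeo ε) pvCol).E (fun q => Z (pvConf (pvMerge q))) / v := by
  refine ((PvUp.iter (pvGeo ε) pvCol).P_mono (B := {q | v ≤ (pvnzH S b 𝒜 p ∩ pvnzH S' b' 𝒜' p).indicator (pvpOp S b 𝒜 (pvpOp S' b' 𝒜' Z)) (pvConf (pvMerge q))})
    fun q hq => ?_).trans (((PvUp.iter (pvGeo ε) pvCol).markov _ hv0 hv1).trans ?_)
  · obtain ⟨h1, h2, h3⟩ := hB q hq
    show v ≤ _
    rw [indicator_of_mem (show pvConf (pvMerge q) ∈ pvnzH S b 𝒜 p ∩ pvnzH S' b' 𝒜' p from ⟨h1, h2⟩)]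
    exact h3
  · gcongr
    exact pvnz_K_dom2 ε hd hSb hSb' hinc hinc' hA hA' hbl hp Z

end markov

end Claimed.Agent.R289
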