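import Claimed.Agent.R289.Tr.LaneP
import Claimed.Agent.R289.Tr.LaneS
import Claimed.Agent.R289.Tr.LaneW
import Claimed.Agent.R289.Tr.PrepIn
import Claimed.Agent.R289.Tr.PrepU
import Claimed.Agent.R289.Tr.MsConf
import Claimed.Agent.R289.Tr.StateP
import Claimed.Agent.R289.Tr.MenuGeo
import Claimed.Agent.R289.Exit.Pins

/-!
# Row 289 (S0537, Cardy for Poisson-Voronoi), THE WALL, ROAD P, file Tr/StripP : THE STRIP OF A PLACED CANDIDATE = glue `Tr/LaneP` (15) x `Tr/LaneW` (277) x `Tr/PrepIn` (59) / `Tr/PrepU` (286) x `Tr/StateP` (185)      (pen helper277, post of helper273 10:24Z; prefix `pvsz_`, defs `pvsz*`, `Pvsz*`)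

RULING P5 (273, 10:36Z): THE LANE `ln` IS AN EXPLICIT ARGUMENT RIGHT AFTER `τ` (pair form of 15), with `(hl : PvmnLaneR τ ln.1 ln.2)` next to `(hτ : PvmnIsType 𝔑 τ)`; below `τ` stands for `τ ln`.
THE CANDIDATE `(z, τ)`, cell size `δ = dl·h`, radius `ρ` of the retained triangles, window `clB(z, r)`:
  `pvszS δ z τ = z + pvlpS δ τ` (strip), `pvszDA`, `pvszDB` (doors), `pvszMm δ n z τ`, `pvszMp δ n z τ` (halves), **`pvszEv δ ρ r z τ`** `= A_κ = pvmwEv ρ (clB z r) (!τ.col) S DA DB`,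
  **`pvszK δ ρ r z τ`** `= pvprK S (!τ.col) A_κ` (field `K`; `= pvnzK = pvspKer` by `rfl`: `pvsz_K_twins`), **`pvszHg p δ ρ r z τ`** `= {ξ | p ≤ pvpQ S (!τ.col) A_κ ξ}` (field `Hg`),
  **`pvszP 𝔑`** `= p_* = q^(15 n)/2`, `n = (10 nBx + 57)²`, `q = pvszQ` (the constant of `pvmw_exit`), **`pvszCp 𝔑 = 1/p_*`** (field `Cp`), `pvsz_Cp0`.
NUMBERS WHICH THE PEN OF THE TERM MUST RESPECT:   (N1) `ρ = δ/20` (`= dl h / 20`: so `N.mu = dl/20` in `PvspNum`): the cost needs `δ/20 ≤ ρ`, the split of the walk needs `ρ ≤ δ/20`;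
  (N2) `2 (nBx + 7) δ ≤ r`;   (N3) THE CENTRE IS A VECTOR OF THE FINE GRID: `z = pvmgPt (δ/5) o`; for `z = l9Pt h p` this is `h = k₀ · δ/5`, i.e. `dl = 5/k₀` with `k₀ : ℕ` (`pvsz_l9`).
* §0 constants.   §1 translations `pvszTr`.   §2 the corridor on the fine grid: `pvszL τ o`, `pvsz_L_chain`, `pvsz_L_len`, **`pvsz_W`** (window of the shifted corridor = placed strip), `pvsz_W_one`, `pvsz_E`, `pvsz_E0_ball`.
* §3 `pvsz_S_compact _bdd _meas`, `pvsz_S_union` (`S = Mm ∪ Mp`), `pvsz_S_ball` (`S ⊆ clB(z,r)`), `pvsz_ev_inc` (`PvpInc`), `pvsz_ev_reads`, `pvsz_ev_meas _ms _sec`, `pvsz_Hg_ms _reads`, **`pvsz_K_supp`** (moves of non zero weight: for `stab`),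
     THE PREP FIELDS OF `PvrpInU`: **`pvsz_dom1`**, **`pvsz_dom2`**, **`pvsz_bl_gam`**, **`pvsz_bl_av`**, `pvsz_blindS` (`bl_G`), `pvsz_blind` (`bl_kin`), `pvsz_far` (centres more than `r + r'` apart).
* §4 COST OF F3: `pvsz_good`, **`pvsz_cost`** (uniform in centre, type, scale), `pvsz_cost_P` (`pvP`), `pvsz_cost_up` (`pvhbUp`), the flag `pvszF3 𝔑 δ ρ r z` (union over the menu), `pvsz_not_F3`, `pvsz_F3_reads`, **`pvsz_flag`** (`PvxpFlag` of 12, ANY budget `ζ`).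
* §5 BRIDGE TO 185: `PvszIs N t h δ ρ r n z τ` ⟹ `pvspJ t = pvszS`, `pvspLane = pvszEv`, `pvspK = pvszK`, `pvspHg = pvszHg N.pst`.
* §6 USE: **`pvsz_walk`** (chain of sites), **`pvsz_split`** (`Mm | Mp` at the cut), `pvsz_lift` (chain of vertices of the map of a completion).   §7 LEVEL A: **`pvsz_side_pw`**, `pvsz_side_mw` (white side events from a white chain + M11: feeds `pvsb_white` of 212).
-/

set_option autoImplicit false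
set_option linter.unusedSectionVars false
set_option linter.unusedVariables false

namespace Claimed.Agent.R289

open MeasureTheory ProbabilityTheory Set Filter Topology Metric Claims.C0465
open scoped ENNReal NNReal

/-! ## 0. the constants -/

/-- the universal constant of the quenched lane lemma (QBX is closed: `pvmw_exit`) -/
noncomputable def pvszQ : ℝ := pvmw_exit.choose

/-- bound for the number of fine cells of the corridor of a type (`pvlp_len` of 15) -/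
def pvszLen (𝔑 : PvmnNum) : ℕ := (10 * 𝔑.nBx + 57) ^ 2

/-- **`p_*`** (M12) -/
noncomputable def pvszP (𝔑 : PvmnNum) : ℝ := pvszQ ^ (15 * pvszLen 𝔑) / 2

/-- **`C_prep = 1 / p_*`** (field `Cp`) -/
noncomputable def pvszCp (𝔑 : PvmnNum) : ℝ := (pvszP 𝔑)⁻¹

theorem pvsz_Q_pos : 0 < pvszQ := pvmw_exit.choose_spec.1

theorem pvsz_Q_le : pvszQ ≤ 1 := pvmw_exit.choose_spec.2.1

theorem pvsz_Q_spec (n : ℕ) {θ : ℝ} (hθ : 0 < θ) :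
    ∃ U : ℝ, 1 ≤ U ∧ ∀ ε : ℝ, 0 < ε → ∀ δ : ℝ, U * ε ≤ δ → ∀ (c : Bool) (L : List (ℤ × ℤ)), L ≠ [] → L.IsChain PvlnAdj → L.length ≤ n →
      pvGeo ε {g | ¬ PvmwGood (pvszQ ^ (15 * n) / 2) δ c L g} ≤ ENNReal.ofReal θ := pvmw_exit.choose_spec.2.2 n θ hθ

theorem pvsz_P_pos (𝔑 : PvmnNum) : 0 < pvszP 𝔑 := by
  have := pvsz_Q_pos
  unfold pvszP
  positivity

/-- field `Cp0` -/
theorem pvsz_Cp0 (𝔑 : PvmnNum) : 0 ≤ pvszCp 𝔑 := (inv_pos.2 (pvsz_P_pos 𝔑)).le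

/-! ## 1. translations -/

/-- translation by `z`   (`pvmgPl z δ E = pvszTr z (pvtU δ E)` by `rfl`) -/
def pvszTr (z : ℂ) (X : Set ℂ) : Set ℂ := (fun p => p + z) '' X

section tr

variable {z p w : ℂ} {X Y : Set ℂ} {r : ℝ}

theorem pvsz_mem : p ∈ pvszTr z X ↔ p - z ∈ X := by
  constructor
  · rintro ⟨x, hx, rfl⟩
    simpa using hx
  · intro h
    exact ⟨p - z, h, by simp⟩

theorem pvsz_tr_mono (h : X ⊆ Y) : pvszTr z X ⊆ pvszTr z Y := image_mono h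

theorem pvsz_tr_union : pvszTr z (X ∪ Y) = pvszTr z X ∪ pvszTr z Y := image_union _ _ _

theorem pvsz_tr_compact (h : IsCompact X) : IsCompact (pvszTr z X) := h.image (continuous_id.add continuous_const)

theorem pvsz_tr_meas (h : MeasurableSet X) : MeasurableSet (pvszTr z X) := by
  have e : pvszTr z X = (fun p => p - z) ⁻¹' X := by
    ext p
    exact pvsz_mem
  rw [e]
  exact (measurable_id.sub_const z) h

theorem pvsz_tr_pl (z : ℂ) (δ : ℝ) (E : Set (ℤ × ℤ)) : pvmgPl z δ E = pvszTr z (pvtU δ E) := rfl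

theorem pvsz_tr_ball (h : X ⊆ closedBall 0 r) : pvszTr z X ⊆ closedBall z r := by
  intro p hp
  have := h (pvsz_mem.1 hp)
  rw [mem_closedBall, dist_zero_right] at this
  rwa [mem_closedBall, dist_eq_norm]

theorem pvsz_tr_sq : pvszTr z (pvlpSq w r) = pvmSq (w + z) r := by
  ext p
  rw [pvsz_mem]
  simp only [pvlpSq, pvmSq, mem_ofPred_eq, Complex.sub_re, Complex.sub_im, Complex.add_re, Complex.add_im]
  constructor <;> rintro ⟨h1, h2⟩ <;> refine ⟨?_, ?_⟩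
  · rwa [show p.re - (w.re + z.re) = p.re - z.re - w.re by ring]
  · rwa [show p.im - (w.im + z.im) = p.im - z.im - w.im by ring]
  · rwa [show p.re - z.re - w.re = p.re - (w.re + z.re) by ring]
  · rwa [show p.im - z.im - w.im = p.im - (w.im + z.im) by ring]

theorem pvsz_tr_iUnion {ι : Type*} (s : Set ι) (f : ι → Set ℂ) : pvszTr z (⋃ i ∈ s, f i) = ⋃ i ∈ s, pvszTr z (f i) := image_iUnion₂ _ _

theorem pvsz_tr_disj (h : ∀ p ∈ X, ∀ q ∈ Y, ‖p‖ + ‖q‖ < ‖z - w‖) : Disjoint (pvszTr z X) (pvszTr w Y) := by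
  rw [Set.disjoint_left]
  intro a h1 h2
  have h3 := h _ (pvsz_mem.1 h1) _ (pvsz_mem.1 h2)
  have h4 : ‖z - w‖ ≤ ‖a - z‖ + ‖a - w‖ := by
    calc ‖z - w‖ = ‖(a - w) - (a - z)‖ := by ring_nf
      _ ≤ ‖a - w‖ + ‖a - z‖ := norm_sub_le _ _
      _ = _ := add_comm _ _
  linarith

end tr

/-! ## 2. the corridor on the fine grid -/

section grid

variable {𝔑 : PvmnNum} {τ : PvmnType} {ln : ((ℤ × ℤ) × (ℤ × ℤ)) × ℕ} {δ δf : ℝ} {o w : ℤ × ℤ} {p z : ℂ} {a b i : ℕ}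

/-- the corridor of the type, shifted by the vector `o` of the FINE grid -/
noncomputable def pvszL (τ : PvmnType) (ln : ((ℤ × ℤ) × (ℤ × ℤ)) × ℕ) (o : ℤ × ℤ) : List (ℤ × ℤ) := (pvlpL τ ln).map fun w => w + o

/-- the window of the retained triangles, relative to the centre: the fine cells of the corridor in squares of half side `2 δ / 5` -/
def pvszE0 (δ : ℝ) (τ : PvmnType) (ln : ((ℤ × ℤ) × (ℤ × ℤ)) × ℕ) : Set ℂ := ⋃ i ∈ Set.Icc 0 (pvlpN τ ln), pvlpSq (pvtCtr (δ / 5) (pvlpC τ ln i)) (2 * (δ / 5))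

/-- a grid centre of the scale `h = k₀ · δf` is a vector of the fine grid -/
def pvszO (k₀ : ℕ) (p : ℤ × ℤ) : ℤ × ℤ := ((k₀ : ℤ) * p.1, (k₀ : ℤ) * p.2)

theorem pvsz_l9 {h : ℝ} {k₀ : ℕ} (hk : h = (k₀ : ℝ) * δf) (p : ℤ × ℤ) : l9Pt h p = pvmgPt δf (pvszO k₀ p) := by
  unfold l9Pt pvmgPt pvszO
  rw [hk]
  push_cast
  congr 1 <;> ring

theorem pvsz_L_ne (τ : PvmnType) (ln : ((ℤ × ℤ) × (ℤ × ℤ)) × ℕ) (o : ℤ × ℤ) : pvszL τ ln o ≠ [] := by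
  unfold pvszL
  simpa using pvlp_L_ne τ ln

theorem pvsz_L_length (τ : PvmnType) (ln : ((ℤ × ℤ) × (ℤ × ℤ)) × ℕ) (o : ℤ × ℤ) : (pvszL τ ln o).length = pvlpN τ ln + 1 := by
  unfold pvszL
  rw [List.length_map, pvlp_L_length]

theorem pvsz_L_len (hτ : PvmnIsType 𝔑 τ) (hl : PvmnLaneR τ ln.1 ln.2) (o : ℤ × ℤ) : (pvszL τ ln o).length ≤ pvszLen 𝔑 := by
  rw [pvsz_L_length]
  exact pvlp_len hτ hl

theorem pvsz_mem_L : w ∈ pvszL τ ln o ↔ ∃ i, i ≤ pvlpN τ ln ∧ w = pvlpC τ ln i + o := by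
  unfold pvszL pvlpL
  simp only [List.map_map, List.mem_map, List.mem_range, Function.comp, Nat.lt_succ_iff]
  constructor
  · rintro ⟨i, hi, rfl⟩
    exact ⟨i, hi, rfl⟩
  · rintro ⟨i, hi, rfl⟩
    exact ⟨i, hi, rfl⟩

theorem pvsz_adj {k k' : ℤ × ℤ} (h : pvtbG4.Adj k k') : PvlnAdj (k + o) (k' + o) := by
  have h' : (k'.1 = k.1 + 1 ∧ k'.2 = k.2) ∨ (k'.1 = k.1 - 1 ∧ k'.2 = k.2) ∨ (k'.1 = k.1 ∧ k'.2 = k.2 + 1) ∨ (k'.1 = k.1 ∧ k'.2 = k.2 - 1) := h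
  unfold PvlnAdj
  simp only [Prod.fst_add, Prod.snd_add]
  omega

theorem pvsz_L_chain (hτ : PvmnIsType 𝔑 τ) (hl : PvmnLaneR τ ln.1 ln.2) (o : ℤ × ℤ) : (pvszL τ ln o).IsChain PvlnAdj := by
  unfold pvszL
  rw [List.isChain_map]
  exact (pvlp_L_chain hτ hl).imp fun _ _ h => pvsz_adj h

theorem pvsz_ctr (δf : ℝ) (w o : ℤ × ℤ) : pvlnCtr δf (w + o) = pvtCtr δf w + pvmgPt δf o := by
  unfold pvlnCtr pvtCtr pvmgPt
  apply Complex.ext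
  · simp only [Prod.fst_add, Int.cast_add, Complex.add_re]
    ring
  · simp only [Prod.snd_add, Int.cast_add, Complex.add_im]
    ring

theorem pvsz_mem_win : p ∈ pvszTr z (pvlpWin δ τ ln a b) ↔ ∃ i, a ≤ i ∧ i ≤ b ∧ p ∈ pvmSq (pvtCtr (δ / 5) (pvlpC τ ln i) + z) (δ / 8) := by
  rw [pvsz_mem, pvlp_mem_win]
  refine exists_congr fun i => and_congr_right fun _ => and_congr_right fun _ => ?_
  rw [← pvsz_tr_sq, pvsz_mem]

theorem pvsz_mem_W {L : List (ℤ × ℤ)} : p ∈ pvlnW (δ / 5) L ↔ ∃ k ∈ L, p ∈ pvmSq (pvlnCtr (δ / 5) k) (δ / 8) := by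
  unfold pvlnW
  rw [show δ / 5 / 2 + 2 * (δ / 5 / 2 / 8) = δ / 8 by ring]
  simp only [mem_iUnion, mem_ofPred_eq, exists_prop]

/-- **the window of the shifted corridor is the placed strip** -/
theorem pvsz_W (δ : ℝ) (τ : PvmnType) (ln : ((ℤ × ℤ) × (ℤ × ℤ)) × ℕ) (o : ℤ × ℤ) : pvlnW (δ / 5) (pvszL τ ln o) = pvszTr (pvmgPt (δ / 5) o) (pvlpS δ τ ln) := by
  ext p
  unfold pvlpS
  rw [pvsz_mem_W, pvsz_mem_win]
  constructor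
  · rintro ⟨k, hk, hp⟩
    obtain ⟨i, hi, rfl⟩ := pvsz_mem_L.1 hk
    exact ⟨i, Nat.zero_le _, hi, by rwa [← pvsz_ctr]⟩
  · rintro ⟨i, -, hi, hp⟩
    exact ⟨_, pvsz_mem_L.2 ⟨i, hi, rfl⟩, by rwa [pvsz_ctr]⟩

/-- the window of one cell -/
theorem pvsz_W_one (δ : ℝ) (τ : PvmnType) (ln : ((ℤ × ℤ) × (ℤ × ℤ)) × ℕ) (o : ℤ × ℤ) (i : ℕ) : pvlnW (δ / 5) [pvlpC τ ln i + o] = pvszTr (pvmgPt (δ / 5) o) (pvlpWin δ τ ln i i) := by
  ext p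
  rw [pvsz_mem_W, pvsz_mem_win]
  constructor
  · rintro ⟨k, hk, hp⟩
    rw [List.mem_singleton] at hk
    subst hk
    exact ⟨i, le_rfl, le_rfl, by rwa [← pvsz_ctr]⟩
  · rintro ⟨j, h1, h2, hp⟩
    obtain rfl : j = i := le_antisymm h2 h1
    exact ⟨_, List.mem_singleton.2 rfl, by rwa [pvsz_ctr]⟩

/-- the window of the retained triangles -/
theorem pvsz_E (δ : ℝ) (τ : PvmnType) (ln : ((ℤ × ℤ) × (ℤ × ℤ)) × ℕ) (o : ℤ × ℤ) : pvmwE (δ / 5) (pvszL τ ln o) = pvszTr (pvmgPt (δ / 5) o) (pvszE0 δ τ ln) := by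
  ext p
  unfold pvmwE pvszE0
  rw [pvsz_tr_iUnion]
  simp only [mem_iUnion, mem_ofPred_eq, exists_prop, pvsz_tr_sq, Set.mem_Icc]
  constructor
  · rintro ⟨k, hk, hp⟩
    obtain ⟨i, hi, rfl⟩ := pvsz_mem_L.1 hk
    exact ⟨i, ⟨Nat.zero_le _, hi⟩, by rwa [← pvsz_ctr]⟩
  · rintro ⟨i, ⟨-, hi⟩, hp⟩
    exact ⟨_, pvsz_mem_L.2 ⟨i, hi, rfl⟩, by rwa [pvsz_ctr]⟩

theorem pvsz_S_sub_E0 (hδ : 0 ≤ δ) (τ : PvmnType) (ln : ((ℤ × ℤ) × (ℤ × ℤ)) × ℕ) : pvlpS δ τ ln ⊆ pvszE0 δ τ ln := by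
  intro p hp
  obtain ⟨i, h1, h2, h3, h4⟩ := pvlp_mem_win.1 hp
  exact mem_biUnion (show i ∈ Set.Icc 0 (pvlpN τ ln) from ⟨h1, h2⟩) ⟨h3.trans (by linarith), h4.trans (by linarith)⟩

/-- **the window lies in a ball of the scale of the menu** -/
theorem pvsz_E0_ball (hτ : PvmnIsType 𝔑 τ) (hl : PvmnLaneR τ ln.1 ln.2) (hδ : 0 < δ) : pvszE0 δ τ ln ⊆ closedBall 0 (2 * ((𝔑.nBx : ℝ) + 7) * δ) := by
  intro z hz
  unfold pvszE0 at hz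
  simp only [mem_iUnion, exists_prop, Set.mem_Icc] at hz
  obtain ⟨i, ⟨-, hi⟩, h1, h2⟩ := hz
  obtain ⟨p, hp, c1, c2, c3, c4⟩ := pvlp_C_mem hτ hl hi
  have hp5 : p ∈ pvtwN 5 (pvmnCells τ 0 9) := (pvlp_R_sub hτ hl hp).1.1
  obtain ⟨b1, b2, b3, b4⟩ := pvmn_N_box (k := 5) (pvmn_cells_box (a := 0) (b := 9) hτ) hp5
  push_cast at b1 b2 b3 b4
  have d1 : -(5 * (𝔑.nBx : ℤ) + 26) ≤ (pvlpC τ ln i).1 := by omega
  have d2 : (pvlpC τ ln i).1 ≤ 5 * (𝔑.nBx : ℤ) + 30 := by omega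
  have d3 : -(5 * (𝔑.nBx : ℤ) + 26) ≤ (pvlpC τ ln i).2 := by omega
  have d4 : (pvlpC τ ln i).2 ≤ 5 * (𝔑.nBx : ℤ) + 30 := by omega
  have e1 : -(5 * (𝔑.nBx : ℝ) + 26) ≤ ((pvlpC τ ln i).1 : ℝ) := by exact_mod_cast d1
  have e2 : ((pvlpC τ ln i).1 : ℝ) ≤ 5 * (𝔑.nBx : ℝ) + 30 := by exact_mod_cast d2
  have e3 : -(5 * (𝔑.nBx : ℝ) + 26) ≤ ((pvlpC τ ln i).2 : ℝ) := by exact_mod_cast d3
  have e4 : ((pvlpC τ ln i).2 : ℝ) ≤ 5 * (𝔑.nBx : ℝ) + 30 := by exact_mod_cast d4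
  simp only [pvtCtr] at h1 h2
  rw [abs_le] at h1 h2
  have hre : |z.re| ≤ ((𝔑.nBx : ℝ) + 7) * δ := by
    rw [abs_le]
    constructor
    · nlinarith [mul_le_mul_of_nonneg_right e1 hδ.le, h1.1]
    · nlinarith [mul_le_mul_of_nonneg_right e2 hδ.le, h1.2]
  have him : |z.im| ≤ ((𝔑.nBx : ℝ) + 7) * δ := by
    rw [abs_le]
    constructor
    · nlinarith [mul_le_mul_of_nonneg_right e3 hδ.le, h2.1]
    · nlinarith [mul_le_mul_of_nonneg_right e4 hδ.le, h2.2]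
  rw [mem_closedBall_zero_iff]
  calc ‖z‖ ≤ |z.re| + |z.im| := Complex.norm_le_abs_re_add_abs_im z
    _ ≤ 2 * ((𝔑.nBx : ℝ) + 7) * δ := by linarith

end grid

/-! ## 3. the placed candidate `(z, τ ln)`: strip, doors, event, operator, good geometries -/

/-- **THE STRIP** `S_κ = z + pvlpS δ τ ln` -/
noncomputable def pvszS (δ : ℝ) (z : ℂ) (τ : PvmnType) (ln : ((ℤ × ℤ) × (ℤ × ℤ)) × ℕ) : Set ℂ := pvszTr z (pvlpS δ τ ln)

/-- the doors of the strip -/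
def pvszDA (δ : ℝ) (z : ℂ) (τ : PvmnType) (ln : ((ℤ × ℤ) × (ℤ × ℤ)) × ℕ) : Set ℂ := pvszTr z (pvlpDA δ τ ln)
noncomputable def pvszDB (δ : ℝ) (z : ℂ) (τ : PvmnType) (ln : ((ℤ × ℤ) × (ℤ × ℤ)) × ℕ) : Set ℂ := pvszTr z (pvlpDB δ τ ln)

/-- the two halves of the strip: THE SPATIAL CUT of 225 (`Tr/LaneS`, cure of defect R3: `Ep ∩ Em ⊆ O`);   the argument `n` (fine box of the former index cut) is DEAD and kept for the callers -/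
def pvszMm (δ : ℝ) (_n : ℕ) (z : ℂ) (τ : PvmnType) (ln : ((ℤ × ℤ) × (ℤ × ℤ)) × ℕ) : Set ℂ := pvszTr z (pvlsMm δ τ ln)
def pvszMp (δ : ℝ) (_n : ℕ) (z : ℂ) (τ : PvmnType) (ln : ((ℤ × ℤ) × (ℤ × ℤ)) × ℕ) : Set ℂ := pvszTr z (pvlsMp δ τ ln)

/-- **THE EVENT `A_κ`**: a walk of retained edges (radius `ρ`, window `clB(z,r)`) of the colour opposite to the colour of the type, through the strip, door to door -/
noncomputable def pvszEv (δ ρ r : ℝ) (z : ℂ) (τ : PvmnType) (ln : ((ℤ × ℤ) × (ℤ × ℤ)) × ℕ) : Set (Conf PvPt) :=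
  pvmwEv ρ (closedBall z r) (!τ.col) (pvszS δ z τ ln) (pvszDA δ z τ ln) (pvszDB δ z τ ln)

/-- **THE OPERATOR `K_κ`** (field `K`) -/
noncomputable def pvszK (δ ρ r : ℝ) (z : ℂ) (τ : PvmnType) (ln : ((ℤ × ℤ) × (ℤ × ℤ)) × ℕ) : PvrpK (Conf PvPt) (Finset ℂ) := pvprK (pvszS δ z τ ln) (!τ.col) (pvszEv δ ρ r z τ ln)

/-- **NOT F3** (field `Hg`) -/
noncomputable def pvszHg (p δ ρ r : ℝ) (z : ℂ) (τ : PvmnType) (ln : ((ℤ × ℤ) × (ℤ × ℤ)) × ℕ) : Set (Conf PvPt) := pvprHg (pvszS δ z τ ln) (!τ.col) (pvszEv δ ρ r z τ ln) p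

theorem pvsz_eqns_cite : True := by
  have := @pvszQ.eq_1; have := @pvszLen.eq_1; have := @pvszP.eq_1; have := @pvszCp.eq_1; have := @pvszTr.eq_1; have := @pvszL.eq_1; have := @pvszE0.eq_1; have := @pvszO.eq_1
  have := @pvszS.eq_1; have := @pvszDA.eq_1; have := @pvszDB.eq_1; have := @pvszMm.eq_1; have := @pvszMp.eq_1; have := @pvszEv.eq_1; have := @pvszK.eq_1; have := @pvszHg.eq_1
  trivial

section cand

variable {𝔑 : PvmnNum} {τ τ' : PvmnType} {ln ln' : ((ℤ × ℤ) × (ℤ × ℤ)) × ℕ} {δ δ' ρ ρ' r r' p : ℝ} {z z' : ℂ} {n : ℕ}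

theorem pvsz_win_compact (δ : ℝ) (z : ℂ) (τ : PvmnType) (ln : ((ℤ × ℤ) × (ℤ × ℤ)) × ℕ) (a b : ℕ) : IsCompact (pvszTr z (pvlpWin δ τ ln a b)) := pvsz_tr_compact (pvlp_win_compact δ τ ln a b)

theorem pvsz_S_compact (δ : ℝ) (z : ℂ) (τ : PvmnType) (ln : ((ℤ × ℤ) × (ℤ × ℤ)) × ℕ) : IsCompact (pvszS δ z τ ln) := pvsz_win_compact δ z τ ln _ _

theorem pvsz_S_bdd (δ : ℝ) (z : ℂ) (τ : PvmnType) (ln : ((ℤ × ℤ) × (ℤ × ℤ)) × ℕ) : Bornology.IsBounded (pvszS δ z τ ln) := (pvsz_S_compact δ z τ ln).isBounded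

theorem pvsz_S_meas (δ : ℝ) (z : ℂ) (τ : PvmnType) (ln : ((ℤ × ℤ) × (ℤ × ℤ)) × ℕ) : MeasurableSet (pvszS δ z τ ln) := (pvsz_S_compact δ z τ ln).measurableSet

theorem pvsz_DA_meas (δ : ℝ) (z : ℂ) (τ : PvmnType) (ln : ((ℤ × ℤ) × (ℤ × ℤ)) × ℕ) : MeasurableSet (pvszDA δ z τ ln) := (pvsz_win_compact δ z τ ln _ _).measurableSet

theorem pvsz_DB_meas (δ : ℝ) (z : ℂ) (τ : PvmnType) (ln : ((ℤ × ℤ) × (ℤ × ℤ)) × ℕ) : MeasurableSet (pvszDB δ z τ ln) := (pvsz_win_compact δ z τ ln _ _).measurableSet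

theorem pvsz_Mm_meas (δ : ℝ) (n : ℕ) (z : ℂ) (τ : PvmnType) (ln : ((ℤ × ℤ) × (ℤ × ℤ)) × ℕ) : MeasurableSet (pvszMm δ n z τ ln) := pvsz_tr_meas (pvls_Mm_measurable δ τ ln)

theorem pvsz_Mp_meas (δ : ℝ) (n : ℕ) (z : ℂ) (τ : PvmnType) (ln : ((ℤ × ℤ) × (ℤ × ℤ)) × ℕ) : MeasurableSet (pvszMp δ n z τ ln) := pvsz_tr_meas (pvls_Mp_measurable δ τ ln)

theorem pvsz_K_le (n : ℕ) (τ : PvmnType) (ln : ((ℤ × ℤ) × (ℤ × ℤ)) × ℕ) : pvlpK n τ ln ≤ pvlpN τ ln := by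
  classical
  unfold pvlpK
  split_ifs with h
  · exact (Nat.find_spec h).1
  · exact Nat.zero_le _

/-- the strip is the union of its two halves (`pvspJ t = t.Mm ∪ t.Mp` of 185) -/
theorem pvsz_S_union (δ : ℝ) (n : ℕ) (z : ℂ) (τ : PvmnType) (ln : ((ℤ × ℤ) × (ℤ × ℤ)) × ℕ) : pvszS δ z τ ln = pvszMm δ n z τ ln ∪ pvszMp δ n z τ ln := by
  unfold pvszS pvszMm pvszMp
  rw [← pvsz_tr_union, ← pvls_union]

theorem pvsz_DA_sub (δ : ℝ) (z : ℂ) (τ : PvmnType) (ln : ((ℤ × ℤ) × (ℤ × ℤ)) × ℕ) : pvszDA δ z τ ln ⊆ pvszS δ z τ ln := pvsz_tr_mono (pvlp_win_mono le_rfl (Nat.zero_le _))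

theorem pvsz_DB_sub (δ : ℝ) (z : ℂ) (τ : PvmnType) (ln : ((ℤ × ℤ) × (ℤ × ℤ)) × ℕ) : pvszDB δ z τ ln ⊆ pvszS δ z τ ln := pvsz_tr_mono (pvlp_win_mono (Nat.zero_le _) le_rfl)

/-- **the strip and the window of its retained triangles lie in `clB(z, r)`** -/
theorem pvsz_E_ball (hτ : PvmnIsType 𝔑 τ) (hl : PvmnLaneR τ ln.1 ln.2) (hδ : 0 < δ) (hr : 2 * ((𝔑.nBx : ℝ) + 7) * δ ≤ r) (z : ℂ) : pvszTr z (pvszE0 δ τ ln) ⊆ closedBall z r :=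
  pvsz_tr_ball ((pvsz_E0_ball hτ hl hδ).trans (closedBall_subset_closedBall hr))

theorem pvsz_S_ball (hτ : PvmnIsType 𝔑 τ) (hl : PvmnLaneR τ ln.1 ln.2) (hδ : 0 < δ) (hr : 2 * ((𝔑.nBx : ℝ) + 7) * δ ≤ r) (z : ℂ) : pvszS δ z τ ln ⊆ closedBall z r :=
  (pvsz_tr_mono (pvsz_S_sub_E0 hδ.le τ ln)).trans (pvsz_E_ball hτ hl hδ hr z)

/-- `A_κ` increases with the set of the sites of the strip which carry the forced colour -/
theorem pvsz_ev_inc (δ ρ r : ℝ) (z : ℂ) (τ : PvmnType) (ln : ((ℤ × ℤ) × (ℤ × ℤ)) × ℕ) : PvpInc (pvszS δ z τ ln) (!τ.col) (pvszEv δ ρ r z τ ln) := pvmw_inc _ _ _ _ _ _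

theorem pvsz_ev_reads (δ ρ r : ℝ) (z : ℂ) (τ : PvmnType) (ln : ((ℤ × ℤ) × (ℤ × ℤ)) × ℕ) : Conf.ReadsSet (closedBall z r ×ˢ (univ : Set Bool)) (pvszEv δ ρ r z τ ln) := pvmw_reads _ _ _ _ _ _

theorem pvsz_ev_meas (δ ρ r : ℝ) (z : ℂ) (τ : PvmnType) (ln : ((ℤ × ℤ) × (ℤ × ℤ)) × ℕ) : MeasurableSet (pvConf ⁻¹' pvszEv δ ρ r z τ ln) :=
  pvmw_meas (pvtm_meas_in_closed isClosed_closedBall) ρ _ (pvsz_S_meas δ z τ ln) (pvsz_DA_meas δ z τ ln) (pvsz_DB_meas δ z τ ln)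

theorem pvsz_ev_ms (δ ρ r : ℝ) (z : ℂ) (τ : PvmnType) (ln : ((ℤ × ℤ) × (ℤ × ℤ)) × ℕ) : PvpMs fun ξ => ξ ∈ pvszEv δ ρ r z τ ln := PvpMs.of_set (pvsz_ev_meas δ ρ r z τ ln)

theorem pvsz_ev_sec (δ ρ r : ℝ) (z : ℂ) (τ : PvmnType) (ln : ((ℤ × ℤ) × (ℤ × ℤ)) × ℕ) (g : PvGeoT) : MeasurableSet {c : PvColT | pvConf (pvMerge (g, c)) ∈ pvszEv δ ρ r z τ ln} :=
  (measurable_pvMerge.comp (measurable_const.prodMk measurable_id)) (pvsz_ev_meas δ ρ r z τ ln)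

theorem pvsz_Hg_ms (p δ ρ r : ℝ) (z : ℂ) (τ : PvmnType) (ln : ((ℤ × ℤ) × (ℤ × ℤ)) × ℕ) : PvpMs fun ξ => ξ ∈ pvszHg p δ ρ r z τ ln :=
  pvpr_Hg_ms (pvsz_S_meas δ z τ ln) (pvsz_S_bdd δ z τ ln) _ (pvsz_ev_ms δ ρ r z τ ln) p

theorem pvsz_Hg_reads (hS : pvszS δ z τ ln ⊆ closedBall z r) (p ρ : ℝ) : Conf.ReadsSet (closedBall z r ×ˢ (univ : Set Bool)) (pvszHg p δ ρ r z τ ln) := by
  intro η
  have h := pvpQ_reads (S := pvszS δ z τ ln) (W := closedBall z r ×ˢ (univ : Set Bool)) (fun q hq => ⟨hS hq, mem_univ _⟩) (pvsz_ev_reads δ ρ r z τ ln) (!τ.col) η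
  show p ≤ pvpQ _ _ _ (Conf.restr _ η) ↔ p ≤ pvpQ _ _ _ η
  rw [h]

/-- the three twins of the operator (59, 286, 185) are one operator -/
theorem pvsz_K_twins (S : Set ℂ) (b : Bool) (𝒜 : Set (Conf PvPt)) : pvprK S b 𝒜 = pvnzK S b 𝒜 ∧ pvprK S b 𝒜 = pvspKer S b 𝒜 := ⟨rfl, rfl⟩

/-- **SUPPORT** (for the field `stab`): a move of non zero weight at a geometry of `Hg` only ADDS the forced colour inside the strip, and realises `A_κ` -/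
theorem pvsz_K_supp (hp : 0 < p) {ξ : Conf PvPt} (hξ : ξ ∈ pvszHg p δ ρ r z τ ln) {B : Finset ℂ} (hB : B ∈ (pvszK δ ρ r z τ ln).I ξ) (hw : (pvszK δ ρ r z τ ln).wt ξ B ≠ 0) :
    cfStripOn (pvszS δ z τ ln) (!τ.col) ξ ⊆ B ∧ B ⊆ cfStrip (pvszS δ z τ ln) ξ ∧ (pvszK δ ρ r z τ ln).mv ξ B = cfPaint (pvszS δ z τ ln) (!τ.col) B ξ ∧ (pvszK δ ρ r z τ ln).mv ξ B ∈ pvszEv δ ρ r z τ ln := by
  obtain ⟨h1, h2, h3⟩ := pvpr_K_supp (pvsz_ev_inc δ ρ r z τ ln) (lt_of_lt_of_le hp hξ) hB hw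
  exact ⟨h1, h2, rfl, h3⟩

/-! ### the PREP fields of `PvrpInU` -/

/-- field **`dom1`** -/
theorem pvsz_dom1 (ε : ℝ) (hp : 0 < p) (δ ρ r : ℝ) (z : ℂ) (τ : PvmnType) (ln : ((ℤ × ℤ) × (ℤ × ℤ)) × ℕ) (F : Conf PvPt → ℝ≥0∞) :
    (pvhbUp ε).E (fun q => (pvszHg p δ ρ r z τ ln).indicator ((pvszK δ ρ r z τ ln).Op F) (pvConf (pvMerge q))) ≤ ENNReal.ofReal p⁻¹ * (pvhbUp ε).E (fun q => F (pvConf (pvMerge q))) :=
  pvnz_K_dom1 ε (pvsz_S_bdd δ z τ ln) (pvsz_ev_inc δ ρ r z τ ln) (fun g _ => pvsz_ev_sec δ ρ r z τ ln g) hp F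

/-- a function which is read in a window disjoint from the strip is blind -/
theorem pvsz_blind {γ : Type} {W : Set ℂ} {f : Conf PvPt → γ} (h : Conf.Reads (W ×ˢ (univ : Set Bool)) f) (hd : Disjoint (pvszS δ z τ ln) W) (ρ r : ℝ) : (pvszK δ ρ r z τ ln).Blind f :=
  pvpr_K_blind (pvpr_blind_of_reads (by rwa [Set.prod_univ] at h) hd) _ _

/-- fields `bl_G` -/
theorem pvsz_blindS {W : Set ℂ} {G : Set (Conf PvPt)} (h : Conf.ReadsSet (W ×ˢ (univ : Set Bool)) G) (hd : Disjoint (pvszS δ z τ ln) W) (ρ r : ℝ) : (pvszK δ ρ r z τ ln).BlindS G :=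
  pvpr_K_blindS (pvpr_blind_of_readsSet (by rwa [Set.prod_univ] at h) hd) _ _

/-- the strip event of a far candidate is blind to the strip -/
theorem pvsz_ev_blind (hd : Disjoint (pvszS δ z τ ln) (closedBall z' r')) (δ' ρ' : ℝ) (τ' : PvmnType) (ln' : ((ℤ × ℤ) × (ℤ × ℤ)) × ℕ) : PvpBlind (pvszS δ z τ ln) (fun ζ => ζ ∈ pvszEv δ' ρ' r' z' τ' ln') :=
  pvpr_blind_of_readsSet (by have := pvsz_ev_reads δ' ρ' r' z' τ' ln'; rwa [Set.prod_univ] at this) hd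

/-- field **`dom2`** -/
theorem pvsz_dom2 (ε : ℝ) (hp : 0 < p) (hd : Disjoint (pvszS δ z τ ln) (closedBall z' r')) (hS' : pvszS δ' z' τ' ln' ⊆ closedBall z' r') (ρ r ρ' : ℝ) (Z : Conf PvPt → ℝ≥0∞) :
    (pvhbUp ε).E (fun q => (pvszHg p δ ρ r z τ ln ∩ pvszHg p δ' ρ' r' z' τ' ln').indicator ((pvszK δ ρ r z τ ln).Op ((pvszK δ' ρ' r' z' τ' ln').Op Z)) (pvConf (pvMerge q)))
      ≤ ENNReal.ofReal (p⁻¹ ^ 2) * (pvhbUp ε).E (fun q => Z (pvConf (pvMerge q))) :=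
  pvnz_K_dom2 ε (hd.mono_right hS') (pvsz_S_bdd δ z τ ln) (pvsz_S_bdd δ' z' τ' ln') (pvsz_ev_inc δ ρ r z τ ln) (pvsz_ev_inc δ' ρ' r' z' τ' ln')
    (fun g _ => pvsz_ev_sec δ ρ r z τ ln g) (fun g _ => pvsz_ev_sec δ' ρ' r' z' τ' ln' g) (pvsz_ev_blind hd δ' ρ' τ' ln') hp Z

/-- field **`bl_gam`** -/
theorem pvsz_bl_gam (hd : Disjoint (pvszS δ z τ ln) (closedBall z' r')) (hS' : pvszS δ' z' τ' ln' ⊆ closedBall z' r') {G' : Set (Conf PvPt)}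
    (hG' : Conf.ReadsSet (closedBall z' r' ×ˢ (univ : Set Bool)) G') (ρ r ρ' : ℝ) : (pvszK δ ρ r z τ ln).Blind ((pvszK δ' ρ' r' z' τ' ln').gam G') :=
  pvpr_bl_gam (hd.mono_right hS') (pvsz_ev_blind hd δ' ρ' τ' ln') (pvpr_blind_of_readsSet (by rwa [Set.prod_univ] at hG') hd) _ _ _

/-- field **`bl_av`** -/
theorem pvsz_bl_av (hd : Disjoint (pvszS δ z τ ln) (closedBall z' r')) (hS' : pvszS δ' z' τ' ln' ⊆ closedBall z' r') {G' : Set (Conf PvPt)}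
    (hG' : Conf.ReadsSet (closedBall z' r' ×ˢ (univ : Set Bool)) G') {ψ' : Conf PvPt → ℂ} (hψ' : Conf.Reads (closedBall z' r' ×ˢ (univ : Set Bool)) ψ') (ρ r ρ' : ℝ) :
    (pvszK δ ρ r z τ ln).Blind ((pvszK δ' ρ' r' z' τ' ln').Av (G'.indicator ψ')) :=
  pvpr_bl_av (hd.mono_right hS') (pvsz_ev_blind hd δ' ρ' τ' ln') (pvpr_blind_of_readsSet (by rwa [Set.prod_univ] at hG') hd)
    (pvpr_blind_of_reads (by rwa [Set.prod_univ] at hψ') hd) _ _ _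

/-- two candidates whose centres are more than `r + r'` apart -/
theorem pvsz_far (hS : pvszS δ z τ ln ⊆ closedBall z r) (h : r + r' < ‖z - z'‖) : Disjoint (pvszS δ z τ ln) (closedBall z' r') := by
  refine (closedBall_disjoint_closedBall ?_).mono_left hS
  rwa [dist_eq_norm]

end cand

/-! ## 4. the cost of F3 -/

section cost

variable {𝔑 : PvmnNum} {τ : PvmnType} {ln : ((ℤ × ℤ) × (ℤ × ℤ)) × ℕ} {δ ρ r p : ℝ}

/-- **at a good geometry the candidate is not flagged, whatever the colours** -/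
theorem pvsz_good (hτ : PvmnIsType 𝔑 τ) (hl : PvmnLaneR τ ln.1 ln.2) (hδ : 0 < δ) (hρ : δ / 20 ≤ ρ) (hr : 2 * ((𝔑.nBx : ℝ) + 7) * δ ≤ r) (o : ℤ × ℤ) {g : PvGeoT}
    (hg : PvmwGood p (δ / 5) (!τ.col) (pvszL τ ln o) g) (x : PvColT) : pvConf (pvMerge (g, x)) ∈ pvszHg p δ ρ r (pvmgPt (δ / 5) o) τ ln := by
  refine hg.Q_ge (by positivity) (pvsz_L_ne τ ln o) (pvsz_L_chain hτ hl o) (by linarith) ?_ (pvsz_S_bdd _ _ _ _) ?_ (k := pvlpC τ ln 0 + o) (k' := pvlpC τ ln (pvlpN τ ln) + o) ?_ ?_ ?_ ?_ x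
  · rw [pvsz_E]
    exact pvsz_E_ball hτ hl hδ hr _
  · rw [pvsz_W]
    exact Subset.rfl
  · exact pvsz_mem_L.2 ⟨0, Nat.zero_le _, rfl⟩
  · exact pvsz_mem_L.2 ⟨_, le_rfl, rfl⟩
  · rw [pvsz_W_one]
    exact Subset.rfl
  · rw [pvsz_W_one]
    exact Subset.rfl

/-- **COST OF F3**: uniform in the centre (a vector of the fine grid), in the type, in the scale `δ ≥ 5 U ε` -/
theorem pvsz_cost (𝔑 : PvmnNum) {θ : ℝ} (hθ : 0 < θ) : ∃ U : ℝ, 1 ≤ U ∧ ∀ ε : ℝ, 0 < ε → ∀ δ : ℝ, U * ε ≤ δ / 5 → ∀ τ ln, PvmnIsType 𝔑 τ → PvmnLaneR τ ln.1 ln.2 →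
    ∀ (o : ℤ × ℤ) (ρ r : ℝ), δ / 20 ≤ ρ → 2 * ((𝔑.nBx : ℝ) + 7) * δ ≤ r →
      pvLaw ε (pvConf ⁻¹' (pvszHg (pvszP 𝔑) δ ρ r (pvmgPt (δ / 5) o) τ ln)ᶜ) ≤ ENNReal.ofReal θ := by
  obtain ⟨U, hU1, HU⟩ := pvsz_Q_spec (pvszLen 𝔑) hθ
  refine ⟨U, hU1, fun ε hε δ hδU τ ln hτ hl o ρ r hρ hr => ?_⟩
  have hδ : 0 < δ := by
    have : 0 < δ / 5 := lt_of_lt_of_le (by positivity) hδU
    linarith
  have hsub : pvConf ⁻¹' (pvszHg (pvszP 𝔑) δ ρ r (pvmgPt (δ / 5) o) τ ln)ᶜ ⊆ {ω | pvGeoOf ω ∈ {g | ¬ PvmwGood (pvszP 𝔑) (δ / 5) (!τ.col) (pvszL τ ln o) g}} := by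
    intro ω hω hg
    have h1 := pvsz_good hτ hl hδ hρ hr o hg (pvColOf ω)
    rw [pvqu_merge_of] at h1
    exact hω h1
  exact ((measure_mono hsub).trans (pvax_geo_le ε _)).trans (HU ε hε (δ / 5) hδU _ _ (pvsz_L_ne τ ln o) (pvsz_L_chain hτ hl o) (pvsz_L_len hτ hl o))

/-- the same under the OUTER measure of the configurations (bridge of 59) -/
theorem pvsz_cost_P (ε p δ ρ r : ℝ) (z : ℂ) (τ : PvmnType) (ln : ((ℤ × ℤ) × (ℤ × ℤ)) × ℕ) : pvP ε (pvszHg p δ ρ r z τ ln)ᶜ = pvLaw ε (pvConf ⁻¹' (pvszHg p δ ρ r z τ ln)ᶜ) :=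
  pvmz_apply ((pvsz_Hg_ms p δ ρ r z τ ln).comp (φ := fun q : Prop => ¬ q) measurable_from_top) ε

/-- the same under the upper expectation of the node -/
theorem pvsz_cost_up (ε p δ ρ r : ℝ) (z : ℂ) (τ : PvmnType) (ln : ((ℤ × ℤ) × (ℤ × ℤ)) × ℕ) : (pvhbUp ε).P {q | pvConf (pvMerge q) ∉ pvszHg p δ ρ r z τ ln} ≤ pvLaw ε (pvConf ⁻¹' (pvszHg p δ ρ r z τ ln)ᶜ) :=
  pvhb_up_P_law ε (pvConf ⁻¹' (pvszHg p δ ρ r z τ ln)ᶜ)

/-- **THE FLAG F3 AT A CENTRE**: some type of the menu has `P^η(A_κ) < p_*` -/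
noncomputable def pvszF3 (𝔑 : PvmnNum) (δ ρ r : ℝ) (z : ℂ) : Set (Conf PvPt) := ⋃ τ ∈ pvmnMenu 𝔑, ⋃ ln ∈ {ln : ((ℤ × ℤ) × (ℤ × ℤ)) × ℕ | PvmnLaneR τ ln.1 ln.2}, (pvszHg (pvszP 𝔑) δ ρ r z τ ln)ᶜ

theorem pvsz_eqns_cite2 : True := by
  have := @pvszF3.eq_1
  trivial

theorem pvsz_not_F3 {z : ℂ} {ξ : Conf PvPt} (h : ξ ∉ pvszF3 𝔑 δ ρ r z) (hτ : PvmnIsType 𝔑 τ) (hl : PvmnLaneR τ ln.1 ln.2) : ξ ∈ pvszHg (pvszP 𝔑) δ ρ r z τ ln := by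
  by_contra hc
  exact h (mem_biUnion (show τ ∈ pvmnMenu 𝔑 from hτ) (mem_biUnion (show ln ∈ {ln : ((ℤ × ℤ) × (ℤ × ℤ)) × ℕ | PvmnLaneR τ ln.1 ln.2} from hl) hc))

theorem pvsz_F3_reads (hδ : 0 < δ) (hr : 2 * ((𝔑.nBx : ℝ) + 7) * δ ≤ r) (ρ : ℝ) (z : ℂ) : Conf.ReadsSet (closedBall z r ×ˢ (univ : Set Bool)) (pvszF3 𝔑 δ ρ r z) :=
  Conf.ReadsSet.iUnion fun τ => Conf.ReadsSet.iUnion fun hτ => Conf.ReadsSet.iUnion fun ln => Conf.ReadsSet.iUnion fun hl => (pvsz_Hg_reads (pvsz_S_ball hτ hl hδ hr z) _ ρ).compl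

/-- the window of the flag in blocks of side `h` -/
theorem pvsz_win_blk {h r₀ : ℝ} (hh : 0 < h) {w : ℕ} (hw : r₀ + 1 ≤ w) (p : ℤ × ℤ) : closedBall (l9Pt h p) (r₀ * h) ×ˢ (univ : Set Bool) ⊆ pvtdWin h w p := by
  rintro ⟨z, b⟩ ⟨hz, -⟩
  simp only at hz
  rw [mem_closedBall, Complex.dist_eq] at hz
  have h1 : |(z - l9Pt h p).re| ≤ r₀ * h := (Complex.abs_re_le_norm _).trans hz
  have h2 : |(z - l9Pt h p).im| ≤ r₀ * h := (Complex.abs_im_le_norm _).trans hz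
  simp only [l9Pt, Complex.sub_re, Complex.sub_im] at h1 h2
  rw [abs_le] at h1 h2
  show pv5Dist (pv5Blk h z) p ≤ w
  have key : ∀ (t : ℝ) (q : ℤ), -(r₀ * h) ≤ t - (q : ℝ) * h → t - (q : ℝ) * h ≤ r₀ * h → |⌊t / h⌋ - q| ≤ (w : ℤ) := by
    intro t q a1 a2
    have b1 : (q : ℝ) - r₀ ≤ t / h := by
      rw [le_div_iff₀ hh]
      nlinarith
    have b2 : t / h ≤ (q : ℝ) + r₀ := by
      rw [div_le_iff₀ hh]
      nlinarith
    have c1 : (⌊t / h⌋ : ℝ) ≤ t / h := Int.floor_le _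
    have c2 : t / h < (⌊t / h⌋ : ℝ) + 1 := Int.lt_floor_add_one _
    rw [abs_le]
    constructor
    · have : (-(w : ℤ) : ℝ) ≤ ((⌊t / h⌋ - q : ℤ) : ℝ) := by
        push_cast
        linarith
      exact_mod_cast this
    · have : ((⌊t / h⌋ - q : ℤ) : ℝ) ≤ ((w : ℤ) : ℝ) := by
        push_cast
        linarith
      exact_mod_cast this
  unfold pv5Dist pv5Blk
  exact max_le (key _ _ h1.1 h1.2) (key _ _ h2.1 h2.2)

/-- **F3 IN THE FORM `PvxpFlag` OF 12**: scale `h m`, fine cells of side `h m / k₀` (so `dl = 5 / k₀`), radius of the retained triangles `ρ₀ h m`, window `r₀ h m`, ANY budget `ζ > 0` -/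
theorem pvsz_flag (𝔑 : PvmnNum) (h : ℕ → ℝ) (hh : ∀ m, 0 < h m) {k₀ : ℕ} (hk : 0 < k₀) {ρ₀ r₀ : ℝ} (hρ : 1 / (4 * (k₀ : ℝ)) ≤ ρ₀) (hr : 10 * ((𝔑.nBx : ℝ) + 7) / k₀ ≤ r₀)
    {w : ℕ} (hw : r₀ + 1 ≤ w) {ζ : ℝ≥0∞} (hζ : 0 < ζ) :
    PvxpFlag h w ζ fun m p => pvszF3 𝔑 (5 * (h m / k₀)) (ρ₀ * h m) (r₀ * h m) (l9Pt (h m) p) := by
  have hk' : (0 : ℝ) < k₀ := by exact_mod_cast hk
  have hδ : ∀ m, 0 < 5 * (h m / k₀) := fun m => by have := hh m; positivity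
  have hr' : ∀ m, 2 * ((𝔑.nBx : ℝ) + 7) * (5 * (h m / k₀)) ≤ r₀ * h m := fun m => by
    have e : 2 * ((𝔑.nBx : ℝ) + 7) * (5 * (h m / k₀)) = 10 * ((𝔑.nBx : ℝ) + 7) / k₀ * h m := by field_simp; ring
    rw [e]
    exact mul_le_mul_of_nonneg_right hr (hh m).le
  have hρ' : ∀ m, 5 * (h m / k₀) / 20 ≤ ρ₀ * h m := fun m => by
    have e : 5 * (h m / k₀) / 20 = 1 / (4 * (k₀ : ℝ)) * h m := by field_simp; ring
    rw [e]
    exact mul_le_mul_of_nonneg_right hρ (hh m).le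
  refine ⟨fun m p => (pvsz_F3_reads (hδ m) (hr' m) _ _).mono (pvsz_win_blk (hh m) hw p), fun x R => Eventually.of_forall fun m => ?_⟩
  -- the finite set of the pairs (type, lane)
  have hfin : {x : PvmnType × (((ℤ × ℤ) × (ℤ × ℤ)) × ℕ) | PvmnIsType 𝔑 x.1 ∧ PvmnLaneR x.1 x.2.1 x.2.2}.Finite := by
    have h1 : (⋃ τ ∈ pvmnMenu 𝔑, (fun ln => (τ, ln)) '' {ln : ((ℤ × ℤ) × (ℤ × ℤ)) × ℕ | PvmnLaneR τ ln.1 ln.2}).Finite :=
      (pvmn_menu_finite 𝔑).biUnion fun τ _ => (pvlp_lanes_finite τ).image _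
    refine h1.subset ?_
    rintro ⟨τ, ln⟩ ⟨a1, a2⟩
    exact mem_biUnion (show τ ∈ pvmnMenu 𝔑 from a1) ⟨ln, a2, rfl⟩
  obtain ⟨θ, hθ, hθζ⟩ := ENNReal.exists_nnreal_pos_mul_lt (a := (hfin.toFinset.card : ℝ≥0∞)) (ENNReal.natCast_ne_top _) hζ.ne'
  obtain ⟨U, hU1, HU⟩ := pvsz_cost 𝔑 (θ := (θ : ℝ)) (by exact_mod_cast hθ)
  have hev : ∀ᶠ ε in 𝓝[>] (0 : ℝ), ε < h m / k₀ / U := by
    have : (0 : ℝ) < h m / k₀ / U := by have := hh m; positivity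
    exact mem_nhdsWithin_of_mem_nhds (Iio_mem_nhds this)
  filter_upwards [hev, self_mem_nhdsWithin] with ε hε hε0 p _
  have hUε : U * ε ≤ 5 * (h m / k₀) / 5 := by
    have hU0 : 0 < U := by linarith
    rw [lt_div_iff₀ hU0] at hε
    linarith
  have hz : l9Pt (h m) p = pvmgPt (5 * (h m / k₀) / 5) (pvszO k₀ p) := pvsz_l9 (by field_simp) p
  have hsub : pvszF3 𝔑 (5 * (h m / k₀)) (ρ₀ * h m) (r₀ * h m) (l9Pt (h m) p) = ⋃ x ∈ hfin.toFinset, (pvszHg (pvszP 𝔑) (5 * (h m / k₀)) (ρ₀ * h m) (r₀ * h m) (l9Pt (h m) p) x.1 x.2)ᶜ := by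
    unfold pvszF3
    ext ξ
    simp only [mem_iUnion, Set.Finite.mem_toFinset, mem_ofPred_eq, exists_prop]
    constructor
    · rintro ⟨τ, a1, ln, a2, a3⟩
      exact ⟨(τ, ln), ⟨a1, a2⟩, a3⟩
    · rintro ⟨x, ⟨a1, a2⟩, a3⟩
      exact ⟨x.1, a1, x.2, a2, a3⟩
  rw [hsub]
  refine (measure_biUnion_finset_le _ _).trans ?_
  refine (Finset.sum_le_card_nsmul _ _ (θ : ℝ≥0∞) fun x hx => ?_).trans ?_
  · rw [pvsz_cost_P, hz]
    have hx' := (Set.Finite.mem_toFinset hfin).1 hx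
    have := HU ε hε0 _ hUε x.1 x.2 hx'.1 hx'.2 (pvszO k₀ p) (ρ₀ * h m) (r₀ * h m) (hρ' m) (hr' m)
    rwa [ENNReal.ofReal_coe_nnreal] at this
  · rw [nsmul_eq_mul, mul_comm]
    exact hθζ.le

end cost

/-! ## 5. the bridge to the placed geometry `PvspTy` of 185 (`Tr/StateP`) -/

section bridge

variable {ρ : ℝ} {E S A A' B B' : Set ℂ} {c : Bool}

/-- only the parts of the doors inside the strip matter -/
theorem pvsz_doors_sub (hA : A ∩ S ⊆ A') (hB : B ∩ S ⊆ B') : pvmwEv ρ E c S A B ⊆ pvmwEv ρ E c S A' B' := by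
  rintro η ⟨l, hl, ⟨a, ha, haA⟩, b, hb, hbB⟩
  exact ⟨l, hl, ⟨a, ha, hA ⟨haA, (hl.2 a (List.mem_of_mem_head? ha)).2.2⟩⟩, b, hb, hB ⟨hbB, (hl.2 b (List.mem_of_mem_getLast? hb)).2.2⟩⟩

theorem pvsz_doors (hA : A ∩ S = A' ∩ S) (hB : B ∩ S = B' ∩ S) : pvmwEv ρ E c S A B = pvmwEv ρ E c S A' B' :=
  Subset.antisymm (pvsz_doors_sub (hA ▸ inter_subset_left) (hB ▸ inter_subset_left)) (pvsz_doors_sub (hA ▸ inter_subset_left) (hB ▸ inter_subset_left))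

/-- **the lane part of the placed geometry `t` of 185 is the placed lane of the type `τ ln`**.      The doors `t.Dm`, `t.Dp` (which also serve the black tubes) must meet the strip exactly in the door windows of the corridor:
e.g. `t.Dm := pvmgPl z δ (pvmnNm τ ln ∩ pvmnDrm τ ln) ∪ pvszDA δ z τ ln` -/
structure PvszIs (N : PvspNum) (t : PvspTy) (h δ ρ r : ℝ) (n : ℕ) (z : ℂ) (τ : PvmnType) (ln : ((ℤ × ℤ) × (ℤ × ℤ)) × ℕ) : Prop where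
  col : t.col = τ.col
  Mm : t.Mm = pvszMm δ n z τ ln
  Mp : t.Mp = pvszMp δ n z τ ln
  EJ : t.EJ = closedBall z r
  mu : N.mu * h = ρ
  Dm : t.Dm ∩ pvszS δ z τ ln = pvszDA δ z τ ln
  Dp : t.Dp ∩ pvszS δ z τ ln = pvszDB δ z τ ln

variable {N : PvspNum} {t : PvspTy} {h δ r : ℝ} {n : ℕ} {z : ℂ} {τ : PvmnType} {ln : ((ℤ × ℤ) × (ℤ × ℤ)) × ℕ}

theorem PvszIs.J (H : PvszIs N t h δ ρ r n z τ ln) : pvspJ t = pvszS δ z τ ln := by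
  unfold pvspJ
  rw [H.Mm, H.Mp, ← pvsz_S_union]

theorem PvszIs.lane (H : PvszIs N t h δ ρ r n z τ ln) : pvspLane N t h = pvszEv δ ρ r z τ ln := by
  have e : pvspLane N t h = pvmwEv (N.mu * h) t.EJ (!t.col) (pvspJ t) t.Dm t.Dp := rfl
  rw [e, H.J, H.mu, H.EJ, H.col]
  refine pvsz_doors ?_ ?_
  · rw [H.Dm, inter_eq_left.2 (pvsz_DA_sub δ z τ ln)]
  · rw [H.Dp, inter_eq_left.2 (pvsz_DB_sub δ z τ ln)]

theorem PvszIs.K (H : PvszIs N t h δ ρ r n z τ ln) : pvspK N t h = pvszK δ ρ r z τ ln := by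
  have e : pvspK N t h = pvprK (pvspJ t) (!t.col) (pvspLane N t h) := rfl
  rw [e, H.J, H.lane, H.col]
  rfl

theorem PvszIs.Hg (H : PvszIs N t h δ ρ r n z τ ln) : pvspHg N t h = pvszHg N.pst δ ρ r z τ ln := by
  have e : pvspHg N t h = pvprHg (pvspJ t) (!t.col) (pvspLane N t h) N.pst := rfl
  rw [e, H.J, H.lane, H.col]
  rfl

end bridge

/-! ## 6. USE: the walk of a prepared configuration -/

section use

variable {𝔑 : PvmnNum} {τ : PvmnType} {ln : ((ℤ × ℤ) × (ℤ × ℤ)) × ℕ} {δ ρ r : ℝ} {z : ℂ} {ξ : Conf PvPt}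

/-- an edge of a retained triangle has length `≤ 2ρ` -/
theorem pvsz_step {E : Set ℂ} {p q : PvPt} (h : PvtmAdj (pvtrSet ρ E ξ) p q) :
    ‖q.1 - p.1‖ ≤ 2 * ρ ∧ ∃ w, DelTri (cfSites ξ) p.1 q.1 w ∨ DelTri (cfSites ξ) q.1 p.1 w := by
  have key : ∀ a b c : ℂ, PvRet ρ E (cfSites ξ) a b c → ‖b - a‖ ≤ 2 * ρ ∧ DelTri (cfSites ξ) a b c := by
    intro a b c hR
    obtain ⟨h1, h2, -⟩ := pvtr_iff.1 hR
    have hdet : vorDet a b c ≠ 0 := ne_of_gt h1.2.2.2.1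
    have hv := pvtr_vertices_disc hdet
    have ha : a ∈ closedBall (delO a b c) ‖delO a b c - a‖ := hv (by simp)
    have hb : b ∈ closedBall (delO a b c) ‖delO a b c - a‖ := hv (by simp)
    rw [mem_closedBall, dist_eq_norm] at ha hb
    refine ⟨?_, h1⟩
    calc ‖b - a‖ = ‖(b - delO a b c) - (a - delO a b c)‖ := by ring_nf
      _ ≤ ‖b - delO a b c‖ + ‖a - delO a b c‖ := norm_sub_le _ _
      _ ≤ 2 * ρ := by linarith
  obtain ⟨w, hw | hw⟩ := h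
  · obtain ⟨h1, h2⟩ := key _ _ _ hw.2.2.2
    exact ⟨h1, w.1, Or.inl h2⟩
  · obtain ⟨h1, h2⟩ := key _ _ _ hw.2.2.2
    exact ⟨by rw [norm_sub_rev]; exact h1, w.1, Or.inr h2⟩

/-- **USE 1: THE WALK AS A CHAIN OF SITES**: sites of the forced colour in the strip, consecutive ones are joined by an edge of a Delaunay triangle of the FULL configuration, of length `≤ 2ρ`, from the door `A` to the door `B` -/
theorem pvsz_walk (h : ξ ∈ pvszEv δ ρ r z τ ln) : ∃ (n : ℕ) (x : ℕ → ℂ),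
    (∀ j, j ≤ n → (x j, !τ.col) ∈ ξ.pts ∧ x j ∈ pvszS δ z τ ln ∧ x j ∈ closedBall z r ∧ ∃ b w, DelTri (cfSites ξ) (x j) b w) ∧
    (∀ j, j < n → ‖x (j + 1) - x j‖ ≤ 2 * ρ ∧ ∃ w, DelTri (cfSites ξ) (x j) (x (j + 1)) w ∨ DelTri (cfSites ξ) (x (j + 1)) (x j) w) ∧
    x 0 ∈ pvszDA δ z τ ln ∧ x n ∈ pvszDB δ z τ ln := by
  obtain ⟨l, ⟨hch, hl⟩, ⟨a, ha, haA⟩, b, hb, hbB⟩ := h
  have hne : l ≠ [] := by
    rintro rfl
    simp at ha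
  have hpos : 0 < l.length := List.length_pos_iff.2 hne
  -- the vertices of the retained triangles
  have hV : ∀ p ∈ pvtmV (pvtrSet ρ (closedBall z r) ξ), p ∈ ξ.pts ∧ p.1 ∈ closedBall z r ∧ ∃ b w, DelTri (cfSites ξ) p.1 b w := by
    rintro p ⟨q, w, hq | hq | hq⟩
    · exact ⟨hq.1, hq.2.2.2.1.2, _, _, (pvtr_iff.1 hq.2.2.2).1⟩
    · exact ⟨hq.2.1, hq.2.2.2.2.1.2, _, _, del_tri_cyc (pvtr_iff.1 hq.2.2.2).1⟩
    · exact ⟨hq.2.2.1, hq.2.2.2.2.2.1.2, _, _, del_tri_cyc (del_tri_cyc (pvtr_iff.1 hq.2.2.2).1)⟩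
  refine ⟨l.length - 1, fun j => (l.getD j a).1, fun j hj => ?_, fun j hj => ?_, ?_, ?_⟩
  · have hjl : j < l.length := by omega
    have e : l.getD j a = l[j] := List.getD_eq_getElem _ _ hjl
    have hm : l[j] ∈ l := List.getElem_mem hjl
    obtain ⟨h1, h2, h3⟩ := hl _ hm
    obtain ⟨g1, g2, g3⟩ := hV _ h1
    simp only [e]
    refine ⟨?_, h3, g2, g3⟩
    rw [← h2]
    exact g1
  · have hjl : j + 1 < l.length := by omega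
    have e : l.getD j a = l[j] := List.getD_eq_getElem _ _ (by omega)
    have e' : l.getD (j + 1) a = l[j + 1] := List.getD_eq_getElem _ _ hjl
    simp only [e, e']
    exact pvsz_step (List.isChain_iff_getElem.1 hch j hjl)
  · have e : l.getD 0 a = l[0] := List.getD_eq_getElem _ _ hpos
    simp only [e]
    have : l.head? = some l[0] := by rw [List.head?_eq_getElem?, List.getElem?_eq_getElem hpos]
    rw [this] at ha
    rw [Option.mem_some_iff.1 ha] 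
    exact haA
  · have e : l.getD (l.length - 1) a = l[l.length - 1] := List.getD_eq_getElem _ _ (by omega)
    simp only [e]
    have : l.getLast? = some l[l.length - 1] := by rw [List.getLast?_eq_getElem?, List.getElem?_eq_getElem (by omega)]
    rw [this] at hb
    rw [Option.mem_some_iff.1 hb]
    exact hbB

/-- **USE 2: THE SPLIT AT THE CUT** (`pvls_split_p`, `pvls_split_m` of 225, SPATIAL cut): from the time `Jp` on the walk stays in `Mp`, up to the time `Jm` it stays in `Mm`, and at both times it lies over the bar at the pin -/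
theorem pvsz_split (hτ : PvmnIsType 𝔑 τ) (hl : PvmnLaneR τ ln.1 ln.2) (hδ : 0 < δ) (hρ : ρ ≤ δ / 20) (n₀ : ℕ) {n : ℕ} {x : ℕ → ℂ} (hx : ∀ j, j ≤ n → x j ∈ pvszS δ z τ ln) (hs : ∀ j, j < n → ‖x (j + 1) - x j‖ ≤ 2 * ρ)
    (h0 : x 0 ∈ pvszDA δ z τ ln) (hn : x n ∈ pvszDB δ z τ ln) :
    (∃ Jp, Jp ≤ n ∧ x Jp ∈ pvszTr z (pvtU δ (pvmnBar 𝔑 τ 5)) ∧ ∀ j, Jp ≤ j → j ≤ n → x j ∈ pvszMp δ n₀ z τ ln) ∧
    ∃ Jm, Jm ≤ n ∧ x Jm ∈ pvszTr z (pvtU δ (pvmnBar 𝔑 τ 5)) ∧ ∀ j, j ≤ Jm → x j ∈ pvszMm δ n₀ z τ ln := by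
  have hs' : ∀ j, j < n → ‖(x (j + 1) - z) - (x j - z)‖ ≤ δ / 2 := fun j hj => by
    rw [sub_sub_sub_cancel_right]
    exact (hs j hj).trans (by linarith)
  obtain ⟨Jp, -, a1, a2, a3⟩ := pvls_split_p hτ hl hδ (fun j => x j - z) n (fun j hj => pvsz_mem.1 (hx j hj)) hs' (pvsz_mem.1 h0) (pvsz_mem.1 hn)
  obtain ⟨Jm, b1, b2, b3⟩ := pvls_split_m hτ hl hδ (fun j => x j - z) n (fun j hj => pvsz_mem.1 (hx j hj)) hs' (pvsz_mem.1 h0) (pvsz_mem.1 hn)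
  exact ⟨⟨Jp, a1, pvsz_mem.2 a2, fun j h1 h2 => pvsz_mem.2 (a3 j h1 h2)⟩, Jm, b1.le, pvsz_mem.2 b2, fun j h1 => pvsz_mem.2 (b3 j h1)⟩

/-- **USE 3: THE WALK IN THE MAP OF A COMPLETION**: the chain of sites is a chain of adjacent vertices of `𝔅.T` as soon as the completion is the Delaunay triangulation near the strip -/
theorem pvsz_lift {X : Type} (𝔅 : PvBulk X) {Kc : Set ℂ} (hOk : 𝔅.Ok (cfSites ξ) Kc) {n : ℕ} {x : ℕ → ℂ} (hx : ∀ j, j ≤ n → x j ∈ Kc ∧ ∃ b w, DelTri (cfSites ξ) (x j) b w)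
    (hs : ∀ j, j < n → ∃ w, DelTri (cfSites ξ) (x j) (x (j + 1)) w ∨ DelTri (cfSites ξ) (x (j + 1)) (x j) w) :
    ∃ v : ℕ → 𝔅.V (cfSites ξ), (∀ j, j ≤ n → 𝔅.lab _ (v j) = Sum.inl (x j)) ∧ ∀ j, j < n → (𝔅.T (cfSites ξ)).Adj (v j) (v (j + 1)) := by
  classical
  have hex : ∀ j, j ≤ n → ∃ u : 𝔅.V (cfSites ξ), 𝔅.lab _ u = Sum.inl (x j) := by
    intro j hj
    obtain ⟨hK, b, w, ht⟩ := hx j hj
    obtain ⟨d, hd, -, -⟩ := hOk.face _ _ _ ht hK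
    exact ⟨_, hd⟩
  refine ⟨fun j => if h : j ≤ n then (hex j h).choose else (hex 0 (Nat.zero_le _)).choose, fun j hj => ?_, fun j hj => ?_⟩
  · simp only [dif_pos hj]
    exact (hex j hj).choose_spec
  · have h1 : j ≤ n := by omega
    have h2 : j + 1 ≤ n := by omega
    simp only [dif_pos h1, dif_pos h2]
    have e1 := (hex j h1).choose_spec
    have e2 := (hex (j + 1) h2).choose_spec
    obtain ⟨w, ht | ht⟩ := hs j hj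
    · obtain ⟨d, hd1, hd2, -⟩ := hOk.face _ _ _ ht (hx j h1).1
      exact ⟨d, hOk.inj (hd1.trans e1.symm), hOk.inj (hd2.trans e2.symm)⟩
    · obtain ⟨d, hd1, hd2, -⟩ := hOk.face _ _ _ ht (hx (j + 1) h2).1
      refine ⟨(𝔅.T (cfSites ξ)).opp d, ?_, ?_⟩
      · rw [(𝔅.T (cfSites ξ)).src_opp']
        exact hOk.inj (hd2.trans e1.symm)
      · rw [(𝔅.T (cfSites ξ)).tgt_opp]
        exact hOk.inj (hd1.trans e2.symm)

end use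

/-! ## 7. LEVEL A: from a white chain to the white side events (the form consumed by `pvsb_white` of 212) -/

section levelA

open Relation

variable {V D κ : Type} {T : PvMap V D} {s : V → Bool} {mk : V → κ} {𝔯 : PvspReg κ}

/-- a white chain which starts strictly inside a circuit and ends not strictly inside contains a simple white path from a vertex of the circuit to its end -/
theorem pvsz_side_aux (hT : T.IsSph) (c : T.Cyc) {X : Set V} {n : ℕ} {v : ℕ → V} (hadj : ∀ j, j < n → T.Adj (v j) (v (j + 1))) (hw : ∀ j, j ≤ n → v j ∈ X)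
    (h0 : v 0 ∈ T.Int c.Left) (hout : v n ∉ T.Int c.Left) : ∃ q : T.Pth, q.v 0 ∈ c.verts ∧ q.v 0 ∈ X ∧ q.v q.n = v n ∧ q.verts ⊆ X := by
  have hD : Nonempty D := ⟨c.e 0⟩
  have key : ∀ j, j ≤ n → (∀ i, i ≤ j → v i ∉ c.verts) → v j ∈ T.Int c.Left := by
    intro j
    induction j with
    | zero => intro _ _; exact h0
    | succ j ih =>
      intro hj hi
      refine pl_int_adj hT (pl_left_face c) (ih (by omega) fun i h => hi i (by omega)) (hadj j (by omega)) ?_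
      intro d hd hb
      exact pl_cyc_off c (hd ▸ hi (j + 1) le_rfl) (pl_left_bd_sub c hb)
  have hex : ∃ i, i ≤ n ∧ v i ∈ c.verts := by
    by_contra hc
    push Not at hc
    exact hout (key n le_rfl fun i hi => hc i hi)
  obtain ⟨i, hi, hv⟩ := hex
  have hj : ∀ k, i + k ≤ n → T.Join Set.univ X (v i) (v (i + k)) := by
    intro k
    induction k with
    | zero => intro _; exact ⟨hw i hi, ReflTransGen.refl⟩
    | succ k ih =>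
      intro hk
      obtain ⟨d, hd1, hd2⟩ := hadj (i + k) (by omega)
      exact ⟨hw i hi, (ih (by omega)).2.tail ⟨⟨d, Or.inl (Set.mem_univ _), hd1, hd2⟩, hw _ hk⟩⟩
  obtain ⟨q, q0, q1, q2, -⟩ := pl_pth_of_join (hj (n - i) (by omega))
  refine ⟨q, by rw [q0]; exact hv, by rw [q0]; exact hw i hi, ?_, q2⟩
  rw [q1, show i + (n - i) = n by omega]

/-- **a white chain inside `Mp` from a vertex inside the circuit of `S₂` to a vertex of the door outside the circuit gives a white path from THE RIGHT ARC to the door** (since StateP v3 = THE FOOT, P13, `L^{+,w}` starts at the foot: `Tr/StripW` of 68, `Tr/FootS` of 97 go on from here), given ORIENTATION (`hR` = M11, hypothesis of `pvsb_white`) -/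
theorem pvsz_side_pw (hT : T.IsSph) (𝔖 : PvspSt T s) {n : ℕ} {v : ℕ → V} (hadj : ∀ j, j < n → T.Adj (v j) (v (j + 1))) (hw : ∀ j, j ≤ n → s (v j) = false ∧ mk (v j) ∈ 𝔯 .Mp)
    (h0 : v 0 ∈ T.Int 𝔖.g2.c.Left) (hn : mk (v n) ∈ 𝔯 .Dp) (hout : v n ∉ T.Int 𝔖.g2.c.Left)
    (hR : ∀ x ∈ 𝔖.g2.c.verts, mk x ∈ 𝔯 .Mp → s x = false → x ∈ 𝔖.g2.R) : PvspPath T mk s false 𝔖.g2.R (𝔯 .Mp) (𝔯 .Dp) := by
  obtain ⟨q, q0, q0', q1, q2⟩ := pvsz_side_aux hT 𝔖.g2.c (X := {x | s x = false ∧ mk x ∈ 𝔯 .Mp}) hadj hw h0 hout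
  exact ⟨q, hR _ q0 q0'.2 q0'.1, by rw [q1]; exact hn, fun x hx => q2 hx⟩

/-- the mirror statement: `L^{-,w}` -/
theorem pvsz_side_mw (hT : T.IsSph) (𝔖 : PvspSt T s) {n : ℕ} {v : ℕ → V} (hadj : ∀ j, j < n → T.Adj (v j) (v (j + 1))) (hw : ∀ j, j ≤ n → s (v j) = false ∧ mk (v j) ∈ 𝔯 .Mm)
    (h0 : v 0 ∈ T.Int 𝔖.g2.c.Left) (hn : mk (v n) ∈ 𝔯 .Dm) (hout : v n ∉ T.Int 𝔖.g2.c.Left)
    (hR : ∀ x ∈ 𝔖.g2.c.verts, mk x ∈ 𝔯 .Mm → s x = false → x ∈ 𝔖.g2.R) : PvspPath T mk s false 𝔖.g2.R (𝔯 .Mm) (𝔯 .Dm) := by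
  obtain ⟨q, q0, q0', q1, q2⟩ := pvsz_side_aux hT 𝔖.g2.c (X := {x | s x = false ∧ mk x ∈ 𝔯 .Mm}) hadj hw h0 hout
  exact ⟨q, hR _ q0 q0'.2 q0'.1, by rw [q1]; exact hn, fun x hx => q2 hx⟩

end levelA

end Claimed.Agent.R289
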