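-- KEEP
import Claimed.Agent.R289.Tr.FlagNR

/-!
# Row 289 (S0537, Cardy for Poisson-Voronoi), ROAD P, flag F2, USE WITH CENTRES UP TO `3R`, file Tr/FlagNR3      (owner helper6; prefix `pvn3_`)

`pvnf_flag_use` of 36 (`Tr/FlagNR`) asks `|z - x| + 2 (rw + 2 d) h ≤ 2R`; a place of an arc inside `clB(x,2R)` has its centre in `clB(x, 2R + h)` (MISFIT M-D of 8, `Exit/PinsP`).
Cure: the same determinism at the local radius `R / 2`: for `|y - x| ≤ 3R` the window `clB(y, 4 (R/2)) ⊆ clB(x, 5R)` still lies in the faithful ball `clB(x,6R)` of the completion and the base dart of a reaching rim (`4R ≤ |pos - x|`) is at distance `≥ R = 2 (R/2)` of `y`.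
* `pvn3_det_bulk`, `pvn3_det` : (DET) for `|y - x| ≤ 3R`, `S ≤ R₁ ≤ R / 2`;
* `pvn3_F2_use`;  **`pvn3_flag_use`** = `exit_pinsP_nr` of 8 VERBATIM.      0 sorry.
-/

set_option autoImplicit false
set_option linter.unusedSectionVars false

namespace Claimed.Agent.R289

open MeasureTheory ProbabilityTheory Set Filter Topology Metric Claims.C0465
open scoped ENNReal NNReal

/-- **(DET)** for one bulk family, centres up to `3R`, local radius `R / 2` -/
theorem pvn3_det_bulk (X : Type) [Fintype X] (𝔅 : PvBulk X) (η : Conf PvPt) (ξ : X → Bool) (x y : ℂ) (s S R : ℝ) (hy : ‖y - x‖ ≤ 3 * R) (hs : 0 < s) (hsS : s ≤ S) (hSR : S ≤ R / 2)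
    (hOk : 𝔅.Ok (cfSites η) (closedBall x (6 * R))) (P : PvbRim) (hP : P ∈ 𝔅.rimsAt (cfSites η) (𝔅.col η ξ) x R) (hret : PvbNearRet P y s S) :
    ArmtNR (cfSites η) (cfCol η) y s S (R / 2) := by
  obtain ⟨c, hrim, hfar, rfl⟩ := hP
  obtain ⟨k, i, k', hki, hik', hk'n, hk, hk', hi⟩ := hret
  have hR : 0 < R := by linarith
  have hk'n' : k' ≤ c.n := hk'n
  have hk1 : ‖𝔅.posF (cfSites η) (x + 7 * R) ((𝔅.T (cfSites η)).src (c.e k)) - y‖ ≤ s := hk
  have hk1' : ‖𝔅.posF (cfSites η) (x + 7 * R) ((𝔅.T (cfSites η)).src (c.e k')) - y‖ ≤ s := hk'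
  have hi1 : S < ‖𝔅.posF (cfSites η) (x + 7 * R) ((𝔅.T (cfSites η)).src (c.e i)) - y‖ := hi
  have hzi : 4 * R ≤ ‖(x + 7 * R : ℂ) - y‖ := by
    have h1 : (x + 7 * R : ℂ) - y = ((7 * R : ℝ) : ℂ) - (y - x) := by push_cast; ring
    have h2 : ‖((7 * R : ℝ) : ℂ)‖ = 7 * R := by rw [Complex.norm_real, Real.norm_eq_abs, abs_of_pos (by linarith)]
    have h3 := norm_sub_norm_le ((7 * R : ℝ) : ℂ) (y - x)
    rw [h1]
    linarith
  have hsite : ∀ v, ‖𝔅.posF (cfSites η) (x + 7 * R) v - y‖ ≤ s → ArmtNear (𝔅.labO (cfSites η)) y s v := by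
    intro v h1
    rcases hl : 𝔅.lab (cfSites η) v with p | e
    · refine ⟨p, by simp [PvBulk.labO, hl], ?_⟩
      simpa [PvBulk.posF, hl] using h1
    · exfalso
      have : 𝔅.posF (cfSites η) (x + 7 * R) v = x + 7 * R := by simp [PvBulk.posF, hl]
      rw [this] at h1
      linarith
  have hpos : ∀ v p, 𝔅.labO (cfSites η) v = some p → 𝔅.posF (cfSites η) (x + 7 * R) v = p := by
    intro v p h
    have hl : 𝔅.lab (cfSites η) v = Sum.inl p := by
      simpa [PvBulk.labO, Sum.getLeft?_eq_some_iff] using h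
    simp [PvBulk.posF, hl]
  have h0far : 2 * (R / 2) ≤ ‖𝔅.posF (cfSites η) (x + 7 * R) ((𝔅.T (cfSites η)).src (c.e 0)) - y‖ := by
    have h1 := norm_sub_le_norm_sub_add_norm_sub (𝔅.posF (cfSites η) (x + 7 * R) ((𝔅.T (cfSites η)).src (c.e 0))) y x
    linarith
  have hn0 : c.e c.n = c.e 0 := by simpa using c.per 0
  have hk0 : 0 < k := by
    rcases Nat.eq_zero_or_pos k with h | h
    · subst h; linarith
    · exact h
  have hk'lt : k' < c.n := by
    rcases Nat.lt_or_ge k' c.n with h | h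
    · exact h
    · have : k' = c.n := le_antisymm hk'n' h
      rw [this, hn0] at hk1'
      linarith
  refine ⟨𝔅.V (cfSites η), 𝔅.D (cfSites η), 𝔅.T (cfSites η), 𝔅.labO (cfSites η), 𝔅.col η ξ, ?_, ?_, ?_⟩
  · refine armt_loc_mono (armt_loc_bulk 𝔅 hOk) ?_
    intro w hw
    rw [mem_closedBall, dist_eq_norm] at hw ⊢
    have := norm_sub_le_norm_sub_add_norm_sub w y x
    linarith
  · intro v p h
    have hl : 𝔅.lab (cfSites η) v = Sum.inl p := by
      simpa [PvBulk.labO, Sum.getLeft?_eq_some_iff] using h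
    simp [PvBulk.col, hl]
  · refine ⟨c, hrim, k, i, k', c.n, hki, hik', hk'lt, by omega, hsite _ hk1, hsite _ hk1', ?_, ?_⟩
    · intro p hp
      rw [hpos _ p hp] at hi1
      exact hi1.le
    · intro p hp
      rw [hn0] at hp
      rw [hpos _ p hp] at h0far
      exact h0far

/-- **(DET)**, centres up to `3R`: a near return of an encoded reaching rim of ANY completion at the global pair `(x,R)` is seen by the test at every local radius `S ≤ R₁ ≤ R / 2` -/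
theorem pvn3_det {x y : ℂ} {s S R₁ R : ℝ} {ω : PVSample} {P : PvbRim} (hP : P ∈ pvhbAll x R ω) (hy : ‖y - x‖ ≤ 3 * R) (hs : 0 < s) (hsS : s ≤ S) (hSR : S ≤ R₁) (hRR : R₁ ≤ R / 2)
    (hret : PvbNearRet P y s S) (ρ : ℝ) : pvConf ω ∈ pvnfTest y s S R₁ ρ := by
  obtain ⟨X, _, 𝔅, ξ, -, hOk, hP'⟩ := hP
  exact Or.inr (pvnf_nr_anti hRR (pvn3_det_bulk X 𝔅 (pvConf ω) ξ x y s S R hy hs hsS (hSR.trans hRR) hOk P hP' hret))

/-- **USE OF F2**, centres up to `3R` -/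
theorem pvn3_F2_use {x z : ℂ} {rw d e R₁ R ρ : ℝ} {ω : PVSample} {P : PvbRim} (hP : P ∈ pvhbAll x R ω) (hd : 0 < d) (hrw : 0 ≤ rw) (hde : 6 * d ≤ e) (heR : e / 2 - d ≤ R₁) (hRR : R₁ ≤ R / 2)
    (hz : ‖z - x‖ + 2 * (rw + 2 * d) ≤ 3 * R) (hno : pvConf ω ∉ pvnfF2 z rw d e R₁ ρ) : PvtpNR P z rw d e := by
  refine pvtp_nr_of_not hd.le (by linarith) fun w hw hret => hno ?_
  obtain ⟨y, hy, hyw⟩ := pvnf_grid_cover hd hw
  have h1 : PvbNearRet P y (2 * d) (e / 2 - d) := by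
    have := pvnf_shift hret hyw
    rwa [show d + d = 2 * d by ring] at this
  have hyx : ‖y - x‖ ≤ 3 * R := (pvtp_tri y z x).trans (by have := pvnf_grid_near hd hrw hy; linarith)
  exact mem_iUnion₂.2 ⟨y, hy, pvn3_det hP hyx (by linarith) (by linarith) heR hRR h1 ρ⟩

/-- **F2, USE, centres up to `3R`**, in units of `h m` = `exit_pinsP_nr` of 8 (`Exit/PinsP`) VERBATIM -/
theorem pvn3_flag_use {x : ℂ} {R : ℝ} {ω : PVSample} {P : PvbRim} {hs μ : ℕ → ℝ} {rw d e R₁ : ℝ} {m : ℕ} {p : ℤ × ℤ} (hP : P ∈ pvhbAll x R ω) (hh : 0 < hs m) (hd : 0 < d) (hrw : 0 ≤ rw)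
    (hde : 6 * d ≤ e) (heR : e / 2 - d ≤ R₁) (hRR : R₁ * hs m ≤ R / 2) (hz : ‖l9Pt (hs m) p - x‖ + 2 * (rw + 2 * d) * hs m ≤ 3 * R) (hno : pvConf ω ∉ pvnfFlag hs μ rw d e R₁ m p) :
    PvtpNR P (l9Pt (hs m) p) (rw * hs m) (d * hs m) (e * hs m) :=
  pvn3_F2_use hP (mul_pos hd hh) (mul_nonneg hrw hh.le) (by nlinarith) (by nlinarith) hRR (by nlinarith) hno

end Claimed.Agent.R289
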