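import Claimed.Agent.R289.Tr.PortIn

/-!
# Row 289 (S0537, Cardy for Poisson-Voronoi), unit TR, ROAD P, P11' = M11 (ORIENTATION), piece D = DISJOINTNESS      (owner helper164; prefix `pvod_`)

Split of 205 (10:44Z) of the proof of record of 202 (`[4PT]` + `Theta`): this file gives the METRIC input, on the records of FIT (`PvmfIn`, `PvmfNum`, `PvmfRel`, `PvmnFits` of 8 / 205).
Centred coordinates `u j := P.v j - z`, cells of size `δ`.   THE LOOP = the closed lattice polygon through the centres `pvtCtr δ x.2` of the OUTER cells of the darts `x` of the contour of `K3 = pvmnK3 τ`.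

* §1 `pvod_seg_sq` : the segment between the centres of two cells at sup distance `≤ 1` lies in the union of the two closed squares.
* §2 `pvod_edge_fwd`, `pvod_edge_bwd`, `pvod_edge_mid` : position of an edge of `P` (with one end in the window) relative to the tubes.
* §3 **`pvod_cross`** : an edge of `P` with an end in the window meets a loop edge ONLY IF it comes after the mark `10`, before the first exit of `B(z, 7 b)`, and both cells lie in `N^6 C_9 ⊆ Dr⁺`, or the mirror statement.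
  `pvod_cross_dart`, `pvod_cross_step`, `pvod_cross_orbit` : the same for darts of the contour / one step / the orbit;   `pvod_disj_*` : `Disjoint` forms.
* §4 **`pvod_exit`** : the exits `fm ≤ t 0`, `t 10 ≤ fp` of the window (record `PvodExit`; `.mesh`, `.cross_in`: the crossing edges lie strictly between the exits);   `pvod_pin`, `pvod_chain_K3` (the 4-collar of the cell of `o` lies in `K3`: (ONE) of 206);
  `pvod_far_box`, `pvod_far_K3` (the 1-collar of the cell of an exit misses `K3`: (ZERO) of 206);   `pvod_loop_box`.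
* §5 **`pvod_edge_lane`**, `pvod_edge_zone` : no edge of the rim with an end in the window meets `U(N^3 zone)` (zone `= pvlbZone τ` of 225 by `rfl`).
-/

set_option autoImplicit false
set_option linter.unusedSectionVars false
set_option linter.unusedVariables false
set_option linter.unusedSimpArgs false

namespace Claimed.Agent.R289

open Claims.C0467 Claimed.Agent.R291

/-! ## §1 lattice segments -/

section lattice

variable {δ : ℝ} {w w' : ℤ × ℤ} {p : ℂ}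

theorem pvod_aux {x x' A B δ : ℝ} (hB : 0 ≤ B) (hs : A + B = δ) (hB2 : B ≤ δ / 2) (e1 : x' ≤ x + 1) (e2 : x ≤ x' + 1) :
    x * δ ≤ A * (x + 1 / 2) + B * (x' + 1 / 2) ∧ A * (x + 1 / 2) + B * (x' + 1 / 2) ≤ (x + 1) * δ := by
  have h1 : B * (x' - x) ≤ B := by nlinarith
  have h2 : -B ≤ B * (x' - x) := by nlinarith
  have key : A * (x + 1 / 2) + B * (x' + 1 / 2) = δ * x + δ / 2 + B * (x' - x) := by rw [← hs]; ring
  rw [key]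
  constructor <;> linarith

/-- **(D0)** the segment between the centres of two neighbouring cells lies in the two closed squares -/
theorem pvod_seg_sq (hδ : 0 ≤ δ) (h : w' ∈ pvtwN 1 {w}) (hp : p ∈ segment ℝ (pvtCtr δ w) (pvtCtr δ w')) : p ∈ pvtSq δ w ∨ p ∈ pvtSq δ w' := by
  obtain ⟨w0, hw0, h1, h2, h3, h4⟩ := h
  rw [Set.mem_singleton_iff] at hw0
  rw [hw0] at h1 h2 h3 h4
  obtain ⟨a, b, ha, hb, hab, rfl⟩ := hp
  have e1 : ((w'.1 : ℤ) : ℝ) ≤ w.1 + 1 := by exact_mod_cast h1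
  have e2 : ((w.1 : ℤ) : ℝ) ≤ w'.1 + 1 := by exact_mod_cast h2
  have e3 : ((w'.2 : ℤ) : ℝ) ≤ w.2 + 1 := by exact_mod_cast h3
  have e4 : ((w.2 : ℤ) : ℝ) ≤ w'.2 + 1 := by exact_mod_cast h4
  have hre : (a • pvtCtr δ w + b • pvtCtr δ w').re = (a * δ) * ((w.1 : ℝ) + 1 / 2) + (b * δ) * ((w'.1 : ℝ) + 1 / 2) := by
    simp [pvtCtr]; ring
  have him : (a • pvtCtr δ w + b • pvtCtr δ w').im = (a * δ) * ((w.2 : ℝ) + 1 / 2) + (b * δ) * ((w'.2 : ℝ) + 1 / 2) := by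
    simp [pvtCtr]; ring
  have haδ : 0 ≤ a * δ := mul_nonneg ha hδ
  have hbδ : 0 ≤ b * δ := mul_nonneg hb hδ
  have hs : a * δ + b * δ = δ := by rw [← add_mul, hab, one_mul]
  rcases le_total b a with hba | hba
  · left
    have hb2 : b * δ ≤ δ / 2 := by nlinarith
    have r1 := pvod_aux hbδ hs hb2 e1 e2
    have r2 := pvod_aux hbδ hs hb2 e3 e4
    exact ⟨by rw [hre]; exact r1.1, by rw [hre]; exact r1.2, by rw [him]; exact r2.1, by rw [him]; exact r2.2⟩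
  · right
    have ha2 : a * δ ≤ δ / 2 := by nlinarith
    have hs' : b * δ + a * δ = δ := by rw [add_comm]; exact hs
    have r1 := pvod_aux haδ hs' ha2 e2 e1
    have r2 := pvod_aux haδ hs' ha2 e4 e3
    exact ⟨by rw [hre, add_comm]; exact r1.1, by rw [hre, add_comm]; exact r1.2, by rw [him, add_comm]; exact r2.1, by rw [him, add_comm]; exact r2.2⟩

theorem pvod_tri_N (h : triAdj w w') : w' ∈ pvtwN 1 {w} := by
  refine ⟨w, rfl, ?_⟩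
  rcases h with h | h | h | h | h | h <;>
  · have h1 := congrArg Prod.fst h
    have h2 := congrArg Prod.snd h
    simp only [Prod.fst_sub, Prod.snd_sub] at h1 h2
    refine ⟨by omega, by omega, by omega, by omega⟩

theorem pvod_self_N : w ∈ pvtwN 1 {w} := pvtw_N_sub rfl

/-- a point of a segment is closer to the first end than the second end is -/
theorem pvod_seg_le {a b : ℂ} (hp : p ∈ segment ℝ a b) : ‖a - p‖ ≤ ‖b - a‖ := by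
  obtain ⟨s, r, hs, hr, hsr, rfl⟩ := hp
  have : a - (s • a + r • b) = r • (a - b) := by
    have : s = 1 - r := by linarith
    rw [this, sub_smul, one_smul, smul_sub]
    ring
  rw [this, norm_smul, Real.norm_of_nonneg hr, norm_sub_rev a b]
  have h1 : r ≤ 1 := by linarith
  nlinarith [norm_nonneg (b - a)]

theorem pvod_seg_le' {a b : ℂ} (hp : p ∈ segment ℝ a b) : ‖b - p‖ ≤ ‖b - a‖ := by
  rw [segment_symm] at hp
  rw [norm_sub_rev b a]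
  exact pvod_seg_le hp

end lattice

/-! ## §2 the edges of the rim and the tubes -/

section edges

variable {P : PvbRim} {z : ℂ} {t : ℕ → ℕ} {δ μ hh a b ρ d0 e0 d1 e1 RB : ℝ} {τ : PvmnType} {𝔑 : PvmnNum} {j m : ℕ} {p : ℂ} {c w w' : ℤ × ℤ}

/-- an edge after the mark `10`, with an end in the window, misses the `m`-tube of the pieces `0..8` -/
theorem pvod_edge_fwd (I : PvmfIn P z t μ hh a b ρ d0 e0 d1 e1) (N : PvmfNum δ μ hh a b ρ d0 e0 d1 e1 RB)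
    (F : PvmnFits τ δ (fun i => P.v i - z) (fun k => t k.1)) (h1 : t 10 ≤ j) (hj : j < P.len) (hw : ‖P.v j - z‖ ≤ ρ ∨ ‖P.v (j + 1) - z‖ ≤ ρ)
    (hd : 2 * ((m : ℝ) + 1) * δ + 2 * μ ≤ d1) (hp : p ∈ segment ℝ (P.v j - z) (P.v (j + 1) - z)) : p ∉ pvtU δ (pvtwN m (pvmnCells τ 0 8)) := by
  intro hU
  have h := pvqp_tube_fwd (p := p + z) F (I.cuts N) I.nr1 N.δ_pos N.μ_nn I.mesh (by omega : 0 ≤ 8) (by omega) (by rwa [add_sub_cancel_right]) h1 hj.le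
  have h2 := pvod_seg_le hp
  have h3 := I.mesh j hj hw
  rw [sub_sub_sub_cancel_right] at h2
  have : P.v j - (p + z) = P.v j - z - p := by ring
  rw [this] at h
  linarith

/-- an edge before the mark `0`, with an end in the window, misses the `m`-tube of the pieces `1..9` -/
theorem pvod_edge_bwd (I : PvmfIn P z t μ hh a b ρ d0 e0 d1 e1) (N : PvmfNum δ μ hh a b ρ d0 e0 d1 e1 RB)
    (F : PvmnFits τ δ (fun i => P.v i - z) (fun k => t k.1)) (h1 : j + 1 ≤ t 0) (hj : j < P.len) (hw : ‖P.v j - z‖ ≤ ρ ∨ ‖P.v (j + 1) - z‖ ≤ ρ)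
    (hd : 2 * ((m : ℝ) + 1) * δ + 2 * μ ≤ d1) (hp : p ∈ segment ℝ (P.v j - z) (P.v (j + 1) - z)) : p ∉ pvtU δ (pvtwN m (pvmnCells τ 1 9)) := by
  intro hU
  have h := pvqp_tube_bwd (p := p + z) (a := 0) (b := 9) (j := j) F (I.cuts N) I.nr1 N.δ_pos N.μ_nn I.mesh (by omega) (by omega) (by rwa [add_sub_cancel_right]) (by omega)
  have h2 := pvod_seg_le hp
  have h3 := I.mesh j hj hw
  rw [sub_sub_sub_cancel_right] at h2
  have : P.v j - (p + z) = P.v j - z - p := by ring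
  rw [this] at h
  linarith

/-- the cells met by an edge of the chain are cells of the type -/
theorem pvod_edge_mid (F : PvmnFits τ δ (fun i => P.v i - z) (fun k => t k.1)) (h1 : t 0 ≤ j) (h2 : j < t 10)
    (hp : p ∈ segment ℝ (P.v j - z) (P.v (j + 1) - z)) (hc : p ∈ pvtSq δ c) : c ∈ pvmnCells τ 0 9 := by
  rw [pvqp_cells F (by omega : 0 ≤ 9) (by omega)]
  exact ⟨p, hc, pvtx_seg_sub (v := fun i => P.v i - z) h1 h2 hp⟩

/-- radius of the chain -/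
theorem pvod_rad (I : PvmfIn P z t μ hh a b ρ d0 e0 d1 e1) (N : PvmfNum δ μ hh a b ρ d0 e0 d1 e1 RB) {k : ℕ} (h1 : t 0 ≤ k) (h2 : k ≤ t 10) :
    ‖P.v k - z‖ ≤ 6 * b + μ := by
  have := I.rad N 5 (by omega) le_rfl (l := k) h1 h2
  push_cast at this
  linarith

/-! ## §3 the crossings -/

/-- one cell form of **(D1)** -/
theorem pvod_cross1 (I : PvmfIn P z t μ hh a b ρ d0 e0 d1 e1) (N : PvmfNum δ μ hh a b ρ d0 e0 d1 e1 RB)
    (F : PvmnFits τ δ (fun i => P.v i - z) (fun k => t k.1)) (hj : j < P.len) (hw : ‖P.v j - z‖ ≤ ρ ∨ ‖P.v (j + 1) - z‖ ≤ ρ)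
    (hd : 2 * ((m : ℝ) + 1) * δ + 2 * μ ≤ d1)
    (h5 : c ∈ pvtwN m (pvmnCells τ 0 9)) (h0 : c ∉ pvmnCells τ 0 9) (hp : p ∈ segment ℝ (P.v j - z) (P.v (j + 1) - z)) (hc : p ∈ pvtSq δ c) :
    (t 10 ≤ j ∧ c ∈ pvtwN m (τ.C 9 : Set (ℤ × ℤ)) ∧ ∀ k, t 10 ≤ k → k ≤ j + 1 → ‖P.v k - z‖ < 7 * b) ∨
    (j + 1 ≤ t 0 ∧ c ∈ pvtwN m (τ.C 0 : Set (ℤ × ℤ)) ∧ ∀ k, j ≤ k → k ≤ t 0 → ‖P.v k - z‖ < 7 * b) := by
  have C := I.cuts N
  have g1 := N.δ_pos; have g2 := N.d0_ge; have g3 := N.d0_le; have g4 := N.e0_le; have g5 := N.μ_nn; have g6 := N.μ_le; have g7 := N.e1_lt; have g8 := N.hh_nn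
  have hpU : ∀ E : Set (ℤ × ℤ), c ∈ E → p ∈ pvtU δ E := fun E hE => Set.mem_iUnion₂.2 ⟨c, hE, hc⟩
  have hmesh := I.mesh j hj hw
  have s1 := pvod_seg_le hp
  have s2 := pvod_seg_le' hp
  rw [sub_sub_sub_cancel_right] at s1 s2
  obtain ⟨k, -, -, hk⟩ := pvmn_N_cells.1 h5
  rcases lt_or_ge j (t 0) with hlt | hge
  · right
    have hk0 : k = 0 := by
      by_contra hne
      have : 1 ≤ k.1 := by
        rcases Nat.eq_zero_or_pos k.1 with h | h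
        · exact absurd (Fin.ext h) hne
        · exact h
      exact pvod_edge_bwd I N F hlt hj hw hd hp (hpU _ (pvmn_N_cells.2 ⟨k, this, by omega, hk⟩))
    subst hk0
    refine ⟨hlt, hk, ?_⟩
    have hU : (p + z) - z ∈ pvtU δ (pvtwN m (pvmnCells τ 0 0)) := by
      rw [add_sub_cancel_right]
      exact hpU _ (pvmn_N_cells.2 ⟨0, le_rfl, le_rfl, hk⟩)
    obtain ⟨s, a1, a2, a3⟩ := pvqp_tube_near F C g1 g5 I.mesh (le_refl 0) (by omega) hU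
    have hs10 : s ≤ t 10 := a2.trans (C.le (by omega) le_rfl)
    have hnear : ‖P.v j - P.v s‖ ≤ d1 := by
      have := pvtp_tri (P.v j) (p + z) (P.v s)
      have e : P.v j - (p + z) = P.v j - z - p := by ring
      rw [e] at this
      linarith
    have D := I.nr1 j s (by omega) (hs10.trans C.le_len) (Or.inr (C.win s a1 hs10)) hnear
    intro k' k1 k2
    have d1' := D k' (t 0) k1 (k2.trans a1) (by omega) a1
    have d2 := pvod_rad I N (le_refl (t 0)) (C.le (by omega) le_rfl)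
    have := pvtp_tri (P.v k') (P.v (t 0)) z
    linarith
  · rcases lt_or_ge j (t 10) with hlt | hge'
    · exact absurd (pvod_edge_mid F hge hlt hp hc) h0
    · left
      have hk9 : k = 9 := by
        by_contra hne
        have : k.1 ≤ 8 := by
          have h9 := k.2
          rcases Nat.lt_or_ge k.1 9 with h | h
          · omega
          · exact absurd (Fin.ext (by show k.1 = 9; omega)) hne
        exact pvod_edge_fwd I N F hge' hj hw hd hp (hpU _ (pvmn_N_cells.2 ⟨k, Nat.zero_le _, this, hk⟩))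
      subst hk9
      refine ⟨hge', hk, ?_⟩
      have hU : (p + z) - z ∈ pvtU δ (pvtwN m (pvmnCells τ 9 9)) := by
        rw [add_sub_cancel_right]
        exact hpU _ (pvmn_N_cells.2 ⟨9, le_rfl, le_rfl, hk⟩)
      obtain ⟨s, a1, a2, a3⟩ := pvqp_tube_near F C g1 g5 I.mesh (le_refl 9) (by omega) hU
      have hs0 : t 0 ≤ s := (C.le (by omega) (by omega)).trans a1
      have hnear : ‖P.v s - P.v (j + 1)‖ ≤ d1 := by
        have := pvtp_tri (P.v s) (p + z) (P.v (j + 1))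
        have e : p + z - P.v (j + 1) = -(P.v (j + 1) - z - p) := by ring
        rw [e, norm_neg, norm_sub_rev (P.v s) (p + z)] at this
        linarith
      have D := I.nr1 s (j + 1) (by have : s ≤ t 10 := a2; omega) hj (Or.inl (C.win s hs0 a2)) hnear
      intro k' k1 k2
      have d1' := D k' (t 10) (a2.trans k1) k2 a2 (by omega)
      have d2 := pvod_rad I N (C.le (by omega : 0 ≤ 10) le_rfl) (le_refl (t 10))
      have := pvtp_tri (P.v k') (P.v (t 10)) z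
      linarith

/-- **(D1)**: an edge of the rim with an end in the window meets a loop edge only in the two doors, just after the mark `10` / just before the mark `0` -/
theorem pvod_cross (I : PvmfIn P z t μ hh a b ρ d0 e0 d1 e1) (N : PvmfNum δ μ hh a b ρ d0 e0 d1 e1 RB)
    (F : PvmnFits τ δ (fun i => P.v i - z) (fun k => t k.1)) (hj : j < P.len) (hw : ‖P.v j - z‖ ≤ ρ ∨ ‖P.v (j + 1) - z‖ ≤ ρ)
    (h5 : w ∈ pvtwN 5 (pvmnCells τ 0 9)) (h5' : w' ∈ pvtwN 5 (pvmnCells τ 0 9)) (h0 : w ∉ pvmnCells τ 0 9) (h0' : w' ∉ pvmnCells τ 0 9) (hww : w' ∈ pvtwN 1 {w})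
    (hp : p ∈ segment ℝ (P.v j - z) (P.v (j + 1) - z)) (hp' : p ∈ segment ℝ (pvtCtr δ w) (pvtCtr δ w')) :
    (t 10 ≤ j ∧ w ∈ pvtwN 6 (τ.C 9 : Set (ℤ × ℤ)) ∧ w' ∈ pvtwN 6 (τ.C 9 : Set (ℤ × ℤ)) ∧ ∀ k, t 10 ≤ k → k ≤ j + 1 → ‖P.v k - z‖ < 7 * b) ∨
    (j + 1 ≤ t 0 ∧ w ∈ pvtwN 6 (τ.C 0 : Set (ℤ × ℤ)) ∧ w' ∈ pvtwN 6 (τ.C 0 : Set (ℤ × ℤ)) ∧ ∀ k, j ≤ k → k ≤ t 0 → ‖P.v k - z‖ < 7 * b) := by
  have up : ∀ (E : Set (ℤ × ℤ)) (x y : ℤ × ℤ), x ∈ pvtwN 5 E → y ∈ pvtwN 1 {x} → y ∈ pvtwN 6 E := by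
    intro E x y hx hy
    have : y ∈ pvtwN 1 (pvtwN 5 E) := pvtw_N_iff.2 ⟨x, hx, hy⟩
    rwa [pvtw_N_add] at this
  have up' : ∀ (E : Set (ℤ × ℤ)) (x : ℤ × ℤ), x ∈ pvtwN 5 E → x ∈ pvtwN 6 E := fun E x hx => pvtw_N_mono (by omega) subset_rfl hx
  have g1 := N.δ_pos; have g2 := N.d0_ge; have g3 := N.d0_le; have g4 := N.e0_le; have g5 := N.μ_nn; have g6 := N.μ_le
  have hd : 2 * (((5 : ℕ) : ℝ) + 1) * δ + 2 * μ ≤ d1 := by push_cast; linarith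
  rcases pvod_seg_sq N.δ_pos.le hww hp' with hc | hc
  · rcases pvod_cross1 I N F hj hw hd h5 h0 hp hc with ⟨q1, q2, q3⟩ | ⟨q1, q2, q3⟩
    · exact Or.inl ⟨q1, up' _ _ q2, up _ _ _ q2 hww, q3⟩
    · exact Or.inr ⟨q1, up' _ _ q2, up _ _ _ q2 hww, q3⟩
  · rcases pvod_cross1 I N F hj hw hd h5' h0' hp hc with ⟨q1, q2, q3⟩ | ⟨q1, q2, q3⟩
    · exact Or.inl ⟨q1, up _ _ _ q2 (pvtw_N_symm hww), up' _ _ q2, q3⟩
    · exact Or.inr ⟨q1, up _ _ _ q2 (pvtw_N_symm hww), up' _ _ q2, q3⟩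

/-- **(D1), thick form**: an edge of the rim with an end in the window comes within `δ` of a loop edge only in the two doors -/
theorem pvod_near (I : PvmfIn P z t μ hh a b ρ d0 e0 d1 e1) (N : PvmfNum δ μ hh a b ρ d0 e0 d1 e1 RB)
    (F : PvmnFits τ δ (fun i => P.v i - z) (fun k => t k.1)) (hj : j < P.len) (hw : ‖P.v j - z‖ ≤ ρ ∨ ‖P.v (j + 1) - z‖ ≤ ρ)
    (h5 : w ∈ pvtwN 5 (pvmnCells τ 0 9)) (h5' : w' ∈ pvtwN 5 (pvmnCells τ 0 9)) (h0 : w ∉ pvtwN 1 (pvmnCells τ 0 9)) (h0' : w' ∉ pvtwN 1 (pvmnCells τ 0 9)) (hww : w' ∈ pvtwN 1 {w})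
    {x y : ℂ} (hx : x ∈ segment ℝ (P.v j - z) (P.v (j + 1) - z)) (hy : y ∈ segment ℝ (pvtCtr δ w) (pvtCtr δ w')) (hxy : ‖x - y‖ ≤ δ) :
    (t 10 ≤ j ∧ w ∈ pvmnDrp τ ∧ w' ∈ pvmnDrp τ ∧ ∀ k, t 10 ≤ k → k ≤ j + 1 → ‖P.v k - z‖ < 7 * b) ∨
    (j + 1 ≤ t 0 ∧ w ∈ pvmnDrm τ ∧ w' ∈ pvmnDrm τ ∧ ∀ k, j ≤ k → k ≤ t 0 → ‖P.v k - z‖ < 7 * b) := by
  have g1 := N.δ_pos; have g2 := N.d0_ge; have g3 := N.d0_le; have g4 := N.e0_le; have g5 := N.μ_nn; have g6 := N.μ_le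
  have hd : 2 * (((6 : ℕ) : ℝ) + 1) * δ + 2 * μ ≤ d1 := by push_cast; linarith
  -- from a cell `c` of the pair, in the 5-tube and off the 1-tube, whose square contains `y`
  have key : ∀ c : ℤ × ℤ, c ∈ pvtwN 5 (pvmnCells τ 0 9) → c ∉ pvtwN 1 (pvmnCells τ 0 9) → y ∈ pvtSq δ c →
      (t 10 ≤ j ∧ c ∈ pvtwN 7 (τ.C 9 : Set (ℤ × ℤ)) ∧ ∀ k, t 10 ≤ k → k ≤ j + 1 → ‖P.v k - z‖ < 7 * b) ∨
      (j + 1 ≤ t 0 ∧ c ∈ pvtwN 7 (τ.C 0 : Set (ℤ × ℤ)) ∧ ∀ k, j ≤ k → k ≤ t 0 → ‖P.v k - z‖ < 7 * b) := by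
    intro c c5 c1 hc
    have hU : x ∈ pvtU δ (pvtwN 1 {c}) := pvtw_U_near (k := 1) g1 (Set.mem_iUnion₂.2 ⟨c, rfl, hc⟩) (by push_cast; linarith)
    obtain ⟨c', hc', hxc⟩ := Set.mem_iUnion₂.1 hU
    have c6 : c' ∈ pvtwN 6 (pvmnCells τ 0 9) := by
      have : c' ∈ pvtwN 1 (pvtwN 5 (pvmnCells τ 0 9)) := pvtw_N_iff.2 ⟨c, c5, hc'⟩
      rwa [pvtw_N_add] at this
    have c0 : c' ∉ pvmnCells τ 0 9 := fun h => c1 (pvtw_N_iff.2 ⟨c', h, pvtw_N_symm hc'⟩)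
    have up : ∀ E : Set (ℤ × ℤ), c' ∈ pvtwN 6 E → c ∈ pvtwN 7 E := by
      intro E hE
      have : c ∈ pvtwN 1 (pvtwN 6 E) := pvtw_N_iff.2 ⟨c', hE, pvtw_N_symm hc'⟩
      rwa [pvtw_N_add] at this
    rcases pvod_cross1 I N F hj hw hd c6 c0 hx hxc with ⟨q1, q2, q3⟩ | ⟨q1, q2, q3⟩
    · exact Or.inl ⟨q1, up _ q2, q3⟩
    · exact Or.inr ⟨q1, up _ q2, q3⟩
  have up : ∀ (E : Set (ℤ × ℤ)) (u v : ℤ × ℤ), u ∈ pvtwN 7 E → v ∈ pvtwN 1 {u} → v ∈ pvtwN 8 E := by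
    intro E u v hu hv
    have : v ∈ pvtwN 1 (pvtwN 7 E) := pvtw_N_iff.2 ⟨u, hu, hv⟩
    rwa [pvtw_N_add] at this
  have up' : ∀ (E : Set (ℤ × ℤ)) (u : ℤ × ℤ), u ∈ pvtwN 7 E → u ∈ pvtwN 8 E := fun E u hu => pvtw_N_mono (by omega) subset_rfl hu
  rcases pvod_seg_sq g1.le hww hy with hc | hc
  · rcases key w h5 h0 hc with ⟨q1, q2, q3⟩ | ⟨q1, q2, q3⟩
    · exact Or.inl ⟨q1, up' _ _ q2, up _ _ _ q2 hww, q3⟩
    · exact Or.inr ⟨q1, up' _ _ q2, up _ _ _ q2 hww, q3⟩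
  · rcases key w' h5' h0' hc with ⟨q1, q2, q3⟩ | ⟨q1, q2, q3⟩
    · exact Or.inl ⟨q1, up _ _ _ q2 (pvtw_N_symm hww), up' _ _ q2, q3⟩
    · exact Or.inr ⟨q1, up _ _ _ q2 (pvtw_N_symm hww), up' _ _ q2, q3⟩

/-- an outer cell of the contour of `K3` -/
theorem pvod_outer {x : (ℤ × ℤ) × (ℤ × ℤ)} (hx : x ∈ pvtrBd (pvmnK3 τ)) : x.2 ∈ pvtwN 5 (pvmnCells τ 0 9) ∧ x.2 ∉ pvtwN 4 (pvmnCells τ 0 9) ∧ x.2 ∉ pvmnCells τ 0 9 :=
  ⟨(pvmn_K3_dart hx).2, fun h => hx.2.1 (pvt_hull_sub h), fun h => hx.2.1 (pvt_hull_sub (pvtw_N_sub h))⟩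

theorem pvod_N6_Drp : pvtwN 6 (τ.C 9 : Set (ℤ × ℤ)) ⊆ pvmnDrp τ := pvtw_N_mono (by omega) subset_rfl

theorem pvod_N6_Drm : pvtwN 6 (τ.C 0 : Set (ℤ × ℤ)) ⊆ pvmnDrm τ := pvtw_N_mono (by omega) subset_rfl

/-- **(D1) for two darts of the contour** whose outer cells are equal or adjacent -/
theorem pvod_cross_dart (I : PvmfIn P z t μ hh a b ρ d0 e0 d1 e1) (N : PvmfNum δ μ hh a b ρ d0 e0 d1 e1 RB)
    (F : PvmnFits τ δ (fun i => P.v i - z) (fun k => t k.1)) (hj : j < P.len) (hw : ‖P.v j - z‖ ≤ ρ ∨ ‖P.v (j + 1) - z‖ ≤ ρ)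
    {x x' : (ℤ × ℤ) × (ℤ × ℤ)} (hx : x ∈ pvtrBd (pvmnK3 τ)) (hx' : x' ∈ pvtrBd (pvmnK3 τ)) (hxx : x'.2 = x.2 ∨ triAdj x.2 x'.2)
    (hp : p ∈ segment ℝ (P.v j - z) (P.v (j + 1) - z)) (hp' : p ∈ segment ℝ (pvtCtr δ x.2) (pvtCtr δ x'.2)) :
    (t 10 ≤ j ∧ x.2 ∈ pvtwN 6 (τ.C 9 : Set (ℤ × ℤ)) ∧ x'.2 ∈ pvtwN 6 (τ.C 9 : Set (ℤ × ℤ)) ∧ ∀ k, t 10 ≤ k → k ≤ j + 1 → ‖P.v k - z‖ < 7 * b) ∨
    (j + 1 ≤ t 0 ∧ x.2 ∈ pvtwN 6 (τ.C 0 : Set (ℤ × ℤ)) ∧ x'.2 ∈ pvtwN 6 (τ.C 0 : Set (ℤ × ℤ)) ∧ ∀ k, j ≤ k → k ≤ t 0 → ‖P.v k - z‖ < 7 * b) := by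
  refine pvod_cross I N F hj hw (pvod_outer hx).1 (pvod_outer hx').1 (pvod_outer hx).2.2 (pvod_outer hx').2.2 ?_ hp hp'
  rcases hxx with h | h
  · rw [h]; exact pvod_self_N
  · exact pvod_tri_N h

/-- **(D1) for one step of the contour** -/
theorem pvod_cross_step (I : PvmfIn P z t μ hh a b ρ d0 e0 d1 e1) (N : PvmfNum δ μ hh a b ρ d0 e0 d1 e1 RB)
    (F : PvmnFits τ δ (fun i => P.v i - z) (fun k => t k.1)) (hj : j < P.len) (hw : ‖P.v j - z‖ ≤ ρ ∨ ‖P.v (j + 1) - z‖ ≤ ρ)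
    {x : (ℤ × ℤ) × (ℤ × ℤ)} (hx : x ∈ pvtrBd (pvmnK3 τ))
    (hp : p ∈ segment ℝ (P.v j - z) (P.v (j + 1) - z)) (hp' : p ∈ segment ℝ (pvtCtr δ x.2) (pvtCtr δ (pvtrStep (pvmnK3 τ) x).2)) :
    (t 10 ≤ j ∧ x.2 ∈ pvtwN 6 (τ.C 9 : Set (ℤ × ℤ)) ∧ (pvtrStep (pvmnK3 τ) x).2 ∈ pvtwN 6 (τ.C 9 : Set (ℤ × ℤ)) ∧ ∀ k, t 10 ≤ k → k ≤ j + 1 → ‖P.v k - z‖ < 7 * b) ∨
    (j + 1 ≤ t 0 ∧ x.2 ∈ pvtwN 6 (τ.C 0 : Set (ℤ × ℤ)) ∧ (pvtrStep (pvmnK3 τ) x).2 ∈ pvtwN 6 (τ.C 0 : Set (ℤ × ℤ)) ∧ ∀ k, j ≤ k → k ≤ t 0 → ‖P.v k - z‖ < 7 * b) :=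
  pvod_cross_dart I N F hj hw hx (pvtr_step_mem hx) (pvtr_step_snd_adj hx) hp hp'

/-- **(D1), thick form, for one step of the contour** -/
theorem pvod_near_step (I : PvmfIn P z t μ hh a b ρ d0 e0 d1 e1) (N : PvmfNum δ μ hh a b ρ d0 e0 d1 e1 RB)
    (F : PvmnFits τ δ (fun i => P.v i - z) (fun k => t k.1)) (hj : j < P.len) (hw : ‖P.v j - z‖ ≤ ρ ∨ ‖P.v (j + 1) - z‖ ≤ ρ)
    {e : (ℤ × ℤ) × (ℤ × ℤ)} (he : e ∈ pvtrBd (pvmnK3 τ)) {x y : ℂ}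
    (hx : x ∈ segment ℝ (P.v j - z) (P.v (j + 1) - z)) (hy : y ∈ segment ℝ (pvtCtr δ e.2) (pvtCtr δ (pvtrStep (pvmnK3 τ) e).2)) (hxy : ‖x - y‖ ≤ δ) :
    (t 10 ≤ j ∧ e.2 ∈ pvmnDrp τ ∧ (pvtrStep (pvmnK3 τ) e).2 ∈ pvmnDrp τ ∧ ∀ k, t 10 ≤ k → k ≤ j + 1 → ‖P.v k - z‖ < 7 * b) ∨
    (j + 1 ≤ t 0 ∧ e.2 ∈ pvmnDrm τ ∧ (pvtrStep (pvmnK3 τ) e).2 ∈ pvmnDrm τ ∧ ∀ k, j ≤ k → k ≤ t 0 → ‖P.v k - z‖ < 7 * b) := by
  have he' := pvtr_step_mem he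
  have o1 : ∀ x : (ℤ × ℤ) × (ℤ × ℤ), x ∈ pvtrBd (pvmnK3 τ) → x.2 ∉ pvtwN 1 (pvmnCells τ 0 9) :=
    fun x hx h => (pvod_outer hx).2.1 (pvtw_N_mono (by omega) subset_rfl h)
  refine pvod_near I N F hj hw (pvod_outer he).1 (pvod_outer he').1 (o1 _ he) (o1 _ he') ?_ hx hy hxy
  rcases pvtr_step_snd_adj he with h | h
  · rw [h]; exact pvod_self_N
  · exact pvod_tri_N h

/-- **(D1) along the orbit** `m ↦ (pvtrStep K3)^[m] e` -/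
theorem pvod_cross_orbit (I : PvmfIn P z t μ hh a b ρ d0 e0 d1 e1) (N : PvmfNum δ μ hh a b ρ d0 e0 d1 e1 RB)
    (F : PvmnFits τ δ (fun i => P.v i - z) (fun k => t k.1)) (hj : j < P.len) (hw : ‖P.v j - z‖ ≤ ρ ∨ ‖P.v (j + 1) - z‖ ≤ ρ)
    {e : (ℤ × ℤ) × (ℤ × ℤ)} (he : e ∈ pvtrBd (pvmnK3 τ)) (m : ℕ)
    (hp : p ∈ segment ℝ (P.v j - z) (P.v (j + 1) - z)) (hp' : p ∈ segment ℝ (pvtCtr δ ((pvtrStep (pvmnK3 τ))^[m] e).2) (pvtCtr δ ((pvtrStep (pvmnK3 τ))^[m + 1] e).2)) :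
    (t 10 ≤ j ∧ ((pvtrStep (pvmnK3 τ))^[m] e).2 ∈ pvtwN 6 (τ.C 9 : Set (ℤ × ℤ)) ∧ ((pvtrStep (pvmnK3 τ))^[m + 1] e).2 ∈ pvtwN 6 (τ.C 9 : Set (ℤ × ℤ)) ∧
        ∀ k, t 10 ≤ k → k ≤ j + 1 → ‖P.v k - z‖ < 7 * b) ∨
    (j + 1 ≤ t 0 ∧ ((pvtrStep (pvmnK3 τ))^[m] e).2 ∈ pvtwN 6 (τ.C 0 : Set (ℤ × ℤ)) ∧ ((pvtrStep (pvmnK3 τ))^[m + 1] e).2 ∈ pvtwN 6 (τ.C 0 : Set (ℤ × ℤ)) ∧
        ∀ k, j ≤ k → k ≤ t 0 → ‖P.v k - z‖ < 7 * b) := by
  rw [Function.iterate_succ_apply'] at hp' ⊢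
  exact pvod_cross_step I N F hj hw (pvtr_iter_mem he m) hp hp'

/-- `Disjoint` form, forward half `G⁺` (all edges from the mark `0` on): off the door `Dr⁺` nothing is met -/
theorem pvod_disj_fwd (I : PvmfIn P z t μ hh a b ρ d0 e0 d1 e1) (N : PvmfNum δ μ hh a b ρ d0 e0 d1 e1 RB)
    (F : PvmnFits τ δ (fun i => P.v i - z) (fun k => t k.1)) (hj : j < P.len) (hw : ‖P.v j - z‖ ≤ ρ ∨ ‖P.v (j + 1) - z‖ ≤ ρ) (h0 : t 0 ≤ j)
    {e : (ℤ × ℤ) × (ℤ × ℤ)} (he : e ∈ pvtrBd (pvmnK3 τ)) (m : ℕ) (hD : ((pvtrStep (pvmnK3 τ))^[m] e).2 ∉ pvmnDrp τ ∨ ((pvtrStep (pvmnK3 τ))^[m + 1] e).2 ∉ pvmnDrp τ) :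
    Disjoint (segment ℝ (P.v j - z) (P.v (j + 1) - z)) (segment ℝ (pvtCtr δ ((pvtrStep (pvmnK3 τ))^[m] e).2) (pvtCtr δ ((pvtrStep (pvmnK3 τ))^[m + 1] e).2)) := by
  rw [Set.disjoint_left]
  intro p hp hp'
  rcases pvod_cross_orbit I N F hj hw he m hp hp' with ⟨-, q2, q3, -⟩ | ⟨q1, -⟩
  · rcases hD with h | h
    · exact h (pvod_N6_Drp q2)
    · exact h (pvod_N6_Drp q3)
  · omega

/-- `Disjoint` form, backward half `G⁻` (all edges up to the mark `10`): off the door `Dr⁻` nothing is met -/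
theorem pvod_disj_bwd (I : PvmfIn P z t μ hh a b ρ d0 e0 d1 e1) (N : PvmfNum δ μ hh a b ρ d0 e0 d1 e1 RB)
    (F : PvmnFits τ δ (fun i => P.v i - z) (fun k => t k.1)) (hj : j < P.len) (hw : ‖P.v j - z‖ ≤ ρ ∨ ‖P.v (j + 1) - z‖ ≤ ρ) (h0 : j < t 10)
    {e : (ℤ × ℤ) × (ℤ × ℤ)} (he : e ∈ pvtrBd (pvmnK3 τ)) (m : ℕ) (hD : ((pvtrStep (pvmnK3 τ))^[m] e).2 ∉ pvmnDrm τ ∨ ((pvtrStep (pvmnK3 τ))^[m + 1] e).2 ∉ pvmnDrm τ) :
    Disjoint (segment ℝ (P.v j - z) (P.v (j + 1) - z)) (segment ℝ (pvtCtr δ ((pvtrStep (pvmnK3 τ))^[m] e).2) (pvtCtr δ ((pvtrStep (pvmnK3 τ))^[m + 1] e).2)) := by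
  rw [Set.disjoint_left]
  intro p hp hp'
  rcases pvod_cross_orbit I N F hj hw he m hp hp' with ⟨q1, -⟩ | ⟨-, q2, q3, -⟩
  · omega
  · rcases hD with h | h
    · exact h (pvod_N6_Drm q2)
    · exact h (pvod_N6_Drm q3)

/-- the chain itself meets no loop edge -/
theorem pvod_disj_mid (I : PvmfIn P z t μ hh a b ρ d0 e0 d1 e1) (N : PvmfNum δ μ hh a b ρ d0 e0 d1 e1 RB)
    (F : PvmnFits τ δ (fun i => P.v i - z) (fun k => t k.1)) (h0 : t 0 ≤ j) (h1 : j < t 10)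
    {e : (ℤ × ℤ) × (ℤ × ℤ)} (he : e ∈ pvtrBd (pvmnK3 τ)) (m : ℕ) :
    Disjoint (segment ℝ (P.v j - z) (P.v (j + 1) - z)) (segment ℝ (pvtCtr δ ((pvtrStep (pvmnK3 τ))^[m] e).2) (pvtCtr δ ((pvtrStep (pvmnK3 τ))^[m + 1] e).2)) := by
  have C := I.cuts N
  rw [Set.disjoint_left]
  intro p hp hp'
  rcases pvod_cross_orbit I N F (h1.trans_le C.le_len) (Or.inl (C.win j h0 h1.le)) he m hp hp' with ⟨q1, -⟩ | ⟨q1, -⟩ <;> omega

/-- a lane (off both doors) is met by NO edge of the rim which has an end in the window -/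
theorem pvod_disj_lane (I : PvmfIn P z t μ hh a b ρ d0 e0 d1 e1) (N : PvmfNum δ μ hh a b ρ d0 e0 d1 e1 RB)
    (F : PvmnFits τ δ (fun i => P.v i - z) (fun k => t k.1)) (hj : j < P.len) (hw : ‖P.v j - z‖ ≤ ρ ∨ ‖P.v (j + 1) - z‖ ≤ ρ)
    {e : (ℤ × ℤ) × (ℤ × ℤ)} (he : e ∈ pvtrBd (pvmnK3 τ)) (m : ℕ)
    (hD : ((pvtrStep (pvmnK3 τ))^[m] e).2 ∉ pvmnDrm τ ∪ pvmnDrp τ ∨ ((pvtrStep (pvmnK3 τ))^[m + 1] e).2 ∉ pvmnDrm τ ∪ pvmnDrp τ) :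
    Disjoint (segment ℝ (P.v j - z) (P.v (j + 1) - z)) (segment ℝ (pvtCtr δ ((pvtrStep (pvmnK3 τ))^[m] e).2) (pvtCtr δ ((pvtrStep (pvmnK3 τ))^[m + 1] e).2)) := by
  rw [Set.disjoint_left]
  intro p hp hp'
  rcases pvod_cross_orbit I N F hj hw he m hp hp' with ⟨-, q2, q3, -⟩ | ⟨-, q2, q3, -⟩
  · rcases hD with h | h
    · exact h (Or.inr (pvod_N6_Drp q2))
    · exact h (Or.inr (pvod_N6_Drp q3))
  · rcases hD with h | h
    · exact h (Or.inl (pvod_N6_Drm q2))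
    · exact h (Or.inl (pvod_N6_Drm q3))

end edges

/-! ## §4 the exits, the box -/

section exits

variable {P : PvbRim} {z : ℂ} {t : ℕ → ℕ} {δ μ hh a b ρ d0 e0 d1 e1 RB : ℝ} {τ : PvmnType} {𝔑 : PvmnNum} {j m fm fp : ℕ} {p f : ℂ} {c w w' : ℤ × ℤ}

/-- the window is larger than `9 b` -/
theorem pvod_rho (N : PvmfNum δ μ hh a b ρ d0 e0 d1 e1 RB) (R : PvmfRel 𝔑 δ μ hh b ρ e0 d1) : 9 * b + 9 * δ < ρ := by
  have := R.ρ_gt; have := R.nBx_ge; have := N.μ_nn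
  linarith

/-- the exits of the window -/
structure PvodExit (P : PvbRim) (z : ℂ) (t : ℕ → ℕ) (ρ : ℝ) (fm fp : ℕ) : Prop where
  fm_le : fm ≤ t 0
  le : t 0 ≤ t 10
  le_fp : t 10 ≤ fp
  fp_le : fp ≤ P.len
  fm_far : ρ ≤ ‖P.v fm - z‖
  fp_far : ρ ≤ ‖P.v fp - z‖
  ins : ∀ k, fm < k → k < fp → ‖P.v k - z‖ < ρ

/-- **(D2)** -/
theorem pvod_exit (I : PvmfIn P z t μ hh a b ρ d0 e0 d1 e1) (N : PvmfNum δ μ hh a b ρ d0 e0 d1 e1 RB) (R : PvmfRel 𝔑 δ μ hh b ρ e0 d1) :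
    ∃ fm fp, PvodExit P z t ρ fm fp := by
  have C := I.cuts N
  obtain ⟨fp, a1, a2, a3, a4⟩ := pvb_first (p := fun k => ρ ≤ ‖P.v k - z‖) C.le_len I.endn
  obtain ⟨fm, b1, b2, b3, b4⟩ := pvb_last (p := fun k => ρ ≤ ‖P.v k - z‖) (Nat.zero_le (t 0)) I.end0
  refine ⟨fm, fp, b2, C.le (by omega) le_rfl, a1, a2, b3, a3, fun k k1 k2 => ?_⟩
  rcases Nat.lt_or_ge (t 0) k with h | h
  · rcases Nat.lt_or_ge k (t 10) with h' | h'
    · have := pvod_rad I N h.le h'.le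
      have := pvod_rho N R; have := N.b_pos; have := N.δ_pos; have := N.μ_le
      linarith
    · exact not_le.1 (a4 k h' k2)
  · exact not_le.1 (b4 k k1 h)

/-- the mesh holds on every edge between the exits -/
theorem PvodExit.mesh (E : PvodExit P z t ρ fm fp) (I : PvmfIn P z t μ hh a b ρ d0 e0 d1 e1) (N : PvmfNum δ μ hh a b ρ d0 e0 d1 e1 RB)
    (h1 : fm ≤ j) (h2 : j < fp) : ‖P.v j - z‖ ≤ ρ ∨ ‖P.v (j + 1) - z‖ ≤ ρ := by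
  have C := I.cuts N
  have h010 : t 0 ≤ t 10 := C.le (by omega) le_rfl
  rcases Nat.eq_or_lt_of_le h1 with rfl | h
  · rcases Nat.lt_or_ge (fm + 1) fp with h' | h'
    · exact Or.inr (E.ins _ (by omega) h').le
    · -- `fm + 1 = fp` is impossible unless `t 0 = t 10`: then the mark itself is in the window
      have e1 := E.fm_le; have e2 := E.le_fp
      have : fm = t 0 ∨ fm + 1 = t 0 := by omega
      rcases this with h3 | h3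
      · exact Or.inl (by rw [h3]; exact C.win _ le_rfl h010)
      · exact Or.inr (by rw [h3]; exact C.win _ le_rfl h010)
  · exact Or.inl (E.ins _ h h2).le

/-- **the crossing edges lie strictly between the exits** -/
theorem PvodExit.cross_in (E : PvodExit P z t ρ fm fp) (N : PvmfNum δ μ hh a b ρ d0 e0 d1 e1 RB) (R : PvmfRel 𝔑 δ μ hh b ρ e0 d1)
    (h : (t 10 ≤ j ∧ ∀ k, t 10 ≤ k → k ≤ j + 1 → ‖P.v k - z‖ < 7 * b) ∨ (j + 1 ≤ t 0 ∧ ∀ k, j ≤ k → k ≤ t 0 → ‖P.v k - z‖ < 7 * b)) :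
    fm < j ∧ j + 1 < fp := by
  have h9 := pvod_rho N R; have hb := N.b_pos; have hδ := N.δ_pos
  have e1 := E.fm_le; have e2 := E.le_fp; have e3 := E.le
  rcases h with ⟨q1, q2⟩ | ⟨q1, q2⟩
  · constructor
    · by_contra hc
      have hj : t 10 ≤ fm := by omega
      have := q2 (t 10) le_rfl (by omega)
      have h3 : fm = t 10 := by omega
      have := E.fm_far
      rw [h3] at this
      linarith
    · by_contra hc
      have := q2 fp e2 (by omega)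
      have := E.fp_far
      linarith
  · constructor
    · by_contra hc
      have := q2 fm (by omega) e1
      have := E.fm_far
      linarith
    · by_contra hc
      have h3 : fp = t 0 := by omega
      have := q2 (t 0) (by omega) le_rfl
      have := E.fp_far
      rw [h3] at this
      linarith

/-- **(D3), the pin**: `o = P.v (t 5) - z` lies in the square of the cell `τ.q 5`, whose 4-collar lies in `K3` -/
theorem pvod_pin (F : PvmnFits τ δ (fun i => P.v i - z) (fun k => t k.1)) (h05 : t 0 ≤ t 5) (h510 : t 5 ≤ t 10) :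
    P.v (t 5) - z ∈ pvtSq δ (τ.q 5) ∧ pvtwN 4 {τ.q 5} ⊆ pvmnK3 τ := by
  have h1 : P.v (t 5) - z ∈ pvtSq δ (τ.q 5) := F.marks 5
  refine ⟨h1, ?_⟩
  have h2 : τ.q 5 ∈ pvmnCells τ 0 9 := by
    rw [pvqp_cells F (by omega : 0 ≤ 9) (by omega)]
    exact ⟨_, h1, pvtx_vertex_mem (v := fun i => P.v i - z) h05 h510⟩
  exact (pvtw_N_mono le_rfl (Set.singleton_subset_iff.2 h2)).trans pvt_hull_sub

/-- every vertex of the chain lies in a cell whose 4-collar lies in `K3` -/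
theorem pvod_chain_K3 (F : PvmnFits τ δ (fun i => P.v i - z) (fun k => t k.1)) (h0 : t 0 ≤ j) (h1 : j ≤ t 10) (hc : P.v j - z ∈ pvtSq δ c) : pvtwN 4 {c} ⊆ pvmnK3 τ := by
  have h2 : c ∈ pvmnCells τ 0 9 := by
    rw [pvqp_cells F (by omega : 0 ≤ 9) (by omega)]
    exact ⟨_, hc, pvtx_vertex_mem (v := fun i => P.v i - z) h0 h1⟩
  exact (pvtw_N_mono le_rfl (Set.singleton_subset_iff.2 h2)).trans pvt_hull_sub

/-- a point at distance `≥ ρ` lies in no square of the box `nBx + 5` -/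
theorem pvod_far_box (N : PvmfNum δ μ hh a b ρ d0 e0 d1 e1 RB) (R : PvmfRel 𝔑 δ μ hh b ρ e0 d1) (h12 : 12 ≤ 𝔑.nBx) (hf : ρ ≤ ‖f‖) (hc : f ∈ pvtSq δ c) :
    c ∉ pvmnBox (𝔑.nBx + 5) := by
  rintro ⟨h1, h2, h3, h4⟩
  obtain ⟨a1, a2, a3, a4⟩ := hc
  have hδ := N.δ_pos
  have hn : (12 : ℝ) ≤ (𝔑.nBx : ℝ) := by exact_mod_cast h12
  have c1 : -((𝔑.nBx : ℝ) + 5) ≤ c.1 := by
    have : -(((𝔑.nBx + 5 : ℕ) : ℤ) : ℝ) ≤ ((c.1 : ℤ) : ℝ) := by exact_mod_cast h1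
    push_cast at this; linarith
  have c2 : (c.1 : ℝ) ≤ (𝔑.nBx : ℝ) + 5 := by
    have : ((c.1 : ℤ) : ℝ) ≤ (((𝔑.nBx + 5 : ℕ) : ℤ) : ℝ) := by exact_mod_cast h2
    push_cast at this; linarith
  have c3 : -((𝔑.nBx : ℝ) + 5) ≤ c.2 := by
    have : -(((𝔑.nBx + 5 : ℕ) : ℤ) : ℝ) ≤ ((c.2 : ℤ) : ℝ) := by exact_mod_cast h3
    push_cast at this; linarith
  have c4 : (c.2 : ℝ) ≤ (𝔑.nBx : ℝ) + 5 := by
    have : ((c.2 : ℤ) : ℝ) ≤ (((𝔑.nBx + 5 : ℕ) : ℤ) : ℝ) := by exact_mod_cast h4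
    push_cast at this; linarith
  set n : ℝ := (𝔑.nBx : ℝ) with hn'
  set M : ℝ := (n + 6) * δ with hM
  have hM0 : 0 ≤ M := by positivity
  have r1 : |f.re| ≤ M := abs_le.2 ⟨by nlinarith, by nlinarith⟩
  have r2 : |f.im| ≤ M := abs_le.2 ⟨by nlinarith, by nlinarith⟩
  have hsq : ‖f‖ ^ 2 = f.re ^ 2 + f.im ^ 2 := by
    rw [Complex.sq_norm, Complex.normSq_apply]; ring
  have s1 : f.re ^ 2 ≤ M ^ 2 := sq_le_sq' (abs_le.1 r1).1 (abs_le.1 r1).2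
  have s2 : f.im ^ 2 ≤ M ^ 2 := sq_le_sq' (abs_le.1 r2).1 (abs_le.1 r2).2
  have hρ := R.ρ_gt
  set L : ℝ := (n + 5) * δ with hL
  have hL0 : 0 ≤ L := by positivity
  have h3L : 3 * L < 2 * ‖f‖ := by linarith
  have h9 : 9 * L ^ 2 < 4 * ‖f‖ ^ 2 := by nlinarith [norm_nonneg f]
  have hpoly : 8 * M ^ 2 ≤ 9 * L ^ 2 := by
    have : 8 * (n + 6) ^ 2 ≤ 9 * (n + 5) ^ 2 := by nlinarith
    have h2 : 0 ≤ δ ^ 2 := by positivity
    calc 8 * M ^ 2 = (8 * (n + 6) ^ 2) * δ ^ 2 := by rw [hM]; ring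
      _ ≤ (9 * (n + 5) ^ 2) * δ ^ 2 := mul_le_mul_of_nonneg_right this h2
      _ = 9 * L ^ 2 := by rw [hL]; ring
  linarith

/-- **(D3), the exits**: a point at distance `≥ ρ` lies in a cell whose 1-collar misses `K3` -/
theorem pvod_far_K3 (N : PvmfNum δ μ hh a b ρ d0 e0 d1 e1 RB) (R : PvmfRel 𝔑 δ μ hh b ρ e0 d1) (hτ : PvmnIsType 𝔑 τ) (h12 : 12 ≤ 𝔑.nBx) (hf : ρ ≤ ‖f‖) (hc : f ∈ pvtSq δ c) :
    Disjoint (pvtwN 1 {c}) (pvmnK3 τ) := by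
  rw [Set.disjoint_left]
  intro x hx hK
  have h1 := pvmn_K3_box hτ hK
  have h2 : c ∈ pvtwN 1 (pvmnBox (𝔑.nBx + 4)) := pvtw_N_iff.2 ⟨x, h1, pvtw_N_symm hx⟩
  exact pvod_far_box N R h12 hf hc (pvmn_N_box (n := 𝔑.nBx + 4) (k := 1) subset_rfl h2)

/-- all the loop cells lie in the box `nBx + 5` -/
theorem pvod_loop_box (hτ : PvmnIsType 𝔑 τ) {x : (ℤ × ℤ) × (ℤ × ℤ)} (hx : x ∈ pvtrBd (pvmnK3 τ)) : x.2 ∈ pvmnBox (𝔑.nBx + 5) :=
  pvmn_N_box (pvmn_cells_box hτ) (pvmn_K3_dart hx).2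

/-! ## §5 the lanes -/

/-- **(D4)** no edge of the rim with an end in the window meets the `m`-th collar of a lane -/
theorem pvod_edge_lane (I : PvmfIn P z t μ hh a b ρ d0 e0 d1 e1) (N : PvmfNum δ μ hh a b ρ d0 e0 d1 e1 RB)
    (F : PvmnFits τ δ (fun i => P.v i - z) (fun k => t k.1)) (hj : j < P.len) (hw : ‖P.v j - z‖ ≤ ρ ∨ ‖P.v (j + 1) - z‖ ≤ ρ)
    {E : Set (ℤ × ℤ)} {k : ℕ} (hE1 : E ⊆ pvtwN k (pvmnCells τ 1 8)) (hE2 : Disjoint E (pvtwN (m + 1) (pvmnCells τ 0 9))) (hd : 2 * ((m + 1 + k : ℕ) + 1) * δ + μ ≤ d1)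
    (hp : p ∈ segment ℝ (P.v j - z) (P.v (j + 1) - z)) : p ∉ pvtU δ (pvtwN m E) := by
  intro hU
  have h1 := pvqp_lane_miss (j := j) F (I.cuts N) I.nr1 N.δ_pos N.μ_nn I.mesh hE1 hE2 hd hj.le
  apply h1
  have h2 := pvod_seg_le hp
  rw [sub_sub_sub_cancel_right] at h2
  have h3 := I.mesh j hj hw
  have h4 := N.μ_le
  have := pvtw_U_near (k := 1) N.δ_pos hU (q := P.v j - z) (by push_cast; linarith)
  rwa [pvtw_N_add, add_comm] at this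

/-- the lane zone (`= pvlbZone τ` of 225, by `rfl`) lies in the 5-tube of the pieces `1..8` -/
theorem pvod_zone_sub : (pvtwN 5 (pvmnCells τ 0 9) \ pvmnK3 τ) \ (pvmnDrm τ ∪ pvmnDrp τ) ⊆ pvtwN 5 (pvmnCells τ 1 8) := by
  rintro c ⟨⟨h5, -⟩, hD⟩
  obtain ⟨k, -, -, hk⟩ := pvmn_N_cells.1 h5
  have h0 : k ≠ 0 := by
    rintro rfl
    exact hD (Or.inl (pvtw_N_mono (by omega) subset_rfl hk))
  have h9 : k ≠ 9 := by
    rintro rfl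
    exact hD (Or.inr (pvtw_N_mono (by omega) subset_rfl hk))
  have k2 := k.2
  refine pvmn_N_cells.2 ⟨k, ?_, ?_, hk⟩
  · rcases Nat.eq_zero_or_pos k.1 with h | h
    · exact absurd (Fin.ext h) h0
    · exact h
  · rcases Nat.lt_or_ge k.1 9 with h | h
    · omega
    · exact absurd (Fin.ext (by show k.1 = 9; omega)) h9

theorem pvod_zone_disj : Disjoint ((pvtwN 5 (pvmnCells τ 0 9) \ pvmnK3 τ) \ (pvmnDrm τ ∪ pvmnDrp τ)) (pvtwN 4 (pvmnCells τ 0 9)) := by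
  rw [Set.disjoint_left]
  rintro c ⟨⟨-, hK⟩, -⟩ h4
  exact hK (pvt_hull_sub h4)

/-- no vertex of the rim lies in the 4-collar of the zone -/
theorem pvod_vert_zone (I : PvmfIn P z t μ hh a b ρ d0 e0 d1 e1) (N : PvmfNum δ μ hh a b ρ d0 e0 d1 e1 RB)
    (F : PvmnFits τ δ (fun i => P.v i - z) (fun k => t k.1)) (hj : j ≤ P.len) :
    P.v j - z ∉ pvtU δ (pvtwN 4 ((pvtwN 5 (pvmnCells τ 0 9) \ pvmnK3 τ) \ (pvmnDrm τ ∪ pvmnDrp τ))) := by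
  have g1 := N.δ_pos; have g2 := N.d0_ge; have g3 := N.d0_le; have g4 := N.e0_le; have g5 := N.μ_nn; have g6 := N.μ_le
  exact pvqp_lane_miss (k := 5) (m := 4) F (I.cuts N) I.nr1 g1 g5 I.mesh pvod_zone_sub pvod_zone_disj (by push_cast; linarith) hj

/-- no vertex of the rim lies in the 4-collar of a right lane -/
theorem pvod_vert_laneR (I : PvmfIn P z t μ hh a b ρ d0 e0 d1 e1) (N : PvmfNum δ μ hh a b ρ d0 e0 d1 e1 RB)
    (F : PvmnFits τ δ (fun i => P.v i - z) (fun k => t k.1)) {e : (ℤ × ℤ) × (ℤ × ℤ)} {l : ℕ} (hl : PvmnLaneR τ e l) (hj : j ≤ P.len) :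
    P.v j - z ∉ pvtU δ (pvtwN 4 (pvtrArc (pvmnK3 τ) e l)) :=
  fun h => pvod_vert_zone I N F hj (pvt_U_mono (pvtw_N_mono le_rfl (pvmn_lane_sub hl)) h)

/-- **(D4) for the zone**: no edge of the rim with an end in the window meets `U(N^3 zone)` -/
theorem pvod_edge_zone (I : PvmfIn P z t μ hh a b ρ d0 e0 d1 e1) (N : PvmfNum δ μ hh a b ρ d0 e0 d1 e1 RB)
    (F : PvmnFits τ δ (fun i => P.v i - z) (fun k => t k.1)) (hj : j < P.len) (hw : ‖P.v j - z‖ ≤ ρ ∨ ‖P.v (j + 1) - z‖ ≤ ρ)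
    (hp : p ∈ segment ℝ (P.v j - z) (P.v (j + 1) - z)) : p ∉ pvtU δ (pvtwN 3 ((pvtwN 5 (pvmnCells τ 0 9) \ pvmnK3 τ) \ (pvmnDrm τ ∪ pvmnDrp τ))) := by
  have g1 := N.δ_pos; have g2 := N.d0_ge; have g3 := N.d0_le; have g4 := N.e0_le; have g5 := N.μ_nn; have g6 := N.μ_le
  exact pvod_edge_lane (m := 3) (k := 5) I N F hj hw pvod_zone_sub pvod_zone_disj (by push_cast; linarith) hp

end exits

end Claimed.Agent.R289
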