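import Claimed.Agent.R289.Tr.Ring
import Claimed.Agent.R289.Del.Wind

/-!
# Row 289 (S0537), road P, M11 = P11' ORIENTATION BRIDGE, piece THETA, file Tr/OrientT      (owner helper206; prefix `pvoq_`, defs `pvoq*`, `Pvoq*`)

The contour permutation `pvtrStep H` of `Tr/Ring` (39) "turns counterclockwise".   This file says so in the language of ray crossings (`delChi` of `Del/Wind`, 253):
the closed lattice polygon through the centres of the OUTER cells `w m = ((pvtrStep H)^[m] e).2` of one period of the contour has crossing number, for the LEFTWARD ray issued from `p`,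

  `TH p = ∑ m < n, delChi (-p) (-(pvtCtr δ (w m))) (-(pvtCtr δ (w (m+1))))`      (`Theta` of 202's proof of M11)

equal to `1` or `0` according as the half-open lattice triangle which contains `p` has a vertex in `H` or not (`pvoq_formula`: EVERY point `p` of the plane, no general position).
* §1 `PvoqLoop H e n`: `n` = exact period, one orbit.   `pvoq_count`: each dart once per period;   `pvoq_edge`: the directed lattice edge `u → v` is run once iff `u, v ∉ H` and the apex on its left is in `H`.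
* §2 the integer crossing functions `pvoqV`, `pvoqD` of one row of lattice triangles, their increments in the column, **`pvoq_row`** (lattice Green formula in a strip, by induction on the column).
* §3 `delChi` on lattice edges (`pvoq_chi_lat`).
* §4 **`pvoq_formula`**, **`pvoq_one`**, **`pvoq_zero`**, **`pvoq_ctr`**;  forms with `Function.minimalPeriod` for `H` finite, connected, with connected complement.
-/

set_option autoImplicit false
set_option linter.unusedVariables false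
set_option linter.unusedSimpArgs false

namespace Claimed.Agent.R289

open Relation Claims.C0467 Claimed.Agent.R291

/-! ## §1 each dart once per period -/

/-- `n` is the exact period of `e` under the contour permutation of the finite set `H`, and the orbit of `e` is the whole contour -/
structure PvoqLoop (H : Set (ℤ × ℤ)) (e : (ℤ × ℤ) × (ℤ × ℤ)) (n : ℕ) : Prop where
  fin : H.Finite
  mem : e ∈ pvtrBd H
  pos : 0 < n
  per : (pvtrStep H)^[n] e = e
  least : ∀ m, 0 < m → m < n → (pvtrStep H)^[m] e ≠ e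
  all : ∀ e' ∈ pvtrBd H, ∃ k, (pvtrStep H)^[k] e = e'

section count

variable {H : Set (ℤ × ℤ)} {e : (ℤ × ℤ) × (ℤ × ℤ)} {n : ℕ}

theorem pvoq_loop (hH : H.Finite) (hc : TscConn tscG H) (hco : TscConn tscG Hᶜ) (he : e ∈ pvtrBd H) :
    PvoqLoop H e (Function.minimalPeriod (pvtrStep H) e) := by
  obtain ⟨k, hk, hke⟩ := pvtr_periodic hH he
  refine ⟨hH, he, Function.minimalPeriod_pos_of_mem_periodicPts (Function.mk_mem_periodicPts hk hke), Function.isPeriodicPt_minimalPeriod _ _, fun m h0 hm => ?_,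
    fun e' he' => pvtr_orbit hH hc hco he he'⟩
  exact Function.not_isPeriodicPt_of_pos_of_lt_minimalPeriod (by omega) hm

theorem pvoq_inj (h : PvoqLoop H e n) {i j : ℕ} (hi : i < n) (hj : j < n) (hij : (pvtrStep H)^[i] e = (pvtrStep H)^[j] e) : i = j := by
  wlog hle : i ≤ j generalizing i j
  · exact (this hj hi hij.symm (le_of_not_ge hle)).symm
  by_contra hne
  have hlt : i < j := lt_of_le_of_ne hle hne
  have e1 : (pvtrStep H)^[j] e = (pvtrStep H)^[i] ((pvtrStep H)^[j - i] e) := by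
    rw [← Function.iterate_add_apply]
    congr 1
    omega
  rw [e1] at hij
  exact h.least (j - i) (by omega) (by omega) (pvtr_iter_inj h.mem (pvtr_iter_mem h.mem (j - i)) i hij).symm

open Classical in
/-- each dart of the contour is met exactly once per period -/
theorem pvoq_count (h : PvoqLoop H e n) (e0 : (ℤ × ℤ) × (ℤ × ℤ)) :
    (∑ m ∈ Finset.range n, if (pvtrStep H)^[m] e = e0 then (1 : ℤ) else 0) = if e0 ∈ pvtrBd H then 1 else 0 := by
  by_cases h0 : e0 ∈ pvtrBd H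
  · rw [if_pos h0]
    obtain ⟨k, hk⟩ := h.all e0 h0
    have hk' : (pvtrStep H)^[k % n] e = e0 := by
      rw [← hk]
      exact Function.IsPeriodicPt.iterate_mod_apply h.per k
    rw [Finset.sum_eq_single (k % n)]
    · rw [if_pos hk']
    · intro m hm hne
      exact if_neg fun hm' => hne (pvoq_inj h (Finset.mem_range.1 hm) (Nat.mod_lt _ h.pos) (hm'.trans hk'.symm))
    · intro hn
      exact absurd (Finset.mem_range.2 (Nat.mod_lt _ h.pos)) hn
  · rw [if_neg h0]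
    exact Finset.sum_eq_zero fun m _ => if_neg fun (hm : (pvtrStep H)^[m] e = e0) => h0 (hm ▸ pvtr_iter_mem h.mem m)

theorem pvoq_edge_iff (he : e ∈ pvtrBd H) {u v : ℤ × ℤ} (huv : triAdj u v) (m : ℕ) :
    (((pvtrStep H)^[m] e).2 = u ∧ ((pvtrStep H)^[m + 1] e).2 = v) ↔ ((pvtrStep H)^[m] e = (pvtrApex (u, v), u) ∧ v ∉ H) := by
  have hne : u ≠ v := fun h => tscG.loopless.1 u (h ▸ huv : triAdj u u)
  rw [Function.iterate_succ_apply']
  generalize (pvtrStep H)^[m] e = x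
  constructor
  · rintro ⟨h1, h2⟩
    by_cases hx : pvtrApex x ∈ H
    · rw [pvtr_step_in hx] at h2
      exact absurd (h1.symm.trans h2) hne
    · rw [pvtr_step_out hx] at h2
      have h2' : pvtrApex x = v := h2
      refine ⟨?_, h2' ▸ hx⟩
      obtain ⟨x1, x2⟩ := x
      have h1' : x2 = u := h1
      subst h1'
      rw [← h2', pvtr_apex_rot1]
  · rintro ⟨rfl, hv⟩
    have ha : pvtrApex (pvtrApex (u, v), u) = v := pvtr_apex_rot2 u v
    refine ⟨rfl, ?_⟩
    rw [pvtr_step_out (by rw [ha]; exact hv), ha]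

open Classical in
/-- the directed lattice edge `u → v` is run by the loop of the outer cells once per period iff `u, v ∉ H` and the apex on its left is in `H`;  otherwise never -/
theorem pvoq_edge (h : PvoqLoop H e n) {u v : ℤ × ℤ} (huv : triAdj u v) :
    (∑ m ∈ Finset.range n, if ((pvtrStep H)^[m] e).2 = u ∧ ((pvtrStep H)^[m + 1] e).2 = v then (1 : ℤ) else 0) =
      if u ∉ H ∧ v ∉ H ∧ pvtrApex (u, v) ∈ H then 1 else 0 := by
  simp only [pvoq_edge_iff h.mem huv]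
  by_cases hv : v ∈ H
  · rw [if_neg (fun hh => hh.2.1 hv)]
    exact Finset.sum_eq_zero fun m _ => if_neg fun hm => hm.2 hv
  · have e1 : ∀ m, ((pvtrStep H)^[m] e = (pvtrApex (u, v), u) ∧ v ∉ H) ↔ (pvtrStep H)^[m] e = (pvtrApex (u, v), u) := fun m => ⟨fun hh => hh.1, fun hh => ⟨hh, hv⟩⟩
    simp only [e1]
    rw [pvoq_count h]
    have e2 : ((pvtrApex (u, v), u) ∈ pvtrBd H) ↔ (u ∉ H ∧ v ∉ H ∧ pvtrApex (u, v) ∈ H) := by
      constructor
      · intro hh
        exact ⟨hh.2.1, hv, hh.1⟩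
      · intro hh
        exact ⟨hh.2.2, hh.1, tscG.symm.symm _ _ (pvtr_apex_adj (e := (u, v)) huv).1⟩
    simp only [e2]

end count

/-! ## §2 one row of lattice triangles -/

/-- the vertical lattice edges between the rows `J` and `J + 1`, in the columns `≤ a`: `+1` downwards, `-1` upwards -/
def pvoqV (J a : ℤ) (u v : ℤ × ℤ) : ℤ :=
  (if u.2 = J + 1 ∧ v.2 = J ∧ v.1 = u.1 ∧ u.1 ≤ a then 1 else 0) - (if v.2 = J + 1 ∧ u.2 = J ∧ u.1 = v.1 ∧ v.1 ≤ a then 1 else 0)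

/-- the diagonal lattice edges between the rows `J` and `J + 1`, upper end in the columns `≤ a`: `+1` downwards, `-1` upwards -/
def pvoqD (J a : ℤ) (u v : ℤ × ℤ) : ℤ :=
  (if u.2 = J + 1 ∧ v.2 = J ∧ v.1 = u.1 + 1 ∧ u.1 ≤ a then 1 else 0) - (if v.2 = J + 1 ∧ u.2 = J ∧ u.1 = v.1 + 1 ∧ v.1 ≤ a then 1 else 0)

open Classical in
/-- the LOWER lattice triangle `(a,J), (a+1,J), (a,J+1)` has a vertex in `H` -/
noncomputable def pvoqA (H : Set (ℤ × ℤ)) (a J : ℤ) : ℤ := if (a, J) ∈ H ∨ (a + 1, J) ∈ H ∨ (a, J + 1) ∈ H then 1 else 0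

open Classical in
/-- the UPPER lattice triangle `(a+1,J), (a+1,J+1), (a,J+1)` has a vertex in `H` -/
noncomputable def pvoqB (H : Set (ℤ × ℤ)) (a J : ℤ) : ℤ := if (a + 1, J) ∈ H ∨ (a + 1, J + 1) ∈ H ∨ (a, J + 1) ∈ H then 1 else 0

theorem pvoq_eqns_cite : True := by
  have := @pvoqV.eq_1
  have := @pvoqD.eq_1
  have := @pvoqA.eq_1
  have := @pvoqB.eq_1
  have := @PvoqLoop.fin
  trivial

theorem pvoq_V_succ (J a : ℤ) (u v : ℤ × ℤ) :
    pvoqV J (a + 1) u v = pvoqV J a u v + (if u = (a + 1, J + 1) ∧ v = (a + 1, J) then 1 else 0) - (if u = (a + 1, J) ∧ v = (a + 1, J + 1) then 1 else 0) := by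
  obtain ⟨u1, u2⟩ := u
  obtain ⟨v1, v2⟩ := v
  unfold pvoqV
  simp only [Prod.mk.injEq]
  split_ifs <;> omega

theorem pvoq_D_succ (J a : ℤ) (u v : ℤ × ℤ) :
    pvoqD J (a + 1) u v = pvoqD J a u v + (if u = (a + 1, J + 1) ∧ v = (a + 2, J) then 1 else 0) - (if u = (a + 2, J) ∧ v = (a + 1, J + 1) then 1 else 0) := by
  obtain ⟨u1, u2⟩ := u
  obtain ⟨v1, v2⟩ := v
  unfold pvoqD
  simp only [Prod.mk.injEq]
  split_ifs <;> omega

section row

variable {H : Set (ℤ × ℤ)} {e : (ℤ × ℤ) × (ℤ × ℤ)} {n : ℕ}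

theorem pvoq_SV_succ (h : PvoqLoop H e n) (J a : ℤ) :
    (∑ m ∈ Finset.range n, pvoqV J (a + 1) ((pvtrStep H)^[m] e).2 ((pvtrStep H)^[m + 1] e).2) =
      (∑ m ∈ Finset.range n, pvoqV J a ((pvtrStep H)^[m] e).2 ((pvtrStep H)^[m + 1] e).2) + pvoqA H (a + 1) J - pvoqB H a J := by
  simp only [pvoq_V_succ, Finset.sum_sub_distrib, Finset.sum_add_distrib]
  have h1 := pvoq_edge h (u := (a + 1, J + 1)) (v := (a + 1, J)) (by rw [tsc_adj_iff]; simp)
  have h2 := pvoq_edge h (u := (a + 1, J)) (v := (a + 1, J + 1)) (by rw [tsc_adj_iff]; simp)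
  have a1 : pvtrApex ((a + 1, J + 1), (a + 1, J)) = (a + 1 + 1, J) := by
    simp only [pvtrApex, pvtrRot, Prod.ext_iff, Prod.fst_add, Prod.snd_add, Prod.fst_sub, Prod.snd_sub]
    omega
  have a2 : pvtrApex ((a + 1, J), (a + 1, J + 1)) = (a, J + 1) := by
    simp only [pvtrApex, pvtrRot, Prod.ext_iff, Prod.fst_add, Prod.snd_add, Prod.fst_sub, Prod.snd_sub]
    omega
  rw [a1] at h1
  rw [a2] at h2
  have h1' := h1
  have h2' := h2
  classical
  convert congrArg₂ (fun x y : ℤ => (∑ m ∈ Finset.range n, pvoqV J a ((pvtrStep H)^[m] e).2 ((pvtrStep H)^[m + 1] e).2) + x - y) h1 h2 using 1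
  unfold pvoqA pvoqB
  by_cases c1 : (a + 1, J) ∈ H <;> by_cases c2 : (a + 1, J + 1) ∈ H <;> by_cases c3 : (a + 1 + 1, J) ∈ H <;> by_cases c4 : (a, J + 1) ∈ H <;> simp [c1, c2, c3, c4]

theorem pvoq_SD_succ (h : PvoqLoop H e n) (J a : ℤ) :
    (∑ m ∈ Finset.range n, pvoqD J (a + 1) ((pvtrStep H)^[m] e).2 ((pvtrStep H)^[m + 1] e).2) =
      (∑ m ∈ Finset.range n, pvoqD J a ((pvtrStep H)^[m] e).2 ((pvtrStep H)^[m + 1] e).2) + pvoqB H (a + 1) J - pvoqA H (a + 1) J := by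
  simp only [pvoq_D_succ, Finset.sum_sub_distrib, Finset.sum_add_distrib]
  have h1 := pvoq_edge h (u := (a + 1, J + 1)) (v := (a + 2, J)) (by rw [tsc_adj_iff]; simp; omega)
  have h2 := pvoq_edge h (u := (a + 2, J)) (v := (a + 1, J + 1)) (by rw [tsc_adj_iff]; simp; omega)
  have a1 : pvtrApex ((a + 1, J + 1), (a + 2, J)) = (a + 1 + 1, J + 1) := by
    simp only [pvtrApex, pvtrRot, Prod.ext_iff, Prod.fst_add, Prod.snd_add, Prod.fst_sub, Prod.snd_sub]
    omega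
  have a2 : pvtrApex ((a + 2, J), (a + 1, J + 1)) = (a + 1, J) := by
    simp only [pvtrApex, pvtrRot, Prod.ext_iff, Prod.fst_add, Prod.snd_add, Prod.fst_sub, Prod.snd_sub]
    omega
  have a3 : (a + 2, J) = (a + 1 + 1, J) := by
    rw [add_assoc]
    norm_num
  rw [a1] at h1
  rw [a2] at h2
  classical
  convert congrArg₂ (fun x y : ℤ => (∑ m ∈ Finset.range n, pvoqD J a ((pvtrStep H)^[m] e).2 ((pvtrStep H)^[m + 1] e).2) + x - y) h1 h2 using 1
  unfold pvoqA pvoqB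
  rw [a3]
  by_cases c1 : (a + 1, J) ∈ H <;> by_cases c2 : (a + 1, J + 1) ∈ H <;> by_cases c3 : (a + 1 + 1, J) ∈ H <;> by_cases c4 : (a + 1 + 1, J + 1) ∈ H <;> simp [c1, c2, c3, c4]

/-- far to the west nothing happens -/
theorem pvoq_base (h : PvoqLoop H e n) (J : ℤ) : ∃ M : ℤ, ∀ a ≤ M,
    (∑ m ∈ Finset.range n, pvoqV J a ((pvtrStep H)^[m] e).2 ((pvtrStep H)^[m + 1] e).2) = 0 ∧
    (∑ m ∈ Finset.range n, pvoqD J a ((pvtrStep H)^[m] e).2 ((pvtrStep H)^[m + 1] e).2) = 0 ∧ pvoqB H a J = 0 := by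
  obtain ⟨M, hM⟩ := (h.fin.image (fun b : ℤ × ℤ => b.1)).bddBelow
  have hM' : ∀ b ∈ H, M ≤ b.1 := fun b hb => hM ⟨b, hb, rfl⟩
  have hw : ∀ m, M - 1 ≤ ((pvtrStep H)^[m] e).2.1 := by
    intro m
    have hm := pvtr_iter_mem h.mem m
    have h1 := hM' _ hm.1
    have h2 := (tsc_adj_iff _ _).1 hm.2.2
    omega
  refine ⟨M - 2, fun a ha => ⟨Finset.sum_eq_zero fun m _ => ?_, Finset.sum_eq_zero fun m _ => ?_, ?_⟩⟩
  · have h1 := hw m
    have h2 := hw (m + 1)
    unfold pvoqV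
    rw [if_neg (by omega), if_neg (by omega), sub_zero]
  · have h1 := hw m
    have h2 := hw (m + 1)
    unfold pvoqD
    rw [if_neg (by omega), if_neg (by omega), sub_zero]
  · unfold pvoqB
    refine if_neg ?_
    rintro (hh | hh | hh)
    · have := hM' _ hh
      simp only at this
      omega
    · have := hM' _ hh
      simp only at this
      omega
    · have := hM' _ hh
      simp only at this
      omega

/-- **lattice Green formula in a strip**: the vertical and the diagonal edges of the row `J` up to the column `a` -/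
theorem pvoq_row (h : PvoqLoop H e n) (J a : ℤ) :
    (∑ m ∈ Finset.range n, pvoqV J a ((pvtrStep H)^[m] e).2 ((pvtrStep H)^[m + 1] e).2) +
    (∑ m ∈ Finset.range n, pvoqD J a ((pvtrStep H)^[m] e).2 ((pvtrStep H)^[m + 1] e).2) = pvoqB H a J := by
  obtain ⟨M, hM⟩ := pvoq_base h J
  rcases le_total a M with ha | ha
  · obtain ⟨h1, h2, h3⟩ := hM a ha
    rw [h1, h2, h3, add_zero]
  · induction a, ha using Int.leInduction with
    | base =>
      obtain ⟨h1, h2, h3⟩ := hM M le_rfl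
      rw [h1, h2, h3, add_zero]
    | succ a ha ih =>
      rw [pvoq_SV_succ h, pvoq_SD_succ h]
      linarith

/-- the same, the diagonal edges one column less -/
theorem pvoq_row' (h : PvoqLoop H e n) (J a : ℤ) :
    (∑ m ∈ Finset.range n, pvoqV J a ((pvtrStep H)^[m] e).2 ((pvtrStep H)^[m + 1] e).2) +
    (∑ m ∈ Finset.range n, pvoqD J (a - 1) ((pvtrStep H)^[m] e).2 ((pvtrStep H)^[m + 1] e).2) = pvoqA H a J := by
  have h1 := pvoq_row h J (a - 1)
  have h2 := pvoq_SV_succ h J (a - 1)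
  rw [sub_add_cancel] at h2
  rw [h2]
  linarith

end row

/-! ## §3 the leftward ray and the lattice edges -/

open Classical in
/-- the crossing of the LEFTWARD ray issued from `p` by the directed edge `z → z'`: `+1` downwards, `-1` upwards, the edge strictly to the west of `p` -/
theorem pvoq_chi_eq (p z z' : ℂ) : delChi (-p) (-z) (-z') =
    if p.im ≤ z.im ∧ z'.im < p.im ∧ 0 < vorDet z z' p then 1 else if p.im ≤ z'.im ∧ z.im < p.im ∧ vorDet z z' p < 0 then -1 else 0 := by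
  have hd : vorDet (-z) (-z') (-p) = vorDet z z' p := by
    unfold vorDet
    simp only [Complex.neg_re, Complex.neg_im]
    ring
  unfold delChi delChiR
  rw [hd]
  simp only [Complex.neg_im, neg_le_neg_iff, neg_lt_neg_iff]

section lat

variable {δ : ℝ} {p : ℂ} {a J a1 : ℤ}

theorem pvoq_lt_iff (hδ : 0 < δ) {t : ℝ} {c : ℤ} {s : ℝ} (h1 : ((c : ℝ) + s) * δ < t) (h2 : t ≤ ((c : ℝ) + s + 1) * δ) (k : ℤ) : ((k : ℝ) + s) * δ < t ↔ k ≤ c := by
  constructor
  · intro h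
    have h3 : ((k : ℝ) + s) * δ < ((c : ℝ) + s + 1) * δ := lt_of_lt_of_le h h2
    have h4 : (k : ℝ) + s < (c : ℝ) + s + 1 := lt_of_mul_lt_mul_right h3 hδ.le
    have h5 : (k : ℝ) < ((c + 1 : ℤ) : ℝ) := by push_cast; linarith
    have h6 : k < c + 1 := by exact_mod_cast h5
    omega
  · intro h
    have h3 : (k : ℝ) ≤ (c : ℝ) := by exact_mod_cast h
    have h4 : ((k : ℝ) + s) * δ ≤ ((c : ℝ) + s) * δ := mul_le_mul_of_nonneg_right (by linarith) hδ.le
    linarith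

theorem pvoq_le_iff (hδ : 0 < δ) {t : ℝ} {c : ℤ} {s : ℝ} (h1 : ((c : ℝ) + s) * δ < t) (h2 : t ≤ ((c : ℝ) + s + 1) * δ) (k : ℤ) : t ≤ ((k : ℝ) + s) * δ ↔ c + 1 ≤ k := by
  rw [← not_lt, pvoq_lt_iff hδ h1 h2 k]
  omega

/-- horizontal or degenerate edge -/
theorem pvoq_chi_hor {z z' : ℂ} (h : z'.im = z.im) : delChi (-p) (-z) (-z') = 0 := by
  rw [pvoq_chi_eq, h, if_neg (fun hh => absurd hh.2.1 (not_lt.2 hh.1)), if_neg (fun hh => absurd hh.2.1 (not_lt.2 hh.1))]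

/-- vertical edge, downwards -/
theorem pvoq_chi_vd (hδ : 0 < δ) (hx1 : ((a : ℝ) + 1 / 2) * δ < p.re) (hx2 : p.re ≤ ((a : ℝ) + 1 / 2 + 1) * δ)
    (hy1 : ((J : ℝ) + 1 / 2) * δ < p.im) (hy2 : p.im ≤ ((J : ℝ) + 1 / 2 + 1) * δ) (c r : ℤ) :
    delChi (-p) (-(pvtCtr δ (c, r + 1))) (-(pvtCtr δ (c, r))) = if r = J ∧ c ≤ a then 1 else 0 := by
  have hd : vorDet (pvtCtr δ (c, r + 1)) (pvtCtr δ (c, r)) p = δ * (p.re - ((c : ℝ) + 1 / 2) * δ) := by
    unfold vorDet pvtCtr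
    push_cast
    ring
  have hd' : 0 < vorDet (pvtCtr δ (c, r + 1)) (pvtCtr δ (c, r)) p ↔ c ≤ a := by
    rw [hd, ← pvoq_lt_iff hδ hx1 hx2 c]
    constructor
    · intro h
      have := (mul_pos_iff_of_pos_left hδ).1 h
      linarith
    · intro h
      exact mul_pos hδ (by linarith)
  have i1 : (pvtCtr δ (c, r + 1)).im = (((r + 1 : ℤ) : ℝ) + 1 / 2) * δ := rfl
  have i2 : (pvtCtr δ (c, r)).im = ((r : ℝ) + 1 / 2) * δ := rfl
  rw [pvoq_chi_eq, i1, i2]
  simp only [hd', pvoq_le_iff hδ hy1 hy2, pvoq_lt_iff hδ hy1 hy2]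
  split_ifs <;> omega

/-- diagonal edge, downwards -/
theorem pvoq_chi_dd (hδ : 0 < δ) (hd1 : ∀ k : ℤ, ((k : ℝ) + J + 2) * δ < p.re + p.im ↔ k ≤ a1)
    (hy1 : ((J : ℝ) + 1 / 2) * δ < p.im) (hy2 : p.im ≤ ((J : ℝ) + 1 / 2 + 1) * δ) (c r : ℤ) :
    delChi (-p) (-(pvtCtr δ (c, r + 1))) (-(pvtCtr δ (c + 1, r))) = if r = J ∧ c ≤ a1 then 1 else 0 := by
  have hd : vorDet (pvtCtr δ (c, r + 1)) (pvtCtr δ (c + 1, r)) p = δ * (p.re + p.im - ((c : ℝ) + r + 2) * δ) := by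
    unfold vorDet pvtCtr
    push_cast
    ring
  have i1 : (pvtCtr δ (c, r + 1)).im = (((r + 1 : ℤ) : ℝ) + 1 / 2) * δ := rfl
  have i2 : (pvtCtr δ (c + 1, r)).im = ((r : ℝ) + 1 / 2) * δ := rfl
  rw [pvoq_chi_eq, i1, i2]
  simp only [pvoq_le_iff hδ hy1 hy2, pvoq_lt_iff hδ hy1 hy2]
  by_cases hr : r = J
  · subst hr
    have hd' : 0 < vorDet (pvtCtr δ (c, r + 1)) (pvtCtr δ (c + 1, r)) p ↔ c ≤ a1 := by
      rw [hd, ← hd1 c]
      constructor
      · intro h
        have := (mul_pos_iff_of_pos_left hδ).1 h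
        linarith
      · intro h
        exact mul_pos hδ (by linarith)
    simp only [hd', le_refl, true_and]
    split_ifs <;> omega
  · rw [if_neg (by omega), if_neg (by omega), if_neg (by omega)]

/-- **`delChi` on the lattice edges** -/
theorem pvoq_chi_lat (hδ : 0 < δ) (hx1 : ((a : ℝ) + 1 / 2) * δ < p.re) (hx2 : p.re ≤ ((a : ℝ) + 1 / 2 + 1) * δ)
    (hy1 : ((J : ℝ) + 1 / 2) * δ < p.im) (hy2 : p.im ≤ ((J : ℝ) + 1 / 2 + 1) * δ) (hd1 : ∀ k : ℤ, ((k : ℝ) + J + 2) * δ < p.re + p.im ↔ k ≤ a1)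
    {u v : ℤ × ℤ} (huv : u = v ∨ triAdj u v) :
    delChi (-p) (-(pvtCtr δ u)) (-(pvtCtr δ v)) = pvoqV J a u v + pvoqD J a1 u v := by
  obtain ⟨u1, u2⟩ := u
  obtain ⟨v1, v2⟩ := v
  rw [tsc_adj_iff, Prod.mk.injEq] at huv
  simp only at huv
  have hor : v2 = u2 → delChi (-p) (-(pvtCtr δ (u1, u2))) (-(pvtCtr δ (v1, v2))) = pvoqV J a (u1, u2) (v1, v2) + pvoqD J a1 (u1, u2) (v1, v2) := by
    rintro rfl
    rw [pvoq_chi_hor (p := p) (z := pvtCtr δ (u1, v2)) (z' := pvtCtr δ (v1, v2)) rfl]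
    unfold pvoqV pvoqD
    simp only
    rw [if_neg (by omega), if_neg (by omega), if_neg (by omega), if_neg (by omega)]
    norm_num
  rcases huv with ⟨h1, h2⟩ | ⟨h1, h2⟩ | ⟨h1, h2⟩ | ⟨h1, h2⟩ | ⟨h1, h2⟩ | ⟨h1, h2⟩ | ⟨h1, h2⟩
  · exact hor h2.symm
  · exact hor h2
  · subst h1 h2
    rw [delw_chi_anti, pvoq_chi_vd hδ hx1 hx2 hy1 hy2]
    unfold pvoqV pvoqD
    simp only [true_and]
    split_ifs <;> omega
  · obtain rfl : u1 = v1 + 1 := by omega
    subst h2
    rw [delw_chi_anti, pvoq_chi_dd hδ hd1 hy1 hy2]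
    unfold pvoqV pvoqD
    simp only [true_and]
    split_ifs <;> omega
  · exact hor h2
  · obtain rfl : u2 = v2 + 1 := by omega
    subst h1
    rw [pvoq_chi_vd hδ hx1 hx2 hy1 hy2]
    unfold pvoqV pvoqD
    simp only [true_and]
    split_ifs <;> omega
  · obtain rfl : u2 = v2 + 1 := by omega
    subst h1
    rw [pvoq_chi_dd hδ hd1 hy1 hy2]
    unfold pvoqV pvoqD
    simp only [true_and]
    split_ifs <;> omega

end lat

/-! ## §4 the crossing number of the loop of the outer cells -/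

section main

variable {H : Set (ℤ × ℤ)} {e : (ℤ × ℤ) × (ℤ × ℤ)} {n : ℕ} {δ : ℝ} {p : ℂ} {a J : ℤ}

theorem pvoq_step_adj (he : e ∈ pvtrBd H) (m : ℕ) :
    ((pvtrStep H)^[m] e).2 = ((pvtrStep H)^[m + 1] e).2 ∨ triAdj ((pvtrStep H)^[m] e).2 ((pvtrStep H)^[m + 1] e).2 := by
  rw [Function.iterate_succ_apply']
  rcases pvtr_step_snd_adj (pvtr_iter_mem he m) with h | h
  · exact Or.inl h.symm
  · exact Or.inr h

open Classical in
/-- **THE FORMULA**, every point `p` of the plane: `(a, J)` = the half-open square of the lattice of the CENTRES which contains `p`;   the crossing number of the loop of the outer cells is `1` or `0`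
according as the half-open lattice triangle of `p` (lower / upper half of that square) has a vertex in `H` or not -/
theorem pvoq_formula (h : PvoqLoop H e n) (hδ : 0 < δ) (hx1 : ((a : ℝ) + 1 / 2) * δ < p.re) (hx2 : p.re ≤ ((a : ℝ) + 3 / 2) * δ)
    (hy1 : ((J : ℝ) + 1 / 2) * δ < p.im) (hy2 : p.im ≤ ((J : ℝ) + 3 / 2) * δ) :
    (∑ m ∈ Finset.range n, delChi (-p) (-(pvtCtr δ ((pvtrStep H)^[m] e).2)) (-(pvtCtr δ ((pvtrStep H)^[m + 1] e).2))) =
      if p.re + p.im ≤ ((a : ℝ) + J + 2) * δ then pvoqA H a J else pvoqB H a J := by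
  have hx2' : p.re ≤ ((a : ℝ) + 1 / 2 + 1) * δ := by
    have e1 : (a : ℝ) + 1 / 2 + 1 = (a : ℝ) + 3 / 2 := by ring
    rw [e1]
    exact hx2
  have hy2' : p.im ≤ ((J : ℝ) + 1 / 2 + 1) * δ := by
    have e1 : (J : ℝ) + 1 / 2 + 1 = (J : ℝ) + 3 / 2 := by ring
    rw [e1]
    exact hy2
  by_cases hc : p.re + p.im ≤ ((a : ℝ) + J + 2) * δ
  · rw [if_pos hc, ← pvoq_row' h J a, ← Finset.sum_add_distrib]
    refine Finset.sum_congr rfl fun m _ => pvoq_chi_lat hδ hx1 hx2' hy1 hy2' (fun k => ?_) (pvoq_step_adj h.mem m)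
    have h1 : (((a - 1 : ℤ) : ℝ) + ((J : ℝ) + 2)) * δ < p.re + p.im := by
      push_cast
      have e1 : ((a : ℝ) - 1 + ((J : ℝ) + 2)) * δ = ((a : ℝ) + 1 / 2) * δ + ((J : ℝ) + 1 / 2) * δ := by ring
      rw [e1]
      linarith
    have h2 : p.re + p.im ≤ (((a - 1 : ℤ) : ℝ) + ((J : ℝ) + 2) + 1) * δ := by
      push_cast
      have e1 : ((a : ℝ) - 1 + ((J : ℝ) + 2) + 1) * δ = ((a : ℝ) + J + 2) * δ := by ring
      rw [e1]
      exact hc
    rw [add_assoc]
    exact pvoq_lt_iff hδ h1 h2 k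
  · rw [if_neg hc, ← pvoq_row h J a, ← Finset.sum_add_distrib]
    refine Finset.sum_congr rfl fun m _ => pvoq_chi_lat hδ hx1 hx2' hy1 hy2' (fun k => ?_) (pvoq_step_adj h.mem m)
    have h1 : ((a : ℝ) + ((J : ℝ) + 2)) * δ < p.re + p.im := by
      rw [← add_assoc]
      exact not_le.1 hc
    have h2 : p.re + p.im ≤ ((a : ℝ) + ((J : ℝ) + 2) + 1) * δ := by
      have e1 : ((a : ℝ) + ((J : ℝ) + 2) + 1) * δ = ((a : ℝ) + 3 / 2) * δ + ((J : ℝ) + 3 / 2) * δ := by ring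
      rw [e1]
      linarith
    rw [add_assoc]
    exact pvoq_lt_iff hδ h1 h2 k

theorem pvoq_sq_cases (hδ : 0 < δ) {t : ℝ} {k : ℤ} (h1 : (k : ℝ) * δ ≤ t) (h2 : t ≤ ((k : ℝ) + 1) * δ) :
    (((k - 1 : ℤ) : ℝ) + 1 / 2) * δ < t ∧ t ≤ (((k - 1 : ℤ) : ℝ) + 3 / 2) * δ ∨ ((k : ℝ) + 1 / 2) * δ < t ∧ t ≤ ((k : ℝ) + 3 / 2) * δ := by
  rcases le_or_gt t (((k : ℝ) + 1 / 2) * δ) with h | h
  · left
    push_cast
    constructor
    · nlinarith
    · nlinarith
  · right
    exact ⟨h, by nlinarith⟩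

/-- **ONE**: on the closed square of a cell `b` of `H`, its south-west corner excepted -/
theorem pvoq_one (h : PvoqLoop H e n) (hδ : 0 < δ) {b : ℤ × ℤ} (hb : b ∈ H) (hp : p ∈ pvtSq δ b) (hsw : (b.1 : ℝ) * δ < p.re ∨ (b.2 : ℝ) * δ < p.im) :
    (∑ m ∈ Finset.range n, delChi (-p) (-(pvtCtr δ ((pvtrStep H)^[m] e).2)) (-(pvtCtr δ ((pvtrStep H)^[m + 1] e).2))) = 1 := by
  obtain ⟨b1, b2⟩ := b
  obtain ⟨p1, p2, p3, p4⟩ := hp
  simp only at p1 p2 p3 p4 hsw
  have s1 : b1 - 1 + 1 = b1 := by ring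
  have s2 : b2 - 1 + 1 = b2 := by ring
  rcases pvoq_sq_cases hδ p1 p2 with ⟨x1, x2⟩ | ⟨x1, x2⟩ <;> rcases pvoq_sq_cases hδ p3 p4 with ⟨y1, y2⟩ | ⟨y1, y2⟩
  · rw [pvoq_formula h hδ x1 x2 y1 y2, if_neg]
    · unfold pvoqB
      rw [s1, s2]
      exact if_pos (Or.inr (Or.inl hb))
    · push_cast
      rw [not_le]
      rcases hsw with hh | hh <;> nlinarith
  · rw [pvoq_formula h hδ x1 x2 y1 y2]
    unfold pvoqA pvoqB
    rw [s1]
    split_ifs with c1 c2 c3
    · rfl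
    · exact absurd (Or.inr (Or.inl hb)) c2
    · rfl
    · exact absurd (Or.inl hb) c3
  · rw [pvoq_formula h hδ x1 x2 y1 y2]
    unfold pvoqA pvoqB
    rw [s2]
    split_ifs with c1 c2 c3
    · rfl
    · exact absurd (Or.inr (Or.inr hb)) c2
    · rfl
    · exact absurd (Or.inr (Or.inr hb)) c3
  · rw [pvoq_formula h hδ x1 x2 y1 y2, if_pos]
    · unfold pvoqA
      exact if_pos (Or.inl hb)
    · nlinarith

/-- at the centres of the cells of `H` -/
theorem pvoq_ctr (h : PvoqLoop H e n) (hδ : 0 < δ) {b : ℤ × ℤ} (hb : b ∈ H) :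
    (∑ m ∈ Finset.range n, delChi (-(pvtCtr δ b)) (-(pvtCtr δ ((pvtrStep H)^[m] e).2)) (-(pvtCtr δ ((pvtrStep H)^[m + 1] e).2))) = 1 := by
  refine pvoq_one h hδ hb ⟨?_, ?_, ?_, ?_⟩ (Or.inl ?_) <;> simp only [pvtCtr] <;> nlinarith

/-- **ONE**, all of the closed square: the cell and one of its three south-west neighbours are in `H` -/
theorem pvoq_one' (h : PvoqLoop H e n) (hδ : 0 < δ) {b : ℤ × ℤ} (hb : b ∈ H) (hp : p ∈ pvtSq δ b)
    (hsw : (b.1 - 1, b.2 - 1) ∈ H ∨ (b.1, b.2 - 1) ∈ H ∨ (b.1 - 1, b.2) ∈ H) :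
    (∑ m ∈ Finset.range n, delChi (-p) (-(pvtCtr δ ((pvtrStep H)^[m] e).2)) (-(pvtCtr δ ((pvtrStep H)^[m + 1] e).2))) = 1 := by
  by_cases hc : (b.1 : ℝ) * δ < p.re ∨ (b.2 : ℝ) * δ < p.im
  · exact pvoq_one h hδ hb hp hc
  · rw [not_or, not_lt, not_lt] at hc
    obtain ⟨b1, b2⟩ := b
    obtain ⟨p1, p2, p3, p4⟩ := hp
    simp only at p1 p2 p3 p4 hc hsw
    have s1 : b1 - 1 + 1 = b1 := by ring
    have s2 : b2 - 1 + 1 = b2 := by ring
    have x1 : (((b1 - 1 : ℤ) : ℝ) + 1 / 2) * δ < p.re := by push_cast; nlinarith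
    have x2 : p.re ≤ (((b1 - 1 : ℤ) : ℝ) + 3 / 2) * δ := by push_cast; nlinarith
    have y1 : (((b2 - 1 : ℤ) : ℝ) + 1 / 2) * δ < p.im := by push_cast; nlinarith
    have y2 : p.im ≤ (((b2 - 1 : ℤ) : ℝ) + 3 / 2) * δ := by push_cast; nlinarith
    rw [pvoq_formula h hδ x1 x2 y1 y2, if_pos]
    · unfold pvoqA
      rw [s1, s2]
      exact if_pos hsw
    · push_cast
      nlinarith

/-- **ZERO**: on the closed square of a cell `k` whose `8`-collar misses `H` -/
theorem pvoq_zero (h : PvoqLoop H e n) (hδ : 0 < δ) {k : ℤ × ℤ} (hp : p ∈ pvtSq δ k)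
    (hk : ∀ k' : ℤ × ℤ, k.1 - 1 ≤ k'.1 → k'.1 ≤ k.1 + 1 → k.2 - 1 ≤ k'.2 → k'.2 ≤ k.2 + 1 → k' ∉ H) :
    (∑ m ∈ Finset.range n, delChi (-p) (-(pvtCtr δ ((pvtrStep H)^[m] e).2)) (-(pvtCtr δ ((pvtrStep H)^[m + 1] e).2))) = 0 := by
  obtain ⟨k1, k2⟩ := k
  obtain ⟨p1, p2, p3, p4⟩ := hp
  simp only at p1 p2 p3 p4 hk
  have key : ∀ a J : ℤ, k1 - 1 ≤ a → a ≤ k1 → k2 - 1 ≤ J → J ≤ k2 → pvoqA H a J = 0 ∧ pvoqB H a J = 0 := by
    intro a J h1 h2 h3 h4
    constructor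
    · refine if_neg ?_
      rintro (hh | hh | hh)
      · exact hk _ (by simp only; omega) (by simp only; omega) (by simp only; omega) (by simp only; omega) hh
      · exact hk _ (by simp only; omega) (by simp only; omega) (by simp only; omega) (by simp only; omega) hh
      · exact hk _ (by simp only; omega) (by simp only; omega) (by simp only; omega) (by simp only; omega) hh
    · refine if_neg ?_
      rintro (hh | hh | hh)
      · exact hk _ (by simp only; omega) (by simp only; omega) (by simp only; omega) (by simp only; omega) hh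
      · exact hk _ (by simp only; omega) (by simp only; omega) (by simp only; omega) (by simp only; omega) hh
      · exact hk _ (by simp only; omega) (by simp only; omega) (by simp only; omega) (by simp only; omega) hh
  rcases pvoq_sq_cases hδ p1 p2 with ⟨x1, x2⟩ | ⟨x1, x2⟩ <;> rcases pvoq_sq_cases hδ p3 p4 with ⟨y1, y2⟩ | ⟨y1, y2⟩
  · rw [pvoq_formula h hδ x1 x2 y1 y2, (key (k1 - 1) (k2 - 1) (by omega) (by omega) (by omega) (by omega)).1, (key (k1 - 1) (k2 - 1) (by omega) (by omega) (by omega) (by omega)).2, ite_self]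
  · rw [pvoq_formula h hδ x1 x2 y1 y2, (key (k1 - 1) k2 (by omega) (by omega) (by omega) (by omega)).1, (key (k1 - 1) k2 (by omega) (by omega) (by omega) (by omega)).2, ite_self]
  · rw [pvoq_formula h hδ x1 x2 y1 y2, (key k1 (k2 - 1) (by omega) (by omega) (by omega) (by omega)).1, (key k1 (k2 - 1) (by omega) (by omega) (by omega) (by omega)).2, ite_self]
  · rw [pvoq_formula h hδ x1 x2 y1 y2, (key k1 k2 (by omega) (by omega) (by omega) (by omega)).1, (key k1 k2 (by omega) (by omega) (by omega) (by omega)).2, ite_self]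

/-- **ZERO** in the vocabulary of `Tr/Poly` -/
theorem pvoq_zero_N8 (h : PvoqLoop H e n) (hδ : 0 < δ) {k : ℤ × ℤ} (hp : p ∈ pvtSq δ k) (hk : Disjoint (pvtN8 {k}) H) :
    (∑ m ∈ Finset.range n, delChi (-p) (-(pvtCtr δ ((pvtrStep H)^[m] e).2)) (-(pvtCtr δ ((pvtrStep H)^[m + 1] e).2))) = 0 := by
  refine pvoq_zero h hδ hp fun k' h1 h2 h3 h4 hk' => Set.disjoint_left.1 hk ⟨k, rfl, ?_⟩ hk'
  by_cases hh : k' = k
  · exact Or.inl hh
  · exact Or.inr ⟨fun e1 => hh e1.symm, by omega, by omega, by omega, by omega⟩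

/-- **ONE** in the vocabulary of `Tr/Poly` -/
theorem pvoq_one_N8 (h : PvoqLoop H e n) (hδ : 0 < δ) {k : ℤ × ℤ} (hp : p ∈ pvtSq δ k) (hk : pvtN8 {k} ⊆ H) :
    (∑ m ∈ Finset.range n, delChi (-p) (-(pvtCtr δ ((pvtrStep H)^[m] e).2)) (-(pvtCtr δ ((pvtrStep H)^[m + 1] e).2))) = 1 := by
  refine pvoq_one' h hδ (hk ⟨k, rfl, Or.inl rfl⟩) hp (Or.inl (hk ⟨k, rfl, Or.inr ⟨fun e1 => ?_, ?_, ?_, ?_, ?_⟩⟩))
  · have := congrArg Prod.fst e1
    simp only at this
    omega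
  all_goals simp only
  all_goals omega

end main

end Claimed.Agent.R289
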