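-- KEEP
import Claimed.Agent.R289.Pl.Geo
import Claimed.Agent.R289.Del.Wind

/-!
# Row 289 (S0537), unit TR, ROAD P, P11' = M11 ORIENTATION, analytic half : Tr/OrientW      (owner helper202; prefix `pvwn_`, defs `pvwn*`)

Tool = the ray crossing numbers `delChi` of `Del/Wind` (253).   No Jordan curve theorem in `ℂ`, no homotopy, no general position: all degenerate positions are absorbed by the half open rule.
* sec.1  real arithmetic: `pvwn_cross` (two segments with opposite signs of the four determinants meet), `pvwn_core`, `pvwn_flat`, `pvwn_four_real`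
* sec.2  `pvwnT p z z' := delChi (-p) (-z) (-z')` (LEFTWARD ray from `p` crossed by `z → z'`; `+1` = downwards on the left of `p`), `pvwnW x i j z` (arc), `pvwnTh z N p` (winding number of a loop round `p`)
         **`pvwn_four`** [4PT]: `[a,b]`, `[z,z']` disjoint ⟹ `delChi z a b - delChi z' a b = pvwnT a z z' - pvwnT b z z'`;   `pvwn_arc` (telescoped);
         **`pvwn_abs`**: closed polygon `x` cut at `o = x 0`, `f = x k`; loop `z` with `Θ(o) = 1`, `Θ(f) = 0`; the arc `o → f` meets the loop only along `[m1,m2)`, which the arc `f → o` misses ⟹ `W(z m2) = W(z m1) + 1`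
         `pvwn_abs2` (the same for two abstract crossing functions);   FREE LEMMAS ON `Θ`: `pvwn_Th_move` (`Θ(p) = Θ(p')` if `[p,p']` misses the loop), `pvwn_T_north/_south/_west/_east`, `pvwn_Th_far` (`Θ = 0` off a box which contains the loop)
* sec.3  `T.Cyc` + `PlGeo`: `pvwn_wn_const` (`delWn` constant along segments off the polygon), `pvwn_wn_in` / `_out` (`= 1` on `real Left \ poly`, `0` off `real Left`), `pvwn_wn_rev`, `pvwn_jump`, **`pvwn_side`** (`z m1` RIGHT of `c`, `z m2` LEFT of `c`)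
* sec.4  LOCAL FORM (rims of completions are geometric only in the agreement ball): `A` a FINITE face set of the plane map, `pvwnBd T A hfin` (boundary darts, `A` on the left), `pvwnB T pos A hfin z` (their crossing number);
         `pvwn_green`, **`pvwn_balance`** (`∑_{bd A} (g (src d) - g (tgt d)) = 0`), `pvwn_B_out` / `_open` / `_in` / `_const`, **`pvwn_side_loc`** (only a chain `o → f` of boundary darts is known; all the other boundary darts miss the stretch `[m1,m2)`),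
         **`pvwn_loc_pack`** (MULTI-RUN form: jumps `Jp + Jm`, `Jp m = 0` / `Jm m = 0` off the crossings, `∑ Jp = Θ(o) - Θ(f)`: input of `pvoz_laneR` of 15), `pvwn_B_val`
-/

set_option autoImplicit false

namespace Claimed.Agent.R289

open Set

/-! ## 1. the four point identity, real form -/

/-- two segments which cross: the parameters of the common point -/
theorem pvwn_cross {a1 a2 b1 b2 x y x' y' : ℝ}
    (hdis : ∀ s t : ℝ, 0 ≤ s → s ≤ 1 → 0 ≤ t → t ≤ 1 → a1 + s * (b1 - a1) = x + t * (x' - x) → a2 + s * (b2 - a2) = y + t * (y' - y) → False)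
    {Dz Dz' Ea Eb : ℝ} (hDz : Dz = (b1 - a1) * (y - a2) - (b2 - a2) * (x - a1)) (hDz' : Dz' = (b1 - a1) * (y' - a2) - (b2 - a2) * (x' - a1))
    (hEa : Ea = (x' - x) * (a2 - y) - (y' - y) * (a1 - x)) (hEb : Eb = (x' - x) * (b2 - y) - (y' - y) * (b1 - x)) :
    ¬ (Dz ≤ 0 ∧ 0 ≤ Dz' ∧ Eb ≤ 0 ∧ 0 ≤ Ea ∧ Dz < Dz') ∧ ¬ (Dz' ≤ 0 ∧ 0 ≤ Dz ∧ Ea ≤ 0 ∧ 0 ≤ Eb ∧ Dz' < Dz) := by
  have hΔ : Ea - Eb = Dz' - Dz := by rw [hDz, hDz', hEa, hEb]; ring
  have key : Dz' - Dz ≠ 0 → 0 ≤ Ea / (Dz' - Dz) → Ea / (Dz' - Dz) ≤ 1 → 0 ≤ -Dz / (Dz' - Dz) → -Dz / (Dz' - Dz) ≤ 1 → False := by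
    intro h0 s0 s1 t0 t1
    refine hdis _ _ s0 s1 t0 t1 ?_ ?_
    · field_simp
      rw [hDz, hDz', hEa]; ring
    · field_simp
      rw [hDz, hDz', hEa]; ring
  constructor
  · rintro ⟨h1, h2, h3, h4, h5⟩
    have hp : 0 < Dz' - Dz := by linarith
    exact key hp.ne' (div_nonneg h4 hp.le) ((div_le_one hp).2 (by linarith)) (div_nonneg (by linarith) hp.le) ((div_le_one hp).2 (by linarith))
  · rintro ⟨h1, h2, h3, h4, h5⟩
    have hp : Dz' - Dz < 0 := by linarith
    exact key hp.ne (div_nonneg_of_nonpos h3 hp.le) ((div_le_one_of_neg hp).2 (by linarith)) (div_nonneg_of_nonpos (by linarith) hp.le)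
      ((div_le_one_of_neg hp).2 (by linarith))

theorem pvwn_s1 {p q u v : ℝ} (hp : 0 < p) (hq : 0 ≤ q) (hv : 0 ≤ v) (h : p * u + q * v < 0) : u < 0 := by
  by_contra hu
  push Not at hu
  nlinarith [mul_nonneg hp.le hu, mul_nonneg hq hv]

theorem pvwn_s2 {p q u v : ℝ} (hp : 0 < p) (hq : 0 ≤ q) (hv : v ≤ 0) (h : 0 < p * u + q * v) : 0 < u := by
  by_contra hu
  push Not at hu
  nlinarith [mul_nonneg hp.le (neg_nonneg.2 hu), mul_nonneg hq (neg_nonneg.2 hv)]

theorem pvwn_s3 {p q u v : ℝ} (hp : 0 < p) (hq : 0 ≤ q) (hv : 0 ≤ v) (h : p * u + q * v ≤ 0) : u ≤ 0 := by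
  by_contra hu
  push Not at hu
  nlinarith [mul_pos hp hu, mul_nonneg hq hv]

theorem pvwn_s4 {p q u v : ℝ} (hp : 0 < p) (hq : 0 ≤ q) (hv : v ≤ 0) (h : 0 ≤ p * u + q * v) : 0 ≤ u := by
  by_contra hu
  push Not at hu
  nlinarith [mul_pos hp (neg_pos.2 hu), mul_nonneg hq (neg_nonneg.2 hv)]

theorem pvwn_ite_sub {p q : Prop} [Decidable p] [Decidable q] (h : p ↔ q) (c : ℤ) : (if p then c else 0) = if q then c else 0 := by
  simp only [h]

/-- sign transport (i): the heights of the test segment lie inside the heights of the edge -/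
theorem pvwn_iff_i {a2 b2 y y' Dz Dz' Ea Eb : ℝ} (hyy : y < y') (P1 : a2 ≤ y) (P2 : y' < b2)
    (I3 : (b2 - y) * Ea + (y - a2) * Eb = -((y' - y) * Dz)) (I4 : (b2 - y') * Ea + (y' - a2) * Eb = -((y' - y) * Dz')) (hΔ : Ea - Eb = Dz' - Dz)
    (N1 : ¬ (Dz ≤ 0 ∧ 0 ≤ Dz' ∧ Eb ≤ 0 ∧ 0 ≤ Ea ∧ Dz < Dz')) (N2 : ¬ (Dz' ≤ 0 ∧ 0 ≤ Dz ∧ Ea ≤ 0 ∧ 0 ≤ Eb ∧ Dz' < Dz)) : 0 < Dz ↔ 0 < Dz' := by
  have hy : 0 < y' - y := by linarith
  constructor
  · intro h
    by_contra h'
    push Not at h'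
    have e2 : Ea < 0 := by
      by_contra hc
      push Not at hc
      linarith [mul_nonneg (by linarith : (0:ℝ) ≤ b2 - y) hc, mul_nonneg (by linarith : (0:ℝ) ≤ y - a2) (by linarith : (0:ℝ) ≤ Eb), mul_pos hy h]
    have e3 : 0 ≤ Eb := by
      by_contra hc
      push Not at hc
      linarith [mul_pos (by linarith : (0:ℝ) < b2 - y') (neg_pos.2 e2), mul_pos (by linarith : (0:ℝ) < y' - a2) (neg_pos.2 hc), mul_nonneg hy.le (neg_nonneg.2 h')]
    exact N2 ⟨h', h.le, e2.le, e3, by linarith⟩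
  · intro h
    by_contra h'
    push Not at h'
    have e2 : 0 ≤ Ea := by
      by_contra hc
      push Not at hc
      linarith [mul_pos (by linarith : (0:ℝ) < b2 - y) (neg_pos.2 hc), mul_nonneg (by linarith : (0:ℝ) ≤ y - a2) (by linarith : (0:ℝ) ≤ -Eb), mul_nonneg hy.le (neg_nonneg.2 h')]
    have e3 : Eb < 0 := by
      by_contra hc
      push Not at hc
      linarith [mul_nonneg (by linarith : (0:ℝ) ≤ b2 - y') e2, mul_nonneg (by linarith : (0:ℝ) ≤ y' - a2) hc, mul_pos hy h]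
    exact N1 ⟨h', h.le, e3.le, e2, by linarith⟩

/-- sign transport (iii): the edge starts below the test segment and ends inside its heights -/
theorem pvwn_iff_iii {a2 b2 y y' Dz Dz' Ea Eb : ℝ} (hab : a2 < b2) (hyy : y < y') (P1 : a2 ≤ y) (P2 : b2 ≤ y') (Q : y < b2)
    (I1 : (y' - b2) * Dz + (b2 - y) * Dz' = -((b2 - a2) * Eb)) (I3 : (b2 - y) * Ea + (y - a2) * Eb = -((y' - y) * Dz))
    (N1 : ¬ (Dz ≤ 0 ∧ 0 ≤ Dz' ∧ Eb ≤ 0 ∧ 0 ≤ Ea ∧ Dz < Dz')) (N2 : ¬ (Dz' ≤ 0 ∧ 0 ≤ Dz ∧ Ea ≤ 0 ∧ 0 ≤ Eb ∧ Dz' < Dz)) : 0 < Dz ↔ Eb < 0 := by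
  have hy : 0 < y' - y := by linarith
  have hba : 0 < b2 - a2 := by linarith
  constructor
  · intro h
    by_contra h'
    push Not at h'
    have d1 : Dz' ≤ 0 := by
      have : (b2 - y) * Dz' + (y' - b2) * Dz ≤ 0 := by linarith [mul_nonneg hba.le h']
      exact pvwn_s3 (by linarith) (by linarith) h.le this
    have e1 : Ea < 0 := by
      have : (b2 - y) * Ea + (y - a2) * Eb < 0 := by linarith [mul_pos hy h]
      exact pvwn_s1 (by linarith) (by linarith) h' this
    exact N2 ⟨d1, h.le, e1.le, h', by linarith⟩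
  · intro h
    by_contra h'
    push Not at h'
    have d1 : 0 < Dz' := by
      have : 0 < (b2 - y) * Dz' + (y' - b2) * Dz := by linarith [mul_pos hba (neg_pos.2 h)]
      exact pvwn_s2 (by linarith) (by linarith) h' this
    have e1 : 0 ≤ Ea := by
      have : 0 ≤ (b2 - y) * Ea + (y - a2) * Eb := by linarith [mul_nonneg hy.le (neg_nonneg.2 h')]
      exact pvwn_s4 (by linarith) (by linarith) h.le this
    exact N1 ⟨h', d1.le, h.le, e1, by linarith⟩

/-- sign transport (iv): the edge starts inside the heights of the test segment and ends above -/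
theorem pvwn_iff_iv {a2 b2 y y' Dz Dz' Ea Eb : ℝ} (hab : a2 < b2) (hyy : y < y') (P1 : y < a2) (P2 : y' < b2) (Q : a2 ≤ y')
    (I2 : (y' - a2) * Dz + (a2 - y) * Dz' = -((b2 - a2) * Ea)) (I4 : (b2 - y') * Ea + (y' - a2) * Eb = -((y' - y) * Dz'))
    (N1 : ¬ (Dz ≤ 0 ∧ 0 ≤ Dz' ∧ Eb ≤ 0 ∧ 0 ≤ Ea ∧ Dz < Dz')) (N2 : ¬ (Dz' ≤ 0 ∧ 0 ≤ Dz ∧ Ea ≤ 0 ∧ 0 ≤ Eb ∧ Dz' < Dz)) : 0 < Dz' ↔ Ea < 0 := by
  have hy : 0 < y' - y := by linarith
  have hba : 0 < b2 - a2 := by linarith
  constructor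
  · intro h
    by_contra h'
    push Not at h'
    have k0 : (y' - a2) * Dz + (a2 - y) * Dz' ≤ 0 := by linarith [mul_nonneg hba.le h']
    have k1 : 0 < (a2 - y) * Dz' := mul_pos (by linarith) h
    have Q' : 0 < y' - a2 := by
      rcases Q.eq_or_lt with q | q
      · exfalso
        have q0 : y' - a2 = 0 := by linarith
        rw [q0, zero_mul] at k0; linarith
      · linarith
    have d1 : Dz < 0 := by
      by_contra hc
      push Not at hc
      linarith [mul_nonneg Q'.le hc]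
    have e1 : Eb < 0 := by
      have : (y' - a2) * Eb + (b2 - y') * Ea < 0 := by linarith [mul_pos hy h]
      exact pvwn_s1 Q' (by linarith) h' this
    exact N1 ⟨d1.le, h.le, e1.le, h', by linarith⟩
  · intro h
    by_contra h'
    push Not at h'
    have k0 : 0 < (y' - a2) * Dz + (a2 - y) * Dz' := by linarith [mul_pos hba (neg_pos.2 h)]
    have k1 : (a2 - y) * Dz' ≤ 0 := by linarith [mul_nonneg (by linarith : (0:ℝ) ≤ a2 - y) (neg_nonneg.2 h')]
    have Q' : 0 < y' - a2 := by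
      rcases Q.eq_or_lt with q | q
      · exfalso
        have q0 : y' - a2 = 0 := by linarith
        rw [q0, zero_mul] at k0; linarith
      · linarith
    have d1 : 0 < Dz := by
      by_contra hc
      push Not at hc
      linarith [mul_nonneg Q'.le (neg_nonneg.2 hc)]
    have e1 : 0 < Eb := by
      by_contra hc
      push Not at hc
      linarith [mul_nonneg Q'.le (neg_nonneg.2 hc), mul_nonneg hy.le (neg_nonneg.2 h'), mul_pos (by linarith : (0:ℝ) < b2 - y') (neg_pos.2 h)]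
    exact N2 ⟨h', d1.le, h.le, e1.le, by linarith⟩

/-- sign transport (ii): the heights of the edge lie inside the heights of the test segment -/
theorem pvwn_iff_ii {a2 b2 y y' Dz Dz' Ea Eb : ℝ} (hab : a2 < b2) (P1 : y < a2) (P2 : b2 ≤ y')
    (I1 : (y' - b2) * Dz + (b2 - y) * Dz' = -((b2 - a2) * Eb)) (I2 : (y' - a2) * Dz + (a2 - y) * Dz' = -((b2 - a2) * Ea)) (hΔ : Ea - Eb = Dz' - Dz)
    (N1 : ¬ (Dz ≤ 0 ∧ 0 ≤ Dz' ∧ Eb ≤ 0 ∧ 0 ≤ Ea ∧ Dz < Dz')) (N2 : ¬ (Dz' ≤ 0 ∧ 0 ≤ Dz ∧ Ea ≤ 0 ∧ 0 ≤ Eb ∧ Dz' < Dz)) : Ea < 0 ↔ Eb < 0 := by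
  have hba : 0 < b2 - a2 := by linarith
  constructor
  · intro h
    by_contra h'
    push Not at h'
    have d0 : Dz' < Dz := by linarith
    have d1 : 0 < Dz := by
      by_contra hc
      push Not at hc
      linarith [mul_nonneg (by linarith : (0:ℝ) ≤ y' - a2) (neg_nonneg.2 hc), mul_nonneg (by linarith : (0:ℝ) ≤ a2 - y) (by linarith : (0:ℝ) ≤ -Dz'), mul_pos hba (neg_pos.2 h)]
    have d2 : Dz' ≤ 0 := by
      by_contra hc
      push Not at hc
      linarith [mul_nonneg (by linarith : (0:ℝ) ≤ y' - b2) d1.le, mul_pos (by linarith : (0:ℝ) < b2 - y) hc, mul_nonneg hba.le h']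
    exact N2 ⟨d2, d1.le, h.le, h', d0⟩
  · intro h
    by_contra h'
    push Not at h'
    have d0 : Dz < Dz' := by linarith
    have d1 : Dz ≤ 0 := by
      by_contra hc
      push Not at hc
      linarith [mul_pos (by linarith : (0:ℝ) < y' - a2) hc, mul_pos (by linarith : (0:ℝ) < a2 - y) (by linarith : (0:ℝ) < Dz'), mul_nonneg hba.le h']
    have d2 : 0 < Dz' := by
      by_contra hc
      push Not at hc
      linarith [mul_nonneg (by linarith : (0:ℝ) ≤ y' - b2) (neg_nonneg.2 d1), mul_nonneg (by linarith : (0:ℝ) ≤ b2 - y) (neg_nonneg.2 hc), mul_pos hba (neg_pos.2 h)]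
    exact N1 ⟨d1, d2.le, h.le, h', d0⟩

/-- the core case: both segments go up -/
theorem pvwn_core {a1 a2 b1 b2 x y x' y' : ℝ} (hab : a2 < b2) (hyy : y < y')
    (hdis : ∀ s t : ℝ, 0 ≤ s → s ≤ 1 → 0 ≤ t → t ≤ 1 → a1 + s * (b1 - a1) = x + t * (x' - x) → a2 + s * (b2 - a2) = y + t * (y' - y) → False)
    {Dz Dz' Ea Eb : ℝ} (hDz : Dz = (b1 - a1) * (y - a2) - (b2 - a2) * (x - a1)) (hDz' : Dz' = (b1 - a1) * (y' - a2) - (b2 - a2) * (x' - a1))
    (hEa : Ea = (x' - x) * (a2 - y) - (y' - y) * (a1 - x)) (hEb : Eb = (x' - x) * (b2 - y) - (y' - y) * (b1 - x)) :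
    delChiR a2 b2 y Dz - delChiR a2 b2 y' Dz' = delChiR (-y) (-y') (-a2) Ea - delChiR (-y) (-y') (-b2) Eb := by
  obtain ⟨N1, N2⟩ := pvwn_cross hdis hDz hDz' hEa hEb
  have I1 : (y' - b2) * Dz + (b2 - y) * Dz' = -((b2 - a2) * Eb) := by rw [hDz, hDz', hEb]; ring
  have I2 : (y' - a2) * Dz + (a2 - y) * Dz' = -((b2 - a2) * Ea) := by rw [hDz, hDz', hEa]; ring
  have I3 : (b2 - y) * Ea + (y - a2) * Eb = -((y' - y) * Dz) := by rw [hDz, hEa, hEb]; ring
  have I4 : (b2 - y') * Ea + (y' - a2) * Eb = -((y' - y) * Dz') := by rw [hDz', hEa, hEb]; ring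
  have hΔ : Ea - Eb = Dz' - Dz := by rw [hDz, hDz', hEa, hEb]; ring
  rcases le_or_gt a2 y with P1 | P1 <;> rcases lt_or_ge y' b2 with P2 | P2
  · -- (i) `a2 ≤ y < y' < b2`
    rw [delw_chiR_up P1 (by linarith), delw_chiR_up (by linarith) P2, delw_chiR_low (by linarith) (by linarith), delw_chiR_high (by linarith) (by linarith)]
    have := pvwn_iff_i hyy P1 P2 I3 I4 hΔ N1 N2
    by_cases hD : 0 < Dz
    · rw [if_pos hD, if_pos (this.1 hD)]; rfl
    · rw [if_neg hD, if_neg (fun h => hD (this.2 h))]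
  · -- (iii) `a2 ≤ y`, `b2 ≤ y'`
    rw [delw_chiR_low (by linarith : a2 ≤ y') P2, delw_chiR_low (by linarith : -y ≤ -a2) (by linarith : -y' ≤ -a2)]
    rcases le_or_gt b2 y with Q | Q
    · rw [delw_chiR_low P1 Q, delw_chiR_low (by linarith) (by linarith)]
    · rw [delw_chiR_up P1 Q, delw_chiR_down (by linarith : -y' ≤ -b2) (by linarith : -b2 < -y)]
      have := pvwn_iff_iii hab hyy P1 P2 Q I1 I3 N1 N2
      by_cases hD : 0 < Dz
      · rw [if_pos hD, if_pos (this.1 hD)]; rfl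
      · rw [if_neg hD, if_neg (fun h => hD (this.2 h))]
  · -- (iv) `y < a2`, `y' < b2`
    rw [delw_chiR_high P1 (by linarith : y < b2), delw_chiR_high (by linarith : -b2 < -y) (by linarith : -b2 < -y')]
    rcases lt_or_ge y' a2 with Q | Q
    · rw [delw_chiR_high Q P2, delw_chiR_high (by linarith) (by linarith)]
    · rw [delw_chiR_up Q P2, delw_chiR_down (by linarith : -y' ≤ -a2) (by linarith : -a2 < -y)]
      have := pvwn_iff_iv hab hyy P1 P2 Q I2 I4 N1 N2
      by_cases hD : 0 < Dz'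
      · rw [if_pos hD, if_pos (this.1 hD)]; rfl
      · rw [if_neg hD, if_neg (fun h => hD (this.2 h))]
  · -- (ii) `y < a2 < b2 ≤ y'`
    rw [delw_chiR_high P1 (by linarith : y < b2), delw_chiR_low (by linarith : a2 ≤ y') P2,
      delw_chiR_down (by linarith : -y' ≤ -a2) (by linarith : -a2 < -y), delw_chiR_down (by linarith : -y' ≤ -b2) (by linarith : -b2 < -y)]
    have := pvwn_iff_ii hab P1 P2 I1 I2 hΔ N1 N2
    by_cases hD : Ea < 0
    · rw [if_pos hD, if_pos (this.1 hD)]; rfl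
    · rw [if_neg hD, if_neg (fun h => hD (this.2 h))]

theorem pvwn_chiR_flat (α y r : ℝ) : delChiR α α y r = 0 := by
  rcases le_or_gt α y with h | h
  · exact delw_chiR_low h h
  · exact delw_chiR_high h h

/-- the test segment is horizontal -/
theorem pvwn_flat {a1 a2 b1 b2 x y x' y' : ℝ} (hyy : y = y')
    (hdis : ∀ s t : ℝ, 0 ≤ s → s ≤ 1 → 0 ≤ t → t ≤ 1 → a1 + s * (b1 - a1) = x + t * (x' - x) → a2 + s * (b2 - a2) = y + t * (y' - y) → False)
    {Dz Dz' : ℝ} (hDz : Dz = (b1 - a1) * (y - a2) - (b2 - a2) * (x - a1)) (hDz' : Dz' = (b1 - a1) * (y' - a2) - (b2 - a2) * (x' - a1)) :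
    delChiR a2 b2 y Dz = delChiR a2 b2 y' Dz' := by
  subst hyy
  obtain ⟨N1, N2⟩ := pvwn_cross hdis hDz hDz' rfl rfl
  have hΔ : Dz' - Dz = -((b2 - a2) * (x' - x)) := by rw [hDz, hDz']; ring
  simp only [sub_self, zero_mul, sub_zero] at N1 N2
  rcases le_or_gt a2 y with ha | ha <;> rcases le_or_gt b2 y with hb | hb
  · rw [delw_chiR_low ha hb, delw_chiR_low ha hb]
  · rw [delw_chiR_up ha hb, delw_chiR_up ha hb]
    have : 0 < Dz ↔ 0 < Dz' := by
      constructor
      · intro h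
        by_contra h'
        push Not at h'
        have hx : 0 < x' - x := by
          by_contra hc
          push Not at hc
          linarith [mul_nonneg (by linarith : (0:ℝ) ≤ b2 - a2) (neg_nonneg.2 hc)]
        exact N2 ⟨h', h.le, by linarith [mul_nonneg hx.le (by linarith : (0:ℝ) ≤ y - a2)], mul_nonneg hx.le (by linarith), by linarith⟩
      · intro h
        by_contra h'
        push Not at h'
        have hx : x' - x < 0 := by
          by_contra hc
          push Not at hc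
          linarith [mul_nonneg (by linarith : (0:ℝ) ≤ b2 - a2) hc]
        exact N1 ⟨h', h.le, by linarith [mul_nonneg (neg_nonneg.2 hx.le) (by linarith : (0:ℝ) ≤ b2 - y)],
          by linarith [mul_nonneg (neg_nonneg.2 hx.le) (by linarith : (0:ℝ) ≤ y - a2)], by linarith⟩
    simp only [this]
  · rw [delw_chiR_down hb ha, delw_chiR_down hb ha]
    have : Dz < 0 ↔ Dz' < 0 := by
      constructor
      · intro h
        by_contra h'
        push Not at h'
        have hx : 0 < x' - x := by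
          by_contra hc
          push Not at hc
          linarith [mul_nonneg (by linarith : (0:ℝ) ≤ a2 - b2) (neg_nonneg.2 hc)]
        exact N1 ⟨h.le, h', by linarith [mul_nonneg hx.le (by linarith : (0:ℝ) ≤ y - b2)], mul_nonneg hx.le (by linarith), by linarith⟩
      · intro h
        by_contra h'
        push Not at h'
        have hx : x' - x < 0 := by
          by_contra hc
          push Not at hc
          linarith [mul_nonneg (by linarith : (0:ℝ) ≤ a2 - b2) hc]
        exact N2 ⟨h.le, h', by linarith [mul_nonneg (neg_nonneg.2 hx.le) (by linarith : (0:ℝ) ≤ a2 - y)],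
          by linarith [mul_nonneg (neg_nonneg.2 hx.le) (by linarith : (0:ℝ) ≤ y - b2)], by linarith⟩
    simp only [this]
  · rw [delw_chiR_high ha hb, delw_chiR_high ha hb]

/-- **the four point identity**, real form -/
theorem pvwn_four_real {a1 a2 b1 b2 x y x' y' : ℝ}
    (hdis : ∀ s t : ℝ, 0 ≤ s → s ≤ 1 → 0 ≤ t → t ≤ 1 → a1 + s * (b1 - a1) = x + t * (x' - x) → a2 + s * (b2 - a2) = y + t * (y' - y) → False) :
    delChiR a2 b2 y ((b1 - a1) * (y - a2) - (b2 - a2) * (x - a1)) - delChiR a2 b2 y' ((b1 - a1) * (y' - a2) - (b2 - a2) * (x' - a1)) =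
      delChiR (-y) (-y') (-a2) ((x' - x) * (a2 - y) - (y' - y) * (a1 - x)) - delChiR (-y) (-y') (-b2) ((x' - x) * (b2 - y) - (y' - y) * (b1 - x)) := by
  have dab : ∀ s t : ℝ, 0 ≤ s → s ≤ 1 → 0 ≤ t → t ≤ 1 → b1 + s * (a1 - b1) = x + t * (x' - x) → b2 + s * (a2 - b2) = y + t * (y' - y) → False :=
    fun s t s0 s1 t0 t1 e1 e2 => hdis (1 - s) t (by linarith) (by linarith) t0 t1 (by linarith) (by linarith)
  have dzz : ∀ s t : ℝ, 0 ≤ s → s ≤ 1 → 0 ≤ t → t ≤ 1 → a1 + s * (b1 - a1) = x' + t * (x - x') → a2 + s * (b2 - a2) = y' + t * (y - y') → False :=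
    fun s t s0 s1 t0 t1 e1 e2 => hdis s (1 - t) s0 s1 (by linarith) (by linarith) (by linarith) (by linarith)
  have dbb : ∀ s t : ℝ, 0 ≤ s → s ≤ 1 → 0 ≤ t → t ≤ 1 → b1 + s * (a1 - b1) = x' + t * (x - x') → b2 + s * (a2 - b2) = y' + t * (y - y') → False :=
    fun s t s0 s1 t0 t1 e1 e2 => hdis (1 - s) (1 - t) (by linarith) (by linarith) (by linarith) (by linarith) (by linarith) (by linarith)
  rcases lt_trichotomy y y' with hy | hy | hy
  · rcases lt_trichotomy a2 b2 with ha | ha | ha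
    · exact pvwn_core ha hy hdis rfl rfl rfl rfl
    · -- horizontal edge: the dual flat case
      subst ha
      rw [pvwn_chiR_flat, pvwn_chiR_flat, sub_self]
      have := pvwn_flat (a1 := -x) (a2 := -y) (b1 := -x') (b2 := -y') (x := -a1) (y := -a2) (x' := -b1) (y' := -a2) rfl
        (fun s t s0 s1 t0 t1 e1 e2 => hdis t s t0 t1 s0 s1 (by linarith) (by linarith))
        (Dz := (x' - x) * (a2 - y) - (y' - y) * (a1 - x)) (Dz' := (x' - x) * (a2 - y) - (y' - y) * (b1 - x)) (by ring) (by ring)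
      rw [this, sub_self]
    · have := pvwn_core ha hy dab (Dz := -((b1 - a1) * (y - a2) - (b2 - a2) * (x - a1))) (Dz' := -((b1 - a1) * (y' - a2) - (b2 - a2) * (x' - a1))) (by ring) (by ring) rfl rfl
      rw [delw_chiR_anti, delw_chiR_anti] at this
      linarith
  · rw [pvwn_flat hy hdis rfl rfl, sub_self, hy, pvwn_chiR_flat, pvwn_chiR_flat, sub_self]
  · rcases lt_trichotomy a2 b2 with ha | ha | ha
    · have := pvwn_core ha hy dzz rfl rfl (Ea := -((x' - x) * (a2 - y) - (y' - y) * (a1 - x))) (Eb := -((x' - x) * (b2 - y) - (y' - y) * (b1 - x))) (by ring) (by ring)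
      rw [delw_chiR_anti, delw_chiR_anti] at this
      linarith
    · subst ha
      rw [pvwn_chiR_flat, pvwn_chiR_flat, sub_self]
      have := pvwn_flat (a1 := -x) (a2 := -y) (b1 := -x') (b2 := -y') (x := -a1) (y := -a2) (x' := -b1) (y' := -a2) rfl
        (fun s t s0 s1 t0 t1 e1 e2 => hdis t s t0 t1 s0 s1 (by linarith) (by linarith))
        (Dz := (x' - x) * (a2 - y) - (y' - y) * (a1 - x)) (Dz' := (x' - x) * (a2 - y) - (y' - y) * (b1 - x)) (by ring) (by ring)
      rw [this, sub_self]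
    · have := pvwn_core ha hy dbb (Dz := -((b1 - a1) * (y' - a2) - (b2 - a2) * (x' - a1))) (Dz' := -((b1 - a1) * (y - a2) - (b2 - a2) * (x - a1)))
        (Ea := -((x' - x) * (b2 - y) - (y' - y) * (b1 - x))) (Eb := -((x' - x) * (a2 - y) - (y' - y) * (a1 - x))) (by ring) (by ring) (by ring) (by ring)
      rw [delw_chiR_anti, delw_chiR_anti, delw_chiR_anti, delw_chiR_anti] at this
      linarith

/-! ## 2. the four point identity in `ℂ`; arcs and loops -/

/-- signed crossing of the LEFTWARD horizontal ray issued from `p` by the directed segment `z → z'` (`+1`: downwards, on the left of `p`) -/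
noncomputable def pvwnT (p z z' : ℂ) : ℤ := delChi (-p) (-z) (-z')

/-- ray crossing number of the polygonal arc `x i, …, x j` seen from `z` -/
noncomputable def pvwnW (x : ℕ → ℂ) (i j : ℕ) (z : ℂ) : ℤ := ∑ k ∈ Finset.Ico i j, delChi z (x k) (x (k + 1))

/-- the winding number of the closed polygon `z 0, …, z N = z 0` round `p` (leftward ray) -/
noncomputable def pvwnTh (z : ℕ → ℂ) (N : ℕ) (p : ℂ) : ℤ := ∑ m ∈ Finset.range N, pvwnT p (z m) (z (m + 1))

theorem pvwn_eqns_cite : True := by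
  have := @pvwnT.eq_1; have := @pvwnW.eq_1; have := @pvwnTh.eq_1
  trivial

/-- **THE FOUR POINT IDENTITY** -/
theorem pvwn_four {a b z z' : ℂ} (h : Disjoint (segment ℝ a b) (segment ℝ z z')) : delChi z a b - delChi z' a b = pvwnT a z z' - pvwnT b z z' := by
  have hdis : ∀ s t : ℝ, 0 ≤ s → s ≤ 1 → 0 ≤ t → t ≤ 1 → a.re + s * (b.re - a.re) = z.re + t * (z'.re - z.re) → a.im + s * (b.im - a.im) = z.im + t * (z'.im - z.im) → False := by
    intro s t s0 s1 t0 t1 e1 e2
    have hw : (1 - s) • a + s • b ∈ segment ℝ a b := ⟨1 - s, s, by linarith, s0, by ring, rfl⟩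
    refine Set.disjoint_left.1 h hw ⟨1 - t, t, by linarith, t0, by ring, ?_⟩
    apply Complex.ext
    · simp only [Complex.add_re, Complex.real_smul, Complex.mul_re, Complex.ofReal_re, Complex.ofReal_im, zero_mul, sub_zero]
      linarith
    · simp only [Complex.add_im, Complex.real_smul, Complex.mul_im, Complex.ofReal_re, Complex.ofReal_im, zero_mul, add_zero]
      linarith
  have key := pvwn_four_real hdis
  unfold pvwnT delChi vorDet
  simp only [Complex.neg_re, Complex.neg_im]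
  rw [key]
  congr 2 <;> ring

theorem pvwn_T_anti (p z z' : ℂ) : pvwnT p z' z = - pvwnT p z z' := delw_chi_anti _ _ _

theorem pvwn_T_self (p z : ℂ) : pvwnT p z z = 0 := by
  have := pvwn_T_anti p z z
  omega

theorem pvwn_W_succ (x : ℕ → ℂ) {i j : ℕ} (h : i ≤ j) (z : ℂ) : pvwnW x i (j + 1) z = pvwnW x i j z + delChi z (x j) (x (j + 1)) := by
  unfold pvwnW
  rw [Finset.sum_Ico_succ_top h]

theorem pvwn_W_self (x : ℕ → ℂ) (i : ℕ) (z : ℂ) : pvwnW x i i z = 0 := by
  unfold pvwnW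
  rw [Finset.Ico_self, Finset.sum_empty]

theorem pvwn_W_add (x : ℕ → ℂ) {i j k : ℕ} (h1 : i ≤ j) (h2 : j ≤ k) (z : ℂ) : pvwnW x i k z = pvwnW x i j z + pvwnW x j k z := by
  unfold pvwnW
  rw [Finset.sum_Ico_consecutive _ h1 h2]

/-- an arc which misses the segment `[u, u']` -/
theorem pvwn_arc {x : ℕ → ℂ} {i j : ℕ} (hij : i ≤ j) {u u' : ℂ} (h : ∀ k, i ≤ k → k < j → Disjoint (segment ℝ (x k) (x (k + 1))) (segment ℝ u u')) :
    pvwnW x i j u - pvwnW x i j u' = pvwnT (x i) u u' - pvwnT (x j) u u' := by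
  induction j, hij using Nat.le_induction with
  | base => rw [pvwn_W_self, pvwn_W_self]; ring
  | succ j hj ih =>
    rw [pvwn_W_succ x hj, pvwn_W_succ x hj]
    have h1 := ih fun k hk hkj => h k hk (by omega)
    have h2 := pvwn_four (h j hj (by omega))
    linarith

/-- **THE ABSTRACT ORIENTATION THEOREM**.   `x 0, …, x n = x 0` a closed polygon cut at `o = x 0` and `f = x k`;   `z 0, …, z N = z 0` a loop which turns once round `o` and not round `f`;
the arc `o → f` meets the loop only along the stretch `[m1, m2)`, which the arc `f → o` misses.   Then the ray crossing number of the polygon goes UP by one along the stretch -/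
theorem pvwn_abs {x z : ℕ → ℂ} {n k N m1 m2 : ℕ} (hk : k ≤ n) (hx : x n = x 0) (hz : z N = z 0) (h12 : m1 ≤ m2) (h2N : m2 ≤ N)
    (hp : ∀ m, m < N → ¬ (m1 ≤ m ∧ m < m2) → ∀ i, i < k → Disjoint (segment ℝ (x i) (x (i + 1))) (segment ℝ (z m) (z (m + 1))))
    (hm : ∀ m, m1 ≤ m → m < m2 → ∀ i, k ≤ i → i < n → Disjoint (segment ℝ (x i) (x (i + 1))) (segment ℝ (z m) (z (m + 1))))
    (ho : pvwnTh z N (x 0) = 1) (hf : pvwnTh z N (x k) = 0) : pvwnW x 0 n (z m2) = pvwnW x 0 n (z m1) + 1 := by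
  set η : ℕ → ℤ := fun m => pvwnW x 0 k (z m) - pvwnW x 0 k (z (m + 1)) - (pvwnT (x 0) (z m) (z (m + 1)) - pvwnT (x k) (z m) (z (m + 1))) with hη
  have h1 : ∑ m ∈ Finset.range N, η m = -1 := by
    simp only [hη, Finset.sum_sub_distrib]
    have t1 : ∑ m ∈ Finset.range N, pvwnW x 0 k (z m) - ∑ m ∈ Finset.range N, pvwnW x 0 k (z (m + 1)) = 0 := by
      rw [← Finset.sum_sub_distrib, Finset.sum_range_sub', hz, sub_self]
    unfold pvwnTh at ho hf
    rw [t1, ho, hf]; rfl
  have h2 : ∑ m ∈ Finset.Ico m1 m2, η m = -1 := by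
    rw [← h1]
    refine Finset.sum_subset (fun m hm' => Finset.mem_range.2 (by have := (Finset.mem_Ico.1 hm').2; omega)) fun m hmN hmI => ?_
    have := pvwn_arc (Nat.zero_le k) (u := z m) (u' := z (m + 1)) fun i _ hi => hp m (Finset.mem_range.1 hmN) (fun hh => hmI (Finset.mem_Ico.2 hh)) i hi
    simp only [hη]
    omega
  have h3 : ∀ m ∈ Finset.Ico m1 m2, pvwnW x 0 n (z m) - pvwnW x 0 n (z (m + 1)) = η m := by
    intro m hm'
    obtain ⟨a1, a2⟩ := Finset.mem_Ico.1 hm'
    have := pvwn_arc hk (u := z m) (u' := z (m + 1)) fun i hi hin => hm m a1 a2 i hi hin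
    rw [hx] at this
    rw [pvwn_W_add x (Nat.zero_le k) hk, pvwn_W_add x (Nat.zero_le k) hk]
    simp only [hη]
    omega
  have h4 : ∑ m ∈ Finset.Ico m1 m2, (pvwnW x 0 n (z m) - pvwnW x 0 n (z (m + 1))) = pvwnW x 0 n (z m1) - pvwnW x 0 n (z m2) := by
    have := Finset.sum_Ico_sub (fun m => pvwnW x 0 n (z m)) h12
    rw [← neg_inj, ← Finset.sum_neg_distrib]
    simp only [neg_sub]
    exact this
  rw [Finset.sum_congr rfl h3, h2] at h4
  omega

/-- the abstract theorem in the form "two crossing functions" -/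
theorem pvwn_abs2 {z : ℕ → ℂ} {N m1 m2 : ℕ} (hz : z N = z 0) (h12 : m1 ≤ m2) (h2N : m2 ≤ N) (Wp Wm : ℂ → ℤ) (o f : ℂ)
    (hp : ∀ m, m < N → ¬ (m1 ≤ m ∧ m < m2) → Wp (z m) - Wp (z (m + 1)) = pvwnT o (z m) (z (m + 1)) - pvwnT f (z m) (z (m + 1)))
    (hm : ∀ m, m1 ≤ m → m < m2 → Wm (z m) - Wm (z (m + 1)) = pvwnT f (z m) (z (m + 1)) - pvwnT o (z m) (z (m + 1)))
    (ho : pvwnTh z N o = 1) (hf : pvwnTh z N f = 0) : Wp (z m2) + Wm (z m2) = Wp (z m1) + Wm (z m1) + 1 := by
  set η : ℕ → ℤ := fun m => Wp (z m) - Wp (z (m + 1)) - (pvwnT o (z m) (z (m + 1)) - pvwnT f (z m) (z (m + 1))) with hη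
  have h1 : ∑ m ∈ Finset.range N, η m = -1 := by
    simp only [hη, Finset.sum_sub_distrib]
    have t1 : ∑ m ∈ Finset.range N, Wp (z m) - ∑ m ∈ Finset.range N, Wp (z (m + 1)) = 0 := by
      rw [← Finset.sum_sub_distrib, Finset.sum_range_sub', hz, sub_self]
    unfold pvwnTh at ho hf
    rw [t1, ho, hf]; rfl
  have h2 : ∑ m ∈ Finset.Ico m1 m2, η m = -1 := by
    rw [← h1]
    refine Finset.sum_subset (fun m hm' => Finset.mem_range.2 (by have := (Finset.mem_Ico.1 hm').2; omega)) fun m hmN hmI => ?_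
    have := hp m (Finset.mem_range.1 hmN) (fun hh => hmI (Finset.mem_Ico.2 hh))
    simp only [hη]
    omega
  have h3 : ∀ m ∈ Finset.Ico m1 m2, (Wp (z m) + Wm (z m)) - (Wp (z (m + 1)) + Wm (z (m + 1))) = η m := by
    intro m hm'
    obtain ⟨a1, a2⟩ := Finset.mem_Ico.1 hm'
    have := hm m a1 a2
    simp only [hη]
    omega
  have h4 : ∑ m ∈ Finset.Ico m1 m2, ((Wp (z m) + Wm (z m)) - (Wp (z (m + 1)) + Wm (z (m + 1)))) = (Wp (z m1) + Wm (z m1)) - (Wp (z m2) + Wm (z m2)) := by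
    have := Finset.sum_Ico_sub (fun m => Wp (z m) + Wm (z m)) h12
    rw [← neg_inj, ← Finset.sum_neg_distrib]
    simp only [neg_sub]
    exact this
  rw [Finset.sum_congr rfl h3, h2] at h4
  omega

/-! ### the winding number of the loop: free lemmas -/

/-- the winding number of the loop does not change along a segment which misses the loop -/
theorem pvwn_Th_move {z : ℕ → ℂ} {N : ℕ} (hz : z N = z 0) {p p' : ℂ} (h : ∀ m, m < N → Disjoint (segment ℝ p p') (segment ℝ (z m) (z (m + 1)))) : pvwnTh z N p = pvwnTh z N p' := by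
  have h1 : ∑ m ∈ Finset.range N, (pvwnT p (z m) (z (m + 1)) - pvwnT p' (z m) (z (m + 1))) = ∑ m ∈ Finset.range N, (delChi (z m) p p' - delChi (z (m + 1)) p p') :=
    Finset.sum_congr rfl fun m hm => (pvwn_four (h m (Finset.mem_range.1 hm))).symm
  rw [Finset.sum_range_sub', hz, sub_self, Finset.sum_sub_distrib] at h1
  unfold pvwnTh
  omega

/-- the determinant of `pvwnT` -/
theorem pvwn_T_eq (p z z' : ℂ) : pvwnT p z z' = delChiR (-z.im) (-z'.im) (-p.im) ((z'.re - p.re) * (p.im - z.im) + (p.re - z.re) * (p.im - z'.im)) := by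
  unfold pvwnT delChi vorDet
  simp only [Complex.neg_re, Complex.neg_im]
  congr 1
  ring

theorem pvwn_T_north {p z z' : ℂ} (h : z.im < p.im) (h' : z'.im < p.im) : pvwnT p z z' = 0 := by
  rw [pvwn_T_eq]; exact delw_chiR_high (by linarith) (by linarith)

theorem pvwn_T_south {p z z' : ℂ} (h : p.im ≤ z.im) (h' : p.im ≤ z'.im) : pvwnT p z z' = 0 := by
  rw [pvwn_T_eq]; exact delw_chiR_low (by linarith) (by linarith)

theorem pvwn_T_west {p z z' : ℂ} (h : p.re < z.re) (h' : p.re < z'.re) : pvwnT p z z' = 0 := by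
  rcases lt_or_ge z.im p.im with a | a <;> rcases lt_or_ge z'.im p.im with b | b
  · exact pvwn_T_north a b
  · rw [pvwn_T_eq, delw_chiR_down (by linarith) (by linarith), if_neg]
    have := mul_pos (by linarith : (0:ℝ) < z'.re - p.re) (by linarith : (0:ℝ) < p.im - z.im)
    have := mul_nonneg (by linarith : (0:ℝ) ≤ z.re - p.re) (by linarith : (0:ℝ) ≤ z'.im - p.im)
    nlinarith
  · rw [pvwn_T_eq, delw_chiR_up (by linarith) (by linarith), if_neg]
    have := mul_nonneg (by linarith : (0:ℝ) ≤ z'.re - p.re) (by linarith : (0:ℝ) ≤ z.im - p.im)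
    have := mul_pos (by linarith : (0:ℝ) < z.re - p.re) (by linarith : (0:ℝ) < p.im - z'.im)
    nlinarith
  · exact pvwn_T_south a b

open Classical in
theorem pvwn_T_east {p z z' : ℂ} (h : z.re < p.re) (h' : z'.re < p.re) : pvwnT p z z' = (if p.im ≤ z.im then 1 else 0) - (if p.im ≤ z'.im then 1 else 0) := by
  rcases lt_or_ge z.im p.im with a | a <;> rcases lt_or_ge z'.im p.im with b | b
  · rw [pvwn_T_north a b, if_neg (by linarith), if_neg (by linarith)]; rfl
  · rw [pvwn_T_eq, delw_chiR_down (by linarith) (by linarith), if_pos, if_neg (by linarith), if_pos b]; rfl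
    have := mul_pos (by linarith : (0:ℝ) < p.re - z'.re) (by linarith : (0:ℝ) < p.im - z.im)
    have := mul_nonneg (by linarith : (0:ℝ) ≤ p.re - z.re) (by linarith : (0:ℝ) ≤ z'.im - p.im)
    nlinarith
  · rw [pvwn_T_eq, delw_chiR_up (by linarith) (by linarith), if_pos, if_pos a, if_neg (by linarith)]; rfl
    have := mul_nonneg (by linarith : (0:ℝ) ≤ p.re - z'.re) (by linarith : (0:ℝ) ≤ z.im - p.im)
    have := mul_pos (by linarith : (0:ℝ) < p.re - z.re) (by linarith : (0:ℝ) < p.im - z'.im)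
    nlinarith
  · rw [pvwn_T_south a b, if_pos a, if_pos b]; rfl

theorem pvwn_Th_north {z : ℕ → ℂ} {N : ℕ} {p : ℂ} (h : ∀ m, m ≤ N → (z m).im < p.im) : pvwnTh z N p = 0 :=
  Finset.sum_eq_zero fun m hm => pvwn_T_north (h m (by have := Finset.mem_range.1 hm; omega)) (h (m + 1) (by have := Finset.mem_range.1 hm; omega))

theorem pvwn_Th_south {z : ℕ → ℂ} {N : ℕ} {p : ℂ} (h : ∀ m, m ≤ N → p.im ≤ (z m).im) : pvwnTh z N p = 0 :=
  Finset.sum_eq_zero fun m hm => pvwn_T_south (h m (by have := Finset.mem_range.1 hm; omega)) (h (m + 1) (by have := Finset.mem_range.1 hm; omega))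

theorem pvwn_Th_west {z : ℕ → ℂ} {N : ℕ} {p : ℂ} (h : ∀ m, m ≤ N → p.re < (z m).re) : pvwnTh z N p = 0 :=
  Finset.sum_eq_zero fun m hm => pvwn_T_west (h m (by have := Finset.mem_range.1 hm; omega)) (h (m + 1) (by have := Finset.mem_range.1 hm; omega))

theorem pvwn_Th_east {z : ℕ → ℂ} {N : ℕ} (hz : z N = z 0) {p : ℂ} (h : ∀ m, m ≤ N → (z m).re < p.re) : pvwnTh z N p = 0 := by
  classical
  unfold pvwnTh
  rw [Finset.sum_congr rfl fun m hm => pvwn_T_east (h m (by have := Finset.mem_range.1 hm; omega)) (h (m + 1) (by have := Finset.mem_range.1 hm; omega)),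
    Finset.sum_range_sub' (fun m => if p.im ≤ (z m).im then (1:ℤ) else 0), hz, sub_self]

/-- **a point off a box which contains the loop** -/
theorem pvwn_Th_far {z : ℕ → ℂ} {N : ℕ} (hz : z N = z 0) {p : ℂ} {x0 x1 y0 y1 : ℝ} (hb : ∀ m, m ≤ N → x0 < (z m).re ∧ (z m).re < x1 ∧ y0 ≤ (z m).im ∧ (z m).im < y1)
    (hp : p.re ≤ x0 ∨ x1 ≤ p.re ∨ p.im ≤ y0 ∨ y1 ≤ p.im) : pvwnTh z N p = 0 := by
  rcases hp with h | h | h | h
  · exact pvwn_Th_west fun m hm => by have := hb m hm; linarith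
  · exact pvwn_Th_east hz fun m hm => by have := hb m hm; linarith
  · exact pvwn_Th_south fun m hm => by have := hb m hm; linarith
  · exact pvwn_Th_north fun m hm => by have := hb m hm; linarith

/-! ## 3. cycles of a geometric triangulation -/

variable {V D : Type} {T : PvMap V D} {pos : V → ℂ}

/-- the polygon of a cycle as a sequence -/
def pvwnX (pos : V → ℂ) (c : T.Cyc) (i : ℕ) : ℂ := pos (T.src (c.e i))

theorem pvwn_eqns_cite3 : True := by
  have := @pvwnX.eq_1
  trivial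

theorem pvwn_X_closed (pos : V → ℂ) (c : T.Cyc) : pvwnX pos c c.n = pvwnX pos c 0 := by
  unfold pvwnX
  have := c.per 0
  rw [Nat.zero_add] at this
  rw [this]

theorem pvwn_X_seg (pos : V → ℂ) (c : T.Cyc) (i : ℕ) : segment ℝ (pvwnX pos c i) (pvwnX pos c (i + 1)) = T.seg pos (c.e i) := by
  unfold pvwnX PvMap.seg
  rw [c.chain]

theorem pvwn_X_sub (pos : V → ℂ) (c : T.Cyc) (i : ℕ) : segment ℝ (pvwnX pos c i) (pvwnX pos c (i + 1)) ⊆ c.poly pos := by
  rw [pvwn_X_seg]
  exact fun z hz => ⟨i, hz⟩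

theorem pvwn_wn_eq (pos : V → ℂ) (c : T.Cyc) (z : ℂ) : delWn pos c z = pvwnW (pvwnX pos c) 0 c.n z := by
  unfold delWn pvwnW delwF pvwnX
  rw [Finset.range_eq_Ico]
  exact Finset.sum_congr rfl fun i _ => by rw [c.chain]

/-- the winding number is constant along a segment off the polygon -/
theorem pvwn_wn_const (c : T.Cyc) {u u' : ℂ} (h : Disjoint (c.poly pos) (segment ℝ u u')) : delWn pos c u = delWn pos c u' := by
  have := pvwn_arc (x := pvwnX pos c) (Nat.zero_le c.n) (u := u) (u' := u') fun k _ _ => h.mono_left (pvwn_X_sub pos c k)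
  rw [pvwn_X_closed, sub_self] at this
  rw [pvwn_wn_eq, pvwn_wn_eq]
  omega

/-- an open face misses the polygon -/
theorem pvwn_trio_poly (hT : T.IsSph) (G : PlGeo T pos) (c : T.Cyc) (d : D) : Disjoint (c.poly pos) (T.trio pos d) := by
  rw [Set.disjoint_left]
  rintro w ⟨i, hi⟩ hw
  obtain ⟨hR, h1, h2, -⟩ := pl_jordan hT c
  have hA := pl_left_face c
  have s1 : T.SF d (c.e i) := G.inc_int d _ w hw (plg_seg_sub_tri G _ hi)
  have s2 : T.SF d (T.opp (c.e i)) := G.inc_int d _ w hw (plg_seg_sub_tri G _ (by rw [plg_seg_opp]; exact hi))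
  have m1 : d ∈ c.Left := (hA.sf T s1).1 (h1 i)
  have m2 : T.opp (c.e i) ∈ c.Left := (hA.sf T s2).2 m1
  have m3 := h2 i
  rw [hR] at m3
  exact m3 m2

/-- the half open segment from a point of a closed triangle to an interior point -/
theorem pvwn_seg_open {a b c z g w : ℂ} (hz : z ∈ delT a b c) (hg : g ∈ delTo a b c) (hw : w ∈ segment ℝ z g) : w = z ∨ w ∈ delTo a b c := by
  obtain ⟨s, t, s0, t0, st, rfl⟩ := hw
  rcases t0.eq_or_lt with h0 | h0
  · left
    have : s = 1 := by linarith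
    rw [← h0, this]; simp
  · right
    refine ⟨?_, ?_, ?_⟩
    · rw [dela_det_affine _ _ _ _ _ _ st]; nlinarith [mul_nonneg s0 hz.1, mul_pos h0 hg.1]
    · rw [dela_det_affine _ _ _ _ _ _ st]; nlinarith [mul_nonneg s0 hz.2.1, mul_pos h0 hg.2.1]
    · rw [dela_det_affine _ _ _ _ _ _ st]; nlinarith [mul_nonneg s0 hz.2.2, mul_pos h0 hg.2.2]

/-- inside, off the polygon: winding number one -/
theorem pvwn_wn_in (hT : T.IsSph) (G : PlGeo T pos) (c : T.Cyc) (hfin : c.Left.Finite) {z : ℂ} (hz : z ∈ T.real pos c.Left) (hzp : z ∉ c.poly pos) : delWn pos c z = 1 := by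
  obtain ⟨d, hd, hzd⟩ := hz
  have hg : delBar (pos (T.src d)) (pos (T.tgt d)) (pos (T.apex d)) ∈ T.trio pos d := dela_bar_mem (G.orient d)
  have h1 : Disjoint (c.poly pos) (segment ℝ z (delBar (pos (T.src d)) (pos (T.tgt d)) (pos (T.apex d)))) := by
    rw [Set.disjoint_left]
    intro w hw1 hw2
    rcases pvwn_seg_open hzd hg hw2 with rfl | h
    · exact hzp hw1
    · exact Set.disjoint_left.1 (pvwn_trio_poly hT G c d) hw1 h
  rw [pvwn_wn_const c h1]
  exact delw_wn_in hT c hfin (fun d' _ => G.orient d') hd hg fun d' _ h' => G.inc_int d d' _ hg h'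

/-- outside: winding number zero -/
theorem pvwn_wn_out (hT : T.IsSph) (G : PlGeo T pos) (c : T.Cyc) (hfin : c.Left.Finite) {z : ℂ} (hz : z ∉ T.real pos c.Left) : delWn pos c z = 0 :=
  delw_wn_out hT c hfin (fun d' _ => G.orient d') fun d hd h => hz ⟨d, hd, h⟩

/-- the winding number of the reversed cycle -/
theorem pvwn_wn_rev (pos : V → ℂ) (c c' : T.Cyc) (hn : c'.n = c.n) (he : ∀ i, i < c.n → c'.e i = T.opp (c.e (c.n - 1 - i))) (z : ℂ) : delWn pos c' z = - delWn pos c z := by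
  unfold delWn
  rw [hn, ← Finset.sum_range_reflect, ← Finset.sum_neg_distrib]
  refine Finset.sum_congr rfl fun i hi => ?_
  have hi' := Finset.mem_range.1 hi
  rw [he _ (by omega), delw_F_opp]
  congr 3
  omega

/-- **the sides from a jump of the winding number**, bounded left side -/
theorem pvwn_jump_fin (hT : T.IsSph) (G : PlGeo T pos) (c : T.Cyc) (hfin : c.Left.Finite) {u u' : ℂ} (hu : u ∉ c.poly pos) (hu' : u' ∉ c.poly pos)
    (h : delWn pos c u' = delWn pos c u + 1) : u ∉ T.real pos c.Left ∧ u' ∉ T.real pos c.Right := by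
  have a1 : u ∉ T.real pos c.Left := by
    intro hl
    rw [pvwn_wn_in hT G c hfin hl hu] at h
    by_cases hl' : u' ∈ T.real pos c.Left
    · rw [pvwn_wn_in hT G c hfin hl' hu'] at h; omega
    · rw [pvwn_wn_out hT G c hfin hl'] at h; omega
  refine ⟨a1, fun hr => ?_⟩
  rw [pvwn_wn_out hT G c hfin a1] at h
  have hl' : u' ∈ T.real pos c.Left := by
    by_contra hl'
    rw [pvwn_wn_out hT G c hfin hl'] at h; omega
  exact hu' (by rw [← plg_cyc_inter hT G c]; exact ⟨hl', hr⟩)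

/-- **the sides from a jump of the winding number** -/
theorem pvwn_jump (hT : T.IsSph) (G : PlGeo T pos) (c : T.Cyc) (hfin : c.Left.Finite ∨ c.Right.Finite) {u u' : ℂ} (hu : u ∉ c.poly pos) (hu' : u' ∉ c.poly pos)
    (h : delWn pos c u' = delWn pos c u + 1) : u ∉ T.real pos c.Left ∧ u' ∉ T.real pos c.Right := by
  rcases hfin with hfin | hfin
  · exact pvwn_jump_fin hT G c hfin hu hu' h
  · obtain ⟨c', hn, he, -, hL, hR⟩ := pl_cyc_rev hT c
    have hp : c'.poly pos = c.poly pos := by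
      rw [← plg_cyc_inter hT G c', ← plg_cyc_inter hT G c, hL, hR, Set.inter_comm]
    have := pvwn_jump_fin hT G c' (hL ▸ hfin) (u := u') (u' := u) (hp ▸ hu') (hp ▸ hu) (by rw [pvwn_wn_rev pos c c' hn he, pvwn_wn_rev pos c c' hn he]; omega)
    rw [hL, hR] at this
    exact ⟨this.2, this.1⟩

/-- **M11, ANALYTIC FORM**.   `c` a cycle of a geometric triangulation with a bounded side, cut at the vertices number `0` (`o`) and `k` (`f`);   `z 0, …, z N = z 0` a loop which turns once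
(counterclockwise) round `o` and not round `f`;   the arc `o → f` meets the loop only along the stretch `[m1, m2)`, which the arc `f → o` misses.   Then `z m1` is on the RIGHT and `z m2` on the LEFT of `c` -/
theorem pvwn_side (hT : T.IsSph) (G : PlGeo T pos) (c : T.Cyc) (hfin : c.Left.Finite ∨ c.Right.Finite) {z : ℕ → ℂ} {k N m1 m2 : ℕ} (hk : k ≤ c.n) (hz : z N = z 0)
    (h12 : m1 ≤ m2) (h2N : m2 ≤ N)
    (hp : ∀ m, m < N → ¬ (m1 ≤ m ∧ m < m2) → ∀ i, i < k → Disjoint (T.seg pos (c.e i)) (segment ℝ (z m) (z (m + 1))))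
    (hm : ∀ m, m1 ≤ m → m < m2 → ∀ i, k ≤ i → i < c.n → Disjoint (T.seg pos (c.e i)) (segment ℝ (z m) (z (m + 1))))
    (ho : pvwnTh z N (pos (T.src (c.e 0))) = 1) (hf : pvwnTh z N (pos (T.src (c.e k))) = 0) (h1 : z m1 ∉ c.poly pos) (h2 : z m2 ∉ c.poly pos) :
    z m1 ∉ T.real pos c.Left ∧ z m2 ∉ T.real pos c.Right := by
  refine pvwn_jump hT G c hfin h1 h2 ?_
  rw [pvwn_wn_eq, pvwn_wn_eq]
  exact pvwn_abs hk (pvwn_X_closed pos c) hz h12 h2N (fun m a b i hi => by rw [pvwn_X_seg]; exact hp m a b i hi)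
    (fun m a b i hi hi' => by rw [pvwn_X_seg]; exact hm m a b i hi hi') ho hf

/-! ## 4. LOCAL FORM: finite face sets of a geometric triangulation -/

open Classical in
/-- the boundary darts of a finite set of darts: `A` on the left -/
noncomputable def pvwnBd (T : PvMap V D) (A : Set D) (hfin : A.Finite) : Finset D := hfin.toFinset.filter (fun d => T.opp d ∉ A)

/-- the ray crossing number of the boundary of a finite face set -/
noncomputable def pvwnB (T : PvMap V D) (pos : V → ℂ) (A : Set D) (hfin : A.Finite) (z : ℂ) : ℤ := ∑ d ∈ pvwnBd T A hfin, delwF T pos z d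

theorem pvwn_eqns_cite4 : True := by
  have := @pvwnBd.eq_1; have := @pvwnB.eq_1
  trivial

theorem pvwn_mem_bd {A : Set D} {hfin : A.Finite} {d : D} : d ∈ pvwnBd T A hfin ↔ d ∈ A ∧ T.opp d ∉ A := by
  classical
  simp only [pvwnBd, Finset.mem_filter, Set.Finite.mem_toFinset]

theorem pvwn_bd_Bd {A : Set D} {hfin : A.Finite} {d : D} (h : d ∈ pvwnBd T A hfin) : T.Bd A d := by
  obtain ⟨h1, h2⟩ := pvwn_mem_bd.1 h
  exact fun hh => h2 (hh.1 h1)

/-- **Green for a finite set of darts** -/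
theorem pvwn_green {G : Type*} [AddCommGroup G] {A : Set D} (hfin : A.Finite) (f : D → G) (hs : ∀ d, f (T.opp d) = - f d) :
    ∑ d ∈ hfin.toFinset, f d = ∑ d ∈ pvwnBd T A hfin, f d := by
  classical
  rw [← Finset.sum_filter_add_sum_filter_not hfin.toFinset (fun d => T.opp d ∈ A)]
  have h1 : ∑ d ∈ hfin.toFinset.filter (fun d => T.opp d ∈ A), f d = 0 := by
    refine Finset.sum_involution (fun d _ => T.opp d) (fun d _ => ?_) (fun d _ _ => T.opp_ne_self d) (fun d hd => ?_) (fun d _ => T.opp_opp d)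
    · rw [hs d]; exact add_neg_cancel _
    · rw [Finset.mem_filter, Set.Finite.mem_toFinset] at hd ⊢
      rw [T.opp_opp]
      exact ⟨hd.2, hd.1⟩
  rw [h1, zero_add]
  unfold pvwnBd
  congr 1

/-- **BALANCE**: the boundary of a finite face set is a cycle -/
theorem pvwn_balance {A : Set D} (hA : T.FaceSet A) (hfin : A.Finite) (g : V → ℤ) : ∑ d ∈ pvwnBd T A hfin, (g (T.src d) - g (T.tgt d)) = 0 := by
  rw [← pvwn_green hfin (fun d => g (T.src d) - g (T.tgt d)) (fun d => by rw [T.src_opp', T.tgt_opp]; ring), Finset.sum_sub_distrib]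
  have := delw_sum_nxt hA hfin (fun d => g (T.src d))
  simp only [T.src_nxt] at this
  rw [this, sub_self]

theorem pvwn_B_three {A : Set D} (hA : T.FaceSet A) (hfin : A.Finite) (pos : V → ℂ) (z : ℂ) : 3 * pvwnB T pos A hfin z = ∑ d ∈ hfin.toFinset, delwTau T pos z d := by
  have h0 := pvwn_green hfin (delwF T pos z) (delw_F_opp pos z)
  have h1 := delw_sum_nxt hA hfin (delwF T pos z)
  have h2 := delw_sum_nxt hA hfin (fun d => delwF T pos z (T.nxt d))
  unfold pvwnB delwTau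
  rw [Finset.sum_add_distrib, Finset.sum_add_distrib, h2, h1, h0]
  ring

theorem pvwn_B_out (G : PlGeo T pos) {A : Set D} (hA : T.FaceSet A) (hfin : A.Finite) {z : ℂ} (hz : z ∉ T.real pos A) : pvwnB T pos A hfin z = 0 := by
  have h := pvwn_B_three hA hfin pos z
  have h2 : ∑ d ∈ hfin.toFinset, delwTau T pos z d = 0 := Finset.sum_eq_zero fun d hd => by
    rw [delw_tau_eq]
    by_contra h0
    exact hz ⟨d, hfin.mem_toFinset.1 hd, ((delw_tri (G.orient d) z).2 h0).1⟩
  omega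

theorem pvwn_B_open (G : PlGeo T pos) {A : Set D} (hA : T.FaceSet A) (hfin : A.Finite) {z : ℂ} {d₀ : D} (hd₀ : d₀ ∈ A) (hz₀ : z ∈ T.trio pos d₀) : pvwnB T pos A hfin z = 1 := by
  classical
  have h := pvwn_B_three hA hfin pos z
  have hsub : ({d₀, T.nxt d₀, T.nxt (T.nxt d₀)} : Finset D) ⊆ hfin.toFinset := by
    intro d hd
    rw [Set.Finite.mem_toFinset]
    simp only [Finset.mem_insert, Finset.mem_singleton] at hd
    rcases hd with rfl | rfl | rfl
    · exact hd₀
    · exact (hA _).2 hd₀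
    · exact (hA.nxt2 T _).2 hd₀
  have h2 : ∑ d ∈ hfin.toFinset, delwTau T pos z d = ∑ d ∈ ({d₀, T.nxt d₀, T.nxt (T.nxt d₀)} : Finset D), delwTau T pos z d := by
    refine (Finset.sum_subset hsub fun d hd hd' => ?_).symm
    by_contra h0
    rw [delw_tau_eq] at h0
    have := G.inc_int d₀ d z hz₀ ((delw_tri (G.orient d) z).2 h0).1
    apply hd'
    simp only [Finset.mem_insert, Finset.mem_singleton]
    exact this
  have t0 : delwTau T pos z d₀ = 1 := by
    rw [delw_tau_eq]; exact (delw_tri (G.orient d₀) z).1 hz₀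
  have t1 : delwTau T pos z (T.nxt d₀) = 1 := by
    rw [← t0]; unfold delwTau; rw [T.nxt3]; ring
  have t2 : delwTau T pos z (T.nxt (T.nxt d₀)) = 1 := by
    rw [← t0]; unfold delwTau; rw [T.nxt3]; ring
  have n1 : d₀ ≠ T.nxt d₀ := fun e => T.src_ne d₀ (by rw [← e])
  have n2 : d₀ ≠ T.nxt (T.nxt d₀) := fun e => T.apex_ne_src d₀ (by unfold PvMap.apex; rw [← e])
  have n3 : T.nxt d₀ ≠ T.nxt (T.nxt d₀) := fun e => n1 (T.nxt_injective e)
  rw [h2, Finset.sum_insert (by simp [n1, n2]), Finset.sum_insert (by simp [n3]), Finset.sum_singleton, t0, t1, t2] at h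
  omega

/-- the crossing number of a set of boundary darts which miss a segment -/
theorem pvwn_F_diff (pos : V → ℂ) (F : Finset D) {u u' : ℂ} (h : ∀ d ∈ F, Disjoint (T.seg pos d) (segment ℝ u u')) :
    ∑ d ∈ F, delwF T pos u d - ∑ d ∈ F, delwF T pos u' d = ∑ d ∈ F, (pvwnT (pos (T.src d)) u u' - pvwnT (pos (T.tgt d)) u u') := by
  rw [← Finset.sum_sub_distrib]
  exact Finset.sum_congr rfl fun d hd => pvwn_four (h d hd)

/-- the crossing number of the boundary is constant along a segment off the boundary edges -/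
theorem pvwn_B_const {A : Set D} (hA : T.FaceSet A) (hfin : A.Finite) {u u' : ℂ} (h : Disjoint (T.bdReal pos A) (segment ℝ u u')) : pvwnB T pos A hfin u = pvwnB T pos A hfin u' := by
  have h0 : ∀ d ∈ pvwnBd T A hfin, T.seg pos d ⊆ T.bdReal pos A := fun d hd w hw => ⟨d, pvwn_bd_Bd hd, hw⟩
  have h1 := pvwn_F_diff pos (pvwnBd T A hfin) (u := u) (u' := u') fun d hd => h.mono_left (h0 d hd)
  rw [pvwn_balance hA hfin (fun v => pvwnT (pos v) u u')] at h1
  unfold pvwnB
  omega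

/-- an open face misses the boundary edges -/
theorem pvwn_trio_bd (G : PlGeo T pos) {A : Set D} (hA : T.FaceSet A) (d : D) : Disjoint (T.bdReal pos A) (T.trio pos d) := by
  rw [Set.disjoint_left]
  rintro w ⟨d', hb, hi⟩ hw
  have s1 : T.SF d d' := G.inc_int d _ w hw (plg_seg_sub_tri G _ hi)
  have s2 : T.SF d (T.opp d') := G.inc_int d _ w hw (plg_seg_sub_tri G _ (by rw [plg_seg_opp]; exact hi))
  exact hb ((hA.sf T s1).trans (hA.sf T s2).symm)

theorem pvwn_B_in (G : PlGeo T pos) {A : Set D} (hA : T.FaceSet A) (hfin : A.Finite) {z : ℂ} (hz : z ∈ T.real pos A) (hzp : z ∉ T.bdReal pos A) : pvwnB T pos A hfin z = 1 := by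
  obtain ⟨d, hd, hzd⟩ := hz
  have hg : delBar (pos (T.src d)) (pos (T.tgt d)) (pos (T.apex d)) ∈ T.trio pos d := dela_bar_mem (G.orient d)
  have h1 : Disjoint (T.bdReal pos A) (segment ℝ z (delBar (pos (T.src d)) (pos (T.tgt d)) (pos (T.apex d)))) := by
    rw [Set.disjoint_left]
    intro w hw1 hw2
    rcases pvwn_seg_open hzd hg hw2 with rfl | h
    · exact hzp hw1
    · exact Set.disjoint_left.1 (pvwn_trio_bd G hA d) hw1 h
  rw [pvwn_B_const hA hfin h1]
  exact pvwn_B_open G hA hfin hd hg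

/-- **M11, LOCAL ANALYTIC FORM**.   `T` a geometric triangulation of the plane, `A` a FINITE face set (consumer: the plane twins of the faces on the left of a rim of a completion).
`e 0, …, e (n-1)` a chain of distinct boundary darts of `A` (`A` on their left) from `o = src (e 0)` to `f = src (e n)`;   the loop `z` turns once (counterclockwise) round `o` and not round `f`;
the chain meets the loop only along the stretch `[m1, m2)`;   ALL THE OTHER boundary darts of `A` miss the stretch `[m1, m2)`.      Then `z m1` is off `A` and `z m2` in `A` -/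
theorem pvwn_side_loc (G : PlGeo T pos) {A : Set D} (hA : T.FaceSet A) (hfin : A.Finite) {e : ℕ → D} {n : ℕ} (hch : ∀ i, i < n → T.tgt (e i) = T.src (e (i + 1)))
    (hbd : ∀ i, i < n → e i ∈ A ∧ T.opp (e i) ∉ A) (hinj : ∀ i, i < n → ∀ j, j < n → e i = e j → i = j)
    {z : ℕ → ℂ} {N m1 m2 : ℕ} (hz : z N = z 0) (h12 : m1 ≤ m2) (h2N : m2 ≤ N)
    (hp : ∀ m, m < N → ¬ (m1 ≤ m ∧ m < m2) → ∀ i, i < n → Disjoint (T.seg pos (e i)) (segment ℝ (z m) (z (m + 1))))
    (hm : ∀ m, m1 ≤ m → m < m2 → ∀ d, d ∈ A → T.opp d ∉ A → (∀ i, i < n → d ≠ e i) → Disjoint (T.seg pos d) (segment ℝ (z m) (z (m + 1))))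
    (ho : pvwnTh z N (pos (T.src (e 0))) = 1) (hf : pvwnTh z N (pos (T.src (e n))) = 0) (h1 : z m1 ∉ T.bdReal pos A) (h2 : z m2 ∉ T.bdReal pos A) :
    z m1 ∉ T.real pos A ∧ z m2 ∈ T.real pos A := by
  classical
  set Fp : Finset D := (Finset.range n).image e with hFp
  have hsub : Fp ⊆ pvwnBd T A hfin := by
    intro d hd
    obtain ⟨i, hi, rfl⟩ := Finset.mem_image.1 hd
    exact pvwn_mem_bd.2 (hbd i (Finset.mem_range.1 hi))
  have tel : ∀ u u' : ℂ, ∑ d ∈ Fp, (pvwnT (pos (T.src d)) u u' - pvwnT (pos (T.tgt d)) u u') = pvwnT (pos (T.src (e 0))) u u' - pvwnT (pos (T.src (e n))) u u' := by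
    intro u u'
    rw [hFp, Finset.sum_image (fun i hi j hj hij => hinj i (Finset.mem_range.1 hi) j (Finset.mem_range.1 hj) hij),
      Finset.sum_congr rfl (fun i hi => by rw [hch i (Finset.mem_range.1 hi)]), Finset.sum_range_sub' (fun i => pvwnT (pos (T.src (e i))) u u')]
  have split : ∀ u : ℂ, pvwnB T pos A hfin u = ∑ d ∈ Fp, delwF T pos u d + ∑ d ∈ pvwnBd T A hfin \ Fp, delwF T pos u d := by
    intro u
    unfold pvwnB
    rw [add_comm, Finset.sum_sdiff hsub]
  have key := pvwn_abs2 hz h12 h2N (fun u => ∑ d ∈ Fp, delwF T pos u d) (fun u => ∑ d ∈ pvwnBd T A hfin \ Fp, delwF T pos u d) (pos (T.src (e 0))) (pos (T.src (e n)))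
    (fun m hmN hmI => by
      have := pvwn_F_diff pos Fp (u := z m) (u' := z (m + 1)) fun d hd => by
        obtain ⟨i, hi, rfl⟩ := Finset.mem_image.1 hd
        exact hp m hmN hmI i (Finset.mem_range.1 hi)
      rw [tel] at this
      exact this)
    (fun m a1 a2 => by
      have := pvwn_F_diff pos (pvwnBd T A hfin \ Fp) (u := z m) (u' := z (m + 1)) fun d hd => by
        obtain ⟨hd1, hd2⟩ := Finset.mem_sdiff.1 hd
        obtain ⟨b1, b2⟩ := pvwn_mem_bd.1 hd1
        exact hm m a1 a2 d b1 b2 fun i hi hdi => hd2 (Finset.mem_image.2 ⟨i, Finset.mem_range.2 hi, hdi.symm⟩)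
      have bal := pvwn_balance hA hfin (fun v => pvwnT (pos v) (z m) (z (m + 1)))
      rw [← Finset.sum_sdiff hsub, tel] at bal
      omega)
    ho hf
  rw [← split, ← split] at key
  have a1 : z m1 ∉ T.real pos A := by
    intro hl
    rw [pvwn_B_in G hA hfin hl h1] at key
    by_cases hl' : z m2 ∈ T.real pos A
    · rw [pvwn_B_in G hA hfin hl' h2] at key; omega
    · rw [pvwn_B_out G hA hfin hl'] at key; omega
  refine ⟨a1, ?_⟩
  rw [pvwn_B_out G hA hfin a1] at key
  by_contra hl'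
  rw [pvwn_B_out G hA hfin hl'] at key; omega

/-- **MULTI-RUN FORM** (for the last-door induction `pvoz_laneR` of 15): the jumps of the crossing number of `bd A` along the loop, split into the part `Jp` of the known chain `o → f` and the part `Jm` of all the other boundary darts -/
theorem pvwn_loc_pack {A : Set D} (hA : T.FaceSet A) (hfin : A.Finite) (pos : V → ℂ) {e : ℕ → D} {n : ℕ} (hch : ∀ i, i < n → T.tgt (e i) = T.src (e (i + 1)))
    (hbd : ∀ i, i < n → e i ∈ A ∧ T.opp (e i) ∉ A) (hinj : ∀ i, i < n → ∀ j, j < n → e i = e j → i = j) {z : ℕ → ℂ} {N : ℕ} (hz : z N = z 0) :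
    ∃ Jp Jm : ℕ → ℤ, (∀ m, pvwnB T pos A hfin (z (m + 1)) - pvwnB T pos A hfin (z m) = Jp m + Jm m) ∧
      (∀ m, (∀ i, i < n → Disjoint (T.seg pos (e i)) (segment ℝ (z m) (z (m + 1)))) → Jp m = 0) ∧
      (∀ m, (∀ d, d ∈ A → T.opp d ∉ A → (∀ i, i < n → d ≠ e i) → Disjoint (T.seg pos d) (segment ℝ (z m) (z (m + 1)))) → Jm m = 0) ∧
      ∑ m ∈ Finset.range N, Jp m = pvwnTh z N (pos (T.src (e 0))) - pvwnTh z N (pos (T.src (e n))) := by
  classical
  set Fp : Finset D := (Finset.range n).image e with hFp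
  have hsub : Fp ⊆ pvwnBd T A hfin := by
    intro d hd
    obtain ⟨i, hi, rfl⟩ := Finset.mem_image.1 hd
    exact pvwn_mem_bd.2 (hbd i (Finset.mem_range.1 hi))
  have tel : ∀ u u' : ℂ, ∑ d ∈ Fp, (pvwnT (pos (T.src d)) u u' - pvwnT (pos (T.tgt d)) u u') = pvwnT (pos (T.src (e 0))) u u' - pvwnT (pos (T.src (e n))) u u' := by
    intro u u'
    rw [hFp, Finset.sum_image (fun i hi j hj hij => hinj i (Finset.mem_range.1 hi) j (Finset.mem_range.1 hj) hij),
      Finset.sum_congr rfl (fun i hi => by rw [hch i (Finset.mem_range.1 hi)]), Finset.sum_range_sub' (fun i => pvwnT (pos (T.src (e i))) u u')]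
  have split : ∀ u : ℂ, pvwnB T pos A hfin u = ∑ d ∈ Fp, delwF T pos u d + ∑ d ∈ pvwnBd T A hfin \ Fp, delwF T pos u d := by
    intro u
    unfold pvwnB
    rw [add_comm, Finset.sum_sdiff hsub]
  refine ⟨fun m => -(∑ d ∈ Fp, delwF T pos (z m) d - ∑ d ∈ Fp, delwF T pos (z (m + 1)) d
      - (pvwnT (pos (T.src (e 0))) (z m) (z (m + 1)) - pvwnT (pos (T.src (e n))) (z m) (z (m + 1)))),
    fun m => -(∑ d ∈ pvwnBd T A hfin \ Fp, delwF T pos (z m) d - ∑ d ∈ pvwnBd T A hfin \ Fp, delwF T pos (z (m + 1)) d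
      - (pvwnT (pos (T.src (e n))) (z m) (z (m + 1)) - pvwnT (pos (T.src (e 0))) (z m) (z (m + 1)))), fun m => ?_, fun m hm => ?_, fun m hm => ?_, ?_⟩
  · rw [split, split]; ring
  · have := pvwn_F_diff pos Fp (u := z m) (u' := z (m + 1)) fun d hd => by
      obtain ⟨i, hi, rfl⟩ := Finset.mem_image.1 hd
      exact hm i (Finset.mem_range.1 hi)
    rw [tel] at this
    show -(_ - _ - _) = (0:ℤ)
    omega
  · have := pvwn_F_diff pos (pvwnBd T A hfin \ Fp) (u := z m) (u' := z (m + 1)) fun d hd => by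
      obtain ⟨hd1, hd2⟩ := Finset.mem_sdiff.1 hd
      obtain ⟨b1, b2⟩ := pvwn_mem_bd.1 hd1
      exact hm d b1 b2 fun i hi hdi => hd2 (Finset.mem_image.2 ⟨i, Finset.mem_range.2 hi, hdi.symm⟩)
    have bal := pvwn_balance hA hfin (fun v => pvwnT (pos v) (z m) (z (m + 1)))
    rw [← Finset.sum_sdiff hsub, tel] at bal
    show -(_ - _ - _) = (0:ℤ)
    omega
  · have t1 := Finset.sum_range_sub' (fun m => ∑ d ∈ Fp, delwF T pos (z m) d) N
    rw [hz, sub_self] at t1
    rw [Finset.sum_neg_distrib, Finset.sum_sub_distrib, t1, Finset.sum_sub_distrib]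
    unfold pvwnTh
    ring

/-- the values of the crossing number off the boundary edges -/
theorem pvwn_B_val (G : PlGeo T pos) {A : Set D} (hA : T.FaceSet A) (hfin : A.Finite) {z : ℂ} (hz : z ∉ T.bdReal pos A) :
    (z ∈ T.real pos A ∧ pvwnB T pos A hfin z = 1) ∨ (z ∉ T.real pos A ∧ pvwnB T pos A hfin z = 0) := by
  by_cases h : z ∈ T.real pos A
  · exact Or.inl ⟨h, pvwn_B_in G hA hfin h hz⟩
  · exact Or.inr ⟨h, pvwn_B_out G hA hfin h⟩

end Claimed.Agent.R289
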