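import Claimed.Agent.R289.Tr.LaneP
import Claimed.Agent.R289.Tr.OrientW
import Claimed.Agent.R289.Tr.OrientD
import Claimed.Agent.R289.Tr.OrientT

/-!
# Row 289 (S0537, Cardy for Poisson-Voronoi), unit TR, ROAD P, M11 = P11' ORIENTATION, piece `Tr/OrientL` : THE LAST-DOOR INDUCTION      (helper15; prefix `pvoz_`)

Split of 205 (10:44Z) under ruling P5 of 273 (M11 = EXISTENCE of a right lane on the right of the rim):   202 = `[4PT]` + two-polygon theorem (`Tr/OrientW`), 206 = `Θ` of the contour loop (`Tr/OrientT`),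
164 = disjointness off the doors (`Tr/OrientD`), 291 = T-link + final statement (`Tr/Orient`), **15 = this file**.

THE ARGUMENT.   `w m` = outer cell of the `m`-th dart of the contour orbit of `K3`, `u m = W(centre of w m)` (ray count of the arc of the rim).   `u (m+1) - u m = Jp m + Jm m` (`Jp m = - η_m(G⁺)`, `Jm m = - η_m(G⁻)` of 202),
`Jp m = 0` unless BOTH cells `w m`, `w (m+1)` lie in the door `Dr⁺`, `Jm m = 0` unless both lie in `Dr⁻`, `∑ Jp = Θ(o) - Θ(f) = 1 > 0`.   Off the doors `u ≤ 1` (`u = ` indicator of the LEFT side, after normalisation).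
State of the induction = the last door seen.   Invariant: last door `Dr⁻` ⟹ `∑_{i<m} Jp i ≤ 0`;  last door `Dr⁺` ⟹ `∑_{i<m} Jp i ≤ u m - 1`,  as long as every stretch `Dr⁻ → Dr⁺` carries `u = 1`.   At the end of the period: `∑ Jp ≤ 0`, contradiction.

* §1 `pvoz_last_door` (sequences), `pvoz_last_door_side` (normalisation free: only the DIFFERENCES `u m - u m' = s m - s m'` off the doors are known: this is what the local T-link of 291 gives).
* §2 `pvoz_orbit`, `pvoz_orbit_side`: on a periodic orbit of `pvtrStep H`: a `PvtrLane H D₁ D₂`.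
* §3 `pvoz_laneR`, `pvoz_laneR_side`, `pvoz_laneR_cell`: on the types of `Tr/Menu`: `∃ ln, PvmnLaneR τ ln.1 ln.2 ∧ ∀ w ∈ pvlpR τ ln, s w ≤ 0`.
* §4 `pvoz_last_door_all`, `pvoz_sum_shift`, **`pvoz_orbit_any`** (= `pvor_last_door` of `Tr/Orient`: `u ∈ {0,1}` everywhere, no base point in a door, doors only disjoint).
* §5 **`pvoz_plane`** = THE PLANE HALF OF THE ASSEMBLY (split with 202): `pvwn_loc_pack`, `pvwn_B_val` (202) + `pvoq_one_N8`, `pvoq_zero_N8` (206) + `pvod_disj_fwd`, `pvod_pin`, `pvod_far_K3`, `PvodExit` (164) + `pvoz_laneR`  ⟹  a right lane whose cell centres are off `real A`.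
-/

set_option autoImplicit false
set_option linter.unusedSectionVars false
set_option linter.unusedVariables false
set_option linter.unusedSimpArgs false

namespace Claimed.Agent.R289

open Relation Claims.C0467 Claimed.Agent.R291

/-! ## §1 sequences -/

/-- **LAST DOOR INDUCTION** (abstract) -/
theorem pvoz_last_door (N : ℕ) (Dm Dp : ℕ → Prop) (u Jp Jm : ℕ → ℤ)
    (h0 : Dm 0) (hN : Dm N) (hdis : ∀ m, ¬ (Dm m ∧ Dp m))
    (hna : ∀ m, m < N → ¬ (Dm m ∧ Dp (m + 1)) ∧ ¬ (Dp m ∧ Dm (m + 1)))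
    (hu : ∀ m, m ≤ N → ¬ Dm m → ¬ Dp m → u m ≤ 1)
    (hJ : ∀ m, m < N → u (m + 1) - u m = Jp m + Jm m)
    (hJp : ∀ m, m < N → ¬ (Dp m ∧ Dp (m + 1)) → Jp m = 0)
    (hJm : ∀ m, m < N → ¬ (Dm m ∧ Dm (m + 1)) → Jm m = 0)
    (hsum : 0 < ∑ m ∈ Finset.range N, Jp m) :
    ∃ a b, a + 1 < b ∧ b ≤ N ∧ Dm a ∧ Dp b ∧ (∀ m, a < m → m < b → ¬ Dm m ∧ ¬ Dp m) ∧ ∀ m, a ≤ m → m ≤ b → u m ≤ 0 := by
  by_contra hno
  have hc : ∀ m, m < N → ¬ (Dp m ∧ Dp (m + 1)) → ¬ (Dm m ∧ Dm (m + 1)) → u (m + 1) = u m := by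
    intro m hm h1 h2
    have := hJ m hm
    rw [hJp m hm h1, hJm m hm h2] at this
    omega
  set A : ℕ → ℤ := fun n => ∑ m ∈ Finset.range n, Jp m with hA
  have hAs : ∀ n, A (n + 1) = A n + Jp n := fun n => Finset.sum_range_succ _ n
  have key : ∀ n, n ≤ N → ((∃ a, a ≤ n ∧ Dm a ∧ (∀ i, a < i → i ≤ n → ¬ Dm i ∧ ¬ Dp i) ∧ ∀ i, a ≤ i → i ≤ n → u i = u n) ∧ A n ≤ 0) ∨
      ((∃ a, a ≤ n ∧ Dp a ∧ ∀ i, a < i → i ≤ n → ¬ Dm i ∧ ¬ Dp i) ∧ A n ≤ u n - 1) := by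
    intro n
    induction n with
    | zero =>
      intro _
      left
      refine ⟨⟨0, le_rfl, h0, fun i h1 h2 => by omega, fun i h1 h2 => ?_⟩, by simp [hA]⟩
      have : i = 0 := by omega
      rw [this]
    | succ n ih =>
      intro hn
      have hn' : n < N := by omega
      rcases ih (by omega) with ⟨⟨a, ha, hDa, hoff, hconst⟩, hAn⟩ | ⟨⟨a, ha, hDa, hoff⟩, hAn⟩
      · -- last door seen: `Dm`
        have hnp : ¬ Dp n := by
          rcases Nat.lt_or_ge a n with h | h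
          · exact (hoff n h le_rfl).2
          · have : a = n := by omega
            rw [← this]; exact fun h' => hdis a ⟨hDa, h'⟩
        have hA1 : A (n + 1) = A n := by rw [hAs, hJp n hn' (fun h => hnp h.1), add_zero]
        by_cases hm : Dm (n + 1)
        · left
          refine ⟨⟨n + 1, le_rfl, hm, fun i h1 h2 => by omega, fun i h1 h2 => ?_⟩, by rw [hA1]; exact hAn⟩
          have : i = n + 1 := by omega
          rw [this]
        · have hu1 : u (n + 1) = u n := hc n hn' (fun h => hnp h.1) (fun h => hm h.2)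
          by_cases hp : Dp (n + 1)
          · right
            refine ⟨⟨n + 1, le_rfl, hp, fun i h1 h2 => by omega⟩, ?_⟩
            rw [hA1]
            by_contra hlt
            apply hno
            have hnm : ¬ Dm n := fun h => (hna n hn').1 ⟨h, hp⟩
            have han : a < n := by
              rcases Nat.lt_or_ge a n with h | h
              · exact h
              · have : a = n := by omega
                rw [this] at hDa; exact absurd hDa hnm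
            refine ⟨a, n + 1, by omega, hn, hDa, hp, fun m h1 h2 => hoff m h1 (by omega), fun m h1 h2 => ?_⟩
            have h3 : u m = u (n + 1) := by
              rcases Nat.lt_or_ge m (n + 1) with h | h
              · rw [hconst m h1 (by omega), hu1]
              · have : m = n + 1 := by omega
                rw [this]
            rw [h3]
            have := hu n (by omega) hnm hnp
            omega
          · left
            refine ⟨⟨a, by omega, hDa, fun i h1 h2 => ?_, fun i h1 h2 => ?_⟩, by rw [hA1]; exact hAn⟩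
            · rcases Nat.lt_or_ge i (n + 1) with h | h
              · exact hoff i h1 (by omega)
              · have : i = n + 1 := by omega
                rw [this]; exact ⟨hm, hp⟩
            · rcases Nat.lt_or_ge i (n + 1) with h | h
              · rw [hconst i h1 (by omega), hu1]
              · have : i = n + 1 := by omega
                rw [this]
      · -- last door seen: `Dp`
        have hnm : ¬ Dm n := by
          rcases Nat.lt_or_ge a n with h | h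
          · exact (hoff n h le_rfl).1
          · have : a = n := by omega
            rw [← this]; exact fun h' => hdis a ⟨h', hDa⟩
        by_cases hp : Dp (n + 1)
        · right
          refine ⟨⟨n + 1, le_rfl, hp, fun i h1 h2 => by omega⟩, ?_⟩
          by_cases hpn : Dp n
          · have h1 := hJ n hn'
            rw [hJm n hn' (fun h => hnm h.1), add_zero] at h1
            rw [hAs]; omega
          · rw [hAs, hJp n hn' (fun h => hpn h.1), add_zero, hc n hn' (fun h => hpn h.1) (fun h => hnm h.1)]; exact hAn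
        · have hA1 : A (n + 1) = A n := by rw [hAs, hJp n hn' (fun h => hp h.2), add_zero]
          have hu1 : u (n + 1) = u n := hc n hn' (fun h => hp h.2) (fun h => hnm h.1)
          by_cases hm : Dm (n + 1)
          · left
            refine ⟨⟨n + 1, le_rfl, hm, fun i h1 h2 => by omega, fun i h1 h2 => ?_⟩, ?_⟩
            · have : i = n + 1 := by omega
              rw [this]
            · rw [hA1]
              have := hu n (by omega) hnm (fun h => (hna n hn').2 ⟨h, hm⟩)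
              omega
          · right
            refine ⟨⟨a, by omega, hDa, fun i h1 h2 => ?_⟩, by rw [hA1, hu1]; exact hAn⟩
            rcases Nat.lt_or_ge i (n + 1) with h | h
            · exact hoff i h1 (by omega)
            · have : i = n + 1 := by omega
              rw [this]; exact ⟨hm, hp⟩
  rcases key N le_rfl with ⟨-, h⟩ | ⟨⟨a, ha, hDa, hoff⟩, -⟩
  · exact absurd hsum (not_lt.2 h)
  · rcases Nat.lt_or_ge a N with h | h
    · exact (hoff N h le_rfl).1 hN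
    · have : a = N := by omega
      rw [this] at hDa
      exact hdis N ⟨hN, hDa⟩

/-- **LAST DOOR INDUCTION, normalisation free**: off the doors only the DIFFERENCES of `u` are known, `u m - u m' = s m - s m'` with a side indicator `s ≤ 1`.   Then `s ≤ 0` on the interior of some stretch `Dm → Dp`. -/
theorem pvoz_last_door_side (N : ℕ) (Dm Dp : ℕ → Prop) (u Jp Jm s : ℕ → ℤ)
    (h0 : Dm 0) (hN : Dm N) (hdis : ∀ m, ¬ (Dm m ∧ Dp m))
    (hna : ∀ m, m < N → ¬ (Dm m ∧ Dp (m + 1)) ∧ ¬ (Dp m ∧ Dm (m + 1)))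
    (hs : ∀ m, m ≤ N → ¬ Dm m → ¬ Dp m → s m ≤ 1)
    (hus : ∀ m m', m ≤ N → m' ≤ N → ¬ Dm m → ¬ Dp m → ¬ Dm m' → ¬ Dp m' → u m - u m' = s m - s m')
    (hJ : ∀ m, m < N → u (m + 1) - u m = Jp m + Jm m)
    (hJp : ∀ m, m < N → ¬ (Dp m ∧ Dp (m + 1)) → Jp m = 0)
    (hJm : ∀ m, m < N → ¬ (Dm m ∧ Dm (m + 1)) → Jm m = 0)
    (hsum : 0 < ∑ m ∈ Finset.range N, Jp m) :
    ∃ a b, a + 1 < b ∧ b ≤ N ∧ Dm a ∧ Dp b ∧ (∀ m, a < m → m < b → ¬ Dm m ∧ ¬ Dp m) ∧ ∀ m, a < m → m < b → s m ≤ 0 := by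
  by_cases hex : ∃ m₀, m₀ ≤ N ∧ ¬ Dm m₀ ∧ ¬ Dp m₀
  · obtain ⟨m₀, h1, h2, h3⟩ := hex
    have hu' : ∀ m, m ≤ N → ¬ Dm m → ¬ Dp m → u m - (u m₀ - s m₀) = s m := by
      intro m hm h4 h5
      have := hus m m₀ hm h1 h4 h5 h2 h3
      omega
    obtain ⟨a, b, hab, hb, hDa, hDb, hoff, hle⟩ := pvoz_last_door N Dm Dp (fun m => u m - (u m₀ - s m₀)) Jp Jm h0 hN hdis hna
      (fun m hm h4 h5 => by rw [hu' m hm h4 h5]; exact hs m hm h4 h5)
      (fun m hm => by have := hJ m hm; omega) hJp hJm hsum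
    refine ⟨a, b, hab, hb, hDa, hDb, hoff, fun m h4 h5 => ?_⟩
    have h6 := hle m h4.le h5.le
    rwa [hu' m (by omega) (hoff m h4 h5).1 (hoff m h4 h5).2] at h6
  · exfalso
    obtain ⟨a, b, hab, hb, hDa, hDb, hoff, hle⟩ := pvoz_last_door N Dm Dp u Jp Jm h0 hN hdis hna
      (fun m hm h4 h5 => absurd ⟨m, hm, h4, h5⟩ hex) hJ hJp hJm hsum
    exact hex ⟨a + 1, by omega, hoff (a + 1) (by omega) hab⟩

/-! ## §2 orbits of `pvtrStep` -/

section orbit

variable {H D₁ D₂ : Set (ℤ × ℤ)} {e : (ℤ × ℤ) × (ℤ × ℤ)} {N : ℕ}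

/-- the doors are not adjacent along the orbit -/
theorem pvoz_orbit_na (he : e ∈ pvtrBd H) (hd : Disjoint D₁ D₂) (hna : ∀ x ∈ D₁, ∀ y ∈ D₂, ¬ triAdj x y) (m : ℕ) :
    ¬ (((pvtrStep H)^[m] e).2 ∈ D₁ ∧ ((pvtrStep H)^[m + 1] e).2 ∈ D₂) ∧ ¬ (((pvtrStep H)^[m] e).2 ∈ D₂ ∧ ((pvtrStep H)^[m + 1] e).2 ∈ D₁) := by
  have h := pvtr_step_snd_adj (pvtr_iter_mem he m)
  rw [← Function.iterate_succ_apply' (pvtrStep H) m e] at h
  constructor
  · rintro ⟨h1, h2⟩
    rcases h with h | h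
    · rw [h] at h2; exact Set.disjoint_left.1 hd h1 h2
    · exact hna _ h1 _ h2 h
  · rintro ⟨h1, h2⟩
    rcases h with h | h
    · rw [h] at h2; exact Set.disjoint_left.1 hd h2 h1
    · exact hna _ h2 _ h1 (hx_tri_symm _ _ h)

/-- a stretch of the orbit from `D₁` to `D₂` off the doors is a lane -/
theorem pvoz_orbit_lane (he : e ∈ pvtrBd H) {a b : ℕ} (hab : a ≤ b) (h1 : ((pvtrStep H)^[a] e).2 ∈ D₁) (h2 : ((pvtrStep H)^[b] e).2 ∈ D₂)
    (hoff : ∀ m, a < m → m < b → ((pvtrStep H)^[m] e).2 ∉ D₁ ∧ ((pvtrStep H)^[m] e).2 ∉ D₂) : PvtrLane H D₁ D₂ ((pvtrStep H)^[a] e) (b - a) := by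
  have hit : ∀ m, (pvtrStep H)^[m] ((pvtrStep H)^[a] e) = (pvtrStep H)^[a + m] e := fun m => by
    rw [← Function.iterate_add_apply, Nat.add_comm]
  refine ⟨pvtr_iter_mem he a, h1, ?_, fun m h3 h4 => ?_⟩
  · rw [hit, Nat.add_sub_cancel' hab]; exact h2
  · rw [hit]
    have := hoff (a + m) (by omega) (by omega)
    exact fun h => h.elim this.1 this.2

/-- **the last-door induction on a periodic orbit** -/
theorem pvoz_orbit (he : e ∈ pvtrBd H) (hper : (pvtrStep H)^[N] e = e) (h0 : e.2 ∈ D₁) (hd : Disjoint D₁ D₂) (hna : ∀ x ∈ D₁, ∀ y ∈ D₂, ¬ triAdj x y)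
    (u Jp Jm : ℕ → ℤ)
    (hu : ∀ m, m ≤ N → ((pvtrStep H)^[m] e).2 ∉ D₁ → ((pvtrStep H)^[m] e).2 ∉ D₂ → u m ≤ 1)
    (hJ : ∀ m, m < N → u (m + 1) - u m = Jp m + Jm m)
    (hJp : ∀ m, m < N → ¬ (((pvtrStep H)^[m] e).2 ∈ D₂ ∧ ((pvtrStep H)^[m + 1] e).2 ∈ D₂) → Jp m = 0)
    (hJm : ∀ m, m < N → ¬ (((pvtrStep H)^[m] e).2 ∈ D₁ ∧ ((pvtrStep H)^[m + 1] e).2 ∈ D₁) → Jm m = 0)
    (hsum : 0 < ∑ m ∈ Finset.range N, Jp m) :
    ∃ a l, 1 < l ∧ a + l ≤ N ∧ PvtrLane H D₁ D₂ ((pvtrStep H)^[a] e) l ∧ ∀ m, m ≤ l → u (a + m) ≤ 0 := by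
  obtain ⟨a, b, hab, hb, hDa, hDb, hoff, hle⟩ := pvoz_last_door N (fun m => ((pvtrStep H)^[m] e).2 ∈ D₁) (fun m => ((pvtrStep H)^[m] e).2 ∈ D₂) u Jp Jm
    h0 (by rw [hper]; exact h0) (fun m h => Set.disjoint_left.1 hd h.1 h.2) (fun m _ => pvoz_orbit_na he hd hna m) hu hJ hJp hJm hsum
  exact ⟨a, b - a, by omega, by omega, pvoz_orbit_lane he (by omega) hDa hDb hoff, fun m hm => hle (a + m) (by omega) (by omega)⟩

/-- **the last-door induction on a periodic orbit, normalisation free** -/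
theorem pvoz_orbit_side (he : e ∈ pvtrBd H) (hper : (pvtrStep H)^[N] e = e) (h0 : e.2 ∈ D₁) (hd : Disjoint D₁ D₂) (hna : ∀ x ∈ D₁, ∀ y ∈ D₂, ¬ triAdj x y)
    (u Jp Jm s : ℕ → ℤ)
    (hs : ∀ m, m ≤ N → ((pvtrStep H)^[m] e).2 ∉ D₁ → ((pvtrStep H)^[m] e).2 ∉ D₂ → s m ≤ 1)
    (hus : ∀ m m', m ≤ N → m' ≤ N → ((pvtrStep H)^[m] e).2 ∉ D₁ → ((pvtrStep H)^[m] e).2 ∉ D₂ → ((pvtrStep H)^[m'] e).2 ∉ D₁ → ((pvtrStep H)^[m'] e).2 ∉ D₂ →
      u m - u m' = s m - s m')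
    (hJ : ∀ m, m < N → u (m + 1) - u m = Jp m + Jm m)
    (hJp : ∀ m, m < N → ¬ (((pvtrStep H)^[m] e).2 ∈ D₂ ∧ ((pvtrStep H)^[m + 1] e).2 ∈ D₂) → Jp m = 0)
    (hJm : ∀ m, m < N → ¬ (((pvtrStep H)^[m] e).2 ∈ D₁ ∧ ((pvtrStep H)^[m + 1] e).2 ∈ D₁) → Jm m = 0)
    (hsum : 0 < ∑ m ∈ Finset.range N, Jp m) :
    ∃ a l, 1 < l ∧ a + l ≤ N ∧ PvtrLane H D₁ D₂ ((pvtrStep H)^[a] e) l ∧ ∀ m, 0 < m → m < l → s (a + m) ≤ 0 := by
  obtain ⟨a, b, hab, hb, hDa, hDb, hoff, hle⟩ := pvoz_last_door_side N (fun m => ((pvtrStep H)^[m] e).2 ∈ D₁) (fun m => ((pvtrStep H)^[m] e).2 ∈ D₂) u Jp Jm s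
    h0 (by rw [hper]; exact h0) (fun m h => Set.disjoint_left.1 hd h.1 h.2) (fun m _ => pvoz_orbit_na he hd hna m) hs hus hJ hJp hJm hsum
  exact ⟨a, b - a, by omega, by omega, pvoz_orbit_lane he (by omega) hDa hDb hoff, fun m h1 h2 => hle (a + m) (by omega) (by omega)⟩

end orbit

/-! ## §3 the types of `Tr/Menu` -/

section menu

variable {𝔑 : PvmnNum} {τ : PvmnType} {e : (ℤ × ℤ) × (ℤ × ℤ)} {N : ℕ}

/-- the cells of the arc of a stretch of the orbit -/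
theorem pvoz_arc_iter {H : Set (ℤ × ℤ)} {a l : ℕ} {w : ℤ × ℤ} (hw : w ∈ pvtrArc H ((pvtrStep H)^[a] e) l) : ∃ m, 0 < m ∧ m < l ∧ w = ((pvtrStep H)^[a + m] e).2 := by
  obtain ⟨m, h1, h2, rfl⟩ := hw
  exact ⟨m, h1, h2, by rw [← Function.iterate_add_apply, Nat.add_comm]⟩

/-- **M11, cell half (index form)**: a right lane of the type on which `u ≤ 0` -/
theorem pvoz_laneR (hτ : PvmnIsType 𝔑 τ) (he : e ∈ pvtrBd (pvmnK3 τ)) (hper : (pvtrStep (pvmnK3 τ))^[N] e = e) (h0 : e.2 ∈ pvmnDrm τ)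
    (u Jp Jm : ℕ → ℤ)
    (hu : ∀ m, m ≤ N → ((pvtrStep (pvmnK3 τ))^[m] e).2 ∉ pvmnDrm τ → ((pvtrStep (pvmnK3 τ))^[m] e).2 ∉ pvmnDrp τ → u m ≤ 1)
    (hJ : ∀ m, m < N → u (m + 1) - u m = Jp m + Jm m)
    (hJp : ∀ m, m < N → ¬ (((pvtrStep (pvmnK3 τ))^[m] e).2 ∈ pvmnDrp τ ∧ ((pvtrStep (pvmnK3 τ))^[m + 1] e).2 ∈ pvmnDrp τ) → Jp m = 0)
    (hJm : ∀ m, m < N → ¬ (((pvtrStep (pvmnK3 τ))^[m] e).2 ∈ pvmnDrm τ ∧ ((pvtrStep (pvmnK3 τ))^[m + 1] e).2 ∈ pvmnDrm τ) → Jm m = 0)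
    (hsum : 0 < ∑ m ∈ Finset.range N, Jp m) :
    ∃ (ln : ((ℤ × ℤ) × (ℤ × ℤ)) × ℕ) (a : ℕ), PvmnLaneR τ ln.1 ln.2 ∧ ln.1 = (pvtrStep (pvmnK3 τ))^[a] e ∧ 1 < ln.2 ∧ a + ln.2 ≤ N ∧ ∀ m, m ≤ ln.2 → u (a + m) ≤ 0 := by
  obtain ⟨a, l, h1, h2, h3, h4⟩ := pvoz_orbit he hper h0 (pvmn_doors_disj hτ) (pvmn_doors_nadj hτ) u Jp Jm hu hJ hJp hJm hsum
  exact ⟨((pvtrStep (pvmnK3 τ))^[a] e, l), a, h3, rfl, h1, h2, h4⟩

/-- **M11, cell half (index form, normalisation free)** -/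
theorem pvoz_laneR_side (hτ : PvmnIsType 𝔑 τ) (he : e ∈ pvtrBd (pvmnK3 τ)) (hper : (pvtrStep (pvmnK3 τ))^[N] e = e) (h0 : e.2 ∈ pvmnDrm τ)
    (u Jp Jm s : ℕ → ℤ)
    (hs : ∀ m, m ≤ N → ((pvtrStep (pvmnK3 τ))^[m] e).2 ∉ pvmnDrm τ → ((pvtrStep (pvmnK3 τ))^[m] e).2 ∉ pvmnDrp τ → s m ≤ 1)
    (hus : ∀ m m', m ≤ N → m' ≤ N → ((pvtrStep (pvmnK3 τ))^[m] e).2 ∉ pvmnDrm τ → ((pvtrStep (pvmnK3 τ))^[m] e).2 ∉ pvmnDrp τ →
      ((pvtrStep (pvmnK3 τ))^[m'] e).2 ∉ pvmnDrm τ → ((pvtrStep (pvmnK3 τ))^[m'] e).2 ∉ pvmnDrp τ → u m - u m' = s m - s m')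
    (hJ : ∀ m, m < N → u (m + 1) - u m = Jp m + Jm m)
    (hJp : ∀ m, m < N → ¬ (((pvtrStep (pvmnK3 τ))^[m] e).2 ∈ pvmnDrp τ ∧ ((pvtrStep (pvmnK3 τ))^[m + 1] e).2 ∈ pvmnDrp τ) → Jp m = 0)
    (hJm : ∀ m, m < N → ¬ (((pvtrStep (pvmnK3 τ))^[m] e).2 ∈ pvmnDrm τ ∧ ((pvtrStep (pvmnK3 τ))^[m + 1] e).2 ∈ pvmnDrm τ) → Jm m = 0)
    (hsum : 0 < ∑ m ∈ Finset.range N, Jp m) :
    ∃ (ln : ((ℤ × ℤ) × (ℤ × ℤ)) × ℕ) (a : ℕ), PvmnLaneR τ ln.1 ln.2 ∧ ln.1 = (pvtrStep (pvmnK3 τ))^[a] e ∧ 1 < ln.2 ∧ a + ln.2 ≤ N ∧ ∀ m, 0 < m → m < ln.2 → s (a + m) ≤ 0 := by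
  obtain ⟨a, l, h1, h2, h3, h4⟩ := pvoz_orbit_side he hper h0 (pvmn_doors_disj hτ) (pvmn_doors_nadj hτ) u Jp Jm s hs hus hJ hJp hJm hsum
  exact ⟨((pvtrStep (pvmnK3 τ))^[a] e, l), a, h3, rfl, h1, h2, h4⟩

/-- **M11, cell half (CELL form, normalisation free)**: `U` = ray count at the centre of a cell, `S` = indicator of the left side at a cell of the contour off the doors.
The lane `ln` is the argument of `Tr/LaneP` (`pvlpR τ ln` nonempty: `pvlp_A0`). -/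
theorem pvoz_laneR_cell (hτ : PvmnIsType 𝔑 τ) (he : e ∈ pvtrBd (pvmnK3 τ)) (hper : (pvtrStep (pvmnK3 τ))^[N] e = e) (h0 : e.2 ∈ pvmnDrm τ)
    (U S : ℤ × ℤ → ℤ) (Jp Jm : ℕ → ℤ)
    (hs : ∀ x ∈ pvtrBd (pvmnK3 τ), x.2 ∉ pvmnDrm τ → x.2 ∉ pvmnDrp τ → S x.2 ≤ 1)
    (hus : ∀ x ∈ pvtrBd (pvmnK3 τ), ∀ y ∈ pvtrBd (pvmnK3 τ), x.2 ∉ pvmnDrm τ → x.2 ∉ pvmnDrp τ → y.2 ∉ pvmnDrm τ → y.2 ∉ pvmnDrp τ → U x.2 - U y.2 = S x.2 - S y.2)
    (hJ : ∀ m, m < N → U ((pvtrStep (pvmnK3 τ))^[m + 1] e).2 - U ((pvtrStep (pvmnK3 τ))^[m] e).2 = Jp m + Jm m)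
    (hJp : ∀ m, m < N → ¬ (((pvtrStep (pvmnK3 τ))^[m] e).2 ∈ pvmnDrp τ ∧ ((pvtrStep (pvmnK3 τ))^[m + 1] e).2 ∈ pvmnDrp τ) → Jp m = 0)
    (hJm : ∀ m, m < N → ¬ (((pvtrStep (pvmnK3 τ))^[m] e).2 ∈ pvmnDrm τ ∧ ((pvtrStep (pvmnK3 τ))^[m + 1] e).2 ∈ pvmnDrm τ) → Jm m = 0)
    (hsum : 0 < ∑ m ∈ Finset.range N, Jp m) :
    ∃ ln : ((ℤ × ℤ) × (ℤ × ℤ)) × ℕ, PvmnLaneR τ ln.1 ln.2 ∧ ∀ w ∈ pvlpR τ ln, S w ≤ 0 := by
  obtain ⟨ln, a, h1, h2, h3, h4, h5⟩ := pvoz_laneR_side hτ he hper h0 (fun m => U ((pvtrStep (pvmnK3 τ))^[m] e).2) Jp Jm (fun m => S ((pvtrStep (pvmnK3 τ))^[m] e).2)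
    (fun m _ h6 h7 => hs _ (pvtr_iter_mem he m) h6 h7) (fun m m' _ _ h6 h7 h8 h9 => hus _ (pvtr_iter_mem he m) _ (pvtr_iter_mem he m') h6 h7 h8 h9) hJ hJp hJm hsum
  refine ⟨ln, h1, fun w hw => ?_⟩
  have hw' : w ∈ pvtrArc (pvmnK3 τ) ((pvtrStep (pvmnK3 τ))^[a] e) ln.2 := by rw [← h2]; exact hw
  obtain ⟨m, h6, h7, rfl⟩ := pvoz_arc_iter hw'
  exact h5 m h6 h7

end menu

/-! ## §4 the form of `Tr/Orient` (291): `u ∈ {0,1}` everywhere, no base point in a door, doors only disjoint -/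

/-- **LAST DOOR INDUCTION**, `u ≤ 1` at ALL indices (then the doors may be adjacent) -/
theorem pvoz_last_door_all (N : ℕ) (Dm Dp : ℕ → Prop) (u Jp Jm : ℕ → ℤ)
    (h0 : Dm 0) (hN : Dm N) (hdis : ∀ m, ¬ (Dm m ∧ Dp m)) (hu : ∀ m, m ≤ N → u m ≤ 1)
    (hJ : ∀ m, m < N → u (m + 1) - u m = Jp m + Jm m)
    (hJp : ∀ m, m < N → ¬ (Dp m ∧ Dp (m + 1)) → Jp m = 0)
    (hJm : ∀ m, m < N → ¬ (Dm m ∧ Dm (m + 1)) → Jm m = 0)
    (hsum : 0 < ∑ m ∈ Finset.range N, Jp m) :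
    ∃ a b, a < b ∧ b ≤ N ∧ Dm a ∧ Dp b ∧ (∀ m, a < m → m < b → ¬ Dm m ∧ ¬ Dp m) ∧ ∀ m, a ≤ m → m ≤ b → u m ≤ 0 := by
  by_contra hno
  have hc : ∀ m, m < N → ¬ (Dp m ∧ Dp (m + 1)) → ¬ (Dm m ∧ Dm (m + 1)) → u (m + 1) = u m := by
    intro m hm h1 h2
    have := hJ m hm
    rw [hJp m hm h1, hJm m hm h2] at this
    omega
  set A : ℕ → ℤ := fun n => ∑ m ∈ Finset.range n, Jp m with hA
  have hAs : ∀ n, A (n + 1) = A n + Jp n := fun n => Finset.sum_range_succ _ n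
  have key : ∀ n, n ≤ N → ((∃ a, a ≤ n ∧ Dm a ∧ (∀ i, a < i → i ≤ n → ¬ Dm i ∧ ¬ Dp i) ∧ ∀ i, a ≤ i → i ≤ n → u i = u n) ∧ A n ≤ 0) ∨
      ((∃ a, a ≤ n ∧ Dp a ∧ ∀ i, a < i → i ≤ n → ¬ Dm i ∧ ¬ Dp i) ∧ A n ≤ u n - 1) := by
    intro n
    induction n with
    | zero =>
      intro _
      left
      refine ⟨⟨0, le_rfl, h0, fun i h1 h2 => by omega, fun i h1 h2 => ?_⟩, by simp [hA]⟩
      have : i = 0 := by omega
      rw [this]
    | succ n ih =>
      intro hn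
      have hn' : n < N := by omega
      rcases ih (by omega) with ⟨⟨a, ha, hDa, hoff, hconst⟩, hAn⟩ | ⟨⟨a, ha, hDa, hoff⟩, hAn⟩
      · have hnp : ¬ Dp n := by
          rcases Nat.lt_or_ge a n with h | h
          · exact (hoff n h le_rfl).2
          · have : a = n := by omega
            rw [← this]; exact fun h' => hdis a ⟨hDa, h'⟩
        have hA1 : A (n + 1) = A n := by rw [hAs, hJp n hn' (fun h => hnp h.1), add_zero]
        by_cases hm : Dm (n + 1)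
        · left
          refine ⟨⟨n + 1, le_rfl, hm, fun i h1 h2 => by omega, fun i h1 h2 => ?_⟩, by rw [hA1]; exact hAn⟩
          have : i = n + 1 := by omega
          rw [this]
        · have hu1 : u (n + 1) = u n := hc n hn' (fun h => hnp h.1) (fun h => hm h.2)
          by_cases hp : Dp (n + 1)
          · right
            refine ⟨⟨n + 1, le_rfl, hp, fun i h1 h2 => by omega⟩, ?_⟩
            rw [hA1]
            by_contra hlt
            apply hno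
            refine ⟨a, n + 1, by omega, hn, hDa, hp, fun m h1 h2 => hoff m h1 (by omega), fun m h1 h2 => ?_⟩
            have h3 : u m = u (n + 1) := by
              rcases Nat.lt_or_ge m (n + 1) with h | h
              · rw [hconst m h1 (by omega), hu1]
              · have : m = n + 1 := by omega
                rw [this]
            rw [h3]
            have := hu (n + 1) hn
            omega
          · left
            refine ⟨⟨a, by omega, hDa, fun i h1 h2 => ?_, fun i h1 h2 => ?_⟩, by rw [hA1]; exact hAn⟩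
            · rcases Nat.lt_or_ge i (n + 1) with h | h
              · exact hoff i h1 (by omega)
              · have : i = n + 1 := by omega
                rw [this]; exact ⟨hm, hp⟩
            · rcases Nat.lt_or_ge i (n + 1) with h | h
              · rw [hconst i h1 (by omega), hu1]
              · have : i = n + 1 := by omega
                rw [this]
      · have hnm : ¬ Dm n := by
          rcases Nat.lt_or_ge a n with h | h
          · exact (hoff n h le_rfl).1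
          · have : a = n := by omega
            rw [← this]; exact fun h' => hdis a ⟨h', hDa⟩
        by_cases hp : Dp (n + 1)
        · right
          refine ⟨⟨n + 1, le_rfl, hp, fun i h1 h2 => by omega⟩, ?_⟩
          by_cases hpn : Dp n
          · have h1 := hJ n hn'
            rw [hJm n hn' (fun h => hnm h.1), add_zero] at h1
            rw [hAs]; omega
          · rw [hAs, hJp n hn' (fun h => hpn h.1), add_zero, hc n hn' (fun h => hpn h.1) (fun h => hnm h.1)]; exact hAn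
        · have hA1 : A (n + 1) = A n := by rw [hAs, hJp n hn' (fun h => hp h.2), add_zero]
          have hu1 : u (n + 1) = u n := hc n hn' (fun h => hp h.2) (fun h => hnm h.1)
          by_cases hm : Dm (n + 1)
          · left
            refine ⟨⟨n + 1, le_rfl, hm, fun i h1 h2 => by omega, fun i h1 h2 => ?_⟩, ?_⟩
            · have : i = n + 1 := by omega
              rw [this]
            · rw [hA1]
              have := hu n (by omega)
              omega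
          · right
            refine ⟨⟨a, by omega, hDa, fun i h1 h2 => ?_⟩, by rw [hA1, hu1]; exact hAn⟩
            rcases Nat.lt_or_ge i (n + 1) with h | h
            · exact hoff i h1 (by omega)
            · have : i = n + 1 := by omega
              rw [this]; exact ⟨hm, hp⟩
  rcases key N le_rfl with ⟨-, h⟩ | ⟨⟨a, ha, hDa, hoff⟩, -⟩
  · exact absurd hsum (not_lt.2 h)
  · rcases Nat.lt_or_ge a N with h | h
    · exact (hoff N h le_rfl).1 hN
    · have : a = N := by omega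
      rw [this] at hDa
      exact hdis N ⟨hN, hDa⟩

/-- the sum of a periodic sequence over a shifted period -/
theorem pvoz_sum_shift {n : ℕ} (f : ℕ → ℤ) (hf : ∀ m, f (m + n) = f m) (k : ℕ) : ∑ m ∈ Finset.range n, f (k + m) = ∑ m ∈ Finset.range n, f m := by
  induction k with
  | zero => simp
  | succ k ih =>
    rw [← ih]
    have h1 : ∑ m ∈ Finset.range (n + 1), f (k + m) = ∑ m ∈ Finset.range n, f (k + m) + f (k + n) := Finset.sum_range_succ _ n
    have h2 : ∑ m ∈ Finset.range (n + 1), f (k + m) = ∑ m ∈ Finset.range n, f (k + (m + 1)) + f (k + 0) := Finset.sum_range_succ' _ n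
    have h3 : ∀ m, f (k + 1 + m) = f (k + (m + 1)) := fun m => by congr 1; omega
    simp only [h3]
    rw [hf k] at h1
    have h4 : f (k + 0) = f k := rfl
    omega

/-- **LAST DOOR on a periodic orbit, the form of `Tr/Orient`** (= `pvor_last_door` of 291) -/
theorem pvoz_orbit_any {H D₁ D₂ : Set (ℤ × ℤ)} {e : (ℤ × ℤ) × (ℤ × ℤ)} (he : e ∈ pvtrBd H) {n : ℕ} (hper : (pvtrStep H)^[n] e = e) (hd : Disjoint D₁ D₂) (u a b : ℕ → ℤ)
    (hu : ∀ m, u m = 0 ∨ u m = 1) (hup : ∀ m, u (m + n) = u m)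
    (hj : ∀ m, u (m + 1) - u m = a m + b m) (ha : ∀ m, a m ≠ 0 → ((pvtrStep H)^[m] e).2 ∈ D₂ ∧ ((pvtrStep H)^[m + 1] e).2 ∈ D₂)
    (hb : ∀ m, b m ≠ 0 → ((pvtrStep H)^[m] e).2 ∈ D₁ ∧ ((pvtrStep H)^[m + 1] e).2 ∈ D₁) (hsum : ∑ m ∈ Finset.range n, a m = 1) :
    ∃ m₀ l, PvtrLane H D₁ D₂ ((pvtrStep H)^[m₀] e) l ∧ ∀ m, m ≤ l → u (m₀ + m) = 0 := by
  have hw : ∀ m, (pvtrStep H)^[m + n] e = (pvtrStep H)^[m] e := fun m => by rw [Function.iterate_add_apply, hper]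
  -- `a` is periodic
  have ha' : ∀ m, a m = 0 ∨ ((((pvtrStep H)^[m] e).2 ∈ D₂ ∧ ((pvtrStep H)^[m + 1] e).2 ∈ D₂) ∧ a m = u (m + 1) - u m) := by
    intro m
    by_cases h : a m = 0
    · exact Or.inl h
    · right
      refine ⟨ha m h, ?_⟩
      have hb0 : b m = 0 := by
        by_contra hb'
        exact Set.disjoint_left.1 hd (hb m hb').1 (ha m h).1
      have := hj m
      rw [hb0] at this
      omega
  have hap : ∀ m, a (m + n) = a m := by
    intro m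
    have e1 : (pvtrStep H)^[m + n + 1] e = (pvtrStep H)^[m + 1] e := by
      have : m + n + 1 = (m + 1) + n := by omega
      rw [this, hw]
    have u1 : u (m + n + 1) = u (m + 1) := by
      have : m + n + 1 = (m + 1) + n := by omega
      rw [this, hup]
    have full : ∀ k, (((pvtrStep H)^[k] e).2 ∈ D₂ ∧ ((pvtrStep H)^[k + 1] e).2 ∈ D₂) → a k = u (k + 1) - u k := by
      intro k hk
      have hb0 : b k = 0 := by
        by_contra hb'
        exact Set.disjoint_left.1 hd (hb k hb').1 hk.1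
      have := hj k
      rw [hb0] at this
      omega
    rcases ha' (m + n) with h | ⟨h1, h2⟩
    · rcases ha' m with h' | ⟨h1', h2'⟩
      · rw [h, h']
      · have := full (m + n) (by rw [hw, e1]; exact h1')
        rw [this, h2', u1, hup]
    · rw [hw, e1] at h1
      rw [h2, full m h1, u1, hup]
  -- a cell of `D₁` on the orbit
  have hsb : ∑ m ∈ Finset.range n, b m = -1 := by
    have h1 : ∑ m ∈ Finset.range n, (u (m + 1) - u m) = u n - u 0 := Finset.sum_range_sub u n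
    have h2 : ∑ m ∈ Finset.range n, (u (m + 1) - u m) = ∑ m ∈ Finset.range n, a m + ∑ m ∈ Finset.range n, b m := by
      rw [← Finset.sum_add_distrib]
      exact Finset.sum_congr rfl fun m _ => hj m
    have h3 := hup 0
    rw [Nat.zero_add] at h3
    omega
  obtain ⟨m₁, -, hm₁⟩ : ∃ m ∈ Finset.range n, b m ≠ 0 := by
    by_contra hcon
    push Not at hcon
    rw [Finset.sum_eq_zero hcon] at hsb
    omega
  have hit : ∀ m, (pvtrStep H)^[m₁ + m] e = (pvtrStep H)^[m] ((pvtrStep H)^[m₁] e) := fun m => by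
    rw [Nat.add_comm, Function.iterate_add_apply]
  obtain ⟨a₀, b₀, hab, hbn, hDa, hDb, hoff, hle⟩ := pvoz_last_door_all n (fun m => ((pvtrStep H)^[m₁ + m] e).2 ∈ D₁) (fun m => ((pvtrStep H)^[m₁ + m] e).2 ∈ D₂)
    (fun m => u (m₁ + m)) (fun m => a (m₁ + m)) (fun m => b (m₁ + m)) (hb m₁ hm₁).1 (by rw [hw]; exact (hb m₁ hm₁).1)
    (fun m h => Set.disjoint_left.1 hd h.1 h.2) (fun m _ => by rcases hu (m₁ + m) with h | h <;> omega) (fun m _ => hj (m₁ + m))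
    (fun m _ h => by by_contra h'; exact h (ha (m₁ + m) h')) (fun m _ h => by by_contra h'; exact h (hb (m₁ + m) h'))
    (by rw [pvoz_sum_shift a hap m₁, hsum]; norm_num)
  have hlane := pvoz_orbit_lane (D₁ := D₁) (D₂ := D₂) he (a := m₁ + a₀) (b := m₁ + b₀) (by omega) hDa hDb (fun m h1 h2 => by
    have := hoff (m - m₁) (by omega) (by omega)
    rwa [show m₁ + (m - m₁) = m by omega] at this)
  rw [show m₁ + b₀ - (m₁ + a₀) = b₀ - a₀ by omega] at hlane
  refine ⟨m₁ + a₀, b₀ - a₀, hlane, fun m hm => ?_⟩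
  · have h1 := hle (a₀ + m) (by omega) (by omega)
    have h2 : m₁ + (a₀ + m) = m₁ + a₀ + m := by omega
    rw [h2] at h1
    rcases hu (m₁ + a₀ + m) with h | h
    · exact h
    · omega

/-! ## §5 THE PLANE HALF OF THE ASSEMBLY OF M11 (split with 202, 11:21Z) -/

/-- `delChi` is invariant under translations -/
theorem pvoz_chi_tr (c x a b : ℂ) : delChi (x + c) (a + c) (b + c) = delChi x a b := by
  unfold delChi delChiR vorDet
  simp only [Complex.add_re, Complex.add_im, add_le_add_iff_right, add_lt_add_iff_right, add_sub_add_right_eq_sub]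

/-- the leftward crossing number is invariant under translations -/
theorem pvoz_T_tr (c p u u' : ℂ) : pvwnT (c + p) (c + u) (c + u') = pvwnT p u u' := by
  unfold pvwnT
  rw [← pvoz_chi_tr (-c) (-p) (-u) (-u')]
  congr 1 <;> ring

/-- translation of disjoint segments -/
theorem pvoz_seg_tr {c a b u u' : ℂ} (h : Disjoint (segment ℝ (a - c) (b - c)) (segment ℝ u u')) : Disjoint (segment ℝ a b) (segment ℝ (c + u) (c + u')) := by
  rw [Set.disjoint_left] at h ⊢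
  intro x hx hx'
  have e1 : x = c + (x - c) := by ring
  have e2 : a = c + (a - c) := by ring
  have e3 : b = c + (b - c) := by ring
  refine h (a := x - c) ?_ ?_
  · rw [e1, e2, e3] at hx
    have := (mem_segment_translate ℝ c).1 hx
    simpa using this
  · rw [e1] at hx'
    exact (mem_segment_translate ℝ c).1 hx'

section plane

variable {V D : Type} {T : PvMap V D} {pos : V → ℂ} {A : Set D} {P : PvbRim} {z : ℂ} {t : ℕ → ℕ} {δ μ hh a b ρ d0 e0 d1 e1 RB : ℝ} {𝔑 : PvmnNum} {τ : PvmnType} {fm fp n : ℕ} {ed : ℕ → D}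

/-- **M11, THE PLANE HALF**.   `T pos` a geometric triangulated plane, `A` a finite face set (consumer: the plane twins of the embedded darts of `c.Left`), `ed 0, …, ed (n-1)` = the chain of boundary darts of `A` which carries the rim
from the pin `P.v (t 5)` to the exit `P.v fp` of the window;   every OTHER boundary dart of `A` misses the placed loop edges which are not inside the door `Dr⁻`.
Then some right lane of the type has the centres of all its cells OFF `real A`. -/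
theorem pvoz_plane (G : PlGeo T pos) (hA : T.FaceSet A) (hfin : A.Finite)
    (I : PvmfIn P z t μ hh a b ρ d0 e0 d1 e1) (N : PvmfNum δ μ hh a b ρ d0 e0 d1 e1 RB) (R : PvmfRel 𝔑 δ μ hh b ρ e0 d1) (hτ : PvmnIsType 𝔑 τ) (h12 : 12 ≤ 𝔑.nBx)
    (F : PvmnFits τ δ (fun i => P.v i - z) (fun k => t k.1)) (E : PvodExit P z t ρ fm fp) (hn : t 5 + n = fp)
    (hch : ∀ i, i < n → T.tgt (ed i) = T.src (ed (i + 1))) (hbd : ∀ i, i < n → ed i ∈ A ∧ T.opp (ed i) ∉ A) (hinj : ∀ i, i < n → ∀ j, j < n → ed i = ed j → i = j)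
    (hpos : ∀ i, i ≤ n → pos (T.src (ed i)) = P.v (t 5 + i))
    (hoth : ∀ d, d ∈ A → T.opp d ∉ A → (∀ i, i < n → d ≠ ed i) → ∀ x ∈ pvtrBd (pvmnK3 τ), (x.2 ∉ pvmnDrm τ ∨ (pvtrStep (pvmnK3 τ) x).2 ∉ pvmnDrm τ) →
      Disjoint (T.seg pos d) (segment ℝ (z + pvtCtr δ x.2) (z + pvtCtr δ (pvtrStep (pvmnK3 τ) x).2))) :
    ∃ ln : ((ℤ × ℤ) × (ℤ × ℤ)) × ℕ, PvmnLaneR τ ln.1 ln.2 ∧ ∀ w ∈ pvlpR τ ln, z + pvtCtr δ w ∉ T.real pos A := by
  have C := I.cuts N
  have hδ := N.δ_pos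
  have t05 : t 0 ≤ t 5 := C.le (by omega) (by omega)
  have t510 : t 5 ≤ t 10 := C.le (by omega) le_rfl
  obtain ⟨e₀, he, h0⟩ := hτ.doorm
  set K := pvmnK3 τ with hK
  have L : PvoqLoop K e₀ (Function.minimalPeriod (pvtrStep K) e₀) := pvoq_loop (pvmn_K3_finite τ) (pvmn_K3_conn hτ) (pvmn_K3_compl_conn τ) he
  set n₀ := Function.minimalPeriod (pvtrStep K) e₀ with hn₀
  set Z : ℕ → ℂ := fun m => z + pvtCtr δ ((pvtrStep K)^[m] e₀).2 with hZ
  have hZper : Z n₀ = Z 0 := by simp only [hZ]; rw [L.per]; rfl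
  have hstep : ∀ m, (pvtrStep K)^[m + 1] e₀ = pvtrStep K ((pvtrStep K)^[m] e₀) := fun m => Function.iterate_succ_apply' _ _ _
  -- the chain edges
  have hseg : ∀ i, i < n → T.seg pos (ed i) = segment ℝ (P.v (t 5 + i)) (P.v (t 5 + i + 1)) := by
    intro i hi
    unfold PvMap.seg
    rw [hch i hi, hpos i hi.le, hpos (i + 1) hi]
    rfl
  have hchain : ∀ m, (((pvtrStep K)^[m] e₀).2 ∉ pvmnDrp τ ∨ ((pvtrStep K)^[m + 1] e₀).2 ∉ pvmnDrp τ) → ∀ i, i < n → Disjoint (T.seg pos (ed i)) (segment ℝ (Z m) (Z (m + 1))) := by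
    intro m hD i hi
    rw [hseg i hi]
    exact pvoz_seg_tr (pvod_disj_fwd I N F (by have := E.fp_le; omega) (E.mesh I N (by have := E.fm_le; omega) (by omega)) (by omega) he m hD)
  have hother : ∀ m, (((pvtrStep K)^[m] e₀).2 ∉ pvmnDrm τ ∨ ((pvtrStep K)^[m + 1] e₀).2 ∉ pvmnDrm τ) → ∀ d, d ∈ A → T.opp d ∉ A → (∀ i, i < n → d ≠ ed i) →
      Disjoint (T.seg pos d) (segment ℝ (Z m) (Z (m + 1))) := by
    intro m hD d h1 h2 h3
    have := hoth d h1 h2 h3 _ (pvtr_iter_mem he m) (by rw [← hstep]; exact hD)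
    rw [← hstep] at this
    exact this
  -- off the doors the loop vertices are off the boundary of `A`
  have hoffbd : ∀ m, ((pvtrStep K)^[m] e₀).2 ∉ pvmnDrm τ → ((pvtrStep K)^[m] e₀).2 ∉ pvmnDrp τ → Z m ∉ T.bdReal pos A := by
    rintro m hm hp ⟨d, hd, hzd⟩
    have key : ∀ d', d' ∈ A → T.opp d' ∉ A → Z m ∈ T.seg pos d' → False := by
      intro d' h1 h2 h3
      by_cases hc : ∃ i, i < n ∧ d' = ed i
      · obtain ⟨i, hi, rfl⟩ := hc
        exact Set.disjoint_left.1 (hchain m (Or.inl hp) i hi) h3 (left_mem_segment ℝ _ _)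
      · push Not at hc
        exact Set.disjoint_left.1 (hother m (Or.inl hm) d' h1 h2 hc) h3 (left_mem_segment ℝ _ _)
    by_cases hdA : d ∈ A
    · exact key d hdA (fun h => hd ⟨fun _ => h, fun _ => hdA⟩) hzd
    · have ho : T.opp d ∈ A := by
        by_contra ho
        exact hd ⟨fun h => absurd h hdA, fun h => absurd h ho⟩
      exact key (T.opp d) ho (by rw [T.opp_opp]; exact hdA) (by rw [plg_seg_opp]; exact hzd)
  obtain ⟨Jp, Jm, hJ, hJp, hJm, hsum⟩ := pvwn_loc_pack hA hfin pos hch hbd hinj hZper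
  -- `Θ`
  have hTh : ∀ p : ℂ, pvwnTh Z n₀ p = ∑ m ∈ Finset.range n₀, delChi (-(p - z)) (-(pvtCtr δ ((pvtrStep K)^[m] e₀).2)) (-(pvtCtr δ ((pvtrStep K)^[m + 1] e₀).2)) := by
    intro p
    unfold pvwnTh
    refine Finset.sum_congr rfl fun m _ => ?_
    have : p = z + (p - z) := by ring
    simp only [hZ]
    rw [this, pvoz_T_tr]
    simp only [add_sub_cancel_left]
    rfl
  have hone : pvwnTh Z n₀ (pos (T.src (ed 0))) = 1 := by
    rw [hTh, hpos 0 (Nat.zero_le _)]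
    obtain ⟨q1, q2⟩ := pvod_pin F t05 t510
    exact pvoq_one_N8 L hδ q1 ((by rw [← pvtw_N_one]; exact pvtw_N_mono (by omega) le_rfl : pvtN8 {τ.q 5} ⊆ pvtwN 4 {τ.q 5}).trans q2)
  have hzero : pvwnTh Z n₀ (pos (T.src (ed n))) = 0 := by
    rw [hTh, hpos n le_rfl, hn]
    obtain ⟨c, hc⟩ := pvt_sq_cover hδ (P.v fp - z)
    exact pvoq_zero_N8 L hδ hc (by rw [← pvtw_N_one]; exact pvod_far_K3 N R hτ h12 E.fp_far hc)
  obtain ⟨ln, a₀, l1, l2, l3, l4, l5⟩ := pvoz_laneR hτ he L.per h0 (fun m => pvwnB T pos A hfin (Z m)) Jp Jm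
    (fun m _ hm hp => by
      rcases pvwn_B_val G hA hfin (hoffbd m hm hp) with ⟨-, h⟩ | ⟨-, h⟩ <;> simp only [h] <;> norm_num)
    (fun m _ => hJ m)
    (fun m _ h => hJp m (hchain m (by by_contra hc; push Not at hc; exact h hc)))
    (fun m _ h => hJm m (hother m (by by_contra hc; push Not at hc; exact h hc)))
    (by rw [hsum, hone, hzero]; norm_num)
  refine ⟨ln, l1, fun w hw => ?_⟩
  have hw' : w ∈ pvtrArc K ((pvtrStep K)^[a₀] e₀) ln.2 := by rw [← l2]; exact hw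
  obtain ⟨m, m1, m2, rfl⟩ := pvoz_arc_iter hw'
  have hoff : ((pvtrStep K)^[a₀ + m] e₀).2 ∉ pvmnDrm τ ∪ pvmnDrp τ := by
    have l1' : PvtrLane K (pvmnDrm τ) (pvmnDrp τ) ln.1 ln.2 := l1
    have := l1'.off m m1 m2
    rwa [l2, ← Function.iterate_add_apply, Nat.add_comm] at this
  rcases pvwn_B_val G hA hfin (hoffbd (a₀ + m) (fun h => hoff (Or.inl h)) (fun h => hoff (Or.inr h))) with ⟨-, h⟩ | ⟨h, -⟩
  · have := l5 m m2.le
    simp only [h] at this
    omega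
  · exact h

end plane

end Claimed.Agent.R289
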