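-- KEEP
import Claimed.Agent.R289.Tr.GateN
import Claimed.Agent.R289.Tr.LanePB
import Claimed.Agent.R289.Tr.OrientL
import Claimed.Agent.R289.Tr.MenuFit
import Claimed.Agent.R289.Tr.OrientD
import Claimed.Agent.R289.Tr.Geo
import Claimed.Agent.R289.Pl.Geo
import Claimed.Agent.R289.Del.Wind
import Claimed.Agent.R289.Tr.OrientW
import Claimed.Agent.R289.Tr.OrientT
import Claimed.Agent.R289.Tr.RingIn
import Claimed.Agent.R289.Tr.ModP
import Claimed.Agent.R289.Cr.Inst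

/-!
# Row 289 (S0537, Cardy for Poisson-Voronoi), THE WALL, ROAD P, item P11' = M11, file Tr/Orient : THE ORIENTATION BRIDGE      (pen helper291; seconds 202 15 164 206 253; prefix `pvor_`, `Pvor`, `pvor`)

Ruling P5 of 273 (FIX A, pair form): M11 = EXISTENCE: **every fitting rim has a lane `PvmnLaneR τ ln.1 ln.2` all of whose sites lie in `Int c.Right`** (`pvor_exists`).
The gate half (`g.R ⊆ Int P.Right`) is PROVED by 260: `pvgz_pass_side`, `pvgz_pass_right`, `pvgz_pass_walk` (`Tr/GateN.lean` sec. 10).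

THE RIM LIVES IN A FINITE COMPLETION (extra vertices, geometric only in the patch): no closed plane polygon, no global winding number.      EVERYTHING IS LOCAL:
* `pvorX q q' a b` = SIGNED INTERSECTION NUMBER of the oriented segments `q → q'` and `a → b`, written with `delChi` only:
      `X = χ_q(a,b) - χ_q'(a,b) - (χ~_a(q,q') - χ~_b(q,q'))`,   `χ~_p(q,q') := delChi (-p) (-q) (-q')`.      `+1` iff `a → b` crosses `q → q'` from its right to its left.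
      [4PT] of 202: `X = 0` for DISJOINT segments (`pvor_4pt`; checked by machine on all 37744 disjoint pairs of a 4 x 4 grid, all degenerate positions included).
* sec. 1  T-LINK `pvor_link` (signed Stokes, `delw_stokes` of 253): a cochain `F` on the vertices of the window, cut down to the window, whose circulation is `1_{face d₀} - 1_{face d₁}`:
      `∑_i F(P.e i) = 1_{Left}(d₀) - 1_{Left}(d₁)`.
* sec. 2  plane calculus of `X`: antisymmetry, circulation round a triangle, sum along a polygon, sum round a closed polygon (`Θ` = winding number of the loop by leftward rays).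
* sec. 3  `PvorWin` = the geometry of a completion in a window;  producer `pvor_win_of_ok`.
* sec. 4  THE POTENTIAL PACKAGE `pvor_pot`: loop `z m`, faces `dd m ∋ z m`, `u m := 1_{Left}(dd m)`: `u (m+1) - u m = a m + b m`, `a` (`b`) = crossings of the loop step `m` by the part of the rim after (before) the index `o`,  `∑_m a m = Θ(P o) = 1`.
* sec. 5  inputs in cells: `Θ` of a contour orbit (206), crossings only in the doors (164), last door (15), one side (205).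
* sec. 6  **`pvor_exists`**, and the consumer form `pvor_hR` (= hypothesis `hR` of `pvsb_white`).
-/

set_option autoImplicit false
set_option linter.unusedVariables false
set_option linter.unusedSectionVars false

namespace Claimed.Agent.R289

open Relation Claims.C0465 Claims.C0467 Claimed.Agent.R291

/-! ## 1. T-link: signed Stokes in the window -/

section link

variable {V D : Type} {T : PvMap V D}

open Classical in
/-- indicator of a set of darts -/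
noncomputable def pvorU (A : Set D) (d : D) : ℤ := if d ∈ A then 1 else 0

open Classical in
/-- a cochain on pairs of vertices, cut down to the window `W` -/
noncomputable def pvorC (T : PvMap V D) (W : Set V) (F : V → V → ℤ) (d : D) : ℤ := if T.src d ∈ W ∧ T.tgt d ∈ W then F (T.src d) (T.tgt d) else 0

/-- the three vertices of the face of `d` lie in the window -/
def pvorIn (T : PvMap V D) (W : Set V) (d : D) : Prop := T.src d ∈ W ∧ T.tgt d ∈ W ∧ T.apex d ∈ W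

open Classical in
/-- indicator of the face of `d₀` -/
noncomputable def pvorF (T : PvMap V D) (d₀ d : D) : ℤ := if T.SF d₀ d then 1 else 0

theorem pvor_eqns_cite1 : True := by
  have := @pvorU.eq_1; have := @pvorC.eq_1; have := @pvorIn.eq_1; have := @pvorF.eq_1
  trivial

/-- the window condition is a property of the face -/
theorem pvor_in_sf {W : Set V} {d d' : D} (h : pvorIn T W d) (hs : T.SF d d') : pvorIn T W d' := by
  rcases hs with rfl | rfl | rfl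
  · exact h
  · exact ⟨h.2.1, h.2.2, by rw [T.apex_nxt]; exact h.1⟩
  · exact ⟨h.2.2, by rw [T.tgt_nxt2]; exact h.1, by rw [T.apex_nxt2]; exact h.2.1⟩

/-- the three darts of a face in a finite face set -/
theorem pvor_sum_F {A : Set D} (hA : T.FaceSet A) (hfin : A.Finite) (d₂ : D) : ∑ d ∈ hfin.toFinset, pvorF T d₂ d = 3 * pvorU A d₂ := by
  classical
  unfold pvorU
  by_cases h2 : d₂ ∈ A
  · rw [if_pos h2]
    have hsub : ({d₂, T.nxt d₂, T.nxt (T.nxt d₂)} : Finset D) ⊆ hfin.toFinset := by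
      intro d hd
      rw [Set.Finite.mem_toFinset]
      simp only [Finset.mem_insert, Finset.mem_singleton] at hd
      rcases hd with rfl | rfl | rfl
      · exact h2
      · exact (hA _).2 h2
      · exact (hA.nxt2 T _).2 h2
    have e : ∑ d ∈ hfin.toFinset, pvorF T d₂ d = ∑ d ∈ ({d₂, T.nxt d₂, T.nxt (T.nxt d₂)} : Finset D), pvorF T d₂ d := by
      refine (Finset.sum_subset hsub fun d _ hd' => ?_).symm
      unfold pvorF
      rw [if_neg]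
      intro hs
      apply hd'
      simp only [Finset.mem_insert, Finset.mem_singleton]
      exact hs
    have n1 : d₂ ≠ T.nxt d₂ := fun e => T.nxt_ne_self d₂ e.symm
    have n2 : d₂ ≠ T.nxt (T.nxt d₂) := fun e => T.nxt2_ne_self d₂ e.symm
    have n3 : T.nxt d₂ ≠ T.nxt (T.nxt d₂) := fun e => n1 (T.nxt_injective e)
    rw [e, Finset.sum_insert (by simp [n1, n2]), Finset.sum_insert (by simp [n3]), Finset.sum_singleton]
    unfold pvorF
    rw [if_pos (show T.SF d₂ d₂ from Or.inl rfl), if_pos (show T.SF d₂ (T.nxt d₂) from Or.inr (Or.inl rfl)), if_pos (show T.SF d₂ (T.nxt (T.nxt d₂)) from Or.inr (Or.inr rfl))]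
    norm_num
  · rw [if_neg h2, mul_zero]
    refine Finset.sum_eq_zero fun d hd => ?_
    unfold pvorF
    rw [if_neg]
    intro hs
    exact h2 ((hA.sf T hs).1 (hfin.mem_toFinset.1 hd))

/-- **T-LINK** -/
theorem pvor_link (hT : T.IsSph) (P : T.Cyc) (hfin : P.Left.Finite) (W : Set V) (F : V → V → ℤ) (anti : ∀ a b, F b a = - F a b) {d₀ d₁ : D}
    (hin : ∀ d, pvorIn T W d → F (T.src d) (T.tgt d) + F (T.tgt d) (T.apex d) + F (T.apex d) (T.src d) = pvorF T d₀ d - pvorF T d₁ d)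
    (hbd : ∀ d, T.src d ∈ W → T.tgt d ∈ W → T.apex d ∉ W → F (T.src d) (T.tgt d) = 0) (h₀ : pvorIn T W d₀) (h₁ : pvorIn T W d₁) :
    ∑ i ∈ Finset.range P.n, pvorC T W F (P.e i) = pvorU P.Left d₀ - pvorU P.Left d₁ := by
  classical
  have hs : ∀ d, pvorC T W F (T.opp d) = - pvorC T W F d := by
    intro d
    unfold pvorC
    rw [T.src_opp', T.tgt_opp]
    by_cases h : T.src d ∈ W ∧ T.tgt d ∈ W
    · rw [if_pos h, if_pos ⟨h.2, h.1⟩, anti]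
    · rw [if_neg h, if_neg (fun h' => h ⟨h'.2, h'.1⟩), neg_zero]
  have hst := delw_stokes hT P hfin (pvorC T W F) hs
  have hF0 : ∀ d₂ d, pvorIn T W d₂ → ¬ pvorIn T W d → pvorF T d₂ d = 0 := by
    intro d₂ d h2 hd
    unfold pvorF
    rw [if_neg fun hs => hd (pvor_in_sf h2 hs)]
  have hface : ∀ d, pvorC T W F d + pvorC T W F (T.nxt d) + pvorC T W F (T.nxt (T.nxt d)) = pvorF T d₀ d - pvorF T d₁ d := by
    intro d
    unfold pvorC
    rw [T.src_nxt, T.tgt_nxt, T.src_nxt2, T.tgt_nxt2]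
    by_cases a1 : T.src d ∈ W <;> by_cases a2 : T.tgt d ∈ W <;> by_cases a3 : T.apex d ∈ W
    · rw [if_pos ⟨a1, a2⟩, if_pos ⟨a2, a3⟩, if_pos ⟨a3, a1⟩]
      exact hin d ⟨a1, a2, a3⟩
    · rw [if_pos ⟨a1, a2⟩, if_neg (fun h => a3 h.2), if_neg (fun h => a3 h.1), hbd d a1 a2 a3, hF0 d₀ d h₀ (fun h => a3 h.2.2), hF0 d₁ d h₁ (fun h => a3 h.2.2)]
      rfl
    · have := hbd (T.nxt (T.nxt d)) a3 (by rw [T.tgt_nxt2]; exact a1) (by rw [T.apex_nxt2]; exact a2)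
      rw [T.src_nxt2, T.tgt_nxt2] at this
      rw [if_neg (fun h => a2 h.2), if_neg (fun h => a2 h.1), if_pos ⟨a3, a1⟩, this, hF0 d₀ d h₀ (fun h => a2 h.2.1), hF0 d₁ d h₁ (fun h => a2 h.2.1)]
      rfl
    · rw [if_neg (fun h => a2 h.2), if_neg (fun h => a2 h.1), if_neg (fun h => a3 h.1), hF0 d₀ d h₀ (fun h => a2 h.2.1), hF0 d₁ d h₁ (fun h => a2 h.2.1)]
      rfl
    · have := hbd (T.nxt d) a2 a3 (by rw [T.apex_nxt]; exact a1)
      rw [T.src_nxt, T.tgt_nxt] at this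
      rw [if_neg (fun h => a1 h.1), if_pos ⟨a2, a3⟩, if_neg (fun h => a1 h.2), this, hF0 d₀ d h₀ (fun h => a1 h.1), hF0 d₁ d h₁ (fun h => a1 h.1)]
      rfl
    · rw [if_neg (fun h => a1 h.1), if_neg (fun h => a3 h.2), if_neg (fun h => a1 h.2), hF0 d₀ d h₀ (fun h => a1 h.1), hF0 d₁ d h₁ (fun h => a1 h.1)]
      rfl
    · rw [if_neg (fun h => a1 h.1), if_neg (fun h => a2 h.1), if_neg (fun h => a1 h.2), hF0 d₀ d h₀ (fun h => a1 h.1), hF0 d₁ d h₁ (fun h => a1 h.1)]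
      rfl
    · rw [if_neg (fun h => a1 h.1), if_neg (fun h => a2 h.1), if_neg (fun h => a1 h.2), hF0 d₀ d h₀ (fun h => a1 h.1), hF0 d₁ d h₁ (fun h => a1 h.1)]
      rfl
  simp only [hface] at hst
  rw [Finset.sum_sub_distrib, pvor_sum_F (pl_left_face P) hfin d₀, pvor_sum_F (pl_left_face P) hfin d₁] at hst
  simp only [nsmul_eq_mul, Nat.cast_ofNat] at hst
  omega

end link

/-! ## 2. the signed intersection number -/

/-- crossing of the LEFTWARD ray from `p` by the oriented segment `q → q'` (`+1`: downwards) -/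
noncomputable def pvorChiL (p q q' : ℂ) : ℤ := delChi (-p) (-q) (-q')

/-- **signed intersection number** of `q → q'` and `a → b` -/
noncomputable def pvorX (q q' a b : ℂ) : ℤ := delChi q a b - delChi q' a b - (pvorChiL a q q' - pvorChiL b q q')

/-- `Θ`: crossings of the leftward ray from `p` by the stretch `m₁ ≤ m < m₂` of the polygon `z` -/
noncomputable def pvorTh (z : ℕ → ℂ) (m₁ m₂ : ℕ) (p : ℂ) : ℤ := ∑ m ∈ Finset.Ico m₁ m₂, pvorChiL p (z m) (z (m + 1))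

/-- the step `m` of the loop `z`, with the two whiskers to the base points `q m`, `q (m+1)` -/
noncomputable def pvorJ (z q : ℕ → ℂ) (m : ℕ) (a b : ℂ) : ℤ := pvorX (q m) (z m) a b + pvorX (z m) (z (m + 1)) a b + pvorX (z (m + 1)) (q (m + 1)) a b

/-- the carrier of the step `m` -/
def pvorS (z q : ℕ → ℂ) (m : ℕ) : Set ℂ := segment ℝ (q m) (z m) ∪ segment ℝ (z m) (z (m + 1)) ∪ segment ℝ (z (m + 1)) (q (m + 1))

theorem pvor_eqns_cite2 : True := by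
  have := @pvorChiL.eq_1; have := @pvorX.eq_1; have := @pvorTh.eq_1; have := @pvorJ.eq_1; have := @pvorS.eq_1
  trivial

/-- **[4PT]** (202; LEAF, typist 253) -/
theorem pvor_4pt {a b q q' : ℂ} (h : Disjoint (segment ℝ a b) (segment ℝ q q')) : pvorX q q' a b = 0 := by
  have := pvwn_four h
  unfold pvwnT at this
  unfold pvorX pvorChiL
  omega

theorem pvor_chiL_anti (p q q' : ℂ) : pvorChiL p q' q = - pvorChiL p q q' := delw_chi_anti _ _ _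

theorem pvor_X_anti (q q' a b : ℂ) : pvorX q q' b a = - pvorX q q' a b := by
  unfold pvorX
  rw [delw_chi_anti q a b, delw_chi_anti q' a b]; ring

theorem pvor_X_rev (q q' a b : ℂ) : pvorX q' q a b = - pvorX q q' a b := by
  unfold pvorX
  rw [pvor_chiL_anti a q q', pvor_chiL_anti b q q']; ring

theorem pvor_J_anti (z q : ℕ → ℂ) (m : ℕ) (a b : ℂ) : pvorJ z q m b a = - pvorJ z q m a b := by
  unfold pvorJ
  rw [pvor_X_anti (q m), pvor_X_anti (z m), pvor_X_anti (z (m + 1))]; ring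

/-- the step vanishes on the segments which miss its carrier -/
theorem pvor_J_zero {z q : ℕ → ℂ} {m : ℕ} {a b : ℂ} (h : Disjoint (segment ℝ a b) (pvorS z q m)) : pvorJ z q m a b = 0 := by
  unfold pvorJ
  rw [pvor_4pt (h.mono_right (Set.subset_union_left.trans Set.subset_union_left)), pvor_4pt (h.mono_right (Set.subset_union_right.trans Set.subset_union_left)),
    pvor_4pt (h.mono_right Set.subset_union_right)]
  rfl

/-- circulation of the step round a triangle -/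
theorem pvor_J_tri (z q : ℕ → ℂ) (m : ℕ) (a b c : ℂ) :
    pvorJ z q m a b + pvorJ z q m b c + pvorJ z q m c a =
      (delChi (q m) a b + delChi (q m) b c + delChi (q m) c a) - (delChi (q (m + 1)) a b + delChi (q (m + 1)) b c + delChi (q (m + 1)) c a) := by
  unfold pvorJ pvorX; ring

/-- the sum round a closed loop -/
theorem pvor_J_loop {z q : ℕ → ℂ} {n : ℕ} (hz : ∀ m, z (m + n) = z m) (hq : ∀ m, q (m + n) = q m) (a b : ℂ) :
    ∑ m ∈ Finset.range n, pvorJ z q m a b = pvorTh z 0 n b - pvorTh z 0 n a := by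
  have key : ∀ m, pvorJ z q m a b = ((delChi (q m) a b - pvorChiL a (q m) (z m) + pvorChiL b (q m) (z m))
      - (delChi (q (m + 1)) a b - pvorChiL a (q (m + 1)) (z (m + 1)) + pvorChiL b (q (m + 1)) (z (m + 1))))
      + (pvorChiL b (z m) (z (m + 1)) - pvorChiL a (z m) (z (m + 1))) := by
    intro m
    unfold pvorJ pvorX
    rw [pvor_chiL_anti a (q (m + 1)) (z (m + 1)), pvor_chiL_anti b (q (m + 1)) (z (m + 1))]
    ring
  simp only [key]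
  rw [Finset.sum_add_distrib, Finset.sum_range_sub', Finset.sum_sub_distrib]
  have e1 : q n = q 0 := by simpa using hq 0
  have e2 : z n = z 0 := by simpa using hz 0
  unfold pvorTh
  rw [e1, e2, Finset.range_eq_Ico]
  ring

/-! ## 3. the geometry of a completion in a window -/

section win

variable {V D : Type}

/-- **the window**: `W` = the vertices of `T` which are sites in `closedBall z ρ`; there `T` is a geometric triangulation of mesh `μ` -/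
structure PvorWin (T : PvMap V D) (pos : V → ℂ) (W : Set V) (z : ℂ) (ρ μ : ℝ) : Prop where
  ball : ∀ v ∈ W, ‖pos v - z‖ ≤ ρ
  mesh : ∀ d, T.src d ∈ W → T.tgt d ∈ W → ‖pos (T.tgt d) - pos (T.src d)‖ ≤ μ
  /-- a vertex of the window with a neighbour off the window is near the rim of the window -/
  rim : ∀ d, T.src d ∈ W → T.tgt d ∉ W → ρ - μ < ‖pos (T.src d) - z‖
  orient : ∀ d, pvorIn T W d → 0 < vorDet (pos (T.src d)) (pos (T.tgt d)) (pos (T.apex d))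
  uniq : ∀ d d', pvorIn T W d → pvorIn T W d' → ∀ p, p ∈ T.trio pos d → p ∈ T.tri pos d' → T.SF d d'
  cover : ∀ p, ‖p - z‖ ≤ ρ - 2 * μ → ∃ d, pvorIn T W d ∧ p ∈ T.tri pos d

/-- the vertices of a completion which are sites of the window -/
def pvorW {X : Type} (𝔅 : PvBulk X) (Y : Set ℂ) (z : ℂ) (ρ : ℝ) : Set (𝔅.V Y) := {v | ∃ p, 𝔅.lab Y v = Sum.inl p ∧ ‖p - z‖ ≤ ρ}

theorem pvor_eqns_cite3 : True := by
  have := @pvorW.eq_1
  trivial

theorem pvor_posF_inl {X : Type} (𝔅 : PvBulk X) {Y : Set ℂ} (zi : ℂ) {v : 𝔅.V Y} {p : ℂ} (h : 𝔅.lab Y v = Sum.inl p) : 𝔅.posF Y zi v = p := by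
  unfold PvBulk.posF; rw [h]; rfl

/-- **producer of the window** (LEAF): `del_cover`, `del_T2`, `Ok.del`, `Ok.face`, `Ok.emb`, `L9Fine` -/
theorem pvor_win_of_ok {X : Type} (𝔅 : PvBulk X) {Y K : Set ℂ} (ok : 𝔅.Ok Y K) (lf : VorLF Y) (gp : VorGP Y) {z zi : ℂ} {ρ μ : ℝ} (hμ : 0 < μ) (hK : Metric.closedBall z ρ ⊆ K)
    (dense : VorDense Y (Metric.closedBall z (ρ + 4 * μ)) μ) (fine : L9Fine Y (Metric.closedBall z ρ) μ) :
    PvorWin (𝔅.T Y) (𝔅.posF Y zi) (pvorW 𝔅 Y z ρ) z ρ μ := by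
  have hB : ∀ p : ℂ, ‖p - z‖ ≤ ρ → p ∈ Metric.closedBall z ρ := fun p hp => by rw [Metric.mem_closedBall, dist_eq_norm]; exact hp
  -- the face at a vertex of the window
  have face : ∀ d, (𝔅.T Y).src d ∈ pvorW 𝔅 Y z ρ → ∃ a b c : ℂ, 𝔅.lab Y ((𝔅.T Y).src d) = Sum.inl a ∧ 𝔅.lab Y ((𝔅.T Y).tgt d) = Sum.inl b ∧
      𝔅.lab Y ((𝔅.T Y).apex d) = Sum.inl c ∧ DelTri Y a b c ∧ ‖a - z‖ ≤ ρ := by
    rintro d ⟨a, ha, haz⟩
    obtain ⟨b, c, hb, hc, ht⟩ := ok.del d a ha (hK (hB a haz))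
    exact ⟨a, b, c, ha, hb, hc, ht, haz⟩
  refine ⟨?_, ?_, ?_, ?_, ?_, ?_⟩
  · rintro v ⟨p, hp, hpz⟩
    rw [pvor_posF_inl 𝔅 zi hp]; exact hpz
  · intro d hs _
    obtain ⟨a, b, c, ha, hb, hc, ht, haz⟩ := face d hs
    rw [pvor_posF_inl 𝔅 zi ha, pvor_posF_inl 𝔅 zi hb]
    exact (fine a b c ht (Or.inl (hB a haz))).1
  · intro d hs hn
    obtain ⟨a, b, c, ha, hb, hc, ht, haz⟩ := face d hs
    rw [pvor_posF_inl 𝔅 zi ha]
    have h1 := (fine a b c ht (Or.inl (hB a haz))).1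
    have h2 : ρ < ‖b - z‖ := by
      by_contra hc'
      exact hn ⟨b, hb, not_lt.1 hc'⟩
    have h3 : ‖b - z‖ ≤ ‖b - a‖ + ‖a - z‖ := by
      calc ‖b - z‖ = ‖(b - a) + (a - z)‖ := by ring_nf
        _ ≤ _ := norm_add_le _ _
    linarith
  · intro d hd
    obtain ⟨a, b, c, ha, hb, hc, ht, haz⟩ := face d hd.1
    rw [pvor_posF_inl 𝔅 zi ha, pvor_posF_inl 𝔅 zi hb, pvor_posF_inl 𝔅 zi hc]
    exact ht.left
  · intro d d' hd hd' p hp hp'
    obtain ⟨a, b, c, ha, hb, hc, ht, haz⟩ := face d hd.1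
    obtain ⟨a', b', c', ha', hb', hc', ht', haz'⟩ := face d' hd'.1
    unfold PvMap.trio at hp
    unfold PvMap.tri at hp'
    rw [pvor_posF_inl 𝔅 zi ha, pvor_posF_inl 𝔅 zi hb, pvor_posF_inl 𝔅 zi hc] at hp
    rw [pvor_posF_inl 𝔅 zi ha', pvor_posF_inl 𝔅 zi hb', pvor_posF_inl 𝔅 zi hc'] at hp'
    rcases del_T2 gp ht ht' hp hp' with ⟨e1, e2, -⟩ | ⟨e1, e2, -⟩ | ⟨e1, e2, -⟩
    · left
      exact ok.simple _ _ (ok.inj (by rw [ha', ha, e1])) (ok.inj (by rw [hb', hb, e2]))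
    · right; left
      exact ok.simple _ _ (ok.inj (by rw [PvMap.src_nxt, ha', hb, e1])) (ok.inj (by rw [PvMap.tgt_nxt, hb', hc, e2]))
    · right; right
      exact ok.simple _ _ (ok.inj (by rw [PvMap.src_nxt2, ha', hc, e1])) (ok.inj (by rw [PvMap.tgt_nxt2, hb', ha, e2]))
  · intro p hp
    have hd : VorDense Y (Metric.closedBall p (4 * μ)) μ := by
      refine dense.mono subset_rfl ?_ le_rfl
      intro q hq
      rw [Metric.mem_closedBall, dist_eq_norm] at hq ⊢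
      calc ‖q - z‖ = ‖(q - p) + (p - z)‖ := by ring_nf
        _ ≤ ‖q - p‖ + ‖p - z‖ := norm_add_le _ _
        _ ≤ ρ + 4 * μ := by linarith
    obtain ⟨a, b, c, ht, hpt⟩ := del_cover lf gp hμ hd
    obtain ⟨n1, n2, n3⟩ := del_tri_near hμ.le (by linarith : μ < 4 * μ) hd ht hpt
    have key : ∀ v : ℂ, ‖v - p‖ ≤ 2 * μ → ‖v - z‖ ≤ ρ := by
      intro v hv
      calc ‖v - z‖ = ‖(v - p) + (p - z)‖ := by ring_nf
        _ ≤ ‖v - p‖ + ‖p - z‖ := norm_add_le _ _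
        _ ≤ ρ := by linarith
    obtain ⟨d, k1, k2, k3⟩ := ok.face a b c ht (hK (hB a (key a n1)))
    refine ⟨d, ⟨⟨a, k1, key a n1⟩, ⟨b, k2, key b n2⟩, ⟨c, k3, key c n3⟩⟩, ?_⟩
    unfold PvMap.tri
    rw [pvor_posF_inl 𝔅 zi k1, pvor_posF_inl 𝔅 zi k2, pvor_posF_inl 𝔅 zi k3]
    exact hpt

end win

/-! ## 4. the potential package -/

section pot

variable {V D : Type} {T : PvMap V D}

/-- the barycentre of the face of `d` -/
noncomputable def pvorB (T : PvMap V D) (pos : V → ℂ) (d : D) : ℂ := delBar (pos (T.src d)) (pos (T.tgt d)) (pos (T.apex d))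

theorem pvor_eqns_cite4 : True := by
  have := @pvorB.eq_1
  trivial

/-- two points of a face of the window are `μ`-close -/
theorem pvor_face_diam {V D : Type} {T : PvMap V D} {pos : V → ℂ} {W : Set V} {z₀ : ℂ} {ρ μ : ℝ} (G : PvorWin T pos W z₀ ρ μ) {d : D} (hd : pvorIn T W d) {x y : ℂ}
    (hx : x ∈ T.tri pos d) (hy : y ∈ T.tri pos d) : ‖x - y‖ ≤ μ := by
  obtain ⟨h1, h2, h3⟩ := hd
  have m1 := G.mesh d h1 h2
  have m2 := G.mesh (T.nxt d) (by rw [T.src_nxt]; exact h2) (by rw [T.tgt_nxt]; exact h3)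
  have m3 := G.mesh (T.nxt (T.nxt d)) (by rw [T.src_nxt2]; exact h3) (by rw [T.tgt_nxt2]; exact h1)
  rw [T.src_nxt, T.tgt_nxt] at m2
  rw [T.src_nxt2, T.tgt_nxt2] at m3
  exact dela_dist_le_side (G.orient d ⟨h1, h2, h3⟩) (by rw [norm_sub_rev]; exact m1) (by rw [norm_sub_rev]; exact m2) (by rw [norm_sub_rev]; exact m3) hx hy

theorem pvor_bary_mem {V D : Type} {T : PvMap V D} {pos : V → ℂ} {W : Set V} {z₀ : ℂ} {ρ μ : ℝ} (G : PvorWin T pos W z₀ ρ μ) {d : D} (hd : pvorIn T W d) : pvorB T pos d ∈ T.trio pos d :=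
  dela_bar_mem (G.orient d hd)

/-- the ray count of a face of the window at the barycentre of a face of the window -/
theorem pvor_tau {pos : V → ℂ} {W : Set V} {z₀ : ℂ} {ρ μ : ℝ} (G : PvorWin T pos W z₀ ρ μ) {d₀ d : D} (h₀ : pvorIn T W d₀) (hd : pvorIn T W d) :
    delChi (pvorB T pos d₀) (pos (T.src d)) (pos (T.tgt d)) + delChi (pvorB T pos d₀) (pos (T.tgt d)) (pos (T.apex d)) + delChi (pvorB T pos d₀) (pos (T.apex d)) (pos (T.src d)) = pvorF T d₀ d := by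
  have hb : pvorB T pos d₀ ∈ T.trio pos d₀ := dela_bar_mem (G.orient d₀ h₀)
  have ht := delw_tri (G.orient d hd) (pvorB T pos d₀)
  unfold pvorF
  by_cases hsf : T.SF d₀ d
  · rw [if_pos hsf]
    refine ht.1 ?_
    obtain ⟨b1, b2, b3⟩ := hb
    rcases hsf with rfl | rfl | rfl
    · exact ⟨b1, b2, b3⟩
    · rw [T.src_nxt, T.tgt_nxt, T.apex_nxt]; exact ⟨b2, b3, b1⟩
    · rw [T.src_nxt2, T.tgt_nxt2, T.apex_nxt2]; exact ⟨b3, b1, b2⟩
  · rw [if_neg hsf]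
    by_contra hne
    exact hsf (G.uniq d₀ d h₀ hd _ hb (ht.2 hne).1)

/-- one step of the loop: **the jump of the side = the crossings of the step by the rim** -/
theorem pvor_jump (hT : T.IsSph) (P : T.Cyc) (hfin : P.Left.Finite) {pos : V → ℂ} {W : Set V} {z₀ : ℂ} {ρ μ : ℝ} (G : PvorWin T pos W z₀ ρ μ)
    (z : ℕ → ℂ) (dd : ℕ → D) (m : ℕ) (hdd : ∀ k, pvorIn T W (dd k) ∧ z k ∈ T.tri pos (dd k)) (hz : ∀ k, ‖z k - z₀‖ + 3 * μ < ρ) :
    ∑ i ∈ Finset.range P.n, pvorC T W (fun a b => pvorJ z (fun k => pvorB T pos (dd k)) m (pos a) (pos b)) (P.e i) = pvorU P.Left (dd m) - pvorU P.Left (dd (m + 1)) := by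
  refine pvor_link hT P hfin W _ (fun a b => pvor_J_anti _ _ _ _ _) (fun d hd => ?_) (fun d h1 h2 h3 => ?_) (hdd m).1 (hdd (m + 1)).1
  · rw [pvor_J_tri, pvor_tau G (hdd m).1 hd, pvor_tau G (hdd (m + 1)).1 hd]
  · refine pvor_J_zero ?_
    have hμ : 0 ≤ μ := (norm_nonneg _).trans (G.mesh d h1 h2)
    have r1 : ρ - μ < ‖pos (T.src d) - z₀‖ := by
      have := G.rim (T.rot d) (by rw [T.src_rot]; exact h1) (by rw [T.tgt_rot]; exact h3)
      rwa [T.src_rot] at this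
    -- the carrier lies in the ball of radius `ρ - 2 μ`
    have hq : ∀ k, ‖pvorB T pos (dd k) - z k‖ ≤ μ := fun k =>
      pvor_face_diam G (hdd k).1 (plg_trio_sub_tri T pos _ (pvor_bary_mem G (hdd k).1)) (hdd k).2
    have hzB : ∀ k, z k ∈ Metric.ball z₀ (ρ - 2 * μ) := fun k => by
      rw [mem_ball_iff_norm]; have := hz k; linarith
    have hqB : ∀ k, pvorB T pos (dd k) ∈ Metric.ball z₀ (ρ - 2 * μ) := fun k => by
      rw [mem_ball_iff_norm]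
      have h5 : ‖pvorB T pos (dd k) - z₀‖ ≤ ‖pvorB T pos (dd k) - z k‖ + ‖z k - z₀‖ := by
        have := norm_add_le (pvorB T pos (dd k) - z k) (z k - z₀)
        rwa [sub_add_sub_cancel] at this
      have := hz k; have := hq k; linarith
    have hcv := convex_ball z₀ (ρ - 2 * μ)
    have hS : pvorS z (fun k => pvorB T pos (dd k)) m ⊆ Metric.ball z₀ (ρ - 2 * μ) := by
      unfold pvorS
      exact Set.union_subset (Set.union_subset (hcv.segment_subset (hqB m) (hzB m)) (hcv.segment_subset (hzB m) (hzB (m + 1)))) (hcv.segment_subset (hzB (m + 1)) (hqB (m + 1)))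
    rw [Set.disjoint_left]
    intro x hx hxS
    have hx1 : x ∈ Metric.closedBall (pos (T.src d)) μ :=
      (convex_closedBall (pos (T.src d)) μ).segment_subset (Metric.mem_closedBall_self hμ) (by rw [mem_closedBall_iff_norm]; exact G.mesh d h1 h2) hx
    rw [mem_closedBall_iff_norm] at hx1
    have hx2 := mem_ball_iff_norm.1 (hS hxS)
    have h6 : ‖pos (T.src d) - z₀‖ ≤ ‖x - pos (T.src d)‖ + ‖x - z₀‖ := by
      have := norm_sub_le (x - z₀) (x - pos (T.src d))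
      rw [sub_sub_sub_cancel_left] at this
      linarith
    linarith

theorem pvor_tele (f : ℕ → ℤ) {o N : ℕ} (h : o ≤ N) : ∑ i ∈ Finset.Ico o N, (f (i + 1) - f i) = f N - f o := by
  induction N, h using Nat.le_induction with
  | base => simp
  | succ N hN ih => rw [Finset.sum_Ico_succ_top hN, ih]; ring

/-- **THE POTENTIAL PACKAGE**.      `z` = closed loop of period `n` inside the window, `dd m` = a face whose closed triangle contains `z m`, `u m = 1_{Left}(dd m)`;   the rim is cut at the index `0` (off the loop) and at `o` (inside the loop) -/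
theorem pvor_pot (hT : T.IsSph) (P : T.Cyc) (hfin : P.Left.Finite) {pos : V → ℂ} {W : Set V} {z₀ : ℂ} {ρ μ : ℝ} (G : PvorWin T pos W z₀ ρ μ)
    (z : ℕ → ℂ) (dd : ℕ → D) {n : ℕ} (hzp : ∀ m, z (m + n) = z m) (hdp : ∀ m, dd (m + n) = dd m)
    (hdd : ∀ k, pvorIn T W (dd k) ∧ z k ∈ T.tri pos (dd k)) (hz : ∀ k, ‖z k - z₀‖ + 3 * μ < ρ)
    {o : ℕ} (ho : o ≤ P.n) (hoW : T.src (P.e o) ∈ W) (hΘ1 : pvorTh z 0 n (pos (T.src (P.e o))) = 1)
    (hΘ0 : ∀ p, ρ - μ < ‖p - z₀‖ → pvorTh z 0 n p = 0) (h0 : T.src (P.e 0) ∈ W → ρ - μ < ‖pos (T.src (P.e 0)) - z₀‖) :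
    ∃ a b : ℕ → ℤ, (∀ m, pvorU P.Left (dd (m + 1)) - pvorU P.Left (dd m) = a m + b m) ∧ ∑ m ∈ Finset.range n, a m = 1 ∧
      (∀ m, a m ≠ 0 → ∃ i, o ≤ i ∧ i < P.n ∧ T.src (P.e i) ∈ W ∧ T.tgt (P.e i) ∈ W ∧ ¬ Disjoint (T.seg pos (P.e i)) (pvorS z (fun k => pvorB T pos (dd k)) m)) ∧
      (∀ m, b m ≠ 0 → ∃ i, i < o ∧ T.src (P.e i) ∈ W ∧ T.tgt (P.e i) ∈ W ∧ ¬ Disjoint (T.seg pos (P.e i)) (pvorS z (fun k => pvorB T pos (dd k)) m)) := by
  classical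
  set q : ℕ → ℂ := fun k => pvorB T pos (dd k) with hq
  have hqp : ∀ m, q (m + n) = q m := fun m => by simp only [hq, hdp]
  set cm : ℕ → D → ℤ := fun m d => pvorC T W (fun a b => pvorJ z q m (pos a) (pos b)) d with hcm
  have hne : ∀ m d, cm m d ≠ 0 → T.src d ∈ W ∧ T.tgt d ∈ W ∧ ¬ Disjoint (T.seg pos d) (pvorS z q m) := by
    intro m d h
    simp only [hcm, pvorC] at h
    by_cases hc : T.src d ∈ W ∧ T.tgt d ∈ W
    · rw [if_pos hc] at h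
      exact ⟨hc.1, hc.2, fun hd => h (pvor_J_zero hd)⟩
    · rw [if_neg hc] at h
      exact absurd rfl h
  refine ⟨fun m => - ∑ i ∈ Finset.Ico o P.n, cm m (P.e i), fun m => - ∑ i ∈ Finset.range o, cm m (P.e i), ?_, ?_, ?_, ?_⟩
  · intro m
    have h1 := pvor_jump hT P hfin G z dd m hdd hz
    have h2 := Finset.sum_range_add_sum_Ico (fun i => cm m (P.e i)) ho
    have h3 : ∑ i ∈ Finset.range P.n, cm m (P.e i) = pvorU P.Left (dd m) - pvorU P.Left (dd (m + 1)) := h1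
    simp only at h2 ⊢
    linarith
  · set sg : V → ℤ := fun v => if v ∈ W then pvorTh z 0 n (pos v) else 0 with hsg
    have hrim : ∀ d, T.src d ∈ W → T.tgt d ∉ W → pvorTh z 0 n (pos (T.src d)) = 0 := fun d h1 h2 => hΘ0 _ (G.rim d h1 h2)
    have hd : ∀ d, ∑ m ∈ Finset.range n, cm m d = sg (T.tgt d) - sg (T.src d) := by
      intro d
      simp only [hcm, pvorC, hsg]
      by_cases h1 : T.src d ∈ W <;> by_cases h2 : T.tgt d ∈ W
      · simp only [h1, h2, and_self, if_true]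
        exact pvor_J_loop hzp hqp _ _
      · simp only [h1, h2, and_false, if_false, if_true, Finset.sum_const_zero]
        rw [hrim d h1 h2]; ring
      · simp only [h1, h2, false_and, if_false, if_true, Finset.sum_const_zero]
        have := hrim (T.opp d) (by rw [T.src_opp']; exact h2) (by rw [T.tgt_opp]; exact h1)
        rw [T.src_opp'] at this
        rw [this]; ring
      · simp only [h1, h2, and_self, if_false, Finset.sum_const_zero]; ring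
    rw [Finset.sum_neg_distrib, Finset.sum_comm]
    have e1 : ∑ i ∈ Finset.Ico o P.n, ∑ m ∈ Finset.range n, cm m (P.e i) = ∑ i ∈ Finset.Ico o P.n, (sg (T.src (P.e (i + 1))) - sg (T.src (P.e i))) :=
      Finset.sum_congr rfl fun i _ => by rw [hd, P.chain]
    rw [e1, pvor_tele (fun i => sg (T.src (P.e i))) ho]
    have e2 : sg (T.src (P.e o)) = 1 := by simp only [hsg, if_pos hoW, hΘ1]
    have e3 : sg (T.src (P.e P.n)) = 0 := by
      have : P.e P.n = P.e 0 := by have := P.per 0; rwa [Nat.zero_add] at this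
      rw [this]
      simp only [hsg]
      by_cases hw : T.src (P.e 0) ∈ W
      · rw [if_pos hw]; exact hΘ0 _ (h0 hw)
      · rw [if_neg hw]
    simp only [e2, e3]; norm_num
  · intro m hm
    have : ∑ i ∈ Finset.Ico o P.n, cm m (P.e i) ≠ 0 := fun h => hm (by simp only [h, neg_zero])
    obtain ⟨i, hi, hi'⟩ := Finset.exists_ne_zero_of_sum_ne_zero this
    obtain ⟨i1, i2⟩ := Finset.mem_Ico.1 hi
    obtain ⟨a1, a2, a3⟩ := hne m _ hi'
    exact ⟨i, i1, i2, a1, a2, a3⟩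
  · intro m hm
    have : ∑ i ∈ Finset.range o, cm m (P.e i) ≠ 0 := fun h => hm (by simp only [h, neg_zero])
    obtain ⟨i, hi, hi'⟩ := Finset.exists_ne_zero_of_sum_ne_zero this
    obtain ⟨a1, a2, a3⟩ := hne m _ hi'
    exact ⟨i, Finset.mem_range.1 hi, a1, a2, a3⟩

end pot

/-! ## 5. inputs in cells -/

section cells

variable {H D₁ D₂ : Set (ℤ × ℤ)} {e : (ℤ × ℤ) × (ℤ × ℤ)}

/-- the loop of the centres of the outer cells of the contour orbit -/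
noncomputable def pvorZ (δ : ℝ) (H : Set (ℤ × ℤ)) (e : (ℤ × ℤ) × (ℤ × ℤ)) (m : ℕ) : ℂ := pvtCtr δ ((pvtrStep H)^[m] e).2

theorem pvor_eqns_cite5 : True := by
  have := @pvorZ.eq_1
  trivial

/-- **`Θ = 1` inside** (LEAF, 206): here `pvtrStep` turns counterclockwise meets `delChi` -/
theorem pvor_theta_in (hH : H.Finite) (hc : TscConn tscG H) (hco : TscConn tscG Hᶜ) (he : e ∈ pvtrBd H) {n : ℕ} (hn : 0 < n) (hper : (pvtrStep H)^[n] e = e)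
    (hinj : ∀ a < n, ∀ b < n, (pvtrStep H)^[a] e = (pvtrStep H)^[b] e → a = b) {δ : ℝ} (hδ : 0 < δ) {c : ℤ × ℤ} (hcH : pvtwN 1 {c} ⊆ H) {p : ℂ} (hp : p ∈ pvtSq δ c) :
    pvorTh (pvorZ δ H e) 0 n p = 1 := by
  have hL : PvoqLoop H e n := ⟨hH, he, hn, hper, fun m h0 hm hme => absurd (hinj m hm 0 hn hme) (by omega), fun e' he' => pvtr_orbit hH hc hco he he'⟩
  have h1 := pvoq_one' hL hδ (b := c) (p := p) (hcH ⟨c, rfl, by omega, by omega, by omega, by omega⟩) hp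
    (Or.inl (hcH ⟨c, rfl, by simp only; omega, by simp only; omega, by simp only; omega, by simp only; omega⟩))
  unfold pvorTh
  rw [← Finset.range_eq_Ico]
  exact h1

/-- **`Θ = 0` off the box** (LEAF, 206) -/
theorem pvor_theta_out (he : e ∈ pvtrBd H) {n : ℕ} (hper : (pvtrStep H)^[n] e = e) {δ : ℝ} (hδ : 0 < δ) {k : ℕ} (hbox : H ⊆ pvmnBox k) {p : ℂ} (hp : p ∉ pvtU δ (pvmnBox (k + 1))) :
    pvorTh (pvorZ δ H e) 0 n p = 0 := by
  have e0 : pvorTh (pvorZ δ H e) 0 n p = pvwnTh (pvorZ δ H e) n p := by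
    unfold pvorTh pvwnTh
    rw [← Finset.range_eq_Ico]
    rfl
  rw [e0]
  refine pvwn_Th_far (x0 := -((k : ℝ) + 1) * δ) (x1 := ((k : ℝ) + 2) * δ) (y0 := -((k : ℝ) + 1) * δ) (y1 := ((k : ℝ) + 2) * δ) ?_ (fun m _ => ?_) ?_
  · unfold pvorZ
    rw [hper]
    rfl
  · have hm := pvtr_iter_mem he m
    obtain ⟨b1, b2, b3, b4⟩ := hbox hm.1
    have h2 := (tsc_adj_iff _ _).1 hm.2.2
    have c1 : -((k : ℤ) + 1) ≤ ((pvtrStep H)^[m] e).2.1 := by omega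
    have c2 : ((pvtrStep H)^[m] e).2.1 ≤ (k : ℤ) + 1 := by omega
    have c3 : -((k : ℤ) + 1) ≤ ((pvtrStep H)^[m] e).2.2 := by omega
    have c4 : ((pvtrStep H)^[m] e).2.2 ≤ (k : ℤ) + 1 := by omega
    have d1 : -((k : ℝ) + 1) ≤ (((pvtrStep H)^[m] e).2.1 : ℝ) := by exact_mod_cast c1
    have d2 : (((pvtrStep H)^[m] e).2.1 : ℝ) ≤ (k : ℝ) + 1 := by exact_mod_cast c2
    have d3 : -((k : ℝ) + 1) ≤ (((pvtrStep H)^[m] e).2.2 : ℝ) := by exact_mod_cast c3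
    have d4 : (((pvtrStep H)^[m] e).2.2 : ℝ) ≤ (k : ℝ) + 1 := by exact_mod_cast c4
    simp only [pvorZ, pvtCtr]
    refine ⟨?_, ?_, ?_, ?_⟩ <;> nlinarith
  · by_contra hcon
    simp only [not_or, not_le] at hcon
    obtain ⟨q1, q2, q3, q4⟩ := hcon
    refine hp (Set.mem_biUnion (x := (⌊p.re / δ⌋, ⌊p.im / δ⌋)) ⟨?_, ?_, ?_, ?_⟩ ⟨?_, ?_, ?_, ?_⟩)
    · simp only
      rw [Int.le_floor, le_div_iff₀ hδ]
      push_cast
      linarith
    · simp only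
      have : ⌊p.re / δ⌋ < (k : ℤ) + 1 + 1 := by
        rw [Int.floor_lt, div_lt_iff₀ hδ]
        push_cast
        linarith
      push_cast
      omega
    · simp only
      rw [Int.le_floor, le_div_iff₀ hδ]
      push_cast
      linarith
    · simp only
      have : ⌊p.im / δ⌋ < (k : ℤ) + 1 + 1 := by
        rw [Int.floor_lt, div_lt_iff₀ hδ]
        push_cast
        linarith
      push_cast
      omega
    · simp only
      have := Int.floor_le (p.re / δ)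
      rwa [le_div_iff₀ hδ] at this
    · simp only
      have := (Int.lt_floor_add_one (p.re / δ)).le
      rwa [div_le_iff₀ hδ] at this
    · simp only
      have := Int.floor_le (p.im / δ)
      rwa [le_div_iff₀ hδ] at this
    · simp only
      have := (Int.lt_floor_add_one (p.im / δ)).le
      rwa [div_le_iff₀ hδ] at this

/-- **LAST DOOR** (LEAF, 15) -/
theorem pvor_last_door (he : e ∈ pvtrBd H) {n : ℕ} (hn : 0 < n) (hper : (pvtrStep H)^[n] e = e) (hd : Disjoint D₁ D₂) (u a b : ℕ → ℤ) (hu : ∀ m, u m = 0 ∨ u m = 1) (hup : ∀ m, u (m + n) = u m)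
    (hj : ∀ m, u (m + 1) - u m = a m + b m) (ha : ∀ m, a m ≠ 0 → ((pvtrStep H)^[m] e).2 ∈ D₂ ∧ ((pvtrStep H)^[m + 1] e).2 ∈ D₂)
    (hb : ∀ m, b m ≠ 0 → ((pvtrStep H)^[m] e).2 ∈ D₁ ∧ ((pvtrStep H)^[m + 1] e).2 ∈ D₁) (hsum : ∑ m ∈ Finset.range n, a m = 1) :
    ∃ m₀ l, PvtrLane H D₁ D₂ ((pvtrStep H)^[m₀] e) l ∧ ∀ m, m ≤ l → u (m₀ + m) = 0 :=
  pvoz_orbit_any he hper hd u a b hu hup hj ha hb hsum

end cells

section fit

variable {P : PvbRim} {z : ℂ} {t : ℕ → ℕ} {δ μ hh a b ρ d0 e0 d1 e1 : ℝ} {𝔑 : PvmnNum} {τ : PvmnType}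

/-- **the part of the rim after the pin comes near the contour loop of `K3` only in the door `Dr⁺`** (LEAF, 164) -/
theorem pvor_cross_fwd (I : PvmfIn P z t μ hh a b ρ d0 e0 d1 e1) (N : PvmfNum δ μ hh a b ρ d0 e0 d1 e1 (δ * 𝔑.rB)) (R : PvmfRel 𝔑 δ μ hh b ρ e0 d1) (hτ : PvmnIsType 𝔑 τ)
    (F : PvmnFits τ δ (fun i => P.v i - z) (fun k => t k.1)) {i : ℕ} (hi : t 5 ≤ i) (hi' : i < P.len) (h1 : ‖P.v i - z‖ ≤ ρ) (h2 : ‖P.v (i + 1) - z‖ ≤ ρ)
    {e : (ℤ × ℤ) × (ℤ × ℤ)} (he : e ∈ pvtrBd (pvmnK3 τ)) {x y : ℂ} (hx : x ∈ segment ℝ (P.v i - z) (P.v (i + 1) - z))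
    (hy : y ∈ segment ℝ (pvtCtr δ e.2) (pvtCtr δ (pvtrStep (pvmnK3 τ) e).2)) (hxy : ‖x - y‖ ≤ μ) : e.2 ∈ pvmnDrp τ ∧ (pvtrStep (pvmnK3 τ) e).2 ∈ pvmnDrp τ := by
  have h05 : t 0 ≤ t 5 := (I.cuts N).le (by omega) (by omega)
  rcases pvod_near_step I N F hi' (Or.inl h1) he hx hy (hxy.trans N.μ_le) with ⟨-, q2, q3, -⟩ | ⟨q1, -⟩
  · exact ⟨q2, q3⟩
  · omega

/-- the mirror statement (LEAF, 164) -/
theorem pvor_cross_bwd (I : PvmfIn P z t μ hh a b ρ d0 e0 d1 e1) (N : PvmfNum δ μ hh a b ρ d0 e0 d1 e1 (δ * 𝔑.rB)) (R : PvmfRel 𝔑 δ μ hh b ρ e0 d1) (hτ : PvmnIsType 𝔑 τ)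
    (F : PvmnFits τ δ (fun i => P.v i - z) (fun k => t k.1)) {i : ℕ} (hi : i < t 5) (h1 : ‖P.v i - z‖ ≤ ρ) (h2 : ‖P.v (i + 1) - z‖ ≤ ρ)
    {e : (ℤ × ℤ) × (ℤ × ℤ)} (he : e ∈ pvtrBd (pvmnK3 τ)) {x y : ℂ} (hx : x ∈ segment ℝ (P.v i - z) (P.v (i + 1) - z))
    (hy : y ∈ segment ℝ (pvtCtr δ e.2) (pvtCtr δ (pvtrStep (pvmnK3 τ) e).2)) (hxy : ‖x - y‖ ≤ μ) : e.2 ∈ pvmnDrm τ ∧ (pvtrStep (pvmnK3 τ) e).2 ∈ pvmnDrm τ := by
  have C := I.cuts N
  have h510 : t 5 ≤ t 10 := C.le (by omega) le_rfl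
  rcases pvod_near_step I N F (by have := C.le_len; omega) (Or.inl h1) he hx hy (hxy.trans N.μ_le) with ⟨q1, -⟩ | ⟨-, q2, q3, -⟩
  · omega
  · exact ⟨q2, q3⟩

/-- no vertex of the rim in the 2-collar of a lane (LEAF: `pvlb_zone_clear_v`, `pvlb_laneR_zone`, the far rest by `PvtpNR`) -/
theorem pvor_lane_miss (I : PvmfIn P z t μ hh a b ρ d0 e0 d1 e1) (N : PvmfNum δ μ hh a b ρ d0 e0 d1 e1 (δ * 𝔑.rB)) (R : PvmfRel 𝔑 δ μ hh b ρ e0 d1) (hτ : PvmnIsType 𝔑 τ)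
    (F : PvmnFits τ δ (fun i => P.v i - z) (fun k => t k.1)) {ln : ((ℤ × ℤ) × (ℤ × ℤ)) × ℕ} (hl : PvmnLaneR τ ln.1 ln.2) (i : ℕ) (hi : i ≤ P.len) :
    P.v i - z ∉ pvtU δ (pvtwN 2 (pvlpR τ ln)) :=
  fun h => pvod_vert_laneR I N F hl hi (pvt_U_mono (pvtw_N_mono (by omega) subset_rfl) h)

end fit

/-! ## 5b. small tools of the assembly -/

theorem pvor_det_shift (a b c w : ℂ) : vorDet (a - w) (b - w) (c - w) = vorDet a b c := by
  simp only [vorDet, Complex.sub_re, Complex.sub_im]; ring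

theorem pvor_delT_shift (a b c w p : ℂ) : p ∈ delT (a - w) (b - w) (c - w) ↔ p + w ∈ delT a b c := by
  have h : ∀ x y : ℂ, vorDet (x - w) (y - w) p = vorDet x y (p + w) := fun x y => by
    rw [← pvor_det_shift x y (p + w) w, add_sub_cancel_right]
  simp only [delT, Set.mem_ofPred_eq, h]

theorem pvor_delTo_shift (a b c w p : ℂ) : p ∈ delTo (a - w) (b - w) (c - w) ↔ p + w ∈ delTo a b c := by
  have h : ∀ x y : ℂ, vorDet (x - w) (y - w) p = vorDet x y (p + w) := fun x y => by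
    rw [← pvor_det_shift x y (p + w) w, add_sub_cancel_right]
  simp only [delTo, Set.mem_ofPred_eq, h]

theorem pvor_win_shift {V D : Type} {T : PvMap V D} {pos : V → ℂ} {W : Set V} {z : ℂ} {ρ μ : ℝ} (G : PvorWin T pos W z ρ μ) : PvorWin T (fun v => pos v - z) W 0 ρ μ where
  ball := fun v hv => by simpa using G.ball v hv
  mesh := fun d h1 h2 => by simpa using G.mesh d h1 h2
  rim := fun d h1 h2 => by simpa using G.rim d h1 h2
  orient := fun d hd => by rw [pvor_det_shift]; exact G.orient d hd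
  uniq := fun d d' hd hd' p hp hp' => G.uniq d d' hd hd' (p + z) ((pvor_delTo_shift _ _ _ _ _).1 hp) ((pvor_delT_shift _ _ _ _ _).1 hp')
  cover := fun p hp => by
    obtain ⟨d, hd, hpd⟩ := G.cover (p + z) (by simpa using hp)
    exact ⟨d, hd, (pvor_delT_shift _ _ _ _ _).2 hpd⟩

theorem pvor_period {H : Set (ℤ × ℤ)} {e : (ℤ × ℤ) × (ℤ × ℤ)} (hH : H.Finite) (he : e ∈ pvtrBd H) :
    ∃ n, 0 < n ∧ (pvtrStep H)^[n] e = e ∧ ∀ a < n, ∀ b < n, (pvtrStep H)^[a] e = (pvtrStep H)^[b] e → a = b := by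
  classical
  have hex := pvtr_periodic hH he
  refine ⟨Nat.find hex, (Nat.find_spec hex).1, (Nat.find_spec hex).2, ?_⟩
  have key : ∀ a b, a < b → b < Nat.find hex → (pvtrStep H)^[a] e ≠ (pvtrStep H)^[b] e := by
    intro a b hab hb h
    have h1 : (pvtrStep H)^[a] e = (pvtrStep H)^[a] ((pvtrStep H)^[b - a] e) := by
      rw [← Function.iterate_add_apply, Nat.add_sub_cancel' hab.le]; exact h
    have h2 := pvtr_iter_inj he (pvtr_iter_mem he (b - a)) a h1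
    exact Nat.find_min hex (m := b - a) (by omega) ⟨by omega, h2.symm⟩
  intro a ha b hb h
  rcases lt_trichotomy a b with hab | hab | hab
  · exact absurd h (key a b hab hb)
  · exact hab
  · exact absurd h.symm (key b a hab ha)

theorem pvor_box_norm {k : ℕ} {δ : ℝ} (hδ : 0 < δ) {c : ℤ × ℤ} (hc : c ∈ pvmnBox k) {p : ℂ} (hp : p ∈ pvtSq δ c) : ‖p‖ ^ 2 ≤ 2 * (((k : ℝ) + 1) * δ) ^ 2 := by
  obtain ⟨c1, c2, c3, c4⟩ := hc
  obtain ⟨p1, p2, p3, p4⟩ := hp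
  have c1' : -(k : ℝ) ≤ (c.1 : ℝ) := by exact_mod_cast c1
  have c2' : (c.1 : ℝ) ≤ (k : ℝ) := by exact_mod_cast c2
  have c3' : -(k : ℝ) ≤ (c.2 : ℝ) := by exact_mod_cast c3
  have c4' : (c.2 : ℝ) ≤ (k : ℝ) := by exact_mod_cast c4
  have hk : (0 : ℝ) ≤ k := Nat.cast_nonneg k
  have a1 : |p.re| ≤ ((k : ℝ) + 1) * δ := by
    rw [abs_le]; constructor <;> nlinarith
  have a2 : |p.im| ≤ ((k : ℝ) + 1) * δ := by
    rw [abs_le]; constructor <;> nlinarith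
  have b1 : p.re ^ 2 ≤ (((k : ℝ) + 1) * δ) ^ 2 := by rw [← sq_abs p.re]; exact pow_le_pow_left₀ (abs_nonneg _) a1 2
  have b2 : p.im ^ 2 ≤ (((k : ℝ) + 1) * δ) ^ 2 := by rw [← sq_abs p.im]; exact pow_le_pow_left₀ (abs_nonneg _) a2 2
  rw [Complex.sq_norm, Complex.normSq_apply]
  nlinarith

theorem pvor_W_iff {X : Type} (𝔅 : PvBulk X) {Y : Set ℂ} {z zi : ℂ} {ρ : ℝ} (hzi : ρ < ‖zi - z‖) (v : 𝔅.V Y) : v ∈ pvorW 𝔅 Y z ρ ↔ ‖𝔅.posF Y zi v - z‖ ≤ ρ := by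
  unfold pvorW PvBulk.posF
  constructor
  · rintro ⟨p, hp, h⟩
    rw [hp]; exact h
  · intro h
    rcases hl : 𝔅.lab Y v with p | x
    · rw [hl] at h
      exact ⟨p, hl, h⟩
    · rw [hl] at h
      exact absurd h (not_le.2 hzi)


/-- numbers: a point of the box `nBx + 5` is well inside the window -/
theorem pvor_num {x δ μ ρ : ℝ} (hx : 20 ≤ x) (hδ : 0 < δ) (hμ : 0 ≤ μ) (hμδ : 8 * μ ≤ δ) (hρ : 3 * ((x + 5) * δ) < 2 * ρ) {r : ℝ} (hr0 : 0 ≤ r) (hr : r ^ 2 ≤ 2 * ((x + 5 + 1) * δ) ^ 2) : r + 3 * μ < ρ := by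
  by_contra hcon
  have h1 : (1.5 * x + 7.125) * δ ≤ r := by nlinarith
  have h2 : ((1.5 * x + 7.125) * δ) ^ 2 ≤ r ^ 2 := pow_le_pow_left₀ (by positivity) h1 2
  have h3 : 0 < δ ^ 2 := by positivity
  nlinarith [mul_pos h3 (show (0:ℝ) < 0.25 * x ^ 2 - 2.625 * x - 21.3 by nlinarith)]

/-! ## 6. M11 -/

section main

variable {X : Type} (𝔅 : PvBulk X) {Y K : Set ℂ} {z zi : ℂ} {t : ℕ → ℕ} {δ μ hh a b ρ d0 e0 d1 e1 : ℝ} {𝔑 : PvmnNum} {τ : PvmnType}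

/-- **ONE SIDE** (LEAF, 205 (R2)): `pvge_poly_K1_N8`, `pvge_bulk_chain`, `pvge_one_side_right` -/
theorem pvor_one_side (ok : 𝔅.Ok Y K) (lf : VorLF Y) (hbd : ∀ v ∈ K, Bornology.IsBounded (vorCell Y v)) (c : (𝔅.T Y).Cyc) (hδ : 0 < δ) (hμδ : μ ≤ δ) {E : Set (ℤ × ℤ)} (hE : TscConn pvtG8 E)
    (hEK : ∀ p, p - z ∈ pvtU δ (pvtwN 2 E) → p ∈ K) (dense : ∀ p, p - z ∈ pvtU δ (pvtwN 1 E) → ∃ u ∈ Y, ‖p - u‖ ≤ μ)
    (miss : ∀ i p, 𝔅.lab Y ((𝔅.T Y).src (c.e i)) = Sum.inl p → p - z ∉ pvtU δ (pvtwN 2 E))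
    {w : 𝔅.V Y} {q : ℂ} (hw : 𝔅.lab Y w = Sum.inl q) (hq : q - z ∈ pvtU δ (pvtwN 1 E)) (hwR : w ∈ (𝔅.T Y).Int c.Right) :
    ∀ v p, 𝔅.lab Y v = Sum.inl p → p - z ∈ pvtU δ (pvtwN 1 E) → v ∈ (𝔅.T Y).Int c.Right := by
  intro v p hv hp
  have hYq : q ∈ Y := ok.site w q hw
  have hYp : p ∈ Y := ok.site v p hv
  have hE1 : TscConn pvtG8 (pvtwN 1 E) := by
    rw [pvtw_N_one]
    have hsub : E ⊆ pvtN8 E := fun x hx => ⟨x, hx, Or.inl rfl⟩
    have key : ∀ u ∈ pvtN8 E, ∃ x ∈ E, TscR pvtG8 (pvtN8 E) u x := by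
      rintro u ⟨x, hx, rfl | h⟩
      · exact ⟨u, hx, tsc_R_refl _⟩
      · exact ⟨x, hx, tsc_R_step h.symm ⟨x, hx, Or.inr h⟩ (hsub hx)⟩
    intro u hu u' hu'
    obtain ⟨x, hx, h1⟩ := key u hu
    obtain ⟨x', hx', h2⟩ := key u' hu'
    exact tsc_R_trans h1 (tsc_R_trans (tsc_R_mono hsub (hE x hx x' hx')) (tsc_R_symm h2))
  have hSc : IsPreconnected {x : ℂ | x - z ∈ pvtU δ (pvtwN 1 E)} := by
    have e : {x : ℂ | x - z ∈ pvtU δ (pvtwN 1 E)} = (fun x => x + z) '' pvtU δ (pvtwN 1 E) := by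
      ext x
      constructor
      · intro hx
        exact ⟨x - z, hx, by simp⟩
      · rintro ⟨y, hy, rfl⟩
        simpa using hy
    rw [e]
    exact (pvt_U_conn hδ hE1).image _ (by fun_prop)
  have hd : VorDense Y {x : ℂ | x - z ∈ pvtU δ (pvtwN 1 E)} μ := fun x hx => dense x hx
  have ch := pvge_K1 lf hSc hd hYq hq hYp hp
  have hW : Y ∩ vorNbd {x : ℂ | x - z ∈ pvtU δ (pvtwN 1 E)} μ ⊆ {x : ℂ | x - z ∈ pvtU δ (pvtwN 2 E)} := by
    rintro x ⟨-, y, hy, hxy⟩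
    have h1 : x - z ∈ vorNbd (pvtU δ (pvtwN 1 E)) μ := ⟨y - z, hy, by simpa using hxy⟩
    have h2 := pvge_nbd_N8 hδ hμδ h1
    rw [← pvtw_N_succ] at h2
    exact h2
  have hq2 : q - z ∈ pvtU δ (pvtwN 2 E) := pvt_U_mono (pvtw_N_mono (by norm_num) Set.Subset.rfl) hq
  obtain ⟨v', hv', hch⟩ := pvge_bulk_chain 𝔅 ok lf hbd (W := {x : ℂ | x - z ∈ pvtU δ (pvtwN 2 E)}) (fun x hx => hEK x hx) (hEK q hq2) hw (ch.mono hW)
  have e : v' = v := ok.inj (hv'.trans hv.symm)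
  subst e
  refine pvge_sep_right ok.sph c hwR (ReflTransGen.mono ?_ _ _ hch)
  rintro x y ⟨h1, p', hp', hl⟩
  refine ⟨h1, ?_⟩
  rintro ⟨i, rfl⟩
  exact miss i p' hl hp'

/-- a segment which meets the carrier of a step comes `μ`-close to the loop segment -/
theorem pvor_carrier_near {V D : Type} {T : PvMap V D} {pos : V → ℂ} {W : Set V} {z₀ : ℂ} {ρ μ : ℝ} (G : PvorWin T pos W z₀ ρ μ) {ζ : ℕ → ℂ} {dd : ℕ → D}
    (hdd : ∀ k, pvorIn T W (dd k) ∧ ζ k ∈ T.tri pos (dd k)) {m : ℕ} {S : Set ℂ} (h : ¬ Disjoint S (pvorS ζ (fun k => pvorB T pos (dd k)) m)) :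
    ∃ x ∈ S, ∃ y ∈ segment ℝ (ζ m) (ζ (m + 1)), ‖x - y‖ ≤ μ := by
  have hμ : 0 ≤ μ := (norm_nonneg _).trans (pvor_face_diam G (hdd 0).1 (hdd 0).2 (hdd 0).2)
  have hq : ∀ k, pvorB T pos (dd k) ∈ Metric.closedBall (ζ k) μ := fun k => by
    rw [mem_closedBall_iff_norm]
    exact pvor_face_diam G (hdd k).1 (plg_trio_sub_tri T pos _ (pvor_bary_mem G (hdd k).1)) (hdd k).2
  have hs : ∀ k, ζ k ∈ Metric.closedBall (ζ k) μ := fun k => Metric.mem_closedBall_self hμ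
  obtain ⟨x, hxS, hx⟩ := Set.not_disjoint_iff.1 h
  rcases hx with (hx | hx) | hx
  · exact ⟨x, hxS, ζ m, left_mem_segment ℝ _ _, mem_closedBall_iff_norm.1 ((convex_closedBall (ζ m) μ).segment_subset (hq m) (hs m) hx)⟩
  · exact ⟨x, hxS, x, hx, by simpa using hμ⟩
  · exact ⟨x, hxS, ζ (m + 1), right_mem_segment ℝ _ _, mem_closedBall_iff_norm.1 ((convex_closedBall (ζ (m + 1)) μ).segment_subset (hs (m + 1)) (hq (m + 1)) hx)⟩


/-- **M11 = P11' (ruling P5: existence)**: a rim of a completion which fits the type `τ` at `z` has a positive lane `Dr⁻ → Dr⁺` of the contour of `K3` all of whose sites (1-collar included) lie strictly on its RIGHT -/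
theorem pvor_exists (ok : 𝔅.Ok Y K) (adm : 𝔅.Adm Y) (lf : VorLF Y) (gp : VorGP Y) (hbd : ∀ v ∈ K, Bornology.IsBounded (vorCell Y v)) (c : (𝔅.T Y).Cyc)
    (I : PvmfIn (𝔅.enc Y zi c) z t μ hh a b ρ d0 e0 d1 e1) (N : PvmfNum δ μ hh a b ρ d0 e0 d1 e1 (δ * 𝔑.rB)) (R : PvmfRel 𝔑 δ μ hh b ρ e0 d1) (hN : PvmnNumOK 𝔑) (hτ : PvmnIsType 𝔑 τ)
    (F : PvmnFits τ δ (fun i => (𝔅.enc Y zi c).v i - z) (fun k => t k.1)) (hμ : 0 < μ) (hμδ : 8 * μ ≤ δ) (hK : Metric.closedBall z (3 * ρ) ⊆ K) (hzi : ρ < ‖zi - z‖)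
    (dense : VorDense Y (Metric.closedBall z (3 * ρ)) μ) (fine : L9Fine Y (Metric.closedBall z ρ) μ) :
    ∃ ln : ((ℤ × ℤ) × (ℤ × ℤ)) × ℕ, PvmnLaneR τ ln.1 ln.2 ∧
      ∀ v p, 𝔅.lab Y v = Sum.inl p → p - z ∈ pvtU δ (pvtwN 1 (pvlpR τ ln)) → v ∈ (𝔅.T Y).Int c.Right := by
  classical
  have hδ := N.δ_pos
  have hx : (20 : ℝ) ≤ (𝔑.nBx : ℝ) := by
    have h1 := hN.nC_nF
    have h2 := hN.nF_nBx
    have : 20 ≤ 𝔑.nBx := by omega
    exact_mod_cast this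
  have hρgt := R.ρ_gt
  have hρ8 : 8 * δ < ρ := by nlinarith
  have hfinD : Finite (𝔅.D Y) := adm.2
  have hfin : c.Left.Finite := Set.toFinite _
  -- the window
  have G0 : PvorWin (𝔅.T Y) (𝔅.posF Y zi) (pvorW 𝔅 Y z ρ) z ρ μ :=
    pvor_win_of_ok 𝔅 ok lf gp hμ ((Metric.closedBall_subset_closedBall (by linarith)).trans hK) (fun p hp => dense p (Metric.closedBall_subset_closedBall (by linarith) hp)) fine
  have G := pvor_win_shift G0
  set pos' : 𝔅.V Y → ℂ := fun v => 𝔅.posF Y zi v - z with hpos'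
  set W := pvorW 𝔅 Y z ρ with hW
  have hPv : ∀ i, (𝔅.enc Y zi c).v i - z = pos' ((𝔅.T Y).src (c.e i)) := fun i => rfl
  have hlen : (𝔅.enc Y zi c).len = c.n := rfl
  -- the loop
  obtain ⟨e₀, he₀, -⟩ := hτ.doorp
  obtain ⟨n, hn, hper, hinj⟩ := pvor_period (pvmn_K3_finite τ) he₀
  set ζ := pvorZ δ (pvmnK3 τ) e₀ with hζ
  have hζp : ∀ m, ζ (m + n) = ζ m := fun m => by
    simp only [hζ, pvorZ]
    rw [Function.iterate_add_apply, hper]
  have hcell : ∀ m, ((pvtrStep (pvmnK3 τ))^[m] e₀).2 ∈ pvmnBox (𝔑.nBx + 5) := fun m =>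
    pvmn_N_box (pvmn_cells_box hτ) (pvmn_K3_dart (pvtr_iter_mem he₀ m)).2
  have hbox : ∀ p : ℂ, p ∈ pvtU δ (pvmnBox (𝔑.nBx + 5)) → ‖p‖ + 3 * μ < ρ := by
    intro p hp
    obtain ⟨cc, hcc, hpc⟩ := Set.mem_iUnion₂.1 hp
    have := pvor_box_norm hδ hcc hpc
    push_cast at this
    exact pvor_num hx hδ hμ.le hμδ hρgt (norm_nonneg p) this
  have hζn : ∀ k, ‖ζ k - 0‖ + 3 * μ < ρ := fun k => by
    rw [sub_zero]
    exact hbox _ (Set.mem_iUnion₂.2 ⟨_, hcell k, pvt_sq_ctr hδ.le⟩)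
  -- the faces
  have hcov : ∀ k, ∃ d, pvorIn (𝔅.T Y) W d ∧ ζ k ∈ (𝔅.T Y).tri pos' d := fun k => G.cover (ζ k) (by have := hζn k; linarith)
  choose dd0 hdd0 using hcov
  set dd : ℕ → 𝔅.D Y := fun k => dd0 (k % n) with hdd_def
  have hdp : ∀ m, dd (m + n) = dd m := fun m => by simp only [hdd_def, Nat.add_mod_right]
  have hζmod : ∀ k, ζ (k % n) = ζ k := fun k => (show Function.Periodic ζ n from hζp).map_mod_nat k
  have hdd : ∀ k, pvorIn (𝔅.T Y) W (dd k) ∧ ζ k ∈ (𝔅.T Y).tri pos' (dd k) := fun k => ⟨(hdd0 (k % n)).1, by rw [← hζmod k]; exact (hdd0 (k % n)).2⟩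
  -- the cut
  have hM1 := I.marks 1 le_rfl (by norm_num)
  have ho : t 5 ≤ c.n := hM1.le_mp.trans hM1.mp_le
  have hhρ : hh ≤ ρ := by
    have := N.e1_lt; have := N.ρ_ge; have := N.d1_le; have := N.e0_le; have := N.d0_le; have := N.d0_ge; have := N.μ_nn
    nlinarith
  have hoW : (𝔅.T Y).src (c.e (t 5)) ∈ W := (pvor_W_iff 𝔅 hzi _).2 (I.near.trans hhρ)
  have hq5 : τ.q 5 ∈ pvmnCells τ 0 9 := ⟨5, by simp, by simp, hτ.q_start 5⟩
  have hcH : pvtwN 1 {τ.q 5} ⊆ pvmnK3 τ := (pvtw_N_mono (by norm_num) (Set.singleton_subset_iff.2 hq5)).trans pvt_hull_sub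
  have hΘ1 : pvorTh ζ 0 n (pos' ((𝔅.T Y).src (c.e (t 5)))) = 1 :=
    pvor_theta_in (pvmn_K3_finite τ) (pvmn_K3_conn hτ) (pvmn_K3_compl_conn τ) he₀ hn hper hinj hδ hcH (F.marks 5)
  have hΘ0 : ∀ p : ℂ, ρ - μ < ‖p - 0‖ → pvorTh ζ 0 n p = 0 := by
    intro p hp
    rw [sub_zero] at hp
    refine pvor_theta_out he₀ hper hδ (pvmn_K3_box hτ) (fun hmem => ?_)
    have := hbox p hmem
    linarith
  have h0 : (𝔅.T Y).src (c.e 0) ∈ W → ρ - μ < ‖pos' ((𝔅.T Y).src (c.e 0)) - 0‖ := fun _ => by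
    rw [sub_zero]
    have : ρ ≤ ‖pos' ((𝔅.T Y).src (c.e 0))‖ := I.end0
    linarith
  obtain ⟨aa, bb, hj, hsum, ha, hb⟩ := pvor_pot ok.sph c hfin G ζ dd hζp hdp hdd hζn ho hoW hΘ1 hΘ0 h0
  -- crossings only in the doors
  have hWρ : ∀ v, v ∈ W → ‖𝔅.posF Y zi v - z‖ ≤ ρ := fun v hv => (pvor_W_iff 𝔅 hzi v).1 hv
  have hseg : ∀ i, (𝔅.T Y).seg pos' (c.e i) = segment ℝ ((𝔅.enc Y zi c).v i - z) ((𝔅.enc Y zi c).v (i + 1) - z) := fun i => by
    show segment ℝ (pos' ((𝔅.T Y).src (c.e i))) (pos' ((𝔅.T Y).tgt (c.e i))) = _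
    rw [c.chain i]; rfl
  have hstep : ∀ m, (pvtrStep (pvmnK3 τ))^[m + 1] e₀ = pvtrStep (pvmnK3 τ) ((pvtrStep (pvmnK3 τ))^[m] e₀) := fun m => Function.iterate_succ_apply' _ _ _
  have ha' : ∀ m, aa m ≠ 0 → ((pvtrStep (pvmnK3 τ))^[m] e₀).2 ∈ pvmnDrp τ ∧ ((pvtrStep (pvmnK3 τ))^[m + 1] e₀).2 ∈ pvmnDrp τ := by
    intro m hm
    obtain ⟨i, hi1, hi2, hs, ht, hnd⟩ := ha m hm
    obtain ⟨x, hxS, y, hy, hxy⟩ := pvor_carrier_near G hdd hnd
    rw [hseg i] at hxS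
    rw [c.chain i] at ht
    rw [hstep m]
    refine pvor_cross_fwd I N R hτ F hi1 hi2 (hWρ _ hs) (hWρ _ ht) (pvtr_iter_mem he₀ m) hxS ?_ hxy
    have : ζ (m + 1) = pvtCtr δ (pvtrStep (pvmnK3 τ) ((pvtrStep (pvmnK3 τ))^[m] e₀)).2 := by simp only [hζ, pvorZ]; rw [hstep m]
    rw [← this]; exact hy
  have hb' : ∀ m, bb m ≠ 0 → ((pvtrStep (pvmnK3 τ))^[m] e₀).2 ∈ pvmnDrm τ ∧ ((pvtrStep (pvmnK3 τ))^[m + 1] e₀).2 ∈ pvmnDrm τ := by
    intro m hm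
    obtain ⟨i, hi1, hs, ht, hnd⟩ := hb m hm
    obtain ⟨x, hxS, y, hy, hxy⟩ := pvor_carrier_near G hdd hnd
    rw [hseg i] at hxS
    rw [c.chain i] at ht
    rw [hstep m]
    refine pvor_cross_bwd I N R hτ F hi1 (hWρ _ hs) (hWρ _ ht) (pvtr_iter_mem he₀ m) hxS ?_ hxy
    have : ζ (m + 1) = pvtCtr δ (pvtrStep (pvmnK3 τ) ((pvtrStep (pvmnK3 τ))^[m] e₀)).2 := by simp only [hζ, pvorZ]; rw [hstep m]
    rw [← this]; exact hy
  -- the last door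
  obtain ⟨m₀, l, hlane, hu0⟩ := pvor_last_door he₀ hn hper (pvmn_doors_disj hτ) (fun m => pvorU c.Left (dd m)) aa bb
    (fun m => by unfold pvorU; split_ifs <;> simp) (fun m => by simp only [hdp]) hj ha' hb' hsum
  refine ⟨((pvtrStep (pvmnK3 τ))^[m₀] e₀, l), hlane, ?_⟩
  set ln : ((ℤ × ℤ) × (ℤ × ℤ)) × ℕ := ((pvtrStep (pvmnK3 τ))^[m₀] e₀, l) with hln
  have hl : PvmnLaneR τ ln.1 ln.2 := hlane
  obtain ⟨hl1, -, -⟩ := pvtr_lane_ends hlane (pvmn_doors_disj hτ) (pvmn_doors_nadj hτ)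
  -- one site of the lane on the right
  have hw1 : ((pvtrStep (pvmnK3 τ))^[m₀ + 1] e₀).2 ∈ pvlpR τ ln := ⟨1, one_pos, hl1, by
    show _ = ((pvtrStep (pvmnK3 τ))^[1] ((pvtrStep (pvmnK3 τ))^[m₀] e₀)).2
    rw [← Function.iterate_add_apply, add_comm]⟩
  have hd1 : dd (m₀ + 1) ∉ c.Left := by
    have := hu0 1 hl1.le
    intro hmem
    simp only [pvorU, if_pos hmem] at this
    exact one_ne_zero this
  obtain ⟨⟨hs1, -, -⟩, hz1⟩ := hdd (m₀ + 1)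
  obtain ⟨p₁, hp₁, -⟩ := hs1
  have hpos1 : pos' ((𝔅.T Y).src (dd (m₀ + 1))) = p₁ - z := by simp only [hpos', PvBulk.posF, hp₁, Sum.elim_inl, id]
  have hnear1 : ‖(p₁ - z) - ζ (m₀ + 1)‖ ≤ μ := by
    rw [← hpos1]
    exact pvor_face_diam G (hdd (m₀ + 1)).1 (dela_mem_a (G.orient _ (hdd (m₀ + 1)).1).le) hz1
  have hsq1 : p₁ - z ∈ pvtSq δ ((pvtrStep (pvmnK3 τ))^[m₀ + 1] e₀).2 := by
    have h1 := (Complex.abs_re_le_norm _).trans hnear1
    have h2 := (Complex.abs_im_le_norm _).trans hnear1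
    simp only [hζ, pvorZ, pvtCtr, Complex.sub_re, Complex.sub_im] at h1 h2
    rw [abs_le] at h1 h2
    refine ⟨?_, ?_, ?_, ?_⟩ <;> simp only [Complex.sub_re, Complex.sub_im] <;> nlinarith [h1.1, h1.2, h2.1, h2.2]
  have hE01 : pvlpR τ ln ⊆ pvtwN 1 (pvlpR τ ln) := by
    conv_lhs => rw [← pvtw_N_zero (E := pvlpR τ ln)]
    exact pvtw_N_mono (by norm_num) le_rfl
  have hE12 : pvtwN 1 (pvlpR τ ln) ⊆ pvtwN 2 (pvlpR τ ln) := pvtw_N_mono (by norm_num) le_rfl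
  have hq1 : p₁ - z ∈ pvtU δ (pvtwN 1 (pvlpR τ ln)) := Set.mem_iUnion₂.2 ⟨_, hE01 hw1, hsq1⟩
  have miss : ∀ i p, 𝔅.lab Y ((𝔅.T Y).src (c.e i)) = Sum.inl p → p - z ∉ pvtU δ (pvtwN 2 (pvlpR τ ln)) := by
    intro i p hp
    have h := pvor_lane_miss I N R hτ F hl (i % c.n) (Nat.mod_lt _ (pl_cyc_pos c)).le
    have e1 : (𝔅.enc Y zi c).v (i % c.n) = p := by
      show 𝔅.posF Y zi ((𝔅.T Y).src (c.e (i % c.n))) = p
      rw [pl_cyc_mod, PvBulk.posF, hp]; rfl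
    rwa [e1] at h
  have hwR : (𝔅.T Y).src (dd (m₀ + 1)) ∈ (𝔅.T Y).Int c.Right := by
    rcases pl_jordan_vert ok.sph c ((𝔅.T Y).src (dd (m₀ + 1))) with h | h | h
    · obtain ⟨i, hi⟩ := h
      exact absurd (Set.mem_iUnion₂.2 ⟨_, hE12 (hE01 hw1), hsq1⟩) (miss i p₁ (by rw [hi]; exact hp₁))
    · exact absurd (h _ rfl) hd1
    · exact h
  -- one side
  have hR5 : pvlpR τ ln ⊆ pvmnBox (𝔑.nBx + 5) := by
    rintro w ⟨m, -, -, rfl⟩
    show ((pvtrStep (pvmnK3 τ))^[m] ((pvtrStep (pvmnK3 τ))^[m₀] e₀)).2 ∈ _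
    rw [← Function.iterate_add_apply]
    exact hcell _
  have hball : ∀ p : ℂ, p - z ∈ pvtU δ (pvtwN 2 (pvlpR τ ln)) → p ∈ Metric.closedBall z (3 * ρ) := by
    intro p hp
    obtain ⟨cc, hcc, hpc⟩ := Set.mem_iUnion₂.1 hp
    have h7 := pvor_box_norm hδ (pvmn_N_box hR5 hcc) hpc
    push_cast at h7
    rw [mem_closedBall_iff_norm]
    have h8 : 0 ≤ ‖p - z‖ := norm_nonneg _
    by_contra hcon
    have h9 : 4.5 * (((𝔑.nBx : ℝ) + 5) * δ) < ‖p - z‖ := by nlinarith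
    have h10 : (4.5 * (((𝔑.nBx : ℝ) + 5) * δ)) ^ 2 < ‖p - z‖ ^ 2 := pow_lt_pow_left₀ h9 (by positivity) (by norm_num)
    have h11 : 0 < δ ^ 2 := by positivity
    nlinarith [mul_pos h11 (show (0:ℝ) < 20.25 * ((𝔑.nBx : ℝ) + 5) ^ 2 - 2 * ((𝔑.nBx : ℝ) + 5 + 2 + 1) ^ 2 by nlinarith)]
  exact pvor_one_side 𝔅 ok lf hbd c hδ (by linarith) (pvt_conn_tri8 (pvtr_arc_conn hlane.mem)) (fun p hp => hK (hball p hp))
    (fun p hp => dense p (hball p (pvt_U_mono hE12 hp))) miss hp₁ hq1 hwR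


/-- **M11, FINAL FORM (ruling P5bis of 273)**: THE lane of the type (`pvlpE τ`; unique by `pvri_laneR_unique` of 205) lies strictly on the RIGHT of every fitting rim of every completion -/
theorem pvor_right (ok : 𝔅.Ok Y K) (adm : 𝔅.Adm Y) (lf : VorLF Y) (gp : VorGP Y) (hbd : ∀ v ∈ K, Bornology.IsBounded (vorCell Y v)) (c : (𝔅.T Y).Cyc)
    (I : PvmfIn (𝔅.enc Y zi c) z t μ hh a b ρ d0 e0 d1 e1) (N : PvmfNum δ μ hh a b ρ d0 e0 d1 e1 (δ * 𝔑.rB)) (R : PvmfRel 𝔑 δ μ hh b ρ e0 d1) (hN : PvmnNumOK 𝔑) (hτ : PvmnIsType 𝔑 τ)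
    (F : PvmnFits τ δ (fun i => (𝔅.enc Y zi c).v i - z) (fun k => t k.1)) (hμ : 0 < μ) (hμδ : 8 * μ ≤ δ) (hK : Metric.closedBall z (3 * ρ) ⊆ K) (hzi : ρ < ‖zi - z‖)
    (dense : VorDense Y (Metric.closedBall z (3 * ρ)) μ) (fine : L9Fine Y (Metric.closedBall z ρ) μ) {ln : ((ℤ × ℤ) × (ℤ × ℤ)) × ℕ} (hl : PvmnLaneR τ ln.1 ln.2) :
    ∀ v p, 𝔅.lab Y v = Sum.inl p → p - z ∈ pvtU δ (pvtwN 1 (pvlpR τ ln)) → v ∈ (𝔅.T Y).Int c.Right := by
  obtain ⟨ln', hl', h⟩ := pvor_exists 𝔅 ok adm lf gp hbd c I N R hN hτ F hμ hμδ hK hzi dense fine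
  obtain ⟨e1, e2⟩ := pvri_laneR_unique hτ hl hl'
  have : ln = ln' := Prod.ext e1 e2
  rw [this]; exact h

/-- **the package of the assembly**: the contour orbit of `K3`, a face at each loop vertex, the jumps of the side -/
theorem pvor_core (ok : 𝔅.Ok Y K) (adm : 𝔅.Adm Y) (lf : VorLF Y) (gp : VorGP Y) (hbd : ∀ v ∈ K, Bornology.IsBounded (vorCell Y v)) (c : (𝔅.T Y).Cyc)
    (I : PvmfIn (𝔅.enc Y zi c) z t μ hh a b ρ d0 e0 d1 e1) (N : PvmfNum δ μ hh a b ρ d0 e0 d1 e1 (δ * 𝔑.rB)) (R : PvmfRel 𝔑 δ μ hh b ρ e0 d1) (hN : PvmnNumOK 𝔑) (hτ : PvmnIsType 𝔑 τ)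
    (F : PvmnFits τ δ (fun i => (𝔅.enc Y zi c).v i - z) (fun k => t k.1)) (hμ : 0 < μ) (hμδ : 8 * μ ≤ δ) (hK : Metric.closedBall z (3 * ρ) ⊆ K) (hzi : ρ < ‖zi - z‖)
    (dense : VorDense Y (Metric.closedBall z (3 * ρ)) μ) (fine : L9Fine Y (Metric.closedBall z ρ) μ) :
    ∃ (e₀ : (ℤ × ℤ) × (ℤ × ℤ)) (n : ℕ) (dd : ℕ → 𝔅.D Y) (aa bb : ℕ → ℤ), e₀ ∈ pvtrBd (pvmnK3 τ) ∧ 0 < n ∧ (pvtrStep (pvmnK3 τ))^[n] e₀ = e₀ ∧ (∀ m, dd (m + n) = dd m) ∧
      PvorWin (𝔅.T Y) (fun v => 𝔅.posF Y zi v - z) (pvorW 𝔅 Y z ρ) 0 ρ μ ∧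
      (∀ k, pvorIn (𝔅.T Y) (pvorW 𝔅 Y z ρ) (dd k) ∧ pvorZ δ (pvmnK3 τ) e₀ k ∈ (𝔅.T Y).tri (fun v => 𝔅.posF Y zi v - z) (dd k)) ∧
      (∀ m, pvorU c.Left (dd (m + 1)) - pvorU c.Left (dd m) = aa m + bb m) ∧ ∑ m ∈ Finset.range n, aa m = 1 ∧
      (∀ m, aa m ≠ 0 → ((pvtrStep (pvmnK3 τ))^[m] e₀).2 ∈ pvmnDrp τ ∧ ((pvtrStep (pvmnK3 τ))^[m + 1] e₀).2 ∈ pvmnDrp τ) ∧
      (∀ m, bb m ≠ 0 → ((pvtrStep (pvmnK3 τ))^[m] e₀).2 ∈ pvmnDrm τ ∧ ((pvtrStep (pvmnK3 τ))^[m + 1] e₀).2 ∈ pvmnDrm τ) := by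
  classical
  have hδ := N.δ_pos
  have hx : (20 : ℝ) ≤ (𝔑.nBx : ℝ) := by
    have h1 := hN.nC_nF
    have h2 := hN.nF_nBx
    have : 20 ≤ 𝔑.nBx := by omega
    exact_mod_cast this
  have hρgt := R.ρ_gt
  have hρ8 : 8 * δ < ρ := by nlinarith
  have hfinD : Finite (𝔅.D Y) := adm.2
  have hfin : c.Left.Finite := Set.toFinite _
  -- the window
  have G0 : PvorWin (𝔅.T Y) (𝔅.posF Y zi) (pvorW 𝔅 Y z ρ) z ρ μ :=
    pvor_win_of_ok 𝔅 ok lf gp hμ ((Metric.closedBall_subset_closedBall (by linarith)).trans hK) (fun p hp => dense p (Metric.closedBall_subset_closedBall (by linarith) hp)) fine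
  have G := pvor_win_shift G0
  set pos' : 𝔅.V Y → ℂ := fun v => 𝔅.posF Y zi v - z with hpos'
  set W := pvorW 𝔅 Y z ρ with hW
  have hPv : ∀ i, (𝔅.enc Y zi c).v i - z = pos' ((𝔅.T Y).src (c.e i)) := fun i => rfl
  have hlen : (𝔅.enc Y zi c).len = c.n := rfl
  -- the loop
  obtain ⟨e₀, he₀, -⟩ := hτ.doorp
  obtain ⟨n, hn, hper, hinj⟩ := pvor_period (pvmn_K3_finite τ) he₀
  set ζ := pvorZ δ (pvmnK3 τ) e₀ with hζ
  have hζp : ∀ m, ζ (m + n) = ζ m := fun m => by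
    simp only [hζ, pvorZ]
    rw [Function.iterate_add_apply, hper]
  have hcell : ∀ m, ((pvtrStep (pvmnK3 τ))^[m] e₀).2 ∈ pvmnBox (𝔑.nBx + 5) := fun m =>
    pvmn_N_box (pvmn_cells_box hτ) (pvmn_K3_dart (pvtr_iter_mem he₀ m)).2
  have hbox : ∀ p : ℂ, p ∈ pvtU δ (pvmnBox (𝔑.nBx + 5)) → ‖p‖ + 3 * μ < ρ := by
    intro p hp
    obtain ⟨cc, hcc, hpc⟩ := Set.mem_iUnion₂.1 hp
    have := pvor_box_norm hδ hcc hpc
    push_cast at this
    exact pvor_num hx hδ hμ.le hμδ hρgt (norm_nonneg p) this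
  have hζn : ∀ k, ‖ζ k - 0‖ + 3 * μ < ρ := fun k => by
    rw [sub_zero]
    exact hbox _ (Set.mem_iUnion₂.2 ⟨_, hcell k, pvt_sq_ctr hδ.le⟩)
  -- the faces
  have hcov : ∀ k, ∃ d, pvorIn (𝔅.T Y) W d ∧ ζ k ∈ (𝔅.T Y).tri pos' d := fun k => G.cover (ζ k) (by have := hζn k; linarith)
  choose dd0 hdd0 using hcov
  set dd : ℕ → 𝔅.D Y := fun k => dd0 (k % n) with hdd_def
  have hdp : ∀ m, dd (m + n) = dd m := fun m => by simp only [hdd_def, Nat.add_mod_right]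
  have hζmod : ∀ k, ζ (k % n) = ζ k := fun k => (show Function.Periodic ζ n from hζp).map_mod_nat k
  have hdd : ∀ k, pvorIn (𝔅.T Y) W (dd k) ∧ ζ k ∈ (𝔅.T Y).tri pos' (dd k) := fun k => ⟨(hdd0 (k % n)).1, by rw [← hζmod k]; exact (hdd0 (k % n)).2⟩
  -- the cut
  have hM1 := I.marks 1 le_rfl (by norm_num)
  have ho : t 5 ≤ c.n := hM1.le_mp.trans hM1.mp_le
  have hhρ : hh ≤ ρ := by
    have := N.e1_lt; have := N.ρ_ge; have := N.d1_le; have := N.e0_le; have := N.d0_le; have := N.d0_ge; have := N.μ_nn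
    nlinarith
  have hoW : (𝔅.T Y).src (c.e (t 5)) ∈ W := (pvor_W_iff 𝔅 hzi _).2 (I.near.trans hhρ)
  have hq5 : τ.q 5 ∈ pvmnCells τ 0 9 := ⟨5, by simp, by simp, hτ.q_start 5⟩
  have hcH : pvtwN 1 {τ.q 5} ⊆ pvmnK3 τ := (pvtw_N_mono (by norm_num) (Set.singleton_subset_iff.2 hq5)).trans pvt_hull_sub
  have hΘ1 : pvorTh ζ 0 n (pos' ((𝔅.T Y).src (c.e (t 5)))) = 1 :=
    pvor_theta_in (pvmn_K3_finite τ) (pvmn_K3_conn hτ) (pvmn_K3_compl_conn τ) he₀ hn hper hinj hδ hcH (F.marks 5)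
  have hΘ0 : ∀ p : ℂ, ρ - μ < ‖p - 0‖ → pvorTh ζ 0 n p = 0 := by
    intro p hp
    rw [sub_zero] at hp
    refine pvor_theta_out he₀ hper hδ (pvmn_K3_box hτ) (fun hmem => ?_)
    have := hbox p hmem
    linarith
  have h0 : (𝔅.T Y).src (c.e 0) ∈ W → ρ - μ < ‖pos' ((𝔅.T Y).src (c.e 0)) - 0‖ := fun _ => by
    rw [sub_zero]
    have : ρ ≤ ‖pos' ((𝔅.T Y).src (c.e 0))‖ := I.end0
    linarith
  obtain ⟨aa, bb, hj, hsum, ha, hb⟩ := pvor_pot ok.sph c hfin G ζ dd hζp hdp hdd hζn ho hoW hΘ1 hΘ0 h0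
  -- crossings only in the doors
  have hWρ : ∀ v, v ∈ W → ‖𝔅.posF Y zi v - z‖ ≤ ρ := fun v hv => (pvor_W_iff 𝔅 hzi v).1 hv
  have hseg : ∀ i, (𝔅.T Y).seg pos' (c.e i) = segment ℝ ((𝔅.enc Y zi c).v i - z) ((𝔅.enc Y zi c).v (i + 1) - z) := fun i => by
    show segment ℝ (pos' ((𝔅.T Y).src (c.e i))) (pos' ((𝔅.T Y).tgt (c.e i))) = _
    rw [c.chain i]; rfl
  have hstep : ∀ m, (pvtrStep (pvmnK3 τ))^[m + 1] e₀ = pvtrStep (pvmnK3 τ) ((pvtrStep (pvmnK3 τ))^[m] e₀) := fun m => Function.iterate_succ_apply' _ _ _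
  have ha' : ∀ m, aa m ≠ 0 → ((pvtrStep (pvmnK3 τ))^[m] e₀).2 ∈ pvmnDrp τ ∧ ((pvtrStep (pvmnK3 τ))^[m + 1] e₀).2 ∈ pvmnDrp τ := by
    intro m hm
    obtain ⟨i, hi1, hi2, hs, ht, hnd⟩ := ha m hm
    obtain ⟨x, hxS, y, hy, hxy⟩ := pvor_carrier_near G hdd hnd
    rw [hseg i] at hxS
    rw [c.chain i] at ht
    rw [hstep m]
    refine pvor_cross_fwd I N R hτ F hi1 hi2 (hWρ _ hs) (hWρ _ ht) (pvtr_iter_mem he₀ m) hxS ?_ hxy
    have : ζ (m + 1) = pvtCtr δ (pvtrStep (pvmnK3 τ) ((pvtrStep (pvmnK3 τ))^[m] e₀)).2 := by simp only [hζ, pvorZ]; rw [hstep m]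
    rw [← this]; exact hy
  have hb' : ∀ m, bb m ≠ 0 → ((pvtrStep (pvmnK3 τ))^[m] e₀).2 ∈ pvmnDrm τ ∧ ((pvtrStep (pvmnK3 τ))^[m + 1] e₀).2 ∈ pvmnDrm τ := by
    intro m hm
    obtain ⟨i, hi1, hs, ht, hnd⟩ := hb m hm
    obtain ⟨x, hxS, y, hy, hxy⟩ := pvor_carrier_near G hdd hnd
    rw [hseg i] at hxS
    rw [c.chain i] at ht
    rw [hstep m]
    refine pvor_cross_bwd I N R hτ F hi1 (hWρ _ hs) (hWρ _ ht) (pvtr_iter_mem he₀ m) hxS ?_ hxy
    have : ζ (m + 1) = pvtCtr δ (pvtrStep (pvmnK3 τ) ((pvtrStep (pvmnK3 τ))^[m] e₀)).2 := by simp only [hζ, pvorZ]; rw [hstep m]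
    rw [← this]; exact hy
  exact ⟨e₀, n, dd, aa, bb, he₀, hn, hper, hdp, G, hdd, hj, hsum, ha', hb'⟩

/-- **ONE SIDE**, left form -/
theorem pvor_one_side_left (ok : 𝔅.Ok Y K) (lf : VorLF Y) (hbd : ∀ v ∈ K, Bornology.IsBounded (vorCell Y v)) (c : (𝔅.T Y).Cyc) (hδ : 0 < δ) (hμδ : μ ≤ δ) {E : Set (ℤ × ℤ)} (hE : TscConn pvtG8 E)
    (hEK : ∀ p, p - z ∈ pvtU δ (pvtwN 2 E) → p ∈ K) (dense : ∀ p, p - z ∈ pvtU δ (pvtwN 1 E) → ∃ u ∈ Y, ‖p - u‖ ≤ μ)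
    (miss : ∀ i p, 𝔅.lab Y ((𝔅.T Y).src (c.e i)) = Sum.inl p → p - z ∉ pvtU δ (pvtwN 2 E))
    {w : 𝔅.V Y} {q : ℂ} (hw : 𝔅.lab Y w = Sum.inl q) (hq : q - z ∈ pvtU δ (pvtwN 1 E)) (hwL : w ∈ (𝔅.T Y).Int c.Left) :
    ∀ v p, 𝔅.lab Y v = Sum.inl p → p - z ∈ pvtU δ (pvtwN 1 E) → v ∈ (𝔅.T Y).Int c.Left := by
  obtain ⟨c', -, -, hv, -, hR⟩ := pl_cyc_rev ok.sph c
  rw [← hR] at hwL ⊢
  refine pvor_one_side 𝔅 ok lf hbd c' hδ hμδ hE hEK dense (fun i p hp => ?_) hw hq hwL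
  have : (𝔅.T Y).src (c'.e i) ∈ c.verts := hv ▸ ⟨i, rfl⟩
  obtain ⟨j, hj⟩ := this
  exact miss j p (by rw [hj]; exact hp)

/-- the mirror of `pvor_exists`: a negative lane `Dr⁺ → Dr⁻` all of whose sites lie strictly on the LEFT -/
theorem pvor_exists_left (ok : 𝔅.Ok Y K) (adm : 𝔅.Adm Y) (lf : VorLF Y) (gp : VorGP Y) (hbd : ∀ v ∈ K, Bornology.IsBounded (vorCell Y v)) (c : (𝔅.T Y).Cyc)
    (I : PvmfIn (𝔅.enc Y zi c) z t μ hh a b ρ d0 e0 d1 e1) (N : PvmfNum δ μ hh a b ρ d0 e0 d1 e1 (δ * 𝔑.rB)) (R : PvmfRel 𝔑 δ μ hh b ρ e0 d1) (hN : PvmnNumOK 𝔑) (hτ : PvmnIsType 𝔑 τ)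
    (F : PvmnFits τ δ (fun i => (𝔅.enc Y zi c).v i - z) (fun k => t k.1)) (hμ : 0 < μ) (hμδ : 8 * μ ≤ δ) (hK : Metric.closedBall z (3 * ρ) ⊆ K) (hzi : ρ < ‖zi - z‖)
    (dense : VorDense Y (Metric.closedBall z (3 * ρ)) μ) (fine : L9Fine Y (Metric.closedBall z ρ) μ) :
    ∃ ln : ((ℤ × ℤ) × (ℤ × ℤ)) × ℕ, PvmnLaneL τ ln.1 ln.2 ∧
      ∀ v p, 𝔅.lab Y v = Sum.inl p → p - z ∈ pvtU δ (pvtwN 1 (pvlpR τ ln)) → v ∈ (𝔅.T Y).Int c.Left := by
  classical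
  obtain ⟨e₀, n, dd, aa, bb, he₀, hn, hper, hdp, G, hdd, hj, hsum, ha', hb'⟩ := pvor_core 𝔅 ok adm lf gp hbd c I N R hN hτ F hμ hμδ hK hzi dense fine
  have hδ := N.δ_pos
  have hx : (20 : ℝ) ≤ (𝔑.nBx : ℝ) := by
    have h1 := hN.nC_nF
    have h2 := hN.nF_nBx
    have : 20 ≤ 𝔑.nBx := by omega
    exact_mod_cast this
  have hρgt := R.ρ_gt
  have hcell : ∀ m, ((pvtrStep (pvmnK3 τ))^[m] e₀).2 ∈ pvmnBox (𝔑.nBx + 5) := fun m =>
    pvmn_N_box (pvmn_cells_box hτ) (pvmn_K3_dart (pvtr_iter_mem he₀ m)).2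
  have hsumb : ∑ m ∈ Finset.range n, (- bb m) = 1 := by
    have h1 : ∑ m ∈ Finset.range n, (aa m + bb m) = 0 := by
      rw [← Finset.sum_congr rfl (fun m _ => hj m), Finset.sum_range_sub (fun m => pvorU c.Left (dd m))]
      have := hdp 0
      rw [Nat.zero_add] at this
      rw [this, sub_self]
    rw [Finset.sum_add_distrib, hsum] at h1
    rw [Finset.sum_neg_distrib]; linarith
  obtain ⟨m₀, l, hlane, hu0⟩ := pvor_last_door he₀ hn hper (pvmn_doors_disj hτ).symm (fun m => 1 - pvorU c.Left (dd m)) (fun m => - bb m) (fun m => - aa m)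
    (fun m => by unfold pvorU; split_ifs <;> simp) (fun m => by simp only [hdp]) (fun m => by have := hj m; linarith)
    (fun m hm => hb' m (fun h => hm (by simp only [h, neg_zero]))) (fun m hm => ha' m (fun h => hm (by simp only [h, neg_zero]))) hsumb
  refine ⟨((pvtrStep (pvmnK3 τ))^[m₀] e₀, l), hlane, ?_⟩
  set ln : ((ℤ × ℤ) × (ℤ × ℤ)) × ℕ := ((pvtrStep (pvmnK3 τ))^[m₀] e₀, l) with hln
  have hl : PvmnLaneL τ ln.1 ln.2 := hlane
  obtain ⟨hl1, -, -⟩ := pvtr_lane_ends hlane (pvmn_doors_disj hτ).symm (fun x hx y hy h => pvmn_doors_nadj hτ y hy x hx (hx_tri_symm _ _ h))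
  have hw1 : ((pvtrStep (pvmnK3 τ))^[m₀ + 1] e₀).2 ∈ pvlpR τ ln := ⟨1, one_pos, hl1, by
    show _ = ((pvtrStep (pvmnK3 τ))^[1] ((pvtrStep (pvmnK3 τ))^[m₀] e₀)).2
    rw [← Function.iterate_add_apply, add_comm]⟩
  have hd1 : dd (m₀ + 1) ∈ c.Left := by
    have := hu0 1 hl1.le
    by_contra hmem
    simp only [pvorU, if_neg hmem] at this
    norm_num at this
  obtain ⟨⟨hs1, -, -⟩, hz1⟩ := hdd (m₀ + 1)
  obtain ⟨p₁, hp₁, -⟩ := hs1
  have hpos1 : 𝔅.posF Y zi ((𝔅.T Y).src (dd (m₀ + 1))) - z = p₁ - z := by simp only [PvBulk.posF, hp₁, Sum.elim_inl, id]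
  have hnear1 : ‖(p₁ - z) - pvorZ δ (pvmnK3 τ) e₀ (m₀ + 1)‖ ≤ μ := by
    rw [← hpos1]
    exact pvor_face_diam G (hdd (m₀ + 1)).1 (dela_mem_a (G.orient _ (hdd (m₀ + 1)).1).le) hz1
  have hsq1 : p₁ - z ∈ pvtSq δ ((pvtrStep (pvmnK3 τ))^[m₀ + 1] e₀).2 := by
    have h1 := (Complex.abs_re_le_norm _).trans hnear1
    have h2 := (Complex.abs_im_le_norm _).trans hnear1
    simp only [pvorZ, pvtCtr, Complex.sub_re, Complex.sub_im] at h1 h2
    rw [abs_le] at h1 h2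
    refine ⟨?_, ?_, ?_, ?_⟩ <;> simp only [Complex.sub_re, Complex.sub_im] <;> nlinarith [h1.1, h1.2, h2.1, h2.2]
  have hE01 : pvlpR τ ln ⊆ pvtwN 1 (pvlpR τ ln) := by
    conv_lhs => rw [← pvtw_N_zero (E := pvlpR τ ln)]
    exact pvtw_N_mono (by norm_num) le_rfl
  have hE12 : pvtwN 1 (pvlpR τ ln) ⊆ pvtwN 2 (pvlpR τ ln) := pvtw_N_mono (by norm_num) le_rfl
  have hq1 : p₁ - z ∈ pvtU δ (pvtwN 1 (pvlpR τ ln)) := Set.mem_iUnion₂.2 ⟨_, hE01 hw1, hsq1⟩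
  have miss : ∀ i p, 𝔅.lab Y ((𝔅.T Y).src (c.e i)) = Sum.inl p → p - z ∉ pvtU δ (pvtwN 2 (pvlpR τ ln)) := by
    intro i p hp hmem
    have h := pvod_vert_zone I N F (j := i % c.n) (Nat.mod_lt _ (pl_cyc_pos c)).le
    have e1 : (𝔅.enc Y zi c).v (i % c.n) = p := by
      show 𝔅.posF Y zi ((𝔅.T Y).src (c.e (i % c.n))) = p
      rw [pl_cyc_mod, PvBulk.posF, hp]; rfl
    rw [e1] at h
    exact h (pvt_U_mono (pvtw_N_mono (by norm_num) (pvlb_laneL_zone hl)) hmem)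
  have hwL : (𝔅.T Y).src (dd (m₀ + 1)) ∈ (𝔅.T Y).Int c.Left := by
    rcases pl_jordan_vert ok.sph c ((𝔅.T Y).src (dd (m₀ + 1))) with h | h | h
    · obtain ⟨i, hi⟩ := h
      exact absurd (Set.mem_iUnion₂.2 ⟨_, hE12 (hE01 hw1), hsq1⟩) (miss i p₁ (by rw [hi]; exact hp₁))
    · exact h
    · have h2 := h _ rfl
      rw [(pl_jordan ok.sph c).1] at h2
      exact absurd hd1 h2
  have hR5 : pvlpR τ ln ⊆ pvmnBox (𝔑.nBx + 5) := by
    rintro w ⟨m, -, -, rfl⟩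
    show ((pvtrStep (pvmnK3 τ))^[m] ((pvtrStep (pvmnK3 τ))^[m₀] e₀)).2 ∈ _
    rw [← Function.iterate_add_apply]
    exact hcell _
  have hball : ∀ p : ℂ, p - z ∈ pvtU δ (pvtwN 2 (pvlpR τ ln)) → p ∈ Metric.closedBall z (3 * ρ) := by
    intro p hp
    obtain ⟨cc, hcc, hpc⟩ := Set.mem_iUnion₂.1 hp
    have h7 := pvor_box_norm hδ (pvmn_N_box hR5 hcc) hpc
    push_cast at h7
    rw [mem_closedBall_iff_norm]
    have h8 : 0 ≤ ‖p - z‖ := norm_nonneg _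
    by_contra hcon
    have h9 : 4.5 * (((𝔑.nBx : ℝ) + 5) * δ) < ‖p - z‖ := by nlinarith
    have h10 : (4.5 * (((𝔑.nBx : ℝ) + 5) * δ)) ^ 2 < ‖p - z‖ ^ 2 := pow_lt_pow_left₀ h9 (by positivity) (by norm_num)
    have h11 : 0 < δ ^ 2 := by positivity
    nlinarith [mul_pos h11 (show (0:ℝ) < 20.25 * ((𝔑.nBx : ℝ) + 5) ^ 2 - 2 * ((𝔑.nBx : ℝ) + 5 + 2 + 1) ^ 2 by nlinarith)]
  exact pvor_one_side_left 𝔅 ok lf hbd c hδ (by linarith) (pvt_conn_tri8 (pvtr_arc_conn hlane.mem)) (fun p hp => hK (hball p hp))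
    (fun p hp => dense p (hball p (pvt_U_mono hE12 hp))) miss hp₁ hq1 hwL

/-- **the mirror of M11**: THE left lane of the type lies strictly on the LEFT of every fitting rim of every completion -/
theorem pvor_left (ok : 𝔅.Ok Y K) (adm : 𝔅.Adm Y) (lf : VorLF Y) (gp : VorGP Y) (hbd : ∀ v ∈ K, Bornology.IsBounded (vorCell Y v)) (c : (𝔅.T Y).Cyc)
    (I : PvmfIn (𝔅.enc Y zi c) z t μ hh a b ρ d0 e0 d1 e1) (N : PvmfNum δ μ hh a b ρ d0 e0 d1 e1 (δ * 𝔑.rB)) (R : PvmfRel 𝔑 δ μ hh b ρ e0 d1) (hN : PvmnNumOK 𝔑) (hτ : PvmnIsType 𝔑 τ)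
    (F : PvmnFits τ δ (fun i => (𝔅.enc Y zi c).v i - z) (fun k => t k.1)) (hμ : 0 < μ) (hμδ : 8 * μ ≤ δ) (hK : Metric.closedBall z (3 * ρ) ⊆ K) (hzi : ρ < ‖zi - z‖)
    (dense : VorDense Y (Metric.closedBall z (3 * ρ)) μ) (fine : L9Fine Y (Metric.closedBall z ρ) μ) {ln : ((ℤ × ℤ) × (ℤ × ℤ)) × ℕ} (hl : PvmnLaneL τ ln.1 ln.2) :
    ∀ v p, 𝔅.lab Y v = Sum.inl p → p - z ∈ pvtU δ (pvtwN 1 (pvlpR τ ln)) → v ∈ (𝔅.T Y).Int c.Left := by
  obtain ⟨ln', hl', h⟩ := pvor_exists_left 𝔅 ok adm lf gp hbd c I N R hN hτ F hμ hμδ hK hzi dense fine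
  obtain ⟨e1, e2⟩ := pvri_laneL_unique hτ hl hl'
  have : ln = ln' := Prod.ext e1 e2
  rw [this]; exact h

/-- **the consumer form** (= hypothesis `hR` of `pvsb_white`, 212 97): clause RIGHT + the gate lemma of 260 -/
theorem pvor_hR {V D : Type} {T : PvMap V D} {s : V → Bool} (hT : T.IsSph) (g : T.Gate s) {γ : T.Cyc} {lo hi : ℕ} (h : g.Pass γ lo hi) (hb : ∀ i, s (T.src (γ.e i)) = true)
    {M : Set V} (hM : M ⊆ T.Int γ.Right) : ∀ x ∈ g.c.verts, x ∈ M → x ∈ g.R := by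
  exact fun x hx hxM => pvgz_pass_right hT g hb h hx (hM hxM)

end main

/-! ## 7. M11 at the model of road P -/

/-- **M11 AT THE MODEL OF ROAD P** (`Tr/ModP` of 8): every vertex of a completion placed in the strip `J = Mm ∪ Mp` of a fitting candidate lies strictly on the right of the cycle -/
theorem pvor_model {𝔤 : PvmhNum} (H : 𝔤.OK) {h R : ℝ} {x z : ℂ} {X : Type} (𝔅 : PvBulk X) {Y : Set ℂ} (hh : 0 < h) (hR : 0 < R) (hhR : (𝔤.Lr + 2) * h ≤ R)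
    (lf : VorLF Y) (gp : VorGP Y) (fine : L9Fine Y (Metric.closedBall x (6 * R)) (𝔤.mu * h)) (dense : VorDense Y (Metric.closedBall x (5 * R)) (𝔤.mu * h))
    (ok : 𝔅.Ok Y (Metric.closedBall x (6 * R))) (adm : 𝔅.Adm Y) (c : (𝔅.T Y).Cyc) {k : ℕ} (hkx : ‖(𝔅.enc Y (x + 7 * R) c).v k - x‖ ≤ 2 * R) {s : PvmhT 𝔤}
    (hfit : 𝔤.Fit h (𝔅.enc Y (x + 7 * R) c) k z s) : ∀ v, 𝔅.posF Y (x + 7 * R) v ∈ pvspJ (𝔤.ty h z s) → v ∈ (𝔅.T Y).Int c.Right := by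
  obtain ⟨-, tt, h5, I, F⟩ := hfit
  have N := pvmh_num H hh
  have Rl := pvmh_rel H hh
  have hδ := N.δ_pos
  have hμ : 0 < 𝔤.mu * h := mul_pos H.mu0 hh
  have hμδ : 8 * (𝔤.mu * h) ≤ 𝔤.dl * h := by
    have := H.mu_eq; have := H.dl0
    rw [H.mu_eq]; nlinarith
  have hLr : 𝔤.Lr = 20 * 𝔤.b3 := rfl
  have hb3 : 0 < 𝔤.b3 := by
    have := N.ρ_ge; have := N.e1_lt; have := N.d1_le; have := N.e0_le; have := N.d0_le; have := N.d0_ge; have := N.μ_nn; have := N.hh_nn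
    by_contra hcon
    have : 𝔤.b3 * h ≤ 0 := mul_nonpos_of_nonpos_of_nonneg (not_lt.1 hcon) hh.le
    nlinarith
  have hzx : ‖z - x‖ ≤ 2 * R + h := by
    have h1 : ‖(𝔅.enc Y (x + 7 * R) c).v k - z‖ ≤ h := h5 ▸ I.near
    have h2 := norm_sub_le ((𝔅.enc Y (x + 7 * R) c).v k - x) ((𝔅.enc Y (x + 7 * R) c).v k - z)
    rw [sub_sub_sub_cancel_left] at h2
    linarith
  have hρR : 3 * (10 * 𝔤.b3 * h) + h + 4 * (𝔤.mu * h) ≤ 2 * R := by
    have : 𝔤.mu * h ≤ 𝔤.dl * h / 8 := by linarith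
    have h1200 := (pvmh_basic H).2.1
    have : 𝔤.dl * h ≤ h := by nlinarith
    rw [hLr] at hhR
    nlinarith
  have hsub : ∀ r : ℝ, r + h ≤ 3 * R → Metric.closedBall z r ⊆ Metric.closedBall x (5 * R) := by
    intro r hr p hp
    rw [mem_closedBall_iff_norm] at hp ⊢
    have := norm_add_le (p - z) (z - x)
    rw [sub_add_sub_cancel] at this
    linarith
  have hK5 : Metric.closedBall z (3 * (10 * 𝔤.b3 * h)) ⊆ Metric.closedBall x (5 * R) := hsub _ (by nlinarith)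
  have h56 : Metric.closedBall x (5 * R) ⊆ Metric.closedBall x (6 * R) := Metric.closedBall_subset_closedBall (by linarith)
  have ok' : 𝔅.Ok Y (Metric.closedBall z (3 * (10 * 𝔤.b3 * h))) :=
    ⟨ok.sph, ok.simple, ok.inj, ok.site, fun a b c h ha => ok.face a b c h (h56 (hK5 ha)), fun d a h ha => ok.del d a h (h56 (hK5 ha)), ok.emb⟩
  have hbd : ∀ v ∈ Metric.closedBall z (3 * (10 * 𝔤.b3 * h)), Bornology.IsBounded (vorCell Y v) := by
    intro v hv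
    refine (Metric.isBounded_closedBall (x := v) (r := 𝔤.mu * h)).subset (vor_cell_subset_ball hμ.le (R := 4 * (𝔤.mu * h)) (by linarith) ?_)
    intro p hp
    refine dense p ?_
    rw [mem_closedBall_iff_norm] at hp hv ⊢
    have h1 := norm_add_le (p - v) (v - z)
    rw [sub_add_sub_cancel] at h1
    have h2 := norm_add_le (p - z) (z - x)
    rw [sub_add_sub_cancel] at h2
    linarith
  have hzi : 10 * 𝔤.b3 * h < ‖(x + 7 * R : ℂ) - z‖ := by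
    have h1 : ‖(7 * R : ℂ)‖ = 7 * R := by
      rw [norm_mul, Complex.norm_real, Real.norm_of_nonneg hR.le]; norm_num
    have h2 := norm_sub_le ((x + 7 * R : ℂ) - z) (x - z)
    rw [sub_sub_sub_cancel_right, add_sub_cancel_left, h1, norm_sub_rev x z] at h2
    nlinarith
  have fine' : L9Fine Y (Metric.closedBall z (10 * 𝔤.b3 * h)) (𝔤.mu * h) := by
    have hs : Metric.closedBall z (10 * 𝔤.b3 * h) ⊆ Metric.closedBall x (6 * R) :=
      ((Metric.closedBall_subset_closedBall (by nlinarith)).trans hK5).trans h56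
    intro a b c hT hm
    exact fine a b c hT (by rcases hm with h | h | h | h; exacts [Or.inl (hs h), Or.inr (Or.inl (hs h)), Or.inr (Or.inr (Or.inl (hs h))), Or.inr (Or.inr (Or.inr (hs h)))])
  have key := pvor_right 𝔅 ok' adm lf gp hbd c I N Rl (pvmh_numOK H) s.isType F hμ hμδ subset_rfl hzi (fun p hp => dense p (hK5 hp)) fine' s.isLane
  intro v hv
  have hJ : pvspJ (𝔤.ty h z s) ⊆ PvmhNum.at' z (pvtU (𝔤.dl * h) (pvtwN 1 (pvlpR s.typ s.ln))) := by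
    rintro p (hp | hp)
    · exact pvmhq_at_mono H z ((pvls_Mm_sub _ _ _).trans (pvlp_win_sub s.isType s.isLane hδ le_rfl)) hp
    · exact pvmhq_at_mono H z ((pvls_Mp_sub _ _ _).trans (pvlp_win_sub s.isType s.isLane hδ le_rfl)) hp
  obtain ⟨q, hq, hqv⟩ := hJ hv
  have hqv' : q = 𝔅.posF Y (x + 7 * R) v - z := by rw [← hqv]; ring
  rcases hl : 𝔅.lab Y v with p | e
  · have : 𝔅.posF Y (x + 7 * R) v = p := by unfold PvBulk.posF; rw [hl]; rfl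
    exact key v p hl (by rw [← this, ← hqv']; exact hq)
  · exfalso
    have e1 : 𝔅.posF Y (x + 7 * R) v = x + 7 * R := by unfold PvBulk.posF; rw [hl]; rfl
    -- the strip lies in the window
    have hR5 : pvlpR s.typ s.ln ⊆ pvmnBox (𝔤.NN.nBx + 5) := by
      rintro w ⟨m, -, -, rfl⟩
      exact pvmn_N_box (pvmn_cells_box s.isType) (pvmn_K3_dart (pvtr_iter_mem s.isLane.mem m)).2
    have hin : 𝔅.posF Y (x + 7 * R) v ∈ Metric.closedBall z (𝔤.Lr * h) :=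
      pvmh_w88_box_ball H z hh (E := pvtwN 1 (pvlpR s.typ s.ln)) ((pvmn_N_box (k := 1) hR5).trans (pvmn_box_mono (by omega))) ⟨q, hq, hqv⟩
    rw [e1, mem_closedBall_iff_norm] at hin
    have h10 : 5 * R - h ≤ ‖(x + 7 * R : ℂ) - z‖ := by
      have h1 : ‖(7 * R : ℂ)‖ = 7 * R := by
        rw [norm_mul, Complex.norm_real, Real.norm_of_nonneg hR.le]; norm_num
      have h2 := norm_sub_le ((x + 7 * R : ℂ) - z) (x - z)
      rw [sub_sub_sub_cancel_right, add_sub_cancel_left, h1, norm_sub_rev x z] at h2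
      linarith
    nlinarith

end Claimed.Agent.R289
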