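-- KEEP
import Claimed.Agent.R289.Tr.StabFit
import Claimed.Agent.R289.Tr.GateFs
import Claimed.Agent.R289.Tr.DiA
import Claimed.Agent.R289.Tr.LocalF
import Claimed.Agent.R289.Tr.C12

/-!
# Row 289 (S0537, Cardy for Poisson-Voronoi), THE WALL, ROAD P, item P12 STAB, file Tr/StabInst : THE INSTANCE      (helper97, post of helper212; prefix `pvsj_`, `Pvsj`)

Blueprint: `origin/helper273:notes/R289/ROADP_273.md` P12, P15.      `Tr/StabFit.lean` (97) is LEVEL A (any marked map).   HERE: the marked map is a COMPLETION `𝔅.T Y` of the site set of the (prepared) configuration, marks = encoded positions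
`𝔅.posF Y (x + 7 R)`, the rim is a rim of the completion, the gates are the family-free gates of the PLANE (`PvdaGate` of 212 = exit of A6), the regions are those of 185.
* sec. 1  balls in a positioned map: `pvsj_face_near`, `pvsj_outer`, `pvsj_outer'`, `pvsj_ann`
* sec. 2  THE PLANE: `pvsj_plane_frame` (inner = faces which meet `clB(z,r₁)`: disc lemma of 150;   outer = faces WITHOUT a vertex beyond `rb`: co-disc lemma of 150: NO POCKETS), **`pvsj_plane_gate`** (`PvgGate` + walk + no near return ⟹ CIRCUIT gate: kit of 190)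
* sec. 3  PLANE ⟹ COMPLETION: `pvsj_gate_bulk` (twin cycles of 212), `pvsj_walk` (the arc of the rim as a walk of the plane), **`pvsj_gate`** ((ii): `PvdaGate` in `(r₁,r₂)`, `r₂ + μ < b` ⟹ `g : T.Gate`, `pvdiB z r₁ ⊆ g.c.Left ⊆ pvdiB z b`),
          `pvsj_disc` (disc lemma in a completion), **`pvsj_wf`** ((i): the weak frame `PvsqWF`)
* sec. 4  `PvsjGeo 𝔯 z a₁ b₁ a₂ b₂ μ` (the numbers of the regions), **`pvsj_fr`** ((i) + (iii): `PvsqFr`)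
* sec. 5  WHITE CHAINS: `pvsj_side_w`, `PvsjLane` (chain form of `PvsqLane`: output of `pvsz_walk` + `pvsz_split` + `pvsz_lift` of 277), **`pvsj_white`** (orientation in the form of 291: the chain lies in `Int P.Right`)
* sec. 6  `PvsjRun` (the run, read on the encoded rim), **`pvsj_main`** = P12 at a completion
* sec. 7  **`pvsj_evt`**: the five events of 185 hold for the configuration
WHY THE GATES ARE ASKED IN A SMALLER ANNULUS (`r₂ + μ < b`): the hull of a face-set gate inside `pvdiB z b` may swallow a POCKET of `pvdiB z b` (a face without a vertex in the ball whose three neighbours have their apex in the ball).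
-/

set_option autoImplicit false
set_option linter.unusedSectionVars false
set_option linter.unusedVariables false

namespace Claimed.Agent.R289

open Set Metric Relation

/-! ## 1. balls in a positioned map -/

section gen

variable {V D : Type} {T : PvMap V D} {pos : V → ℂ} {z : ℂ}

/-- every vertex of a sphere with a dart carries a dart -/
theorem pvsj_dart (hT : T.IsSph) (d₀ : D) (v : V) : ∃ d, T.src d = v := by
  rcases (hT.conn v (T.src d₀)).cases_head with h | ⟨w, ⟨d, hd, -⟩, -⟩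
  · exact ⟨d₀, h.symm⟩
  · exact ⟨d, hd⟩

theorem pvsj_B_star (T : PvMap V D) (pos : V → ℂ) (z : ℂ) (ρ : ℝ) : pvdiB T pos z ρ = T.Star {v | ‖pos v - z‖ ≤ ρ} := rfl

theorem pvsj_B_pl (T : PvMap V D) (pos : V → ℂ) (z : ℂ) (ρ : ℝ) : (pvplB T fun v => pos v ∈ closedBall z ρ) = pvdiB T pos z ρ := by
  unfold pvplB pvdiB
  simp only [mem_closedBall, dist_eq_norm]

/-- the three vertices of a face which meets `clB(z,ρ)` lie in `clB(z,ρ+μ)` -/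
theorem pvsj_face_near {ρ μ : ℝ} (hμ : 0 ≤ μ) (hm : PvdiMesh T pos z ρ μ) {d : D} (hd : d ∈ pvdiB T pos z ρ) :
    ‖pos (T.src d) - z‖ ≤ ρ + μ ∧ ‖pos (T.tgt d) - z‖ ≤ ρ + μ ∧ ‖pos (T.apex d) - z‖ ≤ ρ + μ := by
  have key : ∀ u w : V, ‖pos u - z‖ ≤ ρ → (u = w ∨ T.Adj u w) → ‖pos w - z‖ ≤ ρ + μ := by
    rintro u w hu (rfl | hw)
    · linarith
    · have e1 := hm u w hw hu
      have e2 : ‖pos w - z‖ ≤ ‖pos w - pos u‖ + ‖pos u - z‖ := by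
        have := norm_add_le (pos w - pos u) (pos u - z)
        rwa [sub_add_sub_cancel] at this
      linarith
  rcases hd with h | h | h
  · exact ⟨key _ _ h (Or.inl rfl), key _ _ h (Or.inr ⟨d, rfl, rfl⟩), key _ _ h (Or.inr (T.adj_symm (pl_adj_apex_src d)))⟩
  · exact ⟨key _ _ h (Or.inr (T.adj_symm ⟨d, rfl, rfl⟩)), key _ _ h (Or.inl rfl), key _ _ h (Or.inr (T.adj_symm (pl_adj_apex_tgt d)))⟩
  · exact ⟨key _ _ h (Or.inr (pl_adj_apex_src d)), key _ _ h (Or.inr (pl_adj_apex_tgt d)), key _ _ h (Or.inl rfl)⟩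

/-- the faces which meet `clB(z,r₂)` have no vertex beyond `rb` -/
theorem pvsj_outer {r₂ rb μ : ℝ} (hμ : 0 ≤ μ) (hm : PvdiMesh T pos z r₂ μ) (hr : r₂ + μ < rb) : pvdiB T pos z r₂ ⊆ (T.Star {v | rb ≤ ‖pos v - z‖})ᶜ := by
  intro d hd
  obtain ⟨h1, h2, h3⟩ := pvsj_face_near hμ hm hd
  rintro (h | h | h)
  · exact absurd (show rb ≤ ‖pos (T.src d) - z‖ from h) (not_le.2 (by linarith))
  · exact absurd (show rb ≤ ‖pos (T.tgt d) - z‖ from h) (not_le.2 (by linarith))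
  · exact absurd (show rb ≤ ‖pos (T.apex d) - z‖ from h) (not_le.2 (by linarith))

/-- the faces without a vertex beyond `rb` meet `clB(z,b)`, `rb ≤ b` -/
theorem pvsj_outer' {rb b : ℝ} (hb : rb ≤ b) : (T.Star {v | rb ≤ ‖pos v - z‖})ᶜ ⊆ pvdiB T pos z b := by
  intro d hd
  refine Or.inl ?_
  by_contra hn
  exact hd (Or.inl (show rb ≤ ‖pos (T.src d) - z‖ by linarith [not_le.1 hn]))

/-- the boundary vertices of a face set between `pvdiB z r₁` and the faces without a vertex beyond `rb` -/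
theorem pvsj_ann {r₁ rb : ℝ} {G : Set D} (hI : pvdiB T pos z r₁ ⊆ G) (hO : G ⊆ (T.Star {v | rb ≤ ‖pos v - z‖})ᶜ) {v : V} (hv : v ∈ T.BdV G) :
    r₁ < ‖pos v - z‖ ∧ ‖pos v - z‖ < rb := by
  obtain ⟨d, rfl, hd⟩ := hv
  by_cases h1 : d ∈ G
  · have h2 : T.opp d ∉ G := fun h2 => hd ⟨fun _ => h2, fun _ => h1⟩
    constructor
    · by_contra hle
      refine h2 (hI (Or.inr (Or.inl ?_)))
      rw [T.tgt_opp]
      exact not_lt.1 hle
    · by_contra hge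
      exact hO h1 (Or.inl (not_lt.1 hge))
  · have h2 : T.opp d ∈ G := by
      by_contra h2
      exact hd ⟨fun h => absurd h h1, fun h => absurd h h2⟩
    constructor
    · by_contra hle
      exact h1 (hI (Or.inl (not_lt.1 hle)))
    · by_contra hge
      refine hO h2 (Or.inr (Or.inl ?_))
      show rb ≤ ‖pos (T.tgt (T.opp d)) - z‖
      rw [T.tgt_opp]
      exact not_lt.1 hge

end gen

/-! ## 2. the circuit gate in the Delaunay plane -/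

section plane

variable {Y : Set ℂ} {z : ℂ} {r₁ r₂ rb μ ρ : ℝ}

/-- **the frame of the plane**: inner face set = the faces which meet `clB(z,r₁)`, outer face set = the faces without a vertex beyond `rb` (CO-CONNECTED: co-disc lemma of 150) -/
theorem pvsj_plane_frame (h : DelGood Y) (hsep : ∀ u v : Y, (delPl h).toMap.Adj u v → ‖(u : ℂ) - z‖ ≤ r₁ → ‖(v : ℂ) - z‖ < rb) (hr : r₁ < rb)
    {d₀ o : (delPl h).Dart} (hd₀ : ‖((delPl h).toMap.src d₀ : ℂ) - z‖ ≤ r₁) (ho : rb ≤ ‖((delPl h).toMap.src o : ℂ) - z‖) :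
    PvgnFr (delPl h).toMap (pvdiB (delPl h).toMap Subtype.val z r₁) ((delPl h).toMap.Star {v : Y | rb ≤ ‖(v : ℂ) - z‖})ᶜ o := by
  refine pvgy_frame (A := {v : Y | ‖(v : ℂ) - z‖ ≤ r₁}) (delp_isSph h) (fun _ hu _ hv => pvgy_map_disc_le h hu hv) (fun _ hu _ hv => pvgy_map_codisc h hu hv) ⟨d₀, Or.inl hd₀⟩ ?_ ?_ (Or.inl ho)
  · refine pvgy_star_disj (disjoint_left.2 fun v (h1 : ‖(v : ℂ) - z‖ ≤ r₁) (h2 : rb ≤ ‖(v : ℂ) - z‖) => ?_) fun u v huv hu hv => ?_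
    · linarith
    · exact absurd (hsep u v huv hu) (not_lt.2 hv)
  · have hfin : {v : Y | ‖(v : ℂ) - z‖ < rb}.Finite := by
      refine ((pvgy_ball_finite h.lf z rb).preimage Subtype.val_injective.injOn).subset fun v (hv : ‖(v : ℂ) - z‖ < rb) => ⟨v.2, ?_⟩
      rw [mem_closedBall, dist_eq_norm]
      exact hv.le
    refine (pl_star_finite (delp_isSph h) hfin).subset fun d hd => Or.inl ?_
    by_contra hn
    have h1 : rb ≤ ‖((delPl h).toMap.src d : ℂ) - z‖ := not_lt.1 hn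
    exact hd (Or.inl h1)

/-- **FROM A GATE OF A6 TO A CIRCUIT GATE, IN THE PLANE** (190's `pvgfs_m_gate` with the CLOSED inner ball, at `(delPl h).toMap`) -/
theorem pvsj_plane_gate (h : DelGood Y) {s : Y → Bool} {G : Set (delPl h).Dart} {X : Finset Y}
    (hg : PvgGate (delPl h).toMap s true (pvdiB (delPl h).toMap Subtype.val z r₁) (pvdiB (delPl h).toMap Subtype.val z r₂) G X)
    (hr12 : r₁ ≤ r₂) (hμ : r₂ + μ < rb) (hμ0 : 0 ≤ μ) (hmesh : PvdiMesh (delPl h).toMap Subtype.val z rb μ)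
    {f : ℕ → Y} {N i₀ : ℕ} (hN : 0 < N) (hadj : ∀ k, k < N → (delPl h).toMap.Adj (f k) (f (k + 1))) (hb : ∀ k, k ≤ N → s (f k) = true)
    (hinj : ∀ k l, k < N → l < N → f k = f l → k = l) (h0 : rb ≤ ‖(f 0 : ℂ) - z‖) (hNf : rb ≤ ‖(f N : ℂ) - z‖) (hi : i₀ ≤ N) (hpz : ‖(f i₀ : ℂ) - z‖ ≤ ρ) (hρ : ρ ≤ r₁)
    (hNR : ¬ ∃ k i k', k < i ∧ i < k' ∧ k' ≤ N ∧ ‖(f k' : ℂ) - (f k : ℂ)‖ ≤ μ ∧ r₁ - ρ ≤ ‖(f i : ℂ) - (f k : ℂ)‖) :
    ∃ g : (delPl h).toMap.Gate s, pvdiB (delPl h).toMap Subtype.val z r₁ ⊆ g.c.Left ∧ g.c.Left ⊆ ((delPl h).toMap.Star {v : Y | rb ≤ ‖(v : ℂ) - z‖})ᶜ := by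
  have hT := delp_isSph h
  set T := (delPl h).toMap with hTdef
  have hm2 : PvdiMesh T Subtype.val z r₂ μ := fun u v huv hu => hmesh u v huv (by linarith)
  have hO := pvsj_outer (T := T) (pos := Subtype.val) (z := z) hμ0 hm2 hμ
  have hsep : ∀ u v : Y, T.Adj u v → ‖(u : ℂ) - z‖ ≤ r₁ → ‖(v : ℂ) - z‖ < rb := by
    intro u v huv hu
    have e1 := hmesh u v huv (by linarith)
    have e2 : ‖(v : ℂ) - z‖ ≤ ‖(v : ℂ) - (u : ℂ)‖ + ‖(u : ℂ) - z‖ := by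
      have := norm_add_le ((v : ℂ) - (u : ℂ)) ((u : ℂ) - z)
      rwa [sub_add_sub_cancel] at this
    linarith
  obtain ⟨w, d₀, hd₀, -⟩ : ∃ w, T.Adj (f i₀) w := by
    rcases Nat.lt_or_ge i₀ N with h1 | h1
    · exact ⟨_, hadj i₀ h1⟩
    · have e : i₀ = N - 1 + 1 := by omega
      exact ⟨f (N - 1), by rw [e]; exact T.adj_symm (hadj (N - 1) (by omega))⟩
  obtain ⟨o, ho, -⟩ := hadj 0 hN
  have hF := pvsj_plane_frame h hsep (by linarith) (d₀ := d₀) (o := o) (by rw [← hTdef, hd₀]; exact hpz.trans hρ) (by rw [← hTdef, ho]; exact h0)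
  have hW : PvgfsWalk T s (pvdiB T Subtype.val z r₁) (T.Star {v : Y | rb ≤ ‖(v : ℂ) - z‖})ᶜ f N i₀ := by
    refine ⟨hadj, hb, hinj, ?_, ?_, hi, ?_⟩
    · rw [compl_compl]; intro d hd; exact Or.inl (by rw [hd]; exact h0)
    · rw [compl_compl]; intro d hd; exact Or.inl (by rw [hd]; exact hNf)
    · intro d hd; exact Or.inl (by rw [hd]; exact hpz.trans hρ)
  have hG : PvgnG T s (pvdiB T Subtype.val z r₁) (T.Star {v : Y | rb ≤ ‖(v : ℂ) - z‖})ᶜ G :=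
    pvgfs_G hT hg le_rfl hO hW hN Subtype.val (z := z) (A := r₁) (ρ := ρ) (μ := μ) (fun v hv => (pvsj_ann hg.inner (hg.outer.trans hO) hv).1.le) hpz
      (fun u v huv hu => hmesh u v huv (pvsj_ann hg.inner (hg.outer.trans hO) hu).2.le) hNR
  obtain ⟨g, -, -, -, g2, g3, -⟩ := pvgfs_gate hT (delPl h).toMap_simple hF ⟨G, hG⟩ hW hN
  exact ⟨g, g2, g3⟩

end plane

/-! ## 3. from the plane to a completion -/

section bulk

variable {X : Type} {𝔅 : PvBulk X} {Y : Set ℂ} {h : DelGood Y} {x z : ℂ} {R : ℝ}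

/-- a vertex of a completion in the ball of agreement and its twin in the plane -/
theorem pvsj_twin (hR : 0 < R) (hOk : 𝔅.Ok Y (closedBall x (6 * R))) {d : 𝔅.D Y} (hd : ‖𝔅.posF Y (x + 7 * R) ((𝔅.T Y).src d) - x‖ ≤ 6 * R) :
    ∃ e, pvlocR 𝔅 h (closedBall x (6 * R)) d e :=
  pvloc_bulk_int hOk (pvloc_posF hR hd) (mem_closedBall_iff_norm.2 hd) d rfl

theorem pvsj_twin_pos {v : 𝔅.V Y} {v' : ↥Y} (hv : pvlocV (𝔅.T Y) (delPl h).toMap (pvlocR 𝔅 h (closedBall x (6 * R))) v v') (zi : ℂ) : 𝔅.posF Y zi v = (v' : ℂ) :=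
  l9_posF_inl 𝔅 (pvloc_bulk_v hv)

/-- **a circuit gate of the plane inside the ball of agreement is a circuit gate of every completion** -/
theorem pvsj_gate_bulk (hR : 0 < R) (hOk : 𝔅.Ok Y (closedBall x (6 * R))) {s : 𝔅.V Y → Bool} {s' : ↥Y → Bool}
    (hs : ∀ d e, pvlocR 𝔅 h (closedBall x (6 * R)) d e → s ((𝔅.T Y).src d) = s' ((delPl h).toMap.src e)) {r₁ rb b : ℝ} (hr : r₁ ≤ b) (hrb : rb ≤ b) (hz : ‖z - x‖ + b ≤ 6 * R)
    (g' : (delPl h).toMap.Gate s') (h1 : pvdiB (delPl h).toMap Subtype.val z r₁ ⊆ g'.c.Left) (h2 : g'.c.Left ⊆ ((delPl h).toMap.Star {v : ↥Y | rb ≤ ‖(v : ℂ) - z‖})ᶜ) :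
    ∃ g : (𝔅.T Y).Gate s, pvdiB (𝔅.T Y) (𝔅.posF Y (x + 7 * R)) z r₁ ⊆ g.c.Left ∧ g.c.Left ⊆ pvdiB (𝔅.T Y) (𝔅.posF Y (x + 7 * R)) z b := by
  have L := pvloc_bulk (h := h) hOk
  have h3 : g'.c.Left ⊆ pvdiB (delPl h).toMap Subtype.val z b := h2.trans (pvsj_outer' hrb)
  have hL : g'.c.Left ⊆ plDom (fun e d => pvlocR 𝔅 h (closedBall x (6 * R)) d e) := h3.trans (pvda_B_ran hOk hz)
  obtain ⟨c, P⟩ := pvloc_cyc_exists L.symm g'.c (fun k => hL ((pl_jordan (delp_isSph h) g'.c).2.1 k))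
  refine ⟨⟨c, g'.m, g'.hm, by rw [P.n_eq]; exact g'.hmn, fun i hi => ?_⟩, ?_, ?_⟩
  · rw [hs _ _ (P.e_rel i)]
    exact g'.col i (P.n_eq ▸ hi)
  · intro d hd
    rw [← pvda_B_eq (h := h) hR hOk (by linarith)] at hd
    obtain ⟨e, e1, e2⟩ := hd
    exact (pvloc_left L.symm P hL (d := e) (d' := d) e1).1 (h1 e2)
  · intro d hd
    obtain ⟨e, e1, e2⟩ := pvloc_left_bwd L.symm P hL hd
    rw [← pvda_B_eq (h := h) hR hOk hz]
    exact ⟨e, e1, h3 e2⟩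

/-- the arc `em..ep` of a cycle of a completion, inside the ball of agreement, as a sequence of sites of the plane -/
theorem pvsj_walk (hR : 0 < R) (hOk : 𝔅.Ok Y (closedBall x (6 * R))) (c : (𝔅.T Y).Cyc) {em ep : ℕ} (hle : em ≤ ep)
    (hin : ∀ k, em ≤ k → k ≤ ep → ‖𝔅.posF Y (x + 7 * R) ((𝔅.T Y).src (c.e k)) - x‖ ≤ 6 * R) :
    ∃ f : ℕ → ↥Y, ∀ j, j ≤ ep - em → pvlocV (𝔅.T Y) (delPl h).toMap (pvlocR 𝔅 h (closedBall x (6 * R))) ((𝔅.T Y).src (c.e (em + j))) (f j) := by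
  have key : ∀ j, j ≤ ep - em → ∃ v' : ↥Y, pvlocV (𝔅.T Y) (delPl h).toMap (pvlocR 𝔅 h (closedBall x (6 * R))) ((𝔅.T Y).src (c.e (em + j))) v' := by
    intro j hj
    obtain ⟨e, he⟩ := pvsj_twin (h := h) hR hOk (hin (em + j) (by omega) (by omega))
    exact ⟨_, pvloc_v_src he⟩
  obtain ⟨v₀, -⟩ := key 0 (Nat.zero_le _)
  have key' : ∀ j, ∃ v' : ↥Y, j ≤ ep - em → pvlocV (𝔅.T Y) (delPl h).toMap (pvlocR 𝔅 h (closedBall x (6 * R))) ((𝔅.T Y).src (c.e (em + j))) v' := by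
    intro j
    by_cases hj : j ≤ ep - em
    · obtain ⟨v', hv'⟩ := key j hj
      exact ⟨v', fun _ => hv'⟩
    · exact ⟨v₀, fun h => absurd h hj⟩
  choose f hf using key'
  exact ⟨f, hf⟩

/-- a gate for the colour `col` is a gate for `true` of the normalised colouring -/
theorem pvsj_gate_S {V D : Type} {T : PvMap V D} {s : V → Bool} {col : Bool} {I O G : Set D} {Xs : Finset V} (hg : PvgGate T s col I O G Xs) : PvgGate T (pvspS col s) true I O G Xs where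
  face := hg.face
  inner := hg.inner
  outer := hg.outer
  card := hg.card
  col v hv := by
    unfold pvspS
    rw [hg.col v hv]; exact beq_self_eq_true col
  other v hv := by
    rcases hg.other v hv with h | h
    · refine Or.inl fun h' => h ?_
      unfold pvspS at h'
      exact beq_iff_eq.1 h'
    · exact Or.inr h

/-- **(ii) GATES**: a gate of the plane (A6, family-free form of 212) in the annulus `(r₁, r₂)`, `r₂ + μ < b`, which the cycle `c` of the completion passes on its arc `em..ep` without near return at the scale of the mesh,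
gives a CIRCUIT gate of the completion between the faces which meet `clB(z,r₁)` and the faces which meet `clB(z,b)` -/
theorem pvsj_gate (hR : 0 < R) (hOk : 𝔅.Ok Y (closedBall x (6 * R))) {σ : ℂ → Bool} {s : 𝔅.V Y → Bool} (hs : DelbCol 𝔅 s σ) {col : Bool} {r₁ r₂ b μ ρ : ℝ}
    (hg : PvdaGate Y σ col z r₁ r₂) (hr12 : r₁ ≤ r₂) (hμ : r₂ + μ < b) (hμ0 : 0 ≤ μ) (hz : ‖z - x‖ + b ≤ 6 * R) (hf : L9Fine Y (closedBall x (6 * R)) μ)
    (c : (𝔅.T Y).Cyc) (hcol : ∀ k, s ((𝔅.T Y).src (c.e k)) = col) {em k0 ep : ℕ} (h1 : em ≤ k0) (h2 : k0 ≤ ep) (h3 : ep < em + c.n)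
    (hin : ∀ k, em ≤ k → k ≤ ep → ‖𝔅.posF Y (x + 7 * R) ((𝔅.T Y).src (c.e k)) - x‖ ≤ 6 * R)
    (hem : b ≤ ‖𝔅.posF Y (x + 7 * R) ((𝔅.T Y).src (c.e em)) - z‖) (hep : b ≤ ‖𝔅.posF Y (x + 7 * R) ((𝔅.T Y).src (c.e ep)) - z‖)
    (hk0 : ‖𝔅.posF Y (x + 7 * R) ((𝔅.T Y).src (c.e k0)) - z‖ ≤ ρ) (hρ : ρ ≤ r₁)
    (hNR : ¬ ∃ k i k', em ≤ k ∧ k < i ∧ i < k' ∧ k' ≤ ep ∧ ‖𝔅.posF Y (x + 7 * R) ((𝔅.T Y).src (c.e k')) - 𝔅.posF Y (x + 7 * R) ((𝔅.T Y).src (c.e k))‖ ≤ μ ∧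
      r₁ - ρ ≤ ‖𝔅.posF Y (x + 7 * R) ((𝔅.T Y).src (c.e i)) - 𝔅.posF Y (x + 7 * R) ((𝔅.T Y).src (c.e k))‖) :
    ∃ g : (𝔅.T Y).Gate (pvspS col s), pvdiB (𝔅.T Y) (𝔅.posF Y (x + 7 * R)) z r₁ ⊆ g.c.Left ∧ g.c.Left ⊆ pvdiB (𝔅.T Y) (𝔅.posF Y (x + 7 * R)) z b := by
  obtain ⟨h, G, Xs, hg⟩ := hg
  have L := pvloc_bulk (h := h) hOk
  obtain ⟨f, hf'⟩ := pvsj_walk (h := h) hR hOk c (h1.trans h2) hin
  have hpos : ∀ j, j ≤ ep - em → (f j : ℂ) = 𝔅.posF Y (x + 7 * R) ((𝔅.T Y).src (c.e (em + j))) := fun j hj => (pvsj_twin_pos (hf' j hj) _).symm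
  have hne : em ≠ k0 := by
    rintro rfl
    linarith
  have hsub : closedBall z b ⊆ closedBall x (6 * R) := by
    intro w hw
    rw [mem_closedBall_iff_norm] at hw ⊢
    exact pvda_ball_sub hz hw
  have q1 : ∀ k, k < ep - em → (delPl h).toMap.Adj (f k) (f (k + 1)) := by
    intro k hk
    obtain ⟨y', hy, hadj⟩ := pvloc_adj L (hf' k (by omega)) (pvloc_bulk_int hOk (pvloc_posF hR (hin (em + k) (by omega) (by omega))) (mem_closedBall_iff_norm.2 (hin (em + k) (by omega) (by omega))))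
      ⟨c.e (em + k), rfl, c.chain _⟩
    rwa [pvloc_v_fn L hy (hf' (k + 1) (by omega))] at hadj
  have q2 : ∀ k, k ≤ ep - em → pvspS col (fun v : ↥Y => σ v) (f k) = true := by
    intro k hk
    have e : s ((𝔅.T Y).src (c.e (em + k))) = σ (f k) := pvloc_v_col (s := s) (s' := fun v : ↥Y => σ v) (pvloc_bulk_col hs) (hf' k hk)
    show (σ (f k) == col) = true
    rw [← e, hcol]
    exact beq_self_eq_true col
  have q3 : ∀ k l, k < ep - em → l < ep - em → f k = f l → k = l := by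
    intro k l hk hl hkl
    have e := pvloc_v_inj L (hf' k (by omega)) (hkl ▸ hf' l (by omega))
    rcases Nat.le_total k l with hkl' | hkl'
    · have := pl_cyc_idx c e (by omega) (by omega)
      omega
    · have := pl_cyc_idx c e.symm (by omega) (by omega)
      omega
  have q4 : b ≤ ‖(f 0 : ℂ) - z‖ := by rw [hpos 0 (Nat.zero_le _)]; exact hem
  have q5 : b ≤ ‖(f (ep - em) : ℂ) - z‖ := by rw [hpos _ le_rfl, show em + (ep - em) = ep by omega]; exact hep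
  have q6 : ‖(f (k0 - em) : ℂ) - z‖ ≤ ρ := by rw [hpos _ (by omega), show em + (k0 - em) = k0 by omega]; exact hk0
  have q7 : ¬ ∃ k i k', k < i ∧ i < k' ∧ k' ≤ ep - em ∧ ‖(f k' : ℂ) - (f k : ℂ)‖ ≤ μ ∧ r₁ - ρ ≤ ‖(f i : ℂ) - (f k : ℂ)‖ := by
    rintro ⟨k, i, k', a1, a2, a3, a4, a5⟩
    rw [hpos k' a3, hpos k (by omega)] at a4
    rw [hpos i (by omega), hpos k (by omega)] at a5
    exact hNR ⟨em + k, em + i, em + k', by omega, by omega, by omega, by omega, a4, a5⟩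
  obtain ⟨g', g1, g2⟩ := pvsj_plane_gate (z := z) (r₁ := r₁) (r₂ := r₂) (rb := b) (μ := μ) (ρ := ρ) h (s := pvspS col fun v : ↥Y => σ v) (pvsj_gate_S hg) hr12 hμ hμ0
    (pvda_plane_mesh hf hsub) (f := f) (N := ep - em) (i₀ := k0 - em) (by omega) q1 q2 q3 q4 q5 (by omega) q6 hρ q7
  refine pvsj_gate_bulk hR hOk (fun d e hde => ?_) (by linarith) le_rfl hz g' g1 g2
  unfold pvspS
  rw [pvloc_bulk_col hs d e hde]

/-- **(i) DISC LEMMA IN A COMPLETION**: the vertices of a completion in a ball inside the ball of agreement are connected inside the ball (150's `pvgy_map_disc_le`, pulled back) -/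
theorem pvsj_disc (h : DelGood Y) (hR : 0 < R) (hOk : 𝔅.Ok Y (closedBall x (6 * R))) (d₀ : 𝔅.D Y) {ρ : ℝ} (hz : ‖z - x‖ + ρ ≤ 6 * R) :
    ∀ a ∈ {v : 𝔅.V Y | ‖𝔅.posF Y (x + 7 * R) v - z‖ ≤ ρ}, ∀ b ∈ {v : 𝔅.V Y | ‖𝔅.posF Y (x + 7 * R) v - z‖ ≤ ρ},
      ReflTransGen (fun u v => (𝔅.T Y).Adj u v ∧ v ∈ {v : 𝔅.V Y | ‖𝔅.posF Y (x + 7 * R) v - z‖ ≤ ρ}) a b := by
  intro a ha b hb
  have L := pvloc_bulk (h := h) hOk
  have tw : ∀ v : 𝔅.V Y, ‖𝔅.posF Y (x + 7 * R) v - z‖ ≤ ρ → ∃ v' : ↥Y, pvlocV (𝔅.T Y) (delPl h).toMap (pvlocR 𝔅 h (closedBall x (6 * R))) v v' := by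
    intro v hv
    obtain ⟨d, rfl⟩ := pvsj_dart hOk.sph d₀ v
    obtain ⟨e, he⟩ := pvsj_twin (h := h) hR hOk (d := d) (pvda_ball_sub hz hv)
    exact ⟨_, pvloc_v_src he⟩
  obtain ⟨a', ha'⟩ := tw a ha
  obtain ⟨b', hb'⟩ := tw b hb
  have pa : ‖(a' : ℂ) - z‖ ≤ ρ := by rw [← pvsj_twin_pos ha' (x + 7 * R)]; exact ha
  have pb : ‖(b' : ℂ) - z‖ ≤ ρ := by rw [← pvsj_twin_pos hb' (x + 7 * R)]; exact hb
  have chain := pvgy_map_disc_le h (z := z) (r := ρ) (u := a') (v := b') pa pb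
  have key : ∀ y' : ↥Y, ReflTransGen (fun x y : ↥Y => (delMap h).Adj x y ∧ ‖(y : ℂ) - z‖ ≤ ρ) a' y' → ‖(y' : ℂ) - z‖ ≤ ρ ∧
      ∃ y, pvlocV (𝔅.T Y) (delPl h).toMap (pvlocR 𝔅 h (closedBall x (6 * R))) y y' ∧
        ReflTransGen (fun u v => (𝔅.T Y).Adj u v ∧ v ∈ {v : 𝔅.V Y | ‖𝔅.posF Y (x + 7 * R) v - z‖ ≤ ρ}) a y := by
    intro y' hy'
    induction hy' with
    | refl => exact ⟨pa, a, ha', ReflTransGen.refl⟩
    | @tail y' w' _ hyw ih =>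
      obtain ⟨py, y, hy, hch⟩ := ih
      obtain ⟨w, hw, hadj⟩ := pvloc_adj L.symm (pvloc_v_symm hy) (pvloc_plane_int hOk (mem_closedBall_iff_norm.2 (pvda_ball_sub hz py))) hyw.1
      have hw' : pvlocV (𝔅.T Y) (delPl h).toMap (pvlocR 𝔅 h (closedBall x (6 * R))) w w' := by
        obtain ⟨e, d, k1, k2, k3⟩ := hw
        exact ⟨d, e, k1, k3, k2⟩
      refine ⟨hyw.2, w, hw', hch.tail ⟨hadj, ?_⟩⟩
      show ‖𝔅.posF Y (x + 7 * R) w - z‖ ≤ ρ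
      rw [pvsj_twin_pos hw' (x + 7 * R)]
      exact hyw.2
  obtain ⟨-, y, hy, hch⟩ := key b' chain
  rwa [pvloc_v_inj L hy hb'] at hch

/-- **(i) THE WEAK FRAME** of an annulus round `z` in a completion -/
theorem pvsj_wf (h : DelGood Y) (hR : 0 < R) (hOk : 𝔅.Ok Y (closedBall x (6 * R))) (hA : 𝔅.Adm Y) {a b : ℝ} (hab : a ≤ b) (hz : ‖z - x‖ + a ≤ 6 * R) {d₀ : 𝔅.D Y}
    (hd₀ : ‖𝔅.posF Y (x + 7 * R) ((𝔅.T Y).src d₀) - z‖ ≤ a) :
    PvsqWF (𝔅.T Y) (pvdiB (𝔅.T Y) (𝔅.posF Y (x + 7 * R)) z a) (pvdiB (𝔅.T Y) (𝔅.posF Y (x + 7 * R)) z b) where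
  faceI := pvdi_B_face z a
  faceO := pvdi_B_face z b
  sub := by
    rintro d (hd | hd | hd)
    exacts [Or.inl (hd.trans hab), Or.inr (Or.inl (hd.trans hab)), Or.inr (Or.inr (hd.trans hab))]
  ne := ⟨d₀, Or.inl hd₀⟩
  connI := pl_star_conn hOk.sph (pvsj_disc h hR hOk d₀ hz)
  fin := hA.2

end bulk

/-! ## 4. the frame and the run of a candidate -/

/-- **the numbers of the regions of a candidate**: the four balls, the two star zones, the doors lie outside -/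
structure PvsjGeo (𝔯 : PvspReg ℂ) (z : ℂ) (a₁ b₁ a₂ b₂ μ : ℝ) : Prop where
  I1 : 𝔯 .I1 = closedBall z a₁
  O1 : 𝔯 .O1 = closedBall z b₁
  I2 : 𝔯 .I2 = closedBall z a₂
  O2 : 𝔯 .O2 = closedBall z b₂
  C1 : closedBall z (b₁ + μ) ⊆ 𝔯 .C1
  S2 : closedBall z (b₂ + μ) ⊆ 𝔯 .S2
  mu0 : 0 ≤ μ
  ab1 : a₁ ≤ b₁
  ba : b₁ + μ ≤ a₂
  ab2 : a₂ ≤ b₂
  door_p : ∀ p ∈ 𝔯 .Dp, b₂ + μ < ‖p - z‖
  door_m : ∀ p ∈ 𝔯 .Dm, b₂ + μ < ‖p - z‖

section frame

variable {X : Type} {𝔅 : PvBulk X} {Y : Set ℂ} {x z : ℂ} {R : ℝ} {𝔯 : PvspReg ℂ} {a₁ b₁ a₂ b₂ μ : ℝ}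

theorem pvsj_I (T : PvMap (𝔅.V Y) (𝔅.D Y)) (mk : 𝔅.V Y → ℂ) {i : PvspIx} {ρ : ℝ} (h : 𝔯 i = closedBall z ρ) : pvsqI T mk 𝔯 i = pvdiB T mk z ρ := by
  unfold pvsqI
  rw [h]
  exact pvsj_B_pl T mk z ρ

/-- **(i) + (iii) THE FRAME OF THE CANDIDATE IN A COMPLETION** -/
theorem pvsj_fr (G : PvsjGeo 𝔯 z a₁ b₁ a₂ b₂ μ) (h : DelGood Y) (hR : 0 < R) (hOk : 𝔅.Ok Y (closedBall x (6 * R))) (hA : 𝔅.Adm Y) (hz : ‖z - x‖ + b₂ ≤ 6 * R)
    (hm : PvdiMesh (𝔅.T Y) (𝔅.posF Y (x + 7 * R)) z b₂ μ) {d₀ : 𝔅.D Y} (hd₀ : ‖𝔅.posF Y (x + 7 * R) ((𝔅.T Y).src d₀) - z‖ ≤ a₁) :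
    PvsqFr (𝔅.T Y) (𝔅.posF Y (x + 7 * R)) 𝔯 := by
  have l1 := G.mu0; have l2 := G.ab1; have l3 := G.ba; have l4 := G.ab2
  have hm1 : PvdiMesh (𝔅.T Y) (𝔅.posF Y (x + 7 * R)) z b₁ μ := fun u v huv hu => hm u v huv (by linarith)
  refine ⟨?_, ?_, ?_, ?_, ?_, ?_, ?_⟩
  · rw [pvsj_I _ _ G.I1, pvsj_I _ _ G.O1]
    exact pvsj_wf h hR hOk hA l2 (by linarith) hd₀
  · rw [pvsj_I _ _ G.I2, pvsj_I _ _ G.O2]
    exact pvsj_wf h hR hOk hA l4 (by linarith) (d₀ := d₀) (by linarith)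
  · rw [pvsj_I _ _ G.I2, pvsj_I _ _ G.O1]
    rintro v ⟨d, hd, rfl⟩ d' hd'
    exact Or.inl (by rw [hd']; exact (pvsj_face_near l1 hm1 hd).1.trans l3)
  · rw [pvsj_I _ _ G.O1]
    rintro v ⟨d, hd, rfl⟩
    exact G.C1 (mem_closedBall_iff_norm.2 (pvsj_face_near l1 hm1 hd).1)
  · intro d hd
    rw [G.O2, mem_closedBall_iff_norm] at hd
    have := pvsj_face_near l1 hm (d := d) (Or.inl hd)
    exact ⟨G.S2 (mem_closedBall_iff_norm.2 this.2.1), G.S2 (mem_closedBall_iff_norm.2 this.2.2)⟩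
  · rw [pvsj_I _ _ G.O2]
    intro v hv d hd hdB
    have := (pvsj_face_near l1 hm hdB).1
    rw [hd] at this
    exact absurd this (not_le.2 (G.door_p _ hv))
  · rw [pvsj_I _ _ G.O2]
    intro v hv d hd hdB
    have := (pvsj_face_near l1 hm hdB).1
    rw [hd] at this
    exact absurd this (not_le.2 (G.door_m _ hv))

end frame

/-! ## 5. white chains -/

section white

variable {V D κ : Type} {T : PvMap V D} {s : V → Bool} {mk : V → κ}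

/-- **a white chain inside `N` from a vertex strictly inside the circuit of the gate to a vertex of the door strictly outside** contains a white simple path from the circuit to the door;   ORIENTATION puts its first vertex on the right arc -/
theorem pvsj_side_w (hT : T.IsSph) (g : T.Gate s) {N Dr : Set κ} {n : ℕ} {v : ℕ → V} (hadj : ∀ j, j < n → T.Adj (v j) (v (j + 1))) (hw : ∀ j, j ≤ n → s (v j) = false ∧ mk (v j) ∈ N)
    (h0 : v 0 ∈ T.Int g.c.Left) (hn : mk (v n) ∈ Dr) (hout : v n ∈ T.Int g.c.Right) (hR : ∀ j, j ≤ n → v j ∈ g.c.verts → v j ∈ g.R) : PvspPath T mk s false g.R N Dr := by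
  have hpos : 0 < n := by
    rcases Nat.eq_zero_or_pos n with h | h
    · rw [h] at hout
      exact absurd hout fun h3 => disjoint_left.1 (pl_jordan_vert_disj hT g.c).2.2 h0 h3
    · exact h
  obtain ⟨k, k0, k1, hk⟩ := pvgy_hit hT (pl_left_face g.c) hpos (fun j _ hj => hadj j hj) h0 (by rw [← (pl_jordan hT g.c).1]; exact hout)
  rw [pvgn_bdV_left hT g.c] at hk
  have : Nonempty D := ⟨g.c.e 0⟩
  obtain ⟨y, j, y0, y1, y2, -⟩ := pvwc_le_exists (T := T) (fun i => v (k + i)) (n - k) (fun i hi => Or.inr (hadj (k + i) (by omega)))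
  refine ⟨y, ?_, ?_, ?_⟩
  · rw [y0]
    exact hR k k1.le hk
  · rw [(y2 y.n le_rfl).2.1, y1]
    show mk (v (k + (n - k))) ∈ Dr
    rw [show k + (n - k) = n by omega]
    exact hn
  · rintro w ⟨i, hi, rfl⟩
    rw [(y2 i hi).2.1]
    exact hw _ (by have := (y2 i hi).1; omega)

/-- **a white door-to-door chain through the strip, split at the centre** (chain form of `PvsqLane`: `pvsz_walk`, `pvsz_split`, `pvsz_lift` of 277) -/
structure PvsjLane (T : PvMap V D) (mk : V → κ) (𝔯 : PvspReg κ) (s : V → Bool) (n : ℕ) (v : ℕ → V) (Jm Jp : ℕ) : Prop where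
  adj : ∀ j, j < n → T.Adj (v j) (v (j + 1))
  white : ∀ j, j ≤ n → s (v j) = false
  door_m : mk (v 0) ∈ 𝔯 .Dm
  door_p : mk (v n) ∈ 𝔯 .Dp
  Jm_le : Jm ≤ n
  Jp_le : Jp ≤ n
  head : ∀ j, j ≤ Jm → mk (v j) ∈ 𝔯 .Mm
  tail : ∀ j, Jp ≤ j → j ≤ n → mk (v j) ∈ 𝔯 .Mp
  mid_m : mk (v Jm) ∈ 𝔯 .I2
  mid_p : mk (v Jp) ∈ 𝔯 .I2

/-- **the two white sides** of a state whose second gate is passed by the black cycle `P`, from a white chain which lies strictly on the right of `P` (P11' = M11 of 291) -/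
theorem pvsj_white (hT : T.IsSph) {𝔯 : PvspReg κ} (hF : PvsqFr T mk 𝔯) {P : T.Cyc} (hbl : ∀ k, s (T.src (P.e k)) = true) {g : T.Gate s}
    (s2 : PvspSel T s (pvsqI T mk 𝔯 .I2) (pvsqI T mk 𝔯 .O2) g) {lo hi : ℕ} (hp : g.Pass P lo hi) {n : ℕ} {v : ℕ → V} {Jm Jp : ℕ} (hω : PvsjLane T mk 𝔯 s n v Jm Jp)
    (hr : ∀ j, j ≤ n → v j ∈ T.Int P.Right) : PvspPath T mk s false g.R (𝔯 .Mp) (𝔯 .Dp) ∧ PvspPath T mk s false g.R (𝔯 .Mm) (𝔯 .Dm) := by
  have hin : ∀ w, mk w ∈ 𝔯 .I2 → w ∈ T.Int g.c.Left := fun w hw => pvgn_int_mono s2.inner fun d hd => Or.inl (by rw [hd]; exact hw)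
  have hout : ∀ w, w ∈ T.Int (pvsqI T mk 𝔯 .O2)ᶜ → w ∈ T.Int g.c.Right := fun w hw => by
    rw [(pl_jordan hT g.c).1]
    exact pvgn_int_mono (compl_subset_compl.2 s2.outer) hw
  have h1 := hω.Jm_le
  have h2 := hω.Jp_le
  constructor
  · refine pvsj_side_w hT g (n := n - Jp) (v := fun i => v (Jp + i)) (fun j hj => hω.adj (Jp + j) (by omega)) (fun j hj => ⟨hω.white _ (by omega), hω.tail _ (by omega) (by omega)⟩)
      (hin _ hω.mid_p) ?_ ?_ (fun j hj hv => pvgz_pass_right hT g hbl hp hv (hr _ (by omega)))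
    · show mk (v (Jp + (n - Jp))) ∈ _
      rw [show Jp + (n - Jp) = n by omega]; exact hω.door_p
    · show v (Jp + (n - Jp)) ∈ _
      rw [show Jp + (n - Jp) = n by omega]; exact hout _ (hF.door_p _ hω.door_p)
  · refine pvsj_side_w hT g (n := Jm) (v := fun i => v (Jm - i)) (fun j hj => ?_) (fun j hj => ⟨hω.white _ (by omega), hω.head _ (by omega)⟩)
      (hin _ hω.mid_m) ?_ ?_ (fun j hj hv => pvgz_pass_right hT g hbl hp hv (hr _ (by omega)))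
    · have := hω.adj (Jm - (j + 1)) (by omega)
      rw [show Jm - (j + 1) + 1 = Jm - j by omega] at this
      exact T.adj_symm this
    · show mk (v (Jm - Jm)) ∈ _
      rw [Nat.sub_self]; exact hω.door_m
    · show v (Jm - Jm) ∈ _
      rw [Nat.sub_self]; exact hout _ (hF.door_m _ hω.door_m)

end white

/-! ## 6. P12 at a completion -/

/-- **the run of an encoded rim through the candidate** (P10 (i), read on the positions `v k = P.v k`, `n = P.len`): pin vertex number `k0` within `ρ` of the centre, tube `Nm` on `em..k0`, tube `Np` on `k0..ep`, doors at `em`, `ep`;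
the run stays in the ball of agreement and has no near return at the scale `μ` of the mesh -/
structure PvsjRun (𝔯 : PvspReg ℂ) (x z : ℂ) (R ρ μ A : ℝ) (v : ℕ → ℂ) (n em k0 ep : ℕ) : Prop where
  le_m : em ≤ k0
  le_p : k0 ≤ ep
  lt : ep < em + n
  pin : ‖v k0 - z‖ ≤ ρ
  tube_p : ∀ k, k0 ≤ k → k ≤ ep → v k ∈ 𝔯 .Np
  tube_m : ∀ k, em ≤ k → k ≤ k0 → v k ∈ 𝔯 .Nm
  door_p : v ep ∈ 𝔯 .Dp
  door_m : v em ∈ 𝔯 .Dm
  near : ∀ k, em ≤ k → k ≤ ep → ‖v k - x‖ ≤ 6 * R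
  nr : ¬ ∃ k i k', em ≤ k ∧ k < i ∧ i < k' ∧ k' ≤ ep ∧ ‖v k' - v k‖ ≤ μ ∧ A ≤ ‖v i - v k‖

section main

variable {X : Type} {𝔅 : PvBulk X} {Y : Set ℂ} {x z : ℂ} {R : ℝ} {𝔯 : PvspReg ℂ} {a₁ b₁ a₂ b₂ μ : ℝ}

/-- **P12 STAB, THE INSTANCE AT A COMPLETION**.      `c` a rim of the completion `𝔅.T Y` for the (prepared) colouring `s`, colour `col`;   gates of the PLANE (A6) in the two annuli `(a_k, r_k)`, `r_k + μ < b_k`;   the run of `c` through the tubes.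
THEN the completion carries the state of the candidate, FIT-IN, the two black sides, `c` passes its two gates and the inner path of the state is the arc of `c`;   every white chain on the right of `c`, split at the centre, gives the two white sides. -/
theorem pvsj_main (G : PvsjGeo 𝔯 z a₁ b₁ a₂ b₂ μ) (hR : 0 < R) (hOk : 𝔅.Ok Y (closedBall x (6 * R))) (hA : 𝔅.Adm Y) (hz : ‖z - x‖ + b₂ ≤ 6 * R) (hf : L9Fine Y (closedBall x (6 * R)) μ)
    {σ : ℂ → Bool} {s : 𝔅.V Y → Bool} (hs : DelbCol 𝔅 s σ) {col : Bool} {c : (𝔅.T Y).Cyc} (hc : c.IsRim s) (hcol : s ((𝔅.T Y).src (c.e 0)) = col)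
    {r₁ r₂ : ℝ} (g1 : PvdaGate Y σ col z a₁ r₁) (ar1 : a₁ ≤ r₁) (hr1 : r₁ + μ < b₁) (g2 : PvdaGate Y σ col z a₂ r₂) (ar2 : a₂ ≤ r₂) (hr2 : r₂ + μ < b₂)
    {ρ : ℝ} {em k0 ep : ℕ} (Rn : PvsjRun 𝔯 x z R ρ μ (a₁ - ρ) (fun k => 𝔅.posF Y (x + 7 * R) ((𝔅.T Y).src (c.e k))) c.n em k0 ep) (hρ : ρ ≤ a₁) :
    PvplStar (𝔅.T Y) (𝔅.posF Y (x + 7 * R)) (fun p => p ∈ 𝔯 .O2) (𝔯 .S2) ∧
    ∃ 𝔖 : PvspSt (𝔅.T Y) (pvspS col s), 𝔖.At (𝔅.posF Y (x + 7 * R)) 𝔯 ∧ 𝔖.Side (𝔅.posF Y (x + 7 * R)) 𝔯 .pb ∧ 𝔖.Side (𝔅.posF Y (x + 7 * R)) 𝔯 .mb ∧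
      (∃ lo hi, 𝔖.g1.Pass c lo hi) ∧ (∃ lo hi, 𝔖.g2.Pass c lo hi ∧ 𝔖.inn = c.pth lo (hi - lo)) ∧
      ∀ (n : ℕ) (v : ℕ → 𝔅.V Y) (Jm Jp : ℕ), PvsjLane (𝔅.T Y) (𝔅.posF Y (x + 7 * R)) 𝔯 (pvspS col s) n v Jm Jp → (∀ j, j ≤ n → v j ∈ (𝔅.T Y).Int c.Right) →
        PvspPath (𝔅.T Y) (𝔅.posF Y (x + 7 * R)) (pvspS col s) false 𝔖.g2.R (𝔯 .Mp) (𝔯 .Dp) ∧ PvspPath (𝔅.T Y) (𝔅.posF Y (x + 7 * R)) (pvspS col s) false 𝔖.g2.R (𝔯 .Mm) (𝔯 .Dm) := by
  have l1 := G.mu0; have l2 := G.ab1; have l3 := G.ba; have l4 := G.ab2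
  obtain ⟨h, -⟩ := id g1
  have hT := hOk.sph
  have hcol' : ∀ k, s ((𝔅.T Y).src (c.e k)) = col := fun k => (pl_rim_col hc k 0).trans hcol
  have hF : PvsqFr (𝔅.T Y) (𝔅.posF Y (x + 7 * R)) 𝔯 := pvsj_fr G h hR hOk hA hz (pvda_mesh hR hOk hf hz) (d₀ := c.e k0) (Rn.pin.trans hρ)
  have hc' : c.IsRim (pvspS col s) := by
    cases col with
    | true =>
      have e : pvspS true s = s := by funext v; unfold pvspS; cases s v <;> rfl
      rw [e]; exact hc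
    | false =>
      have e : pvspS false s = pvasNot s := by funext v; unfold pvspS pvasNot; cases s v <;> rfl
      rw [e]; exact pvlf_rim_not.2 hc
  have hb' : pvspS col s ((𝔅.T Y).src (c.e 0)) = true := by
    unfold pvspS
    rw [hcol]; exact beq_self_eq_true col
  have hbl : ∀ k, pvspS col s ((𝔅.T Y).src (c.e k)) = true := fun k => (pl_rim_col hc' k 0).trans hb'
  have hRun : PvsqRun (𝔅.T Y) (𝔅.posF Y (x + 7 * R)) 𝔯 c em k0 ep :=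
    ⟨Rn.le_m, Rn.le_p, Rn.lt, by rw [pvsj_I _ _ G.I1]; exact fun d hd => Or.inl (by rw [hd]; exact Rn.pin.trans hρ), Rn.tube_p, Rn.tube_m, Rn.door_p, Rn.door_m⟩
  have dm := G.door_m _ Rn.door_m
  have dp := G.door_p _ Rn.door_p
  have hg1 : ∃ g₀ : (𝔅.T Y).Gate (pvspS col s), pvsqI (𝔅.T Y) (𝔅.posF Y (x + 7 * R)) 𝔯 .I1 ⊆ g₀.c.Left ∧ g₀.c.Left ⊆ pvsqI (𝔅.T Y) (𝔅.posF Y (x + 7 * R)) 𝔯 .O1 := by
    rw [pvsj_I _ _ G.I1, pvsj_I _ _ G.O1]
    exact pvsj_gate hR hOk hs g1 ar1 hr1 l1 (by linarith) hf c hcol' Rn.le_m Rn.le_p Rn.lt Rn.near (by linarith) (by linarith) Rn.pin hρ Rn.nr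
  have hg2 : ∃ g₀ : (𝔅.T Y).Gate (pvspS col s), pvsqI (𝔅.T Y) (𝔅.posF Y (x + 7 * R)) 𝔯 .I2 ⊆ g₀.c.Left ∧ g₀.c.Left ⊆ pvsqI (𝔅.T Y) (𝔅.posF Y (x + 7 * R)) 𝔯 .O2 := by
    rw [pvsj_I _ _ G.I2, pvsj_I _ _ G.O2]
    refine pvsj_gate hR hOk hs g2 ar2 hr2 l1 hz hf c hcol' Rn.le_m Rn.le_p Rn.lt Rn.near (by linarith) (by linarith) Rn.pin (by linarith) ?_
    rintro ⟨k, i, k', q1, q2, q3, q4, q5, q6⟩
    exact Rn.nr ⟨k, i, k', q1, q2, q3, q4, q5, by linarith⟩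
  obtain ⟨t1, t2⟩ := pvsq_thru hF hbl hRun
  obtain ⟨g₁, s1, p1⟩ := pvsq_sel hT hOk.simple hF.fr1 hg1 t1
  obtain ⟨g₂, s2, p2⟩ := pvsq_sel hT hOk.simple hF.fr2 hg2 t2
  obtain ⟨em', k0', ep', lo₁, hi₁, lo₂, hi₂, hR', P1, P2, h1, h2, h3, h4, h5, h6⟩ := pvsq_idx hT hF hRun s1 s2 p1 p2
  refine ⟨hF.star, pvsqSt g₁ g₂ c lo₁ hi₁ lo₂ hi₂, pvsq_at hT hOk.simple hF hc' hb' hR' s1 s2 P1 P2 h1 h2 h3 h4 h5 h6, pvsq_side_pb hbl hR' P2 h1 (by omega) h6,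
    pvsq_side_mb hbl hR' P2 h1 (by omega), ⟨lo₁, hi₁, P1⟩, ⟨lo₂, hi₂, P2, rfl⟩, fun n v Jm Jp hω hr => ?_⟩
  exact pvsj_white hT hF hbl s2 P2 hω hr

end main

/-! ## 7. the five events of 185 -/

section evt

variable {N : PvspNum} {t : PvspTy} {z : ℂ} {h : ℝ}

/-- the numbers of the regions of 185;   `hDp`, `hDm`: the doors lie outside the second gate annulus -/
theorem pvsj_geo (hW : t.Wf N z h) (hmu : N.mu ≤ 1) (hDp : ∀ p ∈ t.Dp, (N.b 1 + N.mu) * h < ‖p - z‖) (hDm : ∀ p ∈ t.Dm, (N.b 1 + N.mu) * h < ‖p - z‖) :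
    PvsjGeo (t.reg N z h) z (N.a 0 * h) (N.b 0 * h) (N.a 1 * h) (N.b 1 * h) (N.mu * h) where
  I1 := rfl
  O1 := rfl
  I2 := rfl
  O2 := rfl
  C1 := closedBall_subset_closedBall (by
    show N.b 0 * h + N.mu * h ≤ (N.b 0 + 1) * h
    nlinarith [hW.h0])
  S2 := closedBall_subset_closedBall (by
    show N.b 1 * h + N.mu * h ≤ (N.b 1 + 1) * h
    nlinarith [hW.h0])
  mu0 := (mul_pos hW.mu0 hW.h0).le
  ab1 := mul_le_mul_of_nonneg_right (hW.ab' 0) hW.h0.le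
  ba := by
    have h1 := hW.nest01
    have h2 := hW.ab' 0
    have h3 := hW.a_pos
    have : N.b 0 + N.mu ≤ N.a 1 := by linarith
    nlinarith [hW.h0]
  ab2 := mul_le_mul_of_nonneg_right (hW.ab' 1) hW.h0.le
  door_p p hp := by have := hDp p hp; linarith
  door_m p hp := by have := hDm p hp; linarith

variable {X : Type} {𝔅 : PvBulk X} {η : Conf PvPt} {ξ : X → Bool} {x : ℂ} {R : ℝ}

/-- **P12 STAB, THE INSTANCE, EVENT FORM** (consumer: P15 DI-P).      `η` = the PREPARED configuration, `c` a rim of a completion of `η` of the colour of the candidate, the gates of the plane of `η` in the annuli `[a_k h, (b_k - 2μ) h]`, `k = 0, 1`,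
the run of `c` through the tubes, the windows inside the ball of agreement, the mesh events.      THEN `η` lies in the state event and in the two black side events;   v3 (THE FOOT, P13): if EVERY state of the completion whose two gates are passed by `c` has the two white sides FROM THE FEET (`Tr/FootS`), also in the two white side events. -/
theorem pvsj_evt (hW : t.Wf N z h) (hmu : N.mu ≤ 1) (hDp : ∀ p ∈ t.Dp, (N.b 1 + N.mu) * h < ‖p - z‖) (hDm : ∀ p ∈ t.Dm, (N.b 1 + N.mu) * h < ‖p - z‖)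
    (hR : 0 < R) (hOk : 𝔅.Ok (cfSites η) (closedBall x (6 * R))) (hA : 𝔅.Adm (cfSites η)) (hloc : ∀ k, t.win N z h k ⊆ closedBall x (6 * R))
    (hf : L9Fine (cfSites η) (closedBall x (6 * R)) (N.mu * h)) (hwin : ∀ k, PvtnFin (t.win N z h k) η ∧ PvtrMesh (N.mu * h) (t.win N z h k) (cfSites η))
    {c : (𝔅.T (cfSites η)).Cyc} (hc : c.IsRim (𝔅.col η ξ)) (hcol : 𝔅.col η ξ ((𝔅.T (cfSites η)).src (c.e 0)) = t.col)
    (g : ∀ k : Fin 3, PvdaGate (cfSites η) (cfCol η) t.col z (N.a k * h) ((N.b k - 2 * N.mu) * h))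
    {ρ : ℝ} {em k0 ep : ℕ} (Rn : PvsjRun (t.reg N z h) x z R ρ (N.mu * h) (N.a 0 * h - ρ) (fun k => 𝔅.posF (cfSites η) (x + 7 * R) ((𝔅.T (cfSites η)).src (c.e k))) c.n em k0 ep)
    (hρ : ρ ≤ N.a 0 * h) :
    η ∈ pvspEvt N t z h .has ∧ η ∈ pvspEvt N t z h .pb ∧ η ∈ pvspEvt N t z h .mb ∧
      ((∀ 𝔖 : PvspSt (𝔅.T (cfSites η)) (pvspS t.col (𝔅.col η ξ)), 𝔖.At (𝔅.posF (cfSites η) (x + 7 * R)) (t.reg N z h) → (∃ lo hi, 𝔖.g1.Pass c lo hi) → (∃ lo hi, 𝔖.g2.Pass c lo hi) →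
        𝔖.Side (𝔅.posF (cfSites η) (x + 7 * R)) (t.reg N z h) .pw ∧ 𝔖.Side (𝔅.posF (cfSites η) (x + 7 * R)) (t.reg N z h) .mw) → η ∈ pvspEvt N t z h .pw ∧ η ∈ pvspEvt N t z h .mw) := by
  have hh := hW.h0
  have hμ := mul_pos hW.mu0 hh
  have hK : ∀ k, (t.reg N z h).K k ⊆ closedBall x (6 * R) := fun k => ((hW.K_core k).trans (pvtr_core_subset (by positivity))).trans (hloc k)
  have hzi : ∀ k, x + 7 * (R : ℂ) ∉ (t.reg N z h).K k := by
    intro k hk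
    have := hK k hk
    rw [mem_closedBall_iff_norm, add_sub_cancel_left, norm_mul, Complex.norm_real, Real.norm_of_nonneg hR.le] at this
    have e : ‖(7 : ℂ)‖ = 7 := by simp
    rw [e] at this
    linarith
  have hz : ‖z - x‖ + N.b 1 * h ≤ 6 * R := by
    have h1 : closedBall z ((N.b 1 + 1) * h) ⊆ closedBall x (6 * R) := hK .has
    rcases (pvpl_ball_sub_aux _ _ _ _).1 h1 with h2 | h2
    · have := hW.ab' 1; have := hW.nest01; have := hW.ab' 0; have := hW.a_pos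
      have : 0 ≤ (N.b 1 + 1) * h := mul_nonneg (by linarith) hh.le
      linarith
    · nlinarith
  obtain ⟨hst, 𝔖, h1, h2, h3, p1, ⟨lo₂, hi₂, p2, -⟩, -⟩ := pvsj_main (pvsj_geo hW hmu hDp hDm) hR hOk hA hz hf (delb_col (𝔅 := 𝔅) η ξ) hc hcol (g 0)
    (mul_le_mul_of_nonneg_right (hW.ab 0) hh.le) (by nlinarith) (g 1) (mul_le_mul_of_nonneg_right (hW.ab 1) hh.le) (by nlinarith) Rn hρ
  have key : ∀ k, 𝔖.Side (𝔅.posF (cfSites η) (x + 7 * R)) (t.reg N z h) k → η ∈ pvspEvt N t z h k := fun k hk =>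
    (pvsp_evt_dict hW k 𝔅 η ξ (delb_ok_mono (hK k) hOk) (hzi k)).2 ⟨(hwin k).1, (hwin k).2, hst, 𝔖, h1, hk⟩
  exact ⟨key .has trivial, key .pb h2, key .mb h3, fun h4 => ⟨key .pw (h4 𝔖 h1 p1 ⟨lo₂, hi₂, p2⟩).1, key .mw (h4 𝔖 h1 p1 ⟨lo₂, hi₂, p2⟩).2⟩⟩

end evt

end Claimed.Agent.R289
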