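-- KEEP
import Claimed.Agent.R289.Tr.GateN
import Claimed.Agent.R289.Tr.LaneDet
import Claimed.Agent.R289.Tr.StateP
import Claimed.Agent.R289.Pl.Hex
import Claimed.Agent.R289.Tr.StabInst

/-!
# Row 289 (S0537), THE WALL, ROAD P, P12 STAB / P16 DET, file Tr/StripW : THE STRIP LEMMA = THE WHITE LANE FROM THE FOOT      (pen + prover helper68; prefix `pvrf_`, `Pvrf`)

THE FOOT SEAM.   Every producer of a run `aOut (S₂(u)) → aIn (S₂(u'))` inside a DETERMINISTIC corridor (`pvld_exist` of 70, `pvkp_run_of_lanes` of 113, cores of 251 294) asks a white connection FROM THE FOOT `T.tgt g.aOut`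
(last vertex of the right arc `g.R`) inside the corridor.   A white side path which starts SOMEWHERE on `g.R` is not enough: the arc of `g.R` from its first vertex to the foot may bound a pocket of the outside of the gate.
HERE (model free: `IsSph`, `Simple`): at a black circuit `P` which passes the gate, with a white chain `ω` strictly on the right of `P`, THE ARC OF `g.R` FROM ITS LAST VERTEX ON `ω` TO THE FOOT LIES IN THE STRIP BETWEEN `P` AND `ω`,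
hence in every vertex set `K` which contains the boundary of the strip and whose complement escapes to the far arc of `P`.
* sec. 1  the two discs of a crosscut (`Pl/Path`): `pvrf_far_off`, `pvrf_near_off`, **`pvrf_region`** (the disc `cutR` lies in `K`), `pvrf_hang`, `pvrf_stay`.
* sec. 2  a FENCE (a connected vertex set strictly inside, hung at two vertices of the cycle) gives a crosscut: `pvrf_cut_of_fence`;   **`pvrf_strip`** (fence on the left of the cycle).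
* sec. 3  reversal: **`pvrf_strip_right`** (fence on the right of the cycle).
* sec. 4  GATES: `pvrf_last`, `pvrf_first` (the last / first vertex of `g.R` on a chain), **`pvrf_foot_arc`** (the last stretch of the right arc lies in `K`), `pvrf_head_arc` (mirror), `pvrf_link` (the right arc of ANOTHER gate as a link chain ~ `P`).
* sec. 5  **`pvrf_foot_path`**, **`pvrf_head_path`** : `PvspPath T mk s false {T.tgt g.aOut} (Tp ∪ Mp) Dp`, `.. {T.tgt g.aIn} (Tm ∪ Mm) Dm` (links abstract);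
          **`pvrf_foot_path3`**, **`pvrf_head_path3`** : the links are the right arcs of an inner gate `g₁` and of an outer gate `g₃` (the THREE gates of a qualified pin): no geometry at the doors;   `pvrf_esc_of_co`.
* sec. 6  for 97: **`pvrf_idx`** (`pvsq_idx` with the shift `M` named), **`pvrf_sides`** (radius ⟹ side of the selected gate).
-/

set_option autoImplicit false
set_option linter.unusedSectionVars false
set_option linter.unusedVariables false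

namespace Claimed.Agent.R289

open Relation Set

variable {V D : Type} {T : PvMap V D}

/-! ## 1. the two discs of a crosscut -/

/-- a vertex of the cycle which lies on the crosscut is one of its two ends -/
theorem pvrf_on_cut {c : T.Cyc} {p : T.Pth} {i j : ℕ} (h : c.Cut p i j) {l : ℕ} (hl : T.src (c.e l) ∈ p.verts) : T.src (c.e l) = T.src (c.e i) ∨ T.src (c.e l) = T.src (c.e j) := by
  obtain ⟨k, hk, e⟩ := hl
  rcases Nat.eq_zero_or_pos k with rfl | h0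
  · left; rw [← e, h.fst]
  · rcases Nat.lt_or_ge k p.n with h1 | h1
    · exact absurd ⟨l, e.symm⟩ (h.off k h0 h1)
    · right
      have : k = p.n := by omega
      rw [← e, this, h.lst]

/-- a vertex of the open arc `(j, i + n)` is not a vertex of the closed disc `cutR` -/
theorem pvrf_far_off (hT : T.IsSph) {c : T.Cyc} {p : T.Pth} {i j : ℕ} (h : c.Cut p i j) {l : ℕ} (h1 : j < l) (h2 : l < i + c.n) : T.src (c.e l) ∉ T.VOf (c.cutR h).Left := by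
  intro hv
  have hlt := h.lt
  have hL : T.src (c.e l) ∈ T.VOf (c.cutL h).Left := by
    rw [pl_VOf_left hT, (pl_cc_verts h).1]
    exact Or.inl (Or.inl ⟨l, h1.le, h2.le, rfl⟩)
  have hp : T.src (c.e l) ∈ p.verts := by rw [← pl_cc_VOf_inter hT h]; exact ⟨hL, hv⟩
  rcases pvrf_on_cut h hp with e | e
  · have := pl_cyc_idx c e.symm (by omega) h2
    omega
  · have := pl_cyc_idx c e.symm h1.le (by omega)
    omega

/-- a vertex of the open arc `(i, j)` is not a vertex of the closed disc `cutL` -/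
theorem pvrf_near_off (hT : T.IsSph) {c : T.Cyc} {p : T.Pth} {i j : ℕ} (h : c.Cut p i j) {k : ℕ} (h1 : i < k) (h2 : k < j) : T.src (c.e k) ∉ T.VOf (c.cutL h).Left := by
  intro hv
  have hlt' := h.lt'
  have hR : T.src (c.e k) ∈ T.VOf (c.cutR h).Left := by
    rw [pl_VOf_left hT, (pl_cc_verts h).2]
    exact Or.inl (Or.inl ⟨k, h1.le, h2.le, rfl⟩)
  have hp : T.src (c.e k) ∈ p.verts := by rw [← pl_cc_VOf_inter hT h]; exact ⟨hv, hR⟩
  rcases pvrf_on_cut h hp with e | e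
  · have := pl_cyc_idx c e.symm h1.le (by omega)
    omega
  · have := pl_cyc_idx c e h2.le (by omega)
    omega

/-- **REGION**: the boundary of the disc `cutR` (arc `[i,j]` + crosscut) lies in `K`, every vertex off `K` escapes off `K` to the far arc: the closed disc lies in `K` -/
theorem pvrf_region (hT : T.IsSph) {c : T.Cyc} {p : T.Pth} {i j : ℕ} (h : c.Cut p i j) {K : Set V} (harc : ∀ k, i ≤ k → k ≤ j → T.src (c.e k) ∈ K) (hp : p.verts ⊆ K)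
    (hesc : ∀ w, w ∉ K → ∃ l, j < l ∧ l < i + c.n ∧ T.Join univ Kᶜ w (T.src (c.e l))) : T.VOf (c.cutR h).Left ⊆ K := by
  intro v hv
  by_contra hvK
  have hcK : (c.cutR h).verts ⊆ K := by
    rw [(pl_cc_verts h).2]
    rintro x (⟨k, k1, k2, rfl⟩ | hx)
    · exact harc k k1 k2
    · exact hp hx
  rw [pl_VOf_left hT] at hv
  rcases hv with hv | hv
  · exact hvK (hcK hv)
  · obtain ⟨l, l1, l2, -, hj⟩ := hesc v hvK
    have hj' : ReflTransGen (fun u w => T.Adj u w ∧ w ∉ (c.cutR h).verts) v (T.src (c.e l)) := by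
      refine ReflTransGen.mono (fun u w huw => ?_) _ _ hj
      obtain ⟨⟨d, -, e1, e2⟩, hw⟩ := huw
      exact ⟨⟨d, e1, e2⟩, fun h' => hw (hcK h')⟩
    have h3 := pl_jordan_sep hT (c.cutR h) hv hj'
    refine pvrf_far_off hT h l1 l2 ?_
    rw [pl_VOf_left hT]
    exact Or.inr h3

/-- a neighbour, through the disc of `c`, of a vertex of the open arc `(i,j)` lies in the closed disc `cutR` -/
theorem pvrf_hang (hT : T.IsSph) {c : T.Cyc} {p : T.Pth} {i j : ℕ} (h : c.Cut p i j) {k : ℕ} (h1 : i < k) (h2 : k < j) {x : V} (hx : T.EdgeIn c.Left (T.src (c.e k)) x) :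
    x ∈ T.VOf (c.cutR h).Left := by
  rcases (pl_cc_edgeIn hT h _ _).1 hx with e | e
  · exact absurd (pl_cc_edgeIn_VOf (pl_left_face _) e).1 (pvrf_near_off hT h h1 h2)
  · exact (pl_cc_edgeIn_VOf (pl_left_face _) e).2

/-- a connection in the disc of `c` which misses the crosscut stays in the closed disc `cutR` -/
theorem pvrf_stay (hT : T.IsSph) {c : T.Cyc} {p : T.Pth} {i j : ℕ} (h : c.Cut p i j) {X : Set V} (hX : Disjoint X p.verts) {a b : V} (hab : T.Join c.Left X a b)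
    (ha : a ∈ T.VOf (c.cutR h).Left) : b ∈ T.VOf (c.cutR h).Left :=
  pl_hx_join_VOf (pl_left_face _) ((pl_cc_stay hT h hX hab).2 ha) ha

/-! ## 2. fences -/

/-- a connection through vertices strictly inside the cycle is a connection in its disc -/
theorem pvrf_join_in (hT : T.IsSph) (c : T.Cyc) {X : Set V} (hX : X ⊆ T.Int c.Left) {a b : V} (h : T.Join univ X a b) : T.Join c.Left X a b := by
  obtain ⟨h1, h2⟩ := h
  refine ⟨h1, ReflTransGen.mono (fun u w huw => ?_) _ _ h2⟩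
  obtain ⟨⟨d, -, e1, e2⟩, hw⟩ := huw
  have h3 : T.src (T.opp d) ∈ T.Int c.Left := by rw [T.src_opp', e2]; exact hX hw
  exact ⟨⟨d, Or.inr (pl_int_edge hT c h3).1, e1, e2⟩, hw⟩

/-- an edge with an end strictly inside the cycle is an edge of its disc -/
theorem pvrf_edge_in (hT : T.IsSph) (c : T.Cyc) {a b : V} (hab : T.Adj a b) (hb : b ∈ T.Int c.Left) : T.EdgeIn c.Left a b := by
  obtain ⟨d, e1, e2⟩ := hab
  have h3 : T.src (T.opp d) ∈ T.Int c.Left := by rw [T.src_opp', e2]; exact hb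
  exact ⟨d, Or.inr (pl_int_edge hT c h3).1, e1, e2⟩

/-- **a FENCE gives a crosscut**: `X` strictly inside the cycle, connected from `a` to `b`, `a` hung at the vertex number `i`, `b` at the vertex number `j` -/
theorem pvrf_cut_of_fence (hT : T.IsSph) (hS : T.Simple) (c : T.Cyc) {i j : ℕ} (lt : i < j) (lt' : j < i + c.n) {X : Set V} (hX : X ⊆ T.Int c.Left) {a b : V} (hab : T.Join univ X a b)
    (h1 : T.Adj (T.src (c.e i)) a) (h2 : T.Adj b (T.src (c.e j))) : ∃ p : T.Pth, c.Cut p i j ∧ p.verts ⊆ X ∪ {T.src (c.e i), T.src (c.e j)} := by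
  have : Nonempty D := ⟨c.e 0⟩
  obtain ⟨d1, hd1⟩ := pl_jordan_vert_disj hT c
  obtain ⟨w, w0, wn, wX, -⟩ := pl_pth_of_join hab
  obtain ⟨x, x1, x2⟩ := h1
  obtain ⟨y, y1, y2⟩ := h2
  have hoff : ∀ l, T.src (c.e l) ∉ w.verts := fun l hl => disjoint_left.1 d1 ⟨l, rfl⟩ (hX (wX hl))
  have hx : T.src x ∉ w.verts := by rw [x1]; exact hoff i
  set p₁ := pvldCons w x (by rw [x2, w0]) hx with hp₁
  have v1 : p₁.verts = {T.src x} ∪ w.verts := pvld_cons_verts w x _ hx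
  have n1 : p₁.n = w.n + 1 := rfl
  have l1 : p₁.v p₁.n = b := by
    show (if w.n + 1 = 0 then T.src x else w.v (w.n + 1 - 1)) = b
    rw [if_neg (by omega), Nat.add_sub_cancel, wn]
  have hy : T.tgt y ∉ p₁.verts := by
    rw [v1, y2]
    rintro (e | e)
    · rw [mem_singleton_iff, x1] at e
      have := pl_cyc_idx c e.symm lt.le lt'
      omega
    · exact hoff j e
  set p := p₁.snoc y (by rw [y1, l1]) hy with hp
  have v2 : p.verts = p₁.verts ∪ {T.tgt y} := pvld_snoc_verts p₁ y _ hy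
  have n2 : p.n = w.n + 2 := rfl
  have pv : ∀ k, 0 < k → k < p.n → p.v k = w.v (k - 1) := by
    intro k k0 k1
    show (if k ≤ p₁.n then p₁.v k else T.tgt y) = _
    rw [if_pos (by omega)]
    show (if k = 0 then T.src x else w.v (k - 1)) = _
    rw [if_neg (by omega)]
  have pin : ∀ k, 0 < k → k < p.n → p.v k ∈ T.Int c.Left := fun k k0 k1 => by
    rw [pv k k0 k1]
    exact hX (wX ⟨k - 1, by omega, rfl⟩)
  have f0 : p.v 0 = T.src (c.e i) := by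
    show (if 0 ≤ p₁.n then p₁.v 0 else T.tgt y) = _
    rw [if_pos (Nat.zero_le _)]
    show (if 0 = 0 then T.src x else w.v (0 - 1)) = _
    rw [if_pos rfl, x1]
  have fn : p.v p.n = T.src (c.e j) := by
    show (if p₁.n + 1 ≤ p₁.n then p₁.v (p₁.n + 1) else T.tgt y) = _
    rw [if_neg (by omega), y2]
  refine ⟨p, pl_cc_mk hT hS lt lt' f0 fn (fun k k0 k1 hk => disjoint_left.1 d1 hk (pin k k0 k1)) (fun k hk => ?_) (fun h => by omega), ?_⟩
  · rcases Nat.eq_zero_or_pos k with rfl | k0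
    · right
      have h3 : T.src (T.opp (p.e 0)) ∈ T.Int c.Left := by
        rw [T.src_opp', p.tgt_e 0 hk]
        exact pin 1 (by omega) (by omega)
      exact (pl_int_edge hT c h3).1
    · left
      have h3 : T.src (p.e k) ∈ T.Int c.Left := by
        rw [p.src_e k hk]
        exact pin k k0 hk
      exact (pl_int_edge hT c h3).1
  · rw [v2, v1, x1, y2]
    rintro z ((e | e) | e)
    · exact Or.inr (Or.inl e)
    · exact Or.inl (wX e)
    · exact Or.inr (Or.inr e)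

/-- **THE STRIP LEMMA** (fence on the LEFT of the cycle `c`).      `X` = the fence, hung at the vertices number `i < j`;   the arc `[i,j]` and the fence lie in `K`;   every vertex off `K` escapes off `K` to the far arc `(j, i + n)`.
Then everything which hangs at the open arc `(i,j)` inside the cycle and misses the fence lies in `K`. -/
theorem pvrf_strip (hT : T.IsSph) (hS : T.Simple) (c : T.Cyc) {i j : ℕ} (lt : i < j) (lt' : j < i + c.n) {X K : Set V} (hX : X ⊆ T.Int c.Left) (hXK : X ⊆ K) {a b : V} (hab : T.Join univ X a b)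
    (h1 : T.Adj (T.src (c.e i)) a) (h2 : T.Adj b (T.src (c.e j))) (harc : ∀ k, i ≤ k → k ≤ j → T.src (c.e k) ∈ K)
    (hesc : ∀ w, w ∉ K → ∃ l, j < l ∧ l < i + c.n ∧ T.Join univ Kᶜ w (T.src (c.e l)))
    {k : ℕ} (k1 : i < k) (k2 : k < j) {x y : V} (hx : T.Adj (T.src (c.e k)) x) (hxy : T.Join univ (T.Int c.Left \ X) x y) : y ∈ K := by
  obtain ⟨p, hc, hp⟩ := pvrf_cut_of_fence hT hS c lt lt' hX hab h1 h2
  obtain ⟨d1, -⟩ := pl_jordan_vert_disj hT c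
  have hpK : p.verts ⊆ K := by
    intro z hz
    rcases hp hz with e | e | e
    · exact hXK e
    · rw [e]; exact harc i le_rfl lt.le
    · rw [mem_singleton_iff] at e
      rw [e]; exact harc j lt.le le_rfl
  have hreg := pvrf_region hT hc harc hpK hesc
  have hx' : x ∈ T.VOf (c.cutR hc).Left := pvrf_hang hT hc k1 k2 (pvrf_edge_in hT c hx hxy.1.1)
  have hdis : Disjoint (T.Int c.Left \ X) p.verts := by
    refine disjoint_left.2 fun z hz hzp => ?_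
    rcases hp hzp with e | e | e
    · exact hz.2 e
    · exact disjoint_left.1 d1 ⟨i, e.symm⟩ hz.1
    · rw [mem_singleton_iff] at e
      exact disjoint_left.1 d1 ⟨j, e.symm⟩ hz.1
  exact hreg (pvrf_stay hT hc hdis (pvrf_join_in hT c sdiff_subset hxy) hx')

/-! ## 3. reversal -/

/-- the vertices of a reversed cycle -/
theorem pvrf_rev_src (P c : T.Cyc) (hn : c.n = P.n) (he : ∀ i, i < P.n → c.e i = T.opp (P.e (P.n - 1 - i))) (M k : ℕ) (hk : k ≤ M * P.n) : T.src (c.e (M * P.n - k)) = T.src (P.e k) := by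
  have hpos := pl_cyc_pos P
  set t := M * P.n - k with ht
  have hr : t % P.n < P.n := Nat.mod_lt _ hpos
  have e1 : c.e t = c.e (t % P.n) := by rw [← hn]; exact (pl_cyc_mod c t).symm
  rw [e1, he _ hr, T.src_opp', P.chain]
  refine congrArg T.src (pl_cyc_eq_of_mod P ?_)
  have h1 : P.n - 1 - t % P.n + 1 + t % P.n ≡ k + t % P.n [MOD P.n] := by
    have a1 : P.n - 1 - t % P.n + 1 + t % P.n = P.n := by omega
    have a2 : (k + t % P.n) % P.n = 0 := by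
      rw [Nat.add_mod_mod, show k + t = M * P.n by omega, Nat.mul_mod_left]
    show _ % _ = _ % _
    rw [a1, a2, Nat.mod_self]
  exact Nat.ModEq.add_right_cancel' _ h1

/-- **THE STRIP LEMMA** (fence on the RIGHT of the cycle `P`).      `X` = the fence, hung at the vertices number `i < j` of `P`;   the arc `P[i,j]` and the fence lie in `K`;   every vertex off `K` escapes off `K` to the far arc `P(j, i + n)`.
Then everything which hangs at the open arc `P(i,j)` on the right of `P` and misses the fence lies in `K`. -/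
theorem pvrf_strip_right (hT : T.IsSph) (hS : T.Simple) (P : T.Cyc) {i j : ℕ} (lt : i < j) (lt' : j < i + P.n) {X K : Set V} (hX : X ⊆ T.Int P.Right) (hXK : X ⊆ K) {a b : V} (hab : T.Join univ X a b)
    (h1 : T.Adj (T.src (P.e i)) a) (h2 : T.Adj b (T.src (P.e j))) (harc : ∀ k, i ≤ k → k ≤ j → T.src (P.e k) ∈ K)
    (hesc : ∀ w, w ∉ K → ∃ l, j < l ∧ l < i + P.n ∧ T.Join univ Kᶜ w (T.src (P.e l)))
    {k : ℕ} (k1 : i < k) (k2 : k < j) {x y : V} (hx : T.Adj (T.src (P.e k)) x) (hxy : T.Join univ (T.Int P.Right \ X) x y) : y ∈ K := by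
  obtain ⟨c, hn, he, -, hL, -⟩ := pl_cyc_rev hT P
  have hpos := pl_cyc_pos P
  have hM : i + 2 * P.n ≤ (i + 2) * P.n := by nlinarith
  have hM' : (i + 3) * P.n = (i + 2) * P.n + P.n := by ring
  have src2 : ∀ q, q ≤ (i + 2) * P.n → T.src (c.e ((i + 2) * P.n - q)) = T.src (P.e q) := fun q hq => pvrf_rev_src P c hn he (i + 2) q hq
  have src3 : ∀ q, q ≤ (i + 3) * P.n → T.src (c.e ((i + 3) * P.n - q)) = T.src (P.e q) := fun q hq => pvrf_rev_src P c hn he (i + 3) q hq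
  rw [← hL] at hX hxy
  refine pvrf_strip hT hS c (i := (i + 2) * P.n - j) (j := (i + 2) * P.n - i) (by omega) (by rw [hn]; omega) hX hXK (pl_hx_join_symm hab) ?_ ?_ ?_ ?_
    (k := (i + 2) * P.n - k) (by omega) (by omega) ?_ hxy
  · rw [src2 j (by omega)]
    exact T.adj_symm h2
  · rw [src2 i (by omega)]
    exact T.adj_symm h1
  · intro q q1 q2
    have := src2 ((i + 2) * P.n - q) (by omega)
    rw [show (i + 2) * P.n - ((i + 2) * P.n - q) = q by omega] at this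
    rw [this]
    exact harc _ (by omega) (by omega)
  · intro w hw
    obtain ⟨l, l1, l2, hj⟩ := hesc w hw
    refine ⟨(i + 3) * P.n - l, by omega, by rw [hn]; omega, ?_⟩
    rw [src3 l (by omega)]
    exact hj
  · rw [src2 k (by omega)]
    exact hx

/-! ## 4. chains, arcs of a circuit, gates -/

/-- one step of a connection -/
theorem pvrf_join_step {X : Set V} {a b c : V} (h : T.Join univ X a b) (hbc : T.Adj b c) (hc : c ∈ X) : T.Join univ X a c := by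
  obtain ⟨d, e1, e2⟩ := hbc
  exact ⟨h.1, h.2.tail ⟨⟨d, Or.inl (mem_univ _), e1, e2⟩, hc⟩⟩

/-- a chain is connected, forwards -/
theorem pvrf_chain_join {u : ℕ → V} {X : Set V} {t₀ t₁ : ℕ} (h01 : t₀ ≤ t₁) (hadj : ∀ t, t₀ ≤ t → t < t₁ → T.Adj (u t) (u (t + 1))) (hX : ∀ t, t₀ ≤ t → t ≤ t₁ → u t ∈ X) : T.Join univ X (u t₀) (u t₁) := by
  induction t₁, h01 using Nat.le_induction with
  | base => exact ⟨hX t₀ le_rfl le_rfl, ReflTransGen.refl⟩
  | succ t ht ih =>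
    exact pvrf_join_step (ih (fun q q0 q1 => hadj q q0 (by omega)) fun q q0 q1 => hX q q0 (by omega)) (hadj t ht (by omega)) (hX (t + 1) (by omega) le_rfl)

/-- an arc of a cycle is connected, forwards -/
theorem pvrf_arc_join (c : T.Cyc) {X : Set V} {k₀ k₁ : ℕ} (h01 : k₀ ≤ k₁) (hX : ∀ k, k₀ ≤ k → k ≤ k₁ → T.src (c.e k) ∈ X) : T.Join univ X (T.src (c.e k₀)) (T.src (c.e k₁)) :=
  pvrf_chain_join (u := fun k => T.src (c.e k)) h01 (fun k _ _ => ⟨c.e k, rfl, c.chain k⟩) hX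

/-- a chain from the open inside of a cycle to its open outside visits the cycle -/
theorem pvrf_chain_hit (hT : T.IsSph) (c : T.Cyc) {u : ℕ → V} {t₀ t₁ : ℕ} (h01 : t₀ ≤ t₁) (hadj : ∀ t, t₀ ≤ t → t < t₁ → T.Adj (u t) (u (t + 1))) (h0 : u t₀ ∈ T.Int c.Left) (h1 : u t₁ ∈ T.Int c.Right) :
    ∃ t, t₀ ≤ t ∧ t ≤ t₁ ∧ u t ∈ c.verts := by
  by_contra hcon
  have hoff : ∀ t, t₀ ≤ t → t ≤ t₁ → u t ∈ c.vertsᶜ := fun t a b hv => hcon ⟨t, a, b, hv⟩
  obtain ⟨-, hj⟩ := pvrf_chain_join h01 hadj hoff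
  have hj' : ReflTransGen (fun x y => T.Adj x y ∧ y ∉ c.verts) (u t₀) (u t₁) := by
    refine ReflTransGen.mono (fun x y hxy => ?_) _ _ hj
    obtain ⟨⟨d, -, e1, e2⟩, hy⟩ := hxy
    exact ⟨⟨d, e1, e2⟩, hy⟩
  exact disjoint_left.1 (pl_jordan_vert_disj hT c).2.2 (pl_jordan_sep hT c h0 hj') h1

section gate

variable {s : V → Bool}

/-- a chain strictly on the right of `P`, from the open inside of a gate passed by `P` to its open outside, visits the RIGHT arc -/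
theorem pvrf_chain_R (hT : T.IsSph) (g : T.Gate s) {P : T.Cyc} (hP : ∀ k, s (T.src (P.e k)) = true) {lo hi : ℕ} (hp : g.Pass P lo hi) {u : ℕ → V} {t₀ t₁ : ℕ} (h01 : t₀ ≤ t₁)
    (hadj : ∀ t, t₀ ≤ t → t < t₁ → T.Adj (u t) (u (t + 1))) (hr : ∀ t, t₀ ≤ t → t ≤ t₁ → u t ∈ T.Int P.Right) (h0 : u t₀ ∈ T.Int g.c.Left) (h1 : u t₁ ∈ T.Int g.c.Right) :
    ∃ t k, t₀ ≤ t ∧ t ≤ t₁ ∧ 0 < k ∧ k < g.m ∧ T.src (g.c.e k) = u t := by
  obtain ⟨t, a, b, hv⟩ := pvrf_chain_hit hT g.c h01 hadj h0 h1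
  obtain ⟨k, k0, k1, e⟩ := pvgz_pass_right hT g hP hp hv (hr t a b)
  exact ⟨t, k, a, b, k0, k1, e⟩

/-- **the LAST vertex of the right arc on the chain** -/
theorem pvrf_last (hT : T.IsSph) (g : T.Gate s) {P : T.Cyc} (hP : ∀ k, s (T.src (P.e k)) = true) {lo hi : ℕ} (hp : g.Pass P lo hi) {u : ℕ → V} {t₀ t₁ : ℕ} (h01 : t₀ ≤ t₁)
    (hadj : ∀ t, t₀ ≤ t → t < t₁ → T.Adj (u t) (u (t + 1))) (hr : ∀ t, t₀ ≤ t → t ≤ t₁ → u t ∈ T.Int P.Right) (h0 : u t₀ ∈ T.Int g.c.Left) (h1 : u t₁ ∈ T.Int g.c.Right) :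
    ∃ t k, t₀ ≤ t ∧ t ≤ t₁ ∧ 0 < k ∧ k < g.m ∧ T.src (g.c.e k) = u t ∧ ∀ k', k < k' → k' < g.m → ∀ t', t₀ ≤ t' → t' ≤ t₁ → T.src (g.c.e k') ≠ u t' := by
  classical
  obtain ⟨t, k, a, b, k0, k1, e⟩ := pvrf_chain_R hT g hP hp h01 hadj hr h0 h1
  set Q : ℕ → Prop := fun k => 0 < k ∧ k < g.m ∧ ∃ t, t₀ ≤ t ∧ t ≤ t₁ ∧ T.src (g.c.e k) = u t with hQ
  have hk : Q k := ⟨k0, k1, t, a, b, e⟩
  obtain ⟨q0, q1, t', a', b', e'⟩ : Q (Nat.findGreatest Q g.m) := Nat.findGreatest_spec k1.le hk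
  refine ⟨t', Nat.findGreatest Q g.m, a', b', q0, q1, e', fun k' h1 h2 t'' a'' b'' e'' => ?_⟩
  exact Nat.findGreatest_is_greatest h1 h2.le ⟨by omega, h2, t'', a'', b'', e''⟩

/-- **the FIRST vertex of the right arc on the chain** -/
theorem pvrf_first (hT : T.IsSph) (g : T.Gate s) {P : T.Cyc} (hP : ∀ k, s (T.src (P.e k)) = true) {lo hi : ℕ} (hp : g.Pass P lo hi) {u : ℕ → V} {t₀ t₁ : ℕ} (h01 : t₀ ≤ t₁)
    (hadj : ∀ t, t₀ ≤ t → t < t₁ → T.Adj (u t) (u (t + 1))) (hr : ∀ t, t₀ ≤ t → t ≤ t₁ → u t ∈ T.Int P.Right) (h0 : u t₀ ∈ T.Int g.c.Left) (h1 : u t₁ ∈ T.Int g.c.Right) :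
    ∃ t k, t₀ ≤ t ∧ t ≤ t₁ ∧ 0 < k ∧ k < g.m ∧ T.src (g.c.e k) = u t ∧ ∀ k', 0 < k' → k' < k → ∀ t', t₀ ≤ t' → t' ≤ t₁ → T.src (g.c.e k') ≠ u t' := by
  classical
  obtain ⟨t, k, a, b, k0, k1, e⟩ := pvrf_chain_R hT g hP hp h01 hadj hr h0 h1
  have hex : ∃ k, 0 < k ∧ k < g.m ∧ ∃ t, t₀ ≤ t ∧ t ≤ t₁ ∧ T.src (g.c.e k) = u t := ⟨k, k0, k1, t, a, b, e⟩
  obtain ⟨q0, q1, t', a', b', e'⟩ := Nat.find_spec hex
  refine ⟨t', Nat.find hex, a', b', q0, q1, e', fun k' h1 h2 t'' a'' b'' e'' => ?_⟩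
  exact Nat.find_min hex h2 ⟨h1, by omega, t'', a'', b'', e''⟩

/-- **the last stretch of the right arc lies in the strip**.      `P` passes the gate `g`;  the fence `X` is hung at `P i`, `P j`, `i < hi < j`;   the vertices number `k₀ < k < m` of the circuit miss the fence. -/
theorem pvrf_foot_arc (hT : T.IsSph) (hS : T.Simple) {P : T.Cyc} (hP : ∀ k, s (T.src (P.e k)) = true) (g : T.Gate s) {lo hi : ℕ} (hp : g.Pass P lo hi) {i j : ℕ} (i1 : i < hi) (j1 : hi < j) (lt' : j < i + P.n)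
    {X K : Set V} (hX : X ⊆ T.Int P.Right) (hXK : X ⊆ K) {a b : V} (hab : T.Join univ X a b) (h1 : T.Adj (T.src (P.e i)) a) (h2 : T.Adj b (T.src (P.e j))) (harc : ∀ k, i ≤ k → k ≤ j → T.src (P.e k) ∈ K)
    (hesc : ∀ w, w ∉ K → ∃ l, j < l ∧ l < i + P.n ∧ T.Join univ Kᶜ w (T.src (P.e l))) {k₀ : ℕ} (h0 : 0 < k₀) (hoff : ∀ k, k₀ < k → k < g.m → T.src (g.c.e k) ∉ X) :
    ∀ k, k₀ < k → k < g.m → T.src (g.c.e k) ∈ K := by
  intro k k1 k2
  have hm := g.hm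
  have hR := (pvgz_pass_side hT g hP hp).1
  have hmem : ∀ q, k ≤ q → q ≤ g.m - 1 → T.src (g.c.e q) ∈ T.Int P.Right \ X := fun q q1 q2 => ⟨hR ⟨q, by omega, by omega, rfl⟩, hoff q (by omega) (by omega)⟩
  refine pvrf_strip_right hT hS P (by omega) lt' hX hXK hab h1 h2 harc hesc i1 j1 (x := T.tgt g.aOut) ?_ ?_
  · rw [hp.hhi, ← pvtg_aOut_src]
    exact ⟨g.aOut, rfl, rfl⟩
  · rw [pvtg_aOut_tgt]
    exact pl_hx_join_symm (pvrf_arc_join g.c (by omega) hmem)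

/-- **the first stretch of the right arc lies in the strip** (mirror).      The fence is hung at `P i`, `P j`, `i < lo < j`;   the vertices number `0 < k < k₁` of the circuit miss the fence. -/
theorem pvrf_head_arc (hT : T.IsSph) (hS : T.Simple) {P : T.Cyc} (hP : ∀ k, s (T.src (P.e k)) = true) (g : T.Gate s) {lo hi : ℕ} (hp : g.Pass P lo hi) {i j : ℕ} (i1 : i < lo) (j1 : lo < j) (lt' : j < i + P.n)
    {X K : Set V} (hX : X ⊆ T.Int P.Right) (hXK : X ⊆ K) {a b : V} (hab : T.Join univ X a b) (h1 : T.Adj (T.src (P.e i)) a) (h2 : T.Adj b (T.src (P.e j))) (harc : ∀ k, i ≤ k → k ≤ j → T.src (P.e k) ∈ K)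
    (hesc : ∀ w, w ∉ K → ∃ l, j < l ∧ l < i + P.n ∧ T.Join univ Kᶜ w (T.src (P.e l))) {k₁ : ℕ} (h0 : k₁ ≤ g.m) (hoff : ∀ k, 0 < k → k < k₁ → T.src (g.c.e k) ∉ X) :
    ∀ k, 0 < k → k < k₁ → T.src (g.c.e k) ∈ K := by
  intro k k1 k2
  have hR := (pvgz_pass_side hT g hP hp).1
  have hmem : ∀ q, 1 ≤ q → q ≤ k → T.src (g.c.e q) ∈ T.Int P.Right \ X := fun q q1 q2 => ⟨hR ⟨q, by omega, by omega, rfl⟩, hoff q (by omega) (by omega)⟩
  refine pvrf_strip_right hT hS P (by omega) lt' hX hXK hab h1 h2 harc hesc i1 j1 (x := T.tgt g.aIn) ?_ ?_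
  · rw [hp.hlo]
    exact ⟨g.aIn, rfl, rfl⟩
  · rw [pvtg_aIn_tgt]
    exact pvrf_arc_join g.c (by omega) hmem

/-- the right arc of a gate is connected -/
theorem pvrf_R_join (g : T.Gate s) {X : Set V} (hR : g.R ⊆ X) {v w : V} (hv : v ∈ g.R) (hw : w ∈ g.R) : T.Join univ X v w := by
  obtain ⟨k, k0, k1, rfl⟩ := hv
  obtain ⟨q, q0, q1, rfl⟩ := hw
  rcases Nat.le_total k q with h | h
  · exact pvrf_arc_join g.c h fun r r0 r1 => hR ⟨r, by omega, by omega, rfl⟩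
  · exact pl_hx_join_symm (pvrf_arc_join g.c h fun r r0 r1 => hR ⟨r, by omega, by omega, rfl⟩)

/-- **A GATE AS A LINK**: the right arc of a gate passed by `P` and crossed by the chain joins its feet to the chain -/
theorem pvrf_link (hT : T.IsSph) (g : T.Gate s) {P : T.Cyc} (hP : ∀ k, s (T.src (P.e k)) = true) {lo hi : ℕ} (hp : g.Pass P lo hi) {u : ℕ → V} {t₀ t₁ : ℕ} (h01 : t₀ ≤ t₁)
    (hadj : ∀ t, t₀ ≤ t → t < t₁ → T.Adj (u t) (u (t + 1))) (hr : ∀ t, t₀ ≤ t → t ≤ t₁ → u t ∈ T.Int P.Right) (h0 : u t₀ ∈ T.Int g.c.Left) (h1 : u t₁ ∈ T.Int g.c.Right)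
    {X : Set V} (hU : ∀ t, t₀ ≤ t → t ≤ t₁ → u t ∈ X) (hR : g.R ⊆ X) {v : V} (hv : v ∈ g.R) {t : ℕ} (a : t₀ ≤ t) (b : t ≤ t₁) : T.Join univ X v (u t) := by
  obtain ⟨t', k, a', b', k0, k1, e⟩ := pvrf_chain_R hT g hP hp h01 hadj hr h0 h1
  have j1 : T.Join univ X v (u t') := e ▸ pvrf_R_join g hR hv ⟨k, k0, k1, rfl⟩
  refine pl_hx_join_trans j1 ?_
  rcases Nat.le_total t' t with h | h
  · exact pvrf_chain_join h (fun q q0 q1 => hadj q (by omega) (by omega)) fun q q0 q1 => hU q (by omega) (by omega)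
  · exact pl_hx_join_symm (pvrf_chain_join h (fun q q0 q1 => hadj q (by omega) (by omega)) fun q q0 q1 => hU q (by omega) (by omega))

/-! ## 5. the white lane from the foot -/

variable {κ : Type} {mk : V → κ}

/-- **THE WHITE LANE FROM THE FOOT, general form**.      `P` black circuit, passes the gate `g`;   `u 0 .. u ℓ` white chain strictly on the right of `P`, from the open inside of `g` to the door, marks in `Mp`;
`Y` = the two links (off the circuit of `g`): chain + links = a fence hung at `P i`, `P j`, `i < hi < j`;   `K ⊇` fence + arc `P[i,j]`, the vertices off `K` escape off `K` to the far arc of `P`;   the vertices of `K` on the circuit are marked `Tp`. -/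
theorem pvrf_foot_path (hT : T.IsSph) (hS : T.Simple) {P : T.Cyc} (hP : ∀ k, s (T.src (P.e k)) = true) (g : T.Gate s) {lo hi : ℕ} (hp : g.Pass P lo hi) {i j : ℕ} (i1 : i < hi) (j1 : hi < j) (lt' : j < i + P.n)
    {u : ℕ → V} {ℓ : ℕ} (hadj : ∀ t, t < ℓ → T.Adj (u t) (u (t + 1))) (hw : ∀ t, t ≤ ℓ → s (u t) = false) (hr : ∀ t, t ≤ ℓ → u t ∈ T.Int P.Right) (h0 : u 0 ∈ T.Int g.c.Left) (hℓ : u ℓ ∈ T.Int g.c.Right)
    {Y K : Set V} (hY : Y ⊆ T.Int P.Right) (hYg : ∀ v ∈ Y, v ∉ g.c.verts) (hYK : Y ⊆ K) (huK : ∀ t, t ≤ ℓ → u t ∈ K) {a b : V} (hab : T.Join univ ({x | ∃ t, t ≤ ℓ ∧ u t = x} ∪ Y) a b)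
    (h1 : T.Adj (T.src (P.e i)) a) (h2 : T.Adj b (T.src (P.e j))) (harc : ∀ k, i ≤ k → k ≤ j → T.src (P.e k) ∈ K) (hesc : ∀ w, w ∉ K → ∃ l, j < l ∧ l < i + P.n ∧ T.Join univ Kᶜ w (T.src (P.e l)))
    {Tp Mp Dp : Set κ} (hTp : ∀ v ∈ K, v ∈ g.c.verts → mk v ∈ Tp) (hM : ∀ t, t ≤ ℓ → mk (u t) ∈ Mp) (hD : mk (u ℓ) ∈ Dp) : PvspPath T mk s false {T.tgt g.aOut} (Tp ∪ Mp) Dp := by
  have : Nonempty D := ⟨P.e 0⟩
  have hm := g.hm
  obtain ⟨t, k, -, ht, k0, k1, e, hmax⟩ := pvrf_last hT g hP hp (Nat.zero_le ℓ) (fun t _ h => hadj t h) (fun t _ h => hr t h) h0 hℓ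
  have hX : {x | ∃ t, t ≤ ℓ ∧ u t = x} ∪ Y ⊆ T.Int P.Right := by
    rintro x (⟨q, hq, rfl⟩ | hx)
    · exact hr q hq
    · exact hY hx
  have hXK : {x | ∃ t, t ≤ ℓ ∧ u t = x} ∪ Y ⊆ K := by
    rintro x (⟨q, hq, rfl⟩ | hx)
    · exact huK q hq
    · exact hYK hx
  have hoff : ∀ k', k < k' → k' < g.m → T.src (g.c.e k') ∉ {x | ∃ t, t ≤ ℓ ∧ u t = x} ∪ Y := by
    rintro k' a1 a2 (⟨q, hq, e'⟩ | hx)
    · exact hmax k' a1 a2 q (Nat.zero_le _) hq e'.symm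
    · exact hYg _ hx ⟨k', rfl⟩
  have hK := pvrf_foot_arc hT hS hP g hp i1 j1 lt' hX hXK hab h1 h2 harc hesc k0 hoff
  have j1 : T.Join univ {v | s v = false ∧ mk v ∈ Tp ∪ Mp} (T.src (g.c.e k)) (T.src (g.c.e (g.m - 1))) := by
    refine pvrf_arc_join g.c (by omega) fun q q0 q1 => ?_
    rcases Nat.eq_or_lt_of_le q0 with rfl | q0
    · rw [e]; exact ⟨hw t ht, Or.inr (hM t ht)⟩
    · exact ⟨pvtg_R_white g ⟨q, by omega, by omega, rfl⟩, Or.inl (hTp _ (hK q q0 (by omega)) ⟨q, rfl⟩)⟩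
  have j2 : T.Join univ {v | s v = false ∧ mk v ∈ Tp ∪ Mp} (u t) (u ℓ) :=
    pvrf_chain_join ht (fun q _ h => hadj q h) fun q _ h => ⟨hw q h, Or.inr (hM q h)⟩
  obtain ⟨q, q0, qn, qX, -⟩ := pl_pth_of_join (pl_hx_join_trans (pl_hx_join_symm j1) (e ▸ j2))
  exact ⟨q, by rw [q0, pvtg_aOut_tgt]; rfl, by rw [qn]; exact hD, fun x hx => qX hx⟩

/-- **THE WHITE LANE FROM THE ENTRANCE FOOT, general form** (mirror: the fence is hung at `P i`, `P j`, `i < lo < j`; the chain runs from the open inside of `g` to the entrance door) -/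
theorem pvrf_head_path (hT : T.IsSph) (hS : T.Simple) {P : T.Cyc} (hP : ∀ k, s (T.src (P.e k)) = true) (g : T.Gate s) {lo hi : ℕ} (hp : g.Pass P lo hi) {i j : ℕ} (i1 : i < lo) (j1 : lo < j) (lt' : j < i + P.n)
    {u : ℕ → V} {ℓ : ℕ} (hadj : ∀ t, t < ℓ → T.Adj (u t) (u (t + 1))) (hw : ∀ t, t ≤ ℓ → s (u t) = false) (hr : ∀ t, t ≤ ℓ → u t ∈ T.Int P.Right) (h0 : u 0 ∈ T.Int g.c.Left) (hℓ : u ℓ ∈ T.Int g.c.Right)
    {Y K : Set V} (hY : Y ⊆ T.Int P.Right) (hYg : ∀ v ∈ Y, v ∉ g.c.verts) (hYK : Y ⊆ K) (huK : ∀ t, t ≤ ℓ → u t ∈ K) {a b : V} (hab : T.Join univ ({x | ∃ t, t ≤ ℓ ∧ u t = x} ∪ Y) a b)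
    (h1 : T.Adj (T.src (P.e i)) a) (h2 : T.Adj b (T.src (P.e j))) (harc : ∀ k, i ≤ k → k ≤ j → T.src (P.e k) ∈ K) (hesc : ∀ w, w ∉ K → ∃ l, j < l ∧ l < i + P.n ∧ T.Join univ Kᶜ w (T.src (P.e l)))
    {Tm Mm Dm : Set κ} (hTm : ∀ v ∈ K, v ∈ g.c.verts → mk v ∈ Tm) (hM : ∀ t, t ≤ ℓ → mk (u t) ∈ Mm) (hD : mk (u ℓ) ∈ Dm) : PvspPath T mk s false {T.tgt g.aIn} (Tm ∪ Mm) Dm := by
  have : Nonempty D := ⟨P.e 0⟩
  have hm := g.hm
  obtain ⟨t, k, -, ht, k0, k1, e, hmin⟩ := pvrf_first hT g hP hp (Nat.zero_le ℓ) (fun t _ h => hadj t h) (fun t _ h => hr t h) h0 hℓ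
  have hX : {x | ∃ t, t ≤ ℓ ∧ u t = x} ∪ Y ⊆ T.Int P.Right := by
    rintro x (⟨q, hq, rfl⟩ | hx)
    · exact hr q hq
    · exact hY hx
  have hXK : {x | ∃ t, t ≤ ℓ ∧ u t = x} ∪ Y ⊆ K := by
    rintro x (⟨q, hq, rfl⟩ | hx)
    · exact huK q hq
    · exact hYK hx
  have hoff : ∀ k', 0 < k' → k' < k → T.src (g.c.e k') ∉ {x | ∃ t, t ≤ ℓ ∧ u t = x} ∪ Y := by
    rintro k' a1 a2 (⟨q, hq, e'⟩ | hx)
    · exact hmin k' a1 a2 q (Nat.zero_le _) hq e'.symm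
    · exact hYg _ hx ⟨k', rfl⟩
  have hK := pvrf_head_arc hT hS hP g hp i1 j1 lt' hX hXK hab h1 h2 harc hesc k1.le hoff
  have j1 : T.Join univ {v | s v = false ∧ mk v ∈ Tm ∪ Mm} (T.src (g.c.e 1)) (T.src (g.c.e k)) := by
    refine pvrf_arc_join g.c (by omega) fun q q0 q1 => ?_
    rcases Nat.eq_or_lt_of_le q1 with rfl | q1
    · rw [e]; exact ⟨hw t ht, Or.inr (hM t ht)⟩
    · exact ⟨pvtg_R_white g ⟨q, by omega, by omega, rfl⟩, Or.inl (hTm _ (hK q (by omega) q1) ⟨q, rfl⟩)⟩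
  have j2 : T.Join univ {v | s v = false ∧ mk v ∈ Tm ∪ Mm} (u t) (u ℓ) :=
    pvrf_chain_join ht (fun q _ h => hadj q h) fun q _ h => ⟨hw q h, Or.inr (hM q h)⟩
  obtain ⟨q, q0, qn, qX, -⟩ := pl_pth_of_join (pl_hx_join_trans j1 (e ▸ j2))
  exact ⟨q, by rw [q0, pvtg_aIn_tgt]; rfl, by rw [qn]; exact hD, fun x hx => qX hx⟩

/-- the escape hypothesis from the co-connectedness of `K` (hypothesis `hco` of `pvld_exist`, `pvge_K_co`) and ONE vertex of the far arc off `K` -/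
theorem pvrf_esc_of_co {P : T.Cyc} {K : Set V} (hco : ∀ x y, x ∉ K → y ∉ K → T.Join univ Kᶜ x y) {i j l : ℕ} (l1 : j < l) (l2 : l < i + P.n) (hl : T.src (P.e l) ∉ K) :
    ∀ w, w ∉ K → ∃ l, j < l ∧ l < i + P.n ∧ T.Join univ Kᶜ w (T.src (P.e l)) :=
  fun w hw => ⟨l, l1, l2, hco w _ hw hl⟩

/-- **THE WHITE LANE FROM THE FOOT, THREE GATES**: the links are the right arcs of an inner gate `g₁` and of an outer gate `g₃` (NO door link, no geometry at the door).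
`P` passes `g₁`, `g`, `g₃` (exits number `hi₁ < hi < hi₃ < hi₁ + n`);   the white chain runs on the right of `P` from the open inside of `g₁` to the door, outside `g₃`;
`K ⊇` chain, `g₁.R`, `g₃.R`, arc `P[hi₁, hi₃]`;   off `K` one escapes off `K` to the far arc `P(hi₃, hi₁ + n)`. -/
theorem pvrf_foot_path3 (hT : T.IsSph) (hS : T.Simple) {P : T.Cyc} (hP : ∀ k, s (T.src (P.e k)) = true) (g₁ g g₃ : T.Gate s) {lo₁ hi₁ lo hi lo₃ hi₃ : ℕ} (p₁ : g₁.Pass P lo₁ hi₁) (hp : g.Pass P lo hi)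
    (p₃ : g₃.Pass P lo₃ hi₃) (i1 : hi₁ < hi) (j1 : hi < hi₃) (lt' : hi₃ < hi₁ + P.n) (n₁ : ∀ v ∈ g₁.R, v ∉ g.c.verts) (n₃ : ∀ v ∈ g₃.R, v ∉ g.c.verts)
    {u : ℕ → V} {ℓ : ℕ} (hadj : ∀ t, t < ℓ → T.Adj (u t) (u (t + 1))) (hw : ∀ t, t ≤ ℓ → s (u t) = false) (hr : ∀ t, t ≤ ℓ → u t ∈ T.Int P.Right)
    (a₁ : u 0 ∈ T.Int g₁.c.Left) (a₂ : u 0 ∈ T.Int g.c.Left) (a₃ : u 0 ∈ T.Int g₃.c.Left) (b₁ : u ℓ ∈ T.Int g₁.c.Right) (b₂ : u ℓ ∈ T.Int g.c.Right) (b₃ : u ℓ ∈ T.Int g₃.c.Right)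
    {K : Set V} (hR₁ : g₁.R ⊆ K) (hR₃ : g₃.R ⊆ K) (huK : ∀ t, t ≤ ℓ → u t ∈ K) (harc : ∀ k, hi₁ ≤ k → k ≤ hi₃ → T.src (P.e k) ∈ K)
    (hesc : ∀ w, w ∉ K → ∃ l, hi₃ < l ∧ l < hi₁ + P.n ∧ T.Join univ Kᶜ w (T.src (P.e l)))
    {Tp Mp Dp : Set κ} (hTp : ∀ v ∈ K, v ∈ g.c.verts → mk v ∈ Tp) (hM : ∀ t, t ≤ ℓ → mk (u t) ∈ Mp) (hD : mk (u ℓ) ∈ Dp) : PvspPath T mk s false {T.tgt g.aOut} (Tp ∪ Mp) Dp := by
  have hU : ∀ t, 0 ≤ t → t ≤ ℓ → u t ∈ {x | ∃ t, t ≤ ℓ ∧ u t = x} ∪ (g₁.R ∪ g₃.R) := fun t _ h => Or.inl ⟨t, h, rfl⟩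
  have l₁ := pvrf_link hT g₁ hP p₁ (Nat.zero_le ℓ) (fun t _ h => hadj t h) (fun t _ h => hr t h) a₁ b₁ hU (fun v hv => Or.inr (Or.inl hv)) (pvtg_aOut_tgt_R g₁) le_rfl (Nat.zero_le ℓ)
  have l₃ := pvrf_link hT g₃ hP p₃ (Nat.zero_le ℓ) (fun t _ h => hadj t h) (fun t _ h => hr t h) a₃ b₃ hU (fun v hv => Or.inr (Or.inr hv)) (pvtg_aOut_tgt_R g₃) le_rfl (Nat.zero_le ℓ)
  refine pvrf_foot_path hT hS hP g hp i1 j1 lt' hadj hw hr a₂ b₂ (Y := g₁.R ∪ g₃.R) ?_ ?_ (union_subset hR₁ hR₃) huK (pl_hx_join_trans l₁ (pl_hx_join_symm l₃)) ?_ ?_ harc hesc hTp hM hD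
  · exact union_subset (pvgz_pass_side hT g₁ hP p₁).1 (pvgz_pass_side hT g₃ hP p₃).1
  · rintro v (hv | hv)
    · exact n₁ v hv
    · exact n₃ v hv
  · rw [p₁.hhi, ← pvtg_aOut_src]
    exact ⟨g₁.aOut, rfl, rfl⟩
  · rw [p₃.hhi, ← pvtg_aOut_src]
    exact T.adj_symm ⟨g₃.aOut, rfl, rfl⟩

/-- **THE WHITE LANE FROM THE ENTRANCE FOOT, THREE GATES** (mirror: entrances number `lo₃ < lo < lo₁ < lo₃ + n`; the chain runs from the open inside of `g₁` to the entrance door) -/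
theorem pvrf_head_path3 (hT : T.IsSph) (hS : T.Simple) {P : T.Cyc} (hP : ∀ k, s (T.src (P.e k)) = true) (g₁ g g₃ : T.Gate s) {lo₁ hi₁ lo hi lo₃ hi₃ : ℕ} (p₁ : g₁.Pass P lo₁ hi₁) (hp : g.Pass P lo hi)
    (p₃ : g₃.Pass P lo₃ hi₃) (i1 : lo₃ < lo) (j1 : lo < lo₁) (lt' : lo₁ < lo₃ + P.n) (n₁ : ∀ v ∈ g₁.R, v ∉ g.c.verts) (n₃ : ∀ v ∈ g₃.R, v ∉ g.c.verts)
    {u : ℕ → V} {ℓ : ℕ} (hadj : ∀ t, t < ℓ → T.Adj (u t) (u (t + 1))) (hw : ∀ t, t ≤ ℓ → s (u t) = false) (hr : ∀ t, t ≤ ℓ → u t ∈ T.Int P.Right)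
    (a₁ : u 0 ∈ T.Int g₁.c.Left) (a₂ : u 0 ∈ T.Int g.c.Left) (a₃ : u 0 ∈ T.Int g₃.c.Left) (b₁ : u ℓ ∈ T.Int g₁.c.Right) (b₂ : u ℓ ∈ T.Int g.c.Right) (b₃ : u ℓ ∈ T.Int g₃.c.Right)
    {K : Set V} (hR₁ : g₁.R ⊆ K) (hR₃ : g₃.R ⊆ K) (huK : ∀ t, t ≤ ℓ → u t ∈ K) (harc : ∀ k, lo₃ ≤ k → k ≤ lo₁ → T.src (P.e k) ∈ K)
    (hesc : ∀ w, w ∉ K → ∃ l, lo₁ < l ∧ l < lo₃ + P.n ∧ T.Join univ Kᶜ w (T.src (P.e l)))
    {Tm Mm Dm : Set κ} (hTm : ∀ v ∈ K, v ∈ g.c.verts → mk v ∈ Tm) (hM : ∀ t, t ≤ ℓ → mk (u t) ∈ Mm) (hD : mk (u ℓ) ∈ Dm) : PvspPath T mk s false {T.tgt g.aIn} (Tm ∪ Mm) Dm := by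
  have hU : ∀ t, 0 ≤ t → t ≤ ℓ → u t ∈ {x | ∃ t, t ≤ ℓ ∧ u t = x} ∪ (g₁.R ∪ g₃.R) := fun t _ h => Or.inl ⟨t, h, rfl⟩
  have l₁ := pvrf_link hT g₁ hP p₁ (Nat.zero_le ℓ) (fun t _ h => hadj t h) (fun t _ h => hr t h) a₁ b₁ hU (fun v hv => Or.inr (Or.inl hv)) (pvtg_aIn_tgt_R g₁) le_rfl (Nat.zero_le ℓ)
  have l₃ := pvrf_link hT g₃ hP p₃ (Nat.zero_le ℓ) (fun t _ h => hadj t h) (fun t _ h => hr t h) a₃ b₃ hU (fun v hv => Or.inr (Or.inr hv)) (pvtg_aIn_tgt_R g₃) le_rfl (Nat.zero_le ℓ)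
  refine pvrf_head_path hT hS hP g hp i1 j1 lt' hadj hw hr a₂ b₂ (Y := g₁.R ∪ g₃.R) ?_ ?_ (union_subset hR₁ hR₃) huK (pl_hx_join_trans l₃ (pl_hx_join_symm l₁)) ?_ ?_ harc hesc hTm hM hD
  · exact union_subset (pvgz_pass_side hT g₁ hP p₁).1 (pvgz_pass_side hT g₃ hP p₃).1
  · rintro v (hv | hv)
    · exact n₁ v hv
    · exact n₃ v hv
  · rw [p₃.hlo]
    exact ⟨g₃.aIn, rfl, rfl⟩
  · rw [p₁.hlo]
    exact T.adj_symm ⟨g₁.aIn, rfl, rfl⟩

end gate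

/-! ## 6. two tools for the instance of 97 (`Tr/FootK`, `Tr/FootS`): the gate indices with the shift named, radius ⟹ side of the selected gate -/

section footg

variable {V D κ : Type} {T : PvMap V D} {s : V → Bool}

/-- **the four gate indices, THE SHIFT EXPLICIT** (`pvsq_idx` of 97 with `M` named): `em + M n < lo₂ < lo₁ < k0 + M n < hi₁ < hi₂ < ep + M n` -/
theorem pvrf_idx (hT : T.IsSph) {mk : V → κ} {𝔯 : PvspReg κ} (hF : PvsqFr T mk 𝔯) {P : T.Cyc} {em k0 ep : ℕ} (hR : PvsqRun T mk 𝔯 P em k0 ep)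
    {g₁ g₂ : T.Gate s} (s1 : PvspSel T s (pvsqI T mk 𝔯 .I1) (pvsqI T mk 𝔯 .O1) g₁) (s2 : PvspSel T s (pvsqI T mk 𝔯 .I2) (pvsqI T mk 𝔯 .O2) g₂)
    (p1 : ∃ lo hi, g₁.Pass P lo hi) (p2 : ∃ lo hi, g₂.Pass P lo hi) :
    ∃ M lo₁ hi₁ lo₂ hi₂, g₁.Pass P lo₁ hi₁ ∧ g₂.Pass P lo₂ hi₂ ∧ em + M * P.n < lo₂ ∧ lo₂ < lo₁ ∧ lo₁ < k0 + M * P.n ∧ k0 + M * P.n < hi₁ ∧ hi₁ < hi₂ ∧ hi₂ < ep + M * P.n := by
  obtain ⟨a1, b1, p1⟩ := p1
  obtain ⟨a2, b2, p2⟩ := p2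
  have hn := pl_cyc_pos P
  have hR' := hR.shift (a1 + a2)
  set em' := em + (a1 + a2) * P.n with e1
  set k0' := k0 + (a1 + a2) * P.n with e2
  set ep' := ep + (a1 + a2) * P.n with e3
  have hbig : a1 + a2 ≤ (a1 + a2) * P.n := Nat.le_mul_of_pos_right _ hn
  have sub12 : pvsqI T mk 𝔯 .O1 ⊆ pvsqI T mk 𝔯 .I2 := fun d hd => hF.nest ⟨d, hd, rfl⟩ d rfl
  have in1 : T.src (P.e k0') ∈ T.Int g₁.c.Left := pvgn_int_mono s1.inner hR'.pin
  have in2 : T.src (P.e k0') ∈ T.Int g₂.c.Left :=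
    pvgn_int_mono ((hF.fr1.sub.trans sub12).trans s2.inner) hR'.pin
  obtain ⟨q1, u1, u2⟩ := pvsq_pass_at hT p1 (by omega) in1
  obtain ⟨q2, w1, w2⟩ := pvsq_pass_at hT p2 (by omega) in2
  have P1 := pvsq_pass_shift p1 q1
  have P2 := pvsq_pass_shift p2 q2
  set lo₁ := a1 + q1 * P.n
  set hi₁ := b1 + q1 * P.n
  set lo₂ := a2 + q2 * P.n
  set hi₂ := b2 + q2 * P.n
  have deep : ∀ k, lo₁ ≤ k → k ≤ hi₁ → T.src (P.e k) ∈ T.Int g₂.c.Left := fun k h1 h2 =>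
    pvgn_int_mono s2.inner (hF.nest (pvgn_VOf_mono s1.outer (pvsq_pass_VOf hT P1 h1 h2)))
  have out2 : ∀ v, v ∈ T.Int (pvsqI T mk 𝔯 .O2)ᶜ → v ∈ T.Int g₂.c.Right := fun v hv => by
    rw [(pl_jordan hT g₂.c).1]
    exact pvgn_int_mono (Set.compl_subset_compl.2 s2.outer) hv
  refine ⟨a1 + a2, lo₁, hi₁, lo₂, hi₂, P1, P2, ?_, ?_, u1, u2, ?_, ?_⟩
  · by_contra hc
    exact pvsq_out_not_VOf hT g₂.c (out2 _ (hF.door_m _ hR'.door_m)) (pvsq_pass_VOf hT P2 (by omega) (by have := hR'.le_m; omega))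
  · by_contra hc
    have := deep lo₂ (by omega) (by omega)
    rw [P2.hlo] at this
    exact pvsq_verts_not_int hT g₂.c ⟨0, rfl⟩ this
  · by_contra hc
    have := deep hi₂ (by omega) (by omega)
    rw [P2.hhi] at this
    exact pvsq_verts_not_int hT g₂.c ⟨g₂.m, rfl⟩ this
  · by_contra hc
    exact pvsq_out_not_VOf hT g₂.c (out2 _ (hF.door_p _ hR'.door_p)) (pvsq_pass_VOf hT P2 (by have := hR'.le_p; omega) (by omega))

/-- **RADIUS ⟹ SIDE OF THE SELECTED GATE**: the vertices of `clB(z,a)` are strictly inside, the vertices off `clB(z, b + μ)` are strictly outside -/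
theorem pvrf_sides {pos : V → ℂ} (hT : T.IsSph) {g : T.Gate s} {z : ℂ} {a b μ : ℝ} (hμ : 0 ≤ μ) (hm : PvdiMesh T pos z b μ) (sel : PvspSel T s (pvdiB T pos z a) (pvdiB T pos z b) g) :
    (∀ w, ‖pos w - z‖ ≤ a → w ∈ T.Int g.c.Left) ∧ (∀ w, b + μ < ‖pos w - z‖ → w ∈ T.Int g.c.Right) := by
  constructor
  · intro w hw
    exact pvgn_int_mono sel.inner fun d hd => Or.inl (by rw [hd]; exact hw)
  · intro w hw
    rw [(pl_jordan hT g.c).1]
    refine pvgn_int_mono (compl_subset_compl.2 sel.outer) fun d hd hB => ?_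
    have := (pvsj_face_near hμ hm hB).1
    rw [hd] at this
    linarith

end footg

end Claimed.Agent.R289
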