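-- KEEP
import Claimed.Agent.R289.Tr.StabInst
import Claimed.Agent.R289.Tr.StripW
import Claimed.Agent.R289.Tr.FootT
import Claimed.Agent.R289.Tr.Geo

/-!
# Row 289 (S0537, Cardy for Poisson-Voronoi), THE WALL, ROAD P, ruling P13 THE FOOT, file Tr/FootK : THE VERTEX SET `K`, ESCAPE, RUNGS, IN A COMPLETION      (pen + prover helper97; prefix `pvyf_`)

Model free layer between `Tr/FootT` (metric), `Tr/Geo` (29: sites versus regions), `Tr/StripW` (68: the strip lemma) and `Tr/FootS` (the model).      `T = 𝔅.T Y` a completion which agrees with the Delaunay plane of `Y` in `clB(x, 6R)`.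
* §1 `pvyf_ann_preconn` (a closed annulus is preconnected), `pvyfW` (the window `C ∖ D(A, B ∪ ring, δ)`), `pvyf_W_preconn`
* §2 `pvyfK` = the vertices at radius `< ρ₁` whose Voronoi cell misses `W`;   `pvyf_meet_join`, `pvyf_nbr`, **`pvyf_esc`** (hypothesis `hesc` of `pvrf_foot_arc`), `pvyf_mem_K`, `pvyf_K_off`
* §3 **`pvyf_rung`**: a Delaunay chain along a preconnected set, from a vertex on the right of a cycle to a vertex of the cycle, cut at its first vertex on the cycle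
-/

set_option autoImplicit false
set_option linter.unusedSectionVars false
set_option linter.unusedVariables false

namespace Claimed.Agent.R289

open Set Metric Relation Claims.C0467 Claimed.Agent.R291

/-! ## §1 the window -/

/-- a closed annulus of the plane is preconnected -/
theorem pvyf_ann_preconn (z : ℂ) {ρ₁ ρ₂ : ℝ} (h0 : 0 < ρ₁) : IsPreconnected {p : ℂ | ρ₁ ≤ ‖p - z‖ ∧ ‖p - z‖ ≤ ρ₂} := by
  have hs : IsPreconnected (sphere (0 : ℂ) 1) := isPreconnected_sphere (by rw [Complex.rank_real_complex]; exact Cardinal.one_lt_two) 0 1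
  have h1 : IsPreconnected (Icc ρ₁ ρ₂ ×ˢ sphere (0 : ℂ) 1) := isPreconnected_Icc.prod hs
  have h2 := h1.image (fun q : ℝ × ℂ => z + (q.1 : ℂ) * q.2) (by fun_prop)
  convert h2 using 1
  ext p
  constructor
  · rintro ⟨a, b⟩
    have hp : 0 < ‖p - z‖ := lt_of_lt_of_le h0 a
    refine ⟨(‖p - z‖, (p - z) / (‖p - z‖ : ℂ)), ⟨⟨a, b⟩, ?_⟩, ?_⟩
    · rw [mem_sphere_zero_iff_norm, norm_div, Complex.norm_real, norm_norm, div_self hp.ne']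
    · have : (‖p - z‖ : ℂ) ≠ 0 := by exact_mod_cast hp.ne'
      show z + (‖p - z‖ : ℂ) * ((p - z) / (‖p - z‖ : ℂ)) = p
      field_simp
      ring
  · rintro ⟨⟨r, u⟩, ⟨⟨hr1, hr2⟩, hu⟩, rfl⟩
    rw [mem_sphere_zero_iff_norm] at hu
    have : ‖z + (r : ℂ) * u - z‖ = r := by
      rw [add_sub_cancel_left, norm_mul, hu, mul_one, Complex.norm_real, Real.norm_of_nonneg (h0.le.trans hr1)]
    show ρ₁ ≤ ‖z + (r : ℂ) * u - z‖ ∧ ‖z + (r : ℂ) * u - z‖ ≤ ρ₂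
    rw [this]
    exact ⟨hr1, hr2⟩

/-- the obstacle: the other half tube and the far ring -/
def pvyfB (Bm : Set ℂ) (z : ℂ) (ρ₁ ρ₂ : ℝ) : Set ℂ := Bm ∪ {p | ρ₁ ≤ ‖p - z‖ ∧ ‖p - z‖ ≤ ρ₂}

/-- **the window**: the points of `clB(z, ρ₂)` which are NOT closer to `A` than to the obstacle by `δ` -/
def pvyfW (A Bm : Set ℂ) (z : ℂ) (ρ₁ ρ₂ δ : ℝ) : Set ℂ := closedBall z ρ₂ \ pvyfD A (pvyfB Bm z ρ₁ ρ₂) δ

theorem pvyf_eqns_cite3 : True := by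
  have := @pvyfB.eq_1; have := @pvyfW.eq_1
  trivial

section window

variable {A Bm : Set ℂ} {z : ℂ} {ρ₁ ρ₂ δ : ℝ}

/-- **the window is preconnected** -/
theorem pvyf_W_preconn (hδ : 0 < δ) (h0 : 0 < ρ₁) (cB : IsCompact Bm) (pB : IsPreconnected Bm) (hB2 : ∀ p ∈ Bm, ‖p - z‖ ≤ ρ₂) (hB1 : ∃ p ∈ Bm, ρ₁ ≤ ‖p - z‖) :
    IsPreconnected (pvyfW A Bm z ρ₁ ρ₂ δ) := by
  obtain ⟨p₀, hp₀, hp₁⟩ := hB1
  have hsub : pvyfB Bm z ρ₁ ρ₂ ⊆ closedBall z ρ₂ := by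
    rintro p (hp | hp)
    · exact mem_closedBall_iff_norm.2 (hB2 p hp)
    · exact mem_closedBall_iff_norm.2 hp.2
  have hcap : pvyfB Bm z ρ₁ ρ₂ ∩ closedBall z ρ₂ = pvyfB Bm z ρ₁ ρ₂ := inter_eq_left.2 hsub
  have hann : IsCompact {p : ℂ | ρ₁ ≤ ‖p - z‖ ∧ ‖p - z‖ ≤ ρ₂} := by
    refine (isCompact_closedBall z ρ₂).of_isClosed_subset ?_ fun p hp => mem_closedBall_iff_norm.2 hp.2
    have hcont : Continuous fun p : ℂ => ‖p - z‖ := by fun_prop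
    exact (isClosed_le continuous_const hcont).inter (isClosed_le hcont continuous_const)
  have hc : IsCompact (pvyfB Bm z ρ₁ ρ₂) := cB.union hann
  refine pvyf_co_preconn hδ (convex_closedBall z ρ₂) ?_ fun p _ => ?_
  · rw [hcap]
    exact IsPreconnected.union p₀ hp₀ ⟨hp₁, hB2 p₀ hp₀⟩ pB (pvyf_ann_preconn z h0)
  · rw [hcap]
    exact hc.exists_infDist_eq_dist ⟨p₀, Or.inl hp₀⟩ p

/-- a point which is closer to `A` than to `Bm` and far inside the ring is closer to `A` than to the obstacle -/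
theorem pvyf_D_ring {m : ℝ} {p : ℂ} (hne : Bm.Nonempty) (hp : p ∈ pvyfD A Bm m) (hr : infDist p A + m ≤ ρ₁ - ‖p - z‖) : p ∈ pvyfD A (pvyfB Bm z ρ₁ ρ₂) m := by
  rw [pvyf_D_mem] at hp ⊢
  refine (le_infDist (hne.mono subset_union_left)).2 ?_
  rintro y (hy | hy)
  · exact hp.trans (infDist_le_dist_of_mem hy)
  · have h1 : ‖y - z‖ ≤ ‖y - p‖ + ‖p - z‖ := by
      have := norm_add_le (y - p) (p - z)
      rwa [sub_add_sub_cancel] at this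
    rw [dist_eq_norm, norm_sub_rev]
    linarith [hy.1]

theorem pvyf_D_unring {m : ℝ} (hne : Bm.Nonempty) (hA : A.Nonempty) : pvyfD A (pvyfB Bm z ρ₁ ρ₂) m ⊆ pvyfD A Bm m :=
  pvyf_D_mono_set Subset.rfl hA subset_union_left hne

end window

/-! ## §2 the vertex set `K` of a completion -/

/-- the vertices at radius `< ρ₁` whose Voronoi cell misses `W` -/
def pvyfK {X : Type} (𝔅 : PvBulk X) (Y : Set ℂ) (zi : ℂ) (W : Set ℂ) (z : ℂ) (ρ₁ : ℝ) : Set (𝔅.V Y) := {v | 𝔅.posF Y zi v ∈ pvgeK Y W ∧ ‖𝔅.posF Y zi v - z‖ < ρ₁}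

theorem pvyf_eqns_cite4 : True := by
  have := @pvyfK.eq_1
  trivial

section maps

variable {V D : Type} {T : PvMap V D}

theorem pvyf_join_of_chain {Xs : Set V} {Q : V → Prop} (hQ : ∀ v, Q v → v ∈ Xs) {u v : V} (hu : u ∈ Xs) (h : ReflTransGen (fun a b => T.Adj a b ∧ Q b) u v) : T.Join univ Xs u v :=
  ⟨hu, ReflTransGen.mono (fun a b hab => ⟨by obtain ⟨d, h1, h2⟩ := hab.1; exact ⟨d, Or.inl (mem_univ _), h1, h2⟩, hQ _ hab.2⟩) _ _ h⟩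

theorem pvyf_join_head {Xs : Set V} {a b c : V} (ha : a ∈ Xs) (hab : T.Adj a b) (h : T.Join univ Xs b c) : T.Join univ Xs a c :=
  ⟨ha, ReflTransGen.head ⟨by obtain ⟨d, h1, h2⟩ := hab; exact ⟨d, Or.inl (mem_univ _), h1, h2⟩, h.1⟩ h.2⟩

end maps

section comp

variable {X : Type} {𝔅 : PvBulk X} {Y W : Set ℂ} {x z : ℂ} {R μ ρ₁ ρ₂ : ℝ}

/-- a site whose cell meets a dense region is close to it -/
theorem pvyf_meet_near {S : Set ℂ} (dense : VorDense Y (closedBall x (5 * R)) μ) (hS : S ⊆ closedBall x (5 * R)) {a : ℂ} (ha : a ∈ vorMeet Y S) : ∃ q ∈ S, ‖q - a‖ ≤ μ := by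
  obtain ⟨-, q, hq, hqS⟩ := ha
  obtain ⟨u, hu, hqu⟩ := dense q (hS hqS)
  exact ⟨q, hqS, (hq u hu).trans hqu⟩

theorem pvyf_meet_ball {S : Set ℂ} (hμR : μ ≤ R) (dense : VorDense Y (closedBall x (5 * R)) μ) (hS : S ⊆ closedBall x (5 * R)) : vorMeet Y S ⊆ closedBall x (6 * R) := by
  intro a ha
  obtain ⟨q, hq, hqa⟩ := pvyf_meet_near dense hS ha
  have h1 := mem_closedBall_iff_norm.1 (hS hq)
  rw [mem_closedBall_iff_norm]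
  have h2 : ‖a - x‖ ≤ ‖a - q‖ + ‖q - x‖ := by
    have := norm_add_le (a - q) (q - x)
    rwa [sub_add_sub_cancel] at this
  rw [norm_sub_rev a q] at h2
  linarith

/-- a Delaunay chain along a preconnected set of the dense region, in the completion -/
theorem pvyf_lift {S : Set ℂ} (hOk : 𝔅.Ok Y (closedBall x (6 * R))) (hY : DelGood Y) (hμR : μ ≤ R) (dense : VorDense Y (closedBall x (5 * R)) μ) (hS : S ⊆ closedBall x (5 * R)) (pS : IsPreconnected S)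
    {u u' : 𝔅.V Y} {a a' : ℂ} (hu : 𝔅.lab Y u = Sum.inl a) (ha : a ∈ vorMeet Y S) (hu' : 𝔅.lab Y u' = Sum.inl a') (ha' : a' ∈ vorMeet Y S) :
    ReflTransGen (fun p q => (𝔅.T Y).Adj p q ∧ ∃ b ∈ vorMeet Y S, 𝔅.lab Y q = Sum.inl b) u u' := by
  have hsub := pvyf_meet_ball hμR dense hS
  obtain ⟨v, hv, hch⟩ := pvge_bulk_chain 𝔅 hOk hY.lf (fun v _ => hY.bdd v) hsub (hsub ha) hu (pvge_conn hY.lf pS ha ha')
  rwa [hOk.inj (hv.trans hu'.symm)] at hch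

/-- a vertex whose cell meets `W` is not in `K` -/
theorem pvyf_meet_off {zi : ℂ} {v : 𝔅.V Y} {b : ℂ} (hb : b ∈ vorMeet Y W) (hv : 𝔅.lab Y v = Sum.inl b) : v ∉ pvyfK 𝔅 Y zi W z ρ₁ := by
  rintro ⟨h1, -⟩
  rw [l9_posF_inl 𝔅 hv] at h1
  rw [← pvge_K_sdiff] at hb
  exact hb.2 h1

/-- two vertices whose cells meet `W` are joined off `K` -/
theorem pvyf_meet_join (hOk : 𝔅.Ok Y (closedBall x (6 * R))) (hY : DelGood Y) (hμR : μ ≤ R) (dense : VorDense Y (closedBall x (5 * R)) μ) (hW : W ⊆ closedBall x (5 * R)) (pW : IsPreconnected W)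
    {zi : ℂ} {u u' : 𝔅.V Y} {a a' : ℂ} (hu : 𝔅.lab Y u = Sum.inl a) (ha : a ∈ vorMeet Y W) (hu' : 𝔅.lab Y u' = Sum.inl a') (ha' : a' ∈ vorMeet Y W) :
    (𝔅.T Y).Join univ (pvyfK 𝔅 Y zi W z ρ₁)ᶜ u u' :=
  pvyf_join_of_chain (Q := fun q => ∃ b ∈ vorMeet Y W, 𝔅.lab Y q = Sum.inl b) (fun v ⟨b, hb, hv⟩ => pvyf_meet_off hb hv) (pvyf_meet_off ha hu) (pvyf_lift hOk hY hμR dense hW pW hu ha hu' ha')

/-- a neighbour of a vertex of `K` lies in `K` or its cell meets `W` -/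
theorem pvyf_nbr (hR : 0 < R) (hOk : 𝔅.Ok Y (closedBall x (6 * R))) (hz : ‖z - x‖ + ρ₂ ≤ 6 * R) (hm : PvdiMesh (𝔅.T Y) (𝔅.posF Y (x + 7 * R)) z ρ₂ μ) (h12 : ρ₁ + μ ≤ ρ₂) (hμ : 0 ≤ μ)
    (hring : ∀ p, ρ₁ ≤ ‖p - z‖ → ‖p - z‖ ≤ ρ₂ → p ∈ W) {w w' : 𝔅.V Y} (hw' : w' ∈ pvyfK 𝔅 Y (x + 7 * R) W z ρ₁) (hadj : (𝔅.T Y).Adj w' w) :
    w ∈ pvyfK 𝔅 Y (x + 7 * R) W z ρ₁ ∨ ∃ b ∈ vorMeet Y W, 𝔅.lab Y w = Sum.inl b := by
  obtain ⟨h1, h2⟩ := hw'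
  have h3 : ‖𝔅.posF Y (x + 7 * R) w' - x‖ ≤ 6 * R := by
    have := norm_add_le (𝔅.posF Y (x + 7 * R) w' - z) (z - x)
    rw [sub_add_sub_cancel] at this
    linarith
  have hl := pvloc_posF hR h3
  have hstep := hm w' w hadj (by linarith)
  obtain ⟨d, rfl, rfl⟩ := hadj
  obtain ⟨b, hb, hab⟩ := pvge_bulk_adj' 𝔅 hOk hl (mem_closedBall_iff_norm.2 h3)
  have hpb := l9_posF_inl 𝔅 (zi := x + 7 * R) hb
  by_cases hbW : b ∈ vorMeet Y W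
  · exact Or.inr ⟨b, hbW, hb⟩
  · left
    have hbK : b ∈ pvgeK Y W := by
      by_contra hc
      exact hbW (by rw [← pvge_K_sdiff]; exact ⟨hab.2.1, hc⟩)
    refine ⟨by rw [hpb]; exact hbK, ?_⟩
    rw [hpb] at hstep ⊢
    by_contra hc
    refine (pvge_K_sub Y W hbK).2 (hring b (not_lt.1 hc) ?_)
    have := norm_add_le (b - 𝔅.posF Y (x + 7 * R) ((𝔅.T Y).src d)) (𝔅.posF Y (x + 7 * R) ((𝔅.T Y).src d) - z)
    rw [sub_add_sub_cancel] at this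
    linarith

/-- **ESCAPE**: every vertex off `K` is joined off `K` to a given vertex whose cell meets `W` -/
theorem pvyf_esc (hR : 0 < R) (hOk : 𝔅.Ok Y (closedBall x (6 * R))) (hY : DelGood Y) (hμ : 0 ≤ μ) (hμR : μ ≤ R) (dense : VorDense Y (closedBall x (5 * R)) μ) (hW : W ⊆ closedBall x (5 * R)) (pW : IsPreconnected W)
    (hz : ‖z - x‖ + ρ₂ ≤ 6 * R) (hm : PvdiMesh (𝔅.T Y) (𝔅.posF Y (x + 7 * R)) z ρ₂ μ) (h12 : ρ₁ + μ ≤ ρ₂) (hring : ∀ p, ρ₁ ≤ ‖p - z‖ → ‖p - z‖ ≤ ρ₂ → p ∈ W)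
    {u₀ : 𝔅.V Y} {a₀ : ℂ} (hu₀ : 𝔅.lab Y u₀ = Sum.inl a₀) (ha₀ : a₀ ∈ vorMeet Y W) (w : 𝔅.V Y) (hw : w ∉ pvyfK 𝔅 Y (x + 7 * R) W z ρ₁) :
    (𝔅.T Y).Join univ (pvyfK 𝔅 Y (x + 7 * R) W z ρ₁)ᶜ w u₀ := by
  have hconn := hOk.sph.conn w u₀
  revert hw
  induction hconn using ReflTransGen.head_induction_on with
  | refl => exact fun hw => ⟨hw, ReflTransGen.refl⟩
  | @head a c hac hcb ih =>
    intro ha
    by_cases hc : c ∈ pvyfK 𝔅 Y (x + 7 * R) W z ρ₁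
    · rcases pvyf_nbr hR hOk hz hm h12 hμ hring hc ((𝔅.T Y).adj_symm hac) with h | ⟨b, hb, hl⟩
      · exact absurd h ha
      · exact pvyf_meet_join hOk hY hμR dense hW pW hl hb hu₀ ha₀
    · exact pvyf_join_head ha hac (ih hc)

/-- membership in `K` -/
theorem pvyf_mem_K (hOk : 𝔅.Ok Y (closedBall x (6 * R))) (hμ : 0 < μ) (dense : VorDense Y (closedBall x (5 * R)) μ) {zi : ℂ} {v : 𝔅.V Y} {a : ℂ} (hv : 𝔅.lab Y v = Sum.inl a)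
    (hax : ‖a - x‖ + 2 * μ ≤ 5 * R) (hoff : ∀ q, ‖q - a‖ ≤ μ → q ∉ W) (hr : ‖a - z‖ < ρ₁) : v ∈ pvyfK 𝔅 Y zi W z ρ₁ := by
  have hcore : a ∈ pvtrCore (2 * μ) (closedBall x (5 * R)) := by
    refine closedBall_subset_closedBall' ?_
    rw [dist_eq_norm]
    linarith
  have hcell := pvge_cell_core hμ.le (by linarith) dense hcore
  rw [pvyfK, mem_ofPred_eq, l9_posF_inl 𝔅 hv]
  exact ⟨⟨hOk.site v a hv, disjoint_left.2 fun q hq hqW => hoff q (mem_closedBall_iff_norm.1 (hcell hq)) hqW⟩, hr⟩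

/-- the position of a vertex of `K` is off `W` -/
theorem pvyf_K_off {zi : ℂ} {v : 𝔅.V Y} (hv : v ∈ pvyfK 𝔅 Y zi W z ρ₁) : 𝔅.posF Y zi v ∉ W := (pvge_K_sub Y W hv.1).2

end comp

/-! ## §3 rungs -/

/-- a chain from a vertex strictly on the right of a cycle to a vertex of the cycle, cut at its first vertex on the cycle -/
theorem pvyf_first_hit {V D : Type} {T : PvMap V D} (hT : T.IsSph) (c : T.Cyc) {Q : V → Prop} {u u' : V} (h : ReflTransGen (fun p q => T.Adj p q ∧ Q q) u u') (hur : u ∈ T.Int c.Right) (hQu : Q u)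
    (hu' : u' ∈ c.verts) : ∃ w i, T.Join univ {v | v ∈ T.Int c.Right ∧ Q v} u w ∧ T.Adj w (T.src (c.e i)) ∧ Q (T.src (c.e i)) := by
  revert hur hQu
  induction h using ReflTransGen.head_induction_on with
  | refl => exact fun hur _ => absurd hur (disjoint_left.1 (pl_jordan_vert_disj hT c).2.1 hu')
  | @head a b hab hbc ih =>
    intro hur hQu
    by_cases hb : b ∈ c.verts
    · obtain ⟨i, hi⟩ := hb
      exact ⟨a, i, ⟨⟨hur, hQu⟩, ReflTransGen.refl⟩, by rw [hi]; exact hab.1, by rw [hi]; exact hab.2⟩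
    · have hbr : b ∈ T.Int c.Right := pvge_sep_right hT c hur (ReflTransGen.single ⟨hab.1, hb⟩)
      obtain ⟨w, i, J, h1, h2⟩ := ih hbr hab.2
      exact ⟨w, i, pvyf_join_head ⟨hur, hQu⟩ hab.1 J, h1, h2⟩

/-- **THE RUNG**: along a preconnected set `S` of the dense region, from a vertex on the right of the cycle to the cycle -/
theorem pvyf_rung {X : Type} {𝔅 : PvBulk X} {Y S : Set ℂ} {x : ℂ} {R μ : ℝ} (hOk : 𝔅.Ok Y (closedBall x (6 * R))) (hY : DelGood Y) (hμR : μ ≤ R) (dense : VorDense Y (closedBall x (5 * R)) μ)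
    (hS : S ⊆ closedBall x (5 * R)) (pS : IsPreconnected S) (c : (𝔅.T Y).Cyc) {u u' : 𝔅.V Y} {a a' : ℂ} (hu : 𝔅.lab Y u = Sum.inl a) (ha : a ∈ vorMeet Y S) (hur : u ∈ (𝔅.T Y).Int c.Right)
    (hu' : 𝔅.lab Y u' = Sum.inl a') (ha' : a' ∈ vorMeet Y S) (hc : u' ∈ c.verts) :
    ∃ w i, (𝔅.T Y).Join univ {v | v ∈ (𝔅.T Y).Int c.Right ∧ ∃ b ∈ vorMeet Y S, 𝔅.lab Y v = Sum.inl b} u w ∧ (𝔅.T Y).Adj w ((𝔅.T Y).src (c.e i)) ∧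
      ∃ b ∈ vorMeet Y S, 𝔅.lab Y ((𝔅.T Y).src (c.e i)) = Sum.inl b :=
  pvyf_first_hit hOk.sph c (pvyf_lift hOk hY hμR dense hS pS hu ha hu' ha') hur ⟨a, ha, hu⟩ hc

/-! ## §4 the strip lemma of 68 with a fence which contains only a stretch of the chain -/

section paths

variable {V D κ : Type} {T : PvMap V D} {s : V → Bool} {mk : V → κ}

/-- `pvrf_foot_path` of 68, the fence `X` is any connected set which meets the circuit of the gate only on the chain -/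
theorem pvyf_foot_path (hT : T.IsSph) (hS : T.Simple) {P : T.Cyc} (hP : ∀ k, s (T.src (P.e k)) = true) (g : T.Gate s) {lo hi : ℕ} (hp : g.Pass P lo hi) {i j : ℕ} (i1 : i < hi) (j1 : hi < j) (lt' : j < i + P.n)
    {u : ℕ → V} {ℓ : ℕ} (hadj : ∀ t, t < ℓ → T.Adj (u t) (u (t + 1))) (hw : ∀ t, t ≤ ℓ → s (u t) = false) (hr : ∀ t, t ≤ ℓ → u t ∈ T.Int P.Right) (h0 : u 0 ∈ T.Int g.c.Left) (hℓ : u ℓ ∈ T.Int g.c.Right)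
    {X K : Set V} (hX : X ⊆ T.Int P.Right) (hXK : X ⊆ K) (hXg : ∀ v ∈ X, v ∈ g.c.verts → ∃ t, t ≤ ℓ ∧ u t = v) {a b : V} (hab : T.Join univ X a b)
    (h1 : T.Adj (T.src (P.e i)) a) (h2 : T.Adj b (T.src (P.e j))) (harc : ∀ k, i ≤ k → k ≤ j → T.src (P.e k) ∈ K) (hesc : ∀ w, w ∉ K → ∃ l, j < l ∧ l < i + P.n ∧ T.Join univ Kᶜ w (T.src (P.e l)))
    {N Dp : Set κ} (hTp : ∀ v ∈ K, v ∈ g.c.verts → mk v ∈ N) (hM : ∀ t, t ≤ ℓ → mk (u t) ∈ N) (hD : mk (u ℓ) ∈ Dp) : PvspPath T mk s false {T.tgt g.aOut} N Dp := by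
  have : Nonempty D := ⟨P.e 0⟩
  have hm := g.hm
  obtain ⟨t, k, -, ht, k0, k1, e, hmax⟩ := pvrf_last hT g hP hp (Nat.zero_le ℓ) (fun t _ h => hadj t h) (fun t _ h => hr t h) h0 hℓ
  have hoff : ∀ k', k < k' → k' < g.m → T.src (g.c.e k') ∉ X := by
    intro k' a1 a2 hx
    obtain ⟨q, hq, e'⟩ := hXg _ hx ⟨k', rfl⟩
    exact hmax k' a1 a2 q (Nat.zero_le _) hq e'.symm
  have hK := pvrf_foot_arc hT hS hP g hp i1 j1 lt' hX hXK hab h1 h2 harc hesc k0 hoff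
  have j1 : T.Join univ {v | s v = false ∧ mk v ∈ N} (T.src (g.c.e k)) (T.src (g.c.e (g.m - 1))) := by
    refine pvrf_arc_join g.c (by omega) fun q q0 q1 => ?_
    rcases Nat.eq_or_lt_of_le q0 with rfl | q0
    · rw [e]; exact ⟨hw t ht, hM t ht⟩
    · exact ⟨pvtg_R_white g ⟨q, by omega, by omega, rfl⟩, hTp _ (hK q q0 (by omega)) ⟨q, rfl⟩⟩
  have j2 : T.Join univ {v | s v = false ∧ mk v ∈ N} (u t) (u ℓ) :=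
    pvrf_chain_join ht (fun q _ h => hadj q h) fun q _ h => ⟨hw q h, hM q h⟩
  obtain ⟨q, q0, qn, qX, -⟩ := pl_pth_of_join (pl_hx_join_trans (pl_hx_join_symm j1) (e ▸ j2))
  exact ⟨q, by rw [q0, pvtg_aOut_tgt]; rfl, by rw [qn]; exact hD, fun x hx => qX hx⟩

/-- `pvrf_head_path` of 68, same generality -/
theorem pvyf_head_path (hT : T.IsSph) (hS : T.Simple) {P : T.Cyc} (hP : ∀ k, s (T.src (P.e k)) = true) (g : T.Gate s) {lo hi : ℕ} (hp : g.Pass P lo hi) {i j : ℕ} (i1 : i < lo) (j1 : lo < j) (lt' : j < i + P.n)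
    {u : ℕ → V} {ℓ : ℕ} (hadj : ∀ t, t < ℓ → T.Adj (u t) (u (t + 1))) (hw : ∀ t, t ≤ ℓ → s (u t) = false) (hr : ∀ t, t ≤ ℓ → u t ∈ T.Int P.Right) (h0 : u 0 ∈ T.Int g.c.Left) (hℓ : u ℓ ∈ T.Int g.c.Right)
    {X K : Set V} (hX : X ⊆ T.Int P.Right) (hXK : X ⊆ K) (hXg : ∀ v ∈ X, v ∈ g.c.verts → ∃ t, t ≤ ℓ ∧ u t = v) {a b : V} (hab : T.Join univ X a b)
    (h1 : T.Adj (T.src (P.e i)) a) (h2 : T.Adj b (T.src (P.e j))) (harc : ∀ k, i ≤ k → k ≤ j → T.src (P.e k) ∈ K) (hesc : ∀ w, w ∉ K → ∃ l, j < l ∧ l < i + P.n ∧ T.Join univ Kᶜ w (T.src (P.e l)))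
    {N Dm : Set κ} (hTm : ∀ v ∈ K, v ∈ g.c.verts → mk v ∈ N) (hM : ∀ t, t ≤ ℓ → mk (u t) ∈ N) (hD : mk (u ℓ) ∈ Dm) : PvspPath T mk s false {T.tgt g.aIn} N Dm := by
  have : Nonempty D := ⟨P.e 0⟩
  have hm := g.hm
  obtain ⟨t, k, -, ht, k0, k1, e, hmin⟩ := pvrf_first hT g hP hp (Nat.zero_le ℓ) (fun t _ h => hadj t h) (fun t _ h => hr t h) h0 hℓ
  have hoff : ∀ k', 0 < k' → k' < k → T.src (g.c.e k') ∉ X := by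
    intro k' a1 a2 hx
    obtain ⟨q, hq, e'⟩ := hXg _ hx ⟨k', rfl⟩
    exact hmin k' a1 a2 q (Nat.zero_le _) hq e'.symm
  have hK := pvrf_head_arc hT hS hP g hp i1 j1 lt' hX hXK hab h1 h2 harc hesc k1.le hoff
  have j1 : T.Join univ {v | s v = false ∧ mk v ∈ N} (T.src (g.c.e 1)) (T.src (g.c.e k)) := by
    refine pvrf_arc_join g.c (by omega) fun q q0 q1 => ?_
    rcases Nat.eq_or_lt_of_le q1 with rfl | q1
    · rw [e]; exact ⟨hw t ht, hM t ht⟩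
    · exact ⟨pvtg_R_white g ⟨q, by omega, by omega, rfl⟩, hTm _ (hK q (by omega) q1) ⟨q, rfl⟩⟩
  have j2 : T.Join univ {v | s v = false ∧ mk v ∈ N} (u t) (u ℓ) :=
    pvrf_chain_join ht (fun q _ h => hadj q h) fun q _ h => ⟨hw q h, hM q h⟩
  obtain ⟨q, q0, qn, qX, -⟩ := pl_pth_of_join (pl_hx_join_trans j1 (e ▸ j2))
  exact ⟨q, by rw [q0, pvtg_aIn_tgt]; rfl, by rw [qn]; exact hD, fun x hx => qX hx⟩

end paths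

/-! ## §5 the base record -/

/-- the standing hypotheses: a completion, mesh, the two half tubes `A` (near), `Bm` (far), the ring -/
structure PvyfBase {X : Type} (𝔅 : PvBulk X) (Y : Set ℂ) (x z : ℂ) (R μ δ ρ₁ ρ₂ : ℝ) (A Bm : Set ℂ) : Prop where
  hR : 0 < R
  ok : 𝔅.Ok Y (closedBall x (6 * R))
  good : DelGood Y
  hμ : 0 < μ
  hμR : μ ≤ R
  dense : VorDense Y (closedBall x (5 * R)) μ
  hz : ‖z - x‖ + ρ₂ + 2 * μ ≤ 5 * R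
  mesh : PvdiMesh (𝔅.T Y) (𝔅.posF Y (x + 7 * R)) z ρ₂ μ
  h12 : ρ₁ + μ ≤ ρ₂
  h0 : 0 < ρ₁
  hδ : 20 * μ ≤ δ
  hA : A.Nonempty
  cB : IsCompact Bm
  pB : IsPreconnected Bm
  hB2 : ∀ p ∈ Bm, ‖p - z‖ ≤ ρ₂
  hB1 : ∃ p ∈ Bm, ρ₁ ≤ ‖p - z‖

section base

variable {X : Type} {𝔅 : PvBulk X} {Y : Set ℂ} {x z : ℂ} {R μ δ ρ₁ ρ₂ : ℝ} {A Bm : Set ℂ}

theorem PvyfBase.δ0 (B : PvyfBase 𝔅 Y x z R μ δ ρ₁ ρ₂ A Bm) : 0 < δ := by have := B.hμ; have := B.hδ; linarith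

theorem PvyfBase.Bne (B : PvyfBase 𝔅 Y x z R μ δ ρ₁ ρ₂ A Bm) : Bm.Nonempty := by obtain ⟨p, hp, -⟩ := B.hB1; exact ⟨p, hp⟩

theorem PvyfBase.ball (B : PvyfBase 𝔅 Y x z R μ δ ρ₁ ρ₂ A Bm) {p : ℂ} (hp : ‖p - z‖ ≤ ρ₂) : ‖p - x‖ + 2 * μ ≤ 5 * R := by
  have := norm_add_le (p - z) (z - x)
  rw [sub_add_sub_cancel] at this
  have := B.hz
  linarith

theorem PvyfBase.W_sub (B : PvyfBase 𝔅 Y x z R μ δ ρ₁ ρ₂ A Bm) : pvyfW A Bm z ρ₁ ρ₂ δ ⊆ closedBall x (5 * R) := fun p hp => by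
  have := B.ball (mem_closedBall_iff_norm.1 hp.1)
  have := B.hμ
  exact mem_closedBall_iff_norm.2 (by linarith)

/-- a vertex at radius `≤ ρ₂` is a site -/
theorem PvyfBase.lab (B : PvyfBase 𝔅 Y x z R μ δ ρ₁ ρ₂ A Bm) {v : 𝔅.V Y} (hv : ‖𝔅.posF Y (x + 7 * R) v - z‖ ≤ ρ₂) : 𝔅.lab Y v = Sum.inl (𝔅.posF Y (x + 7 * R) v) :=
  pvloc_posF B.hR (by have := B.ball hv; have := B.hμ; have := B.hR; linarith)

/-- **(S1)** membership in `K` -/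
theorem PvyfBase.mem_K (B : PvyfBase 𝔅 Y x z R μ δ ρ₁ ρ₂ A Bm) {v : 𝔅.V Y} {m : ℝ} (hm : δ + 2 * μ ≤ m) (hD : 𝔅.posF Y (x + 7 * R) v ∈ pvyfD A Bm m)
    (hr : infDist (𝔅.posF Y (x + 7 * R) v) A + m ≤ ρ₁ - ‖𝔅.posF Y (x + 7 * R) v - z‖) : v ∈ pvyfK 𝔅 Y (x + 7 * R) (pvyfW A Bm z ρ₁ ρ₂ δ) z ρ₁ := by
  have hμ := B.hμ; have hδ := B.δ0; have h12 := B.h12
  have h1 := infDist_nonneg (x := 𝔅.posF Y (x + 7 * R) v) (s := A)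
  have hrad : ‖𝔅.posF Y (x + 7 * R) v - z‖ < ρ₁ := by linarith
  refine pvyf_mem_K B.ok hμ B.dense (B.lab (by linarith)) (B.ball (by linarith)) (fun q hq hqW => hqW.2 ?_) hrad
  exact pvyf_D_nbhd (pvyf_D_ring B.Bne hD hr) hq hm

/-- **(S2)** escape to a vertex of the far half tube -/
theorem PvyfBase.esc (B : PvyfBase 𝔅 Y x z R μ δ ρ₁ ρ₂ A Bm) {u₀ : 𝔅.V Y} (hu₀ : 𝔅.posF Y (x + 7 * R) u₀ ∈ Bm) (w : 𝔅.V Y) (hw : w ∉ pvyfK 𝔅 Y (x + 7 * R) (pvyfW A Bm z ρ₁ ρ₂ δ) z ρ₁) :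
    (𝔅.T Y).Join univ (pvyfK 𝔅 Y (x + 7 * R) (pvyfW A Bm z ρ₁ ρ₂ δ) z ρ₁)ᶜ w u₀ := by
  have hμ := B.hμ; have hδ := B.δ0; have hR := B.hR
  have hl := B.lab (B.hB2 _ hu₀)
  have hoffD : ∀ p ∈ pvyfB Bm z ρ₁ ρ₂, p ∉ pvyfD A (pvyfB Bm z ρ₁ ρ₂) δ := by
    intro p hp h
    rw [pvyf_D_mem, infDist_zero_of_mem hp] at h
    have := infDist_nonneg (x := p) (s := A)
    linarith
  refine pvyf_esc (ρ₂ := ρ₂) hR B.ok B.good hμ.le B.hμR B.dense B.W_sub (pvyf_W_preconn hδ B.h0 B.cB B.pB B.hB2 B.hB1) (by have := B.hz; linarith) B.mesh B.h12 ?_ hl ?_ w hw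
  · exact fun p h1 h2 => ⟨mem_closedBall_iff_norm.2 h2, hoffD p (Or.inr ⟨h1, h2⟩)⟩
  · exact pvge_site_meet (B.ok.site _ _ hl) ⟨mem_closedBall_iff_norm.2 (B.hB2 _ hu₀), hoffD _ (Or.inl hu₀)⟩

/-- **(S3)** the vertices of `K` are closer to `A` -/
theorem PvyfBase.K_D (B : PvyfBase 𝔅 Y x z R μ δ ρ₁ ρ₂ A Bm) {v : 𝔅.V Y} (hv : v ∈ pvyfK 𝔅 Y (x + 7 * R) (pvyfW A Bm z ρ₁ ρ₂ δ) z ρ₁) : 𝔅.posF Y (x + 7 * R) v ∈ pvyfD A Bm δ := by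
  have h1 := pvyf_K_off hv
  have h2 := hv.2
  have h12 := B.h12; have hμ := B.hμ
  by_contra hc
  exact h1 ⟨mem_closedBall_iff_norm.2 (by linarith), fun h => hc (pvyf_D_unring B.Bne B.hA h)⟩

theorem pvyf_tri (a b c : ℂ) : ‖a - c‖ ≤ ‖a - b‖ + ‖b - c‖ := by
  have := norm_add_le (a - b) (b - c)
  rwa [sub_add_sub_cancel] at this

/-- **(S4) THE RUNG** from a vertex `u` on the right of the cycle: straight to its nearest point `y` of `A`, then to a vertex `u'` of the cycle near `y` -/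
theorem PvyfBase.rung (B : PvyfBase 𝔅 Y x z R μ δ ρ₁ ρ₂ A Bm) (c : (𝔅.T Y).Cyc) {u u' : 𝔅.V Y} (hur : u ∈ (𝔅.T Y).Int c.Right) (hc : u' ∈ c.verts) {y : ℂ} (hy : y ∈ A)
    (hpy : infDist (𝔅.posF Y (x + 7 * R) u) A = dist (𝔅.posF Y (x + 7 * R) u) y) (hd : dist (𝔅.posF Y (x + 7 * R) u) y ≤ 8.5 * δ) (hD : 𝔅.posF Y (x + 7 * R) u ∈ pvyfD A Bm (1.5 * δ))
    (hyD : y ∈ pvyfD A Bm (10 * δ)) (hu'y : ‖𝔅.posF Y (x + 7 * R) u' - y‖ ≤ 2 * δ + μ) (hrad : ‖𝔅.posF Y (x + 7 * R) u - z‖ + 11 * δ ≤ ρ₂) :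
    ∃ w i, (𝔅.T Y).Join univ {v | v ∈ (𝔅.T Y).Int c.Right ∧ 𝔅.posF Y (x + 7 * R) v ∈ pvyfD A Bm (1.4 * δ) ∧ ‖𝔅.posF Y (x + 7 * R) v - 𝔅.posF Y (x + 7 * R) u‖ ≤ 11 * δ} u w ∧
      (𝔅.T Y).Adj w ((𝔅.T Y).src (c.e i)) ∧ 𝔅.posF Y (x + 7 * R) ((𝔅.T Y).src (c.e i)) ∈ pvyfD A Bm (1.4 * δ) ∧
      ‖𝔅.posF Y (x + 7 * R) ((𝔅.T Y).src (c.e i)) - 𝔅.posF Y (x + 7 * R) u‖ ≤ 11 * δ := by
  have hμ := B.hμ; have hδ := B.δ0; have hδμ := B.hδ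
  set p := 𝔅.posF Y (x + 7 * R) u with hp
  set q := 𝔅.posF Y (x + 7 * R) u' with hq
  have hσ : ∀ r ∈ segment ℝ p y ∪ segment ℝ y q, r ∈ pvyfD A Bm (1.5 * δ) ∧ ‖r - p‖ ≤ 10.5 * δ + μ := by
    rintro r (hr | hr)
    · have h0 := dist_add_dist_of_mem_segment hr
      have h1 : 0 ≤ dist r y := dist_nonneg
      refine ⟨pvyf_seg_up hy hpy hD hr, ?_⟩
      rw [← dist_eq_norm, dist_comm]
      linarith
    · have h0 := dist_add_dist_of_mem_segment hr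
      have h1 : 0 ≤ dist r q := dist_nonneg
      have h2 : dist y q ≤ 2 * δ + μ := by rw [dist_comm, dist_eq_norm]; exact hu'y
      have h3 : ‖r - y‖ ≤ 2 * δ + μ := by rw [← dist_eq_norm, dist_comm]; linarith
      refine ⟨pvyf_D_nbhd hyD h3 (by linarith), ?_⟩
      have h4 := pvyf_tri r y p
      rw [dist_eq_norm, norm_sub_rev p y] at hd
      linarith
  have hσz : ∀ r ∈ segment ℝ p y ∪ segment ℝ y q, ‖r - z‖ ≤ ρ₂ := fun r hr => by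
    have := pvyf_tri r p z
    have := (hσ r hr).2
    linarith
  have hσ5 : segment ℝ p y ∪ segment ℝ y q ⊆ closedBall x (5 * R) := fun r hr => mem_closedBall_iff_norm.2 (by have := B.ball (hσz r hr); linarith)
  have pσ : IsPreconnected (segment ℝ p y ∪ segment ℝ y q) :=
    IsPreconnected.union y (right_mem_segment ℝ p y) (left_mem_segment ℝ y q) (convex_segment p y).isPreconnected (convex_segment y q).isPreconnected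
  have hlu := B.lab (hσz p (Or.inl (left_mem_segment ℝ p y)))
  have hlu' := B.lab (hσz q (Or.inr (right_mem_segment ℝ y q)))
  have key : ∀ v : 𝔅.V Y, (∃ b ∈ vorMeet Y (segment ℝ p y ∪ segment ℝ y q), 𝔅.lab Y v = Sum.inl b) → 𝔅.posF Y (x + 7 * R) v ∈ pvyfD A Bm (1.4 * δ) ∧ ‖𝔅.posF Y (x + 7 * R) v - p‖ ≤ 11 * δ := by
    rintro v ⟨b, hb, hv⟩
    rw [l9_posF_inl 𝔅 hv]
    obtain ⟨r, hr, hrb⟩ := pvyf_meet_near B.dense hσ5 hb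
    rw [norm_sub_rev] at hrb
    refine ⟨pvyf_D_nbhd (hσ r hr).1 hrb (by linarith), ?_⟩
    have := pvyf_tri b r p
    have := (hσ r hr).2
    linarith
  obtain ⟨w, i, J, h1, h2⟩ := pvyf_rung B.ok B.good B.hμR B.dense hσ5 pσ c hlu (pvge_site_meet (B.ok.site _ _ hlu) (Or.inl (left_mem_segment ℝ p y))) hur hlu'
    (pvge_site_meet (B.ok.site _ _ hlu') (Or.inr (right_mem_segment ℝ y q))) hc
  refine ⟨w, i, pl_hx_join_mono Subset.rfl ?_ J, h1, key _ h2⟩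
  rintro v ⟨hv1, hv2⟩
  exact ⟨hv1, key v hv2⟩

/-- **THE FENCE**: the stretch of the chain between the radii `R₁`, `R₂` and the two rungs at its ends -/
theorem PvyfBase.fence (B : PvyfBase 𝔅 Y x z R μ δ ρ₁ ρ₂ A Bm) (c : (𝔅.T Y).Cyc) {u : ℕ → 𝔅.V Y} {ℓ : ℕ} (hadj : ∀ t, t < ℓ → (𝔅.T Y).Adj (u t) (u (t + 1))) (hr : ∀ t, t ≤ ℓ → u t ∈ (𝔅.T Y).Int c.Right)
    {R₁ R₂ : ℝ} (h0 : ‖𝔅.posF Y (x + 7 * R) (u 0) - z‖ ≤ R₁) (hℓ : R₂ ≤ ‖𝔅.posF Y (x + 7 * R) (u ℓ) - z‖) (h12 : R₁ < R₂) (hR2 : R₂ + 40 * δ ≤ ρ₁)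
    (hch : ∀ t, t ≤ ℓ → R₁ - μ ≤ ‖𝔅.posF Y (x + 7 * R) (u t) - z‖ → ‖𝔅.posF Y (x + 7 * R) (u t) - z‖ ≤ R₂ + μ → 𝔅.posF Y (x + 7 * R) (u t) ∈ pvyfD A Bm (1.5 * δ) ∧
      ∃ y ∈ A, infDist (𝔅.posF Y (x + 7 * R) (u t)) A = dist (𝔅.posF Y (x + 7 * R) (u t)) y ∧ dist (𝔅.posF Y (x + 7 * R) (u t)) y ≤ 8.5 * δ ∧ y ∈ pvyfD A Bm (10 * δ) ∧
        ∃ l, ‖𝔅.posF Y (x + 7 * R) ((𝔅.T Y).src (c.e l)) - y‖ ≤ 2 * δ + μ) :
    ∃ (Xf : Set (𝔅.V Y)) (a₁ a₂ : 𝔅.V Y) (i₁ i₂ : ℕ), Xf ⊆ (𝔅.T Y).Int c.Right ∧ Xf ⊆ pvyfK 𝔅 Y (x + 7 * R) (pvyfW A Bm z ρ₁ ρ₂ δ) z ρ₁ ∧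
      (∀ v ∈ Xf, (∃ t, t ≤ ℓ ∧ u t = v) ∨ ‖𝔅.posF Y (x + 7 * R) v - z‖ ≤ R₁ + 11 * δ ∨ R₂ - 11 * δ ≤ ‖𝔅.posF Y (x + 7 * R) v - z‖) ∧
      (𝔅.T Y).Join univ Xf a₁ a₂ ∧ (𝔅.T Y).Adj a₁ ((𝔅.T Y).src (c.e i₁)) ∧ (𝔅.T Y).Adj a₂ ((𝔅.T Y).src (c.e i₂)) ∧
      (𝔅.posF Y (x + 7 * R) ((𝔅.T Y).src (c.e i₁)) ∈ pvyfD A Bm (1.4 * δ) ∧ R₁ - 12 * δ ≤ ‖𝔅.posF Y (x + 7 * R) ((𝔅.T Y).src (c.e i₁)) - z‖ ∧ ‖𝔅.posF Y (x + 7 * R) ((𝔅.T Y).src (c.e i₁)) - z‖ ≤ R₁ + 11 * δ) ∧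
      (𝔅.posF Y (x + 7 * R) ((𝔅.T Y).src (c.e i₂)) ∈ pvyfD A Bm (1.4 * δ) ∧ R₂ - 11 * δ ≤ ‖𝔅.posF Y (x + 7 * R) ((𝔅.T Y).src (c.e i₂)) - z‖ ∧ ‖𝔅.posF Y (x + 7 * R) ((𝔅.T Y).src (c.e i₂)) - z‖ ≤ R₂ + 12 * δ) := by
  have hμ := B.hμ; have hδ := B.δ0; have hδμ := B.hδ; have hρ := B.h12
  set pos := 𝔅.posF Y (x + 7 * R) with hpos
  obtain ⟨t₁, -, ht₁, p₁, q₁⟩ := pvb_last (p := fun t => ‖pos (u t) - z‖ ≤ R₁) (Nat.zero_le ℓ) h0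
  have p₁' : ‖pos (u t₁) - z‖ ≤ R₁ := p₁
  have q₁' : ∀ k, t₁ < k → k ≤ ℓ → R₁ < ‖pos (u k) - z‖ := fun k h1 h2 => not_le.1 (q₁ k h1 h2)
  have lt₁ : t₁ < ℓ := by
    rcases Nat.eq_or_lt_of_le ht₁ with e | e
    · rw [e] at p₁'; linarith
    · exact e
  obtain ⟨t₂, ht12, ht₂, p₂, q₂⟩ := pvb_first (p := fun t => R₂ ≤ ‖pos (u t) - z‖) ht₁ hℓ
  have p₂' : R₂ ≤ ‖pos (u t₂) - z‖ := p₂
  have q₂' : ∀ k, t₁ ≤ k → k < t₂ → ‖pos (u k) - z‖ < R₂ := fun k h1 h2 => not_le.1 (q₂ k h1 h2)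
  have lt₂ : t₁ < t₂ := by
    rcases Nat.eq_or_lt_of_le ht12 with e | e
    · rw [← e] at p₂'; linarith
    · exact e
  have step : ∀ t, t < ℓ → ‖pos (u t) - z‖ ≤ ρ₂ → ‖pos (u (t + 1)) - pos (u t)‖ ≤ μ := fun t ht h => B.mesh _ _ (hadj t ht) h
  have lo₁ : R₁ - μ ≤ ‖pos (u t₁) - z‖ := by
    have h1 := q₁' (t₁ + 1) (by omega) (by omega)
    have h2 := step t₁ lt₁ (by linarith)
    have h3 := pvyf_tri (pos (u (t₁ + 1))) (pos (u t₁)) z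
    linarith
  have hi₂ : ‖pos (u t₂) - z‖ ≤ R₂ + μ := by
    obtain ⟨t', rfl⟩ : ∃ t', t₂ = t' + 1 := ⟨t₂ - 1, by omega⟩
    have h1 := q₂' t' (by omega) (by omega)
    have h2 := step t' (by omega) (by linarith)
    have h3 := pvyf_tri (pos (u (t' + 1))) (pos (u t')) z
    linarith
  have rad : ∀ t, t₁ ≤ t → t ≤ t₂ → R₁ - μ ≤ ‖pos (u t) - z‖ ∧ ‖pos (u t) - z‖ ≤ R₂ + μ := by
    intro t h1 h2
    constructor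
    · rcases Nat.eq_or_lt_of_le h1 with e | e
      · rw [← e]; exact lo₁
      · have := q₁' t e (by omega); linarith
    · rcases Nat.eq_or_lt_of_le h2 with e | e
      · rw [e]; exact hi₂
      · have := q₂' t h1 e; linarith
  obtain ⟨hD₁, y₁, hy₁, e₁, d₁, yD₁, l₁, hl₁⟩ := hch t₁ ht₁ lo₁ (by linarith)
  obtain ⟨hD₂, y₂, hy₂, e₂, d₂, yD₂, l₂, hl₂⟩ := hch t₂ ht₂ (by linarith) hi₂
  obtain ⟨w₁, i₁, J₁, A₁, D₁, N₁⟩ := B.rung c (hr t₁ ht₁) ⟨l₁, rfl⟩ hy₁ e₁ d₁ hD₁ yD₁ hl₁ (by linarith)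
  obtain ⟨w₂, i₂, J₂, A₂, D₂, N₂⟩ := B.rung c (hr t₂ ht₂) ⟨l₂, rfl⟩ hy₂ e₂ d₂ hD₂ yD₂ hl₂ (by linarith)
  -- membership of the rung vertices in `K`
  have inK : ∀ (t : ℕ) (v : 𝔅.V Y), infDist (pos (u t)) A ≤ 8.5 * δ → ‖pos (u t) - z‖ ≤ R₂ + μ → pos v ∈ pvyfD A Bm (1.4 * δ) → ‖pos v - pos (u t)‖ ≤ 11 * δ →
      v ∈ pvyfK 𝔅 Y (x + 7 * R) (pvyfW A Bm z ρ₁ ρ₂ δ) z ρ₁ := by
    intro t v h1 h2 h3 h4
    refine B.mem_K (m := 1.4 * δ) (by linarith) h3 ?_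
    have h5 : infDist (pos v) A ≤ infDist (pos (u t)) A + dist (pos v) (pos (u t)) := infDist_le_infDist_add_dist
    rw [dist_eq_norm] at h5
    have h6 := pvyf_tri (pos v) (pos (u t)) z
    show infDist (pos v) A + 1.4 * δ ≤ ρ₁ - ‖pos v - z‖
    linarith
  refine ⟨{v | v ∈ (𝔅.T Y).Int c.Right ∧ pos v ∈ pvyfD A Bm (1.4 * δ) ∧ ‖pos v - pos (u t₁)‖ ≤ 11 * δ} ∪ {v | ∃ t, t₁ ≤ t ∧ t ≤ t₂ ∧ u t = v} ∪
    {v | v ∈ (𝔅.T Y).Int c.Right ∧ pos v ∈ pvyfD A Bm (1.4 * δ) ∧ ‖pos v - pos (u t₂)‖ ≤ 11 * δ}, w₁, w₂, i₁, i₂, ?_, ?_, ?_, ?_, A₁, A₂, ⟨D₁, ?_, ?_⟩, ⟨D₂, ?_, ?_⟩⟩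
  · rintro v ((hv | ⟨t, h1, h2, rfl⟩) | hv)
    · exact hv.1
    · exact hr t (by omega)
    · exact hv.1
  · rintro v ((hv | ⟨t, h1, h2, rfl⟩) | hv)
    · exact inK t₁ v (by rw [e₁]; exact d₁) (by linarith) hv.2.1 hv.2.2
    · obtain ⟨hD, y, hy, e, d, -⟩ := hch t (by omega) (rad t h1 h2).1 (rad t h1 h2).2
      refine B.mem_K (m := 1.5 * δ) (by linarith) hD ?_
      have := (rad t h1 h2).2
      show infDist (pos (u t)) A + 1.5 * δ ≤ ρ₁ - ‖pos (u t) - z‖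
      rw [e]
      linarith
    · exact inK t₂ v (by rw [e₂]; exact d₂) hi₂ hv.2.1 hv.2.2
  · rintro v ((hv | ⟨t, h1, h2, rfl⟩) | hv)
    · right; left
      have := pvyf_tri (pos v) (pos (u t₁)) z
      have := hv.2.2
      linarith
    · exact Or.inl ⟨t, by omega, rfl⟩
    · right; right
      have := pvyf_tri (pos (u t₂)) (pos v) z
      have h := hv.2.2
      rw [norm_sub_rev] at h
      linarith
  · refine pl_hx_join_trans (pl_hx_join_symm (pl_hx_join_mono Subset.rfl (fun v hv => Or.inl (Or.inl hv)) J₁)) (pl_hx_join_trans ?_ (pl_hx_join_mono Subset.rfl (fun v hv => Or.inr hv) J₂))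
    exact pvrf_chain_join ht12 (fun t _ h => hadj t (by omega)) fun t h1 h2 => Or.inl (Or.inr ⟨t, h1, h2, rfl⟩)
  · have := pvyf_tri (pos (u t₁)) (pos ((𝔅.T Y).src (c.e i₁))) z
    rw [norm_sub_rev] at N₁
    linarith
  · have := pvyf_tri (pos ((𝔅.T Y).src (c.e i₁))) (pos (u t₁)) z
    linarith
  · have := pvyf_tri (pos (u t₂)) (pos ((𝔅.T Y).src (c.e i₂))) z
    rw [norm_sub_rev] at N₂
    linarith
  · have := pvyf_tri (pos ((𝔅.T Y).src (c.e i₂))) (pos (u t₂)) z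
    linarith

/-- **THE WHITE SIDE FROM THE EXIT FOOT, in a completion** (`A` = the positive half tube) -/
theorem PvyfBase.foot (B : PvyfBase 𝔅 Y x z R μ δ ρ₁ ρ₂ A Bm) {c : (𝔅.T Y).Cyc} {sc : 𝔅.V Y → Bool} (hbl : ∀ k, sc ((𝔅.T Y).src (c.e k)) = true) (g₁ g₂ : (𝔅.T Y).Gate sc)
    {lo₁ hi₁ lo₂ hi₂ em k0 ep : ℕ} (P1 : g₁.Pass c lo₁ hi₁) (P2 : g₂.Pass c lo₂ hi₂) (x1 : em < lo₂) (x2 : lo₂ < lo₁) (x3 : lo₁ < k0) (x4 : k0 < hi₁) (x5 : hi₁ < hi₂) (x6 : hi₂ < ep) (x7 : ep < em + c.n)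
    {a₁ b₁ a₂ b₂ a₃ : ℝ} (in1 : ∀ w, ‖𝔅.posF Y (x + 7 * R) w - z‖ ≤ a₁ → w ∈ (𝔅.T Y).Int g₁.c.Left) (out1 : ∀ w, b₁ < ‖𝔅.posF Y (x + 7 * R) w - z‖ → w ∈ (𝔅.T Y).Int g₁.c.Right)
    (in2 : ∀ w, ‖𝔅.posF Y (x + 7 * R) w - z‖ ≤ a₂ → w ∈ (𝔅.T Y).Int g₂.c.Left) (out2 : ∀ w, b₂ < ‖𝔅.posF Y (x + 7 * R) w - z‖ → w ∈ (𝔅.T Y).Int g₂.c.Right)
    (rp : ∀ k, k0 ≤ k → k ≤ ep → (a₁ < ‖𝔅.posF Y (x + 7 * R) ((𝔅.T Y).src (c.e k)) - z‖ → 𝔅.posF Y (x + 7 * R) ((𝔅.T Y).src (c.e k)) ∈ pvyfD A Bm (1.5 * δ)) ∧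
      infDist (𝔅.posF Y (x + 7 * R) ((𝔅.T Y).src (c.e k))) A ≤ 8.5 * δ ∧ ‖𝔅.posF Y (x + 7 * R) ((𝔅.T Y).src (c.e k)) - z‖ + 40 * δ ≤ ρ₁)
    (rm : ∀ k, em ≤ k → k ≤ k0 → a₁ < ‖𝔅.posF Y (x + 7 * R) ((𝔅.T Y).src (c.e k)) - z‖ → 𝔅.posF Y (x + 7 * R) ((𝔅.T Y).src (c.e k)) ∈ pvyfD Bm A 0)
    (rf : ∀ k, ep < k → k < em + c.n → a₃ ≤ ‖𝔅.posF Y (x + 7 * R) ((𝔅.T Y).src (c.e k)) - z‖) (rB : 𝔅.posF Y (x + 7 * R) ((𝔅.T Y).src (c.e em)) ∈ Bm)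
    {u : ℕ → 𝔅.V Y} {ℓ : ℕ} (hadj : ∀ t, t < ℓ → (𝔅.T Y).Adj (u t) (u (t + 1))) (hw : ∀ t, t ≤ ℓ → sc (u t) = false) (hr : ∀ t, t ≤ ℓ → u t ∈ (𝔅.T Y).Int c.Right)
    {R₁ R₂ : ℝ} (n0 : a₁ ≤ b₁) (n1 : b₁ + 12 * δ < R₁) (n2 : R₁ + 11 * δ ≤ a₂) (n3 : a₂ ≤ b₂) (n4 : b₂ + 11 * δ < R₂) (n5 : R₂ + 12 * δ < a₃) (hR2 : R₂ + 40 * δ ≤ ρ₁)
    (h0 : ‖𝔅.posF Y (x + 7 * R) (u 0) - z‖ ≤ R₁) (hℓ : R₂ ≤ ‖𝔅.posF Y (x + 7 * R) (u ℓ) - z‖)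
    (hch : ∀ t, t ≤ ℓ → R₁ - μ ≤ ‖𝔅.posF Y (x + 7 * R) (u t) - z‖ → ‖𝔅.posF Y (x + 7 * R) (u t) - z‖ ≤ R₂ + μ → 𝔅.posF Y (x + 7 * R) (u t) ∈ pvyfD A Bm (1.5 * δ) ∧
      ∃ y ∈ A, infDist (𝔅.posF Y (x + 7 * R) (u t)) A = dist (𝔅.posF Y (x + 7 * R) (u t)) y ∧ dist (𝔅.posF Y (x + 7 * R) (u t)) y ≤ 8.5 * δ ∧ y ∈ pvyfD A Bm (10 * δ) ∧
        ∃ l, ‖𝔅.posF Y (x + 7 * R) ((𝔅.T Y).src (c.e l)) - y‖ ≤ 2 * δ + μ)
    {N Dp : Set ℂ} (hN : ∀ p, p ∈ pvyfD A Bm δ → a₂ < ‖p - z‖ → ‖p - z‖ ≤ b₂ → p ∈ N) (hM : ∀ t, t ≤ ℓ → 𝔅.posF Y (x + 7 * R) (u t) ∈ N) (hD : 𝔅.posF Y (x + 7 * R) (u ℓ) ∈ Dp) :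
    PvspPath (𝔅.T Y) (𝔅.posF Y (x + 7 * R)) sc false {(𝔅.T Y).tgt g₂.aOut} N Dp := by
  have hμ := B.hμ; have hδ := B.δ0; have hδμ := B.hδ
  have hT := B.ok.sph
  obtain ⟨Xf, f₁, f₂, i₁, i₂, hXr, hXK, hXrad, J, A₁, A₂, ⟨D₁, r₁lo, r₁hi⟩, ⟨D₂, r₂lo, r₂hi⟩⟩ := B.fence c hadj hr h0 hℓ (by linarith) hR2 hch
  obtain ⟨i, hi1, hi2, ei⟩ := pvgz_win c em i₁
  obtain ⟨j, hj1, hj2, ej⟩ := pvgz_win c em i₂
  rw [← ei] at A₁ D₁ r₁lo r₁hi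
  rw [← ej] at A₂ D₂ r₂lo r₂hi
  have cls : ∀ k, em ≤ k → k < em + c.n → 𝔅.posF Y (x + 7 * R) ((𝔅.T Y).src (c.e k)) ∈ pvyfD A Bm (1.4 * δ) → a₁ < ‖𝔅.posF Y (x + 7 * R) ((𝔅.T Y).src (c.e k)) - z‖ →
      ‖𝔅.posF Y (x + 7 * R) ((𝔅.T Y).src (c.e k)) - z‖ < a₃ → k0 < k ∧ k ≤ ep := by
    intro k h1 h2 h3 h4 h5
    constructor
    · by_contra hc
      have := pvyf_D_sep h3 (rm k h1 (by omega) h4)
      rw [sub_self, norm_zero] at this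
      linarith
    · by_contra hc
      have := rf k (by omega) h2
      linarith
  obtain ⟨ci1, ci2⟩ := cls i hi1 hi2 D₁ (by linarith) (by linarith)
  obtain ⟨cj1, cj2⟩ := cls j hj1 hj2 D₂ (by linarith) (by linarith)
  have i_gt : hi₁ < i := by
    by_contra hc
    exact pvsq_out_not_VOf hT g₁.c (out1 _ (by linarith)) (pvsq_pass_VOf hT P1 (k := i) (by omega) (by omega))
  have i_lt : i < hi₂ := by
    by_contra hc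
    have hin := in2 _ (r₁hi.trans n2)
    rcases Nat.eq_or_lt_of_le (not_lt.1 hc) with e | e
    · rw [← e, P2.hhi] at hin
      exact pvsq_verts_not_int hT g₂.c ⟨g₂.m, rfl⟩ hin
    · exact disjoint_left.1 (pl_jordan_vert_disj hT g₂.c).2.2 hin (P2.out i e (by omega))
  have j_gt : hi₂ < j := by
    by_contra hc
    exact pvsq_out_not_VOf hT g₂.c (out2 _ (by linarith)) (pvsq_pass_VOf hT P2 (k := j) (by omega) (by omega))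
  refine pvyf_foot_path hT B.ok.simple hbl g₂ P2 i_lt j_gt (by omega) hadj hw hr (in2 _ (by linarith)) (out2 _ (by linarith)) hXr hXK ?_ J ((𝔅.T Y).adj_symm A₁) A₂ ?_ ?_ ?_ hM hD
  · intro v hv hvc
    rcases hXrad v hv with h | h | h
    · exact h
    · exact absurd (in2 v (h.trans n2)) (pvsq_verts_not_int hT g₂.c hvc)
    · exact absurd (out2 v (by linarith)) (disjoint_left.1 (pl_jordan_vert_disj hT g₂.c).2.1 hvc)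
  · intro k h1 h2
    obtain ⟨q1, q2, q3⟩ := rp k (by omega) (by omega)
    have hrad : a₁ < ‖𝔅.posF Y (x + 7 * R) ((𝔅.T Y).src (c.e k)) - z‖ := by
      by_contra hc
      exact disjoint_left.1 (pl_jordan_vert_disj hT g₁.c).2.2 (in1 _ (not_lt.1 hc)) (P1.out k (by omega) (by omega))
    exact B.mem_K (m := 1.5 * δ) (by linarith) (q1 hrad) (by linarith)
  · exact fun w hw => ⟨em + c.n, by omega, by omega, by rw [c.per]; exact B.esc rB w hw⟩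
  · intro v hv hvc
    refine hN _ (B.K_D hv) ?_ ?_
    · by_contra hc
      exact pvsq_verts_not_int hT g₂.c hvc (in2 v (not_lt.1 hc))
    · by_contra hc
      exact disjoint_left.1 (pl_jordan_vert_disj hT g₂.c).2.1 hvc (out2 v (not_le.1 hc))

/-- **THE WHITE SIDE FROM THE ENTRANCE FOOT, in a completion** (`A` = the negative half tube) -/
theorem PvyfBase.head (B : PvyfBase 𝔅 Y x z R μ δ ρ₁ ρ₂ A Bm) {c : (𝔅.T Y).Cyc} {sc : 𝔅.V Y → Bool} (hbl : ∀ k, sc ((𝔅.T Y).src (c.e k)) = true) (g₁ g₂ : (𝔅.T Y).Gate sc)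
    {lo₁ hi₁ lo₂ hi₂ em k0 ep : ℕ} (P1 : g₁.Pass c lo₁ hi₁) (P2 : g₂.Pass c lo₂ hi₂) (x1 : em < lo₂) (x2 : lo₂ < lo₁) (x3 : lo₁ < k0) (x4 : k0 < hi₁) (x5 : hi₁ < hi₂) (x6 : hi₂ < ep) (x7 : ep < em + c.n)
    {a₁ b₁ a₂ b₂ a₃ : ℝ} (in1 : ∀ w, ‖𝔅.posF Y (x + 7 * R) w - z‖ ≤ a₁ → w ∈ (𝔅.T Y).Int g₁.c.Left) (out1 : ∀ w, b₁ < ‖𝔅.posF Y (x + 7 * R) w - z‖ → w ∈ (𝔅.T Y).Int g₁.c.Right)
    (in2 : ∀ w, ‖𝔅.posF Y (x + 7 * R) w - z‖ ≤ a₂ → w ∈ (𝔅.T Y).Int g₂.c.Left) (out2 : ∀ w, b₂ < ‖𝔅.posF Y (x + 7 * R) w - z‖ → w ∈ (𝔅.T Y).Int g₂.c.Right)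
    (rm : ∀ k, em ≤ k → k ≤ k0 → (a₁ < ‖𝔅.posF Y (x + 7 * R) ((𝔅.T Y).src (c.e k)) - z‖ → 𝔅.posF Y (x + 7 * R) ((𝔅.T Y).src (c.e k)) ∈ pvyfD A Bm (1.5 * δ)) ∧
      infDist (𝔅.posF Y (x + 7 * R) ((𝔅.T Y).src (c.e k))) A ≤ 8.5 * δ ∧ ‖𝔅.posF Y (x + 7 * R) ((𝔅.T Y).src (c.e k)) - z‖ + 40 * δ ≤ ρ₁)
    (rp : ∀ k, k0 ≤ k → k ≤ ep → a₁ < ‖𝔅.posF Y (x + 7 * R) ((𝔅.T Y).src (c.e k)) - z‖ → 𝔅.posF Y (x + 7 * R) ((𝔅.T Y).src (c.e k)) ∈ pvyfD Bm A 0)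
    (rf : ∀ k, ep < k → k < em + c.n → a₃ ≤ ‖𝔅.posF Y (x + 7 * R) ((𝔅.T Y).src (c.e k)) - z‖) (rB : 𝔅.posF Y (x + 7 * R) ((𝔅.T Y).src (c.e ep)) ∈ Bm)
    {u : ℕ → 𝔅.V Y} {ℓ : ℕ} (hadj : ∀ t, t < ℓ → (𝔅.T Y).Adj (u t) (u (t + 1))) (hw : ∀ t, t ≤ ℓ → sc (u t) = false) (hr : ∀ t, t ≤ ℓ → u t ∈ (𝔅.T Y).Int c.Right)
    {R₁ R₂ : ℝ} (n0 : a₁ ≤ b₁) (n1 : b₁ + 12 * δ < R₁) (n2 : R₁ + 11 * δ ≤ a₂) (n3 : a₂ ≤ b₂) (n4 : b₂ + 11 * δ < R₂) (n5 : R₂ + 12 * δ < a₃) (hR2 : R₂ + 40 * δ ≤ ρ₁)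
    (h0 : ‖𝔅.posF Y (x + 7 * R) (u 0) - z‖ ≤ R₁) (hℓ : R₂ ≤ ‖𝔅.posF Y (x + 7 * R) (u ℓ) - z‖)
    (hch : ∀ t, t ≤ ℓ → R₁ - μ ≤ ‖𝔅.posF Y (x + 7 * R) (u t) - z‖ → ‖𝔅.posF Y (x + 7 * R) (u t) - z‖ ≤ R₂ + μ → 𝔅.posF Y (x + 7 * R) (u t) ∈ pvyfD A Bm (1.5 * δ) ∧
      ∃ y ∈ A, infDist (𝔅.posF Y (x + 7 * R) (u t)) A = dist (𝔅.posF Y (x + 7 * R) (u t)) y ∧ dist (𝔅.posF Y (x + 7 * R) (u t)) y ≤ 8.5 * δ ∧ y ∈ pvyfD A Bm (10 * δ) ∧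
        ∃ l, ‖𝔅.posF Y (x + 7 * R) ((𝔅.T Y).src (c.e l)) - y‖ ≤ 2 * δ + μ)
    {N Dm : Set ℂ} (hN : ∀ p, p ∈ pvyfD A Bm δ → a₂ < ‖p - z‖ → ‖p - z‖ ≤ b₂ → p ∈ N) (hM : ∀ t, t ≤ ℓ → 𝔅.posF Y (x + 7 * R) (u t) ∈ N) (hD : 𝔅.posF Y (x + 7 * R) (u ℓ) ∈ Dm) :
    PvspPath (𝔅.T Y) (𝔅.posF Y (x + 7 * R)) sc false {(𝔅.T Y).tgt g₂.aIn} N Dm := by
  have hμ := B.hμ; have hδ := B.δ0; have hδμ := B.hδ
  have hT := B.ok.sph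
  obtain ⟨Xf, f₁, f₂, i₁, i₂, hXr, hXK, hXrad, J, A₁, A₂, ⟨D₁, r₁lo, r₁hi⟩, ⟨D₂, r₂lo, r₂hi⟩⟩ := B.fence c hadj hr h0 hℓ (by linarith) hR2 hch
  obtain ⟨j, hj1, hj2, ej⟩ := pvgz_win c em i₁
  obtain ⟨i, hi1, hi2, ei⟩ := pvgz_win c em i₂
  rw [← ej] at A₁ D₁ r₁lo r₁hi
  rw [← ei] at A₂ D₂ r₂lo r₂hi
  have cls : ∀ k, em ≤ k → k < em + c.n → 𝔅.posF Y (x + 7 * R) ((𝔅.T Y).src (c.e k)) ∈ pvyfD A Bm (1.4 * δ) → a₁ < ‖𝔅.posF Y (x + 7 * R) ((𝔅.T Y).src (c.e k)) - z‖ →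
      ‖𝔅.posF Y (x + 7 * R) ((𝔅.T Y).src (c.e k)) - z‖ < a₃ → k < k0 := by
    intro k h1 h2 h3 h4 h5
    by_contra hc
    rcases Nat.lt_or_ge ep k with h | h
    · have := rf k h h2
      linarith
    · have := pvyf_D_sep h3 (rp k (by omega) h h4)
      rw [sub_self, norm_zero] at this
      linarith
  have cj := cls j hj1 hj2 D₁ (by linarith) (by linarith)
  have ci := cls i hi1 hi2 D₂ (by linarith) (by linarith)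
  have j_lt : j < lo₁ := by
    by_contra hc
    exact pvsq_out_not_VOf hT g₁.c (out1 _ (by linarith)) (pvsq_pass_VOf hT P1 (k := j) (by omega) (by omega))
  have j_gt : lo₂ < j := by
    by_contra hc
    have hin := in2 _ (r₁hi.trans n2)
    rcases Nat.eq_or_lt_of_le (not_lt.1 hc) with e | e
    · rw [e, P2.hlo] at hin
      exact pvsq_verts_not_int hT g₂.c ⟨0, rfl⟩ hin
    · have := P2.out (j + c.n) (by omega) (by omega)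
      rw [c.per] at this
      exact disjoint_left.1 (pl_jordan_vert_disj hT g₂.c).2.2 hin this
  have i_lt : i < lo₂ := by
    by_contra hc
    exact pvsq_out_not_VOf hT g₂.c (out2 _ (by linarith)) (pvsq_pass_VOf hT P2 (k := i) (by omega) (by omega))
  refine pvyf_head_path hT B.ok.simple hbl g₂ P2 i_lt j_gt (by omega) hadj hw hr (in2 _ (by linarith)) (out2 _ (by linarith)) hXr hXK ?_ (pl_hx_join_symm J) ((𝔅.T Y).adj_symm A₂) A₁ ?_ ?_ ?_ hM hD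
  · intro v hv hvc
    rcases hXrad v hv with h | h | h
    · exact h
    · exact absurd (in2 v (h.trans n2)) (pvsq_verts_not_int hT g₂.c hvc)
    · exact absurd (out2 v (by linarith)) (disjoint_left.1 (pl_jordan_vert_disj hT g₂.c).2.1 hvc)
  · intro k h1 h2
    obtain ⟨q1, q2, q3⟩ := rm k (by omega) (by omega)
    have hrad : a₁ < ‖𝔅.posF Y (x + 7 * R) ((𝔅.T Y).src (c.e k)) - z‖ := by
      by_contra hc
      have := P1.out (k + c.n) (by omega) (by omega)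
      rw [c.per] at this
      exact disjoint_left.1 (pl_jordan_vert_disj hT g₁.c).2.2 (in1 _ (not_lt.1 hc)) this
    exact B.mem_K (m := 1.5 * δ) (by linarith) (q1 hrad) (by linarith)
  · exact fun w hw => ⟨ep, by omega, by omega, B.esc rB w hw⟩
  · intro v hv hvc
    refine hN _ (B.K_D hv) ?_ ?_
    · by_contra hc
      exact pvsq_verts_not_int hT g₂.c hvc (in2 v (not_lt.1 hc))
    · by_contra hc
      exact disjoint_left.1 (pl_jordan_vert_disj hT g₂.c).2.1 hvc (out2 v (not_le.1 hc))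

end base

end Claimed.Agent.R289
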