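-- KEEP
import Claimed.Agent.R289.Tr.StabInst
import Claimed.Agent.R289.Tr.ModP
import Claimed.Agent.R289.Tr.StripW
import Claimed.Agent.R289.Tr.FootT
import Claimed.Agent.R289.Tr.FootK
import Claimed.Agent.R289.Exit.PinsPB

/-!
# Row 289 (S0537, Cardy for Poisson-Voronoi), THE WALL, ROAD P, ruling P13 THE FOOT, file Tr/FootS : P12 STAB, THE TWO WHITE SIDES FROM THE FEET      (pen + prover helper97; prefix `pvyf_`)

At a completion of the (prepared) configuration: the rim `c` fits the candidate `(z, s)`, a white chain runs door to door through the painted strip on the right of `c`.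
THEN every state of the completion whose two gates are passed by `c` has the two white side paths FROM THE FEET of its second gate, inside `Mp ∪ Tp`, `Mm ∪ Tm` (`Tp`, `Tm` = the zones of `Tr/FootT`).
Proof: `pvrf_foot_path`, `pvrf_head_path` of 68 (`Tr/StripW`) with `K` := the vertices whose Voronoi cell misses the complement of the zone (preconnected: `pvyf_co_preconn`), fence := chain + two rungs (Delaunay chains along straight segments).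
STATE: 0 sorry (15 Oct 14:50Z).  `exit_pvyf_foot` = `PvyfBase.foot` / `PvyfBase.head` of `Tr/FootK` at the model (`pvyf_sides`, `pvyf_idx`, `pvyf_rim_p/_m/_ends/_ord`, `pvyf_rung_p/_m`, `pvyf_lane_p/_m`, `pvyf_doors_far`).
-/

set_option autoImplicit false
set_option linter.unusedSectionVars false
set_option linter.unusedVariables false

namespace Claimed.Agent.R289

open Set Metric Relation Claims.C0465 Claims.C0467 Claimed.Agent.R291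

/-! ## §1 the model: the rim, the lanes, the doors -/

section model

variable {𝔤 : PvmhNum} (H : 𝔤.OK) {h : ℝ} {z : ℂ} {s : PvmhT 𝔤} {P : PvbRim} {tt : ℕ → ℕ}

include H

theorem pvyf_off_bar (hh : 0 < h) {p : ℂ} (hp : 3 * h < ‖p - z‖) : p ∉ pvmgPl z (𝔤.dl * h) (pvmnBar 𝔤.NN s.typ 5) := fun hc => by
  have := mem_closedBall_iff_norm.1 (pvmh_bar H z s hh hc)
  linarith

/-- every point of the cells of the pieces is close to a vertex of the rim -/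
theorem pvyf_near_vertex (hh : 0 < h) (I : PvmfIn P z tt (𝔤.mu * h) h (𝔤.a3 * h) (𝔤.b3 * h) (10 * 𝔤.b3 * h) (𝔤.d0 * h) (𝔤.e0 * h) (𝔤.d1 * h) (𝔤.e1 * h))
    (F : PvmnFits s.typ (𝔤.dl * h) (fun i => P.v i - z) (fun k => tt k.1)) {a b : ℕ} {y : ℂ} (hy : y ∈ pvmgPl z (𝔤.dl * h) (pvmnCells s.typ a b)) :
    ∃ l, ‖P.v l - y‖ ≤ 2 * (𝔤.dl * h) + 𝔤.mu * h := by
  obtain ⟨c, ⟨k, -, -, hc⟩, hyc⟩ := pvmg_mem_sq.1 hy
  have hc' : c ∈ pvtwN 0 (pvmfC P z tt (𝔤.dl * h) k.1) := by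
    rw [pvtw_N_zero, ← pvmf_C F k]
    exact hc
  obtain ⟨l, -, -, hl⟩ := I.idx (pvmh_num H hh) k.2 hc' hyc
  refine ⟨l, ?_⟩
  rw [sub_sub_sub_cancel_right] at hl
  push_cast at hl
  linarith

/-- **the data of a rung on the positive side** -/
theorem pvyf_rung_p (hh : 0 < h) (I : PvmfIn P z tt (𝔤.mu * h) h (𝔤.a3 * h) (𝔤.b3 * h) (10 * 𝔤.b3 * h) (𝔤.d0 * h) (𝔤.e0 * h) (𝔤.d1 * h) (𝔤.e1 * h))
    (F : PvmnFits s.typ (𝔤.dl * h) (fun i => P.v i - z) (fun k => tt k.1)) {p : ℂ} (hp : p ∈ pvmgPl z (𝔤.dl * h) (pvtwN 6 (pvmnCells s.typ 5 9))) (hr : 4 * h < ‖p - z‖) :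
    p ∈ pvyfD (pvmgPl z (𝔤.dl * h) (pvmnCells s.typ 5 9)) (pvmgPl z (𝔤.dl * h) (pvmnCells s.typ 0 4)) (1.5 * (𝔤.dl * h)) ∧
      ∃ y ∈ pvmgPl z (𝔤.dl * h) (pvmnCells s.typ 5 9), infDist p (pvmgPl z (𝔤.dl * h) (pvmnCells s.typ 5 9)) = dist p y ∧ dist p y ≤ 8.5 * (𝔤.dl * h) ∧
        y ∈ pvyfD (pvmgPl z (𝔤.dl * h) (pvmnCells s.typ 5 9)) (pvmgPl z (𝔤.dl * h) (pvmnCells s.typ 0 4)) (10 * (𝔤.dl * h)) ∧ ∃ l, ‖P.v l - y‖ ≤ 2 * (𝔤.dl * h) + 𝔤.mu * h := by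
  obtain ⟨h0, h1, -⟩ := pvmh_basic H
  have hδ : 0 < 𝔤.dl * h := mul_pos h0 hh
  have hδh : 1200 * (𝔤.dl * h) ≤ h := by nlinarith
  have hτ := s.isType
  refine ⟨pvyf_tube hτ hδ hp (pvyf_off_bar H hh (by linarith)), ?_⟩
  obtain ⟨y, hy, e⟩ := (pvmg_compact (z := z) (δ := 𝔤.dl * h) (pvmn_cells_finite s.typ 5 9)).exists_infDist_eq_dist (pvmg_nonempty hδ.le (pvyf_cells_ne hτ (by omega) (by omega))) p
  have hd : dist p y ≤ 8.5 * (𝔤.dl * h) := by rw [← e]; exact pvyf_near6 hδ hp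
  refine ⟨y, hy, e, hd, ?_, pvyf_near_vertex H hh I F hy⟩
  have hyr : 3 * h < ‖y - z‖ := by
    have := pvyf_tri p y z
    rw [dist_eq_norm] at hd
    linarith
  have hfar := pvyf_far10 (z := z) (q := y) hδ (pvyf_cells_ne hτ (a := 0) (b := 4) (by omega) (by omega)) fun hc =>
    pvyf_off_bar H hh hyr (pvyf_sep_pl hτ hδ (i := 10) (j := 0) le_rfl (by omega) hc (by rw [pvtw_N_zero]; exact hy))
  rw [pvyf_D_mem, infDist_zero_of_mem hy]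
  linarith

/-- **the data of a rung on the negative side** -/
theorem pvyf_rung_m (hh : 0 < h) (I : PvmfIn P z tt (𝔤.mu * h) h (𝔤.a3 * h) (𝔤.b3 * h) (10 * 𝔤.b3 * h) (𝔤.d0 * h) (𝔤.e0 * h) (𝔤.d1 * h) (𝔤.e1 * h))
    (F : PvmnFits s.typ (𝔤.dl * h) (fun i => P.v i - z) (fun k => tt k.1)) {p : ℂ} (hp : p ∈ pvmgPl z (𝔤.dl * h) (pvtwN 6 (pvmnCells s.typ 0 4))) (hr : 4 * h < ‖p - z‖) :
    p ∈ pvyfD (pvmgPl z (𝔤.dl * h) (pvmnCells s.typ 0 4)) (pvmgPl z (𝔤.dl * h) (pvmnCells s.typ 5 9)) (1.5 * (𝔤.dl * h)) ∧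
      ∃ y ∈ pvmgPl z (𝔤.dl * h) (pvmnCells s.typ 0 4), infDist p (pvmgPl z (𝔤.dl * h) (pvmnCells s.typ 0 4)) = dist p y ∧ dist p y ≤ 8.5 * (𝔤.dl * h) ∧
        y ∈ pvyfD (pvmgPl z (𝔤.dl * h) (pvmnCells s.typ 0 4)) (pvmgPl z (𝔤.dl * h) (pvmnCells s.typ 5 9)) (10 * (𝔤.dl * h)) ∧ ∃ l, ‖P.v l - y‖ ≤ 2 * (𝔤.dl * h) + 𝔤.mu * h := by
  obtain ⟨h0, h1, -⟩ := pvmh_basic H
  have hδ : 0 < 𝔤.dl * h := mul_pos h0 hh
  have hδh : 1200 * (𝔤.dl * h) ≤ h := by nlinarith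
  have hτ := s.isType
  refine ⟨pvyf_tube' hτ hδ hp (pvyf_off_bar H hh (by linarith)), ?_⟩
  obtain ⟨y, hy, e⟩ := (pvmg_compact (z := z) (δ := 𝔤.dl * h) (pvmn_cells_finite s.typ 0 4)).exists_infDist_eq_dist (pvmg_nonempty hδ.le (pvyf_cells_ne hτ (by omega) (by omega))) p
  have hd : dist p y ≤ 8.5 * (𝔤.dl * h) := by rw [← e]; exact pvyf_near6 hδ hp
  refine ⟨y, hy, e, hd, ?_, pvyf_near_vertex H hh I F hy⟩
  have hyr : 3 * h < ‖y - z‖ := by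
    have := pvyf_tri p y z
    rw [dist_eq_norm] at hd
    linarith
  have hfar := pvyf_far10 (z := z) (q := y) hδ (pvyf_cells_ne hτ (a := 5) (b := 9) (by omega) (by omega)) fun hc =>
    pvyf_off_bar H hh hyr (pvyf_sep_pl' hτ hδ (i := 0) (j := 10) (by omega) le_rfl (by rw [pvtw_N_zero]; exact hy) hc)
  rw [pvyf_D_mem, infDist_zero_of_mem hy]
  linarith

/-- a placed point of the 9-collar of an end piece is far from the centre -/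
theorem pvyf_end_far (hh : 0 < h) (j : Fin 10) (h4 : j.1 ≠ 4) (h5 : j.1 ≠ 5) {p : ℂ} (hp : p ∈ pvmgPl z (𝔤.dl * h) (pvtwN 9 (s.typ.C j : Set (ℤ × ℤ)))) : (2 * 𝔤.b 1 + 2) * h < ‖p - z‖ := by
  obtain ⟨h0, h1, h2, h3, -, -⟩ := pvmh_basic H
  have hδ : 0 < 𝔤.dl * h := mul_pos h0 hh
  have hd : Disjoint (pvtwN 1 (pvtwN 9 (s.typ.C j : Set (ℤ × ℤ)))) (pvmnBl 𝔤.NN.rB) := by
    rw [pvtw_N_add]
    exact s.isType.ball j h4 h5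
  have hB : 𝔤.dl * h * 𝔤.NN.rB = (2 * 𝔤.b 1 + 2) * h := by
    show 𝔤.dl * h * ((2 * 𝔤.b 1 + 2) / 𝔤.dl) = _
    field_simp
  rw [← hB]
  by_contra hc
  have hq : p ∈ pvmgPl z (𝔤.dl * h) (pvmnBl 𝔤.NN.rB) := pvmg_ball_sub hδ (by rw [mem_closedBall_iff_norm]; exact not_lt.1 hc)
  have := pvmg_far hδ hd hp hq
  rw [sub_self, norm_zero] at this
  push_cast at this
  linarith

/-- the doors are far from the centre -/
theorem pvyf_doors_far (hh : 0 < h) : (∀ p ∈ (𝔤.ty h z s).Dp, (2 * 𝔤.b 1 + 2) * h < ‖p - z‖) ∧ ∀ p ∈ (𝔤.ty h z s).Dm, (2 * 𝔤.b 1 + 2) * h < ‖p - z‖ := by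
  have hδ : 0 < 𝔤.dl * h := mul_pos H.dl0 hh
  constructor
  · rintro p (⟨hp, -⟩ | ⟨q, hq, rfl⟩)
    · exact pvyf_end_far H hh 9 (by decide) (by decide) (pvmg_mono (pvtw_N_mono (by norm_num) le_rfl) hp)
    · exact pvyf_end_far H hh 9 (by decide) (by decide) ⟨q, pvlb_DB s.isType s.isLane hδ hq, rfl⟩
  · rintro p (⟨hp, -⟩ | ⟨q, hq, rfl⟩)
    · exact pvyf_end_far H hh 0 (by decide) (by decide) (pvmg_mono (pvtw_N_mono (by norm_num) le_rfl) hp)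
    · exact pvyf_end_far H hh 0 (by decide) (by decide) ⟨q, pvlb_DA s.isType s.isLane hδ hq, rfl⟩

omit H in
/-- the two lanes lie in the 6-collars of the two halves -/
theorem pvyf_lane_p (hδ : 0 < 𝔤.dl * h) {p : ℂ} (hp : p ∈ (𝔤.ty h z s).Mp) : p ∈ pvmgPl z (𝔤.dl * h) (pvtwN 6 (pvmnCells s.typ 5 9)) := by
  obtain ⟨q, hq, rfl⟩ := hp
  exact ⟨q, pvls_M_U hδ hq, rfl⟩

omit H in
theorem pvyf_lane_m (hδ : 0 < 𝔤.dl * h) {p : ℂ} (hp : p ∈ (𝔤.ty h z s).Mm) : p ∈ pvmgPl z (𝔤.dl * h) (pvtwN 6 (pvmnCells s.typ 0 4)) := by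
  obtain ⟨q, hq, rfl⟩ := hp
  have hq' : q ∈ pvlsMm (𝔤.dl * h) s.typ s.ln := hq
  rw [pvls_Mm_eq s.isType s.isLane] at hq'
  exact ⟨q, pvls_M_U hδ hq', rfl⟩

end model

/-! ## §2 the sides of a selected gate, the indices -/

section idx

variable {V D : Type} {T : PvMap V D} {sc : V → Bool} {pos : V → ℂ} {z : ℂ}

/-- radius ⟹ side of a selected gate -/
theorem pvyf_sides (hT : T.IsSph) {a b μ : ℝ} (hμ : 0 ≤ μ) (hm : PvdiMesh T pos z b μ) {g : T.Gate sc} (sel : PvspSel T sc (pvdiB T pos z a) (pvdiB T pos z b) g) :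
    (∀ w, ‖pos w - z‖ ≤ a → w ∈ T.Int g.c.Left) ∧ (∀ w, b + μ < ‖pos w - z‖ → w ∈ T.Int g.c.Right) := by
  constructor
  · intro w hw d hd
    exact sel.inner (Or.inl (by rw [hd]; exact hw))
  · intro w hw
    rw [(pl_jordan hT g.c).1]
    intro d hd hdL
    have := (pvsj_face_near hμ hm (sel.outer hdL)).1
    rw [hd] at this
    linarith

/-- **the four gate indices**, with the shift -/
theorem pvyf_idx (hT : T.IsSph) {P : T.Cyc} {g₁ g₂ : T.Gate sc} {a₁ b₁ a₂ b₂ : ℝ}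
    (in1 : ∀ w, ‖pos w - z‖ ≤ a₁ → w ∈ T.Int g₁.c.Left) (out1 : ∀ w, b₁ < ‖pos w - z‖ → w ∈ T.Int g₁.c.Right)
    (in2 : ∀ w, ‖pos w - z‖ ≤ a₂ → w ∈ T.Int g₂.c.Left) (out2 : ∀ w, b₂ < ‖pos w - z‖ → w ∈ T.Int g₂.c.Right) (h12 : a₁ ≤ a₂) (hba : b₁ ≤ a₂)
    {em k0 ep : ℕ} (le_m : em ≤ k0) (le_p : k0 ≤ ep) (pin : ‖pos (T.src (P.e k0)) - z‖ ≤ a₁) (dm : b₂ < ‖pos (T.src (P.e em)) - z‖) (dp : b₂ < ‖pos (T.src (P.e ep)) - z‖)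
    (p1 : ∃ lo hi, g₁.Pass P lo hi) (p2 : ∃ lo hi, g₂.Pass P lo hi) :
    ∃ M lo₁ hi₁ lo₂ hi₂, g₁.Pass P lo₁ hi₁ ∧ g₂.Pass P lo₂ hi₂ ∧ em + M * P.n < lo₂ ∧ lo₂ < lo₁ ∧ lo₁ < k0 + M * P.n ∧ k0 + M * P.n < hi₁ ∧ hi₁ < hi₂ ∧ hi₂ < ep + M * P.n := by
  obtain ⟨a1, b1, p1⟩ := p1
  obtain ⟨a2, b2, p2⟩ := p2
  have hn := pl_cyc_pos P
  have hbig : a1 + a2 ≤ (a1 + a2) * P.n := Nat.le_mul_of_pos_right _ hn
  have i1 : T.src (P.e (k0 + (a1 + a2) * P.n)) ∈ T.Int g₁.c.Left := by rw [pl_cyc_per]; exact in1 _ pin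
  have i2 : T.src (P.e (k0 + (a1 + a2) * P.n)) ∈ T.Int g₂.c.Left := by rw [pl_cyc_per]; exact in2 _ (pin.trans h12)
  obtain ⟨q1, u1, u2⟩ := pvsq_pass_at hT p1 (by omega) i1
  obtain ⟨q2, w1, w2⟩ := pvsq_pass_at hT p2 (by omega) i2
  have P1 := pvsq_pass_shift p1 q1
  have P2 := pvsq_pass_shift p2 q2
  have deep : ∀ k, a1 + q1 * P.n ≤ k → k ≤ b1 + q1 * P.n → T.src (P.e k) ∈ T.Int g₂.c.Left := fun k h1 h2 => by
    refine in2 _ (le_trans ?_ hba)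
    by_contra hc
    exact pvsq_out_not_VOf hT g₁.c (out1 _ (not_le.1 hc)) (pvsq_pass_VOf hT P1 h1 h2)
  refine ⟨a1 + a2, _, _, _, _, P1, P2, ?_, ?_, u1, u2, ?_, ?_⟩
  · by_contra hc
    exact pvsq_out_not_VOf hT g₂.c (out2 _ (by rw [pl_cyc_per]; exact dm)) (pvsq_pass_VOf hT P2 (k := em + (a1 + a2) * P.n) (by omega) (by omega))
  · by_contra hc
    have := deep (a2 + q2 * P.n) (by omega) (by omega)
    rw [P2.hlo] at this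
    exact pvsq_verts_not_int hT g₂.c ⟨0, rfl⟩ this
  · by_contra hc
    have := deep (b2 + q2 * P.n) (by omega) (by omega)
    rw [P2.hhi] at this
    exact pvsq_verts_not_int hT g₂.c ⟨g₂.m, rfl⟩ this
  · by_contra hc
    exact pvsq_out_not_VOf hT g₂.c (out2 _ (by rw [pl_cyc_per]; exact dp)) (pvsq_pass_VOf hT P2 (k := ep + (a1 + a2) * P.n) (by omega) (by omega))

end idx

/-! ## §3 the rim of a fit -/

section rim

variable {𝔤 : PvmhNum} (H : 𝔤.OK) {h : ℝ} {z : ℂ} {s : PvmhT 𝔤} {P : PvbRim} {tt : ℕ → ℕ}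

include H

theorem pvyf_rim_p (hh : 0 < h) (I : PvmfIn P z tt (𝔤.mu * h) h (𝔤.a3 * h) (𝔤.b3 * h) (10 * 𝔤.b3 * h) (𝔤.d0 * h) (𝔤.e0 * h) (𝔤.d1 * h) (𝔤.e1 * h))
    (F : PvmnFits s.typ (𝔤.dl * h) (fun i => P.v i - z) (fun k => tt k.1)) {l : ℕ} (h1 : tt 5 ≤ l) (h2 : l ≤ tt 9) :
    P.v l ∈ pvmgPl z (𝔤.dl * h) (pvmnCells s.typ 5 9) ∧ (3 * h < ‖P.v l - z‖ → P.v l ∈ pvyfD (pvmgPl z (𝔤.dl * h) (pvmnCells s.typ 5 9)) (pvmgPl z (𝔤.dl * h) (pvmnCells s.typ 0 4)) (1.5 * (𝔤.dl * h))) ∧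
      ‖P.v l - z‖ ≤ 5 * (𝔤.b3 * h) + 𝔤.mu * h := by
  have N := pvmh_num H hh
  have hδ : 0 < 𝔤.dl * h := N.δ_pos
  have hm : P.v l ∈ pvmgPl z (𝔤.dl * h) (pvmnCells s.typ 5 9) := pvmg_mono (pvmn_cells_mono le_rfl (by norm_num)) (pvmh_vertex_cells hδ F (a := 5) (b := 9) (by norm_num) (by norm_num) h1 h2)
  refine ⟨hm, fun hr => pvyf_tube s.isType hδ (pvmg_mono pvtw_N_sub hm) (pvyf_off_bar H hh hr), ?_⟩
  have := I.rad N 4 (by norm_num) (by norm_num) (l := l) ((I.marks 4 (by norm_num) (by norm_num)).mm_le.trans h1) h2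
  push_cast at this
  linarith

theorem pvyf_rim_m (hh : 0 < h) (I : PvmfIn P z tt (𝔤.mu * h) h (𝔤.a3 * h) (𝔤.b3 * h) (10 * 𝔤.b3 * h) (𝔤.d0 * h) (𝔤.e0 * h) (𝔤.d1 * h) (𝔤.e1 * h))
    (F : PvmnFits s.typ (𝔤.dl * h) (fun i => P.v i - z) (fun k => tt k.1)) {l : ℕ} (h1 : tt 1 ≤ l) (h2 : l ≤ tt 5) :
    P.v l ∈ pvmgPl z (𝔤.dl * h) (pvmnCells s.typ 0 4) ∧ (3 * h < ‖P.v l - z‖ → P.v l ∈ pvyfD (pvmgPl z (𝔤.dl * h) (pvmnCells s.typ 0 4)) (pvmgPl z (𝔤.dl * h) (pvmnCells s.typ 5 9)) (1.5 * (𝔤.dl * h))) ∧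
      ‖P.v l - z‖ ≤ 5 * (𝔤.b3 * h) + 𝔤.mu * h := by
  have N := pvmh_num H hh
  have hδ : 0 < 𝔤.dl * h := N.δ_pos
  have hm : P.v l ∈ pvmgPl z (𝔤.dl * h) (pvmnCells s.typ 0 4) := pvmg_mono (pvmn_cells_mono (by norm_num) le_rfl) (pvmh_vertex_cells hδ F (a := 1) (b := 5) (by norm_num) (by norm_num) h1 h2)
  refine ⟨hm, fun hr => pvyf_tube' s.isType hδ (pvmg_mono pvtw_N_sub hm) (pvyf_off_bar H hh hr), ?_⟩
  have := I.rad N 4 (by norm_num) (by norm_num) (l := l) h1 (h2.trans (I.marks 4 (by norm_num) (by norm_num)).le_mp)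
  push_cast at this
  linarith

/-- the far ends of the two halves -/
theorem pvyf_rim_ends (hh : 0 < h) (I : PvmfIn P z tt (𝔤.mu * h) h (𝔤.a3 * h) (𝔤.b3 * h) (10 * 𝔤.b3 * h) (𝔤.d0 * h) (𝔤.e0 * h) (𝔤.d1 * h) (𝔤.e1 * h))
    (F : PvmnFits s.typ (𝔤.dl * h) (fun i => P.v i - z) (fun k => tt k.1)) :
    (∃ p ∈ pvmgPl z (𝔤.dl * h) (pvmnCells s.typ 0 4), 6 * (𝔤.b3 * h) ≤ ‖p - z‖) ∧ ∃ p ∈ pvmgPl z (𝔤.dl * h) (pvmnCells s.typ 5 9), 6 * (𝔤.b3 * h) ≤ ‖p - z‖ := by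
  have N := pvmh_num H hh
  have hδ : 0 < 𝔤.dl * h := N.δ_pos
  have hm := I.marks 5 (by norm_num) le_rfl
  constructor
  · refine ⟨P.v (tt 0), pvmg_mono (pvmn_cells_mono le_rfl (by norm_num)) (pvmh_vertex_cells hδ F (a := 0) (b := 1) (by norm_num) (by norm_num) le_rfl (F.mono 0)), ?_⟩
    have := hm.mm_far
    push_cast at this
    have e0 : tt (5 - 5) = tt 0 := rfl
    rw [e0] at this
    linarith
  · refine ⟨P.v (tt 10), pvmg_mono (pvmn_cells_mono (by norm_num) le_rfl) (pvmh_vertex_cells hδ F (a := 9) (b := 10) (by norm_num) (by norm_num) (F.mono 9) le_rfl), ?_⟩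
    have := hm.mp_far
    push_cast at this
    have e0 : tt (5 + 5) = tt 10 := rfl
    rw [e0] at this
    linarith

/-- the order of the marks and the cut -/
theorem pvyf_rim_ord (hh : 0 < h) (I : PvmfIn P z tt (𝔤.mu * h) h (𝔤.a3 * h) (𝔤.b3 * h) (10 * 𝔤.b3 * h) (𝔤.d0 * h) (𝔤.e0 * h) (𝔤.d1 * h) (𝔤.e1 * h)) :
    0 < tt 1 ∧ tt 1 ≤ tt 4 ∧ tt 4 ≤ tt 5 ∧ tt 5 ≤ tt 6 ∧ tt 6 ≤ tt 9 ∧ tt 9 ≤ P.len ∧ 5 * (𝔤.b3 * h) ≤ ‖P.v (tt 1) - z‖ ∧ 5 * (𝔤.b3 * h) ≤ ‖P.v (tt 9) - z‖ := by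
  have N := pvmh_num H hh
  have m := fun k hk => I.mono N k hk
  have m0 := m 0 (by norm_num); have m1 := m 1 (by norm_num); have m2 := m 2 (by norm_num); have m3 := m 3 (by norm_num); have m4 := m 4 (by norm_num)
  have m5 := m 5 (by norm_num); have m6 := m 6 (by norm_num); have m7 := m 7 (by norm_num); have m8 := m 8 (by norm_num); have m9 := m 9 (by norm_num)
  simp only [Nat.reduceAdd] at m0 m1 m2 m3 m4 m5 m6 m7 m8 m9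
  have hm := I.marks 5 (by norm_num) le_rfl
  have hm4 := I.marks 4 (by norm_num) (by norm_num)
  have e10 : tt (5 + 5) = tt 10 := rfl
  have e0 : tt (5 - 5) = tt 0 := rfl
  have e9 : tt (5 + 4) = tt 9 := rfl
  have e1 : tt (5 - 4) = tt 1 := rfl
  rw [e10, e0] at hm
  rw [e9, e1] at hm4
  have h0 : tt 0 ≠ 0 := by
    intro h0
    have h1 := I.dn_rad N 5 (by norm_num) le_rfl
    rw [e0, h0] at h1
    have h2 := I.end0
    have h3 := N.e1_lt; have h4 := N.hh_nn; have h6 := N.e0_pos; have h7 := N.e0_le; have h8 := N.d1_le; have h9 := N.b_pos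
    push_cast at h1
    nlinarith
  have f1 := hm4.mm_far
  have f2 := hm4.mp_far
  push_cast at f1 f2
  refine ⟨by omega, by omega, m4, m5, by omega, by have := hm.mp_le; omega, by linarith, by linarith⟩

end rim

section foot

variable {𝔤 : PvmhNum} (H : 𝔤.OK) {h : ℝ} {x : ℂ} {R : ℝ} {k : ℕ} {z : ℂ} {X : Type} {𝔅 : PvBulk X} {Y : Set ℂ}

include H

/-- **P12 STAB, THE TWO WHITE SIDES FROM THE FEET** (97) -/
theorem exit_pvyf_foot (hh : 0 < h) (hR : 0 < R) (hhR : (𝔤.Lr + 2) * h ≤ R) (hY : DelGood Y) (fine : L9Fine Y (closedBall x (6 * R)) (𝔤.mu * h))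
    (dense : VorDense Y (closedBall x (5 * R)) (𝔤.mu * h)) (hAdm : 𝔅.Adm Y) (hOk : 𝔅.Ok Y (closedBall x (6 * R))) {c : (𝔅.T Y).Cyc} {sc : 𝔅.V Y → Bool}
    (hbl : ∀ i, sc ((𝔅.T Y).src (c.e i)) = true) (hkx : ‖(𝔅.enc Y (x + 7 * R) c).v k - x‖ ≤ 2 * R) {s : PvmhT 𝔤} (hfit : 𝔤.Fit h (𝔅.enc Y (x + 7 * R) c) k z s)
    {n : ℕ} {v : ℕ → 𝔅.V Y} {Jm Jp : ℕ} (hadj : ∀ j, j < n → (𝔅.T Y).Adj (v j) (v (j + 1))) (hw : ∀ j, j ≤ n → sc (v j) = false) (hr : ∀ j, j ≤ n → v j ∈ (𝔅.T Y).Int c.Right)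
    (hJm : Jm ≤ n) (hJp : Jp ≤ n) (hDm : 𝔅.posF Y (x + 7 * R) (v 0) ∈ (𝔤.ty h z s).Dm) (hDp : 𝔅.posF Y (x + 7 * R) (v n) ∈ (𝔤.ty h z s).Dp)
    (hMm : ∀ j, j ≤ Jm → 𝔅.posF Y (x + 7 * R) (v j) ∈ (𝔤.ty h z s).Mm) (hMp : ∀ j, Jp ≤ j → j ≤ n → 𝔅.posF Y (x + 7 * R) (v j) ∈ (𝔤.ty h z s).Mp)
    (hcm : ‖𝔅.posF Y (x + 7 * R) (v Jm) - z‖ ≤ 3 * h) (hcp : ‖𝔅.posF Y (x + 7 * R) (v Jp) - z‖ ≤ 3 * h)
    (𝔖 : PvspSt (𝔅.T Y) sc) (hAt : 𝔖.At (𝔅.posF Y (x + 7 * R)) ((𝔤.ty h z s).reg 𝔤.sp z h)) (p1 : ∃ lo hi, 𝔖.g1.Pass c lo hi) (p2 : ∃ lo hi, 𝔖.g2.Pass c lo hi) :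
    𝔖.Side (𝔅.posF Y (x + 7 * R)) ((𝔤.ty h z s).reg 𝔤.sp z h) .pw ∧ 𝔖.Side (𝔅.posF Y (x + 7 * R)) ((𝔤.ty h z s).reg 𝔤.sp z h) .mw := by
  obtain ⟨-, tt, h5, I, F⟩ := hfit
  have N := pvmh_num H hh
  obtain ⟨d0, d1200, hb1, hb12, ha2, hab2⟩ := pvmh_basic H
  have hδ : 0 < 𝔤.dl * h := N.δ_pos
  have hμ : 0 < 𝔤.mu * h := mul_pos H.mu0 hh
  have hδμ : 𝔤.dl * h = 20 * (𝔤.mu * h) := by rw [H.mu_eq]; ring
  have hδh : 1200 * (𝔤.dl * h) ≤ h := by nlinarith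
  have scl : ∀ {A B : ℝ}, A ≤ B → A * h ≤ B * h := fun k => mul_le_mul_of_nonneg_right k hh.le
  have A0 := scl H.a_pos; have B0 := scl (H.ab 0); have B1 := scl (H.ab 1); have B2 := scl (H.ab 2); have N1 := scl H.nest01; have N2 := scl H.nest12
  have hT := hOk.sph
  have hτ := s.isType
  obtain ⟨o1, o2, o3, o4, o5, o6, f1, f9⟩ := pvyf_rim_ord H hh I
  have o6' : tt 9 ≤ c.n := o6
  have hLr : 𝔤.Lr * h = 20 * (𝔤.b3 * h) := by show 20 * 𝔤.b3 * h = _; ring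
  have hb3 : 𝔤.b3 * h = 𝔤.b 2 * h + h := by show (𝔤.b 2 + 1) * h = _; ring
  have ha3 : 𝔤.a3 * h = 𝔤.a 2 * h := rfl
  have hhR' : 𝔤.Lr * h + 2 * h ≤ R := by linarith [hhR, add_mul 𝔤.Lr 2 h]
  have near : ‖𝔅.posF Y (x + 7 * R) ((𝔅.T Y).src (c.e (tt 5))) - z‖ ≤ h := I.near
  have hzx : ‖z - x‖ ≤ 2 * R + h := by
    have h1 := pvyf_tri z (𝔅.posF Y (x + 7 * R) ((𝔅.T Y).src (c.e (tt 5)))) x
    have h2 : ‖𝔅.posF Y (x + 7 * R) ((𝔅.T Y).src (c.e (tt 5))) - x‖ ≤ 2 * R := by rw [h5]; exact hkx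
    rw [norm_sub_rev z (𝔅.posF Y (x + 7 * R) ((𝔅.T Y).src (c.e (tt 5))))] at h1
    linarith
  -- the rim, in positions
  have rimP : ∀ l, tt 5 ≤ l → l ≤ tt 9 → 𝔅.posF Y (x + 7 * R) ((𝔅.T Y).src (c.e l)) ∈ pvmgPl z (𝔤.dl * h) (pvmnCells s.typ 5 9) ∧
      (3 * h < ‖𝔅.posF Y (x + 7 * R) ((𝔅.T Y).src (c.e l)) - z‖ → 𝔅.posF Y (x + 7 * R) ((𝔅.T Y).src (c.e l)) ∈ pvyfD (pvmgPl z (𝔤.dl * h) (pvmnCells s.typ 5 9)) (pvmgPl z (𝔤.dl * h) (pvmnCells s.typ 0 4)) (1.5 * (𝔤.dl * h))) ∧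
      ‖𝔅.posF Y (x + 7 * R) ((𝔅.T Y).src (c.e l)) - z‖ ≤ 5 * (𝔤.b3 * h) + 𝔤.mu * h := fun l h1 h2 => pvyf_rim_p H hh I F h1 h2
  have rimM : ∀ l, tt 1 ≤ l → l ≤ tt 5 → 𝔅.posF Y (x + 7 * R) ((𝔅.T Y).src (c.e l)) ∈ pvmgPl z (𝔤.dl * h) (pvmnCells s.typ 0 4) ∧
      (3 * h < ‖𝔅.posF Y (x + 7 * R) ((𝔅.T Y).src (c.e l)) - z‖ → 𝔅.posF Y (x + 7 * R) ((𝔅.T Y).src (c.e l)) ∈ pvyfD (pvmgPl z (𝔤.dl * h) (pvmnCells s.typ 0 4)) (pvmgPl z (𝔤.dl * h) (pvmnCells s.typ 5 9)) (1.5 * (𝔤.dl * h))) ∧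
      ‖𝔅.posF Y (x + 7 * R) ((𝔅.T Y).src (c.e l)) - z‖ ≤ 5 * (𝔤.b3 * h) + 𝔤.mu * h := fun l h1 h2 => pvyf_rim_m H hh I F h1 h2
  have far : (∀ l, tt 6 ≤ l → l ≤ c.n → 𝔤.a3 * h ≤ ‖𝔅.posF Y (x + 7 * R) ((𝔅.T Y).src (c.e l)) - z‖) ∧ (∀ l, l ≤ tt 4 → 𝔤.a3 * h ≤ ‖𝔅.posF Y (x + 7 * R) ((𝔅.T Y).src (c.e l)) - z‖) := I.far_a N
  have f1' : 5 * (𝔤.b3 * h) ≤ ‖𝔅.posF Y (x + 7 * R) ((𝔅.T Y).src (c.e (tt 1))) - z‖ := f1
  have f9' : 5 * (𝔤.b3 * h) ≤ ‖𝔅.posF Y (x + 7 * R) ((𝔅.T Y).src (c.e (tt 9))) - z‖ := f9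
  -- the two bases
  have ball : ∀ a b : ℕ, ∀ p ∈ pvmgPl z (𝔤.dl * h) (pvmnCells s.typ a b), ‖p - z‖ ≤ 𝔤.Lr * h := fun a b p hp =>
    mem_closedBall_iff_norm.1 (pvmh_w88_box_ball H z hh ((pvmn_cells_box hτ).trans (pvmn_box_mono (Nat.le_add_right _ 8))) hp)
  obtain ⟨⟨pm, pm1, pm2⟩, ⟨pp, pp1, pp2⟩⟩ := pvyf_rim_ends H hh I F
  have mesh : ∀ ρ, ρ ≤ 𝔤.Lr * h → PvdiMesh (𝔅.T Y) (𝔅.posF Y (x + 7 * R)) z ρ (𝔤.mu * h) := fun ρ hρ => pvda_mesh hR hOk fine (by linarith)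
  have Bp : PvyfBase 𝔅 Y x z R (𝔤.mu * h) (𝔤.dl * h) (5.5 * (𝔤.b3 * h)) (𝔤.Lr * h) (pvmgPl z (𝔤.dl * h) (pvmnCells s.typ 5 9)) (pvmgPl z (𝔤.dl * h) (pvmnCells s.typ 0 4)) :=
    { hR := hR, ok := hOk, good := hY, hμ := hμ, hμR := by linarith, dense := dense, hz := by linarith, mesh := mesh _ le_rfl, h12 := by linarith, h0 := by linarith, hδ := hδμ.ge
      hA := pvmg_nonempty hδ.le (pvyf_cells_ne hτ (by omega) (by omega)), cB := pvmg_compact (pvmn_cells_finite _ _ _), pB := pvmg_preconnected hδ (pvmn_cells_conn hτ (by omega) (by omega))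
      hB2 := ball 0 4, hB1 := ⟨pm, pm1, by linarith⟩ }
  have Bm : PvyfBase 𝔅 Y x z R (𝔤.mu * h) (𝔤.dl * h) (5.5 * (𝔤.b3 * h)) (𝔤.Lr * h) (pvmgPl z (𝔤.dl * h) (pvmnCells s.typ 0 4)) (pvmgPl z (𝔤.dl * h) (pvmnCells s.typ 5 9)) :=
    { hR := hR, ok := hOk, good := hY, hμ := hμ, hμR := by linarith, dense := dense, hz := by linarith, mesh := mesh _ le_rfl, h12 := by linarith, h0 := by linarith, hδ := hδμ.ge
      hA := pvmg_nonempty hδ.le (pvyf_cells_ne hτ (by omega) (by omega)), cB := pvmg_compact (pvmn_cells_finite _ _ _), pB := pvmg_preconnected hδ (pvmn_cells_conn hτ (by omega) (by omega))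
      hB2 := ball 5 9, hB1 := ⟨pp, pp1, by linarith⟩ }
  -- the sides of the two gates
  have s1 : PvspSel (𝔅.T Y) sc (pvdiB (𝔅.T Y) (𝔅.posF Y (x + 7 * R)) z (𝔤.a 0 * h)) (pvdiB (𝔅.T Y) (𝔅.posF Y (x + 7 * R)) z (𝔤.b 0 * h)) 𝔖.g1 := by
    rw [← pvsj_B_pl, ← pvsj_B_pl]; exact hAt.sel1
  have s2 : PvspSel (𝔅.T Y) sc (pvdiB (𝔅.T Y) (𝔅.posF Y (x + 7 * R)) z (𝔤.a 1 * h)) (pvdiB (𝔅.T Y) (𝔅.posF Y (x + 7 * R)) z (𝔤.b 1 * h)) 𝔖.g2 := by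
    rw [← pvsj_B_pl, ← pvsj_B_pl]; exact hAt.sel2
  obtain ⟨in1, out1⟩ := pvyf_sides hT hμ.le (mesh _ (by linarith)) s1
  obtain ⟨in2, out2⟩ := pvyf_sides hT hμ.le (mesh _ (by linarith)) s2
  obtain ⟨M, lo₁, hi₁, lo₂, hi₂, P1, P2, x1, x2, x3, x4, x5, x6⟩ := pvyf_idx hT in1 out1 in2 out2 (by linarith) (by linarith) (em := tt 1) (k0 := tt 5) (ep := tt 9) (by omega) (by omega)
    (by linarith) (by linarith) (by linarith) p1 p2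
  have sh : ∀ k, M * c.n ≤ k → c.e k = c.e (k - M * c.n) := fun k hk => by
    conv_lhs => rw [← Nat.sub_add_cancel hk]
    exact pl_cyc_per c _ _
  have rf : ∀ k, tt 9 + M * c.n < k → k < tt 1 + M * c.n + c.n → 𝔤.a3 * h ≤ ‖𝔅.posF Y (x + 7 * R) ((𝔅.T Y).src (c.e k)) - z‖ := by
    intro k h1 h2
    rw [sh k (by omega)]
    rcases Nat.lt_or_ge c.n (k - M * c.n) with hc | hc
    · have e : c.e (k - M * c.n) = c.e (k - M * c.n - c.n) := by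
        conv_lhs => rw [← Nat.sub_add_cancel hc.le]
        exact c.per _
      rw [e]
      exact far.2 _ (by omega)
    · exact far.1 _ (by omega) hc
  obtain ⟨dfp, dfm⟩ := pvyf_doors_far (z := z) (s := s) H hh
  constructor
  · refine Bp.foot hbl 𝔖.g1 𝔖.g2 P1 P2 x1 x2 x3 x4 x5 x6 (by omega) in1 out1 in2 out2 ?_ ?_ rf ?_ (u := fun t => v (Jp + t)) (ℓ := n - Jp) (fun t ht => hadj (Jp + t) (by omega)) (fun t ht => hw _ (by omega)) (fun t ht => hr _ (by omega))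
      (R₁ := (𝔤.b 0 + 2) * h) (R₂ := (𝔤.b 1 + 2) * h) (by linarith) (by linarith) (by linarith) (by linarith) (by linarith) (by linarith) (by linarith) ?_ ?_ ?_ ?_ ?_ ?_
    · intro k h1 h2
      rw [sh k (by omega)]
      obtain ⟨q1, q2, q3⟩ := rimP (k - M * c.n) (by omega) (by omega)
      refine ⟨fun hr => q2 (by linarith), ?_, by linarith⟩
      rw [infDist_zero_of_mem q1]
      positivity
    · intro k h1 h2 h3
      rw [sh k (by omega)] at h3 ⊢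
      exact pvyf_D_mono (by positivity) ((rimM (k - M * c.n) (by omega) (by omega)).2.1 (by linarith))
    · rw [pl_cyc_per]
      exact (rimM (tt 1) le_rfl (by omega)).1
    · show ‖𝔅.posF Y (x + 7 * R) (v Jp) - z‖ ≤ _
      linarith
    · show _ ≤ ‖𝔅.posF Y (x + 7 * R) (v (Jp + (n - Jp))) - z‖
      rw [show Jp + (n - Jp) = n by omega]
      have := dfp _ hDp
      linarith
    · intro t ht h1 h2
      exact pvyf_rung_p H hh I F (pvyf_lane_p hδ (hMp _ (by omega) (by omega))) (by linarith)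
    · intro p hp h1 h2
      exact Or.inr ⟨pvyf_at_mem.2 ⟨h1.le, by linarith, hp⟩, mem_closedBall_iff_norm.2 (by show _ ≤ (𝔤.b 1 + 1) * h; linarith)⟩
    · intro t ht
      exact Or.inl (hMp _ (by omega) (by omega))
    · show 𝔅.posF Y (x + 7 * R) (v (Jp + (n - Jp))) ∈ _
      rw [show Jp + (n - Jp) = n by omega]
      exact hDp
  · refine Bm.head hbl 𝔖.g1 𝔖.g2 P1 P2 x1 x2 x3 x4 x5 x6 (by omega) in1 out1 in2 out2 ?_ ?_ rf ?_ (u := fun t => v (Jm - t)) (ℓ := Jm) ?_ (fun t ht => hw _ (by omega)) (fun t ht => hr _ (by omega))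
      (R₁ := (𝔤.b 0 + 2) * h) (R₂ := (𝔤.b 1 + 2) * h) (by linarith) (by linarith) (by linarith) (by linarith) (by linarith) (by linarith) (by linarith) ?_ ?_ ?_ ?_ ?_ ?_
    · intro k h1 h2
      rw [sh k (by omega)]
      obtain ⟨q1, q2, q3⟩ := rimM (k - M * c.n) (by omega) (by omega)
      refine ⟨fun hr => q2 (by linarith), ?_, by linarith⟩
      rw [infDist_zero_of_mem q1]
      positivity
    · intro k h1 h2 h3
      rw [sh k (by omega)] at h3 ⊢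
      exact pvyf_D_mono (by positivity) ((rimP (k - M * c.n) (by omega) (by omega)).2.1 (by linarith))
    · rw [pl_cyc_per]
      exact (rimP (tt 9) (by omega) le_rfl).1
    · intro t ht
      have := hadj (Jm - (t + 1)) (by omega)
      rw [show Jm - (t + 1) + 1 = Jm - t by omega] at this
      exact (𝔅.T Y).adj_symm this
    · show ‖𝔅.posF Y (x + 7 * R) (v Jm) - z‖ ≤ _
      linarith
    · show _ ≤ ‖𝔅.posF Y (x + 7 * R) (v (Jm - Jm)) - z‖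
      rw [Nat.sub_self]
      have := dfm _ hDm
      linarith
    · intro t ht h1 h2
      exact pvyf_rung_m H hh I F (pvyf_lane_m hδ (hMm _ (by omega))) (by linarith)
    · intro p hp h1 h2
      exact Or.inr ⟨pvyf_at_mem.2 ⟨h1.le, by linarith, hp⟩, mem_closedBall_iff_norm.2 (by show _ ≤ (𝔤.b 1 + 1) * h; linarith)⟩
    · intro t ht
      exact Or.inl (hMm _ (by omega))
    · show 𝔅.posF Y (x + 7 * R) (v (Jm - Jm)) ∈ _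
      rw [Nat.sub_self]
      exact hDm

end foot

end Claimed.Agent.R289
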