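-- KEEP
import Claimed.Agent.R289.Tr.StabInst
import Claimed.Agent.R289.Tr.Stab
import Claimed.Agent.R289.Tr.ModP
import Claimed.Agent.R289.Tr.StripP
import Claimed.Agent.R289.Tr.LanePB
import Claimed.Agent.R289.Tr.CutP
import Claimed.Agent.R289.Exit.PinsPB
import Claimed.Agent.R289.Tr.FootS

/-!
# Row 289 (S0537), unit TR, ROAD P: P12 STAB AT THE MODEL of `Tr/ModP`      (owner helper97; prefix `pvsk_`)

-- KEEP.   Consumer: `exit_pinsP_five` of `Exit/PinsP.lean` (8).   Inputs: `pvsj_evt` (`Tr/StabInst`), the repainting kit of 212 (`Tr/Stab`), FIT-IN of `Tr/ModP`, the walk kit of 277 (`Tr/StripP`) and of 225 (`Tr/LanePB`).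

* §1 `pvsk_evt`: `pvsj_evt` over a FIXED site set `Y = cfSites η` (a repainting does not move the sites, but only propositionally);
* §2 `pvsk_rim`: the rim of ONE completion survives a recolouring off the rim which creates no site of its colour;
* §3 `pvsk_walk`: the walk of the lane event as a chain of sites (any window);
* §4 the white chain at the model: `pvsk_cut_ex`, `pvsk_strip_tube`, `pvsk_lane`;
* §5 the windows: `pvsk_fin`, `pvsk_win`;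
* §6 `pvsk_five`.
-/

set_option autoImplicit false
set_option linter.unusedSectionVars false
set_option linter.unusedVariables false
set_option linter.unusedSimpArgs false

namespace Claimed.Agent.R289

open Set Metric Relation Claims.C0465 Claims.C0467 Claimed.Agent.R291

/-! ## §1 the instance over a fixed site set -/

section fixed

variable {X : Type} {𝔅 : PvBulk X} {N : PvspNum} {t : PvspTy} {x z : ℂ} {R h : ℝ} {η : Conf PvPt} {ξ : X → Bool}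

/-- `pvsj_evt` over a fixed site set -/
theorem pvsk_evt {Y : Set ℂ} (hY : cfSites η = Y) (hW : t.Wf N z h) (hmu : N.mu ≤ 1) (hDp : ∀ p ∈ t.Dp, (N.b 1 + N.mu) * h < ‖p - z‖) (hDm : ∀ p ∈ t.Dm, (N.b 1 + N.mu) * h < ‖p - z‖)
    (hR : 0 < R) (hOk : 𝔅.Ok Y (closedBall x (6 * R))) (hA : 𝔅.Adm Y) (hloc : ∀ k, t.win N z h k ⊆ closedBall x (6 * R))
    (hf : L9Fine Y (closedBall x (6 * R)) (N.mu * h)) (hwin : ∀ k, PvtnFin (t.win N z h k) η ∧ PvtrMesh (N.mu * h) (t.win N z h k) Y)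
    {c : (𝔅.T Y).Cyc} (hc : c.IsRim (fun v => Sum.elim (cfCol η) ξ (𝔅.lab Y v))) (hcol : Sum.elim (cfCol η) ξ (𝔅.lab Y ((𝔅.T Y).src (c.e 0))) = t.col)
    (g : ∀ k : Fin 3, PvdaGate Y (cfCol η) t.col z (N.a k * h) ((N.b k - 2 * N.mu) * h))
    {ρ : ℝ} {em k0 ep : ℕ} (Rn : PvsjRun (t.reg N z h) x z R ρ (N.mu * h) (N.a 0 * h - ρ) (fun k => 𝔅.posF Y (x + 7 * R) ((𝔅.T Y).src (c.e k))) c.n em k0 ep)
    (hρ : ρ ≤ N.a 0 * h) :
    η ∈ pvspEvt N t z h .has ∧ η ∈ pvspEvt N t z h .pb ∧ η ∈ pvspEvt N t z h .mb ∧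
      ((∀ 𝔖 : PvspSt (𝔅.T Y) (pvspS t.col (fun v => Sum.elim (cfCol η) ξ (𝔅.lab Y v))), 𝔖.At (𝔅.posF Y (x + 7 * R)) (t.reg N z h) → (∃ lo hi, 𝔖.g1.Pass c lo hi) → (∃ lo hi, 𝔖.g2.Pass c lo hi) →
        𝔖.Side (𝔅.posF Y (x + 7 * R)) (t.reg N z h) .pw ∧ 𝔖.Side (𝔅.posF Y (x + 7 * R)) (t.reg N z h) .mw) → η ∈ pvspEvt N t z h .pw ∧ η ∈ pvspEvt N t z h .mw) := by
  subst hY
  exact pvsj_evt hW hmu hDp hDm hR hOk hA hloc hf hwin hc hcol g Rn hρ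

end fixed

/-! ## §2 the rim of one completion survives -/

section rim

variable {X : Type} {𝔅 : PvBulk X} {Y : Set ℂ} {x : ℂ} {R : ℝ} {ξ : X → Bool}

/-- the middle of `pvsb_at` of 212: SAME completion, SAME cycle -/
theorem pvsk_rim (hR : 0 < R) (hA : 𝔅.Adm Y) (hOk : 𝔅.Ok Y (closedBall x (6 * R))) {σ σ' : ℂ → Bool} {c : (𝔅.T Y).Cyc} (hc : c.IsRim (fun v => Sum.elim σ ξ (𝔅.lab Y v)))
    {b : Bool} {k : ℕ} (hk : ‖𝔅.posF Y (x + 7 * R) ((𝔅.T Y).src (c.e k)) - x‖ ≤ 6 * R) (hb : σ (𝔅.posF Y (x + 7 * R) ((𝔅.T Y).src (c.e k))) = b)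
    (h1 : ∀ p ∈ Y, σ' p = b → σ p = b) (h2 : ∀ j, σ' (𝔅.posF Y (x + 7 * R) ((𝔅.T Y).src (c.e j))) = σ (𝔅.posF Y (x + 7 * R) ((𝔅.T Y).src (c.e j)))) :
    c.IsRim (fun v => Sum.elim σ' ξ (𝔅.lab Y v)) ∧ Sum.elim σ' ξ (𝔅.lab Y ((𝔅.T Y).src (c.e 0))) = b := by
  have : Finite (𝔅.D Y) := hA.2
  have hcol : Sum.elim σ ξ (𝔅.lab Y ((𝔅.T Y).src (c.e 0))) = b := by
    have e1 : Sum.elim σ ξ (𝔅.lab Y ((𝔅.T Y).src (c.e 0))) = Sum.elim σ ξ (𝔅.lab Y ((𝔅.T Y).src (c.e k))) := pl_rim_col hc 0 k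
    rw [e1, pvloc_posF hR hk]
    exact hb
  have keep : ∀ j, Sum.elim σ' ξ (𝔅.lab Y ((𝔅.T Y).src (c.e j))) = Sum.elim σ ξ (𝔅.lab Y ((𝔅.T Y).src (c.e j))) := by
    intro j
    rcases hl : 𝔅.lab Y ((𝔅.T Y).src (c.e j)) with p | e
    · have hp : 𝔅.posF Y (x + 7 * R) ((𝔅.T Y).src (c.e j)) = p := l9_posF_inl 𝔅 hl
      have := h2 j
      rwa [hp] at this
    · rfl
  refine ⟨pvsb_rim hOk.sph hOk.simple hc ⟨?_, ?_⟩ (Set.toFinite _), (keep 0).trans hcol⟩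
  · intro v hv
    have hv' : Sum.elim σ' ξ (𝔅.lab Y v) = b := hv.trans hcol
    show Sum.elim σ ξ (𝔅.lab Y v) = Sum.elim σ ξ (𝔅.lab Y ((𝔅.T Y).src (c.e 0)))
    rw [hcol]
    rcases hl : 𝔅.lab Y v with p | e
    · rw [hl] at hv'
      exact h1 p (hOk.site v p hl) hv'
    · rw [hl] at hv'
      exact hv'
  · rintro v ⟨j, rfl⟩
    exact keep j

end rim

/-! ## §3 the walk of the lane event -/

section walk

variable {ρ : ℝ} {E S A B : Set ℂ} {c : Bool} {ξ : Conf PvPt}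

/-- `pvsz_walk` of 277 for an arbitrary window, strip and doors -/
theorem pvsk_walk (h : PvtmCross (pvtrSet ρ E ξ) c S A B) : ∃ (n : ℕ) (x : ℕ → ℂ),
    (∀ j, j ≤ n → (x j, c) ∈ ξ.pts ∧ x j ∈ S ∧ x j ∈ E ∧ ∃ b w, DelTri (cfSites ξ) (x j) b w) ∧
    (∀ j, j < n → ‖x (j + 1) - x j‖ ≤ 2 * ρ ∧ ∃ w, DelTri (cfSites ξ) (x j) (x (j + 1)) w ∨ DelTri (cfSites ξ) (x (j + 1)) (x j) w) ∧
    x 0 ∈ A ∧ x n ∈ B := by
  obtain ⟨l, ⟨hch, hl⟩, ⟨a, ha, haA⟩, b, hb, hbB⟩ := h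
  have hne : l ≠ [] := by
    rintro rfl
    simp at ha
  have hpos : 0 < l.length := List.length_pos_iff.2 hne
  have hV : ∀ p ∈ pvtmV (pvtrSet ρ E ξ), p ∈ ξ.pts ∧ p.1 ∈ E ∧ ∃ b w, DelTri (cfSites ξ) p.1 b w := by
    rintro p ⟨q, w, hq | hq | hq⟩
    · exact ⟨hq.1, hq.2.2.2.1.2, _, _, (pvtr_iff.1 hq.2.2.2).1⟩
    · exact ⟨hq.2.1, hq.2.2.2.2.1.2, _, _, del_tri_cyc (pvtr_iff.1 hq.2.2.2).1⟩
    · exact ⟨hq.2.2.1, hq.2.2.2.2.2.1.2, _, _, del_tri_cyc (del_tri_cyc (pvtr_iff.1 hq.2.2.2).1)⟩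
  refine ⟨l.length - 1, fun j => (l.getD j a).1, fun j hj => ?_, fun j hj => ?_, ?_, ?_⟩
  · have hjl : j < l.length := by omega
    have e : l.getD j a = l[j] := List.getD_eq_getElem _ _ hjl
    have hm : l[j] ∈ l := List.getElem_mem hjl
    obtain ⟨h1, h2, h3⟩ := hl _ hm
    obtain ⟨g1, g2, g3⟩ := hV _ h1
    simp only [e]
    refine ⟨?_, h3, g2, g3⟩
    rw [← h2]
    exact g1
  · have hjl : j + 1 < l.length := by omega
    have e : l.getD j a = l[j] := List.getD_eq_getElem _ _ (by omega)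
    have e' : l.getD (j + 1) a = l[j + 1] := List.getD_eq_getElem _ _ hjl
    simp only [e, e']
    exact pvsz_step (List.isChain_iff_getElem.1 hch j hjl)
  · have e : l.getD 0 a = l[0] := List.getD_eq_getElem _ _ hpos
    simp only [e]
    have : l.head? = some l[0] := by rw [List.head?_eq_getElem?, List.getElem?_eq_getElem hpos]
    rw [this] at ha
    rw [Option.mem_some_iff.1 ha]
    exact haA
  · have e : l.getD (l.length - 1) a = l[l.length - 1] := List.getD_eq_getElem _ _ (by omega)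
    simp only [e]
    have : l.getLast? = some l[l.length - 1] := by rw [List.getLast?_eq_getElem?, List.getElem?_eq_getElem (by omega)]
    rw [this] at hb
    rw [Option.mem_some_iff.1 hb]
    exact hbB

/-- a site which carries the colour `c` has the colour `c` -/
theorem pvsk_col (hcol : ∀ z c c', (z, c) ∈ ξ.pts → (z, c') ∈ ξ.pts → c = c') {p : ℂ} (hp : (p, c) ∈ ξ.pts) : cfCol ξ p = c := by
  classical
  unfold cfCol
  cases c
  · exact decide_eq_false fun h => absurd (hcol p _ _ h hp) (by simp)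
  · exact decide_eq_true hp

/-- `pvsz_lift` of 277 over an arbitrary site set -/
theorem pvsk_lift {X : Type} (𝔅 : PvBulk X) {Y Kc : Set ℂ} (hOk : 𝔅.Ok Y Kc) {n : ℕ} {x : ℕ → ℂ} (hx : ∀ j, j ≤ n → x j ∈ Kc ∧ ∃ b w, DelTri Y (x j) b w)
    (hs : ∀ j, j < n → ∃ w, DelTri Y (x j) (x (j + 1)) w ∨ DelTri Y (x (j + 1)) (x j) w) :
    ∃ v : ℕ → 𝔅.V Y, (∀ j, j ≤ n → 𝔅.lab _ (v j) = Sum.inl (x j)) ∧ ∀ j, j < n → (𝔅.T Y).Adj (v j) (v (j + 1)) := by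
  classical
  have hex : ∀ j, j ≤ n → ∃ u : 𝔅.V Y, 𝔅.lab _ u = Sum.inl (x j) := by
    intro j hj
    obtain ⟨hK, b, w, ht⟩ := hx j hj
    obtain ⟨d, hd, -, -⟩ := hOk.face _ _ _ ht hK
    exact ⟨_, hd⟩
  refine ⟨fun j => if h : j ≤ n then (hex j h).choose else (hex 0 (Nat.zero_le _)).choose, fun j hj => ?_, fun j hj => ?_⟩
  · simp only [dif_pos hj]
    exact (hex j hj).choose_spec
  · have h1 : j ≤ n := by omega
    have h2 : j + 1 ≤ n := by omega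
    simp only [dif_pos h1, dif_pos h2]
    have e1 := (hex j h1).choose_spec
    have e2 := (hex (j + 1) h2).choose_spec
    obtain ⟨w, ht | ht⟩ := hs j hj
    · obtain ⟨d, hd1, hd2, -⟩ := hOk.face _ _ _ ht (hx j h1).1
      exact ⟨d, hOk.inj (hd1.trans e1.symm), hOk.inj (hd2.trans e2.symm)⟩
    · obtain ⟨d, hd1, hd2, -⟩ := hOk.face _ _ _ ht (hx (j + 1) h2).1
      refine ⟨(𝔅.T Y).opp d, ?_, ?_⟩
      · rw [(𝔅.T Y).src_opp']
        exact hOk.inj (hd2.trans e1.symm)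
      · rw [(𝔅.T Y).tgt_opp]
        exact hOk.inj (hd1.trans e2.symm)

end walk

/-! ## §4 the white chain at the model -/

section model

variable {𝔤 : PvmhNum} (H : 𝔤.OK) {h : ℝ} {P : PvbRim} {z : ℂ} {k : ℕ} {s : PvmhT 𝔤}

include H

/-- **the cut exists at the model**: the corridor has a cell in the fine box `nK` (radius `2 h`), because it passes `e₀ h + 20 dl h + mu h`-close to the pin vertex, which is `h`-close to the centre -/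
theorem pvsk_cut_ex (hh : 0 < h) (F : 𝔤.Fit h P k z s) : ∃ i, i ≤ pvlpN s.typ s.ln ∧ pvlpC s.typ s.ln i ∈ pvmnBox 𝔤.nK := by
  obtain ⟨-, tt, h5, I, hfit⟩ := F
  have N := pvmh_num H hh
  have hδ := N.δ_pos
  have C := I.cuts N
  have hm := pvlb_t_mono hfit
  obtain ⟨i, hi, hil⟩ := pvlb_cor_track (μ := 𝔤.mu * h) (d := 𝔤.d0 * h) (e₀ := 𝔤.e0 * h) s.isType s.isLane hfit hδ N.μ_nn N.e0_pos.le (fun i h1 h2 => I.mesh' N i h1 h2)
    (pvmn_nr_track_sh I.nr0 C.le_len C.win) (by have := N.d0_ge; have := N.μ_le; linarith) (tt 5) (hm (show (1 : Fin 11) ≤ 5 by decide)) (hm (show (5 : Fin 11) ≤ 9 by decide))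
  refine ⟨i, hi, pvlb_ctr_box (δ := 𝔤.dl * h / 5) (by positivity) ?_⟩
  have h3 : ‖pvtCtr (𝔤.dl * h / 5) (pvlpC s.typ s.ln i)‖ ≤ ‖P.v (tt 5) - z‖ + ‖(P.v (tt 5) - z) - pvtCtr (𝔤.dl * h / 5) (pvlpC s.typ s.ln i)‖ := by
    have := norm_sub_le (P.v (tt 5) - z) ((P.v (tt 5) - z) - pvtCtr (𝔤.dl * h / 5) (pvlpC s.typ s.ln i))
    simpa using this
  have h4 := I.near
  have hdl := H.dl0
  have hK : 10 / 𝔤.dl ≤ (𝔤.nK : ℝ) := Nat.le_ceil _
  have hK' : 2 * h ≤ (𝔤.nK : ℝ) * (𝔤.dl * h / 5) := by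
    have e : 2 * h = 10 / 𝔤.dl * (𝔤.dl * h / 5) := by field_simp; ring
    rw [e]
    exact mul_le_mul_of_nonneg_right hK (by positivity)
  obtain ⟨-, b1, -⟩ := pvmh_basic H
  have c1 := H.e0_le; have c2 := H.d1_le; have c3 := H.e1_le; have c4 := H.mu_le
  have c5 : (𝔤.e0 + 20 * 𝔤.dl + 𝔤.mu) * h ≤ 1 * h := mul_le_mul_of_nonneg_right (by linarith) hh.le
  have hil' : ‖(P.v (tt 5) - z) - pvtCtr (𝔤.dl * h / 5) (pvlpC s.typ s.ln i)‖ ≤ 𝔤.e0 * h + 20 * (𝔤.dl * h) + 𝔤.mu * h := hil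
  nlinarith

/-- a point of the strip, centred -/
theorem pvsk_J_mem {p : ℂ} (hp : p ∈ pvspJ (𝔤.ty h z s)) : p - z ∈ pvlpS (𝔤.dl * h) s.typ s.ln := by
  rcases hp with ⟨q, hq, rfl⟩ | ⟨q, hq, rfl⟩
  · rw [add_sub_cancel_right]
    exact pvls_Mm_sub _ _ _ hq
  · rw [add_sub_cancel_right]
    exact pvls_Mp_sub _ _ _ hq

/-- **the strip misses the black tubes** -/
theorem pvsk_strip_tube (hh : 0 < h) {p : ℂ} (hp : p ∈ pvspJ (𝔤.ty h z s)) : p ∉ pvmgPl z (𝔤.dl * h) (pvtwN 2 (pvmnCells s.typ 0 9)) := by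
  have hδ : 0 < 𝔤.dl * h := mul_pos H.dl0 hh
  have h1 : p ∈ pvmgPl z (𝔤.dl * h) (pvtwN 1 (pvlbZone s.typ)) :=
    pvmg_mem.2 (pvlb_win_zone s.isType s.isLane hδ le_rfl (pvsk_J_mem H hp))
  have hd : Disjoint (pvmgPl z (𝔤.dl * h) (pvtwN 1 (pvlbZone s.typ))) (pvmgPl z (𝔤.dl * h) (pvtwN 2 (pvmnCells s.typ 0 9))) :=
    pvmg_disj hδ (by rw [← pvtw_N_succ]; exact pvlb_zone_offN (by norm_num))
  exact Set.disjoint_left.1 hd h1

/-- **the white chain of a configuration in the lane event**, split at the cut -/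
theorem pvsk_chain (hh : 0 < h) (F : 𝔤.Fit h P k z s) {η : Conf PvPt} (hA : η ∈ pvspLane 𝔤.sp (𝔤.ty h z s) h) :
    ∃ (n : ℕ) (X : ℕ → ℂ) (Jm Jp : ℕ), (∀ j, j ≤ n → (X j, !s.typ.col) ∈ η.pts ∧ X j ∈ pvspJ (𝔤.ty h z s) ∧ X j ∈ (𝔤.ty h z s).EJ ∧ ∃ b w, DelTri (cfSites η) (X j) b w) ∧
      (∀ j, j < n → ∃ w, DelTri (cfSites η) (X j) (X (j + 1)) w ∨ DelTri (cfSites η) (X (j + 1)) (X j) w) ∧
      X 0 ∈ (𝔤.ty h z s).Dm ∧ X n ∈ (𝔤.ty h z s).Dp ∧ Jm ≤ n ∧ Jp ≤ n ∧ (∀ j, j ≤ Jm → X j ∈ (𝔤.ty h z s).Mm) ∧ (∀ j, Jp ≤ j → j ≤ n → X j ∈ (𝔤.ty h z s).Mp) ∧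
      ‖X Jm - z‖ ≤ 3 * h ∧ ‖X Jp - z‖ ≤ 3 * h := by
  have hδ : 0 < 𝔤.dl * h := mul_pos H.dl0 hh
  obtain ⟨n, X, h1, h2, h3, h4⟩ := pvsk_walk hA
  have hex := pvmh_bar_norm H s hh
  have hx : ∀ j, j ≤ n → X j - z ∈ pvlpS (𝔤.dl * h) s.typ s.ln := fun j hj => pvsk_J_mem H (h1 j hj).2.1
  have hs : ∀ j, j < n → ‖(X (j + 1) - z) - (X j - z)‖ ≤ 𝔤.dl * h / 10 := fun j hj => by
    rw [sub_sub_sub_cancel_right]
    refine (h2 j hj).1.trans (le_of_eq ?_)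
    show 2 * (𝔤.mu * h) = _
    rw [H.mu_eq]; ring
  have h0 : X 0 - z ∈ pvlpDA (𝔤.dl * h) s.typ s.ln := by
    rcases h3 with ⟨-, hN⟩ | ⟨q, hq, e⟩
    · exact absurd (pvmg_mono (pvtw_N_mono le_rfl (pvmn_cells_mono (by norm_num) (by norm_num))) hN) (pvsk_strip_tube H hh (h1 0 (Nat.zero_le _)).2.1)
    · rw [← e, add_sub_cancel_right]; exact hq
  have hn : X n - z ∈ pvlpDB (𝔤.dl * h) s.typ s.ln := by
    rcases h4 with ⟨-, hN⟩ | ⟨q, hq, e⟩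
    · exact absurd (pvmg_mono (pvtw_N_mono le_rfl (pvmn_cells_mono (by norm_num) (by norm_num))) hN) (pvsk_strip_tube H hh (h1 n le_rfl).2.1)
    · rw [← e, add_sub_cancel_right]; exact hq
  obtain ⟨Jp, p1, p2, p3⟩ := pvls_walk_Mp s.isType s.isLane hδ hex (fun j => X j - z) n hx hs h0 hn
  obtain ⟨Jm, m1, m2, m3⟩ := pvls_walk_Mm s.isType s.isLane hδ hex (fun j => X j - z) n hx hs h0 hn
  refine ⟨n, X, Jm, Jp, h1, fun j hj => (h2 j hj).2, h3, h4, m1, p1, fun j hj => ⟨X j - z, m3 j hj, sub_add_cancel _ _⟩, fun j a b => ⟨X j - z, p3 j a b, sub_add_cancel _ _⟩,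
    m2, p2⟩

end model

/-! ## §5 the windows -/

section windows

/-- finitely many sites in the window: finitely many points -/
theorem pvsk_fin {E : Set ℂ} {η : Conf PvPt} (h : (cfSites η ∩ E).Finite) : PvtnFin E η := by
  unfold PvtnFin
  refine (h.prod (Set.finite_univ (α := Bool))).subset ?_
  rintro ⟨p, c⟩ ⟨hp, hE, -⟩
  exact ⟨⟨⟨(p, c), hp, rfl⟩, hE⟩, trivial⟩

variable {𝔤 : PvmhNum} (H : 𝔤.OK) {h : ℝ} {z : ℂ} {s : PvmhT 𝔤}

include H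

/-- the five windows lie in the reading ball -/
theorem pvsk_win_ball (hh : 0 < h) (κ : PvspKind) : (𝔤.ty h z s).win 𝔤.sp z h κ ⊆ closedBall z (𝔤.Lr * h) := by
  cases κ
  · exact pvmh_w88_rO_ball H z hh
  · exact pvmh_Ep_sub H z s hh
  · exact pvmh_Ep_sub H z s hh
  · exact pvmh_Em_sub H z s hh
  · exact pvmh_Em_sub H z s hh

end windows

/-! ## §6 P12 STAB at the model -/

section five

variable {𝔤 : PvmhNum} (H : 𝔤.OK) {h : ℝ} {x : ℂ} {R : ℝ} {ω : PVSample} {k : ℕ} {z : ℂ} {X : Type} {𝔅 : PvBulk X} {ξ : X → Bool}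

include H

/-- **P12 STAB AT THE MODEL, in one completion**: `c` a rim of a completion of the actual configuration, its encoding fits `s`, the strip lies on its right, the three gates of the plane:
every whitening of the strip which realises the lane event satisfies the five events of the candidate -/
theorem pvsk_five (hh : 0 < h) (hR : 0 < R) (hhR : (𝔤.Lr + 2) * h ≤ R) (ok : DelgpOk ω) (fine : L9Fine (cfSites (pvConf ω)) (closedBall x (6 * R)) (𝔤.mu * h))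
    (dense : VorDense (cfSites (pvConf ω)) (closedBall x (5 * R)) (𝔤.mu * h)) (hAdm : 𝔅.Adm (cfSites (pvConf ω))) (hOk : 𝔅.Ok (cfSites (pvConf ω)) (closedBall x (6 * R)))
    {c : (𝔅.T (cfSites (pvConf ω))).Cyc} (hc : c.IsRim (𝔅.col (pvConf ω) ξ)) (h4 : 4 * R ≤ ‖𝔅.posF (cfSites (pvConf ω)) (x + 7 * R) ((𝔅.T (cfSites (pvConf ω))).src (c.e 0)) - x‖) [Fintype X]
    (hkx : ‖(𝔅.enc (cfSites (pvConf ω)) (x + 7 * R) c).v k - x‖ ≤ 2 * R) {s : PvmhT 𝔤} (hcol : cfCol (pvConf ω) ((𝔅.enc (cfSites (pvConf ω)) (x + 7 * R) c).v k) = s.typ.col)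
    (hg : ∀ j : Fin 3, PvdaGate (cfSites (pvConf ω)) (cfCol (pvConf ω)) s.typ.col z (𝔤.a j * h) ((𝔤.b j - 2 * 𝔤.mu) * h))
    (hfit : 𝔤.Fit h (𝔅.enc (cfSites (pvConf ω)) (x + 7 * R) c) k z s)
    (hright : ∀ v, 𝔅.posF (cfSites (pvConf ω)) (x + 7 * R) v ∈ pvspJ (𝔤.ty h z s) → v ∈ (𝔅.T (cfSites (pvConf ω))).Int c.Right)
    {B : Finset ℂ} (hB1 : cfStripOn (pvspJ (𝔤.ty h z s)) (!s.typ.col) (pvConf ω) ⊆ B)
    (hA : cfPaint (pvspJ (𝔤.ty h z s)) (!s.typ.col) B (pvConf ω) ∈ pvspLane 𝔤.sp (𝔤.ty h z s) h) (κ : PvspKind) :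
    cfPaint (pvspJ (𝔤.ty h z s)) (!s.typ.col) B (pvConf ω) ∈ pvspEvt 𝔤.sp (𝔤.ty h z s) z h κ := by
  have hW := pvmh_wf H z s hh
  have hP : 𝔅.enc (cfSites (pvConf ω)) (x + 7 * R) c ∈ pvdaAll x R (pvConf ω) := ⟨X, inferInstance, 𝔅, ξ, hAdm, hOk, c, hc, h4, rfl⟩
  have hY := cfPaint_sites (pvspJ (𝔤.ty h z s)) (!s.typ.col) B (pvConf ω)
  have hgOk : PvgOk (pvGeoOf ω) := pvqu_ok_of (g := pvGeoOf ω) (c := pvColOf ω) ok
  have hN : CfNice (pvspJ (𝔤.ty h z s)) (pvConf ω) := pvp_nice hgOk (pvsp_J_bdd hW) (pvColOf ω)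
  have hμ : 0 < 𝔤.mu * h := mul_pos H.mu0 hh
  -- the rim misses the strip
  have hoff : ∀ j, (𝔅.enc (cfSites (pvConf ω)) (x + 7 * R) c).v j ∉ pvspJ (𝔤.ty h z s) :=
    pvkv_off hP fun j hj hin => by
      have := pvmh_miss H hh hfit j hj _ hin
      rw [sub_self, norm_zero] at this
      exact absurd this (not_lt.2 (mul_pos H.dl0 hh).le)
  -- numbers
  obtain ⟨-, tt, h5, I, -⟩ := id hfit
  have hnear : ‖(𝔅.enc (cfSites (pvConf ω)) (x + 7 * R) c).v k - z‖ ≤ h := by rw [← h5]; exact I.near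
  have hzx : ‖z - x‖ ≤ 2 * R + h := by
    have := norm_sub_le_norm_sub_add_norm_sub z ((𝔅.enc (cfSites (pvConf ω)) (x + 7 * R) c).v k) x
    rw [norm_sub_rev z ((𝔅.enc (cfSites (pvConf ω)) (x + 7 * R) c).v k)] at this
    linarith
  have hLr : 𝔤.Lr = 20 * (𝔤.b 2 + 1) := rfl
  have a0 := H.a_pos; have ab0 := H.ab 0; have ab1 := H.ab 1; have ab2 := H.ab 2; have n01 := H.nest01; have n12 := H.nest12
  have hmu1 : 𝔤.mu ≤ 1 := by
    obtain ⟨-, b1, -⟩ := pvmh_basic H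
    have := H.mu_le; have := H.mu0
    linarith
  have haj : ∀ j : Fin 3, 30 ≤ 𝔤.a j ∧ 𝔤.b j ≤ 𝔤.b 2 := by
    intro j
    fin_cases j
    · exact ⟨a0, by show 𝔤.b 0 ≤ 𝔤.b 2; linarith⟩
    · exact ⟨by show 30 ≤ 𝔤.a 1; linarith, by show 𝔤.b 1 ≤ 𝔤.b 2; linarith⟩
    · exact ⟨by show 30 ≤ 𝔤.a 2; linarith, le_rfl⟩
  have hk6 : ‖(𝔅.enc (cfSites (pvConf ω)) (x + 7 * R) c).v k - x‖ ≤ 6 * R := by linarith
  have hklen : k < (𝔅.enc (cfSites (pvConf ω)) (x + 7 * R) c).len := by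
    have hm := (I.marks 5 (by norm_num) le_rfl)
    have h1 : k ≤ (𝔅.enc (cfSites (pvConf ω)) (x + 7 * R) c).len := by rw [← h5]; exact hm.le_mp.trans hm.mp_le
    refine lt_of_le_of_ne h1 fun e => ?_
    have h2 := I.endn
    rw [← e] at h2
    have h3 : 10 * 𝔤.b3 * h = 10 * (𝔤.b 2 + 1) * h := rfl
    nlinarith
  -- the rim survives
  obtain ⟨hc', hcol'⟩ := pvsk_rim (σ := cfCol (pvConf ω)) (σ' := cfCol (cfPaint (pvspJ (𝔤.ty h z s)) (!s.typ.col) B (pvConf ω))) (b := s.typ.col) (k := k) hR hAdm hOk hc hk6 hcol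
    (fun p hp e => by
      have := pvsb_col_anti hN hB1 hp (by rw [Bool.not_not]; exact e)
      rwa [Bool.not_not] at this)
    (fun j => pvsb_col_off (hoff j))
  -- the gates survive
  have hg' : ∀ j : Fin 3, PvdaGate (cfSites (pvConf ω)) (cfCol (cfPaint (pvspJ (𝔤.ty h z s)) (!s.typ.col) B (pvConf ω))) s.typ.col z (𝔤.a j * h) ((𝔤.b j - 2 * 𝔤.mu) * h) := by
    intro j
    have := pvsb_gate_keep' (S := pvspJ (𝔤.ty h z s)) (b := !s.typ.col) (B := B) (z := z) (a₀ := 𝔤.a j * h) (b₀ := (𝔤.b j - 2 * 𝔤.mu) * h) hR hμ.le fine hN hB1 hP hoff hklen hk6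
      (by rw [Bool.not_not]; exact hcol) (mul_le_mul_of_nonneg_right (hW.ab j) hh.le)
      (by
        have h1 := (haj j).2
        have h2 : 𝔤.b j * h ≤ 𝔤.b 2 * h := mul_le_mul_of_nonneg_right h1 hh.le
        rw [hLr] at hhR
        nlinarith)
      (hnear.trans (by have := (haj j).1; nlinarith)) (by rw [Bool.not_not]; exact hg j)
    rw [Bool.not_not, hY] at this
    exact this
  -- the windows
  have hball : closedBall z (𝔤.Lr * h) ⊆ closedBall x (5 * R) := by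
    refine closedBall_subset_closedBall' ?_
    rw [dist_eq_norm]
    nlinarith
  have hloc5 : ∀ κ, (𝔤.ty h z s).win 𝔤.sp z h κ ⊆ closedBall x (5 * R) := fun κ => (pvsk_win_ball H hh κ).trans hball
  have h56 : closedBall x (5 * R) ⊆ closedBall x (6 * R) := closedBall_subset_closedBall (by linarith)
  have hwin : ∀ κ, PvtnFin ((𝔤.ty h z s).win 𝔤.sp z h κ) (cfPaint (pvspJ (𝔤.ty h z s)) (!s.typ.col) B (pvConf ω)) ∧ PvtrMesh (𝔤.sp.mu * h) ((𝔤.ty h z s).win 𝔤.sp z h κ) (cfSites (pvConf ω)) := by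
    intro κ
    refine ⟨pvsk_fin ?_, fun p hp => dense p (hloc5 κ (pvtr_core_subset hμ.le hp))⟩
    rw [hY]
    exact (pvp_nice hgOk (isBounded_closedBall.subset (hloc5 κ)) (pvColOf ω)).fin
  -- the run and the doors (76)
  obtain ⟨em, ep, Rn⟩ := pvsjb_run H hh hhR hkx hfit
  obtain ⟨hDp, hDm⟩ := pvsjb_doors H (z := z) (s := s) hh
  obtain ⟨e1, e2, e3, e4⟩ := pvsk_evt (𝔅 := 𝔅) (ξ := ξ) (N := 𝔤.sp) (t := 𝔤.ty h z s) hY hW hmu1 hDp hDm hR hOk hAdm (fun κ => (hloc5 κ).trans h56) fine hwin hc' hcol' hg' Rn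
    (by show h ≤ 𝔤.a 0 * h; nlinarith)
  -- the white chain
  obtain ⟨n, Xs, Jm, Jp, w1, w2, w3, w4, w5, w6, w7, w8, w9, w10⟩ := pvsk_chain H hh hfit hA
  rw [hY] at w1 w2
  have hEJ : (𝔤.ty h z s).EJ ⊆ closedBall x (6 * R) := ((pvmh_EJ_sub H z s hh).trans hball).trans h56
  obtain ⟨v, v1, v2⟩ := pvsk_lift 𝔅 hOk (n := n) (x := Xs) (fun j hj => ⟨hEJ (w1 j hj).2.2.1, (w1 j hj).2.2.2⟩) w2
  have hpos : ∀ j, j ≤ n → 𝔅.posF (cfSites (pvConf ω)) (x + 7 * R) (v j) = Xs j := fun j hj => l9_posF_inl 𝔅 (v1 j hj)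
  have hwhite : ∀ j, j ≤ n → pvspS (𝔤.ty h z s).col (fun v => Sum.elim (cfCol (cfPaint (pvspJ (𝔤.ty h z s)) (!s.typ.col) B (pvConf ω))) ξ (𝔅.lab (cfSites (pvConf ω)) v)) (v j) = false := fun j hj => by
    show (Sum.elim (cfCol (cfPaint (pvspJ (𝔤.ty h z s)) (!s.typ.col) B (pvConf ω))) ξ (𝔅.lab (cfSites (pvConf ω)) (v j)) == s.typ.col) = false
    rw [v1 j hj]
    show (cfCol (cfPaint (pvspJ (𝔤.ty h z s)) (!s.typ.col) B (pvConf ω)) (Xs j) == s.typ.col) = false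
    rw [pvsk_col (cfPaint_nice hN _ _).col (w1 j hj).1]
    cases s.typ.col <;> rfl
  have hblack : ∀ i, pvspS (𝔤.ty h z s).col (fun v => Sum.elim (cfCol (cfPaint (pvspJ (𝔤.ty h z s)) (!s.typ.col) B (pvConf ω))) ξ (𝔅.lab (cfSites (pvConf ω)) v)) ((𝔅.T (cfSites (pvConf ω))).src (c.e i)) = true := fun i => by
    show (Sum.elim (cfCol (cfPaint (pvspJ (𝔤.ty h z s)) (!s.typ.col) B (pvConf ω))) ξ (𝔅.lab (cfSites (pvConf ω)) ((𝔅.T (cfSites (pvConf ω))).src (c.e i))) == s.typ.col) = true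
    rw [(pl_rim_col hc' i 0).trans hcol']
    exact beq_self_eq_true _
  obtain ⟨e5, e6⟩ := e4 fun 𝔖 hAt p1 p2 => exit_pvyf_foot H hh hR hhR (hg' 0).1 fine dense hAdm hOk hblack hkx hfit v2 hwhite (fun j hj => hright _ (by rw [hpos j hj]; exact (w1 j hj).2.1)) w5 w6
    (by rw [hpos 0 (Nat.zero_le _)]; exact w3) (by rw [hpos n le_rfl]; exact w4) (fun j hj => by rw [hpos j (hj.trans w5)]; exact w7 j hj) (fun j h1 h2 => by rw [hpos j h2]; exact w8 j h1 h2)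
    (by rw [hpos Jm w5]; exact w9) (by rw [hpos Jp w6]; exact w10) 𝔖 hAt p1 p2
  cases κ
  · exact e1
  · exact e2
  · exact e5
  · exact e3
  · exact e6

end five

end Claimed.Agent.R289
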