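-- KEEP
import Claimed.Agent.R289.Tr.GlueIn
import Claimed.Agent.R289.Tr.GlueWM

/-!
# Row 289 (S0537, Cardy for Poisson-Voronoi), THE WALL, ROAD P, file Tr/GlueRg : THE RING LANE OF TWO FITTED PINS, METRIC LISTS      (owner helper222; prefix `pvqg_`)      0 sorry

Setting: `I : PvqgIn 𝔤.NN PvmhT.typ k dc δ ..` (two fitted pins of one rim, `dc` = link mesh), `N3 : PvqgNum3 ..` (collar `a`), `Λ : PvwgLane 𝔤 h' dc k _ (pvqgK k cs) (pvqgK k ct) s.typ t.typ (I.Fa a) L` (205, `Tr/GlueWM`).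
* `lane_exists`      the ring lane exists (`pvwg_lane` of 205 at the producer `glueIn`), `ctr_link`, `scale_z`
* `lane_inn`         (IN) three pieces: placed `N⁷(cells_s 7..8)`, `N^(a+3)` (link cells of `P[t₉(s), t₁(t)]`), placed `N⁷(cells_t 1..2)`
* `lane_near`        every point of `pvlnW dc L` is within `17 δ` of a vertex `P.v l`, `t₇(s) ≤ l ≤ t₃(t)`
* `lane_off_arc`     `pvlnW dc L` misses `pvtU dc (N^a'' (link cells of THE WHOLE ARC))`, `a'' + 3 ≤ a`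
* `lane_far_s`, `lane_far_t`      against the placed collars of the pieces `i..j ≤ 5` of `s`, `4 ≤ i..j` of `t`:   `> d1 - (2 (w+1) δ + μ) - 17 δ`
* `lane_ball_s`, `lane_ball_t`    `a - 17 δ ≤ ‖p - ctr‖`
-/

set_option autoImplicit false
set_option linter.unusedSectionVars false
set_option linter.unusedVariables false

namespace Claimed.Agent.R289

open Relation Claims.C0467 Claimed.Agent.R291

theorem PvqgNum3.mono {𝔑 : PvmnNum} {k a a'' : ℕ} {dc δ μ' ρ' hh b ρ R D : ℝ} (N : PvqgNum3 𝔑 k a dc δ μ' ρ' hh b ρ R D) (hdc : 0 ≤ dc) (h : a'' ≤ a) : PvqgNum3 𝔑 k a'' dc δ μ' ρ' hh b ρ R D := by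
  refine ⟨by have := N.a_lt; omega, ?_, N.apart, N.loc, N.wide⟩
  have h1 : (a'' : ℝ) ≤ (a : ℝ) := by exact_mod_cast h
  have := N.rho
  nlinarith

namespace PvqgIn

variable {𝔤 : PvmhNum} {k a' : ℕ} {dc δ μ μ' ρ' σ' hh a b ρ d0 e0 d1 e1 RB R D h h' : ℝ} {x : ℂ} {P : PvbRim} {s t : PvbPin (PvmhT 𝔤)} {cs ct : ℤ × ℤ} {ts tt : ℕ → ℕ}
  {kb kf : ℕ} {𝔐 : PvbMenu (PvmhT 𝔤)} (I : PvqgIn 𝔤.NN PvmhT.typ k dc δ μ μ' ρ' σ' hh a b ρ d0 e0 d1 e1 RB R D h x 𝔐 P s t cs ct ts tt kb kf)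

include I

theorem hkz : (0 : ℤ) < (k : ℤ) := by exact_mod_cast I.hk

/-- the centre of a pin is the corner of a link cell -/
theorem ctr_link {u : PvbPin (PvmhT 𝔤)} {cu : ℤ × ℤ} {tu : ℕ → ℕ} (Su : PvqgPin PvmhT.typ δ μ hh a b ρ d0 e0 d1 e1 P u cu tu) : pvmgPt dc (pvqgK k cu) = u.ctr := by
  rw [Su.ctr, I.hδ]
  have := pvrc_pt (k : ℤ) dc cu
  rw [Int.cast_natCast] at this
  exact this.symm

theorem scale_z : (((k : ℕ) : ℤ) : ℝ) * dc = δ := by rw [Int.cast_natCast, I.hδ]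

/-- **THE RING LANE EXISTS** (205 `pvwg_lane` at the producer `glueIn`) -/
theorem lane_exists (N3 : PvqgNum3 𝔤.NN k a' dc δ μ' ρ' hh b ρ R D) (H : 𝔤.OK) (hh' : 0 < h') (hδ' : 𝔤.dl * h' = δ) (hcol : s.typ.typ.col = t.typ.typ.col) (h20 : 20 ≤ k) :
    ∃ L, PvwgLane 𝔤 h' dc (k : ℤ) I.hkz (pvqgK k cs) (pvqgK k ct) s.typ t.typ (I.Fa a') L :=
  pvwg_lane H hh' hcol I.hdc (by exact_mod_cast h20) (by rw [hδ', I.scale_z]) (I.glueIn N3)

variable (N3 : PvqgNum3 𝔤.NN k a' dc δ μ' ρ' hh b ρ R D) {L : List (ℤ × ℤ)} (Λ : PvwgLane 𝔤 h' dc (k : ℤ) I.hkz (pvqgK k cs) (pvqgK k ct) s.typ t.typ (I.Fa a') L)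

include N3 Λ

/-- **(IN)**: the window of the ring lane lies in the placed `7`-collar of the pieces `7..8` of `s`, in the `(a+3)`-collar of the link cells of `P[t₉(s), t₁(t)]`, or in the placed `7`-collar of the pieces `1..2` of `t` -/
theorem lane_inn {p : ℂ} (hp : p ∈ pvlnW dc L) : p ∈ pvmgPl s.ctr δ (pvtwN 7 (pvmnCells s.typ.typ 7 8)) ∨ p ∈ pvtU dc (pvtwN (3 + a') (pvtCells dc (pvtxPoly P.v (ts 9) (tt 1)))) ∨
    p ∈ pvmgPl t.ctr δ (pvtwN 7 (pvmnCells t.typ.typ 1 2)) := by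
  obtain ⟨a1, a2, a3⟩ := pvwg_A1 s.typ.isType s.typ.isLane
  obtain ⟨b1, b2, b3⟩ := pvwg_A0 t.typ.isType t.typ.isLane
  have := Λ.inn_pl I.hdc hp
  rw [I.ctr_link I.Ss, I.ctr_link I.St, I.scale_z] at this
  rcases this with (hp | hp) | hp
  · left
    refine pvmg_mono (Set.union_subset (pvtw_N_mono (by omega) le_rfl) ?_) hp
    exact (pvwg_N_single a2).trans (pvtw_N_mono (by omega) (pvmn_C_sub 8 (by simp) (by simp)))
  · right; left
    rwa [PvqgIn.Fa, pvtw_N_add] at hp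
  · right; right
    refine pvmg_mono (Set.union_subset (pvtw_N_mono (by omega) le_rfl) ?_) hp
    exact (pvwg_N_single b2).trans (pvtw_N_mono (by omega) (pvmn_C_sub 1 (by simp) (by simp)))

/-- **(NEAR)**: every point of the window of the ring lane is within `17` menu cells of a vertex of the run between the mark `7` of `s` and the mark `3` of `t` -/
theorem lane_near {p : ℂ} (hp : p ∈ pvlnW dc L) : ∃ l, ts 7 ≤ l ∧ l ≤ tt 3 ∧ ‖P.v l - p‖ ≤ 17 * δ := by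
  have n1 := I.num_a N3; have n3 := I.N.μ_le; have n4 := I.N2.μ_le; have n5 := I.N.δ_pos; have n6 := I.dc_le
  have h93 : ts 9 ≤ tt 3 := (I.le_9_0 N3).trans (I.le_t (by omega) (by omega))
  have h71 : ts 7 ≤ tt 1 := (I.le_s (by omega) (by omega)).trans ((I.le_9_0 N3).trans (I.le_t (by omega) (by omega)))
  rcases I.lane_inn N3 Λ hp with hp' | hp | hp'
  · obtain ⟨n, n1', n2', n3', l, l1, l2, l3⟩ := pvqg_idx I.Ss.inn I.N I.Ss.fits hp'
    refine ⟨l, (I.le_s n1' (by omega)).trans l1, (l2.trans (I.le_s (by omega) (by omega))).trans h93, ?_⟩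
    push_cast at l3
    linarith
  · obtain ⟨q, hq, hqp⟩ := pvtx_U_N_cells I.hdc hp
    obtain ⟨l, l1, l2, l3⟩ := pvtx_poly_vertex I.N2.μ_nn ((I.le_9_0 N3).trans (I.le_t (by omega) (by omega))) (I.mesh_of (I.H.kb_lt.le.trans I.s_le_9) (I.t1_le.trans I.H.lt_kf.le)) hq
    refine ⟨l, (I.le_s (by omega) (by omega)).trans l1, l2.trans (I.le_t (by omega) (by omega)), ?_⟩
    have g := pvtp_tri (P.v l) q p
    rw [norm_sub_rev (P.v l) q] at g
    push_cast at hqp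
    nlinarith
  · obtain ⟨n, n1', n2', n3', l, l1, l2, l3⟩ := pvqg_idx I.St.inn I.N I.St.fits hp'
    refine ⟨l, h71.trans ((I.le_t n1' (by omega)).trans l1), l2.trans (I.le_t (by omega) (by omega)), ?_⟩
    push_cast at l3
    linarith

/-- **(OFF THE ARC)**: the window of the ring lane misses the `a''`-collar of the link cells of THE WHOLE ARC `P[s.idx, t.idx]`, `a'' + 3 ≤ a` -/
theorem lane_off_arc {a'' : ℕ} (ha : a'' + 3 ≤ a') (h3 : 3 ≤ k) : Disjoint (pvlnW dc L) (pvtU dc (pvtwN a'' (pvtCells dc (pvtxPoly P.v s.idx t.idx)))) := by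
  have G := I.glueIn N3
  have hk3 : (3 : ℤ) ≤ (k : ℤ) := by exact_mod_cast h3
  have o1 := Λ.off_s I.hdc hk3 G
  have o2 := Λ.off_t I.hdc hk3 G
  have o3 := Λ.off_Fa I.hdc G (X := I.Fa a'') (by
    rw [PvqgIn.Fa, pvtw_N_add]
    exact pvtw_N_mono (by omega) le_rfl)
  rw [I.ctr_link I.Ss, I.scale_z] at o1
  rw [I.ctr_link I.St, I.scale_z] at o2
  rw [Set.disjoint_left]
  intro p hp hq
  obtain ⟨v, hv, hpv⟩ := Set.mem_iUnion₂.1 hq
  rcases I.arc_split (N3.mono I.hdc.le (by omega : a'' ≤ a')) hv with h | h | h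
  · refine Set.disjoint_left.1 o1 hp ?_
    rw [← I.U_pl I.Ss]
    exact Set.mem_iUnion₂.2 ⟨v, pvtw_N_mono (by omega) (pvmn_cells_mono (by omega) le_rfl) h, hpv⟩
  · exact Set.disjoint_left.1 o3 hp (Set.mem_iUnion₂.2 ⟨v, h, hpv⟩)
  · refine Set.disjoint_left.1 o2 hp ?_
    rw [← I.U_pl I.St]
    exact Set.mem_iUnion₂.2 ⟨v, pvtw_N_mono (by omega) (pvmn_cells_mono le_rfl (by omega)) h, hpv⟩

/-- **(FAR, start pin)**: the ring lane against the placed collar of the pieces `i..j`, `j ≤ 5`, of `s` -/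
theorem lane_far_s {i j w : ℕ} (hj : j ≤ 5) {p q : ℂ} (hp : p ∈ pvlnW dc L) (hq : q ∈ pvmgPl s.ctr δ (pvtwN w (pvmnCells s.typ.typ i j))) : d1 - (2 * ((w : ℝ) + 1) * δ + μ) - 17 * δ < ‖p - q‖ := by
  obtain ⟨l, l1, l2, l3⟩ := I.lane_near N3 Λ hp
  have h1 := pvqg_fwd I.Ss.inn I.N I.Ss.fits (j := j) (by omega) hq ((I.le_s (by omega) (by omega)).trans l1) (l2.trans ((I.le_t (by omega) (by omega)).trans (I.St.inn.cuts I.N).le_len))
  have h2 := pvtp_tri (P.v l) p q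
  linarith

/-- **(FAR, end pin)**: the ring lane against the placed collar of the pieces `i..j`, `4 ≤ i`, of `t` -/
theorem lane_far_t {i j w : ℕ} (hi : 4 ≤ i) (hi' : i ≤ 10) {p q : ℂ} (hp : p ∈ pvlnW dc L) (hq : q ∈ pvmgPl t.ctr δ (pvtwN w (pvmnCells t.typ.typ i j))) : d1 - (2 * ((w : ℝ) + 1) * δ + μ) - 17 * δ < ‖p - q‖ := by
  obtain ⟨l, l1, l2, l3⟩ := I.lane_near N3 Λ hp
  have h1 := pvqg_bwd I.St.inn I.N I.St.fits (i := i) (by omega) hq (l2.trans (I.le_t (by omega) (by omega)))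
  have h2 := pvtp_tri (P.v l) p q
  linarith

/-- **(BALLS)**: the ring lane stays `a - 17 δ` away from the two centres -/
theorem lane_ball_s {p : ℂ} (hp : p ∈ pvlnW dc L) : a - 17 * δ ≤ ‖p - s.ctr‖ := by
  obtain ⟨l, l1, l2, l3⟩ := I.lane_near N3 Λ hp
  have h1 := (I.Ss.inn.far_a I.N).1 l ((I.le_s (by omega) (by omega)).trans l1) (l2.trans ((I.le_t (by omega) (by omega)).trans (I.St.inn.cuts I.N).le_len))
  have h2 := pvtp_tri (P.v l) p s.ctr
  linarith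

theorem lane_ball_t {p : ℂ} (hp : p ∈ pvlnW dc L) : a - 17 * δ ≤ ‖p - t.ctr‖ := by
  obtain ⟨l, l1, l2, l3⟩ := I.lane_near N3 Λ hp
  have h1 := (I.St.inn.far_a I.N).2 l (l2.trans (I.le_t (by omega) (by omega)))
  have h2 := pvtp_tri (P.v l) p t.ctr
  linarith

end PvqgIn

end Claimed.Agent.R289
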