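-- KEEP
import Claimed.Agent.R289.Tr.Menu

/-!
# Row 289 (S0537, Cardy for Poisson-Voronoi), unit TR, road P, item P10 = FIT: **FIT ⟹ TYPE**      (helper2, second of helper8; prefix `pvmx_`)

Target `pvmf_isType` of helper205 (msg 09:40Z), in the vocabulary of `Tr/Menu.lean` (`PvmnType`, `PvmnFits`, `PvmnIsType`), `Tr/Track.lean` (`pvtxPoly`, `PvtxNR`), `Tr/Tower.lean` (`pvtwN`).      0 sorry.

* `pvmx_isType` : ALL 15 fields of `PvmnIsType 𝔑 τ` ((T1)-(T6), `ctr`, the two doors (T8)) for a datum `τ` which fits the centred path `v` with marks `t`.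
   INPUTS (absolute lengths, `δ = dl · h`): mesh `μ` and `NR₁ = PvtxNR v lo hi d1 e1` on a stretch `[lo,hi] ⊇ [t 0, t 10]` whose two ends have radius `≥ rX > ρ + 12 δ` (the continuation `Π_{±5}` = witness of the doors),
   `NR₀` on `[t 0, t 10]`, every piece has end points `> 2 e1` apart, TRAP (`a3 ≤ ‖v i‖` on the pieces `≠ 4, 5`), radii `ρ` (all), `ρC` (central pieces), `rF` (end marks), and explicit inequalities between the numbers.
* `pvmx_hull_ball` : **the grid ball has no holes** (sharp EUCLIDEAN form of `pvt_hull_box`: no factor `√2`, which would kill `7 b₃` against `6 b₃`): `S ⊆ Cells (cl B(0,R)) ⟹ Hull S ⊆ Cells (cl B(0,R))`.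
* kit: `pvmx_t_mono`, `pvmx_piece_idx`, `pvmx_box_of_rad`, `pvmx_rad_of_box`, `pvmx_poly_rad`.
REMARK (164): (T5) `endm/endp` is stated with a BOX `nF`: a mark at Euclidean radius `rF` is off the box as soon as `2 ((nF + 1) δ)² < rF²`: fine with `nF δ = 4 b₃ h`, `rF = 6 b₃ h` (205).
* §2 `pvmx_type_of_fit` : the same FROM THE RIM: `P : PvbRim`, centre `z`, pin vertex `i0 = t 5`, marks `PvtpMarks P z i0 (r j) (t (5-j)) (t (5+j))` (`j = 1..5`), `PvtpMarks P z i0 (r 6) lo hi`, `PvtpTrap`, two levels `PvtpNR`, window mesh.      `pvmx_fit_exists` : `τ(P) ∈ MENU` exists, of either colour.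
-/

set_option autoImplicit false
set_option linter.unusedSectionVars false
set_option linter.unusedVariables false

namespace Claimed.Agent.R289

open Claims.C0467 Claimed.Agent.R291

section fit

variable {𝔑 : PvmnNum} {τ : PvmnType} {δ μ d0 e0 d1 e1 a3 ρ ρC rF : ℝ} {v : ℕ → ℂ} {t : Fin 11 → ℕ}

/-- the marks of a fit are monotone -/
theorem pvmx_t_mono (F : PvmnFits τ δ v t) {a b : Fin 11} (h : a ≤ b) : t a ≤ t b := by
  obtain ⟨a, ha⟩ := a
  obtain ⟨b, hb⟩ := b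
  have h' : a ≤ b := h
  induction b, h' using Nat.le_induction with
  | base => exact le_rfl
  | succ n hn ih =>
    have h1 := ih (by omega) hn
    have h2 := F.mono ⟨n, by omega⟩
    exact h1.trans h2

/-- nearest vertex of a cell of the `w`-collar of a piece -/
theorem pvmx_piece_idx (F : PvmnFits τ δ v t) (hδ : 0 < δ) (hμ : 0 ≤ μ) (mesh : ∀ k, t 0 ≤ k → k < t 10 → ‖v (k + 1) - v k‖ ≤ μ)
    (k : Fin 10) {w : ℕ} {c : ℤ × ℤ} (hc : c ∈ pvtwN w (τ.C k : Set (ℤ × ℤ))) :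
    ∃ l, t k.castSucc ≤ l ∧ l ≤ t k.succ ∧ ‖v l - pvtCtr δ c‖ ≤ 2 * ((w : ℝ) + 1) * δ + μ := by
  rw [F.cells k] at hc
  have h0 : t 0 ≤ t k.castSucc := pvmx_t_mono F (Fin.zero_le _)
  have h1 : t k.succ ≤ t 10 := pvmx_t_mono F (Fin.le_last _)
  exact pvtx_idx hδ hμ (F.mono k) (fun i a b => mesh i (h0.trans a) (lt_of_lt_of_le b h1)) hc

/-- a cell which meets the closed ball of radius `r` lies in the box `n` as soon as `r + δ ≤ n δ` -/
theorem pvmx_box_of_rad (hδ : 0 < δ) {n : ℕ} {r : ℝ} (h : r + δ ≤ n * δ) {c : ℤ × ℤ} {p : ℂ} (hp : p ∈ pvtSq δ c) (hr : ‖p‖ ≤ r) : c ∈ pvmnBox n := by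
  obtain ⟨h1, h2, h3, h4⟩ := hp
  have hre := (Complex.abs_re_le_norm p).trans hr
  have him := (Complex.abs_im_le_norm p).trans hr
  rw [abs_le] at hre him
  have a1 : (c.1 : ℝ) * δ ≤ n * δ := by linarith
  have a2 : -(n : ℝ) * δ ≤ c.1 * δ := by nlinarith
  have a3 : (c.2 : ℝ) * δ ≤ n * δ := by linarith
  have a4 : -(n : ℝ) * δ ≤ c.2 * δ := by nlinarith
  have b1 : (c.1 : ℝ) ≤ n := le_of_mul_le_mul_right a1 hδ
  have b2 : -(n : ℝ) ≤ c.1 := le_of_mul_le_mul_right a2 hδ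
  have b3 : (c.2 : ℝ) ≤ n := le_of_mul_le_mul_right a3 hδ
  have b4 : -(n : ℝ) ≤ c.2 := le_of_mul_le_mul_right a4 hδ
  exact ⟨by exact_mod_cast b2, by exact_mod_cast b1, by exact_mod_cast b4, by exact_mod_cast b3⟩

/-- the points of the squares of the box `n` have norm `≤ √2 (n+1) δ` -/
theorem pvmx_rad_of_box (hδ : 0 < δ) {n : ℕ} {c : ℤ × ℤ} {p : ℂ} (hp : p ∈ pvtSq δ c) (hc : c ∈ pvmnBox n) : ‖p‖ ^ 2 ≤ 2 * (((n : ℝ) + 1) * δ) ^ 2 := by
  obtain ⟨h1, h2, h3, h4⟩ := hp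
  obtain ⟨c1, c2, c3, c4⟩ := hc
  have b1 : -(n : ℝ) ≤ c.1 := by exact_mod_cast c1
  have b2 : (c.1 : ℝ) ≤ n := by exact_mod_cast c2
  have b3 : -(n : ℝ) ≤ c.2 := by exact_mod_cast c3
  have b4 : (c.2 : ℝ) ≤ n := by exact_mod_cast c4
  have hr : |p.re| ≤ ((n : ℝ) + 1) * δ := abs_le.2 ⟨by nlinarith, by nlinarith⟩
  have hi : |p.im| ≤ ((n : ℝ) + 1) * δ := abs_le.2 ⟨by nlinarith, by nlinarith⟩
  have hr2 := sq_le_sq' (by linarith [abs_nonneg p.re]) hr
  have hi2 := sq_le_sq' (by linarith [abs_nonneg p.im]) hi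
  rw [sq_abs] at hr2 hi2
  rw [Complex.sq_norm, Complex.normSq_apply]
  nlinarith

/-- the polygon of vertices in a closed ball centred at `0` lies in the ball -/
theorem pvmx_poly_rad {i j : ℕ} {r : ℝ} (hij : i ≤ j) (h : ∀ k, i ≤ k → k ≤ j → ‖v k‖ ≤ r) {p : ℂ} (hp : p ∈ pvtxPoly v i j) : ‖p‖ ≤ r := by
  rcases pvtx_mem_poly.1 hp with rfl | ⟨k, a1, a2, a3⟩
  · exact h i le_rfl hij
  · have hc : segment ℝ (v k) (v (k + 1)) ⊆ Metric.closedBall 0 r :=
      (convex_closedBall (0 : ℂ) r).segment_subset (mem_closedBall_zero_iff.2 (h k a1 a2.le)) (mem_closedBall_zero_iff.2 (h (k + 1) (by omega) a2))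
    exact mem_closedBall_zero_iff.1 (hc a3)

/-- monotonicity of the norm in `|re|` at fixed `im` -/
theorem pvmx_norm_le {p q : ℂ} (h1 : |p.re| ≤ |q.re|) (h2 : p.im = q.im) : ‖p‖ ≤ ‖q‖ := by
  rw [← sq_le_sq₀ (norm_nonneg _) (norm_nonneg _), Complex.sq_norm, Complex.sq_norm, Complex.normSq_apply, Complex.normSq_apply, h2]
  have := sq_le_sq' (by linarith [abs_nonneg p.re, abs_nonneg q.re]) h1
  rw [sq_abs, sq_abs] at this
  nlinarith

/-- moving a square away from the vertical axis does not bring it closer to `0` -/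
theorem pvmx_ray_step (hδ : 0 < δ) {R : ℝ} {c : ℤ × ℤ} (hc : c ∉ pvtCells δ (Metric.closedBall (0 : ℂ) R)) :
    (0 ≤ c.1 → (c.1 + 1, c.2) ∉ pvtCells δ (Metric.closedBall (0 : ℂ) R)) ∧ (c.1 ≤ -1 → (c.1 - 1, c.2) ∉ pvtCells δ (Metric.closedBall (0 : ℂ) R)) := by
  constructor
  · rintro h0 ⟨p, ⟨h1, h2, h3, h4⟩, hp⟩
    have h0' : (0 : ℝ) ≤ c.1 := by exact_mod_cast h0
    simp only [Int.cast_add, Int.cast_one] at h1 h2 h3 h4
    refine hc ⟨⟨p.re - δ, p.im⟩, ⟨by simp only; nlinarith, by simp only; nlinarith, h3, h4⟩, ?_⟩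
    rw [mem_closedBall_zero_iff] at hp ⊢
    have : δ ≤ p.re := by nlinarith
    refine (pvmx_norm_le (p := ⟨p.re - δ, p.im⟩) (q := p) ?_ rfl).trans hp
    show |p.re - δ| ≤ |p.re|
    rw [abs_of_nonneg (by linarith), abs_of_nonneg (by linarith)]
    linarith
  · rintro h0 ⟨p, ⟨h1, h2, h3, h4⟩, hp⟩
    have h0' : (c.1 : ℝ) ≤ -1 := by exact_mod_cast h0
    simp only [Int.cast_sub, Int.cast_one] at h1 h2 h3 h4
    refine hc ⟨⟨p.re + δ, p.im⟩, ⟨by simp only; nlinarith, by simp only; nlinarith, h3, h4⟩, ?_⟩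
    rw [mem_closedBall_zero_iff] at hp ⊢
    have : p.re ≤ -δ := by nlinarith
    refine (pvmx_norm_le (p := ⟨p.re + δ, p.im⟩) (q := p) ?_ rfl).trans hp
    show |p.re + δ| ≤ |p.re|
    rw [abs_of_nonpos (by linarith), abs_of_nonpos (by linarith)]
    linarith

/-- **the grid ball has no holes**: the hull of a set of cells which meet `cl B(0,R)` consists of cells which meet `cl B(0,R)`   (sharp Euclidean form of `pvt_hull_box`) -/
theorem pvmx_hull_ball (hδ : 0 < δ) {R : ℝ} {S : Set (ℤ × ℤ)} (hS : S ⊆ pvtCells δ (Metric.closedBall (0 : ℂ) R)) :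
    pvtHull S ⊆ pvtCells δ (Metric.closedBall (0 : ℂ) R) := by
  intro c hc
  by_contra hcB
  apply hc
  obtain ⟨a, b, c', d', hbox⟩ := pvt_finite_sub_box ((pvt_cells_finite hδ Metric.isBounded_closedBall).subset hS)
  rw [pvt_out_iff hbox]
  rcases le_or_gt 0 c.1 with h0 | h0
  · have key : ∀ k : ℕ, (c.1 + k, c.2) ∉ pvtCells δ (Metric.closedBall (0 : ℂ) R) ∧ TscR tscG Sᶜ c (c.1 + k, c.2) := by
      intro k
      induction k with
      | zero => simpa using ⟨hcB, Relation.ReflTransGen.refl⟩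
      | succ k ih =>
        have h1 := (pvmx_ray_step hδ ih.1).1 (by simp only; omega)
        have e1 : ((c.1 + (k : ℤ), c.2) : ℤ × ℤ).1 + 1 = c.1 + ((k + 1 : ℕ) : ℤ) := by push_cast; ring
        simp only [e1] at h1
        refine ⟨h1, ih.2.tail ⟨?_, fun h => ih.1 (hS h), fun h => h1 (hS h)⟩⟩
        refine pvt_g4_tri (Or.inr ⟨rfl, Or.inl ?_⟩)
        simp only; push_cast; ring
    refine ⟨(c.1 + ((b - c.1).toNat + 1 : ℕ), c.2), fun h => ?_, (key _).2⟩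
    have := h.2.1
    simp only at this
    push_cast at this
    have := Int.self_le_toNat (b - c.1)
    omega
  · have key : ∀ k : ℕ, (c.1 - k, c.2) ∉ pvtCells δ (Metric.closedBall (0 : ℂ) R) ∧ TscR tscG Sᶜ c (c.1 - k, c.2) := by
      intro k
      induction k with
      | zero => simpa using ⟨hcB, Relation.ReflTransGen.refl⟩
      | succ k ih =>
        have h1 := (pvmx_ray_step hδ ih.1).2 (by simp only; omega)
        have e1 : ((c.1 - (k : ℤ), c.2) : ℤ × ℤ).1 - 1 = c.1 - ((k + 1 : ℕ) : ℤ) := by push_cast; ring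
        simp only [e1] at h1
        refine ⟨h1, ih.2.tail ⟨?_, fun h => ih.1 (hS h), fun h => h1 (hS h)⟩⟩
        refine pvt_g4_tri (Or.inr ⟨rfl, Or.inr ?_⟩)
        simp only; push_cast; ring
    refine ⟨(c.1 - ((c.1 - a).toNat + 1 : ℕ), c.2), fun h => ?_, (key _).2⟩
    have := h.1
    simp only at this
    push_cast at this
    have := Int.self_le_toNat (c.1 - a)
    omega

/-- **FIT ⟹ TYPE** (`MENU_205.md` M7, first assertion; target `pvmf_isType` of 205):   a datum which fits a centred mesh path with marks, no near returns at the two levels, big pieces, TRAP and the radii of the marks is a type of the menu.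
All lengths are ABSOLUTE (`δ = dl · h`); the numbers of `𝔑` are in cell units. -/
theorem pvmx_isType {lo hi : ℕ} {rX : ℝ} (F : PvmnFits τ δ v t) (hδ : 0 < δ) (hμ : 0 ≤ μ) (hlo : lo ≤ t 0) (hhi : t 10 ≤ hi)
    (mesh' : ∀ k, lo ≤ k → k < hi → ‖v (k + 1) - v k‖ ≤ μ)
    (nr0 : PvtxNR v (t 0) (t 10) d0 e0) (nr1' : PvtxNR v lo hi d1 e1)
    (big : ∀ k : Fin 10, 2 * e1 < ‖v (t k.castSucc) - v (t k.succ)‖)
    (hd0 : 44 * δ + 2 * μ ≤ d0) (hd1 : 44 * δ + 2 * μ ≤ d1)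
    (trap : ∀ k : Fin 10, k.1 ≠ 4 → k.1 ≠ 5 → ∀ i, t k.castSucc ≤ i → i ≤ t k.succ → a3 ≤ ‖v i‖) (ha3 : δ * 𝔑.rB + 24 * δ + μ < a3)
    (hW : e0 + 22 * δ + μ < 𝔑.nW * δ) (hP : 2 * ((𝔑.nP : ℝ) + 1) * δ ≤ d1)
    (rad : ∀ i, t 0 ≤ i → i ≤ t 10 → ‖v i‖ ≤ ρ) (hBx : ρ + δ ≤ 𝔑.nBx * δ)
    (radC : ∀ i, t 4 ≤ i → i ≤ t 6 → ‖v i‖ ≤ ρC) (hC : ρC + δ ≤ 𝔑.nC * δ)
    (far0 : rF ≤ ‖v (t 0)‖) (far10 : rF ≤ ‖v (t 10)‖) (hrF : 0 ≤ rF) (hF : 2 * (((𝔑.nF : ℝ) + 1) * δ) ^ 2 < rF ^ 2)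
    (ctr : ‖v (t 5)‖ ≤ δ * 𝔑.rO) (xlo : rX ≤ ‖v lo‖) (xhi : rX ≤ ‖v hi‖) (hX : ρ + 12 * δ < rX) : PvmnIsType 𝔑 τ := by
  have mesh : ∀ k, t 0 ≤ k → k < t 10 → ‖v (k + 1) - v k‖ ≤ μ := fun k a b => mesh' k (hlo.trans a) (lt_of_lt_of_le b hhi)
  have nr1 : PvtxNR v (t 0) (t 10) d1 e1 := pvtx_nr_mono nr1' hlo hhi le_rfl le_rfl
  have tm : ∀ {a b : Fin 11}, a ≤ b → t a ≤ t b := fun h => pvmx_t_mono F h
  have t0 : ∀ a : Fin 11, t 0 ≤ t a := fun a => tm (Fin.zero_le _)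
  have t10 : ∀ a : Fin 11, t a ≤ t 10 := fun a => tm (Fin.le_last _)
  -- marks are apart
  have msep : ∀ a b : Fin 11, a < b → d1 < ‖v (t a) - v (t b)‖ := by
    intro a b hab
    have ha : a.1 < 10 := by have := b.2; have : a.1 < b.1 := hab; omega
    have h1 : t (Fin.succ ⟨a.1, ha⟩) ≤ t b := tm (by
      have : a.1 < b.1 := hab
      show a.1 + 1 ≤ b.1
      omega)
    have h2 := big ⟨a.1, ha⟩
    have e1' : (Fin.castSucc ⟨a.1, ha⟩ : Fin 11) = a := Fin.ext rfl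
    rw [e1'] at h2
    exact pvtx_sep nr1 (t0 a) le_rfl (by have := F.mono ⟨a.1, ha⟩; rwa [e1'] at this) h1 (t10 b) h2
  -- `K3` lies in the grid ball of radius `ρ + 10 δ`
  have hK3 : pvmnK3 τ ⊆ pvtCells δ (Metric.closedBall (0 : ℂ) (ρ + 10 * δ)) := by
    refine pvmx_hull_ball hδ fun c hc => ?_
    obtain ⟨k, _, _, hk⟩ := pvmn_N_cells.1 hc
    rw [F.cells k] at hk
    obtain ⟨p, hp, hpc⟩ := pvtx_ctr_N_cells hδ hk
    have h1 := pvmx_poly_rad (F.mono k) (fun i a b => rad i ((t0 _).trans a) (b.trans (t10 _))) hp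
    refine ⟨pvtCtr δ c, pvt_sq_ctr hδ.le, mem_closedBall_zero_iff.2 ?_⟩
    have h2 : ‖pvtCtr δ c‖ ≤ ‖p‖ + ‖p - pvtCtr δ c‖ := by
      have : pvtCtr δ c = p - (p - pvtCtr δ c) := by ring
      calc ‖pvtCtr δ c‖ = ‖p - (p - pvtCtr δ c)‖ := by rw [← this]
        _ ≤ ‖p‖ + ‖p - pvtCtr δ c‖ := norm_sub_le _ _
    push_cast at hpc
    linarith
  -- a cell with a point at radius `≥ rX` is off `K3`
  have hoffK : ∀ (c : ℤ × ℤ) (p : ℂ), p ∈ pvtSq δ c → rX ≤ ‖p‖ → c ∉ pvmnK3 τ := by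
    intro c p hp hr hc
    obtain ⟨q, hq, hqb⟩ := hK3 hc
    have h1 : ‖q‖ ≤ ρ + 10 * δ := mem_closedBall_zero_iff.1 hqb
    have h2 := pvt_sq_diam hp hq
    have h3 : ‖p‖ ≤ ‖p - q‖ + ‖q‖ := by
      calc ‖p‖ = ‖(p - q) + q‖ := by rw [sub_add_cancel]
        _ ≤ _ := norm_add_le _ _
    linarith
  have hCK : ∀ k : Fin 10, (τ.C k : Set (ℤ × ℤ)) ⊆ pvmnK3 τ := fun k =>
    ((pvmn_C_sub k (Nat.zero_le _) (by have := k.2; omega)).trans pvtw_N_sub).trans pvt_hull_sub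
  refine ⟨?_, ?_, ?_, ?_, ?_, ?_, ?_, ?_, ?_, ?_, ?_, ?_, ?_, ?_, ?_⟩
  · -- conn
    intro k
    rw [F.cells k]
    exact pvt_cells_conn hδ (pvtx_poly_preconn _ _ _) (pvtx_poly_bounded _ _ _)
  · -- q_start
    intro k
    have : τ.q k.castSucc ∈ (τ.C k : Set (ℤ × ℤ)) := by
      rw [F.cells k]
      exact ⟨v (t k.castSucc), F.marks _, pvtx_vertex_mem le_rfl (F.mono k)⟩
    exact_mod_cast this
  · -- q_end
    intro k
    have : τ.q k.succ ∈ (τ.C k : Set (ℤ × ℤ)) := by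
      rw [F.cells k]
      exact ⟨v (t k.succ), F.marks _, pvtx_vertex_mem (F.mono k) le_rfl⟩
    exact_mod_cast this
  · -- far
    intro k k' hkk
    rw [Set.disjoint_left]
    intro c hc hc'
    obtain ⟨l, l1, l2, l3⟩ := pvmx_piece_idx F hδ hμ mesh k hc
    obtain ⟨l', l1', l2', l3'⟩ := pvmx_piece_idx F hδ hμ mesh k' hc'
    have hk1 : k.1 + 1 < 10 := by have := k'.2; omega
    have h2 := big ⟨k.1 + 1, hk1⟩
    have e1' : (Fin.castSucc ⟨k.1 + 1, hk1⟩ : Fin 11) = k.succ := Fin.ext rfl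
    rw [e1'] at h2
    have h3 : t (Fin.succ ⟨k.1 + 1, hk1⟩) ≤ t k'.castSucc := tm (by
      show k.1 + 1 + 1 ≤ k'.1
      omega)
    have h4 := F.mono ⟨k.1 + 1, hk1⟩
    rw [e1'] at h4
    have := pvtx_sep nr1 ((t0 _).trans l1) l2 h4 (h3.trans l1') (l2'.trans (t10 _)) h2
    have h5 := pvtx_tri (v l) (pvtCtr δ c) (v l')
    rw [norm_sub_rev (pvtCtr δ c) (v l')] at h5
    push_cast at l3 l3'
    linarith
  · -- ball
    intro k k4 k5
    rw [Set.disjoint_left]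
    intro c hc hc'
    obtain ⟨l, l1, l2, l3⟩ := pvmx_piece_idx F hδ hμ mesh k hc
    rw [← pvmn_Bl_scale hδ] at hc'
    obtain ⟨q, hq, hqb⟩ := hc'
    have h1 := trap k k4 k5 l l1 l2
    have h2 : ‖q‖ ≤ δ * 𝔑.rB := mem_closedBall_zero_iff.1 hqb
    have h3 := pvt_sq_diam (pvt_sq_ctr hδ.le) hq
    have h4 : ‖v l‖ ≤ ‖v l - pvtCtr δ c‖ + ‖pvtCtr δ c - q‖ + ‖q‖ := by
      have : v l = (v l - pvtCtr δ c) + (pvtCtr δ c - q) + q := by ring
      calc ‖v l‖ = ‖(v l - pvtCtr δ c) + (pvtCtr δ c - q) + q‖ := by rw [← this]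
        _ ≤ ‖(v l - pvtCtr δ c) + (pvtCtr δ c - q)‖ + ‖q‖ := norm_add_le _ _
        _ ≤ _ := by gcongr; exact norm_add_le _ _
    push_cast at l3
    linarith
  · -- adj
    intro k k' hkk c hc
    obtain ⟨l, l1, l2, l3⟩ := pvmx_piece_idx F hδ hμ mesh k hc.1
    obtain ⟨l', l1', l2', l3'⟩ := pvmx_piece_idx F hδ hμ mesh k' hc.2
    have e1' : k'.castSucc = k.succ := Fin.ext (by show k'.1 = k.1 + 1; omega)
    rw [e1'] at l1' ⊢
    have h5 := pvtx_tri (v l) (pvtCtr δ c) (v l')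
    rw [norm_sub_rev (pvtCtr δ c) (v l')] at h5
    push_cast at l3 l3'
    have h6 := (pvtx_adj nr0 ((t0 _).trans l1) l2 l1' (l2'.trans (t10 _)) (by linarith)).1
    have h7 := pvtx_tri (v (t k.succ)) (v l) (pvtCtr δ c)
    rw [norm_sub_rev (v (t k.succ)) (v l)] at h7
    exact pvtw_sq_near hδ (F.marks k.succ) (pvt_sq_ctr hδ.le) (by linarith)
  · -- box
    intro k c hc
    rw [F.cells k] at hc
    obtain ⟨p, hp, hpp⟩ := hc
    exact pvmx_box_of_rad hδ hBx hp (pvmx_poly_rad (F.mono k) (fun i a b => rad i ((t0 _).trans a) (b.trans (t10 _))) hpp)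
  · -- core4
    intro c hc
    rw [F.cells 4] at hc
    obtain ⟨p, hp, hpp⟩ := hc
    refine pvmx_box_of_rad hδ hC hp (pvmx_poly_rad (F.mono 4) (fun i a b => radC i a (b.trans (tm ?_))) hpp)
    decide
  · -- core5
    intro c hc
    rw [F.cells 5] at hc
    obtain ⟨p, hp, hpp⟩ := hc
    refine pvmx_box_of_rad hδ hC hp (pvmx_poly_rad (F.mono 5) (fun i a b => radC i ((tm ?_).trans a) b) hpp)
    decide
  · -- endm
    refine ⟨τ.q 0, ?_, fun hb => ?_⟩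
    · have : τ.q 0 ∈ (τ.C 0 : Set (ℤ × ℤ)) := by
        rw [F.cells 0]
        exact ⟨v (t 0), F.marks _, pvtx_vertex_mem le_rfl (F.mono 0)⟩
      exact_mod_cast this
    · have := pvmx_rad_of_box hδ (F.marks 0) hb
      have h2 := pow_le_pow_left₀ hrF far0 2
      linarith
  · -- endp
    refine ⟨τ.q 10, ?_, fun hb => ?_⟩
    · have : τ.q 10 ∈ (τ.C 9 : Set (ℤ × ℤ)) := by
        rw [F.cells 9]
        exact ⟨v (t 10), F.marks _, pvtx_vertex_mem (F.mono 9) le_rfl⟩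
      exact_mod_cast this
    · have := pvmx_rad_of_box hδ (F.marks 10) hb
      have h2 := pow_le_pow_left₀ hrF far10 2
      linarith
  · -- ctr
    rw [← pvmn_Bl_scale hδ]
    exact ⟨v (t 5), F.marks 5, mem_closedBall_zero_iff.2 ctr⟩
  · -- marks
    intro k k' hne hmem
    have h1 := pvtx_N_dist hδ hmem (F.marks k) (F.marks k')
    rcases lt_or_gt_of_ne hne with h | h
    · have := msep k k' h
      linarith
    · have := msep k' k h
      rw [norm_sub_rev] at this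
      linarith
  · -- doorp
    obtain ⟨cx, hcx⟩ := pvt_sq_cover hδ (v hi)
    refine pvmn_door_wit_p (W := pvtCells δ (pvtxPoly v (t 10) hi)) (pvt_cells_conn hδ (pvtx_poly_preconn _ _ _) (pvtx_poly_bounded _ _ _))
      ⟨τ.q 10, ⟨v (t 10), F.marks _, pvtx_vertex_mem le_rfl hhi⟩, hCK 9 ?_⟩ ⟨cx, ⟨v hi, hcx, pvtx_vertex_mem hhi le_rfl⟩, hoffK cx _ hcx xhi⟩ ?_
    · rw [F.cells 9]
      exact ⟨v (t 10), F.marks _, pvtx_vertex_mem (F.mono 9) le_rfl⟩
    · rw [Set.disjoint_left]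
      rintro c ⟨p, hpc, hp⟩ hc
      obtain ⟨k, _, k2, hk⟩ := pvmn_N_cells.1 hc
      obtain ⟨l, l1, l2, l3⟩ := pvmx_piece_idx F hδ hμ mesh k hk
      obtain ⟨l', l1', l2', l3'⟩ := pvtx_poly_vertex hμ hhi (fun i a b => mesh' i (hlo.trans ((t0 _).trans a)) b) hp
      have h2 := big 9
      have h3 : t k.succ ≤ t (Fin.castSucc 9) := tm (by
        show k.1 + 1 ≤ 9
        omega)
      have := pvtx_sep nr1' (hlo.trans ((t0 _).trans l1)) (l2.trans h3) (F.mono 9) l1' l2' h2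
      have h5 := pvtx_tri (v l) (pvtCtr δ c) (v l')
      have h6 := pvtx_tri (pvtCtr δ c) p (v l')
      have h7 := pvt_sq_diam (pvt_sq_ctr hδ.le) hpc
      push_cast at l3
      linarith
  · -- doorm
    obtain ⟨cx, hcx⟩ := pvt_sq_cover hδ (v lo)
    refine pvmn_door_wit_m (W := pvtCells δ (pvtxPoly v lo (t 0))) (pvt_cells_conn hδ (pvtx_poly_preconn _ _ _) (pvtx_poly_bounded _ _ _))
      ⟨τ.q 0, ⟨v (t 0), F.marks _, pvtx_vertex_mem hlo le_rfl⟩, hCK 0 ?_⟩ ⟨cx, ⟨v lo, hcx, pvtx_vertex_mem le_rfl hlo⟩, hoffK cx _ hcx xlo⟩ ?_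
    · rw [F.cells 0]
      exact ⟨v (t 0), F.marks _, pvtx_vertex_mem le_rfl (F.mono 0)⟩
    · rw [Set.disjoint_left]
      rintro c ⟨p, hpc, hp⟩ hc
      obtain ⟨k, k1, _, hk⟩ := pvmn_N_cells.1 hc
      obtain ⟨l, l1, l2, l3⟩ := pvmx_piece_idx F hδ hμ mesh k hk
      obtain ⟨l', l1', l2', l3'⟩ := pvtx_poly_vertex hμ hlo (fun i a b => mesh' i a (lt_of_lt_of_le b ((t10 _).trans hhi))) hp
      have h2 := big 0
      have h3 : t (Fin.succ 0) ≤ t k.castSucc := tm (by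
        show 1 ≤ k.1
        omega)
      have := pvtx_sep nr1' l1' l2' (F.mono 0) (h3.trans l1) (l2.trans ((t10 _).trans hhi)) h2
      have h5 := pvtx_tri (v l') (pvtCtr δ c) (v l)
      have h6 := pvtx_tri (v l') p (pvtCtr δ c)
      have h7 := pvt_sq_diam hpc (pvt_sq_ctr hδ.le)
      rw [norm_sub_rev (v l') p] at h6
      rw [norm_sub_rev (pvtCtr δ c) (v l)] at h5
      push_cast at l3
      linarith

end fit

/-! ## §2 from the rim -/

section rim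

variable {𝔑 : PvmnNum} {τ : PvmnType} {δ μ d0 e0 d1 e1 ra rb ρw hh : ℝ} {P : PvbRim} {z : ℂ} {i0 lo hi tl th : ℕ} {r : ℕ → ℝ} {t : Fin 11 → ℕ}

/-- the numerical relations between the absolute lengths and the numbers of the menu (all explicit) -/
structure PvmxNum (𝔑 : PvmnNum) (δ μ d0 e0 d1 e1 ra rb ρw hh : ℝ) (r : ℕ → ℝ) : Prop where
  dl0 : 0 < δ
  mu0 : 0 ≤ μ
  e1_0 : 0 ≤ e1
  hh_r : hh + 2 * e1 < r 1
  r_gap : ∀ j, 1 ≤ j → j < 6 → r j + μ + 2 * e1 < r (j + 1)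
  r_win : r 6 + μ ≤ ρw
  rb_r : rb ≤ r 1
  d0_ge : 44 * δ + 2 * μ ≤ d0
  d1_ge : 44 * δ + 2 * μ ≤ d1
  ra_gt : δ * 𝔑.rB + 24 * δ + μ < ra
  nW_gt : e0 + 22 * δ + μ < 𝔑.nW * δ
  nP_le : 2 * ((𝔑.nP : ℝ) + 1) * δ ≤ d1
  nBx_ge : r 5 + μ + δ ≤ 𝔑.nBx * δ
  nC_ge : r 1 + μ + δ ≤ 𝔑.nC * δ
  nF_lt : 2 * (((𝔑.nF : ℝ) + 1) * δ) ^ 2 < r 5 ^ 2
  rO_ge : hh ≤ δ * 𝔑.rO
  r_door : r 5 + μ + 12 * δ < r 6

theorem PvmxNum.r_mono (H : PvmxNum 𝔑 δ μ d0 e0 d1 e1 ra rb ρw hh r) {j j' : ℕ} (h1 : 1 ≤ j) (h2 : j ≤ j') (h3 : j' ≤ 6) : r j ≤ r j' := by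
  induction j', h2 using Nat.le_induction with
  | base => exact le_rfl
  | succ k hk ih =>
    have := H.r_gap k (h1.trans hk) (by omega)
    have := ih (by omega)
    have := H.mu0
    have := H.e1_0
    linarith

/-- two marks at radii `r1 ≤ r2`: the marks at the larger radius are further out along the rim -/
theorem pvmx_nest {r1 r2 : ℝ} {m1 p1 m2 p2 : ℕ} (M1 : PvtpMarks P z i0 r1 m1 p1) (M2 : PvtpMarks P z i0 r2 m2 p2) (h : r1 ≤ r2) : m2 ≤ m1 ∧ p1 ≤ p2 := by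
  constructor
  · by_contra hc
    exact absurd (h.trans M2.mm_far) (not_le.2 (M1.mm_last m2 (not_le.1 hc) M2.mm_le))
  · by_contra hc
    exact absurd (h.trans M2.mp_far) (not_le.2 (M1.mp_first p2 M2.le_mp (not_le.1 hc)))

theorem pvmx_rdiff (a b z : ℂ) : ‖a - z‖ - ‖b - z‖ ≤ ‖(a - z) - (b - z)‖ := by
  have := norm_sub_norm_le (a - z) (b - z)
  linarith

/-- **EVERY DATUM WHICH FITS THE RIM AT ITS MARKS IS A TYPE OF THE MENU** (M7 of `MENU_205.md`, first assertion = P10 of `ROADP_273.md`) -/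
theorem pvmx_type_of_fit (H : PvmxNum 𝔑 δ μ d0 e0 d1 e1 ra rb ρw hh r) (F : PvmnFits τ δ (fun i => P.v i - z) t)
    (near : ‖P.v i0 - z‖ ≤ hh) (ht5 : t 5 = i0)
    (M : ∀ j (h1 : 1 ≤ j) (h5 : j ≤ 5), PvtpMarks P z i0 (r j) (t ⟨5 - j, by omega⟩) (t ⟨5 + j, by omega⟩))
    (M6 : PvtpMarks P z i0 (r 6) lo hi) (T : PvtpTrap P z i0 ra rb tl th)
    (nr0 : PvtpNR P z ρw d0 e0) (nr1 : PvtpNR P z ρw d1 e1)
    (mesh : ∀ k < P.len, (‖P.v k - z‖ ≤ ρw ∨ ‖P.v (k + 1) - z‖ ≤ ρw) → ‖P.v (k + 1) - P.v k‖ ≤ μ) : PvmnIsType 𝔑 τ := by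
  have hμ := H.mu0
  have he1 := H.e1_0
  have hn : ∀ j, 1 ≤ j → j ≤ 6 → ‖P.v i0 - z‖ < r j := fun j a b => by
    have := H.r_mono le_rfl a b
    have := H.hh_r
    linarith
  have hρj : ∀ j, 1 ≤ j → j ≤ 6 → r j ≤ ρw := fun j a b => by
    have := H.r_mono a b le_rfl
    have := H.r_win
    linarith
  have M5 := M 5 (by omega) le_rfl
  have M1 := M 1 le_rfl (by omega)
  have e0' : (⟨5 - 5, by omega⟩ : Fin 11) = 0 := rfl
  have e10' : (⟨5 + 5, by omega⟩ : Fin 11) = 10 := rfl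
  have e4' : (⟨5 - 1, by omega⟩ : Fin 11) = 4 := rfl
  have e6' : (⟨5 + 1, by omega⟩ : Fin 11) = 6 := rfl
  rw [e0', e10'] at M5
  rw [e4', e6'] at M1
  obtain ⟨hlo, hhi⟩ := pvmx_nest M5 M6 (H.r_mono (by omega) (by omega) le_rfl)
  have hwin : ∀ k, lo ≤ k → k ≤ hi → ‖P.v k - z‖ ≤ ρw := fun k a b =>
    (M6.K_rad (hn 6 (by omega) le_rfl) (hρj 6 (by omega) le_rfl) hμ mesh a b).trans H.r_win
  have tm : ∀ {a b : Fin 11}, a ≤ b → t a ≤ t b := fun h => pvmx_t_mono F h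
  obtain ⟨Tf, Tb⟩ : (∀ k, t 6 ≤ k → k ≤ P.len → ra ≤ ‖P.v k - z‖) ∧ (∀ k, k ≤ t 4 → ra ≤ ‖P.v k - z‖) := by
    obtain ⟨h1, h2⟩ := T.between M1 H.rb_r
    constructor
    · intro k k1 k2
      by_contra hc
      have := (T.all k k2 (not_le.1 hc)).2
      omega
    · intro k k1
      by_contra hc
      have := (T.all k (k1.trans (M1.mm_le.trans (M1.le_mp.trans M1.mp_le))) (not_le.1 hc)).1
      omega
  refine pvmx_isType (lo := lo) (hi := hi) (ρ := r 5 + μ) (ρC := r 1 + μ) (rF := r 5) (rX := r 6) (a3 := ra) (μ := μ) (d0 := d0) (e0 := e0) (d1 := d1) (e1 := e1)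
    F H.dl0 hμ hlo hhi ?_ ?_ ?_ ?_ H.d0_ge H.d1_ge ?_ H.ra_gt H.nW_gt H.nP_le ?_ H.nBx_ge ?_ H.nC_ge ?_ ?_ ?_ H.nF_lt ?_ ?_ ?_ H.r_door
  · -- mesh
    intro k a b
    have := mesh k (lt_of_lt_of_le b M6.mp_le) (Or.inl (hwin k a b.le))
    simpa using this
  · exact pvmn_nr_track_sh nr0 M5.mp_le fun k a b => hwin k (hlo.trans a) (b.trans hhi)
  · exact pvmn_nr_track_sh nr1 M6.mp_le hwin
  · -- big
    intro k
    show 2 * e1 < ‖(P.v (t k.castSucc) - z) - (P.v (t k.succ) - z)‖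
    rcases Nat.lt_trichotomy k.1 4 with h | h | h
    · -- both marks are backward marks
      have A := M (5 - k.1) (by omega) (by omega)
      have B := M (4 - k.1) (by omega) (by omega)
      have ea : (⟨5 - (5 - k.1), by omega⟩ : Fin 11) = k.castSucc := Fin.ext (by show 5 - (5 - k.1) = k.1; omega)
      have eb : (⟨5 - (4 - k.1), by omega⟩ : Fin 11) = k.succ := Fin.ext (by show 5 - (4 - k.1) = k.1 + 1; omega)
      rw [ea] at A
      rw [eb] at B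
      have h1 := A.mm_far
      have h2 := B.mm_rad (hn _ (by omega) (by omega)) (hρj _ (by omega) (by omega)) mesh
      have h3 := H.r_gap (4 - k.1) (by omega) (by omega)
      have e3 : 4 - k.1 + 1 = 5 - k.1 := by omega
      rw [e3] at h3
      have := pvmx_rdiff (P.v (t k.castSucc)) (P.v (t k.succ)) z
      linarith
    · have ea : k.castSucc = (4 : Fin 11) := Fin.ext (by show k.1 = 4; omega)
      have eb : k.succ = (5 : Fin 11) := Fin.ext (by show k.1 + 1 = 5; omega)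
      rw [ea, eb, ht5]
      have h1 := M1.mm_far
      have := pvmx_rdiff (P.v (t 4)) (P.v i0) z
      have := H.hh_r
      linarith
    · rcases Nat.eq_or_lt_of_le (Nat.succ_le_of_lt h) with h' | h'
      · have ea : k.castSucc = (5 : Fin 11) := Fin.ext (by show k.1 = 5; omega)
        have eb : k.succ = (6 : Fin 11) := Fin.ext (by show k.1 + 1 = 6; omega)
        rw [ea, eb, ht5]
        have h1 := M1.mp_far
        have := pvmx_rdiff (P.v (t 6)) (P.v i0) z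
        rw [norm_sub_rev (P.v (t 6) - z) (P.v i0 - z)] at this
        have := H.hh_r
        linarith
      · have hk := k.2
        have A := M (k.1 - 4) (by omega) (by omega)
        have B := M (k.1 - 5) (by omega) (by omega)
        have ea : (⟨5 + (k.1 - 4), by omega⟩ : Fin 11) = k.succ := Fin.ext (by show 5 + (k.1 - 4) = k.1 + 1; omega)
        have eb : (⟨5 + (k.1 - 5), by omega⟩ : Fin 11) = k.castSucc := Fin.ext (by show 5 + (k.1 - 5) = k.1; omega)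
        rw [ea] at A
        rw [eb] at B
        have h1 := A.mp_far
        have h2 := B.mp_rad (hn _ (by omega) (by omega)) (hρj _ (by omega) (by omega)) mesh
        have h3 := H.r_gap (k.1 - 5) (by omega) (by omega)
        have e3 : k.1 - 5 + 1 = k.1 - 4 := by omega
        rw [e3] at h3
        have := pvmx_rdiff (P.v (t k.succ)) (P.v (t k.castSucc)) z
        rw [norm_sub_rev (P.v (t k.succ) - z) (P.v (t k.castSucc) - z)] at this
        linarith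
  · -- trap
    intro k k4 k5 i i1 i2
    show ra ≤ ‖P.v i - z‖
    rcases Nat.lt_or_ge k.1 4 with h | h
    · exact Tb i (i2.trans (tm (by show k.1 + 1 ≤ 4; omega)))
    · refine Tf i ((tm (by show 6 ≤ k.1; omega)).trans i1) (i2.trans ((tm (Fin.le_last _)).trans M5.mp_le))
  · -- rad
    intro i a b
    exact M5.K_rad (hn 5 (by omega) (by omega)) (hρj 5 (by omega) (by omega)) hμ mesh a b
  · -- radC
    intro i a b
    exact M1.K_rad (hn 1 le_rfl (by omega)) (hρj 1 le_rfl (by omega)) hμ mesh a b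
  · exact M5.mm_far
  · exact M5.mp_far
  · exact (norm_nonneg _).trans (hn 5 (by omega) (by omega)).le
  · show ‖P.v (t 5) - z‖ ≤ _
    rw [ht5]
    exact near.trans H.rO_ge
  · exact M6.mm_far
  · exact M6.mp_far

/-- **`τ(P) ∈ MENU`**: existence of the marks and of a fitting type, of either colour -/
theorem pvmx_fit_exists (H : PvmxNum 𝔑 δ μ d0 e0 d1 e1 ra rb ρw hh r) (col : Bool) (hi0 : i0 ≤ P.len) (near : ‖P.v i0 - z‖ ≤ hh)
    (h0 : r 6 ≤ ‖P.v 0 - z‖) (hL : r 6 ≤ ‖P.v P.len - z‖) (T : PvtpTrap P z i0 ra rb tl th)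
    (nr0 : PvtpNR P z ρw d0 e0) (nr1 : PvtpNR P z ρw d1 e1)
    (mesh : ∀ k < P.len, (‖P.v k - z‖ ≤ ρw ∨ ‖P.v (k + 1) - z‖ ≤ ρw) → ‖P.v (k + 1) - P.v k‖ ≤ μ) :
    ∃ (τ : PvmnType) (t : Fin 11 → ℕ), τ.col = col ∧ PvmnFits τ δ (fun i => P.v i - z) t ∧ PvmnIsType 𝔑 τ ∧ t 5 = i0 ∧
      ∀ j (h1 : 1 ≤ j) (h5 : j ≤ 5), PvtpMarks P z i0 (r j) (t ⟨5 - j, by omega⟩) (t ⟨5 + j, by omega⟩) := by
  classical
  obtain ⟨tm, tp, ⟨W⟩⟩ := pvtp_tower_exists (n := 6) (r := r) hi0 (fun j a b => (H.r_mono a b le_rfl).trans h0) (fun j a b => (H.r_mono a b le_rfl).trans hL)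
  set t : Fin 11 → ℕ := fun k => if k.1 < 5 then tm (5 - k.1) else if k.1 = 5 then i0 else tp (k.1 - 5) with ht
  have t5 : t 5 = i0 := by simp [ht]
  have hM : ∀ j (h1 : 1 ≤ j) (h5 : j ≤ 5), PvtpMarks P z i0 (r j) (t ⟨5 - j, by omega⟩) (t ⟨5 + j, by omega⟩) := by
    intro j h1 h5
    have a1 : t ⟨5 - j, by omega⟩ = tm j := by
      simp only [ht]
      rw [if_pos (by omega)]
      congr 1; omega
    have a2 : t ⟨5 + j, by omega⟩ = tp j := by
      simp only [ht]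
      rw [if_neg (by omega), if_neg (by omega)]
      congr 1; omega
    rw [a1, a2]
    exact W j h1 (by omega)
  have hmono : ∀ k : Fin 10, t k.castSucc ≤ t k.succ := by
    intro k
    have hk := k.2
    rcases Nat.lt_trichotomy k.1 4 with h | h | h
    · have A := hM (5 - k.1) (by omega) (by omega)
      have B := hM (4 - k.1) (by omega) (by omega)
      have ea : (⟨5 - (5 - k.1), by omega⟩ : Fin 11) = k.castSucc := Fin.ext (by show 5 - (5 - k.1) = k.1; omega)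
      have eb : (⟨5 - (4 - k.1), by omega⟩ : Fin 11) = k.succ := Fin.ext (by show 5 - (4 - k.1) = k.1 + 1; omega)
      rw [ea] at A
      rw [eb] at B
      exact (pvmx_nest B A (H.r_mono (by omega) (by omega) (by omega))).1
    · have ea : k.castSucc = (4 : Fin 11) := Fin.ext (by show k.1 = 4; omega)
      have eb : k.succ = (5 : Fin 11) := Fin.ext (by show k.1 + 1 = 5; omega)
      rw [ea, eb, t5]
      exact (hM 1 le_rfl (by omega)).mm_le
    · rcases Nat.eq_or_lt_of_le (Nat.succ_le_of_lt h) with h' | h'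
      · have ea : k.castSucc = (5 : Fin 11) := Fin.ext (by show k.1 = 5; omega)
        have eb : k.succ = (6 : Fin 11) := Fin.ext (by show k.1 + 1 = 6; omega)
        rw [ea, eb, t5]
        exact (hM 1 le_rfl (by omega)).le_mp
      · have A := hM (k.1 - 4) (by omega) (by omega)
        have B := hM (k.1 - 5) (by omega) (by omega)
        have ea : (⟨5 + (k.1 - 4), by omega⟩ : Fin 11) = k.succ := Fin.ext (by show 5 + (k.1 - 4) = k.1 + 1; omega)
        have eb : (⟨5 + (k.1 - 5), by omega⟩ : Fin 11) = k.castSucc := Fin.ext (by show 5 + (k.1 - 5) = k.1; omega)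
        rw [ea] at A
        rw [eb] at B
        exact (pvmx_nest B A (H.r_mono (by omega) (by omega) (by omega))).2
  obtain ⟨τ, hcol, F⟩ := pvmn_fits_exists H.dl0 col (fun i => P.v i - z) t hmono
  exact ⟨τ, t, hcol, F, pvmx_type_of_fit H F near t5 hM (W 6 (by omega) le_rfl) T nr0 nr1 mesh, t5, hM⟩

end rim

end Claimed.Agent.R289
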