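import Claimed.Agent.R289.Tr.Port
import Claimed.Agent.R289.Tr.Menu
import Claimed.Agent.R289.Tr.FitType

/-!
# Row 289 (S0537, Cardy for Poisson-Voronoi), unit TR, ROAD P, P10 = Tr/PortM : PORT ON THE NAMES OF THE MENU      (owner helper164; prefix `pvqp_`, defs `pvqp*`)

Text of record: `origin/helper205:notes/R289/MENU_205.md` M7 (ii)-(vi), `ROADP_273.md` P10.      Everything is DETERMINISTIC.

`Tr/Port.lean` proves PORT for cells in ABSOLUTE position.   The menu of 205 (`Tr/Menu.lean`) uses cells CENTRED AT THE GRID CENTRE `z` of the pin (`v = P.v - z`), the polygon `pvtxPoly` and the collars `pvtwN`.   This file is the bridge and the instance.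

* §1 SHIFT: `pvqpSh P z` (the rim translated by `-z`); all records of `Tr/Port` are invariant (`pvqp_diam`, `pvqp_nr`, `pvqp_marks`, `pvqp_trap`, `pvqp_cuts`, `pvqp_portiff`).
* §2 polygons and cells of a fitting type: `pvqp_poly`, `pvqp_cells` (`pvmnCells τ a b` = cells of the stretch `κ a … κ (b+1)`), `pvqp_SH`, `pvqp_H`, `pvqp_Hp`.
* §3 **`pvqp_port`** (M7 (iii), (vii)), `pvqp_core`, `pvqp_core_ball` (M7 (ii)), `pvqp_collar` (M7 (iv)).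
* §4 `pvqp_stub` (M7 (v): the wiggles end before the next mark), **`pvqp_rest_fwd`, `pvqp_rest_bwd`** (M7 (vi) REST / ESCAPE).
-/

set_option autoImplicit false
set_option linter.unusedSectionVars false
set_option linter.unusedVariables false
set_option linter.unusedSimpArgs false

namespace Claimed.Agent.R289

open Claims.C0467 Claimed.Agent.R291

/-! ## §1 the shift -/

/-- the rim translated by `-z` (only the vertices matter here) -/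
def pvqpSh (P : PvbRim) (z : ℂ) : PvbRim := { P with v := fun i => P.v i - z }

theorem pvqp_eqns_cite : True := by
  have := @pvqpSh.eq_1
  trivial

section shift

variable {P : PvbRim} {z : ℂ} {i j i0 mm mp lo hi xm xp N : ℕ} {e d ρ rH ra rb μ e0 d1 : ℝ} {κ : ℕ → ℕ} {A : Set ℂ}

theorem pvqp_sh_v (P : PvbRim) (z : ℂ) (i : ℕ) : (pvqpSh P z).v i = P.v i - z := rfl

theorem pvqp_sh_len (P : PvbRim) (z : ℂ) : (pvqpSh P z).len = P.len := rfl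

theorem pvqp_sh_dist (P : PvbRim) (z : ℂ) (i j : ℕ) : ‖(pvqpSh P z).v i - (pvqpSh P z).v j‖ = ‖P.v i - P.v j‖ := by
  rw [pvqp_sh_v, pvqp_sh_v, sub_sub_sub_cancel_right]

theorem pvqp_sh_rad (P : PvbRim) (z : ℂ) (i : ℕ) : ‖(pvqpSh P z).v i - 0‖ = ‖P.v i - z‖ := by
  rw [pvqp_sh_v, sub_zero]

theorem pvqp_diam : PvtpDiam (pvqpSh P z) i j e ↔ PvtpDiam P i j e := by
  unfold PvtpDiam
  simp only [pvqp_sh_dist]

theorem pvqp_nr : PvtpNR (pvqpSh P z) 0 ρ d e ↔ PvtpNR P z ρ d e := by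
  unfold PvtpNR
  simp only [pvqp_sh_dist, pvqp_sh_rad, pvqp_sh_len, pvqp_diam]

theorem pvqp_marks : PvtpMarks (pvqpSh P z) 0 i0 rH mm mp ↔ PvtpMarks P z i0 rH mm mp := by
  constructor
  · rintro ⟨h1, h2, h3, h4, h5, h6, h7⟩
    simp only [pvqp_sh_rad, pvqp_sh_len] at h3 h4 h5 h6 h7
    exact ⟨h1, h2, h3, h4, h5, h6, h7⟩
  · rintro ⟨h1, h2, h3, h4, h5, h6, h7⟩
    refine ⟨h1, h2, ?_, ?_, ?_, ?_, ?_⟩ <;> simp only [pvqp_sh_rad, pvqp_sh_len] <;> assumption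

theorem pvqp_trap : PvtpTrap (pvqpSh P z) 0 i0 ra rb lo hi ↔ PvtpTrap P z i0 ra rb lo hi := by
  constructor
  · rintro ⟨h1, h2, h3, h4, h5⟩
    simp only [pvqp_sh_rad, pvqp_sh_len] at h3 h4 h5
    exact ⟨h1, h2, h3, h4, h5⟩
  · rintro ⟨h1, h2, h3, h4, h5⟩
    refine ⟨h1, h2, ?_, ?_, ?_⟩ <;> simp only [pvqp_sh_rad, pvqp_sh_len] <;> assumption

theorem pvqp_cuts : PvtpCuts (pvqpSh P z) 0 ρ e N κ ↔ PvtpCuts P z ρ e N κ := by
  constructor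
  · rintro ⟨h1, h2, h3, h4⟩
    simp only [pvqp_sh_rad, pvqp_sh_len, pvqp_sh_dist] at h2 h3 h4
    exact ⟨h1, h2, h3, h4⟩
  · rintro ⟨h1, h2, h3, h4⟩
    refine ⟨h1, ?_, ?_, ?_⟩ <;> simp only [pvqp_sh_rad, pvqp_sh_len, pvqp_sh_dist] <;> assumption

/-- PORT for the translated rim and the set `A` = PORT for the rim and the translated set -/
theorem pvqp_portiff : PvtpPort (pvqpSh P z) 0 i0 A rH μ e0 d1 ρ xm mm mp xp ↔ PvtpPort P z i0 {p | p - z ∈ A} rH μ e0 d1 ρ xm mm mp xp := by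
  constructor
  · rintro ⟨h1, h2, h3, h4, h5, h6, h7, h8, h9, h10⟩
    simp only [pvqp_sh_rad, pvqp_sh_len, pvqp_sh_dist] at h4 h5 h6 h9 h10
    exact ⟨pvqp_marks.1 h1, h2, h3, h4, h5, h6, pvqp_diam.1 h7, pvqp_diam.1 h8, h9, h10⟩
  · rintro ⟨h1, h2, h3, h4, h5, h6, h7, h8, h9, h10⟩
    refine ⟨pvqp_marks.2 h1, h2, h3, ?_, ?_, ?_, pvqp_diam.2 h7, pvqp_diam.2 h8, ?_, ?_⟩ <;> simp only [pvqp_sh_rad, pvqp_sh_len, pvqp_sh_dist] <;> assumption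

theorem pvqp_mesh (mesh : ∀ k < P.len, (‖P.v k - z‖ ≤ ρ ∨ ‖P.v (k + 1) - z‖ ≤ ρ) → ‖P.v (k + 1) - P.v k‖ ≤ μ) :
    ∀ k < (pvqpSh P z).len, (‖(pvqpSh P z).v k - 0‖ ≤ ρ ∨ ‖(pvqpSh P z).v (k + 1) - 0‖ ≤ ρ) → ‖(pvqpSh P z).v (k + 1) - (pvqpSh P z).v k‖ ≤ μ := by
  simp only [pvqp_sh_rad, pvqp_sh_len, pvqp_sh_dist]
  exact mesh

theorem pvqp_mesh_mono {ρ' : ℝ} (hρ : ρ ≤ ρ') (mesh : ∀ k < P.len, (‖P.v k - z‖ ≤ ρ' ∨ ‖P.v (k + 1) - z‖ ≤ ρ') → ‖P.v (k + 1) - P.v k‖ ≤ μ) :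
    ∀ k < P.len, (‖P.v k - z‖ ≤ ρ ∨ ‖P.v (k + 1) - z‖ ≤ ρ) → ‖P.v (k + 1) - P.v k‖ ≤ μ :=
  fun k hk h => mesh k hk (h.imp (fun a => a.trans hρ) (fun a => a.trans hρ))

end shift

/-! ## §2 polygons and cells of a fitting type -/

section cells

variable {P : PvbRim} {z : ℂ} {a b : ℕ} {δ : ℝ} {κ : ℕ → ℕ} {τ : PvmnType} {𝔑 : PvmnNum} {v : ℕ → ℂ}

/-- the two polygons agree -/
theorem pvqp_poly0 (P : PvbRim) (hab : a ≤ b) : pvtpPoly P a b = pvtxPoly P.v a b := by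
  ext p
  rw [pvtx_mem_poly]
  constructor
  · rintro ⟨k, h1, h2, rfl | ⟨h3, h4⟩⟩
    · exact pvtx_mem_poly.1 (pvtx_vertex_mem h1 h2)
    · exact Or.inr ⟨k, h1, h3, h4⟩
  · rintro (rfl | ⟨k, h1, h2, h3⟩)
    · exact ⟨a, le_rfl, hab, Or.inl rfl⟩
    · exact ⟨k, h1, h2.le, Or.inr ⟨h2, h3⟩⟩

theorem pvqp_poly (P : PvbRim) (z : ℂ) (hab : a ≤ b) : pvtpPoly (pvqpSh P z) a b = pvtxPoly (fun i => P.v i - z) a b := pvqp_poly0 _ hab

/-- extension of the marks of a type to `ℕ` -/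
def pvqpExt (t : Fin 11 → ℕ) (i : ℕ) : ℕ := if h : i < 11 then t ⟨i, h⟩ else t 10

theorem pvqp_ext (t : Fin 11 → ℕ) : (fun k : Fin 11 => pvqpExt t k.1) = t := by
  funext k
  simp [pvqpExt, k.2]

theorem pvqp_fits_le (F : PvmnFits τ δ v (fun k => κ k.1)) (hab : a ≤ b) (hb : b ≤ 10) : κ a ≤ κ b := by
  induction b, hab using Nat.le_induction with
  | base => exact le_rfl
  | succ b hb' ih => exact (ih (by omega)).trans (F.mono ⟨b, by omega⟩)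

theorem pvqp_fits_C (F : PvmnFits τ δ v (fun k => κ k.1)) (ha : a < 10) : (τ.C ⟨a, ha⟩ : Set (ℤ × ℤ)) = pvtCells δ (pvtxPoly v (κ a) (κ (a + 1))) :=
  F.cells ⟨a, ha⟩

/-- the cells of the pieces `a, …, b` are the cells of the stretch from the mark `a` to the mark `b + 1` -/
theorem pvqp_cells (F : PvmnFits τ δ v (fun k => κ k.1)) (hab : a ≤ b) (hb : b < 10) : pvmnCells τ a b = pvtCells δ (pvtxPoly v (κ a) (κ (b + 1))) := by
  induction b, hab using Nat.le_induction with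
  | base =>
    rw [← pvqp_fits_C F hb]
    ext c
    constructor
    · rintro ⟨k, h1, h2, h3⟩
      have : k = ⟨a, hb⟩ := Fin.ext (by show k.1 = a; omega)
      rw [this] at h3
      exact h3
    · intro h
      exact ⟨⟨a, hb⟩, le_rfl, le_rfl, h⟩
  | succ b hab' ih =>
    rw [pvtx_poly_union (pvqp_fits_le F (by omega : a ≤ b + 1) (by omega)) (pvqp_fits_le F (by omega : b + 1 ≤ b + 1 + 1) (by omega)), pvtp_cells_union,
      ← ih (by omega), ← pvqp_fits_C F hb]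
    ext c
    constructor
    · rintro ⟨k, h1, h2, h3⟩
      rcases Nat.lt_or_ge k.1 (b + 1) with h | h
      · exact Or.inl ⟨k, h1, by omega, h3⟩
      · have : k = ⟨b + 1, hb⟩ := Fin.ext (by show k.1 = b + 1; omega)
        rw [this] at h3
        exact Or.inr h3
    · rintro (⟨k, h1, h2, h3⟩ | h)
      · exact ⟨k, h1, by omega, h3⟩
      · exact ⟨⟨b + 1, hb⟩, by show a ≤ b + 1; omega, le_rfl, h⟩

/-- the cells of a stretch, on the names of `Tr/Port` -/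
theorem pvqp_cells' (F : PvmnFits τ δ (fun i => P.v i - z) (fun k => κ k.1)) (hab : a ≤ b) (hb : b < 10) :
    pvmnCells τ a b = pvtpC δ (pvqpSh P z) κ a (b + 1) := by
  rw [pvqp_cells F hab hb, pvtpC, pvqp_poly P z (pvqp_fits_le F (by omega) (by omega))]

/-- the unfilled obstacle of the type = the unfilled tentacle set of `Tr/Port` -/
theorem pvqp_SH (F : PvmnFits τ δ (fun i => P.v i - z) (fun k => κ k.1)) : pvmnSH 𝔑 τ = pvtpSH δ (pvqpSh P z) (pvmnBl 𝔑.rB) 6 (κ 4) (κ 6) := by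
  rw [pvmnSH, pvtpSH, pvqp_cells F (by omega : 4 ≤ 5) (by omega), pvtp_fat_eq, pvqp_poly P z (pvqp_fits_le F (by omega) (by omega))]

theorem pvqp_H (F : PvmnFits τ δ (fun i => P.v i - z) (fun k => κ k.1)) : pvmnH 𝔑 τ = pvtHull (pvtpSH δ (pvqpSh P z) (pvmnBl 𝔑.rB) 6 (κ 4) (κ 6)) := by
  rw [pvmnH, pvqp_SH F]

theorem pvqp_Hp (F : PvmnFits τ δ (fun i => P.v i - z) (fun k => κ k.1)) :
    pvmnHp 𝔑 τ = pvtN8^[4] (pvtHull (pvtpSH δ (pvqpSh P z) (pvmnBl 𝔑.rB) 6 (κ 4) (κ 6))) := by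
  rw [pvmnHp, pvqp_H F, pvtp_fat_eq]

/-- the collars of the grid ball, in metric form -/
theorem pvqp_Bl_near (hδ : 0 < δ) (r : ℝ) (m : ℕ) {p : ℂ} (hp : p ∈ pvtU δ (pvtN8^[m] (pvmnBl r))) : ‖p - 0‖ ≤ δ * r + 2 * (m + 1) * δ := by
  rw [← pvmn_Bl_scale hδ] at hp
  exact pvtp_ball_near hδ hp

/-- **sharp radius of a hull** (centred cells; on `pvmx_hull_ball` of 2): no factor `2` -/
theorem pvqp_hull_rad (hδ : 0 < δ) {S : Set (ℤ × ℤ)} {R1 : ℝ} (hS : ∀ p ∈ pvtU δ S, ‖p - 0‖ ≤ R1) : ∀ p ∈ pvtU δ (pvtHull S), ‖p - 0‖ ≤ R1 + 2 * δ := by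
  have h1 : S ⊆ pvtCells δ (Metric.closedBall (0 : ℂ) R1) := by
    intro c hc
    refine ⟨pvtCtr δ c, pvt_sq_ctr hδ.le, ?_⟩
    rw [Metric.mem_closedBall, dist_eq_norm]
    exact hS _ (Set.mem_iUnion₂.2 ⟨c, hc, pvt_sq_ctr hδ.le⟩)
  intro p hp
  obtain ⟨c, hc, hpc⟩ := Set.mem_iUnion₂.1 hp
  obtain ⟨q, hqc, hq⟩ := pvmx_hull_ball hδ h1 hc
  rw [Metric.mem_closedBall, dist_eq_norm] at hq
  have := pvt_sq_diam hpc hqc
  have := pvtp_tri p q 0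
  linarith

end cells

/-! ## §3 PORT, CORE, COLLAR on the names of the menu -/

section portM

variable {P : PvbRim} {z : ℂ} {lo hi xm xp : ℕ} {rH ra rb hh μ ρ d0 e0 d1 e1 δ : ℝ} {κ : ℕ → ℕ} {τ : PvmnType} {𝔑 : PvmnNum}

/-- **M7 (iii) PORT + (vii) PORTS APART for a fitting type.**      The obstacle is `z + U(H⁺)`, `H⁺ = pvmnHp 𝔑 τ`; the pin vertex is the mark `5`, the marks of the obstacle are the marks `4`, `6` of the type (first / last passage of the radius `rH`);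
`(ra, rb)` = the annulus of the third gate (TRAP);   `ρ` = window of the mesh, of `NR₀`, `NR₁`. -/
theorem pvqp_port (F : PvmnFits τ δ (fun i => P.v i - z) (fun k => κ k.1))
    (M : PvtpMarks P z (κ 5) rH (κ 4) (κ 6)) (T : PvtpTrap P z (κ 5) ra rb lo hi) (near : ‖P.v (κ 5) - z‖ ≤ hh)
    (h0 : ρ ≤ ‖P.v 0 - z‖) (hL : ρ ≤ ‖P.v P.len - z‖)
    (mesh : ∀ k < P.len, (‖P.v k - z‖ ≤ ρ ∨ ‖P.v (k + 1) - z‖ ≤ ρ) → ‖P.v (k + 1) - P.v k‖ ≤ μ)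
    (nr0 : PvtpNR P z ρ d0 e0) (nr1 : PvtpNR P z ρ d1 e1)
    (hμ : 0 ≤ μ) (he1 : 0 ≤ e1) (hb : rb ≤ rH) (hH : e1 + hh < rH) (hδ : 0 < δ) (hμδ : μ ≤ δ)
    (hB : δ * (𝔑.rB + 12) < ra) (hd0 : 24 * δ + μ ≤ d0) (hρ : ra + rH + μ + d0 + 2 * δ < ρ) (hra : 0 ≤ ra) :
    ∃ xm xp, PvtpPort P z (κ 5) {p | p - z ∈ pvtU δ (pvmnHp 𝔑 τ)} rH μ e0 d1 ρ xm (κ 4) (κ 6) xp := by
  have hd00 : 0 ≤ d0 := le_trans (by positivity) hd0
  have hrH : 0 ≤ rH := by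
    have := norm_nonneg (P.v (κ 5) - z)
    linarith
  have hn : ‖P.v (κ 5) - z‖ < rH := by linarith
  have hρ1 : rH + μ ≤ ρ := by linarith
  have hρ2 : rH ≤ ρ := by linarith
  have hKr : ∀ k, κ 4 ≤ k → k ≤ κ 6 → ‖P.v k - z‖ ≤ rH + μ := fun k h1 h2 => M.K_rad hn hρ2 hμ mesh h1 h2
  have meshK : ∀ k, κ 4 ≤ k → k < κ 6 → ‖(pvqpSh P z).v (k + 1) - (pvqpSh P z).v k‖ ≤ μ := fun k h1 h2 => by
    rw [pvqp_sh_dist]
    exact mesh k (by have := M.mp_le; omega) (Or.inl ((hKr k h1 h2.le).trans hρ1))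
  have hbody := pvtp_SH_body (P := pvqpSh P z) (z := 0) (rB := ra) (d0 := d0) (Bc := pvmnBl 𝔑.rB) hδ hμ meshK 6 (4 + 1)
    (fun p hp => by
      have := pvqp_Bl_near hδ 𝔑.rB (4 + 1) hp
      push_cast at this
      nlinarith)
    (by push_cast; linarith)
  obtain ⟨xm, xp, H⟩ := pvtp_port_poly (P := pvqpSh P z) (z := 0) (rB := ra) (S := pvtpSH δ (pvqpSh P z) (pvmnBl 𝔑.rB) 6 (κ 4) (κ 6)) (pvqp_marks.2 M) (pvqp_trap.2 T)
    (by rw [pvqp_sh_rad]; exact near) (by rw [pvqp_sh_rad]; exact h0) (by rw [pvqp_sh_len, pvqp_sh_rad]; exact hL) (pvqp_mesh mesh)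
    (pvqp_nr.2 nr0) (pvqp_nr.2 nr1) hμ hd00 he1 hb le_rfl hρ1 hH hδ hμδ 4
    (fun p hp => by
      have h1 : ∀ q ∈ pvtU δ (pvtN8^[4] (pvtpSH δ (pvqpSh P z) (pvmnBl 𝔑.rB) 6 (κ 4) (κ 6))), ‖q - 0‖ ≤ ra + rH + μ + d0 := by
        intro q hq
        have hq' : q ∈ pvtU δ (pvtN8^[4 + 1] (pvtpSH δ (pvqpSh P z) (pvmnBl 𝔑.rB) 6 (κ 4) (κ 6))) := by
          rw [Function.iterate_succ_apply']
          exact pvt_U_mono pvt_N8_sub hq
        rcases hbody hq' with h | ⟨k, k1, k2, h⟩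
        · linarith
        · have h3 := pvtp_tri q ((pvqpSh P z).v k) 0
          have h4 := hKr k k1 k2
          rw [pvqp_sh_rad] at h3
          linarith
      have := pvqp_hull_rad hδ h1 p hp
      linarith)
    hbody
  refine ⟨xm, xp, ?_⟩
  rw [pvqp_Hp F]
  exact pvqp_portiff.1 H

/-- **M7 (ii) CORE**: the `6δ`-neighbourhood of the two central pieces lies in the obstacle -/
theorem pvqp_core (F : PvmnFits τ δ (fun i => P.v i - z) (fun k => κ k.1)) (hδ : 0 < δ) {p q : ℂ}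
    (hp : p ∈ pvtxPoly (fun i => P.v i - z) (κ 4) (κ 6)) (hq : ‖q - p‖ ≤ 6 * δ) : q ∈ pvtU δ (pvmnH 𝔑 τ) := by
  rw [pvmnH, pvmnSH, pvqp_cells F (by omega : 4 ≤ 5) (by omega)]
  exact pvtx_core (w := 6) hδ hp (by push_cast; exact hq)

/-- CORE, vertex form -/
theorem pvqp_core_vert (F : PvmnFits τ δ (fun i => P.v i - z) (fun k => κ k.1)) (hδ : 0 < δ) {k : ℕ} (h1 : κ 4 ≤ k) (h2 : k ≤ κ 6) :
    P.v k - z ∈ pvtU δ (pvmnH 𝔑 τ) :=
  pvqp_core F hδ (pvtx_vertex_mem (v := fun i => P.v i - z) h1 h2) (by rw [sub_self, norm_zero]; positivity)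

/-- **M7 (ii)**: the ball part lies in the obstacle -/
theorem pvqp_core_ball (hδ : 0 < δ) {p : ℂ} (hp : ‖p‖ ≤ δ * 𝔑.rB) : p ∈ pvtU δ (pvmnH 𝔑 τ) := by
  have h1 : p ∈ pvtU δ (pvmnBl 𝔑.rB) := by
    rw [← pvmn_Bl_scale hδ]
    exact pvt_cells_cover hδ (by rw [Metric.mem_closedBall, dist_zero_right]; exact hp)
  exact pvt_U_mono (Set.subset_union_left.trans pvt_hull_sub) h1

/-- **M7 (iv) COLLAR**: after `xp` (before `xm`) the rim stays at distance `> 4δ` from the obstacle `z + U(H)` -/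
theorem pvqp_collar {i0 mm mp j : ℕ} (H : PvtpPort P z i0 {p | p - z ∈ pvtU δ (pvmnHp 𝔑 τ)} rH μ e0 d1 ρ xm mm mp xp) (hδ : 0 < δ)
    (hj : (xp < j ∧ j ≤ P.len) ∨ j < xm) {p : ℂ} (hp : p - z ∈ pvtU δ (pvmnH 𝔑 τ)) : 4 * δ < ‖P.v j - p‖ := by
  have h1 : P.v j - z ∉ pvtU δ (pvtN8^[4] (pvmnH 𝔑 τ)) := by
    rw [pvtp_fat_eq]
    rcases hj with hj | hj
    · exact H.after hj.1 hj.2
    · exact H.before hj
  have := pvtp_fat_far hδ 4 hp h1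
  rw [sub_sub_sub_cancel_right] at this
  exact_mod_cast this

end portM

/-! ## §4 STUB and REST -/

section rest

variable {P : PvbRim} {z : ℂ} {i0 xm xp N a b : ℕ} {rH ra μ ρ ρ' d e e0 d1 δ : ℝ} {κ : ℕ → ℕ} {τ : PvmnType} {𝔑 : PvmnNum} {A : Set ℂ}

/-- **M7 (v) STUB**, forward: the wiggle after the mark `κ a` ends before the next mark -/
theorem pvqp_stub_fwd {mm : ℕ} (H : PvtpPort P z i0 A rH μ e0 d1 ρ' xm mm (κ a) xp) (C : PvtpCuts P z ρ e N κ) (ha : a < N) (he : e0 ≤ e) : xp < κ (a + 1) := by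
  by_contra hc
  obtain ⟨k, k', a1, a2, b1, b2, hb⟩ := C.big a ha
  have := H.winp k k' a1 (a2.trans (not_lt.1 hc)) b1 (b2.trans (not_lt.1 hc))
  linarith

/-- **M7 (v) STUB**, backward -/
theorem pvqp_stub_bwd {mp : ℕ} (H : PvtpPort P z i0 A rH μ e0 d1 ρ' xm (κ (a + 1)) mp xp) (C : PvtpCuts P z ρ e N κ) (ha : a < N) (he : e0 ≤ e) : κ a < xm := by
  by_contra hc
  obtain ⟨k, k', a1, a2, b1, b2, hb⟩ := C.big a ha
  have := H.winm k k' ((not_lt.1 hc).trans a1) a2 ((not_lt.1 hc).trans b1) b2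
  linarith

/-- the `k`-th collar of `Bl(rB) ∪ N^m Cells(pieces a..b)`, in metric form: a point of it is in the ball of radius `δ (rB + 2(k+1))` or within `2(k+m+1)δ + μ` of a vertex of the stretch -/
theorem pvqp_S_near (F : PvmnFits τ δ (fun i => P.v i - z) (fun k => κ k.1)) (C : PvtpCuts P z ρ e 10 κ) (hδ : 0 < δ) (hμ : 0 ≤ μ)
    (mesh : ∀ k < P.len, (‖P.v k - z‖ ≤ ρ ∨ ‖P.v (k + 1) - z‖ ≤ ρ) → ‖P.v (k + 1) - P.v k‖ ≤ μ)
    (hab : a ≤ b) (hb : b < 10) (m k : ℕ) {p : ℂ} (hp : p - z ∈ pvtU δ (pvtN8^[k] (pvmnBl 𝔑.rB ∪ pvtwN m (pvmnCells τ a b)))) :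
    ‖p - z‖ ≤ δ * 𝔑.rB + 2 * (k + 1) * δ ∨ ∃ s, κ a ≤ s ∧ s ≤ κ (b + 1) ∧ ‖p - P.v s‖ ≤ 2 * ((k + m : ℕ) + 1) * δ + μ := by
  rw [pvtp_fat_union, pvt_U_union, ← pvtp_fat_eq, ← Function.iterate_add_apply, pvqp_cells' F hab hb] at hp
  rcases hp with hp | hp
  · left
    have := pvqp_Bl_near hδ 𝔑.rB k hp
    rwa [sub_zero] at this
  · right
    obtain ⟨s, s1, s2, s3⟩ := (pvqp_cuts.2 C).C_near hδ hμ (pvqp_mesh mesh) (by omega : a ≤ b + 1) (by omega) hp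
    rw [pvqp_sh_v, sub_sub_sub_cancel_right] at s3
    exact ⟨s, s1, s2, s3⟩

/-- **M7 (vi) REST / ESCAPE, forward.**      `S = Bl(rB) ∪ N^m Cells(pieces a..b)`, `b ≤ 8`.   All the vertices of the rim after the mark `b + 2` miss the `n`-th collar of `z + U(Hull S)`.
Two windows: `ρ` (chain of cuts, `NR`), `ρ'` (mesh, cut vertex). -/
theorem pvqp_rest_fwd (F : PvmnFits τ δ (fun i => P.v i - z) (fun k => κ k.1)) (C : PvtpCuts P z ρ e 10 κ) (nr : PvtpNR P z ρ d e)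
    (hδ : 0 < δ) (hμ : 0 ≤ μ) (hμδ : μ ≤ δ) (hL : ρ' ≤ ‖P.v P.len - z‖)
    (mesh : ∀ k < P.len, (‖P.v k - z‖ ≤ ρ' ∨ ‖P.v (k + 1) - z‖ ≤ ρ') → ‖P.v (k + 1) - P.v k‖ ≤ μ)
    (hab : a ≤ b) (hb : b + 1 < 10) (m n : ℕ) (hd : 2 * ((n + 1 + m : ℕ) + 1) * δ + μ ≤ d)
    (hout : ∀ k, κ (b + 2) ≤ k → k ≤ P.len → ra ≤ ‖P.v k - z‖) (hB : δ * 𝔑.rB + 2 * ((n + 1 : ℕ) + 1) * δ < ra) (hra : 0 ≤ ra) (hρ' : ρ + ra + d + 2 * δ < ρ') :
    ∀ k, κ (b + 2) ≤ k → k ≤ P.len → P.v k - z ∉ pvtU δ (pvtwN n (pvtHull (pvmnBl 𝔑.rB ∪ pvtwN m (pvmnCells τ a b)))) := by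
  have hρ0 : 0 ≤ ρ := (norm_nonneg _).trans (C.win (κ 0) le_rfl (C.le (Nat.zero_le _) le_rfl))
  have hd0 : 0 ≤ d := le_trans (by positivity) hd
  have hρρ : ρ ≤ ρ' := by linarith
  have mesh1 := pvqp_mesh_mono hρρ mesh
  have key := pvtp_escape_fwd (P := pvqpSh P z) (z := 0) (μ := μ) (ρ := ρ') (δ := δ) (S := pvmnBl 𝔑.rB ∪ pvtwN m (pvmnCells τ a b)) (j0 := κ (b + 2))
    hδ hμδ n ?_ (by rw [pvqp_sh_len, pvqp_sh_rad]; exact hL) (pvqp_mesh mesh) ?_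
  · intro k k1 k2
    have := key k k1 k2
    rwa [pvtp_fat_eq, pvqp_sh_v] at this
  · intro p hp
    have h1 : ∀ q ∈ pvtU δ (pvtN8^[n] (pvmnBl 𝔑.rB ∪ pvtwN m (pvmnCells τ a b))), ‖q - 0‖ ≤ ρ + ra + d := by
      intro q hq
      have hq' : (q + z) - z ∈ pvtU δ (pvtN8^[n] (pvmnBl 𝔑.rB ∪ pvtwN m (pvmnCells τ a b))) := by rwa [add_sub_cancel_right]
      rcases pvqp_S_near F C hδ hμ mesh1 hab (by omega) m n hq' with h | ⟨s, s1, s2, s3⟩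
      · rw [add_sub_cancel_right] at h
        rw [sub_zero]
        push_cast at hB
        nlinarith
      · have h2 := C.win s ((C.le (Nat.zero_le a) (by omega)).trans s1) (s2.trans (C.le (by omega) le_rfl))
        have h3 := pvtp_tri (q + z) (P.v s) z
        rw [add_sub_cancel_right] at h3
        rw [sub_zero]
        push_cast at hd s3
        nlinarith
    have := pvqp_hull_rad hδ h1 p hp
    linarith
  · intro k k1 k2 hk
    rw [pvqp_sh_len] at k2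
    rw [pvqp_sh_v] at hk
    rcases pvqp_S_near F C hδ hμ mesh1 hab (by omega) m (n + 1) hk with h | ⟨s, s1, s2, s3⟩
    · have := hout k k1 k2
      linarith
    · have h2 := C.stretch_ge nr (a := a) (b := b + 1) hb s1 s2 (by omega) k1 k2
      rw [norm_sub_rev] at h2
      linarith

/-- **M7 (vi) REST / ESCAPE, backward.**      `S = Bl(rB) ∪ N^m Cells(pieces a+1..b)`.   All the vertices of the rim before the mark `a` miss the `n`-th collar of `z + U(Hull S)`. -/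
theorem pvqp_rest_bwd (F : PvmnFits τ δ (fun i => P.v i - z) (fun k => κ k.1)) (C : PvtpCuts P z ρ e 10 κ) (nr : PvtpNR P z ρ d e)
    (hδ : 0 < δ) (hμ : 0 ≤ μ) (hμδ : μ ≤ δ) (h0 : ρ' ≤ ‖P.v 0 - z‖)
    (mesh : ∀ k < P.len, (‖P.v k - z‖ ≤ ρ' ∨ ‖P.v (k + 1) - z‖ ≤ ρ') → ‖P.v (k + 1) - P.v k‖ ≤ μ)
    (hab : a + 1 ≤ b) (hb : b < 10) (m n : ℕ) (hd : 2 * ((n + 1 + m : ℕ) + 1) * δ + μ ≤ d)
    (hout : ∀ k, k ≤ κ a → ra ≤ ‖P.v k - z‖) (hB : δ * 𝔑.rB + 2 * ((n + 1 : ℕ) + 1) * δ < ra) (hra : 0 ≤ ra) (hρ' : ρ + ra + d + 2 * δ < ρ') :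
    ∀ k, k ≤ κ a → P.v k - z ∉ pvtU δ (pvtwN n (pvtHull (pvmnBl 𝔑.rB ∪ pvtwN m (pvmnCells τ (a + 1) b)))) := by
  have hρ0 : 0 ≤ ρ := (norm_nonneg _).trans (C.win (κ 0) le_rfl (C.le (Nat.zero_le _) le_rfl))
  have hd0 : 0 ≤ d := le_trans (by positivity) hd
  have hρρ : ρ ≤ ρ' := by linarith
  have mesh1 := pvqp_mesh_mono hρρ mesh
  have key := pvtp_escape_bwd (P := pvqpSh P z) (z := 0) (μ := μ) (ρ := ρ') (δ := δ) (S := pvmnBl 𝔑.rB ∪ pvtwN m (pvmnCells τ (a + 1) b)) (j0 := κ a)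
    hδ hμδ n ?_ (by rw [pvqp_sh_rad]; exact h0) (pvqp_mesh mesh) (by rw [pvqp_sh_len]; exact (C.le (by omega : a ≤ 10) le_rfl).trans C.le_len) ?_
  · intro k k1
    have := key k k1
    rwa [pvtp_fat_eq, pvqp_sh_v] at this
  · intro p hp
    have h1 : ∀ q ∈ pvtU δ (pvtN8^[n] (pvmnBl 𝔑.rB ∪ pvtwN m (pvmnCells τ (a + 1) b))), ‖q - 0‖ ≤ ρ + ra + d := by
      intro q hq
      have hq' : (q + z) - z ∈ pvtU δ (pvtN8^[n] (pvmnBl 𝔑.rB ∪ pvtwN m (pvmnCells τ (a + 1) b))) := by rwa [add_sub_cancel_right]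
      rcases pvqp_S_near F C hδ hμ mesh1 hab hb m n hq' with h | ⟨s, s1, s2, s3⟩
      · rw [add_sub_cancel_right] at h
        rw [sub_zero]
        push_cast at hB
        nlinarith
      · have h2 := C.win s ((C.le (Nat.zero_le _) (by omega)).trans s1) (s2.trans (C.le (by omega) le_rfl))
        have h3 := pvtp_tri (q + z) (P.v s) z
        rw [add_sub_cancel_right] at h3
        rw [sub_zero]
        push_cast at hd s3
        nlinarith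
    have := pvqp_hull_rad hδ h1 p hp
    linarith
  · intro k k1 hk
    rw [pvqp_sh_v] at hk
    rcases pvqp_S_near F C hδ hμ mesh1 hab hb m (n + 1) hk with h | ⟨s, s1, s2, s3⟩
    · have := hout k k1
      linarith
    · have h2 := C.stretch_le nr (a := a + 1) (b := b + 1) (by omega) (by omega) s1 s2 (by omega) (by simpa using k1)
      linarith

end rest

/-! ## §5 tubes: TRACK (i), separation of the tubes from the continuations (M8 (c)), the lanes miss the rim (P11) -/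

section tubes

variable {P : PvbRim} {z : ℂ} {a b j m k : ℕ} {μ ρ d e δ : ℝ} {κ : ℕ → ℕ} {τ : PvmnType} {p q : ℂ} {E : Set (ℤ × ℤ)}

/-- **M7 (i) TRACK**: the `mδ`-neighbourhood of the stretch lies in the `m`-th collar of its cells -/
theorem pvqp_cover (F : PvmnFits τ δ (fun i => P.v i - z) (fun k => κ k.1)) (hδ : 0 < δ) (hab : a ≤ b) (hb : b < 10)
    (hp : p ∈ pvtxPoly (fun i => P.v i - z) (κ a) (κ (b + 1))) (hq : ‖q - p‖ ≤ m * δ) : q ∈ pvtU δ (pvtwN m (pvmnCells τ a b)) := by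
  rw [pvqp_cells F hab hb]
  exact pvtw_U_near hδ (pvt_cells_cover hδ hp) hq

theorem pvqp_cover_vert (F : PvmnFits τ δ (fun i => P.v i - z) (fun k => κ k.1)) (hδ : 0 < δ) (hab : a ≤ b) (hb : b < 10)
    (h1 : κ a ≤ j) (h2 : j ≤ κ (b + 1)) (hq : ‖q - P.v j‖ ≤ m * δ) : q - z ∈ pvtU δ (pvtwN m (pvmnCells τ a b)) :=
  pvqp_cover F hδ hab hb (pvtx_vertex_mem (v := fun i => P.v i - z) h1 h2) (by rw [sub_sub_sub_cancel_right]; exact hq)

/-- (k3): a point of the `m`-th collar of the cells of a stretch is close to a vertex of the stretch -/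
theorem pvqp_tube_near (F : PvmnFits τ δ (fun i => P.v i - z) (fun k => κ k.1)) (C : PvtpCuts P z ρ e 10 κ) (hδ : 0 < δ) (hμ : 0 ≤ μ)
    (mesh : ∀ k < P.len, (‖P.v k - z‖ ≤ ρ ∨ ‖P.v (k + 1) - z‖ ≤ ρ) → ‖P.v (k + 1) - P.v k‖ ≤ μ)
    (hab : a ≤ b) (hb : b < 10) (hp : p - z ∈ pvtU δ (pvtwN m (pvmnCells τ a b))) :
    ∃ s, κ a ≤ s ∧ s ≤ κ (b + 1) ∧ ‖p - P.v s‖ ≤ 2 * (m + 1) * δ + μ := by
  rw [← pvtp_fat_eq, pvqp_cells' F hab hb] at hp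
  obtain ⟨s, s1, s2, s3⟩ := (pvqp_cuts.2 C).C_near hδ hμ (pvqp_mesh mesh) (by omega : a ≤ b + 1) (by omega) hp
  rw [pvqp_sh_v, sub_sub_sub_cancel_right] at s3
  exact ⟨s, s1, s2, s3⟩

/-- **M8 (c)**, forward: everything after the mark `b + 2` is far from the tube of the pieces `a..b` -/
theorem pvqp_tube_fwd (F : PvmnFits τ δ (fun i => P.v i - z) (fun k => κ k.1)) (C : PvtpCuts P z ρ e 10 κ) (nr : PvtpNR P z ρ d e) (hδ : 0 < δ) (hμ : 0 ≤ μ)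
    (mesh : ∀ k < P.len, (‖P.v k - z‖ ≤ ρ ∨ ‖P.v (k + 1) - z‖ ≤ ρ) → ‖P.v (k + 1) - P.v k‖ ≤ μ)
    (hab : a ≤ b) (hb : b + 1 < 10) (hp : p - z ∈ pvtU δ (pvtwN m (pvmnCells τ a b))) (h1 : κ (b + 2) ≤ j) (h2 : j ≤ P.len) :
    d - (2 * (m + 1) * δ + μ) < ‖P.v j - p‖ := by
  obtain ⟨s, s1, s2, s3⟩ := pvqp_tube_near F C hδ hμ mesh hab (by omega) hp
  have h3 := C.stretch_ge nr (a := a) (b := b + 1) hb s1 s2 (by omega) h1 h2
  have := pvtp_tri (P.v s) p (P.v j)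
  rw [norm_sub_rev (P.v s) p, norm_sub_rev p (P.v j)] at this
  linarith

/-- **M8 (c)**, backward: everything before the mark `a` is far from the tube of the pieces `a+1..b` -/
theorem pvqp_tube_bwd (F : PvmnFits τ δ (fun i => P.v i - z) (fun k => κ k.1)) (C : PvtpCuts P z ρ e 10 κ) (nr : PvtpNR P z ρ d e) (hδ : 0 < δ) (hμ : 0 ≤ μ)
    (mesh : ∀ k < P.len, (‖P.v k - z‖ ≤ ρ ∨ ‖P.v (k + 1) - z‖ ≤ ρ) → ‖P.v (k + 1) - P.v k‖ ≤ μ)
    (hab : a + 1 ≤ b) (hb : b < 10) (hp : p - z ∈ pvtU δ (pvtwN m (pvmnCells τ (a + 1) b))) (h1 : j ≤ κ a) :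
    d - (2 * (m + 1) * δ + μ) < ‖P.v j - p‖ := by
  obtain ⟨s, s1, s2, s3⟩ := pvqp_tube_near F C hδ hμ mesh hab hb hp
  have h3 := C.stretch_le nr (a := a + 1) (b := b + 1) (by omega) (by omega) s1 s2 (by omega) (by simpa using h1)
  have := pvtp_tri (P.v j) p (P.v s)
  linarith

/-- only the chain itself enters the tube of its inner pieces -/
theorem pvqp_tube_only (F : PvmnFits τ δ (fun i => P.v i - z) (fun k => κ k.1)) (C : PvtpCuts P z ρ e 10 κ) (nr : PvtpNR P z ρ d e) (hδ : 0 < δ) (hμ : 0 ≤ μ)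
    (mesh : ∀ k < P.len, (‖P.v k - z‖ ≤ ρ ∨ ‖P.v (k + 1) - z‖ ≤ ρ) → ‖P.v (k + 1) - P.v k‖ ≤ μ)
    (hab : a + 1 ≤ b) (hb : b + 1 < 10) (hd : 2 * (m + 1) * δ + μ ≤ d) (hj : j ≤ P.len) (hp : P.v j - z ∈ pvtU δ (pvtwN m (pvmnCells τ (a + 1) b))) :
    κ a < j ∧ j < κ (b + 2) := by
  constructor
  · by_contra hc
    have := pvqp_tube_bwd F C nr hδ hμ mesh hab (by omega) hp (not_lt.1 hc)
    rw [sub_self, norm_zero] at this
    linarith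
  · by_contra hc
    have := pvqp_tube_fwd F C nr hδ hμ mesh hab hb hp (not_lt.1 hc) hj
    rw [sub_self, norm_zero] at this
    linarith

/-- a vertex of the stretch lies in `U(N^m E)` only if `E` meets the `m`-th collar of the cells of the stretch -/
theorem pvqp_chain_core (F : PvmnFits τ δ (fun i => P.v i - z) (fun k => κ k.1)) (hab : a ≤ b) (hb : b < 10)
    (h1 : κ a ≤ j) (h2 : j ≤ κ (b + 1)) (hp : P.v j - z ∈ pvtU δ (pvtwN m E)) : ∃ c ∈ E, c ∈ pvtwN m (pvmnCells τ a b) := by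
  obtain ⟨c', hc', hsq⟩ := Set.mem_iUnion₂.1 hp
  obtain ⟨c, hc, hcc⟩ := pvtw_N_iff.1 hc'
  refine ⟨c, hc, pvtw_N_iff.2 ⟨c', ?_, pvtw_N_symm hcc⟩⟩
  rw [pvqp_cells F hab hb]
  exact ⟨P.v j - z, hsq, pvtx_vertex_mem (v := fun i => P.v i - z) h1 h2⟩

/-- **P11: the rim misses the `m`-th collar of a lane.**      `M` = set of cells off the `m`-th collar of the cells of the whole chain (e.g. off `K3`, `m ≤ 4`) and inside the `k`-th collar of the cells of the pieces `1..8`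
(a lane of `K3` off the two end doors: `k = 5`). -/
theorem pvqp_lane_miss (F : PvmnFits τ δ (fun i => P.v i - z) (fun k => κ k.1)) (C : PvtpCuts P z ρ e 10 κ) (nr : PvtpNR P z ρ d e) (hδ : 0 < δ) (hμ : 0 ≤ μ)
    (mesh : ∀ k < P.len, (‖P.v k - z‖ ≤ ρ ∨ ‖P.v (k + 1) - z‖ ≤ ρ) → ‖P.v (k + 1) - P.v k‖ ≤ μ)
    (hE1 : E ⊆ pvtwN k (pvmnCells τ 1 8)) (hE2 : Disjoint E (pvtwN m (pvmnCells τ 0 9))) (hd : 2 * ((m + k : ℕ) + 1) * δ + μ ≤ d) (hj : j ≤ P.len) :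
    P.v j - z ∉ pvtU δ (pvtwN m E) := by
  intro hp
  have hp' : P.v j - z ∈ pvtU δ (pvtwN (m + k) (pvmnCells τ (0 + 1) 8)) := by
    rw [← pvtw_N_add]
    exact pvt_U_mono (pvtw_N_mono le_rfl hE1) hp
  obtain ⟨h1, h2⟩ := pvqp_tube_only F C nr hδ hμ mesh (by omega) (by omega) hd hj hp'
  obtain ⟨c, hc, hc'⟩ := pvqp_chain_core F (by omega : 0 ≤ 9) (by omega) h1.le h2.le hp
  exact Set.disjoint_left.1 hE2 hc hc'

end tubes

end Claimed.Agent.R289
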