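-- KEEP
import Claimed.Agent.R289.Tr.CycD
import Claimed.Agent.R289.Tr.AtUniq

/-!
# Row 289 (S0537), THE WALL, ROAD E, file Tr/InstEKG : (K3) THE WINDOW OF ONE THICK LINK MISSES THE ATOM OF THE OTHER ONE      (helper99; prefix `pvks_`)

At the names of `Tr/InstL` v2.2 = THE FROZEN TEXT (hull `Z` = the `δ`-cells of the frozen positions `F` AND of the mouth ball `closedBall y^∓ (ρ h)`; window part `pvilWz = Fat Z ∩ pvilBx`, `pvilBx = z + pviwBox`).      Everything PROVED (0 sorry).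
`h = pvlmH m`, `δ = pvlmDel c m`, `y⁺ = z + h yp`, `y⁻ = z + h ym`.
* sec. 1  `pvks_Zi_sub`, `pvks_Zo_sub` : `Z ⊆ pvtCells δ (F ∪ mouth ball)`;   `pvks_fat_mono`, `pvks_fat_near3` (a point of `Fat (cells F)` is within `3 δ` of `F`)      [any configuration]
* sec. 2  `pvks_Fi_box`, `pvks_Fo_box` : `F ⊆ pvwSq z R` as soon as the disc of the gate lies in the own-level box      [any configuration; not used below]
* sec. 3  `pvks_Fi_far`, `pvks_Fo_far` : AT A FULL STATE the positions frozen by `Σ_in` (`Σ_out`) are `2 ρ h` away from `y⁺` (`y⁻`)      [uniqueness of the half states, 150, + `far_p far_m`]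
* sec. 4  **`pvks_fatI_mouth`**, `pvks_fatO_mouth` : at a full state, tips `7 ρ / 4` apart: a mouth inside `closedBall (h yp) r`, `r + 3 δ < 3 ρ h / 4`, (RELATIVE to the centre) misses `Fat (Z_in)`;      **`pvks_Wz_tile`** : a tile off `pviwBox` misses `pvilWz Z`, ANY `Z`
* sec. 5  **`pvks_Wne_tile`, `pvks_Wne_mouth`** : the window `pvilWne` of the thick link against the tile / the mouth of the return
-/

set_option autoImplicit false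

namespace Claimed.Agent.R289

open Set Metric Claims.C0465

/-! ## 0. model free -/

theorem pvks_fat_mono (δ : ℝ) {Z Z' : Set (ℤ × ℤ)} (h : Z ⊆ Z') : pvilFat δ Z ⊆ pvilFat δ Z' :=
  pvt_U_mono fun _ ⟨q, hq, e⟩ => ⟨q, h hq, e⟩

/-- a point of `Fat (cells F)` is within `3 δ` of a point of `F` -/
theorem pvks_fat_near3 {δ : ℝ} (hδ : 0 ≤ δ) {F : Set ℂ} {w : ℂ} (hw : w ∈ pvilFat δ (pvtCells δ F)) : ∃ v ∈ F, ‖w - v‖ ≤ 3 * δ := by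
  obtain ⟨v, hv, h1, h2⟩ := pvjh_fat_near hδ hw
  refine ⟨v, hv, ?_⟩
  have h3 : ‖w - v‖ ^ 2 ≤ (3 * δ) ^ 2 := by
    rw [Complex.sq_norm, Complex.normSq_apply]
    have a1 := abs_le.1 h1
    have a2 := abs_le.1 h2
    nlinarith
  exact (pow_le_pow_iff_left₀ (norm_nonneg _) (by positivity) two_ne_zero).1 h3

theorem pvks_ball_sq {z w : ℂ} {r : ℝ} (h : ‖w - z‖ ≤ r) : w ∈ pvwSq z r :=
  ⟨(Complex.abs_re_le_norm _).trans h, (Complex.abs_im_le_norm _).trans h⟩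

theorem pvks_sh_sq (z : ℂ) (r : ℝ) : pvieSh z (pvwSq 0 r) = pvwSq z r := by
  ext w
  constructor
  · rintro ⟨x, hx, rfl⟩
    have e : z + x - z = x - 0 := by ring
    show |(z + x - z).re| ≤ r ∧ |(z + x - z).im| ≤ r
    rw [e]; exact hx
  · intro hw
    refine ⟨w - z, ?_, by ring⟩
    show |(w - z - 0).re| ≤ r ∧ |(w - z - 0).im| ≤ r
    rw [sub_zero]; exact hw

theorem pvks_std_pos (p : PviePl) (η : Conf PvPt) : p.std.pos η = pviePos η := by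
  funext v
  simp [PvilPl.pos, PviePl.std]

theorem pvks_std_zf (p : PviePl) : p.std.zf = p.z := by
  simp [PvilPl.zf, PviePl.std]

theorem pvks_in_st {N : PvwNum} {b : Bool} {p : PviePl} {η : Conf PvPt} {𝔖 : PvwSt (pvieT η)} (h : PvilIn N b p.std η 𝔖) : 𝔖.AtIn (pviePos η) N p.h p.z p.ty (pvieCol η b) := by
  have hst := h.st
  rw [pvks_std_pos, pvks_std_zf] at hst
  exact hst

theorem pvks_out_st {N : PvwNum} {b : Bool} {p : PviePl} {η : Conf PvPt} {𝔖 : PvwSt (pvieT η)} (h : PvilOut N b p.std η 𝔖) : 𝔖.AtOut (pviePos η) N p.h p.z p.ty (pvieCol η b) := by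
  have hst := h.st
  rw [pvks_std_pos, pvks_std_zf] at hst
  exact hst

section geo

variable {τ : Type} {c : ℝ} (𝔓 : PvxPar τ c) (m : ℕ) (z : ℂ) (t : τ) (η : Conf PvPt)

/-! ## 1. the hull -/

theorem pvks_Zi_sub : pvilZi 𝔓 m z t η ⊆ pvtCells (pvlmDel c m) (pvilFi 𝔓 m z t η ∪ closedBall (z + (pvlmH m : ℂ) * (𝔓.ty t).ym) (𝔓.num.rho * pvlmH m)) := by
  rintro q ⟨𝔖, h, x, hx, hx'⟩
  refine ⟨x, hx, ?_⟩
  rcases hx' with ⟨u, hu, e⟩ | hb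
  · exact Or.inl ⟨𝔖, h, u, hu, e⟩
  · exact Or.inr hb

theorem pvks_Zo_sub : pvilZo 𝔓 m z t η ⊆ pvtCells (pvlmDel c m) (pvilFo 𝔓 m z t η ∪ closedBall (z + (pvlmH m : ℂ) * (𝔓.ty t).yp) (𝔓.num.rho * pvlmH m)) := by
  rintro q ⟨𝔖, h, x, hx, hx'⟩
  refine ⟨x, hx, ?_⟩
  rcases hx' with ⟨u, hu, e⟩ | hb
  · exact Or.inl ⟨𝔖, h, u, hu, e⟩
  · exact Or.inr hb

variable {𝔓 m z t η}

/-! ## 2. the frozen positions lie in the own-level box -/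

theorem pvks_Fi_box (hb : (𝔓.ty t).b ≤ 2 * (𝔓.ty t).b2 + (𝔓.ty t).k * 𝔓.num.rho1) : pvilFi 𝔓 m z t η ⊆ pvwSq z (pviwRad 𝔓 m t) := by
  rintro _ ⟨𝔖, h, v, hv, rfl⟩
  have hst : 𝔖.AtIn (pviePos η) 𝔓.num (pvlmH m) z (𝔓.ty t) (pvieCol η (𝔓.col t)) := pvks_in_st (p := 𝔓.pl m z t) h
  rcases hv with (hv | ⟨i, hi, rfl⟩) | ⟨i, hi, rfl⟩
  · have h0 : v ∈ 𝔖.dsc := hv
    rw [hst.gate.dsc_eq] at h0
    have h1 : ‖pviePos η v - z‖ < (𝔓.ty t).b * pvlmH m := h0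
    refine pvks_ball_sq (h1.le.trans ?_)
    exact mul_le_mul_of_nonneg_right hb (pvlm_H_pos m).le
  · exact (hst.stub.em_in i hi).1
  · exact (hst.stub.em_in i hi).2

theorem pvks_Fo_box (hb : (𝔓.ty t).b ≤ 2 * (𝔓.ty t).b2 + (𝔓.ty t).k * 𝔓.num.rho1) : pvilFo 𝔓 m z t η ⊆ pvwSq z (pviwRad 𝔓 m t) := by
  rintro _ ⟨𝔖, h, v, hv, rfl⟩
  have hst : 𝔖.AtOut (pviePos η) 𝔓.num (pvlmH m) z (𝔓.ty t) (pvieCol η (𝔓.col t)) := pvks_out_st (p := 𝔓.pl m z t) h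
  rcases hv with (hv | ⟨i, hi, rfl⟩) | ⟨i, hi, rfl⟩
  · have h0 : v ∈ 𝔖.dsc := hv
    rw [hst.gate.dsc_eq] at h0
    have h1 : ‖pviePos η v - z‖ < (𝔓.ty t).b * pvlmH m := h0
    refine pvks_ball_sq (h1.le.trans ?_)
    exact mul_le_mul_of_nonneg_right hb (pvlm_H_pos m).le
  · exact (hst.stub.ep_in i hi).1
  · exact (hst.stub.ep_in i hi).2

/-! ## 3. at a full state: the frozen positions of one half are far from the mouth of the other half -/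

theorem pvks_Fi_far (hU : η ∈ pvilU 𝔓.num (𝔓.col t) (pvilPin 𝔓 m z t)) : ∀ v ∈ pvilFi 𝔓 m z t η, 2 * 𝔓.num.rho * pvlmH m < ‖v - (z + (pvlmH m : ℂ) * (𝔓.ty t).yp)‖ := by
  obtain ⟨𝔖₀, h0⟩ := hU
  rintro _ ⟨𝔖, h, v, hv, rfl⟩
  have e := pvuq_del_in h.good (pvks_in_st (p := 𝔓.pl m z t) h) (pvks_in_st (p := 𝔓.pl m z t) h0.inn)
  have hv' : v ∈ 𝔖₀.fzIn := (Set.ext_iff.1 (e.1.fzIn e.2) v).1 hv
  have k := h0.far_p v hv'
  have e1 : (pvilPin 𝔓 m z t).pos η = pviePos η := pvks_std_pos (𝔓.pl m z t) η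
  have e2 : (pvilPin 𝔓 m z t).zf = z := pvks_std_zf (𝔓.pl m z t)
  rw [e1, e2] at k
  exact k

theorem pvks_Fo_far (hU : η ∈ pvilU 𝔓.num (𝔓.col t) (pvilPin 𝔓 m z t)) : ∀ v ∈ pvilFo 𝔓 m z t η, 2 * 𝔓.num.rho * pvlmH m < ‖v - (z + (pvlmH m : ℂ) * (𝔓.ty t).ym)‖ := by
  obtain ⟨𝔖₀, h0⟩ := hU
  rintro _ ⟨𝔖, h, v, hv, rfl⟩
  have e := pvuq_del_out h.good (pvks_out_st (p := 𝔓.pl m z t) h) (pvks_out_st (p := 𝔓.pl m z t) h0.out)
  have hv' : v ∈ 𝔖₀.fzOut := (Set.ext_iff.1 (e.1.fzOut e.2) v).1 hv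
  have k := h0.far_m v hv'
  have e1 : (pvilPin 𝔓 m z t).pos η = pviePos η := pvks_std_pos (𝔓.pl m z t) η
  have e2 : (pvilPin 𝔓 m z t).zf = z := pvks_std_zf (𝔓.pl m z t)
  rw [e1, e2] at k
  exact k

/-! ## 4. mouths and tiles (RELATIVE to the centre) against the fattened hulls -/

/-- model free core: `F` is `2 R` away from `a`, the ball `closedBall b R` with `7 R / 4 ≤ ‖a - b‖`: `Fat (cells (F ∪ ball))` misses `closedBall a r` -/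
theorem pvks_fat_miss {δ R r : ℝ} (hδ : 0 ≤ δ) (hR : 0 ≤ R) (hr : r + 3 * δ < 3 * R / 4) {F : Set ℂ} {a b : ℂ} (hF : ∀ v ∈ F, 2 * R < ‖v - a‖) (hab : 7 * R / 4 ≤ ‖a - b‖)
    {w : ℂ} (hw : w ∈ pvilFat δ (pvtCells δ (F ∪ closedBall b R))) : r < ‖w - a‖ := by
  obtain ⟨v, hv, h3⟩ := pvks_fat_near3 hδ hw
  rcases hv with hv | hv
  · have h4 : ‖v - a‖ ≤ ‖w - a‖ + ‖w - v‖ := by
      have e : v - a = (w - a) - (w - v) := by ring
      rw [e]; exact norm_sub_le _ _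
    linarith [hF v hv]
  · rw [mem_closedBall_iff_norm] at hv
    have h4 : ‖a - b‖ ≤ ‖w - a‖ + ‖w - v‖ + ‖v - b‖ := by
      have e : a - b = (w - v) - (w - a) + (v - b) := by ring
      rw [e]
      refine (norm_add_le _ _).trans ?_
      have := norm_sub_le (w - v) (w - a)
      linarith
    linarith

theorem pvks_tips (h : 7 * 𝔓.num.rho / 4 ≤ ‖(𝔓.ty t).yp - (𝔓.ty t).ym‖) (m : ℕ) (z : ℂ) :
    7 * (𝔓.num.rho * pvlmH m) / 4 ≤ ‖(z + (pvlmH m : ℂ) * (𝔓.ty t).yp) - (z + (pvlmH m : ℂ) * (𝔓.ty t).ym)‖ := by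
  have e : (z + (pvlmH m : ℂ) * (𝔓.ty t).yp) - (z + (pvlmH m : ℂ) * (𝔓.ty t).ym) = (pvlmH m : ℂ) * ((𝔓.ty t).yp - (𝔓.ty t).ym) := by ring
  rw [e, norm_mul, Complex.norm_real, Real.norm_of_nonneg (pvlm_H_pos m).le]
  have := mul_le_mul_of_nonneg_left h (pvlm_H_pos m).le
  linarith

/-- **the EXIT mouth misses the fattened hull of `Σ_in`** -/
theorem pvks_fatI_mouth (hδ : 0 ≤ pvlmDel c m) (hρ : 0 ≤ 𝔓.num.rho) (ht : 7 * 𝔓.num.rho / 4 ≤ ‖(𝔓.ty t).yp - (𝔓.ty t).ym‖) (hU : η ∈ pvilU 𝔓.num (𝔓.col t) (pvilPin 𝔓 m z t))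
    {M : Set ℂ} {r : ℝ} (hr : r + 3 * pvlmDel c m < 3 * (𝔓.num.rho * pvlmH m) / 4) (hM : M ⊆ closedBall ((pvlmH m : ℂ) * (𝔓.ty t).yp) r) :
    Disjoint (pvilFat (pvlmDel c m) (pvilZi 𝔓 m z t η)) (pvieSh z M) := by
  rw [Set.disjoint_left]
  rintro _ hw ⟨x, hx, rfl⟩
  have h1 := pvks_fat_miss (R := 𝔓.num.rho * pvlmH m) hδ (mul_nonneg hρ (pvlm_H_pos m).le) hr (fun v hv => by have := pvks_Fi_far hU v hv; linarith) (pvks_tips ht m z)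
    (pvks_fat_mono _ (pvks_Zi_sub 𝔓 m z t η) hw)
  have h2 := hM hx
  rw [mem_closedBall_iff_norm] at h2
  have e : z + x - (z + (pvlmH m : ℂ) * (𝔓.ty t).yp) = x - (pvlmH m : ℂ) * (𝔓.ty t).yp := by ring
  rw [e] at h1
  linarith

/-- **the ENTRANCE mouth misses the fattened hull of `Σ_out`** -/
theorem pvks_fatO_mouth (hδ : 0 ≤ pvlmDel c m) (hρ : 0 ≤ 𝔓.num.rho) (ht : 7 * 𝔓.num.rho / 4 ≤ ‖(𝔓.ty t).yp - (𝔓.ty t).ym‖) (hU : η ∈ pvilU 𝔓.num (𝔓.col t) (pvilPin 𝔓 m z t))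
    {M : Set ℂ} {r : ℝ} (hr : r + 3 * pvlmDel c m < 3 * (𝔓.num.rho * pvlmH m) / 4) (hM : M ⊆ closedBall ((pvlmH m : ℂ) * (𝔓.ty t).ym) r) :
    Disjoint (pvilFat (pvlmDel c m) (pvilZo 𝔓 m z t η)) (pvieSh z M) := by
  rw [Set.disjoint_left]
  rintro _ hw ⟨x, hx, rfl⟩
  have h1 := pvks_fat_miss (R := 𝔓.num.rho * pvlmH m) hδ (mul_nonneg hρ (pvlm_H_pos m).le) hr (fun v hv => by have := pvks_Fo_far hU v hv; linarith)
    (by rw [norm_sub_rev]; exact pvks_tips ht m z) (pvks_fat_mono _ (pvks_Zo_sub 𝔓 m z t η) hw)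
  have h2 := hM hx
  rw [mem_closedBall_iff_norm] at h2
  have e : z + x - (z + (pvlmH m : ℂ) * (𝔓.ty t).ym) = x - (pvlmH m : ℂ) * (𝔓.ty t).ym := by ring
  rw [e] at h1
  linarith

theorem pvks_Bx_sh (𝔓 : PvxPar τ c) (m : ℕ) (z : ℂ) (t : τ) : pvilBx 𝔓 m z t = pvieSh z (pviwBox 𝔓 m t) := (pvks_sh_sq z _).symm

/-- **a tile off the own-level box with the collar `δ` misses `pvilWz Z`**, ANY `Z` -/
theorem pvks_Wz_tile {K : Set ℂ} (hK : Disjoint K (pviwBox 𝔓 m t)) (z : ℂ) (Z : Set (ℤ × ℤ)) : Disjoint (pvilWz 𝔓 m z t Z) (pvieSh z K) := by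
  have h1 : Disjoint (pvieSh z K) (pvilBx 𝔓 m z t) := by rw [pvks_Bx_sh]; exact (pvjh_sh_disj z).2 hK
  exact (h1.mono_right inter_subset_right).symm

/-! ## 5. the window of the thick link -/

variable {𝔈 : PvieEng τ}

/-- the window of the thick link misses a tile `K` (relative to the centre), ANY `Z` -/
theorem pvks_Wne_tile {K : Set ℂ} (h0 : Disjoint K (pviwBox 𝔓 m t)) (h1 : Disjoint (𝔈.eM m t) K) (h2 : Disjoint (𝔈.eK m t) K) (h3 : Disjoint (pviwRo 𝔓 𝔈 m t) K) (z : ℂ) (Z : Set (ℤ × ℤ)) :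
    Disjoint (pvilWne 𝔓 𝔈 m z t Z) (pvieSh z K) := by
  unfold pvilWne
  rw [pvjh_ro_sh]
  exact (((pvks_Wz_tile h0 z Z).union_left ((pvjh_sh_disj z).2 h1)).union_left ((pvjh_sh_disj z).2 h2)).union_left ((pvjh_sh_disj z).2 h3)

/-- the window of the thick link AT THE HULL OF A FULL STATE misses the exit mouth `M` (relative to the centre) -/
theorem pvks_Wne_mouth (hδ : 0 ≤ pvlmDel c m) (hρ : 0 ≤ 𝔓.num.rho) (ht : 7 * 𝔓.num.rho / 4 ≤ ‖(𝔓.ty t).yp - (𝔓.ty t).ym‖) (hU : η ∈ pvilU 𝔓.num (𝔓.col t) (pvilPin 𝔓 m z t))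
    {M : Set ℂ} {r : ℝ} (hr : r + 3 * pvlmDel c m < 3 * (𝔓.num.rho * pvlmH m) / 4) (hM : M ⊆ closedBall ((pvlmH m : ℂ) * (𝔓.ty t).yp) r)
    (h1 : Disjoint (𝔈.eM m t) M) (h2 : Disjoint (𝔈.eK m t) M) (h3 : Disjoint (pviwRo 𝔓 𝔈 m t) M) :
    Disjoint (pvilWne 𝔓 𝔈 m z t (pvilZi 𝔓 m z t η)) (pvieSh z M) := by
  unfold pvilWne
  rw [pvjh_ro_sh]
  exact (((((pvks_fatI_mouth hδ hρ ht hU hr hM).mono_left inter_subset_left)).union_left ((pvjh_sh_disj z).2 h1)).union_left ((pvjh_sh_disj z).2 h2)).union_left ((pvjh_sh_disj z).2 h3)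

end geo

end Claimed.Agent.R289
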