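-- KEEP
import Claimed.Agent.R289.Tr.SqFin

/-!
# Row 289 (S0537), THE WALL, ROAD E, file Tr/NullG : NULL AVOIDANCE FOR GLOBAL PROPERTIES      (helper142, cutter of `exit_pvyq_pair`; prefix `pvyu_`)

`Tr/SqFin` (193): an a.s. property READ IN A BOUNDED WINDOW holds for a.e. seed of every experiment, all the colours of the base, all `y`.
The bridge soft `⟶` plain (`pvsu_sure_sub`: a.s. `Sure M ⊆ M`, `M` = a PLAIN event of the global plane map) is NOT read in a window.      HERE: NO WINDOW, the ACTUAL colours of the base, the recoloured sites inside ONE bounded Borel region `U`: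
* `pvyu_ae_col`   an a.s. property holds a.s. for ALL the recolourings of the sites over `U`
* **`pvyu_ae_exp`** : `(∀ᵐ η, P η) ⟹ ∀ᵐ ω, ∀ y ⊆ U, ∀ᵐ p, P (pvdyR C (fun _ => y) ω p)`.      JOINT a.e. in `ω` (not quenched), NO measurability of `P`, NO stopping property of the choice of `y` (all the `y ⊆ U` at once: mouths minus frozen sites).
* `pvyu_ae_exp_f` the same at a choice `yf ω ⊆ U`
-/

set_option autoImplicit false

namespace Claimed.Agent.R289

open MeasureTheory Set Filter Topology Claims.C0465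
open scoped ENNReal

/-- **an a.s. property (GLOBAL: no window) holds a.s. for all the recolourings of the sites over a bounded Borel region** -/
theorem pvyu_ae_col (ε : ℝ) {U : Set ℂ} (mU : MeasurableSet U) (hU : Bornology.IsBounded U) {P : Conf PvPt → Prop} (hP : ∀ᵐ ω ∂pvP ε, P ω) :
    ∀ᵐ ω ∂pvP ε, ∀ σ : ℂ → Bool, (∀ z ∈ cfSites ω, z ∉ U → σ z = cfCol ω z) → P (cfOf (cfSites ω) σ) := by
  classical
  obtain ⟨𝒟, h1, h2, h3⟩ := pvsv_sep
  have h4 : ∀ᵐ ω ∂pvP ε, ∀ D ∈ 𝒟, P (Conf.image (pvsvF (D ∩ U)) ω) := (ae_ball_iff h1).2 fun D hD => by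
    have mp : MeasurePreserving (Conf.image (pvsvF (D ∩ U))) (pvP ε) (pvP ε) :=
      ⟨Conf.measurable_image (pvsv_F_meas ((h2 D hD).inter mU)), pvsv_fl_map ((h2 D hD).inter mU) ε⟩
    exact mp.quasiMeasurePreserving.ae hP
  filter_upwards [h4, pvhe_nice_ae ε] with ω h5 h6 σ hσ
  obtain ⟨D, hD, e⟩ := h3 _ (pvsv_fin_of_LF h6.1 hU) {z | z ∈ cfSites ω ∩ U ∧ σ z ≠ cfCol ω z} (fun z hz => hz.1)
  have h7 : P (Conf.image (pvsvF (D ∩ U)) (cfOf (cfSites ω) (cfCol ω))) := by
    rw [← pvsv_conf_of h6.2]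
    exact h5 D hD
  rw [pvsv_fl_cfOf] at h7
  have e2 : cfOf (cfSites ω) σ = cfOf (cfSites ω) fun z => if z ∈ D ∩ U then !cfCol ω z else cfCol ω z := by
    refine pvdy_cfOf_congr fun z hz => ?_
    by_cases hzU : z ∈ U
    · have hD' : z ∈ D ↔ σ z ≠ cfCol ω z := by
        constructor
        · intro hzD
          have : z ∈ D ∩ (cfSites ω ∩ U) := ⟨hzD, hz, hzU⟩
          rw [e] at this
          exact this.2
        · intro hne
          have : z ∈ D ∩ (cfSites ω ∩ U) := by rw [e]; exact ⟨⟨hz, hzU⟩, hne⟩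
          exact this.1
      by_cases hzD : z ∈ D
      · rw [if_pos ⟨hzD, hzU⟩]
        have := hD'.1 hzD
        revert this
        cases σ z <;> cases cfCol ω z <;> simp
      · rw [if_neg fun h => hzD h.1]
        by_contra hne
        exact hzD (hD'.2 hne)
    · rw [if_neg fun h => hzU h.2]
      exact hσ z hz hzU
  rw [e2]
  convert h7

/-- **NULL AVOIDANCE, GLOBAL PROPERTIES**: an a.s. property holds for a.e. seed of every hybrid experiment whose recoloured sites lie in ONE bounded Borel region, at a.e. base configuration -/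
theorem pvyu_ae_exp (ε : ℝ) {C U : Set ℂ} (hC : MeasurableSet C) (mU : MeasurableSet U) (hU : Bornology.IsBounded U) {P : Conf PvPt → Prop} (hP : ∀ᵐ η ∂pvP ε, P η) :
    ∀ᵐ ω ∂pvP ε, ∀ y : Set ℂ, y ⊆ U → ∀ᵐ p ∂pvdyNu ε, P (pvdyR C (fun _ => y) ω p) := by
  classical
  have := (pv_isPpp ε).prob
  have m' : MeasurableSet (toMeasurable (pvP ε) {η | ¬ P η}) := measurableSet_toMeasurable _ _
  have h0' : pvP ε (toMeasurable (pvP ε) {η | ¬ P η}) = 0 := by rw [measure_toMeasurable]; exact ae_iff.1 hP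
  have hO : MeasurableSet (Cᶜ ×ˢ (univ : Set Bool)) := hC.compl.prod MeasurableSet.univ
  let H : Conf PvPt → ℝ≥0∞ := (toMeasurable (pvP ε) {η | ¬ P η}).indicator 1
  have mH : Measurable H := measurable_one.indicator m'
  let G : Conf PvPt → ℝ≥0∞ := fun ω' => ∫⁻ ω₂, H (Conf.spl (Cᶜ ×ˢ univ) (ω', ω₂)) ∂pvP ε
  have mG : Measurable G := (mH.comp (Conf.measurable_spl hO)).lintegral_prod_right'
  have e2 : ∫⁻ ω, H ω ∂pvP ε = ∫⁻ ω, G ω ∂pvP ε := (pv_isPpp ε).lintegral_spl hO mH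
  have h0 : ∀ᵐ ω ∂pvP ε, G ω = 0 := by
    have e3 : ∫⁻ ω, G ω ∂pvP ε = 0 := by rw [← e2, lintegral_indicator_one m', h0']
    exact (lintegral_eq_zero_iff mG).1 e3
  filter_upwards [pvyu_ae_col ε mU hU h0, pvhe_nice_ae ε] with ω h1 h2 y hy
  have hc : (cfSites ω).Countable := pvdy_countable_of_LF h2.1
  have e : ∫⁻ p, H (pvdyR C (fun _ => y) ω p) ∂pvdyNu ε = 0 := by
    rw [pvdy_lintegral_nu ε hC _ mH hc]
    have k : ∀ κ : ℂ → Bool, ∫⁻ ω₂, H (Conf.spl (Cᶜ ×ˢ univ) (pvdyRec y ω κ, ω₂)) ∂pvP ε = 0 := fun κ =>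
      h1 _ fun z _ hz => pvfqMix_of_notMem (fun h => hz (hy h)) _
    simp only [k, lintegral_zero]
  have mS : Measurable fun p => H (pvdyR C (fun _ => y) ω p) := mH.comp (pvdy_measurable_R hC _ hc)
  filter_upwards [(lintegral_eq_zero_iff mS).1 e] with p hp
  by_contra hn
  have hm : pvdyR C (fun _ => y) ω p ∈ toMeasurable (pvP ε) {η | ¬ P η} := subset_toMeasurable _ _ hn
  have : H (pvdyR C (fun _ => y) ω p) = 1 := indicator_of_mem hm _
  rw [this] at hp
  exact one_ne_zero hp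

/-- the same at ANY choice `yf` of the recoloured sites inside `U` (no measurability, no stopping property) -/
theorem pvyu_ae_exp_f (ε : ℝ) {C U : Set ℂ} (hC : MeasurableSet C) (mU : MeasurableSet U) (hU : Bornology.IsBounded U) {P : Conf PvPt → Prop} (hP : ∀ᵐ η ∂pvP ε, P η)
    {yf : Conf PvPt → Set ℂ} (hy : ∀ ω, yf ω ⊆ U) : ∀ᵐ ω ∂pvP ε, ∀ᵐ p ∂pvdyNu ε, P (pvdyR C yf ω p) := by
  filter_upwards [pvyu_ae_exp ε hC mU hU hP] with ω h
  exact h (yf ω) (hy ω)

end Claimed.Agent.R289
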