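-- KEEP
import Claimed.Agent.R289.Tr.AccCb
import Claimed.Agent.R289.Tr.FitL2
import Claimed.Agent.R289.Tr.FitObs

/-!
# Row 289 (S0537, Cardy for Poisson-Voronoi), THE WALL, road E, TR38 = (ACC), file Tr/AccCbM : THE MOUTH HALF OF (S) `exit_pvcb_scene` AT THE MODEL      (helper215; prefix `pvmu_cm_`)

INPUT = the hypotheses of `PvcbSceneAt` (56 `Tr/FitL2`): `𝔓.Wf`, `PvfhWf 𝔓`, `PvcbNum` (eventually true: `pvcb_num`), `PvcbHyp 𝔓 x R m ω P s t 𝔇 j`, the two doors `PvcbDoor`.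
* `pvmu_cm_As`, `pvmu_cm_At`      the two plane half states AT ONE COLOURING `σ = pvxCol ω (𝔓.col s.typ)`
* `pvmu_cm_tip_t`, `pvmu_cm_tip_s`      the mesh of the two tip faces
* **`pvmu_cm_ks`**      the K-side record `PvmuKs` (`Tr/AccCb` §5) at `K = pvcbK 𝔓 m ω s t 𝔇`, at the fronts `pvtCtr δ (pvcbFr a u (pvcbL δ (ρ h)))`, at `r = 11 δ`, `η = δ / 4`, `S = pvxvS2 ρ m + δ`
* **`pvmu_cm_scene`**      the first half of the conclusion of `PvcbSceneAt` from THE OTHER HALF (polygon parts of the witnesses, `far`, `arc` in the shape of `S.arc_Kd` of 10, `core`, ends, `lo_far`)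
-/

set_option autoImplicit false
set_option linter.unusedVariables false

namespace Claimed.Agent.R289

open Set Metric Filter Claims.C0465

section model

variable {τ : Type} {c : ℝ} {𝔓 : PvxPar τ c} {x : ℂ} {R : ℝ} {m : ℕ} {ω : PVSample} {P : PvbRim} {s t : PvbPin τ} {𝔇 : PvwDat (pvxT ω)} {j : ℕ}

theorem pvmu_cm_As (arc : PvfhArc 𝔓 x R m ω P s t 𝔇 j) : 𝔇.s.AtIn (pvxPos ω) 𝔓.num (pvlmH m) s.ctr (𝔓.ty s.typ) (pvxCol ω (𝔓.col s.typ)) := arc.at_s.st.inn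

theorem pvmu_cm_At (arc : PvfhArc 𝔓 x R m ω P s t 𝔇 j) : 𝔇.t.AtOut (pvxPos ω) 𝔓.num (pvlmH m) t.ctr (𝔓.ty t.typ) (pvxCol ω (𝔓.col s.typ)) := by
  rw [arc.col_eq]; exact arc.at_t.st.out

/-- the sides of a face of the plane map with a vertex in `closedBall x (6 R)` -/
theorem pvmu_cm_face {μ : ℝ} (hM : L9Fine (pvxY ω) (closedBall x (6 * R)) μ) (d : (delbPl (pvxY ω)).Dart)
    (hin : pvxPos ω ((pvxT ω).src d) ∈ closedBall x (6 * R) ∨ pvxPos ω ((pvxT ω).tgt d) ∈ closedBall x (6 * R)) :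
    ‖pvxPos ω ((pvxT ω).apex d) - pvxPos ω ((pvxT ω).src d)‖ ≤ μ ∧ ‖pvxPos ω ((pvxT ω).apex d) - pvxPos ω ((pvxT ω).tgt d)‖ ≤ μ := by
  have hf := delb_plane_face (Y := pvxY ω) d
  have key := hM _ _ _ hf (by
    rcases hin with h | h
    · exact Or.inl h
    · exact Or.inr (Or.inl h))
  exact ⟨key.2.1, key.2.2⟩

/-- the input record of (G) (266) under the hypotheses of (S) -/
theorem pvmu_cm_in (hW : 𝔓.Wf) (hP : PvfhWf 𝔓) (hR : 0 < R)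
    (hnum : ∀ ts tt : τ, PvcbNum (pvlmDel c m) (𝔓.num.rho * pvlmH m) R (pvwRad 𝔓.num (pvlmH m) (𝔓.ty ts) (𝔓.ty ts).k) (pvwRad 𝔓.num (pvlmH m) (𝔓.ty tt) (𝔓.ty tt).k))
    (hyp : PvcbHyp 𝔓 x R m ω P s t 𝔇 j) :
    PvcjIn (pvxT ω) (pvxPos ω) 𝔓.num (pvlmH m) (pvlmDel c m) (pvxvMu c m) x R s.ctr t.ctr (𝔓.ty s.typ) (𝔓.ty t.typ) (pvxCol ω (𝔓.col s.typ)) (pvxCol ω (𝔓.col t.typ)) 𝔇 :=
  pvcj_in hW (hP.doors m) hP.b_gap (hnum s.typ t.typ).dr (fun u => ((hnum u u).rsR).trans (by linarith)) hR hyp.mesh hyp.far hyp.arc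

/-- the mesh of the tip face of the exit stub -/
theorem pvmu_cm_tip_t (hW : 𝔓.Wf) (hP : PvfhWf 𝔓) (hR : 0 < R)
    (hnum : ∀ ts tt : τ, PvcbNum (pvlmDel c m) (𝔓.num.rho * pvlmH m) R (pvwRad 𝔓.num (pvlmH m) (𝔓.ty ts) (𝔓.ty ts).k) (pvwRad 𝔓.num (pvlmH m) (𝔓.ty tt) (𝔓.ty tt).k))
    (hyp : PvcbHyp 𝔓 x R m ω P s t 𝔇 j) : ‖pvxPos ω 𝔇.t.ap - pvxPos ω ((pvxT ω).src (𝔇.t.ep 𝔇.t.np))‖ ≤ pvxvMu c m := by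
  have I := pvmu_cm_in hW hP hR hnum hyp
  have h1 := I.box_t (I.st_t.stub.ep_in _ le_rfl).1
  exact (pvmu_cm_face hyp.mesh.2 (𝔇.t.ep 𝔇.t.np) (Or.inl (closedBall_subset_closedBall (by linarith) h1))).1

/-- the mesh of the tip face of the entrance stub -/
theorem pvmu_cm_tip_s (hW : 𝔓.Wf) (hP : PvfhWf 𝔓) (hR : 0 < R)
    (hnum : ∀ ts tt : τ, PvcbNum (pvlmDel c m) (𝔓.num.rho * pvlmH m) R (pvwRad 𝔓.num (pvlmH m) (𝔓.ty ts) (𝔓.ty ts).k) (pvwRad 𝔓.num (pvlmH m) (𝔓.ty tt) (𝔓.ty tt).k))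
    (hyp : PvcbHyp 𝔓 x R m ω P s t 𝔇 j) : ‖pvxPos ω 𝔇.s.am - pvxPos ω ((pvxT ω).src (𝔇.s.em 𝔇.s.nm))‖ ≤ pvxvMu c m := by
  have I := pvmu_cm_in hW hP hR hnum hyp
  have h1 := I.box_s (I.st_s.stub.em_in _ le_rfl).1
  have h2 := (pvmu_cm_face hyp.mesh.2 ((pvxT ω).opp (𝔇.s.em 𝔇.s.nm)) (Or.inr (by rw [(pvxT ω).tgt_opp]; exact closedBall_subset_closedBall (by linarith) h1))).2
  rwa [(pvxT ω).tgt_opp] at h2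

variable {a₁ u₁ a₂ u₂ : ℤ × ℤ}

/-- **THE K-SIDE OF THE SCENE AT THE MODEL** -/
theorem pvmu_cm_ks (hW : 𝔓.Wf) (hP : PvfhWf 𝔓) (hR : 0 < R)
    (hnum : ∀ ts tt : τ, PvcbNum (pvlmDel c m) (𝔓.num.rho * pvlmH m) R (pvwRad 𝔓.num (pvlmH m) (𝔓.ty ts) (𝔓.ty ts).k) (pvwRad 𝔓.num (pvlmH m) (𝔓.ty tt) (𝔓.ty tt).k))
    (hyp : PvcbHyp 𝔓 x R m ω P s t 𝔇 j)
    (d₁ : PvcbDoor (pvlmDel c m) (𝔓.num.rho * pvlmH m) s.ctr ((𝔓.ty s.typ).cm (pvlmH m) s.ctr) (pvwRad 𝔓.num (pvlmH m) (𝔓.ty s.typ) (𝔓.ty s.typ).k) (s.ctr + (𝔓.Γ m).pin s.typ) (- (𝔓.Γ m).din s.typ) a₁ u₁)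
    (d₂ : PvcbDoor (pvlmDel c m) (𝔓.num.rho * pvlmH m) t.ctr ((𝔓.ty t.typ).cp (pvlmH m) t.ctr) (pvwRad 𝔓.num (pvlmH m) (𝔓.ty t.typ) (𝔓.ty t.typ).k) (t.ctr + (𝔓.Γ m).pout t.typ) ((𝔓.Γ m).dout t.typ) a₂ u₂) :
    PvmuKs (pvxT ω) (pvxPos ω) 𝔓.num (pvlmH m) s.ctr t.ctr (𝔓.ty s.typ) (𝔓.ty t.typ) 𝔇.s 𝔇.t (pvcbK 𝔓 m ω s t 𝔇)
      (pvmuFs (pvxT ω) (pvxPos ω) 𝔇.s (closedBall s.ctr ((𝔓.ty s.typ).b * pvlmH m))) (pvmuFt (pvxT ω) (pvxPos ω) 𝔇.t (closedBall t.ctr ((𝔓.ty t.typ).b * pvlmH m))) (pvtZ u₁) (pvtZ u₂)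
      (pvtCtr (pvlmDel c m) (pvcbFr a₁ u₁ (pvcbL (pvlmDel c m) (𝔓.num.rho * pvlmH m)))) (pvtCtr (pvlmDel c m) (pvcbFr a₂ u₂ (pvcbL (pvlmDel c m) (𝔓.num.rho * pvlmH m))))
      (pvxvMu c m) (3 * (𝔓.num.rho * pvlmH m) / 4) (3 * (𝔓.num.rho * pvlmH m) / 4 + 11 * pvlmDel c m) (𝔓.num.rho * pvlmH m + 16 * pvlmDel c m) (2 * 𝔓.num.rho * pvlmH m - pvxvMu c m)
      (11 * pvlmDel c m) (pvlmDel c m / 4) (pvxvS2 𝔓.num.rho m + pvlmDel c m) := by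
  have I := pvmu_cm_in hW hP hR hnum hyp
  have hn := hnum s.typ t.typ
  have hh := I.h0
  have hρh := I.rho_h
  have r1 := I.rad_s
  have r2 := I.rad_t
  have b1 := I.bh_s
  have b2 := I.bh_t
  have hsep : pvwRad 𝔓.num (pvlmH m) (𝔓.ty s.typ) (𝔓.ty s.typ).k + pvwRad 𝔓.num (pvlmH m) (𝔓.ty t.typ) (𝔓.ty t.typ).k + 2 * (𝔓.num.rho * pvlmH m) < pvtcSup (t.ctr - s.ctr) := by
    have h1 := pvtc_pl_norm_le_sup (t.ctr - s.ctr)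
    have h2 := hyp.far
    rw [norm_sub_rev] at h2
    have := hn.rsR
    have := hn.rtR
    have := hn.rR
    linarith
  exact pvmu_cb_ks (pvmu_cm_As hyp.arc) (pvmu_cm_At hyp.arc) (fun v ⟨i, hi, hv⟩ => hv ▸ I.far_s i hi) (fun v ⟨i, hi, hv⟩ => hv ▸ I.far_t i hi) (fun i hi => I.mesh i hi)
    (pvmu_cm_tip_s hW hP hR hnum hyp) (pvmu_cm_tip_t hW hP hR hnum hyp) d₁.unit d₁.base d₁.dom d₁.nd d₂.unit d₂.base d₂.dom d₂.nd I.d0 I.mu I.dr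
    (by unfold pvxvS2; linarith [I.dr, I.d0]) (by nlinarith) (by nlinarith) (by nlinarith) (by nlinarith) hsep

/-- **THE MOUTH HALF OF (S) AT THE MODEL**: the first half of the conclusion of `PvcbSceneAt` from THE OTHER HALF
(polygon parts `W0t W0s` of the two witnesses from the tip apexes on; `far`; `core`; `arc` in the shape of `S.arc_Kd` of 10; the ends; `lo_far`) -/
theorem pvmu_cm_scene (hW : 𝔓.Wf) (hP : PvfhWf 𝔓) (hR : 0 < R)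
    (hnum : ∀ ts tt : τ, PvcbNum (pvlmDel c m) (𝔓.num.rho * pvlmH m) R (pvwRad 𝔓.num (pvlmH m) (𝔓.ty ts) (𝔓.ty ts).k) (pvwRad 𝔓.num (pvlmH m) (𝔓.ty tt) (𝔓.ty tt).k))
    (hyp : PvcbHyp 𝔓 x R m ω P s t 𝔇 j)
    (d₁ : PvcbDoor (pvlmDel c m) (𝔓.num.rho * pvlmH m) s.ctr ((𝔓.ty s.typ).cm (pvlmH m) s.ctr) (pvwRad 𝔓.num (pvlmH m) (𝔓.ty s.typ) (𝔓.ty s.typ).k) (s.ctr + (𝔓.Γ m).pin s.typ) (- (𝔓.Γ m).din s.typ) a₁ u₁)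
    (d₂ : PvcbDoor (pvlmDel c m) (𝔓.num.rho * pvlmH m) t.ctr ((𝔓.ty t.typ).cp (pvlmH m) t.ctr) (pvwRad 𝔓.num (pvlmH m) (𝔓.ty t.typ) (𝔓.ty t.typ).k) (t.ctr + (𝔓.Γ m).pout t.typ) ((𝔓.Γ m).dout t.typ) a₂ u₂)
    {γ : ℕ → ℂ} {W0t W0s : Set ℂ} {lo ts tt hi : ℕ}
    (wt_c : IsPreconnected W0t) (wt_k : IsCompact W0t) (wt_o : Disjoint W0t (pvcbK 𝔓 m ω s t 𝔇)) (wt_a : pvxPos ω 𝔇.t.ap ∈ W0t)
    (wt_t : ∀ w ∈ W0t, (∃ k, (tt ≤ k ∧ k ≤ hi) ∧ ‖w - γ k‖ ≤ pvlmDel c m) ∨ ∀ q ∈ pvmuG (pvxT ω) (pvxPos ω) 𝔇.g, 13 * (11 * pvlmDel c m) < ‖w - q‖)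
    (ws_c : IsPreconnected W0s) (ws_k : IsCompact W0s) (ws_o : Disjoint W0s (pvcbK 𝔓 m ω s t 𝔇)) (ws_a : pvxPos ω 𝔇.s.am ∈ W0s)
    (ws_t : ∀ w ∈ W0s, (∃ k, (lo ≤ k ∧ k ≤ ts) ∧ ‖w - γ k‖ ≤ pvlmDel c m) ∨ ∀ q ∈ pvmuG (pvxT ω) (pvxPos ω) 𝔇.g, 13 * (11 * pvlmDel c m) < ‖w - q‖)
    (far : ∃ a0 b0 c0 d0 : ℝ, pvcbK 𝔓 m ω s t 𝔇 ⊆ pvtcRect a0 b0 c0 d0 ∧
      (∃ q ∈ W0t, q ∉ pvtcRect (a0 - (11 * pvlmDel c m + pvlmDel c m / 4)) (b0 + (11 * pvlmDel c m + pvlmDel c m / 4)) (c0 - (11 * pvlmDel c m + pvlmDel c m / 4)) (d0 + (11 * pvlmDel c m + pvlmDel c m / 4))) ∧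
      ∃ q ∈ W0s, q ∉ pvtcRect (a0 - (11 * pvlmDel c m + pvlmDel c m / 4)) (b0 + (11 * pvlmDel c m + pvlmDel c m / 4)) (c0 - (11 * pvlmDel c m + pvlmDel c m / 4)) (d0 + (11 * pvlmDel c m + pvlmDel c m / 4)))
    (core_s : ∀ p ∈ closedBall s.ctr ((𝔓.ty s.typ).b * pvlmH m), ∀ w ∈ W0t ∪ W0s, pvxvS2 𝔓.num.rho m + pvlmDel c m + 8 * (11 * pvlmDel c m) < ‖w - p‖)
    (core_t : ∀ p ∈ closedBall t.ctr ((𝔓.ty t.typ).b * pvlmH m), ∀ w ∈ W0t ∪ W0s, pvxvS2 𝔓.num.rho m + pvlmDel c m + 8 * (11 * pvlmDel c m) < ‖w - p‖)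
    (arc : ∀ W : Set ℂ, (∀ p ∈ closedBall s.ctr ((𝔓.ty s.typ).b * pvlmH m), ∀ w ∈ W, pvxvS2 𝔓.num.rho m + pvlmDel c m + 8 * (11 * pvlmDel c m) < ‖w - p‖) →
      (∀ p ∈ closedBall t.ctr ((𝔓.ty t.typ).b * pvlmH m), ∀ w ∈ W, pvxvS2 𝔓.num.rho m + pvlmDel c m + 8 * (11 * pvlmDel c m) < ‖w - p‖) →
      ∃ u v, PvfrArc γ (pvcbK 𝔓 m ω s t 𝔇) W (pvlmDel c m) (pvxvS2 𝔓.num.rho m + pvlmDel c m + 8 * (11 * pvlmDel c m)) ts tt u v)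
    (hγt : γ tt = pvxPos ω ((pvxT ω).src (𝔇.t.ep 𝔇.t.np))) (hγs : γ ts = pvxPos ω ((pvxT ω).src (𝔇.s.em 𝔇.s.nm)))
    (lo_far : ∀ q ∈ pvcbK 𝔓 m ω s t 𝔇, pvxvS2 𝔓.num.rho m + pvlmDel c m < ‖γ lo - q‖) (lo_le : lo ≤ ts) (tt_le : tt ≤ hi) :
    ∃ M Wt Ws : Set ℂ, PvaccScene γ (pvcbK 𝔓 m ω s t 𝔇) M Wt Ws (pvtCtr (pvlmDel c m) (pvcbFr a₂ u₂ (pvcbL (pvlmDel c m) (𝔓.num.rho * pvlmH m)))) (pvtCtr (pvlmDel c m) (pvcbFr a₁ u₁ (pvcbL (pvlmDel c m) (𝔓.num.rho * pvlmH m))))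
      (11 * pvlmDel c m) (pvlmDel c m / 4) (pvlmDel c m) (pvxvS2 𝔓.num.rho m + pvlmDel c m) lo ts tt hi := by
  have I := pvmu_cm_in hW hP hR hnum hyp
  have hn := hnum s.typ t.typ
  have hh := I.h0
  have hρh := I.rho_h
  have r1 := I.rad_s
  have r2 := I.rad_t
  have ks := pvmu_cm_ks hW hP hR hnum hyp d₁ d₂
  have hsep : pvwRad 𝔓.num (pvlmH m) (𝔓.ty s.typ) (𝔓.ty s.typ).k + pvwRad 𝔓.num (pvlmH m) (𝔓.ty t.typ) (𝔓.ty t.typ).k + 2 * (𝔓.num.rho * pvlmH m) < pvtcSup (t.ctr - s.ctr) := by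
    have h1 := pvtc_pl_norm_le_sup (t.ctr - s.ctr)
    have h2 := hyp.far
    rw [norm_sub_rev] at h2
    have := hn.rsR
    have := hn.rtR
    have := hn.rR
    linarith
  exact ⟨_, pvmu_cb_scene_core (pvmu_cm_As hyp.arc) (pvmu_cm_At hyp.arc) (fun v ⟨i, hi, hv⟩ => hv ▸ I.far_s i hi) (fun v ⟨i, hi, hv⟩ => hv ▸ I.far_t i hi) (fun i hi => I.mesh i hi)
    ks.hms ks.hmt d₁.unit d₁.base d₁.dom d₁.nd d₂.unit d₂.base d₂.dom d₂.nd I.d0 I.mu I.dr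
    (by unfold pvxvS2; linarith [I.dr, I.d0]) I.bh_s I.bh_t (by nlinarith) (by nlinarith) hsep
    wt_c wt_k wt_o wt_a wt_t ws_c ws_k ws_o ws_a ws_t far core_s core_t arc hγt hγs lo_far lo_le tt_le⟩

end model

end Claimed.Agent.R289
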