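-- KEEP
import Claimed.Agent.R289.Tr.AccM
import Claimed.Agent.R289.Tr.AccMouth
import Claimed.Agent.R289.Tr.FitDat

/-!
# Row 289 (S0537, Cardy for Poisson-Voronoi), THE WALL, road E, TR38 = (ACC), file Tr/AccN : THE SCENE FOR THE THIN OBSTACLE OF RECORD      (owner helper211; prefix `pvacn_`, `Pvacn`)

CONTINUATION OF `Tr/AccM`.   SETS IN THE PLANE `T` (`PlGeo`), TIMES IN THE COMPLETION `Tc`, glued by `γ = pvacmGam Tc posc σc d0` (black ends of the wall of the completion) and by the local isomorphism `PvLocP Tc T R posc pos Kr` (22).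
* §1 `pvacnW T pos s e A N := A ∪ pvacmW T pos s e (pos (apex e)) N` = the half witness with an ARBITRARY ADDED PIECE `A` (compact, connected, contains the front and the tip apex; 215: `pvmuLk`, two segments: corners are no exception).
     **`pvacn_scene`** = `pvacm_scene` for these witnesses.
* §2 (any surface) **`pvacnK T pos 𝔇 zs zt ρs ρt`** = THE THIN OBSTACLE OF RECORD `pvmuEs .. (closedBall zs ρs) ∪ pvfiTr .. 𝔇.g ∪ pvmuEt .. (closedBall zt ρt)` (edges form of 215), `pvacnM` = the two box parts (the mask);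
     `pvacn_K_compact`, `pvacn_K_diff` (`K \ M` lies on the trace of `g₀`), `pvacn_chain`, `pvacn_zig_arc`, **`pvacn_arc`** : the field `arc` ALONG THE BLACK ENDS, thinness = mesh, from the timetable `PvfiDTab` of 10.
* §3 (the seam) `pvacn_K_twin` (same set in the plane and in the completion), **`pvacn_obs`** (`PvacmObs`), **`pvacn_arc_twin`**,
     **`pvacn_scene_dat`** : `PvaccScene` for a plane datum `𝔇`, a completion twin `PvLocDat R 𝔇c 𝔇` and its timetable.      WHAT IS LEFT TO THE MODEL: the window (`lo`, `hi`, `InjOn`), `hγ`, mesh, `core`, `far`, `lo_far`, the added pieces, (P4), four masks against the trace of `g₀`.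
-/

set_option autoImplicit false
set_option linter.unusedSectionVars false
set_option linter.unusedVariables false

namespace Claimed.Agent.R289

open Set

/-! ## §1 the scene with an arbitrary added piece -/

section sceneA

variable {Vc Dc V D : Type} {Tc : PvMap Vc Dc} {T : PvMap V D} {R : Dc → D → Prop} {posc : Vc → ℂ} {pos : V → ℂ} {Kr : Set ℂ} {σc : Vc → Bool} {σ : V → Bool}
variable {d0 : Dc} {lo ts tt hi : ℕ} {zs zt : ℂ} {ρs ρt μ : ℝ} {K : Set ℂ} {et es : D} {pt ps : ℂ}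

/-- **THE HALF WITNESS WITH AN ARBITRARY ADDED PIECE `A`** (`A` joins the front to the tip apex) -/
def pvacnW (T : PvMap V D) (pos : V → ℂ) (s : V → Bool) (e : D) (A : Set ℂ) (N : ℕ) : Set ℂ := A ∪ pvacmW T pos s e (pos (T.apex e)) N

theorem pvacn_eqns_cite : True := by
  have := @pvacnW.eq_1
  trivial

theorem pvacn_W_conn (s : V → Bool) (e : D) {A : Set ℂ} (N : ℕ) (hA : IsPreconnected A) (ha : pos (T.apex e) ∈ A) : IsPreconnected (pvacnW T pos s e A N) :=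
  IsPreconnected.union (pos (T.apex e)) ha (pvacm_front_mem _ _ _ _ _ _) hA (pvacm_W_conn _ _ _ _ _ _)

theorem pvacn_W_compact (s : V → Bool) (e : D) {A : Set ℂ} (N : ℕ) (hA : IsCompact A) : IsCompact (pvacnW T pos s e A N) := hA.union (pvacm_W_compact _ _ _ _ _ _)

/-- **THE SCENE, ARBITRARY ADDED PIECES** `At`, `As` -/
theorem pvacn_scene (L : PvLocP Tc T R posc pos Kr) (hσ : ∀ d d', R d d' → σc (Tc.src d) = σ (T.src d')) (G : PlGeo T pos) (h0 : pvasBW Tc σc d0)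
    (hinj : Set.InjOn (pvasIt Tc σc d0) (Set.Icc lo hi)) (hlo : lo < ts) (htt : tt < hi)
    (het : R (pvasIt Tc σc d0 tt) et) (hes : R (pvasIt Tc σc d0 ts) es)
    (hγ : ∀ k, lo ≤ k → k ≤ hi → (k ≤ ts ∨ tt ≤ k) → pvacmGam Tc posc σc d0 k ∈ Kr)
    (hmesh : ∀ d f : D, pos (T.src d) ∈ Kr → T.SF d f → ‖pos (T.src f) - pos (T.tgt f)‖ ≤ μ)
    {M At As : Set ℂ} {r η S : ℝ} (hKc : IsCompact K) (hK : PvacmObs Tc T R pos σc σ d0 ts tt zs zt ρs ρt K)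
    (arc : ∀ W : Set ℂ, (∀ w ∈ W, ρs + (S + 8 * r) < ‖w - zs‖ ∧ ρt + (S + 8 * r) < ‖w - zt‖) → ∃ u v, PvfrArc (pvacmGam Tc posc σc d0) K W μ (S + 8 * r) ts tt u v)
    (core : ∀ k, lo ≤ k → k ≤ hi → (k ≤ ts ∨ tt ≤ k) → ρs + (S + 8 * r) + μ < ‖pvacmGam Tc posc σc d0 k - zs‖ ∧ ρt + (S + 8 * r) + μ < ‖pvacmGam Tc posc σc d0 k - zt‖)
    (hΛ : 0 ≤ S + 8 * r)
    (At_conn : IsPreconnected At) (At_cpt : IsCompact At) (At_front : pt ∈ At) (At_apex : pos (T.apex et) ∈ At) (At_off : Disjoint At K)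
    (As_conn : IsPreconnected As) (As_cpt : IsCompact As) (As_front : ps ∈ As) (As_apex : pos (T.apex (T.opp es)) ∈ As) (As_off : Disjoint As K)
    (At_core : ∀ w ∈ At, ρs + (S + 8 * r) < ‖w - zs‖ ∧ ρt + (S + 8 * r) < ‖w - zt‖) (As_core : ∀ w ∈ As, ρs + (S + 8 * r) < ‖w - zs‖ ∧ ρt + (S + 8 * r) < ‖w - zt‖)
    (At_far : ∀ w ∈ At, ∀ q ∈ K \ M, 13 * r < ‖w - q‖) (As_far : ∀ w ∈ As, ∀ q ∈ K \ M, 13 * r < ‖w - q‖)
    (far : ∃ a0 b0 c0 e0 : ℝ, K ⊆ pvtcRect a0 b0 c0 e0 ∧ pvfbMid Tc posc (pvasIt Tc σc d0 hi) ∉ pvtcRect (a0 - (r + η)) (b0 + (r + η)) (c0 - (r + η)) (e0 + (r + η)) ∧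
      pvfbMid Tc posc (pvasIt Tc σc d0 lo) ∉ pvtcRect (a0 - (r + η)) (b0 + (r + η)) (c0 - (r + η)) (e0 + (r + η)))
    (p4_t : PvaccP4 K M pt r η) (p4_s : PvaccP4 K M ps r η)
    (mask_pt : ∀ q ∈ K \ M, 3 * S + 5 * r < ‖pt - q‖) (mask_ps : ∀ q ∈ K \ M, 3 * S + 5 * r < ‖ps - q‖)
    (mask_tt : ∀ q ∈ K \ M, S + 5 * r < ‖pvacmGam Tc posc σc d0 tt - q‖) (mask_ts : ∀ q ∈ K \ M, S + 5 * r < ‖pvacmGam Tc posc σc d0 ts - q‖)
    (lo_far : ∀ q ∈ K, S < ‖pvacmGam Tc posc σc d0 lo - q‖) :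
    PvaccScene (pvacmGam Tc posc σc d0) K M (pvacnW T pos σ et At (hi - tt)) (pvacnW T pos (pvasNot σ) (T.opp es) As (ts - lo)) pt ps r η μ S lo ts tt hi := by
  have sgt : ∀ w, w ∈ segment ℝ (pos (T.apex et)) (pos (T.apex et)) → w ∈ At := fun w hw => by
    rw [segment_same] at hw
    rw [Set.mem_singleton_iff.1 hw]; exact At_apex
  have sgs : ∀ w, w ∈ segment ℝ (pos (T.apex (T.opp es))) (pos (T.apex (T.opp es))) → w ∈ As := fun w hw => by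
    rw [segment_same] at hw
    rw [Set.mem_singleton_iff.1 hw]; exact As_apex
  have hle : ts ≤ tt := by
    obtain ⟨u, v, h⟩ := arc ∅ (fun w hw => hw.elim)
    exact pvfr_arc_le h
  have hγt : ∀ k, tt ≤ k → k ≤ hi → pvacmGam Tc posc σc d0 k ∈ Kr := fun k h1 h2 => hγ k (by omega) h2 (Or.inr h1)
  have hγs : ∀ k, lo ≤ k → k ≤ ts → pvacmGam Tc posc σc d0 k ∈ Kr := fun k h1 h2 => hγ k h1 (by omega) (Or.inl h2)
  have nt := fun x hx => pvacm_fwd_near (pt := pos (T.apex et)) (x := x) L hσ G htt het hγt hmesh hx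
  have ns := fun x hx => pvacm_bwd_near (ps := pos (T.apex (T.opp es))) (x := x) L hσ G h0 hlo hes hγs hmesh hx
  have tri : ∀ (g w z : ℂ) (c : ℝ), ‖w - g‖ ≤ μ → c + μ < ‖g - z‖ → c < ‖w - z‖ := by
    intro g w z c h1 h2
    have h4 := norm_sub_le_norm_sub_add_norm_sub g w z
    rw [norm_sub_rev g w] at h4
    linarith
  obtain ⟨a0, b0, c0, d0', hKb, hft, hfs⟩ := far
  refine ⟨hKc, arc _ ?_, pvacn_W_conn _ _ _ At_conn At_apex, pvacn_W_compact _ _ _ At_cpt, ?_, Or.inl At_front, pvacn_W_conn _ _ _ As_conn As_apex, pvacn_W_compact _ _ _ As_cpt, ?_,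
    Or.inl As_front, ⟨a0, b0, c0, d0', hKb, ⟨_, Or.inr (pvacm_mid_mem T pos σ et _ (l := hi - tt) (by omega) le_rfl), ?_⟩,
      _, Or.inr (pvacm_mid_mem T pos (pvasNot σ) (T.opp es) _ (l := ts - lo) (by omega) le_rfl), ?_⟩, ?_, ?_, p4_t, p4_s, mask_pt, mask_ps, mask_tt, mask_ts, lo_far, hlo.le, htt.le⟩
  · rintro w ((hw | hw) | (hw | hw))
    · exact At_core w hw
    · rcases nt w hw with h | ⟨k, a1, a2, a3⟩
      · exact At_core w (sgt w h)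
      · obtain ⟨c1, c2⟩ := core k (by omega) a2.le (Or.inr a1)
        exact ⟨tri _ _ _ _ a3 c1, tri _ _ _ _ a3 c2⟩
    · exact As_core w hw
    · rcases ns w hw with h | ⟨k, a1, a2, a3⟩
      · exact As_core w (sgs w h)
      · obtain ⟨c1, c2⟩ := core k a1.le (by omega) (Or.inl a2)
        exact ⟨tri _ _ _ _ a3 c1, tri _ _ _ _ a3 c2⟩
  · exact Set.disjoint_union_left.2 ⟨At_off, pvacm_fwd_off L hσ G h0 hinj hlo.le htt het hγt hmesh hK (Set.disjoint_left.2 fun w hw => Set.disjoint_left.1 At_off (sgt w hw))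
      (fun k a1 a2 => by have := (core k (by omega) a2.le (Or.inr a1)).1; linarith) (fun k a1 a2 => by have := (core k (by omega) a2.le (Or.inr a1)).2; linarith)⟩
  · exact Set.disjoint_union_left.2 ⟨As_off, pvacm_bwd_off L hσ G h0 hinj hlo htt.le hes hγs hmesh hK (Set.disjoint_left.2 fun w hw => Set.disjoint_left.1 As_off (sgs w hw))
      (fun k a1 a2 => by have := (core k a1.le (by omega) (Or.inl a2)).1; linarith) (fun k a1 a2 => by have := (core k a1.le (by omega) (Or.inl a2)).2; linarith)⟩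
  · have tw := pvacm_twin_it L.loc hσ het (N := hi - tt) (fun l hl => (pvacm_shared L (hγt (tt + l) (by omega) (by omega))).1) (hi - tt) le_rfl
    rw [pvacm_twin_mid L tw, Nat.add_sub_cancel' htt.le]
    exact hft
  · have he' : R (Tc.opp (pvasIt Tc σc d0 ts)) (T.opp es) := pvlw_opp L hes (Or.inl (hγs ts hlo.le le_rfl))
    have tw := pvacm_twin_rev L.loc hσ h0 (N := ts - lo) (Nat.sub_le _ _) he' (fun l hl => (pvacm_shared L (hγs (ts - l) (by omega) (by omega))).2) (ts - lo) le_rfl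
    rw [pvacm_twin_mid L tw, pvfb_mid_opp, Nat.sub_sub_self hlo.le]
    exact hfs
  · rintro w (hw | hw)
    · exact Or.inr (At_far w hw)
    · rcases nt w hw with h | ⟨k, a1, a2, a3⟩
      · exact Or.inr (At_far w (sgt w h))
      · exact Or.inl ⟨k, ⟨a1, a2.le⟩, a3⟩
  · rintro w (hw | hw)
    · exact Or.inr (As_far w hw)
    · rcases ns w hw with h | ⟨k, a1, a2, a3⟩
      · exact Or.inr (As_far w (sgs w h))
      · exact Or.inl ⟨k, ⟨a1.le, a2⟩, a3⟩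

end sceneA

/-! ## §2 the thin obstacle of record (any surface): compact, an arc along the black ends -/

section thin

variable {γ : ℕ → ℂ} {W : Set ℂ} {μ Λ : ℝ}

/-- a chain of THIN pieces is an arc -/
theorem pvacn_chain (P : ℕ → Set ℂ) (τ : ℕ → ℕ) {u : ℂ} (hu : u ∈ P 0) : ∀ (n : ℕ) (v : ℂ), v ∈ P n → (∀ i, i ≤ n → IsPreconnected (P i)) → (∀ i, i < n → (P i ∩ P (i + 1)).Nonempty) →
    (∀ i, i ≤ n → ∀ p ∈ P i, ‖p - γ (τ i)‖ ≤ μ) → (∀ i, i < n → τ i ≤ τ (i + 1)) → PvfrArc γ {w | ∃ i, i ≤ n ∧ w ∈ P i} W μ Λ (τ 0) (τ n) u v := by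
  intro n
  induction n with
  | zero =>
    intro v hv hc _ hn _
    have e : {w | ∃ i, i ≤ 0 ∧ w ∈ P i} = P 0 := by
      ext w
      constructor
      · rintro ⟨i, hi, hw⟩
        rwa [Nat.le_zero.1 hi] at hw
      · exact fun hw => ⟨0, le_rfl, hw⟩
    rw [e]
    exact pvfr_arc_thin (hc 0 le_rfl) hu hv (hn 0 le_rfl)
  | succ n ih =>
    intro v hv hc hl hn hτ
    obtain ⟨w, hw1, hw2⟩ := hl n (Nat.lt_succ_self n)
    have h1 := ih w hw1 (fun i hi => hc i (by omega)) (fun i hi => hl i (by omega)) (fun i hi => hn i (by omega)) (fun i hi => hτ i (by omega))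
    have h2 : PvfrArc γ (P (n + 1)) W μ Λ (τ (n + 1)) (τ (n + 1)) w v := pvfr_arc_thin (hc _ le_rfl) hw2 hv (hn _ le_rfl)
    have e : {w | ∃ i, i ≤ n + 1 ∧ w ∈ P i} = {w | ∃ i, i ≤ n ∧ w ∈ P i} ∪ P (n + 1) := by
      ext w
      constructor
      · rintro ⟨i, hi, hw⟩
        rcases Nat.lt_or_ge i (n + 1) with h | h
        · exact Or.inl ⟨i, by omega, hw⟩
        · have : i = n + 1 := by omega
          subst this
          exact Or.inr hw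
      · rintro (⟨i, hi, hw⟩ | hw)
        · exact ⟨i, by omega, hw⟩
        · exact ⟨n + 1, le_rfl, hw⟩
    rw [e]
    exact pvfr_arc_trans h1 h2 (hτ n (Nat.lt_succ_self n))

variable {V D : Type} {T : PvMap V D} {pos : V → ℂ} {σ : V → Bool}

/-- **THE THIN OBSTACLE OF RECORD** (edges form of 215): box part of `s` (disc + occupied edges of `Σ⁻(s)`), trace of `g₀`, box part of `t` (disc + occupied edges of `Σ⁺(t)`) -/
def pvacnK (T : PvMap V D) (pos : V → ℂ) (𝔇 : PvwDat T) (zs zt : ℂ) (ρs ρt : ℝ) : Set ℂ :=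
  pvmuEs T pos 𝔇.s (Metric.closedBall zs ρs) ∪ pvfiTr T pos 𝔇.g ∪ pvmuEt T pos 𝔇.t (Metric.closedBall zt ρt)

/-- **THE MASK OF RECORD**: the two box parts -/
def pvacnM (T : PvMap V D) (pos : V → ℂ) (𝔇 : PvwDat T) (zs zt : ℂ) (ρs ρt : ℝ) : Set ℂ :=
  pvmuEs T pos 𝔇.s (Metric.closedBall zs ρs) ∪ pvmuEt T pos 𝔇.t (Metric.closedBall zt ρt)

theorem pvacn_eqns_cite2 : True := by
  have := @pvacnK.eq_1; have := @pvacnM.eq_1
  trivial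

theorem pvacn_zig_compact (T : PvMap V D) (pos : V → ℂ) (a : ℕ → D) (i j : ℕ) : IsCompact (pvmuZig T pos a i j) := by
  have e : pvmuZig T pos a i j = ⋃ l ∈ Set.Icc i j, T.seg pos (a l) := by
    ext w
    simp only [pvmuZig, Set.mem_ofPred_eq, Set.mem_iUnion, Set.mem_Icc, exists_prop, and_assoc]
  rw [e]
  exact (Set.finite_Icc i j).isCompact_biUnion (fun l _ => plg_segment_compact _ _)

theorem pvacn_tr_compact (T : PvMap V D) (pos : V → ℂ) (g : T.Pth) : IsCompact (pvfiTr T pos g) :=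
  (Set.finite_Iio g.n).isCompact_biUnion (fun l _ => plg_segment_compact _ _)

theorem pvacn_K_compact (T : PvMap V D) (pos : V → ℂ) (𝔇 : PvwDat T) (zs zt : ℂ) (ρs ρt : ℝ) : IsCompact (pvacnK T pos 𝔇 zs zt ρs ρt) :=
  (((isCompact_closedBall _ _).union (pvacn_zig_compact _ _ _ _ _)).union (pvacn_tr_compact _ _ _)).union ((isCompact_closedBall _ _).union (pvacn_zig_compact _ _ _ _ _))

theorem pvacn_M_sub (T : PvMap V D) (pos : V → ℂ) (𝔇 : PvwDat T) (zs zt : ℂ) (ρs ρt : ℝ) : pvacnM T pos 𝔇 zs zt ρs ρt ⊆ pvacnK T pos 𝔇 zs zt ρs ρt := by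
  rintro w (hw | hw)
  · exact Or.inl (Or.inl hw)
  · exact Or.inr hw

/-- the unmasked part lies on the trace of `g₀` -/
theorem pvacn_K_diff {𝔇 : PvwDat T} {zs zt : ℂ} {ρs ρt : ℝ} {q : ℂ} (hq : q ∈ pvacnK T pos 𝔇 zs zt ρs ρt \ pvacnM T pos 𝔇 zs zt ρs ρt) : q ∈ pvfiTr T pos 𝔇.g := by
  obtain ⟨(h | h) | h, h2⟩ := hq
  · exact absurd (Or.inl h) h2
  · exact h
  · exact absurd (Or.inr h) h2

/-- the occupied edges of consecutive positions meet -/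
theorem pvacn_step_meet (T : PvMap V D) (pos : V → ℂ) (σ : V → Bool) (d : D) : (T.seg pos d ∩ T.seg pos (pvasStep T σ d)).Nonempty := by
  rcases pvas_step_ends σ d with ⟨-, -, e⟩ | ⟨-, e, -⟩
  · exact ⟨pos (T.tgt d), right_mem_segment ℝ _ _, by unfold PvMap.seg; rw [e]; exact right_mem_segment ℝ _ _⟩
  · exact ⟨pos (T.src d), left_mem_segment ℝ _ _, by unfold PvMap.seg; rw [e]; exact left_mem_segment ℝ _ _⟩

/-- the zigzag of the positions `t..t+n` is an arc along the black ends -/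
theorem pvacn_zig_arc (a0 : D) (t n : ℕ) (hm : ∀ i, i ≤ n → ‖pos (T.src (pvasIt T σ a0 (t + i))) - pos (T.tgt (pvasIt T σ a0 (t + i)))‖ ≤ μ) :
    PvfrArc (fun k => pos (T.src (pvasIt T σ a0 k))) {w | ∃ i, i ≤ n ∧ w ∈ T.seg pos (pvasIt T σ a0 (t + i))} W μ Λ t (t + n)
      (pos (T.src (pvasIt T σ a0 t))) (pos (T.src (pvasIt T σ a0 (t + n)))) := by
  have h := pvacn_chain (γ := fun k => pos (T.src (pvasIt T σ a0 k))) (W := W) (μ := μ) (Λ := Λ) (fun i => T.seg pos (pvasIt T σ a0 (t + i))) (fun i => t + i)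
    (u := pos (T.src (pvasIt T σ a0 t))) (left_mem_segment ℝ _ _) n (pos (T.src (pvasIt T σ a0 (t + n)))) (left_mem_segment ℝ _ _)
    (fun i _ => (convex_segment _ _).isPreconnected) (fun i _ => by
      have := pvacn_step_meet T pos σ (pvasIt T σ a0 (t + i))
      rwa [← pvas_it_succ] at this) (fun i hi p hp => (pvfi_seg_near hp).trans (hm i hi)) (fun i _ => by omega)
  exact h

/-- **THE FIELD `arc` FOR THE THIN OBSTACLE, ALONG THE BLACK ENDS** (any surface): mesh `μ` on the occupied edges of the two stubs and on the edges of `g₀`; the witness is farther than `Λ` from the two discs -/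
theorem pvacn_arc {𝔇 : PvwDat T} {a0 : D} {ts t0 m t3 : ℕ} {zs zt : ℂ} {ρs ρt : ℝ} (tab : PvfiDTab T σ 𝔇 a0 ts t0 m t3) (hn : 0 < 𝔇.g.n) (hμ : 0 ≤ μ)
    (hem : ∀ i, i ≤ 𝔇.s.nm → ‖pos (T.src (𝔇.s.em i)) - pos (T.tgt (𝔇.s.em i))‖ ≤ μ) (hep : ∀ i, i ≤ 𝔇.t.np → ‖pos (T.src (𝔇.t.ep i)) - pos (T.tgt (𝔇.t.ep i))‖ ≤ μ)
    (hed : ∀ k, k < 𝔇.g.n → ‖pos (𝔇.g.v k) - pos (𝔇.g.v (k + 1))‖ ≤ μ)
    (hgm : pos 𝔇.s.gm ∈ Metric.closedBall zs ρs) (hg0 : pos (𝔇.g.v 0) ∈ Metric.closedBall zs ρs) (hgn : pos (𝔇.g.v 𝔇.g.n) ∈ Metric.closedBall zt ρt) (hgp : pos 𝔇.t.gp ∈ Metric.closedBall zt ρt)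
    (hW : ∀ w ∈ W, ρs + Λ < ‖w - zs‖ ∧ ρt + Λ < ‖w - zt‖) :
    PvfrArc (fun k => pos (T.src (pvasIt T σ a0 k))) (pvacnK T pos 𝔇 zs zt ρs ρt) W μ Λ ts (t3 + 𝔇.t.np) (pos (T.src (𝔇.s.em 𝔇.s.nm))) (pos (T.src (𝔇.t.ep 𝔇.t.np))) := by
  have far : ∀ (z : ℂ) (ρ : ℝ), (∀ w ∈ W, ρ + Λ < ‖w - z‖) → ∀ p ∈ Metric.closedBall z ρ, ∀ w ∈ W, Λ < ‖w - p‖ := by
    intro z ρ h p hp w hw
    rw [Metric.mem_closedBall, dist_eq_norm] at hp
    have h1 := h w hw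
    have h2 := norm_sub_le_norm_sub_add_norm_sub w p z
    linarith
  -- the stub of `s`
  have A1 := pvacn_zig_arc (pos := pos) (σ := σ) (W := W) (μ := μ) (Λ := Λ) a0 ts 𝔇.s.nm (fun i hi => by rw [tab.em i hi]; exact hem _ (Nat.sub_le _ _))
  have e1 : {w | ∃ i, i ≤ 𝔇.s.nm ∧ w ∈ T.seg pos (pvasIt T σ a0 (ts + i))} = pvmuZig T pos 𝔇.s.em 0 𝔇.s.nm := by
    ext w
    constructor
    · rintro ⟨i, hi, hw⟩
      rw [tab.em i hi] at hw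
      exact ⟨_, Nat.zero_le _, Nat.sub_le _ _, hw⟩
    · rintro ⟨l, -, hl, hw⟩
      refine ⟨𝔇.s.nm - l, Nat.sub_le _ _, ?_⟩
      rw [tab.em _ (Nat.sub_le _ _), Nat.sub_sub_self hl]
      exact hw
  rw [e1, tab.dm] at A1
  have e0 : pvasIt T σ a0 ts = 𝔇.s.em 𝔇.s.nm := by
    have := tab.em 0 (Nat.zero_le _)
    rwa [Nat.add_zero, Nat.sub_zero] at this
  rw [e0] at A1
  -- the disc of `s`
  have A2 : PvfrArc (fun k => pos (T.src (pvasIt T σ a0 k))) (Metric.closedBall zs ρs) W μ Λ (ts + 𝔇.s.nm) (ts + 𝔇.s.nm) (pos (T.src 𝔇.s.dm)) (pos (𝔇.g.v 0)) :=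
    pvfr_arc_fat (convex_closedBall _ _).isPreconnected hgm hg0 ⟨pos 𝔇.s.gm, hgm, by simp only [tab.dm]; rw [show 𝔇.s.gm = T.src 𝔇.s.dm from rfl, sub_self, norm_zero]; exact hμ⟩
      (far zs ρs fun w hw => (hW w hw).1)
  -- the trace of `g₀`
  obtain ⟨j, hj⟩ := pvfi_le_iff.1 tab.le
  have A3 := pvacn_chain (γ := fun k => pos (T.src (pvasIt T σ a0 k))) (W := W) (μ := μ) (Λ := Λ) (fun k => segment ℝ (pos (𝔇.g.v k)) (pos (𝔇.g.v (k + 1)))) (fun k => t0 + j k)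
    (u := pos (𝔇.g.v 0)) (left_mem_segment ℝ _ _) (𝔇.g.n - 1) (pos (𝔇.g.v 𝔇.g.n)) (by
      have : 𝔇.g.n - 1 + 1 = 𝔇.g.n := Nat.sub_add_cancel hn
      rw [this]; exact right_mem_segment ℝ _ _)
    (fun i _ => (convex_segment _ _).isPreconnected) (fun i _ => ⟨pos (𝔇.g.v (i + 1)), right_mem_segment ℝ _ _, left_mem_segment ℝ _ _⟩)
    (fun i hi p hp => by
      have h1 := (hj.2.2.1 i (by omega)).2.1
      simp only at h1 ⊢
      rw [pvas_it_add, ← h1]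
      exact (pvfi_seg_near hp).trans (hed i (by omega)))
    (fun i hi => Nat.add_le_add_left (pvfi_mono hj (Nat.le_succ i) (by omega)) t0)
  have e3 : {w | ∃ i, i ≤ 𝔇.g.n - 1 ∧ w ∈ segment ℝ (pos (𝔇.g.v i)) (pos (𝔇.g.v (i + 1)))} = pvfiTr T pos 𝔇.g := by
    ext w
    rw [pvfi_mem_tr]
    exact ⟨fun ⟨k, hk, hp⟩ => ⟨k, by omega, hp⟩, fun ⟨k, hk, hp⟩ => ⟨k, by omega, hp⟩⟩
  rw [e3] at A3
  -- the disc of `t`
  have A4 : PvfrArc (fun k => pos (T.src (pvasIt T σ a0 k))) (Metric.closedBall zt ρt) W μ Λ t3 t3 (pos (𝔇.g.v 𝔇.g.n)) (pos (T.src 𝔇.t.dp)) :=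
    pvfr_arc_fat (convex_closedBall _ _).isPreconnected hgn hgp ⟨pos 𝔇.t.gp, hgp, by simp only [tab.dp]; rw [show 𝔇.t.gp = T.src 𝔇.t.dp from rfl, sub_self, norm_zero]; exact hμ⟩
      (far zt ρt fun w hw => (hW w hw).2)
  -- the stub of `t`
  have A5 := pvacn_zig_arc (pos := pos) (σ := σ) (W := W) (μ := μ) (Λ := Λ) a0 t3 𝔇.t.np (fun i hi => by rw [tab.ep i hi]; exact hep _ hi)
  have e5 : {w | ∃ i, i ≤ 𝔇.t.np ∧ w ∈ T.seg pos (pvasIt T σ a0 (t3 + i))} = pvmuZig T pos 𝔇.t.ep 0 𝔇.t.np := by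
    ext w
    constructor
    · rintro ⟨i, hi, hw⟩
      rw [tab.ep i hi] at hw
      exact ⟨_, Nat.zero_le _, hi, hw⟩
    · rintro ⟨l, -, hl, hw⟩
      exact ⟨l, hl, by rw [tab.ep l hl]; exact hw⟩
  rw [e5, tab.dp, tab.ep _ le_rfl] at A5
  have hlast : t0 + j (𝔇.g.n - 1) ≤ t3 := by
    have := pvfi_lt_n hj (k := 𝔇.g.n - 1) (by omega)
    have := tab.le3
    omega
  have B := pvfr_arc_trans (pvfr_arc_trans (pvfr_arc_trans (pvfr_arc_trans A1 A2 le_rfl) A3 (by have := tab.le0; omega)) A4 hlast) A5 le_rfl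
  have eK : pvmuZig T pos 𝔇.s.em 0 𝔇.s.nm ∪ Metric.closedBall zs ρs ∪ pvfiTr T pos 𝔇.g ∪ Metric.closedBall zt ρt ∪ pvmuZig T pos 𝔇.t.ep 0 𝔇.t.np = pvacnK T pos 𝔇 zs zt ρs ρt := by
    unfold pvacnK pvmuEs pvmuEt
    rw [Set.union_comm (pvmuZig T pos 𝔇.s.em 0 𝔇.s.nm), Set.union_assoc _ (Metric.closedBall zt ρt)]
  rw [eK] at B
  exact B

end thin

/-! ## §3 the seam: the thin obstacle of the plane datum = the thin obstacle of its completion twin -/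

section seam

variable {Vc Dc V D : Type} {Tc : PvMap Vc Dc} {T : PvMap V D} {R : Dc → D → Prop} {posc : Vc → ℂ} {pos : V → ℂ} {Kr : Set ℂ} {σc : Vc → Bool} {σ : V → Bool}
variable {𝔇c : PvwDat Tc} {𝔇 : PvwDat T} {d0 : Dc} {ts t0 m t3 : ℕ} {zs zt : ℂ} {ρs ρt μ : ℝ}

theorem pvacn_twin_seg (L : PvLocP Tc T R posc pos Kr) {a : Dc} {a' : D} (h : R a a') : T.seg pos a' = Tc.seg posc a := by
  unfold PvMap.seg
  rw [pvacm_twin_src L h, pvacm_twin_tgt L h]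

theorem pvacn_twin_zig (L : PvLocP Tc T R posc pos Kr) {a : ℕ → Dc} {a' : ℕ → D} {n n' : ℕ} (hn : n' = n) (h : ∀ i, i ≤ n → R (a i) (a' i)) : pvmuZig T pos a' 0 n' = pvmuZig Tc posc a 0 n := by
  subst hn
  ext w
  constructor
  · rintro ⟨l, h0, hl, hw⟩
    exact ⟨l, h0, hl, by rw [← pvacn_twin_seg L (h l hl)]; exact hw⟩
  · rintro ⟨l, h0, hl, hw⟩
    exact ⟨l, h0, hl, by rw [pvacn_twin_seg L (h l hl)]; exact hw⟩

theorem pvacn_twin_tr (L : PvLocP Tc T R posc pos Kr) {g : Tc.Pth} {g' : T.Pth} (P : PvLocPth R g g') : pvfiTr T pos g' = pvfiTr Tc posc g := by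
  have hv : ∀ k, k ≤ g.n → pos (g'.v k) = posc (g.v k) := fun k hk => (pvlw_pos L (P.v_rel k hk)).symm
  ext w
  rw [pvfi_mem_tr, pvfi_mem_tr, P.n_eq]
  unfold pvfiPc
  constructor
  · rintro ⟨k, hk, hw⟩
    exact ⟨k, hk, by rw [← hv k hk.le, ← hv (k + 1) hk]; exact hw⟩
  · rintro ⟨k, hk, hw⟩
    exact ⟨k, hk, by rw [hv k hk.le, hv (k + 1) hk]; exact hw⟩

/-- **the thin obstacle is the same set in the plane and in the completion** -/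
theorem pvacn_K_twin (L : PvLocP Tc T R posc pos Kr) (G : PvLocDat R 𝔇c 𝔇) (zs zt : ℂ) (ρs ρt : ℝ) : pvacnK T pos 𝔇 zs zt ρs ρt = pvacnK Tc posc 𝔇c zs zt ρs ρt := by
  unfold pvacnK pvmuEs pvmuEt
  rw [pvacn_twin_zig L G.s.nm G.s.em, pvacn_twin_zig L G.t.np G.t.ep, pvacn_twin_tr L G.g]

/-- **`PvacmObs` FOR THE THIN OBSTACLE OF RECORD** -/
theorem pvacn_obs (G : PvLocDat R 𝔇c 𝔇) (tab : PvfiDTab Tc σc 𝔇c d0 ts t0 m t3) (hb : ∀ k, k ≤ 𝔇.g.n → σ (𝔇.g.v k) = true) :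
    PvacmObs Tc T R pos σc σ d0 ts (t3 + 𝔇c.t.np) zs zt ρs ρt (pvacnK T pos 𝔇 zs zt ρs ρt) := by
  have l0 := tab.le0
  have l3 := tab.le3
  rintro q (((hq | ⟨l, -, hl, hq⟩) | hq) | (hq | ⟨l, -, hl, hq⟩))
  · exact Or.inr (Or.inr (Or.inl hq))
  · rw [G.s.nm] at hl
    refine Or.inl ⟨𝔇.s.em l, ts + (𝔇c.s.nm - l), by omega, by omega, ?_, hq⟩
    rw [tab.em _ (Nat.sub_le _ _), Nat.sub_sub_self hl]
    exact G.s.em l hl
  · obtain ⟨k, hk, hq⟩ := pvfi_mem_tr.1 hq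
    refine Or.inr (Or.inl ⟨𝔇.g.e k, ?_, ?_⟩)
    · rw [𝔇.g.src_e k hk, 𝔇.g.tgt_e k hk, hb k hk.le, hb (k + 1) hk]
    · unfold PvMap.seg
      rw [𝔇.g.src_e k hk, 𝔇.g.tgt_e k hk]
      exact hq
  · exact Or.inr (Or.inr (Or.inr hq))
  · rw [G.t.np] at hl
    refine Or.inl ⟨𝔇.t.ep l, t3 + l, by omega, by omega, ?_, hq⟩
    rw [tab.ep l hl]
    exact G.t.ep l hl

/-- **THE FIELD `arc` FOR THE THIN OBSTACLE OF THE PLANE DATUM, TIMES OF THE COMPLETION** -/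
theorem pvacn_arc_twin (L : PvLocP Tc T R posc pos Kr) (G : PvLocDat R 𝔇c 𝔇) (tab : PvfiDTab Tc σc 𝔇c d0 ts t0 m t3) (hn : 0 < 𝔇.g.n) (hμ : 0 ≤ μ)
    (hem : ∀ i, i ≤ 𝔇.s.nm → ‖pos (T.src (𝔇.s.em i)) - pos (T.tgt (𝔇.s.em i))‖ ≤ μ) (hep : ∀ i, i ≤ 𝔇.t.np → ‖pos (T.src (𝔇.t.ep i)) - pos (T.tgt (𝔇.t.ep i))‖ ≤ μ)
    (hed : ∀ k, k < 𝔇.g.n → ‖pos (𝔇.g.v k) - pos (𝔇.g.v (k + 1))‖ ≤ μ)
    (hgm : pos 𝔇.s.gm ∈ Metric.closedBall zs ρs) (hg0 : pos (𝔇.g.v 0) ∈ Metric.closedBall zs ρs) (hgn : pos (𝔇.g.v 𝔇.g.n) ∈ Metric.closedBall zt ρt) (hgp : pos 𝔇.t.gp ∈ Metric.closedBall zt ρt)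
    {W : Set ℂ} {Λ : ℝ} (hW : ∀ w ∈ W, ρs + Λ < ‖w - zs‖ ∧ ρt + Λ < ‖w - zt‖) :
    ∃ u v, PvfrArc (pvacmGam Tc posc σc d0) (pvacnK T pos 𝔇 zs zt ρs ρt) W μ Λ ts (t3 + 𝔇c.t.np) u v := by
  have hv : ∀ k, k ≤ 𝔇c.g.n → pos (𝔇.g.v k) = posc (𝔇c.g.v k) := fun k hk => (pvlw_pos L (G.g.v_rel k hk)).symm
  have ng := G.g.n_eq
  rw [pvacn_K_twin L G]
  refine ⟨_, _, pvacn_arc (pos := posc) tab (by omega) hμ (fun i hi => ?_) (fun i hi => ?_) (fun k hk => ?_) ?_ ?_ ?_ ?_ hW⟩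
  · rw [← pvacm_twin_src L (G.s.em i hi), ← pvacm_twin_tgt L (G.s.em i hi)]
    exact hem i (by rw [G.s.nm]; exact hi)
  · rw [← pvacm_twin_src L (G.t.ep i hi), ← pvacm_twin_tgt L (G.t.ep i hi)]
    exact hep i (by rw [G.t.np]; exact hi)
  · rw [← hv k hk.le, ← hv (k + 1) hk]
    exact hed k (by omega)
  · rw [show 𝔇c.s.gm = Tc.src 𝔇c.s.dm from rfl, ← pvacm_twin_src L G.s.gt.dm]
    exact hgm
  · rw [← hv 0 (Nat.zero_le _)]
    exact hg0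
  · rw [← hv _ le_rfl, ← ng]
    exact hgn
  · rw [show 𝔇c.t.gp = Tc.src 𝔇c.t.dp from rfl, ← pvacm_twin_src L G.t.gt.dp]
    exact hgp

/-- **THE SCENE OF A PLANE DATUM** `𝔇` with a completion twin `𝔇c` and its timetable: obstacle, mask of record; `tt = t3 + np`;   the hypotheses on the unmasked part are asked on the trace of `g₀` only -/
theorem pvacn_scene_dat (L : PvLocP Tc T R posc pos Kr) (hσ : ∀ d d', R d d' → σc (Tc.src d) = σ (T.src d')) (Geo : PlGeo T pos) (h0 : pvasBW Tc σc d0)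
    (G : PvLocDat R 𝔇c 𝔇) (tab : PvfiDTab Tc σc 𝔇c d0 ts t0 m t3) {lo hi : ℕ} (hinj : Set.InjOn (pvasIt Tc σc d0) (Set.Icc lo hi)) (hlo : lo < ts) (hhi : t3 + 𝔇c.t.np < hi)
    (hγ : ∀ k, lo ≤ k → k ≤ hi → (k ≤ ts ∨ t3 + 𝔇c.t.np ≤ k) → pvacmGam Tc posc σc d0 k ∈ Kr)
    (hmesh : ∀ d f : D, pos (T.src d) ∈ Kr → T.SF d f → ‖pos (T.src f) - pos (T.tgt f)‖ ≤ μ)
    (hn : 0 < 𝔇.g.n) (hb : ∀ k, k ≤ 𝔇.g.n → σ (𝔇.g.v k) = true)
    (hKs : ∀ i, i ≤ 𝔇.s.nm → pos (T.src (𝔇.s.em i)) ∈ Kr) (hKt : ∀ i, i ≤ 𝔇.t.np → pos (T.src (𝔇.t.ep i)) ∈ Kr) (hKg : ∀ k, k ≤ 𝔇.g.n → pos (𝔇.g.v k) ∈ Kr)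
    (hgm : pos 𝔇.s.gm ∈ Metric.closedBall zs ρs) (hg0 : pos (𝔇.g.v 0) ∈ Metric.closedBall zs ρs) (hgn : pos (𝔇.g.v 𝔇.g.n) ∈ Metric.closedBall zt ρt) (hgp : pos 𝔇.t.gp ∈ Metric.closedBall zt ρt)
    {At As : Set ℂ} {pt ps : ℂ} {r η S : ℝ} (hΛ : 0 ≤ S + 8 * r)
    (core : ∀ k, lo ≤ k → k ≤ hi → (k ≤ ts ∨ t3 + 𝔇c.t.np ≤ k) → ρs + (S + 8 * r) + μ < ‖pvacmGam Tc posc σc d0 k - zs‖ ∧ ρt + (S + 8 * r) + μ < ‖pvacmGam Tc posc σc d0 k - zt‖)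
    (At_conn : IsPreconnected At) (At_cpt : IsCompact At) (At_front : pt ∈ At) (At_apex : pos 𝔇.t.ap ∈ At) (At_off : Disjoint At (pvacnK T pos 𝔇 zs zt ρs ρt))
    (As_conn : IsPreconnected As) (As_cpt : IsCompact As) (As_front : ps ∈ As) (As_apex : pos 𝔇.s.am ∈ As) (As_off : Disjoint As (pvacnK T pos 𝔇 zs zt ρs ρt))
    (At_core : ∀ w ∈ At, ρs + (S + 8 * r) < ‖w - zs‖ ∧ ρt + (S + 8 * r) < ‖w - zt‖) (As_core : ∀ w ∈ As, ρs + (S + 8 * r) < ‖w - zs‖ ∧ ρt + (S + 8 * r) < ‖w - zt‖)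
    (At_far : ∀ w ∈ At, ∀ q ∈ pvfiTr T pos 𝔇.g, 13 * r < ‖w - q‖) (As_far : ∀ w ∈ As, ∀ q ∈ pvfiTr T pos 𝔇.g, 13 * r < ‖w - q‖)
    (far : ∃ a0 b0 c0 e0 : ℝ, pvacnK T pos 𝔇 zs zt ρs ρt ⊆ pvtcRect a0 b0 c0 e0 ∧ pvfbMid Tc posc (pvasIt Tc σc d0 hi) ∉ pvtcRect (a0 - (r + η)) (b0 + (r + η)) (c0 - (r + η)) (e0 + (r + η)) ∧
      pvfbMid Tc posc (pvasIt Tc σc d0 lo) ∉ pvtcRect (a0 - (r + η)) (b0 + (r + η)) (c0 - (r + η)) (e0 + (r + η)))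
    (p4_t : PvaccP4 (pvacnK T pos 𝔇 zs zt ρs ρt) (pvacnM T pos 𝔇 zs zt ρs ρt) pt r η) (p4_s : PvaccP4 (pvacnK T pos 𝔇 zs zt ρs ρt) (pvacnM T pos 𝔇 zs zt ρs ρt) ps r η)
    (mask_pt : ∀ q ∈ pvfiTr T pos 𝔇.g, 3 * S + 5 * r < ‖pt - q‖) (mask_ps : ∀ q ∈ pvfiTr T pos 𝔇.g, 3 * S + 5 * r < ‖ps - q‖)
    (mask_tt : ∀ q ∈ pvfiTr T pos 𝔇.g, S + 5 * r < ‖pos (T.src (𝔇.t.ep 𝔇.t.np)) - q‖) (mask_ts : ∀ q ∈ pvfiTr T pos 𝔇.g, S + 5 * r < ‖pos (T.src (𝔇.s.em 𝔇.s.nm)) - q‖)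
    (lo_far : ∀ q ∈ pvacnK T pos 𝔇 zs zt ρs ρt, S < ‖pvacmGam Tc posc σc d0 lo - q‖) :
    PvaccScene (pvacmGam Tc posc σc d0) (pvacnK T pos 𝔇 zs zt ρs ρt) (pvacnM T pos 𝔇 zs zt ρs ρt) (pvacnW T pos σ (𝔇.t.ep 𝔇.t.np) At (hi - (t3 + 𝔇c.t.np)))
      (pvacnW T pos (pvasNot σ) (T.opp (𝔇.s.em 𝔇.s.nm)) As (ts - lo)) pt ps r η μ S lo ts (t3 + 𝔇c.t.np) hi := by
  have het : R (pvasIt Tc σc d0 (t3 + 𝔇c.t.np)) (𝔇.t.ep 𝔇.t.np) := by
    rw [tab.ep _ le_rfl, G.t.np]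
    exact G.t.ep _ le_rfl
  have hes : R (pvasIt Tc σc d0 ts) (𝔇.s.em 𝔇.s.nm) := by
    have := tab.em 0 (Nat.zero_le _)
    rw [Nat.add_zero, Nat.sub_zero] at this
    rw [this, G.s.nm]
    exact G.s.em _ le_rfl
  have hem : ∀ i, i ≤ 𝔇.s.nm → ‖pos (T.src (𝔇.s.em i)) - pos (T.tgt (𝔇.s.em i))‖ ≤ μ := fun i hi => hmesh _ _ (hKs i hi) (T.sf_refl _)
  have hep : ∀ i, i ≤ 𝔇.t.np → ‖pos (T.src (𝔇.t.ep i)) - pos (T.tgt (𝔇.t.ep i))‖ ≤ μ := fun i hi => hmesh _ _ (hKt i hi) (T.sf_refl _)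
  have hed : ∀ k, k < 𝔇.g.n → ‖pos (𝔇.g.v k) - pos (𝔇.g.v (k + 1))‖ ≤ μ := fun k hk => by
    have := hmesh (𝔇.g.e k) (𝔇.g.e k) (by rw [𝔇.g.src_e k hk]; exact hKg k hk.le) (T.sf_refl _)
    rwa [𝔇.g.src_e k hk, 𝔇.g.tgt_e k hk] at this
  have hμ : 0 ≤ μ := (norm_nonneg _).trans (hem 0 (Nat.zero_le _))
  refine pvacn_scene L hσ Geo h0 hinj hlo hhi het hes hγ hmesh (pvacn_K_compact _ _ _ _ _ _ _) (pvacn_obs G tab hb)
    (fun W hW => pvacn_arc_twin L G tab hn hμ hem hep hed hgm hg0 hgn hgp hW) core hΛ At_conn At_cpt At_front At_apex At_off As_conn As_cpt As_front As_apex As_off At_core As_core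
    (fun w hw q hq => At_far w hw q (pvacn_K_diff hq)) (fun w hw q hq => As_far w hw q (pvacn_K_diff hq)) far p4_t p4_s
    (fun q hq => mask_pt q (pvacn_K_diff hq)) (fun q hq => mask_ps q (pvacn_K_diff hq)) (fun q hq => ?_) (fun q hq => ?_) lo_far
  · have : pvacmGam Tc posc σc d0 (t3 + 𝔇c.t.np) = pos (T.src (𝔇.t.ep 𝔇.t.np)) := (pvacm_twin_src L het).symm
    rw [this]
    exact mask_tt q (pvacn_K_diff hq)
  · have : pvacmGam Tc posc σc d0 ts = pos (T.src (𝔇.s.em 𝔇.s.nm)) := (pvacm_twin_src L hes).symm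
    rw [this]
    exact mask_ts q (pvacn_K_diff hq)

end seam

end Claimed.Agent.R289
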