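import Claimed.Agent.R289.Tr.GlueWT

/-!
# Row 289 (S0537, Cardy for Poisson-Voronoi), unit TR, ROAD P, GLUE-W, file Tr/GlueWE : THE TWO ENDS OF A WHITE LINK, ONE PLUG AT A TIME      (owner helper205; prefix `pvgh_`, `Pvgh`, `pvgh`)

`pvgw_glue` (`Tr/GlueWT`) joins the lanes of two plugs of the menu.      Here ONE plug of the menu and ANY continuation `G` of its tube (finite connected set of link cells): all that is asked of `G` near the plug is the clause `off`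
(over the 9-tube of the pieces `0..8` the continuation lies over the door `Dr⁺ = N⁸ C₉`; mirror: pieces `1..9`, `Dr⁻ = N⁸ C₀`).      The other end of the tube is ANY door `D₂` with a connected core `A₂ ⊆ G` (`PvriDoors`).
* EXIT SIDE    `pvghFs M τ G = M⁻¹(N⁴ cells 0..8) ∪ G`,   `PvghEx` (clauses),   `PvghEx.doors` (the record `PvriDoors` from the facts of the other end),   `PvghEx.dec`,
               **`PvghEx.start`** : the lane of the hull from `M⁻¹(Dr⁻)` to `D₂` runs over the lane of the type, passes over its last cell `A1` at a position `j`, and from `j` on its inner cells lie in `M⁻¹(N⁴ cells 7..8) ∪ G`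
* ENTRANCE SIDE `pvghFt M τ G = G ∪ M⁻¹(N⁴ cells 1..9)`,   `PvghEn`, `PvghEn.doors`, `PvghEn.dec`, `PvghEn.door_dart`,
               **`PvghEn.stop`** : the lane of the hull from `D₁` to `M⁻¹(Dr⁺)` passes over the first cell `A0` of the lane of the type at a position `j`, and up to `j` its inner cells lie in `G ∪ M⁻¹(N⁴ cells 1..2)`
Consumers: `Tr/GlueWH` (164: thick links `b e`, funnels `o i`: the other end is a straight box).
-/

set_option autoImplicit false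
set_option linter.unusedSectionVars false
set_option linter.unusedVariables false
set_option linter.unusedSimpArgs false

namespace Claimed.Agent.R289

open Relation Claims.C0467 Claimed.Agent.R291

/-- the unfilled tube, exit side -/
def pvghFs (M : PvgwMap) (τ : PvmnType) (G : Set (ℤ × ℤ)) : Set (ℤ × ℤ) := M.pre (pvtwN 4 (pvmnCells τ 0 8)) ∪ G

/-- the unfilled tube, entrance side -/
def pvghFt (M : PvgwMap) (τ : PvmnType) (G : Set (ℤ × ℤ)) : Set (ℤ × ℤ) := G ∪ M.pre (pvtwN 4 (pvmnCells τ 1 9))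

/-- **THE CLAUSES OF THE EXIT SIDE** -/
structure PvghEx (𝔑 : PvmnNum) (M : PvgwMap) (τ : PvmnType) (G : Set (ℤ × ℤ)) : Prop where
  ts : PvmnIsType 𝔑 τ
  fin : G.Finite
  conn : TscConn tscG G
  touch : ∃ v ∈ G, M.ap v ∈ pvtwN 4 (τ.C 8 : Set (ℤ × ℤ))
  off : ∀ v ∈ G, M.ap v ∈ pvtwN 9 (pvmnCells τ 0 8) → M.ap v ∈ pvtwN 8 (τ.C 9 : Set (ℤ × ℤ))
  wit : ∃ x ∈ pvtrBd (pvmnK3 τ), x.2 ∈ pvmnDrm τ ∧ ∃ v ∈ pvtOut (pvghFs M τ G), M.ap v = x.2

/-- **THE CLAUSES OF THE ENTRANCE SIDE** -/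
structure PvghEn (𝔑 : PvmnNum) (M : PvgwMap) (τ : PvmnType) (G : Set (ℤ × ℤ)) : Prop where
  tt : PvmnIsType 𝔑 τ
  fin : G.Finite
  conn : TscConn tscG G
  touch : ∃ v ∈ G, M.ap v ∈ pvtwN 4 (τ.C 1 : Set (ℤ × ℤ))
  off : ∀ v ∈ G, M.ap v ∈ pvtwN 9 (pvmnCells τ 1 9) → M.ap v ∈ pvtwN 8 (τ.C 0 : Set (ℤ × ℤ))
  wit : ∃ x ∈ pvtrBd (pvmnK3 τ), x.2 ∈ pvmnDrp τ ∧ ∃ v ∈ pvtOut (pvghFt M τ G), M.ap v = x.2

theorem pvgh_eqns_cite : True := by
  have := @pvghFs.eq_1; have := @pvghFt.eq_1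
  trivial

variable {𝔑 : PvmnNum} {M : PvgwMap} {τ : PvmnType} {G : Set (ℤ × ℤ)}

/-! ## §1 the exit side -/

section exit

/-- the continuation keeps off the pieces `0..7` -/
theorem PvghEx.G_s (I : PvghEx 𝔑 M τ G) {v : ℤ × ℤ} (hv : v ∈ G) {i : ℕ} (hi : i ≤ 9) (h : M.ap v ∈ pvtwN i (pvmnCells τ 0 7)) : False := by
  have h1 := I.off v hv (pvtw_N_mono hi (pvmn_cells_mono (by omega) (by omega)) h)
  obtain ⟨k, _, hk7, hk⟩ := pvmn_N_cells.1 h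
  have := (pvgw_far I.ts (by omega) (by omega) hk h1).2
  change 9 ≤ k.1 + 1 at this
  omega

theorem PvghEx.F_finite (I : PvghEx 𝔑 M τ G) : (pvghFs M τ G).Finite := (pvgw_pre_finite M (pvtw_N_finite (pvmn_cells_finite τ 0 8))).union I.fin

theorem PvghEx.conn2 (I : PvghEx 𝔑 M τ G) {a : ℕ} (ha : a ≤ 8) : TscConn tscG (M.pre (pvtwN 4 (pvmnCells τ a 8)) ∪ G) := by
  obtain ⟨v, hv, hvs⟩ := I.touch
  exact tsc_conn_union (pvgw_pre_conn M (pvtw_N_conn (pvmn_cells_conn I.ts ha (by omega)))) I.conn (a := v) (b := v) (pvtw_N_mono le_rfl (pvmn_C_sub 8 ha le_rfl) hvs) hv (Or.inl rfl)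

theorem pvgh_sub_s {a : ℕ} : M.pre (pvtwN 4 (pvmnCells τ a 8)) ∪ G ⊆ pvtHull (pvghFs M τ G) := by
  refine Set.Subset.trans ?_ pvt_hull_sub
  rintro v (h | h)
  · exact Or.inl (pvtw_N_mono le_rfl (pvmn_cells_mono (by omega) le_rfl) h)
  · exact Or.inr h

theorem PvghEx.disj (I : PvghEx 𝔑 M τ G) {p a : ℕ} (h : p + 2 ≤ a) (ha : a ≤ 8) : Disjoint (M.pre (pvtwN 4 (pvmnCells τ 0 p))) (M.pre (pvtwN 4 (pvmnCells τ a 8)) ∪ G) := by
  rw [Set.disjoint_left]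
  rintro v hv (h' | h')
  · exact Set.disjoint_left.1 (pvmn_far_cells I.ts h) (pvtw_N_mono (by omega) le_rfl hv) (pvtw_N_mono (by omega) le_rfl h')
  · exact I.G_s h' (i := 4) (by omega) (pvtw_N_mono le_rfl (pvmn_cells_mono le_rfl (by omega)) hv)

theorem pvgh_dart_s {x : (ℤ × ℤ) × (ℤ × ℤ)} (hx : x ∈ pvtrBd (pvtHull (pvghFs M τ G))) : x.1 ∈ pvghFs M τ G := pvt_hull_bd hx.1 (not_not.1 hx.2.1) hx.2.2

theorem PvghEx.in1 (I : PvghEx 𝔑 M τ G) : ∀ x ∈ pvtrBd (pvtHull (pvghFs M τ G)), x.2 ∈ M.pre (pvmnDrm τ) → x.1 ∈ M.pre (pvtwN 4 (pvmnCells τ 0 1)) := by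
  intro x hx h
  have h9 : M.ap x.1 ∈ pvtwN 9 (τ.C 0 : Set (ℤ × ℤ)) := pvgw_N_adj' h (pvgw_adj M hx.2.2)
  have h9' : M.ap x.1 ∈ pvtwN 9 (pvmnCells τ 0 7) := pvtw_N_mono le_rfl (pvmn_C_sub 0 (by simp) (by simp)) h9
  rcases pvgh_dart_s hx with h' | h'
  · obtain ⟨k, _, _, hk⟩ := pvmn_N_cells.1 h'
    have := (pvgw_far I.ts (by omega) (by omega) hk h9).1
    exact pvmn_N_cells.2 ⟨k, by omega, this, hk⟩
  · exact (I.G_s h' le_rfl h9').elim

/-- **the tube with its two doors**, from the facts of the other end -/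
theorem PvghEx.doors (I : PvghEx 𝔑 M τ G) {D₂ A₂ : Set (ℤ × ℤ)} (hA2 : A₂ ⊆ G) (hc : TscConn tscG A₂) (in2 : ∀ x ∈ pvtrBd (pvtHull (pvghFs M τ G)), x.2 ∈ D₂ → x.1 ∈ A₂) :
    PvriDoors (pvtHull (pvghFs M τ G)) (M.pre (pvmnDrm τ)) D₂ (M.pre (pvtwN 4 (pvmnCells τ 0 1))) A₂ where
  fin := pvt_hull_finite I.F_finite
  conn := pvt_hull_conn (I.conn2 (by omega))
  free := pvt_hull_free
  sub1 := fun v hv => pvt_hull_sub (Or.inl (pvtw_N_mono le_rfl (pvmn_cells_mono le_rfl (by omega)) hv))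
  sub2 := fun v hv => pvt_hull_sub (Or.inr (hA2 hv))
  conn1 := pvgw_pre_conn M (pvtw_N_conn (pvmn_cells_conn I.ts (by omega) (by omega)))
  conn2 := hc
  disj := Set.disjoint_left.2 fun v h1 h2 => I.G_s (hA2 h2) (i := 4) (by omega) (pvtw_N_mono le_rfl (pvmn_cells_mono le_rfl (by omega)) h1)
  in1 := I.in1
  in2 := in2

theorem pvgh_Ps_K3 : M.pre (pvtwN 4 (pvmnCells τ 0 8)) ⊆ M.pre (pvmnK3 τ) :=
  pvgw_pre_mono M ((pvtw_N_mono le_rfl (pvmn_cells_mono (by omega) (by omega))).trans pvt_hull_sub)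

/-- **the lane of the type, without its last dart, is decided** -/
theorem PvghEx.dec (I : PvghEx 𝔑 M τ G) {e : (ℤ × ℤ) × (ℤ × ℤ)} {l : ℕ} (hs : PvmnLaneR τ e l) : PvgwDec M (pvtHull (pvghFs M τ G)) (pvmnK3 τ) e (l - 1) := by
  obtain ⟨x, hx, hx1, v, hv, hvx⟩ := I.wit
  obtain ⟨a, ha, hoff⟩ := pvgw_before (pvri_K3_doors I.ts) hs hx hx1
  have hl := pvgw_lane_two I.ts hs
  have hdis : Disjoint (M.pre (pvgwOut (pvmnK3 τ) x 0 (a + l - 1))) (pvghFs M τ G) := by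
    rw [Set.disjoint_left]
    rintro u ⟨m, _, hm, hu⟩ hF
    have hd := pvtr_iter_mem hx m
    have h5 := pvgw_dart_m hd (hoff m (by omega))
    rw [← hu] at h5
    rcases hF with h | h
    · exact hd.2.1 (hu ▸ pvgh_Ps_K3 h)
    · exact hoff m (by omega) (hu ▸ pvtw_N_mono (by omega) le_rfl (I.off u h (pvtw_N_mono (by omega) le_rfl h5.2)))
  have hout := pvgw_dec_out M (pvgw_out_conn hx 0 (a + l - 1)) hdis hv ⟨0, le_rfl, by omega, hvx⟩
  intro m hm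
  have e1 : (pvtrStep (pvmnK3 τ))^[m] e = (pvtrStep (pvmnK3 τ))^[m + a] x := by rw [Function.iterate_add_apply, ha]
  have hd := pvtr_iter_mem hx (m + a)
  rw [e1]
  constructor
  · intro u hu
    refine pvt_hull_sub (Or.inl ?_)
    change M.ap u ∈ pvtwN 4 (pvmnCells τ 0 8)
    rw [hu]
    exact (pvgw_dart_m hd (hoff (m + a) (by omega))).1
  · intro u hu hA
    exact hA (hout ⟨m + a, by omega, by omega, hu⟩)

/-- **THE EXIT HALF** -/
theorem PvghEx.start (I : PvghEx 𝔑 M τ G) {D₂ A₂ : Set (ℤ × ℤ)} (Dr : PvriDoors (pvtHull (pvghFs M τ G)) (M.pre (pvmnDrm τ)) D₂ (M.pre (pvtwN 4 (pvmnCells τ 0 1))) A₂) (hA2 : A₂ ⊆ G)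
    (hD2 : ∀ v ∈ D₂, M.ap v ∉ pvtwN 5 (pvmnCells τ 0 8)) (hd2 : ∃ d ∈ pvtrBd (pvtHull (pvghFs M τ G)), d.2 ∈ D₂) {e : (ℤ × ℤ) × (ℤ × ℤ)} {l : ℕ} (hs : PvmnLaneR τ e l) :
    ∃ e' l' j, PvtrLane (pvtHull (pvghFs M τ G)) (M.pre (pvmnDrm τ)) D₂ e' l' ∧ 0 < j ∧ j < l' ∧ M.dart ((pvtrStep (pvtHull (pvghFs M τ G)))^[j] e') = (pvtrStep (pvmnK3 τ))^[l - 1] e ∧
      ∀ i, j ≤ i → i ≤ l' → ((pvtrStep (pvtHull (pvghFs M τ G)))^[i] e').1 ∈ M.pre (pvtwN 4 (pvmnCells τ 7 8)) ∪ G := by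
  have hls := pvgw_lane_two I.ts hs
  have hD1 : ∀ v, M.ap v = e.2 → v ∈ M.pre (pvmnDrm τ) := by
    intro v hv
    change M.ap v ∈ pvmnDrm τ
    rw [hv]
    exact hs.start
  have hoffs : ∀ m, 0 < m → m ≤ l - 1 → ∀ v, M.ap v = ((pvtrStep (pvmnK3 τ))^[m] e).2 → v ∉ M.pre (pvmnDrm τ) ∪ D₂ := by
    intro m hm0 hm v hv
    rintro (h | h)
    · have h' : M.ap v ∈ pvmnDrm τ := h
      rw [hv] at h'
      exact hs.off m hm0 (by omega) (Or.inl h')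
    · have h5 := (pvgw_dart_m (pvtr_iter_mem hs.mem m) (fun h' => hs.off m hm0 (by omega) (Or.inr h'))).2
      rw [← hv] at h5
      exact hD2 v h h5
  have hcY : ∀ v, M.ap v = ((pvtrStep (pvmnK3 τ))^[l - 1] e).1 → v ∈ M.pre (pvtwN 4 (pvmnCells τ 8 8)) := by
    intro v hv
    change M.ap v ∈ pvtwN 4 (pvmnCells τ 8 8)
    rw [hv]
    exact pvtw_N_mono le_rfl (pvmn_C_sub 8 (by simp) (by simp)) (pvgw_lane_last I.ts hs)
  obtain ⟨e', l', js, L', he', hjs0, hjsl, hjs, -⟩ := pvgw_start M Dr hs.mem (c := l - 1) (by omega) (I.dec hs) hD1 hoffs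
    (I.conn2 (a := 3) (by omega)) pvgh_sub_s (I.disj (p := 1) (a := 3) (by omega) (by omega)) (fun v hv => Or.inr (hA2 hv))
    (fun v hv => Or.inl (pvtw_N_mono le_rfl (pvmn_cells_mono (by omega) le_rfl) (hcY v hv))) hd2
  refine ⟨e', l', js, L', hjs0, hjsl, hjs, ?_⟩
  obtain ⟨n, P⟩ := pvri_period Dr.fin L'.mem
  have hln := (Dr.lane_lt L' P).2
  have hjs8 : ((pvtrStep (pvtHull (pvghFs M τ G)))^[js] e').1 ∈ M.pre (pvtwN 4 (pvmnCells τ 8 8)) := hcY _ (congrArg Prod.fst hjs)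
  intro i hi1 hi2
  have hd := pvtr_iter_mem L'.mem i
  rcases pvgh_dart_s hd with h | h
  · obtain ⟨k, _, hk8, hk⟩ := pvmn_N_cells.1 h
    rcases Nat.lt_or_ge k.1 7 with h7 | h7
    · have := pvgw_order Dr.fin Dr.free L'.mem P (pvgw_pre_conn M (pvtw_N_conn (pvmn_cells_conn I.ts (a := 0) (b := 6) (by omega) (by omega)))) (I.conn2 (a := 8) (by omega))
        (fun v hv => pvt_hull_sub (Or.inl (pvtw_N_mono le_rfl (pvmn_cells_mono le_rfl (by omega)) hv))) pvgh_sub_s (I.disj (p := 6) (a := 8) (by omega) (by omega)) hln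
        (pvtw_N_mono le_rfl (pvmn_cells_mono le_rfl (by omega)) (Dr.in1 _ L'.mem L'.start)) (Or.inr (hA2 (Dr.in2 _ (pvtr_iter_mem L'.mem l') L'.stop))) hi2 hjsl.le
        (pvmn_N_cells.2 ⟨k, by omega, by omega, hk⟩) (Or.inl hjs8)
      omega
    · exact Or.inl (pvmn_N_cells.2 ⟨k, h7, hk8, hk⟩)
  · exact Or.inr h

end exit

/-! ## §2 the entrance side -/

section entrance

/-- the continuation keeps off the pieces `2..9` -/
theorem PvghEn.G_t (I : PvghEn 𝔑 M τ G) {v : ℤ × ℤ} (hv : v ∈ G) {i : ℕ} (hi : i ≤ 9) (h : M.ap v ∈ pvtwN i (pvmnCells τ 2 9)) : False := by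
  have h1 := I.off v hv (pvtw_N_mono hi (pvmn_cells_mono (by omega) (by omega)) h)
  obtain ⟨k, hk2, _, hk⟩ := pvmn_N_cells.1 h
  have := (pvgw_far I.tt (by omega) (by omega) hk h1).1
  change k.1 ≤ 0 + 1 at this
  omega

theorem PvghEn.F_finite (I : PvghEn 𝔑 M τ G) : (pvghFt M τ G).Finite := I.fin.union (pvgw_pre_finite M (pvtw_N_finite (pvmn_cells_finite τ 1 9)))

theorem PvghEn.conn2 (I : PvghEn 𝔑 M τ G) {b : ℕ} (hb : 1 ≤ b) (hb9 : b < 10) : TscConn tscG (G ∪ M.pre (pvtwN 4 (pvmnCells τ 1 b))) := by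
  obtain ⟨w, hw, hwt⟩ := I.touch
  exact tsc_conn_union I.conn (pvgw_pre_conn M (pvtw_N_conn (pvmn_cells_conn I.tt hb hb9))) (a := w) (b := w) hw (pvtw_N_mono le_rfl (pvmn_C_sub 1 le_rfl hb) hwt) (Or.inl rfl)

theorem pvgh_sub_t {b : ℕ} (hb9 : b ≤ 9) : G ∪ M.pre (pvtwN 4 (pvmnCells τ 1 b)) ⊆ pvtHull (pvghFt M τ G) := by
  refine Set.Subset.trans ?_ pvt_hull_sub
  rintro v (h | h)
  · exact Or.inl h
  · exact Or.inr (pvtw_N_mono le_rfl (pvmn_cells_mono le_rfl hb9) h)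

theorem PvghEn.disj (I : PvghEn 𝔑 M τ G) {q b : ℕ} (h : b + 2 ≤ q) (hb : 1 ≤ b) : Disjoint (M.pre (pvtwN 4 (pvmnCells τ q 9))) (G ∪ M.pre (pvtwN 4 (pvmnCells τ 1 b))) := by
  rw [Set.disjoint_left]
  rintro v hv (h' | h')
  · exact I.G_t h' (i := 4) (by omega) (pvtw_N_mono le_rfl (pvmn_cells_mono (by omega) le_rfl) hv)
  · exact Set.disjoint_left.1 (pvmn_far_cells I.tt h) (pvtw_N_mono (by omega) le_rfl h') (pvtw_N_mono (by omega) le_rfl hv)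

theorem pvgh_dart_t {x : (ℤ × ℤ) × (ℤ × ℤ)} (hx : x ∈ pvtrBd (pvtHull (pvghFt M τ G))) : x.1 ∈ pvghFt M τ G := pvt_hull_bd hx.1 (not_not.1 hx.2.1) hx.2.2

theorem PvghEn.in2 (I : PvghEn 𝔑 M τ G) : ∀ x ∈ pvtrBd (pvtHull (pvghFt M τ G)), x.2 ∈ M.pre (pvmnDrp τ) → x.1 ∈ M.pre (pvtwN 4 (pvmnCells τ 8 9)) := by
  intro x hx h
  have h9 : M.ap x.1 ∈ pvtwN 9 (τ.C 9 : Set (ℤ × ℤ)) := pvgw_N_adj' h (pvgw_adj M hx.2.2)
  have h9' : M.ap x.1 ∈ pvtwN 9 (pvmnCells τ 2 9) := pvtw_N_mono le_rfl (pvmn_C_sub 9 (by simp) (by simp)) h9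
  rcases pvgh_dart_t hx with h' | h'
  · exact (I.G_t h' le_rfl h9').elim
  · obtain ⟨k, _, hk9, hk⟩ := pvmn_N_cells.1 h'
    have := (pvgw_far I.tt (by omega) (by omega) hk h9).2
    change 9 ≤ k.1 + 1 at this
    exact pvmn_N_cells.2 ⟨k, by omega, hk9, hk⟩

/-- **the tube with its two doors**, from the facts of the other end -/
theorem PvghEn.doors (I : PvghEn 𝔑 M τ G) {D₁ A₁ : Set (ℤ × ℤ)} (hA1 : A₁ ⊆ G) (hc : TscConn tscG A₁) (in1 : ∀ x ∈ pvtrBd (pvtHull (pvghFt M τ G)), x.2 ∈ D₁ → x.1 ∈ A₁) :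
    PvriDoors (pvtHull (pvghFt M τ G)) D₁ (M.pre (pvmnDrp τ)) A₁ (M.pre (pvtwN 4 (pvmnCells τ 8 9))) where
  fin := pvt_hull_finite I.F_finite
  conn := pvt_hull_conn (I.conn2 (by omega) (by omega))
  free := pvt_hull_free
  sub1 := fun v hv => pvt_hull_sub (Or.inl (hA1 hv))
  sub2 := fun v hv => pvt_hull_sub (Or.inr (pvtw_N_mono le_rfl (pvmn_cells_mono (by omega) le_rfl) hv))
  conn1 := hc
  conn2 := pvgw_pre_conn M (pvtw_N_conn (pvmn_cells_conn I.tt (by omega) (by omega)))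
  disj := Set.disjoint_left.2 fun v h1 h2 => I.G_t (hA1 h1) (i := 4) (by omega) (pvtw_N_mono le_rfl (pvmn_cells_mono (by omega) le_rfl) h2)
  in1 := in1
  in2 := I.in2

theorem pvgh_Pt_K3 : M.pre (pvtwN 4 (pvmnCells τ 1 9)) ⊆ M.pre (pvmnK3 τ) :=
  pvgw_pre_mono M ((pvtw_N_mono le_rfl (pvmn_cells_mono (by omega) (by omega))).trans pvt_hull_sub)

/-- **the lane of the type, without its first dart, is decided** -/
theorem PvghEn.dec (I : PvghEn 𝔑 M τ G) {e : (ℤ × ℤ) × (ℤ × ℤ)} {l : ℕ} (ht : PvmnLaneR τ e l) : PvgwDec M (pvtHull (pvghFt M τ G)) (pvmnK3 τ) ((pvtrStep (pvmnK3 τ))^[1] e) (l - 1) := by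
  obtain ⟨x, hx, hx2, v, hv, hvx⟩ := I.wit
  obtain ⟨a, ha, hoff⟩ := pvgw_after (pvri_K3_doors I.tt) ht hx hx2
  have hl := pvgw_lane_two I.tt ht
  have hdis : Disjoint (M.pre (pvgwOut (pvmnK3 τ) e 1 (l + a))) (pvghFt M τ G) := by
    rw [Set.disjoint_left]
    rintro u ⟨m, hm1, hm, hu⟩ hF
    have hd := pvtr_iter_mem ht.mem m
    have h5 := pvgw_dart_p hd (hoff m (by omega) hm)
    rw [← hu] at h5
    rcases hF with h | h
    · exact hoff m (by omega) hm (hu ▸ pvtw_N_mono (by omega) le_rfl (I.off u h (pvtw_N_mono (by omega) le_rfl h5.2)))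
    · exact hd.2.1 (hu ▸ pvgh_Pt_K3 h)
  have hout := pvgw_dec_out M (pvgw_out_conn ht.mem 1 (l + a)) hdis hv ⟨l + a, by omega, le_rfl, by rw [hvx, ha]⟩
  intro m hm
  rw [← Function.iterate_add_apply]
  have hd := pvtr_iter_mem ht.mem (m + 1)
  constructor
  · intro u hu
    refine pvt_hull_sub (Or.inr ?_)
    change M.ap u ∈ pvtwN 4 (pvmnCells τ 1 9)
    rw [hu]
    exact (pvgw_dart_p hd (hoff (m + 1) (by omega) (by omega))).1
  · intro u hu hA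
    exact hA (hout ⟨m + 1, by omega, by omega, hu⟩)

/-- the exit door of the plug touches the contour of the tube -/
theorem PvghEn.door_dart (I : PvghEn 𝔑 M τ G) {e : (ℤ × ℤ) × (ℤ × ℤ)} {l : ℕ} (ht : PvmnLaneR τ e l) : ∃ d ∈ pvtrBd (pvtHull (pvghFt M τ G)), d.2 ∈ M.pre (pvmnDrp τ) := by
  have hlt := pvgw_lane_two I.tt ht
  obtain ⟨d, hd, hdd⟩ := pvgw_over M (pvtr_iter_mem ht.mem 1) (I.dec ht) (m := l - 1) le_rfl
  refine ⟨d, hd, ?_⟩
  have h1 : M.ap d.2 = ((pvtrStep (pvmnK3 τ))^[l] e).2 := by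
    have := congrArg Prod.snd hdd
    rw [← Function.iterate_add_apply, Nat.sub_add_cancel (by omega)] at this
    exact this
  change M.ap d.2 ∈ pvmnDrp τ
  rw [h1]
  exact ht.stop

/-- **THE ENTRANCE HALF** -/
theorem PvghEn.stop (I : PvghEn 𝔑 M τ G) {D₁ A₁ : Set (ℤ × ℤ)} (Dr : PvriDoors (pvtHull (pvghFt M τ G)) D₁ (M.pre (pvmnDrp τ)) A₁ (M.pre (pvtwN 4 (pvmnCells τ 8 9)))) (hA1 : A₁ ⊆ G)
    (hD1 : ∀ v ∈ D₁, M.ap v ∉ pvtwN 5 (pvmnCells τ 1 9)) {e' : (ℤ × ℤ) × (ℤ × ℤ)} {l' : ℕ} (L' : PvtrLane (pvtHull (pvghFt M τ G)) D₁ (M.pre (pvmnDrp τ)) e' l')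
    {e : (ℤ × ℤ) × (ℤ × ℤ)} {l : ℕ} (ht : PvmnLaneR τ e l) :
    ∃ j, 0 < j ∧ j < l' ∧ M.dart ((pvtrStep (pvtHull (pvghFt M τ G)))^[j] e') = (pvtrStep (pvmnK3 τ))^[1] e ∧
      ∀ i ≤ j, ((pvtrStep (pvtHull (pvghFt M τ G)))^[i] e').1 ∈ G ∪ M.pre (pvtwN 4 (pvmnCells τ 1 2)) := by
  have hlt := pvgw_lane_two I.tt ht
  have het1 : (pvtrStep (pvmnK3 τ))^[1] e ∈ pvtrBd (pvmnK3 τ) := pvtr_iter_mem ht.mem 1
  have hD2 : ∀ v, M.ap v = ((pvtrStep (pvmnK3 τ))^[l - 1] ((pvtrStep (pvmnK3 τ))^[1] e)).2 → v ∈ M.pre (pvmnDrp τ) := by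
    intro v hv
    change M.ap v ∈ pvmnDrp τ
    rw [hv, ← Function.iterate_add_apply, Nat.sub_add_cancel (by omega)]
    exact ht.stop
  have hofft : ∀ m < l - 1, ∀ v, M.ap v = ((pvtrStep (pvmnK3 τ))^[m] ((pvtrStep (pvmnK3 τ))^[1] e)).2 → v ∉ D₁ ∪ M.pre (pvmnDrp τ) := by
    intro m hm v hv
    rw [← Function.iterate_add_apply] at hv
    rintro (h | h)
    · have h5 := (pvgw_dart_p (pvtr_iter_mem ht.mem (m + 1)) (fun h' => ht.off (m + 1) (by omega) (by omega) (Or.inl h'))).2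
      rw [← hv] at h5
      exact hD1 v h h5
    · have h' : M.ap v ∈ pvmnDrp τ := h
      rw [hv] at h'
      exact ht.off (m + 1) (by omega) (by omega) (Or.inr h')
  have hxY : ∀ v, M.ap v = ((pvtrStep (pvmnK3 τ))^[1] e).1 → v ∈ M.pre (pvtwN 4 (pvmnCells τ 1 1)) := by
    intro v hv
    change M.ap v ∈ pvtwN 4 (pvmnCells τ 1 1)
    rw [hv]
    exact pvtw_N_mono le_rfl (pvmn_C_sub 1 (by simp) (by simp)) (pvgw_lane_first I.tt ht)
  obtain ⟨z', hz', hzz⟩ := pvgw_over M het1 (I.dec ht) (m := 0) (Nat.zero_le _)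
  rw [Function.iterate_zero, id] at hzz
  obtain ⟨jt, hjt0, hjtl, hjt⟩ := pvgw_end M Dr L' het1 (I.dec ht) hD2 hofft (by omega)
    (I.conn2 (b := 6) (by omega) (by omega)) (pvgh_sub_t (by omega)) (I.disj (q := 8) (b := 6) (by omega) (by omega))
    (fun v hv => Or.inl (hA1 hv)) (fun v hv => Or.inr (pvtw_N_mono le_rfl (pvmn_cells_mono le_rfl (by omega)) (hxY v hv))) hz' hzz
  refine ⟨jt, hjt0, hjtl, by rw [hjt]; exact hzz, ?_⟩
  obtain ⟨n, P⟩ := pvri_period Dr.fin L'.mem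
  have hln := (Dr.lane_lt L' P).2
  have hjt1 : ((pvtrStep (pvtHull (pvghFt M τ G)))^[jt] e').1 ∈ M.pre (pvtwN 4 (pvmnCells τ 1 1)) := by
    rw [hjt]
    exact hxY _ (congrArg Prod.fst hzz)
  intro i hi
  have hd := pvtr_iter_mem L'.mem i
  rcases pvgh_dart_t hd with h | h
  · exact Or.inl h
  · obtain ⟨k, hk1, hk9, hk⟩ := pvmn_N_cells.1 h
    rcases Nat.lt_or_ge k.1 3 with h3 | h3
    · exact Or.inr (pvmn_N_cells.2 ⟨k, hk1, by omega, hk⟩)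
    · have := pvgw_order Dr.fin Dr.free L'.mem P (I.conn2 (b := 1) (by omega) (by omega)) (pvgw_pre_conn M (pvtw_N_conn (pvmn_cells_conn I.tt (a := 3) (b := 9) (by omega) (by omega))))
        (pvgh_sub_t (by omega)) (fun v hv => pvt_hull_sub (Or.inr (pvtw_N_mono le_rfl (pvmn_cells_mono (by omega) le_rfl) hv))) (I.disj (q := 3) (b := 1) (by omega) (by omega)).symm hln
        (Or.inl (hA1 (Dr.in1 _ L'.mem L'.start))) (pvtw_N_mono le_rfl (pvmn_cells_mono (by omega) le_rfl) (Dr.in2 _ (pvtr_iter_mem L'.mem l') L'.stop)) hjtl.le (by omega)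
        (Or.inr hjt1) (pvmn_N_cells.2 ⟨k, h3, hk9, hk⟩)
      omega

end entrance

/-! ## §3 the contour along a straight south row, travelled EAST -/

section row

variable {A : Set (ℤ × ℤ)} {x y a : ℤ}

theorem pvgh_stepA (h : (x + 1, y - 1) ∉ A) : pvtrStep A ((x, y), (x, y - 1)) = ((x, y), (x + 1, y - 1)) := by
  have e : pvtrApex ((x, y), (x, y - 1)) = (x + 1, y - 1) := by
    rw [pvgw_apex_eq]
    exact Prod.ext (by simp only; ring) (by simp only; ring)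
  rw [pvtr_step_out (by rw [e]; exact h), e]

theorem pvgh_stepB (h : (x + 1, y) ∈ A) : pvtrStep A ((x, y), (x + 1, y - 1)) = ((x + 1, y), (x + 1, y - 1)) := by
  have e : pvtrApex ((x, y), (x + 1, y - 1)) = (x + 1, y) := by
    rw [pvgw_apex_eq]
    exact Prod.ext (by simp only; ring) (by simp only; ring)
  rw [pvtr_step_in (by rw [e]; exact h), e]

theorem pvgh_stepC (h : (x + 1, y) ∉ A) : pvtrStep A ((x, y), (x + 1, y - 1)) = ((x, y), (x + 1, y)) := by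
  have e : pvtrApex ((x, y), (x + 1, y - 1)) = (x + 1, y) := by
    rw [pvgw_apex_eq]
    exact Prod.ext (by simp only; ring) (by simp only; ring)
  rw [pvtr_step_out (by rw [e]; exact h), e]

theorem pvgh_stepD (h : (x, y - 1) ∉ A) : pvtrStep A ((x, y), (x - 1, y)) = ((x, y), (x, y - 1)) := by
  have e : pvtrApex ((x, y), (x - 1, y)) = (x, y - 1) := by
    rw [pvgw_apex_eq]
    exact Prod.ext (by simp only; ring) (by simp only; ring)
  rw [pvtr_step_out (by rw [e]; exact h), e]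

/-- two steps = one cell to the East -/
theorem pvgh_row_even (n : ℕ) (hin : ∀ x, a ≤ x → x ≤ a + n → (x, y) ∈ A) (hout : ∀ x, a ≤ x → x ≤ a + n → (x, y - 1) ∉ A) :
    ∀ k ≤ n, (pvtrStep A)^[2 * k] ((a, y), (a, y - 1)) = ((a + k, y), (a + k, y - 1)) := by
  intro k
  induction k with
  | zero => intro _; simp
  | succ k ih =>
    intro hk
    have e : 2 * (k + 1) = (2 * k + 1) + 1 := by ring
    rw [e, Function.iterate_succ_apply', Function.iterate_succ_apply', ih (by omega), pvgh_stepA (hout _ (by omega) (by omega)), pvgh_stepB (hin _ (by omega) (by omega))]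
    push_cast
    rw [add_assoc]

theorem pvgh_row_odd (n : ℕ) (hin : ∀ x, a ≤ x → x ≤ a + n → (x, y) ∈ A) (hout : ∀ x, a ≤ x → x ≤ a + n + 1 → (x, y - 1) ∉ A) :
    ∀ k ≤ n, (pvtrStep A)^[2 * k + 1] ((a, y), (a, y - 1)) = ((a + k, y), (a + k + 1, y - 1)) := by
  intro k hk
  rw [Function.iterate_succ_apply', pvgh_row_even n hin (fun x h1 h2 => hout x h1 (by omega)) k hk, pvgh_stepA (hout _ (by omega) (by omega))]

/-- the outer cells of the first `2 n` darts lie on the south row -/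
theorem pvgh_row_out (n : ℕ) (hin : ∀ x, a ≤ x → x ≤ a + n → (x, y) ∈ A) (hout : ∀ x, a ≤ x → x ≤ a + n → (x, y - 1) ∉ A) :
    ∀ m ≤ 2 * n, ∃ x, a ≤ x ∧ x ≤ a + n ∧ ((pvtrStep A)^[m] ((a, y), (a, y - 1))).2 = (x, y - 1) := by
  intro m hm
  rcases Nat.even_or_odd' m with ⟨k, rfl | rfl⟩
  · rw [pvgh_row_even n hin hout k (by omega)]
    exact ⟨a + k, by omega, by omega, rfl⟩
  · rw [Function.iterate_succ_apply', pvgh_row_even n hin hout k (by omega), pvgh_stepA (hout _ (by omega) (by omega))]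
    exact ⟨a + k + 1, by omega, by omega, rfl⟩

end row

end Claimed.Agent.R289
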