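-- KEEP
import Claimed.Agent.R289.Tr.GlueWE
import Claimed.Agent.R289.Tr.FitAcc
import Claimed.Agent.R289.Tr.FitP

/-!
# R289 Tr/AccOut (8, prefix `pvmhf_`): THE CLAUSES `wit` AND `out` OF THE HALF GLUE FROM ACC      [ruling 273 13:50 (3); consumers: 135 (funnels `o i`), 164 69 (thick links `e b`), 205]

`M : PvgwMap` = link cell ↦ menu cell, `F` = ANY set of link cells (the unfilled tube).
* `pvmhf_out_of_conn` : `Q` connected infinite set of MENU cells, no cell of `F` over `Q`  ⟹  `M⁻¹(Q) ⊆ pvtOut F`.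
* `pvmhfTail q a n` = the ray `q + ℕ a` from its index `n` on;   `pvmhf_tail_conn`, `pvmhf_tail_inf`.
* **`pvmhf_wit`** (generic): a ray from a cell of a finite set `K`, `F` meets the lifts of the ray only over `K`  ⟹  a dart `x` of `∂K` ON THE RAY with a lift of `x.2` in `pvtOut F`.
* **`pvmhf_wit_m`** : the clause `wit` of `PvghEx` / `PvlktHs` (dart of `K3` in `Dr⁻`) from `ρ⁻`;   **`pvmhf_wit_p`** : the clause `wit` of `PvghEn` / `PvlktHt` (dart of `K3` in `Dr⁺`) from `ρ⁺`.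
* `pvmhf_wit_ex`, `pvmhf_wit_en` : the same AT `pvghFs M τ G`, `pvghFt M τ G` (hypothesis: no cell of `G` over the ray).
* **`pvmhf_out_p`** : `M⁻¹(E⁺ ∪ ρ⁺) ⊆ pvtOut F` if no cell of `F` lies over `E⁺ ∪ ρ⁺` (`E⁺ = pvfjmEp τ` of 138: it contains `yp + dp`);   **`pvmhf_out_m`** mirror.
-/

set_option autoImplicit false
set_option linter.unusedSectionVars false
set_option linter.unusedVariables false

namespace Claimed.Agent.R289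

open Relation Set Claims.C0467 Claimed.Agent.R291

/-- the ray `q + ℕ a` from its index `n` on -/
def pvmhfTail (q a : ℤ × ℤ) (n : ℕ) : Set (ℤ × ℤ) := {c | ∃ j : ℕ, n ≤ j ∧ c = (q.1 + j * a.1, q.2 + j * a.2)}

theorem pvmhf_eqns_cite : True := by
  have := @pvmhfTail.eq_1
  trivial

section gen

variable (M : PvgwMap) {Q F K : Set (ℤ × ℤ)} {q a : ℤ × ℤ} {n : ℕ}

theorem pvmhf_ap_surj (c : ℤ × ℤ) : ∃ v, M.ap v = c := by
  obtain ⟨x, hx⟩ := M.f_surj c.1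
  obtain ⟨y, hy⟩ := M.g_surj c.2
  exact ⟨(x, y), Prod.ext hx hy⟩

theorem pvmhf_pre_inf (hQ : Q.Infinite) : (M.pre Q).Infinite := by
  intro hfin
  refine hQ ((hfin.image M.ap).subset fun c hc => ?_)
  obtain ⟨v, hv⟩ := pvmhf_ap_surj M c
  exact ⟨v, by show M.ap v ∈ Q; rw [hv]; exact hc, hv⟩

/-- **the lifts of a connected infinite set of menu cells which the tube does not meet are joined to infinity off the tube** -/
theorem pvmhf_out_of_conn (hQ : TscConn tscG Q) (hinf : Q.Infinite) (hF : ∀ v ∈ F, M.ap v ∉ Q) : M.pre Q ⊆ pvtOut F := by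
  intro v hv B hB
  obtain ⟨t, ht, htB⟩ := ((pvmhf_pre_inf M hinf).sdiff hB).nonempty
  exact ⟨t, htB, tsc_R_mono (fun u hu hF' => hF u hF' hu) (pvgw_pre_conn M hQ v hv t ht)⟩

theorem pvmhf_tail_sub (q a : ℤ × ℤ) (n : ℕ) : pvmhfTail q a n ⊆ pvmaRay q a := fun _ ⟨j, _, hj⟩ => ⟨j, hj⟩

theorem pvmhf_tail_zero (q a : ℤ × ℤ) : pvmhfTail q a 0 = pvmaRay q a :=
  Subset.antisymm (pvmhf_tail_sub q a 0) fun _ ⟨j, hj⟩ => ⟨j, Nat.zero_le _, hj⟩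

theorem pvmhf_ray_adj (ha : PvmaDir a) (q : ℤ × ℤ) (j : ℕ) : triAdj (q.1 + (j : ℤ) * a.1, q.2 + (j : ℤ) * a.2) (q.1 + ((j + 1 : ℕ) : ℤ) * a.1, q.2 + ((j + 1 : ℕ) : ℤ) * a.2) := by
  rw [tsc_adj_iff]
  push_cast
  rcases ha with rfl | rfl | rfl | rfl <;> simp only <;> omega

theorem pvmhf_tail_conn (ha : PvmaDir a) (q : ℤ × ℤ) (n : ℕ) : TscConn tscG (pvmhfTail q a n) := by
  have key : ∀ d : ℕ, TscR tscG (pvmhfTail q a n) (q.1 + (n : ℤ) * a.1, q.2 + (n : ℤ) * a.2) (q.1 + ((n + d : ℕ) : ℤ) * a.1, q.2 + ((n + d : ℕ) : ℤ) * a.2) := by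
    intro d
    induction d with
    | zero => exact ReflTransGen.refl
    | succ d ih => exact ih.tail ⟨pvmhf_ray_adj ha q (n + d), ⟨n + d, by omega, rfl⟩, ⟨n + d + 1, by omega, rfl⟩⟩
  rintro u ⟨i, hi, rfl⟩ v ⟨j, hj, rfl⟩
  obtain ⟨d, rfl⟩ := Nat.exists_eq_add_of_le hi
  obtain ⟨d', rfl⟩ := Nat.exists_eq_add_of_le hj
  exact tsc_R_trans (tsc_R_symm (key d)) (key d')

theorem pvmhf_ray_inj (ha : PvmaDir a) (q : ℤ × ℤ) : Function.Injective fun j : ℕ => ((q.1 + (j : ℤ) * a.1, q.2 + (j : ℤ) * a.2) : ℤ × ℤ) := by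
  intro i j h
  have h1 := congrArg Prod.fst h
  have h2 := congrArg Prod.snd h
  simp only at h1 h2
  rcases ha with rfl | rfl | rfl | rfl <;> simp only at h1 h2 <;> omega

theorem pvmhf_tail_inf (ha : PvmaDir a) (q : ℤ × ℤ) (n : ℕ) : (pvmhfTail q a n).Infinite := by
  have h1 : (Set.Ici n).Infinite := Set.Ici_infinite n
  refine (h1.image (pvmhf_ray_inj ha q).injOn).mono ?_
  rintro _ ⟨j, hj, rfl⟩
  exact ⟨j, hj, rfl⟩

/-- **THE WITNESS ON A RAY**: the last exit of the ray from the finite set `K` -/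
theorem pvmhf_wit (ha : PvmaDir a) (hK : K.Finite) (hq : q ∈ K) (hF : ∀ v ∈ F, M.ap v ∈ pvmaRay q a → M.ap v ∈ K) :
    ∃ x ∈ pvtrBd K, x.1 ∈ pvmaRay q a ∧ x.2 ∈ pvmaRay q a ∧ ∃ v ∈ pvtOut F, M.ap v = x.2 := by
  classical
  set r : ℕ → ℤ × ℤ := fun j => (q.1 + (j : ℤ) * a.1, q.2 + (j : ℤ) * a.2) with hr
  have hfin : {j : ℕ | r j ∈ K}.Finite := hK.preimage (pvmhf_ray_inj ha q).injOn
  have hne : {j : ℕ | r j ∈ K}.Nonempty := ⟨0, by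
    show r 0 ∈ K
    have : r 0 = q := by simp [hr]
    rw [this]; exact hq⟩
  obtain ⟨j0, hj0, hmax⟩ := Set.exists_max_image _ id hfin hne
  have hout : ∀ j, j0 < j → r j ∉ K := fun j hj h => absurd (hmax j h) (by simpa using hj)
  obtain ⟨v, hv⟩ := pvmhf_ap_surj M (r (j0 + 1))
  refine ⟨(r j0, r (j0 + 1)), ⟨hj0, hout _ (Nat.lt_succ_self _), pvmhf_ray_adj ha q j0⟩, ⟨j0, rfl⟩, ⟨j0 + 1, rfl⟩, v, ?_, hv⟩
  refine pvmhf_out_of_conn M (pvmhf_tail_conn ha q (j0 + 1)) (pvmhf_tail_inf ha q (j0 + 1)) ?_ ?_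
  · rintro u hu ⟨j, hj, hj'⟩
    exact hout j (by omega) (by
      have := hF u hu ⟨j, hj'⟩
      rw [hj'] at this
      exact this)
  · show M.ap v ∈ pvmhfTail q a (j0 + 1)
    rw [hv]
    exact ⟨j0 + 1, le_rfl, rfl⟩

end gen

section typ

variable {𝔑 : PvmnNum} {τ : PvmnType} {ap am : ℤ × ℤ} (M : PvgwMap) {F G : Set (ℤ × ℤ)}

theorem pvmhf_q0_K3 (hτ : PvmnIsType 𝔑 τ) : τ.q 0 ∈ pvmnK3 τ :=
  pvt_hull_sub (pvtw_N_sub (pvmn_C_sub 0 (Nat.zero_le _) (by norm_num) (pvfjm_q0_mem hτ)))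

theorem pvmhf_q10_K3 (hτ : PvmnIsType 𝔑 τ) : τ.q 10 ∈ pvmnK3 τ :=
  pvt_hull_sub (pvtw_N_sub (pvmn_C_sub 9 (Nat.zero_le _) (by norm_num) (pvfjm_q10_mem hτ)))

/-- **the clause `wit` of the EXIT side** (`PvghEx`, `PvlktHs`): a dart of `K3` in `Dr⁻` on the ray `ρ⁻` -/
theorem pvmhf_wit_m (hτ : PvmnIsType 𝔑 τ) (hA : PvmaAcc 𝔑 τ ap am) (hF : ∀ v ∈ F, M.ap v ∈ pvmaRay (τ.q 0) am → M.ap v ∈ pvmnK3 τ) :
    ∃ x ∈ pvtrBd (pvmnK3 τ), x.2 ∈ pvmnDrm τ ∧ ∃ v ∈ pvtOut F, M.ap v = x.2 := by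
  obtain ⟨x, hx, h1, h2, hv⟩ := pvmhf_wit M hA.am_dir (pvmn_K3_finite τ) (pvmhf_q0_K3 hτ) hF
  refine ⟨x, hx, ?_, hv⟩
  obtain ⟨k, -, -, hk⟩ := pvmn_N_cells.1 (pvmn_K3_dart hx).2
  have hk0 : k = 0 := by
    by_contra hne
    have hk1 : 1 ≤ k.1 := Nat.pos_of_ne_zero fun h => hne (Fin.ext h)
    have k2 := k.2
    exact Set.disjoint_left.1 hA.rm_cells h2 (pvmn_N_cells.2 ⟨k, hk1, by omega, pvtw_N_mono (by norm_num) le_rfl hk⟩)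
  subst hk0
  exact pvtw_N_mono (by norm_num) le_rfl hk

/-- **the clause `wit` of the ENTRANCE side** (`PvghEn`, `PvlktHt`): a dart of `K3` in `Dr⁺` on the ray `ρ⁺` -/
theorem pvmhf_wit_p (hτ : PvmnIsType 𝔑 τ) (hA : PvmaAcc 𝔑 τ ap am) (hF : ∀ v ∈ F, M.ap v ∈ pvmaRay (τ.q 10) ap → M.ap v ∈ pvmnK3 τ) :
    ∃ x ∈ pvtrBd (pvmnK3 τ), x.2 ∈ pvmnDrp τ ∧ ∃ v ∈ pvtOut F, M.ap v = x.2 := by
  obtain ⟨x, hx, h1, h2, hv⟩ := pvmhf_wit M hA.ap_dir (pvmn_K3_finite τ) (pvmhf_q10_K3 hτ) hF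
  refine ⟨x, hx, ?_, hv⟩
  obtain ⟨k, -, -, hk⟩ := pvmn_N_cells.1 (pvmn_K3_dart hx).2
  have hk9 : k = 9 := by
    by_contra hne
    have k2 := k.2
    have hk8 : k.1 ≤ 8 := by
      by_contra hc
      exact hne (Fin.ext (by show k.1 = 9; omega))
    exact Set.disjoint_left.1 hA.rp_cells h2 (pvmn_N_cells.2 ⟨k, Nat.zero_le _, hk8, pvtw_N_mono (by norm_num) le_rfl hk⟩)
  subst hk9
  exact pvtw_N_mono (by norm_num) le_rfl hk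

/-- `wit` of `PvghEx` : no cell of the continuation over the ray `ρ⁻` -/
theorem pvmhf_wit_ex (hτ : PvmnIsType 𝔑 τ) (hA : PvmaAcc 𝔑 τ ap am) (hG : ∀ v ∈ G, M.ap v ∉ pvmaRay (τ.q 0) am) :
    ∃ x ∈ pvtrBd (pvmnK3 τ), x.2 ∈ pvmnDrm τ ∧ ∃ v ∈ pvtOut (pvghFs M τ G), M.ap v = x.2 := by
  refine pvmhf_wit_m M hτ hA ?_
  rintro v (hv | hv) h
  · exact pvgh_Ps_K3 hv
  · exact absurd h (hG v hv)

/-- `wit` of `PvghEn` : no cell of the continuation over the ray `ρ⁺` -/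
theorem pvmhf_wit_en (hτ : PvmnIsType 𝔑 τ) (hA : PvmaAcc 𝔑 τ ap am) (hG : ∀ v ∈ G, M.ap v ∉ pvmaRay (τ.q 10) ap) :
    ∃ x ∈ pvtrBd (pvmnK3 τ), x.2 ∈ pvmnDrp τ ∧ ∃ v ∈ pvtOut (pvghFt M τ G), M.ap v = x.2 := by
  refine pvmhf_wit_p M hτ hA ?_
  rintro v (hv | hv) h
  · exact absurd h (hG v hv)
  · exact pvgw_pre_mono M ((pvtw_N_mono le_rfl (pvmn_cells_mono (by omega) (by omega))).trans pvt_hull_sub) hv

theorem pvmhf_conn4 {E : Set (ℤ × ℤ)} (h : TscConn pvtbG4 E) : TscConn tscG E := fun u hu v hv => pvtb_R_le (fun _ _ => pvtb_G4_tri) (h u hu v hv)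

/-- **the way out on the positive side**: `E⁺` of 138 (it contains `yp + dp` and the tip `q 10`), then the ray `ρ⁺` -/
theorem pvmhf_out_p (hτ : PvmnIsType 𝔑 τ) (hWP : 𝔑.nW ≤ 𝔑.nP) (hA : PvmaAcc 𝔑 τ ap am) (hF : ∀ v ∈ F, M.ap v ∉ pvfjmEp τ ∪ pvmaRay (τ.q 10) ap) :
    M.pre (pvfjmEp τ ∪ pvmaRay (τ.q 10) ap) ⊆ pvtOut F := by
  refine pvmhf_out_of_conn M ?_ ?_ hF
  · rw [← pvmhf_tail_zero]
    exact tsc_conn_union (pvmhf_conn4 (pvfjm_Ep_conn τ)) (pvmhf_tail_conn hA.ap_dir _ 0) (a := τ.q 10) (b := τ.q 10) (pvfjm_Ep_tip hτ hWP) ⟨0, le_rfl, by simp⟩ (Or.inl rfl)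
  · rw [← pvmhf_tail_zero]
    exact (pvmhf_tail_inf hA.ap_dir _ 0).mono subset_union_right

/-- the way out on the negative side -/
theorem pvmhf_out_m (hτ : PvmnIsType 𝔑 τ) (hWP : 𝔑.nW ≤ 𝔑.nP) (hA : PvmaAcc 𝔑 τ ap am) (hF : ∀ v ∈ F, M.ap v ∉ pvfjmEm τ ∪ pvmaRay (τ.q 0) am) :
    M.pre (pvfjmEm τ ∪ pvmaRay (τ.q 0) am) ⊆ pvtOut F := by
  refine pvmhf_out_of_conn M ?_ ?_ hF
  · rw [← pvmhf_tail_zero]
    exact tsc_conn_union (pvmhf_conn4 (pvfjm_Em_conn τ)) (pvmhf_tail_conn hA.am_dir _ 0) (a := τ.q 0) (b := τ.q 0) (pvfjm_Em_tip hτ hWP) ⟨0, le_rfl, by simp⟩ (Or.inl rfl)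
  · rw [← pvmhf_tail_zero]
    exact (pvmhf_tail_inf hA.am_dir _ 0).mono subset_union_right

end typ

end Claimed.Agent.R289
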