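import Claimed.Agent.R289.Del.Tile

/-!
# Row 289 (S0537, Cardy for Poisson-Voronoi), unit TR, TR38 = "MOUTH ACCESSIBLE", Tr/AccW : THE WITNESS POLYGON (W1)      (owner helper206; prefix `pvaw_`, defs `pvaw*`, `Pvaw*`)

Text: `origin/helper211:notes/R289/W2_211.md` v2, statement (W1).      Model free: only `DelTri Y`, `delT`, `delTo`, `delBar` (`Del/Area`, `Del/Tile`); no `PvMap`, no colours.
A FACE is a triple `t = (a, b, c)` with `DelTri Y a b c`;  the dart of the face is `a → b`, its apex `c`.      A wall steps from `(a, b, c)` to the face on the left of `a → c` or of `c → b` (`PvawStep`).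
* sec. 1  segments in triangles: `pvaw_seg_open` (from an inner point to a point of the closed triangle), `pvaw_mid_open_nbhd`
* sec. 2  **`pvaw_mid_face`**: the midpoint of a Delaunay edge lies in the two faces of that edge only;   `pvaw_site_face`: a site in a closed face is a vertex
* sec. 3  (W1a) CHAIN: `pvawW t n` = the polygon `bary (t 0) - mid - bary (t 1) - mid - … - bary (t n)`: `pvaw_W_compact`, `pvaw_W_conn`, `pvaw_W_first`, `pvaw_W_last`, `pvaw_W_sub`, **`pvaw_W_disj`** (it misses every closed face which is not a face of the chain)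
* sec. 4  (W1b) ROUND A VERTEX: **`pvaw_round`**: `v` lies in ONE face `ψ` of the finite family `Kf` (as its apex); two segments `(v, z₁]`, `(v, z₂]` which miss `K = ⋃ Kf` are joined off `K` inside any ball round `v`
* sec. 5  **`pvaw_W1`**: chain `t 0 = ψ ∈ Kf`, `t 1, …, t n ∉ Kf`, `(v, z]` off `K`: a compact connected set off `K` which contains `z` and `bary (t n)`, inside `[z, v] ∪ ball v ρ ∪ ⋃ faces`;   `pvaw_half` (the segment condition from a linear form)
* sec. 6  `K`: `pvaw_K_compact`, `pvaw_K_conn` (faces linked by common points)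
-/

set_option autoImplicit false

namespace Claimed.Agent.R289

open Set Metric

/-! ## 0. definitions -/

/-- the closed face of a triple -/
def pvawF (t : ℂ × ℂ × ℂ) : Set ℂ := delT t.1 t.2.1 t.2.2

/-- the open face of a triple -/
def pvawFo (t : ℂ × ℂ × ℂ) : Set ℂ := delTo t.1 t.2.1 t.2.2

/-- the barycentre of a triple -/
noncomputable def pvawB (t : ℂ × ℂ × ℂ) : ℂ := delBar t.1 t.2.1 t.2.2

/-- the midpoint of the dart of a triple -/
noncomputable def pvawM (t : ℂ × ℂ × ℂ) : ℂ := (t.1 + t.2.1) / 2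

/-- the triple is a Delaunay triangle -/
def PvawTri (Y : Set ℂ) (t : ℂ × ℂ × ℂ) : Prop := DelTri Y t.1 t.2.1 t.2.2

/-- `t'` is a rotation of `t` (the same face) -/
def PvawRot (t t' : ℂ × ℂ × ℂ) : Prop :=
  (t'.1 = t.1 ∧ t'.2.1 = t.2.1 ∧ t'.2.2 = t.2.2) ∨ (t'.1 = t.2.1 ∧ t'.2.1 = t.2.2 ∧ t'.2.2 = t.1) ∨ (t'.1 = t.2.2 ∧ t'.2.1 = t.1 ∧ t'.2.2 = t.2.1)

/-- a step of a wall: from the face left of `a → b`, apex `c`, to the face left of `a → c` or left of `c → b` -/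
def PvawStep (t t' : ℂ × ℂ × ℂ) : Prop := (t'.1 = t.1 ∧ t'.2.1 = t.2.2) ∨ (t'.1 = t.2.2 ∧ t'.2.1 = t.2.1)

/-- a chain of faces -/
structure PvawCh (Y : Set ℂ) (n : ℕ) (t : ℕ → ℂ × ℂ × ℂ) : Prop where
  tri : ∀ i, i ≤ n → PvawTri Y (t i)
  step : ∀ i, i < n → PvawStep (t i) (t (i + 1))

/-- the union of the closed faces of a family -/
def pvawK (Kf : Set (ℂ × ℂ × ℂ)) : Set ℂ := ⋃ f ∈ Kf, pvawF f

/-- one link of the polygon: barycentre, midpoint of the crossed edge, next barycentre -/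
def pvawL (t : ℕ → ℂ × ℂ × ℂ) (i : ℕ) : Set ℂ := segment ℝ (pvawB (t i)) (pvawM (t (i + 1))) ∪ segment ℝ (pvawM (t (i + 1))) (pvawB (t (i + 1)))

/-- the polygon of a chain -/
def pvawW (t : ℕ → ℂ × ℂ × ℂ) : ℕ → Set ℂ
  | 0 => {pvawB (t 0)}
  | n + 1 => pvawW t n ∪ pvawL t n

theorem pvaw_eqns_cite : True := by
  have := @pvawF.eq_1; have := @pvawFo.eq_1; have := @pvawB.eq_1; have := @pvawM.eq_1; have := @PvawTri.eq_1; have := @PvawRot.eq_1
  have := @PvawStep.eq_1; have := @pvawK.eq_1; have := @pvawL.eq_1; have := @pvawW.eq_1; have := @pvawW.eq_2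
  trivial

/-! ## 1. segments in triangles -/

theorem pvaw_segment_compact (x y : ℂ) : IsCompact (segment ℝ x y) := by
  rw [segment_eq_image_lineMap]
  exact isCompact_Icc.image (AffineMap.lineMap_continuous)

theorem pvaw_segment_conn (x y : ℂ) : IsConnected (segment ℝ x y) :=
  ⟨⟨x, left_mem_segment ℝ x y⟩, (convex_segment x y).isPreconnected⟩

/-- a point of the segment from an inner point `x` to a point `y` of the closed triangle is an inner point, or it is `y` -/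
theorem pvaw_seg_open {a b c x y z : ℂ} (hx : x ∈ delTo a b c) (hy : y ∈ delT a b c) (hz : z ∈ segment ℝ x y) : z ∈ delTo a b c ∨ z = y := by
  obtain ⟨s, r, hs, hr, hsr, rfl⟩ := hz
  rcases hs.eq_or_lt with h0 | h0
  · right
    have : r = 1 := by linarith
    rw [← h0, this]
    simp
  · left
    refine ⟨?_, ?_, ?_⟩
    · rw [dela_det_affine a b x y s r hsr]
      have := mul_pos h0 hx.1
      have := mul_nonneg hr hy.1
      linarith
    · rw [dela_det_affine b c x y s r hsr]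
      have := mul_pos h0 hx.2.1
      have := mul_nonneg hr hy.2.1
      linarith
    · rw [dela_det_affine c a x y s r hsr]
      have := mul_pos h0 hx.2.2
      have := mul_nonneg hr hy.2.2
      linarith

/-- the open triangle is convex -/
theorem pvaw_open_convex (a b c : ℂ) : Convex ℝ (delTo a b c) := by
  intro x hx y hy s r hs hr hsr
  have h := pvaw_seg_open hx (dela_open_subset a b c hy) ⟨s, r, hs, hr, hsr, rfl⟩
  rcases h with h | h
  · exact h
  · rw [h]; exact hy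

/-- an affine function which is positive at `0` stays positive for a while -/
theorem pvaw_small (A B : ℝ) (hA : 0 < A) : ∃ s₀ : ℝ, 0 < s₀ ∧ s₀ ≤ 1 ∧ ∀ s : ℝ, 0 ≤ s → s ≤ s₀ → 0 < (1 - s) * A + s * B := by
  refine ⟨A / (2 * (A + |B|)), by positivity, ?_, ?_⟩
  · rw [div_le_one (by positivity)]
    have := abs_nonneg B
    linarith
  · intro s h0 hs
    have hpos : 0 < A + |B| := by positivity
    have h1 : s * (2 * (A + |B|)) ≤ A := by
      rwa [le_div_iff₀ (by positivity)] at hs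
    have h2 : -|B| ≤ B := neg_abs_le B
    have h3 : s * (-|B|) ≤ s * B := mul_le_mul_of_nonneg_left h2 h0
    nlinarith

/-! ## 2. the midpoint of an edge, sites in faces -/

theorem pvaw_det_mid1 (a b : ℂ) : vorDet a b ((a + b) / 2) = 0 := by
  simp only [vorDet, Complex.add_re, Complex.add_im, Complex.div_ofNat_re, Complex.div_ofNat_im]
  ring

theorem pvaw_det_mid2 (a b c : ℂ) : vorDet b c ((a + b) / 2) = vorDet a b c / 2 := by
  simp only [vorDet, Complex.add_re, Complex.add_im, Complex.div_ofNat_re, Complex.div_ofNat_im]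
  ring

theorem pvaw_det_mid3 (a b c : ℂ) : vorDet c a ((a + b) / 2) = vorDet a b c / 2 := by
  simp only [vorDet, Complex.add_re, Complex.add_im, Complex.div_ofNat_re, Complex.div_ofNat_im]
  ring

/-- the midpoint of the dart lies in the closed triangle -/
theorem pvaw_mid_mem {a b c : ℂ} (h : 0 < vorDet a b c) : (a + b) / 2 ∈ delT a b c :=
  ⟨(pvaw_det_mid1 a b).ge, by rw [pvaw_det_mid2]; linarith, by rw [pvaw_det_mid3]; linarith⟩

/-- near the midpoint of `a b`, on the left of `a → b`, one is in the open triangle `a b c` -/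
theorem pvaw_mid_left {a b c w : ℂ} (h : 0 < vorDet a b c) (hw : 0 < vorDet a b w) :
    ∃ s : ℝ, 0 < s ∧ s ≤ 1 ∧ (1 - s) • ((a + b) / 2) + s • w ∈ delTo a b c := by
  obtain ⟨s₁, p₁, l₁, h₁⟩ := pvaw_small (vorDet a b c / 2) (vorDet b c w) (by linarith)
  obtain ⟨s₂, p₂, l₂, h₂⟩ := pvaw_small (vorDet a b c / 2) (vorDet c a w) (by linarith)
  have hs : 0 < min s₁ s₂ := lt_min p₁ p₂
  refine ⟨min s₁ s₂, hs, (min_le_left _ _).trans l₁, ?_, ?_, ?_⟩
  · rw [dela_det_affine a b _ _ _ _ (by ring), pvaw_det_mid1]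
    have := mul_pos hs hw
    linarith
  · rw [dela_det_affine b c _ _ _ _ (by ring), pvaw_det_mid2]
    exact h₁ _ hs.le (min_le_left _ _)
  · rw [dela_det_affine c a _ _ _ _ (by ring), pvaw_det_mid3]
    exact h₂ _ hs.le (min_le_right _ _)

/-- an open triangle is not contained in a line -/
theorem pvaw_off_line {a b a' b' c' : ℂ} (hab : a ≠ b) (h : 0 < vorDet a' b' c') : ∃ w ∈ delTo a' b' c', vorDet a b w ≠ 0 := by
  by_contra hh
  push Not at hh
  have h1 : MeasureTheory.volume (delTo a' b' c') ≤ MeasureTheory.volume {x : ℂ | vorDet a b x = 0} := MeasureTheory.measure_mono fun x hx => hh x hx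
  rw [dela_line_null hab, dela_volume_open h] at h1
  have h2 : 0 < ENNReal.ofReal (vorDet a' b' c' / 2) := ENNReal.ofReal_pos.2 (by linarith)
  exact absurd h1 (not_le.2 h2)

section mid

variable {Y : Set ℂ}

/-- **the midpoint of a Delaunay edge lies in the two faces of that edge only** -/
theorem pvaw_mid_face (hY : VorGP Y) {a b c d a' b' c' : ℂ} (h1 : DelTri Y a b c) (h2 : DelTri Y b a d) (h' : DelTri Y a' b' c')
    (hm : (a + b) / 2 ∈ delT a' b' c') : PvawRot (a, b, c) (a', b', c') ∨ PvawRot (b, a, d) (a', b', c') := by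
  obtain ⟨w, hw, hw0⟩ := pvaw_off_line h1.ne.1 h'.left
  have hwc := dela_open_subset a' b' c' hw
  rcases lt_or_gt_of_ne hw0 with hneg | hpos
  · right
    have hpos : 0 < vorDet b a w := by
      have : vorDet b a w = -vorDet a b w := by simp only [vorDet]; ring
      linarith
    obtain ⟨s, s0, s1, hs⟩ := pvaw_mid_left h2.left hpos
    have hm' : (b + a) / 2 ∈ delT a' b' c' := by rwa [add_comm]
    exact del_T2 hY h2 h' hs (dela_convex a' b' c' hm' hwc (by linarith) s0.le (by ring))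
  · left
    obtain ⟨s, s0, s1, hs⟩ := pvaw_mid_left h1.left hpos
    exact del_T2 hY h1 h' hs (dela_convex a' b' c' hm hwc (by linarith) s0.le (by ring))

/-- a site in a closed face is a vertex of the face -/
theorem pvaw_site_face (hY : VorGP Y) {a b c w : ℂ} (h : DelTri Y a b c) (hw : w ∈ Y) (hm : w ∈ delT a b c) : w = a ∨ w = b ∨ w = c := by
  have h1 := del_T_subset_disc h.left hm
  rw [mem_closedBall, dist_eq_norm, norm_sub_rev] at h1
  have e : ‖delO a b c - a‖ = ‖delO a b c - w‖ := le_antisymm (h.empty w hw) h1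
  by_contra hh
  push Not at hh
  exact hY.cir a h.1 b h.2.1 c h.2.2.1 w hw h.ne.1 h.ne.2.1 (Ne.symm hh.1) h.ne.2.2 (Ne.symm hh.2.1) (Ne.symm hh.2.2) (delO a b c)
    ⟨del_O_ab a b c, del_O_ac h.left.ne', e⟩

end mid

/-! ## 3. (W1a) the polygon of a chain -/

section chain

variable {Y : Set ℂ}

theorem PvawTri.bary {t : ℂ × ℂ × ℂ} (h : PvawTri Y t) : pvawB t ∈ pvawFo t := dela_bar_mem h.left

theorem PvawTri.mid {t : ℂ × ℂ × ℂ} (h : PvawTri Y t) : pvawM t ∈ pvawF t := pvaw_mid_mem h.left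

theorem pvaw_Fo_sub (t : ℂ × ℂ × ℂ) : pvawFo t ⊆ pvawF t := dela_open_subset _ _ _

theorem pvaw_rot_refl (t : ℂ × ℂ × ℂ) : PvawRot t t := Or.inl ⟨rfl, rfl, rfl⟩

/-- the midpoint of the next dart lies in the closed face -/
theorem PvawStep.mid {t t' : ℂ × ℂ × ℂ} (hs : PvawStep t t') (h : PvawTri Y t) : pvawM t' ∈ pvawF t := by
  obtain ⟨a, b, c⟩ := t
  obtain ⟨a', b', c'⟩ := t'
  have hl : 0 < vorDet a b c := h.left
  rcases hs with ⟨h1, h2⟩ | ⟨h1, h2⟩
  · have h1 : a' = a := h1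
    have h2 : b' = c := h2
    subst h1 h2
    show (a' + b') / 2 ∈ delT a' b b'
    rw [← dela_cyc, ← dela_cyc, add_comm]
    exact pvaw_mid_mem (by have : vorDet b' a' b = vorDet a' b b' := by simp only [vorDet]; ring
                           linarith)
  · have h1 : a' = c := h1
    have h2 : b' = b := h2
    subst h1 h2
    show (a' + b') / 2 ∈ delT a b' a'
    rw [← dela_cyc, add_comm]
    exact pvaw_mid_mem (by have : vorDet b' a' a = vorDet a b' a' := by simp only [vorDet]; ring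
                           linarith)

/-- the faces which contain the midpoint of the crossed edge -/
theorem PvawStep.mid_face (hY : VorGP Y) {t t' f : ℂ × ℂ × ℂ} (hs : PvawStep t t') (h : PvawTri Y t) (h' : PvawTri Y t') (hf : PvawTri Y f)
    (hm : pvawM t' ∈ pvawF f) : PvawRot t f ∨ PvawRot t' f := by
  obtain ⟨a, b, c⟩ := t
  obtain ⟨a', b', c'⟩ := t'
  obtain ⟨x, y, z⟩ := f
  have h : DelTri Y a b c := h
  have h' : DelTri Y a' b' c' := h'
  have hf : DelTri Y x y z := hf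
  have hm : (a' + b') / 2 ∈ delT x y z := hm
  rcases hs with ⟨h1, h2⟩ | ⟨h1, h2⟩
  · have h1 : a' = a := h1
    have h2 : b' = c := h2
    subst h1 h2
    rcases pvaw_mid_face hY h' (del_tri_cyc (del_tri_cyc h)) hf hm with r | r
    · exact Or.inr r
    · left
      rcases r with ⟨r1, r2, r3⟩ | ⟨r1, r2, r3⟩ | ⟨r1, r2, r3⟩
      · exact Or.inr (Or.inr ⟨r1, r2, r3⟩)
      · exact Or.inl ⟨r1, r2, r3⟩
      · exact Or.inr (Or.inl ⟨r1, r2, r3⟩)
  · have h1 : a' = c := h1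
    have h2 : b' = b := h2
    subst h1 h2
    rcases pvaw_mid_face hY h' (del_tri_cyc h) hf hm with r | r
    · exact Or.inr r
    · left
      rcases r with ⟨r1, r2, r3⟩ | ⟨r1, r2, r3⟩ | ⟨r1, r2, r3⟩
      · exact Or.inr (Or.inl ⟨r1, r2, r3⟩)
      · exact Or.inr (Or.inr ⟨r1, r2, r3⟩)
      · exact Or.inl ⟨r1, r2, r3⟩

/-- an inner point of a face lies in no other closed face -/
theorem pvaw_open_face (hY : VorGP Y) {t f : ℂ × ℂ × ℂ} (h : PvawTri Y t) (hf : PvawTri Y f) {x : ℂ} (hx : x ∈ pvawFo t) (hx' : x ∈ pvawF f) : PvawRot t f :=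
  del_T2 hY h hf hx hx'

/-- a link lies in the two faces -/
theorem pvaw_link_sub {t t' : ℂ × ℂ × ℂ} (h : PvawTri Y t) (h' : PvawTri Y t') (hs : PvawStep t t') :
    segment ℝ (pvawB t) (pvawM t') ∪ segment ℝ (pvawM t') (pvawB t') ⊆ pvawF t ∪ pvawF t' := by
  refine union_subset_union ?_ ?_
  · exact (dela_convex _ _ _).segment_subset (pvaw_Fo_sub t h.bary) (hs.mid h)
  · exact (dela_convex _ _ _).segment_subset h'.mid (pvaw_Fo_sub t' h'.bary)

/-- a link misses the other closed faces -/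
theorem pvaw_link_disj (hY : VorGP Y) {t t' f : ℂ × ℂ × ℂ} (h : PvawTri Y t) (h' : PvawTri Y t') (hs : PvawStep t t') (hf : PvawTri Y f)
    (n1 : ¬ PvawRot t f) (n2 : ¬ PvawRot t' f) : Disjoint (segment ℝ (pvawB t) (pvawM t') ∪ segment ℝ (pvawM t') (pvawB t')) (pvawF f) := by
  rw [Set.disjoint_left]
  rintro x (hx | hx) hxf
  · rcases pvaw_seg_open h.bary (hs.mid h) hx with h1 | h1
    · exact n1 (pvaw_open_face hY h hf h1 hxf)
    · rw [h1] at hxf
      rcases hs.mid_face hY h h' hf hxf with r | r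
      · exact n1 r
      · exact n2 r
  · rw [segment_symm] at hx
    rcases pvaw_seg_open h'.bary h'.mid hx with h1 | h1
    · exact n2 (pvaw_open_face hY h' hf h1 hxf)
    · rw [h1] at hxf
      rcases hs.mid_face hY h h' hf hxf with r | r
      · exact n1 r
      · exact n2 r

theorem PvawCh.mono {n m : ℕ} {t : ℕ → ℂ × ℂ × ℂ} (h : PvawCh Y n t) (hm : m ≤ n) : PvawCh Y m t :=
  ⟨fun i hi => h.tri i (hi.trans hm), fun i hi => h.step i (lt_of_lt_of_le hi hm)⟩

theorem pvaw_W_first (t : ℕ → ℂ × ℂ × ℂ) (n : ℕ) : pvawB (t 0) ∈ pvawW t n := by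
  induction n with
  | zero => exact rfl
  | succ n ih => exact Or.inl ih

theorem pvaw_W_last (t : ℕ → ℂ × ℂ × ℂ) (n : ℕ) : pvawB (t n) ∈ pvawW t n := by
  cases n with
  | zero => exact rfl
  | succ n => exact Or.inr (Or.inr (right_mem_segment ℝ _ _))

theorem pvaw_W_mono (t : ℕ → ℂ × ℂ × ℂ) {m n : ℕ} (h : m ≤ n) : pvawW t m ⊆ pvawW t n := by
  induction n, h using Nat.le_induction with
  | base => exact Subset.rfl
  | succ n _ ih => exact ih.trans subset_union_left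

theorem pvaw_L_compact (t : ℕ → ℂ × ℂ × ℂ) (i : ℕ) : IsCompact (pvawL t i) := (pvaw_segment_compact _ _).union (pvaw_segment_compact _ _)

theorem pvaw_L_conn (t : ℕ → ℂ × ℂ × ℂ) (i : ℕ) : IsConnected (pvawL t i) :=
  (pvaw_segment_conn _ _).union ⟨pvawM (t (i + 1)), right_mem_segment ℝ _ _, left_mem_segment ℝ _ _⟩ (pvaw_segment_conn _ _)

theorem pvaw_W_compact (t : ℕ → ℂ × ℂ × ℂ) (n : ℕ) : IsCompact (pvawW t n) := by
  induction n with
  | zero => exact isCompact_singleton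
  | succ n ih => exact ih.union (pvaw_L_compact t n)

theorem pvaw_W_conn (t : ℕ → ℂ × ℂ × ℂ) (n : ℕ) : IsConnected (pvawW t n) := by
  induction n with
  | zero => exact isConnected_singleton
  | succ n ih => exact ih.union ⟨pvawB (t n), pvaw_W_last t n, Or.inl (left_mem_segment ℝ _ _)⟩ (pvaw_L_conn t n)

/-- the polygon lies in the faces of the chain -/
theorem pvaw_W_sub {n : ℕ} {t : ℕ → ℂ × ℂ × ℂ} (h : PvawCh Y n t) {x : ℂ} (hx : x ∈ pvawW t n) : ∃ i, i ≤ n ∧ x ∈ pvawF (t i) := by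
  induction n with
  | zero =>
    have : x = pvawB (t 0) := hx
    rw [this]
    exact ⟨0, le_rfl, pvaw_Fo_sub _ (h.tri 0 le_rfl).bary⟩
  | succ n ih =>
    rcases hx with hx | hx
    · obtain ⟨i, hi, h2⟩ := ih (h.mono (Nat.le_succ n)) hx
      exact ⟨i, hi.trans (Nat.le_succ n), h2⟩
    · rcases pvaw_link_sub (h.tri n (Nat.le_succ n)) (h.tri (n + 1) le_rfl) (h.step n (Nat.lt_succ_self n)) hx with h2 | h2
      · exact ⟨n, Nat.le_succ n, h2⟩
      · exact ⟨n + 1, le_rfl, h2⟩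

/-- **(W1a)** the polygon of a chain misses every closed face which is not a face of the chain -/
theorem pvaw_W_disj (hY : VorGP Y) {n : ℕ} {t : ℕ → ℂ × ℂ × ℂ} (h : PvawCh Y n t) {f : ℂ × ℂ × ℂ} (hf : PvawTri Y f)
    (hoff : ∀ i, i ≤ n → ¬ PvawRot (t i) f) : Disjoint (pvawW t n) (pvawF f) := by
  induction n with
  | zero =>
    rw [Set.disjoint_left]
    intro x hx hxf
    have : x = pvawB (t 0) := hx
    rw [this] at hxf
    exact hoff 0 le_rfl (pvaw_open_face hY (h.tri 0 le_rfl) hf (h.tri 0 le_rfl).bary hxf)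
  | succ n ih =>
    refine Disjoint.union_left (ih (h.mono (Nat.le_succ n)) fun i hi => hoff i (hi.trans (Nat.le_succ n))) ?_
    exact pvaw_link_disj hY (h.tri n (Nat.le_succ n)) (h.tri (n + 1) le_rfl) (h.step n (Nat.lt_succ_self n)) hf (hoff n (Nat.le_succ n)) (hoff (n + 1) le_rfl)

/-- the polygon misses the union of a family of faces none of which is a face of the chain -/
theorem pvaw_W_disj_K (hY : VorGP Y) {n : ℕ} {t : ℕ → ℂ × ℂ × ℂ} (h : PvawCh Y n t) {Kf : Set (ℂ × ℂ × ℂ)} (hK : ∀ f ∈ Kf, PvawTri Y f)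
    (hoff : ∀ f ∈ Kf, ∀ i, i ≤ n → ¬ PvawRot (t i) f) : Disjoint (pvawW t n) (pvawK Kf) := by
  unfold pvawK
  rw [Set.disjoint_iUnion₂_right]
  exact fun f hf => pvaw_W_disj hY h (hK f hf) (hoff f hf)

end chain

/-! ## 4. (W1b) round a vertex -/

/-- a determinant which is negative at the two ends is negative on the segment -/
theorem pvaw_seg_neg {a b x y z : ℂ} (hx : vorDet a b x < 0) (hy : vorDet a b y < 0) (hz : z ∈ segment ℝ x y) : vorDet a b z < 0 := by
  obtain ⟨s, r, hs, hr, hsr, rfl⟩ := hz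
  rw [dela_det_affine a b x y s r hsr]
  have h1 : s * vorDet a b x ≤ s * max (vorDet a b x) (vorDet a b y) := mul_le_mul_of_nonneg_left (le_max_left _ _) hs
  have h2 : r * vorDet a b y ≤ r * max (vorDet a b x) (vorDet a b y) := mul_le_mul_of_nonneg_left (le_max_right _ _) hr
  have h3 : s * max (vorDet a b x) (vorDet a b y) + r * max (vorDet a b x) (vorDet a b y) = max (vorDet a b x) (vorDet a b y) := by
    rw [← add_mul, hsr, one_mul]
  have h4 : max (vorDet a b x) (vorDet a b y) < 0 := max_lt hx hy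
  linarith

/-- a point of the segment `[v, z]`, different from `v`, in a given ball round `v` -/
theorem pvaw_shrink (v z : ℂ) {r : ℝ} (hr : 0 < r) : ∃ s : ℝ, 0 < s ∧ s ≤ 1 ∧ (1 - s) • v + s • z ∈ ball v r := by
  have hN : 0 ≤ ‖z - v‖ := norm_nonneg _
  refine ⟨min 1 (r / (2 * (‖z - v‖ + 1))), lt_min one_pos (by positivity), min_le_left _ _, ?_⟩
  set s := min 1 (r / (2 * (‖z - v‖ + 1))) with hs
  have hs0 : 0 < s := lt_min one_pos (by positivity)
  have hs1 : s ≤ r / (2 * (‖z - v‖ + 1)) := min_le_right _ _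
  rw [mem_ball, dist_eq_norm]
  have e : (1 - s) • v + s • z - v = s • (z - v) := by
    rw [sub_smul, one_smul, smul_sub]; ring
  rw [e, norm_smul, Real.norm_eq_abs, abs_of_pos hs0]
  have h1 : s * (2 * (‖z - v‖ + 1)) ≤ r := by rwa [le_div_iff₀ (by positivity)] at hs1
  nlinarith

/-- the points of `[z, u]`, `u = (1 - s) v + s z`, are of the form `(1 - s') v + s' z`, `s ≤ s' ≤ 1` -/
theorem pvaw_seg_param {v z x : ℂ} {s : ℝ} (h0 : 0 < s) (h1 : s ≤ 1) (hx : x ∈ segment ℝ z ((1 - s) • v + s • z)) :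
    ∃ s' : ℝ, 0 < s' ∧ s' ≤ 1 ∧ x = (1 - s') • v + s' • z := by
  obtain ⟨a, b, ha, hb, hab, rfl⟩ := hx
  refine ⟨a + b * s, ?_, ?_, ?_⟩
  · rcases ha.eq_or_lt with h | h
    · have : b = 1 := by linarith
      rw [← h, this]; linarith
    · have := mul_nonneg hb h0.le
      linarith
  · have : b * s ≤ b := by nlinarith
    linarith
  · have e : 1 - (a + b * s) = b * (1 - s) := by
      have : a = 1 - b := by linarith
      rw [this]; ring
    rw [e, smul_add, smul_smul, smul_smul, add_smul]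
    ring

theorem pvaw_K_mem {Kf : Set (ℂ × ℂ × ℂ)} {x : ℂ} : x ∈ pvawK Kf ↔ ∃ f ∈ Kf, x ∈ pvawF f := by
  unfold pvawK
  simp only [mem_iUnion, exists_prop]

/-- **(W1b) ROUND A VERTEX.**   `v = ψ.2.2` lies in one face `ψ` of the finite family only; two segments `(v, z₁]`, `(v, z₂]` off `K` are joined off `K` inside any ball round `v`. -/
theorem pvaw_round {Kf : Set (ℂ × ℂ × ℂ)} (hfin : Kf.Finite) {ψ : ℂ × ℂ × ℂ} (hpos : 0 < vorDet ψ.1 ψ.2.1 ψ.2.2)
    (hone : ∀ f ∈ Kf, ψ.2.2 ∈ pvawF f → f = ψ) {z₁ z₂ : ℂ}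
    (h₁ : ∀ s : ℝ, 0 < s → s ≤ 1 → (1 - s) • ψ.2.2 + s • z₁ ∉ pvawK Kf) (h₂ : ∀ s : ℝ, 0 < s → s ≤ 1 → (1 - s) • ψ.2.2 + s • z₂ ∉ pvawK Kf)
    {ρ : ℝ} (hρ : 0 < ρ) :
    ∃ W : Set ℂ, IsCompact W ∧ IsConnected W ∧ Disjoint W (pvawK Kf) ∧ z₁ ∈ W ∧ z₂ ∈ W ∧ W ⊆ segment ℝ z₁ ψ.2.2 ∪ segment ℝ z₂ ψ.2.2 ∪ ball ψ.2.2 ρ := by
  obtain ⟨p, q, v⟩ := ψ
  have hpos : 0 < vorDet p q v := hpos
  have hone : ∀ f ∈ Kf, v ∈ pvawF f → f = (p, q, v) := hone
  have h₁ : ∀ s : ℝ, 0 < s → s ≤ 1 → (1 - s) • v + s • z₁ ∉ pvawK Kf := h₁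
  have h₂ : ∀ s : ℝ, 0 < s → s ≤ 1 → (1 - s) • v + s • z₂ ∉ pvawK Kf := h₂
  show ∃ W : Set ℂ, IsCompact W ∧ IsConnected W ∧ Disjoint W (pvawK Kf) ∧ z₁ ∈ W ∧ z₂ ∈ W ∧ W ⊆ segment ℝ z₁ v ∪ segment ℝ z₂ v ∪ ball v ρ
  -- the good ball
  have hcl : IsClosed (⋃ f ∈ Kf \ {(p, q, v)}, pvawF f) := (hfin.subset sdiff_subset).isClosed_biUnion fun f _ => dela_isClosed _ _ _
  have hop : IsOpen ({x : ℂ | 0 < vorDet p q x} ∩ (⋃ f ∈ Kf \ {(p, q, v)}, pvawF f)ᶜ) :=
    (isOpen_lt continuous_const (dela_det_cont p q)).inter hcl.isOpen_compl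
  have hv : v ∈ {x : ℂ | 0 < vorDet p q x} ∩ (⋃ f ∈ Kf \ {(p, q, v)}, pvawF f)ᶜ := by
    refine ⟨hpos, ?_⟩
    intro hx
    simp only [mem_iUnion, exists_prop] at hx
    obtain ⟨f, ⟨hf, hne⟩, hvf⟩ := hx
    exact hne (hone f hf hvf)
  obtain ⟨ε, hε, hball⟩ := Metric.isOpen_iff.1 hop v hv
  set r := min ε ρ with hr
  have hr0 : 0 < r := lt_min hε hρ
  have hrε : ball v r ⊆ ball v ε := ball_subset_ball (min_le_left _ _)
  have hrρ : ball v r ⊆ ball v ρ := ball_subset_ball (min_le_right _ _)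
  -- inside the ball: `K` = the cone
  have hK1 : ∀ x ∈ ball v r, x ∈ pvawK Kf → 0 ≤ vorDet q v x ∧ 0 ≤ vorDet v p x := by
    intro x hx hxK
    obtain ⟨f, hf, hxf⟩ := pvaw_K_mem.1 hxK
    by_cases e : f = (p, q, v)
    · rw [e] at hxf
      exact hxf.2
    · exfalso
      refine (hball (hrε hx)).2 ?_
      simp only [mem_iUnion, exists_prop]
      exact ⟨f, ⟨hf, e⟩, hxf⟩
  -- the centre of the star
  set β := delBar p q v with hβ
  have hβo : β ∈ delTo p q v := dela_bar_mem hpos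
  set z₀ : ℂ := (2 : ℝ) • v + (-1 : ℝ) • β with hz₀
  have d1v : vorDet q v v = 0 := by simp only [vorDet]; ring
  have d2v : vorDet v p v = 0 := by simp only [vorDet]; ring
  have f1z : vorDet q v z₀ < 0 := by
    rw [hz₀, dela_det_affine q v v β 2 (-1) (by norm_num), d1v]
    have := hβo.2.1
    linarith
  have f2z : vorDet v p z₀ < 0 := by
    rw [hz₀, dela_det_affine v p v β 2 (-1) (by norm_num), d2v]
    have := hβo.2.2
    linarith
  obtain ⟨s₀, p₀, l₀, he⟩ := pvaw_shrink v z₀ hr0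
  set e₀ := (1 - s₀) • v + s₀ • z₀ with he₀
  have f1e : vorDet q v e₀ < 0 := by
    rw [he₀, dela_det_affine q v v z₀ _ _ (by ring), d1v]
    have := mul_neg_of_pos_of_neg p₀ f1z
    linarith
  have f2e : vorDet v p e₀ < 0 := by
    rw [he₀, dela_det_affine v p v z₀ _ _ (by ring), d2v]
    have := mul_neg_of_pos_of_neg p₀ f2z
    linarith
  -- a point of the ball off `K` is joined to `e₀`
  have hpsi : ∀ x ∈ ball v r, 0 ≤ vorDet q v x → 0 ≤ vorDet v p x → (p, q, v) ∈ Kf → x ∈ pvawK Kf := by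
    intro x hx g1 g2 hm
    exact pvaw_K_mem.2 ⟨(p, q, v), hm, (hball (hrε hx)).1.le, g1, g2⟩
  have hjoin : ∀ u ∈ ball v r, u ∉ pvawK Kf → segment ℝ u e₀ ⊆ ball v r ∧ Disjoint (segment ℝ u e₀) (pvawK Kf) := by
    intro u hu huK
    have hsub : segment ℝ u e₀ ⊆ ball v r := (convex_ball v r).segment_subset hu he
    refine ⟨hsub, ?_⟩
    rw [Set.disjoint_left]
    intro x hx hxK
    obtain ⟨g1, g2⟩ := hK1 x (hsub hx) hxK
    by_cases hm : (p, q, v) ∈ Kf
    · by_cases c1 : vorDet q v u < 0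
      · exact absurd g1 (not_le.2 (pvaw_seg_neg c1 f1e hx))
      · by_cases c2 : vorDet v p u < 0
        · exact absurd g2 (not_le.2 (pvaw_seg_neg c2 f2e hx))
        · exact huK (hpsi u hu (not_lt.1 c1) (not_lt.1 c2) hm)
    · obtain ⟨f, hf, hxf⟩ := pvaw_K_mem.1 hxK
      have e : f ≠ (p, q, v) := fun e => hm (e ▸ hf)
      refine (hball (hrε (hsub hx))).2 ?_
      simp only [mem_iUnion, exists_prop]
      exact ⟨f, ⟨hf, e⟩, hxf⟩
  obtain ⟨s₁, p₁, l₁, hu₁⟩ := pvaw_shrink v z₁ hr0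
  obtain ⟨s₂, p₂, l₂, hu₂⟩ := pvaw_shrink v z₂ hr0
  set u₁ := (1 - s₁) • v + s₁ • z₁ with hu₁d
  set u₂ := (1 - s₂) • v + s₂ • z₂ with hu₂d
  obtain ⟨j1s, j1d⟩ := hjoin u₁ hu₁ (h₁ s₁ p₁ l₁)
  obtain ⟨j2s, j2d⟩ := hjoin u₂ hu₂ (h₂ s₂ p₂ l₂)
  have k1 : Disjoint (segment ℝ z₁ u₁) (pvawK Kf) := by
    rw [Set.disjoint_left]
    intro x hx hxK
    obtain ⟨s', a1, a2, rfl⟩ := pvaw_seg_param p₁ l₁ hx
    exact h₁ s' a1 a2 hxK
  have k2 : Disjoint (segment ℝ z₂ u₂) (pvawK Kf) := by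
    rw [Set.disjoint_left]
    intro x hx hxK
    obtain ⟨s', a1, a2, rfl⟩ := pvaw_seg_param p₂ l₂ hx
    exact h₂ s' a1 a2 hxK
  have m1 : u₁ ∈ segment ℝ z₁ v := ⟨s₁, 1 - s₁, p₁.le, by linarith, by ring, by rw [hu₁d, add_comm]⟩
  have m2 : u₂ ∈ segment ℝ z₂ v := ⟨s₂, 1 - s₂, p₂.le, by linarith, by ring, by rw [hu₂d, add_comm]⟩
  refine ⟨(segment ℝ z₁ u₁ ∪ segment ℝ u₁ e₀) ∪ (segment ℝ z₂ u₂ ∪ segment ℝ u₂ e₀), ?_, ?_, ?_, ?_, ?_, ?_⟩
  · exact ((pvaw_segment_compact _ _).union (pvaw_segment_compact _ _)).union ((pvaw_segment_compact _ _).union (pvaw_segment_compact _ _))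
  · refine IsConnected.union ⟨e₀, Or.inr (right_mem_segment ℝ _ _), Or.inr (right_mem_segment ℝ _ _)⟩ ?_ ?_
    · exact (pvaw_segment_conn _ _).union ⟨u₁, right_mem_segment ℝ _ _, left_mem_segment ℝ _ _⟩ (pvaw_segment_conn _ _)
    · exact (pvaw_segment_conn _ _).union ⟨u₂, right_mem_segment ℝ _ _, left_mem_segment ℝ _ _⟩ (pvaw_segment_conn _ _)
  · exact (k1.union_left j1d).union_left (k2.union_left j2d)
  · exact Or.inl (Or.inl (left_mem_segment ℝ _ _))
  · exact Or.inr (Or.inl (left_mem_segment ℝ _ _))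
  · rintro x ((hx | hx) | (hx | hx))
    · exact Or.inl (Or.inl ((convex_segment z₁ v).segment_subset (left_mem_segment ℝ _ _) m1 hx))
    · exact Or.inr (hrρ (j1s hx))
    · exact Or.inl (Or.inr ((convex_segment z₂ v).segment_subset (left_mem_segment ℝ _ _) m2 hx))
    · exact Or.inr (hrρ (j2s hx))

/-! ## 5. (W1) -/

/-- a proper convex combination of an inner point and a point of the closed triangle is an inner point -/
theorem pvaw_comb_open {a b c x y : ℂ} (hx : x ∈ delTo a b c) (hy : y ∈ delT a b c) {s : ℝ} (h0 : 0 < s) (h1 : s ≤ 1) : (1 - s) • y + s • x ∈ delTo a b c := by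
  have hr : 0 ≤ 1 - s := by linarith
  refine ⟨?_, ?_, ?_⟩
  · rw [dela_det_affine a b y x _ _ (by ring)]
    have := mul_pos h0 hx.1
    have := mul_nonneg hr hy.1
    linarith
  · rw [dela_det_affine b c y x _ _ (by ring)]
    have := mul_pos h0 hx.2.1
    have := mul_nonneg hr hy.2.1
    linarith
  · rw [dela_det_affine c a y x _ _ (by ring)]
    have := mul_pos h0 hx.2.2
    have := mul_nonneg hr hy.2.2
    linarith

/-- a compact set and a closed set which are disjoint are at a positive distance -/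
theorem pvaw_gap {W K : Set ℂ} (hW : IsCompact W) (hK : IsClosed K) (hd : Disjoint W K) : ∃ η : ℝ, 0 < η ∧ ∀ p ∈ W, ∀ q ∈ K, η ≤ ‖p - q‖ := by
  rcases W.eq_empty_or_nonempty with rfl | hWn
  · exact ⟨1, one_pos, fun p hp => absurd hp (notMem_empty p)⟩
  rcases K.eq_empty_or_nonempty with rfl | hKn
  · exact ⟨1, one_pos, fun p _ q hq => absurd hq (notMem_empty q)⟩
  obtain ⟨x, hx, hmin⟩ := hW.exists_isMinOn hWn (Metric.continuous_infDist_pt K).continuousOn
  refine ⟨infDist x K, ?_, ?_⟩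
  · exact (hK.notMem_iff_infDist_pos hKn).1 (Set.disjoint_left.1 hd hx)
  · intro p hp q hq
    rw [← dist_eq_norm]
    exact (hmin hp).trans (infDist_le_dist_of_mem hq)

theorem pvaw_K_closed {Kf : Set (ℂ × ℂ × ℂ)} (hfin : Kf.Finite) : IsClosed (pvawK Kf) := hfin.isClosed_biUnion fun _ _ => dela_isClosed _ _ _

section W1

variable {Y : Set ℂ}

/-- the apex of a face is a vertex of the next face -/
theorem PvawStep.apex_mem {t t' : ℂ × ℂ × ℂ} (hs : PvawStep t t') (h' : PvawTri Y t') : t.2.2 ∈ pvawF t' := by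
  rcases hs with ⟨-, h2⟩ | ⟨h1, -⟩
  · rw [← h2]
    exact dela_mem_b h'.left.le
  · rw [← h1]
    exact dela_mem_a h'.left.le

/-- **(W1)**   `t 0 = ψ` the last face of the stub, apex `v` = the outer end of the tip position; `t 1, …, t (n + 1)` the continuation of the wall: no face of `Kf`;   `v` lies in no face of `Kf` but `ψ`;
the half open segment `(v, z]` misses `K`.      Then `z` and the barycentre of the last face are joined by a compact connected set at a positive distance from `K`. -/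
theorem pvaw_W1 (hY : VorGP Y) {n : ℕ} {t : ℕ → ℂ × ℂ × ℂ} (hc : PvawCh Y (n + 1) t) {Kf : Set (ℂ × ℂ × ℂ)} (hfin : Kf.Finite) (hK : ∀ f ∈ Kf, PvawTri Y f)
    (hoff : ∀ f ∈ Kf, ∀ i, 1 ≤ i → i ≤ n + 1 → ¬ PvawRot (t i) f) (hone : ∀ f ∈ Kf, (t 0).2.2 ∈ pvawF f → f = t 0) {z : ℂ}
    (hz : ∀ s : ℝ, 0 < s → s ≤ 1 → (1 - s) • (t 0).2.2 + s • z ∉ pvawK Kf) {ρ : ℝ} (hρ : 0 < ρ) :
    ∃ W : Set ℂ, IsCompact W ∧ IsConnected W ∧ Disjoint W (pvawK Kf) ∧ z ∈ W ∧ pvawB (t (n + 1)) ∈ W ∧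
      (∃ η : ℝ, 0 < η ∧ ∀ p ∈ W, ∀ q ∈ pvawK Kf, η ≤ ‖p - q‖) ∧
      ∀ x ∈ W, x ∈ segment ℝ z (t 0).2.2 ∨ x ∈ ball (t 0).2.2 ρ ∨ ∃ i, 1 ≤ i ∧ i ≤ n + 1 ∧ x ∈ pvawF (t i) := by
  have h0 : PvawTri Y (t 0) := hc.tri 0 (Nat.zero_le _)
  have h1 : PvawTri Y (t 1) := hc.tri 1 (by omega)
  have hs : PvawStep (t 0) (t 1) := hc.step 0 (by omega)
  have hv1 : (t 0).2.2 ∈ pvawF (t 1) := hs.apex_mem h1
  have hz₂ : ∀ s : ℝ, 0 < s → s ≤ 1 → (1 - s) • (t 0).2.2 + s • pvawB (t 1) ∉ pvawK Kf := by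
    intro s s0 s1 hx
    obtain ⟨f, hf, hxf⟩ := pvaw_K_mem.1 hx
    exact hoff f hf 1 le_rfl (by omega) (pvaw_open_face hY h1 (hK f hf) (pvaw_comb_open h1.bary hv1 s0 s1) hxf)
  obtain ⟨W₀, c0, k0, d0, m1, m2, sub0⟩ := pvaw_round hfin h0.left hone hz hz₂ hρ
  have hc' : PvawCh Y n (fun i => t (i + 1)) := ⟨fun i hi => hc.tri (i + 1) (by omega), fun i hi => hc.step (i + 1) (by omega)⟩
  have d1 : Disjoint (pvawW (fun i => t (i + 1)) n) (pvawK Kf) := pvaw_W_disj_K hY hc' hK fun f hf i hi => hoff f hf (i + 1) (by omega) (by omega)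
  have hcomp : IsCompact (W₀ ∪ pvawW (fun i => t (i + 1)) n) := c0.union (pvaw_W_compact _ n)
  have hdis : Disjoint (W₀ ∪ pvawW (fun i => t (i + 1)) n) (pvawK Kf) := d0.union_left d1
  refine ⟨W₀ ∪ pvawW (fun i => t (i + 1)) n, hcomp, ?_, hdis, Or.inl m1, Or.inr (pvaw_W_last _ n), pvaw_gap hcomp (pvaw_K_closed hfin) hdis, ?_⟩
  · exact k0.union ⟨pvawB (t 1), m2, pvaw_W_first (fun i => t (i + 1)) n⟩ (pvaw_W_conn _ n)
  · rintro x (hx | hx)
    · rcases sub0 hx with (h | h) | h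
      · exact Or.inl h
      · exact Or.inr (Or.inr ⟨1, le_rfl, by omega, (dela_convex _ _ _).segment_subset (pvaw_Fo_sub _ h1.bary) hv1 h⟩)
      · exact Or.inr (Or.inl h)
    · obtain ⟨i, hi, hxi⟩ := pvaw_W_sub hc' hx
      exact Or.inr (Or.inr ⟨i + 1, by omega, by omega, hxi⟩)

end W1

/-- a closed face below a level of a linear form -/
theorem pvaw_face_half {f : ℂ × ℂ × ℂ} (hpos : 0 < vorDet f.1 f.2.1 f.2.2) {α β c : ℝ} (h1 : α * f.1.re + β * f.1.im ≤ c) (h2 : α * f.2.1.re + β * f.2.1.im ≤ c)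
    (h3 : α * f.2.2.re + β * f.2.2.im ≤ c) {x : ℂ} (hx : x ∈ pvawF f) : α * x.re + β * x.im ≤ c := by
  have := del_T_half hpos (α := α) (β := β) (γ := -c) (by linarith) (by linarith) (by linarith) hx
  linarith

/-- **the segment condition of (W1) from a linear form**: inside the convex set `M` (the mouth) `K` lies below the level of `v`, and `z` lies above it -/
theorem pvaw_half {Kf : Set (ℂ × ℂ × ℂ)} {M : Set ℂ} (hM : Convex ℝ M) {v z : ℂ} (hv : v ∈ M) (hz : z ∈ M) {α β : ℝ}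
    (hK : ∀ x ∈ pvawK Kf, x ∈ M → α * x.re + β * x.im ≤ α * v.re + β * v.im) (hlt : α * v.re + β * v.im < α * z.re + β * z.im) :
    ∀ s : ℝ, 0 < s → s ≤ 1 → (1 - s) • v + s • z ∉ pvawK Kf := by
  intro s s0 s1 hx
  have h1 := hK _ hx (hM hv hz (by linarith) s0.le (by ring))
  simp only [Complex.add_re, Complex.add_im, Complex.real_smul, Complex.mul_re, Complex.mul_im, Complex.ofReal_re, Complex.ofReal_im, zero_mul, sub_zero, add_zero] at h1
  nlinarith

/-! ## 6. the obstacle `K` -/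

theorem pvaw_K_compact {Kf : Set (ℂ × ℂ × ℂ)} (hfin : Kf.Finite) (hpos : ∀ f ∈ Kf, 0 < vorDet f.1 f.2.1 f.2.2) : IsCompact (pvawK Kf) :=
  hfin.isCompact_biUnion fun f hf => dela_isCompact (hpos f hf)

theorem pvaw_K_mono {Kf Kf' : Set (ℂ × ℂ × ℂ)} (h : Kf ⊆ Kf') : pvawK Kf ⊆ pvawK Kf' := biUnion_subset_biUnion_left h

theorem pvaw_K_union (Kf Kf' : Set (ℂ × ℂ × ℂ)) : pvawK (Kf ∪ Kf') = pvawK Kf ∪ pvawK Kf' := biUnion_union _ _ _

/-- faces linked by common points have a connected union -/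
theorem pvaw_K_conn {Kf : Set (ℂ × ℂ × ℂ)}
    (hl : ∀ f ∈ Kf, ∀ g ∈ Kf, Relation.ReflTransGen (fun f g => (pvawF f ∩ pvawF g).Nonempty ∧ f ∈ Kf) f g) : IsPreconnected (pvawK Kf) :=
  IsPreconnected.biUnion_of_reflTransGen (fun _ _ => (dela_convex _ _ _).isPreconnected) hl

/-- consecutive faces of a wall meet -/
theorem PvawStep.meet {Y : Set ℂ} {t t' : ℂ × ℂ × ℂ} (hs : PvawStep t t') (h : PvawTri Y t) (h' : PvawTri Y t') : (pvawF t ∩ pvawF t').Nonempty :=
  ⟨pvawM t', hs.mid h, h'.mid⟩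

/-- the faces of a chain have a connected union -/
theorem pvaw_chain_conn {Y : Set ℂ} {n : ℕ} {t : ℕ → ℂ × ℂ × ℂ} (h : PvawCh Y n t) : IsPreconnected (⋃ i ∈ Iic n, pvawF (t i)) := by
  induction n with
  | zero =>
    have : (⋃ i ∈ Iic 0, pvawF (t i)) = pvawF (t 0) := by
      ext x
      simp only [mem_iUnion, mem_Iic, Nat.le_zero_eq, exists_prop, exists_eq_left]
    rw [this]
    exact (dela_convex _ _ _).isPreconnected
  | succ n ih =>
    have e : (⋃ i ∈ Iic (n + 1), pvawF (t i)) = (⋃ i ∈ Iic n, pvawF (t i)) ∪ pvawF (t (n + 1)) := by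
      ext x
      simp only [mem_iUnion, mem_Iic, exists_prop, mem_union]
      constructor
      · rintro ⟨i, hi, hx⟩
        rcases Nat.lt_or_ge i (n + 1) with h1 | h1
        · exact Or.inl ⟨i, by omega, hx⟩
        · have : i = n + 1 := by omega
          exact Or.inr (this ▸ hx)
      · rintro (⟨i, hi, hx⟩ | hx)
        · exact ⟨i, by omega, hx⟩
        · exact ⟨n + 1, le_rfl, hx⟩
    rw [e]
    obtain ⟨x, hx1, hx2⟩ := (h.step n (Nat.lt_succ_self n)).meet (h.tri n (Nat.le_succ n)) (h.tri (n + 1) le_rfl)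
    refine IsPreconnected.union x ?_ hx2 (ih (h.mono (Nat.le_succ n))) (dela_convex _ _ _).isPreconnected
    simp only [mem_iUnion, mem_Iic, exists_prop]
    exact ⟨n, le_rfl, hx1⟩

end Claimed.Agent.R289
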