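-- KEEP
import Claimed.Agent.R289.Pl.Quad
import Claimed.Agent.R289.Arm.Stop

/-!
# Row 289 (S0537, Cardy for Poisson-Voronoi), THE WALL, ADMISSION (TR22 = TR37 = P18 = E25), ROPE A, file Tr/Adm : MODEL FREE PART      (pen helper127; author of the mathematics helper140, `origin/helper140:notes/R289/ADM_140.md`; prefix `pvam_`, `Pvam`, `pvam`)

Ruling 14 of 234.   TARGET: `EX p0 > 0, eventually (eps -> 0+): p0 <= P(C0 n Hb+ n Hw+ n Hb- n Hw-)`.   This file: a dart map `T : PvMap V D`, fair bits `pvaP A ξ` (`Arm/Stop`, 128), quads `T.Quad`, `Sea`, `Low` (`Pl/Quad`, 15).   NO positions, NO Poisson.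

ONE REPAIR OF ADM_140 (POCKET).   If ALL the sites with `y < 0` are revealed, a revealed site may lie ABOVE the lowest black crossing (where it dips below `y = 0`) and stop the landing path before it reaches `Low`.
CURE: reveal `Vo` = the sites with `y < -w/2` only; ask for a HUB = a white 1-3 crossing of the quad carried by `Sea \ Vo` (strip `-w/2 ≤ y ≤ 0`; it is in the sea because it meets a white column which stands on the side 2);
(DOWN-CHAIN) every site of `Vo` in the closed disc is joined to the side 2 inside `Vo` (vertical line chain).   Then a path from the side 4 to a site of `Vo`, continued by the chain, is a 2-4 crossing: it meets the hub: NO POCKET (`pvam_land`).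
The white structure below (`FW`) enters only through EXPLORED consequences: hubs, and joins of hubs inside the explored white set `I.Wx ω` (lanes and lower half circuits live in `Vo`).

* sec.1  PROBABILITY.  **`pvam_copy`**: `S` a stopping set, `F ω → U ω' → Tg (pvaMix (S ω) ω ω')` ⟹ `P(F) P(U) ≤ P(Tg)` (NO measurability of `F` is needed);  `pvam_and` (independence on disjoint classes), `pvam_four`.
* sec.2  ONE QUAD.  `Q.Ld X v` (LANDING VERTEX: `v ∈ Low X`, reached from the side 4 by a path which is unexplored before `v`);  `pvam_enter`, **`pvam_land`** (D2: a path from an unexplored base vertex outside the quad, down a column, to the side 2);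
         **`pvam_same`** (D5: two landing vertices are joined inside `Low X`), `pvam_sides`, **`pvam_down`** (D3: a landing vertex has a neighbour in the sea which is joined inside the sea to EVERY hub).
* sec.3  EXPLORATION.  `PvamIn T ι` (quads with pairwise disjoint closed discs + `Vo`), `I.E ω`, **`pvam_stop`**, `pvam_E_quad`, `I.Wx ω`, `pvam_mix_*`.
* sec.4  LINKS (v2, 11:50Z).  `PvamHalf I` = (quad `i`, region `R` (instance: `univ`), class `K` of sites, `hin`: the class enters the closed disc through the side 4 only), `H.Ev c ω' m`, **`pvam_half`** (the landing of a half link, in the mixed colouring), `PvamEnd`.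
* sec.5  THE NET.  `PvamNet I` (fresh white links, fresh black links, fresh black door links, explored white links WITH A CLASS, explored white door links WITH A CLASS), events `N.F`, `N.U1`, `N.U2`, output `N.Out`, **`pvam_net`** (deterministic), **`pvam_net_prob`** (ANY four events which imply them).
* sec.6  OUTPUT.  `I.Foot σ i u s`, `pvam_out_foot`, `pvam_out_wl` (upper arc), `pvam_out_xl`, `pvam_out_xd` (explored white links between feet), `pvam_out_black`, `pvam_out_bdoor`: all the joins through EXPLICIT sets (`Sea`, `Low`, `Fs K c σ`, `Wx σ ∩ K`): positions are read on the classes.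
Consumers: `Tr/AdmDet` (140: D4 gate, D6 thru, D7 lanes from `N.Out`), `Tr/QuadI` (267: rectangles -> quads of the Delaunay map), `Tr/AdmI` (instance, QBX numbers).
-/

set_option autoImplicit false
set_option linter.unusedSectionVars false
set_option linter.unusedVariables false

namespace Claimed.Agent.R289

open Relation

variable {V D : Type} [DecidableEq V] {T : PvMap V D}

/-! ## 1. probability -/

/-- **FRESH COPY**: explore `S ω`, keep `ω` there, put an independent copy `ω'` elsewhere -/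
theorem pvam_copy {S : (V → Bool) → Finset V} (hS : PvaStop S) (A : Finset V) (ξ : V → Bool) {F U Tg : (V → Bool) → Prop}
    (h : ∀ ω ω', PvaCfg A ξ ω → PvaCfg A ξ ω' → F ω → U ω' → Tg (pvaMix (S ω) ω ω')) :
    pvaP A ξ F * pvaP A ξ U ≤ pvaP A ξ Tg := by
  classical
  have e1 := pva_fresh hS A ξ (fun x _ => if Tg x then (1 : ℝ) else 0)
  have e2 : pvaE A ξ (fun ω => pvaE A ξ (fun _ : V → Bool => if Tg ω then (1 : ℝ) else 0)) = pvaP A ξ Tg := by
    unfold pvaP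
    exact pva_E_congr fun ω _ => pva_E_const A ξ _
  have e3 : pvaP A ξ F * pvaP A ξ U = pvaE A ξ (fun ω => (if F ω then (1 : ℝ) else 0) * pvaP A ξ U) := by
    rw [pva_E_mul_right]
    rfl
  rw [e3, ← e2, ← e1]
  refine pva_E_mono fun ω hω => ?_
  by_cases hF : F ω
  · rw [if_pos hF, one_mul]
    unfold pvaP
    refine pva_E_mono fun ω' hω' => ?_
    by_cases hU : U ω'
    · rw [if_pos hU, if_pos (h ω ω' hω hω' hF hU)]
    · rw [if_neg hU]
      split_ifs <;> norm_num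
  · rw [if_neg hF, zero_mul]
    refine pva_E_nonneg fun ω' _ => ?_
    split_ifs <;> norm_num

/-- independence on disjoint classes -/
theorem pvam_and {A R₁ R₂ : Finset V} (hR₂ : R₂ ⊆ A) (hd : Disjoint R₁ R₂) {ξ : V → Bool} {K L : (V → Bool) → Prop}
    (hK : PvaDep A R₁ ξ K) (hL : PvaDep A R₂ ξ L) : pvaP A ξ (fun ω => K ω ∧ L ω) = pvaP A ξ K * pvaP A ξ L := by
  classical
  rw [pva_P_and_eq]
  exact pva_E_mul hR₂ hd (pva_dep_ind hK) (pva_dep_ind hL)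

/-- the four factors of ADM_140 sec.2: `FW`, `FB` on disjoint classes, `U1`, `U2` on disjoint classes -/
theorem pvam_four {S : (V → Bool) → Finset V} (hS : PvaStop S) {A Rw Rb Kw Kb : Finset V} (hRb : Rb ⊆ A) (hKb : Kb ⊆ A) (hR : Disjoint Rw Rb) (hK : Disjoint Kw Kb)
    (ξ : V → Bool) {FW FB U1 U2 Tg : (V → Bool) → Prop} (dFW : PvaDep A Rw ξ FW) (dFB : PvaDep A Rb ξ FB) (dU1 : PvaDep A Kw ξ U1) (dU2 : PvaDep A Kb ξ U2)
    (h : ∀ ω ω', PvaCfg A ξ ω → PvaCfg A ξ ω' → FW ω → FB ω → U1 ω' → U2 ω' → Tg (pvaMix (S ω) ω ω')) :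
    pvaP A ξ FW * pvaP A ξ FB * (pvaP A ξ U1 * pvaP A ξ U2) ≤ pvaP A ξ Tg := by
  rw [← pvam_and hRb hR dFW dFB, ← pvam_and hKb hK dU1 dU2]
  exact pvam_copy hS A ξ fun ω ω' c c' hF hU => h ω ω' c c' hF.1 hF.2 hU.1 hU.2

/-! ## 2. one quad: LAND (D2), SAME (D5), DOWN (D3) -/

/-- the black set of a colouring -/
def pvamB (ω : V → Bool) : Set V := {v | ω v = true}

/-- the vertices of colour `c` -/
def pvamC (c : Bool) (ω : V → Bool) : Set V := {v | ω v = c}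

/-- the explored set of a quad -/
def PvMap.Quad.Ex (Q : T.Quad) (X : Set V) : Set V := Q.Sea X ∪ Q.Low X

/-- **LANDING VERTEX**: a vertex of `Low X` reached from the side 4 by a path of the closed disc which is unexplored before it -/
def PvMap.Quad.Ld (Q : T.Quad) (X : Set V) (v : V) : Prop :=
  v ∈ Q.Low X ∧ ∃ P : Set V, ∃ b ∈ Q.S4, T.Join Q.c.Left P b v ∧ ∀ w ∈ P, w ∈ Q.Ex X → w = v

/-- **HUB**: a 1-3 crossing carried by the sea, off the set `Vo`, from `a` -/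
def PvMap.Quad.Hub (Q : T.Quad) (X Vo : Set V) (a : V) : Prop := a ∈ Q.S1 ∧ ∃ a' ∈ Q.S3, T.Join Q.c.Left (Q.Sea X \ Vo) a a'

theorem pvam_eqns_cite : True := by
  have := @pvamB.eq_1; have := @pvamC.eq_1; have := @PvMap.Quad.Ex.eq_1; have := @PvMap.Quad.Ld.eq_1; have := @PvMap.Quad.Hub.eq_1
  trivial

/-- the ends of an edge of a face set are vertices of the face set -/
theorem pvam_edge_VOf {A : Set D} (hA : T.FaceSet A) {a b : V} (h : T.EdgeIn A a b) : a ∈ T.VOf A ∧ b ∈ T.VOf A := by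
  obtain ⟨d, hd | hd, rfl, rfl⟩ := h
  · exact ⟨⟨d, hd, rfl⟩, ⟨T.nxt d, (hA d).2 hd, T.src_nxt d⟩⟩
  · exact ⟨⟨T.nxt (T.opp d), (hA _).2 hd, by rw [T.src_nxt, T.tgt_opp]⟩, ⟨T.opp d, hd, T.src_opp' d⟩⟩

/-- the explored set of a quad lies in its closed disc -/
theorem pvam_ex_VOf (hT : T.IsSph) (Q : T.Quad) (X : Set V) : Q.Ex X ⊆ T.VOf Q.c.Left := by
  have hF : T.FaceSet Q.c.Left := pl_djoin_face _ _
  have hS2 : ∀ a ∈ Q.S2, a ∈ T.VOf Q.c.Left := by
    rintro a ⟨k, -, -, rfl⟩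
    rw [pl_VOf_left hT]
    exact Or.inl ⟨k, rfl⟩
  have hSea : ∀ u ∈ Q.Sea X, u ∈ T.VOf Q.c.Left := by
    rintro u ⟨a, ha, -, hr⟩
    rcases ReflTransGen.cases_tail hr with h0 | ⟨_, _, h1⟩
    · rw [h0]; exact hS2 a ha
    · exact (pvam_edge_VOf hF h1.1).2
  rintro v (hv | ⟨-, hv | ⟨u, -, hu⟩⟩)
  · exact hSea v hv
  · exact hS2 v hv
  · exact (pvam_edge_VOf hF hu).2

/-- **FIRST HIT**, with the last unexplored vertex -/
theorem pvam_first_hit {A : Set D} {P E : Set V} {b z : V} (h : T.Join A P b z) (hb : b ∉ E) (hz : z ∈ E) :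
    ∃ w v, T.Join A (P \ E) b w ∧ T.EdgeIn A w v ∧ v ∈ P ∧ v ∈ E := by
  have key : (∃ w v, T.Join A (P \ E) b w ∧ T.EdgeIn A w v ∧ v ∈ P ∧ v ∈ E) ∨ T.Join A (P \ E) b z := by
    clear hz
    obtain ⟨h1, h2⟩ := h
    induction h2 with
    | refl => exact Or.inr (pl_hx_join_refl ⟨h1, hb⟩)
    | @tail y z' _ hyz ih =>
      rcases ih with ih | ih
      · exact Or.inl ih
      · by_cases hz' : z' ∈ E
        · exact Or.inl ⟨y, z', ih, hyz.1, hyz.2, hz'⟩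
        · exact Or.inr (pl_hx_join_tail ih hyz.1 ⟨hyz.2, hz'⟩)
  rcases key with key | key
  · exact key
  · exact absurd hz (pl_hx_join_mem key).2

/-- **ENTER** (v2).   `hin`: an edge of the region `R` between two vertices of the class `K`, the first one off the side 2, which ends in the closed disc is an edge of the closed disc or ends on the side 4.
A path of `R` which starts outside the closed disc, runs in `P ⊆ K` off the side 2 and ends in the closed disc contains a path of the closed disc from the side 4 -/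
theorem pvam_enter (Q : T.Quad) {R : Set D} {K : Set V}
    (hin : ∀ a b, T.EdgeIn R a b → a ∈ K → b ∈ K → a ∉ Q.S2 → b ∈ T.VOf Q.c.Left → T.EdgeIn Q.c.Left a b ∨ b ∈ Q.S4)
    {P : Set V} (hPK : P ⊆ K) (hP2 : ∀ x ∈ P, x ∉ Q.S2) {m y : V} (hm : m ∉ T.VOf Q.c.Left) (h : T.Join R P m y) (hy : y ∈ T.VOf Q.c.Left) : ∃ b ∈ Q.S4, T.Join Q.c.Left P b y := by
  have key : y ∉ T.VOf Q.c.Left ∨ ∃ b ∈ Q.S4, T.Join Q.c.Left P b y := by
    clear hy
    obtain ⟨h1, h2⟩ := h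
    induction h2 with
    | refl => exact Or.inl hm
    | @tail y y' hpre hyz ih =>
      have hyP : y ∈ P := pl_hx_join_mem (⟨h1, hpre⟩ : T.Join R P m y)
      by_cases hy' : y' ∈ T.VOf Q.c.Left
      · rcases hin y y' hyz.1 (hPK hyP) (hPK hyz.2) (hP2 y hyP) hy' with hL | h4
        · have hV := pvam_edge_VOf (pl_left_face Q.c) hL
          rcases ih with ih | ⟨b, hb, ih⟩
          · exact absurd hV.1 ih
          · exact Or.inr ⟨b, hb, pl_hx_join_tail ih hL hyz.2⟩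
        · exact Or.inr ⟨y', h4, pl_hx_join_refl hyz.2⟩
      · exact Or.inl hy'
  exact key.resolve_left fun h => h hy

/-- **LAND** (D2 + NO POCKET).   `E` = the whole explored set; in the closed disc of `Q` it is `Sea ∪ Low ∪ Vo`; the path `P` meets `E` only in this closed disc; it starts at an unexplored vertex `m` outside the closed disc and ends on the side 2. -/
theorem pvam_land (hT : T.IsSph) (Q : T.Quad) (hfin : Q.c.Left.Finite) {X Vo : Set V} (hX : Q.Cr13 X) {a₀ : V} (h₀ : Q.Hub X Vo a₀)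
    (hdown : ∀ y ∈ Vo, y ∈ T.VOf Q.c.Left → ∃ a ∈ Q.S2, T.Join Q.c.Left Vo a y) {R : Set D} {K : Set V}
    (hin : ∀ a b, T.EdgeIn R a b → a ∈ K → b ∈ K → a ∉ Q.S2 → b ∈ T.VOf Q.c.Left → T.EdgeIn Q.c.Left a b ∨ b ∈ Q.S4)
    {E P : Set V} (hPK : P ⊆ K) (hE : E ∩ T.VOf Q.c.Left = (Q.Ex X ∪ Vo) ∩ T.VOf Q.c.Left) (hPE : P ∩ E ⊆ T.VOf Q.c.Left)
    {m z : V} (hm : m ∉ T.VOf Q.c.Left) (hmE : m ∉ E) (hz : z ∈ Q.S2) (h : T.Join R P m z) :
    ∃ v w, Q.Ld X v ∧ v ∈ P ∧ T.Join R (P \ E) m w ∧ T.EdgeIn R w v := by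
  have hzV : z ∈ T.VOf Q.c.Left := pl_qd_verts_VOf hT Q.c (pl_qd_S2_verts Q hz)
  have hExE : ∀ x, x ∈ Q.Ex X → x ∈ E := fun x hx =>
    (hE.symm ▸ (⟨Or.inl hx, pvam_ex_VOf hT Q X hx⟩ : x ∈ (Q.Ex X ∪ Vo) ∩ T.VOf Q.c.Left) : x ∈ E ∩ T.VOf Q.c.Left).1
  have hzE : z ∈ E := hExE z (pl_qd_S2_expl Q X hz)
  obtain ⟨w, v, hmw, hwv, hvP, hvE⟩ := pvam_first_hit h hmE hzE
  have hvV : v ∈ T.VOf Q.c.Left := hPE ⟨hvP, hvE⟩
  have hv3 : v ∈ Q.Ex X ∪ Vo := (hE ▸ (⟨hvE, hvV⟩ : v ∈ E ∩ T.VOf Q.c.Left) : v ∈ (Q.Ex X ∪ Vo) ∩ T.VOf Q.c.Left).1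
  have h2E : ∀ x ∈ P \ E, x ∉ Q.S2 := fun x hx h2 => hx.2 (hExE x (pl_qd_S2_expl Q X h2))
  have hwP : w ∈ P \ E := pl_hx_join_mem hmw
  obtain ⟨b, hb, hbv⟩ : ∃ b ∈ Q.S4, T.Join Q.c.Left ((P \ E) ∪ {v}) b v := by
    rcases hin w v hwv (hPK hwP.1) (hPK hvP) (h2E w hwP) hvV with hL | h4
    · obtain ⟨b, hb, hbw⟩ := pvam_enter Q hin (fun x hx => hPK hx.1) h2E hm hmw (pvam_edge_VOf (pl_left_face Q.c) hL).1
      exact ⟨b, hb, pl_hx_join_tail (pl_hx_join_mono Set.Subset.rfl Set.subset_union_left hbw) hL (Or.inr rfl)⟩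
    · exact ⟨v, h4, pl_hx_join_refl (Or.inr rfl)⟩
  have hP' : ∀ x ∈ (P \ E) ∪ {v}, x ∈ Q.Ex X → x = v := by
    rintro x (hx | hx) hxE
    · exact absurd (hExE x hxE) hx.2
    · exact hx
  have hnVo : v ∉ Vo := by
    intro hvo
    obtain ⟨a, ha, hav⟩ := hdown v hvo hvV
    have hcr : Q.Cr24 (Vo ∪ ((P \ E) ∪ {v})) :=
      ⟨a, ha, b, hb, pl_hx_join_trans (pl_hx_join_mono Set.Subset.rfl Set.subset_union_left hav) (pl_hx_join_mono Set.Subset.rfl Set.subset_union_right (pl_hx_join_symm hbv))⟩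
    obtain ⟨h1, a', ha', hj⟩ := h₀
    obtain ⟨x, hx, hx'⟩ := pl_qd_excl hT Q ⟨a₀, h1, a', ha', hj⟩ hcr
    rcases hx' with hx' | hx'
    · exact hx.2 hx'
    · have := hP' x hx' (Or.inl hx.1)
      rw [this] at hx
      exact hx.2 hvo
  have hnSea : v ∉ Q.Sea X := by
    rintro ⟨a, ha, hav⟩
    have hcr : Q.Cr24 (Xᶜ ∪ ((P \ E) ∪ {v})) :=
      ⟨a, ha, b, hb, pl_hx_join_trans (pl_hx_join_mono Set.Subset.rfl Set.subset_union_left hav) (pl_hx_join_mono Set.Subset.rfl Set.subset_union_right (pl_hx_join_symm hbv))⟩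
    obtain ⟨x, hx, hx'⟩ := pl_qd_excl hT Q (pl_qd_low hT Q hfin hX) hcr
    rcases hx' with hx' | hx'
    · exact hx' (pl_qd_low_sub Q X hx)
    · have := hP' x hx' (Or.inr hx)
      rw [this] at hx
      exact (pl_hx_join_mem hav) (pl_qd_low_sub Q X hx)
  have hvL : v ∈ Q.Low X := by
    rcases hv3 with (hv3 | hv3) | hv3
    · exact absurd hv3 hnSea
    · exact hv3
    · exact absurd hv3 hnVo
  exact ⟨v, w, ⟨hvL, (P \ E) ∪ {v}, b, hb, hbv, hP'⟩, hvP, hmw, hwv⟩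


/-- a landing vertex lies on every 1-3 crossing contained in `Low X` -/
theorem pvam_ld_mem (hT : T.IsSph) (Q : T.Quad) {X Y : Set V} (hY : Q.Cr13 Y) (hYL : Y ⊆ Q.Low X) {v : V} (hv : Q.Ld X v) : v ∈ Y := by
  obtain ⟨hvL, P, b, hb, hJ, hP⟩ := hv
  exact pl_qd_low_hit hT Q hY hYL hvL hb (pl_hx_join_symm hJ) fun w hw hwL => hP w hw (Or.inr hwL)

/-- **SAME** (D5): two landing vertices of one quad are joined inside `Low X` -/
theorem pvam_same (hT : T.IsSph) (Q : T.Quad) (hfin : Q.c.Left.Finite) {X : Set V} (hX : Q.Cr13 X) {v v' : V} (hv : Q.Ld X v) (hv' : Q.Ld X v') :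
    T.Join Q.c.Left (Q.Low X) v v' := by
  obtain ⟨a, ha, a', ha', haa⟩ := pl_qd_low hT Q hfin hX
  have hY : Q.Cr13 (T.Clu Q.c.Left (Q.Low X) a) := ⟨a, ha, a', ha', pl_qd_join_clu haa⟩
  have h1 : T.Join Q.c.Left (Q.Low X) a v := pvam_ld_mem hT Q hY (pl_qd_clu_sub _ _ _) hv
  have h2 : T.Join Q.c.Left (Q.Low X) a v' := pvam_ld_mem hT Q hY (pl_qd_clu_sub _ _ _) hv'
  exact pl_hx_join_trans (pl_hx_join_symm h1) h2

/-- a landing vertex is joined inside `Low X` to the sides 1 and 3 -/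
theorem pvam_sides (hT : T.IsSph) (Q : T.Quad) (hfin : Q.c.Left.Finite) {X : Set V} (hX : Q.Cr13 X) {v : V} (hv : Q.Ld X v) :
    ∃ a ∈ Q.S1, ∃ a' ∈ Q.S3, T.Join Q.c.Left (Q.Low X) a v ∧ T.Join Q.c.Left (Q.Low X) v a' := by
  obtain ⟨hvL, P, b, hb, hJ, hP⟩ := hv
  exact pl_qd_low_join hT Q hfin hX hvL hb (pl_hx_join_symm hJ) fun w hw hwL => hP w hw (Or.inr hwL)

/-- **DOWN** (D3): a landing vertex has a neighbour in the sea which is joined inside the sea to EVERY hub -/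
theorem pvam_down (hT : T.IsSph) (Q : T.Quad) {X Vo : Set V} {v : V} (hv : Q.Ld X v) {a₀ : V} (h₀ : Q.Hub X Vo a₀) :
    ∃ s ∈ Q.Sea X, T.EdgeIn Q.c.Left s v ∧ ∀ a, Q.Hub X Vo a → T.Join Q.c.Left (Q.Sea X) s a := by
  obtain ⟨hvL, P, b, hb, hJ, hP⟩ := hv
  have hvX : v ∈ X := hvL.1
  have hoff : ∀ w ∈ P, w ∉ Q.Sea X := fun w hw hs => by
    have e := hP w hw (Or.inl hs)
    rw [e] at hs
    exact pl_qd_sea_sub Q X hs hvX
  rcases hvL.2 with h2 | ⟨u, ⟨c, hc, hcu⟩, huv⟩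
  · exfalso
    obtain ⟨ha₀, a', ha', hh⟩ := h₀
    obtain ⟨w, hw, hw'⟩ := pl_qd_excl hT Q ⟨a₀, ha₀, a', ha', hh⟩ ⟨v, h2, b, hb, pl_hx_join_symm hJ⟩
    exact hoff w hw' hw.1
  · have hclu : T.Clu Q.c.Left Xᶜ c ⊆ Q.Sea X := fun w hw => ⟨c, hc, hw⟩
    refine ⟨u, ⟨c, hc, hcu⟩, huv, fun a ha => ?_⟩
    obtain ⟨ha1, a', ha', hh⟩ := ha
    have e1 : T.Join Q.c.Left (T.Clu Q.c.Left Xᶜ c ∪ P) c u := pl_hx_join_mono Set.Subset.rfl Set.subset_union_left (pl_qd_join_clu hcu)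
    have e2 : T.Join Q.c.Left (T.Clu Q.c.Left Xᶜ c ∪ P) c v := pl_hx_join_tail e1 huv (Or.inr (pl_hx_join_mem hJ))
    have e3 : T.Join Q.c.Left (T.Clu Q.c.Left Xᶜ c ∪ P) c b :=
      pl_hx_join_trans e2 (pl_hx_join_mono Set.Subset.rfl Set.subset_union_right (pl_hx_join_symm hJ))
    obtain ⟨w, hw, hw'⟩ := pl_qd_excl hT Q ⟨a, ha1, a', ha', pl_qd_join_clu hh⟩ ⟨c, hc, b, hb, e3⟩
    have hwS : w ∈ Q.Sea X := (pl_qd_clu_sub _ _ _ hw).1
    have hwc : T.Join Q.c.Left Xᶜ c w := hw'.resolve_right fun h => hoff w h hwS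
    have j1 : T.Join Q.c.Left (Q.Sea X) c u := pl_hx_join_mono Set.Subset.rfl hclu (pl_qd_join_clu hcu)
    have j2 : T.Join Q.c.Left (Q.Sea X) c w := pl_hx_join_mono Set.Subset.rfl hclu (pl_qd_join_clu hwc)
    have j3 : T.Join Q.c.Left (Q.Sea X) a w := pl_hx_join_mono Set.Subset.rfl Set.sdiff_subset hw
    exact pl_hx_join_trans (pl_hx_join_symm j1) (pl_hx_join_trans j2 (pl_hx_join_symm j3))

/-! ## 3. the exploration -/

/-- **THE DATA OF THE EXPLORATION**: finitely many quads with pairwise disjoint closed discs, and the set `Vo` of the sites which are revealed anyway -/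
structure PvamIn (T : PvMap V D) (ι : Type) where
  Q : ι → T.Quad
  /-- the vertices of the closed disc -/
  VQ : ι → Finset V
  /-- revealed anyway (`y < -w/2`) -/
  Vo : Finset V
  sph : T.IsSph
  fin : ∀ i, (Q i).c.Left.Finite
  hVQ : ∀ i v, v ∈ VQ i ↔ v ∈ T.VOf (Q i).c.Left
  dQQ : ∀ i j, i ≠ j → Disjoint (VQ i) (VQ j)
  /-- (DOWN-CHAIN) -/
  down : ∀ i, ∀ y ∈ Vo, y ∈ VQ i → ∃ a ∈ (Q i).S2, T.Join (Q i).c.Left (Vo : Set V) a y

namespace PvamIn

variable {ι : Type} [Fintype ι] (I : PvamIn T ι)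

open Classical in
/-- **the explored set** -/
noncomputable def E (ω : V → Bool) : Finset V := I.Vo ∪ Finset.univ.biUnion fun i => (I.VQ i).filter fun v => v ∈ (I.Q i).Ex (pvamB ω)

/-- the explored white set -/
def Wx (ω : V → Bool) : Set V := {v | v ∈ I.E ω ∧ ω v = false}

/-- never explored -/
def Free : Set V := {v | v ∉ I.Vo ∧ ∀ i, v ∉ I.VQ i}

/-- the unexplored vertices of colour `c` of the class `K` -/
def Fs (K : Set V) (c : Bool) (σ : V → Bool) : Set V := {w | w ∈ K ∧ w ∉ I.E σ ∧ σ w = c}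

/-- hub of the quad `i` -/
def Hub (σ : V → Bool) (i : ι) (a : V) : Prop := (I.Q i).Hub (pvamB σ) (I.Vo : Set V) a

/-- landing vertex of the quad `i` -/
def Ld (σ : V → Bool) (i : ι) (v : V) : Prop := (I.Q i).Ld (pvamB σ) v

end PvamIn

theorem pvam_eqns_cite2 : True := by
  have := @PvamIn.E.eq_1; have := @PvamIn.Wx.eq_1; have := @PvamIn.Free.eq_1; have := @PvamIn.Fs.eq_1; have := @PvamIn.Hub.eq_1; have := @PvamIn.Ld.eq_1
  trivial

variable {ι : Type} [Fintype ι]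

theorem pvam_mem_E (I : PvamIn T ι) (ω : V → Bool) (v : V) : v ∈ I.E ω ↔ v ∈ I.Vo ∨ ∃ i, v ∈ (I.Q i).Ex (pvamB ω) := by
  classical
  unfold PvamIn.E
  simp only [Finset.mem_union, Finset.mem_biUnion, Finset.mem_univ, true_and, Finset.mem_filter]
  constructor
  · rintro (h | ⟨i, -, h⟩)
    · exact Or.inl h
    · exact Or.inr ⟨i, h⟩
  · rintro (h | ⟨i, h⟩)
    · exact Or.inl h
    · exact Or.inr ⟨i, (I.hVQ i v).2 (pvam_ex_VOf I.sph (I.Q i) _ h), h⟩

/-- inside the closed disc of a quad only its own `Sea ∪ Low` and `Vo` are explored -/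
theorem pvam_E_quad (I : PvamIn T ι) (ω : V → Bool) (i : ι) :
    (I.E ω : Set V) ∩ T.VOf (I.Q i).c.Left = ((I.Q i).Ex (pvamB ω) ∪ (I.Vo : Set V)) ∩ T.VOf (I.Q i).c.Left := by
  ext v
  constructor
  · rintro ⟨hE, hV⟩
    refine ⟨?_, hV⟩
    rcases (pvam_mem_E I ω v).1 (Finset.mem_coe.1 hE) with h | ⟨j, h⟩
    · exact Or.inr (Finset.mem_coe.2 h)
    · by_cases hij : j = i
      · subst hij
        exact Or.inl h
      · exfalso
        have h1 : v ∈ I.VQ j := (I.hVQ j v).2 (pvam_ex_VOf I.sph (I.Q j) _ h)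
        have h2 : v ∈ I.VQ i := (I.hVQ i v).2 hV
        exact Finset.disjoint_left.1 (I.dQQ j i hij) h1 h2
  · rintro ⟨h, hV⟩
    refine ⟨Finset.mem_coe.2 ((pvam_mem_E I ω v).2 ?_), hV⟩
    rcases h with h | h
    · exact Or.inr ⟨i, h⟩
    · exact Or.inl (Finset.mem_coe.1 h)

/-- a colouring which agrees with `ω` on the explored set has the same seas and lowest crossings -/
theorem pvam_ex_congr (I : PvamIn T ι) {ω ω' : V → Bool} (h : ∀ v ∈ I.E ω, ω' v = ω v) (i : ι) :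
    (I.Q i).Sea (pvamB ω') = (I.Q i).Sea (pvamB ω) ∧ (I.Q i).Low (pvamB ω') = (I.Q i).Low (pvamB ω) := by
  refine pl_qd_low_loc (I.Q i) fun v hv => ?_
  have h1 : v ∈ I.E ω := (pvam_mem_E I ω v).2 (Or.inr ⟨i, hv⟩)
  show ω v = true ↔ ω' v = true
  rw [h v h1]

/-- **the exploration is a stopping set** (`pl_qd_low_loc`) -/
theorem pvam_stop (I : PvamIn T ι) : PvaStop I.E := by
  intro ω ω' h
  ext v
  rw [pvam_mem_E, pvam_mem_E]
  refine or_congr Iff.rfl (exists_congr fun i => ?_)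
  obtain ⟨e1, e2⟩ := pvam_ex_congr I h i
  unfold PvMap.Quad.Ex
  rw [e1, e2]

theorem pvam_free_E (I : PvamIn T ι) (ω : V → Bool) {v : V} (hv : v ∈ I.Free) : v ∉ I.E ω := by
  intro hE
  rcases (pvam_mem_E I ω v).1 hE with h | ⟨i, h⟩
  · exact hv.1 h
  · exact hv.2 i ((I.hVQ i v).2 (pvam_ex_VOf I.sph (I.Q i) _ h))

/-- the explored set of the mixed colouring -/
theorem pvam_mix_E (I : PvamIn T ι) (ω ω' : V → Bool) : I.E (pvaMix (I.E ω) ω ω') = I.E ω := by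
  refine pvam_stop I ω _ fun v hv => ?_
  show (if v ∈ I.E ω then ω v else ω' v) = ω v
  rw [if_pos hv]

/-- the sea and the lowest crossing are not changed by the copy -/
theorem pvam_mix_ex (I : PvamIn T ι) (ω ω' : V → Bool) (i : ι) :
    (I.Q i).Sea (pvamB (pvaMix (I.E ω) ω ω')) = (I.Q i).Sea (pvamB ω) ∧ (I.Q i).Low (pvamB (pvaMix (I.E ω) ω ω')) = (I.Q i).Low (pvamB ω) := by
  refine pvam_ex_congr I (fun v hv => ?_) i
  show (if v ∈ I.E ω then ω v else ω' v) = ω v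
  rw [if_pos hv]

theorem pvam_mix_Wx (I : PvamIn T ι) (ω ω' : V → Bool) : I.Wx (pvaMix (I.E ω) ω ω') = I.Wx ω := by
  ext v
  unfold PvamIn.Wx
  simp only [Set.mem_ofPred_eq]
  rw [pvam_mix_E]
  refine and_congr_right fun hv => ?_
  show (if v ∈ I.E ω then ω v else ω' v) = false ↔ _
  rw [if_pos hv]

theorem pvam_mix_hub (I : PvamIn T ι) (ω ω' : V → Bool) (i : ι) (a : V) : I.Hub (pvaMix (I.E ω) ω ω') i a ↔ I.Hub ω i a := by
  unfold PvamIn.Hub PvMap.Quad.Hub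
  rw [(pvam_mix_ex I ω ω' i).1]

theorem pvam_mix_ld (I : PvamIn T ι) (ω ω' : V → Bool) (i : ι) (v : V) : I.Ld (pvaMix (I.E ω) ω ω') i v ↔ I.Ld ω i v := by
  unfold PvamIn.Ld PvMap.Quad.Ld PvMap.Quad.Ex
  rw [(pvam_mix_ex I ω ω' i).1, (pvam_mix_ex I ω ω' i).2]

theorem pvam_mix_cr (I : PvamIn T ι) (ω ω' : V → Bool) (i : ι) : (I.Q i).Cr13 (pvamB (pvaMix (I.E ω) ω ω')) ↔ (I.Q i).Cr13 (pvamB ω) := by
  rw [← pl_qd_low_iff I.sph (I.Q i) (I.fin i), (pvam_mix_ex I ω ω' i).2, pl_qd_low_iff I.sph (I.Q i) (I.fin i)]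

theorem pvam_sea_Wx (I : PvamIn T ι) (ω : V → Bool) (i : ι) : (I.Q i).Sea (pvamB ω) ⊆ I.Wx ω := by
  intro u hu
  refine ⟨(pvam_mem_E I ω u).2 (Or.inr ⟨i, Or.inl hu⟩), ?_⟩
  have h1 : u ∉ pvamB ω := pl_qd_sea_sub _ _ hu
  have h2 : ¬ ω u = true := h1
  simpa using h2

/-! ## 4. links -/

/-- **HALF LINK** (v2): from a base vertex which is never explored, inside the region `R` (instance: `univ`), through vertices of the class `K`, to the side 2 of the quad `i`.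
`hin`: the class enters the closed disc through the side 4 only (instance: `K` = sites of a window above the quad + sites of a column which are in the closed disc). -/
structure PvamHalf (I : PvamIn T ι) where
  i : ι
  R : Set D
  K : Set V
  hin : ∀ a b, T.EdgeIn R a b → a ∈ K → b ∈ K → a ∉ (I.Q i).S2 → b ∈ T.VOf (I.Q i).c.Left → T.EdgeIn (I.Q i).c.Left a b ∨ b ∈ (I.Q i).S4
  hK : ∀ v ∈ K, (v ∈ I.Vo → v ∈ I.VQ i) ∧ ∀ j, j ≠ i → v ∉ I.VQ j

/-- **END**: from a base vertex to a terminal set `Z`, through vertices which are never explored -/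
structure PvamEnd (I : PvamIn T ι) where
  R : Set D
  K : Set V
  Z : Set V
  hK : K ⊆ I.Free

/-- the event of a half link, colour `c`, base vertex `m` -/
def PvamHalf.Ev {I : PvamIn T ι} (H : PvamHalf I) (c : Bool) (ω' : V → Bool) (m : V) : Prop :=
  ∃ z ∈ (I.Q H.i).S2, T.Join H.R (H.K ∩ pvamC c ω') m z

/-- the event of an end -/
def PvamEnd.Ev {I : PvamIn T ι} (H : PvamEnd I) (c : Bool) (ω' : V → Bool) (m : V) : Prop :=
  ∃ t ∈ H.Z, T.Join H.R (H.K ∩ pvamC c ω') m t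

/-- the half link is REALISED in the colouring `σ`: an unexplored path of colour `c` from the base vertex to a neighbour `w` of a landing vertex `v` of the class -/
def PvamHalf.Re {I : PvamIn T ι} (H : PvamHalf I) (c : Bool) (σ : V → Bool) (m v : V) : Prop :=
  I.Ld σ H.i v ∧ v ∈ H.K ∧ ∃ w, T.Join H.R (I.Fs H.K c σ) m w ∧ T.EdgeIn H.R w v

/-- the end is realised in the colouring `σ` -/
def PvamEnd.Re {I : PvamIn T ι} (H : PvamEnd I) (c : Bool) (σ : V → Bool) (m : V) : Prop :=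
  ∃ t ∈ H.Z, T.Join H.R (I.Fs H.K c σ) m t

theorem pvam_eqns_cite3 : True := by
  have := @PvamHalf.Ev.eq_1; have := @PvamEnd.Ev.eq_1; have := @PvamHalf.Re.eq_1; have := @PvamEnd.Re.eq_1
  trivial

/-- **THE LANDING OF A HALF LINK** -/
theorem pvam_half (I : PvamIn T ι) (H : PvamHalf I) (c : Bool) {ω ω' : V → Bool} (hX : (I.Q H.i).Cr13 (pvamB ω)) {a₀ : V} (h₀ : I.Hub ω H.i a₀)
    {m : V} (hm : m ∈ I.Free) (h : H.Ev c ω' m) : ∃ v, H.Re c (pvaMix (I.E ω) ω ω') m v := by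
  obtain ⟨z, hz, hj⟩ := h
  have hVO : ∀ j v, v ∈ T.VOf (I.Q j).c.Left ↔ v ∈ I.VQ j := fun j v => (I.hVQ j v).symm
  have hPE : (H.K ∩ pvamC c ω') ∩ (I.E ω : Set V) ⊆ T.VOf (I.Q H.i).c.Left := by
    rintro v ⟨⟨hK, -⟩, hE⟩
    rcases (pvam_mem_E I ω v).1 hE with h1 | ⟨j, h1⟩
    · exact (hVO _ _).2 ((H.hK v hK).1 h1)
    · have h2 := pvam_ex_VOf I.sph (I.Q j) _ h1
      by_cases hji : j = H.i
      · rw [← hji]; exact h2
      · exact absurd ((hVO _ _).1 h2) ((H.hK v hK).2 j hji)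
  obtain ⟨v, w, hv, hvP, hw, he⟩ := pvam_land I.sph (I.Q H.i) (I.fin H.i) hX h₀
    (fun y hy hy' => I.down H.i y hy ((hVO _ _).1 hy')) H.hin Set.inter_subset_left (pvam_E_quad I ω H.i) hPE
    (fun hc => hm.2 H.i ((hVO _ _).1 hc)) (pvam_free_E I ω hm) hz hj
  refine ⟨v, (pvam_mix_ld I ω ω' H.i v).2 hv, hvP.1, w, pl_hx_join_mono Set.Subset.rfl ?_ hw, he⟩
  rintro u ⟨⟨hK, hc⟩, hE⟩
  have hE' : u ∉ I.E ω := hE
  refine ⟨hK, by rw [pvam_mix_E]; exact hE', ?_⟩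
  show (if u ∈ I.E ω then ω u else ω' u) = c
  rw [if_neg hE']
  exact hc

theorem pvam_end (I : PvamIn T ι) (H : PvamEnd I) (c : Bool) {ω ω' : V → Bool} {m : V} (h : H.Ev c ω' m) : H.Re c (pvaMix (I.E ω) ω ω') m := by
  obtain ⟨t, ht, hj⟩ := h
  refine ⟨t, ht, pl_hx_join_mono Set.Subset.rfl ?_ hj⟩
  rintro w ⟨hw, hc⟩
  have hf := H.hK hw
  refine ⟨hw, pvam_free_E I _ hf, ?_⟩
  have h1 : w ∉ I.E ω := pvam_free_E I ω hf
  show (if w ∈ I.E ω then ω w else ω' w) = c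
  rw [if_neg h1]
  exact hc

/-! ## 5. the net -/

/-- **THE NET** of a plug -/
structure PvamNet (I : PvamIn T ι) where
  /-- fresh white links (upper half circuits) -/
  wl : List (PvamHalf I × PvamHalf I)
  /-- fresh black links (connectors between consecutive quads) -/
  bl : List (PvamHalf I × PvamHalf I)
  /-- fresh black links to the doors -/
  bd : List (PvamHalf I × PvamEnd I)
  /-- explored white links (lower half circuits, inner lanes): two quads, a region, a class -/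
  xl : List (ι × ι × Set D × Set V)
  /-- explored white links to the doors (white lanes): a quad, a region, a class, a terminal set -/
  xd : List (ι × Set D × Set V × Set V)

namespace PvamNet

variable {I : PvamIn T ι} (N : PvamNet I)

/-- **the explored event**: black crossings, hubs, explored white links -/
def F (ω : V → Bool) : Prop :=
  (∀ i, (I.Q i).Cr13 (pvamB ω)) ∧ (∀ i, ∃ a, I.Hub ω i a) ∧
    (∀ l ∈ N.xl, ∃ a a', I.Hub ω l.1 a ∧ I.Hub ω l.2.1 a' ∧ T.Join l.2.2.1 (I.Wx ω ∩ l.2.2.2) a a') ∧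
    (∀ l ∈ N.xd, ∃ a, I.Hub ω l.1 a ∧ ∃ t ∈ l.2.2.2, T.Join l.2.1 (I.Wx ω ∩ l.2.2.1) a t)

/-- the white copy event -/
def U1 (ω' : V → Bool) : Prop := ∀ l ∈ N.wl, ∃ m ∈ I.Free, l.1.Ev false ω' m ∧ l.2.Ev false ω' m

/-- the black copy event -/
def U2 (ω' : V → Bool) : Prop :=
  (∀ l ∈ N.bl, ∃ m ∈ I.Free, l.1.Ev true ω' m ∧ l.2.Ev true ω' m) ∧ (∀ l ∈ N.bd, ∃ m ∈ I.Free, l.1.Ev true ω' m ∧ l.2.Ev true ω' m)

/-- **THE OUTPUT**, an event of ONE colouring `σ` -/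
def Out (σ : V → Bool) : Prop :=
  N.F σ ∧ (∀ l ∈ N.wl, ∃ m v v', l.1.Re false σ m v ∧ l.2.Re false σ m v') ∧
    (∀ l ∈ N.bl, ∃ m v v', l.1.Re true σ m v ∧ l.2.Re true σ m v') ∧ (∀ l ∈ N.bd, ∃ m v, l.1.Re true σ m v ∧ l.2.Re true σ m)

end PvamNet

theorem pvam_eqns_cite4 : True := by
  have := @PvamNet.F.eq_1; have := @PvamNet.U1.eq_1; have := @PvamNet.U2.eq_1; have := @PvamNet.Out.eq_1
  trivial

/-- the explored event is not changed by the copy -/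
theorem pvam_mix_F {I : PvamIn T ι} (N : PvamNet I) (ω ω' : V → Bool) : N.F (pvaMix (I.E ω) ω ω') ↔ N.F ω := by
  simp only [PvamNet.F, pvam_mix_cr, pvam_mix_hub, pvam_mix_Wx]

/-- **THE NET, deterministic** -/
theorem pvam_net {I : PvamIn T ι} (N : PvamNet I) {ω ω' : V → Bool} (hF : N.F ω) (h1 : N.U1 ω') (h2 : N.U2 ω') : N.Out (pvaMix (I.E ω) ω ω') := by
  have half : ∀ (H : PvamHalf I) (c : Bool) (m : V), m ∈ I.Free → H.Ev c ω' m → ∃ v, H.Re c (pvaMix (I.E ω) ω ω') m v := by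
    intro H c m hm hE
    obtain ⟨a₀, h₀⟩ := hF.2.1 H.i
    exact pvam_half I H c (hF.1 H.i) h₀ hm hE
  refine ⟨(pvam_mix_F N ω ω').2 hF, fun l hl => ?_, fun l hl => ?_, fun l hl => ?_⟩
  · obtain ⟨m, hm, e1, e2⟩ := h1 l hl
    obtain ⟨v, hv⟩ := half l.1 false m hm e1
    obtain ⟨v', hv'⟩ := half l.2 false m hm e2
    exact ⟨m, v, v', hv, hv'⟩
  · obtain ⟨m, hm, e1, e2⟩ := h2.1 l hl
    obtain ⟨v, hv⟩ := half l.1 true m hm e1
    obtain ⟨v', hv'⟩ := half l.2 true m hm e2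
    exact ⟨m, v, v', hv, hv'⟩
  · obtain ⟨m, hm, e1, e2⟩ := h2.2 l hl
    obtain ⟨v, hv⟩ := half l.1 true m hm e1
    exact ⟨m, v, hv, pvam_end I l.2 true e2⟩

/-- **THE NET, probability**: `P(FW) P(FB) P(U1) P(U2) ≤ P(Out)` -/
theorem pvam_net_prob {I : PvamIn T ι} (N : PvamNet I) {A Rw Rb Kw Kb : Finset V} (hRb : Rb ⊆ A) (hKb : Kb ⊆ A) (hR : Disjoint Rw Rb) (hK : Disjoint Kw Kb)
    (ξ : V → Bool) {FW FB : (V → Bool) → Prop} (dFW : PvaDep A Rw ξ FW) (dFB : PvaDep A Rb ξ FB) (dU1 : PvaDep A Kw ξ N.U1) (dU2 : PvaDep A Kb ξ N.U2)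
    (hF : ∀ ω, PvaCfg A ξ ω → FW ω → FB ω → N.F ω) :
    pvaP A ξ FW * pvaP A ξ FB * (pvaP A ξ N.U1 * pvaP A ξ N.U2) ≤ pvaP A ξ N.Out :=
  pvam_four (pvam_stop I) hRb hKb hR hK ξ dFW dFB dU1 dU2 fun ω ω' c _ h1 h2 h3 h4 => pvam_net N (hF ω c h1 h2) h3 h4

/-- the same with ANY four events which read disjoint classes and imply the events of the net, ANY target implied by the output -/
theorem pvam_net_any {I : PvamIn T ι} (N : PvamNet I) {A Rw Rb Kw Kb : Finset V} (hRb : Rb ⊆ A) (hKb : Kb ⊆ A) (hR : Disjoint Rw Rb) (hK : Disjoint Kw Kb)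
    (ξ : V → Bool) {FW FB U1 U2 Tg : (V → Bool) → Prop} (dFW : PvaDep A Rw ξ FW) (dFB : PvaDep A Rb ξ FB) (dU1 : PvaDep A Kw ξ U1) (dU2 : PvaDep A Kb ξ U2)
    (hF : ∀ ω, FW ω → FB ω → N.F ω) (h1 : ∀ ω, U1 ω → N.U1 ω) (h2 : ∀ ω, U2 ω → N.U2 ω) (hT : ∀ σ, N.Out σ → Tg σ) :
    pvaP A ξ FW * pvaP A ξ FB * (pvaP A ξ U1 * pvaP A ξ U2) ≤ pvaP A ξ Tg :=
  pvam_four (pvam_stop I) hRb hKb hR hK ξ dFW dFB dU1 dU2 fun ω ω' _ _ a1 a2 a3 a4 => hT _ (pvam_net N (hF ω a1 a2) (h1 ω' a3) (h2 ω' a4))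

/-- a class inside `Kb` sees the colours of `Kb` only -/
theorem pvam_U2_aux {K : Set V} {Kb : Finset V} (hK : K ⊆ Kb) {ω₁ ω₂ : V → Bool} (h : ∀ v ∈ Kb, ω₁ v = ω₂ v) (c : Bool) : K ∩ pvamC c ω₁ = K ∩ pvamC c ω₂ := by
  ext v
  constructor
  · rintro ⟨h1, h2⟩
    exact ⟨h1, by rw [pvamC, Set.mem_ofPred_eq] at h2 ⊢; rw [← h v (hK h1)]; exact h2⟩
  · rintro ⟨h1, h2⟩
    exact ⟨h1, by rw [pvamC, Set.mem_ofPred_eq] at h2 ⊢; rw [h v (hK h1)]; exact h2⟩

/-- the copy events read the classes of their links -/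
theorem pvam_U1_dep {I : PvamIn T ι} (N : PvamNet I) (A : Finset V) {Kw : Finset V} (ξ : V → Bool) (h : ∀ l ∈ N.wl, l.1.K ⊆ Kw ∧ l.2.K ⊆ Kw) : PvaDep A Kw ξ N.U1 := by
  intro ω₁ ω₂ _ _ hag
  apply propext
  unfold PvamNet.U1 PvamHalf.Ev
  refine forall₂_congr fun l hl => ?_
  rw [pvam_U2_aux (h l hl).1 hag, pvam_U2_aux (h l hl).2 hag]

theorem pvam_U2_dep {I : PvamIn T ι} (N : PvamNet I) (A : Finset V) {Kb : Finset V} (ξ : V → Bool) (h : ∀ l ∈ N.bl, l.1.K ⊆ Kb ∧ l.2.K ⊆ Kb)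
    (h' : ∀ l ∈ N.bd, l.1.K ⊆ Kb ∧ l.2.K ⊆ Kb) : PvaDep A Kb ξ N.U2 := by
  intro ω₁ ω₂ _ _ hω
  unfold PvamNet.U2
  have e1 : ∀ l ∈ N.bl, ∀ m, (l.1.Ev true ω₁ m ∧ l.2.Ev true ω₁ m) = (l.1.Ev true ω₂ m ∧ l.2.Ev true ω₂ m) := by
    intro l hl m
    unfold PvamHalf.Ev
    rw [pvam_U2_aux (h l hl).1 hω, pvam_U2_aux (h l hl).2 hω]
  have e2 : ∀ l ∈ N.bd, ∀ m, (l.1.Ev true ω₁ m ∧ l.2.Ev true ω₁ m) = (l.1.Ev true ω₂ m ∧ l.2.Ev true ω₂ m) := by
    intro l hl m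
    unfold PvamHalf.Ev PvamEnd.Ev
    rw [pvam_U2_aux (h' l hl).1 hω, pvam_U2_aux (h' l hl).2 hω]
  refine propext (and_congr (forall₂_congr fun l hl => exists_congr fun m => and_congr_right fun _ => by rw [e1 l hl m])
    (forall₂_congr fun l hl => exists_congr fun m => and_congr_right fun _ => by rw [e2 l hl m]))

/-- **v1 FORM OF A HALF LINK** (fields `Ao C hC hAo` of the first version; X4 of 267: `Ao := pvzxAo Q`, `C := Left`): region `Ao ∪ C`, `C` faces of the quad, the edges of `Ao` touch the closed disc only on the side 4 -/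
def PvamHalf.ofAo {I : PvamIn T ι} (i : ι) (Ao C : Set D) (K : Set V) (hC : C ⊆ (I.Q i).c.Left) (hAo : ∀ a b, T.EdgeIn Ao a b → b ∈ T.VOf (I.Q i).c.Left → b ∈ (I.Q i).S4)
    (hK : ∀ v ∈ K, (v ∈ I.Vo → v ∈ I.VQ i) ∧ ∀ j, j ≠ i → v ∉ I.VQ j) : PvamHalf I where
  i := i
  R := Ao ∪ C
  K := K
  hin := by
    rintro a b ⟨d, hd, hs, ht⟩ - - - hb
    rcases hd with (hd | hd) | (hd | hd)
    · exact Or.inr (hAo a b ⟨d, Or.inl hd, hs, ht⟩ hb)
    · exact Or.inl ⟨d, Or.inl (hC hd), hs, ht⟩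
    · exact Or.inr (hAo a b ⟨d, Or.inr hd, hs, ht⟩ hb)
    · exact Or.inl ⟨d, Or.inr (hC hd), hs, ht⟩
  hK := hK

theorem pvam_eqns_cite6 : True := by
  have := @PvamHalf.ofAo.eq_1
  trivial

/-! ## 6. what the output says (input of D4 - D7) -/

theorem pvam_og_Fs_mono (I : PvamIn T ι) {K K' : Set V} (h : K ⊆ K') (c : Bool) (σ : V → Bool) : I.Fs K c σ ⊆ I.Fs K' c σ := fun _ hv => ⟨h hv.1, hv.2⟩

theorem pvam_og_edge_mono {A B : Set D} (hAB : A ⊆ B) {a b : V} (h : T.EdgeIn A a b) : T.EdgeIn B a b := by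
  obtain ⟨d, hd, h1, h2⟩ := h
  exact ⟨d, hd.imp (fun x => hAB x) fun x => hAB x, h1, h2⟩

/-- **FOOT**: `s` is a white neighbour, in the sea, of the landing vertex `u` of the quad `i`, joined inside the sea to every hub -/
def PvamIn.Foot (I : PvamIn T ι) (σ : V → Bool) (i : ι) (u s : V) : Prop :=
  s ∈ (I.Q i).Sea (pvamB σ) ∧ T.EdgeIn (I.Q i).c.Left s u ∧ ∀ a, I.Hub σ i a → T.Join (I.Q i).c.Left ((I.Q i).Sea (pvamB σ)) s a

theorem pvam_eqns_cite5 : True := by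
  have := @PvamIn.Foot.eq_1
  trivial

/-- every landing vertex has a foot -/
theorem pvam_out_foot {I : PvamIn T ι} (N : PvamNet I) {σ : V → Bool} (h : N.Out σ) {i : ι} {u : V} (hu : I.Ld σ i u) : ∃ s, I.Foot σ i u s := by
  obtain ⟨a, ha⟩ := h.1.2.1 i
  obtain ⟨s, hs, hsv, hsa⟩ := pvam_down I.sph (I.Q i) hu ha
  exact ⟨s, hs, hsv, hsa⟩

/-- **UPPER ARC**: a fresh white link: two landing vertices (of the classes), two white unexplored neighbours, joined through white unexplored vertices of the two classes -/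
theorem pvam_out_wl {I : PvamIn T ι} (N : PvamNet I) {σ : V → Bool} (h : N.Out σ) {l : PvamHalf I × PvamHalf I} (hl : l ∈ N.wl) :
    ∃ u u' w w', I.Ld σ l.1.i u ∧ u ∈ l.1.K ∧ I.Ld σ l.2.i u' ∧ u' ∈ l.2.K ∧ T.EdgeIn l.1.R w u ∧ T.EdgeIn l.2.R w' u' ∧
      T.Join (l.1.R ∪ l.2.R) (I.Fs (l.1.K ∪ l.2.K) false σ) w w' := by
  obtain ⟨m, v, v', ⟨hv, hvK, w, hw1, hw2⟩, hv', hvK', w', hw1', hw2'⟩ := h.2.1 l hl
  exact ⟨v, v', w, w', hv, hvK, hv', hvK', hw2, hw2',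
    pl_hx_join_trans (pl_hx_join_symm (pl_hx_join_mono Set.subset_union_left (pvam_og_Fs_mono I Set.subset_union_left _ _) hw1))
      (pl_hx_join_mono Set.subset_union_right (pvam_og_Fs_mono I Set.subset_union_right _ _) hw1')⟩

/-- **EXPLORED WHITE LINK** between two feet -/
theorem pvam_out_xl {I : PvamIn T ι} (N : PvamNet I) {σ : V → Bool} (h : N.Out σ) {l : ι × ι × Set D × Set V} (hl : l ∈ N.xl) {u u' s s' : V}
    (hs : I.Foot σ l.1 u s) (hs' : I.Foot σ l.2.1 u' s') :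
    T.Join ((I.Q l.1).c.Left ∪ l.2.2.1 ∪ (I.Q l.2.1).c.Left) ((I.Q l.1).Sea (pvamB σ) ∪ (I.Wx σ ∩ l.2.2.2) ∪ (I.Q l.2.1).Sea (pvamB σ)) s s' := by
  obtain ⟨a, a', ha, ha', haa⟩ := h.1.2.2.1 l hl
  exact pl_hx_join_trans (pl_hx_join_trans (pl_hx_join_mono (fun x hx => Or.inl (Or.inl hx)) (fun x hx => Or.inl (Or.inl hx)) (hs.2.2 a ha))
    (pl_hx_join_mono (fun x hx => Or.inl (Or.inr hx)) (fun x hx => Or.inl (Or.inr hx)) haa))
    (pl_hx_join_symm (pl_hx_join_mono (fun x hx => Or.inr hx) (fun x hx => Or.inr hx) (hs'.2.2 a' ha')))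

/-- **EXPLORED WHITE LINK TO A DOOR** from a foot -/
theorem pvam_out_xd {I : PvamIn T ι} (N : PvamNet I) {σ : V → Bool} (h : N.Out σ) {l : ι × Set D × Set V × Set V} (hl : l ∈ N.xd) {u s : V} (hs : I.Foot σ l.1 u s) :
    ∃ t ∈ l.2.2.2, T.Join ((I.Q l.1).c.Left ∪ l.2.1) ((I.Q l.1).Sea (pvamB σ) ∪ (I.Wx σ ∩ l.2.2.1)) s t := by
  obtain ⟨a, ha, t, ht, hat⟩ := h.1.2.2.2 l hl
  exact ⟨t, ht, pl_hx_join_trans (pl_hx_join_mono Set.subset_union_left Set.subset_union_left (hs.2.2 a ha)) (pl_hx_join_mono Set.subset_union_right Set.subset_union_right hat)⟩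

/-- **THE BLACK LINE**: any two landing vertices of two quads joined by a fresh black link are joined through the two lowest crossings and black unexplored vertices of the two classes -/
theorem pvam_out_black {I : PvamIn T ι} (N : PvamNet I) {σ : V → Bool} (h : N.Out σ) {l : PvamHalf I × PvamHalf I} (hl : l ∈ N.bl) {u u' : V} (hu : I.Ld σ l.1.i u) (hu' : I.Ld σ l.2.i u') :
    T.Join ((I.Q l.1.i).c.Left ∪ l.1.R ∪ l.2.R ∪ (I.Q l.2.i).c.Left)
      ((I.Q l.1.i).Low (pvamB σ) ∪ I.Fs (l.1.K ∪ l.2.K) true σ ∪ (I.Q l.2.i).Low (pvamB σ)) u u' := by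
  obtain ⟨m, v, v', ⟨hv, -, w, hw1, hw2⟩, hv', -, w', hw1', hw2'⟩ := h.2.2.1 l hl
  have j1 := pvam_same I.sph (I.Q l.1.i) (I.fin _) (h.1.1 _) hu hv
  have j2 := pvam_same I.sph (I.Q l.2.i) (I.fin _) (h.1.1 _) hv' hu'
  set A := (I.Q l.1.i).c.Left ∪ l.1.R ∪ l.2.R ∪ (I.Q l.2.i).c.Left with hA
  set X := (I.Q l.1.i).Low (pvamB σ) ∪ I.Fs (l.1.K ∪ l.2.K) true σ ∪ (I.Q l.2.i).Low (pvamB σ) with hX
  have k1 : T.Join A X u v := pl_hx_join_mono (fun x hx => Or.inl (Or.inl (Or.inl hx))) (fun x hx => Or.inl (Or.inl hx)) j1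
  have k2 : T.Join A X m w := pl_hx_join_mono (fun x hx => Or.inl (Or.inl (Or.inr hx))) (fun x hx => Or.inl (Or.inr (pvam_og_Fs_mono I Set.subset_union_left _ _ hx))) hw1
  have k3 : T.Join A X m w' := pl_hx_join_mono (fun x hx => Or.inl (Or.inr hx)) (fun x hx => Or.inl (Or.inr (pvam_og_Fs_mono I Set.subset_union_right _ _ hx))) hw1'
  have k4 : T.Join A X v' u' := pl_hx_join_mono (fun x hx => Or.inr hx) (fun x hx => Or.inr hx) j2
  have k5 := pl_hx_join_tail k2 (pvam_og_edge_mono (fun x hx => Or.inl (Or.inl (Or.inr hx))) hw2) (pl_hx_join_mem k1)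
  have k6 := pl_hx_join_tail k3 (pvam_og_edge_mono (fun x hx => Or.inl (Or.inr hx)) hw2') k4.1
  exact pl_hx_join_trans (pl_hx_join_trans k1 (pl_hx_join_symm k5)) (pl_hx_join_trans k6 k4)

/-- the black lane to a door -/
theorem pvam_out_bdoor {I : PvamIn T ι} (N : PvamNet I) {σ : V → Bool} (h : N.Out σ) {l : PvamHalf I × PvamEnd I} (hl : l ∈ N.bd) {u : V} (hu : I.Ld σ l.1.i u) :
    ∃ t ∈ l.2.Z, T.Join ((I.Q l.1.i).c.Left ∪ l.1.R ∪ l.2.R) ((I.Q l.1.i).Low (pvamB σ) ∪ I.Fs (l.1.K ∪ l.2.K) true σ) u t := by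
  obtain ⟨m, v, ⟨hv, -, w, hw1, hw2⟩, t, ht, hmt⟩ := h.2.2.2 l hl
  have j1 := pvam_same I.sph (I.Q l.1.i) (I.fin _) (h.1.1 _) hu hv
  set A := (I.Q l.1.i).c.Left ∪ l.1.R ∪ l.2.R with hA
  set X := (I.Q l.1.i).Low (pvamB σ) ∪ I.Fs (l.1.K ∪ l.2.K) true σ with hX
  have k1 : T.Join A X u v := pl_hx_join_mono (fun x hx => Or.inl (Or.inl hx)) (fun x hx => Or.inl hx) j1
  have k2 : T.Join A X m w := pl_hx_join_mono (fun x hx => Or.inl (Or.inr hx)) (fun x hx => Or.inr (pvam_og_Fs_mono I Set.subset_union_left _ _ hx)) hw1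
  have k3 : T.Join A X m t := pl_hx_join_mono (fun x hx => Or.inr hx) (fun x hx => Or.inr (pvam_og_Fs_mono I Set.subset_union_right _ _ hx)) hmt
  have k5 := pl_hx_join_tail k2 (pvam_og_edge_mono (fun x hx => Or.inl (Or.inr hx)) hw2) (pl_hx_join_mem k1)
  exact ⟨t, ht, pl_hx_join_trans (pl_hx_join_trans k1 (pl_hx_join_symm k5)) k3⟩

end Claimed.Agent.R289
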