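-- KEEP
import Claimed.Agent.R289.Tr.Geo
import Claimed.Agent.R289.Tr.Close
import Claimed.Agent.R289.Del.Wind
import Claimed.Agent.R289.Pl.Quad

/-!
# Row 289 (S0537), box TR, file Tr/QuadI : A RECTANGLE IS A `PvMap.Quad` OF THE DELAUNAY MAP      (helper267; prefix `pvzq_`, defs `pvzqR pvzqRo pvzqI`, record `PvzqOk`; 0 sorry)

INSTANCE of `PvMap.Quad` (`Pl/Quad`, helper15) for ADMISSION (ADM_140, `Tr/Adm` of 127, `Tr/AdmDet` of 140, `Tr/AdmHash` of 18).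

* sec.1  **`pvzq_four`** (model free): four sets `X1 X2 X3 X4` of vertices, each connected in itself, consecutive ones meet, `X1 ∩ X3 = X2 ∩ X4 = ∅`, no edge `X1 - X3`
         ⟹ a quadrilateral `Q` with `m0 = 0`, `S_j ⊆ X_j`.      (`Q2`, `Q4` PROPER paths `X1 → X3` in `X2`, `X3 → X1` in `X4`; `Q1`, `Q3` any simple paths in `X1`, `X3` between their ends: no trimming, no order.)
* sec.2  RAY CASTING on `delWn` (`Del/Wind`): `pvzq_chi_left/right/low/high`, **`pvzq_wn_in`** (`S1` on the left of `z`, `S2` not above, `S3` on the right, `S4` above ⟹ `delWn = 1`),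
         **`pvzq_wn_out`** (`z` off a box which contains the vertices ⟹ `delWn = 0`), `pvzq_wn_rev`.
* sec.3  `pvzqR x0 x1 y0 y1` closed rectangle (sides = degenerate rectangles), `pvzqRo` the open one; `pvzq_meet_near`; `pvzq_face_near` (points of an open face near its source).
         RECORD **`PvzqOk h x0 x1 y0 y1 ρ Q`**: `m0 = 0`, `fin` (`Left` finite), `s1 .. s4` (the cell of a vertex of `S_j` meets the side `j`; `S1` left, `S2` bottom, `S3` right, `S4` top: POSITIVE sense),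
         `out` (`VOf Left ⊆ R^{+ρ}`), `deep` (the sites of the open `R^{-ρ}` are in `Int Left`).
         **`pvzq_exists`**: `0 < ρ`, sides `> 4 ρ`, `VorDense Y (vorNbd R (3 ρ)) ρ` ⟹ `∃ Q, PvzqOk h x0 x1 y0 y1 ρ Q`.
-/

set_option autoImplicit false

namespace Claimed.Agent.R289

open Set Metric Relation

/-! ## 1. four connected sets in cyclic position -/

section four

variable {V D : Type} {T : PvMap V D}

/-- **FOUR CONNECTED SETS IN CYCLIC POSITION CARRY A QUADRILATERAL** -/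
theorem pvzq_four [Nonempty D] {X1 X2 X3 X4 : Set V}
    (c1 : ∀ a ∈ X1, ∀ b ∈ X1, T.Join univ X1 a b) (c2 : ∀ a ∈ X2, ∀ b ∈ X2, T.Join univ X2 a b)
    (c3 : ∀ a ∈ X3, ∀ b ∈ X3, T.Join univ X3 a b) (c4 : ∀ a ∈ X4, ∀ b ∈ X4, T.Join univ X4 a b)
    (d13 : Disjoint X1 X3) (d24 : Disjoint X2 X4) (far : ∀ a ∈ X1, ∀ b ∈ X3, ¬ T.Adj a b)
    (k12 : (X1 ∩ X2).Nonempty) (k23 : (X2 ∩ X3).Nonempty) (k34 : (X3 ∩ X4).Nonempty) (k41 : (X4 ∩ X1).Nonempty) :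
    ∃ Q : T.Quad, Q.m0 = 0 ∧ Q.S1 ⊆ X1 ∧ Q.S2 ⊆ X2 ∧ Q.S3 ⊆ X3 ∧ Q.S4 ⊆ X4 := by
  obtain ⟨a0, ha01, ha02⟩ := k12
  obtain ⟨a1, ha12, ha13⟩ := k23
  obtain ⟨a2, ha23, ha24⟩ := k34
  obtain ⟨a3, ha34, ha31⟩ := k41
  obtain ⟨Q2, ⟨q2a, q2b, q2c, q2d⟩, q2X, -⟩ := pl_pth_proper_of_join (c2 a0 ha02 a1 ha12) ha01 ha13
  obtain ⟨Q4, ⟨q4a, q4b, q4c, q4d⟩, q4X, -⟩ := pl_pth_proper_of_join (c4 a2 ha24 a3 ha34) ha23 ha31
  obtain ⟨Q1, q1a, q1b, q1X, -⟩ := pl_pth_of_join (c1 _ q4b _ q2a)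
  obtain ⟨Q3, q3a, q3b, q3X, -⟩ := pl_pth_of_join (c3 _ q2b _ q4a)
  have m1 : ∀ i, i ≤ Q1.n → Q1.v i ∈ X1 := fun i hi => q1X ⟨i, hi, rfl⟩
  have m2 : ∀ i, i ≤ Q2.n → Q2.v i ∈ X2 := fun i hi => q2X ⟨i, hi, rfl⟩
  have m3 : ∀ i, i ≤ Q3.n → Q3.v i ∈ X3 := fun i hi => q3X ⟨i, hi, rfl⟩
  have m4 : ∀ i, i ≤ Q4.n → Q4.v i ∈ X4 := fun i hi => q4X ⟨i, hi, rfl⟩
  -- lengths
  have l2 : 2 ≤ Q2.n := by
    by_contra hlt
    have h01 : Q2.n = 0 ∨ Q2.n = 1 := by omega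
    rcases h01 with h0 | h1
    · rw [h0] at q2b
      exact disjoint_left.1 d13 q2a q2b
    · refine far _ q2a _ q2b ⟨Q2.e 0, Q2.src_e 0 (by omega), ?_⟩
      rw [Q2.tgt_e 0 (by omega), h1]
  have l4 : 1 ≤ Q4.n := by
    by_contra hlt
    have h0 : Q4.n = 0 := by omega
    rw [h0] at q4b
    exact disjoint_left.1 d13 q4b q4a
  have A12 : Q1.App Q2 := by
    refine ⟨q1b, fun i j hi hj e => ?_⟩
    have hj0 : j = 0 := by
      by_contra h0
      exact q2c j (Nat.pos_of_ne_zero h0) hj (e ▸ m1 i hi)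
    subst hj0
    exact ⟨Q1.inj _ _ hi le_rfl (e.trans q1b.symm), rfl⟩
  have A34 : Q3.App Q4 := by
    refine ⟨q3b, fun i j hi hj e => ?_⟩
    have hj0 : j = 0 := by
      by_contra h0
      exact q4c j (Nat.pos_of_ne_zero h0) hj (e ▸ m3 i hi)
    subst hj0
    exact ⟨Q3.inj _ _ hi le_rfl (e.trans q3b.symm), rfl⟩
  have G : (Q1.app Q2 A12).Glue (Q3.app Q4 A34) := by
    refine ⟨?_, ?_, ?_, ?_⟩
    · rw [pvt_c_app_vn, pvt_c_app_v0, q3a]
    · rw [pvt_c_app_vn, pvt_c_app_v0, q1a]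
    · rw [pvt_c_app_n, pvt_c_app_n]; omega
    · intro i j hi hj e
      rw [pvt_c_app_n] at hi hj
      by_cases hi1 : i ≤ Q1.n <;> by_cases hj1 : j ≤ Q3.n
      · rw [pvt_c_app_v1 _ _ _ hi1, pvt_c_app_v1 _ _ _ hj1] at e
        exact absurd (e ▸ m1 i hi1) (fun h => disjoint_left.1 d13 h (m3 j hj1))
      · obtain ⟨j', rfl⟩ := Nat.exists_eq_add_of_le (not_le.1 hj1).le
        rw [pvt_c_app_v1 _ _ _ hi1, pvt_c_app_v2] at e
        have hj' : j' = Q4.n := by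
          by_contra hne
          exact q4d j' (by omega) (e ▸ m1 i hi1)
        subst hj'
        right
        exact ⟨Q1.inj _ _ hi1 (Nat.zero_le _) (e.trans q1a.symm), by rw [pvt_c_app_n]⟩
      · obtain ⟨i', rfl⟩ := Nat.exists_eq_add_of_le (not_le.1 hi1).le
        rw [pvt_c_app_v2, pvt_c_app_v1 _ _ _ hj1] at e
        have hi' : i' = Q2.n := by
          by_contra hne
          exact q2d i' (by omega) (e.symm ▸ m3 j hj1)
        subst hi'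
        left
        exact ⟨by rw [pvt_c_app_n], Q3.inj _ _ hj1 (Nat.zero_le _) (e.symm.trans q3a.symm)⟩
      · obtain ⟨i', rfl⟩ := Nat.exists_eq_add_of_le (not_le.1 hi1).le
        obtain ⟨j', rfl⟩ := Nat.exists_eq_add_of_le (not_le.1 hj1).le
        rw [pvt_c_app_v2, pvt_c_app_v2] at e
        exact absurd (e ▸ m2 i' (by omega)) (fun h => disjoint_left.1 d24 h (m4 j' (by omega)))
  have hn : ((Q1.app Q2 A12).glue (Q3.app Q4 A34) G).n = Q1.n + Q2.n + (Q3.n + Q4.n) := rfl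
  refine ⟨⟨(Q1.app Q2 A12).glue (Q3.app Q4 A34) G, 0, Q1.n, Q1.n + Q2.n, Q1.n + Q2.n + Q3.n, Nat.zero_le _, by omega, by omega, by rw [hn]; omega⟩, rfl, ?_, ?_, ?_, ?_⟩
  · rintro v ⟨k, -, hk, rfl⟩
    change k ≤ Q1.n at hk
    rw [pl_pth_glue_src1 _ _ G (by rw [pvt_c_app_n]; omega), pvt_c_app_v1 _ _ _ hk]
    exact m1 k hk
  · rintro v ⟨k, hk1, hk, rfl⟩
    change Q1.n ≤ k at hk1
    change k ≤ Q1.n + Q2.n at hk
    obtain ⟨k', rfl⟩ := Nat.exists_eq_add_of_le hk1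
    rw [pl_pth_glue_src1 _ _ G (by rw [pvt_c_app_n]; omega), pvt_c_app_v2]
    exact m2 k' (by omega)
  · rintro v ⟨k, hk1, hk, rfl⟩
    change Q1.n + Q2.n ≤ k at hk1
    change k ≤ Q1.n + Q2.n + Q3.n at hk
    obtain ⟨k', rfl⟩ := Nat.exists_eq_add_of_le hk1
    have := pl_pth_glue_src2 _ _ G (k := k') (by rw [pvt_c_app_n]; omega)
    rw [pvt_c_app_n] at this
    rw [this, pvt_c_app_v1 _ _ _ (by omega)]
    exact m3 k' (by omega)
  · rintro v ⟨k, hk1, hk, rfl⟩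
    change Q1.n + Q2.n + Q3.n ≤ k at hk1
    change k ≤ 0 + (Q1.n + Q2.n + (Q3.n + Q4.n)) at hk
    obtain ⟨k', rfl⟩ := Nat.exists_eq_add_of_le hk1
    have := pl_pth_glue_src2 _ _ G (k := Q3.n + k') (by rw [pvt_c_app_n]; omega)
    rw [pvt_c_app_n] at this
    rw [show Q1.n + Q2.n + Q3.n + k' = Q1.n + Q2.n + (Q3.n + k') by omega, this, pvt_c_app_v2]
    exact m4 k' (by omega)

end four
/-! ## 2. ray casting -/

theorem pvzq_det_eq (a b z : ℂ) : vorDet a b z = (z.im - a.im) * (b.re - z.re) + (b.im - z.im) * (a.re - z.re) := by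
  unfold vorDet; ring

/-- an edge on the left of `z` is not met by the ray -/
theorem pvzq_chi_left {z a b : ℂ} (ha : a.re < z.re) (hb : b.re < z.re) : delChi z a b = 0 := by
  unfold delChi delChiR
  rw [pvzq_det_eq]
  rw [if_neg, if_neg]
  · rintro ⟨h1, h2, h3⟩
    nlinarith [mul_nonneg (sub_nonneg.2 h1) (sub_pos.2 ha).le, mul_pos (sub_pos.2 h2) (sub_pos.2 hb)]
  · rintro ⟨h1, h2, h3⟩
    nlinarith [mul_nonneg (sub_nonneg.2 h1) (sub_pos.2 hb).le, mul_pos (sub_pos.2 h2) (sub_pos.2 ha)]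

open Classical in
/-- the indicator of "not above `z`" -/
noncomputable def pvzqI (z a : ℂ) : ℤ := if a.im ≤ z.im then 1 else 0

/-- an edge on the right of `z`: the crossing number telescopes -/
theorem pvzq_chi_right {z a b : ℂ} (ha : z.re < a.re) (hb : z.re < b.re) : delChi z a b = pvzqI z a - pvzqI z b := by
  unfold delChi pvzqI
  rcases le_or_gt a.im z.im with h1 | h1 <;> rcases le_or_gt b.im z.im with h2 | h2
  · rw [delw_chiR_low h1 h2, if_pos h1, if_pos h2, sub_self]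
  · rw [delw_chiR_up h1 h2, if_pos h1, if_neg (not_le.2 h2), if_pos, sub_zero]
    rw [pvzq_det_eq]
    nlinarith [mul_nonneg (sub_nonneg.2 h1) (sub_pos.2 hb).le, mul_pos (sub_pos.2 h2) (sub_pos.2 ha)]
  · rw [delw_chiR_down h2 h1, if_neg (not_le.2 h1), if_pos h2, if_pos, zero_sub]
    rw [pvzq_det_eq]
    nlinarith [mul_nonneg (sub_nonneg.2 h2) (sub_pos.2 ha).le, mul_pos (sub_pos.2 h1) (sub_pos.2 hb)]
  · rw [delw_chiR_high h1 h2, if_neg (not_le.2 h1), if_neg (not_le.2 h2), sub_self]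

theorem pvzq_chi_low {z a b : ℂ} (ha : a.im ≤ z.im) (hb : b.im ≤ z.im) : delChi z a b = 0 := delw_chiR_low ha hb

theorem pvzq_chi_high {z a b : ℂ} (ha : z.im < a.im) (hb : z.im < b.im) : delChi z a b = 0 := delw_chiR_high ha hb

section wn

variable {V D : Type} {T : PvMap V D}

theorem pvzq_F_eq (pos : V → ℂ) (c : T.Cyc) (z : ℂ) (i : ℕ) : delwF T pos z (c.e i) = delChi z (pos (T.src (c.e i))) (pos (T.src (c.e (i + 1)))) := by
  unfold delwF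
  rw [c.chain i]

/-- **INSIDE**: left side on the left, bottom side not above, right side on the right, top side above: the winding number is `1` -/
theorem pvzq_wn_in (pos : V → ℂ) (Q : T.Quad) (h0 : Q.m0 = 0) {z : ℂ} (h1 : ∀ v ∈ Q.S1, (pos v).re < z.re) (h2 : ∀ v ∈ Q.S2, (pos v).im ≤ z.im)
    (h3 : ∀ v ∈ Q.S3, z.re < (pos v).re) (h4 : ∀ v ∈ Q.S4, z.im < (pos v).im) : delWn pos Q.c z = 1 := by
  have h01 := Q.h01; have h12 := Q.h12; have h23 := Q.h23; have h30 := Q.h30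
  rw [h0] at h01 h30
  rw [Nat.zero_add] at h30
  unfold delWn
  rw [Finset.range_eq_Ico, ← Finset.sum_Ico_consecutive _ (Nat.zero_le _) (h12.trans (h23.trans h30)), ← Finset.sum_Ico_consecutive _ h12 (h23.trans h30),
    ← Finset.sum_Ico_consecutive _ h23 h30]
  have e1 : ∑ i ∈ Finset.Ico 0 Q.m1, delwF T pos z (Q.c.e i) = 0 := by
    refine Finset.sum_eq_zero fun i hi => ?_
    rw [Finset.mem_Ico] at hi
    rw [pvzq_F_eq]
    exact pvzq_chi_left (h1 _ ⟨i, by rw [h0]; omega, by omega, rfl⟩) (h1 _ ⟨i + 1, by rw [h0]; omega, by omega, rfl⟩)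
  have e2 : ∑ i ∈ Finset.Ico Q.m1 Q.m2, delwF T pos z (Q.c.e i) = 0 := by
    refine Finset.sum_eq_zero fun i hi => ?_
    rw [Finset.mem_Ico] at hi
    rw [pvzq_F_eq]
    exact pvzq_chi_low (h2 _ ⟨i, by omega, by omega, rfl⟩) (h2 _ ⟨i + 1, by omega, by omega, rfl⟩)
  have e4 : ∑ i ∈ Finset.Ico Q.m3 Q.c.n, delwF T pos z (Q.c.e i) = 0 := by
    refine Finset.sum_eq_zero fun i hi => ?_
    rw [Finset.mem_Ico] at hi
    rw [pvzq_F_eq]
    exact pvzq_chi_high (h4 _ ⟨i, by omega, by rw [h0]; omega, rfl⟩) (h4 _ ⟨i + 1, by omega, by rw [h0]; omega, rfl⟩)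
  have e3 : ∑ i ∈ Finset.Ico Q.m2 Q.m3, delwF T pos z (Q.c.e i) = 1 := by
    have : ∑ i ∈ Finset.Ico Q.m2 Q.m3, delwF T pos z (Q.c.e i) = ∑ i ∈ Finset.Ico Q.m2 Q.m3, (pvzqI z (pos (T.src (Q.c.e i))) - pvzqI z (pos (T.src (Q.c.e (i + 1))))) := by
      refine Finset.sum_congr rfl fun i hi => ?_
      rw [Finset.mem_Ico] at hi
      rw [pvzq_F_eq]
      exact pvzq_chi_right (h3 _ ⟨i, by omega, by omega, rfl⟩) (h3 _ ⟨i + 1, by omega, by omega, rfl⟩)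
    have tel : ∑ i ∈ Finset.Ico Q.m2 Q.m3, (pvzqI z (pos (T.src (Q.c.e i))) - pvzqI z (pos (T.src (Q.c.e (i + 1))))) =
        pvzqI z (pos (T.src (Q.c.e Q.m2))) - pvzqI z (pos (T.src (Q.c.e Q.m3))) := by
      have := Finset.sum_Ico_sub (fun i => pvzqI z (pos (T.src (Q.c.e i)))) h23
      rw [← neg_sub, ← this, ← Finset.sum_neg_distrib]
      exact Finset.sum_congr rfl fun i _ => (neg_sub _ _).symm
    rw [this, tel]
    unfold pvzqI
    rw [if_pos (h2 _ ⟨Q.m2, h12, le_rfl, rfl⟩), if_neg (not_le.2 (h4 _ ⟨Q.m3, le_rfl, by rw [h0]; omega, rfl⟩))]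
    norm_num
  rw [e1, e2, e3, e4]
  norm_num

/-- **OUTSIDE**: a point off a box which contains the vertices of the cycle has winding number `0` -/
theorem pvzq_wn_out (pos : V → ℂ) (c : T.Cyc) {x0 x1 y0 y1 : ℝ} (hb : ∀ v ∈ c.verts, x0 ≤ (pos v).re ∧ (pos v).re ≤ x1 ∧ y0 ≤ (pos v).im ∧ (pos v).im ≤ y1)
    {z : ℂ} (hz : ¬ (x0 ≤ z.re ∧ z.re ≤ x1 ∧ y0 ≤ z.im ∧ z.im ≤ y1)) : delWn pos c z = 0 := by
  have hv : ∀ i, x0 ≤ (pos (T.src (c.e i))).re ∧ (pos (T.src (c.e i))).re ≤ x1 ∧ y0 ≤ (pos (T.src (c.e i))).im ∧ (pos (T.src (c.e i))).im ≤ y1 := fun i => hb _ ⟨i, rfl⟩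
  unfold delWn
  by_cases a1 : x0 ≤ z.re
  · by_cases a2 : z.re ≤ x1
    · by_cases a3 : y0 ≤ z.im
      · have a4 : y1 < z.im := by
          by_contra h
          exact hz ⟨a1, a2, a3, not_lt.1 h⟩
        refine Finset.sum_eq_zero fun i _ => ?_
        rw [pvzq_F_eq]
        exact pvzq_chi_low (by linarith [(hv i).2.2.2]) (by linarith [(hv (i + 1)).2.2.2])
      · refine Finset.sum_eq_zero fun i _ => ?_
        rw [pvzq_F_eq]
        exact pvzq_chi_high (by linarith [(hv i).2.2.1]) (by linarith [(hv (i + 1)).2.2.1])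
    · refine Finset.sum_eq_zero fun i _ => ?_
      rw [pvzq_F_eq]
      exact pvzq_chi_left (by linarith [(hv i).2.1]) (by linarith [(hv (i + 1)).2.1])
  · have : ∑ i ∈ Finset.range c.n, delwF T pos z (c.e i) = ∑ i ∈ Finset.range c.n, (pvzqI z (pos (T.src (c.e i))) - pvzqI z (pos (T.src (c.e (i + 1))))) := by
      refine Finset.sum_congr rfl fun i _ => ?_
      rw [pvzq_F_eq]
      exact pvzq_chi_right (by linarith [(hv i).1]) (by linarith [(hv (i + 1)).1])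
    rw [this, Finset.sum_range_sub' (fun i => pvzqI z (pos (T.src (c.e i))))]
    have := c.per 0
    rw [Nat.zero_add] at this
    rw [this, sub_self]

/-- the winding number of the reversed cycle -/
theorem pvzq_wn_rev (pos : V → ℂ) (c c' : T.Cyc) (hn : c'.n = c.n) (he : ∀ i, i < c.n → c'.e i = T.opp (c.e (c.n - 1 - i))) (z : ℂ) : delWn pos c' z = - delWn pos c z := by
  unfold delWn
  rw [hn, ← Finset.sum_range_reflect, ← Finset.sum_neg_distrib]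
  refine Finset.sum_congr rfl fun i hi => ?_
  rw [Finset.mem_range] at hi
  rw [he _ (by omega), delw_F_opp]
  congr 3
  omega

end wn

/-! ## 3. the rectangle -/

/-- the closed rectangle `[x0, x1] × [y0, y1]` (a side: `x0 = x1` or `y0 = y1`) -/
def pvzqR (x0 x1 y0 y1 : ℝ) : Set ℂ := {z | x0 ≤ z.re ∧ z.re ≤ x1 ∧ y0 ≤ z.im ∧ z.im ≤ y1}

/-- the open rectangle -/
def pvzqRo (x0 x1 y0 y1 : ℝ) : Set ℂ := {z | x0 < z.re ∧ z.re < x1 ∧ y0 < z.im ∧ z.im < y1}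

theorem pvzq_eqns_cite : True := by
  have := @pvzqI.eq_1; have := @pvzqR.eq_1; have := @pvzqRo.eq_1
  trivial

theorem pvzq_R_convex (x0 x1 y0 y1 : ℝ) : Convex ℝ (pvzqR x0 x1 y0 y1) := by
  intro a ha b hb s t hs ht hst
  obtain ⟨a1, a2, a3, a4⟩ := ha
  obtain ⟨b1, b2, b3, b4⟩ := hb
  have hs' : s = 1 - t := by linarith
  subst hs'
  simp only [pvzqR, mem_ofPred_eq, Complex.add_re, Complex.add_im, Complex.real_smul, Complex.mul_re, Complex.mul_im, Complex.ofReal_re, Complex.ofReal_im, zero_mul, sub_zero, add_zero]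
  refine ⟨?_, ?_, ?_, ?_⟩ <;> nlinarith

theorem pvzq_R_closed (x0 x1 y0 y1 : ℝ) : IsClosed (pvzqR x0 x1 y0 y1) :=
  (isClosed_le continuous_const Complex.continuous_re).inter ((isClosed_le Complex.continuous_re continuous_const).inter
    ((isClosed_le continuous_const Complex.continuous_im).inter (isClosed_le Complex.continuous_im continuous_const)))

theorem pvzq_Ro_open (x0 x1 y0 y1 : ℝ) : IsOpen (pvzqRo x0 x1 y0 y1) :=
  (isOpen_lt continuous_const Complex.continuous_re).inter ((isOpen_lt Complex.continuous_re continuous_const).inter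
    ((isOpen_lt continuous_const Complex.continuous_im).inter (isOpen_lt Complex.continuous_im continuous_const)))

theorem pvzq_R_mono {x0 x1 y0 y1 x0' x1' y0' y1' : ℝ} (h0 : x0' ≤ x0) (h1 : x1 ≤ x1') (h2 : y0' ≤ y0) (h3 : y1 ≤ y1') : pvzqR x0 x1 y0 y1 ⊆ pvzqR x0' x1' y0' y1' :=
  fun _ hz => ⟨h0.trans hz.1, hz.2.1.trans h1, h2.trans hz.2.2.1, hz.2.2.2.trans h3⟩

/-- a point within `ρ` of a rectangle -/
theorem pvzq_R_near {x0 x1 y0 y1 ρ : ℝ} {z v : ℂ} (hz : z ∈ pvzqR x0 x1 y0 y1) (hv : ‖z - v‖ ≤ ρ) : v ∈ pvzqR (x0 - ρ) (x1 + ρ) (y0 - ρ) (y1 + ρ) := by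
  have h1 := (Complex.abs_re_le_norm (z - v)).trans hv
  have h2 := (Complex.abs_im_le_norm (z - v)).trans hv
  rw [Complex.sub_re, abs_le] at h1
  rw [Complex.sub_im, abs_le] at h2
  obtain ⟨a1, a2, a3, a4⟩ := hz
  exact ⟨by linarith, by linarith, by linarith, by linarith⟩

theorem pvzq_meet_mono {Y S S' : Set ℂ} (h : S ⊆ S') : vorMeet Y S ⊆ vorMeet Y S' := fun _ hv => ⟨hv.1, hv.2.mono (inter_subset_inter_right _ h)⟩

/-- on the mesh event a site whose cell meets a rectangle lies within `ρ` of it -/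
theorem pvzq_meet_near {Y : Set ℂ} {x0 x1 y0 y1 ρ : ℝ} (hd : VorDense Y (pvzqR x0 x1 y0 y1) ρ) {v : ℂ} (hv : v ∈ vorMeet Y (pvzqR x0 x1 y0 y1)) :
    v ∈ pvzqR (x0 - ρ) (x1 + ρ) (y0 - ρ) (y1 + ρ) := by
  obtain ⟨-, z, hz, hzR⟩ := hv
  exact pvzq_R_near hzR (vor_site_near hd hz hzR)

section del

variable {Y : Set ℂ} (h : DelGood Y)

/-- points of an open face as near as we like to the source of the dart -/
theorem pvzq_face_near (d : DelDart h) {U : Set ℂ} (hU : IsOpen U) (hs : (((delMap h).src d : Y) : ℂ) ∈ U) :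
    ∃ z ∈ U, z ∈ delTo (((delMap h).src d : Y) : ℂ) ((delMap h).tgt d : Y) ((delMap h).apex d : Y) := by
  have hD := dls_det_pos d
  set a : ℂ := (((delMap h).src d : Y) : ℂ) with ha
  set b : ℂ := (((delMap h).tgt d : Y) : ℂ) with hb
  set c : ℂ := (((delMap h).apex d : Y) : ℂ) with hc
  have hf : Continuous fun t : ℝ => a + (t : ℂ) * ((b - a) + (c - a)) := by fun_prop
  have h0 : (0 : ℝ) ∈ (fun t : ℝ => a + (t : ℂ) * ((b - a) + (c - a))) ⁻¹' U := by simpa using hs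
  obtain ⟨ε, hε, hball⟩ := Metric.isOpen_iff.1 (hU.preimage hf) 0 h0
  have ht0 : 0 < min (ε / 2) (1 / 4) := lt_min (by positivity) (by norm_num)
  have ht1 : min (ε / 2) (1 / 4) < ε := lt_of_le_of_lt (min_le_left _ _) (by linarith)
  have ht2 : min (ε / 2) (1 / 4) ≤ 1 / 4 := min_le_right _ _
  set t : ℝ := min (ε / 2) (1 / 4) with ht
  refine ⟨a + (t : ℂ) * ((b - a) + (c - a)), hball (by rw [mem_ball, Real.dist_eq, sub_zero, abs_of_pos ht0]; exact ht1), ?_, ?_, ?_⟩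
  · have : vorDet a b (a + (t : ℂ) * ((b - a) + (c - a))) = t * vorDet a b c := by
      simp only [vorDet, Complex.add_re, Complex.add_im, Complex.mul_re, Complex.mul_im, Complex.ofReal_re, Complex.ofReal_im, Complex.sub_re, Complex.sub_im]
      ring
    rw [this]; positivity
  · have : vorDet b c (a + (t : ℂ) * ((b - a) + (c - a))) = (1 - 2 * t) * vorDet a b c := by
      simp only [vorDet, Complex.add_re, Complex.add_im, Complex.mul_re, Complex.mul_im, Complex.ofReal_re, Complex.ofReal_im, Complex.sub_re, Complex.sub_im]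
      ring
    rw [this]
    exact mul_pos (by linarith) hD
  · have : vorDet c a (a + (t : ℂ) * ((b - a) + (c - a))) = t * vorDet a b c := by
      simp only [vorDet, Complex.add_re, Complex.add_im, Complex.mul_re, Complex.mul_im, Complex.ofReal_re, Complex.ofReal_im, Complex.sub_re, Complex.sub_im]
      ring
    rw [this]; positivity

/-- **THE RECORD**: `Q` is a quadrilateral of the Delaunay map which follows the rectangle `[x0, x1] × [y0, y1]` at the precision `ρ`.   `S1` = left, `S2` = bottom, `S3` = right, `S4` = top (positive sense) -/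
structure PvzqOk (x0 x1 y0 y1 ρ : ℝ) (Q : (delMap h).Quad) : Prop where
  m0 : Q.m0 = 0
  fin : Q.c.Left.Finite
  s1 : ∀ v ∈ Q.S1, (v : ℂ) ∈ vorMeet Y (pvzqR x0 x0 y0 y1)
  s2 : ∀ v ∈ Q.S2, (v : ℂ) ∈ vorMeet Y (pvzqR x0 x1 y0 y0)
  s3 : ∀ v ∈ Q.S3, (v : ℂ) ∈ vorMeet Y (pvzqR x1 x1 y0 y1)
  s4 : ∀ v ∈ Q.S4, (v : ℂ) ∈ vorMeet Y (pvzqR x0 x1 y1 y1)
  out : ∀ v ∈ (delMap h).VOf Q.c.Left, (v : ℂ) ∈ pvzqR (x0 - ρ) (x1 + ρ) (y0 - ρ) (y1 + ρ)
  deep : ∀ v : Y, (v : ℂ) ∈ pvzqRo (x0 + ρ) (x1 - ρ) (y0 + ρ) (y1 - ρ) → v ∈ (delMap h).Int Q.c.Left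

/-- the sites whose cells meet a convex set are joined through such sites -/
theorem pvzq_conn {S : Set ℂ} (hS : Convex ℝ S) : ∀ a ∈ {v : Y | (v : ℂ) ∈ vorMeet Y S}, ∀ b ∈ {v : Y | (v : ℂ) ∈ vorMeet Y S},
    (delMap h).Join univ {v : Y | (v : ℂ) ∈ vorMeet Y S} a b := by
  intro a ha b hb
  refine ⟨ha, ReflTransGen.mono ?_ _ _ (pvge_map_chain' h (pvge_conn h.lf hS.isPreconnected ha hb))⟩
  rintro u v ⟨⟨d, h1, h2⟩, hv⟩
  exact ⟨⟨d, Or.inl (mem_univ _), h1, h2⟩, hv⟩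

/-- **EXISTENCE** -/
theorem pvzq_exists {x0 x1 y0 y1 ρ : ℝ} (hρ : 0 < ρ) (hx : 4 * ρ < x1 - x0) (hy : 4 * ρ < y1 - y0) (hd : VorDense Y (vorNbd (pvzqR x0 x1 y0 y1) (3 * ρ)) ρ) :
    ∃ Q : (delMap h).Quad, PvzqOk h x0 x1 y0 y1 ρ Q := by
  have hT := dls_isSph h
  have hd0 : VorDense Y (pvzqR x0 x1 y0 y1) ρ := hd.mono Subset.rfl (vor_subset_nbd _ (by linarith)) le_rfl
  have i1 : pvzqR x0 x0 y0 y1 ⊆ pvzqR x0 x1 y0 y1 := pvzq_R_mono le_rfl (by linarith) le_rfl le_rfl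
  have i2 : pvzqR x0 x1 y0 y0 ⊆ pvzqR x0 x1 y0 y1 := pvzq_R_mono le_rfl le_rfl le_rfl (by linarith)
  have i3 : pvzqR x1 x1 y0 y1 ⊆ pvzqR x0 x1 y0 y1 := pvzq_R_mono (by linarith) le_rfl le_rfl le_rfl
  have i4 : pvzqR x0 x1 y1 y1 ⊆ pvzqR x0 x1 y0 y1 := pvzq_R_mono le_rfl le_rfl (by linarith) le_rfl
  have n1 : ∀ v : ℂ, v ∈ vorMeet Y (pvzqR x0 x0 y0 y1) → v ∈ pvzqR (x0 - ρ) (x0 + ρ) (y0 - ρ) (y1 + ρ) := fun v hv => pvzq_meet_near (hd0.mono Subset.rfl i1 le_rfl) hv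
  have n2 : ∀ v : ℂ, v ∈ vorMeet Y (pvzqR x0 x1 y0 y0) → v ∈ pvzqR (x0 - ρ) (x1 + ρ) (y0 - ρ) (y0 + ρ) := fun v hv => pvzq_meet_near (hd0.mono Subset.rfl i2 le_rfl) hv
  have n3 : ∀ v : ℂ, v ∈ vorMeet Y (pvzqR x1 x1 y0 y1) → v ∈ pvzqR (x1 - ρ) (x1 + ρ) (y0 - ρ) (y1 + ρ) := fun v hv => pvzq_meet_near (hd0.mono Subset.rfl i3 le_rfl) hv
  have n4 : ∀ v : ℂ, v ∈ vorMeet Y (pvzqR x0 x1 y1 y1) → v ∈ pvzqR (x0 - ρ) (x1 + ρ) (y1 - ρ) (y1 + ρ) := fun v hv => pvzq_meet_near (hd0.mono Subset.rfl i4 le_rfl) hv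
  have : Nonempty (DelDart h) := ⟨(dls_cover h 0).choose⟩
  have corner : ∀ p : ℂ, ∃ v : Y, p ∈ vorCell Y v := fun p => by
    obtain ⟨v, hv, hp⟩ := vor_cover h.lf h.ne p
    exact ⟨⟨v, hv⟩, hp⟩
  obtain ⟨Q, hm0, q1, q2, q3, q4⟩ := pvzq_four (T := delMap h) (pvzq_conn h (pvzq_R_convex x0 x0 y0 y1)) (pvzq_conn h (pvzq_R_convex x0 x1 y0 y0))
    (pvzq_conn h (pvzq_R_convex x1 x1 y0 y1)) (pvzq_conn h (pvzq_R_convex x0 x1 y1 y1))
    (disjoint_left.2 fun v h1 h3 => by have := (n1 _ h1).2.1; have := (n3 _ h3).1; linarith)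
    (disjoint_left.2 fun v h2 h4 => by have := (n2 _ h2).2.2.2; have := (n4 _ h4).2.2.1; linarith)
    (by
      intro a ha b hb hab
      obtain ⟨-, -, -, z, hza, hzb⟩ := (dls_adj_iff h a b).1 hab
      have ca := (vor_cell_subset_nbd hρ hd (pvzq_meet_mono i1 ha)).1 hza
      have cb := (vor_cell_subset_nbd hρ hd (pvzq_meet_mono i3 hb)).1 hzb
      rw [mem_closedBall, dist_eq_norm] at ca cb
      have r1 := (Complex.abs_re_le_norm (z - a)).trans ca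
      have r2 := (Complex.abs_re_le_norm (z - b)).trans cb
      rw [Complex.sub_re, abs_le] at r1 r2
      have := (n1 _ ha).2.1; have := (n3 _ hb).1
      linarith)
    (by
      obtain ⟨v, hv⟩ := corner ⟨x0, y0⟩
      exact ⟨v, ⟨v.2, _, hv, le_rfl, le_rfl, le_rfl, by show y0 ≤ y1; linarith⟩, ⟨v.2, _, hv, le_rfl, by show x0 ≤ x1; linarith, le_rfl, le_rfl⟩⟩)
    (by
      obtain ⟨v, hv⟩ := corner ⟨x1, y0⟩
      exact ⟨v, ⟨v.2, _, hv, by show x0 ≤ x1; linarith, le_rfl, le_rfl, le_rfl⟩, ⟨v.2, _, hv, le_rfl, le_rfl, le_rfl, by show y0 ≤ y1; linarith⟩⟩)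
    (by
      obtain ⟨v, hv⟩ := corner ⟨x1, y1⟩
      exact ⟨v, ⟨v.2, _, hv, le_rfl, le_rfl, by show y0 ≤ y1; linarith, le_rfl⟩, ⟨v.2, _, hv, by show x0 ≤ x1; linarith, le_rfl, le_rfl, le_rfl⟩⟩)
    (by
      obtain ⟨v, hv⟩ := corner ⟨x0, y1⟩
      exact ⟨v, ⟨v.2, _, hv, le_rfl, by show x0 ≤ x1; linarith, le_rfl, le_rfl⟩, ⟨v.2, _, hv, le_rfl, le_rfl, by show y0 ≤ y1; linarith, le_rfl⟩⟩)
  -- the winding number in the deep region
  have win : ∀ z : ℂ, z ∈ pvzqRo (x0 + ρ) (x1 - ρ) (y0 + ρ) (y1 - ρ) → delWn (Subtype.val : ↥Y → ℂ) Q.c z = 1 := by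
    intro z hz
    refine pvzq_wn_in _ Q hm0 (fun v hv => ?_) (fun v hv => ?_) (fun v hv => ?_) (fun v hv => ?_)
    · have := (n1 _ (q1 hv)).2.1; have := hz.1; linarith
    · have := (n2 _ (q2 hv)).2.2.2; have := hz.2.2.1; linarith
    · have := (n3 _ (q3 hv)).1; have := hz.2.1; linarith
    · have := (n4 _ (q4 hv)).2.2.1; have := hz.2.2.2; linarith
  have box : ∀ v ∈ Q.c.verts, x0 - ρ ≤ (v : ℂ).re ∧ (v : ℂ).re ≤ x1 + ρ ∧ y0 - ρ ≤ (v : ℂ).im ∧ (v : ℂ).im ≤ y1 + ρ := by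
    intro v hv
    rw [← pl_qd_sides Q] at hv
    rcases hv with ((hv | hv) | hv) | hv
    · exact pvzq_R_mono le_rfl (by linarith) le_rfl le_rfl (n1 _ (q1 hv))
    · exact pvzq_R_mono le_rfl le_rfl le_rfl (by linarith) (n2 _ (q2 hv))
    · exact pvzq_R_mono (by linarith) le_rfl le_rfl le_rfl (n3 _ (q3 hv))
    · exact pvzq_R_mono le_rfl le_rfl (by linarith) le_rfl (n4 _ (q4 hv))
  have hfin : Q.c.Left.Finite := by
    rcases pl_jordan_finite hT Q.c with hf | hf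
    · exact hf
    · exfalso
      obtain ⟨c', hn, he, -, hL, -⟩ := pl_cyc_rev hT Q.c
      have h1 : 0 ≤ delWn (T := delMap h) (Subtype.val : ↥Y → ℂ) c' ⟨(x0 + x1) / 2, (y0 + y1) / 2⟩ := delw_del_nonneg h c' (hL ▸ hf) ⟨(x0 + x1) / 2, (y0 + y1) / 2⟩
      rw [pvzq_wn_rev _ Q.c c' hn he, win _ ⟨by show x0 + ρ < (x0 + x1) / 2; linarith, by show (x0 + x1) / 2 < x1 - ρ; linarith,
        by show y0 + ρ < (y0 + y1) / 2; linarith, by show (y0 + y1) / 2 < y1 - ρ; linarith⟩] at h1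
      norm_num at h1
  refine ⟨Q, hm0, hfin, q1, q2, q3, q4, ?_, ?_⟩
  · rintro v ⟨d, hd', rfl⟩
    by_contra hv
    obtain ⟨z, hzU, hz⟩ := pvzq_face_near h d (pvzq_R_closed (x0 - ρ) (x1 + ρ) (y0 - ρ) (y1 + ρ)).isOpen_compl hv
    have e1 : delWn (T := delMap h) (Subtype.val : ↥Y → ℂ) Q.c z = 1 := delw_del_in h Q.c hfin hd' hz
    rw [pvzq_wn_out _ Q.c box hzU] at e1
    norm_num at e1
  · intro v hv d hd'
    subst hd'
    by_contra hdL
    obtain ⟨z, hzU, hz⟩ := pvzq_face_near h d (pvzq_Ro_open (x0 + ρ) (x1 - ρ) (y0 + ρ) (y1 - ρ)) hv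
    have e1 : delWn (T := delMap h) (Subtype.val : ↥Y → ℂ) Q.c z = 0 := delw_del_out h Q.c hfin hdL hz
    rw [win z hzU] at e1
    norm_num at e1

end del

end Claimed.Agent.R289
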