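-- KEEP
import Claimed.Agent.R289.Tr.QuadI
import Claimed.Agent.R289.Vor.Chain

/-!
# Row 289 (S0537), box TR, file Tr/QuadX : GEOMETRY → DISCRETE DICTIONARY OVER `PvzqOk`      (helper267; prefix `pvzx_`, defs `pvzxAo pvzxS`; 0 sorry)

For the instance of ADMISSION (`Tr/AdmI` of 19, `Tr/Adm` of 127).   `T = delMap h`, vertex sets `X : Set ↥Y`, paths = `T.Join`.
* sec.1  MODEL FREE CORES (invariants along `ReflTransGen`, no index chase).   **`pvzx_enter`** (a path of the whole map from a vertex off the open disc, touching the cycle only on `S`: its vertices in the closed disc are joined to `S` INSIDE the disc),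
         **`pvzx_cross`** (abscissa `ξ`, thresholds `α < β` ⟹ `Q.Cr13 X`), **`pvzx_descend`** (ordinate `η` ⟹ `∃ z ∈ S2, Join (Ao ∪ Left) X m z`), `pvzxAo Q` (faces off `Left` which touch the closed disc only on `S4`), `pvzx_Ao_edge` (= field `hAo` of `PvamHalf`).
* sec.2  `pvzx_R_eq : pvzqR = rswRect` (rfl), `pvzx_ball_sub`, `pvzx_short(_re)` (edges `≤ 2ρ` at a site `a` with `closedBall a (2ρ) ⊆ U`, `VorDense Y U ρ`), `pvzxS Y A K` (sites of `A` whose cells meet `K`),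
         `pvzx_chain_join`, **(X0) `pvzx_holds_join`**: `e.Holds (vorUn Y A)` ⟹ `∃ u v, u ∈ vorMeet (S ∩ K), v ∈ vorMeet (T ∩ K), Join univ (pvzxS Y A e.K) u v`.
* sec.3  (X1) `PvzqOk.p1 .. p4` (collars of the sides), `PvzqOk.col`, `PvzqOk.strip` (side of a cycle vertex from its position), `PvzqOk.not_int`, `PvzqOk.VOf_finite`, `pvzx_disj`.
* sec.4  **(X2) `pvzx_cr13`, `pvzx_cr24`**;   **(X3) `pvzx_meet`** (an LR path and a TB path of one rectangle share a site).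
* sec.5  `pvzx_face_not_int`, `pvzx_Ao_mem`, **(X4) `pvzx_half`**.
-/

set_option autoImplicit false
set_option linter.unusedVariables false

namespace Claimed.Agent.R289

open Set Metric Relation

/-! ## 1. model free cores -/

section core

variable {V D : Type} {T : PvMap V D}

theorem pvzx_int_VOf (hT : T.IsSph) (c : T.Cyc) {v : V} (h : v ∈ T.Int c.Left) : v ∈ T.VOf c.Left := by
  rw [pl_VOf_left hT c]; exact Or.inr h

theorem pvzx_verts_of (hT : T.IsSph) (c : T.Cyc) {v : V} (h : v ∈ T.VOf c.Left) (h' : v ∉ T.Int c.Left) : v ∈ c.verts := by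
  rw [pl_VOf_left hT c] at h; exact h.resolve_right h'

/-- an edge which leaves an interior vertex -/
theorem pvzx_edge_out (hT : T.IsSph) (c : T.Cyc) {u v : V} (h : T.Adj u v) (hu : u ∈ T.Int c.Left) : T.EdgeIn c.Left u v ∧ v ∈ T.VOf c.Left := by
  obtain ⟨d, rfl, rfl⟩ := h
  obtain ⟨h1, -, h3⟩ := pl_int_edge hT c hu
  exact ⟨⟨d, Or.inl h1, rfl, rfl⟩, h3⟩

/-- an edge which arrives at an interior vertex -/
theorem pvzx_edge_in (hT : T.IsSph) (c : T.Cyc) {u v : V} (h : T.Adj u v) (hv : v ∈ T.Int c.Left) : T.EdgeIn c.Left u v ∧ u ∈ T.VOf c.Left := by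
  obtain ⟨d, rfl, rfl⟩ := h
  have hv' : T.src (T.opp d) ∈ T.Int c.Left := by rw [T.src_opp']; exact hv
  obtain ⟨h1, -, h3⟩ := pl_int_edge hT c hv'
  rw [T.tgt_opp] at h3
  exact ⟨⟨d, Or.inr h1, rfl, rfl⟩, h3⟩

/-- **ENTER**: a path of the whole map which starts off the open disc and touches the cycle only on `S`: each of its vertices in the closed disc is joined to `S` inside the closed disc -/
theorem pvzx_enter (hT : T.IsSph) (c : T.Cyc) {X S : Set V} (hv : ∀ v ∈ X, v ∈ c.verts → v ∈ S) {b x : V} (hbx : T.Join univ X b x) (hb : b ∉ T.Int c.Left)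
    (hx : x ∈ T.VOf c.Left) : ∃ s ∈ S, T.Join c.Left X s x := by
  obtain ⟨hbX, hch⟩ := hbx
  induction hch with
  | refl => exact ⟨b, hv b hbX (pvzx_verts_of hT c hx hb), pl_hx_join_refl hbX⟩
  | @tail u w _ hstep ih =>
    obtain ⟨⟨d, -, hs, ht⟩, hwX⟩ := hstep
    by_cases hw : w ∈ T.Int c.Left
    · obtain ⟨e1, e2⟩ := pvzx_edge_in hT c ⟨d, hs, ht⟩ hw
      obtain ⟨s, hs', hj⟩ := ih e2
      exact ⟨s, hs', pl_hx_join_tail hj e1 hwX⟩
    · exact ⟨w, hv w hwX (pvzx_verts_of hT c hx hw), pl_hx_join_refl hwX⟩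

/-- **CROSSING**: `ξ` = abscissa.  A path which touches the cycle only on `S1` (where `ξ ≤ α`) and on `S3` (where `β ≤ ξ`), whose vertices with `α < ξ < β` are interior, without jump over `(α, β)`, from `ξ ≤ α` to `β ≤ ξ`, both ends off the open disc -/
theorem pvzx_cross (hT : T.IsSph) (Q : T.Quad) {X : Set V} (ξ : V → ℝ) {α β : ℝ} (hαβ : α < β)
    (hv : ∀ v ∈ X, v ∈ Q.c.verts → (v ∈ Q.S1 ∧ ξ v ≤ α) ∨ (v ∈ Q.S3 ∧ β ≤ ξ v))
    (hM : ∀ v ∈ X, α < ξ v → ξ v < β → v ∈ T.Int Q.c.Left)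
    (hj : ∀ u ∈ X, ∀ v ∈ X, T.Adj u v → ξ u ≤ α → β ≤ ξ v → False)
    {a b : V} (hab : T.Join univ X a b) (ha : ξ a ≤ α) (ha' : a ∉ T.Int Q.c.Left) (hb : β ≤ ξ b) (hb' : b ∉ T.Int Q.c.Left) : Q.Cr13 X := by
  by_contra hcr
  obtain ⟨haX, hch⟩ := hab
  have key : b ∈ X ∧ (b ∈ T.VOf Q.c.Left → ∃ s ∈ Q.S1, T.Join Q.c.Left X s b) ∧ (b ∉ T.VOf Q.c.Left → ξ b ≤ α) := by
    clear hb hb'
    induction hch with
    | refl =>
      refine ⟨haX, fun hV => ?_, fun _ => ha⟩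
      rcases hv a haX (pvzx_verts_of hT Q.c hV ha') with h | h
      · exact ⟨a, h.1, pl_hx_join_refl haX⟩
      · linarith [h.2]
    | @tail u w _ hstep ih =>
      obtain ⟨⟨d, -, hs, ht⟩, hwX⟩ := hstep
      obtain ⟨huX, ih1, ih2⟩ := ih
      have hadj : T.Adj u w := ⟨d, hs, ht⟩
      -- `w` far on the right is impossible unless `w` is interior
      have far : β ≤ ξ w → w ∈ T.Int Q.c.Left := by
        intro hw
        by_contra hwI
        by_cases hu : u ∈ T.VOf Q.c.Left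
        · by_cases huI : u ∈ T.Int Q.c.Left
          · obtain ⟨e1, e2⟩ := pvzx_edge_out hT Q.c hadj huI
            obtain ⟨s, hs', hjn⟩ := ih1 hu
            rcases hv w hwX (pvzx_verts_of hT Q.c e2 hwI) with h | h
            · linarith [h.2]
            · exact hcr ⟨s, hs', w, h.1, pl_hx_join_tail hjn e1 hwX⟩
          · rcases hv u huX (pvzx_verts_of hT Q.c hu huI) with h | h
            · exact hj u huX w hwX hadj h.2 hw
            · obtain ⟨s, hs', hjn⟩ := ih1 hu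
              exact hcr ⟨s, hs', u, h.1, hjn⟩
        · exact hj u huX w hwX hadj (ih2 hu) hw
      refine ⟨hwX, fun hV => ?_, fun hV => ?_⟩
      · by_cases hwI : w ∈ T.Int Q.c.Left
        · obtain ⟨e1, e2⟩ := pvzx_edge_in hT Q.c hadj hwI
          obtain ⟨s, hs', hjn⟩ := ih1 e2
          exact ⟨s, hs', pl_hx_join_tail hjn e1 hwX⟩
        · rcases hv w hwX (pvzx_verts_of hT Q.c hV hwI) with h | h
          · exact ⟨w, h.1, pl_hx_join_refl hwX⟩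
          · exact absurd (far h.2) hwI
      · by_contra hlt
        rw [not_le] at hlt
        rcases lt_or_ge (ξ w) β with h | h
        · exact hV (pvzx_int_VOf hT Q.c (hM w hwX hlt h))
        · exact hV (pvzx_int_VOf hT Q.c (far h))
  obtain ⟨hbX, k1, k2⟩ := key
  by_cases hV : b ∈ T.VOf Q.c.Left
  · obtain ⟨s, hs', hjn⟩ := k1 hV
    rcases hv b hbX (pvzx_verts_of hT Q.c hV hb') with h | h
    · linarith [h.2]
    · exact hcr ⟨s, hs', b, h.1, hjn⟩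
  · linarith [k2 hV]

/-- **DESCENT** (half link): `η` = ordinate.  From a vertex `m` above, down to a vertex `b` below, through vertices which touch the cycle only on `S4` (above) and `S2` (below) -/
theorem pvzx_descend (hT : T.IsSph) (Q : T.Quad) {X : Set V} {Ao : Set D} (η : V → ℝ) {α β : ℝ} (hαβ : α < β)
    (hv : ∀ v ∈ X, v ∈ Q.c.verts → (v ∈ Q.S2 ∧ η v ≤ α) ∨ (v ∈ Q.S4 ∧ β ≤ η v))
    (hM : ∀ v ∈ X, α < η v → η v < β → v ∈ T.Int Q.c.Left)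
    (hj : ∀ u ∈ X, ∀ v ∈ X, T.Adj u v → β ≤ η u → η v ≤ α → False)
    (hA : ∀ d, T.src d ∈ X → T.tgt d ∈ X → β ≤ η (T.src d) → β ≤ η (T.tgt d) → d ∈ Q.c.Left ∨ d ∈ Ao)
    {m b : V} (hmb : T.Join univ X m b) (hm : β ≤ η m) (hb : η b ≤ α) (hb' : b ∉ T.Int Q.c.Left) :
    ∃ z ∈ Q.S2, T.Join (Ao ∪ Q.c.Left) X m z := by
  by_contra hno
  obtain ⟨hmX, hch⟩ := hmb
  have hLR : ∀ {u w : V}, T.EdgeIn Q.c.Left u w → T.EdgeIn (Ao ∪ Q.c.Left) u w := by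
    rintro u w ⟨d, hd, h1, h2⟩
    exact ⟨d, hd.imp Or.inr Or.inr, h1, h2⟩
  have key : T.Join (Ao ∪ Q.c.Left) X m b ∧ (b ∈ T.VOf Q.c.Left ∨ β ≤ η b) := by
    clear hb hb'
    induction hch with
    | refl => exact ⟨pl_hx_join_refl hmX, Or.inr hm⟩
    | @tail u w _ hstep ih =>
      obtain ⟨⟨d, -, hs, ht⟩, hwX⟩ := hstep
      obtain ⟨ihJ, ih2⟩ := ih
      have huX : u ∈ X := pl_hx_join_mem ihJ
      have hadj : T.Adj u w := ⟨d, hs, ht⟩
      by_cases huI : u ∈ T.Int Q.c.Left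
      · obtain ⟨e1, e2⟩ := pvzx_edge_out hT Q.c hadj huI
        exact ⟨pl_hx_join_tail ihJ (hLR e1) hwX, Or.inl e2⟩
      by_cases hwI : w ∈ T.Int Q.c.Left
      · obtain ⟨e1, -⟩ := pvzx_edge_in hT Q.c hadj hwI
        exact ⟨pl_hx_join_tail ihJ (hLR e1) hwX, Or.inl (pvzx_int_VOf hT Q.c hwI)⟩
      have hu : β ≤ η u := by
        rcases ih2 with h | h
        · rcases hv u huX (pvzx_verts_of hT Q.c h huI) with h' | h'
          · exact absurd ⟨u, h'.1, ihJ⟩ hno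
          · exact h'.2
        · exact h
      have hw : β ≤ η w := by
        by_contra hlt
        rw [not_le] at hlt
        rcases le_or_gt (η w) α with h | h
        · exact hj u huX w hwX hadj hu h
        · exact hwI (hM w hwX h hlt)
      have hd : d ∈ Q.c.Left ∨ d ∈ Ao := hA d (hs ▸ huX) (ht ▸ hwX) (hs ▸ hu) (ht ▸ hw)
      exact ⟨pl_hx_join_tail ihJ ⟨d, Or.inl hd.symm, hs, ht⟩ hwX, Or.inr hw⟩
  obtain ⟨kJ, k2⟩ := key
  have hbX : b ∈ X := pl_hx_join_mem kJ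
  rcases k2 with h | h
  · rcases hv b hbX (pvzx_verts_of hT Q.c h hb') with h' | h'
    · exact hno ⟨b, h'.1, kJ⟩
    · linarith [h'.2]
  · linarith

/-- the faces off the disc which touch the closed disc only on the side 4 -/
def pvzxAo (Q : T.Quad) : Set D := {d | d ∉ Q.c.Left ∧ ∀ v, (v = T.src d ∨ v = T.tgt d ∨ v = T.apex d) → v ∈ T.VOf Q.c.Left → v ∈ Q.S4}

theorem pvzx_Ao_edge (Q : T.Quad) {a b : V} (h : T.EdgeIn (pvzxAo Q) a b) (hb : b ∈ T.VOf Q.c.Left) : b ∈ Q.S4 := by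
  obtain ⟨d, hd | hd, -, rfl⟩ := h
  · exact hd.2 _ (Or.inr (Or.inl rfl)) hb
  · exact hd.2 _ (Or.inl (T.src_opp' d).symm) hb

end core

/-! ## 2. mesh, patterns -/

theorem pvzx_R_eq (x0 x1 y0 y1 : ℝ) : pvzqR x0 x1 y0 y1 = rswRect x0 x1 y0 y1 := rfl

theorem pvzx_ball_sub {x0 x1 y0 y1 r : ℝ} {a : ℂ} (ha : a ∈ pvzqR (x0 + r) (x1 - r) (y0 + r) (y1 - r)) : closedBall a r ⊆ pvzqR x0 x1 y0 y1 := by
  intro z hz
  rw [mem_closedBall, dist_eq_norm, norm_sub_rev] at hz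
  have := pvzq_R_near ha hz
  exact pvzq_R_mono (by linarith) (by linarith) (by linarith) (by linarith) this

/-- on the mesh event the edges are short -/
theorem pvzx_short {Y U : Set ℂ} {ρ : ℝ} (hρ : 0 < ρ) (hd : VorDense Y U ρ) {a b : ℂ} (ha : closedBall a (2 * ρ) ⊆ U) (hab : DelAdj Y a b) : ‖a - b‖ ≤ 2 * ρ := by
  obtain ⟨haY, -, -, z, hza, hzb⟩ := hab
  have h1 := vor_cell_subset_ball hρ.le (by linarith : ρ < 2 * ρ) (hd.mono Subset.rfl ha le_rfl) hza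
  rw [mem_closedBall, dist_eq_norm] at h1
  have h2 : ‖z - b‖ ≤ ‖z - a‖ := hzb a haY
  calc ‖a - b‖ = ‖(z - b) - (z - a)‖ := by congr 1; ring
    _ ≤ ‖z - b‖ + ‖z - a‖ := norm_sub_le _ _
    _ ≤ 2 * ρ := by linarith

theorem pvzx_short_re {Y U : Set ℂ} {ρ : ℝ} (hρ : 0 < ρ) (hd : VorDense Y U ρ) {a b : ℂ} (ha : closedBall a (2 * ρ) ⊆ U) (hab : DelAdj Y a b) :
    |a.re - b.re| ≤ 2 * ρ ∧ |a.im - b.im| ≤ 2 * ρ := by
  have h := pvzx_short hρ hd ha hab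
  exact ⟨by rw [← Complex.sub_re]; exact (Complex.abs_re_le_norm _).trans h, by rw [← Complex.sub_im]; exact (Complex.abs_im_le_norm _).trans h⟩

/-- the sites of `A` whose cells meet `K`, as vertices of the Delaunay map -/
def pvzxS (Y A K : Set ℂ) : Set ↥Y := {w | (w : ℂ) ∈ A ∧ (w : ℂ) ∈ vorMeet Y K}

theorem pvzx_eqns_cite : True := by
  have := @pvzxAo.eq_1; have := @pvzxS.eq_1
  trivial

section del

variable {Y : Set ℂ} (h : DelGood Y)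

/-- a chain of cells of `A` inside `K` is a path of the Delaunay map -/
theorem pvzx_chain_join {A K : Set ℂ} (hA : A ⊆ Y) {a b : ℂ} (ha : a ∈ A) (haK : (vorCell Y a ∩ K).Nonempty) (hch : ReflTransGen (VorchR Y A K) a b) :
    ∃ hb : b ∈ Y, (delMap h).Join univ (pvzxS Y A K) ⟨a, hA ha⟩ ⟨b, hb⟩ := by
  induction hch with
  | refl => exact ⟨hA ha, pl_hx_join_refl ⟨ha, hA ha, haK⟩⟩
  | @tail u w _ hstep ih =>
    obtain ⟨hu, ih⟩ := ih
    obtain ⟨huA, hwA, z, ⟨hzu, hzw⟩, hzK⟩ := hstep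
    by_cases e : u = w
    · subst e
      exact ⟨hu, ih⟩
    · have hadj : DelAdj Y u w := ⟨hu, hA hwA, e, z, hzu, hzw⟩
      exact ⟨hA hwA, pl_hx_join_tail ih ⟨dlsD h hadj, Or.inl (mem_univ _), rfl, rfl⟩ ⟨hwA, hA hwA, z, hzw, hzK⟩⟩

/-- **(X0)** a pattern realised in the cells of `A` is a path of the Delaunay map -/
theorem pvzx_holds_join {A : Set ℂ} (hA : A ⊆ Y) {e : RswTri} (hK : Convex ℝ e.K) (he : e.Holds (vorUn Y A)) :
    ∃ u v : Y, (u : ℂ) ∈ vorMeet Y (e.S ∩ e.K) ∧ (v : ℂ) ∈ vorMeet Y (e.T ∩ e.K) ∧ (delMap h).Join univ (pvzxS Y A e.K) u v := by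
  obtain ⟨a, b, ha, haS, hbT, hch⟩ := (vorch_holds_iff h.lf hA hK).1 he
  obtain ⟨hb, hj⟩ := pvzx_chain_join h hA ha (haS.mono (inter_subset_inter_right _ inter_subset_right)) hch
  exact ⟨⟨a, hA ha⟩, ⟨b, hb⟩, ⟨hA ha, haS⟩, ⟨hb, hbT⟩, hj⟩

variable {h}
variable {x0 x1 y0 y1 ρ : ℝ} {Q : (delMap h).Quad}

/-! ## 3. positions -/

theorem PvzqOk.p1 (ok : PvzqOk h x0 x1 y0 y1 ρ Q) (hy : y0 ≤ y1) (hx : x0 ≤ x1) (hd : VorDense Y (pvzqR x0 x1 y0 y1) ρ) {v : Y} (hv : v ∈ Q.S1) : (v : ℂ) ∈ pvzqR (x0 - ρ) (x0 + ρ) (y0 - ρ) (y1 + ρ) :=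
  pvzq_meet_near (hd.mono Subset.rfl (pvzq_R_mono le_rfl hx le_rfl le_rfl) le_rfl) (ok.s1 v hv)

theorem PvzqOk.p2 (ok : PvzqOk h x0 x1 y0 y1 ρ Q) (hy : y0 ≤ y1) (hx : x0 ≤ x1) (hd : VorDense Y (pvzqR x0 x1 y0 y1) ρ) {v : Y} (hv : v ∈ Q.S2) : (v : ℂ) ∈ pvzqR (x0 - ρ) (x1 + ρ) (y0 - ρ) (y0 + ρ) :=
  pvzq_meet_near (hd.mono Subset.rfl (pvzq_R_mono le_rfl le_rfl le_rfl hy) le_rfl) (ok.s2 v hv)

theorem PvzqOk.p3 (ok : PvzqOk h x0 x1 y0 y1 ρ Q) (hy : y0 ≤ y1) (hx : x0 ≤ x1) (hd : VorDense Y (pvzqR x0 x1 y0 y1) ρ) {v : Y} (hv : v ∈ Q.S3) : (v : ℂ) ∈ pvzqR (x1 - ρ) (x1 + ρ) (y0 - ρ) (y1 + ρ) :=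
  pvzq_meet_near (hd.mono Subset.rfl (pvzq_R_mono hx le_rfl le_rfl le_rfl) le_rfl) (ok.s3 v hv)

theorem PvzqOk.p4 (ok : PvzqOk h x0 x1 y0 y1 ρ Q) (hy : y0 ≤ y1) (hx : x0 ≤ x1) (hd : VorDense Y (pvzqR x0 x1 y0 y1) ρ) {v : Y} (hv : v ∈ Q.S4) : (v : ℂ) ∈ pvzqR (x0 - ρ) (x1 + ρ) (y1 - ρ) (y1 + ρ) :=
  pvzq_meet_near (hd.mono Subset.rfl (pvzq_R_mono le_rfl le_rfl hy le_rfl) le_rfl) (ok.s4 v hv)

/-- a vertex of the cycle in the open column is on the bottom side (low) or on the top side (high) -/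
theorem PvzqOk.col (ok : PvzqOk h x0 x1 y0 y1 ρ Q) (hy : y0 ≤ y1) (hx : x0 ≤ x1) (hd : VorDense Y (pvzqR x0 x1 y0 y1) ρ) {v : Y} (hv : v ∈ Q.c.verts)
    (h0 : x0 + ρ < (v : ℂ).re) (h1 : (v : ℂ).re < x1 - ρ) : (v ∈ Q.S2 ∧ (v : ℂ).im ≤ y0 + ρ) ∨ (v ∈ Q.S4 ∧ y1 - ρ ≤ (v : ℂ).im) := by
  rw [← pl_qd_sides Q] at hv
  rcases hv with ((hv | hv) | hv) | hv
  · have := (ok.p1 hy hx hd hv).2.1; linarith
  · exact Or.inl ⟨hv, (ok.p2 hy hx hd hv).2.2.2⟩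
  · have := (ok.p3 hy hx hd hv).1; linarith
  · exact Or.inr ⟨hv, (ok.p4 hy hx hd hv).2.2.1⟩

/-- a vertex of the cycle in the open strip is on the left side or on the right side -/
theorem PvzqOk.strip (ok : PvzqOk h x0 x1 y0 y1 ρ Q) (hy : y0 ≤ y1) (hx : x0 ≤ x1) (hd : VorDense Y (pvzqR x0 x1 y0 y1) ρ) {v : Y} (hv : v ∈ Q.c.verts)
    (h0 : y0 + ρ < (v : ℂ).im) (h1 : (v : ℂ).im < y1 - ρ) : (v ∈ Q.S1 ∧ (v : ℂ).re ≤ x0 + ρ) ∨ (v ∈ Q.S3 ∧ x1 - ρ ≤ (v : ℂ).re) := by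
  rw [← pl_qd_sides Q] at hv
  rcases hv with ((hv | hv) | hv) | hv
  · exact Or.inl ⟨hv, (ok.p1 hy hx hd hv).2.1⟩
  · have := (ok.p2 hy hx hd hv).2.2.2; linarith
  · exact Or.inr ⟨hv, (ok.p3 hy hx hd hv).1⟩
  · have := (ok.p4 hy hx hd hv).2.2.1; linarith

theorem PvzqOk.not_int (ok : PvzqOk h x0 x1 y0 y1 ρ Q) {v : Y} (hv : (v : ℂ) ∉ pvzqR (x0 - ρ) (x1 + ρ) (y0 - ρ) (y1 + ρ)) : v ∉ (delMap h).Int Q.c.Left :=
  fun hI => hv (ok.out v (pvzx_int_VOf (dls_isSph h) Q.c hI))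

theorem PvzqOk.VOf_finite (ok : PvzqOk h x0 x1 y0 y1 ρ Q) : ((delMap h).VOf Q.c.Left).Finite :=
  (ok.fin.image (delMap h).src).subset fun _ ⟨d, hd, e⟩ => ⟨d, hd, e⟩

/-- the closed discs of two rectangles more than `2 ρ` apart are disjoint -/
theorem pvzx_disj {x0' x1' y0' y1' : ℝ} {Q' : (delMap h).Quad} (ok : PvzqOk h x0 x1 y0 y1 ρ Q) (ok' : PvzqOk h x0' x1' y0' y1' ρ Q')
    (hsep : x1 + 2 * ρ < x0' ∨ x1' + 2 * ρ < x0 ∨ y1 + 2 * ρ < y0' ∨ y1' + 2 * ρ < y0) : Disjoint ((delMap h).VOf Q.c.Left) ((delMap h).VOf Q'.c.Left) := by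
  refine disjoint_left.2 fun v hv hv' => ?_
  obtain ⟨a1, a2, a3, a4⟩ := ok.out v hv
  obtain ⟨b1, b2, b3, b4⟩ := ok'.out v hv'
  rcases hsep with hs | hs | hs | hs <;> linarith

/-! ## 4. crossings -/

/-- **(X2)** a path in the open strip from the left of the rectangle to its right is a 1-3 crossing -/
theorem pvzx_cr13 {U : Set ℂ} (ok : PvzqOk h x0 x1 y0 y1 ρ Q) (hρ : 0 < ρ) (hx : 4 * ρ < x1 - x0) (hy : y0 ≤ y1) (hd : VorDense Y U ρ) (hR : pvzqR x0 x1 y0 y1 ⊆ U)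
    {X : Set Y} (hX : ∀ v ∈ X, y0 + ρ < (v : ℂ).im ∧ (v : ℂ).im < y1 - ρ ∧ closedBall (v : ℂ) (2 * ρ) ⊆ U)
    {a b : Y} (hab : (delMap h).Join univ X a b) (ha : (a : ℂ).re < x0 - ρ) (hb : x1 + ρ < (b : ℂ).re) : Q.Cr13 X := by
  have hd0 : VorDense Y (pvzqR x0 x1 y0 y1) ρ := hd.mono Subset.rfl hR le_rfl
  have hx' : x0 ≤ x1 := by linarith
  refine pvzx_cross (dls_isSph h) Q (fun v : Y => (v : ℂ).re) (α := x0 + ρ) (β := x1 - ρ) (by linarith) ?_ ?_ ?_ hab (by show (a : ℂ).re ≤ _; linarith) ?_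
    (by show _ ≤ (b : ℂ).re; linarith) ?_
  · intro v hv hvc
    exact ok.strip hy hx' hd0 hvc (hX v hv).1 (hX v hv).2.1
  · intro v hv h1 h2
    exact ok.deep v ⟨h1, h2, (hX v hv).1, (hX v hv).2.1⟩
  · intro u hu v hv hadj h1 h2
    have := (pvzx_short_re hρ hd (hX u hu).2.2 ((dls_adj_iff h u v).1 hadj)).1
    rw [abs_le] at this
    linarith [this.1]
  · exact ok.not_int fun hc => by linarith [hc.1]
  · exact ok.not_int fun hc => by linarith [hc.2.1]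

/-- **(X2)** a path in the open column from below the rectangle to above it is a 2-4 crossing -/
theorem pvzx_cr24 {U : Set ℂ} (ok : PvzqOk h x0 x1 y0 y1 ρ Q) (hρ : 0 < ρ) (hx : x0 ≤ x1) (hy : 4 * ρ < y1 - y0) (hd : VorDense Y U ρ) (hR : pvzqR x0 x1 y0 y1 ⊆ U)
    {X : Set Y} (hX : ∀ v ∈ X, x0 + ρ < (v : ℂ).re ∧ (v : ℂ).re < x1 - ρ ∧ closedBall (v : ℂ) (2 * ρ) ⊆ U)
    {a b : Y} (hab : (delMap h).Join univ X a b) (ha : (a : ℂ).im < y0 - ρ) (hb : y1 + ρ < (b : ℂ).im) : Q.Cr24 X := by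
  have hd0 : VorDense Y (pvzqR x0 x1 y0 y1) ρ := hd.mono Subset.rfl hR le_rfl
  have hy' : y0 ≤ y1 := by linarith
  refine (pl_qd_rot_cr13 Q X).1 (pvzx_cross (dls_isSph h) Q.rot (fun v : Y => (v : ℂ).im) (α := y0 + ρ) (β := y1 - ρ) (by linarith) ?_ ?_ ?_ hab (by show (a : ℂ).im ≤ _; linarith) ?_
    (by show _ ≤ (b : ℂ).im; linarith) ?_)
  · intro v hv hvc
    exact ok.col hy' hx hd0 hvc (hX v hv).1 (hX v hv).2.1
  · intro v hv h1 h2
    exact ok.deep v ⟨(hX v hv).1, (hX v hv).2.1, h1, h2⟩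
  · intro u hu v hv hadj h1 h2
    have := (pvzx_short_re hρ hd (hX u hu).2.2 ((dls_adj_iff h u v).1 hadj)).2
    rw [abs_le] at this
    linarith [this.1]
  · exact ok.not_int fun hc => by linarith [hc.2.2.1]
  · exact ok.not_int fun hc => by linarith [hc.2.2.2]

/-- **(X3)** a path which crosses a rectangle from left to right in the open strip and a path which crosses it from bottom to top in the open column share a site -/
theorem pvzx_meet {U : Set ℂ} (h : DelGood Y) (hρ : 0 < ρ) (hx : 4 * ρ < x1 - x0) (hy : 4 * ρ < y1 - y0) (hd : VorDense Y U ρ) (hR : vorNbd (pvzqR x0 x1 y0 y1) (3 * ρ) ⊆ U)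
    {X X' : Set Y} (hX : ∀ v ∈ X, y0 + ρ < (v : ℂ).im ∧ (v : ℂ).im < y1 - ρ ∧ closedBall (v : ℂ) (2 * ρ) ⊆ U)
    (hX' : ∀ v ∈ X', x0 + ρ < (v : ℂ).re ∧ (v : ℂ).re < x1 - ρ ∧ closedBall (v : ℂ) (2 * ρ) ⊆ U)
    {a b a' b' : Y} (hab : (delMap h).Join univ X a b) (ha : (a : ℂ).re < x0 - ρ) (hb : x1 + ρ < (b : ℂ).re)
    (hab' : (delMap h).Join univ X' a' b') (ha' : (a' : ℂ).im < y0 - ρ) (hb' : y1 + ρ < (b' : ℂ).im) : (X ∩ X').Nonempty := by
  obtain ⟨Q, ok⟩ := pvzq_exists h hρ hx hy (hd.mono Subset.rfl hR le_rfl)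
  have hR' : pvzqR x0 x1 y0 y1 ⊆ U := (vor_subset_nbd _ (by linarith)).trans hR
  exact pl_qd_excl (dls_isSph h) Q (pvzx_cr13 ok hρ hx (by linarith) hd hR' hX hab ha hb) (pvzx_cr24 ok hρ (by linarith) hy hd hR' hX' hab' ha' hb')

/-! ## 5. half links -/

/-- a vertex of a face off the disc is not interior -/
theorem pvzx_face_not_int (c : (delMap h).Cyc) {d : DelDart h} (hd : d ∉ c.Left) {v : Y} (hv : v = (delMap h).src d ∨ v = (delMap h).tgt d ∨ v = (delMap h).apex d) :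
    v ∉ (delMap h).Int c.Left := by
  intro hI
  have hF := pl_left_face c
  rcases hv with rfl | rfl | rfl
  · exact hd (hI d rfl)
  · exact hd ((hF d).1 (hI ((delMap h).nxt d) rfl))
  · exact hd ((hF d).1 ((hF _).1 (hI ((delMap h).nxt ((delMap h).nxt d)) rfl)))

/-- a face off the disc whose three vertices lie in the open column, above the bottom collar, belongs to `pvzxAo Q` -/
theorem pvzx_Ao_mem (ok : PvzqOk h x0 x1 y0 y1 ρ Q) (hy : y0 ≤ y1) (hx : x0 ≤ x1) (hd : VorDense Y (pvzqR x0 x1 y0 y1) ρ) {d : DelDart h} (hdL : d ∉ Q.c.Left)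
    (hp : ∀ v : Y, (v = (delMap h).src d ∨ v = (delMap h).tgt d ∨ v = (delMap h).apex d) → x0 + ρ < (v : ℂ).re ∧ (v : ℂ).re < x1 - ρ ∧ y0 + ρ < (v : ℂ).im) : d ∈ pvzxAo Q := by
  refine ⟨hdL, fun v hv hV => ?_⟩
  obtain ⟨p1, p2, p3⟩ := hp v hv
  rcases ok.col hy hx hd (pvzx_verts_of (dls_isSph h) Q.c hV (pvzx_face_not_int Q.c hdL hv)) p1 p2 with h' | h'
  · linarith [h'.2]
  · exact h'.1

/-- **(X4) HALF LINK**: a path in the column `x0 + 3ρ < x < x1 - 3ρ` from a site above the top collar to a site below the rectangle reaches the side 2 through `pvzxAo Q ∪ Q.c.Left` -/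
theorem pvzx_half {U : Set ℂ} (ok : PvzqOk h x0 x1 y0 y1 ρ Q) (hρ : 0 < ρ) (hx : x0 ≤ x1) (hy : 4 * ρ < y1 - y0) (hd : VorDense Y U ρ) (hR : pvzqR x0 x1 y0 y1 ⊆ U)
    {X : Set Y} (hX : ∀ v ∈ X, x0 + 3 * ρ < (v : ℂ).re ∧ (v : ℂ).re < x1 - 3 * ρ ∧ closedBall (v : ℂ) (2 * ρ) ⊆ U)
    {m b : Y} (hmb : (delMap h).Join univ X m b) (hm : y1 - ρ ≤ (m : ℂ).im) (hb : (b : ℂ).im < y0 - ρ) :
    ∃ z ∈ Q.S2, (delMap h).Join (pvzxAo Q ∪ Q.c.Left) X m z := by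
  have hd0 : VorDense Y (pvzqR x0 x1 y0 y1) ρ := hd.mono Subset.rfl hR le_rfl
  have hy' : y0 ≤ y1 := by linarith
  refine pvzx_descend (dls_isSph h) Q (fun v : Y => (v : ℂ).im) (α := y0 + ρ) (β := y1 - ρ) (by linarith) ?_ ?_ ?_ ?_ hmb hm (by show (b : ℂ).im ≤ _; linarith) ?_
  · intro v hv hvc
    exact ok.col hy' hx hd0 hvc (by linarith [(hX v hv).1]) (by linarith [(hX v hv).2.1])
  · intro v hv h1 h2
    exact ok.deep v ⟨by linarith [(hX v hv).1], by linarith [(hX v hv).2.1], h1, h2⟩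
  · intro u hu v hv hadj h1 h2
    have := (pvzx_short_re hρ hd (hX u hu).2.2 ((dls_adj_iff h u v).1 hadj)).2
    rw [abs_le] at this
    linarith [this.2]
  · intro d hs ht h1 h2
    by_cases hdL : d ∈ Q.c.Left
    · exact Or.inl hdL
    · refine Or.inr (pvzx_Ao_mem ok hy' hx hd0 hdL ?_)
      rintro v (rfl | rfl | rfl)
      · exact ⟨by linarith [(hX _ hs).1], by linarith [(hX _ hs).2.1], by linarith⟩
      · exact ⟨by linarith [(hX _ ht).1], by linarith [(hX _ ht).2.1], by linarith⟩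
      · have hadj : DelAdj Y ((delMap h).src d : Y) ((delMap h).apex d : Y) := by
          have := dls_dart_adj ((delMap h).nxt ((delMap h).nxt d))
          rw [(delMap h).src_nxt2, (delMap h).tgt_nxt2] at this
          exact this.symm
        obtain ⟨r1, r2⟩ := pvzx_short_re hρ hd (hX _ hs).2.2 hadj
        rw [abs_le] at r1 r2
        exact ⟨by linarith [(hX _ hs).1, r1.2], by linarith [(hX _ hs).2.1, r1.1], by linarith [r2.2]⟩
  · exact ok.not_int fun hc => by linarith [hc.2.2.1]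

end del

end Claimed.Agent.R289
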