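-- KEEP
import Claimed.Agent.R289.Tr.QuadX
import Claimed.Agent.R289.Tr.Adm

/-!
# Row 289 (S0537), box TR, file Tr/QuadY : VERTICAL CHAINS, SEA, HUB, REGIONS OVER `PvzqOk`      (helper267; prefix `pvzx_` (continued), def `pvzxF`; 0 sorry)

Sequel of `Tr/QuadX`, for the instance of ADMISSION (`Tr/AdmI` of 19; `Q.Hub`, `Q.Sea` of `Tr/Adm`, `Pl/Quad`).
* sec.1  `pvzx_vert_up`, `pvzx_vert_down` (the sites of the cells met by the vertical segment issued from a site `t` are not below / not above `t`, at horizontal distance `≤ ρ`);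
         **`pvzx_up`**, **`pvzx_down`**: a site `t` of the closed disc in the deep column `x0 + 2ρ < x < x1 - 2ρ` is joined INSIDE `Left` to `S4` (resp. `S2`) through sites not below (resp. not above) `t`.      (`pvzx_down` = DOWN-CHAIN in the deep column; near `S1`, `S3` it is false: 229.)
* sec.2  **`pvzx_sea`**: a path off `B` in the open column, below the top collar, from below the rectangle: each of its sites in the closed disc is joined to `S2` inside `Left` along the path set;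
         **(X5) `pvzx_hub`**: `X1` (off `B`, off `Vo`) = LR path in the strip `y0 + ρ < y < θ`, `X2` (off `B`) = path in the deep column from below up to the level `θ`
         ⟹ `∃ a₀ x, Q.Hub B Vo a₀ ∧ x ∈ X1 ∧ x ∈ X2 ∧ Join Left (Sea B \ Vo) a₀ x`.      (Take `X2` = a cluster `T.Clu univ _ c`: then `x` is joined to `c` in `X2`.)
* sec.3  `pvzx_apex_near`, `pvzxF h W` (faces with three vertices in `W`), **(X6) `pvzx_join_F`**.
-/

set_option autoImplicit false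
set_option linter.unusedVariables false

namespace Claimed.Agent.R289

open Set Metric Relation

/-! ## 1. vertical chains -/

/-- the sites of the cells met by the vertical segment issued upwards from a site `t` are not below `t` -/
theorem pvzx_vert_up {Y U : Set ℂ} {ρ : ℝ} (hd : VorDense Y U ρ) {t : ℂ} (ht : t ∈ Y) {y : ℝ} (hS : pvzqR t.re t.re t.im y ⊆ U) {w : ℂ}
    (hw : w ∈ vorMeet Y (pvzqR t.re t.re t.im y)) : t.im ≤ w.im ∧ |w.re - t.re| ≤ ρ := by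
  obtain ⟨-, p, hp, hpS⟩ := hw
  have h1 : ‖p - w‖ ≤ ‖p - t‖ := hp t ht
  have h2 : ‖p - w‖ ≤ ρ := vor_site_near hd hp (hS hpS)
  obtain ⟨a1, a2, a3, a4⟩ := hpS
  have e : p.re = t.re := le_antisymm a2 a1
  have h3 : ‖p - t‖ ≤ p.im - t.im := by
    refine (Complex.norm_le_abs_re_add_abs_im _).trans ?_
    rw [Complex.sub_re, Complex.sub_im, e, sub_self, abs_zero, zero_add, abs_of_nonneg (by linarith)]
  have h4 := (Complex.abs_im_le_norm (p - w))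
  have h5 := (Complex.abs_re_le_norm (p - w))
  rw [Complex.sub_im, abs_le] at h4
  rw [Complex.sub_re, e, abs_sub_comm] at h5
  exact ⟨by linarith [h4.2], h5.trans h2⟩

/-- the same downwards -/
theorem pvzx_vert_down {Y U : Set ℂ} {ρ : ℝ} (hd : VorDense Y U ρ) {t : ℂ} (ht : t ∈ Y) {y : ℝ} (hS : pvzqR t.re t.re y t.im ⊆ U) {w : ℂ}
    (hw : w ∈ vorMeet Y (pvzqR t.re t.re y t.im)) : w.im ≤ t.im ∧ |w.re - t.re| ≤ ρ := by
  obtain ⟨-, p, hp, hpS⟩ := hw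
  have h1 : ‖p - w‖ ≤ ‖p - t‖ := hp t ht
  have h2 : ‖p - w‖ ≤ ρ := vor_site_near hd hp (hS hpS)
  obtain ⟨a1, a2, a3, a4⟩ := hpS
  have e : p.re = t.re := le_antisymm a2 a1
  have h3 : ‖p - t‖ ≤ t.im - p.im := by
    refine (Complex.norm_le_abs_re_add_abs_im _).trans ?_
    rw [Complex.sub_re, Complex.sub_im, e, sub_self, abs_zero, zero_add, abs_of_nonpos (by linarith)]
    linarith
  have h4 := (Complex.abs_im_le_norm (p - w))
  have h5 := (Complex.abs_re_le_norm (p - w))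
  rw [Complex.sub_im, abs_le] at h4
  rw [Complex.sub_re, e, abs_sub_comm] at h5
  exact ⟨by linarith [h4.1], h5.trans h2⟩

section del

variable {Y : Set ℂ} {h : DelGood Y} {x0 x1 y0 y1 ρ : ℝ} {Q : (delMap h).Quad}

/-- **UP**: a site of the closed disc in the deep column, above the bottom collar, is joined to the side 4 inside the disc through sites which are not below it, at horizontal distance `≤ ρ` -/
theorem pvzx_up {U : Set ℂ} (ok : PvzqOk h x0 x1 y0 y1 ρ Q) (hρ : 0 < ρ) (hx : x0 ≤ x1) (hy : y0 ≤ y1) (hd : VorDense Y U ρ) (hR : pvzqR x0 x1 y0 (y1 + 3 * ρ) ⊆ U)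
    {t : Y} (ht : t ∈ (delMap h).VOf Q.c.Left) (h0 : x0 + 2 * ρ < (t : ℂ).re) (h1 : (t : ℂ).re < x1 - 2 * ρ) (h2 : y0 + ρ < (t : ℂ).im) :
    ∃ s ∈ Q.S4, (delMap h).Join Q.c.Left {w : Y | (t : ℂ).im ≤ (w : ℂ).im ∧ |(w : ℂ).re - (t : ℂ).re| ≤ ρ} s t := by
  have hT := dls_isSph h
  have hd0 : VorDense Y (pvzqR x0 x1 y0 y1) ρ := hd.mono Subset.rfl ((pvzq_R_mono le_rfl le_rfl le_rfl (by linarith)).trans hR) le_rfl
  have htop : (t : ℂ).im ≤ y1 + ρ := (ok.out t ht).2.2.2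
  have hS : pvzqR (t : ℂ).re (t : ℂ).re (t : ℂ).im (y1 + 3 * ρ) ⊆ U := (pvzq_R_mono (by linarith) (by linarith) (by linarith) le_rfl).trans hR
  obtain ⟨e, heY, hpe⟩ := vor_cover h.lf h.ne (⟨(t : ℂ).re, y1 + 3 * ρ⟩ : ℂ)
  have hpS : (⟨(t : ℂ).re, y1 + 3 * ρ⟩ : ℂ) ∈ pvzqR (t : ℂ).re (t : ℂ).re (t : ℂ).im (y1 + 3 * ρ) := ⟨le_rfl, le_rfl, by show (t : ℂ).im ≤ y1 + 3 * ρ; linarith, le_rfl⟩
  have he : (⟨e, heY⟩ : Y) ∈ {v : Y | (v : ℂ) ∈ vorMeet Y (pvzqR (t : ℂ).re (t : ℂ).re (t : ℂ).im (y1 + 3 * ρ))} := ⟨heY, _, hpe, hpS⟩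
  have ht' : t ∈ {v : Y | (v : ℂ) ∈ vorMeet Y (pvzqR (t : ℂ).re (t : ℂ).re (t : ℂ).im (y1 + 3 * ρ))} :=
    ⟨t.2, t, vor_self_mem Y t, le_rfl, le_rfl, le_rfl, by linarith⟩
  have hj := pvzq_conn h (pvzq_R_convex (t : ℂ).re (t : ℂ).re (t : ℂ).im (y1 + 3 * ρ)) _ he _ ht'
  have heI : (⟨e, heY⟩ : Y) ∉ (delMap h).Int Q.c.Left := by
    refine ok.not_int fun hc => ?_
    have h3 := (Complex.abs_im_le_norm _).trans (vor_site_near hd hpe (hS hpS))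
    rw [Complex.sub_im, abs_le] at h3
    have h4 : e.im ≤ y1 + ρ := hc.2.2.2
    have h5 : (y1 + 3 * ρ) - e.im ≤ ρ := h3.2
    linarith
  obtain ⟨s, hs, hst⟩ := pvzx_enter hT Q.c (S := Q.S4) (fun v hv hvc => by
    obtain ⟨q1, q2⟩ := pvzx_vert_up hd t.2 hS hv
    rw [abs_le] at q2
    rcases ok.col hy hx hd0 hvc (by linarith [q2.1]) (by linarith [q2.2]) with h' | h'
    · linarith [h'.2]
    · exact h'.1) hj heI ht
  refine ⟨s, hs, pl_hx_join_mono Subset.rfl ?_ hst⟩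
  intro v hv
  exact pvzx_vert_up hd t.2 hS hv

/-- **DOWN** (the DOWN-CHAIN, in the deep column only) -/
theorem pvzx_down {U : Set ℂ} (ok : PvzqOk h x0 x1 y0 y1 ρ Q) (hρ : 0 < ρ) (hx : x0 ≤ x1) (hy : y0 ≤ y1) (hd : VorDense Y U ρ) (hR : pvzqR x0 x1 (y0 - 3 * ρ) y1 ⊆ U)
    {t : Y} (ht : t ∈ (delMap h).VOf Q.c.Left) (h0 : x0 + 2 * ρ < (t : ℂ).re) (h1 : (t : ℂ).re < x1 - 2 * ρ) (h2 : (t : ℂ).im < y1 - ρ) :
    ∃ s ∈ Q.S2, (delMap h).Join Q.c.Left {w : Y | (w : ℂ).im ≤ (t : ℂ).im ∧ |(w : ℂ).re - (t : ℂ).re| ≤ ρ} s t := by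
  have hT := dls_isSph h
  have hd0 : VorDense Y (pvzqR x0 x1 y0 y1) ρ := hd.mono Subset.rfl ((pvzq_R_mono le_rfl le_rfl (by linarith) le_rfl).trans hR) le_rfl
  have hbot : y0 - ρ ≤ (t : ℂ).im := (ok.out t ht).2.2.1
  have hS : pvzqR (t : ℂ).re (t : ℂ).re (y0 - 3 * ρ) (t : ℂ).im ⊆ U := (pvzq_R_mono (by linarith) (by linarith) le_rfl (by linarith)).trans hR
  obtain ⟨e, heY, hpe⟩ := vor_cover h.lf h.ne (⟨(t : ℂ).re, y0 - 3 * ρ⟩ : ℂ)
  have hpS : (⟨(t : ℂ).re, y0 - 3 * ρ⟩ : ℂ) ∈ pvzqR (t : ℂ).re (t : ℂ).re (y0 - 3 * ρ) (t : ℂ).im := ⟨le_rfl, le_rfl, le_rfl, by show y0 - 3 * ρ ≤ (t : ℂ).im; linarith⟩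
  have he : (⟨e, heY⟩ : Y) ∈ {v : Y | (v : ℂ) ∈ vorMeet Y (pvzqR (t : ℂ).re (t : ℂ).re (y0 - 3 * ρ) (t : ℂ).im)} := ⟨heY, _, hpe, hpS⟩
  have ht' : t ∈ {v : Y | (v : ℂ) ∈ vorMeet Y (pvzqR (t : ℂ).re (t : ℂ).re (y0 - 3 * ρ) (t : ℂ).im)} :=
    ⟨t.2, t, vor_self_mem Y t, le_rfl, le_rfl, by linarith, le_rfl⟩
  have hj := pvzq_conn h (pvzq_R_convex (t : ℂ).re (t : ℂ).re (y0 - 3 * ρ) (t : ℂ).im) _ he _ ht'
  have heI : (⟨e, heY⟩ : Y) ∉ (delMap h).Int Q.c.Left := by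
    refine ok.not_int fun hc => ?_
    have h3 := (Complex.abs_im_le_norm _).trans (vor_site_near hd hpe (hS hpS))
    rw [Complex.sub_im, abs_le] at h3
    have h4 : y0 - ρ ≤ e.im := hc.2.2.1
    have h5 : -ρ ≤ (y0 - 3 * ρ) - e.im := h3.1
    linarith
  obtain ⟨s, hs, hst⟩ := pvzx_enter hT Q.c (S := Q.S2) (fun v hv hvc => by
    obtain ⟨q1, q2⟩ := pvzx_vert_down hd t.2 hS hv
    rw [abs_le] at q2
    rcases ok.col hy hx hd0 hvc (by linarith [q2.1]) (by linarith [q2.2]) with h' | h'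
    · exact h'.1
    · linarith [h'.2]) hj heI ht
  refine ⟨s, hs, pl_hx_join_mono Subset.rfl ?_ hst⟩
  intro v hv
  exact pvzx_vert_down hd t.2 hS hv

/-! ## 2. sea, hub -/

/-- **SEA**: a path off `B` in the open column, below the top collar, which comes from below the rectangle: its sites in the closed disc belong to the sea -/
theorem pvzx_sea (ok : PvzqOk h x0 x1 y0 y1 ρ Q) (hx : x0 ≤ x1) (hy : y0 ≤ y1) (hd : VorDense Y (pvzqR x0 x1 y0 y1) ρ) {B X : Set Y} (hXB : X ⊆ Bᶜ)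
    (hX : ∀ v ∈ X, x0 + ρ < (v : ℂ).re ∧ (v : ℂ).re < x1 - ρ ∧ (v : ℂ).im < y1 - ρ) {c x : Y} (hcx : (delMap h).Join univ X c x) (hc : (c : ℂ).im < y0 - ρ)
    (hxV : x ∈ (delMap h).VOf Q.c.Left) : ∃ s ∈ Q.S2, (delMap h).Join Q.c.Left X s x :=
  pvzx_enter (dls_isSph h) Q.c (S := Q.S2) (fun v hv hvc => by
    rcases ok.col hy hx hd hvc (hX v hv).1 (hX v hv).2.1 with h' | h'
    · exact h'.1
    · linarith [h'.2, (hX v hv).2.2]) hcx (ok.not_int fun hc' => by linarith [hc'.2.2.1]) hxV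

/-- **(X5) HUB**: `X1` off `B` and off `Vo`, a path from the left to the right of the rectangle in the strip `y0 + ρ < y < θ`;   `X2` off `B`, a path in the deep column from below the rectangle up to the level `θ` -/
theorem pvzx_hub {U : Set ℂ} (ok : PvzqOk h x0 x1 y0 y1 ρ Q) (hρ : 0 < ρ) (hx : 4 * ρ < x1 - x0) (hy : y0 ≤ y1) (hd : VorDense Y U ρ) (hR : pvzqR x0 x1 y0 (y1 + 3 * ρ) ⊆ U)
    {B Vo X1 X2 : Set Y} {θ : ℝ} (hθ : θ ≤ y1 - ρ) (h1B : X1 ⊆ Bᶜ) (h1V : Disjoint X1 Vo)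
    (h1 : ∀ v ∈ X1, y0 + ρ < (v : ℂ).im ∧ (v : ℂ).im < θ ∧ closedBall (v : ℂ) (2 * ρ) ⊆ U)
    {a b : Y} (hab : (delMap h).Join univ X1 a b) (ha : (a : ℂ).re < x0 - ρ) (hb : x1 + ρ < (b : ℂ).re)
    (h2B : X2 ⊆ Bᶜ) (h2 : ∀ v ∈ X2, x0 + 2 * ρ < (v : ℂ).re ∧ (v : ℂ).re < x1 - 2 * ρ ∧ (v : ℂ).im < y1 - ρ)
    {c t : Y} (hct : (delMap h).Join univ X2 c t) (hc : (c : ℂ).im < y0 - ρ) (ht : θ ≤ (t : ℂ).im) :
    ∃ a₀ x, Q.Hub B Vo a₀ ∧ x ∈ X1 ∧ x ∈ X2 ∧ (delMap h).Join Q.c.Left (Q.Sea B \ Vo) a₀ x := by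
  have hT := dls_isSph h
  have hx' : x0 ≤ x1 := by linarith
  have hR0 : pvzqR x0 x1 y0 y1 ⊆ U := (pvzq_R_mono le_rfl le_rfl le_rfl (by linarith)).trans hR
  have hd0 : VorDense Y (pvzqR x0 x1 y0 y1) ρ := hd.mono Subset.rfl hR0 le_rfl
  have hθ0 : y0 + ρ < θ := (h1 a hab.1).1.trans (h1 a hab.1).2.1
  have htX : t ∈ X2 := pl_hx_join_mem hct
  have htV : t ∈ (delMap h).VOf Q.c.Left :=
    pvzx_int_VOf hT Q.c (ok.deep t ⟨by linarith [(h2 t htX).1], by linarith [(h2 t htX).2.1], by linarith, (h2 t htX).2.2⟩)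
  obtain ⟨a1, ha1, a3, ha3, hJ⟩ := pvzx_cr13 ok hρ hx hy hd hR0 (fun v hv => ⟨(h1 v hv).1, by linarith [(h1 v hv).2.1], (h1 v hv).2.2⟩) hab ha hb
  obtain ⟨s, hs, hst⟩ := pvzx_sea ok hx' hy hd0 h2B (fun v hv => ⟨by linarith [(h2 v hv).1], by linarith [(h2 v hv).2.1], (h2 v hv).2.2⟩) hct hc htV
  obtain ⟨s4, hs4, hs4t⟩ := pvzx_up ok hρ hx' hy hd hR htV (h2 t htX).1 (h2 t htX).2.1 (by linarith)
  have hcr24 : Q.Cr24 ((delMap h).Clu Q.c.Left X2 s ∪ {w : Y | (t : ℂ).im ≤ (w : ℂ).im ∧ |(w : ℂ).re - (t : ℂ).re| ≤ ρ}) :=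
    ⟨s, hs, s4, hs4, pl_hx_join_trans (pl_hx_join_mono Subset.rfl subset_union_left (pl_qd_join_clu hst)) (pl_hx_join_mono Subset.rfl subset_union_right (pl_hx_join_symm hs4t))⟩
  obtain ⟨x, hx1, hx2⟩ := pl_qd_excl hT Q ⟨a1, ha1, a3, ha3, pl_qd_join_clu hJ⟩ hcr24
  have hxX1 : x ∈ X1 := pl_qd_clu_sub _ _ _ hx1
  have hx2' : (delMap h).Join Q.c.Left X2 s x := by
    rcases hx2 with hx2 | hx2
    · exact hx2
    · exfalso
      have := hx2.1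
      linarith [(h1 x hxX1).2.1]
  have hsub : (delMap h).Clu Q.c.Left X1 a1 ⊆ Q.Sea B \ Vo := by
    intro w hw
    refine ⟨⟨s, hs, ?_⟩, fun hV => disjoint_left.1 h1V (pl_qd_clu_sub _ _ _ hw) hV⟩
    exact pl_hx_join_trans (pl_hx_join_mono Subset.rfl h2B hx2') (pl_hx_join_mono Subset.rfl h1B (pl_hx_join_trans (pl_hx_join_symm hx1) hw))
  exact ⟨a1, x, ⟨ha1, a3, ha3, pl_hx_join_mono Subset.rfl hsub (pl_qd_join_clu hJ)⟩, hxX1, pl_hx_join_mem hx2', pl_hx_join_mono Subset.rfl hsub (pl_qd_join_clu hx1)⟩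

/-! ## 3. regions -/

/-- the apex of a dart is near its source -/
theorem pvzx_apex_near {U : Set ℂ} (hρ : 0 < ρ) (hd : VorDense Y U ρ) (d : DelDart h) (hs : closedBall (((delMap h).src d : Y) : ℂ) (2 * ρ) ⊆ U) :
    ‖(((delMap h).src d : Y) : ℂ) - ((delMap h).apex d : Y)‖ ≤ 2 * ρ ∧ ‖(((delMap h).src d : Y) : ℂ) - ((delMap h).tgt d : Y)‖ ≤ 2 * ρ := by
  have hadj : DelAdj Y ((delMap h).src d : Y) ((delMap h).apex d : Y) := by
    have := dls_dart_adj ((delMap h).nxt ((delMap h).nxt d))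
    rw [(delMap h).src_nxt2, (delMap h).tgt_nxt2] at this
    exact this.symm
  exact ⟨pvzx_short hρ hd hs hadj, pvzx_short hρ hd hs (dls_dart_adj d)⟩

/-- the faces whose three vertices lie in `W` -/
def pvzxF (h : DelGood Y) (W : Set ℂ) : Set (DelDart h) := {d | (((delMap h).src d : Y) : ℂ) ∈ W ∧ (((delMap h).tgt d : Y) : ℂ) ∈ W ∧ (((delMap h).apex d : Y) : ℂ) ∈ W}

theorem pvzx_eqns_cite2 : True := by
  have := @pvzxF.eq_1
  trivial

/-- **(X6)** a path through sites of the `2ρ`-core of `W` runs along faces whose three vertices lie in `W` -/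
theorem pvzx_join_F {U W : Set ℂ} (hρ : 0 < ρ) (hd : VorDense Y U ρ) {X : Set Y} (hX : ∀ v ∈ X, closedBall (v : ℂ) (2 * ρ) ⊆ U ∧ closedBall (v : ℂ) (2 * ρ) ⊆ W)
    {a b : Y} (hab : (delMap h).Join univ X a b) : (delMap h).Join (pvzxF h W) X a b := by
  obtain ⟨haX, hch⟩ := hab
  induction hch with
  | refl => exact pl_hx_join_refl haX
  | @tail u w _ hstep ih =>
    obtain ⟨⟨d, -, hs, ht⟩, hwX⟩ := hstep
    have huX : u ∈ X := pl_hx_join_mem ih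
    subst hs
    obtain ⟨n1, n2⟩ := pvzx_apex_near hρ hd d (hX _ huX).1
    refine pl_hx_join_tail ih ⟨d, Or.inl ⟨?_, ?_, ?_⟩, rfl, ht⟩ hwX
    · exact (hX _ huX).2 (mem_closedBall_self (by linarith))
    · exact (hX _ huX).2 (by rw [mem_closedBall, dist_eq_norm, norm_sub_rev]; exact n2)
    · exact (hX _ huX).2 (by rw [mem_closedBall, dist_eq_norm, norm_sub_rev]; exact n1)

end del

end Claimed.Agent.R289
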