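-- KEEP
import Claimed.Agent.R289.Tr.QuadY
import Claimed.Agent.R289.Del.RectQuad
import Claimed.Agent.R289.Tr.Adm

/-!
# Row 289 (S0537), THE WALL, ADMISSION, ROPE A, BLOCK B (INSTANCE), file Tr/QuadD : FROM QUADS OF THE DELAUNAY MAP TO THE DATA OF `Tr/Adm`      (helper229; prefix `pvzd_`, `Pvzd`, `pvzd`; 0 sorry)

Complements `Tr/QuadI QuadX QuadY QuadZ` of 267 (record `PvzqOk`).      Consumers: `Tr/AdmI` (19), record `PvkoNet` of 262 (`Tr/AdmP`).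
**`Vo` := THE SITES OF A LOW REGION `Lo` OFF ALL THE CLOSED DISCS**: the field `down` of `PvamIn` is VACUOUS (as a statement on all low sites of a disc it is FALSE for a quad which only satisfies `PvzqOk`: the side 1 may be S-shaped).
Then `PvamHalf.hK` says `K ∩ Vo = ∅`: the class of a half link must avoid the sites BELOW the disc, so the join of `H.Ev` has to be found inside `{above the bottom collar} ∪ {closed disc}`: `pvzd_half`.

* sec.1  `PvzdQ h Q x0 x1 y0 y1 κ` (positions only: `fin out deep s1 s2 s3 s4`), `PvzqOk.pvzd_Q`, `pvzd_exists`, `.pS .pN .pW .pE` (side of a cycle vertex from its position).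
* sec.2  `pvzd_cr13`, `pvzd_cr24` (chord form: the two ends are given; edges of length `≤ lam` as a hypothesis on the set).
* sec.3  rooms: `pvzdD h G` (darts with both ends in `G`), `pvzdAo h Q G` (the same, off the disc), `pvzdK h Q G Gd` (class: sites of `G`, sites of the closed disc in the foot `Gd`), `PvzdRoom x0 x1 y0 y1 κ lam G Gd`;
         `pvzd_join_room`, `pvzd_chain_*`, **`pvzd_hAo`** (field `hAo`), **`pvzd_half`** (a chain from ANY base vertex of the room, down the column, to a site below the disc contains a join `m → S2` in `(pvzdAo ∪ Left, Z ∩ pvzdK)`).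
* sec.4  **`PvzdFam h ι`** (quads, disjoint closed discs, low region), **`PvzdFam.In : PvamIn (delMap h) ι`**, `mem_VQ mem_Vo mem_Free Vo_off mem_Wx`;
         **`PvzdFam.half`** `: PvamHalf F.In`, **`PvzdFam.tail`** `: PvamEnd F.In` (fields `hC hAo hK` PROVED), **`half_ev`**, **`tail_ev`** (the events `Ev c ω m` from chains of colour `c`);
         explored white: `lane_wx` (low lane), `col_wx` (column), **`stem`** (white strip + white column ⟹ a hub joined through `Wx` in the room `G` to every site of the cluster of the column).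
-/

set_option autoImplicit false
set_option linter.unusedSectionVars false
set_option linter.unusedVariables false

namespace Claimed.Agent.R289

open Set Metric Relation

variable {Y : Set ℂ}

/-! ## 1. the record -/

/-- **what the dictionary reads of a quad** which follows the rectangle `[x0,x1] × [y0,y1]` at the precision `κ`      (`S1` left, `S2` bottom, `S3` right, `S4` top) -/
structure PvzdQ (h : DelGood Y) (Q : (delMap h).Quad) (x0 x1 y0 y1 κ : ℝ) : Prop where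
  fin : Q.c.Left.Finite
  out : ∀ v ∈ (delMap h).VOf Q.c.Left, x0 - κ ≤ (v : ℂ).re ∧ (v : ℂ).re ≤ x1 + κ ∧ y0 - κ ≤ (v : ℂ).im ∧ (v : ℂ).im ≤ y1 + κ
  deep : ∀ v : Y, x0 + κ < (v : ℂ).re → (v : ℂ).re < x1 - κ → y0 + κ < (v : ℂ).im → (v : ℂ).im < y1 - κ → v ∈ (delMap h).Int Q.c.Left
  s1 : ∀ v ∈ Q.S1, (v : ℂ).re ≤ x0 + κ
  s2 : ∀ v ∈ Q.S2, (v : ℂ).im ≤ y0 + κ
  s3 : ∀ v ∈ Q.S3, x1 - κ ≤ (v : ℂ).re
  s4 : ∀ v ∈ Q.S4, y1 - κ ≤ (v : ℂ).im

/-- the record of 267 gives the record of the dictionary -/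
theorem PvzqOk.pvzd_Q {h : DelGood Y} {x0 x1 y0 y1 ρ : ℝ} {Q : (delMap h).Quad} (H : PvzqOk h x0 x1 y0 y1 ρ Q) (hx : x0 ≤ x1) (hy : y0 ≤ y1)
    (hd : VorDense Y (pvzqR x0 x1 y0 y1) ρ) : PvzdQ h Q x0 x1 y0 y1 ρ where
  fin := H.fin
  out := fun v hv => H.out v hv
  deep := fun v h1 h2 h3 h4 => H.deep v ⟨h1, h2, h3, h4⟩
  s1 := fun v hv => (pvzq_meet_near (hd.mono Subset.rfl (pvzq_R_mono le_rfl hx le_rfl le_rfl) le_rfl) (H.s1 v hv)).2.1
  s2 := fun v hv => (pvzq_meet_near (hd.mono Subset.rfl (pvzq_R_mono le_rfl le_rfl le_rfl hy) le_rfl) (H.s2 v hv)).2.2.2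
  s3 := fun v hv => (pvzq_meet_near (hd.mono Subset.rfl (pvzq_R_mono hx le_rfl le_rfl le_rfl) le_rfl) (H.s3 v hv)).1
  s4 := fun v hv => (pvzq_meet_near (hd.mono Subset.rfl (pvzq_R_mono le_rfl le_rfl hy le_rfl) le_rfl) (H.s4 v hv)).2.2.1

/-- **EXISTENCE** -/
theorem pvzd_exists (h : DelGood Y) {x0 x1 y0 y1 ρ : ℝ} (hρ : 0 < ρ) (hx : 4 * ρ < x1 - x0) (hy : 4 * ρ < y1 - y0) (hd : VorDense Y (vorNbd (pvzqR x0 x1 y0 y1) (3 * ρ)) ρ) :
    ∃ Q : (delMap h).Quad, PvzdQ h Q x0 x1 y0 y1 ρ := by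
  obtain ⟨Q, hQ⟩ := pvzq_exists h hρ hx hy hd
  exact ⟨Q, hQ.pvzd_Q (by linarith) (by linarith) (hd.mono Subset.rfl (vor_subset_nbd _ (by linarith)) le_rfl)⟩

namespace PvzdQ

variable {h : DelGood Y} {Q : (delMap h).Quad} {x0 x1 y0 y1 κ : ℝ}

theorem side (H : PvzdQ h Q x0 x1 y0 y1 κ) {v : Y} (hv : v ∈ Q.c.verts) : v ∈ Q.S1 ∨ v ∈ Q.S2 ∨ v ∈ Q.S3 ∨ v ∈ Q.S4 := by
  rw [← pl_qd_sides Q] at hv
  rcases hv with ((hv | hv) | hv) | hv
  · exact Or.inl hv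
  · exact Or.inr (Or.inl hv)
  · exact Or.inr (Or.inr (Or.inl hv))
  · exact Or.inr (Or.inr (Or.inr hv))

theorem pS (H : PvzdQ h Q x0 x1 y0 y1 κ) {v : Y} (hv : v ∈ Q.c.verts) (h1 : x0 + κ < (v : ℂ).re) (h2 : (v : ℂ).re < x1 - κ) (h3 : (v : ℂ).im < y1 - κ) : v ∈ Q.S2 := by
  rcases H.side hv with k | k | k | k
  · exact absurd (H.s1 v k) (by linarith)
  · exact k
  · exact absurd (H.s3 v k) (by linarith)
  · exact absurd (H.s4 v k) (by linarith)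

theorem pN (H : PvzdQ h Q x0 x1 y0 y1 κ) {v : Y} (hv : v ∈ Q.c.verts) (h1 : x0 + κ < (v : ℂ).re) (h2 : (v : ℂ).re < x1 - κ) (h3 : y0 + κ < (v : ℂ).im) : v ∈ Q.S4 := by
  rcases H.side hv with k | k | k | k
  · exact absurd (H.s1 v k) (by linarith)
  · exact absurd (H.s2 v k) (by linarith)
  · exact absurd (H.s3 v k) (by linarith)
  · exact k

theorem pW (H : PvzdQ h Q x0 x1 y0 y1 κ) {v : Y} (hv : v ∈ Q.c.verts) (h1 : y0 + κ < (v : ℂ).im) (h2 : (v : ℂ).im < y1 - κ) (h3 : (v : ℂ).re < x1 - κ) : v ∈ Q.S1 := by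
  rcases H.side hv with k | k | k | k
  · exact k
  · exact absurd (H.s2 v k) (by linarith)
  · exact absurd (H.s3 v k) (by linarith)
  · exact absurd (H.s4 v k) (by linarith)

theorem pE (H : PvzdQ h Q x0 x1 y0 y1 κ) {v : Y} (hv : v ∈ Q.c.verts) (h1 : y0 + κ < (v : ℂ).im) (h2 : (v : ℂ).im < y1 - κ) (h3 : x0 + κ < (v : ℂ).re) : v ∈ Q.S3 := by
  rcases H.side hv with k | k | k | k
  · exact absurd (H.s1 v k) (by linarith)
  · exact absurd (H.s2 v k) (by linarith)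
  · exact k
  · exact absurd (H.s4 v k) (by linarith)

theorem int_sub (H : PvzdQ h Q x0 x1 y0 y1 κ) : (delMap h).Int Q.c.Left ⊆ (delMap h).VOf Q.c.Left := by
  rw [pl_VOf_left (dls_isSph h) Q.c]
  exact subset_union_right

theorem verts_or (H : PvzdQ h Q x0 x1 y0 y1 κ) {v : Y} (hv : v ∈ (delMap h).VOf Q.c.Left) : v ∈ Q.c.verts ∨ v ∈ (delMap h).Int Q.c.Left := by
  rw [pl_VOf_left (dls_isSph h) Q.c] at hv
  exact hv

end PvzdQ

/-- short edges -/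
theorem pvzd_short (h : DelGood Y) {S : Set ℂ} {ρ : ℝ} (hρ : 0 < ρ) (hd : VorDense Y S ρ) {u v : Y} (huv : (delMap h).Adj u v) (hu : closedBall (u : ℂ) (2 * ρ) ⊆ S) :
    ‖(u : ℂ) - v‖ ≤ 2 * ρ := dlrq_edge_le hρ hd ((dls_adj_iff h u v).1 huv) hu

theorem pvzd_re_sub (z w : ℂ) : |z.re - w.re| ≤ ‖z - w‖ := by
  have := Complex.abs_re_le_norm (z - w)
  rwa [Complex.sub_re] at this

theorem pvzd_im_sub (z w : ℂ) : |z.im - w.im| ≤ ‖z - w‖ := by
  have := Complex.abs_im_le_norm (z - w)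
  rwa [Complex.sub_im] at this

/-! ## 2. crossings -/

section cross

variable {h : DelGood Y} {Q : (delMap h).Quad} {x0 x1 y0 y1 κ lam : ℝ}

/-- **LEFT-RIGHT**: a `Z`-path of sites inside the band `y0 + κ < im < y1 - κ` from the left of the disc to its right contains a `Z`-chord `S1 → S3` -/
theorem pvzd_cr13 (H : PvzdQ h Q x0 x1 y0 y1 κ) (hκ : 0 ≤ κ) (hl : 0 ≤ lam) (hx : x0 + 2 * κ + lam < x1) {Z : Set Y}
    (hZ : ∀ v ∈ Z, y0 + κ < (v : ℂ).im ∧ (v : ℂ).im < y1 - κ) (hE : ∀ u ∈ Z, ∀ v ∈ Z, (delMap h).Adj u v → ‖(u : ℂ) - v‖ ≤ lam)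
    {p q : Y} (hp : p ∈ Z) (hpx : (p : ℂ).re < x0 - κ) (hqx : x1 + κ < (q : ℂ).re) (hpq : ReflTransGen (fun u v => (delMap h).Adj u v ∧ v ∈ Z) p q) :
    ∃ a ∈ Q.S1, ∃ a' ∈ Q.S3, (delMap h).Join Q.c.Left Z a a' := by
  have hT := dls_isSph h
  refine dlrq_cross hT Q.c (Z := Z) (A := Q.S1) (B := Q.S3) (Wz := fun v => (v : ℂ).re ≤ x0 + κ) (Ez := fun v => x1 - κ ≤ (v : ℂ).re) (pl_qd_S1_verts Q)
    (fun v hv hvI => ?_) (fun u v hu hv huv hux hvx => ?_) (fun v hv hvc hvx => ?_) (fun v hv hvc hvx => ?_) hp (fun hc => ?_) ?_ (fun hc => ?_) ?_ hpq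
  · by_contra hc
    push Not at hc
    exact hvI (H.deep v hc.1 hc.2 (hZ v hv).1 (hZ v hv).2)
  · have h3 := (abs_le.1 ((pvzd_re_sub (u : ℂ) v).trans (hE u hu v hv huv))).1
    have h4 : (u : ℂ).re ≤ x0 + κ := hux
    have h5 : x1 - κ ≤ (v : ℂ).re := hvx
    linarith
  · have h4 : (v : ℂ).re ≤ x0 + κ := hvx
    exact H.pW hvc (hZ v hv).1 (hZ v hv).2 (by linarith)
  · have h4 : x1 - κ ≤ (v : ℂ).re := hvx
    exact H.pE hvc (hZ v hv).1 (hZ v hv).2 (by linarith)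
  · have := (H.out p (H.int_sub hc)).1
    linarith
  · show (p : ℂ).re ≤ x0 + κ
    linarith
  · have := (H.out q hc).2.1
    linarith
  · show ¬ (q : ℂ).re ≤ x0 + κ
    linarith

/-- **BOTTOM-TOP**: a `Z`-path of sites inside the column `x0 + κ < re < x1 - κ` from below the disc to above it contains a `Z`-chord `S2 → S4` -/
theorem pvzd_cr24 (H : PvzdQ h Q x0 x1 y0 y1 κ) (hκ : 0 ≤ κ) (hl : 0 ≤ lam) (hy : y0 + 2 * κ + lam < y1) {Z : Set Y}
    (hZ : ∀ v ∈ Z, x0 + κ < (v : ℂ).re ∧ (v : ℂ).re < x1 - κ) (hE : ∀ u ∈ Z, ∀ v ∈ Z, (delMap h).Adj u v → ‖(u : ℂ) - v‖ ≤ lam)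
    {p q : Y} (hp : p ∈ Z) (hpy : (p : ℂ).im < y0 - κ) (hqy : y1 + κ < (q : ℂ).im) (hpq : ReflTransGen (fun u v => (delMap h).Adj u v ∧ v ∈ Z) p q) :
    ∃ a ∈ Q.S2, ∃ a' ∈ Q.S4, (delMap h).Join Q.c.Left Z a a' := by
  have hT := dls_isSph h
  refine dlrq_cross hT Q.c (Z := Z) (A := Q.S2) (B := Q.S4) (Wz := fun v => (v : ℂ).im ≤ y0 + κ) (Ez := fun v => y1 - κ ≤ (v : ℂ).im) (pl_qd_S2_verts Q)
    (fun v hv hvI => ?_) (fun u v hu hv huv hux hvx => ?_) (fun v hv hvc hvx => ?_) (fun v hv hvc hvx => ?_) hp (fun hc => ?_) ?_ (fun hc => ?_) ?_ hpq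
  · by_contra hc
    push Not at hc
    exact hvI (H.deep v (hZ v hv).1 (hZ v hv).2 hc.1 hc.2)
  · have h3 := (abs_le.1 ((pvzd_im_sub (u : ℂ) v).trans (hE u hu v hv huv))).1
    have h4 : (u : ℂ).im ≤ y0 + κ := hux
    have h5 : y1 - κ ≤ (v : ℂ).im := hvx
    linarith
  · have h4 : (v : ℂ).im ≤ y0 + κ := hvx
    exact H.pS hvc (hZ v hv).1 (hZ v hv).2 (by linarith)
  · have h4 : y1 - κ ≤ (v : ℂ).im := hvx
    exact H.pN hvc (hZ v hv).1 (hZ v hv).2 (by linarith)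
  · have := (H.out p (H.int_sub hc)).2.2.1
    linarith
  · show (p : ℂ).im ≤ y0 + κ
    linarith
  · have := (H.out q hc).2.2.2
    linarith
  · show ¬ (q : ℂ).im ≤ y0 + κ
    linarith

end cross

/-! ## 3. chains and rooms -/

section room

variable (h : DelGood Y)

/-- the darts with both ends in the room `G` -/
def pvzdD (G : Set ℂ) : Set (DelDart h) := {d | (((delMap h).src d : Y) : ℂ) ∈ G ∧ (((delMap h).tgt d : Y) : ℂ) ∈ G}

/-- the darts OFF the disc of `Q` with both ends in the room `G` -/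
def pvzdAo (Q : (delMap h).Quad) (G : Set ℂ) : Set (DelDart h) := {d | d ∉ Q.c.Left ∧ d ∈ pvzdD h G}

/-- the class of a half link: the sites of the room `G` (outside region + column, above the bottom band) and the sites of the closed disc in the foot `Gd` of the column -/
def pvzdK (Q : (delMap h).Quad) (G Gd : Set ℂ) : Set Y := {v | (v : ℂ) ∈ G ∨ ((v : ℂ) ∈ Gd ∧ v ∈ (delMap h).VOf Q.c.Left)}

/-- **ROOM OF A HALF LINK** of the quad on `[x0,x1] × [y0,y1]`: `G` lies above the bottom band and meets the enlarged rectangle only in the column;  `Gd` = foot of the column (margin `lam` = length of an edge) -/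
structure PvzdRoom (x0 x1 y0 y1 κ lam : ℝ) (G Gd : Set ℂ) : Prop where
  g1 : ∀ z ∈ G, y0 + κ < z.im
  g2 : ∀ z ∈ G, x0 - κ ≤ z.re → z.re ≤ x1 + κ → z.im ≤ y1 + κ → x0 + κ < z.re ∧ z.re < x1 - κ
  d1 : ∀ z ∈ Gd, x0 + κ + lam < z.re ∧ z.re < x1 - κ - lam ∧ z.im ≤ y0 + κ

theorem pvzd_eqns_cite : True := by
  have := @pvzdD.eq_1; have := @pvzdAo.eq_1; have := @pvzdK.eq_1
  trivial

variable {h}

/-- a chain of sites of a room is a join in the darts of the room -/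
theorem pvzd_join_room {G : Set ℂ} {Z : Set Y} (hZ : ∀ v ∈ Z, (v : ℂ) ∈ G) {u v : Y} (hu : u ∈ Z) (huv : ReflTransGen (fun a b => (delMap h).Adj a b ∧ b ∈ Z) u v) :
    (delMap h).Join (pvzdD h G) Z u v := by
  refine ⟨hu, ?_⟩
  induction huv with
  | refl => exact ReflTransGen.refl
  | @tail a b hab hb ih =>
    have ha : a ∈ Z := by
      rcases ReflTransGen.cases_tail hab with e | ⟨_, _, k⟩
      · rw [e]; exact hu
      · exact k.2
    obtain ⟨⟨d, h1, h2⟩, hbZ⟩ := hb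
    exact ih.tail ⟨⟨d, Or.inl ⟨by rw [h1]; exact hZ a ha, by rw [h2]; exact hZ b hbZ⟩, h1, h2⟩, hbZ⟩

/-- a join is a chain -/
theorem pvzd_chain_of_join {A : Set (DelDart h)} {Z : Set Y} {u v : Y} (huv : (delMap h).Join A Z u v) : ReflTransGen (fun a b => (delMap h).Adj a b ∧ b ∈ Z) u v :=
  ReflTransGen.mono (fun _ _ k => ⟨pl_hx_edgeIn_adj k.1, k.2⟩) _ _ huv.2

/-- chains are symmetric -/
theorem pvzd_chain_symm {Z : Set Y} {u v : Y} (hu : u ∈ Z) (huv : ReflTransGen (fun a b => (delMap h).Adj a b ∧ b ∈ Z) u v) : ReflTransGen (fun a b => (delMap h).Adj a b ∧ b ∈ Z) v u := by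
  have h1 : (delMap h).Join univ Z u v := ⟨hu, ReflTransGen.mono (fun a b k => by
    obtain ⟨⟨d, k1, k2⟩, k3⟩ := k
    exact ⟨⟨d, Or.inl (mem_univ _), k1, k2⟩, k3⟩) _ _ huv⟩
  exact pvzd_chain_of_join (pl_hx_join_symm h1)

theorem pvzd_chain_mem {Z : Set Y} {u v : Y} (hu : u ∈ Z) (huv : ReflTransGen (fun a b => (delMap h).Adj a b ∧ b ∈ Z) u v) : v ∈ Z := by
  rcases ReflTransGen.cases_tail huv with e | ⟨_, _, k⟩
  · rw [e]; exact hu
  · exact k.2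

theorem pvzd_chain_mono {Z Z' : Set Y} (hZ : Z ⊆ Z') {u v : Y} (huv : ReflTransGen (fun a b => (delMap h).Adj a b ∧ b ∈ Z) u v) : ReflTransGen (fun a b => (delMap h).Adj a b ∧ b ∈ Z') u v :=
  ReflTransGen.mono (fun _ _ k => ⟨k.1, hZ k.2⟩) _ _ huv

variable {Q : (delMap h).Quad} {x0 x1 y0 y1 κ lam : ℝ} {G Gd : Set ℂ}

/-- an end of an edge off the disc is not strictly inside -/
theorem pvzd_off_int {d : DelDart h} (hd : d ∉ Q.c.Left) : (delMap h).src d ∉ (delMap h).Int Q.c.Left ∧ (delMap h).tgt d ∉ (delMap h).Int Q.c.Left := by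
  refine ⟨fun hc => hd (hc d rfl), fun hc => hd ?_⟩
  exact ((pl_left_face Q.c) d).1 (hc ((delMap h).nxt d) ((delMap h).src_nxt d))

/-- **FIELD `hAo`** of `PvamHalf` -/
theorem pvzd_hAo (H : PvzdQ h Q x0 x1 y0 y1 κ) (R : PvzdRoom x0 x1 y0 y1 κ lam G Gd) :
    ∀ a b, (delMap h).EdgeIn (pvzdAo h Q G) a b → b ∈ (delMap h).VOf Q.c.Left → b ∈ Q.S4 := by
  intro a b hab hb
  have key : (b : ℂ) ∈ G ∧ b ∉ (delMap h).Int Q.c.Left := by
    obtain ⟨d, hd | hd, rfl, rfl⟩ := hab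
    · exact ⟨hd.2.2, (pvzd_off_int hd.1).2⟩
    · have e : (delMap h).src ((delMap h).opp d) = (delMap h).tgt d := (delMap h).src_opp d
      exact ⟨by rw [← e]; exact hd.2.1, by rw [← e]; exact (pvzd_off_int hd.1).1⟩
  have hbv : b ∈ Q.c.verts := (H.verts_or hb).resolve_right key.2
  obtain ⟨o1, o2, o3, o4⟩ := H.out b hb
  obtain ⟨c1, c2⟩ := R.g2 _ key.1 o1 o2 o4
  exact H.pN hbv c1 c2 (R.g1 _ key.1)

/-- **THE EVENT OF A HALF LINK**: a `Z`-chain from a base vertex `m` of the room, down the column, to a site below the disc, contains a join of the half link from `m` to the side 2 -/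
theorem pvzd_half (H : PvzdQ h Q x0 x1 y0 y1 κ) (R : PvzdRoom x0 x1 y0 y1 κ lam G Gd) (hκ : 0 ≤ κ) (hy : y0 + 2 * κ + lam < y1) {Z : Set Y}
    (hZ : ∀ v ∈ Z, (v : ℂ) ∈ G ∨ (v : ℂ) ∈ Gd) (hE : ∀ u ∈ Z, ∀ v ∈ Z, (delMap h).Adj u v → ‖(u : ℂ) - v‖ ≤ lam)
    {m e : Y} (hm : m ∈ Z) (hmG : (m : ℂ) ∈ G) (he : (e : ℂ).im < y0 - κ) (hme : ReflTransGen (fun u v => (delMap h).Adj u v ∧ v ∈ Z) m e) :
    ∃ z ∈ Q.S2, (delMap h).Join (pvzdAo h Q G ∪ Q.c.Left) (Z ∩ pvzdK h Q G Gd) m z := by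
  have key : (∃ z ∈ Q.S2, (delMap h).Join (pvzdAo h Q G ∪ Q.c.Left) (Z ∩ pvzdK h Q G Gd) m z) ∨
      ((delMap h).Join (pvzdAo h Q G ∪ Q.c.Left) (Z ∩ pvzdK h Q G Gd) m e ∧ ((e : ℂ) ∈ G ∨ e ∈ (delMap h).VOf Q.c.Left)) := by
    clear he
    induction hme with
    | refl => exact Or.inr ⟨pl_hx_join_refl ⟨hm, Or.inl hmG⟩, Or.inl hmG⟩
    | @tail u v _ huv ih =>
      rcases ih with ih | ⟨hj, hu⟩
      · exact Or.inl ih
      by_cases hu2 : u ∈ Q.S2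
      · exact Or.inl ⟨u, hu2, hj⟩
      obtain ⟨hadj, hvZ⟩ := huv
      have huZ : u ∈ Z := (pl_hx_join_mem hj).1
      obtain ⟨d, hs, ht⟩ := hadj
      by_cases hL : d ∈ Q.c.Left ∨ (delMap h).opp d ∈ Q.c.Left
      · -- an edge of the disc
        have hLe : (delMap h).EdgeIn Q.c.Left u v := ⟨d, hL, hs, ht⟩
        have hvV : v ∈ (delMap h).VOf Q.c.Left := (pvam_edge_VOf (pl_left_face Q.c) hLe).2
        have hvK : v ∈ pvzdK h Q G Gd := (hZ v hvZ).imp id fun k => ⟨k, hvV⟩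
        exact Or.inr ⟨pl_hx_join_tail hj ⟨d, hL.imp (fun k => Or.inr k) (fun k => Or.inr k), hs, ht⟩ ⟨hvZ, hvK⟩, Or.inr hvV⟩
      · push Not at hL
        have huI : u ∉ (delMap h).Int Q.c.Left := hs ▸ (pvzd_off_int hL.1).1
        have huG : (u : ℂ) ∈ G := by
          rcases hu with hu | hu
          · exact hu
          · have huv' : u ∈ Q.c.verts := (H.verts_or hu).resolve_right huI
            rcases hZ u huZ with k | k
            · exact k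
            · obtain ⟨k1, k2, k3⟩ := R.d1 _ k
              have hl : 0 ≤ lam := (norm_nonneg _).trans (hE u huZ v hvZ ⟨d, hs, ht⟩)
              exact absurd (H.pS huv' (by linarith) (by linarith) (by linarith)) hu2
        rcases hZ v hvZ with k | k
        · exact Or.inr ⟨pl_hx_join_tail hj ⟨d, Or.inl (Or.inl ⟨hL.1, by rw [hs]; exact huG, by rw [ht]; exact k⟩), hs, ht⟩ ⟨hvZ, Or.inl k⟩, Or.inl k⟩
        · exfalso
          obtain ⟨k1, k2, k3⟩ := R.d1 _ k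
          have hn := hE u huZ v hvZ ⟨d, hs, ht⟩
          have r1 := abs_le.1 ((pvzd_re_sub (u : ℂ) v).trans hn)
          have r2 := abs_le.1 ((pvzd_im_sub (u : ℂ) v).trans hn)
          exact huI (H.deep u (by linarith [r1.1]) (by linarith [r1.2]) (R.g1 _ huG) (by linarith [r2.2]))
  rcases key with k | ⟨-, k | k⟩
  · exact k
  · have := R.g1 _ k
    linarith
  · have := (H.out e k).2.2.1
    linarith

end room

/-! ## 4. the exploration data of `Tr/Adm` from a family of quads -/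

section fam

/-- **A FAMILY OF QUADS** with pairwise disjoint closed discs and a low region `Lo` (only finitely many sites): the sites of `Lo` OFF ALL THE CLOSED DISCS are revealed anyway -/
structure PvzdFam (h : DelGood Y) (ι : Type) where
  Q : ι → (delMap h).Quad
  fin : ∀ i, (Q i).c.Left.Finite
  dis : ∀ i j, i ≠ j → Disjoint ((delMap h).VOf (Q i).c.Left) ((delMap h).VOf (Q j).c.Left)
  Lo : Set ℂ
  fLo : {v : Y | (v : ℂ) ∈ Lo}.Finite

variable {h : DelGood Y} {ι : Type}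

namespace PvzdFam

variable (F : PvzdFam h ι)

/-- the closed disc of the quad `i` -/
def Dk (i : ι) : Set Y := (delMap h).VOf (F.Q i).c.Left

theorem Dk_fin (i : ι) : (F.Dk i).Finite := ((F.fin i).image (delMap h).src).subset fun _ ⟨d, hd, e⟩ => ⟨d, hd, e⟩

/-- revealed anyway -/
def VoS : Set Y := {v | (v : ℂ) ∈ F.Lo ∧ ∀ i, v ∉ F.Dk i}

theorem VoS_fin : F.VoS.Finite := F.fLo.subset fun _ hv => hv.1

/-- **THE DATA OF THE EXPLORATION**      (field `down` is VACUOUS: `Vo` misses the closed discs) -/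
noncomputable def In : PvamIn (delMap h) ι where
  Q := F.Q
  VQ := fun i => (F.Dk_fin i).toFinset
  Vo := F.VoS_fin.toFinset
  sph := dls_isSph h
  fin := F.fin
  hVQ := fun i v => by rw [Set.Finite.mem_toFinset]; rfl
  dQQ := fun i j hij => by
    rw [Finset.disjoint_left]
    intro v hv hv'
    rw [Set.Finite.mem_toFinset] at hv hv'
    exact disjoint_left.1 (F.dis i j hij) hv hv'
  down := fun i y hy hy' => by
    rw [Set.Finite.mem_toFinset] at hy hy'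
    exact absurd hy' (hy.2 i)

theorem In_Q (i : ι) : F.In.Q i = F.Q i := rfl

theorem mem_VQ {i : ι} {v : Y} : v ∈ F.In.VQ i ↔ v ∈ F.Dk i := by
  show v ∈ (F.Dk_fin i).toFinset ↔ _
  rw [Set.Finite.mem_toFinset]

theorem mem_Vo {v : Y} : v ∈ F.In.Vo ↔ (v : ℂ) ∈ F.Lo ∧ ∀ i, v ∉ F.Dk i := by
  show v ∈ F.VoS_fin.toFinset ↔ _
  rw [Set.Finite.mem_toFinset]
  rfl

theorem mem_Free {v : Y} : v ∈ F.In.Free ↔ (v : ℂ) ∉ F.Lo ∧ ∀ i, v ∉ F.Dk i := by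
  unfold PvamIn.Free
  simp only [mem_ofPred_eq, mem_Vo, mem_VQ]
  constructor
  · rintro ⟨h1, h2⟩
    exact ⟨fun hc => h1 ⟨hc, h2⟩, h2⟩
  · rintro ⟨h1, h2⟩
    exact ⟨fun hc => h1 hc.1, h2⟩

/-- `Vo` misses the closed discs -/
theorem Vo_off {v : Y} (hv : v ∈ (F.In.Vo : Set Y)) (i : ι) : v ∉ (delMap h).VOf (F.Q i).c.Left := (F.mem_Vo.1 (Finset.mem_coe.1 hv)).2 i

variable [Fintype ι]

/-- **EXPLORED WHITE** by positions: white, in the sea of every disc which contains it, in `Lo` if it lies off all the discs -/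
theorem mem_Wx {ω : Y → Bool} {v : Y} (hw : ω v = false) (h1 : ∀ i, v ∈ F.Dk i → v ∈ (F.Q i).Sea (pvamB ω)) (h2 : (∀ i, v ∉ F.Dk i) → (v : ℂ) ∈ F.Lo) : v ∈ F.In.Wx ω := by
  refine ⟨(pvam_mem_E F.In ω v).2 ?_, hw⟩
  by_cases hc : ∀ i, v ∉ F.Dk i
  · exact Or.inl (F.mem_Vo.2 ⟨h2 hc, hc⟩)
  · push Not at hc
    obtain ⟨i, hi⟩ := hc
    exact Or.inr ⟨i, Or.inl (h1 i hi)⟩

end PvzdFam

theorem pvzd_eqns_cite2 : True := by
  have := @PvzdFam.Dk.eq_1; have := @PvzdFam.VoS.eq_1; have := @PvzdFam.In.eq_1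
  trivial

/-! ### half links and ends -/

namespace PvzdFam

variable (F : PvzdFam h ι)

/-- **HALF LINK** of the quad `i` with the room `G` and the foot `Gd` -/
noncomputable def half (i : ι) {x0 x1 y0 y1 κ lam : ℝ} {G Gd : Set ℂ} (H : PvzdQ h (F.Q i) x0 x1 y0 y1 κ) (R : PvzdRoom x0 x1 y0 y1 κ lam G Gd)
    (hLo : ∀ z ∈ G, z ∉ F.Lo) (hoff : ∀ j, j ≠ i → ∀ v ∈ F.Dk j, (v : ℂ) ∉ G) : PvamHalf F.In :=
  PvamHalf.ofAo (I := F.In) i (pvzdAo h (F.Q i) G) (F.Q i).c.Left (pvzdK h (F.Q i) G Gd) Subset.rfl (pvzd_hAo H R) (by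
    rintro v (hv | ⟨-, hv⟩)
    · exact ⟨fun hVo => absurd (F.mem_Vo.1 hVo).1 (hLo _ hv), fun j hj hc => hoff j hj v (F.mem_VQ.1 hc) hv⟩
    · exact ⟨fun _ => F.mem_VQ.2 hv, fun j hj hc => disjoint_left.1 (F.dis j i hj) (F.mem_VQ.1 hc) hv⟩)

/-- **END**: room `G`, terminal region `Zt` -/
def tail (G Zt : Set ℂ) (hLo : ∀ z ∈ G, z ∉ F.Lo) (hoff : ∀ j, ∀ v ∈ F.Dk j, (v : ℂ) ∉ G) : PvamEnd F.In where
  R := pvzdD h G
  K := {v | (v : ℂ) ∈ G}
  Z := {v | (v : ℂ) ∈ Zt}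
  hK := fun v hv => F.mem_Free.2 ⟨hLo _ hv, fun j hc => hoff j v hc hv⟩

/-- **the event of a half link** from a chain of colour `c` -/
theorem half_ev (i : ι) {x0 x1 y0 y1 κ lam : ℝ} {G Gd : Set ℂ} (H : PvzdQ h (F.Q i) x0 x1 y0 y1 κ) (R : PvzdRoom x0 x1 y0 y1 κ lam G Gd)
    (hLo : ∀ z ∈ G, z ∉ F.Lo) (hoff : ∀ j, j ≠ i → ∀ v ∈ F.Dk j, (v : ℂ) ∉ G) (hκ : 0 ≤ κ) (hy : y0 + 2 * κ + lam < y1) {c : Bool} {ω : Y → Bool} {Z : Set Y}
    (hZc : ∀ v ∈ Z, ω v = c) (hZ : ∀ v ∈ Z, (v : ℂ) ∈ G ∨ (v : ℂ) ∈ Gd) (hE : ∀ u ∈ Z, ∀ v ∈ Z, (delMap h).Adj u v → ‖(u : ℂ) - v‖ ≤ lam)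
    {m e : Y} (hmG : (m : ℂ) ∈ G) (he : (e : ℂ).im < y0 - κ) (hme : (delMap h).Join univ Z m e) : (F.half i H R hLo hoff).Ev c ω m := by
  obtain ⟨z, hz, hj⟩ := pvzd_half H R hκ hy hZ hE hme.1 hmG he (pvzd_chain_of_join hme)
  exact ⟨z, hz, pl_hx_join_mono Subset.rfl (fun v (hv : v ∈ Z ∩ pvzdK h (F.Q i) G Gd) => (⟨hv.2, hZc v hv.1⟩ : v ∈ pvzdK h (F.Q i) G Gd ∩ pvamC c ω)) hj⟩

/-- **the event of an end** from a chain of colour `c` -/
theorem tail_ev {G Zt : Set ℂ} (hLo : ∀ z ∈ G, z ∉ F.Lo) (hoff : ∀ j, ∀ v ∈ F.Dk j, (v : ℂ) ∉ G) {c : Bool} {ω : Y → Bool} {Z : Set Y}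
    (hZc : ∀ v ∈ Z, ω v = c) (hZ : ∀ v ∈ Z, (v : ℂ) ∈ G) {m t : Y} (ht : (t : ℂ) ∈ Zt) (hmt : (delMap h).Join univ Z m t) : (F.tail G Zt hLo hoff).Ev c ω m :=
  ⟨t, ht, pl_hx_join_mono Subset.rfl (fun v (hv : v ∈ Z) => (⟨hZ v hv, hZc v hv⟩ : v ∈ {v : Y | (v : ℂ) ∈ G} ∩ pvamC c ω)) (pvzd_join_room hZ hmt.1 (pvzd_chain_of_join hmt))⟩

end PvzdFam

theorem pvzd_eqns_cite3 : True := by
  have := @PvzdFam.half.eq_1; have := @PvzdFam.tail.eq_1
  trivial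

/-! ### explored white links -/

/-- the darts of a disc have both ends in a room which contains the closed disc -/
theorem pvzd_left_sub {Q : (delMap h).Quad} {G : Set ℂ} (hG : ∀ v ∈ (delMap h).VOf Q.c.Left, (v : ℂ) ∈ G) : Q.c.Left ⊆ pvzdD h G := fun d hd =>
  ⟨hG _ ⟨d, hd, rfl⟩, hG _ ⟨(delMap h).nxt d, ((pl_left_face Q.c) d).2 hd, (delMap h).src_nxt d⟩⟩

/-- a join of the whole map through sites of a room is a join in the darts of the room -/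
theorem pvzd_join_room' {G : Set ℂ} {Z : Set Y} (hZ : ∀ v ∈ Z, (v : ℂ) ∈ G) {u v : Y} (huv : (delMap h).Join univ Z u v) : (delMap h).Join (pvzdD h G) Z u v :=
  pvzd_join_room hZ huv.1 (pvzd_chain_of_join huv)

/-- two vertices of a cluster are joined inside the cluster -/
theorem pvzd_clu_join {Z : Set Y} {c u v : Y} (hu : (delMap h).Join univ Z c u) (hv : (delMap h).Join univ Z c v) : (delMap h).Join univ ((delMap h).Clu univ Z c) u v :=
  pl_hx_join_trans (pl_hx_join_symm (pl_qd_join_clu hu)) (pl_qd_join_clu hv)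

namespace PvzdFam

variable (F : PvzdFam h ι) [Fintype ι]

/-- white sites of the low region off all the discs are explored -/
theorem lane_wx {ω : Y → Bool} {X : Set Y} (hw : ∀ v ∈ X, ω v = false) (hLo : ∀ v ∈ X, (v : ℂ) ∈ F.Lo) (hoff : ∀ j, ∀ v ∈ X, v ∉ F.Dk j) : X ⊆ F.In.Wx ω :=
  fun v hv => F.mem_Wx (hw v hv) (fun i hi => absurd hi (hoff i v hv)) fun _ => hLo v hv

/-- **the white column is explored**: a white site joined, inside the column, to a site below the disc -/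
theorem col_wx (i : ι) {x0 x1 y0 y1 ρ : ℝ} (ok : PvzqOk h x0 x1 y0 y1 ρ (F.Q i)) (hx : x0 ≤ x1) (hy : y0 ≤ y1) (hd : VorDense Y (pvzqR x0 x1 y0 y1) ρ) {ω : Y → Bool} {X : Set Y}
    (hw : ∀ v ∈ X, ω v = false) (hX : ∀ v ∈ X, x0 + ρ < (v : ℂ).re ∧ (v : ℂ).re < x1 - ρ ∧ (v : ℂ).im < y1 - ρ)
    (hLo : ∀ v ∈ X, (v : ℂ).im ≤ y0 + ρ → (v : ℂ) ∈ F.Lo) (hoff : ∀ j, j ≠ i → ∀ v ∈ X, v ∉ F.Dk j)
    {c w : Y} (hc : (c : ℂ).im < y0 - ρ) (hcw : (delMap h).Join univ X c w) : w ∈ F.In.Wx ω := by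
  have hwX : w ∈ X := pl_hx_join_mem hcw
  have hXB : X ⊆ (pvamB ω)ᶜ := fun v hv hb => by
    have h1 : ω v = true := hb
    rw [hw v hv] at h1
    exact absurd h1 (by simp)
  refine F.mem_Wx (hw w hwX) (fun j hj => ?_) fun hall => ?_
  · by_cases hji : j = i
    · subst hji
      obtain ⟨s, hs, hsw⟩ := pvzx_sea ok hx hy hd hXB hX hcw hc hj
      exact ⟨s, hs, pl_hx_join_mono Subset.rfl hXB hsw⟩
    · exact absurd hj (hoff j hji w hwX)
  · refine hLo w hwX ?_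
    by_contra hc'
    push Not at hc'
    exact hall i (pvzx_int_VOf (dls_isSph h) _ (ok.deep w ⟨(hX w hwX).1, (hX w hwX).2.1, hc', (hX w hwX).2.2⟩))

/-- **STEM**: white strip + white column ⟹ a hub of the quad `i` which is joined, through explored white sites of the room `G`, to EVERY site of the cluster of the column -/
theorem stem (i : ι) {x0 x1 y0 y1 ρ θ : ℝ} {U G : Set ℂ} (ok : PvzqOk h x0 x1 y0 y1 ρ (F.Q i)) (hρ : 0 < ρ) (hx : 4 * ρ < x1 - x0) (hy : y0 ≤ y1) (hd : VorDense Y U ρ)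
    (hR : pvzqR x0 x1 y0 (y1 + 3 * ρ) ⊆ U) (hθ : θ ≤ y1 - ρ) {ω : Y → Bool} {X1 X2 : Set Y}
    (w1 : ∀ v ∈ X1, ω v = false) (h1 : ∀ v ∈ X1, y0 + ρ < (v : ℂ).im ∧ (v : ℂ).im < θ ∧ closedBall (v : ℂ) (2 * ρ) ⊆ U) (l1 : ∀ v ∈ X1, (v : ℂ) ∉ F.Lo)
    {a b : Y} (hab : (delMap h).Join univ X1 a b) (ha : (a : ℂ).re < x0 - ρ) (hb : x1 + ρ < (b : ℂ).re)
    (w2 : ∀ v ∈ X2, ω v = false) (h2 : ∀ v ∈ X2, x0 + 2 * ρ < (v : ℂ).re ∧ (v : ℂ).re < x1 - 2 * ρ ∧ (v : ℂ).im < y1 - ρ)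
    (l2 : ∀ v ∈ X2, (v : ℂ).im ≤ y0 + ρ → (v : ℂ) ∈ F.Lo) (o2 : ∀ j, j ≠ i → ∀ v ∈ X2, v ∉ F.Dk j)
    {c t : Y} (hct : (delMap h).Join univ X2 c t) (hc : (c : ℂ).im < y0 - ρ) (ht : θ ≤ (t : ℂ).im)
    (hG : pvzqR (x0 - ρ) (x1 + ρ) (y0 - ρ) (y1 + ρ) ⊆ G) (g2 : ∀ v ∈ X2, (v : ℂ) ∈ G) :
    ∃ a₀, F.In.Hub ω i a₀ ∧ ∀ w, (delMap h).Join univ X2 c w → (delMap h).Join (pvzdD h G) (F.In.Wx ω) a₀ w := by
  have hB : ∀ X : Set Y, (∀ v ∈ X, ω v = false) → X ⊆ (pvamB ω)ᶜ := fun X hw v hv hb => by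
    have h1 : ω v = true := hb
    rw [hw v hv] at h1
    exact absurd h1 (by simp)
  have hcs : (delMap h).Clu univ X2 c ⊆ X2 := pl_qd_clu_sub _ _ _
  have hd0 : VorDense Y (pvzqR x0 x1 y0 y1) ρ := hd.mono Subset.rfl ((pvzq_R_mono le_rfl le_rfl le_rfl (by linarith)).trans hR) le_rfl
  obtain ⟨a₀, x, hub, -, hx2, hax⟩ := pvzx_hub ok hρ hx hy hd hR (B := pvamB ω) (Vo := (F.In.Vo : Set Y)) (X1 := X1) (X2 := (delMap h).Clu univ X2 c) hθ (hB X1 w1)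
    (disjoint_left.2 fun v hv hvo => l1 v hv (F.mem_Vo.1 (Finset.mem_coe.1 hvo)).1) h1 hab ha hb (hcs.trans (hB X2 w2)) (fun v hv => h2 v (hcs hv)) (pl_qd_join_clu hct) hc ht
  refine ⟨a₀, hub, fun w hw => ?_⟩
  have hWx : (delMap h).Clu univ X2 c ⊆ F.In.Wx ω := fun v hv =>
    F.col_wx i ok (by linarith) hy hd0 w2 (fun u hu => ⟨by linarith [(h2 u hu).1], by linarith [(h2 u hu).2.1], (h2 u hu).2.2⟩) l2 o2 hc hv
  have j1 : (delMap h).Join (pvzdD h G) (F.In.Wx ω) a₀ x :=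
    pl_hx_join_mono (pvzd_left_sub fun v hv => hG (ok.out v hv)) (fun v hv => pvam_sea_Wx F.In ω i hv.1) hax
  have j2 : (delMap h).Join (pvzdD h G) (F.In.Wx ω) x w :=
    pl_hx_join_mono Subset.rfl hWx (pvzd_join_room' (fun v hv => g2 v (hcs hv)) (pvzd_clu_join hx2 hw))
  exact pl_hx_join_trans j1 j2

end PvzdFam

end fam

end Claimed.Agent.R289
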