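-- KEEP
import Claimed.Agent.R289.Adm.RecI
import Claimed.Agent.R289.Tr.QuadD

/-!
# Row 289 (S0537, Cardy for Poisson-Voronoi), THE WALL, ADMISSION, file Tr/AdmGl : THE FIELD `out` ON `delMap h`      (helper127; prefix `pvag_`)

Ruling B-1 of 259: `out` = 127 + 224.   224 (`Adm/RecI`) proved blocks C + D at the plane map `(delbPl Y).toMap` (`pvae_out`).   The toolboxes of block B (267 `Tr/QuadI/X/Y/Z`, 229 `Tr/QuadD`) live on `delMap h`.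
* **`pvag_out`** = `pvae_out` verbatim on `delMap h`.
-/

set_option autoImplicit false

namespace Claimed.Agent.R289

open Set Metric Relation Claims.C0465

variable {Y : Set ℂ} {r : ℝ}

/-- **THE FIELD `out` OF `PvkoNet` ON `delMap h`** (blocks C + D: 140, 259, 224) -/
theorem pvag_out (hr : 0 < r) (hn : PvatNice Y) (hm : PvtrMesh (r / 16) (pvwSq 0 (3 * r)) Y) (hG : DelGood Y) {ι : Type} [Fintype ι] {I : PvamIn (delMap hG) ι} {N : PvamNet I} (K : PvazLk N) {μ : ℝ}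
    (P : K.Pos Subtype.val 0 r (2 * r) μ (-(2 * r)) (2 * r) (-(r / 2)) (r / 2))
    (hVm : ∀ v ∈ K.Vm, (v : ℂ) ∈ (pvkdP r).Zm) (hVp : ∀ v ∈ K.Vp, (v : ℂ) ∈ (pvkdP r).Zp)
    (kpb : ∀ v ∈ K.dp.1.K ∪ K.dp.2.K, (v : ℂ) ∈ (pvkdP r).Ln true true) (zpb : ∀ v ∈ K.dp.2.Z, (v : ℂ) ∈ (pvkdP r).Dr true true)
    (kpw : ∀ v ∈ K.C4, (v : ℂ) ∈ (pvkdP r).Ln true false) (zpw : ∀ v ∈ K.Zp, (v : ℂ) ∈ (pvkdP r).Dr true false)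
    (kmb : ∀ v ∈ K.dm.1.K ∪ K.dm.2.K, (v : ℂ) ∈ (pvkdP r).Ln false true) (zmb : ∀ v ∈ K.dm.2.Z, (v : ℂ) ∈ (pvkdP r).Dr false true)
    (kmw : ∀ v ∈ K.C3, (v : ℂ) ∈ (pvkdP r).Ln false false) (zmw : ∀ v ∈ K.Zm, (v : ℂ) ∈ (pvkdP r).Dr false false)
    {s : Y → Bool} (h : N.Out s) : PvkoCH (pvkdP r) Y s := by
  have key : ∀ Pl : PlTri ↥Y, Pl = delbPl Y → ∀ {I : PvamIn Pl.toMap ι} {N : PvamNet I} (K : PvazLk N),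
      K.Pos Subtype.val 0 r (2 * r) μ (-(2 * r)) (2 * r) (-(r / 2)) (r / 2) →
      (∀ v ∈ K.Vm, (v : ℂ) ∈ (pvkdP r).Zm) → (∀ v ∈ K.Vp, (v : ℂ) ∈ (pvkdP r).Zp) →
      (∀ v ∈ K.dp.1.K ∪ K.dp.2.K, (v : ℂ) ∈ (pvkdP r).Ln true true) → (∀ v ∈ K.dp.2.Z, (v : ℂ) ∈ (pvkdP r).Dr true true) →
      (∀ v ∈ K.C4, (v : ℂ) ∈ (pvkdP r).Ln true false) → (∀ v ∈ K.Zp, (v : ℂ) ∈ (pvkdP r).Dr true false) →
      (∀ v ∈ K.dm.1.K ∪ K.dm.2.K, (v : ℂ) ∈ (pvkdP r).Ln false true) → (∀ v ∈ K.dm.2.Z, (v : ℂ) ∈ (pvkdP r).Dr false true) →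
      (∀ v ∈ K.C3, (v : ℂ) ∈ (pvkdP r).Ln false false) → (∀ v ∈ K.Zm, (v : ℂ) ∈ (pvkdP r).Dr false false) →
      N.Out s → PvkoCH (pvkdP r) Y s := by
    rintro Pl rfl I N K P a1 a2 a3 a4 a5 a6 a7 a8 a9 a10 h
    exact pvae_out hr hn hm K P a1 a2 a3 a4 a5 a6 a7 a8 a9 a10 h
  exact key (delPl hG) (delb_pl_eq hG).symm K P hVm hVp kpb zpb kpw zpw kmb zmb kmw zmw h

end Claimed.Agent.R289
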