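-- KEEP
import Claimed.Agent.R289.Tr.PlugK
import Claimed.Agent.R289.Adm.Seam
import Claimed.Agent.R289.Rsw.Exports
import Claimed.Agent.R289.Mesh.Geo
import Claimed.Agent.R289.Tr.Adm

/-!
# Row 289 (S0537), THE WALL, ADMISSION, file Tr/AdmP : THE PROBABILITY HALF AND THE ROOF OF [ADM]      (helper262; prefix `pvko_`, defs `pvko..`, `Pvko..`)

TARGET (34, `Tr/PlugK`): `PvkdAdm 𝔭 := ∃ p0 > 0, ∀ᶠ ε → 0+, p0 ≤ pvP ε (𝔭.CH 0 1)`.
THIS FILE: `PvkdAdm 𝔭` FROM ONE DETERMINISTIC STATEMENT ABOUT A FIXED POINT SET `Y` (no Poisson, no `ε`, no measurability):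

* sec. 1  PATTERNS.  `pvkoB Y s` = the union of the black cells of the coloured point set `(Y, s)`;  `PvkoPat l Y s` = every pattern of the list `l : List RswTri` holds in it;
          `pvkoΨ l` = the measurable event of the plane (`pvko_Ψ_meas`), `pvko_pat_of_Ψ`.
* sec. 2  ANNEALED RSW + FKG.  `PvkoRsw e` (`∃ c > 0, ∀ ε > 0, c ≤ pvP ε (pvrEv e)`), `pvko_rsw_LR`, `pvko_rsw_TB` (every non degenerate rectangle, both directions), **`pvko_Ψ_low`**.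
* sec. 3  BAD GEOMETRIES.  `pvkoBad ρ L`, **`pvko_bad_tendsto`**.
* sec. 4  THE INTERFACE **`PvkoInstE E l Y`**, ANY target event `E` (= what the instance of rope A, `Tr/AdmI`, has to give at a nice `Y` with mesh `ρ` in the square `pvmSq 0 L`), the target in the form `PvkoTg E Y s`;
          `PvkoInst 𝔭 l Y := PvkoInstE (𝔭.CH 0 1) l Y`, `PvkoCH 𝔭 Y s := PvkoTg (𝔭.CH 0 1) Y s`.
* sec. 5  **`pvko_roofE`** : `(∀ Y, PvatNice Y → VorDense Y (pvmSq 0 L) ρ → PvkoInstE E l Y) → ∃ p0 > 0, ∀ᶠ ε → 0+, p0 ≤ pvP ε E`;  `pvko_roof` (`E = 𝔭.CH 0 1`: `PvkdAdm 𝔭`).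
* sec. 6  record **`PvkoNet E l T ι`** (`T : PvMap Y D` ANY map on the sites, e.g. `delMap h`; exploration data `I`, net `N` of 127, classes, `FW FB`, dictionary, `out`), `pvko_U1_loc`, `pvko_U2_loc`, **`pvko_inst_of_net`** : `PvkoNet E l T ι → PvkoInstE E l Y`.
* sec. 7  TOOLS FOR THE FIELD `out`: `pvko_tg_intro` (no cast: a property `Φ Y s` which forces `E` at every `η`), `pvko_at_id`, `pvko_pg_id`, `pvko_mesh`, **`pvko_CH_of_pos`** (`η ∈ 𝔭.CH 0 1` from ONE gate of record `PvzlGt` + four joins; `Tr/PlugK` v3), `pvko_CH_of_del` (the same on `delMap h`).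
* sec. 8  (moved) the plug of record: `exit_pvko_inst`, **`exit_pvkd_adm`** stand in `Exit/Adm.lean`.      THIS FILE: 0 sorry.
-/

set_option autoImplicit false
set_option linter.unusedSectionVars false

namespace Claimed.Agent.R289

open Set MeasureTheory Filter Topology Claims.C0465
open scoped ENNReal

/-! ## 1. patterns -/

/-- the union of the black cells of the coloured point set `(Y, s)` -/
def pvkoB (Y : Set ℂ) (s : Y → Bool) : Set ℂ := {z | ∃ v : Y, s v = true ∧ z ∈ vorCell Y v}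

/-- every pattern of the list holds in the black region of `(Y, s)` -/
def PvkoPat (l : List RswTri) (Y : Set ℂ) (s : Y → Bool) : Prop := ∀ e ∈ l, e.Holds (pvkoB Y s)

/-- **THE EVENT `Ψ`**: all the patterns in black -/
def pvkoΨ (l : List RswTri) : Set (Conf PvPt) := {η | ∀ e ∈ l, e.Holds (cfB η)} ∩ {η | PvLF η}

theorem pvko_Ψ_meas {l : List RswTri} (h : ∀ e ∈ l, e.Nice) : MeasurableSet (pvkoΨ l) := by
  have e : pvkoΨ l = (⋂ e ∈ {e | e ∈ l}, (pvrEv e ∩ {η | PvLF η})) ∩ {η | PvLF η} := by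
    ext η
    simp only [pvkoΨ, pvrEv, mem_inter_iff, mem_ofPred_eq, mem_iInter]
    constructor
    · rintro ⟨h1, h2⟩
      exact ⟨fun e he => ⟨h1 e he, h2⟩, h2⟩
    · rintro ⟨h1, h2⟩
      exact ⟨fun e he => (h1 e he).1, h2⟩
  rw [e]
  exact (MeasurableSet.biInter (List.finite_toSet l).countable fun e he => pvr_ev_meas (h e he)).inter pvcn_LF_meas

theorem pvko_black_sub (η : Conf PvPt) : cfBlack η ⊆ pvkoB (cfSites η) (dlsCol η) := by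
  rintro z ⟨p, hp, hc, hz⟩
  refine ⟨⟨p.1, p, hp, rfl⟩, ?_, ?_⟩
  · have : (p.1, true) ∈ η.pts := by rw [← hc]; exact hp
    simpa [dlsCol] using this
  · rintro u ⟨q, hq, rfl⟩
    exact hz q hq

theorem pvko_pat_of_Ψ {l : List RswTri} {η : Conf PvPt} (h : η ∈ pvkoΨ l) : PvkoPat l (cfSites η) (dlsCol η) := fun e he =>
  rsw_det_mono (by rw [pvr_B_eq_black h.2]; exact pvko_black_sub η) Subset.rfl Subset.rfl Subset.rfl (h.1 e he)

/-! ## 2. annealed RSW + FKG -/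

/-- the pattern has probability bounded below, uniformly in the mesh -/
def PvkoRsw (e : RswTri) : Prop := ∃ c : ℝ, 0 < c ∧ ∀ ε : ℝ, 0 < ε → ENNReal.ofReal c ≤ pvP ε (pvrEv e)

theorem pvko_rsw_std {a b : ℝ} (ha : 0 < a) (hb : 0 < b) : PvkoRsw (rswLR 0 a 0 b) := by
  obtain ⟨c, hc, h⟩ := pvr_rsw (a / b) (by positivity)
  refine ⟨c, hc, fun ε hε => ?_⟩
  have h1 := h ε hε b hb 0
  rw [pvr_inv_tr] at h1
  have e : a / b * b = a := by field_simp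
  rwa [e] at h1

theorem pvko_rsw_LR {x0 x1 y0 y1 : ℝ} (hx : x0 < x1) (hy : y0 < y1) : PvkoRsw (rswLR x0 x1 y0 y1) := by
  obtain ⟨c, hc, h⟩ := pvko_rsw_std (sub_pos.2 hx) (sub_pos.2 hy)
  exact ⟨c, hc, fun ε hε => by rw [pvre_LR]; exact h ε hε⟩

theorem pvko_rsw_TB {x0 x1 y0 y1 : ℝ} (hx : x0 < x1) (hy : y0 < y1) : PvkoRsw (rswTB x0 x1 y0 y1) := by
  obtain ⟨c, hc, h⟩ := pvko_rsw_std (sub_pos.2 hy) (sub_pos.2 hx)
  exact ⟨c, hc, fun ε hε => by rw [pvre_TB]; exact h ε hε⟩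

theorem pvko_prod_low (l : List RswTri) (hr : ∀ e ∈ l, PvkoRsw e) :
    ∃ c : ℝ, 0 < c ∧ ∀ ε : ℝ, 0 < ε → ENNReal.ofReal c ≤ (l.map fun e => pvP ε (pvrEv e)).prod := by
  induction l with
  | nil => exact ⟨1, one_pos, fun ε _ => by simp⟩
  | cons e l ih =>
    obtain ⟨c, hc, h⟩ := ih fun e' he' => hr e' (List.mem_cons_of_mem _ he')
    obtain ⟨c', hc', h'⟩ := hr e List.mem_cons_self
    refine ⟨c' * c, mul_pos hc' hc, fun ε hε => ?_⟩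
    rw [List.map_cons, List.prod_cons, ENNReal.ofReal_mul hc'.le]
    exact mul_le_mul' (h' ε hε) (h ε hε)

/-- **ANNEALED LOWER BOUND FOR `Ψ`**, uniform in the mesh -/
theorem pvko_Ψ_low {l : List RswTri} (hn : ∀ e ∈ l, e.Nice) (hr : ∀ e ∈ l, PvkoRsw e) :
    ∃ c : ℝ, 0 < c ∧ ∀ ε : ℝ, 0 < ε → ENNReal.ofReal c ≤ pvP ε (pvkoΨ l) := by
  obtain ⟨c, hc, h⟩ := pvko_prod_low l hr
  refine ⟨c, hc, fun ε hε => ?_⟩
  rw [pvkoΨ, pvr_ev_lf]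
  exact (h ε hε).trans (pvr_fkg_list ε l hn)

/-! ## 3. bad geometries -/

/-- the bad geometries -/
def pvkoBad (ρ L : ℝ) : Set PvGeoT := {g | ¬ (PvgOk g ∧ PvatNice (pvgSites g) ∧ g ∈ pvmgG ρ 0 L)}

theorem pvko_bad_tendsto {ρ L : ℝ} (hρ : 0 < ρ) (hL : 0 ≤ L) : Tendsto (fun ε => pvGeo ε (pvkoBad ρ L)) (𝓝[>] 0) (𝓝 0) := by
  refine tendsto_of_tendsto_of_tendsto_of_le_of_le' tendsto_const_nhds (pvmg_G_tendsto hρ hL 0) (Eventually.of_forall fun _ => zero_le) ?_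
  filter_upwards [self_mem_nhdsWithin] with ε hε
  have hε0 : ε ≠ 0 := ne_of_gt hε
  have h1 : pvGeo ε {g | ¬ PvgOk g} = 0 := ae_iff.1 (pvqu_ok_ae ε)
  have h2 : pvGeo ε {g | ¬ PvatNice (pvgSites g)} = 0 := ae_iff.1 (pvat_nice_ae_geo hε0)
  have hsub : pvkoBad ρ L ⊆ {g | ¬ PvgOk g} ∪ {g | ¬ PvatNice (pvgSites g)} ∪ (pvmgG ρ 0 L)ᶜ := by
    intro g hg
    by_contra hc
    simp only [mem_union, mem_ofPred_eq, mem_compl_iff, not_or, not_not] at hc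
    exact hg ⟨hc.1.1, hc.1.2, hc.2⟩
  calc pvGeo ε (pvkoBad ρ L) ≤ pvGeo ε ({g | ¬ PvgOk g} ∪ {g | ¬ PvatNice (pvgSites g)} ∪ (pvmgG ρ 0 L)ᶜ) := measure_mono hsub
    _ ≤ pvGeo ε {g | ¬ PvgOk g} + pvGeo ε {g | ¬ PvatNice (pvgSites g)} + pvGeo ε (pvmgG ρ 0 L)ᶜ :=
      (measure_union_le _ _).trans (add_le_add (measure_union_le _ _) le_rfl)
    _ = pvGeo ε (pvmgG ρ 0 L)ᶜ := by rw [h1, h2, zero_add, zero_add]

/-! ## 4. the interface -/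

/-- an event `E` of the plane as a property of the coloured point set `(Y, s)` -/
def PvkoTg (E : Set (Conf PvPt)) (Y : Set ℂ) (s : Y → Bool) : Prop :=
  ∀ (η : Conf PvPt) (h : cfSites η = Y), (∀ v : cfSites η, dlsCol η v = s ⟨v, h ▸ v.2⟩) → η ∈ E

/-- **THE INTERFACE OF THE INSTANCE**, ANY target event `E`, at the point set `Y`: four local events `F₁ F₃` (black patterns), `F₂ F₄` (white patterns), the product inequality (`pvam_net_prob`), the output forces `E` -/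
def PvkoInstE (E : Set (Conf PvPt)) (l : List RswTri) (Y : Set ℂ) : Prop :=
  ∃ (A : Finset Y) (F₁ F₂ F₃ F₄ G : (Y → Bool) → Prop), PvalLoc A F₁ ∧ PvalLoc A F₂ ∧ PvalLoc A F₃ ∧ PvalLoc A F₄ ∧
    (∀ ξ, pvaP A ξ F₁ * pvaP A ξ F₂ * (pvaP A ξ F₃ * pvaP A ξ F₄) ≤ pvaP A ξ G) ∧
    (∀ s, PvkoPat l Y s → F₁ s ∧ F₃ s) ∧ (∀ s, PvkoPat l Y (fun v => !s v) → F₂ s ∧ F₄ s) ∧ ∀ s, G s → PvkoTg E Y s

/-- the target of [ADM] as a property of the coloured point set `(Y, s)` -/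
def PvkoCH (𝔭 : PvkdPlug) (Y : Set ℂ) (s : Y → Bool) : Prop := PvkoTg (𝔭.CH 0 1) Y s

/-- the interface for the target of [ADM]: the plug with its four half lanes -/
def PvkoInst (𝔭 : PvkdPlug) (l : List RswTri) (Y : Set ℂ) : Prop := PvkoInstE (𝔭.CH 0 1) l Y

theorem pvko_eqns_cite : True := by
  have := @pvkoB.eq_1; have := @PvkoPat.eq_1; have := @pvkoΨ.eq_1; have := @PvkoRsw.eq_1; have := @pvkoBad.eq_1; have := @PvkoCH.eq_1; have := @PvkoInst.eq_1; have := @PvkoTg.eq_1; have := @PvkoInstE.eq_1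
  trivial

/-! ## 5. the roof -/

theorem pvko_tg_self {E : Set (Conf PvPt)} {η : Conf PvPt} (h : PvkoTg E (cfSites η) (dlsCol η)) : η ∈ E := h η rfl fun _ => rfl

/-- **THE ROOF, ANY TARGET EVENT `E`** (no measurability): from the instance at every nice point set with mesh `ρ` in the square of half side `L` -/
theorem pvko_roofE (E : Set (Conf PvPt)) {l : List RswTri} (hn : ∀ e ∈ l, e.Nice) (hr : ∀ e ∈ l, PvkoRsw e) {ρ L : ℝ} (hρ : 0 < ρ) (hL : 0 ≤ L)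
    (inst : ∀ Y : Set ℂ, PvatNice Y → VorDense Y (pvmSq 0 L) ρ → PvkoInstE E l Y) : ∃ p0 : ℝ≥0∞, 0 < p0 ∧ ∀ᶠ ε in 𝓝[>] (0 : ℝ), p0 ≤ pvP ε E := by
  obtain ⟨c, hc, hlow⟩ := pvko_Ψ_low hn hr
  have hc4 : (0 : ℝ≥0∞) < ENNReal.ofReal c ^ 4 / 2 :=
    ENNReal.div_pos (pow_ne_zero 4 (ENNReal.ofReal_pos.2 hc).ne') (by norm_num)
  refine ⟨ENNReal.ofReal c ^ 4 / 2, hc4, ?_⟩
  filter_upwards [self_mem_nhdsWithin, (pvko_bad_tendsto hρ hL).eventually (ge_mem_nhds hc4)] with ε hε hbad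
  have key : pvP ε (pvkoΨ l) ^ 4 ≤ pvP ε E + pvGeo ε (pvkoBad ρ L) := by
    refine pvae_plane ε (pvko_Ψ_meas hn) E (pvkoBad ρ L) (𝒜₁ := pvkoΨ l) (𝒜₂ := cfFlip ⁻¹' pvkoΨ l) (𝒜₃ := pvkoΨ l) (𝒜₄ := cfFlip ⁻¹' pvkoΨ l)
      Subset.rfl (fun η hη => ?_) Subset.rfl (fun η hη => ?_) fun g hg => ?_
    · show cfFlip (cfFlip η) ∈ pvkoΨ l
      rwa [pvr_flip_flip]
    · show cfFlip (cfFlip η) ∈ pvkoΨ l
      rwa [pvr_flip_flip]
    · have hg' : PvgOk g ∧ PvatNice (pvgSites g) ∧ g ∈ pvmgG ρ 0 L := not_not.1 hg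
      obtain ⟨A, F₁, F₂, F₃, F₄, G, l₁, l₂, l₃, l₄, hh, hb, hw, hG⟩ := inst (pvgSites g) hg'.2.1 (pvmg_G_dense hρ hg'.2.2)
      have db : ∀ c, pvConf (pvMerge (g, c)) ∈ pvkoΨ l → PvkoPat l (pvgSites g) (pvaeCol g c) := fun c hc =>
        (pvae_col_cast (PvkoPat l) hg'.1 c).1 (pvko_pat_of_Ψ hc)
      have dw : ∀ c, pvConf (pvMerge (g, c)) ∈ cfFlip ⁻¹' pvkoΨ l → PvkoPat l (pvgSites g) (fun v => !pvaeCol g c v) := fun c hc => by
        have h1 : pvConf (pvMerge (g, pvColFlip c)) ∈ pvkoΨ l := by rw [← pvqu_flip_conf]; exact hc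
        have h2 := db _ h1
        rwa [pvae_col_flip] at h2
      exact ⟨A, F₁, F₂, F₃, F₄, G, l₁, l₂, l₃, l₄, hh, fun c hc => (hb _ (db c hc)).1, fun c hc => (hw _ (dw c hc)).1, fun c hc => (hb _ (db c hc)).2,
        fun c hc => (hw _ (dw c hc)).2, fun c hc => pvko_tg_self ((pvae_col_cast (PvkoTg E) hg'.1 c).2 (hG _ hc))⟩
  exact pvae_half key (hlow ε hε) hbad ENNReal.ofReal_ne_top

/-- **THE ROOF OF [ADM]** -/
theorem pvko_roof (𝔭 : PvkdPlug) {l : List RswTri} (hn : ∀ e ∈ l, e.Nice) (hr : ∀ e ∈ l, PvkoRsw e) {ρ L : ℝ} (hρ : 0 < ρ) (hL : 0 ≤ L)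
    (inst : ∀ Y : Set ℂ, PvatNice Y → VorDense Y (pvmSq 0 L) ρ → PvkoInst 𝔭 l Y) : PvkdAdm 𝔭 := pvko_roofE _ hn hr hρ hL inst

/-! ## 6. the instance from a net of rope A -/

section net

variable {V D : Type} [DecidableEq V] {T : PvMap V D} {ι : Type} [Fintype ι]

theorem pvko_class_congr {K : Set V} {R : Finset V} (hK : K ⊆ (R : Set V)) {ω₁ ω₂ : V → Bool} (h : ∀ v ∈ R, ω₁ v = ω₂ v) (c : Bool) : K ∩ pvamC c ω₁ = K ∩ pvamC c ω₂ := by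
  ext v
  constructor
  · rintro ⟨h1, h2⟩
    exact ⟨h1, by show ω₂ v = c; rw [← h v (hK h1)]; exact h2⟩
  · rintro ⟨h1, h2⟩
    exact ⟨h1, by show ω₁ v = c; rw [h v (hK h1)]; exact h2⟩

/-- the white copy event reads the classes of its links (form `PvalLoc`) -/
theorem pvko_U1_loc {I : PvamIn T ι} (N : PvamNet I) {Kw : Finset V} (h : ∀ l ∈ N.wl, l.1.K ⊆ (Kw : Set V) ∧ l.2.K ⊆ (Kw : Set V)) : PvalLoc Kw N.U1 := by
  intro ω₁ ω₂ hag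
  apply propext
  unfold PvamNet.U1 PvamHalf.Ev
  refine forall₂_congr fun l hl => ?_
  rw [pvko_class_congr (h l hl).1 hag, pvko_class_congr (h l hl).2 hag]

/-- the black copy event reads the classes of its links (form `PvalLoc`) -/
theorem pvko_U2_loc {I : PvamIn T ι} (N : PvamNet I) {Kb : Finset V} (h : ∀ l ∈ N.bl, l.1.K ⊆ (Kb : Set V) ∧ l.2.K ⊆ (Kb : Set V))
    (h' : ∀ l ∈ N.bd, l.1.K ⊆ (Kb : Set V) ∧ l.2.K ⊆ (Kb : Set V)) : PvalLoc Kb N.U2 := by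
  intro ω₁ ω₂ hag
  apply propext
  unfold PvamNet.U2 PvamHalf.Ev PvamEnd.Ev
  refine and_congr (forall₂_congr fun l hl => ?_) (forall₂_congr fun l hl => ?_)
  · rw [pvko_class_congr (h l hl).1 hag, pvko_class_congr (h l hl).2 hag]
  · rw [pvko_class_congr (h' l hl).1 hag, pvko_class_congr (h' l hl).2 hag]

end net

/-- **THE NET OF ROPE A AT THE POINT SET `Y`** (= BLOCK B [INST] + BLOCKS C, D [`out`]): exploration data `I`, net `N` on ANY dart map `T` with vertex set `Y` (`delMap h`, or `(delbPl Y).toMap`),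
the four classes of sites, the explored events `FW` (white), `FB` (black) -/
structure PvkoNet (E : Set (Conf PvPt)) (l : List RswTri) {Y : Set ℂ} {D : Type} (T : PvMap Y D) (ι : Type) [Fintype ι] where
  I : PvamIn T ι
  N : PvamNet I
  /-- the classes: explored white, explored black, fresh white, fresh black -/
  Rw : Finset Y
  Rb : Finset Y
  Kw : Finset Y
  Kb : Finset Y
  dR : Disjoint Rw Rb
  dK : Disjoint Kw Kb
  FW : (Y → Bool) → Prop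
  FB : (Y → Bool) → Prop
  lFW : PvalLoc Rw FW
  lFB : PvalLoc Rb FB
  hwl : ∀ k ∈ N.wl, k.1.K ⊆ (Kw : Set Y) ∧ k.2.K ⊆ (Kw : Set Y)
  hbl : ∀ k ∈ N.bl, k.1.K ⊆ (Kb : Set Y) ∧ k.2.K ⊆ (Kb : Set Y)
  hbd : ∀ k ∈ N.bd, k.1.K ⊆ (Kb : Set Y) ∧ k.2.K ⊆ (Kb : Set Y)
  /-- the explored event -/
  hF : ∀ ω, FW ω → FB ω → N.F ω
  /-- DICTIONARY, black patterns -/
  pB : ∀ s, PvkoPat l Y s → FB s ∧ N.U2 s
  /-- DICTIONARY, white patterns -/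
  pW : ∀ s, PvkoPat l Y (fun v => !s v) → FW s ∧ N.U1 s
  /-- BLOCKS C, D: the output forces the target (`E = 𝔭.CH 0 1`: the plug of record with its four half lanes) -/
  out : ∀ s, N.Out s → PvkoTg E Y s

/-- **a net gives the instance** -/
theorem pvko_inst_of_net {E : Set (Conf PvPt)} {l : List RswTri} {Y : Set ℂ} {D : Type} {T : PvMap Y D} {ι : Type} [Fintype ι] (W : PvkoNet E l T ι) : PvkoInstE E l Y := by
  classical
  have a1 : W.Rw ⊆ W.Rw ∪ W.Rb ∪ (W.Kw ∪ W.Kb) := fun v hv => Finset.mem_union_left _ (Finset.mem_union_left _ hv)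
  have a2 : W.Rb ⊆ W.Rw ∪ W.Rb ∪ (W.Kw ∪ W.Kb) := fun v hv => Finset.mem_union_left _ (Finset.mem_union_right _ hv)
  have a3 : W.Kw ⊆ W.Rw ∪ W.Rb ∪ (W.Kw ∪ W.Kb) := fun v hv => Finset.mem_union_right _ (Finset.mem_union_left _ hv)
  have a4 : W.Kb ⊆ W.Rw ∪ W.Rb ∪ (W.Kw ∪ W.Kb) := fun v hv => Finset.mem_union_right _ (Finset.mem_union_right _ hv)
  have l1 := pvko_U1_loc W.N W.hwl
  have l2 := pvko_U2_loc W.N W.hbl W.hbd
  refine ⟨W.Rw ∪ W.Rb ∪ (W.Kw ∪ W.Kb), W.FB, W.FW, W.N.U2, W.N.U1, W.N.Out, pval_loc_mono a2 W.lFB, pval_loc_mono a1 W.lFW, pval_loc_mono a4 l2, pval_loc_mono a3 l1,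
    fun ξ => ?_, W.pB, W.pW, W.out⟩
  have := pvam_net_prob W.N a2 a4 W.dR W.dK ξ (pval_loc_dep W.lFW _ ξ) (pval_loc_dep W.lFB _ ξ) (pval_loc_dep l1 _ ξ) (pval_loc_dep l2 _ ξ) fun ω _ h1 h2 => W.hF ω h1 h2
  calc _ = pvaP (W.Rw ∪ W.Rb ∪ (W.Kw ∪ W.Kb)) ξ W.FW * pvaP (W.Rw ∪ W.Rb ∪ (W.Kw ∪ W.Kb)) ξ W.FB *
        (pvaP (W.Rw ∪ W.Rb ∪ (W.Kw ∪ W.Kb)) ξ W.N.U1 * pvaP (W.Rw ∪ W.Rb ∪ (W.Kw ∪ W.Kb)) ξ W.N.U2) := by ring
    _ ≤ _ := this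

/-! ## 7. tools for the field `out`: the target from positions -/

/-- **how to prove `PvkoTg E Y s`**: a property `Φ` of (point set, colouring) which holds at `(Y, s)` and forces `E` at every configuration -/
theorem pvko_tg_intro {E : Set (Conf PvPt)} (Φ : ∀ Y : Set ℂ, (Y → Bool) → Prop) (h : ∀ η : Conf PvPt, Φ (cfSites η) (pvkiS η) → η ∈ E) {Y : Set ℂ} {s : Y → Bool}
    (hΦ : Φ Y s) : PvkoTg E Y s := by
  intro η hY hs
  subst hY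
  have e : s = pvkiS η := funext fun v => (hs v).symm
  subst e
  exact h η hΦ

theorem pvko_at_id (S : Set ℂ) : pvkdAt 0 1 S = S := by
  unfold pvkdAt
  rw [pvth_sim_id, image_id]

theorem pvko_pg_id (𝔭 : PvkdPlug) : 𝔭.pg 0 1 = ⟨Metric.ball 0 𝔭.a, Metric.ball 0 𝔭.b, 𝔭.Zm, 𝔭.Zp, 𝔭.Tb⟩ := by
  unfold PvkdPlug.pg
  simp only [pvko_at_id]

/-- the mesh of the plug from a finer mesh on a set which contains the window -/
theorem pvko_mesh {Y U E : Set ℂ} {ρ ρ' : ℝ} (hρ' : 0 ≤ ρ') (hd : VorDense Y U ρ) (h : ρ ≤ ρ') (hE : E ⊆ U) : PvtrMesh ρ' E Y :=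
  hd.mono Subset.rfl (fun _ hz => hE (hz (Metric.mem_closedBall_self hρ'))) h

/-- **THE TARGET `𝔭.CH 0 1` FROM POSITIONS** (last step of the field `out`; `Tr/PlugK` v3): nice, mesh, ONE gate of record (`PvzlGt` of 173 at the marks `Subtype.val`, regions NOT placed),
four monochromatic joins from its feet to the targets through sites of the rooms -/
theorem pvko_CH_of_pos (𝔭 : PvkdPlug) {η : Conf PvPt} (hn : PvatNice (cfSites η)) (hm : PvtrMesh 𝔭.ρ 𝔭.Ew (cfSites η)) (g : (pvkiT η).Gate (pvkiS η))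
    (hg : PvzlGt (pvkiT η) Subtype.val (pvkiS η) ⟨Metric.ball 0 𝔭.a, Metric.ball 0 𝔭.b, 𝔭.Zm, 𝔭.Zp, 𝔭.Tb⟩ g)
    (lane : ∀ σ β, ∃ v : ↥(cfSites η), (v : ℂ) ∈ 𝔭.Dr σ β ∧ (pvkiT η).Join univ (pvldCol (pvkiS η) {u | (u : ℂ) ∈ 𝔭.Ln σ β} β) (pvkdFoot g σ β) v) : η ∈ 𝔭.CH 0 1 := by
  have hg' : PvkdGate 𝔭 η 0 1 g := by
    unfold PvkdGate
    rw [pvko_pg_id]
    exact hg
  have hN : η ∈ 𝔭.N 0 1 := ⟨hn, by rw [pvko_at_id]; exact hm⟩
  refine ⟨⟨hN, g, hg'⟩, mem_iInter.2 fun σ => mem_iInter.2 fun β => ?_⟩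
  obtain ⟨v, hv, hj⟩ := lane σ β
  refine ⟨hN, g, hg', v, by rw [pvko_at_id]; exact hv, ?_⟩
  rw [pvko_at_id]
  exact hj

/-- the same on `delMap h` (the map of `Tr/QuadI`, `Tr/QuadX`, `Tr/QuadY`) -/
theorem pvko_CH_of_del (𝔭 : PvkdPlug) {η : Conf PvPt} (hn : PvatNice (cfSites η)) (hm : PvtrMesh 𝔭.ρ 𝔭.Ew (cfSites η)) (h : DelGood (cfSites η)) (g : (delMap h).Gate (pvkiS η))
    (hg : PvzlGt (delMap h) Subtype.val (pvkiS η) ⟨Metric.ball 0 𝔭.a, Metric.ball 0 𝔭.b, 𝔭.Zm, 𝔭.Zp, 𝔭.Tb⟩ g)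
    (lane : ∀ σ β, ∃ v : ↥(cfSites η), (v : ℂ) ∈ 𝔭.Dr σ β ∧ (delMap h).Join univ (pvldCol (pvkiS η) {u | (u : ℂ) ∈ 𝔭.Ln σ β} β) (pvkdFoot g σ β) v) : η ∈ 𝔭.CH 0 1 := by
  have key : ∀ P : PlTri ↥(cfSites η), P = delbPl (cfSites η) → ∀ g : P.toMap.Gate (pvkiS η),
      PvzlGt P.toMap Subtype.val (pvkiS η) ⟨Metric.ball 0 𝔭.a, Metric.ball 0 𝔭.b, 𝔭.Zm, 𝔭.Zp, 𝔭.Tb⟩ g →
      (∀ σ β, ∃ v : ↥(cfSites η), (v : ℂ) ∈ 𝔭.Dr σ β ∧ P.toMap.Join univ (pvldCol (pvkiS η) {u | (u : ℂ) ∈ 𝔭.Ln σ β} β) (pvkdFoot g σ β) v) → η ∈ 𝔭.CH 0 1 := by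
    rintro P rfl g hg lane
    exact pvko_CH_of_pos 𝔭 hn hm g hg lane
  exact key (delPl h) (delb_pl_eq h).symm g hg lane

/- ## 8. the plug of record:  `exit_pvko_inst` (the deterministic exit) and THE ROOF `exit_pvkd_adm : PvkdAdm (pvkdP (1 / 16))` stand in `Exit/Adm.lean` (above the instance `Tr/AdmIB.lean`). -/

end Claimed.Agent.R289
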