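-- KEEP
import Claimed.Agent.R289.Tr.QuadY

/-!
# Row 289 (S0537), box TR, file Tr/QuadZ : GENERAL HALF LINK, PATTERN ENDS, GLUING OF PATTERNS      (helper267; prefix `pvzx_` (continued); 0 sorry)

Sequel of `Tr/QuadX`, `Tr/QuadY`, for the instance of ADMISSION (`Tr/AdmI` of 19).
* sec.1  `pvzx_Ao_mem2`, **(X4') `pvzx_half2`**: half link whose sites lie in the column `x0 + 3ρ < x < x1 - 3ρ` OR above the level `y1 + 3ρ` (anywhere: the link may travel above the quads) ⟹ `∃ z ∈ S2, Join (pvzxAo Q ∪ Q.c.Left) X m z`.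
* sec.2  `pvzx_nbd_R`, `pvzx_S_pos` (a site of `pvzxS Y A K`: colour, `ρ`-collar of `K`, `closedBall w (2ρ) ⊆ U`), **`pvzx_LR_join`**, **`pvzx_TB_join`** (a pattern `rswLR / rswTB` ⟹ a `Join univ (pvzxS Y A K) u v` with the positions of the two ends),
         **`pvzx_glue`**: two paths through the collars of two rectangles in `#` position (overshoot `5ρ` on the four sides) ⟹ a site `x` joined to `u` in `X` and to `u'` in `X'`.
-/

set_option autoImplicit false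
set_option linter.unusedVariables false

namespace Claimed.Agent.R289

open Set Metric Relation

/-! ## 1. the general half link -/

section del

variable {Y : Set ℂ} {h : DelGood Y} {x0 x1 y0 y1 ρ : ℝ} {Q : (delMap h).Quad}

/-- a face off the disc each of whose vertices lies in the open column above the bottom collar, or above the top collar, belongs to `pvzxAo Q` -/
theorem pvzx_Ao_mem2 (ok : PvzqOk h x0 x1 y0 y1 ρ Q) (hy : y0 ≤ y1) (hx : x0 ≤ x1) (hd : VorDense Y (pvzqR x0 x1 y0 y1) ρ) {d : DelDart h} (hdL : d ∉ Q.c.Left)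
    (hp : ∀ v : Y, (v = (delMap h).src d ∨ v = (delMap h).tgt d ∨ v = (delMap h).apex d) → (x0 + ρ < (v : ℂ).re ∧ (v : ℂ).re < x1 - ρ ∧ y0 + ρ < (v : ℂ).im) ∨ y1 + ρ < (v : ℂ).im) :
    d ∈ pvzxAo Q := by
  refine ⟨hdL, fun v hv hV => ?_⟩
  rcases hp v hv with ⟨p1, p2, p3⟩ | p
  · rcases ok.col hy hx hd (pvzx_verts_of (dls_isSph h) Q.c hV (pvzx_face_not_int Q.c hdL hv)) p1 p2 with h' | h'
    · linarith [h'.2]
    · exact h'.1
  · linarith [(ok.out v hV).2.2.2]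

/-- **(X4') HALF LINK, general form**: the sites of the path lie in the column `x0 + 3ρ < x < x1 - 3ρ` OR above the level `y1 + 3ρ` (anywhere) -/
theorem pvzx_half2 {U : Set ℂ} (ok : PvzqOk h x0 x1 y0 y1 ρ Q) (hρ : 0 < ρ) (hx : x0 ≤ x1) (hy : 4 * ρ < y1 - y0) (hd : VorDense Y U ρ) (hR : pvzqR x0 x1 y0 y1 ⊆ U)
    {X : Set Y} (hX : ∀ v ∈ X, ((x0 + 3 * ρ < (v : ℂ).re ∧ (v : ℂ).re < x1 - 3 * ρ) ∨ y1 + 3 * ρ < (v : ℂ).im) ∧ closedBall (v : ℂ) (2 * ρ) ⊆ U)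
    {m b : Y} (hmb : (delMap h).Join univ X m b) (hm : y1 - ρ ≤ (m : ℂ).im) (hb : (b : ℂ).im < y0 - ρ) :
    ∃ z ∈ Q.S2, (delMap h).Join (pvzxAo Q ∪ Q.c.Left) X m z := by
  have hd0 : VorDense Y (pvzqR x0 x1 y0 y1) ρ := hd.mono Subset.rfl hR le_rfl
  have hy' : y0 ≤ y1 := by linarith
  have hT := dls_isSph h
  refine pvzx_descend hT Q (fun v : Y => (v : ℂ).im) (α := y0 + ρ) (β := y1 - ρ) (by linarith) ?_ ?_ ?_ ?_ hmb hm (by show (b : ℂ).im ≤ _; linarith) ?_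
  · intro v hv hvc
    rcases (hX v hv).1 with hc | hc
    · exact ok.col hy' hx hd0 hvc (by linarith [hc.1]) (by linarith [hc.2])
    · have := (ok.out v (pl_qd_verts_VOf hT Q.c hvc)).2.2.2
      linarith
  · intro v hv h1 h2
    rcases (hX v hv).1 with hc | hc
    · exact ok.deep v ⟨by linarith [hc.1], by linarith [hc.2], h1, h2⟩
    · have h2' : (v : ℂ).im < y1 - ρ := h2
      linarith
  · intro u hu v hv hadj h1 h2
    have := (pvzx_short_re hρ hd (hX u hu).2 ((dls_adj_iff h u v).1 hadj)).2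
    rw [abs_le] at this
    linarith [this.2]
  · intro d hs ht h1 h2
    by_cases hdL : d ∈ Q.c.Left
    · exact Or.inl hdL
    · refine Or.inr (pvzx_Ao_mem2 ok hy' hx hd0 hdL ?_)
      have h1' : y1 - ρ ≤ (((delMap h).src d : Y) : ℂ).im := h1
      have h2' : y1 - ρ ≤ (((delMap h).tgt d : Y) : ℂ).im := h2
      rintro v (rfl | rfl | rfl)
      · rcases (hX _ hs).1 with hc | hc
        · exact Or.inl ⟨by linarith [hc.1], by linarith [hc.2], by linarith⟩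
        · exact Or.inr (by linarith)
      · rcases (hX _ ht).1 with hc | hc
        · exact Or.inl ⟨by linarith [hc.1], by linarith [hc.2], by linarith⟩
        · exact Or.inr (by linarith)
      · obtain ⟨n1, -⟩ := pvzx_apex_near hρ hd d (hX _ hs).2
        have r1 := (Complex.abs_re_le_norm _).trans n1
        have r2 := (Complex.abs_im_le_norm _).trans n1
        rw [Complex.sub_re, abs_le] at r1
        rw [Complex.sub_im, abs_le] at r2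
        rcases (hX _ hs).1 with hc | hc
        · exact Or.inl ⟨by linarith [hc.1, r1.2], by linarith [hc.2, r1.1], by linarith [r2.2]⟩
        · exact Or.inr (by linarith [r2.2])
  · exact ok.not_int fun hc => by linarith [hc.2.2.1]

/-! ## 2. patterns: positions, gluing -/

theorem pvzx_nbd_R (a0 a1 b0 b1 r : ℝ) : vorNbd (pvzqR a0 a1 b0 b1) r ⊆ pvzqR (a0 - r) (a1 + r) (b0 - r) (b1 + r) := by
  rintro w ⟨z, hz, hw⟩
  exact pvzq_R_near hz (by rw [norm_sub_rev]; exact hw)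

/-- the sites of a pattern set: colour, position, room for the mesh -/
theorem pvzx_S_pos {U A : Set ℂ} {a0 a1 b0 b1 : ℝ} (hρ : 0 < ρ) (hd : VorDense Y U ρ) (hU : pvzqR (a0 - 3 * ρ) (a1 + 3 * ρ) (b0 - 3 * ρ) (b1 + 3 * ρ) ⊆ U) {w : Y}
    (hw : w ∈ pvzxS Y A (pvzqR a0 a1 b0 b1)) : (w : ℂ) ∈ A ∧ (w : ℂ) ∈ pvzqR (a0 - ρ) (a1 + ρ) (b0 - ρ) (b1 + ρ) ∧ closedBall (w : ℂ) (2 * ρ) ⊆ U := by
  have h0 : pvzqR a0 a1 b0 b1 ⊆ U := (pvzq_R_mono (by linarith) (by linarith) (by linarith) (by linarith)).trans hU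
  have h1 := pvzq_meet_near (hd.mono Subset.rfl h0 le_rfl) hw.2
  refine ⟨hw.1, h1, (pvzx_ball_sub ?_).trans hU⟩
  exact pvzq_R_mono (by linarith) (by linarith) (by linarith) (by linarith) h1

/-- the ends of an LR pattern -/
theorem pvzx_LR_join {U A : Set ℂ} {a0 a1 b0 b1 : ℝ} (h : DelGood Y) (hA : A ⊆ Y) (hρ : 0 < ρ) (hd : VorDense Y U ρ) (hU : pvzqR (a0 - 3 * ρ) (a1 + 3 * ρ) (b0 - 3 * ρ) (b1 + 3 * ρ) ⊆ U)
    (he : (rswLR a0 a1 b0 b1).Holds (vorUn Y A)) :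
    ∃ u v : Y, (u : ℂ).re ≤ a0 + ρ ∧ a1 - ρ ≤ (v : ℂ).re ∧ (delMap h).Join univ (pvzxS Y A (pvzqR a0 a1 b0 b1)) u v := by
  have h0 : pvzqR a0 a1 b0 b1 ⊆ U := (pvzq_R_mono (by linarith) (by linarith) (by linarith) (by linarith)).trans hU
  obtain ⟨u, v, hu, hv, hj⟩ := pvzx_holds_join h hA (e := rswLR a0 a1 b0 b1) (pvzq_R_convex a0 a1 b0 b1) he
  obtain ⟨-, p, hp, hpS, hpK⟩ := hu
  obtain ⟨-, q, hq, hqS, hqK⟩ := hv
  have n1 := pvzq_R_near (show p ∈ pvzqR a0 a0 b0 b1 from hpS) (vor_site_near hd hp (h0 hpK))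
  have n2 := pvzq_R_near (show q ∈ pvzqR a1 a1 b0 b1 from hqS) (vor_site_near hd hq (h0 hqK))
  exact ⟨u, v, n1.2.1, n2.1, hj⟩

/-- the ends of a TB pattern (`u` at the bottom, `v` at the top) -/
theorem pvzx_TB_join {U A : Set ℂ} {a0 a1 b0 b1 : ℝ} (h : DelGood Y) (hA : A ⊆ Y) (hρ : 0 < ρ) (hd : VorDense Y U ρ) (hU : pvzqR (a0 - 3 * ρ) (a1 + 3 * ρ) (b0 - 3 * ρ) (b1 + 3 * ρ) ⊆ U)
    (he : (rswTB a0 a1 b0 b1).Holds (vorUn Y A)) :
    ∃ u v : Y, (u : ℂ).im ≤ b0 + ρ ∧ b1 - ρ ≤ (v : ℂ).im ∧ (delMap h).Join univ (pvzxS Y A (pvzqR a0 a1 b0 b1)) u v := by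
  have h0 : pvzqR a0 a1 b0 b1 ⊆ U := (pvzq_R_mono (by linarith) (by linarith) (by linarith) (by linarith)).trans hU
  obtain ⟨u, v, hu, hv, hj⟩ := pvzx_holds_join h hA (e := rswTB a0 a1 b0 b1) (pvzq_R_convex a0 a1 b0 b1) he
  obtain ⟨-, p, hp, hpS, hpK⟩ := hu
  obtain ⟨-, q, hq, hqS, hqK⟩ := hv
  have n1 := pvzq_R_near (show p ∈ pvzqR a0 a1 b0 b0 from hpS) (vor_site_near hd hp (h0 hpK))
  have n2 := pvzq_R_near (show q ∈ pvzqR a0 a1 b1 b1 from hqS) (vor_site_near hd hq (h0 hqK))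
  exact ⟨u, v, n1.2.2.2, n2.2.2.1, hj⟩

/-- **GLUE**: a path `u → v` through sites of the collar of `[a0,a1] × [b0,b1]` and a path `u' → v'` through sites of the collar of `[c0,c1] × [d0,d1]`, the two rectangles in `#` position with overshoot `5ρ`: the two CLUSTERS share a site -/
theorem pvzx_glue {U : Set ℂ} {a0 a1 b0 b1 c0 c1 d0 d1 : ℝ} (h : DelGood Y) (hρ : 0 < ρ) (hd : VorDense Y U ρ) (hc : c0 ≤ c1) (hb : b0 ≤ b1)
    (g0 : a0 + 5 * ρ < c0) (g1 : c1 + 5 * ρ < a1) (g2 : d0 + 5 * ρ < b0) (g3 : b1 + 5 * ρ < d1) (hU : pvzqR (c0 - 6 * ρ) (c1 + 6 * ρ) (b0 - 6 * ρ) (b1 + 6 * ρ) ⊆ U)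
    {X X' : Set Y} (hX : ∀ v ∈ X, (v : ℂ) ∈ pvzqR (a0 - ρ) (a1 + ρ) (b0 - ρ) (b1 + ρ) ∧ closedBall (v : ℂ) (2 * ρ) ⊆ U)
    (hX' : ∀ v ∈ X', (v : ℂ) ∈ pvzqR (c0 - ρ) (c1 + ρ) (d0 - ρ) (d1 + ρ) ∧ closedBall (v : ℂ) (2 * ρ) ⊆ U)
    {u v u' v' : Y} (huv : (delMap h).Join univ X u v) (hu : (u : ℂ).re ≤ a0 + ρ) (hv : a1 - ρ ≤ (v : ℂ).re)
    (huv' : (delMap h).Join univ X' u' v') (hu' : (u' : ℂ).im ≤ d0 + ρ) (hv' : d1 - ρ ≤ (v' : ℂ).im) :
    ∃ x, (delMap h).Join univ X u x ∧ (delMap h).Join univ X' u' x := by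
  obtain ⟨x, hx, hx'⟩ := pvzx_meet (x0 := c0 - 3 * ρ) (x1 := c1 + 3 * ρ) (y0 := b0 - 3 * ρ) (y1 := b1 + 3 * ρ) h hρ (by linarith) (by linarith) hd
    ((pvzx_nbd_R _ _ _ _ _).trans ((pvzq_R_mono (by linarith) (by linarith) (by linarith) (by linarith)).trans hU))
    (X := (delMap h).Clu univ X u) (X' := (delMap h).Clu univ X' u')
    (fun w hw => by
      obtain ⟨p, q⟩ := hX w (pl_qd_clu_sub _ _ _ hw)
      exact ⟨by linarith [p.2.2.1], by linarith [p.2.2.2], q⟩)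
    (fun w hw => by
      obtain ⟨p, q⟩ := hX' w (pl_qd_clu_sub _ _ _ hw)
      exact ⟨by linarith [p.1], by linarith [p.2.1], q⟩)
    (pl_qd_join_clu huv) (by linarith) (by linarith) (pl_qd_join_clu huv') (by linarith) (by linarith)
  exact ⟨x, hx, hx'⟩

end del

end Claimed.Agent.R289
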