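-- KEEP
import Claimed.Agent.R289.Tr.QuadZ
import Claimed.Agent.R289.Tr.QuadD
import Claimed.Agent.R289.Tr.AdmOut
import Claimed.Agent.R289.Tr.AdmP

/-!
# Row 289 (S0537), THE WALL, ADMISSION, ROPE A, BLOCK B (INSTANCE), file Tr/AdmIB : THE DEFINITIONS OF THE INSTANCE      (pen helper267 by ruling B-1 of 259; numbers = table of 127, 12:15Z; prefix `pvzb_`, `Pvzb`, `pvzb`)

UNIT `d = r/16 = 1/256` (`r = 1/16`), mesh `ρ = d/100`, edges `≤ 2ρ`, square `L = 120 d`.      `σ : Bool`: `true` = EAST, `false` = WEST (mirror `x → -x`).      Map: `delMap h`.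
* sec.1  boxes: `PvzbBx` (direction + four numbers), `pvzbBx lr σ a0 a1 b0 b1` (units of `d`, mirrored for `σ = false`), `B.tri` (the pattern), `B.R`, `B.col` (collar `ρ`), **`B.Cr h c ω`** (a crossing of colour `c` by sites of the collar).
* sec.2  THE TABLE: quad `pvzbQd σ`; explored black `pvzbFb`; explored white `pvzbHu` (hub strip), `pvzbKt Kl Kd` (columns), `pvzbTu` (tube line), `pvzbLb` (low bar), `pvzbW1 W2 W3` (door lane);
         fresh white `pvzbUp`, `pvzbTo`; fresh black `pvzbCi`, `pvzbMi`, `pvzbCo`, `pvzbB1 B2 B3`;      lists `pvzbLFB LFW LUW LUB`, the list of patterns **`pvzbl`** (32).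
* sec.3  rooms: `pvzbLo`, `PvzbTy` (`up cin cout`), `pvzbG t σ`, `pvzbGd t σ`, `pvzbGt σ`, `pvzbZ σ β`, `pvzbG1` (lower half circuit), `pvzbG2` (tube line), `pvzbG3 σ` (white door lane).
* sec.4  the quads `pvzbQ h hd σ` (`pvzb_Q_ok`, `pvzb_Q_d`), the family **`pvzbF h hd : PvzdFam h Bool`**, half links `pvzbH h hd t σ`, ends `pvzbE h hd σ`, the net **`pvzbN h hd`**, the links of the plug **`pvzbK h hd : PvazLk`**.
* sec.5  classes `pvzbCl h L : Finset Y`, events `pvzbEv h c L ω` (all the boxes of the list are crossed in colour `c`):      `Rw Rb Kw Kb := pvzbCl h pvzbLFW, LFB, LUW, LUB`;  `FW := pvzbEv h false pvzbLFW`, `FB := pvzbEv h true pvzbLFB`.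
The leaves (statements with `sorry`) and the assembly `PvkoNet` are in `Tr/AdmIR`.
-/

set_option autoImplicit false
set_option linter.unusedSectionVars false
set_option linter.unusedVariables false
set_option linter.unusedSimpArgs false

namespace Claimed.Agent.R289

open Set Metric Relation

/-! ## 1. boxes -/

/-- the mesh `ρ = d/100`, `d = 1/256` -/
noncomputable def pvzbρ : ℝ := 1 / 25600

/-- the half side of the square: `120 d` -/
noncomputable def pvzbL : ℝ := 120 / 256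

/-- a box with a direction (`lr = true`: crossed from left to right; `false`: from bottom to top) -/
structure PvzbBx where
  lr : Bool
  a0 : ℝ
  a1 : ℝ
  b0 : ℝ
  b1 : ℝ

/-- the box `[a0,a1] × [b0,b1]` in units of `d = 1/256`;   `σ = false`: its mirror image -/
noncomputable def pvzbBx (lr σ : Bool) (a0 a1 b0 b1 : ℝ) : PvzbBx :=
  ⟨lr, if σ then a0 / 256 else -(a1 / 256), if σ then a1 / 256 else -(a0 / 256), b0 / 256, b1 / 256⟩

namespace PvzbBx

/-- the pattern -/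
noncomputable def tri (B : PvzbBx) : RswTri := if B.lr then rswLR B.a0 B.a1 B.b0 B.b1 else rswTB B.a0 B.a1 B.b0 B.b1

/-- the closed rectangle -/
def R (B : PvzbBx) : Set ℂ := pvzqR B.a0 B.a1 B.b0 B.b1

/-- the collar: the sites whose cells meet the rectangle lie in it -/
noncomputable def col (B : PvzbBx) : Set ℂ := pvzqR (B.a0 - pvzbρ) (B.a1 + pvzbρ) (B.b0 - pvzbρ) (B.b1 + pvzbρ)

/-- the sites of colour `c` in the collar -/
noncomputable def St {Y : Set ℂ} (B : PvzbBx) (c : Bool) (ω : Y → Bool) : Set Y := {w | (w : ℂ) ∈ B.col ∧ ω w = c}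

/-- **CROSSING** of colour `c` by sites of the collar: `u` = left (bottom) end, `v` = right (top) end -/
def Cr {Y : Set ℂ} (B : PvzbBx) (h : DelGood Y) (c : Bool) (ω : Y → Bool) : Prop :=
  ∃ u v : Y, (if B.lr then (u : ℂ).re ≤ B.a0 + pvzbρ ∧ B.a1 - pvzbρ ≤ (v : ℂ).re else (u : ℂ).im ≤ B.b0 + pvzbρ ∧ B.b1 - pvzbρ ≤ (v : ℂ).im) ∧
    (delMap h).Join univ (B.St c ω) u v

end PvzbBx

/-! ## 2. the table -/

/-- the QUAD -/
noncomputable def pvzbQd (σ : Bool) : PvzbBx := pvzbBx true σ 19 29 (-4) 4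
/-- explored, black: the strip of the crossing `Cr13` -/
noncomputable def pvzbFb (σ : Bool) : PvzbBx := pvzbBx true σ 17.5 30.5 1.5 2.5
/-- explored, white: the strip of the hub (`θ = -d`) -/
noncomputable def pvzbHu (σ : Bool) : PvzbBx := pvzbBx true σ 17.5 30.5 (-2.5) (-1.5)
/-- explored, white: the column of the tube line -/
noncomputable def pvzbKt (σ : Bool) : PvzbBx := pvzbBx false σ 23 24 (-7) 0
/-- explored, white: the column of the lower half circuit -/
noncomputable def pvzbKl (σ : Bool) : PvzbBx := pvzbBx false σ 20 21 (-20) 0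
/-- explored, white: the column of the door lane -/
noncomputable def pvzbKd (σ : Bool) : PvzbBx := pvzbBx false σ 27 28 (-7) 0
/-- explored, white: the tube line -/
noncomputable def pvzbTu : PvzbBx := pvzbBx true true (-25) 25 (-6) (-5)
/-- explored, white: the bar of the lower half circuit -/
noncomputable def pvzbLb : PvzbBx := pvzbBx true true (-22) 22 (-19) (-18)
/-- explored, white: the door lane -/
noncomputable def pvzbW1 (σ : Bool) : PvzbBx := pvzbBx true σ 26 38 (-6) (-5)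
noncomputable def pvzbW2 (σ : Bool) : PvzbBx := pvzbBx false σ 36 37 (-17) (-4.5)
noncomputable def pvzbW3 (σ : Bool) : PvzbBx := pvzbBx true σ 35 100 (-16) (-15)
/-- fresh, white: the column of the upper half circuit -/
noncomputable def pvzbUp (σ : Bool) : PvzbBx := pvzbBx false σ 23.5 24.5 (-6) 19
/-- fresh, white: the bar of the upper half circuit -/
noncomputable def pvzbTo : PvzbBx := pvzbBx true true (-25.5) 25.5 17 18
/-- fresh, black: the column of the connector -/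
noncomputable def pvzbCi (σ : Bool) : PvzbBx := pvzbBx false σ 20 21 (-6) 7.5
/-- fresh, black: the bar of the connector -/
noncomputable def pvzbMi : PvzbBx := pvzbBx true true (-22) 22 5.5 6.5
/-- fresh, black: the column of the door lane -/
noncomputable def pvzbCo (σ : Bool) : PvzbBx := pvzbBx false σ 27 28 (-6) 7.5
/-- fresh, black: the door lane -/
noncomputable def pvzbB1 (σ : Bool) : PvzbBx := pvzbBx true σ 26 38 5.5 6.5
noncomputable def pvzbB2 (σ : Bool) : PvzbBx := pvzbBx false σ 36 37 4.5 17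
noncomputable def pvzbB3 (σ : Bool) : PvzbBx := pvzbBx true σ 35 100 15 16

/-- explored, black -/
noncomputable def pvzbLFB : List PvzbBx := [pvzbFb false, pvzbFb true]
/-- explored, white -/
noncomputable def pvzbLFW : List PvzbBx := [pvzbHu false, pvzbHu true, pvzbKt false, pvzbKt true, pvzbKl false, pvzbKl true, pvzbKd false, pvzbKd true, pvzbTu, pvzbLb,
  pvzbW1 false, pvzbW1 true, pvzbW2 false, pvzbW2 true, pvzbW3 false, pvzbW3 true]
/-- fresh, white -/
noncomputable def pvzbLUW : List PvzbBx := [pvzbUp false, pvzbUp true, pvzbTo]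
/-- fresh, black -/
noncomputable def pvzbLUB : List PvzbBx := [pvzbCi false, pvzbCi true, pvzbMi, pvzbCo false, pvzbCo true, pvzbB1 false, pvzbB1 true, pvzbB2 false, pvzbB2 true, pvzbB3 false, pvzbB3 true]

/-- **THE LIST OF PATTERNS** -/
noncomputable def pvzbl : List RswTri := (pvzbLFB ++ pvzbLFW ++ pvzbLUW ++ pvzbLUB).map PvzbBx.tri

/-! ## 3. rooms -/

/-- the low region: `im ≤ y0 + ρ` in the square -/
noncomputable def pvzbLo : Set ℂ := {z | z.im ≤ -4 / 256 + pvzbρ} ∩ pvmSq 0 pvzbL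

/-- the three kinds of half links: upper half circuit (white), connector (black), door lane (black) -/
inductive PvzbTy where
  | up
  | cin
  | cout

/-- the column of a half link -/
noncomputable def PvzbTy.cl : PvzbTy → Bool → PvzbBx
  | .up, σ => pvzbUp σ
  | .cin, σ => pvzbCi σ
  | .cout, σ => pvzbCo σ

/-- the bar of a half link -/
noncomputable def PvzbTy.br : PvzbTy → Bool → PvzbBx
  | .up, _ => pvzbTo
  | .cin, _ => pvzbMi
  | .cout, σ => pvzbB1 σ

/-- the room of a half link: the column above the bottom collar of the quad, the bar -/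
noncomputable def pvzbG (t : PvzbTy) (σ : Bool) : Set ℂ := ((t.cl σ).col ∩ {z | -4 / 256 + pvzbρ < z.im}) ∪ (t.br σ).col

/-- the foot of the column -/
noncomputable def pvzbGd (t : PvzbTy) (σ : Bool) : Set ℂ := (t.cl σ).col ∩ {z | z.im ≤ -4 / 256 + pvzbρ}

/-- the room of the end of a black door lane -/
noncomputable def pvzbGt (σ : Bool) : Set ℂ := (pvzbB1 σ).col ∪ (pvzbB2 σ).col ∪ (pvzbB3 σ).col

/-- the terminal regions (`β = true`: black lane, `false`: white lane), inside the targets of the plug of record -/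
noncomputable def pvzbZ (σ β : Bool) : Set ℂ := (pvzbBx true σ 99 101 (if β then 14 else -17) (if β then 17 else -14)).R

/-- the room of the lower half circuit -/
noncomputable def pvzbG1 : Set ℂ := (pvzbQd false).col ∪ (pvzbQd true).col ∪ (pvzbKl false).col ∪ (pvzbKl true).col ∪ pvzbLb.col

/-- the room of the tube line -/
noncomputable def pvzbG2 : Set ℂ := (pvzbQd false).col ∪ (pvzbQd true).col ∪ (pvzbKt false).col ∪ (pvzbKt true).col ∪ pvzbTu.col

/-- the room of a white door lane -/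
noncomputable def pvzbG3 (σ : Bool) : Set ℂ := (pvzbQd σ).col ∪ (pvzbKd σ).col ∪ (pvzbW1 σ).col ∪ (pvzbW2 σ).col ∪ (pvzbW3 σ).col

theorem pvzb_eqns_cite : True := by
  have := @pvzbρ.eq_1; have := @pvzbL.eq_1; have := @pvzbBx.eq_1; have := @PvzbBx.tri.eq_1; have := @PvzbBx.R.eq_1; have := @PvzbBx.col.eq_1; have := @PvzbBx.St.eq_1; have := @PvzbBx.Cr.eq_1
  have := @pvzbQd.eq_1; have := @pvzbFb.eq_1; have := @pvzbHu.eq_1; have := @pvzbKt.eq_1; have := @pvzbKl.eq_1; have := @pvzbKd.eq_1; have := @pvzbTu.eq_1; have := @pvzbLb.eq_1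
  have := @pvzbW1.eq_1; have := @pvzbW2.eq_1; have := @pvzbW3.eq_1; have := @pvzbUp.eq_1; have := @pvzbTo.eq_1; have := @pvzbCi.eq_1; have := @pvzbMi.eq_1; have := @pvzbCo.eq_1
  have := @pvzbB1.eq_1; have := @pvzbB2.eq_1; have := @pvzbB3.eq_1; have := @pvzbLFB.eq_1; have := @pvzbLFW.eq_1; have := @pvzbLUW.eq_1; have := @pvzbLUB.eq_1; have := @pvzbl.eq_1
  have := @pvzbLo.eq_1; have := @PvzbTy.cl.eq_1; have := @PvzbTy.br.eq_1; have := @pvzbG.eq_1; have := @pvzbGd.eq_1; have := @pvzbGt.eq_1; have := @pvzbZ.eq_1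
  have := @pvzbG1.eq_1; have := @pvzbG2.eq_1; have := @pvzbG3.eq_1
  trivial

theorem pvzb_ρ_pos : 0 < pvzbρ := by unfold pvzbρ; norm_num

/-- a rectangle inside the square -/
theorem pvzb_R_sq {a0 a1 b0 b1 : ℝ} (h0 : -pvzbL ≤ a0) (h1 : a1 ≤ pvzbL) (h2 : -pvzbL ≤ b0) (h3 : b1 ≤ pvzbL) : pvzqR a0 a1 b0 b1 ⊆ pvmSq 0 pvzbL := by
  rintro z ⟨k0, k1, k2, k3⟩
  refine ⟨?_, ?_⟩
  · rw [Complex.zero_re, sub_zero, abs_le]; exact ⟨by linarith, by linarith⟩
  · rw [Complex.zero_im, sub_zero, abs_le]; exact ⟨by linarith, by linarith⟩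

/-- finitely many sites in a rectangle -/
theorem pvzb_fin_R {Y : Set ℂ} (h : DelGood Y) (a0 a1 b0 b1 : ℝ) : {v : Y | (v : ℂ) ∈ pvzqR a0 a1 b0 b1}.Finite := by
  have h1 := h.lf (|a0| + |a1| + |b0| + |b1|)
  refine Set.Finite.of_finite_image (f := Subtype.val) (h1.subset ?_) Subtype.val_injective.injOn
  rintro _ ⟨v, ⟨k0, k1, k2, k3⟩, rfl⟩
  refine ⟨v.2, ?_⟩
  rw [mem_closedBall, dist_zero_right]
  have e := Complex.norm_le_abs_re_add_abs_im (v : ℂ)
  have e1 : |(v : ℂ).re| ≤ |a0| + |a1| := by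
    rw [abs_le]
    exact ⟨by linarith [neg_abs_le a0, abs_nonneg a1], by linarith [le_abs_self a1, abs_nonneg a0]⟩
  have e2 : |(v : ℂ).im| ≤ |b0| + |b1| := by
    rw [abs_le]
    exact ⟨by linarith [neg_abs_le b0, abs_nonneg b1], by linarith [le_abs_self b1, abs_nonneg b0]⟩
  linarith

/-! ## 4. quads, family, links, net -/

section inst

variable {Y : Set ℂ} (h : DelGood Y) (hd : VorDense Y (pvmSq 0 pvzbL) pvzbρ)

include hd in
theorem pvzb_quad_ex (σ : Bool) : ∃ Q : (delMap h).Quad, PvzqOk h (pvzbQd σ).a0 (pvzbQd σ).a1 (pvzbQd σ).b0 (pvzbQd σ).b1 pvzbρ Q := by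
  refine pvzq_exists h pvzb_ρ_pos ?_ ?_ (hd.mono Subset.rfl ((pvzx_nbd_R _ _ _ _ _).trans (pvzb_R_sq ?_ ?_ ?_ ?_)) le_rfl) <;>
  cases σ <;> simp only [pvzbQd, pvzbBx, pvzbρ, pvzbL] <;> norm_num

/-- **THE QUADS** -/
noncomputable def pvzbQ (σ : Bool) : (delMap h).Quad := (pvzb_quad_ex h hd σ).choose

theorem pvzb_Q_ok (σ : Bool) : PvzqOk h (pvzbQd σ).a0 (pvzbQd σ).a1 (pvzbQd σ).b0 (pvzbQd σ).b1 pvzbρ (pvzbQ h hd σ) := (pvzb_quad_ex h hd σ).choose_spec

theorem pvzb_Q_d (σ : Bool) : PvzdQ h (pvzbQ h hd σ) (pvzbQd σ).a0 (pvzbQd σ).a1 (pvzbQd σ).b0 (pvzbQd σ).b1 pvzbρ := by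
  refine (pvzb_Q_ok h hd σ).pvzd_Q ?_ ?_ (hd.mono Subset.rfl (pvzb_R_sq ?_ ?_ ?_ ?_) le_rfl) <;>
  cases σ <;> simp only [pvzbQd, pvzbBx, pvzbρ, pvzbL] <;> norm_num

theorem pvzb_dis (i j : Bool) (hij : i ≠ j) : Disjoint ((delMap h).VOf (pvzbQ h hd i).c.Left) ((delMap h).VOf (pvzbQ h hd j).c.Left) := by
  refine pvzx_disj (pvzb_Q_ok h hd i) (pvzb_Q_ok h hd j) ?_
  cases i <;> cases j <;> first | exact absurd rfl hij | (simp only [pvzbQd, pvzbBx, pvzbρ]; norm_num)

include h in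
theorem pvzb_fLo : {v : Y | (v : ℂ) ∈ pvzbLo}.Finite := by
  refine (pvzb_fin_R h (-pvzbL) pvzbL (-pvzbL) pvzbL).subset ?_
  rintro v ⟨-, k1, k2⟩
  rw [Complex.zero_re, sub_zero, abs_le] at k1
  rw [Complex.zero_im, sub_zero, abs_le] at k2
  exact ⟨k1.1, k1.2, k2.1, k2.2⟩

/-- **THE FAMILY** -/
noncomputable def pvzbF : PvzdFam h Bool where
  Q := pvzbQ h hd
  fin := fun σ => (pvzb_Q_ok h hd σ).fin
  dis := pvzb_dis h hd
  Lo := pvzbLo
  fLo := pvzb_fLo h

theorem pvzb_room (t : PvzbTy) (σ : Bool) : PvzdRoom (pvzbQd σ).a0 (pvzbQd σ).a1 (pvzbQd σ).b0 (pvzbQd σ).b1 pvzbρ (2 * pvzbρ) (pvzbG t σ) (pvzbGd t σ) := by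
  refine ⟨?_, ?_, ?_⟩
  · rintro z (⟨-, hz⟩ | ⟨-, -, hz, -⟩)
    · have hz' : -4 / 256 + pvzbρ < z.im := hz
      simp only [pvzbQd, pvzbBx] at *
      linarith
    · cases t <;> cases σ <;> simp only [PvzbTy.br, pvzbTo, pvzbMi, pvzbB1, pvzbQd, pvzbBx, pvzbρ] at * <;> norm_num at * <;> linarith
  · rintro z (⟨⟨k0, k1, -, -⟩, -⟩ | ⟨-, -, hz, -⟩) - - k
    · cases t <;> cases σ <;> simp only [PvzbTy.cl, pvzbUp, pvzbCi, pvzbCo, pvzbQd, pvzbBx, pvzbρ] at * <;> norm_num at * <;> constructor <;> linarith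
    · exfalso
      cases t <;> cases σ <;> simp only [PvzbTy.br, pvzbTo, pvzbMi, pvzbB1, pvzbQd, pvzbBx, pvzbρ] at * <;> norm_num at * <;> linarith
  · rintro z ⟨⟨k0, k1, -, -⟩, hz⟩
    have hz' : z.im ≤ -4 / 256 + pvzbρ := hz
    cases t <;> cases σ <;> simp only [PvzbTy.cl, pvzbUp, pvzbCi, pvzbCo, pvzbQd, pvzbBx, pvzbρ] at * <;> norm_num at * <;> refine ⟨?_, ?_, ?_⟩ <;> linarith

theorem pvzb_G_Lo (t : PvzbTy) (σ : Bool) : ∀ z ∈ pvzbG t σ, z ∉ (pvzbF h hd).Lo := by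
  rintro z hz ⟨hc, -⟩
  have hc' : z.im ≤ -4 / 256 + pvzbρ := hc
  have := (pvzb_room t σ).g1 z hz
  simp only [pvzbQd, pvzbBx] at this
  linarith

theorem pvzb_G_off (t : PvzbTy) (σ : Bool) : ∀ j, j ≠ σ → ∀ v ∈ (pvzbF h hd).Dk j, (v : ℂ) ∉ pvzbG t σ := by
  rintro j hj v hv hz
  obtain ⟨o1, o2, o3, o4⟩ := (pvzb_Q_ok h hd j).out v hv
  rcases hz with ⟨⟨k0, k1, -, -⟩, -⟩ | ⟨-, -, hz, -⟩
  · cases t <;> cases σ <;> cases j <;> first | exact absurd rfl hj | (simp only [PvzbTy.cl, pvzbUp, pvzbCi, pvzbCo, pvzbQd, pvzbBx, pvzbρ] at *; norm_num at *; linarith)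
  · cases t <;> cases σ <;> cases j <;> first | exact absurd rfl hj | (simp only [PvzbTy.br, pvzbTo, pvzbMi, pvzbB1, pvzbQd, pvzbBx, pvzbρ] at *; norm_num at *; linarith)

theorem pvzb_Gt_Lo (σ : Bool) : ∀ z ∈ pvzbGt σ, z ∉ (pvzbF h hd).Lo := by
  rintro z hz ⟨hc, -⟩
  have hc' : z.im ≤ -4 / 256 + pvzbρ := hc
  rcases hz with (⟨-, -, hz, -⟩ | ⟨-, -, hz, -⟩) | ⟨-, -, hz, -⟩ <;> cases σ <;> simp only [pvzbB1, pvzbB2, pvzbB3, pvzbBx, pvzbρ] at * <;> norm_num at * <;> linarith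

theorem pvzb_Gt_off (σ : Bool) : ∀ j, ∀ v ∈ (pvzbF h hd).Dk j, (v : ℂ) ∉ pvzbGt σ := by
  rintro j v hv hz
  obtain ⟨o1, o2, o3, o4⟩ := (pvzb_Q_ok h hd j).out v hv
  rcases hz with (⟨-, -, hz, -⟩ | ⟨k0, k1, -, -⟩) | ⟨-, -, hz, -⟩ <;> cases σ <;> cases j <;> simp only [pvzbB1, pvzbB2, pvzbB3, pvzbQd, pvzbBx, pvzbρ] at * <;> norm_num at * <;> linarith

/-- **THE HALF LINKS** -/
noncomputable def pvzbH (t : PvzbTy) (σ : Bool) : PvamHalf (pvzbF h hd).In :=
  (pvzbF h hd).half σ (pvzb_Q_d h hd σ) (pvzb_room t σ) (pvzb_G_Lo h hd t σ) (pvzb_G_off h hd t σ)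

/-- **THE ENDS** of the black door lanes -/
noncomputable def pvzbE (σ : Bool) : PvamEnd (pvzbF h hd).In := (pvzbF h hd).tail (pvzbGt σ) (pvzbZ σ true) (pvzb_Gt_Lo h hd σ) (pvzb_Gt_off h hd σ)

/-- the sites of a region -/
def pvzbV (Y : Set ℂ) (G : Set ℂ) : Set Y := {v | (v : ℂ) ∈ G}

/-- **THE NET** -/
noncomputable def pvzbN : PvamNet (pvzbF h hd).In where
  wl := [(pvzbH h hd .up false, pvzbH h hd .up true)]
  bl := [(pvzbH h hd .cin false, pvzbH h hd .cin true)]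
  bd := [(pvzbH h hd .cout false, pvzbE h hd false), (pvzbH h hd .cout true, pvzbE h hd true)]
  xl := [(false, true, univ, pvzbV Y pvzbG1), (false, true, univ, pvzbV Y pvzbG2)]
  xd := [(false, univ, pvzbV Y (pvzbG3 false), pvzbV Y (pvzbZ false false)), (true, univ, pvzbV Y (pvzbG3 true), pvzbV Y (pvzbZ true false))]

/-- **THE LINKS OF THE PLUG** (record of 140) -/
noncomputable def pvzbK : PvazLk (pvzbN h hd) where
  lw := (pvzbH h hd .up false, pvzbH h hd .up true)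
  lb := (pvzbH h hd .cin false, pvzbH h hd .cin true)
  dm := (pvzbH h hd .cout false, pvzbE h hd false)
  dp := (pvzbH h hd .cout true, pvzbE h hd true)
  R1 := univ
  R2 := univ
  R3 := univ
  R4 := univ
  C1 := pvzbV Y pvzbG1
  C2 := pvzbV Y pvzbG2
  C3 := pvzbV Y (pvzbG3 false)
  C4 := pvzbV Y (pvzbG3 true)
  Zm := pvzbV Y (pvzbZ false false)
  Zp := pvzbV Y (pvzbZ true false)
  hlw := List.mem_cons_self
  hlb := List.mem_cons_self
  hdm := List.mem_cons_self
  hdp := List.mem_cons_of_mem _ List.mem_cons_self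
  b1 := rfl
  b2 := rfl
  d1 := rfl
  d2 := rfl
  h1 := List.mem_cons_self
  h2 := List.mem_cons_of_mem _ List.mem_cons_self
  h3 := List.mem_cons_self
  h4 := List.mem_cons_of_mem _ List.mem_cons_self

/-! ## 5. classes and events -/

include h in
theorem pvzb_cl_fin (L : List PvzbBx) : {v : Y | ∃ B ∈ L, (v : ℂ) ∈ B.col}.Finite := by
  induction L with
  | nil => simp
  | cons B L ih =>
    refine ((pvzb_fin_R h (B.a0 - pvzbρ) (B.a1 + pvzbρ) (B.b0 - pvzbρ) (B.b1 + pvzbρ)).union ih).subset ?_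
    rintro v ⟨B', hB', hv⟩
    rcases List.mem_cons.1 hB' with rfl | hB'
    · exact Or.inl hv
    · exact Or.inr ⟨B', hB', hv⟩

/-- **THE CLASS** of a list of boxes: the sites of the collars -/
noncomputable def pvzbCl (L : List PvzbBx) : Finset Y := (pvzb_cl_fin h L).toFinset

theorem pvzb_mem_cl {L : List PvzbBx} {v : Y} : v ∈ pvzbCl h L ↔ ∃ B ∈ L, (v : ℂ) ∈ B.col := by
  unfold pvzbCl
  rw [Set.Finite.mem_toFinset]
  rfl

/-- **THE EVENT** of a list of boxes: all the boxes are crossed in colour `c` -/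
def pvzbEv (c : Bool) (L : List PvzbBx) (ω : Y → Bool) : Prop := ∀ B ∈ L, B.Cr h c ω

theorem pvzb_eqns_cite2 : True := by
  have := @pvzbQ.eq_1; have := @pvzbF.eq_1; have := @pvzbH.eq_1; have := @pvzbE.eq_1; have := @pvzbV.eq_1; have := @pvzbN.eq_1; have := @pvzbK.eq_1; have := @pvzbCl.eq_1; have := @pvzbEv.eq_1
  trivial

end inst

end Claimed.Agent.R289
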