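-- KEEP
import Claimed.Agent.R289.Tr.AdmOut
import Claimed.Agent.R289.Tr.QuadD
import Claimed.Agent.R289.Mesh.Tri

/-!
# Row 289 (S0537, Cardy for Poisson-Voronoi), THE WALL, ADMISSION, block B, file Tr/AdmPos : THE POSITIONS WHICH BLOCK C ASKS (`PvazLk.Pos` of 140)      (helper47, RULING B-1 of 259; prefix `pvzo_`)

* sec. 1  rectangles and norms: `pvzo_norm_lt`, `pvzo_le_norm_E/W/N/S`.
* sec. 2  **`pvzo_pos`** : `K.Pos Subtype.val 0 a b (2ρ) x0 x1 y0 y1` on `delMap h` from SIX REGIONS OF THE PLANE which contain the positions of the six classes `Vm Vp C1 C2 Kup Kbk` + facts of plane geometry on the regions.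
-/

set_option autoImplicit false

namespace Claimed.Agent.R289

open Set Metric

/-! ## 1. rectangles and norms -/

theorem pvzo_norm_lt {z : ℂ} {X H b : ℝ} (hx : |z.re| ≤ X) (hy : |z.im| ≤ H) (hb : 0 ≤ b) (h : X ^ 2 + H ^ 2 < b ^ 2) : ‖z‖ < b := by
  have h1 : ‖z‖ ^ 2 = z.re ^ 2 + z.im ^ 2 := by rw [Complex.sq_norm, Complex.normSq_apply]; ring
  have h2 : z.re ^ 2 ≤ X ^ 2 := by rw [← sq_abs z.re]; exact pow_le_pow_left₀ (abs_nonneg _) hx 2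
  have h3 : z.im ^ 2 ≤ H ^ 2 := by rw [← sq_abs z.im]; exact pow_le_pow_left₀ (abs_nonneg _) hy 2
  exact lt_of_pow_lt_pow_left₀ 2 hb (by rw [h1]; linarith)

theorem pvzo_le_norm_E {z : ℂ} {a : ℝ} (h : a ≤ z.re) : a ≤ ‖z‖ := h.trans ((le_abs_self _).trans (Complex.abs_re_le_norm z))

theorem pvzo_le_norm_W {z : ℂ} {a : ℝ} (h : z.re ≤ -a) : a ≤ ‖z‖ := (by linarith : a ≤ -z.re).trans ((neg_le_abs _).trans (Complex.abs_re_le_norm z))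

theorem pvzo_le_norm_N {z : ℂ} {a : ℝ} (h : a ≤ z.im) : a ≤ ‖z‖ := h.trans ((le_abs_self _).trans (Complex.abs_im_le_norm z))

theorem pvzo_le_norm_S {z : ℂ} {a : ℝ} (h : z.im ≤ -a) : a ≤ ‖z‖ := (by linarith : a ≤ -z.im).trans ((neg_le_abs _).trans (Complex.abs_im_le_norm z))

/-- a rectangle inside the open disc -/
theorem pvzo_R_norm_lt {z : ℂ} {x0 x1 y0 y1 X H b : ℝ} (hz : z ∈ pvzqR x0 x1 y0 y1) (h0 : -X ≤ x0) (h1 : x1 ≤ X) (h2 : -H ≤ y0) (h3 : y1 ≤ H) (hb : 0 ≤ b) (h : X ^ 2 + H ^ 2 < b ^ 2) : ‖z‖ < b :=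
  pvzo_norm_lt (abs_le.2 ⟨by linarith [hz.1], by linarith [hz.2.1]⟩) (abs_le.2 ⟨by linarith [hz.2.2.1], by linarith [hz.2.2.2]⟩) hb h

/-- a ball round a point of a smaller square -/
theorem pvzo_ball_sq {z : ℂ} {L t : ℝ} (hz : z ∈ pvmSq 0 (L - t)) : closedBall z t ⊆ pvmSq 0 L := by
  intro y hy
  have := pvmt_Sq_add hz (mem_closedBall_iff_norm.1 hy)
  rwa [sub_add_cancel] at this

theorem pvzo_R_sq {x0 x1 y0 y1 L : ℝ} (h0 : -L ≤ x0) (h1 : x1 ≤ L) (h2 : -L ≤ y0) (h3 : y1 ≤ L) : pvzqR x0 x1 y0 y1 ⊆ pvmSq 0 L := by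
  rintro z ⟨a, b, c, d⟩
  exact ⟨by rw [Complex.zero_re, sub_zero]; exact abs_le.2 ⟨by linarith, by linarith⟩, by rw [Complex.zero_im, sub_zero]; exact abs_le.2 ⟨by linarith, by linarith⟩⟩

/-! ## 2. the record of 140 from regions of the plane -/

section pos

variable {Y : Set ℂ} {h : DelGood Y} {ι : Type} {I : PvamIn (delMap h) ι} {N : PvamNet I}

/-- **`K.Pos` FROM SIX REGIONS** -/
theorem pvzo_pos (K : PvazLk N) {Wm Wp W1 W2 Wu Wb U : Set ℂ} {ρ a b x0 x1 y0 y1 : ℝ} (hρ : 0 < ρ) (hd : VorDense Y U ρ)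
    (hVm : ∀ v ∈ K.Vm, (v : ℂ) ∈ Wm) (hVp : ∀ v ∈ K.Vp, (v : ℂ) ∈ Wp) (hC1 : ∀ v ∈ K.C1, (v : ℂ) ∈ W1) (hC2 : ∀ v ∈ K.C2, (v : ℂ) ∈ W2)
    (hKu : ∀ v ∈ K.Kup, (v : ℂ) ∈ Wu) (hKb : ∀ v ∈ K.Kbk, (v : ℂ) ∈ Wb)
    (hU : ∀ z ∈ Wm ∪ Wp ∪ W1 ∪ W2 ∪ Wu ∪ Wb, closedBall z (2 * ρ) ⊆ U) (b0 : 0 < b)
    (ann : ∀ z ∈ Wm ∪ Wp ∪ W1 ∪ Wu, a + 2 * ρ ≤ ‖z‖ ∧ ‖z‖ < b) (west : ∀ z ∈ Wm, z.re < -(2 * ρ)) (east : ∀ z ∈ Wp, 2 * ρ < z.re)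
    (lo : ∀ z ∈ W1 ∪ W2, |z.re| ≤ 2 * ρ → z.im < 0) (up : ∀ z ∈ Wu ∪ Wb, |z.re| ≤ 2 * ρ → 0 ≤ z.im) (ctr : ∀ z ∈ Wb, |z.re| ≤ 2 * ρ → ‖z‖ < a)
    (box : ∀ z ∈ Wm ∪ Wp ∪ W2 ∪ Wb, z ∈ pvzqR x0 x1 y0 y1) : K.Pos Subtype.val 0 a b (2 * ρ) x0 x1 y0 y1 := by
  have all : ∀ v, v ∈ K.Vm ∪ K.Vp ∪ K.C1 ∪ K.C2 ∪ K.Kup ∪ K.Kbk → (v : ℂ) ∈ Wm ∪ Wp ∪ W1 ∪ W2 ∪ Wu ∪ Wb := by
    rintro v (((((hv | hv) | hv) | hv) | hv) | hv)
    · exact Or.inl (Or.inl (Or.inl (Or.inl (Or.inl (hVm v hv)))))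
    · exact Or.inl (Or.inl (Or.inl (Or.inl (Or.inr (hVp v hv)))))
    · exact Or.inl (Or.inl (Or.inl (Or.inr (hC1 v hv))))
    · exact Or.inl (Or.inl (Or.inr (hC2 v hv)))
    · exact Or.inl (Or.inr (hKu v hv))
    · exact Or.inr (hKb v hv)
  refine ⟨b0, fun u v hu _ huv => ?_, ?_, fun v hv => ?_, fun v hv => ?_, ?_, ?_, fun v hv hs => ?_, ?_⟩
  · rw [norm_sub_rev]
    exact pvzd_short h hρ hd huv (hU _ (all u hu))
  · rintro v (((hv | hv) | hv) | hv)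
    · simpa using ann _ (Or.inl (Or.inl (Or.inl (hVm v hv))))
    · simpa using ann _ (Or.inl (Or.inl (Or.inr (hVp v hv))))
    · simpa using ann _ (Or.inl (Or.inr (hC1 v hv)))
    · simpa using ann _ (Or.inr (hKu v hv))
  · simpa using west _ (hVm v hv)
  · simpa using east _ (hVp v hv)
  · rintro v (hv | hv) hs
    · simpa using lo _ (Or.inl (hC1 v hv)) (by simpa using hs)
    · simpa using lo _ (Or.inr (hC2 v hv)) (by simpa using hs)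
  · rintro v (hv | hv) hs
    · simpa using up _ (Or.inl (hKu v hv)) (by simpa using hs)
    · simpa using up _ (Or.inr (hKb v hv)) (by simpa using hs)
  · simpa using ctr _ (hKb v hv) (by simpa using hs)
  · rintro v (((hv | hv) | hv) | hv)
    · exact box _ (Or.inl (Or.inl (Or.inl (hVm v hv))))
    · exact box _ (Or.inl (Or.inl (Or.inr (hVp v hv))))
    · exact box _ (Or.inl (Or.inr (hC2 v hv)))
    · exact box _ (Or.inr (hKb v hv))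

end pos

end Claimed.Agent.R289
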