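-- KEEP
import Claimed.Agent.R289.Tr.AdmP
import Claimed.Agent.R289.Tr.QuadZ
import Claimed.Agent.R289.Tr.AdmPos
import Claimed.Agent.R289.Adm.RecI

/-!
# Row 289 (S0537), THE WALL, ADMISSION, file Tr/AdmIC (was Tr/AdmIB until 12:30Z, when the path was overwritten by the defs of 267) : BLOCK B [INST] = THE NET OF ROPE A AT A NICE POINT SET, WITH NUMBERS      (helper262, second typist of B; prefix `pvyb_`, defs `pvyb..`, `Pvyb..`)

TARGET: `exit_pvko_inst` of `Tr/AdmP.lean` = ONE term of `PvkoNet ((pvkdP (1/16)).CH 0 1) pvybL (delMap h) Bool` at every nice `Y` with mesh `pvybρ` in the square `pvmSq 0 (1/2)`.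
UNITS: `r = 1/16`, `e = r/100 = 1/1600` (all coordinates are integers times `e`), mesh `ρ = e/100`.      `σ : Bool` = side (`true` = East); `c.mir σ` = mirror `x ↦ -x` for `σ = false`.
TABLE (East side, units `e`; `LR` / `TB` = direction of the crossing):
  quad        `qd`  [120,180] x [-10, 20]
  EXPLORED WHITE (class `Rw`, all below `y = 3`):  hub strip `hb` LR [119,181] x [-5,-1];  column `wc` TB [136,140] x [-121, 1];  short column `wt` TB [136,140] x [-31, 1] (tube line only);  bottom `bot` LR [-141,141] x [-120,-110];  tube line `tub` LR [-141,141] x [-30,-20];  door lane `wd` LR [135,650] x [-100,-90]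
  EXPLORED BLACK (class `Rb`, above `y = 4`):      `fb` LR [119,181] x [5,15]
  FRESH WHITE (class `Kw`):   column `vm` TB [146,154] x [-11,121];   top `top` LR [-155,155] x [110,120]
  FRESH BLACK (class `Kb`):   column `vi` TB [125,130] x [-11,41];  `mid` LR [-131,131] x [30,40];  column `vo` TB [165,175] x [-11,101];  door lane `bd` LR [164,650] x [90,100]
  all corners are `#` with overshoot `e = 100 ρ`.      `Vo` = the sites of the window with `y < -10 e + 4 ρ`, off the two closed discs, off `Kw ∪ Kb` (so `down` is vacuous and `K ∩ Vo = ∅` for every fresh class).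
-/

set_option autoImplicit false
set_option linter.unusedSectionVars false
set_option linter.unusedVariables false

namespace Claimed.Agent.R289

open Set Metric Claims.C0465

/-! ## 1. rectangles, numbers -/

/-- a rectangle with a direction of crossing (`lr = true`: left-right) -/
structure PvybRc where
  x0 : ℝ
  x1 : ℝ
  y0 : ℝ
  y1 : ℝ
  lr : Bool

namespace PvybRc

/-- the closed rectangle -/
def R (c : PvybRc) : Set ℂ := pvzqR c.x0 c.x1 c.y0 c.y1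

/-- the pattern -/
def tri (c : PvybRc) : RswTri := if c.lr then rswLR c.x0 c.x1 c.y0 c.y1 else rswTB c.x0 c.x1 c.y0 c.y1

/-- mirror `x ↦ -x` for `σ = false` -/
def mir (c : PvybRc) (σ : Bool) : PvybRc := if σ then c else ⟨-c.x1, -c.x0, c.y0, c.y1, c.lr⟩

end PvybRc

/-- the unit `e = r / 100`, `r = 1 / 16` -/
noncomputable def pvybE : ℝ := 1 / 1600

/-- the mesh `ρ = e / 100` -/
noncomputable def pvybρ : ℝ := 1 / 160000

/-- a rectangle in units `e` -/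
noncomputable def pvybMk (a b c d : ℝ) (lr : Bool) : PvybRc := ⟨a * pvybE, b * pvybE, c * pvybE, d * pvybE, lr⟩

noncomputable def pvybQd (σ : Bool) : PvybRc := (pvybMk 120 180 (-10) 20 true).mir σ
noncomputable def pvybHb (σ : Bool) : PvybRc := (pvybMk 119 181 (-5) (-1) true).mir σ
noncomputable def pvybWc (σ : Bool) : PvybRc := (pvybMk 136 140 (-121) 1 false).mir σ
noncomputable def pvybWt (σ : Bool) : PvybRc := (pvybMk 136 140 (-31) 1 false).mir σ
noncomputable def pvybBot : PvybRc := pvybMk (-141) 141 (-120) (-110) true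
noncomputable def pvybTub : PvybRc := pvybMk (-141) 141 (-30) (-20) true
noncomputable def pvybWd (σ : Bool) : PvybRc := (pvybMk 135 650 (-100) (-90) true).mir σ
noncomputable def pvybFb (σ : Bool) : PvybRc := (pvybMk 119 181 5 15 true).mir σ
noncomputable def pvybVm (σ : Bool) : PvybRc := (pvybMk 146 154 (-11) 121 false).mir σ
noncomputable def pvybTop : PvybRc := pvybMk (-155) 155 110 120 true
noncomputable def pvybVi (σ : Bool) : PvybRc := (pvybMk 125 130 (-11) 41 false).mir σ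
noncomputable def pvybMid : PvybRc := pvybMk (-131) 131 30 40 true
noncomputable def pvybVo (σ : Bool) : PvybRc := (pvybMk 165 175 (-11) 101 false).mir σ
noncomputable def pvybBd (σ : Bool) : PvybRc := (pvybMk 164 650 90 100 true).mir σ

/-- the four lists of rectangles -/
noncomputable def pvybLRw : List PvybRc := [pvybHb true, pvybHb false, pvybWc true, pvybWc false, pvybWt true, pvybWt false, pvybBot, pvybTub, pvybWd true, pvybWd false]
noncomputable def pvybLRb : List PvybRc := [pvybFb true, pvybFb false]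
noncomputable def pvybLKw : List PvybRc := [pvybVm true, pvybVm false, pvybTop]
noncomputable def pvybLKb : List PvybRc := [pvybVi true, pvybVi false, pvybMid, pvybVo true, pvybVo false, pvybBd true, pvybBd false]

/-- **THE LIST OF PATTERNS** -/
noncomputable def pvybL : List RswTri := (pvybLRw ++ pvybLRb ++ pvybLKw ++ pvybLKb).map PvybRc.tri

/-! ## 2. discrete form of a pattern -/

section disc

variable {Y : Set ℂ}

/-- the sites of colour `c` -/
def pvybA (c : Bool) (ω : Y → Bool) : Set ℂ := {z | ∃ hz : z ∈ Y, ω ⟨z, hz⟩ = c}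

/-- the sites whose cell meets the rectangle -/
def pvybM (Y : Set ℂ) (c : PvybRc) : Set Y := {v | (v : ℂ) ∈ vorMeet Y c.R}

/-- the sites of colour `c` whose cell meets the rectangle -/
def pvybX (c : Bool) (ω : Y → Bool) (R : PvybRc) : Set Y := pvzxS Y (pvybA c ω) R.R

/-- **the rectangle is crossed in the colour `c`** (discrete form): `u` = left / bottom end, `v` = right / top end -/
def PvybCr (h : DelGood Y) (R : PvybRc) (c : Bool) (ω : Y → Bool) : Prop :=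
  ∃ u v : Y, (if R.lr then (u : ℂ).re ≤ R.x0 + pvybρ ∧ R.x1 - pvybρ ≤ (v : ℂ).re else (u : ℂ).im ≤ R.y0 + pvybρ ∧ R.y1 - pvybρ ≤ (v : ℂ).im) ∧
    (delMap h).Join univ (pvybX c ω R) u v

open Classical in
/-- a finite set as a `Finset` (`∅` if infinite) -/
noncomputable def pvybFin {V : Type} (S : Set V) : Finset V := if h : S.Finite then h.toFinset else ∅

/-- the class of a list of rectangles -/
noncomputable def pvybCls (Y : Set ℂ) (l : List PvybRc) : Finset Y := pvybFin {v | ∃ R ∈ l, v ∈ pvybM Y R}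

end disc

theorem pvyb_eqns_cite : True := by
  have := @PvybRc.R.eq_1; have := @PvybRc.tri.eq_1; have := @PvybRc.mir.eq_1; have := @pvybE.eq_1; have := @pvybρ.eq_1; have := @pvybMk.eq_1
  have := @pvybQd.eq_1; have := @pvybHb.eq_1; have := @pvybWc.eq_1; have := @pvybWt.eq_1; have := @pvybBot.eq_1; have := @pvybTub.eq_1; have := @pvybWd.eq_1; have := @pvybFb.eq_1
  have := @pvybVm.eq_1; have := @pvybTop.eq_1; have := @pvybVi.eq_1; have := @pvybMid.eq_1; have := @pvybVo.eq_1; have := @pvybBd.eq_1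
  have := @pvybLRw.eq_1; have := @pvybLRb.eq_1; have := @pvybLKw.eq_1; have := @pvybLKb.eq_1; have := @pvybL.eq_1
  have := @pvybA.eq_1; have := @pvybM.eq_1; have := @pvybX.eq_1; have := @PvybCr.eq_1; have := @pvybFin.eq_1; have := @pvybCls.eq_1
  trivial

/-! ## 2b. plane geometry of the table (47: for `pvyb_out`) -/

/-- the `ρ`-collar of a rectangle of the table -/
def pvzoCl (R : PvybRc) : Set ℂ := pvzqR (R.x0 - pvybρ) (R.x1 + pvybρ) (R.y0 - pvybρ) (R.y1 + pvybρ)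

/-- the sign of a side -/
def pvzoS (σ : Bool) : ℝ := if σ then 1 else -1

theorem pvzo_eqns_cite : True := by
  have := @pvzoCl.eq_1; have := @pvzoS.eq_1
  trivial

theorem pvzo_cl_mk {a b c d : ℝ} {lr : Bool} {z : ℂ} (hz : z ∈ pvzoCl (pvybMk a b c d lr)) :
    (a - 1) / 1600 ≤ z.re ∧ z.re ≤ (b + 1) / 1600 ∧ (c - 1) / 1600 ≤ z.im ∧ z.im ≤ (d + 1) / 1600 := by
  obtain ⟨h1, h2, h3, h4⟩ := hz
  simp only [pvybMk, pvybE, pvybρ] at h1 h2 h3 h4
  refine ⟨by linarith, by linarith, by linarith, by linarith⟩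

theorem pvzo_cl_mir {a b c d : ℝ} {lr : Bool} (σ : Bool) {z : ℂ} (hz : z ∈ pvzoCl ((pvybMk a b c d lr).mir σ)) :
    (a - 1) / 1600 ≤ pvzoS σ * z.re ∧ pvzoS σ * z.re ≤ (b + 1) / 1600 ∧ (c - 1) / 1600 ≤ z.im ∧ z.im ≤ (d + 1) / 1600 := by
  cases σ
  · obtain ⟨h1, h2, h3, h4⟩ := hz
    simp only [PvybRc.mir, pvybMk, pvybE, pvybρ, Bool.false_eq_true, if_false] at h1 h2 h3 h4
    simp only [pvzoS, Bool.false_eq_true, if_false]
    refine ⟨by linarith, by linarith, by linarith, by linarith⟩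
  · obtain ⟨h1, h2, h3, h4⟩ := hz
    simp only [PvybRc.mir, pvybMk, pvybE, pvybρ, if_true] at h1 h2 h3 h4
    simp only [pvzoS, if_true]
    refine ⟨by linarith, by linarith, by linarith, by linarith⟩

theorem pvzo_S_abs (σ : Bool) (x : ℝ) : |pvzoS σ * x| = |x| := by
  cases σ <;> simp [pvzoS]

theorem pvzo_S_le_norm (σ : Bool) {z : ℂ} {a : ℝ} (h : a ≤ pvzoS σ * z.re) : a ≤ ‖z‖ :=
  h.trans ((le_abs_self _).trans (by rw [pvzo_S_abs]; exact Complex.abs_re_le_norm z))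

theorem pvzo_S_norm_lt (σ : Bool) {z : ℂ} {X H b : ℝ} (h0 : -X ≤ pvzoS σ * z.re) (h1 : pvzoS σ * z.re ≤ X) (h2 : -H ≤ z.im) (h3 : z.im ≤ H) (hb : 0 ≤ b) (h : X ^ 2 + H ^ 2 < b ^ 2) : ‖z‖ < b :=
  pvzo_norm_lt (by rw [← pvzo_S_abs σ]; exact abs_le.2 ⟨h0, h1⟩) (abs_le.2 ⟨h2, h3⟩) hb h


/-- a rectangle East / West of the disc, inside the annulus -/
theorem pvzo_annS (σ : Bool) {z : ℂ} {x0 x1 y0 y1 : ℝ} (h : x0 ≤ pvzoS σ * z.re ∧ pvzoS σ * z.re ≤ x1 ∧ y0 ≤ z.im ∧ z.im ≤ y1) (H : ℝ)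
    (h0 : 101 / 1600 ≤ x0) (hy0 : -H ≤ y0) (hy1 : y1 ≤ H) (hq : x1 ^ 2 + H ^ 2 < (2 * (1 / 16)) ^ 2) : 1 / 16 + 2 * pvybρ ≤ ‖z‖ ∧ ‖z‖ < 2 * (1 / 16) := by
  obtain ⟨a, b, c, d⟩ := h
  refine ⟨pvzo_S_le_norm σ (by unfold pvybρ; linarith), pvzo_S_norm_lt σ (X := x1) (H := H) (by linarith) b (by linarith) (by linarith) (by norm_num) hq⟩

/-- a rectangle North / South of the disc, inside the annulus -/
theorem pvzo_annV {z : ℂ} {x0 x1 y0 y1 : ℝ} (h : x0 ≤ z.re ∧ z.re ≤ x1 ∧ y0 ≤ z.im ∧ z.im ≤ y1) (X H : ℝ) (hx0 : -X ≤ x0) (hx1 : x1 ≤ X) (hy0 : -H ≤ y0) (hy1 : y1 ≤ H)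
    (h0 : 101 / 1600 ≤ y0 ∨ y1 ≤ -(101 / 1600)) (hq : X ^ 2 + H ^ 2 < (2 * (1 / 16)) ^ 2) : 1 / 16 + 2 * pvybρ ≤ ‖z‖ ∧ ‖z‖ < 2 * (1 / 16) := by
  obtain ⟨a, b, c, d⟩ := h
  refine ⟨?_, pvzo_norm_lt (X := X) (H := H) (abs_le.2 ⟨by linarith, by linarith⟩) (abs_le.2 ⟨by linarith, by linarith⟩) (by norm_num) hq⟩
  rcases h0 with h0 | h0
  · exact pvzo_le_norm_N (by unfold pvybρ; linarith)
  · exact pvzo_le_norm_S (by unfold pvybρ; linarith)

theorem pvzo_ann_Qd (σ : Bool) {z : ℂ} (hz : z ∈ pvzoCl (pvybQd σ)) : 1 / 16 + 2 * pvybρ ≤ ‖z‖ ∧ ‖z‖ < 2 * (1 / 16) :=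
  pvzo_annS σ (pvzo_cl_mir σ hz) (21 / 1600) (by norm_num) (by norm_num) (by norm_num) (by norm_num)

theorem pvzo_ann_Wc (σ : Bool) {z : ℂ} (hz : z ∈ pvzoCl (pvybWc σ)) : 1 / 16 + 2 * pvybρ ≤ ‖z‖ ∧ ‖z‖ < 2 * (1 / 16) :=
  pvzo_annS σ (pvzo_cl_mir σ hz) (122 / 1600) (by norm_num) (by norm_num) (by norm_num) (by norm_num)

theorem pvzo_ann_Vm (σ : Bool) {z : ℂ} (hz : z ∈ pvzoCl (pvybVm σ)) : 1 / 16 + 2 * pvybρ ≤ ‖z‖ ∧ ‖z‖ < 2 * (1 / 16) :=
  pvzo_annS σ (pvzo_cl_mir σ hz) (122 / 1600) (by norm_num) (by norm_num) (by norm_num) (by norm_num)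

theorem pvzo_ann_Bot {z : ℂ} (hz : z ∈ pvzoCl pvybBot) : 1 / 16 + 2 * pvybρ ≤ ‖z‖ ∧ ‖z‖ < 2 * (1 / 16) :=
  pvzo_annV (pvzo_cl_mk hz) (142 / 1600) (121 / 1600) (by norm_num) (by norm_num) (by norm_num) (by norm_num) (Or.inr (by norm_num)) (by norm_num)

theorem pvzo_ann_Top {z : ℂ} (hz : z ∈ pvzoCl pvybTop) : 1 / 16 + 2 * pvybρ ≤ ‖z‖ ∧ ‖z‖ < 2 * (1 / 16) :=
  pvzo_annV (pvzo_cl_mk hz) (156 / 1600) (121 / 1600) (by norm_num) (by norm_num) (by norm_num) (by norm_num) (Or.inl (by norm_num)) (by norm_num)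

/-- a mirrored rectangle with `x0 > 0` misses the slab -/
theorem pvzo_slabS (σ : Bool) {z : ℂ} {x0 : ℝ} (h : x0 ≤ pvzoS σ * z.re) (h0 : 1 / 1600 ≤ x0) : ¬ |z.re| ≤ 2 * pvybρ := by
  intro hc
  rw [← pvzo_S_abs σ] at hc
  have := (le_abs_self _).trans hc
  unfold pvybρ at this
  linarith

/-! ## 3. the geometry at a nice point set: the two quads -/

/-- **THE GEOMETRY**: a nice point set with mesh `ρ` in the window, and the two quads -/
structure PvybGeo (Y : Set ℂ) where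
  nice : PvatNice Y
  dense : VorDense Y (pvmSq 0 (1 / 2)) pvybρ
  Q : Bool → (delMap nice.good).Quad
  ok : ∀ σ, PvzqOk nice.good (pvybQd σ).x0 (pvybQd σ).x1 (pvybQd σ).y0 (pvybQd σ).y1 pvybρ (Q σ)

namespace PvybGeo

/-- general position -/
theorem h {Y : Set ℂ} (G : PvybGeo Y) : DelGood Y := G.nice.good

variable {Y : Set ℂ} (G : PvybGeo Y)

/-- the closed disc of the quad `σ` -/
def VS (σ : Bool) : Set Y := (delMap G.h).VOf (G.Q σ).c.Left

/-- the set `Vo` -/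
def VoS : Set Y := {v | (v : ℂ) ∈ pvmSq 0 (1 / 2) ∧ (v : ℂ).im < -10 * pvybE + 4 * pvybρ ∧ (∀ σ, v ∉ G.VS σ) ∧ v ∉ pvybCls Y pvybLKw ∧ v ∉ pvybCls Y pvybLKb}

end PvybGeo

/-- [B0] existence of the two quads -/
theorem pvyb_geo_exists {Y : Set ℂ} (nice : PvatNice Y) (dense : VorDense Y (pvmSq 0 (1 / 2)) pvybρ) : Nonempty (PvybGeo Y) := by
  have hρ : 0 < pvybρ := by unfold pvybρ; norm_num
  have ex : ∀ σ, ∃ Q : (delMap nice.good).Quad, PvzqOk nice.good (pvybQd σ).x0 (pvybQd σ).x1 (pvybQd σ).y0 (pvybQd σ).y1 pvybρ Q := by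
    intro σ
    have hq : -(1/2) + 4 * pvybρ ≤ (pvybQd σ).x0 ∧ (pvybQd σ).x1 ≤ 1/2 - 4 * pvybρ ∧ -(1/2) + 4 * pvybρ ≤ (pvybQd σ).y0 ∧ (pvybQd σ).y1 ≤ 1/2 - 4 * pvybρ ∧
        4 * pvybρ < (pvybQd σ).x1 - (pvybQd σ).x0 ∧ 4 * pvybρ < (pvybQd σ).y1 - (pvybQd σ).y0 := by
      cases σ <;> simp only [pvybQd, PvybRc.mir, pvybMk, pvybE, pvybρ, if_true, if_false, Bool.false_eq_true] <;> norm_num
    obtain ⟨t0, t1, t2, t3, t4, t5⟩ := hq
    refine pvzq_exists nice.good hρ t4 t5 (dense.mono Subset.rfl ?_ le_rfl)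
    rintro w ⟨z, ⟨a, b, c, d⟩, hw⟩
    have r1 := (Complex.abs_re_le_norm (w - z)).trans hw
    have r2 := (Complex.abs_im_le_norm (w - z)).trans hw
    rw [Complex.sub_re, abs_le] at r1
    rw [Complex.sub_im, abs_le] at r2
    refine ⟨?_, ?_⟩ <;> simp only [Complex.zero_re, Complex.zero_im, sub_zero] <;> rw [abs_le] <;> constructor <;> linarith
  choose Q hQ using ex
  exact ⟨⟨nice, dense, Q, hQ⟩⟩

theorem pvyb_fin_mem {V : Type} {S : Set V} (h : S.Finite) (v : V) : v ∈ pvybFin S ↔ v ∈ S := by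
  unfold pvybFin
  rw [dif_pos h, Set.Finite.mem_toFinset]

/-- [B1] the sites of a bounded region are finitely many -/
theorem pvyb_fin_bdd {Y : Set ℂ} (nice : PvatNice Y) {S : Set Y} {W : Set ℂ} (hW : Bornology.IsBounded W) (hS : ∀ v ∈ S, (v : ℂ) ∈ W) : S.Finite := by
  have h1 : (Y ∩ W).Finite := nice.finite hW
  refine Set.Finite.of_finite_image (f := Subtype.val) (h1.subset ?_) Subtype.val_injective.injOn
  rintro _ ⟨v, hv, rfl⟩
  exact ⟨v.2, hS v hv⟩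

/-- every rectangle of the table, fattened by `4ρ`, lies in the window -/
theorem pvyb_tab {R : PvybRc} (hR : R ∈ pvybLRw ++ pvybLRb ++ pvybLKw ++ pvybLKb) :
    -(1/2) + 4 * pvybρ ≤ R.x0 ∧ R.x1 ≤ 1/2 - 4 * pvybρ ∧ -(1/2) + 4 * pvybρ ≤ R.y0 ∧ R.y1 ≤ 1/2 - 4 * pvybρ := by
  simp only [pvybLRw, pvybLRb, pvybLKw, pvybLKb, List.mem_append, List.mem_cons, List.not_mem_nil, or_false] at hR
  rcases hR with (((rfl | rfl | rfl | rfl | rfl | rfl | rfl | rfl | rfl | rfl) | (rfl | rfl)) | (rfl | rfl | rfl)) | (rfl | rfl | rfl | rfl | rfl | rfl | rfl) <;>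
    simp only [pvybHb, pvybWc, pvybWt, pvybBot, pvybTub, pvybWd, pvybFb, pvybVm, pvybTop, pvybVi, pvybMid, pvybVo, pvybBd, PvybRc.mir, pvybMk, pvybE, pvybρ, if_true, if_false, Bool.false_eq_true] <;>
    norm_num

/-- the window is bounded -/
theorem pvyb_sq_bdd : Bornology.IsBounded (pvmSq 0 (1 / 2)) := by
  refine (Metric.isBounded_closedBall (x := (0 : ℂ)) (r := 1)).subset fun z hz => ?_
  obtain ⟨h1, h2⟩ := hz
  simp only [Complex.zero_re, Complex.zero_im, sub_zero] at h1 h2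
  rw [mem_closedBall, dist_zero_right]
  calc ‖z‖ ≤ |z.re| + |z.im| := Complex.norm_le_abs_re_add_abs_im z
    _ ≤ 1 := by linarith

section inst

variable {Y : Set ℂ} (G : PvybGeo Y)

include G

/-- [B1] POSITIONS: a site whose cell meets a rectangle of the table lies in its `ρ`-collar, and its `2ρ`-ball lies in the window -/
theorem pvyb_M_pos {R : PvybRc} (hR : R ∈ pvybLRw ++ pvybLRb ++ pvybLKw ++ pvybLKb) {v : Y} (hv : v ∈ pvybM Y R) :
    (v : ℂ) ∈ pvzqR (R.x0 - pvybρ) (R.x1 + pvybρ) (R.y0 - pvybρ) (R.y1 + pvybρ) ∧ closedBall (v : ℂ) (2 * pvybρ) ⊆ pvmSq 0 (1 / 2) := by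
  obtain ⟨t0, t1, t2, t3⟩ := pvyb_tab hR
  have hρ : 0 < pvybρ := by unfold pvybρ; norm_num
  have hsub : pvzqR R.x0 R.x1 R.y0 R.y1 ⊆ pvmSq 0 (1 / 2) := by
    rintro z ⟨a, b, c, d⟩
    refine ⟨?_, ?_⟩ <;> simp only [Complex.zero_re, Complex.zero_im, sub_zero] <;> rw [abs_le] <;> constructor <;> linarith
  have h1 := pvzq_meet_near (G.dense.mono Subset.rfl hsub le_rfl) (show (v : ℂ) ∈ vorMeet Y (pvzqR R.x0 R.x1 R.y0 R.y1) from hv)
  refine ⟨h1, fun w hw => ?_⟩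
  rw [mem_closedBall, dist_eq_norm] at hw
  obtain ⟨a, b, c, d⟩ := h1
  have r1 := (Complex.abs_re_le_norm (w - v)).trans hw
  have r2 := (Complex.abs_im_le_norm (w - v)).trans hw
  rw [Complex.sub_re, abs_le] at r1
  rw [Complex.sub_im, abs_le] at r2
  refine ⟨?_, ?_⟩ <;> simp only [Complex.zero_re, Complex.zero_im, sub_zero] <;> rw [abs_le] <;> constructor <;> linarith

/-- [B1] membership in a class -/
theorem pvyb_cls_mem {l : List PvybRc} (hl : ∀ R ∈ l, R ∈ pvybLRw ++ pvybLRb ++ pvybLKw ++ pvybLKb) (v : Y) : v ∈ pvybCls Y l ↔ ∃ R ∈ l, v ∈ pvybM Y R := by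
  unfold pvybCls
  refine pvyb_fin_mem (pvyb_fin_bdd G.nice pvyb_sq_bdd ?_) v
  rintro w ⟨R, hR, hw⟩
  have hρ : 0 < pvybρ := by unfold pvybρ; norm_num
  exact (pvyb_M_pos G (hl R hR) hw).2 (mem_closedBall_self (by linarith))

theorem pvyb_VS_fin (σ : Bool) : (G.VS σ).Finite := (G.ok σ).VOf_finite

/-- [B1] -/
theorem pvyb_VoS_fin : G.VoS.Finite := by
  exact pvyb_fin_bdd G.nice pvyb_sq_bdd fun v hv => hv.1

/-- [B1] the two closed discs are disjoint -/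
theorem pvyb_VS_disj (i j : Bool) (hij : i ≠ j) : Disjoint (G.VS i) (G.VS j) := by
  have key : Disjoint (G.VS true) (G.VS false) := by
    refine Set.disjoint_left.2 fun v h1 h2 => ?_
    have a := ((G.ok true).out v h1).1
    have b := ((G.ok false).out v h2).2.1
    simp only [pvybQd, PvybRc.mir, pvybMk, pvybE, pvybρ, if_true, if_false, Bool.false_eq_true] at a b
    norm_num at a b
    linarith
  cases i <;> cases j
  · exact absurd rfl hij
  · exact key.symm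
  · exact key
  · exact absurd rfl hij

/-- **THE DATA OF THE EXPLORATION** -/
noncomputable def PvybGeo.I : PvamIn (delMap G.h) Bool where
  Q := G.Q
  VQ := fun σ => pvybFin (G.VS σ)
  Vo := pvybFin G.VoS
  sph := dls_isSph G.h
  fin := fun σ => (G.ok σ).fin
  hVQ := fun σ v => pvyb_fin_mem (pvyb_VS_fin G σ) v
  dQQ := fun i j hij => Finset.disjoint_left.2 fun v hi hj =>
    Set.disjoint_left.1 (pvyb_VS_disj G i j hij) ((pvyb_fin_mem (pvyb_VS_fin G i) v).1 hi) ((pvyb_fin_mem (pvyb_VS_fin G j) v).1 hj)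
  down := fun i y hy hy' => absurd ((pvyb_fin_mem (pvyb_VS_fin G i) y).1 hy') (((pvyb_fin_mem (pvyb_VoS_fin G) y).1 hy).2.2.1 i)

/-- the class `K` is admissible for a half link to the quad `σ` -/
def PvybGeo.KOk (σ : Bool) (K : Set Y) : Prop := ∀ v ∈ K, (v ∈ G.I.Vo → v ∈ G.I.VQ σ) ∧ ∀ j, j ≠ σ → v ∉ G.I.VQ j

/-- a half link to the quad `σ` with the class `K`: region `pvzxAo Q ∪ Left` (X4 of 267) -/
noncomputable def PvybGeo.half (σ : Bool) (K : Set Y) (hK : G.KOk σ K) : PvamHalf G.I :=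
  PvamHalf.ofAo σ (pvzxAo (G.Q σ)) (G.Q σ).c.Left K Subset.rfl (fun _ _ hab hb => pvzx_Ao_edge (G.Q σ) hab hb) hK

/-- a site of a fresh class is not in `Vo` -/
theorem pvyb_fresh_Vo {R : PvybRc} (hR : R ∈ pvybLKw ∨ R ∈ pvybLKb) {v : Y} (hv : v ∈ pvybM Y R) : v ∉ G.I.Vo := by
  intro hV
  have h1 : v ∈ G.VoS := (pvyb_fin_mem (pvyb_VoS_fin G) v).1 hV
  rcases hR with hR | hR
  · exact h1.2.2.2.1 ((pvyb_cls_mem G (l := pvybLKw) (fun R hR => by simp only [List.mem_append]; tauto) v).2 ⟨R, hR, hv⟩)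
  · exact h1.2.2.2.2 ((pvyb_cls_mem G (l := pvybLKb) (fun R hR => by simp only [List.mem_append]; tauto) v).2 ⟨R, hR, hv⟩)

/-- the position of a site of a closed disc -/
theorem pvyb_VQ_pos {j : Bool} {v : Y} (hv : v ∈ G.I.VQ j) :
    (v : ℂ) ∈ pvzqR ((pvybQd j).x0 - pvybρ) ((pvybQd j).x1 + pvybρ) ((pvybQd j).y0 - pvybρ) ((pvybQd j).y1 + pvybρ) :=
  (G.ok j).out v ((pvyb_fin_mem (pvyb_VS_fin G j) v).1 hv)

/-- [B2] a fresh column alone -/
theorem pvyb_KOk_col (σ : Bool) {R : PvybRc} (hR : R = pvybVm σ ∨ R = pvybVi σ ∨ R = pvybVo σ) : G.KOk σ (pvybM Y R) := by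
  intro v hv
  have hmem : R ∈ pvybLKw ∨ R ∈ pvybLKb := by
    rcases hR with rfl | rfl | rfl <;> cases σ <;> simp [pvybLKw, pvybLKb]
  refine ⟨fun hV => absurd hV (pvyb_fresh_Vo G hmem hv), fun j hj hV => ?_⟩
  obtain ⟨a1, a2, -, -⟩ := pvyb_VQ_pos G hV
  obtain ⟨⟨b1, b2, -, -⟩, -⟩ := pvyb_M_pos G (R := R) (by simp only [List.mem_append]; tauto) hv
  rcases hR with rfl | rfl | rfl <;> cases σ <;> cases j <;> first | exact absurd rfl hj | skip
  all_goals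
    simp only [pvybQd, pvybVm, pvybVi, pvybVo, pvybMk, PvybRc.mir, pvybE, pvybρ] at a1 a2 b1 b2
    norm_num at a1 a2 b1 b2
    linarith

/-- [B2] a horizontal fresh strip + the fresh column of the West quad -/
theorem pvyb_KOk_two {R R' : PvybRc} (hR : (R = pvybTop ∧ R' = pvybVm false) ∨ (R = pvybMid ∧ R' = pvybVi false)) : G.KOk false (pvybM Y R ∪ pvybM Y R') := by
  rintro v (hv | hv)
  · have hmem : R ∈ pvybLKw ∨ R ∈ pvybLKb := by
      rcases hR with ⟨rfl, -⟩ | ⟨rfl, -⟩ <;> simp [pvybLKw, pvybLKb]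
    refine ⟨fun hV => absurd hV (pvyb_fresh_Vo G hmem hv), fun j hj hV => ?_⟩
    obtain ⟨-, -, a1, a2⟩ := pvyb_VQ_pos G hV
    obtain ⟨⟨-, -, b1, b2⟩, -⟩ := pvyb_M_pos G (R := R) (by simp only [List.mem_append]; tauto) hv
    rcases hR with ⟨rfl, -⟩ | ⟨rfl, -⟩ <;> cases j <;> first | exact absurd rfl hj | skip
    all_goals
      simp only [pvybQd, pvybTop, pvybMid, pvybMk, PvybRc.mir, pvybE, pvybρ] at a1 a2 b1 b2
      norm_num at a1 a2 b1 b2
      linarith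
  · exact pvyb_KOk_col G false (R := R') (by rcases hR with ⟨-, rfl⟩ | ⟨-, rfl⟩ <;> simp) v hv

/-- [B2] the high fresh strips are never explored -/
theorem pvyb_free_hi {R : PvybRc} (hR : R = pvybTop ∨ R = pvybMid ∨ R = pvybBd true ∨ R = pvybBd false) : pvybM Y R ⊆ G.I.Free := by
  intro v hv
  have hmem : R ∈ pvybLKw ∨ R ∈ pvybLKb := by
    rcases hR with rfl | rfl | rfl | rfl <;> simp [pvybLKw, pvybLKb]
  refine ⟨pvyb_fresh_Vo G hmem hv, fun j hV => ?_⟩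
  obtain ⟨-, -, a1, a2⟩ := pvyb_VQ_pos G hV
  obtain ⟨⟨-, -, b1, b2⟩, -⟩ := pvyb_M_pos G (R := R) (by simp only [List.mem_append]; tauto) hv
  rcases hR with rfl | rfl | rfl | rfl <;> cases j
  all_goals
    simp only [pvybQd, pvybTop, pvybMid, pvybBd, pvybMk, PvybRc.mir, pvybE, pvybρ] at a1 a2 b1 b2
    norm_num at a1 a2 b1 b2
    linarith

theorem pvyb_free_bd (σ : Bool) : pvybM Y (pvybBd σ) ⊆ G.I.Free := pvyb_free_hi G (by cases σ <;> simp)

/-- the target of the lane `(σ, β)` -/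
def pvybZ (Y : Set ℂ) (σ β : Bool) : Set Y := {v | (v : ℂ) ∈ (pvkdP (1 / 16)).Dr σ β}

/-- the end of the black door lane -/
noncomputable def PvybGeo.bend (σ : Bool) : PvamEnd G.I := ⟨univ, pvybM Y (pvybBd σ), pvybZ Y σ true, pvyb_free_bd G σ⟩

/-- the class of the lower half circuit -/
def PvybGeo.Kbot : Set Y := G.VS true ∪ G.VS false ∪ pvybM Y (pvybWc true) ∪ pvybM Y (pvybWc false) ∪ pvybM Y pvybBot

/-- the class of the tube line -/
def PvybGeo.Ktub : Set Y := G.VS true ∪ G.VS false ∪ pvybM Y (pvybWt true) ∪ pvybM Y (pvybWt false) ∪ pvybM Y pvybTub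

/-- the class of the white door lane -/
def PvybGeo.Kwd (σ : Bool) : Set Y := G.VS σ ∪ pvybM Y (pvybWc σ) ∪ pvybM Y (pvybWd σ)

/-- **THE NET**      (ORDER OF 140, `PvazLk`: in `wl`, `bl`, `xl` the FIRST component is the WEST quad `false`, the second the EAST quad `true`) -/
noncomputable def PvybGeo.N : PvamNet G.I where
  wl := [(G.half false (pvybM Y pvybTop ∪ pvybM Y (pvybVm false)) (pvyb_KOk_two G (Or.inl ⟨rfl, rfl⟩)), G.half true (pvybM Y (pvybVm true)) (pvyb_KOk_col G true (Or.inl rfl)))]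
  bl := [(G.half false (pvybM Y pvybMid ∪ pvybM Y (pvybVi false)) (pvyb_KOk_two G (Or.inr ⟨rfl, rfl⟩)), G.half true (pvybM Y (pvybVi true)) (pvyb_KOk_col G true (Or.inr (Or.inl rfl))))]
  bd := [(G.half true (pvybM Y (pvybVo true)) (pvyb_KOk_col G true (Or.inr (Or.inr rfl))), G.bend true),
    (G.half false (pvybM Y (pvybVo false)) (pvyb_KOk_col G false (Or.inr (Or.inr rfl))), G.bend false)]
  xl := [(false, true, univ, G.Kbot), (false, true, univ, G.Ktub)]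
  xd := [(true, univ, G.Kwd true, pvybZ Y true false), (false, univ, G.Kwd false, pvybZ Y false false)]

/-- the explored white event -/
def PvybGeo.FW (ω : Y → Bool) : Prop := ∀ R ∈ pvybLRw, PvybCr G.h R false ω

/-- the explored black event -/
def PvybGeo.FB (ω : Y → Bool) : Prop := ∀ R ∈ pvybLRb, PvybCr G.h R true ω

omit G in
theorem pvyb_eqns_cite2 : True := by
  have := @PvybGeo.VS.eq_1; have := @PvybGeo.VoS.eq_1; have := @PvybGeo.I.eq_1; have := @PvybGeo.KOk.eq_1; have := @PvybGeo.half.eq_1; have := @pvybZ.eq_1; have := @PvybGeo.bend.eq_1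
  have := @PvybGeo.Kbot.eq_1; have := @PvybGeo.Ktub.eq_1; have := @PvybGeo.Kwd.eq_1; have := @PvybGeo.N.eq_1; have := @PvybGeo.FW.eq_1; have := @PvybGeo.FB.eq_1
  trivial

/-! ## 4. THE MARKET: the fields of `PvkoNet` -/

/-- [B3] the explored classes are disjoint (`Rw` below `y = 3 e`, `Rb` above `y = 4 e`) -/
theorem pvyb_dR : Disjoint (pvybCls Y pvybLRw) (pvybCls Y pvybLRb) := by
  refine Finset.disjoint_left.2 fun v h1 h2 => ?_
  obtain ⟨R, hR, hv⟩ := (pvyb_cls_mem G (l := pvybLRw) (fun R hR => by simp only [List.mem_append]; exact Or.inl (Or.inl (Or.inl hR))) v).1 h1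
  obtain ⟨R', hR', hv'⟩ := (pvyb_cls_mem G (l := pvybLRb) (fun R hR => by simp only [List.mem_append]; exact Or.inl (Or.inl (Or.inr hR))) v).1 h2
  obtain ⟨-, -, -, a4⟩ := (pvyb_M_pos G (by simp only [List.mem_append]; exact Or.inl (Or.inl (Or.inl hR))) hv).1
  obtain ⟨-, -, b3, -⟩ := (pvyb_M_pos G (by simp only [List.mem_append]; exact Or.inl (Or.inl (Or.inr hR'))) hv').1
  have k1 : R.y1 ≤ 1 * pvybE := by
    simp only [pvybLRw, List.mem_cons, List.not_mem_nil, or_false] at hR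
    rcases hR with rfl | rfl | rfl | rfl | rfl | rfl | rfl | rfl | rfl | rfl <;>
      simp only [pvybHb, pvybWc, pvybWt, pvybBot, pvybTub, pvybWd, pvybMk, PvybRc.mir, if_true, if_false, Bool.false_eq_true, pvybE] <;> norm_num
  have k2 : 5 * pvybE ≤ R'.y0 := by
    simp only [pvybLRb, List.mem_cons, List.not_mem_nil, or_false] at hR'
    rcases hR' with rfl | rfl <;>
      simp only [pvybFb, pvybMk, PvybRc.mir, if_true, if_false, Bool.false_eq_true, pvybE] <;> norm_num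
  unfold pvybE at k1 k2
  unfold pvybρ at a4 b3
  linarith

/-- [B3] the fresh classes are disjoint -/
theorem pvyb_dK : Disjoint (pvybCls Y pvybLKw) (pvybCls Y pvybLKb) := by
  refine Finset.disjoint_left.2 fun v h1 h2 => ?_
  obtain ⟨R, hR, hv⟩ := (pvyb_cls_mem G (l := pvybLKw) (fun R hR => by simp only [List.mem_append]; exact Or.inl (Or.inr hR)) v).1 h1
  obtain ⟨R', hR', hv'⟩ := (pvyb_cls_mem G (l := pvybLKb) (fun R hR => by simp only [List.mem_append]; exact Or.inr hR) v).1 h2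
  obtain ⟨a1, a2, a3, a4⟩ := (pvyb_M_pos G (by simp only [List.mem_append]; exact Or.inl (Or.inr hR)) hv).1
  obtain ⟨b1, b2, b3, b4⟩ := (pvyb_M_pos G (by simp only [List.mem_append]; exact Or.inr hR') hv').1
  simp only [pvybLKw, List.mem_cons, List.not_mem_nil, or_false] at hR
  simp only [pvybLKb, List.mem_cons, List.not_mem_nil, or_false] at hR'
  rcases hR with rfl | rfl | rfl <;> rcases hR' with rfl | rfl | rfl | rfl | rfl | rfl | rfl <;>
    simp only [pvybVm, pvybTop, pvybVi, pvybMid, pvybVo, pvybBd, pvybMk, PvybRc.mir, if_true, if_false, Bool.false_eq_true, pvybE, pvybρ] at a1 a2 a3 a4 b1 b2 b3 b4 <;>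
    linarith

/-- [B4] a crossing reads the colours of the sites whose cell meets the rectangle -/
theorem pvyb_cr_loc {l : List PvybRc} {R : PvybRc} (hR : R ∈ l) (c : Bool) : PvalLoc (pvybCls Y l) (PvybCr G.h R c) := by
  have hbdd : ∀ R : PvybRc, Bornology.IsBounded R.R := by
    intro R
    refine (Metric.isBounded_iff_subset_closedBall (0 : ℂ)).2 ⟨(|R.x0| + |R.x1|) + (|R.y0| + |R.y1|), fun z hz => ?_⟩
    obtain ⟨h1, h2, h3, h4⟩ := hz
    rw [mem_closedBall, dist_zero_right]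
    have hre : |z.re| ≤ |R.x0| + |R.x1| := by
      rw [abs_le]
      constructor
      · have := neg_abs_le R.x0; have := abs_nonneg R.x1; linarith
      · have := le_abs_self R.x1; have := abs_nonneg R.x0; linarith
    have him : |z.im| ≤ |R.y0| + |R.y1| := by
      rw [abs_le]
      constructor
      · have := neg_abs_le R.y0; have := abs_nonneg R.y1; linarith
      · have := le_abs_self R.y1; have := abs_nonneg R.y0; linarith
    exact (Complex.norm_le_abs_re_add_abs_im z).trans (add_le_add hre him)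
  have hfin : {v : Y | ∃ R ∈ l, v ∈ pvybM Y R}.Finite := by
    have h1 : ∀ R : PvybRc, (pvybM Y R).Finite := fun R =>
      Set.Finite.of_finite_image (f := Subtype.val) ((vor_finite_meet G.nice.1 (hbdd R)).subset (by rintro _ ⟨v, hv, rfl⟩; exact hv)) Subtype.val_injective.injOn
    have : {v : Y | ∃ R ∈ l, v ∈ pvybM Y R} = ⋃ R ∈ {R | R ∈ l}, pvybM Y R := by
      ext v; simp
    rw [this]
    exact Set.Finite.biUnion (List.finite_toSet l) fun R _ => h1 R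
  intro ω ω' hω
  have hX : pvybX c ω R = pvybX c ω' R := by
    ext w
    unfold pvybX pvzxS pvybA
    simp only [mem_ofPred_eq]
    constructor
    · rintro ⟨⟨hz, h1⟩, h2⟩
      refine ⟨⟨hz, ?_⟩, h2⟩
      rw [← hω ⟨w, hz⟩ ((pvyb_fin_mem hfin _).2 ⟨R, hR, h2⟩)]
      exact h1
    · rintro ⟨⟨hz, h1⟩, h2⟩
      refine ⟨⟨hz, ?_⟩, h2⟩
      rw [hω ⟨w, hz⟩ ((pvyb_fin_mem hfin _).2 ⟨R, hR, h2⟩)]
      exact h1
  unfold PvybCr
  rw [hX]

theorem pvyb_lFW : PvalLoc (pvybCls Y pvybLRw) G.FW := by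
  intro ω ω' hω
  unfold PvybGeo.FW
  refine propext (forall_congr' fun R => forall_congr' fun hR => ?_)
  rw [pvyb_cr_loc G hR false ω ω' hω]

theorem pvyb_lFB : PvalLoc (pvybCls Y pvybLRb) G.FB := by
  intro ω ω' hω
  unfold PvybGeo.FB
  refine propext (forall_congr' fun R => forall_congr' fun hR => ?_)
  rw [pvyb_cr_loc G hR true ω ω' hω]

/-- [B4] the classes of the links -/
theorem pvyb_hwl : ∀ k ∈ G.N.wl, k.1.K ⊆ (pvybCls Y pvybLKw : Set Y) ∧ k.2.K ⊆ (pvybCls Y pvybLKw : Set Y) := by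
  intro k hk
  have hl : ∀ R ∈ pvybLKw, R ∈ pvybLRw ++ pvybLRb ++ pvybLKw ++ pvybLKb := fun R hR => List.mem_append_left _ (List.mem_append_right _ hR)
  have key : ∀ {R : PvybRc}, R ∈ pvybLKw → pvybM Y R ⊆ (pvybCls Y pvybLKw : Set Y) := fun {R} hR v hv => Finset.mem_coe.2 ((pvyb_cls_mem G hl v).2 ⟨R, hR, hv⟩)
  obtain rfl := List.mem_singleton.1 hk
  exact ⟨union_subset (key (by simp [pvybLKw])) (key (by simp [pvybLKw])), key (by simp [pvybLKw])⟩

/-- the sites of a rectangle of a list of the table belong to the class of the list -/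
theorem pvyb_M_sub_cls {l : List PvybRc} (hl : ∀ R ∈ l, R ∈ pvybLRw ++ pvybLRb ++ pvybLKw ++ pvybLKb) {R : PvybRc} (hR : R ∈ l) : pvybM Y R ⊆ (pvybCls Y l : Set Y) :=
  fun v hv => Finset.mem_coe.2 ((pvyb_cls_mem G hl v).2 ⟨R, hR, hv⟩)

theorem pvyb_hbl : ∀ k ∈ G.N.bl, k.1.K ⊆ (pvybCls Y pvybLKb : Set Y) ∧ k.2.K ⊆ (pvybCls Y pvybLKb : Set Y) := by
  intro k hk
  have hl : ∀ R ∈ pvybLKb, R ∈ pvybLRw ++ pvybLRb ++ pvybLKw ++ pvybLKb := fun R hR => List.mem_append_right _ hR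
  obtain rfl := List.mem_singleton.1 hk
  exact ⟨union_subset (pvyb_M_sub_cls G hl (by simp [pvybLKb])) (pvyb_M_sub_cls G hl (by simp [pvybLKb])), pvyb_M_sub_cls G hl (by simp [pvybLKb])⟩

theorem pvyb_hbd : ∀ k ∈ G.N.bd, k.1.K ⊆ (pvybCls Y pvybLKb : Set Y) ∧ k.2.K ⊆ (pvybCls Y pvybLKb : Set Y) := by
  intro k hk
  have hl : ∀ R ∈ pvybLKb, R ∈ pvybLRw ++ pvybLRb ++ pvybLKw ++ pvybLKb := fun R hR => List.mem_append_right _ hR
  have hk' : k = (G.half true (pvybM Y (pvybVo true)) (pvyb_KOk_col G true (Or.inr (Or.inr rfl))), G.bend true) ∨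
      k = (G.half false (pvybM Y (pvybVo false)) (pvyb_KOk_col G false (Or.inr (Or.inr rfl))), G.bend false) := by
    have := hk
    simpa [PvybGeo.N] using this
  rcases hk' with rfl | rfl
  · exact ⟨pvyb_M_sub_cls G hl (by simp [pvybLKb]), pvyb_M_sub_cls G hl (by simp [pvybLKb])⟩
  · exact ⟨pvyb_M_sub_cls G hl (by simp [pvybLKb]), pvyb_M_sub_cls G hl (by simp [pvybLKb])⟩

omit G in
theorem pvyb_u_bd : ∀ R ∈ pvybLRw ++ pvybLRb ++ pvybLKw ++ pvybLKb,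
    -(651 * pvybE) ≤ R.x0 ∧ R.x1 ≤ 651 * pvybE ∧ -(651 * pvybE) ≤ R.y0 ∧ R.y1 ≤ 651 * pvybE := by
  simp only [pvybLRw, pvybLRb, pvybLKw, pvybLKb, List.cons_append, List.nil_append, List.forall_mem_cons, List.not_mem_nil, IsEmpty.forall_iff, implies_true, and_true]
  norm_num [pvybHb, pvybWc, pvybWt, pvybBot, pvybTub, pvybWd, pvybFb, pvybVm, pvybTop, pvybVi, pvybMid, pvybVo, pvybBd, pvybMk, PvybRc.mir, pvybE]

omit G in
/-- the `3ρ`-collar of a rectangle of the table lies in the window -/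
theorem pvyb_u_win {R : PvybRc} (hR : R ∈ pvybLRw ++ pvybLRb ++ pvybLKw ++ pvybLKb) :
    pvzqR (R.x0 - 3 * pvybρ) (R.x1 + 3 * pvybρ) (R.y0 - 3 * pvybρ) (R.y1 + 3 * pvybρ) ⊆ pvmSq 0 (1 / 2) := by
  obtain ⟨h0, h1, h2, h3⟩ := pvyb_u_bd R hR
  rintro z ⟨z0, z1, z2, z3⟩
  unfold pvybE at h0 h1 h2 h3
  unfold pvybρ at z0 z1 z2 z3
  constructor
  · rw [Complex.zero_re, sub_zero, abs_le]; constructor <;> linarith
  · rw [Complex.zero_im, sub_zero, abs_le]; constructor <;> linarith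

omit G in
theorem pvyb_u_A_sub (c : Bool) (ω : Y → Bool) : pvybA c ω ⊆ Y := fun z hz => hz.1

omit G in
theorem pvyb_u_B_eq (s : Y → Bool) : pvkoB Y s = vorUn Y (pvybA true s) := by
  ext z
  constructor
  · rintro ⟨v, hv, hz⟩
    exact ⟨v, ⟨v.2, hv⟩, hz⟩
  · rintro ⟨v, ⟨hv, hc⟩, hz⟩
    exact ⟨⟨v, hv⟩, hc, hz⟩

omit G in
theorem pvyb_u_rho : 0 < pvybρ := by unfold pvybρ; norm_num

/-- [B5] DICTIONARY: a pattern of the list which holds in the region of colour `c` is crossed in the discrete form -/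
theorem pvyb_cr_of_pat {s : Y → Bool} (hs : PvkoPat pvybL Y s) {R : PvybRc} (hR : R ∈ pvybLRw ++ pvybLRb ++ pvybLKw ++ pvybLKb) : PvybCr G.h R true s := by
  have he := hs R.tri (List.mem_map_of_mem hR)
  rw [pvyb_u_B_eq] at he
  unfold PvybCr pvybX PvybRc.R
  unfold PvybRc.tri at he
  by_cases hl : R.lr = true
  · rw [if_pos hl] at he
    simp only [hl, if_true]
    obtain ⟨u, v, h1, h2, h3⟩ := pvzx_LR_join G.h (pvyb_u_A_sub true s) pvyb_u_rho G.dense (pvyb_u_win hR) he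
    exact ⟨u, v, ⟨h1, h2⟩, h3⟩
  · rw [if_neg hl] at he
    simp only [hl]
    obtain ⟨u, v, h1, h2, h3⟩ := pvzx_TB_join G.h (pvyb_u_A_sub true s) pvyb_u_rho G.dense (pvyb_u_win hR) he
    exact ⟨u, v, ⟨h1, h2⟩, h3⟩

/-- colour flip of the discrete form -/
theorem pvyb_cr_flip (R : PvybRc) (s : Y → Bool) : PvybCr G.h R true (fun v => !s v) ↔ PvybCr G.h R false s := by
  have e : pvybA true (fun v => !s v) = pvybA false s := by
    ext z
    simp [pvybA]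
  unfold PvybCr pvybX
  rw [e]

omit G in
theorem pvyb_x_E : pvybE = 100 * pvybρ := by
  unfold pvybE pvybρ
  norm_num

omit G in
theorem pvyb_x_ρ : 0 < pvybρ := by
  unfold pvybρ
  norm_num

omit G in
theorem pvyb_x_half : (1 / 2 : ℝ) = 80000 * pvybρ := by
  unfold pvybρ
  norm_num

omit G in
/-- a site of a coloured pattern set -/
theorem pvyb_x_X {c : Bool} {ω : Y → Bool} {R : PvybRc} {w : Y} (hw : w ∈ pvybX c ω R) : w ∈ pvybM Y R ∧ ω w = c := by
  obtain ⟨⟨hz, hc⟩, hm⟩ := hw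
  exact ⟨hm, hc⟩

omit G in
/-- a rectangle inside the window -/
theorem pvyb_x_win {x0 x1 y0 y1 : ℝ} (h0 : -(80000 * pvybρ) ≤ x0) (h1 : x1 ≤ 80000 * pvybρ) (h2 : -(80000 * pvybρ) ≤ y0) (h3 : y1 ≤ 80000 * pvybρ) : pvzqR x0 x1 y0 y1 ⊆ pvmSq 0 (1 / 2) := by
  rintro z ⟨a, b, c, d⟩
  rw [pvyb_x_half]
  constructor
  · rw [Complex.zero_re, sub_zero, abs_le]
    constructor <;> linarith
  · rw [Complex.zero_im, sub_zero, abs_le]
    constructor <;> linarith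

/-- membership in `Vo` from positions -/
theorem pvyb_x_Vo {v : Y} (h1 : (v : ℂ) ∈ pvmSq 0 (1 / 2)) (h2 : (v : ℂ).im < -10 * pvybE + 4 * pvybρ) (h3 : ∀ σ, v ∉ G.VS σ)
    (h4 : ∀ R ∈ pvybLKw ++ pvybLKb, (v : ℂ) ∉ pvzqR (R.x0 - pvybρ) (R.x1 + pvybρ) (R.y0 - pvybρ) (R.y1 + pvybρ)) : v ∈ G.I.Vo := by
  refine (pvyb_fin_mem (pvyb_VoS_fin G) v).2 ⟨h1, h2, h3, ?_, ?_⟩
  · intro hc
    obtain ⟨R, hR, hv⟩ := (pvyb_cls_mem G (l := pvybLKw) (fun R hR => by simp only [List.mem_append]; tauto) v).1 hc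
    exact h4 R (List.mem_append_left _ hR) (pvyb_M_pos G (by simp only [List.mem_append]; tauto) hv).1
  · intro hc
    obtain ⟨R, hR, hv⟩ := (pvyb_cls_mem G (l := pvybLKb) (fun R hR => by simp only [List.mem_append]; tauto) v).1 hc
    exact h4 R (List.mem_append_right _ hR) (pvyb_M_pos G (by simp only [List.mem_append]; tauto) hv).1

/-! ### tools for [B6], [B7] (helper220): `pvyb_q_*` -/

omit G in
theorem pvyb_q_lr {h : DelGood Y} {R : PvybRc} {c : Bool} {ω : Y → Bool} (hlr : R.lr = true) (H : PvybCr h R c ω) :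
    ∃ u v : Y, (u : ℂ).re ≤ R.x0 + pvybρ ∧ R.x1 - pvybρ ≤ (v : ℂ).re ∧ (delMap h).Join univ (pvybX c ω R) u v := by
  obtain ⟨u, v, h1, h2⟩ := H
  rw [if_pos hlr] at h1
  exact ⟨u, v, h1.1, h1.2, h2⟩

omit G in
theorem pvyb_q_tb {h : DelGood Y} {R : PvybRc} {c : Bool} {ω : Y → Bool} (hlr : R.lr = false) (H : PvybCr h R c ω) :
    ∃ u v : Y, (u : ℂ).im ≤ R.y0 + pvybρ ∧ R.y1 - pvybρ ≤ (v : ℂ).im ∧ (delMap h).Join univ (pvybX c ω R) u v := by
  obtain ⟨u, v, h1, h2⟩ := H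
  rw [if_neg (by rw [hlr]; exact Bool.false_ne_true)] at h1
  exact ⟨u, v, h1.1, h1.2, h2⟩

omit G in
theorem pvyb_q_win {a b c d : ℝ} (ha : -(1 / 2) ≤ a) (hb : b ≤ 1 / 2) (hc : -(1 / 2) ≤ c) (hd : d ≤ 1 / 2) : pvzqR a b c d ⊆ pvmSq 0 (1 / 2) := by
  rintro z ⟨h1, h2, h3, h4⟩
  refine ⟨?_, ?_⟩
  · rw [Complex.zero_re, sub_zero, abs_le]; constructor <;> linarith
  · rw [Complex.zero_im, sub_zero, abs_le]; constructor <;> linarith

omit G in
theorem pvyb_q_rho : (0 : ℝ) < pvybρ := by unfold pvybρ; norm_num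

/-- a site of a crossing: position, room, class and colour -/
theorem pvyb_q_pos {R : PvybRc} (hR : R ∈ pvybLRw ++ pvybLRb ++ pvybLKw ++ pvybLKb) (c : Bool) (ω : Y → Bool) {v : Y} (hv : v ∈ pvybX c ω R) :
    ((v : ℂ) ∈ pvzqR (R.x0 - pvybρ) (R.x1 + pvybρ) (R.y0 - pvybρ) (R.y1 + pvybρ) ∧ closedBall (v : ℂ) (2 * pvybρ) ⊆ pvmSq 0 (1 / 2)) ∧ v ∈ pvybM Y R ∩ pvamC c ω := by
  refine ⟨pvyb_M_pos G hR hv.2, hv.2, ?_⟩
  obtain ⟨hz, e⟩ := hv.1
  exact e

/-- the event of a half link from a path which goes down a column through the quad -/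
theorem pvyb_q_half (σ c : Bool) (ω : Y → Bool) {K : Set Y} (hK : G.KOk σ K) {X : Set Y} (hXK : X ⊆ K ∩ pvamC c ω)
    (hX : ∀ v ∈ X, (((pvybQd σ).x0 + 3 * pvybρ < (v : ℂ).re ∧ (v : ℂ).re < (pvybQd σ).x1 - 3 * pvybρ) ∨ (pvybQd σ).y1 + 3 * pvybρ < (v : ℂ).im) ∧
      closedBall (v : ℂ) (2 * pvybρ) ⊆ pvmSq 0 (1 / 2))
    {m b : Y} (hmb : (delMap G.h).Join univ X m b) (hm : (pvybQd σ).y1 - pvybρ ≤ (m : ℂ).im) (hb : (b : ℂ).im < (pvybQd σ).y0 - pvybρ) :
    (G.half σ K hK).Ev c ω m := by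
  have hx : (pvybQd σ).x0 ≤ (pvybQd σ).x1 := by cases σ <;> norm_num [pvybQd, PvybRc.mir, pvybMk, pvybE]
  have hy : 4 * pvybρ < (pvybQd σ).y1 - (pvybQd σ).y0 := by cases σ <;> norm_num [pvybQd, PvybRc.mir, pvybMk, pvybE, pvybρ]
  have hR : pvzqR (pvybQd σ).x0 (pvybQd σ).x1 (pvybQd σ).y0 (pvybQd σ).y1 ⊆ pvmSq 0 (1 / 2) := by
    apply pvyb_q_win <;> cases σ <;> norm_num [pvybQd, PvybRc.mir, pvybMk, pvybE]
  obtain ⟨z, hz, hj⟩ := pvzx_half2 (G.ok σ) pvyb_q_rho hx hy G.dense hR hX hmb hm hb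
  exact ⟨z, hz, pl_hx_join_mono Subset.rfl hXK hj⟩

/-- **A LINK BETWEEN THE TWO QUADS**: a horizontal strip `H` above the quads, two columns `C σ` in `#` position with it -/
theorem pvyb_q_link (c : Bool) {ω : Y → Bool} {H : PvybRc} {C : Bool → PvybRc}
    (hH : H ∈ pvybLRw ++ pvybLRb ++ pvybLKw ++ pvybLKb) (hC : ∀ σ, C σ ∈ pvybLRw ++ pvybLRb ++ pvybLKw ++ pvybLKb) (hHlr : H.lr = true) (hClr : ∀ σ, (C σ).lr = false)
    (g0 : ∀ σ, H.x0 + 5 * pvybρ < (C σ).x0) (g1 : ∀ σ, (C σ).x1 + 5 * pvybρ < H.x1) (g2 : ∀ σ, (C σ).y0 + 5 * pvybρ < H.y0) (g3 : ∀ σ, H.y1 + 5 * pvybρ < (C σ).y1)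
    (hc : ∀ σ, (C σ).x0 ≤ (C σ).x1) (hb : H.y0 ≤ H.y1) (w0 : ∀ σ, -(2 / 5) ≤ (C σ).x0) (w1 : ∀ σ, (C σ).x1 ≤ 2 / 5) (w2 : -(2 / 5) ≤ H.y0) (w3 : H.y1 ≤ 2 / 5)
    (q0 : ∀ σ, (pvybQd σ).x0 + 4 * pvybρ < (C σ).x0) (q1 : ∀ σ, (C σ).x1 + 4 * pvybρ < (pvybQd σ).x1) (q2 : ∀ σ, (C σ).y0 + 2 * pvybρ < (pvybQd σ).y0)
    (q3 : ∀ σ, (pvybQd σ).y1 + 4 * pvybρ < H.y0)
    (crH : PvybCr G.h H c ω) (crC : ∀ σ, PvybCr G.h (C σ) c ω) (hfree : pvybM Y H ⊆ G.I.Free)
    (hK1 : G.KOk false (pvybM Y H ∪ pvybM Y (C false))) (hK2 : G.KOk true (pvybM Y (C true))) :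
    ∃ m ∈ G.I.Free, (G.half false (pvybM Y H ∪ pvybM Y (C false)) hK1).Ev c ω m ∧ (G.half true (pvybM Y (C true)) hK2).Ev c ω m := by
  have hρ := pvyb_q_rho
  have hρ' : pvybρ ≤ 1 / 100 := by unfold pvybρ; norm_num
  obtain ⟨u, v, hu, hv, huv⟩ := pvyb_q_lr hHlr crH
  have glue : ∀ σ, ∃ b x : Y, (b : ℂ).im ≤ (C σ).y0 + pvybρ ∧ (delMap G.h).Join univ (pvybX c ω H) u x ∧ (delMap G.h).Join univ (pvybX c ω (C σ)) b x := by
    intro σ
    obtain ⟨u', v', hu', hv', huv'⟩ := pvyb_q_tb (hClr σ) (crC σ)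
    obtain ⟨x, hx, hx'⟩ := pvzx_glue G.h hρ G.dense (hc σ) hb (g0 σ) (g1 σ) (g2 σ) (g3 σ)
      (pvyb_q_win (by linarith [w0 σ]) (by linarith [w1 σ]) (by linarith) (by linarith))
      (fun w hw => (pvyb_q_pos G hH c ω hw).1) (fun w hw => (pvyb_q_pos G (hC σ) c ω hw).1) huv hu hv huv' hu' hv'
    exact ⟨u', x, hu', hx, hx'⟩
  obtain ⟨b1, x1, hb1, hx1, hx1'⟩ := glue false
  obtain ⟨b2, x2, hb2, hx2, hx2'⟩ := glue true
  have px2 := (pvyb_q_pos G hH c ω (pl_hx_join_mem hx2)).1.1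
  refine ⟨x2, hfree (pvyb_q_pos G hH c ω (pl_hx_join_mem hx2)).2.1, ?_, ?_⟩
  · refine pvyb_q_half G false c ω hK1 (X := pvybX c ω H ∪ pvybX c ω (C false)) ?_ ?_ (b := b1) ?_ (by linarith [px2.2.2.1, q3 false]) (by linarith [q2 false])
    · rintro w (hw | hw)
      · exact ⟨Or.inl (pvyb_q_pos G hH c ω hw).2.1, (pvyb_q_pos G hH c ω hw).2.2⟩
      · exact ⟨Or.inr (pvyb_q_pos G (hC false) c ω hw).2.1, (pvyb_q_pos G (hC false) c ω hw).2.2⟩
    · rintro w (hw | hw)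
      · obtain ⟨⟨p, q⟩, -⟩ := pvyb_q_pos G hH c ω hw
        exact ⟨Or.inr (by linarith [p.2.2.1, q3 false]), q⟩
      · obtain ⟨⟨p, q⟩, -⟩ := pvyb_q_pos G (hC false) c ω hw
        exact ⟨Or.inl ⟨by linarith [p.1, q0 false], by linarith [p.2.1, q1 false]⟩, q⟩
    · exact pl_hx_join_trans (pl_hx_join_mono Subset.rfl subset_union_left (pl_hx_join_trans (pl_hx_join_symm hx2) hx1))
        (pl_hx_join_mono Subset.rfl subset_union_right (pl_hx_join_symm hx1'))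
  · refine pvyb_q_half G true c ω hK2 (X := pvybX c ω (C true)) ?_ ?_ (b := b2) (pl_hx_join_symm hx2') (by linarith [px2.2.2.1, q3 true]) (by linarith [q2 true])
    · intro w hw
      exact (pvyb_q_pos G (hC true) c ω hw).2
    · intro w hw
      obtain ⟨⟨p, q⟩, -⟩ := pvyb_q_pos G (hC true) c ω hw
      exact ⟨Or.inl ⟨by linarith [p.1, q0 true], by linarith [p.2.1, q1 true]⟩, q⟩

/-- **A BLACK DOOR LINK** -/
theorem pvyb_q_door (σ : Bool) {ω : Y → Bool} (crH : PvybCr G.h (pvybBd σ) true ω) (crC : PvybCr G.h (pvybVo σ) true ω) (hK : G.KOk σ (pvybM Y (pvybVo σ))) :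
    ∃ m ∈ G.I.Free, (G.half σ (pvybM Y (pvybVo σ)) hK).Ev true ω m ∧ (G.bend σ).Ev true ω m := by
  have hρ := pvyb_q_rho
  have hH : pvybBd σ ∈ pvybLRw ++ pvybLRb ++ pvybLKw ++ pvybLKb := by cases σ <;> simp [pvybLKb]
  have hC : pvybVo σ ∈ pvybLRw ++ pvybLRb ++ pvybLKw ++ pvybLKb := by cases σ <;> simp [pvybLKb]
  obtain ⟨u, v, hu, hv, huv⟩ := pvyb_q_lr (R := pvybBd σ) (by cases σ <;> rfl) crH
  obtain ⟨u', v', hu', hv', huv'⟩ := pvyb_q_tb (R := pvybVo σ) (by cases σ <;> rfl) crC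
  obtain ⟨x, hx, hx'⟩ := pvzx_glue G.h hρ G.dense (c0 := (pvybVo σ).x0) (c1 := (pvybVo σ).x1) (b0 := (pvybBd σ).y0) (b1 := (pvybBd σ).y1)
      (by cases σ <;> norm_num [pvybVo, PvybRc.mir, pvybMk, pvybE]) (by cases σ <;> norm_num [pvybBd, PvybRc.mir, pvybMk, pvybE])
      (by cases σ <;> norm_num [pvybVo, pvybBd, PvybRc.mir, pvybMk, pvybE, pvybρ]) (by cases σ <;> norm_num [pvybVo, pvybBd, PvybRc.mir, pvybMk, pvybE, pvybρ])
      (by cases σ <;> norm_num [pvybVo, pvybBd, PvybRc.mir, pvybMk, pvybE, pvybρ]) (by cases σ <;> norm_num [pvybVo, pvybBd, PvybRc.mir, pvybMk, pvybE, pvybρ])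
      (by apply pvyb_q_win <;> cases σ <;> norm_num [pvybVo, pvybBd, PvybRc.mir, pvybMk, pvybE, pvybρ])
      (fun w hw => (pvyb_q_pos G hH true ω hw).1) (fun w hw => (pvyb_q_pos G hC true ω hw).1) huv hu hv huv' hu' hv'
  have px := (pvyb_q_pos G hH true ω (pl_hx_join_mem hx)).1.1
  refine ⟨x, pvyb_free_bd G σ (pvyb_q_pos G hH true ω (pl_hx_join_mem hx)).2.1, ?_, ?_⟩
  · refine pvyb_q_half G σ true ω hK (X := pvybX true ω (pvybVo σ)) ?_ ?_ (b := u') (pl_hx_join_symm hx') ?_ ?_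
    · intro w hw
      exact (pvyb_q_pos G hC true ω hw).2
    · intro w hw
      obtain ⟨⟨p, q⟩, -⟩ := pvyb_q_pos G hC true ω hw
      refine ⟨Or.inl ?_, q⟩
      obtain ⟨p1, p2, -, -⟩ := p
      cases σ <;> norm_num [pvybVo, pvybQd, PvybRc.mir, pvybMk, pvybE, pvybρ] at p1 p2 ⊢ <;> constructor <;> linarith
    · have := px.2.2.1
      cases σ <;> norm_num [pvybBd, pvybQd, PvybRc.mir, pvybMk, pvybE, pvybρ] at this ⊢ <;> linarith
    · cases σ <;> norm_num [pvybVo, pvybQd, PvybRc.mir, pvybMk, pvybE, pvybρ] at hu' ⊢ <;> linarith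
  · have hsub : pvybX true ω (pvybBd σ) ⊆ pvybM Y (pvybBd σ) ∩ pvamC true ω := fun w hw => (pvyb_q_pos G hH true ω hw).2
    have pu := (pvyb_q_pos G hH true ω huv.1).1.1
    have pv := (pvyb_q_pos G hH true ω (pl_hx_join_mem huv)).1.1
    cases σ
    · refine ⟨u, ?_, pl_hx_join_mono Subset.rfl hsub (pl_hx_join_symm hx)⟩
      show (u : ℂ) ∈ rswRect _ _ _ _
      obtain ⟨p1, p2, p3, p4⟩ := pu
      norm_num [pvybBd, PvybRc.mir, pvybMk, pvybE, pvybρ] at p1 p2 p3 p4 hu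
      refine ⟨?_, ?_, ?_, ?_⟩ <;> norm_num <;> linarith
    · refine ⟨v, ?_, pl_hx_join_mono Subset.rfl hsub (pl_hx_join_trans (pl_hx_join_symm hx) huv)⟩
      show (v : ℂ) ∈ rswRect _ _ _ _
      obtain ⟨p1, p2, p3, p4⟩ := pv
      norm_num [pvybBd, PvybRc.mir, pvybMk, pvybE, pvybρ] at p1 p2 p3 p4 hv
      refine ⟨?_, ?_, ?_, ?_⟩ <;> norm_num <;> linarith

/-- [B6] the black copy event from the crossings of the fresh black rectangles -/
theorem pvyb_U2 {ω : Y → Bool} (hω : ∀ R ∈ pvybLKb, PvybCr G.h R true ω) : G.N.U2 ω := by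
  refine ⟨?_, ?_⟩
  · intro l hl
    rw [show G.N.bl = [_] from rfl, List.mem_singleton] at hl
    subst hl
    exact pvyb_q_link G true (H := pvybMid) (C := pvybVi) (by simp [pvybLKb]) (fun σ => by cases σ <;> simp [pvybLKb]) rfl (fun σ => by cases σ <;> rfl)
      (fun σ => by cases σ <;> norm_num [pvybVi, pvybMid, PvybRc.mir, pvybMk, pvybE, pvybρ]) (fun σ => by cases σ <;> norm_num [pvybVi, pvybMid, PvybRc.mir, pvybMk, pvybE, pvybρ])
      (fun σ => by cases σ <;> norm_num [pvybVi, pvybMid, PvybRc.mir, pvybMk, pvybE, pvybρ]) (fun σ => by cases σ <;> norm_num [pvybVi, pvybMid, PvybRc.mir, pvybMk, pvybE, pvybρ])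
      (fun σ => by cases σ <;> norm_num [pvybVi, PvybRc.mir, pvybMk, pvybE]) (by norm_num [pvybMid, pvybMk, pvybE])
      (fun σ => by cases σ <;> norm_num [pvybVi, PvybRc.mir, pvybMk, pvybE]) (fun σ => by cases σ <;> norm_num [pvybVi, PvybRc.mir, pvybMk, pvybE])
      (by norm_num [pvybMid, pvybMk, pvybE]) (by norm_num [pvybMid, pvybMk, pvybE])
      (fun σ => by cases σ <;> norm_num [pvybVi, pvybQd, PvybRc.mir, pvybMk, pvybE, pvybρ]) (fun σ => by cases σ <;> norm_num [pvybVi, pvybQd, PvybRc.mir, pvybMk, pvybE, pvybρ])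
      (fun σ => by cases σ <;> norm_num [pvybVi, pvybQd, PvybRc.mir, pvybMk, pvybE, pvybρ]) (fun σ => by cases σ <;> norm_num [pvybMid, pvybQd, PvybRc.mir, pvybMk, pvybE, pvybρ])
      (hω _ (by simp [pvybLKb])) (fun σ => hω _ (by cases σ <;> simp [pvybLKb])) (pvyb_free_hi G (Or.inr (Or.inl rfl))) _ _
  · intro l hl
    rw [show G.N.bd = [_, _] from rfl, List.mem_cons, List.mem_singleton] at hl
    rcases hl with rfl | rfl
    · exact pvyb_q_door G true (hω _ (by simp [pvybLKb])) (hω _ (by simp [pvybLKb])) _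
    · exact pvyb_q_door G false (hω _ (by simp [pvybLKb])) (hω _ (by simp [pvybLKb])) _

/-- [B7] the white copy event from the crossings of the fresh white rectangles -/
theorem pvyb_U1 {ω : Y → Bool} (hω : ∀ R ∈ pvybLKw, PvybCr G.h R false ω) : G.N.U1 ω := by
  intro l hl
  rw [show G.N.wl = [_] from rfl, List.mem_singleton] at hl
  subst hl
  exact pvyb_q_link G false (H := pvybTop) (C := pvybVm) (by simp [pvybLKw]) (fun σ => by cases σ <;> simp [pvybLKw]) rfl (fun σ => by cases σ <;> rfl)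
    (fun σ => by cases σ <;> norm_num [pvybVm, pvybTop, PvybRc.mir, pvybMk, pvybE, pvybρ]) (fun σ => by cases σ <;> norm_num [pvybVm, pvybTop, PvybRc.mir, pvybMk, pvybE, pvybρ])
    (fun σ => by cases σ <;> norm_num [pvybVm, pvybTop, PvybRc.mir, pvybMk, pvybE, pvybρ]) (fun σ => by cases σ <;> norm_num [pvybVm, pvybTop, PvybRc.mir, pvybMk, pvybE, pvybρ])
    (fun σ => by cases σ <;> norm_num [pvybVm, PvybRc.mir, pvybMk, pvybE]) (by norm_num [pvybTop, pvybMk, pvybE])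
    (fun σ => by cases σ <;> norm_num [pvybVm, PvybRc.mir, pvybMk, pvybE]) (fun σ => by cases σ <;> norm_num [pvybVm, PvybRc.mir, pvybMk, pvybE])
    (by norm_num [pvybTop, pvybMk, pvybE]) (by norm_num [pvybTop, pvybMk, pvybE])
    (fun σ => by cases σ <;> norm_num [pvybVm, pvybQd, PvybRc.mir, pvybMk, pvybE, pvybρ]) (fun σ => by cases σ <;> norm_num [pvybVm, pvybQd, PvybRc.mir, pvybMk, pvybE, pvybρ])
    (fun σ => by cases σ <;> norm_num [pvybVm, pvybQd, PvybRc.mir, pvybMk, pvybE, pvybρ]) (fun σ => by cases σ <;> norm_num [pvybTop, pvybQd, PvybRc.mir, pvybMk, pvybE, pvybρ])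
    (hω _ (by simp [pvybLKw])) (fun σ => hω _ (by cases σ <;> simp [pvybLKw])) (pvyb_free_hi G (Or.inl rfl)) _ _

/-- [B8] black crossings of the quads -/
theorem pvyb_F_cr {ω : Y → Bool} (hB : G.FB ω) (σ : Bool) : (G.I.Q σ).Cr13 (pvamB ω) := by
  have hmem : pvybFb σ ∈ pvybLRb := by cases σ <;> simp [pvybLRb]
  have hmem' : pvybFb σ ∈ pvybLRw ++ pvybLRb ++ pvybLKw ++ pvybLKb := by
    simp only [List.mem_append]; tauto
  obtain ⟨u, v, huv, hj⟩ := hB _ hmem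
  have hlr : (pvybFb σ).lr = true := by cases σ <;> rfl
  rw [if_pos hlr] at huv
  have hρ := pvyb_u_rho
  have hwin : pvzqR (pvybQd σ).x0 (pvybQd σ).x1 (pvybQd σ).y0 (pvybQd σ).y1 ⊆ pvmSq 0 (1 / 2) := by
    rintro z ⟨z0, z1, z2, z3⟩
    constructor
    · rw [Complex.zero_re, sub_zero, abs_le]
      cases σ <;> simp only [pvybQd, pvybMk, PvybRc.mir, pvybE] at z0 z1 z2 z3 <;> constructor <;> norm_num at z0 z1 z2 z3 ⊢ <;> linarith
    · rw [Complex.zero_im, sub_zero, abs_le]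
      cases σ <;> simp only [pvybQd, pvybMk, PvybRc.mir, pvybE] at z0 z1 z2 z3 <;> constructor <;> norm_num at z0 z1 z2 z3 ⊢ <;> linarith
  have hc : (G.Q σ).Cr13 (pvybX true ω (pvybFb σ)) := by
    refine pvzx_cr13 (G.ok σ) hρ ?_ ?_ G.dense hwin (X := pvybX true ω (pvybFb σ)) ?_ hj ?_ ?_
    · cases σ <;> norm_num [pvybQd, pvybMk, PvybRc.mir, pvybE, pvybρ]
    · cases σ <;> norm_num [pvybQd, pvybMk, PvybRc.mir, pvybE, pvybρ]
    · intro w hw
      obtain ⟨-, p, q⟩ := pvzx_S_pos hρ G.dense (pvyb_u_win hmem') hw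
      refine ⟨?_, ?_, q⟩
      · have := p.2.2.1
        cases σ <;> norm_num [pvybQd, pvybFb, pvybMk, PvybRc.mir, pvybE, pvybρ] at this ⊢ <;> linarith
      · have := p.2.2.2
        cases σ <;> norm_num [pvybQd, pvybFb, pvybMk, PvybRc.mir, pvybE, pvybρ] at this ⊢ <;> linarith
    · have := huv.1
      cases σ <;> norm_num [pvybQd, pvybFb, pvybMk, PvybRc.mir, pvybE, pvybρ] at this ⊢ <;> linarith
    · have := huv.2
      cases σ <;> norm_num [pvybQd, pvybFb, pvybMk, PvybRc.mir, pvybE, pvybρ] at this ⊢ <;> linarith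
  refine pl_qd_mono13 (G.Q σ) ?_ hc
  rintro w ⟨⟨hw, hc⟩, -⟩
  exact hc

/-- [B9] **HUB + WHITE COLUMN** `R = wc σ` or `wt σ`: a hub `a` of the quad `σ`, the bottom end `c` of a crossing `c → t` of the column; every site of the cluster of `c` in the column is explored white;
the hub is joined through explored white sites of the closed disc to a site `x` of that cluster -/
theorem pvyb_F_hub {ω : Y → Bool} (hW : G.FW ω) (σ : Bool) {R : PvybRc} (hR : R = pvybWc σ ∨ R = pvybWt σ) :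
    ∃ a c t x : Y, G.I.Hub ω σ a ∧ (c : ℂ).im ≤ R.y0 + pvybρ ∧ R.y1 - pvybρ ≤ (t : ℂ).im ∧ (delMap G.h).Join univ (pvybX false ω R) c t ∧
      (∀ y, (delMap G.h).Join univ (pvybX false ω R) c y → y ∈ G.I.Wx ω) ∧
      (delMap G.h).Join univ (pvybX false ω R) c x ∧ (delMap G.h).Join univ (G.I.Wx ω ∩ G.VS σ) a x := by
  have hE := pvyb_x_E
  have hρ := pvyb_x_ρ
  have hT := dls_isSph G.h
  -- numbers
  have nQ : (pvybQd σ).y0 = -10 * pvybE ∧ (pvybQd σ).y1 = 20 * pvybE ∧ (pvybQd σ).x1 = (pvybQd σ).x0 + 60 * pvybE ∧ -180 * pvybE ≤ (pvybQd σ).x0 ∧ (pvybQd σ).x1 ≤ 180 * pvybE := by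
    cases σ <;> simp only [pvybQd, pvybMk, PvybRc.mir, Bool.false_eq_true, if_true, if_false] <;> refine ⟨?_, ?_, ?_, ?_, ?_⟩ <;> first | trivial | linarith
  obtain ⟨q0, q1, q2, q3, q4⟩ := nQ
  have nH : (pvybHb σ).x0 = (pvybQd σ).x0 - pvybE ∧ (pvybHb σ).x1 = (pvybQd σ).x1 + pvybE ∧ (pvybHb σ).y0 = -5 * pvybE ∧ (pvybHb σ).y1 = -1 * pvybE := by
    cases σ <;> simp only [pvybQd, pvybHb, pvybMk, PvybRc.mir, Bool.false_eq_true, if_true, if_false] <;> refine ⟨?_, ?_, ?_, ?_⟩ <;> first | trivial | linarith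
  obtain ⟨e0, e1, e2, e3⟩ := nH
  have nR : (pvybQd σ).x0 + 16 * pvybE ≤ R.x0 ∧ R.x1 + 16 * pvybE ≤ (pvybQd σ).x1 ∧ R.y0 ≤ -31 * pvybE ∧ R.y1 = 1 * pvybE := by
    rcases hR with rfl | rfl <;> cases σ <;> simp only [pvybQd, pvybWc, pvybWt, pvybMk, PvybRc.mir, Bool.false_eq_true, if_true, if_false] <;> refine ⟨?_, ?_, ?_, ?_⟩ <;> first | trivial | linarith
  obtain ⟨r0, r1, r2, r3⟩ := nR
  have hHt : pvybHb σ ∈ pvybLRw ++ pvybLRb ++ pvybLKw ++ pvybLKb := by cases σ <;> simp [pvybLRw]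
  have hRw : R ∈ pvybLRw := by rcases hR with rfl | rfl <;> cases σ <;> simp [pvybLRw]
  have hRt : R ∈ pvybLRw ++ pvybLRb ++ pvybLKw ++ pvybLKb := by simp only [List.mem_append]; tauto
  -- the two crossings
  obtain ⟨u, v, huv, hj⟩ := hW (pvybHb σ) (by cases σ <;> simp [pvybLRw])
  rw [if_pos (show (pvybHb σ).lr = true by cases σ <;> rfl)] at huv
  obtain ⟨c, t, hct, hjc⟩ := hW R hRw
  rw [if_neg (show ¬ R.lr = true by rcases hR with rfl | rfl <;> cases σ <;> simp [pvybWc, pvybWt, pvybMk, PvybRc.mir])] at hct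
  have pX1 := fun (w : Y) (hw : w ∈ pvybX false ω (pvybHb σ)) => pvyb_M_pos G hHt (pvyb_x_X hw).1
  have pX2 := fun (w : Y) (hw : w ∈ pvybX false ω R) => pvyb_M_pos G hRt (pvyb_x_X hw).1
  have wh : ∀ (S : PvybRc), pvybX false ω S ⊆ (pvamB ω)ᶜ := by
    intro S w hw hb
    have h1 := (pvyb_x_X hw).2
    have h2 : ω w = true := hb
    rw [h1] at h2
    exact absurd h2 (by simp)
  have hR0 : pvzqR (pvybQd σ).x0 (pvybQd σ).x1 (pvybQd σ).y0 ((pvybQd σ).y1 + 3 * pvybρ) ⊆ pvmSq 0 (1 / 2) :=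
    pvyb_x_win (by linarith) (by linarith) (by linarith) (by linarith)
  have hd0 : VorDense Y (pvzqR (pvybQd σ).x0 (pvybQd σ).x1 (pvybQd σ).y0 (pvybQd σ).y1) pvybρ :=
    G.dense.mono Subset.rfl (pvyb_x_win (by linarith) (by linarith) (by linarith) (by linarith)) le_rfl
  have hcl : (delMap G.h).Clu univ (pvybX false ω R) c ⊆ pvybX false ω R := pl_qd_clu_sub _ _ _
  obtain ⟨a₀, x, hhub, hx1, hx2, hjx⟩ := pvzx_hub (G.ok σ) hρ (by linarith) (by linarith) G.dense hR0 (B := pvamB ω) (Vo := (G.I.Vo : Set Y))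
    (X1 := pvybX false ω (pvybHb σ)) (X2 := (delMap G.h).Clu univ (pvybX false ω R) c) (θ := pvybE - pvybρ) (by linarith) (wh _)
    (Set.disjoint_left.2 fun w hw hV => by
      have h1 := ((pvyb_fin_mem (pvyb_VoS_fin G) w).1 (Finset.mem_coe.1 hV)).2.1
      have h2 := (pX1 w hw).1.2.2.1
      linarith)
    (fun w hw => ⟨by linarith [(pX1 w hw).1.2.2.1], by linarith [(pX1 w hw).1.2.2.2], (pX1 w hw).2⟩)
    hj (by linarith [huv.1]) (by linarith [huv.2]) (hcl.trans (wh _))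
    (fun w hw => ⟨by linarith [(pX2 w (hcl hw)).1.1], by linarith [(pX2 w (hcl hw)).1.2.1], by linarith [(pX2 w (hcl hw)).1.2.2.2]⟩)
    (pl_qd_join_clu hjc) (by linarith [hct.1]) (by linarith [hct.2])
  refine ⟨a₀, c, t, x, hhub, hct.1, hct.2, hjc, ?_, hx2, ?_⟩
  · intro y hy
    have hyX := pl_hx_join_mem hy
    obtain ⟨⟨p1, p2, p3, p4⟩, pb⟩ := pX2 y hyX
    refine ⟨(pvam_mem_E G.I ω y).2 ?_, (pvyb_x_X hyX).2⟩
    by_cases hV : y ∈ G.VS σ
    · right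
      obtain ⟨s, hs, hsy⟩ := pvzx_sea (G.ok σ) (by linarith) (by linarith) hd0 (B := pvamB ω) (X := pvybX false ω R) (wh _)
        (fun w hw => ⟨by linarith [(pX2 w hw).1.1], by linarith [(pX2 w hw).1.2.1], by linarith [(pX2 w hw).1.2.2.2]⟩) hy (by linarith [hct.1]) hV
      exact ⟨σ, Or.inl ⟨s, hs, pl_hx_join_mono Subset.rfl (wh _) hsy⟩⟩
    · left
      have him : (y : ℂ).im ≤ -10 * pvybE + pvybρ := by
        by_contra hcon
        rw [not_le] at hcon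
        exact hV (pvzx_int_VOf hT _ ((G.ok σ).deep y ⟨by linarith, by linarith, by linarith, by linarith⟩))
      refine pvyb_x_Vo G (pb (mem_closedBall_self (by linarith))) (by linarith) (fun σ' hc => ?_) ?_
      · by_cases hσ : σ' = σ
        · rw [hσ] at hc
          exact hV hc
        · obtain ⟨o1, o2, -, -⟩ := (G.ok σ').out y hc
          rcases hR with rfl | rfl <;> cases σ <;> cases σ' <;> first | exact hσ rfl | skip
          all_goals simp only [pvybQd, pvybWc, pvybWt, pvybMk, PvybRc.mir, Bool.false_eq_true, if_true, if_false] at o1 o2 p1 p2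
          all_goals linarith
      · intro R₂ hR₂ hq
        obtain ⟨s1, s2, s3, s4⟩ := hq
        simp only [pvybLKw, pvybLKb, List.mem_append, List.mem_cons, List.not_mem_nil, or_false] at hR₂
        rcases hR₂ with (rfl | rfl | rfl) | (rfl | rfl | rfl | rfl | rfl | rfl | rfl) <;> rcases hR with rfl | rfl <;> cases σ <;>
          simp only [pvybWc, pvybWt, pvybVm, pvybTop, pvybVi, pvybMid, pvybVo, pvybBd, pvybMk, PvybRc.mir, Bool.false_eq_true, if_true, if_false] at s1 s2 s3 s4 p1 p2 <;> linarith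
  · refine pl_hx_join_mono (Set.subset_univ _) ?_ hjx
    intro w hw
    exact ⟨pvam_sea_Wx G.I ω σ hw.1, pvam_ex_VOf G.I.sph (G.I.Q σ) _ (Or.inl hw.1)⟩

/-- [B10] the sites of the low white rectangles (bottom, tube line, door lanes) are in `Vo` -/
theorem pvyb_low_Vo {R : PvybRc} (hR : R = pvybBot ∨ R = pvybTub ∨ R = pvybWd true ∨ R = pvybWd false) {v : Y} (hv : v ∈ pvybM Y R) : v ∈ G.I.Vo := by
  have hRl : R ∈ pvybLRw ++ pvybLRb ++ pvybLKw ++ pvybLKb := by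
    rcases hR with rfl | rfl | rfl | rfl <;> simp [pvybLRw]
  obtain ⟨p, q⟩ := pvyb_M_pos G hRl hv
  have hy1 : R.y1 ≤ -20 * pvybE := by
    rcases hR with rfl | rfl | rfl | rfl <;> norm_num [pvybBot, pvybTub, pvybWd, pvybMk, PvybRc.mir, pvybE]
  have him : (v : ℂ).im ≤ -20 * pvybE + pvybρ := by linarith [p.2.2.2]
  have hE : pvybE = 1 / 1600 := rfl
  have hρ : pvybρ = 1 / 160000 := rfl
  refine (pvyb_fin_mem (pvyb_VoS_fin G) v).2 ⟨q (mem_closedBall_self (by rw [hρ]; norm_num)), by linarith, ?_, ?_, ?_⟩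
  · intro σ hσ
    have h1 := ((G.ok σ).out v hσ).2.2.1
    have h2 : (pvybQd σ).y0 = -10 * pvybE := by cases σ <;> norm_num [pvybQd, pvybMk, PvybRc.mir]
    rw [h2] at h1
    linarith
  · intro hc
    obtain ⟨R', hR', hv'⟩ := (pvyb_cls_mem G (l := pvybLKw) (fun R hR => by simp only [List.mem_append]; tauto) v).1 hc
    have h1 := (pvyb_M_pos G (R := R') (by simp only [List.mem_append]; tauto) hv').1.2.2.1
    have h2 : -11 * pvybE ≤ R'.y0 := by
      simp only [pvybLKw, List.mem_cons, List.not_mem_nil, or_false] at hR'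
      rcases hR' with rfl | rfl | rfl <;> norm_num [pvybVm, pvybTop, pvybMk, PvybRc.mir, pvybE]
    linarith
  · intro hc
    obtain ⟨R', hR', hv'⟩ := (pvyb_cls_mem G (l := pvybLKb) (fun R hR => by simp only [List.mem_append]; tauto) v).1 hc
    have h1 := (pvyb_M_pos G (R := R') (by simp only [List.mem_append]; tauto) hv').1.2.2.1
    have h2 : -11 * pvybE ≤ R'.y0 := by
      simp only [pvybLKb, List.mem_cons, List.not_mem_nil, or_false] at hR'
      rcases hR' with rfl | rfl | rfl | rfl | rfl | rfl | rfl <;> norm_num [pvybVi, pvybMid, pvybVo, pvybBd, pvybMk, PvybRc.mir, pvybE]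
    linarith

/-- sites of a low white rectangle, white: explored white -/
theorem pvyb_low_wx {ω : Y → Bool} {R : PvybRc} (hR : R = pvybBot ∨ R = pvybTub ∨ R = pvybWd true ∨ R = pvybWd false) : pvybX false ω R ⊆ G.I.Wx ω ∩ pvybM Y R := by
  intro w hw
  have hM : w ∈ pvybM Y R := hw.2
  refine ⟨⟨(pvam_mem_E G.I ω w).2 (Or.inl (pvyb_low_Vo G hR hM)), ?_⟩, hM⟩
  obtain ⟨hz, hc⟩ := hw.1
  exact hc

/-- positions of the sites of a pattern set -/
theorem pvyb_X_pos {ω : Y → Bool} {c : Bool} {R : PvybRc} (hR : R ∈ pvybLRw ++ pvybLRb ++ pvybLKw ++ pvybLKb) : ∀ v ∈ pvybX c ω R,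
    (v : ℂ) ∈ pvzqR (R.x0 - pvybρ) (R.x1 + pvybρ) (R.y0 - pvybρ) (R.y1 + pvybρ) ∧ closedBall (v : ℂ) (2 * pvybρ) ⊆ pvmSq 0 (1 / 2) :=
  fun v hv => pvyb_M_pos G hR hv.2

/-- [B11] the explored white links -/
theorem pvyb_F_xl {ω : Y → Bool} (hW : G.FW ω) : ∀ l ∈ G.N.xl, ∃ a a', G.I.Hub ω l.1 a ∧ G.I.Hub ω l.2.1 a' ∧ (delMap G.h).Join l.2.2.1 (G.I.Wx ω ∩ l.2.2.2) a a' := by
  have hρ : (0 : ℝ) < pvybρ := by unfold pvybρ; norm_num
  have key : ∀ b : Bool, ∃ a a', G.I.Hub ω false a ∧ G.I.Hub ω true a' ∧ (delMap G.h).Join univ (G.I.Wx ω ∩ (if b then G.Kbot else G.Ktub)) a a' := by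
    intro b
    set col : Bool → PvybRc := fun σ => if b then pvybWc σ else pvybWt σ with hcol
    set bar : PvybRc := if b then pvybBot else pvybTub with hbar
    set K : Set Y := if b then G.Kbot else G.Ktub with hK
    have hBar : PvybCr G.h bar false ω := hW _ (by cases b <;> simp [hbar, pvybLRw])
    obtain ⟨u, v, huv, hj⟩ := hBar
    have hlr : bar.lr = true := by cases b <;> rfl
    rw [if_pos hlr] at huv
    have mBar : bar ∈ pvybLRw ++ pvybLRb ++ pvybLKw ++ pvybLKb := by cases b <;> simp [hbar, pvybLRw]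
    have hlow : pvybX false ω bar ⊆ G.I.Wx ω ∩ K := fun w hw => by
      have := pvyb_low_wx G (ω := ω) (R := bar) (by cases b <;> simp [hbar]) hw
      refine ⟨this.1, ?_⟩
      cases b
      · exact Or.inr this.2
      · exact Or.inr this.2
    have side : ∀ σ : Bool, ∃ a, G.I.Hub ω σ a ∧ (delMap G.h).Join univ (G.I.Wx ω ∩ K) a u := by
      intro σ
      obtain ⟨a, c, t0, x, ha, hc, ht0, hct, hall, hcx, hax⟩ := pvyb_F_hub G hW σ (R := col σ) (by cases b <;> simp [hcol])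
      have mCol : col σ ∈ pvybLRw ++ pvybLRb ++ pvybLKw ++ pvybLKb := by cases b <;> cases σ <;> simp [hcol, pvybLRw]
      obtain ⟨x', hx1, hx2⟩ := pvzx_glue (U := pvmSq 0 (1 / 2)) (a0 := bar.x0) (a1 := bar.x1) (b0 := bar.y0) (b1 := bar.y1)
        (c0 := (col σ).x0) (c1 := (col σ).x1) (d0 := (col σ).y0) (d1 := (col σ).y1) G.h hρ G.dense
        (by cases b <;> cases σ <;> simp only [hcol, pvybWc, pvybWt, pvybMk, PvybRc.mir, pvybE] <;> norm_num)
        (by cases b <;> simp only [hbar, pvybBot, pvybTub, pvybMk, pvybE] <;> norm_num)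
        (by cases b <;> cases σ <;> simp only [hcol, hbar, pvybWc, pvybWt, pvybBot, pvybTub, pvybMk, PvybRc.mir, pvybE, pvybρ] <;> norm_num)
        (by cases b <;> cases σ <;> simp only [hcol, hbar, pvybWc, pvybWt, pvybBot, pvybTub, pvybMk, PvybRc.mir, pvybE, pvybρ] <;> norm_num)
        (by cases b <;> cases σ <;> simp only [hcol, hbar, pvybWc, pvybWt, pvybBot, pvybTub, pvybMk, PvybRc.mir, pvybE, pvybρ] <;> norm_num)
        (by cases b <;> cases σ <;> simp only [hcol, hbar, pvybWc, pvybWt, pvybBot, pvybTub, pvybMk, PvybRc.mir, pvybE, pvybρ] <;> norm_num)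
        (by
          rintro z ⟨z1, z2, z3, z4⟩
          show |z.re - (0 : ℂ).re| ≤ 1 / 2 ∧ |z.im - (0 : ℂ).im| ≤ 1 / 2
          refine ⟨?_, ?_⟩ <;> rw [abs_le] <;> simp only [Complex.zero_re, Complex.zero_im, sub_zero] <;>
            cases b <;> cases σ <;> simp only [hcol, hbar, pvybWc, pvybWt, pvybBot, pvybTub, pvybMk, PvybRc.mir, pvybE, pvybρ] at z1 z2 z3 z4 <;> constructor <;> norm_num at z1 z2 z3 z4 ⊢ <;> linarith)
        (pvyb_X_pos G mBar) (pvyb_X_pos G mCol) hj huv.1 huv.2 hct hc ht0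
      have hVS : G.VS σ ⊆ K := by
        intro w hw
        cases b <;> cases σ
        · exact Or.inl (Or.inl (Or.inl (Or.inr hw)))
        · exact Or.inl (Or.inl (Or.inl (Or.inl hw)))
        · exact Or.inl (Or.inl (Or.inl (Or.inr hw)))
        · exact Or.inl (Or.inl (Or.inl (Or.inl hw)))
      have hMc : pvybM Y (col σ) ⊆ K := by
        intro w hw
        cases b <;> cases σ
        · exact Or.inl (Or.inr hw)
        · exact Or.inl (Or.inl (Or.inr hw))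
        · exact Or.inl (Or.inr hw)
        · exact Or.inl (Or.inl (Or.inr hw))
      have p1 : (delMap G.h).Join univ (G.I.Wx ω ∩ K) a x :=
        pl_hx_join_mono Subset.rfl (show G.I.Wx ω ∩ G.VS σ ⊆ G.I.Wx ω ∩ K from fun w hw => ⟨hw.1, hVS hw.2⟩) hax
      have hclu : (delMap G.h).Clu univ (pvybX false ω (col σ)) c ⊆ G.I.Wx ω ∩ K := fun w hw =>
        ⟨hall w hw, hMc (pl_qd_clu_sub _ _ _ hw).2⟩
      have p2 : (delMap G.h).Join univ (G.I.Wx ω ∩ K) c x := pl_hx_join_mono Subset.rfl hclu (pl_qd_join_clu hcx)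
      have p3 : (delMap G.h).Join univ (G.I.Wx ω ∩ K) c x' := pl_hx_join_mono Subset.rfl hclu (pl_qd_join_clu hx2)
      have p4 : (delMap G.h).Join univ (G.I.Wx ω ∩ K) u x' := pl_hx_join_mono Subset.rfl hlow hx1
      exact ⟨a, ha, pl_hx_join_trans (pl_hx_join_trans p1 (pl_hx_join_symm p2)) (pl_hx_join_trans p3 (pl_hx_join_symm p4))⟩
    obtain ⟨a, ha, hau⟩ := side false
    obtain ⟨a', ha', hau'⟩ := side true
    exact ⟨a, a', ha, ha', pl_hx_join_trans hau (pl_hx_join_symm hau')⟩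
  intro l hl
  simp only [PvybGeo.N, List.mem_cons, List.not_mem_nil, or_false] at hl
  rcases hl with rfl | rfl
  · exact key true
  · exact key false

/-- [B12] the white door lanes -/
theorem pvyb_F_xd {ω : Y → Bool} (hW : G.FW ω) : ∀ l ∈ G.N.xd, ∃ a, G.I.Hub ω l.1 a ∧ ∃ t ∈ l.2.2.2, (delMap G.h).Join l.2.1 (G.I.Wx ω ∩ l.2.2.1) a t := by
  have hρ : (0 : ℝ) < pvybρ := by unfold pvybρ; norm_num
  have key : ∀ σ : Bool, ∃ a, G.I.Hub ω σ a ∧ ∃ t ∈ pvybZ Y σ false, (delMap G.h).Join univ (G.I.Wx ω ∩ G.Kwd σ) a t := by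
    intro σ
    obtain ⟨a, c, t0, x, ha, hc, ht0, hct, hall, hcx, hax⟩ := pvyb_F_hub G hW σ (R := pvybWc σ) (Or.inl rfl)
    have hWd : PvybCr G.h (pvybWd σ) false ω := hW _ (by cases σ <;> simp [pvybLRw])
    obtain ⟨u, v, huv, hj⟩ := hWd
    have hlr : (pvybWd σ).lr = true := by cases σ <;> rfl
    rw [if_pos hlr] at huv
    have mWc : pvybWc σ ∈ pvybLRw ++ pvybLRb ++ pvybLKw ++ pvybLKb := by cases σ <;> simp [pvybLRw]
    have mWd : pvybWd σ ∈ pvybLRw ++ pvybLRb ++ pvybLKw ++ pvybLKb := by cases σ <;> simp [pvybLRw]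
    obtain ⟨x', hx1, hx2⟩ := pvzx_glue (U := pvmSq 0 (1 / 2)) (a0 := (pvybWd σ).x0) (a1 := (pvybWd σ).x1) (b0 := (pvybWd σ).y0) (b1 := (pvybWd σ).y1)
      (c0 := (pvybWc σ).x0) (c1 := (pvybWc σ).x1) (d0 := (pvybWc σ).y0) (d1 := (pvybWc σ).y1) G.h hρ G.dense
      (by cases σ <;> simp only [pvybWc, pvybMk, PvybRc.mir, pvybE] <;> norm_num)
      (by cases σ <;> simp only [pvybWd, pvybMk, PvybRc.mir, pvybE] <;> norm_num)
      (by cases σ <;> simp only [pvybWc, pvybWd, pvybMk, PvybRc.mir, pvybE, pvybρ] <;> norm_num)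
      (by cases σ <;> simp only [pvybWc, pvybWd, pvybMk, PvybRc.mir, pvybE, pvybρ] <;> norm_num)
      (by cases σ <;> simp only [pvybWc, pvybWd, pvybMk, PvybRc.mir, pvybE, pvybρ] <;> norm_num)
      (by cases σ <;> simp only [pvybWc, pvybWd, pvybMk, PvybRc.mir, pvybE, pvybρ] <;> norm_num)
      (by
        rintro z ⟨z1, z2, z3, z4⟩
        show |z.re - (0 : ℂ).re| ≤ 1 / 2 ∧ |z.im - (0 : ℂ).im| ≤ 1 / 2
        refine ⟨?_, ?_⟩ <;> rw [abs_le] <;> simp only [Complex.zero_re, Complex.zero_im, sub_zero] <;>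
          cases σ <;> simp only [pvybWc, pvybWd, pvybMk, PvybRc.mir, pvybE, pvybρ] at z1 z2 z3 z4 <;> constructor <;> norm_num at z1 z2 z3 z4 ⊢ <;> linarith)
      (pvyb_X_pos G mWd) (pvyb_X_pos G mWc) hj huv.1 huv.2 hct hc ht0
    -- the three pieces
    have p1 : (delMap G.h).Join univ (G.I.Wx ω ∩ G.Kwd σ) a x :=
      pl_hx_join_mono Subset.rfl (show G.I.Wx ω ∩ G.VS σ ⊆ G.I.Wx ω ∩ G.Kwd σ from fun w hw => ⟨hw.1, Or.inl (Or.inl hw.2)⟩) hax
    have hclu : (delMap G.h).Clu univ (pvybX false ω (pvybWc σ)) c ⊆ G.I.Wx ω ∩ G.Kwd σ := fun w hw =>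
      ⟨hall w hw, Or.inl (Or.inr (pl_qd_clu_sub _ _ _ hw).2)⟩
    have p2 : (delMap G.h).Join univ (G.I.Wx ω ∩ G.Kwd σ) c x := pl_hx_join_mono Subset.rfl hclu (pl_qd_join_clu hcx)
    have p3 : (delMap G.h).Join univ (G.I.Wx ω ∩ G.Kwd σ) c x' := pl_hx_join_mono Subset.rfl hclu (pl_qd_join_clu hx2)
    have hlow : pvybX false ω (pvybWd σ) ⊆ G.I.Wx ω ∩ G.Kwd σ := fun w hw => by
      have := pvyb_low_wx G (ω := ω) (R := pvybWd σ) (by cases σ <;> simp) hw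
      exact ⟨this.1, Or.inr this.2⟩
    have p4 : (delMap G.h).Join univ (G.I.Wx ω ∩ G.Kwd σ) u x' := pl_hx_join_mono Subset.rfl hlow hx1
    have p5 : (delMap G.h).Join univ (G.I.Wx ω ∩ G.Kwd σ) u v := pl_hx_join_mono Subset.rfl hlow hj
    have pau : (delMap G.h).Join univ (G.I.Wx ω ∩ G.Kwd σ) a u :=
      pl_hx_join_trans (pl_hx_join_trans p1 (pl_hx_join_symm p2)) (pl_hx_join_trans p3 (pl_hx_join_symm p4))
    have posu := (pvyb_X_pos G mWd u hj.1).1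
    have posv := (pvyb_X_pos G mWd v (pl_hx_join_mem hj)).1
    cases σ
    · refine ⟨a, ha, u, ?_, pau⟩
      show (u : ℂ) ∈ (pvkdP (1 / 16)).Dr false false
      obtain ⟨q1, q2, q3, q4⟩ := posu
      have q5 := huv.1
      simp only [pvybWd, pvybMk, PvybRc.mir, pvybE, pvybρ] at q1 q2 q3 q4 q5
      simp only [pvkdP, pvkdRect]
      refine ⟨?_, ?_, ?_, ?_⟩ <;> norm_num at q1 q2 q3 q4 q5 ⊢ <;> linarith
    · refine ⟨a, ha, v, ?_, pl_hx_join_trans pau p5⟩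
      show (v : ℂ) ∈ (pvkdP (1 / 16)).Dr true false
      obtain ⟨q1, q2, q3, q4⟩ := posv
      have q5 := huv.2
      simp only [pvybWd, pvybMk, PvybRc.mir, pvybE, pvybρ] at q1 q2 q3 q4 q5
      simp only [pvkdP, pvkdRect]
      refine ⟨?_, ?_, ?_, ?_⟩ <;> norm_num at q1 q2 q3 q4 q5 ⊢ <;> linarith
  intro l hl
  simp only [PvybGeo.N, List.mem_cons, List.not_mem_nil, or_false] at hl
  rcases hl with rfl | rfl
  · exact key true
  · exact key false

/-- the links of the plug, in the order of 140 -/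
noncomputable def PvybGeo.K : PvazLk G.N where
  lw := (G.half false (pvybM Y pvybTop ∪ pvybM Y (pvybVm false)) (pvyb_KOk_two G (Or.inl ⟨rfl, rfl⟩)), G.half true (pvybM Y (pvybVm true)) (pvyb_KOk_col G true (Or.inl rfl)))
  lb := (G.half false (pvybM Y pvybMid ∪ pvybM Y (pvybVi false)) (pvyb_KOk_two G (Or.inr ⟨rfl, rfl⟩)), G.half true (pvybM Y (pvybVi true)) (pvyb_KOk_col G true (Or.inr (Or.inl rfl))))
  dm := (G.half false (pvybM Y (pvybVo false)) (pvyb_KOk_col G false (Or.inr (Or.inr rfl))), G.bend false)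
  dp := (G.half true (pvybM Y (pvybVo true)) (pvyb_KOk_col G true (Or.inr (Or.inr rfl))), G.bend true)
  R1 := univ
  R2 := univ
  R3 := univ
  R4 := univ
  C1 := G.Kbot
  C2 := G.Ktub
  C3 := G.Kwd false
  C4 := G.Kwd true
  Zm := pvybZ Y false false
  Zp := pvybZ Y true false
  hlw := List.mem_cons_self
  hlb := List.mem_cons_self
  hdm := List.mem_cons_of_mem _ List.mem_cons_self
  hdp := List.mem_cons_self
  b1 := rfl
  b2 := rfl
  d1 := rfl
  d2 := rfl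
  h1 := List.mem_cons_self
  h2 := List.mem_cons_of_mem _ List.mem_cons_self
  h3 := List.mem_cons_of_mem _ List.mem_cons_self
  h4 := List.mem_cons_self


theorem pvzo_VS {σ : Bool} {v : Y} (hv : v ∈ G.VS σ) : (v : ℂ) ∈ pvzoCl (pvybQd σ) := (G.ok σ).out v hv

theorem pvzo_M {R : PvybRc} (hR : R ∈ pvybLRw ++ pvybLRb ++ pvybLKw ++ pvybLKb) {v : Y} (hv : v ∈ pvybM Y R) : (v : ℂ) ∈ pvzoCl R := (pvyb_M_pos G hR hv).1

omit G in
theorem pvzo_box_S (σ : Bool) {z : ℂ} {x0 x1 y0 y1 : ℝ} (h : x0 ≤ pvzoS σ * z.re ∧ pvzoS σ * z.re ≤ x1 ∧ y0 ≤ z.im ∧ z.im ≤ y1) (h0 : 0 ≤ x0) (h1 : x1 ≤ 2 * (1 / 16)) (h2 : -(1 / 16 / 2) ≤ y0) (h3 : y1 ≤ 1 / 16 / 2) :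
    z ∈ pvzqR (-(2 * (1 / 16))) (2 * (1 / 16)) (-(1 / 16 / 2)) (1 / 16 / 2) := by
  obtain ⟨a, b, c, d⟩ := h
  cases σ
  · simp only [pvzoS, Bool.false_eq_true, if_false] at a b
    exact ⟨by linarith, by linarith, by linarith, by linarith⟩
  · simp only [pvzoS, if_true] at a b
    exact ⟨by linarith, by linarith, by linarith, by linarith⟩

omit G in
theorem pvzo_box_V {z : ℂ} {x0 x1 y0 y1 : ℝ} (h : x0 ≤ z.re ∧ z.re ≤ x1 ∧ y0 ≤ z.im ∧ z.im ≤ y1) (h0 : -(2 * (1 / 16)) ≤ x0) (h1 : x1 ≤ 2 * (1 / 16)) (h2 : -(1 / 16 / 2) ≤ y0) (h3 : y1 ≤ 1 / 16 / 2) :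
    z ∈ pvzqR (-(2 * (1 / 16))) (2 * (1 / 16)) (-(1 / 16 / 2)) (1 / 16 / 2) :=
  ⟨by linarith [h.1], by linarith [h.2.1], by linarith [h.2.2.1], by linarith [h.2.2.2]⟩

/-- **THE POSITIONS WHICH BLOCK C ASKS, AT THE TABLE OF 262** -/
theorem pvzo_pos_tab : G.K.Pos Subtype.val 0 (1 / 16) (2 * (1 / 16)) (2 * pvybρ) (-(2 * (1 / 16))) (2 * (1 / 16)) (-(1 / 16 / 2)) (1 / 16 / 2) := by
  have hρ : 0 < pvybρ := by unfold pvybρ; norm_num
  have mWc : ∀ σ, pvybWc σ ∈ pvybLRw ++ pvybLRb ++ pvybLKw ++ pvybLKb := fun σ => by cases σ <;> simp [pvybLRw]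
  have mWt : ∀ σ, pvybWt σ ∈ pvybLRw ++ pvybLRb ++ pvybLKw ++ pvybLKb := fun σ => by cases σ <;> simp [pvybLRw]
  have mBot : pvybBot ∈ pvybLRw ++ pvybLRb ++ pvybLKw ++ pvybLKb := by simp [pvybLRw]
  have mTub : pvybTub ∈ pvybLRw ++ pvybLRb ++ pvybLKw ++ pvybLKb := by simp [pvybLRw]
  have mVm : ∀ σ, pvybVm σ ∈ pvybLRw ++ pvybLRb ++ pvybLKw ++ pvybLKb := fun σ => by cases σ <;> simp [pvybLKw]
  have mTop : pvybTop ∈ pvybLRw ++ pvybLRb ++ pvybLKw ++ pvybLKb := by simp [pvybLKw]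
  have mVi : ∀ σ, pvybVi σ ∈ pvybLRw ++ pvybLRb ++ pvybLKw ++ pvybLKb := fun σ => by cases σ <;> simp [pvybLKb]
  have mMid : pvybMid ∈ pvybLRw ++ pvybLRb ++ pvybLKw ++ pvybLKb := by simp [pvybLKb]
  have ann : ∀ z ∈ pvzoCl (pvybQd false) ∪ pvzoCl (pvybQd true) ∪ (pvzoCl (pvybQd true) ∪ pvzoCl (pvybQd false) ∪ pvzoCl (pvybWc true) ∪ pvzoCl (pvybWc false) ∪ pvzoCl pvybBot) ∪
      (pvzoCl pvybTop ∪ pvzoCl (pvybVm false) ∪ pvzoCl (pvybVm true)), 1 / 16 + 2 * pvybρ ≤ ‖z‖ ∧ ‖z‖ < 2 * (1 / 16) := by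
    rintro z (((hz | hz) | ((((hz | hz) | hz) | hz) | hz)) | ((hz | hz) | hz))
    · exact pvzo_ann_Qd _ hz
    · exact pvzo_ann_Qd _ hz
    · exact pvzo_ann_Qd _ hz
    · exact pvzo_ann_Qd _ hz
    · exact pvzo_ann_Wc _ hz
    · exact pvzo_ann_Wc _ hz
    · exact pvzo_ann_Bot hz
    · exact pvzo_ann_Top hz
    · exact pvzo_ann_Vm _ hz
    · exact pvzo_ann_Vm _ hz
  have box : ∀ z ∈ pvzoCl (pvybQd false) ∪ pvzoCl (pvybQd true) ∪ (pvzoCl (pvybQd true) ∪ pvzoCl (pvybQd false) ∪ pvzoCl (pvybWt true) ∪ pvzoCl (pvybWt false) ∪ pvzoCl pvybTub) ∪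
      (pvzoCl pvybMid ∪ pvzoCl (pvybVi false) ∪ pvzoCl (pvybVi true)), z ∈ pvzqR (-(2 * (1 / 16))) (2 * (1 / 16)) (-(1 / 16 / 2)) (1 / 16 / 2) := by
    rintro z (((hz | hz) | ((((hz | hz) | hz) | hz) | hz)) | ((hz | hz) | hz))
    · exact pvzo_box_S _ (pvzo_cl_mir _ hz) (by norm_num) (by norm_num) (by norm_num) (by norm_num)
    · exact pvzo_box_S _ (pvzo_cl_mir _ hz) (by norm_num) (by norm_num) (by norm_num) (by norm_num)
    · exact pvzo_box_S _ (pvzo_cl_mir _ hz) (by norm_num) (by norm_num) (by norm_num) (by norm_num)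
    · exact pvzo_box_S _ (pvzo_cl_mir _ hz) (by norm_num) (by norm_num) (by norm_num) (by norm_num)
    · exact pvzo_box_S _ (pvzo_cl_mir _ hz) (by norm_num) (by norm_num) (by norm_num) (by norm_num)
    · exact pvzo_box_S _ (pvzo_cl_mir _ hz) (by norm_num) (by norm_num) (by norm_num) (by norm_num)
    · exact pvzo_box_V (pvzo_cl_mk hz) (by norm_num) (by norm_num) (by norm_num) (by norm_num)
    · exact pvzo_box_V (pvzo_cl_mk hz) (by norm_num) (by norm_num) (by norm_num) (by norm_num)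
    · exact pvzo_box_S _ (pvzo_cl_mir _ hz) (by norm_num) (by norm_num) (by norm_num) (by norm_num)
    · exact pvzo_box_S _ (pvzo_cl_mir _ hz) (by norm_num) (by norm_num) (by norm_num) (by norm_num)
  have sqA : ∀ z : ℂ, ‖z‖ < 2 * (1 / 16) → closedBall z (2 * pvybρ) ⊆ pvmSq 0 (1 / 2) := fun z hz => pvzo_ball_sq
    ⟨by rw [Complex.zero_re, sub_zero]; exact (Complex.abs_re_le_norm z).trans (by unfold pvybρ; linarith), by rw [Complex.zero_im, sub_zero]; exact (Complex.abs_im_le_norm z).trans (by unfold pvybρ; linarith)⟩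
  have sqB : ∀ z : ℂ, z ∈ pvzqR (-(2 * (1 / 16))) (2 * (1 / 16)) (-(1 / 16 / 2)) (1 / 16 / 2) → closedBall z (2 * pvybρ) ⊆ pvmSq 0 (1 / 2) := fun z hz => pvzo_ball_sq
    (pvzo_R_sq (by unfold pvybρ; norm_num) (by unfold pvybρ; norm_num) (by unfold pvybρ; norm_num) (by unfold pvybρ; norm_num) hz)
  refine pvzo_pos G.K (Wm := pvzoCl (pvybQd false)) (Wp := pvzoCl (pvybQd true))
    (W1 := pvzoCl (pvybQd true) ∪ pvzoCl (pvybQd false) ∪ pvzoCl (pvybWc true) ∪ pvzoCl (pvybWc false) ∪ pvzoCl pvybBot)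
    (W2 := pvzoCl (pvybQd true) ∪ pvzoCl (pvybQd false) ∪ pvzoCl (pvybWt true) ∪ pvzoCl (pvybWt false) ∪ pvzoCl pvybTub)
    (Wu := pvzoCl pvybTop ∪ pvzoCl (pvybVm false) ∪ pvzoCl (pvybVm true)) (Wb := pvzoCl pvybMid ∪ pvzoCl (pvybVi false) ∪ pvzoCl (pvybVi true))
    hρ G.dense (fun v hv => pvzo_VS G hv) (fun v hv => pvzo_VS G hv) ?_ ?_ ?_ ?_ ?_ (by norm_num) ann ?_ ?_ ?_ ?_ ?_ box
  · rintro v ((((hv | hv) | hv) | hv) | hv)
    · exact Or.inl (Or.inl (Or.inl (Or.inl (pvzo_VS G hv))))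
    · exact Or.inl (Or.inl (Or.inl (Or.inr (pvzo_VS G hv))))
    · exact Or.inl (Or.inl (Or.inr (pvzo_M G (mWc _) hv)))
    · exact Or.inl (Or.inr (pvzo_M G (mWc _) hv))
    · exact Or.inr (pvzo_M G mBot hv)
  · rintro v ((((hv | hv) | hv) | hv) | hv)
    · exact Or.inl (Or.inl (Or.inl (Or.inl (pvzo_VS G hv))))
    · exact Or.inl (Or.inl (Or.inl (Or.inr (pvzo_VS G hv))))
    · exact Or.inl (Or.inl (Or.inr (pvzo_M G (mWt _) hv)))
    · exact Or.inl (Or.inr (pvzo_M G (mWt _) hv))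
    · exact Or.inr (pvzo_M G mTub hv)
  · rintro v ((hv | hv) | hv)
    · exact Or.inl (Or.inl (pvzo_M G mTop hv))
    · exact Or.inl (Or.inr (pvzo_M G (mVm _) hv))
    · exact Or.inr (pvzo_M G (mVm _) hv)
  · rintro v ((hv | hv) | hv)
    · exact Or.inl (Or.inl (pvzo_M G mMid hv))
    · exact Or.inl (Or.inr (pvzo_M G (mVi _) hv))
    · exact Or.inr (pvzo_M G (mVi _) hv)
  · rintro z (((((hz | hz) | hz) | hz) | hz) | hz)
    · exact sqA z (ann z (Or.inl (Or.inl (Or.inl hz)))).2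
    · exact sqA z (ann z (Or.inl (Or.inl (Or.inr hz)))).2
    · exact sqA z (ann z (Or.inl (Or.inr hz))).2
    · exact sqB z (box z (Or.inl (Or.inr hz)))
    · exact sqA z (ann z (Or.inr hz)).2
    · exact sqB z (box z (Or.inr hz))
  · intro z hz
    have := (pvzo_cl_mir false hz).1
    simp only [pvzoS, Bool.false_eq_true, if_false] at this
    unfold pvybρ
    linarith
  · intro z hz
    have := (pvzo_cl_mir true hz).1
    simp only [pvzoS, if_true] at this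
    unfold pvybρ
    linarith
  · rintro z (((((hz | hz) | hz) | hz) | hz) | ((((hz | hz) | hz) | hz) | hz)) hs
    · exact absurd hs (pvzo_slabS _ (pvzo_cl_mir _ hz).1 (by norm_num))
    · exact absurd hs (pvzo_slabS _ (pvzo_cl_mir _ hz).1 (by norm_num))
    · exact absurd hs (pvzo_slabS _ (pvzo_cl_mir _ hz).1 (by norm_num))
    · exact absurd hs (pvzo_slabS _ (pvzo_cl_mir _ hz).1 (by norm_num))
    · linarith [(pvzo_cl_mk hz).2.2.2]
    · exact absurd hs (pvzo_slabS _ (pvzo_cl_mir _ hz).1 (by norm_num))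
    · exact absurd hs (pvzo_slabS _ (pvzo_cl_mir _ hz).1 (by norm_num))
    · exact absurd hs (pvzo_slabS _ (pvzo_cl_mir _ hz).1 (by norm_num))
    · exact absurd hs (pvzo_slabS _ (pvzo_cl_mir _ hz).1 (by norm_num))
    · linarith [(pvzo_cl_mk hz).2.2.2]
  · rintro z (((hz | hz) | hz) | ((hz | hz) | hz)) hs
    · linarith [(pvzo_cl_mk hz).2.2.1]
    · exact absurd hs (pvzo_slabS _ (pvzo_cl_mir _ hz).1 (by norm_num))
    · exact absurd hs (pvzo_slabS _ (pvzo_cl_mir _ hz).1 (by norm_num))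
    · linarith [(pvzo_cl_mk hz).2.2.1]
    · exact absurd hs (pvzo_slabS _ (pvzo_cl_mir _ hz).1 (by norm_num))
    · exact absurd hs (pvzo_slabS _ (pvzo_cl_mir _ hz).1 (by norm_num))
  · rintro z ((hz | hz) | hz) hs
    · obtain ⟨-, -, c, d⟩ := pvzo_cl_mk hz
      exact pvzo_norm_lt (X := 1 / 1600) (H := 41 / 1600) (hs.trans (by unfold pvybρ; norm_num)) (abs_le.2 ⟨by linarith, by linarith⟩) (by norm_num) (by norm_num)
    · exact absurd hs (pvzo_slabS _ (pvzo_cl_mir _ hz).1 (by norm_num))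
    · exact absurd hs (pvzo_slabS _ (pvzo_cl_mir _ hz).1 (by norm_num))

omit G in
theorem pvzo_kdRect (σ : Bool) {z : ℂ} {x0 x1 y0 y1 : ℝ} (h : x0 ≤ pvzoS σ * z.re ∧ pvzoS σ * z.re ≤ x1 ∧ y0 ≤ z.im ∧ z.im ≤ y1) : z ∈ pvkdRect σ x0 x1 y0 y1 := by
  obtain ⟨a, b, c, d⟩ := h
  cases σ
  · simp only [pvzoS, Bool.false_eq_true, if_false] at a b
    simp only [pvkdRect, Bool.false_eq_true, if_false]
    exact ⟨by linarith, by linarith, c, d⟩
  · simp only [pvzoS, if_true] at a b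
    simp only [pvkdRect, if_true]
    exact ⟨by linarith, by linarith, c, d⟩

omit G in
/-- a rectangle inside the room of a black lane -/
theorem pvzo_LnB (σ : Bool) {z : ℂ} {x0 x1 y0 y1 : ℝ} (h : x0 ≤ pvzoS σ * z.re ∧ pvzoS σ * z.re ≤ x1 ∧ y0 ≤ z.im ∧ z.im ≤ y1) (h0 : 50 / 1600 ≤ x0) (h3 : y1 ≤ 150 / 1600)
    (c : (x1 ≤ 300 / 1600 ∧ -(50 / 1600) ≤ y0) ∨ (x1 ≤ 700 / 1600 ∧ 50 / 1600 ≤ y0)) : z ∈ (pvkdP (1 / 16)).Ln σ true := by
  obtain ⟨a, b, c', d⟩ := h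
  show z ∈ pvkdRect σ (1 / 16 / 2) (3 * (1 / 16)) (-(1 / 16 / 2)) (3 * (1 / 16) / 2) ∪ pvkdRect σ (2 * (1 / 16)) (7 * (1 / 16)) (1 / 16 / 2) (3 * (1 / 16) / 2)
  rcases c with ⟨c1, c2⟩ | ⟨c1, c2⟩
  · exact Or.inl (pvzo_kdRect σ ⟨by linarith, by linarith, by linarith, by linarith⟩)
  · rcases le_total (pvzoS σ * z.re) (300 / 1600) with hh | hh
    · exact Or.inl (pvzo_kdRect σ ⟨by linarith, by linarith, by linarith, by linarith⟩)
    · exact Or.inr (pvzo_kdRect σ ⟨by linarith, by linarith, by linarith, by linarith⟩)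

omit G in
/-- a rectangle inside the room of a white lane -/
theorem pvzo_LnW (σ : Bool) {z : ℂ} {x0 x1 y0 y1 : ℝ} (h : x0 ≤ pvzoS σ * z.re ∧ pvzoS σ * z.re ≤ x1 ∧ y0 ≤ z.im ∧ z.im ≤ y1) (h0 : 50 / 1600 ≤ x0) (h2 : -(150 / 1600) ≤ y0)
    (c : (x1 ≤ 300 / 1600 ∧ y1 ≤ 50 / 1600) ∨ (x1 ≤ 700 / 1600 ∧ y1 ≤ -(50 / 1600))) : z ∈ (pvkdP (1 / 16)).Ln σ false := by
  obtain ⟨a, b, c', d⟩ := h
  show z ∈ pvkdRect σ (1 / 16 / 2) (3 * (1 / 16)) (-(3 * (1 / 16) / 2)) (1 / 16 / 2) ∪ pvkdRect σ (2 * (1 / 16)) (7 * (1 / 16)) (-(3 * (1 / 16) / 2)) (-(1 / 16 / 2))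
  rcases c with ⟨c1, c2⟩ | ⟨c1, c2⟩
  · exact Or.inl (pvzo_kdRect σ ⟨by linarith, by linarith, by linarith, by linarith⟩)
  · rcases le_total (pvzoS σ * z.re) (300 / 1600) with hh | hh
    · exact Or.inl (pvzo_kdRect σ ⟨by linarith, by linarith, by linarith, by linarith⟩)
    · exact Or.inr (pvzo_kdRect σ ⟨by linarith, by linarith, by linarith, by linarith⟩)

/-- the classes of the black door lane lie in its room -/
theorem pvzo_kb (σ : Bool) : ∀ v ∈ pvybM Y (pvybVo σ) ∪ pvybM Y (pvybBd σ), (v : ℂ) ∈ (pvkdP (1 / 16)).Ln σ true := by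
  have mVo : pvybVo σ ∈ pvybLRw ++ pvybLRb ++ pvybLKw ++ pvybLKb := by cases σ <;> simp [pvybLKb]
  have mBd : pvybBd σ ∈ pvybLRw ++ pvybLRb ++ pvybLKw ++ pvybLKb := by cases σ <;> simp [pvybLKb]
  rintro v (hv | hv)
  · exact pvzo_LnB σ (pvzo_cl_mir σ (pvzo_M G mVo hv)) (by norm_num) (by norm_num) (Or.inl ⟨by norm_num, by norm_num⟩)
  · exact pvzo_LnB σ (pvzo_cl_mir σ (pvzo_M G mBd hv)) (by norm_num) (by norm_num) (Or.inr ⟨by norm_num, by norm_num⟩)

/-- the class of the white door lane lies in its room -/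
theorem pvzo_kw (σ : Bool) : ∀ v ∈ G.Kwd σ, (v : ℂ) ∈ (pvkdP (1 / 16)).Ln σ false := by
  have mWc : pvybWc σ ∈ pvybLRw ++ pvybLRb ++ pvybLKw ++ pvybLKb := by cases σ <;> simp [pvybLRw]
  have mWd : pvybWd σ ∈ pvybLRw ++ pvybLRb ++ pvybLKw ++ pvybLKb := by cases σ <;> simp [pvybLRw]
  rintro v ((hv | hv) | hv)
  · exact pvzo_LnW σ (pvzo_cl_mir σ (pvzo_VS G hv)) (by norm_num) (by norm_num) (Or.inl ⟨by norm_num, by norm_num⟩)
  · exact pvzo_LnW σ (pvzo_cl_mir σ (pvzo_M G mWc hv)) (by norm_num) (by norm_num) (Or.inl ⟨by norm_num, by norm_num⟩)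
  · exact pvzo_LnW σ (pvzo_cl_mir σ (pvzo_M G mWd hv)) (by norm_num) (by norm_num) (Or.inr ⟨by norm_num, by norm_num⟩)

/-- [OUT] BLOCKS C + D at the numbers of the table      (47: `pvae_out_del` of 224 = `pvaz_main` of 140 + `pvzt_record` of 259, at `G.K`, `pvzo_pos_tab`, the ten inclusions) -/
theorem pvyb_out : ∀ s, G.N.Out s → PvkoTg ((pvkdP (1 / 16)).CH 0 1) Y s := by
  intro s hs
  have hm : PvtrMesh (1 / 16 / 16) (pvwSq 0 (3 * (1 / 16))) Y := by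
    refine pvko_mesh (by norm_num) G.dense (by unfold pvybρ; norm_num) ?_
    rintro z ⟨h1, h2⟩
    rw [sub_zero] at h1 h2
    exact ⟨by rw [Complex.zero_re, sub_zero]; linarith, by rw [Complex.zero_im, sub_zero]; linarith⟩
  refine pvae_out_del (by norm_num) G.nice hm G.h G.K (pvzo_pos_tab G) ?_ ?_ (pvzo_kb G true) (fun v hv => hv) (pvzo_kw G true) (fun v hv => hv)
    (pvzo_kb G false) (fun v hv => hv) (pvzo_kw G false) (fun v hv => hv) hs
  · intro v hv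
    obtain ⟨a, b, c, d⟩ := pvzo_cl_mir false (pvzo_VS G hv)
    simp only [pvzoS, Bool.false_eq_true, if_false] at a b
    exact ⟨by linarith, by linarith, by linarith, by linarith⟩
  · intro v hv
    obtain ⟨a, b, c, d⟩ := pvzo_cl_mir true (pvzo_VS G hv)
    simp only [pvzoS, if_true] at a b
    exact ⟨by linarith, by linarith, by linarith, by linarith⟩

/-! ## 5. the glue -/

omit G in
theorem pvyb_mem_L {R : PvybRc} (hR : R ∈ pvybLRw ++ pvybLRb ++ pvybLKw ++ pvybLKb) : R.tri ∈ pvybL := List.mem_map_of_mem hR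

/-- **THE NET AT `Y`** -/
noncomputable def PvybGeo.net : PvkoNet ((pvkdP (1 / 16)).CH 0 1) pvybL (delMap G.h) Bool where
  I := G.I
  N := G.N
  Rw := pvybCls Y pvybLRw
  Rb := pvybCls Y pvybLRb
  Kw := pvybCls Y pvybLKw
  Kb := pvybCls Y pvybLKb
  dR := pvyb_dR G
  dK := pvyb_dK G
  FW := G.FW
  FB := G.FB
  lFW := pvyb_lFW G
  lFB := pvyb_lFB G
  hwl := pvyb_hwl G
  hbl := pvyb_hbl G
  hbd := pvyb_hbd G
  hF := fun ω hW hB => ⟨pvyb_F_cr G hB, fun σ => by obtain ⟨a, _, _, _, ha, _⟩ := pvyb_F_hub G hW σ (Or.inl rfl); exact ⟨a, ha⟩, pvyb_F_xl G hW, pvyb_F_xd G hW⟩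
  pB := fun s hs => ⟨fun R hR => pvyb_cr_of_pat G hs (by simp only [List.mem_append]; tauto), pvyb_U2 G fun R hR => pvyb_cr_of_pat G hs (by simp only [List.mem_append]; tauto)⟩
  pW := fun s hs => ⟨fun R hR => (pvyb_cr_flip G R s).1 (pvyb_cr_of_pat G hs (by simp only [List.mem_append]; tauto)),
    pvyb_U1 G fun R hR => (pvyb_cr_flip G R s).1 (pvyb_cr_of_pat G hs (by simp only [List.mem_append]; tauto))⟩
  out := pvyb_out G

end inst

/-- [B13] the patterns are nice and have RSW bounds -/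
theorem pvyb_L_nice : ∀ e ∈ pvybL, e.Nice ∧ PvkoRsw e := by
  have key : ∀ R : PvybRc, R.x0 < R.x1 → R.y0 < R.y1 → R.tri.Nice ∧ PvkoRsw R.tri := by
    intro R hx hy
    unfold PvybRc.tri
    split_ifs
    · exact ⟨rsw_nice_LR _ _ _ _, pvko_rsw_LR hx hy⟩
    · exact ⟨rsw_nice_TB _ _ _ _, pvko_rsw_TB hx hy⟩
  have mk : ∀ (a b c d : ℝ) (lr : Bool), a < b → c < d → (pvybMk a b c d lr).x0 < (pvybMk a b c d lr).x1 ∧ (pvybMk a b c d lr).y0 < (pvybMk a b c d lr).y1 := by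
    intro a b c d lr h1 h2
    have he : (0 : ℝ) < pvybE := by unfold pvybE; norm_num
    exact ⟨mul_lt_mul_of_pos_right h1 he, mul_lt_mul_of_pos_right h2 he⟩
  have mir : ∀ (R : PvybRc) (σ : Bool), R.x0 < R.x1 ∧ R.y0 < R.y1 → (R.mir σ).x0 < (R.mir σ).x1 ∧ (R.mir σ).y0 < (R.mir σ).y1 := by
    intro R σ h
    cases σ
    · exact ⟨neg_lt_neg h.1, h.2⟩
    · exact h
  intro e he
  obtain ⟨R, hR, rfl⟩ := List.mem_map.1 he
  have : R.x0 < R.x1 ∧ R.y0 < R.y1 := by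
    simp only [pvybLRw, pvybLRb, pvybLKw, pvybLKb, List.mem_append, List.mem_cons, List.not_mem_nil, or_false] at hR
    rcases hR with ((hR | hR) | hR) | hR
    · rcases hR with rfl | rfl | rfl | rfl | rfl | rfl | rfl | rfl | rfl | rfl <;>
        first
        | exact mir _ _ (mk _ _ _ _ _ (by norm_num) (by norm_num))
        | exact mk _ _ _ _ _ (by norm_num) (by norm_num)
    · rcases hR with rfl | rfl <;> exact mir _ _ (mk _ _ _ _ _ (by norm_num) (by norm_num))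
    · rcases hR with rfl | rfl | rfl <;>
        first
        | exact mir _ _ (mk _ _ _ _ _ (by norm_num) (by norm_num))
        | exact mk _ _ _ _ _ (by norm_num) (by norm_num)
    · rcases hR with rfl | rfl | rfl | rfl | rfl | rfl | rfl <;>
        first
        | exact mir _ _ (mk _ _ _ _ _ (by norm_num) (by norm_num))
        | exact mk _ _ _ _ _ (by norm_num) (by norm_num)
  exact key R this.1 this.2

/-- **BLOCK B + C + D ⟹ THE DETERMINISTIC EXIT OF [ADM]** (statement of `exit_pvko_inst`, `Tr/AdmP.lean`) -/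
theorem pvyb_inst : ∃ (l : List RswTri) (ρ L : ℝ), (∀ e ∈ l, e.Nice) ∧ (∀ e ∈ l, PvkoRsw e) ∧ 0 < ρ ∧ 0 ≤ L ∧
    ∀ Y : Set ℂ, PvatNice Y → VorDense Y (pvmSq 0 L) ρ → PvkoInst (pvkdP (1 / 16)) l Y := by
  refine ⟨pvybL, pvybρ, 1 / 2, fun e he => (pvyb_L_nice e he).1, fun e he => (pvyb_L_nice e he).2, by unfold pvybρ; norm_num, by norm_num, fun Y hn hd => ?_⟩
  obtain ⟨G⟩ := pvyb_geo_exists hn hd
  exact pvko_inst_of_net G.net

end Claimed.Agent.R289
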