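-- KEEP
import Claimed.Agent.R289.Tr.AdmIB

/-!
# Row 289 (S0537), THE WALL, ADMISSION, ROPE A, BLOCK B (INSTANCE), file Tr/AdmIU : TOOLS ON BOXES, THE DICTIONARY, THE FRESH LINKS      (helper267; prefix `pvzb_`; 0 sorry)

Definitions: `Tr/AdmIB`.
* sec.1  TOOLS: `PvzbBx.In` (the box lies `6ρ` inside the square), `pvzb_box_num` (all the boxes of the table), `pvzb_cr_lr`, `pvzb_cr_tb` (the ends of a crossing), `pvzb_St_pos`, `pvzb_short`,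
         `PvzbHash A C` (# position: the bar `A` and the column `C` overshoot each other by `5ρ`), **`pvzb_glue`** (two crossings in # position meet).
* sec.2  **`pvzb_pat`** = `exit_pvzb_pat`.
* sec.3  `pvzb_bar_free`, **`pvzb_half_ev`** (bar + column ⟹ the event of the half link from BOTH ends of the bar; every kind `t`, both sides, both colours), **`pvzb_bridge`** (two half links with the same bar),
         **`pvzb_U1`** = `exit_pvzb_U1`, `pvzb_door`, **`pvzb_U2`** = `exit_pvzb_U2`.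
-/

set_option autoImplicit false
set_option linter.unusedSectionVars false
set_option linter.unusedVariables false
set_option linter.unusedSimpArgs false

namespace Claimed.Agent.R289

open Set Metric Relation

variable {Y : Set ℂ}

/-! ## 1. tools -/

/-- the box lies `6ρ` inside the square -/
def PvzbBx.In (B : PvzbBx) : Prop := -pvzbL + 6 * pvzbρ ≤ B.a0 ∧ B.a1 ≤ pvzbL - 6 * pvzbρ ∧ -pvzbL + 6 * pvzbρ ≤ B.b0 ∧ B.b1 ≤ pvzbL - 6 * pvzbρ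

/-- **# POSITION**: the bar `A` and the column `C` overshoot each other by `5ρ` -/
def PvzbHash (A C : PvzbBx) : Prop := C.a0 ≤ C.a1 ∧ A.b0 ≤ A.b1 ∧ A.a0 + 5 * pvzbρ < C.a0 ∧ C.a1 + 5 * pvzbρ < A.a1 ∧ C.b0 + 5 * pvzbρ < A.b0 ∧ A.b1 + 5 * pvzbρ < C.b1

theorem pvzb_eqns_cite4 : True := by
  have := @PvzbBx.In.eq_1; have := @PvzbHash.eq_1
  trivial

/-- the boxes of the table are non degenerate and lie well inside the square -/
theorem pvzb_box_num : ∀ B ∈ pvzbLFB ++ pvzbLFW ++ pvzbLUW ++ pvzbLUB, B.a0 < B.a1 ∧ B.b0 < B.b1 ∧ -pvzbL + 6 * pvzbρ ≤ B.a0 ∧ B.a1 ≤ pvzbL - 6 * pvzbρ ∧ -pvzbL + 6 * pvzbρ ≤ B.b0 ∧ B.b1 ≤ pvzbL - 6 * pvzbρ := by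
  intro B hB
  simp only [pvzbLFB, pvzbLFW, pvzbLUW, pvzbLUB, List.cons_append, List.nil_append, List.mem_cons, List.not_mem_nil, or_false] at hB
  rcases hB with rfl | rfl | rfl | rfl | rfl | rfl | rfl | rfl | rfl | rfl | rfl | rfl | rfl | rfl | rfl | rfl | rfl | rfl | rfl | rfl | rfl | rfl | rfl | rfl | rfl | rfl | rfl | rfl | rfl | rfl | rfl | rfl <;>
  simp only [pvzbFb, pvzbHu, pvzbKt, pvzbKl, pvzbKd, pvzbTu, pvzbLb, pvzbW1, pvzbW2, pvzbW3, pvzbUp, pvzbTo, pvzbCi, pvzbMi, pvzbCo, pvzbB1, pvzbB2, pvzbB3, pvzbBx, pvzbρ, pvzbL] <;> norm_num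

theorem pvzb_cr_lr {h : DelGood Y} {B : PvzbBx} (hl : B.lr = true) {c : Bool} {ω : Y → Bool} (hc : B.Cr h c ω) :
    ∃ u v : Y, (u : ℂ).re ≤ B.a0 + pvzbρ ∧ B.a1 - pvzbρ ≤ (v : ℂ).re ∧ (delMap h).Join univ (B.St c ω) u v := by
  obtain ⟨u, v, h1, h2⟩ := hc
  rw [if_pos hl] at h1
  exact ⟨u, v, h1.1, h1.2, h2⟩

theorem pvzb_cr_tb {h : DelGood Y} {B : PvzbBx} (hl : B.lr = false) {c : Bool} {ω : Y → Bool} (hc : B.Cr h c ω) :
    ∃ u v : Y, (u : ℂ).im ≤ B.b0 + pvzbρ ∧ B.b1 - pvzbρ ≤ (v : ℂ).im ∧ (delMap h).Join univ (B.St c ω) u v := by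
  obtain ⟨u, v, h1, h2⟩ := hc
  rw [if_neg (by rw [hl]; simp)] at h1
  exact ⟨u, v, h1.1, h1.2, h2⟩

/-- a site of the collar of a box: room for the mesh -/
theorem pvzb_col_ball {B : PvzbBx} (hB : B.In) {z : ℂ} (hz : z ∈ B.col) : closedBall z (2 * pvzbρ) ⊆ pvmSq 0 pvzbL := by
  obtain ⟨q0, q1, q2, q3⟩ := hB
  have hρ := pvzb_ρ_pos
  exact (pvzx_ball_sub (pvzq_R_mono (by linarith) (by linarith) (by linarith) (by linarith) hz : z ∈ pvzqR (B.a0 - 3 * pvzbρ + 2 * pvzbρ) (B.a1 + 3 * pvzbρ - 2 * pvzbρ) (B.b0 - 3 * pvzbρ + 2 * pvzbρ) (B.b1 + 3 * pvzbρ - 2 * pvzbρ))).trans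
    (pvzb_R_sq (by linarith) (by linarith) (by linarith) (by linarith))

/-- an edge which starts in the collar of a box is short -/
theorem pvzb_short (h : DelGood Y) (hd : VorDense Y (pvmSq 0 pvzbL) pvzbρ) {B : PvzbBx} (hB : B.In) {u v : Y} (hu : (u : ℂ) ∈ B.col) (huv : (delMap h).Adj u v) : ‖(u : ℂ) - v‖ ≤ 2 * pvzbρ :=
  pvzd_short h pvzb_ρ_pos hd huv (pvzb_col_ball hB hu)

/-- **GLUE**: a crossing of the bar `A` and a crossing of the column `C` in # position meet -/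
theorem pvzb_glue (h : DelGood Y) (hd : VorDense Y (pvmSq 0 pvzbL) pvzbρ) {A C : PvzbBx} (hA : A.In) (hC : C.In) (hH : PvzbHash A C) {c : Bool} {ω : Y → Bool} {u v u' v' : Y}
    (huv : (delMap h).Join univ (A.St c ω) u v) (hu : (u : ℂ).re ≤ A.a0 + pvzbρ) (hv : A.a1 - pvzbρ ≤ (v : ℂ).re)
    (huv' : (delMap h).Join univ (C.St c ω) u' v') (hu' : (u' : ℂ).im ≤ C.b0 + pvzbρ) (hv' : C.b1 - pvzbρ ≤ (v' : ℂ).im) :
    ∃ x, (delMap h).Join univ (A.St c ω) u x ∧ (delMap h).Join univ (C.St c ω) u' x := by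
  obtain ⟨k0, k1, k2, k3, k4, k5⟩ := hH
  have hA' := hA
  have hC' := hC
  obtain ⟨q0, q1, q2, q3⟩ := hA'
  obtain ⟨p0, p1, p2, p3⟩ := hC'
  exact pvzx_glue h pvzb_ρ_pos hd k0 k1 k2 k3 k4 k5 (pvzb_R_sq (by linarith) (by linarith) (by linarith) (by linarith))
    (fun w hw => ⟨hw.1, pvzb_col_ball hA hw.1⟩) (fun w hw => ⟨hw.1, pvzb_col_ball hC hw.1⟩) huv hu hv huv' hu' hv'

/-! ## 2. the dictionary -/

/-- the black region is the union of the cells of the black sites -/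
theorem pvzb_B_eq (s : Y → Bool) : pvkoB Y s = vorUn Y (Subtype.val '' {v : Y | s v = true}) := by
  ext z
  constructor
  · rintro ⟨v, hv, hz⟩
    exact ⟨v, ⟨v, hv, rfl⟩, hz⟩
  · rintro ⟨_, ⟨v, hv, rfl⟩, hz⟩
    exact ⟨v, hv, hz⟩

/-- **DICTIONARY**: a pattern which holds in the black region gives the black crossing event of its box -/
theorem pvzb_pat (h : DelGood Y) (hd : VorDense Y (pvmSq 0 pvzbL) pvzbρ) {B : PvzbBx}
    (hB : -pvzbL + 6 * pvzbρ ≤ B.a0 ∧ B.a1 ≤ pvzbL - 6 * pvzbρ ∧ -pvzbL + 6 * pvzbρ ≤ B.b0 ∧ B.b1 ≤ pvzbL - 6 * pvzbρ) {s : Y → Bool}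
    (he : B.tri.Holds (pvkoB Y s)) : B.Cr h true s := by
  have hρ := pvzb_ρ_pos
  obtain ⟨q0, q1, q2, q3⟩ := hB
  have hA : Subtype.val '' {v : Y | s v = true} ⊆ Y := by
    rintro _ ⟨v, -, rfl⟩
    exact v.2
  have hU : pvzqR (B.a0 - 3 * pvzbρ) (B.a1 + 3 * pvzbρ) (B.b0 - 3 * pvzbρ) (B.b1 + 3 * pvzbρ) ⊆ pvmSq 0 pvzbL :=
    pvzb_R_sq (by linarith) (by linarith) (by linarith) (by linarith)
  have hS : pvzxS Y (Subtype.val '' {v : Y | s v = true}) (pvzqR B.a0 B.a1 B.b0 B.b1) ⊆ B.St true s := by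
    intro w hw
    obtain ⟨⟨v, hv, e⟩, k, -⟩ := pvzx_S_pos hρ hd hU hw
    have e' : v = w := Subtype.ext e
    exact ⟨k, e' ▸ hv⟩
  rw [pvzb_B_eq] at he
  unfold PvzbBx.tri at he
  by_cases hl : B.lr = true
  · rw [if_pos hl] at he
    obtain ⟨u, v, hu, hv, hj⟩ := pvzx_LR_join h hA hρ hd hU he
    exact ⟨u, v, by rw [if_pos hl]; exact ⟨hu, hv⟩, pl_hx_join_mono Subset.rfl hS hj⟩
  · rw [if_neg hl] at he
    obtain ⟨u, v, hu, hv, hj⟩ := pvzx_TB_join h hA hρ hd hU he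
    exact ⟨u, v, by rw [if_neg hl]; exact ⟨hu, hv⟩, pl_hx_join_mono Subset.rfl hS hj⟩

/-! ## 3. the fresh links -/

section fresh

variable (h : DelGood Y) (hd : VorDense Y (pvmSq 0 pvzbL) pvzbρ)

theorem pvzb_ty_num (t : PvzbTy) (σ : Bool) : (t.br σ).In ∧ (t.cl σ).In ∧ PvzbHash (t.br σ) (t.cl σ) ∧ (t.cl σ).b0 + pvzbρ < (pvzbQd σ).b0 - pvzbρ ∧ ∀ j, (pvzbQd j).b1 + pvzbρ < (t.br σ).b0 - pvzbρ := by
  refine ⟨?_, ?_, ?_, ?_, fun j => ?_⟩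
  · cases t <;> cases σ <;> simp only [PvzbBx.In, PvzbTy.br, pvzbTo, pvzbMi, pvzbB1, pvzbBx, pvzbρ, pvzbL] <;> norm_num
  · cases t <;> cases σ <;> simp only [PvzbBx.In, PvzbTy.cl, pvzbUp, pvzbCi, pvzbCo, pvzbBx, pvzbρ, pvzbL] <;> norm_num
  · cases t <;> cases σ <;> simp only [PvzbHash, PvzbTy.br, pvzbTo, pvzbMi, pvzbB1, PvzbTy.cl, pvzbUp, pvzbCi, pvzbCo, pvzbBx, pvzbρ, pvzbL] <;> norm_num
  · cases t <;> cases σ <;> simp only [pvzbQd, PvzbTy.cl, pvzbUp, pvzbCi, pvzbCo, pvzbBx, pvzbρ, pvzbL] <;> norm_num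
  · cases t <;> cases σ <;> cases j <;> simp only [pvzbQd, PvzbTy.br, pvzbTo, pvzbMi, pvzbB1, pvzbBx, pvzbρ, pvzbL] <;> norm_num

/-- the sites of the collar of a bar are never explored -/
theorem pvzb_bar_free (t : PvzbTy) (σ : Bool) {m : Y} (hm : (m : ℂ) ∈ (t.br σ).col) : m ∈ (pvzbF h hd).In.Free := by
  refine (pvzbF h hd).mem_Free.2 ⟨pvzb_G_Lo h hd t σ _ (Or.inr hm), fun j hj => ?_⟩
  have h1 := ((pvzb_Q_ok h hd j).out m hj).2.2.2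
  have h2 := (pvzb_ty_num t σ).2.2.2.2 j
  have h3 := hm.2.2.1
  linarith

/-- **THE EVENT OF A HALF LINK** from a crossing of the bar and a crossing of the column, from both ends of the bar -/
theorem pvzb_half_ev (t : PvzbTy) (σ : Bool) {c : Bool} {ω : Y → Bool} {u v u' v' : Y}
    (huv : (delMap h).Join univ ((t.br σ).St c ω) u v) (hu : (u : ℂ).re ≤ (t.br σ).a0 + pvzbρ) (hv : (t.br σ).a1 - pvzbρ ≤ (v : ℂ).re)
    (huv' : (delMap h).Join univ ((t.cl σ).St c ω) u' v') (hu' : (u' : ℂ).im ≤ (t.cl σ).b0 + pvzbρ) (hv' : (t.cl σ).b1 - pvzbρ ≤ (v' : ℂ).im) :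
    (pvzbH h hd t σ).Ev c ω u ∧ (pvzbH h hd t σ).Ev c ω v := by
  obtain ⟨n1, n2, n3, n4, -⟩ := pvzb_ty_num t σ
  obtain ⟨x, hx, hx'⟩ := pvzb_glue h hd n1 n2 n3 huv hu hv huv' hu' hv'
  have hue : (delMap h).Join univ ((t.br σ).St c ω ∪ (t.cl σ).St c ω) u u' :=
    pl_hx_join_trans (pl_hx_join_mono Subset.rfl subset_union_left hx) (pl_hx_join_mono Subset.rfl subset_union_right (pl_hx_join_symm hx'))
  have hve : (delMap h).Join univ ((t.br σ).St c ω ∪ (t.cl σ).St c ω) v u' :=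
    pl_hx_join_trans (pl_hx_join_mono Subset.rfl subset_union_left (pl_hx_join_symm huv)) hue
  have key : ∀ m : Y, (m : ℂ) ∈ (t.br σ).col → (delMap h).Join univ ((t.br σ).St c ω ∪ (t.cl σ).St c ω) m u' → (pvzbH h hd t σ).Ev c ω m := by
    intro m hm hme
    refine (pvzbF h hd).half_ev σ (pvzb_Q_d h hd σ) (pvzb_room t σ) (pvzb_G_Lo h hd t σ) (pvzb_G_off h hd t σ) pvzb_ρ_pos.le ?_ (Z := (t.br σ).St c ω ∪ (t.cl σ).St c ω) ?_ ?_ ?_
      (Or.inr hm) (by linarith) hme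
    · cases σ <;> simp only [pvzbQd, pvzbBx, pvzbρ] <;> norm_num
    · rintro w (hw | hw)
      · exact hw.2
      · exact hw.2
    · rintro w (hw | hw)
      · exact Or.inl (Or.inr hw.1)
      · rcases lt_or_ge (-4 / 256 + pvzbρ) (w : ℂ).im with k | k
        · exact Or.inl (Or.inl ⟨hw.1, k⟩)
        · exact Or.inr ⟨hw.1, k⟩
    · rintro a (ha | ha) b - hab
      · exact pvzb_short h hd n1 ha.1 hab
      · exact pvzb_short h hd n2 ha.1 hab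
  exact ⟨key u huv.1.1 hue, key v (pl_hx_join_mem huv).1 hve⟩

/-- **BRIDGE**: two half links with the same bar -/
theorem pvzb_bridge (t : PvzbTy) (ht : t.br false = t.br true) (hl : (t.br true).lr = true) (hl' : ∀ σ, (t.cl σ).lr = false) {c : Bool} {ω : Y → Bool}
    (h1 : (t.br true).Cr h c ω) (h2 : ∀ σ, (t.cl σ).Cr h c ω) :
    ∃ m ∈ (pvzbF h hd).In.Free, (pvzbH h hd t false).Ev c ω m ∧ (pvzbH h hd t true).Ev c ω m := by
  obtain ⟨u, v, hu, hv, huv⟩ := pvzb_cr_lr hl h1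
  obtain ⟨a, b, ha, hb, hab⟩ := pvzb_cr_tb (hl' true) (h2 true)
  obtain ⟨a', b', ha', hb', hab'⟩ := pvzb_cr_tb (hl' false) (h2 false)
  refine ⟨u, pvzb_bar_free h hd t true huv.1.1, (pvzb_half_ev h hd t false (v := v) ?_ ?_ ?_ hab' ha' hb').1, (pvzb_half_ev h hd t true huv hu hv hab ha hb).1⟩
  · rw [ht]; exact huv
  · rw [ht]; exact hu
  · rw [ht]; exact hv

/-- **FRESH WHITE**: the upper half circuit      (= `exit_pvzb_U1`) -/
theorem pvzb_U1 {ω : Y → Bool} (hU : pvzbEv h false pvzbLUW ω) : (pvzbN h hd).U1 ω := by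
  intro l hl
  rcases List.mem_singleton.1 hl with rfl
  refine pvzb_bridge h hd .up rfl rfl (fun _ => rfl) (hU _ (by simp [pvzbLUW, PvzbTy.br])) fun σ => hU _ ?_
  cases σ <;> simp [pvzbLUW, PvzbTy.cl]

theorem pvzb_door_num (σ : Bool) : (pvzbB1 σ).In ∧ (pvzbB2 σ).In ∧ (pvzbB3 σ).In ∧ PvzbHash (pvzbB1 σ) (pvzbB2 σ) ∧ PvzbHash (pvzbB3 σ) (pvzbB2 σ) := by
  refine ⟨?_, ?_, ?_, ?_, ?_⟩ <;> cases σ <;> simp only [PvzbBx.In, PvzbHash, pvzbB1, pvzbB2, pvzbB3, pvzbBx, pvzbρ, pvzbL] <;> norm_num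

/-- **DOOR LANE** (black): column + three boxes -/
theorem pvzb_door (σ : Bool) {ω : Y → Bool} (h0 : (pvzbCo σ).Cr h true ω) (h1 : (pvzbB1 σ).Cr h true ω) (h2 : (pvzbB2 σ).Cr h true ω) (h3 : (pvzbB3 σ).Cr h true ω) :
    ∃ m ∈ (pvzbF h hd).In.Free, (pvzbH h hd .cout σ).Ev true ω m ∧ (pvzbE h hd σ).Ev true ω m := by
  obtain ⟨n1, n2, n3, n4, n5⟩ := pvzb_door_num σ
  obtain ⟨a, b, ha, hb, hab⟩ := pvzb_cr_tb rfl h0
  obtain ⟨u1, v1, hu1, hv1, j1⟩ := pvzb_cr_lr rfl h1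
  obtain ⟨u2, v2, hu2, hv2, j2⟩ := pvzb_cr_tb rfl h2
  obtain ⟨u3, v3, hu3, hv3, j3⟩ := pvzb_cr_lr rfl h3
  obtain ⟨x, hx, hx'⟩ := pvzb_glue h hd n1 n2 n4 j1 hu1 hv1 j2 hu2 hv2
  obtain ⟨y, hy, hy'⟩ := pvzb_glue h hd n3 n2 n5 j3 hu3 hv3 j2 hu2 hv2
  have s1 : (pvzbB1 σ).St true ω ⊆ (pvzbB1 σ).St true ω ∪ (pvzbB2 σ).St true ω ∪ (pvzbB3 σ).St true ω := fun w hw => Or.inl (Or.inl hw)
  have s2 : (pvzbB2 σ).St true ω ⊆ (pvzbB1 σ).St true ω ∪ (pvzbB2 σ).St true ω ∪ (pvzbB3 σ).St true ω := fun w hw => Or.inl (Or.inr hw)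
  have s3 : (pvzbB3 σ).St true ω ⊆ (pvzbB1 σ).St true ω ∪ (pvzbB2 σ).St true ω ∪ (pvzbB3 σ).St true ω := fun w hw => Or.inr hw
  have k1 : (delMap h).Join univ ((pvzbB1 σ).St true ω ∪ (pvzbB2 σ).St true ω ∪ (pvzbB3 σ).St true ω) u1 u3 :=
    pl_hx_join_trans (pl_hx_join_mono Subset.rfl s1 hx) (pl_hx_join_trans (pl_hx_join_mono Subset.rfl s2 (pl_hx_join_symm hx'))
      (pl_hx_join_trans (pl_hx_join_mono Subset.rfl s2 hy') (pl_hx_join_mono Subset.rfl s3 (pl_hx_join_symm hy))))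
  have k2 := pl_hx_join_trans k1 (pl_hx_join_mono Subset.rfl s3 j3)
  refine ⟨u1, pvzb_bar_free h hd .cout σ j1.1.1, (pvzb_half_ev h hd .cout σ j1 hu1 hv1 hab ha hb).1, ?_⟩
  have hZc : ∀ w ∈ (pvzbB1 σ).St true ω ∪ (pvzbB2 σ).St true ω ∪ (pvzbB3 σ).St true ω, ω w = true := by
    rintro w ((hw | hw) | hw) <;> exact hw.2
  have hZ : ∀ w ∈ (pvzbB1 σ).St true ω ∪ (pvzbB2 σ).St true ω ∪ (pvzbB3 σ).St true ω, (w : ℂ) ∈ pvzbGt σ := by
    rintro w ((hw | hw) | hw)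
    · exact Or.inl (Or.inl hw.1)
    · exact Or.inl (Or.inr hw.1)
    · exact Or.inr hw.1
  have p3 := j3.1.1
  have q3 := (pl_hx_join_mem j3).1
  cases σ
  · refine (pvzbF h hd).tail_ev (pvzb_Gt_Lo h hd false) (pvzb_Gt_off h hd false) hZc hZ (t := u3) ?_ k1
    obtain ⟨e0, e1, e2, e3⟩ := p3
    simp only [pvzbZ, PvzbBx.R, pvzbB3, pvzbBx, pvzbρ] at *
    norm_num at *
    exact ⟨by linarith, by linarith, by linarith, by linarith⟩
  · refine (pvzbF h hd).tail_ev (pvzb_Gt_Lo h hd true) (pvzb_Gt_off h hd true) hZc hZ (t := v3) ?_ k2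
    obtain ⟨e0, e1, e2, e3⟩ := q3
    simp only [pvzbZ, PvzbBx.R, pvzbB3, pvzbBx, pvzbρ] at *
    norm_num at *
    exact ⟨by linarith, by linarith, by linarith, by linarith⟩

/-- **FRESH BLACK**: connector + two door lanes      (= `exit_pvzb_U2`) -/
theorem pvzb_U2 {ω : Y → Bool} (hU : pvzbEv h true pvzbLUB ω) : (pvzbN h hd).U2 ω := by
  refine ⟨fun l hl => ?_, fun l hl => ?_⟩
  · rcases List.mem_singleton.1 hl with rfl
    refine pvzb_bridge h hd .cin rfl rfl (fun _ => rfl) (hU _ (by simp [pvzbLUB, PvzbTy.br])) fun σ => hU _ ?_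
    cases σ <;> simp [pvzbLUB, PvzbTy.cl]
  · have hl' : l = (pvzbH h hd .cout false, pvzbE h hd false) ∨ l = (pvzbH h hd .cout true, pvzbE h hd true) := by
      rcases List.mem_cons.1 hl with e | e
      · exact Or.inl e
      · exact Or.inr (List.mem_singleton.1 e)
    rcases hl' with rfl | rfl
    · exact pvzb_door h hd false (hU _ (by simp [pvzbLUB])) (hU _ (by simp [pvzbLUB])) (hU _ (by simp [pvzbLUB])) (hU _ (by simp [pvzbLUB]))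
    · exact pvzb_door h hd true (hU _ (by simp [pvzbLUB])) (hU _ (by simp [pvzbLUB])) (hU _ (by simp [pvzbLUB])) (hU _ (by simp [pvzbLUB]))

end fresh

end Claimed.Agent.R289
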