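-- KEEP
import Claimed.Agent.R289.Tr.AdmIU

/-!
# Row 289 (S0537), THE WALL, ADMISSION, ROPE A, BLOCK B (INSTANCE), file Tr/AdmIF : THE EXPLORED EVENT      (helper267; prefix `pvzb_`; 0 sorry)

`pvzb_cr13` (black strip ⟹ `Cr13`), `pvzb_room_join` (a join in the darts of a room is a join through sites of the room), `PvzbCol σ C` (white column of the quad `σ`), **`pvzb_stem`** (`F.stem` of 229 at the table),
`pvzb_low` (a low white lane is explored), `pvzb_xl` (column - bar - column), `pvzb_xd` (column - three boxes), **`pvzb_F`** = `exit_pvzb_F`.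
-/

set_option autoImplicit false
set_option linter.unusedSectionVars false
set_option linter.unusedVariables false
set_option linter.unusedSimpArgs false

namespace Claimed.Agent.R289

open Set Metric Relation

variable {Y : Set ℂ} (h : DelGood Y) (hd : VorDense Y (pvmSq 0 pvzbL) pvzbρ)

/-- **the black strip gives the black crossing of the quad** -/
theorem pvzb_cr13 (σ : Bool) {ω : Y → Bool} (hB : (pvzbFb σ).Cr h true ω) : (pvzbQ h hd σ).Cr13 (pvamB ω) := by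
  obtain ⟨u, v, hu, hv, huv⟩ := pvzb_cr_lr rfl hB
  have hIn : (pvzbFb σ).In := by cases σ <;> simp only [PvzbBx.In, pvzbFb, pvzbBx, pvzbρ, pvzbL] <;> norm_num
  have key : ∃ a ∈ (pvzbQ h hd σ).S1, ∃ a' ∈ (pvzbQ h hd σ).S3, (delMap h).Join (pvzbQ h hd σ).c.Left ((pvzbFb σ).St true ω) a a' := ?_
  · obtain ⟨a, ha, a', ha', hj⟩ := key
    exact ⟨a, ha, a', ha', pl_hx_join_mono Subset.rfl (fun w hw => hw.2) hj⟩
  refine pvzd_cr13 (pvzb_Q_d h hd σ) pvzb_ρ_pos.le (lam := 2 * pvzbρ) (by linarith [pvzb_ρ_pos]) ?_ (Z := (pvzbFb σ).St true ω) ?_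
    (fun a ha b _ hab => pvzb_short h hd hIn ha.1 hab) huv.1 ?_ ?_ (pvzd_chain_of_join huv)
  · cases σ <;> simp only [pvzbQd, pvzbBx, pvzbρ] <;> norm_num
  · rintro w ⟨⟨-, -, k2, k3⟩, -⟩
    cases σ <;> simp only [pvzbQd, pvzbFb, pvzbBx, pvzbρ] at * <;> norm_num at * <;> constructor <;> linarith
  · cases σ <;> simp only [pvzbQd, pvzbFb, pvzbBx, pvzbρ] at * <;> norm_num at * <;> linarith
  · cases σ <;> simp only [pvzbQd, pvzbFb, pvzbBx, pvzbρ] at * <;> norm_num at * <;> linarith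

/-- a join in the darts of a room is a join through sites of the room -/
theorem pvzb_room_join {G G' : Set ℂ} (hG : G ⊆ G') {X : Set Y} {a b : Y} (ha : (a : ℂ) ∈ G') (hab : (delMap h).Join (pvzdD h G) X a b) : (delMap h).Join univ (X ∩ pvzbV Y G') a b := by
  obtain ⟨h1, h2⟩ := hab
  refine ⟨⟨h1, ha⟩, ?_⟩
  induction h2 with
  | refl => exact ReflTransGen.refl
  | @tail x y _ hxy ih =>
    refine ih.tail ⟨pvam_og_edge_mono (subset_univ _) hxy.1, hxy.2, ?_⟩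
    obtain ⟨d, hd' | hd', -, e⟩ := hxy.1
    · exact hG (e ▸ hd'.2)
    · have e' : (delMap h).src ((delMap h).opp d) = (delMap h).tgt d := (delMap h).src_opp d
      exact hG (e ▸ e' ▸ hd'.1)

/-- **WHITE COLUMN** of the quad `σ` -/
def PvzbCol (σ : Bool) (C : PvzbBx) : Prop :=
  C.In ∧ (pvzbQd σ).a0 + 3 * pvzbρ < C.a0 ∧ C.a1 < (pvzbQd σ).a1 - 3 * pvzbρ ∧ C.b0 + pvzbρ < (pvzbQd σ).b0 - pvzbρ ∧ -1 / 256 ≤ C.b1 - pvzbρ ∧ C.b1 + pvzbρ < (pvzbQd σ).b1 - pvzbρ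

theorem pvzb_eqns_cite5 : True := by
  have := @PvzbCol.eq_1
  trivial

/-- **STEM** at the table: the hub strip and a white column give a hub joined, through explored white sites of the room, to every site of the cluster of the column -/
theorem pvzb_stem (σ : Bool) {C : PvzbBx} (hC : PvzbCol σ C) {G : Set ℂ} (hQG : (pvzbQd σ).col ⊆ G) (hCG : C.col ⊆ G) {ω : Y → Bool} (hH : (pvzbHu σ).Cr h false ω)
    {c t : Y} (hct : (delMap h).Join univ (C.St false ω) c t) (hc : (c : ℂ).im ≤ C.b0 + pvzbρ) (ht : C.b1 - pvzbρ ≤ (t : ℂ).im) :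
    ∃ a₀, (pvzbF h hd).In.Hub ω σ a₀ ∧ ∀ w, (delMap h).Join univ (C.St false ω) c w → (delMap h).Join univ ((pvzbF h hd).In.Wx ω ∩ pvzbV Y G) a₀ w := by
  obtain ⟨c1, c2, c3, c4, c5, c6⟩ := hC
  obtain ⟨a, b, ha, hb, hab⟩ := pvzb_cr_lr rfl hH
  have hIn : (pvzbHu σ).In := by cases σ <;> simp only [PvzbBx.In, pvzbHu, pvzbBx, pvzbρ, pvzbL] <;> norm_num
  have hρ := pvzb_ρ_pos
  have key : ∃ a₀, (pvzbF h hd).In.Hub ω σ a₀ ∧ ∀ w, (delMap h).Join univ (C.St false ω) c w → (delMap h).Join (pvzdD h G) ((pvzbF h hd).In.Wx ω) a₀ w := ?_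
  · obtain ⟨a₀, h0, h1⟩ := key
    refine ⟨a₀, h0, fun w hw => pvzb_room_join h Subset.rfl (hQG ?_) (h1 w hw)⟩
    exact (pvzb_Q_ok h hd σ).out a₀ (pl_qd_verts_VOf (dls_isSph h) _ (pl_qd_S1_verts _ h0.1))
  refine (pvzbF h hd).stem σ (θ := -1 / 256) (U := pvmSq 0 pvzbL) (G := G) (pvzb_Q_ok h hd σ) hρ ?_ ?_ hd (pvzb_R_sq ?_ ?_ ?_ ?_) ?_ (ω := ω) (X1 := (pvzbHu σ).St false ω) (X2 := C.St false ω)
    (fun w hw => hw.2) ?_ ?_ hab ?_ ?_ (fun w hw => hw.2) ?_ ?_ ?_ hct (by linarith) (by linarith) hQG (fun w hw => hCG hw.1)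
  · cases σ <;> simp only [pvzbQd, pvzbBx, pvzbρ] <;> norm_num
  · cases σ <;> simp only [pvzbQd, pvzbBx, pvzbρ] <;> norm_num
  · cases σ <;> simp only [pvzbQd, pvzbBx, pvzbρ, pvzbL] <;> norm_num
  · cases σ <;> simp only [pvzbQd, pvzbBx, pvzbρ, pvzbL] <;> norm_num
  · cases σ <;> simp only [pvzbQd, pvzbBx, pvzbρ, pvzbL] <;> norm_num
  · cases σ <;> simp only [pvzbQd, pvzbBx, pvzbρ, pvzbL] <;> norm_num
  · cases σ <;> simp only [pvzbQd, pvzbBx, pvzbρ] <;> norm_num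
  · rintro w ⟨hw, -⟩
    refine ⟨?_, ?_, pvzb_col_ball hIn hw⟩
    · have := hw.2.2.1
      cases σ <;> simp only [pvzbQd, pvzbHu, pvzbBx, pvzbρ] at * <;> norm_num at * <;> linarith
    · have := hw.2.2.2
      cases σ <;> simp only [pvzbQd, pvzbHu, pvzbBx, pvzbρ] at * <;> norm_num at * <;> linarith
  · rintro w ⟨hw, -⟩ ⟨hc', -⟩
    have hc'' : (w : ℂ).im ≤ -4 / 256 + pvzbρ := hc'
    have := hw.2.2.1
    cases σ <;> simp only [pvzbHu, pvzbBx, pvzbρ] at * <;> norm_num at * <;> linarith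
  · cases σ <;> simp only [pvzbQd, pvzbHu, pvzbBx, pvzbρ] at * <;> norm_num at * <;> linarith
  · cases σ <;> simp only [pvzbQd, pvzbHu, pvzbBx, pvzbρ] at * <;> norm_num at * <;> linarith
  · rintro w ⟨⟨k0, k1, k2, k3⟩, -⟩
    exact ⟨by linarith, by linarith, by linarith⟩
  · rintro w ⟨hw, -⟩ hlow
    refine ⟨?_, pvzb_col_ball c1 hw (mem_closedBall_self (by linarith))⟩
    show (w : ℂ).im ≤ -4 / 256 + pvzbρ
    simp only [pvzbQd, pvzbBx] at hlow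
    linarith
  · rintro j hj w ⟨⟨k0, k1, -, -⟩, -⟩ hwj
    obtain ⟨o1, o2, -, -⟩ := (pvzb_Q_ok h hd j).out w hwj
    cases σ <;> cases j <;> first | exact absurd rfl hj | (simp only [pvzbQd, pvzbBx, pvzbρ] at *; norm_num at *; linarith)

/-- **a low white lane is explored** -/
theorem pvzb_low {B : PvzbBx} (hB : B.In) (hb : B.b1 + pvzbρ < -4 / 256 - pvzbρ) (ω : Y → Bool) : B.St false ω ⊆ (pvzbF h hd).In.Wx ω := by
  have hρ := pvzb_ρ_pos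
  refine (pvzbF h hd).lane_wx (fun w hw => hw.2) (fun w hw => ⟨?_, pvzb_col_ball hB hw.1 (mem_closedBall_self (by linarith))⟩) fun j w hw hj => ?_
  · show (w : ℂ).im ≤ -4 / 256 + pvzbρ
    linarith [hw.1.2.2.2]
  · have h1 := ((pvzb_Q_ok h hd j).out w hj).2.2.1
    have h2 := hw.1.2.2.2
    cases j <;> simp only [pvzbQd, pvzbBx] at h1 <;> linarith

/-- a low white lane, as a join through explored white sites of a room -/
theorem pvzb_low_join {B : PvzbBx} (hB : B.In) (hb : B.b1 + pvzbρ < -4 / 256 - pvzbρ) {G : Set ℂ} (hG : B.col ⊆ G) {ω : Y → Bool} {a b : Y} (hab : (delMap h).Join univ (B.St false ω) a b) :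
    (delMap h).Join univ ((pvzbF h hd).In.Wx ω ∩ pvzbV Y G) a b :=
  pl_hx_join_mono Subset.rfl (fun w (hw : w ∈ B.St false ω) => (⟨pvzb_low h hd hB hb ω hw, hG hw.1⟩ : w ∈ (pvzbF h hd).In.Wx ω ∩ pvzbV Y G)) hab

/-- **EXPLORED WHITE LINK** between the two quads: column - bar - column -/
theorem pvzb_xl {C : Bool → PvzbBx} {A : PvzbBx} (hC : ∀ σ, PvzbCol σ (C σ)) (hCl : ∀ σ, (C σ).lr = false) (hA : A.In) (hAl : A.lr = true) (hb : A.b1 + pvzbρ < -4 / 256 - pvzbρ) (hH : ∀ σ, PvzbHash A (C σ))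
    {G : Set ℂ} (hQG : ∀ σ, (pvzbQd σ).col ⊆ G) (hCG : ∀ σ, (C σ).col ⊆ G) (hAG : A.col ⊆ G) {ω : Y → Bool} (hHu : ∀ σ, (pvzbHu σ).Cr h false ω) (hCc : ∀ σ, (C σ).Cr h false ω) (hAc : A.Cr h false ω) :
    ∃ a a', (pvzbF h hd).In.Hub ω false a ∧ (pvzbF h hd).In.Hub ω true a' ∧ (delMap h).Join univ ((pvzbF h hd).In.Wx ω ∩ pvzbV Y G) a a' := by
  obtain ⟨u, v, hu, hv, huv⟩ := pvzb_cr_lr hAl hAc
  have key : ∀ σ, ∃ a, (pvzbF h hd).In.Hub ω σ a ∧ (delMap h).Join univ ((pvzbF h hd).In.Wx ω ∩ pvzbV Y G) a u := by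
    intro σ
    obtain ⟨c, t, hc, ht, hct⟩ := pvzb_cr_tb (hCl σ) (hCc σ)
    obtain ⟨x, hx, hx'⟩ := pvzb_glue h hd hA (hC σ).1 (hH σ) huv hu hv hct hc ht
    obtain ⟨a, ha, hj⟩ := pvzb_stem h hd σ (hC σ) (hQG σ) (hCG σ) (hHu σ) hct hc ht
    exact ⟨a, ha, pl_hx_join_trans (hj x hx') (pvzb_low_join h hd hA hb hAG (pl_hx_join_symm hx))⟩
  obtain ⟨a, ha, hj⟩ := key false
  obtain ⟨a', ha', hj'⟩ := key true
  exact ⟨a, a', ha, ha', pl_hx_join_trans hj (pl_hx_join_symm hj')⟩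

theorem pvzb_wd_num (σ : Bool) : PvzbCol σ (pvzbKd σ) ∧ (pvzbW1 σ).In ∧ (pvzbW2 σ).In ∧ (pvzbW3 σ).In ∧ PvzbHash (pvzbW1 σ) (pvzbKd σ) ∧ PvzbHash (pvzbW1 σ) (pvzbW2 σ) ∧ PvzbHash (pvzbW3 σ) (pvzbW2 σ) ∧
    (pvzbW1 σ).b1 + pvzbρ < -4 / 256 - pvzbρ ∧ (pvzbW2 σ).b1 + pvzbρ < -4 / 256 - pvzbρ ∧ (pvzbW3 σ).b1 + pvzbρ < -4 / 256 - pvzbρ := by
  refine ⟨?_, ?_, ?_, ?_, ?_, ?_, ?_, ?_, ?_, ?_⟩ <;> cases σ <;> simp only [PvzbCol, PvzbBx.In, PvzbHash, pvzbQd, pvzbKd, pvzbW1, pvzbW2, pvzbW3, pvzbBx, pvzbρ, pvzbL] <;> norm_num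

/-- **EXPLORED WHITE DOOR LANE**: column - three boxes -/
theorem pvzb_xd (σ : Bool) {ω : Y → Bool} (hHu : (pvzbHu σ).Cr h false ω) (h0 : (pvzbKd σ).Cr h false ω) (h1 : (pvzbW1 σ).Cr h false ω) (h2 : (pvzbW2 σ).Cr h false ω) (h3 : (pvzbW3 σ).Cr h false ω) :
    ∃ a, (pvzbF h hd).In.Hub ω σ a ∧ ∃ t ∈ pvzbV Y (pvzbZ σ false), (delMap h).Join univ ((pvzbF h hd).In.Wx ω ∩ pvzbV Y (pvzbG3 σ)) a t := by
  obtain ⟨n0, n1, n2, n3, n4, n5, n6, n7, n8, n9⟩ := pvzb_wd_num σ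
  obtain ⟨c, t, hc, ht, hct⟩ := pvzb_cr_tb rfl h0
  obtain ⟨u1, v1, hu1, hv1, j1⟩ := pvzb_cr_lr rfl h1
  obtain ⟨u2, v2, hu2, hv2, j2⟩ := pvzb_cr_tb rfl h2
  obtain ⟨u3, v3, hu3, hv3, j3⟩ := pvzb_cr_lr rfl h3
  obtain ⟨x0, hx0, hx0'⟩ := pvzb_glue h hd n1 n0.1 n4 j1 hu1 hv1 hct hc ht
  obtain ⟨x, hx, hx'⟩ := pvzb_glue h hd n1 n2 n5 j1 hu1 hv1 j2 hu2 hv2
  obtain ⟨y, hy, hy'⟩ := pvzb_glue h hd n3 n2 n6 j3 hu3 hv3 j2 hu2 hv2
  have g0 : (pvzbQd σ).col ⊆ pvzbG3 σ := fun z hz => Or.inl (Or.inl (Or.inl (Or.inl hz)))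
  have g1 : (pvzbKd σ).col ⊆ pvzbG3 σ := fun z hz => Or.inl (Or.inl (Or.inl (Or.inr hz)))
  have g2 : (pvzbW1 σ).col ⊆ pvzbG3 σ := fun z hz => Or.inl (Or.inl (Or.inr hz))
  have g3 : (pvzbW2 σ).col ⊆ pvzbG3 σ := fun z hz => Or.inl (Or.inr hz)
  have g4 : (pvzbW3 σ).col ⊆ pvzbG3 σ := fun z hz => Or.inr hz
  obtain ⟨a, ha, hj⟩ := pvzb_stem h hd σ n0 g0 g1 hHu hct hc ht
  have k1 : (delMap h).Join univ ((pvzbF h hd).In.Wx ω ∩ pvzbV Y (pvzbG3 σ)) a u3 :=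
    pl_hx_join_trans (hj x0 hx0') (pl_hx_join_trans (pvzb_low_join h hd n1 n7 g2 (pl_hx_join_symm hx0)) (pl_hx_join_trans (pvzb_low_join h hd n1 n7 g2 hx)
      (pl_hx_join_trans (pvzb_low_join h hd n2 n8 g3 (pl_hx_join_symm hx')) (pl_hx_join_trans (pvzb_low_join h hd n2 n8 g3 hy') (pvzb_low_join h hd n3 n9 g4 (pl_hx_join_symm hy))))))
  have k2 := pl_hx_join_trans k1 (pvzb_low_join h hd n3 n9 g4 j3)
  have p3 := j3.1.1
  have q3 := (pl_hx_join_mem j3).1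
  refine ⟨a, ha, ?_⟩
  cases σ
  · refine ⟨u3, ?_, k1⟩
    obtain ⟨e0, e1, e2, e3⟩ := p3
    show (u3 : ℂ) ∈ pvzbZ false false
    simp only [pvzbZ, PvzbBx.R, pvzbW3, pvzbBx, pvzbρ] at *
    norm_num at *
    exact ⟨by linarith, by linarith, by linarith, by linarith⟩
  · refine ⟨v3, ?_, k2⟩
    obtain ⟨e0, e1, e2, e3⟩ := q3
    show (v3 : ℂ) ∈ pvzbZ true false
    simp only [pvzbZ, PvzbBx.R, pvzbW3, pvzbBx, pvzbρ] at *
    norm_num at *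
    exact ⟨by linarith, by linarith, by linarith, by linarith⟩

/-- **THE EXPLORED EVENT**      (= `exit_pvzb_F`) -/
theorem pvzb_F {ω : Y → Bool} (hW : pvzbEv h false pvzbLFW ω) (hB : pvzbEv h true pvzbLFB ω) : (pvzbN h hd).F ω := by
  have hHu : ∀ σ, (pvzbHu σ).Cr h false ω := fun σ => hW _ (by cases σ <;> simp [pvzbLFW])
  have hKt : ∀ σ, (pvzbKt σ).Cr h false ω := fun σ => hW _ (by cases σ <;> simp [pvzbLFW])
  have hKl : ∀ σ, (pvzbKl σ).Cr h false ω := fun σ => hW _ (by cases σ <;> simp [pvzbLFW])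
  have hKd : ∀ σ, (pvzbKd σ).Cr h false ω := fun σ => hW _ (by cases σ <;> simp [pvzbLFW])
  have hW1 : ∀ σ, (pvzbW1 σ).Cr h false ω := fun σ => hW _ (by cases σ <;> simp [pvzbLFW])
  have hW2 : ∀ σ, (pvzbW2 σ).Cr h false ω := fun σ => hW _ (by cases σ <;> simp [pvzbLFW])
  have hW3 : ∀ σ, (pvzbW3 σ).Cr h false ω := fun σ => hW _ (by cases σ <;> simp [pvzbLFW])
  have hTu : pvzbTu.Cr h false ω := hW _ (by simp [pvzbLFW])
  have hLb : pvzbLb.Cr h false ω := hW _ (by simp [pvzbLFW])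
  have xd := fun σ => pvzb_xd h hd σ (hHu σ) (hKd σ) (hW1 σ) (hW2 σ) (hW3 σ)
  refine ⟨fun σ => pvzb_cr13 h hd σ (hB _ (by cases σ <;> simp [pvzbLFB])), fun σ => ?_, fun l hl => ?_, fun l hl => ?_⟩
  · obtain ⟨a, ha, -⟩ := xd σ
    exact ⟨a, ha⟩
  · have hl' : l = (false, true, univ, pvzbV Y pvzbG1) ∨ l = (false, true, univ, pvzbV Y pvzbG2) := by
      rcases List.mem_cons.1 hl with e | e
      · exact Or.inl e
      · exact Or.inr (List.mem_singleton.1 e)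
    rcases hl' with rfl | rfl
    · refine pvzb_xl h hd (C := pvzbKl) (A := pvzbLb) (fun σ => ?_) (fun _ => rfl) ?_ rfl ?_ (fun σ => ?_) (fun σ z hz => ?_) (fun σ z hz => ?_) (fun z hz => Or.inr hz) hHu hKl hLb
      · cases σ <;> simp only [PvzbCol, PvzbBx.In, pvzbQd, pvzbKl, pvzbBx, pvzbρ, pvzbL] <;> norm_num
      · simp only [PvzbBx.In, pvzbLb, pvzbBx, pvzbρ, pvzbL]; norm_num
      · simp only [pvzbLb, pvzbBx, pvzbρ]; norm_num
      · cases σ <;> simp only [PvzbHash, pvzbLb, pvzbKl, pvzbBx, pvzbρ] <;> norm_num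
      · cases σ
        · exact Or.inl (Or.inl (Or.inl (Or.inl hz)))
        · exact Or.inl (Or.inl (Or.inl (Or.inr hz)))
      · cases σ
        · exact Or.inl (Or.inl (Or.inr hz))
        · exact Or.inl (Or.inr hz)
    · refine pvzb_xl h hd (C := pvzbKt) (A := pvzbTu) (fun σ => ?_) (fun _ => rfl) ?_ rfl ?_ (fun σ => ?_) (fun σ z hz => ?_) (fun σ z hz => ?_) (fun z hz => Or.inr hz) hHu hKt hTu
      · cases σ <;> simp only [PvzbCol, PvzbBx.In, pvzbQd, pvzbKt, pvzbBx, pvzbρ, pvzbL] <;> norm_num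
      · simp only [PvzbBx.In, pvzbTu, pvzbBx, pvzbρ, pvzbL]; norm_num
      · simp only [pvzbTu, pvzbBx, pvzbρ]; norm_num
      · cases σ <;> simp only [PvzbHash, pvzbTu, pvzbKt, pvzbBx, pvzbρ] <;> norm_num
      · cases σ
        · exact Or.inl (Or.inl (Or.inl (Or.inl hz)))
        · exact Or.inl (Or.inl (Or.inl (Or.inr hz)))
      · cases σ
        · exact Or.inl (Or.inl (Or.inr hz))
        · exact Or.inl (Or.inr hz)
  · have hl' : l = (false, univ, pvzbV Y (pvzbG3 false), pvzbV Y (pvzbZ false false)) ∨ l = (true, univ, pvzbV Y (pvzbG3 true), pvzbV Y (pvzbZ true false)) := by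
      rcases List.mem_cons.1 hl with e | e
      · exact Or.inl e
      · exact Or.inr (List.mem_singleton.1 e)
    rcases hl' with rfl | rfl
    · exact xd false
    · exact xd true

end Claimed.Agent.R289
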