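-- KEEP
import Claimed.Agent.R289.Tr.AdmIB

/-!
# Row 289 (S0537), THE WALL, ADMISSION, ROPE A, BLOCK B (INSTANCE), file Tr/AdmIRP : POSITIONS AND ROOMS OF THE INSTANCE OF 267      (helper149, RACE rows `exit_pvzb_pos`, `exit_pvzb_Vq`, `exit_pvzb_kb`; prefix `pvzbp_`)

Statements of `Tr/AdmIR.lean` VERBATIM under the names `pvzbp_pos`, `pvzbp_Vq`, `pvzbp_kb`, `pvzbp_kw`, `pvzbp_Z`.      Imports `Tr/AdmIB` only.
-/

set_option autoImplicit false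
set_option linter.unusedSectionVars false
set_option linter.unusedVariables false
set_option linter.unusedSimpArgs false

namespace Claimed.Agent.R289

open Set Metric Relation

/-! ## 1. numbers -/

/-- a point of a rectangle: lower bound of the norm by one coordinate, upper bound by the corners -/
theorem pvzbp_norm_lt {z : ℂ} {b : ℝ} (hb : 0 < b) (h : z.re ^ 2 + z.im ^ 2 < b ^ 2) : ‖z - 0‖ < b := by
  rw [sub_zero]
  have h1 : ‖z‖ ^ 2 = z.re ^ 2 + z.im ^ 2 := by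
    rw [Complex.sq_norm, Complex.normSq_apply]; ring
  exact lt_of_pow_lt_pow_left₀ 2 hb.le (by rw [h1]; exact h)

theorem pvzbp_le_norm {z : ℂ} {c : ℝ} (h : c ≤ z.re ∨ z.re ≤ -c ∨ c ≤ z.im ∨ z.im ≤ -c) : c ≤ ‖z - 0‖ := by
  rw [sub_zero]
  have h1 := Complex.abs_re_le_norm z
  have h2 := Complex.abs_im_le_norm z
  rcases h with h | h | h | h
  · exact (h.trans (le_abs_self _)).trans h1
  · exact ((le_neg.2 h).trans (neg_le_abs _)).trans h1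
  · exact (h.trans (le_abs_self _)).trans h2
  · exact ((le_neg.2 h).trans (neg_le_abs _)).trans h2

section inst

variable {Y : Set ℂ} (h : DelGood Y) (hd : VorDense Y (pvmSq 0 pvzbL) pvzbρ)

/-! ## 2. the classes, by positions -/

theorem pvzbp_Dk (σ : Bool) {v : Y} (hv : v ∈ (delMap h).VOf (pvzbQ h hd σ).c.Left) : (v : ℂ) ∈ (pvzbQd σ).col := (pvzb_Q_ok h hd σ).out v hv

theorem pvzbp_Vm {v : Y} (hv : v ∈ (pvzbK h hd).Vm) : (v : ℂ) ∈ (pvzbQd false).col := pvzbp_Dk h hd false hv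

theorem pvzbp_Vp {v : Y} (hv : v ∈ (pvzbK h hd).Vp) : (v : ℂ) ∈ (pvzbQd true).col := pvzbp_Dk h hd true hv

/-- the class of a half link lies in the collars of its column and of its bar -/
theorem pvzbp_H (t : PvzbTy) (σ : Bool) {v : Y} (hv : v ∈ (pvzbH h hd t σ).K) : (v : ℂ) ∈ (t.cl σ).col ∨ (v : ℂ) ∈ (t.br σ).col := by
  rcases hv with (hv | hv) | hv
  · exact Or.inl hv.1
  · exact Or.inr hv
  · exact Or.inl hv.1.1

/-- the collar of a box, East form, in numbers -/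
theorem pvzbp_colT {lr : Bool} {a0 a1 b0 b1 : ℝ} {z : ℂ} (hz : z ∈ (pvzbBx lr true a0 a1 b0 b1).col) :
    a0 / 256 - 1 / 25600 ≤ z.re ∧ z.re ≤ a1 / 256 + 1 / 25600 ∧ b0 / 256 - 1 / 25600 ≤ z.im ∧ z.im ≤ b1 / 256 + 1 / 25600 := hz

/-- the collar of a box, West form, in numbers -/
theorem pvzbp_colF {lr : Bool} {a0 a1 b0 b1 : ℝ} {z : ℂ} (hz : z ∈ (pvzbBx lr false a0 a1 b0 b1).col) :
    -(a1 / 256) - 1 / 25600 ≤ z.re ∧ z.re ≤ -(a0 / 256) + 1 / 25600 ∧ b0 / 256 - 1 / 25600 ≤ z.im ∧ z.im ≤ b1 / 256 + 1 / 25600 := hz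

/-- a rectangle in the annulus -/
theorem pvzbp_ann_of {z : ℂ} {x0 x1 y0 y1 : ℝ} (hz : x0 ≤ z.re ∧ z.re ≤ x1 ∧ y0 ≤ z.im ∧ z.im ≤ y1) (X Yb : ℝ) (hX0 : -X ≤ x0) (hX1 : x1 ≤ X) (hY0 : -Yb ≤ y0) (hY1 : y1 ≤ Yb)
    (hs : X ^ 2 + Yb ^ 2 < (2 * (1 / 16)) ^ 2) (hlo : 1 / 16 + 2 * pvzbρ ≤ x0 ∨ x1 ≤ -(1 / 16 + 2 * pvzbρ) ∨ 1 / 16 + 2 * pvzbρ ≤ y0 ∨ y1 ≤ -(1 / 16 + 2 * pvzbρ)) :
    1 / 16 + 2 * pvzbρ ≤ ‖z - 0‖ ∧ ‖z - 0‖ < 2 * (1 / 16) := by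
  obtain ⟨k0, k1, k2, k3⟩ := hz
  refine ⟨pvzbp_le_norm ?_, pvzbp_norm_lt (by norm_num) ?_⟩
  · rcases hlo with e | e | e | e
    · exact Or.inl (e.trans k0)
    · exact Or.inr (Or.inl (k1.trans e))
    · exact Or.inr (Or.inr (Or.inl (e.trans k2)))
    · exact Or.inr (Or.inr (Or.inr (k3.trans e)))
  · have e1 : z.re ^ 2 ≤ X ^ 2 := sq_le_sq' (by linarith) (by linarith)
    have e2 : z.im ^ 2 ≤ Yb ^ 2 := sq_le_sq' (by linarith) (by linarith)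
    linarith

theorem pvzbp_ann_Qd (σ : Bool) {z : ℂ} (hz : z ∈ (pvzbQd σ).col) : 1 / 16 + 2 * pvzbρ ≤ ‖z - 0‖ ∧ ‖z - 0‖ < 2 * (1 / 16) := by
  cases σ
  · exact pvzbp_ann_of (pvzbp_colF hz) (30 / 256) (5 / 256) (by norm_num) (by norm_num) (by norm_num) (by norm_num) (by norm_num) (Or.inr (Or.inl (by unfold pvzbρ; norm_num)))
  · exact pvzbp_ann_of (pvzbp_colT hz) (30 / 256) (5 / 256) (by norm_num) (by norm_num) (by norm_num) (by norm_num) (by norm_num) (Or.inl (by unfold pvzbρ; norm_num))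

theorem pvzbp_ann_Kl (σ : Bool) {z : ℂ} (hz : z ∈ (pvzbKl σ).col) : 1 / 16 + 2 * pvzbρ ≤ ‖z - 0‖ ∧ ‖z - 0‖ < 2 * (1 / 16) := by
  cases σ
  · exact pvzbp_ann_of (pvzbp_colF hz) (22 / 256) (21 / 256) (by norm_num) (by norm_num) (by norm_num) (by norm_num) (by norm_num) (Or.inr (Or.inl (by unfold pvzbρ; norm_num)))
  · exact pvzbp_ann_of (pvzbp_colT hz) (22 / 256) (21 / 256) (by norm_num) (by norm_num) (by norm_num) (by norm_num) (by norm_num) (Or.inl (by unfold pvzbρ; norm_num))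

theorem pvzbp_ann_Lb {z : ℂ} (hz : z ∈ pvzbLb.col) : 1 / 16 + 2 * pvzbρ ≤ ‖z - 0‖ ∧ ‖z - 0‖ < 2 * (1 / 16) :=
  pvzbp_ann_of (pvzbp_colT hz) (23 / 256) (20 / 256) (by norm_num) (by norm_num) (by norm_num) (by norm_num) (by norm_num) (Or.inr (Or.inr (Or.inr (by unfold pvzbρ; norm_num))))

theorem pvzbp_ann_Up (σ : Bool) {z : ℂ} (hz : z ∈ (pvzbUp σ).col) : 1 / 16 + 2 * pvzbρ ≤ ‖z - 0‖ ∧ ‖z - 0‖ < 2 * (1 / 16) := by
  cases σ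
  · exact pvzbp_ann_of (pvzbp_colF hz) (24.6 / 256) (19.1 / 256) (by norm_num) (by norm_num) (by norm_num) (by norm_num) (by norm_num) (Or.inr (Or.inl (by unfold pvzbρ; norm_num)))
  · exact pvzbp_ann_of (pvzbp_colT hz) (24.6 / 256) (19.1 / 256) (by norm_num) (by norm_num) (by norm_num) (by norm_num) (by norm_num) (Or.inl (by unfold pvzbρ; norm_num))

theorem pvzbp_ann_To {z : ℂ} (hz : z ∈ pvzbTo.col) : 1 / 16 + 2 * pvzbρ ≤ ‖z - 0‖ ∧ ‖z - 0‖ < 2 * (1 / 16) :=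
  pvzbp_ann_of (pvzbp_colT hz) (25.6 / 256) (18.1 / 256) (by norm_num) (by norm_num) (by norm_num) (by norm_num) (by norm_num) (Or.inr (Or.inr (Or.inl (by unfold pvzbρ; norm_num))))

/-- **`ann`** -/
theorem pvzbp_ann : ∀ v ∈ (pvzbK h hd).Vm ∪ (pvzbK h hd).Vp ∪ (pvzbK h hd).C1 ∪ (pvzbK h hd).Kup, 1 / 16 + 2 * pvzbρ ≤ ‖(v : ℂ) - 0‖ ∧ ‖(v : ℂ) - 0‖ < 2 * (1 / 16) := by
  rintro v (((hv | hv) | hv) | hv)
  · exact pvzbp_ann_Qd false (pvzbp_Vm h hd hv)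
  · exact pvzbp_ann_Qd true (pvzbp_Vp h hd hv)
  · rcases hv with (((hv | hv) | hv) | hv) | hv
    · exact pvzbp_ann_Qd false hv
    · exact pvzbp_ann_Qd true hv
    · exact pvzbp_ann_Kl false hv
    · exact pvzbp_ann_Kl true hv
    · exact pvzbp_ann_Lb hv
  · rcases hv with hv | hv
    · rcases pvzbp_H h hd .up false hv with hv | hv
      · exact pvzbp_ann_Up false hv
      · exact pvzbp_ann_To hv
    · rcases pvzbp_H h hd .up true hv with hv | hv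
      · exact pvzbp_ann_Up true hv
      · exact pvzbp_ann_To hv

/-- the classes `C2`, `Kbk`, by boxes -/
theorem pvzbp_C2 {v : Y} (hv : v ∈ (pvzbK h hd).C2) : (v : ℂ) ∈ (pvzbQd false).col ∨ (v : ℂ) ∈ (pvzbQd true).col ∨ (v : ℂ) ∈ (pvzbKt false).col ∨ (v : ℂ) ∈ (pvzbKt true).col ∨ (v : ℂ) ∈ pvzbTu.col := by
  rcases hv with (((hv | hv) | hv) | hv) | hv
  · exact Or.inl hv
  · exact Or.inr (Or.inl hv)
  · exact Or.inr (Or.inr (Or.inl hv))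
  · exact Or.inr (Or.inr (Or.inr (Or.inl hv)))
  · exact Or.inr (Or.inr (Or.inr (Or.inr hv)))

theorem pvzbp_C1 {v : Y} (hv : v ∈ (pvzbK h hd).C1) : (v : ℂ) ∈ (pvzbQd false).col ∨ (v : ℂ) ∈ (pvzbQd true).col ∨ (v : ℂ) ∈ (pvzbKl false).col ∨ (v : ℂ) ∈ (pvzbKl true).col ∨ (v : ℂ) ∈ pvzbLb.col := by
  rcases hv with (((hv | hv) | hv) | hv) | hv
  · exact Or.inl hv
  · exact Or.inr (Or.inl hv)
  · exact Or.inr (Or.inr (Or.inl hv))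
  · exact Or.inr (Or.inr (Or.inr (Or.inl hv)))
  · exact Or.inr (Or.inr (Or.inr (Or.inr hv)))

theorem pvzbp_Kbk {v : Y} (hv : v ∈ (pvzbK h hd).Kbk) : (v : ℂ) ∈ (pvzbCi false).col ∨ (v : ℂ) ∈ (pvzbCi true).col ∨ (v : ℂ) ∈ pvzbMi.col := by
  rcases hv with hv | hv
  · rcases pvzbp_H h hd .cin false hv with hv | hv
    · exact Or.inl hv
    · exact Or.inr (Or.inr hv)
  · rcases pvzbp_H h hd .cin true hv with hv | hv
    · exact Or.inr (Or.inl hv)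
    · exact Or.inr (Or.inr hv)

theorem pvzbp_Kup {v : Y} (hv : v ∈ (pvzbK h hd).Kup) : (v : ℂ) ∈ (pvzbUp false).col ∨ (v : ℂ) ∈ (pvzbUp true).col ∨ (v : ℂ) ∈ pvzbTo.col := by
  rcases hv with hv | hv
  · rcases pvzbp_H h hd .up false hv with hv | hv
    · exact Or.inl hv
    · exact Or.inr (Or.inr hv)
  · rcases pvzbp_H h hd .up true hv with hv | hv
    · exact Or.inr (Or.inl hv)
    · exact Or.inr (Or.inr hv)

/-- **`box`** -/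
theorem pvzbp_box : ∀ v ∈ (pvzbK h hd).Vm ∪ (pvzbK h hd).Vp ∪ (pvzbK h hd).C2 ∪ (pvzbK h hd).Kbk,
    -(2 * (1 / 16)) ≤ (v : ℂ).re ∧ (v : ℂ).re ≤ 2 * (1 / 16) ∧ -(1 / 16 / 2) ≤ (v : ℂ).im ∧ (v : ℂ).im ≤ 1 / 16 / 2 := by
  have qF : ∀ z : ℂ, z ∈ (pvzbQd false).col → -(2 * (1 / 16)) ≤ z.re ∧ z.re ≤ 2 * (1 / 16) ∧ -(1 / 16 / 2) ≤ z.im ∧ z.im ≤ 1 / 16 / 2 := fun z hz => by
    obtain ⟨k0, k1, k2, k3⟩ := pvzbp_colF hz
    refine ⟨?_, ?_, ?_, ?_⟩ <;> linarith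
  have qT : ∀ z : ℂ, z ∈ (pvzbQd true).col → -(2 * (1 / 16)) ≤ z.re ∧ z.re ≤ 2 * (1 / 16) ∧ -(1 / 16 / 2) ≤ z.im ∧ z.im ≤ 1 / 16 / 2 := fun z hz => by
    obtain ⟨k0, k1, k2, k3⟩ := pvzbp_colT hz
    refine ⟨?_, ?_, ?_, ?_⟩ <;> linarith
  rintro v (((hv | hv) | hv) | hv)
  · exact qF _ (pvzbp_Vm h hd hv)
  · exact qT _ (pvzbp_Vp h hd hv)
  · rcases pvzbp_C2 h hd hv with hv | hv | hv | hv | hv
    · exact qF _ hv
    · exact qT _ hv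
    · obtain ⟨k0, k1, k2, k3⟩ := pvzbp_colF hv
      refine ⟨?_, ?_, ?_, ?_⟩ <;> linarith
    · obtain ⟨k0, k1, k2, k3⟩ := pvzbp_colT hv
      refine ⟨?_, ?_, ?_, ?_⟩ <;> linarith
    · obtain ⟨k0, k1, k2, k3⟩ := pvzbp_colT hv
      refine ⟨?_, ?_, ?_, ?_⟩ <;> linarith
  · rcases pvzbp_Kbk h hd hv with hv | hv | hv
    · obtain ⟨k0, k1, k2, k3⟩ := pvzbp_colF hv
      refine ⟨?_, ?_, ?_, ?_⟩ <;> linarith
    · obtain ⟨k0, k1, k2, k3⟩ := pvzbp_colT hv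
      refine ⟨?_, ?_, ?_, ?_⟩ <;> linarith
    · obtain ⟨k0, k1, k2, k3⟩ := pvzbp_colT hv
      refine ⟨?_, ?_, ?_, ?_⟩ <;> linarith

/-- **`lo`** -/
theorem pvzbp_lo : ∀ v ∈ (pvzbK h hd).C1 ∪ (pvzbK h hd).C2, |(v : ℂ).re - (0 : ℂ).re| ≤ 2 * pvzbρ → (v : ℂ).im < (0 : ℂ).im := by
  rintro v hv hs
  rw [Complex.zero_re, sub_zero, abs_le] at hs
  rw [Complex.zero_im]
  unfold pvzbρ at hs
  obtain ⟨s0, s1⟩ := hs
  rcases hv with hv | hv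
  · rcases pvzbp_C1 h hd hv with hv | hv | hv | hv | hv
    · obtain ⟨k0, k1, k2, k3⟩ := pvzbp_colF hv
      linarith
    · obtain ⟨k0, k1, k2, k3⟩ := pvzbp_colT hv
      linarith
    · obtain ⟨k0, k1, k2, k3⟩ := pvzbp_colF hv
      linarith
    · obtain ⟨k0, k1, k2, k3⟩ := pvzbp_colT hv
      linarith
    · obtain ⟨k0, k1, k2, k3⟩ := pvzbp_colT hv
      linarith
  · rcases pvzbp_C2 h hd hv with hv | hv | hv | hv | hv
    · obtain ⟨k0, k1, k2, k3⟩ := pvzbp_colF hv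
      linarith
    · obtain ⟨k0, k1, k2, k3⟩ := pvzbp_colT hv
      linarith
    · obtain ⟨k0, k1, k2, k3⟩ := pvzbp_colF hv
      linarith
    · obtain ⟨k0, k1, k2, k3⟩ := pvzbp_colT hv
      linarith
    · obtain ⟨k0, k1, k2, k3⟩ := pvzbp_colT hv
      linarith

/-- **`up`** -/
theorem pvzbp_up : ∀ v ∈ (pvzbK h hd).Kup ∪ (pvzbK h hd).Kbk, |(v : ℂ).re - (0 : ℂ).re| ≤ 2 * pvzbρ → (0 : ℂ).im ≤ (v : ℂ).im := by
  rintro v hv hs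
  rw [Complex.zero_re, sub_zero, abs_le] at hs
  rw [Complex.zero_im]
  unfold pvzbρ at hs
  obtain ⟨s0, s1⟩ := hs
  rcases hv with hv | hv
  · rcases pvzbp_Kup h hd hv with hv | hv | hv
    · obtain ⟨k0, k1, k2, k3⟩ := pvzbp_colF hv
      linarith
    · obtain ⟨k0, k1, k2, k3⟩ := pvzbp_colT hv
      linarith
    · obtain ⟨k0, k1, k2, k3⟩ := pvzbp_colT hv
      linarith
  · rcases pvzbp_Kbk h hd hv with hv | hv | hv
    · obtain ⟨k0, k1, k2, k3⟩ := pvzbp_colF hv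
      linarith
    · obtain ⟨k0, k1, k2, k3⟩ := pvzbp_colT hv
      linarith
    · obtain ⟨k0, k1, k2, k3⟩ := pvzbp_colT hv
      linarith

/-- **`ctr`** -/
theorem pvzbp_ctr : ∀ v ∈ (pvzbK h hd).Kbk, |(v : ℂ).re - (0 : ℂ).re| ≤ 2 * pvzbρ → ‖(v : ℂ) - 0‖ < 1 / 16 := by
  rintro v hv hs
  rw [Complex.zero_re, sub_zero, abs_le] at hs
  unfold pvzbρ at hs
  obtain ⟨s0, s1⟩ := hs
  rcases pvzbp_Kbk h hd hv with hv | hv | hv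
  · obtain ⟨k0, k1, k2, k3⟩ := pvzbp_colF hv
    linarith
  · obtain ⟨k0, k1, k2, k3⟩ := pvzbp_colT hv
    linarith
  · obtain ⟨k0, k1, k2, k3⟩ := pvzbp_colT hv
    refine pvzbp_norm_lt (by norm_num) ?_
    have e1 : (v : ℂ).re ^ 2 ≤ (1 / 256) ^ 2 := sq_le_sq' (by linarith) (by linarith)
    have e2 : (v : ℂ).im ^ 2 ≤ (7 / 256) ^ 2 := sq_le_sq' (by linarith) (by linarith)
    have e3 : ((1 : ℝ) / 256) ^ 2 + (7 / 256) ^ 2 < (1 / 16) ^ 2 := by norm_num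
    linarith

/-- all the classes of the gate and of the tube lie in `[-32 d, 32 d]²` -/
theorem pvzbp_all {v : Y} (hv : v ∈ (pvzbK h hd).Vm ∪ (pvzbK h hd).Vp ∪ (pvzbK h hd).C1 ∪ (pvzbK h hd).C2 ∪ (pvzbK h hd).Kup ∪ (pvzbK h hd).Kbk) : |(v : ℂ).re| ≤ 2 * (1 / 16) ∧ |(v : ℂ).im| ≤ 2 * (1 / 16) := by
  have a : ∀ v ∈ (pvzbK h hd).Vm ∪ (pvzbK h hd).Vp ∪ (pvzbK h hd).C1 ∪ (pvzbK h hd).Kup, |(v : ℂ).re| ≤ 2 * (1 / 16) ∧ |(v : ℂ).im| ≤ 2 * (1 / 16) := fun v hv => by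
    have h1 := (pvzbp_ann h hd v hv).2
    rw [sub_zero] at h1
    exact ⟨(Complex.abs_re_le_norm _).trans h1.le, (Complex.abs_im_le_norm _).trans h1.le⟩
  have b : ∀ v ∈ (pvzbK h hd).Vm ∪ (pvzbK h hd).Vp ∪ (pvzbK h hd).C2 ∪ (pvzbK h hd).Kbk, |(v : ℂ).re| ≤ 2 * (1 / 16) ∧ |(v : ℂ).im| ≤ 2 * (1 / 16) := fun v hv => by
    obtain ⟨k0, k1, k2, k3⟩ := pvzbp_box h hd v hv
    exact ⟨abs_le.2 ⟨k0, k1⟩, abs_le.2 ⟨by linarith, by linarith⟩⟩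
  rcases hv with ((((hv | hv) | hv) | hv) | hv) | hv
  · exact a v (Or.inl (Or.inl (Or.inl hv)))
  · exact a v (Or.inl (Or.inl (Or.inr hv)))
  · exact a v (Or.inl (Or.inr hv))
  · exact b v (Or.inl (Or.inr hv))
  · exact a v (Or.inr hv)
  · exact b v (Or.inr hv)

/-- **`mesh`** -/
theorem pvzbp_mesh : ∀ u v, u ∈ (pvzbK h hd).Vm ∪ (pvzbK h hd).Vp ∪ (pvzbK h hd).C1 ∪ (pvzbK h hd).C2 ∪ (pvzbK h hd).Kup ∪ (pvzbK h hd).Kbk →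
    v ∈ (pvzbK h hd).Vm ∪ (pvzbK h hd).Vp ∪ (pvzbK h hd).C1 ∪ (pvzbK h hd).C2 ∪ (pvzbK h hd).Kup ∪ (pvzbK h hd).Kbk → (delMap h).Adj u v → ‖(v : ℂ) - u‖ ≤ 2 * pvzbρ := by
  intro u v hu _ huv
  rw [norm_sub_rev]
  refine pvzd_short h pvzb_ρ_pos hd huv ?_
  obtain ⟨k1, k2⟩ := pvzbp_all h hd hu
  intro w hw
  rw [mem_closedBall, dist_eq_norm] at hw
  have e1 := pvzd_re_sub w u
  have e2 := pvzd_im_sub w u
  rw [abs_le] at k1 k2 e1 e2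
  unfold pvzbρ at hw
  refine ⟨?_, ?_⟩
  · rw [Complex.zero_re, sub_zero, abs_le]
    unfold pvzbL
    constructor <;> linarith [e1.1, e1.2, k1.1, k1.2]
  · rw [Complex.zero_im, sub_zero, abs_le]
    unfold pvzbL
    constructor <;> linarith [e2.1, e2.2, k2.1, k2.2]

/-- **(47) POSITIONS** = the statement of `exit_pvzb_pos` (`Tr/AdmIR`), VERBATIM -/
theorem pvzbp_pos : (pvzbK h hd).Pos Subtype.val 0 (1 / 16) (2 * (1 / 16)) (2 * pvzbρ) (-(2 * (1 / 16))) (2 * (1 / 16)) (-(1 / 16 / 2)) (1 / 16 / 2) where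
  b0 := by norm_num
  mesh := pvzbp_mesh h hd
  ann := pvzbp_ann h hd
  west := fun v hv => by
    obtain ⟨k0, k1, k2, k3⟩ := pvzbp_colF (pvzbp_Vm h hd hv)
    rw [Complex.zero_re]
    unfold pvzbρ
    linarith
  east := fun v hv => by
    obtain ⟨k0, k1, k2, k3⟩ := pvzbp_colT (pvzbp_Vp h hd hv)
    rw [Complex.zero_re]
    unfold pvzbρ
    linarith
  lo := pvzbp_lo h hd
  up := pvzbp_up h hd
  ctr := pvzbp_ctr h hd
  box := pvzbp_box h hd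

/-- **(127) the closed discs of the quads lie in the West / East rooms** = `exit_pvzb_Vq`, VERBATIM -/
theorem pvzbp_Vq : (∀ v ∈ (pvzbK h hd).Vm, (v : ℂ) ∈ (pvkdP (1 / 16)).Zm) ∧ ∀ v ∈ (pvzbK h hd).Vp, (v : ℂ) ∈ (pvkdP (1 / 16)).Zp := by
  constructor
  · intro v hv
    obtain ⟨k0, k1, k2, k3⟩ := pvzbp_colF (pvzbp_Vm h hd hv)
    show -(2 * (1 / 16)) ≤ (v : ℂ).re ∧ (v : ℂ).re ≤ -(1 / 16 / 2) ∧ -(1 / 16 / 2) ≤ (v : ℂ).im ∧ (v : ℂ).im ≤ 1 / 16 / 2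
    refine ⟨?_, ?_, ?_, ?_⟩ <;> linarith
  · intro v hv
    obtain ⟨k0, k1, k2, k3⟩ := pvzbp_colT (pvzbp_Vp h hd hv)
    show 1 / 16 / 2 ≤ (v : ℂ).re ∧ (v : ℂ).re ≤ 2 * (1 / 16) ∧ -(1 / 16 / 2) ≤ (v : ℂ).im ∧ (v : ℂ).im ≤ 1 / 16 / 2
    refine ⟨?_, ?_, ?_, ?_⟩ <;> linarith

end inst

end Claimed.Agent.R289
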