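-- KEEP
import Claimed.Agent.R289.Tr.AdmIU

/-!
# Row 289 (S0537), THE WALL, ADMISSION, ROPE A, BLOCK B (INSTANCE), file Tr/AdmIV : THE CLASSES      (helper267; prefix `pvzb_`; 0 sorry)

`pvzb_loc` (the event of a list reads the class of the list), `pvzb_dR`, `pvzb_dK` (disjoint classes), `pvzb_H_K`, `pvzb_hwl`, `pvzb_hbl`, `pvzb_hbd` (the classes of the links) = the six class leaves of `Tr/AdmIR`.
-/

set_option autoImplicit false
set_option linter.unusedSectionVars false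
set_option linter.unusedVariables false
set_option linter.unusedSimpArgs false

namespace Claimed.Agent.R289

open Set Metric Relation

variable {Y : Set ℂ} (h : DelGood Y) (hd : VorDense Y (pvmSq 0 pvzbL) pvzbρ)

/-- the event of a list reads the class of the list -/
theorem pvzb_loc (c : Bool) (L : List PvzbBx) : PvalLoc (pvzbCl h L) (pvzbEv h c L) := by
  intro ω ω' hag
  apply propext
  unfold pvzbEv PvzbBx.Cr
  refine forall₂_congr fun B hB => ?_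
  have e : B.St c ω = B.St c ω' := by
    ext w
    constructor
    · rintro ⟨k1, k2⟩
      exact ⟨k1, by rw [← hag w ((pvzb_mem_cl h).2 ⟨B, hB, k1⟩)]; exact k2⟩
    · rintro ⟨k1, k2⟩
      exact ⟨k1, by rw [hag w ((pvzb_mem_cl h).2 ⟨B, hB, k1⟩)]; exact k2⟩
  rw [e]

theorem pvzb_dR : Disjoint (pvzbCl h pvzbLFW) (pvzbCl h pvzbLFB) := by
  rw [Finset.disjoint_left]
  intro v hv hv'
  obtain ⟨B, hB, -, -, -, k⟩ := (pvzb_mem_cl h).1 hv
  obtain ⟨B', hB', -, -, k', -⟩ := (pvzb_mem_cl h).1 hv'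
  have e1 : B.b1 ≤ 0 := by
    simp only [pvzbLFW, List.mem_cons, List.not_mem_nil, or_false] at hB
    rcases hB with rfl | rfl | rfl | rfl | rfl | rfl | rfl | rfl | rfl | rfl | rfl | rfl | rfl | rfl | rfl | rfl <;>
    simp only [pvzbHu, pvzbKt, pvzbKl, pvzbKd, pvzbTu, pvzbLb, pvzbW1, pvzbW2, pvzbW3, pvzbBx] <;> norm_num
  have e2 : 1.5 / 256 ≤ B'.b0 := by
    simp only [pvzbLFB, List.mem_cons, List.not_mem_nil, or_false] at hB'
    rcases hB' with rfl | rfl <;> simp only [pvzbFb, pvzbBx] <;> norm_num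
  unfold pvzbρ at k k'
  norm_num at e2
  linarith

theorem pvzb_dK : Disjoint (pvzbCl h pvzbLUW) (pvzbCl h pvzbLUB) := by
  rw [Finset.disjoint_left]
  intro v hv hv'
  obtain ⟨B, hB, k0, k1, k2, k3⟩ := (pvzb_mem_cl h).1 hv
  obtain ⟨B', hB', k0', k1', k2', k3'⟩ := (pvzb_mem_cl h).1 hv'
  simp only [pvzbLUW, List.mem_cons, List.not_mem_nil, or_false] at hB
  simp only [pvzbLUB, List.mem_cons, List.not_mem_nil, or_false] at hB'
  rcases hB with rfl | rfl | rfl <;> rcases hB' with rfl | rfl | rfl | rfl | rfl | rfl | rfl | rfl | rfl | rfl | rfl <;>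
  simp only [pvzbUp, pvzbTo, pvzbCi, pvzbMi, pvzbCo, pvzbB1, pvzbB2, pvzbB3, pvzbBx, pvzbρ] at k0 k1 k2 k3 k0' k1' k2' k3' <;> norm_num at k0 k1 k2 k3 k0' k1' k2' k3' <;> linarith

/-- the class of a half link lies in the collars of its column and of its bar -/
theorem pvzb_H_K (t : PvzbTy) (σ : Bool) {v : Y} (hv : v ∈ (pvzbH h hd t σ).K) : (v : ℂ) ∈ (t.cl σ).col ∨ (v : ℂ) ∈ (t.br σ).col := by
  have hv' : v ∈ pvzdK h (pvzbQ h hd σ) (pvzbG t σ) (pvzbGd t σ) := hv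
  rcases hv' with (k | k) | k
  · exact Or.inl k.1
  · exact Or.inr k
  · exact Or.inl k.1.1

theorem pvzb_H_cl (t : PvzbTy) (σ : Bool) {L : List PvzbBx} (h1 : t.cl σ ∈ L) (h2 : t.br σ ∈ L) : (pvzbH h hd t σ).K ⊆ (pvzbCl h L : Set Y) := by
  intro v hv
  rcases pvzb_H_K h hd t σ hv with k | k
  · exact Finset.mem_coe.2 ((pvzb_mem_cl h).2 ⟨_, h1, k⟩)
  · exact Finset.mem_coe.2 ((pvzb_mem_cl h).2 ⟨_, h2, k⟩)

theorem pvzb_hwl : ∀ k ∈ (pvzbN h hd).wl, k.1.K ⊆ (pvzbCl h pvzbLUW : Set Y) ∧ k.2.K ⊆ (pvzbCl h pvzbLUW : Set Y) := by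
  intro k hk
  rcases List.mem_singleton.1 hk with rfl
  exact ⟨pvzb_H_cl h hd .up false (by simp [pvzbLUW, PvzbTy.cl]) (by simp [pvzbLUW, PvzbTy.br]), pvzb_H_cl h hd .up true (by simp [pvzbLUW, PvzbTy.cl]) (by simp [pvzbLUW, PvzbTy.br])⟩

theorem pvzb_hbl : ∀ k ∈ (pvzbN h hd).bl, k.1.K ⊆ (pvzbCl h pvzbLUB : Set Y) ∧ k.2.K ⊆ (pvzbCl h pvzbLUB : Set Y) := by
  intro k hk
  rcases List.mem_singleton.1 hk with rfl
  exact ⟨pvzb_H_cl h hd .cin false (by simp [pvzbLUB, PvzbTy.cl]) (by simp [pvzbLUB, PvzbTy.br]), pvzb_H_cl h hd .cin true (by simp [pvzbLUB, PvzbTy.cl]) (by simp [pvzbLUB, PvzbTy.br])⟩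

theorem pvzb_E_cl (σ : Bool) : (pvzbE h hd σ).K ⊆ (pvzbCl h pvzbLUB : Set Y) := by
  intro v hv
  have hv' : (v : ℂ) ∈ pvzbGt σ := hv
  rcases hv' with (k | k) | k
  · exact Finset.mem_coe.2 ((pvzb_mem_cl h).2 ⟨_, by cases σ <;> simp [pvzbLUB], k⟩)
  · exact Finset.mem_coe.2 ((pvzb_mem_cl h).2 ⟨_, by cases σ <;> simp [pvzbLUB], k⟩)
  · exact Finset.mem_coe.2 ((pvzb_mem_cl h).2 ⟨_, by cases σ <;> simp [pvzbLUB], k⟩)

theorem pvzb_hbd : ∀ k ∈ (pvzbN h hd).bd, k.1.K ⊆ (pvzbCl h pvzbLUB : Set Y) ∧ k.2.K ⊆ (pvzbCl h pvzbLUB : Set Y) := by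
  intro k hk
  have hk' : k = (pvzbH h hd .cout false, pvzbE h hd false) ∨ k = (pvzbH h hd .cout true, pvzbE h hd true) := by
    rcases List.mem_cons.1 hk with e | e
    · exact Or.inl e
    · exact Or.inr (List.mem_singleton.1 e)
  rcases hk' with rfl | rfl
  · exact ⟨pvzb_H_cl h hd .cout false (by simp [pvzbLUB, PvzbTy.cl]) (by simp [pvzbLUB, PvzbTy.br]), pvzb_E_cl h hd false⟩
  · exact ⟨pvzb_H_cl h hd .cout true (by simp [pvzbLUB, PvzbTy.cl]) (by simp [pvzbLUB, PvzbTy.br]), pvzb_E_cl h hd true⟩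

end Claimed.Agent.R289
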