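-- KEEP
import Claimed.Agent.R289.Tr.AdmIB

/-!
# Row 289 (S0537), THE WALL, ADMISSION, ROPE A, BLOCK B, file Tr/AdmRm : THE ROOMS OF THE INSTANCE OF 267      (helper127; prefix `pvag_`)

The four leaves `exit_pvzb_Vq`, `exit_pvzb_kb`, `exit_pvzb_kw`, `exit_pvzb_Z` of `Tr/AdmIR` (267), VERBATIM: `pvag_Vq`, `pvag_kb`, `pvag_kw`, `pvag_Z`.
-/

set_option autoImplicit false
set_option linter.unusedSimpArgs false

namespace Claimed.Agent.R289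

open Set Metric Relation Claims.C0465

/-- a collar inside the first or the second rectangle of a room -/
theorem pvag_Ln_mem {σ β : Bool} {z : ℂ} {a0 a1 b0 b1 : ℝ} (hz : z ∈ (pvzbBx true σ a0 a1 b0 b1).col ∨ z ∈ (pvzbBx false σ a0 a1 b0 b1).col)
    (h : (8.5 ≤ a0 ∧ a1 ≤ 47.5 ∧ (if β then -7.5 ≤ b0 ∧ b1 ≤ 23.5 else -23.5 ≤ b0 ∧ b1 ≤ 7.5)) ∨ (32.5 ≤ a0 ∧ a1 ≤ 111.5 ∧ (if β then 8.5 ≤ b0 ∧ b1 ≤ 23.5 else -23.5 ≤ b0 ∧ b1 ≤ -8.5))) :
    z ∈ (pvkdP (1 / 16)).Ln σ β := by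
  have hz' : z ∈ pvzqR ((if σ then a0 / 256 else -(a1 / 256)) - pvzbρ) ((if σ then a1 / 256 else -(a0 / 256)) + pvzbρ) (b0 / 256 - pvzbρ) (b1 / 256 + pvzbρ) := hz.elim id id
  obtain ⟨k0, k1, k2, k3⟩ := hz'
  unfold pvzbρ at k0 k1 k2 k3
  cases σ <;> cases β <;> simp only [pvkdP, pvkdRect, if_true, if_false, Bool.false_eq_true] at * <;>
  · rcases h with ⟨h0, h1, h2, h3⟩ | ⟨h0, h1, h2, h3⟩
    · refine Or.inl ⟨?_, ?_, ?_, ?_⟩ <;> norm_num at * <;> linarith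
    · refine Or.inr ⟨?_, ?_, ?_, ?_⟩ <;> norm_num at * <;> linarith

section leaves

variable {Y : Set ℂ} (h : DelGood Y) (hd : VorDense Y (pvmSq 0 pvzbL) pvzbρ)

/-- the closed discs of the quads lie in the West / East rooms -/
theorem pvag_Vq : (∀ v ∈ (pvzbK h hd).Vm, (v : ℂ) ∈ (pvkdP (1 / 16)).Zm) ∧ ∀ v ∈ (pvzbK h hd).Vp, (v : ℂ) ∈ (pvkdP (1 / 16)).Zp := by
  constructor
  · intro v hv
    obtain ⟨o1, o2, o3, o4⟩ := (pvzb_Q_ok h hd false).out v hv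
    simp only [pvzbQd, pvzbBx, pvzbρ, if_true, if_false, Bool.false_eq_true] at o1 o2 o3 o4
    refine ⟨?_, ?_, ?_, ?_⟩ <;> norm_num at * <;> linarith
  · intro v hv
    obtain ⟨o1, o2, o3, o4⟩ := (pvzb_Q_ok h hd true).out v hv
    simp only [pvzbQd, pvzbBx, pvzbρ, if_true, if_false, Bool.false_eq_true] at o1 o2 o3 o4
    refine ⟨?_, ?_, ?_, ?_⟩ <;> norm_num at * <;> linarith

/-- the classes of the black door lanes lie in their rooms -/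
theorem pvag_kb (σ : Bool) : ∀ v ∈ (pvzbH h hd .cout σ).K ∪ (pvzbE h hd σ).K, (v : ℂ) ∈ (pvkdP (1 / 16)).Ln σ true := by
  have c1 : ∀ z ∈ (pvzbCo σ).col, z ∈ (pvkdP (1 / 16)).Ln σ true := fun z hz => pvag_Ln_mem (Or.inr hz) (Or.inl (by norm_num))
  have c2 : ∀ z ∈ (pvzbB1 σ).col, z ∈ (pvkdP (1 / 16)).Ln σ true := fun z hz => pvag_Ln_mem (Or.inl hz) (Or.inl (by norm_num))
  have c3 : ∀ z ∈ (pvzbB2 σ).col, z ∈ (pvkdP (1 / 16)).Ln σ true := fun z hz => pvag_Ln_mem (Or.inr hz) (Or.inl (by norm_num))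
  have c4 : ∀ z ∈ (pvzbB3 σ).col, z ∈ (pvkdP (1 / 16)).Ln σ true := fun z hz => pvag_Ln_mem (Or.inl hz) (Or.inr (by norm_num))
  rintro v (hv | hv)
  · rcases hv with (⟨hv, -⟩ | hv) | ⟨⟨hv, -⟩, -⟩
    · exact c1 _ hv
    · exact c2 _ hv
    · exact c1 _ hv
  · rcases hv with (hv | hv) | hv
    · exact c2 _ hv
    · exact c3 _ hv
    · exact c4 _ hv

end leaves

/-- the rooms of the white door lanes -/
theorem pvag_kw (σ : Bool) : pvzbG3 σ ⊆ (pvkdP (1 / 16)).Ln σ false := by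
  rintro z ((((hz | hz) | hz) | hz) | hz)
  · exact pvag_Ln_mem (Or.inl hz) (Or.inl (by norm_num))
  · exact pvag_Ln_mem (Or.inr hz) (Or.inl (by norm_num))
  · exact pvag_Ln_mem (Or.inl hz) (Or.inl (by norm_num))
  · exact pvag_Ln_mem (Or.inr hz) (Or.inl (by norm_num))
  · exact pvag_Ln_mem (Or.inl hz) (Or.inr (by norm_num))

/-- the terminal regions lie in the targets -/
theorem pvag_Z (σ β : Bool) : pvzbZ σ β ⊆ (pvkdP (1 / 16)).Dr σ β := by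
  rintro z ⟨k0, k1, k2, k3⟩
  cases σ <;> cases β <;> simp only [pvzbBx, pvkdP, pvkdRect, if_true, if_false, Bool.false_eq_true] at * <;>
  · refine ⟨?_, ?_, ?_, ?_⟩ <;> norm_num at * <;> linarith

end Claimed.Agent.R289
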