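-- KEEP
import Claimed.Agent.R289.Tr.AdmIB
import Claimed.Agent.R289.Tr.AdmIU
import Claimed.Agent.R289.Tr.AdmIV
import Claimed.Agent.R289.Tr.AdmIF
import Claimed.Agent.R289.Tr.AdmRm
import Claimed.Agent.R289.Tr.AdmIRP
import Claimed.Agent.R289.Adm.RecI

/-!
# Row 289 (S0537), THE WALL, ADMISSION, ROPE A, BLOCK B (INSTANCE), file Tr/AdmIR : THE LEAVES AND THE ROOF OF THE INSTANCE      (pen helper267 by ruling B-1 of 259; prefix `pvzb_`)

Definitions: `Tr/AdmIB`.      EVERY LEAF IS A NAMED THEOREM `exit_pvzb_*` WITH `sorry`.      A prover works in HIS OWN FILE (import `Tr/AdmIB`, never this file), proves the statement VERBATIM under his own name and tells 267: I add the import and replace the `sorry`.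
* classes (167): `exit_pvzb_dR`, `exit_pvzb_dK`, `exit_pvzb_loc`, `exit_pvzb_hwl`, `exit_pvzb_hbl`, `exit_pvzb_hbd`
* dictionary (267): `exit_pvzb_pat` (a pattern in black ⟹ the crossing event of its box)
* fresh black (267): `exit_pvzb_U2`;   fresh white (3): `exit_pvzb_U1`;   explored (229): `exit_pvzb_F`
* positions (47): `exit_pvzb_pos`;   rooms (127): `exit_pvzb_Vq`, `exit_pvzb_kb`, `exit_pvzb_kw`, `exit_pvzb_Z`
PROVED HERE from the leaves: `pvzb_nice`, `pvzb_rsw`, `pvzb_out_del` (blocks C + D of 140, 259, 224 on `delMap h`), `pvzb_out`, **`pvzbNet`** `: PvkoNet`, **`pvzb_inst`** = the statement of `exit_pvko_inst` (262) VERBATIM.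
-/

set_option autoImplicit false
set_option linter.unusedSectionVars false
set_option linter.unusedVariables false
set_option linter.unusedSimpArgs false

namespace Claimed.Agent.R289

open Set Metric Relation Claims.C0465

/-! ## 1. the list -/

theorem pvzb_nice : ∀ e ∈ pvzbl, e.Nice := by
  intro e he
  obtain ⟨B, -, rfl⟩ := List.mem_map.1 he
  unfold PvzbBx.tri
  split_ifs
  · exact rsw_nice_LR _ _ _ _
  · exact rsw_nice_TB _ _ _ _

theorem pvzb_rsw : ∀ e ∈ pvzbl, PvkoRsw e := by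
  intro e he
  obtain ⟨B, hB, rfl⟩ := List.mem_map.1 he
  obtain ⟨h1, h2, -⟩ := pvzb_box_num B hB
  unfold PvzbBx.tri
  split_ifs
  · exact pvko_rsw_LR h1 h2
  · exact pvko_rsw_TB h1 h2

/-! ## 2. the leaves -/

section leaves

variable {Y : Set ℂ} (h : DelGood Y) (hd : VorDense Y (pvmSq 0 pvzbL) pvzbρ)

/-- (167) explored classes -/
theorem exit_pvzb_dR : Disjoint (pvzbCl h pvzbLFW) (pvzbCl h pvzbLFB) := by
  exact pvzb_dR h

/-- (167) fresh classes -/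
theorem exit_pvzb_dK : Disjoint (pvzbCl h pvzbLUW) (pvzbCl h pvzbLUB) := by
  exact pvzb_dK h

/-- (167) the event of a list reads the class of the list -/
theorem exit_pvzb_loc (c : Bool) (L : List PvzbBx) : PvalLoc (pvzbCl h L) (pvzbEv h c L) := by
  exact pvzb_loc h c L

/-- (167) -/
theorem exit_pvzb_hwl : ∀ k ∈ (pvzbN h hd).wl, k.1.K ⊆ (pvzbCl h pvzbLUW : Set Y) ∧ k.2.K ⊆ (pvzbCl h pvzbLUW : Set Y) := by
  exact pvzb_hwl h hd

/-- (167) -/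
theorem exit_pvzb_hbl : ∀ k ∈ (pvzbN h hd).bl, k.1.K ⊆ (pvzbCl h pvzbLUB : Set Y) ∧ k.2.K ⊆ (pvzbCl h pvzbLUB : Set Y) := by
  exact pvzb_hbl h hd

/-- (167) -/
theorem exit_pvzb_hbd : ∀ k ∈ (pvzbN h hd).bd, k.1.K ⊆ (pvzbCl h pvzbLUB : Set Y) ∧ k.2.K ⊆ (pvzbCl h pvzbLUB : Set Y) := by
  exact pvzb_hbd h hd

include hd in
/-- (267) DICTIONARY: a pattern which holds in the black region gives the black crossing event of its box -/
theorem exit_pvzb_pat {B : PvzbBx} (hB : -pvzbL + 6 * pvzbρ ≤ B.a0 ∧ B.a1 ≤ pvzbL - 6 * pvzbρ ∧ -pvzbL + 6 * pvzbρ ≤ B.b0 ∧ B.b1 ≤ pvzbL - 6 * pvzbρ) {s : Y → Bool}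
    (he : B.tri.Holds (pvkoB Y s)) : B.Cr h true s := by
  exact pvzb_pat h hd hB he

/-- (267) FRESH BLACK: connector + two door lanes -/
theorem exit_pvzb_U2 {ω : Y → Bool} (hU : pvzbEv h true pvzbLUB ω) : (pvzbN h hd).U2 ω := by
  exact pvzb_U2 h hd hU

/-- (3) FRESH WHITE: the upper half circuit -/
theorem exit_pvzb_U1 {ω : Y → Bool} (hU : pvzbEv h false pvzbLUW ω) : (pvzbN h hd).U1 ω := by
  exact pvzb_U1 h hd hU

/-- (229) EXPLORED: black crossings of the quads, hubs, lower half circuit, tube line, white door lanes -/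
theorem exit_pvzb_F {ω : Y → Bool} (hW : pvzbEv h false pvzbLFW ω) (hB : pvzbEv h true pvzbLFB ω) : (pvzbN h hd).F ω := by
  exact pvzb_F h hd hW hB

/-- (47) POSITIONS: the record of 140 at the numbers of the plug of record, `r = 1/16` -/
theorem exit_pvzb_pos : (pvzbK h hd).Pos Subtype.val 0 (1 / 16) (2 * (1 / 16)) (2 * pvzbρ) (-(2 * (1 / 16))) (2 * (1 / 16)) (-(1 / 16 / 2)) (1 / 16 / 2) := by
  exact pvzbp_pos h hd

/-- (127) the closed discs of the quads lie in the West / East rooms -/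
theorem exit_pvzb_Vq : (∀ v ∈ (pvzbK h hd).Vm, (v : ℂ) ∈ (pvkdP (1 / 16)).Zm) ∧ ∀ v ∈ (pvzbK h hd).Vp, (v : ℂ) ∈ (pvkdP (1 / 16)).Zp := by
  exact pvag_Vq h hd

/-- (127) the classes of the black door lanes lie in their rooms -/
theorem exit_pvzb_kb (σ : Bool) : ∀ v ∈ (pvzbH h hd .cout σ).K ∪ (pvzbE h hd σ).K, (v : ℂ) ∈ (pvkdP (1 / 16)).Ln σ true := by
  exact pvag_kb h hd σ

/-- (127) the rooms of the white door lanes -/
theorem exit_pvzb_kw (σ : Bool) : pvzbG3 σ ⊆ (pvkdP (1 / 16)).Ln σ false := by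
  exact pvag_kw σ

/-- (127) the terminal regions lie in the targets -/
theorem exit_pvzb_Z (σ β : Bool) : pvzbZ σ β ⊆ (pvkdP (1 / 16)).Dr σ β := by
  exact pvag_Z σ β

end leaves

/-! ## 3. the roof -/

/-- blocks C + D (`pvae_out` of 224) on `delMap h` -/
theorem pvzb_out_del {Y : Set ℂ} {r : ℝ} (hr : 0 < r) (hn : PvatNice Y) (hm : PvtrMesh (r / 16) (pvwSq 0 (3 * r)) Y) (h : DelGood Y) {ι : Type} [Fintype ι] {I : PvamIn (delMap h) ι} {N : PvamNet I}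
    (K : PvazLk N) {μ : ℝ} (P : K.Pos Subtype.val 0 r (2 * r) μ (-(2 * r)) (2 * r) (-(r / 2)) (r / 2))
    (hVm : ∀ v ∈ K.Vm, (v : ℂ) ∈ (pvkdP r).Zm) (hVp : ∀ v ∈ K.Vp, (v : ℂ) ∈ (pvkdP r).Zp)
    (kpb : ∀ v ∈ K.dp.1.K ∪ K.dp.2.K, (v : ℂ) ∈ (pvkdP r).Ln true true) (zpb : ∀ v ∈ K.dp.2.Z, (v : ℂ) ∈ (pvkdP r).Dr true true)
    (kpw : ∀ v ∈ K.C4, (v : ℂ) ∈ (pvkdP r).Ln true false) (zpw : ∀ v ∈ K.Zp, (v : ℂ) ∈ (pvkdP r).Dr true false)
    (kmb : ∀ v ∈ K.dm.1.K ∪ K.dm.2.K, (v : ℂ) ∈ (pvkdP r).Ln false true) (zmb : ∀ v ∈ K.dm.2.Z, (v : ℂ) ∈ (pvkdP r).Dr false true)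
    (kmw : ∀ v ∈ K.C3, (v : ℂ) ∈ (pvkdP r).Ln false false) (zmw : ∀ v ∈ K.Zm, (v : ℂ) ∈ (pvkdP r).Dr false false)
    {s : Y → Bool} (ho : N.Out s) : PvkoCH (pvkdP r) Y s := by
  have key : ∀ Pl : PlTri ↥Y, Pl = delbPl Y → ∀ {I : PvamIn Pl.toMap ι} {N : PvamNet I} (K : PvazLk N), K.Pos Subtype.val 0 r (2 * r) μ (-(2 * r)) (2 * r) (-(r / 2)) (r / 2) →
      (∀ v ∈ K.Vm, (v : ℂ) ∈ (pvkdP r).Zm) → (∀ v ∈ K.Vp, (v : ℂ) ∈ (pvkdP r).Zp) →
      (∀ v ∈ K.dp.1.K ∪ K.dp.2.K, (v : ℂ) ∈ (pvkdP r).Ln true true) → (∀ v ∈ K.dp.2.Z, (v : ℂ) ∈ (pvkdP r).Dr true true) →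
      (∀ v ∈ K.C4, (v : ℂ) ∈ (pvkdP r).Ln true false) → (∀ v ∈ K.Zp, (v : ℂ) ∈ (pvkdP r).Dr true false) →
      (∀ v ∈ K.dm.1.K ∪ K.dm.2.K, (v : ℂ) ∈ (pvkdP r).Ln false true) → (∀ v ∈ K.dm.2.Z, (v : ℂ) ∈ (pvkdP r).Dr false true) →
      (∀ v ∈ K.C3, (v : ℂ) ∈ (pvkdP r).Ln false false) → (∀ v ∈ K.Zm, (v : ℂ) ∈ (pvkdP r).Dr false false) → N.Out s → PvkoCH (pvkdP r) Y s := by
    rintro Pl rfl I N K a1 a2 a3 a4 a5 a6 a7 a8 a9 a10 a11 a12
    exact pvae_out hr hn hm K a1 a2 a3 a4 a5 a6 a7 a8 a9 a10 a11 a12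
  exact key (delPl h) (delb_pl_eq h).symm K P hVm hVp kpb zpb kpw zpw kmb zmb kmw zmw ho

section roof

variable {Y : Set ℂ} (hn : PvatNice Y) (hd : VorDense Y (pvmSq 0 pvzbL) pvzbρ)

include hd in
theorem pvzb_mesh : PvtrMesh (1 / 16 / 16) (pvwSq 0 (3 * (1 / 16))) Y := by
  refine pvko_mesh (by norm_num) hd (by unfold pvzbρ; norm_num) ?_
  rintro z ⟨k1, k2⟩
  rw [sub_zero] at k1 k2
  refine ⟨?_, ?_⟩
  · rw [Complex.zero_re, sub_zero]; unfold pvzbL; linarith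
  · rw [Complex.zero_im, sub_zero]; unfold pvzbL; linarith

/-- **THE FIELD `out`** -/
theorem pvzb_out (s : Y → Bool) (ho : (pvzbN hn.good hd).Out s) : PvkoTg ((pvkdP (1 / 16)).CH 0 1) Y s :=
  pvzb_out_del (by norm_num) hn (pvzb_mesh hd) hn.good (pvzbK hn.good hd) (exit_pvzb_pos hn.good hd) (exit_pvzb_Vq hn.good hd).1 (exit_pvzb_Vq hn.good hd).2
    (exit_pvzb_kb hn.good hd true) (fun v hv => exit_pvzb_Z true true hv) (fun v hv => exit_pvzb_kw true hv) (fun v hv => exit_pvzb_Z true false hv)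
    (exit_pvzb_kb hn.good hd false) (fun v hv => exit_pvzb_Z false true hv) (fun v hv => exit_pvzb_kw false hv) (fun v hv => exit_pvzb_Z false false hv) ho

/-- a black crossing of the flipped colouring is a white crossing -/
theorem pvzb_cr_flip (h : DelGood Y) {B : PvzbBx} {s : Y → Bool} (hc : B.Cr h true (fun v => !s v)) : B.Cr h false s := by
  obtain ⟨u, v, h1, h2⟩ := hc
  refine ⟨u, v, h1, pl_hx_join_mono Subset.rfl ?_ h2⟩
  rintro w ⟨k1, k2⟩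
  refine ⟨k1, ?_⟩
  have k3 : (!s w) = true := k2
  simpa using k3

include hd in
/-- all the boxes are crossed -/
theorem pvzb_pat_all (h : DelGood Y) {s : Y → Bool} (hp : PvkoPat pvzbl Y s) : ∀ B ∈ pvzbLFB ++ pvzbLFW ++ pvzbLUW ++ pvzbLUB, B.Cr h true s := fun B hB =>
  exit_pvzb_pat h hd (pvzb_box_num B hB).2.2 (hp _ (List.mem_map.2 ⟨B, hB, rfl⟩))

/-- **THE NET OF ROPE A AT THE POINT SET `Y`** -/
noncomputable def pvzbNet : PvkoNet ((pvkdP (1 / 16)).CH 0 1) pvzbl (delMap hn.good) Bool where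
  I := (pvzbF hn.good hd).In
  N := pvzbN hn.good hd
  Rw := pvzbCl hn.good pvzbLFW
  Rb := pvzbCl hn.good pvzbLFB
  Kw := pvzbCl hn.good pvzbLUW
  Kb := pvzbCl hn.good pvzbLUB
  dR := exit_pvzb_dR hn.good
  dK := exit_pvzb_dK hn.good
  FW := pvzbEv hn.good false pvzbLFW
  FB := pvzbEv hn.good true pvzbLFB
  lFW := exit_pvzb_loc hn.good false pvzbLFW
  lFB := exit_pvzb_loc hn.good true pvzbLFB
  hwl := exit_pvzb_hwl hn.good hd
  hbl := exit_pvzb_hbl hn.good hd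
  hbd := exit_pvzb_hbd hn.good hd
  hF := fun ω hW hB => exit_pvzb_F hn.good hd hW hB
  pB := fun s hp => ⟨fun B hB => pvzb_pat_all hd hn.good hp B (by simp only [List.mem_append]; exact Or.inl (Or.inl (Or.inl hB))),
    exit_pvzb_U2 hn.good hd fun B hB => pvzb_pat_all hd hn.good hp B (by simp only [List.mem_append]; exact Or.inr hB)⟩
  pW := fun s hp => ⟨fun B hB => pvzb_cr_flip hn.good (pvzb_pat_all hd hn.good hp B (by simp only [List.mem_append]; exact Or.inl (Or.inl (Or.inr hB)))),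
    exit_pvzb_U1 hn.good hd fun B hB => pvzb_cr_flip hn.good (pvzb_pat_all hd hn.good hp B (by simp only [List.mem_append]; exact Or.inl (Or.inr hB)))⟩
  out := pvzb_out hn hd

end roof

theorem pvzb_eqns_cite3 : True := by
  have := @pvzbNet.eq_1
  trivial

/-- **THE DETERMINISTIC EXIT OF [ADM]** = the statement of `exit_pvko_inst` (262, `Tr/AdmP`) VERBATIM -/
theorem pvzb_inst : ∃ (l : List RswTri) (ρ L : ℝ), (∀ e ∈ l, e.Nice) ∧ (∀ e ∈ l, PvkoRsw e) ∧ 0 < ρ ∧ 0 ≤ L ∧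
    ∀ Y : Set ℂ, PvatNice Y → VorDense Y (pvmSq 0 L) ρ → PvkoInst (pvkdP (1 / 16)) l Y :=
  ⟨pvzbl, pvzbρ, pvzbL, pvzb_nice, pvzb_rsw, pvzb_ρ_pos, by unfold pvzbL; norm_num, fun Y hn hd => pvko_inst_of_net (pvzbNet hn hd)⟩

end Claimed.Agent.R289
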