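import Claimed.Agent.R289.Pl.Bridge
import Claimed.Agent.R289.Tr.GateB
import Claimed.Agent.R289.Tr.GateMin
import Claimed.Agent.R289.Tr.PlugLoc
import Claimed.Agent.R289.Tr.PlugK

/-!
# Row 289 (S0537, Cardy for Poisson-Voronoi), box TR, [ADM] block D, file Tr/AdmSub : SUB-GATE STRAND TRANSFER      (owner helper18; prefix `pvtj_`, defs `pvtj… / Pvtj…`)

MODEL FREE.   `g0` = an explicit gate (block C of 140) whose through strand is known: the vertices of the faces it crosses (`g0.bank ∪ g0.wbank`) lie in `BW ∪ KI ∪ BE`, West part, core, East part; no vertex of `BW` is equal or adjacent to a vertex of `BE`;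
`g0⁻ ∈ BW`, `g0⁺ ∈ BE`.      `g` = ANY gate with `g.c.Left ⊆ g0.c.Left` and `KI ⊆ Int g.c.Left` (e.g. the LEAST gate, whose arcs are unknown).

RESULT (`pvtj_transfer`): the through strand of `g0` contains the strand of `g` as ONE segment: `It g0.aIn τ = g.aIn`, `It g0.aIn (τ + g.len) = g.aOut`, `g.Thru`; the positions `≤ τ` have both ends in `BW`, the positions `≥ τ + g.len` have both ends in `BE` and are
off `g.c.Left`.   Hence: banks of `g` ⊆ banks of `g0` (TUBE, `pvtj_thru`), the four feet of `g` are joined to the four feet of `g0` colour by colour inside `BW` / `BE` (`pvtj_feet`), lanes from the feet of `g0` are lanes from the feet of `g` (`pvtj_lane`).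
NO ORIENTATION INPUT on `g` is needed beyond `g⁻ ∈ BW`, `g⁺ ∈ BE`, and even that is free up to the exchange of entry and exit (`pvtj_orient`).

PROOF.   A position off `g.c.Left` (or whose opposite dart is off) has no end in `KI`, so both ends are in `BW` or both in `BE` (they are adjacent); consecutive positions share an end: the side is CONSTANT along a run of such positions (sec. 1, 2).
The first position in `g.c.Left` is an entrance (`aIn` or `bIn`) with ends in `BW`: `aIn`.   The first exit is `aOut`: if it were `bOut` (ends in `BW`) the next entrance would be on the side `BW`, so `aIn` again: positions do not repeat.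
The position after the last one in `g.c.Left` is an exit with ends in `BE`: `aOut`: it IS the first exit (sec. 3).

sec. 1 sides of a dart      sec. 2 runs, next entrance, last exit      sec. 3 the record `PvtjSub`, `pvtj_transfer`      sec. 4 tube, feet, lanes      sec. 5 orientation for free, the gate of record (`pvtj_record`)
-/

set_option autoImplicit false
set_option linter.unusedSectionVars false
set_option linter.unusedVariables false

namespace Claimed.Agent.R289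

open Relation

variable {V D : Type}

/-! ## 0. definitions -/

/-- both ends of the dart `d` lie in `X` -/
def pvtjE (T : PvMap V D) (X : Set V) (d : D) : Prop := T.src d ∈ X ∧ T.tgt d ∈ X

/-- no vertex of `X` is equal or adjacent to a vertex of `Y` -/
def PvtjSep (T : PvMap V D) (X Y : Set V) : Prop := ∀ u ∈ X, ∀ v ∈ Y, u ≠ v ∧ ¬ T.Adj u v

/-- the side `σ`: East if `true`, West if `false` -/
def pvtjB (BW BE : Set V) (σ : Bool) : Set V := if σ then BE else BW

theorem pvtj_eqns_cite : True := by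
  have := @pvtjE.eq_1; have := @PvtjSep.eq_1; have := @pvtjB.eq_1
  trivial

variable {T : PvMap V D} {s : V → Bool}

/-! ## 1. sides of a dart -/

theorem PvtjSep.symm {X Y : Set V} (h : PvtjSep T X Y) : PvtjSep T Y X := fun u hu v hv =>
  ⟨fun e => (h v hv u hu).1 e.symm, fun ⟨d, e1, e2⟩ => (h v hv u hu).2 ⟨T.opp d, by rw [T.src_opp', e2], by rw [T.tgt_opp, e1]⟩⟩

theorem PvtjSep.not_both {X Y : Set V} (h : PvtjSep T X Y) {v : V} (h1 : v ∈ X) (h2 : v ∈ Y) : False := (h v h1 v h2).1 rfl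

/-- the two ends of a dart are on the same side -/
theorem pvtj_dart {X Y : Set V} (h : PvtjSep T X Y) {d : D} (h1 : T.src d ∈ X ∨ T.src d ∈ Y) (h2 : T.tgt d ∈ X ∨ T.tgt d ∈ Y) :
    pvtjE T X d ∨ pvtjE T Y d := by
  rcases h1 with h1 | h1 <;> rcases h2 with h2 | h2
  · exact Or.inl ⟨h1, h2⟩
  · exact absurd ⟨d, rfl, rfl⟩ (h _ h1 _ h2).2
  · exact absurd ⟨d, rfl, rfl⟩ (h.symm _ h1 _ h2).2
  · exact Or.inr ⟨h1, h2⟩

theorem pvtj_E_excl {X Y : Set V} (h : PvtjSep T X Y) {d : D} (h1 : pvtjE T X d) (h2 : pvtjE T Y d) : False := h.not_both h1.1 h2.1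

/-- the side of a dart is read on its source -/
theorem pvtj_E_of_src {X Y : Set V} (h : PvtjSep T X Y) {d : D} (h1 : pvtjE T X d ∨ pvtjE T Y d) (h2 : T.src d ∈ X) : pvtjE T X d := by
  rcases h1 with h1 | h1
  · exact h1
  · exact (h.not_both h2 h1.1).elim

/-- consecutive positions are on the same side -/
theorem pvtj_fwd {X Y : Set V} (h : PvtjSep T X Y) {d : D} (h1 : pvtjE T X d) (h2 : pvtjE T X (pvasStep T s d) ∨ pvtjE T Y (pvasStep T s d)) :
    pvtjE T X (pvasStep T s d) := by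
  rcases h2 with h2 | h2
  · exact h2
  · rcases pvas_step_ends s d with ⟨_, _, e⟩ | ⟨_, e, _⟩
    · exact (h.not_both h1.2 (e ▸ h2.2)).elim
    · exact (h.not_both h1.1 (e ▸ h2.1)).elim

theorem pvtj_bwd {X Y : Set V} (h : PvtjSep T X Y) {d : D} (h1 : pvtjE T X (pvasStep T s d)) (h2 : pvtjE T X d ∨ pvtjE T Y d) : pvtjE T X d := by
  rcases h2 with h2 | h2
  · exact h2
  · rcases pvas_step_ends s d with ⟨_, _, e⟩ | ⟨_, e, _⟩
    · exact (h.not_both (e ▸ h1.2) h2.2).elim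
    · exact (h.not_both (e ▸ h1.1) h2.1).elim

/-! ## 2. runs, next entrance, last exit -/

/-- the side is constant along a run, forwards -/
theorem pvtj_run_fwd {X Y : Set V} (h : PvtjSep T X Y) (a : D) {i : ℕ} (hi : pvtjE T X (pvasIt T s a i)) :
    ∀ j, i ≤ j → (∀ k, i ≤ k → k ≤ j → pvtjE T X (pvasIt T s a k) ∨ pvtjE T Y (pvasIt T s a k)) → pvtjE T X (pvasIt T s a j) := by
  intro j hij
  induction j, hij using Nat.le_induction with
  | base => exact fun _ => hi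
  | succ j hij ih =>
    intro hk
    have h1 := ih fun k k1 k2 => hk k k1 (by omega)
    have h2 := hk (j + 1) (by omega) le_rfl
    rw [pvas_it_succ] at h2 ⊢
    exact pvtj_fwd h h1 h2

/-- the side is constant along a run, backwards -/
theorem pvtj_run_bwd {X Y : Set V} (h : PvtjSep T X Y) (a : D) {i : ℕ} :
    ∀ j, i ≤ j → pvtjE T X (pvasIt T s a j) → (∀ k, i ≤ k → k ≤ j → pvtjE T X (pvasIt T s a k) ∨ pvtjE T Y (pvasIt T s a k)) → pvtjE T X (pvasIt T s a i) := by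
  intro j hij
  induction j, hij using Nat.le_induction with
  | base => exact fun hj _ => hj
  | succ j hij ih =>
    intro hj hk
    refine ih ?_ fun k k1 k2 => hk k k1 (by omega)
    rw [pvas_it_succ] at hj
    exact pvtj_bwd h hj (hk j hij (by omega))

/-- **next entrance** -/
theorem pvtj_next {A : Set D} (hA : T.FaceSet A) (a : D) {i j : ℕ} (hij : i ≤ j) (hi : pvasIt T s a i ∉ A ∨ T.opp (pvasIt T s a i) ∉ A)
    (hj : pvasIt T s a j ∈ A) :
    ∃ k, i ≤ k ∧ k ≤ j ∧ pvasIt T s a k ∈ A ∧ T.opp (pvasIt T s a k) ∉ A ∧ ∀ l, i ≤ l → l < k → pvasIt T s a l ∉ A := by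
  classical
  have hex : ∃ k, i ≤ k ∧ pvasIt T s a k ∈ A := ⟨j, hij, hj⟩
  refine ⟨Nat.find hex, (Nat.find_spec hex).1, Nat.find_min' hex ⟨hij, hj⟩, (Nat.find_spec hex).2, ?_, fun l l1 l2 hl => Nat.find_min hex l2 ⟨l1, hl⟩⟩
  rcases Nat.eq_or_lt_of_le (Nat.find_spec hex).1 with e | hlt
  · rw [← e]
    rcases hi with hi | hi
    · exact absurd (e ▸ (Nat.find_spec hex).2) hi
    · exact hi
  · obtain ⟨l, hl⟩ : ∃ l, Nat.find hex = l + 1 := ⟨Nat.find hex - 1, by omega⟩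
    rw [hl, pvas_it_succ, pvas_step_opp_mem hA]
    exact fun h => Nat.find_min hex (m := l) (by omega) ⟨by omega, h⟩

/-- **last exit** -/
theorem pvtj_prev {A : Set D} (hA : T.FaceSet A) (a : D) {i : ℕ} (hi : pvasIt T s a i ∈ A) :
    ∀ j, i ≤ j → pvasIt T s a j ∉ A →
      ∃ k, i < k ∧ k ≤ j ∧ pvasIt T s a k ∉ A ∧ T.opp (pvasIt T s a k) ∈ A ∧ ∀ l, k ≤ l → l ≤ j → pvasIt T s a l ∉ A := by
  intro j hij
  induction j, hij using Nat.le_induction with
  | base => exact fun h => absurd hi h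
  | succ j hij ih =>
    intro hj
    by_cases h : pvasIt T s a j ∈ A
    · refine ⟨j + 1, by omega, le_rfl, hj, ?_, fun l l1 l2 => ?_⟩
      · rw [pvas_it_succ, pvas_step_opp_mem hA]; exact h
      · obtain rfl : l = j + 1 := by omega
        exact hj
    · obtain ⟨k, k1, k2, k3, k4, k5⟩ := ih h
      refine ⟨k, k1, by omega, k3, k4, fun l l1 l2 => ?_⟩
      rcases Nat.eq_or_lt_of_le l2 with rfl | l3
      · exact hj
      · exact k5 l l1 (by omega)

/-! ## 3. the record, the transfer -/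

/-- **the sub-gate setting** -/
structure PvtjSub (T : PvMap V D) (s : V → Bool) (g0 g : T.Gate s) (BW KI BE : Set V) : Prop where
  fin : g0.c.Left.Finite
  sub : g.c.Left ⊆ g0.c.Left
  thru0 : g0.Thru
  sep : PvtjSep T BW BE
  box : ∀ v ∈ g0.bank ∪ g0.wbank, v ∈ BW ∨ v ∈ KI ∨ v ∈ BE
  inn : KI ⊆ T.Int g.c.Left
  vm0 : g0.vm ∈ BW
  vp0 : g0.vp ∈ BE

namespace PvtjSub

variable {g0 g : T.Gate s} {BW KI BE : Set V}

theorem fin' (h : PvtjSub T s g0 g BW KI BE) : g.c.Left.Finite := h.fin.subset h.sub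

/-- a dart off the inner gate has no end in the core -/
theorem off (h : PvtjSub T s g0 g BW KI BE) {d : D} (hd : d ∉ g.c.Left) : T.src d ∉ KI ∧ T.tgt d ∉ KI := by
  refine ⟨fun hk => hd (h.inn hk d rfl), fun hk => hd ?_⟩
  rw [← pl_left_face g.c d]
  exact h.inn hk _ (T.src_nxt d)

theorem off' (h : PvtjSub T s g0 g BW KI BE) {d : D} (hd : d ∉ g.c.Left ∨ T.opp d ∉ g.c.Left) : T.src d ∉ KI ∧ T.tgt d ∉ KI := by
  rcases hd with hd | hd
  · exact h.off hd
  · have := h.off hd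
    rw [T.src_opp', T.tgt_opp] at this
    exact this.symm

/-- a position of the strand of `g0` which is off the inner gate (or has just entered it) is on one side -/
theorem free (h : PvtjSub T s g0 g BW KI BE) {k : ℕ} (hk : k ≤ g0.len)
    (hd : pvasIt T s g0.aIn k ∉ g.c.Left ∨ T.opp (pvasIt T s g0.aIn k) ∉ g.c.Left) :
    pvtjE T BW (pvasIt T s g0.aIn k) ∨ pvtjE T BE (pvasIt T s g0.aIn k) := by
  have h1 := h.off' hd
  refine pvtj_dart h.sep ?_ ?_
  · rcases h.box _ (Or.inl ⟨k, hk, rfl⟩) with e | e | e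
    exacts [Or.inl e, absurd e h1.1, Or.inr e]
  · rcases h.box _ (Or.inr ⟨k, hk, rfl⟩) with e | e | e
    exacts [Or.inl e, absurd e h1.2, Or.inr e]

/-- the strand of `g0` -/
theorem st0 (hT : T.IsSph) (h : PvtjSub T s g0 g BW KI BE) :
    1 ≤ g0.len ∧ (∀ i, i < g0.len → pvasIt T s g0.aIn i ∈ g0.c.Left) ∧ pvasIt T s g0.aIn g0.len = g0.aOut := by
  have h1 := pvtg_len hT g0 h.fin
  exact ⟨h1.1, h1.2.1, h1.2.2.trans h.thru0⟩

/-- the positions `0..len` of the strand of `g0` are distinct -/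
theorem inj (hT : T.IsSph) (h : PvtjSub T s g0 g BW KI BE) {i j : ℕ} (hij : i ≤ j) (hj : j ≤ g0.len)
    (e : pvasIt T s g0.aIn i = pvasIt T s g0.aIn j) : i = j := by
  have hin : pvasIn T g0.c.Left s g0.aIn := (pvtg_in_iff hT g0 _).2 (Or.inl rfl)
  have h1 := pvas_it_return hin.2.2 hij e
  have h2 := pvas_in_first (pl_left_face g0.c) hin h1 (fun l hl => (h.st0 hT).2.1 l (by omega))
  omega

theorem start (hT : T.IsSph) (h : PvtjSub T s g0 g BW KI BE) :
    T.opp (pvasIt T s g0.aIn 0) ∉ g.c.Left ∧ pvtjE T BW (pvasIt T s g0.aIn 0) := by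
  have hin : pvasIn T g0.c.Left s g0.aIn := (pvtg_in_iff hT g0 _).2 (Or.inl rfl)
  have h1 : T.opp (pvasIt T s g0.aIn 0) ∉ g.c.Left := fun hc => hin.2.1 (h.sub hc)
  exact ⟨h1, pvtj_E_of_src h.sep (h.free (Nat.zero_le _) (Or.inr h1)) h.vm0⟩

theorem finish (hT : T.IsSph) (h : PvtjSub T s g0 g BW KI BE) :
    pvasIt T s g0.aIn g0.len ∉ g.c.Left ∧ pvtjE T BE (pvasIt T s g0.aIn g0.len) := by
  have hout : pvasOut T g0.c.Left s g0.aOut := (pvtg_out_iff hT g0 _).2 (Or.inl rfl)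
  have e := (h.st0 hT).2.2
  have h1 : pvasIt T s g0.aIn g0.len ∉ g.c.Left := fun hc => hout.1 (e ▸ h.sub hc)
  refine ⟨h1, pvtj_E_of_src h.sep.symm (h.free le_rfl (Or.inl h1)).symm ?_⟩
  rw [e, pvtg_aOut_src]
  exact h.vp0

/-- the strand of `g0` visits the inner gate -/
theorem hit (hT : T.IsSph) (h : PvtjSub T s g0 g BW KI BE) : ∃ k, k ≤ g0.len ∧ pvasIt T s g0.aIn k ∈ g.c.Left := by
  by_contra hc
  have h1 := pvtj_run_fwd h.sep g0.aIn (h.start hT).2 g0.len (Nat.zero_le _) fun k _ k2 => h.free k2 (Or.inl fun hk => hc ⟨k, k2, hk⟩)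
  exact pvtj_E_excl h.sep h1 (h.finish hT).2

/-- **first entrance**: it is on the West side -/
theorem first (hT : T.IsSph) (h : PvtjSub T s g0 g BW KI BE) :
    ∃ τ, τ ≤ g0.len ∧ pvasIn T g.c.Left s (pvasIt T s g0.aIn τ) ∧ (∀ k, k ≤ τ → pvtjE T BW (pvasIt T s g0.aIn k)) ∧
      ∀ k, k < τ → pvasIt T s g0.aIn k ∉ g.c.Left := by
  obtain ⟨j, j1, j2⟩ := h.hit hT
  obtain ⟨τ, -, t2, t3, t4, t5⟩ := pvtj_next (pl_left_face g.c) g0.aIn (Nat.zero_le j) (Or.inr (h.start hT).1) j2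
  refine ⟨τ, by omega, ⟨t3, t4, pvas_it_bw (pvtg_aIn_bw g0) _⟩, fun k hk => ?_, fun k hk => t5 k (Nat.zero_le _) hk⟩
  refine pvtj_run_fwd h.sep g0.aIn (h.start hT).2 k (Nat.zero_le _) fun l _ l2 => h.free (by omega) ?_
  rcases Nat.eq_or_lt_of_le (l2.trans hk) with rfl | l3
  · exact Or.inr t4
  · exact Or.inl (t5 l (Nat.zero_le _) l3)

/-- **last exit**: it is on the East side -/
theorem last (hT : T.IsSph) (h : PvtjSub T s g0 g BW KI BE) :
    ∃ l, l ≤ g0.len ∧ pvasOut T g.c.Left s (pvasIt T s g0.aIn l) ∧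
      ∀ k, l ≤ k → k ≤ g0.len → pvasIt T s g0.aIn k ∉ g.c.Left ∧ pvtjE T BE (pvasIt T s g0.aIn k) := by
  obtain ⟨j, j1, j2⟩ := h.hit hT
  obtain ⟨l, -, l2, l3, l4, l5⟩ := pvtj_prev (pl_left_face g.c) g0.aIn j2 g0.len j1 (h.finish hT).1
  refine ⟨l, l2, ⟨l3, l4, pvas_it_bw (pvtg_aIn_bw g0) _⟩, fun k k1 k2 => ⟨l5 k k1 k2, ?_⟩⟩
  exact pvtj_run_bwd h.sep.symm g0.aIn g0.len k2 (h.finish hT).2 fun i i1 i2 => (h.free i2 (Or.inl (l5 i (by omega) i2))).symm

end PvtjSub

/-- **the strand of `g` is the segment `[τ, τ + g.len]` of the strand of `g0`**, West before, East after -/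
structure PvtjSeg (T : PvMap V D) (s : V → Bool) (g0 g : T.Gate s) (BW BE : Set V) (τ : ℕ) : Prop where
  thru : g.Thru
  le : τ + g.len ≤ g0.len
  flow : ∀ i, pvasIt T s g0.aIn (τ + i) = pvasIt T s g.aIn i
  out : pvasIt T s g.aIn g.len = g.aOut
  out0 : pvasIt T s g0.aIn g0.len = g0.aOut
  west : ∀ k, k ≤ τ → pvtjE T BW (pvasIt T s g0.aIn k)
  east : ∀ k, τ + g.len ≤ k → k ≤ g0.len → pvtjE T BE (pvasIt T s g0.aIn k)
  offW : ∀ k, k < τ → pvasIt T s g0.aIn k ∉ g.c.Left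
  offE : ∀ k, τ + g.len ≤ k → k ≤ g0.len → pvasIt T s g0.aIn k ∉ g.c.Left

variable {g0 g : T.Gate s} {BW KI BE : Set V}

/-- **SUB-GATE STRAND TRANSFER** -/
theorem pvtj_transfer (hT : T.IsSph) (h : PvtjSub T s g0 g BW KI BE) (hm : g.vm ∈ BW) (hp : g.vp ∈ BE) : ∃ τ, PvtjSeg T s g0 g BW BE τ := by
  obtain ⟨τ, t1, t2, t3, t4⟩ := h.first hT
  have eτ : pvasIt T s g0.aIn τ = g.aIn := by
    rcases (pvtg_in_iff hT g _).1 t2 with e | e
    · exact e
    · exact (h.sep.not_both (t3 τ le_rfl).1 (by rw [e, pvtg_bIn_src]; exact hp)).elim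
  have flow : ∀ i, pvasIt T s g0.aIn (τ + i) = pvasIt T s g.aIn i := fun i => by rw [pvas_it_add, eτ]
  obtain ⟨l1, l2, l3⟩ := pvtg_len hT g h.fin'
  have hle : τ + g.len ≤ g0.len := by
    by_contra hc
    have h1 := l2 (g0.len - τ) (by omega)
    rw [← flow, show τ + (g0.len - τ) = g0.len by omega] at h1
    exact (h.finish hT).1 h1
  have hout : pvasOut T g.c.Left s (pvasIt T s g.aIn g.len) := by
    rw [l3]
    exact (pvas_exit_spec (pl_left_face g.c) h.fin' ((pvtg_in_iff hT g _).2 (Or.inl rfl))).2.2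
  have hthru : pvasIt T s g.aIn g.len = g.aOut := by
    rcases (pvtg_out_iff hT g _).1 hout with e | e
    · exact e
    exfalso
    have hoff : pvasIt T s g0.aIn (τ + g.len) ∉ g.c.Left := by rw [flow]; exact hout.1
    have hk2 : pvtjE T BW (pvasIt T s g0.aIn (τ + g.len)) :=
      pvtj_E_of_src h.sep (h.free hle (Or.inl hoff)) (by rw [flow, e, pvtg_bOut_src]; exact hm)
    by_cases hex : ∃ k, τ + g.len ≤ k ∧ k ≤ g0.len ∧ pvasIt T s g0.aIn k ∈ g.c.Left
    · obtain ⟨k, k1, k2, k3⟩ := hex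
      obtain ⟨k', a1, a2, a3, a4, a5⟩ := pvtj_next (pl_left_face g.c) g0.aIn k1 (Or.inl hoff) k3
      have hside : pvtjE T BW (pvasIt T s g0.aIn k') := by
        refine pvtj_run_fwd h.sep g0.aIn hk2 k' a1 fun l b1 b2 => h.free (by omega) ?_
        rcases Nat.eq_or_lt_of_le b2 with rfl | b3
        · exact Or.inr a4
        · exact Or.inl (a5 l b1 b3)
      rcases (pvtg_in_iff hT g _).1 ⟨a3, a4, pvas_it_bw (pvtg_aIn_bw g0) _⟩ with e' | e'
      · have := h.inj hT (i := τ) (j := k') (by omega) (by omega) (eτ.trans e'.symm)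
        omega
      · exact h.sep.not_both hside.1 (by rw [e', pvtg_bIn_src]; exact hp)
    · have h1 := pvtj_run_fwd h.sep g0.aIn hk2 g0.len hle fun l b1 b2 => h.free b2 (Or.inl fun hl => hex ⟨l, b1, b2, hl⟩)
      exact pvtj_E_excl h.sep h1 (h.finish hT).2
  obtain ⟨l, m1, m2, m3⟩ := h.last hT
  have el : pvasIt T s g0.aIn l = g.aOut := by
    rcases (pvtg_out_iff hT g _).1 m2 with e | e
    · exact e
    · exact (h.sep.not_both (by rw [← pvtg_bOut_src, ← e] at hm; exact hm) (m3 l le_rfl m1).2.1).elim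
  have ell : l = τ + g.len := by
    have e : pvasIt T s g0.aIn l = pvasIt T s g0.aIn (τ + g.len) := by rw [el, flow, hthru]
    rcases Nat.le_total l (τ + g.len) with hh | hh
    · exact h.inj hT hh hle e
    · exact (h.inj hT hh m1 e.symm).symm
  subst ell
  exact ⟨τ, l3.symm.trans hthru, hle, flow, hthru, (h.st0 hT).2.2, t3, fun k k1 k2 => (m3 k k1 k2).2, t4, fun k k1 k2 => (m3 k k1 k2).1⟩

/-! ## 4. tube, feet, lanes -/

/-- the black layer of a run is a black path of the sites it visits -/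
theorem pvtj_joinB {a : D} (ha : pvasBW T s a) {X : Set V} {i : ℕ} :
    ∀ j, i ≤ j → (∀ k, i ≤ k → k ≤ j → T.src (pvasIt T s a k) ∈ X) →
      T.Join Set.univ (pvldCol s X true) (T.src (pvasIt T s a i)) (T.src (pvasIt T s a j)) := by
  intro j hij
  induction j, hij using Nat.le_induction with
  | base => exact fun hk => pl_br_join_refl ⟨hk i le_rfl le_rfl, (pvas_it_bw ha i).1⟩
  | succ j hij ih =>
    intro hk
    have h1 := ih fun k k1 k2 => hk k k1 (by omega)
    rcases pvas_layB_step s a j with e | ⟨f, -, e1, e2⟩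
    · rw [e]; exact h1
    · exact ⟨h1.1, h1.2.tail ⟨⟨f, Or.inl (Set.mem_univ _), e1, e2⟩, hk (j + 1) (by omega) le_rfl, (pvas_it_bw ha (j + 1)).1⟩⟩

/-- the white layer of a run is a white path of the sites it visits -/
theorem pvtj_joinW {a : D} (ha : pvasBW T s a) {X : Set V} {i : ℕ} :
    ∀ j, i ≤ j → (∀ k, i ≤ k → k ≤ j → T.tgt (pvasIt T s a k) ∈ X) →
      T.Join Set.univ (pvldCol s X false) (T.tgt (pvasIt T s a i)) (T.tgt (pvasIt T s a j)) := by
  intro j hij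
  induction j, hij using Nat.le_induction with
  | base => exact fun hk => pl_br_join_refl ⟨hk i le_rfl le_rfl, (pvas_it_bw ha i).2⟩
  | succ j hij ih =>
    intro hk
    have h1 := ih fun k k1 k2 => hk k k1 (by omega)
    rcases pvas_layW_step s a j with e | ⟨f, -, e1, e2⟩
    · rw [e]; exact h1
    · exact ⟨h1.1, h1.2.tail ⟨⟨f, Or.inl (Set.mem_univ _), e1, e2⟩, hk (j + 1) (by omega) le_rfl, (pvas_it_bw ha (j + 1)).2⟩⟩

namespace PvtjSeg

variable {τ : ℕ}

theorem aIn (h : PvtjSeg T s g0 g BW BE τ) : pvasIt T s g0.aIn τ = g.aIn := h.flow 0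

theorem aOut (h : PvtjSeg T s g0 g BW BE τ) : pvasIt T s g0.aIn (τ + g.len) = g.aOut := (h.flow _).trans h.out

theorem bank (h : PvtjSeg T s g0 g BW BE τ) : g.bank ⊆ g0.bank := by
  rintro v ⟨i, hi, rfl⟩
  exact ⟨τ + i, by have := h.le; omega, by rw [h.flow]⟩

theorem wbank (h : PvtjSeg T s g0 g BW BE τ) : g.wbank ⊆ g0.wbank := by
  rintro v ⟨i, hi, rfl⟩
  exact ⟨τ + i, by have := h.le; omega, by rw [h.flow]⟩

theorem fc (h : PvtjSeg T s g0 g BW BE τ) : pvasFc T s g.aIn g.len ⊆ pvasFc T s g0.aIn g0.len := by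
  rintro f ⟨i, hi, hf⟩
  exact ⟨τ + i, by have := h.le; omega, by rw [h.flow]; exact hf⟩

theorem vm (h : PvtjSeg T s g0 g BW BE τ) : g.vm ∈ BW := by
  have := (h.west τ le_rfl).1
  rwa [h.aIn] at this

theorem vp (h : PvtjSeg T s g0 g BW BE τ) : g.vp ∈ BE := by
  have := (h.east _ le_rfl h.le).1
  rwa [h.aOut, pvtg_aOut_src] at this

/-- **the four feet of `g` are joined to the four feet of `g0`**, colour by colour, on their side -/
theorem feet (h : PvtjSeg T s g0 g BW BE τ) (σ β : Bool) :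
    T.Join Set.univ (pvldCol s (pvtjB BW BE σ) β) (pvkdFoot g σ β) (pvkdFoot g0 σ β) := by
  have ha := pvtg_aIn_bw g0
  cases σ <;> cases β
  · have h1 := pvtj_joinW ha (X := BW) (i := 0) τ (Nat.zero_le _) fun k _ k2 => (h.west k k2).2
    rw [h.aIn] at h1
    exact pl_br_join_symm h1
  · have h1 := pvtj_joinB ha (X := BW) (i := 0) τ (Nat.zero_le _) fun k _ k2 => (h.west k k2).1
    rw [h.aIn] at h1
    exact pl_br_join_symm h1
  · have h1 := pvtj_joinW ha (X := BE) (i := τ + g.len) g0.len h.le fun k k1 k2 => (h.east k k1 k2).2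
    rw [h.aOut, h.out0] at h1
    exact h1
  · have h1 := pvtj_joinB ha (X := BE) (i := τ + g.len) g0.len h.le fun k k1 k2 => (h.east k k1 k2).1
    rw [h.aOut, h.out0, pvtg_aOut_src, pvtg_aOut_src] at h1
    exact h1

/-- **a lane from a foot of `g0` is a lane from the foot of `g`** -/
theorem lane (h : PvtjSeg T s g0 g BW BE τ) {σ β : Bool} {K : Set V} (hK : pvtjB BW BE σ ⊆ K) {v : V}
    (hl : T.Join Set.univ (pvldCol s K β) (pvkdFoot g0 σ β) v) : T.Join Set.univ (pvldCol s K β) (pvkdFoot g σ β) v :=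
  have hsub : pvldCol s (pvtjB BW BE σ) β ⊆ pvldCol s K β := fun _ hu => ⟨hK hu.1, hu.2⟩
  pl_br_join_trans (pl_br_join_mono le_rfl hsub (h.feet σ β)) hl

/-- **TUBE**: the through strand of `g` in the form of 173 -/
theorem thru173 {κ : Type} (hT : T.IsSph) (hfin : g.c.Left.Finite) (h : PvtjSeg T s g0 g BW BE τ) {mk : V → κ} {KT : Set κ}
    (hKT : ∀ v ∈ g0.bank ∪ g0.wbank, mk v ∈ KT) : PvzlThru T mk s KT g g.len := by
  obtain ⟨l1, l2, -⟩ := pvtg_len hT g hfin
  have hout : pvasOut T g.c.Left s g.aOut := (pvtg_out_iff hT g _).2 (Or.inl rfl)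
  refine ⟨l1, h.out, fun i hi e => hout.1 (e ▸ l2 i hi), l2, ?_⟩
  rw [pvas_fc_verts s g.aIn l1]
  rintro v (hv | hv)
  · exact hKT v (Or.inl (h.bank hv))
  · exact hKT v (Or.inr (h.wbank hv))

end PvtjSeg

/-! ## 5. orientation for free, the gate of record -/

/-- one of `g^±` is West and the other one is East -/
theorem pvtj_orient (hT : T.IsSph) (h : PvtjSub T s g0 g BW KI BE) : (g.vm ∈ BW ∧ g.vp ∈ BE) ∨ (g.vp ∈ BW ∧ g.vm ∈ BE) := by
  obtain ⟨τ, -, t2, t3, -⟩ := h.first hT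
  obtain ⟨l, m1, m2, m3⟩ := h.last hT
  have a1 := (t3 τ le_rfl).1
  have a2 := (m3 l le_rfl m1).2.1
  rcases (pvtg_in_iff hT g _).1 t2 with e | e <;> rcases (pvtg_out_iff hT g _).1 m2 with e' | e'
  · rw [e, pvtg_aIn_src] at a1; rw [e', pvtg_aOut_src] at a2; exact Or.inl ⟨a1, a2⟩
  · rw [e, pvtg_aIn_src] at a1; rw [e', pvtg_bOut_src] at a2; exact (h.sep.not_both a1 a2).elim
  · rw [e, pvtg_bIn_src] at a1; rw [e', pvtg_aOut_src] at a2; exact (h.sep.not_both a1 a2).elim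
  · rw [e, pvtg_bIn_src] at a1; rw [e', pvtg_bOut_src] at a2; exact Or.inr ⟨a1, a2⟩

/-- the setting only reads the inside of `g` -/
theorem PvtjSub.congr {g' : T.Gate s} (h : PvtjSub T s g0 g BW KI BE) (e : g'.c.Left = g.c.Left) : PvtjSub T s g0 g' BW KI BE :=
  ⟨h.fin, e ▸ h.sub, h.thru0, h.sep, h.box, e ▸ h.inn, h.vm0, h.vp0⟩

/-- **up to the exchange of entry and exit the transfer holds for every gate inside `g0` round the core** -/
theorem pvtj_transfer' (hT : T.IsSph) (h : PvtjSub T s g0 g BW KI BE) :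
    ∃ (g' : T.Gate s) (τ : ℕ), g'.c.Left = g.c.Left ∧ g'.c.darts = g.c.darts ∧ PvtjSeg T s g0 g' BW BE τ := by
  rcases pvtj_orient hT h with ⟨h1, h2⟩ | ⟨h1, h2⟩
  · obtain ⟨τ, hτ⟩ := pvtj_transfer hT h h1 h2
    exact ⟨g, τ, rfl, rfl, hτ⟩
  · obtain ⟨g', e1, -, e3, e4, e5⟩ := pvgn_gate_swap hT g
    obtain ⟨τ, hτ⟩ := pvtj_transfer hT (h.congr e1) (e4 ▸ h1) (e5 ▸ h2)
    exact ⟨g', τ, e1, e3, hτ⟩

/-- a least gate read on another labelling of the same circuit -/
theorem pvtj_least_congr {κ : Type} {mk : V → κ} {KI' KO' : Set κ} {g' : T.Gate s} (h : PvzlLeast T mk s KI' KO' g) (e : g'.c.Left = g.c.Left)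
    (e' : g'.c.darts = g.c.darts) : PvzlLeast T mk s KI' KO' g' := by
  refine ⟨⟨e ▸ h.reg.inner, e ▸ h.reg.outer, fun k => ?_⟩, fun g₂ h₂ => e ▸ h.least g₂ h₂⟩
  have hk : g'.c.e k ∈ g'.c.darts := ⟨k, rfl⟩
  rw [e'] at hk
  obtain ⟨j, hj⟩ := hk
  rw [← hj]
  exact h.reg.rim j

/-- **BLOCK D OF [ADM], MODULO THE EXISTENCE OF A LEAST GATE**: an explicit gate `g0` between the discs, through, banks in the tube and in `BW ∪ KI ∪ BE`, and ANY least gate `g`   ⇒   a gate of record `g'`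
(the circuit of `g`) whose four feet are joined to the four feet of `g0` colour by colour on their side -/
theorem pvtj_record {κ : Type} (hT : T.IsSph) {mk : V → κ} {p : PvzlPg κ} (hfin : g0.c.Left.Finite) (h0 : PvzlIn T mk p.KI p.KO g0.c) (ht0 : g0.Thru)
    (hl : PvzlLeast T mk s p.KI p.KO g) (hsep : PvtjSep T BW BE)
    (hbox : ∀ v ∈ g0.bank ∪ g0.wbank, mk v ∈ p.KT ∧ (v ∈ BW ∨ mk v ∈ p.KI ∨ v ∈ BE)) (hvm0 : g0.vm ∈ BW) (hvp0 : g0.vp ∈ BE)
    (hW : ∀ v ∈ BW, mk v ∈ p.Km) (hE : ∀ v ∈ BE, mk v ∈ p.Kp) :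
    ∃ (g' : T.Gate s) (τ : ℕ), PvzlGt T mk s p g' ∧ g'.c.Left = g.c.Left ∧ PvtjSeg T s g0 g' BW BE τ := by
  have hsub : PvtjSub T s g0 g BW {v | mk v ∈ p.KI} BE :=
    ⟨hfin, hl.least g0 h0, ht0, hsep, fun v hv => (hbox v hv).2, fun v hv d hd => hl.reg.inner (Or.inl (by rw [hd]; exact hv)), hvm0, hvp0⟩
  obtain ⟨g', τ, e1, e2, hτ⟩ := pvtj_transfer' hT hsub
  exact ⟨g', τ, ⟨pvtj_least_congr hl e1 e2, hW _ hτ.vm, hE _ hτ.vp, g'.len, hτ.thru173 hT (e1 ▸ hsub.fin') fun v hv => (hbox v hv).1⟩, e1, hτ⟩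

end Claimed.Agent.R289
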