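-- KEEP
import Claimed.Agent.R289.Tr.LaneDet
import Claimed.Agent.R289.Tr.GateB

/-!
# Row 289 (S0537, Cardy for Poisson-Voronoi), THE WALL, ADMISSION, block C, file Tr/AdmTrap : THE TRAP INSIDE A GATE      (helper47, second of helper140; prefix `pvzo_`)

MODEL FREE, no positions, no ray casting, no `OUT` hypothesis, no co-connectedness.
`g : T.Gate s`, inside finite;  a black join `g⁻ ~ g⁺` and a white join `tgt g.aIn ~ tgt g.aOut` (THE TUBE LINE), both in the closed inside, both through the vertex set `K`.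
* `pvzo_cyc`   = `pvld_cyc` of 70 WITH ITS REGION: the cycle `a₀ . white path . opp a₁ . black path` is drawn with edges of the face set `A` in which the two joins run
* **`pvzo_trap`** : `g.Thru`, and the inner strand of `g` runs in the disc `c₁.Left ⊆ g.c.Left` of a cycle `c₁` with `c₁.verts ⊆ K`: all its crossed faces, both its banks.
  (`c₁.e 0 = g.c.e 0` and `c₁` is drawn in the closed disc of `g.c`: `pl_cc_nested` gives `c₁.Left ⊆ g.c.Left`: the ORIENTATION of the trap is inherited from the gate; then `pvld_trap`.)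
-/

set_option autoImplicit false

namespace Claimed.Agent.R289

open Relation

variable {V D : Type} {T : PvMap V D}

/-- **the cycle of two lanes, with its region** -/
theorem pvzo_cyc {s : V → Bool} {K : Set V} {a₀ a₁ : D} {A : Set D} (h0 : pvasBW T s a₀) (h1 : pvasBW T s a₁) (hne : T.src a₀ ≠ T.src a₁)
    (hA0 : a₀ ∈ A ∨ T.opp a₀ ∈ A) (hA1 : a₁ ∈ A ∨ T.opp a₁ ∈ A)
    (hB : T.Join A (pvldCol s K true) (T.src a₀) (T.src a₁)) (hW : T.Join A (pvldCol s K false) (T.tgt a₀) (T.tgt a₁)) :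
    ∃ (c : T.Cyc) (m : ℕ), 0 < m ∧ m < c.n ∧ c.e 0 = a₀ ∧ c.e m = T.opp a₁ ∧ (∀ k, 1 ≤ k → k ≤ m → s (T.src (c.e k)) = false) ∧
      (∀ k, m < k → k ≤ c.n → s (T.src (c.e k)) = true) ∧ c.verts ⊆ K ∧ ∀ i, c.e i ∈ A ∨ T.opp (c.e i) ∈ A := by
  have : Nonempty D := ⟨a₀⟩
  obtain ⟨w, hw0, hwn, hwX, hwA⟩ := pl_pth_of_join hW
  obtain ⟨b, hb0, hbn, hbX, hbA⟩ := pl_pth_of_join hB
  have hwc : ∀ x ∈ w.verts, x ∈ K ∧ s x = false := fun x hx => hwX hx
  have hbc : ∀ x ∈ b.verts, x ∈ K ∧ s x = true := fun x hx => hbX hx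
  have hbv : ∀ k, k ≤ b.n → b.v k ∈ K ∧ s (b.v k) = true := fun k hk => hbc _ ⟨k, hk, rfl⟩
  have hwv : ∀ k, k ≤ w.n → w.v k ∈ K ∧ s (w.v k) = false := fun k hk => hwc _ ⟨k, hk, rfl⟩
  have hK0 : T.src a₀ ∈ K := by rw [← hb0]; exact (hbv 0 (Nat.zero_le _)).1
  have hK1 : T.src a₁ ∈ K := by rw [← hbn]; exact (hbv _ le_rfl).1
  have hbpos : 0 < b.n := by
    by_contra h
    have h' : b.n = 0 := by omega
    apply hne
    rw [← hb0, ← hbn, h']
  have hs1 : T.src (T.opp a₁) = w.v w.n := by rw [T.src_opp', hwn]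
  have hn1 : T.tgt (T.opp a₁) ∉ w.verts := by
    rw [T.tgt_opp]
    intro h
    have h' := (hwc _ h).2
    rw [h1.1] at h'
    exact Bool.noConfusion h'
  have ht2 : T.tgt a₀ = (w.snoc (T.opp a₁) hs1 hn1).v 0 := by
    show T.tgt a₀ = (if 0 ≤ w.n then w.v 0 else T.tgt (T.opp a₁))
    rw [if_pos (Nat.zero_le _), hw0]
  have hn2 : T.src a₀ ∉ (w.snoc (T.opp a₁) hs1 hn1).verts := by
    rw [pvld_snoc_verts]
    rintro (h | h)
    · have h' := (hwc _ h).2
      rw [h0.1] at h'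
      exact Bool.noConfusion h'
    · rw [Set.mem_singleton_iff, T.tgt_opp] at h
      exact hne h
  obtain ⟨P, hP⟩ : ∃ P : T.Pth, P = pvldCons (w.snoc (T.opp a₁) hs1 hn1) a₀ ht2 hn2 := ⟨_, rfl⟩
  have hPn : P.n = w.n + 2 := by rw [hP]; rfl
  have hPv0 : P.v 0 = T.src a₀ := by rw [hP]; rfl
  have hPvw : ∀ k, 1 ≤ k → k ≤ w.n + 1 → P.v k = w.v (k - 1) := by
    intro k hk1 hk2
    rw [hP]
    show (if k = 0 then T.src a₀ else (if k - 1 ≤ w.n then w.v (k - 1) else T.tgt (T.opp a₁))) = w.v (k - 1)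
    rw [if_neg (by omega), if_pos (by omega)]
  have hPvn : P.v (w.n + 2) = T.src a₁ := by
    rw [hP]
    show (if w.n + 2 = 0 then T.src a₀ else (if w.n + 2 - 1 ≤ w.n then w.v (w.n + 2 - 1) else T.tgt (T.opp a₁))) = T.src a₁
    rw [if_neg (by omega), if_neg (by omega), T.tgt_opp]
  have hPe0 : P.e 0 = a₀ := by rw [hP]; rfl
  have hPem : P.e (w.n + 1) = T.opp a₁ := by
    rw [hP]
    show (if w.n + 1 = 0 then a₀ else (if w.n + 1 - 1 < w.n then w.e (w.n + 1 - 1) else T.opp a₁)) = T.opp a₁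
    rw [if_neg (by omega), if_neg (by omega)]
  have hPverts : P.verts = {T.src a₀} ∪ (w.verts ∪ {T.src a₁}) := by
    rw [hP, pvld_cons_verts, pvld_snoc_verts, T.tgt_opp]
  have hPdarts : P.darts = {a₀} ∪ (w.darts ∪ {T.opp a₁}) := by
    rw [hP, pvld_cons_darts, pvld_snoc_darts]
  have hrv : ∀ k, b.rev.v k = b.v (b.n - k) := fun k => rfl
  have hrn : b.rev.n = b.n := rfl
  have hG : P.Glue b.rev := by
    refine ⟨?_, ?_, ?_, ?_⟩
    · rw [hPn, hPvn, hrv, Nat.sub_zero, hbn]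
    · rw [hrn, hrv, Nat.sub_self, hb0, hPv0]
    · rw [hPn, hrn]; omega
    · intro i j hi hj hij
      rw [hPn] at hi
      rw [hrn] at hj
      rw [hrv] at hij
      by_cases e0 : i = 0
      · right
        subst e0
        rw [hPv0, ← hb0] at hij
        have := b.inj _ _ (Nat.zero_le _) (by omega) hij
        exact ⟨rfl, by rw [hrn]; omega⟩
      by_cases e1 : i = w.n + 2
      · left
        subst e1
        rw [hPvn, ← hbn] at hij
        have := b.inj _ _ le_rfl (by omega) hij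
        exact ⟨hPn.symm, by omega⟩
      exfalso
      rw [hPvw i (by omega) (by omega)] at hij
      have h1' := (hwv (i - 1) (by omega)).2
      rw [hij, (hbv _ (by omega)).2] at h1'
      exact Bool.noConfusion h1'
  refine ⟨P.glue b.rev hG, w.n + 1, by omega, ?_, ?_, ?_, ?_, ?_, ?_, ?_⟩
  · rw [pl_pth_glue_n, hPn]; omega
  · rw [pl_pth_glue_e1 P b.rev hG (by omega), hPe0]
  · rw [pl_pth_glue_e1 P b.rev hG (by omega), hPem]
  · intro k hk1 hk2
    rw [pl_pth_glue_src1 P b.rev hG (by omega), hPvw k hk1 hk2]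
    exact (hwv _ (by omega)).2
  · intro k hk1 hk2
    rw [pl_pth_glue_n, hPn, hrn] at hk2
    obtain ⟨l, rfl⟩ : ∃ l, k = P.n + l := ⟨k - P.n, by omega⟩
    rw [pl_pth_glue_src2 P b.rev hG (by rw [hrn]; omega), hrv]
    exact (hbv _ (by omega)).2
  · rw [pl_pth_glue_verts, hPverts, pl_pth_rev_verts]
    rintro x ((h | h | h) | h)
    · rw [Set.mem_singleton_iff.1 h]; exact hK0
    · exact (hwc x h).1
    · rw [Set.mem_singleton_iff.1 h]; exact hK1
    · exact (hbc x h).1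
  · intro i
    have hmem : (P.glue b.rev hG).e i ∈ (P.glue b.rev hG).darts := ⟨i, rfl⟩
    rw [pl_pth_glue_darts, hPdarts] at hmem
    rcases hmem with (h | h | h) | h
    · rw [Set.mem_singleton_iff.1 h]; exact hA0
    · obtain ⟨k, hk, e⟩ := h
      rw [← e]; exact hwA k hk
    · rw [Set.mem_singleton_iff.1 h, T.opp_opp]; exact hA1.symm
    · obtain ⟨k, hk, e⟩ := h
      rw [← e]; exact pl_pth_rev_in b hbA k hk

/-- **THE TRAP INSIDE A GATE**: a black join of `g^±` and a white join of the two feet on the right arc, in the closed inside, through `K` -/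
theorem pvzo_trap (hT : T.IsSph) {s : V → Bool} (g : T.Gate s) (hfin : g.c.Left.Finite) {K : Set V}
    (hB : T.Join g.c.Left (pvldCol s K true) g.vm g.vp) (hW : T.Join g.c.Left (pvldCol s K false) (T.tgt g.aIn) (T.tgt g.aOut)) :
    g.Thru ∧ ∃ c₁ : T.Cyc, c₁.verts ⊆ K ∧ c₁.Left ⊆ g.c.Left ∧ (∀ i, i < g.len → pvasIt T s g.aIn i ∈ c₁.Left) ∧ pvasFc T s g.aIn g.len ⊆ c₁.Left ∧
      g.bank ⊆ T.VOf c₁.Left ∧ g.wbank ⊆ T.VOf c₁.Left := by
  obtain ⟨hR, hL, hRo, -⟩ := pl_jordan hT g.c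
  have hm := g.hm
  have hOutL : T.opp g.aOut ∈ g.c.Left := by
    show T.opp (T.opp (g.c.e (g.m - 1))) ∈ g.c.Left
    rw [T.opp_opp]; exact hL _
  have hOutN : g.aOut ∉ g.c.Left := by
    have h := hRo (g.m - 1)
    rw [hR] at h
    exact h
  have hB' : T.Join g.c.Left (pvldCol s K true) (T.src g.aIn) (T.src g.aOut) := by rw [pvtg_aIn_src, pvtg_aOut_src]; exact hB
  obtain ⟨c₁, m, hm0, hmn, e0, em, hw, hb, hcK, hdr⟩ := pvzo_cyc (pvtg_aIn_bw g) (pvtg_aOut_bw g) (by rw [pvtg_aIn_src, pvtg_aOut_src]; exact pvtg_ne g)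
    (Or.inl (hL 0)) (Or.inr hOutL) hB' hW
  have hsub : c₁.Left ⊆ g.c.Left := (pl_cc_nested hT g.c c₁ hdr (k := 0) (l := 0) e0).1
  obtain ⟨N, hN1, hNin, hNe⟩ := pvld_trap hT c₁ (hfin.subset hsub) hm0 hmn hw hb
  rw [e0] at hNin hNe
  rw [em, T.opp_opp] at hNe
  have hlen : g.len = N := pvas_hit_eq (by rw [hNe]; exact hOutN) fun i hi h => h (hsub (hNin i hi))
  have hfc : pvasFc T s g.aIn g.len ⊆ c₁.Left := by rw [hlen]; exact pvas_fc_sub (pl_left_face c₁) hNin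
  have hv : g.bank ∪ g.wbank ⊆ T.VOf c₁.Left := by
    have e := pvas_fc_verts (T := T) s g.aIn (n := g.len) (by rw [hlen]; exact hN1)
    show pvasLayB T s g.aIn g.len ∪ pvasLayW T s g.aIn g.len ⊆ _
    rw [← e]
    rintro v ⟨d, hd, rfl⟩
    exact ⟨d, hfc hd, rfl⟩
  refine ⟨?_, c₁, hcK, hsub, by rw [hlen]; exact hNin, hfc, fun v h => hv (Or.inl h), fun v h => hv (Or.inr h)⟩
  show pvasIt T s g.aIn (pvasHit T s g.aIn g.c.Leftᶜ) = g.aOut
  have : pvasHit T s g.aIn g.c.Leftᶜ = N := hlen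
  rw [this, hNe]

end Claimed.Agent.R289
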