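-- KEEP
import Claimed.Agent.R289.Tr.BandFit

/-!
# Row 289 (S0537), WB3 = FIT, file Tr/BandGeo : THE CORRIDOR OF (COR) IS A GEODESIC: IT MEETS EACH WHISKER IN ONE RUN      (helper217; prefix `pvbl_`, `Pvbl`; continues `Tr/Band`, `Tr/BandFit` of helper20)

WHY (F-13 of 217, 11:59Z).   `PvfeLk` (FitReg v5 of 209) asks that the tube of the MIDDLE cells misses the fattened hulls ALTOGETHER.   The outputs of `pvtb_fit_mouth_pl` (`PvtbCor`, `f0 f1 fn fn1`, `cl`) do not give it: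
`cl` excuses EVERY cell of a whisker, and a `PvtbCor` may leave its whisker and come back to it higher up.   But the corridor of `pvtb_cor_exists` is a GEODESIC of `U = (Box \ Obs) ∪ Wh_t ∪ Wh_s`, and a geodesic which starts at the foot of a straight
whisker `⊆ U` meets it in ONE INITIAL RUN.
* sec. 1  `PvblPath U x y k` (paths of length `k` in `U`), `PvblGeo U n c` (no shortcut between two cells of the chain), `pvbl_cor_exists` = `pvtb_cor_exists` + `PvblGeo`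
* sec. 2  `pvbl_run` : a geodesic from the foot of a whisker: `c i ∈ Wh p d l → ∀ b ≤ i, c b = p + b d`;   `pvbl_geo_rev`
* sec. 3  `pvbl_fit_door`, `pvbl_fit_mouth`, **`pvbl_fit_mouth_pl`** = the three theorems of 20 VERBATIM + the two clauses
      `runT : ∀ i ≤ n + 1, f i ∈ pvtbWh pt dt lt → ∀ b ≤ i, f b = pt + b dt`,      `runS : ∀ i ≤ n + 1, f i ∈ pvtbWh ps ds ls → ∀ b, i ≤ b → b ≤ n + 1 → f b = ps + (n + 1 - b) ds`
STATUS: SECOND ROPE.   92 (`Tr/CorLk`, `pvdo_lk`) proves `PvfeLk` from `cl` + two geometric hypotheses on the whiskers; this file gives the same without them (purely combinatorial).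
-/

set_option autoImplicit false

namespace Claimed.Agent.R289

open Relation Claims.C0467 Claimed.Agent.R291

/-! ### 1. paths, geodesics -/

/-- a path of length `k` inside `U` -/
def PvblPath (U : Set (ℤ × ℤ)) (x y : ℤ × ℤ) (k : ℕ) : Prop := ∃ g : ℕ → ℤ × ℤ, g 0 = x ∧ g k = y ∧ ∀ i, i < k → TscStep pvtbG4 U (g i) (g (i + 1))

/-- no shortcut inside `U` between two cells of the chain -/
def PvblGeo (U : Set (ℤ × ℤ)) (n : ℕ) (c : ℕ → ℤ × ℤ) : Prop := ∀ i j, i ≤ j → j ≤ n → ∀ k, PvblPath U (c i) (c j) k → j ≤ i + k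

theorem pvbl_eqns_cite : True := by
  have := @PvblPath.eq_1; have := @PvblGeo.eq_1
  trivial

theorem pvbl_path_trans {U : Set (ℤ × ℤ)} {x y z : ℤ × ℤ} {k l : ℕ} (h1 : PvblPath U x y k) (h2 : PvblPath U y z l) : PvblPath U x z (k + l) := by
  obtain ⟨g, g0, gl, gs⟩ := h2
  have key : ∀ m, m ≤ l → PvblPath U x (g m) (k + m) := by
    intro m
    induction m with
    | zero => intro _; rw [g0]; exact h1
    | succ m ih => intro hm; exact pvtb_ce_snoc (ih (by omega)) (gs m (by omega))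
  rw [← gl]
  exact key l le_rfl

theorem pvbl_path_symm {U : Set (ℤ × ℤ)} {x y : ℤ × ℤ} {k : ℕ} (h : PvblPath U x y k) : PvblPath U y x k := by
  obtain ⟨g, g0, gk, gs⟩ := h
  refine ⟨fun i => g (k - i), by simpa using gk, by simpa using g0, fun i hi => ?_⟩
  have := gs (k - (i + 1)) (by omega)
  rw [show k - (i + 1) + 1 = k - i by omega] at this
  exact ⟨this.1.symm, this.2.2, this.2.1⟩

/-- **EXISTENCE, WITH THE GEODESIC PROPERTY** -/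
theorem pvbl_cor_exists {U : Set (ℤ × ℤ)} (hU : PvtbWC U) {a b : ℤ × ℤ} (ha : a ∈ U) (h : TscR pvtbG4 U a b) :
    ∃ (n : ℕ) (c : ℕ → ℤ × ℤ), PvtbCor n c ∧ c 0 = a ∧ c n = b ∧ (∀ i, i ≤ n → c i ∈ U) ∧ PvblGeo U n c := by
  classical
  have hex : ∃ k, ∃ f : ℕ → ℤ × ℤ, f 0 = a ∧ f k = b ∧ ∀ i, i < k → TscStep pvtbG4 U (f i) (f (i + 1)) := by
    induction h with
    | refl => exact ⟨0, fun _ => a, rfl, rfl, fun i hi => absurd hi (by omega)⟩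
    | tail _ h2 ih =>
      obtain ⟨k, hk⟩ := ih
      exact ⟨k + 1, pvtb_ce_snoc hk h2⟩
  obtain ⟨c, c0, cn, cs, cm⟩ := pvtb_ce_geo (Nat.find hex) b (Nat.find_spec hex) (fun k hk => Nat.find_min' hex hk)
  set n := Nat.find hex with hn
  have hmem : ∀ i, i ≤ n → c i ∈ U := by
    intro i hi
    rcases (by omega : i < n ∨ i = n) with hlt | hin
    · exact (cs i hlt).2.1
    · rcases Nat.eq_zero_or_pos i with e | hpos
      · rw [e, c0]; exact ha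
      · have := (cs (i - 1) (by omega)).2.2
        rwa [show i - 1 + 1 = i by omega] at this
  have hre : ∀ i, i ≤ n → ∃ f : ℕ → ℤ × ℤ, f 0 = a ∧ f i = c i ∧ ∀ l, l < i → TscStep pvtbG4 U (f l) (f (l + 1)) :=
    fun i hi => ⟨c, c0, rfl, fun l hl => cs l (by omega)⟩
  refine ⟨n, c, ⟨fun i hi => (cs i hi).1, fun i hi e => ?_, fun i j hij hj => ⟨fun e => ?_, fun e => ?_⟩⟩, c0, cn, hmem, fun i j hij hj k hk => ?_⟩
  · have := cm (i + 2) hi i (by rw [e]; exact hre i (by omega))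
    omega
  · have := cm j hj i (by rw [← e]; exact hre i (by omega))
    omega
  · rcases pvtb_wc_step hU (hmem i (by omega)) (hmem j hj) e with h4 | ⟨m, hm, h1, h2⟩
    · have := cm j hj (i + 1) (pvtb_ce_snoc (hre i (by omega)) ⟨h4, hmem i (by omega), hmem j hj⟩)
      omega
    · have := cm j hj (i + 1 + 1) (pvtb_ce_snoc (pvtb_ce_snoc (hre i (by omega)) ⟨h1, hmem i (by omega), hm⟩) ⟨h2, hm, hmem j hj⟩)
      omega
  · exact cm j hj (i + k) (pvbl_path_trans (hre i (by omega)) hk)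

theorem pvbl_geo_rev {U : Set (ℤ × ℤ)} {n : ℕ} {c : ℕ → ℤ × ℤ} (h : PvblGeo U n c) : PvblGeo U n (fun i => c (n - i)) := by
  intro i j hij hj k hk
  have := h (n - j) (n - i) (by omega) (by omega) k (pvbl_path_symm hk)
  omega

/-! ### 2. a geodesic from the foot of a whisker -/

/-- the whisker is a path -/
theorem pvbl_wh_path {U : Set (ℤ × ℤ)} {p d : ℤ × ℤ} (hd : d = (1, 0) ∨ d = (-1, 0) ∨ d = (0, 1) ∨ d = (0, -1)) {l : ℕ} (hW : pvtbWh p d l ⊆ U) {a : ℕ} (ha : a ≤ l) :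
    PvblPath U p (p + (a : ℤ) • d) a := by
  refine ⟨fun i => p + (i : ℤ) • d, by simp, rfl, fun i hi => ⟨?_, hW (pvtb_wh_mem p d (by omega)), hW (pvtb_wh_mem p d (by omega))⟩⟩
  rw [pvtb_G4_adj]
  rcases hd with rfl | rfl | rfl | rfl <;> simp <;> omega

/-- **ONE INITIAL RUN** -/
theorem pvbl_run {U : Set (ℤ × ℤ)} {n : ℕ} {c : ℕ → ℤ × ℤ} (h : PvtbCor n c) (hg : PvblGeo U n c) {p d : ℤ × ℤ} (hd : d = (1, 0) ∨ d = (-1, 0) ∨ d = (0, 1) ∨ d = (0, -1)) {l : ℕ}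
    (hW : pvtbWh p d l ⊆ U) (c0 : c 0 = p) {i : ℕ} (hi : i ≤ n) (hc : c i ∈ pvtbWh p d l) : ∀ b, b ≤ i → c b = p + (b : ℤ) • d := by
  obtain ⟨a, ha, e⟩ := hc
  have hia : i ≤ a := by
    have := hg 0 i (Nat.zero_le _) hi a (by rw [c0, e]; exact pvbl_wh_path hd hW ha)
    omega
  -- the height function
  obtain ⟨φ, hφ⟩ : ∃ φ : ℤ × ℤ → ℤ, ∀ v, φ v = v.1 * d.1 + v.2 * d.2 := ⟨_, fun _ => rfl⟩
  have step : ∀ b, b < n → φ (c (b + 1)) ≤ φ (c b) + 1 ∧ (φ (c (b + 1)) = φ (c b) + 1 → c (b + 1) = c b + d) := by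
    intro b hb
    have h1 := (pvtb_G4_adj _ _).1 (h.step b hb)
    rw [hφ, hφ]
    rcases hd with rfl | rfl | rfl | rfl
    all_goals
      refine ⟨by simp only []; omega, fun h2 => Prod.ext ?_ ?_⟩ <;> simp only [Prod.fst_add, Prod.snd_add] at h2 ⊢ <;> omega
  have up : ∀ b, b ≤ i → φ (c b) ≤ φ p + b := by
    intro b
    induction b with
    | zero => intro _; rw [c0]; simp
    | succ b ih =>
      intro hb
      have := (step b (by omega)).1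
      have := ih (by omega)
      push_cast
      omega
  have down : ∀ m, m ≤ i → φ (c i) ≤ φ (c (i - m)) + m := by
    intro m
    induction m with
    | zero => intro _; simp
    | succ m ih =>
      intro hm
      have h1 := (step (i - (m + 1)) (by omega)).1
      rw [show i - (m + 1) + 1 = i - m by omega] at h1
      have := ih (by omega)
      push_cast
      omega
  have top : φ (c i) = φ p + a := by
    rw [e, hφ, hφ]
    rcases hd with rfl | rfl | rfl | rfl <;> simp <;> ring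
  have eq : ∀ b, b ≤ i → φ (c b) = φ p + b := by
    intro b hb
    have h1 := up b hb
    have h2 := down (i - b) (by omega)
    rw [show i - (i - b) = b by omega] at h2
    have h3 : ((i - b : ℕ) : ℤ) = (i : ℤ) - b := by omega
    have h4 : (i : ℤ) ≤ a := by exact_mod_cast hia
    omega
  intro b
  induction b with
  | zero => intro _; rw [c0]; simp
  | succ b ih =>
    intro hb
    have h1 := (step b (by omega)).2 (by rw [eq (b + 1) hb, eq b (by omega)]; push_cast; ring)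
    rw [h1, ih (by omega)]
    ext <;> simp <;> ring

/-! ### 3. the three theorems of 20, with the two runs -/

/-- `pvtb_fit_door` + the two runs -/
theorem pvbl_fit_door {j : ℕ} {E : Set (ℤ × ℤ)} {a b c d a' b' c' d' : ℤ} (hE : E ⊆ tscBox a b c d) (ha : a' + j + 4 ≤ a) (hb : b + j + 4 ≤ b') (hc : c' + j + 4 ≤ c) (hd : d + j + 4 ≤ d')
    {pt dt ps ds : ℤ × ℤ} {lt ls : ℕ} (hdt : dt = (1, 0) ∨ dt = (-1, 0) ∨ dt = (0, 1) ∨ dt = (0, -1)) (hds : ds = (1, 0) ∨ ds = (-1, 0) ∨ ds = (0, 1) ∨ ds = (0, -1))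
    (ft : pt ∈ pvtwN j E) (fs : ps ∈ pvtwN j E)
    (ht : pt + (lt : ℤ) • dt ∈ pvtOut (pvtwN (j + 5) E)) (hs : ps + (ls : ℤ) • ds ∈ pvtOut (pvtwN (j + 5) E))
    (bt : pt + (lt : ℤ) • dt ∈ tscBox a' b' c' d') (bs : ps + (ls : ℤ) • ds ∈ tscBox a' b' c' d')
    (apart : ∀ u ∈ pvtbWh pt dt lt, ∀ v ∈ pvtbWh ps ds ls, u ≠ v ∧ ¬ pvtbG8.Adj u v) :
    ∃ (n : ℕ) (f : ℕ → ℤ × ℤ), PvtbCor n f ∧ 2 ≤ n ∧ f 0 = pt ∧ f 1 = pt + dt ∧ f (n - 1) = ps + ds ∧ f n = ps ∧ (∀ i, i ≤ n → f i ∈ tscBox a' b' c' d') ∧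
      (∀ i, i ≤ n → f i ∈ pvtbWh pt dt lt ∨ f i ∈ pvtbWh ps ds ls ∨ f i ∉ pvtwN (j + 1) E) ∧ (n : ℤ) + 1 ≤ (b' - a' + 1) * (d' - c' + 1) ∧
      (∀ i, i ≤ n → f i ∈ pvtbWh pt dt lt → ∀ b, b ≤ i → f b = pt + (b : ℤ) • dt) ∧ (∀ i, i ≤ n → f i ∈ pvtbWh ps ds ls → ∀ b, i ≤ b → b ≤ n → f b = ps + ((n - b : ℕ) : ℤ) • ds) := by
  have hfin : E.Finite := (tsc_box_finite a b c d).subset hE
  have hX := pvtb_fit_X hE ha hb hc hd
  set U0 : Set (ℤ × ℤ) := tscBox a' b' c' d' \ pvtbObs j E with hU0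
  have hwc0 : PvtbWC U0 := pvtb_free_wc hX (pvtb_obs_wc j E)
  have hcn0 : TscConn pvtbG4 U0 := pvtb_free_conn hX (pvtb_obs_compl_conn hfin)
  have mt : pt + (lt : ℤ) • dt ∈ U0 := ⟨bt, pvtb_obs_out ht⟩
  have ms : ps + (ls : ℤ) • ds ∈ U0 := ⟨bs, pvtb_obs_out hs⟩
  have inbox : ∀ p ∈ pvtwN j E, p ∈ tscBox a' b' c' d' := by
    intro p hp
    obtain ⟨h1, h2, h3, h4⟩ := pvtw_N_box hE hp
    exact ⟨by omega, by omega, by omega, by omega⟩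
  have wt : pvtbWh pt dt lt ⊆ tscBox a' b' c' d' := pvtb_wh_box hdt (inbox pt ft) bt
  have ws : pvtbWh ps ds ls ⊆ tscBox a' b' c' d' := pvtb_wh_box hds (inbox ps fs) bs
  have foot_t : ∀ v, pvtbG8.Adj pt v → v ∉ U0 := fun v hv h => h.2 (pvtb_obs_nb ft hv)
  have foot_s0 : ∀ v, pvtbG8.Adj ps v → v ∉ U0 := fun v hv h => h.2 (pvtb_obs_nb fs hv)
  have hwc1 : PvtbWC (U0 ∪ pvtbWh pt dt lt) := pvtb_wh_wc hwc0 hdt foot_t mt
  have foot_s : ∀ v, pvtbG8.Adj ps v → v ∉ U0 ∪ pvtbWh pt dt lt := by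
    rintro v hv (h | h)
    · exact foot_s0 v hv h
    · exact (apart v h ps (pvtb_wh_foot ps ds ls)).2 hv.symm
  have hwc2 : PvtbWC (U0 ∪ pvtbWh pt dt lt ∪ pvtbWh ps ds ls) := pvtb_wh_wc hwc1 hds foot_s (Or.inl ms)
  have hR : TscR pvtbG4 (U0 ∪ pvtbWh pt dt lt ∪ pvtbWh ps ds ls) pt ps := by
    refine tsc_R_trans (tsc_R_mono (s := pvtbWh pt dt lt) (fun v hv => Or.inl (Or.inr hv)) (pvtb_wh_conn pt hdt lt pt (pvtb_wh_foot pt dt lt) _ (pvtb_wh_mem pt dt le_rfl))) ?_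
    refine tsc_R_trans (tsc_R_mono (s := U0) (fun v hv => Or.inl (Or.inl hv)) (hcn0 _ mt _ ms)) ?_
    exact tsc_R_mono (s := pvtbWh ps ds ls) (fun v hv => Or.inr hv) (pvtb_wh_conn ps hds ls _ (pvtb_wh_mem ps ds le_rfl) ps (pvtb_wh_foot ps ds ls))
  obtain ⟨n, f, hf, f0, fn, hU, hgeo⟩ := pvbl_cor_exists hwc2 (Or.inl (Or.inr (pvtb_wh_foot pt dt lt))) hR
  have hap := apart pt (pvtb_wh_foot pt dt lt) ps (pvtb_wh_foot ps ds ls)
  have hn : 2 ≤ n := by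
    by_contra hlt
    have : n = 0 ∨ n = 1 := by omega
    rcases this with rfl | rfl
    · exact hap.1 (f0.symm.trans fn)
    · have := hf.step 0 (by omega)
      rw [f0, zero_add, fn] at this
      exact hap.2 (pvtb_G4_G8 this)
  have hbox : ∀ i, i ≤ n → f i ∈ tscBox a' b' c' d' := by
    intro i hi
    rcases hU i hi with (h | h) | h
    · exact h.1
    · exact wt h
    · exact ws h
  refine ⟨n, f, hf, hn, f0, ?_, ?_, fn, hbox, fun i hi => ?_, pvtb_cor_len hf hbox, fun i hi hw => pvbl_run hf hgeo hdt (fun v hv => Or.inl (Or.inr hv)) f0 hi hw, fun i hi hw b hib hbn => ?_⟩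
  · have h1 := hf.step 0 (by omega)
    rw [f0, zero_add] at h1
    rcases hU 1 (by omega) with (h | h) | h
    · exact absurd h (foot_t _ (pvtb_G4_G8 h1))
    · exact pvtb_wh_next hdt h h1
    · exact absurd (pvtb_G4_G8 h1) (apart pt (pvtb_wh_foot pt dt lt) _ h).2
  · have h1 := hf.step (n - 1) (by omega)
    rw [show n - 1 + 1 = n by omega, fn] at h1
    rcases hU (n - 1) (by omega) with (h | h) | h
    · exact absurd h (foot_s0 _ (pvtb_G4_G8 h1.symm))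
    · exact absurd (pvtb_G4_G8 h1) (apart _ h ps (pvtb_wh_foot ps ds ls)).2
    · exact pvtb_wh_next hds h h1.symm
  · rcases hU i hi with (h | h) | h
    · exact Or.inr (Or.inr fun hh => h.2 (pvtb_obs_sup j E hh))
    · exact Or.inl h
    · exact Or.inr (Or.inl h)
  · have := pvbl_run (pvtb_cor_rev hf) (pvbl_geo_rev hgeo) hds (l := ls) (fun v hv => Or.inr hv) (by simpa using fn) (i := n - i) (by omega) (by rw [show n - (n - i) = i by omega]; exact hw) (n - b) (by omega)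
    rwa [show n - (n - b) = b by omega] at this

/-- `pvtb_fit_mouth` + the two runs -/
theorem pvbl_fit_mouth {j : ℕ} {E Mt Ms St Ss : Set (ℤ × ℤ)} {a b c d a' b' c' d' : ℤ} (hE : E ∪ Mt ∪ Ms ⊆ tscBox a b c d) (ha : a' + j + 4 ≤ a) (hb : b + j + 4 ≤ b') (hc : c' + j + 4 ≤ c) (hd : d + j + 4 ≤ d')
    (hSt : St ⊆ E) (hSs : Ss ⊆ E) (cSt : TscConn tscG St) (cSs : TscConn tscG Ss)
    (near_t : ∀ e ∈ E, e ∈ pvtwN (2 * (j + 5) + 1) Mt → e ∈ St) (near_s : ∀ e ∈ E, e ∈ pvtwN (2 * (j + 5) + 1) Ms → e ∈ Ss) (far : ∀ e ∈ Mt, e ∉ pvtwN (2 * (j + 5) + 1) Ms)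
    {at' bt' ct' dt' as' bs' cs' ds' : ℤ} (box_t : pvtwN (j + 5) (St ∪ Mt) ⊆ tscBox at' bt' ct' dt') (box_s : pvtwN (j + 5) (Ss ∪ Ms) ⊆ tscBox as' bs' cs' ds')
    {pt dt ps ds : ℤ × ℤ} {lt ls : ℕ} (hdt : dt = (1, 0) ∨ dt = (-1, 0) ∨ dt = (0, 1) ∨ dt = (0, -1)) (hds : ds = (1, 0) ∨ ds = (-1, 0) ∨ ds = (0, 1) ∨ ds = (0, -1))
    (ft : pt ∈ Mt) (fs : ps ∈ Ms)
    (ztt : pt + (lt : ℤ) • dt ∉ tscBox at' bt' ct' dt') (zts : pt + (lt : ℤ) • dt ∉ tscBox as' bs' cs' ds')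
    (zst : ps + (ls : ℤ) • ds ∉ tscBox at' bt' ct' dt') (zss : ps + (ls : ℤ) • ds ∉ tscBox as' bs' cs' ds')
    (ht : pt + (lt : ℤ) • dt ∈ pvtOut (pvtwN (j + 5) E)) (hs : ps + (ls : ℤ) • ds ∈ pvtOut (pvtwN (j + 5) E))
    (bt : pt + (lt : ℤ) • dt ∈ tscBox a' b' c' d') (bs : ps + (ls : ℤ) • ds ∈ tscBox a' b' c' d')
    (apart : ∀ u ∈ pvtbWh pt dt lt, ∀ v ∈ pvtbWh ps ds ls, u ≠ v ∧ ¬ pvtbG8.Adj u v) :
    ∃ (n : ℕ) (f : ℕ → ℤ × ℤ), PvtbCor n f ∧ 2 ≤ n ∧ f 0 = pt ∧ f 1 = pt + dt ∧ f (n - 1) = ps + ds ∧ f n = ps ∧ (∀ i, i ≤ n → f i ∈ tscBox a' b' c' d') ∧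
      (∀ i, i ≤ n → f i ∈ pvtbWh pt dt lt ∨ f i ∈ pvtbWh ps ds ls ∨ f i ∉ pvtwN (j + 1) (E ∪ Mt ∪ Ms)) ∧ (n : ℤ) + 1 ≤ (b' - a' + 1) * (d' - c' + 1) ∧
      (∀ i, i ≤ n → f i ∈ pvtbWh pt dt lt → ∀ b, b ≤ i → f b = pt + (b : ℤ) • dt) ∧ (∀ i, i ≤ n → f i ∈ pvtbWh ps ds ls → ∀ b, i ≤ b → b ≤ n → f b = ps + ((n - b : ℕ) : ℤ) • ds) := by
  have fin : (E ∪ Mt ∪ Ms).Finite := (tsc_box_finite a b c d).subset hE
  have fE : E.Finite := fin.subset (fun x hx => Or.inl (Or.inl hx))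
  have fMt : Mt.Finite := fin.subset (fun x hx => Or.inl (Or.inr hx))
  have fMs : Ms.Finite := fin.subset (fun x hx => Or.inr hx)
  have near_s' : ∀ e ∈ E ∪ Mt, e ∈ pvtwN (2 * (j + 5) + 1) Ms → e ∈ Ss := by
    rintro e (he | he) h
    · exact near_s e he h
    · exact absurd h (far e he)
  have acc : ∀ z, z ∉ tscBox at' bt' ct' dt' → z ∉ tscBox as' bs' cs' ds' → z ∈ pvtOut (pvtwN (j + 5) E) → z ∈ pvtOut (pvtwN (j + 5) (E ∪ Mt ∪ Ms)) := by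
    intro z h1 h2 h3
    exact pvtb_fit_chamber (fE.union fMt) fMs (hSs.trans Set.subset_union_left) cSs near_s' box_s h2 (pvtb_fit_chamber fE fMt hSt cSt near_t box_t h1 h3)
  exact pvbl_fit_door hE ha hb hc hd hdt hds (pvtw_N_sub (Or.inl (Or.inr ft))) (pvtw_N_sub (Or.inr fs)) (acc _ ztt zts ht) (acc _ zst zss hs) bt bs apart

/-- **(COR) OF RECORD, PLANE HYPOTHESES** = `pvtb_fit_mouth_pl` of 20 VERBATIM + the two runs + the whiskers are apart -/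
theorem pvbl_fit_mouth_pl {δ : ℝ} (hδ : 0 < δ) {j : ℕ} {K Kt Ks : Set ℂ} {x yt ys : ℂ} {ρ1 rM rP : ℝ}
    (hK : ∀ p ∈ K ∪ Metric.closedBall yt rM ∪ Metric.closedBall ys rM, |p.re - x.re| ≤ ρ1 ∧ |p.im - x.im| ≤ ρ1)
    (hKt : Kt ⊆ K) (hKs : Ks ⊆ K) (cKt : IsPreconnected Kt) (cKs : IsPreconnected Ks)
    (near_t : ∀ p ∈ K, ‖p - yt‖ ≤ rP → p ∈ Kt) (near_s : ∀ p ∈ K, ‖p - ys‖ ≤ rP → p ∈ Ks) (hrP : rM + (4 * ((j : ℝ) + 5) + 4) * δ ≤ rP)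
    {a1 b1 c1 d1 a2 b2 c2 d2 : ℝ} (rt : Kt ∪ Metric.closedBall yt rM ⊆ pvtcRect a1 b1 c1 d1) (rs : Ks ∪ Metric.closedBall ys rM ⊆ pvtcRect a2 b2 c2 d2)
    {pt dt ps ds : ℤ × ℤ} {lt ls : ℕ} (hdt : dt = (1, 0) ∨ dt = (-1, 0) ∨ dt = (0, 1) ∨ dt = (0, -1)) (hds : ds = (1, 0) ∨ ds = (-1, 0) ∨ ds = (0, 1) ∨ ds = (0, -1))
    (ft : (pvtSq δ pt ∩ Metric.closedBall yt rM).Nonempty) (fs : (pvtSq δ ps ∩ Metric.closedBall ys rM).Nonempty)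
    (hfar : 2 * rM + (2 * ((lt : ℝ) + ls) + 4 * ((j : ℝ) + 5) + 8) * δ < ‖yt - ys‖)
    (ztt : pvtCtr δ (pt + (lt : ℤ) • dt) ∉ pvtcRect (a1 - ((j : ℝ) + 7) * δ) (b1 + ((j : ℝ) + 7) * δ) (c1 - ((j : ℝ) + 7) * δ) (d1 + ((j : ℝ) + 7) * δ))
    (zts : pvtCtr δ (pt + (lt : ℤ) • dt) ∉ pvtcRect (a2 - ((j : ℝ) + 7) * δ) (b2 + ((j : ℝ) + 7) * δ) (c2 - ((j : ℝ) + 7) * δ) (d2 + ((j : ℝ) + 7) * δ))
    (zst : pvtCtr δ (ps + (ls : ℤ) • ds) ∉ pvtcRect (a1 - ((j : ℝ) + 7) * δ) (b1 + ((j : ℝ) + 7) * δ) (c1 - ((j : ℝ) + 7) * δ) (d1 + ((j : ℝ) + 7) * δ))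
    (zss : pvtCtr δ (ps + (ls : ℤ) • ds) ∉ pvtcRect (a2 - ((j : ℝ) + 7) * δ) (b2 + ((j : ℝ) + 7) * δ) (c2 - ((j : ℝ) + 7) * δ) (d2 + ((j : ℝ) + 7) * δ))
    (bt : |(pvtCtr δ (pt + (lt : ℤ) • dt)).re - x.re| ≤ ρ1 ∧ |(pvtCtr δ (pt + (lt : ℤ) • dt)).im - x.im| ≤ ρ1)
    (bs : |(pvtCtr δ (ps + (ls : ℤ) • ds)).re - x.re| ≤ ρ1 ∧ |(pvtCtr δ (ps + (ls : ℤ) • ds)).im - x.im| ≤ ρ1)
    (ht : pt + (lt : ℤ) • dt ∈ pvtOut (pvtwN (j + 5) (pvtCells δ K))) (hs : ps + (ls : ℤ) • ds ∈ pvtOut (pvtwN (j + 5) (pvtCells δ K))) :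
    ∃ (n : ℕ) (f : ℕ → ℤ × ℤ), PvtbCor (n + 1) f ∧ 1 ≤ n ∧ f 0 = pt ∧ f 1 = pt + dt ∧ f n = ps + ds ∧ f (n + 1) = ps ∧
      (∀ i, i ≤ n + 1 → ∀ w ∈ pvtSq δ (f i), |w.re - x.re| ≤ ρ1 + ((j : ℝ) + 6) * δ ∧ |w.im - x.im| ≤ ρ1 + ((j : ℝ) + 6) * δ) ∧
      (∀ i, i ≤ n + 1 → f i ∈ pvtbWh pt dt lt ∨ f i ∈ pvtbWh ps ds ls ∨ f i ∉ pvtwN (j + 1) (pvtCells δ (K ∪ Metric.closedBall yt rM ∪ Metric.closedBall ys rM))) ∧
      (∀ i, i ≤ n + 1 → f i ∈ pvtbWh pt dt lt → ∀ b, b ≤ i → f b = pt + (b : ℤ) • dt) ∧ (∀ i, i ≤ n + 1 → f i ∈ pvtbWh ps ds ls → ∀ b, i ≤ b → b ≤ n + 1 → f b = ps + ((n + 1 - b : ℕ) : ℤ) • ds) ∧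
      (∀ u ∈ pvtbWh pt dt lt, ∀ v ∈ pvtbWh ps ds ls, u ≠ v ∧ ¬ pvtbG8.Adj u v) := by
  have hk : ((j + 5 : ℕ) : ℝ) = (j : ℝ) + 5 := by push_cast; ring
  -- the big rectangle
  have hKr : K ∪ Metric.closedBall yt rM ∪ Metric.closedBall ys rM ⊆ pvtcRect (x.re - ρ1) (x.re + ρ1) (x.im - ρ1) (x.im + ρ1) := by
    intro p hp
    obtain ⟨h1, h2⟩ := hK p hp
    rw [abs_le] at h1 h2
    exact ⟨by linarith, by linarith, by linarith, by linarith⟩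
  have hE := pvtb_cells_rect hδ hKr
  rw [pvtb_cells_union, pvtb_cells_union] at hE
  have bddK : Bornology.IsBounded K := by
    refine (Metric.isBounded_closedBall (x := x) (r := 2 * ρ1)).subset fun p hp => ?_
    obtain ⟨h1, h2⟩ := hK p (Or.inl (Or.inl hp))
    rw [Metric.mem_closedBall, dist_eq_norm]
    have := Complex.norm_le_abs_re_add_abs_im (p - x)
    rw [Complex.sub_re, Complex.sub_im] at this
    linarith
  -- near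
  have near : ∀ (y : ℂ) (K' : Set ℂ), (∀ p ∈ K, ‖p - y‖ ≤ rP → p ∈ K') → ∀ e ∈ pvtCells δ K, e ∈ pvtwN (2 * (j + 5) + 1) (pvtCells δ (Metric.closedBall y rM)) → e ∈ pvtCells δ K' := by
    rintro y K' hn e ⟨p, hpe, hpK⟩ he
    obtain ⟨u, ⟨q, hqu, hq⟩, heu⟩ := pvtw_N_iff.1 he
    have h1 := pvtc_pl_sq_close hδ heu hqu hpe
    rw [Metric.mem_closedBall, dist_eq_norm] at hq
    refine ⟨p, hpe, hn p hpK ?_⟩
    have h2 : ‖p - y‖ ≤ ‖q - p‖ + ‖q - y‖ := by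
      have : p - y = (q - y) - (q - p) := by ring
      rw [this]; exact (norm_sub_le _ _).trans (by linarith)
    push_cast at h1
    nlinarith
  -- the two discs are far apart
  have far : ∀ e ∈ pvtCells δ (Metric.closedBall yt rM), e ∉ pvtwN (2 * (j + 5) + 1) (pvtCells δ (Metric.closedBall ys rM)) := by
    rintro e ⟨p, hpe, hp⟩ he
    obtain ⟨u, ⟨q, hqu, hq⟩, heu⟩ := pvtw_N_iff.1 he
    have h1 := pvtc_pl_sq_close hδ heu hqu hpe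
    rw [Metric.mem_closedBall, dist_eq_norm] at hp hq
    have h2 : ‖yt - ys‖ ≤ ‖p - yt‖ + ‖q - p‖ + ‖q - ys‖ := by
      have : yt - ys = (q - ys) - (q - p) - (p - yt) := by ring
      rw [this]
      exact (norm_sub_le _ _).trans (by have := norm_sub_le (q - ys) (q - p); linarith)
    push_cast at h1
    have l0 : (0 : ℝ) ≤ (lt : ℝ) + ls := by positivity
    nlinarith
  -- the whiskers are apart
  have apart : ∀ u ∈ pvtbWh pt dt lt, ∀ v ∈ pvtbWh ps ds ls, u ≠ v ∧ ¬ pvtbG8.Adj u v := by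
    intro u hu v hv
    have key : v ∉ pvtwN 1 {u} := by
      intro huv
      have h1 : ps ∈ pvtwN ls {v} := pvtw_N_symm (pvtb_wh_N hds hv)
      have h2 : ps ∈ pvtwN ls (pvtwN 1 (pvtwN lt {pt})) := pvtw_N_iff.2 ⟨v, pvtw_N_iff.2 ⟨u, pvtb_wh_N hdt hu, huv⟩, h1⟩
      rw [pvtw_N_add, pvtw_N_add] at h2
      obtain ⟨p, hp1, hp2⟩ := ft
      obtain ⟨q, hq1, hq2⟩ := fs
      have h3 := pvtc_pl_sq_close hδ h2 hp1 hq1
      rw [Metric.mem_closedBall, dist_eq_norm] at hp2 hq2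
      have h4 : ‖yt - ys‖ ≤ ‖p - yt‖ + ‖p - q‖ + ‖q - ys‖ := by
        have : yt - ys = (q - ys) + (p - q) - (p - yt) := by ring
        rw [this]
        exact (norm_sub_le _ _).trans (by have := norm_add_le (q - ys) (p - q); linarith)
      push_cast at h3
      have j0 : (0 : ℝ) ≤ (j : ℝ) := by positivity
      nlinarith
    refine ⟨fun e => key ⟨u, rfl, by rw [e]; omega, by rw [e]; omega, by rw [e]; omega, by rw [e]; omega⟩, fun e => ?_⟩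
    obtain ⟨_, e1, e2, e3, e4⟩ := e
    exact key ⟨u, rfl, by push_cast; omega, by push_cast; omega, by push_cast; omega, by push_cast; omega⟩
  -- the small boxes
  have box : ∀ (S : Set ℂ) (y : ℂ) (a b c d : ℝ), S ∪ Metric.closedBall y rM ⊆ pvtcRect a b c d →
      pvtwN (j + 5) (pvtCells δ S ∪ pvtCells δ (Metric.closedBall y rM)) ⊆ tscBox (⌈a / δ⌉ - 1 - (j + 5 : ℕ)) (⌊b / δ⌋ + (j + 5 : ℕ)) (⌈c / δ⌉ - 1 - (j + 5 : ℕ)) (⌊d / δ⌋ + (j + 5 : ℕ)) := by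
    intro S y a b c d h
    rw [← pvtb_cells_union]
    exact pvtw_N_box (pvtb_cells_rect hδ h)
  have off : ∀ (q : ℤ × ℤ) (a b c d : ℝ), pvtCtr δ q ∉ pvtcRect (a - ((j : ℝ) + 7) * δ) (b + ((j : ℝ) + 7) * δ) (c - ((j : ℝ) + 7) * δ) (d + ((j : ℝ) + 7) * δ) →
      q ∉ tscBox (⌈a / δ⌉ - 1 - (j + 5 : ℕ)) (⌊b / δ⌋ + (j + 5 : ℕ)) (⌈c / δ⌉ - 1 - (j + 5 : ℕ)) (⌊d / δ⌋ + (j + 5 : ℕ)) := by
    intro q a b c d h
    refine pvtb_ctr_off hδ (k := j + 5) ?_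
    rw [hk, show (j : ℝ) + 5 + 2 = (j : ℝ) + 7 by ring]
    exact h
  have inb : ∀ q : ℤ × ℤ, (|(pvtCtr δ q).re - x.re| ≤ ρ1 ∧ |(pvtCtr δ q).im - x.im| ≤ ρ1) →
      q ∈ tscBox (⌈(x.re - ρ1) / δ⌉ - 1 - j - 4) (⌊(x.re + ρ1) / δ⌋ + j + 4) (⌈(x.im - ρ1) / δ⌉ - 1 - j - 4) (⌊(x.im + ρ1) / δ⌋ + j + 4) := by
    rintro q ⟨h1, h2⟩
    rw [abs_le] at h1 h2
    obtain ⟨g1, g2, g3, g4⟩ := pvtb_ctr_in hδ (a := x.re - ρ1) (b := x.re + ρ1) (c := x.im - ρ1) (d := x.im + ρ1) (q := q) ⟨by linarith, by linarith, by linarith, by linarith⟩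
    exact ⟨by omega, by omega, by omega, by omega⟩
  obtain ⟨n, f, hcor, hn, f0, f1, fn1, fn, hbox, hoff, -, runT, runS⟩ := pvbl_fit_mouth (j := j) hE (a' := ⌈(x.re - ρ1) / δ⌉ - 1 - j - 4) (b' := ⌊(x.re + ρ1) / δ⌋ + j + 4)
    (c' := ⌈(x.im - ρ1) / δ⌉ - 1 - j - 4) (d' := ⌊(x.im + ρ1) / δ⌋ + j + 4) (by omega) (by omega) (by omega) (by omega)
    (pvt_cells_mono hKt) (pvt_cells_mono hKs) (pvt_cells_conn hδ cKt (bddK.subset hKt)) (pvt_cells_conn hδ cKs (bddK.subset hKs))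
    (near yt Kt near_t) (near ys Ks near_s) far (box Kt yt a1 b1 c1 d1 rt) (box Ks ys a2 b2 c2 d2 rs) hdt hds ft fs
    (off _ _ _ _ _ ztt) (off _ _ _ _ _ zts) (off _ _ _ _ _ zst) (off _ _ _ _ _ zss) ht hs (inb _ bt) (inb _ bs) apart
  obtain ⟨n, rfl⟩ : ∃ n', n = n' + 1 := ⟨n - 1, by omega⟩
  refine ⟨n, f, hcor, by omega, f0, f1, by simpa using fn1, fn, ?_, ?_, runT, runS, apart⟩
  · intro i hi w hw
    obtain ⟨g1, g2, g3, g4⟩ := hbox i hi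
    obtain ⟨k1, k2, k3, k4⟩ := hw
    have e1 : (⌈(x.re - ρ1) / δ⌉ : ℝ) - 1 - j - 4 ≤ (f i).1 := by exact_mod_cast g1
    have e2 : ((f i).1 : ℝ) ≤ ⌊(x.re + ρ1) / δ⌋ + j + 4 := by exact_mod_cast g2
    have e3 : (⌈(x.im - ρ1) / δ⌉ : ℝ) - 1 - j - 4 ≤ (f i).2 := by exact_mod_cast g3
    have e4 : ((f i).2 : ℝ) ≤ ⌊(x.im + ρ1) / δ⌋ + j + 4 := by exact_mod_cast g4
    have c1 : (x.re - ρ1) / δ ≤ ⌈(x.re - ρ1) / δ⌉ := Int.le_ceil _
    have c2 : (⌊(x.re + ρ1) / δ⌋ : ℝ) ≤ (x.re + ρ1) / δ := Int.floor_le _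
    have c3 : (x.im - ρ1) / δ ≤ ⌈(x.im - ρ1) / δ⌉ := Int.le_ceil _
    have c4 : (⌊(x.im + ρ1) / δ⌋ : ℝ) ≤ (x.im + ρ1) / δ := Int.floor_le _
    rw [div_le_iff₀ hδ] at c1 c3
    rw [le_div_iff₀ hδ] at c2 c4
    constructor <;> rw [abs_le] <;> constructor <;> nlinarith
  · intro i hi
    rw [pvtb_cells_union, pvtb_cells_union]
    exact hoff i hi

end Claimed.Agent.R289
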