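import Claimed.Agent.R289.Tr.Bes
import Claimed.Agent.R289.S1P.IBes

/-!
# Row 289 (S0537), the WALL, file Tr/BesIn : THE PRODUCER OF `PvbeIn`      (owner helper181, adversary of the S1P interfaces; prefix `pvbx_`)

`Tr/Bes.lean` (223) consumes I.BES of `origin/helper295:notes/R289/TR_295.md` ONLY through the named interface `PvbeIn W C_B`;   `S1P/IBes.lean` (244) produces it as `pvib_bes`, `pvib_main` (mean of the label energy `pvqEn`).
This file is the bridge, so that the two sides are checked against each other BY THE KERNEL: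

* `pvbx_en_ge`   : one raw tag with a finite label:   `|X_λ(w)|² ≤ pvqEn Y s w`   (raw form of `pvq_en_ge` of 244);
* `pvbx_sum_mask`: on a label the live mask of `pvibW` is invisible (every member of a label is a tag, hence a live dart);
* **`pvbx_in`**  : `PvbeIn (pvibK u) (4⁻¹ * pvibTh u)`;
* **`pvbx_in_Q`, `pvbx_in_U`, `pvbx_in_V`, `pvbx_in_comb`** : the instances for `pvqWQ`, `pvqWU`, `pvbeWV`, `Q - a V`;
* **`pvbx_exists`** : ONE finite constant for the three fields (what `pvbe_unif`, `pvbe_kit_bound`, `pvbe_sigma1` ask).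
-/

set_option autoImplicit false

namespace Claimed.Agent.R289

open MeasureTheory ProbabilityTheory Set Filter Topology
open scoped ENNReal NNReal

/-- **ONE LABEL** is dominated by the label energy (raw language) -/
theorem pvbx_en_ge {Y : Set ℂ} (h : DelGood Y) (s : ℂ → Bool) (w : ℂ × ℂ → ℂ) {x : ℂ × ℂ} (hx : pvqTag (DelTri Y) s x)
    (hf : {y | pvqSame (DelTri Y) s x y}.Finite) : ENNReal.ofReal (‖pvqSum (DelTri Y) s w x‖ ^ 2) ≤ pvqEn Y s w := by
  obtain ⟨d, rfl⟩ := pvq_del_tag_code (h := h) s hx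
  have hT : (delPl h).toMap.Tag (s ∘ Subtype.val) d := (pvq_del_tag (h := h) s d).1 hx
  have hfd : {d' | (delPl h).toMap.SameLab (s ∘ Subtype.val) d d'}.Finite := by
    refine Set.Finite.of_finite_image (f := pvqCode) (hf.subset ?_) (pvq_code_inj (h := h)).injOn
    rintro _ ⟨d', hd', rfl⟩
    exact (pvq_del_same' (h := h) s d d').2 hd'
  have := pvq_en_ge (h := h) s w {d} (fun e he => by rw [Finset.mem_singleton.1 he]; exact hT)
    (fun e he => by rw [Finset.mem_singleton.1 he]; exact hfd)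
    (fun e he e' he' _ => by rw [Finset.mem_singleton.1 he, Finset.mem_singleton.1 he'])
  rw [Finset.sum_singleton, ← pvq_del_sum] at this
  exact this

/-- on a label the live mask is invisible -/
theorem pvbx_sum_mask (u : Bool) (g : ℂ → ℂ) (Y : Set ℂ) (s : ℂ → Bool) (x : ℂ × ℂ) :
    pvqSum (DelTri Y) s (fun y => g (pvqBar Y y) * pvibK u Y y) x = pvqSum (DelTri Y) s (pvibW u g Y) x := by
  unfold pvqSum
  refine finsum_congr fun y => finsum_congr fun hy => ?_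
  obtain ⟨c, hc, -⟩ := hy.2.1
  unfold pvibW
  rw [if_pos ⟨c, hc⟩]

theorem pvbx_test_supp {g : ℂ → ℂ} (hg : PvbeTest g) : Bornology.IsBounded (Function.support g) := by
  obtain ⟨R, hR⟩ := hg.supp
  refine (Metric.isBounded_closedBall (x := (0 : ℂ)) (r := R)).subset fun z hz => ?_
  rw [mem_closedBall_zero_iff]
  by_contra hn
  exact hz (hR z (not_le.1 hn))

theorem pvbx_enorm_sq (z : ℂ) : ‖z‖ₑ ^ 2 = ENNReal.ofReal (‖z‖ ^ 2) := by
  rw [ENNReal.ofReal_pow (norm_nonneg z), ofReal_norm]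

/-- **I.BES IN THE FORM THE WALL CONSUMES**, kernel `u` (`false`: `Q`, `true`: `U`) -/
theorem pvbx_in (u : Bool) : PvbeIn (pvibK u) (4⁻¹ * pvibTh u) := by
  intro ε hε g hg
  refine ⟨fun η => pvqEn (cfSites η) (cfCol η) (pvibW u g (cfSites η)), pvib_en_aem u hg.meas ε, ?_, ?_⟩
  · filter_upwards [pvqf_good_ae ε hε.ne', pvqf_raw_same_ae hε] with η h1 h2 x hx
    unfold pvbeLab
    rw [pvbx_sum_mask, pvbx_enorm_sq]
    exact pvbx_en_ge h1.del _ _ hx (h2 x)
  · simp_rw [pvbx_enorm_sq]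
    exact pvib_bes u hε hg.meas (pvbx_test_supp hg)

theorem pvbx_K_false : pvibK false = pvqWQ := by
  funext Y x
  unfold pvibK
  rw [if_neg (by simp)]

theorem pvbx_K_true : pvibK true = pvqWU := by
  funext Y x
  unfold pvibK
  rw [if_pos rfl]

/-- I.BES for `Q` -/
theorem pvbx_in_Q : PvbeIn pvqWQ (4⁻¹ * pvibTh false) := pvbx_K_false ▸ pvbx_in false

/-- I.BES for `U` -/
theorem pvbx_in_U : PvbeIn pvqWU (4⁻¹ * pvibTh true) := pvbx_K_true ▸ pvbx_in true

/-- I.BES for `V = U + Q` -/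
theorem pvbx_in_V : PvbeIn pvbeWV (2 * (4⁻¹ * pvibTh true) + 2 * (4⁻¹ * pvibTh false)) := PvbeIn.V pvbx_in_U pvbx_in_Q

/-- the constant of I.BES -/
noncomputable def pvbxC : ℝ≥0∞ := 2 * (4⁻¹ * pvibTh true) + 2 * (4⁻¹ * pvibTh false)

theorem pvbx_eqns_cite : True := by
  have := @pvbxC.eq_1
  trivial

theorem pvbx_C_ne_top : pvbxC ≠ ∞ := by
  unfold pvbxC
  have h4 : (4 : ℝ≥0∞)⁻¹ ≠ ∞ := ENNReal.inv_ne_top.2 (by norm_num)
  exact ENNReal.add_ne_top.2 ⟨ENNReal.mul_ne_top (by norm_num) (ENNReal.mul_ne_top h4 (pvib_Th_ne_top true)),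
    ENNReal.mul_ne_top (by norm_num) (ENNReal.mul_ne_top h4 (pvib_Th_ne_top false))⟩

theorem pvbx_le_two_mul (a : ℝ≥0∞) : a ≤ 2 * a := by
  rw [two_mul]
  exact le_self_add

/-- **ONE FINITE CONSTANT** for `Q`, `U`, `V` -/
theorem pvbx_all : PvbeIn pvqWQ pvbxC ∧ PvbeIn pvqWU pvbxC ∧ PvbeIn pvbeWV pvbxC :=
  ⟨pvbx_in_Q.mono ((pvbx_le_two_mul _).trans le_add_self), pvbx_in_U.mono ((pvbx_le_two_mul _).trans le_self_add), pvbx_in_V⟩

/-- the field of the wall `Q + c V` (`c = - a`) -/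
theorem pvbx_in_comb (c : ℂ) : PvbeIn (pvbeComb pvqWQ pvbeWV c) (2 * pvbxC + 2 * ‖c‖ₑ ^ 2 * pvbxC) := PvbeIn.comb pvbx_all.1 pvbx_all.2.2 c

theorem pvbx_comb_ne_top (c : ℂ) : 2 * pvbxC + 2 * ‖c‖ₑ ^ 2 * pvbxC ≠ ∞ :=
  ENNReal.add_ne_top.2 ⟨ENNReal.mul_ne_top (by norm_num) pvbx_C_ne_top,
    ENNReal.mul_ne_top (ENNReal.mul_ne_top (by norm_num) (ENNReal.pow_ne_top enorm_ne_top)) pvbx_C_ne_top⟩

/-- **EXIT**: what every consumer of `Tr/Bes.lean` may cite -/
theorem pvbx_exists : ∃ CB : ℝ≥0∞, CB ≠ ∞ ∧ PvbeIn pvqWQ CB ∧ PvbeIn pvqWU CB ∧ PvbeIn pvbeWV CB := ⟨pvbxC, pvbx_C_ne_top, pvbx_all⟩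

end Claimed.Agent.R289
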