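import Claimed.Agent.R289.Tr.LaneDet
import Claimed.Agent.R289.Arm.Side

/-!
# Row 289 (S0537, Cardy for Poisson-Voronoi), box TR, file Tr/Block : (H4b) ONE-POINT BLOCK, DETERMINISTIC HALF      (owner helper70; ruling W-2 (R-A) of 208; prefix `pvblo_`, defs `pvblo… / Pvblo…`)

Source: `origin/helper208:notes/R289/W1_208.md` v2, R-A (H4b).   Vocabulary: `PvMap`, `IsSph`, `Cyc`, `Left`, `Join`, `Int` of `Pl/*`; strands `pvasBW pvasIt pvasFc pvasLayB pvasLayW` of `Arm/Strand` (`true` = BLACK); `PvldRun`, `pvldBar` of `Tr/LaneDet`; chains mod 2 `PlCh`, `PlIsBd` of `Pl/Hex`.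

SETTING `PvbloSet T s K f n cb cw`.   `F` = the LAST PIECE of the exit stub = the positions `pvasIt T s f i`, `i ≤ n`; TIP `a = pvasIt T s f n`; FROZEN = the two banks of `F` = `T.VOf (pvasFc T s f n)`.
`K` = a finite co-connected set of sites (the sites of `B(x+, varrho h)`) which contains the banks and the two circuits; the face BEHIND `f` has its third vertex off `K` (`f` = last entrance of the stub in `K`).
`cb`, `cw : T.Cyc` = the two circuits of BLOCK_j: every NON-FROZEN vertex of `cb` is black, of `cw` is white (this is all that circuits of the INDEPENDENT-COPY colouring give); tip inside both (`Left`), `f` and `opp f` outside both.   No nesting of `cb`, `cw` is asked, no box, no half disc, no calm level.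

RESULT  **`pvblo_main`** : a piece of wall `q → … → f` (first arrival at `f`) which starts at a face with a vertex off `K` has NO position inside `cb.Left ∩ cw.Left`.      `pvblo_main_vert`: its banks avoid `Int cb.Left ∩ Int cw.Left` (⊇ the MOUTH).
So `g0`, `Sig-`, the inner strand, the earlier part of `Sig+` and every return of the continuation (all of them lie on the wall BEFORE `f`, after a far position) avoid the mouth.

PROOF (mod 2, no chord is ever followed, no induction on nesting).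
 `X_w` = the white vertices of `cw` NOT joined to the white bank inside (white vertices of `cw`) ∪ (white bank)   [the vertices of the chords of `cw` with both ends on the BLACK bank];      `X_b` the same with the colours exchanged.
 sec.1 POCKET (`pvblo_pocket`, cone construction): the edges of `cw` with an end in `X_w`, completed by edges black bank - black bank, bound a face set `G_w`.
 sec.2 HALF (`pvblo_half`): `f ∉ G_w`, the boundary vertices of `G_w` lie in `X_w ∪ LayB`, and a bichromatic edge which is not a LINK lies on the boundary of `cw.Left` iff it lies on the boundary of `G_w`.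
 sec.3 DISJOINT (`pvblo_disj`): `G_w ∩ G_b = ∅` (`X_w ∪ LayB` and `X_b ∪ LayW` are connected, disjoint, and meet the face of `f`).
 sec.4 SYNC (`pvblo_sync`): along a piece of wall without links which ends at `f`:  `x ∈ cw.Left ↔ x ∈ G_w`,  `x ∈ cb.Left ↔ x ∈ G_b`.      Hence no position in `cb.Left ∩ cw.Left`.
 sec.5 LINK (`pvblo_link_run`): a position whose black end is joined to the black bank in `cb ∪ LayB` and whose white end is joined to the white bank in `cw ∪ LayW` is `pvasIt T s f k` and the faces crossed before it lie in `K`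
       (`pvblo_exist` = `pvld_exist` for `a₀ ≠ a₁`, by `pvad_join_region`).   A piece of wall which comes from far has no link (`pvblo_shift`).
-/

set_option autoImplicit false

namespace Claimed.Agent.R289

open Relation

variable {V D : Type}

/-! ## 0. definitions -/

/-- the vertices of colour `β` of the circuit `c` or of the bank `L` -/
def pvbloK {T : PvMap V D} (s : V → Bool) (β : Bool) (c : T.Cyc) (L : Set V) : Set V := {v | s v = β ∧ (v ∈ c.verts ∨ v ∈ L)}

/-- the vertices of colour `β` of the circuit `c` which are NOT joined to `w₀` (a vertex of the bank `L` of colour `β`) inside `pvbloK` -/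
def pvbloX {T : PvMap V D} (s : V → Bool) (β : Bool) (c : T.Cyc) (L : Set V) (w₀ : V) : Set V :=
  {v | v ∈ c.verts ∧ s v = β ∧ ¬ T.Join Set.univ (pvbloK s β c L) v w₀}

/-- one circuit and the two banks: `L ∋ w₀` of colour `β`, `P ∋ p₀` of colour `!β`, both connected; the vertices of `c` of colour `!β` lie in `P`, and there is one -/
structure PvbloHalf (T : PvMap V D) (s : V → Bool) (β : Bool) (c : T.Cyc) (L P : Set V) (w₀ p₀ : V) : Prop where
  Lcol : ∀ v ∈ L, s v = β
  Pcol : ∀ v ∈ P, s v = !β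
  Lj : ∀ v ∈ L, T.Join Set.univ L w₀ v
  Pj : ∀ v ∈ P, T.Join Set.univ P p₀ v
  col : ∀ v ∈ c.verts, s v = β ∨ v ∈ P
  hit : ∃ v ∈ c.verts, v ∈ P

/-- **the setting of a one-point block** -/
structure PvbloSet (T : PvMap V D) (s : V → Bool) (K : Set V) (f : D) (n : ℕ) (cb cw : T.Cyc) : Prop where
  bw : pvasBW T s f
  first : ∀ i, i < n → pvasIt T s f i ≠ pvasIt T s f n
  fcK : T.VOf (pvasFc T s f n) ⊆ K
  back : T.apex (T.opp f) ∉ K
  cbK : cb.verts ⊆ K
  cwK : cw.verts ⊆ K
  cbcol : ∀ v ∈ cb.verts, s v = true ∨ v ∈ T.VOf (pvasFc T s f n)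
  cwcol : ∀ v ∈ cw.verts, s v = false ∨ v ∈ T.VOf (pvasFc T s f n)
  fb : f ∉ cb.Left ∧ T.opp f ∉ cb.Left
  fw : f ∉ cw.Left ∧ T.opp f ∉ cw.Left
  tip : pvasIt T s f n ∈ cb.Left ∧ pvasIt T s f n ∈ cw.Left

theorem pvblo_eqns_cite : True := by
  have := @pvbloK.eq_1; have := @pvbloX.eq_1
  trivial

variable {T : PvMap V D} {s : V → Bool}

/-! ## 1. POCKET: the cone construction -/

theorem pvblo_isBd_zero : PlIsBd T 0 := by
  exact ⟨0, fun _ => rfl, fun d => by simp⟩

theorem pvblo_isBd_add {z z' : D →₀ ZMod 2} (h : PlIsBd T z) (h' : PlIsBd T z') : PlIsBd T (z + z') := by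
  obtain ⟨ψ, h1, h2⟩ := h
  obtain ⟨ψ', h1', h2'⟩ := h'
  refine ⟨ψ + ψ', fun d => ?_, fun d => ?_⟩
  · simp only [Finsupp.add_apply, h1, h1']
  · simp only [Finsupp.add_apply]
    rw [← h2 d, ← h2' d]
    ring

theorem pvblo_isBd_sum {ι : Type} (S : Finset ι) (z : ι → D →₀ ZMod 2) (h : ∀ i ∈ S, PlIsBd T (z i)) : PlIsBd T (∑ i ∈ S, z i) := by
  classical
  induction S using Finset.induction_on with
  | empty =>
    rw [Finset.sum_empty]
    exact pvblo_isBd_zero
  | insert a S ha ih =>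
    rw [Finset.sum_insert ha]
    exact pvblo_isBd_add (h a (Finset.mem_insert_self _ _)) (ih fun i hi => h i (Finset.mem_insert_of_mem hi))

/-- any two vertices are the ends of a walk -/
theorem pvblo_ch_exists (hT : T.IsSph) (a b : V) : ∃ z, PlCh T a b z := by
  induction hT.conn a b with
  | refl => exact ⟨0, PlCh.nil a⟩
  | @tail b c _ hbc ih =>
    obtain ⟨z, hz⟩ := ih
    obtain ⟨d, rfl, rfl⟩ := hbc
    exact ⟨_, PlCh.cons d hz⟩

/-- **POCKET.**  `P` connected, `X` disjoint from `P`, the neighbours ON `c` of a vertex of `X` lie in `X ∪ P`: the edges of `c` with an end in `X`, completed by edges `P - P`, are the boundary of a face set. -/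
theorem pvblo_pocket (hT : T.IsSph) (c : T.Cyc) {P X : Set V} {p₀ : V} (hP : ∀ v ∈ P, T.Join Set.univ P p₀ v) (hXP : ∀ v ∈ X, v ∉ P)
    (hcl : ∀ t, (T.src (c.e t) ∈ X ∨ T.tgt (c.e t) ∈ X) → (T.src (c.e t) ∈ X ∨ T.src (c.e t) ∈ P) ∧ (T.tgt (c.e t) ∈ X ∨ T.tgt (c.e t) ∈ P)) :
    ∃ G : Set D, T.FaceSet G ∧ (∀ d, (T.src d ∈ X ∨ T.tgt d ∈ X) → (T.Bd G d ↔ T.Edg c.darts d)) ∧
      (∀ d, T.Bd G d → (T.Edg c.darts d ∧ (T.src d ∈ X ∨ T.tgt d ∈ X)) ∨ (T.src d ∈ P ∧ T.tgt d ∈ P)) := by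
  classical
  -- the cone: a walk from `p₀` to every vertex, inside `P` for the vertices of `P`
  have hκ : ∀ v, ∃ z, PlCh T p₀ v z ∧ (v ∈ P → ∀ d, z d ≠ 0 → T.src d ∈ P ∧ T.tgt d ∈ P) := by
    intro v
    by_cases hv : v ∈ P
    · obtain ⟨z, h1, h2⟩ := pl_hx_join_ch (hP v hv)
      exact ⟨z, h1, fun _ d hd => (h2 d hd).2⟩
    · obtain ⟨z, hz⟩ := pvblo_ch_exists hT p₀ v
      exact ⟨z, hz, fun h => absurd h hv⟩
  choose κ hκ1 hκ2 using hκ
  obtain ⟨S, hS⟩ : ∃ S : Finset ℕ, S = (Finset.range c.n).filter (fun t => T.src (c.e t) ∈ X ∨ T.tgt (c.e t) ∈ X) := ⟨_, rfl⟩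
  have hSmem : ∀ t, t ∈ S ↔ t < c.n ∧ (T.src (c.e t) ∈ X ∨ T.tgt (c.e t) ∈ X) := by
    intro t
    rw [hS, Finset.mem_filter, Finset.mem_range]
  obtain ⟨δ, hδ⟩ : ∃ δ : D →₀ ZMod 2, δ = ∑ t ∈ S, (κ (T.src (c.e t)) + plEps T (c.e t) + κ (T.tgt (c.e t))) := ⟨_, rfl⟩
  have hbd : PlIsBd T δ := by
    rw [hδ]
    exact pvblo_isBd_sum S _ fun t _ => pl_hx_fill hT (PlCh.cons (c.e t) (hκ1 _)) (hκ1 _)
  obtain ⟨G, -, hG, hGb⟩ := pvad_isBd_set hbd
  -- evaluation of `δ`: the walks to the vertices of `X` cancel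
  have hev : ∀ d, δ d = ∑ t ∈ S, plEps T (c.e t) d +
      ∑ t ∈ S, ((if T.src (c.e t) ∈ X then 0 else κ (T.src (c.e t)) d) + (if T.tgt (c.e t) ∈ X then 0 else κ (T.tgt (c.e t)) d)) := by
    intro d
    have htel : ∑ t ∈ S, ((if T.src (c.e t) ∈ X then κ (T.src (c.e t)) d else 0) + (if T.tgt (c.e t) ∈ X then κ (T.tgt (c.e t)) d else 0)) = 0 := by
      rw [hS, Finset.sum_filter_of_ne]
      · have h1 := pl_hx_tele (fun t => if T.src (c.e t) ∈ X then κ (T.src (c.e t)) d else 0) (Nat.zero_le c.n)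
        have h2 : c.e c.n = c.e 0 := by
          have := c.per 0
          rwa [Nat.zero_add] at this
        simp only [h2, pl_z2_add_self] at h1
        rw [Finset.range_eq_Ico]
        refine Eq.trans (Finset.sum_congr rfl fun t _ => ?_) h1
        rw [c.chain]
      · intro t _ hne
        by_contra hp
        push Not at hp
        apply hne
        rw [if_neg hp.1, if_neg hp.2, add_zero]
    have hsplit : ∀ t, (κ (T.src (c.e t)) + plEps T (c.e t) + κ (T.tgt (c.e t))) d = plEps T (c.e t) d +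
        ((if T.src (c.e t) ∈ X then 0 else κ (T.src (c.e t)) d) + (if T.tgt (c.e t) ∈ X then 0 else κ (T.tgt (c.e t)) d)) +
        ((if T.src (c.e t) ∈ X then κ (T.src (c.e t)) d else 0) + (if T.tgt (c.e t) ∈ X then κ (T.tgt (c.e t)) d else 0)) := by
      intro t
      simp only [Finsupp.add_apply]
      by_cases e1 : T.src (c.e t) ∈ X <;> by_cases e2 : T.tgt (c.e t) ∈ X <;> simp only [e1, e2, if_true, if_false] <;> ring
    rw [hδ, Finsupp.finsetSum_apply, Finset.sum_congr rfl fun t _ => hsplit t, Finset.sum_add_distrib, Finset.sum_add_distrib, htel, add_zero]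
  -- a non zero term of the second sum: an edge `P - P`
  have hPP : ∀ d, ∑ t ∈ S, ((if T.src (c.e t) ∈ X then 0 else κ (T.src (c.e t)) d) + (if T.tgt (c.e t) ∈ X then 0 else κ (T.tgt (c.e t)) d)) ≠ 0 →
      T.src d ∈ P ∧ T.tgt d ∈ P := by
    intro d hd
    obtain ⟨t, ht, hne⟩ := Finset.exists_ne_zero_of_sum_ne_zero hd
    have hc := hcl t ((hSmem t).1 ht).2
    by_cases e1 : (if T.src (c.e t) ∈ X then 0 else κ (T.src (c.e t)) d) = 0
    · rw [e1, zero_add] at hne
      by_cases e2 : T.tgt (c.e t) ∈ X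
      · rw [if_pos e2] at hne
        exact absurd rfl hne
      · rw [if_neg e2] at hne
        exact hκ2 _ (hc.2.resolve_left e2) d hne
    · by_cases e2 : T.src (c.e t) ∈ X
      · rw [if_pos e2] at e1
        exact absurd rfl e1
      · rw [if_neg e2] at e1
        exact hκ2 _ (hc.1.resolve_left e2) d e1
  -- a non zero term of the first sum: an edge of `c` with an end in `X`
  have hCX : ∀ d, ∑ t ∈ S, plEps T (c.e t) d ≠ 0 → T.Edg c.darts d ∧ (T.src d ∈ X ∨ T.tgt d ∈ X) := by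
    intro d hd
    obtain ⟨t, ht, hne⟩ := Finset.exists_ne_zero_of_sum_ne_zero hd
    have hx := ((hSmem t).1 ht).2
    rcases pl_hx_eps_apply_ne hne with rfl | rfl
    · exact ⟨Or.inl ⟨t, rfl⟩, hx⟩
    · refine ⟨Or.inr (by rw [T.opp_opp]; exact ⟨t, rfl⟩), ?_⟩
      rw [T.src_opp', T.tgt_opp]
      exact hx.symm
  -- the darts of `c` with an end in `X`
  have hone : ∀ k, (T.src (c.e k) ∈ X ∨ T.tgt (c.e k) ∈ X) → δ (c.e k) = 1 := by
    intro k hk
    have hn := pl_cyc_pos c
    have hkn : k % c.n < c.n := Nat.mod_lt _ hn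
    rw [← pl_cyc_mod c k] at hk ⊢
    generalize k % c.n = k' at hkn hk ⊢
    rw [hev]
    have h2 : ∑ t ∈ S, ((if T.src (c.e t) ∈ X then 0 else κ (T.src (c.e t)) (c.e k')) + (if T.tgt (c.e t) ∈ X then 0 else κ (T.tgt (c.e t)) (c.e k'))) = 0 := by
      by_contra hne
      obtain ⟨p1, p2⟩ := hPP _ hne
      rcases hk with hk | hk
      · exact hXP _ hk p1
      · exact hXP _ hk p2
    rw [h2, add_zero, Finset.sum_eq_single k']
    · exact pl_hx_eps_self _
    · intro t ht htk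
      exact pl_hx_eps_cyc c ((hSmem t).1 ht).1 hkn htk
    · intro hk'
      exact absurd ((hSmem k').2 ⟨hkn, hk⟩) hk'
  refine ⟨G, hG, fun d hd => ⟨fun hB => ?_, fun hE => ?_⟩, fun d hB => ?_⟩
  · have h1 := (hGb d).1 hB
    rw [hev] at h1
    by_cases h2 : ∑ t ∈ S, plEps T (c.e t) d = 0
    · rw [h2, zero_add] at h1
      obtain ⟨p1, p2⟩ := hPP d (by rw [h1]; decide)
      rcases hd with hd | hd
      · exact absurd p1 (hXP _ hd)
      · exact absurd p2 (hXP _ hd)
    · exact (hCX d h2).1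
  · rcases hE with ⟨k, rfl⟩ | ⟨k, hk⟩
    · exact (hGb _).2 (hone k hd)
    · rw [← T.bd_opp, ← hk]
      refine (hGb _).2 (hone k ?_)
      rw [hk, T.src_opp', T.tgt_opp]
      exact hd.symm
  · have h1 := (hGb d).1 hB
    rw [hev] at h1
    by_cases h2 : ∑ t ∈ S, plEps T (c.e t) d = 0
    · rw [h2, zero_add] at h1
      exact Or.inr (hPP d (by rw [h1]; decide))
    · exact Or.inl (hCX d h2)

/-! ## 2. HALF: one circuit -/

section half

variable {β : Bool} {c : T.Cyc} {L P : Set V} {w₀ p₀ : V}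

theorem pvblo_X_not_P (h : PvbloHalf T s β c L P w₀ p₀) : ∀ v ∈ pvbloX s β c L w₀, v ∉ P := by
  intro v hv hP
  have h1 := hv.2.1
  have h2 := h.Pcol v hP
  rw [h1] at h2
  cases β <;> simp at h2

theorem pvblo_X_not_L (h : PvbloHalf T s β c L P w₀ p₀) : ∀ v ∈ pvbloX s β c L w₀, v ∉ L := by
  intro v hv hL
  refine hv.2.2 (pl_hx_join_symm ?_)
  exact pl_hx_join_mono (Set.Subset.refl _) (show L ⊆ pvbloK s β c L from fun u hu => ⟨h.Lcol u hu, Or.inr hu⟩) (h.Lj v hL)

/-- a neighbour on `c` of a vertex of `X` lies in `X ∪ P` -/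
theorem pvblo_X_adj (h : PvbloHalf T s β c L P w₀ p₀) {u v : V} (hu : u ∈ pvbloX s β c L w₀) (hv : v ∈ c.verts) (huv : T.Adj u v) : v ∈ pvbloX s β c L w₀ ∨ v ∈ P := by
  rcases h.col v hv with hβ | hP
  · left
    refine ⟨hv, hβ, fun hj => hu.2.2 ?_⟩
    obtain ⟨d, hs, ht⟩ := huv
    have huK : u ∈ pvbloK s β c L := ⟨hu.2.1, Or.inl hu.1⟩
    have hvK : v ∈ pvbloK s β c L := ⟨hβ, Or.inl hv⟩
    exact pl_hx_join_trans (pl_hx_join_tail (pl_hx_join_refl huK) ⟨d, Or.inl (Set.mem_univ _), hs, ht⟩ hvK) hj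
  · exact Or.inr hP

theorem pvblo_closure (h : PvbloHalf T s β c L P w₀ p₀) (t : ℕ) (ht : T.src (c.e t) ∈ pvbloX s β c L w₀ ∨ T.tgt (c.e t) ∈ pvbloX s β c L w₀) :
    (T.src (c.e t) ∈ pvbloX s β c L w₀ ∨ T.src (c.e t) ∈ P) ∧ (T.tgt (c.e t) ∈ pvbloX s β c L w₀ ∨ T.tgt (c.e t) ∈ P) := by
  have hs : T.src (c.e t) ∈ c.verts := ⟨t, rfl⟩
  have htv : T.tgt (c.e t) ∈ c.verts := ⟨t + 1, (c.chain t).symm⟩
  have hadj : T.Adj (T.src (c.e t)) (T.tgt (c.e t)) := ⟨c.e t, rfl, rfl⟩
  rcases ht with h1 | h1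
  · exact ⟨Or.inl h1, pvblo_X_adj h h1 htv hadj⟩
  · exact ⟨pvblo_X_adj h h1 hs (T.adj_symm hadj), Or.inl h1⟩

/-- follow `c` from a vertex of `X` up to the first vertex off `X`: it lies in `P` -/
theorem pvblo_conn_aux (h : PvbloHalf T s β c L P w₀ p₀) (l : ℕ) : ∀ k, T.src (c.e (k + l)) ∉ pvbloX s β c L w₀ → T.src (c.e k) ∈ pvbloX s β c L w₀ →
    ∃ p ∈ P, T.Join Set.univ (pvbloX s β c L w₀ ∪ P) (T.src (c.e k)) p := by
  induction l with
  | zero => intro k h1 h2; exact absurd h2 h1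
  | succ l ih =>
    intro k h1 h2
    have hadj : T.EdgeIn Set.univ (T.src (c.e k)) (T.src (c.e (k + 1))) := ⟨c.e k, Or.inl (Set.mem_univ _), rfl, c.chain k⟩
    have h0 : T.src (c.e k) ∈ pvbloX s β c L w₀ ∪ P := Or.inl h2
    rcases pvblo_X_adj h h2 (⟨k + 1, rfl⟩ : T.src (c.e (k + 1)) ∈ c.verts) ⟨c.e k, rfl, c.chain k⟩ with hX | hP
    · obtain ⟨p, hp, hj⟩ := ih (k + 1) (by rwa [show k + 1 + l = k + (l + 1) by omega]) hX
      exact ⟨p, hp, pl_hx_join_trans (pl_hx_join_tail (pl_hx_join_refl h0) hadj (Or.inl hX)) hj⟩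
    · exact ⟨_, hP, pl_hx_join_tail (pl_hx_join_refl h0) hadj (Or.inr hP)⟩

/-- `X ∪ P` is connected -/
theorem pvblo_conn (h : PvbloHalf T s β c L P w₀ p₀) : ∀ v ∈ pvbloX s β c L w₀ ∪ P, T.Join Set.univ (pvbloX s β c L w₀ ∪ P) p₀ v := by
  have hPj : ∀ v ∈ P, T.Join Set.univ (pvbloX s β c L w₀ ∪ P) p₀ v := fun v hv =>
    pl_hx_join_mono (Set.Subset.refl _) Set.subset_union_right (h.Pj v hv)
  rintro v (hX | hP)
  · obtain ⟨k, hk⟩ := hX.1
    obtain ⟨v', ⟨j, hj⟩, hv'P⟩ := h.hit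
    have hnot : T.src (c.e (k + (j + k * c.n - k))) ∉ pvbloX s β c L w₀ := by
      have hkn : k ≤ k * c.n := Nat.le_mul_of_pos_right k (pl_cyc_pos c)
      rw [show k + (j + k * c.n - k) = j + k * c.n by omega, pl_cyc_per, hj]
      intro hx
      have h1 := hx.2.1
      rw [h.Pcol v' hv'P] at h1
      cases β <;> simp at h1
    obtain ⟨p, hp, hjn⟩ := pvblo_conn_aux h _ k hnot (hk ▸ hX)
    rw [hk] at hjn
    exact pl_hx_join_trans (hPj p hp) (pl_hx_join_symm hjn)
  · exact hPj v hP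

/-- **HALF.** -/
theorem pvblo_half (hT : T.IsSph) (h : PvbloHalf T s β c L P w₀ p₀) (f : D) :
    ∃ G : Set D, T.FaceSet G ∧ f ∉ G ∧ (∀ d, T.Bd G d → T.src d ∈ pvbloX s β c L w₀ ∪ P) ∧
      (∀ e, T.Occ s e → (T.Edg c.darts e → T.src e ∈ pvbloX s β c L w₀ ∨ T.tgt e ∈ pvbloX s β c L w₀) → (T.Bd c.Left e ↔ T.Bd G e)) := by
  classical
  have hXP : ∀ v ∈ pvbloX s β c L w₀, v ∉ P := by
    intro v hx hP
    have h1 := hx.2.1
    rw [h.Pcol v hP] at h1
    cases β <;> simp at h1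
  obtain ⟨G0, hG0, ha, hb⟩ := pvblo_pocket hT c h.Pj hXP (pvblo_closure h)
  have hJ := (pl_jordan hT c).2.2.2
  have key : ∀ G : Set D, (∀ d, T.Bd G d ↔ T.Bd G0 d) → (∀ d, T.Bd G d → T.src d ∈ pvbloX s β c L w₀ ∪ P) ∧
      (∀ e, T.Occ s e → (T.Edg c.darts e → T.src e ∈ pvbloX s β c L w₀ ∨ T.tgt e ∈ pvbloX s β c L w₀) → (T.Bd c.Left e ↔ T.Bd G e)) := by
    intro G hG
    refine ⟨fun d hd => ?_, fun e he hE => ?_⟩
    · rcases hb d ((hG d).1 hd) with ⟨hedg, hx⟩ | ⟨hp, -⟩
      · rcases hedg with ⟨t, ht⟩ | ⟨t, ht⟩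
        · have := (pvblo_closure h t (by rw [ht]; exact hx)).1
          rwa [ht] at this
        · have h2 : T.tgt (c.e t) = T.src d := by rw [ht, T.tgt_opp]
          have h3 : T.src (c.e t) = T.tgt d := by rw [ht, T.src_opp']
          have := (pvblo_closure h t (by rw [h2, h3]; exact hx.symm)).2
          rwa [h2] at this
      · exact Or.inr hp
    · rw [hG e]
      constructor
      · intro hbd
        have hedg := (hJ e).1 hbd
        exact (ha e (hE hedg)).2 hedg
      · intro hbd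
        rcases hb e hbd with ⟨hedg, -⟩ | ⟨hp, hp'⟩
        · exact (hJ e).2 hedg
        · exact absurd ((h.Pcol _ hp).trans (h.Pcol _ hp').symm) he
  by_cases hf : f ∈ G0
  · exact ⟨G0ᶜ, hG0.compl, fun hn => hn hf, (key G0ᶜ fun d => T.bd_compl).1, (key G0ᶜ fun d => T.bd_compl).2⟩
  · exact ⟨G0, hG0, hf, (key G0 fun d => Iff.rfl).1, (key G0 fun d => Iff.rfl).2⟩

end half

/-! ## 3. DISJOINT -/

/-- the face behind the next position of a strand is the face of the present position -/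
theorem pvblo_step_face {A : Set D} (hA : T.FaceSet A) (a : D) : T.opp (pvasStep T s a) ∈ A ↔ a ∈ A := by
  unfold pvasStep
  split_ifs
  · rw [T.opp_opp]; exact hA a
  · rw [T.opp_opp]; exact hA.nxt2 T a

theorem pvblo_it_face {A : Set D} (hA : T.FaceSet A) (q : D) (j : ℕ) : T.opp (pvasIt T s q (j + 1)) ∈ A ↔ pvasIt T s q j ∈ A := by
  unfold pvasIt
  rw [Function.iterate_succ_apply']
  exact pvblo_step_face hA _

/-- a connected set of vertices off the boundary of a face set, one of them with a dart off the face set: all their darts are off the face set -/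
theorem pvblo_side (hT : T.IsSph) {G : Set D} (hG : T.FaceSet G) {Y' : Set V} (hoff : ∀ v ∈ Y', ∀ d, T.src d = v → ¬ T.Bd G d) {g : D} (hg : g ∉ G)
    {v : V} (hj : T.Join Set.univ Y' (T.src g) v) : ∀ d, T.src d = v → d ∉ G := by
  obtain ⟨h0, hw⟩ := hj
  have ha : T.src g ∈ T.Int Gᶜ := by
    rcases pl_int_or hT hG (hoff _ h0) with h | h
    · exact absurd (h g rfl) hg
    · exact h
  have hw' : ReflTransGen (fun u v => T.Adj u v ∧ v ∈ Y') (T.src g) v := by
    refine ReflTransGen.mono (fun u w h => ?_) _ _ hw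
    obtain ⟨⟨d, -, h1, h2⟩, h3⟩ := h
    exact ⟨⟨d, h1, h2⟩, h3⟩
  exact pl_int_sep hT hG.compl (X := Y') (fun v hv d hd hb => hoff v hv d hd (T.bd_compl.1 hb)) ha hw'

/-- two face sets which miss the face of `f`, with boundary vertices in two disjoint connected sets `Y ∋ src f`, `Y' ∋ tgt f`, are disjoint -/
theorem pvblo_disj (hT : T.IsSph) {G G' : Set D} (hG : T.FaceSet G) (hG' : T.FaceSet G') {Y Y' : Set V} (hY : ∀ d, T.Bd G d → T.src d ∈ Y) (hY' : ∀ d, T.Bd G' d → T.src d ∈ Y')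
    (hdis : ∀ v ∈ Y, v ∉ Y') {f : D} (hf : f ∉ G) (hf' : f ∉ G') (hj : ∀ v ∈ Y, T.Join Set.univ Y (T.src f) v) (hj' : ∀ v ∈ Y', T.Join Set.univ Y' (T.tgt f) v) :
    ∀ x, x ∈ G → x ∉ G' := by
  have s1 : ∀ d, T.src d ∈ Y' → d ∉ G := fun d hd =>
    pvblo_side hT hG (Y' := Y') (fun v hv d hd hb => hdis _ (hY d hb) (hd ▸ hv)) (g := T.nxt f) (fun h => hf ((hG f).1 h)) (hj' _ hd) d rfl
  have s2 : ∀ d, T.src d ∈ Y → d ∉ G' := fun d hd =>
    pvblo_side hT hG' (Y' := Y) (fun v hv d hd hb => hdis v hv (hd ▸ hY' d hb)) (g := f) hf' (hj _ hd) d rfl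
  have hH : T.FaceSet (G ∩ G') := fun d => and_congr (hG d) (hG' d)
  have hbd : ∀ d, ¬ T.Bd (G ∩ G') d := by
    intro d hb
    by_cases h1 : T.Bd G d
    · have a1 := s2 d (hY d h1)
      have a2 := s2 (T.opp d) (hY _ (T.bd_opp.2 h1))
      exact hb ⟨fun h => absurd h.2 a1, fun h => absurd h.2 a2⟩
    · by_cases h2 : T.Bd G' d
      · have a1 := s1 d (hY' d h2)
        have a2 := s1 (T.opp d) (hY' _ (T.bd_opp.2 h2))
        exact hb ⟨fun h => absurd h.1 a1, fun h => absurd h.1 a2⟩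
      · unfold PvMap.Bd at h1 h2
        rw [not_not] at h1 h2
        exact hb (and_congr h1 h2)
  intro x hx hx'
  rcases pl_empty_bd hT hH hbd with h | h
  · have : x ∈ G ∩ G' := ⟨hx, hx'⟩
    rw [h] at this
    exact this
  · have : f ∈ G ∩ G' := by rw [h]; trivial
    exact hf this.1

/-! ## 4. SYNC -/

/-- two face sets which agree at the end of a piece of strand and whose boundaries contain the same crossed edges agree along the piece -/
theorem pvblo_sync {A G : Set D} (hA : T.FaceSet A) (hG : T.FaceSet G) {q : D} {M : ℕ} (hend : pvasIt T s q M ∈ A ↔ pvasIt T s q M ∈ G)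
    (hstep : ∀ j, 1 ≤ j → j ≤ M → (T.Bd A (pvasIt T s q j) ↔ T.Bd G (pvasIt T s q j))) : ∀ j, j ≤ M → (pvasIt T s q j ∈ A ↔ pvasIt T s q j ∈ G) := by
  have key : ∀ k, k ≤ M → (pvasIt T s q (M - k) ∈ A ↔ pvasIt T s q (M - k) ∈ G) := by
    intro k
    induction k with
    | zero => intro _; exact hend
    | succ k ih =>
      intro hk
      have h1 := ih (by omega)
      have e : M - k = (M - (k + 1)) + 1 := by omega
      have h2 := hstep (M - k) (by omega) (by omega)
      rw [e] at h1 h2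
      unfold PvMap.Bd at h2
      rw [pvblo_it_face hA, pvblo_it_face hG] at h2
      tauto
  intro j hj
  have := key (M - j) (by omega)
  rwa [show M - (M - j) = j by omega] at this

/-- a strand which starts off a face set and ends in it crosses its boundary -/
theorem pvblo_cross {A : Set D} (hA : T.FaceSet A) {f : D} {n : ℕ} (h0 : f ∉ A) (hn : pvasIt T s f n ∈ A) : ∃ i, 1 ≤ i ∧ i ≤ n ∧ T.Bd A (pvasIt T s f i) := by
  induction n with
  | zero => exact absurd hn h0
  | succ n ih =>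
    by_cases h : pvasIt T s f n ∈ A
    · obtain ⟨i, h1, h2, h3⟩ := ih h
      exact ⟨i, h1, by omega, h3⟩
    · refine ⟨n + 1, by omega, le_rfl, fun hb => h ?_⟩
      exact (pvblo_it_face hA f n).1 (hb.1 hn)

/-! ## 5. LINK -/

variable {K : Set V}

/-- `pvld_exist` with `a₀ ≠ a₁` instead of `src a₀ ≠ src a₁` (by `pvad_join_region`, `pvad_region_strand`) -/
theorem pvblo_exist (hT : T.IsSph) (hK : K.Finite) {a₀ a₁ : D} (h0 : pvasBW T s a₀) (h1 : pvasBW T s a₁) (hne : a₀ ≠ a₁)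
    (hB : T.Join Set.univ (pvldCol s K true) (T.src a₀) (T.src a₁)) (hW : T.Join Set.univ (pvldCol s K false) (T.tgt a₀) (T.tgt a₁))
    (hco : ∀ u v, u ∉ K → v ∉ K → T.Join Set.univ Kᶜ u v) (hout : ∃ f, T.src f ∉ K ∧ T.DJoin (pvldBar T s K a₀ a₁) (T.opp a₀) f) :
    PvldRun T s K a₀ a₁ := by
  obtain ⟨A, -, hA, hBa, hBb, hbd⟩ := pvad_join_region hT s (R := Set.univ) (XB := pvldCol s K true) (XW := pvldCol s K false)
    (fun v hv => hv.2) (fun v hv => hv.2) h0 h1 hne hB hW
  obtain ⟨f, hfK, hf⟩ := hout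
  have hK0 : T.src a₀ ∈ K := hB.1.1
  have hK0' : T.tgt a₀ ∈ K := hW.1.1
  have hK1 : T.src a₁ ∈ K := (pl_hx_join_mem hB).1
  have hK1' : T.tgt a₁ ∈ K := (pl_hx_join_mem hW).1
  have key : ∀ A' : Set D, T.FaceSet A' → (∀ d, T.Bd A' d ↔ T.Bd A d) → f ∉ A' → PvldRun T s K a₀ a₁ := by
    intro A' hA' hiff hfA'
    have hbar : ∀ d, T.Bd A' d → d ∈ pvldBar T s K a₀ a₁ := by
      intro d hd
      rcases hbd d ((hiff d).1 hd) with ((h | h) | (h | h)) | ⟨-, ⟨h1', h2'⟩ | ⟨h1', h2'⟩⟩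
      · rw [h]; exact ⟨hK0, hK0', Or.inr (Or.inl rfl)⟩
      · rw [Set.mem_singleton_iff.1 h]; exact ⟨hK1, hK1', Or.inr (Or.inr (Or.inr (Or.inl rfl)))⟩
      · have e : d = T.opp a₀ := by rw [← h, T.opp_opp]
        rw [e]
        exact ⟨by rw [T.src_opp']; exact hK0', by rw [T.tgt_opp]; exact hK0, Or.inr (Or.inr (Or.inl rfl))⟩
      · have e : d = T.opp a₁ := by rw [← Set.mem_singleton_iff.1 h, T.opp_opp]
        rw [e]
        exact ⟨by rw [T.src_opp']; exact hK1', by rw [T.tgt_opp]; exact hK1, Or.inr (Or.inr (Or.inr (Or.inr rfl)))⟩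
      · exact ⟨h1'.1, h2'.1, Or.inl fun ho => ho (by rw [h1'.2, h2'.2])⟩
      · exact ⟨h1'.1, h2'.1, Or.inl fun ho => ho (by rw [h1'.2, h2'.2])⟩
    have hocc : ∀ d, T.Bd A' d → T.Occ s d → T.Edg {a₀, a₁} d := by
      intro d hd ho
      rcases hbd d ((hiff d).1 hd) with h | ⟨-, ⟨h1', h2'⟩ | ⟨h1', h2'⟩⟩
      · exact h
      · exact absurd (by rw [h1'.2, h2'.2]) ho
      · exact absurd (by rw [h1'.2, h2'.2]) ho
    have hopp : T.opp a₀ ∉ A' := fun h => hfA' ((pl_side_dual hA' (fun d hd => Or.inl (hbar d hd)) hf).1 h)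
    have hoff : ∀ v ∈ Kᶜ, ∀ d, T.src d = v → ¬ T.Bd A' d := fun v hv d hd hB' => hv (hd ▸ (hbar d hB').1)
    have hreg : T.VOf A' ⊆ K := by
      rintro v ⟨d, hd, rfl⟩
      by_contra hvK
      have hint : T.src d ∈ T.Int A' := by
        rcases pl_int_or hT hA' (hoff _ hvK) with h | h
        · exact h
        · exact absurd hd (h d rfl)
      obtain ⟨-, hj⟩ := hco _ _ hvK hfK
      have hj' : ReflTransGen (fun u w => T.Adj u w ∧ w ∈ Kᶜ) (T.src d) (T.src f) :=
        ReflTransGen.mono (fun u w huw => ⟨pl_hx_edgeIn_adj huw.1, huw.2⟩) _ _ hj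
      exact hfA' (pl_int_sep hT hA' hoff hint hj' f rfl)
    have hfin' := pvld_finite hT hK hreg
    rcases pvad_region_strand s hA' hfin' h0 h1 ((hiff _).2 hBa) ((hiff _).2 hBb) hocc with ⟨-, N, hN1, hNin, hNe⟩ | ⟨-, N, hN1, hNin, hNe⟩
    · refine ⟨N, hN1, hNe, fun i hi h => ?_, ?_⟩
      · have h2 : T.opp a₁ ∈ A' := by
          have := (pvas_step_opp_mem hA' s (d := pvasIt T s a₀ (N - 1))).2 (hNin (N - 1) (by omega))
          rw [← pvas_it_succ, Nat.sub_add_cancel hN1, hNe] at this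
          exact this
        have h3 := hNin i hi
        rw [h] at h3
        exact ((hiff _).2 hBb) ⟨fun _ => h2, fun _ => h3⟩
      · rintro v ⟨d, hd, rfl⟩
        exact hreg ⟨d, pvas_fc_sub hA' hNin hd, rfl⟩
    · exfalso
      have := (pvas_step_opp_mem hA' s (d := pvasIt T s a₁ (N - 1))).2 (hNin (N - 1) (by omega))
      rw [← pvas_it_succ, Nat.sub_add_cancel hN1, hNe] at this
      exact hopp this
  by_cases hfA : f ∈ A
  · exact key Aᶜ hA.compl (fun d => T.bd_compl) (fun h => h hfA)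
  · exact key A hA (fun d => Iff.rfl) hfA

/-- two strands with a common position -/
theorem pvblo_shift {q f : D} (hq : pvasBW T s q) (hf : pvasBW T s f) {j k : ℕ} (h : pvasIt T s q j = pvasIt T s f k) :
    (j ≤ k ∧ q = pvasIt T s f (k - j)) ∨ (k < j ∧ pvasIt T s q (j - k) = f) := by
  rcases Nat.lt_or_ge k j with hkj | hjk
  · refine Or.inr ⟨hkj, ?_⟩
    have e : pvasIt T s (pvasIt T s q (j - k)) k = pvasIt T s f k := by
      rw [← pvas_it_add, show j - k + k = j by omega]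
      exact h
    exact pvas_it_cancel (pvas_it_bw hq _) hf k e
  · refine Or.inl ⟨hjk, ?_⟩
    have e : pvasIt T s q j = pvasIt T s (pvasIt T s f (k - j)) j := by
      rw [← pvas_it_add, show k - j + j = k by omega]
      exact h
    exact pvas_it_cancel hq (pvas_it_bw hf _) j e

theorem pvblo_fc_add (s : V → Bool) (f : D) (n N : ℕ) : pvasFc T s f (n + N) = pvasFc T s f n ∪ pvasFc T s (pvasIt T s f n) N := by
  ext g
  constructor
  · rintro ⟨i, hi, hg⟩
    rcases Nat.lt_or_ge i n with h | h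
    · exact Or.inl ⟨i, h, hg⟩
    · refine Or.inr ⟨i - n, by omega, ?_⟩
      rw [← pvas_it_add, show n + (i - n) = i by omega]
      exact hg
  · rintro (⟨i, hi, hg⟩ | ⟨i, hi, hg⟩)
    · exact ⟨i, by omega, hg⟩
    · refine ⟨n + i, by omega, ?_⟩
      rw [pvas_it_add]
      exact hg

section set

variable {f : D} {n : ℕ} {cb cw : T.Cyc}

theorem pvblo_n_pos (S : PvbloSet T s K f n cb cw) : 1 ≤ n := by
  rcases Nat.eq_zero_or_pos n with h0 | h0
  · exfalso
    have := S.tip.1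
    rw [h0] at this
    exact S.fb.1 this
  · exact h0

/-- the white circuit: `β = false`, `L = LayW`, `P = LayB` -/
theorem pvblo_half_w (hT : T.IsSph) (S : PvbloSet T s K f n cb cw) : PvbloHalf T s false cw (pvasLayW T s f n) (pvasLayB T s f n) (T.tgt f) (T.src f) := by
  have hn : 1 ≤ n := by
    rcases Nat.eq_zero_or_pos n with h0 | h0
    · exfalso
      have := S.tip.1
      rw [h0] at this
      exact S.fb.1 this
    · exact h0
  refine ⟨fun v hv => pvas_layW_white S.bw hv, fun v hv => pvas_layB_black S.bw hv, ?_, ?_, ?_, ?_⟩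
  · rintro _ ⟨i, hi, rfl⟩
    exact pl_hx_join_mono (Set.subset_univ _) le_rfl (pvas_layW_join s f hi)
  · rintro _ ⟨i, hi, rfl⟩
    exact pl_hx_join_mono (Set.subset_univ _) le_rfl (pvas_layB_join s f hi)
  · intro v hv
    rcases S.cwcol v hv with h | h
    · exact Or.inl h
    · rw [pvas_fc_verts s f hn] at h
      rcases h with h | h
      · exact Or.inr h
      · exact Or.inl (pvas_layW_white S.bw h)
  · -- the strand crosses the boundary of cw.Left
    have hA := pl_left_face cw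
    have hex : ∃ i, i < n ∧ pvasIt T s f i ∉ cw.Left ∧ pvasIt T s f (i + 1) ∈ cw.Left := by
      by_contra hno
      push Not at hno
      have : ∀ i, i ≤ n → pvasIt T s f i ∉ cw.Left := by
        intro i
        induction i with
        | zero => intro _; exact S.fw.1
        | succ i ih => intro hi; exact fun hm => hno i (by omega) (ih (by omega)) hm
      exact this n le_rfl S.tip.2
    obtain ⟨i, hi, h1, h2⟩ := hex
    have h3 : T.opp (pvasIt T s f (i + 1)) ∉ cw.Left := by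
      rw [pvas_it_succ, pvas_step_opp_mem hA]
      exact h1
    have hbd : T.Bd cw.Left (pvasIt T s f (i + 1)) := fun hiff => h3 (hiff.1 h2)
    exact ⟨_, pl_cyc_edg_src cw (pl_left_bd_sub cw hbd), i + 1, hi, rfl⟩

/-- the black circuit: `β = true`, `L = LayB`, `P = LayW` -/
theorem pvblo_half_b (hT : T.IsSph) (S : PvbloSet T s K f n cb cw) : PvbloHalf T s true cb (pvasLayB T s f n) (pvasLayW T s f n) (T.src f) (T.tgt f) := by
  have hn : 1 ≤ n := pvblo_n_pos S
  refine ⟨fun v hv => pvas_layB_black S.bw hv, fun v hv => pvas_layW_white S.bw hv, ?_, ?_, ?_, ?_⟩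
  · rintro _ ⟨i, hi, rfl⟩
    exact pl_hx_join_mono (Set.subset_univ _) le_rfl (pvas_layB_join s f hi)
  · rintro _ ⟨i, hi, rfl⟩
    exact pl_hx_join_mono (Set.subset_univ _) le_rfl (pvas_layW_join s f hi)
  · intro v hv
    rcases S.cbcol v hv with h | h
    · exact Or.inl h
    · rw [pvas_fc_verts s f hn] at h
      rcases h with h | h
      · exact Or.inl (pvas_layB_black S.bw h)
      · exact Or.inr h
  · have hA := pl_left_face cb
    have hex : ∃ i, i < n ∧ pvasIt T s f i ∉ cb.Left ∧ pvasIt T s f (i + 1) ∈ cb.Left := by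
      by_contra hno
      push Not at hno
      have : ∀ i, i ≤ n → pvasIt T s f i ∉ cb.Left := by
        intro i
        induction i with
        | zero => intro _; exact S.fb.1
        | succ i ih => intro hi; exact fun hm => hno i (by omega) (ih (by omega)) hm
      exact this n le_rfl S.tip.1
    obtain ⟨i, hi, h1, h2⟩ := hex
    have h3 : T.opp (pvasIt T s f (i + 1)) ∉ cb.Left := by
      rw [pvas_it_succ, pvas_step_opp_mem hA]
      exact h1
    have hbd : T.Bd cb.Left (T.opp (pvasIt T s f (i + 1))) := fun hiff => h3 (hiff.2 (by rw [T.opp_opp]; exact h2))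
    refine ⟨_, pl_cyc_edg_src cb (pl_left_bd_sub cb hbd), i + 1, hi, ?_⟩
    rw [T.src_opp']

/-- OUT for the tip: back along `F`, through the edge of `f`, to the vertex off `K` -/
theorem pvblo_out (S : PvbloSet T s K f n cb cw) {e : D} (he : pvasBW T s e) (hne : ∀ i, i ≤ n → pvasIt T s f i ≠ e) :
    ∃ f', T.src f' ∉ K ∧ T.DJoin (pvldBar T s K (pvasIt T s f n) e) (T.opp (pvasIt T s f n)) f' := by
  have hn := pvblo_n_pos S
  have h0 : pvasBW T s (pvasIt T s f n) := pvas_it_bw S.bw n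
  have h1 : T.DJoin (pvldBar T s K (pvasIt T s f n) e) (T.opp (pvasIt T s f n)) f :=
    pvld_out_back he S.bw rfl (fun i hi => ⟨S.first i hi, hne i hi.le⟩) hn
  have hnot : f ∉ pvldBar T s K (pvasIt T s f n) e := by
    rintro ⟨_, _, h3 | h3 | h3 | h3 | h3⟩
    · exact h3 (pvas_bw_occ S.bw)
    · exact S.first 0 (by omega) h3
    · exact pvas_bw_not_opp h0 (h3 ▸ S.bw)
    · exact hne 0 (Nat.zero_le n) h3
    · exact pvas_bw_not_opp he (h3 ▸ S.bw)
  have hstep : T.DStep (pvldBar T s K (pvasIt T s f n) e) f (T.opp f) := by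
    refine Or.inr ⟨rfl, ?_⟩
    rintro (h3 | h3)
    · exact hnot h3
    · exact hnot (pvld_bar_opp.1 h3)
  exact ⟨T.nxt (T.nxt (T.opp f)), S.back, (h1.tail hstep).trans (T.djoin_sf (T.sf_nxt2 _))⟩

/-- **LINK.**  A position whose black end is joined to the black bank inside (black vertices of `cb`) ∪ (black bank) and whose white end is joined to the white bank inside (white vertices of `cw`) ∪ (white bank)
is a position of the strand from `f`, and the faces crossed before it lie in `K`. -/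
theorem pvblo_link_run (hT : T.IsSph) (hK : K.Finite) (hco : ∀ u v, u ∉ K → v ∉ K → T.Join Set.univ Kᶜ u v) (S : PvbloSet T s K f n cb cw) {e : D} (he : pvasBW T s e)
    (hB : T.Join Set.univ (pvbloK s true cb (pvasLayB T s f n)) (T.src e) (T.src f)) (hW : T.Join Set.univ (pvbloK s false cw (pvasLayW T s f n)) (T.tgt e) (T.tgt f)) :
    ∃ k, pvasIt T s f k = e ∧ T.VOf (pvasFc T s f k) ⊆ K := by
  have hn := pvblo_n_pos S
  have hfc := S.fcK
  rw [pvas_fc_verts s f hn] at hfc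
  by_cases hex : ∃ i, i ≤ n ∧ pvasIt T s f i = e
  · obtain ⟨i, hi, rfl⟩ := hex
    refine ⟨i, rfl, ?_⟩
    rintro v ⟨d, hd, rfl⟩
    exact S.fcK ⟨d, pvas_fc_mono s f hi hd, rfl⟩
  · push Not at hex
    have h0 : pvasBW T s (pvasIt T s f n) := pvas_it_bw S.bw n
    have sB : pvasLayB T s f n ⊆ pvldCol s K true := fun v hv => ⟨hfc (Or.inl hv), pvas_layB_black S.bw hv⟩
    have sW : pvasLayW T s f n ⊆ pvldCol s K false := fun v hv => ⟨hfc (Or.inr hv), pvas_layW_white S.bw hv⟩
    have kB : pvbloK s true cb (pvasLayB T s f n) ⊆ pvldCol s K true := by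
      rintro v ⟨h1, h2 | h2⟩
      · exact ⟨S.cbK h2, h1⟩
      · exact sB h2
    have kW : pvbloK s false cw (pvasLayW T s f n) ⊆ pvldCol s K false := by
      rintro v ⟨h1, h2 | h2⟩
      · exact ⟨S.cwK h2, h1⟩
      · exact sW h2
    have jB : T.Join Set.univ (pvldCol s K true) (T.src (pvasIt T s f n)) (T.src e) :=
      pl_hx_join_trans (pl_hx_join_symm (pl_hx_join_mono (Set.subset_univ _) sB (pvas_layB_join s f le_rfl)))
        (pl_hx_join_symm (pl_hx_join_mono subset_rfl kB hB))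
    have jW : T.Join Set.univ (pvldCol s K false) (T.tgt (pvasIt T s f n)) (T.tgt e) :=
      pl_hx_join_trans (pl_hx_join_symm (pl_hx_join_mono (Set.subset_univ _) sW (pvas_layW_join s f le_rfl)))
        (pl_hx_join_symm (pl_hx_join_mono subset_rfl kW hW))
    obtain ⟨N, -, hN, -, hNK⟩ := pvblo_exist hT hK h0 he (hex n le_rfl) jB jW hco (pvblo_out S he hex)
    refine ⟨n + N, by rw [pvas_it_add, hN], ?_⟩
    rw [pvblo_fc_add]
    rintro v ⟨d, hd | hd, rfl⟩
    · exact S.fcK ⟨d, hd, rfl⟩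
    · exact hNK ⟨d, hd, rfl⟩

/-- a piece of wall which comes from far and arrives at `f` for the first time has no link -/
theorem pvblo_no_link (hT : T.IsSph) (hK : K.Finite) (hco : ∀ u v, u ∉ K → v ∉ K → T.Join Set.univ Kᶜ u v) (S : PvbloSet T s K f n cb cw) {q : D} {M : ℕ} (hq : pvasBW T s q)
    (hfirst : ∀ j, j < M → pvasIt T s q j ≠ f) (hfar : ¬ T.VOf {d | T.SF q d} ⊆ K) {j : ℕ} (hj1 : 1 ≤ j) (hjM : j < M)
    (hB : T.Join Set.univ (pvbloK s true cb (pvasLayB T s f n)) (T.src (pvasIt T s q j)) (T.src f))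
    (hW : T.Join Set.univ (pvbloK s false cw (pvasLayW T s f n)) (T.tgt (pvasIt T s q j)) (T.tgt f)) : False := by
  obtain ⟨k, hk, hkK⟩ := pvblo_link_run hT hK hco S (pvas_it_bw hq j) hB hW
  rcases pvblo_shift hq S.bw hk.symm with ⟨hjk, e⟩ | ⟨hkj, e⟩
  · apply hfar
    rintro v ⟨d, hd, rfl⟩
    refine hkK ⟨d, ⟨k - j, by omega, ?_⟩, rfl⟩
    rw [← e]
    exact hd
  · exact hfirst (j - k) (by omega) e

/-! ## 6. the theorem -/

/-- **(H4b), deterministic half.**  A piece of wall `q → … → f` (first arrival at `f`) which starts at a face with a vertex off `K` has no position inside both circuits. -/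
theorem pvblo_main (hT : T.IsSph) (hK : K.Finite) (hco : ∀ u v, u ∉ K → v ∉ K → T.Join Set.univ Kᶜ u v) (S : PvbloSet T s K f n cb cw) {q : D} {M : ℕ} (hq : pvasBW T s q)
    (hM : pvasIt T s q M = f) (hfirst : ∀ j, j < M → pvasIt T s q j ≠ f) (hfar : ¬ T.VOf {d | T.SF q d} ⊆ K) :
    ∀ j, j ≤ M → ¬ (pvasIt T s q j ∈ cb.Left ∧ pvasIt T s q j ∈ cw.Left) := by
  have Hw := pvblo_half_w hT S
  have Hb := pvblo_half_b hT S
  obtain ⟨Gw, fGw, hfw, bGw, eGw⟩ := pvblo_half hT Hw f
  obtain ⟨Gb, fGb, hfb, bGb, eGb⟩ := pvblo_half hT Hb f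
  -- the two pockets are disjoint
  have hdis : ∀ v ∈ pvbloX s false cw (pvasLayW T s f n) (T.tgt f) ∪ pvasLayB T s f n, v ∉ pvbloX s true cb (pvasLayB T s f n) (T.src f) ∪ pvasLayW T s f n := by
    rintro v (hv | hv) (hv' | hv')
    · have h1 := hv.2.1
      have h2 := hv'.2.1
      rw [h1] at h2
      exact absurd h2 (by decide)
    · exact pvblo_X_not_L Hw v hv hv'
    · exact pvblo_X_not_L Hb v hv' hv
    · have h1 := Hw.Lcol v hv'
      have h2 := Hb.Lcol v hv
      rw [h1] at h2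
      exact absurd h2 (by decide)
  have hGG := pvblo_disj hT fGw fGb bGw bGb hdis hfw hfb (pvblo_conn Hw) (pvblo_conn Hb)
  have hbw : ∀ j, pvasBW T s (pvasIt T s q j) := fun j => pvas_it_bw hq j
  -- joins inside the banks
  have jB : ∀ v ∈ pvasLayB T s f n, T.Join Set.univ (pvbloK s true cb (pvasLayB T s f n)) v (T.src f) := fun v hv =>
    pl_hx_join_symm (pl_hx_join_mono (X' := pvbloK s true cb (pvasLayB T s f n)) subset_rfl (fun u hu => ⟨Hb.Lcol u hu, Or.inr hu⟩) (Hb.Lj v hv))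
  have jW : ∀ v ∈ pvasLayW T s f n, T.Join Set.univ (pvbloK s false cw (pvasLayW T s f n)) v (T.tgt f) := fun v hv =>
    pl_hx_join_symm (pl_hx_join_mono (X' := pvbloK s false cw (pvasLayW T s f n)) subset_rfl (fun u hu => ⟨Hw.Lcol u hu, Or.inr hu⟩) (Hw.Lj v hv))
  -- SYNC for the white circuit
  have sw : ∀ j, j ≤ M → (pvasIt T s q j ∈ cw.Left ↔ pvasIt T s q j ∈ Gw) := by
    refine pvblo_sync (pl_left_face cw) fGw (by rw [hM]; exact ⟨fun h => absurd h S.fw.1, fun h => absurd h hfw⟩) ?_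
    intro j hj1 hjM
    refine eGw _ (pvas_bw_occ (hbw j)) fun hE => ?_
    rcases Nat.lt_or_ge j M with hlt | hge
    · by_contra hcon
      push Not at hcon
      have hs : T.src (pvasIt T s q j) ∈ cw.verts := pl_cyc_edg_src cw hE
      have ht : T.tgt (pvasIt T s q j) ∈ cw.verts := by
        rw [← T.src_opp']
        exact pl_cyc_edg_src cw (T.edg_opp.2 hE)
      have hW : T.Join Set.univ (pvbloK s false cw (pvasLayW T s f n)) (T.tgt (pvasIt T s q j)) (T.tgt f) := by
        by_contra hn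
        exact hcon.2 ⟨ht, (hbw j).2, hn⟩
      have hB : T.Join Set.univ (pvbloK s true cb (pvasLayB T s f n)) (T.src (pvasIt T s q j)) (T.src f) := by
        rcases Hw.col _ hs with h | h
        · rw [(hbw j).1] at h
          exact absurd h (by decide)
        · exact jB _ h
      exact pvblo_no_link hT hK hco S hq hfirst hfar hj1 hlt hB hW
    · obtain rfl : j = M := by omega
      rw [hM] at hE
      exact absurd (((pl_jordan hT cw).2.2.2 f).2 hE) (fun hb => hb ⟨fun h => absurd h S.fw.1, fun h => absurd h S.fw.2⟩)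
  -- SYNC for the black circuit
  have sb : ∀ j, j ≤ M → (pvasIt T s q j ∈ cb.Left ↔ pvasIt T s q j ∈ Gb) := by
    refine pvblo_sync (pl_left_face cb) fGb (by rw [hM]; exact ⟨fun h => absurd h S.fb.1, fun h => absurd h hfb⟩) ?_
    intro j hj1 hjM
    refine eGb _ (pvas_bw_occ (hbw j)) fun hE => ?_
    rcases Nat.lt_or_ge j M with hlt | hge
    · by_contra hcon
      push Not at hcon
      have hs : T.src (pvasIt T s q j) ∈ cb.verts := pl_cyc_edg_src cb hE
      have ht : T.tgt (pvasIt T s q j) ∈ cb.verts := by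
        rw [← T.src_opp']
        exact pl_cyc_edg_src cb (T.edg_opp.2 hE)
      have hB : T.Join Set.univ (pvbloK s true cb (pvasLayB T s f n)) (T.src (pvasIt T s q j)) (T.src f) := by
        by_contra hn
        exact hcon.1 ⟨hs, (hbw j).1, hn⟩
      have hW : T.Join Set.univ (pvbloK s false cw (pvasLayW T s f n)) (T.tgt (pvasIt T s q j)) (T.tgt f) := by
        rcases Hb.col _ ht with h | h
        · rw [(hbw j).2] at h
          exact absurd h (by decide)
        · exact jW _ h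
      exact pvblo_no_link hT hK hco S hq hfirst hfar hj1 hlt hB hW
    · obtain rfl : j = M := by omega
      rw [hM] at hE
      exact absurd (((pl_jordan hT cb).2.2.2 f).2 hE) (fun hb => hb ⟨fun h => absurd h S.fb.1, fun h => absurd h S.fb.2⟩)
  rintro j hj ⟨h1, h2⟩
  exact hGG _ ((sw j hj).1 h2) ((sb j hj).1 h1)

/-- the banks of the piece avoid the sites which are interior to both circuits (the MOUTH) -/
theorem pvblo_main_vert (hT : T.IsSph) (hK : K.Finite) (hco : ∀ u v, u ∉ K → v ∉ K → T.Join Set.univ Kᶜ u v) (S : PvbloSet T s K f n cb cw) {q : D} {M : ℕ} (hq : pvasBW T s q)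
    (hM : pvasIt T s q M = f) (hfirst : ∀ j, j < M → pvasIt T s q j ≠ f) (hfar : ¬ T.VOf {d | T.SF q d} ⊆ K) {v : V} (hv : v ∈ pvasLayB T s q M ∪ pvasLayW T s q M) :
    ¬ (v ∈ T.Int cb.Left ∧ v ∈ T.Int cw.Left) := by
  rintro ⟨hb, hw⟩
  rcases hv with ⟨j, hj, rfl⟩ | ⟨j, hj, rfl⟩
  · exact pvblo_main hT hK hco S hq hM hfirst hfar j hj ⟨hb _ rfl, hw _ rfl⟩
  · exact pvblo_main hT hK hco S hq hM hfirst hfar j hj
      ⟨(pl_left_face cb _).1 (hb (T.nxt (pvasIt T s q j)) rfl), (pl_left_face cw _).1 (hw (T.nxt (pvasIt T s q j)) rfl)⟩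

end set

end Claimed.Agent.R289
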