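import Claimed.Agent.R289.Tr.BlockP
import Claimed.Agent.R289.Tr.PinLoc
import Claimed.Agent.R289.Tr.PinLocB
import Claimed.Agent.R289.Tr.Local
import Claimed.Agent.R289.Arm.Stat
import Claimed.Agent.R289.Arm.Law
import Claimed.Agent.R289.Exit.Qbx
import Claimed.Agent.R289.Mesh.Geo

/-!
# Row 289 (S0537, Cardy for Poisson-Voronoi), THE WALL, file Tr/BlockF : (H4b) ONE-POINT BLOCKS, `FLAG2` AS A STATIC LOCAL FLAG      (helper248; post of the captain 234, ruling 8 D, split with 233; prefix `pvbf_`, defs `Pvbf…`, `pvbf…`)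

Text of record: `W1_208.md` v2, R-A (H4b);  amendments A1-A5 of the referee 131;  RULING 11 (1) of 234: `FLAG2 := ⋃_{k ≤ K, ±} {level k calm for Σ±, no BLOCK at x±(k)}`, each term conditioned on its own cylinder.
DEFINITION INDEPENDENT: nothing here knows what a gate, a stub or a calm level is.      Inputs: `Tr/BlockP` (233: quenched bound for a family of exclusive cylinders, towers on a frame, the two seams), `Tr/PinLoc` (238: `PvplIso`, `PvplPred`, `pvpl_main`),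
`Tr/Local` (22: twin cycles, `pvloc_left`), `Arm/Stat` (98: `pvat_sum_le`), `Arm/Law` (128: `pval_col_merge`, `PvalLoc`), `Exit/Qbx` (`exit_pv_qbx`).

* sec. 1  `pvbf_toLoc` : a `PvplIso` of simple maps is a `PvLoc` of 22;   `pvbf_iso_trans`;   `PvbfLocS Φ K` = locality AMONG SIMPLE SPHERES (what the producers can prove);  saturation `pvbfSat`;
          **`pvbf_main`** = `pvpl_main` of 238 for `PvbfLocS` predicates;   `pvbf_loc_col` : such a predicate reads the colours of the stars of the `K`-marked vertices only.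
* sec. 2  MARKS FORM of the circuits of 233: `PvbfAt`, `PvbfCirc`, `PvbfGBlock`;  `pvbf_gblock_iff` (= `PvbpGBlock` when the marks are the radial tests);  **`pvbf_circ_iso`** (transfer under `PvplIso`).
* sec. 3  **STATE SCHEMES** `PvbfSch κ ζ`, the three obligations `PvbfOk` (`cyl`, `uniq`, `loc`);  the flag predicate `pvbfFlag`;  **`pvbf_flag_locS`**.
* sec. 4  QUENCHED: **`pvbf_quenched`** : `pvaP A ξ (flag) ≤ (1 - q²)^J` on a map with towers round all the tip cells.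
* sec. 5  **GENERIC ANNEALING** `pvbf_anneal` : a quenched bound on the good geometries for a `PvbfLocS` predicate ⟹ `pvP ε B ≤ p + pvGeo ε {not good or no mesh}`.
* sec. 6  **`pvbf_flag2`** : ONE measurable event, read from the window, `= flag` for every completion on the mesh event, `limsup_{ε → 0} pvP ε B ≤ (1 - q²)^J`;   `pvbf_flag2_fin` (finite union over levels, signs, types);   `exit` form with `exit_pv_qbx`.
* sec. 7  MARKOV FORM (v3.2 of 208, no union over the levels): `pvbfMany Φ m`, `pvbf_many_locS`, **`pvbf_flag2_markov`** (`≤ card α ((1-q²)^J + δ)/m`), consumers `pvbf_many_use`, `pvbf_many_pick` (a level which is calm AND shielded).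
* sec. 8  THE COPIES at all centres and scales: `pvbf_rep_at` (`PvplRep` of 238 for `pvtdEv ℓ B x`), `pvbf_win_sub`, **`pvbf_flag_copies`** = the two fields of `PvxpFlag` of `Exit/Pins` (12).
-/

set_option autoImplicit false
set_option linter.unusedSectionVars false
set_option linter.unusedVariables false

namespace Claimed.Agent.R289

open MeasureTheory Set Filter Topology Metric Claims.C0465
open scoped ENNReal

/-! ## 1. local isomorphisms: `PvLoc`, composition, locality among simple spheres -/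

section iso

variable {κ : Type} {V D V' D' V'' D'' : Type}
variable {T : PvMap V D} {mk : V → κ} {s : V → Bool} {T' : PvMap V' D'} {mk' : V' → κ} {s' : V' → Bool} {K : Set κ} {R : V → V' → Prop}

/-- **a `PvplIso` of simple maps is a `PvLoc`** (dart correspondence `PvplRD`) -/
theorem pvbf_toLoc (h : PvplIso T mk s T' mk' s' K R) (hS : T.Simple) (hS' : T'.Simple) : PvLoc T T' (PvplRD T T' R) := by
  refine ⟨⟨fun h1 h2 => h.rd_fn hS' h1 h2, fun h1 h2 => h.rd_inj hS h1 h2, fun h1 => h1.nxt, ?_, ?_⟩, ?_, ?_⟩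
  · intro d d' x' h1 h2
    refine hS' _ _ ?_ ?_
    · rw [T'.src_opp']
      have := h2.1
      rw [T.src_opp'] at this
      exact h.fn _ _ _ this h1.2.1
    · rw [T'.tgt_opp]
      have := h2.2.1
      rw [T.tgt_opp] at this
      exact h.fn _ _ _ this h1.1
  · intro d x d' h1 h2
    refine hS _ _ ?_ ?_
    · rw [T.src_opp']
      have := h2.1
      rw [T'.src_opp'] at this
      exact h.inj _ _ _ this h1.2.1
    · rw [T.tgt_opp]
      have := h2.2.1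
      rw [T'.tgt_opp] at this
      exact h.inj _ _ _ this h1.1
  · intro d e d' e' h1 h2 he
    have := h2.1
    rw [← he] at this
    exact h.fn _ _ _ h1.1 this
  · intro d e d' e' h1 h2 he
    have := h2.1
    rw [← he] at this
    exact h.inj _ _ _ h1.1 this

/-- the domain of the dart correspondence contains the stars of the `K`-marked vertices -/
theorem pvbf_dom (h : PvplIso T mk s T' mk' s' K R) {d : D} (hd : mk (T.src d) ∈ K) : d ∈ plDom (PvplRD T T' R) := h.ex d hd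

/-- the vertex correspondence of `PvplRD` is contained in `R` -/
theorem pvbf_locV {v : V} {v' : V'} (h : pvlocV T T' (PvplRD T T' R) v v') : R v v' := by
  obtain ⟨d, d', h1, rfl, rfl⟩ := h
  exact h1.1

/-- composition of local isomorphisms -/
theorem pvbf_iso_trans {T'' : PvMap V'' D''} {mk'' : V'' → κ} {s'' : V'' → Bool} {R' : V' → V'' → Prop}
    (h : PvplIso T mk s T' mk' s' K R) (h' : PvplIso T' mk' s' T'' mk'' s'' K R') : PvplIso T mk s T'' mk'' s'' K (fun u w => ∃ v, R u v ∧ R' v w) := by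
  refine ⟨?_, ?_, ?_, ?_, ?_, ?_⟩
  · rintro u w ⟨v, h1, h2⟩
    rw [h'.mark _ _ h2, h.mark _ _ h1]
  · rintro u w ⟨v, h1, h2⟩
    rw [h'.col _ _ h2, h.col _ _ h1]
  · rintro u w w' ⟨v, h1, h2⟩ ⟨v', h3, h4⟩
    have := h.fn _ _ _ h1 h3
    subst this
    exact h'.fn _ _ _ h2 h4
  · rintro u u' w ⟨v, h1, h2⟩ ⟨v', h3, h4⟩
    have := h'.inj _ _ _ h2 h4
    subst this
    exact h.inj _ _ _ h1 h3
  · intro d hd
    obtain ⟨d', h1, h2, h3⟩ := h.ex d hd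
    obtain ⟨d'', k1, k2, k3⟩ := h'.ex d' (by rw [h.mark _ _ h1]; exact hd)
    exact ⟨d'', ⟨_, h1, k1⟩, ⟨_, h2, k2⟩, ⟨_, h3, k3⟩⟩
  · intro d'' hd
    obtain ⟨d', k1, k2, k3⟩ := h'.ex' d'' hd
    obtain ⟨d, h1, h2, h3⟩ := h.ex' d' (by rw [← h'.mark _ _ k1]; exact hd)
    exact ⟨d, ⟨_, h1, k1⟩, ⟨_, h2, k2⟩, ⟨_, h3, k3⟩⟩

end iso

/-- `Φ` is LOCAL AMONG SIMPLE SPHERES (one direction: the other one follows by `PvplIso.symm`) -/
def PvbfLocS {κ : Type} (Φ : PvplPred κ) (K : Set κ) : Prop :=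
  ∀ (V D V' D' : Type) (T : PvMap V D) (mk : V → κ) (s : V → Bool) (T' : PvMap V' D') (mk' : V' → κ) (s' : V' → Bool) (R : V → V' → Prop),
    T.IsSph → T.Simple → T'.IsSph → T'.Simple → PvplIso T mk s T' mk' s' K R → Φ V D T mk s → Φ V' D' T' mk' s'

/-- the SATURATION: the maps which are locally isomorphic to a simple sphere with `Φ` -/
def pvbfSat {κ : Type} (Φ : PvplPred κ) (K : Set κ) : PvplPred κ := fun V D T mk s =>
  ∃ (V₀ D₀ : Type) (T₀ : PvMap V₀ D₀) (mk₀ : V₀ → κ) (s₀ : V₀ → Bool) (R₀ : V₀ → V → Prop), T₀.IsSph ∧ T₀.Simple ∧ PvplIso T₀ mk₀ s₀ T mk s K R₀ ∧ Φ V₀ D₀ T₀ mk₀ s₀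

theorem pvbf_eqns_cite : True := by
  have := @PvbfLocS.eq_1; have := @pvbfSat.eq_1
  trivial

section locS

variable {κ : Type} {K : Set κ} {Φ : PvplPred κ}

theorem pvbf_sat_local (Φ : PvplPred κ) (K : Set κ) : (pvbfSat Φ K).Local K := by
  intro V D V' D' T mk s T' mk' s' R hS hS' hi
  constructor
  · rintro ⟨V₀, D₀, T₀, mk₀, s₀, R₀, h1, h2, h3, h4⟩
    exact ⟨V₀, D₀, T₀, mk₀, s₀, _, h1, h2, pvbf_iso_trans h3 hi, h4⟩
  · rintro ⟨V₀, D₀, T₀, mk₀, s₀, R₀, h1, h2, h3, h4⟩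
    exact ⟨V₀, D₀, T₀, mk₀, s₀, _, h1, h2, pvbf_iso_trans h3 hi.symm, h4⟩

theorem pvbf_sat_iff (hΦ : PvbfLocS Φ K) {V D : Type} {T : PvMap V D} (hT : T.IsSph) (hS : T.Simple) (mk : V → κ) (s : V → Bool) : pvbfSat Φ K V D T mk s ↔ Φ V D T mk s := by
  constructor
  · rintro ⟨V₀, D₀, T₀, mk₀, s₀, R₀, h1, h2, h3, h4⟩
    exact hΦ _ _ _ _ _ _ _ _ _ _ _ h1 h2 hT hS h3 h4
  · intro h
    exact ⟨V, D, T, mk, s, _, hT, hS, PvplIso.refl T mk s K, h⟩

theorem PvbfLocS.of_local (h : Φ.Local K) : PvbfLocS Φ K :=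
  fun V D V' D' T mk s T' mk' s' R _ hS _ hS' hi => (h V D V' D' T mk s T' mk' s' R hS hS' hi).1

theorem PvbfLocS.iff (h : PvbfLocS Φ K) {V D V' D' : Type} {T : PvMap V D} {mk : V → κ} {s : V → Bool} {T' : PvMap V' D'} {mk' : V' → κ} {s' : V' → Bool} {R : V → V' → Prop}
    (hT : T.IsSph) (hS : T.Simple) (hT' : T'.IsSph) (hS' : T'.Simple) (hi : PvplIso T mk s T' mk' s' K R) : Φ V D T mk s ↔ Φ V' D' T' mk' s' :=
  ⟨h _ _ _ _ _ _ _ _ _ _ _ hT hS hT' hS' hi, h _ _ _ _ _ _ _ _ _ _ _ hT' hS' hT hS hi.symm⟩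

theorem PvbfLocS.mono (h : PvbfLocS Φ K) {K' : Set κ} (hK : K ⊆ K') : PvbfLocS Φ K' :=
  fun V D V' D' T mk s T' mk' s' R hT hS hT' hS' hi => h V D V' D' T mk s T' mk' s' R hT hS hT' hS' (hi.mono hK)

theorem PvbfLocS.not (h : PvbfLocS Φ K) : PvbfLocS (fun V D T mk s => ¬ Φ V D T mk s) K :=
  fun V D V' D' T mk s T' mk' s' R hT hS hT' hS' hi hn hp => hn (h V' D' V D T' mk' s' T mk s _ hT' hS' hT hS hi.symm hp)

theorem PvbfLocS.and {Ψ : PvplPred κ} (h : PvbfLocS Φ K) (h' : PvbfLocS Ψ K) : PvbfLocS (fun V D T mk s => Φ V D T mk s ∧ Ψ V D T mk s) K :=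
  fun V D V' D' T mk s T' mk' s' R hT hS hT' hS' hi hp => ⟨h V D V' D' T mk s T' mk' s' R hT hS hT' hS' hi hp.1, h' V D V' D' T mk s T' mk' s' R hT hS hT' hS' hi hp.2⟩

theorem PvbfLocS.or {Ψ : PvplPred κ} (h : PvbfLocS Φ K) (h' : PvbfLocS Ψ K) : PvbfLocS (fun V D T mk s => Φ V D T mk s ∨ Ψ V D T mk s) K :=
  fun V D V' D' T mk s T' mk' s' R hT hS hT' hS' hi hp => hp.imp (h V D V' D' T mk s T' mk' s' R hT hS hT' hS' hi) (h' V D V' D' T mk s T' mk' s' R hT hS hT' hS' hi)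

theorem PvbfLocS.exists {ι : Sort*} {Φ : ι → PvplPred κ} (h : ∀ i, PvbfLocS (Φ i) K) : PvbfLocS (fun V D T mk s => ∃ i, Φ i V D T mk s) K :=
  fun V D V' D' T mk s T' mk' s' R hT hS hT' hS' hi ⟨i, hp⟩ => ⟨i, h i V D V' D' T mk s T' mk' s' R hT hS hT' hS' hi hp⟩

theorem PvbfLocS.forall {ι : Sort*} {Φ : ι → PvplPred κ} (h : ∀ i, PvbfLocS (Φ i) K) : PvbfLocS (fun V D T mk s => ∀ i, Φ i V D T mk s) K :=
  fun V D V' D' T mk s T' mk' s' R hT hS hT' hS' hi hp i => h i V D V' D' T mk s T' mk' s' R hT hS hT' hS' hi (hp i)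

/-- **`pvpl_main` of 238 for the predicates which are local among simple spheres** -/
theorem pvbf_main [Countable κ] [MeasurableSpace κ] [MeasurableSingletonClass κ] {θ : ℂ → κ} (hθ : Measurable θ) (hΦ : PvbfLocS Φ K) {E : Set ℂ} {μ : ℝ}
    (hE : PvplWin E) (hμ : 0 < μ) (hK : θ ⁻¹' K ⊆ pvtrCore (3 * μ) E) :
    ∃ B : Set (Conf PvPt), MeasurableSet B ∧ Conf.ReadsSet (E ×ˢ univ) B ∧
      ∀ (X : Type) (𝔅 : PvBulk X) (η : Conf PvPt) (ξ : X → Bool) (zi : ℂ), (η.pts ∩ E ×ˢ univ).Finite → 𝔅.Ok (cfSites η) (θ ⁻¹' K) → PvtrMesh μ E (cfSites η) → θ zi ∉ K →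
        (η ∈ B ↔ Φ _ _ (𝔅.T (cfSites η)) (fun v => θ (𝔅.posF _ zi v)) (𝔅.col η ξ)) := by
  obtain ⟨B, h1, h2, h3⟩ := pvpl_main hθ (pvbf_sat_local Φ K) hE hμ hK
  exact ⟨B, h1, h2, fun X 𝔅 η ξ zi hf hok hm hzi => (h3 X 𝔅 η ξ zi hf hok hm hzi).trans (pvbf_sat_iff hΦ hok.sph hok.simple _ _)⟩

/-- **a local predicate reads the colours of the stars of the `K`-marked vertices only** -/
theorem pvbf_loc_col (hΦ : PvbfLocS Φ K) {V D : Type} {T : PvMap V D} (hT : T.IsSph) (hS : T.Simple) (mk : V → κ) {s s' : V → Bool}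
    (h : ∀ d, mk (T.src d) ∈ K → s' (T.src d) = s (T.src d) ∧ s' (T.tgt d) = s (T.tgt d) ∧ s' (T.apex d) = s (T.apex d)) : Φ V D T mk s ↔ Φ V D T mk s' := by
  have hi : PvplIso T mk s T mk s' K (fun u u' => u = u' ∧ s' u = s u) := by
    refine ⟨?_, ?_, ?_, ?_, ?_, ?_⟩
    · rintro u u' ⟨rfl, -⟩; rfl
    · rintro u u' ⟨rfl, h1⟩; exact h1
    · rintro u u' u'' ⟨rfl, -⟩ ⟨rfl, -⟩; rfl
    · rintro u v u' ⟨rfl, -⟩ ⟨rfl, -⟩; rfl
    · intro d hd
      exact ⟨d, ⟨rfl, (h d hd).1⟩, ⟨rfl, (h d hd).2.1⟩, ⟨rfl, (h d hd).2.2⟩⟩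
    · intro d hd
      exact ⟨d, ⟨rfl, (h d hd).1⟩, ⟨rfl, (h d hd).2.1⟩, ⟨rfl, (h d hd).2.2⟩⟩
  exact ⟨hΦ _ _ _ _ _ _ _ _ _ _ _ hT hS hT hS hi, hΦ _ _ _ _ _ _ _ _ _ _ _ hT hS hT hS hi.symm⟩

end locS

/-! ## 2. the circuits of 233 in MARKS form -/

section marks

variable {κ : Type} {V D V' D' : Type}

/-- `c` is a cycle "at radius `(In, Out)`": finite left side, the vertices with the mark `In` strictly inside, all the vertices of the closed disc have the mark `Out` -/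
structure PvbfAt (T : PvMap V D) (mk : V → κ) (In Out : κ → Prop) (c : T.Cyc) : Prop where
  fin : c.Left.Finite
  inn : ∀ v, In (mk v) → v ∈ T.Int c.Left
  out : ∀ v ∈ T.VOf c.Left, Out (mk v)
  vts : ∀ v ∈ c.verts, Out (mk v)

/-- a cycle at radius `(In, Out)` all of whose allowed (= fresh) vertices have the colour `b` -/
def PvbfCirc (T : PvMap V D) (mk : V → κ) (X : Set V) (In Out : κ → Prop) (b : Bool) (s : V → Bool) : Prop :=
  ∃ c : T.Cyc, PvbfAt T mk In Out c ∧ ∀ v ∈ c.verts, v ∈ X → s v = b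

/-- **BLOCK_j in marks form**: `In n`, `Out n` = the tests `‖p - z‖ ≤ 16^n ρ`, `‖p - z‖ < 5/4 · 16^n ρ` -/
def PvbfGBlock (T : PvMap V D) (mk : V → κ) (In Out : ℕ → κ → Prop) (X : Set V) (j : ℕ) (s : V → Bool) : Prop :=
  PvbfCirc T mk X (In (4 * j)) (Out (4 * j + 1)) true s ∧ PvbfCirc T mk X (In (4 * j + 2)) (Out (4 * j + 3)) false s

theorem pvbf_eqns_cite2 : True := by
  have := @PvbfCirc.eq_1; have := @PvbfGBlock.eq_1
  trivial

variable {T : PvMap V D} {mk : V → κ} {s : V → Bool} {T' : PvMap V' D'} {mk' : V' → κ} {s' : V' → Bool} {K : Set κ} {R : V → V' → Prop}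

theorem pvbf_at_iff [DecidableEq V] (hT : T.IsSph) {pos : V → ℂ} {θ : ℂ → κ} {In Out : κ → Prop} {z : ℂ} {r r' : ℝ} (hIn : ∀ p, In (θ p) ↔ ‖p - z‖ ≤ r) (hOut : ∀ p, Out (θ p) ↔ ‖p - z‖ < r') (c : T.Cyc) :
    PvbfAt T (fun v => θ (pos v)) In Out c ↔ PvaxAt T pos z r r' c := by
  constructor
  · intro h
    exact ⟨h.fin, fun v hv => h.inn v ((hIn _).2 hv), fun v hv => (hOut _).1 (h.out v hv)⟩
  · intro h
    refine ⟨h.fin, fun v hv => h.inn v ((hIn _).1 hv), fun v hv => (hOut _).2 (h.out v hv), fun v hv => (hOut _).2 (h.out v ?_)⟩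
    rw [pl_VOf_left hT]
    exact Or.inl hv

theorem pvbf_circ_iff [DecidableEq V] (hT : T.IsSph) {pos : V → ℂ} {θ : ℂ → κ} {In Out : κ → Prop} {z : ℂ} {r r' : ℝ} (hIn : ∀ p, In (θ p) ↔ ‖p - z‖ ≤ r) (hOut : ∀ p, Out (θ p) ↔ ‖p - z‖ < r')
    (X : Set V) (b : Bool) (s : V → Bool) : PvbfCirc T (fun v => θ (pos v)) X In Out b s ↔ PvbpCirc T pos X z r r' b s :=
  exists_congr fun c => and_congr_left fun _ => pvbf_at_iff hT hIn hOut c

/-- **the marks form IS the geometric block of 233** -/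
theorem pvbf_gblock_iff [DecidableEq V] (hT : T.IsSph) {pos : V → ℂ} {θ : ℂ → κ} {In Out : ℕ → κ → Prop} {z : ℂ} {ρ : ℝ} (hIn : ∀ n p, In n (θ p) ↔ ‖p - z‖ ≤ (16 : ℝ) ^ n * ρ)
    (hOut : ∀ n p, Out n (θ p) ↔ ‖p - z‖ < 5 / 4 * ((16 : ℝ) ^ n * ρ)) (X : Set V) (j : ℕ) (s : V → Bool) :
    PvbfGBlock T (fun v => θ (pos v)) In Out X j s ↔ PvbpGBlock T pos X z ρ j s :=
  and_congr (pvbf_circ_iff hT (hIn _) (hOut _) X true s) (pvbf_circ_iff hT (hIn _) (hOut _) X false s)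

/-- **transfer of a circuit** under a local isomorphism -/
theorem pvbf_circ_iso (h : PvplIso T mk s T' mk' s' K R) (hS : T.Simple) (hS' : T'.Simple) {In Out : κ → Prop} (hIn : ∀ k, In k → k ∈ K) (hOut : ∀ k, Out k → k ∈ K)
    {X : Set V} {X' : Set V'} (hX : ∀ u u', R u u' → (u ∈ X ↔ u' ∈ X')) {b : Bool} (hc : PvbfCirc T mk X In Out b s) : PvbfCirc T' mk' X' In Out b s' := by
  classical
  obtain ⟨c, hat, hcol⟩ := hc
  have L := pvbf_toLoc h hS hS'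
  have hcd : ∀ k, c.e k ∈ plDom (PvplRD T T' R) := fun k => h.ex (c.e k) (hOut _ (hat.vts _ ⟨k, rfl⟩))
  obtain ⟨c', P⟩ := pvloc_cyc_exists L c hcd
  have hL : c.Left ⊆ plDom (PvplRD T T' R) := fun d hd => h.ex d (hOut _ (hat.out _ ⟨d, hd, rfl⟩))
  refine ⟨c', ⟨?_, ?_, ?_, ?_⟩, ?_⟩
  · set f : D → D' := fun d => if hd : ∃ d', PvplRD T T' R d d' then hd.choose else c'.e 0 with hf
    refine (hat.fin.image f).subset fun d' hd' => ?_
    obtain ⟨d, hrd, hd⟩ := pvloc_left_bwd L P hL hd'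
    refine ⟨d, hd, ?_⟩
    have hex : ∃ d', PvplRD T T' R d d' := ⟨d', hrd⟩
    simp only [hf, dif_pos hex]
    exact h.rd_fn hS' hex.choose_spec hrd
  · intro v' hv' d' hd'
    subst hd'
    obtain ⟨d, hrd⟩ := h.ex' d' (hIn _ hv')
    rw [h.mark _ _ hrd.1] at hv'
    exact (pvloc_left L P hL hrd).1 (hat.inn _ hv' d rfl)
  · rintro v' ⟨d', hd', rfl⟩
    obtain ⟨d, hrd, hd⟩ := pvloc_left_bwd L P hL hd'
    rw [h.mark _ _ hrd.1]
    exact hat.out _ ⟨d, hd, rfl⟩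
  · rintro v' ⟨k, rfl⟩
    rw [h.mark _ _ (P.e_rel k).1]
    exact hat.vts _ ⟨k, rfl⟩
  · rintro v' ⟨k, rfl⟩ hx
    rw [h.col _ _ (P.e_rel k).1]
    exact hcol _ ⟨k, rfl⟩ ((hX _ _ (P.e_rel k).1).2 hx)

theorem pvbf_gblock_iso (h : PvplIso T mk s T' mk' s' K R) (hS : T.Simple) (hS' : T'.Simple) {In Out : ℕ → κ → Prop} {j : ℕ} (hIn : ∀ n ≤ 4 * j + 3, ∀ k, In n k → k ∈ K)
    (hOut : ∀ n ≤ 4 * j + 3, ∀ k, Out n k → k ∈ K) {X : Set V} {X' : Set V'} (hX : ∀ u u', R u u' → (u ∈ X ↔ u' ∈ X')) :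
    PvbfGBlock T mk In Out X j s ↔ PvbfGBlock T' mk' In Out X' j s' := by
  constructor
  · rintro ⟨h1, h2⟩
    exact ⟨pvbf_circ_iso h hS hS' (hIn _ (by omega)) (hOut _ (by omega)) hX h1, pvbf_circ_iso h hS hS' (hIn _ (by omega)) (hOut _ (by omega)) hX h2⟩
  · rintro ⟨h1, h2⟩
    exact ⟨pvbf_circ_iso h.symm hS' hS (hIn _ (by omega)) (hOut _ (by omega)) (fun u' u hu => (hX u u' hu).symm) h1,
      pvbf_circ_iso h.symm hS' hS (hIn _ (by omega)) (hOut _ (by omega)) (fun u' u hu => (hX u u' hu).symm) h2⟩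

end marks

/-! ## 3. STATE SCHEMES, the flag predicate -/

/-- a STATE SCHEME: `St V D T mk s F y` = "the state of the marked coloured map `(T, mk, s)` exists, its frozen set is `F`, its tip cell is the cell number `y`" -/
def PvbfSch (κ ζ : Type) : Type 1 := ∀ V D : Type, PvMap V D → (V → κ) → (V → Bool) → Finset V → ζ → Prop

/-- **THE THREE OBLIGATIONS** of the producer of the states (simple spheres only) -/
structure PvbfOk {κ ζ : Type} (St : PvbfSch κ ζ) (K : Set κ) : Prop where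
  /-- the state is read on its frozen set -/
  cyl : ∀ (V D : Type) (T : PvMap V D) (mk : V → κ) (s s' : V → Bool) (F : Finset V) (y : ζ), T.IsSph → T.Simple → (∀ v ∈ F, s' v = s v) → St V D T mk s F y → St V D T mk s' F y
  /-- a colouring has at most one state -/
  uniq : ∀ (V D : Type) (T : PvMap V D) (mk : V → κ) (s : V → Bool) (F F' : Finset V) (y y' : ζ), T.IsSph → T.Simple → St V D T mk s F y → St V D T mk s F' y' → F = F' ∧ y = y'
  /-- the state is carried over by the local isomorphisms -/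
  loc : ∀ (V D V' D' : Type) (T : PvMap V D) (mk : V → κ) (s : V → Bool) (T' : PvMap V' D') (mk' : V' → κ) (s' : V' → Bool) (R : V → V' → Prop),
    T.IsSph → T.Simple → T'.IsSph → T'.Simple → PvplIso T mk s T' mk' s' K R → ∀ (F : Finset V) (y : ζ), St V D T mk s F y →
      ∃ F' : Finset V', St V' D' T' mk' s' F' y ∧ ∀ u u', R u u' → (u ∈ F ↔ u' ∈ F')

/-- **THE FLAG PREDICATE**: the state exists and none of the `J` blocks round its tip cell occurs (fresh = off the frozen set) -/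
def pvbfFlag {κ ζ : Type} (St : PvbfSch κ ζ) (In Out : ζ → ℕ → κ → Prop) (J : ℕ) : PvplPred κ := fun V D T mk s =>
  ∃ (F : Finset V) (y : ζ), St V D T mk s F y ∧ ∀ j < J, ¬ PvbfGBlock T mk (In y) (Out y) (↑F)ᶜ j s

theorem pvbf_eqns_cite3 : True := by
  have := @PvbfSch.eq_1; have := @pvbfFlag.eq_1
  trivial

section flag

variable {κ ζ : Type} {St : PvbfSch κ ζ} {K : Set κ} {In Out : ζ → ℕ → κ → Prop} {J : ℕ}

/-- **the flag predicate is local among simple spheres** -/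
theorem pvbf_flag_locS (hSt : PvbfOk St K) (hIn : ∀ y, ∀ n < 4 * J, ∀ k, In y n k → k ∈ K) (hOut : ∀ y, ∀ n < 4 * J, ∀ k, Out y n k → k ∈ K) : PvbfLocS (pvbfFlag St In Out J) K := by
  intro V D V' D' T mk s T' mk' s' R hT hS hT' hS' hi
  rintro ⟨F, y, h1, h2⟩
  obtain ⟨F', h3, h4⟩ := hSt.loc V D V' D' T mk s T' mk' s' R hT hS hT' hS' hi F y h1
  refine ⟨F', y, h3, fun j hj hb => h2 j hj ?_⟩
  refine (pvbf_gblock_iso hi hS hS' (fun n hn => hIn y n (by omega)) (fun n hn => hOut y n (by omega)) fun u u' hu => ?_).2 hb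
  simp only [mem_compl_iff, Finset.mem_coe]
  exact not_congr (h4 u u' hu)

/-- off the flag: the state has a block (CONSUMER FORM for the sealing lemma of 189 / 70) -/
theorem pvbf_block_of_not_flag {V D : Type} {T : PvMap V D} {mk : V → κ} {s : V → Bool} (h : ¬ pvbfFlag St In Out J V D T mk s) {F : Finset V} {y : ζ} (hs : St V D T mk s F y) :
    ∃ j < J, PvbfGBlock T mk (In y) (Out y) (↑F)ᶜ j s := by
  by_contra hc
  exact h ⟨F, y, hs, fun j hj hb => hc ⟨j, hj, hb⟩⟩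

end flag

/-! ## 4. the quenched bound -/

section quenched

variable {κ ζ : Type} {St : PvbfSch κ ζ} {K : Set κ} {In Out : ζ → ℕ → κ → Prop} {J : ℕ}

/-- **QUENCHED**: on a simple sphere with towers round all the tip cells, `P(flag) ≤ (1 - q²)^J` -/
theorem pvbf_quenched {V D : Type} [DecidableEq V] {T : PvMap V D} (hT : T.IsSph) (hS : T.Simple) (hSt : PvbfOk St K) {pos : V → ℂ} {θ : ℂ → κ} {ctr : ζ → ℂ} {ρ : ℝ} (hρ : 0 < ρ) {q : ℝ} (hq : 0 ≤ q) (hq1 : q ≤ 1)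
    (hIn : ∀ y n p, In y n (θ p) ↔ ‖p - ctr y‖ ≤ (16 : ℝ) ^ n * ρ) (hOut : ∀ y n p, Out y n (θ p) ↔ ‖p - ctr y‖ < 5 / 4 * ((16 : ℝ) ^ n * ρ))
    (htw : ∀ y, ∃ a o : ℕ → T.Cyc, PvbpTw T pos q (ctr y) ρ J a o) (A : Finset V) (ξ : V → Bool) (hA : ∀ y v, ‖pos v - ctr y‖ < 5 / 4 * ((16 : ℝ) ^ (4 * J) * ρ) → v ∈ A) :
    pvaP A ξ (fun ω => pvbfFlag St In Out J V D T (fun v => θ (pos v)) ω) ≤ (1 - q ^ 2) ^ J := by
  have h1 := pvbp_cyl_gblocks hT hS (pos := pos) hq hρ (J := J) (ι := Finset V × ζ) (fun i => i.1) (fun i ω => St V D T (fun v => θ (pos v)) ω i.1 i.2)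
    (fun i ω ω' h hk => hSt.cyl V D T _ ω ω' i.1 i.2 hT hS h hk)
    (fun i i' ω hk hk' => Prod.ext (hSt.uniq V D T _ ω i.1 i'.1 i.2 i'.2 hT hS hk hk').1 (hSt.uniq V D T _ ω i.1 i'.1 i.2 i'.2 hT hS hk hk').2)
    (fun i => ctr i.2) (fun i ω _ => htw i.2) A ξ (fun i ω _ v hv => hA i.2 v hv)
  have h0 : 0 ≤ (1 - q ^ 2) ^ J := pow_nonneg (by nlinarith) J
  refine le_trans (pva_P_mono fun ω _ hω => ?_) (h1.trans (mul_le_of_le_one_right h0 (pva_P_le_one _ _ _)))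
  obtain ⟨F, y, hs, hb⟩ := hω
  exact ⟨(F, y), hs, fun j hj hg => hb j hj ((pvbf_gblock_iff hT (hIn y) (hOut y) _ j ω).2 hg)⟩

end quenched

/-! ## 5. GENERIC ANNEALING of a predicate which is local among simple spheres -/

section anneal

variable {κ : Type} {K : Set κ} {Φ : PvplPred κ} {θ : ℂ → κ} {E : Set ℂ} {μ : ℝ}

/-- in the Delaunay plane, on the mesh event, the stars of the `K`-marked sites lie in the window -/
theorem pvbf_star_win {Y : Set ℂ} (h : DelGood Y) (hμ : 0 < μ) (hm : PvtrMesh μ E Y) (hK : θ ⁻¹' K ⊆ pvtrCore (3 * μ) E) (d : DelDart h) (hd : θ (dlsPos Y ((delMap h).src d)) ∈ K) :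
    (((delMap h).src d : Y) : ℂ) ∈ E ∧ (((delMap h).tgt d : Y) : ℂ) ∈ E ∧ (((delMap h).apex d : Y) : ℂ) ∈ E := by
  have hr := pvtr_of_mesh_vertex hμ hm (hK hd) (dls_face d)
  exact ⟨hr.mem_a.2, hr.mem_b.2, hr.mem_c.2⟩

/-- the predicate on the Delaunay plane reads the colours of the sites of the window -/
theorem pvbf_plane_loc (hΦ : PvbfLocS Φ K) {Y : Set ℂ} (h : DelGood Y) (hμ : 0 < μ) (hm : PvtrMesh μ E Y) (hK : θ ⁻¹' K ⊆ pvtrCore (3 * μ) E) (A : Finset Y) (hA : ∀ v : Y, (v : ℂ) ∈ E → v ∈ A) :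
    PvalLoc A (fun ω => Φ _ _ (delMap h) (fun v => θ (dlsPos Y v)) ω) := by
  intro ω ω' hω
  refine propext (pvbf_loc_col hΦ (dls_isSph h) (dls_simple h) _ fun d hd => ?_)
  obtain ⟨h1, h2, h3⟩ := pvbf_star_win h hμ hm hK d hd
  exact ⟨(hω _ (hA _ h1)).symm, (hω _ (hA _ h2)).symm, (hω _ (hA _ h3)).symm⟩

/-- the event `B` at the sample `(g, c)` = the predicate on the Delaunay plane of `pvgSites g` with the colours `pvgColAt g c` -/
theorem pvbf_plane_iff {B : Set (Conf PvPt)}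
    (hB : ∀ (η : Conf PvPt) (ξ : Empty → Bool) (zi : ℂ), (η.pts ∩ E ×ˢ univ).Finite → dlsBulk.Ok (cfSites η) (θ ⁻¹' K) → PvtrMesh μ E (cfSites η) → θ zi ∉ K →
      (η ∈ B ↔ Φ _ _ (dlsBulk.T (cfSites η)) (fun v => θ (dlsBulk.posF _ zi v)) (dlsBulk.col η ξ)))
    (hEb : Bornology.IsBounded E) (hμ : 0 < μ) (hK : θ ⁻¹' K ⊆ pvtrCore (3 * μ) E) {g : PvGeoT} (hg : PvgOk g) (h : DelGood (pvgSites g)) (hm : PvtrMesh μ E (pvgSites g)) (c : PvColT) :
    pvConf (pvMerge (g, c)) ∈ B ↔ Φ _ _ (delMap h) (fun v => θ (dlsPos (pvgSites g) v)) (fun v => pvgColAt g c v) := by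
  have hs : cfSites (pvConf (pvMerge (g, c))) = pvgSites g := pvqu_cfSites g c
  -- a far point
  obtain ⟨r, hr⟩ := hEb.subset_closedBall 0
  have hziE : (((|r| + 1 : ℝ)) : ℂ) ∉ E := by
    intro hz
    have := hr hz
    rw [mem_closedBall, dist_zero_right, Complex.norm_real, Real.norm_of_nonneg (by positivity)] at this
    have := le_abs_self r
    linarith
  have hzi : θ (((|r| + 1 : ℝ)) : ℂ) ∉ K := by
    intro hz
    have h1 : closedBall (((|r| + 1 : ℝ)) : ℂ) (3 * μ) ⊆ E := hK hz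
    exact hziE (h1 (mem_closedBall_self (by positivity)))
  have hfin : ((pvConf (pvMerge (g, c))).pts ∩ E ×ˢ univ).Finite := by
    refine ((hg.sites_finite hEb).prod (finite_univ : (univ : Set Bool).Finite)).subset ?_
    rintro p ⟨hp, hpE⟩
    refine ⟨⟨?_, hpE.1⟩, mem_univ _⟩
    rw [← hs]
    exact ⟨p, hp, rfl⟩
  have hok : dlsBulk.Ok (cfSites (pvConf (pvMerge (g, c)))) (θ ⁻¹' K) := dls_bulk_ok (by rw [hs]; exact h) _
  rw [hB _ (fun e => e.elim) _ hfin hok (by rw [hs]; exact hm) hzi]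
  rw [pval_col_merge dlsBulk (fun Y s => Φ _ _ (dlsBulk.T Y) (fun v => θ (dlsBulk.posF Y (((|r| + 1 : ℝ)) : ℂ) v)) s) hg (dls_bulk_ok h (θ ⁻¹' K)).site c (fun e => e.elim)]
  have key : ∀ (P1 P2 : PlTri (pvgSites g)), P1 = P2 → ∀ (mk : pvgSites g → κ) (s : pvgSites g → Bool), (Φ _ _ P1.toMap mk s ↔ Φ _ _ P2.toMap mk s) := by
    rintro _ _ rfl _ _; rfl
  exact key _ _ (dls_T_eq h) _ _

open Classical in
/-- **GENERIC ANNEALING**: a quenched bound on the good geometries ⟹ the annealed bound, up to the OUTER measure of the bad geometries -/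
theorem pvbf_anneal (hΦ : PvbfLocS Φ K) {B : Set (Conf PvPt)} (hBm : MeasurableSet B)
    (hB : ∀ (η : Conf PvPt) (ξ : Empty → Bool) (zi : ℂ), (η.pts ∩ E ×ˢ univ).Finite → dlsBulk.Ok (cfSites η) (θ ⁻¹' K) → PvtrMesh μ E (cfSites η) → θ zi ∉ K →
      (η ∈ B ↔ Φ _ _ (dlsBulk.T (cfSites η)) (fun v => θ (dlsBulk.posF _ zi v)) (dlsBulk.col η ξ)))
    (hEb : Bornology.IsBounded E) (hμ : 0 < μ) (hK : θ ⁻¹' K ⊆ pvtrCore (3 * μ) E) (Good : Set ℂ → Prop) {p : ℝ}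
    (hq : ∀ (Y : Set ℂ) (h : DelGood Y), Good Y → PvtrMesh μ E Y → ∀ (A : Finset Y) (ξ : Y → Bool), (∀ v : Y, (v : ℂ) ∈ E → v ∈ A) →
      pvaP A ξ (fun ω => Φ _ _ (delMap h) (fun v => θ (dlsPos Y v)) ω) ≤ p)
    {ε : ℝ} (hε : 0 < ε) :
    pvP ε B ≤ ENNReal.ofReal p + pvGeo ε {g | ¬ (Good (pvgSites g) ∧ PvtrMesh μ E (pvgSites g))} := by
  set Bad0 : Set PvGeoT := {g | ¬ (Good (pvgSites g) ∧ PvtrMesh μ E (pvgSites g))} with hBad0
  set N : Set PvGeoT := {g | ¬ (PvgOk g ∧ DelGood (pvgSites g))} with hN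
  have hN0 : pvGeo ε N = 0 := ae_iff.1 ((pvqu_ok_ae ε).and (dls_ae_geo hε))
  have h1 := pvat_sum_le ε ({()} : Finset Unit) (𝒜 := fun _ => B) (fun _ _ => measurable_pvConf hBm) (Bad0 ∪ N) (ENNReal.ofReal p) (by
    intro g hg
    rw [Finset.sum_singleton]
    have hg1 : Good (pvgSites g) ∧ PvtrMesh μ E (pvgSites g) := by
      by_contra hc
      exact hg (Or.inl hc)
    have hg2 : PvgOk g ∧ DelGood (pvgSites g) := by
      by_contra hc
      exact hg (Or.inr hc)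
    have hfin : {v : pvgSites g | (v : ℂ) ∈ E}.Finite := by
      have := (hg2.1.sites_finite hEb).preimage (f := (Subtype.val : pvgSites g → ℂ)) Subtype.val_injective.injOn
      exact this.subset fun v hv => ⟨v.2, hv⟩
    have hA : ∀ v : pvgSites g, (v : ℂ) ∈ E → v ∈ hfin.toFinset := fun v hv => hfin.mem_toFinset.2 hv
    rw [pvqu_Qc_eq]
    have e : {c | pvConf (pvMerge (g, c)) ∈ B} = {c | (fun ω => Φ _ _ (delMap hg2.2) (fun v => θ (dlsPos (pvgSites g) v)) ω) (fun v => pvgColAt g c v)} := by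
      ext c
      exact pvbf_plane_iff hB hEb hμ hK hg2.1 hg2.2 hg1.2 c
    rw [e, pvbp_col g hfin.toFinset _ (pvbf_plane_loc hΦ hg2.2 hμ hg1.2 hK _ hA) (fun _ => false)]
    exact ENNReal.ofReal_le_ofReal (hq _ hg2.2 hg1.1 hg1.2 _ _ hA))
  rw [Finset.sum_singleton, Finset.card_singleton, Nat.cast_one, one_mul] at h1
  refine h1.trans (add_le_add le_rfl ?_)
  calc pvGeo ε (Bad0 ∪ N) ≤ pvGeo ε Bad0 + pvGeo ε N := measure_union_le _ _
    _ = pvGeo ε Bad0 := by rw [hN0, add_zero]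

/-- the mesh event of a bounded window fails with small probability -/
theorem pvbf_mesh_geo (hEb : Bornology.IsBounded E) (hμ : 0 < μ) : Tendsto (fun ε : ℝ => pvGeo ε {g | ¬ PvtrMesh μ E (pvgSites g)}) (𝓝[>] 0) (𝓝 0) := by
  obtain ⟨L, hL⟩ := hEb.subset_closedBall (0 : ℂ)
  have hL' : E ⊆ closedBall (0 : ℂ) (max L 0) := hL.trans (closedBall_subset_closedBall (le_max_left _ _))
  refine tendsto_of_tendsto_of_tendsto_of_le_of_le tendsto_const_nhds (pvmg_G_tendsto hμ (le_max_right L 0) 0) (fun _ => zero_le) fun ε => measure_mono ?_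
  intro g hg hG
  refine hg fun z hz => pvmg_G_dense hμ hG z ?_
  have hzE : z ∈ E := hz (mem_closedBall_self hμ.le)
  have h1 := hL' hzE
  rw [mem_closedBall_zero_iff] at h1
  refine ⟨?_, ?_⟩
  · simpa using (Complex.abs_re_le_norm z).trans h1
  · simpa using (Complex.abs_im_le_norm z).trans h1

end anneal

/-! ## 6. FLAG2 -/

section final

variable {κ ζ : Type} {St : PvbfSch κ ζ} {K : Set κ} {In Out : ζ → ℕ → κ → Prop} {J : ℕ} {θ : ℂ → κ} {E : Set ℂ} {μ : ℝ}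

/-- **FLAG2 AS A STATIC LOCAL FLAG** (one scheme = one level, one sign, one type) -/
theorem pvbf_flag2 [Countable κ] [MeasurableSpace κ] [MeasurableSingletonClass κ] [Finite ζ] (hθ : Measurable θ) (hSt : PvbfOk St K) {ctr : ζ → ℂ} {ρ : ℝ} (hρ : 0 < ρ) (hJ : 0 < J)
    (hIn : ∀ y n p, In y n (θ p) ↔ ‖p - ctr y‖ ≤ (16 : ℝ) ^ n * ρ) (hOut : ∀ y n p, Out y n (θ p) ↔ ‖p - ctr y‖ < 5 / 4 * ((16 : ℝ) ^ n * ρ))
    (hInK : ∀ y, ∀ n < 4 * J, ∀ k, In y n k → k ∈ K) (hOutK : ∀ y, ∀ n < 4 * J, ∀ k, Out y n k → k ∈ K)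
    (hE : PvplWin E) (hEb : Bornology.IsBounded E) (hμ : 0 < μ) (hK : θ ⁻¹' K ⊆ pvtrCore (3 * μ) E) (hEy : ∀ y, ball (ctr y) (5 / 4 * ((16 : ℝ) ^ (4 * J) * ρ)) ⊆ E)
    {q : ℝ} (hq : 0 < q) (hq1 : q ≤ 1) (hQ : PvaxQbx q) :
    ∃ B : Set (Conf PvPt), MeasurableSet B ∧ Conf.ReadsSet (E ×ˢ univ) B ∧
      (∀ (X : Type) (𝔅 : PvBulk X) (η : Conf PvPt) (ξ : X → Bool) (zi : ℂ), (η.pts ∩ E ×ˢ univ).Finite → 𝔅.Ok (cfSites η) (θ ⁻¹' K) → PvtrMesh μ E (cfSites η) → θ zi ∉ K →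
        (η ∈ B ↔ pvbfFlag St In Out J _ _ (𝔅.T (cfSites η)) (fun v => θ (𝔅.posF _ zi v)) (𝔅.col η ξ))) ∧
      ∀ δ : ℝ, 0 < δ → ∀ᶠ ε in 𝓝[>] (0 : ℝ), pvP ε B ≤ ENNReal.ofReal ((1 - q ^ 2) ^ J + δ) := by
  classical
  have hloc := pvbf_flag_locS hSt hInK hOutK
  obtain ⟨B, hBm, hBr, hBs⟩ := pvbf_main hθ hloc hE hμ hK
  refine ⟨B, hBm, hBr, hBs, fun δ hδ => ?_⟩
  set Z : Finset ℂ := (finite_range ctr).toFinset with hZ
  have hz : ∀ y, ctr y ∈ Z := fun y => (finite_range ctr).mem_toFinset.2 ⟨y, rfl⟩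
  have h1 := pvbp_frame_geo hQ Z (pvbpRs ρ J) (pvbp_Rs_pos hρ)
  have h2 := pvbf_mesh_geo (E := E) hEb hμ
  have h3 := h1.add h2
  rw [add_zero] at h3
  have h4 : ∀ᶠ ε in 𝓝[>] (0 : ℝ), pvGeo ε {g | ¬ PvaxFrame q Z (pvbpRs ρ J) (pvgSites g)} + pvGeo ε {g | ¬ PvtrMesh μ E (pvgSites g)} < ENNReal.ofReal δ :=
    h3.eventually_lt_const (ENNReal.ofReal_pos.2 hδ)
  have hp0 : 0 ≤ (1 - q ^ 2) ^ J := pow_nonneg (by nlinarith) J
  filter_upwards [h4, self_mem_nhdsWithin] with ε hlt hε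
  have h5 := pvbf_anneal hloc hBm (fun η ξ zi => hBs Empty dlsBulk η ξ zi) hEb hμ hK (fun Y => PvaxFrame q Z (pvbpRs ρ J) Y) (p := (1 - q ^ 2) ^ J) (by
    intro Y h hF hm A ξ hA
    exact pvbf_quenched (dls_isSph h) (dls_simple h) hSt hρ hq.le hq1 hIn hOut (fun y => pvbp_frame_tower hρ hJ hF h (hz y)) A ξ
      (fun y v hv => hA v (hEy y (by rw [mem_ball, dist_eq_norm]; exact hv)))) hε
  refine h5.trans ?_
  rw [ENNReal.ofReal_add hp0 hδ.le]
  refine add_le_add le_rfl (le_trans ?_ hlt.le)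
  refine (measure_mono ?_).trans (measure_union_le _ _)
  intro g hg
  by_cases hF : PvaxFrame q Z (pvbpRs ρ J) (pvgSites g)
  · exact Or.inr fun hm => hg ⟨hF, hm⟩
  · exact Or.inl hF

/-- **FLAG2, finite union** over `a : α` (levels `k ≤ K`, the two signs, the types): RULING 11 (1) of 234 -/
theorem pvbf_flag2_fin {α : Type} [Fintype α] [Countable κ] [MeasurableSpace κ] [MeasurableSingletonClass κ] [Finite ζ] (hθ : Measurable θ) {St : α → PvbfSch κ ζ} (hSt : ∀ a, PvbfOk (St a) K)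
    {ctr : ζ → ℂ} {ρ : ℝ} (hρ : 0 < ρ) (hJ : 0 < J)
    (hIn : ∀ y n p, In y n (θ p) ↔ ‖p - ctr y‖ ≤ (16 : ℝ) ^ n * ρ) (hOut : ∀ y n p, Out y n (θ p) ↔ ‖p - ctr y‖ < 5 / 4 * ((16 : ℝ) ^ n * ρ))
    (hInK : ∀ y, ∀ n < 4 * J, ∀ k, In y n k → k ∈ K) (hOutK : ∀ y, ∀ n < 4 * J, ∀ k, Out y n k → k ∈ K)
    (hE : PvplWin E) (hEb : Bornology.IsBounded E) (hμ : 0 < μ) (hK : θ ⁻¹' K ⊆ pvtrCore (3 * μ) E) (hEy : ∀ y, ball (ctr y) (5 / 4 * ((16 : ℝ) ^ (4 * J) * ρ)) ⊆ E)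
    {q : ℝ} (hq : 0 < q) (hq1 : q ≤ 1) (hQ : PvaxQbx q) :
    ∃ B : Set (Conf PvPt), MeasurableSet B ∧ Conf.ReadsSet (E ×ˢ univ) B ∧
      (∀ (X : Type) (𝔅 : PvBulk X) (η : Conf PvPt) (ξ : X → Bool) (zi : ℂ), (η.pts ∩ E ×ˢ univ).Finite → 𝔅.Ok (cfSites η) (θ ⁻¹' K) → PvtrMesh μ E (cfSites η) → θ zi ∉ K →
        (η ∈ B ↔ ∃ a, pvbfFlag (St a) In Out J _ _ (𝔅.T (cfSites η)) (fun v => θ (𝔅.posF _ zi v)) (𝔅.col η ξ))) ∧
      ∀ δ : ℝ, 0 < δ → ∀ᶠ ε in 𝓝[>] (0 : ℝ), pvP ε B ≤ ENNReal.ofReal (Fintype.card α * (1 - q ^ 2) ^ J + δ) := by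
  choose B hBm hBr hBi hBp using fun a => pvbf_flag2 hθ (hSt a) hρ hJ hIn hOut hInK hOutK hE hEb hμ hK hEy hq hq1 hQ
  refine ⟨⋃ a, B a, MeasurableSet.iUnion hBm, Conf.ReadsSet.iUnion hBr, ?_, ?_⟩
  · intro X 𝔅 η ξ zi h1 h2 h3 h4
    rw [mem_iUnion]
    exact exists_congr fun a => hBi a X 𝔅 η ξ zi h1 h2 h3 h4
  · intro δ hδ
    have hc : (0 : ℝ) < Fintype.card α + 1 := by positivity
    have hr : (0 : ℝ) ≤ (1 - q ^ 2) ^ J := pow_nonneg (by nlinarith) J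
    have hall : ∀ᶠ ε in 𝓝[>] (0 : ℝ), ∀ a, pvP ε (B a) ≤ ENNReal.ofReal ((1 - q ^ 2) ^ J + δ / (Fintype.card α + 1)) :=
      eventually_all.2 fun a => hBp a _ (div_pos hδ hc)
    filter_upwards [hall] with ε hε
    calc pvP ε (⋃ a, B a) ≤ ∑ a, pvP ε (B a) := measure_iUnion_fintype_le _ _
      _ ≤ ∑ _a : α, ENNReal.ofReal ((1 - q ^ 2) ^ J + δ / (Fintype.card α + 1)) := Finset.sum_le_sum fun a _ => hε a
      _ = ENNReal.ofReal (Fintype.card α * ((1 - q ^ 2) ^ J + δ / (Fintype.card α + 1))) := by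
        rw [Finset.sum_const, Finset.card_univ, nsmul_eq_mul, ENNReal.ofReal_mul (by positivity), ENNReal.ofReal_natCast]
      _ ≤ _ := by
        refine ENNReal.ofReal_le_ofReal ?_
        have h1 : (Fintype.card α : ℝ) * (δ / (Fintype.card α + 1)) ≤ δ := by
          rw [mul_div_assoc', div_le_iff₀ hc]
          nlinarith
        nlinarith

/-- the number of blocks needed for a given cost: `card α · (1 - q²)^J → 0` -/
theorem pvbf_J_exists {q : ℝ} (hq : 0 < q) (hq1 : q ≤ 1) (N : ℕ) {δ : ℝ} (hδ : 0 < δ) : ∃ J : ℕ, 0 < J ∧ (N : ℝ) * (1 - q ^ 2) ^ J < δ := by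
  have h0 : (0 : ℝ) ≤ 1 - q ^ 2 := by nlinarith
  have h1 : 1 - q ^ 2 < 1 := by nlinarith
  have ht : Tendsto (fun J : ℕ => (N : ℝ) * (1 - q ^ 2) ^ J) atTop (𝓝 ((N : ℝ) * 0)) := (tendsto_pow_atTop_nhds_zero_of_lt_one h0 h1).const_mul _
  rw [mul_zero] at ht
  obtain ⟨J, hJ1, hJ2⟩ := ((eventually_gt_atTop 0).and (ht.eventually (gt_mem_nhds hδ))).exists
  exact ⟨J, hJ1, hJ2⟩

end final

/-! ## 7. MARKOV FORM (v3.2 of 208: no union over the levels) -/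

section markov

variable {κ ζ : Type} {K : Set κ} {In Out : ζ → ℕ → κ → Prop} {J : ℕ} {θ : ℂ → κ} {E : Set ℂ} {μ : ℝ}

/-- at least `m` of the predicates `Φ a` hold -/
def pvbfMany {κ α : Type} (Φ : α → PvplPred κ) (m : ℕ) : PvplPred κ := fun V D T mk s => ∃ U : Finset α, m ≤ U.card ∧ ∀ a ∈ U, Φ a V D T mk s

theorem pvbf_eqns_cite4 : True := by
  have := @pvbfMany.eq_1
  trivial

theorem pvbf_many_locS {α : Type} {Φ : α → PvplPred κ} (h : ∀ a, PvbfLocS (Φ a) K) (m : ℕ) : PvbfLocS (pvbfMany Φ m) K := by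
  intro V D V' D' T mk s T' mk' s' R hT hS hT' hS' hi
  rintro ⟨U, h1, h2⟩
  exact ⟨U, h1, fun a ha => h a V D V' D' T mk s T' mk' s' R hT hS hT' hS' hi (h2 a ha)⟩

open Classical in
/-- CONSUMER FORM: off the Markov flag fewer than `m` of the predicates hold -/
theorem pvbf_many_use {α : Type} [Fintype α] {Φ : α → PvplPred κ} {m : ℕ} {V D : Type} {T : PvMap V D} {mk : V → κ} {s : V → Bool} (h : ¬ pvbfMany Φ m V D T mk s) :
    (Finset.univ.filter fun a => Φ a V D T mk s).card < m := by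
  by_contra hc
  exact h ⟨_, not_lt.1 hc, fun a ha => (Finset.mem_filter.1 ha).2⟩

open Classical in
/-- CONSUMER FORM: two families with few exceptions leave a common good index (`FLAG1` and `FLAG2`: a level which is calm AND shielded) -/
theorem pvbf_many_pick {α : Type} [Fintype α] {P Q : α → Prop} {m n : ℕ} (hP : (Finset.univ.filter P).card < m) (hQ : (Finset.univ.filter Q).card < n) (hc : m + n ≤ Fintype.card α + 1) :
    ∃ a, ¬ P a ∧ ¬ Q a := by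
  by_contra hcon
  have hcov : (Finset.univ : Finset α) ⊆ Finset.univ.filter P ∪ Finset.univ.filter Q := by
    intro a _
    by_cases hp : P a
    · exact Finset.mem_union_left _ (Finset.mem_filter.2 ⟨Finset.mem_univ _, hp⟩)
    · by_cases hq : Q a
      · exact Finset.mem_union_right _ (Finset.mem_filter.2 ⟨Finset.mem_univ _, hq⟩)
      · exact absurd ⟨a, hp, hq⟩ hcon
  have h1 := (Finset.card_le_card hcov).trans (Finset.card_union_le _ _)
  rw [Finset.card_univ] at h1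
  omega

/-- **FLAG2, MARKOV FORM**: `{at least m of the flags (level, sign) are raised}` -/
theorem pvbf_flag2_markov {α : Type} [Fintype α] [Countable κ] [MeasurableSpace κ] [MeasurableSingletonClass κ] [Finite ζ] (hθ : Measurable θ) {St : α → PvbfSch κ ζ} (hSt : ∀ a, PvbfOk (St a) K)
    {ctr : ζ → ℂ} {ρ : ℝ} (hρ : 0 < ρ) (hJ : 0 < J)
    (hIn : ∀ y n p, In y n (θ p) ↔ ‖p - ctr y‖ ≤ (16 : ℝ) ^ n * ρ) (hOut : ∀ y n p, Out y n (θ p) ↔ ‖p - ctr y‖ < 5 / 4 * ((16 : ℝ) ^ n * ρ))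
    (hInK : ∀ y, ∀ n < 4 * J, ∀ k, In y n k → k ∈ K) (hOutK : ∀ y, ∀ n < 4 * J, ∀ k, Out y n k → k ∈ K)
    (hE : PvplWin E) (hEb : Bornology.IsBounded E) (hμ : 0 < μ) (hK : θ ⁻¹' K ⊆ pvtrCore (3 * μ) E) (hEy : ∀ y, ball (ctr y) (5 / 4 * ((16 : ℝ) ^ (4 * J) * ρ)) ⊆ E)
    {q : ℝ} (hq : 0 < q) (hq1 : q ≤ 1) (hQ : PvaxQbx q) {m : ℕ} (hm : 0 < m) :
    ∃ B : Set (Conf PvPt), MeasurableSet B ∧ Conf.ReadsSet (E ×ˢ univ) B ∧ PvplRep θ (pvbfMany (fun a => pvbfFlag (St a) In Out J) m) K E μ B ∧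
      ∀ δ : ℝ, 0 < δ → ∀ᶠ ε in 𝓝[>] (0 : ℝ), pvP ε B ≤ ENNReal.ofReal (Fintype.card α * ((1 - q ^ 2) ^ J + δ) / m) := by
  classical
  choose B hBm hBr hBi hBp using fun a => pvbf_flag2 hθ (hSt a) hρ hJ hIn hOut hInK hOutK hE hEb hμ hK hEy hq hq1 hQ
  have e : {η : Conf PvPt | ∃ U : Finset α, m ≤ U.card ∧ ∀ a ∈ U, η ∈ B a} = ⋃ U : Finset α, ⋃ _ : m ≤ U.card, ⋂ a ∈ U, B a := by
    ext η
    simp only [mem_ofPred_eq, mem_iUnion, mem_iInter, exists_prop]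
  refine ⟨{η | ∃ U : Finset α, m ≤ U.card ∧ ∀ a ∈ U, η ∈ B a}, ?_, ?_, ?_, ?_⟩
  · rw [e]
    exact MeasurableSet.iUnion fun U => MeasurableSet.iUnion fun _ => MeasurableSet.iInter fun a => MeasurableSet.iInter fun _ => hBm a
  · rw [e]
    exact Conf.ReadsSet.iUnion fun U => Conf.ReadsSet.iUnion fun _ => Conf.ReadsSet.iInter fun a => Conf.ReadsSet.iInter fun _ => hBr a
  · intro X 𝔅 η ξ zi h1 h2 h3 h4
    exact exists_congr fun U => and_congr_right fun _ => forall_congr' fun a => forall_congr' fun _ => hBi a X 𝔅 η ξ zi h1 h2 h3 h4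
  · intro δ hδ
    have hr : (0 : ℝ) ≤ (1 - q ^ 2) ^ J := pow_nonneg (by nlinarith) J
    have hall : ∀ᶠ ε in 𝓝[>] (0 : ℝ), ∀ a, pvP ε (B a) ≤ ENNReal.ofReal ((1 - q ^ 2) ^ J + δ) := eventually_all.2 fun a => hBp a _ hδ
    filter_upwards [hall] with ε hε
    have h1 := pvpl_markov (pvP ε) (Finset.univ : Finset α) B m hm
    have hm' : (0 : ℝ) < m := Nat.cast_pos.2 hm
    calc pvP ε {η | ∃ U : Finset α, m ≤ U.card ∧ ∀ a ∈ U, η ∈ B a} ≤ pvP ε {η | ∃ U ⊆ (Finset.univ : Finset α), m ≤ U.card ∧ ∀ a ∈ U, η ∈ B a} :=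
          measure_mono fun η ⟨U, h2, h3⟩ => ⟨U, Finset.subset_univ _, h2, h3⟩
      _ ≤ (∑ a, pvP ε (B a)) / m := h1
      _ ≤ (∑ _a : α, ENNReal.ofReal ((1 - q ^ 2) ^ J + δ)) / m := ENNReal.div_le_div_right (Finset.sum_le_sum fun a _ => hε a) _
      _ = ENNReal.ofReal (Fintype.card α * ((1 - q ^ 2) ^ J + δ) / m) := by
        rw [Finset.sum_const, Finset.card_univ, nsmul_eq_mul, ENNReal.ofReal_div_of_pos hm', ENNReal.ofReal_mul (by positivity), ENNReal.ofReal_natCast, ENNReal.ofReal_natCast]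

end markov

/-! ## 8. THE COPIES AT ALL CENTRES AND SCALES, in the shape `PvxpFlag` of the roof of the pins (`Exit/Pins`, 12) -/

section copies

variable {κ : Type} {K : Set κ} {θ : ℂ → κ} {E : Set ℂ} {μ : ℝ}

theorem pvbf_sim_eq (ℓ : ℝ) (x : ℤ × ℤ) : pvtdSim ℓ x = vorSim ((ℓ : ℂ)⁻¹) (-((ℓ : ℂ)⁻¹ * pv5Ctr ℓ x)) := by
  funext z
  simp only [pvtdSim, vorSim, Complex.real_smul, Complex.ofReal_inv]
  ring

/-- the copy at the block `x` of side `ℓ` represents the same predicate with the moved tests -/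
theorem pvbf_rep_at {Φ : PvplPred κ} {B : Set (Conf PvPt)} (hB : PvplRep θ Φ K E μ B) {ℓ : ℝ} (hℓ : 0 < ℓ) (x : ℤ × ℤ) :
    PvplRep (θ ∘ pvtdSim ℓ x) Φ K (pvtdSim ℓ x ⁻¹' E) (μ * ℓ) (pvtdEv ℓ B x) := by
  have hα : ((ℓ : ℂ)⁻¹) ≠ 0 := inv_ne_zero (Complex.ofReal_ne_zero.2 hℓ.ne')
  have hn : μ / ‖((ℓ : ℂ)⁻¹)‖ = μ * ℓ := by
    rw [norm_inv, Complex.norm_real, Real.norm_of_nonneg hℓ.le, div_inv_eq_mul]
  have key := hB.sim hα (-((ℓ : ℂ)⁻¹ * pv5Ctr ℓ x))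
  rw [hn, ← pvbf_sim_eq] at key
  exact key

/-- a window inside the square of half side `w` is read from the boxes at distance `≤ w` -/
theorem pvbf_win_sub {w : ℕ} (hE : ∀ z ∈ E, |z.re| ≤ w ∧ |z.im| ≤ w) : E ×ˢ (univ : Set Bool) ⊆ pvtdWin 1 w 0 := by
  rintro p ⟨hp, -⟩
  obtain ⟨h1, h2⟩ := hE _ hp
  have key : ∀ u : ℝ, |u| ≤ w → |⌊u / 1⌋ - (0 : ℤ)| ≤ (w : ℤ) := by
    intro u hu
    rw [div_one, sub_zero, abs_le]
    obtain ⟨h3, h4⟩ := abs_le.1 hu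
    constructor
    · rw [Int.le_floor]
      push_cast
      exact h3
    · have : (⌊u⌋ : ℝ) ≤ w := (Int.floor_le u).trans h4
      exact_mod_cast this
  exact max_le (key _ h1) (key _ h2)

/-- **ONE EVENT OF UNIT SCALE ⟹ A STATIC LOCAL FLAG** (the two fields `reads`, `small` of `PvxpFlag h w ζ (fun m p => pvtdEv (h m) B p)`) -/
theorem pvbf_flag_copies {B : Set (Conf PvPt)} {w : ℕ} (hr : Conf.ReadsSet (pvtdWin 1 w 0) B) {ζ : ℝ≥0∞} (hs : ∀ᶠ ε in 𝓝[>] (0 : ℝ), pvP ε B ≤ ζ) {h : ℕ → ℝ} (hh : ∀ m, 0 < h m) :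
    (∀ m p, Conf.ReadsSet (pvtdWin (h m) w p) (pvtdEv (h m) B p)) ∧ ∀ m, ∀ᶠ ε in 𝓝[>] (0 : ℝ), ∀ p, pvP ε (pvtdEv (h m) B p) ≤ ζ := by
  refine ⟨fun m p => pvtd_ev_reads (hh m) w p hr, fun m => ?_⟩
  have ht : Tendsto (fun ε : ℝ => (h m)⁻¹ * ε) (𝓝[>] 0) (𝓝[>] 0) := by
    refine tendsto_nhdsWithin_iff.2 ⟨?_, ?_⟩
    · have : Tendsto (fun ε : ℝ => (h m)⁻¹ * ε) (𝓝 0) (𝓝 ((h m)⁻¹ * 0)) := tendsto_const_nhds.mul tendsto_id
      rw [mul_zero] at this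
      exact this.mono_left nhdsWithin_le_nhds
    · filter_upwards [self_mem_nhdsWithin] with ε hε
      exact mul_pos (inv_pos.2 (hh m)) hε
  filter_upwards [ht.eventually hs] with ε hε p
  exact (pvtd_ev_le (hh m).ne' p ε B).trans hε

end copies

end Claimed.Agent.R289
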