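import Claimed.Agent.R289.Tr.Nb
import Claimed.Agent.R289.Tr.Tight
import Claimed.Agent.R289.Tr.Arc
import Claimed.Agent.R289.Tr.Sweep
import Claimed.Agent.R289.Tr.Defs

/-!
# Row 289 (S0537, Cardy for Poisson-Voronoi), THE WALL, file Tr/BrSide : BRIDGE OF THE FAMILY "RIGHT SIDE"      (owner helper156; post Y (b) of 82, head of the bridges helper113; prefix `pvjr_`)

ONE OBJECT, SIX NAMES.  `T : PvMap V D`, a dart has its face on the LEFT, `rot` = positive rotation round the source.  A path / cycle is travelled with the wall on its RIGHT.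
* `T.OSec x y` (105, `Tr/Nb`)                 open sector from `x` to `y`;      `pvttBtw T a b x` (194, `Tr/Tight`) = the same + `a ≠ b`
* `g.RS a0 a1 k` (105)                        right darts of the arc `g` at its vertex `k`, spokes `a0 a1`;      `pvttBk pvttFw pvttRt pvttRtC` (194)
* `g.rap k` (6, `Tr/Arc`)                     right apex of the dart `k`;      `PvwDat.apx`, `PvwDat.anc` (`Tr/Defs`);      `Pth.GFaced`, `Pth.Faced` (202, `Tr/Close`)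
* `PvswSp s Z k d` (225, `Tr/Sweep`)          spoke = right dart of a cycle with a black head
* `𝔇.RSec i d`, `𝔇.prv`, `𝔇.nx` (`Tr/Defs`)   right sector of `inner(s) . g₀ . inner(t)` at the vertex `i` of `g₀`
* `d ∈ c.Right ∧ opp d ∈ c.Right`            the side form (`Pl/Jordan`)

ALL PROVED, no new definition.
* sec.1  `pvjr_btw_iff`;  calculus of a sector: `pvjr_osec_first _last _step _back _empty_iff _iff_lt _self _cover _disj`;  THE FAN: `pvjr_tgt_first`, `pvjr_tgt_last`, `pvjr_fan_adj`, `pvjr_fan_walk`, `pvjr_fan_join`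
* sec.2  `pvjr_rs_eq _zero _mid _last _src _mono`, `pvjr_bk_ne_fw`, `pvjr_btw_rs`, `pvjr_rt_iff`;   `pvjr_byp_iff`, `pvjr_nb_iff` (`Pth.NB` of 105 = `pvttNB` of 194), `pvjr_col_iff`
* sec.3  `pvjr_rap_first`, `pvjr_rap_last`, `pvjr_rap_adj`, `pvjr_rap_mem_next`, `pvjr_rap_mem_prev`, `pvjr_rap_fan`, `pvjr_rs_fan`
* sec.4  `pvjr_sec_cyc`, `pvjr_sec_cyc'`, `pvjr_sec_cyc_left`, `pvjr_sp_iff(_succ)`, `pvjr_rtc_iff`, `pvjr_rs_arc(_sub)`, `pvjr_rap_pth`, `pvjr_rs_glue`, `pvjr_sp_glue`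
* sec.5  `pvjr_rsec_iff_osec _rs _btw`, `pvjr_prv_eq`, `pvjr_nx_eq`, `pvjr_apx_eq`, `pvjr_rap_mem_apx`, `pvjr_rs_sub_rsec`, `pvjr_rsec_rim`
* sec.6  `pvjr_anc_eq _first _mem _fan`, `pvjr_inn_ends`, `pvjr_rsec_actual`, `pvjr_rap_actual`, `pvjr_anc_actual`, `pvjr_gfaced_iff`, `pvjr_faced_iff`
A conversion which is missing: ONE line to 156 with the Lean names on both sides.
-/

set_option autoImplicit false

namespace Claimed.Agent.R289

open Relation

variable {V D : Type} {T : PvMap V D}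

/-! ## 1. Sectors: `T.OSec` (105) = `pvttBtw` (194);  calculus of a sector;  the fan -/

/-- `pvttBtw` = `OSec` + the two bounding darts are different -/
theorem pvjr_btw_iff {a b x : D} : pvttBtw T a b x ↔ a ≠ b ∧ x ∈ T.OSec a b := by
  constructor
  · rintro ⟨j, hj, hx, h⟩
    exact ⟨h 0 (Nat.zero_le _), j, hj, hx, fun i _ hi => h i hi⟩
  · rintro ⟨hne, j, hj, hx, h⟩
    refine ⟨j, hj, hx, fun i hi => ?_⟩
    rcases Nat.eq_zero_or_pos i with rfl | h0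
    · exact hne
    · exact h i h0 hi

theorem pvjr_osec_of_btw {a b x : D} (h : pvttBtw T a b x) : x ∈ T.OSec a b := (pvjr_btw_iff.1 h).2

theorem pvjr_btw_of_osec {a b x : D} (hne : a ≠ b) (h : x ∈ T.OSec a b) : pvttBtw T a b x := pvjr_btw_iff.2 ⟨hne, h⟩

/-- the upper bounding dart is not in the sector -/
theorem pvjr_osec_ne_right {x y d : D} (h : d ∈ T.OSec x y) : d ≠ y := by
  obtain ⟨j, hj, rfl, h⟩ := h
  exact h j hj le_rfl

/-- FIRST dart of a sector -/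
theorem pvjr_osec_first {x y : D} (h : T.rot x ≠ y) : T.rot x ∈ T.OSec x y := by
  refine ⟨1, Nat.one_pos, rfl, fun i h0 h1 => ?_⟩
  obtain rfl : i = 1 := by omega
  exact h

/-- a sector is empty iff its bounding darts are consecutive -/
theorem pvjr_osec_empty_iff {x y : D} : T.OSec x y = ∅ ↔ T.rot x = y := by
  constructor
  · intro h
    by_contra hne
    have := pvjr_osec_first hne
    rw [h] at this
    exact this
  · intro h
    ext d
    simp only [Set.mem_empty_iff_false, iff_false]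
    rintro ⟨j, hj, -, hd⟩
    exact hd 1 Nat.one_pos hj h

/-- STEP inside a sector -/
theorem pvjr_osec_step {x y d : D} (h : d ∈ T.OSec x y) : T.rot d = y ∨ T.rot d ∈ T.OSec x y := by
  obtain ⟨j, hj, rfl, h⟩ := h
  by_cases hy : T.rot (T.rot^[j] x) = y
  · exact Or.inl hy
  · refine Or.inr ⟨j + 1, Nat.succ_pos _, Function.iterate_succ_apply' _ _ _, fun i h0 hi => ?_⟩
    rcases Nat.lt_or_ge i (j + 1) with h1 | h1
    · exact h i h0 (by omega)
    · obtain rfl : i = j + 1 := by omega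
      rw [Function.iterate_succ_apply']
      exact hy

/-- STEP BACK inside a sector -/
theorem pvjr_osec_back {x y d : D} (h : d ∈ T.OSec x y) : T.rotInv d = x ∨ T.rotInv d ∈ T.OSec x y := by
  obtain ⟨j, hj, rfl, h⟩ := h
  obtain ⟨i, rfl⟩ : ∃ i, j = i + 1 := ⟨j - 1, by omega⟩
  rw [Function.iterate_succ_apply', T.rotInv_rot]
  rcases Nat.eq_zero_or_pos i with rfl | h0
  · exact Or.inl rfl
  · exact Or.inr ⟨i, h0, rfl, fun k hk hki => h k hk (by omega)⟩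

/-- LAST dart of a sector (`y` is met when one turns from `x`: automatic under `IsSph.link`) -/
theorem pvjr_osec_last (hT : T.IsSph) {x y : D} (hsrc : T.src x = T.src y) (hne : x ≠ y) (h : T.rot x ≠ y) : T.rotInv y ∈ T.OSec x y := by
  classical
  have hex : ∃ n : ℕ, T.rot^[n] x = y := hT.link x y hsrc
  have hK : T.rot^[Nat.find hex] x = y := Nat.find_spec hex
  have hmin : ∀ k, k < Nat.find hex → T.rot^[k] x ≠ y := fun k hk => Nat.find_min hex hk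
  obtain ⟨K, hKe⟩ : ∃ K, Nat.find hex = K + 2 := by
    refine ⟨Nat.find hex - 2, ?_⟩
    have h0 : Nat.find hex ≠ 0 := fun h0 => by rw [h0] at hK; exact hne hK
    have h1 : Nat.find hex ≠ 1 := fun h1 => by rw [h1] at hK; exact h hK
    omega
  rw [hKe] at hK hmin
  refine ⟨K + 1, Nat.succ_pos _, ?_, fun i _ hi => hmin i (by omega)⟩
  rw [← hK, Function.iterate_succ_apply' T.rot (K + 1), T.rotInv_rot]

/-- the head of the first dart = the apex of the face on the left of the lower bounding dart -/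
theorem pvjr_tgt_first (x : D) : T.tgt (T.rot x) = T.apex x := T.tgt_rot x

/-- the head of the last dart = the apex of the face on the RIGHT of the upper bounding dart -/
theorem pvjr_tgt_last (y : D) : T.tgt (T.rotInv y) = T.apex (T.opp y) := rfl

/-- the heads of two consecutive darts round a vertex are adjacent -/
theorem pvjr_fan_adj (d : D) : T.Adj (T.tgt d) (T.tgt (T.rot d)) := ⟨T.nxt d, rfl, by rw [T.tgt_rot]; rfl⟩

/-- the sector as an interval of the rotation: `d = rot^[j] x`, `0 < j < K`, `K` = the first return time to `y` -/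
theorem pvjr_osec_iff_lt {x y : D} {K : ℕ} (hK : T.rot^[K] x = y) (hK0 : 0 < K) (hmin : ∀ k, 0 < k → k < K → T.rot^[k] x ≠ y) (d : D) :
    d ∈ T.OSec x y ↔ ∃ j, 0 < j ∧ j < K ∧ T.rot^[j] x = d := by
  constructor
  · rintro ⟨j, hj, rfl, h⟩
    refine ⟨j, hj, ?_, rfl⟩
    by_contra hc
    exact h K hK0 (by omega) hK
  · rintro ⟨j, hj, hjK, rfl⟩
    exact ⟨j, hj, rfl, fun i hi hij => hmin i hi (by omega)⟩

/-- **FAN**: the heads of two darts of a sector are joined by a walk through heads of darts of the sector -/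
theorem pvjr_fan_walk {x y d d' : D} (h : d ∈ T.OSec x y) (h' : d' ∈ T.OSec x y) :
    ReflTransGen (fun u v => T.Adj u v ∧ v ∈ T.tgt '' T.OSec x y) (T.tgt d) (T.tgt d') := by
  obtain ⟨j, hj, rfl, h⟩ := h
  obtain ⟨j', hj', rfl, h'⟩ := h'
  have up : ∀ a b, 0 < a → (∀ i, 0 < i → i ≤ a + b → T.rot^[i] x ≠ y) →
      ReflTransGen (fun u v => T.Adj u v ∧ v ∈ T.tgt '' T.OSec x y) (T.tgt (T.rot^[a] x)) (T.tgt (T.rot^[a + b] x)) := by
    intro a b ha
    induction b with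
    | zero => intro _; exact ReflTransGen.refl
    | succ b ih =>
      intro hb
      refine (ih fun i h0 hi => hb i h0 (by omega)).tail ⟨?_, _, ⟨a + (b + 1), by omega, rfl, hb⟩, rfl⟩
      rw [show a + (b + 1) = (a + b) + 1 by omega, Function.iterate_succ_apply']
      exact pvjr_fan_adj _
  have dn : ∀ a b, 0 < a → (∀ i, 0 < i → i ≤ a + b → T.rot^[i] x ≠ y) →
      ReflTransGen (fun u v => T.Adj u v ∧ v ∈ T.tgt '' T.OSec x y) (T.tgt (T.rot^[a + b] x)) (T.tgt (T.rot^[a] x)) := by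
    intro a b ha
    induction b with
    | zero => intro _; exact ReflTransGen.refl
    | succ b ih =>
      intro hb
      refine ReflTransGen.head ⟨?_, _, ⟨a + b, by omega, rfl, fun i h0 hi => hb i h0 (by omega)⟩, rfl⟩ (ih fun i h0 hi => hb i h0 (by omega))
      rw [show a + (b + 1) = (a + b) + 1 by omega, Function.iterate_succ_apply']
      exact T.adj_symm (pvjr_fan_adj _)
  rcases Nat.le_total j j' with hle | hle
  · obtain ⟨b, rfl⟩ := Nat.exists_eq_add_of_le hle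
    exact up j b hj h'
  · obtain ⟨b, rfl⟩ := Nat.exists_eq_add_of_le hle
    exact dn j' b hj' h

/-- **MONOCHROMATIC FAN** in the `Join` form of `Pl/Defs`: if the heads of all the darts of the sector lie in `X`, any two of them are joined inside `X` -/
theorem pvjr_fan_join {x y d d' : D} {X : Set V} (hX : ∀ e ∈ T.OSec x y, T.tgt e ∈ X) (h : d ∈ T.OSec x y) (h' : d' ∈ T.OSec x y) :
    T.Join Set.univ X (T.tgt d) (T.tgt d') := by
  refine ⟨hX d h, ReflTransGen.mono ?_ _ _ (pvjr_fan_walk h h')⟩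
  rintro u v ⟨⟨e, he1, he2⟩, f, hf, rfl⟩
  exact ⟨⟨e, Or.inl (Set.mem_univ _), he1, he2⟩, hX f hf⟩

/-- the whole turn: `OSec x x` = all the other darts at the vertex -/
theorem pvjr_osec_self (hT : T.IsSph) (x d : D) : d ∈ T.OSec x x ↔ T.src d = T.src x ∧ d ≠ x := by
  classical
  constructor
  · intro h
    exact ⟨pvnb_sec_src h, pvjr_osec_ne_right h⟩
  · rintro ⟨hs, hne⟩
    have hex : ∃ n : ℕ, T.rot^[n] x = d := hT.link x d hs.symm
    have hK : T.rot^[Nat.find hex] x = d := Nat.find_spec hex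
    have hmin : ∀ k, k < Nat.find hex → T.rot^[k] x ≠ d := fun k hk => Nat.find_min hex hk
    have h0 : 0 < Nat.find hex := by
      rcases Nat.eq_zero_or_pos (Nat.find hex) with h0 | h0
      · rw [h0] at hK; exact absurd hK.symm hne
      · exact h0
    refine ⟨_, h0, hK, fun i hi hle hx => ?_⟩
    have hP : Function.IsPeriodicPt T.rot i x := hx
    have h1 : T.rot^[Nat.find hex % i] x = d := by rw [hP.iterate_mod_apply, hK]
    exact hmin _ (lt_of_lt_of_le (Nat.mod_lt _ hi) hle) h1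

/-- TRICHOTOMY round a vertex: a dart at the source of `x ≠ y` is `x`, `y`, in the sector from `x` to `y` or in the sector from `y` to `x` -/
theorem pvjr_osec_cover (hT : T.IsSph) {x y d : D} (hxy : T.src x = T.src y) (hd : T.src d = T.src x) : d = x ∨ d = y ∨ d ∈ T.OSec x y ∨ d ∈ T.OSec y x := by
  by_cases h1 : d = x
  · exact Or.inl h1
  by_cases h2 : d = y
  · exact Or.inr (Or.inl h2)
  by_cases hne : y = x
  · subst hne
    exact Or.inr (Or.inr (Or.inl ((pvjr_osec_self hT y d).2 ⟨hd, h1⟩)))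
  rcases pvtt_btw_tri hT hxy.symm hd hne h1 (Ne.symm h2) with h | h
  · exact Or.inr (Or.inr (Or.inl (pvjr_osec_of_btw h)))
  · -- `y` comes before `d` when one turns from `x`
    right; right; right
    obtain ⟨j, hj, hy, hjd⟩ := h
    obtain ⟨hs, hdx⟩ : T.src d = T.src x ∧ d ≠ x := ⟨hd, h1⟩
    obtain ⟨m, hm, hmd, hmx⟩ := (pvjr_osec_self hT x d).2 ⟨hs, hdx⟩
    have hjm : j < m := by
      by_contra hc
      exact hjd m (by omega) hmd
    refine ⟨m - j, by omega, ?_, fun i hi hle => ?_⟩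
    · rw [← hy, ← Function.iterate_add_apply, Nat.sub_add_cancel hjm.le, hmd]
    · rw [← hy, ← Function.iterate_add_apply]
      exact hmx (i + j) (by omega) (by omega)

theorem pvjr_rot_injective : Function.Injective T.rot := Function.LeftInverse.injective T.rotInv_rot

/-- the two sectors between `x ≠ y` are disjoint -/
theorem pvjr_osec_disj {x y d : D} (hne : x ≠ y) (h : d ∈ T.OSec x y) (h' : d ∈ T.OSec y x) : False := by
  obtain ⟨j, hj, hd, h⟩ := h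
  obtain ⟨j', hj', hd', h'⟩ := h'
  rcases lt_trichotomy j j' with hlt | heq | hlt
  · have e : T.rot^[j] x = T.rot^[j] (T.rot^[j' - j] y) := by
      rw [← Function.iterate_add_apply, Nat.add_sub_cancel' hlt.le, hd, hd']
    exact h' (j' - j) (by omega) (by omega) ((pvjr_rot_injective.iterate j) e).symm
  · subst heq
    exact hne ((pvjr_rot_injective.iterate j) (hd.trans hd'.symm))
  · have e : T.rot^[j'] y = T.rot^[j'] (T.rot^[j - j'] x) := by
      rw [← Function.iterate_add_apply, Nat.add_sub_cancel' hlt.le, hd, hd']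
    exact h (j - j') (by omega) (by omega) ((pvjr_rot_injective.iterate j') e).symm


/-! ## 2. Arcs: `g.RS a0 a1 k` (105) = sector between `pvttBk`, `pvttFw` (194);  `pvttRt` -/

/-- the bounding darts of `Tr/Nb` and of `Tr/Tight` are the same -/
theorem pvjr_rs_eq (g : T.Pth) (a0 a1 : D) {k : ℕ} (hk : k ≤ g.n) : g.RS a0 a1 k = T.OSec (pvttBk T g a0 k) (pvttFw T g a1 k) := by
  unfold PvMap.Pth.RS pvttBk pvttFw
  by_cases h : k = g.n
  · rw [if_pos h, if_neg (show ¬ k < g.n by omega)]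
  · rw [if_neg h, if_pos (show k < g.n by omega)]

theorem pvjr_rs_zero (g : T.Pth) (a0 a1 : D) (hn : 0 < g.n) : g.RS a0 a1 0 = T.OSec a0 (g.e 0) := by
  unfold PvMap.Pth.RS
  rw [if_pos rfl, if_neg (by omega)]

theorem pvjr_rs_mid (g : T.Pth) (a0 a1 : D) {k : ℕ} (h0 : 0 < k) (hk : k < g.n) : g.RS a0 a1 k = T.OSec (T.opp (g.e (k - 1))) (g.e k) := by
  unfold PvMap.Pth.RS
  rw [if_neg (by omega), if_neg (by omega)]

theorem pvjr_rs_last (g : T.Pth) (a0 a1 : D) (hn : 0 < g.n) : g.RS a0 a1 g.n = T.OSec (T.opp (g.e (g.n - 1))) a1 := by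
  unfold PvMap.Pth.RS
  rw [if_neg (by omega), if_pos rfl]

/-- the right darts at the vertex number `k` start at this vertex -/
theorem pvjr_rs_src (g : T.Pth) {a0 a1 : D} (h0 : T.src a0 = g.v 0) {k : ℕ} (hk : k ≤ g.n) {d : D} (hd : d ∈ g.RS a0 a1 k) : T.src d = g.v k := by
  unfold PvMap.Pth.RS at hd
  rw [pvnb_sec_src hd]
  by_cases h : k = 0
  · subst h
    rw [if_pos rfl, h0]
  · rw [if_neg h, T.src_opp', g.tgt_e _ (by omega), show k - 1 + 1 = k by omega]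

/-- at an inner vertex the two bounding darts are different -/
theorem pvjr_bk_ne_fw (g : T.Pth) (a0 a1 : D) {k : ℕ} (h0 : 0 < k) (hk : k < g.n) : pvttBk T g a0 k ≠ pvttFw T g a1 k := by
  unfold pvttBk pvttFw
  rw [if_neg (by omega), if_pos hk]
  exact (pl_pth_ne_opp g hk (by omega)).symm

/-- `pvttBtw` between the bounding darts of `Tr/Tight` = `RS` of `Tr/Nb` -/
theorem pvjr_btw_rs (g : T.Pth) (a0 a1 : D) {k : ℕ} (hk : k ≤ g.n) (hne : pvttBk T g a0 k ≠ pvttFw T g a1 k) (x : D) :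
    pvttBtw T (pvttBk T g a0 k) (pvttFw T g a1 k) x ↔ x ∈ g.RS a0 a1 k := by
  rw [pvjr_btw_iff, pvjr_rs_eq g a0 a1 hk]
  exact ⟨fun h => h.2, fun h => ⟨hne, h⟩⟩

/-- all the right darts of an arc: `pvttRt` (194) = the union of the `RS k` (105);   the spokes are not darts of the arc -/
theorem pvjr_rt_iff (g : T.Pth) {a0 a1 : D} (hn : 0 < g.n) (h0 : a0 ≠ g.e 0) (h1 : T.opp (g.e (g.n - 1)) ≠ a1) (x : D) :
    x ∈ pvttRt T g a0 a1 ↔ ∃ k, k ≤ g.n ∧ x ∈ g.RS a0 a1 k := by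
  have hne : ∀ k, k ≤ g.n → pvttBk T g a0 k ≠ pvttFw T g a1 k := by
    intro k hk
    rcases Nat.eq_zero_or_pos k with rfl | hk0
    · unfold pvttBk pvttFw
      rw [if_pos rfl, if_pos hn]
      exact h0
    rcases Nat.lt_or_ge k g.n with hlt | hge
    · exact pvjr_bk_ne_fw g a0 a1 hk0 hlt
    · obtain rfl : k = g.n := le_antisymm hk hge
      unfold pvttBk pvttFw
      rw [if_neg (by omega), if_neg (by omega)]
      exact h1
  constructor
  · rintro ⟨k, hk, h⟩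
    exact ⟨k, hk, (pvjr_btw_rs g a0 a1 hk (hne k hk) x).1 h⟩
  · rintro ⟨k, hk, h⟩
    exact ⟨k, hk, (pvjr_btw_rs g a0 a1 hk (hne k hk) x).2 h⟩

/-- smaller spokes give smaller right sides -/
theorem pvjr_rs_mono (g : T.Pth) {a0 a1 b0 b1 : D} (hn : 0 < g.n) (h0 : b0 = a0 ∨ b0 ∈ T.OSec a0 (g.e 0)) (h1 : b1 = a1 ∨ b1 ∈ T.OSec (T.opp (g.e (g.n - 1))) a1) (k : ℕ) :
    g.RS b0 b1 k ⊆ g.RS a0 a1 k := by
  by_cases hk0 : k = 0
  · subst hk0
    rw [pvjr_rs_zero g _ _ hn, pvjr_rs_zero g _ _ hn]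
    rcases h0 with rfl | h0
    · exact subset_rfl
    · exact pvnb_sec_sub_left h0
  by_cases hkn : k = g.n
  · subst hkn
    rw [pvjr_rs_last g _ _ hn, pvjr_rs_last g _ _ hn]
    rcases h1 with rfl | h1
    · exact subset_rfl
    · exact pvnb_sec_sub_right h1
  · unfold PvMap.Pth.RS
    rw [if_neg hk0, if_neg hkn, if_neg hk0, if_neg hkn]

/-- **the two sector forms of the bypass event are the same**: `Pth.Byp` (105) = `pvttBP` on `pvttRt` (194) -/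
theorem pvjr_byp_iff (g : T.Pth) {a0 a1 : D} (hn : 0 < g.n) (hs0 : T.src a0 = g.v 0) (h0 : a0 ≠ g.e 0) (h1 : T.opp (g.e (g.n - 1)) ≠ a1) (s : V → Bool) (U : Set V) :
    g.Byp a0 a1 {v | v ∈ U ∧ v ∉ g.verts ∧ s v = true} ↔ pvttBP T s U g.verts (pvttRt T g a0 a1) := by
  have hstep : ∀ a b, ReflTransGen (fun x y => T.Adj x y ∧ x ∈ {v | v ∈ U ∧ v ∉ g.verts ∧ s v = true}) a b ↔ ReflTransGen (pvttStep T s U g.verts) a b := by
    intro a b
    constructor <;> intro h <;> refine ReflTransGen.mono ?_ _ _ h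
    · rintro x y ⟨h1, h2⟩
      exact ⟨h2, h1⟩
    · rintro x y ⟨h1, h2⟩
      exact ⟨h2, h1⟩
  constructor
  · rintro ⟨k, l, hk, hl, hkl, d, hd, hw⟩
    refine ⟨d, (pvjr_rt_iff g hn h0 h1 d).2 ⟨k, hk, hd⟩, g.v l, ⟨l, hl, rfl⟩, ?_, (hstep _ _).1 hw⟩
    rw [pvjr_rs_src g hs0 hk hd]
    exact fun e => hkl (g.inj _ _ hl hk e).symm
  · rintro ⟨d, hd, z, ⟨l, hl, rfl⟩, hz, hw⟩
    obtain ⟨k, hk, hdk⟩ := (pvjr_rt_iff g hn h0 h1 d).1 hd
    refine ⟨k, l, hk, hl, ?_, d, hdk, (hstep _ _).2 hw⟩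
    rintro rfl
    exact hz (pvjr_rs_src g hs0 hk hdk).symm

/-- `NB_g^U` of 105 (colour `true`) = `pvttNB` of 194 -/
theorem pvjr_nb_iff (g : T.Pth) {a0 a1 : D} (hn : 0 < g.n) (hs0 : T.src a0 = g.v 0) (h0 : a0 ≠ g.e 0) (h1 : T.opp (g.e (g.n - 1)) ≠ a1) (s : V → Bool) (U : Set V) :
    g.NB s true U a0 a1 ↔ pvttNB T s U g a0 a1 := not_congr (pvjr_byp_iff g hn hs0 h0 h1 s U)

/-- `B_g`: the three names -/
theorem pvjr_col_iff (g : T.Pth) (s : V → Bool) : (g.Col s true ↔ pvtaB g s) ∧ (pvtaB g s ↔ pvttB s g) := ⟨Iff.rfl, Iff.rfl⟩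

/-! ## 3. Right apexes: `g.rap k` (6) against the right sectors -/

/-- `g.rap k` = the head of the dart which follows `opp (g.e k)` (first dart of the right sector at the vertex `k + 1`, or the next dart of the arc) -/
theorem pvjr_rap_first (g : T.Pth) (k : ℕ) : T.tgt (T.rot (T.opp (g.e k))) = g.rap k := T.tgt_rot _

/-- `g.rap k` = the head of the dart which precedes `g.e k` (last dart of the right sector at the vertex `k`, or the back dart of the arc) -/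
theorem pvjr_rap_last (g : T.Pth) (k : ℕ) : T.tgt (T.rotInv (g.e k)) = g.rap k := rfl

/-- the right apex is adjacent to the two ends of its dart -/
theorem pvjr_rap_adj (g : T.Pth) {k : ℕ} (hk : k < g.n) : T.Adj (g.v k) (g.rap k) ∧ T.Adj (g.v (k + 1)) (g.rap k) :=
  ⟨⟨T.rotInv (g.e k), by rw [T.src_rotInv, g.src_e k hk], rfl⟩, ⟨T.rot (T.opp (g.e k)), by rw [T.src_rot, T.src_opp', g.tgt_e k hk], T.tgt_rot _⟩⟩

/-- the right apex of the dart `k`, seen from the vertex `k + 1`: it is the head of the FIRST dart of the right sector, as soon as it is not the head of the forward dart -/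
theorem pvjr_rap_mem_next (g : T.Pth) (a0 a1 : D) {k : ℕ} (hk : k < g.n) (hne : g.rap k ≠ T.tgt (pvttFw T g a1 (k + 1))) : T.rot (T.opp (g.e k)) ∈ g.RS a0 a1 (k + 1) := by
  rw [pvjr_rs_eq g a0 a1 (by omega)]
  have e : pvttBk T g a0 (k + 1) = T.opp (g.e k) := by
    unfold pvttBk
    rw [if_neg (by omega)]
    rfl
  rw [e]
  refine pvjr_osec_first fun h => hne ?_
  rw [← h, T.tgt_rot]
  rfl

/-- the right apex of the dart `k`, seen from the vertex `k`: it is the head of the LAST dart of the right sector, as soon as it is not the head of the back dart -/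
theorem pvjr_rap_mem_prev (hT : T.IsSph) (g : T.Pth) {a0 : D} (a1 : D) (hs0 : T.src a0 = g.v 0) (h0 : a0 ≠ g.e 0) {k : ℕ} (hk : k < g.n) (hne : g.rap k ≠ T.tgt (pvttBk T g a0 k)) :
    T.rotInv (g.e k) ∈ g.RS a0 a1 k := by
  rw [pvjr_rs_eq g a0 a1 hk.le]
  have e : pvttFw T g a1 k = g.e k := by
    unfold pvttFw
    rw [if_pos hk]
  rw [e]
  have hsrc : T.src (pvttBk T g a0 k) = T.src (g.e k) := by
    rw [g.src_e k hk]
    unfold pvttBk
    by_cases h : k = 0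
    · subst h
      rw [if_pos rfl, hs0]
    · rw [if_neg h, T.src_opp', g.tgt_e _ (by omega), show k - 1 + 1 = k by omega]
  have hxy : pvttBk T g a0 k ≠ g.e k := by
    rcases Nat.eq_zero_or_pos k with rfl | hk0
    · unfold pvttBk
      rw [if_pos rfl]
      exact h0
    · rw [← e]
      exact pvjr_bk_ne_fw g a0 a1 hk0 hk
  refine pvjr_osec_last hT hsrc hxy fun h => hne ?_
  rw [← pvjr_rap_last, ← h, T.rotInv_rot]

/-- **FAN AT AN INNER VERTEX**: if the heads of all the right darts at the vertex `k + 1` lie in `X`, the right apexes of the two darts of the arc at this vertex are joined inside `X`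
(the right apexes are off the arc: `PvwDat.Ok.cons_a`) -/
theorem pvjr_rap_fan (hT : T.IsSph) (g : T.Pth) (a0 a1 : D) {k : ℕ} (hk : k + 1 < g.n) (h1 : g.rap k ∉ g.verts) (h2 : g.rap (k + 1) ∉ g.verts) {X : Set V}
    (hX : ∀ d ∈ g.RS a0 a1 (k + 1), T.tgt d ∈ X) : T.Join Set.univ X (g.rap k) (g.rap (k + 1)) := by
  have e1 : pvttFw T g a1 (k + 1) = g.e (k + 1) := by
    unfold pvttFw
    rw [if_pos hk]
  have m1 : T.rot (T.opp (g.e k)) ∈ g.RS a0 a1 (k + 1) := by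
    refine pvjr_rap_mem_next g a0 a1 (by omega) fun h => h1 ?_
    rw [h, e1, g.tgt_e _ hk]
    exact ⟨k + 2, by omega, rfl⟩
  have hrs := pvjr_rs_mid g a0 a1 (Nat.succ_pos k) hk
  have m2 : T.rotInv (g.e (k + 1)) ∈ g.RS a0 a1 (k + 1) := by
    rw [hrs]
    have hsrc : T.src (T.opp (g.e (k + 1 - 1))) = T.src (g.e (k + 1)) := by
      rw [T.src_opp', g.tgt_e _ (by omega), g.src_e _ hk, show k + 1 - 1 + 1 = k + 1 by omega]
    refine pvjr_osec_last hT hsrc (pl_pth_ne_opp g hk (by omega)).symm fun h => h2 ?_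
    rw [← pvjr_rap_last, ← h, T.rotInv_rot, T.tgt_opp, g.src_e _ (by omega)]
    exact ⟨k + 1 - 1, by omega, rfl⟩
  rw [hrs] at m1 m2 hX
  have := pvjr_fan_join hX m1 m2
  rwa [pvjr_rap_first, pvjr_rap_last] at this

/-- every head of a right dart at an inner vertex is joined to the two neighbouring right apexes through the fan -/
theorem pvjr_rs_fan (g : T.Pth) (a0 a1 : D) {k : ℕ} (hk : k + 1 < g.n) (h1 : g.rap k ∉ g.verts) {X : Set V}
    (hX : ∀ d ∈ g.RS a0 a1 (k + 1), T.tgt d ∈ X) {d : D} (hd : d ∈ g.RS a0 a1 (k + 1)) : T.Join Set.univ X (g.rap k) (T.tgt d) := by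
  have e1 : pvttFw T g a1 (k + 1) = g.e (k + 1) := by
    unfold pvttFw
    rw [if_pos hk]
  have m1 : T.rot (T.opp (g.e k)) ∈ g.RS a0 a1 (k + 1) := by
    refine pvjr_rap_mem_next g a0 a1 (by omega) fun h => h1 ?_
    rw [h, e1, g.tgt_e _ hk]
    exact ⟨k + 2, by omega, rfl⟩
  have hrs := pvjr_rs_mid g a0 a1 (Nat.succ_pos k) hk
  rw [hrs] at m1 hd hX
  have := pvjr_fan_join hX m1 hd
  rwa [pvjr_rap_first] at this


/-! ## 4. Cycles: sectors against the two sides;  spokes `PvswSp` (225);  `pvttRtC` (194);  arcs of a cycle;  glued cycles -/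

/-- RIGHT sector of a cycle at `x_(i+1)`, in terms of `c.Right` (`pvnb_sec_cyc` of 105 says `∉ c.Left`) -/
theorem pvjr_sec_cyc (hT : T.IsSph) (c : T.Cyc) (i : ℕ) (d : D) :
    d ∈ T.OSec (T.opp (c.e i)) (c.e (i + 1)) ↔ T.src d = T.src (c.e (i + 1)) ∧ d ∈ c.Right ∧ T.opp d ∈ c.Right := by
  rw [pvnb_sec_cyc hT c i d, (pl_jordan hT c).1]
  rfl

/-- the same at `x_k`, any `k` -/
theorem pvjr_sec_cyc' (hT : T.IsSph) (c : T.Cyc) (k : ℕ) (d : D) :
    d ∈ T.OSec (T.opp (c.e (k + c.n - 1))) (c.e k) ↔ T.src d = T.src (c.e k) ∧ d ∈ c.Right ∧ T.opp d ∈ c.Right := by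
  have h := pvjr_sec_cyc hT c (k + c.n - 1) d
  have e : k + c.n - 1 + 1 = k + c.n := by have := pl_cyc_pos c; omega
  rwa [e, c.per] at h

/-- LEFT sector of a cycle at `x_(i+1)` -/
theorem pvjr_sec_cyc_left (hT : T.IsSph) (c : T.Cyc) (i : ℕ) (d : D) :
    d ∈ T.OSec (c.e (i + 1)) (T.opp (c.e i)) ↔ T.src d = T.src (c.e (i + 1)) ∧ d ∈ c.Left ∧ T.opp d ∈ c.Left := by
  obtain ⟨hR, hL, hRo, hB⟩ := pl_jordan hT c
  have hsrc : T.src (T.opp (c.e i)) = T.src (c.e (i + 1)) := by rw [T.src_opp', c.chain]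
  have hne : T.opp (c.e i) ≠ c.e (i + 1) := (pl_cyc_ne_opp c _ _).symm
  constructor
  · intro h
    have hs : T.src d = T.src (c.e (i + 1)) := pvnb_sec_src h
    have h1 : d ≠ T.opp (c.e i) := pvjr_osec_ne_right h
    have h2 : d ≠ c.e (i + 1) := by
      rintro rfl
      obtain ⟨j, hj, hd, hmin⟩ := h
      -- a full turn passes through `opp (c.e i)`
      obtain ⟨m, hm, hmd, hmx⟩ := (pvjr_osec_self hT (c.e (i + 1)) (T.opp (c.e i))).2 ⟨hsrc, hne⟩
      have hP : Function.IsPeriodicPt T.rot j (c.e (i + 1)) := hd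
      have h3 : T.rot^[m % j] (c.e (i + 1)) = T.opp (c.e i) := by rw [hP.iterate_mod_apply, hmd]
      rcases Nat.eq_zero_or_pos (m % j) with h0 | h0
      · rw [h0] at h3
        exact hne h3.symm
      · exact hmin _ h0 (Nat.mod_lt _ hj).le h3
    have h3 : ¬ (d ∈ c.Right ∧ T.opp d ∈ c.Right) := fun h4 =>
      pvjr_osec_disj hne ((pvjr_sec_cyc hT c i d).2 ⟨hs, h4⟩) h
    have h4 : ¬ T.Edg c.darts d := fun hE => by
      rcases pl_cyc_at c i hs hE with e | e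
      · exact h2 e
      · exact h1 e
    have h5 : d ∈ c.Left ↔ T.opp d ∈ c.Left := not_not.1 fun hb => h4 ((hB d).1 hb)
    rw [hR] at h3
    by_cases h6 : d ∈ c.Left
    · exact ⟨hs, h6, h5.1 h6⟩
    · exact absurd ⟨h6, fun h7 => h6 (h5.2 h7)⟩ h3
  · rintro ⟨hs, h1, h2⟩
    rcases pvjr_osec_cover hT hsrc (hs.trans hsrc.symm) with e | e | e | e
    · rw [e] at h1
      have := hRo i
      rw [hR] at this
      exact absurd h1 this
    · rw [e] at h2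
      have := hRo (i + 1)
      rw [hR] at this
      exact absurd h2 this
    · have := ((pvjr_sec_cyc hT c i d).1 e).2.1
      rw [hR] at this
      exact absurd h1 this
    · exact e

/-- the spokes of `Tr/Sweep` = the darts of the right sector with a black head -/
theorem pvjr_sp_iff (hT : T.IsSph) (s : V → Bool) (Z : T.Cyc) (k : ℕ) (d : D) :
    PvswSp s Z k d ↔ d ∈ T.OSec (T.opp (Z.e (k + Z.n - 1))) (Z.e k) ∧ s (T.tgt d) = true := by
  rw [pvjr_sec_cyc' hT Z k d]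
  unfold PvswSp
  tauto

theorem pvjr_sp_iff_succ (hT : T.IsSph) (s : V → Bool) (Z : T.Cyc) (i : ℕ) (d : D) :
    PvswSp s Z (i + 1) d ↔ d ∈ T.OSec (T.opp (Z.e i)) (Z.e (i + 1)) ∧ s (T.tgt d) = true := by
  rw [pvjr_sec_cyc hT Z i d]
  unfold PvswSp
  tauto

/-- the right darts of a cycle (194) -/
theorem pvjr_rtc_iff (hT : T.IsSph) (c : T.Cyc) (d : D) : d ∈ pvttRtC T c ↔ T.src d ∈ c.verts ∧ d ∈ c.Right ∧ T.opp d ∈ c.Right := by
  constructor
  · rintro ⟨i, h⟩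
    obtain ⟨h1, h2, h3⟩ := (pvjr_sec_cyc hT c i d).1 (pvjr_osec_of_btw h)
    exact ⟨⟨i + 1, h1.symm⟩, h2, h3⟩
  · rintro ⟨⟨k, hk⟩, h2, h3⟩
    refine ⟨k + c.n - 1, pvjr_btw_of_osec (pl_cyc_ne_opp c _ _).symm ?_⟩
    have e : k + c.n - 1 + 1 = k + c.n := by have := pl_cyc_pos c; omega
    rw [pvjr_sec_cyc hT c _ d, e, c.per]
    exact ⟨hk.symm, h2, h3⟩

/-- **ARC OF A CYCLE**: `g.e k = c.e (i + 1 + k)`, spokes = the neighbouring darts of the cycle: the right darts of the arc are the right darts of the cycle -/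
theorem pvjr_rs_arc (hT : T.IsSph) (c : T.Cyc) (g : T.Pth) (i : ℕ) (hg : ∀ k, k < g.n → g.e k = c.e (i + 1 + k)) {k : ℕ} (hk : k ≤ g.n) (d : D) :
    d ∈ g.RS (T.opp (c.e i)) (c.e (i + 1 + g.n)) k ↔ T.src d = T.src (c.e (i + 1 + k)) ∧ d ∈ c.Right ∧ T.opp d ∈ c.Right := by
  have e1 : (if k = 0 then T.opp (c.e i) else T.opp (g.e (k - 1))) = T.opp (c.e (i + k)) := by
    by_cases h : k = 0
    · subst h
      rw [if_pos rfl]
      rfl
    · rw [if_neg h, hg _ (by omega), show i + 1 + (k - 1) = i + k by omega]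
  have e2 : (if k = g.n then c.e (i + 1 + g.n) else g.e k) = c.e (i + k + 1) := by
    by_cases h : k = g.n
    · rw [if_pos h, h, show i + 1 + g.n = i + g.n + 1 by omega]
    · rw [if_neg h, hg _ (by omega), show i + 1 + k = i + k + 1 by omega]
  unfold PvMap.Pth.RS
  rw [e1, e2, pvjr_sec_cyc hT c (i + k) d, show i + k + 1 = i + 1 + k by omega]

/-- the same with ANY spokes in the right sectors of the cycle at the two ends: an inclusion -/
theorem pvjr_rs_arc_sub (hT : T.IsSph) (c : T.Cyc) (g : T.Pth) (i : ℕ) (hn : 0 < g.n) (hg : ∀ k, k < g.n → g.e k = c.e (i + 1 + k)) {a0 a1 : D}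
    (h0 : T.src a0 = g.v 0 ∧ a0 ∈ c.Right ∧ T.opp a0 ∈ c.Right) (h1 : T.src a1 = g.v g.n ∧ a1 ∈ c.Right ∧ T.opp a1 ∈ c.Right) {k : ℕ} (hk : k ≤ g.n) {d : D}
    (hd : d ∈ g.RS a0 a1 k) : T.src d = T.src (c.e (i + 1 + k)) ∧ d ∈ c.Right ∧ T.opp d ∈ c.Right := by
  refine (pvjr_rs_arc hT c g i hg hk d).1 (pvjr_rs_mono g hn (Or.inr ?_) (Or.inr ?_) k hd)
  · rw [hg 0 hn, pvjr_sec_cyc hT c i a0, ← hg 0 hn, g.src_e 0 hn]
    exact h0
  · rw [hg _ (show g.n - 1 < g.n by omega), show i + 1 + (g.n - 1) = i + g.n by omega, show i + 1 + g.n = i + g.n + 1 by omega, pvjr_sec_cyc hT c (i + g.n) a1,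
      ← c.chain, show i + g.n = i + 1 + (g.n - 1) by omega, ← hg _ (show g.n - 1 < g.n by omega), g.tgt_e _ (by omega), show g.n - 1 + 1 = g.n by omega]
    exact h1

/-- right apexes of an arc of a cycle -/
theorem pvjr_rap_pth (c : T.Cyc) (i m k : ℕ) : (c.pth i m).rap k = T.apex (T.opp (c.e (i + k))) := rfl

/-- **GLUED CYCLE** `Z = g ∪ q`: the right darts of `g` with spokes = the end darts of `q` are the right darts of `Z` at the vertices of `g` -/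
theorem pvjr_rs_glue (hT : T.IsSph) (g q : T.Pth) (h : g.Glue q) {k : ℕ} (hk : k ≤ g.n) (d : D) :
    d ∈ g.RS (T.opp (q.e (q.n - 1))) (q.e 0) k ↔ T.src d = g.v k ∧ d ∈ (g.glue q h).Right ∧ T.opp d ∈ (g.glue q h).Right := by
  obtain ⟨hgn, hqn⟩ := pl_pth_glue_pos h
  have hZn : (g.glue q h).n = g.n + q.n := rfl
  have key := pvjr_sec_cyc' hT (g.glue q h) k d
  rw [pl_pth_glue_src1 g q h hk] at key
  rw [← key]
  have e1 : (if k = 0 then T.opp (q.e (q.n - 1)) else T.opp (g.e (k - 1))) = T.opp ((g.glue q h).e (k + (g.glue q h).n - 1)) := by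
    by_cases h0 : k = 0
    · subst h0
      rw [if_pos rfl, hZn, show 0 + (g.n + q.n) - 1 = g.n + (q.n - 1) by omega, pl_pth_glue_e2 g q h (by omega)]
    · rw [if_neg h0, hZn, show k + (g.n + q.n) - 1 = (k - 1) + (g.glue q h).n by rw [hZn]; omega, (g.glue q h).per, pl_pth_glue_e1 g q h (by omega)]
  have e2 : (if k = g.n then q.e 0 else g.e k) = (g.glue q h).e k := by
    by_cases h0 : k = g.n
    · rw [if_pos h0, h0]
      have := pl_pth_glue_e2 g q h hqn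
      rw [Nat.add_zero] at this
      exact this.symm
    · rw [if_neg h0, pl_pth_glue_e1 g q h (by omega)]
  unfold PvMap.Pth.RS
  rw [e1, e2]

/-- spokes of `Tr/Sweep` in a glued cycle = right darts of the arc with a black head -/
theorem pvjr_sp_glue (hT : T.IsSph) (s : V → Bool) (g q : T.Pth) (h : g.Glue q) {k : ℕ} (hk : k ≤ g.n) (d : D) :
    PvswSp s (g.glue q h) k d ↔ d ∈ g.RS (T.opp (q.e (q.n - 1))) (q.e 0) k ∧ s (T.tgt d) = true := by
  rw [pvjr_rs_glue hT g q h hk d]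
  unfold PvswSp
  rw [pl_pth_glue_src1 g q h hk]
  tauto

/-! ## 5. `Tr/Defs`: `PvwDat.RSec`, `prv`, `nx`, `apx` -/

section defs

variable (𝔇 : PvwDat T)

/-- `RSec` = `OSec` between `opp (prv i)` and `nx i` -/
theorem pvjr_rsec_iff_osec (i : ℕ) (d : D) : 𝔇.RSec i d ↔ d ∈ T.OSec (T.opp (𝔇.prv i)) (𝔇.nx i) := by
  constructor
  · rintro ⟨k, hk, rfl, h⟩
    exact ⟨k, hk, rfl, h⟩
  · rintro ⟨k, hk, rfl, h⟩
    exact ⟨k, hk, rfl, h⟩

/-- `RSec` = `RS` of 105 for the arc `g₀` with spokes = the neighbouring darts of the two inner arcs -/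
theorem pvjr_rsec_iff_rs (i : ℕ) (d : D) : 𝔇.RSec i d ↔ d ∈ 𝔇.g.RS (T.opp (𝔇.s.inn.e (𝔇.s.inn.n - 1))) (𝔇.t.inn.e 0) i := by
  rw [pvjr_rsec_iff_osec]
  unfold PvMap.Pth.RS PvwDat.prv PvwDat.nx
  by_cases h : i = 0
  · rw [if_pos h, if_pos h]
  · rw [if_neg h, if_neg h]

/-- `RSec` = `pvttBtw` of 194 -/
theorem pvjr_rsec_iff_btw {i : ℕ} (hne : T.opp (𝔇.prv i) ≠ 𝔇.nx i) (d : D) : 𝔇.RSec i d ↔ pvttBtw T (T.opp (𝔇.prv i)) (𝔇.nx i) d := by
  rw [pvjr_rsec_iff_osec, pvjr_btw_iff]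
  exact ⟨fun h => ⟨hne, h⟩, fun h => h.2⟩

theorem pvjr_prv_eq (i : ℕ) : T.opp (𝔇.prv i) = pvttBk T 𝔇.g (T.opp (𝔇.s.inn.e (𝔇.s.inn.n - 1))) i := by
  unfold PvwDat.prv pvttBk
  by_cases h : i = 0
  · rw [if_pos h, if_pos h]
  · rw [if_neg h, if_neg h]

theorem pvjr_nx_eq {i : ℕ} (hi : i ≤ 𝔇.g.n) : 𝔇.nx i = pvttFw T 𝔇.g (𝔇.t.inn.e 0) i := by
  unfold PvwDat.nx pvttFw
  by_cases h : i = 𝔇.g.n
  · rw [if_pos h, if_neg (show ¬ i < 𝔇.g.n by omega)]
  · rw [if_neg h, if_pos (show i < 𝔇.g.n by omega)]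

/-- the right apexes of the datum = the `rap` of 6 -/
theorem pvjr_apx_eq : 𝔇.apx = {v | ∃ i, i < 𝔇.g.n ∧ 𝔇.g.rap i = v} := rfl

theorem pvjr_rap_mem_apx {i : ℕ} (hi : i < 𝔇.g.n) : 𝔇.g.rap i ∈ 𝔇.apx := ⟨i, hi, rfl⟩

/-- spokes inside the sectors at the two ends (e.g. the gate edges `𝔇.s.dp`, `𝔇.t.dm`: `pvwc_gate_out`, `pvwc_gate_in` of 194) give sub-sectors of `RSec` -/
theorem pvjr_rs_sub_rsec (hn : 0 < 𝔇.g.n) {a0 a1 : D} (h0 : 𝔇.RSec 0 a0) (h1 : 𝔇.RSec 𝔇.g.n a1) {i : ℕ} {d : D} (hd : d ∈ 𝔇.g.RS a0 a1 i) : 𝔇.RSec i d := by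
  rw [pvjr_rsec_iff_rs] at h0 h1 ⊢
  rw [pvjr_rs_zero _ _ _ hn] at h0
  rw [pvjr_rs_last _ _ _ hn] at h1
  exact pvjr_rs_mono 𝔇.g hn (Or.inr h0) (Or.inr h1) i hd

/-- **`RSec` ON AN ACTUAL RIM**: `inner(s) . g₀ . inner(t)` is an arc of the cycle `c` (fields `pin_s.run`, `arc`, `pin_t.run` of `PvwDat.Actual`): `RSec i` = the darts at `g₀(i)` with both faces on the right of `c` -/
theorem pvjr_rsec_rim (hT : T.IsSph) (c : T.Cyc) (j : ℕ) (hs0 : 0 < 𝔇.s.inn.n) (ht0 : 0 < 𝔇.t.inn.n)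
    (hs : ∀ i, i < 𝔇.s.inn.n → c.e (j + i) = 𝔇.s.inn.e i) (hg : ∀ i, i < 𝔇.g.n → c.e (j + 𝔇.s.inn.n + i) = 𝔇.g.e i)
    (ht : ∀ i, i < 𝔇.t.inn.n → c.e (j + 𝔇.s.inn.n + 𝔇.g.n + i) = 𝔇.t.inn.e i) {i : ℕ} (hi : i ≤ 𝔇.g.n) (d : D) :
    𝔇.RSec i d ↔ T.src d = T.src (c.e (j + 𝔇.s.inn.n + i)) ∧ d ∈ c.Right ∧ T.opp d ∈ c.Right := by
  rw [pvjr_rsec_iff_rs]
  have e0 : 𝔇.s.inn.e (𝔇.s.inn.n - 1) = c.e (j + 𝔇.s.inn.n - 1) := by
    rw [← hs _ (show 𝔇.s.inn.n - 1 < 𝔇.s.inn.n by omega), show j + (𝔇.s.inn.n - 1) = j + 𝔇.s.inn.n - 1 by omega]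
  have e1 : 𝔇.t.inn.e 0 = c.e (j + 𝔇.s.inn.n - 1 + 1 + 𝔇.g.n) := by
    rw [← ht 0 ht0, show j + 𝔇.s.inn.n - 1 + 1 + 𝔇.g.n = j + 𝔇.s.inn.n + 𝔇.g.n + 0 by omega]
  rw [e0, e1, pvjr_rs_arc hT c 𝔇.g (j + 𝔇.s.inn.n - 1) (fun k hk => by rw [← hg k hk, show j + 𝔇.s.inn.n - 1 + 1 + k = j + 𝔇.s.inn.n + k by omega]) hi d,
    show j + 𝔇.s.inn.n - 1 + 1 + i = j + 𝔇.s.inn.n + i by omega]

end defs


/-! ## 6. `Tr/Defs` v2: the anchor, the ends of the inner arcs, `RSec` under `Actual` -/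

section defs2

variable (𝔇 : PvwDat T)

/-- the anchor = the last right apex of `inner(s)` -/
theorem pvjr_anc_eq : 𝔇.anc = 𝔇.s.inn.rap (𝔇.s.inn.n - 1) := rfl

/-- the anchor = the head of the dart which follows `opp (prv 0)` round `g⁺(s)` (the first dart of `RSec 0`) -/
theorem pvjr_anc_first : T.tgt (T.rot (T.opp (𝔇.prv 0))) = 𝔇.anc := by
  rw [T.tgt_rot]
  unfold PvwDat.prv PvwDat.anc
  rw [if_pos rfl]

/-- the first dart of `RSec 0` -/
theorem pvjr_anc_mem (hn : 0 < 𝔇.g.n) (hne : 𝔇.anc ≠ 𝔇.g.v 1) : 𝔇.RSec 0 (T.rot (T.opp (𝔇.prv 0))) := by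
  rw [pvjr_rsec_iff_osec]
  refine pvjr_osec_first fun h => hne ?_
  rw [← pvjr_anc_first, h]
  unfold PvwDat.nx
  rw [if_neg (by omega), 𝔇.g.tgt_e 0 hn]

/-- **FAN AT `g⁺(s)`**: if the heads of all the darts of `RSec 0` lie in `X`, the anchor is joined to the first right apex of `g₀` inside `X` -/
theorem pvjr_anc_fan (hT : T.IsSph) (hn : 0 < 𝔇.g.n) (hs0 : 0 < 𝔇.s.inn.n) (hv : 𝔇.s.inn.v 𝔇.s.inn.n = 𝔇.g.v 0) (hbk : 𝔇.g.v 1 ≠ 𝔇.s.inn.v (𝔇.s.inn.n - 1)) (hne : 𝔇.anc ≠ 𝔇.g.v 1)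
    (hne' : 𝔇.g.rap 0 ≠ 𝔇.s.inn.v (𝔇.s.inn.n - 1)) {X : Set V} (hX : ∀ d, 𝔇.RSec 0 d → T.tgt d ∈ X) : T.Join Set.univ X 𝔇.anc (𝔇.g.rap 0) := by
  have m1 := pvjr_anc_mem 𝔇 hn hne
  have enx : 𝔇.nx 0 = 𝔇.g.e 0 := by
    unfold PvwDat.nx
    rw [if_neg (by omega)]
  have eprv : 𝔇.prv 0 = 𝔇.s.inn.e (𝔇.s.inn.n - 1) := by
    unfold PvwDat.prv
    rw [if_pos rfl]
  have hlast : 𝔇.s.inn.n - 1 < 𝔇.s.inn.n := by omega
  have hsrc : T.src (T.opp (𝔇.prv 0)) = T.src (𝔇.nx 0) := by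
    rw [enx, eprv, T.src_opp', 𝔇.s.inn.tgt_e _ hlast, 𝔇.g.src_e 0 hn, show 𝔇.s.inn.n - 1 + 1 = 𝔇.s.inn.n by omega, hv]
  have hxy : T.opp (𝔇.prv 0) ≠ 𝔇.nx 0 := by
    intro h
    have h2 : T.tgt (T.opp (𝔇.prv 0)) = T.tgt (𝔇.nx 0) := by rw [h]
    rw [enx, eprv, T.tgt_opp, 𝔇.s.inn.src_e _ hlast, 𝔇.g.tgt_e 0 hn] at h2
    exact hbk h2.symm
  have m2 : 𝔇.RSec 0 (T.rotInv (𝔇.nx 0)) := by
    rw [pvjr_rsec_iff_osec]
    refine pvjr_osec_last hT hsrc hxy fun h => hne' ?_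
    rw [← pvjr_rap_last, ← enx, ← h, T.rotInv_rot, eprv, T.tgt_opp, 𝔇.s.inn.src_e _ hlast]
  have hX' : ∀ e ∈ T.OSec (T.opp (𝔇.prv 0)) (𝔇.nx 0), T.tgt e ∈ X := fun e he => hX e ((pvjr_rsec_iff_osec 𝔇 0 e).2 he)
  have := pvjr_fan_join hX' ((pvjr_rsec_iff_osec 𝔇 0 _).1 m1) ((pvjr_rsec_iff_osec 𝔇 0 _).1 m2)
  rwa [pvjr_anc_first, enx, pvjr_rap_last] at this

/-- the ends of the inner arc of a gate -/
theorem pvjr_inn_ends {𝔖 : PvwSt T} {pos : V → ℂ} {h : ℝ} {z : ℂ} {τ : PvwTy} {s : V → Bool} (hG : 𝔖.Gate pos h z τ s) :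
    𝔖.inn.v 0 = 𝔖.gm ∧ 𝔖.inn.v 𝔖.inn.n = 𝔖.gp ∧ 0 < 𝔖.inn.n := by
  obtain ⟨n, hn, -, j, h0, hj, hk, -⟩ := hG.strand
  have e0 : 𝔖.inn.v 0 = 𝔖.gm := h0
  have e1 : 𝔖.inn.v 𝔖.inn.n = 𝔖.gp := by
    rw [(hk _ le_rfl).2.1, hj]
    show T.src (pvasIt T s 𝔖.dm n) = 𝔖.gp
    rw [hn]
    rfl
  refine ⟨e0, e1, Nat.pos_of_ne_zero fun h0' => hG.ne ?_⟩
  rw [← e1, ← e0, h0']

/-- **`RSec` UNDER `Actual`** -/
theorem pvjr_rsec_actual (hT : T.IsSph) {pos : V → ℂ} {N : PvwNum} {h : ℝ} {π : PvwPat} {σ : V → Bool} {c : T.Cyc} {j : ℕ} (hO : 𝔇.Ok pos N h π) (hA : 𝔇.Actual pos N h π σ c j)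
    {i : ℕ} (hi : i ≤ 𝔇.g.n) (d : D) : 𝔇.RSec i d ↔ T.src d = 𝔇.g.v i ∧ d ∈ c.Right ∧ T.opp d ∈ c.Right := by
  rw [pvjr_rsec_rim 𝔇 hT c j (pvjr_inn_ends hO.st_s.gate).2.2 (pvjr_inn_ends hO.st_t.gate).2.2 hA.pin_s.run hA.arc hA.pin_t.run hi d]
  have e : T.src (c.e (j + 𝔇.s.inn.n + i)) = 𝔇.g.v i := by
    rcases Nat.lt_or_ge i 𝔇.g.n with hlt | hge
    · rw [hA.arc i hlt, 𝔇.g.src_e i hlt]
    · obtain rfl : i = 𝔇.g.n := le_antisymm hi hge
      have hp := hO.pos_n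
      rw [show j + 𝔇.s.inn.n + 𝔇.g.n = j + 𝔇.s.inn.n + (𝔇.g.n - 1) + 1 by omega, ← c.chain, hA.arc _ (show 𝔇.g.n - 1 < 𝔇.g.n by omega), 𝔇.g.tgt_e _ (by omega),
        show 𝔇.g.n - 1 + 1 = 𝔇.g.n by omega]
  rw [e]

/-- under `Actual` the right apexes of `g₀`, and the anchor, are right apexes of the rim -/
theorem pvjr_rap_actual {pos : V → ℂ} {N : PvwNum} {h : ℝ} {π : PvwPat} {σ : V → Bool} {c : T.Cyc} {j : ℕ} (hA : 𝔇.Actual pos N h π σ c j) {i : ℕ} (hi : i < 𝔇.g.n) :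
    𝔇.g.rap i = T.apex (T.opp (c.e (j + 𝔇.s.inn.n + i))) := by
  rw [hA.arc i hi]
  rfl

theorem pvjr_anc_actual {pos : V → ℂ} {N : PvwNum} {h : ℝ} {π : PvwPat} {σ : V → Bool} {c : T.Cyc} {j : ℕ} (hO : 𝔇.Ok pos N h π) (hA : 𝔇.Actual pos N h π σ c j) :
    𝔇.anc = T.apex (T.opp (c.e (j + (𝔇.s.inn.n - 1)))) := by
  have := (pvjr_inn_ends hO.st_s.gate).2.2
  rw [hA.pin_s.run _ (show 𝔇.s.inn.n - 1 < 𝔇.s.inn.n by omega)]
  rfl

/-- faced paths of 202 in the name `rap` of 6 -/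
theorem pvjr_gfaced_iff (p : T.Pth) (s : V → Bool) (ρ : V) : p.GFaced s ρ ↔ (∀ i, i ≤ p.n → s (p.v i) ≠ s ρ) ∧ ∀ i, i < p.n → T.Mono s (p.rap i) ρ := Iff.rfl

theorem pvjr_faced_iff (p : T.Pth) (s : V → Bool) (R : Set D) (ρ : V) :
    p.Faced s R ρ ↔ (∀ i, i ≤ p.n → s (p.v i) ≠ s ρ) ∧ ∀ i, i < p.n → T.opp (p.e i) ∈ R ∧ T.Join R {v | s v = s ρ} (p.rap i) ρ := Iff.rfl

end defs2

end Claimed.Agent.R289
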