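-- KEEP
import Claimed.Agent.R289.Pl.Rim
import Claimed.Agent.R289.Arm.Strand
import Claimed.Agent.R289.Tr.Fit

/-!
# Row 289 (S0537), THE WALL, road E, file Tr/BuBank : THE BLACK BANK OF A STRAND ON THE RIGHT OF A RIM VISITS THE VERTICES OF THE RIM IN ORDER      (owner helper240; prefix `pvkb_`, `Pvkb`, `pvkb`)

ABSTRACT PART of `PvkcPre.disj_b` (`Tr/BuCover.lean`): `T` a sphere / plane map, `c` a black rim of the colouring `s`.      NO strand calculus: only `pl_no_bypass` (NO RIGHT BYPASS), `pl_jordan`, `pvft_side_it` (118: a strand never crosses a black circuit).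

* `pvkbR T c s`       the relation of `pl_no_bypass`: an unoccupied edge none of whose two faces lies on the left of `c`
* `PvkbStep T c s u v`       one step of a bank walk on the right of `c`: `u = v`, or an unoccupied dart `u → v` whose RIGHT face is not on the left of `c`
* **`pvkb_fwd`**      a chain of steps from the vertex number `k0` of `c`: `b i` hangs (by `pvkbR`) on a vertex number `k ≥ k0`, and all the vertices number `k0..k` have been visited
* **`pvkb_bwd`**      the same against the steps: the vertices number `k0, k0 - 1, …` (written `k0 + d (n - 1)`)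
* `pvkb_fwd_cut`, `pvkb_bwd_cut`      coming back to a vertex on the other side of the starting point costs a visit of the vertex number `0`
* `pvkb_step_strand`      the black ends of two consecutive positions of a strand off `c.Left` make a step
* **`pvkb_out`**, **`pvkb_in`**      the two statements for a strand forwards (`pvasIt`) / backwards (`pvasBack`)
-/

set_option autoImplicit false

namespace Claimed.Agent.R289

open Relation

variable {V D : Type} {T : PvMap V D}

/-- the relation of `pl_no_bypass` -/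
def pvkbR (T : PvMap V D) (c : T.Cyc) (s : V → Bool) (x y : V) : Prop := ∃ e, T.src e = x ∧ T.tgt e = y ∧ ¬ T.Occ s e ∧ e ∉ c.Left ∧ T.opp e ∉ c.Left

/-- one step of a bank walk on the right of `c` -/
def PvkbStep (T : PvMap V D) (c : T.Cyc) (s : V → Bool) (u v : V) : Prop := u = v ∨ ∃ f, T.src f = u ∧ T.tgt f = v ∧ ¬ T.Occ s f ∧ T.opp f ∉ c.Left

theorem pvkb_eqns_cite : True := by
  have := @pvkbR.eq_1; have := @PvkbStep.eq_1
  trivial

/-- a dart on the left of `c` whose opposite is not on the left is a dart of `c` -/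
theorem pvkb_dart (hT : T.IsSph) (c : T.Cyc) {f : D} (h1 : f ∈ c.Left) (h2 : T.opp f ∉ c.Left) : ∃ q, f = c.e q := by
  obtain ⟨-, hL, -, hB⟩ := pl_jordan hT c
  have hb : T.Bd c.Left f := fun h => h2 (h.1 h1)
  rcases (hB f).1 hb with ⟨q, hq⟩ | ⟨q, hq⟩
  · exact ⟨q, hq.symm⟩
  · exact absurd (hq ▸ hL q) h2

/-- two vertices of the rim which hang together are equal -/
theorem pvkb_eq (hT : T.IsSph) {c : T.Cyc} {s : V → Bool} (hc : c.IsRim s) {k l : ℕ} (h : ReflTransGen (pvkbR T c s) (T.src (c.e k)) (T.src (c.e l))) : c.e k = c.e l :=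
  pl_cyc_eq_of_src c (pl_no_bypass hT hc ⟨k, rfl⟩ ⟨l, rfl⟩ h)

/-- **FORWARDS** -/
theorem pvkb_fwd (hT : T.IsSph) {c : T.Cyc} {s : V → Bool} (hc : c.IsRim s) {b : ℕ → V} {n k0 : ℕ} (h0 : b 0 = T.src (c.e k0))
    (hst : ∀ i, i < n → PvkbStep T c s (b i) (b (i + 1))) :
    ∀ i, i ≤ n → ∃ k, k0 ≤ k ∧ ReflTransGen (pvkbR T c s) (T.src (c.e k)) (b i) ∧ ∀ l, k0 ≤ l → l ≤ k → ∃ i', i' ≤ i ∧ b i' = T.src (c.e l) := by
  intro i
  induction i with
  | zero =>
    intro _
    refine ⟨k0, le_rfl, by rw [h0], fun l h1 h2 => ⟨0, le_rfl, ?_⟩⟩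
    rw [h0, le_antisymm h2 h1]
  | succ i ih =>
    intro hi
    obtain ⟨k, hk, hr, hv⟩ := ih (by omega)
    have hv' : ∀ l, k0 ≤ l → l ≤ k → ∃ i', i' ≤ i + 1 ∧ b i' = T.src (c.e l) := fun l h1 h2 => by
      obtain ⟨i', h3, h4⟩ := hv l h1 h2
      exact ⟨i', by omega, h4⟩
    rcases hst i (by omega) with e | ⟨f, f1, f2, f3, f4⟩
    · exact ⟨k, hk, by rw [← e]; exact hr, hv'⟩
    · by_cases hf : f ∈ c.Left
      · obtain ⟨q, rfl⟩ := pvkb_dart hT c hf f4
        rw [← f1] at hr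
        have e := pvkb_eq hT hc hr
        refine ⟨k + 1, by omega, ?_, fun l h1 h2 => ?_⟩
        · rw [← f2, ← e, c.chain]
        · rcases Nat.lt_or_ge l (k + 1) with h3 | h3
          · exact hv' l h1 (by omega)
          · refine ⟨i + 1, le_rfl, ?_⟩
            rw [← f2, ← e, c.chain, le_antisymm h2 h3]
      · exact ⟨k, hk, hr.tail ⟨f, f1, f2, f3, hf, f4⟩, hv'⟩

/-- **BACKWARDS**: the vertex number `k0 - d` of `c` is written `k0 + d (n - 1)` -/
theorem pvkb_bwd (hT : T.IsSph) {c : T.Cyc} {s : V → Bool} (hc : c.IsRim s) {b : ℕ → V} {n k0 : ℕ} (h0 : b 0 = T.src (c.e k0))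
    (hst : ∀ i, i < n → PvkbStep T c s (b (i + 1)) (b i)) :
    ∀ i, i ≤ n → ∃ d, ReflTransGen (pvkbR T c s) (T.src (c.e (k0 + d * (c.n - 1)))) (b i) ∧ ∀ d', d' ≤ d → ∃ i', i' ≤ i ∧ b i' = T.src (c.e (k0 + d' * (c.n - 1))) := by
  intro i
  induction i with
  | zero =>
    intro _
    refine ⟨0, by rw [h0, Nat.zero_mul, Nat.add_zero], fun d' h1 => ⟨0, le_rfl, ?_⟩⟩
    rw [h0, Nat.le_zero.1 h1, Nat.zero_mul, Nat.add_zero]
  | succ i ih =>
    intro hi
    obtain ⟨d, hr, hv⟩ := ih (by omega)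
    have hv' : ∀ d', d' ≤ d → ∃ i', i' ≤ i + 1 ∧ b i' = T.src (c.e (k0 + d' * (c.n - 1))) := fun d' h1 => by
      obtain ⟨i', h3, h4⟩ := hv d' h1
      exact ⟨i', by omega, h4⟩
    rcases hst i (by omega) with e | ⟨f, f1, f2, f3, f4⟩
    · exact ⟨d, by rw [e]; exact hr, hv'⟩
    · by_cases hf : f ∈ c.Left
      · obtain ⟨q, rfl⟩ := pvkb_dart hT c hf f4
        rw [← f2, c.chain] at hr
        have e := pvkb_eq hT hc hr
        have hn := pl_cyc_pos c
        have e1 : k0 + (d + 1) * (c.n - 1) + 1 = k0 + d * (c.n - 1) + c.n := by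
          rw [Nat.succ_mul]; omega
        have e2 : T.src (c.e (k0 + (d + 1) * (c.n - 1))) = b (i + 1) := by
          have h1 : c.e (k0 + (d + 1) * (c.n - 1) + 1) = c.e (q + 1) := by rw [e1, c.per, e]
          have h2 : (k0 + (d + 1) * (c.n - 1) + 1) % c.n = (q + 1) % c.n := pl_cyc_src_inj c (by rw [h1])
          have h3 : (k0 + (d + 1) * (c.n - 1)) % c.n = q % c.n := Nat.ModEq.add_right_cancel' 1 h2
          rw [pl_cyc_eq_of_mod c h3, f1]
        refine ⟨d + 1, by rw [e2], fun d' h1 => ?_⟩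
        rcases Nat.lt_or_ge d' (d + 1) with h3 | h3
        · exact hv' d' (by omega)
        · exact ⟨i + 1, le_rfl, by rw [le_antisymm h1 h3, e2]⟩
      · refine ⟨d, hr.tail ⟨T.opp f, by rw [T.src_opp', f2], by rw [T.tgt_opp, f1], ?_, f4, by rw [T.opp_opp]; exact hf⟩, hv'⟩
        intro ho
        apply f3
        unfold PvMap.Occ at ho ⊢
        rw [T.src_opp', T.tgt_opp] at ho
        exact ho.symm

/-- coming back to an EARLIER vertex of the rim costs a visit of the vertex number `0` -/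
theorem pvkb_fwd_cut (hT : T.IsSph) {c : T.Cyc} {s : V → Bool} (hc : c.IsRim s) {b : ℕ → V} {n k0 : ℕ} (h0 : b 0 = T.src (c.e k0))
    (hst : ∀ i, i < n → PvkbStep T c s (b i) (b (i + 1))) (hk0 : k0 ≤ c.n) {i l : ℕ} (hi : i ≤ n) (hl : l < k0) (hv : b i = T.src (c.e l)) :
    ∃ i', i' ≤ i ∧ b i' = T.src (c.e 0) := by
  obtain ⟨k, hk, hr, hvis⟩ := pvkb_fwd hT hc h0 hst i hi
  rw [hv] at hr
  have e : k % c.n = l % c.n := pl_cyc_src_inj c (by rw [pvkb_eq hT hc hr])
  have hkn : c.n ≤ k := by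
    by_contra hlt
    rw [Nat.mod_eq_of_lt (by omega), Nat.mod_eq_of_lt (by omega)] at e
    omega
  obtain ⟨i', h1, h2⟩ := hvis c.n hk0 hkn
  refine ⟨i', h1, ?_⟩
  rw [h2]
  have := c.per 0
  rw [Nat.zero_add] at this
  rw [this]

/-- going back to a LATER vertex of the rim costs a visit of the vertex number `0` -/
theorem pvkb_bwd_cut (hT : T.IsSph) {c : T.Cyc} {s : V → Bool} (hc : c.IsRim s) {b : ℕ → V} {n k0 : ℕ} (h0 : b 0 = T.src (c.e k0))
    (hst : ∀ i, i < n → PvkbStep T c s (b (i + 1)) (b i)) {i l : ℕ} (hi : i ≤ n) (hkl : k0 < l) (hl : l < c.n) (hv : b i = T.src (c.e l)) :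
    ∃ i', i' ≤ i ∧ b i' = T.src (c.e 0) := by
  obtain ⟨d, hr, hvis⟩ := pvkb_bwd hT hc h0 hst i hi
  rw [hv] at hr
  have e : (k0 + d * (c.n - 1)) % c.n = l % c.n := pl_cyc_src_inj c (by rw [pvkb_eq hT hc hr])
  obtain ⟨n', hn'⟩ : ∃ n', c.n = n' + 1 := ⟨c.n - 1, by have := pl_cyc_pos c; omega⟩
  have key : ∀ d', d' ≤ k0 → k0 + d' * (c.n - 1) = (k0 - d') + d' * c.n := by
    intro d' hd'
    rw [hn', Nat.add_sub_cancel, Nat.mul_succ]
    omega
  have hd : k0 ≤ d := by
    by_contra hlt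
    rw [key d (by omega), Nat.add_mul_mod_self_right, Nat.mod_eq_of_lt (by omega), Nat.mod_eq_of_lt hl] at e
    omega
  obtain ⟨i', h1, h2⟩ := hvis k0 hd
  refine ⟨i', h1, ?_⟩
  rw [h2, key k0 le_rfl, Nat.sub_self, pl_cyc_per]

/-- the black ends of two consecutive positions of a strand off `c.Left` -/
theorem pvkb_step_strand {c : T.Cyc} {s : V → Bool} {a : D} (ha : pvasBW T s a) (hoff : a ∉ c.Left) : PvkbStep T c s (T.src a) (T.src (pvasStep T s a)) := by
  rcases pvas_step_ends s a with ⟨h, e, -⟩ | ⟨-, e, -⟩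
  · refine Or.inr ⟨T.rot a, T.src_rot a, by rw [T.tgt_rot, e], ?_, ?_⟩
    · unfold PvMap.Occ
      rw [T.src_rot, T.tgt_rot, ha.1, h]
      exact fun h => h rfl
    · unfold PvMap.rot
      rw [T.opp_opp, pl_left_face c, pl_left_face c]
      exact hoff
  · exact Or.inl e.symm

/-- **EXIT STUB**: a strand off `c.Left` which starts at the vertex number `k0` of the black rim `c` and comes to an earlier vertex has visited the vertex number `0` -/
theorem pvkb_out (hT : T.IsSph) {c : T.Cyc} {s : V → Bool} (hc : c.IsRim s) (hb : ∀ i, s (T.src (c.e i)) = true) {a : D} (ha : pvasBW T s a) (hoff : a ∉ c.Left)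
    {k0 : ℕ} (h0 : T.src a = T.src (c.e k0)) (hk0 : k0 ≤ c.n) {i l : ℕ} (hl : l < k0) (hv : T.src (pvasIt T s a i) = T.src (c.e l)) :
    ∃ i', i' ≤ i ∧ T.src (pvasIt T s a i') = T.src (c.e 0) := by
  refine pvkb_fwd_cut hT hc (b := fun i => T.src (pvasIt T s a i)) (n := i) h0 (fun k _ => ?_) hk0 le_rfl hl hv
  show PvkbStep T c s (T.src (pvasIt T s a k)) (T.src (pvasIt T s a (k + 1)))
  rw [pvas_it_succ]
  exact pvkb_step_strand (pvas_it_bw ha k) (by rw [pvft_side_it hb ha]; exact hoff)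

/-- the positions of a strand read backwards -/
theorem pvkb_back_bw {s : V → Bool} {a : D} (ha : pvasBW T s a) (n : ℕ) : pvasBW T s ((pvasBack T s)^[n] a) := by
  induction n with
  | zero => exact ha
  | succ n ih => rw [Function.iterate_succ_apply']; exact pvas_back_bw ih

theorem pvkb_back_side {c : T.Cyc} {s : V → Bool} (hb : ∀ i, s (T.src (c.e i)) = true) {a : D} (ha : pvasBW T s a) (n : ℕ) : (pvasBack T s)^[n] a ∈ c.Left ↔ a ∈ c.Left := by
  induction n with
  | zero => rfl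
  | succ n ih =>
    rw [← ih, Function.iterate_succ_apply']
    have h1 := pvft_side_step hb (pvas_back_bw (pvkb_back_bw ha n))
    rw [pvas_step_back (pvkb_back_bw ha n)] at h1
    exact h1.symm

/-- **ENTRANCE STUB** -/
theorem pvkb_in (hT : T.IsSph) {c : T.Cyc} {s : V → Bool} (hc : c.IsRim s) (hb : ∀ i, s (T.src (c.e i)) = true) {a : D} (ha : pvasBW T s a) (hoff : a ∉ c.Left)
    {k0 : ℕ} (h0 : T.src a = T.src (c.e k0)) {i l : ℕ} (hkl : k0 < l) (hl : l < c.n) (hv : T.src ((pvasBack T s)^[i] a) = T.src (c.e l)) :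
    ∃ i', i' ≤ i ∧ T.src ((pvasBack T s)^[i'] a) = T.src (c.e 0) := by
  refine pvkb_bwd_cut hT hc (b := fun i => T.src ((pvasBack T s)^[i] a)) (n := i) h0 (fun k _ => ?_) le_rfl hkl hl hv
  show PvkbStep T c s (T.src ((pvasBack T s)^[k + 1] a)) (T.src ((pvasBack T s)^[k] a))
  have h1 := pvkb_step_strand (c := c) (pvkb_back_bw ha (k + 1)) (by rw [pvkb_back_side hb ha]; exact hoff)
  rw [Function.iterate_succ_apply' (pvasBack T s) k a, pvas_step_back (pvkb_back_bw ha k)] at h1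
  rw [Function.iterate_succ_apply']
  exact h1

end Claimed.Agent.R289
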