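-- KEEP
import Claimed.Agent.R289.Defs.TrModel
import Claimed.Agent.R289.Tr.Dict
import Claimed.Agent.R289.Tr.Loc

/-!
# Row 289 (S0537, Cardy for Poisson-Voronoi), THE WALL, file Tr/BuDict : THE DICTIONARY AT THE MODEL, BOTTOM-UP      (helper199, second rope of DICT (161 195), post Y (c) of 82; prefix `pvkd_`, def `pvkdW`)

WHAT.   `Defs/TrModel.lean` (187) states the roofs of the wall for the data of record `pvxT pvxPos pvxCol PvxAt PvxPinOf PvxActual pvxFit` on the plain sample and for the ENCODED rims `P ∈ pvhbAll x R ω` of all completions.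
The closed kits are typed elsewhere: `pvlo_all` (278, `Tr/Loc`: windows of `P` are paths of `(delPl h).toMap`), `l9_enc_mesh` (161, `Cr/Inst`), `pvdc_X_dat`, `pvdc_hcut` (195, `Tr/Dict`: abstract `T pos w`).
HERE: what these kits REALLY give at the model, proved, with every numerical hypothesis explicit.

* sec. 1  `pvkd_tr` (from `delPl h` to the TOTAL plane `delbPl Y`),  `pvkd_e_eq` (simple map: same vertices ⟹ same darts)
* sec. 2  ENCODED RIMS: `pvkd_basic` (closed, far, mesh),  `pvkd_inj`,  `pvkd_col`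
* sec. 3  `pvkd_path` (`pvlo_all` on `pvxT ω`),  **`pvkd_window`** (`PvdcWindow`),  **`pvkd_read`** (`P.z P.xQ P.xV` are read on ANY path of `pvxT ω` with the vertices of the window)
* sec. 4  `pvkd_inn_ends`, `pvkd_inn_pos`, `pvkd_inn_near`,  **`pvkd_hcut`** (the gate of record traps the tags of the cut-off disc)
* sec. 5  `pvkdW ω a` (the dart weight `qpart - a side`),  **`pvkd_X`** : `pvbArcI (P; s,t) = X(D)`,  `pvkd_conf` (confinement of the three windows),  **`pvkd_X_fit`** (on `pvxFit`)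
-/

set_option autoImplicit false

namespace Claimed.Agent.R289

open Set Claims.C0465

/-! ## 1. transport, simple maps -/

/-- from the Delaunay plane of a good site set to the total definition -/
theorem pvkd_tr {Y : Set ℂ} (h : DelGood Y) {Φ : PlTri ↥Y → Prop} (H : Φ (delPl h)) : Φ (delbPl Y) := by
  rw [delb_pl_eq h]; exact H

/-- in a simple map two paths with the same vertices have the same darts -/
theorem pvkd_e_eq {V : Type} (Pl : PlTri V) (p g : Pl.toMap.Pth) (hn : g.n = p.n) (hv : ∀ k, k ≤ p.n → g.v k = p.v k) : ∀ k, k < p.n → g.e k = p.e k := by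
  intro k hk
  refine Pl.toMap_simple _ _ ?_ ?_
  · rw [g.src_e k (by omega), p.src_e k hk, hv k hk.le]
  · rw [g.tgt_e k (by omega), p.tgt_e k hk, hv (k + 1) (by omega)]

/-! ## 2. encoded rims of all completions -/

section rims

variable {x : ℂ} {R : ℝ} {ω : PVSample} {P : PvbRim}

theorem pvkd_all (x : ℂ) (R : ℝ) (ω : PVSample) : pvhbAll x R ω = l9All x R ω := rfl

/-- closed, far, mesh -/
theorem pvkd_basic {μ : ℝ} (hR : 0 < R) (hμ : μ ≤ R) (hF : L9Fine (pvxY ω) (Metric.closedBall x (6 * R)) μ) (hP : P ∈ pvhbAll x R ω) :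
    P.v P.len = P.v 0 ∧ 4 * R ≤ ‖P.v 0 - x‖ ∧
      (∀ k < P.len, (‖P.v k - x‖ ≤ 5 * R ∨ ‖P.v (k + 1) - x‖ ≤ 5 * R) → ‖P.v (k + 1) - P.v k‖ ≤ μ) ∧
      (∀ k < P.len, (‖P.v k - x‖ ≤ 5 * R ∨ ‖P.z k - x‖ ≤ 5 * R) → ‖P.z k - P.v k‖ ≤ μ) := by
  obtain ⟨X, _, 𝔅, ξ, -, hOk, hr⟩ := hP
  exact l9_enc_mesh 𝔅 hR hμ hOk hF hr

/-- the vertices of the rim within `6R` are visited once -/
theorem pvkd_inj (hR : 0 < R) (hP : P ∈ pvhbAll x R ω) : ∀ i i', i < P.len → i' < P.len → P.v i = P.v i' → ‖P.v i - x‖ ≤ 6 * R → i = i' := by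
  obtain ⟨X, _, 𝔅, ξ, -, hOk, c, hc, -, rfl⟩ := l9a_mem hP
  intro i i' hi hi' he hn
  have h1 := pvlo_lab_of_near 𝔅 hR hn
  have h2 := pvlo_lab_of_near 𝔅 hR (he ▸ hn)
  refine c.inj i i' hi hi' (hOk.inj (h1.trans ?_))
  rw [h2]
  exact congrArg Sum.inl he

/-- the vertices of the rim within `6R` have one colour -/
theorem pvkd_col (hR : 0 < R) (hP : P ∈ pvhbAll x R ω) {i i' : ℕ} (hi : ‖P.v i - x‖ ≤ 6 * R) (hi' : ‖P.v i' - x‖ ≤ 6 * R) :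
    cfCol (pvConf ω) (P.v i) = cfCol (pvConf ω) (P.v i') := by
  obtain ⟨X, _, 𝔅, ξ, -, hOk, c, hc, -, rfl⟩ := l9a_mem hP
  have h1 := pvlo_lab_of_near 𝔅 hR hi
  have h2 := pvlo_lab_of_near 𝔅 hR hi'
  exact ((delb_col_inl 𝔅 (pvConf ω) ξ h1).symm.trans (pl_rim_col hc i i')).trans (delb_col_inl 𝔅 (pvConf ω) ξ h2)

end rims

/-! ## 3. windows of an encoded rim are paths of the plane map of record -/

section win

variable {x : ℂ} {R : ℝ} {ω : PVSample} {P : PvbRim}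

/-- `pvlo_all` (278) on the map of record: path, colour, tags -/
theorem pvkd_path (hR : 0 < R) (h : DelGood (pvxY ω)) (hP : P ∈ pvhbAll x R ω) {i m : ℕ} (hm0 : 0 < m) (hm : m < P.len)
    (hin : ∀ k, k ≤ m → ‖P.v (i + k) - x‖ ≤ 6 * R) :
    ∃ g : (pvxT ω).Pth, g.n = m ∧ (∀ k, k ≤ m → pvxPos ω (g.v k) = P.v (i + k)) ∧
      (∀ k, k ≤ m → cfCol (pvConf ω) (g.v k).1 = cfCol (pvConf ω) (P.v i)) ∧
      (∀ k, k < m → (pvxT ω).Tag (fun v => cfCol (pvConf ω) v.1) ((pvxT ω).opp (g.e k))) ∧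
      ∀ k, k < m → P.z (i + k) = (pvxT ω).bary (pvxPos ω) ((pvxT ω).opp (g.e k)) ∧
        P.xQ (i + k) = (pvxT ω).qpart (pvxPos ω) ((pvxT ω).opp (g.e k)) ∧ P.xV (i + k) = (pvxT ω).side (pvxPos ω) ((pvxT ω).opp (g.e k)) := by
  refine pvkd_tr h (Φ := fun Pl => ∃ g : Pl.toMap.Pth, g.n = m ∧ (∀ k, k ≤ m → ((g.v k : ↥(pvxY ω)) : ℂ) = P.v (i + k)) ∧
      (∀ k, k ≤ m → cfCol (pvConf ω) (g.v k).1 = cfCol (pvConf ω) (P.v i)) ∧
      (∀ k, k < m → Pl.toMap.Tag (fun v => cfCol (pvConf ω) v.1) (Pl.toMap.opp (g.e k))) ∧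
      ∀ k, k < m → P.z (i + k) = Pl.toMap.bary Subtype.val (Pl.toMap.opp (g.e k)) ∧
        P.xQ (i + k) = Pl.toMap.qpart Subtype.val (Pl.toMap.opp (g.e k)) ∧ P.xV (i + k) = Pl.toMap.side Subtype.val (Pl.toMap.opp (g.e k))) ?_
  obtain ⟨g, -, -, h1, h2, -, -, -, -, -, -, h3, h4, h5, -⟩ := pvlo_all hR h hP hm0 hm hin
  exact ⟨g, h1, h2, fun k hk => h3 k (h1 ▸ hk), h4, h5⟩

/-- **THE WINDOW PROPERTY** at the model: `b` = the colour of the rim (read at any vertex within `6R`) -/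
theorem pvkd_window (hR : 0 < R) (h : DelGood (pvxY ω)) (hP : P ∈ pvhbAll x R ω) {b : Bool} {i₀ : ℕ} (hi₀ : ‖P.v i₀ - x‖ ≤ 6 * R)
    (hb : cfCol (pvConf ω) (P.v i₀) = b) : PvdcWindow (pvxT ω) (pvxPos ω) (pvxCol ω b) x (6 * R) P := by
  intro i m hm0 hm hin
  obtain ⟨g, h1, h2, h3, -, -⟩ := pvkd_path hR h hP hm0 hm hin
  refine ⟨g, h1, h2, fun k hk => ?_⟩
  have e : cfCol (pvConf ω) (g.v k).1 = b := by
    rw [h3 k hk, ← hb]
    exact pvkd_col hR hP (by simpa using hin 0 (Nat.zero_le _)) hi₀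
  unfold pvxCol
  rw [e]
  exact beq_self_eq_true b

/-- **READING**: `P.z`, `P.xQ`, `P.xV` on a window within `6R` are read on ANY path of the map of record which has the vertices of the window -/
theorem pvkd_read (hR : 0 < R) (h : DelGood (pvxY ω)) (hP : P ∈ pvhbAll x R ω) (p : (pvxT ω).Pth) {o : ℕ} (hn : p.n < P.len)
    (hv : ∀ k, k ≤ p.n → P.v (o + k) = pvxPos ω (p.v k)) (hin : ∀ k, k ≤ p.n → ‖P.v (o + k) - x‖ ≤ 6 * R) :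
    ∀ k, k < p.n → P.z (o + k) = (pvxT ω).bary (pvxPos ω) ((pvxT ω).opp (p.e k)) ∧
      P.xQ (o + k) = (pvxT ω).qpart (pvxPos ω) ((pvxT ω).opp (p.e k)) ∧ P.xV (o + k) = (pvxT ω).side (pvxPos ω) ((pvxT ω).opp (p.e k)) := by
  intro k hk
  obtain ⟨g, h1, h2, -, -, h5⟩ := pvkd_path hR h hP (Nat.zero_lt_of_lt hk) hn hin
  have e : g.e k = p.e k := pvkd_e_eq (delbPl (pvxY ω)) p g h1 (fun l hl => Subtype.ext ((h2 l hl).trans (hv l hl))) k hk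
  rw [← e]
  exact h5 k hk

/-- the right apexes of a window have the other colour -/
theorem pvkd_tag (hR : 0 < R) (h : DelGood (pvxY ω)) (hP : P ∈ pvhbAll x R ω) (p : (pvxT ω).Pth) {o : ℕ} (hn : p.n < P.len)
    (hv : ∀ k, k ≤ p.n → P.v (o + k) = pvxPos ω (p.v k)) (hin : ∀ k, k ≤ p.n → ‖P.v (o + k) - x‖ ≤ 6 * R) :
    ∀ k, k < p.n → (pvxT ω).Tag (fun v => cfCol (pvConf ω) v.1) ((pvxT ω).opp (p.e k)) := by
  intro k hk
  obtain ⟨g, h1, h2, -, h4, -⟩ := pvkd_path hR h hP (Nat.zero_lt_of_lt hk) hn hin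
  have e : g.e k = p.e k := pvkd_e_eq (delbPl (pvxY ω)) p g h1 (fun l hl => Subtype.ext ((h2 l hl).trans (hv l hl))) k hk
  rw [← e]
  exact h4 k hk

end win

/-! ## 4. the gate of record traps the tags of the cut-off disc -/

/-- the ends of the inner arc of a gate -/
theorem pvkd_inn_ends {V D : Type} {T : PvMap V D} {𝔖 : PvwSt T} {pos : V → ℂ} {h : ℝ} {z : ℂ} {τ : PvwTy} {s : V → Bool} (hG : 𝔖.Gate pos h z τ s) :
    𝔖.inn.v 0 = 𝔖.gm ∧ 𝔖.inn.v 𝔖.inn.n = 𝔖.gp := by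
  obtain ⟨n, h1, -, j, h2, h3, h4, -⟩ := hG.strand
  refine ⟨h2, ?_⟩
  rw [(h4 𝔖.inn.n le_rfl).2.1, h3]
  show T.src (pvasIt T s 𝔖.dm n) = T.src 𝔖.dp
  rw [h1]

/-- the inner arc of a gate has at least one edge -/
theorem pvkd_inn_pos {V D : Type} {T : PvMap V D} {𝔖 : PvwSt T} {pos : V → ℂ} {h : ℝ} {z : ℂ} {τ : PvwTy} {s : V → Bool} (hG : 𝔖.Gate pos h z τ s) : 0 < 𝔖.inn.n := by
  rcases Nat.eq_zero_or_pos 𝔖.inn.n with h0 | h0
  · exfalso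
    have h1 := pvkd_inn_ends hG
    rw [h0, h1.1] at h1
    exact hG.ne h1.2.symm
  · exact h0

/-- the inner arc of a gate stays within `b h` of the centre -/
theorem pvkd_inn_near {V D : Type} {T : PvMap V D} {𝔖 : PvwSt T} {pos : V → ℂ} {h : ℝ} {z : ℂ} {τ : PvwTy} {s : V → Bool} (hG : 𝔖.Gate pos h z τ s) :
    ∀ k, k ≤ 𝔖.inn.n → ‖pos (𝔖.inn.v k) - z‖ ≤ τ.b * h := by
  obtain ⟨n, h1, h2, j, -, -, h4, -⟩ := hG.strand
  intro k hk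
  obtain ⟨b1, b2, -⟩ := h4 k hk
  rw [b2]
  rcases Nat.lt_or_ge (j k) n with h3 | h3
  · exact (hG.inside _ ⟨_, h2 _ h3, rfl⟩).le
  · have e : j k = n := le_antisymm b1 h3
    rw [e]
    show ‖pos (T.src (pvasIt T s 𝔖.dm n)) - z‖ ≤ _
    rw [h1]
    exact (hG.ann _ (pvdc_gp_mem 𝔖 hG.dp_on)).2.le

section trap

variable {τ : Type} {c : ℝ} {𝔓 : PvxPar τ c} {x : ℂ} {R μ : ℝ} {ω : PVSample} {P : PvbRim} {m : ℕ} {z : ℂ} {t : τ} {𝔖 : PvwSt (pvxT ω)} {j : ℕ} {BK : Set ℂ} {yp ym : ℂ}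

/-- the gate of the state of a candidate (THE ONLY PLACE where the shape of `PvwSt.At` is read) -/
theorem pvkd_gate (hA : PvxAt 𝔓 m ω z t 𝔖) : 𝔖.Gate (pvxPos ω) (pvlmH m) z (𝔓.ty t) (pvxCol ω (𝔓.col t)) := hA.st.out.gate

/-- the colour of a rim which runs through the gate of a candidate is the colour of its type -/
theorem pvkd_gate_col (hA : PvxAt 𝔓 m ω z t 𝔖) (hp : PvxPinOf 𝔖 𝔓.num (pvlmH m) yp ym BK P j) : cfCol (pvConf ω) (P.v j) = 𝔓.col t := by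
  have h1 : pvxCol ω (𝔓.col t) 𝔖.gm = true := (pvkd_gate hA).bw_m.1
  have h2 : P.v j = pvxPos ω 𝔖.gm := by
    have := hp.run 0 (Nat.zero_le _)
    rwa [(pvkd_inn_ends (pvkd_gate hA)).1, Nat.add_zero] at this
  rw [h2]
  unfold pvxCol at h1
  exact beq_iff_eq.1 h1

/-- **`hcut` AT THE MODEL**: all the tags of `P` in the cut-off disc of the candidate belong to the inner arc of its gate.
NUMBERS: centre within `3R` of `x`;   `b h + μ < R`;   `m h + μ < a h`. -/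
theorem pvkd_hcut (hR : 0 < R) (hμ0 : 0 ≤ μ) (hF : L9Fine (pvxY ω) (Metric.closedBall x (6 * R)) μ) (hP : P ∈ pvhbAll x R ω)
    (hA : PvxAt 𝔓 m ω z t 𝔖) (hp : PvxPinOf 𝔖 𝔓.num (pvlmH m) yp ym BK P j) (hz : ‖z - x‖ ≤ 3 * R)
    (hb : (𝔓.ty t).b * pvlmH m + μ < R) (hb0 : 0 ≤ (𝔓.ty t).b * pvlmH m) (hnum : 𝔓.𝔐.mc t * pvlmH m + μ < (𝔓.ty t).a * pvlmH m) (hab : (𝔓.ty t).a * pvlmH m ≤ (𝔓.ty t).b * pvlmH m) :
    ∀ k, k < P.len → PvbInCut 𝔓.𝔐 (pvlmH m) z t (P.z k) → j ≤ k ∧ k < j + 𝔖.inn.n := by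
  obtain ⟨hcl, hfar, hmv, hmz⟩ := pvkd_basic hR (by linarith) hF hP
  have hG := (pvkd_gate hA)
  have hends := pvkd_inn_ends hG
  have tri : ∀ w : ℂ, ‖w - x‖ ≤ ‖w - z‖ + ‖z - x‖ := fun w => by
    calc ‖w - x‖ = ‖(w - z) + (z - x)‖ := by ring_nf
      _ ≤ _ := norm_add_le _ _
  have hrun0 : P.v j = pvxPos ω 𝔖.gm := by
    have := hp.run 0 (Nat.zero_le _)
    rwa [hends.1, Nat.add_zero] at this
  have hrun1 : P.v (j + 𝔖.inn.n) = pvxPos ω 𝔖.gp := by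
    have := hp.run 𝔖.inn.n le_rfl
    rwa [hends.2] at this
  have hj6 : ‖P.v j - x‖ ≤ 6 * R := by
    have h1 := (hG.ann 𝔖.gm (pvdc_gm_mem 𝔖 hG.dm_on)).2
    rw [hrun0]
    have := tri (pvxPos ω 𝔖.gm)
    linarith
  have hW := pvkd_window hR hA.good hP hj6 (pvkd_gate_col hA hp)
  refine pvdc_hcut (delb_plane_isSph hA.good) 𝔖 hG hW (pvkd_inj hR hP) hcl ?_ hμ0 ?_ ?_ hp.le hrun0 hrun1 𝔓.𝔐 t hnum ?_
  · have h1 : ‖P.v 0 - x‖ ≤ ‖P.v 0 - z‖ + ‖z - x‖ := tri _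
    linarith
  · intro w hw
    have := tri w
    linarith
  · intro k hk hor
    refine hmv k hk ?_
    rcases hor with h1 | h1
    · left; have := tri (P.v k); linarith
    · right; have := tri (P.v (k + 1)); linarith
  · intro k hk h1
    refine hmz k hk (Or.inr ?_)
    have := tri (P.z k)
    linarith

end trap

/-! ## 5. the dictionary -/

/-- the dart weight of the field `y_a = xQ - a xV` on the map of record -/
noncomputable def pvkdW (ω : PVSample) (a : ℂ) (d : (delbPl (pvxY ω)).Dart) : ℂ := (pvxT ω).qpart (pvxPos ω) d - a * (pvxT ω).side (pvxPos ω) d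

theorem pvkd_eqns_cite : True := by
  have := @pvkdW.eq_1
  trivial

section dict

variable {τ : Type} {c : ℝ} {𝔓 : PvxPar τ c} {x : ℂ} {R μ : ℝ} {ω : PVSample} {P : PvbRim} {m : ℕ}

/-- **THE DICTIONARY AT THE MODEL**: `pvbArcI (P; s,t) = X(D)` for the field `y_a`, every `a`.
HYPOTHESES WHICH ARE NOT IN `pvxFit` (v2): the CONFINEMENT `hin` of the three windows;   fine mesh;   the numbers `b h + μ < R`, `m h + μ < a h`. -/
theorem pvkd_X (hW : 𝔓.Wf) (hR : 0 < R) (hμ0 : 0 ≤ μ) (hF : L9Fine (pvxY ω) (Metric.closedBall x (6 * R)) μ) (hP : P ∈ pvhbAll x R ω)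
    {s t : PvbPin τ} {π : PvxIx τ} {𝔇 : PvwDat (pvxT ω)} {j : ℕ} (hs : s.ctr = π.p.zs ∧ s.typ = π.p.ts) (ht : t.ctr = π.p.zt ∧ t.typ = π.p.tt)
    (hAct : PvxActual 𝔇 𝔓.num (pvlmH m) (𝔓.reg m π) (𝔓.col π.p.ts) P j) (hAs : PvxAt 𝔓 m ω π.p.zs π.p.ts 𝔇.s) (hAt : PvxAt 𝔓 m ω π.p.zt π.p.tt 𝔇.t)
    (his : s.idx = j + 𝔇.s.ip) (hit : t.idx = j + 𝔇.s.inn.n + 𝔇.g.n + 𝔇.t.ip)
    (hin : ∀ k, k ≤ 𝔇.s.inn.n + 𝔇.g.n + 𝔇.t.inn.n → ‖P.v (j + k) - x‖ ≤ 6 * R)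
    (hz : ‖π.p.zs - x‖ ≤ 3 * R) (hb : (𝔓.ty π.p.ts).b * pvlmH m + μ < R) (hnum : 𝔓.num.m * pvlmH m + μ < (𝔓.ty π.p.ts).a * pvlmH m) (a : ℂ) :
    pvbArcI 𝔓.𝔐 (pvlmH m) P (fun k => P.xQ k - a * P.xV k) s t = 𝔇.X (pvxPos ω) (pvkdW ω a) 𝔓.num (pvlmH m) (𝔓.reg m π) := by
  have hH : 0 < pvlmH m := pvlm_H_pos m
  have hgood := hAs.good
  have hlt := hAct.pin_t.le
  have rd : ∀ (p : (pvxT ω).Pth) (o : ℕ), p.n < P.len → (∀ k, k ≤ p.n → P.v (o + k) = pvxPos ω (p.v k)) → (∀ k, k ≤ p.n → ‖P.v (o + k) - x‖ ≤ 6 * R) →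
      ∀ i, i < p.n → P.z (o + i) = (pvxT ω).bary (pvxPos ω) ((pvxT ω).opp (p.e i)) ∧ P.xQ (o + i) - a * P.xV (o + i) = pvkdW ω a ((pvxT ω).opp (p.e i)) := by
    intro p o h1 h2 h3 i hi
    obtain ⟨e1, e2, e3⟩ := pvkd_read hR hgood hP p h1 h2 h3 i hi
    exact ⟨e1, by rw [e2, e3]; rfl⟩
  refine pvdc_X_dat 𝔇 (pvxPos ω) (pvkdW ω a) 𝔓.num (𝔓.reg m π) _ s t j (hs.1.trans (hW.reg_zs m π).symm) (ht.1.trans (hW.reg_zt m π).symm)
    (hW.mc_eq _) (hW.mc_eq _) his hit (pvkd_gate hAs).ip_le hAct.pin_s.le.le ?_ ?_ ?_ ?_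
  · exact rd 𝔇.s.inn j (by omega) hAct.pin_s.run fun k hk => hin k (by omega)
  · exact rd 𝔇.g (j + 𝔇.s.inn.n) (by omega) hAct.arc fun k hk => by
      have := hin (𝔇.s.inn.n + k) (by omega)
      rwa [← Nat.add_assoc] at this
  · intro i hi
    have hip := (pvkd_gate hAt).ip_le
    exact rd 𝔇.t.inn (j + 𝔇.s.inn.n + 𝔇.g.n) (by omega) hAct.pin_t.run (fun k hk => by
      have := hin (𝔇.s.inn.n + 𝔇.g.n + k) (by omega)
      rwa [← Nat.add_assoc, ← Nat.add_assoc] at this) i (by omega)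
  · rw [hs.1, hs.2]
    have ha0 := hW.a0 π.p.ts
    have hab := hW.ab π.p.ts
    refine pvkd_hcut hR hμ0 hF hP hAs hAct.pin_s hz hb (mul_nonneg (ha0.trans hab).le hH.le) ?_ ?_
    · rw [hW.mc_eq]; exact hnum
    · exact mul_le_mul_of_nonneg_right hab.le hH.le

/-- **CONFINEMENT** of the three windows (clause of `pvxFit` v3) from the confinement of the arc `[idx s, idx t]` (hypothesis of the field `cover`) and the two gates -/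
theorem pvkd_conf {ρ' : ℝ} {s t : PvbPin τ} {π : PvxIx τ} {𝔇 : PvwDat (pvxT ω)} {j : ℕ}
    (hAct : PvxActual 𝔇 𝔓.num (pvlmH m) (𝔓.reg m π) (𝔓.col π.p.ts) P j) (hAs : PvxAt 𝔓 m ω π.p.zs π.p.ts 𝔇.s) (hAt : PvxAt 𝔓 m ω π.p.zt π.p.tt 𝔇.t)
    (his : s.idx = j + 𝔇.s.ip) (hit : t.idx = j + 𝔇.s.inn.n + 𝔇.g.n + 𝔇.t.ip) (harc : ∀ k, s.idx ≤ k → k ≤ t.idx → ‖P.v k - x‖ ≤ ρ')
    (hbs : (𝔓.ty π.p.ts).b * pvlmH m + ‖π.p.zs - x‖ ≤ ρ') (hbt : (𝔓.ty π.p.tt).b * pvlmH m + ‖π.p.zt - x‖ ≤ ρ') :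
    ∀ k, j ≤ k → k ≤ j + 𝔇.s.inn.n + 𝔇.g.n + 𝔇.t.inn.n → ‖P.v k - x‖ ≤ ρ' := by
  have tri : ∀ w z : ℂ, ‖w - x‖ ≤ ‖w - z‖ + ‖z - x‖ := fun w z => by
    calc ‖w - x‖ = ‖(w - z) + (z - x)‖ := by ring_nf
      _ ≤ _ := norm_add_le _ _
  have hips := (pvkd_gate hAs).ip_le
  intro k hjk hk
  rcases Nat.lt_or_ge k (j + 𝔇.s.inn.n) with h1 | h1
  · obtain ⟨i, rfl⟩ : ∃ i, k = j + i := ⟨k - j, by omega⟩
    rw [hAct.pin_s.run i (by omega)]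
    have h2 := pvkd_inn_near (pvkd_gate hAs) i (by omega)
    have := tri (pvxPos ω (𝔇.s.inn.v i)) π.p.zs
    linarith
  · rcases Nat.lt_or_ge (j + 𝔇.s.inn.n + 𝔇.g.n) k with h2 | h2
    · obtain ⟨i, rfl⟩ : ∃ i, k = j + 𝔇.s.inn.n + 𝔇.g.n + i := ⟨k - (j + 𝔇.s.inn.n + 𝔇.g.n), by omega⟩
      have h3 := hAct.pin_t.run i (by omega)
      have h4 := pvkd_inn_near (pvkd_gate hAt) i (by omega)
      rw [h3]
      have := tri (pvxPos ω (𝔇.t.inn.v i)) π.p.zt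
      linarith
    · exact harc _ (by omega) (by omega)

/-- the numbers of the menu: `m h + μ < a h` as soon as `μ ≤ h` -/
theorem pvkd_num (hW : 𝔓.WfB) (t : τ) (hμ : μ ≤ pvlmH m) : 𝔓.num.m * pvlmH m + μ < (𝔓.ty t).a * pvlmH m := by
  have hH : 0 < pvlmH m := pvlm_H_pos m
  have h1 := 𝔓.𝔐.mc_gt t
  have h2 := 𝔓.𝔐.mc_lt t
  have h3 := 𝔓.𝔐.a3_gt t
  have h4 := hW.a3_le t
  have h5 := hW.mc_eq t
  have h6 : 𝔓.num.m + 1 < (𝔓.ty t).a := by linarith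
  nlinarith

/-- **THE DICTIONARY ON `pvxFit`** (v3 of `Defs/TrModel`): the datum of the fit, with `pvbArcI = X(D)` for every scalar `a`.
On the event: fine mesh `μ ≤ h_m` in `closedBall x (6R)`;   level `m` so large that `L h_m + μ < R`. -/
theorem pvkd_X_fit (hW : 𝔓.Wf) (hR : 0 < R) (hμ0 : 0 ≤ μ) (hμ : μ ≤ pvlmH m) (hL : 𝔓.𝔐.L * pvlmH m + μ < R) (hF : L9Fine (pvxY ω) (Metric.closedBall x (6 * R)) μ)
    (hP : P ∈ pvhbAll x R ω) {s t : PvbPin τ} {π : PvxIx τ} (hfit : pvxFit 𝔓 x R m ω P s t π) (hzs : ‖π.p.zs - x‖ ≤ 3 * R) :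
    ∃ (𝔇 : PvwDat (pvxT ω)) (j : ℕ), 𝔇.Ok (pvxPos ω) 𝔓.num (pvlmH m) (𝔓.reg m π) ∧ PvxActual 𝔇 𝔓.num (pvlmH m) (𝔓.reg m π) (𝔓.col π.p.ts) P j ∧
      PvxAt 𝔓 m ω π.p.zs π.p.ts 𝔇.s ∧ PvxAt 𝔓 m ω π.p.zt π.p.tt 𝔇.t ∧
      (∀ k, j ≤ k → k ≤ j + 𝔇.s.inn.n + 𝔇.g.n + 𝔇.t.inn.n → ‖P.v k - x‖ ≤ 5 * R) ∧
      ∀ a : ℂ, pvbArcI 𝔓.𝔐 (pvlmH m) P (fun k => P.xQ k - a * P.xV k) s t = 𝔇.X (pvxPos ω) (pvkdW ω a) 𝔓.num (pvlmH m) (𝔓.reg m π) := by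
  obtain ⟨hs, ht, -, -, 𝔇, j, hok, hAct, hAs, hAt, his, hit, hin, -, -⟩ := hfit
  have hH : 0 < pvlmH m := pvlm_H_pos m
  have hb : (𝔓.ty π.p.ts).b * pvlmH m + μ < R := by
    have := mul_le_mul_of_nonneg_right (hW.b_le π.p.ts) hH.le
    linarith
  refine ⟨𝔇, j, hok, hAct, hAs, hAt, hin, fun a => pvkd_X hW hR hμ0 hF hP hs ht hAct hAs hAt his hit (fun k hk => ?_) hzs hb (pvkd_num hW.toWfB _ hμ) a⟩
  have := hin (j + k) (Nat.le_add_right _ _) (by omega)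
  linarith

end dict

end Claimed.Agent.R289
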