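import Claimed.Agent.R289.Tr.BuThick
import Claimed.Agent.R289.Tr.BesUp
import Claimed.Agent.R289.Del.GenPos

/-!
# Row 289 (S0537), THE WALL, file Tr/BuNorm : LEAF (K2) OF THE FIELD `thick` (`norm` + `bd` of `PvekDat.At`, 7 `Exit/Thick`), MODEL FREE      (helper103, split of 7 of 11:10Z; prefix `pvkt_`)

Everything below is PROVED (0 sorry).   NO measurability of weights, events, values: all integrals are LOWER integrals, `pvdyQ` (193) is an OUTER measure.   The recoloured sets are CONSTANT along the experiment (R18 (L2)).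
* sec. 1  on a seed space `(P, ν)` with a law preserving mix `ρ : P × P → P`:   `pvkt_lint_mix_le`, `pvkt_lint_mix_ae` (`∫⁻ F ≤ ∫⁻ G` as soon as the mean of `F` over the mix is `≤ G` a.e.),
          **`pvkt_insert`** = `pvbu_insert` of 223 WITHOUT `AEMeasurable φ` (the mix has to be ABSORBING: `pvkt_mix_abs`).
* sec. 2  the mix `pvbuMix` of 223: `pvkt_spl_spl`, **`pvkt_mix_abs`**, `pvkt_mem_spl`;   **`pvkt_R_comp`** = THE COMPOSITION LAW
              `pvdyR K yf₁ (pvdyR C yf ω p) p' = pvdyR C yf ω (pvbuMix (yf₁ η)ᶜ (Kᶜ ×ˢ univ) (p, p'))`      (twin of `pvky_R_at` of 218 in the words of 223);   `pvkt_one_ae` (a.e. seed has one colour per site).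
* sec. 3  **(K2)**:   `pvkt_link_inner` (mass of `pvdyW` over its own experiment `≤ 1`, NO hypothesis),   **`pvkt_norm_link`** :
              `∫⁻ p, g (R p) * pvdyW ε K (fun _ => ye) A (R p) ≤ ∫⁻ p, g (R p)`,   `R p = pvdyR C (fun _ => y) ω p`,   `K ⊆ C`,   `ye \ K ⊆ y \ C`,   `g` not touched by the atom `(K, ye)`;
          readers: `pvkt_restr_R_in`, `pvkt_reads_R_in` (a function which reads `O ⊆ C` sees the seed), `pvkt_lint_snd_le`;
          **`pvkt_norm_plug`** : `g` reads `O ×ˢ univ`, `O ⊆ C`, `O` disjoint from `K`, `∫⁻ g ∂pvP ε ≤ 1`  ⟹  the field `norm`;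
          **`pvkt_w_le`**, `pvkt_bd_plug` : `g ≤ b⁻¹ 1_G`, `q ≤ pvdyQ ε K yf A` on `G`  ⟹  `g * pvdyW ε K yf A ≤ b⁻¹ q⁻¹ 1_{G ∩ A}` = the field `bd`.
-/

set_option autoImplicit false

namespace Claimed.Agent.R289

open MeasureTheory ProbabilityTheory Set Filter Topology Claims.C0465
open scoped ENNReal

/-! ## 1. on the seed space, no measurability of the integrands -/

section seed

variable {P : Type*} [MeasurableSpace P] {ν : Measure P} [IsProbabilityMeasure ν] {ρ : P × P → P}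

/-- a lower integral is below the iterated lower integral after a law preserving mix -/
theorem pvkt_lint_mix_le (hρ : Measurable ρ) (hlaw : (ν.prod ν).map ρ = ν) (F : P → ℝ≥0∞) : ∫⁻ p, F p ∂ν ≤ ∫⁻ p, ∫⁻ p', F (ρ (p, p')) ∂ν ∂ν := by
  obtain ⟨G, mG, hG, e⟩ := exists_measurable_le_lintegral_eq ν F
  rw [e]
  calc ∫⁻ p, G p ∂ν = ∫⁻ p, G p ∂((ν.prod ν).map ρ) := by rw [hlaw]
    _ = ∫⁻ x, G (ρ x) ∂(ν.prod ν) := lintegral_map mG hρ
    _ = ∫⁻ p, ∫⁻ p', G (ρ (p, p')) ∂ν ∂ν := lintegral_prod _ (mG.comp hρ).aemeasurable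
    _ ≤ _ := lintegral_mono fun p => lintegral_mono fun p' => hG _

/-- `∫⁻ F ≤ ∫⁻ G` as soon as the mean of `F` over the mix is `≤ G` almost everywhere -/
theorem pvkt_lint_mix_ae (hρ : Measurable ρ) (hlaw : (ν.prod ν).map ρ = ν) {F G : P → ℝ≥0∞} (h : ∀ᵐ p ∂ν, ∫⁻ p', F (ρ (p, p')) ∂ν ≤ G p) : ∫⁻ p, F p ∂ν ≤ ∫⁻ p, G p ∂ν :=
  (pvkt_lint_mix_le hρ hlaw F).trans (lintegral_mono_ae h)

/-- **INSERTION ON THE SEED SPACE, `φ` ARBITRARY** (`pvbu_insert` of 223 without `AEMeasurable φ`): `ρ` = a law preserving ABSORBING mix, `φ` is not touched by the mix, `A2` has probability `≥ q'` after the mix wherever `φ ≠ 0`.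
(A measurable minorant of `φ` is replaced by its mean over the mix, which is still a minorant and is not touched by the mix.) -/
theorem pvkt_insert (hρ : Measurable ρ) (hlaw : (ν.prod ν).map ρ = ν) (habs : ∀ p p' p'', ρ (ρ (p, p'), p'') = ρ (p, p'')) {φ : P → ℝ≥0∞} {A2 : Set P} (hA2 : NullMeasurableSet A2 ν)
    (hfix : ∀ p p', φ (ρ (p, p')) = φ p) {q' : ℝ≥0∞} (hq : ∀ p, φ p ≠ 0 → q' ≤ ν {p' | ρ (p, p') ∈ A2}) :
    q' * ∫⁻ p, φ p ∂ν ≤ ∫⁻ p, φ p * A2.indicator 1 p ∂ν := by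
  obtain ⟨ψ, mψ, hψ, e⟩ := exists_measurable_le_lintegral_eq ν φ
  let ψ' : P → ℝ≥0∞ := fun p => ∫⁻ p'', ψ (ρ (p, p'')) ∂ν
  have mψ' : Measurable ψ' := (mψ.comp hρ).lintegral_prod_right'
  have h1 : ∀ p, ψ' p ≤ φ p := fun p => by
    calc ψ' p ≤ ∫⁻ _p'', φ p ∂ν := lintegral_mono fun p'' => (hψ _).trans (le_of_eq (hfix p p''))
      _ = φ p := by simp
  have h2 : ∫⁻ p, ψ' p ∂ν = ∫⁻ p, φ p ∂ν := by
    rw [e]
    calc ∫⁻ p, ψ' p ∂ν = ∫⁻ x, ψ (ρ x) ∂(ν.prod ν) := (lintegral_prod _ (mψ.comp hρ).aemeasurable).symm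
      _ = ∫⁻ p, ψ p ∂((ν.prod ν).map ρ) := (lintegral_map mψ hρ).symm
      _ = _ := by rw [hlaw]
  have h3 : ∀ p p', ψ' (ρ (p, p')) = ψ' p := fun p p' => by simp only [ψ', habs]
  have k := pvbu_insert hρ hlaw mψ'.aemeasurable hA2 h3 (fun p h0 => hq p fun h => h0 (le_antisymm ((h1 p).trans (le_of_eq h)) zero_le))
  rw [← h2]
  exact k.trans (lintegral_mono fun p => mul_le_mul_left (h1 p) _)

end seed

/-! ## 2. the mix of the seeds `(κ, ω₂)` (223): absorption;   THE COMPOSITION LAW of the hybrid resampling -/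

section comp

theorem pvkt_spl_spl {E : Type*} [MeasurableSpace E] (O : Set E) (a b c : Conf E) : Conf.spl O (Conf.spl O (a, b), c) = Conf.spl O (a, c) := by
  rw [← Conf.spl_restr, Conf.restr_spl, Conf.spl_restr]

/-- the mix of 223 is ABSORBING -/
theorem pvkt_mix_abs (Kp : Set ℂ) (O : Set PvPt) (p p' p'' : (ℂ → Bool) × Conf PvPt) : pvbuMix Kp O (pvbuMix Kp O (p, p'), p'') = pvbuMix Kp O (p, p'') := by
  unfold pvbuMix
  exact Prod.ext (pvfqMix_mix _ _ _ _) (pvkt_spl_spl _ _ _ _)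

theorem pvkt_mem_spl {K : Set ℂ} {a b : Conf PvPt} {x : PvPt} : x ∈ (Conf.spl (Kᶜ ×ˢ (univ : Set Bool)) (a, b)).pts ↔ (x.1 ∉ K ∧ x ∈ a.pts) ∨ (x.1 ∈ K ∧ x ∈ b.pts) := by
  simp only [Conf.spl, Conf.union, Conf.restr, mem_union, mem_inter_iff, mem_prod, mem_compl_iff, mem_univ, and_true, not_not]
  tauto

/-- the colour read by `cfCol` at a site of `C` of a resampled configuration whose seed has one colour per site -/
theorem pvkt_cfCol_in {C : Set ℂ} {yf : Conf PvPt → Set ℂ} {ω : Conf PvPt} {p : (ℂ → Bool) × Conf PvPt} (hfn : ∀ a ∈ p.2.pts, ∀ b ∈ p.2.pts, a.1 = b.1 → a = b)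
    {x : PvPt} (hC : x.1 ∈ C) (hx : x ∈ p.2.pts) : cfCol (pvdyR C yf ω p) x.1 = x.2 := by
  classical
  unfold cfCol
  cases hb : x.2
  · rw [decide_eq_false_iff_not]
    intro hh
    rcases pvdy_mem_R.1 hh with ⟨h4, -⟩ | ⟨-, h4⟩
    · exact h4 hC
    · have := congrArg Prod.snd (hfn _ h4 _ hx rfl)
      rw [hb] at this
      exact Bool.noConfusion this
  · rw [decide_eq_true_iff, ← hb]
    exact pvdy_mem_R.2 (Or.inr ⟨hC, hx⟩)

/-- **COMPOSITION LAW**: resampling the SUB-ATOM (tile `K ⊆ C`, colours of `yf₁ η`) of an already resampled configuration `η = R ω p` is the experiment `R ω` at the MIXED seed.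
Asked: the seed configuration has one colour per site;   the sites of `yf₁ η` off `K` lie off `C` and are recoloured by the large experiment. -/
theorem pvkt_R_comp {K C : Set ℂ} {yf yf₁ : Conf PvPt → Set ℂ} {ω : Conf PvPt} {p : (ℂ → Bool) × Conf PvPt} (hKC : K ⊆ C)
    (hfn : ∀ a ∈ p.2.pts, ∀ b ∈ p.2.pts, a.1 = b.1 → a = b)
    (h1 : ∀ z ∈ cfSites (pvdyR C yf ω p), z ∉ K → z ∈ yf₁ (pvdyR C yf ω p) → z ∉ C ∧ z ∈ yf ω) (p' : (ℂ → Bool) × Conf PvPt) :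
    pvdyR K yf₁ (pvdyR C yf ω p) p' = pvdyR C yf ω (pvbuMix (yf₁ (pvdyR C yf ω p))ᶜ (Kᶜ ×ˢ univ) (p, p')) := by
  have hcolC : ∀ x : PvPt, x.1 ∈ C → x ∈ p.2.pts → cfCol (pvdyR C yf ω p) x.1 = x.2 := fun x => pvkt_cfCol_in hfn
  obtain ⟨η, hη⟩ : ∃ η, η = pvdyR C yf ω p := ⟨_, rfl⟩
  rw [← hη] at h1 hcolC ⊢
  ext x
  rw [pvdy_mem_R, pvdy_mem_R]
  show _ ↔ (x.1 ∉ C ∧ x.1 ∈ cfSites ω ∧ x.2 = pvfqMix (yf ω) (pvfqMix (yf₁ η)ᶜ (p.1, p'.1), cfCol ω) x.1) ∨ (x.1 ∈ C ∧ x ∈ (Conf.spl (Kᶜ ×ˢ univ) (p.2, p'.2)).pts)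
  rw [pvkt_mem_spl]
  have hs : cfSites η = (cfSites ω \ C) ∪ (cfSites p.2 ∩ C) := by rw [hη]; exact pvdy_sites_R C yf ω p
  by_cases hK : x.1 ∈ K
  · have hC : x.1 ∈ C := hKC hK
    simp only [hK, hC, not_true_eq_false, false_and, true_and, false_or]
  by_cases hC : x.1 ∈ C
  · simp only [hK, hC, not_true_eq_false, not_false_eq_true, false_and, true_and, false_or, or_false]
    constructor
    · rintro ⟨h2, h3⟩
      have hF : x.1 ∉ yf₁ η := fun hh => (h1 _ h2 hK hh).1 hC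
      rw [pvfqMix_of_notMem hF] at h3
      rw [hs] at h2
      rcases h2 with h2 | h2
      · exact absurd hC h2.2
      obtain ⟨⟨y, hy, hy1⟩, -⟩ := h2
      have hcol : cfCol η x.1 = y.2 := by rw [← hy1]; exact hcolC y (by rw [hy1]; exact hC) hy
      have : x = y := Prod.ext hy1.symm (h3.trans hcol)
      rw [this]; exact hy
    · intro hx
      have hxη : x ∈ η.pts := by rw [hη]; exact pvdy_mem_R.2 (Or.inr ⟨hC, hx⟩)
      have h2 : x.1 ∈ cfSites η := ⟨x, hxη, rfl⟩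
      have hF : x.1 ∉ yf₁ η := fun hh => (h1 _ h2 hK hh).1 hC
      refine ⟨h2, ?_⟩
      rw [pvfqMix_of_notMem hF]
      exact (hcolC x hC hx).symm
  · simp only [hK, hC, not_false_eq_true, true_and, false_and, or_false]
    have hsx : x.1 ∈ cfSites η ↔ x.1 ∈ cfSites ω := by
      rw [hs]
      simp only [mem_union, Set.mem_sdiff, mem_inter_iff, hC, not_false_eq_true, and_true, and_false, or_false]
    rw [hsx]
    refine and_congr_right fun h2 => ?_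
    have hcol : cfCol η x.1 = pvfqMix (yf ω) (p.1, cfCol ω) x.1 := by rw [hη]; exact pvdy_cfCol_R yf p h2 hC
    have e : pvfqMix (yf₁ η) (p'.1, cfCol η) x.1 = pvfqMix (yf ω) (pvfqMix (yf₁ η)ᶜ (p.1, p'.1), cfCol ω) x.1 := by
      by_cases hF : x.1 ∈ yf₁ η
      · have hy := (h1 _ (hsx.2 h2) hK hF).2
        rw [pvfqMix_of_mem hF, pvfqMix_of_mem hy]
        show p'.1 x.1 = pvfqMix (yf₁ η)ᶜ (p.1, p'.1) x.1
        rw [pvfqMix_of_notMem (show x.1 ∉ (yf₁ η)ᶜ from fun hh => hh hF)]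
      · rw [pvfqMix_of_notMem hF]
        show cfCol η x.1 = _
        rw [hcol]
        by_cases hy : x.1 ∈ yf ω
        · rw [pvfqMix_of_mem hy, pvfqMix_of_mem hy]
          show p.1 x.1 = pvfqMix (yf₁ η)ᶜ (p.1, p'.1) x.1
          rw [pvfqMix_of_mem (show x.1 ∈ (yf₁ η)ᶜ from hF)]
        · rw [pvfqMix_of_notMem hy, pvfqMix_of_notMem hy]
    rw [e]

/-- almost every seed has one colour per site -/
theorem pvkt_one_ae (ε : ℝ) : ∀ᵐ p ∂pvdyNu ε, ∀ a ∈ p.2.pts, ∀ b ∈ p.2.pts, a.1 = b.1 → a = b := by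
  have := (pv_isPpp ε).prob
  have h : ∀ᵐ η ∂(pvP ε), ∀ p ∈ η.pts, ∀ q ∈ η.pts, p.1 = q.1 → p = q := (delgp_ae_conf ε).mono fun _ h => h.2.2
  unfold pvdyNu
  exact Measure.quasiMeasurePreserving_snd.ae h

end comp

/-! ## 3. (K2): the mass of `g · 1_A / P(A | all but the atom)`, the bound of the weight -/

section link

variable {ε : ℝ} {K C O ye y : Set ℂ} {A G : Set (Conf PvPt)} {g : Conf PvPt → ℝ≥0∞} {ω : Conf PvPt}

/-- the mass of `pvdyW` over ITS OWN experiment is at most one: NO hypothesis (lower integral, outer measure) -/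
theorem pvkt_link_inner (ε : ℝ) (K ye : Set ℂ) (A : Set (Conf PvPt)) (g0 : ℝ≥0∞) (η : Conf PvPt) :
    ∫⁻ p', g0 * pvdyW ε K (fun _ => ye) A (pvdyR K (fun _ => ye) η p') ∂pvdyNu ε ≤ g0 := by
  have e : ∀ p', pvdyW ε K (fun _ => ye) A (pvdyR K (fun _ => ye) η p') = A.indicator 1 (pvdyR K (fun _ => ye) η p') / pvdyQ ε K (fun _ => ye) A η :=
    fun p' => pvdy_W_R ε A fun _ _ _ => Iff.rfl
  simp only [e]
  by_cases ht : g0 = ∞
  · rw [ht]; exact le_top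
  obtain ⟨π, hπ⟩ : ∃ π, π = pvdyQ ε K (fun _ => ye) A η := ⟨_, rfl⟩
  rw [← hπ]
  have hm : ∫⁻ p', A.indicator (1 : Conf PvPt → ℝ≥0∞) (pvdyR K (fun _ => ye) η p') ∂pvdyNu ε ≤ π := by
    rw [hπ]
    exact lintegral_indicator_one_le ({p' | pvdyR K (fun _ => ye) η p' ∈ A} : Set _)
  by_cases h0 : π = 0
  · -- the event is null along the experiment
    have hz : ∀ᵐ p' ∂pvdyNu ε, g0 * (A.indicator (1 : Conf PvPt → ℝ≥0∞) (pvdyR K (fun _ => ye) η p') / π) = 0 := by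
      have hn : pvdyNu ε {p' | pvdyR K (fun _ => ye) η p' ∈ A} = 0 := by rw [← h0, hπ]; rfl
      filter_upwards [measure_eq_zero_iff_ae_notMem.1 hn] with p' hp'
      rw [indicator_of_notMem (show pvdyR K (fun _ => ye) η p' ∉ A from hp'), ENNReal.zero_div, mul_zero]
    rw [lintegral_congr_ae hz]
    simp
  have e2 : ∀ p', g0 * (A.indicator (1 : Conf PvPt → ℝ≥0∞) (pvdyR K (fun _ => ye) η p') / π) = g0 / π * A.indicator (1 : Conf PvPt → ℝ≥0∞) (pvdyR K (fun _ => ye) η p') := fun p' => by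
    rw [ENNReal.div_eq_inv_mul, ENNReal.div_eq_inv_mul]; ring
  simp only [e2]
  rw [lintegral_const_mul' _ _ (ENNReal.div_ne_top ht h0)]
  calc g0 / π * ∫⁻ p', A.indicator (1 : Conf PvPt → ℝ≥0∞) (pvdyR K (fun _ => ye) η p') ∂pvdyNu ε ≤ g0 / π * π := by gcongr
    _ ≤ g0 := by rw [mul_comm]; exact ENNReal.mul_div_le

/-- **(K2) THE MASS OF A PRODUCT WEIGHT**.      `R p = pvdyR C (fun _ => y) ω p` = the large experiment;   `(K, ye)` = the atom of the link: `K ⊆ C`, the sites of `ye` off `K` lie off `C` and in `y`;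
`g` (weight of all the rest: integrated plug ..) is not touched by the atom, along the experiment. -/
theorem pvkt_norm_link (ε : ℝ) (mK : MeasurableSet K) (hKC : K ⊆ C) (hye : ∀ z ∈ ye, z ∉ K → z ∉ C ∧ z ∈ y) (A : Set (Conf PvPt))
    (hg : ∀ᵐ p ∂pvdyNu ε, ∀ p', g (pvdyR K (fun _ => ye) (pvdyR C (fun _ => y) ω p) p') = g (pvdyR C (fun _ => y) ω p)) :
    ∫⁻ p, g (pvdyR C (fun _ => y) ω p) * pvdyW ε K (fun _ => ye) A (pvdyR C (fun _ => y) ω p) ∂pvdyNu ε ≤ ∫⁻ p, g (pvdyR C (fun _ => y) ω p) ∂pvdyNu ε := by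
  have := (pv_isPpp ε).prob
  have : IsProbabilityMeasure (pvdyNu ε) := by unfold pvdyNu; infer_instance
  have mO : MeasurableSet (Kᶜ ×ˢ (univ : Set Bool)) := mK.compl.prod MeasurableSet.univ
  refine pvkt_lint_mix_ae (pvbu_mix_measurable yeᶜ mO) (pvbu_mix_law ε yeᶜ mO) ?_
  filter_upwards [pvkt_one_ae ε, hg] with p hp hgp
  have ec : ∀ p', pvdyR C (fun _ => y) ω (pvbuMix yeᶜ (Kᶜ ×ˢ univ) (p, p')) = pvdyR K (fun _ => ye) (pvdyR C (fun _ => y) ω p) p' := fun p' =>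
    (pvkt_R_comp (yf₁ := fun _ => ye) hKC hp (fun z _ h2 h3 => hye z h3 h2) p').symm
  simp only [ec, hgp]
  exact pvkt_link_inner ε K ye A _ _

/-- inside the resampled region the experiment shows the seed -/
theorem pvkt_restr_R_in (hO : O ⊆ C) (yf : Conf PvPt → Set ℂ) (ω : Conf PvPt) (p : (ℂ → Bool) × Conf PvPt) : Conf.restr (O ×ˢ univ) (pvdyR C yf ω p) = Conf.restr (O ×ˢ univ) p.2 := by
  ext x
  have := @hO x.1
  simp only [Conf.restr, mem_inter_iff, pvdy_mem_R, mem_prod, mem_univ, and_true]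
  tauto

/-- a function which reads a region inside `C` sees the seed -/
theorem pvkt_reads_R_in {β : Type*} {f : Conf PvPt → β} (hf : Conf.Reads (O ×ˢ univ) f) (hO : O ⊆ C) (yf : Conf PvPt → Set ℂ) (ω : Conf PvPt) (p : (ℂ → Bool) × Conf PvPt) :
    f (pvdyR C yf ω p) = f p.2 := hf.eq_of_restr (pvkt_restr_R_in hO yf ω p)

/-- lower integral of a function of the independent configuration -/
theorem pvkt_lint_snd_le (ε : ℝ) (g : Conf PvPt → ℝ≥0∞) : ∫⁻ p, g p.2 ∂pvdyNu ε ≤ ∫⁻ η, g η ∂pvP ε := by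
  have := (pv_isPpp ε).prob
  obtain ⟨φ, mφ, hφ, e⟩ := exists_measurable_le_lintegral_eq (pvdyNu ε) fun p => g p.2
  rw [e]
  unfold pvdyNu
  rw [lintegral_prod _ mφ.aemeasurable]
  calc ∫⁻ κ, ∫⁻ η, φ (κ, η) ∂pvP ε ∂colLaw ℂ ≤ ∫⁻ _κ, ∫⁻ η, g η ∂pvP ε ∂colLaw ℂ := lintegral_mono fun κ => lintegral_mono fun η => hφ (κ, η)
    _ = ∫⁻ η, g η ∂pvP ε := by simp

/-- **(K2) THE FIELD `norm`** for `w = g · pvdyW ε K (fun _ => ye) A`, `g` = the weight of an INTEGRATED PLUG: it reads a region `O ⊆ C` disjoint from the tile `K` of the link. -/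
theorem pvkt_norm_plug (ε : ℝ) (mK : MeasurableSet K) (hKC : K ⊆ C) (hye : ∀ z ∈ ye, z ∉ K → z ∉ C ∧ z ∈ y) (A : Set (Conf PvPt))
    (hg : Conf.Reads (O ×ˢ univ) g) (hOC : O ⊆ C) (hOK : Disjoint O K) (h1 : ∫⁻ η, g η ∂pvP ε ≤ 1) (ω : Conf PvPt) :
    ∫⁻ p, g (pvdyR C (fun _ => y) ω p) * pvdyW ε K (fun _ => ye) A (pvdyR C (fun _ => y) ω p) ∂pvdyNu ε ≤ 1 := by
  refine (pvkt_norm_link ε mK hKC hye A ?_).trans ?_
  · filter_upwards [pvkt_one_ae ε] with p hp p'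
    rw [pvkt_R_comp (yf₁ := fun _ => ye) hKC hp (fun z _ h2 h3 => hye z h3 h2) p', pvkt_reads_R_in hg hOC, pvkt_reads_R_in hg hOC]
    refine hg.eq_of_restr ?_
    ext x
    have := @Set.disjoint_left.1 hOK x.1
    show x ∈ (Conf.restr (O ×ˢ univ) (Conf.spl (Kᶜ ×ˢ univ) (p.2, p'.2))).pts ↔ _
    simp only [Conf.restr, mem_inter_iff, pvkt_mem_spl, mem_prod, mem_univ, and_true]
    tauto
  · simp only [pvkt_reads_R_in hg hOC]
    exact (pvkt_lint_snd_le ε g).trans h1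

/-- **(K2) THE BOUND OF THE WEIGHT**, pointwise -/
theorem pvkt_w_le {yf : Conf PvPt → Set ℂ} {b q : ℝ≥0∞} {η : Conf PvPt} (hg : g η ≤ b⁻¹ * G.indicator 1 η) (hq : η ∈ G → q ≤ pvdyQ ε K yf A η) :
    g η * pvdyW ε K yf A η ≤ b⁻¹ * q⁻¹ * (G ∩ A).indicator 1 η := by
  by_cases hG : η ∈ G
  · rw [indicator_of_mem hG, Pi.one_apply, mul_one] at hg
    have h2 := pvdy_W_le ε K yf A (hq hG)
    have e : (G ∩ A).indicator (1 : Conf PvPt → ℝ≥0∞) η = A.indicator 1 η := by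
      by_cases hA : η ∈ A
      · rw [indicator_of_mem hA, indicator_of_mem (show η ∈ G ∩ A from ⟨hG, hA⟩)]
      · rw [indicator_of_notMem hA, indicator_of_notMem fun h => hA h.2]
    rw [e, mul_assoc]
    exact mul_le_mul' hg h2
  · rw [indicator_of_notMem hG, mul_zero] at hg
    rw [nonpos_iff_eq_zero.1 hg, zero_mul]
    exact zero_le

/-- **(K2) THE FIELD `bd`** along the experiment, from the forcing along the experiment ((K5)) -/
theorem pvkt_bd_plug {yf yf' : Conf PvPt → Set ℂ} {b q : ℝ≥0∞} (hg : ∀ η, g η ≤ b⁻¹ * G.indicator 1 η)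
    (hq : ∀ᵐ p ∂pvdyNu ε, pvdyR C yf ω p ∈ G → q ≤ pvdyQ ε K yf' A (pvdyR C yf ω p)) :
    ∀ᵐ p ∂pvdyNu ε, g (pvdyR C yf ω p) * pvdyW ε K yf' A (pvdyR C yf ω p) ≤ b⁻¹ * q⁻¹ * (G ∩ A).indicator 1 (pvdyR C yf ω p) :=
  hq.mono fun _ h => pvkt_w_le (hg _) h

end link

end Claimed.Agent.R289
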