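import Claimed.Agent.R289.Tr.Ind

/-!
# Row 289 (S0537), wall, chapters A / E, file Tr/Chain : THE CHAIN ENGINE ON ONE PROBABILITY SPACE (K1, K1', K2, K3, K4 of W1_125 = TR1, TR2, TR3, TR3', TR5 of TR_295)      (owner helper218; prefix `pvtk_`, `pvtk`, `Pvtk`)

No product space, no conditional expectation, no kernel.   The only structure is a family of commuting RESAMPLERS on one probability space `(Ω, P)`:
`R (ω, ω')` = keep `ω`, except for one ATOM (the content of a plug box, the content of a tile + the fresh bits of two mouths, ...), which is taken from the independent copy `ω'`.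
* `PvtkRs P R`      measurable, `(P ⊗ P).map R = P`, absorbing `R (R (ω, ω'), ω'') = R (ω, ω'')`
* `PvtkIg R f`      `f` IGNORES the atom: `f (R (ω, ω')) = f ω`
* `PvtkComm R R'`   two atoms commute
* `pvtkE P R F ω`   `= ∫⁻ F (R (ω, ω')) dP(ω')`: the conditional expectation given everything but the atom, as an honest integral
* `pvtkW P R A`     `= 1_A / pvtkE P R 1_A`: the weight of a forced link
MODEL: `R = Conf.spl Kᶜ` (`pvtk_rs_spl`, sec. 6): the atom is the restriction to the region `K`.      END STATES (cylinders of W1_208) are PARAMETERS of the experiment: all statements are unconditional on the space of the `YCL`-variables.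

## EXITS
* `pvtk_peel`, `pvtk_peel_finset`, `pvtk_peel_map`, `pvtk_peel_integral` : a family of mutually ignoring weights of conditional mass one may be dropped (lintegral; laws; Bochner integrals WITHOUT integrability hypothesis)
* `pvtk_W_mass`, `pvtk_W_le`, `pvtk_W_ig`, `pvtk_E_ig_of_comm`
* `PvtkSys` (plugs `υ`, links `ι`, `adj`), `S.Wt`, `S.w2 e`, `S.Ev` : **`pvtk_mass`** (TR1), **`pvtk_Wt_le`** (TR1), **`pvtk_marg`**, **`pvtk_marg_integral`** (TR2), **`pvtk_mean`** (TR2), **`pvtk_jensen`** (TR3, TR3'), **`pvtk_link_sq`** (TR5, chain form)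
-/

set_option autoImplicit false
set_option linter.unusedSectionVars false

namespace Claimed.Agent.R289

open MeasureTheory ProbabilityTheory Set
open scoped ENNReal NNReal

/-! ## 1. resamplers -/

section kit

variable {Ω : Type*} [MeasurableSpace Ω] {P : Measure Ω} {R R' : Ω × Ω → Ω}

/-- a RESAMPLER of the law `P` -/
structure PvtkRs (P : Measure Ω) (R : Ω × Ω → Ω) : Prop where
  meas : Measurable R
  law : (P.prod P).map R = P
  abs : ∀ ω ω' ω'', R (R (ω, ω'), ω'') = R (ω, ω'')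

/-- `f` ignores the atom resampled by `R` -/
def PvtkIg {β : Sort*} (R : Ω × Ω → Ω) (f : Ω → β) : Prop := ∀ ω ω', f (R (ω, ω')) = f ω

/-- two resamplers commute -/
def PvtkComm (R R' : Ω × Ω → Ω) : Prop := ∀ ω ω' ω'', R (R' (ω, ω'), ω'') = R' (R (ω, ω''), ω')

/-- the conditional expectation given everything but the atom -/
noncomputable def pvtkE (P : Measure Ω) (R : Ω × Ω → Ω) (F : Ω → ℝ≥0∞) (ω : Ω) : ℝ≥0∞ := ∫⁻ ω', F (R (ω, ω')) ∂P

/-- the weight `1_A / P(A | everything but the atom)` -/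
noncomputable def pvtkW (P : Measure Ω) (R : Ω × Ω → Ω) (A : Set Ω) (ω : Ω) : ℝ≥0∞ :=
  A.indicator 1 ω / pvtkE P R (A.indicator 1) ω

theorem pvtk_eqns_cite : True := by
  have := @PvtkIg.eq_1.{0, 1}; have := @PvtkComm.eq_1.{0}; have := @pvtkE.eq_1.{0}; have := @pvtkW.eq_1.{0}
  trivial

theorem PvtkComm.symm (h : PvtkComm R R') : PvtkComm R' R := fun ω ω' ω'' => (h ω ω'' ω').symm

theorem pvtk_ig_const {β : Sort*} (R : Ω × Ω → Ω) (b : β) : PvtkIg R fun _ : Ω => b := fun _ _ => rfl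

theorem PvtkIg.comp {β γ : Sort*} {f : Ω → β} (h : PvtkIg R f) (g : β → γ) : PvtkIg R fun ω => g (f ω) := fun ω ω' => by
  show g (f (R (ω, ω'))) = g (f ω)
  rw [h]

theorem PvtkIg.map₂ {β γ δ : Sort*} {f : Ω → β} {f' : Ω → γ} (h : PvtkIg R f) (h' : PvtkIg R f') (g : β → γ → δ) :
    PvtkIg R fun ω => g (f ω) (f' ω) := fun ω ω' => by
  show g (f (R (ω, ω'))) (f' (R (ω, ω'))) = g (f ω) (f' ω)
  rw [h, h']

theorem PvtkIg.mul {f f' : Ω → ℝ≥0∞} (h : PvtkIg R f) (h' : PvtkIg R f') : PvtkIg R fun ω => f ω * f' ω := h.map₂ h' (· * ·)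

theorem PvtkIg.prod {ι : Type*} (s : Finset ι) {f : ι → Ω → ℝ≥0∞} (h : ∀ i ∈ s, PvtkIg R (f i)) : PvtkIg R fun ω => ∏ i ∈ s, f i ω := fun ω ω' =>
  Finset.prod_congr rfl fun i hi => h i hi ω ω'

theorem PvtkIg.sum {ι : Type*} {M : Type*} [AddCommMonoid M] (s : Finset ι) {f : ι → Ω → M} (h : ∀ i ∈ s, PvtkIg R (f i)) :
    PvtkIg R fun ω => ∑ i ∈ s, f i ω := fun ω ω' =>
  Finset.sum_congr rfl fun i hi => h i hi ω ω'

theorem PvtkIg.indicator {A : Set Ω} (h : PvtkIg R fun ω => ω ∈ A) : PvtkIg R (A.indicator (1 : Ω → ℝ≥0∞)) := fun ω ω' => by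
  have e : (R (ω, ω') ∈ A) = (ω ∈ A) := h ω ω'
  by_cases hω : ω ∈ A
  · rw [Set.indicator_of_mem hω, Set.indicator_of_mem (e ▸ hω)]; rfl
  · rw [Set.indicator_of_notMem hω, Set.indicator_of_notMem (e ▸ hω)]

theorem PvtkIg.preimage {β : Type*} {f : Ω → β} (h : PvtkIg R f) (B : Set β) : PvtkIg R fun ω => ω ∈ f ⁻¹' B := h.comp (· ∈ B)

theorem PvtkRs.sec (h : PvtkRs P R) (ω : Ω) : Measurable fun ω' => R (ω, ω') := h.meas.comp (measurable_const.prodMk measurable_id)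

/-- the conditional expectation ignores the atom -/
theorem pvtk_E_ig (h : PvtkRs P R) (F : Ω → ℝ≥0∞) : PvtkIg R (pvtkE P R F) := fun ω ω' => by
  unfold pvtkE
  simp_rw [h.abs]

/-- ... and every other atom which `F` ignores -/
theorem pvtk_E_ig_of_comm (hc : PvtkComm R R') {F : Ω → ℝ≥0∞} (hF : PvtkIg R' F) : PvtkIg R' (pvtkE P R F) := fun ω ω' => by
  unfold pvtkE
  simp_rw [hc ω ω', hF _ ω']

theorem pvtk_E_measurable [SFinite P] (h : PvtkRs P R) {F : Ω → ℝ≥0∞} (hF : Measurable F) : Measurable (pvtkE P R F) :=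
  (hF.comp h.meas).lintegral_prod_right'

/-- **Fubini over the resampler** -/
theorem pvtk_fubini [SFinite P] (h : PvtkRs P R) {F : Ω → ℝ≥0∞} (hF : Measurable F) : ∫⁻ ω, F ω ∂P = ∫⁻ ω, pvtkE P R F ω ∂P := by
  have e := h.law
  calc ∫⁻ ω, F ω ∂P = ∫⁻ ω, F ω ∂((P.prod P).map R) := by rw [e]
    _ = ∫⁻ x, F (R x) ∂(P.prod P) := lintegral_map hF h.meas
    _ = ∫⁻ ω, ∫⁻ ω', F (R (ω, ω')) ∂P ∂P := lintegral_prod _ (hF.comp h.meas).aemeasurable

/-- pull-out -/
theorem pvtk_E_mul (h : PvtkRs P R) {b F : Ω → ℝ≥0∞} (hb : PvtkIg R b) (hF : Measurable F) (ω : Ω) :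
    pvtkE P R (fun ω => b ω * F ω) ω = b ω * pvtkE P R F ω := by
  unfold pvtkE
  simp_rw [hb ω]
  exact lintegral_const_mul _ (hF.comp (h.sec ω))

theorem pvtk_E_le_one [IsProbabilityMeasure P] (A : Set Ω) (ω : Ω) : pvtkE P R (A.indicator 1) ω ≤ 1 := by
  unfold pvtkE
  calc ∫⁻ ω', A.indicator 1 (R (ω, ω')) ∂P ≤ ∫⁻ _ω', 1 ∂P := lintegral_mono fun ω' => Set.indicator_le_self' (fun _ _ => zero_le) _
    _ = 1 := by simp

/-- **PEELING ONE WEIGHT** -/
theorem pvtk_peel [SFinite P] (h : PvtkRs P R) {b v : Ω → ℝ≥0∞} (hb : Measurable b) (hv : Measurable v) (hbi : PvtkIg R b)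
    (hn : ∀ ω, b ω ≠ 0 → pvtkE P R v ω = 1) : ∫⁻ ω, b ω * v ω ∂P = ∫⁻ ω, b ω ∂P := by
  rw [pvtk_fubini h (F := fun ω => b ω * v ω) (hb.mul hv)]
  refine lintegral_congr fun ω => ?_
  rw [pvtk_E_mul h hbi hv]
  by_cases h0 : b ω = 0
  · rw [h0, zero_mul]
  · rw [hn ω h0, mul_one]

/-- **PEELING A FAMILY** of mutually ignoring weights -/
theorem pvtk_peel_finset [SFinite P] {ι : Type*} (s : Finset ι) {Rs : ι → Ω × Ω → Ω} {v : ι → Ω → ℝ≥0∞} {b : Ω → ℝ≥0∞}
    (hR : ∀ i ∈ s, PvtkRs P (Rs i)) (hv : ∀ i ∈ s, Measurable (v i)) (hb : Measurable b) (hbi : ∀ i ∈ s, PvtkIg (Rs i) b)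
    (hvi : ∀ i ∈ s, ∀ j ∈ s, i ≠ j → PvtkIg (Rs i) (v j)) (hn : ∀ i ∈ s, ∀ ω, b ω ≠ 0 → pvtkE P (Rs i) (v i) ω = 1) :
    ∫⁻ ω, b ω * ∏ i ∈ s, v i ω ∂P = ∫⁻ ω, b ω ∂P := by
  classical
  induction s using Finset.induction_on with
  | empty => simp
  | insert a s ha ih =>
    have hs : ∀ i ∈ s, i ∈ insert a s := fun i hi => Finset.mem_insert_of_mem hi
    have haa : a ∈ insert a s := Finset.mem_insert_self a s
    have hm : Measurable fun ω => b ω * ∏ i ∈ s, v i ω := hb.mul (Finset.measurable_prod s fun i hi => hv i (hs i hi))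
    have e : ∀ ω, b ω * ∏ i ∈ insert a s, v i ω = (b ω * ∏ i ∈ s, v i ω) * v a ω := fun ω => by
      rw [Finset.prod_insert ha]; ring
    simp_rw [e]
    rw [pvtk_peel (hR a haa) hm (hv a haa)
      ((hbi a haa).mul (PvtkIg.prod s fun j hj => hvi a haa j (hs j hj) (fun e => ha (e ▸ hj))))
      (fun ω h0 => hn a haa ω (left_ne_zero_of_mul h0))]
    exact ih (fun i hi => hR i (hs i hi)) (fun i hi => hv i (hs i hi)) (fun i hi => hbi i (hs i hi))
      (fun i hi j hj => hvi i (hs i hi) j (hs j hj)) (fun i hi => hn i (hs i hi))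

/-- the same with a test function -/
theorem pvtk_peel_finset' [SFinite P] {ι : Type*} (s : Finset ι) {Rs : ι → Ω × Ω → Ω} {v : ι → Ω → ℝ≥0∞} {F b : Ω → ℝ≥0∞}
    (hR : ∀ i ∈ s, PvtkRs P (Rs i)) (hv : ∀ i ∈ s, Measurable (v i)) (hF : Measurable F) (hb : Measurable b)
    (hFi : ∀ i ∈ s, PvtkIg (Rs i) F) (hbi : ∀ i ∈ s, PvtkIg (Rs i) b)
    (hvi : ∀ i ∈ s, ∀ j ∈ s, i ≠ j → PvtkIg (Rs i) (v j)) (hn : ∀ i ∈ s, ∀ ω, b ω ≠ 0 → pvtkE P (Rs i) (v i) ω = 1) :
    ∫⁻ ω, F ω * (b ω * ∏ i ∈ s, v i ω) ∂P = ∫⁻ ω, F ω * b ω ∂P := by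
  have := pvtk_peel_finset s (b := fun ω => F ω * b ω) hR hv (hF.mul hb) (fun i hi => (hFi i hi).mul (hbi i hi)) hvi
    (fun i hi ω h0 => hn i hi ω (right_ne_zero_of_mul h0))
  simp_rw [← mul_assoc]
  exact this

/-- **the law of a function which ignores the atoms is not changed by the weights** -/
theorem pvtk_peel_map [SFinite P] {ι : Type*} {β : Type*} [MeasurableSpace β] (s : Finset ι) {Rs : ι → Ω × Ω → Ω} {v : ι → Ω → ℝ≥0∞} {b : Ω → ℝ≥0∞}
    {F : Ω → β} (hR : ∀ i ∈ s, PvtkRs P (Rs i)) (hv : ∀ i ∈ s, Measurable (v i)) (hF : Measurable F) (hb : Measurable b)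
    (hFi : ∀ i ∈ s, PvtkIg (Rs i) F) (hbi : ∀ i ∈ s, PvtkIg (Rs i) b)
    (hvi : ∀ i ∈ s, ∀ j ∈ s, i ≠ j → PvtkIg (Rs i) (v j)) (hn : ∀ i ∈ s, ∀ ω, b ω ≠ 0 → pvtkE P (Rs i) (v i) ω = 1) :
    (P.withDensity fun ω => b ω * ∏ i ∈ s, v i ω).map F = (P.withDensity b).map F := by
  ext B hB
  rw [Measure.map_apply hF hB, Measure.map_apply hF hB, withDensity_apply _ (hF hB), withDensity_apply _ (hF hB),
    ← lintegral_indicator (hF hB), ← lintegral_indicator (hF hB)]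
  have e1 : ∀ ω, (F ⁻¹' B).indicator (fun ω => b ω * ∏ i ∈ s, v i ω) ω = (F ⁻¹' B).indicator 1 ω * (b ω * ∏ i ∈ s, v i ω) := fun ω => by
    by_cases h : ω ∈ F ⁻¹' B <;> simp [h]
  have e2 : ∀ ω, (F ⁻¹' B).indicator b ω = (F ⁻¹' B).indicator 1 ω * b ω := fun ω => by
    by_cases h : ω ∈ F ⁻¹' B <;> simp [h]
  simp_rw [e1, e2]
  exact pvtk_peel_finset' s hR hv (measurable_one.indicator (hF hB)) hb (fun i hi => ((hFi i hi).preimage B).indicator) hbi hvi hn

/-- **PEELING under a Bochner integral**: no integrability hypothesis -/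
theorem pvtk_peel_integral [SFinite P] {ι : Type*} (s : Finset ι) {Rs : ι → Ω × Ω → Ω} {v : ι → Ω → ℝ≥0∞} {b : Ω → ℝ≥0∞}
    {F : Ω → ℂ} (hR : ∀ i ∈ s, PvtkRs P (Rs i)) (hv : ∀ i ∈ s, Measurable (v i)) (hF : Measurable F) (hb : Measurable b)
    (hFi : ∀ i ∈ s, PvtkIg (Rs i) F) (hbi : ∀ i ∈ s, PvtkIg (Rs i) b)
    (hvi : ∀ i ∈ s, ∀ j ∈ s, i ≠ j → PvtkIg (Rs i) (v j)) (hn : ∀ i ∈ s, ∀ ω, b ω ≠ 0 → pvtkE P (Rs i) (v i) ω = 1) :
    ∫ ω, F ω ∂(P.withDensity fun ω => b ω * ∏ i ∈ s, v i ω) = ∫ ω, F ω ∂(P.withDensity b) := by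
  have e := pvtk_peel_map s hR hv hF hb hFi hbi hvi hn
  have h1 := integral_map (μ := P.withDensity fun ω => b ω * ∏ i ∈ s, v i ω) hF.aemeasurable (f := fun z : ℂ => z) aestronglyMeasurable_id
  have h2 := integral_map (μ := P.withDensity b) hF.aemeasurable (f := fun z : ℂ => z) aestronglyMeasurable_id
  rw [← h1, ← h2, e]

/-! ## 2. the weight of a forced link -/

theorem pvtk_W_measurable [SFinite P] (h : PvtkRs P R) {A : Set Ω} (hA : MeasurableSet A) : Measurable (pvtkW P R A) :=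
  (measurable_one.indicator hA).div (pvtk_E_measurable h (measurable_one.indicator hA))

/-- conditional mass one wherever the conditional probability does not vanish -/
theorem pvtk_W_mass [IsProbabilityMeasure P] (h : PvtkRs P R) {A : Set Ω} (hA : MeasurableSet A) {ω : Ω} (h0 : pvtkE P R (A.indicator 1) ω ≠ 0) :
    pvtkE P R (pvtkW P R A) ω = 1 := by
  have h1 : pvtkE P R (A.indicator 1) ω ≠ ∞ := ne_top_of_le_ne_top ENNReal.one_ne_top (pvtk_E_le_one A ω)
  have e : pvtkW P R A = fun ω => (pvtkE P R (A.indicator 1) ω)⁻¹ * A.indicator 1 ω := by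
    funext ω; unfold pvtkW; rw [div_eq_mul_inv, mul_comm]
  rw [e, pvtk_E_mul h ((pvtk_E_ig h _).comp (·⁻¹)) (measurable_one.indicator hA)]
  exact ENNReal.inv_mul_cancel h0 h1

theorem pvtk_W_le {A : Set Ω} {q : ℝ≥0∞} {ω : Ω} (hq : q ≤ pvtkE P R (A.indicator 1) ω) : pvtkW P R A ω ≤ q⁻¹ * A.indicator 1 ω := by
  unfold pvtkW
  rw [div_eq_mul_inv, mul_comm]
  exact mul_le_mul_left (ENNReal.inv_le_inv.2 hq) _

theorem pvtk_W_ig (hc : PvtkComm R R') {A : Set Ω} (hA : PvtkIg R' fun ω => ω ∈ A) : PvtkIg R' (pvtkW P R A) :=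
  hA.indicator.map₂ (pvtk_E_ig_of_comm hc hA.indicator) (· / ·)

theorem pvtk_W_ne_zero {A : Set Ω} {ω : Ω} (h : pvtkW P R A ω ≠ 0) : ω ∈ A := by
  by_contra hω
  apply h
  unfold pvtkW
  rw [Set.indicator_of_notMem hω, ENNReal.zero_div]

end kit

/-! ## 3. systems of plugs and links -/

/-- a SYSTEM: plugs `u : υ` (atom `RP u`, usable event `G u`), links `e : ι` (atom `RL e`, success event `A e`); `adj e` = the plugs whose states the link `e` reads.
Closed word: `υ = ι = Fin n`, `adj e = {e, e + 1}`.      Chain between two end states (PARAMETERS): the first and the last link have ONE adjacent plug. -/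
structure PvtkSys (Ω : Type*) (υ ι : Type*) where
  RP : υ → Ω × Ω → Ω
  RL : ι → Ω × Ω → Ω
  G : υ → Set Ω
  A : ι → Set Ω
  adj : ι → Finset υ

namespace PvtkSys

variable {Ω : Type*} [MeasurableSpace Ω] {υ ι : Type*} (S : PvtkSys Ω υ ι) (P : Measure Ω)

/-- well-formedness -/
structure WF : Prop where
  rsP : ∀ u, PvtkRs P (S.RP u)
  rsL : ∀ e, PvtkRs P (S.RL e)
  mG : ∀ u, MeasurableSet (S.G u)
  mA : ∀ e, MeasurableSet (S.A e)
  commLL : ∀ e e', e ≠ e' → PvtkComm (S.RL e) (S.RL e')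
  commLP : ∀ e u, u ∉ S.adj e → PvtkComm (S.RL e) (S.RP u)
  G_L : ∀ u e, PvtkIg (S.RL e) fun ω => ω ∈ S.G u
  G_P : ∀ u u', u ≠ u' → PvtkIg (S.RP u') fun ω => ω ∈ S.G u
  G_fr : ∀ u ω ω', S.RP u (ω, ω') ∈ S.G u ↔ ω' ∈ S.G u
  A_L : ∀ e e', e ≠ e' → PvtkIg (S.RL e') fun ω => ω ∈ S.A e
  A_P : ∀ e u, u ∉ S.adj e → PvtkIg (S.RP u) fun ω => ω ∈ S.A e

/-- the plugs are admitted, the links are forced with the constants `q e` -/
structure Forced (q : ι → ℝ≥0∞) : Prop where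
  adm : ∀ u, P (S.G u) ≠ 0
  q0 : ∀ e, q e ≠ 0
  frc : ∀ e ω, (∀ u ∈ S.adj e, ω ∈ S.G u) → q e ≤ pvtkE P (S.RL e) ((S.A e).indicator 1) ω

/-- `1_G / P(G)` -/
noncomputable def g (u : υ) (ω : Ω) : ℝ≥0∞ := (S.G u).indicator 1 ω / P (S.G u)

/-- `1_A / P(A | all but the atom of the link)` -/
noncomputable def w (e : ι) : Ω → ℝ≥0∞ := pvtkW P (S.RL e) (S.A e)

/-- the weight of one link with its adjacent plugs -/
noncomputable def w2 (e : ι) (ω : Ω) : ℝ≥0∞ := (∏ u ∈ S.adj e, S.g P u ω) * S.w P e ω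

/-- THE WEIGHT of the system -/
noncomputable def Wt [Fintype υ] [Fintype ι] (ω : Ω) : ℝ≥0∞ := (∏ u, S.g P u ω) * ∏ e, S.w P e ω

/-- all plugs usable, all links successful -/
def Ev : Set Ω := {ω | (∀ u, ω ∈ S.G u) ∧ ∀ e, ω ∈ S.A e}

/-- the bound of the weight -/
noncomputable def D [Fintype υ] [Fintype ι] (q : ι → ℝ≥0∞) : ℝ≥0∞ := (∏ u, (P (S.G u))⁻¹) * ∏ e, (q e)⁻¹

end PvtkSys

theorem pvtk_eqns_cite2 : True := by
  have := @PvtkSys.g.eq_1.{0, 0, 0}; have := @PvtkSys.w.eq_1.{0, 0, 0}; have := @PvtkSys.w2.eq_1.{0, 0, 0}; have := @PvtkSys.Wt.eq_1.{0, 0, 0}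
  have := @PvtkSys.Ev.eq_1.{0, 0, 0}; have := @PvtkSys.D.eq_1.{0, 0, 0}
  trivial

section sys

variable {Ω : Type*} [MeasurableSpace Ω] {υ ι : Type*} {S : PvtkSys Ω υ ι} {P : Measure Ω} {q : ι → ℝ≥0∞}

theorem pvtk_g_measurable (h : S.WF P) (u : υ) : Measurable (S.g P u) := (measurable_one.indicator (h.mG u)).div_const _

theorem pvtk_w_measurable [SFinite P] (h : S.WF P) (e : ι) : Measurable (S.w P e) := pvtk_W_measurable (h.rsL e) (h.mA e)

theorem pvtk_g_ig_L (h : S.WF P) (u : υ) (e : ι) : PvtkIg (S.RL e) (S.g P u) := (h.G_L u e).indicator.comp (· / P (S.G u))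

theorem pvtk_g_ig_P (h : S.WF P) {u u' : υ} (hu : u ≠ u') : PvtkIg (S.RP u') (S.g P u) := (h.G_P u u' hu).indicator.comp (· / P (S.G u))

theorem pvtk_w_ig_L (h : S.WF P) {e e' : ι} (he : e ≠ e') : PvtkIg (S.RL e') (S.w P e) := pvtk_W_ig (h.commLL e e' he) (h.A_L e e' he)

theorem pvtk_w_ig_P (h : S.WF P) {e : ι} {u : υ} (hu : u ∉ S.adj e) : PvtkIg (S.RP u) (S.w P e) := pvtk_W_ig (h.commLP e u hu) (h.A_P e u hu)

theorem pvtk_g_ne_zero {u : υ} {ω : Ω} (h : S.g P u ω ≠ 0) : ω ∈ S.G u := by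
  by_contra hω
  apply h
  unfold PvtkSys.g
  rw [Set.indicator_of_notMem hω, ENNReal.zero_div]

/-- the weight of a plug has conditional mass one -/
theorem pvtk_g_mass [IsProbabilityMeasure P] (h : S.WF P) (hF : S.Forced P q) (u : υ) (ω : Ω) : pvtkE P (S.RP u) (S.g P u) ω = 1 := by
  unfold pvtkE PvtkSys.g
  have e : ∀ ω', (S.G u).indicator (1 : Ω → ℝ≥0∞) (S.RP u (ω, ω')) = (S.G u).indicator 1 ω' := fun ω' => by
    by_cases hω : ω' ∈ S.G u
    · rw [Set.indicator_of_mem hω, Set.indicator_of_mem ((h.G_fr u ω ω').2 hω)]; rfl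
    · rw [Set.indicator_of_notMem hω, Set.indicator_of_notMem (fun hh => hω ((h.G_fr u ω ω').1 hh))]
  simp_rw [e, div_eq_mul_inv]
  rw [lintegral_mul_const _ (measurable_one.indicator (h.mG u)), lintegral_indicator_one (h.mG u)]
  exact ENNReal.mul_inv_cancel (hF.adm u) (measure_ne_top _ _)

/-- the weight of a link has conditional mass one where its adjacent plugs are usable -/
theorem pvtk_w_mass [IsProbabilityMeasure P] (h : S.WF P) (hF : S.Forced P q) (e : ι) {ω : Ω} (hω : ∀ u ∈ S.adj e, ω ∈ S.G u) :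
    pvtkE P (S.RL e) (S.w P e) ω = 1 :=
  pvtk_W_mass (h.rsL e) (h.mA e) (fun h0 => hF.q0 e (le_antisymm (h0 ▸ hF.frc e ω hω) zero_le))

variable [Fintype υ] [Fintype ι] [DecidableEq υ] [DecidableEq ι]

theorem pvtk_Wt_measurable [SFinite P] (h : S.WF P) : Measurable (S.Wt P) :=
  (Finset.measurable_prod _ fun u _ => pvtk_g_measurable h u).mul (Finset.measurable_prod _ fun e _ => pvtk_w_measurable h e)

theorem pvtk_w2_measurable [SFinite P] (h : S.WF P) (e : ι) : Measurable (S.w2 P e) :=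
  (Finset.measurable_prod _ fun u _ => pvtk_g_measurable h u).mul (pvtk_w_measurable h e)

/-- **TR2, nonnegative form**: under the weight of the system, a function which reads only the link `e` and its adjacent plugs sees the weight `w2 e` -/
theorem pvtk_marg [IsProbabilityMeasure P] (h : S.WF P) (hF : S.Forced P q) (e : ι) {F : Ω → ℝ≥0∞} (hFm : Measurable F)
    (hFL : ∀ e', e' ≠ e → PvtkIg (S.RL e') F) (hFP : ∀ u, u ∉ S.adj e → PvtkIg (S.RP u) F) :
    ∫⁻ ω, F ω * S.Wt P ω ∂P = ∫⁻ ω, F ω * S.w2 P e ω ∂P := by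
  -- stage 1: the other links
  have hb1 : Measurable fun ω => (∏ u, S.g P u ω) * S.w P e ω :=
    (Finset.measurable_prod _ fun u _ => pvtk_g_measurable h u).mul (pvtk_w_measurable h e)
  have e1 : ∀ ω, F ω * S.Wt P ω = F ω * (((∏ u, S.g P u ω) * S.w P e ω) * ∏ e' ∈ Finset.univ.erase e, S.w P e' ω) := fun ω => by
    unfold PvtkSys.Wt
    rw [← Finset.mul_prod_erase Finset.univ (fun e' => S.w P e' ω) (Finset.mem_univ e)]; ring
  simp_rw [e1]
  rw [pvtk_peel_finset' (Finset.univ.erase e) (Rs := S.RL) (fun i _ => h.rsL i) (fun i _ => pvtk_w_measurable h i) hFm hb1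
    (fun i hi => hFL i (Finset.ne_of_mem_erase hi))
    (fun i hi => (PvtkIg.prod _ fun u _ => pvtk_g_ig_L h u i).mul (pvtk_w_ig_L h (Finset.ne_of_mem_erase hi).symm))
    (fun i _ j _ hij => pvtk_w_ig_L h hij.symm)
    (fun i _ ω h0 => pvtk_w_mass h hF i fun u _ =>
      pvtk_g_ne_zero (P := P) (Finset.prod_ne_zero_iff.1 (left_ne_zero_of_mul h0) u (Finset.mem_univ u)))]
  -- stage 2: the other plugs
  have hb2 : Measurable fun ω => (∏ u ∈ S.adj e, S.g P u ω) * S.w P e ω := pvtk_w2_measurable h e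
  have e2 : ∀ ω, F ω * ((∏ u, S.g P u ω) * S.w P e ω) = F ω * (((∏ u ∈ S.adj e, S.g P u ω) * S.w P e ω) * ∏ u ∈ Finset.univ \ S.adj e, S.g P u ω) := fun ω => by
    rw [← Finset.prod_sdiff (Finset.subset_univ (S.adj e))]; ring
  simp_rw [e2]
  exact pvtk_peel_finset' (Finset.univ \ S.adj e) (Rs := S.RP) (fun i _ => h.rsP i) (fun i _ => pvtk_g_measurable h i) hFm hb2
    (fun i hi => hFP i (Finset.mem_sdiff.1 hi).2)
    (fun i hi => (PvtkIg.prod _ fun u hu => pvtk_g_ig_P h (fun e' : u = i => (Finset.mem_sdiff.1 hi).2 (e' ▸ hu))).mul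
      (pvtk_w_ig_P h (Finset.mem_sdiff.1 hi).2))
    (fun i _ j _ hij => pvtk_g_ig_P h hij.symm)
    (fun i _ ω _ => pvtk_g_mass h hF i ω)

/-- **TR1**: the weight of the system has total mass one -/
theorem pvtk_mass [IsProbabilityMeasure P] (h : S.WF P) (hF : S.Forced P q) : ∫⁻ ω, S.Wt P ω ∂P = 1 := by
  unfold PvtkSys.Wt
  rw [pvtk_peel_finset Finset.univ (Rs := S.RL) (fun i _ => h.rsL i) (fun i _ => pvtk_w_measurable h i)
    (Finset.measurable_prod _ fun u _ => pvtk_g_measurable h u) (fun i _ => PvtkIg.prod _ fun u _ => pvtk_g_ig_L h u i)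
    (fun i _ j _ hij => pvtk_w_ig_L h hij.symm)
    (fun i _ ω h0 => pvtk_w_mass h hF i fun u _ => pvtk_g_ne_zero (P := P) (Finset.prod_ne_zero_iff.1 h0 u (Finset.mem_univ u)))]
  have := pvtk_peel_finset Finset.univ (Rs := S.RP) (v := S.g P) (b := fun _ => 1) (fun i _ => h.rsP i) (fun i _ => pvtk_g_measurable h i)
    measurable_const (fun i _ => pvtk_ig_const _ _) (fun i _ j _ hij => pvtk_g_ig_P h hij.symm) (fun i _ ω _ => pvtk_g_mass h hF i ω)
  simpa using this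

theorem pvtk_w2_mass [IsProbabilityMeasure P] (h : S.WF P) (hF : S.Forced P q) (e : ι) : ∫⁻ ω, S.w2 P e ω ∂P = 1 := by
  have := pvtk_marg h hF e (F := fun _ => 1) measurable_const (fun _ _ => pvtk_ig_const _ _) (fun _ _ => pvtk_ig_const _ _)
  simp only [one_mul] at this
  rw [← this, pvtk_mass h hF]

theorem pvtk_prob_Wt [IsProbabilityMeasure P] (h : S.WF P) (hF : S.Forced P q) : IsProbabilityMeasure (P.withDensity (S.Wt P)) :=
  ⟨by rw [withDensity_apply _ MeasurableSet.univ, Measure.restrict_univ]; exact pvtk_mass h hF⟩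

theorem pvtk_prob_w2 [IsProbabilityMeasure P] (h : S.WF P) (hF : S.Forced P q) (e : ι) : IsProbabilityMeasure (P.withDensity (S.w2 P e)) :=
  ⟨by rw [withDensity_apply _ MeasurableSet.univ, Measure.restrict_univ]; exact pvtk_w2_mass h hF e⟩

/-- **TR1**, second half: the weight is bounded by `D` on the event and vanishes off the event -/
theorem pvtk_Wt_le (hF : S.Forced P q) (ω : Ω) : S.Wt P ω ≤ S.D P q * S.Ev.indicator 1 ω := by
  by_cases hω : ω ∈ S.Ev
  · rw [Set.indicator_of_mem hω, Pi.one_apply, mul_one]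
    unfold PvtkSys.Wt PvtkSys.D
    refine mul_le_mul' (Finset.prod_le_prod' fun u _ => ?_) (Finset.prod_le_prod' fun e _ => ?_)
    · unfold PvtkSys.g
      rw [Set.indicator_of_mem (hω.1 u), Pi.one_apply, one_div]
    · have := pvtk_W_le (hF.frc e ω fun u _ => hω.1 u)
      rw [Set.indicator_of_mem (hω.2 e), Pi.one_apply, mul_one] at this
      exact this
  · rw [Set.indicator_of_notMem hω, mul_zero, nonpos_iff_eq_zero]
    unfold PvtkSys.Wt
    by_contra h0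
    apply hω
    exact ⟨fun u => pvtk_g_ne_zero (P := P) (Finset.prod_ne_zero_iff.1 (left_ne_zero_of_mul h0) u (Finset.mem_univ u)),
      fun e => pvtk_W_ne_zero (Finset.prod_ne_zero_iff.1 (right_ne_zero_of_mul h0) e (Finset.mem_univ e))⟩

/-- **TR2**: the Bochner integral of a function which reads only the link `e` and its adjacent plugs.      No integrability hypothesis. -/
theorem pvtk_marg_integral [IsProbabilityMeasure P] (h : S.WF P) (hF : S.Forced P q) (e : ι) {X : Ω → ℂ} (hXm : Measurable X)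
    (hXL : ∀ e', e' ≠ e → PvtkIg (S.RL e') X) (hXP : ∀ u, u ∉ S.adj e → PvtkIg (S.RP u) X) :
    ∫ ω, X ω ∂(P.withDensity (S.Wt P)) = ∫ ω, X ω ∂(P.withDensity (S.w2 P e)) := by
  have key : (P.withDensity (S.Wt P)).map X = (P.withDensity (S.w2 P e)).map X := by
    ext B hB
    rw [Measure.map_apply hXm hB, Measure.map_apply hXm hB, withDensity_apply _ (hXm hB), withDensity_apply _ (hXm hB),
      ← lintegral_indicator (hXm hB), ← lintegral_indicator (hXm hB)]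
    have e1 : ∀ ω, (X ⁻¹' B).indicator (S.Wt P) ω = (X ⁻¹' B).indicator 1 ω * S.Wt P ω := fun ω => by
      by_cases hh : ω ∈ X ⁻¹' B <;> simp [hh]
    have e2 : ∀ ω, (X ⁻¹' B).indicator (S.w2 P e) ω = (X ⁻¹' B).indicator 1 ω * S.w2 P e ω := fun ω => by
      by_cases hh : ω ∈ X ⁻¹' B <;> simp [hh]
    simp_rw [e1, e2]
    exact pvtk_marg h hF e (measurable_one.indicator (hXm hB)) (fun e' he' => ((hXL e' he').preimage B).indicator)
      (fun u hu => ((hXP u hu).preimage B).indicator)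
  have h1 := integral_map (μ := P.withDensity (S.Wt P)) hXm.aemeasurable (f := fun z : ℂ => z) aestronglyMeasurable_id
  have h2 := integral_map (μ := P.withDensity (S.w2 P e)) hXm.aemeasurable (f := fun z : ℂ => z) aestronglyMeasurable_id
  rw [← h1, ← h2, key]

/-- a FIELD on the system: one function per link, reading the link and its adjacent plugs -/
structure PvtkFld (S : PvtkSys Ω υ ι) (X : ι → Ω → ℂ) : Prop where
  meas : ∀ e, Measurable (X e)
  ig_L : ∀ e e', e' ≠ e → PvtkIg (S.RL e') (X e)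
  ig_P : ∀ e u, u ∉ S.adj e → PvtkIg (S.RP u) (X e)

/-- THE LINK CONSTANT `k_e` -/
noncomputable def pvtkK (S : PvtkSys Ω υ ι) (P : Measure Ω) (X : ι → Ω → ℂ) (e : ι) : ℂ := ∫ ω, X e ω ∂(P.withDensity (S.w2 P e))

theorem pvtk_eqns_cite3 : True := by
  have := @pvtkK.eq_1.{0, 0, 0}
  trivial

variable {X : ι → Ω → ℂ}

theorem pvtk_marg_enorm [IsProbabilityMeasure P] (h : S.WF P) (hF : S.Forced P q) (hX : PvtkFld S X) (e : ι) (n : ℕ) :
    ∫⁻ ω, ‖X e ω‖ₑ ^ n * S.Wt P ω ∂P = ∫⁻ ω, ‖X e ω‖ₑ ^ n * S.w2 P e ω ∂P :=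
  pvtk_marg h hF e ((hX.meas e).enorm.pow_const n) (fun e' he' => (hX.ig_L e e' he').comp (‖·‖ₑ ^ n)) (fun u hu => (hX.ig_P e u hu).comp (‖·‖ₑ ^ n))

theorem pvtk_lintegral_withDensity [SFinite P] {w F : Ω → ℝ≥0∞} (hw : Measurable w) (hF : Measurable F) :
    ∫⁻ ω, F ω ∂(P.withDensity w) = ∫⁻ ω, F ω * w ω ∂P := by
  rw [lintegral_withDensity_eq_lintegral_mul _ hw hF]
  refine lintegral_congr fun ω => ?_
  simp [mul_comm]

/-- square integrable under `w2 e` ⟹ integrable under the weight of the system -/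
theorem pvtk_integrable [IsProbabilityMeasure P] (h : S.WF P) (hF : S.Forced P q) (hX : PvtkFld S X) (e : ι)
    (hi : ∫⁻ ω, ‖X e ω‖ₑ ^ 2 * S.w2 P e ω ∂P ≠ ∞) : Integrable (X e) (P.withDensity (S.Wt P)) := by
  have := pvtk_prob_Wt h hF
  have hm : AEStronglyMeasurable (X e) (P.withDensity (S.Wt P)) := (hX.meas e).aestronglyMeasurable
  have h2 : MemLp (X e) 2 (P.withDensity (S.Wt P)) := by
    refine ⟨hm, ?_⟩
    rw [eLpNorm_lt_top_iff_lintegral_rpow_enorm_lt_top (by norm_num) (by norm_num)]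
    simp only [ENNReal.toReal_ofNat, ENNReal.rpow_ofNat]
    rw [pvtk_lintegral_withDensity (pvtk_Wt_measurable h) ((hX.meas e).enorm.pow_const 2), pvtk_marg_enorm h hF hX e 2]
    exact lt_top_iff_ne_top.2 hi
  exact h2.integrable (by norm_num)

/-- **TR2**: the mean of the sum of the links is the sum of the link constants -/
theorem pvtk_mean [IsProbabilityMeasure P] (h : S.WF P) (hF : S.Forced P q) (hX : PvtkFld S X)
    (hi : ∀ e, ∫⁻ ω, ‖X e ω‖ₑ ^ 2 * S.w2 P e ω ∂P ≠ ∞) :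
    ∫ ω, ∑ e, X e ω ∂(P.withDensity (S.Wt P)) = ∑ e, pvtkK S P X e := by
  rw [integral_finsetSum _ fun e _ => pvtk_integrable h hF hX e (hi e)]
  exact Finset.sum_congr rfl fun e _ => pvtk_marg_integral h hF e (hX.meas e) (hX.ig_L e) (hX.ig_P e)

/-- **TR3, TR3'** (weighted N1; `x` = the value of everything which is frozen): Jensen for the weight of the system, and the bound of the weight -/
theorem pvtk_jensen [IsProbabilityMeasure P] (h : S.WF P) (hF : S.Forced P q) (hX : PvtkFld S X)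
    (hi : ∀ e, ∫⁻ ω, ‖X e ω‖ₑ ^ 2 * S.w2 P e ω ∂P ≠ ∞) (x : ℂ) :
    ‖x + ∑ e, pvtkK S P X e‖ₑ ^ 2 ≤ S.D P q * ∫⁻ ω, ‖x + ∑ e, X e ω‖ₑ ^ 2 * S.Ev.indicator 1 ω ∂P := by
  have := pvtk_prob_Wt h hF
  have hY : Measurable fun ω => ∑ e, X e ω := Finset.measurable_sum _ fun e _ => hX.meas e
  have hmE : MeasurableSet S.Ev := by
    have : S.Ev = (⋂ u, S.G u) ∩ ⋂ e, S.A e := by
      ext ω; simp [PvtkSys.Ev]
    rw [this]
    exact (MeasurableSet.iInter h.mG).inter (MeasurableSet.iInter h.mA)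
  have hm2 : Measurable fun ω => ‖x + ∑ e, X e ω‖ₑ ^ 2 := (measurable_const.add hY).enorm.pow_const 2
  rw [← pvtk_mean h hF hX hi]
  refine (pvti_jensen (P.withDensity (S.Wt P)) x hY.aestronglyMeasurable).trans ?_
  have hm3 : Measurable fun ω => ‖x + ∑ e, X e ω‖ₑ ^ 2 * S.Ev.indicator 1 ω := hm2.mul (measurable_one.indicator hmE)
  rw [pvtk_lintegral_withDensity (pvtk_Wt_measurable h) hm2, ← lintegral_const_mul _ hm3]
  refine lintegral_mono fun ω => ?_
  calc ‖x + ∑ e, X e ω‖ₑ ^ 2 * S.Wt P ω ≤ ‖x + ∑ e, X e ω‖ₑ ^ 2 * (S.D P q * S.Ev.indicator 1 ω) := mul_le_mul_right (pvtk_Wt_le hF ω) _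
    _ = S.D P q * (‖x + ∑ e, X e ω‖ₑ ^ 2 * S.Ev.indicator 1 ω) := by ring

/-- **TR5, chain form** (K4 of W1_125): the second moment of one link under its own weight is bounded through the WHOLE system -/
theorem pvtk_link_sq [IsProbabilityMeasure P] (h : S.WF P) (hF : S.Forced P q) (hX : PvtkFld S X) (e : ι) :
    ∫⁻ ω, ‖X e ω‖ₑ ^ 2 * S.w2 P e ω ∂P ≤ S.D P q * ∫⁻ ω, ‖X e ω‖ₑ ^ 2 * S.Ev.indicator 1 ω ∂P := by
  have hmE : MeasurableSet S.Ev := by
    have : S.Ev = (⋂ u, S.G u) ∩ ⋂ e, S.A e := by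
      ext ω; simp [PvtkSys.Ev]
    rw [this]
    exact (MeasurableSet.iInter h.mG).inter (MeasurableSet.iInter h.mA)
  have hm2 : Measurable fun ω => ‖X e ω‖ₑ ^ 2 := (hX.meas e).enorm.pow_const 2
  have hm3 : Measurable fun ω => ‖X e ω‖ₑ ^ 2 * S.Ev.indicator 1 ω := hm2.mul (measurable_one.indicator hmE)
  rw [← pvtk_marg_enorm h hF hX e 2, ← lintegral_const_mul _ hm3]
  refine lintegral_mono fun ω => ?_
  calc ‖X e ω‖ₑ ^ 2 * S.Wt P ω ≤ ‖X e ω‖ₑ ^ 2 * (S.D P q * S.Ev.indicator 1 ω) := mul_le_mul_right (pvtk_Wt_le hF ω) _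
    _ = S.D P q * (‖X e ω‖ₑ ^ 2 * S.Ev.indicator 1 ω) := by ring

/-- the link constant is bounded by the second moment -/
theorem pvtk_K_sq [IsProbabilityMeasure P] (h : S.WF P) (hF : S.Forced P q) (hX : PvtkFld S X) (e : ι) :
    ‖pvtkK S P X e‖ₑ ^ 2 ≤ ∫⁻ ω, ‖X e ω‖ₑ ^ 2 * S.w2 P e ω ∂P := by
  have := pvtk_prob_w2 h hF e
  have j := pvti_jensen (P.withDensity (S.w2 P e)) 0 (hX.meas e).aestronglyMeasurable
  simp only [zero_add] at j
  rw [pvtk_lintegral_withDensity (pvtk_w2_measurable h e) ((hX.meas e).enorm.pow_const 2)] at j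
  exact j

end sys

/-! ## 4. THE MODEL: atoms = restrictions of a Poisson process to disjoint regions -/

section model

variable {E : Type*} [MeasurableSpace E] {m : Measure E} {μ : Measure (Conf E)}

/-- the resampler of the region `K`: keep `ω` off `K`, take `ω'` on `K` -/
def pvtkR (K : Set E) : Conf E × Conf E → Conf E := Conf.spl Kᶜ

theorem pvtk_eqns_cite4 : True := by
  have := @pvtkR.eq_1.{0}
  trivial

theorem pvtk_mem_R {K : Set E} {ω ω' : Conf E} {p : E} : p ∈ (pvtkR K (ω, ω')).pts ↔ (p ∈ ω.pts ∧ p ∉ K) ∨ (p ∈ ω'.pts ∧ p ∈ K) := by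
  simp only [pvtkR, Conf.spl, Conf.union, Conf.restr, mem_union, mem_inter_iff, mem_compl_iff, not_not]

theorem pvtk_rs_spl (h : IsPpp m μ) {K : Set E} (hK : MeasurableSet K) : PvtkRs μ (pvtkR K) where
  meas := Conf.measurable_spl hK.compl
  law := h.splice hK.compl
  abs ω ω' ω'' := by
    ext p
    simp only [pvtk_mem_R]
    tauto

theorem pvtk_comm_spl {K K' : Set E} (hd : Disjoint K K') : PvtkComm (pvtkR K : Conf E × Conf E → Conf E) (pvtkR K') := fun ω ω' ω'' => by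
  ext p
  have : p ∈ K → p ∉ K' := fun h1 => Set.disjoint_left.1 hd h1
  simp only [pvtk_mem_R]
  tauto

theorem pvtk_ig_of_reads {β : Sort*} {W K : Set E} {f : Conf E → β} (h : ∀ η, f (Conf.restr W η) = f η) (hd : Disjoint W K) : PvtkIg (pvtkR K) f := fun ω ω' => by
  rw [← h, ← h ω]
  congr 1
  ext p
  have : p ∈ W → p ∉ K := fun h1 => Set.disjoint_left.1 hd h1
  simp only [Conf.restr, mem_inter_iff, pvtk_mem_R]
  tauto

theorem pvtk_fresh_of_reads {β : Sort*} {W K : Set E} {f : Conf E → β} (h : ∀ η, f (Conf.restr W η) = f η) (hs : W ⊆ K) (ω ω' : Conf E) :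
    f (pvtkR K (ω, ω')) = f ω' := by
  rw [← h, ← h ω']
  congr 1
  ext p
  have := @hs p
  simp only [Conf.restr, mem_inter_iff, pvtk_mem_R]
  tauto

/-- the conditional expectation of `Tr/Ind` is the one of the resampler -/
theorem pvtk_E_eq_P {O K : Set E} (hd : Disjoint O K) {S : Set (Conf E)} (hS : Conf.Reads (O ∪ K) fun η => η ∈ S) (σ : Conf E) :
    pvtkE μ (pvtkR K) (S.indicator 1) σ = pvtiP μ O S σ := by
  unfold pvtkE pvtiP pvtkR
  refine lintegral_congr fun η => ?_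
  exact (pvti_ind_reads hS).spl_change (Set.subset_compl_iff_disjoint_right.2 hd) (Set.disjoint_compl_right_iff_subset.2 subset_rfl) σ η

theorem pvtk_W_eq_W {O K : Set E} (hd : Disjoint O K) {S : Set (Conf E)} (hS : Conf.Reads (O ∪ K) fun η => η ∈ S) :
    pvtkW μ (pvtkR K) S = pvtiW μ O S := by
  funext σ
  unfold pvtkW pvtiW
  rw [pvtk_E_eq_P hd hS]

/-- the system of the regions `O u` (plugs), `K e` (links) -/
def pvtkSysOf {υ ι : Type*} (O : υ → Set E) (K : ι → Set E) (G : υ → Set (Conf E)) (A : ι → Set (Conf E)) (adj : ι → Finset υ) : PvtkSys (Conf E) υ ι :=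
  ⟨fun u => pvtkR (O u), fun e => pvtkR (K e), G, A, adj⟩

theorem pvtk_eqns_cite5 : True := by
  have := @pvtkSysOf.eq_1.{0, 0, 0}
  trivial

/-- **well-formedness in the model**.      `WA e` = the region read by the link `e`: it may contain a FROZEN region (the end states), the region `K e` and the boxes of the adjacent plugs. -/
theorem pvtk_wf_of {υ ι : Type*} (h : IsPpp m μ) {O : υ → Set E} {K : ι → Set E} {G : υ → Set (Conf E)} {A : ι → Set (Conf E)} {adj : ι → Finset υ}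
    (WA : ι → Set E) (mO : ∀ u, MeasurableSet (O u)) (mK : ∀ e, MeasurableSet (K e)) (mG : ∀ u, MeasurableSet (G u)) (mA : ∀ e, MeasurableSet (A e))
    (dOO : ∀ u u', u ≠ u' → Disjoint (O u) (O u')) (dKK : ∀ e e', e ≠ e' → Disjoint (K e) (K e')) (dOK : ∀ u e, Disjoint (O u) (K e))
    (rG : ∀ u, Conf.Reads (O u) fun η => η ∈ G u) (rA : ∀ e, Conf.Reads (WA e) fun η => η ∈ A e)
    (dAK : ∀ e e', e ≠ e' → Disjoint (WA e) (K e')) (dAO : ∀ e u, u ∉ adj e → Disjoint (WA e) (O u)) :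
    (pvtkSysOf O K G A adj).WF μ where
  rsP u := pvtk_rs_spl h (mO u)
  rsL e := pvtk_rs_spl h (mK e)
  mG := mG
  mA := mA
  commLL e e' he := pvtk_comm_spl (dKK e e' he)
  commLP e u _ := pvtk_comm_spl (dOK u e).symm
  G_L u e := pvtk_ig_of_reads (rG u) (dOK u e)
  G_P u u' hu := pvtk_ig_of_reads (rG u) (dOO u u' hu)
  G_fr u ω ω' := by
    have := pvtk_fresh_of_reads (rG u) subset_rfl ω ω'
    exact iff_of_eq this
  A_L e e' he := pvtk_ig_of_reads (rA e) (dAK e e' he)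
  A_P e u hu := pvtk_ig_of_reads (rA e) (dAO e u hu)

/-- fields in the model -/
theorem pvtk_fld_of {υ ι : Type*} {O : υ → Set E} {K : ι → Set E} {G : υ → Set (Conf E)} {A : ι → Set (Conf E)} {adj : ι → Finset υ}
    (WA : ι → Set E) {X : ι → Conf E → ℂ} (mX : ∀ e, Measurable (X e)) (rX : ∀ e, Conf.Reads (WA e) (X e))
    (dAK : ∀ e e', e ≠ e' → Disjoint (WA e) (K e')) (dAO : ∀ e u, u ∉ adj e → Disjoint (WA e) (O u)) :
    PvtkFld (pvtkSysOf O K G A adj) X where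
  meas := mX
  ig_L e e' he := pvtk_ig_of_reads (rX e) (dAK e e' he.symm)
  ig_P e u hu := pvtk_ig_of_reads (rX e) (dAO e u hu)

end model

end Claimed.Agent.R289
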