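import Claimed.Agent.R289.Tr.Multi
import Claimed.Agent.R289.Tr.CellChain

/-!
# Row 289 (S0537), THE WALL, engine / chapter E, file Tr/ChainE : TR1, TR2, TR3 FOR A CHAIN OF CELLS BETWEEN TWO CYLINDER STATES (ROAD E)      (owner helper218; prefix `pvke_`, `pvke`, `Pvke`)

Ruling 10bis (1), (2) of 234: the inner atoms of a chain (small plugs, tiles) are REGION atoms on `Conf PvPt` (`PvthKit` of 251 verbatim); only the TWO END LINKS (funnels) are HYBRID:
they resample a region AND the colours of the fresh sites of a mouth.      The actual sample `ω` is FIXED (a parameter); everything below lives on THE EXPERIMENT SPACE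
`PvkeX Z E = (Z → Bool) × Conf E` (seeds `κ`, independent configuration `ω₂`), law `pvkeLaw Z μ = colLaw Z ⊗ μ`   (`Z = ℂ`: the seeds of 159 / 193, `PvdmSys.R`).
* sec. 1  `pvkeProd R₁ R₂`, **`pvke_rs_prod`**: a product of two resamplers (vocabulary of `Tr/Chain`) is a resampler of the product law
* sec. 2  HYBRID ATOMS `pvkeAt U K` = (seed block `U`) × (region `K`);   `PvkeRd U W f` : `f` reads the seeds of `U` and the configuration in `W`;   `pvke_rs_at`, `pvke_comm_at`, `pvke_ig_at`, `pvke_fresh_at`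
* sec. 3  HYBRID SYSTEMS `PvkeSys`, `PvkeSys.Ok`, **`pvke_wf`** (`PvtkSys.WF`), `pvke_fld`
* sec. 4  functions of `ω₂` alone: the engine on the experiment space computes the `pvtiP`, `pvtiW`, means of `Conf` VERBATIM (`pvke_E_snd`, `pvke_W_snd`, `pvke_measure_snd`, `pvke_integral_snd`, `pvke_lintegral_snd`)
* sec. 5  THE CHAIN  `t -fo-> u_0 -cell 0-> u_1 … -cell (n-1)-> u_n -fi-> s`  of a word `l` placed at `(z,d)`, funnels `fo fi : PvkeFun Z`:
          **`pvke_chain_mass`** (TR1)   **`pvke_chain_le`** (TR1)   **`pvke_chain_mean`** (TR2: `ŷ_c = κ_out + pvtSum W d l + κ_in`, EXACT, pointwise in the end states)   **`pvke_chain_jensen`** (TR3)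
-/

set_option autoImplicit false
set_option linter.unusedSectionVars false

namespace Claimed.Agent.R289

open MeasureTheory ProbabilityTheory Set
open scoped ENNReal NNReal

/-! ## 1. products of two resamplers -/

section prod

variable {Ω₁ Ω₂ : Type*} [MeasurableSpace Ω₁] [MeasurableSpace Ω₂] {P₁ : Measure Ω₁} {P₂ : Measure Ω₂}
  {R₁ R₁' : Ω₁ × Ω₁ → Ω₁} {R₂ R₂' : Ω₂ × Ω₂ → Ω₂}

/-- the resampler which acts on the two factors -/
def pvkeProd (R₁ : Ω₁ × Ω₁ → Ω₁) (R₂ : Ω₂ × Ω₂ → Ω₂) (x : (Ω₁ × Ω₂) × (Ω₁ × Ω₂)) : Ω₁ × Ω₂ := (R₁ (x.1.1, x.2.1), R₂ (x.1.2, x.2.2))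

theorem pvke_eqns_cite : True := by
  have := @pvkeProd.eq_1.{0, 0}
  trivial

theorem measurable_pvkeProd (h₁ : Measurable R₁) (h₂ : Measurable R₂) : Measurable (pvkeProd R₁ R₂) :=
  (h₁.comp ((measurable_fst.comp measurable_fst).prodMk (measurable_fst.comp measurable_snd))).prodMk
    (h₂.comp ((measurable_snd.comp measurable_fst).prodMk (measurable_snd.comp measurable_snd)))

theorem pvke_prod_lintegral [SFinite P₁] [SFinite P₂] (h₁ : PvtkRs P₁ R₁) (h₂ : PvtkRs P₂ R₂) {f : Ω₁ × Ω₂ → ℝ≥0∞} (hf : Measurable f) :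
    ∫⁻ x : (Ω₁ × Ω₂) × (Ω₁ × Ω₂), f (R₁ (x.1.1, x.2.1), R₂ (x.1.2, x.2.2)) ∂((P₁.prod P₂).prod (P₁.prod P₂)) = ∫⁻ y, f y ∂(P₁.prod P₂) := by
  have hm : Measurable fun x : (Ω₁ × Ω₂) × (Ω₁ × Ω₂) => (R₁ (x.1.1, x.2.1), R₂ (x.1.2, x.2.2)) := measurable_pvkeProd h₁.meas h₂.meas
  have hF : Measurable fun x : (Ω₁ × Ω₂) × (Ω₁ × Ω₂) => f (R₁ (x.1.1, x.2.1), R₂ (x.1.2, x.2.2)) := hf.comp hm
  rw [lintegral_prod _ hF.aemeasurable]
  have hF1 : Measurable fun u : Ω₁ × Ω₂ => ∫⁻ v : Ω₁ × Ω₂, f (R₁ (u.1, v.1), R₂ (u.2, v.2)) ∂(P₁.prod P₂) := hF.lintegral_prod_right'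
  rw [lintegral_prod _ hF1.aemeasurable]
  have e1 : ∀ a b, ∫⁻ v : Ω₁ × Ω₂, f (R₁ (a, v.1), R₂ (b, v.2)) ∂(P₁.prod P₂) = ∫⁻ a', ∫⁻ b', f (R₁ (a, a'), R₂ (b, b')) ∂P₂ ∂P₁ := by
    intro a b
    have : Measurable fun v : Ω₁ × Ω₂ => f (R₁ (a, v.1), R₂ (b, v.2)) := hF.comp (measurable_const (a := (a, b))|>.prodMk measurable_id)
    rw [lintegral_prod _ this.aemeasurable]
  simp_rw [e1]
  have hG : Measurable fun y : (Ω₁ × Ω₁) × (Ω₂ × Ω₂) => f (R₁ y.1, R₂ y.2) :=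
    hf.comp ((h₁.meas.comp measurable_fst).prodMk (h₂.meas.comp measurable_snd))
  have e2 : ∀ a, ∫⁻ b, ∫⁻ a', ∫⁻ b', f (R₁ (a, a'), R₂ (b, b')) ∂P₂ ∂P₁ ∂P₂ = ∫⁻ a', ∫⁻ b, ∫⁻ b', f (R₁ (a, a'), R₂ (b, b')) ∂P₂ ∂P₂ ∂P₁ := by
    intro a
    refine lintegral_lintegral_swap ?_
    have : Measurable fun z : (Ω₂ × Ω₁) × Ω₂ => f (R₁ (a, z.1.2), R₂ (z.1.1, z.2)) :=
      hG.comp ((measurable_const.prodMk (measurable_snd.comp measurable_fst)).prodMk ((measurable_fst.comp measurable_fst).prodMk measurable_snd))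
    exact this.lintegral_prod_right'.aemeasurable
  simp_rw [e2]
  have e3 : ∀ x : Ω₁, ∫⁻ b, ∫⁻ b', f (x, R₂ (b, b')) ∂P₂ ∂P₂ = ∫⁻ y, f (x, y) ∂P₂ := fun x =>
    (pvtk_fubini h₂ (F := fun y => f (x, y)) (hf.comp (measurable_const.prodMk measurable_id))).symm
  simp_rw [e3]
  have hg : Measurable fun x : Ω₁ => ∫⁻ y, f (x, y) ∂P₂ := hf.lintegral_prod_right'
  rw [lintegral_prod _ hf.aemeasurable]
  exact (pvtk_fubini h₁ hg).symm

/-- **a product of two resamplers is a resampler of the product law** -/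
theorem pvke_rs_prod [SFinite P₁] [SFinite P₂] (h₁ : PvtkRs P₁ R₁) (h₂ : PvtkRs P₂ R₂) : PvtkRs (P₁.prod P₂) (pvkeProd R₁ R₂) where
  meas := measurable_pvkeProd h₁.meas h₂.meas
  law := by
    refine Measure.ext_of_lintegral _ fun f hf => ?_
    rw [lintegral_map hf (measurable_pvkeProd h₁.meas h₂.meas)]
    exact pvke_prod_lintegral h₁ h₂ hf
  abs ω ω' ω'' := by
    unfold pvkeProd
    simp only [h₁.abs, h₂.abs]

theorem pvke_comm_prod (h₁ : PvtkComm R₁ R₁') (h₂ : PvtkComm R₂ R₂') : PvtkComm (pvkeProd R₁ R₂) (pvkeProd R₁' R₂') := fun ω ω' ω'' => by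
  unfold pvkeProd
  exact Prod.ext (h₁ _ _ _) (h₂ _ _ _)

end prod

/-! ## 2. hybrid atoms -/

section atoms

variable {Z : Type} {E : Type*} [MeasurableSpace E] {m : Measure E} {μ : Measure (Conf E)}

/-- THE EXPERIMENT SPACE: seeds, independent configuration -/
abbrev PvkeX (Z : Type) (E : Type*) := (Z → Bool) × Conf E

/-- the law of the experiment -/
noncomputable def pvkeLaw (Z : Type) (μ : Measure (Conf E)) : Measure (PvkeX Z E) := (colLaw Z).prod μ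

/-- THE HYBRID ATOM: the seeds of the block `U`, the configuration in the region `K` -/
noncomputable def pvkeAt (U : Set Z) (K : Set E) : PvkeX Z E × PvkeX Z E → PvkeX Z E := pvkeProd (pvtuBlk U) (pvtkR K)

/-- `f` reads the seeds of `U` and the configuration in `W` -/
def PvkeRd {β : Sort*} (U : Set Z) (W : Set E) (f : PvkeX Z E → β) : Prop :=
  ∀ (κ κ' : Z → Bool) (η η' : Conf E), (∀ z ∈ U, κ z = κ' z) → Conf.restr W η = Conf.restr W η' → f (κ, η) = f (κ', η')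

theorem pvke_eqns_cite2 : True := by
  have := @pvkeLaw.eq_1.{0}; have := @pvkeAt.eq_1.{0}; have := @PvkeRd.eq_1.{0, 1}
  trivial

instance pvke_law_prob [IsProbabilityMeasure μ] : IsProbabilityMeasure (pvkeLaw Z μ) := by unfold pvkeLaw; infer_instance

theorem pvke_at_fst (U : Set Z) (K : Set E) (x x' : PvkeX Z E) : (pvkeAt U K (x, x')).1 = pvtuBlk U (x.1, x'.1) := rfl

theorem pvke_at_snd (U : Set Z) (K : Set E) (x x' : PvkeX Z E) : (pvkeAt U K (x, x')).2 = pvtkR K (x.2, x'.2) := rfl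

theorem pvke_rs_at (h : IsPpp m μ) (U : Set Z) {K : Set E} (hK : MeasurableSet K) : PvtkRs (pvkeLaw Z μ) (pvkeAt U K) := by
  have := h.prob
  unfold pvkeLaw pvkeAt colLaw
  exact pvke_rs_prod (pvtu_rs_blk U) (pvtk_rs_spl h hK)

theorem pvke_comm_at {U U' : Set Z} {K K' : Set E} (hU : Disjoint U U') (hK : Disjoint K K') :
    PvtkComm (pvkeAt U K : PvkeX Z E × PvkeX Z E → PvkeX Z E) (pvkeAt U' K') :=
  pvke_comm_prod (pvtu_comm_blk hU) (pvtk_comm_spl hK)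

theorem pvke_restr_R_off {W K : Set E} (hd : Disjoint W K) (η η' : Conf E) : Conf.restr W (pvtkR K (η, η')) = Conf.restr W η := by
  ext p
  have : p ∈ W → p ∉ K := fun h1 => Set.disjoint_left.1 hd h1
  simp only [Conf.restr, mem_inter_iff, pvtk_mem_R]
  tauto

theorem pvke_restr_R_in {W K : Set E} (hs : W ⊆ K) (η η' : Conf E) : Conf.restr W (pvtkR K (η, η')) = Conf.restr W η' := by
  ext p
  have := @hs p
  simp only [Conf.restr, mem_inter_iff, pvtk_mem_R]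
  tauto

/-- a reader of `(U, W)` ignores every atom `(U', K')` which is disjoint from it -/
theorem pvke_ig_at {β : Sort*} {U U' : Set Z} {W K' : Set E} {f : PvkeX Z E → β} (hf : PvkeRd U W f) (hU : Disjoint U U') (hW : Disjoint W K') :
    PvtkIg (pvkeAt U' K') f := fun x x' =>
  hf _ _ _ _ (fun _ hz => pvtu_blk_notMem (Set.disjoint_left.1 hU hz) x.1 x'.1) (pvke_restr_R_off hW x.2 x'.2)

/-- a reader of `(U, W)` only sees the fresh copy after the atom `(U', K')`, `U ⊆ U'`, `W ⊆ K'` -/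
theorem pvke_fresh_at {β : Sort*} {U U' : Set Z} {W K' : Set E} {f : PvkeX Z E → β} (hf : PvkeRd U W f) (hU : U ⊆ U') (hW : W ⊆ K') (x x' : PvkeX Z E) :
    f (pvkeAt U' K' (x, x')) = f x' :=
  hf _ _ _ _ (fun _ hz => pvtu_blk_mem (hU hz) x.1 x'.1) (pvke_restr_R_in hW x.2 x'.2)

theorem PvkeRd.mono {β : Sort*} {U U' : Set Z} {W W' : Set E} {f : PvkeX Z E → β} (hf : PvkeRd U W f) (hU : U ⊆ U') (hW : W ⊆ W') : PvkeRd U' W' f :=
  fun κ κ' η η' h1 h2 => hf κ κ' η η' (fun z hz => h1 z (hU hz)) (by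
    ext p
    have e : p ∈ (Conf.restr W' η).pts ↔ p ∈ (Conf.restr W' η').pts := by rw [h2]
    have := @hW p
    simp only [Conf.restr, mem_inter_iff] at e ⊢
    tauto)

theorem PvkeRd.comp {β γ : Sort*} {U : Set Z} {W : Set E} {f : PvkeX Z E → β} (hf : PvkeRd U W f) (g : β → γ) : PvkeRd U W fun x => g (f x) :=
  fun κ κ' η η' h1 h2 => by
    show g (f (κ, η)) = g (f (κ', η'))
    rw [hf κ κ' η η' h1 h2]

theorem PvkeRd.map₂ {β γ δ : Sort*} {U : Set Z} {W : Set E} {f : PvkeX Z E → β} {f' : PvkeX Z E → γ} (hf : PvkeRd U W f) (hf' : PvkeRd U W f') (g : β → γ → δ) :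
    PvkeRd U W fun x => g (f x) (f' x) := fun κ κ' η η' h1 h2 => by
  show g (f (κ, η)) (f' (κ, η)) = g (f (κ', η')) (f' (κ', η'))
  rw [hf κ κ' η η' h1 h2, hf' κ κ' η η' h1 h2]

/-- a function of the configuration alone -/
theorem pvke_rd_snd {β : Sort*} {W : Set E} {f : Conf E → β} (hf : ∀ η, f (Conf.restr W η) = f η) (U : Set Z) : PvkeRd U W fun x : PvkeX Z E => f x.2 :=
  fun _ _ η η' _ h2 => by
    show f η = f η'
    rw [← hf η, ← hf η', h2]

end atoms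

/-! ## 3. hybrid systems -/

/-- **HYBRID SYSTEM**: plugs `u` (region `O u`), links `e` (seed block `U e`, region `K e`; `WA e` = the region read by the link).      Events on the experiment space. -/
structure PvkeSys (Z : Type) (E : Type*) (υ ι : Type*) where
  O : υ → Set E
  K : ι → Set E
  U : ι → Set Z
  WA : ι → Set E
  G : υ → Set (PvkeX Z E)
  A : ι → Set (PvkeX Z E)
  adj : ι → Finset υ

namespace PvkeSys

variable {Z : Type} {E : Type*} [MeasurableSpace E] {υ ι : Type*} (S : PvkeSys Z E υ ι)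

/-- the system of `Tr/Chain` -/
noncomputable def sys : PvtkSys (PvkeX Z E) υ ι := ⟨fun u => pvkeAt ∅ (S.O u), fun e => pvkeAt (S.U e) (S.K e), S.G, S.A, S.adj⟩

/-- well-formedness -/
structure Ok : Prop where
  mO : ∀ u, MeasurableSet (S.O u)
  mK : ∀ e, MeasurableSet (S.K e)
  mG : ∀ u, MeasurableSet (S.G u)
  mA : ∀ e, MeasurableSet (S.A e)
  dOO : ∀ u u', u ≠ u' → Disjoint (S.O u) (S.O u')
  dKK : ∀ e e', e ≠ e' → Disjoint (S.K e) (S.K e')
  dOK : ∀ u e, Disjoint (S.O u) (S.K e)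
  dUU : ∀ e e', e ≠ e' → Disjoint (S.U e) (S.U e')
  rG : ∀ u, PvkeRd ∅ (S.O u) fun x => x ∈ S.G u
  rA : ∀ e, PvkeRd (S.U e) (S.WA e) fun x => x ∈ S.A e
  dAK : ∀ e e', e ≠ e' → Disjoint (S.WA e) (S.K e')
  dAO : ∀ e u, u ∉ S.adj e → Disjoint (S.WA e) (S.O u)

/-- a field on the system -/
structure Fld (X : ι → PvkeX Z E → ℂ) : Prop where
  meas : ∀ e, Measurable (X e)
  rd : ∀ e, PvkeRd (S.U e) (S.WA e) (X e)

end PvkeSys

theorem pvke_eqns_cite3 : True := by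
  have := @PvkeSys.sys.eq_1.{0, 0, 0}
  trivial

section sys

variable {Z : Type} {E : Type*} [MeasurableSpace E] {m : Measure E} {μ : Measure (Conf E)} {υ ι : Type*} {S : PvkeSys Z E υ ι}

/-- **a hybrid system is a system of `Tr/Chain`** -/
theorem pvke_wf (h : IsPpp m μ) (hS : S.Ok) : S.sys.WF (pvkeLaw Z μ) where
  rsP u := pvke_rs_at h ∅ (hS.mO u)
  rsL e := pvke_rs_at h (S.U e) (hS.mK e)
  mG := hS.mG
  mA := hS.mA
  commLL e e' he := pvke_comm_at (hS.dUU e e' he) (hS.dKK e e' he)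
  commLP e u _ := pvke_comm_at (Set.disjoint_empty _) (hS.dOK u e).symm
  G_L u e := pvke_ig_at (hS.rG u) (Set.empty_disjoint _) (hS.dOK u e)
  G_P u u' hu := pvke_ig_at (hS.rG u) (Set.empty_disjoint _) (hS.dOO u u' hu)
  G_fr u x x' := iff_of_eq (pvke_fresh_at (hS.rG u) subset_rfl subset_rfl x x')
  A_L e e' he := pvke_ig_at (hS.rA e) (hS.dUU e e' he) (hS.dAK e e' he)
  A_P e u hu := pvke_ig_at (hS.rA e) (Set.disjoint_empty _) (hS.dAO e u hu)

theorem pvke_fld (hS : S.Ok) {X : ι → PvkeX Z E → ℂ} (hX : S.Fld X) : PvtkFld S.sys X where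
  meas := hX.meas
  ig_L e e' he := pvke_ig_at (hX.rd e) (hS.dUU e e' he.symm) (hS.dAK e e' he.symm)
  ig_P e u hu := pvke_ig_at (hX.rd e) (Set.disjoint_empty _) (hS.dAO e u hu)

end sys

/-! ## 4. functions of the configuration alone -/

section snd

variable {Z : Type} {E : Type*} [MeasurableSpace E] {m : Measure E} {μ : Measure (Conf E)}

theorem pvke_map_snd [IsProbabilityMeasure μ] : (pvkeLaw Z μ).map Prod.snd = μ := by
  unfold pvkeLaw
  rw [Measure.map_snd_prod, measure_univ, one_smul]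

theorem pvke_lintegral_snd [IsProbabilityMeasure μ] {F : Conf E → ℝ≥0∞} (hF : Measurable F) : ∫⁻ x, F x.2 ∂(pvkeLaw Z μ) = ∫⁻ η, F η ∂μ := by
  rw [← lintegral_map hF measurable_snd, pvke_map_snd]

theorem pvke_measure_snd [IsProbabilityMeasure μ] {B : Set (Conf E)} (hB : MeasurableSet B) : pvkeLaw Z μ (Prod.snd ⁻¹' B) = μ B := by
  rw [← Measure.map_apply measurable_snd hB, pvke_map_snd]

/-- the conditional expectation of a function of the configuration -/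
theorem pvke_E_snd [IsProbabilityMeasure μ] (U : Set Z) {K : Set E} (hK : MeasurableSet K) {F : Conf E → ℝ≥0∞} (hF : Measurable F) (x : PvkeX Z E) :
    pvtkE (pvkeLaw Z μ) (pvkeAt U K) (fun y => F y.2) x = pvtkE μ (pvtkR K) F x.2 := by
  unfold pvtkE
  simp only [pvke_at_snd]
  exact pvke_lintegral_snd (F := fun η' => F (pvtkR K (x.2, η'))) (hF.comp ((Conf.measurable_spl hK.compl).comp (measurable_const.prodMk measurable_id)))

theorem pvke_ind_snd (B : Set (Conf E)) : ((Prod.snd ⁻¹' B : Set (PvkeX Z E)).indicator (1 : PvkeX Z E → ℝ≥0∞)) = fun y => B.indicator 1 y.2 := by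
  funext y
  by_cases h : y.2 ∈ B
  · rw [Set.indicator_of_mem h, Set.indicator_of_mem (show y ∈ Prod.snd ⁻¹' B from h)]; rfl
  · rw [Set.indicator_of_notMem h, Set.indicator_of_notMem (show y ∉ Prod.snd ⁻¹' B from h)]

/-- the weight of a link which reads the configuration alone is the weight `pvtiW` of `Tr/Ind` -/
theorem pvke_W_snd [IsProbabilityMeasure μ] (U : Set Z) {O K : Set E} (hK : MeasurableSet K) (hd : Disjoint O K) {B : Set (Conf E)} (hB : MeasurableSet B)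
    (hr : Conf.Reads (O ∪ K) fun η => η ∈ B) (x : PvkeX Z E) : pvtkW (pvkeLaw Z μ) (pvkeAt U K) (Prod.snd ⁻¹' B) x = pvtiW μ O B x.2 := by
  rw [← pvtk_W_eq_W hd hr]
  unfold pvtkW
  rw [pvke_ind_snd, pvke_E_snd U hK (measurable_one.indicator hB)]

theorem pvke_P_snd [IsProbabilityMeasure μ] (U : Set Z) {O K : Set E} (hK : MeasurableSet K) (hd : Disjoint O K) {B : Set (Conf E)} (hB : MeasurableSet B)
    (hr : Conf.Reads (O ∪ K) fun η => η ∈ B) (x : PvkeX Z E) :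
    pvtkE (pvkeLaw Z μ) (pvkeAt U K) ((Prod.snd ⁻¹' B : Set (PvkeX Z E)).indicator 1) x = pvtiP μ O B x.2 := by
  rw [pvke_ind_snd, pvke_E_snd U hK (measurable_one.indicator hB), pvtk_E_eq_P hd hr]

theorem pvke_withDensity_map_snd [IsProbabilityMeasure μ] {w : Conf E → ℝ≥0∞} (hw : Measurable w) :
    ((pvkeLaw Z μ).withDensity fun x => w x.2).map Prod.snd = μ.withDensity w := by
  ext B hB
  rw [Measure.map_apply measurable_snd hB, withDensity_apply _ (measurable_snd hB), withDensity_apply _ hB,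
    ← lintegral_indicator (measurable_snd hB), ← lintegral_indicator hB, ← pvke_lintegral_snd (Z := Z) (hw.indicator hB)]
  refine lintegral_congr fun x => ?_
  by_cases h : x.2 ∈ B
  · rw [Set.indicator_of_mem h, Set.indicator_of_mem (show x ∈ Prod.snd ⁻¹' B from h)]
  · rw [Set.indicator_of_notMem h, Set.indicator_of_notMem (show x ∉ Prod.snd ⁻¹' B from h)]

/-- the mean of a function of the configuration -/
theorem pvke_integral_snd [IsProbabilityMeasure μ] {w : Conf E → ℝ≥0∞} (hw : Measurable w) {F : Conf E → ℂ} (hF : Measurable F) :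
    ∫ x, F x.2 ∂((pvkeLaw Z μ).withDensity fun x => w x.2) = ∫ η, F η ∂(μ.withDensity w) := by
  rw [← pvke_withDensity_map_snd (Z := Z) hw, integral_map measurable_snd.aemeasurable hF.aestronglyMeasurable]

end snd

/-! ## 5. the chain of cells between two end states -/

/-- **a FUNNEL** (end link) at a FIXED end state: seed block (the fresh sites of the mouth), exterior region, success event and field ON THE EXPERIMENT SPACE -/
structure PvkeFun (Z : Type) where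
  U : Set Z
  K : Set PvPt
  A : Set (PvkeX Z PvPt)
  X : PvkeX Z PvPt → ℂ

namespace PvkeFun

variable {Z : Type} (f : PvkeFun Z)

/-- the funnel reads its seeds, its region and the door plug `O` -/
structure Ok (O : Set PvPt) : Prop where
  mK : MeasurableSet f.K
  mA : MeasurableSet f.A
  mX : Measurable f.X
  rA : PvkeRd f.U (f.K ∪ O) fun x => x ∈ f.A
  rX : PvkeRd f.U (f.K ∪ O) f.X

/-- the funnel is FORCED with the constant `q` when the door plug is usable -/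
structure Frc (μ : Measure (Conf PvPt)) (G : Set (Conf PvPt)) (q : ℝ≥0∞) : Prop where
  q0 : q ≠ 0
  frc : ∀ x : PvkeX Z PvPt, x.2 ∈ G → q ≤ pvtkE (pvkeLaw Z μ) (pvkeAt f.U f.K) (f.A.indicator 1) x

/-- the weight `1_A / P(A | end state, door plug)` -/
noncomputable def w (μ : Measure (Conf PvPt)) : PvkeX Z PvPt → ℝ≥0∞ := pvtkW (pvkeLaw Z μ) (pvkeAt f.U f.K) f.A

/-- **`κ_out` / `κ_in`**: the mean of the funnel, the door plug at `(z,d)` integrated -/
noncomputable def k (kit : PvthKit) (μ : Measure (Conf PvPt)) (z d : ℂ) : ℂ := ∫ x, f.X x ∂((pvkeLaw Z μ).withDensity fun x => kit.g μ z d x.2 * f.w μ x)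

end PvkeFun

section chain

variable {Z : Type} (kit : PvthKit) (z d : ℂ) (l : List PvtTurn) (fo fi : PvkeFun Z)

/-- the region of the door plug number `j` -/
noncomputable abbrev pvkeO (j : ℕ) : Set PvPt := kit.O (pvthZ kit.δ z d l j) (pvthD d l j)

/-- the tile number `j` -/
noncomputable abbrev pvkeK (j : ℕ) : Set PvPt := kit.K (pvthZ kit.δ z d l j) (pvthD d l j) (pvthL l j)

/-- the regions of the chain are pairwise disjoint (cells: `pvcc_kit_disj_open` of 166) -/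
structure PvkeGeo : Prop where
  OO : ∀ i ≤ l.length, ∀ j ≤ l.length, i ≠ j → Disjoint (pvkeO kit z d l i) (pvkeO kit z d l j)
  KK : ∀ i < l.length, ∀ j < l.length, i ≠ j → Disjoint (pvkeK kit z d l i) (pvkeK kit z d l j)
  OK : ∀ i ≤ l.length, ∀ j < l.length, Disjoint (pvkeO kit z d l i) (pvkeK kit z d l j)
  oO : ∀ i ≤ l.length, Disjoint (pvkeO kit z d l i) fo.K
  iO : ∀ i ≤ l.length, Disjoint (pvkeO kit z d l i) fi.K
  oK : ∀ j < l.length, Disjoint (pvkeK kit z d l j) fo.K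
  iK : ∀ j < l.length, Disjoint (pvkeK kit z d l j) fi.K
  oi : Disjoint fo.K fi.K
  UU : Disjoint fo.U fi.U

/-- **THE CHAIN** `t -fo-> u_0 -cell 0-> u_1 … u_n -fi-> s` as a hybrid system -/
noncomputable def pvkeCh : PvkeSys Z PvPt (Fin (l.length + 1)) (Fin l.length ⊕ Bool) where
  O u := pvkeO kit z d l u
  K := Sum.elim (fun j => pvkeK kit z d l j) fun b => cond b fi.K fo.K
  U := Sum.elim (fun _ => ∅) fun b => cond b fi.U fo.U
  WA := Sum.elim (fun j => (pvkeO kit z d l j ∪ pvkeO kit z d l (j + 1)) ∪ pvkeK kit z d l j)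
    fun b => cond b (fi.K ∪ pvkeO kit z d l l.length) (fo.K ∪ pvkeO kit z d l 0)
  G u := Prod.snd ⁻¹' kit.G (pvthZ kit.δ z d l u) (pvthD d l u)
  A := Sum.elim (fun j => Prod.snd ⁻¹' kit.A (pvthZ kit.δ z d l j) (pvthD d l j) (pvthL l j)) fun b => cond b fi.A fo.A
  adj := Sum.elim (fun j => {j.castSucc, j.succ}) fun b => cond b {Fin.last l.length} {0}

/-- the field of the chain -/
noncomputable def pvkeXs (X₀ : PvtTurn → Conf PvPt → ℂ) : Fin l.length ⊕ Bool → PvkeX Z PvPt → ℂ :=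
  Sum.elim (fun j x => kit.Xj X₀ z d l j x.2) fun b => cond b fi.X fo.X

/-- **THE WEIGHT `W_c`** -/
noncomputable def pvkeWt (μ : Measure (Conf PvPt)) (x : PvkeX Z PvPt) : ℝ≥0∞ :=
  (∏ j ∈ Finset.range (l.length + 1), kit.g μ (pvthZ kit.δ z d l j) (pvthD d l j) x.2) *
    ((∏ j ∈ Finset.range l.length, kit.w μ (pvthZ kit.δ z d l j) (pvthD d l j) (pvthL l j) x.2) * (fi.w μ x * fo.w μ x))

/-- **THE CLOSING SUM `Y_c`** -/
noncomputable def pvkeY (X₀ : PvtTurn → Conf PvPt → ℂ) (x : PvkeX Z PvPt) : ℂ := kit.Y X₀ z d l x.2 + (fi.X x + fo.X x)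

/-- all the door plugs usable, all the cells and the two funnels successful -/
def pvkeEv : Set (PvkeX Z PvPt) :=
  {x | (∀ j ≤ l.length, x.2 ∈ kit.G (pvthZ kit.δ z d l j) (pvthD d l j)) ∧ (∀ j < l.length, x.2 ∈ kit.A (pvthZ kit.δ z d l j) (pvthD d l j) (pvthL l j)) ∧ x ∈ fi.A ∧ x ∈ fo.A}

/-- the forcing constants -/
def pvkeQ (q qo qi : ℝ≥0∞) : Fin l.length ⊕ Bool → ℝ≥0∞ := Sum.elim (fun _ => q) fun b => cond b qi qo

/-- **THE BOUND `D_c`** -/
noncomputable def pvkeD (μ : Measure (Conf PvPt)) (n : ℕ) (q qo qi : ℝ≥0∞) : ℝ≥0∞ := ((μ kit.G₀)⁻¹) ^ (n + 1) * ((q⁻¹) ^ n * (qi⁻¹ * qo⁻¹))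

end chain

theorem pvke_eqns_cite4 : True := by
  have := @PvkeFun.w.eq_1; have := @PvkeFun.k.eq_1; have := @pvkeO.eq_1; have := @pvkeK.eq_1; have := @pvkeCh.eq_1; have := @pvkeXs.eq_1
  have := @pvkeWt.eq_1; have := @pvkeY.eq_1; have := @pvkeEv.eq_1; have := @pvkeQ.eq_1; have := @pvkeD.eq_1
  trivial

section chainthm

variable {Z : Type} {kit : PvthKit} {z d : ℂ} {l : List PvtTurn} {fo fi : PvkeFun Z} {ε : ℝ} {X₀ : PvtTurn → Conf PvPt → ℂ} {β' q qo qi : ℝ≥0∞}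

theorem pvke_OO_eq (kit : PvthKit) (z d : ℂ) (l : List PvtTurn) {j : ℕ} (hj : j < l.length) :
    kit.OO (pvthZ kit.δ z d l j) (pvthD d l j) (pvthL l j) = pvkeO kit z d l j ∪ pvkeO kit z d l (j + 1) := by
  obtain ⟨e1, e2⟩ := pvthx_exit153 kit z d l hj
  unfold PvthKit.OO
  rw [e1, e2]

/-- **the chain is a hybrid system** -/
theorem pvke_ch_ok (hk : kit.WF) (hd : d ^ 4 = 1) (hg : PvkeGeo kit z d l fo fi) (ho : fo.Ok (pvkeO kit z d l 0)) (hi : fi.Ok (pvkeO kit z d l l.length)) :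
    (pvkeCh kit z d l fo fi).Ok where
  mO u := pvth_mO hk _ _ (pvth_D_ne hd l u)
  mK e := by
    rcases e with j | b
    · exact pvth_mK hk _ _ (pvth_D_ne hd l j) _
    · cases b
      · exact ho.mK
      · exact hi.mK
  mG u := measurable_snd (pvth_mG hk _ _)
  mA e := by
    rcases e with j | b
    · exact measurable_snd (pvth_mA hk _ _ _)
    · cases b
      · exact ho.mA
      · exact hi.mA
  dOO u u' huu := hg.OO u (Nat.lt_succ_iff.1 u.2) u' (Nat.lt_succ_iff.1 u'.2) fun e => huu (Fin.ext e)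
  dKK e e' he := by
    rcases e with j | b <;> rcases e' with j' | b'
    · exact hg.KK j j.2 j' j'.2 fun e => he (congrArg Sum.inl (Fin.ext e))
    · cases b'
      · exact hg.oK j j.2
      · exact hg.iK j j.2
    · cases b
      · exact (hg.oK j' j'.2).symm
      · exact (hg.iK j' j'.2).symm
    · cases b <;> cases b'
      · exact absurd rfl he
      · exact hg.oi
      · exact hg.oi.symm
      · exact absurd rfl he
  dOK u e := by
    rcases e with j | b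
    · exact hg.OK u (Nat.lt_succ_iff.1 u.2) j j.2
    · cases b
      · exact hg.oO u (Nat.lt_succ_iff.1 u.2)
      · exact hg.iO u (Nat.lt_succ_iff.1 u.2)
  dUU e e' he := by
    rcases e with j | b <;> rcases e' with j' | b'
    · exact Set.empty_disjoint _
    · exact Set.empty_disjoint _
    · exact Set.disjoint_empty _
    · cases b <;> cases b'
      · exact absurd rfl he
      · exact hg.UU
      · exact hg.UU.symm
      · exact absurd rfl he
  rG u := pvke_rd_snd (pvth_rG hk _ _ (pvth_D_ne hd l u)) ∅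
  rA e := by
    rcases e with j | b
    · have := pvth_rA hk (pvthZ kit.δ z d l j) (pvthD d l j) (pvth_D_ne hd l j) (pvthL l j)
      rw [pvke_OO_eq kit z d l j.2] at this
      exact pvke_rd_snd this ∅
    · cases b
      · exact ho.rA
      · exact hi.rA
  dAK e e' he := by
    rcases e with j | b <;> rcases e' with j' | b'
    · exact Set.disjoint_union_left.2 ⟨Set.disjoint_union_left.2 ⟨hg.OK j j.2.le j' j'.2, hg.OK (j + 1) j.2 j' j'.2⟩,
        hg.KK j j.2 j' j'.2 fun e => he (congrArg Sum.inl (Fin.ext e))⟩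
    · cases b'
      · exact Set.disjoint_union_left.2 ⟨Set.disjoint_union_left.2 ⟨hg.oO j j.2.le, hg.oO (j + 1) j.2⟩, hg.oK j j.2⟩
      · exact Set.disjoint_union_left.2 ⟨Set.disjoint_union_left.2 ⟨hg.iO j j.2.le, hg.iO (j + 1) j.2⟩, hg.iK j j.2⟩
    · cases b
      · exact Set.disjoint_union_left.2 ⟨(hg.oK j' j'.2).symm, hg.OK 0 (Nat.zero_le _) j' j'.2⟩
      · exact Set.disjoint_union_left.2 ⟨(hg.iK j' j'.2).symm, hg.OK l.length le_rfl j' j'.2⟩
    · cases b <;> cases b'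
      · exact absurd rfl he
      · exact Set.disjoint_union_left.2 ⟨hg.oi, hg.iO 0 (Nat.zero_le _)⟩
      · exact Set.disjoint_union_left.2 ⟨hg.oi.symm, hg.oO l.length le_rfl⟩
      · exact absurd rfl he
  dAO e u hu := by
    have hul : (u : ℕ) ≤ l.length := Nat.lt_succ_iff.1 u.2
    rcases e with j | b
    · have h1 : (j : ℕ) ≠ u := fun e => hu (by
        show u ∈ ({j.castSucc, j.succ} : Finset _)
        rw [Finset.mem_insert]; left; exact Fin.ext e.symm)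
      have h2 : (j : ℕ) + 1 ≠ u := fun e => hu (by
        show u ∈ ({j.castSucc, j.succ} : Finset _)
        rw [Finset.mem_insert, Finset.mem_singleton]; right; exact Fin.ext e.symm)
      exact Set.disjoint_union_left.2 ⟨Set.disjoint_union_left.2 ⟨hg.OO j j.2.le u hul h1, hg.OO (j + 1) j.2 u hul h2⟩, (hg.OK u hul j j.2).symm⟩
    · cases b
      · have h1 : (0 : ℕ) ≠ u := fun e => hu (by
          show u ∈ ({0} : Finset _)
          rw [Finset.mem_singleton]; exact Fin.ext e.symm)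
        exact Set.disjoint_union_left.2 ⟨(hg.oO u hul).symm, hg.OO 0 (Nat.zero_le _) u hul h1⟩
      · have h1 : l.length ≠ u := fun e => hu (by
          show u ∈ ({Fin.last l.length} : Finset _)
          rw [Finset.mem_singleton]; exact Fin.ext e.symm)
        exact Set.disjoint_union_left.2 ⟨(hg.iO u hul).symm, hg.OO l.length le_rfl u hul h1⟩

theorem pvke_ch_fld (hX : kit.Fld X₀) (hd : d ^ 4 = 1) (ho : fo.Ok (pvkeO kit z d l 0)) (hi : fi.Ok (pvkeO kit z d l l.length)) :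
    (pvkeCh kit z d l fo fi).Fld (pvkeXs kit z d l fo fi X₀) where
  meas e := by
    rcases e with j | b
    · exact (pvth_X_meas hX _ _ _).comp measurable_snd
    · cases b
      · exact ho.mX
      · exact hi.mX
  rd e := by
    rcases e with j | b
    · have := pvth_X_reads hX (pvthZ kit.δ z d l j) (pvth_D_ne hd l j) (pvthL l j)
      rw [pvke_OO_eq kit z d l j.2] at this
      exact pvke_rd_snd this ∅
    · cases b
      · exact ho.rX
      · exact hi.rX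

/-! ### dictionary: the engine on the experiment space ⟷ the kit on `Conf PvPt` -/

theorem pvke_ch_g (hk : kit.WF) (hd : d ^ 4 = 1) (u : Fin (l.length + 1)) (x : PvkeX Z PvPt) :
    (pvkeCh kit z d l fo fi).sys.g (pvkeLaw Z (pvP ε)) u x = kit.g (pvP ε) (pvthZ kit.δ z d l u) (pvthD d l u) x.2 := by
  have := (pv_isPpp ε).prob
  show (Prod.snd ⁻¹' kit.G (pvthZ kit.δ z d l u) (pvthD d l u) : Set (PvkeX Z PvPt)).indicator 1 x / pvkeLaw Z (pvP ε) (Prod.snd ⁻¹' kit.G (pvthZ kit.δ z d l u) (pvthD d l u)) = _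
  rw [pvke_measure_snd (pvth_mG hk _ _), pvth_measure_G kit ε _ _ (pvth_norm_D hd l u), pvke_ind_snd]
  rfl

theorem pvke_ch_dOK (hg : PvkeGeo kit z d l fo fi) {j : ℕ} (hj : j < l.length) :
    Disjoint (kit.OO (pvthZ kit.δ z d l j) (pvthD d l j) (pvthL l j)) (pvkeK kit z d l j) := by
  rw [pvke_OO_eq kit z d l hj]
  exact Set.disjoint_union_left.2 ⟨hg.OK j hj.le j hj, hg.OK (j + 1) hj j hj⟩

theorem pvke_ch_w_cell (hk : kit.WF) (hd : d ^ 4 = 1) (hg : PvkeGeo kit z d l fo fi) (j : Fin l.length) (x : PvkeX Z PvPt) :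
    (pvkeCh kit z d l fo fi).sys.w (pvkeLaw Z (pvP ε)) (Sum.inl j) x = kit.w (pvP ε) (pvthZ kit.δ z d l j) (pvthD d l j) (pvthL l j) x.2 := by
  have := (pv_isPpp ε).prob
  exact pvke_W_snd ∅ (pvth_mK hk _ _ (pvth_D_ne hd l j) _) (pvke_ch_dOK hg j.2) (pvth_mA hk _ _ _) (pvth_rA hk _ _ (pvth_D_ne hd l j) _) x

theorem pvke_ch_w_out (x : PvkeX Z PvPt) : (pvkeCh kit z d l fo fi).sys.w (pvkeLaw Z (pvP ε)) (Sum.inr false) x = fo.w (pvP ε) x := rfl

theorem pvke_ch_w_in (x : PvkeX Z PvPt) : (pvkeCh kit z d l fo fi).sys.w (pvkeLaw Z (pvP ε)) (Sum.inr true) x = fi.w (pvP ε) x := rfl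

/-- the weight of the engine is `W_c` -/
theorem pvke_ch_Wt (hk : kit.WF) (hd : d ^ 4 = 1) (hg : PvkeGeo kit z d l fo fi) (x : PvkeX Z PvPt) :
    (pvkeCh kit z d l fo fi).sys.Wt (pvkeLaw Z (pvP ε)) x = pvkeWt kit z d l fo fi (pvP ε) x := by
  unfold PvtkSys.Wt pvkeWt
  rw [Fintype.prod_sum_type, Fintype.prod_bool, pvke_ch_w_out, pvke_ch_w_in]
  simp_rw [pvke_ch_g hk hd, pvke_ch_w_cell hk hd hg]
  rw [Fin.prod_univ_eq_prod_range (fun j => kit.g (pvP ε) (pvthZ kit.δ z d l j) (pvthD d l j) x.2) (l.length + 1),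
    Fin.prod_univ_eq_prod_range (fun j => kit.w (pvP ε) (pvthZ kit.δ z d l j) (pvthD d l j) (pvthL l j) x.2) l.length]

theorem pvke_ch_w2_cell (hk : kit.WF) (hd : d ^ 4 = 1) (hg : PvkeGeo kit z d l fo fi) (j : Fin l.length) (x : PvkeX Z PvPt) :
    (pvkeCh kit z d l fo fi).sys.w2 (pvkeLaw Z (pvP ε)) (Sum.inl j) x = kit.w2 (pvP ε) (pvthZ kit.δ z d l j) (pvthD d l j) (pvthL l j) x.2 := by
  obtain ⟨e1, e2⟩ := pvthx_exit153 kit z d l j.2
  unfold PvtkSys.w2 PvthKit.w2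
  rw [pvke_ch_w_cell hk hd hg, e1, e2]
  congr 1
  show ∏ u ∈ ({j.castSucc, j.succ} : Finset (Fin (l.length + 1))), _ = _
  rw [Finset.prod_pair (fun e => by have := congrArg Fin.val e; simp at this), pvke_ch_g hk hd, pvke_ch_g hk hd]
  rfl

theorem pvke_ch_w2_out (hk : kit.WF) (hd : d ^ 4 = 1) (x : PvkeX Z PvPt) :
    (pvkeCh kit z d l fo fi).sys.w2 (pvkeLaw Z (pvP ε)) (Sum.inr false) x = kit.g (pvP ε) (pvthZ kit.δ z d l 0) (pvthD d l 0) x.2 * fo.w (pvP ε) x := by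
  unfold PvtkSys.w2
  rw [pvke_ch_w_out]
  congr 1
  show ∏ u ∈ ({0} : Finset (Fin (l.length + 1))), _ = _
  rw [Finset.prod_singleton, pvke_ch_g hk hd]
  rfl

theorem pvke_ch_w2_in (hk : kit.WF) (hd : d ^ 4 = 1) (x : PvkeX Z PvPt) :
    (pvkeCh kit z d l fo fi).sys.w2 (pvkeLaw Z (pvP ε)) (Sum.inr true) x = kit.g (pvP ε) (pvthZ kit.δ z d l l.length) (pvthD d l l.length) x.2 * fi.w (pvP ε) x := by
  unfold PvtkSys.w2
  rw [pvke_ch_w_in]
  congr 1
  show ∏ u ∈ ({Fin.last l.length} : Finset (Fin (l.length + 1))), _ = _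
  rw [Finset.prod_singleton, pvke_ch_g hk hd]
  rfl

theorem pvke_ch_Ev : (pvkeCh kit z d l fo fi).sys.Ev = pvkeEv kit z d l fo fi := by
  ext x
  constructor
  · rintro ⟨h1, h2⟩
    exact ⟨fun j hj => h1 ⟨j, Nat.lt_succ_of_le hj⟩, fun j hj => h2 (Sum.inl ⟨j, hj⟩), h2 (Sum.inr true), h2 (Sum.inr false)⟩
  · rintro ⟨h1, h2, h3, h4⟩
    refine ⟨fun u => h1 u (Nat.lt_succ_iff.1 u.2), fun e => ?_⟩
    rcases e with j | b
    · exact h2 j j.2
    · cases b
      · exact h4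
      · exact h3

theorem pvke_ch_Y (x : PvkeX Z PvPt) : ∑ e, pvkeXs kit z d l fo fi X₀ e x = pvkeY kit z d l fo fi X₀ x := by
  unfold pvkeY PvthKit.Y
  rw [Fintype.sum_sum_type, Fintype.sum_bool, ← Fin.sum_univ_eq_sum_range (fun j => kit.Xj X₀ z d l j x.2) l.length]
  rfl

theorem pvke_ch_D (hk : kit.WF) (hd : d ^ 4 = 1) :
    (pvkeCh kit z d l fo fi).sys.D (pvkeLaw Z (pvP ε)) (pvkeQ l q qo qi) = pvkeD kit (pvP ε) l.length q qo qi := by
  have := (pv_isPpp ε).prob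
  unfold PvtkSys.D pvkeD
  rw [Fintype.prod_sum_type, Fintype.prod_bool]
  have e1 : ∀ u : Fin (l.length + 1), (pvkeLaw Z (pvP ε) ((pvkeCh kit z d l fo fi).sys.G u))⁻¹ = (pvP ε kit.G₀)⁻¹ := fun u => by
    show (pvkeLaw Z (pvP ε) (Prod.snd ⁻¹' kit.G (pvthZ kit.δ z d l u) (pvthD d l u)))⁻¹ = _
    rw [pvke_measure_snd (pvth_mG hk _ _), pvth_measure_G kit ε _ _ (pvth_norm_D hd l u)]
  simp_rw [e1]
  simp [pvkeQ]

/-- **the chain is forced** -/
theorem pvke_ch_forced (hk : kit.WF) (hF : kit.Forced (pvP ε) β' q) (hd : d ^ 4 = 1) (hg : PvkeGeo kit z d l fo fi)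
    (hfo : fo.Frc (pvP ε) (kit.G (pvthZ kit.δ z d l 0) (pvthD d l 0)) qo) (hfi : fi.Frc (pvP ε) (kit.G (pvthZ kit.δ z d l l.length) (pvthD d l l.length)) qi) :
    (pvkeCh kit z d l fo fi).sys.Forced (pvkeLaw Z (pvP ε)) (pvkeQ l q qo qi) where
  adm u := by
    have := (pv_isPpp ε).prob
    show pvkeLaw Z (pvP ε) (Prod.snd ⁻¹' kit.G (pvthZ kit.δ z d l u) (pvthD d l u)) ≠ 0
    rw [pvke_measure_snd (pvth_mG hk _ _), pvth_measure_G kit ε _ _ (pvth_norm_D hd l u)]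
    exact pvth_G0_ne hF
  q0 e := by
    rcases e with j | b
    · exact hF.q0
    · cases b
      · exact hfo.q0
      · exact hfi.q0
  frc e x hx := by
    have := (pv_isPpp ε).prob
    rcases e with j | b
    · obtain ⟨e1, e2⟩ := pvthx_exit153 kit z d l j.2
      have h1 : x.2 ∈ kit.G (pvthZ kit.δ z d l j) (pvthD d l j) := hx j.castSucc (by
        show j.castSucc ∈ ({j.castSucc, j.succ} : Finset _)
        exact Finset.mem_insert_self _ _)
      have h2 : x.2 ∈ kit.G (pvthZ kit.δ z d l (j + 1)) (pvthD d l (j + 1)) := hx j.succ (by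
        show j.succ ∈ ({j.castSucc, j.succ} : Finset _)
        exact Finset.mem_insert_of_mem (Finset.mem_singleton_self _))
      rw [← e1, ← e2] at h2
      have h3 := pvth_frc hF _ _ (pvth_norm_D hd l j) (pvthL l j) h1 h2
      refine h3.trans (le_of_eq ?_)
      exact (pvke_P_snd ∅ (pvth_mK hk _ _ (pvth_D_ne hd l j) _) (pvke_ch_dOK hg j.2) (pvth_mA hk _ _ _) (pvth_rA hk _ _ (pvth_D_ne hd l j) _) x).symm
    · cases b
      · exact hfo.frc x (hx 0 (by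
          show (0 : Fin (l.length + 1)) ∈ ({0} : Finset _)
          exact Finset.mem_singleton_self _))
      · exact hfi.frc x (hx (Fin.last l.length) (by
          show Fin.last l.length ∈ ({Fin.last l.length} : Finset _)
          exact Finset.mem_singleton_self _))

theorem pvke_w2_measurable (hk : kit.WF) (z' : ℂ) {d' : ℂ} (hd' : ‖d'‖ = 1) (τ : PvtTurn) : Measurable (kit.w2 (pvP ε) z' d' τ) := by
  unfold PvthKit.w2
  exact ((pvth_g_measurable hk _ _ _).mul (pvth_g_measurable hk _ _ _)).mul (pvth_w_measurable hk _ _ (pvth_ne_zero hd') _)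

/-- the link constant of the cell `j` is `d_j` times the cell constant of its letter -/
theorem pvke_ch_K_cell (hk : kit.WF) (hX : kit.Fld X₀) (hd : d ^ 4 = 1) (hg : PvkeGeo kit z d l fo fi) (j : Fin l.length) :
    pvtkK (pvkeCh kit z d l fo fi).sys (pvkeLaw Z (pvP ε)) (pvkeXs kit z d l fo fi X₀) (Sum.inl j) = pvthD d l j * (kit.W (pvP ε) X₀).w (pvthL l j) := by
  have := (pv_isPpp ε).prob
  unfold pvtkK
  have e : (pvkeCh kit z d l fo fi).sys.w2 (pvkeLaw Z (pvP ε)) (Sum.inl j) = fun x => kit.w2 (pvP ε) (pvthZ kit.δ z d l j) (pvthD d l j) (pvthL l j) x.2 :=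
    funext fun x => pvke_ch_w2_cell hk hd hg j x
  rw [e]
  show ∫ x : PvkeX Z PvPt, kit.Xj X₀ z d l j x.2 ∂_ = _
  rw [pvke_integral_snd (F := kit.Xj X₀ z d l j) (pvke_w2_measurable hk _ (pvth_norm_D hd l j) _) (pvth_X_meas hX _ _ _)]
  have h4 : (kit.W (pvP ε) X₀).w (pvthL l j) = kit.k (pvP ε) X₀ (pvthL l j) := by
    cases pvthL l j <;> rfl
  rw [h4]
  exact pvth_place_mean hk hX _ _ (pvth_norm_D hd l j) _

theorem pvke_ch_K_out (hk : kit.WF) (hd : d ^ 4 = 1) :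
    pvtkK (pvkeCh kit z d l fo fi).sys (pvkeLaw Z (pvP ε)) (pvkeXs kit z d l fo fi X₀) (Sum.inr false) = fo.k kit (pvP ε) (pvthZ kit.δ z d l 0) (pvthD d l 0) := by
  unfold pvtkK PvkeFun.k
  rw [show (pvkeCh kit z d l fo fi).sys.w2 (pvkeLaw Z (pvP ε)) (Sum.inr false) = _ from funext fun x => pvke_ch_w2_out hk hd x]
  rfl

theorem pvke_ch_K_in (hk : kit.WF) (hd : d ^ 4 = 1) :
    pvtkK (pvkeCh kit z d l fo fi).sys (pvkeLaw Z (pvP ε)) (pvkeXs kit z d l fo fi X₀) (Sum.inr true)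
      = fi.k kit (pvP ε) (pvthZ kit.δ z d l l.length) (pvthD d l l.length) := by
  unfold pvtkK PvkeFun.k
  rw [show (pvkeCh kit z d l fo fi).sys.w2 (pvkeLaw Z (pvP ε)) (Sum.inr true) = _ from funext fun x => pvke_ch_w2_in hk hd x]
  rfl

/-- the sum of the link constants -/
theorem pvke_ch_K_sum (hk : kit.WF) (hX : kit.Fld X₀) (hd : d ^ 4 = 1) (hg : PvkeGeo kit z d l fo fi) :
    ∑ e, pvtkK (pvkeCh kit z d l fo fi).sys (pvkeLaw Z (pvP ε)) (pvkeXs kit z d l fo fi X₀) e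
      = fo.k kit (pvP ε) (pvthZ kit.δ z d l 0) (pvthD d l 0) + pvtSum (kit.W (pvP ε) X₀) d l + fi.k kit (pvP ε) (pvthZ kit.δ z d l l.length) (pvthD d l l.length) := by
  rw [Fintype.sum_sum_type, Fintype.sum_bool, pvke_ch_K_out hk hd, pvke_ch_K_in hk hd]
  simp_rw [pvke_ch_K_cell hk hX hd hg]
  rw [Fin.sum_univ_eq_sum_range (fun j => pvthD d l j * (kit.W (pvP ε) X₀).w (pvthL l j)) l.length, pvtSum, pvthx_acc153]
  ring

/-- the second moments of the links -/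
theorem pvke_ch_sq (hk : kit.WF) (hX : kit.Fld X₀) (hd : d ^ 4 = 1) (hg : PvkeGeo kit z d l fo fi)
    (h2 : ∀ τ, ∫⁻ η, ‖X₀ τ η‖ₑ ^ 2 * kit.w2 (pvP ε) 0 1 τ η ∂(pvP ε) ≠ ∞)
    (h2o : ∫⁻ x, ‖fo.X x‖ₑ ^ 2 * (kit.g (pvP ε) (pvthZ kit.δ z d l 0) (pvthD d l 0) x.2 * fo.w (pvP ε) x) ∂(pvkeLaw Z (pvP ε)) ≠ ∞)
    (h2i : ∫⁻ x, ‖fi.X x‖ₑ ^ 2 * (kit.g (pvP ε) (pvthZ kit.δ z d l l.length) (pvthD d l l.length) x.2 * fi.w (pvP ε) x) ∂(pvkeLaw Z (pvP ε)) ≠ ∞) (e : Fin l.length ⊕ Bool) :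
    ∫⁻ x, ‖pvkeXs kit z d l fo fi X₀ e x‖ₑ ^ 2 * (pvkeCh kit z d l fo fi).sys.w2 (pvkeLaw Z (pvP ε)) e x ∂(pvkeLaw Z (pvP ε)) ≠ ∞ := by
  have := (pv_isPpp ε).prob
  rcases e with j | b
  · simp_rw [pvke_ch_w2_cell hk hd hg]
    show ∫⁻ x : PvkeX Z PvPt, ‖kit.Xj X₀ z d l j x.2‖ₑ ^ 2 * kit.w2 (pvP ε) (pvthZ kit.δ z d l j) (pvthD d l j) (pvthL l j) x.2 ∂_ ≠ ∞
    rw [pvke_lintegral_snd (F := fun η => ‖kit.Xj X₀ z d l j η‖ₑ ^ 2 * kit.w2 (pvP ε) (pvthZ kit.δ z d l j) (pvthD d l j) (pvthL l j) η)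
      (((pvth_X_meas hX _ _ _).enorm.pow_const 2).mul (pvke_w2_measurable hk _ (pvth_norm_D hd l j) _))]
    have := pvth_place_sq (ε := ε) hk hX (pvthZ kit.δ z d l j) (pvthD d l j) (pvth_norm_D hd l j) (pvthL l j)
    unfold PvthKit.Xj
    rw [this]
    exact h2 _
  · cases b
    · simp_rw [pvke_ch_w2_out hk hd]
      exact h2o
    · simp_rw [pvke_ch_w2_in hk hd]
      exact h2i

/-- all the hypotheses on a chain at a fixed pair of end states -/
structure PvkeChain (kit : PvthKit) (ε : ℝ) (X₀ : PvtTurn → Conf PvPt → ℂ) (z d : ℂ) (l : List PvtTurn) (fo fi : PvkeFun Z) (β' q qo qi : ℝ≥0∞) : Prop where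
  wf : kit.WF
  fld : kit.Fld X₀
  frc : kit.Forced (pvP ε) β' q
  dir : d ^ 4 = 1
  geo : PvkeGeo kit z d l fo fi
  ok_o : fo.Ok (pvkeO kit z d l 0)
  ok_i : fi.Ok (pvkeO kit z d l l.length)
  frc_o : fo.Frc (pvP ε) (kit.G (pvthZ kit.δ z d l 0) (pvthD d l 0)) qo
  frc_i : fi.Frc (pvP ε) (kit.G (pvthZ kit.δ z d l l.length) (pvthD d l l.length)) qi
  sq : ∀ τ, ∫⁻ η, ‖X₀ τ η‖ₑ ^ 2 * kit.w2 (pvP ε) 0 1 τ η ∂(pvP ε) ≠ ∞
  sq_o : ∫⁻ x, ‖fo.X x‖ₑ ^ 2 * (kit.g (pvP ε) (pvthZ kit.δ z d l 0) (pvthD d l 0) x.2 * fo.w (pvP ε) x) ∂(pvkeLaw Z (pvP ε)) ≠ ∞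
  sq_i : ∫⁻ x, ‖fi.X x‖ₑ ^ 2 * (kit.g (pvP ε) (pvthZ kit.δ z d l l.length) (pvthD d l l.length) x.2 * fi.w (pvP ε) x) ∂(pvkeLaw Z (pvP ε)) ≠ ∞

namespace PvkeChain

variable (H : PvkeChain kit ε X₀ z d l fo fi β' q qo qi)
include H

theorem WF : (pvkeCh kit z d l fo fi).sys.WF (pvkeLaw Z (pvP ε)) := pvke_wf (pv_isPpp ε) (pvke_ch_ok H.wf H.dir H.geo H.ok_o H.ok_i)

theorem Forced : (pvkeCh kit z d l fo fi).sys.Forced (pvkeLaw Z (pvP ε)) (pvkeQ l q qo qi) := pvke_ch_forced H.wf H.frc H.dir H.geo H.frc_o H.frc_i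

theorem Fld : PvtkFld (pvkeCh kit z d l fo fi).sys (pvkeXs kit z d l fo fi X₀) :=
  pvke_fld (pvke_ch_ok H.wf H.dir H.geo H.ok_o H.ok_i) (pvke_ch_fld H.fld H.dir H.ok_o H.ok_i)

/-- **`ŷ_c`**: the normal form of the mean -/
noncomputable def yhat (_H : PvkeChain kit ε X₀ z d l fo fi β' q qo qi) : ℂ :=
  fo.k kit (pvP ε) (pvthZ kit.δ z d l 0) (pvthD d l 0) + pvtSum (kit.W (pvP ε) X₀) d l + fi.k kit (pvP ε) (pvthZ kit.δ z d l l.length) (pvthD d l l.length)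

/-- **TR1**: `W_c` has mass one -/
theorem mass : ∫⁻ x, pvkeWt kit z d l fo fi (pvP ε) x ∂(pvkeLaw Z (pvP ε)) = 1 := by
  have := (pv_isPpp ε).prob
  simp_rw [← pvke_ch_Wt (ε := ε) H.wf H.dir H.geo]
  exact pvtk_mass H.WF H.Forced

/-- **TR1**: `W_c ≤ D_c 1_Ev` -/
theorem le (x : PvkeX Z PvPt) : pvkeWt kit z d l fo fi (pvP ε) x ≤ pvkeD kit (pvP ε) l.length q qo qi * (pvkeEv kit z d l fo fi).indicator 1 x := by
  rw [← pvke_ch_Wt (ε := ε) H.wf H.dir H.geo, ← pvke_ch_D (fo := fo) (fi := fi) (z := z) H.wf H.dir, ← pvke_ch_Ev]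
  exact pvtk_Wt_le H.Forced x

/-- **TR2, ROAD E**: `ŷ_c = κ_out + pvtSum W d l + κ_in`, EXACT, at every pair of end states -/
theorem mean : ∫ x, pvkeY kit z d l fo fi X₀ x ∂((pvkeLaw Z (pvP ε)).withDensity (pvkeWt kit z d l fo fi (pvP ε))) = H.yhat := by
  have := (pv_isPpp ε).prob
  have h := pvtk_mean H.WF H.Forced H.Fld (pvke_ch_sq H.wf H.fld H.dir H.geo H.sq H.sq_o H.sq_i)
  rw [pvke_ch_K_sum H.wf H.fld H.dir H.geo] at h
  simp_rw [pvke_ch_Y] at h
  rw [show (pvkeCh kit z d l fo fi).sys.Wt (pvkeLaw Z (pvP ε)) = pvkeWt kit z d l fo fi (pvP ε) from funext fun x => pvke_ch_Wt H.wf H.dir H.geo x] at h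
  exact h

/-- **TR3, ROAD E** (weighted N1 at a fixed datum; `x₀ = X(D)`) -/
theorem jensen (x₀ : ℂ) : ‖x₀ + H.yhat‖ₑ ^ 2 ≤ pvkeD kit (pvP ε) l.length q qo qi *
    ∫⁻ x, ‖x₀ + pvkeY kit z d l fo fi X₀ x‖ₑ ^ 2 * (pvkeEv kit z d l fo fi).indicator 1 x ∂(pvkeLaw Z (pvP ε)) := by
  have := (pv_isPpp ε).prob
  have h := pvtk_jensen H.WF H.Forced H.Fld (pvke_ch_sq H.wf H.fld H.dir H.geo H.sq H.sq_o H.sq_i) x₀
  rw [pvke_ch_K_sum H.wf H.fld H.dir H.geo, pvke_ch_D H.wf H.dir, pvke_ch_Ev] at h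
  simp_rw [pvke_ch_Y] at h
  exact h

end PvkeChain

theorem pvke_eqns_cite5 : True := by
  have := @PvkeChain.yhat.eq_1
  trivial

end chainthm

end Claimed.Agent.R289
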