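-- KEEP
import Claimed.Agent.R289.Tr.ChainM
import Claimed.Agent.R289.Defs.FitReg
import Claimed.Agent.R289.Tr.KitDict
import Claimed.Agent.R289.Tr.RegT
import Claimed.Agent.R289.Defs.FitRec
import Claimed.Agent.R289.Exit.FitWf
import Claimed.Agent.R289.Exit.Par

/-!
# Row 289 (S0537), THE WALL, ROAD E, file Tr/ChainG : CHAIN, THE GEOMETRY OF THE CELLS AND OF THE DOORS OF A WORD      (helper175; post BOX:TR-CHAING; split of 268 13:20Z: 175 = CELLS, 194 = ENDS; prefix `pvgj_`, `pvgj`, `Pvgj`)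

TARGET = `PvjmRgC` (268, `Tr/ChainM` sec. 6) for every cell-simple word, any geometry with `PvkxRef` (244), any scale.
* sec. 1  unit coordinates: `pvgjCl c r` (closed square), **`pvgj_MM_unit`** (the HALF OPEN cells of a cell-simple word are pairwise disjoint: two half open cells which meet are equal, or face each other through the same door),
          `pvgj_Q_two`, **`pvgj_Q_cl`** (a door square misses every closed cell of the grid but the two cells of the door).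
* sec. 2  the scale `δ`: `pvgj_at_M` (the placed mask of record in the names of `Tr/CellChain`), **`pvgj_MM`**, `pvgj_M_sub`, **`pvgj_QQ`**, `pvgj_sq_two`, **`pvgj_sq_cl`**.
* sec. 3  `pvgjM` (mask of the cell `j`), `pvgj_Q_MM` (disc of the door `j + 1` ⊆ masks `j`, `j + 1`), `pvgj_Q_M`;   **`pvgj_rgC`** : `PvkxRef 𝔤 → d ^ 4 = 1 → PvccSimple l l.length → (no cell is the cell behind the first door) → PvjmRgC 𝔤 z d l`;
          the SHORT LIST for the ends `PvgjEnds` (masks, two discs, two rooms of gate ends), **`pvgj_rgE`** : `PvgjEnds → PvjmRgE`, **`pvgj_rg`** : `PvjmRg`.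
* sec. 4  tools for the ends: `pvgj_M_cl_sub`, `pvgj_M_cball` (mask ⊆ closed cell ⊆ `closedBall (C k) δ`), `pvgj_sq_M`, `pvgj_back_of_mem`, `pvgj_hp_mem`, `pvgj_M_front`, `pvgj_M_behind` (mask in front of its entrance door, behind its exit door),
          `PvgjRef` (`Zp` in front, `Zm` behind: `pvgj_ref_P`, `pvgj_ref_sc`), `pvgj_zp_hp`, `pvgj_zm_hp`, **`pvgj_ends_hp`** (half plane form of `PvgjEnds`).
* sec. 5  (v2) the kit lies in the inner lanes `[-1/10, 4/10]`: `PvgjLane 𝔤` (`pvgj_lane_G`, `pvgj_lane_sc`), `pvgj_C_lane`, **`pvgj_Q_lanes`** (disc of an inner door: front half in the lane of the cell in front, back half in the lane of the cell behind).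
* sec. 6  (v2) the index of a pattern (`PvfeDoors`, `PvfeIx`, `16 δ < ρ h`): **`pvgj_back_ix`** (no cell is the cell behind the first door: the first link is straight, the other cells are `> ρ h + 4 δ` from `y⁺(t)`), **`pvgj_rgC_ix`**, **`pvgj_inc_C`**, **`pvgj_inc_Q`**
          (the discs of the first and of the last door lie in the inner mouths: `pvrt_door_t`, `pvrt_door_s` of `Tr/RegT`).
* sec. 7  (v2) AT THE MODEL: `pvgjG c m := pvkgG.sc δ_m` (`pvgj_G_ref`, `pvgj_G_lane`, `pvgj_G_del`, `pvgj_G_plug`, `pvgj_G_gref`), **`pvgj_model`** : `𝔓.Wf → PvfhWf 𝔓 → 16 δ_m < ρ h_m → π ∈ pvxPatSet 𝔓 x R m → PvjmRgC .. ∧ (INC-C)`;   **`pvgj_model_at`** : the same at `pvxParOf N hN c`, `m0 ≤ m` (binders of `exit_pvyy_chain`).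
-/

set_option autoImplicit false

namespace Claimed.Agent.R289

open Set Metric

/-! ## 1. unit coordinates -/

/-- the closed square of centre `c` and half side `r` -/
def pvgjCl (c : ℂ) (r : ℝ) : Set ℂ := {w | pvccN (w - c) ≤ r}

theorem pvgj_eqns_cite : True := by
  have := @pvgjCl.eq_1
  trivial

theorem pvgj_int_zero {m : ℤ} (h1 : (-1 : ℝ) < m) (h2 : (m : ℝ) < 1) : m = 0 := by
  have a1 : (-1 : ℤ) < m := by exact_mod_cast h1
  have a2 : m < 1 := by exact_mod_cast h2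
  omega

theorem pvgj_int_zero_one {m : ℤ} (h1 : (-1 : ℝ) < m) (h2 : (m : ℝ) ≤ 1) : m = 0 ∨ m = 1 := by
  have a1 : (-1 : ℤ) < m := by exact_mod_cast h1
  have a2 : m ≤ 1 := by exact_mod_cast h2
  omega

/-- two half open unit cells with a common point: the same cell, or two cells which face each other through the same door -/
theorem pvgj_two_cells {a b v g : ℂ} (ha : a ∈ pvkxM 1) (hb : b ∈ pvkxM 1) (hv : v ^ 4 = 1) (hg : PvccG g) (e : g = v * (b - 1 / 2) - (a - 1 / 2)) :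
    g = 0 ∨ (v = -1 ∧ g = 1) := by
  obtain ⟨m, n, rfl⟩ := hg
  obtain ⟨a1, a2, a3, a4⟩ := ha
  obtain ⟨b1, b2, b3, b4⟩ := hb
  have hre := congrArg Complex.re e
  have him := congrArg Complex.im e
  rcases pvt_fourth_root hv with rfl | rfl | rfl | rfl
  · left
    simp at hre him
    have hm : m = 0 := pvgj_int_zero (by rw [hre]; linarith) (by rw [hre]; linarith)
    have hn : n = 0 := pvgj_int_zero (by rw [him]; linarith) (by rw [him]; linarith)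
    simp [hm, hn]
  · left
    simp at hre him
    have hm : m = 0 := pvgj_int_zero (by rw [hre]; linarith) (by rw [hre]; linarith)
    have hn : n = 0 := pvgj_int_zero (by rw [him]; linarith) (by rw [him]; linarith)
    simp [hm, hn]
  · simp at hre him
    have hn : n = 0 := pvgj_int_zero (by rw [him]; linarith) (by rw [him]; linarith)
    rcases pvgj_int_zero_one (m := m) (by rw [hre]; linarith) (by rw [hre]; linarith) with hm | hm
    · left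
      simp [hm, hn]
    · right
      exact ⟨rfl, by simp [hm, hn]⟩
  · left
    simp at hre him
    have hm : m = 0 := pvgj_int_zero (by rw [hre]; linarith) (by rw [hre]; linarith)
    have hn : n = 0 := pvgj_int_zero (by rw [him]; linarith) (by rw [him]; linarith)
    simp [hm, hn]


theorem pvgj_unit_ne {u : ℂ} (hu : u ^ 4 = 1) : u ≠ 0 := by
  rintro rfl
  norm_num at hu

theorem pvgj_unit_cube {u : ℂ} (hu : u ^ 4 = 1) : (u ^ 3) ^ 4 = 1 := by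
  rw [← pow_mul, mul_comm, pow_mul, hu, one_pow]

/-- **the half open cells of a cell-simple word are pairwise disjoint** (unit coordinates) -/
theorem pvgj_MM_unit {l : List PvtTurn} {N : ℕ} (h : PvccSimple l N) (hN : N ≤ l.length) {j k : ℕ} (hj : j ≤ N) (hk : k ≤ N) (hjk : j ≠ k) :
    Disjoint (pvccO (pvkxM 1) 0 1 l j) (pvccO (pvkxM 1) 0 1 l k) := by
  rw [Set.disjoint_left]
  rintro w ⟨a, ha, rfl⟩ ⟨b, hb, e⟩
  have hu := pvccD_pow_four (one_pow 4) l j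
  have hu' := pvccD_pow_four (one_pow 4) l k
  set u := pvccD 1 l j with hudef
  set u' := pvccD 1 l k with hu'def
  have e' : pvccZ 0 1 l k + u' * b = pvccZ 0 1 l j + u * a := e
  have hC : pvccC 0 1 l j - pvccC 0 1 l k = u' * (b - 1 / 2) - u * (a - 1 / 2) := by
    unfold pvccC
    rw [← hudef, ← hu'def]
    linear_combination -e'
  have hg : PvccG (u ^ 3 * (pvccC 0 1 l j - pvccC 0 1 l k)) := PvccG.unit_mul (pvgj_unit_cube hu) (pvccC_sub_gauss l j k)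
  have hv : (u ^ 3 * u') ^ 4 = 1 := by rw [mul_pow, pvgj_unit_cube hu, hu', one_mul]
  have e2 : u ^ 3 * (pvccC 0 1 l j - pvccC 0 1 l k) = u ^ 3 * u' * (b - 1 / 2) - (a - 1 / 2) := by
    rw [hC]
    linear_combination (-(a - 1 / 2)) * hu
  rcases pvgj_two_cells ha hb hv hg e2 with h0 | ⟨h1, h2⟩
  · rcases mul_eq_zero.1 h0 with h3 | h3
    · exact pvgj_unit_ne hu (pow_eq_zero_iff (by norm_num) |>.1 h3)
    · exact hjk (h j k hj hk (sub_eq_zero.1 h3))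
  · have hu'u : u' = -u := by linear_combination u * h1 - u' * hu
    have hCu : pvccC 0 1 l j - pvccC 0 1 l k = u := by linear_combination u * h2 - (pvccC 0 1 l j - pvccC 0 1 l k) * hu
    refine h.door_ne hN hj hk hjk ?_
    have : pvccC 0 1 l j - pvccC 0 1 l k = pvccZ 0 1 l j - pvccZ 0 1 l k + u / 2 - u' / 2 := by
      unfold pvccC
      rw [← hudef, ← hu'def]
      ring
    rw [hu'u] at this
    linear_combination hCu - this

/-- the placed closed square -/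
theorem pvgj_pl_cl (z : ℂ) {u : ℂ} (hu : u ^ 4 = 1) (c : ℂ) (r : ℝ) : pvccPl z u (pvgjCl c r) = pvgjCl (z + u * c) r := by
  have hu0 := pvgj_unit_ne hu
  rw [pvccPl_eq_preimage z hu0]
  ext x
  simp only [mem_preimage, pvgjCl, Set.mem_ofPred_eq]
  have e : x - (z + u * c) = u * ((x - z) / u - c) := by field_simp; ring
  rw [e, pvccN_unit_mul hu]

/-- the half open cell lies in the closed cell -/
theorem pvgj_M_cl : pvkxM 1 ⊆ pvgjCl (1 / 2) (1 / 2) := by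
  rintro w ⟨h1, h2, h3, h4⟩
  show max |(w - 1 / 2).re| |(w - 1 / 2).im| ≤ 1 / 2
  have e1 : (w - 1 / 2).re = w.re - 1 / 2 := by simp
  have e2 : (w - 1 / 2).im = w.im := by simp
  rw [e1, e2]
  exact max_le (abs_le.2 ⟨by linarith, by linarith⟩) (abs_le.2 ⟨by linarith, by linarith⟩)

theorem pvgj_M_cl_unit (l : List PvtTurn) (j : ℕ) : pvccO (pvkxM 1) 0 1 l j ⊆ pvgjCl (pvccC 0 1 l j) (1 / 2) := by
  have := pvgj_pl_cl (pvccZ 0 1 l j) (pvccD_pow_four (one_pow 4) l j) (1 / 2) (1 / 2)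
  have e : pvccZ 0 1 l j + pvccD 1 l j * (1 / 2) = pvccC 0 1 l j := by unfold pvccC; ring
  rw [e] at this
  rw [← this]
  exact pvccPl_mono _ _ pvgj_M_cl

/-- the door square lies in the two closed cells of the door -/
theorem pvgj_Q_two (l : List PvtTurn) (j : ℕ) : pvccSq (pvccZ 0 1 l j) (1 / 4) ⊆ pvgjCl (pvccC 0 1 l j) (1 / 2) ∪ pvgjCl (pvccC 0 1 l j - pvccD 1 l j) (1 / 2) := by
  have hu := pvccD_pow_four (one_pow 4) l j
  have h0 : pvccSq (0 : ℂ) (1 / 4) ⊆ pvgjCl (1 / 2) (1 / 2) ∪ pvgjCl (-(1 / 2)) (1 / 2) := by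
    intro w hw
    have hw' : max |(w - 0).re| |(w - 0).im| < 1 / 4 := hw
    rw [sub_zero, max_lt_iff, abs_lt, abs_lt] at hw'
    obtain ⟨⟨h1, h2⟩, h3, h4⟩ := hw'
    rcases le_total 0 w.re with h | h
    · left
      show max |(w - 1 / 2).re| |(w - 1 / 2).im| ≤ 1 / 2
      have e1 : (w - 1 / 2).re = w.re - 1 / 2 := by simp
      have e2 : (w - 1 / 2).im = w.im := by simp
      rw [e1, e2]
      exact max_le (abs_le.2 ⟨by linarith, by linarith⟩) (abs_le.2 ⟨by linarith, by linarith⟩)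
    · right
      show max |(w - -(1 / 2)).re| |(w - -(1 / 2)).im| ≤ 1 / 2
      have e1 : (w - -(1 / 2)).re = w.re + 1 / 2 := by simp
      have e2 : (w - -(1 / 2)).im = w.im := by simp
      rw [e1, e2]
      exact max_le (abs_le.2 ⟨by linarith, by linarith⟩) (abs_le.2 ⟨by linarith, by linarith⟩)
  have h1 := pvccPl_mono (pvccZ 0 1 l j) (pvccD 1 l j) h0
  rw [pvccPl_sq _ hu, mul_zero, add_zero] at h1
  refine h1.trans ?_
  unfold pvccPl
  rw [image_union]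
  have a1 := pvgj_pl_cl (pvccZ 0 1 l j) hu (1 / 2) (1 / 2)
  have a2 := pvgj_pl_cl (pvccZ 0 1 l j) hu (-(1 / 2)) (1 / 2)
  unfold pvccPl at a1 a2
  rw [a1, a2]
  have e1 : pvccZ 0 1 l j + pvccD 1 l j * (1 / 2) = pvccC 0 1 l j := by unfold pvccC; ring
  have e2 : pvccZ 0 1 l j + pvccD 1 l j * -(1 / 2) = pvccC 0 1 l j - pvccD 1 l j := by unfold pvccC; ring
  rw [e1, e2]

/-- **a door square misses every closed cell of the grid but the two cells of the door** -/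
theorem pvgj_Q_cl (l : List PvtTurn) (j : ℕ) {c : ℂ} (hg : PvccG (pvccC 0 1 l j - c)) (h0 : c ≠ pvccC 0 1 l j) (h1 : c ≠ pvccC 0 1 l j - pvccD 1 l j) :
    Disjoint (pvccSq (pvccZ 0 1 l j) (1 / 4)) (pvgjCl c (1 / 2)) := by
  have hu := pvccD_pow_four (one_pow 4) l j
  set u := pvccD 1 l j with hudef
  set g := pvccC 0 1 l j - c with hgdef
  have hu3 := pvgj_unit_cube hu
  have hu0 := pvgj_unit_ne hu
  have hg' : PvccG (u ^ 3 * g) := PvccG.unit_mul hu3 hg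
  have k0 : u ^ 3 * g ≠ 0 := mul_ne_zero (pow_ne_zero 3 hu0) (sub_ne_zero.2 h0.symm)
  have k1 : u ^ 3 * g ≠ 1 := by
    intro e
    apply h1
    have : g = u := by linear_combination u * e - g * hu
    rw [← this, hgdef]
    ring
  have h2 := hg'.one_le_sub_half k0 k1
  have e : u ^ 3 * g - 1 / 2 = u ^ 3 * (pvccZ 0 1 l j - c) := by
    have : pvccC 0 1 l j = pvccZ 0 1 l j + u / 2 := rfl
    rw [hgdef, this]
    linear_combination ((1 : ℂ) / 2) * hu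
  rw [e, pvccN_unit_mul hu3] at h2
  rw [Set.disjoint_left]
  intro w hw hw'
  have a1 : pvccN (w - pvccZ 0 1 l j) < 1 / 4 := hw
  have a2 : pvccN (w - c) ≤ 1 / 2 := hw'
  have a3 : pvccN (pvccZ 0 1 l j - c) ≤ pvccN (-(w - pvccZ 0 1 l j)) + pvccN (w - c) := by
    have := pvccN_add_le (-(w - pvccZ 0 1 l j)) (w - c)
    have e3 : -(w - pvccZ 0 1 l j) + (w - c) = pvccZ 0 1 l j - c := by ring
    rwa [e3] at this
  rw [pvccN_neg] at a3
  linarith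

/-! ## 2. the scale `δ` -/

section scale

variable {δ : ℝ} {d : ℂ}

theorem pvgj_e_ne (hδ : 0 < δ) (hd : d ^ 4 = 1) : (δ : ℂ) * d ≠ 0 := mul_ne_zero (Complex.ofReal_ne_zero.2 hδ.ne') (pvgj_unit_ne hd)

theorem pvgj_N_e (hδ : 0 < δ) (hd : d ^ 4 = 1) (w : ℂ) : pvccN ((δ : ℂ) * d * w) = δ * pvccN w := by
  rw [mul_assoc, pvccN_real_mul hδ.le, pvccN_unit_mul hd]

/-- a closed square, placed at the scale `δ` -/
theorem pvgj_pl_cl_sc (hδ : 0 < δ) (hd : d ^ 4 = 1) (z c : ℂ) (r : ℝ) : pvccPl z ((δ : ℂ) * d) (pvgjCl c r) = pvgjCl (z + (δ : ℂ) * d * c) (δ * r) := by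
  have he := pvgj_e_ne hδ hd
  rw [pvccPl_eq_preimage z he]
  ext x
  simp only [mem_preimage, pvgjCl, Set.mem_ofPred_eq]
  have e : x - (z + (δ : ℂ) * d * c) = (δ : ℂ) * d * ((x - z) / ((δ : ℂ) * d) - c) := by
    rw [mul_sub, mul_div_cancel₀ _ he]; ring
  rw [e, pvgj_N_e hδ hd]
  exact (mul_le_mul_iff_right₀ hδ).symm

/-- an open square, placed at the scale `δ` -/
theorem pvgj_pl_sq_sc (hδ : 0 < δ) (hd : d ^ 4 = 1) (z c : ℂ) (r : ℝ) : pvccPl z ((δ : ℂ) * d) (pvccSq c r) = pvccSq (z + (δ : ℂ) * d * c) (δ * r) := by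
  have he := pvgj_e_ne hδ hd
  rw [pvccPl_eq_preimage z he]
  ext x
  simp only [mem_preimage, pvccSq, Set.mem_ofPred_eq]
  have e : x - (z + (δ : ℂ) * d * c) = (δ : ℂ) * d * ((x - z) / ((δ : ℂ) * d) - c) := by
    rw [mul_sub, mul_div_cancel₀ _ he]; ring
  rw [e, pvgj_N_e hδ hd]
  exact (mul_lt_mul_iff_right₀ hδ).symm

theorem pvgj_M_pre (hδ : 0 < δ) : (fun w : ℂ => (δ : ℂ) * w) ⁻¹' pvkxM δ = pvkxM 1 := by
  ext w
  simp only [mem_preimage, pvkxM, Set.mem_ofPred_eq]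
  have h1 : ((δ : ℂ) * w).re = δ * w.re := by simp
  have h2 : ((δ : ℂ) * w).im = δ * w.im := by simp
  rw [h1, h2]
  constructor
  · rintro ⟨a, b, c, e⟩
    exact ⟨by by_contra hc; nlinarith, by by_contra hc; nlinarith, by by_contra hc; nlinarith, by by_contra hc; nlinarith⟩
  · rintro ⟨a, b, c, e⟩
    exact ⟨by positivity, by nlinarith, by nlinarith, by nlinarith⟩

/-- the mask of the cell `j`, in the names of `Tr/CellChain` -/
theorem pvgj_at_M (hδ : 0 < δ) (z d : ℂ) (l : List PvtTurn) (j : ℕ) : pvkdAt (pvthZ δ z d l j) (pvthD d l j) (pvkxM δ) = pvccO (pvkxM 1) z ((δ : ℂ) * d) l j := by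
  unfold pvccO pvkdAt
  rw [← pvcc_pl_preimage hδ.ne', pvgj_M_pre hδ, pvthZ_eq, pvthD_eq]

/-- **the masks of a cell-simple word are pairwise disjoint** -/
theorem pvgj_MM (hδ : 0 < δ) (hd : d ^ 4 = 1) (z : ℂ) {l : List PvtTurn} {N : ℕ} (h : PvccSimple l N) (hN : N ≤ l.length) {j k : ℕ} (hj : j ≤ N) (hk : k ≤ N) (hjk : j ≠ k) :
    Disjoint (pvkdAt (pvthZ δ z d l j) (pvthD d l j) (pvkxM δ)) (pvkdAt (pvthZ δ z d l k) (pvthD d l k) (pvkxM δ)) := by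
  rw [pvgj_at_M hδ, pvgj_at_M hδ, pvccO_cov _ z, pvccO_cov _ z _ l k]
  exact pvccPl_disjoint z (pvgj_e_ne hδ hd) (pvgj_MM_unit h hN hj hk hjk)

/-- the mask of the cell `j` lies in the closed cell -/
theorem pvgj_M_sub (hδ : 0 < δ) (hd : d ^ 4 = 1) (z : ℂ) (l : List PvtTurn) (j : ℕ) :
    pvkdAt (pvthZ δ z d l j) (pvthD d l j) (pvkxM δ) ⊆ pvgjCl (pvccC z ((δ : ℂ) * d) l j) (δ / 2) := by
  rw [pvgj_at_M hδ, pvccO_cov _ z, pvccC_cov, show δ / 2 = δ * (1 / 2) by ring, ← pvgj_pl_cl_sc hδ hd]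
  exact pvccPl_mono _ _ (pvgj_M_cl_unit l j)

theorem pvgj_N_le_norm (w : ℂ) : pvccN w ≤ ‖w‖ := max_le (Complex.abs_re_le_norm w) (Complex.abs_im_le_norm w)

/-- the door disc lies in the door square -/
theorem pvgj_ball_sq {b : ℝ} (hb : b ≤ δ / 4) (c : ℂ) : ball c b ⊆ pvccSq c (δ / 4) := by
  intro w hw
  rw [mem_ball, Complex.dist_eq] at hw
  exact lt_of_le_of_lt (pvgj_N_le_norm _) (lt_of_lt_of_le hw hb)

theorem pvgj_cball_cl (c : ℂ) (r : ℝ) : closedBall c r ⊆ pvgjCl c r := by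
  intro w hw
  rw [mem_closedBall, Complex.dist_eq] at hw
  exact (pvgj_N_le_norm _).trans hw

/-- the door square at the scale `δ` -/
theorem pvgj_sq_cov (hδ : 0 < δ) (hd : d ^ 4 = 1) (z : ℂ) (l : List PvtTurn) (j : ℕ) :
    pvccSq (pvthZ δ z d l j) (δ / 4) = pvccPl z ((δ : ℂ) * d) (pvccSq (pvccZ 0 1 l j) (1 / 4)) := by
  rw [pvgj_pl_sq_sc hδ hd, ← pvccZ_cov, pvthZ_eq, show δ / 4 = δ * (1 / 4) by ring]

/-- **the door squares of a cell-simple word are pairwise disjoint** -/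
theorem pvgj_QQ (hδ : 0 < δ) (hd : d ^ 4 = 1) (z : ℂ) {l : List PvtTurn} {N : ℕ} (h : PvccSimple l N) (hN : N ≤ l.length) {j k : ℕ} (hj : j ≤ N) (hk : k ≤ N) (hjk : j ≠ k) :
    Disjoint (pvccSq (pvthZ δ z d l j) (δ / 4)) (pvccSq (pvthZ δ z d l k) (δ / 4)) := by
  rw [pvgj_sq_cov hδ hd, pvgj_sq_cov hδ hd]
  refine pvccPl_disjoint z (pvgj_e_ne hδ hd) (pvcc_sq_disjoint ?_)
  have hne := h.door_ne hN hj hk hjk
  have hg : PvccG (2 * (pvccZ 0 1 l j - pvccZ 0 1 l k)) := by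
    have h1 := pvccC_sub_gauss l j k
    have h2 := (PvccG.unit (pvccD_pow_four (one_pow 4) l j)).sub (PvccG.unit (pvccD_pow_four (one_pow 4) l k))
    have h3 := (h1.add h1).sub h2
    convert h3 using 1
    unfold pvccC; ring
  have h1 := hg.one_le (mul_ne_zero two_ne_zero (sub_ne_zero.2 hne))
  rw [pvccN_two_mul] at h1
  linarith

/-- the door square lies in the two closed cells of the door -/
theorem pvgj_sq_two (hδ : 0 < δ) (hd : d ^ 4 = 1) (z : ℂ) (l : List PvtTurn) (j : ℕ) :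
    pvccSq (pvthZ δ z d l j) (δ / 4) ⊆ pvgjCl (pvccC z ((δ : ℂ) * d) l j) (δ / 2) ∪ pvgjCl (pvccC z ((δ : ℂ) * d) l j - pvccD ((δ : ℂ) * d) l j) (δ / 2) := by
  rw [pvgj_sq_cov hδ hd]
  refine (pvccPl_mono _ _ (pvgj_Q_two l j)).trans ?_
  have e : pvccC z ((δ : ℂ) * d) l j - pvccD ((δ : ℂ) * d) l j = z + (δ : ℂ) * d * (pvccC 0 1 l j - pvccD 1 l j) := by
    rw [pvccC_cov, pvccD_cov]; ring
  rw [e, pvccC_cov z, show δ / 2 = δ * (1 / 2) by ring, ← pvgj_pl_cl_sc hδ hd, ← pvgj_pl_cl_sc hδ hd]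
  unfold pvccPl
  rw [image_union]

/-- **a door square misses every closed cell of the grid but the two cells of the door** -/
theorem pvgj_sq_cl (hδ : 0 < δ) (hd : d ^ 4 = 1) (z : ℂ) (l : List PvtTurn) (j : ℕ) {c : ℂ} (hg : PvccG (pvccC 0 1 l j - c)) (h0 : c ≠ pvccC 0 1 l j) (h1 : c ≠ pvccC 0 1 l j - pvccD 1 l j) :
    Disjoint (pvccSq (pvthZ δ z d l j) (δ / 4)) (pvgjCl (z + (δ : ℂ) * d * c) (δ / 2)) := by
  rw [pvgj_sq_cov hδ hd, show δ / 2 = δ * (1 / 2) by ring, ← pvgj_pl_cl_sc hδ hd]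
  exact pvccPl_disjoint z (pvgj_e_ne hδ hd) (pvgj_Q_cl l j hg h0 h1)

end scale

/-! ## 3. the regions of an open chain -/

section chain

/-- the mask of the cell `j` of the word -/
noncomputable def pvgjM (𝔤 : PvkdGeo) (z d : ℂ) (l : List PvtTurn) (j : ℕ) : Set ℂ := pvkdAt (pvthZ 𝔤.δ z d l j) (pvthD d l j) (pvkxM 𝔤.δ)

theorem pvgj_eqns_cite2 : True := by
  have := @pvgjM.eq_1
  trivial

/-- **THE TWO END ROOMS OF AN OPEN CHAIN** (all which `PvjmRg` asks and which is not a property of the word) -/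
structure PvgjEnds (𝔤 : PvkdGeo) (z d : ℂ) (l : List PvtTurn) (Yo Yi P₀ P₁ : Set ℂ) : Prop where
  /-- no cell of the word is the cell behind the first door -/
  back : ∀ k, k < l.length → pvccC 0 1 l k ≠ -(1 / 2)
  YoM : ∀ k, k < l.length → Disjoint Yo (pvgjM 𝔤 z d l k)
  YiM : ∀ k, k < l.length → Disjoint Yi (pvgjM 𝔤 z d l k)
  YoYi : Disjoint Yo Yi
  YoQ : 0 < l.length → Disjoint Yo (ball (pvthZ 𝔤.δ z d l l.length) 𝔤.b)
  YiQ : 0 < l.length → Disjoint Yi (ball (pvthZ 𝔤.δ z d l 0) 𝔤.b)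
  Yo_zp : Disjoint (pvkdAt (pvthZ 𝔤.δ z d l 0) (pvthD d l 0) 𝔤.Zp) Yo
  Yi_zm : Disjoint (pvkdAt (pvthZ 𝔤.δ z d l l.length) (pvthD d l l.length) 𝔤.Zm) Yi
  P₀Yo : P₀ ⊆ Yo
  P₁Yi : P₁ ⊆ Yi
  P₀Q : Disjoint P₀ (ball (pvthZ 𝔤.δ z d l 0) 𝔤.b)
  P₁Q : Disjoint P₁ (ball (pvthZ 𝔤.δ z d l l.length) 𝔤.b)

variable {𝔤 : PvkdGeo} {z d : ℂ} {l : List PvtTurn} {Yo Yi P₀ P₁ : Set ℂ}

theorem pvgj_back_unit (l : List PvtTurn) : pvccC 0 1 l 0 - pvccD 1 l 0 = -(1 / 2) := by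
  simp [pvccC, pvccZ, pvccD, pvtDisp]
  norm_num

theorem pvgj_prev_unit (l : List PvtTurn) {j : ℕ} (hj : j < l.length) : pvccC 0 1 l (j + 1) - pvccD 1 l (j + 1) = pvccC 0 1 l j := by
  rw [← pvccC_prev 0 1 l hj]
  unfold pvccC
  ring

/-- **the disc of the door `j + 1` lies in the masks of the cells `j`, `j + 1`** -/
theorem pvgj_Q_MM (R : PvkxRef 𝔤) (z : ℂ) (hd : d ^ 4 = 1) (l : List PvtTurn) {j : ℕ} (hj : j < l.length) :
    ball (pvthZ 𝔤.δ z d l (j + 1)) 𝔤.b ⊆ pvgjM 𝔤 z d l j ∪ pvgjM 𝔤 z d l (j + 1) := by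
  intro p hp
  by_cases h : p ∈ pvilHp (pvthZ 𝔤.δ z d l (j + 1)) (pvthD d l (j + 1))
  · right
    have := (pvuk_Qf R z hd l (j + 1) hp).2 h
    rwa [R.Mk] at this
  · left
    have := (pvuk_Qb R z hd l hj hp).2 h
    rwa [R.Mk] at this

/-- **the disc of a door misses the masks of all the cells but the two cells of the door** -/
theorem pvgj_Q_M (R : PvkxRef 𝔤) (z : ℂ) (hd : d ^ 4 = 1) (hs : PvccSimple l l.length) (hb : ∀ k, k < l.length → pvccC 0 1 l k ≠ -(1 / 2)) {j k : ℕ} (hj : j ≤ l.length) (hk : k < l.length)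
    (h1 : k ≠ j) (h2 : k + 1 ≠ j) : Disjoint (ball (pvthZ 𝔤.δ z d l j) 𝔤.b) (pvgjM 𝔤 z d l k) := by
  refine Disjoint.mono (pvgj_ball_sq R.b4 _) (pvgj_M_sub R.δ0 hd z l k) ?_
  rw [pvccC_cov]
  refine pvgj_sq_cl R.δ0 hd z l j (pvccC_sub_gauss l j k) (fun e => h1 (hs k j hk.le hj e)) ?_
  rcases Nat.eq_zero_or_pos j with rfl | h0
  · rw [pvgj_back_unit]
    exact hb k hk
  · obtain ⟨i, rfl⟩ : ∃ i, j = i + 1 := ⟨j - 1, by omega⟩
    rw [pvgj_prev_unit l (by omega)]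
    exact fun e => h2 (by rw [hs k i hk.le (by omega) e])

theorem pvgj_Yo_Q (R : PvkxRef 𝔤) (hd : d ^ 4 = 1) (E : PvgjEnds 𝔤 z d l Yo Yi P₀ P₁) {j : ℕ} (h0 : 0 < j) (hj : j ≤ l.length) : Disjoint Yo (ball (pvthZ 𝔤.δ z d l j) 𝔤.b) := by
  rcases Nat.lt_or_ge j l.length with h | h
  · obtain ⟨i, rfl⟩ : ∃ i, j = i + 1 := ⟨j - 1, by omega⟩
    exact Disjoint.mono_right (pvgj_Q_MM R z hd l (by omega)) (Disjoint.union_right (E.YoM i (by omega)) (E.YoM (i + 1) h))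
  · obtain rfl : j = l.length := by omega
    exact E.YoQ h0

theorem pvgj_Yi_Q (R : PvkxRef 𝔤) (hd : d ^ 4 = 1) (E : PvgjEnds 𝔤 z d l Yo Yi P₀ P₁) {j : ℕ} (hj : j < l.length) : Disjoint Yi (ball (pvthZ 𝔤.δ z d l j) 𝔤.b) := by
  rcases Nat.eq_zero_or_pos j with rfl | h0
  · exact E.YiQ hj
  · obtain ⟨i, rfl⟩ : ∃ i, j = i + 1 := ⟨j - 1, by omega⟩
    exact Disjoint.mono_right (pvgj_Q_MM R z hd l (by omega)) (Disjoint.union_right (E.YiM i (by omega)) (E.YiM (i + 1) hj))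

/-- the room of the cell `i` lies in its mask -/
theorem pvgj_C_sub (R : PvkxRef 𝔤) (z d : ℂ) (l : List PvtTurn) (i : ℕ) : pvjmC 𝔤 z d l i ⊆ pvgjM 𝔤 z d l i := pvkx_at_mono _ _ (R.Co _)

/-- **THE REGIONS OF THE CELLS AND OF THE DOORS OF A CELL-SIMPLE WORD** (`PvjmRgC` of 268); `hb` : no cell of the word is the cell behind the first door -/
theorem pvgj_rgC (R : PvkxRef 𝔤) (hd : d ^ 4 = 1) (z : ℂ) (hs : PvccSimple l l.length) (hb : ∀ k, k < l.length → pvccC 0 1 l k ≠ -(1 / 2)) : PvjmRgC 𝔤 z d l where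
  zz := R.ZZ
  CC := fun i j hi hj hij => Disjoint.mono (pvgj_C_sub R z d l i) (pvgj_C_sub R z d l j) (pvgj_MM R.δ0 hd z hs le_rfl hi.le hj.le hij)
  QQ := fun i j hi hj hij => Disjoint.mono (pvgj_ball_sq R.b4 _) (pvgj_ball_sq R.b4 _) (pvgj_QQ R.δ0 hd z hs le_rfl hi hj hij)
  QC := fun j i hj hi h1 h2 => Disjoint.mono_right (pvgj_C_sub R z d l i) (pvgj_Q_M R z hd hs hb hj hi h1.symm h2.symm)
  zm := fun j _ => pvkx_at_disj (pvthD_ne_zero (pvgj_unit_ne hd) l j) (R.Zm _)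
  zp := fun k hk => by
    obtain ⟨e1, e2⟩ := pvjm_exit 𝔤 z d l hk
    rw [← e1, ← e2]
    show Disjoint (pvkdAt (pvthZ 𝔤.δ z d l k + pvthD d l k * (𝔤.δ * (pvthL l k).mid)) (pvthD d l k * (pvthL l k).rot) 𝔤.Zp) _
    rw [← pvkx_at_at]
    exact pvkx_at_disj (pvthD_ne_zero (pvgj_unit_ne hd) l k) (R.Zp _)

/-- **THE REGIONS OF THE TWO END LINKS** (`PvjmRgE` of 268) from the short list `PvgjEnds` -/
theorem pvgj_rgE (R : PvkxRef 𝔤) (hd : d ^ 4 = 1) (E : PvgjEnds 𝔤 z d l Yo Yi P₀ P₁) : PvjmRgE 𝔤 z d l Yo Yi P₀ P₁ where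
  oi := E.YoYi
  oC := fun i hi => Disjoint.mono_right (pvgj_C_sub R z d l i) (E.YoM i hi)
  iC := fun i hi => Disjoint.mono_right (pvgj_C_sub R z d l i) (E.YiM i hi)
  oQ := fun j h0 hj => (pvgj_Yo_Q R hd E h0 hj).symm
  iQ := fun j hj => (pvgj_Yi_Q R hd E hj).symm
  zp := E.Yo_zp
  zm := E.Yi_zm
  P₀Q := fun j hj => by
    rcases Nat.eq_zero_or_pos j with rfl | h0
    · exact E.P₀Q
    · exact Disjoint.mono_left E.P₀Yo (pvgj_Yo_Q R hd E h0 hj)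
  P₁Q := fun j hj => by
    rcases Nat.lt_or_ge j l.length with h | h
    · exact Disjoint.mono_left E.P₁Yi (pvgj_Yi_Q R hd E h)
    · obtain rfl : j = l.length := by omega
      exact E.P₁Q
  P₁o := (Disjoint.mono_right E.P₁Yi E.YoYi).symm
  P₁C := fun i hi => Disjoint.mono E.P₁Yi (pvgj_C_sub R z d l i) (E.YiM i hi)

/-- **THE REGIONS OF AN OPEN CHAIN**: a cell-simple word + the two end rooms -/
theorem pvgj_rg (R : PvkxRef 𝔤) (hd : d ^ 4 = 1) (hs : PvccSimple l l.length) (E : PvgjEnds 𝔤 z d l Yo Yi P₀ P₁) : PvjmRg 𝔤 z d l Yo Yi P₀ P₁ :=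
  pvjm_rg_mk (pvgj_rgC R hd z hs E.back) (pvgj_rgE R hd E)

/-! ## 4. tools for the two end rooms -/

open scoped ComplexConjugate

/-- a closed square lies in the closed disc of twice its half side -/
theorem pvgj_cl_cball (c : ℂ) (r : ℝ) : pvgjCl c r ⊆ closedBall c (2 * r) := by
  intro w hw
  rw [mem_closedBall, Complex.dist_eq]
  have h1 : |(w - c).re| ≤ r := (le_max_left _ _).trans hw
  have h2 : |(w - c).im| ≤ r := (le_max_right _ _).trans hw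
  have := Complex.norm_le_abs_re_add_abs_im (w - c)
  linarith

/-- the mask of a cell lies in the closed cell -/
theorem pvgj_M_cl_sub (R : PvkxRef 𝔤) (hd : d ^ 4 = 1) (z : ℂ) (l : List PvtTurn) (k : ℕ) : pvgjM 𝔤 z d l k ⊆ pvgjCl (pvccC z ((𝔤.δ : ℂ) * d) l k) (𝔤.δ / 2) :=
  pvgj_M_sub R.δ0 hd z l k

/-- the mask of a cell lies in the closed disc of radius `δ` round its centre -/
theorem pvgj_M_cball (R : PvkxRef 𝔤) (hd : d ^ 4 = 1) (z : ℂ) (l : List PvtTurn) (k : ℕ) : pvgjM 𝔤 z d l k ⊆ closedBall (pvccC z ((𝔤.δ : ℂ) * d) l k) 𝔤.δ := by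
  refine (pvgj_M_cl_sub R hd z l k).trans ((pvgj_cl_cball _ _).trans ?_)
  rw [show 2 * (𝔤.δ / 2) = 𝔤.δ by ring]

/-- the open cell lies in the mask -/
theorem pvgj_sq_M (R : PvkxRef 𝔤) (hd : d ^ 4 = 1) (z : ℂ) (l : List PvtTurn) (k : ℕ) : pvccSq (pvccC z ((𝔤.δ : ℂ) * d) l k) (𝔤.δ / 2) ⊆ pvgjM 𝔤 z d l k := by
  have h0 : pvccSq (1 / 2 : ℂ) (1 / 2) ⊆ pvkxM 1 := by
    intro w hw
    have hw' : max |(w - 1 / 2).re| |(w - 1 / 2).im| < 1 / 2 := hw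
    have e1 : (w - 1 / 2).re = w.re - 1 / 2 := by simp
    have e2 : (w - 1 / 2).im = w.im := by simp
    rw [e1, e2, max_lt_iff, abs_lt, abs_lt] at hw'
    obtain ⟨⟨h1, h2⟩, h3, h4⟩ := hw'
    exact ⟨by linarith, by linarith, by linarith, by linarith⟩
  have h1 : pvccSq (pvccC 0 1 l k) (1 / 2) ⊆ pvccO (pvkxM 1) 0 1 l k := by
    have := pvccPl_sq (pvccZ 0 1 l k) (pvccD_pow_four (one_pow 4) l k) (1 / 2) (1 / 2)
    have e : pvccZ 0 1 l k + pvccD 1 l k * (1 / 2) = pvccC 0 1 l k := by unfold pvccC; ring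
    rw [e] at this
    rw [← this]
    exact pvccPl_mono _ _ h0
  unfold pvgjM
  rw [pvgj_at_M R.δ0, pvccO_cov _ z, pvccC_cov, show 𝔤.δ / 2 = 𝔤.δ * (1 / 2) by ring, ← pvgj_pl_sq_sc R.δ0 hd]
  exact pvccPl_mono _ _ h1

/-- **`back` FROM ONE POINT**: a set which misses the masks and meets the open cell behind the first door -/
theorem pvgj_back_of_mem (R : PvkxRef 𝔤) (hd : d ^ 4 = 1) {Y : Set ℂ} (hY : ∀ k, k < l.length → Disjoint Y (pvgjM 𝔤 z d l k)) {w : ℂ} (hw : w ∈ Y)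
    (hw' : w ∈ pvccSq (z - (𝔤.δ : ℂ) * d / 2) (𝔤.δ / 2)) : ∀ k, k < l.length → pvccC 0 1 l k ≠ -(1 / 2) := by
  intro k hk e
  refine Set.disjoint_left.1 (hY k hk) hw (pvgj_sq_M R hd z l k ?_)
  rw [pvccC_cov, e]
  have e2 : z + (𝔤.δ : ℂ) * d * -(1 / 2) = z - (𝔤.δ : ℂ) * d / 2 := by ring
  rw [e2]
  exact hw'

theorem pvgj_conj_unit {d : ℂ} (hd : ‖d‖ = 1) : d * conj d = 1 := by
  rw [Complex.mul_conj, Complex.normSq_eq_norm_sq, hd]; norm_num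

/-- the half plane in front of a door, in the frame of the door -/
theorem pvgj_hp_mem {z d : ℂ} (hd : ‖d‖ = 1) (u : ℂ) : pvthSim z d u ∈ pvilHp z d ↔ 0 ≤ u.re := by
  show 0 ≤ ((z + d * u - z) * conj d).re ↔ _
  have : (z + d * u - z) * conj d = u := by linear_combination u * pvgj_conj_unit hd
  rw [this]

theorem pvgj_D_norm (hd : d ^ 4 = 1) (l : List PvtTurn) (j : ℕ) : ‖pvthD d l j‖ = 1 := pvth_norm_of_pow (pvtDir_pow_four d hd _)

/-- the mask of a cell lies in front of its entrance door -/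
theorem pvgj_M_front (hd : d ^ 4 = 1) (𝔤 : PvkdGeo) (z : ℂ) (l : List PvtTurn) (j : ℕ) : pvgjM 𝔤 z d l j ⊆ pvilHp (pvthZ 𝔤.δ z d l j) (pvthD d l j) := by
  rintro _ ⟨u, hu, rfl⟩
  exact (pvgj_hp_mem (pvgj_D_norm hd l j) u).2 hu.1

/-- the mask of a cell lies behind its exit door -/
theorem pvgj_M_behind (hd : d ^ 4 = 1) (𝔤 : PvkdGeo) (z : ℂ) (l : List PvtTurn) {j : ℕ} (hj : j < l.length) :
    Disjoint (pvgjM 𝔤 z d l j) (pvilHp (pvthZ 𝔤.δ z d l (j + 1)) (pvthD d l (j + 1))) := by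
  obtain ⟨e1, e2⟩ := pvjm_exit 𝔤 z d l hj
  rw [Set.disjoint_left, ← e1, ← e2]
  rintro _ ⟨u, ⟨u1, u2, u3, u4⟩, rfl⟩ hc
  have hn := pvgj_conj_unit (pvgj_D_norm hd l j)
  set D := pvthD d l j with hD
  set Z := pvthZ 𝔤.δ z d l j with hZ
  have hc' : 0 ≤ ((Z + D * u - (Z + D * (𝔤.δ * (pvthL l j).mid))) * conj (D * (pvthL l j).rot)).re := hc
  have e : (Z + D * u - (Z + D * (𝔤.δ * (pvthL l j).mid))) * conj (D * (pvthL l j).rot) = (u - 𝔤.δ * (pvthL l j).mid) * conj (pvthL l j).rot := by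
    rw [map_mul]
    linear_combination ((u - 𝔤.δ * (pvthL l j).mid) * conj (pvthL l j).rot) * hn
  rw [e] at hc'
  clear e hc e1 e2
  generalize pvthL l j = τ at hc'
  cases τ
  · have r : ((u - (𝔤.δ : ℂ) * PvtTurn.S.mid) * conj PvtTurn.S.rot).re = u.re - 𝔤.δ := by simp [PvtTurn.mid, PvtTurn.rot]
    rw [r] at hc'
    linarith
  · have r : ((u - (𝔤.δ : ℂ) * PvtTurn.L.mid) * conj PvtTurn.L.rot).re = u.im - 𝔤.δ / 2 := by simp [PvtTurn.mid, PvtTurn.rot]; ring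
    rw [r] at hc'
    linarith
  · have r : ((u - (𝔤.δ : ℂ) * PvtTurn.R.mid) * conj PvtTurn.R.rot).re = -(u.im + 𝔤.δ / 2) := by simp [PvtTurn.mid, PvtTurn.rot]; ring
    rw [r] at hc'
    linarith

/-- **the two rooms of the ends of a gate lie on the two sides of the door line** -/
structure PvgjRef (𝔭 : PvkdPlug) : Prop where
  Zp : ∀ w ∈ 𝔭.Zp, 0 ≤ w.re
  Zm : ∀ w ∈ 𝔭.Zm, w.re < 0

theorem pvgj_ref_P {r : ℝ} (hr : 0 < r) : PvgjRef (pvkdP r) where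
  Zp := fun w hw => by
    have : r / 2 ≤ w.re := hw.1
    linarith
  Zm := fun w hw => by
    have : w.re ≤ -(r / 2) := hw.2.1
    linarith

theorem pvgj_ref_sc {𝔭 : PvkdPlug} (h : PvgjRef 𝔭) {s : ℝ} (hs : 0 < s) : PvgjRef (𝔭.sc s) where
  Zp := by
    rintro _ ⟨u, hu, rfl⟩
    have := h.Zp u hu
    simp only [vorSim, add_zero, Complex.re_ofReal_mul]
    positivity
  Zm := by
    rintro _ ⟨u, hu, rfl⟩
    have := h.Zm u hu
    simp only [vorSim, add_zero, Complex.re_ofReal_mul]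
    nlinarith

/-- the placed room of `g⁺` lies in front of the door -/
theorem pvgj_zp_hp {𝔭 : PvkdPlug} (h : PvgjRef 𝔭) {z d : ℂ} (hd : ‖d‖ = 1) : pvkdAt z d 𝔭.Zp ⊆ pvilHp z d := by
  rintro _ ⟨u, hu, rfl⟩
  exact (pvgj_hp_mem hd u).2 (h.Zp u hu)

/-- the placed room of `g⁻` lies behind the door -/
theorem pvgj_zm_hp {𝔭 : PvkdPlug} (h : PvgjRef 𝔭) {z d : ℂ} (hd : ‖d‖ = 1) : Disjoint (pvkdAt z d 𝔭.Zm) (pvilHp z d) := by
  rw [Set.disjoint_left]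
  rintro _ ⟨u, hu, rfl⟩ hc
  have := (pvgj_hp_mem hd u).1 hc
  linarith [h.Zm u hu]

/-- **THE TWO END ROOMS, HALF PLANE FORM**: `Yo` behind the first door, `Yi` in front of the last door; the cells `0` (for `Yo`) and `len - 1` (for `Yi`) and the two rooms of the gate ends are then free -/
theorem pvgj_ends_hp (hd : d ^ 4 = 1) (hr : PvgjRef 𝔤.toPvkdPlug)
    (back : ∀ k, k < l.length → pvccC 0 1 l k ≠ -(1 / 2))
    (Yo_hp : Disjoint Yo (pvilHp (pvthZ 𝔤.δ z d l 0) (pvthD d l 0))) (Yi_hp : Yi ⊆ pvilHp (pvthZ 𝔤.δ z d l l.length) (pvthD d l l.length))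
    (YoM : ∀ k, 0 < k → k < l.length → Disjoint Yo (pvgjM 𝔤 z d l k)) (YiM : ∀ k, k + 1 < l.length → Disjoint Yi (pvgjM 𝔤 z d l k)) (YoYi : Disjoint Yo Yi)
    (YoQ : 0 < l.length → Disjoint Yo (ball (pvthZ 𝔤.δ z d l l.length) 𝔤.b)) (YiQ : 0 < l.length → Disjoint Yi (ball (pvthZ 𝔤.δ z d l 0) 𝔤.b))
    (P₀Yo : P₀ ⊆ Yo) (P₁Yi : P₁ ⊆ Yi) (P₀Q : Disjoint P₀ (ball (pvthZ 𝔤.δ z d l 0) 𝔤.b)) (P₁Q : Disjoint P₁ (ball (pvthZ 𝔤.δ z d l l.length) 𝔤.b)) :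
    PvgjEnds 𝔤 z d l Yo Yi P₀ P₁ where
  back := back
  YoM := fun k hk => by
    rcases Nat.eq_zero_or_pos k with rfl | h0
    · exact Disjoint.mono_right (pvgj_M_front hd 𝔤 z l 0) Yo_hp
    · exact YoM k h0 hk
  YiM := fun k hk => by
    rcases Nat.lt_or_ge (k + 1) l.length with h | h
    · exact YiM k h
    · have e : l.length = k + 1 := by omega
      rw [e] at Yi_hp
      exact (Disjoint.mono_right Yi_hp (pvgj_M_behind hd 𝔤 z l hk)).symm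
  YoYi := YoYi
  YoQ := YoQ
  YiQ := YiQ
  Yo_zp := (Disjoint.mono_right (pvgj_zp_hp hr (pvgj_D_norm hd l 0)) Yo_hp).symm
  Yi_zm := Disjoint.mono_right Yi_hp (pvgj_zm_hp hr (pvgj_D_norm hd l l.length))
  P₀Yo := P₀Yo
  P₁Yi := P₁Yi
  P₀Q := P₀Q
  P₁Q := P₁Q

end chain

/-! ## 5. the kit lies in the inner lanes -/

/-- the front half of a door square lies in the inner lane of the cell in front of the door -/
theorem pvgj_lane_front (τ : PvtTurn) {u : ℂ} (h0 : 0 ≤ u.re) (hn : pvccN u ≤ 1 / 10) : u ∈ pvfeLane (-(1 / 10)) (4 / 10) τ := by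
  have h1 : |u.re| ≤ 1 / 10 := (le_max_left _ _).trans hn
  have h2 : |u.im| ≤ 1 / 10 := (le_max_right _ _).trans hn
  rw [abs_le] at h1 h2
  cases τ
  · exact ⟨h0, by linarith, by linarith, by linarith⟩
  · exact Or.inl ⟨h0, by linarith, by linarith, by linarith⟩
  · exact Or.inl ⟨h0, by linarith, by linarith, by linarith⟩

/-- the back half of the square of the exit door lies in the inner lane of the cell -/
theorem pvgj_lane_back (τ : PvtTurn) {u : ℂ} (h0 : u.re ≤ 0) (hn : pvccN u ≤ 1 / 10) : τ.mid + τ.rot * u ∈ pvfeLane (-(1 / 10)) (4 / 10) τ := by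
  have h1 : |u.re| ≤ 1 / 10 := (le_max_left _ _).trans hn
  have h2 : |u.im| ≤ 1 / 10 := (le_max_right _ _).trans hn
  rw [abs_le] at h1 h2
  cases τ
  · have e1 : (PvtTurn.S.mid + PvtTurn.S.rot * u).re = 1 + u.re := by simp [PvtTurn.mid, PvtTurn.rot]
    have e2 : (PvtTurn.S.mid + PvtTurn.S.rot * u).im = u.im := by simp [PvtTurn.mid, PvtTurn.rot]
    show 0 ≤ _ ∧ _ ≤ 1 ∧ _ ≤ _ ∧ _ ≤ _
    rw [e1, e2]
    exact ⟨by linarith, by linarith, by linarith, by linarith⟩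
  · have e1 : (PvtTurn.L.mid + PvtTurn.L.rot * u).re = 1 / 2 - u.im := by simp [PvtTurn.mid, PvtTurn.rot]; ring
    have e2 : (PvtTurn.L.mid + PvtTurn.L.rot * u).im = 1 / 2 + u.re := by simp [PvtTurn.mid, PvtTurn.rot]
    refine Or.inr ?_
    rw [e1, e2]
    exact ⟨by linarith, by linarith, by linarith, by linarith⟩
  · have e1 : (PvtTurn.R.mid + PvtTurn.R.rot * u).re = 1 / 2 + u.im := by simp [PvtTurn.mid, PvtTurn.rot]
    have e2 : (PvtTurn.R.mid + PvtTurn.R.rot * u).im = -(1 / 2) - u.re := by simp [PvtTurn.mid, PvtTurn.rot]; ring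
    refine Or.inr ?_
    rw [e1, e2]
    exact ⟨by linarith, by linarith, by linarith, by linarith⟩

/-- **THE KIT LIES IN THE INNER LANES** `[-1/10, 4/10]` of `Defs/FitReg` -/
structure PvgjLane (𝔤 : PvkdGeo) : Prop where
  Co : ∀ τ, (fun w : ℂ => (𝔤.δ : ℂ) * w) ⁻¹' 𝔤.Co τ ⊆ pvfeLane (-(1 / 10)) (4 / 10) τ
  b : 𝔤.b ≤ 𝔤.δ / 10

theorem pvgj_lane_G : PvgjLane pvkgG where
  Co := fun τ w hw => by
    have e : ((pvkgG.δ : ℝ) : ℂ) * w = w := by simp [pvkgG]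
    have hw' : ((pvkgG.δ : ℝ) : ℂ) * w ∈ pvkgG.Co τ := hw
    rw [e] at hw'
    exact pvkgg_lane_Co τ hw'
  b := by
    show (2 * (1 / 40) : ℝ) ≤ 1 / 10
    norm_num

theorem pvgj_lane_sc {𝔤 : PvkdGeo} (h : PvgjLane 𝔤) {s : ℝ} (hs : 0 < s) : PvgjLane (𝔤.sc s) where
  Co := fun τ w hw => by
    have hw' : (((s * 𝔤.δ : ℝ) : ℂ)) * w ∈ pvdilS s (𝔤.Co τ) := hw
    have e : (((s * 𝔤.δ : ℝ) : ℂ)) * w = (s : ℂ) * ((𝔤.δ : ℂ) * w) := by push_cast; ring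
    rw [e, pvdil_mem_S hs] at hw'
    exact h.Co τ hw'
  b := by
    show s * 𝔤.b ≤ s * 𝔤.δ / 10
    have := mul_le_mul_of_nonneg_left h.b hs.le
    linarith

section lanes

variable {𝔤 : PvkdGeo} {d : ℂ}

/-- the room of the cell `i` lies in the inner lane of the cell -/
theorem pvgj_C_lane (L : PvgjLane 𝔤) (hδ : 0 < 𝔤.δ) (z d : ℂ) (l : List PvtTurn) (i : ℕ) : pvjmC 𝔤 z d l i ⊆ pvccK (pvfeLane (-(1 / 10)) (4 / 10)) z ((𝔤.δ : ℂ) * d) l i := by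
  unfold pvjmC pvkdAt pvccK
  rw [← pvcc_pl_preimage hδ.ne', pvthZ_eq, pvthD_eq]
  exact pvccPl_mono _ _ (L.Co _)

theorem pvgj_K_lanes (a b : ℝ) (z e : ℂ) (l : List PvtTurn) {i : ℕ} (hi : i < l.length) : pvccK (pvfeLane a b) z e l i ⊆ pvfeLanes a b z e l :=
  fun _ hw => mem_iUnion₂.2 ⟨i, Finset.mem_range.2 hi, hw⟩

/-- the point `p` of the disc of the door `j`, in the frame of the door -/
theorem pvgj_Q_frame (L : PvgjLane 𝔤) (hδ : 0 < 𝔤.δ) (hd : d ^ 4 = 1) (z : ℂ) (l : List PvtTurn) (j : ℕ) {p : ℂ} (hp : p ∈ ball (pvthZ 𝔤.δ z d l j) 𝔤.b) :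
    ∃ u : ℂ, pvccN u ≤ 1 / 10 ∧ p = pvccZ z ((𝔤.δ : ℂ) * d) l j + pvccD ((𝔤.δ : ℂ) * d) l j * u := by
  have hn : ‖pvccD ((𝔤.δ : ℂ) * d) l j‖ = 𝔤.δ := by
    rw [pvfe_norm_frame, norm_mul, pvth_norm_of_pow hd, mul_one, Complex.norm_real, Real.norm_eq_abs, abs_of_pos hδ]
  have h0 : pvccD ((𝔤.δ : ℂ) * d) l j ≠ 0 := by
    rw [← norm_ne_zero_iff, hn]; exact hδ.ne'
  rw [pvthZ_eq, mem_ball, Complex.dist_eq] at hp
  refine ⟨(p - pvccZ z ((𝔤.δ : ℂ) * d) l j) / pvccD ((𝔤.δ : ℂ) * d) l j, (pvgj_N_le_norm _).trans ?_, by rw [mul_div_cancel₀ _ h0]; ring⟩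
  rw [norm_div, hn, div_le_iff₀ hδ]
  have := L.b
  linarith

/-- **the disc of an inner door lies in the inner lanes** -/
theorem pvgj_Q_lanes (L : PvgjLane 𝔤) (hδ : 0 < 𝔤.δ) (hd : d ^ 4 = 1) (z : ℂ) (l : List PvtTurn) {j : ℕ} (h0 : 0 < j) (hj : j < l.length) :
    ball (pvthZ 𝔤.δ z d l j) 𝔤.b ⊆ pvfeLanes (-(1 / 10)) (4 / 10) z ((𝔤.δ : ℂ) * d) l := by
  intro p hp
  obtain ⟨u, hu, rfl⟩ := pvgj_Q_frame L hδ hd z l j hp
  rcases le_total 0 u.re with h | h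
  · exact pvgj_K_lanes _ _ _ _ _ hj ⟨u, pvgj_lane_front _ h hu, rfl⟩
  · obtain ⟨i, rfl⟩ : ∃ i, j = i + 1 := ⟨j - 1, by omega⟩
    have hi : i < l.length := by omega
    refine pvgj_K_lanes _ _ _ _ _ hi ⟨_, pvgj_lane_back (pvccT l i) h hu, ?_⟩
    rw [pvccZ_succ _ _ l hi, pvccD_succ _ l hi]
    ring

end lanes

/-! ## 6. the index of a pattern -/

/-- the first `n` letters are `S`: doors and frames, unit coordinates -/
theorem pvgj_first_unit (l : List PvtTurn) {n : ℕ} (hn : n ≤ l.length) (hS : ∀ i, i < n → pvccT l i = PvtTurn.S) : ∀ i, i ≤ n → pvccD 1 l i = 1 ∧ pvccZ 0 1 l i = (i : ℂ) := by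
  intro i
  induction i with
  | zero => intro _; simp [pvccD, pvccZ, pvtDisp]
  | succ i ih =>
    intro hi
    obtain ⟨h1, h2⟩ := ih (by omega)
    have hl : i < l.length := by omega
    rw [pvccD_succ 1 l hl, pvccZ_succ 0 1 l hl, hS i (by omega), h1, h2]
    refine ⟨by simp [PvtTurn.rot], ?_⟩
    simp only [PvtTurn.mid]
    push_cast
    ring

section index

variable {τ : Type} {Γ : PvtsGeo τ} {ty : τ → PvwTy} {N : PvwNum} {h : ℝ} {p : PvtsPat τ} {Z : Set (ℤ × ℤ)}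

theorem pvgj_dout_pow (hD : PvfeDoors Γ ty N h) (t : τ) : Γ.dout t ^ 4 = 1 := by
  obtain ⟨e, u, hu, -, h2, -, -⟩ := hD.out t
  rw [h2]
  rcases hu with rfl | rfl | rfl | rfl
  · simp [pvtZ]
  · simp [pvtZ]; norm_num
  · simp [pvtZ]
  · simp only [pvtZ]
    have : ((((0 : ℤ), (-1 : ℤ)).1 : ℤ) : ℂ) + ((((0 : ℤ), (-1 : ℤ)).2 : ℤ) : ℂ) * Complex.I = -Complex.I := by simp
    rw [this, neg_pow, Complex.I_pow_four]
    norm_num

/-- **NO CELL OF THE WORD OF A PATTERN IS THE CELL BEHIND ITS FIRST DOOR**: the first link is straight, the other cells are far from the mouth of `t` -/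
theorem pvgj_back_ix (hD : PvfeDoors Γ ty N h) (hδ : 0 < Γ.δ) (h16 : 16 * Γ.δ < N.rho * h) {ys : ℂ} {rL : ℝ}
    (hlk : PvfeLk Γ.δ (N.rho * h + 4 * Γ.δ) rL ys ((ty p.tt).cp h p.zt) (pvfeZ Γ p) (pvfeD Γ p) p.l Z) : ∀ k, k < p.l.length → pvccC 0 1 p.l k ≠ -(1 / 2) := by
  obtain ⟨nt, ns, h1, -, -, hS, -, hfar, -, -⟩ := hlk
  intro k hk e
  rcases Nat.lt_or_ge k nt with hlt | hge
  · obtain ⟨a1, a2⟩ := pvgj_first_unit p.l (n := nt) (by omega) hS k hlt.le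
    unfold pvccC at e
    rw [a1, a2] at e
    have := congrArg Complex.re e
    simp at this
    have hk0 : (0 : ℝ) ≤ k := Nat.cast_nonneg k
    linarith
  · have h2 := hfar k hge hk
    rw [pvccC_cov, e] at h2
    obtain ⟨-, t2⟩ := pvrt_door_t hD hδ h16 p
    have e2 : pvfeZ Γ p + pvfeD Γ p * -(1 / 2) - (ty p.tt).cp h p.zt = -((ty p.tt).cp h p.zt - pvfeZ Γ p) + -(pvfeD Γ p / 2) := by ring
    rw [e2] at h2
    have h3 := norm_add_le (-((ty p.tt).cp h p.zt - pvfeZ Γ p)) (-(pvfeD Γ p / 2))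
    rw [norm_neg, norm_neg, norm_div, show ‖(2 : ℂ)‖ = 2 by simp] at h3
    linarith

variable {𝔤 : PvkdGeo}

/-- **`PvjmRgC` AT THE INDEX OF A PATTERN** -/
theorem pvgj_rgC_ix (R : PvkxRef 𝔤) (he : 𝔤.δ = Γ.δ) (hD : PvfeDoors Γ ty N h) (h16 : 16 * Γ.δ < N.rho * h) (hIx : PvfeIx Γ ty N h p Z) : PvjmRgC 𝔤 (pvfeZ Γ p) (Γ.dout p.tt) p.l :=
  pvgj_rgC R (pvgj_dout_pow hD _) _ hIx.simple (pvgj_back_ix hD (he ▸ R.δ0) h16 hIx.lk)

/-- **(INC-C), cells**: the rooms of the cells lie in `Yin` -/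
theorem pvgj_inc_C (R : PvkxRef 𝔤) (L : PvgjLane 𝔤) (he : 𝔤.δ = Γ.δ) (cp cm : τ → Set ℂ) (N : PvwNum) (h : ℝ) {i : ℕ} (hi : i < p.l.length) :
    pvjmC 𝔤 (pvfeZ Γ p) (Γ.dout p.tt) p.l i ⊆ (pvfeRegAt Γ ty cp cm N h p).Yin := by
  refine (pvgj_C_lane L R.δ0 _ _ _ i).trans ?_
  rw [he]
  exact (pvgj_K_lanes _ _ _ _ _ hi).trans (subset_union_left.trans subset_union_left)

/-- **(INC-C), doors**: the door discs lie in `Yin` -/
theorem pvgj_inc_Q (R : PvkxRef 𝔤) (L : PvgjLane 𝔤) (he : 𝔤.δ = Γ.δ) (cp cm : τ → Set ℂ) (hD : PvfeDoors Γ ty N h) (h16 : 16 * Γ.δ < N.rho * h) (hp : Γ.Ok p) {j : ℕ} (hj : j ≤ p.l.length) :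
    pvjmQ 𝔤 (pvfeZ Γ p) (Γ.dout p.tt) p.l j ⊆ (pvfeRegAt Γ ty cp cm N h p).Yin := by
  have hδ : 0 < Γ.δ := he ▸ R.δ0
  have hn : ‖pvfeD Γ p‖ = Γ.δ := by rw [pvfe_norm_D, abs_of_pos hδ]
  have hb : 𝔤.b ≤ Γ.δ / 2 := by
    have := R.b4
    rw [he] at this
    linarith
  rcases Nat.eq_zero_or_pos j with rfl | h0
  · intro w hw
    refine Or.inl (Or.inr ?_)
    obtain ⟨-, t2⟩ := pvrt_door_t hD hδ h16 p
    have hw' : w ∈ ball (pvthZ 𝔤.δ (pvfeZ Γ p) (Γ.dout p.tt) p.l 0) 𝔤.b := hw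
    have e0 : pvthZ 𝔤.δ (pvfeZ Γ p) (Γ.dout p.tt) p.l 0 = pvfeZ Γ p := by simp [pvthZ, pvtDisp]
    rw [e0, mem_ball, Complex.dist_eq] at hw'
    rw [mem_closedBall, Complex.dist_eq]
    have e : w - (ty p.tt).cp h p.zt = (w - pvfeZ Γ p) + -((ty p.tt).cp h p.zt - pvfeZ Γ p) := by ring
    rw [e]
    refine (norm_add_le _ _).trans ?_
    rw [norm_neg]
    linarith
  · rcases Nat.lt_or_ge j p.l.length with hlt | hge
    · have h1 := pvgj_Q_lanes L R.δ0 (pvgj_dout_pow hD p.tt) (pvfeZ Γ p) p.l h0 hlt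
      have h2 : pvfeLanes (-(1 / 10)) (4 / 10) (pvfeZ Γ p) ((𝔤.δ : ℂ) * Γ.dout p.tt) p.l ⊆ (pvfeRegAt Γ ty cp cm N h p).Yin := by
        rw [he]
        exact subset_union_left.trans subset_union_left
      exact h1.trans h2
    · obtain rfl : j = p.l.length := by omega
      intro w hw
      refine Or.inr ?_
      obtain ⟨-, s2⟩ := pvrt_door_s hD hδ h16 hp
      have hw' : w ∈ ball (pvthZ 𝔤.δ (pvfeZ Γ p) (Γ.dout p.tt) p.l p.l.length) 𝔤.b := hw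
      rw [pvthZ_eq, he, mem_ball, Complex.dist_eq] at hw'
      rw [mem_closedBall, Complex.dist_eq]
      have e : w - (ty p.ts).cm h p.zs = (w - pvccZ (pvfeZ Γ p) (pvfeD Γ p) p.l p.l.length) + -((ty p.ts).cm h p.zs - pvccZ (pvfeZ Γ p) (pvfeD Γ p) p.l p.l.length) := by ring
      rw [e]
      refine (norm_add_le _ _).trans ?_
      rw [norm_neg]
      have hw'' : ‖w - pvccZ (pvfeZ Γ p) (pvfeD Γ p) p.l p.l.length‖ < 𝔤.b := hw'
      linarith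

end index

/-! ## 7. at the model -/

section model

variable {τ : Type} {c : ℝ} {𝔓 : PvxPar τ c} {m : ℕ} {x : ℂ} {R : ℝ} {π : PvxIx τ}

/-- the geometry of record of the cells of level `m` -/
noncomputable def pvgjG (c : ℝ) (m : ℕ) : PvkdGeo := pvkgG.sc (pvlmDel c m)

theorem pvgj_eqns_cite3 : True := by
  have := @pvgjG.eq_1
  trivial

theorem pvgj_G_ref (c : ℝ) (m : ℕ) : PvkxRef (pvgjG c m) := pvuk_ref_sc pvkgg_xref (pvlm_Del_pos c m)

theorem pvgj_G_lane (c : ℝ) (m : ℕ) : PvgjLane (pvgjG c m) := pvgj_lane_sc pvgj_lane_G (pvlm_Del_pos c m)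

theorem pvgj_G_del (c : ℝ) (m : ℕ) : (pvgjG c m).δ = pvlmDel c m := by
  show pvlmDel c m * 1 = pvlmDel c m
  rw [mul_one]

/-- its plug is the door plug of `Tr/InstL` -/
theorem pvgj_G_plug (𝔓 : PvxPar τ c) (m : ℕ) : (pvgjG c m).toPvkdPlug = pvkdP (pvilRd 𝔓 m) := by
  show (pvkdP (1 / 40)).sc (pvlmDel c m) = pvkdP (pvlmDel c m / 40)
  rw [pvdil_P (pvlm_Del_pos c m), show pvlmDel c m * (1 / 40) = pvlmDel c m / 40 by ring]

theorem pvgj_G_gref (c : ℝ) (m : ℕ) : PvgjRef (pvgjG c m).toPvkdPlug := pvgj_ref_sc (pvgj_ref_P (by norm_num : (0 : ℝ) < 1 / 40)) (pvlm_Del_pos c m)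

/-- **CELLS OF CHAIN AT THE MODEL**: `PvjmRgC` + (INC-C) for every pattern of `pvxPatSet` -/
theorem pvgj_model (hW : 𝔓.Wf) (hF : PvfhWf 𝔓) (hfine : 16 * pvlmDel c m < 𝔓.num.rho * pvlmH m) (hπ : π ∈ pvxPatSet 𝔓 x R m) :
    PvjmRgC (pvgjG c m) (pvieZo 𝔓 m π.p.zt π.p.tt) ((𝔓.Γ m).dout π.p.tt) π.p.l ∧
    (∀ i, i < π.p.l.length → pvjmC (pvgjG c m) (pvieZo 𝔓 m π.p.zt π.p.tt) ((𝔓.Γ m).dout π.p.tt) π.p.l i ⊆ (𝔓.reg m π).Yin) ∧
    ∀ j, j ≤ π.p.l.length → pvjmQ (pvgjG c m) (pvieZo 𝔓 m π.p.zt π.p.tt) ((𝔓.Γ m).dout π.p.tt) π.p.l j ⊆ (𝔓.reg m π).Yin := by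
  have he : (pvgjG c m).δ = (𝔓.Γ m).δ := by rw [pvgj_G_del, hW.del]
  have h16 : 16 * (𝔓.Γ m).δ < 𝔓.num.rho * pvlmH m := by rw [hW.del]; exact hfine
  rw [hF.reg_eq]
  exact ⟨pvgj_rgC_ix (pvgj_G_ref c m) he (hF.doors m) h16 hπ.2.2.2.2.1, fun i hi => pvgj_inc_C (pvgj_G_ref c m) (pvgj_G_lane c m) he _ _ _ _ hi,
    fun j hj => pvgj_inc_Q (pvgj_G_ref c m) (pvgj_G_lane c m) he _ _ (hF.doors m) h16 hπ.1.1 hj⟩

end model

/-- **CELLS OF CHAIN AT THE PARAMETERS OF RECORD** -/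
theorem pvgj_model_at {c : ℝ} (c0 : 0 < c) (N : PvxNums) (hN : N.Ok) {m : ℕ} (hm : (pvxParOf N hN c).m0 ≤ m) {x : ℂ} {R : ℝ} {π : PvxIx (pvxTau N)} (hπ : π ∈ pvxPatSet (pvxParOf N hN c) x R m) :
    PvjmRgC (pvgjG c m) (pvieZo (pvxParOf N hN c) m π.p.zt π.p.tt) (((pvxParOf N hN c).Γ m).dout π.p.tt) π.p.l ∧
    (∀ i, i < π.p.l.length → pvjmC (pvgjG c m) (pvieZo (pvxParOf N hN c) m π.p.zt π.p.tt) (((pvxParOf N hN c).Γ m).dout π.p.tt) π.p.l i ⊆ ((pvxParOf N hN c).reg m π).Yin) ∧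
    ∀ j, j ≤ π.p.l.length → pvjmQ (pvgjG c m) (pvieZo (pvxParOf N hN c) m π.p.zt π.p.tt) (((pvxParOf N hN c).Γ m).dout π.p.tt) π.p.l j ⊆ ((pvxParOf N hN c).reg m π).Yin := by
  refine pvgj_model (pvxo_wf N hN c) (pvfhw_par N hN c) ?_ hπ
  have h1 : 1000000 * pvlmDel c m ≤ N.rho * pvlmH m := pvxo_fine hN c0 hm
  have h2 := pvlm_Del_pos c m
  show 16 * pvlmDel c m < N.rho * pvlmH m
  linarith

end Claimed.Agent.R289
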