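import Claimed.Agent.R289.Tr.Tower
import Claimed.Agent.R289.S6b.Det

/-!
# Row 289 (S0537, Cardy for Poisson-Voronoi), unit TR, road P, chapter C, Tr/Track : TRACK and PORT      (owner helper205; prefix `pvtx_`, defs `pvtx*`, `Pvtx*`)

The model free core of `origin/helper205:notes/R289/MENU_205.md` (M1, M2, M2', M7), in the LINEAR vertex path model of `PvbRim` (`v : ℕ → ℂ`, the rim is cut at a far vertex).
No Jordan curve theorem, no simplicity of the path, no bound on filled holes is used.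

* §1 `pvtxPoly v i j` : the polygon `v i, …, v j` (it contains `v i` also if `j ≤ i`): connected, bounded, every point is `μ`-close to a vertex.
* §2 `PvtxNR v lo hi d e` : NO NEAR RETURN, master form (M2 (0)): `lo ≤ k ≤ k' ≤ hi`, `|v k - v k'| ≤ d`  ⟹  `|v i - v k| ≤ e` for all `k ≤ i ≤ k'`.   Bridge from `PvbNearRet`.   Separation of pieces (M2 (a), (b)).
* §3 **TRACK** (M2'): a chain of points (an 8-connected set of cells, a walk) which stays `ρ`-close to the path passes `e + ρ`-close to EVERY vertex between the nearest indices of its ends.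
     It replaces the chart coordinates `(u,v)`, `backtracking < 0.1`, cross sections and bars: `pvtx_cut`.
* §4 metric of `pvtwN`.
* §5 **PORT** (M7 (iii)): `S = S0 ∪ pvtwN w (cells of the core arc)`, `H = pvtHull S`.   A vertex of the continuation which lies in the `m`-collar of `H` belongs to a WIGGLE of diameter `≤ 2 e` hanging at the mark.
     COLLAR (M7 (iv)), REST (M7 (vi)).
* §6 marks = first passages of radii (M1).
-/

set_option autoImplicit false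
set_option linter.unusedSectionVars false
set_option linter.unusedVariables false
set_option linter.unusedSimpArgs false

namespace Claimed.Agent.R289

open Relation Claims.C0467 Claimed.Agent.R291

/-! ## §1 the polygon of a vertex path -/

/-- the polygon `v i, v (i+1), …, v j` -/
def pvtxPoly (v : ℕ → ℂ) (i j : ℕ) : Set ℂ := {v i} ∪ ⋃ k ∈ Set.Ico i j, segment ℝ (v k) (v (k + 1))

/-- NO NEAR RETURN, master form -/
def PvtxNR (v : ℕ → ℂ) (lo hi : ℕ) (d e : ℝ) : Prop :=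
  ∀ k k', lo ≤ k → k ≤ k' → k' ≤ hi → ‖v k - v k'‖ ≤ d → ∀ i, k ≤ i → i ≤ k' → ‖v i - v k‖ ≤ e

theorem pvtx_eqns_cite : True := by
  have := @pvtxPoly.eq_1
  have := @PvtxNR.eq_1
  trivial

section poly

variable {v : ℕ → ℂ} {i j k i' j' : ℕ} {p q a b : ℂ} {μ : ℝ}

theorem pvtx_mem_poly : p ∈ pvtxPoly v i j ↔ p = v i ∨ ∃ k, i ≤ k ∧ k < j ∧ p ∈ segment ℝ (v k) (v (k + 1)) := by
  simp only [pvtxPoly, Set.mem_union, Set.mem_singleton_iff, Set.mem_iUnion, Set.mem_Ico, exists_prop, and_assoc]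

theorem pvtx_vertex_mem (h1 : i ≤ k) (h2 : k ≤ j) : v k ∈ pvtxPoly v i j := by
  rcases Nat.eq_or_lt_of_le h1 with rfl | h
  · exact pvtx_mem_poly.2 (Or.inl rfl)
  · refine pvtx_mem_poly.2 (Or.inr ⟨k - 1, by omega, by omega, ?_⟩)
    have : k - 1 + 1 = k := by omega
    rw [this]
    exact right_mem_segment ℝ _ _

theorem pvtx_seg_sub (h1 : i ≤ k) (h2 : k < j) : segment ℝ (v k) (v (k + 1)) ⊆ pvtxPoly v i j :=
  fun p hp => pvtx_mem_poly.2 (Or.inr ⟨k, h1, h2, hp⟩)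

theorem pvtx_poly_mono (h1 : i' ≤ i) (h2 : j ≤ j') (hij : i ≤ j') : pvtxPoly v i j ⊆ pvtxPoly v i' j' := by
  intro p hp
  rcases pvtx_mem_poly.1 hp with rfl | ⟨k, a1, a2, a3⟩
  · exact pvtx_vertex_mem h1 hij
  · exact pvtx_seg_sub (by omega) (by omega) a3

theorem pvtx_poly_self : pvtxPoly v i i = {v i} := by
  ext p
  rw [pvtx_mem_poly]
  constructor
  · rintro (h | ⟨k, a1, a2, _⟩)
    · exact h
    · omega
  · exact fun h => Or.inl h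

theorem pvtx_poly_succ (h : i ≤ j) : pvtxPoly v i (j + 1) = pvtxPoly v i j ∪ segment ℝ (v j) (v (j + 1)) := by
  ext p
  simp only [Set.mem_union, pvtx_mem_poly]
  constructor
  · rintro (h0 | ⟨k, a1, a2, a3⟩)
    · exact Or.inl (Or.inl h0)
    · rcases Nat.lt_or_ge k j with hk | hk
      · exact Or.inl (Or.inr ⟨k, a1, hk, a3⟩)
      · have : k = j := by omega
        subst this
        exact Or.inr a3
  · rintro ((h0 | ⟨k, a1, a2, a3⟩) | h3)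
    · exact Or.inl h0
    · exact Or.inr ⟨k, a1, by omega, a3⟩
    · exact Or.inr ⟨j, h, by omega, h3⟩

/-- the polygon is connected -/
theorem pvtx_poly_preconn (v : ℕ → ℂ) (i j : ℕ) : IsPreconnected (pvtxPoly v i j) := by
  rcases Nat.lt_or_ge j i with h | h
  · have : pvtxPoly v i j = {v i} := by
      ext p
      rw [pvtx_mem_poly]
      constructor
      · rintro (h0 | ⟨k, a1, a2, _⟩)
        · exact h0
        · omega
      · exact fun h0 => Or.inl h0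
    rw [this]
    exact isPreconnected_singleton
  · induction j, h using Nat.le_induction with
    | base => rw [pvtx_poly_self]; exact isPreconnected_singleton
    | succ j hj ih =>
      rw [pvtx_poly_succ hj]
      exact IsPreconnected.union (v j) (pvtx_vertex_mem hj le_rfl) (left_mem_segment ℝ _ _) ih (convex_segment _ _).isPreconnected

theorem pvtx_seg_left (hp : p ∈ segment ℝ a b) : ‖p - a‖ ≤ ‖b - a‖ := by
  obtain ⟨s, t, hs, ht, hst, rfl⟩ := hp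
  have : s • a + t • b - a = t • (b - a) := by
    have hs' : s = 1 - t := by linarith
    subst hs'
    simp only [sub_smul, one_smul, smul_sub]
    ring
  rw [this, norm_smul, Real.norm_of_nonneg ht]
  have h1 : t ≤ 1 := by linarith
  exact mul_le_of_le_one_left (norm_nonneg _) h1

theorem pvtx_seg_right (hp : p ∈ segment ℝ a b) : ‖p - b‖ ≤ ‖b - a‖ := by
  rw [segment_symm] at hp
  have := pvtx_seg_left hp
  rwa [norm_sub_rev a b] at this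

/-- the polygon is bounded -/
theorem pvtx_poly_bounded (v : ℕ → ℂ) (i j : ℕ) : Bornology.IsBounded (pvtxPoly v i j) := by
  refine Bornology.IsBounded.union Bornology.isBounded_singleton ?_
  refine (Bornology.isBounded_biUnion (Set.finite_Ico i j)).2 fun k _ => ?_
  refine (Metric.isBounded_closedBall (x := v k) (r := ‖v (k + 1) - v k‖)).subset fun p hp => ?_
  rw [Metric.mem_closedBall, dist_eq_norm]
  exact pvtx_seg_left hp

/-- every point of the polygon is `μ`-close to a vertex -/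
theorem pvtx_poly_vertex (hμ : 0 ≤ μ) (hij : i ≤ j) (mesh : ∀ k, i ≤ k → k < j → ‖v (k + 1) - v k‖ ≤ μ) (hp : p ∈ pvtxPoly v i j) :
    ∃ l, i ≤ l ∧ l ≤ j ∧ ‖p - v l‖ ≤ μ := by
  rcases pvtx_mem_poly.1 hp with rfl | ⟨k, a1, a2, a3⟩
  · exact ⟨i, le_rfl, hij, by simpa using hμ⟩
  · exact ⟨k, a1, a2.le, (pvtx_seg_left a3).trans (mesh k a1 a2)⟩

/-- concatenation -/
theorem pvtx_poly_union (h1 : i ≤ k) (h2 : k ≤ j) : pvtxPoly v i j = pvtxPoly v i k ∪ pvtxPoly v k j := by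
  ext p
  simp only [Set.mem_union, pvtx_mem_poly]
  constructor
  · rintro (h0 | ⟨l, a1, a2, a3⟩)
    · exact Or.inl (Or.inl h0)
    · rcases Nat.lt_or_ge l k with hl | hl
      · exact Or.inl (Or.inr ⟨l, a1, hl, a3⟩)
      · exact Or.inr (Or.inr ⟨l, hl, a2, a3⟩)
  · rintro ((h0 | ⟨l, a1, a2, a3⟩) | (h0 | ⟨l, a1, a2, a3⟩))
    · exact Or.inl h0
    · exact Or.inr ⟨l, a1, by omega, a3⟩
    · subst h0
      exact pvtx_mem_poly.1 (pvtx_vertex_mem h1 h2)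
    · exact Or.inr ⟨l, by omega, a2, a3⟩

end poly

/-! ## §2 no near return -/

section nr

variable {v : ℕ → ℂ} {lo hi lo' hi' k k' i i' t : ℕ} {d e d' e' μ : ℝ} {p q : ℂ}

theorem pvtx_tri (a b c : ℂ) : ‖a - c‖ ≤ ‖a - b‖ + ‖b - c‖ := by
  have : a - c = (a - b) + (b - c) := by ring
  rw [this]
  exact norm_add_le _ _

theorem pvtx_nr_mono (h : PvtxNR v lo hi d e) (h1 : lo ≤ lo') (h2 : hi' ≤ hi) (hd : d' ≤ d) (he : e ≤ e') : PvtxNR v lo' hi' d' e' :=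
  fun k k' a1 a2 a3 a4 i b1 b2 => (h k k' (h1.trans a1) a2 (a3.trans h2) (a4.trans hd) i b1 b2).trans he

/-- bridge: no `PvbNearRet` at the vertices of the stretch -/
theorem pvtx_nr_of_noRet (P : PvbRim) (hhi : hi ≤ P.len) (hde : d ≤ e) (he : 0 ≤ e)
    (h : ∀ k, lo ≤ k → k ≤ hi → ¬ PvbNearRet P (P.v k) d e) : PvtxNR P.v lo hi d e := by
  intro k k' a1 a2 a3 a4 i b1 b2
  by_contra hc
  rw [not_le] at hc
  have hik : k < i := by
    rcases Nat.eq_or_lt_of_le b1 with rfl | h0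
    · simp at hc; linarith
    · exact h0
  have hik' : i < k' := by
    rcases Nat.eq_or_lt_of_le b2 with rfl | h0
    · rw [norm_sub_rev] at hc; linarith
    · exact h0
  have hd0 : 0 ≤ d := (norm_nonneg _).trans a4
  refine h k a1 (a2.trans a3) ⟨k, i, k', hik, hik', a3.trans hhi, by simpa using hd0, ?_, hc⟩
  rwa [norm_sub_rev]

/-- the stretch between two close vertices has diameter `≤ 2 e` -/
theorem pvtx_nr_diam (h : PvtxNR v lo hi d e) (a1 : lo ≤ k) (a2 : k ≤ k') (a3 : k' ≤ hi) (a4 : ‖v k - v k'‖ ≤ d)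
    (b1 : k ≤ i) (b2 : i ≤ k') (c1 : k ≤ i') (c2 : i' ≤ k') : ‖v i - v i'‖ ≤ 2 * e := by
  have h1 := h k k' a1 a2 a3 a4 i b1 b2
  have h2 := h k k' a1 a2 a3 a4 i' c1 c2
  have := pvtx_tri (v i) (v k) (v i')
  rw [norm_sub_rev (v k) (v i')] at this
  linarith

/-- **M2 (a)**: two vertices separated by a stretch of diameter `> 2 e` are `> d` apart -/
theorem pvtx_sep (h : PvtxNR v lo hi d e) (a1 : lo ≤ k) (b1 : k ≤ i) (b2 : i ≤ i') (c2 : i' ≤ k') (a3 : k' ≤ hi)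
    (hbig : 2 * e < ‖v i - v i'‖) : d < ‖v k - v k'‖ := by
  by_contra hc
  rw [not_lt] at hc
  have := pvtx_nr_diam h a1 (b1.trans (b2.trans c2)) a3 hc b1 (b2.trans c2) (b1.trans b2) c2
  linarith

/-- **M2 (b)**: two close vertices on the two sides of a mark are close to the mark -/
theorem pvtx_adj (h : PvtxNR v lo hi d e) (a1 : lo ≤ k) (b1 : k ≤ t) (b2 : t ≤ k') (a3 : k' ≤ hi) (a4 : ‖v k - v k'‖ ≤ d) :
    ‖v k - v t‖ ≤ e ∧ ‖v k' - v t‖ ≤ 2 * e := by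
  constructor
  · rw [norm_sub_rev]
    exact h k k' a1 (b1.trans b2) a3 a4 t b1 b2
  · exact pvtx_nr_diam h a1 (b1.trans b2) a3 a4 (b1.trans b2) le_rfl b1 b2

/-- **M2 (a)** for the points of the polygons -/
theorem pvtx_sep_poly (h : PvtxNR v lo hi d e) (hμ : 0 ≤ μ) (mesh : ∀ k, lo ≤ k → k < hi → ‖v (k + 1) - v k‖ ≤ μ)
    {k1 k2 k3 k4 : ℕ} (a1 : lo ≤ k1) (a2 : k1 ≤ k2) (b1 : k2 ≤ i) (b2 : i ≤ i') (c2 : i' ≤ k3) (a3 : k3 ≤ k4) (a4 : k4 ≤ hi)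
    (hbig : 2 * e < ‖v i - v i'‖) (hp : p ∈ pvtxPoly v k1 k2) (hq : q ∈ pvtxPoly v k3 k4) : d - 2 * μ < ‖p - q‖ := by
  obtain ⟨l, l1, l2, l3⟩ := pvtx_poly_vertex hμ a2 (fun k x1 x2 => mesh k (by omega) (by omega)) hp
  obtain ⟨r, r1, r2, r3⟩ := pvtx_poly_vertex hμ a3 (fun k x1 x2 => mesh k (by omega) (by omega)) hq
  have h0 := pvtx_sep h (a1.trans l1) (l2.trans b1) b2 (c2.trans r1) (r2.trans a4) hbig
  have h1 := pvtx_tri (v l) p (v r)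
  have h2 := pvtx_tri p q (v r)
  rw [norm_sub_rev (v l) p] at h1
  linarith

end nr

/-! ## §3 TRACK -/

section track

variable {v : ℕ → ℂ} {lo hi : ℕ} {d e ρ a δ : ℝ}

/-- **TRACK**, one step: the vertices between the nearest indices of two close points -/
theorem pvtx_track_step (hNR : PvtxNR v lo hi d e) {x y : ℂ} {s t i : ℕ} (hs : lo ≤ s ∧ s ≤ hi) (ht : lo ≤ t ∧ t ≤ hi)
    (hx : ‖v s - x‖ ≤ ρ) (hy : ‖v t - y‖ ≤ ρ) (hxy : ‖y - x‖ ≤ a) (hd : 2 * ρ + a ≤ d) (hi' : (s ≤ i ∧ i ≤ t) ∨ (t ≤ i ∧ i ≤ s)) :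
    ‖v i - x‖ ≤ e + ρ ∨ ‖v i - y‖ ≤ e + ρ := by
  have hst : ‖v s - v t‖ ≤ d := by
    have h1 := pvtx_tri (v s) x (v t)
    have h2 := pvtx_tri x y (v t)
    rw [norm_sub_rev x y, norm_sub_rev y (v t)] at h2
    linarith
  rcases hi' with ⟨h1, h2⟩ | ⟨h1, h2⟩
  · left
    have := hNR s t hs.1 (h1.trans h2) ht.2 hst i h1 h2
    have h3 := pvtx_tri (v i) (v s) x
    linarith
  · right
    rw [norm_sub_rev] at hst
    have := hNR t s ht.1 (h1.trans h2) hs.2 hst i h1 h2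
    have h3 := pvtx_tri (v i) (v t) y
    linarith

/-- **TRACK** for a chain of points `x 0, …, x n` (a walk) with nearest indices `s 0, …, s n` -/
theorem pvtx_track_chain (hNR : PvtxNR v lo hi d e) (he : 0 ≤ e) (x : ℕ → ℂ) (s : ℕ → ℕ) (n : ℕ)
    (hs : ∀ j ≤ n, lo ≤ s j ∧ s j ≤ hi) (hx : ∀ j ≤ n, ‖v (s j) - x j‖ ≤ ρ) (hstep : ∀ j < n, ‖x (j + 1) - x j‖ ≤ a)
    (hd : 2 * ρ + a ≤ d) (i : ℕ) (hi' : (s 0 ≤ i ∧ i ≤ s n) ∨ (s n ≤ i ∧ i ≤ s 0)) : ∃ j ≤ n, ‖v i - x j‖ ≤ e + ρ := by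
  induction n with
  | zero =>
    have : i = s 0 := by omega
    subst this
    exact ⟨0, le_rfl, by have := hx 0 le_rfl; linarith⟩
  | succ n ih =>
    by_cases hc : (s 0 ≤ i ∧ i ≤ s n) ∨ (s n ≤ i ∧ i ≤ s 0)
    · obtain ⟨j, hj, h⟩ := ih (fun j hj => hs j (by omega)) (fun j hj => hx j (by omega)) (fun j hj => hstep j (by omega)) hc
      exact ⟨j, by omega, h⟩
    · have hc' : (s n ≤ i ∧ i ≤ s (n + 1)) ∨ (s (n + 1) ≤ i ∧ i ≤ s n) := by omega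
      rcases pvtx_track_step hNR (hs n (by omega)) (hs (n + 1) le_rfl) (hx n (by omega)) (hx (n + 1) le_rfl) (hstep n (by omega)) hd hc' with h | h
      · exact ⟨n, by omega, h⟩
      · exact ⟨n + 1, le_rfl, h⟩

theorem pvtx_ctr_adj (hδ : 0 ≤ δ) {c c' : ℤ × ℤ} (h : pvtG8.Adj c c') : ‖pvtCtr δ c' - pvtCtr δ c‖ ≤ 2 * δ := by
  obtain ⟨_, h1, h2, h3, h4⟩ := h
  have h0 := Complex.norm_le_abs_re_add_abs_im (pvtCtr δ c' - pvtCtr δ c)
  have c1 : (c'.1 : ℝ) ≤ c.1 + 1 := by exact_mod_cast h1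
  have c2 : (c.1 : ℝ) ≤ c'.1 + 1 := by exact_mod_cast h2
  have c3 : (c'.2 : ℝ) ≤ c.2 + 1 := by exact_mod_cast h3
  have c4 : (c.2 : ℝ) ≤ c'.2 + 1 := by exact_mod_cast h4
  have hr : |(pvtCtr δ c' - pvtCtr δ c).re| ≤ δ := by
    simp only [pvtCtr, Complex.sub_re]
    exact abs_le.2 ⟨by nlinarith, by nlinarith⟩
  have hi : |(pvtCtr δ c' - pvtCtr δ c).im| ≤ δ := by
    simp only [pvtCtr, Complex.sub_im]
    exact abs_le.2 ⟨by nlinarith, by nlinarith⟩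
  linarith

/-- **TRACK** (M2') for an 8-connected set of cells `R` with a nearest index function `s` -/
theorem pvtx_track (hNR : PvtxNR v lo hi d e) (he : 0 ≤ e) (hδ : 0 ≤ δ) {R : Set (ℤ × ℤ)} (s : ℤ × ℤ → ℕ)
    (hs : ∀ c ∈ R, lo ≤ s c ∧ s c ≤ hi ∧ ‖v (s c) - pvtCtr δ c‖ ≤ ρ) (hd : 2 * ρ + 2 * δ ≤ d) {c0 c1 : ℤ × ℤ} (hc0 : c0 ∈ R)
    (h : TscR pvtG8 R c0 c1) (i : ℕ) (hi' : (s c0 ≤ i ∧ i ≤ s c1) ∨ (s c1 ≤ i ∧ i ≤ s c0)) : ∃ c ∈ R, ‖v i - pvtCtr δ c‖ ≤ e + ρ := by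
  induction h with
  | refl =>
    have : i = s c0 := by omega
    subst this
    exact ⟨c0, hc0, by have := (hs c0 hc0).2.2; linarith⟩
  | @tail b c _ hbc ih =>
    by_cases hc : (s c0 ≤ i ∧ i ≤ s b) ∨ (s b ≤ i ∧ i ≤ s c0)
    · exact ih hc
    · have hc' : (s b ≤ i ∧ i ≤ s c) ∨ (s c ≤ i ∧ i ≤ s b) := by omega
      obtain ⟨b1, b2, b3⟩ := hs b hbc.2.1
      obtain ⟨d1, d2, d3⟩ := hs c hbc.2.2
      rcases pvtx_track_step hNR ⟨b1, b2⟩ ⟨d1, d2⟩ b3 d3 (pvtx_ctr_adj hδ hbc.1) hd hc' with h | h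
      · exact ⟨b, hbc.2.1, h⟩
      · exact ⟨c, hbc.2.2, h⟩

/-- the thick BAR at the vertex `v i` -/
def pvtxBar (v : ℕ → ℂ) (δ r : ℝ) (i : ℕ) : Set (ℤ × ℤ) := {c | ‖v i - pvtCtr δ c‖ ≤ r}

/-- **CUT**: the bar at `v i` meets every 8-connected subset of the tube which joins an index `≤ i` to an index `≥ i` -/
theorem pvtx_cut (hNR : PvtxNR v lo hi d e) (he : 0 ≤ e) (hδ : 0 ≤ δ) {R : Set (ℤ × ℤ)} (s : ℤ × ℤ → ℕ)
    (hs : ∀ c ∈ R, lo ≤ s c ∧ s c ≤ hi ∧ ‖v (s c) - pvtCtr δ c‖ ≤ ρ) (hd : 2 * ρ + 2 * δ ≤ d) (hR : TscConn pvtG8 R) {c0 c1 : ℤ × ℤ}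
    (hc0 : c0 ∈ R) (hc1 : c1 ∈ R) {i : ℕ} (h0 : s c0 ≤ i) (h1 : i ≤ s c1) : (R ∩ pvtxBar v δ (e + ρ) i).Nonempty := by
  obtain ⟨c, hc, h⟩ := pvtx_track hNR he hδ s hs hd hc0 (hR c0 hc0 c1 hc1) i (Or.inl ⟨h0, h1⟩)
  exact ⟨c, hc, h⟩

/-- removing the bar disconnects the two sides -/
theorem pvtx_cut_sep (hNR : PvtxNR v lo hi d e) (he : 0 ≤ e) (hδ : 0 ≤ δ) {R : Set (ℤ × ℤ)} (s : ℤ × ℤ → ℕ)
    (hs : ∀ c ∈ R, lo ≤ s c ∧ s c ≤ hi ∧ ‖v (s c) - pvtCtr δ c‖ ≤ ρ) (hd : 2 * ρ + 2 * δ ≤ d) {c0 c1 : ℤ × ℤ} {i : ℕ}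
    (hc0 : c0 ∈ R \ pvtxBar v δ (e + ρ) i) (h0 : s c0 ≤ i) (h1 : i ≤ s c1) : ¬ TscR pvtG8 (R \ pvtxBar v δ (e + ρ) i) c0 c1 := by
  intro h
  obtain ⟨c, hc, hb⟩ := pvtx_track hNR he hδ (R := R \ pvtxBar v δ (e + ρ) i) s (fun c hc => hs c hc.1) hd hc0 h i (Or.inl ⟨h0, h1⟩)
  exact hc.2 hb

end track

/-! ## §4 metric of `pvtwN`, nearest indices -/

section metric

variable {δ μ : ℝ} {z w c : ℤ × ℤ} {p q : ℂ} {E S : Set (ℤ × ℤ)} {K : Set ℂ} {k m : ℕ} {v : ℕ → ℂ} {lo hi : ℕ}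

/-- two squares at sup-distance `≤ k`: all their points are `2 (k+1) δ`-close -/
theorem pvtx_N_dist (hδ : 0 < δ) (h : w ∈ pvtwN k {z}) (hp : p ∈ pvtSq δ z) (hq : q ∈ pvtSq δ w) : ‖p - q‖ ≤ 2 * ((k : ℝ) + 1) * δ := by
  obtain ⟨z', rfl, h1, h2, h3, h4⟩ := h
  have h0 := Complex.norm_le_abs_re_add_abs_im (p - q)
  rw [Complex.sub_re, Complex.sub_im] at h0
  obtain ⟨a1, a2, a3, a4⟩ := hp
  obtain ⟨b1, b2, b3, b4⟩ := hq
  have c1 : (w.1 : ℝ) ≤ z'.1 + k := by exact_mod_cast h1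
  have c2 : (z'.1 : ℝ) ≤ w.1 + k := by exact_mod_cast h2
  have c3 : (w.2 : ℝ) ≤ z'.2 + k := by exact_mod_cast h3
  have c4 : (z'.2 : ℝ) ≤ w.2 + k := by exact_mod_cast h4
  have d1 := mul_le_mul_of_nonneg_right c1 hδ.le
  have d2 := mul_le_mul_of_nonneg_right c2 hδ.le
  have d3 := mul_le_mul_of_nonneg_right c3 hδ.le
  have d4 := mul_le_mul_of_nonneg_right c4 hδ.le
  have hr : |p.re - q.re| ≤ ((k : ℝ) + 1) * δ := abs_le.2 ⟨by nlinarith, by nlinarith⟩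
  have hi : |p.im - q.im| ≤ ((k : ℝ) + 1) * δ := abs_le.2 ⟨by nlinarith, by nlinarith⟩
  nlinarith

/-- (k3) a point of the `k`-neighbourhood of the cells of `K` is `2 (k+1) δ`-close to `K` -/
theorem pvtx_U_N_cells (hδ : 0 < δ) (hq : q ∈ pvtU δ (pvtwN k (pvtCells δ K))) : ∃ p ∈ K, ‖p - q‖ ≤ 2 * ((k : ℝ) + 1) * δ := by
  obtain ⟨w, hw, hqw⟩ := Set.mem_iUnion₂.1 hq
  obtain ⟨z, ⟨p, hpz, hpK⟩, hwz⟩ := pvtw_N_iff.1 hw
  exact ⟨p, hpK, pvtx_N_dist hδ hwz hpz hqw⟩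

theorem pvtx_ctr_N_cells (hδ : 0 < δ) (hc : c ∈ pvtwN k (pvtCells δ K)) : ∃ p ∈ K, ‖p - pvtCtr δ c‖ ≤ 2 * ((k : ℝ) + 1) * δ :=
  pvtx_U_N_cells hδ (Set.mem_iUnion₂.2 ⟨c, hc, pvt_sq_ctr hδ.le⟩)

/-- (k6) iterated -/
theorem pvtx_N_hull : pvtwN m (pvtHull S) ⊆ pvtHull (pvtwN m S) := by
  have h := pvtw_K_N (i := m) (j := 0) (E := S)
  rw [pvtw_K_zero] at h
  simpa [pvtwK] using h

/-- a nearest index for a cell of the tube -/
theorem pvtx_idx (hδ : 0 < δ) (hμ : 0 ≤ μ) (hlh : lo ≤ hi) (mesh : ∀ k, lo ≤ k → k < hi → ‖v (k + 1) - v k‖ ≤ μ)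
    (hc : c ∈ pvtwN k (pvtCells δ (pvtxPoly v lo hi))) : ∃ l, lo ≤ l ∧ l ≤ hi ∧ ‖v l - pvtCtr δ c‖ ≤ 2 * ((k : ℝ) + 1) * δ + μ := by
  obtain ⟨p, hp, hpc⟩ := pvtx_ctr_N_cells hδ hc
  obtain ⟨l, l1, l2, l3⟩ := pvtx_poly_vertex hμ hlh mesh hp
  refine ⟨l, l1, l2, ?_⟩
  have := pvtx_tri (v l) p (pvtCtr δ c)
  rw [norm_sub_rev (v l) p] at this
  linarith

/-- **TRACK for tubes** (M9'): `R` an 8-connected path of cells inside the `k`-tube of the path; the nearest indices `s0`, `s1` of its two ends may be CHOSEN -/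
theorem pvtx_track_tube {d e : ℝ} (hNR : PvtxNR v lo hi d e) (he : 0 ≤ e) (hδ : 0 < δ) (hμ : 0 ≤ μ) (hlh : lo ≤ hi)
    (mesh : ∀ k, lo ≤ k → k < hi → ‖v (k + 1) - v k‖ ≤ μ) {R : Set (ℤ × ℤ)} (hR : R ⊆ pvtwN k (pvtCells δ (pvtxPoly v lo hi)))
    (hd : 2 * (2 * ((k : ℝ) + 1) * δ + μ) + 2 * δ ≤ d) {c0 c1 : ℤ × ℤ} (hc0 : c0 ∈ R) (h : TscR pvtG8 R c0 c1) {s0 s1 : ℕ}
    (h0 : lo ≤ s0 ∧ s0 ≤ hi ∧ ‖v s0 - pvtCtr δ c0‖ ≤ 2 * ((k : ℝ) + 1) * δ + μ)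
    (h1 : lo ≤ s1 ∧ s1 ≤ hi ∧ ‖v s1 - pvtCtr δ c1‖ ≤ 2 * ((k : ℝ) + 1) * δ + μ)
    (i : ℕ) (hi' : (s0 ≤ i ∧ i ≤ s1) ∨ (s1 ≤ i ∧ i ≤ s0)) : ∃ c ∈ R, ‖v i - pvtCtr δ c‖ ≤ e + (2 * ((k : ℝ) + 1) * δ + μ) := by
  classical
  by_cases hcc : c0 = c1
  · subst hcc
    rcases pvtx_track_step hNR ⟨h0.1, h0.2.1⟩ ⟨h1.1, h1.2.1⟩ h0.2.2 h1.2.2 (a := 2 * δ) (by simpa using hδ.le) hd hi' with h | h
    · exact ⟨c0, hc0, h⟩
    · exact ⟨c0, hc0, h⟩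
  · have hex : ∀ c : ℤ × ℤ, ∃ l, c ∈ R → (lo ≤ l ∧ l ≤ hi ∧ ‖v l - pvtCtr δ c‖ ≤ 2 * ((k : ℝ) + 1) * δ + μ) := by
      intro c
      by_cases hc : c ∈ R
      · obtain ⟨l, hl⟩ := pvtx_idx hδ hμ hlh mesh (hR hc)
        exact ⟨l, fun _ => hl⟩
      · exact ⟨0, fun h => (hc h).elim⟩
    choose s hs using hex
    let s' : ℤ × ℤ → ℕ := fun c => if c = c0 then s0 else if c = c1 then s1 else s c
    have e0 : s' c0 = s0 := by simp [s']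
    have e1 : s' c1 = s1 := by simp [s', Ne.symm hcc]
    have hs' : ∀ c ∈ R, lo ≤ s' c ∧ s' c ≤ hi ∧ ‖v (s' c) - pvtCtr δ c‖ ≤ 2 * ((k : ℝ) + 1) * δ + μ := by
      intro c hc
      by_cases a0 : c = c0
      · subst a0; rw [e0]; exact h0
      · by_cases a1 : c = c1
        · subst a1; rw [e1]; exact h1
        · have : s' c = s c := by simp [s', a0, a1]
          rw [this]; exact hs c hc
    exact pvtx_track hNR he hδ.le s' hs' hd hc0 h i (by rw [e0, e1]; exact hi')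

end metric

/-! ## §5 PORT -/

section port

variable {δ μ d e : ℝ} {v : ℕ → ℂ} {S0 : Set (ℤ × ℤ)} {w m : ℕ} {X Kc : Set ℂ} {p q : ℂ}

/-- the OBSTACLE: filled union of the ball part `S0` and of the `w`-tube of the core arc `Kc` -/
def pvtxH (δ : ℝ) (S0 : Set (ℤ × ℤ)) (w : ℕ) (Kc : Set ℂ) : Set (ℤ × ℤ) := pvtHull (S0 ∪ pvtwN w (pvtCells δ Kc))

theorem pvtx_eqns_cite5 : True := by
  have := @pvtxH.eq_1
  have := @pvtxBar.eq_1
  trivial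

/-- CORE (M7 (ii)): the `w δ`-neighbourhood of the core arc lies in the obstacle -/
theorem pvtx_core (hδ : 0 < δ) (hp : p ∈ Kc) (hq : ‖q - p‖ ≤ (w : ℝ) * δ) : q ∈ pvtU δ (pvtxH δ S0 w Kc) :=
  pvt_U_mono (Set.subset_union_right.trans pvt_hull_sub) (pvtw_U_near hδ (pvt_cells_cover hδ hp) hq)

theorem pvtx_core_ball : pvtU δ S0 ⊆ pvtU δ (pvtxH δ S0 w Kc) := pvt_U_mono (Set.subset_union_left.trans pvt_hull_sub)

/-- COLLAR (M7 (iv)) -/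
theorem pvtx_collar (hδ : 0 < δ) {H : Set (ℤ × ℤ)} (hp : p ∈ pvtU δ H) (hq : q ∉ pvtU δ (pvtwN m H)) : (m : ℝ) * δ ≤ ‖p - q‖ :=
  pvtw_U_far hδ hp (pvt_U_compl hδ hq)

/-- the heart of PORT: a connected set which misses the ball part, meets the `m`-collar of the obstacle and reaches the outside comes `2 (m+w+1) δ`-close to the core arc -/
theorem pvtx_hit (hδ : 0 < δ) (hX : IsPreconnected X) (hXb : Bornology.IsBounded X) (hball : Disjoint X (pvtU δ (pvtwN m S0)))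
    (hfar : ∃ c ∈ pvtOut (pvtwN m (S0 ∪ pvtwN w (pvtCells δ Kc))), (pvtSq δ c ∩ X).Nonempty)
    (hin : (X ∩ pvtU δ (pvtwN m (pvtxH δ S0 w Kc))).Nonempty) : ∃ q ∈ X, ∃ r ∈ Kc, ‖r - q‖ ≤ 2 * (((m + w : ℕ) : ℝ) + 1) * δ := by
  obtain ⟨x, hxX, hxU⟩ := hin
  obtain ⟨z, hz, hxz⟩ := Set.mem_iUnion₂.1 hxU
  obtain ⟨c, hc, hcX⟩ := hfar
  obtain ⟨q, hqX, hqU⟩ := pvt_sep hδ hX hXb (pvtx_N_hull hz) hc ⟨x, hxz, hxX⟩ hcX
  rw [pvtw_N_union, pvt_U_union, pvtw_N_add] at hqU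
  rcases hqU with h | h
  · exact (Set.disjoint_left.1 hball hqX h).elim
  · obtain ⟨r, hr, hrq⟩ := pvtx_U_N_cells hδ h
    exact ⟨q, hqX, r, hr, hrq⟩

/-- **PORT, forward** (M7 (iii)).   Core arc `v a … v b`, continuation `v b … v hi`.   If the polygon after the index `k` still meets the `m`-collar of the obstacle, then `v b … v k` is a WIGGLE: diameter `≤ 2 e`. -/
theorem pvtx_port_fwd (hδ : 0 < δ) (hμ : 0 ≤ μ) {a b hi k : ℕ} (hab : a ≤ b) (hbk : b ≤ k) (hk : k ≤ hi)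
    (mesh : ∀ k, a ≤ k → k < hi → ‖v (k + 1) - v k‖ ≤ μ) (hNR : PvtxNR v a hi d e)
    (hd : 2 * (((m + w : ℕ) : ℝ) + 1) * δ + 2 * μ ≤ d) (hball : Disjoint (pvtxPoly v b hi) (pvtU δ (pvtwN m S0)))
    (hfar : ∃ c ∈ pvtOut (pvtwN m (S0 ∪ pvtwN w (pvtCells δ (pvtxPoly v a b)))), v hi ∈ pvtSq δ c)
    (hin : (pvtxPoly v k hi ∩ pvtU δ (pvtwN m (pvtxH δ S0 w (pvtxPoly v a b)))).Nonempty) :
    ∀ i i', b ≤ i → i ≤ k → b ≤ i' → i' ≤ k → ‖v i - v i'‖ ≤ 2 * e := by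
  obtain ⟨c, hc, hcv⟩ := hfar
  obtain ⟨q, hq, r, hr, hrq⟩ := pvtx_hit hδ (pvtx_poly_preconn v k hi) (pvtx_poly_bounded v k hi)
    (Set.disjoint_of_subset_left (pvtx_poly_mono hbk le_rfl hk) hball) ⟨c, hc, ⟨v hi, hcv, pvtx_vertex_mem hk le_rfl⟩⟩ hin
  obtain ⟨l, l1, l2, l3⟩ := pvtx_poly_vertex hμ hk (fun j x1 x2 => mesh j (by omega) x2) hq
  obtain ⟨s, s1, s2, s3⟩ := pvtx_poly_vertex hμ hab (fun j x1 x2 => mesh j x1 (by omega)) hr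
  have hsl : ‖v s - v l‖ ≤ d := by
    have h1 := pvtx_tri (v s) r (v l)
    have h2 := pvtx_tri r q (v l)
    rw [norm_sub_rev (v s) r] at h1
    linarith
  intro i i' b1 b2 c1 c2
  exact pvtx_nr_diam hNR s1 (by omega) l2 hsl (by omega) (by omega) (by omega) (by omega)

/-- **PORT, backward** -/
theorem pvtx_port_bwd (hδ : 0 < δ) (hμ : 0 ≤ μ) {lo a b k : ℕ} (hlk : lo ≤ k) (hka : k ≤ a) (hab : a ≤ b)
    (mesh : ∀ k, lo ≤ k → k < b → ‖v (k + 1) - v k‖ ≤ μ) (hNR : PvtxNR v lo b d e)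
    (hd : 2 * (((m + w : ℕ) : ℝ) + 1) * δ + 2 * μ ≤ d) (hball : Disjoint (pvtxPoly v lo a) (pvtU δ (pvtwN m S0)))
    (hfar : ∃ c ∈ pvtOut (pvtwN m (S0 ∪ pvtwN w (pvtCells δ (pvtxPoly v a b)))), v lo ∈ pvtSq δ c)
    (hin : (pvtxPoly v lo k ∩ pvtU δ (pvtwN m (pvtxH δ S0 w (pvtxPoly v a b)))).Nonempty) :
    ∀ i i', k ≤ i → i ≤ a → k ≤ i' → i' ≤ a → ‖v i - v i'‖ ≤ 2 * e := by
  obtain ⟨c, hc, hcv⟩ := hfar
  obtain ⟨q, hq, r, hr, hrq⟩ := pvtx_hit hδ (pvtx_poly_preconn v lo k) (pvtx_poly_bounded v lo k)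
    (Set.disjoint_of_subset_left (pvtx_poly_mono le_rfl hka (hlk.trans hka)) hball) ⟨c, hc, ⟨v lo, hcv, pvtx_vertex_mem le_rfl hlk⟩⟩ hin
  obtain ⟨l, l1, l2, l3⟩ := pvtx_poly_vertex hμ hlk (fun j x1 x2 => mesh j x1 (by omega)) hq
  obtain ⟨s, s1, s2, s3⟩ := pvtx_poly_vertex hμ hab (fun j x1 x2 => mesh j (by omega) x2) hr
  have hsl : ‖v l - v s‖ ≤ d := by
    have h1 := pvtx_tri (v l) q (v s)
    have h2 := pvtx_tri q r (v s)
    rw [norm_sub_rev (v l) q] at h1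
    rw [norm_sub_rev q r] at h2
    linarith
  intro i i' b1 b2 c1 c2
  exact pvtx_nr_diam hNR l1 (by omega) s2 hsl (by omega) (by omega) (by omega) (by omega)

/-- **LAST EXIT** (M7 (iii), the index `x⁺`): after `xp` the polygon never meets the collar, up to `xp` it is a wiggle -/
theorem pvtx_last_visit (hδ : 0 < δ) (hμ : 0 ≤ μ) {a b hi : ℕ} (hab : a ≤ b) (hbh : b ≤ hi)
    (mesh : ∀ k, a ≤ k → k < hi → ‖v (k + 1) - v k‖ ≤ μ) (hNR : PvtxNR v a hi d e) (he : 0 ≤ e)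
    (hd : 2 * (((m + w : ℕ) : ℝ) + 1) * δ + 2 * μ ≤ d) (hball : Disjoint (pvtxPoly v b hi) (pvtU δ (pvtwN m S0)))
    (hfar : ∃ c ∈ pvtOut (pvtwN m (S0 ∪ pvtwN w (pvtCells δ (pvtxPoly v a b)))), v hi ∈ pvtSq δ c) :
    ∃ xp, b ≤ xp ∧ xp ≤ hi ∧ (∀ i i', b ≤ i → i ≤ xp → b ≤ i' → i' ≤ xp → ‖v i - v i'‖ ≤ 2 * e) ∧
      ∀ k, xp < k → k ≤ hi → Disjoint (pvtxPoly v k hi) (pvtU δ (pvtwN m (pvtxH δ S0 w (pvtxPoly v a b)))) := by
  classical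
  let Q : ℕ → Prop := fun k => b ≤ k ∧ (pvtxPoly v k hi ∩ pvtU δ (pvtwN m (pvtxH δ S0 w (pvtxPoly v a b)))).Nonempty
  by_cases hex : ∃ k, k ≤ hi ∧ Q k
  · obtain ⟨k0, hk0, hQ0⟩ := hex
    have hg : Q (Nat.findGreatest Q hi) := Nat.findGreatest_spec hk0 hQ0
    refine ⟨Nat.findGreatest Q hi, hg.1, Nat.findGreatest_le hi, pvtx_port_fwd hδ hμ hab hg.1 (Nat.findGreatest_le hi) mesh hNR hd hball hfar hg.2, ?_⟩
    intro k h1 h2
    rw [Set.disjoint_iff_inter_eq_empty, ← Set.not_nonempty_iff_eq_empty]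
    intro hne
    exact Nat.findGreatest_is_greatest h1 h2 ⟨by have := hg.1; omega, hne⟩
  · refine ⟨b, le_rfl, hbh, ?_, ?_⟩
    · intro i i' b1 b2 c1 c2
      have e1 : i = b := by omega
      have e2 : i' = b := by omega
      subst e1; subst e2
      simpa using he
    · intro k h1 h2
      rw [Set.disjoint_iff_inter_eq_empty, ← Set.not_nonempty_iff_eq_empty]
      intro hne
      exact hex ⟨k, h2, h1.le, hne⟩

/-- **FIRST ENTRANCE** (the index `x⁻`) -/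
theorem pvtx_first_visit (hδ : 0 < δ) (hμ : 0 ≤ μ) {lo a b : ℕ} (hla : lo ≤ a) (hab : a ≤ b)
    (mesh : ∀ k, lo ≤ k → k < b → ‖v (k + 1) - v k‖ ≤ μ) (hNR : PvtxNR v lo b d e) (he : 0 ≤ e)
    (hd : 2 * (((m + w : ℕ) : ℝ) + 1) * δ + 2 * μ ≤ d) (hball : Disjoint (pvtxPoly v lo a) (pvtU δ (pvtwN m S0)))
    (hfar : ∃ c ∈ pvtOut (pvtwN m (S0 ∪ pvtwN w (pvtCells δ (pvtxPoly v a b)))), v lo ∈ pvtSq δ c) :
    ∃ xm, lo ≤ xm ∧ xm ≤ a ∧ (∀ i i', xm ≤ i → i ≤ a → xm ≤ i' → i' ≤ a → ‖v i - v i'‖ ≤ 2 * e) ∧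
      ∀ k, lo ≤ k → k < xm → Disjoint (pvtxPoly v lo k) (pvtU δ (pvtwN m (pvtxH δ S0 w (pvtxPoly v a b)))) := by
  classical
  let Q : ℕ → Prop := fun k => lo ≤ k ∧ k ≤ a ∧ (pvtxPoly v lo k ∩ pvtU δ (pvtwN m (pvtxH δ S0 w (pvtxPoly v a b)))).Nonempty
  by_cases hex : ∃ k, Q k
  · have hg : Q (Nat.find hex) := Nat.find_spec hex
    refine ⟨Nat.find hex, hg.1, hg.2.1, pvtx_port_bwd hδ hμ hg.1 hg.2.1 hab mesh hNR hd hball hfar hg.2.2, ?_⟩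
    intro k h1 h2
    rw [Set.disjoint_iff_inter_eq_empty, ← Set.not_nonempty_iff_eq_empty]
    intro hne
    exact Nat.find_min hex h2 ⟨h1, by have := hg.2.1; omega, hne⟩
  · refine ⟨a, hla, le_rfl, ?_, ?_⟩
    · intro i i' b1 b2 c1 c2
      have e1 : i = a := by omega
      have e2 : i' = a := by omega
      subst e1; subst e2
      simpa using he
    · intro k h1 h2
      rw [Set.disjoint_iff_inter_eq_empty, ← Set.not_nonempty_iff_eq_empty]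
      intro hne
      exact hex ⟨k, h1, h2.le, hne⟩

/-- **REST** (M7 (vi)): a connected set which misses the ball part, stays `> 2 (w+1) δ` away from the core arc and reaches the outside meets only squares of the outside -/
theorem pvtx_rest (hδ : 0 < δ) (hX : IsPreconnected X) (hXb : Bornology.IsBounded X) (hball : Disjoint X (pvtU δ S0))
    (hK : ∀ q ∈ X, ∀ p ∈ Kc, 2 * ((w : ℝ) + 1) * δ < ‖p - q‖)
    (hfar : ∃ c ∈ pvtOut (S0 ∪ pvtwN w (pvtCells δ Kc)), (pvtSq δ c ∩ X).Nonempty) : pvtCells δ X ⊆ (pvtxH δ S0 w Kc)ᶜ := by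
  obtain ⟨c, hc, hcX⟩ := hfar
  have hd : Disjoint X (pvtU δ (S0 ∪ pvtwN w (pvtCells δ Kc))) := by
    rw [pvt_U_union, Set.disjoint_union_right]
    refine ⟨hball, Set.disjoint_left.2 fun q hq hqU => ?_⟩
    obtain ⟨p, hp, hpq⟩ := pvtx_U_N_cells hδ hqU
    exact absurd hpq (not_le.2 (hK q hq p hp))
  have := pvtw_escape hδ hX hXb hd hc hcX
  intro z hz hzH
  exact hzH (this hz)

end port

end Claimed.Agent.R289
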