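-- KEEP
import Claimed.Agent.R289.Tr.CloseNQ
import Claimed.Agent.R289.Tr.Track

/-!
# Row 289 (S0537, Cardy for Poisson-Voronoi), THE WALL, ROAD P, file Tr/CloseNR : REGION WITH A REFERENCE VERTEX PER LAYER VERTEX, AND **VISIT**      (author helper79; prefix `pvr0_`)

CURE OF THE MISFIT (F3)+(F6) of 212 / R4 of 225 (nested holes).      `pvnc_main`, `pvcu_map`, `pvcu_cl` (260) ask REGION in the form "every layer vertex is joined OFF THE ZONE to ONE reference vertex (the first vertex of the last link)".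
At some live patterns the zone (tube of the free arc + fat discs `S₂`) ENCLOSES a domain which carries a pocket of the corridor (an excursion of the closing strand beyond the state region): its layer vertices are not joined to the reference off the zone.
But the proofs of 260 use the reference only through `pvnc_region`, PER LAYER VERTEX, and EVERY inner vertex of EVERY link of the chain is a legal reference: it is black, off the free arc, off the lane, off the two closed insides, and joined to `g₂⁻(s)` along the chain itself.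
* sec. 1  **`pvr0_visit`** (model free, metric): a discrete path with steps `≤ r` in the `s`-neighbourhood of a curve `P` with NO NEAR RETURN `PvtxNR P i0 i1 d e`, `2 s + r ≤ d`, has a vertex within `e + s` of EVERY `P i` between the parameters of its two ends
          (the parameter cannot jump over `i`).      So a link, which runs in the thin corridor round the closing strand of the witness, VISITS every pocket.
* sec. 2  **`pvr0_ref`**: the vertex `l` (`0 < l < n_j`) of the link `j` is joined to the vertex `1` of the last link off the SMALL zone `p ∪ X ∪` the two closed insides.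
* sec. 3  **`pvr0_map`** = `pvcu_map` of 260, **`pvr0_cl`** = `pvcu_cl` of 260, with REGION in the form:   every layer vertex is joined off the zone `Zn` (marks) to SOME inner vertex of SOME link.
All proved, no sorry.
-/

set_option autoImplicit false
set_option linter.unusedSectionVars false
set_option linter.unusedVariables false

namespace Claimed.Agent.R289

open Set Relation Claims.C0465

/-! ## 1. VISIT -/

/-- **VISIT**: `w 0 .. w n` a discrete path with steps `≤ r`, every vertex within `s` of the curve `P` on `[i0, i1]`, which has no near return at `(d, e)`, `2 s + r ≤ d`;   `w 0` is near `P ia`, `w n` is near `P ib`.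
Then every `P i`, `ia ≤ i ≤ ib`, has a vertex of the path within `e + s`. -/
theorem pvr0_visit {P : ℕ → ℂ} {i0 i1 : ℕ} {d e s r : ℝ} (NR : PvtxNR P i0 i1 d e) (hr : 0 ≤ r) {n : ℕ} {w : ℕ → ℂ} (step : ∀ k, k < n → ‖w (k + 1) - w k‖ ≤ r)
    (near : ∀ k, k ≤ n → ∃ i, i0 ≤ i ∧ i ≤ i1 ∧ ‖w k - P i‖ ≤ s) (hd : 2 * s + r ≤ d) {ia ib : ℕ} (hia : i0 ≤ ia) (h0 : ‖w 0 - P ia‖ ≤ s) (hib : i0 ≤ ib) (hb : ib ≤ i1) (hn : ‖w n - P ib‖ ≤ s)
    {i : ℕ} (hi : ia ≤ i) (hi' : i ≤ ib) : ∃ k, k ≤ n ∧ ‖w k - P i‖ ≤ e + s := by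
  classical
  -- a parameter for every vertex, `ib` for the last one
  have hφ : ∀ k, ∃ j, k ≤ n → (i0 ≤ j ∧ j ≤ i1 ∧ ‖w k - P j‖ ≤ s) ∧ (k = n → j = ib) := by
    intro k
    by_cases hk : k = n
    · exact ⟨ib, fun _ => ⟨⟨hib, hb, hk ▸ hn⟩, fun _ => rfl⟩⟩
    · by_cases hk' : k ≤ n
      · obtain ⟨j, hj⟩ := near k hk'
        exact ⟨j, fun _ => ⟨hj, fun h => absurd h hk⟩⟩
      · exact ⟨0, fun h => absurd h hk'⟩
  choose φ hφ using hφ
  -- the conclusion from two parameters `a ≤ i ≤ b` of two vertices at distance `≤ r`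
  have key : ∀ (x y : ℂ) (a b : ℕ), ‖y - x‖ ≤ r → i0 ≤ a → b ≤ i1 → ‖x - P a‖ ≤ s → ‖y - P b‖ ≤ s → a ≤ i → i ≤ b → ‖x - P i‖ ≤ e + s := by
    intro x y a b hxy ha hb' hx hy hai hib'
    have hdist : ‖P a - P b‖ ≤ d := by
      have e1 : P a - P b = (y - P b) - (y - x) - (x - P a) := by ring
      rw [e1]
      calc ‖(y - P b) - (y - x) - (x - P a)‖ ≤ ‖(y - P b) - (y - x)‖ + ‖x - P a‖ := norm_sub_le _ _
        _ ≤ (‖y - P b‖ + ‖y - x‖) + ‖x - P a‖ := by gcongr; exact norm_sub_le _ _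
        _ ≤ (s + r) + s := by gcongr
        _ ≤ d := by linarith
    have h1 := NR a b ha (hai.trans hib') hb' hdist i hai hib'
    have e2 : x - P i = (x - P a) - (P i - P a) := by ring
    rw [e2]
    calc ‖(x - P a) - (P i - P a)‖ ≤ ‖x - P a‖ + ‖P i - P a‖ := norm_sub_le _ _
      _ ≤ s + e := add_le_add hx h1
      _ = e + s := add_comm _ _
  -- the first vertex whose parameter is `≥ i`
  have hex : ∃ k, k ≤ n ∧ i ≤ φ k := ⟨n, le_rfl, by rw [(hφ n le_rfl).2 rfl]; exact hi'⟩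
  obtain ⟨hk1, hk2⟩ := Nat.find_spec hex
  rcases Nat.eq_zero_or_pos (Nat.find hex) with h | h
  · rw [h] at hk2
    obtain ⟨⟨-, a2, a3⟩, -⟩ := hφ 0 (Nat.zero_le _)
    exact ⟨0, Nat.zero_le _, key (w 0) (w 0) ia (φ 0) (by rw [sub_self, norm_zero]; exact hr) hia a2 h0 a3 hi hk2⟩
  · obtain ⟨k, hk⟩ : ∃ k, Nat.find hex = k + 1 := ⟨Nat.find hex - 1, by omega⟩
    rw [hk] at hk1 hk2
    have hmin : ¬ (k ≤ n ∧ i ≤ φ k) := Nat.find_min hex (by omega)
    have hlt : φ k < i := by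
      by_contra hc
      exact hmin ⟨by omega, by omega⟩
    obtain ⟨⟨a1, -, a3⟩, -⟩ := hφ k (by omega)
    obtain ⟨⟨-, b2, b3⟩, -⟩ := hφ (k + 1) hk1
    exact ⟨k, by omega, key (w k) (w (k + 1)) (φ k) (φ (k + 1)) (step k (by omega)) a1 b2 a3 b3 hlt.le hk2⟩

/-! ## 2. every inner vertex of every link is a reference of REGION -/

section chain

variable {V D : Type} {T : PvMap V D} {s : V → Bool}

/-- an inner vertex of a link is off the small zone -/
theorem pvr0_link_off {n : ℕ} {G : ℕ → T.Gate s} {I L : ℕ → T.Pth} (H : PvncChain T s n G I L) {p : T.Pth} {ip im : ℕ} (F : PvncFree T s n G I L p ip im)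
    {X : Set V} (hX : ∀ v ∈ X, s v = false) {j : ℕ} (hj : j < n) {k : ℕ} (h0 : 0 < k) (hk : k < (L j).n) :
    (L j).v k ∉ p.verts ∪ X ∪ T.VOf (G n).c.Left ∪ T.VOf (G 0).c.Left := by
  rintro (((⟨i, hi, e'⟩ | h) | h) | h)
  · exact F.offL i hi _ hj k h0 hk e'
  · have := hX _ h
    rw [pvnc_link_black H hj hk.le] at this
    exact Bool.noConfusion this
  · exact H.dLG n _ le_rfl hj k h0 hk h
  · exact H.dLG 0 _ (Nat.zero_le _) hj k h0 hk h

/-- a vertex of the closed inside of an inner gate is off the small zone as soon as it is black -/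
theorem pvr0_gate_off {n : ℕ} {G : ℕ → T.Gate s} {I L : ℕ → T.Pth} (H : PvncChain T s n G I L) {p : T.Pth} {ip im : ℕ} (F : PvncFree T s n G I L p ip im)
    {X : Set V} (hX : ∀ v ∈ X, s v = false) {j : ℕ} (h0 : 0 < j) (hj : j < n) {x : V} (hx : x ∈ T.VOf (G j).c.Left) (hb : s x = true) :
    x ∉ p.verts ∪ X ∪ T.VOf (G n).c.Left ∪ T.VOf (G 0).c.Left := by
  rintro (((⟨i, hi, e'⟩ | h) | h) | h)
  · exact F.offG i hi j h0 hj (e' ▸ hx)
  · have := hX _ h
    rw [hb] at this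
    exact Bool.noConfusion this
  · exact Set.disjoint_left.1 (H.dGG j n hj.le le_rfl (by omega)) hx h
  · exact Set.disjoint_left.1 (H.dGG j 0 hj.le (Nat.zero_le _) (by omega)) hx h

/-- a link has at least one dart -/
theorem pvr0_link_pos (hT : T.IsSph) {n : ℕ} {G : ℕ → T.Gate s} {I L : ℕ → T.Pth} (H : PvncChain T s n G I L) {j : ℕ} (hj : j < n) : 1 ≤ (L j).n := by
  by_contra hc
  have e0 : (L j).n = 0 := by omega
  have e : (G j).vp = (G (j + 1)).vm := by rw [← H.lk0 _ hj, ← H.lk1 _ hj, e0]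
  have hvp : (G j).vp ∈ T.VOf (G j).c.Left := ⟨(G j).c.e (G j).m, (pl_jordan hT (G j).c).2.1 _, rfl⟩
  exact Set.disjoint_left.1 (H.dGG j (j + 1) hj.le hj (by omega)) hvp (e ▸ pvgz_vm_mem hT _)

/-- **the vertex `1` of every link is joined to the vertex `1` of the last link along the chain, off the small zone** -/
theorem pvr0_ref_one (hT : T.IsSph) {n : ℕ} {G : ℕ → T.Gate s} {I L : ℕ → T.Pth} (H : PvncChain T s n G I L) {p : T.Pth} {ip im : ℕ} (F : PvncFree T s n G I L p ip im)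
    {X : Set V} (hX : ∀ v ∈ X, s v = false) : ∀ t j, j + t + 1 = n → (1 < (L j).n ∨ j + 1 < n ∨ t = 0) →
    ReflTransGen (fun u v => T.Adj u v ∧ v ∉ p.verts ∪ X ∪ T.VOf (G n).c.Left ∪ T.VOf (G 0).c.Left) ((L (n - 1)).v 1) ((L j).v 1) := by
  intro t
  induction t with
  | zero =>
    intro j hj _
    rw [show n - 1 = j by omega]
  | succ t ih =>
    intro j hj _
    have hj1 : j + 1 < n := by omega
    have hjn : j < n := by omega
    have h1 := ih (j + 1) (by omega) (by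
      rcases Nat.eq_zero_or_pos t with h | h
      · exact Or.inr (Or.inr h)
      · exact Or.inr (Or.inl (by omega)))
    have hin := (H.hinn (j + 1) hj1.le).1
    have good : ∀ k, k ≤ (I (j + 1)).n → (I (j + 1)).v k ∈ (p.verts ∪ X ∪ T.VOf (G n).c.Left ∪ T.VOf (G 0).c.Left)ᶜ := fun k hk =>
      pvr0_gate_off H F hX (Nat.succ_pos j) hj1 (pvgz_psg_mem hT _ hin hk) (hin.bl k hk)
    -- down the first dart of the link `j + 1`
    have w1 : ReflTransGen (fun u v => T.Adj u v ∧ v ∈ (p.verts ∪ X ∪ T.VOf (G n).c.Left ∪ T.VOf (G 0).c.Left)ᶜ) ((L (j + 1)).v 1) ((L (j + 1)).v 0) :=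
      pvnc_walk_dn (L (j + 1)) (Nat.zero_le 1) (pvr0_link_pos hT H hj1) fun k _ hk => by
        rw [show k = 0 by omega, H.lk0 _ hj1, ← hin.h1]
        exact good _ le_rfl
    -- down the inner path of the gate `j + 1`
    have w2 : ReflTransGen (fun u v => T.Adj u v ∧ v ∈ (p.verts ∪ X ∪ T.VOf (G n).c.Left ∪ T.VOf (G 0).c.Left)ᶜ) ((I (j + 1)).v (I (j + 1)).n) ((I (j + 1)).v 0) :=
      pvnc_walk_dn (I (j + 1)) (Nat.zero_le _) le_rfl fun k _ hk => good k hk.le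
    -- down the link `j`
    have w3 : ReflTransGen (fun u v => T.Adj u v ∧ v ∈ (p.verts ∪ X ∪ T.VOf (G n).c.Left ∪ T.VOf (G 0).c.Left)ᶜ) ((L j).v (L j).n) ((L j).v 1) :=
      pvnc_walk_dn (L j) (pvr0_link_pos hT H hjn) le_rfl fun k h0 hk => pvr0_link_off H F hX hjn (by omega) hk
    rw [H.lk0 _ hj1, ← hin.h1] at w1
    rw [hin.h0, ← H.lk1 _ hjn] at w2
    exact h1.trans (w1.trans (w2.trans w3))

/-- **EVERY INNER VERTEX OF EVERY LINK IS A REFERENCE**: it is joined to the vertex `1` of the last link off the small zone `p ∪ X ∪` the two closed insides -/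
theorem pvr0_ref (hT : T.IsSph) {n : ℕ} {G : ℕ → T.Gate s} {I L : ℕ → T.Pth} (H : PvncChain T s n G I L) {p : T.Pth} {ip im : ℕ} (F : PvncFree T s n G I L p ip im)
    {X : Set V} (hX : ∀ v ∈ X, s v = false) {j : ℕ} (hj : j < n) {l : ℕ} (hl0 : 0 < l) (hl : l < (L j).n) :
    ReflTransGen (fun u v => T.Adj u v ∧ v ∉ p.verts ∪ X ∪ T.VOf (G n).c.Left ∪ T.VOf (G 0).c.Left) ((L (n - 1)).v 1) ((L j).v l) :=
  (pvr0_ref_one hT H F hX (n - 1 - j) j (by omega) (Or.inl (by omega))).trans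
    (pvnc_walk_up (L j) (X := (p.verts ∪ X ∪ T.VOf (G n).c.Left ∪ T.VOf (G 0).c.Left)ᶜ) hl0 hl.le fun k h1 h2 => pvr0_link_off H F hX hj (by omega) (by omega))

/-- **REGION, one reference per layer vertex** ⟹ REGION of `pvnc_main`, `pvnc_total` (260) at the small zone, reference = the vertex `1` of the last link -/
theorem pvr0_region (hT : T.IsSph) {n : ℕ} {G : ℕ → T.Gate s} {I L : ℕ → T.Pth} (H : PvncChain T s n G I L) {p : T.Pth} {ip im : ℕ} (F : PvncFree T s n G I L p ip im)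
    {X : Set V} (hX : ∀ v ∈ X, s v = false) {Fz : Set V} (hpF : p.verts ⊆ Fz) (hXF : X ⊆ Fz) (hsF : T.VOf (G n).c.Left ⊆ Fz) (htF : T.VOf (G 0).c.Left ⊆ Fz) {Λ : Set V}
    (hΛ : ∀ a ∈ Λ, ∃ j, j < n ∧ ∃ l, 0 < l ∧ l < (L j).n ∧ ReflTransGen (fun u v => T.Adj u v ∧ v ∉ Fz) ((L j).v l) a) :
    ∀ a ∈ Λ, ReflTransGen (fun u v => T.Adj u v ∧ v ∉ p.verts ∪ X ∪ T.VOf (G n).c.Left ∪ T.VOf (G 0).c.Left) ((L (n - 1)).v 1) a := by
  intro a ha
  obtain ⟨j, hj, l, hl0, hl, hw⟩ := hΛ a ha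
  refine (pvr0_ref hT H F hX hj hl0 hl).trans (ReflTransGen.mono (fun u v h => ⟨h.1, ?_⟩) _ _ hw)
  rintro (((h' | h') | h') | h')
  · exact h.2 (hpF h')
  · exact h.2 (hXF h')
  · exact h.2 (hsF h')
  · exact h.2 (htF h')

end chain

/-! ## 3. `pvcu_map`, `pvcu_cl` of 260 with REGION in the new form -/

section map

variable {V D : Type}

variable [DecidableEq V] {T : PvMap V D} {s : V → Bool} {mk : V → ℂ} {n : ℕ} {𝔢 : ℕ → PvkjEnd ℂ} {KE Mk U : ℕ → Set ℂ} {𝔯s 𝔯t : PvspReg ℂ} {Ug Zn UN Lam Bs Bt B : Set ℂ} {a₀ : ℝ}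

/-- **CLOSE OF A PATTERN AT ONE MARKED COLOURED SPHERE** (`pvcu_map` of 260), REGION with one reference per layer vertex: every layer vertex is joined off the zone to SOME inner vertex of SOME link -/
theorem pvr0_map (hT : T.IsSph) (hS : T.Simple) (Rg : PvcuReg n 𝔢 KE Mk U 𝔯s 𝔯t Ug Zn B a₀) {g : ℕ → T.Gate s} {N : ℕ → ℕ} (hfin : ∀ j, j ≤ n → (g j).c.Left.Finite)
    (H : ∀ j, j < n → PvkjLk T mk s (𝔢 j) (𝔢 (j + 1)) (KE j) (g j) (g (j + 1)) (N j))
    (blk : ∀ j, j < n → ∀ i, i < (pvtArc T s (g j).aOut (N j)).n → T.bary mk (T.opp ((pvtArc T s (g j).aOut (N j)).e i)) ∈ Mk j)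
    (binn : ∀ j, j < n → ∀ i, i < (pvtArc T s (g (j + 1)).aIn (g (j + 1)).len).n → T.bary mk (T.opp ((pvtArc T s (g (j + 1)).aIn (g (j + 1)).len).e i)) ∈ U (j + 1))
    {Ss St : PvspSt T s} {p : T.Pth} (A : PvcuArc T s mk 𝔯s 𝔯t Ug UN Lam Ss St p) (M : PvcuMk T mk (Mk (n - 1)) (Mk 0) Bs Bt Ss St p)
    {X : Set V} (hX : ∀ v ∈ X, s v = false ∧ mk v ∈ Zn) {r r' : V} (hr : r ∈ Ss.g2.R) (hr' : r' ∈ St.g2.R) (hlane : T.Join Set.univ X r' r)
    (hreg : ∀ a : V, mk a ∈ Lam → ∃ j, j < n ∧ ∃ l, 0 < l ∧ l < (pvtArc T s (g j).aOut (N j)).n ∧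
      ReflTransGen (fun u v => T.Adj u v ∧ mk v ∉ Zn) ((pvtArc T s (g j).aOut (N j)).v l) a) :
    ∃ P : T.Cyc, P.IsRim s ∧ (∀ k, mk (T.src (P.e k)) ∈ B) ∧ (∃ k k', a₀ ≤ ‖mk (T.src (P.e k)) - mk (T.src (P.e k'))‖) ∧
      ∑ k ∈ Finset.range P.n, T.qpart mk (T.opp (P.e k)) = pvdcX (T.bary mk) (T.qpart mk) Bs Bt Ss.inn p +
        ∑ j ∈ Finset.range n, ((pvtArc T s (g j).aIn (g j).len).psum (pvcuW T mk (Mk j)) + (pvtArc T s (g j).aOut (N j)).psum (pvcuW T mk (Mk j)) +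
          (pvtArc T s (g (j + 1)).aIn (g (j + 1)).len).psum (pvcuW T mk (Mk j))) := by
  have G := Rg.geo
  have hn := G.pos
  have hn2 := Rg.two
  have his : ∀ j, j ≤ n → (𝔢 j).Is V D T mk s (g j) := by
    intro j hj
    rcases Nat.lt_or_ge j n with h | h
    · exact (H j h).is
    · have := (H (n - 1) (by omega)).is'
      rwa [show n - 1 + 1 = j by omega] at this
  have hz : ∀ i, i ≤ n → ∀ x, x ∈ T.VOf (g i).c.Left → mk x ∈ (𝔢 i).Z := by
    rintro i hi x ⟨d, hd, rfl⟩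
    exact (G.ok i hi).zone V D T mk s (g i) (his i hi) d hd
  have hdeep : ∀ i, i ≤ n → ∀ x, mk x ∈ (𝔢 i).I → x ∈ T.Int (g i).c.Left := by
    intro i hi x hx d hd
    subst hd
    exact (G.ok i hi).deep V D T mk s (g i) (his i hi) d hx
  have hgn : g n = Ss.g2 := G.uq n le_rfl V D T mk s hT hS _ _ (his n le_rfl) (by rw [Rg.en]; exact ⟨A.stars, Ss, A.ats, rfl⟩)
  have hg0 : g 0 = St.g2 := G.uq 0 (Nat.zero_le _) V D T mk s hT hS _ _ (his 0 (Nat.zero_le _)) (by rw [Rg.e0]; exact ⟨A.start, St, A.att, rfl⟩)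
  have h0 : mk (g 0).vm ∉ KE 0 := by
    intro h
    have h2 : mk (g 0).vm ∈ (𝔢 0).I := by
      rw [Rg.e0]
      exact Rg.hNm ⟨by rw [hg0]; exact A.att.vm, h⟩
    exact pvgz_verts_not_int hT (g 0).c 0 (hdeep 0 (Nat.zero_le _) _ h2)
  have h1 : mk (g n).vp ∉ KE (n - 1) := by
    intro h
    have h2 : mk (g n).vp ∈ (𝔢 n).I := by
      rw [Rg.en]
      exact Rg.hNp ⟨by rw [hgn]; exact A.ats.vp, h⟩
    exact pvgz_verts_not_int hT (g n).c (g n).m (hdeep n le_rfl _ h2)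
  have C := pvcu_chain hT hS G hfin H h0 h1
  obtain ⟨I, hI⟩ : ∃ I : ℕ → T.Pth, I = fun j => pvtArc T s (g j).aIn (g j).len := ⟨_, rfl⟩
  obtain ⟨L, hL⟩ : ∃ L : ℕ → T.Pth, L = fun j => pvtArc T s (g j).aOut (N j) := ⟨_, rfl⟩
  have eI : ∀ j, pvtArc T s (g j).aIn (g j).len = I j := fun j => by rw [hI]
  have eL : ∀ j, pvtArc T s (g j).aOut (N j) = L j := fun j => by rw [hL]
  rw [← hI, ← hL] at C
  simp only [eI, eL] at blk binn hreg ⊢
  have hKS : ∀ j, j < n → ∀ k, k ≤ (L j).n → (L j).v k ∈ pvzlKS T mk (KE j) (g j) (g (j + 1)) := fun j hj k hk => by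
    rw [← eL] at hk ⊢
    exact (pvkj_lk_verts (H j hj).run hk).1
  -- the inner arcs of the two states
  have hsI : (g n).IsInn Ss.inn := by
    rw [hgn]
    exact pvgz_inn_of_le hT hS Ss.g2 (hgn ▸ hfin n le_rfl) A.ats.sel2.thru A.ats.arc
  have htI : (g 0).IsInn St.inn := by
    rw [hg0]
    exact pvgz_inn_of_le hT hS St.g2 (hg0 ▸ hfin 0 (Nat.zero_le _)) A.att.sel2.thru A.att.arc
  obtain ⟨sn, se⟩ := pvgz_inn_unique hT hS (g n) hsI (C.hinn n le_rfl)
  obtain ⟨tn, te⟩ := pvgz_inn_unique hT hS (g 0) htI (C.hinn 0 (Nat.zero_le _))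
  have sv : ∀ i, i ≤ Ss.inn.n → Ss.inn.v i = (I n).v i := fun i hi => pvgz_pth_v sn (by rw [hsI.1.h0, (C.hinn n le_rfl).1.h0]) se hi
  have tv : ∀ i, i ≤ St.inn.n → St.inn.v i = (I 0).v i := fun i hi => pvgz_pth_v tn (by rw [htI.1.h0, (C.hinn 0 (Nat.zero_le _)).1.h0]) te hi
  have a1 := A.ats.im_lt
  have a2 := A.ats.ip_le
  have a3 := A.att.im_lt
  have a4 := A.att.ip_le
  have F : PvncFree T s n g I L p Ss.ip St.im := by
    refine ⟨by omega, by omega, by omega, ?_, ?_, fun k hk i hi => ?_, fun k hk i hi hin => ?_, fun k hk i i0 hi hx => ?_, fun k hk j hj l l0 l1 e => ?_⟩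
    · rw [A.src, ← A.ats.ip_eq, sv _ a2]
    · rw [A.tgt, ← A.att.im_eq, tv _ (by omega)]
    · rw [← sv i (by omega)]; exact A.avs k hk i hi
    · rw [← tv i (by omega)]; exact A.avt k hk i hi (by omega)
    · exact Set.disjoint_left.1 (Rg.dUZ i i0 hi) (A.tube k hk) (hz i hi.le _ hx)
    · have hks := hKS j hj l l1.le
      rcases Rg.dUK j hj ⟨A.tube k hk, e ▸ hks.1⟩ with h | h
      · exact hks.2.1 (hdeep j hj.le _ (e ▸ h))
      · exact hks.2.2 (hdeep (j + 1) hj _ (e ▸ h))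
  -- zone, REGION
  have hpF : p.verts ⊆ {v | mk v ∈ Zn} := by
    rintro _ ⟨i, hi, rfl⟩
    exact Rg.UgZ (A.tube i hi)
  have hsF : T.VOf (g n).c.Left ⊆ {v | mk v ∈ Zn} := fun x hx => by
    have := hz n le_rfl x hx
    rw [Rg.en] at this
    exact Rg.ZsZ this
  have htF : T.VOf (g 0).c.Left ⊆ {v | mk v ∈ Zn} := fun x hx => by
    have := hz 0 (Nat.zero_le _) x hx
    rw [Rg.e0] at this
    exact Rg.ZtZ this
  have hj1 : n - 1 < n := by omega
  have hvpm : (g (n - 1)).vp ∈ T.VOf (g (n - 1)).c.Left := ⟨(g (n - 1)).c.e (g (n - 1)).m, (pl_jordan hT (g (n - 1)).c).2.1 _, rfl⟩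
  have hl : 1 ≤ (L (n - 1)).n := by
    by_contra hc
    have e0 : (L (n - 1)).n = 0 := by omega
    have e : (g (n - 1)).vp = (g (n - 1 + 1)).vm := by rw [← C.lk0 _ hj1, ← C.lk1 _ hj1, e0]
    exact Set.disjoint_left.1 (C.dGG (n - 1) (n - 1 + 1) (by omega) (by omega) (by omega)) hvpm (e ▸ pvgz_vm_mem hT _)
  have hΛ := pvr0_region hT C F (X := X) (fun v hv => (hX v hv).1) hpF (fun v hv => (hX v hv).2) hsF htF (Λ := {v | mk v ∈ Lam}) (fun a ha => hreg a ha)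
  have hN : pvtaN p s {v | mk v ∈ UN} ({(I n).rap (Ss.ip - 1)} ∪ {v | mk v ∈ Lam}) := by
    have e : (I n).rap (Ss.ip - 1) = Ss.inn.rap (Ss.ip - 1) := by
      unfold PvMap.Pth.rap
      rw [se _ (by omega)]
    rw [e]
    exact A.faced
  -- the weights
  have dIn : ∀ {Bx : Set ℂ} {d : D}, T.bary mk d ∈ Bx → pvdcW (T.bary mk) (T.qpart mk) Bx d = T.qpart mk d := fun h => if_pos h
  have dOut : ∀ {Bx : Set ℂ} {d : D}, T.bary mk d ∉ Bx → pvdcW (T.bary mk) (T.qpart mk) Bx d = 0 := fun h => if_neg h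
  obtain ⟨P, hrim, hPI, -, -, hPv, hsum⟩ := pvnc_total hT hS C hn F A.black (X := X) (fun v hv => (hX v hv).1) (r := r) (r' := r') (by rw [hgn]; exact hr) (by rw [hg0]; exact hr') hlane
    (Fz := p.verts ∪ X ∪ T.VOf (g n).c.Left ∪ T.VOf (g 0).c.Left) (fun v hv => Or.inl (Or.inl (Or.inl hv))) (fun v hv => Or.inl (Or.inl (Or.inr hv))) (fun v hv => Or.inl (Or.inr hv)) (fun v hv => Or.inr hv)
    Nat.one_pos hl hΛ hN (T.qpart mk) (pvdcW (T.bary mk) (T.qpart mk) Bs) (pvdcW (T.bary mk) (T.qpart mk) (Bs ∪ Bt)ᶜ) (fun j => pvcuW T mk (Mk j))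
    (fun j hj k hk => pvcu_W_in (blk j hj k hk))
    (fun j j0 hj k hk => by
      have hb := binn (j - 1) (by omega)
      rw [show j - 1 + 1 = j by omega] at hb
      rcases Rg.UM j j0 hj (hb k hk) with h | h
      · rw [pvcu_W_in h, pvcu_W_out (fun h' => Set.disjoint_left.1 (Rg.dMM j j0 hj) h h'), add_zero]
      · rw [pvcu_W_in h, pvcu_W_out (fun h' => Set.disjoint_left.1 (Rg.dMM j j0 hj) h' h), zero_add])
    (fun k hk => by
      rw [← se k (by omega)]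
      by_cases h : T.bary mk (T.opp (Ss.inn.e k)) ∈ Bs
      · rw [dIn h, pvcu_W_out (fun h' => (M.s1 k hk).1 h' h), zero_add]
      · rw [dOut h, pvcu_W_in ((M.s1 k hk).2 h), add_zero])
    (fun k hk hk' => by
      rw [← se k (by omega)]
      obtain ⟨b1, b2⟩ := M.s2 k hk (by omega)
      rw [pvcu_W_out b1, zero_add]
      by_cases h : T.bary mk (T.opp (Ss.inn.e k)) ∈ Bs
      · rw [dIn h, dOut (Bx := (Bs ∪ Bt)ᶜ) (fun h' => h' (Or.inl h)), add_zero]
      · rw [dOut h, dIn (show _ ∈ (Bs ∪ Bt)ᶜ from fun h' => h'.elim h b2), zero_add])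
    (fun k hk => by
      rw [← te k (by omega)]
      by_cases h : T.bary mk (T.opp (St.inn.e k)) ∈ Bs ∪ Bt
      · rw [pvcu_W_in ((M.t1 k hk).2 h), dOut (Bx := (Bs ∪ Bt)ᶜ) (fun h' => h' h), add_zero]
      · rw [pvcu_W_out (fun h' => h ((M.t1 k hk).1 h')), dIn (show _ ∈ (Bs ∪ Bt)ᶜ from h), zero_add])
    (fun k hk hk' => by
      rw [← te k (by omega)]
      exact pvcu_W_in (M.t2 k hk (by omega)))
    (fun k hk hk' => dIn (show _ ∈ (Bs ∪ Bt)ᶜ from M.y k (by omega) hk'))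
  refine ⟨P, hrim, fun k => ?_, ?_, ?_⟩
  · rcases hPv k with ⟨j, hj, i, hi, e⟩ | ⟨j, hj, i, hi, e⟩ | ⟨i, hi, e⟩
    · rw [← e]
      exact Rg.ZB j hj (hz j hj _ (pvgz_psg_mem hT (g j) (C.hinn j hj).1 hi))
    · rw [← e]
      exact Rg.KB j hj (hKS j hj i hi).1
    · rw [← e]
      exact Rg.UB (A.tube i hi)
  · obtain ⟨k, hk⟩ := hPI 0 (Nat.zero_le _) 0 (pvgz_psg_pos (g 0) (C.hinn 0 (Nat.zero_le _)).1)
    obtain ⟨k', hk'⟩ := hPI n le_rfl 0 (pvgz_psg_pos (g n) (C.hinn n le_rfl).1)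
    refine ⟨k, k', Rg.big _ ?_ _ ?_⟩
    · rw [hk, (I 0).src_e 0 (pvgz_psg_pos (g 0) (C.hinn 0 (Nat.zero_le _)).1)]
      have := hz 0 (Nat.zero_le _) _ (pvgz_psg_mem hT (g 0) (C.hinn 0 (Nat.zero_le _)).1 (Nat.zero_le _))
      rwa [Rg.e0] at this
    · rw [hk', (I n).src_e 0 (pvgz_psg_pos (g n) (C.hinn n le_rfl).1)]
      have := hz n le_rfl _ (pvgz_psg_mem hT (g n) (C.hinn n le_rfl).1 (Nat.zero_le _))
      rwa [Rg.en] at this
  · rw [hsum]
    congr 1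
    unfold pvdcX
    rw [pvnc_psum_congr sn se]

end map

section conf

variable {n : ℕ} {𝔢 : ℕ → PvkjEnd ℂ} {KE Mk U : ℕ → Set ℂ} {𝔯s 𝔯t : PvspReg ℂ} {Ug Zn UN Lam Bs Bt B : Set ℂ} {a₀ : ℝ}

/-- **THE CLOSE OF A PATTERN AT ONE CONFIGURATION** (`pvcu_cl` of 260; REGION: for ANY runs of the links, every layer site is joined off the zone to SOME inner vertex of SOME link) (TR13 + TR14): `n` facts of 113 along the chain `t → … → s`, the free arc of 212 on the plane map, the lane of 147, zone / REGION, the masks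
⟹   a rim of the plane map, inside `B`, two vertices `a₀` apart, of `Q`-mass `X_g + ∑_j X_j`   (the clause `PvdeCl` of `PvnjPar.Cl`, `PvraCl`) -/
theorem pvr0_cl (Rg : PvcuReg n 𝔢 KE Mk U 𝔯s 𝔯t Ug Zn B a₀) {η : Conf PvPt} (hη : DelGood (cfSites η)) {b : Bool} {X : ℕ → ℂ}
    (hF : ∀ j, j < n → ∃ g g' N, PvkjFt η b (𝔢 j) (𝔢 (j + 1)) (KE j) (Mk j) (U (j + 1)) (X j) g g' N)
    {Ss St : PvspSt (pvkiT η) (pvlfFl b (pvkiS η))} {p : (pvkiT η).Pth} (A : PvcuArc (pvkiT η) (pvlfFl b (pvkiS η)) Subtype.val 𝔯s 𝔯t Ug UN Lam Ss St p)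
    (M : PvcuMk (pvkiT η) Subtype.val (Mk (n - 1)) (Mk 0) Bs Bt Ss St p)
    {Xl : Set ↥(cfSites η)} (hX : ∀ v ∈ Xl, pvlfFl b (pvkiS η) v = false ∧ (v : ℂ) ∈ Zn) {r r' : ↥(cfSites η)} (hr : r ∈ Ss.g2.R) (hr' : r' ∈ St.g2.R)
    (hlane : (pvkiT η).Join Set.univ Xl r' r)
    (hreg : ∀ (g : ℕ → (pvkiT η).Gate (pvlfFl b (pvkiS η))) (N : ℕ → ℕ),
      (∀ j, j < n → PvkjLk (pvkiT η) Subtype.val (pvlfFl b (pvkiS η)) (𝔢 j) (𝔢 (j + 1)) (KE j) (g j) (g (j + 1)) (N j)) → ∀ a : ↥(cfSites η), (a : ℂ) ∈ Lam →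
        ∃ j, j < n ∧ ∃ l, 0 < l ∧ l < (pvtArc (pvkiT η) (pvlfFl b (pvkiS η)) (g j).aOut (N j)).n ∧
          ReflTransGen (fun u v => (pvkiT η).Adj u v ∧ (v : ℂ) ∉ Zn) ((pvtArc (pvkiT η) (pvlfFl b (pvkiS η)) (g j).aOut (N j)).v l) a) :
    ∃ c : (pvieT η).Cyc, PvdeCl 0 B a₀ η c (pvdcX ((pvkiT η).bary Subtype.val) ((pvkiT η).qpart Subtype.val) Bs Bt Ss.inn p + ∑ j ∈ Finset.range n, X j) := by
  have hT : (pvkiT η).IsSph := delb_plane_isSph hη
  have hS : (pvkiT η).Simple := (delbPl (cfSites η)).toMap_simple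
  have hn := Rg.geo.pos
  obtain ⟨g, N, hg⟩ := pvcu_glue (T := pvkiT η) (s := pvlfFl b (pvkiS η)) (mk := Subtype.val) hT hS Rg.geo
    (P := fun j g g' N => PvkjFt η b (𝔢 j) (𝔢 (j + 1)) (KE j) (Mk j) (U (j + 1)) (X j) g g' N)
    (fun j hj => by
      obtain ⟨g, g', N, h⟩ := hF j hj
      exact ⟨g, g', N, h.lk, h⟩)
  have hfin : ∀ j, j ≤ n → (g j).c.Left.Finite := by
    intro j hj
    rcases Nat.lt_or_ge j n with h | h
    · exact (hg j h).2.fin
    · have := (hg (n - 1) (by omega)).2.fin'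
      rwa [show n - 1 + 1 = j by omega] at this
  obtain ⟨P, hrim, hB, hbig, hsum⟩ := pvr0_map hT hS Rg hfin (fun j hj => (hg j hj).1) (fun j hj => (hg j hj).2.blk) (fun j hj => (hg j hj).2.binn) A M hX hr hr' hlane
    (hreg g N fun j hj => (hg j hj).1)
  refine ⟨P, ⟨b, hrim⟩, hB, hbig, ?_⟩
  have e1 : ∑ j ∈ Finset.range n, X j = ∑ j ∈ Finset.range n, ((pvtArc (pvkiT η) (pvlfFl b (pvkiS η)) (g j).aIn (g j).len).psum (pvcuW (pvkiT η) Subtype.val (Mk j)) +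
      (pvtArc (pvkiT η) (pvlfFl b (pvkiS η)) (g j).aOut (N j)).psum (pvcuW (pvkiT η) Subtype.val (Mk j)) +
      (pvtArc (pvkiT η) (pvlfFl b (pvkiS η)) (g (j + 1)).aIn (g (j + 1)).len).psum (pvcuW (pvkiT η) Subtype.val (Mk j))) :=
    Finset.sum_congr rfl fun j hj => (hg j (Finset.mem_range.1 hj)).2.val
  rw [e1, ← hsum]
  refine Finset.sum_congr rfl fun k _ => ?_
  show (pvkiT η).qpart Subtype.val ((pvkiT η).opp (P.e k)) = (pvkiT η).qpart Subtype.val ((pvkiT η).opp (P.e k)) - 0 * (pvkiT η).side Subtype.val ((pvkiT η).opp (P.e k))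
  rw [zero_mul, sub_zero]

end conf

end Claimed.Agent.R289
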