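-- KEEP
import Claimed.Agent.R289.Tr.CloseN

/-!
# Row 289 (S0537), THE WALL, ROAD P, file Tr/CloseZ : SIDE FOR THE CYCLE THROUGH THE FEET (P20 of 273; for `Tr/CloseNF` of 186)      (author helper185; prefix `pvftz_`)

`Z` = any cycle which contains the dart `foot → g⁺` (`= opp aOut`) of a gate `g` and NO OTHER EDGE OF THE INNER STRAND of `g`.   Then all the faces crossed by the inner strand lie on the left of `Z`
(backward induction along `pvasIt`), so `g⁻` is a vertex of `Left Z`.      `pvftz_vm_left`: the cycle `y ∪ q`, `y` black from `g⁺(s)` to `g⁻(t)` off the two closed insides, `q` white inside, last inner vertex = the exit foot of `g(s)`.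
No witness dart, no sector, no hypothesis on where `q` runs.
-/

set_option autoImplicit false
set_option linter.unusedVariables false

namespace Claimed.Agent.R289

open Relation

variable {V D : Type} {T : PvMap V D} {s : V → Bool}

/-- **SIDE ALONG THE STRAND** -/
theorem pvftz_strand_left (g : T.Gate s) (hthru : g.Thru) (Z : T.Cyc) (hfoot : T.opp g.aOut ∈ Z.Left)
    (hoff : ∀ i, i < g.len → ¬ T.Edg Z.darts (pvasIt T s g.aIn i)) : ∀ i, i < g.len → pvasIt T s g.aIn i ∈ Z.Left := by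
  have hF := pl_left_face Z
  have hlen : pvasIt T s g.aIn g.len = g.aOut := hthru
  have key : ∀ k i, i + k + 1 = g.len → pvasIt T s g.aIn i ∈ Z.Left := by
    intro k
    induction k with
    | zero =>
      intro i hi
      rw [← pvas_step_opp_mem hF s, ← pvas_it_succ, show i + 1 = g.len by omega, hlen]
      exact hfoot
    | succ k ih =>
      intro i hi
      have h1 := ih (i + 1) (by omega)
      rw [← pvas_step_opp_mem hF s, ← pvas_it_succ]
      by_contra hc
      exact hoff (i + 1) (by omega) (pl_left_bd_sub Z fun h => hc (h.1 h1))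
  intro i hi
  exact key (g.len - i - 1) i (by omega)

/-- **`g⁻(s)` IS STRICTLY ON THE LEFT OF THE CYCLE THROUGH THE FEET** -/
theorem pvftz_vm_left (hT : T.IsSph) (hS : T.Simple) (gs gt : T.Gate s) (hthru : gs.Thru) (hdis : Disjoint (T.VOf gs.c.Left) (T.VOf gt.c.Left))
    (y q : T.Pth) (hyq : y.Glue q) (hq2 : 2 ≤ q.n) (hy : pvtaB y s) (hq : ∀ i, 0 < i → i < q.n → s (q.v i) = false)
    (y0 : y.v 0 = gs.vp) (y1 : y.v y.n = gt.vm) (hoffy : ∀ k, 0 < k → k < y.n → y.v k ∉ T.VOf gs.c.Left) (hfoot : q.v (q.n - 1) = T.tgt gs.aOut) :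
    gs.vm ∈ T.Int (y.glue q hyq).Left := by
  obtain ⟨hR, hL, hO, -⟩ := pl_jordan hT gs.c
  obtain ⟨-, hZL, -, -⟩ := pl_jordan hT (y.glue q hyq)
  have hbw := fun i => pvas_it_bw (pvtg_aIn_bw gs) i
  have hin : ∀ i, i < gs.len → pvasIt T s gs.aIn i ∈ gs.c.Left := fun i hi => by
    have := pvas_hit_min (T := T) (s := s) (d := gs.aIn) (Z := gs.c.Leftᶜ) hi
    simpa using this
  have hout : gs.aOut ∉ gs.c.Left := by
    have h1 : gs.aOut ∈ gs.c.Right := hO (gs.m - 1)
    rw [hR] at h1
    exact h1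
  -- the last dart of `q`
  have elast : q.e (q.n - 1) = T.opp gs.aOut := by
    apply hS
    · rw [q.src_e _ (by omega), hfoot, T.src_opp']
    · rw [q.tgt_e _ (by omega), show q.n - 1 + 1 = q.n by omega, hyq.h2, y0, T.tgt_opp, pvtg_aOut_src]
  have hf : T.opp gs.aOut ∈ (y.glue q hyq).Left := by
    rw [← elast, ← pl_pth_glue_e2 y q hyq (show q.n - 1 < q.n by omega)]
    exact hZL _
  have hlen0 : 0 < gs.len := by
    rcases Nat.eq_zero_or_pos gs.len with h | h
    · exfalso
      have e : pvasIt T s gs.aIn gs.len = gs.aOut := hthru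
      rw [h] at e
      exact hout (e ▸ hL 0)
    · exact h
  have hedge : ∀ i, i < gs.len → ¬ T.Edg (y.glue q hyq).darts (pvasIt T s gs.aIn i) := by
    intro i hi hE
    obtain ⟨b1, b2⟩ := hbw i
    rw [show T.Edg (y.glue q hyq).darts (pvasIt T s gs.aIn i) ↔ (pvasIt T s gs.aIn i ∈ (y.glue q hyq).darts ∨ T.opp (pvasIt T s gs.aIn i) ∈ (y.glue q hyq).darts) from Iff.rfl,
      pl_pth_glue_darts] at hE
    rcases hE with (⟨k, hk, e⟩ | ⟨k, hk, e⟩) | (⟨k, hk, e⟩ | ⟨k, hk, e⟩)
    · rw [← e, y.tgt_e k hk, hy _ (by omega)] at b2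
      exact Bool.noConfusion b2
    · rcases Nat.eq_zero_or_pos k with rfl | k0
      · have h1 : T.src (pvasIt T s gs.aIn i) = gt.vm := by rw [← e, q.src_e 0 hk, ← hyq.h1, y1]
        exact Set.disjoint_left.1 hdis ⟨_, hin i hi, rfl⟩ (h1 ▸ pvgz_vm_mem hT gt)
      · rw [← e, q.src_e k hk, hq k k0 hk] at b1
        exact Bool.noConfusion b1
    · have h1 : T.tgt (pvasIt T s gs.aIn i) = y.v k := by rw [← T.src_opp', ← e, y.src_e k hk]
      rw [h1, hy _ hk.le] at b2
      exact Bool.noConfusion b2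
    · rcases Nat.lt_or_ge (k + 1) q.n with k1 | k1
      · have h1 : T.src (pvasIt T s gs.aIn i) = q.v (k + 1) := by rw [← T.tgt_opp, ← e, q.tgt_e k hk]
        rw [h1, hq _ (by omega) k1] at b1
        exact Bool.noConfusion b1
      · have e2 : k = q.n - 1 := by omega
        rw [e2, elast] at e
        have e3 : pvasIt T s gs.aIn i = gs.aOut := by rw [← T.opp_opp (pvasIt T s gs.aIn i), ← e, T.opp_opp]
        exact hout (e3 ▸ hin i hi)
  have h0 : gs.aIn ∈ (y.glue q hyq).Left := pvftz_strand_left gs hthru _ hf hedge 0 hlen0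
  have h1 : gs.vm ∈ T.VOf (y.glue q hyq).Left := ⟨gs.aIn, h0, rfl⟩
  rw [pl_VOf_left hT] at h1
  refine h1.resolve_left ?_
  rw [pl_pth_glue_verts]
  rintro (⟨k, hk, e⟩ | ⟨k, hk, e⟩)
  · rcases Nat.eq_zero_or_pos k with rfl | k0
    · exact pvtg_ne gs (by rw [← e, y0])
    · rcases Nat.lt_or_ge k y.n with k1 | k1
      · exact hoffy k k0 k1 (e ▸ pvgz_vm_mem hT gs)
      · rw [show k = y.n by omega, y1] at e
        exact Set.disjoint_left.1 hdis (pvgz_vm_mem hT gs) (e ▸ pvgz_vm_mem hT gt)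
  · rcases Nat.eq_zero_or_pos k with rfl | k0
    · rw [← hyq.h1, y1] at e
      exact Set.disjoint_left.1 hdis (pvgz_vm_mem hT gs) (e ▸ pvgz_vm_mem hT gt)
    · rcases Nat.lt_or_ge k q.n with k1 | k1
      · have := hq k k0 k1
        rw [e, pvtg_vm gs] at this
        exact Bool.noConfusion this
      · rw [show k = q.n by omega, hyq.h2, y0] at e
        exact pvtg_ne gs e.symm

end Claimed.Agent.R289
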