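import Claimed.Agent.R289.Tr.C12
import Claimed.Agent.R289.Tr.Geo
import Claimed.Agent.R289.Tr.AccWM
import Claimed.Agent.R289.Tr.DatC2
import Claimed.Agent.R289.Tr.C2Dom

/-!
# Row 289 (S0537), THE WALL, ROAD E, file Tr/ColP : THE CELL OF A SHIELD AGAINST THE RESAMPLED REGION, BY THE PLANE ROUTE      (helper63; prefix `pvq6_`, `pvq6`)

WHY.   KIT v2 of 29 (12:28Z): `E(D) := NBon MF`, `MF` = the sites of `NU` of the pattern FATTENED by the non far region `(pvgeFar C r)ᶜ`.      (C2) / `dom` then asks `hM`: the sites strictly on the right of `Z = g₀ ∪ q` (`q` any shield) lie in that class,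
in particular they are FAR from the resampled region `C` (item (iii) of `origin/helper63:notes/R289/N1K_63.md`).      Nothing is known on the configuration inside `C` (no mesh there unless the `Y` side succeeds): ROUTE B = the plane.
* sec. 1  `pvq6_conv_sq`, **`pvq6_power`** (power of the point: a common point `x` of a chord `[a,b]` of a circle and of a segment `[v,c]` with ends not inside has `|x-a| |x-b| ≤ |v-c|²/4`)
* sec. 2  `pvq6W Y T₀ κ` = `T₀` with its whiskers `[v,c]` (`v` a site, `c ∈ T₀`, `|v-c| ≤ κ`): preconnected (`pvq6_W_preconn`);   **`pvq6_edge_off`**: a Delaunay edge with both ends at distance `≥ d₀` from `T₀` misses it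
          [the edge is a chord of an empty disc which misses `T₀`: `pvge_no_bridge` of 29, collar mesh `r` round `T₀` ONLY;   `3 r ≤ d₀`, `3 κ / 2 < d₀`;   NO bound on the length of the edge]
* sec. 3  `pvq6_side` (any `PlGeo`), `pvq6_poly_off`, **`pvq6_one_side`**, `pvq6_right_off`, `pvq6_far_of`, `pvq6_collar_of_patch` (the collar mesh round `T₀` from the mesh of the kept patch = guard L1 of 170)
* sec. 4  **`pvq6Fat π S`** = the pattern with `Ycol ∪ S`: `pvq6_fat_wf`, `pvq6_fat_col` (`col` of `PvknGeo` by construction), `pvq6_fat_yr0`, **`pvq6_fat_nu_sub`** (`NU` shrinks), `pvq6_ok_of_fat`, `pvq6_ok_fat`, `pvq6_nu_left` (model free)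
* sec. 5  **`pvq6_g1`** (G1' at the fattened pattern: no `Col`, no mesh inside `T₀`), **`pvq6_cell_off`**, `pvq6_cell_off_col` (form asked by 29), `pvq6_u_of_cross`, **`pvq6_ring`** (= `pvc4_ring_circuit` of 78 with `hM` discharged)
USE.   `T₀ := lanes ∪ Nt ∪ Ns` (`pvwm_lanes_preconn` of 194; `Nt`, `Ns` connected, contain end tile + door square, meet the lanes), `C ⊆ T₀`, `κ := δ/20`, `d₀ := δ/10`, `3 r ≤ δ/20`, `S := (pvgeFar C r)ᶜ`.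
`hWl`: `g₀` off `Yreg`;   `Yout` off `cthickening (δ/10) Yin`;   frozen sites: `Tr/FitFz` of 274 (cells), own box + `δ` (`Nt`), `sep` (other pin).
-/

set_option autoImplicit false

namespace Claimed.Agent.R289

open Relation Set Metric

/-! ## 1. metric lemmas -/

/-- the square of the distance to `z` along a segment -/
theorem pvq6_conv_sq (p q z : ℂ) {s t : ℝ} (hst : s + t = 1) :
    ‖s • p + t • q - z‖ ^ 2 = s * ‖p - z‖ ^ 2 + t * ‖q - z‖ ^ 2 - s * t * ‖p - q‖ ^ 2 := by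
  obtain rfl : t = 1 - s := by linarith
  simp only [Complex.sq_norm, Complex.normSq_apply, Complex.real_smul, Complex.add_re, Complex.sub_re, Complex.mul_re, Complex.ofReal_re, Complex.ofReal_im,
    Complex.add_im, Complex.sub_im, Complex.mul_im]
  ring

theorem pvq6_seg_dist (p q : ℂ) {s t : ℝ} (hs : 0 ≤ s) (ht : 0 ≤ t) (hst : s + t = 1) : ‖s • p + t • q - p‖ = t * ‖p - q‖ ∧ ‖s • p + t • q - q‖ = s * ‖p - q‖ := by
  constructor
  · have e : s • p + t • q - p = (t : ℂ) * (q - p) := by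
      obtain rfl : s = 1 - t := by linarith
      simp only [Complex.real_smul]; push_cast; ring
    rw [e, norm_mul, Complex.norm_real, Real.norm_eq_abs, abs_of_nonneg ht, norm_sub_rev]
  · have e : s • p + t • q - q = (s : ℂ) * (p - q) := by
      obtain rfl : t = 1 - s := by linarith
      simp only [Complex.real_smul]; push_cast; ring
    rw [e, norm_mul, Complex.norm_real, Real.norm_eq_abs, abs_of_nonneg hs]

/-- **POWER OF THE POINT**: `[a,b]` a chord of the circle `(z, ρ)`, `v`, `c` not inside: a common point `x` of `[a,b]` and `[v,c]` has `|x-a| |x-b| ≤ |v-c|² / 4` -/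
theorem pvq6_power {a b v c z x : ℂ} {ρ : ℝ} (ha : ‖a - z‖ = ρ) (hb : ‖b - z‖ = ρ) (hv : ρ ≤ ‖v - z‖) (hc : ρ ≤ ‖c - z‖) (hρ : 0 ≤ ρ)
    (hx : x ∈ segment ℝ a b) (hx' : x ∈ segment ℝ v c) : ‖x - a‖ * ‖x - b‖ ≤ ‖v - c‖ ^ 2 / 4 := by
  obtain ⟨s, t, hs, ht, hst, rfl⟩ := hx
  obtain ⟨s', t', hs', ht', hst', e⟩ := hx'
  have h1 := pvq6_conv_sq a b z hst
  have h2 := pvq6_conv_sq v c z hst'
  rw [e, h1, ha, hb] at h2
  obtain ⟨d1, d2⟩ := pvq6_seg_dist a b hs ht hst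
  rw [d1, d2]
  have hv2 : ρ ^ 2 ≤ ‖v - z‖ ^ 2 := pow_le_pow_left₀ hρ hv 2
  have hc2 : ρ ^ 2 ≤ ‖c - z‖ ^ 2 := pow_le_pow_left₀ hρ hc 2
  have h3 : s' * t' ≤ 1 / 4 := by nlinarith [sq_nonneg (s' - t')]
  have h4 : s' * ρ ^ 2 + t' * ρ ^ 2 ≤ s' * ‖v - z‖ ^ 2 + t' * ‖c - z‖ ^ 2 := add_le_add (mul_le_mul_of_nonneg_left hv2 hs') (mul_le_mul_of_nonneg_left hc2 ht')
  have h5 : s' * ρ ^ 2 + t' * ρ ^ 2 = ρ ^ 2 := by rw [← add_mul, hst', one_mul]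
  have h6 : s * ρ ^ 2 + t * ρ ^ 2 = ρ ^ 2 := by rw [← add_mul, hst, one_mul]
  have h7 : s' * t' * ‖v - c‖ ^ 2 ≤ 1 / 4 * ‖v - c‖ ^ 2 := mul_le_mul_of_nonneg_right h3 (by positivity)
  nlinarith

/-- a point of `[v,c]` is not farther from `c` than `v` -/
theorem pvq6_seg_le {v c x : ℂ} (hx : x ∈ segment ℝ v c) : ‖x - c‖ ≤ ‖v - c‖ := by
  obtain ⟨s, t, hs, ht, hst, rfl⟩ := hx
  rw [(pvq6_seg_dist v c hs ht hst).2]
  have : s ≤ 1 := by linarith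
  nlinarith [norm_nonneg (v - c)]

/-! ## 2. a Delaunay edge between two sites far from `T₀` meets neither `T₀` nor a whisker -/

variable {Y T₀ : Set ℂ} {r κ d₀ : ℝ}

/-- the whiskered set: `T₀` with the segments `[v,c]`, `v` a site, `c ∈ T₀`, `|v - c| ≤ κ` -/
def pvq6W (Y T₀ : Set ℂ) (κ : ℝ) : Set ℂ := T₀ ∪ {x | ∃ v ∈ Y, ∃ c ∈ T₀, ‖v - c‖ ≤ κ ∧ x ∈ segment ℝ v c}

theorem pvq6_eqns_cite : True := by
  have := @pvq6W.eq_1
  trivial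

theorem pvq6_W_site {v c : ℂ} (hv : v ∈ Y) (hc : c ∈ T₀) (h : ‖v - c‖ ≤ κ) : v ∈ pvq6W Y T₀ κ := Or.inr ⟨v, hv, c, hc, h, left_mem_segment ℝ v c⟩

/-- the whiskered set of a preconnected set is preconnected -/
theorem pvq6_W_preconn (hT : IsPreconnected T₀) : IsPreconnected (pvq6W Y T₀ κ) := by
  -- every point lies in a preconnected piece which contains `T₀`
  have key : ∀ x ∈ pvq6W Y T₀ κ, ∃ t, t ⊆ pvq6W Y T₀ κ ∧ x ∈ t ∧ T₀ ⊆ t ∧ IsPreconnected t := by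
    rintro x (hx | ⟨v, hv, c, hc, hvc, hx⟩)
    · exact ⟨T₀, subset_union_left, hx, Subset.rfl, hT⟩
    · refine ⟨segment ℝ v c ∪ T₀, ?_, Or.inl hx, subset_union_right, IsPreconnected.union c (right_mem_segment ℝ v c) hc (convex_segment v c).isPreconnected hT⟩
      rintro y (hy | hy)
      · exact Or.inr ⟨v, hv, c, hc, hvc, hy⟩
      · exact Or.inl hy
  refine isPreconnected_of_forall_pair fun x hx y hy => ?_
  obtain ⟨t, h1, h2, h3, h4⟩ := key x hx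
  obtain ⟨t', h1', h2', h3', h4'⟩ := key y hy
  rcases T₀.eq_empty_or_nonempty with h0 | ⟨c, hc⟩
  · exfalso
    rcases hx with hx | ⟨v, hv, c, hc, -⟩
    · rw [h0] at hx; exact hx
    · rw [h0] at hc; exact hc
  · exact ⟨t ∪ t', union_subset h1 h1', Or.inl h2, Or.inr h2', IsPreconnected.union c (h3 hc) (h3' hc) h4 h4'⟩

/-- **a Delaunay edge whose two ends are at distance `≥ d₀` from `T₀` misses the whiskered set** (collar mesh `r` round `T₀`, `3 r ≤ d₀`, `3 κ / 2 < d₀`) -/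
theorem pvq6_edge_off (hr : 0 < r) (hd : VorDense Y (pvgeCollar T₀ r) r) (h3 : 3 * r ≤ d₀) (hκd : 3 * κ / 2 < d₀) {a b : ℂ} (hab : DelAdj Y a b)
    (ha : ∀ c ∈ T₀, d₀ ≤ ‖a - c‖) (hb : ∀ c ∈ T₀, d₀ ≤ ‖b - c‖) : Disjoint (segment ℝ a b) (pvq6W Y T₀ κ) := by
  obtain ⟨haY, hbY, -, z, hza, hzb⟩ := hab
  rw [Set.disjoint_left]
  intro x hx hxW
  -- `T₀` is not empty
  have hne : T₀.Nonempty := by
    rcases hxW with hxW | ⟨v, hv, c, hc, -⟩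
    · exact ⟨x, hxW⟩
    · exact ⟨c, hc⟩
  have hfar : a ∈ pvgeFar T₀ r := by
    show 3 * r ≤ infDist a T₀
    refine (le_infDist hne).2 fun c hc => ?_
    rw [dist_eq_norm]
    exact h3.trans (ha c hc)
  have hdis := pvge_no_bridge hr hd hfar hza
  have e1 : ‖b - z‖ = ‖a - z‖ := by
    rw [norm_sub_rev b z, norm_sub_rev a z]
    exact le_antisymm (hzb a haY) (hza b hbY)
  have hT : ∀ c ∈ T₀, ‖a - z‖ ≤ ‖c - z‖ := by
    intro c hc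
    by_contra hlt
    rw [not_le] at hlt
    refine Set.disjoint_left.1 hdis (mem_closedBall.2 ?_) hc
    rw [dist_eq_norm, norm_sub_rev z a]
    exact hlt.le
  have hTs : ∀ c ∈ T₀, ‖a - z‖ < ‖c - z‖ := by
    intro c hc
    by_contra hlt
    rw [not_lt] at hlt
    refine Set.disjoint_left.1 hdis (mem_closedBall.2 ?_) hc
    rw [dist_eq_norm, norm_sub_rev z a]
    exact hlt
  have hxz : ‖x - z‖ ≤ ‖a - z‖ := by
    have hcv : segment ℝ a b ⊆ closedBall z ‖a - z‖ :=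
      (convex_closedBall z _).segment_subset (mem_closedBall.2 (by rw [dist_eq_norm])) (mem_closedBall.2 (by rw [dist_eq_norm, e1]))
    have := hcv hx
    rwa [mem_closedBall, dist_eq_norm] at this
  rcases hxW with hxW | ⟨v, hv, c, hc, hvc, hxs⟩
  · exact absurd hxz (not_le.2 (hTs x hxW))
  · have hvz : ‖a - z‖ ≤ ‖v - z‖ := by
      rw [norm_sub_rev a z, norm_sub_rev v z]
      exact hza v hv
    have hp := pvq6_power rfl e1 hvz (hT c hc) (norm_nonneg _) hx hxs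
    have hxc := (pvq6_seg_le hxs).trans hvc
    have t1 : d₀ - κ ≤ ‖x - a‖ := by
      have h1 := ha c hc
      have h2 : ‖a - c‖ ≤ ‖x - a‖ + ‖x - c‖ := by
        have e : a - c = (x - c) - (x - a) := by ring
        rw [e]
        linarith [norm_sub_le (x - c) (x - a)]
      linarith
    have t2 : d₀ - κ ≤ ‖x - b‖ := by
      have h1 := hb c hc
      have h2 : ‖b - c‖ ≤ ‖x - b‖ + ‖x - c‖ := by
        have e : b - c = (x - c) - (x - b) := by ring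
        rw [e]
        linarith [norm_sub_le (x - c) (x - b)]
      linarith
    have t3 : κ / 2 < d₀ - κ := by linarith
    have t4 : ‖v - c‖ ^ 2 ≤ κ ^ 2 := pow_le_pow_left₀ (norm_nonneg _) hvc 2
    have t5 : (d₀ - κ) * (d₀ - κ) ≤ ‖x - a‖ * ‖x - b‖ := mul_le_mul t1 t2 (by linarith) (by linarith)
    nlinarith

/-! ## 3. one side of a cycle -/

/-- **PLANE SIDE LEMMA** (any geometric triangulated plane): a preconnected set which misses the polygon of a cycle and carries one vertex strictly on the left carries only such vertices -/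
theorem pvq6_side {V D : Type} {T : PvMap V D} {pos : V → ℂ} (hT : T.IsSph) (G : PlGeo T pos) (c : T.Cyc) {S : Set ℂ} (hS : IsPreconnected S) (h0 : Disjoint S (c.poly pos))
    {u v : V} (hu : u ∈ T.Int c.Left) (huS : pos u ∈ S) (hvS : pos v ∈ S) : v ∈ T.Int c.Left := by
  rw [plg_cyc_int_left hT G] at hu ⊢
  intro hv
  have huL : pos u ∈ T.real pos c.Left := by
    have := plg_cyc_union hT G c
    have h1 : pos u ∈ T.real pos c.Left ∪ T.real pos c.Right := by rw [this]; exact mem_univ _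
    exact h1.resolve_right hu
  obtain ⟨w, hw1, hw2⟩ := plg_cyc_cross hT G c hS ⟨_, huS, huL⟩ ⟨_, hvS, hv⟩
  exact Set.disjoint_left.1 h0 hw1 hw2

/-- the polygon of a cycle of the Delaunay plane whose vertices are at distance `≥ d₀` from `T₀` misses the whiskered set -/
theorem pvq6_poly_off (hr : 0 < r) (hd : VorDense Y (pvgeCollar T₀ r) r) (h3 : 3 * r ≤ d₀) (hκd : 3 * κ / 2 < d₀) (Z : (delbPl Y).toMap.Cyc)
    (hZ : ∀ w ∈ Z.verts, ∀ c ∈ T₀, d₀ ≤ ‖(w : ℂ) - c‖) : Disjoint (pvq6W Y T₀ κ) (Z.poly Subtype.val) := by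
  rw [Set.disjoint_left]
  rintro x hx ⟨i, hi⟩
  refine Set.disjoint_left.1 (pvq6_edge_off hr hd h3 hκd (Z.e i).2.2 (hZ _ ⟨i, rfl⟩) (hZ _ ⟨i + 1, ?_⟩)) hi hx
  exact (Z.chain i).symm

/-- **ALL THE SITES WITHIN `κ` OF `T₀` LIE ON ONE SIDE OF `Z`**.      `T₀` preconnected, collar mesh `r` round `T₀` (NO mesh inside `T₀`, NO bound on the edges of `Z`), vertices of `Z` at distance `≥ d₀` from `T₀`, `3 r ≤ d₀`, `3 κ / 2 < d₀`. -/
theorem pvq6_one_side (hY : DelGood Y) (hT : IsPreconnected T₀) (hr : 0 < r) (hd : VorDense Y (pvgeCollar T₀ r) r) (h3 : 3 * r ≤ d₀) (hκd : 3 * κ / 2 < d₀) (Z : (delbPl Y).toMap.Cyc)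
    (hZ : ∀ w ∈ Z.verts, ∀ c ∈ T₀, d₀ ≤ ‖(w : ℂ) - c‖) {u v : ↥Y} (hu : u ∈ (delbPl Y).toMap.Int Z.Left) (huT : ∃ c ∈ T₀, ‖(u : ℂ) - c‖ ≤ κ) (hvT : ∃ c ∈ T₀, ‖(v : ℂ) - c‖ ≤ κ) :
    v ∈ (delbPl Y).toMap.Int Z.Left := by
  obtain ⟨c, hc, huc⟩ := huT
  obtain ⟨c', hc', hvc⟩ := hvT
  exact pvq6_side (delb_plane_isSph hY) (pvaw_geo_del hY) Z (pvq6_W_preconn hT) (pvq6_poly_off hr hd h3 hκd Z hZ) hu (pvq6_W_site u.2 hc huc) (pvq6_W_site v.2 hc' hvc)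

/-- the same, read on the right: no site strictly on the right of `Z` within `κ` of `T₀` -/
theorem pvq6_right_off (hY : DelGood Y) (hT : IsPreconnected T₀) (hr : 0 < r) (hd : VorDense Y (pvgeCollar T₀ r) r) (h3 : 3 * r ≤ d₀) (hκd : 3 * κ / 2 < d₀) (Z : (delbPl Y).toMap.Cyc)
    (hZ : ∀ w ∈ Z.verts, ∀ c ∈ T₀, d₀ ≤ ‖(w : ℂ) - c‖) {u : ↥Y} (hu : u ∈ (delbPl Y).toMap.Int Z.Left) (huT : ∃ c ∈ T₀, ‖(u : ℂ) - c‖ ≤ κ) :
    ∀ v ∈ (delbPl Y).toMap.Int Z.Right, ∀ c ∈ T₀, κ < ‖(v : ℂ) - c‖ := by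
  intro v hv c hc
  by_contra hlt
  rw [not_lt] at hlt
  exact Set.disjoint_left.1 (pl_jordan_vert_disj (delb_plane_isSph hY) Z).2.2 (pvq6_one_side hY hT hr hd h3 hκd Z hZ hu huT ⟨c, hc, hlt⟩) hv

/-- a point at distance `> κ ≥ 3 r` from every point of `T₀ ⊇ C` is far from `C` -/
theorem pvq6_far_of {C : Set ℂ} (hC : C ⊆ T₀) (hne : C.Nonempty) (hrκ : 3 * r ≤ κ) {v : ℂ} (h : ∀ c ∈ T₀, κ < ‖v - c‖) : v ∈ pvgeFar C r := by
  show 3 * r ≤ infDist v C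
  refine (le_infDist hne).2 fun c hc => ?_
  rw [dist_eq_norm]
  exact hrκ.trans (h c (hC hc)).le

/-- the collar mesh round `T₀` from the mesh of the kept patch (L1: guard of 170): `C ⊆ T₀ ⊆ closedBall x R₁`, `R₁ + 6 r ≤ R₂` -/
theorem pvq6_collar_of_patch {C : Set ℂ} {x : ℂ} {R₁ R₂ : ℝ} (hC : C ⊆ T₀) (hne : C.Nonempty) (hr : 0 < r) (hT : T₀ ⊆ closedBall x R₁) (hR : R₁ + 6 * r ≤ R₂)
    (hd : VorDense Y {z | ‖z - x‖ ≤ R₂ ∧ r < infDist z C} r) : VorDense Y (pvgeCollar T₀ r) r := by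
  intro y hy
  obtain ⟨h1, h2⟩ := hy
  refine hd y ⟨?_, lt_of_lt_of_le h1 (infDist_le_infDist_of_subset hC hne)⟩
  obtain ⟨c, hc, hyc⟩ := (infDist_lt_iff (hne.mono hC)).1 (lt_of_le_of_lt h2 (show 5 * r < 6 * r by linarith))
  have h3 := hT hc
  rw [mem_closedBall, dist_eq_norm] at h3
  rw [dist_eq_norm] at hyc
  have h4 : ‖y - x‖ ≤ ‖y - c‖ + ‖c - x‖ := by
    have e : y - x = (y - c) + (c - x) := by ring
    rw [e]
    exact norm_add_le _ _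
  linarith

/-! ## 4. the fattened pattern; `NUᶜ` on the left of a cell, model free -/

/-- **THE FATTENED PATTERN**: the collared lanes enlarged by `S` (`S := (pvgeFar C r)ᶜ`: then `Yr0`, `YC0`, `NU` at the fattened pattern are the classes `{u ∈ Yr0 | far}`, `YF`, `NF` of KIT v2 of 29, splice invariant by construction) -/
def pvq6Fat (π : PvwPat) (S : Set ℂ) : PvwPat := { π with Ycol := π.Ycol ∪ S }

theorem pvq6_eqns_cite2 : True := by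
  have := @pvq6Fat.eq_1
  trivial

theorem pvq6_fat_wf {π : PvwPat} {S : Set ℂ} (hπ : π.Wf) (hS : Disjoint S π.Yout) : (pvq6Fat π S).Wf :=
  ⟨hπ.disj, Set.disjoint_union_left.2 ⟨hπ.col, hS⟩, hπ.in_sub, hπ.out_sub⟩

/-- off the fattened collar everything is far: `col` of `PvknGeo` BY CONSTRUCTION -/
theorem pvq6_fat_col (π : PvwPat) (C : Set ℂ) (r : ℝ) : (pvq6Fat π (pvgeFar C r)ᶜ).Ycolᶜ ⊆ pvgeFar C r := by
  intro z hz
  by_contra h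
  exact hz (Or.inr h)

section free

variable {V D : Type} {T : PvMap V D} {𝔇 : PvwDat T} {pos : V → ℂ} {N : PvwNum} {h : ℝ} {π : PvwPat} {S : Set ℂ}

theorem pvq6_fat_yraw : 𝔇.Yraw pos (pvq6Fat π S) = 𝔇.Yraw pos π := rfl

theorem pvq6_fat_ycl : 𝔇.YCL pos (pvq6Fat π S) = 𝔇.YCL pos π := rfl

theorem pvq6_fat_yr0 : 𝔇.Yr0 pos (pvq6Fat π S) = {v | v ∈ 𝔇.Yr0 pos π ∧ pos v ∉ S} := by
  ext v
  constructor
  · rintro ⟨h1, h2⟩
    exact ⟨⟨h1, fun hc => h2 (Or.inl hc)⟩, fun hc => h2 (Or.inr hc)⟩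
  · rintro ⟨⟨h1, h2⟩, h3⟩
    exact ⟨h1, fun hc => hc.elim h2 h3⟩

/-- `NU` shrinks when the collar is fattened      (`YC0 ∩ {off S} ⊆ YC0` of the fattened pattern: cut the path after its last site over `S`) -/
theorem pvq6_fat_nu_sub : 𝔇.NU pos (pvq6Fat π S) ⊆ 𝔇.NU pos π := by
  rintro v ⟨h1, h2⟩
  refine ⟨fun h0 => h1 ?_, fun hc => h2 (Or.inl hc)⟩
  obtain ⟨a, ha, q, q0, qn, hq⟩ := h0
  have hvS : pos v ∉ S := fun hc => h2 (Or.inr hc)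
  -- the last index whose site lies over `S`, if any
  by_cases hall : ∀ k, k ≤ q.n → pos (q.v k) ∉ S
  · refine ⟨a, ?_, q, q0, qn, ?_⟩
    · rcases ha with e | e | ⟨w, hw, hadj⟩
      · exact Or.inl e
      · exact Or.inr (Or.inl e)
      · exact Or.inr (Or.inr ⟨w, Or.inl hw, hadj⟩)
    · rintro x ⟨k, hk, rfl⟩
      rw [pvq6_fat_yr0]
      exact ⟨hq _ ⟨k, hk, rfl⟩, hall k hk⟩
  · push Not at hall
    -- downward induction from `q.n`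
    have key : ∀ j, j ≤ q.n → (∀ k, q.n - j ≤ k → k ≤ q.n → pos (q.v k) ∉ S) → (q.n - j = 0 ∨ pos (q.v (q.n - j - 1)) ∉ S) ∨
        ∃ i, 0 < i ∧ i ≤ q.n ∧ pos (q.v (i - 1)) ∈ S ∧ ∀ k, i ≤ k → k ≤ q.n → pos (q.v k) ∉ S := by
      intro j _ hj
      by_cases h0 : q.n - j = 0
      · exact Or.inl (Or.inl h0)
      by_cases hS : pos (q.v (q.n - j - 1)) ∈ S
      · exact Or.inr ⟨q.n - j, by omega, by omega, hS, hj⟩
      · exact Or.inl (Or.inr hS)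
    have ex : ∃ i, 0 < i ∧ i ≤ q.n ∧ pos (q.v (i - 1)) ∈ S ∧ ∀ k, i ≤ k → k ≤ q.n → pos (q.v k) ∉ S := by
      by_contra hno
      have all : ∀ j, j ≤ q.n → ∀ k, q.n - j ≤ k → k ≤ q.n → pos (q.v k) ∉ S := by
        intro j
        induction j with
        | zero =>
          intro _ k hk1 hk2
          have : k = q.n := by omega
          rw [this, qn]; exact hvS
        | succ j ih =>
          intro hj k hk1 hk2
          have ih' := ih (by omega)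
          rcases key j (by omega) ih' with (h0 | h0) | h0
          · exact ih' k (by omega) hk2
          · by_cases e : k = q.n - j - 1
            · rw [e]; exact h0
            · exact ih' k (by omega) hk2
          · exact absurd h0 hno
      obtain ⟨k, hk, hkS⟩ := hall
      exact all q.n le_rfl k (by omega) hk hkS
    obtain ⟨i, hi0, hin, hiS, hafter⟩ := ex
    refine ⟨q.v i, Or.inr (Or.inr ⟨q.v (i - 1), Or.inr hiS, ?_⟩), q.seg i q.n, ?_, ?_, ?_⟩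
    · refine T.adj_symm ⟨q.e (i - 1), q.src_e (i - 1) (by omega), ?_⟩
      have := q.tgt_e (i - 1) (by omega)
      rwa [Nat.sub_add_cancel hi0] at this
    · show q.v (i + 0) = q.v i
      rw [Nat.add_zero]
    · show q.v (i + (min q.n q.n - i)) = v
      rw [← qn]
      congr 1
      omega
    · rintro x ⟨k, hk, rfl⟩
      have hk' : k ≤ min q.n q.n - i := hk
      rw [pvq6_fat_yr0]
      exact ⟨hq _ ⟨i + k, by omega, rfl⟩, hafter (i + k) (by omega) (by omega)⟩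

/-- `Ok` at the fattened pattern gives `Ok` at the pattern -/
theorem pvq6_ok_of_fat (hOk : 𝔇.Ok pos N h (pvq6Fat π S)) : 𝔇.Ok pos N h π :=
  { hOk with off_y := fun v hv => pvq6_fat_nu_sub (hOk.off_y v hv) }

/-- a site which is not over `Yin` is in no class `YC0` -/
theorem pvq6_not_yc0 {π' : PvwPat} {v : V} (hv : pos v ∉ π'.Yin) : v ∉ 𝔇.YC0 pos π' := by
  rintro ⟨a, -, q, -, qn, hq⟩
  exact hv (hq v ⟨q.n, le_rfl, qn⟩).1.2

/-- `Ok` at the pattern gives `Ok` at the fattened pattern as soon as the right apexes of `g₀` are not over `Yin` and `g₀`, its right apexes are not over `S` -/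
theorem pvq6_ok_fat (hπ : π.Wf) (hOk : 𝔇.Ok pos N h π) (hax : ∀ v ∈ 𝔇.apx, pos v ∉ π.Yin) (hS : ∀ v ∈ 𝔇.g.verts ∪ 𝔇.apx, pos v ∉ S) : 𝔇.Ok pos N h (pvq6Fat π S) :=
  { hOk with
    off_y := fun v hv => by
      refine ⟨pvq6_not_yc0 ?_, fun hc => hc.elim (hOk.off_y v hv).2 (hS v hv)⟩
      rcases hv with hv | hv
      · exact fun hc => hOk.off v hv (hπ.in_sub hc)
      · exact hax v hv }

/-- **`NUᶜ` OF THE FATTENED PATTERN LIES ON THE LEFT OF `Z`**, model free: `Z` runs off `pvc2K`, the class `YCL` and the sites over the fattened collar lie strictly on the left of `Z` -/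
theorem pvq6_nu_left (hT : T.IsSph) (hπ : π.Wf) (hOk : 𝔇.Ok pos N h π) (Z : T.Cyc) (hK : ∀ v ∈ pvc2K 𝔇 pos π, v ∉ Z.verts) (hYC : ∀ v ∈ 𝔇.YCL pos π, v ∈ T.Int Z.Left)
    (hS : ∀ v, pos v ∈ π.Ycol ∪ S → v ∈ T.Int Z.Left) {v : V} (hv : v ∉ 𝔇.NU pos (pvq6Fat π S)) : v ∈ T.Int Z.Left := by
  by_cases hc : pos v ∈ π.Ycol ∪ S
  · exact hS v hc
  have hv0 : v ∈ 𝔇.YC0 pos (pvq6Fat π S) := by
    by_contra h0
    exact hv ⟨h0, hc⟩
  obtain ⟨a, ha, hva⟩ := hv0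
  obtain ⟨ha0, hj⟩ := pvc2_comp_join hva
  have hsub : ∀ x, x ∈ pvwComp T (𝔇.Yr0 pos (pvq6Fat π S)) a → x ∈ 𝔇.Yraw pos π := by
    rintro x ⟨q, -, rfl, hq⟩
    exact (hq _ (pl_pth_lst_mem q)).1
  have hj' : ReflTransGen (fun a b => T.Adj a b ∧ b ∉ Z.verts) a v :=
    ReflTransGen.mono (fun _ _ hh => ⟨hh.1, hK _ (pvc2_yraw_K hπ hOk (hsub _ hh.2))⟩) _ _ hj
  have hone : ∀ x, x ∈ 𝔇.Yraw pos π → x ∈ pvwComp T (𝔇.Yraw pos π) x := by
    intro x hx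
    refine ⟨PvMap.Pth.nil T x 𝔇.t.dp, rfl, rfl, ?_⟩
    rintro y ⟨i, -, rfl⟩
    exact hx
  refine pl_jordan_sep hT Z ?_ hj'
  rcases ha with rfl | rfl | ⟨w, hw, hadj⟩
  · exact hYC _ (Or.inl (hone _ (hsub _ ha0)))
  · exact hYC _ (Or.inr (hone _ (hsub _ ha0)))
  · exact pl_jordan_sep hT Z (hS w hw) (ReflTransGen.single ⟨T.adj_symm hadj, hK _ (pvc2_yraw_K hπ hOk (hsub _ ha0))⟩)

/-- a shield of `Tr/C12` is a shield of `Tr/DatC2` -/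
theorem pvq6_sh_sub {σ : V → Bool} : 𝔇.Sh pos π σ ⊆ pvc2Sh 𝔇 pos π σ := by
  rintro v ⟨h1, h2 | h2 | h2 | h2 | h2⟩
  · exact ⟨h1, Or.inl (Or.inl (Or.inl (Or.inl h2)))⟩
  · exact ⟨h1, Or.inl (Or.inl (Or.inr h2))⟩
  · exact ⟨h1, Or.inl (Or.inr (Or.inr h2))⟩
  · exact ⟨h1, Or.inl (Or.inr (Or.inl (Or.inl h2)))⟩
  · exact ⟨h1, Or.inr h2.1⟩

end free

/-! ## 5. THE OPEN CELL AT THE MODEL, ROUTE B -/

section model

variable {𝔇 : PvwDat (delbPl Y).toMap} {N : PvwNum} {h : ℝ} {π : PvwPat} {σ : ↥Y → Bool} {S : Set ℂ}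

/-- **G1' BY THE PLANE ROUTE** (no mesh inside `T₀`, no `Col`): for every shield `q`, every site off `NU` OF THE FATTENED PATTERN lies strictly on the left of `Z = g₀ ∪ q`; so the open cell `Int Z.Right` lies in that `NU`.
REGIONS: `T₀` preconnected, the fattened collar `Ycol ∪ S` within `κ` of `T₀`.      GEOMETRY: collar mesh `r` round `T₀`; the sites of `Wl` at distance `≥ d₀` from `T₀`; `3 r ≤ d₀`, `3 κ / 2 < d₀`.
COLOUR: through `SYn` only; `u` = one site of `YCL` within `κ` of `T₀` (`pvc2_cross_ycl`). -/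
theorem pvq6_g1 (hY : DelGood Y) (hπ : π.Wf) (hOk : 𝔇.Ok Subtype.val N h π) (hσ : σ ∈ 𝔇.Cyl) (hins : Disjoint 𝔇.s.ins 𝔇.t.ins) {n : ℕ} (hSY : 𝔇.SYn Subtype.val π σ n)
    (hT : IsPreconnected T₀) (hr : 0 < r) (hd : VorDense Y (pvgeCollar T₀ r) r) (h3 : 3 * r ≤ d₀) (hκd : 3 * κ / 2 < d₀)
    (hWl : ∀ w ∈ 𝔇.Wl Subtype.val π, ∀ c ∈ T₀, d₀ ≤ ‖(w : ℂ) - c‖) (hcol : ∀ z ∈ π.Ycol ∪ S, ∃ c ∈ T₀, ‖z - c‖ ≤ κ)
    {u : ↥Y} (hu : u ∈ 𝔇.YCL Subtype.val π) (huT : ∃ c ∈ T₀, ‖(u : ℂ) - c‖ ≤ κ) {q : (delbPl Y).toMap.Pth} (hq : 𝔇.IsShield Subtype.val π σ q) (hg : 𝔇.g.Glue q) :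
    (∀ v, v ∉ 𝔇.NU Subtype.val (pvq6Fat π S) → v ∈ (delbPl Y).toMap.Int (𝔇.g.glue q hg).Left) ∧
      ∀ v ∈ (delbPl Y).toMap.Int (𝔇.g.glue q hg).Right, v ∈ 𝔇.NU Subtype.val (pvq6Fat π S) := by
  have hT' := delb_plane_isSph hY
  have hin : ∀ x ∈ q.inner, x ∈ pvc2Sh 𝔇 Subtype.val π σ := fun x hx => pvq6_sh_sub (hq.inn hx)
  have hYC := (pvc2_g1 hT' hπ hOk hσ hins hSY q hg hq.two hq.fst hq.lst hin).1
  have hZ : ∀ w ∈ (𝔇.g.glue q hg).verts, ∀ c ∈ T₀, d₀ ≤ ‖(w : ℂ) - c‖ := fun w hw => hWl w (pvwc_cell_wl 𝔇 hq hg hw)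
  have key : ∀ v, v ∉ 𝔇.NU Subtype.val (pvq6Fat π S) → v ∈ (delbPl Y).toMap.Int (𝔇.g.glue q hg).Left := fun v hv =>
    pvq6_nu_left hT' hπ hOk _ (fun w hw => pvc2_Z_off q hg hin hw) hYC
      (fun w hw => pvq6_one_side hY hT hr hd h3 hκd _ hZ (hYC u hu) huT (hcol _ hw)) hv
  refine ⟨key, fun v hv => ?_⟩
  by_contra hN
  exact Set.disjoint_left.1 (pl_jordan_vert_disj hT' _).2.2 (key v hN) hv

/-- **(iii) OF N1K_63, ROUTE B**: the sites of the open cell are at distance `> κ` from `T₀` -/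
theorem pvq6_cell_off (hY : DelGood Y) (hπ : π.Wf) (hOk : 𝔇.Ok Subtype.val N h π) (hσ : σ ∈ 𝔇.Cyl) (hins : Disjoint 𝔇.s.ins 𝔇.t.ins) {n : ℕ} (hSY : 𝔇.SYn Subtype.val π σ n)
    (hT : IsPreconnected T₀) (hr : 0 < r) (hd : VorDense Y (pvgeCollar T₀ r) r) (h3 : 3 * r ≤ d₀) (hκd : 3 * κ / 2 < d₀)
    (hWl : ∀ w ∈ 𝔇.Wl Subtype.val π, ∀ c ∈ T₀, d₀ ≤ ‖(w : ℂ) - c‖)
    {u : ↥Y} (hu : u ∈ 𝔇.YCL Subtype.val π) (huT : ∃ c ∈ T₀, ‖(u : ℂ) - c‖ ≤ κ) {q : (delbPl Y).toMap.Pth} (hq : 𝔇.IsShield Subtype.val π σ q) (hg : 𝔇.g.Glue q) :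
    ∀ v ∈ (delbPl Y).toMap.Int (𝔇.g.glue q hg).Right, ∀ c ∈ T₀, κ < ‖(v : ℂ) - c‖ := by
  have hT' := delb_plane_isSph hY
  have hin : ∀ x ∈ q.inner, x ∈ pvc2Sh 𝔇 Subtype.val π σ := fun x hx => pvq6_sh_sub (hq.inn hx)
  have hYC := (pvc2_g1 hT' hπ hOk hσ hins hSY q hg hq.two hq.fst hq.lst hin).1
  exact pvq6_right_off hY hT hr hd h3 hκd _ (fun w hw => hWl w (pvwc_cell_wl 𝔇 hq hg hw)) (hYC u hu) huT

/-- the same with `Col` at the pattern in place of `SYn` (form asked by 29, 12:28Z): `u` = one site off `NU` within `κ` of `T₀` -/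
theorem pvq6_cell_off_col (hY : DelGood Y) (hOk : 𝔇.Ok Subtype.val N h π) (hsep : 𝔇.s.gp ∉ 𝔇.t.ins) (hsep' : 𝔇.t.gm ∉ 𝔇.s.ins) (hcol : 𝔇.Col Subtype.val π) (hσ : σ ∈ 𝔇.Cyl)
    (hT : IsPreconnected T₀) (hr : 0 < r) (hd : VorDense Y (pvgeCollar T₀ r) r) (h3 : 3 * r ≤ d₀) (hκd : 3 * κ / 2 < d₀)
    (hWl : ∀ w ∈ 𝔇.Wl Subtype.val π, ∀ c ∈ T₀, d₀ ≤ ‖(w : ℂ) - c‖)
    {u : ↥Y} (hu : u ∉ 𝔇.NU Subtype.val π) (huT : ∃ c ∈ T₀, ‖(u : ℂ) - c‖ ≤ κ) {q : (delbPl Y).toMap.Pth} (hq : 𝔇.IsShield Subtype.val π σ q) (hg : 𝔇.g.Glue q) :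
    ∀ v ∈ (delbPl Y).toMap.Int (𝔇.g.glue q hg).Right, ∀ c ∈ T₀, κ < ‖(v : ℂ) - c‖ := by
  have hT' := delb_plane_isSph hY
  have huL : u ∈ (delbPl Y).toMap.Int (𝔇.g.glue q hg).Left := by
    obtain ⟨a, ha, h1, h2⟩ := hcol u hu
    have hoff := pvwc_cell_wl 𝔇 hq hg
    have hF := pl_left_face (𝔇.g.glue q hg)
    have h3 : a ∈ (delbPl Y).toMap.Int (𝔇.g.glue q hg).Left := by
      rcases ha with rfl | rfl
      · exact pvt_c_int_of_left hT' (𝔇.g.glue q hg) ((hF _).2 ((hF _).2 (pvwc_tip_left hT' 𝔇 hOk hsep hσ hq hg))) fun hc => h1 (hoff hc)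
      · exact pvt_c_int_of_left hT' (𝔇.g.glue q hg) ((hF _).2 ((hF _).2 (pvwc_tip_left_back hT' 𝔇 hOk hsep' hσ hq hg))) fun hc => h1 (hoff hc)
    exact pl_jordan_sep hT' (𝔇.g.glue q hg) h3 (ReflTransGen.mono (fun _ w hw => ⟨hw.1, fun hc => hw.2 (hoff hc)⟩) _ _ h2)
  exact pvq6_right_off hY hT hr hd h3 hκd _ (fun w hw => hWl w (pvwc_cell_wl 𝔇 hq hg hw)) huL huT

/-- the site `u` of `pvq6_g1`: on `SYn` the new strand crosses the collared lanes (`pvc2_cross_ycl` of 227) -/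
theorem pvq6_u_of_cross (hY : DelGood Y) (hOk : 𝔇.Ok Subtype.val N h π) (hσ : σ ∈ 𝔇.Cyl) {n : ℕ} (hSY : 𝔇.SYn Subtype.val π σ n) {Bt Bs : Set ℂ} (hcov : π.Yin ⊆ π.Ycol ∪ Bt ∪ Bs) (hdis : Disjoint Bt Bs)
    (hfz : ∀ v ∈ 𝔇.fzY, (v : ℂ) ∉ π.Ycol)
    (ht : ((delbPl Y).toMap.src (𝔇.t.ep 𝔇.t.np) : ℂ) ∈ Bt ∧ ((delbPl Y).toMap.tgt (𝔇.t.ep 𝔇.t.np) : ℂ) ∈ Bt)
    (hs : ((delbPl Y).toMap.src (𝔇.s.em 𝔇.s.nm) : ℂ) ∈ Bs ∧ ((delbPl Y).toMap.tgt (𝔇.s.em 𝔇.s.nm) : ℂ) ∈ Bs)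
    (hfar : ∀ a b, DelAdj Y a b → a ∈ Bt → b ∉ Bs) (hcol : ∀ z ∈ π.Ycol, ∃ c ∈ T₀, ‖z - c‖ ≤ κ) : ∃ u ∈ 𝔇.YCL Subtype.val π, ∃ c ∈ T₀, ‖(u : ℂ) - c‖ ≤ κ := by
  obtain ⟨hAs, hAt⟩ := pvc2_at (delb_plane_isSph hY) hOk hσ
  obtain ⟨u, hu, huc⟩ := pvc2_cross_ycl hAs hAt hSY hcov ht hs hdis (fun a b hab => by
    obtain ⟨d, rfl, rfl⟩ := hab
    exact hfar _ _ d.2.2) hfz
  exact ⟨u, hu, hcol _ huc⟩

/-- **(C2) AT THE MODEL WITH `E(D) = NBon (NU(fattened pattern) ∩ P)`, ROUTE B**: `pvc4_ring_circuit` of 78 with `hM` discharged by `pvq6_g1`.      No `Col`, no mesh inside `T₀`. -/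
theorem pvq6_ring (hY : DelGood Y) (hπ : π.Wf) (hOk : 𝔇.Ok Subtype.val N h π) (hG : 𝔇.Geo Subtype.val N h π) (hσ : σ ∈ 𝔇.Cyl) (hWO : 𝔇.WO Subtype.val π σ)
    (C : (delbPl Y).toMap.Cyc) (hC : ∀ v ∈ C.verts, σ v = false) (hCf : C.Left.Finite) (hCg : ∀ v ∈ 𝔇.g.verts, v ∈ (delbPl Y).toMap.Int C.Left) {P : Set ↥Y}
    (hP : ∀ v ∈ (delbPl Y).toMap.Int C.Left, v ∈ P)
    (hT : IsPreconnected T₀) (hr : 0 < r) (hd : VorDense Y (pvgeCollar T₀ r) r) (h3 : 3 * r ≤ d₀) (hκd : 3 * κ / 2 < d₀)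
    (hWl : ∀ w ∈ 𝔇.Wl Subtype.val π, ∀ c ∈ T₀, d₀ ≤ ‖(w : ℂ) - c‖) (hcol : ∀ z ∈ π.Ycol ∪ S, ∃ c ∈ T₀, ‖z - c‖ ≤ κ)
    (hu : ∀ n, 𝔇.SYn Subtype.val π σ n → ∃ u ∈ 𝔇.YCL Subtype.val π, ∃ c ∈ T₀, ‖(u : ℂ) - c‖ ≤ κ)
    (hNB : 𝔇.NBon (𝔇.NU Subtype.val (pvq6Fat π S) ∩ P) σ) (hSY : 𝔇.SY Subtype.val π σ) : ∃ y, 𝔇.Ring Subtype.val N h π σ y := by
  obtain ⟨n, hn⟩ := hSY
  obtain ⟨u, hu1, hu2⟩ := hu n hn
  have hT' := delb_plane_isSph hY
  have hF := pvwf_fit hT' (delbPl Y).toMap_simple 𝔇 hOk hG hσ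
  exact pvc4_ring_circuit hT' (delbPl Y).toMap_simple 𝔇 hOk hF hσ hWO C hC hCf hCg (M := 𝔇.NU Subtype.val (pvq6Fat π S) ∩ P)
    (fun q hg hq v hv hv' => ⟨(pvq6_g1 hY hπ hOk hσ hG.sep hn hT hr hd h3 hκd hWl hcol hu1 hu2 hq hg).2 v hv', hP v hv⟩) hNB ⟨n, hn⟩

end model

end Claimed.Agent.R289
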