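import Claimed.Agent.R289.Tr.ColP
import Claimed.Agent.R289.Tr.C2Col
import Claimed.Agent.R289.Tr.FitFz
import Claimed.Agent.R289.Exit.N1K

/-!
# Row 289 (S0537), THE WALL, ROAD E, file Tr/ColPR : (CELL) OF `dom` AT THE REGIONS OF RECORD, BY THE PLANE ROUTE      (helper63; prefix `pvq7_`, `pvq7`)

(CELL) of 104 (`Tr/DomEN` v2, `PvdkYm.cell`): the sites of the open cell `Int Z.Right`, `Z = g₀ ∪ q`, `q` ANY shield, lie in the class read by `E(D) = NBon MF` of KIT v2 (29), `MF = NU` of the pattern `{reg with Ycol := reg.Ycol ∪ (pvgeFar C r)ᶜ}` (`= pvq6Fat reg (pvgeFar C r)ᶜ = reg.wc (..)` of 78, by `rfl`).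
ROUTE B (`Tr/ColP`): NO `Col`, NO MESH INSIDE `C`, NO COARSE MESH: the only analytic input is THE MESH OFF `C` = layer 1 of the guard (`Pvn1kMesh` of 170, `Exit/N1K`).
* sec. 1  **`pvq7_far_short`**: mesh `r` off `C ⊆ T₀` ⟹ every Delaunay edge which leaves a site `3 r`-far from `T₀` (in the patch) is shorter than `4 r`      [its empty disc misses `T₀` (`pvge_no_bridge` of 29), so it contains no disc of radius `2 r`]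
* sec. 2  `pvq7U T₀ κ` (pointwise closed neighbourhood), **`pvq7_u`**: on `SYn` the new strand has a `YCL` site within `κ` of `T₀`      [`pvc2_cross_ycl` of 227 at the pattern `π.wc (pvq7U T₀ κ)`, mouths `Bt \ U`, `Bs`: a site of `Bt \ U` is far, its edges are short]
* sec. 3  **`pvq7_cell_model`**: (CELL) at the model, any pattern, any preconnected `T₀ ⊇ C`
* sec. 4  the regions of record `pvfeRegAt`, `T₀ := pvc5L Γ p Gt Gs` of 78 (inner lanes + one piece of each inner mouth), `κ := δ/16`, `d₀ := δ/10`, `48 r ≤ δ`: `pvq7_sep` (`7 h ≤ |yt - ys|` from `PvfeIx.sep` + `nd`), `pvq7_col`, `pvq7_g_off`, `pvq7_out_off`, `pvq7_fz_off`, **`pvq7_cell_reg`**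
* sec. 5  AT THE MODEL PARAMETERS: **`pvq7_cell`** (a datum `Ok` with the hull equalities), **`pvq7_cell_wit`** (a witness `PvxnWit` of 170) = (CELL) minus the ball
WHAT IS LEFT TO THE CALLER: the two pieces `Gt`, `Gs` (78 `Tr/C2ColR`: `pvc6Nt`, `pvc6Ns`): preconnected, meet the lanes, in the inner mouths, `δ/10` away from the two own boxes;   `C ⊆ pvc5L ..` (78 (B));   `Yin ⊆ closedBall x (5R)`;   `Disjoint s.ins t.ins` (`Geo.sep`).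
-/

set_option autoImplicit false

namespace Claimed.Agent.R289

open Relation Set Metric

/-! ## 1. far sites have short edges -/

section short

variable {Y T₀ C : Set ℂ} {r κ : ℝ} {x : ℂ} {R₂ : ℝ}

/-- **FAR SITES HAVE SHORT EDGES**: mesh `r` off `C` in the patch, `C ⊆ T₀`, collar mesh round `T₀`.      No mesh inside `C`. -/
theorem pvq7_far_short (hr : 0 < r) (hC : C ⊆ T₀) (hne : C.Nonempty) (hcl : VorDense Y (pvgeCollar T₀ r) r) (hd : VorDense Y {z | ‖z - x‖ ≤ R₂ ∧ r < infDist z C} r)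
    {a b : ℂ} (hab : DelAdj Y a b) (ha : a ∈ pvgeFar T₀ r) (hax : ‖a - x‖ + 2 * r ≤ R₂) : ‖a - b‖ < 4 * r := by
  obtain ⟨haY, hbY, -, z, hza, hzb⟩ := hab
  have hdis := pvge_no_bridge hr hcl ha hza
  have e1 : ‖z - b‖ = ‖z - a‖ := le_antisymm (hzb a haY) (hza b hbY)
  have key : ‖z - a‖ < 2 * r := by
    by_contra hge
    rw [not_lt] at hge
    have hρ0 : 0 < ‖z - a‖ := by linarith
    obtain ⟨z', hz'⟩ : ∃ z' : ℂ, z' = a + ((2 * r / ‖z - a‖ : ℝ) : ℂ) * (z - a) := ⟨_, rfl⟩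
    have n1 : ‖z' - a‖ = 2 * r := by
      have e : z' - a = ((2 * r / ‖z - a‖ : ℝ) : ℂ) * (z - a) := by rw [hz']; ring
      rw [e, norm_mul, Complex.norm_real, Real.norm_eq_abs, abs_of_nonneg (by positivity)]
      field_simp
    have n2 : ‖z - z'‖ = ‖z - a‖ - 2 * r := by
      have e : z - z' = ((1 - 2 * r / ‖z - a‖ : ℝ) : ℂ) * (z - a) := by rw [hz']; push_cast; ring
      rw [e, norm_mul, Complex.norm_real, Real.norm_eq_abs, abs_of_nonneg (by rw [sub_nonneg, div_le_one hρ0]; exact hge)]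
      field_simp
    have hfar : 2 * r ≤ infDist z' C := by
      refine (le_infDist hne).2 fun c hc => ?_
      have h1 : ‖z - a‖ < ‖c - z‖ := by
        by_contra hle
        rw [not_lt] at hle
        exact Set.disjoint_left.1 hdis (mem_closedBall.2 (by rw [dist_eq_norm]; exact hle)) (hC hc)
      have h2 : ‖c - z‖ ≤ ‖z' - c‖ + ‖z - z'‖ := by
        have e : c - z = -(z' - c) - (z - z') := by ring
        rw [e]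
        refine (norm_sub_le _ _).trans ?_
        rw [norm_neg]
      rw [dist_eq_norm]
      linarith
    have hx : ‖z' - x‖ ≤ R₂ := by
      have e : z' - x = (z' - a) + (a - x) := by ring
      rw [e]
      refine (norm_add_le _ _).trans ?_
      linarith
    obtain ⟨u, hu, hle⟩ := hd z' ⟨hx, by linarith⟩
    have h3 := hza u hu
    have h4 : ‖z - u‖ ≤ ‖z - z'‖ + ‖z' - u‖ := by
      have e : z - u = (z - z') + (z' - u) := by ring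
      rw [e]
      exact norm_add_le _ _
    linarith
  have h5 : ‖a - b‖ ≤ ‖z - a‖ + ‖z - b‖ := by
    have e : a - b = -(z - a) + (z - b) := by ring
    rw [e]
    refine (norm_add_le _ _).trans ?_
    rw [norm_neg]
  linarith

end short

/-! ## 2. one `YCL` site near `T₀` -/

/-- the closed `κ`-neighbourhood, pointwise form -/
def pvq7U (T₀ : Set ℂ) (κ : ℝ) : Set ℂ := {z | ∃ c ∈ T₀, ‖z - c‖ ≤ κ}

theorem pvq7_eqns_cite : True := by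
  have := @pvq7U.eq_1
  trivial

section model

variable {Y T₀ C : Set ℂ} {r κ d₀ : ℝ} {x : ℂ} {R₁ R₂ : ℝ} {𝔇 : PvwDat (delbPl Y).toMap} {N : PvwNum} {h : ℝ} {π : PvwPat} {σ : ↥Y → Bool}

theorem pvq7_U_self (hκ : 0 ≤ κ) : T₀ ⊆ pvq7U T₀ κ := fun z hz => ⟨z, hz, by rw [sub_self, norm_zero]; exact hκ⟩

/-- a point off the neighbourhood is far -/
theorem pvq7_far_of_notU (hne : T₀.Nonempty) (h3 : 3 * r ≤ κ) {a : ℂ} (ha : a ∉ pvq7U T₀ κ) : a ∈ pvgeFar T₀ r := by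
  show 3 * r ≤ infDist a T₀
  refine (le_infDist hne).2 fun c hc => ?_
  rw [dist_eq_norm]
  by_contra hlt
  rw [not_le] at hlt
  exact ha ⟨c, hc, by linarith⟩

/-- **THE SITE `u` OF `pvq6_g1`, NO MESH INSIDE `C`**: on `SYn` the new strand has a site of `YCL` within `κ` of `T₀`.
`Yin ⊆ U ∪ Bt ∪ Bs`, `U` = the `κ`-neighbourhood of `T₀`;   `Bt`, `Bs` are `4 r` apart;   no frozen site of `D_Y` over `U`;   the two tip darts over `Bt`, `Bs`. -/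
theorem pvq7_u (hY : DelGood Y) (hOk : 𝔇.Ok Subtype.val N h π) (hσ : σ ∈ 𝔇.Cyl) {n : ℕ} (hSY : 𝔇.SYn Subtype.val π σ n)
    (hr : 0 < r) (hC : C ⊆ T₀) (hne : C.Nonempty) (hcl : VorDense Y (pvgeCollar T₀ r) r) (hd : VorDense Y {z | ‖z - x‖ ≤ R₂ ∧ r < infDist z C} r) (h3 : 3 * r ≤ κ)
    {Bt Bs : Set ℂ} (hcov : π.Yin ⊆ pvq7U T₀ κ ∪ Bt ∪ Bs) (hsep : ∀ a ∈ Bt, ∀ b ∈ Bs, 4 * r ≤ ‖a - b‖) (hBx : ∀ a ∈ Bt, ‖a - x‖ + 2 * r ≤ R₂)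
    (hfz : ∀ v ∈ 𝔇.fzY, (v : ℂ) ∉ pvq7U T₀ κ)
    (ht : ((delbPl Y).toMap.src (𝔇.t.ep 𝔇.t.np) : ℂ) ∈ Bt ∧ ((delbPl Y).toMap.tgt (𝔇.t.ep 𝔇.t.np) : ℂ) ∈ Bt)
    (hs : ((delbPl Y).toMap.src (𝔇.s.em 𝔇.s.nm) : ℂ) ∈ Bs ∧ ((delbPl Y).toMap.tgt (𝔇.s.em 𝔇.s.nm) : ℂ) ∈ Bs) : ∃ u ∈ 𝔇.YCL Subtype.val π, ∃ c ∈ T₀, ‖(u : ℂ) - c‖ ≤ κ := by
  obtain ⟨hAs, hAt⟩ := pvc2_at (delb_plane_isSph hY) hOk hσ
  have hSY' : 𝔇.SYn Subtype.val (π.wc (pvq7U T₀ κ)) σ n := hSY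
  have f1 : (delbPl Y).toMap.src (𝔇.t.ep 𝔇.t.np) ∈ 𝔇.fzY := Or.inl (Or.inl (Or.inr ⟨𝔇.t.np, le_rfl, rfl⟩))
  have f2 : (delbPl Y).toMap.tgt (𝔇.t.ep 𝔇.t.np) ∈ 𝔇.fzY := Or.inl (Or.inr ⟨𝔇.t.np, le_rfl, rfl⟩)
  have c1 : (π.wc (pvq7U T₀ κ)).Yin ⊆ (π.wc (pvq7U T₀ κ)).Ycol ∪ (Bt \ pvq7U T₀ κ) ∪ Bs := by
    intro z hz
    by_cases hU : z ∈ pvq7U T₀ κ
    · exact Or.inl (Or.inl hU)
    · rcases hcov hz with (h1 | h1) | h1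
      · exact absurd h1 hU
      · exact Or.inl (Or.inr ⟨h1, hU⟩)
      · exact Or.inr h1
  have c2 : Disjoint (Bt \ pvq7U T₀ κ) Bs := by
    rw [Set.disjoint_left]
    intro z h1 h2
    have := hsep z h1.1 z h2
    rw [sub_self, norm_zero] at this
    linarith
  have c3 : ∀ u w : ↥Y, (delbPl Y).toMap.Adj u w → (u : ℂ) ∈ Bt \ pvq7U T₀ κ → (w : ℂ) ∉ Bs := by
    rintro a b ⟨d, rfl, rfl⟩ h1 h2
    have h4 := pvq7_far_short hr hC hne hcl hd d.2.2 (pvq7_far_of_notU (hne.mono hC) h3 h1.2) (hBx _ h1.1)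
    have h5 : 4 * r ≤ ‖((d.1.1 : ↥Y) : ℂ) - ((d.1.2 : ↥Y) : ℂ)‖ := hsep _ h1.1 _ h2
    linarith
  obtain ⟨u, hu, huc⟩ := pvc2_cross_ycl (π := π.wc (pvq7U T₀ κ)) hAs hAt hSY' c1 ⟨⟨ht.1, hfz _ f1⟩, ⟨ht.2, hfz _ f2⟩⟩ hs c2 c3 hfz
  exact ⟨u, hu, huc⟩

/-! ## 3. (CELL) at the model, any pattern -/

/-- **(CELL) AT THE MODEL, ROUTE B, NO MESH INSIDE `C`**.      REGIONS: `C ⊆ T₀ ⊆ closedBall x R₁`, `T₀` preconnected, `Ycol` within `κ` of `T₀`, `Yin ⊆ U ∪ Bt ∪ Bs`.      NUMBERS: `3 r ≤ κ`, `3 κ / 2 < d₀`, `R₁ + 6 r ≤ R₂`.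
GEOMETRY: the mesh `r` off `C` in the patch `R₂` (guard of 170);   the sites of `Wl` and the frozen sites of `D_Y` at distance `≥ d₀` from `T₀`.      COLOUR: `SYn`. -/
theorem pvq7_cell_model (hY : DelGood Y) (hπ : π.Wf) (hOk : 𝔇.Ok Subtype.val N h π) (hσ : σ ∈ 𝔇.Cyl) (hins : Disjoint 𝔇.s.ins 𝔇.t.ins) {n : ℕ} (hSY : 𝔇.SYn Subtype.val π σ n)
    (hT : IsPreconnected T₀) (hr : 0 < r) (hC : C ⊆ T₀) (hne : C.Nonempty) (hTx : T₀ ⊆ closedBall x R₁) (hR : R₁ + 6 * r ≤ R₂) (hd : VorDense Y {z | ‖z - x‖ ≤ R₂ ∧ r < infDist z C} r)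
    (h3 : 3 * r ≤ κ) (hκd : 3 * κ / 2 < d₀) (hWl : ∀ w ∈ 𝔇.Wl Subtype.val π, ∀ c ∈ T₀, d₀ ≤ ‖(w : ℂ) - c‖) (hfz : ∀ w ∈ 𝔇.fzY, ∀ c ∈ T₀, d₀ ≤ ‖(w : ℂ) - c‖)
    (hcol : π.Ycol ⊆ pvq7U T₀ κ) {Bt Bs : Set ℂ} (hcov : π.Yin ⊆ pvq7U T₀ κ ∪ Bt ∪ Bs) (hsep : ∀ a ∈ Bt, ∀ b ∈ Bs, 4 * r ≤ ‖a - b‖) (hBx : ∀ a ∈ Bt, ‖a - x‖ + 2 * r ≤ R₂)
    (ht : ((delbPl Y).toMap.src (𝔇.t.ep 𝔇.t.np) : ℂ) ∈ Bt ∧ ((delbPl Y).toMap.tgt (𝔇.t.ep 𝔇.t.np) : ℂ) ∈ Bt)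
    (hs : ((delbPl Y).toMap.src (𝔇.s.em 𝔇.s.nm) : ℂ) ∈ Bs ∧ ((delbPl Y).toMap.tgt (𝔇.s.em 𝔇.s.nm) : ℂ) ∈ Bs)
    {q : (delbPl Y).toMap.Pth} (hq : 𝔇.IsShield Subtype.val π σ q) (hg : 𝔇.g.Glue q) :
    ∀ v ∈ (delbPl Y).toMap.Int (𝔇.g.glue q hg).Right, v ∈ 𝔇.NU Subtype.val (pvq6Fat π (pvgeFar C r)ᶜ) := by
  have hcl := pvq6_collar_of_patch hC hne hr hTx hR hd
  have hκ0 : 0 < κ := by linarith
  have hfz' : ∀ v ∈ 𝔇.fzY, (v : ℂ) ∉ pvq7U T₀ κ := by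
    rintro v hv ⟨c, hc, hle⟩
    have := hfz v hv c hc
    linarith
  obtain ⟨u, hu, huT⟩ := pvq7_u hY hOk hσ hSY hr hC hne hcl hd h3 hcov hsep hBx hfz' ht hs
  refine (pvq6_g1 hY hπ hOk hσ hins hSY hT hr hcl (by linarith) hκd hWl ?_ hu huT hq hg).2
  rintro z (hz | hz)
  · exact hcol hz
  · have h1 : infDist z C < 3 * r := not_le.1 hz
    obtain ⟨c, hc, hlt⟩ := (infDist_lt_iff hne).1 h1
    rw [dist_eq_norm] at hlt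
    exact ⟨c, hC hc, by linarith⟩

end model

/-! ## 4. the regions of record -/

section reg

variable {τ : Type} {Γ : PvtsGeo τ} {ty : τ → PvwTy} {cp cm : τ → Set ℂ} {N : PvwNum} {h : ℝ} {p : PvtsPat τ} {Gt Gs : Set ℂ}

/-- the grid centre of a tip cell against the centre of its pin -/
theorem pvq7_ctr_le (hn : PvffzNum Γ N h) (t : PvwTy) {y : ℂ} (hk : t.k ≤ N.K) (hnd : |pvccN y - (2 * t.b2 + t.k * N.rho1)| ≤ N.rho / 4) : ‖(h : ℂ) * y‖ ≤ 2 * pvwRad N h t N.K + h / 2 := by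
  have h0 := hn.h0
  have h1 := pvffz_norm_le_N y
  have h2 := (abs_le.1 hnd).2
  have h3 := pvffz_rad_mono hn t hk
  have h4 := hn.rho_le
  have e : pvwRad N h t t.k = (2 * t.b2 + t.k * N.rho1) * h := rfl
  rw [norm_mul, Complex.norm_real, Real.norm_eq_abs, abs_of_pos h0]
  have h5 : h * ‖y‖ ≤ h * (2 * ((2 * t.b2 + t.k * N.rho1) + N.rho / 4)) := mul_le_mul_of_nonneg_left (by linarith) h0.le
  nlinarith

/-- **the two grid centres are `7 h` apart** (`PvfeIx.sep` + the non degenerate menu) -/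
theorem pvq7_sep (hn : PvffzNum Γ N h) (hD : PvfeDoors Γ ty N h) {Z : Set (ℤ × ℤ)} (hI : PvfeIx Γ ty N h p Z) (hks : (ty p.ts).k ≤ N.K) (hkt : (ty p.tt).k ≤ N.K) :
    7 * h ≤ ‖(ty p.tt).cp h p.zt - (ty p.ts).cm h p.zs‖ := by
  have h1 := pvq7_ctr_le hn (ty p.tt) hkt (hD.nd_p p.tt)
  have h2 := pvq7_ctr_le hn (ty p.ts) hks (hD.nd_m p.ts)
  have h3 := hI.sep
  have e : p.zs - p.zt = -((ty p.tt).cp h p.zt - (ty p.ts).cm h p.zs) + (h : ℂ) * (ty p.tt).yp - (h : ℂ) * (ty p.ts).ym := by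
    unfold PvwTy.cp PvwTy.cm
    ring
  have h4 : ‖p.zs - p.zt‖ ≤ ‖(ty p.tt).cp h p.zt - (ty p.ts).cm h p.zs‖ + ‖(h : ℂ) * (ty p.tt).yp‖ + ‖(h : ℂ) * (ty p.ts).ym‖ := by
    rw [e]
    refine (norm_sub_le _ _).trans (add_le_add_left ((norm_add_le _ _).trans ?_) _)
    rw [norm_neg]
  linarith

/-- a point of the inner mouth of one pin against the own box of the other pin -/
theorem pvq7_cross (hn : PvffzNum Γ N h) {za zb y c w : ℂ} {ra rb : ℝ} (hsep : 2 * (ra + rb) + 8 * h ≤ ‖za - zb‖) (hy : ‖y‖ ≤ 2 * ra + h / 2) (hc : c ∈ closedBall (za + y) (N.rho * h / 2))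
    {rb' : ℝ} (hrb : rb' ≤ rb) (hw : w ∈ pvwSq zb rb') : 6 * h ≤ ‖w - c‖ := by
  have h0 := hn.h0
  have h1 := pvffz_sq_norm hw
  have h2 : N.rho * h ≤ h := by nlinarith [hn.rho_le]
  rw [mem_closedBall, dist_eq_norm] at hc
  have e : za - zb = -(w - c) + (w - zb) - (c - (za + y)) - y := by ring
  have h3 : ‖za - zb‖ ≤ ‖w - c‖ + ‖w - zb‖ + ‖c - (za + y)‖ + ‖y‖ := by
    rw [e]
    refine (norm_sub_le _ _).trans (add_le_add_left ((norm_sub_le _ _).trans (add_le_add_left ((norm_add_le _ _).trans ?_) _)) _)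
    rw [norm_neg]
  linarith

/-- `Ycol` lies within `δ/16` of the skeleton -/
theorem pvq7_col (δ0 : 0 < Γ.δ) : (pvfeRegAt Γ ty cp cm N h p).Ycol ⊆ pvq7U (pvc5L Γ p Gt Gs) (Γ.δ / 16) := by
  intro z hz
  have hz' : z ∈ cthickening (‖pvfeD Γ p‖ / 20) (pvfeLanes (-(1 / 10)) (4 / 10) (pvfeZ Γ p) (pvfeD Γ p) p.l) := hz
  rw [(pvwm_lanes_closed _ _ _ (pvfe_D_ne Γ p) _).cthickening_eq_biUnion_closedBall (by positivity), pvfe_norm_D, abs_of_pos δ0] at hz'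
  simp only [mem_iUnion, exists_prop] at hz'
  obtain ⟨c, hc, hzc⟩ := hz'
  rw [mem_closedBall, dist_eq_norm] at hzc
  exact ⟨c, Or.inl (Or.inl hc), by linarith⟩

/-- a point off `Yreg` is `2 δ` away from the skeleton -/
theorem pvq7_g_off (δ0 : 0 < Γ.δ) (hρh : 0 ≤ N.rho * h) (bt : Gt ⊆ closedBall ((ty p.tt).cp h p.zt) (N.rho * h / 2)) (bs : Gs ⊆ closedBall ((ty p.ts).cm h p.zs) (N.rho * h / 2)) {w : ℂ}
    (hw : w ∉ (pvfeRegAt Γ ty cp cm N h p).Yreg) : ∀ c ∈ pvc5L Γ p Gt Gs, 2 * Γ.δ ≤ ‖w - c‖ := by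
  have hw' : w ∉ pvfeTube 3 (pvfeZ Γ p) (pvfeD Γ p) p.l ∪ closedBall ((ty p.tt).cp h p.zt) (N.rho * h + 3 * ‖pvfeD Γ p‖) ∪ closedBall ((ty p.ts).cm h p.zs) (N.rho * h + 3 * ‖pvfeD Γ p‖) := hw
  rw [pvfe_norm_D, abs_of_pos δ0] at hw'
  have tri : ∀ a c : ℂ, ‖w - a‖ ≤ ‖w - c‖ + ‖c - a‖ := fun a c => by
    have e : w - a = (w - c) + (c - a) := by ring
    rw [e]
    exact norm_add_le _ _
  rintro c ((hc | hc) | hc)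
  · obtain ⟨j, hj, hle⟩ := pvfe_mem_tube.1 (pvfe_lanes_sub_tube (by norm_num) (by norm_num) le_rfl _ _ _ hc)
    have h1 : ¬ ‖w - pvccC (pvfeZ Γ p) (pvfeD Γ p) p.l j‖ ≤ 3 * ‖pvfeD Γ p‖ := fun hc' => hw' (Or.inl (Or.inl (pvfe_mem_tube.2 ⟨j, hj, hc'⟩)))
    rw [pvfe_norm_D, abs_of_pos δ0] at h1 hle
    have := tri (pvccC (pvfeZ Γ p) (pvfeD Γ p) p.l j) c
    linarith
  · have h1 : ¬ ‖w - (ty p.tt).cp h p.zt‖ ≤ N.rho * h + 3 * Γ.δ := fun hc' => hw' (Or.inl (Or.inr (mem_closedBall.2 (by rw [dist_eq_norm]; exact hc'))))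
    have h2 := bt hc
    rw [mem_closedBall, dist_eq_norm] at h2
    have := tri ((ty p.tt).cp h p.zt) c
    linarith
  · have h1 : ¬ ‖w - (ty p.ts).cm h p.zs‖ ≤ N.rho * h + 3 * Γ.δ := fun hc' => hw' (Or.inr (mem_closedBall.2 (by rw [dist_eq_norm]; exact hc')))
    have h2 := bs hc
    rw [mem_closedBall, dist_eq_norm] at h2
    have := tri ((ty p.ts).cm h p.zs) c
    linarith

/-- a point of `Yout` is `δ/10` away from the skeleton -/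
theorem pvq7_out_off (δ0 : 0 < Γ.δ) (bt : Gt ⊆ closedBall ((ty p.tt).cp h p.zt) (N.rho * h / 2)) (bs : Gs ⊆ closedBall ((ty p.ts).cm h p.zs) (N.rho * h / 2)) {w : ℂ}
    (hw : w ∈ (pvfeRegAt Γ ty cp cm N h p).Yout) : ∀ c ∈ pvc5L Γ p Gt Gs, Γ.δ / 10 ≤ ‖w - c‖ := by
  intro c hc
  have hw' : w ∉ cthickening (‖pvfeD Γ p‖ / 10) (pvfeRegAt Γ ty cp cm N h p).Yin := hw.2
  rw [pvfe_norm_D, abs_of_pos δ0] at hw'
  by_contra hlt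
  rw [not_le] at hlt
  exact hw' (mem_cthickening_of_dist_le w c _ _ (pvc5_L_in Γ ty cp cm N h p bt bs hc) (by rw [dist_eq_norm]; exact hlt.le))

/-- **a point of one of the two own boxes which is `2 δ` away from the cell centres is `δ/10` away from the skeleton** -/
theorem pvq7_fz_off (hn : PvffzNum Γ N h) (hD : PvfeDoors Γ ty N h) {Z : Set (ℤ × ℤ)} (hI : PvfeIx Γ ty N h p Z) (hks : (ty p.ts).k ≤ N.K) (hkt : (ty p.tt).k ≤ N.K)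
    (bt : Gt ⊆ closedBall ((ty p.tt).cp h p.zt) (N.rho * h / 2)) (bs : Gs ⊆ closedBall ((ty p.ts).cm h p.zs) (N.rho * h / 2))
    (hGt : ∀ c ∈ Gt, ∀ w ∈ pvwSq p.zt (pvwRad N h (ty p.tt) (ty p.tt).k), Γ.δ / 10 ≤ ‖w - c‖) (hGs : ∀ c ∈ Gs, ∀ w ∈ pvwSq p.zs (pvwRad N h (ty p.ts) (ty p.ts).k), Γ.δ / 10 ≤ ‖w - c‖) {w : ℂ}
    (hoff : PvffzOff Γ p w) (hw : w ∈ pvwSq p.zs (pvwRad N h (ty p.ts) (ty p.ts).k) ∨ w ∈ pvwSq p.zt (pvwRad N h (ty p.tt) (ty p.tt).k)) : ∀ c ∈ pvc5L Γ p Gt Gs, Γ.δ / 10 ≤ ‖w - c‖ := by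
  have δ0 := hn.δ0
  have h0 := hn.h0
  have hfine := hn.fine
  have hρ : N.rho * h ≤ h := by nlinarith [hn.rho_le]
  have hsep := hI.sep
  rintro c ((hc | hc) | hc)
  · have := hoff.tube δ0 (κ := 1) (pvfe_lanes_sub_tube (by norm_num) (by norm_num) le_rfl _ _ _ hc)
    linarith
  · rcases hw with hw | hw
    · have hsep' : 2 * (pvwRad N h (ty p.tt) N.K + pvwRad N h (ty p.ts) N.K) + 8 * h ≤ ‖p.zt - p.zs‖ := by rw [norm_sub_rev]; linarith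
      have := pvq7_cross hn hsep' (pvq7_ctr_le hn (ty p.tt) hkt (hD.nd_p p.tt)) (bt hc) (pvffz_rad_mono hn (ty p.ts) hks) hw
      linarith
    · exact hGt c hc w hw
  · rcases hw with hw | hw
    · exact hGs c hc w hw
    · have := pvq7_cross hn hsep (pvq7_ctr_le hn (ty p.ts) hks (hD.nd_m p.ts)) (bs hc) (pvffz_rad_mono hn (ty p.tt) hkt) hw
      linarith

variable {Y : Set ℂ} {𝔇 : PvwDat (delbPl Y).toMap} {σ : ↥Y → Bool}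

/-- **(CELL) AT THE REGIONS OF RECORD, ROUTE B**.      PIECES: `Gt`, `Gs` preconnected, meeting the lanes, in the inner mouths, `δ/10` away from the own boxes.      `C ⊆ pvc5L Γ p Gt Gs`, `48 r ≤ δ`, `3 r ≤ R`, `Yin ⊆ closedBall x (5R)`.
ANALYTIC INPUT: the mesh `r` off `C` (layer 1 of the guard) ONLY. -/
theorem pvq7_cell_reg (hn : PvffzNum Γ N h) (hΓ : Γ.Ok p) (hD : PvfeDoors Γ ty N h) (hb : ∀ t, (ty t).b ≤ 2 * (ty t).b2) {Zs Zt : Set (ℤ × ℤ)} (hI : PvfeIx Γ ty N h p (Zs ∪ Zt))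
    (hY : DelGood Y) (hOk : 𝔇.Ok Subtype.val N h (pvfeRegAt Γ ty cp cm N h p)) {Bs' Bt' : Set ℂ}
    (hZs : Zs = pvtCells Γ.δ (Subtype.val '' 𝔇.s.fzIn ∪ Bs')) (hZt : Zt = pvtCells Γ.δ (Subtype.val '' 𝔇.t.fzOut ∪ Bt'))
    (hσ : σ ∈ 𝔇.Cyl) (hins : Disjoint 𝔇.s.ins 𝔇.t.ins) {n : ℕ} (hSY : 𝔇.SYn Subtype.val (pvfeRegAt Γ ty cp cm N h p) σ n)
    (pt : IsPreconnected Gt) (ps : IsPreconnected Gs)
    (mt : (pvfeLanes (-(1 / 10)) (4 / 10) (pvfeZ Γ p) (pvfeD Γ p) p.l ∩ Gt).Nonempty) (ms : (pvfeLanes (-(1 / 10)) (4 / 10) (pvfeZ Γ p) (pvfeD Γ p) p.l ∩ Gs).Nonempty)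
    (bt : Gt ⊆ closedBall ((ty p.tt).cp h p.zt) (N.rho * h / 2)) (bs : Gs ⊆ closedBall ((ty p.ts).cm h p.zs) (N.rho * h / 2))
    (hGt : ∀ c ∈ Gt, ∀ w ∈ pvwSq p.zt (pvwRad N h (ty p.tt) (ty p.tt).k), Γ.δ / 10 ≤ ‖w - c‖) (hGs : ∀ c ∈ Gs, ∀ w ∈ pvwSq p.zs (pvwRad N h (ty p.ts) (ty p.ts).k), Γ.δ / 10 ≤ ‖w - c‖)
    {C : Set ℂ} {r R : ℝ} {x : ℂ} (hC : C ⊆ pvc5L Γ p Gt Gs) (hne : C.Nonempty) (hr : 0 < r) (h48 : 48 * r ≤ Γ.δ) (hrR : 3 * r ≤ R) (hYin : (pvfeRegAt Γ ty cp cm N h p).Yin ⊆ closedBall x (5 * R))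
    (hd : VorDense Y (pvn1kOff x R C r) r) {q : (delbPl Y).toMap.Pth} (hq : 𝔇.IsShield Subtype.val (pvfeRegAt Γ ty cp cm N h p) σ q) (hg : 𝔇.g.Glue q) :
    ∀ v ∈ (delbPl Y).toMap.Int (𝔇.g.glue q hg).Right, v ∈ 𝔇.NU Subtype.val (pvq6Fat (pvfeRegAt Γ ty cp cm N h p) (pvgeFar C r)ᶜ) := by
  have δ0 := hn.δ0
  have h0 := hn.h0
  have hfine := hn.fine
  have hρ0 := hn.rho0
  have hρh : 0 ≤ N.rho * h := (mul_pos hρ0 h0).le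
  have hρ : N.rho * h ≤ h := by nlinarith [hn.rho_le]
  have hks := hOk.st_s.lev
  have hkt := hOk.st_t.lev
  have hLin := pvc5_L_in Γ ty cp cm N h p bt bs
  have hfz : ∀ w ∈ 𝔇.fzY, ∀ c ∈ pvc5L Γ p Gt Gs, Γ.δ / 10 ≤ ‖(w : ℂ) - c‖ := by
    intro w hw
    refine pvq7_fz_off hn hD hI hks hkt bt bs hGt hGs (pvffz_dat hn hΓ hD hb hI hOk hZs hZt hw) ?_
    rcases hw with hw | hw
    · exact Or.inr (pvffz_out_box hn (hb _) hOk.st_t hw)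
    · exact Or.inl (pvffz_in_box hn (hb _) hOk.st_s hw)
  have hWl : ∀ w ∈ 𝔇.Wl Subtype.val (pvfeRegAt Γ ty cp cm N h p), ∀ c ∈ pvc5L Γ p Gt Gs, Γ.δ / 10 ≤ ‖(w : ℂ) - c‖ := by
    rintro w (hw | hw | hw | hw | hw | hw) c hc
    · have := pvq7_g_off δ0 hρh bt bs (hOk.off w hw) c hc
      linarith
    · exact hfz w (Or.inl (Or.inl (Or.inl hw))) c hc
    · exact hfz w (Or.inl (Or.inr hw)) c hc
    · exact hfz w (Or.inr (Or.inr hw)) c hc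
    · exact hfz w (Or.inr (Or.inl (Or.inl hw))) c hc
    · exact pvq7_out_off δ0 bt bs hw.1 c hc
  have hsep := pvq7_sep hn hD hI hks hkt
  have hle : N.rho * h / 4 ≤ N.rho * h / 2 := by linarith
  refine pvq7_cell_model (κ := Γ.δ / 16) (d₀ := Γ.δ / 10) (R₁ := 5 * R) (R₂ := 7 * R) (Bt := closedBall ((ty p.tt).cp h p.zt) (N.rho * h / 2)) (Bs := closedBall ((ty p.ts).cm h p.zs) (N.rho * h / 2))
    hY (pvfe_regAt_wf Γ ty cp cm hρh p) hOk hσ hins hSY (pvc5_L_preconn Γ p pt ps mt ms) hr hC hne (hLin.trans hYin) (by linarith) hd (by linarith) (by linarith) hWl hfz (pvq7_col δ0) ?_ ?_ ?_ ?_ ?_ hq hg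
  · rintro z ((hz | hz) | hz)
    · exact Or.inl (Or.inl (pvq7_U_self (by positivity) (Or.inl (Or.inl hz))))
    · exact Or.inl (Or.inr hz)
    · exact Or.inr hz
  · intro a ha b hb'
    rw [mem_closedBall, dist_eq_norm] at ha hb'
    have e : (ty p.tt).cp h p.zt - (ty p.ts).cm h p.zs = -(a - (ty p.tt).cp h p.zt) + (a - b) + (b - (ty p.ts).cm h p.zs) := by ring
    have h1 : ‖(ty p.tt).cp h p.zt - (ty p.ts).cm h p.zs‖ ≤ ‖a - (ty p.tt).cp h p.zt‖ + ‖a - b‖ + ‖b - (ty p.ts).cm h p.zs‖ := by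
      rw [e]
      refine (norm_add_le _ _).trans (add_le_add_left ((norm_add_le _ _).trans ?_) _)
      rw [norm_neg]
    linarith
  · intro a ha
    have := hYin (Or.inl (Or.inr ha))
    rw [mem_closedBall, dist_eq_norm] at this
    linarith
  · obtain ⟨t1, t2⟩ := hOk.st_t.good.tip_p
    exact ⟨mem_closedBall.2 (by rw [dist_eq_norm]; exact t1.trans hle), mem_closedBall.2 (by rw [dist_eq_norm]; exact t2.trans hle)⟩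
  · obtain ⟨t1, t2⟩ := hOk.st_s.good.tip_m
    exact ⟨mem_closedBall.2 (by rw [dist_eq_norm]; exact t1.trans hle), mem_closedBall.2 (by rw [dist_eq_norm]; exact t2.trans hle)⟩

end reg

/-! ## 5. at the model parameters -/

section par

open Claims.C0465

variable {τ : Type} {c : ℝ} {𝔓 : PvxPar τ c} {x : ℂ} {R : ℝ} {m : ℕ} {π : PvxIx τ} {Y : Set ℂ} {𝔇 : PvwDat (delbPl Y).toMap} {σ : ↥Y → Bool} {Gt Gs : Set ℂ}

/-- **(CELL) AT THE MODEL PARAMETERS**: a datum `Ok` at the regions of the index, with the hull equalities, an arc `y` of `SY` in hand -/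
theorem pvq7_cell (hW : 𝔓.Wf) (hF : PvfhWf 𝔓) (hfine : 32 * pvlmDel c m < 𝔓.num.rho * pvlmH m) (hπ : π ∈ pvxPatSet 𝔓 x R m) (hY : DelGood Y)
    (hok : 𝔇.Ok Subtype.val 𝔓.num (pvlmH m) (𝔓.reg m π)) {Bs Bt : Set ℂ}
    (hZs : (π.Zs : Set (ℤ × ℤ)) = pvtCells (pvlmDel c m) (Subtype.val '' 𝔇.s.fzIn ∪ Bs)) (hZt : (π.Zt : Set (ℤ × ℤ)) = pvtCells (pvlmDel c m) (Subtype.val '' 𝔇.t.fzOut ∪ Bt))
    (hσ : σ ∈ 𝔇.Cyl) (hins : Disjoint 𝔇.s.ins 𝔇.t.ins) {y : (delbPl Y).toMap.Pth} (hy : 𝔇.YArc Subtype.val (𝔓.reg m π) σ y)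
    (pt : IsPreconnected Gt) (ps : IsPreconnected Gs)
    (mt : (pvfeLanes (-(1 / 10)) (4 / 10) (pvfeZ (𝔓.Γ m) π.p) (pvfeD (𝔓.Γ m) π.p) π.p.l ∩ Gt).Nonempty) (ms : (pvfeLanes (-(1 / 10)) (4 / 10) (pvfeZ (𝔓.Γ m) π.p) (pvfeD (𝔓.Γ m) π.p) π.p.l ∩ Gs).Nonempty)
    (bt : Gt ⊆ closedBall ((𝔓.ty π.p.tt).cp (pvlmH m) π.p.zt) (𝔓.num.rho * pvlmH m / 2)) (bs : Gs ⊆ closedBall ((𝔓.ty π.p.ts).cm (pvlmH m) π.p.zs) (𝔓.num.rho * pvlmH m / 2))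
    (hGt : ∀ z ∈ Gt, ∀ w ∈ pvwSq π.p.zt (pvwRad 𝔓.num (pvlmH m) (𝔓.ty π.p.tt) (𝔓.ty π.p.tt).k), pvlmDel c m / 10 ≤ ‖w - z‖)
    (hGs : ∀ z ∈ Gs, ∀ w ∈ pvwSq π.p.zs (pvwRad 𝔓.num (pvlmH m) (𝔓.ty π.p.ts) (𝔓.ty π.p.ts).k), pvlmDel c m / 10 ≤ ‖w - z‖)
    {C : Set ℂ} {r : ℝ} (hC : C ⊆ pvc5L (𝔓.Γ m) π.p Gt Gs) (hne : C.Nonempty) (hr : 0 < r) (h48 : 48 * r ≤ pvlmDel c m) (hrR : 3 * r ≤ R) (hYin : (𝔓.reg m π).Yin ⊆ closedBall x (5 * R))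
    (hd : VorDense Y (pvn1kOff x R C r) r) {q : (delbPl Y).toMap.Pth} (hq : 𝔇.IsShield Subtype.val (𝔓.reg m π) σ q) (hg : 𝔇.g.Glue q) :
    ∀ v ∈ (delbPl Y).toMap.Int (𝔇.g.glue q hg).Right, v ∈ 𝔇.NU Subtype.val (pvq6Fat (𝔓.reg m π) (pvgeFar C r)ᶜ) := by
  obtain ⟨n, hn, -⟩ := hy
  rw [hF.reg_eq] at hok hn hYin hq ⊢
  rw [← hW.del m] at hZs hZt hGt hGs h48
  exact pvq7_cell_reg (pvffz_num hW hfine) hπ.1.1 (hF.doors m) hF.b_b2 hπ.2.2.2.2.1 hY hok hZs hZt hσ hins hn pt ps mt ms bt bs hGt hGs hC hne hr h48 hrR hYin hd hq hg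

/-- **(CELL) FOR A WITNESS OF `pvxnSys`** (170 `Exit/N1`; `PvdfPr` of 104 `= PvxnWit ∧ E ∧ W`) -/
theorem pvq7_cell_wit (hW : 𝔓.Wf) (hF : PvfhWf 𝔓) (hfine : 32 * pvlmDel c m < 𝔓.num.rho * pvlmH m) (hπ : π ∈ pvxPatSet 𝔓 x R m) (hY : DelGood Y) {a : ℂ} {𝔎 : PvxnKit} {i : PvxnIx}
    (hwit : PvxnWit 𝔓 m π a 𝔎 Y i σ 𝔇) (hins : Disjoint 𝔇.s.ins 𝔇.t.ins) {y : (delbPl Y).toMap.Pth} (hy : 𝔇.YArc Subtype.val (𝔓.reg m π) σ y)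
    (pt : IsPreconnected Gt) (ps : IsPreconnected Gs)
    (mt : (pvfeLanes (-(1 / 10)) (4 / 10) (pvfeZ (𝔓.Γ m) π.p) (pvfeD (𝔓.Γ m) π.p) π.p.l ∩ Gt).Nonempty) (ms : (pvfeLanes (-(1 / 10)) (4 / 10) (pvfeZ (𝔓.Γ m) π.p) (pvfeD (𝔓.Γ m) π.p) π.p.l ∩ Gs).Nonempty)
    (bt : Gt ⊆ closedBall ((𝔓.ty π.p.tt).cp (pvlmH m) π.p.zt) (𝔓.num.rho * pvlmH m / 2)) (bs : Gs ⊆ closedBall ((𝔓.ty π.p.ts).cm (pvlmH m) π.p.zs) (𝔓.num.rho * pvlmH m / 2))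
    (hGt : ∀ z ∈ Gt, ∀ w ∈ pvwSq π.p.zt (pvwRad 𝔓.num (pvlmH m) (𝔓.ty π.p.tt) (𝔓.ty π.p.tt).k), pvlmDel c m / 10 ≤ ‖w - z‖)
    (hGs : ∀ z ∈ Gs, ∀ w ∈ pvwSq π.p.zs (pvwRad 𝔓.num (pvlmH m) (𝔓.ty π.p.ts) (𝔓.ty π.p.ts).k), pvlmDel c m / 10 ≤ ‖w - z‖)
    {C : Set ℂ} {r : ℝ} (hC : C ⊆ pvc5L (𝔓.Γ m) π.p Gt Gs) (hne : C.Nonempty) (hr : 0 < r) (h48 : 48 * r ≤ pvlmDel c m) (hrR : 3 * r ≤ R) (hYin : (𝔓.reg m π).Yin ⊆ closedBall x (5 * R))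
    (hd : VorDense Y (pvn1kOff x R C r) r) {q : (delbPl Y).toMap.Pth} (hq : 𝔇.IsShield Subtype.val (𝔓.reg m π) σ q) (hg : 𝔇.g.Glue q) :
    ∀ v ∈ (delbPl Y).toMap.Int (𝔇.g.glue q hg).Right, v ∈ 𝔇.NU Subtype.val (pvq6Fat (𝔓.reg m π) (pvgeFar C r)ᶜ) :=
  pvq7_cell hW hF hfine hπ hY hwit.ok hwit.hull_s hwit.hull_t hwit.cyl hins hy pt ps mt ms bt bs hGt hGs hC hne hr h48 hrR hYin hd hq hg

/-- the class of `pvq7_cell` is the class of 78 (`PvwPat.wc`) -/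
theorem pvq7_fat_wc (π : PvwPat) (S : Set ℂ) : pvq6Fat π S = π.wc (π.Ycol ∪ S) := rfl

end par

end Claimed.Agent.R289
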