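import Claimed.Agent.R289.Tr.ConnQ
import Claimed.Agent.R289.Tr.CloseN
import Claimed.Agent.R289.Tr.ArcP

/-!
# Row 289 (S0537, Cardy for Poisson-Voronoi), THE WALL, ROAD P, file Tr/ConnO : THE OPEN CHAIN OF A PATTERN FROM THE FACTS OF ITS CONNECTORS      (helper279; prefix `pvny_o`, `PvnyO`)

`Tr/ConnQ` (113) glues `n` facts ROUND A CYCLE (`pvkj_glue`, `pvkj_ring`, `pvkj_close`).      The field `close` of P17 (59 `Tr/N1SysA`: `PvnjPar.ClR`) has an OPEN chain `t = 𝔢 0 → … → 𝔢 n = s` of connectors, closed by THE FREE ARC (260 `Tr/CloseN`: `PvncChain`, `PvncFree`, `pvnc_main`).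
* sec. 1  `PvnyOGeo n 𝔢 KE` (regions of an open chain), **`pvny_oglue`** (`n` facts ⟹ ONE family of gates), **`pvny_ochain`** `: PvncChain` of 260.
* sec. 2  **`pvny_oring`** : `n` links + the free arc of 212 (`PvzzDat.Is`) + the white lane + ZONE / REGION in marks ⟹ `PvgzRing (n + 1)` (through `pvnc_main` of 260; regions = `PvkjGeo (n + 1)` of 113 with the free corridor `KE n`).
* sec. 3  **`pvny_omask`** : TR14, the index form `pvdcX` of `X_g` (195 212) = THE MASK FORM (34 95), model free.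
* sec. 4  **`pvny_oclose`** : at one configuration: `n` facts `PvkjFt` + free arc + lane + region + masks ⟹ `PvcmAt (n + 1)` + all the values = the clause `ring` of `PvnjPar.ClR` of 59.
-/

set_option autoImplicit false
set_option linter.unusedSectionVars false
set_option linter.unusedVariables false

namespace Claimed.Agent.R289

open Set Relation

/-! ## 1. the open chain at one sphere -/

section chain

variable {κ : Type} {V D : Type}

/-- **what the regions of an OPEN chain of `n + 1` plugs and `n` connectors owe** (in marks).      Plug `j ≤ n` has the end `𝔢 j`, the connector `j < n` runs from the plug `j` to the plug `j + 1` in the corridor `KE j`. -/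
structure PvnyOGeo (n : ℕ) (𝔢 : ℕ → PvkjEnd κ) (KE : ℕ → Set κ) : Prop where
  ok : ∀ j, j ≤ n → (𝔢 j).Ok
  uq : ∀ j, j ≤ n → (𝔢 j).Uq
  /-- the zones of the plugs are pairwise disjoint -/
  dZZ : ∀ i j, i ≤ n → j ≤ n → i ≠ j → Disjoint (𝔢 i).Z (𝔢 j).Z
  /-- a corridor meets the zones of its two plugs only -/
  dKZ : ∀ i j, i ≤ n → j < n → i ≠ j → i ≠ j + 1 → Disjoint (KE j) (𝔢 i).Z
  /-- two corridors meet deep inside the plugs only -/
  dKK : ∀ i j, i < n → j < n → i ≠ j → KE i ∩ KE j ⊆ (𝔢 i).I ∪ (𝔢 (i + 1)).I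

variable {T : PvMap V D} {s : V → Bool} {mk : V → κ} {n : ℕ} {𝔢 : ℕ → PvkjEnd κ} {KE : ℕ → Set κ}

/-- **GLUE, OPEN FORM**: `n` links along a chain, each with its own two gates, are the links of ONE family of gates -/
theorem pvny_oglue (hT : T.IsSph) (hS : T.Simple) (G : PvnyOGeo n 𝔢 KE) (hn : 0 < n) {P : ℕ → T.Gate s → T.Gate s → ℕ → Prop}
    (h : ∀ j, j < n → ∃ (g g' : T.Gate s) (N : ℕ), PvkjLk T mk s (𝔢 j) (𝔢 (j + 1)) (KE j) g g' N ∧ P j g g' N) :
    ∃ (g : ℕ → T.Gate s) (N : ℕ → ℕ), ∀ j, j < n → PvkjLk T mk s (𝔢 j) (𝔢 (j + 1)) (KE j) (g j) (g (j + 1)) (N j) ∧ P j (g j) (g (j + 1)) (N j) := by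
  classical
  choose A B M hABM using h
  have hn1 : n - 1 < n := by omega
  refine ⟨fun j => if hj : j < n then A j hj else B (n - 1) hn1, fun j => if hj : j < n then M j hj else 0, fun j hj => ?_⟩
  have hj0 := hABM j hj
  have e1 : (if hj : j < n then A j hj else B (n - 1) hn1) = A j hj := dif_pos hj
  have e2 : (if hj : j < n then M j hj else 0) = M j hj := dif_pos hj
  have e3 : (if hj' : j + 1 < n then A (j + 1) hj' else B (n - 1) hn1) = B j hj := by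
    by_cases h1 : j + 1 < n
    · rw [dif_pos h1]
      exact G.uq (j + 1) h1.le V D T mk s hT hS _ _ (hABM (j + 1) h1).1.is hj0.1.is'
    · rw [dif_neg h1]
      have e : n - 1 = j := by omega
      subst e
      rfl
  show PvkjLk T mk s (𝔢 j) (𝔢 (j + 1)) (KE j) (if hj : j < n then A j hj else B (n - 1) hn1) (if hj' : j + 1 < n then A (j + 1) hj' else B (n - 1) hn1) (if hj : j < n then M j hj else 0) ∧
    P j (if hj : j < n then A j hj else B (n - 1) hn1) (if hj' : j + 1 < n then A (j + 1) hj' else B (n - 1) hn1) (if hj : j < n then M j hj else 0)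
  rw [e1, e2, e3]
  exact hj0

/-- every gate of the family is THE gate of its end -/
theorem pvny_ois {g : ℕ → T.Gate s} {N : ℕ → ℕ} (hn : 0 < n) (H : ∀ j, j < n → PvkjLk T mk s (𝔢 j) (𝔢 (j + 1)) (KE j) (g j) (g (j + 1)) (N j)) :
    ∀ j, j ≤ n → (𝔢 j).Is V D T mk s (g j) := by
  intro j hj
  rcases Nat.lt_or_ge j n with h1 | h1
  · exact (H j h1).is
  · have e : j = (n - 1) + 1 := by omega
    rw [e]
    exact (H (n - 1) (by omega)).is'

/-- **THE OPEN CHAIN OF 260**      (`pvkj_ring` of 113 without the last link;   the two end clauses replace the missing neighbours: the entrance vertex of the first gate is not marked in the first corridor, the exit vertex of the last gate is not marked in the last corridor) -/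
theorem pvny_ochain [DecidableEq V] (hT : T.IsSph) (hS : T.Simple) (G : PvnyOGeo n 𝔢 KE) (hn : 0 < n) {g : ℕ → T.Gate s} {N : ℕ → ℕ} (hfin : ∀ j, j ≤ n → (g j).c.Left.Finite)
    (H : ∀ j, j < n → PvkjLk T mk s (𝔢 j) (𝔢 (j + 1)) (KE j) (g j) (g (j + 1)) (N j)) (hvm : mk (g 0).vm ∉ KE 0) (hvp : mk (g n).vp ∉ KE (n - 1)) :
    PvncChain T s n g (fun j => pvtArc T s (g j).aIn (g j).len) (fun j => pvtArc T s (g j).aOut (N j)) := by
  have his := pvny_ois hn H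
  have hlk := fun j (hj : j < n) => pvkj_lk_arc hT hS (H j hj).run
  have hz : ∀ i, i ≤ n → ∀ x, x ∈ T.VOf (g i).c.Left → mk x ∈ (𝔢 i).Z := by
    rintro i hi x ⟨d, hd, rfl⟩
    exact (G.ok i hi).zone V D T mk s (g i) (his i hi) d hd
  have hdeep : ∀ i, i ≤ n → ∀ x, mk x ∈ (𝔢 i).I → x ∈ T.Int (g i).c.Left := by
    intro i hi x hx d hd
    subst hd
    exact (G.ok i hi).deep V D T mk s (g i) (his i hi) d hx
  have hKS := fun j (hj : j < n) (k : ℕ) (hk : k ≤ (pvtArc T s (g j).aOut (N j)).n) => pvkj_lk_verts (H j hj).run hk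
  have hKK : ∀ i j, i < n → j < n → i ≠ j → ∀ x, x ∈ pvzlKS T mk (KE i) (g i) (g (i + 1)) → mk x ∈ KE j → False := by
    intro i j hi hj hij x hx hxj
    rcases G.dKK i j hi hj hij ⟨hx.1, hxj⟩ with h2 | h2
    · exact hx.2.1 (hdeep i hi.le x h2)
    · exact hx.2.2 (hdeep (i + 1) hi x h2)
  refine ⟨fun j hj => ?_, fun j hj => (hlk j hj).1, fun j hj => (hlk j hj).2.1, fun j hj => (hlk j hj).2.2.1,
    fun j hj => (hlk j hj).2.2.2, fun j hj => ?_, fun i j hi hj hij => ?_, fun i j hi hj k h0 hk => ?_, fun i j hi hj hij k l h0 hk h0' hl e => ?_⟩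
  · obtain ⟨L, hL⟩ := (G.ok j hj).thru V D T mk s (g j) (his j hj)
    exact pvkj_inn hT hS (g j) (hfin j hj) (hL.len hT).2
  · obtain ⟨L, hL⟩ := (G.ok j hj).thru V D T mk s (g j) (his j hj)
    have := pvt_s_it_wall (pvtg_aIn_bw (g j)) L
    rw [hL.2.1] at this
    exact this
  · exact Set.disjoint_left.2 fun x h1 h2 => Set.disjoint_left.1 (G.dZZ i j hi hj hij) (hz i hi x h1) (hz j hj x h2)
  · intro hx
    obtain ⟨hks, hbl⟩ := hKS j hj k hk.le
    by_cases e1 : i = j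
    · subst e1
      rw [pl_VOf_left hT] at hx
      rcases hx with hx | hx
      · rcases pvtg_black (g i) hx hbl with hv | hv
        · -- `g⁻` of the source
          rcases Nat.eq_zero_or_pos i with h00 | h00
          · subst h00
            rw [hv] at hks
            exact hvm hks.1
          · obtain ⟨i', rfl⟩ : ∃ i', i = i' + 1 := ⟨i - 1, by omega⟩
            have hi' : i' < n := by omega
            have h5 := (hKS _ hi' _ le_rfl).1
            rw [(hlk _ hi').2.1, ← hv] at h5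
            exact hKK i' (i' + 1) hi' hj (by omega) _ h5 hks.1
        · have := (pvtArc T s (g i).aOut (N i)).inj k 0 hk.le (Nat.zero_le _) (by rw [hv, (hlk i hj).1])
          omega
      · exact hks.2.1 hx
    · by_cases e2 : i = j + 1
      · subst e2
        rw [pl_VOf_left hT] at hx
        rcases hx with hx | hx
        · rcases pvtg_black (g (j + 1)) hx hbl with hv | hv
          · have := (pvtArc T s (g j).aOut (N j)).inj k _ hk.le le_rfl (by rw [hv, (hlk j hj).2.1])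
            omega
          · -- `g⁺` of the target
            rcases Nat.lt_or_ge (j + 1) n with h1 | h1
            · have h5 := (hKS _ h1 0 (Nat.zero_le _)).1
              rw [(hlk _ h1).1, ← hv] at h5
              exact hKK j (j + 1) hj h1 (by omega) _ hks h5.1
            · have e : j + 1 = n := by omega
              rw [hv, e] at hks
              rw [show j = n - 1 by omega] at hks
              exact hvp hks.1
        · exact hks.2.2 hx
      · exact Set.disjoint_left.1 (G.dKZ i j hi hj e1 e2) hks.1 (hz i hi _ hx)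
  · have h1 := (hKS i hi k hk.le).1
    have h2 := (hKS j hj l hl.le).1
    rw [← e] at h2
    exact hKK i j hi hj hij _ h1 h2.1

end chain

/-! ## 2. the chain closed by the free arc of 212, at one sphere -/

section free

variable {V D : Type} {T : PvMap V D} {s : V → Bool} {mk : V → ℂ} {n : ℕ} {𝔢 : ℕ → PvkjEnd ℂ} {KE : ℕ → Set ℂ}

/-- the regions of a cycle of `n + 1` connectors are regions of the open chain of the first `n` -/
theorem pvny_ogeo (G : PvkjGeo (n + 1) 𝔢 KE) : PvnyOGeo n 𝔢 KE where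
  ok j hj := G.ok j (by omega)
  uq j hj := G.uq j (by omega)
  dZZ i j hi hj hij := G.dZZ i j (by omega) (by omega) hij
  dKZ i j hi hj h1 h2 := G.dKZ i j (by omega) (by omega) h1 (by rw [Nat.mod_eq_of_lt (by omega)]; exact h2)
  dKK i j hi hj hij := G.dKK i j (by omega) (by omega) hij

/-- **THE RING OF A PATTERN AT ONE SPHERE**: `n` links along the chain `t = 𝔢 0 → … → 𝔢 n = s` (113) + the free arc of 212 (`PvzzDat.Is`) + the white lane (147) + ZONE / REGION in marks (260 225)   ⟹   `PvgzRing` with `n + 1` gates.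
* regions: `PvkjGeo (n + 1) 𝔢 KE` of 113, `KE n` = THE FREE CORRIDOR `⊇ U`;
* `F` = the zone (`UN \ Lam` of 260): it contains the tube, the lane, the zones of the two big plugs; it misses the layer `Lam` and the zone of the last inner plug; the sites marked off `F` are connected off `F`. -/
theorem pvny_oring [DecidableEq V] (hT : T.IsSph) (hS : T.Simple) (G : PvkjGeo (n + 1) 𝔢 KE) (hn : 0 < n) {𝔯s 𝔯t : PvspReg ℂ} (hes : 𝔢 n = pvkjBig 𝔯s) (het : 𝔢 0 = pvkjBig 𝔯t)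
    {g : ℕ → T.Gate s} {N : ℕ → ℕ} (hfin : ∀ j, j ≤ n → (g j).c.Left.Finite) (H : ∀ j, j < n → PvkjLk T mk s (𝔢 j) (𝔢 (j + 1)) (KE j) (g j) (g (j + 1)) (N j))
    (𝔇 : PvzzDat T s) {U UN Lam : Set ℂ} {γ : List ℂ} (hss : PvplStar T mk (fun x => x ∈ 𝔯s .O2) (𝔯s .S2)) (hst : PvplStar T mk (fun x => x ∈ 𝔯t .O2) (𝔯t .S2))
    (hI : 𝔇.Is mk 𝔯s 𝔯t U UN Lam γ) (hU : U ⊆ KE n)
    {X : Set V} (hX : ∀ v ∈ X, s v = false) {r r' : V} (hr : r ∈ 𝔇.Ss.g2.R) (hr' : r' ∈ 𝔇.St.g2.R) (hlane : T.Join Set.univ X r' r)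
    {F : Set ℂ} (hUF : U ⊆ F) (hXF : ∀ v ∈ X, mk v ∈ F) (hsF : 𝔯s .S2 ⊆ F) (htF : 𝔯t .S2 ⊆ F) (hLF : Disjoint Lam F) (hZF : Disjoint (𝔢 (n - 1)).Z F)
    (hconn : ∀ u v, mk u ∉ F → mk v ∉ F → ReflTransGen (fun u v => T.Adj u v ∧ mk v ∉ F) u v) :
    g n = 𝔇.Ss.g2 ∧ g 0 = 𝔇.St.g2 ∧ 𝔇.p.GFaced s r ∧ ∃ (G' : ℕ → T.Gate s) (I' L' : ℕ → T.Pth), PvgzRing T s (n + 1) G' I' L' ∧ I' (n + 1) = I' 0 ∧ (∀ j, j ≤ n → G' j = g j) ∧
      I' n = 𝔇.Ss.inn ∧ I' 0 = 𝔇.St.inn ∧ (∀ j, 0 < j → j < n → I' j = pvtArc T s (g j).aIn (g j).len) ∧ (∀ j, j < n → L' j = pvtArc T s (g j).aOut (N j)) ∧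
      L' n = 𝔇.p.seg (𝔇.Ss.inn.n - 𝔇.Ss.ip) (𝔇.p.n - 𝔇.St.im) := by
  have G0 := pvny_ogeo G
  have his := pvny_ois hn H
  -- the gates of the two states
  have egs : g n = 𝔇.Ss.g2 := by
    refine G0.uq n le_rfl V D T mk s hT hS _ _ (his n le_rfl) ?_
    rw [hes]
    exact ⟨hss, 𝔇.Ss, hI.ats, rfl⟩
  have egt : g 0 = 𝔇.St.g2 := by
    refine G0.uq 0 (Nat.zero_le _) V D T mk s hT hS _ _ (his 0 (Nat.zero_le _)) ?_
    rw [het]
    exact ⟨hst, 𝔇.St, hI.att, rfl⟩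
  have hz : ∀ i, i ≤ n → ∀ x, x ∈ T.VOf (g i).c.Left → mk x ∈ (𝔢 i).Z := by
    rintro i hi x ⟨d, hd, rfl⟩
    exact (G0.ok i hi).zone V D T mk s (g i) (his i hi) d hd
  have hdeep : ∀ i, i ≤ n → ∀ x, mk x ∈ (𝔢 i).I → x ∈ T.Int (g i).c.Left := by
    intro i hi x hx d hd
    subst hd
    exact (G0.ok i hi).deep V D T mk s (g i) (his i hi) d hx
  have hper : 𝔢 (n + 1) = 𝔢 0 := G.per
  have hIs : (g n).IsInn 𝔇.Ss.inn := by
    rw [egs]
    exact pvgz_inn_of_le hT hS _ (egs ▸ hfin n le_rfl) hI.ats.sel2.thru hI.ats.arc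
  have hIt : (g 0).IsInn 𝔇.St.inn := by
    rw [egt]
    exact pvgz_inn_of_le hT hS _ (egt ▸ hfin 0 (Nat.zero_le _)) hI.att.sel2.thru hI.att.arc
  have hdis : Disjoint (T.VOf (g n).c.Left) (T.VOf (g 0).c.Left) :=
    Set.disjoint_left.2 fun x h1 h2 => Set.disjoint_left.1 (G0.dZZ n 0 le_rfl (Nat.zero_le _) (by omega)) (hz n le_rfl x h1) (hz 0 (Nat.zero_le _) x h2)
  -- a circuit vertex is not strictly inside
  have hvmV : ∀ γ : T.Gate s, γ.vm ∈ γ.c.verts := fun γ => ⟨0, rfl⟩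
  have hvpV : ∀ γ : T.Gate s, γ.vp ∈ γ.c.verts := fun γ => ⟨γ.m, rfl⟩
  have hcirc : ∀ (γ : T.Gate s) (x : V), x ∈ γ.c.verts → x ∉ T.Int γ.c.Left := fun γ x h1 h2 => Set.disjoint_left.1 (pl_jordan_vert_disj hT γ.c).1 h1 h2
  have hVO : ∀ (γ : T.Gate s) (x : V), x ∈ γ.c.verts ∨ x ∈ T.Int γ.c.Left → x ∈ T.VOf γ.c.Left := fun γ x h => by rw [pl_VOf_left hT]; exact h
  have htube : ∀ i, i ≤ 𝔇.p.n → mk (𝔇.p.v i) ∈ KE n := fun i hi => hU (hI.tube i hi)
  have hnn : ∀ x, mk x ∈ KE n → ∀ j, j < n → mk x ∈ KE j → x ∈ T.Int (g n).c.Left ∨ x ∈ T.Int (g 0).c.Left := by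
    intro x h1 j hj h2
    rcases G.dKK n j (by omega) (by omega) (by omega) ⟨h1, h2⟩ with h3 | h3
    · exact Or.inl (hdeep n le_rfl x h3)
    · rw [hper] at h3
      exact Or.inr (hdeep 0 (Nat.zero_le _) x h3)
  have evm : (g 0).vm = 𝔇.p.v (𝔇.p.n - 𝔇.St.im) := by
    rw [← hIt.1.h0, ← hI.suf 0 (Nat.zero_le _), Nat.add_zero]
  have evp : (g n).vp = 𝔇.p.v (𝔇.Ss.inn.n - 𝔇.Ss.ip) := by
    have h1 := hI.ats.ip_le
    rw [← hIs.1.h1, hI.pre (𝔇.Ss.inn.n - 𝔇.Ss.ip) (by omega)]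
    congr 1
    omega
  have hlen := hI.len
  have hvm : mk (g 0).vm ∉ KE 0 := by
    intro h
    rcases hnn _ (by rw [evm]; exact htube _ (by omega)) 0 hn h with h1 | h1
    · exact Set.disjoint_left.1 hdis (hVO _ _ (Or.inr h1)) (hVO _ _ (Or.inl (hvmV _)))
    · exact hcirc _ _ (hvmV _) h1
  have hvp : mk (g n).vp ∉ KE (n - 1) := by
    intro h
    rcases hnn _ (by rw [evp]; exact htube _ (by omega)) (n - 1) (by omega) h with h1 | h1
    · exact hcirc _ _ (hvpV _) h1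
    · exact Set.disjoint_left.1 hdis (hVO _ _ (Or.inl (hvpV _))) (hVO _ _ (Or.inr h1))
  have C0 := pvny_ochain hT hS G0 hn hfin H hvm hvp
  obtain ⟨I, hIdef⟩ : ∃ I : ℕ → T.Pth, I = fun j => if j = n then 𝔇.Ss.inn else if j = 0 then 𝔇.St.inn else pvtArc T s (g j).aIn (g j).len := ⟨_, rfl⟩
  have In : I n = 𝔇.Ss.inn := by rw [hIdef]; exact if_pos rfl
  have I0 : I 0 = 𝔇.St.inn := by
    rw [hIdef]
    show (if 0 = n then _ else if 0 = 0 then _ else _) = _
    rw [if_neg (by omega), if_pos rfl]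
  have Ij : ∀ j, 0 < j → j < n → I j = pvtArc T s (g j).aIn (g j).len := by
    intro j h0 h1
    rw [hIdef]
    show (if j = n then _ else if j = 0 then _ else _) = _
    rw [if_neg (by omega), if_neg (by omega)]
  have C : PvncChain T s n g I (fun j => pvtArc T s (g j).aOut (N j)) :=
    ⟨fun j hj => by
      rcases Nat.eq_zero_or_pos j with h0 | h0
      · subst h0; rw [I0]; exact hIt
      · rcases Nat.lt_or_ge j n with h1 | h1
        · rw [Ij j h0 h1]; exact C0.hinn j hj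
        · have e : j = n := by omega
          subst e; rw [In]; exact hIs,
      C0.lk0, C0.lk1, C0.piece, C0.wall, C0.thru, C0.dGG, C0.dLG, C0.dLL⟩
  obtain ⟨avs, avt⟩ := pvnc_av_of_pre hT (g n) (g 0) hIs hIt hI.ats.ip_le (hI.att.im_lt.le.trans hI.att.ip_le) hdis hI.len hI.pre hI.suf (by rw [egs, egt]; exact hI.off)
  have Fr : PvncFree T s n g I (fun j => pvtArc T s (g j).aOut (N j)) 𝔇.p 𝔇.Ss.ip 𝔇.St.im :=
    { ip0 := lt_of_le_of_lt (Nat.zero_le _) hI.ats.im_lt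
      ip_le := by rw [In]; exact hI.ats.ip_le
      im_lt := by rw [I0]; exact lt_of_lt_of_le hI.att.im_lt hI.att.ip_le
      p0 := by rw [In]; exact hI.src.trans hI.ats.ip_eq.symm
      p1 := by rw [I0]; exact hI.tgt.trans hI.att.im_eq.symm
      avs := by rw [In]; exact avs
      avt := by rw [I0]; exact avt
      offG := fun k hk i h0 h1 hx =>
        Set.disjoint_left.1 (G.dKZ i n (by omega) (by omega) (by omega) (by rw [Nat.mod_self]; omega)) (htube k hk) (hz i h1.le _ hx)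
      offL := fun k hk j hj l h0 hl e => by
        have hks := (pvkj_lk_verts (H j hj).run hl.le).1
        rw [← e] at hks
        rcases G.dKK j n (by omega) (by omega) (by omega) ⟨hks.1, htube k hk⟩ with h3 | h3
        · exact hks.2.1 (hdeep j hj.le _ h3)
        · exact hks.2.2 (hdeep (j + 1) hj _ h3) }
  -- REGION
  have hL1 : 0 < (pvtArc T s (g (n - 1)).aOut (N (n - 1))).n := by
    by_contra hc
    have e0 : (pvtArc T s (g (n - 1)).aOut (N (n - 1))).n = 0 := by omega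
    have h1 := C0.lk0 (n - 1) (by omega)
    have h2 := C0.lk1 (n - 1) (by omega)
    rw [e0, h1] at h2
    exact Set.disjoint_left.1 (C0.dGG (n - 1) (n - 1 + 1) (by omega) (by omega) (by omega)) (hVO _ _ (Or.inl (hvpV _))) (h2 ▸ hVO _ _ (Or.inl (hvmV _)))
  have hstart : mk ((pvtArc T s (g (n - 1)).aOut (N (n - 1))).v 0) ∉ F := by
    have h1 := C0.lk0 (n - 1) (by omega)
    rw [h1]
    exact fun h => Set.disjoint_left.1 hZF (hz (n - 1) (by omega) _ (hVO _ _ (Or.inl (hvpV _)))) h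
  have hΛ : ∀ a ∈ {v | mk v ∈ Lam}, ReflTransGen (fun u v => T.Adj u v ∧ v ∉ {v | mk v ∈ F}) ((fun j => pvtArc T s (g j).aOut (N j)) (n - 1) |>.v 1) a := by
    intro a ha
    have ha' : mk a ∉ F := fun h => Set.disjoint_left.1 hLF ha h
    refine ReflTransGen.head (b := (pvtArc T s (g (n - 1)).aOut (N (n - 1))).v 0) ⟨⟨T.opp ((pvtArc T s (g (n - 1)).aOut (N (n - 1))).e 0), ?_, ?_⟩, hstart⟩ (hconn _ _ hstart ha')
    · rw [T.src_opp', (pvtArc T s (g (n - 1)).aOut (N (n - 1))).tgt_e 0 hL1]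
    · rw [T.tgt_opp, (pvtArc T s (g (n - 1)).aOut (N (n - 1))).src_e 0 hL1]
  obtain ⟨hp, G', I', L', gG, gI, gIn, gL, gLn, R, -⟩ := pvnc_main hT hS C hn Fr hI.black hX (r := r) (r' := r') (by rw [egs]; exact hr) (by rw [egt]; exact hr') hlane
    (Fz := {v | mk v ∈ F}) (by rintro _ ⟨i, hi, rfl⟩; exact hUF (hI.tube i hi)) hXF
    (fun v hv => hsF (by have := hz n le_rfl v hv; rw [hes] at this; exact this)) (fun v hv => htF (by have := hz 0 (Nat.zero_le _) v hv; rw [het] at this; exact this))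
    (l := 1) one_pos hL1 (U := {v | mk v ∈ UN}) (Λ := {v | mk v ∈ Lam}) hΛ (by rw [In]; exact hI.faced)
  refine ⟨egs, egt, hp, G', I', L', R, gIn, gG, (gI n le_rfl).trans In, (gI 0 (Nat.zero_le _)).trans I0, fun j h0 h1 => (gI j h1.le).trans (Ij j h0 h1), gL, ?_⟩
  rw [gLn, In]

end free

/-! ## 3. TR14: index form = mask form -/

section mask

variable {V D : Type} {T : PvMap V D}

/-- two paths with the same consecutive vertices have the same dart -/
theorem pvny_odart (hS : T.Simple) {p q : T.Pth} {i j : ℕ} (hi : i < p.n) (hj : j < q.n) (h0 : p.v i = q.v j) (h1 : p.v (i + 1) = q.v (j + 1)) : p.e i = q.e j :=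
  hS _ _ (by rw [p.src_e i hi, q.src_e j hj, h0]) (by rw [p.tgt_e i hi, q.tgt_e j hj, h1])

theorem pvny_oW_pos {zD xD : D → ℂ} {B : Set ℂ} {d : D} (h : zD d ∈ B) : pvdcW zD xD B d = xD d := by
  unfold pvdcW
  exact if_pos h

theorem pvny_oW_neg {zD xD : D → ℂ} {B : Set ℂ} {d : D} (h : zD d ∉ B) : pvdcW zD xD B d = 0 := by
  unfold pvdcW
  exact if_neg h

theorem pvny_oW_congr {zD xD : D → ℂ} {B B' : Set ℂ} {d : D} (h : zD d ∈ B ↔ zD d ∈ B') : pvdcW zD xD B d = pvdcW zD xD B' d := by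
  by_cases hb : zD d ∈ B
  · rw [pvny_oW_pos hb, pvny_oW_pos (h.1 hb)]
  · rw [pvny_oW_neg hb, pvny_oW_neg (fun h' => hb (h.2 h'))]

/-- **TR14, INDEX FORM = MASK FORM** (model free).      `X_g` of 195 212 (mass of `in₂(s)` in the disc `Bs` + mass of `p` off both discs) is the mass IN THE MASK `M` of (inner arc of `s`, outer part of `p`, inner arc of `t`), as soon as
the tags of `in₂(s)` before `ip` lie in `M` iff they lie in `Bs`, those after `ip` lie in `M` off `Bt`, the tags of the outer part lie in `M` off both discs, the tags of `in₂(t)` before `im` lie in `M` iff they lie off both discs, those after `im` lie off `M`. -/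
theorem pvny_omask (hS : T.Simple) {zD xD : D → ℂ} {Bs Bt M : Set ℂ} {Is It p : T.Pth} {ip im : ℕ} (hip : ip ≤ Is.n) (him : im ≤ It.n)
    (len : Is.n - ip + im ≤ p.n) (pre : ∀ i, ip + i ≤ Is.n → p.v i = Is.v (ip + i)) (suf : ∀ i, i ≤ im → p.v (p.n - im + i) = It.v i)
    (m1 : ∀ i, i < ip → (zD (T.opp (Is.e i)) ∈ M ↔ zD (T.opp (Is.e i)) ∈ Bs))
    (m2 : ∀ i, ip ≤ i → i < Is.n → zD (T.opp (Is.e i)) ∈ M ∧ zD (T.opp (Is.e i)) ∉ Bt)
    (m3 : ∀ k, Is.n - ip ≤ k → k + im < p.n → zD (T.opp (p.e k)) ∈ M ∧ zD (T.opp (p.e k)) ∉ Bs ∪ Bt)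
    (m4 : ∀ i, i < im → (zD (T.opp (It.e i)) ∈ M ↔ zD (T.opp (It.e i)) ∉ Bs ∪ Bt))
    (m5 : ∀ i, im ≤ i → i < It.n → zD (T.opp (It.e i)) ∉ M) :
    pvdcX zD xD Bs Bt Is p = Is.psum (pvdcW zD xD M) + (p.seg (Is.n - ip) (p.n - im)).psum (pvdcW zD xD M) + It.psum (pvdcW zD xD M) := by
  obtain ⟨a, ha⟩ : ∃ a, Is.n = ip + a := ⟨Is.n - ip, by omega⟩
  obtain ⟨r, hr⟩ : ∃ r, It.n = im + r := ⟨It.n - im, by omega⟩
  obtain ⟨c, hc⟩ : ∃ c, p.n = a + c + im := ⟨p.n - a - im, by omega⟩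
  have ea : Is.n - ip = a := by omega
  have ec : p.n - im = a + c := by omega
  have sn : (p.seg a (a + c)).n = c := by
    show min (a + c) p.n - a = c
    omega
  have e1 : ∀ k, k < a → p.e k = Is.e (ip + k) := fun k hk =>
    pvny_odart hS (by omega) (by omega) (pre k (by omega)) (by rw [pre (k + 1) (by omega)]; rfl)
  have e2 : ∀ i, i < im → p.e (a + c + i) = It.e i := fun i hi =>
    pvny_odart hS (by omega) (by omega) (by rw [← suf i hi.le, ec]) (by rw [← suf (i + 1) hi, ec]; rfl)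
  unfold pvdcX PvMap.Pth.psum
  rw [ea, ec, sn, ha, hr, hc, Finset.sum_range_add, Finset.sum_range_add, Finset.sum_range_add, Finset.sum_range_add, Finset.sum_range_add]
  have t1 : ∑ x ∈ Finset.range ip, pvdcW zD xD Bs (T.opp (Is.e x)) = ∑ x ∈ Finset.range ip, pvdcW zD xD M (T.opp (Is.e x)) :=
    Finset.sum_congr rfl fun x hx => pvny_oW_congr (m1 x (Finset.mem_range.1 hx)).symm
  have t2 : ∑ x ∈ Finset.range a, pvdcW zD xD Bs (T.opp (Is.e (ip + x))) + ∑ x ∈ Finset.range a, pvdcW zD xD (Bs ∪ Bt)ᶜ (T.opp (p.e x)) =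
      ∑ x ∈ Finset.range a, pvdcW zD xD M (T.opp (Is.e (ip + x))) := by
    rw [← Finset.sum_add_distrib]
    refine Finset.sum_congr rfl fun x hx => ?_
    have hx' := Finset.mem_range.1 hx
    obtain ⟨h1, h2⟩ := m2 (ip + x) (by omega) (by omega)
    rw [e1 x hx', pvny_oW_pos h1]
    by_cases hb : zD (T.opp (Is.e (ip + x))) ∈ Bs
    · rw [pvny_oW_pos hb, pvny_oW_neg (B := (Bs ∪ Bt)ᶜ) (fun h => h (Or.inl hb)), add_zero]
    · rw [pvny_oW_neg hb, pvny_oW_pos (B := (Bs ∪ Bt)ᶜ) (fun h => h.elim hb h2), zero_add]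
  have t3 : ∑ x ∈ Finset.range c, pvdcW zD xD (Bs ∪ Bt)ᶜ (T.opp (p.e (a + x))) = ∑ x ∈ Finset.range c, pvdcW zD xD M (T.opp ((p.seg a (a + c)).e x)) :=
    Finset.sum_congr rfl fun x hx => by
      have hx' := Finset.mem_range.1 hx
      obtain ⟨h1, h2⟩ := m3 (a + x) (by omega) (by omega)
      show _ = pvdcW zD xD M (T.opp (p.e (a + x)))
      rw [pvny_oW_pos h1, pvny_oW_pos (B := (Bs ∪ Bt)ᶜ) h2]
  have t4 : ∑ x ∈ Finset.range im, pvdcW zD xD (Bs ∪ Bt)ᶜ (T.opp (p.e (a + c + x))) = ∑ x ∈ Finset.range im, pvdcW zD xD M (T.opp (It.e x)) :=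
    Finset.sum_congr rfl fun x hx => by
      have hx' := Finset.mem_range.1 hx
      rw [e2 x hx']
      exact pvny_oW_congr (m4 x hx').symm
  have t5 : ∑ x ∈ Finset.range r, pvdcW zD xD M (T.opp (It.e (im + x))) = 0 :=
    Finset.sum_eq_zero fun x hx => by
      have hx' := Finset.mem_range.1 hx
      exact pvny_oW_neg (m5 (im + x) (by omega) (by omega))
  rw [t1, t3, t4, t5, ← t2]
  ring

end mask

/-! ## 4. CLOSE OF A PATTERN AT ONE CONFIGURATION -/

section conf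

variable {n : ℕ} {𝔢 : ℕ → PvkjEnd ℂ} {KE Mk U : ℕ → Set ℂ} {B : Set ℂ} {a₀ : ℝ}

/-- the weight of 95 is the masked weight of 195 -/
theorem pvny_oW_eq {η : Conf PvPt} (M : Set ℂ) : pvcmW (delbPl (cfSites η)) M = pvdcW ((pvkiT η).bary Subtype.val) ((pvkiT η).qpart Subtype.val) M := by
  funext d
  unfold pvcmW
  by_cases h : (pvkiT η).bary Subtype.val d ∈ M
  · rw [pvny_oW_pos h, indicator_of_mem h, Pi.one_apply, one_mul]
  · rw [pvny_oW_neg h, indicator_of_notMem h, zero_mul]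

/-- **CLOSE OF A PATTERN AT ONE CONFIGURATION** = the clause `ring` of `PvnjPar.ClR` (59 `Tr/N1SysA`).
* `H`       regions of the ring `t = 𝔢 0 → … → 𝔢 n = s → t` : `PvkjCyc (n + 1)` of 113, `KE n` = the free corridor, `Mk n` = the mask of the free arc, `U (n + 1)` = room of the tags of the inner arc of `t`;
* `hF`      the `n` FACTS of the connectors of the chain (113: `pvkj_fact`, `pvkj_fact_cell`);
* `𝔇 hI`    the free arc of 212 on the Delaunay plane (`pvzz_plane`);      * `X r r' hlane` the white lane (147);      * `F hconn` ZONE / REGION in marks (260 225);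
* `m1 … m6` TR14 in the index form. -/
theorem pvny_oclose (H : PvkjCyc (n + 1) 𝔢 KE Mk U B a₀) (hn : 0 < n) {𝔯s 𝔯t : PvspReg ℂ} (hes : 𝔢 n = pvkjBig 𝔯s) (het : 𝔢 0 = pvkjBig 𝔯t)
    {η : Conf PvPt} (hη : DelGood (cfSites η)) {b : Bool} {X : ℕ → ℂ}
    (hF : ∀ j, j < n → ∃ g g' N, PvkjFt η b (𝔢 j) (𝔢 (j + 1)) (KE j) (Mk j) (U (j + 1)) (X j) g g' N)
    (𝔇 : PvzzDat (pvkiT η) (pvlfFl b (pvkiS η))) {Ut UN Lam : Set ℂ} {γ : List ℂ}
    (hss : PvplStar (pvkiT η) Subtype.val (fun x => x ∈ 𝔯s .O2) (𝔯s .S2)) (hst : PvplStar (pvkiT η) Subtype.val (fun x => x ∈ 𝔯t .O2) (𝔯t .S2))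
    (hI : 𝔇.Is Subtype.val 𝔯s 𝔯t Ut UN Lam γ) (hU : Ut ⊆ KE n)
    {W : Set ↥(cfSites η)} (hW : ∀ v ∈ W, pvlfFl b (pvkiS η) v = false) {r r' : ↥(cfSites η)} (hr : r ∈ 𝔇.Ss.g2.R) (hr' : r' ∈ 𝔇.St.g2.R) (hlane : (pvkiT η).Join Set.univ W r' r)
    {F : Set ℂ} (hUF : Ut ⊆ F) (hWF : ∀ v ∈ W, (v : ℂ) ∈ F) (hsF : 𝔯s .S2 ⊆ F) (htF : 𝔯t .S2 ⊆ F) (hLF : Disjoint Lam F) (hZF : Disjoint (𝔢 (n - 1)).Z F)
    (hconn : ∀ u v : ↥(cfSites η), (u : ℂ) ∉ F → (v : ℂ) ∉ F → ReflTransGen (fun u v => (pvkiT η).Adj u v ∧ (v : ℂ) ∉ F) u v)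
    {Bs Bt : Set ℂ}
    (m1 : ∀ i, i < 𝔇.Ss.ip → ((pvkiT η).bary Subtype.val ((pvkiT η).opp (𝔇.Ss.inn.e i)) ∈ Mk n ↔ (pvkiT η).bary Subtype.val ((pvkiT η).opp (𝔇.Ss.inn.e i)) ∈ Bs))
    (m2 : ∀ i, 𝔇.Ss.ip ≤ i → i < 𝔇.Ss.inn.n → (pvkiT η).bary Subtype.val ((pvkiT η).opp (𝔇.Ss.inn.e i)) ∈ Mk n ∧ (pvkiT η).bary Subtype.val ((pvkiT η).opp (𝔇.Ss.inn.e i)) ∉ Bt)
    (m3 : ∀ k, 𝔇.Ss.inn.n - 𝔇.Ss.ip ≤ k → k + 𝔇.St.im < 𝔇.p.n → (pvkiT η).bary Subtype.val ((pvkiT η).opp (𝔇.p.e k)) ∈ Mk n ∧ (pvkiT η).bary Subtype.val ((pvkiT η).opp (𝔇.p.e k)) ∉ Bs ∪ Bt)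
    (m4 : ∀ i, i < 𝔇.St.im → ((pvkiT η).bary Subtype.val ((pvkiT η).opp (𝔇.St.inn.e i)) ∈ Mk n ↔ (pvkiT η).bary Subtype.val ((pvkiT η).opp (𝔇.St.inn.e i)) ∉ Bs ∪ Bt))
    (m5 : ∀ i, 𝔇.St.im ≤ i → i < 𝔇.St.inn.n → (pvkiT η).bary Subtype.val ((pvkiT η).opp (𝔇.St.inn.e i)) ∉ Mk n)
    (m6 : ∀ i, i < 𝔇.St.inn.n → (pvkiT η).bary Subtype.val ((pvkiT η).opp (𝔇.St.inn.e i)) ∈ U (n + 1)) :
    ∃ (G : ℕ → (delbPl (cfSites η)).toMap.Gate (pvlfFl b (cfCol η ∘ Subtype.val))) (inn lk : ℕ → (delbPl (cfSites η)).toMap.Pth),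
      PvcmAt (delbPl (cfSites η)) b (n + 1) Mk B a₀ G inn lk ∧ (∀ j < n, X j = pvcmX (delbPl (cfSites η)) (Mk j) (inn j) (lk j) (inn (j + 1))) ∧
      𝔇.X Subtype.val Bs Bt = pvcmX (delbPl (cfSites η)) (Mk n) (inn n) (lk n) (inn (n + 1)) := by
  have hT : (pvkiT η).IsSph := delb_plane_isSph hη
  have hS : (pvkiT η).Simple := (delbPl (cfSites η)).toMap_simple
  have G0 := pvny_ogeo H.geo
  obtain ⟨g, N, hg⟩ := pvny_oglue (T := pvkiT η) (s := pvlfFl b (pvkiS η)) (mk := Subtype.val) hT hS G0 hn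
    (P := fun j g g' N => PvkjFt η b (𝔢 j) (𝔢 (j + 1)) (KE j) (Mk j) (U (j + 1)) (X j) g g' N)
    (fun j hj => by
      obtain ⟨g, g', N, h⟩ := hF j hj
      exact ⟨g, g', N, h.lk, h⟩)
  have hfin : ∀ j, j ≤ n → (g j).c.Left.Finite := by
    intro j hj
    rcases Nat.lt_or_ge j n with h1 | h1
    · exact (hg j h1).2.fin
    · have e : j = (n - 1) + 1 := by omega
      rw [e]
      exact (hg (n - 1) (by omega)).2.fin'
  have his := pvny_ois hn fun j hj => (hg j hj).1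
  obtain ⟨egs, egt, -, G', I', L', R, gIn, gG, In, I0, Ij, gL, gLn⟩ := pvny_oring hT hS H.geo hn hes het hfin (fun j hj => (hg j hj).1) 𝔇 hss hst hI hU hW hr hr' hlane
    hUF hWF hsF htF hLF hZF hconn
  -- inner paths
  have hthru : ∀ j, j ≤ n → (g j).Thru := by
    intro j hj
    obtain ⟨L, hL⟩ := (G0.ok j hj).thru _ _ _ _ _ (g j) (his j hj)
    exact (hL.len hT).2
  have hinn : ∀ j, j ≤ n → (g j).IsInn (I' j) := fun j hj => by
    have := R.hinn j (by omega)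
    rwa [gG j hj] at this
  have huq : ∀ j, j ≤ n → (I' j).n = (pvtArc (pvkiT η) (pvlfFl b (pvkiS η)) (g j).aIn (g j).len).n ∧
      ∀ i, i < (I' j).n → (I' j).e i = (pvtArc (pvkiT η) (pvlfFl b (pvkiS η)) (g j).aIn (g j).len).e i := fun j hj =>
    pvgz_inn_unique hT hS (g j) (hinn j hj) (pvkj_inn hT hS (g j) (hfin j hj) (hthru j hj))
  have hps : ∀ j, j ≤ n → ∀ w, (pvtArc (pvkiT η) (pvlfFl b (pvkiS η)) (g j).aIn (g j).len).psum w = (I' j).psum w := by
    intro j hj w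
    obtain ⟨h1, h2⟩ := huq j hj
    unfold PvMap.Pth.psum
    rw [← h1]
    exact Finset.sum_congr rfl fun i hi => by rw [h2 i (Finset.mem_range.1 hi)]
  have hzone : ∀ j, j ≤ n → ∀ d ∈ (g j).c.Left, (((pvkiT η).src d : ↥(cfSites η)) : ℂ) ∈ (𝔢 j).Z := fun j hj d hd =>
    (G0.ok j hj).zone _ _ _ _ _ _ (his j hj) d hd
  have hvp : ∀ j, j ≤ n → (((g j).vp : ↥(cfSites η)) : ℂ) ∈ (𝔢 j).Z := fun j hj => hzone j hj _ ((pl_jordan hT (g j).c).2.1 (g j).m)
  have hlen := hI.len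
  have segn : (𝔇.p.seg (𝔇.Ss.inn.n - 𝔇.Ss.ip) (𝔇.p.n - 𝔇.St.im)).n = 𝔇.p.n - 𝔇.St.im - (𝔇.Ss.inn.n - 𝔇.Ss.ip) := by
    show min (𝔇.p.n - 𝔇.St.im) 𝔇.p.n - (𝔇.Ss.inn.n - 𝔇.Ss.ip) = _
    omega
  refine ⟨G', I', L', ⟨R, gIn, fun j hj i hi => ?_, fun j hj i hi => ?_, fun j hj i hi => ?_, fun j hj i hi => ?_, ?_⟩, fun j hj => ?_, ?_⟩
  · -- mlk
    rcases Nat.lt_or_ge j n with h1 | h1
    · rw [gL j h1] at hi ⊢
      exact (hg j h1).2.blk i hi
    · have e : j = n := by omega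
      subst e
      rw [gLn] at hi ⊢
      rw [segn] at hi
      exact (m3 (𝔇.Ss.inn.n - 𝔇.Ss.ip + i) (by omega) (by omega)).1
  · -- minn
    rcases Nat.lt_or_ge j n with h1 | h1
    · obtain ⟨u1, u2⟩ := huq (j + 1) h1
      rw [u2 i hi]
      exact H.UM j hj ((hg j h1).2.binn i (u1 ▸ hi))
    · have e : j = n := by omega
      subst e
      rw [gIn, I0] at hi ⊢
      exact H.UM j hj (m6 i hi)
  · -- Binn
    have hj' : j ≤ n := by omega
    refine H.ZB j hj ?_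
    have hp := (hinn j hj').1
    rcases Nat.lt_or_ge i (I' j).n with h | h
    · have := hzone j hj' _ (hp.ins i h).1
      rw [(I' j).src_e i h] at this
      exact this
    · have e : i = (I' j).n := le_antisymm hi h
      have := hvp j hj'
      rw [← hp.h1] at this
      rw [e]
      exact this
  · -- Blk
    rcases Nat.lt_or_ge j n with h1 | h1
    · rw [gL j h1] at hi ⊢
      exact H.KB j hj (pvkj_lk_verts (hg j h1).1.run hi).1.1
    · have e : j = n := by omega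
      subst e
      rw [gLn] at hi ⊢
      rw [segn] at hi
      exact H.KB j hj (hU (hI.tube _ (by omega)))
  · obtain ⟨i, j, hi, hj, h⟩ := H.big
    refine ⟨i, j, hi, hj, ?_⟩
    rw [gG i (by omega), gG j (by omega)]
    exact h _ (hvp i (by omega)) _ (hvp j (by omega))
  · rw [(hg j hj).2.val, gL j hj]
    unfold pvcmX
    rw [hps j hj.le, hps (j + 1) hj]
  · rw [gIn, In, I0, gLn]
    unfold pvcmX PvzzDat.X
    rw [pvny_oW_eq]
    exact pvny_omask hS hI.ats.ip_le (hI.att.im_lt.le.trans hI.att.ip_le) hI.len hI.pre hI.suf m1 m2 m3 m4 m5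

end conf

end Claimed.Agent.R289
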