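import Claimed.Agent.R289.Tr.Tower

/-!
# Row 289 (S0537, Cardy for Poisson-Voronoi), unit TR, block WB3 FIT, Tr/Corr : PORTS ARE OUTSIDE      (owner helper292; prefix `pvtc_`, defs `pvtc*`)

Vocabulary of `Tr/Poly` (39): cells `ℤ × ℤ`, triangular adjacency `tscG`, `pvtOut`, `pvtHull`.

* §1 `pvtcOm z` : the `ZMod 2` RAY COCHAIN from the cell `z` (edges between the rows `z.2`, `z.2 + 1` whose lower end lies strictly to the right of `z`): closed on every triangle which does not contain `z`, not exact off any box.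
* §2 **WINDING CRITERION** `pvtc_out_iff_exact` : for `S` finite, `z ∉ S` :  `z ∈ pvtOut S ↔ pvtcOm z` is exact on `S`.
* §3 **JANISZEWSKI** `pvtc_janiszewski`, **CHAIN OF BLOBS** `pvtc_chain` (Mayer-Vietoris induction; no Jordan curve).
* §4 **THE PINCH** `pvtc_pinch` (captain's lemma (4), 08:56Z): `z` not enclosed by `K` but enclosed by the union of the blobs `Bl x`, `x ∈ K`  ⟹  two TOUCHING blobs `Bl x`, `Bl y` such that
     EVERY connected `K' ⊆ K` through `x`, `y` encloses `z` together with the two blobs; `pvtc_pinch_wit`: a witness `W` from `z` to the outside off `K` crosses `Bl x ∪ Bl y`;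
     `pvtc_pinch_N` : the same for `pvtwN k K` (206); `pvtc_pinch_path` : `K` a path, `K'` = the stretch between the two indices; `pvtc_pinch_far` : the stretch leaves every box which misses `z`.
-/

set_option autoImplicit false
set_option linter.unusedSectionVars false
set_option linter.unusedVariables false
set_option linter.unusedSimpArgs false

namespace Claimed.Agent.R289

open Relation Claims.C0467 Claimed.Agent.R291

/-! ## §1 the ray cochain -/

/-- the ray cochain from `z`: `1` on the edges which join the rows `z.2` and `z.2 + 1` and whose lower end lies strictly to the right of `z` -/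
def pvtcOm (z u v : ℤ × ℤ) : ZMod 2 :=
  if (u.2 = z.2 ∧ v.2 = z.2 + 1 ∧ z.1 < u.1) ∨ (v.2 = z.2 ∧ u.2 = z.2 + 1 ∧ z.1 < v.1) then 1 else 0

/-- `ω` is exact on `S` -/
def PvtcExact (z : ℤ × ℤ) (S : Set (ℤ × ℤ)) : Prop := ∃ f : ℤ × ℤ → ZMod 2, ∀ u ∈ S, ∀ v ∈ S, triAdj u v → pvtcOm z u v = f u + f v

/-- two sets of cells meet or are adjacent -/
def PvtcTouch (X Y : Set (ℤ × ℤ)) : Prop := ∃ x ∈ X, ∃ y ∈ Y, x = y ∨ triAdj x y

theorem pvtc_eqns_cite : True := by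
  have := @pvtcOm.eq_1
  have := @PvtcExact.eq_1
  have := @PvtcTouch.eq_1
  trivial

theorem pvtc_om_symm (z u v : ℤ × ℤ) : pvtcOm z u v = pvtcOm z v u := by
  simp only [pvtcOm, or_comm]

theorem pvtc_om_closed (z u v w : ℤ × ℤ) (hu : u ≠ z) (hv : v ≠ z) (hw : w ≠ z) (huv : triAdj u v) (hvw : triAdj v w) (huw : triAdj u w) :
    pvtcOm z u v + pvtcOm z v w + pvtcOm z u w = 0 := by
  rw [tsc_adj_iff] at huv hvw huw
  obtain ⟨z1, z2⟩ := z
  obtain ⟨u1, u2⟩ := u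
  obtain ⟨v1, v2⟩ := v
  obtain ⟨w1, w2⟩ := w
  have hu' : u1 ≠ z1 ∨ u2 ≠ z2 := by
    by_contra h; push Not at h; exact hu (Prod.ext h.1 h.2)
  have hv' : v1 ≠ z1 ∨ v2 ≠ z2 := by
    by_contra h; push Not at h; exact hv (Prod.ext h.1 h.2)
  have hw' : w1 ≠ z1 ∨ w2 ≠ z2 := by
    by_contra h; push Not at h; exact hw (Prod.ext h.1 h.2)
  clear hu hv hw
  dsimp only at huv hvw huw
  simp only [pvtcOm]
  rcases huv with ⟨rfl, rfl⟩ | ⟨rfl, rfl⟩ | ⟨rfl, rfl⟩ | ⟨rfl, rfl⟩ | ⟨rfl, rfl⟩ | ⟨rfl, rfl⟩ <;>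
    rcases huw with ⟨rfl, rfl⟩ | ⟨rfl, rfl⟩ | ⟨rfl, rfl⟩ | ⟨rfl, rfl⟩ | ⟨rfl, rfl⟩ | ⟨rfl, rfl⟩ <;>
      first
        | (exfalso; omega)
        | (split_ifs <;> first | rfl | decide | (exfalso; omega))

theorem pvtc_exact_mono {z : ℤ × ℤ} {S T : Set (ℤ × ℤ)} (h : S ⊆ T) (hT : PvtcExact z T) : PvtcExact z S := by
  obtain ⟨f, hf⟩ := hT
  exact ⟨f, fun u hu v hv => hf u (h hu) v (h hv)⟩

/-- the ray cochain is not exact off a box -/
theorem pvtc_not_exact_far (z : ℤ × ℤ) (a b c d : ℤ) (hz : z ∈ tscBox a b c d) : ¬ PvtcExact z (tscBox a b c d)ᶜ := by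
  rintro ⟨F, hF⟩
  obtain ⟨x0, y0⟩ := z
  simp only [tscBox, Set.mem_ofPred_eq] at hz
  set Q : Set (ℤ × ℤ) := {p | p ∉ tscBox a b c d ∧ ¬ (p.2 = y0 ∧ x0 < p.1)} with hQ
  have hconst : ∀ p q, TscR tscG Q p q → F p = F q := by
    intro p q h
    refine tsc_R_const F (fun u v huv => ?_) h
    have h1 := hF u huv.2.1.1 v huv.2.2.1 huv.1
    have h2 : pvtcOm (x0, y0) u v = 0 := by
      simp only [pvtcOm]
      rw [if_neg]
      rintro (h | h)
      · exact huv.2.1.2 ⟨h.1, h.2.2⟩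
      · exact huv.2.2.2 ⟨h.1, h.2.2⟩
    rw [h2] at h1
    exact CharTwo.add_eq_zero.1 h1.symm
  have memQ : ∀ p : ℤ × ℤ, (p.1 < a ∨ b < p.1 ∨ p.2 < c ∨ d < p.2) → ¬ (p.2 = y0 ∧ x0 < p.1) → p ∈ Q := by
    intro p h1 h2
    refine ⟨fun h => ?_, h2⟩
    simp only [tscBox, Set.mem_ofPred_eq] at h
    omega
  have s1 : TscR tscG Q (b + 1, y0 + 1) (b + 1, d + 1) :=
    tsc_R_vseg (fun t h1 h2 => memQ _ (by simp only; omega) (by simp only; rw [min_eq_left (by omega)] at h1; omega))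
  have s2 : TscR tscG Q (b + 1, d + 1) (a - 1, d + 1) :=
    tsc_R_hseg (fun t h1 h2 => memQ _ (by simp only; omega) (by simp only; omega))
  have s3 : TscR tscG Q (a - 1, d + 1) (a - 1, c - 1) :=
    tsc_R_vseg (fun t h1 h2 => memQ _ (by simp only; omega) (by simp only; omega))
  have s4 : TscR tscG Q (a - 1, c - 1) (b + 1, c - 1) :=
    tsc_R_hseg (fun t h1 h2 => memQ _ (by simp only; omega) (by simp only; omega))
  have s5 : TscR tscG Q (b + 1, c - 1) (b + 1, y0 - 1) :=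
    tsc_R_vseg (fun t h1 h2 => memQ _ (by simp only; omega) (by simp only; rw [max_eq_right (by omega)] at h2; omega))
  have e1 : F (b + 1, y0 + 1) = F (b + 1, y0 - 1) :=
    hconst _ _ (tsc_R_trans s1 (tsc_R_trans s2 (tsc_R_trans s3 (tsc_R_trans s4 s5))))
  have out : ∀ y : ℤ, ((b + 1, y) : ℤ × ℤ) ∈ (tscBox a b c d)ᶜ := by
    intro y h
    simp only [tscBox, Set.mem_ofPred_eq] at h
    omega
  have e2 := hF (b + 1, y0) (out _) (b + 1, y0 + 1) (out _) ((tsc_adj_iff _ _).2 (by dsimp only; omega))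
  have e3 := hF (b + 1, y0 - 1) (out _) (b + 1, y0) (out _) ((tsc_adj_iff _ _).2 (by dsimp only; omega))
  have v2 : pvtcOm (x0, y0) (b + 1, y0) (b + 1, y0 + 1) = 1 := by
    unfold pvtcOm
    rw [if_pos]
    dsimp only
    omega
  have v3 : pvtcOm (x0, y0) (b + 1, y0 - 1) (b + 1, y0) = 0 := by
    unfold pvtcOm
    rw [if_neg]
    dsimp only
    omega
  rw [v2] at e2
  rw [v3] at e3
  rw [e1] at e2
  have : (1 : ZMod 2) = 0 := by
    have h3 : F (b + 1, y0 - 1) = F (b + 1, y0) := CharTwo.add_eq_zero.1 e3.symm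
    rw [e2, h3, CharTwo.add_self_eq_zero]
  exact absurd this (by decide)

/-! ## §2 the winding criterion -/

section wind

variable {S T : Set (ℤ × ℤ)} {z : ℤ × ℤ}

/-- a cell of the outside: the ray cochain is exact on `S` (even on its hull) -/
theorem pvtc_exact_of_out (hS : S.Finite) (hz : z ∈ pvtOut S) : PvtcExact z (pvtHull S) := by
  have hne : ∀ u ∈ pvtHull S, u ≠ z := by
    rintro u hu rfl
    exact hu hz
  exact tsc_mod2 (pvt_hull_sc hS) (pvtcOm z) (fun u _ v _ _ => pvtc_om_symm z u v)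
    (fun u hu v hv w hw huv hvw huw => pvtc_om_closed z u v w (hne u hu) (hne v hv) (hne w hw) huv hvw huw)

/-- if the ray cochain is exact on `S` then `z` is not enclosed by `S` -/
theorem pvtc_out_of_exact (hS : S.Finite) (hzS : z ∉ S) (h : PvtcExact z S) : z ∈ pvtOut S := by
  classical
  by_contra hz
  obtain ⟨f, hf⟩ := h
  have hzH : z ∈ pvtHull S := hz
  set U : Set (ℤ × ℤ) := tscComp tscG Sᶜ z with hU
  have hzU : z ∈ U := tsc_comp_self hzS
  have hUfin : U.Finite := (pvt_hull_finite hS).subset (fun x hx => (pvt_hole_sub hzH hx).1)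
  set H : Set (ℤ × ℤ) := pvtHull U with hH
  have hzHH : z ∈ H := pvt_hull_sub hzU
  -- a neighbour of the hull of `U` off that hull belongs to `S`
  have key : ∀ x ∈ H, ∀ y, y ∉ H → triAdj x y → y ∈ S := by
    intro x hx y hy hxy
    have hyO : y ∈ pvtOut U := by
      by_contra h'
      exact hy h'
    have hxU : x ∈ U := pvt_hull_bd hx hyO hxy
    by_contra hyS
    exact pvt_out_sub hyO (tsc_comp_adj hxU hyS hxy)
  let om : ℤ × ℤ → ℤ × ℤ → ZMod 2 := fun x y =>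
    if x ∈ H then (if y ∈ H then 0 else f y) else (if y ∈ H then f x else pvtcOm z x y)
  have hsym : ∀ u ∈ (Set.univ : Set (ℤ × ℤ)), ∀ v ∈ (Set.univ : Set (ℤ × ℤ)), tscG.Adj u v → om u v = om v u := by
    intro u _ v _ _
    simp only [om]
    by_cases hu : u ∈ H <;> by_cases hv : v ∈ H <;> simp only [hu, hv, if_true, if_false]
    exact pvtc_om_symm z u v
  have htri : ∀ u ∈ (Set.univ : Set (ℤ × ℤ)), ∀ v ∈ (Set.univ : Set (ℤ × ℤ)), ∀ w ∈ (Set.univ : Set (ℤ × ℤ)),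
      tscG.Adj u v → tscG.Adj v w → tscG.Adj u w → om u v + om v w + om u w = 0 := by
    intro u _ v _ w _ huv hvw huw
    have huv' : triAdj u v := huv
    have hvw' : triAdj v w := hvw
    have huw' : triAdj u w := huw
    have z2 : ∀ a b c : ZMod 2, c = a + b → a + c + b = 0 := by decide
    have z2' : ∀ a : ZMod 2, a + a = 0 := by decide
    simp only [om]
    by_cases hu : u ∈ H <;> by_cases hv : v ∈ H <;> by_cases hw : w ∈ H <;> simp only [hu, hv, hw, if_true, if_false]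
    · simp
    · simp [z2']
    · simp [z2']
    · -- u ∈ H, v w ∉ H
      have h1 := hf v (key u hu v hv huv') w (key u hu w hw huw') hvw'
      rw [h1]
      exact z2 _ _ _ rfl
    · simp [z2']
    · -- v ∈ H, u w ∉ H
      have h1 := hf u (key v hv u hu (hx_tri_symm _ _ huv')) w (key v hv w hw hvw') huw'
      rw [h1]
      have : ∀ a b : ZMod 2, a + b + (a + b) = 0 := by decide
      exact this _ _
    · -- w ∈ H, u v ∉ H
      have h1 := hf u (key w hw u hu (hx_tri_symm _ _ huw')) v (key w hw v hv (hx_tri_symm _ _ hvw')) huv'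
      rw [h1]
      have : ∀ a b : ZMod 2, a + b + b + a = 0 := by decide
      exact this _ _
    · exact pvtc_om_closed z u v w (fun e => hu (e ▸ hzHH)) (fun e => hv (e ▸ hzHH)) (fun e => hw (e ▸ hzHH)) huv' hvw' huw'
  obtain ⟨F, hF⟩ := tsc_mod2 (tsc_plane (ZMod 2)) om hsym htri
  obtain ⟨a, b, c, d, hbox⟩ := pvt_finite_sub_box (pvt_hull_finite hUfin)
  refine pvtc_not_exact_far z a b c d (hbox hzHH) ⟨F, fun u hu v hv huv => ?_⟩
  have hu' : u ∉ H := fun h => hu (hbox h)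
  have hv' : v ∉ H := fun h => hv (hbox h)
  have := hF u (Set.mem_univ _) v (Set.mem_univ _) huv
  simpa only [om, hu', hv', if_false] using this

/-- **WINDING CRITERION** -/
theorem pvtc_out_iff_exact (hS : S.Finite) (hzS : z ∉ S) : z ∈ pvtOut S ↔ PvtcExact z S :=
  ⟨fun h => pvtc_exact_mono pvt_hull_sub (pvtc_exact_of_out hS h), pvtc_out_of_exact hS hzS⟩

end wind

/-! ## §3 Mayer-Vietoris: Janiszewski, chains of blobs -/

section mv

variable {A B : Set (ℤ × ℤ)} {z : ℤ × ℤ}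

/-- Mayer-Vietoris for the ray cochain -/
theorem pvtc_exact_union (hA : PvtcExact z A) (hB : PvtcExact z B) (hK : TscConn tscG (A ∩ B))
    (hE : ∀ x ∈ A, ∀ y ∈ B, triAdj x y → x ∈ B ∨ y ∈ A) : PvtcExact z (A ∪ B) := by
  classical
  obtain ⟨f, hf⟩ := hA
  obtain ⟨g, hg⟩ := hB
  have hconst : ∀ p ∈ A ∩ B, ∀ q ∈ A ∩ B, f p + g p = f q + g q := by
    intro p hp q hq
    refine tsc_R_const (fun x => f x + g x) (fun u v huv => ?_) (hK p hp q hq)
    have h1 := hf u huv.2.1.1 v huv.2.2.1 huv.1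
    have h2 := hg u huv.2.1.2 v huv.2.2.2 huv.1
    rw [h1] at h2
    have : ∀ a b c d : ZMod 2, a + b = c + d → a + c = b + d := by decide
    exact this _ _ _ _ h2
  obtain ⟨κ, hκ⟩ : ∃ κ : ZMod 2, ∀ p ∈ A ∩ B, f p + g p = κ := by
    by_cases hne : (A ∩ B).Nonempty
    · obtain ⟨o, ho⟩ := hne
      exact ⟨f o + g o, fun p hp => hconst p hp o ho⟩
    · exact ⟨0, fun p hp => (hne ⟨p, hp⟩).elim⟩
  have hval : ∀ p ∈ B, (if p ∈ A then f p else g p + κ) = g p + κ := by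
    intro p hp
    by_cases hpA : p ∈ A
    · rw [if_pos hpA, ← hκ p ⟨hpA, hp⟩]
      have : ∀ a b : ZMod 2, a = b + (a + b) := by decide
      exact this _ _
    · rw [if_neg hpA]
  have z4 : ∀ a b k : ZMod 2, a + b = a + k + (b + k) := by decide
  have inB : ∀ u ∈ B, ∀ v ∈ B, triAdj u v → pvtcOm z u v = (if u ∈ A then f u else g u + κ) + (if v ∈ A then f v else g v + κ) := by
    intro u hu v hv huv
    rw [hval u hu, hval v hv, hg u hu v hv huv]
    exact z4 _ _ _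
  have inA : ∀ u ∈ A, ∀ v ∈ A, triAdj u v → pvtcOm z u v = (if u ∈ A then f u else g u + κ) + (if v ∈ A then f v else g v + κ) := by
    intro u hu v hv huv
    rw [if_pos hu, if_pos hv]
    exact hf u hu v hv huv
  refine ⟨fun p => if p ∈ A then f p else g p + κ, ?_⟩
  intro u hu v hv huv
  rcases hu with hu | hu <;> rcases hv with hv | hv
  · exact inA u hu v hv huv
  · rcases hE u hu v hv huv with h | h
    · exact inB u h v hv huv
    · exact inA u hu v h huv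
  · rcases hE v hv u hu (hx_tri_symm _ _ huv) with h | h
    · exact inB u hu v h huv
    · exact inA u h v hv huv
  · exact inB u hu v hv huv

/-- **JANISZEWSKI**: two finite sets with connected intersection, no edge from `A \ B` to `B \ A`: a cell enclosed by neither is not enclosed by the union -/
theorem pvtc_janiszewski (hA : A.Finite) (hB : B.Finite) (hK : TscConn tscG (A ∩ B))
    (hE : ∀ x ∈ A, ∀ y ∈ B, triAdj x y → x ∈ B ∨ y ∈ A) (hzA : z ∈ pvtOut A) (hzB : z ∈ pvtOut B) : z ∈ pvtOut (A ∪ B) := by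
  refine pvtc_out_of_exact (hA.union hB) ?_ (pvtc_exact_union (pvtc_exact_mono pvt_hull_sub (pvtc_exact_of_out hA hzA))
    (pvtc_exact_mono pvt_hull_sub (pvtc_exact_of_out hB hzB)) hK hE)
  rintro (h | h)
  · exact pvt_out_sub hzA h
  · exact pvt_out_sub hzB h

theorem pvtc_touch_symm {X Y : Set (ℤ × ℤ)} (h : PvtcTouch X Y) : PvtcTouch Y X := by
  obtain ⟨x, hx, y, hy, h⟩ := h
  exact ⟨y, hy, x, hx, h.imp Eq.symm (hx_tri_symm _ _)⟩

theorem pvtc_touch_self {X : Set (ℤ × ℤ)} (h : X.Nonempty) : PvtcTouch X X := by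
  obtain ⟨x, hx⟩ := h
  exact ⟨x, hx, x, hx, Or.inl rfl⟩

/-- the union of the blobs number `i, …, q` -/
def pvtcSeg (Bl : ℕ → Set (ℤ × ℤ)) (i q : ℕ) : Set (ℤ × ℤ) := {x | ∃ l, i ≤ l ∧ l ≤ q ∧ x ∈ Bl l}

theorem pvtc_seg_cite : True := by
  have := @pvtcSeg.eq_1
  trivial

theorem pvtc_seg_finite {Bl : ℕ → Set (ℤ × ℤ)} {i q : ℕ} (h : ∀ l, i ≤ l → l ≤ q → (Bl l).Finite) : (pvtcSeg Bl i q).Finite := by
  have : pvtcSeg Bl i q = ⋃ l ∈ Set.Icc i q, Bl l := by
    ext x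
    simp only [pvtcSeg, Set.mem_ofPred_eq, Set.mem_iUnion, Set.mem_Icc, exists_prop, and_assoc]
  rw [this]
  exact (Set.finite_Icc i q).biUnion (fun l hl => h l hl.1 hl.2)

theorem pvtc_seg_succ (Bl : ℕ → Set (ℤ × ℤ)) {i q : ℕ} (h : i ≤ q + 1) : pvtcSeg Bl i (q + 1) = pvtcSeg Bl i q ∪ Bl (q + 1) := by
  ext x
  constructor
  · rintro ⟨l, h1, h2, hx⟩
    rcases Nat.lt_or_ge l (q + 1) with h3 | h3
    · exact Or.inl ⟨l, h1, by omega, hx⟩
    · have : l = q + 1 := by omega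
      subst this
      exact Or.inr hx
  · rintro (⟨l, h1, h2, hx⟩ | hx)
    · exact ⟨l, h1, by omega, hx⟩
    · exact ⟨q + 1, h, le_rfl, hx⟩

/-- a chain of connected blobs, consecutive ones touching, is connected -/
theorem pvtc_seg_conn {Bl : ℕ → Set (ℤ × ℤ)} {i : ℕ} : ∀ q, i ≤ q → (∀ l, i ≤ l → l ≤ q → TscConn tscG (Bl l)) →
    (∀ l, i ≤ l → l < q → PvtcTouch (Bl l) (Bl (l + 1))) → TscConn tscG (pvtcSeg Bl i q) := by
  intro q hq
  induction q, hq using Nat.le_induction with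
  | base =>
    intro hc _
    have : pvtcSeg Bl i i = Bl i := by
      ext x
      constructor
      · rintro ⟨l, h1, h2, hx⟩
        have : l = i := by omega
        subst this
        exact hx
      · intro hx
        exact ⟨i, le_rfl, le_rfl, hx⟩
    rw [this]
    exact hc i le_rfl le_rfl
  | succ q hq ih =>
    intro hc ht
    rw [pvtc_seg_succ Bl (by omega)]
    obtain ⟨x, hx, y, hy, hxy⟩ := ht q hq (by omega)
    exact tsc_conn_union (ih (fun l h1 h2 => hc l h1 (by omega)) (fun l h1 h2 => ht l h1 (by omega))) (hc (q + 1) (by omega) le_rfl)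
      (a := x) (b := y) ⟨q, hq, le_rfl, hx⟩ hy hxy

/-- **CHAIN OF BLOBS**: finite connected blobs `Bl 0, …, Bl n`, consecutive ones touch.  If `z` is not enclosed by any sub-chain `Bl i ∪ … ∪ Bl q` whose two END blobs touch,
then `z` is not enclosed by the whole chain. -/
theorem pvtc_chain (Bl : ℕ → Set (ℤ × ℤ)) (n : ℕ) (z : ℤ × ℤ) (hfin : ∀ l ≤ n, (Bl l).Finite) (hconn : ∀ l ≤ n, TscConn tscG (Bl l))
    (hcons : ∀ l < n, PvtcTouch (Bl l) (Bl (l + 1)))
    (hNR : ∀ i q, i ≤ q → q ≤ n → PvtcTouch (Bl i) (Bl q) → z ∈ pvtOut (pvtcSeg Bl i q)) :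
    z ∈ pvtOut (pvtcSeg Bl 0 n) := by
  classical
  have hex : ∀ q, q ≤ n → PvtcExact z (pvtcSeg Bl 0 q) := by
    intro q
    induction q with
    | zero =>
      intro _
      by_cases hne : (Bl 0).Nonempty
      · exact pvtc_exact_mono pvt_hull_sub (pvtc_exact_of_out (pvtc_seg_finite (fun l _ h2 => hfin l (by omega))) (hNR 0 0 le_rfl (Nat.zero_le _) (pvtc_touch_self hne)))
      · refine ⟨0, fun u hu => ?_⟩
        obtain ⟨l, _, h2, hx⟩ := hu
        have : l = 0 := by omega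
        subst this
        exact (hne ⟨u, hx⟩).elim
    | succ q ih =>
      intro hq
      have hP : ∃ i, i ≤ q + 1 ∧ PvtcTouch (Bl i) (Bl (q + 1)) := ⟨q, by omega, hcons q (by omega)⟩
      set j := Nat.find hP with hj
      have hj1 : j ≤ q + 1 ∧ PvtcTouch (Bl j) (Bl (q + 1)) := Nat.find_spec hP
      have hjq : j ≤ q := Nat.find_min' hP ⟨by omega, hcons q (by omega)⟩
      have hmin : ∀ l, l ≤ q + 1 → PvtcTouch (Bl l) (Bl (q + 1)) → j ≤ l := fun l h1 h2 => Nat.find_min' hP ⟨h1, h2⟩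
      have hT : PvtcExact z (pvtcSeg Bl j (q + 1)) :=
        pvtc_exact_mono pvt_hull_sub (pvtc_exact_of_out (pvtc_seg_finite (fun l _ h2 => hfin l (by omega))) (hNR j (q + 1) hj1.1 hq hj1.2))
      have hint : pvtcSeg Bl 0 q ∩ pvtcSeg Bl j (q + 1) = pvtcSeg Bl j q := by
        ext x
        constructor
        · rintro ⟨⟨l, _, h2, hx⟩, ⟨l', h1', h2', hx'⟩⟩
          rcases Nat.lt_or_ge l' (q + 1) with h3 | h3
          · exact ⟨l', h1', by omega, hx'⟩
          · have : l' = q + 1 := by omega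
            subst this
            exact ⟨l, hmin l (by omega) ⟨x, hx, x, hx', Or.inl rfl⟩, h2, hx⟩
        · rintro ⟨l, h1, h2, hx⟩
          exact ⟨⟨l, Nat.zero_le _, h2, hx⟩, ⟨l, h1, by omega, hx⟩⟩
      have hun : pvtcSeg Bl 0 (q + 1) = pvtcSeg Bl 0 q ∪ pvtcSeg Bl j (q + 1) := by
        rw [pvtc_seg_succ Bl (Nat.zero_le _)]
        ext x
        constructor
        · rintro (h | h)
          · exact Or.inl h
          · exact Or.inr ⟨q + 1, hj1.1, le_rfl, h⟩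
        · rintro (h | ⟨l, h1, h2, hx⟩)
          · exact Or.inl h
          · rcases Nat.lt_or_ge l (q + 1) with h3 | h3
            · exact Or.inl ⟨l, Nat.zero_le _, by omega, hx⟩
            · have : l = q + 1 := by omega
              subst this
              exact Or.inr hx
      rw [hun]
      refine pvtc_exact_union (ih (by omega)) hT ?_ ?_
      · rw [hint]
        exact pvtc_seg_conn q hjq (fun l _ h2 => hconn l (by omega)) (fun l _ h2 => hcons l (by omega))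
      · rintro x ⟨l, _, h2, hx⟩ y ⟨l', h1', h2', hy⟩ hxy
        rcases Nat.lt_or_ge l' (q + 1) with h3 | h3
        · exact Or.inr ⟨l', Nat.zero_le _, by omega, hy⟩
        · have : l' = q + 1 := by omega
          subst this
          exact Or.inl ⟨l, hmin l (by omega) ⟨x, hx, y, hy, Or.inr hxy⟩, by omega, hx⟩
  refine pvtc_out_of_exact (pvtc_seg_finite (fun l _ h2 => hfin l h2)) ?_ (hex n le_rfl)
  rintro ⟨l, _, h2, hx⟩
  exact pvt_out_sub (hNR l l le_rfl h2 (pvtc_touch_self ⟨z, hx⟩)) ⟨l, le_rfl, le_rfl, hx⟩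

end mv

/-! ## §4 THE PINCH -/

section pinch

/-- two potentials of the ray cochain on a connected set differ by a constant -/
theorem pvtc_pot_const {z : ℤ × ℤ} {A : Set (ℤ × ℤ)} {f g : ℤ × ℤ → ZMod 2} (hA : TscConn tscG A)
    (hf : ∀ u ∈ A, ∀ v ∈ A, triAdj u v → pvtcOm z u v = f u + f v)
    (hg : ∀ u ∈ A, ∀ v ∈ A, triAdj u v → pvtcOm z u v = g u + g v) {p q : ℤ × ℤ} (hp : p ∈ A) (hq : q ∈ A) :
    f p + g p = f q + g q := by
  refine tsc_R_const (fun x => f x + g x) (fun u v huv => ?_) (hA p hp q hq)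
  have h1 := hf u huv.2.1 v huv.2.2 huv.1
  have h2 := hg u huv.2.1 v huv.2.2 huv.1
  rw [h1] at h2
  have : ∀ a b c d : ZMod 2, a + b = c + d → a + c = b + d := by decide
  exact this _ _ _ _ h2

/-- **THE PINCH**.  `K` finite, `z` not enclosed by `K`; blobs `Bl x ∋ x` finite connected.  If `z` is enclosed by the union of the blobs, there are two TOUCHING blobs `Bl x`, `Bl y` such that
every connected `K' ⊆ K` through `x` and `y`, together with the two blobs, encloses `z`. -/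
theorem pvtc_pinch (K : Set (ℤ × ℤ)) (Bl : ℤ × ℤ → Set (ℤ × ℤ)) (z : ℤ × ℤ) (hK : K.Finite)
    (hfin : ∀ x ∈ K, (Bl x).Finite) (hconn : ∀ x ∈ K, TscConn tscG (Bl x)) (hc : ∀ x ∈ K, x ∈ Bl x)
    (hzK : z ∈ pvtOut K) (hz : z ∉ pvtOut (⋃ x ∈ K, Bl x)) :
    ∃ x ∈ K, ∃ y ∈ K, PvtcTouch (Bl x) (Bl y) ∧ ∀ K' ⊆ K, TscConn tscG K' → x ∈ K' → y ∈ K' → z ∉ pvtOut (K' ∪ Bl x ∪ Bl y) := by
  classical
  by_contra hcon
  push Not at hcon
  apply hz
  obtain ⟨F, hF⟩ := pvtc_exact_mono pvt_hull_sub (pvtc_exact_of_out hK hzK)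
  have hself : ∀ x ∈ K, z ∈ pvtOut (Bl x) := by
    intro x hx
    obtain ⟨K', _, _, _, _, h⟩ := hcon x hx x hx (pvtc_touch_self ⟨x, hc x hx⟩)
    exact pvt_out_anti (Set.subset_union_right) h
  have hpot : ∀ x ∈ K, ∃ g : ℤ × ℤ → ZMod 2, (∀ u ∈ Bl x, ∀ v ∈ Bl x, triAdj u v → pvtcOm z u v = g u + g v) ∧ g x = F x := by
    intro x hx
    obtain ⟨g0, hg0⟩ := pvtc_exact_mono pvt_hull_sub (pvtc_exact_of_out (hfin x hx) (hself x hx))
    refine ⟨fun u => g0 u + g0 x + F x, fun u hu v hv huv => ?_, ?_⟩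
    · rw [hg0 u hu v hv huv]
      have : ∀ a b c d : ZMod 2, a + b = a + c + d + (b + c + d) := by decide
      exact this _ _ _ _
    · have : ∀ a d : ZMod 2, a + a + d = d := by decide
      exact this _ _
  choose! g hg hgx using hpot
  have key : ∀ x ∈ K, ∀ y ∈ K, ∀ u ∈ Bl x, ∀ v ∈ Bl y, (u = v ∨ triAdj u v) → ∃ h : ℤ × ℤ → ZMod 2, g x u + g y v = h u + h v ∧ (triAdj u v → pvtcOm z u v = h u + h v) := by
    intro x hx y hy u hu v hv huv
    obtain ⟨K', hK'K, hK'c, hxK', hyK', hout⟩ := hcon x hx y hy ⟨u, hu, v, hv, huv⟩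
    obtain ⟨h, hh⟩ := pvtc_exact_mono pvt_hull_sub (pvtc_exact_of_out (((hK.subset hK'K).union (hfin x hx)).union (hfin y hy)) hout)
    have e1 : h x + F x = h y + F y :=
      pvtc_pot_const hK'c (fun a ha b hb => hh a (Or.inl (Or.inl ha)) b (Or.inl (Or.inl hb))) (fun a ha b hb => hF a (hK'K ha) b (hK'K hb)) hxK' hyK'
    have e2 : h u + g x u = h x + g x x :=
      pvtc_pot_const (hconn x hx) (fun a ha b hb => hh a (Or.inl (Or.inr ha)) b (Or.inl (Or.inr hb))) (hg x hx) hu (hc x hx)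
    have e3 : h v + g y v = h y + g y y :=
      pvtc_pot_const (hconn y hy) (fun a ha b hb => hh a (Or.inr ha) b (Or.inr hb)) (hg y hy) hv (hc y hy)
    rw [hgx x hx] at e2
    rw [hgx y hy] at e3
    refine ⟨h, ?_, fun hadj => hh u (Or.inl (Or.inr hu)) v (Or.inr hv) hadj⟩
    have : ∀ hu gu hx' fx hv gv hy' fy : ZMod 2, hx' + fx = hy' + fy → hu + gu = hx' + fx → hv + gv = hy' + fy → gu + gv = hu + hv := by decide
    exact this _ _ _ _ _ _ _ _ e1 e2 e3
  have hU : (⋃ x ∈ K, Bl x).Finite := hK.biUnion hfin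
  have hmem : ∀ u, u ∈ (⋃ x ∈ K, Bl x) ↔ ∃ x, x ∈ K ∧ u ∈ Bl x := by
    intro u
    simp only [Set.mem_iUnion, exists_prop]
  refine pvtc_out_of_exact hU ?_ ?_
  · intro hzU
    obtain ⟨x, hx, hzx⟩ := (hmem z).1 hzU
    exact pvt_out_sub (hself x hx) hzx
  · refine ⟨fun u => if h : ∃ x, x ∈ K ∧ u ∈ Bl x then g h.choose u else 0, ?_⟩
    have hval : ∀ x ∈ K, ∀ u ∈ Bl x, (if h : ∃ x, x ∈ K ∧ u ∈ Bl x then g h.choose u else 0) = g x u := by
      intro x hx u hu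
      have hex : ∃ x, x ∈ K ∧ u ∈ Bl x := ⟨x, hx, hu⟩
      rw [dif_pos hex]
      obtain ⟨h, h1, _⟩ := key hex.choose hex.choose_spec.1 x hx u hex.choose_spec.2 u hu (Or.inl rfl)
      have : ∀ a b c : ZMod 2, a + b = c + c → a = b := by decide
      exact this _ _ _ h1
    intro u hu v hv huv
    obtain ⟨x, hx, hux⟩ := (hmem u).1 hu
    obtain ⟨y, hy, hvy⟩ := (hmem v).1 hv
    dsimp only
    rw [hval x hx u hux, hval y hy v hvy]
    obtain ⟨h, h1, h2⟩ := key x hx y hy u hux v hvy (Or.inr huv)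
    rw [h1]
    exact h2 huv

/-- a connected set off `S` which meets the outside of `S` lies in the outside of `S` -/
theorem pvtc_out_of_wit {S W : Set (ℤ × ℤ)} {z w : ℤ × ℤ} (hW : TscConn tscG W) (hWS : Disjoint W S) (hz : z ∈ W) (hw : w ∈ W) (hwo : w ∈ pvtOut S) : z ∈ pvtOut S :=
  pvt_out_R hwo (tsc_R_mono (fun a ha h => Set.disjoint_left.1 hWS ha h) (hW w hw z hz))

/-- **THE PINCH, WITH A WITNESS**: `K` connected; `W` connected, off `K`, joins `z` to the outside of the union of the blobs.  If `z` is enclosed by the union of the blobs, then `W` crosses two touching blobs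
`Bl x ∪ Bl y`, and every connected `K' ⊆ K` through `x`, `y` encloses `z` together with the two blobs. -/
theorem pvtc_pinch_wit (K W : Set (ℤ × ℤ)) (Bl : ℤ × ℤ → Set (ℤ × ℤ)) (z w : ℤ × ℤ) (hK : K.Finite) (hKc : TscConn tscG K)
    (hfin : ∀ x ∈ K, (Bl x).Finite) (hconn : ∀ x ∈ K, TscConn tscG (Bl x)) (hc : ∀ x ∈ K, x ∈ Bl x)
    (hW : TscConn tscG W) (hWK : Disjoint W K) (hzW : z ∈ W) (hwW : w ∈ W) (hwo : w ∈ pvtOut (⋃ x ∈ K, Bl x))
    (hz : z ∉ pvtOut (⋃ x ∈ K, Bl x)) :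
    ∃ x ∈ K, ∃ y ∈ K, PvtcTouch (Bl x) (Bl y) ∧ (W ∩ (Bl x ∪ Bl y)).Nonempty ∧
      ∀ K' ⊆ K, TscConn tscG K' → x ∈ K' → y ∈ K' → z ∉ pvtOut (K' ∪ Bl x ∪ Bl y) := by
  have hKU : K ⊆ ⋃ x ∈ K, Bl x := fun x hx => Set.mem_biUnion hx (hc x hx)
  have hzK : z ∈ pvtOut K := pvtc_out_of_wit hW hWK hzW hwW (pvt_out_anti hKU hwo)
  obtain ⟨x, hx, y, hy, ht, hall⟩ := pvtc_pinch K Bl z hK hfin hconn hc hzK hz
  refine ⟨x, hx, y, hy, ht, ?_, hall⟩
  by_contra hne
  rw [Set.not_nonempty_iff_eq_empty] at hne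
  refine hall K subset_rfl hKc hx hy (pvtc_out_of_wit hW ?_ hzW hwW (pvt_out_anti ?_ hwo))
  · rw [Set.disjoint_left]
    rintro a haW ((haK | hax) | hay)
    · exact Set.disjoint_left.1 hWK haW haK
    · exact (Set.eq_empty_iff_forall_notMem.1 hne a) ⟨haW, Or.inl hax⟩
    · exact (Set.eq_empty_iff_forall_notMem.1 hne a) ⟨haW, Or.inr hay⟩
  · rintro a ((haK | hax) | hay)
    · exact hKU haK
    · exact Set.mem_biUnion hx hax
    · exact Set.mem_biUnion hy hay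

/-- the enclosing set of a pinch leaves every box which misses `z` -/
theorem pvtc_pinch_far {X : Set (ℤ × ℤ)} {z : ℤ × ℤ} {a b c d : ℤ} (hz : z ∉ pvtOut X) (hzb : z ∉ tscBox a b c d) : ¬ X ⊆ tscBox a b c d :=
  fun h => hz (pvt_out_of_box h hzb)

theorem pvtc_sing_conn (x : ℤ × ℤ) : TscConn tscG ({x} : Set (ℤ × ℤ)) := by
  intro u hu v hv
  rw [Set.mem_singleton_iff] at hu hv
  rw [hu, hv]
  exact ReflTransGen.refl

theorem pvtc_N_biUnion (k : ℕ) (K : Set (ℤ × ℤ)) : (⋃ x ∈ K, pvtwN k {x}) = pvtwN k K := by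
  ext w
  rw [pvtw_N_iff]
  simp only [Set.mem_iUnion, exists_prop]

/-- touching square blobs have close centres -/
theorem pvtc_touch_N {i j : ℕ} {x y : ℤ × ℤ} (h : PvtcTouch (pvtwN i {x}) (pvtwN j {y})) : y ∈ pvtwN (i + j + 1) {x} := by
  obtain ⟨u, ⟨x', hx', a1, a2, a3, a4⟩, v, ⟨y', hy', b1, b2, b3, b4⟩, huv⟩ := h
  rw [Set.mem_singleton_iff] at hx' hy'
  subst hx' hy'
  refine ⟨x', rfl, ?_, ?_, ?_, ?_⟩ <;> push_cast
  all_goals
    rcases huv with rfl | huv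
    · omega
    · rw [tsc_adj_iff] at huv
      omega

/-- **THE PINCH for `pvtwN k K`** (206's sup-norm neighbourhood) -/
theorem pvtc_pinch_N (K W : Set (ℤ × ℤ)) (k : ℕ) (z w : ℤ × ℤ) (hK : K.Finite) (hKc : TscConn tscG K)
    (hW : TscConn tscG W) (hWK : Disjoint W K) (hzW : z ∈ W) (hwW : w ∈ W) (hwo : w ∈ pvtOut (pvtwN k K)) (hz : z ∉ pvtOut (pvtwN k K)) :
    ∃ x ∈ K, ∃ y ∈ K, y ∈ pvtwN (2 * k + 1) {x} ∧ (W ∩ (pvtwN k {x} ∪ pvtwN k {y})).Nonempty ∧
      ∀ K' ⊆ K, TscConn tscG K' → x ∈ K' → y ∈ K' → z ∉ pvtOut (K' ∪ pvtwN k {x} ∪ pvtwN k {y}) := by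
  rw [← pvtc_N_biUnion] at hwo hz
  obtain ⟨x, hx, y, hy, ht, h1, h2⟩ := pvtc_pinch_wit K W (fun x => pvtwN k {x}) z w hK hKc (fun x _ => pvtw_N_finite (Set.finite_singleton x))
    (fun x _ => pvtw_N_conn (pvtc_sing_conn x)) (fun x _ => pvtw_N_sub rfl) hW hWK hzW hwW hwo hz
  refine ⟨x, hx, y, hy, ?_, h1, h2⟩
  have := pvtc_touch_N ht
  rwa [show k + k + 1 = 2 * k + 1 by ring] at this

/-- **THE PINCH for a PATH** `c 0, …, c n` of cells with blobs `Bl (c l)`: the enclosing set is the STRETCH `c i, …, c q` with the two touching end blobs, and the witness crosses the end blobs -/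
theorem pvtc_pinch_path (c : ℕ → ℤ × ℤ) (n : ℕ) (W : Set (ℤ × ℤ)) (Bl : ℤ × ℤ → Set (ℤ × ℤ)) (z w : ℤ × ℤ)
    (hstep : ∀ l < n, c l = c (l + 1) ∨ triAdj (c l) (c (l + 1)))
    (hfin : ∀ l ≤ n, (Bl (c l)).Finite) (hconn : ∀ l ≤ n, TscConn tscG (Bl (c l))) (hc : ∀ l ≤ n, c l ∈ Bl (c l))
    (hW : TscConn tscG W) (hWK : ∀ l ≤ n, c l ∉ W) (hzW : z ∈ W) (hwW : w ∈ W) (hwo : w ∈ pvtOut (pvtcSeg (fun l => Bl (c l)) 0 n))
    (hz : z ∉ pvtOut (pvtcSeg (fun l => Bl (c l)) 0 n)) :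
    ∃ i q, i ≤ q ∧ q ≤ n ∧ PvtcTouch (Bl (c i)) (Bl (c q)) ∧ (W ∩ (Bl (c i) ∪ Bl (c q))).Nonempty ∧
      z ∉ pvtOut (pvtcSeg (fun l => {c l}) i q ∪ Bl (c i) ∪ Bl (c q)) := by
  have hKeq : ∀ x, x ∈ pvtcSeg (fun l => ({c l} : Set (ℤ × ℤ))) 0 n ↔ ∃ l ≤ n, x = c l := by
    intro x
    constructor
    · rintro ⟨l, _, h2, hx⟩
      exact ⟨l, h2, hx⟩
    · rintro ⟨l, h2, hx⟩
      exact ⟨l, Nat.zero_le _, h2, hx⟩
  have hU : (⋃ x ∈ pvtcSeg (fun l => ({c l} : Set (ℤ × ℤ))) 0 n, Bl x) = pvtcSeg (fun l => Bl (c l)) 0 n := by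
    ext a
    simp only [Set.mem_iUnion, exists_prop]
    constructor
    · rintro ⟨x, hx, ha⟩
      obtain ⟨l, h2, rfl⟩ := (hKeq x).1 hx
      exact ⟨l, Nat.zero_le _, h2, ha⟩
    · rintro ⟨l, _, h2, ha⟩
      exact ⟨c l, (hKeq _).2 ⟨l, h2, rfl⟩, ha⟩
  have hsc : ∀ i q, i ≤ q → q ≤ n → TscConn tscG (pvtcSeg (fun l => ({c l} : Set (ℤ × ℤ))) i q) := by
    intro i q hiq hqn
    exact pvtc_seg_conn q hiq (fun l _ _ => pvtc_sing_conn (c l)) (fun l _ h2 => ⟨c l, rfl, c (l + 1), rfl, hstep l (by omega)⟩)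
  rw [← hU] at hwo hz
  obtain ⟨x, hx, y, hy, ht, h1, h2⟩ := pvtc_pinch_wit (pvtcSeg (fun l => ({c l} : Set (ℤ × ℤ))) 0 n) W Bl z w
    (pvtc_seg_finite (fun l _ _ => Set.finite_singleton _)) (hsc 0 n (Nat.zero_le _) le_rfl)
    (fun x hx => by obtain ⟨l, h2, rfl⟩ := (hKeq x).1 hx; exact hfin l h2)
    (fun x hx => by obtain ⟨l, h2, rfl⟩ := (hKeq x).1 hx; exact hconn l h2)
    (fun x hx => by obtain ⟨l, h2, rfl⟩ := (hKeq x).1 hx; exact hc l h2)
    hW (by
      rw [Set.disjoint_left]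
      intro a haW ha
      obtain ⟨l, h2, rfl⟩ := (hKeq a).1 ha
      exact hWK l h2 haW) hzW hwW hwo hz
  obtain ⟨i, hi, rfl⟩ := (hKeq x).1 hx
  obtain ⟨q, hq, rfl⟩ := (hKeq y).1 hy
  have hsub : ∀ i q, q ≤ n → pvtcSeg (fun l => ({c l} : Set (ℤ × ℤ))) i q ⊆ pvtcSeg (fun l => ({c l} : Set (ℤ × ℤ))) 0 n := by
    rintro i q hqn a ⟨l, _, h2, ha⟩
    exact ⟨l, Nat.zero_le _, by omega, ha⟩
  rcases le_total i q with hiq | hqi
  · exact ⟨i, q, hiq, hq, ht, h1, h2 _ (hsub i q hq) (hsc i q hiq hq) ⟨i, le_rfl, hiq, rfl⟩ ⟨q, hiq, le_rfl, rfl⟩⟩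
  · refine ⟨q, i, hqi, hi, pvtc_touch_symm ht, by rwa [Set.union_comm], ?_⟩
    have := h2 _ (hsub q i hi) (hsc q i hqi hi) ⟨i, hqi, le_rfl, rfl⟩ ⟨q, le_rfl, hqi, rfl⟩
    rwa [Set.union_right_comm] at this

end pinch

end Claimed.Agent.R289
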