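-- KEEP
import Claimed.Agent.R289.Tr.AccDoor
import Claimed.Agent.R289.Tr.AccN
import Claimed.Agent.R289.Tr.CoverD
import Claimed.Agent.R289.Tr.FitObs

/-!
# Row 289 (S0537), THE WALL, road E, node (S) of `cover` (`exit_pvcb_scene`), file Tr/CoverS : THE SCENE OF THE ACCESS LEMMA AT A SEAM      (owner helper257; prefix `pvcs_` / `Pvcs`)

MODEL FREE.   `pvcs_scene` : a seam `PvcsSeam` (completion `Tc`, plane `T`, twin data, timetable of 10, injective window, both continuations in the shared region, off the two discs, ending far)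
+ the numbers `PvcsNum` + the plane half states `AtIn s`, `AtOut t` + `PlGeo` + mesh  ⟹  `PvaccScene` with ALL its fields, at the THIN obstacle `pvacnK` of 211 (`Tr/AccN`) and the added pieces `pvmuLk` of 215.
-/

set_option autoImplicit false
set_option linter.unusedSectionVars false
set_option linter.unusedVariables false

namespace Claimed.Agent.R289

open Set Metric

/-! ## 0. metric helpers -/

/-- the euclidean norm against the sup norm, with a constant `< 2` -/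
theorem pvcs_norm_sup (p : ℂ) : ‖p‖ ≤ 3 / 2 * pvtcSup p := by
  have h1 : ‖p‖ ^ 2 = p.re ^ 2 + p.im ^ 2 := by rw [Complex.sq_norm, Complex.normSq_apply]; ring
  obtain ⟨h2, h3⟩ := (pvtc_pl_sup_le (p := p) (t := pvtcSup p)).1 le_rfl
  have h0 : 0 ≤ pvtcSup p := (abs_nonneg _).trans h2
  have h4 : p.re ^ 2 ≤ pvtcSup p ^ 2 := by rw [← sq_abs]; exact pow_le_pow_left₀ (abs_nonneg _) h2 2
  have h5 : p.im ^ 2 ≤ pvtcSup p ^ 2 := by rw [← sq_abs]; exact pow_le_pow_left₀ (abs_nonneg _) h3 2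
  by_contra hc
  rw [not_le] at hc
  nlinarith [norm_nonneg p]

/-- a point of a square near `x` -/
theorem pvcs_sq_ball {z x w : ℂ} {r Q : ℝ} (hw : w ∈ pvwSq z r) (hQ : ‖z - x‖ + 2 * r ≤ Q) : w ∈ closedBall x Q := by
  rw [mem_closedBall, dist_eq_norm]
  have h0 := Complex.norm_le_abs_re_add_abs_im (w - z)
  have h1 := hw.1
  have h2 := hw.2
  have h3 := norm_sub_le_norm_sub_add_norm_sub w z x
  linarith

/-! ## 1. the seam -/

section defs

variable {Vc Dc V D : Type}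

/-- **THE SEAM**: all that the scene reads of the completion `Tc`.      `A k = pvasIt Tc σc d0 k` = the clock of the wall of the rim, `γ k = posc (src (A k)) = pvacmGam Tc posc σc d0 k`;   `𝔇c` = the completion twin of the plane datum `𝔇` (22), with its timetable (10);
`ts` = time of the tip of `Σ⁻(s)`, `tt = t3 + np` = time of the tip of `Σ⁺(t)`;   the two continuations `[lo, ts]`, `[tt, hi]` stay in the shared region `Kr`, off the discs `B(zs, As)`, `B(zt, At)` (second actual gates: `PvwiTab.core_free` of 179) and end `Re`-far from `x`;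
the positions of the window `[lo, hi]` are different (`PvwiFr.injOn` of 179). -/
structure PvcsSeam (Tc : PvMap Vc Dc) (T : PvMap V D) (R : Dc → D → Prop) (posc : Vc → ℂ) (pos : V → ℂ) (Kr : Set ℂ) (σc : Vc → Bool) (σ : V → Bool) (d0 : Dc) (𝔇c : PvwDat Tc) (𝔇 : PvwDat T)
    (zs zt x : ℂ) (As At Re : ℝ) (lo ts t0 m t3 hi : ℕ) : Prop where
  loc : PvLocP Tc T R posc pos Kr
  col : ∀ d d', R d d' → σc (Tc.src d) = σ (T.src d')
  bw : pvasBW Tc σc d0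
  dat : PvLocDat R 𝔇c 𝔇
  tab : PvfiDTab Tc σc 𝔇c d0 ts t0 m t3
  inj : Set.InjOn (pvasIt Tc σc d0) (Set.Icc lo hi)
  lo_lt : lo < ts
  lt_hi : t3 + 𝔇c.t.np < hi
  inK : ∀ k, lo ≤ k → k ≤ hi → (k ≤ ts ∨ t3 + 𝔇c.t.np ≤ k) → pvacmGam Tc posc σc d0 k ∈ Kr
  core : ∀ k, lo ≤ k → k ≤ hi → (k ≤ ts ∨ t3 + 𝔇c.t.np ≤ k) → As ≤ ‖pvacmGam Tc posc σc d0 k - zs‖ ∧ At ≤ ‖pvacmGam Tc posc σc d0 k - zt‖
  exit_hi : Re ≤ ‖pvacmGam Tc posc σc d0 hi - x‖
  exit_lo : Re ≤ ‖pvacmGam Tc posc σc d0 lo - x‖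

/-- **THE NUMBERS OF THE SCENE**.      `μ` mesh, `r η S` = the radii of `PvaccScene`, `c H` = the two lengths of the added piece `pvmuLk` (215), `ρ'` = radius of the ball round the grid centre which contains the added piece,
`As At` = radii of the discs kept free by the second gates, `Q` = radius of a ball round `x` which contains the obstacle, `Re` = distance from `x` of the two ends of the window. -/
structure PvcsNum (N : PvwNum) (h : ℝ) (τs τt : PvwTy) (zs zt x : ℂ) (As At Re Q μ c H ρ' r η S : ℝ) : Prop where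
  rho : 0 ≤ N.rho * h
  r0 : 0 ≤ r
  eta0 : 0 ≤ η
  S0 : 0 ≤ S
  Rs : N.rho * h / 2 + μ ≤ 2 * pvwRad N h τs τs.k
  Rt : N.rho * h / 2 + μ ≤ 2 * pvwRad N h τt τt.k
  c_gt : N.rho * h / 2 + μ < c
  H_gt : r + 2 * η + N.rho * h / 4 < H
  c_le : N.rho * h / 4 + μ + c ≤ ρ'
  H_le : H ≤ ρ'
  sep : pvwRad N h τs τs.k + pvwRad N h τt τt.k + (N.rho * h / 4 + μ) + ρ' + (2 * r + 2 * η) < pvtcSup (zt - zs)
  n1 : 3 * S + 5 * r ≤ 2 * N.rho * h - μ / 2 - H
  n2 : S + 5 * r ≤ 2 * N.rho * h - μ / 2 - N.rho * h / 4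
  n3 : 13 * r ≤ 2 * N.rho * h - μ / 2 - ρ'
  bs : τs.b * h + (S + 8 * r) < pvwRad N h τs τs.k - N.rho * h / 4 - ρ'
  bt : τt.b * h + (S + 8 * r) < pvwRad N h τt τt.k - N.rho * h / 4 - ρ'
  cs : τs.b * h + (S + 8 * r) + μ < As
  ct : τt.b * h + (S + 8 * r) + μ < At
  Qs : ‖zs - x‖ + 2 * pvwRad N h τs τs.k ≤ Q
  Qt : ‖zt - x‖ + 2 * pvwRad N h τt τt.k ≤ Q
  ex : 3 / 2 * (Q + (r + η)) < Re - μ
  lo : S < Re - Q

end defs

section scene

variable {Vc Dc V D : Type} {Tc : PvMap Vc Dc} {T : PvMap V D} {R : Dc → D → Prop} {posc : Vc → ℂ} {pos : V → ℂ} {Kr : Set ℂ} {σc : Vc → Bool} {σ : V → Bool} {d0 : Dc} {𝔇c : PvwDat Tc} {𝔇 : PvwDat T}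
  {zs zt x ups upt : ℂ} {As At Re Q μ c H ρ' r η S : ℝ} {lo ts t0 m t3 hi : ℕ} {N : PvwNum} {h : ℝ} {τs τt : PvwTy}

/-- the obstacle of record lies in the ball `closedBall x Q` -/
theorem pvcs_K_ball (Hs : 𝔇.s.AtIn pos N h zs τs σ) (Ht : 𝔇.t.AtOut pos N h zt τt σ) (hbs : τs.b * h ≤ pvwRad N h τs τs.k) (hbt : τt.b * h ≤ pvwRad N h τt τt.k)
    (hQs : ‖zs - x‖ + 2 * pvwRad N h τs τs.k ≤ Q) (hQt : ‖zt - x‖ + 2 * pvwRad N h τt τt.k ≤ Q) (hgx : ∀ k, k ≤ 𝔇.g.n → ‖pos (𝔇.g.v k) - x‖ ≤ Q) :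
    pvacnK T pos 𝔇 zs zt (τs.b * h) (τt.b * h) ⊆ closedBall x Q := by
  have hDs : closedBall zs (τs.b * h) ⊆ pvwSq zs (pvwRad N h τs τs.k) := (pvmu_ball_sub_sq _ _).trans (pvmu_sq_mono hbs)
  have hDt : closedBall zt (τt.b * h) ⊆ pvwSq zt (pvwRad N h τt τt.k) := (pvmu_ball_sub_sq _ _).trans (pvmu_sq_mono hbt)
  rintro q ((hq | hq) | hq)
  · exact pvcs_sq_ball (pvmu_Es_box hDs Hs.stub hq) hQs
  · obtain ⟨k, hk, hq⟩ := pvfi_mem_tr.1 hq
    exact (convex_closedBall x Q).segment_subset (mem_closedBall_iff_norm.2 (hgx k hk.le)) (mem_closedBall_iff_norm.2 (hgx (k + 1) hk)) hq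
  · exact pvcs_sq_ball (pvmu_Et_box hDt Ht.stub hq) hQt

/-- the mesh at a shared position of the completion: the midpoint of its edge is near its black end -/
theorem pvcs_mid_near (L : PvLocP Tc T R posc pos Kr) (hmesh : ∀ d f : D, pos (T.src d) ∈ Kr → T.SF d f → ‖pos (T.src f) - pos (T.tgt f)‖ ≤ μ) {k : ℕ} (hk : pvacmGam Tc posc σc d0 k ∈ Kr) :
    ‖pvfbMid Tc posc (pvasIt Tc σc d0 k) - pvacmGam Tc posc σc d0 k‖ ≤ μ := by
  obtain ⟨d', hd'⟩ := pvlw_dart_src L hk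
  have e1 := pvacm_twin_src L hd'
  have e2 := pvacm_twin_tgt L hd'
  have h1 := hmesh d' d' (by rw [e1]; exact hk) (T.sf_refl _)
  rw [e1, e2] at h1
  have h2 := pvfm_seg_near (pvfm_mid_mem (posc (Tc.src (pvasIt Tc σc d0 k))) (posc (Tc.tgt (pvasIt Tc σc d0 k))))
  exact h2.trans h1

/-- a point far from `x` is outside the fattened bounding square of `closedBall x Q` -/
theorem pvcs_exit {p g : ℂ} (h1 : ‖p - g‖ ≤ μ) (h2 : Re ≤ ‖g - x‖) (h3 : 3 / 2 * (Q + (r + η)) < Re - μ) :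
    p ∉ pvtcRect (x.re - Q - (r + η)) (x.re + Q + (r + η)) (x.im - Q - (r + η)) (x.im + Q + (r + η)) := by
  intro hp
  have hp' : p ∈ pvtcRect (x.re - (Q + (r + η))) (x.re + (Q + (r + η))) (x.im - (Q + (r + η))) (x.im + (Q + (r + η))) := by
    obtain ⟨a1, a2, a3, a4⟩ := hp
    exact ⟨by linarith, by linarith, by linarith, by linarith⟩
  rw [pvacc_rect_iff] at hp'
  have h4 := pvcs_norm_sup (p - x)
  have h5 := norm_sub_le_norm_sub_add_norm_sub g p x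
  rw [norm_sub_rev g p] at h5
  linarith

/-- **THE SCENE FROM THE SEAM** : obstacle, mask of record (211), added pieces, fronts of record (215), at two half states of the plane -/
theorem pvcs_scene (Se : PvcsSeam Tc T R posc pos Kr σc σ d0 𝔇c 𝔇 zs zt x As At Re lo ts t0 m t3 hi) (Nu : PvcsNum N h τs τt zs zt x As At Re Q μ c H ρ' r η S) (Geo : PlGeo T pos)
    (Hs : 𝔇.s.AtIn pos N h zs τs σ) (Ht : 𝔇.t.AtOut pos N h zt τt σ)
    (hmesh : ∀ d f : D, pos (T.src d) ∈ Kr → T.SF d f → ‖pos (T.src f) - pos (T.tgt f)‖ ≤ μ) (hKr : closedBall x Q ⊆ Kr)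
    (hn : 0 < 𝔇.g.n) (hb : ∀ k, k ≤ 𝔇.g.n → σ (𝔇.g.v k) = true)
    (hg0 : pos (𝔇.g.v 0) ∈ closedBall zs (τs.b * h)) (hgn : pos (𝔇.g.v 𝔇.g.n) ∈ closedBall zt (τt.b * h)) (hgx : ∀ k, k ≤ 𝔇.g.n → ‖pos (𝔇.g.v k) - x‖ ≤ Q)
    (hfs : ∀ k, k ≤ 𝔇.g.n → 2 * N.rho * h < ‖pos (𝔇.g.v k) - τs.cm h zs‖) (hft : ∀ k, k ≤ 𝔇.g.n → 2 * N.rho * h < ‖pos (𝔇.g.v k) - τt.cp h zt‖)
    (hups : PvmuDir ups) (hys : -(N.rho * h / 4) ≤ pvmuHt zs (pvwRad N h τs τs.k) ups (τs.cm h zs))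
    (hupt : PvmuDir upt) (hyt : -(N.rho * h / 4) ≤ pvmuHt zt (pvwRad N h τt τt.k) upt (τt.cp h zt)) :
    PvaccScene (pvacmGam Tc posc σc d0) (pvacnK T pos 𝔇 zs zt (τs.b * h) (τt.b * h)) (pvacnM T pos 𝔇 zs zt (τs.b * h) (τt.b * h))
      (pvacnW T pos σ (𝔇.t.ep 𝔇.t.np) (pvmuLk (pos 𝔇.t.ap) (τt.cp h zt) upt c H) (hi - (t3 + 𝔇c.t.np)))
      (pvacnW T pos (pvasNot σ) (T.opp (𝔇.s.em 𝔇.s.nm)) (pvmuLk (pos 𝔇.s.am) (τs.cm h zs) ups c H) (ts - lo))
      (pvmuFr (τt.cp h zt) upt H) (pvmuFr (τs.cm h zs) ups H) r η μ S lo ts (t3 + 𝔇c.t.np) hi := by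
  have hρ := Nu.rho; have hr := Nu.r0; have hη := Nu.eta0; have hS := Nu.S0
  have nc := Nu.c_gt; have nH := Nu.H_gt; have nc' := Nu.c_le; have nH' := Nu.H_le; have nsep := Nu.sep; have n1 := Nu.n1; have n2 := Nu.n2; have n3 := Nu.n3
  have nbs := Nu.bs; have nbt := Nu.bt
  set K := pvacnK T pos 𝔇 zs zt (τs.b * h) (τt.b * h) with hKdef
  set Rs := pvwRad N h τs τs.k with hRs
  set Rt := pvwRad N h τt τt.k with hRt
  set ys := τs.cm h zs with hysd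
  set yt := τt.cp h zt with hytd
  -- the boxes
  have hρ'0 : 0 ≤ ρ' := by linarith
  have hbs : τs.b * h ≤ Rs := by linarith
  have hbt : τt.b * h ≤ Rt := by linarith
  have hDs : closedBall zs (τs.b * h) ⊆ pvwSq zs Rs := (pvmu_ball_sub_sq _ _).trans (pvmu_sq_mono hbs)
  have hDt : closedBall zt (τt.b * h) ⊆ pvwSq zt Rt := (pvmu_ball_sub_sq _ _).trans (pvmu_sq_mono hbt)
  have hKQ : K ⊆ closedBall x Q := pvcs_K_ball Hs Ht hbs hbt Nu.Qs Nu.Qt hgx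
  have hsK : ∀ i, i ≤ 𝔇.s.nm → pos (T.src (𝔇.s.em i)) ∈ Kr ∧ pos (T.tgt (𝔇.s.em i)) ∈ Kr := fun i hi =>
    ⟨hKr (pvcs_sq_ball (Hs.stub.em_in i hi).1 Nu.Qs), hKr (pvcs_sq_ball (Hs.stub.em_in i hi).2 Nu.Qs)⟩
  have htK : ∀ i, i ≤ 𝔇.t.np → pos (T.src (𝔇.t.ep i)) ∈ Kr := fun i hi => hKr (pvcs_sq_ball (Ht.stub.ep_in i hi).1 Nu.Qt)
  have hgK : ∀ k, k ≤ 𝔇.g.n → pos (𝔇.g.v k) ∈ Kr := fun k hk => hKr (mem_closedBall_iff_norm.2 (hgx k hk))
  -- the mesh at the two tip faces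
  have hmt : ‖pos 𝔇.t.ap - pos (T.src (𝔇.t.ep 𝔇.t.np))‖ ≤ μ := by
    have := hmesh (𝔇.t.ep 𝔇.t.np) (T.nxt (T.nxt (𝔇.t.ep 𝔇.t.np))) (htK _ le_rfl) (T.sf_nxt2 _)
    rwa [T.src_nxt2, T.tgt_nxt2] at this
  have hms : ‖pos 𝔇.s.am - pos (T.src (𝔇.s.em 𝔇.s.nm))‖ ≤ μ := by
    have := hmesh (T.opp (𝔇.s.em 𝔇.s.nm)) (T.nxt (T.opp (𝔇.s.em 𝔇.s.nm))) (by rw [T.src_opp']; exact (hsK _ le_rfl).2) (T.sf_nxt _)
    rw [T.src_nxt, T.tgt_nxt, T.tgt_opp, norm_sub_rev] at this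
    exact this
  have hμ : 0 ≤ μ := (norm_nonneg _).trans hmt
  have hed : ∀ i, i < 𝔇.g.n → ‖pos (𝔇.g.v (i + 1)) - pos (𝔇.g.v i)‖ ≤ μ := fun k hk => by
    have := hmesh (𝔇.g.e k) (𝔇.g.e k) (by rw [𝔇.g.src_e k hk]; exact hgK k hk.le) (T.sf_refl _)
    rwa [𝔇.g.src_e k hk, 𝔇.g.tgt_e k hk, norm_sub_rev] at this
  -- the trace of `g₀` is far from the two grid centres
  have fs : ∀ q ∈ pvfiTr T pos 𝔇.g, 2 * N.rho * h - μ / 2 < ‖q - ys‖ := pvmu_Tr_far (fun v ⟨k, hk, e⟩ => e ▸ hfs k hk) hed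
  have ft : ∀ q ∈ pvfiTr T pos 𝔇.g, 2 * N.rho * h - μ / 2 < ‖q - yt‖ := pvmu_Tr_far (fun v ⟨k, hk, e⟩ => e ▸ hft k hk) hed
  -- the grid centres are near their boxes
  obtain ⟨-, -, -, -, ybt, yat⟩ := pvmu_st_side_t Ht hmt
  obtain ⟨-, -, -, -, ybs, yas⟩ := pvmu_st_side_s Hs hms
  -- (M1)
  have m1t : K ∩ closedBall yt ρ' ⊆ pvwSq zt Rt := by
    rintro q ⟨(hq | hq) | hq, hb'⟩
    · exfalso
      rw [mem_closedBall, dist_eq_norm] at hb'
      have a1 := pvmu_sq_apart (pvmu_Es_box hDs Hs.stub hq) ybt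
      have a2 := pvtc_pl_sup_le_norm (q - yt)
      rw [pvtc_pl_sup_comm zs zt] at a1
      linarith
    · exfalso
      rw [mem_closedBall, dist_eq_norm] at hb'
      have := ft q hq
      linarith
    · exact pvmu_Et_box hDt Ht.stub hq
  have m1s : K ∩ closedBall ys ρ' ⊆ pvwSq zs Rs := by
    rintro q ⟨(hq | hq) | hq, hb'⟩
    · exact pvmu_Es_box hDs Hs.stub hq
    · exfalso
      rw [mem_closedBall, dist_eq_norm] at hb'
      have := fs q hq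
      linarith
    · exfalso
      rw [mem_closedBall, dist_eq_norm] at hb'
      have a1 := pvmu_sq_apart (pvmu_Et_box hDt Ht.stub hq) ybs
      have a2 := pvtc_pl_sup_le_norm (q - ys)
      linarith
  have hH0 : N.rho * h / 4 < H := by linarith
  have hH00 : 0 ≤ H := by linarith
  have hc0 : 0 ≤ c := by linarith
  obtain ⟨t1, t2, t3', t4, t5, t6⟩ := pvmu_lk_t Ht hmt hρ hupt hyt Nu.Rt nc hH0 nc' nH' m1t
  obtain ⟨s1, s2, s3, s4, s5, s6⟩ := pvmu_lk_s Hs hms hρ hups hys Nu.Rs nc hH0 nc' nH' m1s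
  -- the fronts are outside the fattened boxes
  have ot : pvmuFr yt upt H ∉ pvwSq zt (Rt + (r + 2 * η)) := pvmu_lk_fr_out hupt hyt (by linarith)
  have os : pvmuFr ys ups H ∉ pvwSq zs (Rs + (r + 2 * η)) := pvmu_lk_fr_out hups hys (by linarith)
  have ot' : pvmuFr yt upt H ∉ pvwSq zs (Rs + (r + 2 * η)) := by
    refine pvmu_far_not_mem ?_
    have := pvmu_dr_other (z' := zs) hupt ybt yat hc0 hH00 nc' nH' t4
    linarith
  have os' : pvmuFr ys ups H ∉ pvwSq zt (Rt + (r + 2 * η)) := by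
    refine pvmu_far_not_mem ?_
    have := pvmu_dr_other (z' := zt) hups ybs yas hc0 hH00 nc' nH' s4
    rw [pvtc_pl_sup_comm zs zt] at this
    linarith
  have hsep' : Rs + Rt + (2 * r + η) < pvtcSup (zt - zs) := by linarith
  have hMK : pvmuEs T pos 𝔇.s (closedBall zs (τs.b * h)) ∪ pvmuEt T pos 𝔇.t (closedBall zt (τt.b * h)) ⊆ K := pvacn_M_sub T pos 𝔇 zs zt _ _
  have hhiK := Se.inK hi (by have := Se.lo_lt; have := Se.lt_hi; have := Se.tab.le0; have := Se.tab.le3; omega) le_rfl (Or.inr Se.lt_hi.le)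
  have hloK := Se.inK lo le_rfl (by have := Se.lo_lt; have := Se.lt_hi; have := Se.tab.le0; have := Se.tab.le3; omega) (Or.inl Se.lo_lt.le)
  refine pvacn_scene_dat Se.loc Se.col Geo Se.bw Se.dat Se.tab Se.inj Se.lo_lt Se.lt_hi Se.inK hmesh hn hb (fun i hi => (hsK i hi).1) htK hgK (pvmu_gate_gm Hs.gate) hg0 hgn (pvmu_gate_gp Ht.gate)
    (by linarith) (fun k h1 h2 h3 => ?_) t2.isPreconnected t1 t4 t3' t5 s2.isPreconnected s1 s4 s3 s5 (fun w hw => ⟨?_, ?_⟩) (fun w hw => ⟨?_, ?_⟩) (fun w hw q hq => ?_) (fun w hw q hq => ?_)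
    ⟨x.re - Q, x.re + Q, x.im - Q, x.im + Q, fun q hq => ?_, pvcs_exit (pvcs_mid_near Se.loc hmesh hhiK) Se.exit_hi Nu.ex, pvcs_exit (pvcs_mid_near Se.loc hmesh hloK) Se.exit_lo Nu.ex⟩
    (pvmu_st_p4_e Hs Ht hbs hbt hr hη hMK hsep' ot ot') (pvmu_st_p4_e Hs Ht hbs hbt hr hη hMK hsep' os' os) (fun q hq => ?_) (fun q hq => ?_) (fun q hq => ?_) (fun q hq => ?_) (fun q hq => ?_)
  · obtain ⟨c1, c2⟩ := Se.core k h1 h2 h3
    exact ⟨lt_of_lt_of_le Nu.cs c1, lt_of_lt_of_le Nu.ct c2⟩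
  · have a1 := pvmu_dr_other (z' := zs) hupt ybt yat hc0 hH00 nc' nH' hw
    have a2 := pvtc_pl_sup_le_norm (w - zs)
    linarith
  · have a1 := pvmu_dr_centre hupt hyt yat hc0 hH00 nc' nH' hw
    linarith
  · have a1 := pvmu_dr_centre hups hys yas hc0 hH00 nc' nH' hw
    linarith
  · have a1 := pvmu_dr_other (z' := zt) hups ybs yas hc0 hH00 nc' nH' hw
    have a2 := pvtc_pl_sup_le_norm (w - zt)
    rw [pvtc_pl_sup_comm zs zt] at a1
    linarith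
  · have := pvmu_lk_far hupt yat hc0 hH00 nc' nH' hw (ft q hq)
    linarith
  · have := pvmu_lk_far hups yas hc0 hH00 nc' nH' hw (fs q hq)
    linarith
  · rw [pvacc_rect_iff]
    exact (pvtc_pl_sup_le_norm _).trans (mem_closedBall_iff_norm.1 (hKQ hq))
  · have := pvmu_mask_tri (ft q hq) (pvmu_lk_fr_dist (y := yt) hupt hH00).le
    linarith
  · have := pvmu_mask_tri (fs q hq) (pvmu_lk_fr_dist (y := ys) hups hH00).le
    linarith
  · have := pvmu_mask_tri (ft q hq) Ht.good.tip_p.1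
    linarith
  · have := pvmu_mask_tri (fs q hq) Hs.good.tip_m.1
    linarith
  · have a1 := mem_closedBall_iff_norm.1 (hKQ hq)
    have a2 := Se.exit_lo
    have a3 := norm_sub_le_norm_sub_add_norm_sub (pvacmGam Tc posc σc d0 lo) q x
    have a4 := Nu.lo
    linarith

end scene

/-! ## 3. two numbers for the FACES obstacle of record (inputs of `PvfwSeam.scene` of 49, `pvmu_cb_num` of 215), from the record `PvcjIn` of 266 -/

section free2

variable {V D : Type} {T : PvMap V D} {pos : V → ℂ} {N : PvwNum} {h δ μ : ℝ} {x : ℂ} {R : ℝ} {zs zt : ℂ} {τs τt : PvwTy} {σ σ' : V → Bool} {𝔇 : PvwDat T}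

/-- **`ρK = 9R/4`**: the obstacle of record (faces + discs) lies in `closedBall x (9R/4)` (the number asked by `PvfwSeam.scene` of 49) -/
theorem pvcs_Kd_ball94 (I : PvcjIn T pos N h δ μ x R zs zt τs τt σ σ' 𝔇) : 𝔇.pvfyKd pos h zs zt τs τt ⊆ closedBall x (9 / 4 * R) := by
  have hbs : τs.b * h ≤ pvwRad N h τs τs.k := by nlinarith [I.rad_s, I.bh_s, I.h0]
  have hbt : τt.b * h ≤ pvwRad N h τt τt.k := by nlinarith [I.rad_t, I.bh_t, I.h0]
  have hR : 0 < R := by nlinarith [I.rad_s, I.bh_s, I.h0, I.rs]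
  have box_s : pvwSq zs (pvwRad N h τs τs.k) ⊆ closedBall x (9 / 4 * R) := fun w hw => by
    rw [mem_closedBall_iff_norm]
    have a1 := pvcj_sq_norm hw
    have a2 := pvcj_tri w zs x
    have a3 := pvcj_tri zs (pos (𝔇.g.v 0)) x
    have a4 := I.in2R 0 (Nat.zero_le _)
    have a5 := I.g0
    rw [norm_sub_rev] at a5
    have a7 := I.rs
    linarith
  have box_t : pvwSq zt (pvwRad N h τt τt.k) ⊆ closedBall x (9 / 4 * R) := fun w hw => by
    rw [mem_closedBall_iff_norm]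
    have a1 := pvcj_sq_norm hw
    have a2 := pvcj_tri w zt x
    have a3 := pvcj_tri zt (pos (𝔇.g.v 𝔇.g.n)) x
    have a4 := I.in2R 𝔇.g.n le_rfl
    have a5 := I.g1
    rw [norm_sub_rev] at a5
    have a7 := I.rt
    linarith
  refine pvkz_Kd_ball I.sph I.st_s I.st_t hbs hbt box_s box_t I.mesh (fun k hk => ?_)
  have a1 := I.in2R k hk.le
  have a2 := I.mu
  have a3 := I.dr
  have a4 := I.rho_h
  have a5 := I.rad_s
  have a6 := I.rs
  have a7 := I.bh_s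
  have a8 := I.d0
  nlinarith

/-- the sup-separation of the two centres -/
theorem pvcs_sup_sep (I : PvcjIn T pos N h δ μ x R zs zt τs τt σ σ' 𝔇) : 2 / 9 * R ≤ pvtcSup (zt - zs) := by
  have h1 := pvcs_norm_sup (zt - zs)
  have h2 := I.far
  rw [norm_sub_rev] at h2
  linarith

/-- the same in the form of 215 (`pvmu_cb_num`) -/
theorem pvcs_sup_sep' (I : PvcjIn T pos N h δ μ x R zs zt τs τt σ σ' 𝔇) : pvwRad N h τs τs.k + pvwRad N h τt τt.k + 2 * (N.rho * h) < pvtcSup (zt - zs) := by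
  have h1 := pvcs_sup_sep I
  have a4 := I.rho_h
  have a5 := I.rad_s
  have a6 := I.rs
  have a6' := I.rt
  have a7 := I.bh_s
  have a8 := I.h0
  have hR : 0 < R := by nlinarith
  nlinarith

end free2

end Claimed.Agent.R289
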