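-- KEEP
import Claimed.Agent.R289.Tr.FitLiftS
import Claimed.Agent.R289.Tr.AccFront
import Claimed.Agent.R289.Tr.AccN

/-!
# Row 289 (S0537, Cardy for Poisson-Voronoi), THE WALL, road E, (L2) `pvfh_cor`, (S) `exit_pvcb_scene`, file Tr/CoverSB : THE SCENE FROM THE SEAM      (helper211, second of 257; prefix `pvcsb_`)
-/

set_option autoImplicit false
set_option linter.unusedSectionVars false
set_option linter.unusedVariables false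

namespace Claimed.Agent.R289

open Set Metric

section seam

variable {Vc Dc V D : Type} {Tc : PvMap Vc Dc} {posc : Vc → ℂ} {σc : Vc → Bool} {T : PvMap V D} {pos : V → ℂ} {σ : V → Bool} {Rl : Dc → D → Prop}
  {x : ℂ} {R μ0 h : ℝ} {c : Tc.Cyc} {n : ℕ} {θ : ℕ → ℕ} {j : ℕ} {𝔇c : PvwDat Tc} {𝔇 : PvwDat T} {zs zt : ℂ} {τs τt : PvwTy} {Bs Bt : Set ℂ} {u1 u2 w1 w2 : ℕ}

/-- the polygon part of the forward witness: from the tip apex of `Σ⁺(t)` along the `N` next positions of the PLANE strand -/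
def pvcsbWt (T : PvMap V D) (pos : V → ℂ) (σ : V → Bool) (𝔇 : PvwDat T) (N : ℕ) : Set ℂ := pvacmW T pos σ (𝔇.t.ep 𝔇.t.np) (pos 𝔇.t.ap) N

/-- the polygon part of the backward witness -/
def pvcsbWs (T : PvMap V D) (pos : V → ℂ) (σ : V → Bool) (𝔇 : PvwDat T) (N : ℕ) : Set ℂ := pvacmW T pos (pvasNot σ) (T.opp (𝔇.s.em 𝔇.s.nm)) (pos 𝔇.s.am) N

theorem pvcsb_eqns_cite : True := by
  have := @pvcsbWt.eq_1; have := @pvcsbWs.eq_1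
  trivial

/-- the mesh at the tip face of `Σ⁺(t)` -/
theorem pvcsb_tip_t (S : PvfwSeam Tc posc σc T pos σ Rl x R μ0 h c n θ j 𝔇c 𝔇 zs zt τs τt Bs Bt u1 u2 w1 w2) (hin : pos (T.src (𝔇.t.ep 𝔇.t.np)) ∈ Bt) :
    ‖pos 𝔇.t.ap - pos (T.src (𝔇.t.ep 𝔇.t.np))‖ ≤ μ0 := by
  have h1 := S.mesh (𝔇.t.ep 𝔇.t.np) (T.nxt (T.nxt (𝔇.t.ep 𝔇.t.np))) (pvfw_ball_sub S.hR (S.box_t hin)) (T.sf_nxt2 _)
  rwa [T.src_nxt2, T.tgt_nxt2] at h1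

/-- the mesh at the tip face of `Σ⁻(s)` -/
theorem pvcsb_tip_s (S : PvfwSeam Tc posc σc T pos σ Rl x R μ0 h c n θ j 𝔇c 𝔇 zs zt τs τt Bs Bt u1 u2 w1 w2) (hin : pos (T.tgt (𝔇.s.em 𝔇.s.nm)) ∈ Bs) :
    ‖pos 𝔇.s.am - pos (T.src (𝔇.s.em 𝔇.s.nm))‖ ≤ μ0 := by
  have h1 := S.mesh (T.opp (𝔇.s.em 𝔇.s.nm)) (T.nxt (T.opp (𝔇.s.em 𝔇.s.nm))) (by rw [T.src_opp']; exact pvfw_ball_sub S.hR (S.box_s hin)) (T.sf_nxt _)
  rw [T.src_nxt, T.tgt_nxt, T.tgt_opp, norm_sub_rev] at h1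
  exact h1

/-- **(S-a) THE SCENE FROM THE SEAM**, `K` FREE.      `γ = pvacmGam Tc posc σc (pvwiTau c 0)`, `ts = u1 - nm`, `tt = w2 + np`, `lo`, `hi` = the exits of 49.
THREE NAMED INPUTS: `off` (179: the polygon parts miss `K`), `arc` (10: `K` is an arc along `γ` for every witness far from the two discs), `core` (292, 179: the two continuations stay far from the two discs). -/
theorem pvcsb_scene {N : PvwNum}
    (S : PvfwSeam Tc posc σc T pos σ Rl x R μ0 h c n θ j 𝔇c 𝔇 zs zt τs τt (pvwSq zs (pvwRad N h τs τs.k)) (pvwSq zt (pvwRad N h τt τt.k)) u1 u2 w1 w2)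
    (Geo : PlGeo T pos) (As : 𝔇.s.AtIn pos N h zs τs σ) (At : 𝔇.t.AtOut pos N h zt τt σ) (hρ : 0 ≤ N.rho * h)
    {K Ms Mt : Set ℂ} {fs ft : ℂ} {cc e ρ' ρ'' r η μ Sr ρK : ℝ} (hμ : μ0 ≤ μ)
    -- the fronts
    (hfs : fs ∉ pvwSq zs (pvwRad N h τs τs.k + e)) (hfsy : ‖fs - τs.cm h zs‖ ≤ ρ') (hft : ft ∉ pvwSq zt (pvwRad N h τt τt.k + e)) (hfty : ‖ft - τt.cp h zt‖ ≤ ρ')
    -- the numbers of the mouths (215)
    (hr : 0 ≤ r) (hη : 0 ≤ η) (he : r + 2 * η ≤ e) (hRs : N.rho * h / 4 + μ0 + ρ' ≤ 2 * pvwRad N h τs τs.k + e) (hRt : N.rho * h / 4 + μ0 + ρ' ≤ 2 * pvwRad N h τt τt.k + e)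
    (hc0 : 0 ≤ cc) (hc : N.rho * h / 4 + μ0 + ρ' ≤ cc + e) (h1 : N.rho * h / 4 + μ0 + cc ≤ ρ')
    (hsep : pvwRad N h τs τs.k + pvwRad N h τt τt.k + (N.rho * h / 4 + μ0) + ρ' + (2 * r + 2 * η) < pvtcSup (zt - zs))
    (n1 : 3 * Sr + 5 * r ≤ ρ'' - ρ') (n2 : Sr + 5 * r ≤ ρ'' - N.rho * h / 4) (n3 : 13 * r ≤ ρ'' - ρ')
    -- the discs are well inside the boxes
    (nbs : τs.b * h + (Sr + 8 * r) ≤ pvwRad N h τs τs.k) (nbt : τt.b * h + (Sr + 8 * r) ≤ pvwRad N h τt τt.k)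
    -- the obstacle
    (hKc : IsCompact K) (hKb : K ⊆ closedBall x ρK) (nK1 : 3 / 2 * (ρK + (r + η)) + μ0 < 7 * R / 2) (nK2 : ρK + Sr < 7 * R / 2)
    (m1s : K ∩ closedBall (τs.cm h zs) ρ' ⊆ pvwSq zs (pvwRad N h τs τs.k)) (m1t : K ∩ closedBall (τt.cp h zt) ρ' ⊆ pvwSq zt (pvwRad N h τt τt.k))
    (hMsK : Ms ⊆ K) (hMsc : IsPreconnected Ms) (hMsb : Ms ⊆ pvwSq zs (pvwRad N h τs τs.k)) (hMtK : Mt ⊆ K) (hMtc : IsPreconnected Mt) (hMtb : Mt ⊆ pvwSq zt (pvwRad N h τt τt.k))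
    (gs : ∀ q ∈ K \ (Ms ∪ Mt), ρ'' < ‖q - τs.cm h zs‖) (gt : ∀ q ∈ K \ (Ms ∪ Mt), ρ'' < ‖q - τt.cp h zt‖)
    -- (179)
    (off : ∀ lo hi, lo < u1 - 𝔇c.s.nm → w2 + 𝔇c.t.np < hi → hi < n →
      (∀ k, lo ≤ k → k ≤ hi → (k ≤ u1 - 𝔇c.s.nm ∨ w2 + 𝔇c.t.np ≤ k) → pvacmGam Tc posc σc (pvwiTau c 0) k ∈ closedBall x (6 * R)) →
      Disjoint (pvcsbWt T pos σ 𝔇 (hi - (w2 + 𝔇c.t.np))) K ∧ Disjoint (pvcsbWs T pos σ 𝔇 (u1 - 𝔇c.s.nm - lo)) K)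
    -- (10)
    (arc : ∀ W : Set ℂ, (∀ w ∈ W, τs.b * h + (Sr + 8 * r) < ‖w - zs‖ ∧ τt.b * h + (Sr + 8 * r) < ‖w - zt‖) →
      ∃ u v, PvfrArc (pvacmGam Tc posc σc (pvwiTau c 0)) K W μ (Sr + 8 * r) (u1 - 𝔇c.s.nm) (w2 + 𝔇c.t.np) u v)
    -- (292, 179)
    (core : ∀ k, k ≤ n → (k ≤ u1 - 𝔇c.s.nm ∨ w2 + 𝔇c.t.np ≤ k) →
      τs.b * h + (Sr + 8 * r) + μ < ‖pvacmGam Tc posc σc (pvwiTau c 0) k - zs‖ ∧ τt.b * h + (Sr + 8 * r) + μ < ‖pvacmGam Tc posc σc (pvwiTau c 0) k - zt‖) :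
    ∃ (nt ns : ℂ) (lo hi : ℕ), hi < n ∧
      PvaccScene (pvacmGam Tc posc σc (pvwiTau c 0)) K (Ms ∪ Mt) (pvmuLf (pos 𝔇.t.ap) nt ft cc ∪ pvcsbWt T pos σ 𝔇 (hi - (w2 + 𝔇c.t.np)))
        (pvmuLf (pos 𝔇.s.am) ns fs cc ∪ pvcsbWs T pos σ 𝔇 (u1 - 𝔇c.s.nm - lo)) ft fs r η μ Sr lo (u1 - 𝔇c.s.nm) (w2 + 𝔇c.t.np) hi := by
  obtain ⟨hi, a1, a2, a3, a4, a5⟩ := S.hi_ex
  obtain ⟨lo, b1, b2, b3, b4⟩ := S.lo_ex
  have hγ := S.gam_in b3 b4 a4 a5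
  have hle : u1 - 𝔇c.s.nm ≤ w2 + 𝔇c.t.np := by
    obtain ⟨u, v, ha⟩ := arc ∅ (fun w hw => hw.elim)
    exact pvfr_arc_le ha
  have hγt : ∀ k, w2 + 𝔇c.t.np ≤ k → k ≤ hi → pvacmGam Tc posc σc (pvwiTau c 0) k ∈ closedBall x (6 * R) := fun k h1 h2 => hγ k (by omega) h2 (Or.inr h1)
  have hγs : ∀ k, lo ≤ k → k ≤ u1 - 𝔇c.s.nm → pvacmGam Tc posc σc (pvwiTau c 0) k ∈ closedBall x (6 * R) := fun k h1 h2 => hγ k h1 (by omega) (Or.inl h2)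
  have hmesh : ∀ d f : D, pos (T.src d) ∈ closedBall x (6 * R) → T.SF d f → ‖pos (T.src f) - pos (T.tgt f)‖ ≤ μ := fun d f hd hf => (S.mesh d f hd hf).trans hμ
  have h0 : pvasBW Tc σc (pvwiTau c 0) := S.bw 0
  have hmt := pvcsb_tip_t S (At.stub.ep_in _ le_rfl).1
  have hms := pvcsb_tip_s S (As.stub.em_in _ le_rfl).2
  obtain ⟨nt, hnt, hft'⟩ := pvmu_ht_of_not_mem hft
  obtain ⟨ns, hns, hfs'⟩ := pvmu_ht_of_not_mem hfs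
  obtain ⟨-, -, -, -, ybt, yat⟩ := pvmu_st_side_t At hmt
  obtain ⟨-, -, -, -, ybs, yas⟩ := pvmu_st_side_s As hms
  have he0 : 0 ≤ e := by linarith
  have tri2 : ∀ a f y : ℂ, ∀ α β : ℝ, ‖a - y‖ ≤ α → ‖f - y‖ ≤ β → ‖a - f‖ ≤ α + β := by
    intro a f y α β h1 h2
    have := norm_sub_le_norm_sub_add_norm_sub a y f
    rw [norm_sub_rev y f] at this
    linarith
  have bt : pvmuLf (pos 𝔇.t.ap) nt ft cc ⊆ closedBall (τt.cp h zt) ρ' := pvmu_lf_ball hnt yat hc0 h1 hfty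
  have bs : pvmuLf (pos 𝔇.s.am) ns fs cc ⊆ closedBall (τs.cm h zs) ρ' := pvmu_lf_ball hns yas hc0 h1 hfsy
  have xt : Disjoint (pvmuLf (pos 𝔇.t.ap) nt ft cc) (pvwSq zt (pvwRad N h τt τt.k)) := pvmu_lf_box hnt At.stub.ep_out hft' he0 (tri2 _ _ _ _ _ yat hfty) hRt hc0 hc
  have xs : Disjoint (pvmuLf (pos 𝔇.s.am) ns fs cc) (pvwSq zs (pvwRad N h τs τs.k)) := pvmu_lf_box hns As.stub.em_out hfs' he0 (tri2 _ _ _ _ _ yas hfsy) hRs hc0 hc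
  -- the links are far from the two discs
  have out : ∀ (w z : ℂ) (ρ : ℝ), w ∉ pvwSq z ρ → ρ < ‖w - z‖ := fun w z ρ hw => by
    have h2 := pvtc_pl_sup_le_norm (w - z)
    have h3 : ¬ pvtcSup (w - z) ≤ ρ := fun hh => hw (pvmu_sq_sup.2 hh)
    linarith [not_le.1 h3]
  have lt_core : ∀ w ∈ pvmuLf (pos 𝔇.t.ap) nt ft cc, τs.b * h + (Sr + 8 * r) < ‖w - zs‖ ∧ τt.b * h + (Sr + 8 * r) < ‖w - zt‖ := by
    intro w hw
    refine ⟨?_, ?_⟩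
    · have h2 := pvmu_lf_other (z' := zs) ybt (bt hw)
      have h3 := pvtc_pl_sup_le_norm (w - zs)
      linarith
    · have := out w zt _ (fun hh => Set.disjoint_left.1 xt hw hh)
      linarith
  have ls_core : ∀ w ∈ pvmuLf (pos 𝔇.s.am) ns fs cc, τs.b * h + (Sr + 8 * r) < ‖w - zs‖ ∧ τt.b * h + (Sr + 8 * r) < ‖w - zt‖ := by
    intro w hw
    refine ⟨?_, ?_⟩
    · have := out w zs _ (fun hh => Set.disjoint_left.1 xs hw hh)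
      linarith
    · have h2 := pvmu_lf_other (z' := zt) ybs (bs hw)
      have h3 := pvtc_pl_sup_le_norm (w - zt)
      rw [pvtc_pl_sup_comm zs zt] at h2
      linarith
  have nt' := fun w hw => pvacm_fwd_near (pt := pos 𝔇.t.ap) (x := w) S.loc S.col Geo a1 S.het hγt hmesh hw
  have ns' := fun w hw => pvacm_bwd_near (ps := pos 𝔇.s.am) (x := w) S.loc S.col Geo h0 b1 S.hes hγs hmesh hw
  have sgt : ∀ w, w ∈ segment ℝ (pos 𝔇.t.ap) (pos (T.apex (𝔇.t.ep 𝔇.t.np))) → w = pos 𝔇.t.ap := fun w hw => by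
    rw [show pos (T.apex (𝔇.t.ep 𝔇.t.np)) = pos 𝔇.t.ap from rfl, segment_same] at hw
    exact Set.mem_singleton_iff.1 hw
  have sgs : ∀ w, w ∈ segment ℝ (pos 𝔇.s.am) (pos (T.apex (T.opp (𝔇.s.em 𝔇.s.nm)))) → w = pos 𝔇.s.am := fun w hw => by
    rw [show pos (T.apex (T.opp (𝔇.s.em 𝔇.s.nm))) = pos 𝔇.s.am from rfl, segment_same] at hw
    exact Set.mem_singleton_iff.1 hw
  have tri : ∀ (g w z : ℂ) (c : ℝ), ‖w - g‖ ≤ μ → c + μ < ‖g - z‖ → c < ‖w - z‖ := by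
    intro g w z c h1 h2
    have h4 := norm_sub_le_norm_sub_add_norm_sub g w z
    rw [norm_sub_rev g w] at h4
    linarith
  obtain ⟨o1, o2⟩ := off lo hi b1 a1 a2 hγ
  obtain ⟨a0, b0, c0, d0', hKr, hft2, hfs2⟩ := S.far (r := r) (η := η) hKb nK1 b2 (hγs lo le_rfl b1.le) a3 (hγt hi a1.le le_rfl)
  refine ⟨nt, ns, lo, hi, a2, pvmu_df_scene (γ := pvacmGam Tc posc σc (pvwiTau c 0)) (ρ'' := ρ'') As At hms hmt hρ hns hfs' hfsy hnt hft' hfty hr hη he hRs hRt hc0 hc h1 hsep n1 n2 n3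
    hKc m1s m1t hMsK hMsc hMsb hMtK hMtc hMtb gs gt (pvacm_W_conn _ _ _ _ _ _) (pvacm_W_compact _ _ _ _ _ _) o1 (pvacm_front_mem _ _ _ _ _ _) ?_
    (pvacm_W_conn _ _ _ _ _ _) (pvacm_W_compact _ _ _ _ _ _) o2 (pvacm_front_mem _ _ _ _ _ _) ?_
    ⟨a0, b0, c0, d0', hKr, ⟨_, pvacm_mid_mem T pos σ (𝔇.t.ep 𝔇.t.np) _ (l := hi - (w2 + 𝔇c.t.np)) (by omega) le_rfl, ?_⟩,
      _, pvacm_mid_mem T pos (pvasNot σ) (T.opp (𝔇.s.em 𝔇.s.nm)) _ (l := u1 - 𝔇c.s.nm - lo) (by omega) le_rfl, ?_⟩ (arc _ ?_)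
    (pvacm_twin_src S.loc S.het).symm (pvacm_twin_src S.loc S.hes).symm (S.lo_far hKb nK2 b2) b1.le a1.le⟩
  · intro w hw
    rcases nt' w hw with hh | ⟨k, c1, c2, c3⟩
    · right
      intro q hq
      rw [sgt w hh]
      have g1 := gt q hq
      have g2 := norm_sub_le_norm_sub_add_norm_sub q (pos 𝔇.t.ap) (τt.cp h zt)
      rw [norm_sub_rev q (pos 𝔇.t.ap)] at g2
      linarith
    · exact Or.inl ⟨k, ⟨c1, c2.le⟩, c3⟩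
  · intro w hw
    rcases ns' w hw with hh | ⟨k, c1, c2, c3⟩
    · right
      intro q hq
      rw [sgs w hh]
      have g1 := gs q hq
      have g2 := norm_sub_le_norm_sub_add_norm_sub q (pos 𝔇.s.am) (τs.cm h zs)
      rw [norm_sub_rev q (pos 𝔇.s.am)] at g2
      linarith
    · exact Or.inl ⟨k, ⟨c1.le, c2⟩, c3⟩
  · have tw := pvacm_twin_it S.loc.loc S.col S.het (N := hi - (w2 + 𝔇c.t.np)) (fun l hl => (pvacm_shared S.loc (hγt (w2 + 𝔇c.t.np + l) (by omega) (by omega))).1) (hi - (w2 + 𝔇c.t.np)) le_rfl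
    rw [pvacm_twin_mid S.loc tw, Nat.add_sub_cancel' a1.le]
    exact hft2
  · have he' : Rl (Tc.opp (pvasIt Tc σc (pvwiTau c 0) (u1 - 𝔇c.s.nm))) (T.opp (𝔇.s.em 𝔇.s.nm)) := pvlw_opp S.loc S.hes (Or.inl (hγs _ b1.le le_rfl))
    have tw := pvacm_twin_rev S.loc.loc S.col h0 (N := u1 - 𝔇c.s.nm - lo) (Nat.sub_le _ _) he' (fun l hl => (pvacm_shared S.loc (hγs (u1 - 𝔇c.s.nm - l) (by omega) (by omega))).2) (u1 - 𝔇c.s.nm - lo) le_rfl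
    rw [pvacm_twin_mid S.loc tw, pvfb_mid_opp, Nat.sub_sub_self b1.le]
    exact hfs2
  · rintro w ((hw | hw) | (hw | hw))
    · exact lt_core w hw
    · rcases nt' w hw with hh | ⟨k, c1, c2, c3⟩
      · rw [sgt w hh]; exact lt_core _ (pvmu_lf_apex _ _ _ _)
      · obtain ⟨e1, e2⟩ := core k (by omega) (Or.inr c1)
        exact ⟨tri _ _ _ _ c3 e1, tri _ _ _ _ c3 e2⟩
    · exact ls_core w hw
    · rcases ns' w hw with hh | ⟨k, c1, c2, c3⟩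
      · rw [sgs w hh]; exact ls_core _ (pvmu_lf_apex _ _ _ _)
      · obtain ⟨e1, e2⟩ := core k (by omega) (Or.inl c2)
        exact ⟨tri _ _ _ _ c3 e1, tri _ _ _ _ c3 e2⟩

end seam

end Claimed.Agent.R289
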