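import Claimed.Agent.R289.Tr.N1

/-!
# Row 289 (S0537), box TR, chapter A of TR_295.md : THE ABSTRACT ENGINE, DEF A0 + TR1 TR2 TR3 TR3'      (author helper175; prefix `pvtc`, `PvtcSys`)

Model free (Mathlib + `Tr/N1.lean`).  Language: the PRODUCT SPACE `ι → T` with the law `Measure.pi ν` (`ι` finite = index of the windows; in the model `T = Conf E`,
`ν i = μ.map (Conf.restr (O i))`, and `IsPpp.map_restr_pi` of 256 says that `η ↦ (i ↦ restr (O i) η)` has this law: the instance is one `lintegral_map`, see `Ok.n1_map`).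
"Integrate the inner variables `C` at `x`" is `∫ F (pvtMix C x y) dP(y)` over an independent FULL copy `y` (same shape as `Conf.spl`): no subtypes, no `lmarginal`.

* §0 `PvtcRS P r` : a RESAMPLING (`(P × P).map r = P`);  `pvtcMean P r W Y x = ∫ Y(r(x,y)) W(r(x,y)) dP(y)` (for `r = Conf.spl O` this IS `pvtiMean` of 141);
  **`pvtc_n1`, `pvtc_n1_D`** = TR3 abstract: `∫_B ‖X + mean‖^n ≤ ∫_B W ‖X + Y‖^n ≤ D ∫_{B ∩ S} ‖X + Y‖^n`, any exponent, any Banach space, no integrability hypothesis.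
* §1 `pvtc_mix_rs` (resampling coordinates preserves the product law), `pvtc_lintegral_prod` (product formula).
* §2 **DEF A0** `PvtcSys ι T E` (`ν G src tgt A X`) : any finite GRAPH of plugs and connectors, not only a chain;  `tri p w g W D good ends law Y y I Kout Kin K mean`;  hypotheses `PvtcSys.Ok Cu Cf q`.
* **TR1** `Ok.lintegral_W` (`∫ W_c = 1` on `G_t × G_s`; no peeling: given the plugs the seeds are independent, product formula), `Ok.W_le` (`W_c ≤ D_c 1_good`).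
* **TR2** `Ok.lintegral_conn`, `Ok.lintegral_plug`, `Ok.lintegral_W_mul` (two-plug marginal, `ℝ≥0∞`), `Ok.map_tri` (measure form), `Ok.integral_X`, `Ok.mean_eq`, `Ok.y_eq` (`y_c = ∑_e mean_e`),
  `IsChain`, `Ok.y_chain` (`kout + ∑ k + kin`; `u 0 = u n` allowed), `Ok.ae_integrable`.
* **TR3** `Ok.n1`, **TR3'** `Ok.n1_cycle`, `Ok.n1_map` (abstract probability space with independent coordinates), `y_mix`, `y'`, `Ok.y_eq_y'`, `Ok.stronglyMeasurable_y'`.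
-/

set_option autoImplicit false
set_option linter.unusedSectionVars false

namespace Claimed.Agent.R289

open MeasureTheory ProbabilityTheory Set
open scoped ENNReal NNReal

/-! ## 0. resampling: the weighted form of N1 (TR3, abstract) -/

section RS

variable {Ω : Type*} [MeasurableSpace Ω]
variable {E : Type*} [NormedAddCommGroup E] [NormedSpace ℝ E]

/-- a RESAMPLING of `(Ω, P)`: `r (x, y)` keeps a part of `x` and takes the rest from the independent copy `y`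
(product space: `pvtMix C`; Poisson process: `Conf.spl O`) -/
structure PvtcRS (P : Measure Ω) (r : Ω × Ω → Ω) : Prop where
  meas : Measurable r
  law : (P.prod P).map r = P

/-- the mean of `Y` under the weight `W`, given the part of `x` that is kept -/
noncomputable def pvtcMean (P : Measure Ω) (r : Ω × Ω → Ω) (W : Ω → ℝ≥0∞) (Y : Ω → E) (x : Ω) : E :=
  ∫ y, Y (r (x, y)) ∂(P.withDensity fun y => W (r (x, y)))

theorem PvtcRS.lintegral {P : Measure Ω} [SFinite P] {r : Ω × Ω → Ω} (hr : PvtcRS P r) {H : Ω → ℝ≥0∞} (hH : Measurable H) :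
    ∫⁻ x, ∫⁻ y, H (r (x, y)) ∂P ∂P = ∫⁻ x, H x ∂P := by
  conv_rhs => rw [← hr.law]
  have hm : Measurable fun z : Ω × Ω => H (r z) := hH.comp hr.meas
  rw [lintegral_map hH hr.meas, lintegral_prod _ hm.aemeasurable]

variable [CompleteSpace E]

/-- Jensen at a fixed `x` -/
theorem pvtc_jensen (P : Measure Ω) {r : Ω × Ω → Ω} (hr : Measurable r) (n : ℕ) {Y : Ω → E} (hY : StronglyMeasurable Y)
    {W : Ω → ℝ≥0∞} (hW : Measurable W) (x : Ω) (h1 : ∫⁻ y, W (r (x, y)) ∂P = 1) (a : E) :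
    ‖a + pvtcMean P r W Y x‖ₑ ^ n ≤ ∫⁻ y, W (r (x, y)) * ‖a + Y (r (x, y))‖ₑ ^ n ∂P := by
  have hrx : Measurable fun y => r (x, y) := hr.comp measurable_prodMk_left
  have hWx : Measurable fun y => W (r (x, y)) := hW.comp hrx
  have hYx : StronglyMeasurable fun y => Y (r (x, y)) := hY.comp_measurable hrx
  have hp : IsProbabilityMeasure (P.withDensity fun y => W (r (x, y))) := ⟨by
    rw [withDensity_apply _ MeasurableSet.univ, Measure.restrict_univ, h1]⟩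
  have h := pvt_n1_shift (P.withDensity fun y => W (r (x, y))) n hYx.aestronglyMeasurable a
  rw [measure_univ, one_mul, average_eq_integral] at h
  refine h.trans (le_of_eq ?_)
  have hm : Measurable fun y => ‖a + Y (r (x, y))‖ₑ ^ n := (stronglyMeasurable_const.add hYx).enorm.pow_const n
  rw [lintegral_withDensity_eq_lintegral_mul _ hWx hm]
  rfl

/-- **TR3, abstract (weighted N1)**: `X`, `B` are not touched by the resampling, `∫ W = 1` given the kept part, on `B`. -/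
theorem pvtc_n1 {P : Measure Ω} [SFinite P] {r : Ω × Ω → Ω} (hr : PvtcRS P r) (n : ℕ)
    {B : Set Ω} (hB : MeasurableSet B) (hBr : ∀ x y, r (x, y) ∈ B ↔ x ∈ B)
    {X : Ω → E} (hX : StronglyMeasurable X) (hXr : ∀ x y, X (r (x, y)) = X x)
    {Y : Ω → E} (hY : StronglyMeasurable Y) {W : Ω → ℝ≥0∞} (hW : Measurable W)
    (h1 : ∀ x ∈ B, ∫⁻ y, W (r (x, y)) ∂P = 1) :
    ∫⁻ x in B, ‖X x + pvtcMean P r W Y x‖ₑ ^ n ∂P ≤ ∫⁻ x in B, W x * ‖X x + Y x‖ₑ ^ n ∂P := by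
  have hH : Measurable (B.indicator fun x => W x * ‖X x + Y x‖ₑ ^ n) :=
    (hW.mul ((hX.add hY).enorm.pow_const n)).indicator hB
  rw [← lintegral_indicator hB, ← lintegral_indicator hB, ← hr.lintegral hH]
  refine lintegral_mono fun x => ?_
  by_cases hx : x ∈ B
  · rw [indicator_of_mem hx]
    refine (pvtc_jensen P hr.meas n hY hW x (h1 x hx) (X x)).trans (le_of_eq ?_)
    refine lintegral_congr fun y => ?_
    rw [indicator_of_mem ((hBr x y).2 hx), hXr]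
  · rw [indicator_of_notMem hx]; exact zero_le

/-- **TR3, abstract, with the bound `W ≤ D 1_S`** -/
theorem pvtc_n1_D {P : Measure Ω} [SFinite P] {r : Ω × Ω → Ω} (hr : PvtcRS P r) (n : ℕ)
    {B : Set Ω} (hB : MeasurableSet B) (hBr : ∀ x y, r (x, y) ∈ B ↔ x ∈ B)
    {X : Ω → E} (hX : StronglyMeasurable X) (hXr : ∀ x y, X (r (x, y)) = X x)
    {Y : Ω → E} (hY : StronglyMeasurable Y) {W : Ω → ℝ≥0∞} (hW : Measurable W)
    (h1 : ∀ x ∈ B, ∫⁻ y, W (r (x, y)) ∂P = 1)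
    {S : Set Ω} (hS : MeasurableSet S) (D : ℝ≥0∞) (hD : ∀ x ∈ B, W x ≤ S.indicator (fun _ => D) x) :
    ∫⁻ x in B, ‖X x + pvtcMean P r W Y x‖ₑ ^ n ∂P ≤ D * ∫⁻ x in B ∩ S, ‖X x + Y x‖ₑ ^ n ∂P := by
  refine (pvtc_n1 hr n hB hBr hX hXr hY hW h1).trans ?_
  have hm : Measurable fun x => ‖X x + Y x‖ₑ ^ n := (hX.add hY).enorm.pow_const n
  rw [← lintegral_const_mul _ hm, inter_comm, ← Measure.restrict_restrict hS, ← lintegral_indicator hS]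
  refine setLIntegral_mono' hB fun x hx => ?_
  by_cases hs : x ∈ S
  · rw [indicator_of_mem hs]
    have := hD x hx
    rw [indicator_of_mem hs] at this
    exact mul_le_mul_left this _
  · have := hD x hx
    rw [indicator_of_notMem hs] at this
    rw [indicator_of_notMem hs, nonpos_iff_eq_zero.1 this, zero_mul]

end RS

/-! ## 1. the product space `ι → T` -/

section Pi

variable {ι : Type*} [DecidableEq ι] {T : Type*} [MeasurableSpace T]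

theorem pvtc_measurable_mix (C : Finset ι) : Measurable fun p : (ι → T) × (ι → T) => pvtMix C p.1 p.2 := by
  refine measurable_pi_lambda _ fun i => ?_
  by_cases h : i ∈ C
  · simp only [pvtMix, h, if_true]; exact (measurable_pi_apply i).comp measurable_snd
  · simp only [pvtMix, h, if_false]; exact (measurable_pi_apply i).comp measurable_fst

theorem pvtc_measurable_mix_right (C : Finset ι) (x : ι → T) : Measurable fun y : ι → T => pvtMix C x y :=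
  (pvtc_measurable_mix C).comp measurable_prodMk_left

variable [Fintype ι]

/-- **resampling the coordinates in `C` preserves the product law** -/
theorem pvtc_mix_rs (ν : ι → Measure T) [∀ i, IsProbabilityMeasure (ν i)] (C : Finset ι) :
    PvtcRS (Measure.pi ν) fun p => pvtMix C p.1 p.2 := by
  refine ⟨pvtc_measurable_mix C, ?_⟩
  symm
  refine Measure.pi_eq fun s hs => ?_
  rw [Measure.map_apply (pvtc_measurable_mix C) (MeasurableSet.univ_pi hs)]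
  have e : (fun p : (ι → T) × (ι → T) => pvtMix C p.1 p.2) ⁻¹' (Set.pi univ s)
      = (Set.pi univ fun i => if i ∈ C then univ else s i) ×ˢ (Set.pi univ fun i => if i ∈ C then s i else univ) := by
    ext p
    simp only [mem_preimage, Set.mem_pi, mem_univ, true_imp_iff, mem_prod, pvtMix]
    constructor
    · intro h
      refine ⟨fun i => ?_, fun i => ?_⟩
      · by_cases hi : i ∈ C
        · simp [hi]
        · have := h i; simpa [hi] using this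
      · by_cases hi : i ∈ C
        · have := h i; simpa [hi] using this
        · simp [hi]
    · rintro ⟨h1, h2⟩ i
      by_cases hi : i ∈ C
      · have := h2 i; simpa [hi] using this
      · have := h1 i; simpa [hi] using this
  rw [e, Measure.prod_prod, Measure.pi_pi, Measure.pi_pi, ← Finset.prod_mul_distrib]
  refine Finset.prod_congr rfl fun i _ => ?_
  by_cases h : i ∈ C <;> simp [h]

/-- **product formula** -/
theorem pvtc_lintegral_prod (ν : ι → Measure T) [∀ i, IsProbabilityMeasure (ν i)] (s : Finset ι) (f : ι → T → ℝ≥0∞)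
    (hf : ∀ i, Measurable (f i)) :
    ∫⁻ y, ∏ i ∈ s, f i (y i) ∂(Measure.pi ν) = ∏ i ∈ s, ∫⁻ t, f i t ∂(ν i) := by
  rw [lintegral_prod_eq_prod_lintegral_of_indepFun s (fun i (y : ι → T) => f i (y i))
    (iIndepFun_pi fun i => (hf i).aemeasurable) fun i => (hf i).comp (measurable_pi_apply i)]
  refine Finset.prod_congr rfl fun i _ => ?_
  exact (measurePreserving_eval ν i).lintegral_comp (hf i)

end Pi

/-! ## 2. DEF A0: systems of plugs and connectors -/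

/-- **DEF A0.**  The coordinates `i : ι` of the product space `ι → T` are independent with laws `ν i`.  Some of them are PLUGS (`G u` = usable states),
some are CONNECTORS `e : src e → tgt e` (`A e`, `X e` are read from the triple `(σ_src, ξ_e, σ_tgt)`). -/
structure PvtcSys (ι : Type*) (T : Type*) (E : Type*) [MeasurableSpace T] where
  ν : ι → Measure T
  G : ι → Set T
  src : ι → ι
  tgt : ι → ι
  A : ι → Set (T × T × T)
  X : ι → T × T × T → E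

namespace PvtcSys

variable {ι : Type*} {T : Type*} {E : Type*} [MeasurableSpace T] (𝔖 : PvtcSys ι T E)

/-- the triple read by the connector `e` -/
def tri (e : ι) (x : ι → T) : T × T × T := (x (𝔖.src e), x e, x (𝔖.tgt e))

/-- `p_e(σ, σ')` : the success probability given the two states (a product integral) -/
noncomputable def p (e : ι) (σ σ' : T) : ℝ≥0∞ := 𝔖.ν e {ξ | (σ, ξ, σ') ∈ 𝔖.A e}

/-- `w_e = 1_{A_e} / p_e` -/
noncomputable def w (e : ι) (z : T × T × T) : ℝ≥0∞ := (𝔖.A e).indicator (fun z => (𝔖.p e z.1 z.2.2)⁻¹) z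

/-- `1_{G_u} / ν(G_u)` -/
noncomputable def g (u : ι) (σ : T) : ℝ≥0∞ := (𝔖.G u).indicator (fun _ => (𝔖.ν u (𝔖.G u))⁻¹) σ

/-- **the cycle weight** of the inner plugs `Cu` and the connectors `Cf` -/
noncomputable def W (Cu Cf : Finset ι) (x : ι → T) : ℝ≥0∞ := (∏ u ∈ Cu, 𝔖.g u (x u)) * ∏ e ∈ Cf, 𝔖.w e (𝔖.tri e x)

/-- its bound -/
noncomputable def D (Cu Cf : Finset ι) (q : ι → ℝ≥0∞) : ℝ≥0∞ := (∏ u ∈ Cu, (𝔖.ν u (𝔖.G u))⁻¹) * ∏ e ∈ Cf, (q e)⁻¹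

/-- "all `A_f`, all inner `G`" -/
def good (Cu Cf : Finset ι) : Set (ι → T) := {x | (∀ u ∈ Cu, x u ∈ 𝔖.G u) ∧ ∀ e ∈ Cf, 𝔖.tri e x ∈ 𝔖.A e}

/-- "the outer plugs are usable" (`G_t × G_s`) -/
def ends (Cu Cf : Finset ι) : Set (ι → T) :=
  {x | ∀ e ∈ Cf, (𝔖.src e ∉ Cu → x (𝔖.src e) ∈ 𝔖.G (𝔖.src e)) ∧ (𝔖.tgt e ∉ Cu → x (𝔖.tgt e) ∈ 𝔖.G (𝔖.tgt e))}

/-- the product law -/
noncomputable def law [Fintype ι] : Measure (ι → T) := Measure.pi 𝔖.ν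

section vec
variable [NormedAddCommGroup E] [NormedSpace ℝ E]

/-- `Y_c = ∑ X_f` -/
def Y (Cf : Finset ι) (x : ι → T) : E := ∑ e ∈ Cf, 𝔖.X e (𝔖.tri e x)

/-- `y_c = ∫ Y_c W_c d(inner variables)` -/
noncomputable def y [Fintype ι] [DecidableEq ι] (Cu Cf : Finset ι) (x : ι → T) : E :=
  pvtcMean 𝔖.law (fun p => pvtMix (Cu ∪ Cf) p.1 p.2) (𝔖.W Cu Cf) (𝔖.Y Cf) x

/-- `i_e(σ, σ') = ∫ X_e w_e dξ_e` -/
noncomputable def I (e : ι) (σ σ' : T) : E := ⨍ ξ in {ξ | (σ, ξ, σ') ∈ 𝔖.A e}, 𝔖.X e (σ, ξ, σ') ∂(𝔖.ν e)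

/-- `kout_e(σ) = ∫ i_e(σ, ·) dμ_{tgt e}` -/
noncomputable def Kout (e : ι) (σ : T) : E := ⨍ σ' in 𝔖.G (𝔖.tgt e), 𝔖.I e σ σ' ∂(𝔖.ν (𝔖.tgt e))

/-- `kin_e(σ') = ∫ i_e(·, σ') dμ_{src e}` -/
noncomputable def Kin (e : ι) (σ' : T) : E := ⨍ σ in 𝔖.G (𝔖.src e), 𝔖.I e σ σ' ∂(𝔖.ν (𝔖.src e))

/-- `k_e = ∫∫ i_e` -/
noncomputable def K (e : ι) : E := ⨍ σ in 𝔖.G (𝔖.src e), 𝔖.Kout e σ ∂(𝔖.ν (𝔖.src e))

/-- the contribution of the connector `e` to `y_c` -/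
noncomputable def mean [DecidableEq ι] (Cu : Finset ι) (e : ι) (x : ι → T) : E :=
  if 𝔖.src e ∈ Cu then (if 𝔖.tgt e ∈ Cu then 𝔖.K e else 𝔖.Kin e (x (𝔖.tgt e)))
  else (if 𝔖.tgt e ∈ Cu then 𝔖.Kout e (x (𝔖.src e)) else 𝔖.I e (x (𝔖.src e)) (x (𝔖.tgt e)))

end vec

/-- the standing hypotheses: measurability, distinctness, all connectors of `Cf` FORCED with constants `q e` -/
structure Ok [TopologicalSpace E] (Cu Cf : Finset ι) (q : ι → ℝ≥0∞) : Prop where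
  prob : ∀ i, IsProbabilityMeasure (𝔖.ν i)
  G_meas : ∀ i, MeasurableSet (𝔖.G i)
  A_meas : ∀ e, MeasurableSet (𝔖.A e)
  X_meas : ∀ e, StronglyMeasurable (𝔖.X e)
  disj : Disjoint Cu Cf
  src_nmem : ∀ e ∈ Cf, 𝔖.src e ∉ Cf
  tgt_nmem : ∀ e ∈ Cf, 𝔖.tgt e ∉ Cf
  G_pos : ∀ u ∈ Cu, 𝔖.ν u (𝔖.G u) ≠ 0
  q_pos : ∀ e ∈ Cf, q e ≠ 0
  forced : ∀ e ∈ Cf, ∀ σ ∈ 𝔖.G (𝔖.src e), ∀ σ' ∈ 𝔖.G (𝔖.tgt e), q e ≤ 𝔖.p e σ σ'

end PvtcSys

theorem pvtcy_eqns_cite : True := by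
  have := @pvtcMean.eq_1.{0, 0}
  have := @PvtcSys.tri.eq_1.{0, 0, 0}
  have := @PvtcSys.p.eq_1.{0, 0, 0}
  have := @PvtcSys.w.eq_1.{0, 0, 0}
  have := @PvtcSys.g.eq_1.{0, 0, 0}
  have := @PvtcSys.W.eq_1.{0, 0, 0}
  have := @PvtcSys.D.eq_1.{0, 0, 0}
  have := @PvtcSys.good.eq_1.{0, 0, 0}
  have := @PvtcSys.ends.eq_1.{0, 0, 0}
  have := @PvtcSys.law.eq_1.{0, 0, 0}
  have := @PvtcSys.Y.eq_1.{0, 0, 0}
  have := @PvtcSys.y.eq_1.{0, 0, 0}
  have := @PvtcSys.I.eq_1.{0, 0, 0}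
  have := @PvtcSys.Kout.eq_1.{0, 0, 0}
  have := @PvtcSys.Kin.eq_1.{0, 0, 0}
  have := @PvtcSys.K.eq_1.{0, 0, 0}
  have := @PvtcSys.mean.eq_1.{0, 0, 0}
  trivial

namespace PvtcSys

variable {ι : Type*} {T : Type*} {E : Type*} [MeasurableSpace T] {𝔖 : PvtcSys ι T E}

/-! ### measurability -/

theorem measurable_tri (𝔖 : PvtcSys ι T E) (e : ι) : Measurable (𝔖.tri e) :=
  (measurable_pi_apply _).prodMk ((measurable_pi_apply _).prodMk (measurable_pi_apply _))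

section ok

variable [NormedAddCommGroup E] [NormedSpace ℝ E] {Cu Cf : Finset ι} {q : ι → ℝ≥0∞}

theorem Ok.measurable_p (h : 𝔖.Ok Cu Cf q) (e : ι) : Measurable fun z : T × T => 𝔖.p e z.1 z.2 := by
  have := h.prob e
  have hm : Measurable fun a : (T × T) × T => ((a.1.1, a.2, a.1.2) : T × T × T) := by fun_prop
  exact measurable_measure_prodMk_left (hm (h.A_meas e))

theorem Ok.measurable_w (h : 𝔖.Ok Cu Cf q) (e : ι) : Measurable (𝔖.w e) := by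
  have hm : Measurable fun z : T × T × T => ((z.1, z.2.2) : T × T) := by fun_prop
  exact (((h.measurable_p e).comp hm).inv).indicator (h.A_meas e)

theorem Ok.measurable_g (h : 𝔖.Ok Cu Cf q) (u : ι) : Measurable (𝔖.g u) :=
  measurable_const.indicator (h.G_meas u)

theorem Ok.measurable_W (h : 𝔖.Ok Cu Cf q) (Cu' Cf' : Finset ι) : Measurable (𝔖.W Cu' Cf') :=
  (Finset.measurable_prod _ fun u _ => (h.measurable_g u).comp (measurable_pi_apply u)).mul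
    (Finset.measurable_prod _ fun e _ => (h.measurable_w e).comp (𝔖.measurable_tri e))

theorem Ok.stronglyMeasurable_Y (h : 𝔖.Ok Cu Cf q) (Cf' : Finset ι) : StronglyMeasurable (𝔖.Y Cf') :=
  Finset.stronglyMeasurable_fun_sum _ fun e _ => (h.X_meas e).comp_measurable (𝔖.measurable_tri e)

theorem Ok.measurableSet_good (h : 𝔖.Ok Cu Cf q) (Cu' Cf' : Finset ι) : MeasurableSet (𝔖.good Cu' Cf') := by
  have e : 𝔖.good Cu' Cf' = (⋂ u ∈ Cu', (fun x : ι → T => x u) ⁻¹' 𝔖.G u) ∩ ⋂ e ∈ Cf', 𝔖.tri e ⁻¹' 𝔖.A e := by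
    ext x; simp [good]
  rw [e]
  exact (Finset.measurableSet_biInter _ fun u _ => measurable_pi_apply u (h.G_meas u)).inter
    (Finset.measurableSet_biInter _ fun e _ => 𝔖.measurable_tri e (h.A_meas e))

/-! ### TR1 (b): the bound -/

theorem W_eq_zero_of_notMem_good (𝔖 : PvtcSys ι T E) (Cu Cf : Finset ι) {x : ι → T} (hx : x ∉ 𝔖.good Cu Cf) : 𝔖.W Cu Cf x = 0 := by
  simp only [good, mem_ofPred_eq, not_and_or, not_forall] at hx
  rcases hx with ⟨u, hu, hux⟩ | ⟨e, he, hex⟩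
  · rw [W, Finset.prod_eq_zero hu (by rw [g, indicator_of_notMem hux]), zero_mul]
  · rw [W, Finset.prod_eq_zero he (by rw [w, indicator_of_notMem hex]), mul_zero]

/-- on `good ∩ ends` every plug met by a connector is usable -/
theorem mem_G_of_good {Cu Cf : Finset ι} {x : ι → T} (hg : x ∈ 𝔖.good Cu Cf) (he : x ∈ 𝔖.ends Cu Cf) {e : ι} (hef : e ∈ Cf) :
    x (𝔖.src e) ∈ 𝔖.G (𝔖.src e) ∧ x (𝔖.tgt e) ∈ 𝔖.G (𝔖.tgt e) := by
  classical
  refine ⟨?_, ?_⟩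
  · by_cases h : 𝔖.src e ∈ Cu
    · exact hg.1 _ h
    · exact (he e hef).1 h
  · by_cases h : 𝔖.tgt e ∈ Cu
    · exact hg.1 _ h
    · exact (he e hef).2 h

/-- **TR1 (b)**: `0 ≤ W_c ≤ D_c 1{all A_f, all inner G}` on `G_t × G_s` -/
theorem Ok.W_le (h : 𝔖.Ok Cu Cf q) {x : ι → T} (hx : x ∈ 𝔖.ends Cu Cf) :
    𝔖.W Cu Cf x ≤ (𝔖.good Cu Cf).indicator (fun _ => 𝔖.D Cu Cf q) x := by
  by_cases hg : x ∈ 𝔖.good Cu Cf
  · rw [indicator_of_mem hg, W, D]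
    refine mul_le_mul' (Finset.prod_le_prod' fun u hu => ?_) (Finset.prod_le_prod' fun e he => ?_)
    · rw [g, indicator_of_mem (hg.1 u hu)]
    · rw [w, indicator_of_mem (hg.2 e he)]
      exact ENNReal.inv_le_inv.2 (h.forced e he _ (mem_G_of_good hg hx he).1 _ (mem_G_of_good hg hx he).2)
  · rw [W_eq_zero_of_notMem_good 𝔖 Cu Cf hg]; exact zero_le

end ok

end PvtcSys

namespace PvtcSys

variable {ι : Type*} [Fintype ι] [DecidableEq ι] {T : Type*} {E : Type*} [MeasurableSpace T] {𝔖 : PvtcSys ι T E}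
variable [NormedAddCommGroup E] [NormedSpace ℝ E] {Cu Cf : Finset ι} {q : ι → ℝ≥0∞}

/-- `ψ_e(σ, σ') = ∫ w_e φ dξ_e` -/
noncomputable def psi (𝔖 : PvtcSys ι T E) (φ : ι → T × T × T → ℝ≥0∞) (e : ι) (σ σ' : T) : ℝ≥0∞ :=
  ∫⁻ ξ, 𝔖.w e (σ, ξ, σ') * φ e (σ, ξ, σ') ∂(𝔖.ν e)

theorem Ok.mix_plug (h : 𝔖.Ok Cu Cf q) (x y y' : ι → T) {u : ι} (hu : u ∈ Cu) :
    pvtMix (Cu ∪ Cf) x (pvtMix Cf y y') u = y u := by
  have h1 : u ∉ Cf := Finset.disjoint_left.1 h.disj hu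
  simp [pvtMix, hu, h1]

theorem Ok.mix_off (_h : 𝔖.Ok Cu Cf q) (x y y' : ι → T) {i : ι} (hi : i ∉ Cf) :
    pvtMix (Cu ∪ Cf) x (pvtMix Cf y y') i = pvtMix Cu x y i := by
  by_cases h1 : i ∈ Cu <;> simp [pvtMix, hi, h1]

theorem Ok.mix_conn (_h : 𝔖.Ok Cu Cf q) (x y y' : ι → T) {e : ι} (he : e ∈ Cf) :
    pvtMix (Cu ∪ Cf) x (pvtMix Cf y y') e = y' e := by
  simp [pvtMix, he]

theorem Ok.tri_mix (h : 𝔖.Ok Cu Cf q) (x y y' : ι → T) {e : ι} (he : e ∈ Cf) :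
    𝔖.tri e (pvtMix (Cu ∪ Cf) x (pvtMix Cf y y')) = (pvtMix Cu x y (𝔖.src e), y' e, pvtMix Cu x y (𝔖.tgt e)) := by
  rw [tri, h.mix_off x y y' (h.src_nmem e he), h.mix_off x y y' (h.tgt_nmem e he), h.mix_conn x y y' he]

/-- **integration of the connectors given the plugs** (Fubini + product formula; no peeling) -/
theorem Ok.lintegral_conn (h : 𝔖.Ok Cu Cf q) (x : ι → T) {φ : ι → T × T × T → ℝ≥0∞} (hφ : ∀ e, Measurable (φ e)) :
    ∫⁻ y, (∏ u ∈ Cu, 𝔖.g u (pvtMix (Cu ∪ Cf) x y u)) *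
        ∏ e ∈ Cf, (𝔖.w e (𝔖.tri e (pvtMix (Cu ∪ Cf) x y)) * φ e (𝔖.tri e (pvtMix (Cu ∪ Cf) x y))) ∂𝔖.law
      = ∫⁻ y, (∏ u ∈ Cu, 𝔖.g u (y u)) *
        ∏ e ∈ Cf, 𝔖.psi φ e (pvtMix Cu x y (𝔖.src e)) (pvtMix Cu x y (𝔖.tgt e)) ∂𝔖.law := by
  have := h.prob
  have hmx := pvtc_measurable_mix_right (T := T) (Cu ∪ Cf) x
  have hH : Measurable fun y : ι → T => (∏ u ∈ Cu, 𝔖.g u (pvtMix (Cu ∪ Cf) x y u)) *
        ∏ e ∈ Cf, (𝔖.w e (𝔖.tri e (pvtMix (Cu ∪ Cf) x y)) * φ e (𝔖.tri e (pvtMix (Cu ∪ Cf) x y))) :=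
    (Finset.measurable_prod _ fun u _ => (h.measurable_g u).comp ((measurable_pi_apply u).comp hmx)).mul
      (Finset.measurable_prod _ fun e _ => ((h.measurable_w e).comp ((𝔖.measurable_tri e).comp hmx)).mul
        ((hφ e).comp ((𝔖.measurable_tri e).comp hmx)))
  rw [law, ← (pvtc_mix_rs 𝔖.ν Cf).lintegral hH]
  refine lintegral_congr fun y => ?_
  obtain ⟨F, hF0⟩ : ∃ F : ι → T → ℝ≥0∞, ∀ e ξ, F e ξ = 𝔖.w e (pvtMix Cu x y (𝔖.src e), ξ, pvtMix Cu x y (𝔖.tgt e)) *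
          φ e (pvtMix Cu x y (𝔖.src e), ξ, pvtMix Cu x y (𝔖.tgt e)) := ⟨_, fun _ _ => rfl⟩
  have e1 : ∀ y' : ι → T, (∏ u ∈ Cu, 𝔖.g u (pvtMix (Cu ∪ Cf) x (pvtMix Cf y y') u)) *
        ∏ e ∈ Cf, (𝔖.w e (𝔖.tri e (pvtMix (Cu ∪ Cf) x (pvtMix Cf y y'))) * φ e (𝔖.tri e (pvtMix (Cu ∪ Cf) x (pvtMix Cf y y'))))
      = (∏ u ∈ Cu, 𝔖.g u (y u)) * ∏ e ∈ Cf, F e (y' e) := by
    intro y'
    congr 1
    · exact Finset.prod_congr rfl fun u hu => by rw [h.mix_plug x y y' hu]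
    · exact Finset.prod_congr rfl fun e he => by rw [h.tri_mix x y y' he, hF0]
  simp only [e1]
  have hF : ∀ e, Measurable (F e) := by
    intro e
    have hm : Measurable fun ξ : T => ((pvtMix Cu x y (𝔖.src e), ξ, pvtMix Cu x y (𝔖.tgt e)) : T × T × T) := by fun_prop
    have e2 : F e = fun ξ => 𝔖.w e (pvtMix Cu x y (𝔖.src e), ξ, pvtMix Cu x y (𝔖.tgt e)) *
          φ e (pvtMix Cu x y (𝔖.src e), ξ, pvtMix Cu x y (𝔖.tgt e)) := funext (hF0 e)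
    rw [e2]
    exact ((h.measurable_w e).comp hm).mul ((hφ e).comp hm)
  have hFm : Measurable fun y' : ι → T => ∏ e ∈ Cf, F e (y' e) :=
    Finset.measurable_prod _ fun e _ => (hF e).comp (measurable_pi_apply e)
  rw [lintegral_const_mul _ hFm, pvtc_lintegral_prod 𝔖.ν Cf _ hF]
  congr 1
  refine Finset.prod_congr rfl fun e _ => ?_
  rw [psi]
  simp only [hF0]

/-- `∫ w_e dξ_e = 1` when `p_e ≠ 0` -/
theorem Ok.psi_one (h : 𝔖.Ok Cu Cf q) {e : ι} (he : e ∈ Cf) {σ σ' : T} (hσ : σ ∈ 𝔖.G (𝔖.src e)) (hσ' : σ' ∈ 𝔖.G (𝔖.tgt e))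
    {φ : ι → T × T × T → ℝ≥0∞} (hφ : φ e = fun _ => 1) : 𝔖.psi φ e σ σ' = 1 := by
  have := h.prob e
  have hm : Measurable fun ξ : T => ((σ, ξ, σ') : T × T × T) := by fun_prop
  have e1 : ∀ ξ, 𝔖.w e (σ, ξ, σ') * φ e (σ, ξ, σ') = {ξ | (σ, ξ, σ') ∈ 𝔖.A e}.indicator (fun _ => (𝔖.p e σ σ')⁻¹) ξ := by
    intro ξ
    rw [hφ, mul_one, w]
    by_cases hξ : (σ, ξ, σ') ∈ 𝔖.A e
    · rw [indicator_of_mem hξ, indicator_of_mem (by exact hξ)]
    · rw [indicator_of_notMem hξ, indicator_of_notMem (by exact hξ)]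
  rw [psi]
  simp only [e1]
  have hms : MeasurableSet {ξ | (σ, ξ, σ') ∈ 𝔖.A e} := hm (h.A_meas e)
  rw [lintegral_indicator_const hms]
  have hp : 𝔖.p e σ σ' ≠ 0 := fun h0 => h.q_pos e he (nonpos_iff_eq_zero.1 (h0 ▸ h.forced e he σ hσ σ' hσ'))
  exact ENNReal.inv_mul_cancel hp (measure_ne_top _ _)

theorem Ok.lintegral_g (h : 𝔖.Ok Cu Cf q) {u : ι} (hu : u ∈ Cu) : ∫⁻ σ, 𝔖.g u σ ∂(𝔖.ν u) = 1 := by
  have := h.prob u
  simp only [g]
  rw [lintegral_indicator_const (h.G_meas u)]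
  exact ENNReal.inv_mul_cancel (h.G_pos u hu) (measure_ne_top _ _)

/-- the plugs seen by the connectors after resampling the inner plugs inside `G` -/
theorem mix_mem_G {x y : ι → T} (hx : x ∈ 𝔖.ends Cu Cf) (hy : ∀ u ∈ Cu, y u ∈ 𝔖.G u) {e : ι} (he : e ∈ Cf) :
    pvtMix Cu x y (𝔖.src e) ∈ 𝔖.G (𝔖.src e) ∧ pvtMix Cu x y (𝔖.tgt e) ∈ 𝔖.G (𝔖.tgt e) := by
  refine ⟨?_, ?_⟩
  · by_cases h : 𝔖.src e ∈ Cu
    · simpa [pvtMix, h] using hy _ h
    · simpa [pvtMix, h] using (hx e he).1 h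
  · by_cases h : 𝔖.tgt e ∈ Cu
    · simpa [pvtMix, h] using hy _ h
    · simpa [pvtMix, h] using (hx e he).2 h

theorem prod_g_eq_zero {y : ι → T} (hy : ¬ ∀ u ∈ Cu, y u ∈ 𝔖.G u) : ∏ u ∈ Cu, 𝔖.g u (y u) = 0 := by
  push Not at hy
  obtain ⟨u, hu, hux⟩ := hy
  exact Finset.prod_eq_zero hu (by rw [g, indicator_of_notMem hux])

/-- **TR1 (a)**: `∫ W_c d(inner variables) = 1` on `G_t × G_s` -/
theorem Ok.lintegral_W (h : 𝔖.Ok Cu Cf q) {x : ι → T} (hx : x ∈ 𝔖.ends Cu Cf) :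
    ∫⁻ y, 𝔖.W Cu Cf (pvtMix (Cu ∪ Cf) x y) ∂𝔖.law = 1 := by
  have := h.prob
  have h1 := h.lintegral_conn x (φ := fun _ _ => 1) fun _ => measurable_const
  simp only [mul_one] at h1
  simp only [W]
  rw [h1]
  have h2 : ∀ y : ι → T, (∏ u ∈ Cu, 𝔖.g u (y u)) *
        ∏ e ∈ Cf, 𝔖.psi (fun _ _ => 1) e (pvtMix Cu x y (𝔖.src e)) (pvtMix Cu x y (𝔖.tgt e)) = ∏ u ∈ Cu, 𝔖.g u (y u) := by
    intro y
    by_cases hy : ∀ u ∈ Cu, y u ∈ 𝔖.G u
    · rw [Finset.prod_eq_one fun e he => h.psi_one he (mix_mem_G hx hy he).1 (mix_mem_G hx hy he).2 rfl, mul_one]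
    · rw [prod_g_eq_zero hy, zero_mul]
  simp only [h2]
  rw [law, pvtc_lintegral_prod 𝔖.ν Cu _ h.measurable_g]
  exact Finset.prod_eq_one fun u hu => h.lintegral_g hu

end PvtcSys

namespace PvtcSys

variable {ι : Type*} [Fintype ι] [DecidableEq ι] {T : Type*} {E : Type*} [MeasurableSpace T] {𝔖 : PvtcSys ι T E}
variable [NormedAddCommGroup E] [NormedSpace ℝ E] [CompleteSpace E] {Cu Cf : Finset ι} {q : ι → ℝ≥0∞}

/-- **TR3 (weighted N1 for a system)**: `X`, `B` (`= A ∩ G_s ∩ G_t`) do not read the inner variables `Cu ∪ Cf`. -/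
theorem Ok.n1 (h : 𝔖.Ok Cu Cf q) (n : ℕ) {B : Set (ι → T)} (hB : MeasurableSet B) (hBe : B ⊆ 𝔖.ends Cu Cf)
    (hBr : ∀ x y, pvtMix (Cu ∪ Cf) x y ∈ B ↔ x ∈ B)
    {X : (ι → T) → E} (hX : StronglyMeasurable X) (hXr : ∀ x y, X (pvtMix (Cu ∪ Cf) x y) = X x) :
    ∫⁻ x in B, ‖X x + 𝔖.y Cu Cf x‖ₑ ^ n ∂𝔖.law ≤ 𝔖.D Cu Cf q * ∫⁻ x in B ∩ 𝔖.good Cu Cf, ‖X x + 𝔖.Y Cf x‖ₑ ^ n ∂𝔖.law := by
  have := h.prob
  exact pvtc_n1_D (pvtc_mix_rs 𝔖.ν (Cu ∪ Cf)) n hB hBr hX hXr (h.stronglyMeasurable_Y Cf) (h.measurable_W Cu Cf)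
    (fun x hx => h.lintegral_W (hBe hx)) (h.measurableSet_good Cu Cf) _ fun x hx => h.W_le (hBe hx)

/-- **TR3' (pure cycle)** -/
theorem Ok.n1_cycle (h : 𝔖.Ok Cu Cf q) (n : ℕ) {B : Set (ι → T)} (hB : MeasurableSet B) (hBe : B ⊆ 𝔖.ends Cu Cf)
    (hBr : ∀ x y, pvtMix (Cu ∪ Cf) x y ∈ B ↔ x ∈ B) :
    ∫⁻ x in B, ‖𝔖.y Cu Cf x‖ₑ ^ n ∂𝔖.law ≤ 𝔖.D Cu Cf q * ∫⁻ x in B ∩ 𝔖.good Cu Cf, ‖𝔖.Y Cf x‖ₑ ^ n ∂𝔖.law := by
  have := h.n1 n hB hBe hBr (X := fun _ => 0) stronglyMeasurable_const fun _ _ => rfl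
  simpa using this

/-- `y_c` does not read the inner variables -/
theorem y_mix (𝔖 : PvtcSys ι T E) (Cu Cf : Finset ι) (x y : ι → T) : 𝔖.y Cu Cf (pvtMix (Cu ∪ Cf) x y) = 𝔖.y Cu Cf x := by
  simp only [PvtcSys.y, pvtcMean, pvtMix_mix_left]

end PvtcSys

namespace PvtcSys

variable {ι : Type*} [Fintype ι] [DecidableEq ι] {T : Type*} {E : Type*} [MeasurableSpace T] {𝔖 : PvtcSys ι T E}
variable [NormedAddCommGroup E] [NormedSpace ℝ E] {Cu Cf : Finset ι} {q : ι → ℝ≥0∞}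

/-- the law of the plug `i` in the cycle experiment at `x`: `ν_i( · | G_i)` if `i` is inner, the Dirac mass at `x i` if not -/
noncomputable def mu (𝔖 : PvtcSys ι T E) (Cu : Finset ι) (x : ι → T) (i : ι) : Measure T :=
  if i ∈ Cu then (𝔖.ν i (𝔖.G i))⁻¹ • (𝔖.ν i).restrict (𝔖.G i) else Measure.dirac (x i)

theorem Ok.lintegral_mu_inner (h : 𝔖.Ok Cu Cf q) (x : ι → T) {i : ι} (hi : i ∈ Cu) {Θ : T → ℝ≥0∞} (hΘ : Measurable Θ) :
    ∫⁻ σ, Θ σ ∂(𝔖.mu Cu x i) = ∫⁻ σ, 𝔖.g i σ * Θ σ ∂(𝔖.ν i) := by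
  rw [mu, if_pos hi, lintegral_smul_measure, smul_eq_mul, ← lintegral_const_mul _ hΘ, ← lintegral_indicator (h.G_meas i)]
  refine lintegral_congr fun σ => ?_
  by_cases hσ : σ ∈ 𝔖.G i
  · rw [indicator_of_mem hσ, g, indicator_of_mem hσ]
  · rw [indicator_of_notMem hσ, g, indicator_of_notMem hσ, zero_mul]

theorem lintegral_mu_outer (𝔖 : PvtcSys ι T E) (x : ι → T) {i : ι} (hi : i ∉ Cu) {Θ : T → ℝ≥0∞} (hΘ : Measurable Θ) :
    ∫⁻ σ, Θ σ ∂(𝔖.mu Cu x i) = Θ (x i) := by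
  rw [mu, if_neg hi, lintegral_dirac' _ hΘ]

/-- one-plug marginal of the plug part of the weight -/
theorem Ok.lintegral_plug_one (h : 𝔖.Ok Cu Cf q) {s : Finset ι} (hs : s ⊆ Cu) {b : ι} (hb : b ∈ s) {Θ : T → ℝ≥0∞} (hΘ : Measurable Θ) :
    ∫⁻ y, (∏ u ∈ s, 𝔖.g u (y u)) * Θ (y b) ∂𝔖.law = ∫⁻ σ, 𝔖.g b σ * Θ σ ∂(𝔖.ν b) := by
  have := h.prob
  obtain ⟨F, hF0⟩ : ∃ F : ι → T → ℝ≥0∞, ∀ u t, F u t = 𝔖.g u t * (if u = b then Θ t else 1) := ⟨_, fun _ _ => rfl⟩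
  have hF : ∀ u, Measurable (F u) := by
    intro u
    have e2 : F u = fun t => 𝔖.g u t * (if u = b then Θ t else 1) := funext (hF0 u)
    rw [e2]
    by_cases hu : u = b
    · simp only [hu, if_true]; exact (h.measurable_g b).mul hΘ
    · simp only [hu, if_false, mul_one]; exact h.measurable_g u
  have e1 : ∀ y : ι → T, (∏ u ∈ s, 𝔖.g u (y u)) * Θ (y b) = ∏ u ∈ s, F u (y u) := by
    intro y
    simp only [hF0]
    rw [Finset.prod_mul_distrib]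
    congr 1
    rw [Finset.prod_eq_single_of_mem b hb fun u _ hu => by simp [hu]]
    simp
  simp only [e1]
  rw [law, pvtc_lintegral_prod 𝔖.ν s F hF, Finset.prod_eq_single_of_mem b hb]
  · simp only [hF0, if_true]
  · intro u hu hub
    simp only [hF0, hub, if_false, mul_one]
    exact h.lintegral_g (hs hu)

theorem Ok.lintegral_plug_zero (h : 𝔖.Ok Cu Cf q) : ∫⁻ y, (∏ u ∈ Cu, 𝔖.g u (y u)) ∂𝔖.law = 1 := by
  have := h.prob
  rw [law, pvtc_lintegral_prod 𝔖.ν Cu _ h.measurable_g]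
  exact Finset.prod_eq_one fun u hu => h.lintegral_g hu

/-- two-plug marginal, both inner -/
theorem Ok.lintegral_plug_two (h : 𝔖.Ok Cu Cf q) {a b : ι} (ha : a ∈ Cu) (hb : b ∈ Cu) (hab : a ≠ b)
    {Ψ : T × T → ℝ≥0∞} (hΨ : Measurable Ψ) :
    ∫⁻ y, (∏ u ∈ Cu, 𝔖.g u (y u)) * Ψ (y a, y b) ∂𝔖.law
      = ∫⁻ σ, 𝔖.g a σ * ∫⁻ σ', 𝔖.g b σ' * Ψ (σ, σ') ∂(𝔖.ν b) ∂(𝔖.ν a) := by
  have := h.prob
  have hH : Measurable fun y : ι → T => (∏ u ∈ Cu, 𝔖.g u (y u)) * Ψ (y a, y b) :=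
    (Finset.measurable_prod _ fun u _ => (h.measurable_g u).comp (measurable_pi_apply u)).mul
      (hΨ.comp ((measurable_pi_apply a).prodMk (measurable_pi_apply b)))
  have hΘ : Measurable fun σ => ∫⁻ σ', 𝔖.g b σ' * Ψ (σ, σ') ∂(𝔖.ν b) :=
    (((h.measurable_g b).comp measurable_snd).mul hΨ).lintegral_prod_right'
  rw [← h.lintegral_plug_one (Finset.erase_subset b Cu) (Finset.mem_erase.2 ⟨hab, ha⟩) hΘ, law,
    ← (pvtc_mix_rs 𝔖.ν {b}).lintegral hH]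
  refine lintegral_congr fun y => ?_
  have e1 : ∀ y' : ι → T, (∏ u ∈ Cu, 𝔖.g u (pvtMix {b} y y' u)) * Ψ (pvtMix {b} y y' a, pvtMix {b} y y' b)
      = (∏ u ∈ Cu.erase b, 𝔖.g u (y u)) * (𝔖.g b (y' b) * Ψ (y a, y' b)) := by
    intro y'
    rw [← Finset.mul_prod_erase Cu _ hb]
    have h1 : pvtMix {b} y y' b = y' b := by simp [pvtMix]
    have h2 : pvtMix {b} y y' a = y a := by simp [pvtMix, hab]
    have h3 : ∏ u ∈ Cu.erase b, 𝔖.g u (pvtMix {b} y y' u) = ∏ u ∈ Cu.erase b, 𝔖.g u (y u) :=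
      Finset.prod_congr rfl fun u hu => by
        have : u ≠ b := (Finset.mem_erase.1 hu).1
        simp [pvtMix, this]
    rw [h1, h2, h3]
    ring
  simp only [e1]
  have hm : Measurable fun t : T => 𝔖.g b t * Ψ (y a, t) := (h.measurable_g b).mul (hΨ.comp measurable_prodMk_left)
  have hm' : Measurable fun y' : ι → T => 𝔖.g b (y' b) * Ψ (y a, y' b) := hm.comp (measurable_pi_apply b)
  rw [lintegral_const_mul _ hm']
  congr 1
  exact (measurePreserving_eval 𝔖.ν b).lintegral_comp hm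

/-- **integration of the inner plugs**: two-plug marginal of the plug part of the weight -/
theorem Ok.lintegral_plug (h : 𝔖.Ok Cu Cf q) (x : ι → T) {a b : ι} (hab : a ∈ Cu → b ∈ Cu → a ≠ b)
    {Ψ : T × T → ℝ≥0∞} (hΨ : Measurable Ψ) :
    ∫⁻ y, (∏ u ∈ Cu, 𝔖.g u (y u)) * Ψ (pvtMix Cu x y a, pvtMix Cu x y b) ∂𝔖.law
      = ∫⁻ σ, ∫⁻ σ', Ψ (σ, σ') ∂(𝔖.mu Cu x b) ∂(𝔖.mu Cu x a) := by
  have := h.prob
  have hs : ∀ σ, Measurable fun σ' => Ψ (σ, σ') := fun σ => hΨ.comp measurable_prodMk_left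
  by_cases ha : a ∈ Cu
  · by_cases hb : b ∈ Cu
    · have e1 : ∀ σ, ∫⁻ σ', Ψ (σ, σ') ∂(𝔖.mu Cu x b) = ∫⁻ σ', 𝔖.g b σ' * Ψ (σ, σ') ∂(𝔖.ν b) :=
        fun σ => h.lintegral_mu_inner x hb (hs σ)
      have hΘ : Measurable fun σ => ∫⁻ σ', 𝔖.g b σ' * Ψ (σ, σ') ∂(𝔖.ν b) :=
        (((h.measurable_g b).comp measurable_snd).mul hΨ).lintegral_prod_right'
      simp only [e1]
      rw [h.lintegral_mu_inner x ha hΘ, ← h.lintegral_plug_two ha hb (hab ha hb) hΨ]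
      simp [pvtMix, ha, hb]
    · have e1 : ∀ σ, ∫⁻ σ', Ψ (σ, σ') ∂(𝔖.mu Cu x b) = Ψ (σ, x b) := fun σ => 𝔖.lintegral_mu_outer x hb (hs σ)
      have hΘ : Measurable fun σ => Ψ (σ, x b) := hΨ.comp measurable_prodMk_right
      simp only [e1]
      rw [h.lintegral_mu_inner x ha hΘ, ← h.lintegral_plug_one (Finset.Subset.refl Cu) ha hΘ]
      simp [pvtMix, ha, hb]
  · by_cases hb : b ∈ Cu
    · have e1 : ∀ σ, ∫⁻ σ', Ψ (σ, σ') ∂(𝔖.mu Cu x b) = ∫⁻ σ', 𝔖.g b σ' * Ψ (σ, σ') ∂(𝔖.ν b) :=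
        fun σ => h.lintegral_mu_inner x hb (hs σ)
      have hΘ : Measurable fun σ => ∫⁻ σ', 𝔖.g b σ' * Ψ (σ, σ') ∂(𝔖.ν b) :=
        (((h.measurable_g b).comp measurable_snd).mul hΨ).lintegral_prod_right'
      simp only [e1]
      rw [𝔖.lintegral_mu_outer x ha hΘ, ← h.lintegral_plug_one (Finset.Subset.refl Cu) hb (hs (x a))]
      simp [pvtMix, ha, hb]
    · have e1 : ∀ σ, ∫⁻ σ', Ψ (σ, σ') ∂(𝔖.mu Cu x b) = Ψ (σ, x b) := fun σ => 𝔖.lintegral_mu_outer x hb (hs σ)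
      have hΘ : Measurable fun σ => Ψ (σ, x b) := hΨ.comp measurable_prodMk_right
      simp only [e1]
      rw [𝔖.lintegral_mu_outer x ha hΘ]
      simp only [pvtMix, ha, hb, if_false]
      have hm' : Measurable fun y : ι → T => ∏ u ∈ Cu, 𝔖.g u (y u) :=
        Finset.measurable_prod _ fun u _ => (h.measurable_g u).comp (measurable_pi_apply u)
      rw [lintegral_mul_const _ hm', h.lintegral_plug_zero, one_mul]

end PvtcSys

namespace PvtcSys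

variable {ι : Type*} [Fintype ι] [DecidableEq ι] {T : Type*} {E : Type*} [MeasurableSpace T] {𝔖 : PvtcSys ι T E}
variable [NormedAddCommGroup E] [NormedSpace ℝ E] {Cu Cf : Finset ι} {q : ι → ℝ≥0∞}

theorem Ok.measurable_wphi (h : 𝔖.Ok Cu Cf q) (e : ι) {φ : T × T × T → ℝ≥0∞} (hφ : Measurable φ) :
    Measurable fun z : T × T => ∫⁻ ξ, 𝔖.w e (z.1, ξ, z.2) * φ (z.1, ξ, z.2) ∂(𝔖.ν e) := by
  have := h.prob e
  have hm : Measurable fun a : (T × T) × T => ((a.1.1, a.2, a.1.2) : T × T × T) := by fun_prop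
  exact (((h.measurable_w e).comp hm).mul (hφ.comp hm)).lintegral_prod_right'

/-- **TR2, `ℝ≥0∞` form: the two-plug marginal of the cycle weight.** -/
theorem Ok.lintegral_W_mul (h : 𝔖.Ok Cu Cf q) {x : ι → T} (hx : x ∈ 𝔖.ends Cu Cf) {e : ι} (he : e ∈ Cf)
    (hne : 𝔖.src e ∈ Cu → 𝔖.tgt e ∈ Cu → 𝔖.src e ≠ 𝔖.tgt e) {φ : T × T × T → ℝ≥0∞} (hφ : Measurable φ) :
    ∫⁻ y, 𝔖.W Cu Cf (pvtMix (Cu ∪ Cf) x y) * φ (𝔖.tri e (pvtMix (Cu ∪ Cf) x y)) ∂𝔖.law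
      = ∫⁻ σ, ∫⁻ σ', ∫⁻ ξ, 𝔖.w e (σ, ξ, σ') * φ (σ, ξ, σ') ∂(𝔖.ν e) ∂(𝔖.mu Cu x (𝔖.tgt e)) ∂(𝔖.mu Cu x (𝔖.src e)) := by
  obtain ⟨φ', hφ'e, hφ'ne⟩ : ∃ φ' : ι → T × T × T → ℝ≥0∞, φ' e = φ ∧ ∀ e', e' ≠ e → φ' e' = fun _ => 1 :=
    ⟨fun e' => if e' = e then φ else fun _ => 1, by simp, fun e' he' => by simp [he']⟩
  have hφ'm : ∀ e', Measurable (φ' e') := by
    intro e'
    by_cases he' : e' = e
    · rw [he', hφ'e]; exact hφ
    · rw [hφ'ne e' he']; exact measurable_const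
  have e1 : ∀ z : ι → T, 𝔖.W Cu Cf z * φ (𝔖.tri e z)
      = (∏ u ∈ Cu, 𝔖.g u (z u)) * ∏ e' ∈ Cf, (𝔖.w e' (𝔖.tri e' z) * φ' e' (𝔖.tri e' z)) := by
    intro z
    rw [Finset.prod_mul_distrib, W, mul_assoc]
    congr 2
    rw [Finset.prod_eq_single_of_mem e he fun e' _ he' => by rw [hφ'ne e' he'], hφ'e]
  simp only [e1]
  rw [h.lintegral_conn x hφ'm]
  have e2 : ∀ y : ι → T, (∏ u ∈ Cu, 𝔖.g u (y u)) *
        ∏ e' ∈ Cf, 𝔖.psi φ' e' (pvtMix Cu x y (𝔖.src e')) (pvtMix Cu x y (𝔖.tgt e'))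
      = (∏ u ∈ Cu, 𝔖.g u (y u)) * (fun z : T × T => ∫⁻ ξ, 𝔖.w e (z.1, ξ, z.2) * φ (z.1, ξ, z.2) ∂(𝔖.ν e))
          (pvtMix Cu x y (𝔖.src e), pvtMix Cu x y (𝔖.tgt e)) := by
    intro y
    by_cases hy : ∀ u ∈ Cu, y u ∈ 𝔖.G u
    · congr 1
      rw [Finset.prod_eq_single_of_mem e he fun e' he'f he' =>
        h.psi_one he'f (mix_mem_G hx hy he'f).1 (mix_mem_G hx hy he'f).2 (hφ'ne e' he'), psi, hφ'e]
    · rw [prod_g_eq_zero hy, zero_mul, zero_mul]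
  simp only [e2]
  exact h.lintegral_plug x hne (h.measurable_wphi e hφ)

end PvtcSys

/-- Fubini for a Bochner integral against a density on a product -/
theorem pvtc_integral_withDensity_prod {Z T E : Type*} [MeasurableSpace Z] [MeasurableSpace T] [NormedAddCommGroup E] [NormedSpace ℝ E]
    (μ : Measure Z) [SFinite μ] (ρ : Measure T) [SFinite ρ] {w : Z × T → ℝ≥0∞} (hw : Measurable w)
    (hfin : ∫⁻ a, w a ∂(μ.prod ρ) ≠ ∞) {X : Z × T → E} (hX : Integrable X ((μ.prod ρ).withDensity w)) :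
    Integrable (fun z => ∫ ξ, (w (z, ξ)).toReal • X (z, ξ) ∂ρ) μ ∧
      ∫ a, X a ∂((μ.prod ρ).withDensity w) = ∫ z, ∫ ξ, (w (z, ξ)).toReal • X (z, ξ) ∂ρ ∂μ := by
  have hlt : ∀ᵐ a ∂(μ.prod ρ), w a < ∞ := ae_lt_top hw hfin
  have hi : Integrable (fun a => (w a).toReal • X a) (μ.prod ρ) := (integrable_withDensity_iff_integrable_smul' hw hlt).1 hX
  refine ⟨hi.integral_prod_left, ?_⟩
  rw [integral_withDensity_eq_integral_toReal_smul hw hlt, integral_prod _ hi]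

namespace PvtcSys

variable {ι : Type*} [Fintype ι] [DecidableEq ι] {T : Type*} {E : Type*} [MeasurableSpace T] {𝔖 : PvtcSys ι T E}
variable [NormedAddCommGroup E] [NormedSpace ℝ E] {Cu Cf : Finset ι} {q : ι → ℝ≥0∞}

theorem Ok.stronglyMeasurable_I (h : 𝔖.Ok Cu Cf q) (e : ι) : StronglyMeasurable fun z : T × T => 𝔖.I e z.1 z.2 := by
  have := h.prob e
  have hm : Measurable fun a : (T × T) × T => ((a.1.1, a.2, a.1.2) : T × T × T) := by fun_prop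
  exact pvtY_stronglyMeasurable (Kernel.const (T × T) (𝔖.ν e)) (hm (h.A_meas e)) ((h.X_meas e).comp_measurable hm)

/-- `∫ w_e X_e dξ_e = i_e` -/
theorem Ok.integral_w_smul (h : 𝔖.Ok Cu Cf q) (e : ι) (σ σ' : T) :
    ∫ ξ, (𝔖.w e (σ, ξ, σ')).toReal • 𝔖.X e (σ, ξ, σ') ∂(𝔖.ν e) = 𝔖.I e σ σ' := by
  have hm : Measurable fun ξ : T => ((σ, ξ, σ') : T × T × T) := by fun_prop
  have hms : MeasurableSet {ξ | (σ, ξ, σ') ∈ 𝔖.A e} := hm (h.A_meas e)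
  have e1 : ∀ ξ, (𝔖.w e (σ, ξ, σ')).toReal • 𝔖.X e (σ, ξ, σ')
      = {ξ | (σ, ξ, σ') ∈ 𝔖.A e}.indicator (fun ξ => ((𝔖.ν e).real {ξ | (σ, ξ, σ') ∈ 𝔖.A e})⁻¹ • 𝔖.X e (σ, ξ, σ')) ξ := by
    intro ξ
    by_cases hξ : (σ, ξ, σ') ∈ 𝔖.A e
    · rw [indicator_of_mem (by exact hξ), w, indicator_of_mem hξ, ENNReal.toReal_inv]
      rfl
    · rw [indicator_of_notMem (by exact hξ), w, indicator_of_notMem hξ]
      simp
  simp only [e1]
  rw [integral_indicator hms, integral_smul, I, setAverage_eq]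

theorem Ok.mu_prob (h : 𝔖.Ok Cu Cf q) (x : ι → T) (i : ι) : IsProbabilityMeasure (𝔖.mu Cu x i) := by
  have := h.prob i
  by_cases hi : i ∈ Cu
  · rw [mu, if_pos hi]
    refine ⟨?_⟩
    rw [Measure.smul_apply, Measure.restrict_apply_univ, smul_eq_mul]
    exact ENNReal.inv_mul_cancel (h.G_pos i hi) (measure_ne_top _ _)
  · rw [mu, if_neg hi]; infer_instance

theorem integral_mu_inner (𝔖 : PvtcSys ι T E) (x : ι → T) {i : ι} (hi : i ∈ Cu) (f : T → E) :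
    ∫ σ, f σ ∂(𝔖.mu Cu x i) = ⨍ σ in 𝔖.G i, f σ ∂(𝔖.ν i) := by
  rw [mu, if_pos hi, average, Measure.restrict_apply_univ]

variable [CompleteSpace E]

theorem integral_mu_outer (𝔖 : PvtcSys ι T E) (x : ι → T) {i : ι} (hi : i ∉ Cu) {f : T → E} (hf : StronglyMeasurable f) :
    ∫ σ, f σ ∂(𝔖.mu Cu x i) = f (x i) := by
  rw [mu, if_neg hi, integral_dirac' _ _ hf]

/-- the contribution of `e` as an iterated integral -/
theorem Ok.mean_eq (h : 𝔖.Ok Cu Cf q) (x : ι → T) (e : ι) :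
    𝔖.mean Cu e x = ∫ σ, ∫ σ', 𝔖.I e σ σ' ∂(𝔖.mu Cu x (𝔖.tgt e)) ∂(𝔖.mu Cu x (𝔖.src e)) := by
  have hI := h.stronglyMeasurable_I e
  have := h.mu_prob x (𝔖.tgt e)
  have hs : ∀ σ, StronglyMeasurable fun σ' => 𝔖.I e σ σ' := by
    intro σ
    have h1 := hI.comp_measurable (measurable_prodMk_left (x := σ))
    exact h1
  have hΘ : StronglyMeasurable fun σ => ∫ σ', 𝔖.I e σ σ' ∂(𝔖.mu Cu x (𝔖.tgt e)) := by
    have h2 := hI.integral_prod_right' (ν := 𝔖.mu Cu x (𝔖.tgt e))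
    exact h2
  by_cases ha : 𝔖.src e ∈ Cu
  · by_cases hb : 𝔖.tgt e ∈ Cu
    · rw [mean, if_pos ha, if_pos hb, 𝔖.integral_mu_inner x ha, K]
      congr 1
      funext σ
      rw [𝔖.integral_mu_inner x hb, Kout]
    · rw [mean, if_pos ha, if_neg hb, 𝔖.integral_mu_inner x ha, Kin]
      congr 1
      funext σ
      rw [𝔖.integral_mu_outer x hb (hs σ)]
  · by_cases hb : 𝔖.tgt e ∈ Cu
    · rw [mean, if_neg ha, if_pos hb, 𝔖.integral_mu_outer x ha hΘ, 𝔖.integral_mu_inner x hb, Kout]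
    · rw [mean, if_neg ha, if_neg hb, 𝔖.integral_mu_outer x ha hΘ, 𝔖.integral_mu_outer x hb (hs _)]

end PvtcSys

namespace PvtcSys

variable {ι : Type*} [Fintype ι] [DecidableEq ι] {T : Type*} {E : Type*} [MeasurableSpace T] {𝔖 : PvtcSys ι T E}
variable [NormedAddCommGroup E] [NormedSpace ℝ E] {Cu Cf : Finset ι} {q : ι → ℝ≥0∞}

/-- **TR2, measure form**: the law of the triple of the connector `e` in the cycle experiment at `x` -/
theorem Ok.map_tri (h : 𝔖.Ok Cu Cf q) {x : ι → T} (hx : x ∈ 𝔖.ends Cu Cf) {e : ι} (he : e ∈ Cf)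
    (hne : 𝔖.src e ∈ Cu → 𝔖.tgt e ∈ Cu → 𝔖.src e ≠ 𝔖.tgt e) :
    (𝔖.law.withDensity fun y => 𝔖.W Cu Cf (pvtMix (Cu ∪ Cf) x y)).map (fun y => 𝔖.tri e (pvtMix (Cu ∪ Cf) x y))
      = ((((𝔖.mu Cu x (𝔖.src e)).prod (𝔖.mu Cu x (𝔖.tgt e))).prod (𝔖.ν e)).withDensity
          fun a => 𝔖.w e (a.1.1, a.2, a.1.2)).map fun a => (a.1.1, a.2, a.1.2) := by
  have := h.prob e
  have := h.mu_prob x (𝔖.src e)
  have := h.mu_prob x (𝔖.tgt e)
  have hmx := pvtc_measurable_mix_right (T := T) (Cu ∪ Cf) x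
  have hπ : Measurable fun y => 𝔖.tri e (pvtMix (Cu ∪ Cf) x y) := (𝔖.measurable_tri e).comp hmx
  have hR : Measurable fun a : (T × T) × T => ((a.1.1, a.2, a.1.2) : T × T × T) := by fun_prop
  have hWx : Measurable fun y => 𝔖.W Cu Cf (pvtMix (Cu ∪ Cf) x y) := (h.measurable_W Cu Cf).comp hmx
  have hw : Measurable fun a : (T × T) × T => 𝔖.w e (a.1.1, a.2, a.1.2) := (h.measurable_w e).comp hR
  refine Measure.ext_of_lintegral _ fun φ hφ => ?_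
  have hφπ : Measurable fun y => φ (𝔖.tri e (pvtMix (Cu ∪ Cf) x y)) := hφ.comp hπ
  have hφR : Measurable fun a : (T × T) × T => φ (a.1.1, a.2, a.1.2) := hφ.comp hR
  rw [lintegral_map hφ hπ, lintegral_map hφ hR, lintegral_withDensity_eq_lintegral_mul _ hWx hφπ,
    lintegral_withDensity_eq_lintegral_mul _ hw hφR]
  simp only [Pi.mul_apply]
  have hwφ : Measurable fun a : (T × T) × T => 𝔖.w e (a.1.1, a.2, a.1.2) * φ (a.1.1, a.2, a.1.2) := hw.mul hφR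
  rw [h.lintegral_W_mul hx he hne hφ, lintegral_prod _ hwφ.aemeasurable,
    lintegral_prod _ (h.measurable_wphi e hφ).aemeasurable]

variable [CompleteSpace E]

/-- **TR2, one connector** -/
theorem Ok.integral_X (h : 𝔖.Ok Cu Cf q) {x : ι → T} (hx : x ∈ 𝔖.ends Cu Cf) {e : ι} (he : e ∈ Cf)
    (hne : 𝔖.src e ∈ Cu → 𝔖.tgt e ∈ Cu → 𝔖.src e ≠ 𝔖.tgt e)
    (hint : Integrable (fun y => 𝔖.X e (𝔖.tri e (pvtMix (Cu ∪ Cf) x y))) (𝔖.law.withDensity fun y => 𝔖.W Cu Cf (pvtMix (Cu ∪ Cf) x y))) :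
    ∫ y, 𝔖.X e (𝔖.tri e (pvtMix (Cu ∪ Cf) x y)) ∂(𝔖.law.withDensity fun y => 𝔖.W Cu Cf (pvtMix (Cu ∪ Cf) x y)) = 𝔖.mean Cu e x := by
  have := h.prob e
  have := h.mu_prob x (𝔖.src e)
  have := h.mu_prob x (𝔖.tgt e)
  have hmx := pvtc_measurable_mix_right (T := T) (Cu ∪ Cf) x
  have hπ : Measurable fun y => 𝔖.tri e (pvtMix (Cu ∪ Cf) x y) := (𝔖.measurable_tri e).comp hmx
  have hR : Measurable fun a : (T × T) × T => ((a.1.1, a.2, a.1.2) : T × T × T) := by fun_prop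
  have hw : Measurable fun a : (T × T) × T => 𝔖.w e (a.1.1, a.2, a.1.2) := (h.measurable_w e).comp hR
  have hM := h.map_tri hx he hne
  have hXm : ∀ m : Measure (T × T × T), AEStronglyMeasurable (𝔖.X e) m := fun m => (h.X_meas e).aestronglyMeasurable
  -- total mass
  have hfin : ∫⁻ a, 𝔖.w e (a.1.1, a.2, a.1.2) ∂(((𝔖.mu Cu x (𝔖.src e)).prod (𝔖.mu Cu x (𝔖.tgt e))).prod (𝔖.ν e)) ≠ ∞ := by
    have h1 := congrArg (fun m : Measure (T × T × T) => m univ) hM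
    rw [Measure.map_apply hπ MeasurableSet.univ, Measure.map_apply hR MeasurableSet.univ, preimage_univ, preimage_univ,
      withDensity_apply _ MeasurableSet.univ, withDensity_apply _ MeasurableSet.univ, Measure.restrict_univ, Measure.restrict_univ,
      h.lintegral_W hx] at h1
    rw [← h1]; exact ENNReal.one_ne_top
  -- integrability
  have hi1 : Integrable (𝔖.X e) ((𝔖.law.withDensity fun y => 𝔖.W Cu Cf (pvtMix (Cu ∪ Cf) x y)).map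
      (fun y => 𝔖.tri e (pvtMix (Cu ∪ Cf) x y))) := (integrable_map_measure (hXm _) hπ.aemeasurable).2 hint
  rw [hM] at hi1
  have hi2 := (integrable_map_measure (hXm _) hR.aemeasurable).1 hi1
  obtain ⟨hi3, hE⟩ := pvtc_integral_withDensity_prod _ _ hw hfin hi2
  have e0 : ∫ y, 𝔖.X e (𝔖.tri e (pvtMix (Cu ∪ Cf) x y)) ∂(𝔖.law.withDensity fun y => 𝔖.W Cu Cf (pvtMix (Cu ∪ Cf) x y))
      = ∫ z, 𝔖.X e z ∂((𝔖.law.withDensity fun y => 𝔖.W Cu Cf (pvtMix (Cu ∪ Cf) x y)).map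
      (fun y => 𝔖.tri e (pvtMix (Cu ∪ Cf) x y))) := (integral_map hπ.aemeasurable (hXm _)).symm
  rw [e0, hM, integral_map hR.aemeasurable (hXm _)]
  simp only [Function.comp_def] at hE hi3
  rw [hE]
  simp only [h.integral_w_smul] at hi3 ⊢
  rw [integral_prod _ hi3, h.mean_eq]

end PvtcSys

namespace PvtcSys

variable {ι : Type*} [Fintype ι] [DecidableEq ι] {T : Type*} {E : Type*} [MeasurableSpace T] {𝔖 : PvtcSys ι T E}
variable [NormedAddCommGroup E] [NormedSpace ℝ E] {Cu Cf : Finset ι} {q : ι → ℝ≥0∞}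

variable [CompleteSpace E]

/-- **TR2 (means), EXACT**: `y_c = ∑_e (K_e | Kout_e(σ_src) | Kin_e(σ_tgt) | I_e(σ_src, σ_tgt))` according to which ends of `e` are inner plugs. -/
theorem Ok.y_eq (h : 𝔖.Ok Cu Cf q) {x : ι → T} (hx : x ∈ 𝔖.ends Cu Cf)
    (hne : ∀ e ∈ Cf, 𝔖.src e ∈ Cu → 𝔖.tgt e ∈ Cu → 𝔖.src e ≠ 𝔖.tgt e)
    (hint : ∀ e ∈ Cf, Integrable (fun y => 𝔖.X e (𝔖.tri e (pvtMix (Cu ∪ Cf) x y)))
      (𝔖.law.withDensity fun y => 𝔖.W Cu Cf (pvtMix (Cu ∪ Cf) x y))) :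
    𝔖.y Cu Cf x = ∑ e ∈ Cf, 𝔖.mean Cu e x := by
  rw [PvtcSys.y, pvtcMean]
  simp only [PvtcSys.Y]
  rw [integral_finsetSum _ hint]
  exact Finset.sum_congr rfl fun e he => h.integral_X hx he (hne e he) (hint e he)

/-- the integrability hypothesis of TR2 holds for a.e. `x` as soon as `E[W_c ‖X_e‖] < ∞` -/
theorem Ok.ae_integrable (h : 𝔖.Ok Cu Cf q) (e : ι) (hfin : ∫⁻ x, 𝔖.W Cu Cf x * ‖𝔖.X e (𝔖.tri e x)‖ₑ ∂𝔖.law ≠ ∞) :
    ∀ᵐ x ∂𝔖.law, Integrable (fun y => 𝔖.X e (𝔖.tri e (pvtMix (Cu ∪ Cf) x y)))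
      (𝔖.law.withDensity fun y => 𝔖.W Cu Cf (pvtMix (Cu ∪ Cf) x y)) := by
  have := h.prob
  have hXt : StronglyMeasurable fun x => 𝔖.X e (𝔖.tri e x) := (h.X_meas e).comp_measurable (𝔖.measurable_tri e)
  have hH : Measurable fun x => 𝔖.W Cu Cf x * ‖𝔖.X e (𝔖.tri e x)‖ₑ := (h.measurable_W Cu Cf).mul hXt.enorm
  have hrs := (pvtc_mix_rs 𝔖.ν (Cu ∪ Cf)).lintegral hH
  have hm2 : Measurable fun x : ι → T => ∫⁻ y, 𝔖.W Cu Cf (pvtMix (Cu ∪ Cf) x y) * ‖𝔖.X e (𝔖.tri e (pvtMix (Cu ∪ Cf) x y))‖ₑ ∂(Measure.pi 𝔖.ν) :=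
    (hH.comp (pvtc_measurable_mix (Cu ∪ Cf))).lintegral_prod_right'
  have hlt := ae_lt_top hm2 (by rw [hrs]; exact hfin)
  filter_upwards [hlt] with x hx
  have hmx := pvtc_measurable_mix_right (T := T) (Cu ∪ Cf) x
  refine ⟨(hXt.comp_measurable hmx).aestronglyMeasurable, ?_⟩
  have hWx : Measurable fun y => 𝔖.W Cu Cf (pvtMix (Cu ∪ Cf) x y) := (h.measurable_W Cu Cf).comp hmx
  have hn : Measurable fun y => ‖𝔖.X e (𝔖.tri e (pvtMix (Cu ∪ Cf) x y))‖ₑ := (hXt.comp_measurable hmx).enorm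
  unfold HasFiniteIntegral
  rw [lintegral_withDensity_eq_lintegral_mul _ hWx hn]
  exact hx

/-- a CHAIN `t = u 0, f 0, u 1, …, f (n-1), u n = s` (`u 0 = u n` is allowed: pure cycle) -/
structure IsChain (𝔖 : PvtcSys ι T E) (n : ℕ) (u f : ℕ → ι) : Prop where
  src_eq : ∀ j < n, 𝔖.src (f j) = u j
  tgt_eq : ∀ j < n, 𝔖.tgt (f j) = u (j + 1)
  f_inj : ∀ j < n, ∀ k < n, f j = f k → j = k
  u_inj : ∀ j, 0 < j → j < n → ∀ k ≤ n, u j = u k → j = k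
  u_ne_f : ∀ j ≤ n, ∀ k < n, u j ≠ f k

theorem IsChain.mem_Cu {n : ℕ} {u f : ℕ → ι} (hc : 𝔖.IsChain n u f) {k : ℕ} (hk : k ≤ n) :
    u k ∈ (Finset.Ioo 0 n).image u ↔ 0 < k ∧ k < n := by
  constructor
  · intro h
    obtain ⟨j, hj, hjk⟩ := Finset.mem_image.1 h
    rw [Finset.mem_Ioo] at hj
    have := hc.u_inj j hj.1 hj.2 k hk hjk
    omega
  · intro h
    exact Finset.mem_image_of_mem u (Finset.mem_Ioo.2 h)

/-- **TR2 for a chain**: `y_c(σ_t, σ_s) = kout_{f_1}(σ_t) + ∑_{1<j<n} k_{f_j} + kin_{f_n}(σ_s)`. -/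
theorem Ok.y_chain {n : ℕ} {u f : ℕ → ι} (hc : 𝔖.IsChain (n + 2) u f)
    (h : 𝔖.Ok ((Finset.Ioo 0 (n + 2)).image u) ((Finset.range (n + 2)).image f) q) {x : ι → T}
    (hx0 : x (u 0) ∈ 𝔖.G (u 0)) (hxn : x (u (n + 2)) ∈ 𝔖.G (u (n + 2)))
    (hint : ∀ j < n + 2, Integrable (fun y => 𝔖.X (f j) (𝔖.tri (f j) (pvtMix ((Finset.Ioo 0 (n + 2)).image u ∪ (Finset.range (n + 2)).image f) x y)))
      (𝔖.law.withDensity fun y => 𝔖.W ((Finset.Ioo 0 (n + 2)).image u) ((Finset.range (n + 2)).image f)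
        (pvtMix ((Finset.Ioo 0 (n + 2)).image u ∪ (Finset.range (n + 2)).image f) x y))) :
    𝔖.y ((Finset.Ioo 0 (n + 2)).image u) ((Finset.range (n + 2)).image f) x
      = 𝔖.Kout (f 0) (x (u 0)) + ∑ j ∈ Finset.Ioo 0 (n + 1), 𝔖.K (f j) + 𝔖.Kin (f (n + 1)) (x (u (n + 2))) := by
  have hends : x ∈ 𝔖.ends ((Finset.Ioo 0 (n + 2)).image u) ((Finset.range (n + 2)).image f) := by
    intro e he
    obtain ⟨j, hj, rfl⟩ := Finset.mem_image.1 he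
    rw [Finset.mem_range] at hj
    rw [hc.src_eq j hj, hc.tgt_eq j hj]
    refine ⟨fun h1 => ?_, fun h1 => ?_⟩
    · rw [hc.mem_Cu (by omega)] at h1
      have : j = 0 := by omega
      rw [this]; exact hx0
    · rw [hc.mem_Cu (by omega)] at h1
      have : j + 1 = n + 2 := by omega
      rw [this]; exact hxn
  have hne : ∀ e ∈ (Finset.range (n + 2)).image f, 𝔖.src e ∈ (Finset.Ioo 0 (n + 2)).image u →
      𝔖.tgt e ∈ (Finset.Ioo 0 (n + 2)).image u → 𝔖.src e ≠ 𝔖.tgt e := by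
    intro e he
    obtain ⟨j, hj, rfl⟩ := Finset.mem_image.1 he
    rw [Finset.mem_range] at hj
    rw [hc.src_eq j hj, hc.tgt_eq j hj]
    intro h1 _ h3
    rw [hc.mem_Cu (by omega)] at h1
    have := hc.u_inj j h1.1 h1.2 (j + 1) (by omega) h3
    omega
  have hint' : ∀ e ∈ (Finset.range (n + 2)).image f, Integrable (fun y => 𝔖.X e (𝔖.tri e (pvtMix ((Finset.Ioo 0 (n + 2)).image u ∪ (Finset.range (n + 2)).image f) x y)))
      (𝔖.law.withDensity fun y => 𝔖.W ((Finset.Ioo 0 (n + 2)).image u) ((Finset.range (n + 2)).image f)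
        (pvtMix ((Finset.Ioo 0 (n + 2)).image u ∪ (Finset.range (n + 2)).image f) x y)) := by
    intro e he
    obtain ⟨j, hj, rfl⟩ := Finset.mem_image.1 he
    exact hint j (Finset.mem_range.1 hj)
  rw [h.y_eq hends hne hint', Finset.sum_image fun j hj k hk hjk => hc.f_inj j (Finset.mem_range.1 hj) k (Finset.mem_range.1 hk) hjk,
    Finset.sum_range_succ, Finset.sum_range_succ']
  have e0 : 𝔖.mean ((Finset.Ioo 0 (n + 2)).image u) (f 0) x = 𝔖.Kout (f 0) (x (u 0)) := by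
    have h1 : 𝔖.src (f 0) ∉ (Finset.Ioo 0 (n + 2)).image u := by
      rw [hc.src_eq 0 (by omega), hc.mem_Cu (by omega)]; omega
    have h2 : 𝔖.tgt (f 0) ∈ (Finset.Ioo 0 (n + 2)).image u := by
      rw [hc.tgt_eq 0 (by omega), hc.mem_Cu (by omega)]; omega
    rw [mean, if_neg h1, if_pos h2, hc.src_eq 0 (by omega)]
  have e1 : 𝔖.mean ((Finset.Ioo 0 (n + 2)).image u) (f (n + 1)) x = 𝔖.Kin (f (n + 1)) (x (u (n + 2))) := by
    have h1 : 𝔖.src (f (n + 1)) ∈ (Finset.Ioo 0 (n + 2)).image u := by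
      rw [hc.src_eq (n + 1) (by omega), hc.mem_Cu (by omega)]; omega
    have h2 : 𝔖.tgt (f (n + 1)) ∉ (Finset.Ioo 0 (n + 2)).image u := by
      rw [hc.tgt_eq (n + 1) (by omega), hc.mem_Cu (by omega)]; omega
    rw [mean, if_pos h1, if_neg h2, hc.tgt_eq (n + 1) (by omega)]
  have e2 : ∑ j ∈ Finset.range n, 𝔖.mean ((Finset.Ioo 0 (n + 2)).image u) (f (j + 1)) x = ∑ j ∈ Finset.Ioo 0 (n + 1), 𝔖.K (f j) := by
    have hI : Finset.Ioo 0 (n + 1) = Finset.Ico 1 (n + 1) := by ext j; simp only [Finset.mem_Ioo, Finset.mem_Ico]; omega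
    rw [hI, Finset.sum_Ico_eq_sum_range]
    refine Finset.sum_congr rfl fun j hj => ?_
    rw [Finset.mem_range] at hj
    have h1 : 𝔖.src (f (j + 1)) ∈ (Finset.Ioo 0 (n + 2)).image u := by
      rw [hc.src_eq (j + 1) (by omega), hc.mem_Cu (by omega)]; omega
    have h2 : 𝔖.tgt (f (j + 1)) ∈ (Finset.Ioo 0 (n + 2)).image u := by
      rw [hc.tgt_eq (j + 1) (by omega), hc.mem_Cu (by omega)]; omega
    rw [mean, if_pos h1, if_pos h2, add_comm 1 j]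
  rw [e0, e1, e2]
  abel

end PvtcSys

theorem pvtcy_eqns_cite2 : True := by
  have := @PvtcSys.psi.eq_1.{0, 0, 0}
  have := @PvtcSys.mu.eq_1.{0, 0, 0}
  trivial

section RS2

variable {Ω : Type*} [MeasurableSpace Ω]
variable {E : Type*} [NormedAddCommGroup E] [NormedSpace ℝ E]

/-- the mean as an integral against `P` -/
theorem pvtcMean_eq_smul (P : Measure Ω) {r : Ω × Ω → Ω} (hr : Measurable r) {W : Ω → ℝ≥0∞} (hW : Measurable W) (Y : Ω → E) (x : Ω)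
    (hfin : ∫⁻ y, W (r (x, y)) ∂P ≠ ∞) :
    pvtcMean P r W Y x = ∫ y, (W (r (x, y))).toReal • Y (r (x, y)) ∂P := by
  have hWx : Measurable fun y => W (r (x, y)) := hW.comp (hr.comp measurable_prodMk_left)
  exact integral_withDensity_eq_integral_toReal_smul hWx (ae_lt_top hWx hfin) _

theorem pvtc_stronglyMeasurable_smul (P : Measure Ω) [SFinite P] {r : Ω × Ω → Ω} (hr : Measurable r) {W : Ω → ℝ≥0∞} (hW : Measurable W)
    {Y : Ω → E} (hY : StronglyMeasurable Y) : StronglyMeasurable fun x => ∫ y, (W (r (x, y))).toReal • Y (r (x, y)) ∂P := by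
  have h1 : StronglyMeasurable fun z : Ω × Ω => (W (r z)).toReal • Y (r z) :=
    ((hW.comp hr).ennreal_toReal.stronglyMeasurable).smul (hY.comp_measurable hr)
  have h2 := h1.integral_prod_right' (ν := P)
  exact h2

end RS2

namespace PvtcSys

variable {ι : Type*} [Fintype ι] [DecidableEq ι] {T : Type*} {E : Type*} [MeasurableSpace T] {𝔖 : PvtcSys ι T E}
variable [NormedAddCommGroup E] [NormedSpace ℝ E] {Cu Cf : Finset ι} {q : ι → ℝ≥0∞}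

/-- a strongly measurable version of `y_c`, equal to it on `G_t × G_s` -/
noncomputable def y' (𝔖 : PvtcSys ι T E) (Cu Cf : Finset ι) (x : ι → T) : E :=
  ∫ y, (𝔖.W Cu Cf (pvtMix (Cu ∪ Cf) x y)).toReal • 𝔖.Y Cf (pvtMix (Cu ∪ Cf) x y) ∂𝔖.law

theorem Ok.stronglyMeasurable_y' (h : 𝔖.Ok Cu Cf q) : StronglyMeasurable (𝔖.y' Cu Cf) := by
  have := h.prob
  exact pvtc_stronglyMeasurable_smul (Measure.pi 𝔖.ν) (pvtc_measurable_mix (Cu ∪ Cf)) (h.measurable_W Cu Cf) (h.stronglyMeasurable_Y Cf)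

theorem Ok.y_eq_y' (h : 𝔖.Ok Cu Cf q) {x : ι → T} (hx : x ∈ 𝔖.ends Cu Cf) : 𝔖.y Cu Cf x = 𝔖.y' Cu Cf x :=
  pvtcMean_eq_smul _ (pvtc_measurable_mix (Cu ∪ Cf)) (h.measurable_W Cu Cf) _ x (by
    have := h.lintegral_W hx
    rw [this]; exact ENNReal.one_ne_top)

variable [CompleteSpace E]

/-- **TR3 on an abstract probability space**: the coordinates `c i : Ω → T` are independent with laws `ν i`. -/
theorem Ok.n1_map (h : 𝔖.Ok Cu Cf q) {Ω : Type*} [MeasurableSpace Ω] (P : Measure Ω) {c : Ω → ι → T} (hc : Measurable c)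
    (hlaw : P.map c = 𝔖.law) (n : ℕ) {B : Set (ι → T)} (hB : MeasurableSet B) (hBe : B ⊆ 𝔖.ends Cu Cf)
    (hBr : ∀ x y, pvtMix (Cu ∪ Cf) x y ∈ B ↔ x ∈ B)
    {X : (ι → T) → E} (hX : StronglyMeasurable X) (hXr : ∀ x y, X (pvtMix (Cu ∪ Cf) x y) = X x) :
    ∫⁻ ω in c ⁻¹' B, ‖X (c ω) + 𝔖.y Cu Cf (c ω)‖ₑ ^ n ∂P
      ≤ 𝔖.D Cu Cf q * ∫⁻ ω in c ⁻¹' (B ∩ 𝔖.good Cu Cf), ‖X (c ω) + 𝔖.Y Cf (c ω)‖ₑ ^ n ∂P := by
  have key := h.n1 n hB hBe hBr hX hXr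
  have h1 : Measurable fun x => ‖X x + 𝔖.y' Cu Cf x‖ₑ ^ n := (hX.add h.stronglyMeasurable_y').enorm.pow_const n
  have h2 : Measurable fun x => ‖X x + 𝔖.Y Cf x‖ₑ ^ n := (hX.add (h.stronglyMeasurable_Y Cf)).enorm.pow_const n
  have e1 : ∫⁻ x in B, ‖X x + 𝔖.y Cu Cf x‖ₑ ^ n ∂𝔖.law = ∫⁻ x in B, ‖X x + 𝔖.y' Cu Cf x‖ₑ ^ n ∂𝔖.law :=
    setLIntegral_congr_fun hB fun x hx => by rw [h.y_eq_y' (hBe hx)]
  have e2 : ∫⁻ ω in c ⁻¹' B, ‖X (c ω) + 𝔖.y Cu Cf (c ω)‖ₑ ^ n ∂P = ∫⁻ ω in c ⁻¹' B, ‖X (c ω) + 𝔖.y' Cu Cf (c ω)‖ₑ ^ n ∂P :=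
    setLIntegral_congr_fun (hc hB) fun ω hω => by rw [h.y_eq_y' (hBe hω)]
  rw [e1, ← hlaw, setLIntegral_map hB h1 hc, setLIntegral_map (hB.inter (h.measurableSet_good Cu Cf)) h2 hc] at key
  rw [e2]
  exact key

end PvtcSys

theorem pvtcy_eqns_cite3 : True := by
  have := @PvtcSys.y'.eq_1.{0, 0, 0}
  trivial

end Claimed.Agent.R289
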