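import Claimed.Agent.R289.Tr.BrHyb
import Claimed.Agent.R289.Tr.DomCov

/-!
# Row 289 (S0537), THE WALL, engine, file Tr/TopE : PRODUCERS FOR `Tr/Top` AT CONSTANT FRESH REGIONS      (helper178, post Z2 of 82: second of 129; prefix `pvl4_`, `pvl4`, `Pvl4`)

`Tr/InstL` (168, InstE v2): inside ONE experiment every end link is a `PvkyEnd` with a CONSTANT fresh region `y = mouth \ F0`, its event and its value are EXACT readers of a deterministic window.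
`Tr/Top` (129) asks finite fresh sets `F : Conf PvPt → Finset ℂ`, pointwise `Pvl3Ig` clauses on a class `B`.      THIS FILE is the model free passage.      0 sorry

* sec. 1  atoms and windows: `pvl4_restr_kR`, **`pvl4_ig`** (an exact reader of a window off the atom ignores the atom)
* sec. 2  **`pvl4F y ω`** = the sites of `ω` in the region `y`, as a `Finset`;   `pvl4_F_coe`, `pvl4_F_sub`, **`pvl4_F_ig`** (STOP is free)
* sec. 3  THE BRIDGE at a constant region: **`pvl4_R`**, **`pvl4_hat`**, **`pvl4_P`**, **`pvl4_V`**, `pvl4_fn_R`, `pvl4_hat_congr_ae`;   `pvl4End b K y A X : Pvl3End`;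
          **`pvl4_K1`** (one hybrid link + one integrated plug `(O, G)`: `pvdyHat` with the weight `1_G (fl η) / P(G) * pvdyW .. η` at `ω` `= pvl3K1` at `fl ω`: serves `ke`), **`pvl4_kyK`** (`pvkyK kit ε b ⟨K, fun _ => y, A, X⟩ z d ω = pvl3K1 ..  (fl ω)`: serves `kout kin`)
* sec. 4  **`Pvl4Win S y Wh`** (windows of a hybrid system: measurability on configurations, exact readers, disjointness of plane sets) `⟹` **`Pvl4Win.wf`**, **`Pvl4Win.fld`**, `.ig_L`, `.ig_P`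
* sec. 5  the class **`pvl4Cl Z Y σ`** of a base configuration (same configuration over `Z` up to the colours of `Y`): `pvl4_cl_self` (field `mem`), `pvl4_cl_atom`, `pvl4_cl_const`, `pvl4_cl_reads`, `pvl4_cl_sites`, `pvl4_cl_F`, **`Pvl4Win.wf_cl`**
* sec. 6  **`pvl4_stop_fam`** : `Pvl3Stop B C (fun σ => (S σ).Fs σ) frz` for a base-indexed family with fresh regions, from a colour cylinder datum
-/

set_option autoImplicit false
set_option linter.unusedSectionVars false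

namespace Claimed.Agent.R289

open MeasureTheory Set Claims.C0465
open scoped ENNReal

/-! ## 1. atoms and windows -/

theorem pvl4_prod_univ (W : Set ℂ) : (W ×ˢ (univ : Set Bool) : Set PvPt) = Prod.fst ⁻¹' W := by
  ext p
  simp only [mem_prod, mem_univ, and_true, mem_preimage]

/-- the splice in `K` is not seen in a window off `K` -/
theorem pvl4_restr_spl {W K : Set ℂ} (hK : Disjoint W K) (σ η : Conf PvPt) :
    Conf.restr (Prod.fst ⁻¹' W) (pvtkR (Prod.fst ⁻¹' K) (σ, η)) = Conf.restr (Prod.fst ⁻¹' W) σ := by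
  ext p
  have h : p.1 ∈ W → p.1 ∉ K := fun h1 h2 => Set.disjoint_left.1 hK h1 h2
  simp only [Conf.restr, mem_inter_iff, pvtk_mem_R, mem_preimage]
  tauto

/-- an atom `(K, A)` is not seen in a window off `K` and off `A` -/
theorem pvl4_restr_kR {W K A : Set ℂ} (hK : Disjoint W K) (hA : Disjoint W A) (σ : Conf PvPt) (x : PvthSd) :
    Conf.restr (W ×ˢ (univ : Set Bool)) (pvl3kR K A σ x) = Conf.restr (W ×ˢ (univ : Set Bool)) σ := by
  rw [pvl4_prod_univ]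
  unfold pvl3kR
  rw [pvl3k_restr_rec hA.symm, pvl4_restr_spl hK]

/-- **AN EXACT READER OF A WINDOW OFF THE ATOM IGNORES THE ATOM** -/
theorem pvl4_ig {β : Type*} {B : Set (Conf PvPt)} {W K : Set ℂ} {F : Conf PvPt → Finset ℂ} {f : Conf PvPt → β} (hf : Conf.Reads (W ×ˢ (univ : Set Bool)) f)
    (hK : Disjoint W K) (hF : ∀ σ ∈ B, Disjoint W (↑(F σ) : Set ℂ)) : Pvl3Ig B K F f := fun σ hσ x => by
  rw [pvl3k_R_eq]
  exact hf.eq_of_restr (pvl4_restr_kR hK (hF σ hσ) σ x)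

/-- the same for an atom without fresh sites -/
theorem pvl4_ig0 {β : Type*} {B : Set (Conf PvPt)} {W K : Set ℂ} {f : Conf PvPt → β} (hf : Conf.Reads (W ×ˢ (univ : Set Bool)) f) (hK : Disjoint W K) : Pvl3Ig B K pvl3F0 f :=
  pvl4_ig hf hK fun _ _ => by simp [pvl3F0]

/-! ## 2. the finite fresh set of a region -/

open Classical in
/-- **THE SITES OF `ω` IN THE REGION `y`**, as a finite set (`∅` if there are infinitely many) -/
noncomputable def pvl4F (y : Set ℂ) (ω : Conf PvPt) : Finset ℂ := if h : (cfSites ω ∩ y).Finite then h.toFinset else ∅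

theorem pvl4_eqns_cite : True := by
  have := @pvl4F.eq_1
  trivial

theorem pvl4_F_coe {y : Set ℂ} {ω : Conf PvPt} (h : (cfSites ω ∩ y).Finite) : (↑(pvl4F y ω) : Set ℂ) = cfSites ω ∩ y := by
  unfold pvl4F
  rw [dif_pos h, Set.Finite.coe_toFinset]

theorem pvl4_F_sub' (y : Set ℂ) (ω : Conf PvPt) : (↑(pvl4F y ω) : Set ℂ) ⊆ cfSites ω ∩ y := by
  by_cases h : (cfSites ω ∩ y).Finite
  · rw [pvl4_F_coe h]
  · unfold pvl4F
    rw [dif_neg h]
    simp

theorem pvl4_F_sub (y : Set ℂ) (ω : Conf PvPt) : (↑(pvl4F y ω) : Set ℂ) ⊆ y := fun _ h => (pvl4_F_sub' y ω h).2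

theorem pvl4_F_congr {y : Set ℂ} {ω ω' : Conf PvPt} (h : cfSites ω ∩ y = cfSites ω' ∩ y) : pvl4F y ω = pvl4F y ω' := by
  by_cases h1 : (cfSites ω ∩ y).Finite
  · refine Finset.coe_injective ?_
    rw [pvl4_F_coe h1, pvl4_F_coe (h ▸ h1), h]
  · unfold pvl4F
    rw [dif_neg h1, dif_neg (h ▸ h1)]

theorem pvl4_F_disj {y S : Set ℂ} (h : Disjoint y S) (ω : Conf PvPt) : Disjoint (↑(pvl4F y ω) : Set ℂ) S := h.mono_left (pvl4_F_sub y ω)

theorem pvl4_F_disj' {y y' : Set ℂ} (h : Disjoint y y') (ω : Conf PvPt) : Disjoint (pvl4F y ω) (pvl4F y' ω) :=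
  Finset.disjoint_coe.1 (h.mono (pvl4_F_sub y ω) (pvl4_F_sub y' ω))

theorem pvl4_sites_rec (A : Set ℂ) (u : ℂ → Bool) (σ : Conf PvPt) : cfSites (pvthRec A u σ) = cfSites σ := by
  show Prod.fst '' (pvthCol A u '' σ.pts) = Prod.fst '' σ.pts
  rw [Set.image_image]
  rfl

theorem pvl4_sites_kR {y K : Set ℂ} (hd : Disjoint y K) (A : Set ℂ) (σ : Conf PvPt) (x : PvthSd) : cfSites (pvl3kR K A σ x) ∩ y = cfSites σ ∩ y := by
  unfold pvl3kR
  rw [pvl4_sites_rec]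
  ext z
  constructor
  · rintro ⟨⟨p, hp, rfl⟩, hz⟩
    rcases pvtk_mem_R.1 hp with h | h
    · exact ⟨⟨p, h.1, rfl⟩, hz⟩
    · exact absurd h.2 (Set.disjoint_left.1 hd hz)
  · rintro ⟨⟨p, hp, rfl⟩, hz⟩
    exact ⟨⟨p, pvtk_mem_R.2 (Or.inl ⟨hp, Set.disjoint_left.1 hd hz⟩), rfl⟩, hz⟩

/-- **STOP IS FREE**: the fresh set of a region ignores every atom whose resampled region is off the region -/
theorem pvl4_F_ig {B : Set (Conf PvPt)} {y K : Set ℂ} (F' : Conf PvPt → Finset ℂ) (hd : Disjoint y K) : Pvl3Ig B K F' (pvl4F y) := fun σ _ x => by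
  rw [pvl3k_R_eq]
  exact pvl4_F_congr (pvl4_sites_kR hd _ σ x)

/-- the field `Fig` of `Pvl4Win` for `pvl4F y` -/
theorem pvl4_Fig (y : Set ℂ) (K : Set ℂ) (F' : Conf PvPt → Finset ℂ) (hd : Disjoint y K) (σ : Conf PvPt) (x : PvthSd) : pvl4F y (pvthR K F' σ x) = pvl4F y σ :=
  pvl4_F_ig (B := univ) F' hd σ (mem_univ _) x

/-- a recolouring does not change the fresh set of a region -/
theorem pvl4_F_rec (y T : Set ℂ) (u : ℂ → Bool) (σ : Conf PvPt) : pvl4F y (pvthRec T u σ) = pvl4F y σ := pvl4_F_congr (by rw [pvl4_sites_rec])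

/-! ## 3. the bridge at a constant region -/

theorem pvl4_dyRec_inter (y : Set ℂ) (ω : Conf PvPt) (κ : ℂ → Bool) : pvdyRec (cfSites ω ∩ y) ω κ = pvdyRec y ω κ := by
  unfold pvdyRec
  refine pvdy_cfOf_congr fun z hz => ?_
  by_cases h : z ∈ y
  · rw [pvfqMix_of_mem h, pvfqMix_of_mem (show z ∈ cfSites ω ∩ y from ⟨hz, h⟩)]
  · rw [pvfqMix_of_notMem h, pvfqMix_of_notMem (show z ∉ cfSites ω ∩ y from fun hh => h hh.2)]

/-- **(B2) AT A CONSTANT REGION** -/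
theorem pvl4_R {C y : Set ℂ} {σ : Conf PvPt} (h : PvhyFn σ) (hf : (cfSites σ ∩ y).Finite) (hd : Disjoint y C) (x : PvthSd) :
    pvthR C (pvl4F y) σ x = pvdyR C (fun _ => y) σ (x.2, x.1) := by
  rw [pvhy_R h (pvl4_F_disj hd σ)]
  unfold pvdyR
  dsimp only
  rw [pvl4_F_coe hf, pvl4_dyRec_inter]

section b4

variable {ε : ℝ} {C y : Set ℂ} {σ : Conf PvPt}

/-- **(B4) AT A CONSTANT REGION, the mean** -/
theorem pvl4_hat (ε : ℝ) (h : PvhyFn σ) (hf : (cfSites σ ∩ y).Finite) (hd : Disjoint y C) (w : Conf PvPt → ℝ≥0∞) (Y : Conf PvPt → ℂ) :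
    pvl3Hat ε C (pvl4F y) w Y σ = pvdyHat ε C (fun _ => y) w Y σ := by
  rw [pvdy_hat_eq]
  show ∫ x, Y (pvthR C (pvl4F y) σ x) ∂((pvthSeed ε).withDensity fun x => w (pvthR C (pvl4F y) σ x)) = _
  rw [pvhy_integral_seed]
  have e : ∀ p : (ℂ → Bool) × Conf PvPt, pvthR C (pvl4F y) σ (p.2, p.1) = pvdyR C (fun _ => y) σ p := fun p => pvl4_R h hf hd (p.2, p.1)
  simp only [e]

/-- (B4), integrals of ANY function -/
theorem pvl4_lintegral (ε : ℝ) (h : PvhyFn σ) (hf : (cfSites σ ∩ y).Finite) (hd : Disjoint y C) (f : Conf PvPt → ℝ≥0∞) :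
    ∫⁻ x, f (pvthR C (pvl4F y) σ x) ∂(pvthSeed ε) = ∫⁻ p, f (pvdyR C (fun _ => y) σ p) ∂(pvdyNu ε) := by
  rw [pvhy_lintegral_seed]
  exact lintegral_congr fun p => by rw [pvl4_R h hf hd]

/-- **(B4) AT A CONSTANT REGION, the conditional probability** -/
theorem pvl4_P (ε : ℝ) (hC : MeasurableSet C) (h : PvhyFn σ) (hf : (cfSites σ ∩ y).Finite) (hd : Disjoint y C) {A : Set (Conf PvPt)} (mA : MeasurableSet A) :
    pvl3P ε C (pvl4F y) A σ = pvdyQ ε C (fun _ => y) A σ := by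
  rw [pvhy_P ε hC h (pvl4_F_disj hd σ) mA]
  unfold pvdyQ
  congr 1
  ext p
  simp only [mem_ofPred_eq]
  unfold pvdyR
  dsimp only
  rw [pvl4_F_coe hf, pvl4_dyRec_inter]

/-- **(B4) AT A CONSTANT REGION, the weight of a forced link** -/
theorem pvl4_V (ε : ℝ) (hC : MeasurableSet C) (h : PvhyFn σ) (hf : (cfSites σ ∩ y).Finite) (hd : Disjoint y C) {A : Set (Conf PvPt)} (mA : MeasurableSet A) :
    pvl3V ε C (pvl4F y) A σ = pvdyW ε C (fun _ => y) A σ := by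
  unfold pvl3V pvdyW
  rw [pvl4_P ε hC h hf hd mA]

end b4

/-! ### functional configurations along the experiment -/

theorem pvl4_fn_of_one {η : Conf PvPt} (h : ∀ p ∈ η.pts, ∀ q ∈ η.pts, p.1 = q.1 → p = q) : PvhyFn η := by
  classical
  unfold PvhyFn
  ext ⟨z, c⟩
  rw [cfOf_mem]
  constructor
  · rintro ⟨⟨⟨z', c'⟩, hq, rfl⟩, h2⟩
    have h3 : c = decide (((z', true) : PvPt) ∈ η.pts) := h2
    by_cases ht : ((z', true) : PvPt) ∈ η.pts
    · rw [h3, decide_eq_true ht]; exact ht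
    · rw [h3, decide_eq_false ht]
      cases c'
      · exact hq
      · exact absurd hq ht
  · intro hq
    refine ⟨⟨(z, c), hq, rfl⟩, ?_⟩
    show c = decide (((z, true) : PvPt) ∈ η.pts)
    by_cases ht : ((z, true) : PvPt) ∈ η.pts
    · rw [decide_eq_true ht]
      exact congrArg Prod.snd (h _ hq _ ht rfl)
    · rw [decide_eq_false ht]
      cases c
      · rfl
      · exact absurd hq ht

theorem pvl4_fn_ae (ε : ℝ) : ∀ᵐ η ∂(pvP ε), PvhyFn η := (delgp_ae_conf ε).mono fun _ h => pvl4_fn_of_one h.2.2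

theorem pvl4_fn_seed (ε : ℝ) : ∀ᵐ x ∂(pvthSeed ε), PvhyFn x.1 := by
  have := (pv_isPpp ε).prob
  unfold pvthSeed
  exact Measure.quasiMeasurePreserving_fst.ae (pvl4_fn_ae ε)

theorem PvhyFn.dv {η : Conf PvPt} (h : PvhyFn η) : PvdvFn η := ⟨_, _, h.symm⟩

theorem PvdvFn.hy {η : Conf PvPt} (h : PvdvFn η) : PvhyFn η := by
  obtain ⟨Y, s, rfl⟩ := h
  exact pvhy_fn_cfOf Y s

theorem PvhyFn.fl {η : Conf PvPt} (h : PvhyFn η) (b : Bool) : PvhyFn (pvkyFl b η) := (h.dv.fl b).hy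

theorem pvl4_sites_fl (b : Bool) (η : Conf PvPt) : cfSites (pvkyFl b η) = cfSites η := by
  ext z
  constructor
  · rintro ⟨p, hp, rfl⟩
    exact ⟨_, pvky_mem_fl.1 hp, rfl⟩
  · rintro ⟨p, hp, rfl⟩
    refine ⟨(p.1, p.2 == b), pvky_mem_fl.2 ?_, rfl⟩
    have e : ((p.2 == b) == b) = p.2 := by cases p.2 <;> cases b <;> rfl
    show (p.1, ((p.2 == b) == b)) ∈ η.pts
    rw [e]
    exact hp

theorem pvl4_F_fl (b : Bool) (y : Set ℂ) (η : Conf PvPt) : pvl4F y (pvkyFl b η) = pvl4F y η := pvl4_F_congr (by rw [pvl4_sites_fl])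

/-- the resampled configuration is functional as soon as the base and the seed are -/
theorem pvl4_fn_R {C : Set ℂ} {F : Conf PvPt → Finset ℂ} {σ : Conf PvPt} (h : PvhyFn σ) (hd : Disjoint (↑(F σ) : Set ℂ) C) {x : PvthSd} (hx : PvhyFn x.1) : PvhyFn (pvthR C F σ x) := by
  rw [pvhy_R h hd]
  unfold pvdyR pvdyRec
  dsimp only
  rw [← hx, pvdy_spl_cfOf]
  exact pvhy_fn_cfOf _ _

/-- the mean of record only sees the weight along the experiment, almost surely -/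
theorem pvl4_hat_congr_ae {ε : ℝ} {C : Set ℂ} {F : Conf PvPt → Finset ℂ} {w w' : Conf PvPt → ℝ≥0∞} (Y : Conf PvPt → ℂ) {σ : Conf PvPt}
    (h : ∀ᵐ x ∂(pvthSeed ε), w (pvthR C F σ x) = w' (pvthR C F σ x)) : pvl3Hat ε C F w Y σ = pvl3Hat ε C F w' Y σ := by
  show ∫ x, Y (pvthR C F σ x) ∂((pvthSeed ε).withDensity fun x => w (pvthR C F σ x)) = ∫ x, Y (pvthR C F σ x) ∂((pvthSeed ε).withDensity fun x => w' (pvthR C F σ x))
  rw [withDensity_congr_ae h]

/-! ### the end links -/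

/-- **THE END LINK OF `Tr/Top`** of an end link `(K, y, A, X)` of 218 / 168 with a CONSTANT fresh region, read in the colours of the rim (`b = true`: black) -/
noncomputable def pvl4End (b : Bool) (K y : Set ℂ) (A : Set (Conf PvPt)) (X : Conf PvPt → ℂ) : Pvl3End where
  K := K
  F := pvl4F y
  A := pvkyFl b ⁻¹' A
  XQ := fun η => X (pvkyFl b η)
  XV := fun _ => 0

theorem pvl4_eqns_cite2 : True := by
  have := @pvl4End.eq_1
  trivial

theorem pvl4_end_X (b : Bool) (K y : Set ℂ) (A : Set (Conf PvPt)) (X : Conf PvPt → ℂ) (a : ℂ) : (pvl4End b K y A X).X a = fun η => X (pvkyFl b η) := by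
  funext η
  simp [Pvl3End.X, pvl4End]

/-- the weight of a forced link, flipped -/
theorem pvl4_V_fl (ε : ℝ) (b : Bool) {K y : Set ℂ} (hK : MeasurableSet K) {A : Set (Conf PvPt)} (mA : MeasurableSet A) {η : Conf PvPt} (h : PvhyFn η) (hf : (cfSites η ∩ y).Finite)
    (hd : Disjoint y K) : pvl3V ε K (pvl4F y) (pvkyFl b ⁻¹' A) η = pvdyW ε K (fun _ => y) A (pvkyFl b η) := by
  rw [pvl4_V ε hK h hf hd ((measurable_pvkyFl b) mA)]
  have := pvdv_W_fl b ε K (fun _ => y) A (h.fl b).dv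
  rw [pvky_fl_fl] at this
  exact this

/-- **ONE HYBRID LINK WITH ONE INTEGRATED PLUG `(O, G)`**: the mean in the names of 193 / 218 / 168 (weight `g (fl η) * pvdyW .. η`) at `ω` IS `pvl3K1` of 129 at `fl ω` -/
theorem pvl4_K1 (ε : ℝ) (b : Bool) {K y O : Set ℂ} (hK : MeasurableSet K) {A : Set (Conf PvPt)} (mA : MeasurableSet A) (X : Conf PvPt → ℂ) (G : Set (Conf PvPt))
    {ω : Conf PvPt} (h : PvhyFn ω) (hf : (cfSites ω ∩ y).Finite) (hyK : Disjoint y K) (hyO : Disjoint y O) :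
    pvdyHat ε (K ∪ O) (fun _ => y) (fun η => G.indicator 1 (pvkyFl b η) / pvP ε G * pvdyW ε K (fun _ => y) A η) X ω
      = pvl3K1 ε K (pvl4F y) (pvkyFl b ⁻¹' A) O G (fun η => X (pvkyFl b η)) (pvkyFl b ω) := by
  have hd : Disjoint y (K ∪ O) := Set.disjoint_union_right.2 ⟨hyK, hyO⟩
  have hf' : (cfSites (pvkyFl b ω) ∩ y).Finite := by rw [pvl4_sites_fl]; exact hf
  rw [← pvdv_hat_fl b ε (K ∪ O) (fun _ => y) _ X h.dv, ← pvl4_hat ε (h.fl b) hf' hd]
  unfold pvl3K1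
  refine pvl4_hat_congr_ae _ ?_
  filter_upwards [pvl4_fn_seed ε] with x hx
  have h1 : PvhyFn (pvthR (K ∪ O) (pvl4F y) (pvkyFl b ω) x) := pvl4_fn_R (h.fl b) (pvl4_F_disj hd _) hx
  have h2 : (cfSites (pvthR (K ∪ O) (pvl4F y) (pvkyFl b ω) x) ∩ y).Finite := by
    rw [pvl3k_R_eq, pvl4_sites_kR hd]
    exact hf'
  rw [pvl4_V_fl ε b hK mA h1 h2 hyK, pvky_fl_fl]

/-- **`κ_out`, `κ_in` OF 218 / 168 ARE `pvl3K1` OF 129** at the flipped base -/
theorem pvl4_kyK (kit : PvthKit) (ε : ℝ) (b : Bool) {K y : Set ℂ} (hK : MeasurableSet K) {A : Set (Conf PvPt)} (mA : MeasurableSet A) (X : Conf PvPt → ℂ) (z d : ℂ) (hd : ‖d‖ = 1)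
    {ω : Conf PvPt} (h : PvhyFn ω) (hf : (cfSites ω ∩ y).Finite) (hyK : Disjoint y K) (hyO : Disjoint y (pvl3Door kit z d)) :
    pvkyK kit ε b ⟨K, fun _ => y, A, X⟩ z d ω = pvl3K1 ε K (pvl4F y) (pvkyFl b ⁻¹' A) (pvl3Door kit z d) (kit.G z d) (fun η => X (pvkyFl b η)) (pvkyFl b ω) := by
  rw [← pvl4_K1 ε b hK mA X (kit.G z d) h hf hyK hyO, pvth_measure_G kit ε z d hd]
  rfl

/-! ## 4. windows of a hybrid system `⟹` `WF`, `Fld` -/

theorem pvl4_F_empty : pvl4F ∅ = pvl3F0 := by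
  funext ω
  refine Finset.coe_injective ?_
  have := pvl4_F_sub ∅ ω
  simp only [pvl3F0, Finset.coe_empty]
  exact Set.subset_empty_iff.1 this

section win

variable {υ ι : Type} [Fintype υ] [Fintype ι]

/-- **WINDOWS OF A HYBRID SYSTEM WITH FRESH REGIONS**.      `y e` = the fresh REGION of the link `e` (`∅`: no fresh site);   `Wh e` = the KEPT part of its window (hull + mouth of the marked end; `∅` for a link between two integrated plugs).
Everything is measurable ON CONFIGURATIONS and an EXACT reader (soft localisation of 251 / 141 / 168);   all the other clauses are disjointness of plane sets. -/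
structure Pvl4Win (S : Pvl3Sys υ ι) (y Wh : ι → Set ℂ) : Prop where
  mO : ∀ u, MeasurableSet (S.O u)
  mK : ∀ e, MeasurableSet (S.K e)
  mG : ∀ u, MeasurableSet (S.G u)
  mA : ∀ e, MeasurableSet (S.A e)
  rG : ∀ u, Conf.Reads (S.O u ×ˢ (univ : Set Bool)) (fun η => η ∈ S.G u)
  rA : ∀ e, Conf.Reads ((Wh e ∪ S.Ce e) ×ˢ (univ : Set Bool)) (fun η => η ∈ S.A e)
  /-- the fresh sites lie in the fresh region -/
  Fsub : ∀ e ω, (↑(S.F e ω) : Set ℂ) ⊆ y e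
  /-- STOP: the fresh set ignores every atom off the fresh region      (`S.F e` CONSTANT: `fun _ _ _ _ _ => rfl`;   `S.F e = pvl4F (y e)`: `pvl4_Fig`) -/
  Fig : ∀ e (K : Set ℂ) (F' : Conf PvPt → Finset ℂ), Disjoint (y e) K → ∀ σ x, S.F e (pvthR K F' σ x) = S.F e σ
  dOO : ∀ u u', u ≠ u' → Disjoint (S.O u) (S.O u')
  dKK : ∀ e e', e ≠ e' → Disjoint (S.K e) (S.K e')
  dOK : ∀ u e, Disjoint (S.O u) (S.K e)
  yO : ∀ e u, Disjoint (y e) (S.O u)
  yK : ∀ e e', Disjoint (y e) (S.K e')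
  yy : ∀ e e', e ≠ e' → Disjoint (y e) (y e')
  WK : ∀ e e', e ≠ e' → Disjoint (Wh e) (S.K e')
  WO : ∀ e u, u ∉ S.adj e → Disjoint (Wh e) (S.O u)
  Wy : ∀ e e', e ≠ e' → Disjoint (Wh e) (y e')

namespace Pvl4Win

variable {S : Pvl3Sys υ ι} {y Wh : ι → Set ℂ} (h : Pvl4Win S y Wh)
include h

theorem mC : MeasurableSet S.C := (MeasurableSet.iUnion h.mO).union (MeasurableSet.iUnion h.mK)

theorem yC (e : ι) : Disjoint (y e) S.C :=
  Set.disjoint_union_right.2 ⟨Set.disjoint_iUnion_right.2 fun u => h.yO e u, Set.disjoint_iUnion_right.2 fun e' => h.yK e e'⟩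

theorem VK {e e' : ι} (hne : e ≠ e') : Disjoint (Wh e ∪ S.Ce e) (S.K e') :=
  Set.disjoint_union_left.2 ⟨h.WK e e' hne, Set.disjoint_union_left.2 ⟨h.dKK e e' hne, Set.disjoint_iUnion₂_left.2 fun u _ => h.dOK u e'⟩⟩

theorem VO {e : ι} {u : υ} (hu : u ∉ S.adj e) : Disjoint (Wh e ∪ S.Ce e) (S.O u) :=
  Set.disjoint_union_left.2 ⟨h.WO e u hu, Set.disjoint_union_left.2 ⟨(h.dOK u e).symm, Set.disjoint_iUnion₂_left.2 fun u' hu' => h.dOO u' u fun hh => hu (hh ▸ hu')⟩⟩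

theorem Vy {e e' : ι} (hne : e ≠ e') : Disjoint (Wh e ∪ S.Ce e) (y e') :=
  Set.disjoint_union_left.2 ⟨h.Wy e e' hne, Set.disjoint_union_left.2 ⟨(h.yK e' e).symm, Set.disjoint_iUnion₂_left.2 fun u _ => (h.yO e' u).symm⟩⟩

/-- an exact reader of the window of the link `e` ignores the atoms of the other links -/
theorem ig_L {β : Type*} (B : Set (Conf PvPt)) {f : Conf PvPt → β} {e e' : ι} (hf : Conf.Reads ((Wh e ∪ S.Ce e) ×ˢ (univ : Set Bool)) f) (hne : e ≠ e') : Pvl3Ig B (S.K e') (S.F e') f :=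
  pvl4_ig hf (h.VK hne) fun σ _ => (h.Vy hne).mono_right (h.Fsub e' σ)

/-- .. and of the non adjacent plugs -/
theorem ig_P {β : Type*} (B : Set (Conf PvPt)) {f : Conf PvPt → β} {e : ι} {u : υ} (hf : Conf.Reads ((Wh e ∪ S.Ce e) ×ˢ (univ : Set Bool)) f) (hu : u ∉ S.adj e) : Pvl3Ig B (S.O u) pvl3F0 f :=
  pvl4_ig0 hf (h.VO hu)

/-- **`WF` FROM WINDOWS**, any class stable under the atoms -/
theorem wf {B : Set (Conf PvPt)} (B_L : ∀ e, ∀ σ ∈ B, ∀ x, pvthR (S.K e) (S.F e) σ x ∈ B) (B_P : ∀ u, ∀ σ ∈ B, ∀ x, pvthR (S.O u) pvl3F0 σ x ∈ B) : S.WF B where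
  mO := h.mO
  mK := h.mK
  mG := h.mG
  mA := fun e σ _ => (pvth_R_measurable h.mC S.Fs σ) (h.mA e)
  dOO := h.dOO
  dKK := h.dKK
  dOK := h.dOK
  dF := fun e σ _ => (h.yC e).mono_left (h.Fsub e σ)
  dFF := fun e e' hne σ _ => Finset.disjoint_coe.1 ((h.yy e e' hne).mono (h.Fsub e σ) (h.Fsub e' σ))
  B_L := B_L
  B_P := B_P
  rG := h.rG
  F_L := fun e e' σ _ x => h.Fig e _ _ (h.yK e e') σ x
  F_P := fun e u σ _ x => h.Fig e _ _ (h.yO e u) σ x
  A_L := fun _ _ hne => h.ig_L B (h.rA _) hne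
  A_P := fun _ _ hu => h.ig_P B (h.rA _) hu

/-- **`Fld` FROM WINDOWS** -/
theorem fld (B : Set (Conf PvPt)) {X : ι → Conf PvPt → ℂ} (mX : ∀ e, Measurable (X e)) (rX : ∀ e, Conf.Reads ((Wh e ∪ S.Ce e) ×ˢ (univ : Set Bool)) (X e)) : S.Fld B X where
  meas := fun e σ _ => (mX e).comp (pvth_R_measurable h.mC S.Fs σ)
  X_L := fun _ _ hne => h.ig_L B (rX _) hne
  X_P := fun _ _ hu => h.ig_P B (rX _) hu

end Pvl4Win

end win

/-! ## 5. the class of a base configuration -/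

/-- **THE CLASS OF THE BASE `σ`**: the same configuration over `Z`, up to the colours of the sites of `Y` -/
def pvl4Cl (Z Y : Set ℂ) (σ : Conf PvPt) : Set (Conf PvPt) :=
  {ω | Conf.restr (Prod.fst ⁻¹' Z) (pvthRec Y (fun _ => true) ω) = Conf.restr (Prod.fst ⁻¹' Z) (pvthRec Y (fun _ => true) σ)}

theorem pvl4_eqns_cite3 : True := by
  have := @pvl4Cl.eq_1
  trivial

theorem pvl4_cl_self (Z Y : Set ℂ) (σ : Conf PvPt) : σ ∈ pvl4Cl Z Y σ := rfl

theorem pvl4_rec_congr {A : Set ℂ} {u u' : ℂ → Bool} (h : ∀ z ∈ A, u z = u' z) (σ : Conf PvPt) : pvthRec A u σ = pvthRec A u' σ := by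
  classical
  refine Conf.ext ?_
  show pvthCol A u '' σ.pts = pvthCol A u' '' σ.pts
  refine Set.image_congr fun p _ => ?_
  unfold pvthCol
  by_cases hp : p.1 ∈ A
  · rw [if_pos hp, if_pos hp, h _ hp]
  · rw [if_neg hp, if_neg hp]

/-- a recolouring inside `Y` is erased by the recolouring of `Y` -/
theorem pvl4_rec_absorb {A Y : Set ℂ} (hA : A ⊆ Y) (u t : ℂ → Bool) (ρ : Conf PvPt) : pvthRec Y t (pvthRec A u ρ) = pvthRec Y t ρ := by
  rw [pvl3k_rec_rec, Set.union_eq_self_of_subset_left hA]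
  exact pvl4_rec_congr (fun z hz => pvfqMix_of_notMem (show z ∉ Yᶜ from fun hh => hh hz) _) ρ

theorem pvl4_restr_rec_comm (Z Y : Set ℂ) (t : ℂ → Bool) (ρ : Conf PvPt) :
    Conf.restr (Prod.fst ⁻¹' Z) (pvthRec Y t ρ) = pvthRec Y t (Conf.restr (Prod.fst ⁻¹' Z) ρ) := by
  refine Conf.ext ?_
  show pvthCol Y t '' ρ.pts ∩ Prod.fst ⁻¹' Z = pvthCol Y t '' (ρ.pts ∩ Prod.fst ⁻¹' Z)
  ext r
  constructor
  · rintro ⟨⟨p, hp, rfl⟩, hr⟩
    exact ⟨p, ⟨hp, hr⟩, rfl⟩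
  · rintro ⟨p, ⟨hp, hr⟩, rfl⟩
    exact ⟨⟨p, hp, rfl⟩, hr⟩

/-- **the class is stable under the atoms** off `Z` whose fresh sites lie in `Y` -/
theorem pvl4_cl_kR {Z Y K A : Set ℂ} (hK : Disjoint Z K) (hA : A ⊆ Y) {σ ω : Conf PvPt} (h : ω ∈ pvl4Cl Z Y σ) (x : PvthSd) : pvl3kR K A ω x ∈ pvl4Cl Z Y σ := by
  have h' : Conf.restr (Prod.fst ⁻¹' Z) (pvthRec Y (fun _ => true) ω) = Conf.restr (Prod.fst ⁻¹' Z) (pvthRec Y (fun _ => true) σ) := h
  show Conf.restr (Prod.fst ⁻¹' Z) (pvthRec Y (fun _ => true) (pvl3kR K A ω x)) = _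
  unfold pvl3kR
  rw [pvl4_rec_absorb hA, pvl4_restr_rec_comm, pvl4_restr_spl hK, ← pvl4_restr_rec_comm, h']

theorem pvl4_cl_atom {Z Y K : Set ℂ} {F : Conf PvPt → Finset ℂ} (hK : Disjoint Z K) {σ ω : Conf PvPt} (hF : (↑(F ω) : Set ℂ) ⊆ Y) (h : ω ∈ pvl4Cl Z Y σ) (x : PvthSd) :
    pvthR K F ω x ∈ pvl4Cl Z Y σ := by
  rw [pvl3k_R_eq]
  exact pvl4_cl_kR hK hF h x

/-- a function which reads a window inside `Z` and is blind to the colours of `Y` is constant on the class -/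
theorem pvl4_cl_const {β : Type*} {Z Y : Set ℂ} {f : Conf PvPt → β} (hf : Conf.Reads (Z ×ˢ (univ : Set Bool)) f) (hb : ∀ ρ, f (pvthRec Y (fun _ => true) ρ) = f ρ)
    {σ ω : Conf PvPt} (h : ω ∈ pvl4Cl Z Y σ) : f ω = f σ := by
  rw [← hb ω, ← hb σ]
  refine hf.eq_of_restr ?_
  rw [pvl4_prod_univ]
  exact h

/-- a reader of a window inside `Z`, off `Y`, is constant on the class -/
theorem pvl4_cl_reads {β : Type*} {Z Y W : Set ℂ} {f : Conf PvPt → β} (hf : Conf.Reads (W ×ˢ (univ : Set Bool)) f) (hW : W ⊆ Z) (hY : Disjoint W Y)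
    {σ ω : Conf PvPt} (h : ω ∈ pvl4Cl Z Y σ) : f ω = f σ :=
  pvl4_cl_const (hf.mono (Set.prod_mono hW subset_rfl)) (fun ρ => hf.eq_of_restr (by rw [pvl4_prod_univ]; exact pvl3k_restr_rec hY.symm _ ρ)) h

theorem pvl4_cl_sites {Z Y : Set ℂ} {σ ω : Conf PvPt} (h : ω ∈ pvl4Cl Z Y σ) : cfSites ω ∩ Z = cfSites σ ∩ Z := by
  have key : ∀ ρ : Conf PvPt, cfSites (Conf.restr (Prod.fst ⁻¹' Z) (pvthRec Y (fun _ => true) ρ)) = cfSites ρ ∩ Z := by
    intro ρ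
    rw [pvl4_restr_rec_comm, pvl4_sites_rec]
    ext z
    constructor
    · rintro ⟨p, ⟨hp, hz⟩, rfl⟩
      exact ⟨⟨p, hp, rfl⟩, hz⟩
    · rintro ⟨⟨p, hp, rfl⟩, hz⟩
      exact ⟨p, ⟨hp, hz⟩, rfl⟩
  rw [← key ω, ← key σ]
  exact congrArg cfSites h

theorem pvl4_cl_F {Z Y y : Set ℂ} (hy : y ⊆ Z) {σ ω : Conf PvPt} (h : ω ∈ pvl4Cl Z Y σ) : pvl4F y ω = pvl4F y σ := by
  refine pvl4_F_congr ?_
  have := pvl4_cl_sites h
  rw [← Set.inter_eq_self_of_subset_right hy, ← Set.inter_assoc, ← Set.inter_assoc, this]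

/-- **`WF` FROM WINDOWS ON THE CLASS OF A BASE** -/
theorem Pvl4Win.wf_cl {υ ι : Type} [Fintype υ] [Fintype ι] {S : Pvl3Sys υ ι} {y Wh : ι → Set ℂ} (h : Pvl4Win S y Wh) {Z Y : Set ℂ} (hZ : Disjoint Z S.C) (hy : ∀ e, y e ⊆ Y) (σ : Conf PvPt) :
    S.WF (pvl4Cl Z Y σ) :=
  h.wf (fun e ω hω x => pvl4_cl_atom (hZ.mono_right (pvl3k_K_sub e)) ((h.Fsub e ω).trans (hy e)) hω x)
    (fun u ω hω x => pvl4_cl_atom (hZ.mono_right (pvl3k_O_sub u)) (by simp [pvl3F0]) hω x)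

/-! ## 6. the diagonal fresh set of a base-indexed family is a colour stopping set -/

/-- **`Pvl3Stop` FOR A BASE-INDEXED FAMILY WITH FRESH REGIONS** `yd σ e` (`= mouth \ F0 σ`): the model owes a COLOUR CYLINDER datum `frz` (255 `Tr/AtCyl`, 296 `Tr/StopE`):
recolouring off `frz σ` changes neither `B` nor `frz` nor the fresh regions -/
theorem pvl4_stop_fam {υ ι : Type} [Fintype υ] [Fintype ι] (S : Conf PvPt → Pvl3Sys υ ι) (yd : Conf PvPt → ι → Set ℂ) (hF : ∀ σ e, (S σ).F e σ = pvl4F (yd σ e) σ)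
    {B : Set (Conf PvPt)} {C : Set ℂ} {frz : Conf PvPt → Finset ℂ} (mC : MeasurableSet C) (hyC : ∀ σ ∈ B, ∀ e, Disjoint (yd σ e) C) (hfz : ∀ σ ∈ B, ∀ e, Disjoint (↑(frz σ) : Set ℂ) (yd σ e))
    (cyl : ∀ σ ∈ B, ∀ (T : Set ℂ) (u : ℂ → Bool), Disjoint T (↑(frz σ) : Set ℂ) → pvthRec T u σ ∈ B ∧ frz (pvthRec T u σ) = frz σ ∧ ∀ e, yd (pvthRec T u σ) e = yd σ e) :
    Pvl3Stop B C (fun σ => (S σ).Fs σ) frz where
  mC := mC
  dis := fun σ hσ => by
    classical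
    unfold Pvl3Sys.Fs
    rw [Finset.disjoint_biUnion_right]
    intro e _
    rw [hF σ e]
    exact Finset.disjoint_coe.1 ((hfz σ hσ e).mono_right (pvl4_F_sub _ _))
  dF := fun σ hσ => by
    rw [pvl3k_Fs_coe]
    refine Set.disjoint_iUnion_left.2 fun e => ?_
    rw [hF σ e]
    exact pvl4_F_disj (hyC σ hσ e) σ
  cyl := fun σ hσ T u hT => by
    obtain ⟨h1, h2, h3⟩ := cyl σ hσ T u hT
    refine ⟨h1, h2, ?_⟩
    unfold Pvl3Sys.Fs
    refine Finset.biUnion_congr rfl fun e _ => ?_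
    rw [hF, hF, h3 e, pvl4_F_rec]

end Claimed.Agent.R289
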