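-- KEEP
import Claimed.Agent.R289.Tr.TopE

/-!
# Row 289 (S0537), THE WALL, ROAD E, file Tr/CycDW : THE WINDOW RECORD `Pvl4Win` (178, `Tr/TopE`) AT THE `Σ₁` CYCLE AND AT THE BESSEL CYCLE      (helper180, under 115 `Exit/Cyc1`; prefix `pvjh`, `Pvjh`)

MODEL FREE (item (6) of 178: the `Fin` bookkeeping).      For ANY record `E : Pvl3Exp τ δ` (in particular `E.on L σ`):
* sec. 1  the `Σ₁` cycle `E.cycSys m ε z t` read at `ℕ`-indexed names: `pvjhEd` (door `j`), `pvjhEc` (tile of the cell `j`), `pvjhEo` (reference region), `pvjhEk` (tile of the link into it);   evaluation lemmas `pvjh_O_* G_* K_* F_* A_* X_* Ce_*`, `pvjh_sysC`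
* sec. 2  THE INPUT: `PvjhRef` (kit, reference plug, link into it: no `z t σ`), `PvjhEndOk` (ONE end link = exact reader of  kept window `∪` own tile `∪` own plug, fresh sites in the fresh region), `PvjhGeo` (`ℕ`-indexed disjointness of the resampled regions),
  `PvjhWd` (fresh regions and kept windows against the rest)
* sec. 3  **`pvjh_win`** : `Pvl4Win (E.cycSys m ε z t) ..`;   **`pvjh_wf`**, **`pvjh_fld`**, `pvjh_Fs`
* sec. 4  the same for the Bessel cycle `E.thkSys m ε z t`: **`pvjh_winT`**, `pvjh_wfT`, `pvjh_fldT`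
* sec. 5  the fields `mem reg wf fld` of `Pvl3CycOkF` / `Pvl3ThkOkF` for a base-indexed family, class `Bs σ := pvl4Cl Cᶜ (yo σ ∪ ye σ) σ`
-/

set_option autoImplicit false

namespace Claimed.Agent.R289

open MeasureTheory Set
open scoped ENNReal

/-! ## 1. the `Σ₁` cycle at `ℕ`-indexed names -/

section names

variable {τ : Type} {δ : ℕ → ℝ} (E : Pvl3Exp τ δ) (m : ℕ) (ε : ℝ) (z : ℂ) (t : τ)

/-- position of the door number `j` -/
noncomputable def pvjhZ (j : ℕ) : ℂ := pvthZ (E.cells.kit m ε).δ (z + (E.Γ m).pout t) ((E.Γ m).dout t) ((E.Γ m).l1 t) j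
/-- frame of the door number `j` -/
noncomputable def pvjhD (j : ℕ) : ℂ := pvthD ((E.Γ m).dout t) ((E.Γ m).l1 t) j
/-- region of the door number `j` -/
noncomputable def pvjhEd (j : ℕ) : Set ℂ := pvl3Door (E.cells.kit m ε) (pvjhZ E m ε z t j) (pvjhD E m t j)
/-- tile of the cell number `j` -/
noncomputable def pvjhEc (j : ℕ) : Set ℂ := pvthSim (pvjhZ E m ε z t j) (pvjhD E m t j) '' (E.cells.kit m ε).K₀ (pvthL ((E.Γ m).l1 t) j)
/-- region of the reference plug -/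
def pvjhEo : Set ℂ := pvthSim (z + (E.Γ m).zu t) 1 '' E.Ou m ε
/-- tile of the link into the reference plug -/
def pvjhEk : Set ℂ := pvthSim (z + (E.Γ m).zu t) 1 '' E.Kr m ε

theorem pvjh_eqns_cite2 : True := by
  have := @pvjhZ.eq_1; have := @pvjhD.eq_1; have := @pvjhEd.eq_1; have := @pvjhEc.eq_1; have := @pvjhEo.eq_1; have := @pvjhEk.eq_1
  trivial

variable {E m ε z t}

theorem pvjh_cases (e : Fin (((E.Γ m).l1 t).length + 3)) :
    e.val = 0 ∨ (∃ j, j < ((E.Γ m).l1 t).length ∧ e.val = j + 1) ∨ e.val = ((E.Γ m).l1 t).length + 1 ∨ e.val = ((E.Γ m).l1 t).length + 2 := by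
  have := e.2
  rcases Nat.eq_zero_or_pos e.val with h | h
  · exact Or.inl h
  · by_cases h1 : e.val ≤ ((E.Γ m).l1 t).length
    · exact Or.inr (Or.inl ⟨e.val - 1, by omega, by omega⟩)
    · by_cases h2 : e.val = ((E.Γ m).l1 t).length + 1
      · exact Or.inr (Or.inr (Or.inl h2))
      · exact Or.inr (Or.inr (Or.inr (by omega)))

theorem pvjh_casesU (u : Fin (((E.Γ m).l1 t).length + 2)) : u.val ≤ ((E.Γ m).l1 t).length ∨ u.val = ((E.Γ m).l1 t).length + 1 := by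
  have := u.2
  omega

theorem pvjh_O_d {u : Fin (((E.Γ m).l1 t).length + 2)} (h : u.val ≤ ((E.Γ m).l1 t).length) : (E.cycSys m ε z t).O u = pvjhEd E m ε z t u.val := by
  simp only [Pvl3Exp.cycSys, if_pos h]
  rfl

theorem pvjh_O_r {u : Fin (((E.Γ m).l1 t).length + 2)} (h : u.val = ((E.Γ m).l1 t).length + 1) : (E.cycSys m ε z t).O u = pvjhEo E m ε z t := by
  have c : ¬ u.val ≤ ((E.Γ m).l1 t).length := by omega
  simp only [Pvl3Exp.cycSys, if_neg c]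
  rfl

theorem pvjh_G_d {u : Fin (((E.Γ m).l1 t).length + 2)} (h : u.val ≤ ((E.Γ m).l1 t).length) :
    (E.cycSys m ε z t).G u = (E.cells.kit m ε).G (pvjhZ E m ε z t u.val) (pvjhD E m t u.val) := by
  simp only [Pvl3Exp.cycSys, if_pos h]
  rfl

theorem pvjh_G_r {u : Fin (((E.Γ m).l1 t).length + 2)} (h : u.val = ((E.Γ m).l1 t).length + 1) :
    (E.cycSys m ε z t).G u = cfMap (pvthInv (z + (E.Γ m).zu t) 1) ⁻¹' E.Gu m ε := by
  have c : ¬ u.val ≤ ((E.Γ m).l1 t).length := by omega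
  simp only [Pvl3Exp.cycSys, if_neg c]

theorem pvjh_K_o {e : Fin (((E.Γ m).l1 t).length + 3)} (h : e.val = 0) : (E.cycSys m ε z t).K e = (E.out m ε z t).K := by
  simp only [Pvl3Exp.cycSys, if_pos h]

theorem pvjh_K_c {e : Fin (((E.Γ m).l1 t).length + 3)} {j : ℕ} (hj : j < ((E.Γ m).l1 t).length) (h : e.val = j + 1) : (E.cycSys m ε z t).K e = pvjhEc E m ε z t j := by
  have c1 : ¬ e.val = 0 := by omega
  have c2 : e.val ≤ ((E.Γ m).l1 t).length := by omega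
  have c3 : e.val - 1 = j := by omega
  simp only [Pvl3Exp.cycSys, if_neg c1, if_pos c2, c3]
  rfl

theorem pvjh_K_r {e : Fin (((E.Γ m).l1 t).length + 3)} (h : e.val = ((E.Γ m).l1 t).length + 1) : (E.cycSys m ε z t).K e = pvjhEk E m ε z t := by
  have c1 : ¬ e.val = 0 := by omega
  have c2 : ¬ e.val ≤ ((E.Γ m).l1 t).length := by omega
  simp only [Pvl3Exp.cycSys, if_neg c1, if_neg c2, if_pos h]
  rfl

theorem pvjh_K_e {e : Fin (((E.Γ m).l1 t).length + 3)} (h : e.val = ((E.Γ m).l1 t).length + 2) : (E.cycSys m ε z t).K e = (E.thI m ε z t).K := by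
  have c1 : ¬ e.val = 0 := by omega
  have c2 : ¬ e.val ≤ ((E.Γ m).l1 t).length := by omega
  have c3 : ¬ e.val = ((E.Γ m).l1 t).length + 1 := by omega
  simp only [Pvl3Exp.cycSys, if_neg c1, if_neg c2, if_neg c3]

theorem pvjh_F_o {e : Fin (((E.Γ m).l1 t).length + 3)} (h : e.val = 0) : (E.cycSys m ε z t).F e = (E.out m ε z t).F := by
  simp only [Pvl3Exp.cycSys, if_pos h]

theorem pvjh_F_m {e : Fin (((E.Γ m).l1 t).length + 3)} (h0 : e.val ≠ 0) (h : e.val ≤ ((E.Γ m).l1 t).length + 1) : (E.cycSys m ε z t).F e = pvl3F0 := by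
  simp only [Pvl3Exp.cycSys, if_neg h0, if_pos h]

theorem pvjh_F_e {e : Fin (((E.Γ m).l1 t).length + 3)} (h : e.val = ((E.Γ m).l1 t).length + 2) : (E.cycSys m ε z t).F e = (E.thI m ε z t).F := by
  have c1 : ¬ e.val = 0 := by omega
  have c2 : ¬ e.val ≤ ((E.Γ m).l1 t).length + 1 := by omega
  simp only [Pvl3Exp.cycSys, if_neg c1, if_neg c2]

theorem pvjh_A_o {e : Fin (((E.Γ m).l1 t).length + 3)} (h : e.val = 0) : (E.cycSys m ε z t).A e = (E.out m ε z t).A := by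
  simp only [Pvl3Exp.cycSys, if_pos h]

theorem pvjh_A_c {e : Fin (((E.Γ m).l1 t).length + 3)} {j : ℕ} (hj : j < ((E.Γ m).l1 t).length) (h : e.val = j + 1) :
    (E.cycSys m ε z t).A e = (E.cells.kit m ε).A (pvjhZ E m ε z t j) (pvjhD E m t j) (pvthL ((E.Γ m).l1 t) j) := by
  have c1 : ¬ e.val = 0 := by omega
  have c2 : e.val ≤ ((E.Γ m).l1 t).length := by omega
  have c3 : e.val - 1 = j := by omega
  simp only [Pvl3Exp.cycSys, if_neg c1, if_pos c2, c3]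
  rfl

theorem pvjh_A_r {e : Fin (((E.Γ m).l1 t).length + 3)} (h : e.val = ((E.Γ m).l1 t).length + 1) :
    (E.cycSys m ε z t).A e = cfMap (pvthInv (z + (E.Γ m).zu t) 1) ⁻¹' E.Ar m ε := by
  have c1 : ¬ e.val = 0 := by omega
  have c2 : ¬ e.val ≤ ((E.Γ m).l1 t).length := by omega
  simp only [Pvl3Exp.cycSys, if_neg c1, if_neg c2, if_pos h]

theorem pvjh_A_e {e : Fin (((E.Γ m).l1 t).length + 3)} (h : e.val = ((E.Γ m).l1 t).length + 2) : (E.cycSys m ε z t).A e = (E.thI m ε z t).A := by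
  have c1 : ¬ e.val = 0 := by omega
  have c2 : ¬ e.val ≤ ((E.Γ m).l1 t).length := by omega
  have c3 : ¬ e.val = ((E.Γ m).l1 t).length + 1 := by omega
  simp only [Pvl3Exp.cycSys, if_neg c1, if_neg c2, if_neg c3]

theorem pvjh_X_o (a : ℂ) {e : Fin (((E.Γ m).l1 t).length + 3)} (h : e.val = 0) : E.cycX m ε a z t e = (E.out m ε z t).X a := by
  simp only [Pvl3Exp.cycX, if_pos h]

theorem pvjh_X_c (a : ℂ) {e : Fin (((E.Γ m).l1 t).length + 3)} {j : ℕ} (hj : j < ((E.Γ m).l1 t).length) (h : e.val = j + 1) :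
    E.cycX m ε a z t e = pvthX (E.X₀ m ε a) (pvjhZ E m ε z t j) (pvjhD E m t j) (pvthL ((E.Γ m).l1 t) j) := by
  have c1 : ¬ e.val = 0 := by omega
  have c2 : e.val ≤ ((E.Γ m).l1 t).length := by omega
  have c3 : e.val - 1 = j := by omega
  simp only [Pvl3Exp.cycX, if_neg c1, if_pos c2, c3]
  rfl

theorem pvjh_X_r (a : ℂ) {e : Fin (((E.Γ m).l1 t).length + 3)} (h : e.val = ((E.Γ m).l1 t).length + 1) :
    E.cycX m ε a z t e = fun ω => E.Xr m ε a (cfMap (pvthInv (z + (E.Γ m).zu t) 1) ω) := by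
  have c1 : ¬ e.val = 0 := by omega
  have c2 : ¬ e.val ≤ ((E.Γ m).l1 t).length := by omega
  simp only [Pvl3Exp.cycX, if_neg c1, if_neg c2, if_pos h]

theorem pvjh_X_e (a : ℂ) {e : Fin (((E.Γ m).l1 t).length + 3)} (h : e.val = ((E.Γ m).l1 t).length + 2) : E.cycX m ε a z t e = (E.thI m ε z t).X a := by
  have c1 : ¬ e.val = 0 := by omega
  have c2 : ¬ e.val ≤ ((E.Γ m).l1 t).length := by omega
  have c3 : ¬ e.val = ((E.Γ m).l1 t).length + 1 := by omega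
  simp only [Pvl3Exp.cycX, if_neg c1, if_neg c2, if_neg c3]

theorem pvjh_adj (e : Fin (((E.Γ m).l1 t).length + 3)) (u : Fin (((E.Γ m).l1 t).length + 2)) : u ∈ (E.cycSys m ε z t).adj e ↔ (u.val + 1 = e.val ∨ u.val = e.val) := by
  show u ∈ Finset.univ.filter _ ↔ _
  simp

end names


/-! ### the closed regions `Ce`, the resampled region `C` -/

section ce

variable {τ : Type} {δ : ℕ → ℝ} (E : Pvl3Exp τ δ) (m : ℕ) (ε : ℝ) (z : ℂ) (t : τ)

/-- the resampled region of the cycle, explicit -/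
noncomputable def pvjhC : Set ℂ :=
  (E.out m ε z t).K ∪ (E.thI m ε z t).K ∪ pvjhEk E m ε z t ∪ pvjhEo E m ε z t ∪ (⋃ j ∈ Finset.range (((E.Γ m).l1 t).length + 1), pvjhEd E m ε z t j) ∪
    (⋃ j ∈ Finset.range ((E.Γ m).l1 t).length, pvjhEc E m ε z t j)

/-- a family of sets carried by the two end links only -/
def pvjhY (a b : Set ℂ) (n e : ℕ) : Set ℂ := if e = 0 then a else if e = n + 2 then b else ∅

theorem pvjh_eqns_cite3 : True := by
  have := @pvjhC.eq_1; have := @pvjhY.eq_1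
  trivial

theorem pvjh_Y_o (a b : Set ℂ) (n : ℕ) {e : ℕ} (h : e = 0) : pvjhY a b n e = a := by
  unfold pvjhY
  rw [if_pos h]

theorem pvjh_Y_e (a b : Set ℂ) {n e : ℕ} (h : e = n + 2) : pvjhY a b n e = b := by
  unfold pvjhY
  rw [if_neg (by omega), if_pos h]

theorem pvjh_Y_m (a b : Set ℂ) {n e : ℕ} (h0 : e ≠ 0) (h : e ≠ n + 2) : pvjhY a b n e = ∅ := by
  unfold pvjhY
  rw [if_neg h0, if_neg h]

theorem pvjh_Y_sub (a b : Set ℂ) (n e : ℕ) : pvjhY a b n e ⊆ a ∪ b := by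
  unfold pvjhY
  split_ifs
  · exact subset_union_left
  · exact subset_union_right
  · exact empty_subset _

/-- `S.C` is the explicit region -/
theorem pvjh_sysC : (E.cycSys m ε z t).C = pvjhC E m ε z t := by
  unfold Pvl3Sys.C pvjhC
  ext w
  simp only [mem_union, mem_iUnion, Finset.mem_range, exists_prop]
  constructor
  · rintro (⟨u, hu⟩ | ⟨e, he⟩)
    · rcases pvjh_casesU u with h | h
      · rw [pvjh_O_d h] at hu
        exact Or.inl (Or.inr ⟨u.val, Nat.lt_succ_of_le h, hu⟩)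
      · rw [pvjh_O_r h] at hu
        exact Or.inl (Or.inl (Or.inr hu))
    · rcases pvjh_cases e with h | ⟨j, hj, h⟩ | h | h
      · rw [pvjh_K_o h] at he
        exact Or.inl (Or.inl (Or.inl (Or.inl (Or.inl he))))
      · rw [pvjh_K_c hj h] at he
        exact Or.inr ⟨j, hj, he⟩
      · rw [pvjh_K_r h] at he
        exact Or.inl (Or.inl (Or.inl (Or.inr he)))
      · rw [pvjh_K_e h] at he
        exact Or.inl (Or.inl (Or.inl (Or.inl (Or.inr he))))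
  · rintro (((((h | h) | h) | h) | ⟨j, hj, h⟩) | ⟨j, hj, h⟩)
    · refine Or.inr ⟨⟨0, by omega⟩, ?_⟩
      rw [pvjh_K_o rfl]
      exact h
    · refine Or.inr ⟨⟨((E.Γ m).l1 t).length + 2, by omega⟩, ?_⟩
      rw [pvjh_K_e rfl]
      exact h
    · refine Or.inr ⟨⟨((E.Γ m).l1 t).length + 1, by omega⟩, ?_⟩
      rw [pvjh_K_r rfl]
      exact h
    · refine Or.inl ⟨⟨((E.Γ m).l1 t).length + 1, by omega⟩, ?_⟩
      rw [pvjh_O_r rfl]
      exact h
    · refine Or.inl ⟨⟨j, by omega⟩, ?_⟩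
      rw [pvjh_O_d (show j ≤ _ by omega)]
      exact h
    · refine Or.inr ⟨⟨j + 1, by omega⟩, ?_⟩
      rw [pvjh_K_c hj rfl]
      exact h

variable {E m ε z t}

theorem pvjh_Ce_o {e : Fin (((E.Γ m).l1 t).length + 3)} (h : e.val = 0) : (E.cycSys m ε z t).Ce e = (E.out m ε z t).K ∪ pvjhEd E m ε z t 0 := by
  unfold Pvl3Sys.Ce
  rw [pvjh_K_o h]
  congr 1
  ext w
  simp only [mem_iUnion, exists_prop, pvjh_adj]
  constructor
  · rintro ⟨u, hu, hw⟩
    have h0 : u.val = 0 := by omega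
    rw [pvjh_O_d (by omega), h0] at hw
    exact hw
  · intro hw
    refine ⟨⟨0, by omega⟩, Or.inr h.symm, ?_⟩
    rw [pvjh_O_d (Nat.zero_le _)]
    exact hw

theorem pvjh_Ce_c {e : Fin (((E.Γ m).l1 t).length + 3)} {j : ℕ} (hj : j < ((E.Γ m).l1 t).length) (h : e.val = j + 1) :
    (E.cycSys m ε z t).Ce e = pvjhEc E m ε z t j ∪ (pvjhEd E m ε z t j ∪ pvjhEd E m ε z t (j + 1)) := by
  unfold Pvl3Sys.Ce
  rw [pvjh_K_c hj h]
  congr 1
  ext w
  simp only [mem_iUnion, exists_prop, pvjh_adj, mem_union]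
  constructor
  · rintro ⟨u, hu | hu, hw⟩
    · have h0 : u.val = j := by omega
      rw [pvjh_O_d (by omega), h0] at hw
      exact Or.inl hw
    · have h0 : u.val = j + 1 := by omega
      rw [pvjh_O_d (by omega), h0] at hw
      exact Or.inr hw
  · rintro (hw | hw)
    · refine ⟨⟨j, by omega⟩, Or.inl h.symm, ?_⟩
      rw [pvjh_O_d (show j ≤ _ by omega)]
      exact hw
    · refine ⟨⟨j + 1, by omega⟩, Or.inr h.symm, ?_⟩
      rw [pvjh_O_d (show j + 1 ≤ _ by omega)]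
      exact hw

theorem pvjh_Ce_r {e : Fin (((E.Γ m).l1 t).length + 3)} (h : e.val = ((E.Γ m).l1 t).length + 1) :
    (E.cycSys m ε z t).Ce e = pvjhEk E m ε z t ∪ (pvjhEd E m ε z t ((E.Γ m).l1 t).length ∪ pvjhEo E m ε z t) := by
  unfold Pvl3Sys.Ce
  rw [pvjh_K_r h]
  congr 1
  ext w
  simp only [mem_iUnion, exists_prop, pvjh_adj, mem_union]
  constructor
  · rintro ⟨u, hu | hu, hw⟩
    · have h0 : u.val = ((E.Γ m).l1 t).length := by omega
      rw [pvjh_O_d (by omega), h0] at hw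
      exact Or.inl hw
    · rw [pvjh_O_r (by omega)] at hw
      exact Or.inr hw
  · rintro (hw | hw)
    · refine ⟨⟨((E.Γ m).l1 t).length, by omega⟩, Or.inl h.symm, ?_⟩
      rw [pvjh_O_d (le_refl _)]
      exact hw
    · refine ⟨⟨((E.Γ m).l1 t).length + 1, by omega⟩, Or.inr h.symm, ?_⟩
      rw [pvjh_O_r rfl]
      exact hw

theorem pvjh_Ce_e {e : Fin (((E.Γ m).l1 t).length + 3)} (h : e.val = ((E.Γ m).l1 t).length + 2) : (E.cycSys m ε z t).Ce e = (E.thI m ε z t).K ∪ pvjhEo E m ε z t := by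
  unfold Pvl3Sys.Ce
  rw [pvjh_K_e h]
  congr 1
  ext w
  simp only [mem_iUnion, exists_prop, pvjh_adj]
  constructor
  · rintro ⟨u, hu, hw⟩
    have := u.2
    rw [pvjh_O_r (by omega)] at hw
    exact hw
  · intro hw
    refine ⟨⟨((E.Γ m).l1 t).length + 1, by omega⟩, Or.inl h.symm, ?_⟩
    rw [pvjh_O_r rfl]
    exact hw

/-- the last door is the door `(pin0, din0)` seen from the reference plug -/
theorem pvjh_Ed_last : pvjhEd E m ε z t ((E.Γ m).l1 t).length = pvthSim (z + (E.Γ m).zu t) 1 '' pvl3Door (E.cells.kit m ε) (E.Γ m).pin0 (E.Γ m).din0 := by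
  have hZ : pvjhZ E m ε z t ((E.Γ m).l1 t).length = (z + (E.Γ m).zu t) + 1 * (E.Γ m).pin0 := by
    unfold pvjhZ pvthZ
    rw [List.take_length, E.cells.kδ, ← E.Γδ, (E.Γ m).l1_disp]
    ring
  have hDn : pvjhD E m t ((E.Γ m).l1 t).length = 1 * (E.Γ m).din0 := by
    unfold pvjhD pvthD
    rw [List.take_length, (E.Γ m).l1_dir, one_mul]
  unfold pvjhEd
  rw [hZ, hDn]
  unfold pvl3Door
  rw [image_image]
  refine image_congr fun w _ => ?_
  unfold pvthSim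
  ring

theorem pvjh_D_norm (j : ℕ) : ‖pvjhD E m t j‖ = 1 := pvl3_aux_norm_D ((E.Γ m).dout1 t) _ j

theorem pvjh_D_ne0 (j : ℕ) : pvjhD E m t j ≠ 0 := pvth_ne_zero (pvjh_D_norm j)

theorem pvjh_Ed_zero : pvjhEd E m ε z t 0 = pvl3Door (E.cells.kit m ε) (z + (E.Γ m).pout t) ((E.Γ m).dout t) := by
  unfold pvjhEd pvjhZ pvjhD
  rw [pvthx_Z_zero, pvthx_D_zero]

theorem pvjh_Ed_succ {j : ℕ} (hj : j < ((E.Γ m).l1 t).length) :
    pvjhEd E m ε z t (j + 1) = pvl3Door (E.cells.kit m ε) ((E.cells.kit m ε).zo (pvjhZ E m ε z t j) (pvjhD E m t j) (pvthL ((E.Γ m).l1 t) j)) (pvjhD E m t j * (pvthL ((E.Γ m).l1 t) j).rot) := by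
  unfold pvjhEd pvjhZ pvjhD
  rw [pvthx_Z_succ _ _ _ _ hj, pvthx_D_succ _ _ hj]

end ce

/-- a similarity image of a Borel set is Borel -/
theorem pvjh_simM (z : ℂ) {d : ℂ} (hd : d ≠ 0) {S : Set ℂ} (hS : MeasurableSet S) : MeasurableSet (pvthSim z d '' S) := by
  have e : pvthSim z d '' S = pvthInv z d ⁻¹' S := by
    ext w
    constructor
    · rintro ⟨v, hv, rfl⟩
      show (pvthSim z d v - z) / d ∈ S
      unfold pvthSim
      rwa [add_sub_cancel_left, mul_div_cancel_left₀ _ hd]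
    · intro hw
      refine ⟨_, hw, ?_⟩
      show z + d * ((w - z) / d) = w
      rw [mul_div_cancel₀ _ hd]
      ring
  rw [e]
  exact pvth_measurable_inv z d hS

/-- the window of a translate -/
theorem pvjh_pre (c : ℂ) (U : Set ℂ) : ((pvthSim c 1 '' U) ×ˢ univ : Set PvPt) = Prod.map (pvthInv c 1) id ⁻¹' (U ×ˢ univ) := by
  have := pvth_sim_pre (z := c) (d := 1) one_ne_zero 0 1 U
  simpa [pvth_sim_id] using this

/-! ## 2. the input -/

/-- **ONE END LINK AS AN EXACT READER**:  `y` = fresh region, `W` = KEPT part of the window, `O` = region of the adjacent plug -/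
structure PvjhEndOk (L : Pvl3End) (a : ℂ) (y W O : Set ℂ) : Prop where
  mK : MeasurableSet L.K
  mA : MeasurableSet L.A
  mX : Measurable (L.X a)
  Fsub : ∀ ω, (↑(L.F ω) : Set ℂ) ⊆ y
  Fig : ∀ (K : Set ℂ) (F' : Conf PvPt → Finset ℂ), Disjoint y K → ∀ σ x, L.F (pvthR K F' σ x) = L.F σ
  rA : Conf.Reads ((W ∪ (L.K ∪ O)) ×ˢ (univ : Set Bool)) (fun η => η ∈ L.A)
  rX : Conf.Reads ((W ∪ (L.K ∪ O)) ×ˢ (univ : Set Bool)) (L.X a)

section input

variable {τ : Type} {δ : ℕ → ℝ} (E : Pvl3Exp τ δ) (m : ℕ) (ε : ℝ)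

/-- **THE FRESH PART**: kit, reference plug, thin link into it.      No candidate, no base. -/
structure PvjhRef (a : ℂ) : Prop where
  hk : (E.cells.kit m ε).WF
  hQ : (E.cells.kit m ε).Fld (E.cells.XQ m ε)
  hV : (E.cells.kit m ε).Fld (E.cells.XV m ε)
  mOu : MeasurableSet (E.Ou m ε)
  mKr : MeasurableSet (E.Kr m ε)
  mGu : MeasurableSet (E.Gu m ε)
  rGu : Conf.Reads (E.Ou m ε ×ˢ (univ : Set Bool)) (fun η => η ∈ E.Gu m ε)
  rA : Conf.Reads ((E.Kr m ε ∪ pvl3Door (E.cells.kit m ε) (E.Γ m).pin0 (E.Γ m).din0 ∪ E.Ou m ε) ×ˢ (univ : Set Bool)) (fun η => η ∈ E.Ar m ε)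
  rX : Conf.Reads ((E.Kr m ε ∪ pvl3Door (E.cells.kit m ε) (E.Γ m).pin0 (E.Γ m).din0 ∪ E.Ou m ε) ×ˢ (univ : Set Bool)) (E.Xr m ε a)
  mAr : MeasurableSet (E.Ar m ε)
  mXr : Measurable (E.Xr m ε a)

variable (z : ℂ) (t : τ)

/-- **THE RESAMPLED REGIONS OF THE `Σ₁` CYCLE ARE PAIRWISE DISJOINT**, `ℕ`-indexed -/
structure PvjhGeo : Prop where
  DD : ∀ i j, i ≤ ((E.Γ m).l1 t).length → j ≤ ((E.Γ m).l1 t).length → i ≠ j → Disjoint (pvjhEd E m ε z t i) (pvjhEd E m ε z t j)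
  CC : ∀ i j, i < ((E.Γ m).l1 t).length → j < ((E.Γ m).l1 t).length → i ≠ j → Disjoint (pvjhEc E m ε z t i) (pvjhEc E m ε z t j)
  DC : ∀ i j, i ≤ ((E.Γ m).l1 t).length → j < ((E.Γ m).l1 t).length → Disjoint (pvjhEd E m ε z t i) (pvjhEc E m ε z t j)
  KoD : ∀ j, j ≤ ((E.Γ m).l1 t).length → Disjoint (E.out m ε z t).K (pvjhEd E m ε z t j)
  KoC : ∀ j, j < ((E.Γ m).l1 t).length → Disjoint (E.out m ε z t).K (pvjhEc E m ε z t j)
  KeD : ∀ j, j ≤ ((E.Γ m).l1 t).length → Disjoint (E.thI m ε z t).K (pvjhEd E m ε z t j)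
  KeC : ∀ j, j < ((E.Γ m).l1 t).length → Disjoint (E.thI m ε z t).K (pvjhEc E m ε z t j)
  RkD : ∀ j, j ≤ ((E.Γ m).l1 t).length → Disjoint (pvjhEk E m ε z t) (pvjhEd E m ε z t j)
  RkC : ∀ j, j < ((E.Γ m).l1 t).length → Disjoint (pvjhEk E m ε z t) (pvjhEc E m ε z t j)
  RoD : ∀ j, j ≤ ((E.Γ m).l1 t).length → Disjoint (pvjhEo E m ε z t) (pvjhEd E m ε z t j)
  RoC : ∀ j, j < ((E.Γ m).l1 t).length → Disjoint (pvjhEo E m ε z t) (pvjhEc E m ε z t j)
  KoKe : Disjoint (E.out m ε z t).K (E.thI m ε z t).K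
  KoRk : Disjoint (E.out m ε z t).K (pvjhEk E m ε z t)
  KoRo : Disjoint (E.out m ε z t).K (pvjhEo E m ε z t)
  KeRk : Disjoint (E.thI m ε z t).K (pvjhEk E m ε z t)
  KeRo : Disjoint (E.thI m ε z t).K (pvjhEo E m ε z t)
  RkRo : Disjoint (pvjhEk E m ε z t) (pvjhEo E m ε z t)

/-- **FRESH REGIONS AND KEPT WINDOWS AGAINST THE REST**.      Nothing is asked between a kept window and its OWN tile, its OWN plug, its OWN fresh region. -/
structure PvjhWd (yo ye Wo We : Set ℂ) : Prop where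
  yoC : Disjoint yo (pvjhC E m ε z t)
  yeC : Disjoint ye (pvjhC E m ε z t)
  yoye : Disjoint yo ye
  WoD : ∀ j, 1 ≤ j → j ≤ ((E.Γ m).l1 t).length → Disjoint Wo (pvjhEd E m ε z t j)
  WoC : ∀ j, j < ((E.Γ m).l1 t).length → Disjoint Wo (pvjhEc E m ε z t j)
  WoRk : Disjoint Wo (pvjhEk E m ε z t)
  WoRo : Disjoint Wo (pvjhEo E m ε z t)
  WoKe : Disjoint Wo (E.thI m ε z t).K
  Woye : Disjoint Wo ye
  WeD : ∀ j, j ≤ ((E.Γ m).l1 t).length → Disjoint We (pvjhEd E m ε z t j)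
  WeC : ∀ j, j < ((E.Γ m).l1 t).length → Disjoint We (pvjhEc E m ε z t j)
  WeRk : Disjoint We (pvjhEk E m ε z t)
  WeKo : Disjoint We (E.out m ε z t).K
  Weyo : Disjoint We yo

end input

/-! ## 3. the window record of the `Σ₁` cycle -/

section win

variable {τ : Type} {δ : ℕ → ℝ} {E : Pvl3Exp τ δ} {m : ℕ} {ε : ℝ} {z : ℂ} {t : τ} {a : ℂ} {yo ye Wo We : Set ℂ}

theorem PvjhRef.rAc (R : PvjhRef E m ε a) {j : ℕ} (hj : j < ((E.Γ m).l1 t).length) :
    Conf.Reads ((pvjhEc E m ε z t j ∪ (pvjhEd E m ε z t j ∪ pvjhEd E m ε z t (j + 1))) ×ˢ (univ : Set Bool))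
      (fun η => η ∈ (E.cells.kit m ε).A (pvjhZ E m ε z t j) (pvjhD E m t j) (pvthL ((E.Γ m).l1 t) j)) := by
  refine (pvth_rA R.hk _ _ (pvjh_D_ne0 j) _).mono ?_
  rw [pvjh_Ed_succ hj]
  unfold PvthKit.OO PvthKit.O PvthKit.K pvjhEc pvjhEd pvl3Door
  rintro p (hp | hp)
  · rcases hp with hp | hp
    · exact ⟨Or.inr (Or.inl hp.1), trivial⟩
    · exact ⟨Or.inr (Or.inr hp.1), trivial⟩
  · exact ⟨Or.inl hp.1, trivial⟩

theorem PvjhRef.rXc (R : PvjhRef E m ε a) {j : ℕ} (hj : j < ((E.Γ m).l1 t).length) :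
    Conf.Reads ((pvjhEc E m ε z t j ∪ (pvjhEd E m ε z t j ∪ pvjhEd E m ε z t (j + 1))) ×ˢ (univ : Set Bool))
      (pvthX (E.X₀ m ε a) (pvjhZ E m ε z t j) (pvjhD E m t j) (pvthL ((E.Γ m).l1 t) j)) := by
  refine (pvth_X_reads (pvcn_fld R.hQ R.hV a) _ (pvjh_D_ne0 j) _).mono ?_
  rw [pvjh_Ed_succ hj]
  unfold PvthKit.OO PvthKit.O PvthKit.K pvjhEc pvjhEd pvl3Door
  rintro p (hp | hp)
  · rcases hp with hp | hp
    · exact ⟨Or.inr (Or.inl hp.1), trivial⟩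
    · exact ⟨Or.inr (Or.inr hp.1), trivial⟩
  · exact ⟨Or.inl hp.1, trivial⟩

theorem pvjh_pre_r : ((pvjhEk E m ε z t ∪ (pvjhEd E m ε z t ((E.Γ m).l1 t).length ∪ pvjhEo E m ε z t)) ×ˢ (univ : Set Bool) : Set PvPt) =
    Prod.map (pvthInv (z + (E.Γ m).zu t) 1) id ⁻¹' ((E.Kr m ε ∪ pvl3Door (E.cells.kit m ε) (E.Γ m).pin0 (E.Γ m).din0 ∪ E.Ou m ε) ×ˢ (univ : Set Bool)) := by
  rw [← pvjh_pre, pvjh_Ed_last]
  unfold pvjhEk pvjhEo
  rw [image_union, image_union, union_assoc]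

theorem PvjhRef.rAr (R : PvjhRef E m ε a) :
    Conf.Reads ((pvjhEk E m ε z t ∪ (pvjhEd E m ε z t ((E.Γ m).l1 t).length ∪ pvjhEo E m ε z t)) ×ˢ (univ : Set Bool))
      (fun η => η ∈ cfMap (pvthInv (z + (E.Γ m).zu t) 1) ⁻¹' E.Ar m ε) := by
  rw [pvjh_pre_r]
  exact pvth_reads_map (g := pvthInv (z + (E.Γ m).zu t) 1) R.rA

theorem PvjhRef.rXr (R : PvjhRef E m ε a) :
    Conf.Reads ((pvjhEk E m ε z t ∪ (pvjhEd E m ε z t ((E.Γ m).l1 t).length ∪ pvjhEo E m ε z t)) ×ˢ (univ : Set Bool))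
      (fun ω => E.Xr m ε a (cfMap (pvthInv (z + (E.Γ m).zu t) 1) ω)) := by
  rw [pvjh_pre_r]
  exact pvth_reads_map (g := pvthInv (z + (E.Γ m).zu t) 1) R.rX

theorem PvjhRef.rGr (R : PvjhRef E m ε a) : Conf.Reads (pvjhEo E m ε z t ×ˢ (univ : Set Bool)) (fun η => η ∈ cfMap (pvthInv (z + (E.Γ m).zu t) 1) ⁻¹' E.Gu m ε) := by
  unfold pvjhEo
  rw [pvjh_pre]
  exact pvth_reads_map (g := pvthInv (z + (E.Γ m).zu t) 1) R.rGu

/-- **THE WINDOW RECORD OF 178 AT THE `Σ₁` CYCLE** -/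
theorem pvjh_win (R : PvjhRef E m ε a) (G : PvjhGeo E m ε z t) (eo : PvjhEndOk (E.out m ε z t) a yo Wo (pvjhEd E m ε z t 0))
    (ee : PvjhEndOk (E.thI m ε z t) a ye We (pvjhEo E m ε z t)) (H : PvjhWd E m ε z t yo ye Wo We) :
    Pvl4Win (E.cycSys m ε z t) (fun e => pvjhY yo ye ((E.Γ m).l1 t).length e.val) (fun e => pvjhY Wo We ((E.Γ m).l1 t).length e.val) where
  mO := by
    intro u
    rcases pvjh_casesU u with h | h
    · rw [pvjh_O_d h]
      exact pvjh_simM _ (pvjh_D_ne0 _) R.hk.mO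
    · rw [pvjh_O_r h]
      exact pvjh_simM _ one_ne_zero R.mOu
  mK := by
    intro e
    rcases pvjh_cases e with h | ⟨j, hj, h⟩ | h | h
    · rw [pvjh_K_o h]; exact eo.mK
    · rw [pvjh_K_c hj h]; exact pvjh_simM _ (pvjh_D_ne0 _) (R.hk.mK _)
    · rw [pvjh_K_r h]; exact pvjh_simM _ one_ne_zero R.mKr
    · rw [pvjh_K_e h]; exact ee.mK
  mG := by
    intro u
    rcases pvjh_casesU u with h | h
    · rw [pvjh_G_d h]; exact pvth_mG R.hk _ _
    · rw [pvjh_G_r h]; exact measurable_cfMap (pvth_measurable_inv _ _) R.mGu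
  mA := by
    intro e
    rcases pvjh_cases e with h | ⟨j, hj, h⟩ | h | h
    · rw [pvjh_A_o h]; exact eo.mA
    · rw [pvjh_A_c hj h]; exact pvth_mA R.hk _ _ _
    · rw [pvjh_A_r h]; exact measurable_cfMap (pvth_measurable_inv _ _) R.mAr
    · rw [pvjh_A_e h]; exact ee.mA
  rG := by
    intro u
    rcases pvjh_casesU u with h | h
    · rw [pvjh_O_d h, pvjh_G_d h]; exact pvth_rG R.hk _ _ (pvjh_D_ne0 _)
    · rw [pvjh_O_r h, pvjh_G_r h]; exact R.rGr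
  rA := by
    intro e
    rcases pvjh_cases e with h | ⟨j, hj, h⟩ | h | h
    · simp only [pvjh_Y_o _ _ _ h, pvjh_Ce_o h, pvjh_A_o h]; exact eo.rA
    · simp only [pvjh_Ce_c hj h, pvjh_A_c hj h]; exact (R.rAc hj).mono (prod_mono subset_union_right subset_rfl)
    · simp only [pvjh_Ce_r h, pvjh_A_r h]; exact R.rAr.mono (prod_mono subset_union_right subset_rfl)
    · simp only [pvjh_Y_e _ _ h, pvjh_Ce_e h, pvjh_A_e h]; exact ee.rA
  Fsub := by
    intro e ω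
    rcases pvjh_cases e with h | ⟨j, hj, h⟩ | h | h
    · simp only [pvjh_Y_o _ _ _ h, pvjh_F_o h]; exact eo.Fsub ω
    · rw [pvjh_F_m (by omega) (by omega)]; simp [pvl3F0]
    · rw [pvjh_F_m (by omega) (by omega)]; simp [pvl3F0]
    · simp only [pvjh_Y_e _ _ h, pvjh_F_e h]; exact ee.Fsub ω
  Fig := by
    intro e K F' hd σ x
    rcases pvjh_cases e with h | ⟨j, hj, h⟩ | h | h
    · simp only [pvjh_Y_o _ _ _ h] at hd
      rw [pvjh_F_o h]; exact eo.Fig K F' hd σ x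
    · rw [pvjh_F_m (by omega) (by omega)]; rfl
    · rw [pvjh_F_m (by omega) (by omega)]; rfl
    · simp only [pvjh_Y_e _ _ h] at hd
      rw [pvjh_F_e h]; exact ee.Fig K F' hd σ x
  dOO := by
    intro u u' hne
    have hv : u.val ≠ u'.val := fun h => hne (Fin.ext h)
    rcases pvjh_casesU u with h | h <;> rcases pvjh_casesU u' with h' | h'
    · rw [pvjh_O_d h, pvjh_O_d h']; exact G.DD _ _ h h' hv
    · rw [pvjh_O_d h, pvjh_O_r h']; exact (G.RoD _ h).symm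
    · rw [pvjh_O_r h, pvjh_O_d h']; exact G.RoD _ h'
    · exact absurd (h.trans h'.symm) hv
  dKK := by
    intro e e' hne
    have hv : e.val ≠ e'.val := fun h => hne (Fin.ext h)
    rcases pvjh_cases e with h | ⟨j, hj, h⟩ | h | h <;> rcases pvjh_cases e' with h' | ⟨j', hj', h'⟩ | h' | h'
    · exact absurd (h.trans h'.symm) hv
    · rw [pvjh_K_o h, pvjh_K_c hj' h']; exact G.KoC j' hj'
    · rw [pvjh_K_o h, pvjh_K_r h']; exact G.KoRk
    · rw [pvjh_K_o h, pvjh_K_e h']; exact G.KoKe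
    · rw [pvjh_K_c hj h, pvjh_K_o h']; exact (G.KoC j hj).symm
    · rw [pvjh_K_c hj h, pvjh_K_c hj' h']; exact G.CC j j' hj hj' (by omega)
    · rw [pvjh_K_c hj h, pvjh_K_r h']; exact (G.RkC j hj).symm
    · rw [pvjh_K_c hj h, pvjh_K_e h']; exact (G.KeC j hj).symm
    · rw [pvjh_K_r h, pvjh_K_o h']; exact G.KoRk.symm
    · rw [pvjh_K_r h, pvjh_K_c hj' h']; exact G.RkC j' hj'
    · exact absurd (h.trans h'.symm) hv
    · rw [pvjh_K_r h, pvjh_K_e h']; exact G.KeRk.symm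
    · rw [pvjh_K_e h, pvjh_K_o h']; exact G.KoKe.symm
    · rw [pvjh_K_e h, pvjh_K_c hj' h']; exact G.KeC j' hj'
    · rw [pvjh_K_e h, pvjh_K_r h']; exact G.KeRk
    · exact absurd (h.trans h'.symm) hv
  dOK := by
    intro u e
    rcases pvjh_casesU u with h | h <;> rcases pvjh_cases e with h' | ⟨j', hj', h'⟩ | h' | h'
    · rw [pvjh_O_d h, pvjh_K_o h']; exact (G.KoD _ h).symm
    · rw [pvjh_O_d h, pvjh_K_c hj' h']; exact G.DC _ _ h hj'
    · rw [pvjh_O_d h, pvjh_K_r h']; exact (G.RkD _ h).symm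
    · rw [pvjh_O_d h, pvjh_K_e h']; exact (G.KeD _ h).symm
    · rw [pvjh_O_r h, pvjh_K_o h']; exact G.KoRo.symm
    · rw [pvjh_O_r h, pvjh_K_c hj' h']; exact G.RoC _ hj'
    · rw [pvjh_O_r h, pvjh_K_r h']; exact G.RkRo.symm
    · rw [pvjh_O_r h, pvjh_K_e h']; exact G.KeRo.symm
  yO := by
    intro e u
    have hC : Disjoint (yo ∪ ye) ((E.cycSys m ε z t).O u) :=
      (Set.disjoint_union_left.2 ⟨H.yoC, H.yeC⟩).mono_right ((pvl3k_O_sub u).trans (pvjh_sysC E m ε z t).subset)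
    exact hC.mono_left (pvjh_Y_sub _ _ _ _)
  yK := by
    intro e e'
    have hC : Disjoint (yo ∪ ye) ((E.cycSys m ε z t).K e') :=
      (Set.disjoint_union_left.2 ⟨H.yoC, H.yeC⟩).mono_right ((pvl3k_K_sub e').trans (pvjh_sysC E m ε z t).subset)
    exact hC.mono_left (pvjh_Y_sub _ _ _ _)
  yy := by
    intro e e' hne
    have hv : e.val ≠ e'.val := fun h => hne (Fin.ext h)
    by_cases h0 : e.val = 0
    · by_cases h1 : e'.val = ((E.Γ m).l1 t).length + 2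
      · simp only [pvjh_Y_o _ _ _ h0, pvjh_Y_e _ _ h1]; exact H.yoye
      · simp only [pvjh_Y_m yo ye (show e'.val ≠ 0 by omega) h1]; exact disjoint_bot_right
    · by_cases h2 : e.val = ((E.Γ m).l1 t).length + 2
      · by_cases h1 : e'.val = 0
        · simp only [pvjh_Y_e _ _ h2, pvjh_Y_o _ _ _ h1]; exact H.yoye.symm
        · simp only [pvjh_Y_m yo ye h1 (show e'.val ≠ ((E.Γ m).l1 t).length + 2 by omega)]; exact disjoint_bot_right
      · simp only [pvjh_Y_m yo ye h0 h2]; exact disjoint_bot_left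
  WK := by
    intro e e' hne
    have hv : e.val ≠ e'.val := fun h => hne (Fin.ext h)
    by_cases h0 : e.val = 0
    · simp only [pvjh_Y_o _ _ _ h0]
      rcases pvjh_cases e' with h' | ⟨j', hj', h'⟩ | h' | h'
      · exact absurd (h0.trans h'.symm) hv
      · rw [pvjh_K_c hj' h']; exact H.WoC _ hj'
      · rw [pvjh_K_r h']; exact H.WoRk
      · rw [pvjh_K_e h']; exact H.WoKe
    · by_cases h2 : e.val = ((E.Γ m).l1 t).length + 2
      · simp only [pvjh_Y_e _ _ h2]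
        rcases pvjh_cases e' with h' | ⟨j', hj', h'⟩ | h' | h'
        · rw [pvjh_K_o h']; exact H.WeKo
        · rw [pvjh_K_c hj' h']; exact H.WeC _ hj'
        · rw [pvjh_K_r h']; exact H.WeRk
        · exact absurd (h2.trans h'.symm) hv
      · simp only [pvjh_Y_m Wo We h0 h2]; exact disjoint_bot_left
  WO := by
    intro e u hu
    rw [pvjh_adj] at hu
    by_cases h0 : e.val = 0
    · simp only [pvjh_Y_o _ _ _ h0]
      rcases pvjh_casesU u with h | h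
      · rw [pvjh_O_d h]; exact H.WoD _ (by omega) h
      · rw [pvjh_O_r h]; exact H.WoRo
    · by_cases h2 : e.val = ((E.Γ m).l1 t).length + 2
      · simp only [pvjh_Y_e _ _ h2]
        rcases pvjh_casesU u with h | h
        · rw [pvjh_O_d h]; exact H.WeD _ h
        · exact absurd (Or.inl (by omega)) hu
      · simp only [pvjh_Y_m Wo We h0 h2]; exact disjoint_bot_left
  Wy := by
    intro e e' hne
    have hv : e.val ≠ e'.val := fun h => hne (Fin.ext h)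
    by_cases h0 : e.val = 0
    · by_cases h1 : e'.val = ((E.Γ m).l1 t).length + 2
      · simp only [pvjh_Y_o _ _ _ h0, pvjh_Y_e _ _ h1]; exact H.Woye
      · simp only [pvjh_Y_m yo ye (show e'.val ≠ 0 by omega) h1]; exact disjoint_bot_right
    · by_cases h2 : e.val = ((E.Γ m).l1 t).length + 2
      · by_cases h1 : e'.val = 0
        · simp only [pvjh_Y_e _ _ h2, pvjh_Y_o _ _ _ h1]; exact H.Weyo
        · simp only [pvjh_Y_m yo ye h1 (show e'.val ≠ ((E.Γ m).l1 t).length + 2 by omega)]; exact disjoint_bot_right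
      · simp only [pvjh_Y_m Wo We h0 h2]; exact disjoint_bot_left

/-- the field of the cycle is measurable .. -/
theorem pvjh_mX (R : PvjhRef E m ε a) (eo : PvjhEndOk (E.out m ε z t) a yo Wo (pvjhEd E m ε z t 0)) (ee : PvjhEndOk (E.thI m ε z t) a ye We (pvjhEo E m ε z t))
    (e : Fin (((E.Γ m).l1 t).length + 3)) : Measurable (E.cycX m ε a z t e) := by
  rcases pvjh_cases e with h | ⟨j, hj, h⟩ | h | h
  · rw [pvjh_X_o a h]; exact eo.mX
  · rw [pvjh_X_c a hj h]; exact pvth_X_meas (pvcn_fld R.hQ R.hV a) _ _ _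
  · rw [pvjh_X_r a h]; exact R.mXr.comp (measurable_cfMap (pvth_measurable_inv _ _))
  · rw [pvjh_X_e a h]; exact ee.mX

/-- .. and an exact reader of the windows -/
theorem pvjh_rX (R : PvjhRef E m ε a) (eo : PvjhEndOk (E.out m ε z t) a yo Wo (pvjhEd E m ε z t 0)) (ee : PvjhEndOk (E.thI m ε z t) a ye We (pvjhEo E m ε z t))
    (e : Fin (((E.Γ m).l1 t).length + 3)) :
    Conf.Reads ((pvjhY Wo We ((E.Γ m).l1 t).length e.val ∪ (E.cycSys m ε z t).Ce e) ×ˢ (univ : Set Bool)) (E.cycX m ε a z t e) := by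
  rcases pvjh_cases e with h | ⟨j, hj, h⟩ | h | h
  · simp only [pvjh_Y_o _ _ _ h, pvjh_Ce_o h, pvjh_X_o a h]; exact eo.rX
  · simp only [pvjh_Ce_c hj h, pvjh_X_c a hj h]; exact (R.rXc hj).mono (prod_mono subset_union_right subset_rfl)
  · simp only [pvjh_Ce_r h, pvjh_X_r a h]; exact R.rXr.mono (prod_mono subset_union_right subset_rfl)
  · simp only [pvjh_Y_e _ _ h, pvjh_Ce_e h, pvjh_X_e a h]; exact ee.rX

/-- **`WF` OF THE `Σ₁` CYCLE ON THE CLASS OF A BASE** -/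
theorem pvjh_wf (R : PvjhRef E m ε a) (G : PvjhGeo E m ε z t) (eo : PvjhEndOk (E.out m ε z t) a yo Wo (pvjhEd E m ε z t 0))
    (ee : PvjhEndOk (E.thI m ε z t) a ye We (pvjhEo E m ε z t)) (H : PvjhWd E m ε z t yo ye Wo We) {Z Y : Set ℂ} (hZ : Disjoint Z (pvjhC E m ε z t)) (hY : yo ∪ ye ⊆ Y) (σ : Conf PvPt) :
    (E.cycSys m ε z t).WF (pvl4Cl Z Y σ) :=
  (pvjh_win R G eo ee H).wf_cl (by rw [pvjh_sysC]; exact hZ) (fun _ => (pvjh_Y_sub _ _ _ _).trans hY) σ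

/-- **`Fld` OF THE `Σ₁` CYCLE**, any class -/
theorem pvjh_fld (R : PvjhRef E m ε a) (G : PvjhGeo E m ε z t) (eo : PvjhEndOk (E.out m ε z t) a yo Wo (pvjhEd E m ε z t 0))
    (ee : PvjhEndOk (E.thI m ε z t) a ye We (pvjhEo E m ε z t)) (H : PvjhWd E m ε z t yo ye Wo We) (B : Set (Conf PvPt)) :
    (E.cycSys m ε z t).Fld B (E.cycX m ε a z t) :=
  (pvjh_win R G eo ee H).fld B (pvjh_mX R eo ee) (pvjh_rX R eo ee)

/-- the fresh set of the cycle = the fresh sets of the two ends -/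
theorem pvjh_Fs (σ : Conf PvPt) : (↑((E.cycSys m ε z t).Fs σ) : Set ℂ) = ↑((E.out m ε z t).F σ) ∪ ↑((E.thI m ε z t).F σ) := by
  rw [pvl3k_Fs_coe]
  ext w
  simp only [mem_iUnion, mem_union]
  constructor
  · rintro ⟨e, he⟩
    rcases pvjh_cases e with h | ⟨j, hj, h⟩ | h | h
    · rw [pvjh_F_o h] at he; exact Or.inl he
    · rw [pvjh_F_m (by omega) (by omega)] at he; simp [pvl3F0] at he
    · rw [pvjh_F_m (by omega) (by omega)] at he; simp [pvl3F0] at he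
    · rw [pvjh_F_e h] at he; exact Or.inr he
  · rintro (h | h)
    · refine ⟨⟨0, by omega⟩, ?_⟩
      rw [pvjh_F_o rfl]; exact h
    · refine ⟨⟨((E.Γ m).l1 t).length + 2, by omega⟩, ?_⟩
      rw [pvjh_F_e rfl]; exact h

/-- DIAGONAL form of the fresh sets -/
theorem pvjh_F_diag {σ : Conf PvPt} (hFo : (E.out m ε z t).F σ = pvl4F yo σ) (hFe : (E.thI m ε z t).F σ = pvl4F ye σ) (e : Fin (((E.Γ m).l1 t).length + 3)) :
    (E.cycSys m ε z t).F e σ = pvl4F (pvjhY yo ye ((E.Γ m).l1 t).length e.val) σ := by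
  rcases pvjh_cases e with h | ⟨j, hj, h⟩ | h | h
  · rw [pvjh_F_o h, pvjh_Y_o _ _ _ h]; exact hFo
  · rw [pvjh_F_m (by omega) (by omega), pvjh_Y_m _ _ (by omega) (by omega), pvl4_F_empty]
  · rw [pvjh_F_m (by omega) (by omega), pvjh_Y_m _ _ (by omega) (by omega), pvl4_F_empty]
  · rw [pvjh_F_e h, pvjh_Y_e _ _ h]; exact hFe

end win

/-! ## 4. the window record of the Bessel cycle -/

section thk

variable {τ : Type} {δ : ℕ → ℝ} (E : Pvl3Exp τ δ) (m : ℕ) (ε : ℝ) (z : ℂ) (t : τ)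

/-- the resampled region of the Bessel cycle, explicit -/
def pvjhCT : Set ℂ := (E.thI m ε z t).K ∪ (E.thO m ε z t).K ∪ pvjhEo E m ε z t

theorem pvjh_eqns_cite4 : True := by
  have := @pvjhCT.eq_1
  trivial

theorem pvjh_sysCT : (E.thkSys m ε z t).C = pvjhCT E m ε z t := by
  unfold Pvl3Sys.C pvjhCT
  ext w
  simp only [mem_union, mem_iUnion]
  constructor
  · rintro (⟨_, hu⟩ | ⟨e, he⟩)
    · exact Or.inr hu
    · cases e
      · exact Or.inl (Or.inr he)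
      · exact Or.inl (Or.inl he)
  · rintro ((h | h) | h)
    · exact Or.inr ⟨true, h⟩
    · exact Or.inr ⟨false, h⟩
    · exact Or.inl ⟨(), h⟩

theorem pvjh_CeT (e : Bool) : (E.thkSys m ε z t).Ce e = (E.thkSys m ε z t).K e ∪ pvjhEo E m ε z t := by
  unfold Pvl3Sys.Ce
  congr 1
  ext w
  simp only [mem_iUnion, exists_prop]
  constructor
  · rintro ⟨_, _, hw⟩
    exact hw
  · intro hw
    exact ⟨(), Finset.mem_univ _, hw⟩

/-- **THE BESSEL CYCLE**: disjointness (`e` = `thI`, `o` = `thO`) -/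
structure PvjhWdT (ye yo We Wo : Set ℂ) : Prop where
  KeKo : Disjoint (E.thI m ε z t).K (E.thO m ε z t).K
  KeRo : Disjoint (E.thI m ε z t).K (pvjhEo E m ε z t)
  KoRo : Disjoint (E.thO m ε z t).K (pvjhEo E m ε z t)
  yeC : Disjoint ye (pvjhCT E m ε z t)
  yoC : Disjoint yo (pvjhCT E m ε z t)
  yeyo : Disjoint ye yo
  WeKo : Disjoint We (E.thO m ε z t).K
  WoKe : Disjoint Wo (E.thI m ε z t).K
  Weyo : Disjoint We yo
  Woye : Disjoint Wo ye

variable {E m ε z t} {a : ℂ} {ye yo We Wo : Set ℂ}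

/-- **THE WINDOW RECORD OF 178 AT THE BESSEL CYCLE** -/
theorem pvjh_winT (R : PvjhRef E m ε a) (ee : PvjhEndOk (E.thI m ε z t) a ye We (pvjhEo E m ε z t)) (eo : PvjhEndOk (E.thO m ε z t) a yo Wo (pvjhEo E m ε z t))
    (H : PvjhWdT E m ε z t ye yo We Wo) : Pvl4Win (E.thkSys m ε z t) (fun e => if e then ye else yo) (fun e => if e then We else Wo) where
  mO := fun _ => pvjh_simM _ one_ne_zero R.mOu
  mK := fun e => by cases e; exacts [eo.mK, ee.mK]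
  mG := fun _ => measurable_cfMap (pvth_measurable_inv _ _) R.mGu
  mA := fun e => by cases e; exacts [eo.mA, ee.mA]
  rG := fun _ => R.rGr
  rA := fun e => by
    rw [pvjh_CeT]
    cases e
    exacts [eo.rA, ee.rA]
  Fsub := fun e ω => by cases e; exacts [eo.Fsub ω, ee.Fsub ω]
  Fig := fun e K F' hd σ x => by cases e; exacts [eo.Fig K F' hd σ x, ee.Fig K F' hd σ x]
  dOO := fun u u' hne => absurd rfl hne
  dKK := fun e e' hne => by
    cases e <;> cases e'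
    exacts [absurd rfl hne, H.KeKo.symm, H.KeKo, absurd rfl hne]
  dOK := fun _ e => by cases e; exacts [H.KoRo.symm, H.KeRo.symm]
  yO := fun e u => by
    have h := (pvl3k_O_sub (S := E.thkSys m ε z t) u).trans (pvjh_sysCT E m ε z t).subset
    cases e
    exacts [H.yoC.mono_right h, H.yeC.mono_right h]
  yK := fun e e' => by
    have h := (pvl3k_K_sub (S := E.thkSys m ε z t) e').trans (pvjh_sysCT E m ε z t).subset
    cases e
    exacts [H.yoC.mono_right h, H.yeC.mono_right h]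
  yy := fun e e' hne => by
    cases e <;> cases e'
    exacts [absurd rfl hne, H.yeyo.symm, H.yeyo, absurd rfl hne]
  WK := fun e e' hne => by
    cases e <;> cases e'
    exacts [absurd rfl hne, H.WoKe, H.WeKo, absurd rfl hne]
  WO := fun e u hu => absurd (Finset.mem_univ u) hu
  Wy := fun e e' hne => by
    cases e <;> cases e'
    exacts [absurd rfl hne, H.Woye, H.Weyo, absurd rfl hne]

/-- **`WF` OF THE BESSEL CYCLE ON THE CLASS OF A BASE** -/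
theorem pvjh_wfT (R : PvjhRef E m ε a) (ee : PvjhEndOk (E.thI m ε z t) a ye We (pvjhEo E m ε z t)) (eo : PvjhEndOk (E.thO m ε z t) a yo Wo (pvjhEo E m ε z t))
    (H : PvjhWdT E m ε z t ye yo We Wo) {Z Y : Set ℂ} (hZ : Disjoint Z (pvjhCT E m ε z t)) (hY : ye ∪ yo ⊆ Y) (σ : Conf PvPt) : (E.thkSys m ε z t).WF (pvl4Cl Z Y σ) :=
  (pvjh_winT R ee eo H).wf_cl (by rw [pvjh_sysCT]; exact hZ) (fun e => by cases e; exacts [subset_union_right.trans hY, subset_union_left.trans hY]) σ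

/-- **`Fld` OF THE BESSEL CYCLE**, any class -/
theorem pvjh_fldT (R : PvjhRef E m ε a) (ee : PvjhEndOk (E.thI m ε z t) a ye We (pvjhEo E m ε z t)) (eo : PvjhEndOk (E.thO m ε z t) a yo Wo (pvjhEo E m ε z t))
    (H : PvjhWdT E m ε z t ye yo We Wo) (B : Set (Conf PvPt)) : (E.thkSys m ε z t).Fld B (E.thkX m ε a z t) :=
  (pvjh_winT R ee eo H).fld B (fun e => by cases e; exacts [eo.mX, ee.mX]) (fun e => by
    rw [pvjh_CeT]
    cases e
    exacts [eo.rX, ee.rX])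

end thk

/-! ## 5. base-indexed families: the fields `hk hQ hV rA rX mAr mXr mem reg wf fld stop` of `Pvl3CycOkF`, `mem reg wf fld stop` of `Pvl3ThkOkF` -/

section fam

variable {τ : Type} {δ : ℕ → ℝ} (E : Pvl3Exp τ δ) (L : Pvl3Lk τ)

theorem PvjhRef.on {E : Pvl3Exp τ δ} {m : ℕ} {ε : ℝ} {a : ℂ} (R : PvjhRef E m ε a) (L : Pvl3Lk τ) (σ : Conf PvPt) : PvjhRef (E.on L σ) m ε a :=
  ⟨R.hk, R.hQ, R.hV, R.mOu, R.mKr, R.mGu, R.rGu, R.rA, R.rX, R.mAr, R.mXr⟩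

/-- **THE COLOUR CYLINDER DATUM** for two fresh regions (255 `Tr/AtCyl`, 111 `Exit/AnaCert`): recolouring off the frozen sites changes neither `B` nor `frz` nor the fresh regions;   the frozen sites are not fresh -/
structure PvjhCyl (B : Set (Conf PvPt)) (frz : Conf PvPt → Finset ℂ) (y y' : Conf PvPt → Set ℂ) : Prop where
  fz : ∀ σ ∈ B, Disjoint (↑(frz σ) : Set ℂ) (y σ ∪ y' σ)
  cyl : ∀ σ ∈ B, ∀ (T : Set ℂ) (u : ℂ → Bool), Disjoint T (↑(frz σ) : Set ℂ) → pvthRec T u σ ∈ B ∧ frz (pvthRec T u σ) = frz σ ∧ y (pvthRec T u σ) = y σ ∧ y' (pvthRec T u σ) = y' σ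

/-- **THE INPUT ON THE BASE-INDEXED `Σ₁` CYCLE** -/
structure PvjhFam (a : ℂ) (m : ℕ) (ε : ℝ) (z : ℂ) (t : τ) (B : Set (Conf PvPt)) (C : Set ℂ) (yo ye Wo We : Conf PvPt → Set ℂ) : Prop where
  ref : PvjhRef E m ε a
  geo : ∀ σ ∈ B, PvjhGeo (E.on L σ) m ε z t
  eo : ∀ σ ∈ B, PvjhEndOk (L.out m ε z t σ) a (yo σ) (Wo σ) (pvjhEd E m ε z t 0)
  ee : ∀ σ ∈ B, PvjhEndOk (L.thI m ε z t σ) a (ye σ) (We σ) (pvjhEo E m ε z t)
  wd : ∀ σ ∈ B, PvjhWd (E.on L σ) m ε z t (yo σ) (ye σ) (Wo σ) (We σ)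
  reg : ∀ σ ∈ B, pvjhC (E.on L σ) m ε z t = C
  /-- DIAGONAL: at its own base the fresh set is the set of all sites of the fresh region -/
  Fo : ∀ σ, (L.out m ε z t σ).F σ = pvl4F (yo σ) σ
  Fe : ∀ σ, (L.thI m ε z t σ).F σ = pvl4F (ye σ) σ

/-- the class of the base `σ`: the same configuration off the resampled region, up to the colours of the two fresh regions -/
def pvjhBs (C : Set ℂ) (y y' : Conf PvPt → Set ℂ) (σ : Conf PvPt) : Set (Conf PvPt) := pvl4Cl Cᶜ (y σ ∪ y' σ) σ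

theorem pvjh_eqns_cite5 : True := by
  have := @pvjhBs.eq_1
  trivial

variable {E L} {a : ℂ} {m : ℕ} {ε : ℝ} {z : ℂ} {t : τ} {B : Set (Conf PvPt)} {C : Set ℂ} {yo ye Wo We : Conf PvPt → Set ℂ}

theorem pvjh_Bs_mem (C : Set ℂ) (y y' : Conf PvPt → Set ℂ) (σ : Conf PvPt) : σ ∈ pvjhBs C y y' σ := pvl4_cl_self _ _ σ

namespace PvjhFam

theorem win (H : PvjhFam E L a m ε z t B C yo ye Wo We) {σ : Conf PvPt} (hσ : σ ∈ B) :
    Pvl4Win ((E.on L σ).cycSys m ε z t) (fun e => pvjhY (yo σ) (ye σ) ((E.Γ m).l1 t).length e.val) (fun e => pvjhY (Wo σ) (We σ) ((E.Γ m).l1 t).length e.val) :=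
  pvjh_win (H.ref.on L σ) (H.geo σ hσ) (H.eo σ hσ) (H.ee σ hσ) (H.wd σ hσ)

theorem regS (H : PvjhFam E L a m ε z t B C yo ye Wo We) : ∀ σ ∈ B, ((E.on L σ).cycSys m ε z t).C = C := fun σ hσ => by
  rw [pvjh_sysC, H.reg σ hσ]

theorem wf (H : PvjhFam E L a m ε z t B C yo ye Wo We) : ∀ σ ∈ B, ((E.on L σ).cycSys m ε z t).WF (pvjhBs C yo ye σ) := fun σ hσ =>
  pvjh_wf (H.ref.on L σ) (H.geo σ hσ) (H.eo σ hσ) (H.ee σ hσ) (H.wd σ hσ) (by rw [H.reg σ hσ]; exact disjoint_compl_left) subset_rfl σ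

theorem fld (H : PvjhFam E L a m ε z t B C yo ye Wo We) (Bs : Conf PvPt → Set (Conf PvPt)) : ∀ σ ∈ B, ((E.on L σ).cycSys m ε z t).Fld (Bs σ) ((E.on L σ).cycX m ε a z t) := fun σ hσ =>
  pvjh_fld (H.ref.on L σ) (H.geo σ hσ) (H.eo σ hσ) (H.ee σ hσ) (H.wd σ hσ) (Bs σ)

theorem mC (H : PvjhFam E L a m ε z t B C yo ye Wo We) {σ : Conf PvPt} (hσ : σ ∈ B) : MeasurableSet C := by
  rw [← H.regS σ hσ]
  exact (H.win hσ).mC

/-- **the DIAGONAL fresh set is a colour stopping set** -/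
theorem stop (H : PvjhFam E L a m ε z t B C yo ye Wo We) (mC : MeasurableSet C) {frz : Conf PvPt → Finset ℂ} (Y : PvjhCyl B frz yo ye) :
    Pvl3Stop B C (fun σ => ((E.on L σ).cycSys m ε z t).Fs σ) frz := by
  refine pvl4_stop_fam (υ := Fin (((E.Γ m).l1 t).length + 2)) (ι := Fin (((E.Γ m).l1 t).length + 3)) (fun σ => (E.on L σ).cycSys m ε z t) (fun σ e => pvjhY (yo σ) (ye σ) ((E.Γ m).l1 t).length e.val) ?_ mC ?_ ?_ ?_
  · intro σ e
    exact pvjh_F_diag (E := E.on L σ) (H.Fo σ) (H.Fe σ) e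
  · intro σ hσ e
    have := (H.win hσ).yC e
    rwa [H.regS σ hσ] at this
  · intro σ hσ e
    exact (Y.fz σ hσ).mono_right (pvjh_Y_sub _ _ _ _)
  · intro σ hσ T u hT
    obtain ⟨h1, h2, h3, h4⟩ := Y.cyl σ hσ T u hT
    exact ⟨h1, h2, fun e => by rw [h3, h4]⟩

/-- **`Pvl3CycOkF` FROM THE INPUT**: what is left = `frc hint mΘ dom` -/
theorem okF (H : PvjhFam E L a m ε z t B C yo ye Wo We) (mC : MeasurableSet C) {frz : Conf PvPt → Finset ℂ} (Y : PvjhCyl B frz yo ye) {Θ : Conf PvPt → ℝ≥0∞} {D : ℝ≥0∞}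
    (frc : ∀ σ ∈ B, ∃ q, ((E.on L σ).cycSys m ε z t).Forced ε (pvjhBs C yo ye σ) q ∧ ((E.on L σ).cycSys m ε z t).D ε q ≤ D)
    (hint : ∀ σ ∈ B, ∀ e, ∫⁻ x, ‖(E.on L σ).cycX m ε a z t e (pvthR (((E.on L σ).cycSys m ε z t).Ce e) (((E.on L σ).cycSys m ε z t).F e) σ x)‖ₑ ^ 2 *
      ((E.on L σ).cycSys m ε z t).w2 ε e (pvthR (((E.on L σ).cycSys m ε z t).Ce e) (((E.on L σ).cycSys m ε z t).F e) σ x) ∂(pvthSeed ε) ≠ ∞)
    (mΘ : AEMeasurable Θ (pvP ε))
    (dom : ∀ᵐ ω ∂(pvP ε), ∀ σ ∈ B, ω ∈ pvjhBs C yo ye σ → ω ∈ ((E.on L σ).cycSys m ε z t).Ev → ‖∑ e, (E.on L σ).cycX m ε a z t e ω‖ₑ ^ 2 ≤ Θ ω) :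
    Pvl3CycOkF E L a m ε z t B (pvjhBs C yo ye) C frz Θ D where
  hk := H.ref.hk
  hQ := H.ref.hQ
  hV := H.ref.hV
  rA := H.ref.rA
  rX := H.ref.rX
  mAr := H.ref.mAr
  mXr := H.ref.mXr
  mem := fun σ _ => pvjh_Bs_mem C yo ye σ
  reg := H.regS
  wf := H.wf
  frc := frc
  fld := H.fld _
  hint := hint
  stop := H.stop mC Y
  mΘ := mΘ
  dom := dom

end PvjhFam

/-- **THE INPUT ON THE BASE-INDEXED BESSEL CYCLE** -/
structure PvjhFamT (E : Pvl3Exp τ δ) (L : Pvl3Lk τ) (a : ℂ) (m : ℕ) (ε : ℝ) (z : ℂ) (t : τ) (B : Set (Conf PvPt)) (C : Set ℂ) (ye yo We Wo : Conf PvPt → Set ℂ) : Prop where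
  ref : PvjhRef E m ε a
  ee : ∀ σ ∈ B, PvjhEndOk (L.thI m ε z t σ) a (ye σ) (We σ) (pvjhEo E m ε z t)
  eo : ∀ σ ∈ B, PvjhEndOk (L.thO m ε z t σ) a (yo σ) (Wo σ) (pvjhEo E m ε z t)
  wd : ∀ σ ∈ B, PvjhWdT (E.on L σ) m ε z t (ye σ) (yo σ) (We σ) (Wo σ)
  reg : ∀ σ ∈ B, pvjhCT (E.on L σ) m ε z t = C
  Fe : ∀ σ, (L.thI m ε z t σ).F σ = pvl4F (ye σ) σ
  Fo : ∀ σ, (L.thO m ε z t σ).F σ = pvl4F (yo σ) σ

namespace PvjhFamT

theorem win (H : PvjhFamT E L a m ε z t B C ye yo We Wo) {σ : Conf PvPt} (hσ : σ ∈ B) :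
    Pvl4Win ((E.on L σ).thkSys m ε z t) (fun e => if e then ye σ else yo σ) (fun e => if e then We σ else Wo σ) :=
  pvjh_winT (H.ref.on L σ) (H.ee σ hσ) (H.eo σ hσ) (H.wd σ hσ)

theorem regS (H : PvjhFamT E L a m ε z t B C ye yo We Wo) : ∀ σ ∈ B, ((E.on L σ).thkSys m ε z t).C = C := fun σ hσ => by
  rw [pvjh_sysCT, H.reg σ hσ]

theorem wf (H : PvjhFamT E L a m ε z t B C ye yo We Wo) : ∀ σ ∈ B, ((E.on L σ).thkSys m ε z t).WF (pvjhBs C ye yo σ) := fun σ hσ =>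
  pvjh_wfT (H.ref.on L σ) (H.ee σ hσ) (H.eo σ hσ) (H.wd σ hσ) (by rw [H.reg σ hσ]; exact disjoint_compl_left) subset_rfl σ

theorem fld (H : PvjhFamT E L a m ε z t B C ye yo We Wo) (Bs : Conf PvPt → Set (Conf PvPt)) : ∀ σ ∈ B, ((E.on L σ).thkSys m ε z t).Fld (Bs σ) ((E.on L σ).thkX m ε a z t) := fun σ hσ =>
  pvjh_fldT (H.ref.on L σ) (H.ee σ hσ) (H.eo σ hσ) (H.wd σ hσ) (Bs σ)

theorem stop (H : PvjhFamT E L a m ε z t B C ye yo We Wo) (mC : MeasurableSet C) {frz : Conf PvPt → Finset ℂ} (Y : PvjhCyl B frz ye yo) :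
    Pvl3Stop B C (fun σ => ((E.on L σ).thkSys m ε z t).Fs σ) frz := by
  refine pvl4_stop_fam (fun σ => (E.on L σ).thkSys m ε z t) (fun σ e => if e then ye σ else yo σ) ?_ mC ?_ ?_ ?_
  · intro σ e
    cases e
    exacts [H.Fo σ, H.Fe σ]
  · intro σ hσ e
    have := (H.win hσ).yC e
    rwa [H.regS σ hσ] at this
  · intro σ hσ e
    cases e
    exacts [(Y.fz σ hσ).mono_right subset_union_right, (Y.fz σ hσ).mono_right subset_union_left]
  · intro σ hσ T u hT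
    obtain ⟨h1, h2, h3, h4⟩ := Y.cyl σ hσ T u hT
    exact ⟨h1, h2, fun e => by rw [h3, h4]⟩

/-- **`Pvl3ThkOkF` FROM THE INPUT**: what is left = `frc mΘ dom` -/
theorem okF (H : PvjhFamT E L a m ε z t B C ye yo We Wo) (mC : MeasurableSet C) {frz : Conf PvPt → Finset ℂ} (Y : PvjhCyl B frz ye yo) {Θ : Conf PvPt → ℝ≥0∞} {D : ℝ≥0∞}
    (frc : ∀ σ ∈ B, ∃ q, ((E.on L σ).thkSys m ε z t).Forced ε (pvjhBs C ye yo σ) q ∧ ((E.on L σ).thkSys m ε z t).D ε q ≤ D)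
    (mΘ : AEMeasurable Θ (pvP ε))
    (dom : ∀ᵐ ω ∂(pvP ε), ∀ σ ∈ B, ω ∈ pvjhBs C ye yo σ → ω ∈ ((E.on L σ).thkSys m ε z t).Ev → ‖(L.thI m ε z t σ).X a ω‖ₑ ^ 2 ≤ Θ ω) :
    Pvl3ThkOkF E L a m ε z t B (pvjhBs C ye yo) C frz Θ D where
  mem := fun σ _ => pvjh_Bs_mem C ye yo σ
  reg := H.regS
  wf := H.wf
  frc := frc
  fld := H.fld _
  stop := H.stop mC Y
  mΘ := mΘ
  dom := dom

end PvjhFamT

end fam

end Claimed.Agent.R289
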