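import Claimed.Agent.R289.Tr.Top

/-!
# Row 289 (S0537), THE WALL, ROAD E, Tr/CycLoc : EXACT READERS + CONSTANT FRESH SETS ⟹ `Pvl3Sys.WF`, `Pvl3Sys.Fld`      (helper115, level 2 of the roof `Exit/Cyc1.lean`; prefix `pvc1_`, `pvc1`, `Pvc1`)

RULING 18 (3) of 234 (L1, L2): the event and the value of every link are soft localisations at a DETERMINISTIC window, the fresh sets are CONSTANTS of the base.      Then the pointwise clauses of `Pvl3Sys.WF` / `Fld` (129, `Tr/Top` sec. 2) are free.      Model free, generic in the hybrid system (serves `cycSys`, `thkSys`, `patSys`).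
* `pvc1_restr_R`, **`pvc1_ig`**     a reader of `W` ignores every atom `(K, F)` off `W`
* `pvc1Cls C F σ`                   THE CLASS OF THE BASE `σ`: the configurations which agree with `σ` off `C ∪ F` and have the same sites on `F`;   `pvc1_cls_self`, **`pvc1_cls_atom`** (stable under every atom `(K, F')`, `K ⊆ C`, `F' ⊆ F`)
* `Pvc1Loc S Fe Wn`                 the contract: regions, constant fresh sets `Fe e`, windows `Wn e`;   **`Pvc1Loc.wf`**, **`Pvc1Loc.fld`**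
-/

set_option autoImplicit false
set_option linter.unusedSectionVars false

namespace Claimed.Agent.R289

open MeasureTheory Set Claims.C0465
open scoped ENNReal

/-- off the atom one sees the base -/
theorem pvc1_restr_R {W K : Set ℂ} {F : Finset ℂ} (hK : Disjoint W K) (hF : Disjoint W (↑F : Set ℂ)) (σ : Conf PvPt) (x : PvthSd) :
    Conf.restr (W ×ˢ (univ : Set Bool)) (pvthR K (fun _ => F) σ x) = Conf.restr (W ×ˢ (univ : Set Bool)) σ := by
  have e : (W ×ˢ (univ : Set Bool) : Set PvPt) = Prod.fst ⁻¹' W := by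
    ext p
    simp
  rw [e, pvl3k_R_eq]
  unfold pvl3kR
  rw [pvl3k_restr_rec hF.symm]
  ext p
  have : p ∈ (Prod.fst ⁻¹' W : Set PvPt) → p ∉ (Prod.fst ⁻¹' K : Set PvPt) := fun h1 h2 => Set.disjoint_left.1 hK h1 h2
  simp only [Conf.restr, mem_inter_iff, pvtk_mem_R]
  tauto

/-- **a reader of `W` ignores every atom off `W`** -/
theorem pvc1_ig {β : Type*} {f : Conf PvPt → β} {W K : Set ℂ} {F : Finset ℂ} (hf : Conf.Reads (W ×ˢ (univ : Set Bool)) f) (hK : Disjoint W K) (hF : Disjoint W (↑F : Set ℂ))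
    (B : Set (Conf PvPt)) : Pvl3Ig B K (fun _ => F) f := fun σ _ x => by
  rw [← hf, pvc1_restr_R hK hF, hf]

/-- **THE CLASS OF THE BASE `σ`** -/
def pvc1Cls (C : Set ℂ) (F : Finset ℂ) (σ : Conf PvPt) : Set (Conf PvPt) :=
  {ω | (∀ p : PvPt, p.1 ∉ C → p.1 ∉ F → (p ∈ ω.pts ↔ p ∈ σ.pts)) ∧ ∀ z ∈ F, (z ∈ cfSites ω ↔ z ∈ cfSites σ)}

theorem pvc1_cls_cite : True := by
  have := @pvc1Cls.eq_1
  trivial

theorem pvc1_cls_self (C : Set ℂ) (F : Finset ℂ) (σ : Conf PvPt) : σ ∈ pvc1Cls C F σ := ⟨fun _ _ _ => Iff.rfl, fun _ _ => Iff.rfl⟩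

/-- the class is stable under every atom inside `(C, F)` -/
theorem pvc1_cls_atom {C K : Set ℂ} {F F' : Finset ℂ} (hK : K ⊆ C) (hF : F' ⊆ F) (hd : Disjoint (↑F : Set ℂ) C) {σ ω : Conf PvPt} (h : ω ∈ pvc1Cls C F σ) (x : PvthSd) :
    pvthR K (fun _ => F') ω x ∈ pvc1Cls C F σ := by
  classical
  have hmem : ∀ p : PvPt, p ∈ (pvthR K (fun _ => F') ω x).pts ↔ ∃ r : PvPt, ((r ∈ ω.pts ∧ r.1 ∉ K) ∨ (r ∈ x.1.pts ∧ r.1 ∈ K)) ∧ pvthCol (↑F') x.2 r = p := by
    intro p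
    rw [pvl3k_R_eq]
    show p ∈ pvthCol (↑F') x.2 '' (pvtkR (Prod.fst ⁻¹' K) (ω, x.1)).pts ↔ _
    constructor
    · rintro ⟨r, hr, e⟩
      exact ⟨r, pvtk_mem_R.1 hr, e⟩
    · rintro ⟨r, hr, e⟩
      exact ⟨r, pvtk_mem_R.2 hr, e⟩
  refine ⟨fun p hC hFp => ?_, fun z hz => ?_⟩
  · rw [hmem, ← h.1 p hC hFp]
    have hK' : p.1 ∉ K := fun hh => hC (hK hh)
    have hF' : p.1 ∉ (↑F' : Set ℂ) := fun hh => hFp (hF hh)
    constructor
    · rintro ⟨r, hr, e⟩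
      have e1 : r.1 = p.1 := by rw [← e]; rfl
      have e2 : pvthCol (↑F') x.2 r = r := by
        unfold pvthCol
        rw [if_neg (by rw [e1]; exact hF')]
      rw [e2] at e
      subst e
      rcases hr with hr | hr
      · exact hr.1
      · exact absurd hr.2 hK'
    · intro hp
      refine ⟨p, Or.inl ⟨hp, hK'⟩, ?_⟩
      unfold pvthCol
      rw [if_neg hF']
  · rw [← h.2 z hz]
    have hK' : z ∉ K := fun hh => Set.disjoint_left.1 hd (Finset.mem_coe.2 hz) (hK hh)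
    constructor
    · rintro ⟨p, hp, rfl⟩
      obtain ⟨r, hr, e⟩ := (hmem p).1 hp
      have e1 : r.1 = p.1 := by rw [← e]; rfl
      rcases hr with hr | hr
      · exact ⟨r, hr.1, e1⟩
      · exact absurd (e1 ▸ hr.2) hK'
    · rintro ⟨r, hr, rfl⟩
      exact ⟨pvthCol (↑F') x.2 r, (hmem _).2 ⟨r, Or.inl ⟨hr, hK'⟩, rfl⟩, rfl⟩

/-! ## the contract -/

section loc

variable {υ ι : Type} [Fintype υ] [Fintype ι]

/-- **EXACT READERS + CONSTANT FRESH SETS**: `Fe e` = the fresh sites of the link `e` (a constant of the base), `Wn e` = the window which the link `e` reads -/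
structure Pvc1Loc (S : Pvl3Sys υ ι) (Fe : ι → Finset ℂ) (Wn : ι → Set ℂ) : Prop where
  mO : ∀ u, MeasurableSet (S.O u)
  mK : ∀ e, MeasurableSet (S.K e)
  mG : ∀ u, MeasurableSet (S.G u)
  mA : ∀ e, MeasurableSet (S.A e)
  dOO : ∀ u u', u ≠ u' → Disjoint (S.O u) (S.O u')
  dKK : ∀ e e', e ≠ e' → Disjoint (S.K e) (S.K e')
  dOK : ∀ u e, Disjoint (S.O u) (S.K e)
  F_eq : ∀ e, S.F e = fun _ => Fe e
  dF : ∀ e, Disjoint (↑(Fe e) : Set ℂ) S.C
  dFF : ∀ e e', e ≠ e' → Disjoint (Fe e) (Fe e')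
  rG : ∀ u, Conf.Reads (S.O u ×ˢ (univ : Set Bool)) (fun η => η ∈ S.G u)
  rA : ∀ e, Conf.Reads (Wn e ×ˢ (univ : Set Bool)) (fun η => η ∈ S.A e)
  WK : ∀ e e', e ≠ e' → Disjoint (Wn e) (S.K e')
  WFr : ∀ e e', e ≠ e' → Disjoint (Wn e) (↑(Fe e') : Set ℂ)
  WO : ∀ e u, u ∉ S.adj e → Disjoint (Wn e) (S.O u)

variable {S : Pvl3Sys υ ι} {Fe : ι → Finset ℂ} {Wn : ι → Set ℂ}

theorem Pvc1Loc.mC (h : Pvc1Loc S Fe Wn) : MeasurableSet S.C :=
  (MeasurableSet.iUnion h.mO).union (MeasurableSet.iUnion h.mK)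

open Classical in
theorem Pvc1Loc.Fs_eq (h : Pvc1Loc S Fe Wn) (σ : Conf PvPt) : S.Fs σ = Finset.univ.biUnion Fe := by
  unfold Pvl3Sys.Fs
  refine Finset.biUnion_congr rfl fun e _ => ?_
  rw [h.F_eq]

/-- **`WF` ON THE CLASS OF ANY BASE** -/
theorem Pvc1Loc.wf (h : Pvc1Loc S Fe Wn) (σ : Conf PvPt) : S.WF (pvc1Cls S.C (S.Fs σ) σ) := by
  have hsub : ∀ e, Fe e ⊆ S.Fs σ := by
    intro e z hz
    have : z ∈ (↑(S.Fs σ) : Set ℂ) := by
      rw [pvl3k_Fs_coe]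
      refine mem_iUnion.2 ⟨e, ?_⟩
      rw [h.F_eq]
      exact hz
    exact this
  have hdis : Disjoint (↑(S.Fs σ) : Set ℂ) S.C := by
    rw [pvl3k_Fs_coe]
    refine disjoint_iUnion_left.2 fun e => ?_
    rw [h.F_eq]
    exact h.dF e
  exact
  { mO := h.mO
    mK := h.mK
    mG := h.mG
    mA := fun e σ' _ => (pvth_R_measurable h.mC S.Fs σ') (h.mA e)
    dOO := h.dOO
    dKK := h.dKK
    dOK := h.dOK
    dF := fun e σ' _ => by rw [h.F_eq]; exact h.dF e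
    dFF := fun e e' hne σ' _ => by rw [h.F_eq, h.F_eq]; exact h.dFF e e' hne
    B_L := fun e σ' hσ' x => by
      rw [h.F_eq]
      exact pvc1_cls_atom (pvl3k_K_sub e) (hsub e) hdis hσ' x
    B_P := fun u σ' hσ' x => pvc1_cls_atom (F' := ∅) (pvl3k_O_sub u) (Finset.empty_subset _) hdis hσ' x
    rG := h.rG
    F_L := fun e e' σ' _ x => by rw [h.F_eq]
    F_P := fun e u σ' _ x => by rw [h.F_eq]
    A_L := fun e e' hne => by
      rw [h.F_eq e']
      exact pvc1_ig (h.rA e) (h.WK e e' hne) (h.WFr e e' hne) _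
    A_P := fun e u hu => pvc1_ig (F := ∅) (h.rA e) (h.WO e u hu) (by simp) _ }

/-- **`Fld` ON ANY SET OF BASES** -/
theorem Pvc1Loc.fld (h : Pvc1Loc S Fe Wn) (B : Set (Conf PvPt)) {X : ι → Conf PvPt → ℂ} (mX : ∀ e, Measurable (X e)) (rX : ∀ e, Conf.Reads (Wn e ×ˢ (univ : Set Bool)) (X e)) : S.Fld B X where
  meas := fun e σ' _ => (mX e).comp (pvth_R_measurable h.mC S.Fs σ')
  X_L := fun e e' hne => by
    rw [h.F_eq e']
    exact pvc1_ig (rX e) (h.WK e e' hne) (h.WFr e e' hne) _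
  X_P := fun e u hu => pvc1_ig (F := ∅) (rX e) (h.WO e u hu) (by simp) _

end loc

end Claimed.Agent.R289
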