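-- KEEP
import Claimed.Agent.R289.Tr.DomEM
import Claimed.Agent.R289.Tr.ChainN
import Claimed.Agent.R289.Tr.ChainG
import Claimed.Agent.R289.Tr.C2ColR
import Claimed.Agent.R289.Exit.N1YT
import Claimed.Agent.R289.Exit.N1Far
import Claimed.Agent.R289.Exit.N1CcR

/-!
# Row 289 (S0537), THE WALL, ROAD E, file Tr/DomEJ : **THE JUNCTION `jn` OF (CHAIN) BY THE MESH ROUTE**      (helper104, second of 37 on `dom`; prefix `pvdk_`)      0 sorry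

WHY.   `PvjmAe.jn` (268, `Tr/ChainN`) = the junction of 90 (`pvjm_junction`) asks the mesh of the two BIG mouths `closedBall y± (ρ₂ h + 3μ)`.      It is asked for the PRESENT DATA of the kit of record, on the chain event:
* the present data carry layer 1 of the guard = THE MESH OFF `C` (`Pvn1kMesh` of 170: the whole patch `7R` minus the `r`-neighbourhood of `C`);
* on the chain event, a.e., `C` has the mesh `μ_C` ((MESH-C) = `pvdk_meshC`, `Tr/DomEM`);   `pvn1k_mesh_all` : THE WHOLE PATCH HAS THE MESH `2r + μ_C`.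
* sec. 1  the local frame of 124;   **`pvdk_fat_Ka`** : an end tile `pvegKa` (funnel minus mouth minus door region) is fat in `mouth ∪ tile` (= `hfo hfi` of `pvdk_meshC`)
* sec. 2  `pvdk_door_meas`, `pvdk_Wno_meas`, `pvdk_Wni_meas` (windows Borel at EVERY `ε`), **`pvdk_mesh_patch`** (any parameter)
* sec. 3  **`pvdk_jn_of`** : the field `jn` from the mesh of the patch at the present data (any parameter)
* sec. 4  `pvdk_fat_OKa`, `pvdk_fat_IKa` (tiles of record), `pvdk_mouth_in`;   AT `pvxParOf N hN c`, `PvnaRec`: `pvdk_num_rec` (`PvhgNum`), **`pvdk_patch_rec`**, **`pvdk_jn`** = THE FIELD `jn` OF `PvjmAe` VERBATIM at `𝔎 := pvyyK ..`, `S := S' ∩ pvjmEv ..`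
-/

set_option autoImplicit false
set_option linter.unusedVariables false

namespace Claimed.Agent.R289

open MeasureTheory Set Filter Topology Metric Claims.C0465
open scoped ENNReal

/-! ## 1. the end tiles of 124 are fat -/

/-- the point of the local frame `(Y, u)` with the coordinates `(s, t)` -/
theorem pvdk_frame_pt {u : ℂ} (hu : ‖u‖ = 1) (Y : ℂ) (s t : ℝ) : pvegS Y u (Y + u * (⟨s, t⟩ : ℂ)) = s ∧ pvegL Y u (Y + u * (⟨s, t⟩ : ℂ)) = t := by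
  have h1 : u * (starRingEnd ℂ) u = 1 := by
    rw [Complex.mul_conj, Complex.normSq_eq_norm_sq, hu]
    norm_num
  have e : (Y + u * (⟨s, t⟩ : ℂ) - Y) * (starRingEnd ℂ) u = (⟨s, t⟩ : ℂ) := by
    calc (Y + u * (⟨s, t⟩ : ℂ) - Y) * (starRingEnd ℂ) u = (u * (starRingEnd ℂ) u) * (⟨s, t⟩ : ℂ) := by ring
      _ = _ := by rw [h1, one_mul]
  unfold pvegS pvegL
  rw [e]
  exact ⟨rfl, rfl⟩

theorem pvdk_frame_lip {u : ℂ} (hu : ‖u‖ = 1) (Y v v' : ℂ) : |pvegS Y u v - pvegS Y u v'| ≤ ‖v - v'‖ ∧ |pvegL Y u v - pvegL Y u v'| ≤ ‖v - v'‖ := by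
  have h1 : ‖(v - v') * (starRingEnd ℂ) u‖ = ‖v - v'‖ := by rw [norm_mul, Complex.norm_conj, hu, mul_one]
  rw [pveg_S_sub, pveg_L_sub, ← h1]
  exact ⟨Complex.abs_re_le_norm _, Complex.abs_im_le_norm _⟩

theorem pvdk_frame_norm {u : ℂ} (hu : ‖u‖ = 1) (Y v v' : ℂ) : ‖v - v'‖ ≤ |pvegS Y u v - pvegS Y u v'| + |pvegL Y u v - pvegL Y u v'| := by
  have h1 : ‖(v - v') * (starRingEnd ℂ) u‖ = ‖v - v'‖ := by rw [norm_mul, Complex.norm_conj, hu, mul_one]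
  rw [pveg_S_sub, pveg_L_sub, ← h1]
  exact Complex.norm_le_abs_re_add_abs_im _

/-- **AN END TILE OF 124 IS FAT IN `mouth ∪ tile`**: the funnel `pvegRa` minus the mouth minus the door region `O`, `O` in front of the line `S = S(p) - s₀` -/
theorem pvdk_fat_Ka {Y u p : ℂ} {e δ w rM a s₀ μ : ℝ} {O : Set ℂ} (hu : ‖u‖ = 1) (hμ : 0 < μ) (hO : ∀ v ∈ O, pvegS Y u p - s₀ < pvegS Y u v) (ha : a ≤ s₀)
    (hlen : e + 2 * δ + 2 * μ ≤ pvegS Y u p - s₀) (hw : μ ≤ w) :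
    PvdkFat μ (s₀ - a + 2 * μ) (pvegKa Y u p e δ w rM a O) (closedBall Y rM ∪ pvegKa Y u p e δ w rM a O) := by
  rintro c ⟨⟨⟨c1, c2, c3⟩, -⟩, -⟩
  rw [abs_le] at c3
  set s : ℝ := max (e + 2 * δ + μ) (min (pvegS Y u c) (pvegS Y u p - s₀ - μ)) with hs
  set t : ℝ := max (pvegL Y u p - w + μ) (min (pvegL Y u c) (pvegL Y u p + w - μ)) with ht
  have s1 : e + 2 * δ + μ ≤ s := le_max_left _ _
  have s2 : s ≤ pvegS Y u p - s₀ - μ := max_le (by linarith) (min_le_right _ _)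
  have t1 : pvegL Y u p - w + μ ≤ t := le_max_left _ _
  have t2 : t ≤ pvegL Y u p + w - μ := max_le (by linarith) (min_le_right _ _)
  have s3 : |pvegS Y u c - s| ≤ s₀ - a + μ := by
    rw [abs_le]
    constructor
    · have : s ≤ max (e + 2 * δ + μ) (pvegS Y u c) := max_le_max le_rfl (min_le_left _ _)
      rcases max_cases (e + 2 * δ + μ) (pvegS Y u c) with ⟨e', _⟩ | ⟨e', _⟩ <;> rw [e'] at this <;> linarith
    · have : min (pvegS Y u c) (pvegS Y u p - s₀ - μ) ≤ s := le_max_right _ _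
      rcases min_cases (pvegS Y u c) (pvegS Y u p - s₀ - μ) with ⟨e', _⟩ | ⟨e', _⟩ <;> rw [e'] at this <;> linarith
  have t3 : |pvegL Y u c - t| ≤ μ := by
    rw [abs_le]
    constructor
    · have : t ≤ max (pvegL Y u p - w + μ) (pvegL Y u c) := max_le_max le_rfl (min_le_left _ _)
      rcases max_cases (pvegL Y u p - w + μ) (pvegL Y u c) with ⟨e', _⟩ | ⟨e', _⟩ <;> rw [e'] at this <;> linarith
    · have : min (pvegL Y u c) (pvegL Y u p + w - μ) ≤ t := le_max_right _ _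
      rcases min_cases (pvegL Y u c) (pvegL Y u p + w - μ) with ⟨e', _⟩ | ⟨e', _⟩ <;> rw [e'] at this <;> linarith
  obtain ⟨eS, eL⟩ := pvdk_frame_pt hu Y s t
  refine ⟨Y + u * (⟨s, t⟩ : ℂ), fun v hv => ?_, ?_⟩
  · rw [mem_closedBall, dist_eq_norm] at hv
    obtain ⟨l1, l2⟩ := pvdk_frame_lip hu Y v (Y + u * (⟨s, t⟩ : ℂ))
    rw [eS] at l1
    rw [eL] at l2
    have l1' := abs_le.1 (l1.trans hv)
    have l2' := abs_le.1 (l2.trans hv)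
    have hRa : v ∈ pvegRa Y u p e δ w a := ⟨by linarith, by linarith, abs_le.2 ⟨by linarith, by linarith⟩⟩
    have hvO : v ∉ O := fun h => by have := hO v h; linarith
    by_cases hb : v ∈ closedBall Y rM
    · exact Or.inl hb
    · exact Or.inr ⟨⟨hRa, hb⟩, hvO⟩
  · have := pvdk_frame_norm hu Y c (Y + u * (⟨s, t⟩ : ℂ))
    rw [eS, eL] at this
    linarith


/-! ## 2. the mesh of the whole patch on the chain event -/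

section patch

variable {τ : Type} {c : ℝ} {𝔓 : PvxPar τ c} {𝔈 : PvieEng τ}

/-- the region of a door plug is Borel at EVERY `ε` (it does not depend on `ε`) -/
theorem pvdk_door_meas (hE : PvnnEng 𝔈 c) (m : ℕ) (ε : ℝ) (z : ℂ) {d : ℂ} (hd : d ≠ 0) : MeasurableSet (pvieDoor 𝔈 m ε z d) := by
  have hδ := pvlm_Del_pos c m
  unfold pvieDoor
  rw [pvdk_kit_O hE]
  have e3 : (pvkgG.sc (pvlmDel c m)).O₀ = pvkdAt 0 ((pvlmDel c m : ℝ) : ℂ) pvkgO := pvdil_S_sim _ _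
  rw [e3]
  exact pvnm_sim z hd (pvkgg_at_open (by exact_mod_cast hδ.ne') (pvkgg_box_open _ _ _ _)).measurableSet

theorem pvdk_Wno_meas (hE : PvnnEng 𝔈 c) {m : ℕ} (hM : ∀ t, MeasurableSet (𝔈.oM m t)) (hK : ∀ t, MeasurableSet (𝔈.oK m t)) (ε : ℝ) (z : ℂ) (t : τ) (Z : Set (ℤ × ℤ)) :
    MeasurableSet (pvilWno 𝔓 𝔈 m ε z t Z) :=
  (((pvyj_Wz_meas m z t Z).union (pvnm_sh z (hM t))).union (pvnm_sh z (hK t))).union (pvdk_door_meas hE m ε _ (pvth_ne_zero ((𝔓.Γ m).dout1 t)))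

theorem pvdk_Wni_meas (hE : PvnnEng 𝔈 c) {m : ℕ} (hM : ∀ t, MeasurableSet (𝔈.iM m t)) (hK : ∀ t, MeasurableSet (𝔈.iK m t)) (ε : ℝ) (z : ℂ) {t : τ} (hd : (𝔓.Γ m).din t ≠ 0) (Z : Set (ℤ × ℤ)) :
    MeasurableSet (pvilWni 𝔓 𝔈 m ε z t Z) :=
  (((pvyj_Wz_meas m z t Z).union (pvnm_sh z (hM t))).union (pvnm_sh z (hK t))).union (pvdk_door_meas hE m ε _ hd)

/-- **THE MESH OF THE WHOLE PATCH**: a.e. on the chain event, a configuration with the mesh `r` off `C` (layer 1 of the guard) has the mesh `2r + μ` on `closedBall x (7R)` -/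
theorem pvdk_mesh_patch (h𝔓 : 𝔓.WfB) (hE : PvnnEng 𝔈 c) (HB : PvmlEngB 𝔈) (m : ℕ) (p : PvtsPat τ) (hΓ : (𝔓.Γ m).Ok p) (hd4 : (𝔓.Γ m).dout p.tt ^ 4 = 1)
    {w : ∀ η : Conf PvPt, (delbPl (pvieY η)).Dart → ℂ} (hw : PvmlWm w) (b : Bool) (Zt Zs : Set (ℤ × ℤ)) (Ft Fs : Set ℂ)
    (hWo : ∀ ε, MeasurableSet (pvilWno 𝔓 𝔈 m ε p.zt p.tt Zt)) (hWi : ∀ ε, MeasurableSet (pvilWni 𝔓 𝔈 m ε p.zs p.ts Zs)) (hμ0 : 0 < pvilMu 𝔓 m) {κ μ : ℝ}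
    (hfo : PvdkFat (pvilMu 𝔓 m) κ (𝔈.oK m p.tt) (𝔈.oM m p.tt ∪ 𝔈.oK m p.tt)) (hfi : PvdkFat (pvilMu 𝔓 m) κ (𝔈.iK m p.ts) (𝔈.iM m p.ts ∪ 𝔈.iK m p.ts))
    (h1 : 5 * (pvkgG.sc (pvlmDel c m)).ρ ≤ μ) (h2 : κ + pvilMu 𝔓 m ≤ μ) (h3 : 5 * pvilMu 𝔓 m ≤ μ) (x : ℂ) (R : ℝ) {r : ℝ} (hr : 0 < r)
    (hne : ∀ᶠ ε in 𝓝[>] (0 : ℝ), (pvieCc 𝔓 𝔈 m ε p).Nonempty) :
    ∀ᶠ ε in 𝓝[>] (0 : ℝ), ∀ᵐ η ∂pvP ε,
      pvkyFl b η ∈ pvkyEv (𝔈.kit m ε) b (pvieZo 𝔓 m p.zt p.tt) ((𝔓.Γ m).dout p.tt) p.l (pvilEo 𝔓 𝔈 m ε w p.zt p.tt Zt Ft) (pvilEi 𝔓 𝔈 m ε w p.zs p.ts Zs Fs) →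
      VorDense (cfSites η) (pvn1kOff x R (pvieCc 𝔓 𝔈 m ε p) r) r → VorDense (cfSites η) (closedBall x (7 * R)) (2 * r + μ) := by
  filter_upwards [pvdk_meshC h𝔓 hE HB m p hΓ hd4 hw b Zt Zs Ft Fs hWo hWi hμ0 hfo hfi h1 h2 h3, hne] with ε k1 k2
  filter_upwards [k1] with η j1 hEv hoff
  exact pvn1k_mesh_all hr k2 hoff (j1 hEv) (by linarith)

end patch

/-! ## 3. the junction from the mesh of the patch -/

section jn

variable {τ : Type} {c : ℝ} {𝔓 : PvxPar τ c} {x : ℂ} {R : ℝ} {m : ℕ} {π : PvxIx τ}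

/-- **THE FIELD `jn` OF `PvjmAe` (268) FROM THE MESH OF THE PATCH AT THE PRESENT DATA** (`pvjm_junction`: junction of 90) -/
theorem pvdk_jn_of (hW : 𝔓.Wf) (hreg : 𝔓.reg m π = pvfeRegAt (𝔓.Γ m) 𝔓.ty 𝔓.cp 𝔓.cm 𝔓.num (pvlmH m) π.p) (hπ : π ∈ pvxPatSet 𝔓 x R m) {μ : ℝ}
    (hn : PvhgNum 𝔓.num (pvlmH m) μ (𝔓.ty π.p.tt) (𝔓.ty π.p.ts))
    (room : 𝔓.num.rho * pvlmH m / 2 + 𝔓.num.rho1 * pvlmH m + 2 * μ ≤ (pvwRad 𝔓.num (pvlmH m) (𝔓.ty π.p.ts) 𝔓.num.K + pvwRad 𝔓.num (pvlmH m) (𝔓.ty π.p.tt) 𝔓.num.K) / 2)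
    (hint : closedBall (pvxYt 𝔓 m π.p) (𝔓.num.rho2 * pvlmH m + 3 * μ) ⊆ closedBall x (7 * R)) (hins : closedBall (pvxYs 𝔓 m π.p) (𝔓.num.rho2 * pvlmH m + 3 * μ) ⊆ closedBall x (7 * R))
    {𝔎 : PvxnKit} {S : Set (Conf PvPt)} {ε : ℝ} (hε : ε ≠ 0)
    (hmesh : ∀ᵐ ζ ∂pvP ε, ζ ∈ S → ∀ i 𝔇, PvdfPr 𝔓 m π 0 𝔎 ζ i 𝔇 → VorDense (cfSites ζ) (closedBall x (7 * R)) μ) :
    ∀ᵐ ζ ∂pvP ε, ζ ∈ S → ∀ i 𝔇, PvdfPr 𝔓 m π 0 𝔎 ζ i 𝔇 → ∀ n, 𝔇.t.np + 𝔇.s.nm ≤ n → pvasIt (delbPl (cfSites ζ)).toMap (pvdfCol ζ) 𝔇.t.dp n = 𝔇.s.dm →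
    (∀ i, i < n → pvasIt (delbPl (cfSites ζ)).toMap (pvdfCol ζ) 𝔇.t.dp i ≠ 𝔇.s.dm) →
    (∀ i, 𝔇.t.np < i → i + 𝔇.s.nm < n → (((delbPl (cfSites ζ)).toMap.src (pvasIt (delbPl (cfSites ζ)).toMap (pvdfCol ζ) 𝔇.t.dp i) : ↥(cfSites ζ)) : ℂ) ∈ (𝔓.reg m π).Yin ∧
      (((delbPl (cfSites ζ)).toMap.tgt (pvasIt (delbPl (cfSites ζ)).toMap (pvdfCol ζ) 𝔇.t.dp i) : ↥(cfSites ζ)) : ℂ) ∈ (𝔓.reg m π).Yin) → 𝔇.SYn Subtype.val (𝔓.reg m π) (pvdfCol ζ) n := by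
  filter_upwards [pvat_nice_ae hε, hmesh] with ζ hN hM hS i 𝔇 hP n a1 a2 a3 a4
  have hd := hM hS i 𝔇 hP
  exact pvjm_junction (hW.del m) hreg hπ hN.good hP.1.ok hP.1.hull_s hP.1.hull_t hn room (fun z hz => hd z (hint hz)) (fun z hz => hd z (hins hz)) hP.1.cyl.1 a1 a2 a3 a4

end jn

/-! ## 4. at the parameters, the engine and the kits of record -/

section tiles

variable {τ : Type} {c : ℝ} {𝔓 : PvxPar τ c} {m : ℕ} {t : τ}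

theorem pvdk_mu_le (𝔓 : PvxPar τ c) (m : ℕ) : pvilMu 𝔓 m ≤ pvlmDel c m / 1000 := div_le_div_of_nonneg_right (min_le_left _ _) (by norm_num)

/-- a placed door region lies in the door square -/
theorem pvdk_door_sq {O : Set ℂ} {δ : ℝ} (hO : O ⊆ pvccSq 0 δ) (p : ℂ) {d : ℂ} (hd : d ^ 4 = 1) : pvthSim p d '' O ⊆ pvccSq p δ := by
  rintro _ ⟨w, hw, rfl⟩
  have h1 : pvccN (w - 0) < δ := hO hw
  rw [sub_zero] at h1
  show pvccN (pvthSim p d w - p) < δ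
  have e : pvthSim p d w - p = d * w := by unfold pvthSim; ring
  rw [e, pvccN_unit_mul hd]
  exact h1

/-- **the exit tile of record is fat in `mouth ∪ tile`** -/
theorem pvdk_fat_OKa (hL : PvegLev 𝔓 m) (hT : pviwTyOk 𝔓 t) {O₀ : ℕ → Set ℂ} (hO : O₀ m ⊆ pvccSq 0 (pvlmDel c m / 10)) (hμ0 : 0 < pvilMu 𝔓 m) :
    PvdkFat (pvilMu 𝔓 m) (pvlmDel c m / 10 + 2 * pvilMu 𝔓 m) (pvegOKa 𝔓 O₀ m t) (pvegOM 𝔓 m t ∪ pvegOKa 𝔓 O₀ m t) := by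
  have H := pveg_door_o hL hT
  have hδ := pvlm_Del_pos c m
  have hμ := pvdk_mu_le 𝔓 m
  have hf : 64 * pvlmDel c m ≤ pvegR 𝔓 m := hL.fine
  have hA := pveg_A_pos c m
  refine (pvdk_fat_Ka (s₀ := pvlmDel c m / 10) (pveg_norm_unit H.u4) hμ0 (fun v hv => ?_) ?_ ?_ ?_).mono Subset.rfl Subset.rfl (by linarith)
  · have := abs_lt.1 (pveg_sq_S H.u4 (pvegYp 𝔓 m t) (pvdk_door_sq hO _ H.u4 hv))
    linarith
  · unfold pvegA; linarith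
  · linarith [H.s_lo]
  · linarith

/-- **the entrance tile of record is fat in `mouth ∪ tile`** -/
theorem pvdk_fat_IKa (hL : PvegLev 𝔓 m) (hT : pviwTyOk 𝔓 t) {O₀ : ℕ → Set ℂ} (hO : O₀ m ⊆ pvccSq 0 (pvlmDel c m / 10)) (hμ0 : 0 < pvilMu 𝔓 m) :
    PvdkFat (pvilMu 𝔓 m) (pvlmDel c m / 10 + 2 * pvilMu 𝔓 m) (pvegIKa 𝔓 O₀ m t) (pvegIM 𝔓 m t ∪ pvegIKa 𝔓 O₀ m t) := by
  have H := pveg_door_i hL hT
  have hδ := pvlm_Del_pos c m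
  have hμ := pvdk_mu_le 𝔓 m
  have hf : 64 * pvlmDel c m ≤ pvegR 𝔓 m := hL.fine
  have hA := pveg_A_pos c m
  have hd4 : (𝔓.Γ m).din t ^ 4 = 1 := by
    have := H.u4
    rwa [show (-(𝔓.Γ m).din t) ^ 4 = (𝔓.Γ m).din t ^ 4 by ring] at this
  refine (pvdk_fat_Ka (s₀ := pvlmDel c m / 10) (pveg_norm_unit H.u4) hμ0 (fun v hv => ?_) ?_ ?_ ?_).mono Subset.rfl Subset.rfl (by linarith)
  · have := abs_lt.1 (pveg_sq_S H.u4 (pvegYm 𝔓 m t) (pvdk_door_sq hO _ hd4 hv))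
    linarith
  · unfold pvegA; linarith
  · linarith [H.s_lo]
  · linarith

end tiles


section rec

variable {N : PvxNums} (hN : N.Ok) {c : ℝ} {m : ℕ}

theorem pvdk_mu_pos_rec : 0 < pvilMu (pvxParOf N hN c) m := by
  unfold pvilMu
  have h1 := pvlm_Del_pos c m
  have h2 : 0 < (pvxParOf N hN c).num.rho3 * pvlmH m := mul_pos hN.msk0 (pvlm_H_pos m)
  have := lt_min h1 h2
  positivity

theorem pvdk_O0_rec (nb : PvnaNb N) : (pvnaInRec N hN c nb).O0 m ⊆ pvccSq 0 (pvlmDel c m / 10) := by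
  have hd := pvlm_Del_pos c m
  rw [pvnr_O0]
  rintro _ ⟨w, hw, rfl⟩
  have h1 : pvccN (w - 0) < 1 / 10 := pvkgg_O_tenth hw
  show pvccN (pvthSim 0 (pvlmDel c m) w - 0) < pvlmDel c m / 10
  rw [sub_zero] at h1 ⊢
  unfold pvthSim
  rw [zero_add, pvccN_real_mul hd.le]
  nlinarith

/-- **the numbers of the junction of 90 at the parameters of record**, any mesh `μ ≤ δ_m` -/
theorem pvdk_num_rec (c0 : 0 < c) (hm : N.m0 ≤ m) {μ : ℝ} (hμ0 : 0 < μ) (hμ : μ ≤ pvlmDel c m) (t s : pvxTau N) :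
    PvhgNum (pvxParOf N hN c).num (pvlmH m) μ ((pvxParOf N hN c).ty t) ((pvxParOf N hN c).ty s) := by
  have hh := pvlm_H_pos m
  have hf : 1000000 * pvlmDel c m ≤ N.rho * pvlmH m := pvxo_fine hN c0 hm
  have hd := pvlm_Del_pos c m
  have r0 := hN.rho0
  have r1 := hN.rho1
  have r2 := hN.rho2
  have r3 := hN.rho3
  have e1 : N.rho * pvlmH m ≤ N.rho2 * pvlmH m / 64 := by nlinarith
  have e2 : N.rho2 * pvlmH m ≤ pvlmH m / 8 := by nlinarith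
  have far : ∀ t : pvxTau N, N.rho2 * pvlmH m + 4 * μ + (N.rho * pvlmH m / 4 + 2 * μ) + N.b1 * pvlmH m ≤ pvwRad (pvxParOf N hN c).num (pvlmH m) ((pvxParOf N hN c).ty t) ((pvxParOf N hN c).ty t).k := by
    intro t
    show _ ≤ (2 * N.b2 + (((pvxParOf N hN c).ty t).k : ℝ) * N.rho1) * pvlmH m
    have k0 : (0 : ℝ) ≤ (((pvxParOf N hN c).ty t).k : ℝ) * N.rho1 := mul_nonneg (Nat.cast_nonneg _) (by linarith)
    have b : N.b1 + 2 ≤ N.b2 := by linarith [hN.gap, hN.ab2]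
    have b0 : 0 ≤ N.b1 := by linarith [hN.m_gt, hN.m_lt, hN.B_lt, hN.ab1]
    nlinarith
  exact ⟨hμ0, hh, r0, by show 4 * N.rho ≤ N.rho1; linarith, by show N.rho1 ≤ 2 * N.rho2; linarith, by show 3 * (N.rho * pvlmH m / 4 + 2 * μ) + 2 * μ ≤ N.rho2 * pvlmH m; linarith, far t, far s⟩

end rec


section mouth

variable {τ : Type} {c : ℝ} {𝔓 : PvxPar τ c} {x : ℂ} {R : ℝ} {m : ℕ} {π : PvxIx τ}

/-- the big mouths of the two pins lie in the patch `7R` -/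
theorem pvdk_mouth_in (hW : 𝔓.Wf) (hT : ∀ t, pviwTyOk 𝔓 t) (hπ : π ∈ pvxPatSet 𝔓 x R m) (hhR : pvlmH m ≤ R) {ρ' : ℝ} (hρ' : ρ' ≤ pvlmH m) :
    closedBall (pvxYt 𝔓 m π.p) ρ' ⊆ closedBall x (7 * R) ∧ closedBall (pvxYs 𝔓 m π.p) ρ' ⊆ closedBall x (7 * R) := by
  have hh := pvlm_H_pos m
  obtain ⟨⟨-, -, -, hzs, hzt, -⟩, -, hbs, hbt, -⟩ := hπ
  obtain ⟨-, hρ⟩ := pvc6_rho_h hW m
  constructor
  · intro w hw
    rw [mem_closedBall, dist_eq_norm] at hw ⊢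
    have h1 := pvc6_cp_norm π.p.tt (hT _) m π.p.zt
    have h2 := pvc6_rad_le hW m π.p.tt
    have h3 : ‖w - x‖ ≤ ‖w - pvxYt 𝔓 m π.p‖ + ‖pvxYt 𝔓 m π.p - π.p.zt‖ + ‖π.p.zt - x‖ := by
      have e : w - x = (w - pvxYt 𝔓 m π.p) + (pvxYt 𝔓 m π.p - π.p.zt) + (π.p.zt - x) := by ring
      rw [e]
      exact (norm_add_le _ _).trans (add_le_add (norm_add_le _ _) le_rfl)
    have h4 : ‖pvxYt 𝔓 m π.p - π.p.zt‖ ≤ 2 * pviwRad 𝔓 m π.p.tt + 𝔓.num.rho * pvlmH m / 5 := h1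
    linarith
  · intro w hw
    rw [mem_closedBall, dist_eq_norm] at hw ⊢
    have h1 := pvc6_cm_norm π.p.ts (hT _) m π.p.zs
    have h2 := pvc6_rad_le hW m π.p.ts
    have h3 : ‖w - x‖ ≤ ‖w - pvxYs 𝔓 m π.p‖ + ‖pvxYs 𝔓 m π.p - π.p.zs‖ + ‖π.p.zs - x‖ := by
      have e : w - x = (w - pvxYs 𝔓 m π.p) + (pvxYs 𝔓 m π.p - π.p.zs) + (π.p.zs - x) := by ring
      rw [e]
      exact (norm_add_le _ _).trans (add_le_add (norm_add_le _ _) le_rfl)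
    have h4 : ‖pvxYs 𝔓 m π.p - π.p.zs‖ ≤ 2 * pviwRad 𝔓 m π.p.ts + 𝔓.num.rho * pvlmH m / 5 := h1
    linarith

end mouth

section rec

variable {N : PvxNums} (hN : N.Ok) {c : ℝ} {m : ℕ} {x : ℂ} {R : ℝ} {π : PvxIx (pvxTau N)}

/-- **THE MESH OF THE WHOLE PATCH AT THE RECORD**: a.e. on the chain event (any colour, any hulls, any frozen sets), the mesh `r` off `C` gives the mesh `2r + δ_m / 8` on `closedBall x (7R)` -/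
theorem pvdk_patch_rec (c0 : 0 < c) (nb : PvnaNb N) (hm : N.m0 ≤ m) (hπ : π ∈ pvxPatSet (pvxParOf N hN c) x R m) (b : Bool) (Zt Zs : Set (ℤ × ℤ)) (Ft Fs : Set ℂ) {r : ℝ} (hr : 0 < r) :
    ∀ᶠ ε in 𝓝[>] (0 : ℝ), ∀ᵐ η ∂pvP ε,
      pvkyFl b η ∈ pvkyEv ((pvnaEngRec N hN c nb).kit m ε) b (pvieZo (pvxParOf N hN c) m π.p.zt π.p.tt) (((pvxParOf N hN c).Γ m).dout π.p.tt) π.p.l
        (pvilEo (pvxParOf N hN c) (pvnaEngRec N hN c nb) m ε pvilQ π.p.zt π.p.tt Zt Ft) (pvilEi (pvxParOf N hN c) (pvnaEngRec N hN c nb) m ε pvilQ π.p.zs π.p.ts Zs Fs) →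
      VorDense (cfSites η) (pvn1kOff x R (pvieCc (pvxParOf N hN c) (pvnaEngRec N hN c nb) m ε π.p) r) r → VorDense (cfSites η) (closedBall x (7 * R)) (2 * r + pvlmDel c m / 8) := by
  have hW := pvxo_wf N hN c
  have hE := pvnr_nn N hN c nb
  obtain ⟨Cth, r', κs, H⟩ := (pvnr_wf hN c0 nb).wf
  have hL := pvc6_lev_rec hN c0 hm
  have hδ := pvlm_Del_pos c m
  have hμ0 := pvdk_mu_pos_rec hN (c := c) (m := m)
  have hμ := pvdk_mu_le (pvxParOf N hN c) m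
  refine pvdk_mesh_patch hW.toWfB hE (pvml_engB H) m π.p hπ.1.1 (pvgj_dout_pow ((pvfhw_par N hN c).doors m) _) pvml_wm_Q b Zt Zs Ft Fs
    (fun ε => pvdk_Wno_meas hE (H.m_oM m) (H.m_oK m) ε _ _ _) (fun ε => pvdk_Wni_meas hE (H.m_iM m) (H.m_iK m) ε _ (pvyj_din_ne hπ.1.1) _) hμ0
    (κ := pvlmDel c m / 10 + 2 * pvilMu (pvxParOf N hN c) m) ?_ ?_ ?_ (by linarith) (by linarith) x R hr (Eventually.of_forall fun ε => pvn1f_ne_rec hN nb ε π.p)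
  · rw [pvnr_oK, pvnr_oM]
    exact pvdk_fat_OKa hL (pvea_tyOk hN _) (pvdk_O0_rec hN nb) hμ0
  · rw [pvnr_iK, pvnr_iM]
    exact pvdk_fat_IKa hL (pvea_tyOk hN _) (pvdk_O0_rec hN nb) hμ0
  · show 5 * (pvlmDel c m * pvkgG.ρ) ≤ pvlmDel c m / 8
    rw [pvkgg_ρ]
    linarith

end rec

section top

variable {c : ℝ}

/-- **THE FIELD `jn` OF `PvjmAe` (268, `Tr/ChainN`), VERBATIM, AT THE PARAMETERS, THE ENGINE AND THE KITS OF RECORD** (`pvyyK` of 12 = kit v2 of 29 `.guardE (Rg ε)`, layer 1 ⟹ the mesh off `C`), on `S ε ∩ {the chain succeeds}`,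
ANY `S`, ANY hulls and frozen sets of the reference ends -/
theorem pvdk_jn (c0 : 0 < c) (N : PvxNums) (hN : N.Ok) (𝔈 : PvieEng (pvxTau N)) (hR : PvnaRec N hN c 𝔈) {x : ℂ} {R : ℝ} {m : ℕ} {π : PvxIx (pvxTau N)}
    (hm : (pvxParOf N hN c).m0 ≤ m) (hπ : π ∈ pvxPatSet (pvxParOf N hN c) x R m) {r : ℝ} (hr : 0 < r) (hr60 : 60 * r ≤ pvlmDel c m) (q : ℝ≥0∞)
    {Rg : ℝ → ∀ Y : Set ℂ, PvwDat (delbPl Y).toMap → (↥Y → Bool) → Prop} (hRg : PvyyRg (pvxParOf N hN c) 𝔈 x R m π r Rg) (S : ℝ → Set (Conf PvPt)) (Z Z' : Set (ℤ × ℤ)) (F F' : Set ℂ) :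
    ∀ᶠ ε in 𝓝[>] (0 : ℝ), ∀ᵐ ζ ∂pvP ε, ζ ∈ S ε ∩ pvjmEv (pvxParOf N hN c) 𝔈 m π Z Z' F F' ε → ∀ i 𝔇, PvdfPr (pvxParOf N hN c) m π 0 (pvyyK (pvxParOf N hN c) 𝔈 x R m π r q Rg ε) ζ i 𝔇 →
      ∀ n, 𝔇.t.np + 𝔇.s.nm ≤ n → pvasIt (delbPl (cfSites ζ)).toMap (pvdfCol ζ) 𝔇.t.dp n = 𝔇.s.dm →
      (∀ i, i < n → pvasIt (delbPl (cfSites ζ)).toMap (pvdfCol ζ) 𝔇.t.dp i ≠ 𝔇.s.dm) →
      (∀ i, 𝔇.t.np < i → i + 𝔇.s.nm < n → (((delbPl (cfSites ζ)).toMap.src (pvasIt (delbPl (cfSites ζ)).toMap (pvdfCol ζ) 𝔇.t.dp i) : ↥(cfSites ζ)) : ℂ) ∈ ((pvxParOf N hN c).reg m π).Yin ∧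
        (((delbPl (cfSites ζ)).toMap.tgt (pvasIt (delbPl (cfSites ζ)).toMap (pvdfCol ζ) 𝔇.t.dp i) : ↥(cfSites ζ)) : ℂ) ∈ ((pvxParOf N hN c).reg m π).Yin) →
      𝔇.SYn Subtype.val ((pvxParOf N hN c).reg m π) (pvdfCol ζ) n := by
  obtain ⟨nb, rfl⟩ := hR
  have hW := pvxo_wf N hN c
  have hh := pvlm_H_pos m
  have hδ := pvlm_Del_pos c m
  have hf : 1000000 * pvlmDel c m ≤ N.rho * pvlmH m := pvxo_fine hN c0 hm
  have hLR : N.L * pvlmH m + pvlmH m ≤ R := pvxo_LR N hN c hπ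
  have hL0 : 0 ≤ N.L := by linarith [hN.m_gt, hN.m_lt, hN.B_lt, hN.ab1, hN.gap, hN.ab2, hN.b2_le]
  have hhR : pvlmH m ≤ R := by nlinarith
  have r0 := hN.rho0
  have r1 := hN.rho1
  have r2 := hN.rho2
  have r3 := hN.rho3
  have hμ0 : 0 < 2 * r + pvlmDel c m / 8 := by linarith
  have hμ1 : 2 * r + pvlmDel c m / 8 ≤ pvlmDel c m := by linarith
  have e0 : N.rho * pvlmH m ≤ pvlmH m / 512 := by nlinarith
  have e1 : N.rho1 * pvlmH m ≤ pvlmH m / 64 := by nlinarith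
  have e2 : N.rho2 * pvlmH m ≤ pvlmH m / 8 := by nlinarith
  obtain ⟨hint, hins⟩ := pvdk_mouth_in hW (fun t => pvea_tyOk hN t) hπ hhR (ρ' := (pvxParOf N hN c).num.rho2 * pvlmH m + 3 * (2 * r + pvlmDel c m / 8)) (by
    show N.rho2 * pvlmH m + 3 * (2 * r + pvlmDel c m / 8) ≤ pvlmH m
    linarith)
  have room : (pvxParOf N hN c).num.rho * pvlmH m / 2 + (pvxParOf N hN c).num.rho1 * pvlmH m + 2 * (2 * r + pvlmDel c m / 8) ≤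
      (pvwRad (pvxParOf N hN c).num (pvlmH m) ((pvxParOf N hN c).ty π.p.ts) (pvxParOf N hN c).num.K + pvwRad (pvxParOf N hN c).num (pvlmH m) ((pvxParOf N hN c).ty π.p.tt) (pvxParOf N hN c).num.K) / 2 := by
    show N.rho * pvlmH m / 2 + N.rho1 * pvlmH m + 2 * (2 * r + pvlmDel c m / 8) ≤ ((2 * N.b2 + (N.K : ℝ) * N.rho1) * pvlmH m + (2 * N.b2 + (N.K : ℝ) * N.rho1) * pvlmH m) / 2
    have k0 : (0 : ℝ) ≤ (N.K : ℝ) * N.rho1 := mul_nonneg (Nat.cast_nonneg _) (by linarith)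
    have b : 1 ≤ N.b2 := by linarith [hN.m_gt, hN.m_lt, hN.B_lt, hN.ab1, hN.gap, hN.ab2]
    nlinarith
  filter_upwards [pvdk_patch_rec hN c0 nb hm hπ ((pvxParOf N hN c).col π.p.tt) Z Z' F F' hr, self_mem_nhdsWithin] with ε k1 hε
  refine pvdk_jn_of hW ((pvfhw_par N hN c).reg_eq m π) hπ (pvdk_num_rec hN c0 hm hμ0 hμ1 _ _) room hint hins (ne_of_gt hε) ?_
  filter_upwards [k1] with ζ j1 hS i 𝔇 hP
  exact j1 hS.2 (hRg ε _ 𝔇 _ hP.2.1.1).2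

end top

end Claimed.Agent.R289
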