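import Claimed.Agent.R289.Fan.Sphere
import Claimed.Agent.R289.Tr.StrandD
import Claimed.Agent.R289.Tr.OneWall
import Claimed.Agent.R289.Pl.Bond

/-!
# Row 289 (S0537, Cardy for Poisson-Voronoi), THE WALL, road E, item E16, file Tr/FanRim : CLOSING A STRAND BY A FAN      (helper98; prefix `pvfk_`, `pvfk`)

MODEL FREE half of the deterministic side of `FLAG4` (`Tr/Flag4D`).   A strand `a = a_0, …, a_n` of a plane `T`, `y` = the last-exit decomposition of its black bank (`PvwLE`), a finite disc `c.Left` which contains the faces crossed by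
the strand, whose boundary cycle passes through the two tips: `src (c.e 0) = src a_n` (`u⁺`), `c.e i1 = a_0` (`u⁻ → w⁻`).   In the completed sphere `F.map` of `Fan/Sphere` (marks `u⁺, u⁻, w⁻`, colours black, white, white of the three outer vertices)
      `y`  followed by  `u⁺ → s_0 → u⁻`      IS A RIM.
* sec. 1  `pvfk_glue_rim` : two globally faced paths with one anchor, glued = a rim (`IsRim` form of `pvt_c_close`)
* sec. 2  `pvfkIv`, `pvfkPth` (image of a path of the disc in the sphere), `pvfk_join_mono`, **`pvfk_rim`**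
* sec. 3  dual connectivity: `pvfk_union_conn`, `pvfk_fc_conn`;  **`pvfk_hull`** (finite disc round the strand and the star of a finite connected vertex set)
* sec. 4  **`pvfk_marks`** (the two tips on the boundary cycle), **`pvfk_model`** (all together)
-/

set_option autoImplicit false
set_option linter.unusedSectionVars false
set_option linter.unusedVariables false

namespace Claimed.Agent.R289

open Relation Set

variable {V D : Type}

/-! ## 1. gluing two faced paths -/

section glue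

variable {T : PvMap V D}

/-- two globally faced paths with the same anchor which are glued to a cycle form a rim -/
theorem pvfk_glue_rim (hT : T.IsSph) (s : V → Bool) (ρ : V) (p q : T.Pth) (h : p.Glue q) (hp : p.GFaced s ρ) (hq : q.GFaced s ρ) : (p.glue q h).IsRim s := by
  have hcol := pvt_c_glue_col s p q h hp.1 hq.1
  have hm : ∀ i, s (T.src ((p.glue q h).e i)) = s (T.src ((p.glue q h).e 0)) := fun i => pvt_c_bool (hcol i) (hcol 0)
  have hap : ∀ i, T.Mono s (T.apex (T.opp ((p.glue q h).e i))) ρ := by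
    intro i
    rcases pvt_c_glue_cases p q h i with ⟨k, hk, e⟩ | ⟨k, hk, e⟩
    · rw [e]; exact hp.2 k hk
    · rw [e]; exact hq.2 k hk
  have hf : ∀ i, s (T.apex (T.opp ((p.glue q h).e i))) ≠ s (T.src ((p.glue q h).e 0)) := by
    intro i
    rw [pvt_c_mono_col (hap i)]
    exact (hcol 0).symm
  have hw : ∀ i, T.Mono s (T.apex (T.opp ((p.glue q h).e 0))) (T.apex (T.opp ((p.glue q h).e i))) :=
    fun i => (hap 0).trans (pvt_c_mono_symm (hap i))
  exact pvow_isRim hT _ (pvt_c_cyc_tag s _ hm hf) (pvt_c_cyc_wall s _ hT hm hf hw)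

end glue

/-! ## 2. the rim of the completed sphere -/

open Classical in
/-- a vertex of the disc as a vertex of the sphere (junk off the disc) -/
noncomputable def pvfkIv (F : PvFan V D) (v : V) : F.V' := if h : v ∈ F.T.VOf F.c.Left then F.iv v h else F.sv 0

theorem pvfk_iv_of_mem (F : PvFan V D) {v : V} (h : v ∈ F.T.VOf F.c.Left) : pvfkIv F v = F.iv v h := by
  unfold pvfkIv; rw [dif_pos h]

theorem pvfk_iv_inj (F : PvFan V D) {v w : V} (hv : v ∈ F.T.VOf F.c.Left) (hw : w ∈ F.T.VOf F.c.Left) (h : pvfkIv F v = pvfkIv F w) : v = w := by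
  rw [pvfk_iv_of_mem F hv, pvfk_iv_of_mem F hw] at h
  exact congrArg Subtype.val (Sum.inl.inj h)

theorem pvfk_nm_iv (F : PvFan V D) {v : V} (h : v ∈ F.T.VOf F.c.Left) : F.nm (pvfkIv F v) = Sum.inl v := by
  rw [pvfk_iv_of_mem F h]; rfl

theorem pvfk_col_iv (F : PvFan V D) (s : V → Bool) (t : Fin 3 → Bool) {v : V} (h : v ∈ F.T.VOf F.c.Left) : F.col s t (pvfkIv F v) = s v := by
  rw [pvfk_iv_of_mem F h]; rfl

theorem pvfk_iv_uv (F : PvFan V D) (k : ℕ) : pvfkIv F (F.T.src (F.c.e k)) = Sum.inl (F.uv k) := by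
  rw [pvfk_iv_of_mem F (v := F.T.src (F.c.e k)) (F.uv k).2]; rfl

/-- the vertices of a path whose right faces lie in the disc are vertices of the disc -/
theorem pvfk_pth_mem (F : PvFan V D) (y : F.T.Pth) (hy : ∀ i, i < y.n → F.T.opp (y.e i) ∈ F.c.Left) (hn : 0 < y.n) {i : ℕ} (hi : i ≤ y.n) : y.v i ∈ F.T.VOf F.c.Left := by
  rcases Nat.lt_or_ge i y.n with h | h
  · have := F.tgt_mem (hy i h)
    rwa [F.T.tgt_opp, y.src_e i h] at this
  · have e : i = (y.n - 1) + 1 := by omega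
    have := F.src_mem (hy (y.n - 1) (by omega))
    rwa [F.T.src_opp', y.tgt_e _ (by omega), ← e] at this

/-- the image in the sphere of a path whose right faces lie in the disc -/
noncomputable def pvfkPth (F : PvFan V D) (y : F.T.Pth) (hy : ∀ i, i < y.n → F.T.opp (y.e i) ∈ F.c.Left) : F.map.Pth where
  n := y.n
  v i := pvfkIv F (y.v i)
  e i := F.map.opp (F.em (F.T.opp (y.e i)))
  src_e i hi := by
    rw [F.map.src_opp', F.em_of_mem (hy i hi), F.tgt_inn, pvfk_iv_of_mem F (pvfk_pth_mem F y hy (by omega) hi.le)]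
    unfold PvFan.iv
    congr 2
    rw [F.T.tgt_opp, y.src_e i hi]
  tgt_e i hi := by
    rw [F.map.tgt_opp, F.em_of_mem (hy i hi), F.src_inn, pvfk_iv_of_mem F (pvfk_pth_mem F y hy (by omega) (by omega : i + 1 ≤ y.n))]
    unfold PvFan.iv
    congr 2
    rw [F.T.src_opp', y.tgt_e i hi]
  inj i j hi hj h := by
    rcases Nat.eq_zero_or_pos y.n with h0 | h0
    · omega
    · exact y.inj i j hi hj (pvfk_iv_inj F (pvfk_pth_mem F y hy h0 hi) (pvfk_pth_mem F y hy h0 hj) h)

theorem pvfk_eqns_cite : True := by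
  have := @pvfkIv.eq_1; have := @pvfkPth.eq_1
  trivial

theorem pvfk_edge_mem (F : PvFan V D) {u v : V} (h : F.T.EdgeIn F.c.Left u v) : u ∈ F.T.VOf F.c.Left ∧ v ∈ F.T.VOf F.c.Left := by
  obtain ⟨d, hd, rfl, rfl⟩ := h
  rcases hd with hd | hd
  · exact ⟨F.src_mem hd, F.tgt_mem hd⟩
  · have h1 := F.src_mem hd
    have h2 := F.tgt_mem hd
    rw [F.T.src_opp'] at h1
    rw [F.T.tgt_opp] at h2
    exact ⟨h2, h1⟩

/-- a join inside the disc is a monochromatic connection of the sphere -/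
theorem pvfk_join_mono (F : PvFan V D) (s : V → Bool) (t : Fin 3 → Bool) {r : Bool} {a b : V} (h : F.T.Join F.c.Left {v | s v = r} a b) :
    F.map.Mono (F.col s t) (pvfkIv F a) (pvfkIv F b) := by
  obtain ⟨ha, hab⟩ := h
  have key : F.map.Mono (F.col s t) (pvfkIv F a) (pvfkIv F b) ∧ s b = r := by
    induction hab with
    | refl => exact ⟨ReflTransGen.refl, ha⟩
    | @tail b c _ hbc ih =>
      obtain ⟨he, hc⟩ := hbc
      obtain ⟨hb', hc'⟩ := pvfk_edge_mem F he
      refine ⟨ReflTransGen.tail ih.1 ⟨?_, ?_⟩, hc⟩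
      · rw [pvfk_iv_of_mem F hb', pvfk_iv_of_mem F hc']
        exact (F.adj_iv_iff hb' hc').2 he
      · rw [pvfk_col_iv F s t hb', pvfk_col_iv F s t hc', ih.2]
        exact Eq.symm hc
  exact key.1

/-- the closing path `u⁺ → s_0 → u⁻` -/
noncomputable def pvfkCl (F : PvFan V D) : F.map.Pth where
  n := 2
  v i := if i = 0 then Sum.inl (F.uv 0) else if i = 1 then F.sv 0 else Sum.inl (F.uv F.i1)
  e i := if i = 0 then .b ⟨0, F.npos⟩ else .c ⟨F.i1 - 1, by have := F.h1; have := F.h2; have := F.h3; omega⟩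
  src_e i hi := by
    have hl : F.lab (F.i1 - 1) = 0 := by
      unfold PvFan.lab
      rw [if_pos (by have := F.h1; omega)]
    rcases (by omega : i = 0 ∨ i = 1) with rfl | rfl
    · rfl
    · show Sum.inr (F.lab (F.i1 - 1)) = F.sv 0
      rw [hl]; rfl
  tgt_e i hi := by
    have hl : F.lab 0 = 0 := by
      unfold PvFan.lab
      rw [if_pos F.h1]
    rcases (by omega : i = 0 ∨ i = 1) with rfl | rfl
    · show Sum.inr (F.lab 0) = F.sv 0
      rw [hl]; rfl
    · show Sum.inl (F.uv (F.i1 - 1 + 1)) = Sum.inl (F.uv F.i1)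
      rw [Nat.sub_add_cancel F.h1]
  inj i j hi hj h := by
    have hne : F.uv 0 ≠ F.uv F.i1 := fun e => by
      have := F.uv_inj F.npos (by have := F.h2; have := F.h3; omega) e
      have := F.h1
      omega
    rcases (by omega : i = 0 ∨ i = 1 ∨ i = 2) with rfl | rfl | rfl <;> rcases (by omega : j = 0 ∨ j = 1 ∨ j = 2) with rfl | rfl | rfl <;>
      first
        | rfl
        | (exfalso; simp [PvFan.sv] at h; first | exact hne h | exact hne h.symm)
        | (exfalso; simp [PvFan.sv] at h)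

theorem pvfk_eqns_cite2 : True := by
  have := @pvfkCl.eq_1
  trivial

/-- **THE RIM OF THE COMPLETED SPHERE**: `y` runs from the mark `i1` to the mark `0`, faced in the disc, with the mark `i2` as anchor -/
theorem pvfk_rim (F : PvFan V D) (s : V → Bool) (y : F.T.Pth) (hn : 0 < y.n) (hy : y.Faced s F.c.Left (F.T.src (F.c.e F.i2)))
    (h0 : y.v 0 = F.T.src (F.c.e F.i1)) (h1 : y.v y.n = F.T.src (F.c.e 0)) (hw : s (F.T.src (F.c.e F.i2)) = false) :
    ∃ C : F.map.Cyc, C.IsRim (F.col s ![true, false, false]) ∧ C.n = y.n + 2 ∧ (∀ i, i ≤ y.n → F.nm (F.map.src (C.e i)) = Sum.inl (y.v i)) ∧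
      F.map.src (C.e (y.n + 1)) = F.sv 0 := by
  set t : Fin 3 → Bool := ![true, false, false] with ht
  have hyL : ∀ i, i < y.n → F.T.opp (y.e i) ∈ F.c.Left := fun i hi => (hy.2 i hi).1
  set p : F.map.Pth := pvfkPth F y hyL with hp
  set q : F.map.Pth := pvfkCl F with hq
  set ρ : F.V' := Sum.inl (F.uv F.i2) with hρ
  have hcρ : F.col s t ρ = false := hw
  have hmem : ∀ i, i ≤ y.n → y.v i ∈ F.T.VOf F.c.Left := fun i hi => pvfk_pth_mem F y hyL hn hi
  have hblack : ∀ i, i ≤ y.n → s (y.v i) = true := by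
    intro i hi
    have := hy.1 i hi
    rw [hw] at this
    simpa using this
  -- the image of `y` is globally faced
  have hpF : p.GFaced (F.col s t) ρ := by
    refine ⟨fun i hi => ?_, fun i hi => ?_⟩
    · show F.col s t (pvfkIv F (y.v i)) ≠ _
      rw [pvfk_col_iv F s t (hmem i hi), hcρ, hblack i hi]
      exact (by decide)
    · have e1 : F.map.opp (p.e i) = .inn ⟨F.T.opp (y.e i), hyL i hi⟩ := by
        show F.map.opp (F.map.opp (F.em (F.T.opp (y.e i)))) = _
        rw [F.map.opp_opp, F.em_of_mem (hyL i hi)]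
      rw [e1, F.apex_inn]
      have h2 := pvfk_join_mono F s t (hy.2 i hi).2
      rw [pvfk_iv_uv, pvfk_iv_of_mem F (v := F.T.apex (F.T.opp (y.e i))) (F.tgt_mem ((pl_left_face F.c _).2 (hyL i hi)))] at h2
      exact h2
  -- the closing path is globally faced
  have hs2 : F.map.Mono (F.col s t) (F.sv 2) ρ := by
    refine ReflTransGen.single ⟨(F.adj_sv_iff 2 (F.uv F.i2).2).2 ⟨F.i2, le_rfl, F.h3.le, rfl⟩, ?_⟩
    rw [hcρ]; rfl
  have hs1 : F.map.Mono (F.col s t) (F.sv 1) ρ := by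
    refine ReflTransGen.single ⟨(F.adj_sv_iff 1 (F.uv F.i2).2).2 ⟨F.i2, F.h2.le, le_rfl, rfl⟩, ?_⟩
    rw [hcρ]; rfl
  have hqF : q.GFaced (F.col s t) ρ := by
    refine ⟨fun i hi => ?_, fun i hi => ?_⟩
    · rw [hcρ]
      have hi' : i ≤ 2 := hi
      rcases (by omega : i = 0 ∨ i = 1 ∨ i = 2) with rfl | rfl | rfl
      · show s (F.T.src (F.c.e 0)) ≠ false
        rw [← h1, hblack _ le_rfl]; exact (by decide)
      · show t 0 ≠ false
        exact (by decide)
      · show s (F.T.src (F.c.e F.i1)) ≠ false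
        rw [← h0, hblack _ (Nat.zero_le _)]; exact (by decide)
    · have hi' : i < 2 := hi
      rcases (by omega : i = 0 ∨ i = 1) with rfl | rfl
      · have e1 : F.map.opp (q.e 0) = .r 0 := F.opp_b_lo 0 ⟨0, F.npos⟩ rfl
        rw [e1]
        exact hs2
      · have e1 : F.map.opp (q.e 1) = .p 1 := F.opp_c_hi 1 ⟨F.i1 - 1, by have := F.h1; have := F.h2; have := F.h3; omega⟩ (Nat.sub_add_cancel F.h1)
        rw [e1]
        exact hs1
  have hpv : ∀ i, p.v i = pvfkIv F (y.v i) := fun i => rfl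
  have hG : p.Glue q := by
    refine ⟨?_, ?_, ?_, ?_⟩
    · show pvfkIv F (y.v y.n) = Sum.inl (F.uv 0)
      rw [h1, pvfk_iv_uv]
    · show Sum.inl (F.uv F.i1) = pvfkIv F (y.v 0)
      rw [h0, pvfk_iv_uv]
    · show 3 ≤ y.n + 2
      omega
    · intro i j hi hj hij
      have hi' : i ≤ y.n := hi
      have hj' : j ≤ 2 := hj
      rcases (by omega : j = 0 ∨ j = 1 ∨ j = 2) with rfl | rfl | rfl
      · left
        refine ⟨?_, rfl⟩
        have e : p.v i = p.v y.n := by
          rw [hij, hpv y.n, h1, pvfk_iv_uv]; rfl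
        exact p.inj i y.n hi le_rfl e
      · exfalso
        rw [hpv, pvfk_iv_of_mem F (hmem i hi')] at hij
        cases hij
      · right
        refine ⟨?_, rfl⟩
        have e : p.v i = p.v 0 := by
          rw [hij, hpv 0, h0, pvfk_iv_uv]; rfl
        exact p.inj i 0 hi (Nat.zero_le _) e
  refine ⟨p.glue q hG, pvfk_glue_rim F.isSph _ ρ p q hG hpF hqF, rfl, fun i hi => ?_, ?_⟩
  · rw [pl_pth_glue_src1 p q hG (show i ≤ p.n from hi), hpv, pvfk_nm_iv F (hmem i hi)]
  · exact pl_pth_glue_src2 p q hG (show 1 ≤ q.n from by show 1 ≤ 2; omega)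

/-! ## 3. the hull -/

section hull

variable {T : PvMap V D}

theorem pvfk_djoin_union {A B : Set D} {a b : D} (ha : a ∈ A) (hA : T.FaceSet A) (h : T.DJoin {d | T.Bd A d} a b) : T.DJoin {d | T.Bd (A ∪ B) d} a b ∧ b ∈ A := by
  induction h with
  | refl => exact ⟨ReflTransGen.refl, ha⟩
  | @tail b c _ hbc ih =>
    rcases hbc with rfl | ⟨rfl, h2⟩
    · exact ⟨ReflTransGen.tail ih.1 (Or.inl rfl), (hA b).2 ih.2⟩
    · have hb : ¬ T.Bd A b := fun hh => h2 (Or.inl hh)
      have hob : T.opp b ∈ A := by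
        unfold PvMap.Bd at hb
        rw [not_not] at hb
        exact hb.1 ih.2
      refine ⟨ReflTransGen.tail ih.1 (Or.inr ⟨rfl, ?_⟩), hob⟩
      rw [pl_bnd_edg]
      intro hh
      exact hh (iff_of_true (Or.inl ih.2) (Or.inl hob))

/-- the union of two dual connected face sets with a common face is dual connected -/
theorem pvfk_union_conn {A B : Set D} (hA : T.FaceSet A) (hB : T.FaceSet B) (hcA : ∀ a ∈ A, ∀ b ∈ A, T.DJoin {d | T.Bd A d} a b)
    (hcB : ∀ a ∈ B, ∀ b ∈ B, T.DJoin {d | T.Bd B d} a b) {x : D} (hxA : x ∈ A) (hxB : x ∈ B) :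
    ∀ a ∈ A ∪ B, ∀ b ∈ A ∪ B, T.DJoin {d | T.Bd (A ∪ B) d} a b := by
  have key : ∀ a ∈ A ∪ B, T.DJoin {d | T.Bd (A ∪ B) d} x a := by
    rintro a (ha | ha)
    · exact (pvfk_djoin_union hxA hA (hcA x hxA a ha)).1
    · have := (pvfk_djoin_union (B := A) hxB hB (hcB x hxB a ha)).1
      rwa [Set.union_comm] at this
  intro a ha b hb
  exact (T.djoin_symm (key a ha)).trans (key b hb)

/-- the faces crossed by a strand are dual connected -/
theorem pvfk_fc_conn (s : V → Bool) (a : D) (n : ℕ) : ∀ x ∈ pvasFc T s a n, ∀ y ∈ pvasFc T s a n, T.DJoin {d | T.Bd (pvasFc T s a n) d} x y := by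
  have hF : T.FaceSet (pvasFc T s a n) := pvas_fc_face s a n
  have hmem : ∀ i, i < n → pvasIt T s a i ∈ pvasFc T s a n := fun i hi => ⟨i, hi, T.sf_refl _⟩
  have hstep : ∀ i, i + 1 < n → T.DJoin {d | T.Bd (pvasFc T s a n) d} (pvasIt T s a i) (pvasIt T s a (i + 1)) := by
    intro i hi
    have e : pvasIt T s a (i + 1) = pvasStep T s (pvasIt T s a i) := by
      unfold pvasIt
      rw [Function.iterate_succ_apply']
    have h1 := hmem (i + 1) hi
    have h0 := hmem i (by omega)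
    rcases pvas_step_cases s (pvasIt T s a i) with ⟨-, e2⟩ | ⟨-, e2⟩
    · rw [e, e2] at h1 ⊢
      refine ReflTransGen.tail (ReflTransGen.single (Or.inl rfl)) (Or.inr ⟨rfl, ?_⟩)
      rw [pl_bnd_edg]
      intro hh
      exact hh (iff_of_true ((hF _).2 h0) h1)
    · rw [e, e2] at h1 ⊢
      refine ReflTransGen.tail (ReflTransGen.tail (ReflTransGen.single (Or.inl rfl)) (Or.inl rfl)) (Or.inr ⟨rfl, ?_⟩)
      rw [pl_bnd_edg]
      intro hh
      exact hh (iff_of_true ((hF.nxt2 T _).2 h0) h1)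
  have hall : ∀ i, i < n → T.DJoin {d | T.Bd (pvasFc T s a n) d} (pvasIt T s a 0) (pvasIt T s a i) := by
    intro i
    induction i with
    | zero => exact fun _ => ReflTransGen.refl
    | succ i ih => exact fun hi => (ih (by omega)).trans (hstep i hi)
  have key : ∀ x ∈ pvasFc T s a n, T.DJoin {d | T.Bd (pvasFc T s a n) d} (pvasIt T s a 0) x := by
    rintro x ⟨i, hi, hx⟩
    exact (hall i hi).trans (T.djoin_sf hx)
  intro x hx y hy
  exact (T.djoin_symm (key x hx)).trans (key y hy)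

/-- **HULL**: a finite disc which contains the faces crossed by the strand and the star of a finite connected vertex set, if the two face sets have a common face; the darts of its boundary cycle are darts of these faces -/
theorem pvfk_hull [Infinite D] (hT : T.IsSph) (hS : T.Simple) (s : V → Bool) (a : D) (n : ℕ) {X : Set V} (hX : X.Finite)
    (hconn : ∀ u ∈ X, ∀ v ∈ X, ReflTransGen (fun u v => T.Adj u v ∧ v ∈ X) u v) {x : D} (hx : x ∈ pvasFc T s a n) (hx' : x ∈ T.Star X) :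
    ∃ c : T.Cyc, c.Left.Finite ∧ pvasFc T s a n ⊆ c.Left ∧ T.Star X ⊆ c.Left ∧ ∀ i, c.e i ∈ pvasFc T s a n ∪ T.Star X := by
  have hA : T.FaceSet (pvasFc T s a n) := pvas_fc_face s a n
  have hB : T.FaceSet (T.Star X) := pl_star_face X
  have hU : T.FaceSet (pvasFc T s a n ∪ T.Star X) := fun d => by
    simp only [Set.mem_union, hA d, hB d]
  obtain ⟨c, h1, h2, h3⟩ := pl_hull_plane hT hS hU ((pvas_fc_finite s a n).union (pl_star_finite hT hX)) ⟨x, Or.inl hx⟩
    (pvfk_union_conn hA hB (pvfk_fc_conn s a n) (pl_star_conn hT hconn) hx hx')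
  exact ⟨c, h2, fun d hd => h1 (Or.inl hd), fun d hd => h1 (Or.inr hd), fun i => (h3 i).1⟩

/-! ## 4. the marks, the model -/

/-- **THE TWO TIPS ARE ON THE BOUNDARY CYCLE** as soon as the face in front of the last position and the face behind the first position are outside the disc -/
theorem pvfk_marks (hT : T.IsSph) {s : V → Bool} {a : D} (ha : pvasBW T s a) {n : ℕ} (hn : 0 < n) (c : T.Cyc) (hc : pvasFc T s a n ⊆ c.Left)
    (hp : pvasIt T s a n ∉ c.Left) (hm : T.opp a ∉ c.Left) (hne : T.src (pvasIt T s a n) ≠ T.src a) :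
    ∃ m i1 : ℕ, 0 < i1 ∧ i1 + 1 < c.n ∧ T.src (c.e m) = T.src (pvasIt T s a n) ∧ c.e (m + i1) = a := by
  have haL : a ∈ c.Left := hc ⟨0, hn, T.sf_refl _⟩
  have hoL : T.opp (pvasIt T s a n) ∈ c.Left := by
    obtain ⟨n', rfl⟩ : ∃ n', n = n' + 1 := ⟨n - 1, by omega⟩
    refine hc ⟨n', Nat.lt_succ_self _, ?_⟩
    rw [pvas_it_succ]
    exact pvas_step_sf s _
  obtain ⟨j, hj⟩ : T.opp (pvasIt T s a n) ∈ c.darts := (pl_cyc_darts_iff hT c _).2 ⟨hoL, by rw [T.opp_opp]; exact hp⟩
  have had : a ∈ c.darts := (pl_cyc_darts_iff hT c _).2 ⟨haL, hm⟩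
  have hsm : T.src (c.e (j + 1)) = T.src (pvasIt T s a n) := by rw [← c.chain, hj, T.tgt_opp]
  obtain ⟨k, hk1, hk2, hk⟩ := (pl_cyc_edg_window c (j + 1) a).1 (Or.inl had)
  have hk' : a = c.e k := by
    rcases hk with h | h
    · exact h
    · exfalso
      apply hm
      rw [h, T.opp_opp]
      exact (pl_jordan hT c).2.1 k
  refine ⟨j + 1, k - (j + 1), ?_, ?_, hsm, ?_⟩
  · by_contra h0
    have e : k = j + 1 := by omega
    apply hne
    rw [← hsm, ← e, ← hk']
  · by_contra h0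
    have e : k = j + c.n := by omega
    have e2 : T.src a = T.tgt (pvasIt T s a n) := by
      have e3 : c.e k = T.opp (pvasIt T s a n) := by rw [e, c.per, hj]
      rw [← T.src_opp', ← e3, ← hk']
    have h1 := ha.1
    rw [e2, (pvas_it_bw ha n).2] at h1
    cases h1
  · rw [hk']
    congr 1
    omega

/-- **THE MODEL**: the fan completion of the hull, with its rim.      `y` = ANY path from `u⁻ = src a` to `u⁺ = src a_n` which is faced in the faces crossed by the strand (e.g. the last-exit decomposition of the black bank: `pvt_sd_faced`) -/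
theorem pvfk_model [Infinite D] (hT : T.IsSph) (hS : T.Simple) {s : V → Bool} {a : D} (ha : pvasBW T s a) {n : ℕ} {X : Set V} (hX : X.Finite)
    (hconn : ∀ u ∈ X, ∀ v ∈ X, ReflTransGen (fun u v => T.Adj u v ∧ v ∈ X) u v) {x : D} (hx : x ∈ pvasFc T s a n) (hx' : x ∈ T.Star X)
    (hesc : ∀ c : T.Cyc, c.Left.Finite → (∀ i, c.e i ∈ pvasFc T s a n ∪ T.Star X) → T.apex (pvasIt T s a n) ∉ T.VOf c.Left ∧ T.apex (T.opp a) ∉ T.VOf c.Left)
    {y : T.Pth} (hy : y.Faced s (pvasFc T s a n) (T.tgt a)) (h0 : y.v 0 = T.src a) (h1 : y.v y.n = T.src (pvasIt T s a n)) (hyn : 0 < y.n) :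
    ∃ (c : T.Cyc) (hfin : c.Left.Finite) (i1 i2 : ℕ) (h1 : 0 < i1) (h2 : i1 < i2) (h3 : i2 < c.n), T.Star X ⊆ c.Left ∧
      ∃ C : (PvFan.mk T hT c hfin i1 i2 h1 h2 h3).map.Cyc, C.IsRim ((PvFan.mk T hT c hfin i1 i2 h1 h2 h3).col s ![true, false, false]) ∧ C.n = y.n + 2 ∧
        (∀ i, i ≤ y.n → (PvFan.mk T hT c hfin i1 i2 h1 h2 h3).nm ((PvFan.mk T hT c hfin i1 i2 h1 h2 h3).map.src (C.e i)) = Sum.inl (y.v i)) ∧
        (PvFan.mk T hT c hfin i1 i2 h1 h2 h3).map.src (C.e (y.n + 1)) = (PvFan.mk T hT c hfin i1 i2 h1 h2 h3).sv 0 := by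
  have hn : 0 < n := by
    obtain ⟨i, hi, -⟩ := hx
    omega
  obtain ⟨c, hfin, hFc, hSt, hcd⟩ := pvfk_hull hT hS s a n hX hconn hx hx'
  obtain ⟨e1, e2⟩ := hesc c hfin hcd
  have hLf := pl_left_face c
  have hp : pvasIt T s a n ∉ c.Left := fun h => e1 ⟨_, (hLf.nxt2 T _).2 h, rfl⟩
  have hm : T.opp a ∉ c.Left := fun h => e2 ⟨_, (hLf.nxt2 T _).2 h, rfl⟩
  have hne : T.src (pvasIt T s a n) ≠ T.src a := by
    rw [← h0, ← h1]
    intro e
    have := y.inj _ _ le_rfl (Nat.zero_le _) e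
    omega
  obtain ⟨m, i1, hi1, hi2, hsm, ham⟩ := pvfk_marks hT ha hn c hFc hp hm hne
  have hL : (c.shift m).Left = c.Left := (pl_shift_left hT c m).1
  have hfin' : (c.shift m).Left.Finite := by rw [hL]; exact hfin
  have ea : T.src ((c.shift m).e (i1 + 1)) = T.tgt a := by
    show T.src (c.e (i1 + 1 + m)) = T.tgt a
    rw [← ham, c.chain]
    congr 2
    omega
  refine ⟨c.shift m, hfin', i1, i1 + 1, hi1, Nat.lt_succ_self _, hi2, by rw [hL]; exact hSt, ?_⟩
  refine pvfk_rim (PvFan.mk T hT (c.shift m) hfin' i1 (i1 + 1) hi1 (Nat.lt_succ_self _) hi2) s y hyn ?_ ?_ ?_ ?_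
  · show y.Faced s (c.shift m).Left (T.src ((c.shift m).e (i1 + 1)))
    rw [ea, hL]
    exact hy.mono hFc
  · show y.v 0 = T.src (c.e (i1 + m))
    rw [h0, Nat.add_comm, ham]
  · show y.v y.n = T.src (c.e (0 + m))
    rw [h1, Nat.zero_add, hsm]
  · show s (T.src ((c.shift m).e (i1 + 1))) = false
    rw [ea]
    exact ha.2

end hull

end Claimed.Agent.R289
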