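-- KEEP
import Claimed.Agent.R289.Tr.Band
import Claimed.Agent.R289.Tr.BandFit
import Claimed.Agent.R289.Tr.FitRef

/-!
# Row 289 (S0537), WB3 = FIT / TR19 : **FIT6**, the closing corridor with its chirality      (helper217, prefix `pvfc_`)

Three scales: COARSE cells (`F_t`, `F_s`, stubs, ring), CORRIDOR cells (`5` per coarse cell, 20's refinement `pvtbD 5 3`), fine cells (not here).

* `pvfc_gate`    FORCED PASSAGE: a corridor of `U` from a set `A` closed in `U \ {p}` to a cell outside `A`, `p` having only the two neighbours `p ± d` in `U`,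
                 runs `p - d, p, p + d`.
* `pvfc_bridge`  THIN BRIDGE: `UA`, `UB` 8-connected coarse sets at sup-distance `≥ 2`, `P ∈ UA`, `P + 3 d ∈ UB`, `P + d ∉ UA`, `P + 2 d ∉ UB`.
                 Then there is a corridor from `5 a` to `5 b` in `D_{5,3}(UA ∪ UB) ∪ [5 P, 5 P + 15 d]` which runs `5 P + 6 d, 5 P + 7 d, 5 P + 8 d` (in this order).
* `pvfc_fit6`    FIT6 of `W2_211.md`: `UA := F_t ∪ stub_t`, `UB := (ring minus the 4 cells foot_t - d .. foot_t + 2 d) ∪ stub_s ∪ F_s`, `d` = the CLOCKWISE direction at the foot of `stub_t`.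
                 The corridor is forced to leave the foot of `stub_t` clockwise through the thin bridge: the middle cell of the bridge is straight and its LEFT whisker leaves the big box at once.
                 (The part of the ring beyond the foot of `stub_s` is a dead end: harmless.)
* §2 (COR) of TR38 (`W2_211.md` v2): `pvfc_clamp` (paths off `O` are pushed back into a box which contains `O` with a margin of one cell), `pvfc_cor`, `pvfc_cor_out`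
                 (two cells of the box in `pvtbOut O` ⟹ a `PvtbCor` of the refinement `2m+1` between their centres inside `pvtbD (2m+1) r (box \ O)`).
* §3 (COR) WITH TWO NOZZLES (shape asked by 62, `Tr/FitRoof.lean`, finding F1): `pvfc_noz2`, `pvfc_noz2_N`: the `5 × 5` coarse blocks round `Pt`, `Ps` lie in the obstacle, `Pt + 3 dt`, `Ps - 3 ds` in its `(8,4)` outside
                 ⟹ a corridor which starts with the 7 cells `5 Pt + (6 + k) dt`, ends with the 7 cells `5 Ps - (6 + k) ds`, and runs in `D_{5,3} (box \ O)` in between; confinement, length bound.   Tools: `pvfc_noz_run`, `pvfc_noz_nb`.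
-/

set_option autoImplicit false

namespace Claimed.Agent.R289

open Relation Claims.C0467 Claimed.Agent.R291

/-- the four unit vectors -/
def PvfcDir (u : ℤ × ℤ) : Prop := u = (1, 0) ∨ u = (-1, 0) ∨ u = (0, 1) ∨ u = (0, -1)

/-- box in the frame `(d, u)`, `d = -i u = (u.2, -u.1)` : `s = v · d ∈ [s1, s2]`, `t = v · u ∈ [t1, t2]` -/
def pvfcFB (u : ℤ × ℤ) (s1 s2 t1 t2 : ℤ) : Set (ℤ × ℤ) :=
  {v | s1 ≤ v.1 * u.2 - v.2 * u.1 ∧ v.1 * u.2 - v.2 * u.1 ≤ s2 ∧ t1 ≤ v.1 * u.1 + v.2 * u.2 ∧ v.1 * u.1 + v.2 * u.2 ≤ t2}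

/-- the point of coordinates `(s, t)` in the frame `(d, u)` -/
def pvfcPt (u : ℤ × ℤ) (s t : ℤ) : ℤ × ℤ := (s * u.2 + t * u.1, t * u.2 - s * u.1)

/-- **FORCED PASSAGE** -/
theorem pvfc_gate {U A : Set (ℤ × ℤ)} {n : ℕ} {c : ℕ → ℤ × ℤ} (h : PvtbCor n c) (hU : ∀ i, i ≤ n → c i ∈ U) {p p₁ p₂ : ℤ × ℤ}
    (hnb : ∀ y ∈ U, pvtbG4.Adj p y → y = p₁ ∨ y = p₂) (hcl : ∀ x ∈ A, ∀ y ∈ U, pvtbG4.Adj x y → y ∈ A ∨ y = p)
    (h0 : c 0 ∈ A) (hn : c n ∉ A) (hnp : c n ≠ p) (h2 : p₂ ∉ A) :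
    ∃ i, i + 2 ≤ n ∧ c i = p₁ ∧ c (i + 1) = p ∧ c (i + 2) = p₂ := by
  classical
  have hex : ∃ i, i ≤ n ∧ c i ∉ A := ⟨n, le_rfl, hn⟩
  obtain ⟨i, hin, hiA, hmin⟩ : ∃ i, i ≤ n ∧ c i ∉ A ∧ ∀ k, k < i → c k ∈ A :=
    ⟨Nat.find hex, (Nat.find_spec hex).1, (Nat.find_spec hex).2, fun k hk => by_contra fun hc => Nat.find_min hex hk ⟨le_trans hk.le (Nat.find_spec hex).1, hc⟩⟩
  rcases i with _ | k
  · exact absurd h0 hiA
  have hk := hmin k (by omega)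
  have hp : c (k + 1) = p := (hcl _ hk _ (hU _ hin) (h.step k (by omega))).resolve_left hiA
  have hlt : k + 1 < n := by
    rcases (by omega : k + 1 < n ∨ k + 1 = n) with e | e
    · exact e
    · rw [e] at hp; exact absurd hp hnp
  have h1 : c k = p₁ := by
    rcases hnb _ (hU k (by omega)) (by rw [← hp]; exact (h.step k (by omega)).symm) with e | e
    · exact e
    · rw [e] at hk; exact absurd hk h2
  refine ⟨k, by omega, h1, hp, ?_⟩
  rcases hnb _ (hU (k + 2) (by omega)) (by rw [← hp]; exact h.step (k + 1) (by omega)) with e | e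
  · exact absurd (e.trans h1.symm) (h.nb k (by omega))
  · exact e

theorem pvfc_fb_box {u : ℤ × ℤ} (hu : PvfcDir u) (s1 s2 t1 t2 : ℤ) : ∃ a b c d : ℤ, pvfcFB u s1 s2 t1 t2 = tscBox a b c d := by
  rcases hu with rfl | rfl | rfl | rfl
  · exact ⟨t1, t2, -s2, -s1, by ext v; simp only [pvfcFB, tscBox, Set.mem_ofPred_eq]; constructor <;> intro h <;> refine ⟨?_, ?_, ?_, ?_⟩ <;> omega⟩
  · exact ⟨-t2, -t1, s1, s2, by ext v; simp only [pvfcFB, tscBox, Set.mem_ofPred_eq]; constructor <;> intro h <;> refine ⟨?_, ?_, ?_, ?_⟩ <;> omega⟩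
  · exact ⟨s1, s2, t1, t2, by ext v; simp only [pvfcFB, tscBox, Set.mem_ofPred_eq]; constructor <;> intro h <;> refine ⟨?_, ?_, ?_, ?_⟩ <;> omega⟩
  · exact ⟨-s2, -s1, -t2, -t1, by ext v; simp only [pvfcFB, tscBox, Set.mem_ofPred_eq]; constructor <;> intro h <;> refine ⟨?_, ?_, ?_, ?_⟩ <;> omega⟩

theorem pvfc_fb_conn {u : ℤ × ℤ} (hu : PvfcDir u) (s1 s2 t1 t2 : ℤ) : TscConn pvtbG4 (pvfcFB u s1 s2 t1 t2) := by
  obtain ⟨a, b, c, d, e⟩ := pvfc_fb_box hu s1 s2 t1 t2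
  rw [e]; exact pvtb_box_conn a b c d

theorem pvfc_fb_gd {u : ℤ × ℤ} (hu : PvfcDir u) (s1 s2 t1 t2 : ℤ) : PvtbGd 5 {0, 4} (pvfcFB u (5 * s1) (5 * s2) (5 * t1) (5 * t2)) := by
  refine ⟨?_, ?_⟩
  · obtain ⟨a, b, c, d, e⟩ := pvfc_fb_box hu (5 * s1) (5 * s2) (5 * t1) (5 * t2)
    rw [e]; exact pvtb_box_wc a b c d
  · rcases hu with rfl | rfl | rfl | rfl <;> refine ⟨fun x y => ?_, fun x y => ?_⟩ <;>
      simp only [pvfcFB, Set.mem_ofPred_eq, Set.mem_insert_iff, Set.mem_singleton_iff] <;> omega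

theorem pvfc_conn48 {S : Set (ℤ × ℤ)} (h : TscConn pvtbG4 S) : TscConn pvtbG8 S :=
  fun a ha b hb => pvtb_R_le (fun _ _ e => pvtb_G4_G8 e) (h a ha b hb)

theorem pvfc_rowA {UA UB : Set (ℤ × ℤ)} (hfar : ∀ f ∈ UA, ∀ g ∈ UB, 2 ≤ f.1 - g.1 ∨ 2 ≤ g.1 - f.1 ∨ 2 ≤ f.2 - g.2 ∨ 2 ≤ g.2 - f.2)
    {u : ℤ × ℤ} {s t : ℤ} (hu : PvfcDir u) (hQ : pvfcPt u (s + 3) t ∈ UB) (hA : pvfcPt u (s + 1) t ∉ UA) :
    ∀ f ∈ UA, ∀ k : ℤ, 1 ≤ k → k ≤ 3 → ¬ (f.1 = (s + k) * u.2 + t * u.1 ∧ f.2 = t * u.2 - (s + k) * u.1) := by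
  intro f hf k h1 h3 e
  have e' : f = pvfcPt u (s + k) t := Prod.ext e.1 e.2
  have := hfar f hf _ hQ
  rcases (by omega : k = 1 ∨ k = 2 ∨ k = 3) with rfl | rfl | rfl
  · exact hA (e' ▸ hf)
  · rcases hu with rfl | rfl | rfl | rfl <;> simp only [pvfcPt] at this e <;> omega
  · rcases hu with rfl | rfl | rfl | rfl <;> simp only [pvfcPt] at this e <;> omega

theorem pvfc_rowB {UA UB : Set (ℤ × ℤ)} (hfar : ∀ f ∈ UA, ∀ g ∈ UB, 2 ≤ f.1 - g.1 ∨ 2 ≤ g.1 - f.1 ∨ 2 ≤ f.2 - g.2 ∨ 2 ≤ g.2 - f.2)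
    {u : ℤ × ℤ} {s t : ℤ} (hu : PvfcDir u) (hP : pvfcPt u s t ∈ UA) (hB : pvfcPt u (s + 2) t ∉ UB) :
    ∀ g ∈ UB, ∀ k : ℤ, 0 ≤ k → k ≤ 2 → ¬ (g.1 = (s + k) * u.2 + t * u.1 ∧ g.2 = t * u.2 - (s + k) * u.1) := by
  intro g hg k h1 h3 e
  have e' : g = pvfcPt u (s + k) t := Prod.ext e.1 e.2
  have := hfar _ hP g hg
  rcases (by omega : k = 0 ∨ k = 1 ∨ k = 2) with rfl | rfl | rfl
  · rcases hu with rfl | rfl | rfl | rfl <;> simp only [pvfcPt] at this e <;> omega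
  · rcases hu with rfl | rfl | rfl | rfl <;> simp only [pvfcPt] at this e <;> omega
  · exact hB (e' ▸ hg)

/-- **THIN BRIDGE** (`u` = the left normal of the direction `d = (u.2, -u.1)` of the bridge; `P = pvfcPt u s t`) -/
theorem pvfc_bridge {UA UB : Set (ℤ × ℤ)} (cA : TscConn pvtbG8 UA) (cB : TscConn pvtbG8 UB)
    (hfar : ∀ f ∈ UA, ∀ g ∈ UB, 2 ≤ f.1 - g.1 ∨ 2 ≤ g.1 - f.1 ∨ 2 ≤ f.2 - g.2 ∨ 2 ≤ g.2 - f.2)
    {u a b : ℤ × ℤ} {s t : ℤ} (hu : PvfcDir u) (hP : pvfcPt u s t ∈ UA) (hQ : pvfcPt u (s + 3) t ∈ UB)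
    (hA : pvfcPt u (s + 1) t ∉ UA) (hB : pvfcPt u (s + 2) t ∉ UB) (ha : a ∈ UA) (hb : b ∈ UB) :
    ∃ (n : ℕ) (c : ℕ → ℤ × ℤ), PvtbCor n c ∧ c 0 = (5 * a.1, 5 * a.2) ∧ c n = (5 * b.1, 5 * b.2) ∧
      (∀ i, i ≤ n → c i ∈ pvtbD 5 3 (UA ∪ UB) ∪ pvfcFB u (5 * s) (5 * s + 15) (5 * t) (5 * t)) ∧
      ∃ i, i + 2 ≤ n ∧ c i = pvfcPt u (5 * s + 6) (5 * t) ∧ c (i + 1) = pvfcPt u (5 * s + 7) (5 * t) ∧ c (i + 2) = pvfcPt u (5 * s + 8) (5 * t) := by
  have rA := pvfc_rowA hfar hu hQ hA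
  have rB := pvfc_rowB hfar hu hP hB
  have hWC : PvtbWC (pvtbD 5 3 (UA ∪ UB) ∪ pvfcFB u (5 * s) (5 * s + 15) (5 * t) (5 * t)) := by
    have h1 := pvtb_gd_D (m := 2) (r := 3) (by norm_num) (by norm_num) (UA ∪ UB)
    have h2 := pvfc_fb_gd hu s (s + 3) t t
    rw [show (5 * (s + 3) : ℤ) = 5 * s + 15 by ring] at h2
    norm_num at h1
    refine (h1.union h2 ?_).wc
    intro a h3 h4
    simp only [Set.mem_insert_iff, Set.mem_singleton_iff] at h3 h4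
    omega
  have cen : ∀ (F : Set (ℤ × ℤ)) (f : ℤ × ℤ), f ∈ F → (5 * f.1, 5 * f.2) ∈ pvtbD 5 3 F := fun F f hf => ⟨f, hf, by simp only; omega, by simp only; omega, by simp only; omega, by simp only; omega⟩
  have sA : pvtbD 5 3 UA ⊆ pvtbD 5 3 (UA ∪ UB) ∪ pvfcFB u (5 * s) (5 * s + 15) (5 * t) (5 * t) :=
    fun v hv => Or.inl (pvtb_D_mono le_rfl Set.subset_union_left hv)
  have sB : pvtbD 5 3 UB ⊆ pvtbD 5 3 (UA ∪ UB) ∪ pvfcFB u (5 * s) (5 * s + 15) (5 * t) (5 * t) :=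
    fun v hv => Or.inl (pvtb_D_mono le_rfl Set.subset_union_right hv)
  have hR : TscR pvtbG4 (pvtbD 5 3 (UA ∪ UB) ∪ pvfcFB u (5 * s) (5 * s + 15) (5 * t) (5 * t)) (5 * a.1, 5 * a.2) (5 * b.1, 5 * b.2) := by
    have h1 := tsc_R_mono sA (pvtb_D_conn (k := 5) (r := 3) (by norm_num) (by norm_num) cA _ (cen _ _ ha) _ (cen _ _ hP))
    have h3 := tsc_R_mono sB (pvtb_D_conn (k := 5) (r := 3) (by norm_num) (by norm_num) cB _ (cen _ _ hQ) _ (cen _ _ hb))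
    have h2 : TscR pvtbG4 (pvtbD 5 3 (UA ∪ UB) ∪ pvfcFB u (5 * s) (5 * s + 15) (5 * t) (5 * t)) (5 * (pvfcPt u s t).1, 5 * (pvfcPt u s t).2) (5 * (pvfcPt u (s + 3) t).1, 5 * (pvfcPt u (s + 3) t).2) := by
      refine tsc_R_mono Set.subset_union_right (pvfc_fb_conn hu _ _ _ _ _ ?_ _ ?_)
      · rcases hu with rfl | rfl | rfl | rfl <;> simp only [pvfcPt, pvfcFB, Set.mem_ofPred_eq] <;> omega
      · rcases hu with rfl | rfl | rfl | rfl <;> simp only [pvfcPt, pvfcFB, Set.mem_ofPred_eq] <;> omega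
    exact tsc_R_trans h1 (tsc_R_trans h2 h3)
  obtain ⟨n, c, hc, c0, cn, hU⟩ := pvtb_cor_exists hWC (sA (cen _ _ ha)) hR
  refine ⟨n, c, hc, c0, cn, hU, ?_⟩
  refine pvfc_gate (A := pvtbD 5 3 UA ∪ pvfcFB u (5 * s) (5 * s + 6) (5 * t) (5 * t)) hc hU ?_ ?_ ?_ ?_ ?_ ?_
  · -- neighbours of the gate
    rintro y (⟨f, hf | hf, b1, b2, b3, b4⟩ | hy) hadj
    · exfalso
      have r1 := rA f hf 1 (by norm_num) (by norm_num)
      have r2 := rA f hf 2 (by norm_num) (by norm_num)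
      rw [pvtb_G4_adj] at hadj
      rcases hu with rfl | rfl | rfl | rfl <;> simp only [pvfcPt] at hadj r1 r2 <;> omega
    · exfalso
      have r1 := rB f hf 1 (by norm_num) (by norm_num)
      have r2 := rB f hf 2 (by norm_num) (by norm_num)
      rw [pvtb_G4_adj] at hadj
      rcases hu with rfl | rfl | rfl | rfl <;> simp only [pvfcPt] at hadj r1 r2 <;> omega
    · rw [pvtb_G4_adj] at hadj
      rcases hu with rfl | rfl | rfl | rfl <;> simp only [pvfcPt, pvfcFB, Set.mem_ofPred_eq, Prod.ext_iff] at hadj hy ⊢ <;> omega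
  · -- closure
    rintro x (⟨f, hf, a1, a2, a3, a4⟩ | hx) y (⟨g, hg | hg, b1, b2, b3, b4⟩ | hy) hadj
    · exact Or.inl (Or.inl ⟨g, hg, b1, b2, b3, b4⟩)
    · exfalso
      have := hfar f hf g hg
      rw [pvtb_G4_adj] at hadj
      omega
    · have r1 := rA f hf 1 (by norm_num) (by norm_num)
      have r2 := rA f hf 2 (by norm_num) (by norm_num)
      have r3 := rA f hf 3 (by norm_num) (by norm_num)
      rw [pvtb_G4_adj] at hadj
      have : y ∈ pvfcFB u (5 * s) (5 * s + 6) (5 * t) (5 * t) ∨ y = pvfcPt u (5 * s + 7) (5 * t) := by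
        rcases hu with rfl | rfl | rfl | rfl <;> simp only [pvfcPt, pvfcFB, Set.mem_ofPred_eq, Prod.ext_iff] at hadj hy r1 r2 r3 ⊢ <;> omega
      exact this.imp Or.inr id
    · exact Or.inl (Or.inl ⟨g, hg, b1, b2, b3, b4⟩)
    · exfalso
      have r0 := rB g hg 0 (by norm_num) (by norm_num)
      have r1 := rB g hg 1 (by norm_num) (by norm_num)
      have r2 := rB g hg 2 (by norm_num) (by norm_num)
      rw [pvtb_G4_adj] at hadj
      rcases hu with rfl | rfl | rfl | rfl <;> simp only [pvfcFB, Set.mem_ofPred_eq] at hadj hx r0 r1 r2 <;> omega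
    · rw [pvtb_G4_adj] at hadj
      have : y ∈ pvfcFB u (5 * s) (5 * s + 6) (5 * t) (5 * t) ∨ y = pvfcPt u (5 * s + 7) (5 * t) := by
        rcases hu with rfl | rfl | rfl | rfl <;> simp only [pvfcPt, pvfcFB, Set.mem_ofPred_eq, Prod.ext_iff] at hadj hx hy ⊢ <;> omega
      exact this.imp Or.inr id
  · rw [c0]; exact Or.inl (cen _ _ ha)
  · rw [cn]
    rintro (⟨f, hf, a1, a2, a3, a4⟩ | hx)
    · have := hfar f hf b hb
      simp only at a1 a2 a3 a4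
      omega
    · have r0 := rB b hb 0 (by norm_num) (by norm_num)
      have r1 := rB b hb 1 (by norm_num) (by norm_num)
      rcases hu with rfl | rfl | rfl | rfl <;> simp only [pvfcFB, Set.mem_ofPred_eq] at hx r0 r1 <;> omega
  · rw [cn]
    intro e
    rcases hu with rfl | rfl | rfl | rfl <;> simp only [pvfcPt, Prod.ext_iff] at e <;> omega
  · rintro (⟨f, hf, a1, a2, a3, a4⟩ | hx)
    · have r1 := rA f hf 1 (by norm_num) (by norm_num)
      have r2 := rA f hf 2 (by norm_num) (by norm_num)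
      rcases hu with rfl | rfl | rfl | rfl <;> simp only [pvfcPt] at a1 a2 a3 a4 r1 r2 <;> omega
    · rcases hu with rfl | rfl | rfl | rfl <;> simp only [pvfcPt, pvfcFB, Set.mem_ofPred_eq] at hx <;> omega


theorem pvfc_pt_mem {u : ℤ × ℤ} (hu : PvfcDir u) (s t s1 s2 t1 t2 : ℤ) : pvfcPt u s t ∈ pvfcFB u s1 s2 t1 t2 ↔ s1 ≤ s ∧ s ≤ s2 ∧ t1 ≤ t ∧ t ≤ t2 := by
  rcases hu with rfl | rfl | rfl | rfl <;> simp only [pvfcPt, pvfcFB, Set.mem_ofPred_eq] <;> omega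

/-- the ring of radius `N` minus the four cells `s ∈ [sf - 1, sf + 2]` of its side of outer normal `u` -/
def pvfcArc (u : ℤ × ℤ) (sf N : ℤ) : Set (ℤ × ℤ) :=
  pvfcFB u (sf + 3) N N N ∪ pvfcFB u N N (-N) N ∪ pvfcFB u (-N) N (-N) (-N) ∪ pvfcFB u (-N) (-N) (-N) N ∪ pvfcFB u (-N) (sf - 2) N N

theorem pvfc_arc_conn {u : ℤ × ℤ} (hu : PvfcDir u) {sf N : ℤ} (h1 : -N + 2 ≤ sf) (h2 : sf + 3 ≤ N) : TscConn pvtbG4 (pvfcArc u sf N) := by
  have c12 := tsc_conn_union (pvfc_fb_conn hu (sf + 3) N N N) (pvfc_fb_conn hu N N (-N) N) (a := pvfcPt u N N) (b := pvfcPt u N N)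
    ((pvfc_pt_mem hu _ _ _ _ _ _).2 (by omega)) ((pvfc_pt_mem hu _ _ _ _ _ _).2 (by omega)) (Or.inl rfl)
  have c123 := tsc_conn_union c12 (pvfc_fb_conn hu (-N) N (-N) (-N)) (a := pvfcPt u N (-N)) (b := pvfcPt u N (-N))
    (Or.inr ((pvfc_pt_mem hu _ _ _ _ _ _).2 (by omega))) ((pvfc_pt_mem hu _ _ _ _ _ _).2 (by omega)) (Or.inl rfl)
  have c1234 := tsc_conn_union c123 (pvfc_fb_conn hu (-N) (-N) (-N) N) (a := pvfcPt u (-N) (-N)) (b := pvfcPt u (-N) (-N))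
    (Or.inr ((pvfc_pt_mem hu _ _ _ _ _ _).2 (by omega))) ((pvfc_pt_mem hu _ _ _ _ _ _).2 (by omega)) (Or.inl rfl)
  exact tsc_conn_union c1234 (pvfc_fb_conn hu (-N) (sf - 2) N N) (a := pvfcPt u (-N) N) (b := pvfcPt u (-N) N)
    (Or.inr ((pvfc_pt_mem hu _ _ _ _ _ _).2 (by omega))) ((pvfc_pt_mem hu _ _ _ _ _ _).2 (by omega)) (Or.inl rfl)

/-- **FIT6**.   `F_t`, `F_s` : 8-connected sets of coarse cells in the box `[-M, M]²` (`M = N - 5`), at sup-distance `≥ 10`;  `e_t ∈ F_t` on the side of outer normal `u_t`,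
`e_s ∈ F_s` on the side of outer normal `u_s`.   There is a corridor `c` (cells = 1/5 of a coarse cell) from the centre of `a ∈ F_t` to the centre of `b ∈ F_s`, inside the box of radius `5 M + 28`,
which inside the box of radius `5 M + 3` stays in `D_{5,3}(F_t ∪ F_s)`, and which has a STRAIGHT cell `c (i + 1)` whose LEFT whisker `c (i + 1) + j • i d`, `j ≥ 1`, misses `c` and the box of radius `5 M + 25`. -/
theorem pvfc_fit6 {M : ℤ} {Ft Fs : Set (ℤ × ℤ)} (ct : TscConn pvtbG8 Ft) (cs : TscConn pvtbG8 Fs)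
    (bt : Ft ⊆ tscBox (-M) M (-M) M) (bs : Fs ⊆ tscBox (-M) M (-M) M)
    (hfar : ∀ f ∈ Ft, ∀ g ∈ Fs, 10 ≤ f.1 - g.1 ∨ 10 ≤ g.1 - f.1 ∨ 10 ≤ f.2 - g.2 ∨ 10 ≤ g.2 - f.2)
    {a et ut b es us : ℤ × ℤ} (ha : a ∈ Ft) (het : et ∈ Ft) (hb : b ∈ Fs) (hes : es ∈ Fs) (hut : PvfcDir ut) (hus : PvfcDir us)
    (xt : et.1 * ut.1 + et.2 * ut.2 = M) (xs : es.1 * us.1 + es.2 * us.2 = M) :
    ∃ (n : ℕ) (c : ℕ → ℤ × ℤ), PvtbCor n c ∧ c 0 = (5 * a.1, 5 * a.2) ∧ c n = (5 * b.1, 5 * b.2) ∧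
      (∀ i, i ≤ n → c i ∈ tscBox (-(5 * M + 28)) (5 * M + 28) (-(5 * M + 28)) (5 * M + 28)) ∧
      (∀ i, i ≤ n → c i ∈ tscBox (-(5 * M + 3)) (5 * M + 3) (-(5 * M + 3)) (5 * M + 3) → c i ∈ pvtbD 5 3 (Ft ∪ Fs)) ∧
      ∃ i, i + 2 ≤ n ∧ c (i + 2) - c (i + 1) = c (i + 1) - c i ∧ pvtbI (c (i + 1) - c i) = ut ∧
        ∀ j : ℤ, 1 ≤ j → c (i + 1) + j • pvtbI (c (i + 1) - c i) ∉ pvtbRan n c ∧
          c (i + 1) + j • pvtbI (c (i + 1) - c i) ∉ tscBox (-(5 * M + 25)) (5 * M + 25) (-(5 * M + 25)) (5 * M + 25) := by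
  have bet := bt het
  have bes := bs hes
  simp only [tscBox, Set.mem_ofPred_eq] at bet bes
  obtain ⟨sf, hsf⟩ : ∃ sf : ℤ, sf = et.1 * ut.2 - et.2 * ut.1 := ⟨_, rfl⟩
  obtain ⟨ss, hss⟩ : ∃ ss : ℤ, ss = es.1 * us.2 - es.2 * us.1 := ⟨_, rfl⟩
  have bsf : -M ≤ sf ∧ sf ≤ M := by
    rcases hut with rfl | rfl | rfl | rfl <;> simp only at hsf <;> omega
  have bss : -M ≤ ss ∧ ss ≤ M := by
    rcases hus with rfl | rfl | rfl | rfl <;> simp only at hss <;> omega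
  -- the two coarse sets
  obtain ⟨UA, hUA⟩ : ∃ UA : Set (ℤ × ℤ), UA = Ft ∪ pvfcFB ut sf sf M (M + 5) := ⟨_, rfl⟩
  obtain ⟨UB, hUB⟩ : ∃ UB : Set (ℤ × ℤ), UB = pvfcArc ut sf (M + 5) ∪ pvfcFB us ss ss M (M + 5) ∪ Fs := ⟨_, rfl⟩
  have cA : TscConn pvtbG8 UA := by
    rw [hUA]
    refine tsc_conn_union ct (pvfc_conn48 (pvfc_fb_conn hut _ _ _ _)) (a := et) (b := et) het ?_ (Or.inl rfl)
    simp only [pvfcFB, Set.mem_ofPred_eq]; omega
  have cB : TscConn pvtbG8 UB := by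
    rw [hUB]
    refine tsc_conn_union (tsc_conn_union (pvfc_conn48 (pvfc_arc_conn hut (by omega) (by omega))) (pvfc_conn48 (pvfc_fb_conn hus _ _ _ _))
      (a := pvfcPt us ss (M + 5)) (b := pvfcPt us ss (M + 5)) ?_ ((pvfc_pt_mem hus _ _ _ _ _ _).2 (by omega)) (Or.inl rfl)) cs (a := es) (b := es) (Or.inr ?_) hes (Or.inl rfl)
    · have := hfar et het es hes
      rcases hut with rfl | rfl | rfl | rfl <;> rcases hus with rfl | rfl | rfl | rfl <;>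
        simp only [pvfcArc, pvfcPt, pvfcFB, Set.mem_union, Set.mem_ofPred_eq] at hsf hss xt xs ⊢ <;> omega
    · simp only [pvfcFB, Set.mem_ofPred_eq]; omega
  have hfar2 : ∀ f ∈ UA, ∀ g ∈ UB, 2 ≤ f.1 - g.1 ∨ 2 ≤ g.1 - f.1 ∨ 2 ≤ f.2 - g.2 ∨ 2 ≤ g.2 - f.2 := by
    rw [hUA, hUB]
    rintro f (hf | hf) g ((hg | hg) | hg)
    · have h1 := bt hf
      rcases hut with rfl | rfl | rfl | rfl <;>
        simp only [pvfcArc, pvfcFB, tscBox, Set.mem_union, Set.mem_ofPred_eq] at hg h1 <;> omega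
    · have h1 := bt hf
      have h2 := hfar f hf es hes
      rcases hus with rfl | rfl | rfl | rfl <;>
        simp only [pvfcFB, tscBox, Set.mem_ofPred_eq] at hg h1 hss xs <;> omega
    · have := hfar f hf g hg
      omega
    · rcases hut with rfl | rfl | rfl | rfl <;>
        simp only [pvfcArc, pvfcFB, Set.mem_union, Set.mem_ofPred_eq] at hg hf hsf xt <;> omega
    · have h2 := hfar et het es hes
      rcases hut with rfl | rfl | rfl | rfl <;> rcases hus with rfl | rfl | rfl | rfl <;>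
        simp only [pvfcFB, Set.mem_ofPred_eq] at hg hf hsf hss xt xs <;> omega
    · have h1 := bs hg
      have h2 := hfar et het g hg
      rcases hut with rfl | rfl | rfl | rfl <;>
        simp only [pvfcFB, tscBox, Set.mem_ofPred_eq] at hf h1 hsf xt <;> omega
  have hP : pvfcPt ut sf (M + 5) ∈ UA := by
    rw [hUA]; exact Or.inr ((pvfc_pt_mem hut _ _ _ _ _ _).2 (by omega))
  have hQ : pvfcPt ut (sf + 3) (M + 5) ∈ UB := by
    rw [hUB]; exact Or.inl (Or.inl (Or.inl (Or.inl (Or.inl (Or.inl ((pvfc_pt_mem hut _ _ _ _ _ _).2 (by omega)))))))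
  have hA : pvfcPt ut (sf + 1) (M + 5) ∉ UA := by
    rw [hUA]
    rintro (h | h)
    · have h1 := bt h
      rcases hut with rfl | rfl | rfl | rfl <;> simp only [pvfcPt, tscBox, Set.mem_ofPred_eq] at h1 <;> omega
    · have := (pvfc_pt_mem hut _ _ _ _ _ _).1 h
      omega
  have hB : pvfcPt ut (sf + 2) (M + 5) ∉ UB := by
    rw [hUB]
    rintro ((h | h) | h)
    · simp only [pvfcArc, Set.mem_union, pvfc_pt_mem hut] at h
      omega
    · have h2 := hfar et het es hes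
      rcases hut with rfl | rfl | rfl | rfl <;> rcases hus with rfl | rfl | rfl | rfl <;>
        simp only [pvfcPt, pvfcFB, Set.mem_ofPred_eq] at h hsf hss xt xs <;> omega
    · have h1 := bs h
      rcases hut with rfl | rfl | rfl | rfl <;> simp only [pvfcPt, tscBox, Set.mem_ofPred_eq] at h1 <;> omega
  have bU : ∀ f ∈ UA ∪ UB, -(M + 5) ≤ f.1 ∧ f.1 ≤ M + 5 ∧ -(M + 5) ≤ f.2 ∧ f.2 ≤ M + 5 := by
    rw [hUA, hUB]
    rintro f ((hf | hf) | ((hf | hf) | hf))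
    · have h1 := bt hf
      simp only [tscBox, Set.mem_ofPred_eq] at h1; omega
    · rcases hut with rfl | rfl | rfl | rfl <;> simp only [pvfcFB, Set.mem_ofPred_eq] at hf <;> omega
    · rcases hut with rfl | rfl | rfl | rfl <;> simp only [pvfcArc, pvfcFB, Set.mem_union, Set.mem_ofPred_eq] at hf <;> omega
    · rcases hus with rfl | rfl | rfl | rfl <;> simp only [pvfcFB, Set.mem_ofPred_eq] at hf <;> omega
    · have h1 := bs hf
      simp only [tscBox, Set.mem_ofPred_eq] at h1; omega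
  obtain ⟨n, c, hc, c0, cn, hU, i, hi, e0, e1, e2⟩ := pvfc_bridge cA cB hfar2 hut hP hQ hA hB (hUA ▸ Or.inl ha : a ∈ UA) (hUB ▸ Or.inr hb : b ∈ UB)
  refine ⟨n, c, hc, c0, cn, ?_, ?_, i, hi, ?_, ?_, ?_⟩
  · intro k hk
    rcases hU k hk with ⟨f, hf, a1, a2, a3, a4⟩ | h
    · have := bU f hf
      simp only [tscBox, Set.mem_ofPred_eq]; omega
    · rcases hut with rfl | rfl | rfl | rfl <;> simp only [pvfcFB, tscBox, Set.mem_ofPred_eq] at h ⊢ <;> omega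
  · intro k hk hbox
    simp only [tscBox, Set.mem_ofPred_eq] at hbox
    rcases hU k hk with ⟨f, hf, a1, a2, a3, a4⟩ | h
    · rw [hUA, hUB] at hf
      rcases hf with (hf | hf) | ((hf | hf) | hf)
      · exact ⟨f, Or.inl hf, a1, a2, a3, a4⟩
      · refine ⟨et, Or.inl het, ?_⟩
        rcases hut with rfl | rfl | rfl | rfl <;> simp only [pvfcFB, Set.mem_ofPred_eq] at hf hsf xt <;> omega
      · exfalso
        rcases hut with rfl | rfl | rfl | rfl <;> simp only [pvfcArc, pvfcFB, Set.mem_union, Set.mem_ofPred_eq] at hf <;> omega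
      · refine ⟨es, Or.inr hes, ?_⟩
        rcases hus with rfl | rfl | rfl | rfl <;> simp only [pvfcFB, Set.mem_ofPred_eq] at hf hss xs <;> omega
      · exact ⟨f, Or.inr hf, a1, a2, a3, a4⟩
    · exfalso
      rcases hut with rfl | rfl | rfl | rfl <;> simp only [pvfcFB, Set.mem_ofPred_eq] at h <;> omega
  · rw [e0, e1, e2]
    simp only [pvfcPt, Prod.ext_iff, Prod.fst_sub, Prod.snd_sub]
    constructor <;> ring
  · rw [e0, e1]
    simp only [pvfcPt, pvtbI, Prod.ext_iff, Prod.fst_sub, Prod.snd_sub]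
    constructor <;> ring
  · have hI : pvtbI (c (i + 1) - c i) = ut := by
      rw [e0, e1]
      simp only [pvfcPt, pvtbI, Prod.ext_iff, Prod.fst_sub, Prod.snd_sub]
      constructor <;> ring
    intro j hj
    rw [hI, e1]
    constructor
    · rintro ⟨k, hk, e⟩
      have hm := hU k hk
      rw [← e] at hm
      rcases hm with ⟨f, hf, a1, a2, a3, a4⟩ | h
      · have b1 := bU f hf
        simp only [Prod.fst_add, Prod.snd_add, Prod.smul_fst, Prod.smul_snd, smul_eq_mul] at a1 a2 a3 a4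
        rcases hf with hf | hf
        · have r1 := pvfc_rowA hfar2 hut hQ hA f hf 1 (by norm_num) (by norm_num)
          have r2 := pvfc_rowA hfar2 hut hQ hA f hf 2 (by norm_num) (by norm_num)
          rcases hut with rfl | rfl | rfl | rfl <;> simp only [pvfcPt] at a1 a2 a3 a4 r1 r2 <;> omega
        · have r1 := pvfc_rowB hfar2 hut hP hB f hf 1 (by norm_num) (by norm_num)
          have r2 := pvfc_rowB hfar2 hut hP hB f hf 2 (by norm_num) (by norm_num)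
          rcases hut with rfl | rfl | rfl | rfl <;> simp only [pvfcPt] at a1 a2 a3 a4 r1 r2 <;> omega
      · rcases hut with rfl | rfl | rfl | rfl <;>
          simp only [pvfcPt, pvfcFB, Set.mem_ofPred_eq, Prod.fst_add, Prod.snd_add, Prod.smul_fst, Prod.smul_snd, smul_eq_mul] at h <;> omega
    · rcases hut with rfl | rfl | rfl | rfl <;>
        simp only [pvfcPt, tscBox, Set.mem_ofPred_eq, Prod.fst_add, Prod.snd_add, Prod.smul_fst, Prod.smul_snd, smul_eq_mul] <;> omega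

/-! ## 2. (COR) of TR38 : from a free chain of cells to a corridor inside a fixed box -/

/-- clamp onto the box `[a, b] × [c, d]` -/
def pvfcCl (a b c d : ℤ) (v : ℤ × ℤ) : ℤ × ℤ := (max a (min b v.1), max c (min d v.2))

theorem pvfc_cl_fix {a b c d : ℤ} {v : ℤ × ℤ} (hv : v ∈ tscBox a b c d) : pvfcCl a b c d v = v := by
  obtain ⟨h1, h2, h3, h4⟩ := hv
  refine Prod.ext ?_ ?_ <;> simp only [pvfcCl] <;> omega

theorem pvfc_cl_mem {O : Set (ℤ × ℤ)} {a b c d : ℤ} (hab : a ≤ b) (hcd : c ≤ d) (hO : O ⊆ tscBox (a + 1) (b - 1) (c + 1) (d - 1)) {v : ℤ × ℤ} (hv : v ∉ O) :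
    pvfcCl a b c d v ∈ tscBox a b c d \ O := by
  refine ⟨⟨?_, ?_, ?_, ?_⟩, fun h => ?_⟩
  · simp only [pvfcCl]; omega
  · simp only [pvfcCl]; omega
  · simp only [pvfcCl]; omega
  · simp only [pvfcCl]; omega
  · obtain ⟨h1, h2, h3, h4⟩ := hO h
    have e : pvfcCl a b c d v = v := by
      simp only [pvfcCl] at h1 h2 h3 h4
      refine Prod.ext ?_ ?_ <;> simp only [pvfcCl] <;> omega
    rw [e] at h
    exact hv h

/-- **the path is pushed back into the box** -/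
theorem pvfc_clamp {O : Set (ℤ × ℤ)} {a b c d : ℤ} (hab : a ≤ b) (hcd : c ≤ d) (hO : O ⊆ tscBox (a + 1) (b - 1) (c + 1) (d - 1)) {u v : ℤ × ℤ} (h : TscR pvtbG4 Oᶜ u v) :
    TscR pvtbG4 (tscBox a b c d \ O) (pvfcCl a b c d u) (pvfcCl a b c d v) := by
  induction h with
  | refl => exact tsc_R_refl _
  | @tail x y _ hs ih =>
    refine tsc_R_trans ih ?_
    obtain ⟨hadj, hx, hy⟩ := hs
    by_cases e : pvfcCl a b c d x = pvfcCl a b c d y
    · rw [e]; exact tsc_R_refl _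
    · refine tsc_R_step ?_ (pvfc_cl_mem hab hcd hO hx) (pvfc_cl_mem hab hcd hO hy)
      rw [pvtb_G4_adj] at hadj ⊢
      have e' : ¬ ((pvfcCl a b c d x).1 = (pvfcCl a b c d y).1 ∧ (pvfcCl a b c d x).2 = (pvfcCl a b c d y).2) := fun h => e (Prod.ext h.1 h.2)
      simp only [pvfcCl] at e' ⊢
      have k1 : ∀ (a b t : ℤ), a ≤ b → max a (min b (t + 1)) = max a (min b t) ∨ max a (min b (t + 1)) = max a (min b t) + 1 := by
        intro a b t hab; omega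
      rcases hadj with ⟨g1, g2⟩ | ⟨g1, g2⟩ | ⟨g1, g2⟩ | ⟨g1, g2⟩
      · rw [g1, g2] at e' ⊢
        have := k1 a b x.1 hab
        omega
      · have := k1 a b y.1 hab
        rw [show y.1 + 1 = x.1 by omega] at this
        rw [g2] at e' ⊢
        omega
      · rw [g1, g2] at e' ⊢
        have := k1 c d x.2 hcd
        omega
      · have := k1 c d y.2 hcd
        rw [show y.2 + 1 = x.2 by omega] at this
        rw [g1] at e' ⊢
        omega

/-- **(COR), cells**: `p`, `q` in the box, joined off the obstacle `O` (which lies in the box shrunk by `1`): a corridor of cells of the refinement `2m+1` from the centre of `p` to the centre of `q`,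
inside the `r`-fattened blocks of the cells of the box off `O` -/
theorem pvfc_cor {m r : ℤ} (h1 : m < r) (h2 : r < 2 * m + 1) {O : Set (ℤ × ℤ)} {a b c d : ℤ} (hO : O ⊆ tscBox (a + 1) (b - 1) (c + 1) (d - 1))
    {p q : ℤ × ℤ} (hp : p ∈ tscBox a b c d) (hq : q ∈ tscBox a b c d) (hpO : p ∉ O) (h : TscR pvtbG4 Oᶜ p q) :
    ∃ (n : ℕ) (C : ℕ → ℤ × ℤ), PvtbCor n C ∧ C 0 = ((2 * m + 1) * p.1, (2 * m + 1) * p.2) ∧ C n = ((2 * m + 1) * q.1, (2 * m + 1) * q.2) ∧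
      ∀ i, i ≤ n → C i ∈ pvtbD (2 * m + 1) r (tscBox a b c d \ O) := by
  have hab : a ≤ b := hp.1.trans hp.2.1
  have hcd : c ≤ d := hp.2.2.1.trans hp.2.2.2
  have hR := pvfc_clamp hab hcd hO h
  rw [pvfc_cl_fix hp, pvfc_cl_fix hq] at hR
  have hpE : p ∈ tscBox a b c d \ O := ⟨hp, hpO⟩
  have cen : ∀ (F : Set (ℤ × ℤ)) (f : ℤ × ℤ), f ∈ F → ((2 * m + 1) * f.1, (2 * m + 1) * f.2) ∈ pvtbD (2 * m + 1) r F :=
    fun F f hf => ⟨f, hf, by simp only; omega, by simp only; omega, by simp only; omega, by simp only; omega⟩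
  have hc := pvtb_D_conn4 (k := 2 * m + 1) (r := r) (by omega) (by omega) (tsc_comp_conn (G := pvtbG4) (s := tscBox a b c d \ O) p)
  have hR' := hc _ (cen _ _ (tsc_comp_self hpE)) _ (cen _ _ (⟨tsc_R_mem hR hpE, hR⟩ : q ∈ tscComp pvtbG4 (tscBox a b c d \ O) p))
  exact pvtb_cor_exists (pvtb_wc_D' h1 h2 _) (cen _ _ hpE) (tsc_R_mono (pvtb_D_mono le_rfl (tsc_comp_sub p)) hR')

/-- **(COR-2)**: both cells in the `(8,4)` outside of the finite obstacle `O` (output of `pvtc_pl_cor` of 292) -/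
theorem pvfc_cor_out {m r : ℤ} (h1 : m < r) (h2 : r < 2 * m + 1) {O : Set (ℤ × ℤ)} {a b c d : ℤ} (hO : O ⊆ tscBox (a + 1) (b - 1) (c + 1) (d - 1))
    {p q : ℤ × ℤ} (hp : p ∈ tscBox a b c d) (hq : q ∈ tscBox a b c d) (hpO : p ∈ pvtbOut O) (hqO : q ∈ pvtbOut O) :
    ∃ (n : ℕ) (C : ℕ → ℤ × ℤ), PvtbCor n C ∧ C 0 = ((2 * m + 1) * p.1, (2 * m + 1) * p.2) ∧ C n = ((2 * m + 1) * q.1, (2 * m + 1) * q.2) ∧
      ∀ i, i ≤ n → C i ∈ pvtbD (2 * m + 1) r (tscBox a b c d \ O) :=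
  pvfc_cor h1 h2 hO hp hq (pvtb_out_sub hpO)
    (tsc_R_mono pvtb_out_sub (pvtb_out_conn ((tsc_box_finite _ _ _ _).subset hO) p hpO q hqO))

/-! ## 3. (COR) with two nozzles (shape of 62, `Tr/FitRoof.lean`) -/

/-- the cell of abscissa `t` on the axis of the nozzle `(P, d)` -/
def pvfcNp (P d : ℤ × ℤ) (t : ℤ) : ℤ × ℤ := (5 * P.1 + t * d.1, 5 * P.2 + t * d.2)

/-- the thin nozzle: the cells of abscissa `5, …, 15` on the axis through the centre of the coarse cell `P` in the direction `d` -/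
def pvfcNz (P d : ℤ × ℤ) : Set (ℤ × ℤ) :=
  {v | (v.1 - 5 * P.1) * d.2 - (v.2 - 5 * P.2) * d.1 = 0 ∧ 5 ≤ (v.1 - 5 * P.1) * d.1 + (v.2 - 5 * P.2) * d.2 ∧ (v.1 - 5 * P.1) * d.1 + (v.2 - 5 * P.2) * d.2 ≤ 15}

theorem pvfc_dir_neg {d : ℤ × ℤ} (hd : PvfcDir d) : PvfcDir (-d) := by
  rcases hd with rfl | rfl | rfl | rfl
  · right; left; rfl
  · left; rfl
  · right; right; right; rfl
  · right; right; left; rfl

theorem pvfc_box_gd (a b c d : ℤ) : PvtbGd 5 {0, 4} (tscBox (5 * a) (5 * b) (5 * c) (5 * d)) := by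
  refine ⟨pvtb_box_wc _ _ _ _, fun x y => ?_, fun x y => ?_⟩ <;>
    simp only [tscBox, Set.mem_ofPred_eq, Set.mem_insert_iff, Set.mem_singleton_iff] <;> omega

theorem pvfc_nz_box (P : ℤ × ℤ) {d : ℤ × ℤ} (hd : PvfcDir d) : ∃ a b c e : ℤ, pvfcNz P d = tscBox (5 * a) (5 * b) (5 * c) (5 * e) := by
  rcases hd with rfl | rfl | rfl | rfl
  · exact ⟨P.1 + 1, P.1 + 3, P.2, P.2, by ext v; simp only [pvfcNz, tscBox, Set.mem_ofPred_eq]; omega⟩
  · exact ⟨P.1 - 3, P.1 - 1, P.2, P.2, by ext v; simp only [pvfcNz, tscBox, Set.mem_ofPred_eq]; omega⟩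
  · exact ⟨P.1, P.1, P.2 + 1, P.2 + 3, by ext v; simp only [pvfcNz, tscBox, Set.mem_ofPred_eq]; omega⟩
  · exact ⟨P.1, P.1, P.2 - 3, P.2 - 1, by ext v; simp only [pvfcNz, tscBox, Set.mem_ofPred_eq]; omega⟩

theorem pvfc_nz_gd (P : ℤ × ℤ) {d : ℤ × ℤ} (hd : PvfcDir d) : PvtbGd 5 {0, 4} (pvfcNz P d) := by
  obtain ⟨a, b, c, e, h⟩ := pvfc_nz_box P hd
  rw [h]; exact pvfc_box_gd a b c e

theorem pvfc_nz_conn (P : ℤ × ℤ) {d : ℤ × ℤ} (hd : PvfcDir d) : TscConn pvtbG4 (pvfcNz P d) := by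
  obtain ⟨a, b, c, e, h⟩ := pvfc_nz_box P hd
  rw [h]; exact pvtb_box_conn _ _ _ _

theorem pvfc_np_mem (P : ℤ × ℤ) {d : ℤ × ℤ} (hd : PvfcDir d) (t : ℤ) : pvfcNp P d t ∈ pvfcNz P d ↔ 5 ≤ t ∧ t ≤ 15 := by
  rcases hd with rfl | rfl | rfl | rfl <;> simp only [pvfcNp, pvfcNz, Set.mem_ofPred_eq] <;> omega

theorem pvfc_al_union {k : ℤ} {R : Set ℤ} {S T : Set (ℤ × ℤ)} (hS : PvtbAl k R S) (hT : PvtbAl k R T) : PvtbAl k R (S ∪ T) := by
  refine ⟨fun x y => ?_, fun x y => ?_⟩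
  · rcases hS.1 x y with h1 | h1
    · rcases hT.1 x y with h2 | h2
      · left; simp only [Set.mem_union, h1, h2]
      · exact Or.inr h2
    · exact Or.inr h1
  · rcases hS.2 x y with h1 | h1
    · rcases hT.2 x y with h2 | h2
      · left; simp only [Set.mem_union, h1, h2]
      · exact Or.inr h2
    · exact Or.inr h1

/-- **a corridor which starts at the closed end of a nozzle runs straight through it** -/
theorem pvfc_noz_run {U : Set (ℤ × ℤ)} {P d : ℤ × ℤ} {n : ℕ} {c : ℕ → ℤ × ℤ} (h : PvtbCor n c) (hU : ∀ i, i ≤ n → c i ∈ U)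
    (hnb : ∀ t : ℤ, 5 ≤ t → t ≤ 11 → ∀ y ∈ U, pvtbG4.Adj (pvfcNp P d t) y → y = pvfcNp P d (t + 1) ∨ (6 ≤ t ∧ y = pvfcNp P d (t - 1)))
    (h0 : c 0 = pvfcNp P d 5) (hn : ∀ t : ℤ, 5 ≤ t → t ≤ 11 → c n ≠ pvfcNp P d t) :
    ∀ k : ℕ, k ≤ 7 → k ≤ n ∧ c k = pvfcNp P d (5 + k) := by
  intro k
  induction k using Nat.strong_induction_on with
  | _ k ih =>
    intro hk
    rcases k with _ | k
    · exact ⟨Nat.zero_le _, by rw [h0]; simp⟩
    obtain ⟨hkn, hck⟩ := ih k (by omega) (by omega)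
    have hlt : k < n := by
      rcases (by omega : k < n ∨ k = n) with e | e
      · exact e
      · subst e
        exact absurd hck (hn _ (by omega) (by omega))
    refine ⟨hlt, ?_⟩
    have hadj := h.step k hlt
    rw [hck] at hadj
    rcases hnb _ (by omega) (by omega) _ (hU (k + 1) hlt) hadj with e | ⟨h6, e⟩
    · rw [e, show (5 + (k : ℤ) + 1) = 5 + ((k + 1 : ℕ) : ℤ) by push_cast; ring]
    · exfalso
      obtain ⟨k', rfl⟩ : ∃ k', k = k' + 1 := ⟨k - 1, by omega⟩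
      have := (ih k' (by omega) (by omega)).2
      refine h.nb k' (by omega) ?_
      rw [this, e, show (5 + ((k' + 1 : ℕ) : ℤ) - 1) = 5 + (k' : ℤ) by push_cast; ring]

/-- the neighbours of the thin cells of a nozzle -/
theorem pvfc_noz_nb {F : Set (ℤ × ℤ)} {P d P' d' : ℤ × ℤ} (hd : PvfcDir d) (hd' : PvfcDir d')
    (hF : ∀ e ∈ F, ¬ (P.1 - 2 ≤ e.1 ∧ e.1 ≤ P.1 + 2 ∧ P.2 - 2 ≤ e.2 ∧ e.2 ≤ P.2 + 2))
    (hfar : 8 ≤ P.1 - P'.1 ∨ 8 ≤ P'.1 - P.1 ∨ 8 ≤ P.2 - P'.2 ∨ 8 ≤ P'.2 - P.2) (t : ℤ) (h5 : 5 ≤ t) (h11 : t ≤ 11) (y : ℤ × ℤ)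
    (hy : y ∈ pvtbD 5 3 F ∨ y ∈ pvfcNz P d ∨ y ∈ pvfcNz P' d') (hadj : pvtbG4.Adj (pvfcNp P d t) y) :
    y = pvfcNp P d (t + 1) ∨ (6 ≤ t ∧ y = pvfcNp P d (t - 1)) := by
  rw [pvtb_G4_adj] at hadj
  rcases hy with ⟨e, he, b1, b2, b3, b4⟩ | hy | hy
  · have := hF e he
    rcases hd with rfl | rfl | rfl | rfl <;> simp only [pvfcNp, Prod.ext_iff] at hadj ⊢ <;> omega
  · rcases hd with rfl | rfl | rfl | rfl <;> simp only [pvfcNp, pvfcNz, Set.mem_ofPred_eq, Prod.ext_iff] at hadj hy ⊢ <;> omega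
  · exfalso
    rcases hd with rfl | rfl | rfl | rfl <;> rcases hd' with rfl | rfl | rfl | rfl <;>
      simp only [pvfcNp, pvfcNz, Set.mem_ofPred_eq] at hadj hy <;> omega

theorem pvfc_nz_np {P d v : ℤ × ℤ} (hd : PvfcDir d) (hv : v ∈ pvfcNz P d) : ∃ t : ℤ, 5 ≤ t ∧ t ≤ 15 ∧ v = pvfcNp P d t := by
  refine ⟨(v.1 - 5 * P.1) * d.1 + (v.2 - 5 * P.2) * d.2, hv.2.1, hv.2.2, ?_⟩
  have h0 := hv.1
  rcases hd with rfl | rfl | rfl | rfl <;> simp only [pvfcNp, Prod.ext_iff] at h0 ⊢ <;> omega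

theorem pvfc_np_far {P d P' d' : ℤ × ℤ} (hd : PvfcDir d) (hd' : PvfcDir d') (hfar : 8 ≤ P.1 - P'.1 ∨ 8 ≤ P'.1 - P.1 ∨ 8 ≤ P.2 - P'.2 ∨ 8 ≤ P'.2 - P.2)
    {t t' : ℤ} (h1 : 0 ≤ t) (h2 : t ≤ 15) (h1' : 0 ≤ t') (h2' : t' ≤ 15) : pvfcNp P d t ≠ pvfcNp P' d' t' := by
  intro e
  rcases hd with rfl | rfl | rfl | rfl <;> rcases hd' with rfl | rfl | rfl | rfl <;> simp only [pvfcNp, Prod.ext_iff] at e <;> omega

/-- **(COR) WITH TWO NOZZLES** (the shape which `Tr/FitRoof.lean` consumes).   `O` = coarse obstacle inside the box shrunk by `1`; the `5 × 5` blocks round `Pt`, `Ps` lie in `O` (deep in the mouth squares), `Pt`, `Ps` are `8` apart;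
`Pt + 3 dt` and `Ps - 3 ds` lie in the `(8,4)` outside of `O`.   Then there is a corridor `C` of cells of the refinement `5` which starts with the `7` cells `5 Pt + (6 + k) dt`, ends with the `7` cells `5 Ps - (6 + k) ds`
(thin channels through the two outer layers of the blocks) and runs in between inside `D_{5,3} (box \ O)`. -/
theorem pvfc_noz2 {O : Set (ℤ × ℤ)} {a b c d : ℤ} (hO : O ⊆ tscBox (a + 1) (b - 1) (c + 1) (d - 1)) {Pt Ps dt ds : ℤ × ℤ} (hdt : PvfcDir dt) (hds : PvfcDir ds)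
    (bt : tscBox (Pt.1 - 2) (Pt.1 + 2) (Pt.2 - 2) (Pt.2 + 2) ⊆ O) (bs : tscBox (Ps.1 - 2) (Ps.1 + 2) (Ps.2 - 2) (Ps.2 + 2) ⊆ O)
    (hfar : 8 ≤ Pt.1 - Ps.1 ∨ 8 ≤ Ps.1 - Pt.1 ∨ 8 ≤ Pt.2 - Ps.2 ∨ 8 ≤ Ps.2 - Pt.2)
    (ot : (Pt.1 + 3 * dt.1, Pt.2 + 3 * dt.2) ∈ pvtbOut O) (os : (Ps.1 - 3 * ds.1, Ps.2 - 3 * ds.2) ∈ pvtbOut O) :
    ∃ (n : ℕ) (C : ℕ → ℤ × ℤ), PvtbCor n C ∧ 12 ≤ n ∧
      (∀ k : ℕ, k ≤ 6 → C k = (5 * Pt.1 + (6 + k) * dt.1, 5 * Pt.2 + (6 + k) * dt.2) ∧ C (n - k) = (5 * Ps.1 - (6 + k) * ds.1, 5 * Ps.2 - (6 + k) * ds.2)) ∧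
      ∀ i, 6 ≤ i → i + 6 ≤ n → C i ∈ pvtbD 5 3 (tscBox a b c d \ O) := by
  have hds' := pvfc_dir_neg hds
  have hfar' : 8 ≤ Ps.1 - Pt.1 ∨ 8 ≤ Pt.1 - Ps.1 ∨ 8 ≤ Ps.2 - Pt.2 ∨ 8 ≤ Pt.2 - Ps.2 := by omega
  -- the two free coarse cells at the mouths of the nozzles
  have etB : (Pt.1 + 3 * dt.1, Pt.2 + 3 * dt.2) ∈ tscBox a b c d := by
    have h := hO (bt (show (Pt.1 + 2 * dt.1, Pt.2 + 2 * dt.2) ∈ _ by
      rcases hdt with rfl | rfl | rfl | rfl <;> simp only [tscBox, Set.mem_ofPred_eq] <;> omega))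
    rcases hdt with rfl | rfl | rfl | rfl <;> simp only [tscBox, Set.mem_ofPred_eq] at h ⊢ <;> omega
  have esB : (Ps.1 - 3 * ds.1, Ps.2 - 3 * ds.2) ∈ tscBox a b c d := by
    have h := hO (bs (show (Ps.1 - 2 * ds.1, Ps.2 - 2 * ds.2) ∈ _ by
      rcases hds with rfl | rfl | rfl | rfl <;> simp only [tscBox, Set.mem_ofPred_eq] <;> omega))
    rcases hds with rfl | rfl | rfl | rfl <;> simp only [tscBox, Set.mem_ofPred_eq] at h ⊢ <;> omega
  have etF : (Pt.1 + 3 * dt.1, Pt.2 + 3 * dt.2) ∈ tscBox a b c d \ O := ⟨etB, pvtb_out_sub ot⟩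
  have esF : (Ps.1 - 3 * ds.1, Ps.2 - 3 * ds.2) ∈ tscBox a b c d \ O := ⟨esB, pvtb_out_sub os⟩
  have hFt : ∀ e ∈ tscBox a b c d \ O, ¬ (Pt.1 - 2 ≤ e.1 ∧ e.1 ≤ Pt.1 + 2 ∧ Pt.2 - 2 ≤ e.2 ∧ e.2 ≤ Pt.2 + 2) := fun e he h => he.2 (bt h)
  have hFs : ∀ e ∈ tscBox a b c d \ O, ¬ (Ps.1 - 2 ≤ e.1 ∧ e.1 ≤ Ps.1 + 2 ∧ Ps.2 - 2 ≤ e.2 ∧ e.2 ≤ Ps.2 + 2) := fun e he h => he.2 (bs h)
  -- the region
  have hWC : PvtbWC (pvtbD 5 3 (tscBox a b c d \ O) ∪ (pvfcNz Pt dt ∪ pvfcNz Ps (-ds))) := by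
    have h1 := pvtb_gd_D (m := 2) (r := 3) (by norm_num) (by norm_num) (tscBox a b c d \ O)
    norm_num at h1
    have g1 := pvfc_nz_gd Pt hdt
    have g2 := pvfc_nz_gd Ps hds'
    have h2 : PvtbGd 5 {0, 4} (pvfcNz Pt dt ∪ pvfcNz Ps (-ds)) := by
      refine ⟨pvtb_wc_union g1.wc g2.wc ?_, pvfc_al_union g1.al g2.al⟩
      intro u hu v hv hadj
      exfalso
      obtain ⟨-, k1, k2, k3, k4⟩ := hadj
      rcases hdt with rfl | rfl | rfl | rfl <;> rcases hds with rfl | rfl | rfl | rfl <;>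
        simp only [pvfcNz, Set.mem_ofPred_eq, Prod.fst_neg, Prod.snd_neg] at hu hv <;> omega
    refine (h1.union h2 ?_).wc
    intro x h3 h4
    simp only [Set.mem_insert_iff, Set.mem_singleton_iff] at h3 h4
    omega
  have cen : ∀ (F : Set (ℤ × ℤ)) (f : ℤ × ℤ), f ∈ F → (5 * f.1, 5 * f.2) ∈ pvtbD 5 3 F := fun F f hf => ⟨f, hf, by simp only; omega, by simp only; omega, by simp only; omega, by simp only; omega⟩
  have hab : a ≤ b := etB.1.trans etB.2.1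
  have hcd : c ≤ d := etB.2.2.1.trans etB.2.2.2
  have hOf : O.Finite := (tsc_box_finite _ _ _ _).subset hO
  have hR0 := pvfc_clamp hab hcd hO (tsc_R_mono pvtb_out_sub (pvtb_out_conn hOf _ ot _ os))
  rw [pvfc_cl_fix etB, pvfc_cl_fix esB] at hR0
  have hc := pvtb_D_conn4 (k := 5) (r := 3) (by norm_num) (by norm_num) (tsc_comp_conn (G := pvtbG4) (s := tscBox a b c d \ O) (Pt.1 + 3 * dt.1, Pt.2 + 3 * dt.2))
  have hR1 := tsc_R_mono (pvtb_D_mono le_rfl (tsc_comp_sub _)) (hc _ (cen _ _ (tsc_comp_self etF)) _ (cen _ _ (⟨esF, hR0⟩ : _ ∈ tscComp pvtbG4 (tscBox a b c d \ O) _)))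
  have e15t : pvfcNp Pt dt 15 = (5 * (Pt.1 + 3 * dt.1, Pt.2 + 3 * dt.2).1, 5 * (Pt.1 + 3 * dt.1, Pt.2 + 3 * dt.2).2) := by
    simp only [pvfcNp, Prod.ext_iff]; constructor <;> ring
  have e15s : pvfcNp Ps (-ds) 15 = (5 * (Ps.1 - 3 * ds.1, Ps.2 - 3 * ds.2).1, 5 * (Ps.1 - 3 * ds.1, Ps.2 - 3 * ds.2).2) := by
    simp only [pvfcNp, Prod.ext_iff, Prod.fst_neg, Prod.snd_neg]; constructor <;> ring
  have hR : TscR pvtbG4 (pvtbD 5 3 (tscBox a b c d \ O) ∪ (pvfcNz Pt dt ∪ pvfcNz Ps (-ds))) (pvfcNp Pt dt 5) (pvfcNp Ps (-ds) 5) := by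
    refine tsc_R_trans (tsc_R_mono (fun v hv => Or.inr (Or.inl hv)) (pvfc_nz_conn Pt hdt _ ((pvfc_np_mem Pt hdt 5).2 (by norm_num)) _ ((pvfc_np_mem Pt hdt 15).2 (by norm_num)))) ?_
    rw [e15t]
    refine tsc_R_trans (tsc_R_mono (fun v hv => Or.inl hv) hR1) ?_
    rw [← e15s]
    exact tsc_R_mono (fun v hv => Or.inr (Or.inr hv)) (pvfc_nz_conn Ps hds' _ ((pvfc_np_mem Ps hds' 15).2 (by norm_num)) _ ((pvfc_np_mem Ps hds' 5).2 (by norm_num)))
  obtain ⟨n', C', hC, c0, cn, hU⟩ := pvtb_cor_exists hWC (Or.inr (Or.inl ((pvfc_np_mem Pt hdt 5).2 (by norm_num)))) hR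
  -- the two forced runs
  have runT := pvfc_noz_run hC hU (fun t h5 h11 y hy hadj => pvfc_noz_nb hdt hds' hFt hfar t h5 h11 y (by
      rcases hy with h | h | h
      · exact Or.inl h
      · exact Or.inr (Or.inl h)
      · exact Or.inr (Or.inr h)) hadj) c0
    (fun t h5 h11 => by rw [cn]; exact pvfc_np_far hds' hdt hfar' (by norm_num) (by norm_num) (by omega) (by omega))
  have runS := pvfc_noz_run (pvtb_cor_rev hC) (U := pvtbD 5 3 (tscBox a b c d \ O) ∪ (pvfcNz Pt dt ∪ pvfcNz Ps (-ds))) (fun i hi => hU (n' - i) (by omega))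
    (fun t h5 h11 y hy hadj => pvfc_noz_nb hds' hdt hFs hfar' t h5 h11 y (by
      rcases hy with h | h | h
      · exact Or.inl h
      · exact Or.inr (Or.inr h)
      · exact Or.inr (Or.inl h)) hadj) (by simp only [Nat.sub_zero]; exact cn)
    (fun t h5 h11 => by simp only [Nat.sub_self]; rw [c0]; exact pvfc_np_far hdt hds' hfar (by norm_num) (by norm_num) (by omega) (by omega))
  have hn7 := (runT 7 le_rfl).1
  have hn14 : 14 ≤ n' := by
    by_contra hlt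
    have h1 := (runS 7 le_rfl).2
    have h2 := (runT (n' - 7) (by omega)).2
    rw [h2] at h1
    exact pvfc_np_far hdt hds' hfar (by omega) (by omega) (by norm_num) (by norm_num) h1
  refine ⟨n' - 2, fun i => C' (1 + i), pvtb_cor_sub hC (by omega), by omega, fun k hk => ⟨?_, ?_⟩, fun i h6 hi => ?_⟩
  · show C' (1 + k) = _
    rw [(runT (1 + k) (by omega)).2]
    simp only [pvfcNp, Prod.ext_iff]
    constructor <;> push_cast <;> ring
  · show C' (1 + (n' - 2 - k)) = _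
    have h1 := (runS (1 + k) (by omega)).2
    rw [show 1 + (n' - 2 - k) = n' - (1 + k) by omega, h1]
    simp only [pvfcNp, Prod.ext_iff, Prod.fst_neg, Prod.snd_neg]
    constructor <;> push_cast <;> ring
  · show C' (1 + i) ∈ _
    rcases hU (1 + i) (by omega) with h | h | h
    · exact h
    · obtain ⟨t, h5, h15, e⟩ := pvfc_nz_np hdt h
      rcases (by omega : t ≤ 11 ∨ 12 ≤ t) with h11 | h12
      · exfalso
        have h2 := (runT (t - 5).toNat (by omega)).2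
        rw [show (5 + ((t - 5).toNat : ℤ)) = t by omega, ← e] at h2
        have := pvtb_cor_inj hC (by omega) (by omega) h2
        omega
      · rw [e]
        refine ⟨_, etF, ?_⟩
        rcases hdt with rfl | rfl | rfl | rfl <;> simp only [pvfcNp] <;> omega
    · obtain ⟨t, h5, h15, e⟩ := pvfc_nz_np hds' h
      rcases (by omega : t ≤ 11 ∨ 12 ≤ t) with h11 | h12
      · exfalso
        have h2 := (runS (t - 5).toNat (by omega)).2
        rw [show (5 + ((t - 5).toNat : ℤ)) = t by omega, ← e] at h2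
        have := pvtb_cor_inj hC (by omega) (by omega) h2
        omega
      · rw [e]
        refine ⟨_, esF, ?_⟩
        rcases hds with rfl | rfl | rfl | rfl <;> simp only [pvfcNp, Prod.fst_neg, Prod.snd_neg] <;> omega

/-- **(COR) WITH TWO NOZZLES**, with `pvtwN`, the confinement and the length bound -/
theorem pvfc_noz2_N {O : Set (ℤ × ℤ)} {a b c d : ℤ} (hO : O ⊆ tscBox (a + 1) (b - 1) (c + 1) (d - 1)) {Pt Ps dt ds : ℤ × ℤ} (hdt : PvfcDir dt) (hds : PvfcDir ds)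
    (bt : pvtwN 2 {Pt} ⊆ O) (bs : pvtwN 2 {Ps} ⊆ O) (hfar : 8 ≤ Pt.1 - Ps.1 ∨ 8 ≤ Ps.1 - Pt.1 ∨ 8 ≤ Pt.2 - Ps.2 ∨ 8 ≤ Ps.2 - Pt.2)
    (ot : (Pt.1 + 3 * dt.1, Pt.2 + 3 * dt.2) ∈ pvtbOut O) (os : (Ps.1 - 3 * ds.1, Ps.2 - 3 * ds.2) ∈ pvtbOut O) :
    ∃ (n : ℕ) (C : ℕ → ℤ × ℤ), PvtbCor n C ∧ 12 ≤ n ∧
      (∀ k : ℕ, k ≤ 6 → C k = (5 * Pt.1 + (6 + k) * dt.1, 5 * Pt.2 + (6 + k) * dt.2) ∧ C (n - k) = (5 * Ps.1 - (6 + k) * ds.1, 5 * Ps.2 - (6 + k) * ds.2)) ∧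
      (∀ i, 6 ≤ i → i + 6 ≤ n → C i ∈ pvtbD 5 3 (tscBox a b c d \ O)) ∧
      (∀ i, i ≤ n → C i ∈ tscBox (5 * a - 3) (5 * b + 3) (5 * c - 3) (5 * d + 3)) ∧
      (n : ℤ) + 1 ≤ (5 * (b - a) + 7) * (5 * (d - c) + 7) := by
  have blk : ∀ P : ℤ × ℤ, tscBox (P.1 - 2) (P.1 + 2) (P.2 - 2) (P.2 + 2) ⊆ pvtwN 2 {P} := by
    rintro P v ⟨h1, h2, h3, h4⟩
    exact ⟨P, rfl, by push_cast; omega, by push_cast; omega, by push_cast; omega, by push_cast; omega⟩
  obtain ⟨n, C, hC, hn, hends, hmid⟩ := pvfc_noz2 hO hdt hds ((blk Pt).trans bt) ((blk Ps).trans bs) hfar ot os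
  have cP : ∀ P : ℤ × ℤ, pvtwN 2 {P} ⊆ O → a + 3 ≤ P.1 ∧ P.1 + 3 ≤ b ∧ c + 3 ≤ P.2 ∧ P.2 + 3 ≤ d := by
    intro P hP
    have h1 := hO (hP (blk P (show (P.1 - 2, P.2 - 2) ∈ _ by simp only [tscBox, Set.mem_ofPred_eq]; omega)))
    have h2 := hO (hP (blk P (show (P.1 + 2, P.2 + 2) ∈ _ by simp only [tscBox, Set.mem_ofPred_eq]; omega)))
    simp only [tscBox, Set.mem_ofPred_eq] at h1 h2
    omega
  have hbox : ∀ i, i ≤ n → C i ∈ tscBox (5 * a - 3) (5 * b + 3) (5 * c - 3) (5 * d + 3) := by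
    intro i hi
    rcases (by omega : i ≤ 6 ∨ n - 6 ≤ i ∨ (6 ≤ i ∧ i + 6 ≤ n)) with h | h | h
    · rw [(hends i h).1]
      have := cP Pt bt
      have hi' : (i : ℤ) ≤ 6 := by exact_mod_cast h
      have hi0 : (0 : ℤ) ≤ i := by positivity
      rcases hdt with rfl | rfl | rfl | rfl <;> simp only [tscBox, Set.mem_ofPred_eq] <;> omega
    · have e := (hends (n - i) (by omega)).2
      rw [show n - (n - i) = i by omega] at e
      rw [e]
      have := cP Ps bs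
      have hi' : ((n - i : ℕ) : ℤ) ≤ 6 := by exact_mod_cast (by omega : n - i ≤ 6)
      have hi0 : (0 : ℤ) ≤ ((n - i : ℕ) : ℤ) := by positivity
      rcases hds with rfl | rfl | rfl | rfl <;> simp only [tscBox, Set.mem_ofPred_eq] <;> omega
    · obtain ⟨e, ⟨he, -⟩, h1, h2, h3, h4⟩ := hmid i h.1 h.2
      simp only [tscBox, Set.mem_ofPred_eq] at he ⊢
      omega
  refine ⟨n, C, hC, hn, hends, hmid, hbox, ?_⟩
  have := pvtb_cor_len hC hbox
  have e : (5 * b + 3 - (5 * a - 3) + 1) * (5 * d + 3 - (5 * c - 3) + 1) = (5 * (b - a) + 7) * (5 * (d - c) + 7) := by ring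
  rw [e] at this
  exact this

section arcadd

open Set

/-! ## 4. enlarging the obstacle of an arc by a far connected set -/

/-- the old index of the new piece number `i` (a new piece is inserted at the place `a + 1`, the piece `a` is repeated after it) -/
def pvfcIx (a i : ℕ) : ℕ := if i ≤ a then i else if i = a + 1 then a else i - 2

theorem pvfc_ix_mono (a : ℕ) {i j : ℕ} (h : i ≤ j) : pvfcIx a i ≤ pvfcIx a j := by
  unfold pvfcIx
  split_ifs <;> omega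

theorem pvfc_ix_le {a m i : ℕ} (ha : a ≤ m) (hi : i ≤ m + 2) : pvfcIx a i ≤ m := by
  unfold pvfcIx
  split_ifs <;> omega

/-- **INSERTION OF A FAT PIECE** after the piece number `a` of a chain with marked times -/
theorem pvfc_chain_ins {γ : ℕ → ℂ} {K W : Set ℂ} {μ L : ℝ} {m : ℕ} {P : ℕ → Set ℂ} {τ : ℕ → ℕ} {fat : Set ℕ} (hc : PvfrChain γ K W μ L m P τ fat) {a : ℕ} (ha : a ≤ m)
    {Q : Set ℂ} (hQ : IsPreconnected Q) (hm : (P a ∩ Q).Nonempty) (hn : ∃ p ∈ Q, ‖p - γ (τ a)‖ ≤ μ) (hf : ∀ p ∈ Q, ∀ w ∈ W, L < ‖w - p‖) :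
    PvfrChain γ (K ∪ Q) W μ L (m + 2) (fun i => if i = a + 1 then Q else P (pvfcIx a i)) (fun i => τ (pvfcIx a i)) {i | i = a + 1 ∨ (i ≠ a + 1 ∧ pvfcIx a i ∈ fat)} where
  conn := by
    intro i hi
    show IsPreconnected (if i = a + 1 then Q else P (pvfcIx a i))
    split_ifs
    · exact hQ
    · exact hc.conn _ (pvfc_ix_le ha hi)
  link := by
    intro i hi
    show ((if i = a + 1 then Q else P (pvfcIx a i)) ∩ (if i + 1 = a + 1 then Q else P (pvfcIx a (i + 1)))).Nonempty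
    rcases lt_trichotomy i a with h | h | h
    · rw [if_neg (by omega), if_neg (by omega)]
      have e1 : pvfcIx a i = i := by unfold pvfcIx; rw [if_pos (by omega)]
      have e2 : pvfcIx a (i + 1) = i + 1 := by unfold pvfcIx; rw [if_pos (by omega)]
      rw [e1, e2]
      exact hc.link i (by omega)
    · subst h
      rw [if_neg (by omega), if_pos rfl]
      have e1 : pvfcIx i i = i := by unfold pvfcIx; rw [if_pos le_rfl]
      rw [e1]
      exact hm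
    · rcases Nat.eq_or_lt_of_le (Nat.succ_le_of_lt h) with h' | h'
      · have h'' : i = a + 1 := h'.symm
        subst h''
        rw [if_pos rfl, if_neg (by omega)]
        have e2 : pvfcIx a (a + 1 + 1) = a := by unfold pvfcIx; rw [if_neg (by omega), if_neg (by omega)]; omega
        rw [e2, inter_comm]
        exact hm
      · have h3 : a + 2 ≤ i := h'
        rw [if_neg (by omega), if_neg (by omega)]
        have e1 : pvfcIx a i = i - 2 := by unfold pvfcIx; rw [if_neg (by omega), if_neg (by omega)]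
        have e2 : pvfcIx a (i + 1) = i - 2 + 1 := by unfold pvfcIx; rw [if_neg (by omega), if_neg (by omega)]; omega
        rw [e1, e2]
        exact hc.link (i - 2) (by omega)
  cover := by
    intro p
    constructor
    · rintro (hp | hp)
      · obtain ⟨b, hb, hpb⟩ := (hc.cover p).1 hp
        rcases Nat.lt_or_ge a b with h | h
        · refine ⟨b + 2, by omega, ?_⟩
          show p ∈ (if b + 2 = a + 1 then Q else P (pvfcIx a (b + 2)))
          rw [if_neg (by omega)]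
          have e : pvfcIx a (b + 2) = b := by unfold pvfcIx; rw [if_neg (by omega), if_neg (by omega)]; omega
          rwa [e]
        · refine ⟨b, by omega, ?_⟩
          show p ∈ (if b = a + 1 then Q else P (pvfcIx a b))
          rw [if_neg (by omega)]
          have e : pvfcIx a b = b := by unfold pvfcIx; rw [if_pos h]
          rwa [e]
      · refine ⟨a + 1, by omega, ?_⟩
        show p ∈ (if a + 1 = a + 1 then Q else P (pvfcIx a (a + 1)))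
        rwa [if_pos rfl]
    · rintro ⟨i, hi, hp⟩
      replace hp : p ∈ (if i = a + 1 then Q else P (pvfcIx a i)) := hp
      split_ifs at hp
      · exact Or.inr hp
      · exact Or.inl ((hc.cover p).2 ⟨_, pvfc_ix_le ha hi, hp⟩)
  mono := fun i j hij hj => hc.mono _ _ (pvfc_ix_mono a hij) (pvfc_ix_le ha hj)
  near := by
    intro i hi
    show ∃ p ∈ (if i = a + 1 then Q else P (pvfcIx a i)), ‖p - γ (τ (pvfcIx a i))‖ ≤ μ
    split_ifs with h
    · have e : pvfcIx a i = a := by subst h; unfold pvfcIx; rw [if_neg (by omega), if_pos rfl]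
      rw [e]
      exact hn
    · exact hc.near _ (pvfc_ix_le ha hi)
  thin := by
    intro i hi hfat p hp
    replace hp : p ∈ (if i = a + 1 then Q else P (pvfcIx a i)) := hp
    have h1 : i ≠ a + 1 := fun h => hfat (Or.inl h)
    rw [if_neg h1] at hp
    exact hc.thin _ (pvfc_ix_le ha hi) (fun h => hfat (Or.inr ⟨h1, h⟩)) p hp
  far := by
    intro i hi hfat p hp
    replace hp : p ∈ (if i = a + 1 then Q else P (pvfcIx a i)) := hp
    rcases hfat with h | ⟨h1, h2⟩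
    · rw [if_pos h] at hp
      exact hf p hp
    · rw [if_neg h1] at hp
      exact hc.far _ (pvfc_ix_le ha hi) h2 p hp

/-- **THE OBSTACLE OF AN ARC MAY BE ENLARGED BY A CONNECTED SET WHICH MEETS IT AND IS FAR FROM THE WITNESS** (same times, same end points).
USE: `K = 𝔇.pvfyK pos` (62; field `arc` of `PvaccScene` = `pvfi_b_arc_wit` of 10), `Q = closedBall z (b h)` = the closed CORE DISC (since `Tr/Defs` v3 the core is the set of ALL the sites of the disc: the hulls, `PvfeAdm`, `Ok.core_off` read them). -/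
theorem pvfc_arc_add {γ : ℕ → ℂ} {K W Q : Set ℂ} {μ L : ℝ} {t t' : ℕ} {u v : ℂ} (h : PvfrArc γ K W μ L t t' u v) (hQ : IsPreconnected Q) (hm : (K ∩ Q).Nonempty)
    (hf : ∀ p ∈ Q, ∀ w ∈ W, L < ‖w - p‖) : PvfrArc γ (K ∪ Q) W μ L t t' u v := by
  obtain ⟨m, P, τ, fat, hc, hτ, hu, hv⟩ := h
  obtain ⟨q, hqK, hqQ⟩ := hm
  obtain ⟨a, ha, hqa⟩ := (hc.cover q).1 hqK
  have hPa : P a ⊆ K := fun p hp => (hc.cover p).2 ⟨a, ha, hp⟩
  have fin : ∀ Q' : Set ℂ, K ∪ Q' = K ∪ Q → IsPreconnected Q' → (P a ∩ Q').Nonempty → (∃ p ∈ Q', ‖p - γ (τ a)‖ ≤ μ) → (∀ p ∈ Q', ∀ w ∈ W, L < ‖w - p‖) → PvfrArc γ (K ∪ Q) W μ L t t' u v := by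
    intro Q' e c1 c2 c3 c4
    rw [← e]
    refine ⟨_, _, _, _, pvfc_chain_ins hc ha c1 c2 c3 c4, fun i hi => hτ _ (pvfc_ix_le ha hi), ?_, ?_⟩
    · show u ∈ (if 0 = a + 1 then Q' else P (pvfcIx a 0))
      rw [if_neg (by omega)]
      have e0 : pvfcIx a 0 = 0 := by unfold pvfcIx; rw [if_pos (Nat.zero_le _)]
      rwa [e0]
    · show v ∈ (if m + 2 = a + 1 then Q' else P (pvfcIx a (m + 2)))
      rw [if_neg (by omega)]
      have e0 : pvfcIx a (m + 2) = m := by unfold pvfcIx; rw [if_neg (by omega), if_neg (by omega)]; omega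
      rwa [e0]
  by_cases hfat : a ∈ fat
  · refine fin (P a ∪ Q) ?_ ?_ ⟨q, hqa, Or.inl hqa⟩ ?_ ?_
    · rw [← union_assoc, union_eq_self_of_subset_right hPa]
    · exact (hc.conn a ha).union q hqa hqQ hQ
    · obtain ⟨p, hp, hpn⟩ := hc.near a ha
      exact ⟨p, Or.inl hp, hpn⟩
    · rintro p (hp | hp)
      · exact hc.far a ha hfat p hp
      · exact hf p hp
  · exact fin Q rfl hQ ⟨q, hqa, hqQ⟩ ⟨q, hqQ, hc.thin a ha hfat q hqa⟩ hf

theorem pvfc_eqns_cite : True := by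
  have := @pvfcIx.eq_1
  trivial

end arcadd

end Claimed.Agent.R289
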