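import Claimed.Agent.R289.Pl.Geo
import Claimed.Agent.R289.Del.Dual
import Claimed.Agent.R289.Arm.Strand
import Claimed.Agent.R289.S1.Defs

/-!
# Row 289 (S0537, Cardy for Poisson-Voronoi), THE WALL, FIT-DET (W1_118 Part V), F3 = EMB, file Tr/FitEmb : THE ONLY USE OF THE EMBEDDING      (skeleton + EMB2 helper292; owner of the leaves helper135; prefix `pvfb_`, defs `pvfb*`)

MODEL FREE: `T : PvMap V D`, `pos : V → ℂ`, `G : PlGeo T pos` (`Pl/Geo` of 172; instance `plg_del h` for the Delaunay triangulation of the plane).      Strands: `pvasBW pvasStep pvasIt` (`Arm/Strand` of 158).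
* `pvfbMid T pos d` midpoint of the edge of `d`;  `pvfbLeg T pos d` = segment midpoint → barycentre of the face of `d`;  `pvfbHop T pos s d` = `mid d → bary d → mid (step d)`;
  `pvfbWall T pos s a i j` = the WALL POLYGON of the positions `a_i, …, a_j`, `a_l = pvasIt T s a l`;   `pvfbZig T pos s a i j` = the ZIGZAG of the occupied edges `T.seg pos a_l`, `i ≤ l ≤ j`
* sec. 1 EDGES   (EMB0) `pvfb_sego_seg` two different edges meet at a common end only;  (EMB1) `pvfb_leg_seg`;  (EMB3) `pvfb_half_seg`;  face form `pvfb_leg_tri`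
* sec. 2 WALL    compact, connected, midpoints, inside the faces, metric;  (EMB2) `pvfb_wall_seg`, `pvfb_wall_mono` (monochromatic edges are never crossed), `pvfb_wall_zig` (wall and zigzag of disjoint stretches of one strand are disjoint), `pvfb_wall_real`
-/

set_option autoImplicit false
set_option linter.unusedSectionVars false
set_option linter.unusedVariables false

namespace Claimed.Agent.R289

open Set

variable {V D : Type} {T : PvMap V D} {pos : V → ℂ}

/-! ## 0. definitions -/

/-- midpoint of the edge of `d` -/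
noncomputable def pvfbMid (T : PvMap V D) (pos : V → ℂ) (d : D) : ℂ := (pos (T.src d) + pos (T.tgt d)) / 2

/-- the LEG of `d`: from the midpoint of its edge to the barycentre of its face -/
def pvfbLeg (T : PvMap V D) (pos : V → ℂ) (d : D) : Set ℂ := segment ℝ (pvfbMid T pos d) (T.bary pos d)

/-- the part of the wall polygon in the face of the position `d`:  `mid d → bary d → mid (step d)` -/
def pvfbHop (T : PvMap V D) (pos : V → ℂ) (s : V → Bool) (d : D) : Set ℂ := pvfbLeg T pos d ∪ pvfbLeg T pos (T.opp (pvasStep T s d))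

/-- the WALL POLYGON of the positions `a_i, …, a_j` -/
def pvfbWall (T : PvMap V D) (pos : V → ℂ) (s : V → Bool) (a : D) (i j : ℕ) : Set ℂ := {x | ∃ l, i ≤ l ∧ l < j ∧ x ∈ pvfbHop T pos s (pvasIt T s a l)}

/-- the ZIGZAG of the occupied edges of the positions `a_i, …, a_j` -/
def pvfbZig (T : PvMap V D) (pos : V → ℂ) (s : V → Bool) (a : D) (i j : ℕ) : Set ℂ := {x | ∃ l, i ≤ l ∧ l ≤ j ∧ x ∈ T.seg pos (pvasIt T s a l)}

theorem pvfb_eqns_cite : True := by
  have := @pvfbMid.eq_1; have := @pvfbLeg.eq_1; have := @pvfbHop.eq_1; have := @pvfbWall.eq_1; have := @pvfbZig.eq_1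
  trivial

/-! ## 1. EDGES -/

theorem pvfb_mid_opp (T : PvMap V D) (pos : V → ℂ) (d : D) : pvfbMid T pos (T.opp d) = pvfbMid T pos d := by
  unfold pvfbMid
  rw [T.src_opp', T.tgt_opp, add_comm]

theorem pvfb_mid_sego (G : PlGeo T pos) (d : D) : pvfbMid T pos d ∈ T.sego pos d := by
  refine ⟨1 / 2, 1 / 2, by norm_num, by norm_num, by norm_num, ?_⟩
  unfold pvfbMid
  simp only [Complex.real_smul]
  push_cast
  ring

theorem pvfb_bary_sf {d d' : D} (h : T.SF d d') : T.bary pos d' = T.bary pos d := by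
  rcases h with rfl | rfl | rfl
  · rfl
  · unfold PvMap.bary
    rw [T.src_nxt, T.tgt_nxt, T.apex_nxt]
    ring
  · unfold PvMap.bary
    rw [T.src_nxt2, T.tgt_nxt2, T.apex_nxt2]
    ring

theorem pvfb_bary_trio (G : PlGeo T pos) (d : D) : T.bary pos d ∈ T.trio pos d := by
  exact dela_bar_mem (G.orient d)

/-- the determinant vanishes on the segment -/
theorem pvfb_det_seg {a b x : ℂ} (hx : x ∈ segment ℝ a b) : vorDet a b x = 0 := by
  obtain ⟨s, t, -, -, hst, rfl⟩ := hx
  rw [dela_det_affine _ _ _ _ s t hst]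
  have e5 : vorDet a b a = 0 := by unfold vorDet; ring
  have e6 : vorDet a b b = 0 := by unfold vorDet; ring
  rw [e5, e6]
  ring

/-- a point of an open triangle lies on no edge -/
theorem pvfb_trio_seg (G : PlGeo T pos) {d d' : D} {x : ℂ} (hx : x ∈ T.trio pos d) : x ∉ T.seg pos d' := by
  intro hd
  have hsf : T.SF d d' := G.inc_int d d' x hx (plg_seg_sub_tri G d' hd)
  rw [← plg_trio_sf (pos := pos) hsf] at hx
  have h0 : 0 < vorDet (pos (T.src d')) (pos (T.tgt d')) x := hx.1
  rw [pvfb_det_seg hd] at h0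
  exact lt_irrefl _ h0

theorem pvfb_sego_seg_sf (G : PlGeo T pos) {e d : D} {x : ℂ} (hx : x ∈ T.sego pos e) (hd : x ∈ T.seg pos d) (h : T.SF e d) : d = e := by
  obtain ⟨k1, k2, -⟩ := plg_side_weights (G.orient e) hx
  rcases h with rfl | rfl | rfl
  · rfl
  · exfalso
    have h0 : vorDet (pos (T.tgt e)) (pos (T.apex e)) x = 0 := pvfb_det_seg hd
    rw [h0] at k1
    exact lt_irrefl _ k1
  · exfalso
    have hd' : x ∈ segment ℝ (pos (T.apex e)) (pos (T.src e)) := by
      have := hd
      unfold PvMap.seg at this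
      rwa [T.src_nxt2, T.tgt_nxt2] at this
    have h0 : vorDet (pos (T.apex e)) (pos (T.src e)) x = 0 := pvfb_det_seg hd'
    rw [h0] at k2
    exact lt_irrefl _ k2

/-- **(EMB0)** two different edges meet at a common end only -/
theorem pvfb_sego_seg (G : PlGeo T pos) {e d : D} {x : ℂ} (hx : x ∈ T.sego pos e) (hd : x ∈ T.seg pos d) : d = e ∨ d = T.opp e := by
  rcases G.inc_edge e d x hx (plg_seg_sub_tri G d hd) with h | h
  · exact Or.inl (pvfb_sego_seg_sf G hx hd h)
  · refine Or.inr (pvfb_sego_seg_sf G ?_ hd h)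
    rw [plg_sego_opp]
    exact hx

/-- the leg without its foot lies in the open triangle -/
theorem pvfb_leg_trio (G : PlGeo T pos) {d : D} {x : ℂ} (hx : x ∈ pvfbLeg T pos d) : x = pvfbMid T pos d ∨ x ∈ T.trio pos d := by
  obtain ⟨s, t, hs, ht, hst, rfl⟩ := hx
  rcases ht.eq_or_lt with h0 | h0
  · left
    have hs1 : s = 1 := by linarith
    rw [← h0, hs1]
    simp
  · right
    have hm : pvfbMid T pos d ∈ T.tri pos d := dela_mid_mem (G.orient d)
    have hb : T.bary pos d ∈ T.trio pos d := pvfb_bary_trio G d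
    obtain ⟨m1, m2, m3⟩ := hm
    obtain ⟨b1, b2, b3⟩ := hb
    refine ⟨?_, ?_, ?_⟩
    · rw [dela_det_affine _ _ _ _ s t hst]
      have := mul_nonneg hs m1
      have := mul_pos h0 b1
      linarith
    · rw [dela_det_affine _ _ _ _ s t hst]
      have := mul_nonneg hs m2
      have := mul_pos h0 b2
      linarith
    · rw [dela_det_affine _ _ _ _ s t hst]
      have := mul_nonneg hs m3
      have := mul_pos h0 b3
      linarith

theorem pvfb_leg_sub_tri (G : PlGeo T pos) (d : D) : pvfbLeg T pos d ⊆ T.tri pos d :=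
  (plg_tri_convex T pos d).segment_subset (dela_mid_mem (G.orient d)) (plg_trio_sub_tri T pos d (pvfb_bary_trio G d))

/-- **(EMB1)** -/
theorem pvfb_leg_seg (G : PlGeo T pos) {d d' : D} {x : ℂ} (hx : x ∈ pvfbLeg T pos d) (hd : x ∈ T.seg pos d') : (d' = d ∨ d' = T.opp d) ∧ x = pvfbMid T pos d := by
  rcases pvfb_leg_trio G hx with h | h
  · refine ⟨?_, h⟩
    rw [h] at hd
    exact pvfb_sego_seg G (pvfb_mid_sego G d) hd
  · exact absurd hd (pvfb_trio_seg G h)

/-- face form of (EMB1): a leg meets only the closed triangles of the two faces of its edge -/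
theorem pvfb_leg_tri (G : PlGeo T pos) {d d' : D} {x : ℂ} (hx : x ∈ pvfbLeg T pos d) (hd : x ∈ T.tri pos d') : T.SF d d' ∨ T.SF (T.opp d) d' := by
  rcases pvfb_leg_trio G hx with h | h
  · rw [h] at hd
    exact G.inc_edge d d' _ (pvfb_mid_sego G d) hd
  · exact Or.inl (G.inc_int d d' x h hd)

/-- **(EMB3)** the half edge from the midpoint of `e` to its target -/
theorem pvfb_half_seg (G : PlGeo T pos) {e d : D} {x : ℂ} (hx : x ∈ segment ℝ (pvfbMid T pos e) (pos (T.tgt e))) (hd : x ∈ T.seg pos d) :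
    (d = e ∨ d = T.opp e) ∨ T.src d = T.tgt e ∨ T.tgt d = T.tgt e := by
  obtain ⟨s, t, hs, ht, hst, rfl⟩ := hx
  rcases hs.eq_or_lt with h0 | h0
  · right
    have ht1 : t = 1 := by linarith
    rw [← h0, ht1] at hd
    simp only [zero_smul, one_smul, zero_add] at hd
    rcases plg_vert_seg G hd with h | h
    · exact Or.inl h.symm
    · exact Or.inr h.symm
  · left
    refine pvfb_sego_seg G ?_ hd
    refine ⟨s / 2, s / 2 + t, by positivity, by positivity, by linarith, ?_⟩
    unfold pvfbMid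
    simp only [Complex.real_smul]
    push_cast
    ring

/-- (EMB3), source form -/
theorem pvfb_half_seg' (G : PlGeo T pos) {e d : D} {x : ℂ} (hx : x ∈ segment ℝ (pvfbMid T pos e) (pos (T.src e))) (hd : x ∈ T.seg pos d) :
    (d = e ∨ d = T.opp e) ∨ T.src d = T.src e ∨ T.tgt d = T.src e := by
  have h := pvfb_half_seg G (e := T.opp e) (d := d) (x := x) (by rw [pvfb_mid_opp, T.tgt_opp]; exact hx) hd
  rw [T.opp_opp, T.tgt_opp] at h
  rcases h with (h | h) | h
  · exact Or.inl (Or.inr h)
  · exact Or.inl (Or.inl h)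
  · exact Or.inr h

/-! ## 2. THE WALL POLYGON -/

section wall

variable {s : V → Bool} {a : D} {i j : ℕ}

theorem pvfb_leg_compact (T : PvMap V D) (pos : V → ℂ) (d : D) : IsCompact (pvfbLeg T pos d) := plg_segment_compact _ _

theorem pvfb_leg_conn (T : PvMap V D) (pos : V → ℂ) (d : D) : IsPreconnected (pvfbLeg T pos d) := (convex_segment _ _).isPreconnected

theorem pvfb_hop_compact (T : PvMap V D) (pos : V → ℂ) (s : V → Bool) (d : D) : IsCompact (pvfbHop T pos s d) :=
  (pvfb_leg_compact T pos d).union (pvfb_leg_compact T pos _)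

theorem pvfb_hop_conn (T : PvMap V D) (pos : V → ℂ) (s : V → Bool) (d : D) : IsPreconnected (pvfbHop T pos s d) := by
  refine IsPreconnected.union (T.bary pos d) (right_mem_segment ℝ _ _) ?_ (pvfb_leg_conn T pos d) (pvfb_leg_conn T pos _)
  have h : T.bary pos (T.opp (pvasStep T s d)) = T.bary pos d := pvfb_bary_sf (pvas_step_sf s d)
  rw [← h]
  exact right_mem_segment ℝ _ _

theorem pvfb_hop_mid0 (T : PvMap V D) (pos : V → ℂ) (s : V → Bool) (d : D) : pvfbMid T pos d ∈ pvfbHop T pos s d := Or.inl (left_mem_segment ℝ _ _)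

theorem pvfb_hop_mid1 (T : PvMap V D) (pos : V → ℂ) (s : V → Bool) (d : D) : pvfbMid T pos (pvasStep T s d) ∈ pvfbHop T pos s d := by
  refine Or.inr ?_
  rw [← pvfb_mid_opp]
  exact left_mem_segment ℝ _ _

theorem pvfb_hop_sub_tri (G : PlGeo T pos) (s : V → Bool) (d : D) : pvfbHop T pos s d ⊆ T.tri pos d := by
  rintro x (h | h)
  · exact pvfb_leg_sub_tri G d h
  · have := pvfb_leg_sub_tri G _ h
    rwa [plg_tri_sf (pvas_step_sf s d)] at this

theorem pvfb_wall_compact (T : PvMap V D) (pos : V → ℂ) (s : V → Bool) (a : D) (i j : ℕ) : IsCompact (pvfbWall T pos s a i j) := by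
  have : pvfbWall T pos s a i j = ⋃ l ∈ Finset.Ico i j, pvfbHop T pos s (pvasIt T s a l) := by
    ext x
    simp only [pvfbWall, Set.mem_setOf_eq, Set.mem_iUnion, Finset.mem_Ico, exists_prop, and_assoc]
  rw [this]
  exact (Finset.Ico i j).isCompact_biUnion fun l _ => (plg_segment_compact _ _).union (plg_segment_compact _ _)

theorem pvfb_wall_conn (T : PvMap V D) (pos : V → ℂ) (s : V → Bool) (a : D) (i j : ℕ) : IsPreconnected (pvfbWall T pos s a i j) := by
  induction j with
  | zero =>
    have : pvfbWall T pos s a i 0 = ∅ := by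
      ext x
      simp only [pvfbWall, mem_ofPred_eq, mem_empty_iff_false, iff_false]
      rintro ⟨l, _, h, _⟩
      omega
    rw [this]
    exact isPreconnected_empty
  | succ j ih =>
    rcases Nat.lt_or_ge j i with h | h
    · have : pvfbWall T pos s a i (j + 1) = ∅ := by
        ext x
        simp only [pvfbWall, mem_ofPred_eq, mem_empty_iff_false, iff_false]
        rintro ⟨l, _, _, _⟩
        omega
      rw [this]
      exact isPreconnected_empty
    · have e : pvfbWall T pos s a i (j + 1) = pvfbWall T pos s a i j ∪ pvfbHop T pos s (pvasIt T s a j) := by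
        ext x
        constructor
        · rintro ⟨l, h1, h2, hx⟩
          rcases Nat.eq_or_lt_of_le (Nat.le_of_lt_succ h2) with rfl | h3
          · exact Or.inr hx
          · exact Or.inl ⟨l, h1, h3, hx⟩
        · rintro (⟨l, h1, h2, hx⟩ | hx)
          · exact ⟨l, h1, by omega, hx⟩
          · exact ⟨j, h, by omega, hx⟩
      rw [e]
      rcases Nat.eq_or_lt_of_le h with rfl | h3
      · have : pvfbWall T pos s a i i = ∅ := by
          ext x
          simp only [pvfbWall, mem_ofPred_eq, mem_empty_iff_false, iff_false]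
          rintro ⟨l, _, _, _⟩
          omega
        rw [this, empty_union]
        exact pvfb_hop_conn T pos s _
      · exact IsPreconnected.union (pvfbMid T pos (pvasIt T s a j)) (⟨j - 1, by omega, by omega, by
          have e' : pvasIt T s a j = pvasStep T s (pvasIt T s a (j - 1)) := by
            rw [← pvas_it_succ]; congr 1; omega
          rw [e']; exact pvfb_hop_mid1 T pos s _⟩) (pvfb_hop_mid0 T pos s _) ih
          (pvfb_hop_conn T pos s _)

theorem pvfb_wall_mid (T : PvMap V D) (pos : V → ℂ) (s : V → Bool) (a : D) {l : ℕ} (hij : i < j) (h1 : i ≤ l) (h2 : l ≤ j) : pvfbMid T pos (pvasIt T s a l) ∈ pvfbWall T pos s a i j := by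
  rcases Nat.eq_or_lt_of_le h2 with rfl | h3
  · obtain ⟨m, rfl⟩ : ∃ m, l = m + 1 := ⟨l - 1, by omega⟩
    refine ⟨m, by omega, by omega, ?_⟩
    rw [pvas_it_succ]
    exact pvfb_hop_mid1 T pos s _
  · exact ⟨l, h1, h3, pvfb_hop_mid0 T pos s _⟩

theorem pvfb_wall_mono_idx (T : PvMap V D) (pos : V → ℂ) (s : V → Bool) (a : D) {i' j' : ℕ} (h1 : i' ≤ i) (h2 : j ≤ j') : pvfbWall T pos s a i j ⊆ pvfbWall T pos s a i' j' := by
  rintro x ⟨l, a1, a2, hx⟩
  exact ⟨l, by omega, by omega, hx⟩

/-- the wall polygon stays in the faces of its positions -/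
theorem pvfb_wall_sub (G : PlGeo T pos) {x : ℂ} (hx : x ∈ pvfbWall T pos s a i j) : ∃ l, i ≤ l ∧ l < j ∧ x ∈ T.tri pos (pvasIt T s a l) := by
  obtain ⟨l, h1, h2, h⟩ := hx
  exact ⟨l, h1, h2, pvfb_hop_sub_tri G s _ h⟩

/-- metric bookkeeping: a point of the wall polygon is `μ`-close to the midpoint of a position (TIME of the passage) -/
theorem pvfb_wall_near (G : PlGeo T pos) {μ : ℝ} (hμ : ∀ l, i ≤ l → l < j → ∀ p ∈ T.tri pos (pvasIt T s a l), ∀ q ∈ T.tri pos (pvasIt T s a l), ‖p - q‖ ≤ μ)
    {x : ℂ} (hx : x ∈ pvfbWall T pos s a i j) : ∃ l, i ≤ l ∧ l < j ∧ ‖x - pvfbMid T pos (pvasIt T s a l)‖ ≤ μ := by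
  obtain ⟨l, h1, h2, h⟩ := hx
  exact ⟨l, h1, h2, hμ l h1 h2 _ (pvfb_hop_sub_tri G s _ h) _ (pvfb_hop_sub_tri G s _ (pvfb_hop_mid0 T pos s _))⟩

/-- **(EMB2)** the wall polygon meets only the edges of its own positions -/
theorem pvfb_wall_seg (G : PlGeo T pos) {d : D} {x : ℂ} (hx : x ∈ pvfbWall T pos s a i j) (hd : x ∈ T.seg pos d) :
    ∃ l, i ≤ l ∧ l ≤ j ∧ (d = pvasIt T s a l ∨ d = T.opp (pvasIt T s a l)) ∧ x = pvfbMid T pos (pvasIt T s a l) := by
  obtain ⟨l, h1, h2, h | h⟩ := hx
  · obtain ⟨g1, g2⟩ := pvfb_leg_seg G h hd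
    exact ⟨l, h1, h2.le, g1, g2⟩
  · obtain ⟨g1, g2⟩ := pvfb_leg_seg G h hd
    rw [← pvas_it_succ, T.opp_opp, pvfb_mid_opp] at *
    exact ⟨l + 1, by omega, h2, g1.symm, g2⟩

/-- monochromatic edges are never crossed -/
theorem pvfb_wall_mono (G : PlGeo T pos) (ha : pvasBW T s a) {d : D} (hd : s (T.src d) = s (T.tgt d)) : Disjoint (pvfbWall T pos s a i j) (T.seg pos d) := by
  rw [Set.disjoint_left]
  intro x hx hxd
  obtain ⟨l, _, _, g, _⟩ := pvfb_wall_seg G hx hxd
  obtain ⟨b1, b2⟩ := pvas_it_bw ha l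
  rcases g with rfl | rfl
  · rw [b1, b2] at hd
    exact Bool.noConfusion hd
  · rw [T.src_opp', T.tgt_opp, b1, b2] at hd
    exact Bool.noConfusion hd

/-- face form: the wall polygon meets only the closed faces of the positions `a_i, …, a_{j-1}`, and (at its two end points) the faces behind `a_i` and in front of `a_j` -/
theorem pvfb_wall_tri (G : PlGeo T pos) {d : D} {x : ℂ} (hx : x ∈ pvfbWall T pos s a i j) (hd : x ∈ T.tri pos d) :
    (∃ l, i ≤ l ∧ l ≤ j ∧ T.SF (pvasIt T s a l) d) ∨ T.SF (T.opp (pvasIt T s a i)) d := by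
  obtain ⟨l, h1, h2, h | h⟩ := hx
  · rcases pvfb_leg_tri G h hd with g | g
    · exact Or.inl ⟨l, h1, h2.le, g⟩
    · rcases Nat.eq_or_lt_of_le h1 with rfl | h3
      · exact Or.inr g
      · obtain ⟨m, rfl⟩ : ∃ m, l = m + 1 := ⟨l - 1, by omega⟩
        refine Or.inl ⟨m, by omega, by omega, T.sf_trans ?_ g⟩
        rw [pvas_it_succ]
        exact pvas_step_sf s _
  · rcases pvfb_leg_tri G h hd with g | g
    · exact Or.inl ⟨l, h1, h2.le, T.sf_trans (pvas_step_sf s _) g⟩
    · rw [T.opp_opp, ← pvas_it_succ] at g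
      exact Or.inl ⟨l + 1, by omega, h2, g⟩

theorem pvfb_zig_compact (T : PvMap V D) (pos : V → ℂ) (s : V → Bool) (a : D) (i j : ℕ) : IsCompact (pvfbZig T pos s a i j) := by
  have : pvfbZig T pos s a i j = ⋃ l ∈ Finset.Icc i j, T.seg pos (pvasIt T s a l) := by
    ext x
    simp only [pvfbZig, Set.mem_setOf_eq, Set.mem_iUnion, Finset.mem_Icc, exists_prop, and_assoc]
  rw [this]
  exact (Finset.Icc i j).isCompact_biUnion fun l _ => plg_segment_compact _ _

/-- consecutive positions share an end: the zigzag is connected -/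
theorem pvfb_zig_conn (T : PvMap V D) (pos : V → ℂ) (s : V → Bool) (a : D) (i j : ℕ) : IsPreconnected (pvfbZig T pos s a i j) := by
  rcases Nat.lt_or_ge j i with hji | hij
  · have : pvfbZig T pos s a i j = ∅ := by
      ext x
      simp only [pvfbZig, Set.mem_setOf_eq, Set.mem_empty_iff_false, iff_false, not_exists]
      intro l h
      omega
    rw [this]
    exact isPreconnected_empty
  · obtain ⟨k, rfl⟩ : ∃ k, j = i + k := ⟨j - i, by omega⟩
    clear hij
    induction k with
    | zero =>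
      have : pvfbZig T pos s a i (i + 0) = T.seg pos (pvasIt T s a i) := by
        ext x
        constructor
        · rintro ⟨l, h1, h2, h3⟩
          have : l = i := by omega
          rwa [this] at h3
        · intro h
          exact ⟨i, le_rfl, by omega, h⟩
      rw [this]
      exact (convex_segment _ _).isPreconnected
    | succ k ih =>
      have : pvfbZig T pos s a i (i + (k + 1)) = pvfbZig T pos s a i (i + k) ∪ T.seg pos (pvasIt T s a (i + k + 1)) := by
        ext x
        constructor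
        · rintro ⟨l, h1, h2, h3⟩
          rcases Nat.lt_or_ge l (i + k + 1) with h | h
          · exact Or.inl ⟨l, h1, by omega, h3⟩
          · have : l = i + k + 1 := by omega
            rw [this] at h3
            exact Or.inr h3
        · rintro (⟨l, h1, h2, h3⟩ | h)
          · exact ⟨l, h1, by omega, h3⟩
          · exact ⟨i + k + 1, by omega, by omega, h⟩
      rw [this]
      rcases pvas_step_ends s (pvasIt T s a (i + k)) with ⟨-, -, e⟩ | ⟨-, e, -⟩
      · refine IsPreconnected.union (pos (T.tgt (pvasIt T s a (i + k)))) ⟨i + k, by omega, le_rfl, plg_tgt_mem_seg T pos _⟩ ?_ ih (convex_segment _ _).isPreconnected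
        rw [← e, ← pvas_it_succ]
        exact plg_tgt_mem_seg T pos _
      · refine IsPreconnected.union (pos (T.src (pvasIt T s a (i + k)))) ⟨i + k, by omega, le_rfl, plg_src_mem_seg T pos _⟩ ?_ ih (convex_segment _ _).isPreconnected
        rw [← e, ← pvas_it_succ]
        exact plg_src_mem_seg T pos _

/-- wall polygon and zigzag of two stretches of one strand without common position are disjoint -/
theorem pvfb_wall_zig (G : PlGeo T pos) (ha : pvasBW T s a) {i' j' : ℕ} (hne : ∀ l l', i ≤ l → l ≤ j → i' ≤ l' → l' ≤ j' → pvasIt T s a l ≠ pvasIt T s a l') :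
    Disjoint (pvfbWall T pos s a i j) (pvfbZig T pos s a i' j') := by
  rw [Set.disjoint_left]
  rintro x hx ⟨l', h1', h2', hx'⟩
  obtain ⟨l, h1, h2, g, _⟩ := pvfb_wall_seg G hx hx'
  rcases g with g | g
  · exact hne l l' h1 h2 h1' h2' g.symm
  · have b := pvas_it_bw ha l'
    rw [g] at b
    exact pvas_bw_not_opp (pvas_it_bw ha l) b

end wall

end Claimed.Agent.R289
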