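import Claimed.Agent.R289.Tr.CorrPl

/-!
# Row 289 (S0537, Cardy for Poisson-Voronoi), unit TR, FIT-DET, amendment (MB), file Tr/FitFat : THE PINCH IN THE PLANE WITH FAT BLOBS      (author + prover helper118; prefix `pvblb_`, `Pvblb`, `pvblb`)

WHY.   The corridor `c`, after its standard first link, must not come back into the MOUTH BALLS `B(y^±, ρ h)` (the landing and sealing arcs live there).   So the fronts must be accessible off the fattening of `K ∪ D_t ∪ D_s`, `D` = the mouth balls.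
The witness (the actual continuation of the wall) STARTS INSIDE the ball and may return to it: it cannot avoid `K ∪ D`.   But in the cell lemma `pvtc_pinch_wit` of 292 the BLOBS ARE ARBITRARY and the witness has to avoid the thin `K` only.

* `D : ι → Set ℂ`  the fat sets (connected, bounded);   only those which meet `K` are obstacles
* `pvblbB K D η x`  the PLANE BLOB of a point `x ∈ K`: `x` itself and every `D i` such that `K ∩ D i` comes within `η` of `x`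
* `PvblbFree K D U r`   `U` free channel: bounded, connected, off `K`, at sup distance `≥ r` from `K` and from every `D i` which meets `K`
* `PvblbPinch K W D Far p0 r η`   jaws `x, y ∈ K`, their blobs within `2 r + η`, the witness within `r + η` of a blob, ENCLOSURE IN U-FORM: for every connected `K' ⊆ K` through `x`, `y`, every bounded connected `U` from `p0` to a far point
      comes within `η` of `K'` or within `r + η` of one of the two blobs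
* **`pvblb_pp`** (PP-B): free channels to all the far points, or a pinch;   `pvblb_pp_compact`
* `pvblb_rect` : the U-form implies the rectangle clause of `PvtcPP` (292)
* **`pvblb_fit`** : FAT PINCHES DO NOT EXIST as soon as every fat set has an ESCAPE (`PvblbEsc`: the part `K'` of `K` near `D i` is connected, and `p0` is joined to a far point off the fattening of `K' ∪ D i`) and the fat sets are apart:
      free channels off `K ∪ ⋃ D i`, or an ORDINARY pinch `PvtcPP K W ∅ p0 r η` (⟹ three excursions, `Tr/FitRef` of 151)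
-/

set_option autoImplicit false
set_option linter.unusedSectionVars false
set_option linter.unusedVariables false
set_option linter.unusedSimpArgs false

namespace Claimed.Agent.R289

open Relation Claims.C0467 Claimed.Agent.R291

variable {ι : Type}

/-- the plane blob of the point `x` -/
def pvblbB (K : Set ℂ) (D : ι → Set ℂ) (η : ℝ) (x : ℂ) : Set ℂ := {x} ∪ {a | ∃ i, a ∈ D i ∧ ∃ q ∈ K ∩ D i, pvtcSup (q - x) ≤ η}

/-- free channel off `K` and the fat sets -/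
def PvblbFree (K : Set ℂ) (D : ι → Set ℂ) (U : Set ℂ) (r : ℝ) : Prop :=
  IsPreconnected U ∧ Bornology.IsBounded U ∧ Disjoint U K ∧ (∀ u ∈ U, ∀ q ∈ K, r ≤ pvtcSup (u - q)) ∧ ∀ i, (K ∩ D i).Nonempty → ∀ u ∈ U, ∀ q ∈ D i, r ≤ pvtcSup (u - q)

/-- the pinch with fat blobs, enclosure in U-form -/
def PvblbPinch (K W : Set ℂ) (D : ι → Set ℂ) (Far : Set ℂ) (p0 : ℂ) (r η : ℝ) : Prop :=
  ∃ x ∈ K, ∃ y ∈ K, (∃ a ∈ pvblbB K D η x, ∃ b ∈ pvblbB K D η y, pvtcSup (a - b) ≤ 2 * r + η) ∧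
    (∃ w ∈ W, ∃ a ∈ pvblbB K D η x ∪ pvblbB K D η y, pvtcSup (w - a) ≤ r + η) ∧
    ∀ K' ⊆ K, IsPreconnected K' → x ∈ K' → y ∈ K' → ∀ U : Set ℂ, IsPreconnected U → Bornology.IsBounded U → p0 ∈ U → (U ∩ Far).Nonempty →
      ∃ u ∈ U, (∃ q ∈ K', pvtcSup (u - q) ≤ η) ∨ ∃ a ∈ pvblbB K D η x ∪ pvblbB K D η y, pvtcSup (u - a) ≤ r + η

theorem pvblb_eqns_cite : True := by
  have := @pvblbB.eq_1
  have := @PvblbFree.eq_1
  have := @PvblbPinch.eq_1
  trivial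

theorem pvblb_rect_bdd (a b c d : ℝ) : Bornology.IsBounded (pvtcRect a b c d) := by
  refine (Metric.isBounded_closedBall (x := (0 : ℂ)) (r := 2 * (|a| + |b| + |c| + |d|))).subset ?_
  intro q hq
  obtain ⟨h1, h2, h3, h4⟩ := hq
  rw [Metric.mem_closedBall, dist_zero_right]
  refine (Complex.norm_le_abs_re_add_abs_im q).trans ?_
  have e1 : |q.re| ≤ |a| + |b| := by
    rw [abs_le]
    exact ⟨by have := neg_abs_le a; have := abs_nonneg b; linarith, by have := le_abs_self b; have := abs_nonneg a; linarith⟩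
  have e2 : |q.im| ≤ |c| + |d| := by
    rw [abs_le]
    exact ⟨by have := neg_abs_le c; have := abs_nonneg d; linarith, by have := le_abs_self d; have := abs_nonneg c; linarith⟩
  have := abs_nonneg a; have := abs_nonneg b; have := abs_nonneg c; have := abs_nonneg d
  linarith

/-- two points of one square -/
theorem pvblb_sq_sup {δ : ℝ} (hδ : 0 < δ) {e : ℤ × ℤ} {p q : ℂ} (hp : p ∈ pvtSq δ e) (hq : q ∈ pvtSq δ e) : pvtcSup (p - q) ≤ δ := by
  have := pvtc_pl_sq_close_sup hδ (j := 0) (z := e) (w := e) (pvtw_N_sub rfl) hp hq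
  simpa using this

theorem pvblb_N_mem {k : ℕ} {S : Set (ℤ × ℤ)} {e : ℤ × ℤ} (h : e ∈ pvtwN k S) : ∃ s ∈ S, e ∈ pvtwN k {s} := by
  obtain ⟨z, hz, h'⟩ := h
  exact ⟨z, hz, z, rfl, h'⟩

theorem pvblb_N_of {k : ℕ} {S : Set (ℤ × ℤ)} {e s : ℤ × ℤ} (hs : s ∈ S) (h : e ∈ pvtwN k {s}) : e ∈ pvtwN k S :=
  pvtw_N_mono le_rfl (Set.singleton_subset_iff.2 hs) h

/-- **(PP-B) THE PINCH IN THE PLANE WITH FAT BLOBS** -/
theorem pvblb_pp {K W : Set ℂ} {D : ι → Set ℂ} {p0 p1 : ℂ} {a0 b0 c0 d0 r η η0 : ℝ} (hr : 0 < r) (hη : 0 < η) (hη0 : 0 < η0)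
    (hKc : IsPreconnected K) (hKb : K ⊆ pvtcRect a0 b0 c0 d0) (hDc : ∀ i, IsPreconnected (D i)) (hDb : ∀ i, D i ⊆ pvtcRect a0 b0 c0 d0)
    (hWc : IsPreconnected W) (hWb : Bornology.IsBounded W) (hWK : ∀ p ∈ W, ∀ q ∈ K, η0 ≤ ‖p - q‖) (hp0 : p0 ∈ W) (hp1 : p1 ∈ W)
    (hfar : p1 ∉ pvtcRect (a0 - (r + η)) (b0 + (r + η)) (c0 - (r + η)) (d0 + (r + η))) :
    (∀ p2 : ℂ, p2 ∉ pvtcRect (a0 - (r + η)) (b0 + (r + η)) (c0 - (r + η)) (d0 + (r + η)) → ∃ U : Set ℂ, PvblbFree K D U r ∧ p0 ∈ U ∧ p2 ∈ U) ∨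
      PvblbPinch K W D (pvtcRect (a0 - (r + η)) (b0 + (r + η)) (c0 - (r + η)) (d0 + (r + η)))ᶜ p0 r η := by
  classical
  obtain ⟨δ, hδ, hδη0, hδη⟩ : ∃ δ : ℝ, 0 < δ ∧ 3 * δ ≤ η0 ∧ 4 * δ ≤ η := by
    refine ⟨min (η0 / 3) (η / 4), lt_min (by positivity) (by positivity), ?_, ?_⟩
    · have := min_le_left (η0 / 3) (η / 4); linarith
    · have := min_le_right (η0 / 3) (η / 4); linarith
  obtain ⟨k, hk1, hk2⟩ := pvtc_pl_ceil hδ hr.le
  have hRb := pvblb_rect_bdd a0 b0 c0 d0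
  have hKbd : Bornology.IsBounded K := hRb.subset hKb
  have hDbd : ∀ i, Bornology.IsBounded (D i) := fun i => hRb.subset (hDb i)
  set Kc := pvtCells δ K with hKcdef
  set Wc := pvtCells δ W with hWcdef
  have hKcf : Kc.Finite := pvt_cells_finite hδ hKbd
  have hKcc : TscConn tscG Kc := pvt_cells_conn hδ hKc hKbd
  have hWcc : TscConn tscG Wc := pvt_cells_conn hδ hWc hWb
  have hdisj : Disjoint Wc Kc := by
    rw [Set.disjoint_left]
    rintro e ⟨p, hpe, hpW⟩ ⟨q, hqe, hqK⟩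
    have h1 := pvt_sq_diam hpe hqe
    have h2 := hWK p hpW q hqK
    linarith
  set S : ℤ × ℤ → Set (ℤ × ℤ) := fun c => {c} ∪ {e | ∃ i, (pvtSq δ c ∩ (K ∩ D i)).Nonempty ∧ e ∈ pvtCells δ (D i)} with hS
  set Bl : ℤ × ℤ → Set (ℤ × ℤ) := fun c => pvtwN k (S c) with hBl
  have hSfin : ∀ c, (S c).Finite := by
    intro c
    refine ((Set.finite_singleton c).union (pvt_cells_finite hδ hRb)).subset ?_
    rintro e (he | ⟨i, -, he⟩)
    · exact Or.inl he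
    · exact Or.inr (pvt_cells_mono (hDb i) he)
  have hSconn : ∀ c, TscConn tscG (S c) := by
    intro c
    have hc0 : ∀ u ∈ S c, TscR tscG (S c) c u := by
      rintro u (hu | ⟨i, hne, hu⟩)
      · rw [Set.mem_singleton_iff] at hu
        rw [hu]
        exact tsc_R_refl _
      · have hcD : c ∈ pvtCells δ (D i) := by
          obtain ⟨q, hq1, hq2⟩ := hne
          exact ⟨q, hq1, hq2.2⟩
        exact tsc_R_mono (fun e he => Or.inr ⟨i, hne, he⟩) (pvt_cells_conn hδ (hDc i) (hDbd i) c hcD u hu)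
    intro u hu v hv
    exact tsc_R_trans (tsc_R_symm (hc0 u hu)) (hc0 v hv)
  have hBlfin : ∀ x ∈ Kc, (Bl x).Finite := fun x _ => pvtw_N_finite (hSfin x)
  have hBlconn : ∀ x ∈ Kc, TscConn tscG (Bl x) := fun x _ => pvtw_N_conn (hSconn x)
  have hBlc : ∀ x ∈ Kc, x ∈ Bl x := fun x _ => pvtw_N_sub (Or.inl rfl)
  set Un : Set (ℤ × ℤ) := ⋃ x ∈ Kc, Bl x with hUn
  have hUnf : Un.Finite := hKcf.biUnion hBlfin
  have hSrect : ∀ c ∈ Kc, ∀ s ∈ S c, ∃ q ∈ pvtcRect a0 b0 c0 d0, q ∈ pvtSq δ s := by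
    rintro c ⟨q, hq1, hq2⟩ s (hs | ⟨i, -, ⟨a, ha1, ha2⟩⟩)
    · rw [Set.mem_singleton_iff] at hs
      rw [hs]
      exact ⟨q, hKb hq2, hq1⟩
    · exact ⟨a, hDb i ha2, ha1⟩
  have hfarout : ∀ p2 : ℂ, p2 ∉ pvtcRect (a0 - (r + η)) (b0 + (r + η)) (c0 - (r + η)) (d0 + (r + η)) → ∀ e, p2 ∈ pvtSq δ e → e ∈ pvtOut Un := by
    intro p2 hp2 e he
    by_contra hc
    apply hp2
    have hX : ∀ e ∈ Un, (e.1 : ℝ) * δ ≤ (b0 + (r + δ)) ∧ (a0 - (r + δ)) ≤ ((e.1 : ℝ) + 1) * δ ∧ (e.2 : ℝ) * δ ≤ (d0 + (r + δ)) ∧ (c0 - (r + δ)) ≤ ((e.2 : ℝ) + 1) * δ := by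
      intro e he
      obtain ⟨x, hx, hex⟩ := Set.mem_iUnion₂.1 he
      obtain ⟨s, hs, hes⟩ := pvblb_N_mem hex
      obtain ⟨q, hqR, hqs⟩ := hSrect x hx s hs
      obtain ⟨g1, g2, g3, g4⟩ := pvtc_pl_blob_coord hδ hes hqs
      obtain ⟨k1, k2, k3, k4⟩ := hqR
      exact ⟨by linarith, by linarith, by linarith, by linarith⟩
    obtain ⟨g1, g2, g3, g4⟩ := pvtc_pl_box hδ hX hc he
    exact ⟨by linarith, by linarith, by linarith, by linarith⟩
  obtain ⟨z, hz⟩ := pvt_sq_cover hδ p0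
  obtain ⟨w, hw⟩ := pvt_sq_cover hδ p1
  have hzW : z ∈ Wc := ⟨p0, hz, hp0⟩
  have hwW : w ∈ Wc := ⟨p1, hw, hp1⟩
  have hwo : w ∈ pvtOut Un := hfarout p1 hfar w hw
  by_cases hzo : z ∈ pvtOut Un
  · left
    intro p2 hp2
    obtain ⟨e2, he2⟩ := pvt_sq_cover hδ p2
    obtain ⟨E, hEs, hEf, hEc, hzE, heE⟩ := pvtc_pl_fin_path hzo (pvt_out_conn hUnf z hzo e2 (hfarout p2 hp2 e2 he2))
    refine ⟨pvtU δ E, ⟨pvt_U_conn hδ (pvt_conn_tri8 hEc), (pvt_U_compact hEf).isBounded, ?_, ?_, ?_⟩, Set.mem_iUnion₂.2 ⟨z, hzE, hz⟩, Set.mem_iUnion₂.2 ⟨e2, heE, he2⟩⟩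
    · rw [Set.disjoint_left]
      intro u hu huK
      obtain ⟨e, heE', hue⟩ := Set.mem_iUnion₂.1 hu
      have heK : e ∈ Kc := ⟨u, hue, huK⟩
      exact pvt_out_sub (hEs heE') (Set.mem_iUnion₂.2 ⟨e, heK, hBlc e heK⟩)
    · intro u hu q hq
      obtain ⟨e, heE', hue⟩ := Set.mem_iUnion₂.1 hu
      obtain ⟨x, hqx⟩ := pvt_sq_cover hδ q
      have hxK : x ∈ Kc := ⟨q, hqx, hq⟩
      have hne : e ∉ pvtwN k {x} := fun h => pvt_out_sub (hEs heE') (Set.mem_iUnion₂.2 ⟨x, hxK, pvblb_N_of (Or.inl rfl) h⟩)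
      have := pvtc_pl_sq_far_sup hδ hne hqx hue
      rw [pvtc_pl_sup_comm] at this
      linarith
    · rintro i ⟨q0, hq0K, hq0D⟩ u hu q hq
      obtain ⟨e, heE', hue⟩ := Set.mem_iUnion₂.1 hu
      obtain ⟨x0, hq0x⟩ := pvt_sq_cover hδ q0
      obtain ⟨x, hqx⟩ := pvt_sq_cover hδ q
      have hxK : x0 ∈ Kc := ⟨q0, hq0x, hq0K⟩
      have hxS : x ∈ S x0 := Or.inr ⟨i, ⟨q0, hq0x, hq0K, hq0D⟩, ⟨q, hqx, hq⟩⟩
      have hne : e ∉ pvtwN k {x} := fun h => pvt_out_sub (hEs heE') (Set.mem_iUnion₂.2 ⟨x0, hxK, pvblb_N_of hxS h⟩)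
      have := pvtc_pl_sq_far_sup hδ hne hqx hue
      rw [pvtc_pl_sup_comm] at this
      linarith
  · right
    obtain ⟨x, hx, y, hy, ht, ⟨w0, hw0W, hw0B⟩, hall⟩ := pvtc_pinch_wit Kc Wc Bl z w hKcf hKcc hBlfin hBlconn hBlc hWcc hdisj hzW hwW hwo hzo
    obtain ⟨x', hx'x, hx'K⟩ := hx
    obtain ⟨y', hy'y, hy'K⟩ := hy
    have hBpt : ∀ (c : ℤ × ℤ) (c' : ℂ), c' ∈ pvtSq δ c → ∀ s ∈ S c, ∃ a ∈ pvblbB K D η c', a ∈ pvtSq δ s := by
      rintro c c' hc' s (hs | ⟨i, ⟨q, hq1, hq2⟩, ⟨a, ha1, ha2⟩⟩)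
      · rw [Set.mem_singleton_iff] at hs
        rw [hs]
        exact ⟨c', Or.inl rfl, hc'⟩
      · refine ⟨a, Or.inr ⟨i, ha2, q, hq2, ?_⟩, ha1⟩
        have := pvblb_sq_sup hδ hq1 hc'
        linarith
    have hnear : ∀ (c : ℤ × ℤ) (c' : ℂ), c' ∈ pvtSq δ c → ∀ e ∈ Bl c, ∀ u ∈ pvtSq δ e, ∃ a ∈ pvblbB K D η c', pvtcSup (u - a) ≤ r + η := by
      intro c c' hc' e he u hu
      obtain ⟨s, hs, hes⟩ := pvblb_N_mem he
      obtain ⟨a, haB, has⟩ := hBpt c c' hc' s hs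
      refine ⟨a, haB, ?_⟩
      have := pvtc_pl_sq_close_sup hδ hes has hu
      rw [pvtc_pl_sup_comm] at this
      nlinarith
    obtain ⟨w', hw'0, hw'W⟩ := hw0W
    refine ⟨x', hx'K, y', hy'K, ?_, ?_, ?_⟩
    · obtain ⟨u, hu, v, hv, huv⟩ := ht
      obtain ⟨s, hs, hus⟩ := pvblb_N_mem hu
      obtain ⟨t, ht', hvt⟩ := pvblb_N_mem hv
      obtain ⟨a, haB, has⟩ := hBpt x x' hx'x s hs
      obtain ⟨b, hbB, hbt⟩ := hBpt y y' hy'y t ht'
      have hts : t ∈ pvtwN (k + k + 1) {s} := pvtc_touch_N ⟨u, hus, v, hvt, huv⟩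
      refine ⟨a, haB, b, hbB, ?_⟩
      have := pvtc_pl_sq_close_sup hδ hts has hbt
      push_cast at this
      nlinarith
    · rcases hw0B with h | h
      · obtain ⟨a, ha, h1⟩ := hnear x x' hx'x w0 h w' hw'0
        exact ⟨w', hw'W, a, Or.inl ha, h1⟩
      · obtain ⟨a, ha, h1⟩ := hnear y y' hy'y w0 h w' hw'0
        exact ⟨w', hw'W, a, Or.inr ha, h1⟩
    · intro K' hK'K hK'c hxK' hyK' U hUc hUb hp0U hUfar
      have hK'b : Bornology.IsBounded K' := hKbd.subset hK'K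
      have h1 := hall (pvtCells δ K') (pvt_cells_mono hK'K) (pvt_cells_conn hδ hK'c hK'b) ⟨x', hx'x, hxK'⟩ ⟨y', hy'y, hyK'⟩
      obtain ⟨p2, hp2U, hp2F⟩ := hUfar
      obtain ⟨e2, he2⟩ := pvt_sq_cover hδ p2
      have hsub : pvtCells δ K' ∪ Bl x ∪ Bl y ⊆ Un := by
        rintro a ((ha | ha) | ha)
        · have haK : a ∈ Kc := pvt_cells_mono hK'K ha
          exact Set.mem_iUnion₂.2 ⟨a, haK, hBlc a haK⟩
        · exact Set.mem_iUnion₂.2 ⟨x, ⟨x', hx'x, hx'K⟩, ha⟩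
        · exact Set.mem_iUnion₂.2 ⟨y, ⟨y', hy'y, hy'K⟩, ha⟩
      have he2o : e2 ∈ pvtOut (pvtCells δ K' ∪ Bl x ∪ Bl y) := pvt_out_anti hsub (hfarout p2 hp2F e2 he2)
      have hnd : ¬ Disjoint (pvtCells δ U) (pvtCells δ K' ∪ Bl x ∪ Bl y) := fun hd =>
        h1 (pvtc_out_of_wit (pvt_cells_conn hδ hUc hUb) hd ⟨p0, hz, hp0U⟩ ⟨p2, he2, hp2U⟩ he2o)
      rw [Set.not_disjoint_iff] at hnd
      obtain ⟨e, ⟨u, hue, huU⟩, he⟩ := hnd
      refine ⟨u, huU, ?_⟩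
      rcases he with (⟨q, hqe, hqK'⟩ | he) | he
      · left
        refine ⟨q, hqK', ?_⟩
        have := pvblb_sq_sup hδ hue hqe
        linarith
      · right
        obtain ⟨a, ha, h2⟩ := hnear x x' hx'x e he u hue
        exact ⟨a, Or.inl ha, h2⟩
      · right
        obtain ⟨a, ha, h2⟩ := hnear y y' hy'y e he u hue
        exact ⟨a, Or.inr ha, h2⟩

end Claimed.Agent.R289
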