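-- KEEP
import Claimed.Agent.R289.Defs.FitReg
import Claimed.Agent.R289.Tr.BandFit

/-!
# Row 289 (S0537, Cardy for Poisson-Voronoi), THE WALL, road E, WB3 = FIT, file Tr/FitPat : **(PAT)** = FROM THE CORRIDOR OF CELLS TO THE WORD AND ITS REGIONS      (helper217; prefix `pvfcw_`)

(COR) (`pvtb_fit_mouth` of 20, `pvfc_noz2` of 217) ends with a rectilinear corridor without near return `PvtbCor n f` of cells of the grid of mesh `δ`.      `pvfh_cor` (L2 of `Tr/FitE`, 209) asks for a WORD `l : List PvtTurn`.      This file is the bridge, MODEL FREE.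
CONVENTION (20, 62).   `f 0` = the cell BEHIND the exit door, `f 1 .. f (n-1)` = the cells of the word (`l.length = n - 1`), `f n` = the cell after the entrance door (= "the cell after the word").      cell `j` of the word = `f (j + 1)`.
* §1 `pvfcw_word`      the word, by its partial sums: `pvtAcc rot d (l.take j) = Z (f (j+1)) - Z (f 1)`, `pvtDir d (l.take j) = Z (f (j+1)) - Z (f j)`, `d = Z (f 1) - Z (f 0)`
* §2 `pvfcw_centre` `pvfcw_simple` `pvfcw_nr` `pvfcw_disp`      centres `pvccC = pvtCtr δ (f (j+1))`, `PvccSimple`, `PvfeNR`, the door-to-door equation;      **`pvfcw_pat`** = all of them for the doors `zo`, `zi` and the frames `uo`, `ui`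
* §3 plane ↔ cells: `pvfcw_ball_cell` (a cell through a point of `closedBall (centre v) (3 δ)` is within `3` of `v`), `pvfcw_ball_off` (tube off `K`), `pvfcw_ball_off8` (tube off `pvtU δ (pvtN8 (pvtCells δ K))`), `pvfcw_ctr_box`
* §4 **`pvfcw_main`** : corridor + "every cell of the word is off the `4`-fattening of the cells of `G ∪ F`, or its collar lies in one of the two discs" ⟹ the conclusion of `pvfh_cor` VERBATIM in free parameters.
-/

set_option autoImplicit false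

namespace Claimed.Agent.R289

open Set Metric Complex Claimed.Agent.R291

/-! ## 1. the word -/

theorem pvfcw_adj4 {u v : ℤ × ℤ} (h : pvtbG4.Adj u v) : PvtAdj4 u v := by
  have h' := (pvtb_G4_adj u v).1 h
  unfold PvtAdj4
  omega

/-- **the word of a path of cells without backtracking**, by its partial sums -/
theorem pvfcw_word (f : ℕ → ℤ × ℤ) (n : ℕ) (step : ∀ i, i < n + 1 → pvtbG4.Adj (f i) (f (i + 1))) (nb : ∀ i, i + 2 ≤ n + 1 → f (i + 2) ≠ f i) :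
    ∃ l : List PvtTurn, l.length = n ∧ ∀ j, j ≤ n → pvtAcc PvtTurn.rot (pvtZ (f 1) - pvtZ (f 0)) (l.take j) = pvtZ (f (j + 1)) - pvtZ (f 1) ∧
      pvtDir (pvtZ (f 1) - pvtZ (f 0)) (l.take j) = pvtZ (f (j + 1)) - pvtZ (f j) := by
  induction n with
  | zero =>
    refine ⟨[], rfl, fun j hj => ?_⟩
    obtain rfl : j = 0 := by omega
    simp
  | succ n ih =>
    obtain ⟨l, hl, h⟩ := ih (fun i hi => step i (by omega)) (fun i hi => nb i (by omega))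
    obtain ⟨τ, hτ⟩ := pvt_turn_exists (pvfcw_adj4 (step n (by omega))) (pvfcw_adj4 (step (n + 1) (by omega))) (nb n (by omega))
    refine ⟨l ++ [τ], by simp [hl], fun j hj => ?_⟩
    rcases Nat.lt_or_ge j (n + 1) with h1 | h1
    · rw [List.take_append_of_le_length (by omega)]
      exact h j (by omega)
    · obtain rfl : j = n + 1 := by omega
      have e : (l ++ [τ]).take (n + 1) = l ++ [τ] := List.take_of_length_le (by simp [hl])
      have h0 := h n le_rfl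
      rw [List.take_of_length_le (by omega)] at h0
      rw [e, pvtAcc_append, pvtDir_append, h0.1, h0.2]
      simp only [pvtAcc_cons, pvtAcc_nil, pvtDir_cons, pvtDir_nil, add_zero]
      rw [← hτ]
      exact ⟨by ring, rfl⟩

/-! ## 2. centres, simplicity, no near return, doors -/

theorem pvfcw_ctr (δ : ℝ) (v : ℤ × ℤ) : pvtCtr δ v = (δ : ℂ) * (pvtZ v + (1 + I) / 2) := by
  apply Complex.ext <;> simp [pvtCtr, pvtZ] <;> ring

theorem pvfcw_ctr_sub (δ : ℝ) (u v : ℤ × ℤ) : pvtCtr δ u - pvtCtr δ v = (δ : ℂ) * (pvtZ u - pvtZ v) := by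
  rw [pvfcw_ctr, pvfcw_ctr]; ring

theorem pvfcw_N_Z (u v : ℤ × ℤ) : pvccN (pvtZ u - pvtZ v) = max |((u.1 - v.1 : ℤ) : ℝ)| |((u.2 - v.2 : ℤ) : ℝ)| := by
  unfold pvccN pvtZ
  simp

section word

variable {f : ℕ → ℤ × ℤ} {n : ℕ} {l : List PvtTurn}

/-- what `pvfcw_word` gives -/
def PvfcwW (f : ℕ → ℤ × ℤ) (n : ℕ) (l : List PvtTurn) : Prop :=
  l.length = n ∧ ∀ j, j ≤ n → pvtAcc PvtTurn.rot (pvtZ (f 1) - pvtZ (f 0)) (l.take j) = pvtZ (f (j + 1)) - pvtZ (f 1) ∧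
    pvtDir (pvtZ (f 1) - pvtZ (f 0)) (l.take j) = pvtZ (f (j + 1)) - pvtZ (f j)

theorem pvfcw_eqns_cite : True := by
  have := @PvfcwW.eq_1
  trivial

/-- the centres of the cells of the word -/
theorem pvfcw_centre (hw : PvfcwW f n l) (δ : ℝ) {z : ℂ} (hz : z + (δ : ℂ) * (pvtZ (f 1) - pvtZ (f 0)) / 2 = pvtCtr δ (f 1)) {j : ℕ} (hj : j ≤ n) :
    pvccC z ((δ : ℂ) * (pvtZ (f 1) - pvtZ (f 0))) l j = pvtCtr δ (f (j + 1)) := by
  rw [pvccC_eq, pvtAcc_mul, (hw.2 j hj).1, hz, ← pvfcw_ctr_sub]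
  ring

/-- differences of the centres in the reference frame -/
theorem pvfcw_ref (hw : PvfcwW f n l) {j k : ℕ} (hj : j ≤ n) (hk : k ≤ n) :
    (pvtZ (f 1) - pvtZ (f 0)) * (pvccC 0 1 l j - pvccC 0 1 l k) = pvtZ (f (j + 1)) - pvtZ (f (k + 1)) := by
  rw [pvccC_eq, pvccC_eq]
  have e1 := (hw.2 j hj).1
  have e2 := (hw.2 k hk).1
  rw [pvtAcc_eq_mul_one] at e1 e2
  linear_combination e1 - e2

/-- the first frame is a fourth root of unity -/
theorem pvfcw_d4 (hf : PvtbCor (n + 1) f) : (pvtZ (f 1) - pvtZ (f 0)) ^ 4 = 1 := pvt_step_pow_four (pvfcw_adj4 (hf.step 0 (by omega)))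

theorem pvfcw_d_ne (hf : PvtbCor (n + 1) f) : pvtZ (f 1) - pvtZ (f 0) ≠ 0 := by
  intro h
  have := pvfcw_d4 hf
  rw [h] at this
  norm_num at this

/-- the word of a corridor is cell-simple (the cell after the word included) -/
theorem pvfcw_simple (hf : PvtbCor (n + 1) f) (hw : PvfcwW f n l) : PvccSimple l l.length := by
  intro j k hj hk e
  rw [hw.1] at hj hk
  have h := pvfcw_ref hw hj hk
  rw [e, sub_self, mul_zero] at h
  have h2 : f (j + 1) = f (k + 1) := pvtZ_injective (sub_eq_zero.1 h.symm)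
  have := pvtb_cor_inj hf (by omega) (by omega) h2
  omega

/-- the word of a corridor has no near return -/
theorem pvfcw_nr (hf : PvtbCor (n + 1) f) (hw : PvfcwW f n l) : PvfeNR l := by
  intro j k hjk hk
  rw [hw.1] at hk
  have h := pvfcw_ref hw (show j ≤ n by omega) hk
  rw [← pvccN_unit_mul (pvfcw_d4 hf), h, pvfcw_N_Z]
  rcases pvtb_cor_gap hf (show j + 1 + 3 ≤ k + 1 by omega) (by omega) with h2 | h2
  · refine le_max_of_le_left ?_
    rw [← Int.cast_abs]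
    exact_mod_cast h2
  · refine le_max_of_le_right ?_
    rw [← Int.cast_abs]
    exact_mod_cast h2

/-- the displacement from door to door, the last frame -/
theorem pvfcw_disp (hw : PvfcwW f n l) : pvtDisp (pvtZ (f 1) - pvtZ (f 0)) l = (pvtZ (f (n + 1)) + pvtZ (f n)) / 2 - (pvtZ (f 1) + pvtZ (f 0)) / 2 ∧
    pvtDir (pvtZ (f 1) - pvtZ (f 0)) l = pvtZ (f (n + 1)) - pvtZ (f n) := by
  have h := hw.2 n le_rfl
  rw [List.take_of_length_le (by rw [hw.1])] at h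
  refine ⟨?_, h.2⟩
  rw [pvt_disp_eq_end 0, pvtEnd, h.1, h.2]
  ring

end word

/-- **(PAT)**: the corridor `f 0 .. f (n+1)` of cells of mesh `δ`, read from the door `zo` (frame `uo`) to the door `zi` (frame `ui`) -/
theorem pvfcw_pat {f : ℕ → ℤ × ℤ} {n : ℕ} (hf : PvtbCor (n + 1) f) (δ : ℝ) {zo zi uo ui : ℂ} (huo : pvtZ (f 1) - pvtZ (f 0) = uo) (hui : pvtZ (f (n + 1)) - pvtZ (f n) = ui)
    (hzo : zo + (δ : ℂ) * uo / 2 = pvtCtr δ (f 1)) (hzi : zi - (δ : ℂ) * ui / 2 = pvtCtr δ (f n)) :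
    ∃ l : List PvtTurn, l.length = n ∧ (δ : ℂ) * pvtDisp uo l = zi - zo ∧ pvtDir uo l = ui ∧ PvccSimple l l.length ∧ PvfeNR l ∧
      ∀ j, j ≤ n → pvccC zo ((δ : ℂ) * uo) l j = pvtCtr δ (f (j + 1)) := by
  obtain ⟨l, hl⟩ := pvfcw_word f n hf.step hf.nb
  have hw : PvfcwW f n l := hl
  subst huo hui
  refine ⟨l, hw.1, ?_, (pvfcw_disp hw).2, pvfcw_simple hf hw, pvfcw_nr hf hw, fun j hj => pvfcw_centre hw δ hzo hj⟩
  rw [(pvfcw_disp hw).1]
  have e1 := pvfcw_ctr δ (f 1)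
  have e2 := pvfcw_ctr δ (f n)
  rw [← hzo] at e1
  rw [← hzi] at e2
  linear_combination e1 - e2

/-! ## 3. plane ↔ cells -/

theorem pvfcw_1d {δ : ℝ} (hδ : 0 < δ) {k : ℕ} {a b : ℤ} {x : ℝ} (h1 : |x - ((b : ℝ) + 1 / 2) * δ| ≤ k * δ) (h2 : (a : ℝ) * δ ≤ x) (h3 : x ≤ ((a : ℝ) + 1) * δ) :
    a ≤ b + k ∧ b ≤ a + k := by
  rw [abs_le] at h1
  constructor
  · by_contra hc
    push Not at hc
    have h4 : (b : ℝ) + k + 1 ≤ a := by exact_mod_cast hc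
    nlinarith
  · by_contra hc
    push Not at hc
    have h4 : (a : ℝ) + k + 1 ≤ b := by exact_mod_cast hc
    nlinarith

/-- a cell through a point of the collar `closedBall (centre v) (k δ)` is within `k` of `v` -/
theorem pvfcw_ball_cell {δ : ℝ} (hδ : 0 < δ) {k : ℕ} {v e : ℤ × ℤ} {w : ℂ} (hw : ‖w - pvtCtr δ v‖ ≤ k * δ) (he : w ∈ pvtSq δ e) :
    (e.1 ≤ v.1 + k ∧ v.1 ≤ e.1 + k) ∧ e.2 ≤ v.2 + k ∧ v.2 ≤ e.2 + k := by
  obtain ⟨h1, h2, h3, h4⟩ := he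
  have a1 : |w.re - ((v.1 : ℝ) + 1 / 2) * δ| ≤ k * δ := (Complex.abs_re_le_norm (w - pvtCtr δ v)).trans hw
  have a2 : |w.im - ((v.2 : ℝ) + 1 / 2) * δ| ≤ k * δ := (Complex.abs_im_le_norm (w - pvtCtr δ v)).trans hw
  exact ⟨pvfcw_1d hδ a1 h1 h2, pvfcw_1d hδ a2 h3 h4⟩

/-- the collar of a cell off the `k`-fattening of the cells of `K` misses `K` -/
theorem pvfcw_ball_off {δ : ℝ} (hδ : 0 < δ) {k : ℕ} {K : Set ℂ} {v : ℤ × ℤ} (hv : v ∉ pvtwN k (pvtCells δ K)) {w : ℂ} (hw : ‖w - pvtCtr δ v‖ ≤ k * δ) : w ∉ K := by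
  intro hK
  obtain ⟨e, he⟩ := pvt_sq_cover hδ w
  obtain ⟨⟨h1, h2⟩, h3, h4⟩ := pvfcw_ball_cell hδ hw he
  exact hv ⟨e, ⟨w, he, hK⟩, h2, h1, h4, h3⟩

/-- the collar of a cell off the `(k+1)`-fattening of the cells of `K` misses the cells of `K` and their neighbours -/
theorem pvfcw_ball_off8 {δ : ℝ} (hδ : 0 < δ) {k : ℕ} {K : Set ℂ} {v : ℤ × ℤ} (hv : v ∉ pvtwN (k + 1) (pvtCells δ K)) {w : ℂ} (hw : ‖w - pvtCtr δ v‖ ≤ k * δ) :
    w ∉ pvtU δ (pvtN8 (pvtCells δ K)) := by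
  intro hU
  simp only [pvtU, mem_iUnion, exists_prop] at hU
  obtain ⟨e, ⟨z, hz, hez⟩, he⟩ := hU
  obtain ⟨⟨h1, h2⟩, h3, h4⟩ := pvfcw_ball_cell hδ hw he
  refine hv ⟨z, hz, ?_⟩
  push_cast
  rcases hez with rfl | ⟨-, g1, g2, g3, g4⟩
  · omega
  · omega

/-- a point of a cell of `pvtN8 (pvtCells δ (closedBall x r))` is within `r + 4 δ` of `x` -/
theorem pvfcw_ball_near {δ : ℝ} (hδ : 0 < δ) {x w : ℂ} {r : ℝ} (hw : w ∈ pvtU δ (pvtN8 (pvtCells δ (closedBall x r)))) : ‖w - x‖ ≤ r + 4 * δ := by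
  simp only [pvtU, mem_iUnion, exists_prop] at hw
  obtain ⟨e, ⟨z, ⟨q, hq, hqx⟩, hez⟩, he⟩ := hw
  rw [mem_closedBall_iff_norm] at hqx
  have hd : (e.1 ≤ z.1 + 1 ∧ z.1 ≤ e.1 + 1) ∧ e.2 ≤ z.2 + 1 ∧ z.2 ≤ e.2 + 1 := by
    rcases hez with rfl | ⟨-, g1, g2, g3, g4⟩
    · omega
    · omega
  obtain ⟨⟨d1, d2⟩, d3, d4⟩ := hd
  have c1 : (e.1 : ℝ) ≤ z.1 + 1 := by exact_mod_cast d1
  have c2 : (z.1 : ℝ) ≤ e.1 + 1 := by exact_mod_cast d2
  have c3 : (e.2 : ℝ) ≤ z.2 + 1 := by exact_mod_cast d3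
  have c4 : (z.2 : ℝ) ≤ e.2 + 1 := by exact_mod_cast d4
  obtain ⟨h1, h2, h3, h4⟩ := he
  obtain ⟨k1, k2, k3, k4⟩ := hq
  have a1 : |(w - q).re| ≤ 2 * δ := by
    rw [Complex.sub_re, abs_le]
    constructor <;> nlinarith
  have a2 : |(w - q).im| ≤ 2 * δ := by
    rw [Complex.sub_im, abs_le]
    constructor <;> nlinarith
  have a3 := Complex.norm_le_abs_re_add_abs_im (w - q)
  calc ‖w - x‖ = ‖(w - q) + (q - x)‖ := by rw [sub_add_sub_cancel]
    _ ≤ ‖w - q‖ + ‖q - x‖ := norm_add_le _ _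
    _ ≤ r + 4 * δ := by linarith

theorem pvfcw_cells_union (δ : ℝ) (A B : Set ℂ) : pvtCells δ (A ∪ B) = pvtCells δ A ∪ pvtCells δ B := by
  ext z
  simp only [pvtCells, Set.mem_ofPred_eq, mem_union, inter_union_distrib_left, union_nonempty]

theorem pvfcw_N8_union (A B : Set (ℤ × ℤ)) : pvtN8 (A ∪ B) = pvtN8 A ∪ pvtN8 B := by
  ext w
  simp only [pvtN8, Set.mem_ofPred_eq, mem_union]
  constructor
  · rintro ⟨z, hz | hz, h⟩
    · exact Or.inl ⟨z, hz, h⟩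
    · exact Or.inr ⟨z, hz, h⟩
  · rintro (⟨z, hz, h⟩ | ⟨z, hz, h⟩)
    · exact ⟨z, Or.inl hz, h⟩
    · exact ⟨z, Or.inr hz, h⟩

theorem pvfcw_U_union (δ : ℝ) (A B : Set (ℤ × ℤ)) : pvtU δ (A ∪ B) = pvtU δ A ∪ pvtU δ B := by
  unfold pvtU
  exact biUnion_union _ _ _

theorem pvfcw_cells_mono (δ : ℝ) {A B : Set ℂ} (h : A ⊆ B) : pvtCells δ A ⊆ pvtCells δ B := fun _ hz => hz.mono (inter_subset_inter_right _ h)

/-- the centre of a cell of a box -/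
theorem pvfcw_ctr_box {δ : ℝ} (hδ : 0 < δ) {a b c d : ℤ} {v : ℤ × ℤ} (hv : v ∈ tscBox a b c d) {x : ℂ} {r : ℝ} (h1 : x.re - r ≤ a * δ) (h2 : ((b : ℝ) + 1) * δ ≤ x.re + r)
    (h3 : x.im - r ≤ c * δ) (h4 : ((d : ℝ) + 1) * δ ≤ x.im + r) : ‖pvtCtr δ v - x‖ ≤ 2 * r := by
  obtain ⟨g1, g2, g3, g4⟩ := hv
  have c1 : (a : ℝ) ≤ v.1 := by exact_mod_cast g1
  have c2 : (v.1 : ℝ) ≤ b := by exact_mod_cast g2
  have c3 : (c : ℝ) ≤ v.2 := by exact_mod_cast g3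
  have c4 : (v.2 : ℝ) ≤ d := by exact_mod_cast g4
  have a1 : |(pvtCtr δ v - x).re| ≤ r := by
    rw [Complex.sub_re, abs_le]
    simp only [pvtCtr]
    constructor <;> nlinarith
  have a2 : |(pvtCtr δ v - x).im| ≤ r := by
    rw [Complex.sub_im, abs_le]
    simp only [pvtCtr]
    constructor <;> nlinarith
  have a3 := Complex.norm_le_abs_re_add_abs_im (pvtCtr δ v - x)
  linarith

/-! ## 4. the conclusion of `pvfh_cor`, in free parameters -/

/-- **(PAT), THE REGIONS.**      `G` = what the tube must miss everywhere (`g₀`);   `F` = what it must miss off the two discs (the frozen sites of the two half states);   `xt`, `xs` = the tips, `rB` = radius of the mouths of the hulls;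
`yt`, `ys` = centres of the discs, `rA` their radius;   `rW ≤ rA` = a radius free of `G` round `yt`, `ys`.
Every cell of the word is off the `4`-fattening of the cells of `G ∪ F`, or its collar lies in `closedBall yt rW` or in `closedBall ys rW` (the two whiskers). -/
theorem pvfcw_main {δ : ℝ} (hδ : 0 < δ) {f : ℕ → ℤ × ℤ} {n : ℕ} (hf : PvtbCor (n + 1) f) {zo zi uo ui : ℂ} (huo : pvtZ (f 1) - pvtZ (f 0) = uo) (hui : pvtZ (f (n + 1)) - pvtZ (f n) = ui)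
    (hzo : zo + (δ : ℂ) * uo / 2 = pvtCtr δ (f 1)) (hzi : zi - (δ : ℂ) * ui / 2 = pvtCtr δ (f n))
    {G F : Set ℂ} {yt ys xt xs : ℂ} {rW rA rB : ℝ}
    (hcell : ∀ i, 1 ≤ i → i ≤ n → f i ∉ pvtwN 4 (pvtCells δ (G ∪ F)) ∨ ‖pvtCtr δ (f i) - yt‖ + 3 * δ ≤ rW ∨ ‖pvtCtr δ (f i) - ys‖ + 3 * δ ≤ rW)
    (hGt : ∀ w ∈ G, rW < ‖w - yt‖) (hGs : ∀ w ∈ G, rW < ‖w - ys‖) (hWA : rW ≤ rA) (hBt : ‖xt - yt‖ + rB + 4 * δ ≤ rA) (hBs : ‖xs - ys‖ + rB + 4 * δ ≤ rA) :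
    ∃ l : List PvtTurn, l.length = n ∧ ((δ : ℂ) * pvtDisp uo l = zi - zo ∧ pvtDir uo l = ui) ∧ PvccSimple l l.length ∧ PvfeNR l ∧
      (∀ j, j ≤ n → pvccC zo ((δ : ℂ) * uo) l j = pvtCtr δ (f (j + 1))) ∧ (∀ w ∈ G, w ∉ pvfeTube 3 zo ((δ : ℂ) * uo) l) ∧
      ∀ Fs Ft : Set ℂ, Fs ⊆ F → Ft ⊆ F → PvfeAdm δ 3 rA ys yt zo ((δ : ℂ) * uo) l (pvtCells δ (Fs ∪ closedBall xs rB) ∪ pvtCells δ (Ft ∪ closedBall xt rB)) := by
  obtain ⟨l, hl, h1, h2, h3, h4, h5⟩ := pvfcw_pat hf δ huo hui hzo hzi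
  have hu1 : ‖uo‖ = 1 := by
    have h : uo ^ 4 = 1 := by rw [← huo]; exact pvfcw_d4 hf
    have : ‖uo‖ ^ 4 = 1 := by rw [← norm_pow, h, norm_one]
    exact (pow_eq_one_iff_of_nonneg (norm_nonneg _) (by norm_num)).1 this
  have hd : ‖(δ : ℂ) * uo‖ = δ := by rw [norm_mul, hu1, mul_one, Complex.norm_real, Real.norm_eq_abs, abs_of_pos hδ]
  -- a point of the tube, its cell
  have tube : ∀ w ∈ pvfeTube 3 zo ((δ : ℂ) * uo) l, ∃ i, 1 ≤ i ∧ i ≤ n ∧ ‖w - pvtCtr δ (f i)‖ ≤ 3 * δ := by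
    intro w hw
    obtain ⟨j, hj, hwj⟩ := pvfe_mem_tube.1 hw
    rw [hl] at hj
    rw [h5 j hj.le, hd] at hwj
    exact ⟨j + 1, by omega, by omega, hwj⟩
  have tri : ∀ (w c y : ℂ), ‖w - c‖ ≤ 3 * δ → ‖c - y‖ + 3 * δ ≤ rW → ‖w - y‖ ≤ rW := by
    intro w c y g1 g2
    calc ‖w - y‖ = ‖(w - c) + (c - y)‖ := by rw [sub_add_sub_cancel]
      _ ≤ ‖w - c‖ + ‖c - y‖ := norm_add_le _ _
      _ ≤ rW := by linarith
  refine ⟨l, hl, ⟨h1, h2⟩, h3, h4, h5, ?_, ?_⟩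
  · intro w hG hw
    obtain ⟨i, i1, i2, hwi⟩ := tube w hw
    rcases hcell i i1 i2 with h | h | h
    · have h' : f i ∉ pvtwN 3 (pvtCells δ (G ∪ F)) := fun hc => h (pvtw_N_mono (by norm_num) subset_rfl hc)
      exact pvfcw_ball_off hδ h' (by push_cast; exact hwi) (Or.inl hG)
    · exact absurd (tri _ _ _ hwi h) (not_le.2 (hGt w hG))
    · exact absurd (tri _ _ _ hwi h) (not_le.2 (hGs w hG))
  · intro Fs Ft hFs hFt w hw hU
    obtain ⟨i, i1, i2, hwi⟩ := tube w hw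
    rw [pvfcw_cells_union, pvfcw_cells_union, pvfcw_N8_union, pvfcw_N8_union, pvfcw_N8_union, pvfcw_U_union, pvfcw_U_union, pvfcw_U_union] at hU
    have ball : ∀ (x y : ℂ), ‖x - y‖ + rB + 4 * δ ≤ rA → w ∈ pvtU δ (pvtN8 (pvtCells δ (closedBall x rB))) → ‖w - y‖ ≤ rA := by
      intro x y g1 g2
      have g3 := pvfcw_ball_near hδ g2
      calc ‖w - y‖ = ‖(w - x) + (x - y)‖ := by rw [sub_add_sub_cancel]
        _ ≤ ‖w - x‖ + ‖x - y‖ := norm_add_le _ _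
        _ ≤ rA := by linarith
    have froz : ∀ F' : Set ℂ, F' ⊆ F → w ∈ pvtU δ (pvtN8 (pvtCells δ F')) → w ∈ closedBall yt rA ∪ closedBall ys rA := by
      intro F' hF' g
      rcases hcell i i1 i2 with h | h | h
      · exfalso
        have h' : f i ∉ pvtwN (3 + 1) (pvtCells δ F') := fun hc => h (pvtw_N_mono le_rfl (pvfcw_cells_mono δ (hF'.trans subset_union_right)) hc)
        exact pvfcw_ball_off8 hδ h' (by push_cast; exact hwi) g
      · exact Or.inl (mem_closedBall_iff_norm.2 ((tri _ _ _ hwi h).trans hWA))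
      · exact Or.inr (mem_closedBall_iff_norm.2 ((tri _ _ _ hwi h).trans hWA))
    rcases hU with (g | g) | (g | g)
    · exact froz Fs hFs g
    · exact Or.inr (mem_closedBall_iff_norm.2 (ball xs ys hBs g))
    · exact froz Ft hFt g
    · exact Or.inl (mem_closedBall_iff_norm.2 (ball xt yt hBt g))

end Claimed.Agent.R289
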