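-- KEEP
import Claimed.Agent.R289.Tr.StabInst
import Claimed.Agent.R289.Tr.StripP
import Claimed.Agent.R289.Tr.ModP
import Claimed.Agent.R289.Tr.LanePB
import Claimed.Agent.R289.Tr.Stab

/-!
# Row 289 (S0537, Cardy for Poisson-Voronoi), THE WALL, ROAD P, item P12 STAB AT THE MODEL, file Tr/FiveLane : THE WHITE LANE OF A PREPARED CONFIGURATION AT THE MODEL `pvmhMod`      (helper171, for helper97 `Tr/StabMod.lean`; prefix `pvwj_`, `Pvwj`)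

Consumer: `exit_pinsP_five` (`Exit/PinsP.lean`) through `pvsj_evt` (97, `Tr/StabInst.lean`), which asks a `PvsjLane` on the right of the rim.      THIS FILE DOES NOT IMPORT `Exit/PinsP`.
* sec. 1  `pvwj_walk`: `pvsz_walk` of 277 for ANY window, strip, doors (at the model the window `EJ` is a union of cells, not a ball: `PvszIs` does not apply).
* sec. 2  AT THE MODEL: `pvwj_J` (`pvspJ (𝔤.ty h z s) = pvszS (dl h) z τ ln`), `pvwj_off_m`, `pvwj_off_p` (the strip misses the black tubes), `pvwj_door_m`, `pvwj_door_p` (the doors meet the strip in the door windows of the corridor only),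
          **`pvwj_cut`** (a fit ⟹ the corridor enters the fine box `nK`: the cut is a true first index; uses `near ≤ h`, NOT the coarse bound `pvlb_pin_norm`), **`pvwj_chain`** (the chain of sites, split at the cut, both split points in `clB(z, 5h)`).
* sec. 3  IN A COMPLETION: **`pvwj_lane`** : `η ∈ pvspLane 𝔤.sp (𝔤.ty h z s) h` + fit + one colour per site of the strip  ⟹  `∃ n v Jm Jp, PvsjLane .. ∧ ∀ j ≤ n, posF (v j) ∈ pvspJ ..`.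
* sec. 4  RIGHT (M11) IN THE FORM (site set, colouring): `PvwjRight x R Y σ P J` (`PvxqRight x R η P J = PvwjRight x R (cfSites η) (cfCol η) P J` by `Iff.rfl`), `pvwj_right_at`, **`pvwj_right_paint`** (RIGHT survives the preparation, SAME completion),
          `pvwj_paint_one`, **`pvwj_main`** : RIGHT + fit + the painted configuration in the lane event  ⟹  ONE completion of the painted configuration with the rim, RIGHT and the lane on its right.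
-/

set_option autoImplicit false
set_option linter.unusedSectionVars false
set_option linter.unusedVariables false

namespace Claimed.Agent.R289

open Set Metric Claims.C0465

/-! ## 1. the walk, any window -/

/-- **the walk of a lane event as a chain of sites** (`pvsz_walk` of 277, any window `E`, strip `S`, doors `A`, `B`) -/
theorem pvwj_walk {ρ : ℝ} {E S A B : Set ℂ} {c : Bool} {ξ : Conf PvPt} (h : ξ ∈ pvmwEv ρ E c S A B) : ∃ (n : ℕ) (x : ℕ → ℂ),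
    (∀ j, j ≤ n → (x j, c) ∈ ξ.pts ∧ x j ∈ S ∧ x j ∈ E ∧ ∃ b w, DelTri (cfSites ξ) (x j) b w) ∧
    (∀ j, j < n → ‖x (j + 1) - x j‖ ≤ 2 * ρ ∧ ∃ w, DelTri (cfSites ξ) (x j) (x (j + 1)) w ∨ DelTri (cfSites ξ) (x (j + 1)) (x j) w) ∧
    x 0 ∈ A ∧ x n ∈ B := by
  obtain ⟨l, ⟨hch, hl⟩, ⟨a, ha, haA⟩, b, hb, hbB⟩ := h
  have hne : l ≠ [] := by
    rintro rfl
    simp at ha
  have hpos : 0 < l.length := List.length_pos_iff.2 hne
  have hV : ∀ p ∈ pvtmV (pvtrSet ρ E ξ), p ∈ ξ.pts ∧ p.1 ∈ E ∧ ∃ b w, DelTri (cfSites ξ) p.1 b w := by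
    rintro p ⟨q, w, hq | hq | hq⟩
    · exact ⟨hq.1, hq.2.2.2.1.2, _, _, (pvtr_iff.1 hq.2.2.2).1⟩
    · exact ⟨hq.2.1, hq.2.2.2.2.1.2, _, _, del_tri_cyc (pvtr_iff.1 hq.2.2.2).1⟩
    · exact ⟨hq.2.2.1, hq.2.2.2.2.2.1.2, _, _, del_tri_cyc (del_tri_cyc (pvtr_iff.1 hq.2.2.2).1)⟩
  refine ⟨l.length - 1, fun j => (l.getD j a).1, fun j hj => ?_, fun j hj => ?_, ?_, ?_⟩
  · have hjl : j < l.length := by omega
    have e : l.getD j a = l[j] := List.getD_eq_getElem _ _ hjl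
    have hm : l[j] ∈ l := List.getElem_mem hjl
    obtain ⟨h1, h2, h3⟩ := hl _ hm
    obtain ⟨g1, g2, g3⟩ := hV _ h1
    simp only [e]
    refine ⟨?_, h3, g2, g3⟩
    rw [← h2]
    exact g1
  · have hjl : j + 1 < l.length := by omega
    have e : l.getD j a = l[j] := List.getD_eq_getElem _ _ (by omega)
    have e' : l.getD (j + 1) a = l[j + 1] := List.getD_eq_getElem _ _ hjl
    simp only [e, e']
    exact pvsz_step (List.isChain_iff_getElem.1 hch j hjl)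
  · have e : l.getD 0 a = l[0] := List.getD_eq_getElem _ _ hpos
    simp only [e]
    have : l.head? = some l[0] := by rw [List.head?_eq_getElem?, List.getElem?_eq_getElem hpos]
    rw [this] at ha
    rw [Option.mem_some_iff.1 ha]
    exact haA
  · have e : l.getD (l.length - 1) a = l[l.length - 1] := List.getD_eq_getElem _ _ (by omega)
    simp only [e]
    have : l.getLast? = some l[l.length - 1] := by rw [List.getLast?_eq_getElem?, List.getElem?_eq_getElem (by omega)]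
    rw [this] at hb
    rw [Option.mem_some_iff.1 hb]
    exact hbB

/-! ## 2. at the model -/

section model

variable {𝔤 : PvmhNum} (H : 𝔤.OK) {h : ℝ} {z : ℂ} {s : PvmhT 𝔤}

omit H in
/-- the strip of the candidate of the model is the placed strip of 277 -/
theorem pvwj_J (𝔤 : PvmhNum) (h : ℝ) (z : ℂ) (s : PvmhT 𝔤) : pvspJ (𝔤.ty h z s) = pvszS (𝔤.dl * h) z s.typ s.ln :=
  (pvsz_S_union (𝔤.dl * h) 𝔤.nK z s.typ s.ln).symm

include H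

/-- the strip misses the `2`-collar of all the pieces -/
theorem pvwj_off (hh : 0 < h) : Disjoint (pvszS (𝔤.dl * h) z s.typ s.ln) (pvmgPl z (𝔤.dl * h) (pvtwN 2 (pvmnCells s.typ 0 9))) := by
  have hδ : 0 < 𝔤.dl * h := mul_pos H.dl0 hh
  rw [Set.disjoint_left]
  intro p hp hq
  have h1 : p ∈ pvmgPl z (𝔤.dl * h) (pvtwN 1 (pvlbZone s.typ)) := Set.image_mono (pvlb_win_zone s.isType s.isLane hδ le_rfl) hp
  obtain ⟨c, ⟨c1, c2⟩, -⟩ := pvmg_mem_sq.1 (pvmg_inter hδ ⟨h1, hq⟩)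
  rw [pvtw_N_add] at c1
  exact Set.disjoint_left.1 (pvlb_zone_offN (τ := s.typ) (i := 1 + 1) (j := 2) (by norm_num)) c1 c2

theorem pvwj_off_m (hh : 0 < h) : Disjoint (pvszS (𝔤.dl * h) z s.typ s.ln) (pvmgPl z (𝔤.dl * h) (pvmnNm s.typ)) :=
  (pvwj_off H hh).mono_right (pvmg_mono (pvtw_N_mono le_rfl (by
    rintro c ⟨k, _, hk, hc⟩
    exact ⟨k, Nat.zero_le _, by omega, hc⟩)))

theorem pvwj_off_p (hh : 0 < h) : Disjoint (pvszS (𝔤.dl * h) z s.typ s.ln) (pvmgPl z (𝔤.dl * h) (pvmnNp s.typ)) :=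
  (pvwj_off H hh).mono_right (pvmg_mono (pvtw_N_mono le_rfl (by
    rintro c ⟨k, _, hk, hc⟩
    exact ⟨k, Nat.zero_le _, hk, hc⟩)))

/-- the door `Dm` meets the strip in the door window `A` of the corridor only -/
theorem pvwj_door_m (hh : 0 < h) {p : ℂ} (hp : p ∈ (𝔤.ty h z s).Dm) (hJ : p ∈ pvszS (𝔤.dl * h) z s.typ s.ln) : p ∈ pvszDA (𝔤.dl * h) z s.typ s.ln := by
  rcases hp with hp | hp
  · exact absurd (pvmg_mono (pvmh_Nm_sub _) hp.2) (Set.disjoint_left.1 (pvwj_off_m H hh) hJ)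
  · exact hp

/-- the door `Dp` meets the strip in the door window `B` of the corridor only -/
theorem pvwj_door_p (hh : 0 < h) {p : ℂ} (hp : p ∈ (𝔤.ty h z s).Dp) (hJ : p ∈ pvszS (𝔤.dl * h) z s.typ s.ln) : p ∈ pvszDB (𝔤.dl * h) z s.typ s.ln := by
  rcases hp with hp | hp
  · exact absurd (pvmg_mono (pvmh_Np_sub _) hp.2) (Set.disjoint_left.1 (pvwj_off_p H hh) hJ)
  · exact hp

/-- **THE CUT EXISTS AT THE MODEL**: if the rim fits the type, the corridor has a cell in the fine box `nK` (the ball `B(0, 2h)`) -/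
theorem pvwj_cut (hh : 0 < h) {P : PvbRim} {k : ℕ} (F : 𝔤.Fit h P k z s) : ∃ i, i ≤ pvlpN s.typ s.ln ∧ pvlpC s.typ s.ln i ∈ pvmnBox 𝔤.nK := by
  obtain ⟨-, tt, h5, I, hfit⟩ := F
  have N := pvmh_num H hh
  have hδ := N.δ_pos
  have C := I.cuts N
  have hm := pvlb_t_mono hfit
  have he0 : 0 ≤ 𝔤.e0 * h := by
    have := N.d0_ge; have := N.d0_le
    linarith
  obtain ⟨i, hi, hil⟩ := pvlb_cor_track (μ := 𝔤.mu * h) (d := 𝔤.d0 * h) (e₀ := 𝔤.e0 * h) s.isType s.isLane hfit hδ N.μ_nn he0 (fun i h1 h2 => I.mesh' N i h1 h2)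
    (fun a b ha hab hb hd i hi1 hi2 => by
      have hd' : ‖P.v a - P.v b‖ ≤ 𝔤.d0 * h := by rwa [pvmf_sub] at hd
      have hb' : b ≤ P.len := hb.trans C.le_len
      show ‖(P.v i - z) - (P.v a - z)‖ ≤ 𝔤.e0 * h
      rw [pvmf_sub]
      exact I.nr0 a b hab hb' (Or.inl (C.win a ha (hab.trans hb))) hd' i a hi1 hi2 le_rfl hab)
    (by have := N.d0_ge; have := N.μ_le; linarith) (tt 5) (hm (show (1 : Fin 11) ≤ 5 by decide)) (hm (show (5 : Fin 11) ≤ 9 by decide))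
  refine ⟨i, hi, pvlb_ctr_box (δ := 𝔤.dl * h / 5) (by positivity) ?_⟩
  have hn := I.near
  have h3 : ‖pvtCtr (𝔤.dl * h / 5) (pvlpC s.typ s.ln i)‖ ≤ ‖P.v (tt 5) - z‖ + ‖(P.v (tt 5) - z) - pvtCtr (𝔤.dl * h / 5) (pvlpC s.typ s.ln i)‖ := by
    have := norm_sub_le (P.v (tt 5) - z) ((P.v (tt 5) - z) - pvtCtr (𝔤.dl * h / 5) (pvlpC s.typ s.ln i))
    simpa using this
  have hK : 10 / 𝔤.dl ≤ (𝔤.nK : ℝ) := Nat.le_ceil _
  have hK2 : 2 * h ≤ (𝔤.nK : ℝ) * (𝔤.dl * h / 5) := by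
    have e : 10 / 𝔤.dl * (𝔤.dl * h / 5) = 2 * h := by
      have := H.dl0.ne'
      field_simp
      ring
    rw [← e]
    exact mul_le_mul_of_nonneg_right hK (by positivity)
  have hnum : 𝔤.e0 * h + 20 * (𝔤.dl * h) + 𝔤.mu * h ≤ h := by
    have := H.mu_le; have := H.d0_ge; have := H.d0_le; have := H.e0_le; have := H.d1_le; have := H.e1_le; have := H.mu0
    have : 𝔤.e0 + 20 * 𝔤.dl + 𝔤.mu ≤ 1 := by linarith
    nlinarith
  have hil' : ‖(P.v (tt 5) - z) - pvtCtr (𝔤.dl * h / 5) (pvlpC s.typ s.ln i)‖ ≤ 𝔤.e0 * h + 20 * (𝔤.dl * h) + 𝔤.mu * h := hil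
  linarith

/-- the radius of the split points -/
theorem pvwj_rad (hh : 0 < h) : 2 * ((𝔤.nK : ℝ) + 4) * (𝔤.dl * h / 5) ≤ 5 * h := by
  have hdl := H.dl0
  have hK : (𝔤.nK : ℝ) < 10 / 𝔤.dl + 1 := Nat.ceil_lt_add_one (by positivity)
  have h1 : (𝔤.nK : ℝ) * 𝔤.dl < 10 + 𝔤.dl := by
    have := mul_lt_mul_of_pos_right hK hdl
    have e : (10 / 𝔤.dl + 1) * 𝔤.dl = 10 + 𝔤.dl := by field_simp
    rwa [e] at this
  have h2 : 1200 * 𝔤.dl ≤ 1 := (pvmh_basic H).2.1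
  have h3 : 2 * ((𝔤.nK : ℝ) * 𝔤.dl + 4 * 𝔤.dl) / 5 ≤ 5 := by linarith
  calc 2 * ((𝔤.nK : ℝ) + 4) * (𝔤.dl * h / 5) = (2 * ((𝔤.nK : ℝ) * 𝔤.dl + 4 * 𝔤.dl) / 5) * h := by ring
    _ ≤ 5 * h := mul_le_mul_of_nonneg_right h3 hh.le

/-- **THE CHAIN OF SITES OF A PREPARED CONFIGURATION, SPLIT AT THE CUT** -/
theorem pvwj_chain (hh : 0 < h) {P : PvbRim} {k : ℕ} (F : 𝔤.Fit h P k z s) {η : Conf PvPt} (hA : η ∈ pvspLane 𝔤.sp (𝔤.ty h z s) h) : ∃ (n : ℕ) (x : ℕ → ℂ) (Jm Jp : ℕ),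
    (∀ j, j ≤ n → (x j, !s.typ.col) ∈ η.pts ∧ x j ∈ pvspJ (𝔤.ty h z s) ∧ x j ∈ (𝔤.ty h z s).EJ ∧ ∃ b w, DelTri (cfSites η) (x j) b w) ∧
    (∀ j, j < n → ∃ w, DelTri (cfSites η) (x j) (x (j + 1)) w ∨ DelTri (cfSites η) (x (j + 1)) (x j) w) ∧
    x 0 ∈ (𝔤.ty h z s).Dm ∧ x n ∈ (𝔤.ty h z s).Dp ∧ Jm ≤ n ∧ Jp ≤ n ∧ (∀ j, j ≤ Jm → x j ∈ (𝔤.ty h z s).Mm) ∧ (∀ j, Jp ≤ j → j ≤ n → x j ∈ (𝔤.ty h z s).Mp) ∧
    ‖x Jm - z‖ ≤ 5 * h ∧ ‖x Jp - z‖ ≤ 5 * h := by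
  have hδ : 0 < 𝔤.dl * h := mul_pos H.dl0 hh
  have hA' : η ∈ pvmwEv (𝔤.mu * h) (𝔤.ty h z s).EJ (!s.typ.col) (pvspJ (𝔤.ty h z s)) (𝔤.ty h z s).Dm (𝔤.ty h z s).Dp := hA
  obtain ⟨n, x, h1, h2, h3, h4⟩ := pvwj_walk hA'
  have hS : ∀ j, j ≤ n → x j ∈ pvszS (𝔤.dl * h) z s.typ s.ln := fun j hj => by
    rw [← pvwj_J]
    exact (h1 j hj).2.1
  have hx : ∀ j, j ≤ n → x j - z ∈ pvlpS (𝔤.dl * h) s.typ s.ln := fun j hj => pvsz_mem.1 (hS j hj)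
  have hs : ∀ j, j < n → ‖(x (j + 1) - z) - (x j - z)‖ ≤ 𝔤.dl * h / 10 := fun j hj => by
    rw [sub_sub_sub_cancel_right]
    refine (h2 j hj).1.trans (le_of_eq ?_)
    rw [H.mu_eq]
    ring
  have h0 : x 0 - z ∈ pvlpDA (𝔤.dl * h) s.typ s.ln := pvsz_mem.1 (pvwj_door_m H hh h3 (hS 0 (Nat.zero_le _)))
  have hn : x n - z ∈ pvlpDB (𝔤.dl * h) s.typ s.ln := pvsz_mem.1 (pvwj_door_p H hh h4 (hS n le_rfl))
  have hex := pvmh_bar_norm H s hh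
  have hr : 3 * h ≤ 5 * h := by linarith
  obtain ⟨Jp, a1, a2, a3⟩ := pvls_walk_Mp s.isType s.isLane hδ hex (fun j => x j - z) n hx hs h0 hn
  obtain ⟨Jm, b1, b2, b3⟩ := pvls_walk_Mm s.isType s.isLane hδ hex (fun j => x j - z) n hx hs h0 hn
  exact ⟨n, x, Jm, Jp, h1, fun j hj => (h2 j hj).2, h3, h4, b1, a1, fun j hj => pvsz_mem.2 (b3 j hj), fun j hj1 hj2 => pvsz_mem.2 (a3 j hj1 hj2), b2.trans hr, a2.trans hr⟩

end model

/-! ## 3. in a completion -/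

section compl

variable {𝔤 : PvmhNum} (H : 𝔤.OK) {h R : ℝ} {x z : ℂ} {s : PvmhT 𝔤} {X : Type} {𝔅 : PvBulk X}

omit H in
/-- the colour of a site which carries the colour `!c` only -/
theorem pvwj_col {η : Conf PvPt} {p : ℂ} {c : Bool} (hp : (p, !c) ∈ η.pts) (h1 : (p, true) ∈ η.pts → (p, false) ∈ η.pts → False) : (cfCol η p == c) = false := by
  unfold cfCol
  cases c
  · have : (p, true) ∈ η.pts := hp
    simp [this]
  · have h2 : (p, false) ∈ η.pts := hp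
    have : (p, true) ∉ η.pts := fun h3 => h1 h3 h2
    simp [this]

include H

/-- **THE WHITE LANE OF A PREPARED CONFIGURATION IN A COMPLETION** (input `PvsjLane` of `pvsj_evt` of 97).      `η` = the prepared configuration;   `h1c`: every site of the strip has one colour (`pvwj_paint_one`) -/
theorem pvwj_lane (hh : 0 < h) {P : PvbRim} {k : ℕ} (F : 𝔤.Fit h P k z s) {η : Conf PvPt} (hA : η ∈ pvspLane 𝔤.sp (𝔤.ty h z s) h)
    (h1c : ∀ p ∈ pvspJ (𝔤.ty h z s), (p, true) ∈ η.pts → (p, false) ∈ η.pts → False)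
    (hOk : 𝔅.Ok (cfSites η) (closedBall x (6 * R))) (hzx : ‖z - x‖ + 𝔤.Lr * h ≤ 6 * R) (ξ : X → Bool) :
    ∃ (n : ℕ) (v : ℕ → 𝔅.V (cfSites η)) (Jm Jp : ℕ),
      PvsjLane (𝔅.T (cfSites η)) (𝔅.posF (cfSites η) (x + 7 * R)) ((𝔤.ty h z s).reg 𝔤.sp z h) (pvspS (𝔤.ty h z s).col (𝔅.col η ξ)) n v Jm Jp ∧
      ∀ j, j ≤ n → 𝔅.posF (cfSites η) (x + 7 * R) (v j) ∈ pvspJ (𝔤.ty h z s) := by
  obtain ⟨n, y, Jm, Jp, c1, c2, c3, c4, c5, c6, c7, c8, c9, c10⟩ := pvwj_chain H hh F hA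
  have hsub : closedBall z (𝔤.Lr * h) ⊆ closedBall x (6 * R) := closedBall_subset_closedBall' (by rw [dist_eq_norm]; linarith)
  have hK : ∀ j, j ≤ n → y j ∈ closedBall x (6 * R) := fun j hj => hsub (pvmh_EJ_sub H z s hh (c1 j hj).2.2.1)
  obtain ⟨v, v1, v2⟩ := pvsz_lift 𝔅 hOk (fun j hj => ⟨hK j hj, (c1 j hj).2.2.2⟩) c2
  have hpos : ∀ j, j ≤ n → 𝔅.posF (cfSites η) (x + 7 * R) (v j) = y j := fun j hj => l9_posF_inl 𝔅 (v1 j hj)
  have h5 : 5 * h ≤ 𝔤.a 1 * h := by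
    have := H.a_pos; have := H.ab 0; have := H.nest01
    exact mul_le_mul_of_nonneg_right (by linarith) hh.le
  refine ⟨n, v, Jm, Jp, ⟨v2, fun j hj => ?_, ?_, ?_, c5, c6, fun j hj => ?_, fun j hj1 hj2 => ?_, ?_, ?_⟩, fun j hj => ?_⟩
  · have e : 𝔅.col η ξ (v j) = cfCol η (y j) := by
      unfold PvBulk.col
      rw [v1 j hj]
      rfl
    show (𝔅.col η ξ (v j) == s.typ.col) = false
    rw [e]
    exact pvwj_col (c1 j hj).1 (h1c _ (c1 j hj).2.1)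
  · rw [hpos 0 (Nat.zero_le _)]
    exact c3
  · rw [hpos n le_rfl]
    exact c4
  · rw [hpos j (hj.trans c5)]
    exact Or.inl (c7 j hj)
  · rw [hpos j hj2]
    exact Or.inl (c8 j hj1 hj2)
  · rw [hpos Jm c5]
    show y Jm ∈ closedBall z (𝔤.a 1 * h)
    rw [mem_closedBall, dist_eq_norm]
    exact c9.trans h5
  · rw [hpos Jp c6]
    show y Jp ∈ closedBall z (𝔤.a 1 * h)
    rw [mem_closedBall, dist_eq_norm]
    exact c10.trans h5
  · rw [hpos j hj]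
    exact (c1 j hj).2.1

end compl

/-! ## 4. RIGHT (M11) survives the preparation;   the rim, RIGHT and the lane in ONE completion -/

/-- **RIGHT** in the form (site set, colouring):   `PvxqRight x R η P J` of `Exit/PinsP.lean` is `PvwjRight x R (cfSites η) (cfCol η) P J` by `Iff.rfl` -/
def PvwjRight (x : ℂ) (R : ℝ) (Y : Set ℂ) (σ : ℂ → Bool) (P : PvbRim) (J : Set ℂ) : Prop :=
  ∃ (X : Type) (_ : Fintype X) (𝔅 : PvBulk X) (ξ : X → Bool) (c : (𝔅.T Y).Cyc), 𝔅.Adm Y ∧ 𝔅.Ok Y (closedBall x (6 * R)) ∧ c.IsRim (fun v => Sum.elim σ ξ (𝔅.lab Y v)) ∧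
    4 * R ≤ ‖𝔅.posF Y (x + 7 * R) ((𝔅.T Y).src (c.e 0)) - x‖ ∧ P = 𝔅.enc Y (x + 7 * R) c ∧
    ∀ v, 𝔅.posF Y (x + 7 * R) v ∈ J → v ∈ (𝔅.T Y).Int c.Right

theorem pvwj_eqns_cite : True := by
  have := @PvwjRight.eq_1
  trivial

section right

variable {x : ℂ} {R : ℝ}

/-- RIGHT survives: site set fixed, colouring `σ'` = `σ` with some sites off the rim recoloured from `b` (the colour of the rim) to `!b`      (`pvsb_at` of 212, keeping the completion and the cycle) -/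
theorem pvwj_right_at (hR : 0 < R) {Y : Set ℂ} {σ σ' : ℂ → Bool} {P : PvbRim} {J : Set ℂ} (hP : PvwjRight x R Y σ P J) {b : Bool} {k : ℕ} (hk : ‖P.v k - x‖ ≤ 6 * R) (hb : σ (P.v k) = b)
    (h1 : ∀ p ∈ Y, σ' p = b → σ p = b) (h2 : ∀ j, P.v j ∈ Y → σ' (P.v j) = σ (P.v j)) : PvwjRight x R Y σ' P J := by
  obtain ⟨X, hX, 𝔅, ξ, c, hA, hOk, hc, h4, rfl, hr⟩ := hP
  refine ⟨X, hX, 𝔅, ξ, c, hA, hOk, ?_, h4, rfl, hr⟩
  have : Finite (𝔅.D Y) := hA.2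
  have hcol : Sum.elim σ ξ (𝔅.lab Y ((𝔅.T Y).src (c.e 0))) = b := by
    have e1 : Sum.elim σ ξ (𝔅.lab Y ((𝔅.T Y).src (c.e 0))) = Sum.elim σ ξ (𝔅.lab Y ((𝔅.T Y).src (c.e k))) := pl_rim_col hc 0 k
    rw [e1, pvloc_posF hR hk]
    exact hb
  refine pvsb_rim hOk.sph hOk.simple hc ⟨?_, ?_⟩ (Set.toFinite _)
  · intro v hv
    have hv' : Sum.elim σ' ξ (𝔅.lab Y v) = b := hv.trans hcol
    show Sum.elim σ ξ (𝔅.lab Y v) = Sum.elim σ ξ (𝔅.lab Y ((𝔅.T Y).src (c.e 0)))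
    rw [hcol]
    rcases hl : 𝔅.lab Y v with p | e
    · rw [hl] at hv'
      exact h1 p (hOk.site v p hl) hv'
    · rw [hl] at hv'
      exact hv'
  · rintro v ⟨j, rfl⟩
    show Sum.elim σ' ξ (𝔅.lab Y ((𝔅.T Y).src (c.e j))) = Sum.elim σ ξ (𝔅.lab Y ((𝔅.T Y).src (c.e j)))
    rcases hl : 𝔅.lab Y ((𝔅.T Y).src (c.e j)) with p | e
    · have hp : (𝔅.enc Y (x + 7 * R) c).v j = p := l9_posF_inl 𝔅 hl
      have := h2 j (by rw [hp]; exact hOk.site _ p hl)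
      rwa [hp] at this
    · rfl

variable {S : Set ℂ} {b : Bool} {B : Finset ℂ} {ξ : Conf PvPt}

/-- **RIGHT SURVIVES THE PREPARATION** (same completion, same cycle): the rim has the colour `!b` and misses the strip -/
theorem pvwj_right_paint (hR : 0 < R) (hN : CfNice S ξ) (hB : cfStripOn S b ξ ⊆ B) {P : PvbRim} {J : Set ℂ} (hP : PvwjRight x R (cfSites ξ) (cfCol ξ) P J) {k : ℕ} (hk : ‖P.v k - x‖ ≤ 6 * R)
    (hb : cfCol ξ (P.v k) = !b) (hoff : ∀ j, P.v j ∉ S) : PvwjRight x R (cfSites (cfPaint S b B ξ)) (cfCol (cfPaint S b B ξ)) P J := by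
  rw [cfPaint_sites]
  exact pvwj_right_at hR hP hk hb (fun _ hp => pvsb_col_anti hN hB hp) fun j _ => pvsb_col_off (hoff j)

/-- in a repainted configuration every site of the strip has one colour -/
theorem pvwj_paint_one (S : Set ℂ) (b : Bool) (B : Finset ℂ) (ξ : Conf PvPt) : ∀ p ∈ S, (p, true) ∈ (cfPaint S b B ξ).pts → (p, false) ∈ (cfPaint S b B ξ).pts → False := by
  intro p hp h1 h2
  rcases pvp_mem_paint.1 h1 with h1 | h1
  · exact h1.2 hp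
  · rcases pvp_mem_paint.1 h2 with h2 | h2
    · exact h2.2 hp
    · have e1 : true = if p ∈ B then b else !b := h1.2.2
      have e2 : false = if p ∈ B then b else !b := h2.2.2
      rw [← e1] at e2
      exact Bool.false_ne_true e2

end right

section main

variable {𝔤 : PvmhNum} (H : 𝔤.OK) {h R : ℝ} {x z : ℂ} {s : PvmhT 𝔤}

include H

/-- **THE RIM, RIGHT AND THE WHITE LANE IN ONE COMPLETION OF THE PREPARED CONFIGURATION** (what `exit_pinsP_five` feeds to `pvsj_evt`).      `ζ` = the sample configuration, `η = cfPaint J (!col) B ζ` -/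
theorem pvwj_main (hh : 0 < h) (hR : 0 < R) {P : PvbRim} {k : ℕ} (F : 𝔤.Fit h P k z s) {ζ : Conf PvPt} (hN : CfNice (pvspJ (𝔤.ty h z s)) ζ) {B : Finset ℂ}
    (hB : cfStripOn (pvspJ (𝔤.ty h z s)) (!s.typ.col) ζ ⊆ B) (hP : PvwjRight x R (cfSites ζ) (cfCol ζ) P (pvspJ (𝔤.ty h z s))) (hk : ‖P.v k - x‖ ≤ 6 * R) (hcol : cfCol ζ (P.v k) = s.typ.col)
    (hper : ∀ j, ∃ i ≤ P.len, P.v j = P.v i) (hzx : ‖z - x‖ + 𝔤.Lr * h ≤ 6 * R)
    (hA : cfPaint (pvspJ (𝔤.ty h z s)) (!s.typ.col) B ζ ∈ pvspLane 𝔤.sp (𝔤.ty h z s) h) :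
    ∃ (X : Type) (_ : Fintype X) (𝔅 : PvBulk X) (ξ : X → Bool) (c : (𝔅.T (cfSites (cfPaint (pvspJ (𝔤.ty h z s)) (!s.typ.col) B ζ))).Cyc),
      𝔅.Adm (cfSites (cfPaint (pvspJ (𝔤.ty h z s)) (!s.typ.col) B ζ)) ∧ 𝔅.Ok (cfSites (cfPaint (pvspJ (𝔤.ty h z s)) (!s.typ.col) B ζ)) (closedBall x (6 * R)) ∧
      c.IsRim (𝔅.col (cfPaint (pvspJ (𝔤.ty h z s)) (!s.typ.col) B ζ) ξ) ∧
      4 * R ≤ ‖𝔅.posF (cfSites (cfPaint (pvspJ (𝔤.ty h z s)) (!s.typ.col) B ζ)) (x + 7 * R) ((𝔅.T (cfSites (cfPaint (pvspJ (𝔤.ty h z s)) (!s.typ.col) B ζ))).src (c.e 0)) - x‖ ∧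
      P = 𝔅.enc (cfSites (cfPaint (pvspJ (𝔤.ty h z s)) (!s.typ.col) B ζ)) (x + 7 * R) c ∧
      ∃ (n : ℕ) (v : ℕ → 𝔅.V (cfSites (cfPaint (pvspJ (𝔤.ty h z s)) (!s.typ.col) B ζ))) (Jm Jp : ℕ),
        PvsjLane (𝔅.T (cfSites (cfPaint (pvspJ (𝔤.ty h z s)) (!s.typ.col) B ζ))) (𝔅.posF (cfSites (cfPaint (pvspJ (𝔤.ty h z s)) (!s.typ.col) B ζ)) (x + 7 * R)) ((𝔤.ty h z s).reg 𝔤.sp z h)
          (pvspS (𝔤.ty h z s).col (𝔅.col (cfPaint (pvspJ (𝔤.ty h z s)) (!s.typ.col) B ζ) ξ)) n v Jm Jp ∧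
        ∀ j, j ≤ n → v j ∈ (𝔅.T (cfSites (cfPaint (pvspJ (𝔤.ty h z s)) (!s.typ.col) B ζ))).Int c.Right := by
  have hoff : ∀ j, P.v j ∉ pvspJ (𝔤.ty h z s) := by
    intro j hj
    obtain ⟨i, hi, e⟩ := hper j
    have := pvmh_miss H hh F i hi _ hj
    rw [e, sub_self, norm_zero] at this
    exact absurd this (not_lt.2 (mul_pos H.dl0 hh).le)
  obtain ⟨X, hX, 𝔅, ξ, c, a1, a2, a3, a4, a5, a6⟩ := pvwj_right_paint hR hN hB hP hk (by rw [hcol, Bool.not_not]) hoff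
  obtain ⟨n, v, Jm, Jp, l1, l2⟩ := pvwj_lane H hh F hA (pvwj_paint_one _ _ _ _) a2 hzx ξ
  exact ⟨X, hX, 𝔅, ξ, c, a1, a2, a3, a4, a5, n, v, Jm, Jp, l1, fun j hj => a6 _ (l2 j hj)⟩

end main

end Claimed.Agent.R289
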