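-- KEEP
import Claimed.Agent.R289.Pl.Geo
import Claimed.Agent.R289.Pl.Bond
import Claimed.Agent.R289.Tr.Defs
import Claimed.Agent.R289.Del.Seam

/-!
# Row 289 (S0537), THE WALL, file Tr/Flag4G : THE GEOMETRIC HALF OF `DET` (E16, FLAG4)      (helper214; prefix `pvf4g_`, def `pvf4gA`; consumers 98 `Tr/Flag4D`, 71)

MODEL FREE over `PlGeo T pos` (`Pl/Geo`; at the model: `pvaw_geo_del`).      No colour, no probability.
* sec. 1  `pvf4gA T pos B y r` = the faces with their three vertices in `B` + the faces with a vertex in `closedBall y r`;   `pvf4g_A_tri` : their closed triangles lie in `B ∪ closedBall y (r + δ)` (`B` convex, mesh `δ` near `y`)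
* sec. 2  **`pvf4g_disc`** : THE DISC.   `A₁` = the dual component of `d₀` in `A₀ = pvf4gA`, `c` = its hull seen from the outer face `ep` (`pl_hull_at`).   `S` = a preconnected unbounded set off `B` and off the ball which contains the two tip apexes.
          Then `c.Left` is finite, contains `A₁`, all the sites of `closedBall y r₁` (`r₁ + δ ≤ r`) are INTERIOR vertices of the disc, and the two tip edges `opp ep`, `em` are darts of `c`.
          (No connectivity of the faces of the box is needed; no Jordan curve theorem: `plg_cyc_cross`, `plg_stay`.)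
* sec. 3  **`pvf4g_outer`** : the set `S` for a square `pvwSq z ρ`: two normal rays + four half planes.
* sec. 4  strands: `pvf4g_chain` (the faces crossed by a strand are dual joined inside every face set which contains them);   `pvf4g_del_mesh` (`VorDense` ⟹ the mesh hypothesis, `δ = 4 μ`);
          **`pvf4g_del_disc`** : the disc of a strand of the Delaunay plane which crosses a square (what `pvf4d_core` of `Tr/Flag4D` consumes)
-/

set_option autoImplicit false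

namespace Claimed.Agent.R289

open Set Metric Topology Relation

variable {V D : Type} {T : PvMap V D} {pos : V → ℂ}

/-! ## 1. the faces of the box and of the ball -/

/-- the faces with their three vertices in `B` and the faces with a vertex in `closedBall y r` -/
def pvf4gA (T : PvMap V D) (pos : V → ℂ) (B : Set ℂ) (y : ℂ) (r : ℝ) : Set D :=
  {d | (pos (T.src d) ∈ B ∧ pos (T.tgt d) ∈ B ∧ pos (T.apex d) ∈ B) ∨ (‖pos (T.src d) - y‖ ≤ r ∨ ‖pos (T.tgt d) - y‖ ≤ r ∨ ‖pos (T.apex d) - y‖ ≤ r)}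

theorem pvf4g_eqns_cite : True := by
  have := @pvf4gA.eq_1
  trivial

theorem pvf4g_A_face (T : PvMap V D) (pos : V → ℂ) (B : Set ℂ) (y : ℂ) (r : ℝ) : T.FaceSet (pvf4gA T pos B y r) := by
  intro d
  show ((pos (T.src (T.nxt d)) ∈ B ∧ pos (T.tgt (T.nxt d)) ∈ B ∧ pos (T.apex (T.nxt d)) ∈ B) ∨
      (‖pos (T.src (T.nxt d)) - y‖ ≤ r ∨ ‖pos (T.tgt (T.nxt d)) - y‖ ≤ r ∨ ‖pos (T.apex (T.nxt d)) - y‖ ≤ r)) ↔
    ((pos (T.src d) ∈ B ∧ pos (T.tgt d) ∈ B ∧ pos (T.apex d) ∈ B) ∨ (‖pos (T.src d) - y‖ ≤ r ∨ ‖pos (T.tgt d) - y‖ ≤ r ∨ ‖pos (T.apex d) - y‖ ≤ r))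
  rw [T.src_nxt, T.tgt_nxt, T.apex_nxt]
  tauto

/-- a closed triangle lies in every convex set which contains its vertices -/
theorem pvf4g_tri_sub {a b c : ℂ} (h : 0 < vorDet a b c) {C : Set ℂ} (hC : Convex ℝ C) (ha : a ∈ C) (hb : b ∈ C) (hc : c ∈ C) : delT a b c ⊆ C := by
  intro z hz
  obtain ⟨h1, h2, h3⟩ := hz
  have hs := dela_det_sum a b c z
  have hb' := plg_bary h z
  rw [hb']
  have key := hC.sum_mem (t := (Finset.univ : Finset (Fin 3))) (w := ![vorDet b c z / vorDet a b c, vorDet c a z / vorDet a b c, vorDet a b z / vorDet a b c]) (z := ![a, b, c])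
    (by
      intro i _
      fin_cases i
      · exact div_nonneg h2 h.le
      · exact div_nonneg h3 h.le
      · exact div_nonneg h1 h.le)
    (by
      rw [Fin.sum_univ_three]
      show vorDet b c z / vorDet a b c + vorDet c a z / vorDet a b c + vorDet a b z / vorDet a b c = 1
      rw [← add_div, ← add_div, div_eq_one_iff_eq h.ne']
      linarith)
    (by
      intro i _
      fin_cases i
      · exact ha
      · exact hb
      · exact hc)
  rw [Fin.sum_univ_three] at key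
  exact key

theorem pvf4g_face_sub (G : PlGeo T pos) {C : Set ℂ} (hC : Convex ℝ C) {d : D} (h1 : pos (T.src d) ∈ C) (h2 : pos (T.tgt d) ∈ C) (h3 : pos (T.apex d) ∈ C) : T.tri pos d ⊆ C :=
  pvf4g_tri_sub (G.orient d) hC h1 h2 h3

/-- the mesh hypothesis passes to the three vertices -/
theorem pvf4g_mesh3 {y : ℂ} {r δ : ℝ} (hm : ∀ d z, z ∈ T.tri pos d → ‖z - y‖ ≤ r → ‖pos (T.src d) - z‖ ≤ δ) {d : D} {z : ℂ} (hz : z ∈ T.tri pos d) (hzy : ‖z - y‖ ≤ r) :
    ‖pos (T.src d) - z‖ ≤ δ ∧ ‖pos (T.tgt d) - z‖ ≤ δ ∧ ‖pos (T.apex d) - z‖ ≤ δ := by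
  refine ⟨hm d z hz hzy, ?_, ?_⟩
  · have := hm (T.nxt d) z (by rw [plg_tri_nxt]; exact hz) hzy
    rwa [T.src_nxt] at this
  · have := hm (T.nxt (T.nxt d)) z (by rw [plg_tri_nxt, plg_tri_nxt]; exact hz) hzy
    rwa [T.src_nxt2] at this

/-- a face which meets `closedBall y r` lies in `closedBall y (r + δ)` -/
theorem pvf4g_near_tri (G : PlGeo T pos) {y : ℂ} {r δ : ℝ} (hm : ∀ d z, z ∈ T.tri pos d → ‖z - y‖ ≤ r → ‖pos (T.src d) - z‖ ≤ δ) {d : D} {z : ℂ} (hz : z ∈ T.tri pos d) (hzy : ‖z - y‖ ≤ r) :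
    T.tri pos d ⊆ closedBall y (r + δ) := by
  obtain ⟨h1, h2, h3⟩ := pvf4g_mesh3 hm hz hzy
  have key : ∀ w : ℂ, ‖w - z‖ ≤ δ → w ∈ closedBall y (r + δ) := by
    intro w hw
    rw [mem_closedBall, dist_eq_norm]
    have := norm_sub_le_norm_sub_add_norm_sub w z y
    linarith
  exact pvf4g_face_sub G (convex_closedBall y (r + δ)) (key _ h1) (key _ h2) (key _ h3)

/-- the closed triangles of the faces of `pvf4gA` -/
theorem pvf4g_A_tri (G : PlGeo T pos) {B : Set ℂ} (hB : Convex ℝ B) {y : ℂ} {r δ : ℝ} (hm : ∀ d z, z ∈ T.tri pos d → ‖z - y‖ ≤ r → ‖pos (T.src d) - z‖ ≤ δ)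
    {d : D} (hd : d ∈ pvf4gA T pos B y r) : T.tri pos d ⊆ B ∪ closedBall y (r + δ) := by
  rcases hd with ⟨h1, h2, h3⟩ | h | h | h
  · exact (pvf4g_face_sub G hB h1 h2 h3).trans subset_union_left
  · exact (pvf4g_near_tri G hm (plg_src_mem_tri G d) h).trans subset_union_right
  · exact (pvf4g_near_tri G hm (plg_tgt_mem_tri G d) h).trans subset_union_right
  · exact (pvf4g_near_tri G hm (plg_apex_mem_tri G d) h).trans subset_union_right

theorem pvf4g_A_finite (G : PlGeo T pos) {B : Set ℂ} (hBb : Bornology.IsBounded B) (y : ℂ) (r : ℝ) : (pvf4gA T pos B y r).Finite := by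
  obtain ⟨M, hM⟩ := hBb.subset_closedBall 0
  have hK : IsCompact (closedBall (0 : ℂ) M ∪ closedBall y r) := (isCompact_closedBall _ _).union (isCompact_closedBall _ _)
  refine (G.lf.finite_nonempty_inter_compact hK).subset ?_
  intro d hd
  have key : ∀ w : ℂ, ‖w - y‖ ≤ r → w ∈ closedBall (0 : ℂ) M ∪ closedBall y r := fun w hw => Or.inr (by rw [mem_closedBall, dist_eq_norm]; exact hw)
  rcases hd with ⟨h1, -, -⟩ | h | h | h
  · exact ⟨_, plg_src_mem_tri G d, Or.inl (hM h1)⟩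
  · exact ⟨_, plg_src_mem_tri G d, key _ h⟩
  · exact ⟨_, plg_tgt_mem_tri G d, key _ h⟩
  · exact ⟨_, plg_apex_mem_tri G d, key _ h⟩

/-! ## 2. the disc -/

/-- **THE DISC THROUGH THE TWO TIP EDGES** -/
theorem pvf4g_disc (hT : T.IsSph) (hS : T.Simple) (G : PlGeo T pos) {B : Set ℂ} (hB : Convex ℝ B) (hBb : Bornology.IsBounded B) {y : ℂ} {r r₁ δ : ℝ} (hδ0 : 0 ≤ δ) (hr : r₁ + δ ≤ r)
    (hm : ∀ d z, z ∈ T.tri pos d → ‖z - y‖ ≤ r → ‖pos (T.src d) - z‖ ≤ δ)
    {S : Set ℂ} (hSc : IsPreconnected S) (hSB : Disjoint S B) (hSy : Disjoint S (closedBall y (r + δ))) (hSu : ¬ Bornology.IsBounded S)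
    {d₀ ep em x₀ : D} (h0 : d₀ ∈ pvf4gA T pos B y r)
    (hp1 : T.DJoin {e | T.Bd (pvf4gA T pos B y r) e} d₀ (T.opp ep)) (hp2 : pos (T.apex ep) ∈ S)
    (hm1 : T.DJoin {e | T.Bd (pvf4gA T pos B y r) e} d₀ em) (hm2 : pos (T.apex (T.opp em)) ∈ S)
    (hx1 : T.DJoin {e | T.Bd (pvf4gA T pos B y r) e} d₀ x₀) (hx2 : ‖pos (T.src x₀) - y‖ ≤ r₁) :
    ∃ c : T.Cyc, c.Left.Finite ∧ (∀ d, T.DJoin {e | T.Bd (pvf4gA T pos B y r) e} d₀ d → d ∈ c.Left) ∧ (∀ d, ‖pos (T.src d) - y‖ ≤ r₁ → d ∈ c.Left) ∧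
      (∀ i, c.e i ∈ pvf4gA T pos B y r ∧ T.opp (c.e i) ∉ pvf4gA T pos B y r) ∧ (∃ j, c.e j = T.opp ep) ∧ (∃ j, c.e j = em) ∧ ep ∈ c.Right ∧ T.opp em ∈ c.Right := by
  set A₀ : Set D := pvf4gA T pos B y r with hA₀
  set Z : Set D := {e | T.Bd A₀ e} with hZ
  set A₁ : Set D := {d | T.DJoin Z d₀ d} with hA₁
  have hA₀f : T.FaceSet A₀ := pvf4g_A_face T pos B y r
  have hA₁f : T.FaceSet A₁ := pl_djoin_face Z d₀
  have hsub : A₁ ⊆ A₀ := fun d hd => (pl_side_dual hA₀f (fun e he => Or.inl he) hd).1 h0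
  have hA₀fin : A₀.Finite := pvf4g_A_finite G hBb y r
  -- leaving `A₁` = leaving `A₀`
  have hleave : ∀ d, d ∈ A₁ → T.opp d ∉ A₁ → T.opp d ∉ A₀ := by
    intro d hd hd' hd''
    apply hd'
    refine ReflTransGen.tail hd (Or.inr ⟨rfl, ?_⟩)
    have h1 : ¬ T.Bd A₀ d := fun h => h ⟨fun _ => hd'', fun _ => hsub hd⟩
    rintro (h | h)
    · exact h1 h
    · exact h1 (T.bd_opp.1 h)
  have hbdsub : {d | T.Bd A₁ d} ⊆ Z := by
    intro d hd
    by_cases hdA : d ∈ A₁
    · have h1 : T.opp d ∉ A₁ := fun h => hd ⟨fun _ => h, fun _ => hdA⟩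
      have h2 := hleave d hdA h1
      exact fun h => h2 (h.1 (hsub hdA))
    · have h1 : T.opp d ∈ A₁ := by
        by_contra h1
        exact hd ⟨fun h => absurd h hdA, fun h => absurd h h1⟩
      have h2 := hleave (T.opp d) h1 (by rw [T.opp_opp]; exact hdA)
      rw [T.opp_opp] at h2
      exact fun h => h2 (h.2 (hsub h1))
  have hbdfin : {d | T.Bd A₁ d}.Finite := by
    refine (hA₀fin.union (hA₀fin.preimage T.opp_injective.injOn)).subset ?_
    intro d hd
    by_cases h : d ∈ A₀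
    · exact Or.inl h
    · right
      by_contra h'
      exact (hbdsub hd) (iff_of_false h h')
  have htri : ∀ d ∈ A₀, T.tri pos d ⊆ B ∪ closedBall y (r + δ) := fun d hd => pvf4g_A_tri G hB hm hd
  have hSoff : ∀ w ∈ S, w ∉ B ∪ closedBall y (r + δ) := by
    rintro w hw (h | h)
    · exact Set.disjoint_left.1 hSB hw h
    · exact Set.disjoint_left.1 hSy hw h
  have hep0 : ep ∉ A₀ := fun h => hSoff _ hp2 (htri ep h (plg_apex_mem_tri G ep))
  have hep1 : ep ∉ A₁ := fun h => hep0 (hsub h)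
  obtain ⟨c, hc1, hc2, hc3⟩ := pl_hull_at hT hS hA₁f hbdfin ⟨d₀, ReflTransGen.refl⟩
    (fun a ha b hb => T.djoin_mono hbdsub ((T.djoin_symm ha).trans hb)) hep1
  obtain ⟨jR, jL, jO, jB⟩ := pl_jordan hT c
  have hc3' : ∀ i, c.e i ∈ A₀ ∧ T.opp (c.e i) ∉ A₀ := fun i => ⟨hsub (hc3 i).1, hleave _ (hc3 i).1 (hc3 i).2⟩
  have hpoly : ∀ w ∈ c.poly pos, w ∈ B ∪ closedBall y (r + δ) := by
    rintro w ⟨i, hw⟩
    exact htri _ (hc3' i).1 (plg_seg_sub_tri G _ hw)
  have hSpoly : Disjoint S (c.poly pos) := Set.disjoint_left.2 fun w hw hw' => hSoff w hw (hpoly w hw')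
  have hepR : ep ∈ c.Right := by rw [hc2]; exact ReflTransGen.refl
  have hSR : (S ∩ T.real pos c.Right).Nonempty := ⟨_, hp2, ep, hepR, plg_apex_mem_tri G ep⟩
  have hemR : T.opp em ∈ c.Right := by
    by_contra h
    have hL : T.opp em ∈ c.Left := by
      rw [jR] at h
      exact not_not.1 h
    obtain ⟨w, hw1, hw2⟩ := plg_cyc_cross hT G c hSc ⟨_, hm2, T.opp em, hL, plg_apex_mem_tri G _⟩ hSR
    exact Set.disjoint_left.1 hSpoly hw1 hw2
  have hdart : ∀ a, a ∈ c.Left → T.opp a ∈ c.Right → ∃ j, c.e j = a := by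
    intro a ha ha'
    have hE : T.Edg c.darts a := by
      by_contra hE
      rcases pl_edge_side hT c hE with h | h
      · rw [jR] at ha'
        exact ha' h.2
      · rw [jR] at h
        exact h.1 ha
    rcases hE with ⟨j, hj⟩ | ⟨j, hj⟩
    · exact ⟨j, hj⟩
    · exfalso
      rw [jR] at ha'
      exact ha' (hj ▸ jL j)
  refine ⟨c, ?_, fun d hd => hc1 hd, ?_, hc3', hdart _ (hc1 hp1) (by rw [T.opp_opp]; exact hepR), hdart _ (hc1 hm1) hemR, hepR, hemR⟩
  · -- finiteness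
    rcases pl_jordan_finite hT c with h | h
    · exact h
    · exfalso
      apply hSu
      have hcomp : IsCompact (T.real pos c.Right) := plg_isCompact_real G h
      refine hcomp.isBounded.subset ?_
      have hbd : T.bdReal pos c.Right = c.poly pos := by rw [jR, plg_bdReal_compl, plg_cyc_bd hT]
      have h1 := plg_stay hT G (pl_right_face c) hSc (by rw [hbd]; exact hSpoly) hSR
      intro w hw
      have h2 := h1 hw
      have h3 : w ∈ T.real pos c.Right ∪ T.real pos c.Rightᶜ := by rw [plg_union G]; trivial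
      rcases h3 with h3 | h3
      · exact h3
      · exact absurd h3 h2
  · -- the sites of the small ball are interior
    intro d hd
    by_contra hdL
    have hdR : d ∈ c.Right := by rw [jR]; exact hdL
    have hK : IsPreconnected (closedBall y r₁) := (convex_closedBall y r₁).isPreconnected
    obtain ⟨q, hq1, i, hq2⟩ := plg_cyc_cross hT G c hK
      ⟨_, by rw [mem_closedBall, dist_eq_norm]; exact hx2, x₀, hc1 hx1, plg_src_mem_tri G x₀⟩
      ⟨_, by rw [mem_closedBall, dist_eq_norm]; exact hd, d, hdR, plg_src_mem_tri G d⟩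
    rw [mem_closedBall, dist_eq_norm] at hq1
    have hδ : ‖pos (T.src (T.opp (c.e i))) - q‖ ≤ δ := by
      refine hm _ q (plg_seg_sub_tri G _ (by rw [plg_seg_opp]; exact hq2)) ?_
      linarith
    apply (hc3' i).2
    right; left
    have := norm_sub_le_norm_sub_add_norm_sub (pos (T.src (T.opp (c.e i)))) q y
    linarith

/-! ## 3. the outer set of a square -/

theorem pvf4g_norm_le {u v : ℂ} (h1 : |u.re| ≤ |v.re|) (h2 : |u.im| ≤ |v.im|) : ‖u‖ ≤ ‖v‖ := by
  rw [Complex.norm_eq_sqrt_sq_add_sq, Complex.norm_eq_sqrt_sq_add_sq]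
  exact Real.sqrt_le_sqrt (add_le_add (sq_le_sq.2 h1) (sq_le_sq.2 h2))

theorem pvf4g_ray_conn (a n : ℂ) : IsPreconnected ((fun s : ℝ => a + (s : ℂ) * n) '' Ici 0) :=
  (convex_Ici (0 : ℝ)).isPreconnected.image _ (by fun_prop)

/-- the four open half planes beyond the square of half side `ρ'` -/
def pvf4gE (z : ℂ) (ρ' : ℝ) : Set ℂ := (({w : ℂ | ρ' + z.re < w.re} ∪ {w : ℂ | ρ' + z.im < w.im}) ∪ {w : ℂ | w.re < z.re - ρ'}) ∪ {w : ℂ | w.im < z.im - ρ'}

theorem pvf4g_eqns_cite2 : True := by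
  have := @pvf4gE.eq_1
  trivial

theorem pvf4g_E_conn (z : ℂ) (ρ' : ℝ) : IsPreconnected (pvf4gE z ρ') := by
  unfold pvf4gE
  have hE : IsPreconnected {w : ℂ | ρ' + z.re < w.re} := (convex_halfSpace_re_gt _).isPreconnected
  have hN : IsPreconnected {w : ℂ | ρ' + z.im < w.im} := (convex_halfSpace_im_gt _).isPreconnected
  have hW : IsPreconnected {w : ℂ | w.re < z.re - ρ'} := (convex_halfSpace_re_lt _).isPreconnected
  have hS : IsPreconnected {w : ℂ | w.im < z.im - ρ'} := (convex_halfSpace_im_lt _).isPreconnected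
  have h1 : IsPreconnected ({w : ℂ | ρ' + z.re < w.re} ∪ {w : ℂ | ρ' + z.im < w.im}) := by
    refine IsPreconnected.union' ⟨⟨z.re + ρ' + 1, z.im + ρ' + 1⟩, ?_, ?_⟩ hE hN
    · show ρ' + z.re < z.re + ρ' + 1
      linarith
    · show ρ' + z.im < z.im + ρ' + 1
      linarith
  have h2 : IsPreconnected (({w : ℂ | ρ' + z.re < w.re} ∪ {w : ℂ | ρ' + z.im < w.im}) ∪ {w : ℂ | w.re < z.re - ρ'}) := by
    refine IsPreconnected.union' ⟨⟨z.re - ρ' - 1, z.im + ρ' + 1⟩, Or.inr ?_, ?_⟩ h1 hW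
    · show ρ' + z.im < z.im + ρ' + 1
      linarith
    · show z.re - ρ' - 1 < z.re - ρ'
      linarith
  refine IsPreconnected.union' ⟨⟨z.re + ρ' + 1, z.im - ρ' - 1⟩, Or.inl (Or.inl ?_), ?_⟩ h2 hS
  · show ρ' + z.re < z.re + ρ' + 1
    linarith
  · show z.im - ρ' - 1 < z.im - ρ'
    linarith

theorem pvf4g_E_sq {z : ℂ} {ρ ρ' : ℝ} (h : ρ ≤ ρ') : Disjoint (pvf4gE z ρ') (pvwSq z ρ) := by
  refine Set.disjoint_left.2 ?_
  rintro w hw ⟨h1, h2⟩
  rw [Complex.sub_re, abs_le] at h1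
  rw [Complex.sub_im, abs_le] at h2
  rcases hw with ((hw | hw) | hw) | hw
  · have : ρ' + z.re < w.re := hw
    linarith
  · have : ρ' + z.im < w.im := hw
    linarith
  · have : w.re < z.re - ρ' := hw
    linarith
  · have : w.im < z.im - ρ' := hw
    linarith

theorem pvf4g_E_ball {z y : ℂ} {ρ ρ' t : ℝ} (hy : y ∈ pvwSq z ρ) (h : ρ + t ≤ ρ') : Disjoint (pvf4gE z ρ') (closedBall y t) := by
  refine Set.disjoint_left.2 ?_
  intro w hw hwy
  rw [mem_closedBall, dist_eq_norm] at hwy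
  obtain ⟨h1, h2⟩ := hy
  rw [Complex.sub_re, abs_le] at h1
  rw [Complex.sub_im, abs_le] at h2
  have hre := (Complex.abs_re_le_norm (w - y)).trans hwy
  have him := (Complex.abs_im_le_norm (w - y)).trans hwy
  rw [Complex.sub_re, abs_le] at hre
  rw [Complex.sub_im, abs_le] at him
  rcases hw with ((hw | hw) | hw) | hw
  · have : ρ' + z.re < w.re := hw
    linarith
  · have : ρ' + z.im < w.im := hw
    linarith
  · have : w.re < z.re - ρ' := hw
    linarith
  · have : w.im < z.im - ρ' := hw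
    linarith

theorem pvf4g_E_unbdd (z : ℂ) (ρ' : ℝ) : ¬ Bornology.IsBounded (pvf4gE z ρ') := by
  intro hb
  obtain ⟨M, hM⟩ := hb.subset_closedBall z
  have hw : (⟨z.re + (|M| + |ρ'| + 1), z.im⟩ : ℂ) ∈ pvf4gE z ρ' := by
    refine Or.inl (Or.inl (Or.inl ?_))
    show ρ' + z.re < z.re + (|M| + |ρ'| + 1)
    have := le_abs_self ρ'
    have := abs_nonneg M
    linarith
  have h1 := hM hw
  rw [mem_closedBall, dist_eq_norm] at h1
  have h2 := (Complex.abs_re_le_norm _).trans h1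
  rw [Complex.sub_re] at h2
  have h3 : z.re + (|M| + |ρ'| + 1) - z.re = |M| + |ρ'| + 1 := by ring
  simp only [h3] at h2
  have := le_abs_self (|M| + |ρ'| + 1)
  have := le_abs_self M
  have := abs_nonneg ρ'
  linarith

/-- the normal ray from a point outside the square -/
theorem pvf4g_ray {z y a : ℂ} {ρ ρ' t : ℝ} (hy : y ∈ pvwSq z ρ) (ha : a ∉ pvwSq z ρ) (hay : t < ‖a - y‖) (hρ : ρ ≤ ρ') :
    ∃ L : Set ℂ, IsPreconnected L ∧ Disjoint L (pvwSq z ρ) ∧ Disjoint L (closedBall y t) ∧ a ∈ L ∧ (L ∩ pvf4gE z ρ').Nonempty := by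
  obtain ⟨hy1, hy2⟩ := hy
  rw [Complex.sub_re, abs_le] at hy1
  rw [Complex.sub_im, abs_le] at hy2
  have hcases : ρ < a.re - z.re ∨ a.re - z.re < -ρ ∨ ρ < a.im - z.im ∨ a.im - z.im < -ρ := by
    by_contra hno
    push Not at hno
    obtain ⟨h1, h2, h3, h4⟩ := hno
    exact ha ⟨by rw [Complex.sub_re, abs_le]; exact ⟨h2, h1⟩, by rw [Complex.sub_im, abs_le]; exact ⟨h4, h3⟩⟩
  have hs0 : (0 : ℝ) ≤ ρ' - ρ + 1 := by linarith
  have hball : ∀ w : ℂ, ‖a - y‖ ≤ ‖w - y‖ → w ∉ closedBall y t := by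
    intro w hw hw'
    rw [mem_closedBall, dist_eq_norm] at hw'
    linarith
  rcases hcases with h | h | h | h
  · refine ⟨_, pvf4g_ray_conn a 1, ?_, ?_, ⟨0, Set.self_mem_Ici, by simp⟩, ⟨_, ⟨ρ' - ρ + 1, hs0, rfl⟩, Or.inl (Or.inl (Or.inl ?_))⟩⟩
    · refine Set.disjoint_left.2 ?_
      rintro _ ⟨s, hs, rfl⟩ ⟨h1, -⟩
      have hs' : (0 : ℝ) ≤ s := hs
      simp only [mul_one, Complex.sub_re, Complex.add_re, Complex.ofReal_re] at h1
      rw [abs_le] at h1
      linarith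
    · refine Set.disjoint_left.2 ?_
      rintro _ ⟨s, hs, rfl⟩
      have hs' : (0 : ℝ) ≤ s := hs
      refine hball _ (pvf4g_norm_le ?_ ?_)
      · simp only [mul_one, Complex.sub_re, Complex.add_re, Complex.ofReal_re]
        rw [abs_of_nonneg (by linarith), abs_of_nonneg (by linarith)]
        linarith
      · simp only [mul_one, Complex.sub_im, Complex.add_im, Complex.ofReal_im, add_zero, le_refl]
    · show ρ' + z.re < (a + ((ρ' - ρ + 1 : ℝ) : ℂ) * 1).re
      simp only [mul_one, Complex.add_re, Complex.ofReal_re]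
      linarith
  · refine ⟨_, pvf4g_ray_conn a (-1), ?_, ?_, ⟨0, Set.self_mem_Ici, by simp⟩, ⟨_, ⟨ρ' - ρ + 1, hs0, rfl⟩, Or.inl (Or.inr ?_)⟩⟩
    · refine Set.disjoint_left.2 ?_
      rintro _ ⟨s, hs, rfl⟩ ⟨h1, -⟩
      have hs' : (0 : ℝ) ≤ s := hs
      simp only [mul_neg, mul_one, Complex.sub_re, Complex.add_re, Complex.neg_re, Complex.ofReal_re] at h1
      rw [abs_le] at h1
      linarith
    · refine Set.disjoint_left.2 ?_
      rintro _ ⟨s, hs, rfl⟩
      have hs' : (0 : ℝ) ≤ s := hs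
      refine hball _ (pvf4g_norm_le ?_ ?_)
      · simp only [mul_neg, mul_one, Complex.sub_re, Complex.add_re, Complex.neg_re, Complex.ofReal_re]
        rw [abs_of_nonpos (by linarith), abs_of_nonpos (by linarith)]
        linarith
      · simp only [mul_neg, mul_one, Complex.sub_im, Complex.add_im, Complex.neg_im, Complex.ofReal_im, neg_zero, add_zero, le_refl]
    · show (a + ((ρ' - ρ + 1 : ℝ) : ℂ) * (-1)).re < z.re - ρ'
      simp only [mul_neg, mul_one, Complex.add_re, Complex.neg_re, Complex.ofReal_re]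
      linarith
  · refine ⟨_, pvf4g_ray_conn a Complex.I, ?_, ?_, ⟨0, Set.self_mem_Ici, by simp⟩, ⟨_, ⟨ρ' - ρ + 1, hs0, rfl⟩, Or.inl (Or.inl (Or.inr ?_))⟩⟩
    · refine Set.disjoint_left.2 ?_
      rintro _ ⟨s, hs, rfl⟩ ⟨-, h1⟩
      have hs' : (0 : ℝ) ≤ s := hs
      simp only [Complex.sub_im, Complex.add_im, Complex.mul_im, Complex.ofReal_re, Complex.I_im, mul_one, Complex.ofReal_im, Complex.I_re, mul_zero, add_zero] at h1
      rw [abs_le] at h1
      linarith
    · refine Set.disjoint_left.2 ?_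
      rintro _ ⟨s, hs, rfl⟩
      have hs' : (0 : ℝ) ≤ s := hs
      refine hball _ (pvf4g_norm_le ?_ ?_)
      · simp only [Complex.sub_re, Complex.add_re, Complex.mul_re, Complex.ofReal_re, Complex.I_re, mul_zero, Complex.ofReal_im, Complex.I_im, mul_one, sub_self, add_zero, le_refl]
      · simp only [Complex.sub_im, Complex.add_im, Complex.mul_im, Complex.ofReal_re, Complex.I_im, mul_one, Complex.ofReal_im, Complex.I_re, mul_zero, add_zero]
        rw [abs_of_nonneg (by linarith), abs_of_nonneg (by linarith)]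
        linarith
    · show ρ' + z.im < (a + ((ρ' - ρ + 1 : ℝ) : ℂ) * Complex.I).im
      simp only [Complex.add_im, Complex.mul_im, Complex.ofReal_re, Complex.I_im, mul_one, Complex.ofReal_im, Complex.I_re, mul_zero, add_zero]
      linarith
  · refine ⟨_, pvf4g_ray_conn a (-Complex.I), ?_, ?_, ⟨0, Set.self_mem_Ici, by simp⟩, ⟨_, ⟨ρ' - ρ + 1, hs0, rfl⟩, Or.inr ?_⟩⟩
    · refine Set.disjoint_left.2 ?_
      rintro _ ⟨s, hs, rfl⟩ ⟨-, h1⟩
      have hs' : (0 : ℝ) ≤ s := hs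
      simp only [mul_neg, Complex.sub_im, Complex.add_im, Complex.neg_im, Complex.mul_im, Complex.ofReal_re, Complex.I_im, mul_one, Complex.ofReal_im, Complex.I_re, mul_zero, add_zero] at h1
      rw [abs_le] at h1
      linarith
    · refine Set.disjoint_left.2 ?_
      rintro _ ⟨s, hs, rfl⟩
      have hs' : (0 : ℝ) ≤ s := hs
      refine hball _ (pvf4g_norm_le ?_ ?_)
      · simp only [mul_neg, Complex.sub_re, Complex.add_re, Complex.neg_re, Complex.mul_re, Complex.ofReal_re, Complex.I_re, mul_zero, Complex.ofReal_im, Complex.I_im, mul_one, sub_self, neg_zero, add_zero, le_refl]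
      · simp only [mul_neg, Complex.sub_im, Complex.add_im, Complex.neg_im, Complex.mul_im, Complex.ofReal_re, Complex.I_im, mul_one, Complex.ofReal_im, Complex.I_re, mul_zero, add_zero]
        rw [abs_of_nonpos (by linarith), abs_of_nonpos (by linarith)]
        linarith
    · show (a + ((ρ' - ρ + 1 : ℝ) : ℂ) * (-Complex.I)).im < z.im - ρ'
      simp only [mul_neg, Complex.add_im, Complex.neg_im, Complex.mul_im, Complex.ofReal_re, Complex.I_im, mul_one, Complex.ofReal_im, Complex.I_re, mul_zero, add_zero]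
      linarith

/-- **THE OUTER SET**: two points outside the square, at distance `> t` from a point `y` of the square, lie in a preconnected unbounded set off the square and off `closedBall y t` -/
theorem pvf4g_outer {z y a a' : ℂ} {ρ t : ℝ} (hy : y ∈ pvwSq z ρ) (ha : a ∉ pvwSq z ρ) (ha' : a' ∉ pvwSq z ρ) (hay : t < ‖a - y‖) (ha'y : t < ‖a' - y‖) :
    ∃ S : Set ℂ, IsPreconnected S ∧ Disjoint S (pvwSq z ρ) ∧ Disjoint S (closedBall y t) ∧ ¬ Bornology.IsBounded S ∧ a ∈ S ∧ a' ∈ S := by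
  have hρ' : ρ ≤ ρ + |t| := by have := abs_nonneg t; linarith
  obtain ⟨L, l1, l2, l3, l4, l5⟩ := pvf4g_ray hy ha hay hρ'
  obtain ⟨L', l1', l2', l3', l4', l5'⟩ := pvf4g_ray hy ha' ha'y hρ'
  have hE := pvf4g_E_conn z (ρ + |t|)
  have h1 : IsPreconnected (L ∪ pvf4gE z (ρ + |t|)) := IsPreconnected.union' l5 l1 hE
  have h2 : IsPreconnected (L' ∪ (L ∪ pvf4gE z (ρ + |t|))) := by
    obtain ⟨w, hw1, hw2⟩ := l5'
    exact IsPreconnected.union' ⟨w, hw1, Or.inr hw2⟩ l1' h1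
  refine ⟨_, h2, ?_, ?_, ?_, Or.inr (Or.inl l4), Or.inl l4'⟩
  · exact Disjoint.union_left l2' (Disjoint.union_left l2 (pvf4g_E_sq hρ'))
  · exact Disjoint.union_left l3' (Disjoint.union_left l3 (pvf4g_E_ball hy (by have := le_abs_self t; linarith)))
  · intro hb
    exact pvf4g_E_unbdd z _ (hb.subset fun w hw => Or.inr (Or.inr hw))

theorem pvf4g_sq_convex (z : ℂ) (ρ : ℝ) : Convex ℝ (pvwSq z ρ) := by
  have e : pvwSq z ρ = ({w : ℂ | z.re - ρ ≤ w.re} ∩ {w : ℂ | w.re ≤ z.re + ρ}) ∩ ({w : ℂ | z.im - ρ ≤ w.im} ∩ {w : ℂ | w.im ≤ z.im + ρ}) := by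
    ext w
    simp only [pvwSq, Set.mem_ofPred_eq, Set.mem_inter_iff, Complex.sub_re, Complex.sub_im, abs_le]
    constructor
    · rintro ⟨⟨h1, h2⟩, h3, h4⟩
      exact ⟨⟨by linarith, by linarith⟩, by linarith, by linarith⟩
    · rintro ⟨⟨h1, h2⟩, h3, h4⟩
      exact ⟨⟨by linarith, by linarith⟩, by linarith, by linarith⟩
  rw [e]
  exact ((convex_halfSpace_re_ge _).inter (convex_halfSpace_re_le _)).inter ((convex_halfSpace_im_ge _).inter (convex_halfSpace_im_le _))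

theorem pvf4g_sq_bdd (z : ℂ) (ρ : ℝ) : Bornology.IsBounded (pvwSq z ρ) := by
  refine (isBounded_closedBall (x := z) (r := |ρ| + |ρ|)).subset ?_
  rintro w ⟨h1, h2⟩
  rw [mem_closedBall, dist_eq_norm]
  have := Complex.norm_le_abs_re_add_abs_im (w - z)
  have := le_abs_self ρ
  linarith

/-! ## 4. strands; the Delaunay plane -/

/-- the faces crossed by a strand are dual joined inside every face set which contains them -/
theorem pvf4g_chain {A : Set D} (hA : T.FaceSet A) {s : V → Bool} {a : D} {n : ℕ} (h : pvasFc T s a n ⊆ A) (i : ℕ) (hi : i < n) :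
    T.DJoin {e | T.Bd A e} a (pvasIt T s a i) ∧ T.DJoin {e | T.Bd A e} a (T.opp (pvasIt T s a (i + 1))) := by
  have hmem : ∀ j, j < n → pvasIt T s a j ∈ A := fun j hj => h ⟨j, hj, Or.inl rfl⟩
  have hstep : ∀ j, T.DJoin {e | T.Bd A e} a (pvasIt T s a j) → T.DJoin {e | T.Bd A e} a (T.opp (pvasIt T s a (j + 1))) := by
    intro j hj
    rw [pvas_it_succ]
    rcases pvas_step_cases s (pvasIt T s a j) with ⟨-, e⟩ | ⟨-, e⟩
    · rw [e, T.opp_opp]
      exact hj.tail (Or.inl rfl)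
    · rw [e, T.opp_opp]
      exact (hj.tail (Or.inl rfl)).tail (Or.inl rfl)
  have key : ∀ j, j < n → T.DJoin {e | T.Bd A e} a (pvasIt T s a j) := by
    intro j
    induction j with
    | zero => intro _; exact ReflTransGen.refl
    | succ j ih =>
      intro hj
      have h1 := hstep j (ih (by omega))
      have h2 : T.opp (pvasIt T s a (j + 1)) ∈ A := (pl_side_dual hA (fun e he => Or.inl he) h1).1 (hmem 0 (by omega))
      have h3 : pvasIt T s a (j + 1) ∈ A := hmem _ hj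
      have h4 : ¬ T.Bd A (pvasIt T s a (j + 1)) := fun hb => hb ⟨fun _ => h2, fun _ => h3⟩
      have h5 := h1.tail (b := T.opp (pvasIt T s a (j + 1))) (c := pvasIt T s a (j + 1)) (Or.inr ⟨(T.opp_opp _).symm, ?_⟩)
      · exact h5
      · rintro (hb | hb)
        · exact h4 (T.bd_opp.1 hb)
        · rw [T.opp_opp] at hb
          exact h4 hb
  exact ⟨key i hi, hstep i (key i hi)⟩

theorem pvf4g_chain_fc {A : Set D} (hA : T.FaceSet A) {s : V → Bool} {a : D} {n : ℕ} (h : pvasFc T s a n ⊆ A) {f : D} (hf : f ∈ pvasFc T s a n) : T.DJoin {e | T.Bd A e} a f := by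
  obtain ⟨i, hi, hsf⟩ := hf
  have h1 := (pvf4g_chain hA h i hi).1
  rcases hsf with rfl | rfl | rfl
  · exact h1
  · exact h1.tail (Or.inl rfl)
  · exact (h1.tail (Or.inl rfl)).tail (Or.inl rfl)

/-- **MESH**: where the sites are `μ`-dense the Delaunay triangles have circumradius `< 2 μ` -/
theorem pvf4g_del_mesh {Y : Set ℂ} (h : DelGood Y) {y₀ : ℂ} {r μ : ℝ} (hμ : 0 < μ) (hd : VorDense Y (closedBall y₀ (r + 2 * μ)) μ) (d : DelDart h) (z : ℂ)
    (hz : z ∈ (delMap h).tri (dlsPos Y) d) (hzy : ‖z - y₀‖ ≤ r) : ‖dlsPos Y ((delMap h).src d) - z‖ ≤ 4 * μ := by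
  have ht := dls_face d
  set a : ℂ := (((delMap h).src d : Y) : ℂ) with ha
  set b : ℂ := (((delMap h).tgt d : Y) : ℂ) with hb
  set c : ℂ := (((delMap h).apex d : Y) : ℂ) with hc
  have hz' : z ∈ delT a b c := hz
  have hball : z ∈ closedBall (delO a b c) ‖delO a b c - a‖ := by
    refine pvf4g_tri_sub ht.left (convex_closedBall _ _) ?_ ?_ ?_ hz'
    · rw [mem_closedBall, dist_eq_norm, norm_sub_rev]
    · rw [mem_closedBall, dist_eq_norm, norm_sub_rev, ← del_O_ab]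
    · rw [mem_closedBall, dist_eq_norm, norm_sub_rev, ← del_O_ac ht.left.ne']
  rw [mem_closedBall, dist_eq_norm] at hball
  have hd' : VorDense Y (vorNbd (closedBall y₀ r) (2 * μ)) μ := by
    refine hd.mono subset_rfl ?_ le_rfl
    rintro w ⟨w', hw', hww'⟩
    rw [mem_closedBall, dist_eq_norm] at hw' ⊢
    have := norm_sub_le_norm_sub_add_norm_sub w w' y₀
    linarith
  have hrad := delp_empty_disc hμ.le (by linarith : μ < 2 * μ) hd' ht.O_mem_a (w := z) (by rw [mem_closedBall, dist_eq_norm]; exact hzy) hball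
  show ‖a - z‖ ≤ 4 * μ
  have h1 := norm_sub_le_norm_sub_add_norm_sub a (delO a b c) z
  rw [norm_sub_rev a (delO a b c), norm_sub_rev (delO a b c) z] at h1
  linarith

/-- **THE DISC OF A STRAND OF THE DELAUNAY PLANE** which crosses the square `pvwSq z r`: finite, contains the faces crossed by the strand and all the darts which start at a site of `closedBall y₀ (4R)`;
the face in front of the last position and the face behind the first position are outside -/
theorem pvf4g_del_disc {Y : Set ℂ} (h : DelGood Y) (s : Y → Bool) {a : DelDart h} {n : ℕ} (hn : 0 < n) {z y₀ : ℂ} {r R μ : ℝ}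
    (hbox : ∀ v ∈ (delMap h).VOf (pvasFc (delMap h) s a n), (v : ℂ) ∈ pvwSq z r)
    (hp : (((delMap h).apex (pvasIt (delMap h) s a n) : Y) : ℂ) ∉ pvwSq z r) (hm : (((delMap h).apex ((delMap h).opp a) : Y) : ℂ) ∉ pvwSq z r)
    (hy₀ : y₀ ∈ pvwSq z r) (hμ : 0 < μ) (hd : VorDense Y (vorNbd (pvwSq z r) (4 * R + 6 * μ)) μ)
    (hfp : 4 * R + 8 * μ < ‖(((delMap h).apex (pvasIt (delMap h) s a n) : Y) : ℂ) - y₀‖)
    (hfm : 4 * R + 8 * μ < ‖(((delMap h).apex ((delMap h).opp a) : Y) : ℂ) - y₀‖)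
    {x₀ : DelDart h} (hx : x₀ ∈ pvasFc (delMap h) s a n) (hx' : ‖(((delMap h).src x₀ : Y) : ℂ) - y₀‖ ≤ 4 * R) :
    ∃ c : (delMap h).Cyc, c.Left.Finite ∧ pvasFc (delMap h) s a n ⊆ c.Left ∧ (∀ d : DelDart h, ‖(((delMap h).src d : Y) : ℂ) - y₀‖ ≤ 4 * R → d ∈ c.Left) ∧
      pvasIt (delMap h) s a n ∉ c.Left ∧ (delMap h).opp a ∉ c.Left := by
  have G : PlGeo (delMap h) (dlsPos Y) := plg_del h
  have hT := dls_isSph h
  obtain ⟨S, s1, s2, s3, s4, s5, s6⟩ := pvf4g_outer hy₀ hp hm hfp hfm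
  have hd' : VorDense Y (closedBall y₀ (4 * R + 4 * μ + 2 * μ)) μ := by
    refine hd.mono subset_rfl ?_ le_rfl
    intro w hw
    rw [mem_closedBall, dist_eq_norm] at hw
    exact ⟨y₀, hy₀, by linarith⟩
  have hAf := pvf4g_A_face (delMap h) (dlsPos Y) (pvwSq z r) y₀ (4 * R + 4 * μ)
  have hsub : pvasFc (delMap h) s a n ⊆ pvf4gA (delMap h) (dlsPos Y) (pvwSq z r) y₀ (4 * R + 4 * μ) := by
    intro f hf
    have hff : (delMap h).FaceSet (pvasFc (delMap h) s a n) := by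
      intro d
      constructor
      · rintro ⟨i, hi, hsf⟩
        exact ⟨i, hi, (delMap h).sf_trans hsf ((delMap h).sf_symm ((delMap h).sf_nxt d))⟩
      · rintro ⟨i, hi, hsf⟩
        exact ⟨i, hi, (delMap h).sf_trans hsf ((delMap h).sf_nxt d)⟩
    refine Or.inl ⟨hbox _ ⟨f, hf, rfl⟩, hbox _ ⟨(delMap h).nxt f, (hff f).2 hf, rfl⟩, hbox _ ⟨(delMap h).nxt ((delMap h).nxt f), (hff _).2 ((hff f).2 hf), rfl⟩⟩
  have ha0 : a ∈ pvasFc (delMap h) s a n := ⟨0, hn, Or.inl rfl⟩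
  have hlast := (pvf4g_chain hAf hsub (n - 1) (by omega)).2
  rw [show n - 1 + 1 = n by omega] at hlast
  obtain ⟨c, c1, c2, c3, -, -, -, c7, c8⟩ := pvf4g_disc hT (dls_simple h) G (pvf4g_sq_convex z r) (pvf4g_sq_bdd z r) (y := y₀) (r := 4 * R + 4 * μ) (r₁ := 4 * R) (δ := 4 * μ)
    (by linarith) (by linarith) (fun d w hw hwy => pvf4g_del_mesh h hμ hd' d w hw hwy) s1 s2 (by rw [show 4 * R + 4 * μ + 4 * μ = 4 * R + 8 * μ by ring]; exact s3) s4
    (d₀ := a) (ep := pvasIt (delMap h) s a n) (em := a) (x₀ := x₀) (hsub ha0) hlast s5 ReflTransGen.refl s6 (pvf4g_chain_fc hAf hsub hx) hx'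
  have jR := (pl_jordan hT c).1
  refine ⟨c, c1, fun f hf => c2 f (pvf4g_chain_fc hAf hsub hf), c3, ?_, ?_⟩
  · rw [jR] at c7; exact c7
  · rw [jR] at c8; exact c8

end Claimed.Agent.R289
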