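import Claimed.Agent.R289.Tr.FlagA
import Claimed.Agent.R289.Arm.GateA
import Claimed.Agent.R289.Arm.Count
import Claimed.Agent.R289.Arm.Transfer
import Claimed.Agent.R289.Tr.Dense

/-!
# Row 289 (S0537, Cardy for Poisson-Voronoi), WALL, chapter C, A6 (G8/G9 instance), file Tr/FlagFive : THE FIVE-ARM FLAGS `F_i(Q, b)` AS STATIC EVENTS      (owner helper238; prefix `pvff_`, defs `pvff…`, `Pvff…`)

REQUEST of 281 (09:58Z, (4)): "`F_i(Q,b)` must be local: instance please".      CONSUMERS: `pvtd_cbx_le`, `pvtd_cbx_reads` (101, `Tr/Dense` sec. 11: hypotheses `hr`, `hK`), `pvaga_good` / `pvaga_DI` (281, `Arm/GateA`: hypothesis `hlight`, flags `G.F s i Q b = PvagaFl T s (G.k0 i Q) (G.k1 i b) (G.k2 i b)`).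

DESIGN.   The cycles of `PvagaGeo` are CHOSEN on each completion, so the static flag is the UPPER ENVELOPE over all cycles at the prescribed radii:
`pvffP` := "there are cycles `k0 k1 k2` AT the rings number `(0,1) (2,3) (4,5)` with `PvagaFl T s k0 k1 k2`".      It is canonical (no choice), local (`pvff_local`), it contains `G.F` for every `G` whose cycles are at these rings (`pvff_of_fl`),
and CONFIG5 is MONOTONE in the cycles (`pvff_cfg_mono`: smaller outer disc, bigger inner discs), so on the frame event it is contained in CONFIG5 of the frame cycles, which is what `pvau_five_ex_sum` (89 / 249) counts.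

* sec. 1  `pvffTest S` marks = finitely many Borel tests, `pvffAny n`
* sec. 2  `PvffAt T mk i o c` = `PvaxAt` (196) in marks form, `pvff_at_iff`;   transfer along a `PvplIso`: `PvplIso.at_tr`
* sec. 3  `pvffP`, **`pvff_local`**
* sec. 4  `pvff_run_restart`, `pvff_lay_shift`, **`pvff_cfg_mono`**
* sec. 5  **`pvff_quenched`** : on a map with a `PvauChain` placed inside/outside the rings: `∑_b pvaP A ξ (pvffP_b) ≤ 2 (q q)⁻¹ Cl pvbkM 2 2 (1 - q)`
* sec. 6  **`pvff_anneal_sum`** : GENERIC ANNEALING OF A FIRST MOMENT (sum form of `pvfa_anneal` of 235)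
* sec. 7  `pvff_chain` : `PvaxFrame` ⟹ `PvauChain` on the Delaunay plane (ratio 13)
* sec. 8  **`pvff_exit`** : the flags of one cell: measurable, read from a ball round the cell, `PvplRep`, first moment `≤ K(q, Cl)` for small `ε`;   consumer forms
-/

set_option autoImplicit false
set_option linter.unusedSectionVars false
set_option linter.unusedVariables false

namespace Claimed.Agent.R289

open MeasureTheory Set Filter Topology Metric Claims.C0465
open scoped ENNReal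

/-! ## 1. marks = finitely many Borel tests -/

section test

variable {n : ℕ}

open Classical in
/-- the vector of the tests `p ∈ S i` -/
noncomputable def pvffTest (S : Fin n → Set ℂ) (p : ℂ) : Fin n → Bool := fun i => decide (p ∈ S i)

/-- some test is positive -/
def pvffAny (n : ℕ) : Set (Fin n → Bool) := {f | ∃ i, f i = true}

theorem pvff_eqns_cite : True := by
  have := @pvffTest.eq_1; have := @pvffAny.eq_1
  trivial

theorem pvff_test_iff (S : Fin n → Set ℂ) (p : ℂ) (i : Fin n) : pvffTest S p i = true ↔ p ∈ S i := by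
  classical
  unfold pvffTest
  exact decide_eq_true_iff

theorem pvff_test_measurable {S : Fin n → Set ℂ} (hS : ∀ i, MeasurableSet (S i)) : Measurable (pvffTest S) := by
  classical
  refine measurable_pi_iff.2 fun i => ?_
  refine measurable_to_bool ?_
  have : (fun p => pvffTest S p i) ⁻¹' {true} = S i := by
    ext p
    exact pvff_test_iff S p i
  rw [this]
  exact hS i

theorem pvff_any_preimage (S : Fin n → Set ℂ) : pvffTest S ⁻¹' pvffAny n = ⋃ i, S i := by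
  ext p
  simp only [mem_preimage, pvffAny, mem_ofPred_eq, pvff_test_iff, mem_iUnion]

end test

/-! ## 2. cycles at rings, in marks form -/

section atr

variable {n : ℕ} {V D V' D' : Type}

/-- `PvaxAt` in marks form: the vertices with the test `i` are interior vertices of the disc, the vertices of the disc have the test `o` -/
structure PvffAt (T : PvMap V D) (mk : V → Fin n → Bool) (i o : Fin n) (c : T.Cyc) : Prop where
  fin : c.Left.Finite
  edge : ∀ j, c.e j ∈ c.Left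
  inn : ∀ v, mk v i = true → v ∈ T.Int c.Left
  out : ∀ v ∈ T.VOf c.Left, mk v o = true

theorem pvff_at_iff {T : PvMap V D} (hT : T.IsSph) (pos : V → ℂ) (S : Fin n → Set ℂ) {i o : Fin n} {z : ℂ} {r r' : ℝ} (hi : S i = closedBall z r) (ho : S o = ball z r') (c : T.Cyc) :
    PvffAt T (fun v => pvffTest S (pos v)) i o c ↔ PvaxAt T pos z r r' c := by
  constructor
  · intro h
    refine ⟨h.fin, fun v hv => h.inn v ?_, fun v hv => ?_⟩
    · rw [pvff_test_iff, hi, mem_closedBall, dist_eq_norm]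
      exact hv
    · have := h.out v hv
      rw [pvff_test_iff, ho, mem_ball, dist_eq_norm] at this
      exact this
  · intro h
    refine ⟨h.fin, plc_e_left hT c, fun v hv => h.inn v ?_, fun v hv => ?_⟩
    · rw [pvff_test_iff, hi, mem_closedBall, dist_eq_norm] at hv
      exact hv
    · rw [pvff_test_iff, ho, mem_ball, dist_eq_norm]
      exact h.out v hv

variable {T : PvMap V D} {mk : V → Fin n → Bool} {s : V → Bool} {T' : PvMap V' D'} {mk' : V' → Fin n → Bool} {s' : V' → Bool} {R : V → V' → Prop}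

/-- a `PvplIso` of simple maps in the vocabulary of `Arm/Transfer` (97) -/
theorem PvplIso.ffIsoV {κ : Type} {mk : V → κ} {mk' : V' → κ} {K : Set κ} (h : PvplIso T mk s T' mk' s' K R) (hS : T.Simple) (hS' : T'.Simple) : PlIsoV T T' (pvplRK T mk T' K R) :=
  { (h.toLoc hS hS').iso with
    vfn := (h.toLoc hS hS').vfn
    vinj := (h.toLoc hS hS').vinj }

theorem PvplIso.ffCol {κ : Type} {mk : V → κ} {mk' : V' → κ} {K : Set κ} (h : PvplIso T mk s T' mk' s' K R) : ArmxCol T T' (pvplRK T mk T' K R) s s' :=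
  fun _ _ hd => (h.col _ _ hd.1.1).symm

/-- **a cycle at a ring goes to a cycle at the same ring** -/
theorem PvplIso.at_tr (h : PvplIso T mk s T' mk' s' (pvffAny n) R) (hS : T.Simple) (hS' : T'.Simple) {i o : Fin n} {c : T.Cyc} (hc : PvffAt T mk i o c) :
    ∃ c' : T'.Cyc, ArmxCyc (pvplRK T mk T' (pvffAny n) R) c c' ∧ ArmxFS (pvplRK T mk T' (pvffAny n) R) c.Left c'.Left ∧ PvffAt T' mk' i o c' := by
  have hI := h.ffIsoV hS hS'
  have hdom : c.Left ⊆ plDom (pvplRK T mk T' (pvffAny n) R) := by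
    intro d hd
    have hk : mk (T.src d) ∈ pvffAny n := ⟨o, hc.out _ ⟨d, hd, rfl⟩⟩
    obtain ⟨d', hd'⟩ := h.ex d hk
    exact ⟨d', hd', Or.inl hk⟩
  obtain ⟨c', hcc⟩ := armx_cyc_exists hI c (fun j => hdom (hc.edge j))
  have hL := armx_left hI hcc hdom
  refine ⟨c', hcc, hL, ?_, fun j => (hL.2.2 _ _ (hcc.2 j)).1 (hc.edge j), ?_, ?_⟩
  · refine (hc.fin.biUnion (t := fun d => {d' | pvplRK T mk T' (pvffAny n) R d d'}) fun d _ => ?_).subset ?_
    · exact Set.Subsingleton.finite fun a ha b hb => hI.fn ha hb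
    · intro d' hd'
      obtain ⟨d, hr⟩ := hL.2.1 hd'
      exact mem_iUnion₂.2 ⟨d, (hL.2.2 d d' hr).2 hd', hr⟩
  · intro v' hv' d' hd'
    subst hd'
    have hk' : mk' (T'.src d') ∈ pvffAny n := ⟨i, hv'⟩
    obtain ⟨d, hd⟩ := h.ex' d' hk'
    have hm : mk' (T'.src d') = mk (T.src d) := h.mark _ _ hd.1
    have hk : mk (T.src d) ∈ pvffAny n := by rw [← hm]; exact hk'
    have hr : pvplRK T mk T' (pvffAny n) R d d' := ⟨hd, Or.inl hk⟩
    refine (hL.2.2 d d' hr).1 (hc.inn (T.src d) ?_ d rfl)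
    rw [← hm]
    exact hv'
  · rintro v' ⟨d', hd', rfl⟩
    obtain ⟨d, hr⟩ := hL.2.1 hd'
    rw [h.mark _ _ hr.1.1]
    exact hc.out _ ⟨d, (hL.2.2 d d' hr).2 hd', rfl⟩

end atr

/-! ## 3. the five-arm flag -/

section five

variable {n : ℕ}

/-- **THE FIVE-ARM FLAG**: CONFIG5 (for `s` or for the exchanged colouring) for SOME cycles at the three rings -/
def pvffP (i0 o0 i1 o1 i2 o2 : Fin n) : PvplPred (Fin n → Bool) := fun _ _ T mk s =>
  ∃ k0 k1 k2 : T.Cyc, PvffAt T mk i0 o0 k0 ∧ PvffAt T mk i1 o1 k1 ∧ PvffAt T mk i2 o2 k2 ∧ PvagaFl T s k0 k1 k2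

theorem pvff_eqns_cite2 : True := by
  have := @pvffP.eq_1
  trivial

/-- **LOCALITY** -/
theorem pvff_local (i0 o0 i1 o1 i2 o2 : Fin n) : (pvffP i0 o0 i1 o1 i2 o2).Local (pvffAny n) := by
  have key : ∀ (V D V' D' : Type) (T : PvMap V D) (mk : V → Fin n → Bool) (s : V → Bool) (T' : PvMap V' D') (mk' : V' → Fin n → Bool) (s' : V' → Bool) (R : V → V' → Prop),
      T.Simple → T'.Simple → PvplIso T mk s T' mk' s' (pvffAny n) R → pvffP i0 o0 i1 o1 i2 o2 V D T mk s → pvffP i0 o0 i1 o1 i2 o2 V' D' T' mk' s' := by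
    rintro V D V' D' T mk s T' mk' s' R hS hS' h ⟨k0, k1, k2, a0, a1, a2, hfl⟩
    obtain ⟨k0', -, l0, b0⟩ := h.at_tr hS hS' a0
    obtain ⟨k1', -, l1, b1⟩ := h.at_tr hS hS' a1
    obtain ⟨k2', -, l2, b2⟩ := h.at_tr hS hS' a2
    refine ⟨k0', k1', k2', b0, b1, b2, ?_⟩
    have hI := h.ffIsoV hS hS'
    have hcol := h.ffCol
    rcases hfl with ⟨x, x2, x4, n1, n2, n4, hc⟩ | ⟨x, x2, x4, n1, n2, n4, hc⟩
    · obtain ⟨x', hx⟩ := l0.1 hc.r1.ent.1
      obtain ⟨x2', hx2⟩ := l0.1 hc.r2.ent.1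
      obtain ⟨x4', hx4⟩ := l0.1 hc.r4.ent.1
      exact Or.inl ⟨x', x2', x4', n1, n2, n4, armx_cfg hI hcol l0 l1 l2 hx hx2 hx4 hc⟩
    · obtain ⟨x', hx⟩ := l0.1 hc.r1.ent.1
      obtain ⟨x2', hx2⟩ := l0.1 hc.r2.ent.1
      obtain ⟨x4', hx4⟩ := l0.1 hc.r4.ent.1
      exact Or.inr ⟨x', x2', x4', n1, n2, n4, armx_cfg hI hcol.not l0 l1 l2 hx hx2 hx4 hc⟩
  intro V D V' D' T mk s T' mk' s' R hS hS' h
  exact ⟨key _ _ _ _ _ _ _ _ _ _ _ hS hS' h, key _ _ _ _ _ _ _ _ _ _ _ hS' hS h.symm⟩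

end five

/-! ## 4. CONFIG5 is monotone in the cycles -/

section mono

variable {V D : Type} {T : PvMap V D}

theorem pvff_lay_shift (s : V → Bool) (x : D) (k m : ℕ) : pvatLay T s (pvasIt T s x k) m ⊆ pvatLay T s x (k + m) := by
  rintro v (⟨i, hi, rfl⟩ | ⟨i, hi, rfl⟩)
  · exact Or.inl ⟨k + i, by omega, by rw [pvas_it_add]⟩
  · exact Or.inr ⟨k + i, by omega, by rw [pvas_it_add]⟩

theorem pvff_lay_mono (s : V → Bool) (x : D) {m n : ℕ} (h : m ≤ n) : pvatLay T s x m ⊆ pvatLay T s x n :=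
  Set.union_subset_union (pvas_layB_mono s x h) (pvas_layW_mono s x h)

/-- a run to `A` contains a run to a bigger target -/
theorem pvff_run_stop {B A A' : Set D} (hAA' : A ⊆ A') {s : V → Bool} {x : D} {n : ℕ} (h : PvatRun T B A s x n) :
    ∃ m, m ≤ n ∧ PvatRun T B A' s x m := by
  classical
  have hex : ∃ m, pvasIt T s x m ∈ A' := ⟨n, hAA' h.hit⟩
  have hle : Nat.find hex ≤ n := Nat.find_min' hex (hAA' h.hit)
  exact ⟨Nat.find hex, hle, h.ent, fun k hk => ⟨(h.mid k (by omega)).1, Nat.find_min hex hk⟩, Nat.find_spec hex⟩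

/-- a run from the boundary of `B` contains a run from the boundary of a smaller face set `B'` -/
theorem pvff_run_restart {B B' A : Set D} (hB' : T.FaceSet B') (hAB' : A ⊆ B') (hB'B : B' ⊆ B) {s : V → Bool} {x : D} {n : ℕ} (h : PvatRun T B A s x n) :
    ∃ k, k ≤ n ∧ PvatRun T B' A s (pvasIt T s x k) (n - k) := by
  classical
  have hex : ∃ k, k ≤ n ∧ ∀ i, k ≤ i → i ≤ n → pvasIt T s x i ∈ B' :=
    ⟨n, le_rfl, fun i h1 h2 => by rw [show i = n by omega]; exact hAB' h.hit⟩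
  obtain ⟨hk, hall⟩ := Nat.find_spec hex
  refine ⟨Nat.find hex, hk, ⟨hall _ le_rfl hk, ?_, pvas_it_bw h.ent.2.2 _⟩, fun i hi => ?_, ?_⟩
  · rcases Nat.eq_zero_or_pos (Nat.find hex) with h0 | h0
    · rw [h0]
      exact fun hc => h.ent.2.1 (hB'B hc)
    · obtain ⟨j, hj⟩ : ∃ j, Nat.find hex = j + 1 := ⟨Nat.find hex - 1, by omega⟩
      rw [hj, pvas_it_succ, pvas_step_opp_mem hB']
      intro hc
      refine Nat.find_min hex (m := j) (by omega) ⟨by omega, fun i h1 h2 => ?_⟩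
      rcases Nat.eq_or_lt_of_le h1 with e | e
      · rw [← e]; exact hc
      · exact hall i (by omega) h2
  · rw [← pvas_it_add]
    exact ⟨hall _ (by omega) (by omega), (h.mid _ (by omega)).2⟩
  · rw [← pvas_it_add, show Nat.find hex + (n - Nat.find hex) = n by omega]
    exact h.hit

/-- stop and restart, with the layers -/
theorem pvff_run_sub {B B' A A' : Set D} (hB' : T.FaceSet B') (hAA' : A ⊆ A') (hAB' : A' ⊆ B') (hB'B : B' ⊆ B) {s : V → Bool} {x : D} {n : ℕ} (h : PvatRun T B A s x n) :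
    ∃ (y : D) (m : ℕ), PvatRun T B' A' s y m ∧ pvatLay T s y m ⊆ pvatLay T s x n := by
  obtain ⟨m, hm, h1⟩ := pvff_run_stop hAA' h
  obtain ⟨k, hk, h2⟩ := pvff_run_restart hB' hAB' hB'B h1
  exact ⟨_, _, h2, (pvff_lay_shift s x k (m - k)).trans (pvff_lay_mono s x (by omega))⟩

/-- **MONOTONICITY OF CONFIG5**: smaller outer disc, bigger inner discs -/
theorem pvff_cfg_mono (hT : T.IsSph) {c0 c1 c2 c0' c1' c2' : T.Cyc} (h0 : c0'.Left ⊆ c0.Left) (h1 : c1.Left ⊆ c1'.Left) (h2 : c2.Left ⊆ c2'.Left)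
    (h10 : c1'.Left ⊆ c0'.Left) (h20 : c2'.Left ⊆ c0'.Left) {s : V → Bool} {x x2 x4 : D} {n1 n2 n4 : ℕ} (hc : PvatCfg T c0 c1 c2 s x x2 x4 n1 n2 n4) :
    ∃ (y y2 y4 : D) (m1 m2 m4 : ℕ), PvatCfg T c0' c1' c2' s y y2 y4 m1 m2 m4 := by
  obtain ⟨y, m1, a1, b1⟩ := pvff_run_sub (pl_left_face c0') h1 h10 h0 hc.r1
  obtain ⟨y2, m2, a2, b2⟩ := pvff_run_sub (pl_left_face c0') h1 h10 h0 hc.r2
  obtain ⟨y4, m4, a4, b4⟩ := pvff_run_sub (pl_left_face c0') h2 h20 h0 hc.r4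
  exact ⟨y, y2, y4, m1, m2, m4, a1, a2, a4, hc.dis1.mono b4 b1, hc.dis2.mono b4 b2⟩

end mono

/-! ## 5. the quenched first moment -/

section quenched

variable {n : ℕ} {V D : Type} [DecidableEq V] {T : PvMap V D}

/-- **QUENCHED FIRST MOMENT**.   `γ δ` = a chain of the count (89); for the box `b` the marks `mk b`; the disc `δ 1` lies inside the inner test of the ring of `k0`, the outer tests of the rings of `k1`, `k2` lie in the discs `γ b 0`, `γ b 3`. -/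
theorem pvff_quenched (hT : T.IsSph) (hS : T.Simple) {ι : Type} {q : ℝ} (hq : 0 < q) {Cl : ℕ} {γ : ι → ℕ → T.Cyc} {δ : ℕ → T.Cyc} (hch : PvauChain T q 0 0 Cl γ δ)
    (mk : ι → V → Fin n → Bool) (i0 o0 i1 o1 i2 o2 : Fin n)
    (h0 : ∀ b, ∀ v ∈ T.VOf (δ 1).Left, mk b v i0 = true) (h1 : ∀ b v, mk b v o1 = true → v ∈ T.Int (γ b 0).Left) (h2 : ∀ b v, mk b v o2 = true → v ∈ T.Int (γ b 3).Left)
    (I : Finset ι) (A : Finset V) (ξ : V → Bool) (hA : ∀ v ∈ T.VOf (δ 1).Left, v ∈ A) :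
    ∑ b ∈ I, pvaP A ξ (fun s => pvffP i0 o0 i1 o1 i2 o2 V D T (mk b) s) ≤ 2 * ((q * q)⁻¹ * (Cl * pvbkM 2 2 (1 - q))) := by
  have key : ∀ b s, pvffP i0 o0 i1 o1 i2 o2 V D T (mk b) s → PvauFive (hch.geo hT hq) b s ∨ PvauFive (hch.geo hT hq) b (fun v => !s v) := by
    rintro b s ⟨k0, k1, k2, a0, a1, a2, hfl⟩
    have s0 : (δ 1).Left ⊆ k0.Left := fun d hd => a0.inn _ (h0 b _ ⟨d, hd, rfl⟩) d rfl
    have s1 : k1.Left ⊆ (γ b 0).Left := fun d hd => h1 b _ (a1.out _ ⟨d, hd, rfl⟩) d rfl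
    have s2 : k2.Left ⊆ (γ b 3).Left := fun d hd => h2 b _ (a2.out _ ⟨d, hd, rfl⟩) d rfl
    have s10 : (γ b 0).Left ⊆ (δ 1).Left := (hch.gd hT b (by omega) (by omega)).2
    have s20 : (γ b 3).Left ⊆ (δ 1).Left := (hch.gd hT b (by omega) (by omega)).2
    rcases hfl with ⟨x, x2, x4, n1, n2, n4, hc⟩ | ⟨x, x2, x4, n1, n2, n4, hc⟩
    · obtain ⟨y, y2, y4, m1, m2, m4, hc'⟩ := pvff_cfg_mono hT s0 s1 s2 s10 s20 hc
      exact Or.inl ⟨((y, y2, y4), (m1, m2, m4)), hc'⟩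
    · obtain ⟨y, y2, y4, m1, m2, m4, hc'⟩ := pvff_cfg_mono hT s0 s1 s2 s10 s20 hc
      exact Or.inr ⟨((y, y2, y4), (m1, m2, m4)), hc'⟩
  have b1 := pvau_five_ex_sum hT hS (hch.geo hT hq) I A ξ hA
  have b2 := pvau_five_ex_sum hT hS (hch.geo hT hq) I A (fun v => !ξ v) hA
  have e : ∀ b, pvaP A ξ (fun s => pvffP i0 o0 i1 o1 i2 o2 V D T (mk b) s) ≤ pvaP A ξ (PvauFive (hch.geo hT hq) b) + pvaP A (fun v => !ξ v) (PvauFive (hch.geo hT hq) b) := by
    intro b
    rw [← pva_P_flip A ξ (PvauFive (hch.geo hT hq) b)]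
    exact (pva_P_mono fun ω _ hω => key b ω hω).trans (pva_P_or_le A ξ _ _)
  calc ∑ b ∈ I, pvaP A ξ (fun s => pvffP i0 o0 i1 o1 i2 o2 V D T (mk b) s)
      ≤ ∑ b ∈ I, (pvaP A ξ (PvauFive (hch.geo hT hq) b) + pvaP A (fun v => !ξ v) (PvauFive (hch.geo hT hq) b)) := Finset.sum_le_sum fun b _ => e b
    _ = ∑ b ∈ I, pvaP A ξ (PvauFive (hch.geo hT hq) b) + ∑ b ∈ I, pvaP A (fun v => !ξ v) (PvauFive (hch.geo hT hq) b) := Finset.sum_add_distrib
    _ ≤ (q * q)⁻¹ * (Cl * pvbkM 2 2 (1 - q)) + (q * q)⁻¹ * (Cl * pvbkM 2 2 (1 - q)) := add_le_add b1 b2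
    _ = 2 * ((q * q)⁻¹ * (Cl * pvbkM 2 2 (1 - q))) := by ring

end quenched

/-! ## 6. generic annealing of a first moment -/

section anneal

variable {κ : Type}

open Classical in
/-- **GENERIC ANNEALING, SUM FORM** (`pvfa_anneal` of 235 is the case of one event).   `B b` represents `Φ b` (tests `θ b`);   at every Delaunay plane with `Γ` and mesh the quenched first moment is `≤ p`. -/
theorem pvff_anneal_sum {ι : Type} (I : Finset ι) {θ : ι → ℂ → κ} {Φ : ι → PvplPred κ} {K : Set κ} (hΦ : ∀ b ∈ I, (Φ b).Local K) {E : Set ℂ} (hE : Bornology.IsBounded E) {ρ : ℝ}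
    {B : ι → Set (Conf PvPt)} (hBm : ∀ b ∈ I, MeasurableSet (B b)) (hB : ∀ b ∈ I, PvplRep (θ b) (Φ b) K E ρ (B b)) {zi : ℂ} (hzi : ∀ b ∈ I, θ b zi ∉ K) (Γ : Set ℂ → Prop) {p : ℝ}
    (hq : ∀ (Y : Set ℂ) (h : DelGood Y), VorLF Y → Γ Y → PvtrMesh ρ E Y → ∃ A : Finset ↥Y,
      (∀ b ∈ I, ∀ d, θ b ((delMap h).src d : ℂ) ∈ K → (delMap h).src d ∈ A ∧ (delMap h).tgt d ∈ A ∧ (delMap h).apex d ∈ A) ∧
        ∀ ξ, ∑ b ∈ I, pvaP A ξ (fun s => Φ b _ _ (delMap h) (fun v => θ b (dlsPos Y v)) s) ≤ p)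
    {ε : ℝ} (hε : 0 < ε) : ∑ b ∈ I, pvP ε (B b) ≤ ENNReal.ofReal p + I.card * pvGeo ε {g | ¬ (Γ (pvgSites g) ∧ PvtrMesh ρ E (pvgSites g))} := by
  set Bad : Set PvGeoT := {g | ¬ (Γ (pvgSites g) ∧ PvtrMesh ρ E (pvgSites g))} with hBad
  set M := toMeasurable (pvGeo ε) Bad with hM
  have hMm : MeasurableSet M := measurableSet_toMeasurable _ _
  have e1 : ∑ b ∈ I, pvP ε (B b) = ∫⁻ g, ∑ b ∈ I, pvQc (B b) g ∂(pvGeo ε) := by
    rw [lintegral_finsetSum I fun b hb => pvqu_Qc_meas (hBm b hb)]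
    exact Finset.sum_congr rfl fun b hb => (pvqu_Qc_lintegral ε (hBm b hb)).symm
  rw [e1]
  calc ∫⁻ g, ∑ b ∈ I, pvQc (B b) g ∂(pvGeo ε) ≤ ∫⁻ g, (ENNReal.ofReal p + (I.card : ℝ≥0∞) * M.indicator 1 g) ∂(pvGeo ε) := by
        refine lintegral_mono_ae ?_
        filter_upwards [pvqu_ok_ae ε, dls_ae_geo hε] with g hg hd
        by_cases hgM : g ∈ M
        · rw [indicator_of_mem hgM]
          refine le_trans ?_ le_add_self
          calc ∑ b ∈ I, pvQc (B b) g ≤ ∑ _b ∈ I, (1 : ℝ≥0∞) := Finset.sum_le_sum fun b _ => pvqu_Q_le_one _ g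
            _ = (I.card : ℝ≥0∞) * (1 : PvGeoT → ℝ≥0∞) g := by simp
        · have hgB : g ∉ Bad := fun hb => hgM (subset_toMeasurable _ _ hb)
          have hgood : Γ (pvgSites g) ∧ PvtrMesh ρ E (pvgSites g) := not_not.1 hgB
          obtain ⟨A, hA, hp⟩ := hq _ hd hg.lf hgood.1 hgood.2
          refine le_trans ?_ le_self_add
          have hb : ∀ b ∈ I, pvQc (B b) g ≤ ENNReal.ofReal (pvaP A (fun _ => false) (fun s => Φ b _ _ (delMap hd) (fun v => θ b (dlsPos _ v)) s)) := by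
            intro b hb
            have hloc : PvalLoc A (fun s : ↥(pvgSites g) → Bool => Φ b _ _ (delMap hd) (fun v => θ b (dlsPos _ v)) s) := by
              intro s s' hss
              refine propext (pvfa_local_dep (hΦ b hb) (dls_simple hd) _ fun d hd' => ?_)
              obtain ⟨a1, a2, a3⟩ := hA b hb d hd'
              exact ⟨(hss _ a1).symm, (hss _ a2).symm, (hss _ a3).symm⟩
            refine pvfa_quench (hΦ b hb) hE (hB b hb) (hzi b hb) hg hd hgood.2 A (hA b hb) fun ξ => ?_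
            rw [← pval_real hloc ξ, ← pval_real hloc (fun _ => false)]
          calc ∑ b ∈ I, pvQc (B b) g ≤ ∑ b ∈ I, ENNReal.ofReal (pvaP A (fun _ => false) (fun s => Φ b _ _ (delMap hd) (fun v => θ b (dlsPos _ v)) s)) := Finset.sum_le_sum hb
            _ = ENNReal.ofReal (∑ b ∈ I, pvaP A (fun _ => false) (fun s => Φ b _ _ (delMap hd) (fun v => θ b (dlsPos _ v)) s)) :=
                (ENNReal.ofReal_sum_of_nonneg fun b _ => pva_P_nonneg _ _ _).symm
            _ ≤ ENNReal.ofReal p := ENNReal.ofReal_le_ofReal (hp _)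
    _ = ENNReal.ofReal p + I.card * pvGeo ε Bad := by
        rw [lintegral_add_left measurable_const, lintegral_const, measure_univ, mul_one, lintegral_const_mul _ (measurable_one.indicator hMm), lintegral_indicator_one hMm, hM,
          measure_toMeasurable]

/-- the bad geometries (any bounded window) -/
theorem pvff_geo_tendsto {q : ℝ} (hQ : PvaxQbx q) (Z : Finset ℂ) (Rs : Finset ℝ) (hRs : ∀ r ∈ Rs, 0 < r) {ρ : ℝ} (hρ : 0 < ρ) {E : Set ℂ} (hE : Bornology.IsBounded E) :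
    Tendsto (fun ε : ℝ => pvGeo ε {g | ¬ (PvaxFrame q Z Rs (pvgSites g) ∧ PvtrMesh ρ E (pvgSites g))}) (𝓝[>] 0) (𝓝 0) := by
  have hb : Bornology.IsBounded (pvtrCore ρ E) := hE.subset fun x hx => hx (mem_closedBall_self hρ.le)
  have h1 := pvax_frame_geo hQ Z Rs hRs
  have h2 := pvax_dense hb hρ
  simp only [pvax_sites_eq _ (fun Y => ¬ VorDense Y (pvtrCore ρ E) ρ)] at h2
  have h3 := h1.add h2
  rw [add_zero] at h3
  refine tendsto_of_tendsto_of_tendsto_of_le_of_le tendsto_const_nhds h3 (fun _ => zero_le) fun ε => ?_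
  refine (measure_mono ?_).trans (measure_union_le _ _)
  intro g hg
  by_contra hn
  simp only [mem_union, mem_ofPred_eq, not_or, not_not] at hn
  exact hg ⟨hn.1, hn.2⟩

end anneal

/-! ## 7. the frame gives a chain of the count -/

section chain

/-- the radii of the frame: `13^j u` (`j ≤ 7`, round the boxes), `13^j w` (`j ≤ 2`, round the cell) -/
noncomputable def pvffRs (u w : ℝ) : Finset ℝ := (Finset.range 8).image (fun j => (13 : ℝ) ^ j * u) ∪ (Finset.range 3).image (fun j => (13 : ℝ) ^ j * w)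

theorem pvff_eqns_cite3 : True := by
  have := @pvffRs.eq_1
  trivial

/-- **FRAME ⟹ CHAIN**: cell centre `zQ`, boxes `b ∈ I` with the centres `zb b`;   `γ b j` at the radius `13^j u` round `zb b`, `δ j` at the radius `13^j w` round `zQ` -/
theorem pvff_chain {q : ℝ} {Y : Set ℂ} (h : DelGood Y) {zQ : ℂ} (I : Finset (ℤ × ℤ)) (zb : ℤ × ℤ → ℂ) {u w : ℝ} (hu : 0 < u) (hw : 0 < w)
    (hF : PvaxFrame q (insert zQ (I.image zb)) (pvffRs u w) Y) (huw : ∀ b ∈ I, ‖zb b - zQ‖ + 5 / 4 * (13 ^ 7 * u) ≤ w) {Cl : ℕ}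
    (hmult : ∀ p : ℂ, (I.filter fun b => ‖p - zb b‖ < 5 / 4 * (13 ^ 6 * u)).card ≤ Cl) :
    ∃ (γ : ↥I → ℕ → (delMap h).Cyc) (δ : ℕ → (delMap h).Cyc), PvauChain (delMap h) q 0 0 Cl γ δ ∧
      (∀ (b : ↥I) j, j ≤ 7 → PvaxAt (delMap h) (dlsPos Y) (zb b) (13 ^ j * u) (5 / 4 * (13 ^ j * u)) (γ b j)) ∧
      ∀ j, j ≤ 2 → PvaxAt (delMap h) (dlsPos Y) zQ (13 ^ j * w) (5 / 4 * (13 ^ j * w)) (δ j) := by
  have hT : (delMap h).IsSph := dls_isSph h
  have mu : ∀ j, j ≤ 7 → (13 : ℝ) ^ j * u ∈ pvffRs u w := fun j hj =>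
    Finset.mem_union_left _ (Finset.mem_image.2 ⟨j, Finset.mem_range.2 (by omega), rfl⟩)
  have mw : ∀ j, j ≤ 2 → (13 : ℝ) ^ j * w ∈ pvffRs u w := fun j hj =>
    Finset.mem_union_right _ (Finset.mem_image.2 ⟨j, Finset.mem_range.2 (by omega), rfl⟩)
  have mz : ∀ b : ↥I, zb b ∈ insert zQ (I.image zb) := fun b => Finset.mem_insert_of_mem (Finset.mem_image.2 ⟨b, b.2, rfl⟩)
  have mQ : zQ ∈ insert zQ (I.image zb) := Finset.mem_insert_self _ _
  have cg : ∀ (b : ↥I) (j : ℕ), ∃ c : (delMap h).Cyc, PvaxAt (delMap h) (dlsPos Y) (zb b) (13 ^ (min j 7) * u) (5 / 4 * (13 ^ (min j 7) * u)) c := by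
    intro b j
    obtain ⟨_, c, hc⟩ := (hF.2 _ (mz b) _ (mu (min j 7) (min_le_right _ _))).1
    exact ⟨c, hc⟩
  have cd : ∀ j : ℕ, ∃ c : (delMap h).Cyc, PvaxAt (delMap h) (dlsPos Y) zQ (13 ^ (min j 2) * w) (5 / 4 * (13 ^ (min j 2) * w)) c := by
    intro j
    obtain ⟨_, c, hc⟩ := (hF.2 _ mQ _ (mw (min j 2) (min_le_right _ _))).1
    exact ⟨c, hc⟩
  choose γ hγ using cg
  choose δ hδ using cd
  have hγ' : ∀ (b : ↥I) j, j ≤ 7 → PvaxAt (delMap h) (dlsPos Y) (zb b) (13 ^ j * u) (5 / 4 * (13 ^ j * u)) (γ b j) := by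
    intro b j hj
    have := hγ b j
    rwa [min_eq_left hj] at this
  have hδ' : ∀ j, j ≤ 2 → PvaxAt (delMap h) (dlsPos Y) zQ (13 ^ j * w) (5 / 4 * (13 ^ j * w)) (δ j) := by
    intro j hj
    have := hδ j
    rwa [min_eq_left hj] at this
  refine ⟨γ, δ, ⟨fun j => (hδ j).fin, fun b j hj => ?_, fun b => ?_, fun j hj => ?_, fun d => ?_⟩, hγ', hδ'⟩
  · obtain ⟨_, hb⟩ := (hF.2 _ (mz b) _ (mu j (by omega))).2
    have hp : (0 : ℝ) < 13 ^ j * u := by positivity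
    refine pvax_at_blk hT (hγ' b j (by omega)) (hγ' b (j + 1) (by omega)) (pvax_bxp_mono hb le_rfl ?_) ?_
    · rw [pow_succ]; nlinarith
    · rw [pow_succ]; nlinarith
  · refine pvax_at_inside hT (hγ' b 7 le_rfl) (hδ' 0 (by omega)) ?_
    have := huw b b.2
    simpa using this
  · obtain ⟨_, hb⟩ := (hF.2 _ mQ _ (mw j (by omega))).2
    have hp : (0 : ℝ) < 13 ^ j * w := by positivity
    refine pvax_at_blk hT (hδ' j (by omega)) (hδ' (j + 1) (by omega)) (pvax_bxp_mono hb le_rfl ?_) ?_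
    · rw [pow_succ]; nlinarith
    · rw [pow_succ]; nlinarith
  · have hsub : Subtype.val '' {b : ↥I | d ∈ (γ b 6).Left} ⊆ ↑(I.filter fun b => ‖dlsPos Y ((delMap h).src d) - zb b‖ < 5 / 4 * (13 ^ 6 * u)) := by
      rintro _ ⟨b, hb, rfl⟩
      rw [Finset.mem_coe, Finset.mem_filter]
      exact ⟨b.2, (hγ' b 6 (by omega)).out _ ⟨d, hb, rfl⟩⟩
    rw [← Subtype.val_injective.encard_image]
    refine (Set.encard_le_encard hsub).trans ?_
    rw [Set.encard_coe_eq_coe_finsetCard]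
    exact_mod_cast hmult _

end chain

/-! ## 8. THE EXIT -/

section exit

/-- the six tests of the pair (cell, box): rings of `k0` (round `zQ`), of `k1` and of `k2` (round `zb`) -/
def pvffS (zQ zb : ℂ) (r0 r0' r1 r1' r2 r2' : ℝ) : Fin 6 → Set ℂ :=
  ![closedBall zQ r0, ball zQ r0', closedBall zb r1, ball zb r1', closedBall zb r2, ball zb r2']

/-- the constant of the first moment -/
noncomputable def pvffK (q : ℝ) (Cl : ℕ) : ℕ := ⌈2 * ((q * q)⁻¹ * (Cl * pvbkM 2 2 (1 - q)))⌉₊ + 1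

theorem pvff_eqns_cite4 : True := by
  have := @pvffS.eq_1; have := @pvffK.eq_1
  trivial

/-- **THE FLAGS OF ONE CELL**.   Cell centre `zQ`, boxes `b ∈ I` with the centres `zb b`.   Rings: `k0` at `(r0, r0')` round `zQ`, `k1` at `(r1, r1')`, `k2` at `(r2, r2')` round `zb b`.
`u`, `w` = the basic radii of the frame: `r1' ≤ u`, `r2' ≤ 13³ u`, `|zb b - zQ| + (5/4) 13⁷ u ≤ w`, `(5/4) 13 w ≤ r0`.   `Cl` = multiplicity of the discs of radius `(5/4) 13⁶ u` round the box centres.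
The constant `pvffK q Cl` does NOT depend on the number of boxes. -/
theorem pvff_exit {q : ℝ} (hQ : PvaxQbx q) (hq : 0 < q) (Cl : ℕ) (zQ : ℂ) (I : Finset (ℤ × ℤ)) (zb : ℤ × ℤ → ℂ) {r0 r0' r1 r1' r2 r2' u w ρ rE : ℝ} (hu : 0 < u) (hw : 0 < w) (hρ : 0 < ρ)
    (h1u : r1' ≤ u) (h2u : r2' ≤ 13 ^ 3 * u) (huw : ∀ b ∈ I, ‖zb b - zQ‖ + 5 / 4 * (13 ^ 7 * u) ≤ w) (hw0 : 5 / 4 * (13 * w) ≤ r0) (h00 : r0 ≤ r0') (hE : r0' + 3 * ρ ≤ rE)
    (h11 : r1 ≤ r1') (h22 : r2 ≤ r2') (hmult : ∀ p : ℂ, (I.filter fun b => ‖p - zb b‖ < 5 / 4 * (13 ^ 6 * u)).card ≤ Cl) :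
    ∃ Fl : ℤ × ℤ → Set (Conf PvPt),
      (∀ b ∈ I, MeasurableSet (Fl b) ∧ Conf.ReadsSet (closedBall zQ rE ×ˢ univ) (Fl b) ∧
        PvplRep (pvffTest (pvffS zQ (zb b) r0 r0' r1 r1' r2 r2')) (pvffP 0 1 2 3 4 5) (pvffAny 6) (closedBall zQ rE) ρ (Fl b)) ∧
      ∀ᶠ ε in 𝓝[>] 0, ∑ b ∈ I, pvP ε (Fl b) ≤ (pvffK q Cl : ℝ≥0∞) := by
  classical
  have hΦ := pvff_local (n := 6) 0 1 2 3 4 5
  have hSm : ∀ b i, MeasurableSet (pvffS zQ (zb b) r0 r0' r1 r1' r2 r2' i) := by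
    intro b i
    fin_cases i
    · exact measurableSet_closedBall
    · exact measurableSet_ball
    · exact measurableSet_closedBall
    · exact measurableSet_ball
    · exact measurableSet_closedBall
    · exact measurableSet_ball
  have hw0' : w ≤ r0 := by nlinarith
  have hU : ∀ b ∈ I, ⋃ i, pvffS zQ (zb b) r0 r0' r1 r1' r2 r2' i ⊆ closedBall zQ r0' := by
    intro b hb p hp
    obtain ⟨i, hi⟩ := mem_iUnion.1 hp
    have hbw := huw b hb
    have tri : ‖p - zQ‖ ≤ ‖p - zb b‖ + ‖zb b - zQ‖ := by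
      calc ‖p - zQ‖ = ‖(p - zb b) + (zb b - zQ)‖ := by congr 1; ring
        _ ≤ _ := norm_add_le _ _
    rw [mem_closedBall, dist_eq_norm]
    fin_cases i
    · have : p ∈ closedBall zQ r0 := hi
      rw [mem_closedBall, dist_eq_norm] at this
      linarith
    · have : p ∈ ball zQ r0' := hi
      rw [mem_ball, dist_eq_norm] at this
      linarith
    · have : p ∈ closedBall (zb b) r1 := hi
      rw [mem_closedBall, dist_eq_norm] at this
      nlinarith
    · have : p ∈ ball (zb b) r1' := hi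
      rw [mem_ball, dist_eq_norm] at this
      nlinarith
    · have : p ∈ closedBall (zb b) r2 := hi
      rw [mem_closedBall, dist_eq_norm] at this
      nlinarith
    · have : p ∈ ball (zb b) r2' := hi
      rw [mem_ball, dist_eq_norm] at this
      nlinarith
  have hK : ∀ b ∈ I, pvffTest (pvffS zQ (zb b) r0 r0' r1 r1' r2 r2') ⁻¹' pvffAny 6 ⊆ pvtrCore (3 * ρ) (closedBall zQ rE) := by
    intro b hb p hp
    rw [pvff_any_preimage] at hp
    have := hU b hb hp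
    rw [mem_closedBall] at this
    exact closedBall_subset_closedBall' (by linarith)
  have hex : ∀ b, ∃ B : Set (Conf PvPt), b ∈ I → MeasurableSet B ∧ Conf.ReadsSet (closedBall zQ rE ×ˢ univ) B ∧
      PvplRep (pvffTest (pvffS zQ (zb b) r0 r0' r1 r1' r2 r2')) (pvffP 0 1 2 3 4 5) (pvffAny 6) (closedBall zQ rE) ρ B := by
    intro b
    by_cases hb : b ∈ I
    · obtain ⟨B, h1, h2, h3⟩ := pvplb_main (pvff_test_measurable (hSm b)) hΦ (pvpl_win_ball zQ rE) hρ (hK b hb)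
      exact ⟨B, fun _ => ⟨h1, h2, h3⟩⟩
    · exact ⟨∅, fun h => absurd h hb⟩
  choose Fl hFl using hex
  refine ⟨Fl, hFl, ?_⟩
  have hr0' : 0 < r0' := by nlinarith
  have hzi : ∀ b ∈ I, pvffTest (pvffS zQ (zb b) r0 r0' r1 r1' r2 r2') (zQ + ((r0' + 1 : ℝ) : ℂ)) ∉ pvffAny 6 := by
    intro b hb hmem
    have h1 : zQ + ((r0' + 1 : ℝ) : ℂ) ∈ pvffTest (pvffS zQ (zb b) r0 r0' r1 r1' r2 r2') ⁻¹' pvffAny 6 := hmem
    rw [pvff_any_preimage] at h1
    have h2 := hU b hb h1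
    rw [mem_closedBall, dist_eq_norm, add_sub_cancel_left, Complex.norm_real, Real.norm_of_nonneg (by linarith)] at h2
    linarith
  have hRs : ∀ r ∈ pvffRs u w, 0 < r := by
    intro r hr
    unfold pvffRs at hr
    rcases Finset.mem_union.1 hr with h | h
    · obtain ⟨j, -, rfl⟩ := Finset.mem_image.1 h
      positivity
    · obtain ⟨j, -, rfl⟩ := Finset.mem_image.1 h
      positivity
  set p : ℝ := 2 * ((q * q)⁻¹ * (Cl * pvbkM 2 2 (1 - q))) with hp
  have han : ∀ ε : ℝ, 0 < ε → ∑ b ∈ I, pvP ε (Fl b) ≤ ENNReal.ofReal p + I.card *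
      pvGeo ε {g | ¬ (PvaxFrame q (insert zQ (I.image zb)) (pvffRs u w) (pvgSites g) ∧ PvtrMesh ρ (closedBall zQ rE) (pvgSites g))} := by
    intro ε hε
    refine pvff_anneal_sum I (θ := fun b => pvffTest (pvffS zQ (zb b) r0 r0' r1 r1' r2 r2')) (Φ := fun _ => pvffP 0 1 2 3 4 5) (fun _ _ => hΦ) isBounded_closedBall
      (fun b hb => (hFl b hb).1) (fun b hb => (hFl b hb).2.2) hzi (fun Y => PvaxFrame q (insert zQ (I.image zb)) (pvffRs u w) Y) ?_ hε
    intro Y h hlf hF hmesh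
    have hfin : {v : ↥Y | (v : ℂ) ∈ closedBall zQ rE}.Finite := by
      refine ((hlf (‖zQ‖ + rE)).preimage Subtype.val_injective.injOn).subset ?_
      intro v hv
      refine ⟨v.2, ?_⟩
      have hv' : (v : ℂ) ∈ closedBall zQ rE := hv
      rw [mem_closedBall, dist_eq_norm] at hv'
      rw [mem_closedBall, dist_zero_right]
      calc ‖(v : ℂ)‖ = ‖zQ + ((v : ℂ) - zQ)‖ := by congr 1; ring
        _ ≤ ‖zQ‖ + ‖(v : ℂ) - zQ‖ := norm_add_le _ _
        _ ≤ _ := by linarith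
    have hmemA : ∀ v : ↥Y, v ∈ hfin.toFinset ↔ (v : ℂ) ∈ closedBall zQ rE := fun v => by rw [Set.Finite.mem_toFinset]; rfl
    refine ⟨hfin.toFinset, ?_, fun ξ => ?_⟩
    · intro b hb d hd
      have hret := pvtr_of_mesh_vertex hρ hmesh (hK b hb hd) (dls_face d)
      exact ⟨(hmemA _).2 hret.1.2, (hmemA _).2 hret.2.1.2, (hmemA _).2 hret.2.2.1.2⟩
    · obtain ⟨γ, δ, hch, hγ, hδ⟩ := pvff_chain h I zb hu hw hF huw hmult
      have key := pvff_quenched (dls_isSph h) (dls_simple h) hq hch (fun (b : ↥I) v => pvffTest (pvffS zQ (zb b) r0 r0' r1 r1' r2 r2') (dlsPos Y v)) 0 1 2 3 4 5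
        (fun b v hv => ?_) (fun b v hv => ?_) (fun b v hv => ?_) Finset.univ hfin.toFinset ξ (fun v hv => ?_)
      · rw [Finset.univ_eq_attach] at key
        rw [← Finset.sum_attach]
        exact key
      · have h1 := (hδ 1 (by norm_num)).out v hv
        rw [pvff_test_iff]
        show dlsPos Y v ∈ closedBall zQ r0
        rw [mem_closedBall, dist_eq_norm]
        rw [pow_one] at h1
        linarith
      · rw [pvff_test_iff] at hv
        have hv' : dlsPos Y v ∈ ball (zb b) r1' := hv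
        rw [mem_ball, dist_eq_norm] at hv'
        refine (hγ b 0 (by norm_num)).inn v ?_
        rw [pow_zero, one_mul]
        linarith
      · rw [pvff_test_iff] at hv
        have hv' : dlsPos Y v ∈ ball (zb b) r2' := hv
        rw [mem_ball, dist_eq_norm] at hv'
        refine (hγ b 3 (by norm_num)).inn v ?_
        linarith
      · have h1 := (hδ 1 (by norm_num)).out v hv
        rw [hmemA, mem_closedBall, dist_eq_norm]
        rw [pow_one] at h1
        have : ‖(v : ℂ) - zQ‖ < 5 / 4 * (13 * w) := h1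
        linarith
  have ht := pvff_geo_tendsto hQ (insert zQ (I.image zb)) (pvffRs u w) hRs hρ (isBounded_closedBall (x := zQ) (r := rE))
  have ht2 : Tendsto (fun ε : ℝ => (I.card : ℝ≥0∞) *
      pvGeo ε {g | ¬ (PvaxFrame q (insert zQ (I.image zb)) (pvffRs u w) (pvgSites g) ∧ PvtrMesh ρ (closedBall zQ rE) (pvgSites g))}) (𝓝[>] 0) (𝓝 0) := by
    have := ENNReal.Tendsto.const_mul ht (Or.inr (ENNReal.natCast_ne_top I.card))
    rwa [mul_zero] at this
  filter_upwards [ht2.eventually (ge_mem_nhds (show (0 : ℝ≥0∞) < 1 from one_pos)), self_mem_nhdsWithin] with ε h1 hε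
  calc ∑ b ∈ I, pvP ε (Fl b) ≤ ENNReal.ofReal p + 1 := (han ε hε).trans (add_le_add le_rfl h1)
    _ ≤ (pvffK q Cl : ℝ≥0∞) := by
      unfold pvffK
      push_cast
      refine add_le_add ?_ le_rfl
      rw [← ENNReal.ofReal_natCast]
      exact ENNReal.ofReal_le_ofReal (Nat.le_ceil _)

/-- **CONSUMER** (hypothesis `hlight` of `pvaga_good`): on a completion of `η`, read at the scale `ℓ` and the origin `z₀`, CONFIG5 for cycles at the rings raises the flag -/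
theorem pvff_of_fl {zQ zb : ℂ} {r0 r0' r1 r1' r2 r2' ρ rE : ℝ} {Fl : Set (Conf PvPt)}
    (hFl : PvplRep (pvffTest (pvffS zQ zb r0 r0' r1 r1' r2 r2')) (pvffP 0 1 2 3 4 5) (pvffAny 6) (closedBall zQ rE) ρ Fl) {α : ℂ} (hα : α ≠ 0) (β : ℂ)
    {X : Type} (𝔅 : PvBulk X) (η : Conf PvPt) (ξ : X → Bool) (zi : ℂ)
    (hf : (η.pts ∩ (vorSim α β ⁻¹' closedBall zQ rE) ×ˢ univ).Finite) (hok : 𝔅.Ok (cfSites η) (vorSim α β ⁻¹' (⋃ i, pvffS zQ zb r0 r0' r1 r1' r2 r2' i)))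
    (hm : PvtrMesh (ρ / ‖α‖) (vorSim α β ⁻¹' closedBall zQ rE) (cfSites η)) (hzi : vorSim α β zi ∉ ⋃ i, pvffS zQ zb r0 r0' r1 r1' r2 r2' i)
    {k0 k1 k2 : (𝔅.T (cfSites η)).Cyc}
    (h0 : PvaxAt (𝔅.T (cfSites η)) (fun v => vorSim α β (𝔅.posF _ zi v)) zQ r0 r0' k0) (h1 : PvaxAt (𝔅.T (cfSites η)) (fun v => vorSim α β (𝔅.posF _ zi v)) zb r1 r1' k1)
    (h2 : PvaxAt (𝔅.T (cfSites η)) (fun v => vorSim α β (𝔅.posF _ zi v)) zb r2 r2' k2) (hfl : PvagaFl (𝔅.T (cfSites η)) (𝔅.col η ξ) k0 k1 k2) :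
    cfMap (vorSim α β) η ∈ Fl := by
  have hok' : 𝔅.Ok (cfSites η) ((pvffTest (pvffS zQ zb r0 r0' r1 r1' r2 r2') ∘ vorSim α β) ⁻¹' pvffAny 6) := by
    rw [preimage_comp, pvff_any_preimage]
    exact hok
  have hzi' : (pvffTest (pvffS zQ zb r0 r0' r1 r1' r2 r2') ∘ vorSim α β) zi ∉ pvffAny 6 := by
    intro h
    have h' : vorSim α β zi ∈ pvffTest (pvffS zQ zb r0 r0' r1 r1' r2 r2') ⁻¹' pvffAny 6 := h
    rw [pvff_any_preimage] at h'
    exact hzi h'
  refine ((hFl.sim hα β) X 𝔅 η ξ zi hf hok' hm hzi').2 ⟨k0, k1, k2, ?_, ?_, ?_, hfl⟩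
  · exact (pvff_at_iff hok.sph (fun v => vorSim α β (𝔅.posF _ zi v)) (pvffS zQ zb r0 r0' r1 r1' r2 r2') (i := 0) (o := 1) rfl rfl k0).2 h0
  · exact (pvff_at_iff hok.sph (fun v => vorSim α β (𝔅.posF _ zi v)) (pvffS zQ zb r0 r0' r1 r1' r2 r2') (i := 2) (o := 3) rfl rfl k1).2 h1
  · exact (pvff_at_iff hok.sph (fun v => vorSim α β (𝔅.posF _ zi v)) (pvffS zQ zb r0 r0' r1 r1' r2 r2') (i := 4) (o := 5) rfl rfl k2).2 h2

end exit

end Claimed.Agent.R289
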