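import Claimed.Agent.R289.Tr.RetNat

/-!
# Row 289 (S0537, Cardy for Poisson-Voronoi), THE WALL, ROAD P, P3 / P5 / P14 : A CANONICAL MEASURABLE SELECTION RULE      (helper220; prefix `pvsel_`, `Pvsel`, `pvsel`)

WHY.   P3 of `ROADP_273.md`: "`S_k(σ)` := THE SELECTED two-site gate in the annulus `A(a_k,b_k)`; ANY measurable selection rule".   The usable states `G_τ`, `Gq_τ` (FIT-IN, `v_2^± ∈ N^±`, side events `L^±` FROM `v_2^±`), the marked vertex `p(σ) = v_1^+`,
the potentials `κ_out κ_in` are functions of the SELECTED gate; the record `PvrpIn` of road P asks `G_meas`, `kout0_meas`, `ke0_meas`.   A selection by `Classical.choose` cannot be proved measurable.   Here: ONE rule, for every combinatorial problem.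
* the objects to be selected are LISTS `l` of coloured points (a gate = the list of its vertices, marks first) with `Φ Z l`, `Z` = the set of coloured retained triangles (`pvtrSet ρ E η`);
* `pvselKey p = (re, im, colour)` lexicographic, INJECTIVE;   `PvselLe l l'` = lexicographic order of the lists of keys (a linear order on lists of coloured points);
* `PvselMin Φ Z l` = `l` is THE least solution;   **`pvselSel Φ Z`** = the least solution (`[]` if there is none).
RESULTS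
* sec. 1  order: `pvsel_key_inj`, `pvsel_le_antisymm`, `pvsel_min_unique`, `pvsel_min_exists` (finitely many solutions), `pvsel_sel_spec`, `pvsel_sel_eq`, `pvsel_sel_nil`.
* sec. 2  the class `PvselIx S Θ` (measurable index sections on `{S ω finite}`), `PvselIx₂`: Boolean calculus, quantifiers over lists of vertices, natural predicates (`pvtn_main`), **`pvsel_ix_le`** (the order), **`pvsel_ix_min`**.
* sec. 3  **`pvsel_ix_sel`** : substitution of the selected list keeps the class;   `pvsel_meas_sel` (events), `pvsel_measurable_sel` (functions).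
* sec. 4  EXITS on `Conf PvPt`: **`pvsel_loc_event`** (`{η | Θ Z (sel Z) ∧ PvtnFin E η}` is measurable AND read from `E ×ˢ univ`), `pvsel_loc_fun`.
* sec. 5  covariance: `pvsel_sel_map` (maps which keep the order of the keys: translations, positive dilations), so that the unit scale rule is THE rule at every centre and every scale.
-/

set_option autoImplicit false
set_option linter.unusedSectionVars false

namespace Claimed.Agent.R289

open MeasureTheory Set Metric Claims.C0465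

/-! ## 0. definitions -/

/-- the key of a coloured point: `(re, im, colour)`, lexicographic -/
def pvselKey (p : PvPt) : ℝ ×ₗ (ℝ ×ₗ Bool) := toLex (p.1.re, toLex (p.1.im, p.2))

/-- the lexicographic order of the lists of coloured points -/
def PvselLe (l l' : List PvPt) : Prop := l.map pvselKey ≤ l'.map pvselKey

/-- `l` is the least solution of the problem `Φ Z` -/
def PvselMin (Φ : Set (PvPt × PvPt × PvPt) → List PvPt → Prop) (Z : Set (PvPt × PvPt × PvPt)) (l : List PvPt) : Prop := Φ Z l ∧ ∀ l', Φ Z l' → PvselLe l l'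

open Classical in
/-- **THE SELECTED SOLUTION** -/
noncomputable def pvselSel (Φ : Set (PvPt × PvPt × PvPt) → List PvPt → Prop) (Z : Set (PvPt × PvPt × PvPt)) : List PvPt := if h : ∃ l, PvselMin Φ Z l then h.choose else []

/-- predicates of (triangles, one list) with measurable index sections on `{S ω finite}` -/
def PvselIx (S : PVSample → Set (PvPt × PvPt × PvPt)) (Θ : Set (PvPt × PvPt × PvPt) → List PvPt → Prop) : Prop :=
  ∀ L : List DelgpIx, MeasurableSet {ω | (S ω).Finite ∧ Θ (S ω) (L.map (pvtmP ω))}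

/-- the same with two lists -/
def PvselIx₂ (S : PVSample → Set (PvPt × PvPt × PvPt)) (Θ : Set (PvPt × PvPt × PvPt) → List PvPt → List PvPt → Prop) : Prop :=
  ∀ L L' : List DelgpIx, MeasurableSet {ω | (S ω).Finite ∧ Θ (S ω) (L.map (pvtmP ω)) (L'.map (pvtmP ω))}

/-- the solutions are lists of vertices of the triangles -/
def PvselV (Φ : Set (PvPt × PvPt × PvPt) → List PvPt → Prop) : Prop := ∀ Z l, Φ Z l → ∀ p ∈ l, p ∈ pvtmV Z

theorem pvsel_eqns_cite : True := by
  have := @pvselKey.eq_1; have := @PvselLe.eq_1; have := @PvselMin.eq_1; have := @pvselSel.eq_1; have := @PvselIx.eq_1; have := @PvselIx₂.eq_1; have := @PvselV.eq_1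
  trivial

variable {Φ Θ Θ' : Set (PvPt × PvPt × PvPt) → List PvPt → Prop} {Z : Set (PvPt × PvPt × PvPt)} {l l' : List PvPt} {S : PVSample → Set (PvPt × PvPt × PvPt)}

/-! ## 1. the order, the least solution -/

theorem pvsel_key_inj : Function.Injective pvselKey := by
  rintro ⟨z, b⟩ ⟨w, b'⟩ h
  have h1 : (z.re, toLex (z.im, b)) = (w.re, toLex (w.im, b')) := toLex.injective h
  have h2 : z.re = w.re := congrArg Prod.fst h1
  have h3 : (z.im, b) = (w.im, b') := toLex.injective (congrArg Prod.snd h1)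
  have h4 : z.im = w.im := congrArg Prod.fst h3
  have h5 : b = b' := congrArg Prod.snd h3
  rw [Complex.ext h2 h4, h5]

theorem pvsel_le_refl (l : List PvPt) : PvselLe l l := le_refl _

theorem pvsel_le_total (l l' : List PvPt) : PvselLe l l' ∨ PvselLe l' l := le_total _ _

theorem pvsel_le_trans {l l' l'' : List PvPt} (h : PvselLe l l') (h' : PvselLe l' l'') : PvselLe l l'' := le_trans h h'

theorem pvsel_le_antisymm (h : PvselLe l l') (h' : PvselLe l' l) : l = l' := by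
  exact List.map_injective_iff.2 pvsel_key_inj (le_antisymm h h')

theorem pvsel_min_unique (h : PvselMin Φ Z l) (h' : PvselMin Φ Z l') : l = l' := by
  exact pvsel_le_antisymm (h.2 _ h'.1) (h'.2 _ h.1)

theorem pvsel_min_exists (hfin : {l | Φ Z l}.Finite) (hne : ∃ l, Φ Z l) : ∃ l, PvselMin Φ Z l := by
  obtain ⟨l, hl, hmin⟩ := Set.exists_min_image {l | Φ Z l} (fun l => l.map pvselKey) hfin hne
  exact ⟨l, hl, fun l' hl' => hmin l' hl'⟩

theorem pvsel_sel_eq (h : PvselMin Φ Z l) : pvselSel Φ Z = l := by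
  have hex : ∃ l, PvselMin Φ Z l := ⟨l, h⟩
  unfold pvselSel
  rw [dif_pos hex]
  exact pvsel_min_unique hex.choose_spec h

theorem pvsel_sel_nil (h : ¬ ∃ l, PvselMin Φ Z l) : pvselSel Φ Z = [] := by
  unfold pvselSel
  rw [dif_neg h]

/-- **SPEC**: if the problem has finitely many solutions, and at least one, the selected list is a solution (the least one) -/
theorem pvsel_sel_spec (hfin : {l | Φ Z l}.Finite) (hne : ∃ l, Φ Z l) : PvselMin Φ Z (pvselSel Φ Z) := by
  have h := pvsel_min_exists hfin hne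
  unfold pvselSel
  rw [dif_pos h]
  exact h.choose_spec

/-- finitely many solutions: duplicate free lists of vertices of a finite set of triangles -/
theorem pvsel_fin_nodup (hZ : Z.Finite) (hV : PvselV Φ) (hnd : ∀ l, Φ Z l → l.Nodup) : {l | Φ Z l}.Finite := by
  classical
  have hVf : (pvtmV Z).Finite := by
    refine ((hZ.image fun t => t.1).union ((hZ.image fun t => t.2.1).union (hZ.image fun t => t.2.2))).subset ?_
    rintro p ⟨q, r, h | h | h⟩
    · exact Or.inl ⟨_, h, rfl⟩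
    · exact Or.inr (Or.inl ⟨_, h, rfl⟩)
    · exact Or.inr (Or.inr ⟨_, h, rfl⟩)
  have : Finite ↥(pvtmV Z) := hVf.to_subtype
  refine ((List.finite_length_le ↥(pvtmV Z) hVf.toFinset.card).image (List.map Subtype.val)).subset ?_
  intro l hl
  have h1 : ∀ p ∈ l, p ∈ pvtmV Z := hV Z l hl
  refine ⟨l.attachWith (· ∈ pvtmV Z) h1, ?_, List.attachWith_map_subtype_val _⟩
  show (l.attachWith (· ∈ pvtmV Z) h1).length ≤ _
  rw [List.length_attachWith, ← List.toFinset_card_of_nodup (hnd l hl)]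
  refine Finset.card_le_card fun p hp => ?_
  rw [Set.Finite.mem_toFinset]
  exact h1 p (List.mem_toFinset.1 hp)

/-- finitely many solutions: lists of vertices of bounded length -/
theorem pvsel_fin_len (hZ : Z.Finite) (hV : PvselV Φ) (n : ℕ) (hn : ∀ l, Φ Z l → l.length ≤ n) : {l | Φ Z l}.Finite := by
  have hVf : (pvtmV Z).Finite := by
    refine ((hZ.image fun t => t.1).union ((hZ.image fun t => t.2.1).union (hZ.image fun t => t.2.2))).subset ?_
    rintro p ⟨q, r, h | h | h⟩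
    · exact Or.inl ⟨_, h, rfl⟩
    · exact Or.inr (Or.inl ⟨_, h, rfl⟩)
    · exact Or.inr (Or.inr ⟨_, h, rfl⟩)
  have : Finite ↥(pvtmV Z) := hVf.to_subtype
  refine ((List.finite_length_le ↥(pvtmV Z) n).image (List.map Subtype.val)).subset ?_
  intro l hl
  have h1 : ∀ p ∈ l, p ∈ pvtmV Z := hV Z l hl
  refine ⟨l.attachWith (· ∈ pvtmV Z) h1, ?_, List.attachWith_map_subtype_val _⟩
  show (l.attachWith (· ∈ pvtmV Z) h1).length ≤ n
  rw [List.length_attachWith]
  exact hn l hl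

/-! ## 2. the class of predicates with measurable index sections -/

theorem PvselIx.and (h : PvselIx S Θ) (h' : PvselIx S Θ') : PvselIx S fun Z l => Θ Z l ∧ Θ' Z l := by
  intro L
  have e : {ω | (S ω).Finite ∧ (Θ (S ω) (L.map (pvtmP ω)) ∧ Θ' (S ω) (L.map (pvtmP ω)))} =
      {ω | (S ω).Finite ∧ Θ (S ω) (L.map (pvtmP ω))} ∩ {ω | (S ω).Finite ∧ Θ' (S ω) (L.map (pvtmP ω))} := by
    ext ω
    simp only [Set.mem_setOf_eq, Set.mem_inter_iff]
    tauto
  rw [e]
  exact (h L).inter (h' L)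

theorem PvselIx.or (h : PvselIx S Θ) (h' : PvselIx S Θ') : PvselIx S fun Z l => Θ Z l ∨ Θ' Z l := by
  intro L
  have e : {ω | (S ω).Finite ∧ (Θ (S ω) (L.map (pvtmP ω)) ∨ Θ' (S ω) (L.map (pvtmP ω)))} =
      {ω | (S ω).Finite ∧ Θ (S ω) (L.map (pvtmP ω))} ∪ {ω | (S ω).Finite ∧ Θ' (S ω) (L.map (pvtmP ω))} := by
    ext ω
    simp only [Set.mem_setOf_eq, Set.mem_union]
    tauto
  rw [e]
  exact (h L).union (h' L)

theorem PvselIx.not (hS : PvtmMS S) (h : PvselIx S Θ) : PvselIx S fun Z l => ¬ Θ Z l := by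
  intro L
  have e : {ω | (S ω).Finite ∧ ¬ Θ (S ω) (L.map (pvtmP ω))} = {ω | (S ω).Finite} \ {ω | (S ω).Finite ∧ Θ (S ω) (L.map (pvtmP ω))} := by
    ext ω
    simp only [Set.mem_setOf_eq, Set.mem_diff]
    tauto
  rw [e]
  exact (pvtn_meas_finite hS).diff (h L)

/-- natural predicates are in the class (`pvtn_main`) -/
theorem pvsel_ix_nat {Λ : Type*} [Countable Λ] {lam : PvPt → Λ} (hlam : ∀ c : Λ, MeasurableSet (lam ⁻¹' {c})) (hS : PvtmMS S) (hΦ : PvtnNat lam Φ) : PvselIx S Φ :=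
  fun L => pvtn_main hlam hS hΦ L

theorem pvsel_ix₂_nat {Λ : Type*} [Countable Λ] {lam : PvPt → Λ} (hlam : ∀ c : Λ, MeasurableSet (lam ⁻¹' {c})) (hS : PvtmMS S)
    {Ψ : Set (PvPt × PvPt × PvPt) → List PvPt → List PvPt → Prop} (hΨ : PvtnNat₂ lam Ψ) : PvselIx₂ S Ψ := by
  intro L L'
  have hΦ : PvtnNat lam (fun Z l => Ψ Z (l.take L.length) (l.drop L.length)) := by
    intro φ hφ Z l H
    show Ψ _ ((l.map φ).take L.length) ((l.map φ).drop L.length)
    rw [← List.map_take, ← List.map_drop]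
    exact hΨ φ hφ Z _ _ H
  have key := pvtn_main hlam hS hΦ (L ++ L')
  have e : ∀ ω, ((L ++ L').map (pvtmP ω)).take L.length = L.map (pvtmP ω) ∧ ((L ++ L').map (pvtmP ω)).drop L.length = L'.map (pvtmP ω) := by
    intro ω
    rw [List.map_append]
    constructor
    · exact List.take_left' (by simp)
    · exact List.drop_left' (by simp)
  have e2 : {ω | (S ω).Finite ∧ Ψ (S ω) (L.map (pvtmP ω)) (L'.map (pvtmP ω))} =
      {ω | (S ω).Finite ∧ Ψ (S ω) (((L ++ L').map (pvtmP ω)).take L.length) (((L ++ L').map (pvtmP ω)).drop L.length)} := by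
    ext ω
    rw [Set.mem_setOf_eq, Set.mem_setOf_eq, (e ω).1, (e ω).2]
  rw [e2]
  exact key

theorem PvselIx.left (h : PvselIx S Θ) : PvselIx₂ S fun Z l _ => Θ Z l := fun L _ => h L

theorem PvselIx.right (h : PvselIx S Θ) : PvselIx₂ S fun Z _ l => Θ Z l := fun _ L => h L

theorem PvselIx₂.and {Ψ Ψ' : Set (PvPt × PvPt × PvPt) → List PvPt → List PvPt → Prop} (h : PvselIx₂ S Ψ) (h' : PvselIx₂ S Ψ') : PvselIx₂ S fun Z l l' => Ψ Z l l' ∧ Ψ' Z l l' := by
  intro L L'
  have e : {ω | (S ω).Finite ∧ (Ψ (S ω) (L.map (pvtmP ω)) (L'.map (pvtmP ω)) ∧ Ψ' (S ω) (L.map (pvtmP ω)) (L'.map (pvtmP ω)))} =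
      {ω | (S ω).Finite ∧ Ψ (S ω) (L.map (pvtmP ω)) (L'.map (pvtmP ω))} ∩ {ω | (S ω).Finite ∧ Ψ' (S ω) (L.map (pvtmP ω)) (L'.map (pvtmP ω))} := by
    ext ω
    constructor
    · rintro ⟨h1, h2, h3⟩; exact ⟨⟨h1, h2⟩, ⟨h1, h3⟩⟩
    · rintro ⟨⟨h1, h2⟩, ⟨-, h3⟩⟩; exact ⟨h1, h2, h3⟩
  rw [e]
  exact (h L L').inter (h' L L')

theorem PvselIx₂.or {Ψ Ψ' : Set (PvPt × PvPt × PvPt) → List PvPt → List PvPt → Prop} (h : PvselIx₂ S Ψ) (h' : PvselIx₂ S Ψ') : PvselIx₂ S fun Z l l' => Ψ Z l l' ∨ Ψ' Z l l' := by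
  intro L L'
  have e : {ω | (S ω).Finite ∧ (Ψ (S ω) (L.map (pvtmP ω)) (L'.map (pvtmP ω)) ∨ Ψ' (S ω) (L.map (pvtmP ω)) (L'.map (pvtmP ω)))} =
      {ω | (S ω).Finite ∧ Ψ (S ω) (L.map (pvtmP ω)) (L'.map (pvtmP ω))} ∪ {ω | (S ω).Finite ∧ Ψ' (S ω) (L.map (pvtmP ω)) (L'.map (pvtmP ω))} := by
    ext ω
    constructor
    · rintro ⟨h1, h2 | h2⟩
      · exact Or.inl ⟨h1, h2⟩
      · exact Or.inr ⟨h1, h2⟩
    · rintro (⟨h1, h2⟩ | ⟨h1, h2⟩)
      · exact ⟨h1, Or.inl h2⟩
      · exact ⟨h1, Or.inr h2⟩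
  rw [e]
  exact (h L L').union (h' L L')

theorem PvselIx₂.not {Ψ : Set (PvPt × PvPt × PvPt) → List PvPt → List PvPt → Prop} (hS : PvtmMS S) (h : PvselIx₂ S Ψ) : PvselIx₂ S fun Z l l' => ¬ Ψ Z l l' := by
  intro L L'
  have e : {ω | (S ω).Finite ∧ ¬ Ψ (S ω) (L.map (pvtmP ω)) (L'.map (pvtmP ω))} =
      {ω | (S ω).Finite} \ {ω | (S ω).Finite ∧ Ψ (S ω) (L.map (pvtmP ω)) (L'.map (pvtmP ω))} := by
    ext ω
    constructor
    · rintro ⟨h1, h2⟩; exact ⟨h1, fun h3 => h2 h3.2⟩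
    · rintro ⟨h1, h2⟩; exact ⟨h1, fun h3 => h2 ⟨h1, h3⟩⟩
  rw [e]
  exact (pvtn_meas_finite hS).diff (h L L')

theorem PvselIx₂.swap {Ψ : Set (PvPt × PvPt × PvPt) → List PvPt → List PvPt → Prop} (h : PvselIx₂ S Ψ) : PvselIx₂ S fun Z l l' => Ψ Z l' l := fun L L' => h L' L

theorem PvselIx₂.diag {Ψ : Set (PvPt × PvPt × PvPt) → List PvPt → List PvPt → Prop} (h : PvselIx₂ S Ψ) : PvselIx S fun Z l => Ψ Z l l := fun L => h L L

theorem PvselIx₂.nil_left {Ψ : Set (PvPt × PvPt × PvPt) → List PvPt → List PvPt → Prop} (h : PvselIx₂ S Ψ) : PvselIx S fun Z l => Ψ Z [] l := fun L => h [] L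

/-- quantifier over the lists of vertices (second list) -/
theorem PvselIx₂.ex {Ψ : Set (PvPt × PvPt × PvPt) → List PvPt → List PvPt → Prop} (hS : PvtmMS S) (h : PvselIx₂ S Ψ) :
    PvselIx S fun Z l => ∃ l', (∀ p ∈ l', p ∈ pvtmV Z) ∧ Ψ Z l l' := by
  intro L
  have key := pvtm_meas_exists_list (p := fun ω l' => (∀ q ∈ l', q ∈ pvtmV (S ω)) ∧ (S ω).Finite ∧ Ψ (S ω) (L.map (pvtmP ω)) l')
    (fun L' => (pvtm_meas_list_all (p := fun ω q => q ∈ pvtmV (S ω)) (fun i => pvtm_meas_V hS i) L').inter (h L L'))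
  have e : {ω | (S ω).Finite ∧ ∃ l', (∀ p ∈ l', p ∈ pvtmV (S ω)) ∧ Ψ (S ω) (L.map (pvtmP ω)) l'} =
      {ω | ∃ l : List PvPt, (∀ q ∈ l, q ∈ (pvConf ω).pts) ∧ (∀ q ∈ l, q ∈ pvtmV (S ω)) ∧ (S ω).Finite ∧ Ψ (S ω) (L.map (pvtmP ω)) l} := by
    ext ω
    constructor
    · rintro ⟨h1, l', h2, h3⟩
      exact ⟨l', fun q hq => pvtm_V_sub hS ω (h2 q hq), h2, h1, h3⟩
    · rintro ⟨l', -, h2, h1, h3⟩
      exact ⟨h1, l', h2, h3⟩
  rw [e]
  exact key

theorem PvselIx₂.all {Ψ : Set (PvPt × PvPt × PvPt) → List PvPt → List PvPt → Prop} (hS : PvtmMS S) (h : PvselIx₂ S Ψ) :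
    PvselIx S fun Z l => ∀ l', (∀ p ∈ l', p ∈ pvtmV Z) → Ψ Z l l' := by
  have h1 := PvselIx.not hS (PvselIx₂.ex hS (PvselIx₂.not hS h))
  have e : (fun (Z : Set (PvPt × PvPt × PvPt)) (l : List PvPt) => ∀ l', (∀ p ∈ l', p ∈ pvtmV Z) → Ψ Z l l') =
      fun Z l => ¬ ∃ l', (∀ p ∈ l', p ∈ pvtmV Z) ∧ ¬ Ψ Z l l' := by
    funext Z l
    apply propext
    constructor
    · rintro H ⟨l', h1, h2⟩
      exact h2 (H l' h1)
    · intro H l' h1
      by_contra h2
      exact H ⟨l', h1, h2⟩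
  rw [e]
  exact h1

/-- the vertices: index sections -/
theorem pvsel_ix_verts (hS : PvtmMS S) : PvselIx S fun Z l => ∀ p ∈ l, p ∈ pvtmV Z := by
  intro L
  exact (pvtn_meas_finite hS).inter (pvtm_meas_list_all (p := fun ω q => q ∈ pvtmV (S ω)) (fun i => pvtm_meas_V hS i) L)

/-- comparison of two keys -/
theorem pvsel_meas_key_lt (i j : DelgpIx) : MeasurableSet {ω : PVSample | pvselKey (pvtmP ω i) < pvselKey (pvtmP ω j)} := by
  have hre : ∀ k : DelgpIx, Measurable fun ω : PVSample => (pvtmP ω k).1.re := fun k => Complex.measurable_re.comp (measurable_fst.comp (pvtm_measurable_P k))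
  have him : ∀ k : DelgpIx, Measurable fun ω : PVSample => (pvtmP ω k).1.im := fun k => Complex.measurable_im.comp (measurable_fst.comp (pvtm_measurable_P k))
  have e : {ω : PVSample | pvselKey (pvtmP ω i) < pvselKey (pvtmP ω j)} =
      {ω | (pvtmP ω i).1.re < (pvtmP ω j).1.re} ∪ ({ω | (pvtmP ω i).1.re = (pvtmP ω j).1.re} ∩
        ({ω | (pvtmP ω i).1.im < (pvtmP ω j).1.im} ∪ ({ω | (pvtmP ω i).1.im = (pvtmP ω j).1.im} ∩ ({ω | (pvtmP ω i).2 = false} ∩ {ω | (pvtmP ω j).2 = true})))) := by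
    ext ω
    simp only [pvselKey, Prod.Lex.toLex_lt_toLex, mem_ofPred_eq, mem_union, mem_inter_iff, Bool.lt_iff]
  rw [e]
  exact (measurableSet_lt (hre i) (hre j)).union ((measurableSet_eq_fun (hre i) (hre j)).inter
    ((measurableSet_lt (him i) (him j)).union ((measurableSet_eq_fun (him i) (him j)).inter ((pvtm_meas_col false i).inter (pvtm_meas_col true j)))))

theorem pvsel_cons_le {α : Type*} [LinearOrder α] (a b : α) (l l' : List α) : a :: l ≤ b :: l' ↔ a < b ∨ (a = b ∧ l ≤ l') := by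
  constructor
  · intro h
    rcases lt_or_eq_of_le h with h | h
    · have h2 : List.Lex (· < ·) (a :: l) (b :: l') := h
      cases h2 with
      | cons h' => exact Or.inr ⟨rfl, le_of_lt h'⟩
      | rel h' => exact Or.inl h'
    · injection h with h1 h2
      exact Or.inr ⟨h1, le_of_eq h2⟩
  · rintro (h | ⟨rfl, h⟩)
    · exact le_of_lt (List.Lex.rel h)
    · exact List.cons_le_cons a h

theorem pvsel_nil_le {α : Type*} [LinearOrder α] (l : List α) : [] ≤ l := by
  cases l with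
  | nil => exact le_refl _
  | cons a l => exact le_of_lt (List.Lex.nil)

theorem pvsel_cons_not_le {α : Type*} [LinearOrder α] (a : α) (l : List α) : ¬ (a :: l ≤ []) := by
  intro h
  rcases lt_or_eq_of_le h with h | h
  · have h2 : List.Lex (· < ·) (a :: l) [] := h
    cases h2
  · cases h

/-- **the order is in the class** -/
theorem pvsel_meas_le (L L' : List DelgpIx) : MeasurableSet {ω : PVSample | PvselLe (L.map (pvtmP ω)) (L'.map (pvtmP ω))} := by
  induction L generalizing L' with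
  | nil =>
    have e : {ω : PVSample | PvselLe (([] : List DelgpIx).map (pvtmP ω)) (L'.map (pvtmP ω))} = univ := by
      ext ω
      simp only [mem_ofPred_eq, mem_univ, iff_true]
      exact pvsel_nil_le _
    rw [e]; exact MeasurableSet.univ
  | cons i L ih =>
    cases L' with
    | nil =>
      have e : {ω : PVSample | PvselLe ((i :: L).map (pvtmP ω)) (([] : List DelgpIx).map (pvtmP ω))} = ∅ := by
        ext ω
        simp only [mem_ofPred_eq, mem_empty_iff_false, iff_false]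
        exact pvsel_cons_not_le _ _
      rw [e]; exact MeasurableSet.empty
    | cons j L' =>
      have e : {ω : PVSample | PvselLe ((i :: L).map (pvtmP ω)) ((j :: L').map (pvtmP ω))}
          = {ω : PVSample | pvselKey (pvtmP ω i) < pvselKey (pvtmP ω j) ∨ (pvtmP ω i = pvtmP ω j ∧ PvselLe (L.map (pvtmP ω)) (L'.map (pvtmP ω)))} := by
        ext ω
        simp only [mem_ofPred_eq, PvselLe, List.map_cons]
        rw [pvsel_cons_le, pvsel_key_inj.eq_iff]
      rw [e]
      exact (pvsel_meas_key_lt i j).union ((pvtm_meas_eq i j).inter (ih L'))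

theorem pvsel_ix_le (hS : PvtmMS S) : PvselIx₂ S fun _ l l' => PvselLe l l' := by
  intro L L'
  exact (pvtn_meas_finite hS).inter (pvsel_meas_le L L')

/-- **"`l` is the least solution" is in the class** -/
theorem pvsel_ix_min (hS : PvtmMS S) (hΦ : PvselIx S Φ) (hV : PvselV Φ) : PvselIx S (PvselMin Φ) := by
  have e : PvselMin Φ = fun Z l => Φ Z l ∧ ∀ l', (∀ p ∈ l', p ∈ pvtmV Z) → (¬ Φ Z l' ∨ PvselLe l l') := by
    funext Z l
    apply propext
    constructor
    · rintro ⟨h1, h2⟩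
      refine ⟨h1, fun l' _ => ?_⟩
      by_cases h : Φ Z l'
      · exact Or.inr (h2 l' h)
      · exact Or.inl h
    · rintro ⟨h1, h2⟩
      refine ⟨h1, fun l' hl' => ?_⟩
      rcases h2 l' (hV Z l' hl') with h | h
      · exact absurd hl' h
      · exact h
  rw [e]
  exact hΦ.and (PvselIx₂.all hS (((hΦ.right).not hS).or (pvsel_ix_le hS)))

/-! ## 3. substitution of the selected list -/

/-- a least solution is the image of a list of indices -/
theorem pvsel_min_ix (hS : PvtmMS S) (hV : PvselV Φ) {ω : PVSample} (h : PvselMin Φ (S ω) l) : ∃ L0 : List DelgpIx, l = L0.map (pvtmP ω) := by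
  obtain ⟨L0, -, e⟩ := (pvtm_exists_list (ω := ω) (p := fun l' => l' = l)).1 ⟨l, fun q hq => pvtm_V_sub hS ω (hV _ _ h.1 q hq), rfl⟩
  exact ⟨L0, e.symm⟩

/-- **SUBSTITUTION**: a predicate of (triangles, selected list, another list) -/
theorem pvsel_ix_sel (hS : PvtmMS S) (hΦ : PvselIx S Φ) (hV : PvselV Φ) {Ψ : Set (PvPt × PvPt × PvPt) → List PvPt → List PvPt → Prop} (hΨ : PvselIx₂ S Ψ) :
    PvselIx S fun Z l => Ψ Z (pvselSel Φ Z) l := by
  intro L
  have hm : ∀ L0 : List DelgpIx, MeasurableSet {ω | (S ω).Finite ∧ PvselMin Φ (S ω) (L0.map (pvtmP ω))} := pvsel_ix_min hS hΦ hV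
  have e : {ω | (S ω).Finite ∧ Ψ (S ω) (pvselSel Φ (S ω)) (L.map (pvtmP ω))}
      = (⋃ L0 : List DelgpIx, {ω | (S ω).Finite ∧ PvselMin Φ (S ω) (L0.map (pvtmP ω))} ∩ {ω | (S ω).Finite ∧ Ψ (S ω) (L0.map (pvtmP ω)) (L.map (pvtmP ω))})
        ∪ ((⋃ L0 : List DelgpIx, {ω | (S ω).Finite ∧ PvselMin Φ (S ω) (L0.map (pvtmP ω))})ᶜ ∩ {ω | (S ω).Finite ∧ Ψ (S ω) (([] : List DelgpIx).map (pvtmP ω)) (L.map (pvtmP ω))}) := by
    ext ω
    simp only [mem_ofPred_eq, mem_union, mem_iUnion, mem_inter_iff, mem_compl_iff, not_exists, not_and]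
    constructor
    · rintro ⟨hf, h⟩
      by_cases hex : ∃ l, PvselMin Φ (S ω) l
      · obtain ⟨l, hl⟩ := hex
        obtain ⟨L0, rfl⟩ := pvsel_min_ix hS hV hl
        rw [pvsel_sel_eq hl] at h
        exact Or.inl ⟨L0, ⟨hf, hl⟩, hf, h⟩
      · rw [pvsel_sel_nil hex] at h
        exact Or.inr ⟨fun L0 _ hl => hex ⟨_, hl⟩, hf, h⟩
    · rintro (⟨L0, ⟨hf, hl⟩, -, h⟩ | ⟨hno, hf, h⟩)
      · rw [pvsel_sel_eq hl]
        exact ⟨hf, h⟩
      · have hex : ¬ ∃ l, PvselMin Φ (S ω) l := by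
          rintro ⟨l, hl⟩
          obtain ⟨L0, rfl⟩ := pvsel_min_ix hS hV hl
          exact hno L0 hf hl
        rw [pvsel_sel_nil hex]
        exact ⟨hf, h⟩
  rw [e]
  exact (MeasurableSet.iUnion fun L0 => (hm L0).inter (hΨ L0 L)).union ((MeasurableSet.iUnion hm).compl.inter (hΨ [] L))

/-- events of the selected list -/
theorem pvsel_meas_sel (hS : PvtmMS S) (hΦ : PvselIx S Φ) (hV : PvselV Φ) (hΘ : PvselIx S Θ) : MeasurableSet {ω | (S ω).Finite ∧ Θ (S ω) (pvselSel Φ (S ω))} := by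
  exact pvsel_ix_sel hS hΦ hV (PvselIx.left hΘ) []

/-- functions of the selected list -/
theorem pvsel_measurable_sel {M : Type*} [MeasurableSpace M] [Zero M] (hS : PvtmMS S) (hΦ : PvselIx S Φ) (hV : PvselV Φ) {F : PVSample → List PvPt → M}
    (hF : ∀ L : List DelgpIx, Measurable fun ω => F ω (L.map (pvtmP ω))) : Measurable ({ω | (S ω).Finite}.indicator fun ω => F ω (pvselSel Φ (S ω))) := by
  have hm : ∀ L0 : List DelgpIx, MeasurableSet {ω | (S ω).Finite ∧ PvselMin Φ (S ω) (L0.map (pvtmP ω))} := pvsel_ix_min hS hΦ hV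
  have hfin : MeasurableSet {ω | (S ω).Finite} := pvtn_meas_finite hS
  intro B hB
  have e : ({ω | (S ω).Finite}.indicator fun ω => F ω (pvselSel Φ (S ω))) ⁻¹' B
      = ({ω | (S ω).Finite}ᶜ ∩ {_ω | (0 : M) ∈ B})
        ∪ (⋃ L0 : List DelgpIx, {ω | (S ω).Finite ∧ PvselMin Φ (S ω) (L0.map (pvtmP ω))} ∩ (fun ω => F ω (L0.map (pvtmP ω))) ⁻¹' B)
        ∪ ({ω | (S ω).Finite} ∩ (⋃ L0 : List DelgpIx, {ω | (S ω).Finite ∧ PvselMin Φ (S ω) (L0.map (pvtmP ω))})ᶜ ∩ (fun ω => F ω (([] : List DelgpIx).map (pvtmP ω))) ⁻¹' B) := by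
    ext ω
    simp only [mem_preimage, mem_ofPred_eq, mem_union, mem_iUnion, mem_inter_iff, mem_compl_iff, not_exists, not_and]
    by_cases hf : (S ω).Finite
    · rw [indicator_of_mem (show ω ∈ {ω | (S ω).Finite} from hf)]
      constructor
      · intro h
        by_cases hex : ∃ l, PvselMin Φ (S ω) l
        · obtain ⟨l, hl⟩ := hex
          obtain ⟨L0, rfl⟩ := pvsel_min_ix hS hV hl
          rw [pvsel_sel_eq hl] at h
          exact Or.inl (Or.inr ⟨L0, ⟨hf, hl⟩, h⟩)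
        · rw [pvsel_sel_nil hex] at h
          exact Or.inr ⟨⟨hf, fun L0 _ hl => hex ⟨_, hl⟩⟩, h⟩
      · rintro ((⟨hnf, -⟩ | ⟨L0, ⟨-, hl⟩, h⟩) | ⟨⟨-, hno⟩, h⟩)
        · exact absurd hf hnf
        · rw [pvsel_sel_eq hl]; exact h
        · have hex : ¬ ∃ l, PvselMin Φ (S ω) l := by
            rintro ⟨l, hl⟩
            obtain ⟨L0, rfl⟩ := pvsel_min_ix hS hV hl
            exact hno L0 hf hl
          rw [pvsel_sel_nil hex]; exact h
    · rw [indicator_of_notMem (show ω ∉ {ω | (S ω).Finite} from hf)]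
      constructor
      · intro h
        exact Or.inl (Or.inl ⟨hf, h⟩)
      · rintro ((⟨-, h⟩ | ⟨L0, ⟨hf', -⟩, -⟩) | ⟨⟨hf', -⟩, -⟩)
        · exact h
        · exact absurd hf' hf
        · exact absurd hf' hf
  rw [e]
  exact ((hfin.compl.inter (MeasurableSet.const _)).union (MeasurableSet.iUnion fun L0 => (hm L0).inter (hF L0 hB))).union
    ((hfin.inter (MeasurableSet.iUnion hm).compl).inter (hF [] hB))

/-! ## 4. exits on configurations -/

section exits

variable {ρ : ℝ} {E : Set ℂ}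

/-- **an event of the selected list: ONE measurable event, read from `E ×ˢ univ`** -/
theorem pvsel_loc_event (hEm : MeasurableSet E) (hE : MeasurableSet (pvtmIn E)) (hb : Bornology.IsBounded E) (ρ : ℝ)
    (hΦ : PvselIx (fun ω => pvtrSet ρ E (pvConf ω)) Φ) (hV : PvselV Φ) (hΘ : PvselIx (fun ω => pvtrSet ρ E (pvConf ω)) Θ) :
    MeasurableSet {η : Conf PvPt | Θ (pvtrSet ρ E η) (pvselSel Φ (pvtrSet ρ E η)) ∧ PvtnFin E η} ∧
      Conf.ReadsSet (E ×ˢ univ) {η : Conf PvPt | Θ (pvtrSet ρ E η) (pvselSel Φ (pvtrSet ρ E η)) ∧ PvtnFin E η} := by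
  have h := pvcn_bridge (A := {η : Conf PvPt | (pvtrSet ρ E η).Finite ∧ Θ (pvtrSet ρ E η) (pvselSel Φ (pvtrSet ρ E η))}) (pvsel_meas_sel (pvtm_ms_set hE ρ) hΦ hV hΘ)
  have hr : Conf.ReadsSet (E ×ˢ univ) {η : Conf PvPt | Θ (pvtrSet ρ E η) (pvselSel Φ (pvtrSet ρ E η))} := fun η => by
    show Θ (pvtrSet ρ E (Conf.restr (E ×ˢ univ) η)) (pvselSel Φ (pvtrSet ρ E (Conf.restr (E ×ˢ univ) η))) ↔ Θ (pvtrSet ρ E η) (pvselSel Φ (pvtrSet ρ E η))
    rw [pvtr_reads_set ρ E η]
  have e : {η : Conf PvPt | Θ (pvtrSet ρ E η) (pvselSel Φ (pvtrSet ρ E η))} ∩ {η | PvLF η}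
      = {η : Conf PvPt | (pvtrSet ρ E η).Finite ∧ Θ (pvtrSet ρ E η) (pvselSel Φ (pvtrSet ρ E η))} ∩ {η | PvLF η} := by
    ext η
    exact ⟨fun h => ⟨⟨pvtm_set_finite h.2 hb ρ, h.1⟩, h.2⟩, fun h => ⟨h.1.2, h.2⟩⟩
  exact ⟨pvtn_local_meas hEm hb (C := {η : Conf PvPt | Θ (pvtrSet ρ E η) (pvselSel Φ (pvtrSet ρ E η))}) (by rw [e]; exact h) hr, hr.inter (pvtn_reads_fin E)⟩

/-- **a function of the selected list: ONE measurable function, read from `E ×ˢ univ`** -/
theorem pvsel_loc_fun {M : Type*} [MeasurableSpace M] [Zero M] (hEm : MeasurableSet E) (hE : MeasurableSet (pvtmIn E)) (hb : Bornology.IsBounded E) (ρ : ℝ)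
    (hΦ : PvselIx (fun ω => pvtrSet ρ E (pvConf ω)) Φ) (hV : PvselV Φ) {F : Set (PvPt × PvPt × PvPt) → List PvPt → M}
    (hF : ∀ L : List DelgpIx, Measurable fun ω => F (pvtrSet ρ E (pvConf ω)) (L.map (pvtmP ω))) :
    Measurable ({η : Conf PvPt | PvtnFin E η}.indicator fun η : Conf PvPt => F (pvtrSet ρ E η) (pvselSel Φ (pvtrSet ρ E η))) ∧
      Conf.Reads (E ×ˢ univ) ({η : Conf PvPt | PvtnFin E η}.indicator fun η : Conf PvPt => F (pvtrSet ρ E η) (pvselSel Φ (pvtrSet ρ E η))) := by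
  have hr : Conf.Reads (E ×ˢ univ) fun η : Conf PvPt => F (pvtrSet ρ E η) (pvselSel Φ (pvtrSet ρ E η)) := pvtr_reads_of_set ρ E fun Z => F Z (pvselSel Φ Z)
  have h0 := pvsel_measurable_sel (pvtm_ms_set hE ρ) hΦ hV (F := fun ω l => F (pvtrSet ρ E (pvConf ω)) l) hF
  have h := pvtm_bridge_ind (f := {η : Conf PvPt | (pvtrSet ρ E η).Finite}.indicator fun η : Conf PvPt => F (pvtrSet ρ E η) (pvselSel Φ (pvtrSet ρ E η))) h0
  have e : ({η : Conf PvPt | PvLF η}.indicator fun η : Conf PvPt => F (pvtrSet ρ E η) (pvselSel Φ (pvtrSet ρ E η)))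
      = {η : Conf PvPt | PvLF η}.indicator ({η : Conf PvPt | (pvtrSet ρ E η).Finite}.indicator fun η : Conf PvPt => F (pvtrSet ρ E η) (pvselSel Φ (pvtrSet ρ E η))) := by
    funext η
    by_cases hη : η ∈ {η : Conf PvPt | PvLF η}
    · rw [indicator_of_mem hη, indicator_of_mem hη, indicator_of_mem (show η ∈ {η : Conf PvPt | (pvtrSet ρ E η).Finite} from pvtm_set_finite hη hb ρ)]
    · rw [indicator_of_notMem hη, indicator_of_notMem hη]
  exact ⟨pvtn_local_fun hEm hb (by rw [e]; exact h) hr, pvtn_local_reads hr⟩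

/-- the selected list itself, point by point (`k`-th point, `0` outside) -/
theorem pvsel_loc_get (hEm : MeasurableSet E) (hE : MeasurableSet (pvtmIn E)) (hb : Bornology.IsBounded E) (ρ : ℝ)
    (hΦ : PvselIx (fun ω => pvtrSet ρ E (pvConf ω)) Φ) (hV : PvselV Φ) (k : ℕ) :
    Measurable ({η : Conf PvPt | PvtnFin E η}.indicator fun η : Conf PvPt => (((pvselSel Φ (pvtrSet ρ E η))[k]?).map Prod.fst).getD 0) := by
  refine (pvsel_loc_fun hEm hE hb ρ hΦ hV (F := fun _ l => ((l[k]?).map Prod.fst).getD 0) fun L => ?_).1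
  simp only [List.getElem?_map]
  cases L[k]? with
  | none => exact measurable_const
  | some i => exact measurable_fst.comp (pvtm_measurable_P i)

end exits

/-! ## 5. covariance -/

/-- an increasing map of the keys is increasing for the lists -/
theorem pvsel_map_lt {φ : PvPt → PvPt} (hmono : ∀ p q, pvselKey p < pvselKey q → pvselKey (φ p) < pvselKey (φ q)) :
    ∀ a b : List PvPt, a.map pvselKey < b.map pvselKey → (a.map φ).map pvselKey < (b.map φ).map pvselKey
  | [], [] => fun h => absurd h (lt_irrefl _)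
  | [], _ :: _ => fun _ => by simp
  | _ :: _, [] => fun h => by simp at h
  | p :: a, q :: b => fun h => by
    simp only [List.map_cons, List.cons_lt_cons_iff] at h ⊢
    rcases h with h | ⟨h1, h2⟩
    · exact Or.inl (hmono p q h)
    · have : p = q := pvsel_key_inj h1
      subst this
      exact Or.inr ⟨rfl, pvsel_map_lt hmono a b h2⟩

theorem pvsel_map_le {φ : PvPt → PvPt} (hmono : ∀ p q, pvselKey p < pvselKey q → pvselKey (φ p) < pvselKey (φ q)) {a b : List PvPt} :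
    PvselLe (a.map φ) (b.map φ) ↔ PvselLe a b := by
  unfold PvselLe
  constructor
  · intro h
    by_contra hn
    exact absurd h (not_le.2 (pvsel_map_lt hmono b a (not_le.1 hn)))
  · intro h
    rcases lt_or_eq_of_le h with h | h
    · exact (pvsel_map_lt hmono a b h).le
    · have : a = b := List.map_injective_iff.2 pvsel_key_inj h
      rw [this]

/-- **COVARIANCE**: `φ` injective, increasing for the keys, and the problem is invariant under `φ` -/
theorem pvsel_sel_map {φ : PvPt → PvPt} (hmono : ∀ p q, pvselKey p < pvselKey q → pvselKey (φ p) < pvselKey (φ q)) {Φ' : Set (PvPt × PvPt × PvPt) → List PvPt → Prop}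
    (hinv : ∀ l, Φ Z l → Φ' (pvtnMap φ '' Z) (l.map φ)) (hsur : ∀ l', Φ' (pvtnMap φ '' Z) l' → ∃ l, Φ Z l ∧ l' = l.map φ) :
    pvselSel Φ' (pvtnMap φ '' Z) = (pvselSel Φ Z).map φ := by
  by_cases h : ∃ l, PvselMin Φ Z l
  · obtain ⟨l, hl⟩ := h
    rw [pvsel_sel_eq hl]
    refine pvsel_sel_eq ⟨hinv l hl.1, fun l' hl' => ?_⟩
    obtain ⟨l₀, h0, rfl⟩ := hsur l' hl'
    exact (pvsel_map_le hmono).2 (hl.2 l₀ h0)
  · rw [pvsel_sel_nil h]
    refine pvsel_sel_nil ?_
    rintro ⟨l', hl', hmin⟩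
    obtain ⟨l₀, h0, rfl⟩ := hsur l' hl'
    exact h ⟨l₀, h0, fun l hl => (pvsel_map_le hmono).1 (hmin _ (hinv l hl))⟩

/-- translations and positive dilations are increasing for the keys -/
theorem pvsel_key_sim {a : ℝ} (ha : 0 < a) (β : ℂ) (p q : PvPt) (h : pvselKey p < pvselKey q) :
    pvselKey (Prod.map (vorSim (a : ℂ) β) id p) < pvselKey (Prod.map (vorSim (a : ℂ) β) id q) := by
  obtain ⟨z, b⟩ := p
  obtain ⟨w, b'⟩ := q
  have hre : ∀ u : ℂ, (vorSim (a : ℂ) β u).re = a * u.re + β.re := fun u => by simp [vorSim]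
  have him : ∀ u : ℂ, (vorSim (a : ℂ) β u).im = a * u.im + β.im := fun u => by simp [vorSim]
  unfold pvselKey at h ⊢
  simp only [Prod.map_apply, id_eq, hre, him]
  rw [Prod.Lex.toLex_lt_toLex] at h ⊢
  rcases h with h | ⟨h1, h2⟩
  · left
    have h' : z.re < w.re := h
    show a * z.re + β.re < a * w.re + β.re
    nlinarith
  · right
    have h1' : z.re = w.re := h1
    refine ⟨by show a * z.re + β.re = a * w.re + β.re; rw [h1'], ?_⟩
    have h2' : toLex (z.im, b) < toLex (w.im, b') := h2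
    show toLex (a * z.im + β.im, b) < toLex (a * w.im + β.im, b')
    rw [Prod.Lex.toLex_lt_toLex] at h2' ⊢
    rcases h2' with h3 | ⟨h3, h4⟩
    · left
      have h' : z.im < w.im := h3
      show a * z.im + β.im < a * w.im + β.im
      nlinarith
    · right
      have h3' : z.im = w.im := h3
      exact ⟨by show a * z.im + β.im = a * w.im + β.im; rw [h3'], h4⟩

end Claimed.Agent.R289
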