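-- KEEP
import Claimed.Agent.R289.Tr.PlugEv
import Claimed.Agent.R289.Tr.PlugClose

/-!
# Row 289 (S0537), THE WALL, file Tr/PlugLn : LOCALITY OF THE HALF LANES ATTACHED TO THE GATE OF RECORD      (owner helper173; prefix `pvzv_`, `Pvzv`, `pvzv`)

CONSUMER: the side events `S⁺ S⁻` of route Q of [FRC] (52, 174: `Hf`), any event "gate of record + lanes from its feet through sites of one colour placed in a room".
* sec. 1  twins over `PvplIso` (238): `pvzv_join` (a monochromatic path through vertices marked `KL ⊆ K`), `pvzv_foot` (the four feet of twin gates), `PvzvLane`, `PvzvLane.twin`.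
* sec. 2  the predicate `pvzvH p ℓ` (gate of record of `p` + a family of lanes), **`pvzv_H_local`**;   change of marks.
* sec. 3  Boolean marks: **`pvzv_rep`** : measurable representative which READS `E ×ˢ univ` pointwise and is the event on the plane map on the guard `pvzeN ρ E`;   dictionary with `PvkdPlug.H`.
-/

set_option autoImplicit false
set_option linter.unusedSectionVars false

namespace Claimed.Agent.R289

open Set MeasureTheory Filter Topology Metric Claims.C0465 Relation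
open scoped ENNReal

/-! ## 1. twins -/

section twin

variable {κ : Type} {V D V' D' : Type} {T : PvMap V D} {mk : V → κ} {s : V → Bool} {T' : PvMap V' D'} {mk' : V' → κ} {s' : V' → Bool} {K : Set κ} {R : V → V' → Prop}

/-- membership in a coloured room is carried over -/
theorem pvzv_col (h : PvplIso T mk s T' mk' s' K R) (KL : Set κ) (β : Bool) {v : V} {v' : V'} (hv : R v v') (hm : v ∈ pvldCol s {u | mk u ∈ KL} β) :
    v' ∈ pvldCol s' {u | mk' u ∈ KL} β := by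
  refine ⟨?_, ?_⟩
  · show mk' v' ∈ KL
    rw [h.mark _ _ hv]; exact hm.1
  · rw [h.col _ _ hv]; exact hm.2

/-- **TWIN OF A LANE**: a path through vertices of colour `β` marked in `KL ⊆ K` -/
theorem pvzv_join (h : PvplIso T mk s T' mk' s' K R) {KL : Set κ} (hL : KL ⊆ K) (β : Bool) {a v : V} {a' : V'} (ha : R a a')
    (hj : T.Join univ (pvldCol s {u | mk u ∈ KL} β) a v) : ∃ v', R v v' ∧ T'.Join univ (pvldCol s' {u | mk' u ∈ KL} β) a' v' := by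
  obtain ⟨h0, hr⟩ := hj
  have h0' := pvzv_col h KL β ha h0
  suffices H : ∃ v', R v v' ∧ v ∈ pvldCol s {u | mk u ∈ KL} β ∧ ReflTransGen (fun u w => T'.EdgeIn univ u w ∧ w ∈ pvldCol s' {u | mk' u ∈ KL} β) a' v' by
    obtain ⟨v', h1, -, h2⟩ := H
    exact ⟨v', h1, h0', h2⟩
  induction hr with
  | refl => exact ⟨a', ha, h0, ReflTransGen.refl⟩
  | @tail u w _ hw ih =>
    obtain ⟨u', hu, hm, hp⟩ := ih
    obtain ⟨⟨d, -, rfl, rfl⟩, hwX⟩ := hw
    obtain ⟨d', e1, e2, -⟩ := h.ex d (hL hm.1)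
    have e : T'.src d' = u' := h.fn _ _ _ e1 hu
    exact ⟨T'.tgt d', e2, hwX, hp.tail ⟨⟨d', Or.inl (mem_univ _), e, rfl⟩, pvzv_col h KL β e2 hwX⟩⟩

/-- the four feet of twin gates correspond -/
theorem pvzv_foot {g : T.Gate s} {g' : T'.Gate s'} (W : PvzlTw T mk T' K R g g') (σ β : Bool) : R (pvkdFoot g σ β) (pvkdFoot g' σ β) := by
  have hvm : R g.vm g'.vm := (W.cyc.e_rel 0).1.1
  have hvp : R g.vp g'.vp := by
    have := (W.cyc.e_rel g.m).1.1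
    show R (T.src (g.c.e g.m)) (T'.src (g'.c.e g'.m))
    rwa [W.m_eq]
  cases σ <;> cases β
  · exact W.aIn.1.2.1
  · exact hvm
  · exact W.aOut.1.2.1
  · exact hvp

/-- **HALF LANE** of side `σ` and colour `β` attached to the gate `g`: from the foot to a vertex marked `KD`, through vertices of colour `β` marked `KL`      (clause of `PvkdPlug.H`, 34) -/
def PvzvLane (T : PvMap V D) (mk : V → κ) (s : V → Bool) (g : T.Gate s) (σ β : Bool) (KL KD : Set κ) : Prop :=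
  ∃ v, mk v ∈ KD ∧ T.Join univ (pvldCol s {u | mk u ∈ KL} β) (pvkdFoot g σ β) v

theorem pvzv_eqns_cite : True := by
  have := @PvzvLane.eq_1
  trivial

theorem PvzvLane.twin (h : PvplIso T mk s T' mk' s' K R) {g : T.Gate s} {g' : T'.Gate s'} (W : PvzlTw T mk T' K R g g') {σ β : Bool} {KL KD : Set κ} (hL : KL ⊆ K)
    (hl : PvzvLane T mk s g σ β KL KD) : PvzvLane T' mk' s' g' σ β KL KD := by
  obtain ⟨v, hv, hj⟩ := hl
  obtain ⟨v', h1, h2⟩ := pvzv_join h hL β (pvzv_foot W σ β) hj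
  exact ⟨v', by rw [h.mark _ _ h1]; exact hv, h2⟩

end twin

/-! ## 2. the predicate -/

section pred

variable {κ : Type} {Λ : Type}

/-- **gate of record + a family of half lanes** `ℓ l = (σ, β, room, target)` -/
def pvzvH (p : PvzlPg κ) (ℓ : Λ → Bool × Bool × Set κ × Set κ) : PvplPred κ := fun _ _ T mk s =>
  ∃ g : T.Gate s, PvzlGt T mk s p g ∧ ∀ l, PvzvLane T mk s g (ℓ l).1 (ℓ l).2.1 (ℓ l).2.2.1 (ℓ l).2.2.2

theorem pvzv_eqns_cite2 : True := by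
  have := @pvzvH.eq_1
  trivial

theorem pvzv_H_twin {V D V' D' : Type} {T : PvMap V D} {mk : V → κ} {s : V → Bool} {T' : PvMap V' D'} {mk' : V' → κ} {s' : V' → Bool} {K : Set κ} {R : V → V' → Prop}
    (h : PvplIso T mk s T' mk' s' K R) (hS : T.Simple) (hS' : T'.Simple) {p : PvzlPg κ} (hp : p.Sub K) {ℓ : Λ → Bool × Bool × Set κ × Set κ} (hℓ : ∀ l, (ℓ l).2.2.1 ⊆ K)
    (H : pvzvH p ℓ V D T mk s) : pvzvH p ℓ V' D' T' mk' s' := by
  obtain ⟨g, hg, hl⟩ := H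
  obtain ⟨g', hg', W⟩ := hg.twin h hS hS' hp.1 hp.2.1 hp.2.2
  exact ⟨g', hg', fun l => (hl l).twin h W (hℓ l)⟩

/-- **[LOC] of the plug with lanes** -/
theorem pvzv_H_local {p : PvzlPg κ} {K : Set κ} (hp : p.Sub K) {ℓ : Λ → Bool × Bool × Set κ × Set κ} (hℓ : ∀ l, (ℓ l).2.2.1 ⊆ K) : (pvzvH p ℓ).Local K :=
  fun _ _ _ _ _ _ _ _ _ _ _ hS hS' h => ⟨pvzv_H_twin h hS hS' hp hℓ, pvzv_H_twin h.symm hS' hS hp hℓ⟩

variable {κ' : Type} {V D : Type} {T : PvMap V D} {mk : V → κ} {s : V → Bool} (θ : κ → κ')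

/-- change of marks -/
theorem pvzv_lane_comap {g : T.Gate s} {σ β : Bool} {KL KD : Set κ'} : PvzvLane T mk s g σ β (θ ⁻¹' KL) (θ ⁻¹' KD) ↔ PvzvLane T (θ ∘ mk) s g σ β KL KD := Iff.rfl

theorem pvzv_H_comap {p : PvzlPg κ'} {ℓ : Λ → Bool × Bool × Set κ' × Set κ'} :
    pvzvH (p.comap θ) (fun l => ((ℓ l).1, (ℓ l).2.1, θ ⁻¹' (ℓ l).2.2.1, θ ⁻¹' (ℓ l).2.2.2)) V D T mk s ↔ pvzvH p ℓ V D T (θ ∘ mk) s :=
  exists_congr fun _ => and_congr (pvkk_gt θ) Iff.rfl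

end pred

/-! ## 2b. monotonicity in the colours at a fixed map      (map level of the field `Up` of route Q) -/

section mono

variable {κ Λ : Type} {V D : Type} {T : PvMap V D} {mk : V → κ} {s s' : V → Bool} {K : Set κ}

/-- two colourings of ONE map which agree on the stars of the vertices marked in `K` -/
theorem pvzv_iso_col (h : ∀ d, mk (T.src d) ∈ K → s (T.src d) = s' (T.src d) ∧ s (T.tgt d) = s' (T.tgt d) ∧ s (T.apex d) = s' (T.apex d)) :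
    PvplIso T mk s T mk s' K (fun u u' => u = u' ∧ s u = s' u) where
  mark := by rintro u _ ⟨rfl, -⟩; rfl
  col := by rintro u _ ⟨rfl, e⟩; exact e.symm
  fn := by rintro u _ _ ⟨rfl, -⟩ ⟨rfl, -⟩; rfl
  inj := by rintro u v _ ⟨rfl, -⟩ ⟨e, -⟩; exact e.symm
  ex d hd := ⟨d, ⟨rfl, (h d hd).1⟩, ⟨rfl, (h d hd).2.1⟩, ⟨rfl, (h d hd).2.2⟩⟩
  ex' d hd := ⟨d, ⟨rfl, (h d hd).1⟩, ⟨rfl, (h d hd).2.1⟩, ⟨rfl, (h d hd).2.2⟩⟩

/-- **THE PLUG WITH LANES IS UP IN THE MIXED ORDER**: the colours are frozen on the stars of the vertices marked in `K ⊇ KI ∪ KO ∪ KT`; in the room of a lane of colour `β` the colour `β` can only be gained -/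
theorem pvzv_H_mono (hS : T.Simple) {p : PvzlPg κ} (hp : p.Sub K) {ℓ : Λ → Bool × Bool × Set κ × Set κ}
    (hfr : ∀ d, mk (T.src d) ∈ K → s (T.src d) = s' (T.src d) ∧ s (T.tgt d) = s' (T.tgt d) ∧ s (T.apex d) = s' (T.apex d))
    (hup : ∀ l v, mk v ∈ (ℓ l).2.2.1 → s v = (ℓ l).2.1 → s' v = (ℓ l).2.1) (H : pvzvH p ℓ V D T mk s) : pvzvH p ℓ V D T mk s' := by
  obtain ⟨g, hg, hl⟩ := H
  obtain ⟨g', hg', W⟩ := hg.twin (pvzv_iso_col hfr) hS hS hp.1 hp.2.1 hp.2.2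
  refine ⟨g', hg', fun l => ?_⟩
  obtain ⟨v, hv, h0, hr⟩ := hl l
  have ef : pvkdFoot g (ℓ l).1 (ℓ l).2.1 = pvkdFoot g' (ℓ l).1 (ℓ l).2.1 := (pvzv_foot W _ _).1
  rw [ef] at h0 hr
  exact ⟨v, hv, ⟨h0.1, hup l _ h0.1 h0.2⟩, ReflTransGen.mono (fun a b hab => ⟨hab.1, hab.2.1, hup l _ hab.2.1 hab.2.2⟩) _ _ hr⟩

end mono

/-! ## 3. Boolean marks, representative -/

section rep

variable {ι Λ : Type} {ρ : ℝ} {E : Set ℂ}

/-- **REPRESENTATIVE OF THE PLUG WITH LANES**: regions `S i` (Borel), those with a number in `J` lie `3ρ` inside the window;   the plug has the regions number `f 0 .. f 4`, the lane `l` the room number `(ℓ l).2.2.1 ∈ J` and the target number `(ℓ l).2.2.2` -/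
theorem pvzv_rep [Finite ι] (hρ : 0 < ρ) (hE : PvplWin E) (hb : Bornology.IsBounded E) {S : ι → Set ℂ} (hS : ∀ i, MeasurableSet (S i)) {J : Set ι}
    (hJ : ∀ i ∈ J, S i ⊆ pvtrCore (3 * ρ) E) {f : Fin 5 → ι} (h0 : f 0 ∈ J) (h1 : f 1 ∈ J) (h4 : f 4 ∈ J) {ℓ : Λ → Bool × Bool × ι × ι} (hℓ : ∀ l, (ℓ l).2.2.1 ∈ J) :
    PvzeRep ρ E fun η => pvzvH ⟨S (f 0), S (f 1), S (f 2), S (f 3), S (f 4)⟩ (fun l => ((ℓ l).1, (ℓ l).2.1, S (ℓ l).2.2.1, S (ℓ l).2.2.2)) _ _ (pvkiT η) Subtype.val (pvkiS η) := by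
  have := Fintype.ofFinite ι
  refine PvzeRep.congr (pvze_rep_ev (pvze_win hρ hE hb hS hJ)
    (pvzv_H_local (p := pvzePg f) (ℓ := fun l => ((ℓ l).1, (ℓ l).2.1, pvzeK (ℓ l).2.2.1, pvzeK (ℓ l).2.2.2)) (pvze_pg_sub h0 h1 h4) fun l => pvze_K_sub (hℓ l))) fun η _ => ?_
  have := pvzv_H_comap (T := pvkiT η) (mk := Subtype.val) (s := pvkiS η) (pvzeTh S) (p := pvzePg f) (ℓ := fun l => ((ℓ l).1, (ℓ l).2.1, pvzeK (ℓ l).2.2.1, pvzeK (ℓ l).2.2.2))
  simp only [pvze_pg_comap, pvze_th_pre] at this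
  exact this.symm

/-- dictionary: the half lane of 34 -/
theorem pvzv_H_iff (𝔭 : PvkdPlug) (z d : ℂ) (σ β : Bool) (η : Conf PvPt) :
    η ∈ 𝔭.H z d σ β ↔ η ∈ 𝔭.N z d ∧ pvzvH (𝔭.pg z d) (fun _ : Unit => (σ, β, pvkdAt z d (𝔭.Ln σ β), pvkdAt z d (𝔭.Dr σ β))) _ _ (pvkiT η) Subtype.val (pvkiS η) :=
  and_congr Iff.rfl (exists_congr fun _ => and_congr Iff.rfl ⟨fun h _ => h, fun h => h ()⟩)

/-- dictionary: the plug with its four half lanes is ONE gate with four lanes (uniqueness of the gate of record: `pvkx_uniq` of 244) -/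
theorem pvzv_CH_iff (𝔭 : PvkdPlug) (hZ : Disjoint 𝔭.Zm 𝔭.Zp) (z d : ℂ) (η : Conf PvPt) :
    η ∈ 𝔭.CH z d ↔ η ∈ 𝔭.N z d ∧
      pvzvH (𝔭.pg z d) (fun l : Bool × Bool => (l.1, l.2, pvkdAt z d (𝔭.Ln l.1 l.2), pvkdAt z d (𝔭.Dr l.1 l.2))) _ _ (pvkiT η) Subtype.val (pvkiS η) := by
  constructor
  · rintro ⟨⟨hN, g, hg⟩, hH⟩
    refine ⟨hN, g, hg, fun l => ?_⟩
    have h1 : η ∈ 𝔭.H z d l.1 l.2 := mem_iInter.1 (mem_iInter.1 hH l.1) l.2
    obtain ⟨-, g₂, hg₂, hl⟩ := h1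
    have e : g = g₂ := pvkx_uniq hN.1 hZ hg hg₂
    subst e
    exact hl
  · rintro ⟨hN, g, hg, hl⟩
    exact ⟨⟨hN, g, hg⟩, mem_iInter.2 fun σ => mem_iInter.2 fun β => ⟨hN, g, hg, hl (σ, β)⟩⟩

/-- a lane in smaller rooms / to a nearer target: monotonicity in the regions -/
theorem PvzvLane.mono {κ V D : Type} {T : PvMap V D} {mk : V → κ} {s : V → Bool} {g : T.Gate s} {σ β : Bool} {KL KL' KD KD' : Set κ} (hL : KL ⊆ KL') (hD : KD ⊆ KD')
    (h : PvzvLane T mk s g σ β KL KD) : PvzvLane T mk s g σ β KL' KD' := by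
  obtain ⟨v, hv, h0, hr⟩ := h
  exact ⟨v, hD hv, ⟨hL h0.1, h0.2⟩, ReflTransGen.mono (fun a b hab => ⟨hab.1, hL hab.2.1, hab.2.2⟩) _ _ hr⟩

/-- **TRUNCATION OF A LANE**: a lane to a target `KD` passes through every set of marks `KC` which separates: if the foot is not marked `KF` (far side), the end is, and every edge from `¬ KF` to `KF` starts .. in `KC`, the piece up to the first
vertex marked `KC` is a lane to `KC` through vertices not marked `KF`.      Form: first vertex of the path with a mark in `KC`. -/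
theorem PvzvLane.trunc {κ V D : Type} {T : PvMap V D} {mk : V → κ} {s : V → Bool} {g : T.Gate s} {σ β : Bool} {KL KD KC : Set κ}
    (h : PvzvLane T mk s g σ β KL KD) (hsep : ∀ v, T.Join univ (pvldCol s {u | mk u ∈ KL \ KC} β) (pvkdFoot g σ β) v → mk v ∉ KD)
    (h0 : mk (pvkdFoot g σ β) ∉ KC) : PvzvLane T mk s g σ β (KL \ KC ∪ KL ∩ KC) KC ∧
      ∃ v, mk v ∈ KC ∧ mk v ∈ KL ∧ s v = β ∧ ∃ u, T.Join univ (pvldCol s {u | mk u ∈ KL \ KC} β) (pvkdFoot g σ β) u ∧ T.EdgeIn univ u v := by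
  obtain ⟨v, hv, hf, hr⟩ := h
  -- either the whole path avoids `KC`, or there is a first vertex in `KC`
  have key : (T.Join univ (pvldCol s {u | mk u ∈ KL \ KC} β) (pvkdFoot g σ β) v) ∨
      ∃ w, mk w ∈ KC ∧ mk w ∈ KL ∧ s w = β ∧ ∃ u, T.Join univ (pvldCol s {u | mk u ∈ KL \ KC} β) (pvkdFoot g σ β) u ∧ T.EdgeIn univ u w := by
    clear hv
    induction hr with
    | refl => exact Or.inl ⟨⟨⟨hf.1, h0⟩, hf.2⟩, ReflTransGen.refl⟩
    | @tail u w _ hw ih =>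
      rcases ih with ih | ih
      · by_cases hc : mk w ∈ KC
        · exact Or.inr ⟨w, hc, hw.2.1, hw.2.2, u, ih, hw.1⟩
        · exact Or.inl ⟨ih.1, ih.2.tail ⟨hw.1, ⟨hw.2.1, hc⟩, hw.2.2⟩⟩
      · exact Or.inr ih
  rcases key with key | ⟨w, c1, c2, c3, u, hu, he⟩
  · exact absurd hv (hsep v key)
  · refine ⟨⟨w, c1, ⟨Or.inl hu.1.1, hu.1.2⟩, ?_⟩, w, c1, c2, c3, u, hu, he⟩
    exact (ReflTransGen.mono (fun a b hab => ⟨hab.1, Or.inl hab.2.1, hab.2.2⟩) _ _ hu.2).tail ⟨he, Or.inr ⟨c2, c1⟩, c3⟩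

end rep

end Claimed.Agent.R289
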