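-- KEEP
import Claimed.Agent.R289.Tr.PlugLn
import Claimed.Agent.R289.Tr.RunOut
import Claimed.Agent.R289.Tr.PlugFrcQ

/-!
# Row 289 (S0537), THE WALL, chapter E (cells), [FRC] route Q, file Tr/FrcCore : THE DETERMINISTIC CORES OF [FRC] AT THE PREDICATES OF RECORD      (owner helper251; prefix `pvjy_`, `Pvjy`)

CONSUMERS: the fields `det` and `up` of `PvcjOk` (52, `Tr/PlugFrcQ.lean`) at `𝔤.glob Hf` (34, `Tr/PlugK.lean` v3), `Hf` = side events "gate of record + lanes" = `pvzvH p ℓ` of 173 (`Tr/PlugLn.lean`).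
* sec.1  **(D)**, MODEL FREE (`T mk s` arbitrary, predicates of 173): `pvjy_not_int`, `pvjy_out` (OUT of `pvld_exist` along the through strand `PvzlThru`: `g⁻ ∉ K`),
         **`pvjy_run`** : `IsSph`, `PvzlGt p g`, `Left` finite, `K` finite, marked `KE`, co-connected complement, black `Join` `g⁺ → g'⁻` and white `Join` between the white feet in `K`, `g⁻ ∉ K`, `g'⁺ ∉ K`, gates apart  ⟹  `∃ N, PvzlRun T mk s KE g g' N`
         (`pvld_exist` of 70, `pvkk_run_src`, `pvkk_run_tgt` of 181: the closed outside of both gates is a CONSEQUENCE).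
         AT `Tr/PlugK`: `K := pvgeKV (cfSites η) (placed Co τ)ᶜ` of 29 (sites whose CELL lies in the corridor): `pvjy_co`, `pvjy_KV_off`, `pvjy_apart`, **`pvjy_link`** (`∃ N, 𝔤.Link η z d τ g g' N`), `pvjy_mesh_union`, **`pvjy_A`** (`η ∈ 𝔤.A z d τ`).
         What is left of `det` = the two `Join`s `hB hW` in `K` (graph lanes + net: 204 294) and regions (`Co τ` bounded, complement preconnected, off `Zm`, off the placed `Zp`, discs disjoint).
* sec.2  **(U)**, MODEL FREE: `PvjyAg T mk s s' K₀` (the colourings agree on the closed stars of the vertices marked `K₀`), `.iso` (the identity is a `PvplIso`), `pvjy_gate` (the gate of record is kept: same feet, same circuit), `pvjy_lane`, **`pvjy_up`** (`pvzvH p ℓ` passes from `s` to `s'`).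
         CONFIGURATIONS WITH THE SAME SITES: `pvjy_congr_sites`, `pvjy_star` (mesh: stars of the `3ρ`-core of the window lie in the window), **`pvjy_up_conf`**.
         SPLICES (copies of 68): `pvjy_mem_spl sites_spl sites_blind col_in col_out col_site le_K1 le_K2`.
         QUENCHED: **`pvjy_up_at`** : `PvhkUpAt g (pvfpSg g b K₁ K₂) (pvhkSec (F ×ˢ univ) σ Lp)` at ONE good geometry, ANY state with nice splices;   **`pvjy_conn_up`** : `D.Up ε σ` for EVERY `σ` as soon as `D.E ⊆ nice` (= the field `up` of `PvcjOk`).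
-/

set_option autoImplicit false
set_option linter.unusedSectionVars false

namespace Claimed.Agent.R289

open Relation Set

/-! ## 1. (D) two gates of record + two lanes ⟹ the run of the link -/

section det

variable {κ : Type} {V D : Type} {T : PvMap V D} {mk : V → κ} {s : V → Bool}

/-- a vertex of the closed outside of a circuit is not an interior vertex -/
theorem pvjy_not_int (hT : T.IsSph) (c : T.Cyc) {v : V} (h : v ∈ T.VOf c.Right) : v ∉ T.Int c.Left := by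
  obtain ⟨d, hd, rfl⟩ := h
  rw [(pl_jordan hT c).1] at hd
  exact fun hi => hd (hi d rfl)

/-- **OUT along the through strand**: the face behind `aOut` is joined, off the bar of the lane experiment, to a face with the vertex `g⁻ ∉ K` -/
theorem pvjy_out {KT : Set κ} {g : T.Gate s} {N₀ : ℕ} (ht : PvzlThru T mk s KT g N₀) {K : Set V} (hvm : g.vm ∉ K) {a₁ : D} (h1 : pvasBW T s a₁) (hoff : a₁ ∉ g.c.Left) :
    ∃ f, T.src f ∉ K ∧ T.DJoin (pvldBar T s K g.aOut a₁) (T.opp g.aOut) f := by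
  refine pvld_out_strand h1 (pvtg_aIn_bw g) ht.2.1 (fun i hi => ⟨ht.2.2.1 i hi, fun e => hoff (e ▸ ht.2.2.2.1 i hi)⟩) fun hsub => hvm (hsub ?_)
  exact ⟨g.aIn, ⟨0, ht.1, T.sf_refl _⟩, rfl⟩

/-- **(D) THE RUN OF A LINK**, model free.      `K` = finite, co-connected set of sites marked `KE`; black lane `g⁺ → g'⁻`, white lane between the white feet, both in `K`; `g⁻ ∉ K`, `g'⁺ ∉ K`; the gates are apart. -/
theorem pvjy_run (hT : T.IsSph) {p : PvzlPg κ} {KE : Set κ} {g g' : T.Gate s} (hg : PvzlGt T mk s p g) (hfin : g.c.Left.Finite)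
    {K : Set V} (hK : K.Finite) (hKE : ∀ v ∈ K, mk v ∈ KE) (hco : ∀ u v, u ∉ K → v ∉ K → T.Join univ Kᶜ u v)
    (hB : T.Join univ (pvldCol s K true) g.vp g'.vm) (hW : T.Join univ (pvldCol s K false) (T.tgt g.aOut) (T.tgt g'.aIn))
    (hvm : g.vm ∉ K) (hvp' : g'.vp ∉ K) (hne : g.vp ≠ g'.vm) (hoff : g'.aIn ∉ g.c.Left) (hoff' : g.aOut ∉ g'.c.Left) :
    ∃ N, PvzlRun T mk s KE g g' N := by
  obtain ⟨N₀, ht⟩ := hg.thru
  have r0 : PvldRun T s K g.aOut g'.aIn :=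
    pvld_exist hT hK (pvtg_aOut_bw g) (pvtg_aIn_bw g') (by rw [pvtg_aOut_src, pvtg_aIn_src]; exact hne) (by rw [pvtg_aOut_src, pvtg_aIn_src]; exact hB) hW hco
      (pvjy_out ht hvm (pvtg_aIn_bw g') hoff)
  have r1 := pvkk_run_src hT g r0 (ht.len hT).2 hfin hvm hoff
  have r2 := pvkk_run_tgt hT g' (pvtg_aOut_bw g) r1 hoff' fun h => hvp' h.1
  obtain ⟨N, h1, h2, h3, h4⟩ := r2
  exact ⟨N, h1, h2, h3, fun v hv => ⟨hKE v (h4 hv).1.1, pvjy_not_int hT g.c (h4 hv).1.2, pvjy_not_int hT g'.c (h4 hv).2⟩⟩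

end det


/-! ### (D) at the definitions of `Tr/PlugK` -/

section model

variable {η : Conf PvPt}

/-- the sites off `pvgeKV Y S` are joined off it, on the plane map of 244 -/
theorem pvjy_co {Y S : Set ℂ} (h : DelGood Y) (hS : IsPreconnected S) (u v : ↥Y) (hu : u ∉ pvgeKV Y S) (hv : v ∉ pvgeKV Y S) :
    (delbPl Y).toMap.Join univ (pvgeKV Y S)ᶜ u v := by
  have := pvge_map_co_join h hS u v hu hv
  unfold delMap at this
  rw [delb_pl_eq h]
  exact this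

/-- a site whose position is in `S` is not in `pvgeKV Y S` -/
theorem pvjy_KV_off {Y S : Set ℂ} {v : ↥Y} (hv : (v : ℂ) ∈ S) : v ∉ pvgeKV Y S := fun h => (pvge_K_sub Y S h).2 hv

/-- two gates of record round disjoint discs are apart -/
theorem pvjy_apart {𝔭 𝔭' : PvkdPlug} {z d z' d' : ℂ} {g g' : (pvkiT η).Gate (pvkiS η)} (hg : PvkdGate 𝔭 η z d g) (hg' : PvkdGate 𝔭' η z' d' g')
    (hdis : Disjoint (Metric.ball z 𝔭.b) (Metric.ball z' 𝔭'.b)) : g.vp ≠ g'.vm ∧ g'.aIn ∉ g.c.Left ∧ g.aOut ∉ g'.c.Left := by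
  have h1 : ((g.vp : ↥(cfSites η)) : ℂ) ∈ Metric.ball z 𝔭.b := hg.least.reg.rim g.m
  have h2 : ((g'.vm : ↥(cfSites η)) : ℂ) ∈ Metric.ball z' 𝔭'.b := hg'.least.reg.rim 0
  refine ⟨fun e => disjoint_left.1 hdis h1 (e ▸ h2), fun h => disjoint_left.1 hdis (hg.least.reg.outer _ h) h2, fun h => ?_⟩
  have h3 := hg'.least.reg.outer _ h
  rw [pvtg_aOut_src] at h3
  exact disjoint_left.1 hdis h1 h3

/-- **(D) THE LINK OF `Tr/PlugK`** from two lanes in `K = pvgeKV (cfSites η) (placed Co τ)ᶜ` (the sites whose CELL lies in the placed corridor) -/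
theorem pvjy_link (𝔤 : PvkdGeo) {z d : ℂ} {τ : PvtTurn} (hn : PvatNice (cfSites η)) {g g' : (pvkiT η).Gate (pvkiS η)}
    (hg : PvkdGate 𝔤.toPvkdPlug η z d g) (hg' : PvkdGate 𝔤.toPvkdPlug η (𝔤.zo z d τ) (d * τ.rot) g')
    (hS : IsPreconnected (pvkdAt z d (𝔤.Co τ))ᶜ) (hbd : Bornology.IsBounded (pvkdAt z d (𝔤.Co τ)))
    (hZm : Disjoint (pvkdAt z d 𝔤.Zm) (pvkdAt z d (𝔤.Co τ))) (hZp : Disjoint (pvkdAt (𝔤.zo z d τ) (d * τ.rot) 𝔤.Zp) (pvkdAt z d (𝔤.Co τ)))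
    (hdis : Disjoint (Metric.ball z 𝔤.b) (Metric.ball (𝔤.zo z d τ) 𝔤.b))
    (hB : (pvkiT η).Join univ (pvldCol (pvkiS η) (pvgeKV (cfSites η) (pvkdAt z d (𝔤.Co τ))ᶜ) true) g.vp g'.vm)
    (hW : (pvkiT η).Join univ (pvldCol (pvkiS η) (pvgeKV (cfSites η) (pvkdAt z d (𝔤.Co τ))ᶜ) false) ((pvkiT η).tgt g.aOut) ((pvkiT η).tgt g'.aIn)) :
    ∃ N, 𝔤.Link η z d τ g g' N := by
  obtain ⟨a1, a2, a3⟩ := pvjy_apart hg hg' hdis
  obtain ⟨N, hN⟩ := pvjy_run (KE := pvkdAt z d (𝔤.Co τ)) (delb_plane_isSph hn.good) hg (pvkx_gate_fin hn hg)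
    (pvge_KV_finite (pvge_K_finite hn.1 (by rw [compl_compl]; exact hbd))) (fun v hv => not_not.1 (pvge_K_sub _ _ hv).2) (pvjy_co hn.good hS) hB hW
    (pvjy_KV_off (disjoint_left.1 hZm hg.vm)) (pvjy_KV_off (disjoint_left.1 hZp hg'.vp)) a1 a2 a3
  exact ⟨N, hg, hg', hN⟩

/-- the mesh of a union of windows whose cores cover the core -/
theorem pvjy_mesh_union {Y E E₁ E₂ E₃ : Set ℂ} {ρ : ℝ} (hc : pvtrCore ρ E ⊆ pvtrCore ρ E₁ ∪ pvtrCore ρ E₂ ∪ pvtrCore ρ E₃) (h₁ : PvtrMesh ρ E₁ Y) (h₂ : PvtrMesh ρ E₂ Y) (h₃ : PvtrMesh ρ E₃ Y) :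
    PvtrMesh ρ E Y := by
  intro w hw
  rcases hc hw with (h | h) | h
  · exact h₁ w h
  · exact h₂ w h
  · exact h₃ w h

/-- **(D) SUCCESS OF THE LINK** -/
theorem pvjy_A (𝔤 : PvkdGeo) {z d : ℂ} {τ : PvtTurn} (hn : PvatNice (cfSites η)) (hm : PvtrMesh 𝔤.ρ (pvkdAt z d (𝔤.Ea τ)) (cfSites η)) {g g' : (pvkiT η).Gate (pvkiS η)}
    (hg : PvkdGate 𝔤.toPvkdPlug η z d g) (hg' : PvkdGate 𝔤.toPvkdPlug η (𝔤.zo z d τ) (d * τ.rot) g')
    (hS : IsPreconnected (pvkdAt z d (𝔤.Co τ))ᶜ) (hbd : Bornology.IsBounded (pvkdAt z d (𝔤.Co τ)))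
    (hZm : Disjoint (pvkdAt z d 𝔤.Zm) (pvkdAt z d (𝔤.Co τ))) (hZp : Disjoint (pvkdAt (𝔤.zo z d τ) (d * τ.rot) 𝔤.Zp) (pvkdAt z d (𝔤.Co τ)))
    (hdis : Disjoint (Metric.ball z 𝔤.b) (Metric.ball (𝔤.zo z d τ) 𝔤.b))
    (hB : (pvkiT η).Join univ (pvldCol (pvkiS η) (pvgeKV (cfSites η) (pvkdAt z d (𝔤.Co τ))ᶜ) true) g.vp g'.vm)
    (hW : (pvkiT η).Join univ (pvldCol (pvkiS η) (pvgeKV (cfSites η) (pvkdAt z d (𝔤.Co τ))ᶜ) false) ((pvkiT η).tgt g.aOut) ((pvkiT η).tgt g'.aIn)) :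
    η ∈ 𝔤.A z d τ := by
  obtain ⟨N, hN⟩ := pvjy_link 𝔤 hn hg hg' hS hbd hZm hZp hdis hB hW
  exact ⟨⟨hn, hm⟩, g, g', N, hN⟩

end model

/-! ## 2. (U) recolouring off the frozen marks -/

section up

variable {κ Λ : Type} {V D : Type} {T : PvMap V D} {mk : V → κ} {s s' : V → Bool}

/-- the two colourings agree on the closed stars of the vertices marked `K₀` -/
def PvjyAg (T : PvMap V D) (mk : V → κ) (s s' : V → Bool) (K₀ : Set κ) : Prop :=
  ∀ d, mk (T.src d) ∈ K₀ → s' (T.src d) = s (T.src d) ∧ s' (T.tgt d) = s (T.tgt d) ∧ s' (T.apex d) = s (T.apex d)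

theorem pvjy_eqns_cite : True := by
  have := @PvjyAg.eq_1
  trivial

/-- the identity is a local isomorphism between the two colourings -/
theorem PvjyAg.iso {K₀ : Set κ} (h : PvjyAg T mk s s' K₀) : PvplIso T mk s T mk s' K₀ fun u u' => u = u' ∧ s' u = s u where
  mark _ _ hu := by rw [hu.1]
  col _ _ hu := by rw [← hu.1]; exact hu.2
  fn _ _ _ hu hv := hu.1.symm.trans hv.1
  inj _ _ _ hu hv := hu.1.trans hv.1.symm
  ex d hd := ⟨d, ⟨rfl, (h d hd).1⟩, ⟨rfl, (h d hd).2.1⟩, ⟨rfl, (h d hd).2.2⟩⟩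
  ex' d hd := ⟨d, ⟨rfl, (h d hd).1⟩, ⟨rfl, (h d hd).2.1⟩, ⟨rfl, (h d hd).2.2⟩⟩

/-- **the gate of record does not see the colours off the frozen stars**: same feet, same circuit -/
theorem pvjy_gate (hS : T.Simple) {p : PvzlPg κ} {K₀ : Set κ} (hp : p.Sub K₀) (h : PvjyAg T mk s s' K₀) {g : T.Gate s} (hg : PvzlGt T mk s p g) :
    ∃ g' : T.Gate s', PvzlGt T mk s' p g' ∧ (∀ σ β, pvkdFoot g' σ β = pvkdFoot g σ β) ∧ (∀ k, T.src (g'.c.e k) = T.src (g.c.e k)) ∧ g'.m = g.m := by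
  obtain ⟨g', hg', W⟩ := hg.twin h.iso hS hS hp.1 hp.2.1 hp.2.2
  exact ⟨g', hg', fun σ β => (pvzv_foot W σ β).1.symm, fun k => (W.cyc.e_rel k).1.1.1.symm, W.m_eq⟩

/-- a lane is monotone in the colours of its room -/
theorem pvjy_lane {g : T.Gate s} {g' : T.Gate s'} {σ β : Bool} {KL KD : Set κ} (hf : pvkdFoot g' σ β = pvkdFoot g σ β) (hm : ∀ v, mk v ∈ KL → s v = β → s' v = β)
    (h : PvzvLane T mk s g σ β KL KD) : PvzvLane T mk s' g' σ β KL KD := by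
  obtain ⟨v, hv, hj⟩ := h
  refine ⟨v, hv, ?_⟩
  rw [hf]
  exact ⟨⟨hj.1.1, hm _ hj.1.1 hj.1.2⟩, ReflTransGen.mono (fun a b hab => ⟨hab.1, hab.2.1, hm _ hab.2.1 hab.2.2⟩) _ _ hj.2⟩

/-- **(U) THE PLUG WITH LANES IS UP**: the colours agree on the frozen stars, every lane keeps its colour in its room -/
theorem pvjy_up (hS : T.Simple) {p : PvzlPg κ} {K₀ : Set κ} (hp : p.Sub K₀) (h : PvjyAg T mk s s' K₀) {ℓ : Λ → Bool × Bool × Set κ × Set κ}
    (hm : ∀ l v, mk v ∈ (ℓ l).2.2.1 → s v = (ℓ l).2.1 → s' v = (ℓ l).2.1) (H : pvzvH p ℓ V D T mk s) : pvzvH p ℓ V D T mk s' := by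
  obtain ⟨g, hg, hl⟩ := H
  obtain ⟨g', hg', hf, -, -⟩ := pvjy_gate hS hp h hg
  exact ⟨g', hg', fun l => pvjy_lane (hf _ _) (hm l) (hl l)⟩

end up

/-! ### configurations with the same sites -/

section conf

variable {Λ : Type}

/-- a predicate on the plane map of a configuration is a function of the sites and of the colours of the sites -/
theorem pvjy_congr_sites (Φ : PvplPred ℂ) {η η' : Conf PvPt} (hY : cfSites η' = cfSites η) :
    Φ _ _ (pvkiT η') Subtype.val (pvkiS η') ↔ Φ _ _ (pvkiT η) Subtype.val (cfCol η' ∘ Subtype.val) := by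
  have key : ∀ Y Y' : Set ℂ, Y' = Y → ∀ col : ℂ → Bool,
      (Φ _ _ (delbPl Y').toMap Subtype.val (col ∘ Subtype.val) ↔ Φ _ _ (delbPl Y).toMap Subtype.val (col ∘ Subtype.val)) := by
    rintro Y _ rfl col
    exact Iff.rfl
  exact key _ _ hY (cfCol η')

/-- on the mesh the closed stars of the sites of the `3ρ`-core of the window lie in the window -/
theorem pvjy_star {Y U : Set ℂ} {ρ : ℝ} (hρ : 0 < ρ) (hm : PvtrMesh ρ U Y) (d : (delbPl Y).Dart) (hd : (((delbPl Y).toMap.src d : ↥Y) : ℂ) ∈ pvtrCore (3 * ρ) U) :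
    (((delbPl Y).toMap.src d : ↥Y) : ℂ) ∈ U ∧ (((delbPl Y).toMap.tgt d : ↥Y) : ℂ) ∈ U ∧ (((delbPl Y).toMap.apex d : ↥Y) : ℂ) ∈ U := by
  have ht := delb_plane_face d
  exact ⟨pvtr_core_subset (by positivity) hd, pvge_adj_mem hρ hm hd ht.adj, pvge_adj_mem hρ hm hd (del_tri_adj ht).2.2.symm⟩

/-- **(U) AT TWO CONFIGURATIONS WITH THE SAME SITES**: the colours agree in the window `U` (frozen), the marks of the plug lie in its `3ρ`-core, mesh `ρ` in `U`; every lane keeps its colour in its room -/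
theorem pvjy_up_conf {η η' : Conf PvPt} (hY : cfSites η' = cfSites η) {U : Set ℂ} {ρ : ℝ} (hρ : 0 < ρ) (hm : PvtrMesh ρ U (cfSites η))
    (hU : ∀ w ∈ cfSites η, w ∈ U → cfCol η' w = cfCol η w) {p : PvzlPg ℂ} (hp : p.Sub (pvtrCore (3 * ρ) U)) {ℓ : Λ → Bool × Bool × Set ℂ × Set ℂ}
    (hl : ∀ l, ∀ w ∈ cfSites η, w ∈ (ℓ l).2.2.1 → cfCol η w = (ℓ l).2.1 → cfCol η' w = (ℓ l).2.1)
    (H : pvzvH p ℓ _ _ (pvkiT η) Subtype.val (pvkiS η)) : pvzvH p ℓ _ _ (pvkiT η') Subtype.val (pvkiS η') := by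
  refine (pvjy_congr_sites (pvzvH p ℓ) hY).2 ?_
  refine pvjy_up (delbPl (cfSites η)).toMap_simple hp (fun d hd => ?_) (fun l v hv hc => hl l v.1 v.2 hv hc) H
  obtain ⟨h1, h2, h3⟩ := pvjy_star hρ hm d hd
  exact ⟨hU _ (Subtype.coe_prop _) h1, hU _ (Subtype.coe_prop _) h2, hU _ (Subtype.coe_prop _) h3⟩

end conf


/-! ### splices of a frozen state with a sample      (copies of `pvfv_*` of 68, `Tr/ForceS` sec. 3: that file sits above road P) -/

section splice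

variable {F : Set ℂ} {σ η : Conf PvPt} {g : PvGeoT} {c c' : PvColT}

theorem pvjy_mem_spl {p : PvPt} : p ∈ (Conf.spl (F ×ˢ (univ : Set Bool)) (σ, η)).pts ↔ (p ∈ σ.pts ∧ p.1 ∈ F) ∨ (p ∈ η.pts ∧ p.1 ∉ F) := by
  simp only [Conf.spl, Conf.union, Conf.restr, mem_union, mem_inter_iff, mem_prod, mem_univ, and_true, mem_compl_iff]

/-- the sites of a splice -/
theorem pvjy_sites_spl (F : Set ℂ) (σ η : Conf PvPt) : cfSites (Conf.spl (F ×ˢ (univ : Set Bool)) (σ, η)) = cfSites σ ∩ F ∪ cfSites η \ F := by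
  ext a
  constructor
  · rintro ⟨p, hp, rfl⟩
    rcases pvjy_mem_spl.1 hp with h | h
    · exact Or.inl ⟨⟨p, h.1, rfl⟩, h.2⟩
    · exact Or.inr ⟨⟨p, h.1, rfl⟩, h.2⟩
  · rintro (⟨⟨p, hp, rfl⟩, h⟩ | ⟨⟨p, hp, rfl⟩, h⟩)
    · exact ⟨p, pvjy_mem_spl.2 (Or.inl ⟨hp, h⟩), rfl⟩
    · exact ⟨p, pvjy_mem_spl.2 (Or.inr ⟨hp, h⟩), rfl⟩

/-- the sites of a splice with a sample do not depend on the colours -/
theorem pvjy_sites_blind (F : Set ℂ) (σ : Conf PvPt) (g : PvGeoT) (c c' : PvColT) :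
    cfSites (Conf.spl (F ×ˢ (univ : Set Bool)) (σ, pvConf (pvMerge (g, c')))) = cfSites (Conf.spl (F ×ˢ (univ : Set Bool)) (σ, pvConf (pvMerge (g, c)))) := by
  rw [pvjy_sites_spl, pvjy_sites_spl, pvqu_cfSites, pvqu_cfSites]

/-- in the frozen region the colours are those of the state -/
theorem pvjy_col_in {a : ℂ} (ha : a ∈ F) (σ η : Conf PvPt) : cfCol (Conf.spl (F ×ˢ (univ : Set Bool)) (σ, η)) a = cfCol σ a := by
  unfold cfCol
  refine decide_eq_decide.2 ?_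
  rw [pvjy_mem_spl]
  exact ⟨fun h => h.elim (fun h => h.1) fun h => absurd ha h.2, fun h => Or.inl ⟨h, ha⟩⟩

/-- off the frozen region the colours are those of the sample -/
theorem pvjy_col_out {a : ℂ} (ha : a ∉ F) (σ η : Conf PvPt) : cfCol (Conf.spl (F ×ˢ (univ : Set Bool)) (σ, η)) a = cfCol η a := by
  unfold cfCol
  refine decide_eq_decide.2 ?_
  rw [pvjy_mem_spl]
  exact ⟨fun h => h.elim (fun h => absurd h.2 ha) fun h => h.1, fun h => Or.inr ⟨h, ha⟩⟩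

/-- at a good geometry the colour of a site is the bit of its index -/
theorem pvjy_col_site (hg : PvgOk g) {i : PvIx} (hi : i ∈ pvgAct g) (c : PvColT) : cfCol (pvConf (pvMerge (g, c))) (pvgSite g i) = c i := by
  unfold cfCol
  cases hc : c i
  · rw [decide_eq_false_iff_not]
    intro h
    have := (hg.col_iff hi c true).1 h
    rw [hc] at this
    exact Bool.false_ne_true this
  · simp only [decide_eq_true_eq]
    exact (hg.col_iff hi c true).2 hc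

/-- the mixed order in words: the colour `b` of the rim is kept on `K₁` -/
theorem pvjy_le_K1 {b : Bool} {K₁ K₂ : Set ℂ} (hd : Disjoint K₁ K₂) (h : pvhkLe (pvfpSg g b K₁ K₂) c c') {i : PvIx} (hi : pvgSite g i ∈ K₁) (hc : c i = b) : c' i = b := by
  have hi2 : pvgSite g i ∉ K₂ := fun h2 => Set.disjoint_left.1 hd hi h2
  cases b
  · have h1 := (h i).2 (by simp [pvfpSg, pvhkSg, hi, hi2])
    rw [hc] at h1
    exact le_bot_iff.1 h1
  · have h1 := (h i).1 (by simp [pvfpSg, pvhkSg, hi])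
    rw [hc] at h1
    exact top_le_iff.1 h1

/-- the mixed order in words: the other colour is kept on `K₂` -/
theorem pvjy_le_K2 {b : Bool} {K₁ K₂ : Set ℂ} (hd : Disjoint K₁ K₂) (h : pvhkLe (pvfpSg g b K₁ K₂) c c') {i : PvIx} (hi : pvgSite g i ∈ K₂) (hc : c i = !b) : c' i = !b := by
  have hi1 : pvgSite g i ∉ K₁ := fun h1 => Set.disjoint_left.1 hd h1 hi
  cases b
  · have h1 := (h i).1 (by simp [pvfpSg, pvhkSg, hi])
    rw [hc] at h1
    exact top_le_iff.1 h1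
  · have h1 := (h i).2 (by simp [pvfpSg, pvhkSg, hi, hi1])
    rw [hc] at h1
    exact le_bot_iff.1 h1

end splice

/-! ### the quenched form: sections at a frozen state, mixed order -/

section quenched

variable {Λ : Type} {F U K₁ K₂ : Set ℂ} {ρ : ℝ} {σ : Conf PvPt} {g : PvGeoT} {b : Bool}

/-- **(U) THE SIDE EVENT IS UP AT A FROZEN STATE** (one good geometry, ANY state `σ` whose splices are nice).
`Lp` = any event which lies in a colour blind mesh event `M` and which is, on the nice configurations of `M`, the plug `p` with the lanes `ℓ` on the plane map;   `F ⊇ U` = the frozen region;   the rooms leave `F` in the zone in which their colour is up. -/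
theorem pvjy_up_at (hρ : 0 < ρ) (hd : Disjoint K₁ K₂) (hUF : U ⊆ F) (hg : PvgOk g) {Lp M : Set (Conf PvPt)} (hsub : Lp ⊆ M)
    (hbl : ∀ η η' : Conf PvPt, cfSites η' = cfSites η → η ∈ M → η' ∈ M) (hmesh : ∀ η ∈ M, PvtrMesh ρ U (cfSites η))
    {p : PvzlPg ℂ} (hp : p.Sub (pvtrCore (3 * ρ) U)) {ℓ : Λ → Bool × Bool × Set ℂ × Set ℂ}
    (hrep : ∀ η ∈ M, PvatNice (cfSites η) → (η ∈ Lp ↔ pvzvH p ℓ _ _ (pvkiT η) Subtype.val (pvkiS η)))
    (hroom : ∀ l, (ℓ l).2.2.1 ⊆ F ∪ (if (ℓ l).2.1 = b then K₁ else K₂))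
    (hnice : ∀ c, PvatNice (cfSites (Conf.spl (F ×ˢ (univ : Set Bool)) (σ, pvConf (pvMerge (g, c)))))) :
    PvhkUpAt g (pvfpSg g b K₁ K₂) (pvhkSec (F ×ˢ univ) σ Lp) := by
  intro c c' hc he
  have hY := pvjy_sites_blind F σ g c c'
  have hM : Conf.spl (F ×ˢ (univ : Set Bool)) (σ, pvConf (pvMerge (g, c))) ∈ M := hsub he
  have hM' := hbl _ _ hY hM
  refine (hrep _ hM' (hnice c')).2 (pvjy_up_conf hY hρ (hmesh _ hM) (fun w _ hw => ?_) hp (fun l w hwY hw => ?_) ((hrep _ hM (hnice c)).1 he))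
  · rw [pvjy_col_in (hUF hw), pvjy_col_in (hUF hw)]
  · by_cases hF : w ∈ F
    · rw [pvjy_col_in hF, pvjy_col_in hF]
      exact id
    · rw [pvjy_col_out hF, pvjy_col_out hF]
      have hK := (hroom l hw).resolve_left hF
      rw [pvjy_sites_spl, pvqu_cfSites] at hwY
      obtain ⟨i, hi, rfl⟩ : w ∈ pvgSites g := hwY.elim (fun h => absurd h.2 hF) fun h => h.1
      rw [pvjy_col_site hg hi, pvjy_col_site hg hi]
      by_cases hb : (ℓ l).2.1 = b
      · rw [if_pos hb] at hK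
        rw [hb]
        exact pvjy_le_K1 hd hc hK
      · rw [if_neg hb] at hK
        have e : (ℓ l).2.1 = !b := by
          revert hb; cases (ℓ l).2.1 <;> cases b <;> simp
        rw [e]
        exact pvjy_le_K2 hd hc hK

/-- **the field `up` of `PvcjOk`** (52), EVERY state: the mesh event `E` of the connector contains "nice" -/
theorem pvjy_conn_up (D : PvfpConn) (ε : ℝ) (σ : Conf PvPt) {U' : Set ℂ} {ρ' : ℝ} (hOO : D.OO = F ×ˢ (univ : Set Bool)) (hE : ∀ η ∈ D.E, PvatNice (cfSites η))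
    (hρ : 0 < ρ) (hρ' : 0 < ρ') (hd : Disjoint D.K₁ D.K₂) (hUF : U ⊆ F) (hUF' : U' ⊆ F) {M M' : Set (Conf PvPt)} (hsub : D.Lp ⊆ M) (hsub' : D.Lm ⊆ M')
    (hbl : ∀ η η' : Conf PvPt, cfSites η' = cfSites η → η ∈ M → η' ∈ M) (hbl' : ∀ η η' : Conf PvPt, cfSites η' = cfSites η → η ∈ M' → η' ∈ M')
    (hmesh : ∀ η ∈ M, PvtrMesh ρ U (cfSites η)) (hmesh' : ∀ η ∈ M', PvtrMesh ρ' U' (cfSites η))
    {p p' : PvzlPg ℂ} (hp : p.Sub (pvtrCore (3 * ρ) U)) (hp' : p'.Sub (pvtrCore (3 * ρ') U')) {ℓ ℓ' : Λ → Bool × Bool × Set ℂ × Set ℂ}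
    (hrep : ∀ η ∈ M, PvatNice (cfSites η) → (η ∈ D.Lp ↔ pvzvH p ℓ _ _ (pvkiT η) Subtype.val (pvkiS η)))
    (hrep' : ∀ η ∈ M', PvatNice (cfSites η) → (η ∈ D.Lm ↔ pvzvH p' ℓ' _ _ (pvkiT η) Subtype.val (pvkiS η)))
    (hroom : ∀ l, (ℓ l).2.2.1 ⊆ F ∪ (if (ℓ l).2.1 = D.c then D.K₁ else D.K₂)) (hroom' : ∀ l, (ℓ' l).2.2.1 ⊆ F ∪ (if (ℓ' l).2.1 = D.c then D.K₁ else D.K₂)) :
    D.Up ε σ := by
  filter_upwards [pvqu_ok_ae ε] with g hg hgood
  rw [hOO] at hgood ⊢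
  have hnice : ∀ c, PvatNice (cfSites (Conf.spl (F ×ˢ (univ : Set Bool)) (σ, pvConf (pvMerge (g, c))))) := fun c => hE _ (hgood c)
  exact ⟨pvjy_up_at hρ hd hUF hg hsub hbl hmesh hp hrep hroom hnice, pvjy_up_at hρ' hd hUF' hg hsub' hbl' hmesh' hp' hrep' hroom' hnice⟩

end quenched

end Claimed.Agent.R289
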