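-- KEEP
import Claimed.Agent.R289.Tr.PlugFrcQ
import Claimed.Agent.R289.Tr.ForceI
import Claimed.Agent.R289.Tr.RunOut
import Claimed.Agent.R289.Tr.FrameIso
import Claimed.Agent.R289.Tr.PlugClose

/-!
# Row 289 (S0537), THE WALL, chapter E (cells), file Tr/FrcDet : **(DET) OF THE QUENCHED ROUTE OF [FRC]**      (helper204, second helper294; ruling of 34 11:42Z, split of 52; prefix `pvhd_`, `pvhd`, `Pvhd`)

CONSUMER: the field `det` of `PvcjOk (𝔤.glob Hf) D ε` (52, `Tr/PlugFrcQ.lean`):   a.e. `η`:  `C ∩ C' ∩ (D τ).A ⊆ 𝔤.A 0 1 τ`   with `(D τ).A = S⁺ ∩ placed S⁻ ∩ Net ∩ mesh of the tile`.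
INPUT IN GRAPH FORM.   `𝔮 : PvkdPlug` = the plug of record with TRUNCATED lanes (same gate: `𝔮.pg = 𝔤.pg`; rooms `𝔮.Ln`, targets `𝔮.Dr` cut at `5r`).   The dictionary of 174 (`Tr/FrcM.lean`) gives, on the nice configurations,
`S⁺ ⊆ ⋂ β, 𝔮.H 0 1 true β`, `S⁻ ⊆ ⋂ β, 𝔮.H 0 1 false β`; the placed form is free: `pvco_cov_H` (251) holds for EVERY plug.
* sec. 1  the two frames of a cell `pvhdZ pvhdD pvhdAt` (side `true` = the door we leave, `false` = the door we reach);   **`PvhdLay`** (fine cells, two full walks, fattened rooms `A σ β`, rooms `W β` of the sites of the final lanes),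
          **`PvhdLay.Ok Λ 𝔤 𝔮 τ`** = ALL THAT (DET) NEEDS FROM THE GEOMETRY (regions only, no configuration).
* sec. 2  (S1) `pvhd_reg_eq`, `pvhd_cell_small`, **`pvhd_path_of_join`** : a graph lane (Join through sites of colour `c` with position in `R`) is a path in `pvlnReg c η ∩ R^{+ρ}`.
* sec. 3  (S2, S3) `pvhd_join_plane` (`delMap` to `pvkiT`), **`pvhd_lane`** : two half lanes + the net of the colour `β`  ⟹  `Join` foot → foot through sites of colour `β` in `W β`   (`pvfp_lane_glue`, `pvnk_join_sites` of 272).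
* sec. 4  (S4 - S7) `K := pvgeKV Y Kcᶜ`, `Kc ⊆ Co τ` a sub-room (v2, remark of 294: `PvzlRun` is monotone in the room) (29: EXACT co-connectedness), **`pvhd_run`** : `PvzlRun .. (Co τ) g g' N`   (`pvld_exist`, `pvld_out_back` of 70 along the through strand; `pvkk_run_src`, `pvkk_run_tgt` of 181).
* STATUS: 0 sorry (12:40Z).
* sec. 5  `pvhd_mesh` (the mesh of `Ea τ` from the meshes of the pieces),   **`pvhd_det`** (deterministic),   **`pvhd_det_ae`** (= the field `det`).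
-/

set_option autoImplicit false
set_option linter.unusedSectionVars false
set_option linter.unusedVariables false

namespace Claimed.Agent.R289

open MeasureTheory Set Filter Topology Metric
open scoped ENNReal

/-! ## 1. frames, layout, what the geometry owes -/

/-- the door of the side `σ` of the reference cell of shape `τ`: `true` = the door we leave (`0`), `false` = the door we reach -/
noncomputable def pvhdZ (𝔤 : PvkdGeo) (τ : PvtTurn) (σ : Bool) : ℂ := cond σ 0 (𝔤.zo 0 1 τ)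

/-- its direction -/
noncomputable def pvhdD (τ : PvtTurn) (σ : Bool) : ℂ := cond σ 1 (1 * τ.rot)

/-- a region of the reference plug, placed at the door of the side `σ` -/
noncomputable def pvhdAt (𝔤 : PvkdGeo) (τ : PvtTurn) (σ : Bool) (S : Set ℂ) : Set ℂ := pvkdAt (pvhdZ 𝔤 τ σ) (pvhdD τ σ) S

/-- **LAYOUT OF A CONNECTOR** (data) -/
structure PvhdLay where
  /-- side of the fine cells -/
  δ : ℝ
  /-- the full walk of the colour `β` -/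
  L : Bool → List (ℤ × ℤ)
  /-- the fattened room of the half lane (side `σ`, colour `β`) -/
  A : Bool → Bool → Set ℂ
  /-- room of the SITES of the final lane of the colour `β` -/
  W : Bool → Set ℂ
  /-- sub-room of the corridor `Co τ` in which the run is produced (e.g. two open boxes through the centre of the cell: star convex, `pvrt_star`) -/
  Kc : Set ℂ

/-- the region swept by the final lane of the colour `β` -/
def PvhdLay.U (Λ : PvhdLay) (β : Bool) : Set ℂ := Λ.A true β ∪ pvlnU Λ.δ (Λ.L β) ∪ Λ.A false β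

/-- **ALL THAT (DET) NEEDS FROM THE GEOMETRY** (shape `τ`; `𝔮` = the plug with truncated lanes) -/
structure PvhdLay.Ok (Λ : PvhdLay) (𝔤 : PvkdGeo) (𝔮 : PvkdPlug) (τ : PvtTurn) : Prop where
  ρ0 : 0 < 𝔤.ρ
  /-- the truncated plug has the gate of record -/
  pg : ∀ z d, 𝔮.pg z d = 𝔤.pg z d
  zz : Disjoint 𝔤.Zm 𝔤.Zp
  δ0 : 0 < Λ.δ
  ne : ∀ β, Λ.L β ≠ []
  ch : ∀ β, (Λ.L β).IsChain PvlnAdj
  full : ∀ β, PvfpFull (Λ.L β)
  /-- the rooms lie deep in the window of the link, the fattened rooms contain their `ρ`-neighbourhoods -/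
  room : ∀ σ β, pvhdAt 𝔤 τ σ (𝔮.Ln σ β) ⊆ pvtrCore (3 * 𝔤.ρ) (𝔤.Ea τ)
  fat : ∀ σ β, ∀ u ∈ pvhdAt 𝔤 τ σ (𝔮.Ln σ β), closedBall u 𝔤.ρ ⊆ Λ.A σ β
  /-- hook zones: a path of the fattened room from the gate to the target passes through the net -/
  zone : ∀ σ β, PvfpZone Λ.δ {k | k ∈ Λ.L β} (Λ.A σ β) (pvhdAt 𝔤 τ σ (𝔮.Ln σ β) ∩ ball (pvhdZ 𝔤 τ σ) 𝔤.b) (pvhdAt 𝔤 τ σ (𝔮.Dr σ β))
  /-- the swept region has the mesh, `W β` contains its `2ρ`-neighbourhood, lies deep in the window and `ρ`-deep in the corridor -/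
  net : ∀ β, Λ.U β ⊆ pvtrCore 𝔤.ρ (𝔤.Ea τ)
  nbd : ∀ β, ∀ z ∈ Λ.U β, ball z (2 * 𝔤.ρ) ⊆ Λ.W β
  deep : ∀ β, Λ.W β ⊆ pvtrCore (3 * 𝔤.ρ) (𝔤.Ea τ)
  cor : ∀ β, Λ.W β ⊆ pvtrCore 𝔤.ρ Λ.Kc
  /-- the sub-room: inside the corridor of record, bounded, co-connected, without `g⁻` of the door we leave and `g⁺` of the door we reach -/
  sub : Λ.Kc ⊆ 𝔤.Co τ
  bdd : Bornology.IsBounded Λ.Kc
  co : IsPreconnected Λ.Kcᶜ
  Zm : Disjoint (pvhdAt 𝔤 τ true 𝔤.Zm) Λ.Kc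
  Zp : Disjoint (pvhdAt 𝔤 τ false 𝔤.Zp) Λ.Kc
  /-- the two gates are far from each other -/
  far : Disjoint (ball (pvhdZ 𝔤 τ true) 𝔤.b) (ball (pvhdZ 𝔤 τ false) 𝔤.b)

theorem pvhd_eqns_cite : True := by
  have := @pvhdZ.eq_1; have := @pvhdD.eq_1; have := @pvhdAt.eq_1; have := @PvhdLay.U.eq_1
  trivial

/-! ## 2. (S1) a graph lane is a path in the region of its colour -/

/-- the region of the colour `c` is the union of the cells of the sites of the colour `c` -/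
theorem pvhd_reg_eq {η : Conf PvPt} (hok : CfOK η) (c : Bool) : pvlnReg c η = vorUn (cfSites η) {v | v ∈ cfSites η ∧ cfCol η v = c} := by
  have h1 : pvlnReg c η = pvlnReg c (cfOf (cfSites η) (cfCol η)) := congrArg _ (pvnk_cfOf hok)
  rw [h1, pvkq_reg_eq hok.del.lf]

/-- on the mesh the cell of a site of the `3ρ`-core is small -/
theorem pvhd_cell_small {Y E : Set ℂ} {ρ : ℝ} (hρ : 0 < ρ) (hm : PvtrMesh ρ E Y) {v : ℂ} (hv : v ∈ pvtrCore (3 * ρ) E) : vorCell Y v ⊆ closedBall v ρ := by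
  refine pvge_cell_core hρ.le (r := 2 * ρ) (by linarith) hm ?_
  intro w hw u hu
  refine hv ?_
  rw [mem_closedBall] at hw hu ⊢
  calc dist u v ≤ dist u w + dist w v := dist_triangle _ _ _
    _ ≤ 3 * ρ := by linarith

/-- **(S1)** -/
theorem pvhd_path_of_join {η : Conf PvPt} (hok : CfOK η) {ρ : ℝ} (hρ : 0 < ρ) {E R A : Set ℂ} (hm : PvtrMesh ρ E (cfSites η)) (hR : R ⊆ pvtrCore (3 * ρ) E)
    (hA : ∀ u ∈ R, closedBall u ρ ⊆ A) {c : Bool} {a b : ↥(cfSites η)} (h : (pvkiT η).Join univ (pvldCol (pvkiS η) {u | (u : ℂ) ∈ R} c) a b) :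
    JoinedIn (pvlnReg c η ∩ A) (a : ℂ) (b : ℂ) := by
  obtain ⟨ha, hj⟩ := h
  have hcell : ∀ u : ↥(cfSites η), u ∈ pvldCol (pvkiS η) {u | (u : ℂ) ∈ R} c → vorCell (cfSites η) u ⊆ pvlnReg c η ∩ A := by
    intro u hu z hz
    refine ⟨?_, hA u hu.1 (pvhd_cell_small hρ hm (hR hu.1) hz)⟩
    rw [pvhd_reg_eq hok]
    exact ⟨u, ⟨u.2, hu.2⟩, hz⟩
  have key : b ∈ pvldCol (pvkiS η) {u | (u : ℂ) ∈ R} c ∧ JoinedIn (pvlnReg c η ∩ A) (a : ℂ) (b : ℂ) := by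
    induction hj with
    | refl => exact ⟨ha, JoinedIn.refl (hcell a ha (vor_self_mem _ _))⟩
    | @tail u w _ huw ih =>
      obtain ⟨⟨d, -, h1, h2⟩, hw⟩ := huw
      have hadj : DelAdj (cfSites η) u w := by
        have := d.2.2
        rw [← h1, ← h2]
        exact this
      obtain ⟨z, hzu, hzw⟩ := hadj.2.2.2
      refine ⟨hw, ih.2.trans ?_⟩
      have s1 : JoinedIn (pvlnReg c η ∩ A) (u : ℂ) z :=
        JoinedIn.of_segment_subset (((vor_convex_cell _ _).segment_subset (vor_self_mem _ _) hzu).trans (hcell u ih.1))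
      have s2 : JoinedIn (pvlnReg c η ∩ A) z (w : ℂ) :=
        JoinedIn.of_segment_subset (((vor_convex_cell _ _).segment_subset hzw (vor_self_mem _ _)).trans (hcell w hw))
      exact s1.trans s2
  exact key.2

/-! ## 3. (S2, S3) two half lanes and the net -/

/-- from the seam map to the plane map of record -/
theorem pvhd_join_plane {η : Conf PvPt} (hG : DelGood (cfSites η)) {X : Set ↥(cfSites η)} {a b : ↥(cfSites η)} (h : (delMap hG).Join univ X a b) : (pvkiT η).Join univ X a b := by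
  show (delbPl (cfSites η)).toMap.Join univ X a b
  rw [delb_pl_eq hG]
  exact h

/-- the foot of a half lane lies on the gate -/
theorem pvhd_foot_ball {𝔭 : PvkdPlug} {η : Conf PvPt} {z d : ℂ} {g : (pvkiT η).Gate (pvkiS η)} (hg : PvkdGate 𝔭 η z d g) (σ β : Bool) : ((pvkdFoot g σ β : ↥(cfSites η)) : ℂ) ∈ ball z 𝔭.b := by
  have hr := hg.least.reg.rim
  cases σ <;> cases β
  · show (((pvkiT η).tgt g.aIn : ↥(cfSites η)) : ℂ) ∈ ball z 𝔭.b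
    rw [pvtg_aIn_tgt]
    exact hr 1
  · exact hr 0
  · show (((pvkiT η).tgt g.aOut : ↥(cfSites η)) : ℂ) ∈ ball z 𝔭.b
    rw [pvtg_aOut_tgt]
    exact hr _
  · exact hr g.m

section lane

variable {Λ : PvhdLay} {𝔤 : PvkdGeo} {𝔮 : PvkdPlug} {τ : PvtTurn} {η : Conf PvPt}

/-- **(S2, S3)** the final lane of the colour `β`: from the foot on `g` to the foot on `g'` through sites of the colour `β` in `W β` -/
theorem pvhd_lane (G : Λ.Ok 𝔤 𝔮 τ) (hok : CfOK η) (hm : PvtrMesh 𝔤.ρ (𝔤.Ea τ) (cfSites η)) (β : Bool) (hnet : η ∈ pvlnLaneEv Λ.δ β (Λ.L β))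
    {g g' : (pvkiT η).Gate (pvkiS η)} (hg : PvkdGate 𝔤.toPvkdPlug η (pvhdZ 𝔤 τ true) (pvhdD τ true) g) (hg' : PvkdGate 𝔤.toPvkdPlug η (pvhdZ 𝔤 τ false) (pvhdD τ false) g')
    {v v' : ↥(cfSites η)} (hv : (v : ℂ) ∈ pvhdAt 𝔤 τ true (𝔮.Dr true β)) (hv' : (v' : ℂ) ∈ pvhdAt 𝔤 τ false (𝔮.Dr false β))
    (hj : (pvkiT η).Join univ (pvldCol (pvkiS η) {u | (u : ℂ) ∈ pvhdAt 𝔤 τ true (𝔮.Ln true β)} β) (pvkdFoot g true β) v)
    (hj' : (pvkiT η).Join univ (pvldCol (pvkiS η) {u | (u : ℂ) ∈ pvhdAt 𝔤 τ false (𝔮.Ln false β)} β) (pvkdFoot g' false β) v') :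
    (pvkiT η).Join univ (pvldCol (pvkiS η) {u | (u : ℂ) ∈ Λ.W β} β) (pvkdFoot g true β) (pvkdFoot g' false β) := by
  have p1 := pvhd_path_of_join hok G.ρ0 hm (G.room true β) (G.fat true β) hj
  have p2 := pvhd_path_of_join hok G.ρ0 hm (G.room false β) (G.fat false β) hj'
  have hglue := pvfp_lane_glue G.δ0 (G.ne β) (G.ch β) (G.full β) hnet rfl (G.zone true β) (G.zone false β) p1 ⟨hj.1.1, pvhd_foot_ball hg true β⟩ hv
    p2 ⟨hj'.1.1, pvhd_foot_ball hg' false β⟩ hv'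
  have hn : ∀ z ∈ Λ.U β, ∃ s ∈ cfSites η, ‖s - z‖ < 2 * 𝔤.ρ := by
    intro z hz
    obtain ⟨u, hu, hzu⟩ := hm z (G.net β hz)
    exact ⟨u, hu, by rw [norm_sub_rev]; linarith [G.ρ0]⟩
  have hW : ∀ z ∈ Λ.U β, ∀ w : ℂ, ‖w - z‖ < 2 * 𝔤.ρ → w ∈ Λ.W β := fun z hz w hw => G.nbd β z hz (by rw [mem_ball, dist_eq_norm]; exact hw)
  have h3 := pvhd_join_plane hok.del (pvnk_join_sites hok β hn hW (pvkdFoot g true β).2 (pvkdFoot g' false β).2 hglue)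
  refine pvan_join_mono ?_ h3
  intro v hv
  exact ⟨hv.2, hv.1⟩

/-! ## 4. (S4 - S7) the run -/

/-- **(S4 - S7)** two lanes foot to foot in `W`  ⟹  the run of the link -/
theorem pvhd_run (G : Λ.Ok 𝔤 𝔮 τ) (hN : PvatNice (cfSites η)) (hm : PvtrMesh 𝔤.ρ (𝔤.Ea τ) (cfSites η))
    {g g' : (pvkiT η).Gate (pvkiS η)} (hg : PvkdGate 𝔤.toPvkdPlug η (pvhdZ 𝔤 τ true) (pvhdD τ true) g) (hg' : PvkdGate 𝔤.toPvkdPlug η (pvhdZ 𝔤 τ false) (pvhdD τ false) g')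
    (hj : ∀ β, (pvkiT η).Join univ (pvldCol (pvkiS η) {u | (u : ℂ) ∈ Λ.W β} β) (pvkdFoot g true β) (pvkdFoot g' false β)) :
    ∃ N, PvzlRun (pvkiT η) Subtype.val (pvkiS η) (𝔤.Co τ) g g' N := by
  have hG : DelGood (cfSites η) := hN.good
  have hT : (pvkiT η).IsSph := delb_plane_isSph hG
  set K : Set ↥(cfSites η) := pvgeKV (cfSites η) Λ.Kcᶜ with hK
  have hKfin : K.Finite := pvge_KV_finite (pvge_K_finite hG.lf (by rw [compl_compl]; exact G.bdd))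
  have hKCo : ∀ v ∈ K, (v : ℂ) ∈ Λ.Kc := fun v hv => not_not.1 (pvge_K_sub _ _ hv).2
  have hWK : ∀ β, ∀ v : ↥(cfSites η), (v : ℂ) ∈ Λ.W β → v ∈ K := by
    intro β v hv
    refine ⟨v.2, Set.disjoint_left.2 fun z hz hzS => hzS ?_⟩
    exact G.cor β hv (pvhd_cell_small G.ρ0 hm (G.deep β hv) hz)
  have hco : ∀ u v, u ∉ K → v ∉ K → (pvkiT η).Join Set.univ Kᶜ u v := fun u v hu hv => pvhd_join_plane hG (pvge_map_co_join hG G.co u v hu hv)
  -- positions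
  have hball : ∀ e ∈ g.c.Left, (((pvkiT η).src e : ↥(cfSites η)) : ℂ) ∈ ball (pvhdZ 𝔤 τ true) 𝔤.b := fun e he => hg.least.reg.outer e he
  have hball' : ∀ e ∈ g'.c.Left, (((pvkiT η).src e : ↥(cfSites η)) : ℂ) ∈ ball (pvhdZ 𝔤 τ false) 𝔤.b := fun e he => hg'.least.reg.outer e he
  have hvp : ((g.vp : ↥(cfSites η)) : ℂ) ∈ ball (pvhdZ 𝔤 τ true) 𝔤.b := hg.least.reg.rim g.m
  have hvm' : ((g'.vm : ↥(cfSites η)) : ℂ) ∈ ball (pvhdZ 𝔤 τ false) 𝔤.b := hg'.least.reg.rim 0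
  have hvmK : g.vm ∉ K := fun h => Set.disjoint_left.1 G.Zm hg.vm (hKCo _ h)
  have hvpK' : g'.vp ∉ K := fun h => Set.disjoint_left.1 G.Zp hg'.vp (hKCo _ h)
  have h0 : pvasBW (pvkiT η) (pvkiS η) g.aOut := pvtg_aOut_bw g
  have h1 : pvasBW (pvkiT η) (pvkiS η) g'.aIn := pvtg_aIn_bw g'
  have hin' : g'.aIn ∉ g.c.Left := fun h => Set.disjoint_left.1 G.far (hball _ h) hvm'
  have hout' : g.aOut ∉ g'.c.Left := fun h => by
    have := hball' _ h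
    rw [pvtg_aOut_src] at this
    exact Set.disjoint_left.1 G.far hvp this
  have hne : (pvkiT η).src g.aOut ≠ (pvkiT η).src g'.aIn := by
    rw [pvtg_aOut_src]
    intro h
    rw [h] at hvp
    exact Set.disjoint_left.1 G.far hvp hvm'
  obtain ⟨M, hM⟩ := hg.thru
  have hthru : g.Thru := (hM.len hT).2
  have hout : ∃ f, (pvkiT η).src f ∉ K ∧ (pvkiT η).DJoin (pvldBar (pvkiT η) (pvkiS η) K g.aOut g'.aIn) ((pvkiT η).opp g.aOut) f :=
    ⟨g.aIn, hvmK, pvld_out_back h1 (pvtg_aIn_bw g) hM.2.1 (fun i hi => ⟨hM.2.2.1 i hi, fun h => hin' (h ▸ hM.2.2.2.1 i hi)⟩) hM.1⟩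
  have hB : (pvkiT η).Join Set.univ (pvldCol (pvkiS η) K true) ((pvkiT η).src g.aOut) ((pvkiT η).src g'.aIn) := by
    rw [pvtg_aOut_src]
    refine pvan_join_mono ?_ (hj true)
    intro v hv
    exact ⟨hWK true v hv.1, hv.2⟩
  have hW : (pvkiT η).Join Set.univ (pvldCol (pvkiS η) K false) ((pvkiT η).tgt g.aOut) ((pvkiT η).tgt g'.aIn) := by
    refine pvan_join_mono ?_ (hj false)
    intro v hv
    exact ⟨hWK false v hv.1, hv.2⟩
  have r0 := pvld_exist hT hKfin h0 h1 hne hB hW hco hout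
  have r1 := pvkk_run_src hT g r0 hthru (pvkx_gate_fin hN hg) hvmK hin'
  have r2 := pvkk_run_tgt hT g' h0 r1 hout' (fun h => hvpK' h.1)
  obtain ⟨N, n1, n2, n3, n4⟩ := r2
  refine ⟨N, n1, n2, n3, fun v hv => ?_⟩
  obtain ⟨⟨k1, k2⟩, k3⟩ := n4 hv
  have hoff : ∀ c : (pvkiT η).Cyc, v ∈ (pvkiT η).VOf c.Right → v ∉ (pvkiT η).Int c.Left := by
    rintro c ⟨f, hf, rfl⟩ hi
    rw [(pl_jordan hT c).1] at hf
    exact hf (hi f rfl)
  exact ⟨G.sub (hKCo v k1), hoff _ k2, hoff _ k3⟩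

/-! ## 5. (DET) -/

/-- the reference frame -/
theorem pvhd_at_ref (S : Set ℂ) : pvkdAt 0 1 S = S := by
  unfold pvkdAt pvthSim
  simp

/-- the mesh of a window from the meshes of its pieces -/
theorem pvhd_mesh {Y E E₁ E₂ E₃ : Set ℂ} {ρ : ℝ} (hc : pvtrCore ρ E ⊆ pvtrCore ρ E₁ ∪ pvtrCore ρ E₂ ∪ pvtrCore ρ E₃) (h₁ : PvtrMesh ρ E₁ Y) (h₂ : PvtrMesh ρ E₂ Y) (h₃ : PvtrMesh ρ E₃ Y) :
    PvtrMesh ρ E Y := by
  intro z hz
  rcases hc hz with (h | h) | h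
  · exact h₁ z h
  · exact h₂ z h
  · exact h₃ z h

/-- **(DET), deterministic**: the four truncated half lanes at the two doors, the two nets, the mesh of the window of the link  ⟹  the link -/
theorem pvhd_det (G : Λ.Ok 𝔤 𝔮 τ) (hok : CfOK η) (hm : PvtrMesh 𝔤.ρ (𝔤.Ea τ) (cfSites η)) (hH : ∀ σ β, η ∈ 𝔮.H (pvhdZ 𝔤 τ σ) (pvhdD τ σ) σ β)
    (hnet : ∀ β, η ∈ pvlnLaneEv Λ.δ β (Λ.L β)) : η ∈ 𝔤.A 0 1 τ := by
  have hN : PvatNice (cfSites η) := (hH true true).1.1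
  obtain ⟨-, g, hg, v, hv, hj⟩ := hH true true
  obtain ⟨-, g₂, hg₂, w, hw, hjw⟩ := hH true false
  obtain ⟨-, g', hg', v', hv', hj'⟩ := hH false true
  obtain ⟨-, g₂', hg₂', w', hw', hjw'⟩ := hH false false
  have cg : ∀ (z d : ℂ) (γ : (pvkiT η).Gate (pvkiS η)), PvkdGate 𝔮 η z d γ → PvkdGate 𝔤.toPvkdPlug η z d γ := by
    intro z d γ h
    unfold PvkdGate at h ⊢
    rw [← G.pg]
    exact h
  obtain rfl := pvkx_uniq hN G.zz (cg _ _ _ hg) (cg _ _ _ hg₂)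
  obtain rfl := pvkx_uniq hN G.zz (cg _ _ _ hg') (cg _ _ _ hg₂')
  have hl : ∀ β, (pvkiT η).Join univ (pvldCol (pvkiS η) {u | (u : ℂ) ∈ Λ.W β} β) (pvkdFoot g true β) (pvkdFoot g' false β) := by
    intro β
    cases β
    · exact pvhd_lane G hok hm false (hnet false) (cg _ _ _ hg) (cg _ _ _ hg') hw hw' hjw hjw'
    · exact pvhd_lane G hok hm true (hnet true) (cg _ _ _ hg) (cg _ _ _ hg') hv hv' hj hj'
  obtain ⟨N, hr⟩ := pvhd_run G hN hm (cg _ _ _ hg) (cg _ _ _ hg') hl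
  refine ⟨⟨hN, ?_⟩, g, g', N, cg _ _ _ hg, cg _ _ _ hg', ?_⟩
  · rw [pvhd_at_ref]
    exact hm
  · rw [pvhd_at_ref]
    exact hr

end lane

/-- **(DET) = THE FIELD `det` OF `PvcjOk`** (52).      `Ep Em` = the windows of the side events `S⁺ S⁻` (reference frame), dictionary of 174 in the hypotheses `dp dm`;   `cov` = the seam of the window (trap of 52 / 294 / 278). -/
theorem pvhd_det_ae (𝔤 : PvkdGeo) (𝔮 : PvkdPlug) (Hf : Fin 4 → Set (Conf PvPt)) (D : PvtTurn → PvfpConn) (Λ : PvtTurn → PvhdLay) (Ep Em : Set ℂ) {ε : ℝ} (hε : 0 < ε) (τ : PvtTurn)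
    (G : (Λ τ).Ok 𝔤 𝔮 τ)
    (cov : pvtrCore 𝔤.ρ (𝔤.Ea τ) ⊆ pvtrCore 𝔤.ρ Ep ∪ pvtrCore 𝔤.ρ (𝔤.K₀ τ) ∪ pvtrCore 𝔤.ρ (pvhdAt 𝔤 τ false Em))
    (dp : ∀ η, PvatNice (cfSites η) → η ∈ Hf 0 → PvtrMesh 𝔤.ρ Ep (cfSites η) ∧ ∀ β, η ∈ 𝔮.H 0 1 true β)
    (dm : ∀ η, PvatNice (cfSites η) → η ∈ Hf 2 → PvtrMesh 𝔤.ρ Em (cfSites η) ∧ ∀ β, η ∈ 𝔮.H 0 1 false β)
    (hA : (D τ).A ⊆ Hf 0 ∩ (𝔤.glob Hf).Hx τ 2 ∩ (pvlnLaneEv (Λ τ).δ true ((Λ τ).L true) ∩ pvlnLaneEv (Λ τ).δ false ((Λ τ).L false)) ∩ {η | PvtrMesh 𝔤.ρ (𝔤.K₀ τ) (cfSites η)}) :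
    ∀ᵐ η ∂(pvP ε), η ∈ (𝔤.glob Hf).C → η ∈ (𝔤.glob Hf).Cp ((𝔤.glob Hf).pre.zo 0 1 τ) τ.rot → η ∈ (D τ).A → η ∈ (𝔤.glob Hf).A τ := by
  filter_upwards [dls_ae_conf hε, pvat_nice_ae hε.ne'] with η hok hN _ _ hAη
  obtain ⟨⟨⟨h0, h2⟩, hn1, hn2⟩, hK⟩ := hA hAη
  obtain ⟨mp, Hp⟩ := dp η hN h0
  have hd4 : τ.rot ^ 4 = 1 := pvt_rot_pow_four τ
  have hd0 : τ.rot ≠ 0 := pvt_rot_ne_zero τ
  have F := pvco_fr_inv hd4 (𝔤.zo 0 1 τ) η
  obtain ⟨mm, Hm⟩ := dm _ (F.nice hN) h2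
  have eD : pvhdD τ false = τ.rot := one_mul _
  have Hm' : ∀ β, η ∈ 𝔮.H (pvhdZ 𝔤 τ false) (pvhdD τ false) false β := fun β => by
    rw [eD, pvco_cov_H 𝔮 _ hd4]
    exact Hm β
  have mm' : PvtrMesh 𝔤.ρ (pvhdAt 𝔤 τ false Em) (cfSites η) := by
    have h3 := F.symm.mesh (ρ := 𝔤.ρ) (z := 0) (d := 1) (E := Em) (by rw [pvhd_at_ref]; exact mm)
    have e1 : vorSim (τ.rot⁻¹)⁻¹ (-((τ.rot⁻¹)⁻¹ * -(τ.rot⁻¹ * 𝔤.zo 0 1 τ))) 0 = 𝔤.zo 0 1 τ := by
      rw [vorSim_apply, inv_inv]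
      field_simp
      ring
    rw [e1, inv_inv, mul_one] at h3
    unfold pvhdAt
    rw [eD]
    exact h3
  have hm : PvtrMesh 𝔤.ρ (𝔤.Ea τ) (cfSites η) := pvhd_mesh cov mp hK mm'
  refine pvhd_det G hok hm (fun σ β => ?_) (fun β => ?_)
  · cases σ
    · exact Hm' β
    · exact Hp β
  · cases β
    · exact hn2
    · exact hn1

end Claimed.Agent.R289
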