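-- KEEP
import Claimed.Agent.R289.Tr.FrcDetE
import Claimed.Agent.R289.Tr.HookTA
import Claimed.Agent.R289.Tr.HookColD

/-!
# Row 289 (S0537), THE WALL, ROAD E, E10 (b3) DET, file Tr/FrcDetH : **THE PLAIN SUCCESS OF A HYBRID LINK AT A FINAL CONFIGURATION, ALL TIP CELLS, CUT DOORS, BOTH DIRECTIONS**      (helper228; prefix `pvdd_`, `Pvdd` continued)

0 sorry.   = `pvhu_A_dp` / `PvhuLay` of 66 (`Tr/HookTA`) RETYPED ON `pvdd_link_i / _o` (`Tr/FrcDetE`), which cures the two defects found by 199 155 80: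
* (T1) CORNER TIP CELLS: `hout` / `PvhuTipE.side` (the apex leaves the own-level box by the side `ζ` of the pattern) is not payable at a corner;   HERE the arms are `PvhjArmT` of 23 (two records `PvhzArmReg` at `re (ζ c) ∓ e₀`), the foot is the U foot (`pvid_foot_o / _i / _e` of 155, `pvhj_foot_outU_pl / _inU_pl` of 23): no side, no box.
* (M1) ORIENTATION OF THE BARS: `PvhrDoorReg` asks first way point below, last above for BOTH colours;   HERE the door record is `Pvge4DoorReg` of 298 (either orientation, CUT at `xc β`: the copy colours are asked only beyond the cut).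
* sec. 1  **`PvddLay`** = ALL THAT DET OWES TO THE REGIONS OF A HYBRID LINK (no configuration, no state, no direction);   `Bd` = the disc of the gate of the door
* sec. 2  **`pvdd_A_dp`** (door → pin: `i`, `e`), **`pvdd_A_pd`** (pin → door: `o`, `f`) : `η ∈ L.A N b`
* sec. 3  AT THE MODEL, `PvjeFin`: **`pvdd_ev_o`**, **`pvdd_ev_i`**, **`pvdd_ev_e`** : plain success + hull of the base
-/

set_option autoImplicit false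
set_option linter.unusedSectionVars false
set_option linter.unusedVariables false

namespace Claimed.Agent.R289

open Relation Set Metric Claims.C0465
open scoped ComplexConjugate

/-! ## 1. the regions -/

/-- **ALL THAT DET OWES TO THE REGIONS OF A HYBRID LINK** (no configuration, no state).   `Yin` = the room, `W` = the window (mesh `μ` at the final configuration), `Fr` = the FRESH part (copy colours),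
tip: side `ζ` of the pattern, centre `c` of the tip cell, small mouth `rs`, mesh `ρ` of the big mouth at the base, `rt`, `e₀`;   `up = id` at an exit tip, `up = not` at an entrance tip;
routes of the two colours listed FROM THE TIP `eC β :: eN β :: t β`, closing sets `Sg β`;
door: `Bd` = disc of the gate, rooms `Rm β`, targets `Dr β` of the two half lanes, legs `eD β` across the rooms beyond the cuts `xc β` (picture turned by `ζd`). -/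
structure PvddLay (Yin W Fr : Set ℂ) (μ : ℝ) (ζ c : ℂ) (rs ρ rt e₀ ρl δ : ℝ) (up : Bool → Bool)
    (eC eN eD : Bool → Set ℂ × ℂ × ℂ) (t : Bool → List (Set ℂ × ℂ × ℂ)) (Sg : Bool → Set ℂ) (jN jS : Bool → ℕ)
    (ζd : ℂ) (Bd : Set ℂ) (Rm Dr : Bool → Set ℂ) (xc xa xb y0 y1 : Bool → ℝ) : Prop where
  mu : 0 < μ
  rho : 0 ≤ ρ
  bdd : Bornology.IsBounded Yin
  co : IsPreconnected Yinᶜ
  /-- (Rc) of RULING 22: the room with its collar lies in the window -/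
  collar : ∀ v ∈ Yin, closedBall v (3 * μ) ⊆ W
  dl : 0 < δ
  route : ∀ β, PvkqRoute δ (eC β :: eN β :: t β)
  he : rt + 2 * ρ < e₀
  arm₁ : ∀ β, PvhzArmReg ζ ((ζ * c).re - e₀) ((ζ * c).im - rt) ((ζ * c).im + rt) (2 * ρ) c rs ρl (up β) (eN β).1 (eC β).1 (Sg β)
  arm₂ : ∀ β, PvhzArmReg ζ ((ζ * c).re + e₀) ((ζ * c).im - rt) ((ζ * c).im + rt) (2 * ρ) c rs ρl (up β) (eN β).1 (eC β).1 (Sg β)
  rl : δ / 16 ≤ ρl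
  mul : μ ≤ ρl
  sgW : ∀ β, Sg β ⊆ pvtrCore μ W
  jN4 : ∀ β, jN β < 4
  jS4 : ∀ β, jS β < 4
  sN : ∀ β, pvhzSd δ (pvkqCell δ (eN β).2.2) (jN β) ⊆ Sg β
  sS : ∀ β, pvhzSd δ (pvkqCell δ (eC β).2.1) (jS β) ⊆ Sg β
  /-- the small mouth with its collar lies in the room -/
  mouth : closedBall c (rs + 4 * ρ + μ) ⊆ Yin
  /-- arm and middle legs: deep in the room, in the fresh part -/
  mid : ∀ β, ∀ w ∈ pvkqRtR (eN β :: t β), closedBall w (2 * μ) ⊆ Yin ∧ closedBall w μ ⊆ Fr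
  leg : ∀ β, eD β ∈ eN β :: t β
  nz : ‖ζd‖ = 1
  door : ∀ β, Pvge4DoorReg ζd δ μ (xc β) (xa β) (xb β) (y0 β) (y1 β) (Rm β) (eD β)
  foot : ∀ β, ∀ w ∈ Bd, (ζd * w).re ≤ xc β
  tgt : ∀ β, ∀ w ∈ Dr β, xb β ≤ (ζd * w).re
  room : ∀ β, ∀ w ∈ Rm β, closedBall w μ ⊆ Yin
  roomF : ∀ β, ∀ w ∈ Rm β, xc β < (ζd * w).re → w ∈ Fr

/-! ## 2. the plain success -/

section lk

variable {L : PvilLk} {N : PvwNum} {W Fr : Set ℂ} {μ : ℝ} {ζ c : ℂ} {rs ρ rt e₀ ρl δ : ℝ}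
  {eC eN eD : Bool → Set ℂ × ℂ × ℂ} {t : Bool → List (Set ℂ × ℂ × ℂ)} {Sg : Bool → Set ℂ} {jN jS : Bool → ℕ}
  {ζd : ℂ} {Rm Dr : Bool → Set ℂ} {xc xa xb y0 y1 : Bool → ℝ} {b : Bool} {η : Conf PvPt}

/-- the feet of the entrance side of a gate of record lie in the outer disc -/
theorem pvdd_foot_rim {κ' V D : Type} {T : PvMap V D} {mk : V → κ'} {s : V → Bool} {KI KO : Set κ'} {g : T.Gate s} (h : PvzlIn T mk KI KO g.c) (β : Bool) : mk (pvhiEnd T β g.aIn) ∈ KO := by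
  cases β
  · show mk (T.tgt g.aIn) ∈ KO
    rw [pvtg_aIn_tgt]; exact h.rim _
  · exact h.rim 0

theorem pvdd_foot_eq {V D : Type} {T : PvMap V D} {s : V → Bool} (g : T.Gate s) (β : Bool) : pvkdFoot g false β = pvhiEnd T β g.aIn := by
  cases β <;> rfl

/-- **THE PLAIN SUCCESS OF A LINK `door type plug → pin`** at ONE configuration `η` (all tip cells, bars of either orientation) -/
theorem pvdd_A_dp (Λ : PvddLay L.Yin W Fr μ ζ c rs ρ rt e₀ ρl δ (fun β => !β) eC eN eD t Sg jN jS ζd (ball L.p.z (pvkdP L.p.h).b) Rm Dr xc xa xb y0 y1)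
    (gm : ∀ w ∈ pvkdAt L.p.z L.p.fr (pvkdP L.p.h).Zm, w ∉ L.Yin) (offBox : Disjoint (ball L.p.z (pvkdP L.p.h).b) (pvhaBx N L.p')) (offTip : Disjoint (ball L.p.z (pvkdP L.p.h).b) L.p'.cm)
    (h0 : L.dr = true) (h1 : L.dr' = false) (hgood : DelGood (pvieY η)) (hm : PvtrMesh μ W (pvieY η)) {g : (pvieT η).Gate (pvieCol η b)}
    (hd : PvilDoor (pvkdP L.p.h) b η L.p.z L.p.fr (pvilStS (pvkdP L.p.h) η (pvieCol η b) L.p.z g))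
    (hg : PvzlGt (pvieT η) Subtype.val (pvieCol η b) ((pvkdP L.p.h).pg L.p.z L.p.fr) g)
    (hH : ∀ β, ∃ v : ↥(pvieY η), (v : ℂ) ∈ Dr β ∧ (pvieT η).Join univ (pvldCol (pvieCol η b) {u | (u : ℂ) ∈ Rm β} β) (pvkdFoot g true β) v)
    {𝔖' : PvwSt (pvieT η)} (hp : PvilIn N b L.p' η 𝔖') {κ : ℂ → Bool}
    (hev : ∀ β, cfOf (pvieY η) κ ∈ pvkqRtEv δ β (eC β :: eN β :: t β)) (hfr : ∀ v : ↥(pvieY η), (v : ℂ) ∈ Fr → pvieCol η b v = κ v)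
    (foot : ∀ (K : Set ↥(pvieY η)) (GN GC Sg' : Bool → Set ℂ), (∀ β, PvhjArmT (pvieY η) κ β ζ c rt ρ rs (!β) (GN β) (GC β) (Sg' β)) →
      (∀ v : ↥(pvieY η), ‖(v : ℂ) - c‖ < rs + 4 * ρ → v ∈ K) → PvhjFootP (delbPl (pvieY η)) (pvieCol η b) κ K (𝔖'.em 𝔖'.nm) GN) :
    η ∈ L.A N b := by
  have hμ := Λ.mu
  obtain ⟨k1, k2⟩ := pvhj_K_pl (h := hgood) (delb_pl_eq hgood) Λ.co (by rw [compl_compl]; exact Λ.bdd)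
  have hcell : ∀ v : ↥(pvieY η), (v : ℂ) ∈ L.Yin → vorCell (pvieY η) v ⊆ closedBall (v : ℂ) μ := fun v hv => pvhu_cell_ball hμ hm (Λ.collar v hv)
  have hinK : ∀ v : ↥(pvieY η), closedBall (v : ℂ) μ ⊆ L.Yin → v ∈ pvgeKV (pvieY η) L.Yinᶜ := fun v hv => pvhg_KV_iff.2 ((hcell v (hv (mem_closedBall_self hμ.le))).trans hv)
  have htip : ((pvieT η).src (𝔖'.em 𝔖'.nm) : ℂ) ∈ L.p'.cm := hp.tip
  have hbw : pvasBW (pvieT η) (pvieCol η b) (𝔖'.em 𝔖'.nm) := pvwk_em_bw hp.st.stub hp.st.gate.bw_m le_rfl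
  have hvp : ((g.vp : ↥(pvieY η)) : ℂ) ∈ ball L.p.z (pvkdP L.p.h).b := by
    have := pvhu_foot_rim hg.least.reg true
    rwa [show pvhiEnd (pvieT η) true g.aOut = g.vp from pvtg_aOut_src g] at this
  have hrun : PvldRun (pvieT η) (pvieCol η b) (pvgeKV (pvieY η) L.Yinᶜ) g.aOut (𝔖'.em 𝔖'.nm) := by
    refine pvdd_link_i (h := hgood) (delb_pl_eq hgood) hbw (fun GN GC A => foot _ GN GC Sg A fun v hv => hinK v ?_) k1 k2 g ?_ ?_ Λ.dl Λ.route hev Λ.rho Λ.he Λ.arm₁ Λ.arm₂ Λ.rl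
      (fun β => VorDense.mono hm Subset.rfl (Λ.sgW β) Λ.mul) Λ.jN4 Λ.jS4 Λ.sN Λ.sS ?_ Λ.leg Λ.nz Λ.door (fun β => ?_) (fun β => Λ.foot β _ (pvhu_foot_rim hg.least.reg β)) ?_ ?_
    · exact (pvhu_ball_ball hv.le).trans Λ.mouth
    · intro e
      exact disjoint_left.1 offTip hvp (e ▸ htip)
    · refine pvhr_out_gt hg (fun hK => gm _ hg.vm (pvhg_KV_over hK)) hbw fun hl => ?_
      exact disjoint_left.1 offTip (hg.least.reg.outer _ hl) htip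
    · rintro β v ⟨w, hw1, hw2⟩
      obtain ⟨m1, m2⟩ := Λ.mid β w hw2
      have hwY : w ∈ L.Yin := m1 (mem_closedBall_self (by linarith))
      have hwc : w ∈ pvtrCore μ W := (closedBall_subset_closedBall (by linarith)).trans (Λ.collar w hwY)
      have hwv : ‖w - (v : ℂ)‖ ≤ μ := vor_site_near hm hw1 hwc
      have hvw : ‖(v : ℂ) - w‖ ≤ μ := by rwa [norm_sub_rev]
      refine ⟨hinK v (((pvhu_ball_ball hvw).trans (by rw [← two_mul])).trans m1), hfr v (m2 ?_)⟩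
      rwa [mem_closedBall, dist_eq_norm]
    · obtain ⟨v, hv, hj⟩ := hH β
      rw [pvhu_foot_eq] at hj
      exact ⟨v, Λ.tgt β _ hv, hj⟩
    · intro β u hu
      exact ⟨hinK u (Λ.room β u hu), hcell u (Λ.room β u hu (mem_closedBall_self hμ.le))⟩
    · intro β u hu hx
      exact hfr u (Λ.roomF β u hu hx)
  refine pvha_A_dp (K := pvgeKV (pvieY η) L.Yinᶜ) h0 h1 hd hp ?_ (fun v hv => pvhg_KV_over hv) hrun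
  intro hbx
  refine disjoint_left.1 offBox ?_ hbx
  show (((pvieT η).src g.aOut : ↥(pvieY η)) : ℂ) ∈ _
  rw [pvtg_aOut_src]
  exact hvp

/-- **THE PLAIN SUCCESS OF A LINK `pin → door type plug`** at ONE configuration `η` (all tip cells, bars of either orientation) -/
theorem pvdd_A_pd (Λ : PvddLay L.Yin W Fr μ ζ c rs ρ rt e₀ ρl δ (fun β => β) eC eN eD t Sg jN jS ζd (ball L.p'.z (pvkdP L.p'.h).b) Rm Dr xc xa xb y0 y1)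
    (hf : PvhgFr L.p.fr) (core : ∀ w ∈ L.Yin, L.p.ty.b * L.p.h ≤ ‖w - L.p.z‖) (tipc : ∀ w ∈ L.p.cp, ‖w - c‖ ≤ rs + 4 * ρ)
    (offBox : Disjoint (ball L.p'.z (pvkdP L.p'.h).b) (pvhaBx N L.p)) (offTip : Disjoint (ball L.p'.z (pvkdP L.p'.h).b) L.p.cp)
    (h0 : L.dr = false) (h1 : L.dr' = true) (hgood : DelGood (pvieY η)) (hm : PvtrMesh μ W (pvieY η)) {g : (pvieT η).Gate (pvieCol η b)}
    (hd : PvilDoor (pvkdP L.p'.h) b η L.p'.z L.p'.fr (pvilStS (pvkdP L.p'.h) η (pvieCol η b) L.p'.z g))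
    (hg : PvzlGt (pvieT η) Subtype.val (pvieCol η b) ((pvkdP L.p'.h).pg L.p'.z L.p'.fr) g)
    (hH : ∀ β, ∃ v : ↥(pvieY η), (v : ℂ) ∈ Dr β ∧ (pvieT η).Join univ (pvldCol (pvieCol η b) {u | (u : ℂ) ∈ Rm β} β) (pvkdFoot g false β) v)
    {𝔖 : PvwSt (pvieT η)} (hp : PvilOut N b L.p η 𝔖) {κ : ℂ → Bool}
    (hev : ∀ β, cfOf (pvieY η) κ ∈ pvkqRtEv δ β (eC β :: eN β :: t β)) (hfr : ∀ v : ↥(pvieY η), (v : ℂ) ∈ Fr → pvieCol η b v = κ v)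
    (foot : ∀ (K : Set ↥(pvieY η)) (GN GC Sg' : Bool → Set ℂ), (∀ β, PvhjArmT (pvieY η) κ β ζ c rt ρ rs β (GN β) (GC β) (Sg' β)) →
      (∀ v : ↥(pvieY η), ‖(v : ℂ) - c‖ < rs + 4 * ρ → v ∈ K) → PvhjFootP (delbPl (pvieY η)) (pvieCol η b) κ K (𝔖.ep 𝔖.np) GN) :
    η ∈ L.A N b := by
  have hμ := Λ.mu
  obtain ⟨k1, k2⟩ := pvhj_K_pl (h := hgood) (delb_pl_eq hgood) Λ.co (by rw [compl_compl]; exact Λ.bdd)
  have hcell : ∀ v : ↥(pvieY η), (v : ℂ) ∈ L.Yin → vorCell (pvieY η) v ⊆ closedBall (v : ℂ) μ := fun v hv => pvhu_cell_ball hμ hm (Λ.collar v hv)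
  have hinK : ∀ v : ↥(pvieY η), closedBall (v : ℂ) μ ⊆ L.Yin → v ∈ pvgeKV (pvieY η) L.Yinᶜ := fun v hv => pvhg_KV_iff.2 ((hcell v (hv (mem_closedBall_self hμ.le))).trans hv)
  have htip : ((pvieT η).src (𝔖.ep 𝔖.np) : ℂ) ∈ L.p.cp := hp.tip
  have st := pvha_stp_pin hp
  have hbw : pvasBW (pvieT η) (pvieCol η b) (𝔖.ep 𝔖.np) := pvwk_ep_bw hp.st.stub hp.st.gate.bw_p le_rfl
  have hvm : ((g.vm : ↥(pvieY η)) : ℂ) ∈ ball L.p'.z (pvkdP L.p'.h).b := pvdd_foot_rim hg.least.reg true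
  have hgK : 𝔖.gp ∉ pvgeKV (pvieY η) L.Yinᶜ := fun hK => absurd (pvhg_il_gp_disc hf hp) (not_lt.2 (core _ (pvhg_KV_over hK)))
  have hrun : PvldRun (pvieT η) (pvieCol η b) (pvgeKV (pvieY η) L.Yinᶜ) (𝔖.ep 𝔖.np) g.aIn := by
    refine pvdd_link_o (h := hgood) (delb_pl_eq hgood) hbw (fun GN GC A => foot _ GN GC Sg A fun v hv => hinK v ?_) k1 k2 g ?_ ?_ Λ.dl Λ.route hev Λ.rho Λ.he Λ.arm₁ Λ.arm₂ Λ.rl
      (fun β => VorDense.mono hm Subset.rfl (Λ.sgW β) Λ.mul) Λ.jN4 Λ.jS4 Λ.sN Λ.sS ?_ Λ.leg Λ.nz Λ.door (fun β => ?_) (fun β => Λ.foot β _ (pvdd_foot_rim hg.least.reg β)) ?_ ?_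
    · exact (pvhu_ball_ball hv.le).trans Λ.mouth
    · intro e
      exact disjoint_left.1 offTip hvm (e ▸ htip)
    · refine pvhr_out_stub st hp.st.gate.bw_p (hinK _ ((pvhu_ball_ball (tipc _ htip)).trans Λ.mouth)) hgK (pvtg_aIn_bw g) ?_
      rintro ⟨i, hi, e⟩
      refine disjoint_left.1 offBox hvm ?_
      have := (st.ep_in i hi).1
      rw [e] at this
      exact this
    · rintro β v ⟨w, hw1, hw2⟩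
      obtain ⟨m1, m2⟩ := Λ.mid β w hw2
      have hwY : w ∈ L.Yin := m1 (mem_closedBall_self (by linarith))
      have hwc : w ∈ pvtrCore μ W := (closedBall_subset_closedBall (by linarith)).trans (Λ.collar w hwY)
      have hwv : ‖w - (v : ℂ)‖ ≤ μ := vor_site_near hm hw1 hwc
      have hvw : ‖(v : ℂ) - w‖ ≤ μ := by rwa [norm_sub_rev]
      refine ⟨hinK v (((pvhu_ball_ball hvw).trans (by rw [← two_mul])).trans m1), hfr v (m2 ?_)⟩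
      rwa [mem_closedBall, dist_eq_norm]
    · obtain ⟨v, hv, hj⟩ := hH β
      rw [pvdd_foot_eq] at hj
      exact ⟨v, Λ.tgt β _ hv, hj⟩
    · intro β u hu
      exact ⟨hinK u (Λ.room β u hu), hcell u (Λ.room β u hu (mem_closedBall_self hμ.le))⟩
    · intro β u hu hx
      exact hfr u (Λ.roomF β u hu hx)
  exact pvha_A_pd (K := pvgeKV (pvieY η) L.Yinᶜ) h0 h1 hp hd hgK (fun v hv => pvhg_KV_over hv) hrun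

end lk

/-! ## 3. at the model -/

section endD

variable {Y₀ : Set ℂ} {h₀ : DelGood Y₀} {P₀ : PlTri ↥Y₀} {𝔖₀ : PvwSt P₀.toMap} {N : PvwNum} {hh : ℝ} {z : ℂ} {τ : PvwTy} {σ₀ : Y₀ → Bool} {K : Set Y₀} {r r₁ ρ rs rt : ℝ} {ζ : ℂ}

/-- `pvhj_endD_out` of 23, any presentation -/
theorem pvdd_endD_out_pl (hP₀ : P₀ = delPl h₀) (ha : 𝔖₀.AtOut (dlsPos Y₀) N hh z τ σ₀) (E : PvhjEnd Y₀ N hh τ (τ.cp hh z) K r r₁ ρ rs) (ht1 : ‖(P₀.toMap.src (𝔖₀.ep 𝔖₀.np) : ℂ) - τ.cp hh z‖ + 2 * ρ ≤ rt)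
    (hrt : 2 * rt + 5 * ρ ≤ r₁) (hbig : rt ≤ pvwRad N hh τ τ.k) (hζ : ζ ∈ pvtzdDir) (hdom : ∀ ζ' ∈ pvtzdDir, (ζ' * (τ.cp hh z - z)).re ≤ (ζ * (τ.cp hh z - z)).re) :
    PvhjEndD Y₀ N hh τ z (τ.cp hh z) K r r₁ ρ rs rt ζ := by
  subst hP₀
  exact pvhj_endD_out ha E ht1 hrt hbig hζ hdom

/-- `pvhj_endD_in` of 23, any presentation -/
theorem pvdd_endD_in_pl (hP₀ : P₀ = delPl h₀) (ha : 𝔖₀.AtIn (dlsPos Y₀) N hh z τ σ₀) (E : PvhjEnd Y₀ N hh τ (τ.cm hh z) K r r₁ ρ rs) (ht1 : ‖(P₀.toMap.src (𝔖₀.em 𝔖₀.nm) : ℂ) - τ.cm hh z‖ + 2 * ρ ≤ rt)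
    (hrt : 2 * rt + 5 * ρ ≤ r₁) (hbig : rt ≤ pvwRad N hh τ τ.k) (hζ : ζ ∈ pvtzdDir) (hdom : ∀ ζ' ∈ pvtzdDir, (ζ' * (τ.cm hh z - z)).re ≤ (ζ * (τ.cm hh z - z)).re) :
    PvhjEndD Y₀ N hh τ z (τ.cm hh z) K r r₁ ρ rs rt ζ := by
  subst hP₀
  exact pvhj_endD_in ha E ht1 hrt hbig hζ hdom

/-- an edge at a site deep in a dense ball is short, any presentation -/
theorem pvdd_dart_short (hP₀ : P₀ = delPl h₀) (hρ : 0 < ρ) (d : P₀.Dart) (hd : VorDense Y₀ (closedBall (P₀.toMap.src d : ℂ) (2 * ρ)) ρ) : ‖(P₀.toMap.src d : ℂ) - (P₀.toMap.tgt d : ℂ)‖ ≤ 2 * ρ := by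
  subst hP₀
  exact pvhg_adj_short hρ hd d.2

/-- **the two ends of a tip dart**: black end within `rc` of the centre (tip cell of the type), mesh `ρ` of the big mouth -/
theorem pvdd_tip_ends (hP₀ : P₀ = delPl h₀) (hρ : 0 < ρ) (d : P₀.Dart) {c : ℂ} {rc R : ℝ} (hc : ‖(P₀.toMap.src d : ℂ) - c‖ ≤ rc) (hR : rc + 2 * ρ ≤ R) (hd : VorDense Y₀ (closedBall c R) ρ) (hrt : rc + 4 * ρ ≤ rt) :
    ‖(P₀.toMap.src d : ℂ) - c‖ + 2 * ρ ≤ rt ∧ ‖(P₀.toMap.tgt d : ℂ) - c‖ + 2 * ρ ≤ rt := by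
  have h1 := pvdd_dart_short hP₀ hρ d (VorDense.mono hd Subset.rfl ((pvhu_ball_ball hc).trans (closedBall_subset_closedBall hR)) le_rfl)
  refine ⟨by linarith, ?_⟩
  have h2 : ‖(P₀.toMap.tgt d : ℂ) - c‖ ≤ ‖(P₀.toMap.src d : ℂ) - (P₀.toMap.tgt d : ℂ)‖ + ‖(P₀.toMap.src d : ℂ) - c‖ := by
    calc ‖(P₀.toMap.tgt d : ℂ) - c‖ = ‖-((P₀.toMap.src d : ℂ) - (P₀.toMap.tgt d : ℂ)) + ((P₀.toMap.src d : ℂ) - c)‖ := by congr 1; ring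
      _ ≤ ‖-((P₀.toMap.src d : ℂ) - (P₀.toMap.tgt d : ℂ))‖ + ‖(P₀.toMap.src d : ℂ) - c‖ := norm_add_le _ _
      _ = _ := by rw [norm_neg]
  linarith

end endD

section model

variable {τ : Type} {c : ℝ}

/-- **THE NUMBERS AT THE TIP OF A HYBRID LINK** (no configuration; `cT` = centre of the tip cell `cl` (placed), `Mo` = the mouth): mesh `μ₀` of the own-level box, mesh `μ'` of the mouth, numbers of the big mouth `r r₁ ρ`, small mouth `rs`,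
`rc` = radius of the tip cell (`ρ h / 10` at the model: `pvxo_tip_p / _m`; NOT `ρ h / 4` of `GoodOut.tip_p`, which does not fit between the arms of record), `rt ≥ rc + 4ρ`,
`ζ` = the DOMINANT direction of `cT - z` (`pvhj_dom_of_sup`, `pvxr_side_dom`): NO side clause, valid at the corner tip cells -/
structure PvddTip (𝔓 : PvxPar τ c) (m : ℕ) (z : ℂ) (t : τ) (cT : ℂ) (cl Mo : Set ℂ) (μ₀ μ' r r₁ ρ rs rc rt : ℝ) (ζ : ℂ) : Prop where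
  mu0 : 0 < μ₀
  h3 : 3 * μ₀ ≤ pvlmDel c m
  hb : (𝔓.ty t).b * pvlmH m ≤ pviwRad 𝔓 m t
  hr : μ₀ < (𝔓.ty t).b * pvlmH m
  mu' : 0 < μ'
  num : PvhgEndNum 𝔓.num (pvlmH m) (𝔓.ty t) r r₁ ρ rs
  cell : ∀ v ∈ cl, ‖v - cT‖ ≤ rc
  rcs : rc ≤ rs
  rt0 : rc + 4 * ρ ≤ rt
  rt1 : 2 * rt + 5 * ρ ≤ r₁
  big : rt ≤ pvwRad 𝔓.num (pvlmH m) (𝔓.ty t) (𝔓.ty t).k
  dir : ζ ∈ pvtzdDir
  dom : ∀ ζ' ∈ pvtzdDir, (ζ' * (cT - z)).re ≤ (ζ * (cT - z)).re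
  ball : closedBall cT (rs + 4 * ρ + 3 * μ') ⊆ pvieSh z Mo

variable {𝔓 : PvxPar τ c} {𝔈 : PvieEng τ} {m : ℕ} {ε : ℝ} {z : ℂ} {t : τ} {μ₀ μ' r r₁ ρ rs rc rt e₀ ρl δ : ℝ} {ζ : ℂ} {η₀ η : Conf PvPt} {w : ∀ η : Conf PvPt, (delbPl (pvieY η)).Dart → ℂ} {T : PvjeTest}
  {eC eN eD : Bool → Set ℂ × ℂ × ℂ} {tt : Bool → List (Set ℂ × ℂ × ℂ)} {Sg : Bool → Set ℂ} {jN jS : Bool → ℕ} {ζd : ℂ} {xc xa xb y0 y1 : Bool → ℝ} {𝔭 : PvkdPlug} {𝔱 : PvhfTr} {s : ℝ}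

/-- **`PvjeDet.ev` OF THE THICK LINK `e`** (plain success, hull, mesh slot), all tip cells -/
theorem pvdd_ev_e (Θ : PvddTip 𝔓 m z t ((𝔓.ty t).cm (pvlmH m) z) (pvilPin 𝔓 m z t).cm (𝔈.eM m t) μ₀ μ' r r₁ ρ rs rc rt ζ)
    (offK : Disjoint (𝔈.eK m t) (pviwBox 𝔓 m t)) (offD : Disjoint (pviwRo 𝔓 𝔈 m t) (pviwBox 𝔓 m t))
    (MK : Disjoint (pvieSh z (𝔈.eM m t)) (pvieSh z (𝔈.eK m t))) (MD : Disjoint (pvieSh z (𝔈.eM m t)) (pvieSh (pvieZu 𝔓 m z t) (𝔈.rO m)))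
    (Λ : PvddLay (pvieSh z (𝔈.eY m t)) (pvieSh z (𝔈.eM m t) ∪ pvieSh z (𝔈.eK m t) ∪ pvieSh (pvieZu 𝔓 m z t) (𝔈.rO m)) ((pvieSh z (𝔈.eM m t) ∪ pvieSh z (𝔈.eK m t)) \ pvwSq z (pviwRad 𝔓 m t))
      (pvilMu 𝔓 m) ζ ((𝔓.ty t).cm (pvlmH m) z) rs ρ rt e₀ ρl δ (fun β => !β) eC eN eD tt Sg jN jS ζd (ball (pvieZu 𝔓 m z t) (pvkdP (pvilRu 𝔈 m)).b)
      (fun β => pvkdAt (pvieZu 𝔓 m z t) (1 * s) (𝔱.Ln true β)) (fun β => pvkdAt (pvieZu 𝔓 m z t) (1 * s) (𝔱.Dr true β)) xc xa xb y0 y1)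
    (gm : ∀ v ∈ pvkdAt (pvieZu 𝔓 m z t) 1 (pvkdP (pvilRu 𝔈 m)).Zm, v ∉ pvieSh z (𝔈.eY m t))
    (offBox : Disjoint (ball (pvieZu 𝔓 m z t) (pvkdP (pvilRu 𝔈 m)).b) (pvhaBx 𝔓.num (pvilPin 𝔓 m z t))) (offTip : Disjoint (ball (pvieZu 𝔓 m z t) (pvkdP (pvilRu 𝔈 m)).b) (pvilPin 𝔓 m z t).cm)
    (hG : PvhfGeo 𝔭 𝔱) (hs : 0 < s) (hsc : 𝔭.sc s = pvkdP (pvilRu 𝔈 m)) (hℋ : ∀ η ∈ T.ℋ, pvdpT (pvieZu 𝔓 m z t) (1 * s) (𝔓.col t) η ∈ pvhfS 𝔭 𝔱 true)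
    (hpat : ∀ (Y : Set ℂ) (κ : ℂ → Bool), cfOf Y κ ∈ T.𝒦 → ∀ β, cfOf Y (pvhcK κ (𝔓.col t)) ∈ pvkqRtEv δ β (eC β :: eN β :: tt β))
    (hm : η₀ ∈ pvrgMesh μ₀ (pvieSh z (pviwBox 𝔓 m t))) (hmM : η₀ ∈ pvrgMesh μ' (pvieSh z (𝔈.eM m t)))
    (hbig : VorDense (cfSites η₀) (closedBall ((𝔓.ty t).cm (pvlmH m) z) (r + 3 * ρ)) ρ)
    {𝔖₀ : PvwSt (pvieT η₀)} (h₀ : PvilIn 𝔓.num (𝔓.col t) (pvilPin 𝔓 m z t) η₀ 𝔖₀) (hF : PvjeFin (pvjeE 𝔓 𝔈 w m ε z t) T η₀ η)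
    (hmesh : η ∈ pvilMs 𝔓 m (pvilWne 𝔓 𝔈 m z t (pvilZi 𝔓 m z t η₀))) : η ∈ pvilMe 𝔓 𝔈 m z t (pvilZi 𝔓 m z t η₀) := by
  have n := Θ.num
  have st := pvhc_st_in h₀
  have E : PvhjEnd (pvieY η₀) 𝔓.num (pvlmH m) (𝔓.ty t) ((𝔓.ty t).cm (pvlmH m) z) univ r r₁ ρ rs := ⟨n.rho, n.r2, n.r1, n.rr, hbig, n.far, n.rs0, n.rs1, n.rs2, fun _ _ => mem_univ _⟩
  obtain ⟨g1, g2⟩ := pvdd_tip_ends (delb_pl_eq h₀.good) n.rho (𝔖₀.em 𝔖₀.nm) (Θ.cell _ h₀.tip) (by linarith [Θ.rt0, Θ.rt1, n.rr, n.rho, (norm_nonneg _).trans (Θ.cell _ h₀.tip)]) hbig Θ.rt0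
  have ED := pvdd_endD_in_pl (delb_pl_eq h₀.good) st E (rt := rt) g1 Θ.rt1 Θ.big Θ.dir Θ.dom
  obtain ⟨𝔖', -, hp, -, eZ, κ, hκ, -, hfr, foot⟩ := pvid_foot_e (K₀ := univ) Θ.mu0 Θ.h3 Θ.hb Θ.hr offK offD hm h₀ hF MK MD Θ.mu' hmM ED g1 g2 Θ.ball
  obtain ⟨g, hsd⟩ := pvyo_side hG true (d := 1) norm_one hs hF.one hF.nice.good (hℋ η hF.side)
  have hd := hsd.door hG hF.nice
  have hgate := hsd.gate
  rw [hsc] at hd hgate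
  have hW : pvieSh z (𝔈.eM m t) ∪ pvieSh z (𝔈.eK m t) ∪ pvieSh (pvieZu 𝔓 m z t) (𝔈.rO m) ⊆ pvilWne 𝔓 𝔈 m z t (pvilZi 𝔓 m z t η₀) := by
    rintro v ((hv | hv) | hv)
    · exact Or.inl (Or.inl (Or.inr hv))
    · exact Or.inl (Or.inr hv)
    · exact Or.inr hv
  refine ⟨⟨?_, eZ⟩, hmesh⟩
  refine pvdd_A_dp (L := pvilLe 𝔓 𝔈 m z t) (η := η) (b := 𝔓.col t) (g := g) (κ := pvhcK κ (𝔓.col t)) Λ gm offBox offTip rfl rfl hF.nice.good (VorDense.mono hmesh Subset.rfl (pvtr_core_mono hW) le_rfl) hd hgate (fun β => ?_) hp (hpat _ κ hκ)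
    (fun v hv => hfr v hv.1 hv.2) foot
  cases β
  · exact hsd.white
  · exact hsd.black

/-- **`PvjeDet.ev` OF THE LAST LINK `i`** (plain success, hull, mesh slot), all tip cells -/
theorem pvdd_ev_i (Θ : PvddTip 𝔓 m z t ((𝔓.ty t).cm (pvlmH m) z) (pvilPin 𝔓 m z t).cm (𝔈.iM m t) μ₀ μ' r r₁ ρ rs rc rt ζ)
    (offK : Disjoint (𝔈.iK m t) (pviwBox 𝔓 m t)) (offD : Disjoint (pviwDi 𝔓 𝔈 m ε t) (pviwBox 𝔓 m t))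
    (MK : Disjoint (pvieSh z (𝔈.iM m t)) (pvieSh z (𝔈.iK m t))) (MD : Disjoint (pvieSh z (𝔈.iM m t)) (pvieDoor 𝔈 m ε (pvieZi 𝔓 m z t) ((𝔓.Γ m).din t)))
    (Λ : PvddLay (pvieSh z (𝔈.iY m t)) (pvieSh z (𝔈.iM m t) ∪ pvieSh z (𝔈.iK m t) ∪ pvieDoor 𝔈 m ε (pvieZi 𝔓 m z t) ((𝔓.Γ m).din t)) ((pvieSh z (𝔈.iM m t) ∪ pvieSh z (𝔈.iK m t)) \ pvwSq z (pviwRad 𝔓 m t))
      (pvilMu 𝔓 m) ζ ((𝔓.ty t).cm (pvlmH m) z) rs ρ rt e₀ ρl δ (fun β => !β) eC eN eD tt Sg jN jS ζd (ball (pvieZi 𝔓 m z t) (pvkdP (pvilRd 𝔓 m)).b)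
      (fun β => pvkdAt (pvieZi 𝔓 m z t) ((𝔓.Γ m).din t * s) (𝔱.Ln true β)) (fun β => pvkdAt (pvieZi 𝔓 m z t) ((𝔓.Γ m).din t * s) (𝔱.Dr true β)) xc xa xb y0 y1)
    (gm : ∀ v ∈ pvkdAt (pvieZi 𝔓 m z t) ((𝔓.Γ m).din t) (pvkdP (pvilRd 𝔓 m)).Zm, v ∉ pvieSh z (𝔈.iY m t))
    (offBox : Disjoint (ball (pvieZi 𝔓 m z t) (pvkdP (pvilRd 𝔓 m)).b) (pvhaBx 𝔓.num (pvilPin 𝔓 m z t))) (offTip : Disjoint (ball (pvieZi 𝔓 m z t) (pvkdP (pvilRd 𝔓 m)).b) (pvilPin 𝔓 m z t).cm)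
    (hG : PvhfGeo 𝔭 𝔱) (hdn : ‖(𝔓.Γ m).din t‖ = 1) (hs : 0 < s) (hsc : 𝔭.sc s = pvkdP (pvilRd 𝔓 m)) (hℋ : ∀ η ∈ T.ℋ, pvdpT (pvieZi 𝔓 m z t) ((𝔓.Γ m).din t * s) (𝔓.col t) η ∈ pvhfS 𝔭 𝔱 true)
    (hpat : ∀ (Y : Set ℂ) (κ : ℂ → Bool), cfOf Y κ ∈ T.𝒦 → ∀ β, cfOf Y (pvhcK κ (𝔓.col t)) ∈ pvkqRtEv δ β (eC β :: eN β :: tt β))
    (hm : η₀ ∈ pvrgMesh μ₀ (pvieSh z (pviwBox 𝔓 m t))) (hmM : η₀ ∈ pvrgMesh μ' (pvieSh z (𝔈.iM m t)))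
    (hbig : VorDense (cfSites η₀) (closedBall ((𝔓.ty t).cm (pvlmH m) z) (r + 3 * ρ)) ρ)
    {𝔖₀ : PvwSt (pvieT η₀)} (h₀ : PvilIn 𝔓.num (𝔓.col t) (pvilPin 𝔓 m z t) η₀ 𝔖₀) (hF : PvjeFin (pvjeI 𝔓 𝔈 w m ε z t) T η₀ η)
    (hmesh : η ∈ pvilMs 𝔓 m (pvilWni 𝔓 𝔈 m ε z t (pvilZi 𝔓 m z t η₀))) : η ∈ pvilMi 𝔓 𝔈 m ε z t (pvilZi 𝔓 m z t η₀) := by
  have n := Θ.num
  have st := pvhc_st_in h₀
  have E : PvhjEnd (pvieY η₀) 𝔓.num (pvlmH m) (𝔓.ty t) ((𝔓.ty t).cm (pvlmH m) z) univ r r₁ ρ rs := ⟨n.rho, n.r2, n.r1, n.rr, hbig, n.far, n.rs0, n.rs1, n.rs2, fun _ _ => mem_univ _⟩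
  obtain ⟨g1, g2⟩ := pvdd_tip_ends (delb_pl_eq h₀.good) n.rho (𝔖₀.em 𝔖₀.nm) (Θ.cell _ h₀.tip) (by linarith [Θ.rt0, Θ.rt1, n.rr, n.rho, (norm_nonneg _).trans (Θ.cell _ h₀.tip)]) hbig Θ.rt0
  have ED := pvdd_endD_in_pl (delb_pl_eq h₀.good) st E (rt := rt) g1 Θ.rt1 Θ.big Θ.dir Θ.dom
  obtain ⟨𝔖', -, hp, -, eZ, κ, hκ, -, hfr, foot⟩ := pvid_foot_i (K₀ := univ) Θ.mu0 Θ.h3 Θ.hb Θ.hr offK offD hm h₀ hF MK MD Θ.mu' hmM ED g1 g2 Θ.ball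
  obtain ⟨g, hsd⟩ := pvyo_side hG true hdn hs hF.one hF.nice.good (hℋ η hF.side)
  have hd := hsd.door hG hF.nice
  have hgate := hsd.gate
  rw [hsc] at hd hgate
  have hW : pvieSh z (𝔈.iM m t) ∪ pvieSh z (𝔈.iK m t) ∪ pvieDoor 𝔈 m ε (pvieZi 𝔓 m z t) ((𝔓.Γ m).din t) ⊆ pvilWni 𝔓 𝔈 m ε z t (pvilZi 𝔓 m z t η₀) := by
    rintro v ((hv | hv) | hv)
    · exact Or.inl (Or.inl (Or.inr hv))
    · exact Or.inl (Or.inr hv)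
    · exact Or.inr hv
  refine ⟨⟨?_, eZ⟩, hmesh⟩
  refine pvdd_A_dp (L := pvilLi 𝔓 𝔈 m z t) (η := η) (b := 𝔓.col t) (g := g) (κ := pvhcK κ (𝔓.col t)) Λ gm offBox offTip rfl rfl hF.nice.good (VorDense.mono hmesh Subset.rfl (pvtr_core_mono hW) le_rfl) hd hgate (fun β => ?_) hp (hpat _ κ hκ)
    (fun v hv => hfr v hv.1 hv.2) foot
  cases β
  · exact hsd.white
  · exact hsd.black

/-- **`PvjeDet.ev` OF THE FIRST LINK `o`** (plain success, hull, mesh slot), all tip cells -/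
theorem pvdd_ev_o (Θ : PvddTip 𝔓 m z t ((𝔓.ty t).cp (pvlmH m) z) (pvilPin 𝔓 m z t).cp (𝔈.oM m t) μ₀ μ' r r₁ ρ rs rc rt ζ)
    (offK : Disjoint (𝔈.oK m t) (pviwBox 𝔓 m t)) (offD : Disjoint (pviwDo 𝔓 𝔈 m ε t) (pviwBox 𝔓 m t))
    (MK : Disjoint (pvieSh z (𝔈.oM m t)) (pvieSh z (𝔈.oK m t))) (MD : Disjoint (pvieSh z (𝔈.oM m t)) (pvieDoor 𝔈 m ε (pvieZo 𝔓 m z t) ((𝔓.Γ m).dout t)))
    (Λ : PvddLay (pvieSh z (𝔈.oY m t)) (pvieSh z (𝔈.oM m t) ∪ pvieSh z (𝔈.oK m t) ∪ pvieDoor 𝔈 m ε (pvieZo 𝔓 m z t) ((𝔓.Γ m).dout t)) ((pvieSh z (𝔈.oM m t) ∪ pvieSh z (𝔈.oK m t)) \ pvwSq z (pviwRad 𝔓 m t))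
      (pvilMu 𝔓 m) ζ ((𝔓.ty t).cp (pvlmH m) z) rs ρ rt e₀ ρl δ (fun β => β) eC eN eD tt Sg jN jS ζd (ball (pvieZo 𝔓 m z t) (pvkdP (pvilRd 𝔓 m)).b)
      (fun β => pvkdAt (pvieZo 𝔓 m z t) ((𝔓.Γ m).dout t * s) (𝔱.Ln false β)) (fun β => pvkdAt (pvieZo 𝔓 m z t) ((𝔓.Γ m).dout t * s) (𝔱.Dr false β)) xc xa xb y0 y1)
    (core : ∀ v ∈ pvieSh z (𝔈.oY m t), (𝔓.ty t).b * pvlmH m ≤ ‖v - z‖)
    (offBox : Disjoint (ball (pvieZo 𝔓 m z t) (pvkdP (pvilRd 𝔓 m)).b) (pvhaBx 𝔓.num (pvilPin 𝔓 m z t))) (offTip : Disjoint (ball (pvieZo 𝔓 m z t) (pvkdP (pvilRd 𝔓 m)).b) (pvilPin 𝔓 m z t).cp)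
    (hG : PvhfGeo 𝔭 𝔱) (hdn : ‖(𝔓.Γ m).dout t‖ = 1) (hs : 0 < s) (hsc : 𝔭.sc s = pvkdP (pvilRd 𝔓 m)) (hℋ : ∀ η ∈ T.ℋ, pvdpT (pvieZo 𝔓 m z t) ((𝔓.Γ m).dout t * s) (𝔓.col t) η ∈ pvhfS 𝔭 𝔱 false)
    (hpat : ∀ (Y : Set ℂ) (κ : ℂ → Bool), cfOf Y κ ∈ T.𝒦 → ∀ β, cfOf Y (pvhcK κ (𝔓.col t)) ∈ pvkqRtEv δ β (eC β :: eN β :: tt β))
    (hm : η₀ ∈ pvrgMesh μ₀ (pvieSh z (pviwBox 𝔓 m t))) (hmM : η₀ ∈ pvrgMesh μ' (pvieSh z (𝔈.oM m t)))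
    (hbig : VorDense (cfSites η₀) (closedBall ((𝔓.ty t).cp (pvlmH m) z) (r + 3 * ρ)) ρ)
    {𝔖₀ : PvwSt (pvieT η₀)} (h₀ : PvilOut 𝔓.num (𝔓.col t) (pvilPin 𝔓 m z t) η₀ 𝔖₀) (hF : PvjeFin (pvjeO 𝔓 𝔈 w m ε z t) T η₀ η)
    (hmesh : η ∈ pvilMs 𝔓 m (pvilWno 𝔓 𝔈 m ε z t (pvilZo 𝔓 m z t η₀))) : η ∈ pvilMo 𝔓 𝔈 m ε z t (pvilZo 𝔓 m z t η₀) := by
  have n := Θ.num
  have st := pvhc_st_out h₀
  have E : PvhjEnd (pvieY η₀) 𝔓.num (pvlmH m) (𝔓.ty t) ((𝔓.ty t).cp (pvlmH m) z) univ r r₁ ρ rs := ⟨n.rho, n.r2, n.r1, n.rr, hbig, n.far, n.rs0, n.rs1, n.rs2, fun _ _ => mem_univ _⟩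
  obtain ⟨g1, g2⟩ := pvdd_tip_ends (delb_pl_eq h₀.good) n.rho (𝔖₀.ep 𝔖₀.np) (Θ.cell _ h₀.tip) (by linarith [Θ.rt0, Θ.rt1, n.rr, n.rho, (norm_nonneg _).trans (Θ.cell _ h₀.tip)]) hbig Θ.rt0
  have ED := pvdd_endD_out_pl (delb_pl_eq h₀.good) st E (rt := rt) g1 Θ.rt1 Θ.big Θ.dir Θ.dom
  obtain ⟨𝔖', -, hp, -, eZ, κ, hκ, -, hfr, foot⟩ := pvid_foot_o (K₀ := univ) Θ.mu0 Θ.h3 Θ.hb Θ.hr offK offD hm h₀ hF MK MD Θ.mu' hmM ED g1 g2 Θ.ball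
  obtain ⟨g, hsd⟩ := pvyo_side hG false hdn hs hF.one hF.nice.good (hℋ η hF.side)
  have hd := hsd.door hG hF.nice
  have hgate := hsd.gate
  rw [hsc] at hd hgate
  have hW : pvieSh z (𝔈.oM m t) ∪ pvieSh z (𝔈.oK m t) ∪ pvieDoor 𝔈 m ε (pvieZo 𝔓 m z t) ((𝔓.Γ m).dout t) ⊆ pvilWno 𝔓 𝔈 m ε z t (pvilZo 𝔓 m z t η₀) := by
    rintro v ((hv | hv) | hv)
    · exact Or.inl (Or.inl (Or.inr hv))
    · exact Or.inl (Or.inr hv)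
    · exact Or.inr hv
  refine ⟨⟨?_, eZ⟩, hmesh⟩
  refine pvdd_A_pd (L := pvilLo 𝔓 𝔈 m z t) (η := η) (b := 𝔓.col t) (g := g) (κ := pvhcK κ (𝔓.col t)) Λ (Or.inl rfl) core (fun v hv => by linarith [Θ.cell v hv, Θ.rcs, n.rho]) offBox offTip rfl rfl hF.nice.good (VorDense.mono hmesh Subset.rfl (pvtr_core_mono hW) le_rfl) hd hgate (fun β => ?_) hp (hpat _ κ hκ)
    (fun v hv => hfr v hv.1 hv.2) foot
  cases β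
  · exact hsd.white
  · exact hsd.black

end model

end Claimed.Agent.R289
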