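-- KEEP
import Claimed.Agent.R289.Tr.FrcDet
import Claimed.Agent.R289.Tr.FrcM
import Claimed.Agent.R289.Tr.PlugFrcR

/-!
# Row 289 (S0537), THE WALL, chapter E (cells), file Tr/FrcDetI : **(DET) IN THE WORDS OF THE ASSEMBLY OF [FRC]**      (helper204; prefix `pvhd_`, `pvhd`)      0 sorry, NO NUMERAL

GLUE between `Tr/FrcDet.lean` (204: `pvhd_det`), `Tr/FrcM.lean` (174: side events `pvhfS 𝔭 𝔱 σ`, dictionary `pvhf_S_iff`) and `Tr/PlugFrcR.lean` (52: the field `det` of `PvjoIn.Ok I 𝔤`).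
* `pvhdQ 𝔭 𝔱` = the plug `𝔭` with the rooms and the targets of the truncation `𝔱` (same gate: `pvhd_Q_pg` by `rfl`): this is the `𝔮` of `PvhdLay.Ok Λ 𝔤 𝔮 τ` (instance at `pvkgG`: 253, `Tr/FrcLayD.lean`).
* `pvhd_S_H` : the placed side event of 174 gives the mesh of its window and the two half lanes `(pvhdQ 𝔭 𝔱).H z d σ β`.
* **`pvhd_det_S`** : `C ∩ C' ∩ S⁺ ∩ placed S⁻ ∩ nets ∩ mesh(Et) ⊆ 𝔤.A 0 1 τ`, from `PvhfGeo`, `PvhdLay.Ok`, the cover of the cores (seam; 258 `pvkgg_cover`).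
* **`pvhd_det_jo`** : THE FIELD `det` OF `PvjoIn.Ok I 𝔤`, VERBATIM, for every datum `I` whose ends carry the side events of 174 and whose walks are those of the layout.
-/

set_option autoImplicit false
set_option linter.unusedSectionVars false
set_option linter.unusedVariables false

namespace Claimed.Agent.R289

open MeasureTheory Set Filter Topology Metric

/-- the plug `𝔭` with the rooms and the targets of the truncation `𝔱` -/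
def pvhdQ (𝔭 : PvkdPlug) (𝔱 : PvhfTr) : PvkdPlug := { 𝔭 with Ln := 𝔱.Ln, Dr := 𝔱.Dr }

theorem pvhd_eqns_cite2 : True := by
  have := @pvhdQ.eq_1
  trivial

theorem pvhd_Q_pg (𝔭 : PvkdPlug) (𝔱 : PvhfTr) (z d : ℂ) : (pvhdQ 𝔭 𝔱).pg z d = 𝔭.pg z d := rfl

/-- the placed side event of 174: mesh of its window, the two half lanes in the words of `PvkdPlug.H` -/
theorem pvhd_S_H {𝔭 : PvkdPlug} {𝔱 : PvhfTr} (hG : PvhfGeo 𝔭 𝔱) (σ : Bool) (z : ℂ) {d : ℂ} (hd : ‖d‖ = 1) {η : Conf PvPt} (hN : η ∈ 𝔭.N z d)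
    (h : η ∈ cfMap (pvthInv z d) ⁻¹' pvhfS 𝔭 𝔱 σ) : PvtrMesh 𝔭.ρ (pvkdAt z d (𝔱.Es σ)) (cfSites η) ∧ ∀ β, η ∈ (pvhdQ 𝔭 𝔱).H z d σ β := by
  obtain ⟨⟨-, hm⟩, g, hg, hb, hw⟩ := (pvhf_S_iff hG σ z hd hN.1.good).1 h
  refine ⟨hm, fun β => ⟨hN, g, hg, ?_⟩⟩
  cases β
  · exact hw
  · exact hb

/-- **(DET) at the side events of 174** -/
theorem pvhd_det_S {𝔤 : PvkdGeo} {𝔱 : PvhfTr} (hG : PvhfGeo 𝔤.toPvkdPlug 𝔱) {Λ : PvhdLay} {τ : PvtTurn} (G : Λ.Ok 𝔤 (pvhdQ 𝔤.toPvkdPlug 𝔱) τ) {Et : Set ℂ}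
    (cov : pvtrCore 𝔤.ρ (𝔤.Ea τ) ⊆ pvtrCore 𝔤.ρ (𝔱.Es true) ∪ pvtrCore 𝔤.ρ Et ∪ pvtrCore 𝔤.ρ (pvkdAt (𝔤.zo 0 1 τ) τ.rot (𝔱.Es false)))
    {η : Conf PvPt} (hok : CfOK η) (hC : η ∈ 𝔤.C 0 1) (hC' : η ∈ 𝔤.C (𝔤.zo 0 1 τ) τ.rot) (hp : η ∈ pvhfS 𝔤.toPvkdPlug 𝔱 true)
    (hm : η ∈ cfMap (pvthInv (𝔤.zo 0 1 τ) τ.rot) ⁻¹' pvhfS 𝔤.toPvkdPlug 𝔱 false) (hnet : ∀ β, η ∈ pvlnLaneEv Λ.δ β (Λ.L β)) (hEt : PvtrMesh 𝔤.ρ Et (cfSites η)) :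
    η ∈ 𝔤.A 0 1 τ := by
  have hp' : η ∈ cfMap (pvthInv 0 1) ⁻¹' pvhfS 𝔤.toPvkdPlug 𝔱 true := by
    show cfMap (pvthInv 0 1) η ∈ pvhfS 𝔤.toPvkdPlug 𝔱 true
    rw [pvth_inv_id, pvth_cfMap_id]
    exact hp
  obtain ⟨m1, H1⟩ := pvhd_S_H hG true 0 (d := 1) norm_one hC.1 hp'
  obtain ⟨m2, H2⟩ := pvhd_S_H hG false (𝔤.zo 0 1 τ) (pvpk_rot_norm τ) hC'.1 hm
  rw [pvhd_at_ref] at m1
  have eD : pvhdD τ false = τ.rot := one_mul _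
  refine pvhd_det G hok (pvhd_mesh cov m1 hEt m2) (fun σ β => ?_) hnet
  cases σ
  · rw [eD]
    exact H2 β
  · exact H1 β

/-- **THE FIELD `det` OF `PvjoIn.Ok I 𝔤`** (52), verbatim -/
theorem pvhd_det_jo (I : PvjoIn) {𝔤 : PvkdGeo} {𝔱 : PvhfTr} (hG : PvhfGeo 𝔤.toPvkdPlug 𝔱) (Λ : PvtTurn → PvhdLay) (G : ∀ τ, (Λ τ).Ok 𝔤 (pvhdQ 𝔤.toPvkdPlug 𝔱) τ)
    (cov : ∀ τ, pvtrCore 𝔤.ρ (𝔤.Ea τ) ⊆ pvtrCore 𝔤.ρ (𝔱.Es true) ∪ pvtrCore 𝔤.ρ (I.Et τ) ∪ pvtrCore 𝔤.ρ (pvkdAt (𝔤.zo 0 1 τ) τ.rot (𝔱.Es false)))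
    (ep : I.ep.L = pvhfS 𝔤.toPvkdPlug 𝔱 true) (em : I.em.L = pvhfS 𝔤.toPvkdPlug 𝔱 false) (ec : I.ep.c = true)
    (es : ∀ τ, (Λ τ).δ = I.s) (e₁ : ∀ τ, (Λ τ).L true = I.L₁ τ) (e₂ : ∀ τ, (Λ τ).L false = I.L₂ τ) :
    ∀ (τ : PvtTurn) (η : Conf PvPt), CfOK η → PvatNice (cfSites η) → η ∈ 𝔤.C 0 1 → η ∈ 𝔤.C (𝔤.zo 0 1 τ) τ.rot → η ∈ (I.lk 𝔤 τ).A₀ →
      PvtrMesh 𝔤.ρ (I.Et τ) (cfSites η) → η ∈ 𝔤.A 0 1 τ := by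
  intro τ η hok _ hC hC' hA hEt
  obtain ⟨⟨h1, h2⟩, n1, n2⟩ := hA
  have h1' : η ∈ I.ep.L := h1
  have h2' : η ∈ cfMap (pvthInv (𝔤.zo 0 1 τ) τ.rot) ⁻¹' I.em.L := h2
  have n1' : η ∈ pvlnLaneEv I.s I.ep.c (I.L₁ τ) := n1
  have n2' : η ∈ pvlnLaneEv I.s (!I.ep.c) (I.L₂ τ) := n2
  rw [ep] at h1'
  rw [em] at h2'
  rw [ec] at n1' n2'
  refine pvhd_det_S hG (G τ) (cov τ) hok hC hC' h1' h2' (fun β => ?_) hEt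
  cases β
  · rw [es, e₂]
    exact n2'
  · rw [es, e₁]
    exact n1'

end Claimed.Agent.R289
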