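-- KEEP
import Claimed.Agent.R289.Tr.FrcLay
import Claimed.Agent.R289.Tr.FrcDetI
import Claimed.Agent.R289.Tr.FrcM
import Claimed.Agent.R289.Tr.RegT
import Claimed.Agent.R289.Tr.FrcLayB
import Claimed.Agent.R289.Tr.FrcLayE

/-!
# Row 289 (S0537), THE WALL, chapter E (cells), file Tr/FrcLayD : **THE INSTANCE OF `PvhdLay.Ok` (204, (DET) of route Q) AT THE DATUM OF RECORD `pvkgG`**      (helper253, second of helper278; prefix `pvug_`, `pvug`)      0 sorry

CONSUMER: 204 `Tr/FrcDet` (`pvhd_det`, `pvhd_det_ae`), `Tr/FrcDetI`;  10 (integrator of (SIDE)).      ON: `Tr/FrcLay` (278: nets `pvufL`, regions `pvufA pvufX pvufY`, hook zones, carrier `pvufG`, `pvuf_G_core`), `Tr/KitGeo` (258), `Tr/FrcM` (174: `pvhfT`), `pvrt_star` (`Tr/RegT`).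
DATA (fine unit `s = r/8`, `ρ = s/2`):   `δ := s`,   `L β := pvufL β τ`,   `A true β := pvufA true β`,   `A false β :=` placed `pvufA false β`,   so `U β = pvufG β τ` (`rfl`);   `W β :=` the open `2ρ`-neighbourhood of `pvufG β τ`;
**`Kc := pvugKc τ`** = two OPEN BOXES THROUGH THE CENTRE OF THE CELL (remark of 294): `(s, 1/2 + 17s) × (-17s, 17s)` and its mirror in the frame of the exit door.
* sec. 1  tools;   sec. 2  the data;   sec. 3  the sub-room: `pvug_Kc_sub` (`⊆ Co τ`), `pvug_Kc_bdd`, **`pvug_Kc_co`** (star convex), `pvug_G_Kc` (the carrier is `3ρ` inside);   sec. 4  rooms: `pvug_fat`, `pvug_foot`, `pvug_target`;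
* sec. 5  **`pvug_ok`** : `(pvugLam τ).Ok pvkgG 𝔮 τ` for EVERY plug `𝔮` with the gate of record and the truncated rooms / targets of `pvhfT`.
* sec. 6  ROPE A CLOSED: **`pvugLay : PvjoLay`**, **`pvug_lay_ok : pvugLay.Ok pvkgG (pvjoT pvkgG.a)`** (fields of 52 `Tr/FrcLayB`, 278 `Tr/FrcLayE`), **`pvug_side3`** = `mH`, `dict`, `frc` AT `pvhfH pvkgG.toPvkdPlug (pvjoT pvkgG.a)` (`pvjo_t_side` of 52) = the three fields of `PvdkSide` (10).
The file is GENERATED from one template (numerals in units of `s`), so a renumbering of `r` costs one run.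
-/

set_option autoImplicit false
set_option linter.unusedSectionVars false
set_option linter.unusedVariables false
set_option linter.unusedTactic false

namespace Claimed.Agent.R289

open Set Metric MeasureTheory Filter Topology
open scoped ENNReal

/-! ## 1. tools -/

theorem pvug_core_anti {a b : ℝ} (h : a ≤ b) (E : Set ℂ) : pvtrCore b E ⊆ pvtrCore a E :=
  fun _ hz => (closedBall_subset_closedBall h).trans hz

theorem pvug_ball_ball {z w : ℂ} {a b c : ℝ} (hw : dist w z ≤ a) (h : a + b ≤ c) : closedBall w b ⊆ closedBall z c :=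
  closedBall_subset_closedBall' (by linarith)

/-- a closed ball inside a closed rectangle -/
theorem pvug_ball_rect {z : ℂ} {x0 x1 y0 y1 X0 X1 Y0 Y1 t : ℝ} (hz : z ∈ rswRect x0 x1 y0 y1) (h1 : X0 ≤ x0 - t) (h2 : x1 + t ≤ X1) (h3 : Y0 ≤ y0 - t) (h4 : y1 + t ≤ Y1) :
    closedBall z t ⊆ rswRect X0 X1 Y0 Y1 := by
  intro w hw
  obtain ⟨p1, p2, p3, p4⟩ := pvkgg_ball_box hw
  obtain ⟨a, b, c, d⟩ := hz
  exact ⟨by linarith, by linarith, by linarith, by linarith⟩

/-- a closed ball inside an open box, pointwise form -/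
theorem pvug_ball_pt {z : ℂ} {X0 X1 Y0 Y1 t : ℝ} (h1 : X0 < z.re - t) (h2 : z.re + t < X1) (h3 : Y0 < z.im - t) (h4 : z.im + t < Y1) : closedBall z t ⊆ pvkgB X0 X1 Y0 Y1 :=
  pvuf_ball_box (x0 := z.re) (x1 := z.re) (y0 := z.im) (y1 := z.im) ⟨le_rfl, le_rfl, le_rfl, le_rfl⟩ h1 h2 h3 h4

theorem pvug_box_convex (x0 x1 y0 y1 : ℝ) : Convex ℝ (pvkgB x0 x1 y0 y1) :=
  (convex_halfSpace_re_gt x0).inter ((convex_halfSpace_re_lt x1).inter ((convex_halfSpace_im_gt y0).inter (convex_halfSpace_im_lt y1)))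

theorem pvug_box_mono {x0 x1 y0 y1 X0 X1 Y0 Y1 : ℝ} (h1 : X0 ≤ x0) (h2 : x1 ≤ X1) (h3 : Y0 ≤ y0) (h4 : y1 ≤ Y1) : pvkgB x0 x1 y0 y1 ⊆ pvkgB X0 X1 Y0 Y1 := by
  rintro w ⟨a, b, c, d⟩
  exact ⟨by linarith, by linarith, by linarith, by linarith⟩

/-! ## 2. the data -/

/-- the entrance box (frame of the door `0`) -/
def pvugB1 : Set ℂ := pvkgB (1 / 320) (177 / 320) (-(17 / 320)) (17 / 320)

/-- the exit box (frame of the exit door) -/
def pvugB2 : Set ℂ := pvkgB (-(177 / 320)) (-(1 / 320)) (-(17 / 320)) (17 / 320)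

/-- **THE SUB-ROOM OF THE RUN** -/
noncomputable def pvugKc (τ : PvtTurn) : Set ℂ := pvugB1 ∪ pvkdAt τ.mid τ.rot pvugB2

/-- **THE LAYOUT OF RECORD** of the connector of shape `τ` -/
noncomputable def pvugLam (τ : PvtTurn) : PvhdLay where
  δ := (1 / 320)
  L := fun β => pvufL β τ
  A := fun σ β => cond σ (pvufA true β) (pvkdAt τ.mid τ.rot (pvufA false β))
  W := fun β => {w | ∃ z ∈ pvufG β τ, w ∈ ball z (1 / 320)}
  Kc := pvugKc τ

theorem pvug_eqns_cite : True := by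
  have := @pvugB1.eq_1; have := @pvugB2.eq_1; have := @pvugKc.eq_1; have := @pvugLam.eq_1
  trivial

theorem pvug_U (β : Bool) (τ : PvtTurn) : (pvugLam τ).U β = pvufG β τ := rfl

/-! ## 3. the sub-room -/

theorem pvug_sub1 (τ : PvtTurn) : pvkgB (1 / 320) (177 / 320) (-(17 / 320)) (17 / 320) ⊆ pvugKc τ := subset_union_left

theorem pvug_sub_L : pvkgB (143 / 320) (177 / 320) (-(17 / 320)) (159 / 320) ⊆ pvugKc .L := by
  refine Subset.trans ?_ subset_union_right
  rw [pvugB2, pvkgg_at_L]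
  exact pvug_box_mono (by norm_num) (by norm_num) (by norm_num) (by norm_num)

theorem pvug_sub_R : pvkgB (143 / 320) (177 / 320) (-(159 / 320)) (17 / 320) ⊆ pvugKc .R := by
  refine Subset.trans ?_ subset_union_right
  rw [pvugB2, pvkgg_at_R]
  exact pvug_box_mono (by norm_num) (by norm_num) (by norm_num) (by norm_num)

theorem pvug_sub_S : pvkgB (1 / 320) (319 / 320) (-(17 / 320)) (17 / 320) ⊆ pvugKc .S := by
  rintro w ⟨a, b, c, d⟩
  rcases le_or_gt w.re (1 / 2) with h | h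
  · exact Or.inl ⟨a, by linarith, c, d⟩
  · refine Or.inr ?_
    rw [pvugB2, pvkgg_at_S]
    exact ⟨by linarith, by linarith, c, d⟩

/-- the placed exit box lies in the mask -/
theorem pvug_B2_M (τ : PvtTurn) : pvkdAt τ.mid τ.rot pvugB2 ⊆ pvkxM 1 := by
  cases τ
  · rw [pvugB2, pvkgg_at_S]
    rintro w ⟨a, b, c, d⟩
    exact ⟨by linarith, by linarith, by linarith, by linarith⟩
  · rw [pvugB2, pvkgg_at_L]
    rintro w ⟨a, b, c, d⟩
    exact ⟨by linarith, by linarith, by linarith, by linarith⟩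
  · rw [pvugB2, pvkgg_at_R]
    rintro w ⟨a, b, c, d⟩
    exact ⟨by linarith, by linarith, by linarith, by linarith⟩

theorem pvug_Kc_M (τ : PvtTurn) : pvugKc τ ⊆ pvkxM 1 := by
  rintro w (⟨a, b, c, d⟩ | hw)
  · exact ⟨by linarith, by linarith, by linarith, by linarith⟩
  · exact pvug_B2_M τ hw

/-- **the sub-room lies in the room of record** -/
theorem pvug_Kc_sub (τ : PvtTurn) : pvugKc τ ⊆ pvkgG.Co τ := by
  intro w hw
  refine ⟨pvug_Kc_M τ hw, ?_⟩
  rcases hw with ⟨a, b, c, d⟩ | ⟨v, ⟨a, b, c, d⟩, rfl⟩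
  · rcases le_or_gt w.re (1 / 20) with h | h
    · exact (pvug_ball_pt (by linarith) (by linarith) (by linarith) (by linarith)).trans fun _ hu => Or.inl (Or.inl hu)
    · exact (pvug_ball_pt (by linarith) (by linarith) (by linarith) (by linarith)).trans fun _ hu => Or.inl (Or.inr (Or.inl hu))
  · rcases le_or_gt (-(1 / 20)) v.re with h | h
    · exact (pvuf_ball_at τ (S := pvkgO) (pvug_ball_pt (by linarith) (by linarith) (by linarith) (by linarith))).trans fun _ hu => Or.inr hu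
    · exact (pvuf_ball_at τ (S := pvkgRout) (pvug_ball_pt (by linarith) (by linarith) (by linarith) (by linarith))).trans fun _ hu => Or.inl (Or.inr (Or.inr hu))

theorem pvug_Kc_bdd (τ : PvtTurn) : Bornology.IsBounded (pvugKc τ) := by
  refine pvkgg_bdd_of (C := 1) fun w hw => ?_
  obtain ⟨a, b, c, d⟩ := pvug_Kc_M τ hw
  exact ⟨abs_le.2 ⟨by linarith, by linarith⟩, abs_le.2 ⟨by linarith, by linarith⟩⟩

/-- the sub-room is star convex about the centre of the cell -/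
theorem pvug_Kc_star (τ : PvtTurn) : StarConvex ℝ (1 / 2 : ℂ) (pvugKc τ) := by
  have e1 : ((1 / 2 : ℂ)).re = 1 / 2 := by norm_num
  have e2 : ((1 / 2 : ℂ)).im = 0 := by norm_num
  refine StarConvex.union ((pvug_box_convex _ _ _ _).starConvex ⟨by rw [e1]; norm_num, by rw [e1]; norm_num, by rw [e2]; norm_num, by rw [e2]; norm_num⟩) ?_
  cases τ
  · rw [pvugB2, pvkgg_at_S]
    exact (pvug_box_convex _ _ _ _).starConvex ⟨by rw [e1]; norm_num, by rw [e1]; norm_num, by rw [e2]; norm_num, by rw [e2]; norm_num⟩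
  · rw [pvugB2, pvkgg_at_L]
    exact (pvug_box_convex _ _ _ _).starConvex ⟨by rw [e1]; norm_num, by rw [e1]; norm_num, by rw [e2]; norm_num, by rw [e2]; norm_num⟩
  · rw [pvugB2, pvkgg_at_R]
    exact (pvug_box_convex _ _ _ _).starConvex ⟨by rw [e1]; norm_num, by rw [e1]; norm_num, by rw [e2]; norm_num, by rw [e2]; norm_num⟩

/-- **the complement of the sub-room is connected** -/
theorem pvug_Kc_co (τ : PvtTurn) : IsPreconnected (pvugKc τ)ᶜ := pvrt_star (pvug_Kc_star τ) (pvug_Kc_bdd τ)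

/-- **the carrier of the glued paths lies `3ρ` inside the sub-room** -/
theorem pvug_G_Kc (β : Bool) (τ : PvtTurn) {z : ℂ} (hz : z ∈ pvufG β τ) : closedBall z (3 / 640) ⊆ pvugKc τ := by
  rcases hz with (hz | hz) | hz
  · exact (pvuf_ball_box (pvuf_A_box_p β hz) (by norm_num) (by norm_num) (by norm_num) (by norm_num)).trans (pvug_sub1 τ)
  · rw [pvuf_L_U] at hz
    have hs : (0 : ℝ) < (1 / 320) := by norm_num
    cases β <;> cases τ <;> simp only [pvufW, pvuf_U_union] at hz <;> rcases hz with hz | hz <;> rw [pvuf_U_R hs (by norm_num) (by norm_num)] at hz <;> push_cast at hz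
    all_goals first
      | (refine (pvuf_ball_box hz ?_ ?_ ?_ ?_).trans (pvug_sub1 _) <;> (norm_num; done))
      | (refine (pvuf_ball_box hz ?_ ?_ ?_ ?_).trans pvug_sub_S <;> (norm_num; done))
      | (refine (pvuf_ball_box hz ?_ ?_ ?_ ?_).trans pvug_sub_L <;> (norm_num; done))
      | (refine (pvuf_ball_box hz ?_ ?_ ?_ ?_).trans pvug_sub_R <;> (norm_num; done))
  · obtain ⟨v, hv, rfl⟩ := hz
    exact (pvuf_ball_at τ (S := pvugB2) (pvuf_ball_box (pvuf_A_box_m β hv) (by norm_num) (by norm_num) (by norm_num) (by norm_num))).trans subset_union_right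

/-! ## 4. the rooms, reference frame -/

/-- the `ρ`-neighbourhood of the truncated room lies in the region of the side paths -/
theorem pvug_fat (σ β : Bool) {v : ℂ} (hv : v ∈ (pvhfT (1 / 40)).Ln σ β) : closedBall v (1 / 640) ⊆ pvufA σ β := by
  cases σ <;> cases β <;> simp only [pvhfT, pvkdRect, if_true, if_false, Bool.false_eq_true] at hv <;> simp only [pvufA, pvufX, pvufQ] <;> rcases hv with hv | hv
  all_goals first
    | (refine (pvug_ball_rect hv ?_ ?_ ?_ ?_).trans subset_union_left <;> (norm_num; done))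
    | (refine (pvug_ball_rect hv ?_ ?_ ?_ ?_).trans subset_union_right <;> (norm_num; done))

/-- the feet: the part of the truncated room inside the outer disc of the gate -/
theorem pvug_foot (σ β : Bool) {v : ℂ} (hv : v ∈ (pvhfT (1 / 40)).Ln σ β) (hb : ‖v‖ < (1 / 20)) : v ∈ pvufX σ β := by
  have h1 : |v.re| < (1 / 20) := lt_of_le_of_lt (Complex.abs_re_le_norm v) hb
  rw [abs_lt] at h1
  cases σ <;> cases β <;> simp only [pvhfT, pvkdRect, if_true, if_false, Bool.false_eq_true] at hv <;> rcases hv with ⟨a, b, c, d⟩ | ⟨a, b, c, d⟩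
  all_goals exact ⟨by linarith [h1.1, h1.2], by linarith [h1.1, h1.2], by linarith [h1.1, h1.2], by linarith [h1.1, h1.2]⟩

/-- the truncated targets -/
theorem pvug_target (σ β : Bool) : (pvhfT (1 / 40)).Dr σ β ⊆ pvufY σ β := by
  cases σ <;> cases β <;> simp only [pvhfT, pvkdRect, if_true, if_false, Bool.false_eq_true] <;> rintro w ⟨a, b, c, d⟩ <;> exact ⟨by linarith, by linarith, by linarith, by linarith⟩

/-! ## 5. the record of 204 -/

theorem pvug_at_true (τ : PvtTurn) (S : Set ℂ) : pvhdAt pvkgG τ true S = S := pvhf_at_id S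

theorem pvug_at_false (τ : PvtTurn) (S : Set ℂ) : pvhdAt pvkgG τ false S = pvkdAt τ.mid τ.rot S := by
  unfold pvhdAt pvhdZ pvhdD
  simp only [cond_false]
  rw [pvkgg_zo, one_mul]

theorem pvug_b : pvkgG.b = (1 / 20) := by
  show 2 * (1 / 40) = (1 / 20)
  norm_num

/-- **THE INSTANCE**: every plug `𝔮` with the gate of record, the truncated rooms and the truncated targets of 174 -/
theorem pvug_ok (τ : PvtTurn) (𝔮 : PvkdPlug) (hpg : ∀ z d, 𝔮.pg z d = pvkgG.pg z d) (hL : 𝔮.Ln = (pvhfT (1 / 40)).Ln) (hD : 𝔮.Dr = (pvhfT (1 / 40)).Dr) : (pvugLam τ).Ok pvkgG 𝔮 τ := by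
  have hfat : ∀ σ β, ∀ u ∈ pvhdAt pvkgG τ σ (𝔮.Ln σ β), closedBall u pvkgG.ρ ⊆ (pvugLam τ).A σ β := by
    intro σ β u hu
    rw [pvkgg_ρ, hL] at *
    cases σ
    · rw [pvug_at_false] at hu
      obtain ⟨v, hv, rfl⟩ := hu
      exact pvuf_ball_at τ (pvug_fat false β hv)
    · rw [pvug_at_true] at hu
      exact pvug_fat true β hu
  have hAG : ∀ σ β, (pvugLam τ).A σ β ⊆ pvufG β τ := by
    intro σ β
    cases σ
    · exact subset_union_right
    · exact fun _ h => Or.inl (Or.inl h)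
  have hρ : (0 : ℝ) ≤ pvkgG.ρ := by rw [pvkgg_ρ]; norm_num
  refine
    { ρ0 := by rw [pvkgg_ρ]; norm_num
      pg := hpg
      zz := pvhf_geo_ZZ (r := (1 / 40)) (by norm_num)
      δ0 := by show (0 : ℝ) < (1 / 320); norm_num
      ne := fun β => pvuf_L_ne β τ
      ch := fun β => pvuf_L_ch β τ
      full := fun β => pvuf_L_full β τ
      room := ?_
      fat := hfat
      zone := ?_
      net := ?_
      nbd := fun β z hz w hw => ⟨z, hz, by rw [pvkgg_ρ] at hw; convert hw using 2; norm_num⟩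
      deep := ?_
      cor := ?_
      sub := pvug_Kc_sub τ
      bdd := pvug_Kc_bdd τ
      co := pvug_Kc_co τ
      Zm := ?_
      Zp := ?_
      far := ?_ }
  · intro σ β u hu
    have h1 : u ∈ pvufG β τ := hAG σ β (hfat σ β u hu (mem_closedBall_self hρ))
    rw [pvkgg_ρ, pvkgg_Ea]
    exact pvug_core_anti (by norm_num) _ (pvuf_G_core β τ h1)
  · intro σ β
    rw [hL, hD, pvug_b]
    cases σ
    · rw [pvug_at_false, pvug_at_false]
      refine pvuf_zone_mono (pvuf_zone_m β τ) Subset.rfl Subset.rfl ?_ (image_mono (pvug_target false β))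
      rintro _ ⟨⟨v, hv, rfl⟩, hb⟩
      refine ⟨v, pvug_foot false β hv ?_, rfl⟩
      have e : pvhdZ pvkgG τ false = τ.mid := pvkgg_zo τ
      rw [e, mem_ball, Complex.dist_eq] at hb
      have e2 : pvthSim τ.mid τ.rot v - τ.mid = τ.rot * v := by unfold pvthSim; ring
      rwa [e2, norm_mul, pvpk_rot_norm, one_mul] at hb
    · rw [pvug_at_true, pvug_at_true]
      refine pvuf_zone_mono (pvuf_zone_p β τ) Subset.rfl Subset.rfl ?_ (pvug_target true β)
      rintro v ⟨hv, hb⟩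
      refine pvug_foot true β hv ?_
      have e : pvhdZ pvkgG τ true = 0 := rfl
      rwa [e, mem_ball, dist_zero_right] at hb
  · intro β z hz
    rw [pvkgg_ρ, pvkgg_Ea]
    exact pvug_core_anti (by norm_num) _ (pvuf_G_core β τ hz)
  · rintro β w ⟨z, hz, hw⟩
    rw [pvkgg_ρ, pvkgg_Ea]
    exact (pvug_ball_ball (mem_ball.1 hw).le (by norm_num)).trans (pvuf_G_core β τ hz)
  · rintro β w ⟨z, hz, hw⟩
    rw [pvkgg_ρ]
    exact (pvug_ball_ball (mem_ball.1 hw).le (by norm_num)).trans (pvug_G_Kc β τ hz)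
  · rw [pvug_at_true]
    refine Set.disjoint_left.2 fun w h1 h2 => ?_
    have a1 : w.re ≤ -((1 / 40) / 2) := h1.2.1
    have a2 := (pvug_Kc_M τ h2).1
    linarith
  · rw [pvug_at_false]
    refine Set.disjoint_left.2 fun w h1 h2 => ?_
    obtain ⟨a, b, c, d⟩ := pvug_Kc_M τ h2
    have h3 : w ∈ pvkdAt τ.mid τ.rot (rswRect ((1 / 40) / 2) (2 * (1 / 40)) (-((1 / 40) / 2)) ((1 / 40) / 2)) := h1
    cases τ
    · rw [pvuf_at_S] at h3
      linarith [h3.1]
    · rw [pvuf_at_L] at h3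
      linarith [h3.2.2.1]
    · rw [pvuf_at_R] at h3
      linarith [h3.2.2.2]
  · have e : pvhdZ pvkgG τ false = τ.mid := pvkgg_zo τ
    have e0 : pvhdZ pvkgG τ true = 0 := rfl
    rw [e, e0, pvug_b]
    refine ball_disjoint_ball ?_
    rw [dist_zero_left]
    have h := Complex.abs_re_le_norm τ.mid
    have h2 : (1 / 2 : ℝ) ≤ |τ.mid.re| := by
      cases τ
      · simp [PvtTurn.mid]; norm_num
      · simp [PvtTurn.mid]
      · simp [PvtTurn.mid]
    linarith

/-- the instance at the plug `pvhdQ` of 204, EVERY truncation with the rooms and the targets of `pvhfT` (`pvhfT`, `pvhfTw r Es` of 174, `pvjoT r` of 52: `rfl`) -/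
theorem pvug_ok_Q (τ : PvtTurn) (𝔱 : PvhfTr) (hL : 𝔱.Ln = (pvhfT (1 / 40)).Ln) (hD : 𝔱.Dr = (pvhfT (1 / 40)).Dr) : (pvugLam τ).Ok pvkgG (pvhdQ pvkgG.toPvkdPlug 𝔱) τ :=
  pvug_ok τ _ (fun _ _ => rfl) hL hD

/-! ## 6. the record of 52 (rope A), the three debts of the side events -/

/-- **THE LAYOUT OF RECORD** in the words of 52 -/
noncomputable def pvugLay : PvjoLay := ⟨(1 / 320), fun τ β => pvufL β τ, fun τ β => pvufK β τ, pvkgEt, pvjoKr⟩

theorem pvug_eqns_cite2 : True := by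
  have := @pvugLay.eq_1
  trivial

/-- **ALL THAT THE GEOMETRY OWES FOR [FRC]** -/
theorem pvug_lay_ok : pvugLay.Ok pvkgG (pvjoT pvkgG.a) where
  mO := pvjo_b_mO
  EO := pvjo_b_EO
  dj := pvjo_b_dj
  djK := pvuf_f_djK
  w := pvuf_f_w
  off := pvuf_f_off
  zp := pvuf_f_zp
  zm := pvuf_f_zm
  mEt := pvjo_b_mEt
  bEt := pvjo_b_bEt
  dEt := pvjo_b_dEt
  cover := pvjo_b_cover
  sub := pvjo_b_sub
  lay := fun τ => pvuf_lay τ (X0 := 0) (X1 := 357 / 640) (Y := 37 / 640) (by norm_num) (by norm_num) (by norm_num)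
    (by rw [pvkgg_zo, neg_zero]; exact (pvjo_b_Kr τ).ge) (pvjo_b_geo_r τ)

/-- **[MEAS] + [HDICT] + [FRC] OF THE SIDE EVENTS** `S⁺ S⁺ S⁻ S⁻` at the truncation of record `pvjoT` -/
theorem pvug_side3 : (∀ i, MeasurableSet (pvhfH pvkgG.toPvkdPlug (pvjoT pvkgG.a) i)) ∧
    (∀ err : ℝ≥0∞, err ≠ 0 → ∀ᶠ ε in 𝓝[>] (0 : ℝ), pvkgG.HDict (pvhfH pvkgG.toPvkdPlug (pvjoT pvkgG.a)) ε err) ∧
    ∀ b : ℝ≥0∞, b ≠ 0 → b ≤ 1 → ∃ q : ℝ≥0∞, q ≠ 0 ∧ q ≤ 1 ∧ ∀ᶠ ε in 𝓝[>] (0 : ℝ), ∀ τ, ∀ᵐ σ ∂(pvP ε),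
      σ ∈ (pvkgG.glob (pvhfH pvkgG.toPvkdPlug (pvjoT pvkgG.a))).G2 (pvP ε) b τ →
        q ≤ pvtiP (pvP ε) ((pvkgG.glob (pvhfH pvkgG.toPvkdPlug (pvjoT pvkgG.a))).pre.OO 0 1 τ) ((pvkgG.glob (pvhfH pvkgG.toPvkdPlug (pvjoT pvkgG.a))).A τ) σ :=
  pvjo_t_side (pvjo_t_geo (r := pvkgG.a) (by rw [pvjo_b_a]; norm_num)) pvug_lay_ok (pvze_mC pvkgg_ze)

end Claimed.Agent.R289
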