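import Claimed.Agent.R289.Exit.FrcDefs
import Claimed.Agent.R289.Tr.RegE
import Claimed.Agent.R289.Defs.TrModel

/-!
# Row 289 (S0537), file Tr/FrcPrG : E10, **THE PROBABILITY HALF (b4)+(b5) FOR THE SUCCESS OF RECORD `pvilSA`** (InstL v2.1 / v2.2)      (helper250; prefix `pvlhq_`, `Pvlhq`)

MODEL FREE, over `pvlhg_forced` (`Tr/LinkG`).      Since v2.1 the success of a special link is `pvilSA ε Wn Pl X = Sure_{Wn} (Pl ∩ {X = pvilLoc ε Wn Pl X})`: given the window, a.s. the plain event holds AND the plain value is the soft value.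
The part `{X = Loc}` is a COLOUR DEPENDENT almost sure statement (exactness of the measurable version `pvsuMk`, a.e. exterior gives again a final configuration): it is paid here, once, from the two DETERMINISTIC fields `ev`, `val`.
* sec. 1  `PvlhqFin K D Wn y₀ G ℋ 𝒦 𝒩 ω η` = `η` IS A FINAL CONFIGURATION OVER THE BASE `ω` (no seed, no measure);   `pvlhq_fin_spl` : a final configuration completed otherwise off the window is final as soon as it is nice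
* sec. 2  **`pvlhq_forced`** : hypotheses of `pvlhg_forced` with (DET) := `ev` (every final configuration has the plain success) + `val` (two final configurations equal on the window have the same plain value) + `hmk` (on `𝒩` the measurable version is exact)
          `⟹` for a.e. seed of the own experiment, plug usable `⟹` `t (b₀ - θ) ≤ pvdyQ ε K y₀ (pvilSA ε Wn Pl X)`
AT THE RECORDS OF 35 (`Exit/FrcDefs` v3: `PvjeEnd PvjeTest PvjeFin PvjeDet pvjeN pvjeCert`), THE TWO STATEMENTS OF `Exit/FrcE` VERBATIM: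
* sec. 3  regions, `pvlhq_fin_of` (the `η`-form of `pvlhg_forced` gives `PvjeFin`), `pvlhq_fin_spl_E` (final + regular completion off the window = final)
* sec. 4  the nice event: `pvlhq_reg_ae`, **`pvlhq_N0_ae`** (`val` ⟹ `PvsuDet` ⟹ `pvsu_loc_eq`), `pvlhq_N_meas`, `pvlhq_N_sub`, `pvlhq_N_null`
* sec. 5  **`pvlhq_frc`** = the statement of `pvje_frc`
* sec. 6  `pvlhq_frc_anti`, `pvlhq_nice_null`, **`pvlhq_cert_small`**, **`pvlhq_cut`** = the statement of `pvje_cut` (shape `PvguFrc` of 238, unfolded)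
0 sorry
-/

set_option autoImplicit false
set_option linter.unusedSectionVars false
set_option linter.unusedVariables false

namespace Claimed.Agent.R289

open MeasureTheory ProbabilityTheory Filter Topology Set Claims.C0465
open scoped ENNReal

/-! ## 1. final configurations -/

/-- **`η` IS A FINAL CONFIGURATION OVER THE BASE `ω`**: nice, equal to `ω` on the kept part `Wn \ (K ∪ D)` of the window (same sites; same colours off the fresh set `y₀`), plug usable, side event of the plug,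
the fresh colours of the window are those of a copy which carries the pattern -/
structure PvlhqFin (K D Wn y₀ : Set ℂ) (G ℋ 𝒦 𝒩 : Set (Conf PvPt)) (ω η : Conf PvPt) : Prop where
  nice : η ∈ 𝒩
  sites : ∀ z ∈ Wn, z ∉ K ∪ D → (z ∈ cfSites η ↔ z ∈ cfSites ω)
  cols : ∀ z ∈ cfSites ω, z ∈ Wn → z ∉ K ∪ D → z ∉ y₀ → cfCol η z = cfCol ω z
  door : η ∈ G
  side : η ∈ ℋ
  copy : ∃ τ : ℂ → Bool, cfOf (cfSites η) τ ∈ 𝒦 ∧ ∀ z ∈ cfSites η, z ∈ Wn → (z ∈ K ∨ z ∈ y₀) → cfCol η z = τ z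

theorem pvlhq_spl_spl (W : Set PvPt) (c ξ ξ' : Conf PvPt) : Conf.spl W (Conf.spl W (c, ξ), ξ') = Conf.spl W (c, ξ') := by
  rw [← Conf.spl_restr, Conf.restr_spl, Conf.spl_restr]

/-- **a final configuration completed otherwise off the window is final as soon as it is nice** -/
theorem pvlhq_fin_spl {K D O Wn y₀ : Set ℂ} (hKW : K ⊆ Wn) (hDW : D ⊆ Wn) (hOW : O ⊆ Wn) {G ℋ 𝒦 𝒩 : Set (Conf PvPt)} (rG : Conf.ReadsSet (D ×ˢ univ) G)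
    (rH : Conf.ReadsSet ((D ∪ K) ×ˢ univ) ℋ) (rP : Conf.ReadsSet (O ×ˢ univ) 𝒦) {ω η ξ : Conf PvPt} (h : PvlhqFin K D Wn y₀ G ℋ 𝒦 𝒩 ω η)
    (hn : Conf.spl (Wn ×ˢ (univ : Set Bool)) (η, ξ) ∈ 𝒩) : PvlhqFin K D Wn y₀ G ℋ 𝒦 𝒩 ω (Conf.spl (Wn ×ˢ (univ : Set Bool)) (η, ξ)) := by
  have hs : ∀ z ∈ Wn, (z ∈ cfSites (Conf.spl (Wn ×ˢ (univ : Set Bool)) (η, ξ)) ↔ z ∈ cfSites η) := by
    intro z hz
    have e := pvlhg_sites_spl Wn η ξ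
    exact ⟨fun h1 => (e.subset ⟨h1, hz⟩).1, fun h1 => (e.symm.subset ⟨h1, hz⟩).1⟩
  obtain ⟨τ, hτ1, hτ2⟩ := h.copy
  refine ⟨hn, fun z hz h1 => (hs z hz).trans (h.sites z hz h1), fun z hz hW h1 h2 => ?_, ?_, ?_, τ, ?_, fun z hz hW h1 => ?_⟩
  · rw [pvlhg_col_spl η ξ hW]; exact h.cols z hz hW h1 h2
  · exact ((Conf.readsSet_iff_reads.1 rG).spl_left (prod_mono hDW le_rfl) η ξ).symm ▸ h.door
  · exact ((Conf.readsSet_iff_reads.1 rH).spl_left (prod_mono (union_subset hDW hKW) le_rfl) η ξ).symm ▸ h.side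
  · refine (rP _).1 ?_
    rw [pvay_of_restr]
    have e : cfSites (Conf.spl (Wn ×ˢ (univ : Set Bool)) (η, ξ)) ∩ O = cfSites η ∩ O := by
      ext z
      simp only [mem_inter_iff]
      exact ⟨fun h => ⟨(hs z (hOW h.2)).1 h.1, h.2⟩, fun h => ⟨(hs z (hOW h.2)).2 h.1, h.2⟩⟩
    rw [e, ← pvay_of_restr]
    exact (rP _).2 hτ1
  · rw [pvlhg_col_spl η ξ hW]; exact hτ2 z ((hs z hW).1 hz) hW h1

/-! ## 2. the forced half for the success of record -/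

/-- **DET ⟹ the event under `Sure`**: at a final configuration which is surely nice given its window, the plain success holds and the plain value is the soft value -/
theorem pvlhq_det {ε : ℝ} {K D O Wn y₀ : Set ℂ} (hKW : K ⊆ Wn) (hDW : D ⊆ Wn) (hOW : O ⊆ Wn) {G ℋ 𝒦 𝒩 Pl : Set (Conf PvPt)} {X : Conf PvPt → ℂ} (rG : Conf.ReadsSet (D ×ˢ univ) G)
    (rH : Conf.ReadsSet ((D ∪ K) ×ˢ univ) ℋ) (rP : Conf.ReadsSet (O ×ˢ univ) 𝒦) {ω : Conf PvPt}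
    (hmk : ∀ η ∈ 𝒩, pvsuMk (pvP ε) (Pl.indicator X) η = Pl.indicator X η)
    (ev : ∀ η, PvlhqFin K D Wn y₀ G ℋ 𝒦 𝒩 ω η → η ∈ Pl)
    (val : ∀ η η', PvlhqFin K D Wn y₀ G ℋ 𝒦 𝒩 ω η → PvlhqFin K D Wn y₀ G ℋ 𝒦 𝒩 ω η' →
      Conf.restr (Wn ×ˢ (univ : Set Bool)) η = Conf.restr (Wn ×ˢ (univ : Set Bool)) η' → X η = X η')
    {η : Conf PvPt} (h : PvlhqFin K D Wn y₀ G ℋ 𝒦 𝒩 ω η) (hs : η ∈ pvlhgSn ε Wn 𝒩) : η ∈ Pl ∩ {η | X η = pvilLoc ε Wn Pl X η} := by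
  have := (pv_isPpp ε).prob
  refine ⟨ev η h, ?_⟩
  show X η = ∫ ξ, pvsuMk (pvP ε) (Pl.indicator X) (Conf.spl (Wn ×ˢ (univ : Set Bool)) (η, ξ)) ∂pvP ε
  have e : ∀ᵐ ξ ∂pvP ε, pvsuMk (pvP ε) (Pl.indicator X) (Conf.spl (Wn ×ˢ (univ : Set Bool)) (η, ξ)) = X η := by
    filter_upwards [hs] with ξ hξ
    have h' := pvlhq_fin_spl hKW hDW hOW rG rH rP h hξ
    rw [hmk _ hξ, indicator_of_mem (ev _ h')]
    exact val _ _ h' h (Conf.restr_spl _ _)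
  rw [integral_congr_ae e, integral_const]
  simp

/-- **(b4)+(b5) FOR THE SUCCESS OF RECORD**: `K` = tile, `D` = region of the plug, `y₀` = the fresh sites (constant), `Wn` = the window, `Pl` = the PLAIN success, `X` = the PLAIN value, `G` = the plug is usable (read in `D`),
`ℋ` = the side event of the plug (read over `D ∪ K`), `𝒦` = the whole pattern, read on the COPY colouring in `O` (off the plug), `𝒩` = ANY measurable event with the nice seeds. -/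
theorem pvlhq_forced {ε : ℝ} {K D O Wn y₀ : Set ℂ} (mK : MeasurableSet K) (mD : MeasurableSet D) (mO : MeasurableSet O) (bO : Bornology.IsBounded O) (mW : MeasurableSet Wn)
    (hDK : Disjoint D K) (hOD : Disjoint O D) (hy : Disjoint y₀ (K ∪ D)) (hKW : K ⊆ Wn) (hDW : D ⊆ Wn) (hOW : O ⊆ Wn)
    {G ℋ 𝒦 𝒩 Pl : Set (Conf PvPt)} {X : Conf PvPt → ℂ} (rG : Conf.ReadsSet (D ×ˢ univ) G) (mH : MeasurableSet ℋ) (rH : Conf.ReadsSet ((D ∪ K) ×ˢ univ) ℋ)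
    (mP : MeasurableSet 𝒦) (rP : Conf.ReadsSet (O ×ˢ univ) 𝒦) (mN : MeasurableSet 𝒩) {t θ b₀ : ℝ≥0∞}
    (hG : ∀ η ∈ G, b₀ ≤ pvtiP (pvP ε) (D ×ˢ univ) ℋ η)
    {ω : Conf PvPt} (hω : PvayWin O ω) (hcnt : (cfSites ω).Countable) (cert : ω ∈ pvayGood2 ε K O 𝒦 t θ)
    (nice : ∀ᵐ p ∂pvdyNu ε, ∀ᵐ ξ ∂pvP ε, Conf.spl (Wn ×ˢ (univ : Set Bool)) (pvdyR (K ∪ D) (fun _ => y₀) ω p, ξ) ∈ 𝒩)
    (hup : ∀ (Y Fz : Set ℂ) (s : ℂ → Bool), Y.Countable → PvlhgRg Wn 𝒩 Y → Fz ⊆ Y → (∀ z ∈ Y, z ∈ D → z ∈ Fz) → (∀ z ∈ Fz, z ∉ K ∧ z ∉ y₀) →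
      ∃ sg : ℂ → Option Bool, {z | sg z ≠ none}.Countable ∧ PvlhUp sg (pvlhSec Y Fz s ℋ) ∧ PvlhUp sg (pvlhCp Y 𝒦))
    (hmk : ∀ η ∈ 𝒩, pvsuMk (pvP ε) (Pl.indicator X) η = Pl.indicator X η)
    (ev : ∀ η, PvlhqFin K D Wn y₀ G ℋ 𝒦 𝒩 ω η → η ∈ Pl)
    (val : ∀ η η', PvlhqFin K D Wn y₀ G ℋ 𝒦 𝒩 ω η → PvlhqFin K D Wn y₀ G ℋ 𝒦 𝒩 ω η' →
      Conf.restr (Wn ×ˢ (univ : Set Bool)) η = Conf.restr (Wn ×ˢ (univ : Set Bool)) η' → X η = X η') :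
    ∀ᵐ p ∂pvdyNu ε, pvdyR (K ∪ D) (fun _ => y₀) ω p ∈ G →
      t * (b₀ - θ) ≤ pvdyQ ε K (fun _ => y₀) (pvilSA ε Wn Pl X) (pvdyR (K ∪ D) (fun _ => y₀) ω p) := by
  refine pvlhg_forced (𝒩 := 𝒩 ∩ pvlhgSn ε Wn 𝒩) mK mD mO bO mW hDK hOD hy hKW hDW hOW rG mH rH mP rP (mN.inter (pvlhg_sn_meas ε mW mN)) hG hω hcnt cert ?_ ?_ ?_
  · filter_upwards [nice] with p hp
    filter_upwards [hp] with ξ hξ
    refine ⟨hξ, ?_⟩
    show ∀ᵐ ξ' ∂pvP ε, Conf.spl (Wn ×ˢ (univ : Set Bool)) (Conf.spl (Wn ×ˢ (univ : Set Bool)) (pvdyR (K ∪ D) (fun _ => y₀) ω p, ξ), ξ') ∈ 𝒩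
    simp only [pvlhq_spl_spl]
    exact hp
  · intro Y Fz s h1 h2
    obtain ⟨η, hη, e⟩ := h2
    exact hup Y Fz s h1 ⟨η, hη.1, e⟩
  · intro η τ hη h1 h2 h3 h4 h5 h6
    exact pvlhq_det hKW hDW hOW rG rH rP hmk ev val ⟨hη.1, h1, h2, h3, h4, τ, h5, h6⟩ hη.2

/-! ## 3. the records of 35: regions, final configurations -/

section reg

variable {E : PvjeEnd} {T : PvjeTest} {ε : ℝ}

theorem pvlhq_K_sub (E : PvjeEnd) (Z : Set (ℤ × ℤ)) : E.K ⊆ E.Wn Z := fun _ h => Or.inl (Or.inr h)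
theorem pvlhq_D_sub (E : PvjeEnd) (Z : Set (ℤ × ℤ)) : E.D ⊆ E.Wn Z := fun _ h => Or.inr h
theorem pvlhq_M_sub (E : PvjeEnd) (Z : Set (ℤ × ℤ)) : E.M ⊆ E.Wn Z := fun _ h => Or.inl (Or.inl (Or.inr h))
theorem pvlhq_O_sub (hT : T.Ok E ε) (Z : Set (ℤ × ℤ)) : T.O ⊆ E.Wn Z := fun z h => (hT.O_sub h).elim (fun h => pvlhq_M_sub E Z h) fun h => pvlhq_K_sub E Z h
theorem pvlhq_mWn (hE : E.Wf ε) (Z : Set (ℤ × ℤ)) : MeasurableSet (E.Wn Z) := (((hE.mWz Z).union hE.mM).union hE.mK).union hE.mD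
theorem pvlhq_mem_Kp {Z : Set (ℤ × ℤ)} {z : ℂ} : z ∈ E.Kp Z ↔ z ∈ E.Wn Z ∧ z ∉ E.K ∪ E.D := by
  simp only [PvjeEnd.Kp, PvjeEnd.Wn, mem_union, Set.mem_sdiff]
  tauto

/-- the `η`-form of `pvlhg_forced` gives a final configuration of 35 -/
theorem pvlhq_fin_of {η₀ η : Conf PvPt} {τ : ℂ → Bool} (hr : η ∈ pvjeReg E T) (h1 : ∀ z ∈ E.Wn (E.Hu η₀), z ∉ E.K ∪ E.D → (z ∈ cfSites η ↔ z ∈ cfSites η₀))
    (h2 : ∀ z ∈ cfSites η₀, z ∈ E.Wn (E.Hu η₀) → z ∉ E.K ∪ E.D → z ∉ E.y η₀ → cfCol η z = cfCol η₀ z) (h3 : η ∈ E.G) (h4 : η ∈ T.ℋ) (h5 : cfOf (cfSites η) τ ∈ T.𝒦)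
    (h6 : ∀ z ∈ cfSites η, z ∈ E.Wn (E.Hu η₀) → (z ∈ E.K ∨ z ∈ E.y η₀) → cfCol η z = τ z) : PvjeFin E T η₀ η where
  nice := hr.1
  one := hr.2.1
  sites := by
    ext z
    simp only [mem_inter_iff]
    exact ⟨fun h => ⟨(h1 z (pvlhq_mem_Kp.1 h.2).1 (pvlhq_mem_Kp.1 h.2).2).1 h.1, h.2⟩, fun h => ⟨(h1 z (pvlhq_mem_Kp.1 h.2).1 (pvlhq_mem_Kp.1 h.2).2).2 h.1, h.2⟩⟩
  cols := fun v hv hy => h2 v hv.1 (pvlhq_mem_Kp.1 hv.2).1 (pvlhq_mem_Kp.1 hv.2).2 hy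
  use := h3
  plug := hr.2.2 h3
  side := h4
  copy := ⟨τ, h5, fun v hv hK => h6 v hv (hK.elim (fun h => pvlhq_K_sub E _ h) fun h => pvlhq_M_sub E _ h.1) hK⟩

/-- **a final configuration completed otherwise off the window is final as soon as it is regular** -/
theorem pvlhq_fin_spl_E (hE : E.Wf ε) (hT : T.Ok E ε) {η₀ η ξ : Conf PvPt} (h : PvjeFin E T η₀ η) (hn : Conf.spl (E.Wn (E.Hu η₀) ×ˢ (univ : Set Bool)) (η, ξ) ∈ pvjeReg E T) :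
    PvjeFin E T η₀ (Conf.spl (E.Wn (E.Hu η₀) ×ˢ (univ : Set Bool)) (η, ξ)) := by
  have hs : ∀ z ∈ E.Wn (E.Hu η₀), (z ∈ cfSites (Conf.spl (E.Wn (E.Hu η₀) ×ˢ (univ : Set Bool)) (η, ξ)) ↔ z ∈ cfSites η) := by
    intro z hz
    have e := pvlhg_sites_spl (E.Wn (E.Hu η₀)) η ξ
    exact ⟨fun h1 => (e.subset ⟨h1, hz⟩).1, fun h1 => (e.symm.subset ⟨h1, hz⟩).1⟩
  obtain ⟨τ, hτ1, hτ2⟩ := h.copy
  refine pvlhq_fin_of (τ := τ) hn (fun z hz h1 => (hs z hz).trans ?_) (fun z hz hW h1 h2 => ?_) ?_ ?_ ?_ fun z hz hW h1 => ?_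
  · have hk : z ∈ E.Kp (E.Hu η₀) := pvlhq_mem_Kp.2 ⟨hz, h1⟩
    exact ⟨fun h2 => (h.sites.subset ⟨h2, hk⟩).1, fun h2 => (h.sites.symm.subset ⟨h2, hk⟩).1⟩
  · rw [pvlhg_col_spl η ξ hW]; exact h.cols z ⟨hz, pvlhq_mem_Kp.2 ⟨hW, h1⟩⟩ h2
  · exact ((Conf.readsSet_iff_reads.1 hE.rG).spl_left (prod_mono (pvlhq_D_sub E _) le_rfl) η ξ).symm ▸ h.use
  · exact ((Conf.readsSet_iff_reads.1 hT.rH).spl_left (prod_mono (union_subset (pvlhq_D_sub E _) (pvlhq_K_sub E _)) le_rfl) η ξ).symm ▸ h.side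
  · refine (hT.rK _).1 ?_
    rw [pvay_of_restr]
    have e : cfSites (Conf.spl (E.Wn (E.Hu η₀) ×ˢ (univ : Set Bool)) (η, ξ)) ∩ T.O = cfSites η ∩ T.O := by
      ext z
      simp only [mem_inter_iff]
      exact ⟨fun h => ⟨(hs z (pvlhq_O_sub hT _ h.2)).1 h.1, h.2⟩, fun h => ⟨(hs z (pvlhq_O_sub hT _ h.2)).2 h.1, h.2⟩⟩
    rw [e, ← pvay_of_restr]
    exact (hT.rK _).2 hτ1
  · rw [pvlhg_col_spl η ξ hW]; exact hτ2 z ((hs z hW).1 hz) h1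

end reg

/-! ## 4. the nice event of 35 -/

section nice

variable {E : PvjeEnd} {T : PvjeTest} {ε : ℝ}

theorem pvlhq_reg_ae (hε : 0 < ε) (hT : T.Ok E ε) : ∀ᵐ η ∂pvP ε, η ∈ pvjeReg E T := by
  filter_upwards [pvat_nice_ae hε.ne', dls_ae_conf hε, hT.loc] with η h1 h2 h3
  exact ⟨h1, h2.col, h3⟩

/-- **the nice event is almost sure** -/
theorem pvlhq_N0_ae (hε : 0 < ε) (hE : E.Wf ε) (hT : T.Ok E ε) : ∀ᵐ η ∂pvP ε, η ∈ pvjeN0 E T ε := by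
  have hr := pvlhq_reg_ae hε hT
  have key : ∀ Z : Finset (ℤ × ℤ), ∀ᵐ η ∂pvP ε, η ∈ pvjeS E T ↑Z → E.X η = pvilLoc ε (E.Wn ↑Z) (E.Pl ↑Z) E.X η := by
    intro Z
    have mW : MeasurableSet (E.Wn ↑Z ×ˢ (univ : Set Bool)) := (pvlhq_mWn hE _).prod MeasurableSet.univ
    have hd : PvsuDet (pvP ε) (E.Wn ↑Z ×ˢ (univ : Set Bool)) (pvjeS E T ↑Z) ((E.Pl ↑Z).indicator E.X) := by
      filter_upwards [pvsu_ae_spl (pv_isPpp ε) mW hr] with σ h2 hS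
      obtain ⟨η₀, e, hD, hF⟩ := hS
      filter_upwards [h2] with ξ h3
      rw [← e] at h3 ⊢
      have hF' := pvlhq_fin_spl_E hE hT hF h3
      rw [indicator_of_mem (hD.ev _ hF'), indicator_of_mem (hD.ev _ hF)]
      exact hD.val _ _ hF' hF (Conf.restr_spl _ _)
    filter_upwards [pvsu_loc_eq (pv_isPpp ε) mW (hE.mX _ Z.finite_toSet) hd] with σ h1 hS
    obtain ⟨η₀, e, hD, hF⟩ := id hS
    have h2 : pvilLoc ε (E.Wn ↑Z) (E.Pl ↑Z) E.X σ = (E.Pl ↑Z).indicator E.X σ := h1 hS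
    rw [h2, indicator_of_mem (e ▸ hD.ev _ hF)]
  filter_upwards [hr, ae_all_iff.2 key] with η h1 h2
  exact ⟨h1, h2⟩

theorem pvlhq_N_meas (E : PvjeEnd) (T : PvjeTest) (ε : ℝ) : MeasurableSet (pvjeN E T ε) := (measurableSet_toMeasurable _ _).compl

theorem pvlhq_N_sub (E : PvjeEnd) (T : PvjeTest) (ε : ℝ) : pvjeN E T ε ⊆ pvjeN0 E T ε := by
  intro η hη
  by_contra h
  exact hη (subset_toMeasurable _ _ h)

theorem pvlhq_N_null (hε : 0 < ε) (hE : E.Wf ε) (hT : T.Ok E ε) : pvP ε (pvjeN E T ε)ᶜ = 0 := by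
  unfold pvjeN
  rw [compl_compl, measure_toMeasurable]
  exact ae_iff.1 (pvlhq_N0_ae hε hE hT)

end nice

/-! ## 5. forced -/

/-- **E10 FOR ONE HYBRID END, AT ONE BASE** (statement of `pvje_frc` of 35, `Exit/FrcE`) -/
theorem pvlhq_frc {E : PvjeEnd} {T : PvjeTest} {ε : ℝ} (hε : 0 < ε) {θ : ℝ≥0∞} (hE : E.Wf ε) (hT : T.Ok E ε) {yf : Conf PvPt → Set ℂ} (hyf : ∀ η₀ ∈ E.U, ∀ p, pvdyR (E.K ∪ E.D) yf η₀ p = E.R η₀ p)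
    {Mc : Set (Conf PvPt)} {η₀ : Conf PvPt} (hU : η₀ ∈ E.U) (hC : η₀ ∈ pvjeCert E T ε θ yf Mc) (hD : PvjeDet E T η₀) : η₀ ∈ E.Frc ε (T.t * (T.b - θ)) := by
  obtain ⟨c1, c2, c3, -, c5⟩ := hC
  have hfin := hE.fin η₀ hU
  have eZ : (↑hfin.toFinset : Set (ℤ × ℤ)) = E.Hu η₀ := hfin.coe_toFinset
  have hA : E.A ε η₀ = pvsuSure (pvP ε) (E.Wn (E.Hu η₀) ×ˢ univ) (E.Pl (E.Hu η₀) ∩ {η | E.X η = pvilLoc ε (E.Wn (E.Hu η₀)) (E.Pl (E.Hu η₀)) E.X η}) := by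
    unfold PvjeEnd.A pvilFin
    rw [if_pos hfin]
    rfl
  show ∀ᵐ p ∂pvdyNu ε, E.R η₀ p ∈ E.G → T.t * (T.b - θ) ≤ pvdyQ ε E.K (fun _ => E.y η₀) (E.A ε η₀) (E.R η₀ p)
  rw [hA]
  refine pvlhg_forced (𝒩 := pvjeN E T ε) hE.mK hE.mD hT.mO hT.bO (pvlhq_mWn hE _) hE.KD.symm ?_ ?_ (pvlhq_K_sub E _) (pvlhq_D_sub E _) (pvlhq_O_sub hT _) hE.rG hT.mH hT.rH hT.mK hT.rK
    (pvlhq_N_meas E T ε) hT.thr (pvay_win_of_ok c1 hT.bO) c2 c3 ?_ ?_ ?_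
  · exact disjoint_left.2 fun z hz hD => (hT.O_sub hz).elim (fun h => disjoint_left.1 hE.MD h hD) fun h => disjoint_left.1 hE.KD h hD
  · exact disjoint_left.2 fun z hz hKD => hKD.elim (fun h => disjoint_left.1 hE.MK hz.1 h) fun h => disjoint_left.1 hE.MD hz.1 h
  · have h5 := c5 hfin.toFinset
    rw [eZ] at h5
    filter_upwards [h5] with p hp
    rw [hyf η₀ hU p] at hp
    exact hp
  · intro Y Fz s h1 h2 h3 h4 h5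
    obtain ⟨η, hη, e⟩ := h2
    exact hT.up η₀ Y Fz s h1 ⟨η, (pvlhq_N_sub E T ε hη).1.1, e⟩ h3 h4 h5
  · intro η τ hη h1 h2 h3 h4 h5 h6
    have hη0 := pvlhq_N_sub E T ε hη
    have hF := pvlhq_fin_of hη0.1 h1 h2 h3 h4 h5 h6
    refine ⟨hD.ev η hF, ?_⟩
    have h7 := hη0.2 hfin.toFinset
    rw [eZ] at h7
    exact h7 ⟨η₀, rfl, hD, hF⟩

/-! ## 6. the cost of the certificate, the generic roof -/

theorem pvlhq_frc_anti (E : PvjeEnd) (ε : ℝ) {q q' : ℝ≥0∞} (h : q ≤ q') : E.Frc ε q' ⊆ E.Frc ε q := by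
  intro η₀ hη
  have h1 : ∀ᵐ p ∂pvdyNu ε, E.R η₀ p ∈ E.G → q' ≤ pvdyQ ε E.K (fun _ => E.y η₀) (E.A ε η₀) (E.R η₀ p) := hη
  exact h1.mono fun p hp hG => h.trans (hp hG)

/-- **the seeds are nice off an event of upper probability `0`** -/
theorem pvlhq_nice_null {E : PvjeEnd} {T : PvjeTest} {ε : ℝ} (hε : 0 < ε) (hE : E.Wf ε) (hT : T.Ok E ε) {yf : Conf PvPt → Set ℂ} (hS : PvdyStop yf) :
    pvrgUp ε {η₀ | ∀ Z : Finset (ℤ × ℤ), ∀ᵐ p ∂pvdyNu ε, ∀ᵐ ξ ∂pvP ε, Conf.spl (E.Wn ↑Z ×ˢ (univ : Set Bool)) (pvdyR (E.K ∪ E.D) yf η₀ p, ξ) ∈ pvjeN E T ε}ᶜ = 0 :=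
  pvlhg_nice_up ε (hE.mK.union hE.mD) (Ok := fun _ => True) (Eventually.of_forall fun _ => trivial) hS.kt (fun Z : Finset (ℤ × ℤ) => E.Wn ↑Z) (fun Z => pvlhq_mWn hE _)
    (pvlhq_N_meas E T ε) (pvlhq_N_null hε hE hT)

/-- **THE COST OF THE CERTIFICATE** -/
theorem pvlhq_cert_small {E : ℝ → PvjeEnd} {T : ℝ → PvjeTest} {θ : ℝ≥0∞} {Mc : ℝ → Set (Conf PvPt)} {yf : ℝ → Conf PvPt → Set ℂ}
    (hE : ∀ᶠ ε in 𝓝[>] (0 : ℝ), (E ε).Wf ε) (hT : ∀ᶠ ε in 𝓝[>] (0 : ℝ), (T ε).Ok (E ε) ε) (hS : ∀ᶠ ε in 𝓝[>] (0 : ℝ), PvdyStop (yf ε))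
    (hG : PvrgSmall fun ε => (pvayGood2 ε (E ε).K (T ε).O (T ε).𝒦 (T ε).t θ)ᶜ) (hM : PvrgSmall fun ε => (Mc ε)ᶜ) :
    PvrgSmall fun ε => (pvjeCert (E ε) (T ε) ε θ (yf ε) (Mc ε))ᶜ := by
  have h1 : PvrgSmall fun ε => ({η₀ | CfOK η₀ ∧ (cfSites η₀).Countable} : Set (Conf PvPt))ᶜ := by
    refine pvrg_small_null ?_
    filter_upwards [self_mem_nhdsWithin] with ε hε
    have hε' : 0 < ε := hε
    filter_upwards [dls_ae_conf hε', pvcn_LF_ae ε] with η₀ a b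
    exact ⟨a, pvdy_countable_of_LF b⟩
  have h2 : PvrgSmall fun ε => ({η₀ | ∀ Z : Finset (ℤ × ℤ), ∀ᵐ p ∂pvdyNu ε, ∀ᵐ ξ ∂pvP ε,
      Conf.spl ((E ε).Wn ↑Z ×ˢ (univ : Set Bool)) (pvdyR ((E ε).K ∪ (E ε).D) (yf ε) η₀ p, ξ) ∈ pvjeN (E ε) (T ε) ε} : Set (Conf PvPt))ᶜ := by
    refine PvrgSmall.of_le tendsto_const_nhds ?_
    filter_upwards [self_mem_nhdsWithin, hE, hT, hS] with ε hε a b c
    exact (pvlhq_nice_null hε a b c).le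
  refine (pvrg_small_inter (pvrg_small_inter h1 hG) (pvrg_small_inter hM h2)).mono (Eventually.of_forall fun ε η₀ hη₀ hc => hη₀ ?_)
  exact ⟨hc.1.1.1, hc.1.1.2, hc.1.2, hc.2.1, hc.2.2⟩

open Classical in
/-- **THE GENERIC ROOF** (statement of `pvje_cut` of 35, `Exit/FrcE`; conclusion = `PvguFrc 𝔓 m z t fun ε => (E ε).Frc ε q` of 238, unfolded) -/
theorem pvlhq_cut {τ : Type} {c : ℝ} (𝔓 : PvxPar τ c) (m : ℕ) (z : ℂ) (t : τ) {E : ℝ → PvjeEnd} {T : ℝ → PvjeTest} {θ q : ℝ≥0∞} {Mc : ℝ → Set (Conf PvPt)}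
    (hE : ∀ᶠ ε in 𝓝[>] (0 : ℝ), (E ε).Wf ε) (hT : ∀ᶠ ε in 𝓝[>] (0 : ℝ), (T ε).Ok (E ε) ε)
    (hq : ∀ᶠ ε in 𝓝[>] (0 : ℝ), q ≤ (T ε).t * ((T ε).b - θ))
    (hG : PvrgSmall fun ε => (pvayGood2 ε (E ε).K (T ε).O (T ε).𝒦 (T ε).t θ)ᶜ)
    (hM : PvrgSmall fun ε => (Mc ε)ᶜ)
    (hU : ∀ᶠ ε in 𝓝[>] (0 : ℝ), ∀ ω ∈ pvxU 𝔓 m z t, pvConf ω ∈ (E ε).U)
    (hD : ∀ᶠ ε in 𝓝[>] (0 : ℝ), ∀ η₀ ∈ (E ε).U, η₀ ∈ Mc ε → CfOK η₀ → PvjeDet (E ε) (T ε) η₀) :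
    ∃ Cert : ℝ → Set (Conf PvPt), Tendsto (fun ε => ((pvhbUp ε).P {x | pvConf (pvMerge x) ∉ Cert ε}).toReal) (𝓝[>] (0 : ℝ)) (𝓝 0) ∧
      ∀ᶠ ε in 𝓝[>] (0 : ℝ), ∀ ω ∈ pvxU 𝔓 m z t, pvConf ω ∈ Cert ε → pvConf ω ∈ (E ε).Frc ε q := by
  let yf : ℝ → Conf PvPt → Set ℂ := fun ε => if h : (E ε).Wf ε then h.stop.choose else fun _ => ∅
  have hyf : ∀ ε, ∀ h : (E ε).Wf ε, PvdyStop (yf ε) ∧ ∀ η₀ ∈ (E ε).U, ∀ p, pvdyR ((E ε).K ∪ (E ε).D) (yf ε) η₀ p = (E ε).R η₀ p := by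
    intro ε h
    have e : yf ε = h.stop.choose := dif_pos h
    rw [e]
    exact h.stop.choose_spec
  refine ⟨fun ε => pvjeCert (E ε) (T ε) ε θ (yf ε) (Mc ε), (pvlhq_cert_small hE hT (hE.mono fun ε h => (hyf ε h).1) hG hM).toReal, ?_⟩
  filter_upwards [self_mem_nhdsWithin, hE, hT, hq, hU, hD] with ε hε a b c d e ω hω hC
  exact pvlhq_frc_anti (E ε) ε c (pvlhq_frc hε a b (hyf ε a).2 (d ω hω) hC (e _ (d ω hω) hC.2.2.2.1 hC.1))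

end Claimed.Agent.R289
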