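-- KEEP
import Claimed.Agent.R289.Tr.GlueWT

/-!
# Row 289 (S0537, Cardy for Poisson-Voronoi), THE WALL, ROAD P, file Tr/LinkHalf : THE WHITE LANES OF THE THICK LINKS `b : t → u`, `e : u → t` = HALF GLUE      (helper15; post P12 of 273: second of 164; prefix `pvli_`, `pvli`, `Pvli`)

ENGINE: `Tr/GlueW.lean` of 205, ANY map `M : PvgwMap` (link cell ↦ menu cell; `pvgwId` = menu cells).      NO EXPLICIT WHITE GEOMETRY: only the BLACK axis of a link is explicit.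
* EXIT HALF (link `b`).    `Fa` = ANY finite connected tube (e.g. `N⁴ (C₉ ∪ β)`, `β` = black axis of `b` from the tip `q 10` to the inside of the body of `u`);   `pvliFp τ Fa = N⁴ (cells 0..8) ∪ Fa`,   `pvliHp τ Fa` = its hull;
  first door `Dr⁻(τ)`, second door `D₂` = ANY set of cells whose darts have their inner cells in a connected `A₂ ⊆ Fa` (e.g. cells of the right collar of the last straight segment of `β`).
  `PvliInP` = the clauses (`touch off wit` = those of `PvgwIn` of 205);   **`pvli_half_p`** : THE lane of the hull from `Dr⁻` to `D₂` starts with the lane `R` of the type (up to the dart of `pvlpA1`), and from that dart on its inner cells lie in `N⁴ (cells 7..8) ∪ Fa`.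
  **`pvli_white_p`** : the polyomino form `S⁺` (finite, connected, off the hull, `pvlpA1 ∈ S⁺`, meets `D₂`, every cell next to `N⁴ (cells 7..8) ∪ Fa`).
* ENTRANCE HALF (link `e`), mirror:   `pvliFm τ Fa = Fa ∪ N⁴ (cells 1..9)`, doors `D₁`, `Dr⁺(τ)`;   `PvliInM`, **`pvli_half_m`**, **`pvli_white_m`**.
* STOP (`pvli_stop_p`, `pvli_stop_m`): the stretch does not visit a connected part `Z` of the tube beyond the door, as soon as the contour visits `Z` after (before) the door: inner interlacing of `Tr/RingIn`.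
* BAR (`pvli_bar_step`, `pvli_bar_iter`): two steps of the contour along a straight collar = one cell, OUTWARD on the right collar.
-/

set_option autoImplicit false
set_option linter.unusedSectionVars false
set_option linter.unusedVariables false
set_option linter.unusedSimpArgs false

namespace Claimed.Agent.R289

open Relation Claims.C0467 Claimed.Agent.R291

/-! ## 1. the two half tubes -/

/-- the unfilled tube of the exit half -/
def pvliFp (M : PvgwMap) (τ : PvmnType) (Fa : Set (ℤ × ℤ)) : Set (ℤ × ℤ) := M.pre (pvtwN 4 (pvmnCells τ 0 8)) ∪ Fa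

/-- the tube of the exit half -/
def pvliHp (M : PvgwMap) (τ : PvmnType) (Fa : Set (ℤ × ℤ)) : Set (ℤ × ℤ) := pvtHull (pvliFp M τ Fa)

/-- the unfilled tube of the entrance half -/
def pvliFm (M : PvgwMap) (τ : PvmnType) (Fa : Set (ℤ × ℤ)) : Set (ℤ × ℤ) := Fa ∪ M.pre (pvtwN 4 (pvmnCells τ 1 9))

/-- the tube of the entrance half -/
def pvliHm (M : PvgwMap) (τ : PvmnType) (Fa : Set (ℤ × ℤ)) : Set (ℤ × ℤ) := pvtHull (pvliFm M τ Fa)

/-- **THE CLAUSES OF THE EXIT HALF** -/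
structure PvliInP (𝔑 : PvmnNum) (M : PvgwMap) (τ : PvmnType) (Fa D₂ A₂ : Set (ℤ × ℤ)) : Prop where
  ts : PvmnIsType 𝔑 τ
  fin : Fa.Finite
  conn : TscConn tscG Fa
  /-- the tube of the link starts in the tube of the piece 8 -/
  touch : ∃ v ∈ Fa, M.ap v ∈ pvtwN 4 (τ.C 8 : Set (ℤ × ℤ))
  /-- near the pieces `0..8` the tube of the link is the tube of the piece 9 -/
  off : ∀ v ∈ Fa, M.ap v ∈ pvtwN 9 (pvmnCells τ 0 8) → M.ap v ∈ pvtwN 8 (τ.C 9 : Set (ℤ × ℤ))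
  /-- ONE witness: a dart of the entrance door with a cell over its outer cell which is joined to infinity off the tube -/
  wit : ∃ x ∈ pvtrBd (pvmnK3 τ), x.2 ∈ pvmnDrm τ ∧ ∃ v ∈ pvtOut (pvliFp M τ Fa), M.ap v = x.2
  A2_sub : A₂ ⊆ Fa
  A2_conn : TscConn tscG A₂
  in2 : ∀ x ∈ pvtrBd (pvliHp M τ Fa), x.2 ∈ D₂ → x.1 ∈ A₂
  D2_off : Disjoint D₂ (M.pre (pvtwN 5 (pvmnCells τ 0 8)))
  d2 : ∃ d ∈ pvtrBd (pvliHp M τ Fa), d.2 ∈ D₂

/-- **THE CLAUSES OF THE ENTRANCE HALF** -/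
structure PvliInM (𝔑 : PvmnNum) (M : PvgwMap) (τ : PvmnType) (Fa D₁ A₁ : Set (ℤ × ℤ)) : Prop where
  ts : PvmnIsType 𝔑 τ
  fin : Fa.Finite
  conn : TscConn tscG Fa
  touch : ∃ v ∈ Fa, M.ap v ∈ pvtwN 4 (τ.C 1 : Set (ℤ × ℤ))
  off : ∀ v ∈ Fa, M.ap v ∈ pvtwN 9 (pvmnCells τ 1 9) → M.ap v ∈ pvtwN 8 (τ.C 0 : Set (ℤ × ℤ))
  wit : ∃ x ∈ pvtrBd (pvmnK3 τ), x.2 ∈ pvmnDrp τ ∧ ∃ v ∈ pvtOut (pvliFm M τ Fa), M.ap v = x.2
  A1_sub : A₁ ⊆ Fa
  A1_conn : TscConn tscG A₁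
  in1 : ∀ x ∈ pvtrBd (pvliHm M τ Fa), x.2 ∈ D₁ → x.1 ∈ A₁
  D1_off : Disjoint D₁ (M.pre (pvtwN 5 (pvmnCells τ 1 9)))
  d1 : ∃ d ∈ pvtrBd (pvliHm M τ Fa), d.2 ∈ D₁

theorem pvli_half_eqns_cite : True := by
  have := @pvliFp.eq_1; have := @pvliHp.eq_1; have := @pvliFm.eq_1; have := @pvliHm.eq_1
  trivial

theorem pvli_id_dart (x : (ℤ × ℤ) × (ℤ × ℤ)) : pvgwId.dart x = x := rfl

/-! ## 2. the exit half -/

section exit

variable {𝔑 : PvmnNum} {M : PvgwMap} {τ : PvmnType} {Fa D₂ A₂ : Set (ℤ × ℤ)}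

/-- the tube of the link keeps off the pieces `0..7` -/
theorem PvliInP.Fa_off (I : PvliInP 𝔑 M τ Fa D₂ A₂) {v : ℤ × ℤ} (hv : v ∈ Fa) {i : ℕ} (hi : i ≤ 9) (h : M.ap v ∈ pvtwN i (pvmnCells τ 0 7)) : False := by
  have h1 := I.off v hv (pvtw_N_mono hi (pvmn_cells_mono (by omega) (by omega)) h)
  obtain ⟨k, _, hk7, hk⟩ := pvmn_N_cells.1 h
  have := (pvgw_far I.ts (by omega) (by omega) hk h1).2
  change 9 ≤ k.1 + 1 at this
  omega

theorem PvliInP.F_finite (I : PvliInP 𝔑 M τ Fa D₂ A₂) : (pvliFp M τ Fa).Finite :=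
  (pvgw_pre_finite M (pvtw_N_finite (pvmn_cells_finite τ 0 8))).union I.fin

theorem PvliInP.conn2 (I : PvliInP 𝔑 M τ Fa D₂ A₂) {a : ℕ} (ha : a ≤ 8) : TscConn tscG (M.pre (pvtwN 4 (pvmnCells τ a 8)) ∪ Fa) := by
  obtain ⟨v, hv, hvs⟩ := I.touch
  exact tsc_conn_union (pvgw_pre_conn M (pvtw_N_conn (pvmn_cells_conn I.ts ha (by omega)))) I.conn (a := v) (b := v) (pvtw_N_mono le_rfl (pvmn_C_sub 8 ha le_rfl) hvs) hv (Or.inl rfl)

theorem pvli_sub2_p {a : ℕ} : M.pre (pvtwN 4 (pvmnCells τ a 8)) ∪ Fa ⊆ pvliHp M τ Fa := by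
  refine Set.Subset.trans ?_ pvt_hull_sub
  rintro v (h | h)
  · exact Or.inl (pvtw_N_mono le_rfl (pvmn_cells_mono (by omega) le_rfl) h)
  · exact Or.inr h

theorem PvliInP.disj (I : PvliInP 𝔑 M τ Fa D₂ A₂) {p a : ℕ} (h : p + 2 ≤ a) (ha : a ≤ 8) : Disjoint (M.pre (pvtwN 4 (pvmnCells τ 0 p))) (M.pre (pvtwN 4 (pvmnCells τ a 8)) ∪ Fa) := by
  rw [Set.disjoint_left]
  rintro v hv (h' | h')
  · exact Set.disjoint_left.1 (pvmn_far_cells I.ts h) (pvtw_N_mono (by omega) le_rfl hv) (pvtw_N_mono (by omega) le_rfl h')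
  · exact I.Fa_off h' (i := 4) (by omega) (pvtw_N_mono le_rfl (pvmn_cells_mono le_rfl (by omega)) hv)

/-- the inner cell of a dart of the tube belongs to the unfilled tube -/
theorem pvli_Hp_dart {x : (ℤ × ℤ) × (ℤ × ℤ)} (hx : x ∈ pvtrBd (pvliHp M τ Fa)) : x.1 ∈ pvliFp M τ Fa :=
  pvt_hull_bd hx.1 (not_not.1 hx.2.1) hx.2.2

/-- **THE EXIT HALF TUBE WITH ITS TWO DOORS** -/
theorem PvliInP.doors (I : PvliInP 𝔑 M τ Fa D₂ A₂) : PvriDoors (pvliHp M τ Fa) (M.pre (pvmnDrm τ)) D₂ (M.pre (pvtwN 4 (pvmnCells τ 0 1))) A₂ where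
  fin := pvt_hull_finite I.F_finite
  conn := pvt_hull_conn (I.conn2 (by omega))
  free := pvt_hull_free
  sub1 := fun v hv => pvt_hull_sub (Or.inl (pvtw_N_mono le_rfl (pvmn_cells_mono le_rfl (by omega)) hv))
  sub2 := fun v hv => pvt_hull_sub (Or.inr (I.A2_sub hv))
  conn1 := pvgw_pre_conn M (pvtw_N_conn (pvmn_cells_conn I.ts (by omega) (by omega)))
  conn2 := I.A2_conn
  disj := Set.disjoint_left.2 fun v h1 h2 => I.Fa_off (I.A2_sub h2) (i := 4) (by omega) (pvtw_N_mono le_rfl (pvmn_cells_mono le_rfl (by omega)) h1)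
  in1 := by
    intro x hx h
    have h9 : M.ap x.1 ∈ pvtwN 9 (τ.C 0 : Set (ℤ × ℤ)) := pvgw_N_adj' h (pvgw_adj M hx.2.2)
    have h9' : M.ap x.1 ∈ pvtwN 9 (pvmnCells τ 0 7) := pvtw_N_mono le_rfl (pvmn_C_sub 0 (by simp) (by simp)) h9
    rcases pvli_Hp_dart hx with h' | h'
    · obtain ⟨k, _, _, hk⟩ := pvmn_N_cells.1 h'
      have := (pvgw_far I.ts (by omega) (by omega) hk h9).1
      exact pvmn_N_cells.2 ⟨k, by omega, this, hk⟩
    · exact (I.Fa_off h' le_rfl h9').elim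
  in2 := I.in2

/-- **the lane of the type, without its last dart, is decided** -/
theorem PvliInP.dec (I : PvliInP 𝔑 M τ Fa D₂ A₂) {e : (ℤ × ℤ) × (ℤ × ℤ)} {l : ℕ} (hs : PvmnLaneR τ e l) : PvgwDec M (pvliHp M τ Fa) (pvmnK3 τ) e (l - 1) := by
  obtain ⟨x, hx, hx1, v, hv, hvx⟩ := I.wit
  obtain ⟨a, ha, hoff⟩ := pvgw_before (pvri_K3_doors I.ts) hs hx hx1
  have hl := pvgw_lane_two I.ts hs
  have hdis : Disjoint (M.pre (pvgwOut (pvmnK3 τ) x 0 (a + l - 1))) (pvliFp M τ Fa) := by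
    rw [Set.disjoint_left]
    rintro u ⟨m, _, hm, hu⟩ hF
    have hd := pvtr_iter_mem hx m
    have h5 := pvgw_dart_m hd (hoff m (by omega))
    rw [← hu] at h5
    rcases hF with h | h
    · exact hd.2.1 (hu ▸ pvgw_Ps_K3 h)
    · exact hoff m (by omega) (hu ▸ pvtw_N_mono (by omega) le_rfl (I.off u h (pvtw_N_mono (by omega) le_rfl h5.2)))
  have hout := pvgw_dec_out M (pvgw_out_conn hx 0 (a + l - 1)) hdis hv ⟨0, le_rfl, by omega, hvx⟩
  intro m hm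
  have e1 : (pvtrStep (pvmnK3 τ))^[m] e = (pvtrStep (pvmnK3 τ))^[m + a] x := by rw [Function.iterate_add_apply, ha]
  have hd := pvtr_iter_mem hx (m + a)
  rw [e1]
  constructor
  · intro u hu
    refine pvt_hull_sub (Or.inl ?_)
    change M.ap u ∈ pvtwN 4 (pvmnCells τ 0 8)
    rw [hu]
    exact (pvgw_dart_m hd (hoff (m + a) (by omega))).1
  · intro u hu hA
    exact hA (hout ⟨m + a, by omega, by omega, hu⟩)

/-- **HALF GLUE, EXIT SIDE**: THE lane of the half tube from `Dr⁻` to `D₂` starts over the lane `R` of the type; from the dart over the dart of `pvlpA1` on, its inner cells lie in `M⁻¹ N⁴ (cells 7..8) ∪ Fa` -/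
theorem pvli_half_p (I : PvliInP 𝔑 M τ Fa D₂ A₂) {ln : ((ℤ × ℤ) × (ℤ × ℤ)) × ℕ} (hs : PvmnLaneR τ ln.1 ln.2) :
    ∃ e' l' j, PvtrLane (pvliHp M τ Fa) (M.pre (pvmnDrm τ)) D₂ e' l' ∧ M.dart e' = ln.1 ∧ 0 < j ∧ j < l' ∧
      M.dart ((pvtrStep (pvliHp M τ Fa))^[j] e') = (pvtrStep (pvmnK3 τ))^[ln.2 - 1] ln.1 ∧
      ∀ i, j ≤ i → i ≤ l' → ((pvtrStep (pvliHp M τ Fa))^[i] e').1 ∈ M.pre (pvtwN 4 (pvmnCells τ 7 8)) ∪ Fa := by
  obtain ⟨es, ls⟩ := ln
  change PvmnLaneR τ es ls at hs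
  have hls := pvgw_lane_two I.ts hs
  have Dr := I.doors
  have Ds := I.dec hs
  have hD1 : ∀ v, M.ap v = es.2 → v ∈ M.pre (pvmnDrm τ) := by
    intro v hv
    change M.ap v ∈ pvmnDrm τ
    rw [hv]
    exact hs.start
  have hoffs : ∀ m, 0 < m → m ≤ ls - 1 → ∀ v, M.ap v = ((pvtrStep (pvmnK3 τ))^[m] es).2 → v ∉ M.pre (pvmnDrm τ) ∪ D₂ := by
    intro m hm0 hm v hv
    have hoff := hs.off m hm0 (by omega)
    rintro (h | h)
    · have h' : M.ap v ∈ pvmnDrm τ := h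
      rw [hv] at h'
      exact hoff (Or.inl h')
    · have h5 := (pvgw_dart_m (pvtr_iter_mem hs.mem m) (fun h' => hoff (Or.inr h'))).2
      rw [← hv] at h5
      exact Set.disjoint_left.1 I.D2_off h h5
  have hcY : ∀ v, M.ap v = ((pvtrStep (pvmnK3 τ))^[ls - 1] es).1 → v ∈ M.pre (pvtwN 4 (pvmnCells τ 8 8)) := by
    intro v hv
    change M.ap v ∈ pvtwN 4 (pvmnCells τ 8 8)
    rw [hv]
    exact pvtw_N_mono le_rfl (pvmn_C_sub 8 (by simp) (by simp)) (pvgw_lane_last I.ts hs)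
  obtain ⟨e', l', js, L', he', hjs0, hjsl, hjs, -⟩ := pvgw_start M Dr hs.mem (c := ls - 1) (by omega) Ds hD1 hoffs
    (I.conn2 (a := 3) (by omega)) pvli_sub2_p (I.disj (p := 1) (a := 3) (by omega) (by omega))
    (fun v hv => Or.inr (I.A2_sub hv))
    (fun v hv => Or.inl (pvtw_N_mono le_rfl (pvmn_cells_mono (by omega) le_rfl) (hcY v hv))) I.d2
  obtain ⟨n, P⟩ := pvri_period Dr.fin L'.mem
  have hln := (Dr.lane_lt L' P).2
  refine ⟨e', l', js, L', he', hjs0, hjsl, hjs, ?_⟩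
  intro i hi1 hi2
  have hd := pvtr_iter_mem L'.mem i
  have hjs8 : ((pvtrStep (pvliHp M τ Fa))^[js] e').1 ∈ M.pre (pvtwN 4 (pvmnCells τ 8 8)) := hcY _ (congrArg Prod.fst hjs)
  rcases pvli_Hp_dart hd with h | h
  · obtain ⟨k, _, hk8, hk⟩ := pvmn_N_cells.1 h
    rcases Nat.lt_or_ge k.1 7 with h7 | h7
    · have := pvgw_order Dr.fin Dr.free L'.mem P (pvgw_pre_conn M (pvtw_N_conn (pvmn_cells_conn I.ts (a := 0) (b := 6) (by omega) (by omega)))) (I.conn2 (a := 8) (by omega))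
        ((pvgw_pre_mono M (pvtw_N_mono le_rfl (pvmn_cells_mono le_rfl (by omega)))).trans (Set.subset_union_left.trans pvt_hull_sub)) pvli_sub2_p
        (I.disj (p := 6) (a := 8) (by omega) (by omega)) hln (pvgw_pre_mono M (pvtw_N_mono le_rfl (pvmn_cells_mono le_rfl (by omega))) (Dr.in1 _ L'.mem L'.start))
        (Or.inr (I.A2_sub (Dr.in2 _ (pvtr_iter_mem L'.mem l') L'.stop))) hi2 hjsl.le
        (pvmn_N_cells.2 ⟨k, by omega, by omega, hk⟩) (Or.inl hjs8)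
      omega
    · exact Or.inl (pvmn_N_cells.2 ⟨k, h7, hk8, hk⟩)
  · exact Or.inr h

/-- **THE WHITE POLYOMINO OF THE LINK `b`, SKELETON** -/
theorem pvli_white_p (I : PvliInP 𝔑 M τ Fa D₂ A₂) {ln : ((ℤ × ℤ) × (ℤ × ℤ)) × ℕ} (hs : PvmnLaneR τ ln.1 ln.2) :
    ∃ S : Set (ℤ × ℤ), S.Finite ∧ TscConn tscG S ∧ Disjoint S (pvliHp M τ Fa) ∧ (∃ v ∈ S, M.ap v = pvlpA1 τ ln) ∧ (∃ v ∈ S, v ∈ D₂) ∧
      ∀ w ∈ S, ∃ b, triAdj b w ∧ b ∈ M.pre (pvtwN 4 (pvmnCells τ 7 8)) ∪ Fa := by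
  obtain ⟨e', l', j, L', -, hj0, hjl, hj, hloc⟩ := pvli_half_p I hs
  refine ⟨pvgwOut (pvliHp M τ Fa) e' j l', pvgw_out_finite _ _ _ _, pvgw_out_conn L'.mem _ _, pvgw_out_off L'.mem _ _, ⟨_, ⟨j, le_rfl, hjl.le, rfl⟩, congrArg Prod.snd hj⟩,
    ⟨_, ⟨l', hjl.le, le_rfl, rfl⟩, L'.stop⟩, ?_⟩
  rintro w ⟨i, hi1, hi2, rfl⟩
  exact ⟨_, (pvtr_iter_mem L'.mem i).2.2, hloc i hi1 hi2⟩

end exit

/-! ## 3. the entrance half -/

section entrance

variable {𝔑 : PvmnNum} {M : PvgwMap} {τ : PvmnType} {Fa D₁ A₁ : Set (ℤ × ℤ)}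

/-- the tube of the link keeps off the pieces `2..9` -/
theorem PvliInM.Fa_off (I : PvliInM 𝔑 M τ Fa D₁ A₁) {v : ℤ × ℤ} (hv : v ∈ Fa) {i : ℕ} (hi : i ≤ 9) (h : M.ap v ∈ pvtwN i (pvmnCells τ 2 9)) : False := by
  have h1 := I.off v hv (pvtw_N_mono hi (pvmn_cells_mono (by omega) (by omega)) h)
  obtain ⟨k, hk2, _, hk⟩ := pvmn_N_cells.1 h
  have := (pvgw_far I.ts (by omega) (by omega) hk h1).1
  change k.1 ≤ 0 + 1 at this
  omega

theorem PvliInM.F_finite (I : PvliInM 𝔑 M τ Fa D₁ A₁) : (pvliFm M τ Fa).Finite :=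
  I.fin.union (pvgw_pre_finite M (pvtw_N_finite (pvmn_cells_finite τ 1 9)))

theorem PvliInM.conn2 (I : PvliInM 𝔑 M τ Fa D₁ A₁) {b : ℕ} (hb : 1 ≤ b) (hb9 : b < 10) : TscConn tscG (Fa ∪ M.pre (pvtwN 4 (pvmnCells τ 1 b))) := by
  obtain ⟨w, hw, hwt⟩ := I.touch
  exact tsc_conn_union I.conn (pvgw_pre_conn M (pvtw_N_conn (pvmn_cells_conn I.ts hb hb9))) (a := w) (b := w) hw (pvtw_N_mono le_rfl (pvmn_C_sub 1 le_rfl hb) hwt) (Or.inl rfl)

theorem pvli_sub2_m {b : ℕ} (hb9 : b ≤ 9) : Fa ∪ M.pre (pvtwN 4 (pvmnCells τ 1 b)) ⊆ pvliHm M τ Fa := by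
  refine Set.Subset.trans ?_ pvt_hull_sub
  rintro v (h | h)
  · exact Or.inl h
  · exact Or.inr (pvtw_N_mono le_rfl (pvmn_cells_mono le_rfl hb9) h)

theorem PvliInM.disj (I : PvliInM 𝔑 M τ Fa D₁ A₁) {q b : ℕ} (h : b + 2 ≤ q) (hb : 1 ≤ b) : Disjoint (M.pre (pvtwN 4 (pvmnCells τ q 9))) (Fa ∪ M.pre (pvtwN 4 (pvmnCells τ 1 b))) := by
  rw [Set.disjoint_left]
  rintro v hv (h' | h')
  · exact I.Fa_off h' (i := 4) (by omega) (pvtw_N_mono le_rfl (pvmn_cells_mono (by omega) le_rfl) hv)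
  · exact Set.disjoint_left.1 (pvmn_far_cells I.ts h) (pvtw_N_mono (by omega) le_rfl h') (pvtw_N_mono (by omega) le_rfl hv)

/-- the inner cell of a dart of the tube belongs to the unfilled tube -/
theorem pvli_Hm_dart {x : (ℤ × ℤ) × (ℤ × ℤ)} (hx : x ∈ pvtrBd (pvliHm M τ Fa)) : x.1 ∈ pvliFm M τ Fa :=
  pvt_hull_bd hx.1 (not_not.1 hx.2.1) hx.2.2

/-- **THE ENTRANCE HALF TUBE WITH ITS TWO DOORS** -/
theorem PvliInM.doors (I : PvliInM 𝔑 M τ Fa D₁ A₁) : PvriDoors (pvliHm M τ Fa) D₁ (M.pre (pvmnDrp τ)) A₁ (M.pre (pvtwN 4 (pvmnCells τ 8 9))) where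
  fin := pvt_hull_finite I.F_finite
  conn := pvt_hull_conn (I.conn2 (by omega) (by omega))
  free := pvt_hull_free
  sub1 := fun v hv => pvt_hull_sub (Or.inl (I.A1_sub hv))
  sub2 := fun v hv => pvt_hull_sub (Or.inr (pvtw_N_mono le_rfl (pvmn_cells_mono (by omega) le_rfl) hv))
  conn1 := I.A1_conn
  conn2 := pvgw_pre_conn M (pvtw_N_conn (pvmn_cells_conn I.ts (by omega) (by omega)))
  disj := Set.disjoint_left.2 fun v h1 h2 => I.Fa_off (I.A1_sub h1) (i := 4) (by omega) (pvtw_N_mono le_rfl (pvmn_cells_mono (by omega) le_rfl) h2)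
  in1 := I.in1
  in2 := by
    intro x hx h
    have h9 : M.ap x.1 ∈ pvtwN 9 (τ.C 9 : Set (ℤ × ℤ)) := pvgw_N_adj' h (pvgw_adj M hx.2.2)
    have h9' : M.ap x.1 ∈ pvtwN 9 (pvmnCells τ 2 9) := pvtw_N_mono le_rfl (pvmn_C_sub 9 (by simp) (by simp)) h9
    rcases pvli_Hm_dart hx with h' | h'
    · exact (I.Fa_off h' le_rfl h9').elim
    · obtain ⟨k, _, hk9, hk⟩ := pvmn_N_cells.1 h'
      have := (pvgw_far I.ts (by omega) (by omega) hk h9).2
      change 9 ≤ k.1 + 1 at this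
      exact pvmn_N_cells.2 ⟨k, by omega, hk9, hk⟩

/-- **the lane of the type, without its first dart, is decided** -/
theorem PvliInM.dec (I : PvliInM 𝔑 M τ Fa D₁ A₁) {e : (ℤ × ℤ) × (ℤ × ℤ)} {l : ℕ} (ht : PvmnLaneR τ e l) :
    PvgwDec M (pvliHm M τ Fa) (pvmnK3 τ) ((pvtrStep (pvmnK3 τ))^[1] e) (l - 1) := by
  obtain ⟨x, hx, hx2, v, hv, hvx⟩ := I.wit
  obtain ⟨a, ha, hoff⟩ := pvgw_after (pvri_K3_doors I.ts) ht hx hx2
  have hl := pvgw_lane_two I.ts ht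
  have hdis : Disjoint (M.pre (pvgwOut (pvmnK3 τ) e 1 (l + a))) (pvliFm M τ Fa) := by
    rw [Set.disjoint_left]
    rintro u ⟨m, hm1, hm, hu⟩ hF
    have hd := pvtr_iter_mem ht.mem m
    have h5 := pvgw_dart_p hd (hoff m (by omega) hm)
    rw [← hu] at h5
    rcases hF with h | h
    · exact hoff m (by omega) hm (hu ▸ pvtw_N_mono (by omega) le_rfl (I.off u h (pvtw_N_mono (by omega) le_rfl h5.2)))
    · exact hd.2.1 (hu ▸ pvgw_Pt_K3 h)
  have hout := pvgw_dec_out M (pvgw_out_conn ht.mem 1 (l + a)) hdis hv ⟨l + a, by omega, le_rfl, by rw [hvx, ha]⟩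
  intro m hm
  rw [← Function.iterate_add_apply]
  have hd := pvtr_iter_mem ht.mem (m + 1)
  constructor
  · intro u hu
    refine pvt_hull_sub (Or.inr ?_)
    change M.ap u ∈ pvtwN 4 (pvmnCells τ 1 9)
    rw [hu]
    exact (pvgw_dart_p hd (hoff (m + 1) (by omega) (by omega))).1
  · intro u hu hA
    exact hA (hout ⟨m + 1, by omega, by omega, hu⟩)

/-- **HALF GLUE, ENTRANCE SIDE**: THE lane of the half tube from `D₁` to `Dr⁺` passes over the dart of `pvlpA0`; up to that dart its inner cells lie in `Fa ∪ M⁻¹ N⁴ (cells 1..2)` -/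
theorem pvli_half_m (I : PvliInM 𝔑 M τ Fa D₁ A₁) {ln : ((ℤ × ℤ) × (ℤ × ℤ)) × ℕ} (ht : PvmnLaneR τ ln.1 ln.2) :
    ∃ e' l' j, PvtrLane (pvliHm M τ Fa) D₁ (M.pre (pvmnDrp τ)) e' l' ∧ 0 < j ∧ j < l' ∧ M.dart ((pvtrStep (pvliHm M τ Fa))^[j] e') = (pvtrStep (pvmnK3 τ))^[1] ln.1 ∧
      ∀ i ≤ j, ((pvtrStep (pvliHm M τ Fa))^[i] e').1 ∈ Fa ∪ M.pre (pvtwN 4 (pvmnCells τ 1 2)) := by
  obtain ⟨et, lt⟩ := ln
  change PvmnLaneR τ et lt at ht
  have hlt := pvgw_lane_two I.ts ht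
  have Dr := I.doors
  have Dt := I.dec ht
  have het1 : (pvtrStep (pvmnK3 τ))^[1] et ∈ pvtrBd (pvmnK3 τ) := pvtr_iter_mem ht.mem 1
  have hd2 : ∃ d ∈ pvtrBd (pvliHm M τ Fa), d.2 ∈ M.pre (pvmnDrp τ) := by
    obtain ⟨d, hd, hdd⟩ := pvgw_over M het1 Dt (m := lt - 1) le_rfl
    refine ⟨d, hd, ?_⟩
    have h1 : M.ap d.2 = ((pvtrStep (pvmnK3 τ))^[lt] et).2 := by
      have := congrArg Prod.snd hdd
      rw [← Function.iterate_add_apply, Nat.sub_add_cancel (by omega)] at this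
      exact this
    change M.ap d.2 ∈ pvmnDrp τ
    rw [h1]
    exact ht.stop
  obtain ⟨e', l', L'⟩ := pvtr_lane_exists Dr.fin Dr.conn (pvtw_free_compl_conn Dr.fin Dr.free) I.d1 hd2
  have hD2 : ∀ v, M.ap v = ((pvtrStep (pvmnK3 τ))^[lt - 1] ((pvtrStep (pvmnK3 τ))^[1] et)).2 → v ∈ M.pre (pvmnDrp τ) := by
    intro v hv
    change M.ap v ∈ pvmnDrp τ
    rw [hv, ← Function.iterate_add_apply, Nat.sub_add_cancel (by omega)]
    exact ht.stop
  have hofft : ∀ m < lt - 1, ∀ v, M.ap v = ((pvtrStep (pvmnK3 τ))^[m] ((pvtrStep (pvmnK3 τ))^[1] et)).2 → v ∉ D₁ ∪ M.pre (pvmnDrp τ) := by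
    intro m hm v hv
    rw [← Function.iterate_add_apply] at hv
    have hoff := ht.off (m + 1) (by omega) (by omega)
    rintro (h | h)
    · have h5 := (pvgw_dart_p (pvtr_iter_mem ht.mem (m + 1)) (fun h' => hoff (Or.inl h'))).2
      rw [← hv] at h5
      exact Set.disjoint_left.1 I.D1_off h h5
    · have h' : M.ap v ∈ pvmnDrp τ := h
      rw [hv] at h'
      exact hoff (Or.inr h')
  have hxY : ∀ v, M.ap v = ((pvtrStep (pvmnK3 τ))^[1] et).1 → v ∈ M.pre (pvtwN 4 (pvmnCells τ 1 1)) := by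
    intro v hv
    change M.ap v ∈ pvtwN 4 (pvmnCells τ 1 1)
    rw [hv]
    exact pvtw_N_mono le_rfl (pvmn_C_sub 1 (by simp) (by simp)) (pvgw_lane_first I.ts ht)
  obtain ⟨z', hz', hzz⟩ := pvgw_over M het1 Dt (m := 0) (Nat.zero_le _)
  rw [Function.iterate_zero, id] at hzz
  obtain ⟨jt, hjt0, hjtl, hjt⟩ := pvgw_end M Dr L' het1 Dt hD2 hofft (by omega)
    (I.conn2 (b := 6) (by omega) (by omega)) (pvli_sub2_m (by omega)) (I.disj (q := 8) (b := 6) (by omega) (by omega))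
    (fun v hv => Or.inl (I.A1_sub hv))
    (fun v hv => Or.inr (pvtw_N_mono le_rfl (pvmn_cells_mono le_rfl (by omega)) (hxY v hv))) hz' hzz
  obtain ⟨n, P⟩ := pvri_period Dr.fin L'.mem
  have hln := (Dr.lane_lt L' P).2
  refine ⟨e', l', jt, L', hjt0, hjtl, by rw [hjt]; exact hzz, ?_⟩
  intro i hi
  have hd := pvtr_iter_mem L'.mem i
  have hjt1 : ((pvtrStep (pvliHm M τ Fa))^[jt] e').1 ∈ M.pre (pvtwN 4 (pvmnCells τ 1 1)) := by
    rw [hjt]
    exact hxY _ (congrArg Prod.fst hzz)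
  rcases pvli_Hm_dart hd with h | h
  · exact Or.inl h
  · obtain ⟨k, hk1, hk9, hk⟩ := pvmn_N_cells.1 h
    rcases Nat.lt_or_ge k.1 3 with h3 | h3
    · exact Or.inr (pvmn_N_cells.2 ⟨k, hk1, by omega, hk⟩)
    · have := pvgw_order Dr.fin Dr.free L'.mem P (I.conn2 (b := 1) (by omega) (by omega)) (pvgw_pre_conn M (pvtw_N_conn (pvmn_cells_conn I.ts (a := 3) (b := 9) (by omega) (by omega))))
        (pvli_sub2_m (by omega)) ((pvgw_pre_mono M (pvtw_N_mono le_rfl (pvmn_cells_mono (by omega) le_rfl))).trans (Set.subset_union_right.trans pvt_hull_sub))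
        (I.disj (q := 3) (b := 1) (by omega) (by omega)).symm hln (Or.inl (I.A1_sub (Dr.in1 _ L'.mem L'.start)))
        (pvgw_pre_mono M (pvtw_N_mono le_rfl (pvmn_cells_mono (by omega) le_rfl)) (Dr.in2 _ (pvtr_iter_mem L'.mem l') L'.stop)) hjtl.le (by omega : i ≤ l')
        (Or.inr hjt1) (pvmn_N_cells.2 ⟨k, h3, hk9, hk⟩)
      omega

/-- **THE WHITE POLYOMINO OF THE LINK `e`, SKELETON** -/
theorem pvli_white_m (I : PvliInM 𝔑 M τ Fa D₁ A₁) {ln : ((ℤ × ℤ) × (ℤ × ℤ)) × ℕ} (ht : PvmnLaneR τ ln.1 ln.2) :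
    ∃ S : Set (ℤ × ℤ), S.Finite ∧ TscConn tscG S ∧ Disjoint S (pvliHm M τ Fa) ∧ (∃ v ∈ S, M.ap v = pvlpA0 τ ln) ∧ (∃ v ∈ S, v ∈ D₁) ∧
      ∀ w ∈ S, ∃ b, triAdj b w ∧ b ∈ Fa ∪ M.pre (pvtwN 4 (pvmnCells τ 1 2)) := by
  obtain ⟨e', l', j, L', hj0, hjl, hj, hloc⟩ := pvli_half_m I ht
  refine ⟨pvgwOut (pvliHm M τ Fa) e' 0 j, pvgw_out_finite _ _ _ _, pvgw_out_conn L'.mem _ _, pvgw_out_off L'.mem _ _, ⟨_, ⟨j, Nat.zero_le _, le_rfl, rfl⟩, congrArg Prod.snd hj⟩,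
    ⟨_, ⟨0, le_rfl, Nat.zero_le _, rfl⟩, L'.start⟩, ?_⟩
  rintro w ⟨i, hi1, hi2, rfl⟩
  exact ⟨_, (pvtr_iter_mem L'.mem i).2.2, hloc i hi2⟩

end entrance

/-! ## 4. STOP: the lane does not visit the tube beyond its doors -/

section stop

variable {H D₁ D₂ A₁ A₂ X Z : Set (ℤ × ℤ)} {e y : (ℤ × ℤ) × (ℤ × ℤ)} {l k : ℕ}

/-- **STOP, FORWARD**: `X ⊇` the two cores, `Z` connected, disjoint; the contour visits `Z` AFTER the end of the lane, before it comes back to the first door: the lane does not visit `Z` -/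
theorem pvli_stop_fwd (S : PvriDoors H D₁ D₂ A₁ A₂) (L : PvtrLane H D₁ D₂ e l) (hX : TscConn tscG X) (hZ : TscConn tscG Z) (hXH : X ⊆ H) (hZH : Z ⊆ H) (hd : Disjoint X Z)
    (h1 : A₁ ⊆ X) (h2 : A₂ ⊆ X) (hk : ((pvtrStep H)^[l + k] e).1 ∈ Z) (hoff : ∀ m ≤ k, ((pvtrStep H)^[l + m] e).2 ∉ D₁) : ∀ i ≤ l, ((pvtrStep H)^[i] e).1 ∉ Z := by
  intro i hi hiZ
  obtain ⟨n, P⟩ := pvri_period S.fin L.mem
  obtain ⟨l0, ln⟩ := S.lane_lt L P
  have hdd := Set.disjoint_left.1 hd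
  have x0 : e.1 ∈ X := h1 (S.in1 _ L.mem L.start)
  have xl : ((pvtrStep H)^[l] e).1 ∈ X := h2 (S.in2 _ (pvtr_iter_mem L.mem l) L.stop)
  have hkn : l + k < n := by
    by_contra hc
    have := hoff (n - l) (by omega)
    rw [Nat.add_sub_cancel' ln.le, P.per] at this
    exact this L.start
  have i0 : i ≠ 0 := by
    rintro rfl
    exact hdd x0 hiZ
  have il : i ≠ l := by
    rintro rfl
    exact hdd xl hiZ
  have k0 : k ≠ 0 := by
    rintro rfl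
    exact hdd xl hk
  obtain ⟨a, ha1, ha2⟩ := pvri_interlace S.fin S.free L.mem hX hZ hXH hZH (j := i) (k := l) (i := l + k) (n := n) (by omega) (by omega) (by omega) hkn P.inj x0 xl hiZ hk
  exact hdd ha1 ha2

/-- **STOP, BACKWARD**: the contour visits `Z` BEFORE the start of the lane, after it has left the second door: the lane does not visit `Z` -/
theorem pvli_stop_bwd (S : PvriDoors H D₁ D₂ A₁ A₂) (L : PvtrLane H D₁ D₂ e l) (hX : TscConn tscG X) (hZ : TscConn tscG Z) (hXH : X ⊆ H) (hZH : Z ⊆ H) (hd : Disjoint X Z)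
    (h1 : A₁ ⊆ X) (h2 : A₂ ⊆ X) (hy : y ∈ pvtrBd H) (hyZ : y.1 ∈ Z) (hye : (pvtrStep H)^[k] y = e) (hoff : ∀ m ≤ k, ((pvtrStep H)^[m] y).2 ∉ D₂) : ∀ i ≤ l, ((pvtrStep H)^[i] e).1 ∉ Z := by
  intro i hi hiZ
  obtain ⟨n, P⟩ := pvri_period S.fin hy
  have P' : PvriPer H e n := hye ▸ P.shift hy k
  obtain ⟨l0, ln⟩ := S.lane_lt L P'
  have hdd := Set.disjoint_left.1 hd
  have x0 : e.1 ∈ X := h1 (S.in1 _ L.mem L.start)
  have xl : ((pvtrStep H)^[l] e).1 ∈ X := h2 (S.in2 _ (pvtr_iter_mem L.mem l) L.stop)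
  have sh : ∀ m, (pvtrStep H)^[k + m] y = (pvtrStep H)^[m] e := by
    intro m
    rw [Nat.add_comm, Function.iterate_add_apply, hye]
  have i0 : i ≠ 0 := by
    rintro rfl
    exact hdd x0 hiZ
  have il : i ≠ l := by
    rintro rfl
    exact hdd xl hiZ
  have k0 : k ≠ 0 := by
    rintro rfl
    have hye' : y = e := hye
    exact hdd (hye' ▸ x0) hyZ
  have hkn : k + l < n := by
    by_contra hc
    -- the orbit of `y` comes back to `y` on the lane, so it meets the end of the lane within `k` steps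
    rcases Nat.lt_or_ge k n with hkn | hkn
    · have h3 := hoff (k + l - n) (by omega)
      have e1 : (pvtrStep H)^[k + l - n] y = (pvtrStep H)^[l] e := by
        rw [← sh l, ← P.add (k + l - n), Nat.sub_add_cancel (by omega)]
      rw [e1] at h3
      exact h3 L.stop
    · -- `k ≥ n` : the whole contour is covered by the first `k` steps
      obtain ⟨p, hp, hpe⟩ := P.position S.fin S.conn S.free hy (pvtr_iter_mem L.mem l)
      have h3 := hoff p (by omega)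
      rw [hpe] at h3
      exact h3 L.stop
  obtain ⟨a, ha1, ha2⟩ := pvri_interlace S.fin S.free hy hZ hX hZH hXH (j := k) (k := k + i) (i := k + l) (n := n) (by omega) (by omega) (by omega) hkn P.inj hyZ
    (by rw [sh]; exact hiZ) (by rw [hye]; exact x0) (by rw [sh]; exact xl)
  exact hdd ha2 ha1

end stop

/-! ## 5. BAR: the contour along a straight collar -/

/-- the direction on the right of the direction `a` -/
def pvliRt (a : ℤ × ℤ) : ℤ × ℤ := (a.2, -a.1)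

/-- the dart across the right collar at the cell `u` of the boundary row -/
def pvliDt (u a : ℤ × ℤ) : (ℤ × ℤ) × (ℤ × ℤ) := (u, u + pvliRt a)

theorem pvli_bar_eqns_cite : True := by
  have := @pvliRt.eq_1; have := @pvliDt.eq_1
  trivial

section bar

variable {H : Set (ℤ × ℤ)} {u a : ℤ × ℤ}

/-- **TWO STEPS = ONE CELL**, in the direction `a`, on the RIGHT collar -/
theorem pvli_bar_step (ha : a = (1, 0) ∨ a = (-1, 0) ∨ a = (0, 1) ∨ a = (0, -1)) (h1 : u + a ∈ H) (h2 : u + a + pvliRt a ∉ H) :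
    (pvtrStep H)^[2] (pvliDt u a) = pvliDt (u + a) a ∧ ((pvtrStep H (pvliDt u a) = (u, u + a + pvliRt a)) ∨ (pvtrStep H (pvliDt u a) = (u + a, u + pvliRt a))) := by
  obtain ⟨x, y⟩ := u
  rcases ha with rfl | rfl | rfl | rfl
  · have a1 : pvtrApex (pvliDt (x, y) (1, 0)) = (x, y) + (1, 0) + pvliRt (1, 0) := by
      simp only [pvtrApex, pvliDt, pvliRt, pvtrRot, Prod.mk_add_mk, Prod.mk_sub_mk, Prod.mk.injEq]
      constructor <;> ring
    have s1 : pvtrStep H (pvliDt (x, y) (1, 0)) = ((x, y), (x, y) + (1, 0) + pvliRt (1, 0)) := by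
      rw [pvtr_step_out (by rw [a1]; exact h2), a1]
      rfl
    have a2 : pvtrApex ((x, y), (x, y) + (1, 0) + pvliRt (1, 0)) = (x, y) + (1, 0) := by
      simp only [pvtrApex, pvliRt, pvtrRot, Prod.mk_add_mk, Prod.mk_sub_mk, Prod.mk.injEq]
      constructor <;> ring
    refine ⟨?_, Or.inl s1⟩
    rw [Function.iterate_succ_apply, Function.iterate_one, s1, pvtr_step_in (by rw [a2]; exact h1), a2]
    rfl
  · have a1 : pvtrApex (pvliDt (x, y) (-1, 0)) = (x, y) + (-1, 0) + pvliRt (-1, 0) := by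
      simp only [pvtrApex, pvliDt, pvliRt, pvtrRot, Prod.mk_add_mk, Prod.mk_sub_mk, Prod.mk.injEq]
      constructor <;> ring
    have s1 : pvtrStep H (pvliDt (x, y) (-1, 0)) = ((x, y), (x, y) + (-1, 0) + pvliRt (-1, 0)) := by
      rw [pvtr_step_out (by rw [a1]; exact h2), a1]
      rfl
    have a2 : pvtrApex ((x, y), (x, y) + (-1, 0) + pvliRt (-1, 0)) = (x, y) + (-1, 0) := by
      simp only [pvtrApex, pvliRt, pvtrRot, Prod.mk_add_mk, Prod.mk_sub_mk, Prod.mk.injEq]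
      constructor <;> ring
    refine ⟨?_, Or.inl s1⟩
    rw [Function.iterate_succ_apply, Function.iterate_one, s1, pvtr_step_in (by rw [a2]; exact h1), a2]
    rfl
  · have a1 : pvtrApex (pvliDt (x, y) (0, 1)) = (x, y) + (0, 1) := by
      simp only [pvtrApex, pvliDt, pvliRt, pvtrRot, Prod.mk_add_mk, Prod.mk_sub_mk, Prod.mk.injEq]
      constructor <;> ring
    have s1 : pvtrStep H (pvliDt (x, y) (0, 1)) = ((x, y) + (0, 1), (x, y) + pvliRt (0, 1)) := by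
      rw [pvtr_step_in (by rw [a1]; exact h1), a1]
      rfl
    have a2 : pvtrApex ((x, y) + (0, 1), (x, y) + pvliRt (0, 1)) = (x, y) + (0, 1) + pvliRt (0, 1) := by
      simp only [pvtrApex, pvliRt, pvtrRot, Prod.mk_add_mk, Prod.mk_sub_mk, Prod.mk.injEq]
      constructor <;> ring
    refine ⟨?_, Or.inr s1⟩
    rw [Function.iterate_succ_apply, Function.iterate_one, s1, pvtr_step_out (by rw [a2]; exact h2), a2]
    rfl
  · have a1 : pvtrApex (pvliDt (x, y) (0, -1)) = (x, y) + (0, -1) := by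
      simp only [pvtrApex, pvliDt, pvliRt, pvtrRot, Prod.mk_add_mk, Prod.mk_sub_mk, Prod.mk.injEq]
      constructor <;> ring
    have s1 : pvtrStep H (pvliDt (x, y) (0, -1)) = ((x, y) + (0, -1), (x, y) + pvliRt (0, -1)) := by
      rw [pvtr_step_in (by rw [a1]; exact h1), a1]
      rfl
    have a2 : pvtrApex ((x, y) + (0, -1), (x, y) + pvliRt (0, -1)) = (x, y) + (0, -1) + pvliRt (0, -1) := by
      simp only [pvtrApex, pvliRt, pvtrRot, Prod.mk_add_mk, Prod.mk_sub_mk, Prod.mk.injEq]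
      constructor <;> ring
    refine ⟨?_, Or.inr s1⟩
    rw [Function.iterate_succ_apply, Function.iterate_one, s1, pvtr_step_out (by rw [a2]; exact h2), a2]
    rfl

end bar

end Claimed.Agent.R289
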