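-- KEEP
import Claimed.Agent.R289.Tr.AccOut
import Claimed.Agent.R289.Tr.LinkHalf
import Claimed.Agent.R289.Tr.LaneP

/-!
# R289 Tr/FunC (pen 8, seconds 222 241; prefix `pvmhf_`, `pvmhf`, `Pvmhf`): THE CELL LEVEL OF THE FUNNEL `o : t → first door`      [sub-roof `exit_pveq_fun` of 36; plane level = 135 `Exit/FunP.lean`; the funnel `i` = 241 `Tr/FunCI.lean`]

`M : PvgwMap` = link cell ↦ menu cell.      FRAME `(D, a)`: `D` = the door VERTEX (link lattice), `a = dp` = direction of travel; `pvmhfX D a k`, `pvmhfY D a k` = frame coordinates of the CELL `k` (`Y` grows to the LEFT of `a`); `pvmhfBx D a x0 x1 y0 y1` = frame box.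
`PvmhfFr M y a D κ g lt` : `M.ap k = pvmhfCl y a ⌊(X k + g + κ)/κ⌋ ⌊(Y k + lt)/κ⌋`, `pvmhfCl y a i j = y + i a + j Lf a`:   the menu cell `y` is `{-g-κ ≤ X < -g, -lt ≤ Y < κ-lt}`, the door vertex lies `g` cells beyond its face.
`PvmhfTy` : the type facts (`pvmhf_ty`: at the door of record `pvfjmDp τ`): `y ∈ N¹ C₉`, `y + a ∈ E⁺`, `c8 = cell (-8, b) ∈ C₈`, `|b| ≤ 8`.
ROUTE (`e = pvmhfCp b` = `b` clamped to `[-6,6]`): black core `XB = M⁻¹(N³ C₇ ∪ N² C₈) ∪ column {xc} × [ylo, yhi] ∪ bar [xc, -xe] × [b0, b1]`; `xc` = centre of the cells `i = -6`; the column starts at the centre of the cell `(-6, e) ∈ N² {c8}`;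
every route cell is within `6` of `y` (so over `N⁷ C₉ ⊆ Dr⁺`: no lane cell next to it) and inside `N⁸ {c8}` (so over the body, not over `E⁺ ∪ ρ⁺`).
TUBE `Fa` = 6-collar of the column and of the bar up to `X = -g-40`;  second door `D₂` = ONE cell `(-g-80, b0-7)` under the tube, `A₂ = Fa ∩ {X ≤ -g-79}`, `Z = Fa ∩ {X ≥ -g-78}`.
ENGINE (15 `Tr/LinkHalf.lean`): `PvliInP`, `pvli_half_p`, `pvli_stop_fwd`  ⟹  `S` (`PvmhfS`).      White core `XW = S ∪ M⁻¹(N¹ {A1}) ∪ bar [-g-82, -xe] × [w0, b0-7]`.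
`B = N¹ XB`, `W = N¹ XW`, `Bk = N² XB ∪ N^{c2} M⁻¹(N² cells 5..8)`, `Wh = N² XW ∪ N^{c1} M⁻¹(R)`.      **OUTPUT = `PvmhfOk`**.
ENGINE PROVED: `pvmhf_in` (`PvliInP`), `pvmhf_bar_walk`, `pvmhf_S`.      LISTS PROVED: `pvmhf_sep`, `pvmhf_winBk`, `pvmhf_winWh`, `pvmhf_off`, `pvmhf_body`.      THE TWELVE EASY FIELDS, THE RECORD `pvmhf_ok`, THE FUNCTIONS `pvmhfBf ..` AND `pvmhf_o` : `Tr/FunCL.lean` (114, 8).      0 sorry.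
-/

set_option autoImplicit false
set_option linter.unusedSectionVars false
set_option linter.unusedVariables false
set_option linter.unusedSimpArgs false

namespace Claimed.Agent.R289

open Relation Set Claims.C0467 Claimed.Agent.R291

/-! ## 1. the frame `(D, a)` -/

/-- first frame coordinate of the CELL `k` (the unit square `[k, k + 1]`): along the direction `a`, from the VERTEX `D` -/
def pvmhfX (D a k : ℤ × ℤ) : ℤ := (k.1 - D.1) * a.1 + (k.2 - D.2) * a.2 + (a.1 + a.2 - 1) / 2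

/-- second frame coordinate: to the LEFT of `a` -/
def pvmhfY (D a k : ℤ × ℤ) : ℤ := (k.2 - D.2) * a.1 - (k.1 - D.1) * a.2 + (a.1 - a.2 - 1) / 2

/-- the cell of frame coordinates `(x, y)` -/
def pvmhfPt (D a : ℤ × ℤ) (x y : ℤ) : ℤ × ℤ :=
  (D.1 + (x - (a.1 + a.2 - 1) / 2) * a.1 - (y - (a.1 - a.2 - 1) / 2) * a.2, D.2 + (x - (a.1 + a.2 - 1) / 2) * a.2 + (y - (a.1 - a.2 - 1) / 2) * a.1)

/-- the frame box -/
def pvmhfBx (D a : ℤ × ℤ) (x0 x1 y0 y1 : ℤ) : Set (ℤ × ℤ) := {k | x0 ≤ pvmhfX D a k ∧ pvmhfX D a k ≤ x1 ∧ y0 ≤ pvmhfY D a k ∧ pvmhfY D a k ≤ y1}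

/-- the MENU cell of indices `(i, j)` in the frame of the menu cell `y` -/
def pvmhfCl (y a : ℤ × ℤ) (i j : ℤ) : ℤ × ℤ := (y.1 + i * a.1 - j * a.2, y.2 + i * a.2 + j * a.1)

theorem pvmhf_eqns_cite2 : True := by
  have := @pvmhfX.eq_1; have := @pvmhfY.eq_1; have := @pvmhfPt.eq_1; have := @pvmhfBx.eq_1; have := @pvmhfCl.eq_1
  trivial

section frame

variable {D a u v k : ℤ × ℤ} {x y x0 x1 y0 y1 : ℤ} {n : ℕ}

theorem pvmhf_X_pt (ha : PvmaDir a) (D : ℤ × ℤ) (x y : ℤ) : pvmhfX D a (pvmhfPt D a x y) = x := by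
  rcases ha with rfl | rfl | rfl | rfl <;> simp only [pvmhfX, pvmhfPt] <;> omega

theorem pvmhf_Y_pt (ha : PvmaDir a) (D : ℤ × ℤ) (x y : ℤ) : pvmhfY D a (pvmhfPt D a x y) = y := by
  rcases ha with rfl | rfl | rfl | rfl <;> simp only [pvmhfY, pvmhfPt] <;> omega

theorem pvmhf_pt_XY (ha : PvmaDir a) (D k : ℤ × ℤ) : pvmhfPt D a (pvmhfX D a k) (pvmhfY D a k) = k := by
  rcases ha with rfl | rfl | rfl | rfl <;> refine Prod.ext ?_ ?_ <;> simp only [pvmhfX, pvmhfY, pvmhfPt] <;> omega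

theorem pvmhf_ext (ha : PvmaDir a) (h1 : pvmhfX D a u = pvmhfX D a v) (h2 : pvmhfY D a u = pvmhfY D a v) : u = v := by
  rw [← pvmhf_pt_XY ha D u, ← pvmhf_pt_XY ha D v, h1, h2]

theorem pvmhf_eq_pt (ha : PvmaDir a) (h1 : pvmhfX D a u = x) (h2 : pvmhfY D a u = y) : u = pvmhfPt D a x y := by
  rw [← pvmhf_pt_XY ha D u, h1, h2]

/-- sup distance in the frame -/
theorem pvmhf_N_iff (ha : PvmaDir a) (D : ℤ × ℤ) : v ∈ pvtwN n {u} ↔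
    pvmhfX D a v ≤ pvmhfX D a u + n ∧ pvmhfX D a u ≤ pvmhfX D a v + n ∧ pvmhfY D a v ≤ pvmhfY D a u + n ∧ pvmhfY D a u ≤ pvmhfY D a v + n := by
  constructor
  · rintro ⟨z, rfl, h1, h2, h3, h4⟩
    rcases ha with rfl | rfl | rfl | rfl <;> simp only [pvmhfX, pvmhfY] <;> omega
  · intro h
    refine ⟨u, rfl, ?_⟩
    rcases ha with rfl | rfl | rfl | rfl <;> simp only [pvmhfX, pvmhfY] at h <;> omega

theorem pvmhf_adj (ha : PvmaDir a) (D : ℤ × ℤ) (h : triAdj u v) :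
    pvmhfX D a v ≤ pvmhfX D a u + 1 ∧ pvmhfX D a u ≤ pvmhfX D a v + 1 ∧ pvmhfY D a v ≤ pvmhfY D a u + 1 ∧ pvmhfY D a u ≤ pvmhfY D a v + 1 := by
  rw [tsc_adj_iff] at h
  rcases ha with rfl | rfl | rfl | rfl <;> simp only [pvmhfX, pvmhfY] <;> omega

theorem pvmhf_X_add (ha : PvmaDir a) (D u : ℤ × ℤ) : pvmhfX D a (u + a) = pvmhfX D a u + 1 ∧ pvmhfY D a (u + a) = pvmhfY D a u := by
  rcases ha with rfl | rfl | rfl | rfl <;> simp only [pvmhfX, pvmhfY, Prod.fst_add, Prod.snd_add] <;> omega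

theorem pvmhf_X_rt (ha : PvmaDir a) (D u : ℤ × ℤ) : pvmhfX D a (u + pvliRt a) = pvmhfX D a u ∧ pvmhfY D a (u + pvliRt a) = pvmhfY D a u - 1 := by
  rcases ha with rfl | rfl | rfl | rfl <;> simp only [pvmhfX, pvmhfY, pvliRt, Prod.fst_add, Prod.snd_add] <;> omega

theorem pvmhf_mem_bx : k ∈ pvmhfBx D a x0 x1 y0 y1 ↔ x0 ≤ pvmhfX D a k ∧ pvmhfX D a k ≤ x1 ∧ y0 ≤ pvmhfY D a k ∧ pvmhfY D a k ≤ y1 := Iff.rfl

theorem pvmhf_pt_mem (ha : PvmaDir a) (h1 : x0 ≤ x) (h2 : x ≤ x1) (h3 : y0 ≤ y) (h4 : y ≤ y1) : pvmhfPt D a x y ∈ pvmhfBx D a x0 x1 y0 y1 := by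
  rw [pvmhf_mem_bx, pvmhf_X_pt ha, pvmhf_Y_pt ha]
  exact ⟨h1, h2, h3, h4⟩

theorem pvmhf_bx_mono {x0' x1' y0' y1' : ℤ} (h1 : x0' ≤ x0) (h2 : x1 ≤ x1') (h3 : y0' ≤ y0) (h4 : y1 ≤ y1') : pvmhfBx D a x0 x1 y0 y1 ⊆ pvmhfBx D a x0' x1' y0' y1' := by
  rintro k ⟨k1, k2, k3, k4⟩
  exact ⟨by omega, by omega, by omega, by omega⟩

/-- a frame box is a box -/
theorem pvmhf_bx_box (ha : PvmaDir a) (D : ℤ × ℤ) (x0 x1 y0 y1 : ℤ) : ∃ p q r s : ℤ, pvmhfBx D a x0 x1 y0 y1 = tscBox p q r s := by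
  rcases ha with rfl | rfl | rfl | rfl
  · refine ⟨x0 + D.1, x1 + D.1, y0 + D.2, y1 + D.2, ?_⟩
    ext k
    simp only [pvmhfBx, pvmhfX, pvmhfY, tscBox, Set.mem_ofPred_eq]
    omega
  · refine ⟨D.1 - x1 - 1, D.1 - x0 - 1, D.2 - y1 - 1, D.2 - y0 - 1, ?_⟩
    ext k
    simp only [pvmhfBx, pvmhfX, pvmhfY, tscBox, Set.mem_ofPred_eq]
    omega
  · refine ⟨D.1 - y1 - 1, D.1 - y0 - 1, x0 + D.2, x1 + D.2, ?_⟩
    ext k
    simp only [pvmhfBx, pvmhfX, pvmhfY, tscBox, Set.mem_ofPred_eq]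
    omega
  · refine ⟨y0 + D.1, y1 + D.1, D.2 - x1 - 1, D.2 - x0 - 1, ?_⟩
    ext k
    simp only [pvmhfBx, pvmhfX, pvmhfY, tscBox, Set.mem_ofPred_eq]
    omega

theorem pvmhf_bx_conn (ha : PvmaDir a) (D : ℤ × ℤ) (x0 x1 y0 y1 : ℤ) : TscConn tscG (pvmhfBx D a x0 x1 y0 y1) := by
  obtain ⟨p, q, r, s, h⟩ := pvmhf_bx_box ha D x0 x1 y0 y1
  rw [h]
  exact tsc_box_conn p q r s

theorem pvmhf_bx_finite (ha : PvmaDir a) (D : ℤ × ℤ) (x0 x1 y0 y1 : ℤ) : (pvmhfBx D a x0 x1 y0 y1).Finite := by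
  obtain ⟨p, q, r, s, h⟩ := pvmhf_bx_box ha D x0 x1 y0 y1
  rw [h]
  exact tsc_box_finite p q r s

/-- the neighbourhood of a frame box -/
theorem pvmhf_N_bx_sub (ha : PvmaDir a) : pvtwN n (pvmhfBx D a x0 x1 y0 y1) ⊆ pvmhfBx D a (x0 - n) (x1 + n) (y0 - n) (y1 + n) := by
  intro w hw
  obtain ⟨z, ⟨z1, z2, z3, z4⟩, hz⟩ := pvtw_N_iff.1 hw
  obtain ⟨h1, h2, h3, h4⟩ := (pvmhf_N_iff ha D).1 hz
  exact ⟨by omega, by omega, by omega, by omega⟩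

theorem pvmhf_bx_sub_N (ha : PvmaDir a) (hx : x0 ≤ x1) (hy : y0 ≤ y1) : pvmhfBx D a (x0 - n) (x1 + n) (y0 - n) (y1 + n) ⊆ pvtwN n (pvmhfBx D a x0 x1 y0 y1) := by
  rintro w ⟨w1, w2, w3, w4⟩
  refine pvtw_N_iff.2 ⟨pvmhfPt D a (max x0 (min x1 (pvmhfX D a w))) (max y0 (min y1 (pvmhfY D a w))), pvmhf_pt_mem ha (by omega) (by omega) (by omega) (by omega), ?_⟩
  rw [pvmhf_N_iff ha D, pvmhf_X_pt ha, pvmhf_Y_pt ha]
  omega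

theorem pvmhf_N_bx (ha : PvmaDir a) (hx : x0 ≤ x1) (hy : y0 ≤ y1) : pvtwN n (pvmhfBx D a x0 x1 y0 y1) = pvmhfBx D a (x0 - n) (x1 + n) (y0 - n) (y1 + n) :=
  Subset.antisymm (pvmhf_N_bx_sub ha) (pvmhf_bx_sub_N ha hx hy)

/-- sup distance of menu cells in the frame -/
theorem pvmhf_cl_N (ha : PvmaDir a) (y : ℤ × ℤ) {i j i' j' : ℤ} : pvmhfCl y a i j ∈ pvtwN n {pvmhfCl y a i' j'} ↔ i ≤ i' + n ∧ i' ≤ i + n ∧ j ≤ j' + n ∧ j' ≤ j + n := by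
  constructor
  · rintro ⟨z, rfl, h1, h2, h3, h4⟩
    rcases ha with rfl | rfl | rfl | rfl <;> simp only [pvmhfCl] at h1 h2 h3 h4 <;> omega
  · intro h
    refine ⟨_, rfl, ?_⟩
    rcases ha with rfl | rfl | rfl | rfl <;> simp only [pvmhfCl] <;> omega

theorem pvmhf_cl_zero (y a : ℤ × ℤ) : pvmhfCl y a 0 0 = y := by
  simp [pvmhfCl]

theorem pvmhf_cl_one (y a : ℤ × ℤ) : pvmhfCl y a 1 0 = y + a :=
  Prod.ext (by simp [pvmhfCl]) (by simp [pvmhfCl])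

/-- every menu cell has indices -/
theorem pvmhf_cl_surj (ha : PvmaDir a) (y c : ℤ × ℤ) : ∃ i j, c = pvmhfCl y a i j := by
  rcases ha with rfl | rfl | rfl | rfl
  · exact ⟨c.1 - y.1, c.2 - y.2, Prod.ext (by simp only [pvmhfCl]; omega) (by simp only [pvmhfCl]; omega)⟩
  · exact ⟨y.1 - c.1, y.2 - c.2, Prod.ext (by simp only [pvmhfCl]; omega) (by simp only [pvmhfCl]; omega)⟩
  · exact ⟨c.2 - y.2, y.1 - c.1, Prod.ext (by simp only [pvmhfCl]; omega) (by simp only [pvmhfCl]; omega)⟩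
  · exact ⟨y.2 - c.2, c.1 - y.1, Prod.ext (by simp only [pvmhfCl]; omega) (by simp only [pvmhfCl]; omega)⟩

end frame

/-! ## 2. how the map reads in the frame -/

/-- **THE FRAME RECORD**: the link cell `k` lies over the menu cell of indices `⌊(X k + g + κ) / κ⌋`, `⌊(Y k + lt) / κ⌋`:   the menu cell `y` is `{-g - κ ≤ X < -g, -lt ≤ Y < κ - lt}` -/
structure PvmhfFr (M : PvgwMap) (y a D : ℤ × ℤ) (κ g lt : ℤ) : Prop where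
  dir : PvmaDir a
  κ0 : 0 < κ
  ap : ∀ k : ℤ × ℤ, M.ap k = pvmhfCl y a ((pvmhfX D a k + g + κ) / κ) ((pvmhfY D a k + lt) / κ)

section fr

variable {M : PvgwMap} {y a D k : ℤ × ℤ} {κ g lt : ℤ} {E E' : Set (ℤ × ℤ)} {n m : ℕ}

theorem PvmhfFr.ap_box (F : PvmhfFr M y a D κ g lt) {i0 i1 j0 j1 : ℤ} (h1 : i0 * κ ≤ pvmhfX D a k + g + κ) (h2 : pvmhfX D a k + g + κ < i1 * κ + κ)
    (h3 : j0 * κ ≤ pvmhfY D a k + lt) (h4 : pvmhfY D a k + lt < j1 * κ + κ) : ∃ i j, i0 ≤ i ∧ i ≤ i1 ∧ j0 ≤ j ∧ j ≤ j1 ∧ M.ap k = pvmhfCl y a i j := by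
  refine ⟨_, _, Int.le_ediv_of_mul_le F.κ0 h1, Int.lt_add_one_iff.1 (Int.ediv_lt_of_lt_mul F.κ0 ?_), Int.le_ediv_of_mul_le F.κ0 h3, Int.lt_add_one_iff.1 (Int.ediv_lt_of_lt_mul F.κ0 ?_), F.ap k⟩
  · rw [add_mul, one_mul]; exact h2
  · rw [add_mul, one_mul]; exact h4

theorem PvmhfFr.ap_eq (F : PvmhfFr M y a D κ g lt) {i j : ℤ} (h1 : i * κ ≤ pvmhfX D a k + g + κ) (h2 : pvmhfX D a k + g + κ < i * κ + κ)
    (h3 : j * κ ≤ pvmhfY D a k + lt) (h4 : pvmhfY D a k + lt < j * κ + κ) : M.ap k = pvmhfCl y a i j := by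
  obtain ⟨i', j', a1, a2, a3, a4, h⟩ := F.ap_box h1 h2 h3 h4
  obtain rfl : i' = i := le_antisymm a2 a1
  obtain rfl : j' = j := le_antisymm a4 a3
  exact h

theorem pvmhf_div_near {κ : ℤ} (hκ : 0 < κ) (x y : ℤ) (hxy : y ≤ x + κ) : y / κ ≤ x / κ + 1 := by
  have h1 : (x + κ) / κ = x / κ + 1 := by
    rw [Int.add_ediv_of_dvd_right (dvd_refl κ), Int.ediv_self hκ.ne']
  rw [← h1]
  exact Int.ediv_le_ediv hκ hxy

/-- `κ` link cells = one menu cell -/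
theorem PvmhfFr.lip (F : PvmhfFr M y a D κ g lt) (hn : (n : ℤ) ≤ κ) {u v : ℤ × ℤ} (h : v ∈ pvtwN n {u}) : M.ap v ∈ pvtwN 1 {M.ap u} := by
  obtain ⟨h1, h2, h3, h4⟩ := (pvmhf_N_iff F.dir D).1 h
  rw [F.ap u, F.ap v, pvmhf_cl_N F.dir]
  push_cast
  exact ⟨pvmhf_div_near F.κ0 _ _ (by omega), pvmhf_div_near F.κ0 _ _ (by omega), pvmhf_div_near F.κ0 _ _ (by omega), pvmhf_div_near F.κ0 _ _ (by omega)⟩

theorem PvmhfFr.N_pre (F : PvmhfFr M y a D κ g lt) (hn : (n : ℤ) ≤ κ) : pvtwN n (M.pre E) ⊆ M.pre (pvtwN 1 E) := by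
  intro w hw
  obtain ⟨z, hz, hwz⟩ := pvtw_N_iff.1 hw
  exact pvtw_N_iff.2 ⟨M.ap z, hz, F.lip hn hwz⟩

/-- collars of sets of link cells over two sets of menu cells which are not neighbours are disjoint      (`pvlkt_close` of 164 in the frame) -/
theorem PvmhfFr.close (F : PvmhfFr M y a D κ g lt) (hn : ((n + m : ℕ) : ℤ) ≤ κ) {P Q : Set (ℤ × ℤ)} (hP : P ⊆ M.pre E) (hQ : Q ⊆ M.pre E') (h : Disjoint (pvtwN 1 E) E') :
    Disjoint (pvtwN n P) (pvtwN m Q) := by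
  rw [Set.disjoint_left]
  intro w h1 h2
  obtain ⟨p, hp, hwp⟩ := pvtw_N_iff.1 h1
  obtain ⟨q, hq, hwq⟩ := pvtw_N_iff.1 h2
  have hqp : q ∈ pvtwN (m + n) {p} := by
    rw [← pvtw_N_add]
    exact pvtw_N_iff.2 ⟨w, hwp, pvtw_N_symm hwq⟩
  exact Set.disjoint_left.1 h (pvtw_N_iff.2 ⟨M.ap p, hP hp, F.lip (by push_cast at hn ⊢; omega) hqp⟩) (hQ hq)

end fr

/-! ## 3. the type in the frame of its exit door -/

/-- **WHAT THE FUNNEL `o` READS OF THE TYPE**: `y = yp`, `a = dp` (door of 138), `c8 = y - 8 a + b Lf a ∈ C₈` -/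
structure PvmhfTy (𝔑 : PvmnNum) (τ : PvmnType) (ln : ((ℤ × ℤ) × (ℤ × ℤ)) × ℕ) (ap am y a : ℤ × ℤ) (b : ℤ) : Prop where
  ts : PvmnIsType 𝔑 τ
  hl : PvmnLaneR τ ln.1 ln.2
  wp : 𝔑.nW ≤ 𝔑.nP
  acc : PvmaAcc 𝔑 τ ap am
  dir : PvmaDir a
  y9 : y ∈ pvtwN 1 (τ.C 9 : Set (ℤ × ℤ))
  e1 : pvmhfCl y a 1 0 ∈ pvfjmEp τ
  c8 : pvmhfCl y a (-8) b ∈ (τ.C 8 : Set (ℤ × ℤ))
  b8 : -8 ≤ b ∧ b ≤ 8

/-- the record at the door of record -/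
theorem pvmhf_ty {𝔑 : PvmnNum} {τ : PvmnType} {ln : ((ℤ × ℤ) × (ℤ × ℤ)) × ℕ} {ap am : ℤ × ℤ} (hτ : PvmnIsType 𝔑 τ) (hl : PvmnLaneR τ ln.1 ln.2) (hWP : 𝔑.nW ≤ 𝔑.nP) (hA : PvmaAcc 𝔑 τ ap am) :
    ∃ b, PvmhfTy 𝔑 τ ln ap am (pvfjmDp τ).1 (pvfjmDp τ).2 b := by
  obtain ⟨h1, ⟨h2, h3⟩, h4⟩ := pvfjm_Dp_spec hτ hWP
  have hd : PvmaDir (pvfjmDp τ).2 := h1
  obtain ⟨c, hc, hyc⟩ := pvtw_N_iff.1 (pvfjm_hit_p hτ h2 h3)
  obtain ⟨i, j, rfl⟩ := pvmhf_cl_surj hd (pvfjmDp τ).1 c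
  have h5 : pvmhfCl (pvfjmDp τ).1 (pvfjmDp τ).2 1 0 ∈ pvfjmEp τ := by rw [pvmhf_cl_one]; exact h4
  have h6 : pvmhfCl (pvfjmDp τ).1 (pvfjmDp τ).2 1 0 ∉ pvtwN 8 {pvmhfCl (pvfjmDp τ).1 (pvfjmDp τ).2 i j} := fun h =>
    Set.disjoint_left.1 pvfjm_E_off h5 (pvtw_N_iff.2 ⟨_, pvmn_C_sub 8 (Nat.zero_le _) le_rfl hc, h⟩)
  have hyc' : pvmhfCl (pvfjmDp τ).1 (pvfjmDp τ).2 0 0 ∈ pvtwN 8 {pvmhfCl (pvfjmDp τ).1 (pvfjmDp τ).2 i j} := by rw [pvmhf_cl_zero]; exact hyc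
  rw [pvmhf_cl_N hd] at hyc' h6
  push_cast at hyc' h6
  obtain rfl : i = -8 := by omega
  exact ⟨j, hτ, hl, hWP, hA, hd, h2, h5, hc, by omega, by omega⟩

/-! ## 4. the numbers, the sets -/

/-- the numbers of a funnel, in link cells:   `κ` = side of a menu cell, `g` = distance from the face of the menu cell `y` to the door vertex `D`, `lt` = lateral position of `D` in `y`,
black core rows `[b0, b1]`, white core rows `[w0, b0 - 7]`, the two bars end at `X = - xe`;   `c1 c2` = collars of the rooms (white, black) -/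
structure PvmhfNum where
  κ : ℤ
  g : ℤ
  lt : ℤ
  b0 : ℤ
  b1 : ℤ
  w0 : ℤ
  xe : ℤ
  c1 : ℕ
  c2 : ℕ

structure PvmhfNum.OK (𝔫 : PvmhfNum) : Prop where
  κ400 : 400 ≤ 𝔫.κ
  xe_le : 𝔫.xe ≤ 𝔫.g
  g_le : 𝔫.g - 𝔫.xe + 10 ≤ 𝔫.κ
  b01 : 𝔫.b0 ≤ 𝔫.b1
  w0b : 𝔫.w0 ≤ 𝔫.b0 - 7
  lat0 : 10 ≤ 𝔫.w0 + 𝔫.lt
  lat1 : 𝔫.b1 + 𝔫.lt + 10 ≤ 𝔫.κ
  c1_2 : 2 ≤ 𝔫.c1
  c2_2 : 2 ≤ 𝔫.c2
  c12 : ((𝔫.c1 + 𝔫.c2 + 1 : ℕ) : ℤ) ≤ 𝔫.κ

/-- the lateral index of the column of the route: `b` clamped to `[-6, 6]` -/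
def pvmhfCp (b : ℤ) : ℤ := max (-6) (min 6 b)

/-- the column of the route: centre of the menu cells `i = -6` -/
def PvmhfNum.xc (𝔫 : PvmhfNum) : ℤ := -𝔫.g - 7 * 𝔫.κ + 𝔫.κ / 2

/-- the centre row of the menu cells `j = e` -/
def PvmhfNum.yb (𝔫 : PvmhfNum) (e : ℤ) : ℤ := -𝔫.lt + e * 𝔫.κ + 𝔫.κ / 2

def PvmhfNum.ylo (𝔫 : PvmhfNum) (e : ℤ) : ℤ := min (𝔫.yb e) 𝔫.b0

def PvmhfNum.yhi (𝔫 : PvmhfNum) (e : ℤ) : ℤ := max (𝔫.yb e) 𝔫.b1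

section sets

variable (𝔫 : PvmhfNum) (M : PvgwMap) (τ : PvmnType) (ln : ((ℤ × ℤ) × (ℤ × ℤ)) × ℕ) (D a : ℤ × ℤ) (e : ℤ)

/-- the explicit part of the black core: the column, the bar -/
def pvmhfRt : Set (ℤ × ℤ) := pvmhfBx D a 𝔫.xc 𝔫.xc (𝔫.ylo e) (𝔫.yhi e) ∪ pvmhfBx D a 𝔫.xc (-𝔫.xe) 𝔫.b0 𝔫.b1

/-- **THE BLACK CORE** -/
def pvmhfXB : Set (ℤ × ℤ) := M.pre (pvtwN 3 (τ.C 7 : Set (ℤ × ℤ)) ∪ pvtwN 2 (τ.C 8 : Set (ℤ × ℤ))) ∪ pvmhfRt 𝔫 D a e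

/-- the tube of the route (it stops `40` cells before the face of `y`) -/
def pvmhfFa : Set (ℤ × ℤ) := pvmhfBx D a (𝔫.xc - 6) (𝔫.xc + 6) (𝔫.ylo e - 6) (𝔫.yhi e + 6) ∪ pvmhfBx D a (𝔫.xc - 6) (-𝔫.g - 40) (𝔫.b0 - 6) (𝔫.b1 + 6)

/-- the tube up to the second door -/
def pvmhfA2 : Set (ℤ × ℤ) := pvmhfBx D a (𝔫.xc - 6) (𝔫.xc + 6) (𝔫.ylo e - 6) (𝔫.yhi e + 6) ∪ pvmhfBx D a (𝔫.xc - 6) (-𝔫.g - 79) (𝔫.b0 - 6) (𝔫.b1 + 6)

/-- the tube beyond the second door -/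
def pvmhfZ : Set (ℤ × ℤ) := pvmhfBx D a (-𝔫.g - 78) (-𝔫.g - 40) (𝔫.b0 - 6) (𝔫.b1 + 6)

/-- the cell of the second door: under the tube -/
def pvmhfD2 : ℤ × ℤ := pvmhfPt D a (-𝔫.g - 80) (𝔫.b0 - 7)

/-- the white bar -/
def pvmhfWB : Set (ℤ × ℤ) := pvmhfBx D a (-𝔫.g - 82) (-𝔫.xe) 𝔫.w0 (𝔫.b0 - 7)

/-- **THE WHITE CORE** (`S` = the stretch of the contour of the hull of the tube from the last cell of the lane of the type to the second door) -/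
def pvmhfXW (S : Set (ℤ × ℤ)) : Set (ℤ × ℤ) := S ∪ M.pre (pvtwN 1 {pvlpA1 τ ln}) ∪ pvmhfWB 𝔫 D a

/-- what the engine of 15 (`pvli_half_p` + `pvli_stop_fwd`) gives -/
structure PvmhfS (S : Set (ℤ × ℤ)) : Prop where
  fin : S.Finite
  conn : TscConn tscG S
  off : Disjoint S (pvliHp M τ (pvmhfFa 𝔫 D a e))
  a1 : ∃ v ∈ S, M.ap v = pvlpA1 τ ln
  d2 : pvmhfD2 𝔫 D a ∈ S
  loc : ∀ w ∈ S, ∃ b, triAdj b w ∧ b ∈ M.pre (pvtwN 4 (pvmnCells τ 7 8)) ∪ pvmhfA2 𝔫 D a e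

/-- **THE TWO POLYOMINOES AND THE TWO COVERS OF THE FUNNEL `o`** -/
def pvmhfB : Set (ℤ × ℤ) := pvtwN 1 (pvmhfXB 𝔫 M τ D a e)
def pvmhfW (S : Set (ℤ × ℤ)) : Set (ℤ × ℤ) := pvtwN 1 (pvmhfXW 𝔫 M τ ln D a S)
def pvmhfBk : Set (ℤ × ℤ) := pvtwN 2 (pvmhfXB 𝔫 M τ D a e) ∪ pvtwN 𝔫.c2 (M.pre (pvtwN 2 (pvmnCells τ 5 8)))
def pvmhfWh (S : Set (ℤ × ℤ)) : Set (ℤ × ℤ) := pvtwN 2 (pvmhfXW 𝔫 M τ ln D a S) ∪ pvtwN 𝔫.c1 (M.pre (pvlpR τ ln))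

end sets

theorem pvmhf_eqns_cite3 : True := by
  have := @pvmhfCp.eq_1; have := @PvmhfNum.xc.eq_1; have := @PvmhfNum.yb.eq_1; have := @PvmhfNum.ylo.eq_1; have := @PvmhfNum.yhi.eq_1; have := @pvmhfRt.eq_1; have := @pvmhfXB.eq_1
  have := @pvmhfFa.eq_1; have := @pvmhfA2.eq_1; have := @pvmhfZ.eq_1; have := @pvmhfD2.eq_1; have := @pvmhfWB.eq_1; have := @pvmhfXW.eq_1
  have := @pvmhfB.eq_1; have := @pvmhfW.eq_1; have := @pvmhfBk.eq_1; have := @pvmhfWh.eq_1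
  trivial

/-- **THE OUTPUT OF THE CELL LEVEL, FUNNEL `o`**      (consumer: 135 `Exit/FunP.lean`, via `PvlktPoly` of 164) -/
structure PvmhfOk (𝔫 : PvmhfNum) (M : PvgwMap) (τ : PvmnType) (ln : ((ℤ × ℤ) × (ℤ × ℤ)) × ℕ) (y D a : ℤ × ℤ) (B W Bk Wh : Set (ℤ × ℤ)) : Prop where
  cB : TscConn pvtbG4 B
  cW : TscConn pvtbG4 W
  subB : pvtwN 1 B ⊆ Bk
  subW : pvtwN 1 W ⊆ Wh
  sep : Disjoint (pvtwN 1 Bk) Wh
  /-- the hooks of 147 at the state -/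
  hookB : M.pre (pvtwN 3 (τ.C 7 : Set (ℤ × ℤ))) ⊆ B
  hookW : M.pre (pvtwN 1 {pvlpA1 τ ln}) ⊆ W
  /-- the rooms at the state -/
  roomB : pvtwN 𝔫.c2 (M.pre (pvtwN 2 (pvmnCells τ 5 8))) ⊆ Bk
  roomW : pvtwN 𝔫.c1 (M.pre (pvlpR τ ln)) ⊆ Wh
  /-- the last cells of the two bars -/
  barB : pvmhfBx D a (-𝔫.g - 80) (-𝔫.xe + 1) (𝔫.b0 - 1) (𝔫.b1 + 1) ⊆ B
  barW : pvmhfBx D a (-𝔫.g - 80) (-𝔫.xe + 1) (𝔫.w0 - 1) (𝔫.b0 - 6) ⊆ W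
  barBk : pvmhfBx D a (-𝔫.g - 80) (-𝔫.xe + 2) (𝔫.b0 - 2) (𝔫.b1 + 2) ⊆ Bk
  barWh : pvmhfBx D a (-𝔫.g - 80) (-𝔫.xe + 2) (𝔫.w0 - 2) (𝔫.b0 - 5) ⊆ Wh
  /-- NOTHING ELSE in front: over the menu cells within `2` of `y + a`, from `X = - g - 70` on -/
  winBk : ∀ k ∈ Bk, M.ap k ∈ pvtwN 2 {y + a} → -𝔫.g - 70 ≤ pvmhfX D a k → k ∈ pvmhfBx D a (-𝔫.g - 70) (-𝔫.xe + 2) (𝔫.b0 - 2) (𝔫.b1 + 2)
  winWh : ∀ k ∈ Wh, M.ap k ∈ pvtwN 2 {y + a} → -𝔫.g - 70 ≤ pvmhfX D a k → k ∈ pvmhfBx D a (-𝔫.g - 70) (-𝔫.xe + 2) (𝔫.w0 - 2) (𝔫.b0 - 5)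
  /-- everything lives over the body, or in the nozzle -/
  body : Bk ∪ Wh ⊆ M.pre (pvtwN 8 (pvmnCells τ 1 8)) ∪ pvmhfBx D a (-𝔫.g) (-𝔫.xe + 2) (𝔫.w0 - 2) (𝔫.b1 + 2)
  /-- the walks with their collars live over the 8-tube of the pieces `7 8` (off the ball by (T3)), or in the nozzle -/
  off : pvtwN 1 B ∪ pvtwN 1 W ⊆ M.pre (pvtwN 8 (pvmnCells τ 7 8)) ∪ pvmhfBx D a (-𝔫.g) (-𝔫.xe + 2) (𝔫.w0 - 2) (𝔫.b1 + 2)

/-! ## 5. menu cells near the door -/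

section menu

variable {𝔑 : PvmnNum} {τ : PvmnType} {ln : ((ℤ × ℤ) × (ℤ × ℤ)) × ℕ} {ap am y a : ℤ × ℤ} {b i j : ℤ} {n m : ℕ}

/-- the cells near `y + a` are far from the pieces `0..8` -/
theorem PvmhfTy.off8 (T : PvmhfTy 𝔑 τ ln ap am y a b) (hnm : n + m ≤ 8) (h1 : i ≤ 1 + n) (h2 : 1 ≤ i + n) (h3 : j ≤ n) (h4 : 0 ≤ j + n) : pvmhfCl y a i j ∉ pvtwN m (pvmnCells τ 0 8) := by
  intro h
  have h0 : pvmhfCl y a 1 0 ∈ pvtwN n {pvmhfCl y a i j} := (pvmhf_cl_N T.dir y).2 ⟨by omega, by omega, by omega, by omega⟩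
  have h8 : pvmhfCl y a 1 0 ∈ pvtwN (n + m) (pvmnCells τ 0 8) := by
    rw [← pvtw_N_add]
    exact pvtw_N_iff.2 ⟨_, h, h0⟩
  exact Set.disjoint_left.1 pvfjm_E_off T.e1 (pvtw_N_mono hnm le_rfl h8)

theorem PvmhfTy.near9 (T : PvmhfTy 𝔑 τ ln ap am y a b) (h1 : i ≤ n) (h2 : 0 ≤ i + n) (h3 : j ≤ n) (h4 : 0 ≤ j + n) : pvmhfCl y a i j ∈ pvtwN (n + 1) (τ.C 9 : Set (ℤ × ℤ)) := by
  rw [← pvtw_N_add]
  refine pvtw_N_iff.2 ⟨y, T.y9, ?_⟩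
  have h0 : pvmhfCl y a i j ∈ pvtwN n {pvmhfCl y a 0 0} := (pvmhf_cl_N T.dir y).2 ⟨by omega, by omega, by omega, by omega⟩
  rwa [pvmhf_cl_zero] at h0

theorem PvmhfTy.near8 (T : PvmhfTy 𝔑 τ ln ap am y a b) (h1 : i ≤ -8 + n) (h2 : -8 ≤ i + n) (h3 : j ≤ b + n) (h4 : b ≤ j + n) : pvmhfCl y a i j ∈ pvtwN n (τ.C 8 : Set (ℤ × ℤ)) :=
  pvtw_N_iff.2 ⟨_, T.c8, (pvmhf_cl_N T.dir y).2 ⟨h1, h2, h3, h4⟩⟩

/-- the indices of the route cells -/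
def PvmhfRc (e i j : ℤ) : Prop := -6 ≤ i ∧ i ≤ 0 ∧ min e 0 ≤ j ∧ j ≤ max e 0

theorem pvmhf_eqns_cite4 : True := by
  have := @PvmhfRc.eq_1
  trivial

theorem PvmhfTy.rc9 (T : PvmhfTy 𝔑 τ ln ap am y a b) (h : PvmhfRc (pvmhfCp b) i j) : pvmhfCl y a i j ∈ pvtwN 7 (τ.C 9 : Set (ℤ × ℤ)) := by
  obtain ⟨h1, h2, h3, h4⟩ := h
  unfold pvmhfCp at h3 h4
  exact T.near9 (n := 6) (by push_cast; omega) (by push_cast; omega) (by push_cast; omega) (by push_cast; omega)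

theorem PvmhfTy.rc8 (T : PvmhfTy 𝔑 τ ln ap am y a b) (h : PvmhfRc (pvmhfCp b) i j) : pvmhfCl y a i j ∈ pvtwN 8 (τ.C 8 : Set (ℤ × ℤ)) := by
  obtain ⟨h1, h2, h3, h4⟩ := h
  have := T.b8
  unfold pvmhfCp at h3 h4
  exact T.near8 (n := 8) (by push_cast; omega) (by push_cast; omega) (by push_cast; omega) (by push_cast; omega)

/-- no cell of the 8-collar of the pieces `0..8` on the way out -/
theorem PvmhfTy.out8 (T : PvmhfTy 𝔑 τ ln ap am y a b) {c : ℤ × ℤ} (h : c ∈ pvtwN 8 (pvmnCells τ 0 8)) : c ∉ pvfjmEp τ ∪ pvmaRay (τ.q 10) ap := by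
  rintro (h' | h')
  · exact Set.disjoint_left.1 pvfjm_E_off h' h
  · exact Set.disjoint_left.1 T.acc.rp_cells h' (pvtw_N_mono (by norm_num) le_rfl h)

/-- no cell of the 30-collar of the piece `9` on the ray `ρ⁻` -/
theorem PvmhfTy.ray9 (T : PvmhfTy 𝔑 τ ln ap am y a b) {c : ℤ × ℤ} (h : c ∈ pvtwN 30 (τ.C 9 : Set (ℤ × ℤ))) : c ∉ pvmaRay (τ.q 0) am := fun h' =>
  Set.disjoint_left.1 T.acc.sep (pvtw_N_mono le_rfl Set.subset_union_right h) (pvtw_N_sub (Or.inl h'))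

/-- a cell of the 10-collar of the piece `9` is not in the door `Dr⁻` -/
theorem PvmhfTy.drm9 (T : PvmhfTy 𝔑 τ ln ap am y a b) {c : ℤ × ℤ} (h : c ∈ pvtwN 10 (τ.C 9 : Set (ℤ × ℤ))) : c ∉ pvmnDrm τ := fun h' =>
  Set.disjoint_left.1 (T.ts.far 0 9 (by norm_num)) (pvtw_N_mono (by norm_num) le_rfl h') h

end menu

/-! ## 6. link cells near the door -/

section link

variable {𝔑 : PvmnNum} {τ : PvmnType} {ln : ((ℤ × ℤ) × (ℤ × ℤ)) × ℕ} {ap am y a D k : ℤ × ℤ} {b e : ℤ} {𝔫 : PvmhfNum} {M : PvgwMap}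

/-- the 9-collar of the column lies over the route cells -/
theorem pvmhf_ap_col (hN : 𝔫.OK) (F : PvmhfFr M y a D 𝔫.κ 𝔫.g 𝔫.lt) (h1 : 𝔫.xc - 9 ≤ pvmhfX D a k) (h2 : pvmhfX D a k ≤ 𝔫.xc + 9) (h3 : 𝔫.ylo e - 9 ≤ pvmhfY D a k) (h4 : pvmhfY D a k ≤ 𝔫.yhi e + 9) :
    ∃ i j, PvmhfRc e i j ∧ M.ap k = pvmhfCl y a i j := by
  obtain ⟨c1, c2, c3, c4, c5, c6, c7, -, -, -⟩ := hN
  simp only [PvmhfNum.xc, PvmhfNum.ylo, PvmhfNum.yhi, PvmhfNum.yb] at h1 h2 h3 h4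
  rcases le_total 0 e with he | he
  · have hk : 0 ≤ e * 𝔫.κ := mul_nonneg he (by omega)
    obtain ⟨i, j, a1, a2, a3, a4, h⟩ := F.ap_box (k := k) (i0 := -6) (i1 := -6) (j0 := 0) (j1 := e) (by omega) (by omega) (by omega) (by omega)
    exact ⟨i, j, ⟨by omega, by omega, by omega, by omega⟩, h⟩
  · have hk : e * 𝔫.κ ≤ 0 := mul_nonpos_of_nonpos_of_nonneg he (by omega)
    obtain ⟨i, j, a1, a2, a3, a4, h⟩ := F.ap_box (k := k) (i0 := -6) (i1 := -6) (j0 := e) (j1 := 0) (by omega) (by omega) (by omega) (by omega)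
    exact ⟨i, j, ⟨by omega, by omega, by omega, by omega⟩, h⟩

/-- the 9-collar of the two bars, behind the face of `y`, lies over the route cells `(i, 0)` -/
theorem pvmhf_ap_bar (hN : 𝔫.OK) (F : PvmhfFr M y a D 𝔫.κ 𝔫.g 𝔫.lt) (h1 : 𝔫.xc - 9 ≤ pvmhfX D a k) (h2 : pvmhfX D a k < -𝔫.g) (h3 : 𝔫.w0 - 9 ≤ pvmhfY D a k) (h4 : pvmhfY D a k ≤ 𝔫.b1 + 9) :
    ∃ i j, PvmhfRc e i j ∧ M.ap k = pvmhfCl y a i j := by
  obtain ⟨c1, c2, c3, c4, c5, c6, c7, -, -, -⟩ := hN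
  simp only [PvmhfNum.xc] at h1
  obtain ⟨i, j, a1, a2, a3, a4, h⟩ := F.ap_box (k := k) (i0 := -6) (i1 := 0) (j0 := 0) (j1 := 0) (by omega) (by omega) (by omega) (by omega)
  exact ⟨i, j, ⟨by omega, by omega, by omega, by omega⟩, h⟩

/-- the rows of the two bars in the last `κ` cells before the face of `y`, and beyond: over `y`, `y + a` -/
theorem pvmhf_ap_front (hN : 𝔫.OK) (F : PvmhfFr M y a D 𝔫.κ 𝔫.g 𝔫.lt) (h1 : -𝔫.g - 𝔫.κ ≤ pvmhfX D a k) (h2 : pvmhfX D a k < -𝔫.g + 𝔫.κ) (h3 : 𝔫.w0 - 9 ≤ pvmhfY D a k) (h4 : pvmhfY D a k ≤ 𝔫.b1 + 9) :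
    ∃ i, 0 ≤ i ∧ i ≤ 1 ∧ M.ap k = pvmhfCl y a i 0 := by
  obtain ⟨c1, c2, c3, c4, c5, c6, c7, -, -, -⟩ := hN
  obtain ⟨i, j, a1, a2, a3, a4, h⟩ := F.ap_box (k := k) (i0 := 0) (i1 := 1) (j0 := 0) (j1 := 0) (by omega) (by omega) (by omega) (by omega)
  obtain rfl : j = 0 := by omega
  exact ⟨i, a1, a2, h⟩

/-- the tube lies over the route cells -/
theorem pvmhf_ap_Fa (hN : 𝔫.OK) (F : PvmhfFr M y a D 𝔫.κ 𝔫.g 𝔫.lt) (h : k ∈ pvmhfFa 𝔫 D a e) : ∃ i j, PvmhfRc e i j ∧ M.ap k = pvmhfCl y a i j := by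
  have c5 := hN.w0b
  rcases h with ⟨h1, h2, h3, h4⟩ | ⟨h1, h2, h3, h4⟩
  · exact pvmhf_ap_col hN F (by omega) (by omega) (by omega) (by omega)
  · exact pvmhf_ap_bar hN F (by omega) (by omega) (by omega) (by omega)

end link

/-! ## 7. the engine -/

section engine

variable {𝔑 : PvmnNum} {τ : PvmnType} {ln : ((ℤ × ℤ) × (ℤ × ℤ)) × ℕ} {ap am y a D k : ℤ × ℤ} {b : ℤ} {𝔫 : PvmhfNum} {M : PvgwMap}

theorem pvmhf_adj_rt (ha : PvmaDir a) (u : ℤ × ℤ) : triAdj u (u + pvliRt a) := by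
  obtain ⟨p, q⟩ := u
  rw [tsc_adj_iff]
  rcases ha with rfl | rfl | rfl | rfl <;> simp [pvliRt] <;> omega

/-- a connected set off `F` which meets the outside lies outside -/
theorem pvmhf_out_conn {F Q : Set (ℤ × ℤ)} (hQ : TscConn tscG Q) (hd : Disjoint Q F) {p : ℤ × ℤ} (hp : p ∈ Q) (hpo : p ∈ pvtOut F) : Q ⊆ pvtOut F := fun k hk =>
  pvt_out_R hpo (tsc_R_mono (fun u hu hF => Set.disjoint_left.1 hd hu hF) (hQ p hp k hk))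

/-- the tube does not meet the way out -/
theorem pvmhf_F_way (hN : 𝔫.OK) (F : PvmhfFr M y a D 𝔫.κ 𝔫.g 𝔫.lt) (T : PvmhfTy 𝔑 τ ln ap am y a b) :
    ∀ v ∈ pvliFp M τ (pvmhfFa 𝔫 D a (pvmhfCp b)), M.ap v ∉ pvfjmEp τ ∪ pvmaRay (τ.q 10) ap := by
  rintro v (hv | hv)
  · exact T.out8 (pvtw_N_mono (by norm_num) le_rfl hv)
  · obtain ⟨i, j, hr, h⟩ := pvmhf_ap_Fa hN F hv
    rw [h]
    exact T.out8 (pvtw_N_mono le_rfl (pvmn_C_sub 8 (Nat.zero_le _) le_rfl) (T.rc8 hr))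

/-- **the row under the tube is outside** -/
theorem pvmhf_row_out (hN : 𝔫.OK) (F : PvmhfFr M y a D 𝔫.κ 𝔫.g 𝔫.lt) (T : PvmhfTy 𝔑 τ ln ap am y a b) :
    pvmhfBx D a (-𝔫.g - 82) (-𝔫.g) (𝔫.b0 - 7) (𝔫.b0 - 7) ⊆ pvtOut (pvliFp M τ (pvmhfFa 𝔫 D a (pvmhfCp b))) := by
  obtain ⟨c1, c2, c3, c4, c5, c6, c7, -, -, -⟩ := id hN
  refine pvmhf_out_conn (pvmhf_bx_conn F.dir D _ _ _ _) ?_ (p := pvmhfPt D a (-𝔫.g) (𝔫.b0 - 7)) (pvmhf_pt_mem F.dir (by omega) le_rfl le_rfl le_rfl) ?_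
  · rw [Set.disjoint_left]
    rintro k ⟨k1, k2, k3, k4⟩ (hk | hk)
    · obtain ⟨i, i0, i1, h⟩ := pvmhf_ap_front hN F (k := k) (by omega) (by omega) (by omega) (by omega)
      have hk' : M.ap k ∈ pvtwN 4 (pvmnCells τ 0 8) := hk
      rw [h] at hk'
      exact T.off8 (n := 1) (m := 4) (by norm_num) (by omega) (by omega) (by omega) (by omega) hk'
    · rcases hk with ⟨h1, h2, h3, h4⟩ | ⟨h1, h2, h3, h4⟩
      · simp only [PvmhfNum.xc] at h2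
        omega
      · omega
  · refine pvmhf_out_p M T.ts T.wp T.acc (pvmhf_F_way hN F T) ?_
    change M.ap (pvmhfPt D a (-𝔫.g) (𝔫.b0 - 7)) ∈ pvfjmEp τ ∪ pvmaRay (τ.q 10) ap
    rw [F.ap_eq (i := 1) (j := 0) (by rw [pvmhf_X_pt F.dir]; omega) (by rw [pvmhf_X_pt F.dir]; omega) (by rw [pvmhf_Y_pt F.dir]; omega) (by rw [pvmhf_Y_pt F.dir]; omega)]
    exact Or.inl T.e1

/-- the touch point: the start of the column -/
theorem pvmhf_touch (hN : 𝔫.OK) (F : PvmhfFr M y a D 𝔫.κ 𝔫.g 𝔫.lt) (T : PvmhfTy 𝔑 τ ln ap am y a b) :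
    M.ap (pvmhfPt D a 𝔫.xc (𝔫.yb (pvmhfCp b))) ∈ pvtwN 2 (τ.C 8 : Set (ℤ × ℤ)) := by
  obtain ⟨c1, c2, c3, c4, c5, c6, c7, -, -, -⟩ := id hN
  have := T.b8
  rw [F.ap_eq (i := -6) (j := pvmhfCp b) (by rw [pvmhf_X_pt F.dir]; simp only [PvmhfNum.xc]; omega) (by rw [pvmhf_X_pt F.dir]; simp only [PvmhfNum.xc]; omega)
    (by rw [pvmhf_Y_pt F.dir]; simp only [PvmhfNum.yb]; omega) (by rw [pvmhf_Y_pt F.dir]; simp only [PvmhfNum.yb]; omega)]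
  exact T.near8 (n := 2) (by omega) (by omega) (by unfold pvmhfCp; omega) (by unfold pvmhfCp; omega)

theorem pvmhf_touch_mem (hN : 𝔫.OK) (ha : PvmaDir a) (D : ℤ × ℤ) (e : ℤ) : pvmhfPt D a 𝔫.xc (𝔫.yb e) ∈ pvmhfBx D a (𝔫.xc - 6) (𝔫.xc + 6) (𝔫.ylo e - 6) (𝔫.yhi e + 6) :=
  pvmhf_pt_mem ha (by omega) (by omega) (by simp only [PvmhfNum.ylo]; omega) (by simp only [PvmhfNum.yhi]; omega)

theorem pvmhf_two_conn (hN : 𝔫.OK) (ha : PvmaDir a) (D : ℤ × ℤ) (e x1 : ℤ) (hx : 𝔫.xc ≤ x1) :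
    TscConn tscG (pvmhfBx D a (𝔫.xc - 6) (𝔫.xc + 6) (𝔫.ylo e - 6) (𝔫.yhi e + 6) ∪ pvmhfBx D a (𝔫.xc - 6) x1 (𝔫.b0 - 6) (𝔫.b1 + 6)) := by
  have c4 := hN.b01
  exact tsc_conn_union (pvmhf_bx_conn ha D _ _ _ _) (pvmhf_bx_conn ha D _ _ _ _) (a := pvmhfPt D a 𝔫.xc 𝔫.b0) (b := pvmhfPt D a 𝔫.xc 𝔫.b0)
    (pvmhf_pt_mem ha (by omega) (by omega) (by simp only [PvmhfNum.ylo]; omega) (by simp only [PvmhfNum.yhi]; omega)) (pvmhf_pt_mem ha (by omega) hx (by omega) (by omega)) (Or.inl rfl)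

theorem pvmhf_A2_sub (𝔫 : PvmhfNum) (D a : ℤ × ℤ) (e : ℤ) : pvmhfA2 𝔫 D a e ⊆ pvmhfFa 𝔫 D a e :=
  Set.union_subset_union_right _ (pvmhf_bx_mono le_rfl (by omega) le_rfl le_rfl)

/-- the cell of the second door lies over `y` -/
theorem pvmhf_ap_near (hN : 𝔫.OK) (F : PvmhfFr M y a D 𝔫.κ 𝔫.g 𝔫.lt) (h1 : -𝔫.g - 90 ≤ pvmhfX D a k) (h2 : pvmhfX D a k < -𝔫.g) (h3 : 𝔫.w0 - 9 ≤ pvmhfY D a k) (h4 : pvmhfY D a k ≤ 𝔫.b1 + 9) : M.ap k = y := by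
  obtain ⟨c1, c2, c3, c4, c5, c6, c7, -, -, -⟩ := id hN
  rw [F.ap_eq (i := 0) (j := 0) (by omega) (by omega) (by omega) (by omega), pvmhf_cl_zero]

theorem PvmhfTy.y_off (T : PvmhfTy 𝔑 τ ln ap am y a b) : y ∉ pvtwN 7 (pvmnCells τ 0 8) := by
  have := T.off8 (i := 0) (j := 0) (n := 1) (m := 7) (by norm_num) (by omega) (by omega) (by omega) (by omega)
  rwa [pvmhf_cl_zero] at this

/-- **THE CLAUSES OF THE EXIT HALF AT THE TUBE OF THE FUNNEL** -/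
theorem pvmhf_in (hN : 𝔫.OK) (F : PvmhfFr M y a D 𝔫.κ 𝔫.g 𝔫.lt) (T : PvmhfTy 𝔑 τ ln ap am y a b) :
    PvliInP 𝔑 M τ (pvmhfFa 𝔫 D a (pvmhfCp b)) {pvmhfD2 𝔫 D a} (pvmhfA2 𝔫 D a (pvmhfCp b)) := by
  obtain ⟨c1, c2, c3, c4, c5, c6, c7, -, -, -⟩ := id hN
  have hxc : 𝔫.xc ≤ -𝔫.g - 200 := by simp only [PvmhfNum.xc]; omega
  have hX2 : pvmhfX D a (pvmhfD2 𝔫 D a) = -𝔫.g - 80 := pvmhf_X_pt F.dir _ _ _
  have hY2 : pvmhfY D a (pvmhfD2 𝔫 D a) = 𝔫.b0 - 7 := pvmhf_Y_pt F.dir _ _ _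
  have hd2o : pvmhfD2 𝔫 D a ∈ pvtOut (pvliFp M τ (pvmhfFa 𝔫 D a (pvmhfCp b))) := pvmhf_row_out hN F T (pvmhf_pt_mem F.dir (by omega) (by omega) le_rfl le_rfl)
  exact
    { ts := T.ts
      fin := (pvmhf_bx_finite F.dir D _ _ _ _).union (pvmhf_bx_finite F.dir D _ _ _ _)
      conn := pvmhf_two_conn hN F.dir D _ _ (by omega)
      touch := ⟨_, Or.inl (pvmhf_touch_mem hN F.dir D _), pvtw_N_mono (by norm_num) le_rfl (pvmhf_touch hN F T)⟩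
      off := by
        intro v hv _
        obtain ⟨i, j, hr, h⟩ := pvmhf_ap_Fa hN F hv
        rw [h]
        exact pvtw_N_mono (by norm_num) le_rfl (T.rc9 hr)
      wit := by
        refine pvmhf_wit_m M T.ts T.acc ?_
        rintro v (hv | hv) h
        · exact pvgw_Ps_K3 hv
        · obtain ⟨i, j, hr, h'⟩ := pvmhf_ap_Fa hN F hv
          rw [h'] at h
          exact absurd h (T.ray9 (pvtw_N_mono (by norm_num) le_rfl (T.rc9 hr)))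
      A2_sub := pvmhf_A2_sub 𝔫 D a _
      A2_conn := pvmhf_two_conn hN F.dir D _ _ (by omega)
      in2 := by
        rintro x hx hx2
        have hx2' : x.2 = pvmhfD2 𝔫 D a := hx2
        obtain ⟨a1, a2, a3, a4⟩ := pvmhf_adj F.dir D hx.2.2
        rw [hx2'] at a1 a2 a3 a4
        rw [hX2] at a1 a2
        rw [hY2] at a3 a4
        rcases pvli_Hp_dart hx with h | h
        · have h' : M.ap x.1 ∈ pvtwN 4 (pvmnCells τ 0 8) := h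
          rw [pvmhf_ap_near hN F (by omega) (by omega) (by omega) (by omega)] at h'
          exact absurd (pvtw_N_mono (by norm_num) le_rfl h') T.y_off
        · rcases h with ⟨h1, h2, h3, h4⟩ | ⟨h1, h2, h3, h4⟩
          · omega
          · exact Or.inr ⟨h1, by omega, h3, h4⟩
      D2_off := by
        rw [Set.disjoint_left]
        rintro v hv h
        obtain rfl : v = pvmhfD2 𝔫 D a := hv
        have h' : M.ap (pvmhfD2 𝔫 D a) ∈ pvtwN 5 (pvmnCells τ 0 8) := h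
        rw [pvmhf_ap_near hN F (by omega) (by omega) (by omega) (by omega)] at h'
        exact T.y_off (pvtw_N_mono (by norm_num) le_rfl h')
      d2 := by
        refine ⟨(pvmhfPt D a (-𝔫.g - 80) (𝔫.b0 - 6), pvmhfD2 𝔫 D a), ⟨pvt_hull_sub (Or.inr (Or.inr (pvmhf_pt_mem F.dir (by omega) (by omega) (by omega) (by omega)))), fun h => h hd2o, ?_⟩, rfl⟩
        have e1 : pvmhfD2 𝔫 D a = pvmhfPt D a (-𝔫.g - 80) (𝔫.b0 - 6) + pvliRt a := by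
          obtain ⟨r1, r2⟩ := pvmhf_X_rt F.dir D (pvmhfPt D a (-𝔫.g - 80) (𝔫.b0 - 6))
          rw [pvmhf_X_pt F.dir] at r1
          rw [pvmhf_Y_pt F.dir] at r2
          exact (pvmhf_eq_pt F.dir r1 (by rw [r2]; ring)).symm
        show triAdj _ _
        rw [e1]
        exact pvmhf_adj_rt F.dir _ }

end engine

/-! ## 8. the contour along the bar -/

section bar

variable {H : Set (ℤ × ℤ)} {a D : ℤ × ℤ} {x r : ℤ}

theorem pvmhf_pt_add (ha : PvmaDir a) (D : ℤ × ℤ) (x r : ℤ) : pvmhfPt D a x r + a = pvmhfPt D a (x + 1) r := by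
  obtain ⟨h1, h2⟩ := pvmhf_X_add ha D (pvmhfPt D a x r)
  rw [pvmhf_X_pt ha] at h1
  rw [pvmhf_Y_pt ha] at h2
  exact pvmhf_eq_pt ha h1 h2

theorem pvmhf_pt_rt (ha : PvmaDir a) (D : ℤ × ℤ) (x r : ℤ) : pvmhfPt D a x r + pvliRt a = pvmhfPt D a x (r - 1) := by
  obtain ⟨h1, h2⟩ := pvmhf_X_rt ha D (pvmhfPt D a x r)
  rw [pvmhf_X_pt ha] at h1
  rw [pvmhf_Y_pt ha] at h2
  exact pvmhf_eq_pt ha h1 h2

/-- `pvli_bar_step` of 15 in the frame -/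
theorem pvmhf_bar_step (ha : PvmaDir a) (D : ℤ × ℤ) (h1 : pvmhfPt D a (x + 1) r ∈ H) (h2 : pvmhfPt D a (x + 1) (r - 1) ∉ H) :
    pvtrStep H (pvtrStep H (pvmhfPt D a x r, pvmhfPt D a x (r - 1))) = (pvmhfPt D a (x + 1) r, pvmhfPt D a (x + 1) (r - 1)) ∧
      (pvtrStep H (pvmhfPt D a x r, pvmhfPt D a x (r - 1)) = (pvmhfPt D a x r, pvmhfPt D a (x + 1) (r - 1)) ∨ pvtrStep H (pvmhfPt D a x r, pvmhfPt D a x (r - 1)) = (pvmhfPt D a (x + 1) r, pvmhfPt D a x (r - 1))) := by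
  have := pvli_bar_step (H := H) (u := pvmhfPt D a x r) ha (by rw [pvmhf_pt_add ha]; exact h1) (by rw [pvmhf_pt_add ha, pvmhf_pt_rt ha]; exact h2)
  simp only [pvliDt, pvmhf_pt_add ha, pvmhf_pt_rt ha, Function.iterate_succ_apply, Function.iterate_zero, id] at this
  exact this

/-- only one diagonal of a square is an edge -/
theorem pvmhf_diag (ha : PvmaDir a) (D : ℤ × ℤ) (x x' r : ℤ) (h1 : triAdj (pvmhfPt D a x r) (pvmhfPt D a (x + 1) (r - 1))) (h2 : triAdj (pvmhfPt D a (x' + 1) r) (pvmhfPt D a x' (r - 1))) : False := by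
  rw [tsc_adj_iff] at h1 h2
  rcases ha with rfl | rfl | rfl | rfl <;> simp only [pvmhfPt] at h1 h2 <;> omega

/-- **BAR WALK**: from a dart into the cell `(x, r - 1)` under the row `r`, the contour runs along the row up to the dart of `(x + 2, r)` -/
theorem pvmhf_bar_walk (ha : PvmaDir a) (D : ℤ × ℤ) (hin : ∀ t, x - 1 ≤ t → t ≤ x + 2 → pvmhfPt D a t r ∈ H) (hout : ∀ t, x - 1 ≤ t → t ≤ x + 2 → pvmhfPt D a t (r - 1) ∉ H)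
    {d : (ℤ × ℤ) × (ℤ × ℤ)} (hd : d ∈ pvtrBd H) (hd2 : d.2 = pvmhfPt D a x (r - 1)) (hd1 : pvmhfY D a d.1 = r) :
    ∃ n, ((pvtrStep H)^[n] d).1 = pvmhfPt D a (x + 2) r ∧ ∀ m ≤ n, ∃ t, x ≤ t ∧ t ≤ x + 2 ∧ ((pvtrStep H)^[m] d).2 = pvmhfPt D a t (r - 1) := by
  obtain ⟨d1, d2⟩ := d
  simp only at hd2 hd1
  subst hd2
  have sm : ∀ t, x - 1 ≤ t → t ≤ x + 2 → (pvmhfPt D a t r, pvmhfPt D a t (r - 1)) ∈ pvtrBd H := fun t h1 h2 => ⟨hin t h1 h2, hout t h1 h2, by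
    show triAdj _ _
    rw [← pvmhf_pt_rt ha]
    exact pvmhf_adj_rt ha _⟩
  obtain ⟨em, om⟩ := pvmhf_bar_step (x := x - 1) (r := r) ha D (by rw [sub_add_cancel]; exact hin x (by omega) (by omega)) (by rw [sub_add_cancel]; exact hout x (by omega) (by omega))
  obtain ⟨e0, o0⟩ := pvmhf_bar_step (x := x) (r := r) ha D (hin (x + 1) (by omega) (by omega)) (hout (x + 1) (by omega) (by omega))
  obtain ⟨e1, o1⟩ := pvmhf_bar_step (x := x + 1) (r := r) ha D (by rw [add_assoc]; exact hin (x + 2) (by omega) (by omega)) (by rw [add_assoc]; exact hout (x + 2) (by omega) (by omega))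
  rw [sub_add_cancel] at em om
  rw [add_assoc, show (1 : ℤ) + 1 = 2 by norm_num] at e1 o1
  obtain ⟨a1, a2, -, -⟩ := pvmhf_adj ha D hd.2.2
  simp only at a1 a2
  rw [pvmhf_X_pt ha] at a1 a2
  have g0 : ∃ t, x ≤ t ∧ t ≤ x + 2 ∧ (pvtrStep H (pvmhfPt D a x r, pvmhfPt D a x (r - 1))).2 = pvmhfPt D a t (r - 1) := by
    rcases o0 with h | h
    · exact ⟨x + 1, by omega, by omega, by rw [h]⟩
    · exact ⟨x, by omega, by omega, by rw [h]⟩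
  have g1 : ∃ t, x ≤ t ∧ t ≤ x + 2 ∧ (pvtrStep H (pvmhfPt D a (x + 1) r, pvmhfPt D a (x + 1) (r - 1))).2 = pvmhfPt D a t (r - 1) := by
    rcases o1 with h | h
    · exact ⟨x + 2, by omega, by omega, by rw [h]⟩
    · exact ⟨x + 1, by omega, by omega, by rw [h]⟩
  rcases (by omega : pvmhfX D a d1 = x - 1 ∨ pvmhfX D a d1 = x ∨ pvmhfX D a d1 = x + 1) with hx | hx | hx
  · obtain rfl := pvmhf_eq_pt ha hx hd1
    rcases om with h | h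
    · refine ⟨5, ?_, ?_⟩
      · simp only [Function.iterate_succ_apply, Function.iterate_zero, id]
        rw [← h, em, e0, e1]
      · intro m hm
        interval_cases m <;> simp only [Function.iterate_succ_apply, Function.iterate_zero, id]
        · exact ⟨x, by omega, by omega, rfl⟩
        · rw [← h, em]; exact ⟨x, by omega, by omega, rfl⟩
        · rw [← h, em]; exact g0
        · rw [← h, em, e0]; exact ⟨x + 1, by omega, by omega, rfl⟩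
        · rw [← h, em, e0]; exact g1
        · rw [← h, em, e0, e1]; exact ⟨x + 2, by omega, by omega, rfl⟩
    · exfalso
      have hb := pvtr_iter_mem (sm (x - 1) (by omega) (by omega)) 1
      rw [Function.iterate_one, h] at hb
      have h1 := hd.2.2
      have h2 := hb.2.2
      simp only at h1 h2
      exact pvmhf_diag ha D (x - 1) (x - 1) r (by rw [sub_add_cancel]; exact h1) (by rw [sub_add_cancel]; exact h2)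
  · obtain rfl := pvmhf_eq_pt ha hx hd1
    refine ⟨4, ?_, ?_⟩
    · simp only [Function.iterate_succ_apply, Function.iterate_zero, id]
      rw [e0, e1]
    · intro m hm
      interval_cases m <;> simp only [Function.iterate_succ_apply, Function.iterate_zero, id]
      · exact ⟨x, by omega, by omega, rfl⟩
      · exact g0
      · rw [e0]; exact ⟨x + 1, by omega, by omega, rfl⟩
      · rw [e0]; exact g1
      · rw [e0, e1]; exact ⟨x + 2, by omega, by omega, rfl⟩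
  · obtain rfl := pvmhf_eq_pt ha hx hd1
    rcases o0 with h | h
    · exfalso
      have hb := pvtr_iter_mem (sm x (by omega) (by omega)) 1
      rw [Function.iterate_one, h] at hb
      have h1 := hd.2.2
      have h2 := hb.2.2
      simp only at h1 h2
      exact pvmhf_diag ha D x x r h2 h1
    · refine ⟨3, ?_, ?_⟩
      · simp only [Function.iterate_succ_apply, Function.iterate_zero, id]
        rw [← h, e0, e1]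
      · intro m hm
        interval_cases m <;> simp only [Function.iterate_succ_apply, Function.iterate_zero, id]
        · exact ⟨x, by omega, by omega, rfl⟩
        · rw [← h, e0]; exact ⟨x + 1, by omega, by omega, rfl⟩
        · rw [← h, e0]; exact g1
        · rw [← h, e0, e1]; exact ⟨x + 2, by omega, by omega, rfl⟩

end bar

/-! ## 9. the stretch `S` -/

section engine2

variable {𝔑 : PvmnNum} {τ : PvmnType} {ln : ((ℤ × ℤ) × (ℤ × ℤ)) × ℕ} {ap am y a D k : ℤ × ℤ} {b : ℤ} {𝔫 : PvmhfNum} {M : PvgwMap}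

/-- **(ENGINE)** -/
theorem pvmhf_S (hN : 𝔫.OK) (F : PvmhfFr M y a D 𝔫.κ 𝔫.g 𝔫.lt) (T : PvmhfTy 𝔑 τ ln ap am y a b) : ∃ S, PvmhfS 𝔫 M τ ln D a (pvmhfCp b) S := by
  obtain ⟨c1, c2, c3, c4, c5, c6, c7, -, -, -⟩ := id hN
  have hxc : 𝔫.xc ≤ -𝔫.g - 200 := by simp only [PvmhfNum.xc]; omega
  have e7 : 𝔫.b0 - 6 - 1 = 𝔫.b0 - 7 := by ring
  have I := pvmhf_in hN F T
  obtain ⟨e', l', j, L', -, hj0, hjl, hj, hloc⟩ := pvli_half_p I T.hl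
  have Dr := I.doors
  have hdl := pvtr_iter_mem L'.mem l'
  have hstop : ((pvtrStep (pvliHp M τ (pvmhfFa 𝔫 D a (pvmhfCp b))))^[l'] e').2 = pvmhfD2 𝔫 D a := L'.stop
  have hA2 := Dr.in2 _ hdl L'.stop
  have hY : pvmhfY D a ((pvtrStep (pvliHp M τ (pvmhfFa 𝔫 D a (pvmhfCp b))))^[l'] e').1 = 𝔫.b0 - 6 := by
    obtain ⟨a1, a2, a3, a4⟩ := pvmhf_adj F.dir D hdl.2.2
    rw [hstop] at a1 a2 a3 a4
    have hX2 : pvmhfX D a (pvmhfD2 𝔫 D a) = -𝔫.g - 80 := pvmhf_X_pt F.dir _ _ _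
    have hY2 : pvmhfY D a (pvmhfD2 𝔫 D a) = 𝔫.b0 - 7 := pvmhf_Y_pt F.dir _ _ _
    rw [hX2] at a1 a2
    rw [hY2] at a3 a4
    rcases hA2 with ⟨h1, h2, h3, h4⟩ | ⟨h1, h2, h3, h4⟩ <;> omega
  obtain ⟨n, hn1, hn2⟩ := pvmhf_bar_walk (H := pvliHp M τ (pvmhfFa 𝔫 D a (pvmhfCp b))) (x := -𝔫.g - 80) (r := 𝔫.b0 - 6) F.dir D
    (fun t t1 t2 => pvt_hull_sub (Or.inr (Or.inr (pvmhf_pt_mem F.dir (by omega) (by omega) (by omega) (by omega)))))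
    (fun t t1 t2 h => h (pvmhf_row_out hN F T (pvmhf_pt_mem F.dir (by omega) (by omega) (by omega) (by omega)))) hdl (by rw [hstop, e7]; rfl) hY
  have sh : ∀ m, (pvtrStep (pvliHp M τ (pvmhfFa 𝔫 D a (pvmhfCp b))))^[l' + m] e' = (pvtrStep (pvliHp M τ (pvmhfFa 𝔫 D a (pvmhfCp b))))^[m] ((pvtrStep (pvliHp M τ (pvmhfFa 𝔫 D a (pvmhfCp b))))^[l'] e') := by
    intro m
    rw [Nat.add_comm, Function.iterate_add_apply]
  have hZ := pvli_stop_fwd Dr L' (X := M.pre (pvtwN 4 (pvmnCells τ 0 8)) ∪ pvmhfA2 𝔫 D a (pvmhfCp b)) (Z := pvmhfZ 𝔫 D a) (k := n)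
    (tsc_conn_union (pvgw_pre_conn M (pvtw_N_conn (pvmn_cells_conn T.ts (by omega) (by omega)))) I.A2_conn (a := pvmhfPt D a 𝔫.xc (𝔫.yb (pvmhfCp b))) (b := pvmhfPt D a 𝔫.xc (𝔫.yb (pvmhfCp b)))
      (pvtw_N_mono (by norm_num) (pvmn_C_sub 8 (Nat.zero_le _) le_rfl) (pvmhf_touch hN F T)) (Or.inl (pvmhf_touch_mem hN F.dir D _)) (Or.inl rfl))
    (pvmhf_bx_conn F.dir D _ _ _ _)
    (Set.union_subset (Set.subset_union_left.trans pvt_hull_sub) (((pvmhf_A2_sub 𝔫 D a _).trans Set.subset_union_right).trans pvt_hull_sub))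
    (fun v hv => pvt_hull_sub (Or.inr (Or.inr (pvmhf_bx_mono (by omega) le_rfl le_rfl le_rfl hv))))
    (by
      rw [Set.disjoint_left]
      rintro v hv ⟨z1, z2, z3, z4⟩
      rcases hv with h | h
      · have h' : M.ap v ∈ pvtwN 4 (pvmnCells τ 0 8) := h
        rw [pvmhf_ap_near hN F (by omega) (by omega) (by omega) (by omega)] at h'
        exact T.y_off (pvtw_N_mono (by norm_num) le_rfl h')
      · rcases h with ⟨h1, h2, h3, h4⟩ | ⟨h1, h2, h3, h4⟩ <;> omega)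
    (fun v hv => Or.inl (pvtw_N_mono le_rfl (pvmn_cells_mono le_rfl (by omega)) hv))
    Set.subset_union_right
    (by
      rw [sh, hn1]
      exact pvmhf_pt_mem F.dir (by omega) (by omega) (by omega) (by omega))
    (by
      intro m hm h
      obtain ⟨t, t1, t2, ht⟩ := hn2 m hm
      rw [sh, ht] at h
      have h' : M.ap (pvmhfPt D a t (𝔫.b0 - 6 - 1)) ∈ pvmnDrm τ := h
      rw [pvmhf_ap_near hN F (by rw [pvmhf_X_pt F.dir]; omega) (by rw [pvmhf_X_pt F.dir]; omega) (by rw [pvmhf_Y_pt F.dir]; omega) (by rw [pvmhf_Y_pt F.dir]; omega)] at h'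
      exact T.drm9 (pvtw_N_mono (by norm_num) le_rfl T.y9) h')
  refine ⟨pvgwOut (pvliHp M τ (pvmhfFa 𝔫 D a (pvmhfCp b))) e' j l', pvgw_out_finite _ _ _ _, pvgw_out_conn L'.mem _ _, pvgw_out_off L'.mem _ _, ⟨_, ⟨j, le_rfl, hjl.le, rfl⟩, congrArg Prod.snd hj⟩,
    ⟨l', hjl.le, le_rfl, hstop.symm⟩, ?_⟩
  rintro w ⟨i, hi1, hi2, rfl⟩
  refine ⟨_, (pvtr_iter_mem L'.mem i).2.2, ?_⟩
  rcases hloc i hi1 hi2 with h | h
  · exact Or.inl h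
  · rcases h with h | ⟨h1, h2, h3, h4⟩
    · exact Or.inr (Or.inl h)
    · refine Or.inr (Or.inr ⟨h1, ?_, h3, h4⟩)
      by_contra hc
      exact hZ i hi2 ⟨by omega, h2, h3, h4⟩

end engine2

/-! ## 10. the lists -/

section lists

variable {𝔑 : PvmnNum} {τ : PvmnType} {ln : ((ℤ × ℤ) × (ℤ × ℤ)) × ℕ} {ap am y a D k : ℤ × ℤ} {b : ℤ} {𝔫 : PvmhfNum} {M : PvgwMap} {S : Set (ℤ × ℤ)}

theorem pvmhf_N_disj {P Q : Set (ℤ × ℤ)} {n m : ℕ} (h : Disjoint (pvtwN (m + n) P) Q) : Disjoint (pvtwN n P) (pvtwN m Q) := by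
  rw [Set.disjoint_left]
  intro w h1 h2
  obtain ⟨q, hq, hwq⟩ := pvtw_N_iff.1 h2
  refine Set.disjoint_left.1 h ?_ hq
  rw [← pvtw_N_add]
  exact pvtw_N_iff.2 ⟨w, h1, pvtw_N_symm hwq⟩

/-- the cells of the lane -/
theorem PvmhfTy.R_off (T : PvmhfTy 𝔑 τ ln ap am y a b) {r : ℤ × ℤ} (hr : r ∈ pvlpR τ ln) : r ∉ pvtwN 4 (pvmnCells τ 0 9) ∧ r ∉ pvtwN 8 (τ.C 9 : Set (ℤ × ℤ)) ∧ r ∈ pvtwN 5 (pvmnCells τ 1 8) := by
  obtain ⟨⟨h1, h2⟩, h3⟩ := pvlp_R_sub T.ts T.hl hr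
  refine ⟨fun h => h2 (pvt_hull_sub h), fun h => h3 (Or.inr h), ?_⟩
  obtain ⟨k, -, -, hk⟩ := pvmn_N_cells.1 h1
  have k2 := k.2
  have k0 : k.1 ≠ 0 := by
    intro h0
    obtain rfl : k = 0 := Fin.ext h0
    exact h3 (Or.inl (pvtw_N_mono (by norm_num) le_rfl hk))
  have k9 : k.1 ≠ 9 := by
    intro h0
    obtain rfl : k = 9 := Fin.ext h0
    exact h3 (Or.inr (pvtw_N_mono (by norm_num) le_rfl hk))
  exact pvmn_N_cells.2 ⟨k, by omega, by omega, hk⟩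

theorem PvmhfTy.A1_R (T : PvmhfTy 𝔑 τ ln ap am y a b) : pvlpA1 τ ln ∈ pvlpR τ ln := (pvlp_A1 T.ts T.hl).1

theorem PvmhfTy.A1_8 (T : PvmhfTy 𝔑 τ ln ap am y a b) : pvlpA1 τ ln ∈ pvtwN 5 (τ.C 8 : Set (ℤ × ℤ)) :=
  pvgw_N_adj' (pvgw_lane_last T.ts T.hl) (Or.inr (hx_tri_symm _ _ (pvtr_iter_mem T.hl.mem (ln.2 - 1)).2.2))

theorem PvmhfTy.A1_7 (T : PvmhfTy 𝔑 τ ln ap am y a b) : pvlpA1 τ ln ∉ pvtwN 10 (τ.C 7 : Set (ℤ × ℤ)) := by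
  obtain ⟨-, x, hx, hadj⟩ := pvlp_A1 T.ts T.hl
  have h9 : pvlpA1 τ ln ∈ pvtwN 9 (τ.C 9 : Set (ℤ × ℤ)) := pvgw_N_adj' hx (Or.inr hadj)
  exact fun h => Set.disjoint_left.1 (T.ts.far 7 9 (by norm_num)) h (pvtw_N_mono (by norm_num) le_rfl h9)

/-- the cells near `y` are not near the lane -/
theorem PvmhfTy.y_R (T : PvmhfTy 𝔑 τ ln ap am y a b) {n m : ℕ} (hnm : n + m ≤ 7) : Disjoint (pvtwN n {y}) (pvtwN m (pvlpR τ ln)) := by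
  refine pvmhf_N_disj (Set.disjoint_left.2 fun r h hr => (T.R_off hr).2.1 ?_)
  have : r ∈ pvtwN (m + n) (pvtwN 1 (τ.C 9 : Set (ℤ × ℤ))) := pvtw_N_mono le_rfl (Set.singleton_subset_iff.2 T.y9) h
  rw [pvtw_N_add] at this
  exact pvtw_N_mono (by omega) le_rfl this

/-- the cells near `y + a` are far from the pieces `0..8` -/
theorem PvmhfTy.ya_off (T : PvmhfTy 𝔑 τ ln ap am y a b) {n m : ℕ} (hnm : n + m ≤ 8) : Disjoint (pvtwN n {y + a}) (pvtwN m (pvmnCells τ 0 8)) := by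
  refine (pvmhf_N_disj (Set.disjoint_left.2 fun c h hc => ?_)).symm
  obtain rfl : c = y + a := hc
  rw [← pvmhf_cl_one] at h
  exact Set.disjoint_left.1 pvfjm_E_off T.e1 (pvtw_N_mono (by omega) le_rfl h)

theorem PvmhfTy.ya_y (T : PvmhfTy 𝔑 τ ln ap am y a b) (n : ℕ) : pvtwN n {y + a} ⊆ pvtwN (n + 1) {y} := by
  rw [← pvtw_N_add]
  refine pvtw_N_mono le_rfl (Set.singleton_subset_iff.2 ?_)
  have : pvmhfCl y a 1 0 ∈ pvtwN 1 {pvmhfCl y a 0 0} := (pvmhf_cl_N T.dir y).2 ⟨by omega, by omega, by omega, by omega⟩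
  rwa [pvmhf_cl_one, pvmhf_cl_zero] at this

/-- route indices: within `6` of `y` -/
theorem PvmhfTy.rc6 (T : PvmhfTy 𝔑 τ ln ap am y a b) {i j : ℤ} (h : PvmhfRc (pvmhfCp b) i j) : pvmhfCl y a i j ∈ pvtwN 6 {y} := by
  obtain ⟨h1, h2, h3, h4⟩ := h
  unfold pvmhfCp at h3 h4
  have : pvmhfCl y a i j ∈ pvtwN 6 {pvmhfCl y a 0 0} := (pvmhf_cl_N T.dir y).2 ⟨by omega, by omega, by omega, by omega⟩
  rwa [pvmhf_cl_zero] at this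

/-- where the stretch lives -/
theorem PvmhfS.where (hS : PvmhfS 𝔫 M τ ln D a (pvmhfCp b) S) (ha : PvmaDir a) {w : ℤ × ℤ} (hw : w ∈ S) : M.ap w ∈ pvtwN 5 (pvmnCells τ 7 8) ∨
    w ∈ pvmhfBx D a (𝔫.xc - 7) (𝔫.xc + 7) (𝔫.ylo (pvmhfCp b) - 7) (𝔫.yhi (pvmhfCp b) + 7) ∪ pvmhfBx D a (𝔫.xc - 7) (-𝔫.g - 78) (𝔫.b0 - 7) (𝔫.b1 + 7) := by
  obtain ⟨c, hc, h⟩ := hS.loc w hw
  rcases h with h | h
  · exact Or.inl (pvgw_N_adj' h (pvgw_adj M (hx_tri_symm _ _ hc)))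
  · obtain ⟨a1, a2, a3, a4⟩ := pvmhf_adj ha D hc
    rcases h with ⟨h1, h2, h3, h4⟩ | ⟨h1, h2, h3, h4⟩
    · exact Or.inr (Or.inl ⟨by omega, by omega, by omega, by omega⟩)
    · exact Or.inr (Or.inr ⟨by omega, by omega, by omega, by omega⟩)

/-- collars of the explicit black core -/
theorem pvmhf_N_Rt (ha : PvmaDir a) (𝔫 : PvmhfNum) (D : ℤ × ℤ) (e : ℤ) (n : ℕ) : pvtwN n (pvmhfRt 𝔫 D a e) ⊆
    pvmhfBx D a (𝔫.xc - n) (𝔫.xc + n) (𝔫.ylo e - n) (𝔫.yhi e + n) ∪ pvmhfBx D a (𝔫.xc - n) (-𝔫.xe + n) (𝔫.b0 - n) (𝔫.b1 + n) := by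
  unfold pvmhfRt
  rw [pvtw_N_union]
  exact Set.union_subset_union (pvmhf_N_bx_sub ha) (pvmhf_N_bx_sub ha)

/-- the 9-collar of the explicit black core lies over the cells within `6` of `y` -/
theorem pvmhf_Rt_ap (hN : 𝔫.OK) (F : PvmhfFr M y a D 𝔫.κ 𝔫.g 𝔫.lt) (T : PvmhfTy 𝔑 τ ln ap am y a b) {n : ℕ} (hn : n ≤ 9) : pvtwN n (pvmhfRt 𝔫 D a (pvmhfCp b)) ⊆ M.pre (pvtwN 6 {y}) := by
  obtain ⟨c1, c2, c3, c4, c5, c6, c7, -, -, -⟩ := id hN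
  intro k hk
  show M.ap k ∈ pvtwN 6 {y}
  rcases pvmhf_N_Rt F.dir 𝔫 D _ n hk with ⟨h1, h2, h3, h4⟩ | ⟨h1, h2, h3, h4⟩
  · obtain ⟨i, j, hr, h⟩ := pvmhf_ap_col hN F (k := k) (e := pvmhfCp b) (by omega) (by omega) (by omega) (by omega)
    rw [h]
    exact T.rc6 hr
  · rcases lt_or_ge (pvmhfX D a k) (-𝔫.g) with hx | hx
    · obtain ⟨i, j, hr, h⟩ := pvmhf_ap_bar hN F (k := k) (e := pvmhfCp b) (by omega) hx (by omega) (by omega)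
      rw [h]
      exact T.rc6 hr
    · obtain ⟨i, i0, i1, h⟩ := pvmhf_ap_front hN F (k := k) (by omega) (by omega) (by omega) (by omega)
      rw [h]
      have : pvmhfCl y a i 0 ∈ pvtwN 6 {pvmhfCl y a 0 0} := (pvmhf_cl_N T.dir y).2 ⟨by omega, by omega, by omega, by omega⟩
      rwa [pvmhf_cl_zero] at this

/-- the menu cells of the black hook and of the black room -/
def pvmhfEB (τ : PvmnType) : Set (ℤ × ℤ) := pvtwN 3 (τ.C 7 : Set (ℤ × ℤ)) ∪ pvtwN 2 (pvmnCells τ 5 8)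

theorem pvmhf_eqns_cite5 : True := by
  have := @pvmhfEB.eq_1
  trivial

theorem pvmhf_EB_N (τ : PvmnType) : pvtwN 1 (pvmhfEB τ) = pvtwN 4 (τ.C 7 : Set (ℤ × ℤ)) ∪ pvtwN 3 (pvmnCells τ 5 8) := by
  unfold pvmhfEB
  rw [pvtw_N_union, pvtw_N_add, pvtw_N_add]

theorem pvmhf_EB_sub (τ : PvmnType) : pvtwN 1 (pvmhfEB τ) ⊆ pvtwN 4 (pvmnCells τ 0 8) := by
  rw [pvmhf_EB_N]
  exact Set.union_subset (pvtw_N_mono le_rfl (pvmn_C_sub 7 (Nat.zero_le _) (by norm_num))) (pvtw_N_mono (by norm_num) (pvmn_cells_mono (Nat.zero_le _) le_rfl))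

/-- the white bar lies over `y`, `y + a` -/
theorem pvmhf_WB_ap (hN : 𝔫.OK) (F : PvmhfFr M y a D 𝔫.κ 𝔫.g 𝔫.lt) {n : ℕ} (hn : n ≤ 5) (hk : k ∈ pvtwN n (pvmhfWB 𝔫 D a)) : ∃ i, 0 ≤ i ∧ i ≤ 1 ∧ M.ap k = pvmhfCl y a i 0 := by
  obtain ⟨c1, c2, c3, c4, c5, c6, c7, -, -, -⟩ := id hN
  obtain ⟨h1, h2, h3, h4⟩ := pvmhf_N_bx_sub F.dir hk
  exact pvmhf_ap_front hN F (by omega) (by omega) (by omega) (by omega)

/-- **all the white cores lie over menu cells which are not next to the black hook and room** -/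
theorem pvmhf_white_pre (hN : 𝔫.OK) (F : PvmhfFr M y a D 𝔫.κ 𝔫.g 𝔫.lt) (T : PvmhfTy 𝔑 τ ln ap am y a b) (hS : PvmhfS 𝔫 M τ ln D a (pvmhfCp b) S) :
    pvmhfXW 𝔫 M τ ln D a S ∪ M.pre (pvlpR τ ln) ⊆ M.pre (pvtwN 1 (pvmhfEB τ))ᶜ := by
  rintro w (((hw | hw) | hw) | hw) h
  · exact Set.disjoint_left.1 hS.off hw (pvt_hull_sub (Or.inl (pvmhf_EB_sub τ h)))
  · have hA : pvlpA1 τ ln ∈ pvtwN 1 {M.ap w} := pvtw_N_symm hw
    have h' : M.ap w ∈ pvtwN 1 (pvmhfEB τ) := h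
    rw [pvmhf_EB_N] at h'
    rcases h' with h' | h'
    · refine T.A1_7 (pvtw_N_mono (by norm_num : 1 + 4 ≤ 10) le_rfl ?_)
      rw [← pvtw_N_add]
      exact pvtw_N_iff.2 ⟨_, h', hA⟩
    · refine (T.R_off T.A1_R).1 (pvtw_N_mono (by norm_num : 1 + 3 ≤ 4) (pvmn_cells_mono (a := 5) (b := 8) (Nat.zero_le _) (by norm_num)) ?_)
      rw [← pvtw_N_add]
      exact pvtw_N_iff.2 ⟨_, h', hA⟩
  · obtain ⟨i, i0, i1, hi⟩ := pvmhf_WB_ap hN F (n := 0) (by norm_num) (pvtw_N_sub hw)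
    have h' := pvmhf_EB_sub τ h
    rw [hi] at h'
    exact T.off8 (n := 1) (m := 4) (by norm_num) (by omega) (by omega) (by omega) (by omega) h'
  · exact (T.R_off hw).1 (pvtw_N_mono le_rfl (pvmn_cells_mono le_rfl (by norm_num)) (pvmhf_EB_sub τ h))

theorem pvmhf_sep_S (hN : 𝔫.OK) (F : PvmhfFr M y a D 𝔫.κ 𝔫.g 𝔫.lt) (T : PvmhfTy 𝔑 τ ln ap am y a b) (hS : PvmhfS 𝔫 M τ ln D a (pvmhfCp b) S) :
    Disjoint (pvtwN 3 (pvmhfRt 𝔫 D a (pvmhfCp b))) (pvtwN 2 S) := by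
  obtain ⟨c1, c2, c3, c4, c5, c6, c7, -, -, -⟩ := id hN
  refine pvmhf_N_disj (Set.disjoint_left.2 fun w hw hwS => ?_)
  have hoff : w ∉ pvmhfFa 𝔫 D a (pvmhfCp b) := fun h => Set.disjoint_left.1 hS.off hwS (pvt_hull_sub (Or.inr h))
  rcases pvmhf_N_Rt F.dir 𝔫 D _ _ hw with ⟨h1, h2, h3, h4⟩ | ⟨h1, h2, h3, h4⟩
  · push_cast at h1 h2 h3 h4
    exact hoff (Or.inl ⟨by omega, by omega, by omega, by omega⟩)
  · push_cast at h1 h2 h3 h4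
    rcases le_or_gt (pvmhfX D a w) (-𝔫.g - 40) with hx | hx
    · exact hoff (Or.inr ⟨by omega, hx, by omega, by omega⟩)
    · rcases hS.where F.dir hwS with h | h
      · obtain ⟨i, i0, i1, hi⟩ := pvmhf_ap_front hN F (k := w) (by omega) (by omega) (by omega) (by omega)
        rw [hi] at h
        exact T.off8 (n := 1) (m := 5) (by norm_num) (by omega) (by omega) (by omega) (by omega) (pvtw_N_mono le_rfl (pvmn_cells_mono (Nat.zero_le _) le_rfl) h)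
      · have hxc : 𝔫.xc ≤ -𝔫.g - 200 := by simp only [PvmhfNum.xc]; omega
        rcases h with ⟨k1, k2, k3, k4⟩ | ⟨k1, k2, k3, k4⟩ <;> omega

theorem pvmhf_sep_A (hN : 𝔫.OK) (F : PvmhfFr M y a D 𝔫.κ 𝔫.g 𝔫.lt) (T : PvmhfTy 𝔑 τ ln ap am y a b) :
    Disjoint (pvtwN 3 (pvmhfRt 𝔫 D a (pvmhfCp b))) (pvtwN 2 (M.pre (pvtwN 1 {pvlpA1 τ ln}))) := by
  refine pvmhf_N_disj (Set.disjoint_left.2 fun w hw hwA => ?_)
  exact Set.disjoint_left.1 (T.y_R (n := 6) (m := 1) (by norm_num)) (pvmhf_Rt_ap hN F T (by norm_num) hw) (pvtw_N_mono le_rfl (Set.singleton_subset_iff.2 T.A1_R) hwA)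

theorem pvmhf_sep_W (hN : 𝔫.OK) (ha : PvmaDir a) (D : ℤ × ℤ) (e : ℤ) : Disjoint (pvtwN 3 (pvmhfRt 𝔫 D a e)) (pvtwN 2 (pvmhfWB 𝔫 D a)) := by
  obtain ⟨c1, c2, c3, c4, c5, c6, c7, -, -, -⟩ := id hN
  have hxc : 𝔫.xc ≤ -𝔫.g - 200 := by simp only [PvmhfNum.xc]; omega
  rw [Set.disjoint_left]
  intro w hw hw'
  obtain ⟨k1, k2, k3, k4⟩ := pvmhf_N_bx_sub ha hw'
  push_cast at k1 k2 k3 k4
  rcases pvmhf_N_Rt ha 𝔫 D _ _ hw with ⟨h1, h2, h3, h4⟩ | ⟨h1, h2, h3, h4⟩ <;> push_cast at h1 h2 h3 h4 <;> omega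

theorem pvmhf_sep_R (hN : 𝔫.OK) (F : PvmhfFr M y a D 𝔫.κ 𝔫.g 𝔫.lt) (T : PvmhfTy 𝔑 τ ln ap am y a b) :
    Disjoint (pvtwN 3 (pvmhfRt 𝔫 D a (pvmhfCp b))) (pvtwN 𝔫.c1 (M.pre (pvlpR τ ln))) := by
  have c10 := hN.c12
  have c9 := hN.c2_2
  refine F.close (E := pvtwN 6 {y}) (E' := pvlpR τ ln) (by push_cast at c10 ⊢; omega) ?_ Set.Subset.rfl ?_
  · have := pvmhf_Rt_ap hN F T (n := 0) (by norm_num)
    rwa [pvtw_N_zero] at this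
  · rw [pvtw_N_add]
    have := T.y_R (n := 7) (m := 0) (by norm_num)
    rwa [pvtw_N_zero] at this

/-- **SEP** -/
theorem pvmhf_sep (hN : 𝔫.OK) (F : PvmhfFr M y a D 𝔫.κ 𝔫.g 𝔫.lt) (T : PvmhfTy 𝔑 τ ln ap am y a b) (hS : PvmhfS 𝔫 M τ ln D a (pvmhfCp b) S) :
    Disjoint (pvtwN 1 (pvmhfBk 𝔫 M τ D a (pvmhfCp b))) (pvmhfWh 𝔫 M τ ln D a S) := by
  have c8 := hN.c1_2
  have c9 := hN.c2_2
  have c10 := hN.c12
  rw [Set.disjoint_left]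
  intro k hk1 hk2
  have hB : k ∈ pvtwN (𝔫.c2 + 1) (M.pre (pvmhfEB τ)) ∨ k ∈ pvtwN 3 (pvmhfRt 𝔫 D a (pvmhfCp b)) := by
    unfold pvmhfBk pvmhfXB at hk1
    rw [pvtw_N_union, pvtw_N_add, pvtw_N_add, pvtw_N_union] at hk1
    rcases hk1 with (h | h) | h
    · exact Or.inl (pvtw_N_mono (by omega) (pvgw_pre_mono M (Set.union_subset_union_right _ (pvtw_N_mono le_rfl (pvmn_C_sub 8 (by norm_num) le_rfl)))) h)
    · exact Or.inr h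
    · exact Or.inl (pvtw_N_mono (by omega) (pvgw_pre_mono M Set.subset_union_right) h)
  rcases hB with hB | hB
  · refine Set.disjoint_left.1 (F.close (n := 𝔫.c2 + 1) (m := 𝔫.c1) (by push_cast at c10 ⊢; omega) Set.Subset.rfl (pvmhf_white_pre hN F T hS) disjoint_compl_right) hB ?_
    rcases hk2 with h | h
    · exact pvtw_N_mono c8 Set.subset_union_left h
    · exact pvtw_N_mono le_rfl Set.subset_union_right h
  · rcases hk2 with h | h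
    · unfold pvmhfXW at h
      rw [pvtw_N_union, pvtw_N_union] at h
      rcases h with (h | h) | h
      · exact Set.disjoint_left.1 (pvmhf_sep_S hN F T hS) hB h
      · exact Set.disjoint_left.1 (pvmhf_sep_A hN F T) hB h
      · exact Set.disjoint_left.1 (pvmhf_sep_W hN F.dir D _) hB h
    · exact Set.disjoint_left.1 (pvmhf_sep_R hN F T) hB h

/-- **NOTHING ELSE IN FRONT, BLACK** -/
theorem pvmhf_winBk (hN : 𝔫.OK) (F : PvmhfFr M y a D 𝔫.κ 𝔫.g 𝔫.lt) (T : PvmhfTy 𝔑 τ ln ap am y a b) :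
    ∀ k ∈ pvmhfBk 𝔫 M τ D a (pvmhfCp b), M.ap k ∈ pvtwN 2 {y + a} → -𝔫.g - 70 ≤ pvmhfX D a k → k ∈ pvmhfBx D a (-𝔫.g - 70) (-𝔫.xe + 2) (𝔫.b0 - 2) (𝔫.b1 + 2) := by
  obtain ⟨c1, c2, c3, c4, c5, c6, c7, c8, c9, c10⟩ := id hN
  have hxc : 𝔫.xc ≤ -𝔫.g - 200 := by simp only [PvmhfNum.xc]; omega
  intro k hk hw hx
  have hoff : M.ap k ∉ pvtwN 4 (pvmnCells τ 0 8) := fun h => Set.disjoint_left.1 (T.ya_off (n := 2) (m := 4) (by norm_num)) hw h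
  unfold pvmhfBk pvmhfXB at hk
  rw [pvtw_N_union] at hk
  rcases hk with (h | h) | h
  · refine absurd (F.N_pre (by push_cast; omega) h) fun h' => hoff ?_
    have h'' : M.ap k ∈ pvtwN 1 (pvtwN 3 (τ.C 7 : Set (ℤ × ℤ)) ∪ pvtwN 2 (τ.C 8 : Set (ℤ × ℤ))) := h'
    rw [pvtw_N_union, pvtw_N_add, pvtw_N_add] at h''
    rcases h'' with h'' | h''
    · exact pvtw_N_mono (by norm_num) (pvmn_C_sub 7 (Nat.zero_le _) (by norm_num)) h''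
    · exact pvtw_N_mono (by norm_num) (pvmn_C_sub 8 (Nat.zero_le _) (by norm_num)) h''
  · rcases pvmhf_N_Rt F.dir 𝔫 D _ _ h with ⟨h1, h2, h3, h4⟩ | ⟨h1, h2, h3, h4⟩ <;> push_cast at h1 h2 h3 h4
    · omega
    · exact ⟨hx, h2, h3, h4⟩
  · refine absurd (F.N_pre (by push_cast at c10 ⊢; omega) h) fun h' => hoff ?_
    have h'' : M.ap k ∈ pvtwN 1 (pvtwN 2 (pvmnCells τ 5 8)) := h'
    rw [pvtw_N_add] at h''
    exact pvtw_N_mono (by norm_num) (pvmn_cells_mono (Nat.zero_le _) le_rfl) h''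

/-- **NOTHING ELSE IN FRONT, WHITE** -/
theorem pvmhf_winWh (hN : 𝔫.OK) (F : PvmhfFr M y a D 𝔫.κ 𝔫.g 𝔫.lt) (T : PvmhfTy 𝔑 τ ln ap am y a b) (hS : PvmhfS 𝔫 M τ ln D a (pvmhfCp b) S) :
    ∀ k ∈ pvmhfWh 𝔫 M τ ln D a S, M.ap k ∈ pvtwN 2 {y + a} → -𝔫.g - 70 ≤ pvmhfX D a k → k ∈ pvmhfBx D a (-𝔫.g - 70) (-𝔫.xe + 2) (𝔫.w0 - 2) (𝔫.b0 - 5) := by
  obtain ⟨c1, c2, c3, c4, c5, c6, c7, c8, c9, c10⟩ := id hN
  have hxc : 𝔫.xc ≤ -𝔫.g - 200 := by simp only [PvmhfNum.xc]; omega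
  intro k hk hw hx
  have hwy : M.ap k ∈ pvtwN 3 {y} := T.ya_y 2 hw
  unfold pvmhfWh pvmhfXW at hk
  rw [pvtw_N_union, pvtw_N_union] at hk
  rcases hk with ((h | h) | h) | h
  · exfalso
    obtain ⟨w, hwS, hkw⟩ := pvtw_N_iff.1 h
    rcases hS.where F.dir hwS with h' | h'
    · have h6 : M.ap k ∈ pvtwN (1 + 5) (pvmnCells τ 7 8) := by
        rw [← pvtw_N_add]
        exact pvtw_N_iff.2 ⟨_, h', F.lip (by push_cast; omega) hkw⟩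
      exact Set.disjoint_left.1 (T.ya_off (n := 2) (m := 6) (by norm_num)) hw (pvtw_N_mono (by norm_num) (pvmn_cells_mono (Nat.zero_le _) le_rfl) h6)
    · obtain ⟨a1, a2, a3, a4⟩ := (pvmhf_N_iff F.dir D).1 hkw
      push_cast at a1 a2 a3 a4
      rcases h' with ⟨k1, k2, k3, k4⟩ | ⟨k1, k2, k3, k4⟩ <;> omega
  · exfalso
    have h' : M.ap k ∈ pvtwN 1 (pvtwN 1 {pvlpA1 τ ln}) := F.N_pre (by push_cast; omega) h
    rw [pvtw_N_add] at h'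
    exact Set.disjoint_left.1 (T.y_R (n := 3) (m := 2) (by norm_num)) hwy (pvtw_N_mono (by norm_num) (Set.singleton_subset_iff.2 T.A1_R) h')
  · obtain ⟨h1, h2, h3, h4⟩ := pvmhf_N_bx_sub F.dir h
    push_cast at h1 h2 h3 h4
    exact ⟨hx, h2, h3, by omega⟩
  · exfalso
    exact Set.disjoint_left.1 (T.y_R (n := 3) (m := 1) (by norm_num)) hwy (F.N_pre (by push_cast at c10 ⊢; omega) h)

/-- the black walk with its collar -/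
theorem pvmhf_XB2 (hN : 𝔫.OK) (F : PvmhfFr M y a D 𝔫.κ 𝔫.g 𝔫.lt) (T : PvmhfTy 𝔑 τ ln ap am y a b) :
    pvtwN 2 (pvmhfXB 𝔫 M τ D a (pvmhfCp b)) ⊆ M.pre (pvtwN 8 (pvmnCells τ 7 8)) ∪ pvmhfBx D a (-𝔫.g) (-𝔫.xe + 2) (𝔫.w0 - 2) (𝔫.b1 + 2) := by
  obtain ⟨c1, c2, c3, c4, c5, c6, c7, c8, c9, c10⟩ := id hN
  intro k hk
  unfold pvmhfXB at hk
  rw [pvtw_N_union] at hk
  have hrc : ∀ i j, PvmhfRc (pvmhfCp b) i j → M.ap k = pvmhfCl y a i j → k ∈ M.pre (pvtwN 8 (pvmnCells τ 7 8)) := by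
    intro i j hr h
    show M.ap k ∈ pvtwN 8 (pvmnCells τ 7 8)
    rw [h]
    exact pvtw_N_mono le_rfl (pvmn_C_sub 8 (by norm_num) le_rfl) (T.rc8 hr)
  rcases hk with h | h
  · left
    have h'' : M.ap k ∈ pvtwN 1 (pvtwN 3 (τ.C 7 : Set (ℤ × ℤ)) ∪ pvtwN 2 (τ.C 8 : Set (ℤ × ℤ))) := F.N_pre (by push_cast; omega) h
    rw [pvtw_N_union, pvtw_N_add, pvtw_N_add] at h''
    rcases h'' with h'' | h''
    · exact pvtw_N_mono (by norm_num) (pvmn_C_sub 7 le_rfl (by norm_num)) h''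
    · exact pvtw_N_mono (by norm_num) (pvmn_C_sub 8 (by norm_num) le_rfl) h''
  · rcases pvmhf_N_Rt F.dir 𝔫 D _ _ h with ⟨h1, h2, h3, h4⟩ | ⟨h1, h2, h3, h4⟩ <;> push_cast at h1 h2 h3 h4
    · obtain ⟨i, j, hr, h'⟩ := pvmhf_ap_col hN F (k := k) (e := pvmhfCp b) (by omega) (by omega) (by omega) (by omega)
      exact Or.inl (hrc i j hr h')
    · rcases lt_or_ge (pvmhfX D a k) (-𝔫.g) with hx | hx
      · obtain ⟨i, j, hr, h'⟩ := pvmhf_ap_bar hN F (k := k) (e := pvmhfCp b) (by omega) hx (by omega) (by omega)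
        exact Or.inl (hrc i j hr h')
      · exact Or.inr ⟨hx, h2, by omega, h4⟩

/-- the white walk with its collar -/
theorem pvmhf_XW2 (hN : 𝔫.OK) (F : PvmhfFr M y a D 𝔫.κ 𝔫.g 𝔫.lt) (T : PvmhfTy 𝔑 τ ln ap am y a b) (hS : PvmhfS 𝔫 M τ ln D a (pvmhfCp b) S) :
    pvtwN 2 (pvmhfXW 𝔫 M τ ln D a S) ⊆ M.pre (pvtwN 8 (pvmnCells τ 7 8)) ∪ pvmhfBx D a (-𝔫.g) (-𝔫.xe + 2) (𝔫.w0 - 2) (𝔫.b1 + 2) := by
  obtain ⟨c1, c2, c3, c4, c5, c6, c7, c8, c9, c10⟩ := id hN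
  have hxc : 𝔫.xc ≤ -𝔫.g - 200 := by simp only [PvmhfNum.xc]; omega
  intro k hk
  unfold pvmhfXW at hk
  rw [pvtw_N_union, pvtw_N_union] at hk
  have hrc : ∀ i j, PvmhfRc (pvmhfCp b) i j → M.ap k = pvmhfCl y a i j → k ∈ M.pre (pvtwN 8 (pvmnCells τ 7 8)) := by
    intro i j hr h
    show M.ap k ∈ pvtwN 8 (pvmnCells τ 7 8)
    rw [h]
    exact pvtw_N_mono le_rfl (pvmn_C_sub 8 (by norm_num) le_rfl) (T.rc8 hr)
  rcases hk with (h | h) | h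
  · left
    obtain ⟨w, hwS, hkw⟩ := pvtw_N_iff.1 h
    rcases hS.where F.dir hwS with h' | h'
    · have h6 : M.ap k ∈ pvtwN (1 + 5) (pvmnCells τ 7 8) := by
        rw [← pvtw_N_add]
        exact pvtw_N_iff.2 ⟨_, h', F.lip (by push_cast; omega) hkw⟩
      exact pvtw_N_mono (by norm_num) le_rfl h6
    · obtain ⟨a1, a2, a3, a4⟩ := (pvmhf_N_iff F.dir D).1 hkw
      push_cast at a1 a2 a3 a4
      rcases h' with ⟨k1, k2, k3, k4⟩ | ⟨k1, k2, k3, k4⟩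
      · obtain ⟨i, j, hr, h'⟩ := pvmhf_ap_col hN F (k := k) (e := pvmhfCp b) (by omega) (by omega) (by omega) (by omega)
        exact hrc i j hr h'
      · obtain ⟨i, j, hr, h'⟩ := pvmhf_ap_bar hN F (k := k) (e := pvmhfCp b) (by omega) (by omega) (by omega) (by omega)
        exact hrc i j hr h'
  · left
    have h' : M.ap k ∈ pvtwN 1 (pvtwN 1 {pvlpA1 τ ln}) := F.N_pre (by push_cast; omega) h
    rw [pvtw_N_add] at h'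
    have h7 : M.ap k ∈ pvtwN (1 + 1) (pvtwN 5 (τ.C 8 : Set (ℤ × ℤ))) := pvtw_N_mono le_rfl (Set.singleton_subset_iff.2 T.A1_8) h'
    rw [pvtw_N_add] at h7
    exact pvtw_N_mono (by norm_num) (pvmn_C_sub 8 (by norm_num) le_rfl) h7
  · obtain ⟨h1, h2, h3, h4⟩ := pvmhf_N_bx_sub F.dir h
    push_cast at h1 h2 h3 h4
    rcases lt_or_ge (pvmhfX D a k) (-𝔫.g) with hx | hx
    · obtain ⟨i, j, hr, h'⟩ := pvmhf_ap_bar hN F (k := k) (e := pvmhfCp b) (by omega) hx (by omega) (by omega)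
      exact Or.inl (hrc i j hr h')
    · exact Or.inr ⟨hx, h2, h3, by omega⟩

/-- **OFF** -/
theorem pvmhf_off (hN : 𝔫.OK) (F : PvmhfFr M y a D 𝔫.κ 𝔫.g 𝔫.lt) (T : PvmhfTy 𝔑 τ ln ap am y a b) (hS : PvmhfS 𝔫 M τ ln D a (pvmhfCp b) S) :
    pvtwN 1 (pvmhfB 𝔫 M τ D a (pvmhfCp b)) ∪ pvtwN 1 (pvmhfW 𝔫 M τ ln D a S) ⊆ M.pre (pvtwN 8 (pvmnCells τ 7 8)) ∪ pvmhfBx D a (-𝔫.g) (-𝔫.xe + 2) (𝔫.w0 - 2) (𝔫.b1 + 2) := by
  unfold pvmhfB pvmhfW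
  rw [pvtw_N_add, pvtw_N_add]
  exact Set.union_subset (pvmhf_XB2 hN F T) (pvmhf_XW2 hN F T hS)

/-- **BODY** -/
theorem pvmhf_body (hN : 𝔫.OK) (F : PvmhfFr M y a D 𝔫.κ 𝔫.g 𝔫.lt) (T : PvmhfTy 𝔑 τ ln ap am y a b) (hS : PvmhfS 𝔫 M τ ln D a (pvmhfCp b) S) :
    pvmhfBk 𝔫 M τ D a (pvmhfCp b) ∪ pvmhfWh 𝔫 M τ ln D a S ⊆ M.pre (pvtwN 8 (pvmnCells τ 1 8)) ∪ pvmhfBx D a (-𝔫.g) (-𝔫.xe + 2) (𝔫.w0 - 2) (𝔫.b1 + 2) := by
  have c10 := hN.c12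
  have h78 : M.pre (pvtwN 8 (pvmnCells τ 7 8)) ∪ pvmhfBx D a (-𝔫.g) (-𝔫.xe + 2) (𝔫.w0 - 2) (𝔫.b1 + 2) ⊆ M.pre (pvtwN 8 (pvmnCells τ 1 8)) ∪ pvmhfBx D a (-𝔫.g) (-𝔫.xe + 2) (𝔫.w0 - 2) (𝔫.b1 + 2) :=
    Set.union_subset_union_left _ (pvgw_pre_mono M (pvtw_N_mono le_rfl (pvmn_cells_mono (by norm_num) le_rfl)))
  rintro k ((h | h) | (h | h))
  · exact h78 (pvmhf_XB2 hN F T h)
  · left
    have h' : M.ap k ∈ pvtwN 1 (pvtwN 2 (pvmnCells τ 5 8)) := F.N_pre (by push_cast at c10 ⊢; omega) h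
    rw [pvtw_N_add] at h'
    exact pvtw_N_mono (by norm_num) (pvmn_cells_mono (by norm_num) le_rfl) h'
  · exact h78 (pvmhf_XW2 hN F T hS h)
  · left
    have h' : M.ap k ∈ pvtwN 1 (pvlpR τ ln) := F.N_pre (by push_cast at c10 ⊢; omega) h
    have h6 : M.ap k ∈ pvtwN 1 (pvtwN 5 (pvmnCells τ 1 8)) := pvtw_N_mono le_rfl (fun r hr => (T.R_off hr).2.2) h'
    rw [pvtw_N_add] at h6
    exact pvtw_N_mono (by norm_num) le_rfl h6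

end lists

end Claimed.Agent.R289
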