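-- KEEP
import Claimed.Agent.R289.Tr.FunC

/-!
# R289 Tr/FunCI (pen 20, post P19 of 273; prefix `pvmhi_`, `pvmhi`, `Pvmhi`): THE CELL LEVEL OF THE FUNNEL `i : last door → t`      [sub-roof `exit_pveq_fun` of 36; plane level = 135 `Exit/FunP.lean`; the funnel `o` = 8 `Tr/FunC.lean`: frame, `PvmhfFr`, `PvmhfNum` are HIS]

MIRROR OF `Tr/FunC`, IN THE FRAME OF TRAVEL.      `(ym, dm) = pvfjmDm τ` = the entrance door of 138;   `y = ym`, **`a = - dm` = THE DIRECTION OF TRAVEL** (`din t = - Z(dm)`), `D` = the door VERTEX.      Black on the LEFT of `a` (rows `[b0, b1]`), white on the RIGHT (rows `[w0, b0 - 7]`): THE SAME ROWS AS `o`.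
The cell map `X ↦ - 1 - X` turns the picture of `o` into the picture of `i`:   the funnel lives in `X ≥ xe - 1`, the menu cell `y` is `{g ≤ X < g + κ, -lt ≤ Y < κ - lt}`, i.e. **`PvmhfFr M y a D κ (- g - κ) lt`**: `M.ap k = pvmhfCl y a ⌊(X k - g)/κ⌋ ⌊(Y k + lt)/κ⌋`.
`PvmhiTy` : the type facts (`pvmhi_ty`: at the door of record `pvfjmDm τ`): `y ∈ N¹ C₀`, `y - a ∈ E⁻`, `c1 = cell (8, b) ∈ C₁`, `|b| ≤ 8`.
ROUTE (`e = pvmhfCp b`): black core `XB = M⁻¹(N³ C₂ ∪ N² C₁) ∪ column {xc} × [ylo, yhi] ∪ bar [xe - 1, xc] × [b0, b1]`; `xc` = centre of the cells `i = 6`.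
TUBE `Fa` = 6-collar of the column and of the bar from `X = g + 39` on;   first door `D₁` = ONE cell `(g + 79, b0 - 7)` under the tube, `A₁ = Fa ∩ {X ≥ g + 78}`, `Z = Fa ∩ {X ≤ g + 77}`.
ENGINE (15 `Tr/LinkHalf.lean`): `PvliInM`, `pvli_half_m`, `pvli_stop_bwd`  ⟹  `S` (`PvmhiS`).      White core `XW = S ∪ M⁻¹(N¹ {A0}) ∪ bar [xe - 1, g + 81] × [w0, b0 - 7]`.
`B = N¹ XB`, `W = N¹ XW`, `Bk = N² XB ∪ N^{c2} M⁻¹(N² cells 1..4)`, `Wh = N² XW ∪ N^{c1} M⁻¹(R)`.      **OUTPUT = `PvmhiOk`**, `pvmhi_i`.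
-/

set_option autoImplicit false
set_option linter.unusedSectionVars false
set_option linter.unusedVariables false
set_option linter.unusedSimpArgs false

namespace Claimed.Agent.R289

open Relation Set Claims.C0467 Claimed.Agent.R291

/-! ## 1. the type in the frame of travel at its entrance door -/

/-- **WHAT THE FUNNEL `i` READS OF THE TYPE**: `y = ym`, `a = - dm` (door of 138), `c1 = y + 8 a + b Lf a ∈ C₁` -/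
structure PvmhiTy (𝔑 : PvmnNum) (τ : PvmnType) (ln : ((ℤ × ℤ) × (ℤ × ℤ)) × ℕ) (ap am y a : ℤ × ℤ) (b : ℤ) : Prop where
  ts : PvmnIsType 𝔑 τ
  hl : PvmnLaneR τ ln.1 ln.2
  wp : 𝔑.nW ≤ 𝔑.nP
  acc : PvmaAcc 𝔑 τ ap am
  dir : PvmaDir a
  y0 : y ∈ pvtwN 1 (τ.C 0 : Set (ℤ × ℤ))
  e1 : pvmhfCl y a (-1) 0 ∈ pvfjmEm τ
  c1 : pvmhfCl y a 8 b ∈ (τ.C 1 : Set (ℤ × ℤ))
  b8 : -8 ≤ b ∧ b ≤ 8

theorem pvmhi_dir_neg {a : ℤ × ℤ} (ha : PvmaDir a) : PvmaDir (-a) := by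
  rcases ha with rfl | rfl | rfl | rfl
  · exact Or.inr (Or.inl rfl)
  · exact Or.inl rfl
  · exact Or.inr (Or.inr (Or.inr rfl))
  · exact Or.inr (Or.inr (Or.inl rfl))

theorem pvmhi_cl_neg (y a : ℤ × ℤ) : pvmhfCl y (-a) (-1) 0 = y + a :=
  Prod.ext (by simp [pvmhfCl]) (by simp [pvmhfCl])

/-- the record at the door of record -/
theorem pvmhi_ty {𝔑 : PvmnNum} {τ : PvmnType} {ln : ((ℤ × ℤ) × (ℤ × ℤ)) × ℕ} {ap am : ℤ × ℤ} (hτ : PvmnIsType 𝔑 τ) (hl : PvmnLaneR τ ln.1 ln.2) (hWP : 𝔑.nW ≤ 𝔑.nP) (hA : PvmaAcc 𝔑 τ ap am) :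
    ∃ b, PvmhiTy 𝔑 τ ln ap am (pvfjmDm τ).1 (-(pvfjmDm τ).2) b := by
  obtain ⟨h1, ⟨h2, h3⟩, h4⟩ := pvfjm_Dm_spec hτ hWP
  have hd : PvmaDir (-(pvfjmDm τ).2) := pvmhi_dir_neg h1
  obtain ⟨c, hc, hyc⟩ := pvtw_N_iff.1 (pvfjm_hit_m hτ h2 h3)
  obtain ⟨i, j, rfl⟩ := pvmhf_cl_surj hd (pvfjmDm τ).1 c
  have h5 : pvmhfCl (pvfjmDm τ).1 (-(pvfjmDm τ).2) (-1) 0 ∈ pvfjmEm τ := by rw [pvmhi_cl_neg]; exact h4
  have h6 : pvmhfCl (pvfjmDm τ).1 (-(pvfjmDm τ).2) (-1) 0 ∉ pvtwN 8 {pvmhfCl (pvfjmDm τ).1 (-(pvfjmDm τ).2) i j} := fun h =>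
    Set.disjoint_left.1 pvfjm_E_off h5 (pvtw_N_iff.2 ⟨_, pvmn_C_sub 1 le_rfl (by norm_num) hc, h⟩)
  have hyc' : pvmhfCl (pvfjmDm τ).1 (-(pvfjmDm τ).2) 0 0 ∈ pvtwN 8 {pvmhfCl (pvfjmDm τ).1 (-(pvfjmDm τ).2) i j} := by rw [pvmhf_cl_zero]; exact hyc
  rw [pvmhf_cl_N hd] at hyc' h6
  push_cast at hyc' h6
  obtain rfl : i = 8 := by omega
  exact ⟨j, hτ, hl, hWP, hA, hd, h2, h5, hc, by omega, by omega⟩

/-! ## 2. the sets      (numbers: `PvmhfNum`, `PvmhfNum.OK`, `pvmhfCp`, `.yb .ylo .yhi` of 8) -/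

/-- the column of the route: centre of the menu cells `i = 6` -/
def PvmhfNum.xi (𝔫 : PvmhfNum) : ℤ := 𝔫.g + 6 * 𝔫.κ + 𝔫.κ / 2

section sets

variable (𝔫 : PvmhfNum) (M : PvgwMap) (τ : PvmnType) (ln : ((ℤ × ℤ) × (ℤ × ℤ)) × ℕ) (D a : ℤ × ℤ) (e : ℤ)

/-- the explicit part of the black core: the column, the bar -/
def pvmhiRt : Set (ℤ × ℤ) := pvmhfBx D a 𝔫.xi 𝔫.xi (𝔫.ylo e) (𝔫.yhi e) ∪ pvmhfBx D a (𝔫.xe - 1) 𝔫.xi 𝔫.b0 𝔫.b1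

/-- **THE BLACK CORE** -/
def pvmhiXB : Set (ℤ × ℤ) := M.pre (pvtwN 3 (τ.C 2 : Set (ℤ × ℤ)) ∪ pvtwN 2 (τ.C 1 : Set (ℤ × ℤ))) ∪ pvmhiRt 𝔫 D a e

/-- the tube of the route (it starts `40` cells behind the face of `y`) -/
def pvmhiFa : Set (ℤ × ℤ) := pvmhfBx D a (𝔫.xi - 6) (𝔫.xi + 6) (𝔫.ylo e - 6) (𝔫.yhi e + 6) ∪ pvmhfBx D a (𝔫.g + 39) (𝔫.xi + 6) (𝔫.b0 - 6) (𝔫.b1 + 6)

/-- the tube from the first door on -/
def pvmhiA1 : Set (ℤ × ℤ) := pvmhfBx D a (𝔫.xi - 6) (𝔫.xi + 6) (𝔫.ylo e - 6) (𝔫.yhi e + 6) ∪ pvmhfBx D a (𝔫.g + 78) (𝔫.xi + 6) (𝔫.b0 - 6) (𝔫.b1 + 6)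

/-- the tube before the first door -/
def pvmhiZ : Set (ℤ × ℤ) := pvmhfBx D a (𝔫.g + 39) (𝔫.g + 77) (𝔫.b0 - 6) (𝔫.b1 + 6)

/-- the cell of the first door: under the tube -/
def pvmhiD1 : ℤ × ℤ := pvmhfPt D a (𝔫.g + 79) (𝔫.b0 - 7)

/-- the white bar -/
def pvmhiWB : Set (ℤ × ℤ) := pvmhfBx D a (𝔫.xe - 1) (𝔫.g + 81) 𝔫.w0 (𝔫.b0 - 7)

/-- **THE WHITE CORE** (`S` = the stretch of the contour of the hull of the tube from the first door to the first cell of the lane of the type) -/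
def pvmhiXW (S : Set (ℤ × ℤ)) : Set (ℤ × ℤ) := S ∪ M.pre (pvtwN 1 {pvlpA0 τ ln}) ∪ pvmhiWB 𝔫 D a

/-- what the engine of 15 (`pvli_half_m` + `pvli_stop_bwd`) gives -/
structure PvmhiS (S : Set (ℤ × ℤ)) : Prop where
  fin : S.Finite
  conn : TscConn tscG S
  off : Disjoint S (pvliHm M τ (pvmhiFa 𝔫 D a e))
  a0 : ∃ v ∈ S, M.ap v = pvlpA0 τ ln
  d1 : pvmhiD1 𝔫 D a ∈ S
  loc : ∀ w ∈ S, ∃ b, triAdj b w ∧ b ∈ pvmhiA1 𝔫 D a e ∪ M.pre (pvtwN 4 (pvmnCells τ 1 2))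

/-- **THE TWO POLYOMINOES AND THE TWO COVERS OF THE FUNNEL `i`** -/
def pvmhiB : Set (ℤ × ℤ) := pvtwN 1 (pvmhiXB 𝔫 M τ D a e)
def pvmhiW (S : Set (ℤ × ℤ)) : Set (ℤ × ℤ) := pvtwN 1 (pvmhiXW 𝔫 M τ ln D a S)
def pvmhiBk : Set (ℤ × ℤ) := pvtwN 2 (pvmhiXB 𝔫 M τ D a e) ∪ pvtwN 𝔫.c2 (M.pre (pvtwN 2 (pvmnCells τ 1 4)))
def pvmhiWh (S : Set (ℤ × ℤ)) : Set (ℤ × ℤ) := pvtwN 2 (pvmhiXW 𝔫 M τ ln D a S) ∪ pvtwN 𝔫.c1 (M.pre (pvlpR τ ln))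

end sets

theorem pvmhi_eqns_cite : True := by
  have := @PvmhfNum.xi.eq_1; have := @pvmhiRt.eq_1; have := @pvmhiXB.eq_1
  have := @pvmhiFa.eq_1; have := @pvmhiA1.eq_1; have := @pvmhiZ.eq_1; have := @pvmhiD1.eq_1; have := @pvmhiWB.eq_1; have := @pvmhiXW.eq_1
  have := @pvmhiB.eq_1; have := @pvmhiW.eq_1; have := @pvmhiBk.eq_1; have := @pvmhiWh.eq_1
  trivial

/-- **THE OUTPUT OF THE CELL LEVEL, FUNNEL `i`**      (consumer: 135 `Exit/FunP.lean`, via `PvlktPoly` of 164)      = `PvmhfOk` of 8 under `X ↦ - 1 - X`, pieces `k ↦ 9 - k`, `A1 ↦ A0` -/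
structure PvmhiOk (𝔫 : PvmhfNum) (M : PvgwMap) (τ : PvmnType) (ln : ((ℤ × ℤ) × (ℤ × ℤ)) × ℕ) (y D a : ℤ × ℤ) (B W Bk Wh : Set (ℤ × ℤ)) : Prop where
  cB : TscConn pvtbG4 B
  cW : TscConn pvtbG4 W
  subB : pvtwN 1 B ⊆ Bk
  subW : pvtwN 1 W ⊆ Wh
  sep : Disjoint (pvtwN 1 Bk) Wh
  /-- the hooks of 147 at the state -/
  hookB : M.pre (pvtwN 3 (τ.C 2 : Set (ℤ × ℤ))) ⊆ B
  hookW : M.pre (pvtwN 1 {pvlpA0 τ ln}) ⊆ W
  /-- the rooms at the state -/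
  roomB : pvtwN 𝔫.c2 (M.pre (pvtwN 2 (pvmnCells τ 1 4))) ⊆ Bk
  roomW : pvtwN 𝔫.c1 (M.pre (pvlpR τ ln)) ⊆ Wh
  /-- the first cells of the two bars -/
  barB : pvmhfBx D a (𝔫.xe - 2) (𝔫.g + 79) (𝔫.b0 - 1) (𝔫.b1 + 1) ⊆ B
  barW : pvmhfBx D a (𝔫.xe - 2) (𝔫.g + 79) (𝔫.w0 - 1) (𝔫.b0 - 6) ⊆ W
  barBk : pvmhfBx D a (𝔫.xe - 3) (𝔫.g + 79) (𝔫.b0 - 2) (𝔫.b1 + 2) ⊆ Bk
  barWh : pvmhfBx D a (𝔫.xe - 3) (𝔫.g + 79) (𝔫.w0 - 2) (𝔫.b0 - 5) ⊆ Wh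
  /-- NOTHING ELSE behind: over the menu cells within `2` of `y - a`, up to `X = g + 69` -/
  winBk : ∀ k ∈ Bk, M.ap k ∈ pvtwN 2 {y - a} → pvmhfX D a k ≤ 𝔫.g + 69 → k ∈ pvmhfBx D a (𝔫.xe - 3) (𝔫.g + 69) (𝔫.b0 - 2) (𝔫.b1 + 2)
  winWh : ∀ k ∈ Wh, M.ap k ∈ pvtwN 2 {y - a} → pvmhfX D a k ≤ 𝔫.g + 69 → k ∈ pvmhfBx D a (𝔫.xe - 3) (𝔫.g + 69) (𝔫.w0 - 2) (𝔫.b0 - 5)
  /-- everything lives over the body, or in the nozzle -/
  body : Bk ∪ Wh ⊆ M.pre (pvtwN 8 (pvmnCells τ 1 8)) ∪ pvmhfBx D a (𝔫.xe - 3) (𝔫.g - 1) (𝔫.w0 - 2) (𝔫.b1 + 2)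
  /-- the walks with their collars live over the 8-tube of the pieces `1 2` (off the ball by (T3)), or in the nozzle -/
  off : pvtwN 1 B ∪ pvtwN 1 W ⊆ M.pre (pvtwN 8 (pvmnCells τ 1 2)) ∪ pvmhfBx D a (𝔫.xe - 3) (𝔫.g - 1) (𝔫.w0 - 2) (𝔫.b1 + 2)

/-! ## 3. the contour along a straight collar, in the frame -/

section bar

variable {D a : ℤ × ℤ} {H : Set (ℤ × ℤ)} {x y x0 x1 y0 : ℤ}

theorem pvmhi_pt_add (ha : PvmaDir a) (D : ℤ × ℤ) (x y : ℤ) : pvmhfPt D a x y + a = pvmhfPt D a (x + 1) y := by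
  refine pvmhf_eq_pt ha ?_ ?_
  · rw [(pvmhf_X_add ha D _).1, pvmhf_X_pt ha]
  · rw [(pvmhf_X_add ha D _).2, pvmhf_Y_pt ha]

theorem pvmhi_pt_rt (ha : PvmaDir a) (D : ℤ × ℤ) (x y : ℤ) : pvmhfPt D a x y + pvliRt a = pvmhfPt D a x (y - 1) := by
  refine pvmhf_eq_pt ha ?_ ?_
  · rw [(pvmhf_X_rt ha D _).1, pvmhf_X_pt ha]
  · rw [(pvmhf_X_rt ha D _).2, pvmhf_Y_pt ha]

/-- the dart across the right collar at the cell `(x, y)` of the boundary row -/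
def pvmhiDt (D a : ℤ × ℤ) (x y : ℤ) : (ℤ × ℤ) × (ℤ × ℤ) := (pvmhfPt D a x y, pvmhfPt D a x (y - 1))

theorem pvmhi_eqns_cite2 : True := by
  have := @pvmhiDt.eq_1
  trivial

theorem pvmhi_dt (ha : PvmaDir a) (D : ℤ × ℤ) (x y : ℤ) : pvliDt (pvmhfPt D a x y) a = pvmhiDt D a x y := by
  unfold pvliDt pvmhiDt
  rw [pvmhi_pt_rt ha]

theorem pvmhi_pt_adj (ha : PvmaDir a) (D : ℤ × ℤ) (x y : ℤ) : triAdj (pvmhfPt D a x y) (pvmhfPt D a x (y - 1)) := by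
  rw [tsc_adj_iff]
  rcases ha with rfl | rfl | rfl | rfl <;> simp only [pvmhfPt] <;> omega

/-- two steps = one cell;   the dart in between -/
theorem pvmhi_bar_step (ha : PvmaDir a) (h1 : pvmhfPt D a (x + 1) y ∈ H) (h2 : pvmhfPt D a (x + 1) (y - 1) ∉ H) :
    (pvtrStep H)^[2] (pvmhiDt D a x y) = pvmhiDt D a (x + 1) y ∧
      (pvtrStep H (pvmhiDt D a x y) = (pvmhfPt D a x y, pvmhfPt D a (x + 1) (y - 1)) ∨ pvtrStep H (pvmhiDt D a x y) = (pvmhfPt D a (x + 1) y, pvmhfPt D a x (y - 1))) := by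
  have := pvli_bar_step (H := H) (u := pvmhfPt D a x y) ha (by rw [pvmhi_pt_add ha]; exact h1) (by rw [pvmhi_pt_add ha, pvmhi_pt_rt ha]; exact h2)
  rwa [pvmhi_dt ha, pvmhi_pt_add ha, pvmhi_dt ha, pvmhi_pt_rt ha, pvmhi_pt_rt ha] at this

/-- **THE CONTOUR ALONG THE RIGHT COLLAR** -/
theorem pvmhi_bar_iter (ha : PvmaDir a) (hin : ∀ x, x0 ≤ x → x ≤ x1 → pvmhfPt D a x y0 ∈ H) (hout : ∀ x, x0 ≤ x → x ≤ x1 → pvmhfPt D a x (y0 - 1) ∉ H) (t : ℕ) (ht : x0 + t ≤ x1) :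
    (pvtrStep H)^[2 * t] (pvmhiDt D a x0 y0) = pvmhiDt D a (x0 + t) y0 := by
  induction t with
  | zero => simp
  | succ t ih =>
    rw [show 2 * (t + 1) = 2 + 2 * t by ring, Function.iterate_add_apply, ih (by push_cast at ht; omega)]
    have := (pvmhi_bar_step (H := H) (D := D) (x := x0 + t) (y := y0) ha (hin _ (by omega) (by push_cast at ht; omega)) (hout _ (by omega) (by push_cast at ht; omega))).1
    rw [this]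
    push_cast
    rw [add_assoc]

/-- the outer cells of the darts of the collar -/
theorem pvmhi_bar_out (ha : PvmaDir a) (hin : ∀ x, x0 ≤ x → x ≤ x1 → pvmhfPt D a x y0 ∈ H) (hout : ∀ x, x0 ≤ x → x ≤ x1 → pvmhfPt D a x (y0 - 1) ∉ H) (m : ℕ) (hm : 2 * x0 + m ≤ 2 * x1) :
    ((pvtrStep H)^[m] (pvmhiDt D a x0 y0)).2 ∈ pvmhfBx D a x0 x1 (y0 - 1) (y0 - 1) := by
  obtain ⟨t, rfl | rfl⟩ := Nat.even_or_odd' m
  · rw [pvmhi_bar_iter ha hin hout t (by push_cast at hm; omega)]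
    exact pvmhf_pt_mem ha (by omega) (by push_cast at hm; omega) le_rfl le_rfl
  · rw [show 2 * t + 1 = 1 + 2 * t by ring, Function.iterate_add_apply, pvmhi_bar_iter ha hin hout t (by push_cast at hm; omega), Function.iterate_one]
    rcases (pvmhi_bar_step (H := H) (D := D) (x := x0 + t) (y := y0) ha (hin _ (by omega) (by push_cast at hm; omega)) (hout _ (by omega) (by push_cast at hm; omega))).2 with h | h <;> rw [h]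
    · exact pvmhf_pt_mem ha (by omega) (by push_cast at hm; omega) le_rfl le_rfl
    · exact pvmhf_pt_mem ha (by omega) (by push_cast at hm; omega) le_rfl le_rfl

/-- **every dart across the collar at the outer cell `(x, y - 1)` is one of the darts of the orbit** -/
theorem pvmhi_dart_id (ha : PvmaDir a) (hin : ∀ x', x - 1 ≤ x' → x' ≤ x + 1 → pvmhfPt D a x' y ∈ H) (hout : ∀ x', x - 1 ≤ x' → x' ≤ x + 1 → pvmhfPt D a x' (y - 1) ∉ H)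
    {p : ℤ × ℤ} (hadj : triAdj p (pvmhfPt D a x (y - 1))) (hY : pvmhfY D a p = y) : ∃ k, k ≤ 3 ∧ (pvtrStep H)^[k] (pvmhiDt D a (x - 1) y) = (p, pvmhfPt D a x (y - 1)) := by
  have s1 := pvmhi_bar_step (H := H) (D := D) (x := x - 1) (y := y) ha (by rw [sub_add_cancel]; exact hin _ (by omega) (by omega)) (by rw [sub_add_cancel]; exact hout _ (by omega) (by omega))
  have s2 := pvmhi_bar_step (H := H) (D := D) (x := x) (y := y) ha (hin _ (by omega) (by omega)) (hout _ (by omega) (by omega))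
  rw [sub_add_cancel] at s1
  have hX := pvmhf_adj ha D hadj
  rw [pvmhf_X_pt ha] at hX
  rcases (by omega : pvmhfX D a p = x - 1 ∨ pvmhfX D a p = x ∨ pvmhfX D a p = x + 1) with h | h | h
  · obtain rfl := pvmhf_eq_pt ha h hY
    rcases s1.2 with h' | h'
    · exact ⟨1, by omega, h'⟩
    · exfalso
      -- the step goes to `(x, y), (x - 1, y - 1)`: then `(x - 1, y)` and `(x, y - 1)` are not neighbours
      have hd : triAdj (pvmhfPt D a x y) (pvmhfPt D a (x - 1) (y - 1)) := by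
        have hm : pvmhiDt D a (x - 1) y ∈ pvtrBd H := ⟨hin _ (by omega) (by omega), hout _ (by omega) (by omega), pvmhi_pt_adj ha D _ _⟩
        have := (pvtr_step_mem hm).2.2
        rwa [h'] at this
      rw [tsc_adj_iff] at hd hadj
      rcases ha with rfl | rfl | rfl | rfl <;> simp only [pvmhfPt] at hd hadj <;> omega
  · obtain rfl := pvmhf_eq_pt ha h hY
    exact ⟨2, by omega, s1.1⟩
  · obtain rfl := pvmhf_eq_pt ha h hY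
    rcases s2.2 with h' | h'
    · exfalso
      have hd : triAdj (pvmhfPt D a x y) (pvmhfPt D a (x + 1) (y - 1)) := by
        have hm : pvmhiDt D a x y ∈ pvtrBd H := ⟨hin _ (by omega) (by omega), hout _ (by omega) (by omega), pvmhi_pt_adj ha D _ _⟩
        have := (pvtr_step_mem hm).2.2
        rwa [h'] at this
      rw [tsc_adj_iff] at hd hadj
      rcases ha with rfl | rfl | rfl | rfl <;> simp only [pvmhfPt] at hd hadj <;> omega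
    · refine ⟨3, le_rfl, ?_⟩
      rw [show 3 = 1 + 2 by norm_num, Function.iterate_add_apply, s1.1, Function.iterate_one, h']

end bar

/-! ## 4. the route over the menu -/

section overm

variable {𝔑 : PvmnNum} {τ : PvmnType} {ln : ((ℤ × ℤ) × (ℤ × ℤ)) × ℕ} {ap am y a D : ℤ × ℤ} {b : ℤ} {𝔫 : PvmhfNum} {M : PvgwMap} {S : Set (ℤ × ℤ)}

theorem pvmhi_cp (b : ℤ) (hb : -8 ≤ b ∧ b ≤ 8) : -6 ≤ pvmhfCp b ∧ pvmhfCp b ≤ 6 ∧ pvmhfCp b ≤ b + 2 ∧ b ≤ pvmhfCp b + 2 ∧ min b 0 ≤ min (pvmhfCp b) 0 ∧ max (pvmhfCp b) 0 ≤ max b 0 := by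
  unfold pvmhfCp
  omega

/-- the collar of the column lies over the menu cells `(6, j)`, `j` between `0` and `e` -/
theorem pvmhi_col_over (hN : 𝔫.OK) (F : PvmhfFr M y a D 𝔫.κ (-𝔫.g - 𝔫.κ) 𝔫.lt) {e c : ℤ} (hc : c ≤ 9) {k : ℤ × ℤ} (hk : k ∈ pvmhfBx D a (𝔫.xi - c) (𝔫.xi + c) (𝔫.ylo e - c) (𝔫.yhi e + c)) :
    ∃ j, min e 0 ≤ j ∧ j ≤ max e 0 ∧ M.ap k = pvmhfCl y a 6 j := by
  obtain ⟨k1, k2, k3, k4⟩ := hk
  have hκ := hN.κ400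
  have h0 := hN.lat0; have h1 := hN.lat1; have h2 := hN.w0b; have h3 := hN.b01
  have m1 : min e 0 * 𝔫.κ ≤ e * 𝔫.κ := mul_le_mul_of_nonneg_right (min_le_left _ _) (by omega)
  have m2 : min e 0 * 𝔫.κ ≤ 0 * 𝔫.κ := mul_le_mul_of_nonneg_right (min_le_right _ _) (by omega)
  have m3 : e * 𝔫.κ ≤ max e 0 * 𝔫.κ := mul_le_mul_of_nonneg_right (le_max_left _ _) (by omega)
  have m4 : 0 * 𝔫.κ ≤ max e 0 * 𝔫.κ := mul_le_mul_of_nonneg_right (le_max_right _ _) (by omega)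
  unfold PvmhfNum.xi at k1 k2
  unfold PvmhfNum.ylo PvmhfNum.yb at k3
  unfold PvmhfNum.yhi PvmhfNum.yb at k4
  obtain ⟨i, j, a1, a2, a3, a4, h⟩ := F.ap_box (k := k) (i0 := 6) (i1 := 6) (j0 := min e 0) (j1 := max e 0) (by omega) (by omega) (by omega) (by omega)
  obtain rfl : i = 6 := by omega
  exact ⟨j, a3, a4, h⟩

/-- the collars of the bars lie over the menu cells `(i, 0)` -/
theorem pvmhi_bar_over (hN : 𝔫.OK) (F : PvmhfFr M y a D 𝔫.κ (-𝔫.g - 𝔫.κ) 𝔫.lt) {i0 i1 : ℤ} {k : ℤ × ℤ} (h1 : i0 * 𝔫.κ ≤ pvmhfX D a k - 𝔫.g) (h2 : pvmhfX D a k - 𝔫.g < i1 * 𝔫.κ + 𝔫.κ)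
    (h3 : 𝔫.w0 - 9 ≤ pvmhfY D a k) (h4 : pvmhfY D a k ≤ 𝔫.b1 + 9) : ∃ i, i0 ≤ i ∧ i ≤ i1 ∧ M.ap k = pvmhfCl y a i 0 := by
  have hκ := hN.κ400
  have l0 := hN.lat0; have l1 := hN.lat1
  obtain ⟨i, j, a1, a2, a3, a4, h⟩ := F.ap_box (k := k) (i0 := i0) (i1 := i1) (j0 := 0) (j1 := 0) (by omega) (by omega) (by omega) (by omega)
  obtain rfl : j = 0 := by omega
  exact ⟨i, a1, a2, h⟩

/-- the menu cells near the cell in front of the door are far from the pieces `1..9` -/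
theorem PvmhiTy.far (T : PvmhiTy 𝔑 τ ln ap am y a b) {c : ℤ × ℤ} {n m : ℕ} (hnm : n + m ≤ 8) (hc : c ∈ pvtwN n {pvmhfCl y a (-1) 0}) : c ∉ pvtwN m (pvmnCells τ 1 9) := by
  intro h
  refine Set.disjoint_left.1 pvfjm_Em_off T.e1 (pvtw_N_mono hnm le_rfl ?_)
  rw [← pvtw_N_add]
  exact pvtw_N_iff.2 ⟨c, h, pvtw_N_symm hc⟩

/-- a menu cell `(i, j)` of the frame, `-1 ≤ i + 1`.. : far from the pieces `1..9` when it is near `(-1, 0)` -/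
theorem PvmhiTy.far_cl (T : PvmhiTy 𝔑 τ ln ap am y a b) {i j : ℤ} {n m : ℕ} (hnm : n + m ≤ 8) (h1 : i ≤ -1 + n) (h2 : -1 ≤ i + n) (h3 : j ≤ n) (h4 : 0 ≤ j + n) : pvmhfCl y a i j ∉ pvtwN m (pvmnCells τ 1 9) :=
  T.far hnm ((pvmhf_cl_N T.dir y).2 ⟨h1, h2, by omega, by omega⟩)

/-- a menu cell `(i, j)` of the frame within `n` of `y` lies in `N^{n+1} C₀` -/
theorem PvmhiTy.near0 (T : PvmhiTy 𝔑 τ ln ap am y a b) {i j : ℤ} {n : ℕ} (h1 : i ≤ n) (h2 : 0 ≤ i + n) (h3 : j ≤ n) (h4 : 0 ≤ j + n) : pvmhfCl y a i j ∈ pvtwN (n + 1) (τ.C 0 : Set (ℤ × ℤ)) := by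
  rw [← pvtw_N_add]
  refine pvtw_N_iff.2 ⟨y, T.y0, ?_⟩
  have := (pvmhf_cl_N (n := n) T.dir y (i := i) (j := j) (i' := 0) (j' := 0)).2 ⟨by omega, by omega, by omega, by omega⟩
  rwa [pvmhf_cl_zero] at this

/-- a menu cell `(i, j)` of the frame within `n` of `c1` lies in `N^n C₁` -/
theorem PvmhiTy.near1 (T : PvmhiTy 𝔑 τ ln ap am y a b) {i j : ℤ} {n : ℕ} (h1 : i ≤ 8 + n) (h2 : 8 ≤ i + n) (h3 : j ≤ b + n) (h4 : b ≤ j + n) : pvmhfCl y a i j ∈ pvtwN n (τ.C 1 : Set (ℤ × ℤ)) :=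
  pvtw_N_iff.2 ⟨_, T.c1, (pvmhf_cl_N T.dir y).2 ⟨h1, h2, h3, h4⟩⟩

/-- **the tube of the route over the menu** -/
theorem pvmhi_Fa_over (hN : 𝔫.OK) (F : PvmhfFr M y a D 𝔫.κ (-𝔫.g - 𝔫.κ) 𝔫.lt) (T : PvmhiTy 𝔑 τ ln ap am y a b) {v : ℤ × ℤ} (hv : v ∈ pvmhiFa 𝔫 D a (pvmhfCp b)) :
    ∃ i j, 0 ≤ i ∧ i ≤ 6 ∧ -6 ≤ j ∧ j ≤ 6 ∧ j ≤ b + 8 ∧ b ≤ j + 8 ∧ M.ap v = pvmhfCl y a i j := by
  have hb := pvmhi_cp b T.b8
  have hb8 := T.b8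
  rcases hv with hv | hv
  · obtain ⟨j, j1, j2, h⟩ := pvmhi_col_over hN F (c := 6) (by norm_num) hv
    exact ⟨6, j, by omega, by omega, by omega, by omega, by omega, by omega, h⟩
  · obtain ⟨k1, k2, k3, k4⟩ := hv
    have hκ := hN.κ400
    have h2 := hN.w0b
    unfold PvmhfNum.xi at k2
    obtain ⟨i, i1, i2, h⟩ := pvmhi_bar_over hN F (k := v) (i0 := 0) (i1 := 6) (by omega) (by omega) (by omega) (by omega)
    exact ⟨i, 0, i1, i2, by omega, by omega, by omega, by omega, h⟩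

theorem pvmhi_Fa_N8 (hN : 𝔫.OK) (F : PvmhfFr M y a D 𝔫.κ (-𝔫.g - 𝔫.κ) 𝔫.lt) (T : PvmhiTy 𝔑 τ ln ap am y a b) {v : ℤ × ℤ} (hv : v ∈ pvmhiFa 𝔫 D a (pvmhfCp b)) :
    M.ap v ∈ pvtwN 8 (τ.C 1 : Set (ℤ × ℤ)) ∧ M.ap v ∈ pvtwN 7 (τ.C 0 : Set (ℤ × ℤ)) := by
  obtain ⟨i, j, i0, i1, j0, j1, j2, j3, h⟩ := pvmhi_Fa_over hN F T hv
  rw [h]
  exact ⟨T.near1 (by push_cast; omega) (by push_cast; omega) (by push_cast; omega) (by push_cast; omega), T.near0 (n := 6) (by push_cast; omega) (by push_cast; omega) (by push_cast; omega) (by push_cast; omega)⟩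

end overm

/-! ## 5. the engine -/

section engine

variable {𝔑 : PvmnNum} {τ : PvmnType} {ln : ((ℤ × ℤ) × (ℤ × ℤ)) × ℕ} {ap am y a D : ℤ × ℤ} {b : ℤ} {𝔫 : PvmhfNum} {M : PvgwMap} {S : Set (ℤ × ℤ)}

/-- no cell of the tube lies over the way out `E⁻ ∪ ρ⁻` -/
theorem pvmhi_F_acc (hN : 𝔫.OK) (F : PvmhfFr M y a D 𝔫.κ (-𝔫.g - 𝔫.κ) 𝔫.lt) (T : PvmhiTy 𝔑 τ ln ap am y a b) :
    ∀ v ∈ pvliFm M τ (pvmhiFa 𝔫 D a (pvmhfCp b)), M.ap v ∉ pvfjmEm τ ∪ pvmaRay (τ.q 0) am := by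
  have key : ∀ c, c ∈ pvtwN 8 (pvmnCells τ 1 9) → c ∉ pvfjmEm τ ∪ pvmaRay (τ.q 0) am := by
    rintro c hc (h | h)
    · exact Set.disjoint_left.1 pvfjm_Em_off h hc
    · exact Set.disjoint_left.1 T.acc.rm_cells h (pvtw_N_mono (by norm_num) le_rfl hc)
  rintro v (hv | hv)
  · exact key _ (pvtw_N_mono le_rfl (pvmn_C_sub 1 le_rfl (by norm_num)) (pvmhi_Fa_N8 hN F T hv).1)
  · exact key _ (pvtw_N_mono (by norm_num) le_rfl hv)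

/-- **the cells under the tube, near the face of `y`, are joined to infinity off the tube** -/
theorem pvmhi_esc (hN : 𝔫.OK) (F : PvmhfFr M y a D 𝔫.κ (-𝔫.g - 𝔫.κ) 𝔫.lt) (T : PvmhiTy 𝔑 τ ln ap am y a b) :
    pvmhfBx D a (𝔫.g - 1) (𝔫.g + 90) (𝔫.b0 - 9) (𝔫.b0 - 7) ⊆ pvtOut (pvliFm M τ (pvmhiFa 𝔫 D a (pvmhfCp b))) := by
  have hκ := hN.κ400
  have h2 := hN.w0b; have h3 := hN.b01
  have hsub : pvmhfBx D a (𝔫.g - 1) (𝔫.g + 90) (𝔫.b0 - 9) (𝔫.b0 - 7) ⊆ (pvliFm M τ (pvmhiFa 𝔫 D a (pvmhfCp b)))ᶜ := by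
    rintro v ⟨v1, v2, v3, v4⟩ (hv | hv)
    · rcases hv with ⟨k1, k2, k3, k4⟩ | ⟨k1, k2, k3, k4⟩
      · unfold PvmhfNum.xi at k1
        omega
      · omega
    · obtain ⟨i, i1, i2, h⟩ := pvmhi_bar_over hN F (k := v) (i0 := -1) (i1 := 0) (by omega) (by omega) (by omega) (by omega)
      have hv' : M.ap v ∈ pvtwN 4 (pvmnCells τ 1 9) := hv
      rw [h] at hv'
      exact T.far_cl (n := 1) (m := 4) (by norm_num) (by push_cast; omega) (by push_cast; omega) (by norm_num) (by norm_num) hv'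
  have hp0 : pvmhfPt D a (𝔫.g - 1) (𝔫.b0 - 7) ∈ pvtOut (pvliFm M τ (pvmhiFa 𝔫 D a (pvmhfCp b))) := by
    refine pvmhf_out_m M T.ts T.wp T.acc (pvmhi_F_acc hN F T) ?_
    obtain ⟨i, i1, i2, h⟩ := pvmhi_bar_over hN F (k := pvmhfPt D a (𝔫.g - 1) (𝔫.b0 - 7)) (i0 := -1) (i1 := -1) (by rw [pvmhf_X_pt T.dir]; omega) (by rw [pvmhf_X_pt T.dir]; omega)
      (by rw [pvmhf_Y_pt T.dir]; omega) (by rw [pvmhf_Y_pt T.dir]; omega)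
    obtain rfl : i = -1 := by omega
    show M.ap (pvmhfPt D a (𝔫.g - 1) (𝔫.b0 - 7)) ∈ pvfjmEm τ ∪ pvmaRay (τ.q 0) am
    rw [h]
    exact Or.inl T.e1
  intro v hv
  exact pvt_out_R hp0 (tsc_R_mono hsub (pvmhf_bx_conn T.dir D _ _ _ _ _ (pvmhf_pt_mem T.dir (by omega) (by omega) (by omega) (by omega)) v hv))

theorem pvmhi_D1_eq (𝔫 : PvmhfNum) (D a : ℤ × ℤ) : pvmhiD1 𝔫 D a = pvmhfPt D a (𝔫.g + 79) (𝔫.b0 - 6 - 1) := by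
  unfold pvmhiD1
  congr 1
  ring

/-- the centre of the menu cell `(6, e)` -/
theorem pvmhi_top_ap (hN : 𝔫.OK) (F : PvmhfFr M y a D 𝔫.κ (-𝔫.g - 𝔫.κ) 𝔫.lt) (e : ℤ) : M.ap (pvmhfPt D a 𝔫.xi (𝔫.yb e)) = pvmhfCl y a 6 e := by
  have hκ := hN.κ400
  refine F.ap_eq ?_ ?_ ?_ ?_
  · rw [pvmhf_X_pt F.dir]; unfold PvmhfNum.xi; omega
  · rw [pvmhf_X_pt F.dir]; unfold PvmhfNum.xi; omega
  · rw [pvmhf_Y_pt F.dir]; unfold PvmhfNum.yb; omega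
  · rw [pvmhf_Y_pt F.dir]; unfold PvmhfNum.yb; omega

theorem pvmhi_ylo_yhi (𝔫 : PvmhfNum) (hN : 𝔫.OK) (e : ℤ) : 𝔫.ylo e ≤ 𝔫.yb e ∧ 𝔫.yb e ≤ 𝔫.yhi e ∧ 𝔫.ylo e ≤ 𝔫.b0 ∧ 𝔫.b1 ≤ 𝔫.yhi e := by
  unfold PvmhfNum.ylo PvmhfNum.yhi
  omega

theorem pvmhi_A1_conn (hN : 𝔫.OK) (ha : PvmaDir a) (e : ℤ) : TscConn tscG (pvmhiA1 𝔫 D a e) := by
  have hκ := hN.κ400
  have h3 := hN.b01
  obtain ⟨y1, y2, y3, y4⟩ := pvmhi_ylo_yhi 𝔫 hN e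
  refine tsc_conn_union (pvmhf_bx_conn ha D _ _ _ _) (pvmhf_bx_conn ha D _ _ _ _) (a := pvmhfPt D a 𝔫.xi 𝔫.b0) (b := pvmhfPt D a 𝔫.xi 𝔫.b0) ?_ ?_ (Or.inl rfl)
  · exact pvmhf_pt_mem ha (by omega) (by omega) (by omega) (by omega)
  · exact pvmhf_pt_mem ha (by unfold PvmhfNum.xi; omega) (by omega) (by omega) (by omega)

/-- **THE CLAUSES OF THE ENTRANCE HALF** -/
theorem pvmhi_in (hN : 𝔫.OK) (F : PvmhfFr M y a D 𝔫.κ (-𝔫.g - 𝔫.κ) 𝔫.lt) (T : PvmhiTy 𝔑 τ ln ap am y a b) :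
    PvliInM 𝔑 M τ (pvmhiFa 𝔫 D a (pvmhfCp b)) {pvmhiD1 𝔫 D a} (pvmhiA1 𝔫 D a (pvmhfCp b)) := by
  have hκ := hN.κ400
  have h2 := hN.w0b; have h3 := hN.b01
  have hb := pvmhi_cp b T.b8
  obtain ⟨y1, y2, y3, y4⟩ := pvmhi_ylo_yhi 𝔫 hN (pvmhfCp b)
  have hesc := pvmhi_esc hN F T
  exact
  { ts := T.ts
    fin := (pvmhf_bx_finite T.dir D _ _ _ _).union (pvmhf_bx_finite T.dir D _ _ _ _)
    conn := by
      refine tsc_conn_union (pvmhf_bx_conn T.dir D _ _ _ _) (pvmhf_bx_conn T.dir D _ _ _ _) (a := pvmhfPt D a 𝔫.xi 𝔫.b0) (b := pvmhfPt D a 𝔫.xi 𝔫.b0) ?_ ?_ (Or.inl rfl)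
      · exact pvmhf_pt_mem T.dir (by omega) (by omega) (by omega) (by omega)
      · exact pvmhf_pt_mem T.dir (by unfold PvmhfNum.xi; omega) (by omega) (by omega) (by omega)
    touch := by
      refine ⟨pvmhfPt D a 𝔫.xi (𝔫.yb (pvmhfCp b)), Or.inl (pvmhf_pt_mem T.dir (by omega) (by omega) (by omega) (by omega)), ?_⟩
      rw [pvmhi_top_ap hN F]
      exact T.near1 (by norm_num) (by norm_num) (by push_cast; omega) (by push_cast; omega)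
    off := fun v hv _ => pvtw_N_mono (by norm_num) le_rfl (pvmhi_Fa_N8 hN F T hv).2
    wit := by
      refine pvmhf_wit_p M T.ts T.acc ?_
      rintro v (hv | hv) h
      · exact (Set.disjoint_left.1 T.acc.sep (pvtw_N_sub (Or.inl h)) (pvtw_N_mono (by norm_num) subset_union_right (pvmhi_Fa_N8 hN F T hv).2)).elim
      · exact pvgw_pre_mono M ((pvtw_N_mono le_rfl (pvmn_cells_mono (by omega) (by omega))).trans pvt_hull_sub) hv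
    A1_sub := union_subset_union le_rfl (pvmhf_bx_mono (by omega) le_rfl le_rfl le_rfl)
    A1_conn := pvmhi_A1_conn hN T.dir _
    in1 := by
      rintro x hx hx2
      rw [Set.mem_singleton_iff] at hx2
      have hadj := pvmhf_adj T.dir D hx.2.2
      rw [hx2] at hadj
      unfold pvmhiD1 at hadj
      rw [pvmhf_X_pt T.dir, pvmhf_Y_pt T.dir] at hadj
      by_cases hY : pvmhfY D a x.1 ≤ 𝔫.b0 - 7
      · exact (hx.1 (hesc ⟨by omega, by omega, by omega, hY⟩)).elim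
      · exact Or.inr ⟨by omega, by unfold PvmhfNum.xi; omega, by omega, by omega⟩
    D1_off := by
      rw [Set.disjoint_left]
      intro v hv hv5
      rw [Set.mem_singleton_iff] at hv
      subst hv
      obtain ⟨i, i1, i2, h⟩ := pvmhi_bar_over hN F (k := pvmhiD1 𝔫 D a) (i0 := 0) (i1 := 0) (by unfold pvmhiD1; rw [pvmhf_X_pt T.dir]; omega) (by unfold pvmhiD1; rw [pvmhf_X_pt T.dir]; omega)
        (by unfold pvmhiD1; rw [pvmhf_Y_pt T.dir]; omega) (by unfold pvmhiD1; rw [pvmhf_Y_pt T.dir]; omega)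
      have hv' : M.ap (pvmhiD1 𝔫 D a) ∈ pvtwN 5 (pvmnCells τ 1 9) := hv5
      rw [h] at hv'
      exact T.far_cl (n := 1) (m := 5) (by norm_num) (by push_cast; omega) (by push_cast; omega) (by norm_num) (by norm_num) hv'
    d1 := by
      refine ⟨pvmhiDt D a (𝔫.g + 79) (𝔫.b0 - 6), ⟨pvt_hull_sub (Or.inl (Or.inr (pvmhf_pt_mem T.dir (by omega) (by unfold PvmhfNum.xi; omega) (by omega) (by omega)))), ?_, pvmhi_pt_adj T.dir D _ _⟩, ?_⟩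
      · exact fun h => h (hesc (pvmhf_pt_mem T.dir (by omega) (by omega) (by omega) (by omega)))
      · rw [Set.mem_singleton_iff, pvmhi_D1_eq]
        rfl }

/-- **(ENGINE)** -/
theorem pvmhi_S (hN : 𝔫.OK) (F : PvmhfFr M y a D 𝔫.κ (-𝔫.g - 𝔫.κ) 𝔫.lt) (T : PvmhiTy 𝔑 τ ln ap am y a b) : ∃ S, PvmhiS 𝔫 M τ ln D a (pvmhfCp b) S := by
  have hκ := hN.κ400
  have h2 := hN.w0b; have h3 := hN.b01
  have hb := pvmhi_cp b T.b8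
  obtain ⟨y1, y2, y3, y4⟩ := pvmhi_ylo_yhi 𝔫 hN (pvmhfCp b)
  have hesc := pvmhi_esc hN F T
  have I := pvmhi_in hN F T
  obtain ⟨e', l', j, L', hj0, hjl, hj, hloc⟩ := pvli_half_m I T.hl
  -- the tube near the first door
  have hin : ∀ x, 𝔫.g + 39 ≤ x → x ≤ 𝔫.g + 90 → pvmhfPt D a x (𝔫.b0 - 6) ∈ pvliHm M τ (pvmhiFa 𝔫 D a (pvmhfCp b)) := fun x x1 x2 =>
    pvt_hull_sub (Or.inl (Or.inr (pvmhf_pt_mem T.dir (by omega) (by unfold PvmhfNum.xi; omega) (by omega) (by omega))))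
  have hout : ∀ x, 𝔫.g + 39 ≤ x → x ≤ 𝔫.g + 90 → pvmhfPt D a x (𝔫.b0 - 6 - 1) ∉ pvliHm M τ (pvmhiFa 𝔫 D a (pvmhfCp b)) := fun x x1 x2 h =>
    h (hesc (pvmhf_pt_mem T.dir (by omega) (by omega) (by omega) (by omega)))
  -- the first dart of the lane
  have he2 : e'.2 = pvmhfPt D a (𝔫.g + 79) (𝔫.b0 - 6 - 1) := by
    have := L'.start
    rwa [Set.mem_singleton_iff, pvmhi_D1_eq] at this
  have hadj : triAdj e'.1 (pvmhfPt D a (𝔫.g + 79) (𝔫.b0 - 6 - 1)) := he2 ▸ L'.mem.2.2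
  have hY : pvmhfY D a e'.1 = 𝔫.b0 - 6 := by
    have h := pvmhf_adj T.dir D hadj
    rw [pvmhf_X_pt T.dir, pvmhf_Y_pt T.dir] at h
    by_contra hne
    exact L'.mem.1 (hesc ⟨by omega, by omega, by omega, by omega⟩)
  obtain ⟨k, hk3, hk⟩ := pvmhi_dart_id (H := pvliHm M τ (pvmhiFa 𝔫 D a (pvmhfCp b))) T.dir (x := 𝔫.g + 79) (y := 𝔫.b0 - 6) (fun x x1 x2 => hin x (by omega) (by omega)) (fun x x1 x2 => hout x (by omega) (by omega)) hadj hY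
  have hk' : (pvtrStep (pvliHm M τ (pvmhiFa 𝔫 D a (pvmhfCp b))))^[k] (pvmhiDt D a (𝔫.g + 79 - 1) (𝔫.b0 - 6)) = e' := by
    rw [hk, ← he2]
  have h6 := pvmhi_bar_iter (H := pvliHm M τ (pvmhiFa 𝔫 D a (pvmhfCp b))) T.dir (x0 := 𝔫.g + 75) (x1 := 𝔫.g + 85) (y0 := 𝔫.b0 - 6) (fun x x1 x2 => hin x (by omega) (by omega)) (fun x x1 x2 => hout x (by omega) (by omega)) 3 (by push_cast; omega)
  have hye : (pvtrStep (pvliHm M τ (pvmhiFa 𝔫 D a (pvmhfCp b))))^[k + 2 * 3] (pvmhiDt D a (𝔫.g + 75) (𝔫.b0 - 6)) = e' := by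
    rw [Function.iterate_add_apply, h6, ← hk']
    congr 2
    push_cast
    ring
  -- STOP
  have hstop := pvli_stop_bwd (X := pvmhiA1 𝔫 D a (pvmhfCp b) ∪ M.pre (pvtwN 4 (pvmnCells τ 1 9))) (Z := pvmhiZ 𝔫 D a) I.doors L'
    (tsc_conn_union I.A1_conn (pvgw_pre_conn M (pvtw_N_conn (pvmn_cells_conn T.ts (a := 1) (b := 9) (by norm_num) (by norm_num)))) (a := pvmhfPt D a 𝔫.xi (𝔫.yb (pvmhfCp b))) (b := pvmhfPt D a 𝔫.xi (𝔫.yb (pvmhfCp b)))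
      (Or.inl (pvmhf_pt_mem T.dir (by omega) (by omega) (by omega) (by omega)))
      (by
        show M.ap (pvmhfPt D a 𝔫.xi (𝔫.yb (pvmhfCp b))) ∈ pvtwN 4 (pvmnCells τ 1 9)
        rw [pvmhi_top_ap hN F]
        exact pvtw_N_mono le_rfl (pvmn_C_sub 1 le_rfl (by norm_num)) (T.near1 (by norm_num) (by norm_num) (by push_cast; omega) (by push_cast; omega)))
      (Or.inl rfl))
    (pvmhf_bx_conn T.dir D _ _ _ _)
    (union_subset (I.A1_sub.trans (subset_union_left.trans pvt_hull_sub)) (subset_union_right.trans pvt_hull_sub))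
    ((pvmhf_bx_mono le_rfl (by unfold PvmhfNum.xi; omega) le_rfl le_rfl).trans (subset_union_right.trans (subset_union_left.trans pvt_hull_sub)))
    (by
      rw [Set.disjoint_left]
      rintro v (hv | hv) ⟨z1, z2, z3, z4⟩
      · rcases hv with ⟨k1, k2, k3, k4⟩ | ⟨k1, k2, k3, k4⟩
        · unfold PvmhfNum.xi at k1
          omega
        · omega
      · obtain ⟨i, i1, i2, h⟩ := pvmhi_bar_over hN F (k := v) (i0 := 0) (i1 := 0) (by omega) (by omega) (by omega) (by omega)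
        have hv' : M.ap v ∈ pvtwN 4 (pvmnCells τ 1 9) := hv
        rw [h] at hv'
        exact T.far_cl (n := 1) (m := 4) (by norm_num) (by push_cast; omega) (by push_cast; omega) (by norm_num) (by norm_num) hv')
    subset_union_left
    ((pvgw_pre_mono M (pvtw_N_mono le_rfl (pvmn_cells_mono (by norm_num) le_rfl))).trans subset_union_right)
    (y := pvmhiDt D a (𝔫.g + 75) (𝔫.b0 - 6)) (k := k + 2 * 3)
    ⟨hin _ (by omega) (by omega), hout _ (by omega) (by omega), pvmhi_pt_adj T.dir D _ _⟩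
    (pvmhf_pt_mem T.dir (by omega) (by omega) (by omega) (by omega))
    hye
    (by
      intro m hm hD
      obtain ⟨o1, o2, o3, o4⟩ := pvmhi_bar_out (H := pvliHm M τ (pvmhiFa 𝔫 D a (pvmhfCp b))) T.dir (x0 := 𝔫.g + 75) (x1 := 𝔫.g + 85) (y0 := 𝔫.b0 - 6) (fun x x1 x2 => hin x (by omega) (by omega)) (fun x x1 x2 => hout x (by omega) (by omega)) m (by omega)
      obtain ⟨i, i1, i2, h⟩ := pvmhi_bar_over hN F (k := ((pvtrStep (pvliHm M τ (pvmhiFa 𝔫 D a (pvmhfCp b))))^[m] (pvmhiDt D a (𝔫.g + 75) (𝔫.b0 - 6))).2) (i0 := 0) (i1 := 0) (by omega) (by omega) (by omega) (by omega)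
      have hD' : M.ap ((pvtrStep (pvliHm M τ (pvmhiFa 𝔫 D a (pvmhfCp b))))^[m] (pvmhiDt D a (𝔫.g + 75) (𝔫.b0 - 6))).2 ∈ pvmnDrp τ := hD
      rw [h] at hD'
      exact Set.disjoint_left.1 (T.ts.far 0 9 (by norm_num)) (pvtw_N_mono (by norm_num) le_rfl (T.near0 (n := 0) (i := i) (j := 0) (by push_cast; omega) (by push_cast; omega) (by norm_num) (by norm_num)))
        (pvtw_N_mono (by norm_num) le_rfl hD'))
  refine ⟨pvgwOut (pvliHm M τ (pvmhiFa 𝔫 D a (pvmhfCp b))) e' 0 j, pvgw_out_finite _ _ _ _, pvgw_out_conn L'.mem _ _, pvgw_out_off L'.mem _ _, ⟨_, ⟨j, Nat.zero_le _, le_rfl, rfl⟩, congrArg Prod.snd hj⟩,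
    ⟨0, le_rfl, Nat.zero_le _, by rw [pvmhi_D1_eq, ← he2]; rfl⟩, ?_⟩
  rintro w ⟨i, hi1, hi2, rfl⟩
  refine ⟨_, (pvtr_iter_mem L'.mem i).2.2, ?_⟩
  rcases hloc i hi2 with h | h
  · refine Or.inl ?_
    have hZ := hstop i (by omega)
    rcases h with h | ⟨k1, k2, k3, k4⟩
    · exact Or.inl h
    · refine Or.inr ⟨?_, k2, k3, k4⟩
      by_contra hc
      exact hZ ⟨k1, by omega, k3, k4⟩
  · exact Or.inr h

end engine

section main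

variable {𝔑 : PvmnNum} {τ : PvmnType} {ln : ((ℤ × ℤ) × (ℤ × ℤ)) × ℕ} {ap am y a D : ℤ × ℤ} {b : ℤ} {𝔫 : PvmhfNum} {M : PvgwMap} {S : Set (ℤ × ℤ)}

/-- **(ENGINE)**      PROVED (20, 15:50Z): `pvmhi_S` -/
theorem exit_pvmhi_S (hN : 𝔫.OK) (F : PvmhfFr M y a D 𝔫.κ (-𝔫.g - 𝔫.κ) 𝔫.lt) (T : PvmhiTy 𝔑 τ ln ap am y a b) : ∃ S, PvmhiS 𝔫 M τ ln D a (pvmhfCp b) S :=
  pvmhi_S hN F T

/-- **(LISTS)** -/
theorem exit_pvmhi_ok (hN : 𝔫.OK) (F : PvmhfFr M y a D 𝔫.κ (-𝔫.g - 𝔫.κ) 𝔫.lt) (T : PvmhiTy 𝔑 τ ln ap am y a b) (hS : PvmhiS 𝔫 M τ ln D a (pvmhfCp b) S) :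
    PvmhiOk 𝔫 M τ ln y D a (pvmhiB 𝔫 M τ D a (pvmhfCp b)) (pvmhiW 𝔫 M τ ln D a S) (pvmhiBk 𝔫 M τ D a (pvmhfCp b)) (pvmhiWh 𝔫 M τ ln D a S) := by
  sorry

/-- **THE CELL LEVEL OF THE FUNNEL `i`** -/
theorem pvmhi_i (hN : 𝔫.OK) (F : PvmhfFr M y a D 𝔫.κ (-𝔫.g - 𝔫.κ) 𝔫.lt) (T : PvmhiTy 𝔑 τ ln ap am y a b) : ∃ B W Bk Wh, PvmhiOk 𝔫 M τ ln y D a B W Bk Wh := by
  obtain ⟨S, hS⟩ := exit_pvmhi_S hN F T
  exact ⟨_, _, _, _, exit_pvmhi_ok hN F T hS⟩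

end main

end Claimed.Agent.R289
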