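-- KEEP
import Claimed.Agent.R289.Tr.FunC
import Claimed.Agent.R289.Tr.CellRef

/-!
# R289 Tr/FunCL (pen 114 for 8; prefix `pvmhf_l_`): THE EASY FIELDS OF `exit_pvmhf_ok` (cell level of the funnel `o`), THE BAR WALK, THE FRAME RECORD AT `pvgwDiv`

(L4) `pvmhf_l_cB cW subB subW hookB hookW roomB roomW barB barW barBk barWh` : the fields of `PvmhfOk` of the same names, hypotheses `hN F T hS` of `exit_pvmhf_ok`.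
-/

set_option autoImplicit false
set_option linter.unusedSectionVars false
set_option linter.unusedVariables false

namespace Claimed.Agent.R289

open Relation Set Claims.C0467 Claimed.Agent.R291

section easy

variable {𝔑 : PvmnNum} {τ : PvmnType} {ln : ((ℤ × ℤ) × (ℤ × ℤ)) × ℕ} {ap am y a D : ℤ × ℤ} {b : ℤ} {𝔫 : PvmhfNum} {M : PvgwMap} {S : Set (ℤ × ℤ)}

theorem pvmhf_l_xc (hN : 𝔫.OK) : 𝔫.xc + 2000 ≤ -𝔫.g ∧ 𝔫.xc ≤ -𝔫.xe := by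
  obtain ⟨h1, h2, h3, h4, h5, h6, h7, h8, h9, h10⟩ := hN
  unfold PvmhfNum.xc
  constructor <;> omega

theorem pvmhf_l_subB (e : ℤ) : pvtwN 1 (pvmhfB 𝔫 M τ D a e) ⊆ pvmhfBk 𝔫 M τ D a e := by
  unfold pvmhfB pvmhfBk
  rw [pvtw_N_add]
  exact subset_union_left

theorem pvmhf_l_subW : pvtwN 1 (pvmhfW 𝔫 M τ ln D a S) ⊆ pvmhfWh 𝔫 M τ ln D a S := by
  unfold pvmhfW pvmhfWh
  rw [pvtw_N_add]
  exact subset_union_left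

theorem pvmhf_l_hookB (e : ℤ) : M.pre (pvtwN 3 (τ.C 7 : Set (ℤ × ℤ))) ⊆ pvmhfB 𝔫 M τ D a e :=
  fun k hk => pvtw_N_sub (Or.inl (Or.inl hk))

theorem pvmhf_l_hookW : M.pre (pvtwN 1 {pvlpA1 τ ln}) ⊆ pvmhfW 𝔫 M τ ln D a S :=
  fun k hk => pvtw_N_sub (Or.inl (Or.inr hk))

theorem pvmhf_l_roomB (e : ℤ) : pvtwN 𝔫.c2 (M.pre (pvtwN 2 (pvmnCells τ 5 8))) ⊆ pvmhfBk 𝔫 M τ D a e := subset_union_right

theorem pvmhf_l_roomW : pvtwN 𝔫.c1 (M.pre (pvlpR τ ln)) ⊆ pvmhfWh 𝔫 M τ ln D a S := subset_union_right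

/-- the `n`-collar of the black bar -/
theorem pvmhf_l_barN (hN : 𝔫.OK) (ha : PvmaDir a) (e : ℤ) (n : ℕ) : pvmhfBx D a (-𝔫.g - 80) (-𝔫.xe + n) (𝔫.b0 - n) (𝔫.b1 + n) ⊆ pvtwN n (pvmhfXB 𝔫 M τ D a e) := by
  obtain ⟨x1, x2⟩ := pvmhf_l_xc hN
  refine Subset.trans ?_ (pvtw_N_mono le_rfl (show pvmhfBx D a 𝔫.xc (-𝔫.xe) 𝔫.b0 𝔫.b1 ⊆ pvmhfXB 𝔫 M τ D a e from fun k hk => Or.inr (Or.inr hk)))
  rw [pvmhf_N_bx ha x2 hN.b01]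
  exact pvmhf_bx_mono (by omega) le_rfl le_rfl le_rfl

/-- the `n`-collar of the white bar -/
theorem pvmhf_l_barWN (hN : 𝔫.OK) (ha : PvmaDir a) (n : ℕ) : pvmhfBx D a (-𝔫.g - 80) (-𝔫.xe + n) (𝔫.w0 - n) (𝔫.b0 - 7 + n) ⊆ pvtwN n (pvmhfXW 𝔫 M τ ln D a S) := by
  refine Subset.trans ?_ (pvtw_N_mono le_rfl (show pvmhfWB 𝔫 D a ⊆ pvmhfXW 𝔫 M τ ln D a S from fun k hk => Or.inr hk))
  unfold pvmhfWB
  rw [pvmhf_N_bx ha (by have := hN.xe_le; omega) hN.w0b]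
  exact pvmhf_bx_mono (by omega) le_rfl le_rfl le_rfl

theorem pvmhf_l_barB (hN : 𝔫.OK) (ha : PvmaDir a) (e : ℤ) : pvmhfBx D a (-𝔫.g - 80) (-𝔫.xe + 1) (𝔫.b0 - 1) (𝔫.b1 + 1) ⊆ pvmhfB 𝔫 M τ D a e := by
  have := pvmhf_l_barN (M := M) (τ := τ) (D := D) hN ha e 1
  push_cast at this
  exact this

theorem pvmhf_l_barBk (hN : 𝔫.OK) (ha : PvmaDir a) (e : ℤ) : pvmhfBx D a (-𝔫.g - 80) (-𝔫.xe + 2) (𝔫.b0 - 2) (𝔫.b1 + 2) ⊆ pvmhfBk 𝔫 M τ D a e := by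
  have := pvmhf_l_barN (M := M) (τ := τ) (D := D) hN ha e 2
  push_cast at this
  exact this.trans subset_union_left

theorem pvmhf_l_barW (hN : 𝔫.OK) (ha : PvmaDir a) : pvmhfBx D a (-𝔫.g - 80) (-𝔫.xe + 1) (𝔫.w0 - 1) (𝔫.b0 - 6) ⊆ pvmhfW 𝔫 M τ ln D a S := by
  have := pvmhf_l_barWN (M := M) (τ := τ) (ln := ln) (D := D) (S := S) hN ha 1
  push_cast at this
  exact (pvmhf_bx_mono le_rfl le_rfl le_rfl (by omega)).trans this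

theorem pvmhf_l_barWh (hN : 𝔫.OK) (ha : PvmaDir a) : pvmhfBx D a (-𝔫.g - 80) (-𝔫.xe + 2) (𝔫.w0 - 2) (𝔫.b0 - 5) ⊆ pvmhfWh 𝔫 M τ ln D a S := by
  have := pvmhf_l_barWN (M := M) (τ := τ) (ln := ln) (D := D) (S := S) hN ha 2
  push_cast at this
  exact ((pvmhf_bx_mono le_rfl le_rfl le_rfl (by omega)).trans this).trans subset_union_left

/-- the foot of the column lies over the menu cell `(-6, e)`, within `2` of `c8` -/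
theorem pvmhf_l_foot (hN : 𝔫.OK) (F : PvmhfFr M y a D 𝔫.κ 𝔫.g 𝔫.lt) (T : PvmhfTy 𝔑 τ ln ap am y a b) :
    pvmhfPt D a 𝔫.xc (𝔫.yb (pvmhfCp b)) ∈ M.pre (pvtwN 2 (τ.C 8 : Set (ℤ × ℤ))) := by
  have hκ := hN.κ400
  have h : M.ap (pvmhfPt D a 𝔫.xc (𝔫.yb (pvmhfCp b))) = pvmhfCl y a (-6) (pvmhfCp b) := by
    refine F.ap_eq ?_ ?_ ?_ ?_ <;> simp only [pvmhf_X_pt F.dir, pvmhf_Y_pt F.dir, PvmhfNum.xc, PvmhfNum.yb] <;> omega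
  show M.ap (pvmhfPt D a 𝔫.xc (𝔫.yb (pvmhfCp b))) ∈ pvtwN 2 (τ.C 8 : Set (ℤ × ℤ))
  rw [h]
  refine pvtw_N_iff.2 ⟨_, T.c8, ?_⟩
  rw [pvmhf_cl_N F.dir]
  obtain ⟨b1, b2⟩ := T.b8
  have he : pvmhfCp b ≤ b + 2 ∧ b ≤ pvmhfCp b + 2 := by
    unfold pvmhfCp
    omega
  exact ⟨by norm_num, by norm_num, by push_cast; omega, by push_cast; omega⟩

/-- the black core is connected -/
theorem pvmhf_l_XB_conn (hN : 𝔫.OK) (F : PvmhfFr M y a D 𝔫.κ 𝔫.g 𝔫.lt) (T : PvmhfTy 𝔑 τ ln ap am y a b) : TscConn tscG (pvmhfXB 𝔫 M τ D a (pvmhfCp b)) := by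
  obtain ⟨x1, x2⟩ := pvmhf_l_xc hN
  have c1 : TscConn tscG (pvtwN 3 (τ.C 7 : Set (ℤ × ℤ)) ∪ pvtwN 2 (τ.C 8 : Set (ℤ × ℤ))) :=
    tsc_conn_union (pvtw_N_conn (T.ts.conn 7)) (pvtw_N_conn (T.ts.conn 8)) (a := τ.q 8) (b := τ.q 8) (pvtw_N_sub (T.ts.q_end 7)) (pvtw_N_sub (T.ts.q_start 8)) (Or.inl rfl)
  have c2 : TscConn tscG (pvmhfRt 𝔫 D a (pvmhfCp b)) :=
    tsc_conn_union (pvmhf_bx_conn F.dir D _ _ _ _) (pvmhf_bx_conn F.dir D _ _ _ _) (a := pvmhfPt D a 𝔫.xc 𝔫.b0) (b := pvmhfPt D a 𝔫.xc 𝔫.b0)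
      (pvmhf_pt_mem F.dir le_rfl le_rfl (min_le_right _ _) (hN.b01.trans (le_max_right _ _))) (pvmhf_pt_mem F.dir le_rfl x2 le_rfl hN.b01) (Or.inl rfl)
  exact tsc_conn_union (pvgw_pre_conn M c1) c2 (a := pvmhfPt D a 𝔫.xc (𝔫.yb (pvmhfCp b))) (b := pvmhfPt D a 𝔫.xc (𝔫.yb (pvmhfCp b)))
    (Or.inr (pvmhf_l_foot hN F T)) (Or.inl (pvmhf_pt_mem F.dir le_rfl le_rfl (min_le_left _ _) (le_max_left _ _))) (Or.inl rfl)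

theorem pvmhf_l_cB (hN : 𝔫.OK) (F : PvmhfFr M y a D 𝔫.κ 𝔫.g 𝔫.lt) (T : PvmhfTy 𝔑 τ ln ap am y a b) : TscConn pvtbG4 (pvmhfB 𝔫 M τ D a (pvmhfCp b)) :=
  pvgw_N1_conn4 (pvmhf_l_XB_conn hN F T)

/-- the white core is connected -/
theorem pvmhf_l_XW_conn (hN : 𝔫.OK) (F : PvmhfFr M y a D 𝔫.κ 𝔫.g 𝔫.lt) (hS : PvmhfS 𝔫 M τ ln D a (pvmhfCp b) S) : TscConn tscG (pvmhfXW 𝔫 M τ ln D a S) := by
  obtain ⟨v, hv, hv1⟩ := hS.a1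
  have c0 : TscConn tscG ({pvlpA1 τ ln} : Set (ℤ × ℤ)) := by
    rintro u rfl w rfl
    exact ReflTransGen.refl
  have c1 : TscConn tscG (S ∪ M.pre (pvtwN 1 {pvlpA1 τ ln})) :=
    tsc_conn_union hS.conn (pvgw_pre_conn M (pvtw_N_conn c0)) (a := v) (b := v) hv (by show M.ap v ∈ pvtwN 1 ({pvlpA1 τ ln} : Set (ℤ × ℤ)); rw [hv1]; exact pvtw_N_sub rfl) (Or.inl rfl)
  exact tsc_conn_union c1 (pvmhf_bx_conn F.dir D _ _ _ _) (a := pvmhfD2 𝔫 D a) (b := pvmhfD2 𝔫 D a) (Or.inl hS.d2)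
    (pvmhf_pt_mem F.dir (by omega) (by have := hN.xe_le; omega) hN.w0b le_rfl) (Or.inl rfl)

theorem pvmhf_l_cW (hN : 𝔫.OK) (F : PvmhfFr M y a D 𝔫.κ 𝔫.g 𝔫.lt) (hS : PvmhfS 𝔫 M τ ln D a (pvmhfCp b) S) : TscConn pvtbG4 (pvmhfW 𝔫 M τ ln D a S) :=
  pvgw_N1_conn4 (pvmhf_l_XW_conn hN F hS)

end easy

/-! ## (L1) the frame record at the floor division -/

/-- **the door vertex** of the frame in which the menu cell `y` of the floor division `pvgwDiv κ _ o` is `{-g - κ ≤ X < -g, -lt ≤ Y < κ - lt}` -/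
def pvmhfDv (o : ℤ × ℤ) (κ : ℤ) (y a : ℤ × ℤ) (g lt : ℤ) : ℤ × ℤ :=
  (o.1 + κ * y.1 + (a.1 + a.2 + 1) / 2 * κ + a.1 * g - a.2 * lt, o.2 + κ * y.2 + (a.2 - a.1 + 1) / 2 * κ + a.2 * g + a.1 * lt)

/-- the lateral position of the door of 138 (middle SMALL cell of the side): `s = 2 s2` link cells in a small cell, `N` small cells in a menu cell -/
def pvmhfLt (s2 N : ℤ) (a : ℤ × ℤ) : ℤ := (1 - (a.1 - a.2)) / 2 * (2 * s2 * N) + (a.1 - a.2) * (2 * s2 * (N / 2) + s2)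

theorem pvmhf_l_eqns_cite : True := by
  have := @pvmhfDv.eq_1; have := @pvmhfLt.eq_1
  trivial

theorem pvmhf_l_div {κ x q r : ℤ} (hκ : 0 < κ) (h : r + κ * q = x) (h0 : 0 ≤ r) (h1 : r < κ) : x / κ = q :=
  ((Int.ediv_emod_unique hκ).2 ⟨h, h0, h1⟩).1

/-- **(L1)** the frame record of the floor division -/
theorem pvmhf_l_fr {κ : ℤ} (hκ : 0 < κ) (o y : ℤ × ℤ) {a : ℤ × ℤ} (ha : PvmaDir a) (g lt : ℤ) : PvmhfFr (pvgwDiv κ hκ o) y a (pvmhfDv o κ y a g lt) κ g lt := by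
  refine ⟨ha, hκ, fun k => ?_⟩
  show ((k.1 - o.1) / κ, (k.2 - o.2) / κ) = _
  have e1 := Int.emod_add_mul_ediv (k.1 - o.1) κ
  have e2 := Int.emod_add_mul_ediv (k.2 - o.2) κ
  have p1 := Int.emod_nonneg (k.1 - o.1) hκ.ne'
  have p2 := Int.emod_nonneg (k.2 - o.2) hκ.ne'
  have q1 := Int.emod_lt_of_pos (k.1 - o.1) hκ
  have q2 := Int.emod_lt_of_pos (k.2 - o.2) hκ
  set r1 := (k.1 - o.1) % κ
  set r2 := (k.2 - o.2) % κ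
  set c1 := (k.1 - o.1) / κ
  set c2 := (k.2 - o.2) / κ
  rcases ha with rfl | rfl | rfl | rfl
  · have i1 : (pvmhfX (pvmhfDv o κ y (1, 0) g lt) (1, 0) k + g + κ) / κ = c1 - y.1 :=
      pvmhf_l_div hκ (r := r1) (by simp only [pvmhfX, pvmhfDv]; norm_num; linarith) p1 q1
    have i2 : (pvmhfY (pvmhfDv o κ y (1, 0) g lt) (1, 0) k + lt) / κ = c2 - y.2 :=
      pvmhf_l_div hκ (r := r2) (by simp only [pvmhfY, pvmhfDv]; norm_num; linarith) p2 q2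
    rw [i1, i2]
    exact Prod.ext (by simp only [pvmhfCl]; ring) (by simp only [pvmhfCl]; ring)
  · have i1 : (pvmhfX (pvmhfDv o κ y (-1, 0) g lt) (-1, 0) k + g + κ) / κ = y.1 - c1 :=
      pvmhf_l_div hκ (r := κ - 1 - r1) (by simp only [pvmhfX, pvmhfDv]; norm_num; linarith) (by omega) (by omega)
    have i2 : (pvmhfY (pvmhfDv o κ y (-1, 0) g lt) (-1, 0) k + lt) / κ = y.2 - c2 :=
      pvmhf_l_div hκ (r := κ - 1 - r2) (by simp only [pvmhfY, pvmhfDv]; norm_num; linarith) (by omega) (by omega)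
    rw [i1, i2]
    exact Prod.ext (by simp only [pvmhfCl]; ring) (by simp only [pvmhfCl]; ring)
  · have i1 : (pvmhfX (pvmhfDv o κ y (0, 1) g lt) (0, 1) k + g + κ) / κ = c2 - y.2 :=
      pvmhf_l_div hκ (r := r2) (by simp only [pvmhfX, pvmhfDv]; norm_num; linarith) p2 q2
    have i2 : (pvmhfY (pvmhfDv o κ y (0, 1) g lt) (0, 1) k + lt) / κ = y.1 - c1 :=
      pvmhf_l_div hκ (r := κ - 1 - r1) (by simp only [pvmhfY, pvmhfDv]; norm_num; linarith) (by omega) (by omega)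
    rw [i1, i2]
    exact Prod.ext (by simp only [pvmhfCl]; ring) (by simp only [pvmhfCl]; ring)
  · have i1 : (pvmhfX (pvmhfDv o κ y (0, -1) g lt) (0, -1) k + g + κ) / κ = y.2 - c2 :=
      pvmhf_l_div hκ (r := κ - 1 - r2) (by simp only [pvmhfX, pvmhfDv]; norm_num; linarith) (by omega) (by omega)
    have i2 : (pvmhfY (pvmhfDv o κ y (0, -1) g lt) (0, -1) k + lt) / κ = c1 - y.1 :=
      pvmhf_l_div hκ (r := r1) (by simp only [pvmhfY, pvmhfDv]; norm_num; linarith) p1 q1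
    rw [i1, i2]
    exact Prod.ext (by simp only [pvmhfCl]; ring) (by simp only [pvmhfCl]; ring)

/-- the door vertex of 135: centre of the small door cell `pvrcDoor N y a`, `+ (s2 + g) a` -/
theorem pvmhf_l_Dv (o y : ℤ × ℤ) {a : ℤ × ℤ} (ha : PvmaDir a) (s2 N g : ℤ) :
    pvmhfDv o (2 * s2 * N) y a g (pvmhfLt s2 N a) =
      (o.1 + 2 * s2 * (pvrcDoor N y a).1 + s2 + (s2 + g) * a.1, o.2 + 2 * s2 * (pvrcDoor N y a).2 + s2 + (s2 + g) * a.2) := by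
  rcases ha with rfl | rfl | rfl | rfl <;> refine Prod.ext ?_ ?_ <;> simp only [pvmhfDv, pvmhfLt, pvrcDoor, pvrcOf] <;> norm_num <;> ring

/-- the door is at least half a small cell away from the corners of the side -/
theorem pvmhf_l_Lt {a : ℤ × ℤ} (ha : PvmaDir a) {s2 N : ℤ} (hs : 0 < s2) (hN : 0 < N) : s2 ≤ pvmhfLt s2 N a ∧ pvmhfLt s2 N a + s2 ≤ 2 * s2 * N := by
  have h1 : 0 ≤ N / 2 := Int.ediv_nonneg hN.le (by norm_num)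
  have h5 : N / 2 + 1 ≤ N := by omega
  have k5 : s2 * (N / 2 + 1) ≤ s2 * N := mul_le_mul_of_nonneg_left h5 hs.le
  have h3 : 2 * (N / 2) ≤ N := by omega
  have h4 : N ≤ 2 * (N / 2) + 1 := by omega
  have k1 : 0 ≤ s2 * (N / 2) := mul_nonneg hs.le h1
  have k2 : s2 * (2 * (N / 2)) ≤ s2 * N := mul_le_mul_of_nonneg_left h3 hs.le
  have k3 : s2 * 1 ≤ s2 * N := mul_le_mul_of_nonneg_left hN hs.le
  have k4 : s2 * N ≤ s2 * (2 * (N / 2) + 1) := mul_le_mul_of_nonneg_left h4 hs.le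
  rcases ha with rfl | rfl | rfl | rfl <;> simp only [pvmhfLt] <;> norm_num <;> constructor <;> nlinarith

/-- **(L1) AT THE DOOR OF 138 / 135** -/
theorem pvmhf_l_fr_door (o y : ℤ × ℤ) {a : ℤ × ℤ} (ha : PvmaDir a) {s2 N : ℤ} (hκ : 0 < 2 * s2 * N) (g : ℤ) :
    PvmhfFr (pvgwDiv (2 * s2 * N) hκ o) y a (o.1 + 2 * s2 * (pvrcDoor N y a).1 + s2 + (s2 + g) * a.1, o.2 + 2 * s2 * (pvrcDoor N y a).2 + s2 + (s2 + g) * a.2) (2 * s2 * N) g (pvmhfLt s2 N a) := by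
  rw [← pvmhf_l_Dv o y ha s2 N g]
  exact pvmhf_l_fr hκ o y ha g _

/-! ## THE RECORD, THE FUNCTIONS      (8) -/

section final

variable {𝔑 : PvmnNum} {τ : PvmnType} {ln : ((ℤ × ℤ) × (ℤ × ℤ)) × ℕ} {ap am y a D : ℤ × ℤ} {b : ℤ} {𝔫 : PvmhfNum} {M : PvgwMap} {S : Set (ℤ × ℤ)}

/-- **THE LISTS OF THE FUNNEL `o`** -/
theorem pvmhf_ok (hN : 𝔫.OK) (F : PvmhfFr M y a D 𝔫.κ 𝔫.g 𝔫.lt) (T : PvmhfTy 𝔑 τ ln ap am y a b) (hS : PvmhfS 𝔫 M τ ln D a (pvmhfCp b) S) :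
    PvmhfOk 𝔫 M τ ln y D a (pvmhfB 𝔫 M τ D a (pvmhfCp b)) (pvmhfW 𝔫 M τ ln D a S) (pvmhfBk 𝔫 M τ D a (pvmhfCp b)) (pvmhfWh 𝔫 M τ ln D a S) where
  cB := pvmhf_l_cB hN F T
  cW := pvmhf_l_cW hN F hS
  subB := pvmhf_l_subB _
  subW := pvmhf_l_subW
  sep := pvmhf_sep hN F T hS
  hookB := pvmhf_l_hookB _
  hookW := pvmhf_l_hookW
  roomB := pvmhf_l_roomB _
  roomW := pvmhf_l_roomW
  barB := pvmhf_l_barB hN F.dir _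
  barW := pvmhf_l_barW hN F.dir
  barBk := pvmhf_l_barBk hN F.dir _
  barWh := pvmhf_l_barWh hN F.dir
  winBk := pvmhf_winBk hN F T
  winWh := pvmhf_winWh hN F T hS
  body := pvmhf_body hN F T hS
  off := pvmhf_off hN F T hS

open Classical in
/-- the lateral index of the cell `c8` of the type: A FUNCTION OF THE TYPE -/
noncomputable def pvmhfBo (τ : PvmnType) : ℤ :=
  if h : ∃ b : ℤ, pvmhfCl (pvfjmDp τ).1 (pvfjmDp τ).2 (-8) b ∈ (τ.C 8 : Set (ℤ × ℤ)) ∧ -8 ≤ b ∧ b ≤ 8 then h.choose else 0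

open Classical in
/-- the stretch of the contour: A FUNCTION -/
noncomputable def pvmhfSs (𝔫 : PvmhfNum) (M : PvgwMap) (τ : PvmnType) (ln : ((ℤ × ℤ) × (ℤ × ℤ)) × ℕ) (D : ℤ × ℤ) : Set (ℤ × ℤ) :=
  if h : ∃ S, PvmhfS 𝔫 M τ ln D (pvfjmDp τ).2 (pvmhfCp (pvmhfBo τ)) S then h.choose else ∅

/-- **THE TWO POLYOMINOES AND THE TWO COVERS OF THE FUNNEL `o` AS FUNCTIONS** of the numbers, the map, the type, the lane, the door vertex -/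
noncomputable def pvmhfBf (𝔫 : PvmhfNum) (M : PvgwMap) (τ : PvmnType) (D : ℤ × ℤ) : Set (ℤ × ℤ) := pvmhfB 𝔫 M τ D (pvfjmDp τ).2 (pvmhfCp (pvmhfBo τ))
noncomputable def pvmhfWf (𝔫 : PvmhfNum) (M : PvgwMap) (τ : PvmnType) (ln : ((ℤ × ℤ) × (ℤ × ℤ)) × ℕ) (D : ℤ × ℤ) : Set (ℤ × ℤ) := pvmhfW 𝔫 M τ ln D (pvfjmDp τ).2 (pvmhfSs 𝔫 M τ ln D)
noncomputable def pvmhfBkf (𝔫 : PvmhfNum) (M : PvgwMap) (τ : PvmnType) (D : ℤ × ℤ) : Set (ℤ × ℤ) := pvmhfBk 𝔫 M τ D (pvfjmDp τ).2 (pvmhfCp (pvmhfBo τ))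
noncomputable def pvmhfWhf (𝔫 : PvmhfNum) (M : PvgwMap) (τ : PvmnType) (ln : ((ℤ × ℤ) × (ℤ × ℤ)) × ℕ) (D : ℤ × ℤ) : Set (ℤ × ℤ) := pvmhfWh 𝔫 M τ ln D (pvfjmDp τ).2 (pvmhfSs 𝔫 M τ ln D)

theorem pvmhf_l_eqns_cite2 : True := by
  have := @pvmhfBo.eq_1; have := @pvmhfSs.eq_1; have := @pvmhfBf.eq_1; have := @pvmhfWf.eq_1; have := @pvmhfBkf.eq_1; have := @pvmhfWhf.eq_1
  trivial

/-- the type record at the function `pvmhfBo` -/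
theorem pvmhf_ty_f (hτ : PvmnIsType 𝔑 τ) (hl : PvmnLaneR τ ln.1 ln.2) (hWP : 𝔑.nW ≤ 𝔑.nP) (hA : PvmaAcc 𝔑 τ ap am) : PvmhfTy 𝔑 τ ln ap am (pvfjmDp τ).1 (pvfjmDp τ).2 (pvmhfBo τ) := by
  obtain ⟨b, T⟩ := pvmhf_ty hτ hl hWP hA
  have hex : ∃ b : ℤ, pvmhfCl (pvfjmDp τ).1 (pvfjmDp τ).2 (-8) b ∈ (τ.C 8 : Set (ℤ × ℤ)) ∧ -8 ≤ b ∧ b ≤ 8 := ⟨b, T.c8, T.b8⟩
  have hs : pvmhfCl (pvfjmDp τ).1 (pvfjmDp τ).2 (-8) (pvmhfBo τ) ∈ (τ.C 8 : Set (ℤ × ℤ)) ∧ -8 ≤ pvmhfBo τ ∧ pvmhfBo τ ≤ 8 := by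
    unfold pvmhfBo
    rw [dif_pos hex]
    exact hex.choose_spec
  exact ⟨hτ, hl, hWP, hA, T.dir, T.y9, T.e1, hs.1, hs.2⟩

/-- the stretch at the functions -/
theorem pvmhf_S_f (hN : 𝔫.OK) (F : PvmhfFr M (pvfjmDp τ).1 (pvfjmDp τ).2 D 𝔫.κ 𝔫.g 𝔫.lt) (hτ : PvmnIsType 𝔑 τ) (hl : PvmnLaneR τ ln.1 ln.2) (hWP : 𝔑.nW ≤ 𝔑.nP) (hA : PvmaAcc 𝔑 τ ap am) :
    PvmhfS 𝔫 M τ ln D (pvfjmDp τ).2 (pvmhfCp (pvmhfBo τ)) (pvmhfSs 𝔫 M τ ln D) := by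
  have hex := pvmhf_S hN F (pvmhf_ty_f hτ hl hWP hA)
  unfold pvmhfSs
  rw [dif_pos hex]
  exact hex.choose_spec

/-- **THE CELL LEVEL OF THE FUNNEL `o`, AT THE FUNCTIONS** -/
theorem pvmhf_o (hN : 𝔫.OK) (F : PvmhfFr M (pvfjmDp τ).1 (pvfjmDp τ).2 D 𝔫.κ 𝔫.g 𝔫.lt) (hτ : PvmnIsType 𝔑 τ) (hl : PvmnLaneR τ ln.1 ln.2) (hWP : 𝔑.nW ≤ 𝔑.nP) (hA : PvmaAcc 𝔑 τ ap am) :
    PvmhfOk 𝔫 M τ ln (pvfjmDp τ).1 D (pvfjmDp τ).2 (pvmhfBf 𝔫 M τ D) (pvmhfWf 𝔫 M τ ln D) (pvmhfBkf 𝔫 M τ D) (pvmhfWhf 𝔫 M τ ln D) :=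
  pvmhf_ok hN F (pvmhf_ty_f hτ hl hWP hA) (pvmhf_S_f hN F hτ hl hWP hA)

end final

end Claimed.Agent.R289
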