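import Claimed.Agent.R289.Tr.FunC
import Claimed.Agent.R289.Tr.LinkLayW

/-!
# R289 Tr/FunCS (helper205; prefix `pvmhs_`): THE FIVE HARD FIELDS OF THE CELL LEVEL OF THE FUNNEL `o`      [`exit_pvmhf_ok` of 8, `Tr/FunC.lean`]

`pvmhs_sep`, `pvmhs_winBk`, `pvmhs_winWh`, `pvmhs_body`, `pvmhs_off` = the fields `sep winBk winWh body off` of `PvmhfOk` at the sets of 8, VERBATIM, from `hN F T hS`.
MENU FACTS (side free): `pvmhs_ya` (`y + a` off `N⁸ (cells 0..8)`), `pvmhs_far_ya`, `pvmhs_far_y` (collars of the pieces `0..8` vs blocks round `y + a`, `y`), `pvmhs_far_R` (collars of the lane vs blocks round `y`: the lane is off `Dr⁺ = N⁸ C₉ ∋ N⁷ {y}`),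
`pvmhs_c8` (cells of the frame rectangle behind `y` lie in `N⁸ {c8}`).
LOCATION (link cells ↦ menu cells): `pvmhs_col`, `pvmhs_row`, `pvmhs_rt` (the 9-collar of the route lies over the rectangle `-6 ≤ i ≤ 1`, `j` between `0` and `e`), `pvmhs_wb` (the 9-collar of the white bar lies over `y`, `y + a`).
-/

set_option autoImplicit false
set_option linter.unusedSectionVars false
set_option linter.unusedVariables false
set_option linter.unusedSimpArgs false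

namespace Claimed.Agent.R289

open Relation Set Claims.C0467 Claimed.Agent.R291

/-! ## 1. menu facts -/

section menu

variable {𝔑 : PvmnNum} {τ : PvmnType} {ln : ((ℤ × ℤ) × (ℤ × ℤ)) × ℕ} {ap am y a c u v : ℤ × ℤ} {b : ℤ} {E : Set (ℤ × ℤ)} {i j n : ℕ}

/-- the triangle inequality of the collars -/
theorem pvmhs_tri (h1 : u ∈ pvtwN i {v}) (h2 : v ∈ pvtwN j E) : u ∈ pvtwN (i + j) E := by
  rw [← pvtw_N_add]
  exact pvtw_N_iff.2 ⟨v, h2, h1⟩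

theorem pvmhs_dir_N (ha : PvmaDir a) (y : ℤ × ℤ) : y + a ∈ pvtwN 1 {y} := by
  refine ⟨y, rfl, ?_⟩
  rcases ha with rfl | rfl | rfl | rfl <;> simp only [Prod.fst_add, Prod.snd_add] <;> omega

/-- the block of indices round `y` -/
theorem pvmhs_cl_y (ha : PvmaDir a) (y : ℤ × ℤ) {p q : ℤ} (h1 : -(n : ℤ) ≤ p) (h2 : p ≤ n) (h3 : -(n : ℤ) ≤ q) (h4 : q ≤ n) : pvmhfCl y a p q ∈ pvtwN n {y} := by
  have := (pvmhf_cl_N ha y (n := n) (i := p) (j := q) (i' := 0) (j' := 0)).2 ⟨by omega, by omega, by omega, by omega⟩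
  rwa [pvmhf_cl_zero] at this

/-- the front cell is off the 8-tube of the pieces `0..8` -/
theorem pvmhs_ya (T : PvmhfTy 𝔑 τ ln ap am y a b) : y + a ∉ pvtwN 8 (pvmnCells τ 0 8) := by
  intro h
  have h1 := T.e1
  rw [pvmhf_cl_one] at h1
  exact Set.disjoint_left.1 pvfjm_E_off h1 h

/-- collars of the pieces `0..8` vs blocks round `y + a` -/
theorem pvmhs_far_ya (T : PvmhfTy 𝔑 τ ln ap am y a b) (hij : i + j ≤ 8) (h1 : c ∈ pvtwN i (pvmnCells τ 0 8)) (h2 : c ∈ pvtwN j {y + a}) : False :=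
  pvmhs_ya T (pvtw_N_mono (by omega) le_rfl (pvmhs_tri (pvtw_N_symm h2) h1))

/-- collars of the pieces `0..8` vs blocks round `y` -/
theorem pvmhs_far_y (T : PvmhfTy 𝔑 τ ln ap am y a b) (hij : i + j ≤ 7) (h1 : c ∈ pvtwN i (pvmnCells τ 0 8)) (h2 : c ∈ pvtwN j {y}) : False :=
  pvmhs_far_ya T (i := i) (j := j + 1) (by omega) h1 (pvmhs_tri h2 (pvtw_N_symm (pvmhs_dir_N T.dir y)))

/-- collars of the lane vs blocks round `y` -/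
theorem pvmhs_far_R (T : PvmhfTy 𝔑 τ ln ap am y a b) (hij : i + j ≤ 7) (h1 : c ∈ pvtwN i (pvlpR τ ln)) (h2 : c ∈ pvtwN j {y}) : False := by
  obtain ⟨r, hr, hcr⟩ := pvtw_N_iff.1 h1
  have h3 : r ∈ pvtwN (i + (j + 1)) (τ.C 9 : Set (ℤ × ℤ)) := pvmhs_tri (pvtw_N_symm hcr) (pvmhs_tri h2 T.y9)
  exact (pvlp_R_sub T.ts T.hl hr).2 (Or.inr (pvtw_N_mono (by omega) le_rfl h3))

/-- the block round `y + a` lies in the block round `y` -/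
theorem pvmhs_ya_y (T : PvmhfTy 𝔑 τ ln ap am y a b) (h : c ∈ pvtwN j {y + a}) : c ∈ pvtwN (j + 1) {y} :=
  pvmhs_tri h (pvmhs_dir_N T.dir y)

/-- the cells of the frame behind the face of `y` lie in the block of `c8` -/
theorem pvmhs_c8 (T : PvmhfTy 𝔑 τ ln ap am y a b) {p q : ℤ} (h1 : -16 ≤ p) (h2 : p ≤ 0) (h3 : q ≤ b + 8) (h4 : b ≤ q + 8) : pvmhfCl y a p q ∈ pvtwN 8 (τ.C 8 : Set (ℤ × ℤ)) :=
  pvtw_N_iff.2 ⟨_, T.c8, (pvmhf_cl_N T.dir y).2 ⟨by push_cast; omega, by push_cast; omega, by push_cast; omega, by push_cast; omega⟩⟩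

theorem pvmhs_C8_sub : (τ.C 8 : Set (ℤ × ℤ)) ⊆ pvmnCells τ 7 8 := pvmn_C_sub 8 (by show 7 ≤ 8; omega) (by show 8 ≤ 8; omega)

theorem pvmhs_C7_sub : (τ.C 7 : Set (ℤ × ℤ)) ⊆ pvmnCells τ 7 8 := pvmn_C_sub 7 (by show 7 ≤ 7; omega) (by show 7 ≤ 8; omega)

/-- the hook block of the black core -/
theorem pvmhs_E7 : pvtwN 1 (pvtwN 3 (τ.C 7 : Set (ℤ × ℤ)) ∪ pvtwN 2 (τ.C 8 : Set (ℤ × ℤ))) ⊆ pvtwN 4 (pvmnCells τ 7 8) := by
  rw [pvtw_N_union, pvtw_N_add, pvtw_N_add]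
  exact Set.union_subset (pvtw_N_mono (by omega) pvmhs_C7_sub) (pvtw_N_mono (by omega) pvmhs_C8_sub)

/-- the hook block of the black core is off the block of the last cell of the lane -/
theorem pvmhs_E7_A1 (hτ : PvmnIsType 𝔑 τ) (hl : PvmnLaneR τ ln.1 ln.2) :
    Disjoint (pvtwN 1 (pvtwN 3 (τ.C 7 : Set (ℤ × ℤ)) ∪ pvtwN 2 (τ.C 8 : Set (ℤ × ℤ)))) (pvtwN 1 {pvlpA1 τ ln}) := by
  rw [pvtw_N_union, pvtw_N_add, pvtw_N_add, Set.disjoint_union_left]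
  constructor
  · refine pvlkv_blk_off ?_
    intro h
    have := (pvgw_far hτ (p := 7) (q := 9) (i := 1 + (1 + 3)) (j := 9) (by omega) (by omega) h (pvhh_A1_mem hτ hl)).2
    have e9 : (9 : Fin 10).1 = 9 := rfl
    have e7 : (7 : Fin 10).1 = 7 := rfl
    omega
  · refine pvlkv_blk_off ?_
    intro h
    exact pvlkv_A1_off hτ hl (pvtw_N_mono (by omega) (pvmn_C_sub 8 (by omega) (by show 8 ≤ 9; omega)) h)

end menu

/-! ## 2. location: link cells ↦ menu cells -/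

section loc

variable {𝔑 : PvmnNum} {τ : PvmnType} {ln : ((ℤ × ℤ) × (ℤ × ℤ)) × ℕ} {ap am y a D k : ℤ × ℤ} {b e : ℤ} {𝔫 : PvmhfNum} {M : PvgwMap} {n : ℕ}

theorem pvmhs_cp (b : ℤ) : -6 ≤ pvmhfCp b ∧ pvmhfCp b ≤ 6 := by
  unfold pvmhfCp
  omega

/-- `e` lies between `0` and `b` -/
theorem pvmhs_cp_b {b q : ℤ} (hb : -8 ≤ b ∧ b ≤ 8) (h1 : min (pvmhfCp b) 0 ≤ q) (h2 : q ≤ max (pvmhfCp b) 0) : q ≤ b + 8 ∧ b ≤ q + 8 := by
  unfold pvmhfCp at h1 h2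
  omega

/-- the 9-collar of the column lies over the menu cells `(-6, j)`, `j` between `0` and `e` -/
theorem pvmhs_col (hN : 𝔫.OK) (F : PvmhfFr M y a D 𝔫.κ 𝔫.g 𝔫.lt) (hn : n ≤ 9) (hk : k ∈ pvmhfBx D a (𝔫.xc - n) (𝔫.xc + n) (𝔫.ylo e - n) (𝔫.yhi e + n)) :
    ∃ j, min e 0 ≤ j ∧ j ≤ max e 0 ∧ M.ap k = pvmhfCl y a (-6) j := by
  obtain ⟨k1, k2, k3, k4⟩ := hk
  obtain ⟨c1, c2, c3, c4, c5, c6, c7, -, -, -⟩ := hN
  unfold PvmhfNum.xc at k1 k2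
  unfold PvmhfNum.ylo PvmhfNum.yb at k3
  unfold PvmhfNum.yhi PvmhfNum.yb at k4
  rcases le_total e 0 with he | he
  · have hm : e * 𝔫.κ ≤ 0 := mul_nonpos_of_nonpos_of_nonneg he (by omega)
    obtain ⟨i, j, a1, a2, a3, a4, h⟩ := F.ap_box (k := k) (i0 := -6) (i1 := -6) (j0 := e) (j1 := 0) (by omega) (by omega) (by omega) (by omega)
    obtain rfl : i = -6 := by omega
    exact ⟨j, by omega, by omega, h⟩
  · have hm : 0 ≤ e * 𝔫.κ := mul_nonneg he (by omega)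
    obtain ⟨i, j, a1, a2, a3, a4, h⟩ := F.ap_box (k := k) (i0 := -6) (i1 := -6) (j0 := 0) (j1 := e) (by omega) (by omega) (by omega) (by omega)
    obtain rfl : i = -6 := by omega
    exact ⟨j, by omega, by omega, h⟩

/-- the rows `w0 - 9 .. b1 + 9` lie over the menu row `j = 0` -/
theorem pvmhs_row (hN : 𝔫.OK) (F : PvmhfFr M y a D 𝔫.κ 𝔫.g 𝔫.lt) {i0 i1 : ℤ} (h1 : i0 * 𝔫.κ ≤ pvmhfX D a k + 𝔫.g + 𝔫.κ) (h2 : pvmhfX D a k + 𝔫.g + 𝔫.κ < i1 * 𝔫.κ + 𝔫.κ)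
    (h3 : 𝔫.w0 - 9 ≤ pvmhfY D a k) (h4 : pvmhfY D a k ≤ 𝔫.b1 + 9) : ∃ i, i0 ≤ i ∧ i ≤ i1 ∧ M.ap k = pvmhfCl y a i 0 := by
  obtain ⟨c1, c2, c3, c4, c5, c6, c7, -, -, -⟩ := hN
  obtain ⟨i, j, a1, a2, a3, a4, h⟩ := F.ap_box (k := k) (i0 := i0) (i1 := i1) (j0 := 0) (j1 := 0) h1 h2 (by omega) (by omega)
  obtain rfl : j = 0 := by omega
  exact ⟨i, a1, a2, h⟩

/-- the collar of the route, in boxes -/
theorem pvmhs_N_rt (ha : PvmaDir a) : pvtwN n (pvmhfRt 𝔫 D a e) ⊆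
    pvmhfBx D a (𝔫.xc - n) (𝔫.xc + n) (𝔫.ylo e - n) (𝔫.yhi e + n) ∪ pvmhfBx D a (𝔫.xc - n) (-𝔫.xe + n) (𝔫.b0 - n) (𝔫.b1 + n) := by
  unfold pvmhfRt
  rw [pvtw_N_union]
  exact Set.union_subset_union (pvmhf_N_bx_sub ha) (pvmhf_N_bx_sub ha)

/-- **the 9-collar of the route lies over the rectangle `-6 ≤ i ≤ 1`, `j` between `0` and `e`** -/
theorem pvmhs_rt (hN : 𝔫.OK) (F : PvmhfFr M y a D 𝔫.κ 𝔫.g 𝔫.lt) (hn : n ≤ 9)
    (hk : k ∈ pvmhfBx D a (𝔫.xc - n) (𝔫.xc + n) (𝔫.ylo e - n) (𝔫.yhi e + n) ∪ pvmhfBx D a (𝔫.xc - n) (-𝔫.xe + n) (𝔫.b0 - n) (𝔫.b1 + n)) :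
    ∃ i j, -6 ≤ i ∧ i ≤ 1 ∧ min e 0 ≤ j ∧ j ≤ max e 0 ∧ (pvmhfX D a k < -𝔫.g → i ≤ 0) ∧ M.ap k = pvmhfCl y a i j := by
  rcases hk with hk | hk
  · obtain ⟨j, j1, j2, h⟩ := pvmhs_col hN F hn hk
    exact ⟨-6, j, le_rfl, by omega, j1, j2, fun _ => by omega, h⟩
  · obtain ⟨k1, k2, k3, k4⟩ := hk
    have c1 := hN.κ400
    have c2 := hN.xe_le
    have c3 := hN.g_le
    have c5 := hN.w0b
    unfold PvmhfNum.xc at k1
    by_cases hx : pvmhfX D a k < -𝔫.g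
    · obtain ⟨i, i1, i2, h⟩ := pvmhs_row hN F (k := k) (i0 := -6) (i1 := 0) (by omega) (by omega) (by omega) (by omega)
      exact ⟨i, 0, i1, by omega, by omega, by omega, fun _ => i2, h⟩
    · obtain ⟨i, i1, i2, h⟩ := pvmhs_row hN F (k := k) (i0 := 1) (i1 := 1) (by omega) (by omega) (by omega) (by omega)
      exact ⟨i, 0, by omega, i2, by omega, by omega, fun h' => absurd h' hx, h⟩

/-- the 9-collar of the route lies over the block `N⁶ {y}` -/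
theorem pvmhs_rt_y (hN : 𝔫.OK) (F : PvmhfFr M y a D 𝔫.κ 𝔫.g 𝔫.lt) (hn : n ≤ 9) (he : -6 ≤ e ∧ e ≤ 6) : pvtwN n (pvmhfRt 𝔫 D a e) ⊆ M.pre (pvtwN 6 {y}) := by
  intro k hk
  obtain ⟨i, j, i1, i2, j1, j2, -, h⟩ := pvmhs_rt hN F hn (pvmhs_N_rt F.dir hk)
  show M.ap k ∈ pvtwN 6 {y}
  rw [h]
  exact pvmhs_cl_y F.dir y (by push_cast; omega) (by push_cast; omega) (by push_cast; omega) (by push_cast; omega)

/-- the 9-collar of the white bar lies over `y`, `y + a` -/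
theorem pvmhs_wb (hN : 𝔫.OK) (F : PvmhfFr M y a D 𝔫.κ 𝔫.g 𝔫.lt) (hn : n ≤ 9) (hk : k ∈ pvtwN n (pvmhfWB 𝔫 D a)) :
    ∃ i, 0 ≤ i ∧ i ≤ 1 ∧ (pvmhfX D a k < -𝔫.g → i ≤ 0) ∧ M.ap k = pvmhfCl y a i 0 := by
  obtain ⟨k1, k2, k3, k4⟩ := pvmhf_N_bx_sub F.dir hk
  have c1 := hN.κ400
  have c2 := hN.xe_le
  have c3 := hN.g_le
  have c4 := hN.b01
  by_cases hx : pvmhfX D a k < -𝔫.g
  · obtain ⟨i, i1, i2, h⟩ := pvmhs_row hN F (k := k) (i0 := 0) (i1 := 0) (by omega) (by omega) (by omega) (by omega)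
    exact ⟨i, i1, by omega, fun _ => i2, h⟩
  · obtain ⟨i, i1, i2, h⟩ := pvmhs_row hN F (k := k) (i0 := 1) (i1 := 1) (by omega) (by omega) (by omega) (by omega)
    exact ⟨i, by omega, i2, fun h' => absurd h' hx, h⟩

theorem pvmhs_wb_y (hN : 𝔫.OK) (F : PvmhfFr M y a D 𝔫.κ 𝔫.g 𝔫.lt) (hn : n ≤ 9) : pvtwN n (pvmhfWB 𝔫 D a) ⊆ M.pre (pvtwN 1 {y}) := by
  intro k hk
  obtain ⟨i, i1, i2, -, h⟩ := pvmhs_wb hN F hn hk
  show M.ap k ∈ pvtwN 1 {y}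
  rw [h]
  exact pvmhs_cl_y F.dir y (by push_cast; omega) (by push_cast; omega) (by norm_num) (by norm_num)

/-- **where the collar of the contour stretch `S` lives**: over `N⁵ (cells 7 8)`, or in the collar of the route, behind the second door -/
theorem pvmhs_S (hN : 𝔫.OK) (F : PvmhfFr M y a D 𝔫.κ 𝔫.g 𝔫.lt) {S : Set (ℤ × ℤ)} (hS : PvmhfS 𝔫 M τ ln D a e S) (hn : n ≤ 2) (hk : k ∈ pvtwN n S) :
    M.ap k ∈ pvtwN 5 (pvmnCells τ 7 8) ∨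
      (k ∈ pvmhfBx D a (𝔫.xc - (n + 7 : ℕ)) (𝔫.xc + (n + 7 : ℕ)) (𝔫.ylo e - (n + 7 : ℕ)) (𝔫.yhi e + (n + 7 : ℕ)) ∪ pvmhfBx D a (𝔫.xc - (n + 7 : ℕ)) (-𝔫.xe + (n + 7 : ℕ)) (𝔫.b0 - (n + 7 : ℕ)) (𝔫.b1 + (n + 7 : ℕ)) ∧
        pvmhfX D a k ≤ -𝔫.g - 76) := by
  obtain ⟨w, hw, hkw⟩ := pvtw_N_iff.1 hk
  obtain ⟨b', hadj, hb'⟩ := hS.loc w hw
  obtain ⟨p1, p2, p3, p4⟩ := (pvmhf_N_iff F.dir D).1 hkw
  obtain ⟨q1, q2, q3, q4⟩ := pvmhf_adj F.dir D hadj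
  have c1 := hN.κ400
  have c2 := hN.xe_le
  rcases hb' with hb' | hb' | hb'
  · left
    have h1 : k ∈ pvtwN (n + 1) {b'} := (pvmhf_N_iff F.dir D).2 ⟨by push_cast; omega, by push_cast; omega, by push_cast; omega, by push_cast; omega⟩
    have h2 := pvmhs_tri (F.lip (n := n + 1) (by push_cast; omega) h1) hb'
    exact h2
  · right
    obtain ⟨r1, r2, r3, r4⟩ := hb'
    refine ⟨Or.inl ⟨by push_cast; omega, by push_cast; omega, by push_cast; omega, by push_cast; omega⟩, ?_⟩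
    unfold PvmhfNum.xc at r2
    omega
  · right
    obtain ⟨r1, r2, r3, r4⟩ := hb'
    exact ⟨Or.inr ⟨by push_cast; omega, by push_cast; omega, by push_cast; omega, by push_cast; omega⟩, by omega⟩

end loc

/-! ## 3. the windows -/

section main

variable {𝔑 : PvmnNum} {τ : PvmnType} {ln : ((ℤ × ℤ) × (ℤ × ℤ)) × ℕ} {ap am y a D : ℤ × ℤ} {b : ℤ} {𝔫 : PvmhfNum} {M : PvgwMap} {S : Set (ℤ × ℤ)}

theorem pvmhs_c2 (hN : 𝔫.OK) : ((𝔫.c2 + 3 : ℕ) : ℤ) ≤ 𝔫.κ := by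
  have h1 := hN.c12
  have h2 := hN.c1_2
  push_cast at h1 ⊢
  omega

theorem pvmhs_c1 (hN : 𝔫.OK) : ((𝔫.c1 + 3 : ℕ) : ℤ) ≤ 𝔫.κ := by
  have h1 := hN.c12
  have h2 := hN.c2_2
  push_cast at h1 ⊢
  omega

/-- the black rooms lie over the 3-tube -/
theorem pvmhs_room_B (hN : 𝔫.OK) (F : PvmhfFr M y a D 𝔫.κ 𝔫.g 𝔫.lt) {n : ℕ} (hn : n ≤ 𝔫.c2 + 3) : pvtwN n (M.pre (pvtwN 2 (pvmnCells τ 5 8))) ⊆ M.pre (pvtwN 3 (pvmnCells τ 5 8)) := by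
  have h := F.N_pre (E := pvtwN 2 (pvmnCells τ 5 8)) (n := n) (by have := pvmhs_c2 hN; push_cast at this ⊢; omega)
  rwa [pvtw_N_add] at h

/-- the white rooms lie over the 1-collar of the lane -/
theorem pvmhs_room_W (hN : 𝔫.OK) (F : PvmhfFr M y a D 𝔫.κ 𝔫.g 𝔫.lt) : pvtwN 𝔫.c1 (M.pre (pvlpR τ ln)) ⊆ M.pre (pvtwN 1 (pvlpR τ ln)) :=
  F.N_pre (by have := pvmhs_c1 hN; push_cast at this ⊢; omega)

/-- the hook block of the black core lies over the 4-tube -/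
theorem pvmhs_hook_B (hN : 𝔫.OK) (F : PvmhfFr M y a D 𝔫.κ 𝔫.g 𝔫.lt) {n : ℕ} (hn : n ≤ 9) :
    pvtwN n (M.pre (pvtwN 3 (τ.C 7 : Set (ℤ × ℤ)) ∪ pvtwN 2 (τ.C 8 : Set (ℤ × ℤ)))) ⊆ M.pre (pvtwN 4 (pvmnCells τ 7 8)) := fun k hk =>
  pvmhs_E7 (F.N_pre (by have := hN.κ400; omega) hk)

/-- the hook block of the white core lies over the 2-block of `A1` -/
theorem pvmhs_hook_W (hN : 𝔫.OK) (F : PvmhfFr M y a D 𝔫.κ 𝔫.g 𝔫.lt) {n : ℕ} (hn : n ≤ 9) : pvtwN n (M.pre (pvtwN 1 {pvlpA1 τ ln})) ⊆ M.pre (pvtwN 2 {pvlpA1 τ ln}) := by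
  have h := F.N_pre (E := pvtwN 1 {pvlpA1 τ ln}) (n := n) (by have := hN.κ400; omega)
  rwa [pvtw_N_add] at h

theorem pvmhs_78_08 {n : ℕ} : pvtwN n (pvmnCells τ 7 8) ⊆ pvtwN n (pvmnCells τ 0 8) := pvtw_N_mono le_rfl (pvmn_cells_mono (by omega) le_rfl)

theorem pvmhs_58_08 {n : ℕ} : pvtwN n (pvmnCells τ 5 8) ⊆ pvtwN n (pvmnCells τ 0 8) := pvtw_N_mono le_rfl (pvmn_cells_mono (by omega) le_rfl)

/-- **field `winBk`** -/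
theorem pvmhs_winBk (hN : 𝔫.OK) (F : PvmhfFr M y a D 𝔫.κ 𝔫.g 𝔫.lt) (T : PvmhfTy 𝔑 τ ln ap am y a b) :
    ∀ k ∈ pvmhfBk 𝔫 M τ D a (pvmhfCp b), M.ap k ∈ pvtwN 2 {y + a} → -𝔫.g - 70 ≤ pvmhfX D a k → k ∈ pvmhfBx D a (-𝔫.g - 70) (-𝔫.xe + 2) (𝔫.b0 - 2) (𝔫.b1 + 2) := by
  intro k hk hya hX
  unfold pvmhfBk pvmhfXB at hk
  rw [pvtw_N_union] at hk
  rcases hk with (h | h) | h
  · exact (pvmhs_far_ya T (i := 4) (j := 2) (by omega) (pvmhs_78_08 (pvmhs_hook_B hN F (by omega) h)) hya).elim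
  · rcases pvmhs_N_rt F.dir h with ⟨k1, k2, k3, k4⟩ | ⟨k1, k2, k3, k4⟩
    · have c1 := hN.κ400
      unfold PvmhfNum.xc at k2
      omega
    · exact ⟨hX, by omega, by omega, by omega⟩
  · exact (pvmhs_far_ya T (i := 3) (j := 2) (by omega) (pvmhs_58_08 (pvmhs_room_B hN F (by omega) h)) hya).elim

/-- **field `winWh`** -/
theorem pvmhs_winWh (hN : 𝔫.OK) (F : PvmhfFr M y a D 𝔫.κ 𝔫.g 𝔫.lt) (T : PvmhfTy 𝔑 τ ln ap am y a b) (hS : PvmhfS 𝔫 M τ ln D a (pvmhfCp b) S) :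
    ∀ k ∈ pvmhfWh 𝔫 M τ ln D a S, M.ap k ∈ pvtwN 2 {y + a} → -𝔫.g - 70 ≤ pvmhfX D a k → k ∈ pvmhfBx D a (-𝔫.g - 70) (-𝔫.xe + 2) (𝔫.w0 - 2) (𝔫.b0 - 5) := by
  intro k hk hya hX
  unfold pvmhfWh pvmhfXW at hk
  rw [pvtw_N_union, pvtw_N_union] at hk
  rcases hk with ((h | h) | h) | h
  · rcases pvmhs_S hN F hS le_rfl h with h1 | ⟨-, h1⟩
    · exact (pvmhs_far_ya T (i := 5) (j := 2) (by omega) (pvmhs_78_08 h1) hya).elim
    · omega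
  · have h1 : M.ap k ∈ pvtwN 2 (pvlpR τ ln) := pvtw_N_mono le_rfl (Set.singleton_subset_iff.2 (pvlp_A1 T.ts T.hl).1) (pvmhs_hook_W hN F (by omega) h)
    exact (pvmhs_far_R T (i := 2) (j := 3) (by omega) h1 (pvmhs_ya_y T hya)).elim
  · obtain ⟨k1, k2, k3, k4⟩ := pvmhf_N_bx_sub F.dir h
    exact ⟨hX, by omega, by omega, by omega⟩
  · exact (pvmhs_far_R T (i := 1) (j := 3) (by omega) (pvmhs_room_W hN F h) (pvmhs_ya_y T hya)).elim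

/-! ## 4. everything lives over the body, or in the nozzle -/

/-- a cell of the collar of the route behind the face of `y` lies over `N⁸ C₈` -/
theorem pvmhs_rt_c8 (hN : 𝔫.OK) (F : PvmhfFr M y a D 𝔫.κ 𝔫.g 𝔫.lt) (T : PvmhfTy 𝔑 τ ln ap am y a b) {n : ℕ} (hn : n ≤ 9) {k : ℤ × ℤ}
    (hk : k ∈ pvmhfBx D a (𝔫.xc - n) (𝔫.xc + n) (𝔫.ylo (pvmhfCp b) - n) (𝔫.yhi (pvmhfCp b) + n) ∪ pvmhfBx D a (𝔫.xc - n) (-𝔫.xe + n) (𝔫.b0 - n) (𝔫.b1 + n))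
    (hX : pvmhfX D a k < -𝔫.g) : M.ap k ∈ pvtwN 8 (pvmnCells τ 7 8) := by
  obtain ⟨i, j, i1, i2, j1, j2, hi, h⟩ := pvmhs_rt hN F hn hk
  obtain ⟨b1, b2⟩ := pvmhs_cp_b T.b8 j1 j2
  rw [h]
  exact pvtw_N_mono le_rfl pvmhs_C8_sub (pvmhs_c8 T (by omega) (hi hX) b1 b2)

/-- the 2-collar of the black core -/
theorem pvmhs_XB2 (hN : 𝔫.OK) (F : PvmhfFr M y a D 𝔫.κ 𝔫.g 𝔫.lt) (T : PvmhfTy 𝔑 τ ln ap am y a b) :
    pvtwN 2 (pvmhfXB 𝔫 M τ D a (pvmhfCp b)) ⊆ M.pre (pvtwN 8 (pvmnCells τ 7 8)) ∪ pvmhfBx D a (-𝔫.g) (-𝔫.xe + 2) (𝔫.w0 - 2) (𝔫.b1 + 2) := by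
  intro k hk
  unfold pvmhfXB at hk
  rw [pvtw_N_union] at hk
  rcases hk with h | h
  · exact Or.inl (pvtw_N_mono (by omega) le_rfl (pvmhs_hook_B hN F (by omega) h))
  · have h' := pvmhs_N_rt F.dir h
    by_cases hX : pvmhfX D a k < -𝔫.g
    · exact Or.inl (pvmhs_rt_c8 hN F T (by omega) h' hX)
    · right
      have c1 := hN.κ400
      have c5 := hN.w0b
      rcases h' with ⟨k1, k2, k3, k4⟩ | ⟨k1, k2, k3, k4⟩
      · unfold PvmhfNum.xc at k2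
        omega
      · exact ⟨by omega, by omega, by omega, by omega⟩

/-- the 2-collar of the white core -/
theorem pvmhs_XW2 (hN : 𝔫.OK) (F : PvmhfFr M y a D 𝔫.κ 𝔫.g 𝔫.lt) (T : PvmhfTy 𝔑 τ ln ap am y a b) (hS : PvmhfS 𝔫 M τ ln D a (pvmhfCp b) S) :
    pvtwN 2 (pvmhfXW 𝔫 M τ ln D a S) ⊆ M.pre (pvtwN 8 (pvmnCells τ 7 8)) ∪ pvmhfBx D a (-𝔫.g) (-𝔫.xe + 2) (𝔫.w0 - 2) (𝔫.b1 + 2) := by
  intro k hk
  unfold pvmhfXW at hk
  rw [pvtw_N_union, pvtw_N_union] at hk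
  rcases hk with (h | h) | h
  · rcases pvmhs_S hN F hS le_rfl h with h1 | ⟨h1, h2⟩
    · exact Or.inl (pvtw_N_mono (by omega) le_rfl h1)
    · exact Or.inl (pvmhs_rt_c8 hN F T (n := 2 + 7) (by omega) h1 (by omega))
  · left
    have h1 : M.ap k ∈ pvtwN (2 + 5) (τ.C 8 : Set (ℤ × ℤ)) := by
      rw [← pvtw_N_add]
      exact pvtw_N_mono le_rfl (Set.singleton_subset_iff.2 (pvlkv_A1_C8 T.ts T.hl)) (pvmhs_hook_W hN F (by omega) h)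
    exact pvtw_N_mono (by omega) pvmhs_C8_sub h1
  · obtain ⟨i, i1, i2, hi, h1⟩ := pvmhs_wb hN F (by omega) h
    by_cases hX : pvmhfX D a k < -𝔫.g
    · left
      show M.ap k ∈ pvtwN 8 (pvmnCells τ 7 8)
      rw [h1]
      have b8 := T.b8
      exact pvtw_N_mono le_rfl pvmhs_C8_sub (pvmhs_c8 T (by omega) (hi hX) (by omega) (by omega))
    · right
      obtain ⟨k1, k2, k3, k4⟩ := pvmhf_N_bx_sub F.dir h
      have c4 := hN.b01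
      exact ⟨by omega, by omega, by omega, by omega⟩

/-- **field `off`** -/
theorem pvmhs_off (hN : 𝔫.OK) (F : PvmhfFr M y a D 𝔫.κ 𝔫.g 𝔫.lt) (T : PvmhfTy 𝔑 τ ln ap am y a b) (hS : PvmhfS 𝔫 M τ ln D a (pvmhfCp b) S) :
    pvtwN 1 (pvmhfB 𝔫 M τ D a (pvmhfCp b)) ∪ pvtwN 1 (pvmhfW 𝔫 M τ ln D a S) ⊆ M.pre (pvtwN 8 (pvmnCells τ 7 8)) ∪ pvmhfBx D a (-𝔫.g) (-𝔫.xe + 2) (𝔫.w0 - 2) (𝔫.b1 + 2) := by
  unfold pvmhfB pvmhfW
  rw [pvtw_N_add, pvtw_N_add]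
  exact Set.union_subset (pvmhs_XB2 hN F T) (pvmhs_XW2 hN F T hS)

/-- **field `body`** -/
theorem pvmhs_body (hN : 𝔫.OK) (F : PvmhfFr M y a D 𝔫.κ 𝔫.g 𝔫.lt) (T : PvmhfTy 𝔑 τ ln ap am y a b) (hS : PvmhfS 𝔫 M τ ln D a (pvmhfCp b) S) :
    pvmhfBk 𝔫 M τ D a (pvmhfCp b) ∪ pvmhfWh 𝔫 M τ ln D a S ⊆ M.pre (pvtwN 8 (pvmnCells τ 1 8)) ∪ pvmhfBx D a (-𝔫.g) (-𝔫.xe + 2) (𝔫.w0 - 2) (𝔫.b1 + 2) := by
  have h78 : M.pre (pvtwN 8 (pvmnCells τ 7 8)) ∪ pvmhfBx D a (-𝔫.g) (-𝔫.xe + 2) (𝔫.w0 - 2) (𝔫.b1 + 2) ⊆ M.pre (pvtwN 8 (pvmnCells τ 1 8)) ∪ pvmhfBx D a (-𝔫.g) (-𝔫.xe + 2) (𝔫.w0 - 2) (𝔫.b1 + 2) :=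
    Set.union_subset_union_left _ fun k hk => pvtw_N_mono le_rfl (pvmn_cells_mono (by omega) le_rfl) hk
  unfold pvmhfBk pvmhfWh
  rintro k ((h | h) | (h | h))
  · exact h78 (pvmhs_XB2 hN F T h)
  · exact Or.inl (pvtw_N_mono (by omega) (pvmn_cells_mono (by omega) le_rfl) (pvmhs_room_B hN F (by omega) h))
  · exact h78 (pvmhs_XW2 hN F T hS h)
  · left
    have h1 : M.ap k ∈ pvtwN (1 + 5) (pvmnCells τ 1 8) := by
      rw [← pvtw_N_add]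
      exact pvtw_N_mono le_rfl (pvlkv_R_in T.ts T.hl) (pvmhs_room_W hN F h)
    exact pvtw_N_mono (by omega) le_rfl h1

/-! ## 5. the separation of the two covers -/

/-- the contour stretch keeps `6` cells off the route -/
theorem pvmhs_rt_S (hN : 𝔫.OK) (F : PvmhfFr M y a D 𝔫.κ 𝔫.g 𝔫.lt) (T : PvmhfTy 𝔑 τ ln ap am y a b) (hS : PvmhfS 𝔫 M τ ln D a (pvmhfCp b) S) :
    Disjoint S (pvtwN 5 (pvmhfRt 𝔫 D a (pvmhfCp b))) := by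
  rw [Set.disjoint_left]
  intro w hw hwR
  have hFa : w ∉ pvmhfFa 𝔫 D a (pvmhfCp b) := fun h => Set.disjoint_left.1 hS.off hw (pvli_sub2_p (a := 0) (Or.inr h))
  have c1 := hN.κ400
  have c2 := hN.xe_le
  have c3 := hN.g_le
  have c5 := hN.w0b
  rcases pvmhs_N_rt F.dir hwR with ⟨k1, k2, k3, k4⟩ | ⟨k1, k2, k3, k4⟩
  · exact hFa (Or.inl ⟨by omega, by omega, by omega, by omega⟩)
  · by_cases hX : pvmhfX D a w ≤ -𝔫.g - 40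
    · exact hFa (Or.inr ⟨by omega, hX, by omega, by omega⟩)
    · obtain ⟨b', hadj, hb'⟩ := hS.loc w hw
      obtain ⟨q1, q2, q3, q4⟩ := pvmhf_adj F.dir D hadj
      rcases hb' with hb' | ⟨r1, r2, r3, r4⟩ | ⟨r1, r2, r3, r4⟩
      · obtain ⟨i, i1, i2, h⟩ := pvmhs_row hN F (k := b') (i0 := 0) (i1 := 1) (by omega) (by omega) (by omega) (by omega)
        have h1 : M.ap b' ∈ pvtwN 1 {y} := by
          rw [h]
          exact pvmhs_cl_y F.dir y (by push_cast; omega) (by push_cast; omega) (by norm_num) (by norm_num)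
        exact pvmhs_far_y T (i := 4) (j := 1) (by omega) (pvmhs_78_08 hb') h1
      · unfold PvmhfNum.xc at r2
        omega
      · omega

/-- **field `sep`** -/
theorem pvmhs_sep (hN : 𝔫.OK) (F : PvmhfFr M y a D 𝔫.κ 𝔫.g 𝔫.lt) (T : PvmhfTy 𝔑 τ ln ap am y a b) (hS : PvmhfS 𝔫 M τ ln D a (pvmhfCp b) S) :
    Disjoint (pvtwN 1 (pvmhfBk 𝔫 M τ D a (pvmhfCp b))) (pvmhfWh 𝔫 M τ ln D a S) := by
  have hoff : Disjoint S (pvtHull (pvliFp M τ (pvmhfFa 𝔫 D a (pvmhfCp b)))) := hS.off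
  have hcp := pvmhs_cp b
  have c1 := hN.κ400
  have k1 := pvmhs_c1 hN
  have k2 := pvmhs_c2 hN
  have k12 := hN.c12
  have hR := pvlkv_R_off T.ts T.hl
  have hA1 := pvlkv_A1_off T.ts T.hl
  have hA1R := (pvlp_A1 T.ts T.hl).1
  have h7y : Disjoint (pvtwN 1 (pvtwN 3 (τ.C 7 : Set (ℤ × ℤ)) ∪ pvtwN 2 (τ.C 8 : Set (ℤ × ℤ)))) (pvtwN 1 {y}) :=
    Set.disjoint_left.2 fun c h1 h2 => pvmhs_far_y T (i := 4) (j := 1) (by omega) (pvmhs_78_08 (pvmhs_E7 h1)) h2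
  have h7R : Disjoint (pvtwN 1 (pvtwN 3 (τ.C 7 : Set (ℤ × ℤ)) ∪ pvtwN 2 (τ.C 8 : Set (ℤ × ℤ)))) (pvlpR τ ln) :=
    hR.mono_left (pvmhs_E7.trans (pvtw_N_mono le_rfl (pvmn_cells_mono (by omega) (by omega))))
  have h5A : Disjoint (pvtwN 1 (pvtwN 2 (pvmnCells τ 5 8))) (pvtwN 1 {pvlpA1 τ ln}) := by
    rw [pvtw_N_add]
    exact pvlkv_blk_off fun h => hA1 (pvtw_N_mono (by omega) (pvmn_cells_mono (by omega) (by omega)) h)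
  have h5y : Disjoint (pvtwN 1 (pvtwN 2 (pvmnCells τ 5 8))) (pvtwN 1 {y}) := by
    rw [pvtw_N_add]
    exact Set.disjoint_left.2 fun c h1 h2 => pvmhs_far_y T (i := 1 + 2) (j := 1) (by omega) (pvmhs_58_08 h1) h2
  have h5R : Disjoint (pvtwN 1 (pvtwN 2 (pvmnCells τ 5 8))) (pvlpR τ ln) := by
    rw [pvtw_N_add]
    exact hR.mono_left (pvtw_N_mono (by omega) (pvmn_cells_mono (by omega) (by omega)))
  have hyR : Disjoint (pvtwN 1 (pvtwN 6 {y})) (pvlpR τ ln) := by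
    rw [pvtw_N_add]
    exact Set.disjoint_left.2 fun c h1 h2 => pvmhs_far_R T (i := 0) (j := 1 + 6) (by omega) (pvtw_N_sub h2) h1
  unfold pvmhfBk pvmhfWh pvmhfXB pvmhfXW
  simp only [pvtw_N_union, pvtw_N_add]
  rw [Set.disjoint_left]
  rintro k ((h | h) | h) (((g | g) | g) | g)
  · refine Set.disjoint_left.1 (pvlkv_off_S (i := 1 + 2) (j := 2) hoff ?_) h g
    exact fun v hv => Or.inl (pvmhs_78_08 (pvmhs_hook_B hN F (by omega) hv))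
  · exact Set.disjoint_left.1 (F.close (n := 1 + 2) (m := 2) (by push_cast; omega) Subset.rfl Subset.rfl (pvmhs_E7_A1 T.ts T.hl)) h g
  · exact Set.disjoint_left.1 (F.close (n := 1 + 2) (m := 2) (by push_cast; omega) Subset.rfl (by have := pvmhs_wb_y hN F (n := 0) (by omega); rwa [pvtw_N_zero] at this) h7y) h g
  · exact Set.disjoint_left.1 (F.close (n := 1 + 2) (m := 𝔫.c1) (by push_cast at k1 ⊢; omega) Subset.rfl Subset.rfl h7R) h g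
  · exact Set.disjoint_left.1 (pvmn_N_disj (i := 2) (j := 1 + 2) (pvmhs_rt_S hN F T hS)) g h
  · refine Set.disjoint_left.1 (pvmn_N_disj (i := 2) (j := 1 + 2) ?_) g h
    rw [Set.disjoint_left]
    intro z hz1 hz2
    exact pvmhs_far_R T (i := 1) (j := 6) (by omega) (pvtw_N_mono le_rfl (Set.singleton_subset_iff.2 hA1R) hz1) (pvmhs_rt_y hN F (by omega) hcp hz2)
  · obtain ⟨g1, g2, g3, g4⟩ := pvmhf_N_bx_sub F.dir g
    rcases pvmhs_N_rt F.dir h with ⟨h1, h2, h3, h4⟩ | ⟨h1, h2, h3, h4⟩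
    · unfold PvmhfNum.xc at h2
      omega
    · omega
  · exact Set.disjoint_left.1 (F.close (n := 1 + 2) (m := 𝔫.c1) (by push_cast at k1 ⊢; omega) (by have := pvmhs_rt_y hN F (n := 0) (by omega) hcp; rwa [pvtw_N_zero] at this) Subset.rfl hyR) h g
  · refine Set.disjoint_left.1 (pvlkv_off_S (i := 1 + 𝔫.c2) (j := 2) hoff ?_) h g
    exact fun v hv => Or.inl (pvtw_N_mono (by omega) le_rfl (pvmhs_58_08 (pvmhs_room_B hN F (by omega) hv)))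
  · exact Set.disjoint_left.1 (F.close (n := 1 + 𝔫.c2) (m := 2) (by push_cast at k2 ⊢; omega) Subset.rfl Subset.rfl h5A) h g
  · exact Set.disjoint_left.1 (F.close (n := 1 + 𝔫.c2) (m := 2) (by push_cast at k2 ⊢; omega) Subset.rfl (by have := pvmhs_wb_y hN F (n := 0) (by omega); rwa [pvtw_N_zero] at this) h5y) h g
  · exact Set.disjoint_left.1 (F.close (n := 1 + 𝔫.c2) (m := 𝔫.c1) (by push_cast at k12 ⊢; omega) Subset.rfl Subset.rfl h5R) h g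

end main

end Claimed.Agent.R289
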