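import Claimed.Agent.R289.Pl.Jordan
import Claimed.Agent.R289.Pl.Rim

/-!
# Row 289 (S0537, Cardy for Poisson-Voronoi), THE WALL, road E, node E15, file Tr/GoodSec : TWO CIRCUITS THROUGH ONE VERTEX, SECTORS      (helper112; prefix `pvzs_`)

PURE PLANARITY (`Pl/Jordan`: `pl_cyc_sector`, `pl_cyc_at`, `pl_jordan`, `pl_VOf_left`, `pl_int_edge`).      `S`, `c` = two simple circuits of a sphere / plane `T`, `v` = a common vertex at which `c` CROSSES `S`.
CONSUMER: `pvzc_follow_p/m` of `Tr/GoodLev` (80, `Tr/GoodFol`): the two LEFT gate edges of a gate `S` passed by a black rim `c` lie in `c.Left`, so they are not positions of the wall of `c`.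

* `pvzs_rot_ne`      the darts `rot^[k] (S.e (i+1))`, `k < K`, of the sector of `S.Left` are distinct
* **`pvzs_down`**    `c` comes OUT of `S.Left` at `v` (`opp (c.e m) ∈ S.Left`, `c.e (m+1) ∉ S.Left`): the dart of `S` which leaves `v` lies in `c.Left`
* **`pvzs_up`**      `c` goes INTO `S.Left` at `v` (`c.e (m+1) ∈ S.Left`, `opp (c.e m) ∉ S.Left`): the opposite of the dart of `S` which arrives at `v` lies in `c.Left`
* `pvzs_fwd`, `pvzs_bwd`      an arc of `c` which starts in the closed inside of `S` and avoids the vertices of `S` stays in the closed inside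
-/

set_option autoImplicit false

namespace Claimed.Agent.R289

open Relation

variable {V D : Type} {T : PvMap V D}

/-- `rot^[k] x = rot^[k'] x` with `k < k'` gives a return of `x` after `k' - k` turns -/
theorem pvzs_rot_ret {x : D} {k k' : ℕ} (hk : k < k') (e : T.rot^[k] x = T.rot^[k'] x) : T.rot^[k' - k] x = x := by
  have h1 : k' = k + (k' - k) := by omega
  rw [h1, Function.iterate_add_apply] at e
  exact ((pl_rot_injective (T := T)).iterate k e).symm

/-- membership in a face set is kept by a turn across an edge which is not a boundary edge -/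
theorem pvzs_rot_iter_succ {A : Set D} (hA : T.FaceSet A) {x : D} {k : ℕ} (h : ¬ T.Bd A (T.rot^[k + 1] x)) : T.rot^[k + 1] x ∈ A ↔ T.rot^[k] x ∈ A := by
  rw [Function.iterate_succ_apply'] at h ⊢
  exact hA.rot_mem T h

/-- **`c` COMES OUT OF `S.Left` AT `v`**: the dart of `S` which leaves `v` lies on the left of `c` -/
theorem pvzs_down (hT : T.IsSph) (S c : T.Cyc) {i m : ℕ} (hv : T.src (S.e (i + 1)) = T.src (c.e (m + 1))) (hin : T.opp (c.e m) ∈ S.Left) (hout : c.e (m + 1) ∉ S.Left)
    (hne : ¬ T.Edg c.darts (S.e (i + 1))) : S.e (i + 1) ∈ c.Left := by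
  obtain ⟨K, hK0, hK, hno, hsec⟩ := pl_cyc_sector hT S i
  obtain ⟨-, hL, -, hB⟩ := pl_jordan hT c
  have hsrc : T.src (T.opp (c.e m)) = T.src (S.e (i + 1)) := by rw [T.src_opp', c.chain m, hv]
  obtain ⟨k₁, hk₁, e₁⟩ := (hsec _ hsrc).1 hin
  have hk0 : 0 < k₁ := by
    rcases Nat.eq_zero_or_pos k₁ with rfl | h
    · exact absurd (Or.inr ⟨m, by rw [← T.opp_opp (c.e m), e₁]; rfl⟩) hne
    · exact h
  -- no edge of `c` strictly inside the part of the sector below `k₁`
  have hnc : ∀ k, 0 < k → k < k₁ → ¬ T.Edg c.darts (T.rot^[k] (S.e (i + 1))) := by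
    intro k h0 hk he
    rcases pl_cyc_at c m (by rw [T.src_rot_iter, hv]) he with h1 | h1
    · exact hout (by rw [← h1]; exact (hsec _ (T.src_rot_iter k _)).2 ⟨k, hk.trans hk₁, rfl⟩)
    · rw [e₁] at h1
      have h2 := pvzs_rot_ret hk h1
      exact hno (k₁ - k) (by omega) (by omega) (by rw [h2]; exact Or.inl ⟨i + 1, rfl⟩)
  have key : ∀ n, n < k₁ → T.rot^[k₁ - 1 - n] (S.e (i + 1)) ∈ c.Left := by
    intro n
    induction n with
    | zero =>
      intro _
      have h1 : T.rot (T.rot^[k₁ - 1] (S.e (i + 1))) = T.opp (c.e m) := by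
        rw [e₁, ← Function.iterate_succ_apply' T.rot (k₁ - 1) (S.e (i + 1)), show (k₁ - 1).succ = k₁ by omega]
      have h2 : T.nxt (T.nxt (T.rot^[k₁ - 1] (S.e (i + 1)))) = c.e m := by
        have := congrArg T.opp h1
        unfold PvMap.rot at this
        rwa [T.opp_opp, T.opp_opp] at this
      have h3 := hL m
      rw [← h2, (pl_left_face c).nxt2 T] at h3
      exact h3
    | succ n ih =>
      intro hn
      have h1 := ih (by omega)
      have e : k₁ - 1 - n = (k₁ - 1 - (n + 1)) + 1 := by omega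
      rw [e] at h1
      refine (pvzs_rot_iter_succ (pl_left_face c) (fun hb => ?_)).1 h1
      exact hnc _ (by omega) (by omega) ((hB _).1 hb)
  have := key (k₁ - 1) (by omega)
  rwa [Nat.sub_self] at this

/-- **`c` GOES INTO `S.Left` AT `v`**: the opposite of the dart of `S` which arrives at `v` lies on the left of `c` -/
theorem pvzs_up (hT : T.IsSph) (S c : T.Cyc) {i m : ℕ} (hv : T.src (S.e (i + 1)) = T.src (c.e (m + 1))) (hin : c.e (m + 1) ∈ S.Left) (hout : T.opp (c.e m) ∉ S.Left)
    (hne : ¬ T.Edg c.darts (S.e i)) : T.opp (S.e i) ∈ c.Left := by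
  obtain ⟨K, hK0, hK, hno, hsec⟩ := pl_cyc_sector hT S i
  obtain ⟨-, hL, -, hB⟩ := pl_jordan hT c
  obtain ⟨k₁, hk₁, e₁⟩ := (hsec _ hv.symm).1 hin
  have hnc : ∀ k, k₁ < k → k ≤ K → ¬ T.Edg c.darts (T.rot^[k] (S.e (i + 1))) := by
    intro k h0 hk he
    rcases Nat.lt_or_ge k K with hlt | hge
    · rcases pl_cyc_at c m (by rw [T.src_rot_iter, hv]) he with h1 | h1
      · rw [e₁] at h1
        have h2 := pvzs_rot_ret h0 h1.symm
        exact hno (k - k₁) (by omega) (by omega) (by rw [h2]; exact Or.inl ⟨i + 1, rfl⟩)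
      · exact hout (by rw [← h1]; exact (hsec _ (T.src_rot_iter k _)).2 ⟨k, hlt, rfl⟩)
    · have : k = K := le_antisymm hk hge
      rw [this, hK, T.edg_opp] at he
      exact hne he
  have key : ∀ n, k₁ + n ≤ K → T.rot^[k₁ + n] (S.e (i + 1)) ∈ c.Left := by
    intro n
    induction n with
    | zero => intro _; rw [Nat.add_zero, ← e₁]; exact hL _
    | succ n ih =>
      intro hn
      have h1 := ih (by omega)
      rw [← Nat.add_assoc]
      exact (pvzs_rot_iter_succ (pl_left_face c) (fun hb => hnc _ (by omega) hn ((hB _).1 hb))).2 h1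
  have := key (K - k₁) (by omega)
  rwa [show k₁ + (K - k₁) = K by omega, hK] at this

/-- an arc of `c` which starts in the closed inside of `S` and whose vertices (the last one excepted) are not on `S` stays in the closed inside -/
theorem pvzs_fwd (hT : T.IsSph) (S c : T.Cyc) {m₀ : ℕ} (h0 : T.src (c.e m₀) ∈ T.VOf S.Left) : ∀ n, (∀ m, m₀ ≤ m → m < m₀ + n → T.src (c.e m) ∉ S.verts) →
    T.src (c.e (m₀ + n)) ∈ T.VOf S.Left := by
  intro n
  induction n with
  | zero => intro _; exact h0
  | succ n ih =>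
    intro hav
    have h1 := ih (fun m h2 h3 => hav m h2 (by omega))
    rw [pl_VOf_left hT S] at h1
    rcases h1 with h1 | h1
    · exact absurd h1 (hav _ (by omega) (by omega))
    · have := (pl_int_edge hT S h1).2.2
      rwa [c.chain] at this

/-- the same backwards -/
theorem pvzs_bwd (hT : T.IsSph) (S c : T.Cyc) {m₁ : ℕ} (h0 : T.src (c.e m₁) ∈ T.VOf S.Left) : ∀ n, n ≤ m₁ → (∀ m, m₁ - n < m → m ≤ m₁ → T.src (c.e m) ∉ S.verts) →
    T.src (c.e (m₁ - n)) ∈ T.VOf S.Left := by
  intro n
  induction n with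
  | zero => intro _ _; exact h0
  | succ n ih =>
    intro hn hav
    have h1 := ih (by omega) (fun m h2 h3 => hav m (by omega) h3)
    rw [pl_VOf_left hT S] at h1
    rcases h1 with h1 | h1
    · exact absurd h1 (hav _ (by omega) (by omega))
    · have e : m₁ - n = (m₁ - (n + 1)) + 1 := by omega
      have h2 : T.src (T.opp (c.e (m₁ - (n + 1)))) ∈ T.Int S.Left := by rw [T.src_opp', c.chain, ← e]; exact h1
      have := (pl_int_edge hT S h2).2.2
      rwa [T.tgt_opp] at this

end Claimed.Agent.R289
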