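-- KEEP
import Claimed.Agent.R289.Tr.HookCol
import Claimed.Agent.R289.Tr.HookYT
import Claimed.Agent.R289.Tr.FrcDetO

/-!
# Row 289 (S0537), THE WALL, ROAD E, E10 AT THE HYBRID ENDS, (b3) DET, file Tr/HookColU : THE TIP FOOT AT THE MODEL, ONE STOP, **AT ALL TIP CELLS (CORNERS INCLUDED)**, NUMBERS PAID      (helper112; prefix `pvha_`, continuation of `Tr/HookLA`)

WHY.   `pvhc_foot_o / _i / _e` of 235 (`Tr/HookCol`) sit on `pvhu_foot_out_pl / _in_pl` of 66: they ask `hout` (the apex of the stub lies beyond THE side `ζ` of the own-level box): FALSE for some data at a corner tip cell (155, 23).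
`Tr/HookYT` of 23 has the cure (`pvhj_foot_outU_pl / _inU_pl`: `PvhjEndD`, arms `PvhjArmT`, no `hζ hout hS`).      HERE: the one stops of 235 on the U feet of 23, then with the numbers of 266 (`Tr/FrcDetO`) plugged in.
* sec. 1  **`pvha_footU_o`, `pvha_footU_i`, `pvha_footU_e`** = `pvhc_foot_o / _i / _e` VERBATIM except: `E : PvhjEndD ..`, arms `PvhjArmT (pvieY η) (pvhcK κ b) β ζ c rt ρ rs (β | !β) ..`, and `hζ hout hS` ARE GONE.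
* sec. 2  `pvha_dense_of_mesh` (a mesh certificate read in ANY set `W ⊇ closedBall x (R + μ)` gives `VorDense` of the ball)
* sec. 3  **`pvha_footN_o`, `pvha_footN_i`, `pvha_footN_e`** : NO `PvhjEndD`, NO `ht1 ht2`: radii of record of 266 (`R = ρ h`, `rs ∈ [R/4, R/2]` free, `rt := R/10 + 4 ρ'`, `ζ := conj (dout t)` | `conj (- din t)`), ONE certificate more AT THE BASE: mesh `ρ'` read in a set which contains the big mouth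
          `closedBall c (ρ₂ h + 4 ρ')`, `80 ρ' ≤ R`;   tip cells within `ρ / 10` of their centres (`hc`).
0 SORRY.
-/

set_option autoImplicit false
set_option linter.unusedSectionVars false
set_option linter.unusedVariables false

namespace Claimed.Agent.R289

open Set Metric

/-! ## 1. the one stops of 235 on the U feet of 23 -/

section model

variable {τ : Type} {c : ℝ} {𝔓 : PvxPar τ c} {𝔈 : PvieEng τ} {m : ℕ} {ε : ℝ} {z : ℂ} {t : τ} {μ μ' : ℝ} {η₀ η : Conf PvPt} {w : ∀ η : Conf PvPt, (delbPl (pvieY η)).Dart → ℂ} {T : PvjeTest}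
  {K₀ : Set (pvieY η₀)} {r r₁ ρ rs rt : ℝ} {ζ : ℂ}

/-- **THE FIRST LINK `t → door` AT A FINAL CONFIGURATION, THE END `t`, ONE STOP**: the carried `Σ_out(z,t)` of 71 with the same base data, a copy colouring `κ` which carries the pattern, the fresh lines,
and THE FOOT (slot `J₀` of `pvhj_run_foot_pl`) at the tip dart of the carried state for every family of arms of `κ` AT THE SITES OF `η`.      Certificates AT THE BASE ONLY: mesh `μ` of the own-level box, mesh `μ'` read in the mouth, `PvhjEnd` (mesh of the big mouth). -/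
theorem pvha_footU_o (hμ : 0 < μ) (h3 : 3 * μ ≤ pvlmDel c m) (hb : (𝔓.ty t).b * pvlmH m ≤ pviwRad 𝔓 m t) (hr : μ < (𝔓.ty t).b * pvlmH m)
    (hK : Disjoint (𝔈.oK m t) (pviwBox 𝔓 m t)) (hD : Disjoint (pviwDo 𝔓 𝔈 m ε t) (pviwBox 𝔓 m t))
    (hm : η₀ ∈ pvrgMesh μ (pvieSh z (pviwBox 𝔓 m t))) {𝔖₀ : PvwSt (pvieT η₀)} (h₀ : PvilOut 𝔓.num (𝔓.col t) (pvilPin 𝔓 m z t) η₀ 𝔖₀) (hF : PvjeFin (pvjeO 𝔓 𝔈 w m ε z t) T η₀ η)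
    (hMK : Disjoint (pvjeO 𝔓 𝔈 w m ε z t).M (pvjeO 𝔓 𝔈 w m ε z t).K) (hMD : Disjoint (pvjeO 𝔓 𝔈 w m ε z t).M (pvjeO 𝔓 𝔈 w m ε z t).D)
    (hμ' : 0 < μ') (hmM : η₀ ∈ pvrgMesh μ' (pvieSh z (𝔈.oM m t)))
    (E : PvhjEndD (pvieY η₀) 𝔓.num (pvlmH m) (𝔓.ty t) z ((𝔓.ty t).cp (pvlmH m) z) K₀ r r₁ ρ rs rt ζ)
    (ht1 : ‖((pvieT η₀).src (𝔖₀.ep 𝔖₀.np) : ℂ) - (𝔓.ty t).cp (pvlmH m) z‖ + 2 * ρ ≤ rt) (ht2 : ‖((pvieT η₀).tgt (𝔖₀.ep 𝔖₀.np) : ℂ) - (𝔓.ty t).cp (pvlmH m) z‖ + 2 * ρ ≤ rt)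
    (hU : closedBall ((𝔓.ty t).cp (pvlmH m) z) (rs + 4 * ρ + 3 * μ') ⊆ pvieSh z (𝔈.oM m t)) :
    ∃ 𝔖 : PvwSt (pvieT η), PvLocSP (pvfc7R η₀ η (pvtrCore (3 * μ) (pvfc7Wo 𝔓 m z t η₀))) 𝔖₀ 𝔖 ∧ PvilOut 𝔓.num (𝔓.col t) (pvilPin 𝔓 m z t) η 𝔖 ∧
      pvilFo 𝔓 m z t η = pvilFo 𝔓 m z t η₀ ∧ pvilZo 𝔓 m z t η = pvilZo 𝔓 m z t η₀ ∧
      ∃ κ : ℂ → Bool, cfOf (cfSites η) κ ∈ T.𝒦 ∧
        (∀ v' : pvieY η, (v' : ℂ) ∈ pvieSh z (𝔈.oM m t) ∪ pvieSh z (𝔈.oK m t) → (v' : ℂ) ∉ pvilFo 𝔓 m z t η₀ → pvieCol η (𝔓.col t) v' = pvhcK κ (𝔓.col t) v') ∧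
        (∀ v' : pvieY η, (v' : ℂ) ∈ pvieSh z (𝔈.oM m t) ∪ pvieSh z (𝔈.oK m t) → (v' : ℂ) ∉ pvwSq z (pviwRad 𝔓 m t) → pvieCol η (𝔓.col t) v' = pvhcK κ (𝔓.col t) v') ∧
        ∀ (K : Set (pvieY η)) (GN GC Sg : Bool → Set ℂ),
          (∀ β, PvhjArmT (pvieY η) (pvhcK κ (𝔓.col t)) β ζ ((𝔓.ty t).cp (pvlmH m) z) rt ρ rs β (GN β) (GC β) (Sg β)) →
          (∀ v : pvieY η, ‖(v : ℂ) - (𝔓.ty t).cp (pvlmH m) z‖ < rs + 4 * ρ → v ∈ K) →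
          PvhjFootP (delbPl (pvieY η)) (pvieCol η (𝔓.col t)) (pvhcK κ (𝔓.col t)) K (𝔖.ep 𝔖.np) GN := by
  obtain ⟨𝔖, G, hO, eF, eZ⟩ := pvfc7_fin_o hμ h3 hb hr hK hD hm h₀ hF
  have hFW : pvilFo 𝔓 m z t η₀ ⊆ pvfc7Wo 𝔓 m z t η₀ := (pvfc7_fo_core hb h₀).trans (pvfc7_core_sub (pvlm_Del_pos c m).le _)
  have hC := pvfc7_C_o (w := w) (z := z) (η₀ := η₀) hK hD
  have hKp : (pvjeO 𝔓 𝔈 w m ε z t).Fz η₀ ⊆ (pvjeO 𝔓 𝔈 w m ε z t).Kp ((pvjeO 𝔓 𝔈 w m ε z t).Hu η₀) := fun a ha =>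
    ⟨Or.inl ((pvfc7_Wo_eq 𝔓 m z t η₀).subset (hFW ha)), fun h => disjoint_left.1 hC h (hFW ha)⟩
  obtain ⟨κ, k1, k2, k3, k4, k5⟩ := pvhc_lines_out hF (pvhc_pin_fr 𝔓 m z t) h₀ rfl hKp hb
  refine ⟨𝔖, G, hO, eF, eZ, κ, k1, k4, k5, fun K GN GC Sg A hKK => ?_⟩
  have st := pvhc_st_out h₀
  have hρ := E.e.rho
  exact pvhj_foot_outU_pl (delb_pl_eq h₀.good) (delb_pl_eq hF.nice.good) hμ' (pvhc_sites hF (pvhc_M_kept hMK hMD _)) hmM st E ht1 ht2 hU A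
    (fun v v' e _ hv => k2 v v' e (pvwk_banksP_sub_fzOut 𝔖₀ hv))
    (fun v v' e hn hv => k3 v v' e (Or.inl (hU (by rw [mem_closedBall, dist_eq_norm]; linarith))) hv)
    hKK (pvhc_tip_out G).1 (pvhc_tip_out G).2

/-- **THE LAST LINK `door → t` AT A FINAL CONFIGURATION, THE END `t`, ONE STOP** (slot `J₁` of `pvhj_run_foot_pl`) -/
theorem pvha_footU_i (hμ : 0 < μ) (h3 : 3 * μ ≤ pvlmDel c m) (hb : (𝔓.ty t).b * pvlmH m ≤ pviwRad 𝔓 m t) (hr : μ < (𝔓.ty t).b * pvlmH m)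
    (hK : Disjoint (𝔈.iK m t) (pviwBox 𝔓 m t)) (hD : Disjoint (pviwDi 𝔓 𝔈 m ε t) (pviwBox 𝔓 m t))
    (hm : η₀ ∈ pvrgMesh μ (pvieSh z (pviwBox 𝔓 m t))) {𝔖₀ : PvwSt (pvieT η₀)} (h₀ : PvilIn 𝔓.num (𝔓.col t) (pvilPin 𝔓 m z t) η₀ 𝔖₀) (hF : PvjeFin (pvjeI 𝔓 𝔈 w m ε z t) T η₀ η)
    (hMK : Disjoint (pvjeI 𝔓 𝔈 w m ε z t).M (pvjeI 𝔓 𝔈 w m ε z t).K) (hMD : Disjoint (pvjeI 𝔓 𝔈 w m ε z t).M (pvjeI 𝔓 𝔈 w m ε z t).D)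
    (hμ' : 0 < μ') (hmM : η₀ ∈ pvrgMesh μ' (pvieSh z (𝔈.iM m t)))
    (E : PvhjEndD (pvieY η₀) 𝔓.num (pvlmH m) (𝔓.ty t) z ((𝔓.ty t).cm (pvlmH m) z) K₀ r r₁ ρ rs rt ζ)
    (ht1 : ‖((pvieT η₀).src (𝔖₀.em 𝔖₀.nm) : ℂ) - (𝔓.ty t).cm (pvlmH m) z‖ + 2 * ρ ≤ rt) (ht2 : ‖((pvieT η₀).tgt (𝔖₀.em 𝔖₀.nm) : ℂ) - (𝔓.ty t).cm (pvlmH m) z‖ + 2 * ρ ≤ rt)
    (hU : closedBall ((𝔓.ty t).cm (pvlmH m) z) (rs + 4 * ρ + 3 * μ') ⊆ pvieSh z (𝔈.iM m t)) :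
    ∃ 𝔖 : PvwSt (pvieT η), PvLocSM (pvfc7R η₀ η (pvtrCore (3 * μ) (pvfc7Wi 𝔓 m z t η₀))) 𝔖₀ 𝔖 ∧ PvilIn 𝔓.num (𝔓.col t) (pvilPin 𝔓 m z t) η 𝔖 ∧
      pvilFi 𝔓 m z t η = pvilFi 𝔓 m z t η₀ ∧ pvilZi 𝔓 m z t η = pvilZi 𝔓 m z t η₀ ∧
      ∃ κ : ℂ → Bool, cfOf (cfSites η) κ ∈ T.𝒦 ∧
        (∀ v' : pvieY η, (v' : ℂ) ∈ pvieSh z (𝔈.iM m t) ∪ pvieSh z (𝔈.iK m t) → (v' : ℂ) ∉ pvilFi 𝔓 m z t η₀ → pvieCol η (𝔓.col t) v' = pvhcK κ (𝔓.col t) v') ∧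
        (∀ v' : pvieY η, (v' : ℂ) ∈ pvieSh z (𝔈.iM m t) ∪ pvieSh z (𝔈.iK m t) → (v' : ℂ) ∉ pvwSq z (pviwRad 𝔓 m t) → pvieCol η (𝔓.col t) v' = pvhcK κ (𝔓.col t) v') ∧
        ∀ (K : Set (pvieY η)) (GN GC Sg : Bool → Set ℂ),
          (∀ β, PvhjArmT (pvieY η) (pvhcK κ (𝔓.col t)) β ζ ((𝔓.ty t).cm (pvlmH m) z) rt ρ rs (!β) (GN β) (GC β) (Sg β)) →
          (∀ v : pvieY η, ‖(v : ℂ) - (𝔓.ty t).cm (pvlmH m) z‖ < rs + 4 * ρ → v ∈ K) →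
          PvhjFootP (delbPl (pvieY η)) (pvieCol η (𝔓.col t)) (pvhcK κ (𝔓.col t)) K (𝔖.em 𝔖.nm) GN := by
  obtain ⟨𝔖, G, hO, eF, eZ⟩ := pvfc7_fin_i hμ h3 hb hr hK hD hm h₀ hF
  have hFW : pvilFi 𝔓 m z t η₀ ⊆ pvfc7Wi 𝔓 m z t η₀ := (pvfc7_fi_core hb h₀).trans (pvfc7_core_sub (pvlm_Del_pos c m).le _)
  have hC := pvfc7_C_i (w := w) (z := z) (η₀ := η₀) hK hD
  have hKp : (pvjeI 𝔓 𝔈 w m ε z t).Fz η₀ ⊆ (pvjeI 𝔓 𝔈 w m ε z t).Kp ((pvjeI 𝔓 𝔈 w m ε z t).Hu η₀) := fun a ha =>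
    ⟨Or.inl ((pvfc7_Wi_eq 𝔓 m z t η₀).subset (hFW ha)), fun h => disjoint_left.1 hC h (hFW ha)⟩
  obtain ⟨κ, k1, k2, k3, k4, k5⟩ := pvhc_lines_in hF (pvhc_pin_fr 𝔓 m z t) h₀ rfl hKp hb
  refine ⟨𝔖, G, hO, eF, eZ, κ, k1, k4, k5, fun K GN GC Sg A hKK => ?_⟩
  have st := pvhc_st_in h₀
  have hρ := E.e.rho
  exact pvhj_foot_inU_pl (delb_pl_eq h₀.good) (delb_pl_eq hF.nice.good) hμ' (pvhc_sites hF (pvhc_M_kept hMK hMD _)) hmM st E ht1 ht2 hU A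
    (fun v v' e _ hv => k2 v v' e (pvwk_banksM_sub_fzIn 𝔖₀ hv))
    (fun v v' e hn hv => k3 v v' e (Or.inl (hU (by rw [mem_closedBall, dist_eq_norm]; linarith))) hv)
    hKK (pvhc_tip_in G).1 (pvhc_tip_in G).2

/-- **THE THICK LINK `reference plug → t` AT A FINAL CONFIGURATION, THE END `t`, ONE STOP** (slot `J₁` of `pvhj_run_foot_pl`) -/
theorem pvha_footU_e (hμ : 0 < μ) (h3 : 3 * μ ≤ pvlmDel c m) (hb : (𝔓.ty t).b * pvlmH m ≤ pviwRad 𝔓 m t) (hr : μ < (𝔓.ty t).b * pvlmH m)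
    (hK : Disjoint (𝔈.eK m t) (pviwBox 𝔓 m t)) (hD : Disjoint (pviwRo 𝔓 𝔈 m t) (pviwBox 𝔓 m t))
    (hm : η₀ ∈ pvrgMesh μ (pvieSh z (pviwBox 𝔓 m t))) {𝔖₀ : PvwSt (pvieT η₀)} (h₀ : PvilIn 𝔓.num (𝔓.col t) (pvilPin 𝔓 m z t) η₀ 𝔖₀) (hF : PvjeFin (pvjeE 𝔓 𝔈 w m ε z t) T η₀ η)
    (hMK : Disjoint (pvjeE 𝔓 𝔈 w m ε z t).M (pvjeE 𝔓 𝔈 w m ε z t).K) (hMD : Disjoint (pvjeE 𝔓 𝔈 w m ε z t).M (pvjeE 𝔓 𝔈 w m ε z t).D)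
    (hμ' : 0 < μ') (hmM : η₀ ∈ pvrgMesh μ' (pvieSh z (𝔈.eM m t)))
    (E : PvhjEndD (pvieY η₀) 𝔓.num (pvlmH m) (𝔓.ty t) z ((𝔓.ty t).cm (pvlmH m) z) K₀ r r₁ ρ rs rt ζ)
    (ht1 : ‖((pvieT η₀).src (𝔖₀.em 𝔖₀.nm) : ℂ) - (𝔓.ty t).cm (pvlmH m) z‖ + 2 * ρ ≤ rt) (ht2 : ‖((pvieT η₀).tgt (𝔖₀.em 𝔖₀.nm) : ℂ) - (𝔓.ty t).cm (pvlmH m) z‖ + 2 * ρ ≤ rt)
    (hU : closedBall ((𝔓.ty t).cm (pvlmH m) z) (rs + 4 * ρ + 3 * μ') ⊆ pvieSh z (𝔈.eM m t)) :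
    ∃ 𝔖 : PvwSt (pvieT η), PvLocSM (pvfc7R η₀ η (pvtrCore (3 * μ) (pvfc7Wi 𝔓 m z t η₀))) 𝔖₀ 𝔖 ∧ PvilIn 𝔓.num (𝔓.col t) (pvilPin 𝔓 m z t) η 𝔖 ∧
      pvilFi 𝔓 m z t η = pvilFi 𝔓 m z t η₀ ∧ pvilZi 𝔓 m z t η = pvilZi 𝔓 m z t η₀ ∧
      ∃ κ : ℂ → Bool, cfOf (cfSites η) κ ∈ T.𝒦 ∧
        (∀ v' : pvieY η, (v' : ℂ) ∈ pvieSh z (𝔈.eM m t) ∪ pvieSh z (𝔈.eK m t) → (v' : ℂ) ∉ pvilFi 𝔓 m z t η₀ → pvieCol η (𝔓.col t) v' = pvhcK κ (𝔓.col t) v') ∧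
        (∀ v' : pvieY η, (v' : ℂ) ∈ pvieSh z (𝔈.eM m t) ∪ pvieSh z (𝔈.eK m t) → (v' : ℂ) ∉ pvwSq z (pviwRad 𝔓 m t) → pvieCol η (𝔓.col t) v' = pvhcK κ (𝔓.col t) v') ∧
        ∀ (K : Set (pvieY η)) (GN GC Sg : Bool → Set ℂ),
          (∀ β, PvhjArmT (pvieY η) (pvhcK κ (𝔓.col t)) β ζ ((𝔓.ty t).cm (pvlmH m) z) rt ρ rs (!β) (GN β) (GC β) (Sg β)) →
          (∀ v : pvieY η, ‖(v : ℂ) - (𝔓.ty t).cm (pvlmH m) z‖ < rs + 4 * ρ → v ∈ K) →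
          PvhjFootP (delbPl (pvieY η)) (pvieCol η (𝔓.col t)) (pvhcK κ (𝔓.col t)) K (𝔖.em 𝔖.nm) GN := by
  obtain ⟨𝔖, G, hO, eF, eZ⟩ := pvfc7_fin_e hμ h3 hb hr hK hD hm h₀ hF
  have hFW : pvilFi 𝔓 m z t η₀ ⊆ pvfc7Wi 𝔓 m z t η₀ := (pvfc7_fi_core hb h₀).trans (pvfc7_core_sub (pvlm_Del_pos c m).le _)
  have hC := pvfc7_C_e (ε := ε) (w := w) (z := z) (η₀ := η₀) hK hD
  have hKp : (pvjeE 𝔓 𝔈 w m ε z t).Fz η₀ ⊆ (pvjeE 𝔓 𝔈 w m ε z t).Kp ((pvjeE 𝔓 𝔈 w m ε z t).Hu η₀) := fun a ha =>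
    ⟨Or.inl ((pvfc7_Wi_eq 𝔓 m z t η₀).subset (hFW ha)), fun h => disjoint_left.1 hC h (hFW ha)⟩
  obtain ⟨κ, k1, k2, k3, k4, k5⟩ := pvhc_lines_in hF (pvhc_pin_fr 𝔓 m z t) h₀ rfl hKp hb
  refine ⟨𝔖, G, hO, eF, eZ, κ, k1, k4, k5, fun K GN GC Sg A hKK => ?_⟩
  have st := pvhc_st_in h₀
  have hρ := E.e.rho
  exact pvhj_foot_inU_pl (delb_pl_eq h₀.good) (delb_pl_eq hF.nice.good) hμ' (pvhc_sites hF (pvhc_M_kept hMK hMD _)) hmM st E ht1 ht2 hU A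
    (fun v v' e _ hv => k2 v v' e (pvwk_banksM_sub_fzIn 𝔖₀ hv))
    (fun v v' e hn hv => k3 v v' e (Or.inl (hU (by rw [mem_closedBall, dist_eq_norm]; linarith))) hv)
    hKK (pvhc_tip_in G).1 (pvhc_tip_in G).2

end model

/-! ## 2. density of a ball from a mesh certificate read in any larger set -/

theorem pvha_dense_of_mesh {Y W : Set ℂ} {x : ℂ} {μ R : ℝ} (hm : PvtrMesh μ W Y) (hW : closedBall x (R + μ) ⊆ W) : VorDense Y (closedBall x R) μ := by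
  intro v hv
  refine hm v fun u hu => hW ?_
  rw [mem_closedBall, dist_eq_norm] at hu hv ⊢
  have := pvhg_tri3 u v x
  linarith

/-! ## 3. the numbers of 266 plugged in -/

section numbers

variable {τ : Type} {c : ℝ} {𝔓 : PvxPar τ c} {𝔈 : PvieEng τ} {m : ℕ} {ε : ℝ} {z : ℂ} {t : τ} {μ μ' : ℝ} {η₀ η : Conf PvPt} {w : ∀ η : Conf PvPt, (delbPl (pvieY η)).Dart → ℂ} {T : PvjeTest} {ρ rs : ℝ}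

/-- the core disc lies in the own-level box -/
theorem pvha_hb (n : PvhoNum 𝔓) (m : ℕ) (t : τ) : (𝔓.ty t).b * pvlmH m ≤ pviwRad 𝔓 m t := by
  have h1 := pvho_rad n m t
  have hh := pvlm_H_pos m
  unfold pviwRad
  linarith

/-- **THE FIRST LINK `t → door`, THE END `t`, ALL TIP CELLS, NUMBERS PAID** -/
theorem pvha_footN_o (n : PvhoNum 𝔓) (hL : PvegLev 𝔓 m) (hT : pviwTyOk 𝔓 t) (hc : ∀ w ∈ 𝔓.cp t, ‖w - (𝔓.ty t).yp‖ ≤ 𝔓.num.rho / 10)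
    (hμ : 0 < μ) (h3 : 3 * μ ≤ pvlmDel c m) (hr : μ < (𝔓.ty t).b * pvlmH m)
    (hK : Disjoint (𝔈.oK m t) (pviwBox 𝔓 m t)) (hD : Disjoint (pviwDo 𝔓 𝔈 m ε t) (pviwBox 𝔓 m t))
    (hm : η₀ ∈ pvrgMesh μ (pvieSh z (pviwBox 𝔓 m t))) {𝔖₀ : PvwSt (pvieT η₀)} (h₀ : PvilOut 𝔓.num (𝔓.col t) (pvilPin 𝔓 m z t) η₀ 𝔖₀) (hF : PvjeFin (pvjeO 𝔓 𝔈 w m ε z t) T η₀ η)
    (hMK : Disjoint (pvjeO 𝔓 𝔈 w m ε z t).M (pvjeO 𝔓 𝔈 w m ε z t).K) (hMD : Disjoint (pvjeO 𝔓 𝔈 w m ε z t).M (pvjeO 𝔓 𝔈 w m ε z t).D)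
    (hμ' : 0 < μ') (hmM : η₀ ∈ pvrgMesh μ' (pvieSh z (𝔈.oM m t)))
    (hρ : 0 < ρ) (hρ' : 80 * ρ ≤ 𝔓.num.rho * pvlmH m) (hs0 : 𝔓.num.rho * pvlmH m / 4 ≤ rs) (hs1 : rs ≤ 𝔓.num.rho * pvlmH m / 2)
    {W : Set ℂ} (hW : closedBall ((𝔓.ty t).cp (pvlmH m) z) (𝔓.num.rho2 * pvlmH m + 4 * ρ) ⊆ W) (hbig : η₀ ∈ pvrgMesh ρ W)
    (hU : closedBall ((𝔓.ty t).cp (pvlmH m) z) (rs + 4 * ρ + 3 * μ') ⊆ pvieSh z (𝔈.oM m t)) :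
    ∃ 𝔖 : PvwSt (pvieT η), PvLocSP (pvfc7R η₀ η (pvtrCore (3 * μ) (pvfc7Wo 𝔓 m z t η₀))) 𝔖₀ 𝔖 ∧ PvilOut 𝔓.num (𝔓.col t) (pvilPin 𝔓 m z t) η 𝔖 ∧
      pvilFo 𝔓 m z t η = pvilFo 𝔓 m z t η₀ ∧ pvilZo 𝔓 m z t η = pvilZo 𝔓 m z t η₀ ∧
      ∃ κ : ℂ → Bool, cfOf (cfSites η) κ ∈ T.𝒦 ∧
        (∀ v' : pvieY η, (v' : ℂ) ∈ pvieSh z (𝔈.oM m t) ∪ pvieSh z (𝔈.oK m t) → (v' : ℂ) ∉ pvilFo 𝔓 m z t η₀ → pvieCol η (𝔓.col t) v' = pvhcK κ (𝔓.col t) v') ∧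
        (∀ v' : pvieY η, (v' : ℂ) ∈ pvieSh z (𝔈.oM m t) ∪ pvieSh z (𝔈.oK m t) → (v' : ℂ) ∉ pvwSq z (pviwRad 𝔓 m t) → pvieCol η (𝔓.col t) v' = pvhcK κ (𝔓.col t) v') ∧
        ∀ (K : Set (pvieY η)) (GN GC Sg : Bool → Set ℂ),
          (∀ β, PvhjArmT (pvieY η) (pvhcK κ (𝔓.col t)) β ((starRingEnd ℂ) ((𝔓.Γ m).dout t)) ((𝔓.ty t).cp (pvlmH m) z) (𝔓.num.rho * pvlmH m / 10 + 4 * ρ) ρ rs β (GN β) (GC β) (Sg β)) →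
          (∀ v : pvieY η, ‖(v : ℂ) - (𝔓.ty t).cp (pvlmH m) z‖ < rs + 4 * ρ → v ∈ K) →
          PvhjFootP (delbPl (pvieY η)) (pvieCol η (𝔓.col t)) (pvhcK κ (𝔓.col t)) K (𝔖.ep 𝔖.np) GN := by
  have dn : VorDense (pvieY η₀) (closedBall ((𝔓.ty t).cp (pvlmH m) z) (𝔓.num.rho2 * pvlmH m + 3 * ρ)) ρ := pvha_dense_of_mesh hbig (by
    have e : 𝔓.num.rho2 * pvlmH m + 3 * ρ + ρ = 𝔓.num.rho2 * pvlmH m + 4 * ρ := by ring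
    rw [e]; exact hW)
  obtain ⟨s1, s2, s3, s0⟩ := pvho_small n m
  have tp := pvho_tip_o hc h₀ hρ (pvho_dense_mono dn (by linarith))
  exact pvha_footU_o (K₀ := univ) hμ h3 (pvha_hb n m t) hr hK hD hm h₀ hF hMK hMD hμ' hmM
    (pvho_endD_o n hL hT z hρ hρ' hs0 hs1 (by linarith) (by linarith) dn (fun _ _ => mem_univ _)) (by linarith [tp.1]) (by linarith [tp.2]) hU

/-- **THE LAST LINK `door → t`, THE END `t`, ALL TIP CELLS, NUMBERS PAID** -/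
theorem pvha_footN_i (n : PvhoNum 𝔓) (hL : PvegLev 𝔓 m) (hT : pviwTyOk 𝔓 t) (hc : ∀ w ∈ 𝔓.cm t, ‖w - (𝔓.ty t).ym‖ ≤ 𝔓.num.rho / 10)
    (hμ : 0 < μ) (h3 : 3 * μ ≤ pvlmDel c m) (hr : μ < (𝔓.ty t).b * pvlmH m)
    (hK : Disjoint (𝔈.iK m t) (pviwBox 𝔓 m t)) (hD : Disjoint (pviwDi 𝔓 𝔈 m ε t) (pviwBox 𝔓 m t))
    (hm : η₀ ∈ pvrgMesh μ (pvieSh z (pviwBox 𝔓 m t))) {𝔖₀ : PvwSt (pvieT η₀)} (h₀ : PvilIn 𝔓.num (𝔓.col t) (pvilPin 𝔓 m z t) η₀ 𝔖₀) (hF : PvjeFin (pvjeI 𝔓 𝔈 w m ε z t) T η₀ η)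
    (hMK : Disjoint (pvjeI 𝔓 𝔈 w m ε z t).M (pvjeI 𝔓 𝔈 w m ε z t).K) (hMD : Disjoint (pvjeI 𝔓 𝔈 w m ε z t).M (pvjeI 𝔓 𝔈 w m ε z t).D)
    (hμ' : 0 < μ') (hmM : η₀ ∈ pvrgMesh μ' (pvieSh z (𝔈.iM m t)))
    (hρ : 0 < ρ) (hρ' : 80 * ρ ≤ 𝔓.num.rho * pvlmH m) (hs0 : 𝔓.num.rho * pvlmH m / 4 ≤ rs) (hs1 : rs ≤ 𝔓.num.rho * pvlmH m / 2)
    {W : Set ℂ} (hW : closedBall ((𝔓.ty t).cm (pvlmH m) z) (𝔓.num.rho2 * pvlmH m + 4 * ρ) ⊆ W) (hbig : η₀ ∈ pvrgMesh ρ W)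
    (hU : closedBall ((𝔓.ty t).cm (pvlmH m) z) (rs + 4 * ρ + 3 * μ') ⊆ pvieSh z (𝔈.iM m t)) :
    ∃ 𝔖 : PvwSt (pvieT η), PvLocSM (pvfc7R η₀ η (pvtrCore (3 * μ) (pvfc7Wi 𝔓 m z t η₀))) 𝔖₀ 𝔖 ∧ PvilIn 𝔓.num (𝔓.col t) (pvilPin 𝔓 m z t) η 𝔖 ∧
      pvilFi 𝔓 m z t η = pvilFi 𝔓 m z t η₀ ∧ pvilZi 𝔓 m z t η = pvilZi 𝔓 m z t η₀ ∧
      ∃ κ : ℂ → Bool, cfOf (cfSites η) κ ∈ T.𝒦 ∧
        (∀ v' : pvieY η, (v' : ℂ) ∈ pvieSh z (𝔈.iM m t) ∪ pvieSh z (𝔈.iK m t) → (v' : ℂ) ∉ pvilFi 𝔓 m z t η₀ → pvieCol η (𝔓.col t) v' = pvhcK κ (𝔓.col t) v') ∧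
        (∀ v' : pvieY η, (v' : ℂ) ∈ pvieSh z (𝔈.iM m t) ∪ pvieSh z (𝔈.iK m t) → (v' : ℂ) ∉ pvwSq z (pviwRad 𝔓 m t) → pvieCol η (𝔓.col t) v' = pvhcK κ (𝔓.col t) v') ∧
        ∀ (K : Set (pvieY η)) (GN GC Sg : Bool → Set ℂ),
          (∀ β, PvhjArmT (pvieY η) (pvhcK κ (𝔓.col t)) β ((starRingEnd ℂ) (-(𝔓.Γ m).din t)) ((𝔓.ty t).cm (pvlmH m) z) (𝔓.num.rho * pvlmH m / 10 + 4 * ρ) ρ rs (!β) (GN β) (GC β) (Sg β)) →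
          (∀ v : pvieY η, ‖(v : ℂ) - (𝔓.ty t).cm (pvlmH m) z‖ < rs + 4 * ρ → v ∈ K) →
          PvhjFootP (delbPl (pvieY η)) (pvieCol η (𝔓.col t)) (pvhcK κ (𝔓.col t)) K (𝔖.em 𝔖.nm) GN := by
  have dn : VorDense (pvieY η₀) (closedBall ((𝔓.ty t).cm (pvlmH m) z) (𝔓.num.rho2 * pvlmH m + 3 * ρ)) ρ := pvha_dense_of_mesh hbig (by
    have e : 𝔓.num.rho2 * pvlmH m + 3 * ρ + ρ = 𝔓.num.rho2 * pvlmH m + 4 * ρ := by ring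
    rw [e]; exact hW)
  obtain ⟨s1, s2, s3, s0⟩ := pvho_small n m
  have tp := pvho_tip_i hc h₀ hρ (pvho_dense_mono dn (by linarith))
  exact pvha_footU_i (K₀ := univ) hμ h3 (pvha_hb n m t) hr hK hD hm h₀ hF hMK hMD hμ' hmM
    (pvho_endD_i n hL hT z hρ hρ' hs0 hs1 (by linarith) (by linarith) dn (fun _ _ => mem_univ _)) (by linarith [tp.1]) (by linarith [tp.2]) hU

/-- **THE THICK LINK `reference plug → t`, THE END `t`, ALL TIP CELLS, NUMBERS PAID** -/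
theorem pvha_footN_e (n : PvhoNum 𝔓) (hL : PvegLev 𝔓 m) (hT : pviwTyOk 𝔓 t) (hc : ∀ w ∈ 𝔓.cm t, ‖w - (𝔓.ty t).ym‖ ≤ 𝔓.num.rho / 10)
    (hμ : 0 < μ) (h3 : 3 * μ ≤ pvlmDel c m) (hr : μ < (𝔓.ty t).b * pvlmH m)
    (hK : Disjoint (𝔈.eK m t) (pviwBox 𝔓 m t)) (hD : Disjoint (pviwRo 𝔓 𝔈 m t) (pviwBox 𝔓 m t))
    (hm : η₀ ∈ pvrgMesh μ (pvieSh z (pviwBox 𝔓 m t))) {𝔖₀ : PvwSt (pvieT η₀)} (h₀ : PvilIn 𝔓.num (𝔓.col t) (pvilPin 𝔓 m z t) η₀ 𝔖₀) (hF : PvjeFin (pvjeE 𝔓 𝔈 w m ε z t) T η₀ η)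
    (hMK : Disjoint (pvjeE 𝔓 𝔈 w m ε z t).M (pvjeE 𝔓 𝔈 w m ε z t).K) (hMD : Disjoint (pvjeE 𝔓 𝔈 w m ε z t).M (pvjeE 𝔓 𝔈 w m ε z t).D)
    (hμ' : 0 < μ') (hmM : η₀ ∈ pvrgMesh μ' (pvieSh z (𝔈.eM m t)))
    (hρ : 0 < ρ) (hρ' : 80 * ρ ≤ 𝔓.num.rho * pvlmH m) (hs0 : 𝔓.num.rho * pvlmH m / 4 ≤ rs) (hs1 : rs ≤ 𝔓.num.rho * pvlmH m / 2)
    {W : Set ℂ} (hW : closedBall ((𝔓.ty t).cm (pvlmH m) z) (𝔓.num.rho2 * pvlmH m + 4 * ρ) ⊆ W) (hbig : η₀ ∈ pvrgMesh ρ W)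
    (hU : closedBall ((𝔓.ty t).cm (pvlmH m) z) (rs + 4 * ρ + 3 * μ') ⊆ pvieSh z (𝔈.eM m t)) :
    ∃ 𝔖 : PvwSt (pvieT η), PvLocSM (pvfc7R η₀ η (pvtrCore (3 * μ) (pvfc7Wi 𝔓 m z t η₀))) 𝔖₀ 𝔖 ∧ PvilIn 𝔓.num (𝔓.col t) (pvilPin 𝔓 m z t) η 𝔖 ∧
      pvilFi 𝔓 m z t η = pvilFi 𝔓 m z t η₀ ∧ pvilZi 𝔓 m z t η = pvilZi 𝔓 m z t η₀ ∧
      ∃ κ : ℂ → Bool, cfOf (cfSites η) κ ∈ T.𝒦 ∧
        (∀ v' : pvieY η, (v' : ℂ) ∈ pvieSh z (𝔈.eM m t) ∪ pvieSh z (𝔈.eK m t) → (v' : ℂ) ∉ pvilFi 𝔓 m z t η₀ → pvieCol η (𝔓.col t) v' = pvhcK κ (𝔓.col t) v') ∧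
        (∀ v' : pvieY η, (v' : ℂ) ∈ pvieSh z (𝔈.eM m t) ∪ pvieSh z (𝔈.eK m t) → (v' : ℂ) ∉ pvwSq z (pviwRad 𝔓 m t) → pvieCol η (𝔓.col t) v' = pvhcK κ (𝔓.col t) v') ∧
        ∀ (K : Set (pvieY η)) (GN GC Sg : Bool → Set ℂ),
          (∀ β, PvhjArmT (pvieY η) (pvhcK κ (𝔓.col t)) β ((starRingEnd ℂ) (-(𝔓.Γ m).din t)) ((𝔓.ty t).cm (pvlmH m) z) (𝔓.num.rho * pvlmH m / 10 + 4 * ρ) ρ rs (!β) (GN β) (GC β) (Sg β)) →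
          (∀ v : pvieY η, ‖(v : ℂ) - (𝔓.ty t).cm (pvlmH m) z‖ < rs + 4 * ρ → v ∈ K) →
          PvhjFootP (delbPl (pvieY η)) (pvieCol η (𝔓.col t)) (pvhcK κ (𝔓.col t)) K (𝔖.em 𝔖.nm) GN := by
  have dn : VorDense (pvieY η₀) (closedBall ((𝔓.ty t).cm (pvlmH m) z) (𝔓.num.rho2 * pvlmH m + 3 * ρ)) ρ := pvha_dense_of_mesh hbig (by
    have e : 𝔓.num.rho2 * pvlmH m + 3 * ρ + ρ = 𝔓.num.rho2 * pvlmH m + 4 * ρ := by ring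
    rw [e]; exact hW)
  obtain ⟨s1, s2, s3, s0⟩ := pvho_small n m
  have tp := pvho_tip_i hc h₀ hρ (pvho_dense_mono dn (by linarith))
  exact pvha_footU_e (K₀ := univ) hμ h3 (pvha_hb n m t) hr hK hD hm h₀ hF hMK hMD hμ' hmM
    (pvho_endD_i n hL hT z hρ hρ' hs0 hs1 (by linarith) (by linarith) dn (fun _ _ => mem_univ _)) (by linarith [tp.1]) (by linarith [tp.2]) hU

end numbers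

end Claimed.Agent.R289
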