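-- KEEP
import Claimed.Agent.R289.Tr.HookF
import Claimed.Agent.R289.Tr.HookCol
import Claimed.Agent.R289.Tr.HookYT
import Claimed.Agent.R289.Tr.FrcDetE
import Claimed.Agent.R289.Tr.HookGJ

/-!
# Row 289 (S0537), THE WALL, ROAD E, E10 (b3), file Tr/HookFR : THE THICK RETURN `f : t → reference plug` SUCCEEDS AT EVERY FINAL CONFIGURATION, ONE STOP      (helper281; prefix `pvva_`)

GLUE, 0 sorry:   carry (71 297, `Tr/HookF`) + colour lines (235 `Tr/HookCol`) + the foot at the tip, ALL TIP CELLS (23 `pvhj_foot_outU_pl`) + the run in foot form on ROUTES (228 `pvdd_link_o`) + OUT (23 `pvhj_out_stubT`) + `L.A` (90 `pvhg_il_A`).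
* sec. 1  **`pvva_tip`** : a final configuration `η` of `pvhqF` over a base `η₀` which carries `Σ_out(z,t)`:   the carried state, the same base data, a copy colouring `κ` with the pattern, the two fresh lines, the tip in the small mouth,
          THE FOOT for every family of arms `PvhjArmT` of `κ` at the sites of `η`.      Certificates AT THE BASE ONLY.
* sec. 2  **`pvva_A`** : `η ∈ L.A 𝔓.num (𝔓.col t)`, `L = ⟨pin, kit plug at (zu, 1), Yr, Mk, false, true⟩` (`= pvjtLf`, `pvilLf` at `Yr = z + fY`), from the routes of the pattern (STATE FREE records `PvkqRoute PvhzArmReg Pvge4DoorReg`),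
          the door state, its two graph half lanes, and four lines "mesh + regions" at `η` (`pvdd_mid_of`, `pvdd_room_of` of 228).
-/

set_option autoImplicit false

namespace Claimed.Agent.R289

open Set Metric MeasureTheory Claims.C0465
open scoped ENNReal

section model

variable {τ : Type} {c : ℝ} {𝔓 : PvxPar τ c} {𝔈 : PvieEng τ} {m : ℕ} {ε : ℝ} {z : ℂ} {t : τ} {μ μ' : ℝ} {η₀ η : Conf PvPt} {T : PvjeTest} {m0 : ℕ} {Cth : ℝ} {r' κs : ℕ → ℝ}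
  {K₀ : Set (pvieY η₀)} {r r₁ ρ rs rt : ℝ} {ζ : ℂ}

/-! ## 1. the end `t` -/

/-- **THE THICK RETURN AT A FINAL CONFIGURATION, THE END `t`, ONE STOP, ALL TIP CELLS** -/
theorem pvva_tip (hW : 𝔓.WfB) (hb2 : ∀ t, (𝔓.ty t).b ≤ 2 * (𝔓.ty t).b2) (H : PvieEng.Wf 𝔓 𝔈 m0 Cth r' κs) (hm0 : m0 ≤ m) (ht : pviwTyOk 𝔓 t) (hμ : 0 < μ) (h3 : 3 * μ ≤ pvlmDel c m)
    (hm : η₀ ∈ pvrgMesh μ (pvieSh z (pviwBox 𝔓 m t))) {𝔖₀ : PvwSt (pvieT η₀)} (h₀ : PvilOut 𝔓.num (𝔓.col t) (pvilPin 𝔓 m z t) η₀ 𝔖₀) (hF : PvjeFin (pvhqF 𝔓 𝔈 m ε z t) T η₀ η)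
    (hMK : Disjoint (pvieSh z (𝔈.fM m t)) (pvieSh z (𝔈.fK m t))) (hMD : Disjoint (pvieSh z (𝔈.fM m t)) (pvieSh (pvieZu 𝔓 m z t) (𝔈.rO m)))
    (hμ' : 0 < μ') (hmM : η₀ ∈ pvrgMesh μ' (pvieSh z (𝔈.fM m t)))
    (E : PvhjEndD (pvieY η₀) 𝔓.num (pvlmH m) (𝔓.ty t) z ((𝔓.ty t).cp (pvlmH m) z) K₀ r r₁ ρ rs rt ζ)
    (ht1 : ‖((pvieT η₀).src (𝔖₀.ep 𝔖₀.np) : ℂ) - (𝔓.ty t).cp (pvlmH m) z‖ + 2 * ρ ≤ rt) (ht2 : ‖((pvieT η₀).tgt (𝔖₀.ep 𝔖₀.np) : ℂ) - (𝔓.ty t).cp (pvlmH m) z‖ + 2 * ρ ≤ rt)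
    (hU : closedBall ((𝔓.ty t).cp (pvlmH m) z) (rs + 4 * ρ + 3 * μ') ⊆ pvieSh z (𝔈.fM m t)) :
    ∃ 𝔖 : PvwSt (pvieT η), PvilOut 𝔓.num (𝔓.col t) (pvilPin 𝔓 m z t) η 𝔖 ∧ pvilFo 𝔓 m z t η = pvilFo 𝔓 m z t η₀ ∧ pvilZo 𝔓 m z t η = pvilZo 𝔓 m z t η₀ ∧
      ∃ κ : ℂ → Bool, cfOf (cfSites η) κ ∈ T.𝒦 ∧
        (∀ v' : pvieY η, (v' : ℂ) ∈ pvieSh z (𝔈.fM m t) ∪ pvieSh z (𝔈.fK m t) → (v' : ℂ) ∉ pvilFo 𝔓 m z t η₀ → pvieCol η (𝔓.col t) v' = pvhcK κ (𝔓.col t) v') ∧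
        (∀ v' : pvieY η, (v' : ℂ) ∈ pvieSh z (𝔈.fM m t) ∪ pvieSh z (𝔈.fK m t) → (v' : ℂ) ∉ pvwSq z (pviwRad 𝔓 m t) → pvieCol η (𝔓.col t) v' = pvhcK κ (𝔓.col t) v') ∧
        ∀ (K : Set (pvieY η)) (GN GC Sg : Bool → Set ℂ),
          (∀ β, PvhjArmT (pvieY η) (pvhcK κ (𝔓.col t)) β ζ ((𝔓.ty t).cp (pvlmH m) z) rt ρ rs β (GN β) (GC β) (Sg β)) →
          (∀ v : pvieY η, ‖(v : ℂ) - (𝔓.ty t).cp (pvlmH m) z‖ < rs + 4 * ρ → v ∈ K) →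
          PvhjFootP (delbPl (pvieY η)) (pvieCol η (𝔓.col t)) (pvhcK κ (𝔓.col t)) K (𝔖.ep 𝔖.np) GN := by
  have hb := pvjv_carf_hb 𝔓 hW hb2 m t
  obtain ⟨𝔖, G, hO, eF, eZ⟩ := pvhq_carf_f hW hb2 H hm0 ht hμ h3 hm h₀ hF
  have hFW : pvilFo 𝔓 m z t η₀ ⊆ pvfc7Wo 𝔓 m z t η₀ := (pvfc7_fo_core hb h₀).trans (pvfc7_core_sub (pvlm_Del_pos c m).le _)
  have hC : Disjoint (pvieSh z (𝔈.fK m t) ∪ pvieSh (pvieZu 𝔓 m z t) (𝔈.rO m)) (pvfc7Wo 𝔓 m z t η₀) := (pvhq_off_f H hm0 ht).mono_right inter_subset_right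
  have hKp : (pvhqF 𝔓 𝔈 m ε z t).Fz η₀ ⊆ (pvhqF 𝔓 𝔈 m ε z t).Kp ((pvhqF 𝔓 𝔈 m ε z t).Hu η₀) := fun a ha =>
    ⟨Or.inl ((pvjv_carf_Wo 𝔓 m z t η₀).subset (hFW ha)), fun h => disjoint_left.1 hC h (hFW ha)⟩
  obtain ⟨κ, k1, k2, k3, k4, k5⟩ := pvhc_lines_out hF (pvhc_pin_fr 𝔓 m z t) h₀ rfl hKp hb
  refine ⟨𝔖, hO, eF, eZ, κ, k1, k4, k5, fun K GN GC Sg A hKK => ?_⟩
  have st := pvhc_st_out h₀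
  have hρ := E.e.rho
  exact pvhj_foot_outU_pl (delb_pl_eq h₀.good) (delb_pl_eq hF.nice.good) hμ' (pvhc_sites hF (pvhc_M_kept hMK hMD _)) hmM st E ht1 ht2 hU A
    (fun v v' e _ hv => k2 v v' e (pvwk_banksP_sub_fzOut 𝔖₀ hv))
    (fun v v' e hn hv => k3 v v' e (Or.inl (hU (by rw [mem_closedBall, dist_eq_norm]; linarith))) hv)
    hKK (pvhc_tip_out G).1 (pvhc_tip_out G).2

/-! ## 2. the link -/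

variable {Yr Mk : Set ℂ} {δ ρl e₀ ρd : ℝ} {eC eN eD : Bool → Set ℂ × ℂ × ℂ} {tl : Bool → List (Set ℂ × ℂ × ℂ)} {jN jS : Bool → ℕ} {ζd : ℂ} {xc xa xb y0 y1 : Bool → ℝ} {Rm Sg : Bool → Set ℂ}

/-- **THE THICK RETURN SUCCEEDS AT A FINAL CONFIGURATION** (plain event).      Lines 1-6 = `pvva_tip`;   `hYb hYS hYc` = the room;   `hKK mid hRm hRκ hdS` = mesh of `η` + regions;   `hd hgm hH hfoot` = the door state of the reference plug and its two graph half lanes;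
`hr he R₁ R₂ hρl hjN hjS hSN hSS hD hζd D` = STATE FREE records on the routes `eC β :: eN β :: tl β` (RELATIVE colour `β`);   `hev` = the pattern contains their events (ABSOLUTE colour `β == col t`) -/
theorem pvva_A (hW : 𝔓.WfB) (hb2 : ∀ t, (𝔓.ty t).b ≤ 2 * (𝔓.ty t).b2) (H : PvieEng.Wf 𝔓 𝔈 m0 Cth r' κs) (hm0 : m0 ≤ m) (ht : pviwTyOk 𝔓 t) (hμ : 0 < μ) (h3 : 3 * μ ≤ pvlmDel c m)
    (hm : η₀ ∈ pvrgMesh μ (pvieSh z (pviwBox 𝔓 m t))) {𝔖₀ : PvwSt (pvieT η₀)} (h₀ : PvilOut 𝔓.num (𝔓.col t) (pvilPin 𝔓 m z t) η₀ 𝔖₀) (hF : PvjeFin (pvhqF 𝔓 𝔈 m ε z t) T η₀ η)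
    (hMK : Disjoint (pvieSh z (𝔈.fM m t)) (pvieSh z (𝔈.fK m t))) (hMD : Disjoint (pvieSh z (𝔈.fM m t)) (pvieSh (pvieZu 𝔓 m z t) (𝔈.rO m)))
    (hμ' : 0 < μ') (hmM : η₀ ∈ pvrgMesh μ' (pvieSh z (𝔈.fM m t)))
    (E : PvhjEndD (pvieY η₀) 𝔓.num (pvlmH m) (𝔓.ty t) z ((𝔓.ty t).cp (pvlmH m) z) K₀ r r₁ ρ rs rt ζ)
    (ht1 : ‖((pvieT η₀).src (𝔖₀.ep 𝔖₀.np) : ℂ) - (𝔓.ty t).cp (pvlmH m) z‖ + 2 * ρ ≤ rt) (ht2 : ‖((pvieT η₀).tgt (𝔖₀.ep 𝔖₀.np) : ℂ) - (𝔓.ty t).cp (pvlmH m) z‖ + 2 * ρ ≤ rt)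
    (hU : closedBall ((𝔓.ty t).cp (pvlmH m) z) (rs + 4 * ρ + 3 * μ') ⊆ pvieSh z (𝔈.fM m t))
    (hYb : Bornology.IsBounded Yr) (hYS : IsPreconnected Yrᶜ) (hYc : ∀ w ∈ Yr, (𝔓.ty t).b * pvlmH m ≤ ‖w - z‖)
    (hKK : ∀ v : pvieY η, ‖(v : ℂ) - (𝔓.ty t).cp (pvlmH m) z‖ < rs + 4 * ρ → v ∈ pvgeKV (pvieY η) Yrᶜ)
    {𝔖' : PvwSt (pvieT η)} (hd : PvilDoor (pvkdP (pvilRu 𝔈 m)) (𝔓.col t) η (pvieZu 𝔓 m z t) 1 𝔖') (hgm : (𝔖'.gm : ℂ) ∉ pvwSq z (pviwRad 𝔓 m t))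
    (hδ : 0 < δ) (hr : ∀ β, PvkqRoute δ (eC β :: eN β :: tl β))
    (hev : ∀ κ : ℂ → Bool, cfOf (cfSites η) κ ∈ T.𝒦 → ∀ β, cfOf (cfSites η) κ ∈ pvkqRtEv δ (β == 𝔓.col t) (eC β :: eN β :: tl β)) (he : rt + 2 * ρ < e₀)
    (R₁ : ∀ β, PvhzArmReg ζ ((ζ * (𝔓.ty t).cp (pvlmH m) z).re - e₀) ((ζ * (𝔓.ty t).cp (pvlmH m) z).im - rt) ((ζ * (𝔓.ty t).cp (pvlmH m) z).im + rt) (2 * ρ) ((𝔓.ty t).cp (pvlmH m) z) rs ρl β (eN β).1 (eC β).1 (Sg β))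
    (R₂ : ∀ β, PvhzArmReg ζ ((ζ * (𝔓.ty t).cp (pvlmH m) z).re + e₀) ((ζ * (𝔓.ty t).cp (pvlmH m) z).im - rt) ((ζ * (𝔓.ty t).cp (pvlmH m) z).im + rt) (2 * ρ) ((𝔓.ty t).cp (pvlmH m) z) rs ρl β (eN β).1 (eC β).1 (Sg β))
    (hρl : δ / 16 ≤ ρl) (hdS : ∀ β, VorDense (pvieY η) (Sg β) ρl) (hjN : ∀ β, jN β < 4) (hjS : ∀ β, jS β < 4)
    (hSN : ∀ β, pvhzSd δ (pvkqCell δ (eN β).2.2) (jN β) ⊆ Sg β) (hSS : ∀ β, pvhzSd δ (pvkqCell δ (eC β).2.1) (jS β) ⊆ Sg β)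
    (mid : ∀ β, ∀ v : pvieY η, (vorCell (pvieY η) v ∩ pvkqRtR (eN β :: tl β)).Nonempty → v ∈ pvgeKV (pvieY η) Yrᶜ ∧ (v : ℂ) ∈ pvieSh z (𝔈.fM m t) ∪ pvieSh z (𝔈.fK m t) ∧
      ((v : ℂ) ∉ pvilFo 𝔓 m z t η₀ ∨ (v : ℂ) ∉ pvwSq z (pviwRad 𝔓 m t)))
    (hD : ∀ β, eD β ∈ eN β :: tl β) (hζd : ‖ζd‖ = 1) (D : ∀ β, Pvge4DoorReg ζd δ ρd (xc β) (xa β) (xb β) (y0 β) (y1 β) (Rm β) (eD β))
    (hH : ∀ β, ∃ v : pvieY η, xb β ≤ (ζd * (v : ℂ)).re ∧ (pvieT η).Join univ (pvldCol (pvieCol η (𝔓.col t)) {u : pvieY η | (u : ℂ) ∈ Rm β} β) (pvhiEnd (pvieT η) β 𝔖'.dm) v)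
    (hfoot : ∀ β, (ζd * ((pvhiEnd (pvieT η) β 𝔖'.dm : pvieY η) : ℂ)).re ≤ xc β)
    (hRm : ∀ β, ∀ u : pvieY η, (u : ℂ) ∈ Rm β → u ∈ pvgeKV (pvieY η) Yrᶜ ∧ vorCell (pvieY η) u ⊆ closedBall (u : ℂ) ρd)
    (hRκ : ∀ β, ∀ u : pvieY η, (u : ℂ) ∈ Rm β → xc β < (ζd * (u : ℂ)).re → (u : ℂ) ∈ pvieSh z (𝔈.fM m t) ∪ pvieSh z (𝔈.fK m t) ∧
      ((u : ℂ) ∉ pvilFo 𝔓 m z t η₀ ∨ (u : ℂ) ∉ pvwSq z (pviwRad 𝔓 m t))) :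
    η ∈ (⟨pvilPin 𝔓 m z t, pvilPlug (pvilRu 𝔈 m) (pvieZu 𝔓 m z t) 1, Yr, Mk, false, true⟩ : PvilLk).A 𝔓.num (𝔓.col t) := by
  obtain ⟨𝔖, hO, -, -, κ, k1, k4, k5, foot⟩ := pvva_tip hW hb2 H hm0 ht hμ h3 hm h₀ hF hMK hMD hμ' hmM E ht1 ht2 hU
  have hgood := hF.nice.good
  have hP := delb_pl_eq hgood
  have hρ := E.e.rho
  obtain ⟨hKfin, hco⟩ := pvhj_K_pl hP hYS (by rw [compl_compl]; exact hYb)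
  obtain ⟨g, -, -, e2, -, -, e5⟩ := pvhg_door_gate hd
  have st := pvhc_st_out hO
  have bw0 : pvasBW (pvieT η) (pvieCol η (𝔓.col t)) (𝔖.ep 𝔖.np) := pvwk_ep_bw st.stub st.gate.bw_p le_rfl
  have hdis : 𝔖'.gm ∉ 𝔖.bkP := by
    rintro ⟨i, hi, e⟩
    exact hgm (e ▸ (st.stub.ep_in i hi).1)
  have hsrcK : (pvieT η).src (𝔖.ep 𝔖.np) ∈ pvgeKV (pvieY η) Yrᶜ := by
    refine hKK _ ?_
    have h1 := st.good.tip_p.1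
    have e : dlsPos (pvieY η) ((pvieT η).src (𝔖.ep 𝔖.np)) = ((pvieT η).src (𝔖.ep 𝔖.np) : ℂ) := rfl
    rw [e] at h1
    have h2 := E.e.rs0
    linarith
  have hgp : 𝔖.gp ∉ pvgeKV (pvieY η) Yrᶜ := fun h => absurd (pvhg_il_gp_disc (pvhg_il_fr_std _) hO) (not_lt.2 (hYc _ (pvhg_KV_over h)))
  have hsk : ∀ v : pvieY η, (v : ℂ) ∈ pvieSh z (𝔈.fM m t) ∪ pvieSh z (𝔈.fK m t) → ((v : ℂ) ∉ pvilFo 𝔓 m z t η₀ ∨ (v : ℂ) ∉ pvwSq z (pviwRad 𝔓 m t)) →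
      pvieCol η (𝔓.col t) v = pvhcK κ (𝔓.col t) v := fun v h1 h2 => h2.elim (k4 v h1) (k5 v h1)
  have hdis' : (pvieT η).src g.aIn ∉ 𝔖.bkP := by rw [pvtg_aIn_src, ← e5]; exact hdis
  have hOut := pvhj_out_stubT st.stub st.gate.bw_p hsrcK hgp (pvtg_aIn_bw g) hdis'
  have run : PvldRun (pvieT η) (pvieCol η (𝔓.col t)) (pvgeKV (pvieY η) Yrᶜ) (𝔖.ep 𝔖.np) g.aIn :=
    pvdd_link_o (up := fun β => β) (κ := pvhcK κ (𝔓.col t)) hP bw0 (fun GN GC A => foot _ GN GC Sg A hKK) hKfin hco g (fun e => hdis' ⟨𝔖.np, le_rfl, e⟩) hOut hδ hr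
      (fun β => (pvdd_rel_rt δ (𝔓.col t) β _ (pvieY η) κ).2 (hev κ k1 β)) hρ.le he R₁ R₂ hρl hdS hjN hjS hSN hSS
      (fun β v hv => ⟨(mid β v hv).1, hsk v (mid β v hv).2.1 (mid β v hv).2.2⟩) hD hζd D (fun β => e2 ▸ hH β) (fun β => e2 ▸ hfoot β) hRm
      (fun β u h1 h2 => hsk u (hRκ β u h1 h2).1 (hRκ β u h1 h2).2)
  exact pvhg_il_A (L := ⟨pvilPin 𝔓 m z t, pvilPlug (pvilRu 𝔈 m) (pvieZu 𝔓 m z t) 1, Yr, Mk, false, true⟩) ((PvilLk.atP_pin rfl _ _ _ _).2 hO) ((PvilLk.atP'_door rfl _ _ _ _).2 hd) hdis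
    (fun e => by cases e) (fun v hv => pvhg_KV_over hv) (by rw [(pvhg_door_data hd).2.2.2.1, e2]; exact run)

end model

end Claimed.Agent.R289
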