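-- KEEP
import Claimed.Agent.R289.Tr.HookFR
import Claimed.Agent.R289.Tr.HookTA
import Claimed.Agent.R289.Tr.FrcDetO

/-!
# Row 289 (S0537), THE WALL, ROAD E, E10, file Tr/HookFS : DET OF THE THICK RETURN `f : t → reference plug` OVER TWO STATE FREE RECORDS      (helper281; prefix `pvva_`, `Pvva`)

MIRROR OF `Tr/HookTA.lean` sec. 2-3 (66: `PvhuLay`, `PvhuTipE`, `pvhu_ev_e`) FOR THE LINK `pin → door type plug`, WITH THE ARMS OF 23 (`PvhjArmT`: ALL TIP CELLS, corners included: no `hout`, no `side`).      0 sorry.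
* sec. 1  **`PvvaLay`** = ALL THAT DET OWES TO THE REGIONS OF THE LINK (no configuration, no state): room `Yr`, window `W` (mesh `μ` at the final configuration), fresh part `Fr`, own-level box `Bx`, disc `bh` of the core of the pin at `zp`, disc `Bd` of the gate of the door;
          tip: side `ζ`, centre `c`, small mouth `rs`, `ρ rt e₀`;   routes FROM THE TIP `eC β :: eN β :: t β`, closing sets `Sg β`;   door: rooms `Rm β`, targets `Dr β` of the two half lanes of the ENTRANCE side, legs `eD β` across the rooms beyond `xs β`.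
* sec. 2  **`PvvaTipF`** = the numbers and regions at the exit tip
* sec. 3  **`pvva_ev_f`** : `Θ`, `Λ`, tests `hℋ` (the side event is the placed `S⁻` of 174), `hpat` (the pattern contains the two routes, ABSOLUTE colours `β == col t`), certificates at the base `hm hmM hbig`, mesh of the window at `η` (b6)
          ⟹ `η ∈ pvilMf 𝔓 𝔈 m z t (pvilZo 𝔓 m z t η₀)` at every final configuration `PvjeFin (pvhqF ..) T η₀ η`, ANY `T`.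
-/

set_option autoImplicit false

namespace Claimed.Agent.R289

open Set Metric MeasureTheory Claims.C0465
open scoped ENNReal

/-! ## 1. the regions of the link -/

/-- **ALL THAT DET OWES TO THE REGIONS OF A LINK `pin → door`** -/
structure PvvaLay (Yr W Fr Bx Bd : Set ℂ) (zp : ℂ) (bh μ : ℝ) (ζ c : ℂ) (rs ρ rt e₀ ρl δ : ℝ)
    (eC eN eD : Bool → Set ℂ × ℂ × ℂ) (t : Bool → List (Set ℂ × ℂ × ℂ)) (Sg : Bool → Set ℂ) (jN jS : Bool → ℕ)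
    (ζd : ℂ) (Rm Dr : Bool → Set ℂ) (xs xa xb y0 y1 : Bool → ℝ) : Prop where
  mu : 0 < μ
  bdd : Bornology.IsBounded Yr
  co : IsPreconnected Yrᶜ
  /-- (Rc) of RULING 22: the room with its collar lies in the window -/
  collar : ∀ v ∈ Yr, closedBall v (3 * μ) ⊆ W
  /-- the room is off the disc of the core of the pin -/
  core : ∀ w ∈ Yr, bh ≤ ‖w - zp‖
  dl : 0 < δ
  route : ∀ β, PvkqRoute δ (eC β :: eN β :: t β)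
  e0 : rt + 2 * ρ < e₀
  arm1 : ∀ β, PvhzArmReg ζ ((ζ * c).re - e₀) ((ζ * c).im - rt) ((ζ * c).im + rt) (2 * ρ) c rs ρl β (eN β).1 (eC β).1 (Sg β)
  arm2 : ∀ β, PvhzArmReg ζ ((ζ * c).re + e₀) ((ζ * c).im - rt) ((ζ * c).im + rt) (2 * ρ) c rs ρl β (eN β).1 (eC β).1 (Sg β)
  rl : δ / 16 ≤ ρl
  mul : μ ≤ ρl
  sgW : ∀ β, Sg β ⊆ pvtrCore μ W
  jN4 : ∀ β, jN β < 4
  jS4 : ∀ β, jS β < 4
  sN : ∀ β, pvhzSd δ (pvkqCell δ (eN β).2.2) (jN β) ⊆ Sg β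
  sS : ∀ β, pvhzSd δ (pvkqCell δ (eC β).2.1) (jS β) ⊆ Sg β
  /-- the small mouth with its collar lies in the room -/
  mouth : closedBall c (rs + 4 * ρ + μ) ⊆ Yr
  /-- arm and middle legs: deep in the room, in the fresh part -/
  mid : ∀ β, ∀ w ∈ pvkqRtR (eN β :: t β), closedBall w (2 * μ) ⊆ Yr ∧ closedBall w μ ⊆ Fr
  leg : ∀ β, eD β ∈ eN β :: t β
  nz : ‖ζd‖ = 1
  door : ∀ β, Pvge4DoorReg ζd δ μ (xs β) (xa β) (xb β) (y0 β) (y1 β) (Rm β) (eD β)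
  foot : ∀ β, ∀ w ∈ Bd, (ζd * w).re ≤ xs β
  tgt : ∀ β, ∀ w ∈ Dr β, xb β ≤ (ζd * w).re
  room : ∀ β, ∀ w ∈ Rm β, closedBall w μ ⊆ Yr
  roomF : ∀ β, ∀ w ∈ Rm β, xs β < (ζd * w).re → w ∈ Fr
  offBox : Disjoint Bd Bx

/-- the feet of the ENTRANCE side of a gate of record lie in the outer disc -/
theorem pvva_foot_rim {κ' V D : Type} {T : PvMap V D} {mk : V → κ'} {s : V → Bool} {KI KO : Set κ'} {g : T.Gate s} (h : PvzlIn T mk KI KO g.c) (β : Bool) : mk (pvhiEnd T β g.aIn) ∈ KO := by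
  cases β
  · show mk (T.tgt g.aIn) ∈ KO
    rw [pvtg_aIn_tgt]; exact h.rim _
  · show mk (T.src g.aIn) ∈ KO
    exact h.rim 0

theorem pvva_foot_eq {V D : Type} {T : PvMap V D} {s : V → Bool} (g : T.Gate s) (β : Bool) : pvkdFoot g false β = pvhiEnd T β g.aIn := by
  cases β <;> rfl

/-! ## 2. the tip -/

section model

variable {τ : Type} {c : ℝ}

/-- **THE NUMBERS AND REGIONS AT THE EXIT TIP OF THE THICK RETURN** (no configuration): mesh `μ₀` of the own-level box, mesh `μ'` of the mouth, numbers of the big mouth `r r₁ ρ`, small mouth `rs`, `rt`, door normal `ζ` of the tip cell -/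
structure PvvaTipF (𝔓 : PvxPar τ c) (𝔈 : PvieEng τ) (m : ℕ) (z : ℂ) (t : τ) (μ₀ μ' r r₁ ρ rs rt : ℝ) (ζ : ℂ) : Prop where
  mu0 : 0 < μ₀
  h3 : 3 * μ₀ ≤ pvlmDel c m
  MK : Disjoint (pvieSh z (𝔈.fM m t)) (pvieSh z (𝔈.fK m t))
  MD : Disjoint (pvieSh z (𝔈.fM m t)) (pvieSh (pvieZu 𝔓 m z t) (𝔈.rO m))
  mu' : 0 < μ'
  num : PvhgEndNum 𝔓.num (pvlmH m) (𝔓.ty t) r r₁ ρ rs
  /-- the tip cell has radius `ρ h / 10` (v2, 14:40Z: the former `ρ h / 4 + 2 ρ ≤ rt` contradicted the arms of record) -/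
  cps : ∀ w ∈ 𝔓.cp t, ‖w - (𝔓.ty t).yp‖ ≤ 𝔓.num.rho / 10
  rt0 : 𝔓.num.rho * pvlmH m / 10 + 4 * ρ ≤ rt
  rt1 : 2 * rt + 5 * ρ ≤ r₁
  big : rt ≤ pviwRad 𝔓 m t
  dir : ζ ∈ pvtzdDir
  /-- the side `ζ` of the own-level box passes at most `rt` in front of the centre of the tip cell -/
  adm : pviwRad 𝔓 m t + (ζ * z).re ≤ (ζ * (𝔓.ty t).cp (pvlmH m) z).re + rt
  ball : closedBall ((𝔓.ty t).cp (pvlmH m) z) (rs + 4 * ρ + 3 * μ') ⊆ pvieSh z (𝔈.fM m t)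

variable {𝔓 : PvxPar τ c} {𝔈 : PvieEng τ} {m : ℕ} {ε : ℝ} {z : ℂ} {t : τ} {μ₀ μ' r r₁ ρ rs rt e₀ ρl δ : ℝ} {ζ : ℂ} {η₀ η : Conf PvPt} {T : PvjeTest} {m0 : ℕ} {Cth : ℝ} {r' κs : ℕ → ℝ}
  {eC eN eD : Bool → Set ℂ × ℂ × ℂ} {tt : Bool → List (Set ℂ × ℂ × ℂ)} {Sg : Bool → Set ℂ} {jN jS : Bool → ℕ} {ζd : ℂ} {xs xa xb y0 y1 : Bool → ℝ} {𝔭 : PvkdPlug} {𝔱 : PvhfTr} {s : ℝ}

/-! ## 3. DET -/

/-- **DET OF THE THICK RETURN `f`: PLAIN SUCCESS, HULL, MESH.** -/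
theorem pvva_ev_f (hW : 𝔓.WfB) (hb2 : ∀ t, (𝔓.ty t).b ≤ 2 * (𝔓.ty t).b2) (H : PvieEng.Wf 𝔓 𝔈 m0 Cth r' κs) (hm0 : m0 ≤ m) (ht : pviwTyOk 𝔓 t)
    (Θ : PvvaTipF 𝔓 𝔈 m z t μ₀ μ' r r₁ ρ rs rt ζ)
    (Λ : PvvaLay (pvieSh z (𝔈.fY m t)) (pvieSh z (𝔈.fM m t) ∪ pvieSh z (𝔈.fK m t) ∪ pvieSh (pvieZu 𝔓 m z t) (𝔈.rO m)) ((pvieSh z (𝔈.fM m t) ∪ pvieSh z (𝔈.fK m t)) \ pvwSq z (pviwRad 𝔓 m t))
      (pvwSq z (pviwRad 𝔓 m t)) (ball (pvieZu 𝔓 m z t) (pvkdP (pvilRu 𝔈 m)).b) z ((𝔓.ty t).b * pvlmH m) (pvilMu 𝔓 m) ζ ((𝔓.ty t).cp (pvlmH m) z) rs ρ rt e₀ ρl δ eC eN eD tt Sg jN jS ζd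
      (fun β => pvkdAt (pvieZu 𝔓 m z t) (1 * s) (𝔱.Ln false β)) (fun β => pvkdAt (pvieZu 𝔓 m z t) (1 * s) (𝔱.Dr false β)) xs xa xb y0 y1)
    (hG : PvhfGeo 𝔭 𝔱) (hs : 0 < s) (hsc : 𝔭.sc s = pvkdP (pvilRu 𝔈 m)) (hℋ : ∀ η ∈ T.ℋ, pvdpT (pvieZu 𝔓 m z t) (1 * s) (𝔓.col t) η ∈ pvhfS 𝔭 𝔱 false)
    (hpat : ∀ (Y : Set ℂ) (κ : ℂ → Bool), cfOf Y κ ∈ T.𝒦 → ∀ β, cfOf Y κ ∈ pvkqRtEv δ (β == 𝔓.col t) (eC β :: eN β :: tt β))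
    (hm : η₀ ∈ pvrgMesh μ₀ (pvieSh z (pviwBox 𝔓 m t))) (hmM : η₀ ∈ pvrgMesh μ' (pvieSh z (𝔈.fM m t)))
    (hbig : VorDense (cfSites η₀) (closedBall ((𝔓.ty t).cp (pvlmH m) z) (r + 3 * ρ)) ρ)
    {𝔖₀ : PvwSt (pvieT η₀)} (h₀ : PvilOut 𝔓.num (𝔓.col t) (pvilPin 𝔓 m z t) η₀ 𝔖₀) (hF : PvjeFin (pvhqF 𝔓 𝔈 m ε z t) T η₀ η)
    (hmesh : η ∈ pvilMs 𝔓 m (pvilWnf 𝔓 𝔈 m z t (pvilZo 𝔓 m z t η₀))) : η ∈ pvilMf 𝔓 𝔈 m z t (pvilZo 𝔓 m z t η₀) := by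
  have n := Θ.num
  have hμ := Λ.mu
  have E : PvhjEndD (pvieY η₀) 𝔓.num (pvlmH m) (𝔓.ty t) z ((𝔓.ty t).cp (pvlmH m) z) univ r r₁ ρ rs rt ζ :=
    ⟨⟨n.rho, n.r2, n.r1, n.rr, hbig, n.far, n.rs0, n.rs1, n.rs2, fun _ _ => mem_univ _⟩, Θ.rt1, Θ.big, Θ.dir, Θ.adm⟩
  have tip := pvho_tip_o Θ.cps h₀ n.rho (pvho_dense_mono hbig (by linarith [n.rho, n.rho0, n.r1, n.rr]))
  have ht1 : ‖((pvieT η₀).src (𝔖₀.ep 𝔖₀.np) : ℂ) - (𝔓.ty t).cp (pvlmH m) z‖ + 2 * ρ ≤ rt := by linarith [tip.1, Θ.rt0, n.rho]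
  have ht2 : ‖((pvieT η₀).tgt (𝔖₀.ep 𝔖₀.np) : ℂ) - (𝔓.ty t).cp (pvlmH m) z‖ + 2 * ρ ≤ rt := by linarith [tip.2, Θ.rt0]
  obtain ⟨g, hsd⟩ := pvyo_side hG false (d := 1) norm_one hs hF.one hF.nice.good (hℋ η hF.side)
  have hd := hsd.door hG hF.nice
  have hgate := hsd.gate
  rw [hsc] at hd hgate
  have hg : PvzlGt (pvieT η) Subtype.val (pvieCol η (𝔓.col t)) ((pvkdP (pvilRu 𝔈 m)).pg (pvieZu 𝔓 m z t) 1) g := hgate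
  have hWn : pvieSh z (𝔈.fM m t) ∪ pvieSh z (𝔈.fK m t) ∪ pvieSh (pvieZu 𝔓 m z t) (𝔈.rO m) ⊆ pvilWnf 𝔓 𝔈 m z t (pvilZo 𝔓 m z t η₀) := by
    rintro v ((hv | hv) | hv)
    · exact Or.inl (Or.inl (Or.inr hv))
    · exact Or.inl (Or.inr hv)
    · exact Or.inr hv
  have hms : PvtrMesh (pvilMu 𝔓 m) (pvieSh z (𝔈.fM m t) ∪ pvieSh z (𝔈.fK m t) ∪ pvieSh (pvieZu 𝔓 m z t) (𝔈.rO m)) (pvieY η) := VorDense.mono hmesh Subset.rfl (pvtr_core_mono hWn) le_rfl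
  have hcell : ∀ v : ↥(pvieY η), (v : ℂ) ∈ pvieSh z (𝔈.fY m t) → vorCell (pvieY η) v ⊆ closedBall (v : ℂ) (pvilMu 𝔓 m) := fun v hv => pvhu_cell_ball hμ hms (Λ.collar v hv)
  have hinK : ∀ v : ↥(pvieY η), closedBall (v : ℂ) (pvilMu 𝔓 m) ⊆ pvieSh z (𝔈.fY m t) → v ∈ pvgeKV (pvieY η) (pvieSh z (𝔈.fY m t))ᶜ :=
    fun v hv => pvhg_KV_iff.2 ((hcell v (hv (mem_closedBall_self hμ.le))).trans hv)
  have hFr : ∀ v : ℂ, v ∈ (pvieSh z (𝔈.fM m t) ∪ pvieSh z (𝔈.fK m t)) \ pvwSq z (pviwRad 𝔓 m t) → v ∈ pvieSh z (𝔈.fM m t) ∪ pvieSh z (𝔈.fK m t) ∧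
      (v ∉ pvilFo 𝔓 m z t η₀ ∨ v ∉ pvwSq z (pviwRad 𝔓 m t)) := fun v hv => ⟨hv.1, Or.inr hv.2⟩
  refine ⟨⟨?_, pvhq_hull_f hW hb2 H hm0 ht Θ.mu0 Θ.h3 hm ⟨𝔖₀, h₀⟩ hF⟩, hmesh⟩
  refine pvva_A (K₀ := univ) (𝔖' := pvilStS (pvkdP (pvilRu 𝔈 m)) η (pvieCol η (𝔓.col t)) (pvieZu 𝔓 m z t) g) (ρd := pvilMu 𝔓 m) (xc := xs)
    hW hb2 H hm0 ht Θ.mu0 Θ.h3 hm h₀ hF Θ.MK Θ.MD Θ.mu' hmM E ht1 ht2 Θ.ball Λ.bdd Λ.co Λ.core (fun v hv => hinK v ((pvhu_ball_ball hv.le).trans Λ.mouth)) hd ?_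
    Λ.dl Λ.route (fun κ hκ => hpat _ κ hκ) Λ.e0 Λ.arm1 Λ.arm2 Λ.rl (fun β => VorDense.mono hms Subset.rfl (Λ.sgW β) Λ.mul) Λ.jN4 Λ.jS4 Λ.sN Λ.sS ?_ Λ.leg Λ.nz Λ.door ?_ ?_ ?_ ?_
  · exact fun hbx => disjoint_left.1 Λ.offBox (pvva_foot_rim hg.least.reg true) hbx
  · rintro β v ⟨w, hw1, hw2⟩
    obtain ⟨m1, m2⟩ := Λ.mid β w hw2
    have hwY : w ∈ pvieSh z (𝔈.fY m t) := m1 (mem_closedBall_self (by linarith))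
    have hwc : w ∈ pvtrCore (pvilMu 𝔓 m) (pvieSh z (𝔈.fM m t) ∪ pvieSh z (𝔈.fK m t) ∪ pvieSh (pvieZu 𝔓 m z t) (𝔈.rO m)) := (closedBall_subset_closedBall (by linarith)).trans (Λ.collar w hwY)
    have hwv : ‖w - (v : ℂ)‖ ≤ pvilMu 𝔓 m := vor_site_near hms hw1 hwc
    have hvw : ‖(v : ℂ) - w‖ ≤ pvilMu 𝔓 m := by rwa [norm_sub_rev]
    refine ⟨hinK v (((pvhu_ball_ball hvw).trans (by rw [← two_mul])).trans m1), hFr v (m2 ?_)⟩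
    rwa [mem_closedBall, dist_eq_norm]
  · intro β
    have key : ∃ v : ↥(pvieY η), (v : ℂ) ∈ pvkdAt (pvieZu 𝔓 m z t) (1 * s) (𝔱.Dr false β) ∧
        (pvieT η).Join univ (pvldCol (pvieCol η (𝔓.col t)) {u | (u : ℂ) ∈ pvkdAt (pvieZu 𝔓 m z t) (1 * s) (𝔱.Ln false β)} β) (pvhiEnd (pvieT η) β g.aIn) v := by
      cases β
      · exact hsd.white
      · exact hsd.black
    obtain ⟨v, hv, hj⟩ := key
    exact ⟨v, Λ.tgt β v hv, hj⟩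
  · exact fun β => Λ.foot β _ (pvva_foot_rim hg.least.reg β)
  · intro β u hu
    exact ⟨hinK u (Λ.room β u hu), hcell u (Λ.room β u hu (mem_closedBall_self hμ.le))⟩
  · intro β u hu hx
    exact hFr u (Λ.roomF β u hu hx)

end model

end Claimed.Agent.R289
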