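import Claimed.Agent.R289.Tr.Tip
import Claimed.Agent.R289.Arm.Side

/-!
# Row 289 (S0537, Cardy for Poisson-Voronoi), box TR, WB5 HOOK, file Tr/HookIn : THE JOIN INSIDE THE MOUTH (LEMMA JB)      (owner helper165; prefix `pvhi_`, defs `pvhi…`, `Pvhi…`)

Source: `origin/helper165:notes/R289/w1_165.md` sec. 9;   (H2), (H3), R-E of `origin/helper208:notes/R289/W1_208.md`;   G1(b) / HOLE 1 of `origin/helper78:notes/R289/W2ref_78.md`.      Deterministic.
Vocabulary: strands `pvasIt` (`Arm/Strand`, 158), tip potential `PvtzPot`, crossing cochain `pvtzX`, explored set `pvtzEx` (`Tr/Tip`, 23), chains and fill `PlCh`, `pl_hx_fill`, `pvad_isBd_set`, `pvad_in_disc` (`Pl/Hex` 168, `Arm/Side` 137).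

THE POINT.   The landing lemma T6 (`pvtz_land` of 23) joins a lane to the bank of the stub; from there one walks along the bank to the tip.   But the bank may LEAVE the mouth (the last piece of the stub makes excursions), so this join is not
inside the deterministic set of sites `K` of the corridor, the region bounded by the two joins contains the dead-end fjords of the stub, and the new strand (hence new rim tags) may run into them: no deterministic mask, `pvld_exist` of 70 not applicable with `K`.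
LEMMA JB: the WHOLE landing path `q` (from one class of the tip potential to the other) short-cuts every excursion.      `A` = the fill of `q` and of a closing path `c` of fresh sites.      Then the end of colour `β` of the tip position is joined to the
first vertex `x0` of `q` INSIDE `A`, through sites of the bank of colour `β` and through those sites of `q` which lie in `W` (`W` = the fresh sites joined to the tip apex by fresh sites = `YCL` of G1(b)).      ONLY THE SITES OF `q ∩ W` ARE ASKED TO HAVE THE COLOUR `β`.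
PROOF.   Colour every fresh site off `q ∩ W` with `!β` and follow the strand from the tip: it starts in `A` (parity), its `β`-bank stays in ONE class of the potential, its fresh ends stay in `W`, it cannot cross `q`, so it leaves `A` through `c`, at `x0`.

* sec.1  `pvhiEnd T β x` the end of colour `β` of a position;   the step of a strand in these terms
* sec.2  `PvhiSet` (the setting, with an abstract region `A`),  `pvhi_follow` (the auxiliary colouring),  **`pvhi_join`** (any colouring)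
* sec.3  the fill: `pvhi_join_ch` (a join off the slit is crossed by the stub `u a + u b` times), `pvhi_toggle`, **`pvhi_fill`**
* sec.4  **`pvhi_exit`** (JB at an exit tip, no region in the statement),  **`pvhi_ent`** (JB at an entrance tip: colour flip = time reversal)
-/

set_option autoImplicit false
set_option linter.unusedSectionVars false
set_option linter.unusedVariables false

namespace Claimed.Agent.R289

open Relation

variable {V D : Type} {T : PvMap V D}

/-! ## 1. the end of colour `β` of a position -/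

/-- the end of colour `β` of a position (`true` = BLACK = the source) -/
def pvhiEnd (T : PvMap V D) (β : Bool) (x : D) : V := if β = true then T.src x else T.tgt x

theorem pvhi_eqns_cite1 : True := by
  have := @pvhiEnd.eq_1
  trivial

theorem pvhi_end_col {s : V → Bool} {x : D} (h : pvasBW T s x) (β : Bool) : s (pvhiEnd T β x) = β := by
  cases β
  · exact h.2
  · exact h.1

theorem pvhi_end_cases (β : Bool) (x : D) :
    (pvhiEnd T β x = T.src x ∧ pvhiEnd T (!β) x = T.tgt x) ∨ (pvhiEnd T β x = T.tgt x ∧ pvhiEnd T (!β) x = T.src x) := by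
  cases β
  · exact Or.inr ⟨rfl, rfl⟩
  · exact Or.inl ⟨rfl, rfl⟩

/-- the step of a strand: the end of the colour of the apex moves to the apex -/
theorem pvhi_step (s : V → Bool) (x : D) (β : Bool) :
    (s (T.apex x) = β ∧ pvhiEnd T β (pvasStep T s x) = T.apex x) ∨ (s (T.apex x) = (!β) ∧ pvhiEnd T β (pvasStep T s x) = pvhiEnd T β x) := by
  cases β
  · rcases pvas_step_ends s x with ⟨a, e1, e2⟩ | ⟨a, e1, e2⟩
    · exact Or.inr ⟨a, e2⟩
    · exact Or.inl ⟨a, e2⟩
  · rcases pvas_step_ends s x with ⟨a, e1, e2⟩ | ⟨a, e1, e2⟩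
    · exact Or.inl ⟨a, e1⟩
    · exact Or.inr ⟨a, e1⟩

/-- the edge of the face of `x` from an end of `x` to the apex -/
theorem pvhi_apex_dart (β : Bool) (x : D) : ∃ y, (T.SF x y ∨ T.SF x (T.opp y)) ∧ T.src y = pvhiEnd T β x ∧ T.tgt y = T.apex x := by
  cases β
  · exact ⟨T.nxt x, Or.inl (T.sf_nxt x), T.src_nxt x, T.tgt_nxt x⟩
  · refine ⟨T.opp (T.nxt (T.nxt x)), Or.inr ?_, ?_, ?_⟩
    · rw [T.opp_opp]; exact T.sf_nxt2 x
    · rw [T.src_opp', T.tgt_nxt2]; rfl
    · rw [T.tgt_opp, T.src_nxt2]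

theorem pvhi_apex_mem {A : Set D} (hA : T.FaceSet A) {x y : D} (hx : x ∈ A) (h : T.SF x y ∨ T.SF x (T.opp y)) : y ∈ A ∨ T.opp y ∈ A :=
  h.imp (fun h => (hA.sf T h).2 hx) fun h => (hA.sf T h).2 hx

/-! ## 2. following the strand of the auxiliary colouring -/

/-- **THE SETTING OF LEMMA JB**, with an abstract region `A`.      `d, n` the stub (positions `0..n`, tip `= pvasIt T s d n`), `u` the tip potential on `M`, `uβ` the class of the bank of colour `β`,
`A ⊆ M` a finite face set which contains the tip face, not the face behind `d`;   its boundary edges join two sites of `Xq` (the landing path) or two sites of `Xc` (the closing path, fresh sites);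
`W` a set of sites which contains the tip apex (if fresh) and is closed under fresh adjacency in `A`. -/
structure PvhiSet (T : PvMap V D) (s : V → Bool) (d : D) (n : ℕ) (M : Set D) (χ : D → ZMod 2) (u : V → ZMod 2) (β : Bool) (uβ : ZMod 2)
    (A : Set D) (W Xq Xc : Set V) (x0 : V) : Prop where
  face : T.FaceSet A
  fin : A.Finite
  sub : A ⊆ M
  tip : pvasIt T s d n ∈ A
  out : T.opp d ∉ A
  bw : pvasBW T s d
  inj : ∀ i j, i ≤ n → j ≤ n → pvasIt T s d i = pvasIt T s d j → i = j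
  pot : PvtzPot T s d n M χ u
  /-- CALM + (H1): in the closed region the explored sites of colour `β` are those of the class `uβ` -/
  cls : ∀ v ∈ pvtzEx T s d n, v ∈ T.VOf A → (u v = uβ ↔ s v = β)
  Wa : T.apex (pvasIt T s d n) ∉ pvtzEx T s d n → T.apex (pvasIt T s d n) ∈ W
  Wc : ∀ a ∈ W, ∀ b, T.EdgeIn A a b → b ∉ pvtzEx T s d n → b ∈ W
  /-- the landing path and the explored set are off the slit -/
  chi : ∀ x, T.src x ∈ Xq ∪ pvtzEx T s d n → T.tgt x ∈ Xq ∪ pvtzEx T s d n → χ x = 0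
  bd : ∀ x, T.Bd A x → (T.src x ∈ Xq ∧ T.tgt x ∈ Xq) ∨ (T.src x ∈ Xc ∧ T.tgt x ∈ Xc)
  cfresh : ∀ v ∈ Xc, v ∉ pvtzEx T s d n
  /-- the closing path meets the landing path, in the class `uβ`, only at `x0` -/
  cq : ∀ v ∈ Xc, v ∈ Xq → v ∈ W → u v = uβ → v = x0

section follow

variable {s : V → Bool} {d : D} {n : ℕ} {M : Set D} {χ : D → ZMod 2} {u : V → ZMod 2} {β : Bool} {uβ : ZMod 2} {A : Set D} {W Xq Xc : Set V} {x0 : V}

/-- the strand does not come back to its first position as long as it stays in `A` after the tip -/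
theorem PvhiSet.no_return (H : PvhiSet T s d n M χ u β uβ A W Xq Xc x0) {p : ℕ} (hp : 1 ≤ p) (e : pvasIt T s d p = d)
    (hin : ∀ j, n ≤ j → j < p → pvasIt T s d j ∈ A) : False := by
  rcases Nat.lt_or_ge n p with h | h
  · obtain ⟨p', rfl⟩ : ∃ p', p = p' + 1 := ⟨p - 1, by omega⟩
    apply H.out
    rw [← e, pvas_it_succ, pvas_step_opp_mem H.face]
    exact hin p' (by omega) (by omega)
  · have := H.inj p 0 h (Nat.zero_le n) e
    omega

theorem PvhiSet.exit (H : PvhiSet T s d n M χ u β uβ A W Xq Xc x0) : ∃ N, pvasIt T s d (n + N) ∉ A := by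
  by_contra hn
  have hall : ∀ N, pvasIt T s d (n + N) ∈ A := fun N => by
    by_contra hc
    exact hn ⟨N, hc⟩
  have key : ∀ a b, a < b → pvasIt T s d (n + a) ≠ pvasIt T s d (n + b) := by
    intro a b hab e
    have h1 := pvas_it_return H.bw (by omega : n + a ≤ n + b) e
    refine H.no_return (by omega) h1 fun j hj _ => ?_
    obtain ⟨j', rfl⟩ : ∃ j', j = n + j' := ⟨j - n, by omega⟩
    exact hall j'
  have hinj : Function.Injective (fun N => pvasIt T s d (n + N)) := by
    intro a b e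
    rcases Nat.lt_trichotomy a b with hlt | heq | hlt
    · exact absurd e (key a b hlt)
    · exact heq
    · exact absurd e.symm (key b a hlt)
  exact (Set.infinite_of_injective_forall_mem hinj hall) H.fin

/-- the ends of a position whose back face lies in `A` are vertices of `A` -/
theorem pvhi_ends_vof (hA : T.FaceSet A) {x : D} (hx : T.opp x ∈ A) : T.src x ∈ T.VOf A ∧ T.tgt x ∈ T.VOf A :=
  ⟨⟨T.nxt (T.opp x), (hA _).2 hx, by rw [T.src_nxt, T.tgt_opp]⟩, ⟨T.opp x, hx, T.src_opp' x⟩⟩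

/-- after the tip, as long as the strand has stayed in `A`, a position has a fresh end -/
theorem PvhiSet.fresh (H : PvhiSet T s d n M χ u β uβ A W Xq Xc x0) {i : ℕ} (h1 : 1 ≤ i) (hin : ∀ j, j < i → pvasIt T s d (n + j) ∈ A) :
    ¬ (T.src (pvasIt T s d (n + i)) ∈ pvtzEx T s d n ∧ T.tgt (pvasIt T s d (n + i)) ∈ pvtzEx T s d n) := by
  rintro ⟨hs, ht⟩
  have hbw := pvas_it_bw H.bw (n + i)
  have hopp : T.opp (pvasIt T s d (n + i)) ∈ A := by
    obtain ⟨i', rfl⟩ : ∃ i', i = i' + 1 := ⟨i - 1, by omega⟩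
    rw [show n + (i' + 1) = (n + i') + 1 from rfl, pvas_it_succ, pvas_step_opp_mem H.face]
    exact hin i' (Nat.lt_succ_self i')
  obtain ⟨v1, v2⟩ := pvhi_ends_vof H.face hopp
  have c1 := H.cls _ hs v1
  have c2 := H.cls _ ht v2
  rw [hbw.1] at c1
  rw [hbw.2] at c2
  have hne : u (T.src (pvasIt T s d (n + i))) ≠ u (T.tgt (pvasIt T s d (n + i))) := by
    intro e
    rw [e] at c1
    have := c1.symm.trans c2
    cases β <;> simp at this
  have hp := H.pot _ (Or.inr (H.sub hopp))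
  rw [H.chi _ (Or.inr hs) (Or.inr ht), add_zero] at hp
  have hX : pvtzX T s d n (pvasIt T s d (n + i)) ≠ 0 := by
    intro h0
    rw [h0] at hp
    exact hne (pvtz_z2_eq hp)
  obtain ⟨k, hk, e | e⟩ := pvtz_X_ne hX
  · have h2 := pvas_it_return H.bw (by omega : k ≤ n + i) e.symm
    refine H.no_return (by omega) h2 fun j hj hj' => ?_
    obtain ⟨j', rfl⟩ : ∃ j', j = n + j' := ⟨j - n, by omega⟩
    exact hin j' (by omega)
  · exact pvas_bw_not_opp (pvas_it_bw H.bw k) (e ▸ hbw)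

/-- **LEMMA JB for the auxiliary colouring**: the fresh sites of colour `β` are exactly the sites of `Xq ∩ W` -/
theorem pvhi_follow (H : PvhiSet T s d n M χ u β uβ A W Xq Xc x0) (hcol : ∀ v, v ∉ pvtzEx T s d n → (s v = β ↔ v ∈ Xq ∧ v ∈ W)) :
    T.Join A ({v | v ∈ pvtzEx T s d n ∧ s v = β} ∪ (Xq ∩ W)) (pvhiEnd T β (pvasIt T s d n)) x0 := by
  classical
  have hex := H.exit
  have hN : pvasIt T s d (n + Nat.find hex) ∉ A := Nat.find_spec hex
  have hmin : ∀ j, j < Nat.find hex → pvasIt T s d (n + j) ∈ A := fun j hj => by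
    by_contra h
    exact Nat.find_min hex hj h
  generalize Nat.find hex = N at hN hmin
  have hN1 : 1 ≤ N := by
    by_contra h
    have h0 : N = 0 := by omega
    rw [h0] at hN
    exact hN H.tip
  have hsubN : ∀ v, v ∈ ({v | v ∈ pvtzEx T s d n ∧ s v = β} ∪ (Xq ∩ W) : Set V) → v ∈ Xq ∪ pvtzEx T s d n := by
    rintro v (h | h)
    · exact Or.inr h.1
    · exact Or.inl h.1
  have hend_ex : ∀ γ : Bool, pvhiEnd T γ (pvasIt T s d n) ∈ pvtzEx T s d n := by
    intro γ
    cases γ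
    · exact Or.inr ⟨n, le_rfl, rfl⟩
    · exact Or.inl ⟨n, le_rfl, rfl⟩
  have inv : ∀ i, i ≤ N →
      (pvhiEnd T β (pvasIt T s d (n + i)) ∈ ({v | v ∈ pvtzEx T s d n ∧ s v = β} ∪ (Xq ∩ W) : Set V) ∧ u (pvhiEnd T β (pvasIt T s d (n + i))) = uβ) ∧
      (∀ γ : Bool, pvhiEnd T γ (pvasIt T s d (n + i)) ∉ pvtzEx T s d n → pvhiEnd T γ (pvasIt T s d (n + i)) ∈ W) ∧
      T.Join A ({v | v ∈ pvtzEx T s d n ∧ s v = β} ∪ (Xq ∩ W)) (pvhiEnd T β (pvasIt T s d n)) (pvhiEnd T β (pvasIt T s d (n + i))) := by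
    intro i
    induction i with
    | zero =>
      intro _
      have hc := pvhi_end_col (pvas_it_bw H.bw n) β
      have hmem : pvhiEnd T β (pvasIt T s d n) ∈ ({v | v ∈ pvtzEx T s d n ∧ s v = β} ∪ (Xq ∩ W) : Set V) := Or.inl ⟨hend_ex β, hc⟩
      have hv : pvhiEnd T β (pvasIt T s d n) ∈ T.VOf A := by
        cases β
        · exact ⟨T.nxt (pvasIt T s d n), (H.face _).2 H.tip, T.src_nxt _⟩
        · exact ⟨pvasIt T s d n, H.tip, rfl⟩
      exact ⟨⟨hmem, (H.cls _ (hend_ex β) hv).2 hc⟩, fun γ h => absurd (hend_ex γ) h, hmem, ReflTransGen.refl⟩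
    | succ i ih =>
      intro hi
      obtain ⟨⟨ihN, ihu⟩, ihW, ihJ⟩ := ih (Nat.le_of_succ_le hi)
      have hxA : pvasIt T s d (n + i) ∈ A := hmin i (Nat.lt_of_succ_le hi)
      have hbw := pvas_it_bw H.bw (n + i)
      have hsucc : pvasIt T s d (n + (i + 1)) = pvasStep T s (pvasIt T s d (n + i)) := by
        rw [show n + (i + 1) = (n + i) + 1 from rfl, pvas_it_succ]
      have hapW : T.apex (pvasIt T s d (n + i)) ∉ pvtzEx T s d n → T.apex (pvasIt T s d (n + i)) ∈ W := by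
        intro hap
        rcases Nat.eq_zero_or_pos i with rfl | hpos
        · exact H.Wa hap
        · have hf := H.fresh hpos (fun j hj => hmin j (by omega))
          have : ∃ γ : Bool, pvhiEnd T γ (pvasIt T s d (n + i)) ∉ pvtzEx T s d n := by
            by_contra hcon
            exact hf ⟨by_contra fun h => hcon ⟨true, h⟩, by_contra fun h => hcon ⟨false, h⟩⟩
          obtain ⟨γ, hγ⟩ := this
          obtain ⟨y, hy, e1, e2⟩ := pvhi_apex_dart (T := T) γ (pvasIt T s d (n + i))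
          exact H.Wc _ (ihW γ hγ) _ ⟨y, pvhi_apex_mem H.face hxA hy, e1, e2⟩ hap
      rw [hsucc]
      have hW' : ∀ γ : Bool, pvhiEnd T γ (pvasStep T s (pvasIt T s d (n + i))) ∉ pvtzEx T s d n → pvhiEnd T γ (pvasStep T s (pvasIt T s d (n + i))) ∈ W := by
        intro γ
        rcases pvhi_step s (pvasIt T s d (n + i)) γ with ⟨_, e⟩ | ⟨_, e⟩
        · rw [e]; exact hapW
        · rw [e]; exact ihW γ
      rcases pvhi_step s (pvasIt T s d (n + i)) β with ⟨ha, e⟩ | ⟨_, e⟩
      · rw [e]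
        have hapN : T.apex (pvasIt T s d (n + i)) ∈ ({v | v ∈ pvtzEx T s d n ∧ s v = β} ∪ (Xq ∩ W) : Set V) := by
          by_cases hE : T.apex (pvasIt T s d (n + i)) ∈ pvtzEx T s d n
          · exact Or.inl ⟨hE, ha⟩
          · exact Or.inr ((hcol _ hE).1 ha)
        obtain ⟨y, hy, e1, e2⟩ := pvhi_apex_dart (T := T) β (pvasIt T s d (n + i))
        have hyA := pvhi_apex_mem H.face hxA hy
        have hu : u (T.src y) = u (T.tgt y) := by
          refine H.pot.eq (hyA.imp (fun h => H.sub h) fun h => H.sub h) (pvtz_X_mono H.bw ?_) (H.chi y ?_ ?_)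
          · rw [e1, e2, ha, pvhi_end_col hbw β]
          · rw [e1]; exact hsubN _ ihN
          · rw [e2]; exact hsubN _ hapN
        rw [e1, e2] at hu
        exact ⟨⟨hapN, hu.symm.trans ihu⟩, hW', ihJ.1, ReflTransGen.tail ihJ.2 ⟨⟨y, hyA, e1, e2⟩, hapN⟩⟩
      · rw [e]
        exact ⟨⟨ihN, ihu⟩, hW', ihJ⟩
  obtain ⟨⟨hNβ, hu⟩, hW, hJ⟩ := inv N le_rfl
  have hbw := pvas_it_bw H.bw (n + N)
  have hopp : T.opp (pvasIt T s d (n + N)) ∈ A := by
    obtain ⟨i', rfl⟩ : ∃ i', N = i' + 1 := ⟨N - 1, by omega⟩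
    rw [show n + (i' + 1) = (n + i') + 1 from rfl, pvas_it_succ, pvas_step_opp_mem H.face]
    exact hmin i' (Nat.lt_succ_self i')
  have hf := H.fresh hN1 hmin
  rcases H.bd _ (fun h => hN (h.2 hopp)) with ⟨q1, q2⟩ | ⟨c1, c2⟩
  · exfalso
    have hX : pvtzX T s d n (pvasIt T s d (n + N)) = 0 := by
      by_contra hne
      rcases pvtz_X_ne_lay hne with ⟨a1, a2⟩ | ⟨a1, a2⟩
      · exact hf ⟨Or.inl a1, Or.inr a2⟩
      · exact hf ⟨Or.inr a1, Or.inl a2⟩
    have huu := H.pot.eq (Or.inr (H.sub hopp)) hX (H.chi _ (Or.inl q1) (Or.inl q2))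
    have hcw := pvhi_end_col hbw (!β)
    obtain ⟨v1, v2⟩ := pvhi_ends_vof H.face hopp
    have hw : pvhiEnd T (!β) (pvasIt T s d (n + N)) ∈ Xq ∧ pvhiEnd T (!β) (pvasIt T s d (n + N)) ∈ T.VOf A ∧ u (pvhiEnd T (!β) (pvasIt T s d (n + N))) = uβ := by
      rcases pvhi_end_cases (T := T) β (pvasIt T s d (n + N)) with ⟨e1, e2⟩ | ⟨e1, e2⟩
      · rw [e2]; rw [e1] at hu; exact ⟨q2, v2, huu.symm.trans hu⟩
      · rw [e2]; rw [e1] at hu; exact ⟨q1, v1, huu.trans hu⟩
    have hβ : s (pvhiEnd T (!β) (pvasIt T s d (n + N))) = β := by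
      by_cases hE : pvhiEnd T (!β) (pvasIt T s d (n + N)) ∈ pvtzEx T s d n
      · exact (H.cls _ hE hw.2.1).1 hw.2.2
      · exact (hcol _ hE).2 ⟨hw.1, hW _ hE⟩
    rw [hcw] at hβ
    cases β <;> simp at hβ
  · have hc : pvhiEnd T β (pvasIt T s d (n + N)) ∈ Xc := by
      rcases pvhi_end_cases (T := T) β (pvasIt T s d (n + N)) with ⟨e1, _⟩ | ⟨e1, _⟩
      · rw [e1]; exact c1
      · rw [e1]; exact c2
    rcases hNβ with h | h
    · exact absurd h.1 (H.cfresh _ hc)
    · rw [H.cq _ hc h.1 h.2 hu] at hJ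
      exact hJ

theorem pvhi_X_congr {s' : V → Bool} (h : ∀ i, i ≤ n → pvasIt T s' d i = pvasIt T s d i) : pvtzX T s' d n = pvtzX T s d n := by
  funext x
  unfold pvtzX
  refine Finset.sum_congr rfl fun k hk => ?_
  rw [h k (Nat.lt_succ_iff.1 (Finset.mem_range.1 hk))]

theorem pvhi_ex_congr {s' : V → Bool} (h : ∀ i, i ≤ n → pvasIt T s' d i = pvasIt T s d i) : pvtzEx T s' d n = pvtzEx T s d n := by
  ext v
  constructor
  · rintro (⟨i, hi, e⟩ | ⟨i, hi, e⟩)
    · exact Or.inl ⟨i, hi, by rw [← h i hi]; exact e⟩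
    · exact Or.inr ⟨i, hi, by rw [← h i hi]; exact e⟩
  · rintro (⟨i, hi, e⟩ | ⟨i, hi, e⟩)
    · exact Or.inl ⟨i, hi, by rw [h i hi]; exact e⟩
    · exact Or.inr ⟨i, hi, by rw [h i hi]; exact e⟩

/-- the setting is read from the colours of the explored set -/
theorem PvhiSet.congr (H : PvhiSet T s d n M χ u β uβ A W Xq Xc x0) {s' : V → Bool} (hs : ∀ v ∈ pvtzEx T s d n, s' v = s v) :
    PvhiSet T s' d n M χ u β uβ A W Xq Xc x0 := by
  have hit : ∀ i, i ≤ n → pvasIt T s' d i = pvasIt T s d i := pvas_it_congr fun v hv => hs v hv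
  have hE := pvhi_ex_congr hit
  have hX := pvhi_X_congr hit
  refine ⟨H.face, H.fin, H.sub, ?_, H.out, ?_, ?_, ?_, ?_, ?_, ?_, ?_, H.bd, ?_, H.cq⟩
  · rw [hit n le_rfl]; exact H.tip
  · exact ⟨(hs (T.src d) (Or.inl ⟨0, Nat.zero_le n, rfl⟩)).trans H.bw.1, (hs (T.tgt d) (Or.inr ⟨0, Nat.zero_le n, rfl⟩)).trans H.bw.2⟩
  · intro i j hi hj e
    rw [hit i hi, hit j hj] at e
    exact H.inj i j hi hj e
  · intro x hx
    rw [hX]
    exact H.pot x hx
  · intro v hv hvA
    rw [hE] at hv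
    rw [hs v hv]
    exact H.cls v hv hvA
  · rw [hE, hit n le_rfl]; exact H.Wa
  · rw [hE]; exact H.Wc
  · rw [hE]; exact H.chi
  · rw [hE]; exact H.cfresh

/-- **LEMMA JB** (abstract region): the end of colour `β` of the tip is joined to `x0` inside `A`, through explored sites of colour `β` and sites of `Xq ∩ W`.      NO hypothesis on the colours of the fresh sites. -/
theorem pvhi_join (H : PvhiSet T s d n M χ u β uβ A W Xq Xc x0) :
    T.Join A ({v | v ∈ pvtzEx T s d n ∧ s v = β} ∪ (Xq ∩ W)) (pvhiEnd T β (pvasIt T s d n)) x0 := by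
  classical
  obtain ⟨s', hs'⟩ : ∃ s' : V → Bool, s' = fun v => if v ∈ pvtzEx T s d n then s v else (if v ∈ Xq ∧ v ∈ W then β else !β) := ⟨_, rfl⟩
  have hs : ∀ v ∈ pvtzEx T s d n, s' v = s v := fun v hv => by rw [hs']; exact if_pos hv
  have hit : ∀ i, i ≤ n → pvasIt T s' d i = pvasIt T s d i := pvas_it_congr fun v hv => hs v hv
  have hE := pvhi_ex_congr hit
  have key := pvhi_follow (H.congr hs) (fun v hv => by
    rw [hE] at hv
    have : s' v = if v ∈ Xq ∧ v ∈ W then β else !β := by rw [hs']; exact if_neg hv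
    rw [this]
    by_cases h : v ∈ Xq ∧ v ∈ W
    · rw [if_pos h]; exact ⟨fun _ => h, fun _ => rfl⟩
    · rw [if_neg h]
      refine ⟨fun e => ?_, fun e => absurd e h⟩
      cases β <;> simp at e)
  rw [hE, hit n le_rfl] at key
  have hset : ({v | v ∈ pvtzEx T s d n ∧ s' v = β} ∪ (Xq ∩ W) : Set V) = {v | v ∈ pvtzEx T s d n ∧ s v = β} ∪ (Xq ∩ W) := by
    ext v
    constructor
    · rintro (⟨h1, h2⟩ | h)
      · exact Or.inl ⟨h1, by rw [← hs v h1]; exact h2⟩
      · exact Or.inr h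
    · rintro (⟨h1, h2⟩ | h)
      · exact Or.inl ⟨h1, by rw [hs v h1]; exact h2⟩
      · exact Or.inr h
  rw [hset] at key
  exact key

end follow

/-! ## 3. the fill of the landing path and of the closing path -/

section fill

variable {s : V → Bool} {d : D} {n : ℕ} {M : Set D} {χ : D → ZMod 2} {u : V → ZMod 2}

/-- the number of positions of the stub on the edge of `y` -/
theorem pvhi_eps_sum (y : D) : ∑ k ∈ Finset.range (n + 1), plEps T y (pvasIt T s d k) = pvtzX T s d n y := by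
  classical
  unfold pvtzX plEps
  refine Finset.sum_congr rfl fun k _ => ?_
  rw [Finsupp.add_apply, Finsupp.single_apply, Finsupp.single_apply]
  have e1 : (if y = pvasIt T s d k then (1 : ZMod 2) else 0) = plI (y = pvasIt T s d k) := by
    by_cases h : y = pvasIt T s d k
    · rw [if_pos h, pl_hx_I_pos h]
    · rw [if_neg h, pl_hx_I_neg h]
  have e2 : (if T.opp y = pvasIt T s d k then (1 : ZMod 2) else 0) = plI (y = T.opp (pvasIt T s d k)) := by
    by_cases h : T.opp y = pvasIt T s d k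
    · rw [if_pos h, pl_hx_I_pos (by rw [← h, T.opp_opp])]
    · rw [if_neg h, pl_hx_I_neg fun e => h (by rw [e, T.opp_opp])]
  rw [e1, e2]

/-- **a join off the slit is a walk which the stub crosses `u a + u b` times** -/
theorem pvhi_join_ch (h : PvtzPot T s d n M χ u) {X : Set V} (hχ : ∀ x, T.src x ∈ X → T.tgt x ∈ X → χ x = 0) {a b : V} (hab : T.Join M X a b) :
    ∃ z, PlCh T a b z ∧ (∀ y, z y ≠ 0 → (y ∈ M ∨ T.opp y ∈ M) ∧ T.src y ∈ X ∧ T.tgt y ∈ X) ∧
      ∑ k ∈ Finset.range (n + 1), z (pvasIt T s d k) = u a + u b := by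
  obtain ⟨h1, h2⟩ := hab
  induction h2 with
  | refl => exact ⟨0, PlCh.nil a, fun y hy => absurd rfl hy, by rw [pl_z2_add_self]; exact Finset.sum_eq_zero fun _ _ => rfl⟩
  | @tail b c hab hbc ih =>
    obtain ⟨z, hz1, hz2, hz3⟩ := ih
    obtain ⟨⟨d₀, hd₀, rfl, rfl⟩, hc⟩ := hbc
    have hb : T.src d₀ ∈ X := pl_hx_join_mem ⟨h1, hab⟩
    refine ⟨z + plEps T d₀, PlCh.cons d₀ hz1, fun y hy => ?_, ?_⟩
    · by_cases hzy : z y = 0
      · rw [Finsupp.add_apply, hzy, zero_add] at hy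
        rcases pl_hx_eps_apply_ne hy with rfl | rfl
        · exact ⟨hd₀, hb, hc⟩
        · rw [T.opp_opp, T.src_opp', T.tgt_opp]
          exact ⟨hd₀.symm, hc, hb⟩
      · exact hz2 y hzy
    · simp only [Finsupp.add_apply, Finset.sum_add_distrib]
      rw [hz3, pvhi_eps_sum]
      have h3 := h d₀ hd₀
      rw [hχ d₀ hb hc, add_zero] at h3
      rw [← h3]
      have h4 := pl_z2_add_self (u (T.src d₀))
      linear_combination h4

theorem pvhi_toggle1 (A : Set D) (x : D) : plI (x ∈ A) = plI (T.opp x ∈ A) + plI (T.Bd A x) := by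
  unfold PvMap.Bd
  by_cases h1 : x ∈ A <;> by_cases h2 : T.opp x ∈ A
  · rw [pl_hx_I_pos h1, pl_hx_I_pos h2, pl_hx_I_neg (fun h => h ⟨fun _ => h2, fun _ => h1⟩), add_zero]
  · rw [pl_hx_I_pos h1, pl_hx_I_neg h2, pl_hx_I_pos (fun h => h2 (h.1 h1)), zero_add]
  · rw [pl_hx_I_neg h1, pl_hx_I_pos h2, pl_hx_I_pos (fun h => h1 (h.2 h2))]; decide
  · rw [pl_hx_I_neg h1, pl_hx_I_neg h2, pl_hx_I_neg (fun h => h ⟨fun h => absurd h h1, fun h => absurd h h2⟩), add_zero]

/-- a strand changes sides at the boundary edges -/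
theorem pvhi_toggle {A : Set D} (hA : T.FaceSet A) (s : V → Bool) (d : D) (n : ℕ) :
    plI (pvasIt T s d n ∈ A) = plI (T.opp d ∈ A) + ∑ k ∈ Finset.range (n + 1), plI (T.Bd A (pvasIt T s d k)) := by
  induction n with
  | zero => rw [Finset.sum_range_one]; exact pvhi_toggle1 A d
  | succ n ih =>
    rw [Finset.sum_range_succ, ← add_assoc, ← ih, pvhi_toggle1 A (pvasIt T s d (n + 1))]
    congr 1
    rw [pvas_it_succ]
    exact pl_hx_I_congr (pvas_step_opp_mem hA s)

theorem pvhi_tip_mem {A B : Set D} (hA : T.FaceSet A) (hAB : A ⊆ B) (h0 : T.opp d ∉ B) {z : D →₀ ZMod 2} (hbd : ∀ x, T.Bd A x ↔ z x = 1)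
    (hz : ∑ k ∈ Finset.range (n + 1), z (pvasIt T s d k) = 1) : pvasIt T s d n ∈ A := by
  have h1 := pvhi_toggle hA s d n
  have h2 : ∀ x, plI (T.Bd A x) = z x := by
    intro x
    rcases pvad_z2_cases (z x) with h | h
    · rw [h, pl_hx_I_neg fun hb => by rw [(hbd x).1 hb] at h; exact one_ne_zero h]
    · rw [h, pl_hx_I_pos ((hbd x).2 h)]
  simp only [h2] at h1
  rw [hz, pl_hx_I_neg fun h => h0 (hAB h), zero_add] at h1
  by_contra hc
  rw [pl_hx_I_neg hc] at h1
  exact zero_ne_one h1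

/-- **THE FILL**: two joins `x0 → xm` of the closed disc of `Mc`, the first one off the slit, the second one through fresh sites, `x0` and `xm` in different classes of the tip potential:
they bound a face set of the disc which contains the tip face -/
theorem pvhi_fill (hT : T.IsSph) (Mc : T.Cyc) (hsub : Mc.Left ⊆ M) (h : PvtzPot T s d n M χ u) (h0 : T.opp d ∉ Mc.Left)
    {Xq Xc : Set V} (hχ : ∀ x, T.src x ∈ Xq → T.tgt x ∈ Xq → χ x = 0) (hc : ∀ v ∈ Xc, v ∉ pvtzEx T s d n) {x0 xm : V}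
    (hq : T.Join Mc.Left Xq x0 xm) (hcj : T.Join Mc.Left Xc x0 xm) (hne : u x0 ≠ u xm) :
    ∃ A : Set D, T.FaceSet A ∧ A ⊆ Mc.Left ∧ pvasIt T s d n ∈ A ∧ ∀ x, T.Bd A x → (T.src x ∈ Xq ∧ T.tgt x ∈ Xq) ∨ (T.src x ∈ Xc ∧ T.tgt x ∈ Xc) := by
  have h' : PvtzPot T s d n Mc.Left χ u := fun x hx => h x (hx.imp (fun a => hsub a) fun a => hsub a)
  obtain ⟨zq, hzq, sq, pq⟩ := pvhi_join_ch h' hχ hq
  obtain ⟨zc, hzc, sc⟩ := pl_hx_join_ch hcj
  obtain ⟨A0, -, hA0, hbd0⟩ := pvad_isBd_set (pl_hx_fill hT hzq hzc)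
  have hsum : ∑ k ∈ Finset.range (n + 1), (zq + zc) (pvasIt T s d k) = 1 := by
    simp only [Finsupp.add_apply, Finset.sum_add_distrib]
    rw [pq, Finset.sum_eq_zero (f := fun k => zc (pvasIt T s d k)), add_zero]
    · generalize u x0 = a at hne
      generalize u xm = b at hne
      revert a b; decide
    · intro k hk
      by_contra hz
      exact hc _ (sc _ hz).2.1 (Or.inl ⟨k, Nat.lt_succ_iff.1 (Finset.mem_range.1 hk), rfl⟩)
  have hsupp : ∀ x, T.Bd A0 x → ((x ∈ Mc.Left ∨ T.opp x ∈ Mc.Left) ∧ ((T.src x ∈ Xq ∧ T.tgt x ∈ Xq) ∨ (T.src x ∈ Xc ∧ T.tgt x ∈ Xc))) := by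
    intro x hx
    rw [hbd0, Finsupp.add_apply] at hx
    by_cases hz : zq x = 0
    · have hz' : zc x ≠ 0 := by
        intro h2
        rw [hz, h2] at hx
        exact absurd hx (by decide)
      exact ⟨(sc x hz').1, Or.inr (sc x hz').2⟩
    · exact ⟨(sq x hz).1, Or.inl (sq x hz).2⟩
  rcases pvad_in_disc hT Mc hA0 (fun x hx => (hsupp x hx).1) with hA | hA
  · exact ⟨A0, hA0, hA, pvhi_tip_mem hA0 hA h0 hbd0 hsum, fun x hx => (hsupp x hx).2⟩
  · exact ⟨A0ᶜ, hA0.compl, hA, pvhi_tip_mem hA0.compl hA h0 (fun x => T.bd_compl.trans (hbd0 x)) hsum, fun x hx => (hsupp x (T.bd_compl.1 hx)).2⟩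

end fill

/-! ## 4. LEMMA JB at an exit tip and at an entrance tip -/

section main

variable {s : V → Bool} {d : D} {n : ℕ} {M : Set D} {χ : D → ZMod 2} {u : V → ZMod 2}

theorem pvhi_join_mono {A B : Set D} (hAB : A ⊆ B) {X : Set V} {a b : V} (h : T.Join A X a b) : T.Join B X a b :=
  ⟨h.1, ReflTransGen.mono (fun p q hpq => ⟨by
    obtain ⟨x, hx, e1, e2⟩ := hpq.1
    exact ⟨x, hx.imp (fun a => hAB a) fun a => hAB a, e1, e2⟩, hpq.2⟩) _ _ h.2⟩

/-- **LEMMA JB AT AN EXIT TIP.**      `Mc` = a cycle round the tip (the MOUTH: `VOf Mc.Left ⊆ K`), `u` = the tip potential on `M ⊇ Mc.Left` (`pvtz_pot` on a larger disc, where the level is calm), the stub starts outside `Mc`;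
`hcls` = CALM + (H1): in the closed mouth the explored sites of colour `β` are those of the class `uβ`;      `W` = fresh sites joined to the tip apex by fresh sites of the mouth;
`hq` = the LANDING PATH `x0 → xm` (off the slit, from one class to the other), `hcj` = a closing path of fresh sites which meets the landing path, in the class `uβ`, only at `x0`.
THEN the end of colour `β` of the tip is joined to `x0` INSIDE THE CLOSED MOUTH through explored sites of colour `β` and sites of `Xq ∩ W`.      (No hypothesis on the colours of the fresh sites: if the sites of `Xq ∩ W` have the colour `β`, this is a join of colour `β`.) -/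
theorem pvhi_exit (hT : T.IsSph) (Mc : T.Cyc) (hfin : Mc.Left.Finite) (hsub : Mc.Left ⊆ M) (hpot : PvtzPot T s d n M χ u) (h0 : T.opp d ∉ Mc.Left)
    (hbw : pvasBW T s d) (hinj : ∀ i j, i ≤ n → j ≤ n → pvasIt T s d i = pvasIt T s d j → i = j) (β : Bool) (uβ : ZMod 2)
    (hcls : ∀ v ∈ pvtzEx T s d n, v ∈ T.VOf Mc.Left → (u v = uβ ↔ s v = β)) {W Xq Xc : Set V}
    (hWa : T.apex (pvasIt T s d n) ∉ pvtzEx T s d n → T.apex (pvasIt T s d n) ∈ W)
    (hWc : ∀ a ∈ W, ∀ b, T.EdgeIn Mc.Left a b → b ∉ pvtzEx T s d n → b ∈ W)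
    (hχ : ∀ x, T.src x ∈ Xq ∪ pvtzEx T s d n → T.tgt x ∈ Xq ∪ pvtzEx T s d n → χ x = 0)
    (hc : ∀ v ∈ Xc, v ∉ pvtzEx T s d n) {x0 xm : V} (hq : T.Join Mc.Left Xq x0 xm) (hcj : T.Join Mc.Left Xc x0 xm) (hne : u x0 ≠ u xm)
    (hcq : ∀ v ∈ Xc, v ∈ Xq → v ∈ W → u v = uβ → v = x0) :
    T.Join Mc.Left ({v | v ∈ pvtzEx T s d n ∧ s v = β} ∪ (Xq ∩ W)) (pvhiEnd T β (pvasIt T s d n)) x0 := by
  obtain ⟨A, hA, hAM, htip, hbd⟩ := pvhi_fill hT Mc hsub hpot h0 (fun x h1 h2 => hχ x (Or.inl h1) (Or.inl h2)) hc hq hcj hne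
  refine pvhi_join_mono hAM (pvhi_join (M := M) (χ := χ) (u := u) (uβ := uβ) (Xc := Xc) ⟨hA, hfin.subset hAM, hAM.trans hsub, htip, fun h => h0 (hAM h), hbw, hinj, hpot, ?_, hWa, ?_, hχ, hbd, hc, hcq⟩)
  · rintro v hv ⟨x, hx, rfl⟩
    exact hcls _ hv ⟨x, hAM hx, rfl⟩
  · rintro a ha b ⟨x, hx, e1, e2⟩ hb
    exact hWc a ha b ⟨x, hx.imp (fun a => hAM a) fun a => hAM a, e1, e2⟩ hb

/-! ### reversal -/

theorem pvhi_rev_X (hbw : pvasBW T s d) : pvtzX T (pvasNot s) (T.opp (pvasIt T s d n)) n = pvtzX T s d n := by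
  funext x
  unfold pvtzX
  rw [← Finset.sum_range_reflect]
  refine Finset.sum_congr rfl fun k hk => ?_
  have hk' : k ≤ n := Nat.lt_succ_iff.1 (Finset.mem_range.1 hk)
  rw [pvas_it_rev hbw (by omega : n + 1 - 1 - k ≤ n), show n - (n + 1 - 1 - k) = k by omega, T.opp_opp, add_comm]

theorem pvhi_rev_ex (hbw : pvasBW T s d) : pvtzEx T (pvasNot s) (T.opp (pvasIt T s d n)) n = pvtzEx T s d n := by
  ext v
  constructor
  · rintro (⟨i, hi, e⟩ | ⟨i, hi, e⟩)
    · rw [pvas_it_rev hbw hi, T.src_opp'] at e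
      exact Or.inr ⟨n - i, by omega, e⟩
    · rw [pvas_it_rev hbw hi, T.tgt_opp] at e
      exact Or.inl ⟨n - i, by omega, e⟩
  · rintro (⟨i, hi, e⟩ | ⟨i, hi, e⟩)
    · refine Or.inr ⟨n - i, by omega, ?_⟩
      rw [pvas_it_rev hbw (by omega), T.tgt_opp, show n - (n - i) = i by omega]
      exact e
    · refine Or.inl ⟨n - i, by omega, ?_⟩
      rw [pvas_it_rev hbw (by omega), T.src_opp', show n - (n - i) = i by omega]
      exact e

theorem pvhi_end_opp (β : Bool) (x : D) : pvhiEnd T (!β) (T.opp x) = pvhiEnd T β x := by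
  cases β
  · exact T.src_opp' x
  · exact T.tgt_opp x

theorem pvhi_not_iff (s : V → Bool) (v : V) (β : Bool) : pvasNot s v = (!β) ↔ s v = β := by
  unfold pvasNot
  cases s v <;> cases β <;> simp

/-- **LEMMA JB AT AN ENTRANCE TIP.**      The stub is listed FORWARDS: `d` = the tip position (the new strand arrives in the face of `opp d`), `pvasIt T s d n` is outside the mouth.      Colour flip = time reversal. -/
theorem pvhi_ent (hT : T.IsSph) (Mc : T.Cyc) (hfin : Mc.Left.Finite) (hsub : Mc.Left ⊆ M) (hpot : PvtzPot T s d n M χ u) (h0 : pvasIt T s d n ∉ Mc.Left)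
    (hbw : pvasBW T s d) (hinj : ∀ i j, i ≤ n → j ≤ n → pvasIt T s d i = pvasIt T s d j → i = j) (β : Bool) (uβ : ZMod 2)
    (hcls : ∀ v ∈ pvtzEx T s d n, v ∈ T.VOf Mc.Left → (u v = uβ ↔ s v = β)) {W Xq Xc : Set V}
    (hWa : T.apex (T.opp d) ∉ pvtzEx T s d n → T.apex (T.opp d) ∈ W)
    (hWc : ∀ a ∈ W, ∀ b, T.EdgeIn Mc.Left a b → b ∉ pvtzEx T s d n → b ∈ W)
    (hχ : ∀ x, T.src x ∈ Xq ∪ pvtzEx T s d n → T.tgt x ∈ Xq ∪ pvtzEx T s d n → χ x = 0)
    (hc : ∀ v ∈ Xc, v ∉ pvtzEx T s d n) {x0 xm : V} (hq : T.Join Mc.Left Xq x0 xm) (hcj : T.Join Mc.Left Xc x0 xm) (hne : u x0 ≠ u xm)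
    (hcq : ∀ v ∈ Xc, v ∈ Xq → v ∈ W → u v = uβ → v = x0) :
    T.Join Mc.Left ({v | v ∈ pvtzEx T s d n ∧ s v = β} ∪ (Xq ∩ W)) (pvhiEnd T β d) x0 := by
  have hE := pvhi_rev_ex (n := n) hbw
  have hX := pvhi_rev_X (n := n) hbw
  have htip : pvasIt T (pvasNot s) (T.opp (pvasIt T s d n)) n = T.opp d := by
    rw [pvas_it_rev hbw le_rfl, Nat.sub_self]; rfl
  have key := pvhi_exit (s := pvasNot s) (d := T.opp (pvasIt T s d n)) (n := n) (M := M) (χ := χ) (u := u) hT Mc hfin hsub
    (fun x hx => by rw [hX]; exact hpot x hx) (by rw [T.opp_opp]; exact h0) (pvas_bw_not.2 (pvas_it_bw hbw n))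
    (fun i j hi hj e => by
      rw [pvas_it_rev hbw hi, pvas_it_rev hbw hj] at e
      have := hinj _ _ (by omega) (by omega) (T.opp_injective e)
      omega) (!β) uβ
    (fun v hv hvM => by
      rw [hE] at hv
      rw [pvhi_not_iff]
      exact hcls v hv hvM) (W := W) (Xq := Xq) (Xc := Xc)
    (by rw [hE, htip]; exact hWa) (by rw [hE]; exact hWc) (by rw [hE]; exact hχ) (by rw [hE]; exact hc) hq hcj hne hcq
  rw [hE, htip, pvhi_end_opp] at key
  have hset : ({v | v ∈ pvtzEx T s d n ∧ pvasNot s v = (!β)} ∪ (Xq ∩ W) : Set V) = {v | v ∈ pvtzEx T s d n ∧ s v = β} ∪ (Xq ∩ W) := by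
    ext v
    constructor
    · rintro (⟨h1, h2⟩ | h)
      · exact Or.inl ⟨h1, (pvhi_not_iff s v β).1 h2⟩
      · exact Or.inr h
    · rintro (⟨h1, h2⟩ | h)
      · exact Or.inl ⟨h1, (pvhi_not_iff s v β).2 h2⟩
      · exact Or.inr h
  rw [hset] at key
  exact key

end main

end Claimed.Agent.R289
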