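-- KEEP
import Claimed.Agent.R289.Tr.LinkLocA
import Claimed.Agent.R289.Tr.LinkLocC

/-!
# Row 289 (S0537), THE WALL, road E, E10 (b5) + [LOC], file Tr/LinkDetB : **TWO CONFIGURATIONS EQUAL ON THE WINDOW: THE PLAIN LINK, ITS VALUE, ITS BASE DATA ARE THE SAME**, LINK FREE      (helper231, second of 22, post of 24 id 93292, split with 22 id 93676; prefix `pvzj_`)

For ANY `L : PvilLk` of `Tr/InstL` v2.2, any window `Wn`, mesh `μ` READ IN THE WINDOW.      `K := pvtrCore (3 μ) Wn`.      Tools: `pvll_conf_iso`, `pvll_conf_ok` (74, `Tr/LinkLocC`), `pvll_arc_tr`, `pvll_X_eq`, `pvll_out`, `pvll_in` (74, `Tr/LinkLocA`), `pvym_locP` (247).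
* sec. 1  the window: `pvzj_mesh_conf` (the mesh of a region of the window), `pvzj_N_conf` (the guard of a kit plug whose square lies in the window), **`pvzj_gd_conf`** (the guard `pvllGd L`)
* sec. 2  **`pvzj_arc_conf`** (witness level: twin witnesses at `η'`, twin relations, the same value for a weight carried by the relation), **`pvzj_X_tr`** (THE LINE OF 22: `η' ∈ L.A`, `X_Q`, `X_V` equal)
* sec. 3  marked ends: **`pvzj_out_conf`**, **`pvzj_in_conf`** (twin half state, the same frozen POSITIONS), `pvzj_fzO_conf`, `pvzj_fzI_conf`, **`pvzj_huO_conf`**, **`pvzj_huI_conf`** (base data `F`, `Z` equal)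
* sec. 4  (v1.1) ANY WEIGHT READ ON THE PLANE MAP (`PvzjWtL w`; `pvzj_wtL_Q`, `pvzj_wtL_V`): **`pvzj_X_trW`**;   `pvzjFt N b L K` = the link succeeds WITH ITS FEET IN `K`;
          THE SHAPE OF `pvilMo Mi Me Mr` = `hloc` of `pvll_det_pair` / `pvll_loc_final` of 74 with `S := M ∩ pvzjFt`: **`pvzj_M_out`** (marked exit end, hull `pvilHuO`), **`pvzj_M_in`** (marked entrance end, hull `pvilHuI`), **`pvzj_M_dd`** (two doors)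
* sec. 5  (v1.1) AT THE MODEL: **`pvzj_Mo_loc`, `pvzj_Mi_loc`, `pvzj_Me_loc`, `pvzj_Mr_loc`** (what is left to the caller: `0 < μ`, `PvllUq`, square of the kit plug(s) in the window, room in the core, FEET)
-/

set_option autoImplicit false

namespace Claimed.Agent.R289

open Set Metric MeasureTheory Claims.C0465

/-! ## 1. the window -/

section window

variable {Wn : Set ℂ} {η η' : Conf PvPt}

/-- the mesh of a region of the window is read in the window -/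
theorem pvzj_mesh_conf (hee : Conf.restr (Wn ×ˢ univ) η = Conf.restr (Wn ×ˢ univ) η') {ρ : ℝ} {E : Set ℂ} (hE : E ⊆ Wn) (h : PvtrMesh ρ E (cfSites η)) : PvtrMesh ρ E (cfSites η') := by
  refine (pvtr_mesh_congr ?_).1 h
  have e := pvge_conf_sites hee
  ext a
  constructor
  · rintro ⟨h1, h2⟩
    exact ⟨((Set.ext_iff.1 e a).1 ⟨h1, hE h2⟩).1, h2⟩
  · rintro ⟨h1, h2⟩
    exact ⟨((Set.ext_iff.1 e a).2 ⟨h1, hE h2⟩).1, h2⟩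

/-- the guard of a kit plug whose window lies in the window -/
theorem pvzj_N_conf (hee : Conf.restr (Wn ×ˢ univ) η = Conf.restr (Wn ×ˢ univ) η') (hn' : PvatNice (cfSites η')) {𝔭 : PvkdPlug} {z d : ℂ} (hE : pvkdAt z d 𝔭.Ew ⊆ Wn) (h : η ∈ 𝔭.N z d) : η' ∈ 𝔭.N z d :=
  ⟨hn', pvzj_mesh_conf hee hE h.2⟩

/-- **the guard of a link**: the windows of its kit plugs lie in the window -/
theorem pvzj_gd_conf (hee : Conf.restr (Wn ×ˢ univ) η = Conf.restr (Wn ×ˢ univ) η') (hn' : PvatNice (cfSites η')) {L : PvilLk}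
    (hE : L.dr = true → pvkdAt L.p.z L.p.fr (pvkdP L.p.h).Ew ⊆ Wn) (hE' : L.dr' = true → pvkdAt L.p'.z L.p'.fr (pvkdP L.p'.h).Ew ⊆ Wn) (h : η ∈ pvllGd L) : η' ∈ pvllGd L :=
  ⟨hn'.good, fun hd => pvzj_N_conf hee hn' (hE hd) (h.2.1 hd), fun hd => pvzj_N_conf hee hn' (hE' hd) (h.2.2 hd)⟩

end window

/-! ## 2. the link -/

section link

variable {N : PvwNum} {b : Bool} {L : PvilLk} {μ : ℝ} {Wn : Set ℂ} {η η' : Conf PvPt}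

/-- the vertex relation of two configurations over the window -/
def pvzjRv (Wn : Set ℂ) (η η' : Conf PvPt) : ↥(pvieY η) → ↥(pvieY η') → Prop := fun v v' => (v : ℂ) = v' ∧ (v : ℂ) ∈ Wn

/-- the dart relation of two configurations over the core of the window -/
def pvzjRd (μ : ℝ) (Wn : Set ℂ) (η η' : Conf PvPt) : (delbPl (pvieY η)).Dart → (delbPl (pvieY η')).Dart → Prop :=
  pvplRK (pvieT η) (pviePos η) (pvieT η') (pvtrCore (3 * μ) Wn) (pvzjRv Wn η η')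

theorem pvzj_eqns_citeF : True := by
  have := @pvzjRv.eq_1; have := @pvzjRd.eq_1
  trivial

/-- **WITNESS LEVEL**: twin witnesses at `η'`, with the twin relations and the value of any weight carried by the relation -/
theorem pvzj_arc_conf (hμ : 0 < μ) (hee : Conf.restr (Wn ×ˢ univ) η = Conf.restr (Wn ×ˢ univ) η') (hm : PvtrMesh μ Wn (cfSites η)) (hg' : η' ∈ pvllGd L) (hY : L.Yin ⊆ pvtrCore (3 * μ) Wn)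
    {𝔖 𝔖' : PvwSt (pvieT η)} {y : (pvieT η).Pth} (ha : L.Arc N b η 𝔖 𝔖' y) (hft : PvllFtP L (pvtrCore (3 * μ) Wn) (pvieT η) (pviePos η) 𝔖) (hft' : PvllFtP' L (pvtrCore (3 * μ) Wn) (pvieT η) (pviePos η) 𝔖')
    {w : (delbPl (pvieY η)).Dart → ℂ} {w' : (delbPl (pvieY η')).Dart → ℂ} (hw : ∀ d d', pvzjRd μ Wn η η' d d' → w d = w' d') :
    ∃ (𝔖₁ 𝔖₁' : PvwSt (pvieT η')) (y₁ : (pvieT η').Pth), L.Arc N b η' 𝔖₁ 𝔖₁' y₁ ∧ PvLocSP (pvzjRd μ Wn η η') 𝔖 𝔖₁ ∧ PvLocSM (pvzjRd μ Wn η η') 𝔖' 𝔖₁' ∧ PvLocPth (pvzjRd μ Wn η η') y y₁ ∧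
      L.val N η' w' 𝔖₁ 𝔖₁' y₁ = L.val N η w 𝔖 𝔖' y := by
  obtain ⟨hg, hA⟩ := pvll_arc_iff.1 ha
  have hi := pvll_conf_iso hμ hee hm hg.1 hg'.1 b
  obtain ⟨𝔖₁, 𝔖₁', y₁, G, G', P, hA', hv⟩ := pvll_arc_tr hi (pvll_conf_ok hg.1 _) (pvll_conf_ok hg'.1 _) hY hft hft' hA hw
  exact ⟨𝔖₁, 𝔖₁', y₁, pvll_arc_iff.2 ⟨hg', hA'⟩, G, G', P, hv⟩

/-- the positioned local isomorphism of the two plane maps, from the exit end of a link -/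
theorem pvzj_conf_locP (hμ : 0 < μ) (hee : Conf.restr (Wn ×ˢ univ) η = Conf.restr (Wn ×ˢ univ) η') (hm : PvtrMesh μ Wn (cfSites η)) (hg' : DelGood (cfSites η'))
    {𝔖 𝔖' : PvwSt (pvieT η)} {y : (pvieT η).Pth} (ha : L.Arc N b η 𝔖 𝔖' y) (hft : PvllFtP L (pvtrCore (3 * μ) Wn) (pvieT η) (pviePos η) 𝔖) :
    PvLocP (pvieT η) (pvieT η') (pvzjRd μ Wn η η') (pviePos η) (pviePos η') (pvtrCore (3 * μ) Wn) := by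
  obtain ⟨hg, hA⟩ := pvll_arc_iff.1 ha
  have hi := pvll_conf_iso hμ hee hm hg.1 hg' b
  obtain ⟨-, -, -, hp⟩ := pvll_atP_tr hi (pvll_conf_ok hg.1 _) (pvll_conf_ok hg' _) hft hA.at_p
  refine pvll_conf_locP hμ hee hm hg.1 hg' b (d0 := 𝔖.dp) ?_
  have := hp.stub 0 (Nat.zero_le _)
  rwa [pvas_it_zero] at this

/-- **THE LINK AND ITS TWO VALUES ARE READ IN THE WINDOW** (the line of 22) -/
theorem pvzj_X_tr (hμ : 0 < μ) (hee : Conf.restr (Wn ×ˢ univ) η = Conf.restr (Wn ×ˢ univ) η') (hm : PvtrMesh μ Wn (cfSites η)) (hu : PvllUq L) (hg' : η' ∈ pvllGd L) (hY : L.Yin ⊆ pvtrCore (3 * μ) Wn)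
    {𝔖 𝔖' : PvwSt (pvieT η)} {y : (pvieT η).Pth} (ha : L.Arc N b η 𝔖 𝔖' y) (hft : PvllFtP L (pvtrCore (3 * μ) Wn) (pvieT η) (pviePos η) 𝔖) (hft' : PvllFtP' L (pvtrCore (3 * μ) Wn) (pvieT η) (pviePos η) 𝔖') :
    η' ∈ L.A N b ∧ L.X N b pvilQ η' = L.X N b pvilQ η ∧ L.X N b pvilV η' = L.X N b pvilV η := by
  have Lc := pvzj_conf_locP hμ hee hm hg'.1 ha hft
  obtain ⟨a1, a2, a3, hA1, -, -, -, hv1⟩ := pvzj_arc_conf hμ hee hm hg' hY ha hft hft' (w := pvilQ η) (w' := pvilQ η') fun d d' h => pvlw_qpart Lc h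
  obtain ⟨b1, b2, b3, hA2, -, -, -, hv2⟩ := pvzj_arc_conf hμ hee hm hg' hY ha hft hft' (w := pvilV η) (w' := pvilV η') fun d d' h => pvlw_side Lc h
  refine ⟨⟨a1, a2, a3, hA1⟩, ?_, ?_⟩
  · rw [pvll_X_eq hu hA1, pvll_X_eq hu ha, hv1]
  · rw [pvll_X_eq hu hA2, pvll_X_eq hu ha, hv2]

end link

/-! ## 3. marked ends: the half state and the base data -/

section marked

variable {N : PvwNum} {b : Bool} {p : PvilPl} {μ : ℝ} {Wn : Set ℂ} {η η' : Conf PvPt}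

/-- **the exit half state is read in the window**: twin half state, the same frozen positions -/
theorem pvzj_out_conf (hμ : 0 < μ) (hee : Conf.restr (Wn ×ˢ univ) η = Conf.restr (Wn ×ˢ univ) η') (hm : PvtrMesh μ Wn (cfSites η)) (hg' : DelGood (cfSites η')) (hf : ‖p.fr‖ = 1)
    (hK : closedBall p.z (p.ty.b * p.h) ⊆ pvtrCore (3 * μ) Wn) {𝔖 : PvwSt (pvieT η)} (hKp : ∀ i, i ≤ 𝔖.np → pviePos η ((pvieT η).src (𝔖.ep i)) ∈ pvtrCore (3 * μ) Wn) (h : PvilOut N b p η 𝔖) :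
    ∃ 𝔖₁ : PvwSt (pvieT η'), PvilOut N b p η' 𝔖₁ ∧ PvLocSP (pvzjRd μ Wn η η') 𝔖 𝔖₁ ∧ pviePos η' '' 𝔖₁.fzOut = pviePos η '' 𝔖.fzOut := by
  obtain ⟨hg, hA⟩ := pvll_out_iff.1 h
  have Lc := pvll_conf_locP hμ hee hm hg hg' b (d0 := 𝔖.ep 0) (hKp 0 (Nat.zero_le _))
  obtain ⟨𝔖₁, G, h1⟩ := pvll_out Lc (delb_plane_isSph hg) (pvll_conf_iso hμ hee hm hg hg' b).loc_col hf hK hKp hA
  exact ⟨𝔖₁, pvll_out_iff.2 ⟨hg', h1⟩, G, (pvll_fzOut_pos Lc G).symm⟩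

/-- **the entrance half state is read in the window** -/
theorem pvzj_in_conf (hμ : 0 < μ) (hee : Conf.restr (Wn ×ˢ univ) η = Conf.restr (Wn ×ˢ univ) η') (hm : PvtrMesh μ Wn (cfSites η)) (hg' : DelGood (cfSites η')) (hf : ‖p.fr‖ = 1)
    (hK : closedBall p.z (p.ty.b * p.h) ⊆ pvtrCore (3 * μ) Wn) {𝔖 : PvwSt (pvieT η)} (hKm : ∀ i, i ≤ 𝔖.nm → pviePos η ((pvieT η).src (𝔖.em i)) ∈ pvtrCore (3 * μ) Wn) (h : PvilIn N b p η 𝔖) :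
    ∃ 𝔖₁ : PvwSt (pvieT η'), PvilIn N b p η' 𝔖₁ ∧ PvLocSM (pvzjRd μ Wn η η') 𝔖 𝔖₁ ∧ pviePos η' '' 𝔖₁.fzIn = pviePos η '' 𝔖.fzIn := by
  obtain ⟨hg, hA⟩ := pvll_in_iff.1 h
  have Lc := pvll_conf_locP hμ hee hm hg hg' b (d0 := 𝔖.em 0) (hKm 0 (Nat.zero_le _))
  obtain ⟨𝔖₁, G, h1⟩ := pvll_in Lc (delb_plane_isSph hg) (pvll_conf_iso hμ hee hm hg hg' b).loc_col hf hK hKm hA
  exact ⟨𝔖₁, pvll_in_iff.2 ⟨hg', h1⟩, G, (pvll_fzIn_pos Lc G).symm⟩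

/-- the base datum `F` of `Σ_out` -/
theorem pvzj_fzO_conf (hμ : 0 < μ) (hee : Conf.restr (Wn ×ˢ univ) η = Conf.restr (Wn ×ˢ univ) η') (hm : PvtrMesh μ Wn (cfSites η)) (hg' : DelGood (cfSites η')) (hf : ‖p.fr‖ = 1)
    (hK : closedBall p.z (p.ty.b * p.h) ⊆ pvtrCore (3 * μ) Wn) {𝔖 : PvwSt (pvieT η)} (hKp : ∀ i, i ≤ 𝔖.np → pviePos η ((pvieT η).src (𝔖.ep i)) ∈ pvtrCore (3 * μ) Wn) (h : PvilOut N b p η 𝔖) :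
    pvilFzO N b p η' = pvilFzO N b p η := by
  obtain ⟨𝔖₁, h1, -, e⟩ := pvzj_out_conf hμ hee hm hg' hf hK hKp h
  rw [pvll_fzO_eq hf h1, pvll_fzO_eq hf h, e]

/-- the base datum `F` of `Σ_in` -/
theorem pvzj_fzI_conf (hμ : 0 < μ) (hee : Conf.restr (Wn ×ˢ univ) η = Conf.restr (Wn ×ˢ univ) η') (hm : PvtrMesh μ Wn (cfSites η)) (hg' : DelGood (cfSites η')) (hf : ‖p.fr‖ = 1)
    (hK : closedBall p.z (p.ty.b * p.h) ⊆ pvtrCore (3 * μ) Wn) {𝔖 : PvwSt (pvieT η)} (hKm : ∀ i, i ≤ 𝔖.nm → pviePos η ((pvieT η).src (𝔖.em i)) ∈ pvtrCore (3 * μ) Wn) (h : PvilIn N b p η 𝔖) :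
    pvilFzI N b p η' = pvilFzI N b p η := by
  obtain ⟨𝔖₁, h1, -, e⟩ := pvzj_in_conf hμ hee hm hg' hf hK hKm h
  rw [pvll_fzI_eq hf h1, pvll_fzI_eq hf h, e]

/-- **the base datum `Z` of `Σ_out`** -/
theorem pvzj_huO_conf (hμ : 0 < μ) (hee : Conf.restr (Wn ×ˢ univ) η = Conf.restr (Wn ×ˢ univ) η') (hm : PvtrMesh μ Wn (cfSites η)) (hg' : DelGood (cfSites η')) (hf : ‖p.fr‖ = 1)
    (hK : closedBall p.z (p.ty.b * p.h) ⊆ pvtrCore (3 * μ) Wn) {𝔖 : PvwSt (pvieT η)} (hKp : ∀ i, i ≤ 𝔖.np → pviePos η ((pvieT η).src (𝔖.ep i)) ∈ pvtrCore (3 * μ) Wn) (h : PvilOut N b p η 𝔖) (δ r : ℝ) :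
    pvilHuO δ r N b p η' = pvilHuO δ r N b p η := by
  obtain ⟨𝔖₁, h1, -, e⟩ := pvzj_out_conf hμ hee hm hg' hf hK hKp h
  rw [pvll_huO_eq hf h1, pvll_huO_eq hf h, e]

/-- **the base datum `Z` of `Σ_in`** -/
theorem pvzj_huI_conf (hμ : 0 < μ) (hee : Conf.restr (Wn ×ˢ univ) η = Conf.restr (Wn ×ˢ univ) η') (hm : PvtrMesh μ Wn (cfSites η)) (hg' : DelGood (cfSites η')) (hf : ‖p.fr‖ = 1)
    (hK : closedBall p.z (p.ty.b * p.h) ⊆ pvtrCore (3 * μ) Wn) {𝔖 : PvwSt (pvieT η)} (hKm : ∀ i, i ≤ 𝔖.nm → pviePos η ((pvieT η).src (𝔖.em i)) ∈ pvtrCore (3 * μ) Wn) (h : PvilIn N b p η 𝔖) (δ r : ℝ) :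
    pvilHuI δ r N b p η' = pvilHuI δ r N b p η := by
  obtain ⟨𝔖₁, h1, -, e⟩ := pvzj_in_conf hμ hee hm hg' hf hK hKm h
  rw [pvll_huI_eq hf h1, pvll_huI_eq hf h, e]

end marked

/-! ## 4. any weight, the shape of the plain events -/

section shape

variable {N : PvwNum} {b : Bool} {L : PvilLk} {μ : ℝ} {Wn : Set ℂ} {η η' : Conf PvPt}

/-- **a weight read on the plane map**: two darts related by a positioned local isomorphism carry the same weight -/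
def PvzjWtL (w : ∀ η : Conf PvPt, (delbPl (pvieY η)).Dart → ℂ) : Prop :=
  ∀ (η η' : Conf PvPt) (R : (delbPl (pvieY η)).Dart → (delbPl (pvieY η')).Dart → Prop) (K : Set ℂ), PvLocP (pvieT η) (pvieT η') R (pviePos η) (pviePos η') K → ∀ d d', R d d' → w η d = w η' d'

theorem pvzj_wtL_Q : PvzjWtL pvilQ := fun _ _ _ _ Lc _ _ h => pvlw_qpart Lc h
theorem pvzj_wtL_V : PvzjWtL pvilV := fun _ _ _ _ Lc _ _ h => pvlw_side Lc h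

/-- the link succeeds with its feet in `K` -/
def pvzjFt (N : PvwNum) (b : Bool) (L : PvilLk) (K : Set ℂ) : Set (Conf PvPt) :=
  {η | ∃ (𝔖 𝔖' : PvwSt (pvieT η)) (y : (pvieT η).Pth), L.Arc N b η 𝔖 𝔖' y ∧ PvllFtP L K (pvieT η) (pviePos η) 𝔖 ∧ PvllFtP' L K (pvieT η) (pviePos η) 𝔖'}

theorem pvzj_eqns_citeG : True := by
  have := @PvzjWtL.eq_1; have := @pvzjFt.eq_1
  trivial

theorem pvzj_ft_sub (N : PvwNum) (b : Bool) (L : PvilLk) (K : Set ℂ) : pvzjFt N b L K ⊆ L.A N b := fun _ ⟨a, a', y, h, _⟩ => ⟨a, a', y, h⟩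

/-- `pvzj_X_tr` for any weight read on the plane map -/
theorem pvzj_X_trW {w : ∀ η : Conf PvPt, (delbPl (pvieY η)).Dart → ℂ} (hw : PvzjWtL w) (hμ : 0 < μ) (hee : Conf.restr (Wn ×ˢ univ) η = Conf.restr (Wn ×ˢ univ) η') (hm : PvtrMesh μ Wn (cfSites η)) (hu : PvllUq L) (hg' : η' ∈ pvllGd L)
    (hY : L.Yin ⊆ pvtrCore (3 * μ) Wn) {𝔖 𝔖' : PvwSt (pvieT η)} {y : (pvieT η).Pth} (ha : L.Arc N b η 𝔖 𝔖' y) (hft : PvllFtP L (pvtrCore (3 * μ) Wn) (pvieT η) (pviePos η) 𝔖)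
    (hft' : PvllFtP' L (pvtrCore (3 * μ) Wn) (pvieT η) (pviePos η) 𝔖') : η' ∈ L.A N b ∧ L.X N b w η' = L.X N b w η := by
  have Lc := pvzj_conf_locP hμ hee hm hg'.1 ha hft
  obtain ⟨a1, a2, a3, hA1, -, -, -, hv1⟩ := pvzj_arc_conf hμ hee hm hg' hY ha hft hft' (w := w η) (w' := w η') fun d d' h => hw _ _ _ _ Lc d d' h
  exact ⟨⟨a1, a2, a3, hA1⟩, by rw [pvll_X_eq hu hA1, pvll_X_eq hu ha, hv1]⟩

/-- the guard of a link holds on its success -/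
theorem pvzj_gd_of_arc {𝔖 𝔖' : PvwSt (pvieT η)} {y : (pvieT η).Pth} (ha : L.Arc N b η 𝔖 𝔖' y) : η ∈ pvllGd L := (pvll_arc_iff.1 ha).1

/-- **TWO DOORS** (`pvilMr`) -/
theorem pvzj_M_dd {w : ∀ η : Conf PvPt, (delbPl (pvieY η)).Dart → ℂ} (hw : PvzjWtL w) (hμ : 0 < μ) (hu : PvllUq L) (hY : L.Yin ⊆ pvtrCore (3 * μ) Wn)
    (hE : L.dr = true → pvkdAt L.p.z L.p.fr (pvkdP L.p.h).Ew ⊆ Wn) (hE' : L.dr' = true → pvkdAt L.p'.z L.p'.fr (pvkdP L.p'.h).Ew ⊆ Wn)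
    (hn' : PvatNice (cfSites η')) (hee : Conf.restr (Wn ×ˢ univ) η = Conf.restr (Wn ×ˢ univ) η') (hm : PvtrMesh μ Wn (cfSites η)) (h : η ∈ pvzjFt N b L (pvtrCore (3 * μ) Wn)) :
    η' ∈ L.A N b ∩ {η | PvtrMesh μ Wn (cfSites η)} ∧ L.X N b w η' = L.X N b w η := by
  obtain ⟨𝔖, 𝔖', y, ha, hft, hft'⟩ := h
  obtain ⟨h1, h2⟩ := pvzj_X_trW hw hμ hee hm hu (pvzj_gd_conf hee hn' hE hE' (pvzj_gd_of_arc ha)) hY ha hft hft'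
  exact ⟨⟨h1, pvzj_mesh_conf hee subset_rfl hm⟩, h2⟩

/-- **MARKED EXIT END** (`pvilMo`): the plain event with the hull prescribed and the mesh of the window -/
theorem pvzj_M_out {w : ∀ η : Conf PvPt, (delbPl (pvieY η)).Dart → ℂ} (hw : PvzjWtL w) (hμ : 0 < μ) (hu : PvllUq L) (hY : L.Yin ⊆ pvtrCore (3 * μ) Wn) (hd : L.dr = false)
    (hE' : L.dr' = true → pvkdAt L.p'.z L.p'.fr (pvkdP L.p'.h).Ew ⊆ Wn) (δ r : ℝ) (Z : Set (ℤ × ℤ))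
    (hn' : PvatNice (cfSites η')) (hee : Conf.restr (Wn ×ˢ univ) η = Conf.restr (Wn ×ˢ univ) η') (hZ : pvilHuO δ r N b L.p η = Z) (hm : PvtrMesh μ Wn (cfSites η)) (h : η ∈ pvzjFt N b L (pvtrCore (3 * μ) Wn)) :
    η' ∈ L.A N b ∩ {η | pvilHuO δ r N b L.p η = Z} ∩ {η | PvtrMesh μ Wn (cfSites η)} ∧ L.X N b w η' = L.X N b w η := by
  obtain ⟨⟨h1, h2⟩, h3⟩ := pvzj_M_dd hw hμ hu hY (fun e => by rw [hd] at e; exact absurd e Bool.false_ne_true) hE' hn' hee hm h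
  obtain ⟨𝔖, 𝔖', y, ha, hft, -⟩ := h
  unfold PvllFtP at hft
  simp only [hd, Bool.false_eq_true, if_false] at hft
  exact ⟨⟨⟨h1, (pvzj_huO_conf hμ hee hm hn'.good hft.1 hft.2.1 hft.2.2 ((PvilLk.atP_pin hd N b η 𝔖).1 ha.at_p) δ r).trans hZ⟩, h2⟩, h3⟩

/-- **MARKED ENTRANCE END** (`pvilMi`, `pvilMe`) -/
theorem pvzj_M_in {w : ∀ η : Conf PvPt, (delbPl (pvieY η)).Dart → ℂ} (hw : PvzjWtL w) (hμ : 0 < μ) (hu : PvllUq L) (hY : L.Yin ⊆ pvtrCore (3 * μ) Wn) (hd' : L.dr' = false)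
    (hE : L.dr = true → pvkdAt L.p.z L.p.fr (pvkdP L.p.h).Ew ⊆ Wn) (δ r : ℝ) (Z : Set (ℤ × ℤ))
    (hn' : PvatNice (cfSites η')) (hee : Conf.restr (Wn ×ˢ univ) η = Conf.restr (Wn ×ˢ univ) η') (hZ : pvilHuI δ r N b L.p' η = Z) (hm : PvtrMesh μ Wn (cfSites η)) (h : η ∈ pvzjFt N b L (pvtrCore (3 * μ) Wn)) :
    η' ∈ L.A N b ∩ {η | pvilHuI δ r N b L.p' η = Z} ∩ {η | PvtrMesh μ Wn (cfSites η)} ∧ L.X N b w η' = L.X N b w η := by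
  obtain ⟨⟨h1, h2⟩, h3⟩ := pvzj_M_dd hw hμ hu hY hE (fun e => by rw [hd'] at e; exact absurd e Bool.false_ne_true) hn' hee hm h
  obtain ⟨𝔖, 𝔖', y, ha, -, hft⟩ := h
  unfold PvllFtP' at hft
  simp only [hd', Bool.false_eq_true, if_false] at hft
  exact ⟨⟨⟨h1, (pvzj_huI_conf hμ hee hm hn'.good hft.1 hft.2.1 hft.2.2 ((PvilLk.atP'_pin hd' N b η 𝔖').1 ha.at_p') δ r).trans hZ⟩, h2⟩, h3⟩

end shape

/-! ## 5. at the model -/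

section model

variable {τ : Type} {c : ℝ} (𝔓 : PvxPar τ c) (𝔈 : PvieEng τ) {w : ∀ η : Conf PvPt, (delbPl (pvieY η)).Dart → ℂ}

/-- **`hloc` of the first link** -/
theorem pvzj_Mo_loc (hw : PvzjWtL w) (m : ℕ) (ε : ℝ) (z : ℂ) (t : τ) (Z : Set (ℤ × ℤ)) (hμ : 0 < pvilMu 𝔓 m) (hu : PvllUq (pvilLo 𝔓 𝔈 m z t))
    (hY : pvieSh z (𝔈.oY m t) ⊆ pvtrCore (3 * pvilMu 𝔓 m) (pvilWno 𝔓 𝔈 m ε z t Z))
    (hE : pvkdAt (pvieZo 𝔓 m z t) ((𝔓.Γ m).dout t) (pvkdP (pvilRd 𝔓 m)).Ew ⊆ pvilWno 𝔓 𝔈 m ε z t Z) (η η' : Conf PvPt) (_hn : PvatNice (cfSites η)) (hn' : PvatNice (cfSites η'))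
    (h : η ∈ pvilMo 𝔓 𝔈 m ε z t Z ∩ pvzjFt 𝔓.num (𝔓.col t) (pvilLo 𝔓 𝔈 m z t) (pvtrCore (3 * pvilMu 𝔓 m) (pvilWno 𝔓 𝔈 m ε z t Z)))
    (hee : Conf.restr (pvilWno 𝔓 𝔈 m ε z t Z ×ˢ univ) η = Conf.restr (pvilWno 𝔓 𝔈 m ε z t Z ×ˢ univ) η') :
    η' ∈ pvilMo 𝔓 𝔈 m ε z t Z ∧ (pvilLo 𝔓 𝔈 m z t).X 𝔓.num (𝔓.col t) w η' = (pvilLo 𝔓 𝔈 m z t).X 𝔓.num (𝔓.col t) w η :=
  pvzj_M_out (L := pvilLo 𝔓 𝔈 m z t) hw hμ hu hY rfl (fun _ => hE) _ _ Z hn' hee h.1.1.2 h.1.2 h.2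

/-- **`hloc` of the last link** -/
theorem pvzj_Mi_loc (hw : PvzjWtL w) (m : ℕ) (ε : ℝ) (z : ℂ) (t : τ) (Z : Set (ℤ × ℤ)) (hμ : 0 < pvilMu 𝔓 m) (hu : PvllUq (pvilLi 𝔓 𝔈 m z t))
    (hY : pvieSh z (𝔈.iY m t) ⊆ pvtrCore (3 * pvilMu 𝔓 m) (pvilWni 𝔓 𝔈 m ε z t Z))
    (hE : pvkdAt (pvieZi 𝔓 m z t) ((𝔓.Γ m).din t) (pvkdP (pvilRd 𝔓 m)).Ew ⊆ pvilWni 𝔓 𝔈 m ε z t Z) (η η' : Conf PvPt) (_hn : PvatNice (cfSites η)) (hn' : PvatNice (cfSites η'))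
    (h : η ∈ pvilMi 𝔓 𝔈 m ε z t Z ∩ pvzjFt 𝔓.num (𝔓.col t) (pvilLi 𝔓 𝔈 m z t) (pvtrCore (3 * pvilMu 𝔓 m) (pvilWni 𝔓 𝔈 m ε z t Z)))
    (hee : Conf.restr (pvilWni 𝔓 𝔈 m ε z t Z ×ˢ univ) η = Conf.restr (pvilWni 𝔓 𝔈 m ε z t Z ×ˢ univ) η') :
    η' ∈ pvilMi 𝔓 𝔈 m ε z t Z ∧ (pvilLi 𝔓 𝔈 m z t).X 𝔓.num (𝔓.col t) w η' = (pvilLi 𝔓 𝔈 m z t).X 𝔓.num (𝔓.col t) w η :=
  pvzj_M_in (L := pvilLi 𝔓 𝔈 m z t) hw hμ hu hY rfl (fun _ => hE) _ _ Z hn' hee h.1.1.2 h.1.2 h.2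

/-- **`hloc` of the thick link** -/
theorem pvzj_Me_loc (hw : PvzjWtL w) (m : ℕ) (z : ℂ) (t : τ) (Z : Set (ℤ × ℤ)) (hμ : 0 < pvilMu 𝔓 m) (hu : PvllUq (pvilLe 𝔓 𝔈 m z t))
    (hY : pvieSh z (𝔈.eY m t) ⊆ pvtrCore (3 * pvilMu 𝔓 m) (pvilWne 𝔓 𝔈 m z t Z))
    (hE : pvkdAt (pvieZu 𝔓 m z t) 1 (pvkdP (pvilRu 𝔈 m)).Ew ⊆ pvilWne 𝔓 𝔈 m z t Z) (η η' : Conf PvPt) (_hn : PvatNice (cfSites η)) (hn' : PvatNice (cfSites η'))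
    (h : η ∈ pvilMe 𝔓 𝔈 m z t Z ∩ pvzjFt 𝔓.num (𝔓.col t) (pvilLe 𝔓 𝔈 m z t) (pvtrCore (3 * pvilMu 𝔓 m) (pvilWne 𝔓 𝔈 m z t Z)))
    (hee : Conf.restr (pvilWne 𝔓 𝔈 m z t Z ×ˢ univ) η = Conf.restr (pvilWne 𝔓 𝔈 m z t Z ×ˢ univ) η') :
    η' ∈ pvilMe 𝔓 𝔈 m z t Z ∧ (pvilLe 𝔓 𝔈 m z t).X 𝔓.num (𝔓.col t) w η' = (pvilLe 𝔓 𝔈 m z t).X 𝔓.num (𝔓.col t) w η :=
  pvzj_M_in (L := pvilLe 𝔓 𝔈 m z t) hw hμ hu hY rfl (fun _ => hE) _ _ Z hn' hee h.1.1.2 h.1.2 h.2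

/-- **`hloc` of the link into the reference plug** -/
theorem pvzj_Mr_loc (hw : PvzjWtL w) (m : ℕ) (ε : ℝ) (hμ : 0 < pvilMu 𝔓 m) (hu : PvllUq (pvilLr 𝔓 𝔈 m))
    (hY : 𝔈.rY m ⊆ pvtrCore (3 * pvilMu 𝔓 m) (pvilWnr 𝔓 𝔈 m ε))
    (hE : pvkdAt (𝔓.Γ m).pin0 (𝔓.Γ m).din0 (pvkdP (pvilRd 𝔓 m)).Ew ⊆ pvilWnr 𝔓 𝔈 m ε) (hE' : pvkdAt 0 1 (pvkdP (pvilRu 𝔈 m)).Ew ⊆ pvilWnr 𝔓 𝔈 m ε) (η η' : Conf PvPt) (_hn : PvatNice (cfSites η)) (hn' : PvatNice (cfSites η'))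
    (h : η ∈ pvilMr 𝔓 𝔈 m ε ∩ pvzjFt 𝔓.num true (pvilLr 𝔓 𝔈 m) (pvtrCore (3 * pvilMu 𝔓 m) (pvilWnr 𝔓 𝔈 m ε)))
    (hee : Conf.restr (pvilWnr 𝔓 𝔈 m ε ×ˢ univ) η = Conf.restr (pvilWnr 𝔓 𝔈 m ε ×ˢ univ) η') :
    η' ∈ pvilMr 𝔓 𝔈 m ε ∧ (pvilLr 𝔓 𝔈 m).X 𝔓.num true w η' = (pvilLr 𝔓 𝔈 m).X 𝔓.num true w η :=
  pvzj_M_dd (L := pvilLr 𝔓 𝔈 m) hw hμ hu hY (fun _ => hE) (fun _ => hE') hn' hee h.1.2 h.2

end model

end Claimed.Agent.R289
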