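-- KEEP
import Claimed.Agent.R289.Tr.FrcDetL
import Claimed.Agent.R289.Tr.HookGI
import Claimed.Agent.R289.Tr.LinkDetB
import Claimed.Agent.R289.Tr.PlugClose
import Claimed.Agent.R289.Exit.FrcR

/-!
# Row 289 (S0537), THE WALL, ROAD E, E10, file Tr/HookR : **DET OF A LINK DOOR → DOOR** (the r-link `door n → reference plug`: two kit plugs, one tile, no half state)      (helper257, post of 24 id 94502; planar prover of 233; prefix `pvlr_`, `Pvlr`)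

DETERMINISTIC, ONE CONFIGURATION (ev) / TWO CONFIGURATIONS EQUAL ON THE WINDOW (val).      Tools, all 0 sorry: `pvdt_det` (294, `Tr/FrcDetL`), `pvhg_il_A` (90, `Tr/HookGI`), `pvzj_X_tr` (231, `Tr/LinkDetB`), `pvkx_uniq` (`Tr/PlugClose`).
* sec. 1  **`PvlrLay L μ Wn 𝔮 𝔮' KE δ Lw`** = ALL THAT DET OWES TO THE REGIONS (no configuration): `L` door → door, `𝔮 𝔮'` = the two plugs with truncated lanes (same gates of record), `PvdtLay` of 294 at `(ρ, E) := (μ, Wn)`, `KE ⊆ L.Yin`,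
          `L.Yin ⊆ core (3μ) Wn`, the two plug discs in the core, the two plug windows in the window.
* sec. 2  **`pvlr_arc`** (gates of record + four graph half lanes + two nets + mesh ⟹ `L.Arc` at the door states), **`pvlr_A`** (`𝔮.H`-form: what the dictionary of 174 gives), `pvlr_ft`, `pvlr_ft'`, `pvlr_uq`
* sec. 3  **`pvlr_val`** : two configurations equal on the window, the first one in `L.A` with the mesh ⟹ the second one in `L.A`, same `X_Q`, same `X_V`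
* sec. 4  AT THE r-LINK: **`pvlr_ev_r`** (`η ∈ pvilMr 𝔓 𝔈 m ε`), **`pvlr_val_r`**
* sec. 5  THE TWO FIELDS [DET] OF `Pvr2Ok` OF 233 (`Exit/FrcR`), VERBATIM: `PvlrDic 𝔓 𝔈 m ε X 𝔮 𝔮'` = the dictionary of the data `X : Pvr2Dat` (plain plugs ⟹ guards `N`; side events ⟹ graph half lanes `𝔮.H`; meshes of the pieces ⟹ mesh of the window = THE SEAM (b6));
          **`pvlr_ok_ev`**, **`pvlr_ok_val_Q`**, **`pvlr_ok_val_V`** : `PvlrLay` + `PvlrDic`, eventually in `ε` ⟹ the fields `ev`, `val`.      WHAT IS LEFT FOR THE INSTANCE (262, `Exit/FrcRI`): `PvlrLay` (regions, walks) and `PvlrDic` (174 227 31: dictionary placed and scaled; 206 256: seam).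
-/

set_option autoImplicit false
set_option linter.unusedSectionVars false
set_option linter.unusedVariables false

namespace Claimed.Agent.R289

open Set Metric

/-! ## 1. what the regions owe -/

/-- **THE REGIONS OF A LINK DOOR → DOOR**: `μ` = mesh, `Wn` = window, `𝔮 𝔮'` = the plugs with the lanes of the side events, `KE` = room of the run, `δ`, `Lw β` = the two nets -/
structure PvlrLay (L : PvilLk) (μ : ℝ) (Wn : Set ℂ) (𝔮 𝔮' : PvkdPlug) (KE : Set ℂ) (δ : ℝ) (Lw : Bool → List (ℤ × ℤ)) : Prop where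
  dr : L.dr = true
  dr' : L.dr' = true
  h0 : 0 < L.p.h
  h0' : 0 < L.p'.h
  fr : L.p.fr ≠ 0
  fr' : L.p'.fr ≠ 0
  /-- the truncated plugs have the gates of record -/
  pg : 𝔮.pg L.p.z L.p.fr = (pvkdP L.p.h).pg L.p.z L.p.fr
  pg' : 𝔮'.pg L.p'.z L.p'.fr = (pvkdP L.p'.h).pg L.p'.z L.p'.fr
  /-- the layout of 294 -/
  lay : PvdtLay μ Wn ((pvkdP L.p.h).pg L.p.z L.p.fr) ((pvkdP L.p'.h).pg L.p'.z L.p'.fr) KE δ Lw (fun β => pvkdAt L.p.z L.p.fr (𝔮.Ln true β)) (fun β => pvkdAt L.p'.z L.p'.fr (𝔮'.Ln false β))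
    (fun β => pvkdAt L.p.z L.p.fr (𝔮.Dr true β)) (fun β => pvkdAt L.p'.z L.p'.fr (𝔮'.Dr false β))
  /-- the room of the run lies in the room of the link -/
  room : KE ⊆ L.Yin
  /-- (Rc) the room of the link lies deep in the window -/
  core : L.Yin ⊆ pvtrCore (3 * μ) Wn
  /-- the two plugs lie deep in the window -/
  ft : ((pvkdP L.p.h).pg L.p.z L.p.fr).Sub (pvtrCore (3 * μ) Wn) ∧ closedBall L.p.z (pvkdP L.p.h).b ⊆ pvtrCore (3 * μ) Wn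
  ft' : ((pvkdP L.p'.h).pg L.p'.z L.p'.fr).Sub (pvtrCore (3 * μ) Wn) ∧ closedBall L.p'.z (pvkdP L.p'.h).b ⊆ pvtrCore (3 * μ) Wn
  /-- the windows of the meshes of the two plugs -/
  Ew : pvkdAt L.p.z L.p.fr (pvkdP L.p.h).Ew ⊆ Wn
  Ew' : pvkdAt L.p'.z L.p'.fr (pvkdP L.p'.h).Ew ⊆ Wn

section lay

variable {L : PvilLk} {μ : ℝ} {Wn : Set ℂ} {𝔮 𝔮' : PvkdPlug} {KE : Set ℂ} {δ : ℝ} {Lw : Bool → List (ℤ × ℤ)} {N : PvwNum} {η η' : Conf PvPt}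

theorem pvlr_uq (Λ : PvlrLay L μ Wn 𝔮 𝔮' KE δ Lw) : PvllUq L := by
  unfold PvllUq
  rw [Λ.dr, Λ.dr']
  exact ⟨pvll_pg_disj Λ.h0 _ Λ.fr, pvll_pg_disj Λ.h0' _ Λ.fr'⟩

theorem pvlr_ft (Λ : PvlrLay L μ Wn 𝔮 𝔮' KE δ Lw) (𝔖 : PvwSt (pvieT η)) : PvllFtP L (pvtrCore (3 * μ) Wn) (pvieT η) (pviePos η) 𝔖 := by
  unfold PvllFtP
  rw [Λ.dr]
  exact Λ.ft

theorem pvlr_ft' (Λ : PvlrLay L μ Wn 𝔮 𝔮' KE δ Lw) (𝔖 : PvwSt (pvieT η)) : PvllFtP' L (pvtrCore (3 * μ) Wn) (pvieT η) (pviePos η) 𝔖 := by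
  unfold PvllFtP'
  rw [Λ.dr']
  exact Λ.ft'

/-! ## 2. ev -/

/-- **(ev), gates of record**: two plain plugs, four graph half lanes, two nets, the mesh of the window ⟹ plain success -/
theorem pvlr_A_gate (Λ : PvlrLay L μ Wn 𝔮 𝔮' KE δ Lw) (hn : CfOK η) (hm : PvtrMesh μ Wn (cfSites η)) (hnet : ∀ β, η ∈ pvlnLaneEv δ β (Lw β))
    (hN : η ∈ (pvkdP L.p.h).N L.p.z L.p.fr) (hN' : η ∈ (pvkdP L.p'.h).N L.p'.z L.p'.fr)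
    {g g' : (pvkiT η).Gate (pvkiS η)} (hg : PvkdGate (pvkdP L.p.h) η L.p.z L.p.fr g) (hg' : PvkdGate (pvkdP L.p'.h) η L.p'.z L.p'.fr g')
    (lane : ∀ β, ∃ v : ↥(cfSites η), (v : ℂ) ∈ pvkdAt L.p.z L.p.fr (𝔮.Dr true β) ∧ (pvkiT η).Join univ (pvldCol (pvkiS η) {u | (u : ℂ) ∈ pvkdAt L.p.z L.p.fr (𝔮.Ln true β)} β) (pvkdFoot g true β) v)
    (lane' : ∀ β, ∃ v : ↥(cfSites η), (v : ℂ) ∈ pvkdAt L.p'.z L.p'.fr (𝔮'.Dr false β) ∧ (pvkiT η).Join univ (pvldCol (pvkiS η) {u | (u : ℂ) ∈ pvkdAt L.p'.z L.p'.fr (𝔮'.Ln false β)} β) (pvkdFoot g' false β) v) :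
    η ∈ L.A N true := by
  obtain ⟨n, hrun⟩ := pvdt_det hn hm Λ.lay hnet hg hg' lane lane'
  have hd : PvilDoor (pvkdP L.p.h) true η L.p.z L.p.fr (pvkdSt (pvkdP L.p.h) η L.p.z g) := (pvil_door_true _ _ _ _ _).2 ⟨hN, g, hg, rfl⟩
  have hd' : PvilDoor (pvkdP L.p'.h) true η L.p'.z L.p'.fr (pvkdSt (pvkdP L.p'.h) η L.p'.z g') := (pvil_door_true _ _ _ _ _).2 ⟨hN', g', hg', rfl⟩
  have hne : (pvkdSt (pvkdP L.p'.h) η L.p'.z g').gm ≠ (pvkdSt (pvkdP L.p.h) η L.p.z g).gp := by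
    show (pvkiT η).src g'.aIn ≠ (pvkiT η).src g.aOut
    rw [pvtg_aOut_src, pvtg_aIn_src]
    intro e
    have vpO : ((g.vp : ↥(cfSites η)) : ℂ) ∈ ((pvkdP L.p.h).pg L.p.z L.p.fr).KO := hg.least.reg.rim g.m
    have vmO' : ((g'.vm : ↥(cfSites η)) : ℂ) ∈ ((pvkdP L.p'.h).pg L.p'.z L.p'.fr).KO := hg'.least.reg.rim 0
    rw [e] at vmO'
    exact disjoint_left.1 Λ.lay.geo.far vpO vmO'
  have hr : PvldRun (pvieT η) (pvieCol η true) (pvzlKS (pvkiT η) Subtype.val KE g g') g.aOut g'.aIn := by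
    rw [pvkk_col]
    exact hrun.run
  refine pvhg_il_A (K := pvzlKS (pvkiT η) Subtype.val KE g g') ((PvilLk.atP_door Λ.dr _ _ _ _).2 hd) ((PvilLk.atP'_door Λ.dr' _ _ _ _).2 hd') (pvhg_door_bkP hd hne) (fun e => by rw [Λ.dr'] at e; cases e)
    (fun v hv => Λ.room hv.1) hr

/-- the rooms of `g⁻`, `g⁺` of the plug of record are disjoint -/
theorem pvlr_zz {r : ℝ} (hr : 0 < r) : Disjoint (pvkdP r).Zm (pvkdP r).Zp := by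
  rw [Set.disjoint_left]
  intro a ha ha'
  have h1 : a.re ≤ -(r / 2) := ha.2.1
  have h2 : r / 2 ≤ a.re := ha'.1
  linarith

/-- **(ev), `H`-FORM** (what the dictionary of 174 gives): the two plain plugs, the two exit half lanes of the first one, the two entrance half lanes of the second one, the two nets, the mesh of the window ⟹ plain success -/
theorem pvlr_A (Λ : PvlrLay L μ Wn 𝔮 𝔮' KE δ Lw) (hn : CfOK η) (hm : PvtrMesh μ Wn (cfSites η)) (hnet : ∀ β, η ∈ pvlnLaneEv δ β (Lw β))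
    (hN : η ∈ (pvkdP L.p.h).N L.p.z L.p.fr) (hN' : η ∈ (pvkdP L.p'.h).N L.p'.z L.p'.fr)
    (hH : ∀ β, η ∈ 𝔮.H L.p.z L.p.fr true β) (hH' : ∀ β, η ∈ 𝔮'.H L.p'.z L.p'.fr false β) : η ∈ L.A N true := by
  have nice : PvatNice (cfSites η) := hN.1
  obtain ⟨-, g, hg, v, hv, hj⟩ := hH true
  obtain ⟨-, g₂, hg₂, w, hw, hjw⟩ := hH false
  obtain ⟨-, g', hg', v', hv', hj'⟩ := hH' true
  obtain ⟨-, g₂', hg₂', w', hw', hjw'⟩ := hH' false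
  have cg : ∀ γ : (pvkiT η).Gate (pvkiS η), PvkdGate 𝔮 η L.p.z L.p.fr γ → PvkdGate (pvkdP L.p.h) η L.p.z L.p.fr γ := by
    intro γ h
    unfold PvkdGate at h ⊢
    rw [← Λ.pg]
    exact h
  have cg' : ∀ γ : (pvkiT η).Gate (pvkiS η), PvkdGate 𝔮' η L.p'.z L.p'.fr γ → PvkdGate (pvkdP L.p'.h) η L.p'.z L.p'.fr γ := by
    intro γ h
    unfold PvkdGate at h ⊢
    rw [← Λ.pg']
    exact h
  obtain rfl := pvkx_uniq nice (pvlr_zz Λ.h0) (cg _ hg) (cg _ hg₂)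
  obtain rfl := pvkx_uniq nice (pvlr_zz Λ.h0') (cg' _ hg') (cg' _ hg₂')
  refine pvlr_A_gate Λ hn hm hnet hN hN' (cg _ hg) (cg' _ hg') (fun β => ?_) (fun β => ?_)
  · cases β
    · exact ⟨w, hw, hjw⟩
    · exact ⟨v, hv, hj⟩
  · cases β
    · exact ⟨w', hw', hjw'⟩
    · exact ⟨v', hv', hj'⟩

/-! ## 3. val -/

/-- **(val)**: two configurations equal on the window; the first one has the mesh and plain success, the second one is nice ⟹ plain success of the second one, the same plain values -/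
theorem pvlr_val (Λ : PvlrLay L μ Wn 𝔮 𝔮' KE δ Lw) {b : Bool} (hee : Conf.restr (Wn ×ˢ univ) η = Conf.restr (Wn ×ˢ univ) η') (hm : PvtrMesh μ Wn (cfSites η)) (hn' : PvatNice (cfSites η'))
    (hA : η ∈ L.A N b) : η' ∈ L.A N b ∧ L.X N b pvilQ η' = L.X N b pvilQ η ∧ L.X N b pvilV η' = L.X N b pvilV η := by
  obtain ⟨𝔖, 𝔖', y, ha⟩ := hA
  have hg : η ∈ pvllGd L := (pvll_arc_iff.1 ha).1
  have hg' : η' ∈ pvllGd L := pvzj_gd_conf hee hn' (fun _ => Λ.Ew) (fun _ => Λ.Ew') hg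
  exact pvzj_X_tr Λ.lay.ρ_pos hee hm (pvlr_uq Λ) hg' Λ.core ha (pvlr_ft Λ 𝔖) (pvlr_ft' Λ 𝔖')

end lay

/-! ## 4. at the r-link, in the shape of the contract `Pvr2Ok` of 233 (`Exit/FrcR`) -/

section rlink

variable {τ : Type} {c : ℝ} {𝔓 : PvxPar τ c} {𝔈 : PvieEng τ} {m : ℕ} {ε : ℝ} {𝔮 𝔮' : PvkdPlug} {KE : Set ℂ} {δ : ℝ} {Lw : Bool → List (ℤ × ℤ)} {η η' : Conf PvPt}

/-- **[DET] `ev` OF THE r-LINK** -/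
theorem pvlr_ev_r (Λ : PvlrLay (pvilLr 𝔓 𝔈 m) (pvilMu 𝔓 m) (pvilWnr 𝔓 𝔈 m ε) 𝔮 𝔮' KE δ Lw) (hn : CfOK η) (hm : PvtrMesh (pvilMu 𝔓 m) (pvilWnr 𝔓 𝔈 m ε) (cfSites η))
    (hnet : ∀ β, η ∈ pvlnLaneEv δ β (Lw β)) (hN : η ∈ (pvkdP (pvilRd 𝔓 m)).N (𝔓.Γ m).pin0 (𝔓.Γ m).din0) (hN' : η ∈ (pvkdP (pvilRu 𝔈 m)).N 0 1)
    (hH : ∀ β, η ∈ 𝔮.H (𝔓.Γ m).pin0 (𝔓.Γ m).din0 true β) (hH' : ∀ β, η ∈ 𝔮'.H 0 1 false β) : η ∈ pvilMr 𝔓 𝔈 m ε :=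
  ⟨pvlr_A Λ hn hm hnet hN hN' hH hH', hm⟩

/-- **[DET] `val` OF THE r-LINK**, both weights -/
theorem pvlr_val_r (Λ : PvlrLay (pvilLr 𝔓 𝔈 m) (pvilMu 𝔓 m) (pvilWnr 𝔓 𝔈 m ε) 𝔮 𝔮' KE δ Lw) (hee : Conf.restr (pvilWnr 𝔓 𝔈 m ε ×ˢ univ) η = Conf.restr (pvilWnr 𝔓 𝔈 m ε ×ˢ univ) η')
    (hM : η ∈ pvilMr 𝔓 𝔈 m ε) (hn' : PvatNice (cfSites η')) :
    (pvilLr 𝔓 𝔈 m).X 𝔓.num true pvilQ η = (pvilLr 𝔓 𝔈 m).X 𝔓.num true pvilQ η' ∧ (pvilLr 𝔓 𝔈 m).X 𝔓.num true pvilV η = (pvilLr 𝔓 𝔈 m).X 𝔓.num true pvilV η' := by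
  obtain ⟨-, h1, h2⟩ := pvlr_val Λ hee hM.2 hn' hM.1
  exact ⟨h1.symm, h2.symm⟩

end rlink

/-! ## 5. the two fields [DET] of `Pvr2Ok` -/

section contract

open Filter Topology

variable {τ : Type} {c : ℝ} (𝔓 : PvxPar τ c) (𝔈 : PvieEng τ)

/-- the two walks of a connector, colour by colour -/
def pvlrW (X : Pvr2Dat) (β : Bool) : List (ℤ × ℤ) := cond β X.D.L₁ X.D.L₂

/-- **THE DICTIONARY OF THE DATA `X` OF 233**: from the tests (plain plugs, side events, mesh of the tile) to the graph form -/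
structure PvlrDic (m : ℕ) (ε : ℝ) (X : Pvr2Dat) (𝔮 𝔮' : PvkdPlug) : Prop where
  /-- the rim is black -/
  col : X.D.c = true
  /-- the bare success is the intersection of the four tests -/
  A : X.D.A ⊆ X.D.Lp ∩ X.D.Lm ∩ X.D.Net ∩ X.D.E
  /-- a plain plug has the guard of its kit plug -/
  C₁ : X.C₁ ⊆ (pvkdP (pvilRd 𝔓 m)).N (𝔓.Γ m).pin0 (𝔓.Γ m).din0
  C₂ : X.C₂ ⊆ (pvkdP (pvilRu 𝔈 m)).N 0 1
  /-- the side events in graph form (174; placed 251, scaled 227) -/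
  Lp : ∀ η, PvatNice (cfSites η) → η ∈ X.C₁ → η ∈ X.D.Lp → ∀ β, η ∈ 𝔮.H (𝔓.Γ m).pin0 (𝔓.Γ m).din0 true β
  Lm : ∀ η, PvatNice (cfSites η) → η ∈ X.C₂ → η ∈ X.D.Lm → ∀ β, η ∈ 𝔮'.H 0 1 false β
  /-- THE SEAM (b6) -/
  mesh : ∀ η, η ∈ X.C₁ → η ∈ X.C₂ → η ∈ X.D.E → PvtrMesh (pvilMu 𝔓 m) (pvilWnr 𝔓 𝔈 m ε) (cfSites η)

theorem pvlr_eqns_cite : True := by
  have := @pvlrW.eq_1
  trivial

variable {𝔓 𝔈} {m : ℕ} {X : Pvr2Dat} {𝔮 𝔮' : PvkdPlug} {KE : Set ℂ}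

/-- one `ε`: a final configuration has plain success and the mesh -/
theorem pvlr_fin_ev {ε : ℝ} (Λ : PvlrLay (pvilLr 𝔓 𝔈 m) (pvilMu 𝔓 m) (pvilWnr 𝔓 𝔈 m ε) 𝔮 𝔮' KE X.D.δ (pvlrW X)) (Δ : PvlrDic 𝔓 𝔈 m ε X 𝔮 𝔮') {η : Conf PvPt}
    (h1 : PvatNice (cfSites η)) (h2 : CfOK η) (h3 : η ∈ X.C₁) (h4 : η ∈ X.C₂) (h5 : η ∈ X.D.A) : η ∈ pvilMr 𝔓 𝔈 m ε := by
  obtain ⟨⟨⟨a1, a2⟩, a3⟩, a4⟩ := Δ.A h5
  refine pvlr_ev_r Λ h2 (Δ.mesh η h3 h4 a4) (fun β => ?_) (Δ.C₁ h3) (Δ.C₂ h4) (Δ.Lp η h1 h3 a1) (Δ.Lm η h1 h4 a2)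
  have b1 : η ∈ pvlnLaneEv X.D.δ X.D.c X.D.L₁ := a3.1
  have b2 : η ∈ pvlnLaneEv X.D.δ (!X.D.c) X.D.L₂ := a3.2
  rw [Δ.col] at b1 b2
  cases β
  · exact b2
  · exact b1

/-- **THE FIELD `ev` OF `Pvr2Ok`**, VERBATIM -/
theorem pvlr_ok_ev (Λ : ∀ᶠ ε in 𝓝[>] (0 : ℝ), PvlrLay (pvilLr 𝔓 𝔈 m) (pvilMu 𝔓 m) (pvilWnr 𝔓 𝔈 m ε) 𝔮 𝔮' KE X.D.δ (pvlrW X)) (Δ : ∀ᶠ ε in 𝓝[>] (0 : ℝ), PvlrDic 𝔓 𝔈 m ε X 𝔮 𝔮') :
    ∀ᶠ ε in 𝓝[>] (0 : ℝ), ∀ η, PvatNice (cfSites η) → CfOK η → η ∈ X.C₁ → η ∈ X.C₂ → η ∈ X.D.A → η ∈ pvilMr 𝔓 𝔈 m ε := by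
  filter_upwards [Λ, Δ] with ε a b η h1 h2 h3 h4 h5
  exact pvlr_fin_ev a b h1 h2 h3 h4 h5

/-- **THE FIELD `val` OF `Pvr2Ok` AT THE WEIGHT `Q`**, VERBATIM -/
theorem pvlr_ok_val_Q (Λ : ∀ᶠ ε in 𝓝[>] (0 : ℝ), PvlrLay (pvilLr 𝔓 𝔈 m) (pvilMu 𝔓 m) (pvilWnr 𝔓 𝔈 m ε) 𝔮 𝔮' KE X.D.δ (pvlrW X)) (Δ : ∀ᶠ ε in 𝓝[>] (0 : ℝ), PvlrDic 𝔓 𝔈 m ε X 𝔮 𝔮') :
    ∀ᶠ ε in 𝓝[>] (0 : ℝ), ∀ η η', PvatNice (cfSites η) → CfOK η → η ∈ X.C₁ → η ∈ X.C₂ → η ∈ X.D.A → PvatNice (cfSites η') → CfOK η' → η' ∈ X.C₁ → η' ∈ X.C₂ → η' ∈ X.D.A →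
      Conf.restr (pvilWnr 𝔓 𝔈 m ε ×ˢ (univ : Set Bool)) η = Conf.restr (pvilWnr 𝔓 𝔈 m ε ×ˢ (univ : Set Bool)) η' → (pvilLr 𝔓 𝔈 m).X 𝔓.num true pvilQ η = (pvilLr 𝔓 𝔈 m).X 𝔓.num true pvilQ η' := by
  filter_upwards [Λ, Δ] with ε a b η η' h1 h2 h3 h4 h5 k1 _ _ _ _ e
  exact (pvlr_val_r a e (pvlr_fin_ev a b h1 h2 h3 h4 h5) k1).1

/-- **THE FIELD `val` OF `Pvr2Ok` AT THE WEIGHT `V`**, VERBATIM -/
theorem pvlr_ok_val_V (Λ : ∀ᶠ ε in 𝓝[>] (0 : ℝ), PvlrLay (pvilLr 𝔓 𝔈 m) (pvilMu 𝔓 m) (pvilWnr 𝔓 𝔈 m ε) 𝔮 𝔮' KE X.D.δ (pvlrW X)) (Δ : ∀ᶠ ε in 𝓝[>] (0 : ℝ), PvlrDic 𝔓 𝔈 m ε X 𝔮 𝔮') :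
    ∀ᶠ ε in 𝓝[>] (0 : ℝ), ∀ η η', PvatNice (cfSites η) → CfOK η → η ∈ X.C₁ → η ∈ X.C₂ → η ∈ X.D.A → PvatNice (cfSites η') → CfOK η' → η' ∈ X.C₁ → η' ∈ X.C₂ → η' ∈ X.D.A →
      Conf.restr (pvilWnr 𝔓 𝔈 m ε ×ˢ (univ : Set Bool)) η = Conf.restr (pvilWnr 𝔓 𝔈 m ε ×ˢ (univ : Set Bool)) η' → (pvilLr 𝔓 𝔈 m).X 𝔓.num true pvilV η = (pvilLr 𝔓 𝔈 m).X 𝔓.num true pvilV η' := by
  filter_upwards [Λ, Δ] with ε a b η η' h1 h2 h3 h4 h5 k1 _ _ _ _ e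
  exact (pvlr_val_r a e (pvlr_fin_ev a b h1 h2 h3 h4 h5) k1).2

end contract

end Claimed.Agent.R289
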