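-- KEEP
import Claimed.Agent.R289.Tr.HookWD
import Claimed.Agent.R289.Tr.HookWE

/-!
# Row 289 (S0537, Cardy for Poisson-Voronoi), box TR, ROAD E, HOOK-DET, file Tr/HookWDE : THE CONTRACT `PvheHookW` OF THE OUTER WHITE LANE IN THE D FORM (ONE REGION, ONE PICTURE = THE DOOR NORMAL, ALL TIP CELLS)      (owner helper53; prefix `pvhw_`, `Pvhw`, names ending in `D`)

`Tr/HookWD` (ray along the door normal) + `Tr/HookWE` (junction with the pattern of record of 21 and the contract of 35).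
* `PvhwRegD`  : the hooked corridor, PURE GEOMETRY in the two pictures `ζt`, `ζs` of the doors (numbers, two doors `PvhwDoorRD`, the two ends)
* `PvhwDatD`  : what is read of the sites and of the datum besides the two stubs, AT SITE LEVEL: mesh, gates far, `fz`, `ex_t`, `ex_s`
* `PvhwRegD.fit` : region + datum + a lane ⟹ `PvhwFitD`
* `pvhw_datD_of_C` : `PvhwDatC` (hull region `H`) + (the corridor meets box ∩ `H` only in the inner mouth) ⟹ `PvhwDatD`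
* `pvhw_contractD_det`, **`pvhw_contractD`** : `PvheHookW 𝔇 π b (pvkqEv δc (!b) R x y)`
* **`pvhw_contractD_site`** : the same from `PvwDat.Ok` (stubs, gates) with `fz`, `ex_t`, `ex_s` as hypotheses on the sites of `R`
* **`pvhw_contractD_ok`**, **`pvhw_hqD`** : from `PvwDat.Ok` + `PvhwRegD` + `PvhwRegOkC` + hulls + mesh
-/

set_option autoImplicit false
set_option linter.unusedSectionVars false
set_option linter.unusedVariables false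

namespace Claimed.Agent.R289

open Metric Set Claims.C0465
open scoped ENNReal

variable {Y : Set ℂ}

/-- **THE HOOKED CORRIDOR, PURE GEOMETRY, FORM D** (no sites, no datum, no colours).   `ζt`, `ζs` = the pictures of the two doors, `R` = region of the corridor, `x`, `y` = its two ends, `η` = precision with which the ends of the lane are known. -/
structure PvhwRegD (zt zs : ℂ) (Rt Rs : ℝ) (yt ys ζt ζs : ℂ) (κ δ r r₁ r₂ η : ℝ) (R : Set ℂ) (x y : ℂ) : Prop where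
  dir_t : ζt ∈ pvtzdDir
  dir_s : ζs ∈ pvtzdDir
  adm_t : Rt + (ζt * zt).re ≤ (ζt * yt).re + (κ + 2 * δ)
  adm_s : Rs + (ζs * zs).re ≤ (ζs * ys).re + (κ + 2 * δ)
  big_t : κ + 2 * δ ≤ Rt
  big_s : κ + 2 * δ ≤ Rs
  mesh_pos : 0 < δ
  num1 : 3 * r₁ + 2 * δ ≤ r
  num2 : r₂ ≤ r₁
  num3 : 2 * (κ + 2 * δ) + 5 * δ ≤ r₁
  sep : 2 * r₂ < ‖yt - ys‖
  door_t : PvhwDoorRD ζt yt (Rt + (ζt * zt).re) (κ + 2 * δ) (2 * δ) r₂ (-1) R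
  door_s : PvhwDoorRD ζs ys (Rs + (ζs * zs).re) (κ + 2 * δ) (2 * δ) r₂ 1 R
  /-- the first end: beyond the side of the door of `t`, ABOVE the strip (black side) -/
  start : ∀ w, ‖w - x‖ < η → Rt + (ζt * zt).re < (ζt * w).re ∧ ‖w - yt‖ ≤ r₂ ∧ κ + 2 * δ < (ζt * w).im - (ζt * yt).im
  /-- the last end: beyond the side of the door of `s`, BELOW the strip (black side) -/
  stop : ∀ w, ‖w - y‖ < η → Rs + (ζs * zs).re < (ζs * w).re ∧ ‖w - ys‖ ≤ r₂ ∧ κ + 2 * δ < (ζs * ys).im - (ζs * w).im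

/-- **WHAT THE HOOK READS OF THE SITES AND OF THE DATUM** besides the two stubs, at site level -/
structure PvhwDatD {D : Type} {T : PvMap ↥Y D} (𝔇 : PvwDat T) (yt ys : ℂ) (δ r r₂ : ℝ) (R : Set ℂ) : Prop where
  mesh_t : VorDense Y (closedBall yt (r + 3 * δ)) δ
  mesh_s : VorDense Y (closedBall ys (r + 3 * δ)) δ
  far_t : r + 4 * δ ≤ ‖(T.tgt 𝔇.t.dp : ℂ) - yt‖
  far_s : r + 4 * δ ≤ ‖(T.src 𝔇.s.dm : ℂ) - ys‖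
  fz : ∀ v : Y, (v : ℂ) ∈ R → v ∈ 𝔇.fz → v ∈ 𝔇.t.bkP ∪ 𝔇.t.whP ∪ (𝔇.s.bkM ∪ 𝔇.s.whM)
  ex_t : ∀ v : Y, (v : ℂ) ∈ R → v ∈ 𝔇.t.bkP ∪ 𝔇.t.whP → ‖(v : ℂ) - yt‖ ≤ r₂
  ex_s : ∀ v : Y, (v : ℂ) ∈ R → v ∈ 𝔇.s.bkM ∪ 𝔇.s.whM → ‖(v : ℂ) - ys‖ ≤ r₂

theorem PvhwRegD.fit {D : Type} {T : PvMap ↥Y D} {𝔇 : PvwDat T} {zt zs : ℂ} {Rt Rs : ℝ} {yt ys ζt ζs : ℂ} {κ δ r r₁ r₂ η : ℝ} {R : Set ℂ} {x y : ℂ}
    (G : PvhwRegD zt zs Rt Rs yt ys ζt ζs κ δ r r₁ r₂ η R x y) (H : PvhwDatD 𝔇 yt ys δ r r₂ R)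
    {X : Set Y} (hX : ∀ v ∈ X, (v : ℂ) ∈ R) {a b : Y} (ha : ‖(a : ℂ) - x‖ < η) (hb : ‖(b : ℂ) - y‖ < η) (hj : T.Join Set.univ X a b) :
    PvhwFitD 𝔇 zt zs Rt Rs yt ys ζt ζs κ δ r r₁ r₂ X a b where
  dir_t := G.dir_t
  dir_s := G.dir_s
  adm_t := G.adm_t
  adm_s := G.adm_s
  big_t := G.big_t
  big_s := G.big_s
  mesh_pos := G.mesh_pos
  mesh_t := H.mesh_t
  mesh_s := H.mesh_s
  num1 := G.num1
  num2 := G.num2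
  num3 := G.num3
  far_t := H.far_t
  far_s := H.far_s
  sep := G.sep
  door_t := G.door_t.door (pvtzd_dir_norm G.dir_t) hX
  door_s := G.door_s.door (pvtzd_dir_norm G.dir_s) hX
  ex_t := fun v hv => H.ex_t v (hX v hv)
  ex_s := fun v hv => H.ex_s v (hX v hv)
  join := hj
  start := G.start _ ha
  stop := G.stop _ hb
  fz := fun v hv => H.fz v (hX v hv)

/-- from the hull form: the corridor meets (a box) ∩ (the hull region `H` of the frozen sites) only in the inner mouth -/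
theorem pvhw_datD_of_C {D : Type} {T : PvMap ↥Y D} {𝔇 : PvwDat T} {zt zs : ℂ} {Rt Rs : ℝ} {yt ys : ℂ} {κ δ r r₂ : ℝ} {R Hu : Set ℂ} (H : PvhwDatC 𝔇 yt ys δ r R Hu)
    (Ot : PvhwOut 𝔇 zt Rt yt κ r r₂) (Is : PvhwIn 𝔇 zs Rs ys κ r r₂) (box_t : ∀ w ∈ R, w ∈ Hu → w ∈ pvwSq zt Rt → ‖w - yt‖ ≤ r₂) (box_s : ∀ w ∈ R, w ∈ Hu → w ∈ pvwSq zs Rs → ‖w - ys‖ ≤ r₂) :
    PvhwDatD 𝔇 yt ys δ r r₂ R :=
  ⟨H.mesh_t, H.mesh_s, H.far_t, H.far_s, H.fz, fun v hv hb => box_t _ hv (H.hull v (Or.inl (pvwk_banksP_sub_fzOut 𝔇.t hb))) (pvwk_banksP_in Ot.stub hb),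
    fun v hv hb => box_s _ hv (H.hull v (Or.inr (pvwk_banksM_sub_fzIn 𝔇.s hb))) (pvwk_banksM_in Is.stub hb)⟩

section contractD

variable {zt zs : ℂ} {Rt Rs : ℝ} {yt ys ζt ζs : ℂ} {κ₀ δ r r₁ r₂ δc : ℝ} {R : Set ℂ} {x y : ℂ} {π : PvwPat} {b : Bool}

/-- **HOOK-DET FOR `WO`, MIXED COLOURING, FORM D** -/
theorem pvhw_contractD_det (h : DelGood Y) {P : PlTri ↥Y} (hP : P = delPl h) {𝔇 : PvwDat P.toMap} (hπ : π.Wf) {𝒜 : Set (Conf PvPt)} (hdet : PvkqDet δc (!b) R x y 𝒜)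
    (G : PvhwRegD zt zs Rt Rs yt ys ζt ζs κ₀ δ r r₁ r₂ (2 * δc) R x y) (H : PvhwDatD 𝔇 yt ys δ r r₂ R) (Ot : PvhwOut 𝔇 zt Rt yt κ₀ r r₂) (Is : PvhwIn 𝔇 zs Rs ys κ₀ r r₂)
    (hR : R ⊆ π.Yout) (σ κ : ℂ → Bool) (hκ : cfOf Y κ ∈ 𝒜) : 𝔇.WO Subtype.val π (pvheCol Y b (pvdmOv (Subtype.val '' 𝔇.fz)ᶜ κ σ)) := by
  subst hP
  obtain ⟨a, c, ha, hc, hj⟩ := hdet Y h κ hκ
  have F := G.fit H (X := pvkqV Y κ (!b) R) (fun v hv => hv.2) ha hc hj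
  exact PvhwFitD.WO (h := h) F Ot Is hπ (fun v hv hf => pvhw_mix_white 𝔇 b σ κ hv hf) (fun v hv _ => hR hv.2)

/-- **THE CONTRACT OF 35 FOR THE PATTERN OF RECORD OF 21, FORM D** -/
theorem pvhw_contractD (h : DelGood Y) {𝔇 : PvwDat (pvheT Y)} (hπ : π.Wf) (hc : PvkqCore δc R x y)
    (G : PvhwRegD zt zs Rt Rs yt ys ζt ζs κ₀ δ r r₁ r₂ (2 * δc) R x y) (H : PvhwDatD 𝔇 yt ys δ r r₂ R) (Ot : PvhwOut 𝔇 zt Rt yt κ₀ r r₂) (Is : PvhwIn 𝔇 zs Rs ys κ₀ r r₂)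
    (hR : R ⊆ π.Yout) : PvheHookW 𝔇 π b (pvkqEv δc (!b) R x y) :=
  fun σ κ _ hκ => pvhw_contractD_det h (delb_pl_eq h) hπ (pvkq_Ev_det hc (!b)) G H Ot Is hR σ κ hκ

end contractD

section okD

variable {N : PvwNum} {hh : ℝ} {π : PvwPat} {ζt ζs : ℂ} {δ r r₁ r₂ δc : ℝ} {R Hu : Set ℂ} {x y : ℂ} {b : Bool}

/-- the gates are far from the mouths, any presentation of the Delaunay plane -/
theorem pvhw_far_ok (h : DelGood Y) {P : PlTri ↥Y} (hP : P = delPl h) {𝔇 : PvwDat P.toMap} (hOk : 𝔇.Ok Subtype.val N hh π)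
    (gate_t : r + 4 * δ + π.tt.b * hh ≤ ‖π.tt.cp hh π.zt - π.zt‖) (gate_s : r + 4 * δ + π.ts.b * hh ≤ ‖π.ts.cm hh π.zs - π.zs‖) :
    r + 4 * δ ≤ ‖(P.toMap.tgt 𝔇.t.dp : ℂ) - π.tt.cp hh π.zt‖ ∧ r + 4 * δ ≤ ‖(P.toMap.src 𝔇.s.dm : ℂ) - π.ts.cm hh π.zs‖ := by
  subst hP
  have hT := dls_isSph h
  constructor
  · have h1 := hOk.st_t.gate.inside _ (pvwk_gate_ends hT hOk.st_t.gate).2.1
    have h2 : ‖π.tt.cp hh π.zt - π.zt‖ ≤ ‖((delMap h).tgt 𝔇.t.dp : ℂ) - π.tt.cp hh π.zt‖ + π.tt.b * hh :=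
      pvhw_tri (b := ((delMap h).tgt 𝔇.t.dp : ℂ)) (by rw [norm_sub_rev]) h1.le
    have h3 : ‖((delPl h).toMap.tgt 𝔇.t.dp : ℂ) - π.tt.cp hh π.zt‖ = ‖((delMap h).tgt 𝔇.t.dp : ℂ) - π.tt.cp hh π.zt‖ := rfl
    linarith
  · have h1 := hOk.st_s.gate.inside _ (pvwk_gate_ends hT hOk.st_s.gate).2.2.1
    have h2 : ‖π.ts.cm hh π.zs - π.zs‖ ≤ ‖((delMap h).src 𝔇.s.dm : ℂ) - π.ts.cm hh π.zs‖ + π.ts.b * hh :=
      pvhw_tri (b := ((delMap h).src 𝔇.s.dm : ℂ)) (by rw [norm_sub_rev]) h1.le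
    have h3 : ‖((delPl h).toMap.src 𝔇.s.dm : ℂ) - π.ts.cm hh π.zs‖ = ‖((delMap h).src 𝔇.s.dm : ℂ) - π.ts.cm hh π.zs‖ := rfl
    linarith

/-- the two stub records, any presentation of the Delaunay plane -/
theorem pvhw_stubs_ok (h : DelGood Y) {P : PlTri ↥Y} (hP : P = delPl h) {𝔇 : PvwDat P.toMap} (hOk : 𝔇.Ok Subtype.val N hh π) (hr : N.rho2 * hh ≤ r) (hr₂ : r₂ ≤ N.rho1 * hh / 2) :
    PvhwOut 𝔇 π.zt (pvwRad N hh π.tt π.tt.k) (π.tt.cp hh π.zt) (N.rho * hh / 4) r r₂ ∧ PvhwIn 𝔇 π.zs (pvwRad N hh π.ts π.ts.k) (π.ts.cm hh π.zs) (N.rho * hh / 4) r r₂ := by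
  subst hP
  exact ⟨pvhw_out_of_ok hOk hr hr₂, pvhw_in_of_ok hOk hr hr₂⟩

/-- **THE CONTRACT OF 35 FROM `PvwDat.Ok`, FORM D, `fz` `ex_t` `ex_s` AT SITE LEVEL** -/
theorem pvhw_contractD_site (h : DelGood Y) {𝔇 : PvwDat (pvheT Y)} (hOk : 𝔇.Ok Subtype.val N hh π) (hπ : π.Wf) (hc : PvkqCore δc R x y)
    (G : PvhwRegD π.zt π.zs (pvwRad N hh π.tt π.tt.k) (pvwRad N hh π.ts π.ts.k) (π.tt.cp hh π.zt) (π.ts.cm hh π.zs) ζt ζs (N.rho * hh / 4) δ r r₁ r₂ (2 * δc) R x y)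
    (gate_t : r + 4 * δ + π.tt.b * hh ≤ ‖π.tt.cp hh π.zt - π.zt‖) (gate_s : r + 4 * δ + π.ts.b * hh ≤ ‖π.ts.cm hh π.zs - π.zs‖) (hR : R ⊆ π.Yout)
    (hr : N.rho2 * hh ≤ r) (hr₂ : r₂ ≤ N.rho1 * hh / 2)
    (mesh_t : VorDense Y (closedBall (π.tt.cp hh π.zt) (r + 3 * δ)) δ) (mesh_s : VorDense Y (closedBall (π.ts.cm hh π.zs) (r + 3 * δ)) δ)
    (fz : ∀ v : Y, (v : ℂ) ∈ R → v ∈ 𝔇.fz → v ∈ 𝔇.t.bkP ∪ 𝔇.t.whP ∪ (𝔇.s.bkM ∪ 𝔇.s.whM))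
    (ex_t : ∀ v : Y, (v : ℂ) ∈ R → v ∈ 𝔇.t.bkP ∪ 𝔇.t.whP → ‖(v : ℂ) - π.tt.cp hh π.zt‖ ≤ r₂) (ex_s : ∀ v : Y, (v : ℂ) ∈ R → v ∈ 𝔇.s.bkM ∪ 𝔇.s.whM → ‖(v : ℂ) - π.ts.cm hh π.zs‖ ≤ r₂) :
    PvheHookW 𝔇 π b (pvkqEv δc (!b) R x y) := by
  obtain ⟨Ot, Is⟩ := pvhw_stubs_ok h (delb_pl_eq h) hOk hr hr₂
  obtain ⟨f1, f2⟩ := pvhw_far_ok h (delb_pl_eq h) hOk gate_t gate_s
  exact pvhw_contractD h hπ hc G ⟨mesh_t, mesh_s, f1, f2, fz, ex_t, ex_s⟩ Ot Is hR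

/-- **THE CONTRACT OF 35 FROM `PvwDat.Ok`, ONE STOP, FORM D**: pure geometry of the region (hull region `Hu`) + mesh -/
theorem pvhw_contractD_ok (h : DelGood Y) {𝔇 : PvwDat (pvheT Y)} (hOk : 𝔇.Ok Subtype.val N hh π) (hπ : π.Wf) (hc : PvkqCore δc R x y)
    (G : PvhwRegD π.zt π.zs (pvwRad N hh π.tt π.tt.k) (pvwRad N hh π.ts π.ts.k) (π.tt.cp hh π.zt) (π.ts.cm hh π.zs) ζt ζs (N.rho * hh / 4) δ r r₁ r₂ (2 * δc) R x y)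
    (G' : PvhwRegOkC N hh π δ r R Hu) (hull : ∀ v ∈ 𝔇.fzY, (v : ℂ) ∈ Hu)
    (box_t : ∀ w ∈ R, w ∈ Hu → w ∈ pvwSq π.zt (pvwRad N hh π.tt π.tt.k) → ‖w - π.tt.cp hh π.zt‖ ≤ r₂) (box_s : ∀ w ∈ R, w ∈ Hu → w ∈ pvwSq π.zs (pvwRad N hh π.ts π.ts.k) → ‖w - π.ts.cm hh π.zs‖ ≤ r₂)
    (hr : N.rho2 * hh ≤ r) (hr₂ : r₂ ≤ N.rho1 * hh / 2)
    (mesh_t : VorDense Y (closedBall (π.tt.cp hh π.zt) (r + 3 * δ)) δ) (mesh_s : VorDense Y (closedBall (π.ts.cm hh π.zs) (r + 3 * δ)) δ) (mesh_R : ∀ w ∈ R, VorDense Y (closedBall w (2 * δ)) δ) :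
    PvheHookW 𝔇 π b (pvkqEv δc (!b) R x y) := by
  obtain ⟨H, Ot, Is⟩ := pvhw_recordsC_ok h (delb_pl_eq h) hOk hπ G.mesh_pos G' hull hr hr₂ mesh_t mesh_s mesh_R
  exact pvhw_contractD h hπ hc G (pvhw_datD_of_C H Ot Is box_t box_s) Ot Is G'.out

/-- **THE FIELD `hq`, FORM D** -/
theorem pvhw_hqD (h : DelGood Y) {𝔇 : PvwDat (pvheT Y)} (hOk : 𝔇.Ok Subtype.val N hh π) (hπ : π.Wf) (hc : PvkqCore δc R x y)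
    (G : PvhwRegD π.zt π.zs (pvwRad N hh π.tt π.tt.k) (pvwRad N hh π.ts π.ts.k) (π.tt.cp hh π.zt) (π.ts.cm hh π.zs) ζt ζs (N.rho * hh / 4) δ r r₁ r₂ (2 * δc) R x y)
    (G' : PvhwRegOkC N hh π δ r R Hu) (hull : ∀ v ∈ 𝔇.fzY, (v : ℂ) ∈ Hu)
    (box_t : ∀ w ∈ R, w ∈ Hu → w ∈ pvwSq π.zt (pvwRad N hh π.tt π.tt.k) → ‖w - π.tt.cp hh π.zt‖ ≤ r₂) (box_s : ∀ w ∈ R, w ∈ Hu → w ∈ pvwSq π.zs (pvwRad N hh π.ts π.ts.k) → ‖w - π.ts.cm hh π.zs‖ ≤ r₂)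
    (hr : N.rho2 * hh ≤ r) (hr₂ : r₂ ≤ N.rho1 * hh / 2)
    (mesh_t : VorDense Y (closedBall (π.tt.cp hh π.zt) (r + 3 * δ)) δ) (mesh_s : VorDense Y (closedBall (π.ts.cm hh π.zs) (r + 3 * δ)) δ) (mesh_R : ∀ w ∈ R, VorDense Y (closedBall w (2 * δ)) δ)
    {q : ℝ≥0∞} (hq : q ≤ pvkqP (pvkqEv δc (!b) R x y) Y) {σ : ℂ → Bool} (hσ : pvheCol Y b σ ∈ 𝔇.Cyl) :
    q ≤ colLaw ℂ {κ | 𝔇.WO Subtype.val π (pvheCol Y b (pvdmOv (Subtype.val '' 𝔇.fz)ᶜ κ σ))} :=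
  pvhe_hq (pvhw_contractD_ok h hOk hπ hc G G' hull box_t box_s hr hr₂ mesh_t mesh_s mesh_R) hq hσ

end okD

end Claimed.Agent.R289
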