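import Claimed.Agent.R289.Tr.HookWD
import Claimed.Agent.R289.Tr.HookWE
import Claimed.Agent.R289.Exit.N1Q

/-!
# Row 289 (S0537, Cardy for Poisson-Voronoi), box TR, ROAD E, HOOK-DET, file Tr/HookWO : FROM THE REGION (FORM D) TO THE CONTRACT `PvwhDet`      (owner helper143; prefix `pvwo_`, `Pvwo`)

JUNCTION of `Tr/HookWD` (53: `PvhwFitD ⟹ WO`, the ray along the DOOR NORMAL at all tip cells), `Tr/LinkQ` (21: pattern of record, `PvkqDet`), `Exit/N1Q` (5: `PvwhDet ⟹ PvnbkWO ⟹ Pvn1bQbx`).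
* sec. 1  **`PvwoRegD`** = THE HOOKED CORRIDOR, PURE GEOMETRY, FORM D (no site, no datum, no colour), with TWO hull regions `Ht`, `Hs`;   `PvwoDat` (what is read of the sites and the datum),  **`PvwoRegD.fit`** : `PvhwFitD`
* sec. 2  **`PvwoRegOk`** = the corridor against the pattern (pure geometry), `pvwo_dat_of_ok` : `PvwoDat` from `PvwDat.Ok` + meshes + hulls
* sec. 3  **`pvwo_WO`** = ONE STOP on any presentation of the Delaunay plane: `Ok` + `PvwoRegD` + `PvwoRegOk` + hulls + meshes + `PvkqDet` ⟹ `WO` for every colouring which is the fresh one off the frozen sites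
* sec. 4  **`pvwo_det`** = `PvwhDet 𝔓 x R m π μ (pvkqEv δc false RW xa xb)` VERBATIM, hull regions `pvtU δ_m Zt`, `pvtU δ_m Zs` (read off the two hull equalities of `PvxnWit`);   **`pvwo_wo_any`**, `pvwo_wo_ev_any`, **`pvwo_wo`** (down to `PvnbkWO` for ANY family of kits whose `E(D)` contains `g₀ ⊆ closedBall x (5R)`: the kits of record are covered)
WHAT THE OWNER OF THE REGION OWES: `PvkqCore δc RW xa xb`, `IsBounded RW`, `PvwoRegD`, `PvwoRegOk`, three inclusions of balls in `closedBall x (7 R)`.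
-/

set_option autoImplicit false
set_option linter.unusedSectionVars false
set_option linter.unusedVariables false

namespace Claimed.Agent.R289

open Metric Set Claims.C0465
open scoped ENNReal

/-! ## 1. the region, form D -/

/-- **THE HOOKED CORRIDOR, PURE GEOMETRY, FORM D** (no sites, no datum, no colours).   `ζt`, `ζs` = the door normals;   `Ht`, `Hs` = regions which contain the frozen sites of `Σ_out(t)`, `Σ_in(s)` (hulls);   `x`, `y` = the ends of the corridor, known with the precision `η`. -/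
structure PvwoRegD (zt zs : ℂ) (Rt Rs : ℝ) (yt ys ζt ζs : ℂ) (κ δ r r₁ r₂ η : ℝ) (R Ht Hs : Set ℂ) (x y : ℂ) : Prop where
  dir_t : ζt ∈ pvtzdDir
  dir_s : ζs ∈ pvtzdDir
  adm_t : Rt + (ζt * zt).re ≤ (ζt * yt).re + (κ + 2 * δ)
  adm_s : Rs + (ζs * zs).re ≤ (ζs * ys).re + (κ + 2 * δ)
  big_t : κ + 2 * δ ≤ Rt
  big_s : κ + 2 * δ ≤ Rs
  mesh_pos : 0 < δ
  num1 : 3 * r₁ + 2 * δ ≤ r
  num2 : r₂ ≤ r₁
  num3 : 2 * (κ + 2 * δ) + 5 * δ ≤ r₁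
  sep : 2 * r₂ < ‖yt - ys‖
  door_t : PvhwDoorRD ζt yt (Rt + (ζt * zt).re) (κ + 2 * δ) (2 * δ) r₂ (-1) R
  door_s : PvhwDoorRD ζs ys (Rs + (ζs * zs).re) (κ + 2 * δ) (2 * δ) r₂ 1 R
  /-- the corridor meets (a box) ∩ (the hull region of its stub) only in the inner mouth -/
  box_t : ∀ w ∈ R, w ∈ Ht → w ∈ pvwSq zt Rt → ‖w - yt‖ ≤ r₂
  box_s : ∀ w ∈ R, w ∈ Hs → w ∈ pvwSq zs Rs → ‖w - ys‖ ≤ r₂
  /-- the corridor starts beyond the side `ζt` of the box of `t`, ABOVE the strip of the ray -/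
  start : ∀ w, ‖w - x‖ < η → Rt + (ζt * zt).re < (ζt * w).re ∧ ‖w - yt‖ ≤ r₂ ∧ κ + 2 * δ < (ζt * w).im - (ζt * yt).im
  /-- the corridor ends beyond the side `ζs` of the box of `s`, BELOW the strip of the ray -/
  stop : ∀ w, ‖w - y‖ < η → Rs + (ζs * zs).re < (ζs * w).re ∧ ‖w - ys‖ ≤ r₂ ∧ κ + 2 * δ < (ζs * ys).im - (ζs * w).im

variable {Y : Set ℂ}

/-- what the hook reads of the sites and of the datum besides the two stubs -/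
structure PvwoDat {D : Type} {T : PvMap ↥Y D} (𝔇 : PvwDat T) (yt ys : ℂ) (δ r : ℝ) (R Ht Hs : Set ℂ) : Prop where
  mesh_t : VorDense Y (closedBall yt (r + 3 * δ)) δ
  mesh_s : VorDense Y (closedBall ys (r + 3 * δ)) δ
  far_t : r + 4 * δ ≤ ‖(T.tgt 𝔇.t.dp : ℂ) - yt‖
  far_s : r + 4 * δ ≤ ‖(T.src 𝔇.s.dm : ℂ) - ys‖
  fz : ∀ v : Y, (v : ℂ) ∈ R → v ∈ 𝔇.fz → v ∈ 𝔇.t.bkP ∪ 𝔇.t.whP ∪ (𝔇.s.bkM ∪ 𝔇.s.whM)
  hull_t : ∀ v ∈ 𝔇.t.fzOut, (v : ℂ) ∈ Ht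
  hull_s : ∀ v ∈ 𝔇.s.fzIn, (v : ℂ) ∈ Hs

theorem PvwoRegD.fit {D : Type} {T : PvMap ↥Y D} {𝔇 : PvwDat T} {zt zs : ℂ} {Rt Rs : ℝ} {yt ys ζt ζs : ℂ} {κ δ r r₁ r₂ η : ℝ} {R Ht Hs : Set ℂ} {x y : ℂ}
    (G : PvwoRegD zt zs Rt Rs yt ys ζt ζs κ δ r r₁ r₂ η R Ht Hs x y) (H : PvwoDat 𝔇 yt ys δ r R Ht Hs) (Ot : PvhwOut 𝔇 zt Rt yt κ r r₂) (Is : PvhwIn 𝔇 zs Rs ys κ r r₂)
    {X : Set Y} (hX : ∀ v ∈ X, (v : ℂ) ∈ R) {a b : Y} (ha : ‖(a : ℂ) - x‖ < η) (hb : ‖(b : ℂ) - y‖ < η) (hj : T.Join Set.univ X a b) :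
    PvhwFitD 𝔇 zt zs Rt Rs yt ys ζt ζs κ δ r r₁ r₂ X a b where
  dir_t := G.dir_t
  dir_s := G.dir_s
  adm_t := G.adm_t
  adm_s := G.adm_s
  big_t := G.big_t
  big_s := G.big_s
  mesh_pos := G.mesh_pos
  mesh_t := H.mesh_t
  mesh_s := H.mesh_s
  num1 := G.num1
  num2 := G.num2
  num3 := G.num3
  far_t := H.far_t
  far_s := H.far_s
  sep := G.sep
  door_t := G.door_t.door (pvtzd_dir_norm G.dir_t) hX
  door_s := G.door_s.door (pvtzd_dir_norm G.dir_s) hX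
  ex_t := fun v hv hb => G.box_t _ (hX v hv) (H.hull_t v (pvwk_banksP_sub_fzOut 𝔇.t hb)) (pvwk_banksP_in Ot.stub hb)
  ex_s := fun v hv hb => G.box_s _ (hX v hv) (H.hull_s v (pvwk_banksM_sub_fzIn 𝔇.s hb)) (pvwk_banksM_in Is.stub hb)
  join := hj
  start := G.start _ ha
  stop := G.stop _ hb
  fz := fun v hv => H.fz v (hX v hv)

/-! ## 2. the corridor against the pattern -/

/-- the corridor and the pattern, pure geometry -/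
structure PvwoRegOk (N : PvwNum) (hh : ℝ) (π : PvwPat) (δ r : ℝ) (R Ht Hs : Set ℂ) : Prop where
  gate_t : r + 4 * δ + π.tt.b * hh ≤ ‖π.tt.cp hh π.zt - π.zt‖
  gate_s : r + 4 * δ + π.ts.b * hh ≤ ‖π.ts.cm hh π.zs - π.zs‖
  core_t : ∀ w ∈ R, w ∈ Ht → π.tt.b * hh ≤ ‖w - π.zt‖
  core_s : ∀ w ∈ R, w ∈ Hs → π.ts.b * hh ≤ ‖w - π.zs‖
  out : R ⊆ π.Yout
  collar : ∀ w ∈ R, closedBall w (2 * δ) ⊆ π.Yreg

/-- **`PvwoDat` FROM `PvwDat.Ok`** + mesh `δ` on the two mouths and along the corridor -/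
theorem pvwo_dat_of_ok (h : DelGood Y) {𝔇 : PvwDat (delMap h)} {N : PvwNum} {hh : ℝ} {π : PvwPat} (hOk : 𝔇.Ok (dlsPos Y) N hh π) (hπ : π.Wf) {δ r : ℝ} {R Ht Hs : Set ℂ}
    (G : PvwoRegOk N hh π δ r R Ht Hs) (hull_t : ∀ v ∈ 𝔇.t.fzOut, (v : ℂ) ∈ Ht) (hull_s : ∀ v ∈ 𝔇.s.fzIn, (v : ℂ) ∈ Hs) (hδ : 0 < δ)
    (mesh_t : VorDense Y (closedBall (π.tt.cp hh π.zt) (r + 3 * δ)) δ) (mesh_s : VorDense Y (closedBall (π.ts.cm hh π.zs) (r + 3 * δ)) δ) (mesh_R : ∀ w ∈ R, VorDense Y (closedBall w (2 * δ)) δ) :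
    PvwoDat 𝔇 (π.tt.cp hh π.zt) (π.ts.cm hh π.zs) δ r R Ht Hs := by
  have hT := dls_isSph h
  refine ⟨mesh_t, mesh_s, ?_, ?_, fun v hvR hv => ?_, hull_t, hull_s⟩
  · have h1 := hOk.st_t.gate.inside _ (pvwk_gate_ends hT hOk.st_t.gate).2.1
    have h2 : ‖π.tt.cp hh π.zt - π.zt‖ ≤ ‖((delMap h).tgt 𝔇.t.dp : ℂ) - π.tt.cp hh π.zt‖ + π.tt.b * hh :=
      pvhw_tri (b := ((delMap h).tgt 𝔇.t.dp : ℂ)) (by rw [norm_sub_rev]) h1.le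
    linarith [G.gate_t]
  · have h1 := hOk.st_s.gate.inside _ (pvwk_gate_ends hT hOk.st_s.gate).2.2.1
    have h2 : ‖π.ts.cm hh π.zs - π.zs‖ ≤ ‖((delMap h).src 𝔇.s.dm : ℂ) - π.ts.cm hh π.zs‖ + π.ts.b * hh :=
      pvhw_tri (b := ((delMap h).src 𝔇.s.dm : ℂ)) (by rw [norm_sub_rev]) h1.le
    linarith [G.gate_s]
  · rcases hv with ((((hc | hb) | hw) | ((hc | hb) | hw)) | hg) | ha
    · exfalso
      have : v ∈ 𝔇.t.dsc := hc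
      rw [hOk.st_t.gate.dsc_eq] at this
      exact absurd (G.core_t _ hvR (hull_t v (Or.inl (Or.inl hc)))) (not_le.2 this)
    · exact Or.inl (Or.inl hb)
    · exact Or.inl (Or.inr hw)
    · exfalso
      have : v ∈ 𝔇.s.dsc := hc
      rw [hOk.st_s.gate.dsc_eq] at this
      exact absurd (G.core_s _ hvR (hull_s v (Or.inl (Or.inl hc)))) (not_le.2 this)
    · exact Or.inr (Or.inl hb)
    · exact Or.inr (Or.inr hw)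
    · exact absurd (hπ.out_sub (G.out hvR)) (hOk.off v hg)
    · exfalso
      obtain ⟨i, hi, rfl⟩ := ha
      have hs := pvhw_short h hδ (c := (((delMap h).apex ((delMap h).opp (𝔇.g.e i)) : Y) : ℂ)) (R := 0) (by rw [zero_add]; exact mesh_R _ hvR)
        ((delMap h).nxt ((delMap h).nxt ((delMap h).opp (𝔇.g.e i)))) (by rw [(delMap h).src_nxt2, sub_self, norm_zero])
      rw [(delMap h).src_nxt2, (delMap h).tgt_nxt2, (delMap h).src_opp', 𝔇.g.tgt_e i hi] at hs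
      refine hOk.off (𝔇.g.v (i + 1)) ⟨i + 1, hi, rfl⟩ (G.collar _ hvR ?_)
      rw [mem_closedBall, dist_eq_norm, norm_sub_rev]
      exact hs

/-! ## 3. one stop -/

section one

variable {N : PvwNum} {hh : ℝ} {π : PvwPat} {ζt ζs : ℂ} {δ r r₁ r₂ δc : ℝ} {R Ht Hs : Set ℂ} {x y : ℂ}

/-- **HOOK-DET FOR `WO`, FORM D, ONE STOP**: pure geometry of the region + hulls + meshes;   `σ` = ANY colouring which is the fresh one `κ` off the frozen sites -/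
theorem pvwo_WO (h : DelGood Y) {P : PlTri ↥Y} (hP : P = delPl h) {𝔇 : PvwDat P.toMap} (hOk : 𝔇.Ok Subtype.val N hh π) (hπ : π.Wf) {𝒜 : Set (Conf PvPt)} (hdet : PvkqDet δc false R x y 𝒜)
    (G : PvwoRegD π.zt π.zs (pvwRad N hh π.tt π.tt.k) (pvwRad N hh π.ts π.ts.k) (π.tt.cp hh π.zt) (π.ts.cm hh π.zs) ζt ζs (N.rho * hh / 4) δ r r₁ r₂ (2 * δc) R Ht Hs x y)
    (G' : PvwoRegOk N hh π δ r R Ht Hs) (hull_t : ∀ v ∈ 𝔇.t.fzOut, (v : ℂ) ∈ Ht) (hull_s : ∀ v ∈ 𝔇.s.fzIn, (v : ℂ) ∈ Hs) (hr : N.rho2 * hh ≤ r) (hr₂ : r₂ ≤ N.rho1 * hh / 2)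
    (mesh_t : VorDense Y (closedBall (π.tt.cp hh π.zt) (r + 3 * δ)) δ) (mesh_s : VorDense Y (closedBall (π.ts.cm hh π.zs) (r + 3 * δ)) δ) (mesh_R : ∀ w ∈ R, VorDense Y (closedBall w (2 * δ)) δ)
    (κ : ℂ → Bool) (σ : ↥Y → Bool) (hκ : cfOf Y κ ∈ 𝒜) (hσ : ∀ v, v ∉ 𝔇.fz → σ v = κ v) : 𝔇.WO Subtype.val π σ := by
  subst hP
  obtain ⟨a, c, ha, hc, hj⟩ := hdet Y h κ hκ
  have H := pvwo_dat_of_ok h hOk hπ G' hull_t hull_s G.mesh_pos mesh_t mesh_s mesh_R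
  have Ot := pvhw_out_of_ok hOk hr hr₂
  have Is := pvhw_in_of_ok hOk hr hr₂
  have F := G.fit H Ot Is (X := pvkqV Y κ false R) (fun v hv => hv.2) ha hc hj
  exact PvhwFitD.WO (h := h) F Ot Is hπ (fun v hv hf => (hσ v hf).trans hv.1) (fun v hv _ => G'.out hv.2)

end one

/-! ## 4. the contract of 5 at the model -/

section model

variable {τ : Type} {c : ℝ} {𝔓 : PvxPar τ c} {x : ℂ} {R : ℝ} {m : ℕ} {π : PvxIx τ}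

/-- a set lies in the union of the cells which meet it -/
theorem pvwo_mem_U {δ : ℝ} (hδ : 0 < δ) {K : Set ℂ} {Z : Set (ℤ × ℤ)} (hZ : Z = pvtCells δ K) {w : ℂ} (hw : w ∈ K) : w ∈ pvtU δ Z := by
  obtain ⟨z, hz⟩ := pvt_sq_cover hδ w
  exact mem_iUnion₂.2 ⟨z, by rw [hZ]; exact ⟨w, hz, hw⟩, hz⟩

/-- **THE DETERMINISTIC CONTRACT `PvwhDet` OF 5, VERBATIM**, from the pure geometry of the region `RW` (form D), hull regions = the cells of the index -/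
theorem pvwo_det (hW : 𝔓.Wf) {μ δ r r₁ r₂ δc : ℝ} {ζt ζs : ℂ} {RW : Set ℂ} {xa xb : ℂ} (hcore : PvkqCore δc RW xa xb) (hδm : 0 < pvlmDel c m)
    (G : PvwoRegD (𝔓.reg m π).zt (𝔓.reg m π).zs (pvwRad 𝔓.num (pvlmH m) (𝔓.reg m π).tt (𝔓.reg m π).tt.k) (pvwRad 𝔓.num (pvlmH m) (𝔓.reg m π).ts (𝔓.reg m π).ts.k)
      ((𝔓.reg m π).tt.cp (pvlmH m) (𝔓.reg m π).zt) ((𝔓.reg m π).ts.cm (pvlmH m) (𝔓.reg m π).zs) ζt ζs (𝔓.num.rho * pvlmH m / 4) δ r r₁ r₂ (2 * δc) RW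
      (pvtU (pvlmDel c m) π.Zt) (pvtU (pvlmDel c m) π.Zs) xa xb)
    (G' : PvwoRegOk 𝔓.num (pvlmH m) (𝔓.reg m π) δ r RW (pvtU (pvlmDel c m) π.Zt) (pvtU (pvlmDel c m) π.Zs))
    (hr : 𝔓.num.rho2 * pvlmH m ≤ r) (hr₂ : r₂ ≤ 𝔓.num.rho1 * pvlmH m / 2) (hμ : μ ≤ δ)
    (in_t : closedBall ((𝔓.reg m π).tt.cp (pvlmH m) (𝔓.reg m π).zt) (r + 3 * δ) ⊆ closedBall x (7 * R))
    (in_s : closedBall ((𝔓.reg m π).ts.cm (pvlmH m) (𝔓.reg m π).zs) (r + 3 * δ) ⊆ closedBall x (7 * R))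
    (in_R : ∀ w ∈ RW, closedBall w (2 * δ) ⊆ closedBall x (7 * R)) :
    PvwhDet 𝔓 x R m π μ (pvkqEv δc false RW xa xb) := by
  intro Y hY hd 𝔇 hOk hs ht _ κ σ hκ hσ
  refine pvwo_WO hY (delb_pl_eq hY) hOk (hW.reg_wf m π) (pvkq_Ev_det hcore false) G G' (fun v hv => ?_) (fun v hv => ?_) hr hr₂
    (hd.mono Subset.rfl in_t hμ) (hd.mono Subset.rfl in_s hμ) (fun w hw => hd.mono Subset.rfl (in_R w hw) hμ) κ σ hκ hσ
  · exact pvwo_mem_U hδm ht (Or.inl ⟨v, hv, rfl⟩)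
  · exact pvwo_mem_U hδm hs (Or.inl ⟨v, hv, rfl⟩)

/-- **THE `WO` HALF OF E4 FOR ANY FAMILY OF KITS** whose `E(D)` contains the position clause `g₀ ⊆ closedBall x (5R)`      (`pvwh_wo` of 5 is the case `pvhqKit`; the kits of record `(pvknKit ..).guardE (pvn1aRg x R)` are covered) -/
theorem pvwo_wo_any (a : ℂ) (hR : 0 < R) {μ : ℝ} (hμ : 0 < μ) {𝒜 : Set (Conf PvPt)} (hdet : PvwhDet 𝔓 x R m π μ 𝒜) {q₁ : ℝ≥0∞}
    (hlim : Filter.Tendsto (fun ε : ℝ => (pvhbUp ε).P {p | pvkqP 𝒜 (cfSites (pvConf (pvMerge p))) < q₁}) (nhdsWithin (0 : ℝ) (Ioi 0)) (nhds 0))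
    (𝔎s : ℝ → PvxnKit) (hE : ∀ (ε : ℝ) (Y : Set ℂ) (𝔇 : PvwDat (delbPl Y).toMap) (σ : ↥Y → Bool), (𝔎s ε).E Y 𝔇 σ → ∀ v ∈ 𝔇.g.verts, ‖(v : ℂ) - x‖ ≤ 5 * R) :
    PvnbkWO 𝔓 m π a 𝔎s q₁ := by
  have h3 := ((pvn1b_fine_lim x R hR hμ).add (pvn1b_dense_lim (B := Metric.closedBall x (7 * R)) Metric.isBounded_closedBall hμ)).add hlim
  simp only [add_zero] at h3
  refine tendsto_of_tendsto_of_tendsto_of_le_of_le tendsto_const_nhds h3 (fun _ => zero_le) fun ε => ?_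
  refine le_trans ((pvhbUp ε).P_mono ?_) (((pvhbUp ε).P_union_le _ _).trans (add_le_add ((pvhbUp ε).P_union_le _ _) le_rfl))
  intro p hp
  by_contra hn
  simp only [mem_union, mem_ofPred_eq, not_or, not_not, not_lt] at hn
  obtain ⟨⟨⟨hg, -⟩, hd⟩, hq⟩ := hn
  exact hp fun i 𝔇 hW hE' => pvwh_one a hdet hg.del hd hq (pvn1bSg 𝔓 π (pvMerge p)) i 𝔇 hW (hE ε _ 𝔇 _ hE')

/-- **THE PATTERN OF RECORD OF A REGION, ANY FAMILY OF KITS**: ONE `q₁ ≠ 0` for all the families -/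
theorem pvwo_wo_ev_any (a : ℂ) (hR : 0 < R) {μ : ℝ} (hμ : 0 < μ) {δ' : ℝ} {RW : Set ℂ} {xa xb : ℂ} (hcore : PvkqCore δ' RW xa xb) (hb : Bornology.IsBounded RW)
    (hdet : PvwhDet 𝔓 x R m π μ (pvkqEv δ' false RW xa xb)) :
    ∃ q₁ : ℝ≥0∞, q₁ ≠ 0 ∧ ∀ 𝔎s : ℝ → PvxnKit, (∀ (ε : ℝ) (Y : Set ℂ) (𝔇 : PvwDat (delbPl Y).toMap) (σ : ↥Y → Bool), (𝔎s ε).E Y 𝔇 σ → ∀ v ∈ 𝔇.g.verts, ‖(v : ℂ) - x‖ ≤ 5 * R) →
      PvnbkWO 𝔓 m π a 𝔎s q₁ := by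
  obtain ⟨q0, h0, -, H⟩ := pvkq_region_up
  obtain ⟨r, hr⟩ := hb.subset_closedBall (0 : ℂ)
  obtain ⟨M, hM⟩ := exists_nat_ge (r / δ')
  have hsub : RW ⊆ Metric.closedBall (0 : ℂ) (M * δ') := hr.trans (Metric.closedBall_subset_closedBall ((div_le_iff₀ hcore.1).1 hM))
  refine ⟨ENNReal.ofReal (q0 ^ (15 * (2 * M + 1) ^ 2) / 2), by simpa using (by positivity : 0 < q0 ^ (15 * (2 * M + 1) ^ 2) / 2), fun 𝔎s hE => ?_⟩
  exact pvwo_wo_any a hR hμ hdet ((H M δ').1 false RW 0 xa xb hsub hcore) 𝔎s hE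

/-- **FROM THE PURE GEOMETRY OF THE REGION TO THE `WO` HALF**, any family of kits with the position clause -/
theorem pvwo_wo (hW : 𝔓.Wf) (a : ℂ) (hR : 0 < R) {δ r r₁ r₂ δc : ℝ} {ζt ζs : ℂ} {RW : Set ℂ} {xa xb : ℂ} (hcore : PvkqCore δc RW xa xb) (hb : Bornology.IsBounded RW) (hδm : 0 < pvlmDel c m)
    (G : PvwoRegD (𝔓.reg m π).zt (𝔓.reg m π).zs (pvwRad 𝔓.num (pvlmH m) (𝔓.reg m π).tt (𝔓.reg m π).tt.k) (pvwRad 𝔓.num (pvlmH m) (𝔓.reg m π).ts (𝔓.reg m π).ts.k)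
      ((𝔓.reg m π).tt.cp (pvlmH m) (𝔓.reg m π).zt) ((𝔓.reg m π).ts.cm (pvlmH m) (𝔓.reg m π).zs) ζt ζs (𝔓.num.rho * pvlmH m / 4) δ r r₁ r₂ (2 * δc) RW
      (pvtU (pvlmDel c m) π.Zt) (pvtU (pvlmDel c m) π.Zs) xa xb)
    (G' : PvwoRegOk 𝔓.num (pvlmH m) (𝔓.reg m π) δ r RW (pvtU (pvlmDel c m) π.Zt) (pvtU (pvlmDel c m) π.Zs))
    (hr : 𝔓.num.rho2 * pvlmH m ≤ r) (hr₂ : r₂ ≤ 𝔓.num.rho1 * pvlmH m / 2)
    (in_t : closedBall ((𝔓.reg m π).tt.cp (pvlmH m) (𝔓.reg m π).zt) (r + 3 * δ) ⊆ closedBall x (7 * R))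
    (in_s : closedBall ((𝔓.reg m π).ts.cm (pvlmH m) (𝔓.reg m π).zs) (r + 3 * δ) ⊆ closedBall x (7 * R))
    (in_R : ∀ w ∈ RW, closedBall w (2 * δ) ⊆ closedBall x (7 * R)) :
    ∃ q₁ : ℝ≥0∞, q₁ ≠ 0 ∧ ∀ 𝔎s : ℝ → PvxnKit, (∀ (ε : ℝ) (Y : Set ℂ) (𝔇 : PvwDat (delbPl Y).toMap) (σ : ↥Y → Bool), (𝔎s ε).E Y 𝔇 σ → ∀ v ∈ 𝔇.g.verts, ‖(v : ℂ) - x‖ ≤ 5 * R) →
      PvnbkWO 𝔓 m π a 𝔎s q₁ :=
  pvwo_wo_ev_any a hR G.mesh_pos hcore hb (pvwo_det hW hcore hδm G G' hr hr₂ le_rfl in_t in_s in_R)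

end model

end Claimed.Agent.R289
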