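-- KEEP
import Claimed.Agent.R289.Tr.HookWE
import Claimed.Agent.R289.Tr.LinkT

/-!
# Row 289 (S0537), THE WALL, E10, file Tr/HookWR : THE HOOKED OUTER WHITE CORRIDOR, EXPLICIT      (helper221; prefix `pvhx_`, defs `pvhx*`, `Pvhx*`)

PRODUCER of the pure geometry which `Tr/HookW`, `Tr/HookWE` (53) ask of the owner of the regions: `PvkqCore δ' R x y` (21), `PvhwDoorR`, `PvhwReg`, `PvhwRegOk`, for the regions of record `pvfeOut`, `pvfeBody` of 209.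
PICTURE AT ONE TIP.   `Y` = centre of the tip cell, `ζ` = rotation which sends the outer normal to `1`, `a = ρ h`;   `S w = re (ζ (w - Y))` (distance in front of `Y`), `L w = im (ζ (w - Y))`, `t = σ L`, `σ = 1` at an exit tip, `σ = -1` at an entrance tip: THE WHITE SIDE IS `t < 0`.
  `P1 = [-.55a, .45a] × [.51a, .55a]` (starts outside the box on the black side)      `P2 = [-.55a, -.51a] × [-.55a, .55a]` (through the box, behind the tip)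
  `P3 = [-.55a, .83a] × [-.55a, -.51a]` (comes out on the white side, crosses the circle of radius `r₂ = .8 a` far from the ray)      `P4 = [.81a, .83a] × [-.55a, ℓ]` (beyond `r₂`, up to the outer lane `t ∈ [ℓ - δc/10, ℓ]` of the corridor)
* sec. 1  the frame `pvhxS pvhxL`, boxes `pvhxB` (convex, balls), points `pvhxP`
* sec. 2  the hook `pvhxC ζ Y σ a ℓ`: in the annulus `[.51 a, a]`, `pvhx_C_door` (`PvhwDoorR`), `pvhx_C_box`, `pvhx_start`, `pvhx_C_far_in` (off the inner lanes), **`pvhx_C_joined`**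
* sec. 3  **`PvhxHook`** = what the assembly asks of a hook (ANY shape: corner cells = other instances), `pvhx_hook_N` (tip cell off the corners)
* sec. 4  ASSEMBLY over two abstract hooks: `pvhxR Ct Cs z d l j₀ j₁`, **`PvhxCor`** (what is asked of the corridor), **`pvhx_R_core`** (`PvkqCore`), **`pvhx_R_out`** (`⊆ pvfeOut`), `pvhx_R_collar`, **`pvhx_regC`** (`PvhwRegC` of 53)
* sec. 5  **`pvhx_regOkC`** (`PvhwRegOkC` at `pvfeRegAt`), `pvhx_R_ball`, **`PvhxLink`** (the straight link seen from the hook), `PvhxLink.hook_N`.      The records `PvhxCor`, `PvhxLink` at the model: `Tr/HookWS.lean`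
-/

set_option autoImplicit false
set_option linter.unusedVariables false

namespace Claimed.Agent.R289

open Set Metric Complex

/-! ## 1. the frame at a tip -/

/-- distance in front of `Y` in the picture rotated by `ζ` -/
noncomputable def pvhxS (ζ Y w : ℂ) : ℝ := (ζ * (w - Y)).re
/-- lateral coordinate -/
noncomputable def pvhxL (ζ Y w : ℂ) : ℝ := (ζ * (w - Y)).im

theorem pvhx_S_eq (ζ Y w : ℂ) : pvhxS ζ Y w = (ζ * w).re - (ζ * Y).re := by unfold pvhxS; rw [mul_sub, sub_re]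
theorem pvhx_L_eq (ζ Y w : ℂ) : pvhxL ζ Y w = (ζ * w).im - (ζ * Y).im := by unfold pvhxL; rw [mul_sub, sub_im]

theorem pvhx_norm_sq {ζ : ℂ} (hζ : ‖ζ‖ = 1) (Y w : ℂ) : ‖w - Y‖ ^ 2 = pvhxS ζ Y w ^ 2 + pvhxL ζ Y w ^ 2 := by
  have h1 : ‖ζ * (w - Y)‖ = ‖w - Y‖ := by rw [norm_mul, hζ, one_mul]
  rw [← h1, Complex.sq_norm, Complex.normSq_apply]
  unfold pvhxS pvhxL
  ring

theorem pvhx_S_sub {ζ : ℂ} (hζ : ‖ζ‖ = 1) (Y w w' : ℂ) : |pvhxS ζ Y w - pvhxS ζ Y w'| ≤ ‖w - w'‖ := by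
  have e : pvhxS ζ Y w - pvhxS ζ Y w' = (ζ * (w - w')).re := by
    unfold pvhxS; rw [← sub_re]; congr 1; ring
  rw [e]
  calc |(ζ * (w - w')).re| ≤ ‖ζ * (w - w')‖ := abs_re_le_norm _
    _ = ‖w - w'‖ := by rw [norm_mul, hζ, one_mul]

theorem pvhx_L_sub {ζ : ℂ} (hζ : ‖ζ‖ = 1) (Y w w' : ℂ) : |pvhxL ζ Y w - pvhxL ζ Y w'| ≤ ‖w - w'‖ := by
  have e : pvhxL ζ Y w - pvhxL ζ Y w' = (ζ * (w - w')).im := by
    unfold pvhxL; rw [← sub_im]; congr 1; ring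
  rw [e]
  calc |(ζ * (w - w')).im| ≤ ‖ζ * (w - w')‖ := abs_im_le_norm _
    _ = ‖w - w'‖ := by rw [norm_mul, hζ, one_mul]

/-- the oriented lateral coordinate: the white side is `t < 0` -/
noncomputable def pvhxT (ζ Y : ℂ) (σ : ℝ) (w : ℂ) : ℝ := σ * pvhxL ζ Y w

theorem pvhx_T_sub {ζ : ℂ} (hζ : ‖ζ‖ = 1) {σ : ℝ} (hσ : σ = 1 ∨ σ = -1) (Y w w' : ℂ) : |pvhxT ζ Y σ w - pvhxT ζ Y σ w'| ≤ ‖w - w'‖ := by
  have h := pvhx_L_sub hζ Y w w'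
  unfold pvhxT
  rcases hσ with rfl | rfl
  · simpa using h
  · have e : -1 * pvhxL ζ Y w - -1 * pvhxL ζ Y w' = -(pvhxL ζ Y w - pvhxL ζ Y w') := by ring
    rw [e, abs_neg]; exact h

theorem pvhx_norm_sq' {ζ : ℂ} (hζ : ‖ζ‖ = 1) {σ : ℝ} (hσ : σ = 1 ∨ σ = -1) (Y w : ℂ) : ‖w - Y‖ ^ 2 = pvhxS ζ Y w ^ 2 + pvhxT ζ Y σ w ^ 2 := by
  rw [pvhx_norm_sq hζ]
  unfold pvhxT
  rcases hσ with rfl | rfl <;> ring

theorem pvhx_abs_T {σ : ℝ} (hσ : σ = 1 ∨ σ = -1) (ζ Y w : ℂ) : |pvhxT ζ Y σ w| = |pvhxL ζ Y w| := by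
  unfold pvhxT
  rcases hσ with rfl | rfl
  · simp
  · simp

/-- `‖w - Y‖ ≤ r` from the coordinates -/
theorem pvhx_norm_le {ζ : ℂ} (hζ : ‖ζ‖ = 1) {σ : ℝ} (hσ : σ = 1 ∨ σ = -1) {Y w : ℂ} {r : ℝ} (hr : 0 ≤ r) (h : pvhxS ζ Y w ^ 2 + pvhxT ζ Y σ w ^ 2 ≤ r ^ 2) : ‖w - Y‖ ≤ r := by
  rw [← pvhx_norm_sq' hζ hσ] at h
  exact (abs_le_of_sq_le_sq' h hr).2

theorem pvhx_S_le_norm {ζ : ℂ} (hζ : ‖ζ‖ = 1) (Y w : ℂ) : |pvhxS ζ Y w| ≤ ‖w - Y‖ := by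
  have := pvhx_S_sub hζ Y w Y
  have e : pvhxS ζ Y Y = 0 := by simp [pvhxS]
  rwa [e, sub_zero] at this

theorem pvhx_T_le_norm {ζ : ℂ} (hζ : ‖ζ‖ = 1) {σ : ℝ} (hσ : σ = 1 ∨ σ = -1) (Y w : ℂ) : |pvhxT ζ Y σ w| ≤ ‖w - Y‖ := by
  have := pvhx_T_sub hζ hσ Y w Y
  have e : pvhxT ζ Y σ Y = 0 := by simp [pvhxT, pvhxL]
  rwa [e, sub_zero] at this

/-- the box `S ∈ [x₀,x₁]`, `t ∈ [y₀,y₁]` -/
def pvhxB (ζ Y : ℂ) (σ x₀ x₁ y₀ y₁ : ℝ) : Set ℂ := {w | x₀ ≤ pvhxS ζ Y w ∧ pvhxS ζ Y w ≤ x₁ ∧ y₀ ≤ pvhxT ζ Y σ w ∧ pvhxT ζ Y σ w ≤ y₁}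

theorem pvhx_S_affine (ζ Y x y : ℂ) {s t : ℝ} (hst : s + t = 1) : pvhxS ζ Y (s • x + t • y) = s * pvhxS ζ Y x + t * pvhxS ζ Y y := by
  have e : ζ * (s • x + t • y - Y) = (s : ℂ) * (ζ * (x - Y)) + (t : ℂ) * (ζ * (y - Y)) := by
    have h1 : (t : ℂ) = 1 - (s : ℂ) := by
      have : ((s + t : ℝ) : ℂ) = 1 := by rw [hst]; simp
      push_cast at this
      linear_combination this
    simp only [real_smul]; rw [h1]; ring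
  unfold pvhxS
  rw [e]; simp

theorem pvhx_L_affine (ζ Y x y : ℂ) {s t : ℝ} (hst : s + t = 1) : pvhxL ζ Y (s • x + t • y) = s * pvhxL ζ Y x + t * pvhxL ζ Y y := by
  have e : ζ * (s • x + t • y - Y) = (s : ℂ) * (ζ * (x - Y)) + (t : ℂ) * (ζ * (y - Y)) := by
    have h1 : (t : ℂ) = 1 - (s : ℂ) := by
      have : ((s + t : ℝ) : ℂ) = 1 := by rw [hst]; simp
      push_cast at this
      linear_combination this
    simp only [real_smul]; rw [h1]; ring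
  unfold pvhxL
  rw [e]; simp

theorem pvhx_B_convex (ζ Y : ℂ) (σ x₀ x₁ y₀ y₁ : ℝ) : Convex ℝ (pvhxB ζ Y σ x₀ x₁ y₀ y₁) := by
  intro x hx y hy s t hs ht hst
  obtain ⟨a1, a2, a3, a4⟩ := hx
  obtain ⟨b1, b2, b3, b4⟩ := hy
  have e1 := pvhx_S_affine ζ Y x y hst
  have e2 : pvhxT ζ Y σ (s • x + t • y) = s * pvhxT ζ Y σ x + t * pvhxT ζ Y σ y := by
    unfold pvhxT; rw [pvhx_L_affine ζ Y x y hst]; ring
  have e : t = 1 - s := by linarith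
  subst e
  refine ⟨?_, ?_, ?_, ?_⟩
  · rw [e1]; nlinarith
  · rw [e1]; nlinarith
  · rw [e2]; nlinarith
  · rw [e2]; nlinarith

/-- a ball in a box -/
theorem pvhx_ball_B {ζ : ℂ} (hζ : ‖ζ‖ = 1) {σ : ℝ} (hσ : σ = 1 ∨ σ = -1) {Y w : ℂ} {x₀ x₁ y₀ y₁ r : ℝ} (h1 : x₀ + r ≤ pvhxS ζ Y w) (h2 : pvhxS ζ Y w + r ≤ x₁)
    (h3 : y₀ + r ≤ pvhxT ζ Y σ w) (h4 : pvhxT ζ Y σ w + r ≤ y₁) : closedBall w r ⊆ pvhxB ζ Y σ x₀ x₁ y₀ y₁ := by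
  intro p hp
  have hn := mem_closedBall_iff_norm.1 hp
  have q1 := abs_le.1 ((pvhx_S_sub hζ Y p w).trans hn)
  have q2 := abs_le.1 ((pvhx_T_sub hζ hσ Y p w).trans hn)
  exact ⟨by linarith [q1.1], by linarith [q1.2], by linarith [q2.1], by linarith [q2.2]⟩

/-- the point of coordinates `(x, y)` -/
noncomputable def pvhxP (ζ Y : ℂ) (σ x y : ℝ) : ℂ := Y + (starRingEnd ℂ) ζ * ((x : ℂ) + ((σ * y : ℝ) : ℂ) * I)

theorem pvhx_conj_mul {ζ : ℂ} (hζ : ‖ζ‖ = 1) : ζ * (starRingEnd ℂ) ζ = 1 := by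
  rw [Complex.mul_conj, Complex.normSq_eq_norm_sq, hζ]; simp

theorem pvhx_P_S {ζ : ℂ} (hζ : ‖ζ‖ = 1) (Y : ℂ) (σ x y : ℝ) : pvhxS ζ Y (pvhxP ζ Y σ x y) = x := by
  unfold pvhxS pvhxP
  rw [add_sub_cancel_left, ← mul_assoc, pvhx_conj_mul hζ, one_mul]; simp

theorem pvhx_P_T {ζ : ℂ} (hζ : ‖ζ‖ = 1) {σ : ℝ} (hσ : σ = 1 ∨ σ = -1) (Y : ℂ) (x y : ℝ) : pvhxT ζ Y σ (pvhxP ζ Y σ x y) = y := by
  unfold pvhxT pvhxL pvhxP
  rw [add_sub_cancel_left, ← mul_assoc, pvhx_conj_mul hζ, one_mul]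
  rcases hσ with rfl | rfl <;> simp

/-! ## 2. the hook at one tip -/

/-- the numbers at one tip: `a = ρ h`, `δc` = side of the cells of the corridor, `ℓ` = upper edge of the far half of the outer lane -/
structure PvhxNum (a δc ℓ : ℝ) : Prop where
  a0 : 0 < a
  δ0 : 0 < δc
  fine : 100 * δc ≤ a
  ℓ_lo : -(a / 10) ≤ ℓ
  ℓ_hi : ℓ ≤ a / 10

/-- **THE HOOK** `P1 ∪ P2 ∪ P3 ∪ P4` -/
def pvhxC (ζ Y : ℂ) (σ a ℓ : ℝ) : Set ℂ :=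
  pvhxB ζ Y σ (-(55 / 100 * a)) (45 / 100 * a) (51 / 100 * a) (55 / 100 * a) ∪ pvhxB ζ Y σ (-(55 / 100 * a)) (-(51 / 100 * a)) (-(55 / 100 * a)) (55 / 100 * a) ∪
    pvhxB ζ Y σ (-(55 / 100 * a)) (83 / 100 * a) (-(55 / 100 * a)) (-(51 / 100 * a)) ∪ pvhxB ζ Y σ (81 / 100 * a) (83 / 100 * a) (-(55 / 100 * a)) ℓ

/-- the free end of the hook: outside the box, on the black side -/
noncomputable def pvhxE (ζ Y : ℂ) (σ a : ℝ) : ℂ := pvhxP ζ Y σ (40 / 100 * a) (53 / 100 * a)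

section hook

variable {ζ Y : ℂ} {σ a δc ℓ : ℝ}

theorem pvhx_C_le (hζ : ‖ζ‖ = 1) (hσ : σ = 1 ∨ σ = -1) (N : PvhxNum a δc ℓ) {w : ℂ} (hw : w ∈ pvhxC ζ Y σ a ℓ) : ‖w - Y‖ ≤ a := by
  have ha := N.a0
  have hl := N.ℓ_hi
  refine pvhx_norm_le hζ hσ ha.le ?_
  have key : ∀ s t : ℝ, -(83 / 100 * a) ≤ s → s ≤ 83 / 100 * a → -(55 / 100 * a) ≤ t → t ≤ 55 / 100 * a → s ^ 2 + t ^ 2 ≤ a ^ 2 := by
    intro s t h1 h2 h3 h4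
    have q1 := sq_le_sq' h1 h2
    have q2 := sq_le_sq' h3 h4
    nlinarith [sq_nonneg a]
  rcases hw with ((⟨h1, h2, h3, h4⟩ | ⟨h1, h2, h3, h4⟩) | ⟨h1, h2, h3, h4⟩) | ⟨h1, h2, h3, h4⟩ <;> exact key _ _ (by linarith) (by linarith) (by linarith) (by linarith)

theorem pvhx_C_ge (hζ : ‖ζ‖ = 1) (hσ : σ = 1 ∨ σ = -1) (N : PvhxNum a δc ℓ) {w : ℂ} (hw : w ∈ pvhxC ζ Y σ a ℓ) : 51 / 100 * a ≤ ‖w - Y‖ := by
  have ha := N.a0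
  have q1 := abs_le.1 (pvhx_S_le_norm hζ Y w)
  have q2 := abs_le.1 (pvhx_T_le_norm hζ hσ Y w)
  rcases hw with ((⟨h1, h2, h3, h4⟩ | ⟨h1, h2, h3, h4⟩) | ⟨h1, h2, h3, h4⟩) | ⟨h1, h2, h3, h4⟩
  · linarith [q2.2]
  · linarith [q1.1]
  · linarith [q2.1]
  · linarith [q1.2]

/-- inside the box (`S ≤ .55 a`) the hook stays within `r₂ = .8 a` -/
theorem pvhx_C_box (hζ : ‖ζ‖ = 1) (hσ : σ = 1 ∨ σ = -1) (N : PvhxNum a δc ℓ) {w : ℂ} (hw : w ∈ pvhxC ζ Y σ a ℓ) (hS : pvhxS ζ Y w ≤ 55 / 100 * a) : ‖w - Y‖ ≤ 4 / 5 * a := by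
  have ha := N.a0
  refine pvhx_norm_le hζ hσ (by positivity) ?_
  have key : ∀ s t : ℝ, -(55 / 100 * a) ≤ s → s ≤ 55 / 100 * a → -(55 / 100 * a) ≤ t → t ≤ 55 / 100 * a → s ^ 2 + t ^ 2 ≤ (4 / 5 * a) ^ 2 := by
    intro s t h1 h2 h3 h4
    have q1 := sq_le_sq' h1 h2
    have q2 := sq_le_sq' h3 h4
    nlinarith [sq_nonneg a]
  rcases hw with ((⟨h1, h2, h3, h4⟩ | ⟨h1, h2, h3, h4⟩) | ⟨h1, h2, h3, h4⟩) | ⟨h1, h2, h3, h4⟩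
  · exact key _ _ (by linarith) (by linarith) (by linarith) (by linarith)
  · exact key _ _ (by linarith) (by linarith) (by linarith) (by linarith)
  · exact key _ _ (by linarith) (by linarith) (by linarith) (by linarith)
  · exfalso; linarith

/-- **THE DOOR OF 53 FOR THE HOOK**, `r₂ = .8 a` -/
theorem pvhx_C_door (hζ : ‖ζ‖ = 1) (hσ : σ = 1 ∨ σ = -1) (N : PvhxNum a δc ℓ) {xB κ μ : ℝ} (hB1 : -(51 / 100 * a) ≤ xB - (ζ * Y).re) (hB2 : xB - (ζ * Y).re ≤ 55 / 100 * a)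
    (hκ : κ + μ < 51 / 100 * a) (hμ0 : 0 ≤ μ) (hμ : μ < a / 100) : PvhwDoorR ζ Y xB κ μ (4 / 5 * a) (-σ) (pvhxC ζ Y σ a ℓ) := by
  have ha := N.a0
  refine ⟨fun w hw hn => ?_, fun w hw hn1 hn2 => ?_⟩
  · rw [← pvhx_L_eq, ← pvhx_abs_T hσ]
    have eS := pvhx_S_eq ζ Y w
    have q1 := abs_le.1 (pvhx_S_le_norm hζ Y w)
    rcases hw with ((⟨h1, h2, h3, h4⟩ | ⟨h1, h2, h3, h4⟩) | ⟨h1, h2, h3, h4⟩) | ⟨h1, h2, h3, h4⟩
    · exact Or.inr (lt_of_lt_of_le (by linarith) (le_abs_self _))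
    · exact Or.inl (by linarith)
    · exact Or.inr (lt_of_lt_of_le (by linarith) (neg_le_abs _))
    · exfalso; linarith [q1.2]
  · rw [← pvhx_L_eq]
    have eS := pvhx_S_eq ζ Y w
    have eT : -σ * pvhxL ζ Y w = -pvhxT ζ Y σ w := by unfold pvhxT; ring
    rw [eT]
    have q1 := abs_le.1 (pvhx_S_le_norm hζ Y w)
    have hsq := pvhx_norm_sq' hζ hσ Y w
    have hbig : (79 / 100 * a) ^ 2 < ‖w - Y‖ ^ 2 := pow_lt_pow_left₀ (by linarith) (by positivity) (by norm_num)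
    have small : ∀ s t : ℝ, -(55 / 100 * a) ≤ s → s ≤ 55 / 100 * a → -(55 / 100 * a) ≤ t → t ≤ 55 / 100 * a → s ^ 2 + t ^ 2 ≤ (79 / 100 * a) ^ 2 := by
      intro s t h1 h2 h3 h4
      have q1 := sq_le_sq' h1 h2
      have q2 := sq_le_sq' h3 h4
      nlinarith [sq_nonneg a]
    rcases hw with ((⟨h1, h2, h3, h4⟩ | ⟨h1, h2, h3, h4⟩) | ⟨h1, h2, h3, h4⟩) | ⟨h1, h2, h3, h4⟩
    · exfalso; linarith [small _ _ h1 (by linarith) (by linarith) h4]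
    · exfalso; linarith [small _ _ h1 (by linarith) h3 h4]
    · have hs : 55 / 100 * a < pvhxS ζ Y w := by
        by_contra hc
        linarith [small _ _ h1 (not_lt.1 hc) h3 (by linarith)]
      exact ⟨by linarith, by linarith⟩
    · exfalso; linarith [q1.2]

/-- **the free end** -/
theorem pvhx_start (hζ : ‖ζ‖ = 1) (hσ : σ = 1 ∨ σ = -1) (ha : 0 < a) {xB κ η : ℝ} (hB : xB - (ζ * Y).re + η ≤ 40 / 100 * a) (hκ : κ + η ≤ 53 / 100 * a) (hη : η ≤ 13 / 100 * a) {w : ℂ}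
    (hw : ‖w - pvhxE ζ Y σ a‖ < η) : xB < (ζ * w).re ∧ ‖w - Y‖ ≤ 4 / 5 * a ∧ κ < σ * ((ζ * w).im - (ζ * Y).im) := by
  have e1 : pvhxS ζ Y (pvhxE ζ Y σ a) = 40 / 100 * a := pvhx_P_S hζ Y σ _ _
  have e2 : pvhxT ζ Y σ (pvhxE ζ Y σ a) = 53 / 100 * a := pvhx_P_T hζ hσ Y _ _
  have q1 := abs_le.1 ((pvhx_S_sub hζ Y w (pvhxE ζ Y σ a)).trans hw.le)
  have q2 := abs_le.1 ((pvhx_T_sub hζ hσ Y w (pvhxE ζ Y σ a)).trans hw.le)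
  have q1' := abs_lt.1 (lt_of_le_of_lt (pvhx_S_sub hζ Y w (pvhxE ζ Y σ a)) hw)
  have q2' := abs_lt.1 (lt_of_le_of_lt (pvhx_T_sub hζ hσ Y w (pvhxE ζ Y σ a)) hw)
  rw [e1] at q1'
  rw [e2] at q2'
  have hE : ‖pvhxE ζ Y σ a - Y‖ ≤ 67 / 100 * a := by
    refine pvhx_norm_le hζ hσ (by positivity) ?_
    rw [e1, e2]; nlinarith [sq_nonneg a]
  refine ⟨by linarith [pvhx_S_eq ζ Y w, q1'.1], ?_, ?_⟩
  · have e : w - Y = (w - pvhxE ζ Y σ a) + (pvhxE ζ Y σ a - Y) := by ring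
    rw [e]
    linarith [norm_add_le (w - pvhxE ζ Y σ a) (pvhxE ζ Y σ a - Y)]
  · rw [← pvhx_L_eq]
    show κ < pvhxT ζ Y σ w
    linarith [q2'.1]

/-- the hook is at distance `> δc / 10` from the inner lanes of the straight link in front of the tip -/
theorem pvhx_C_far_in (hζ : ‖ζ‖ = 1) (hσ : σ = 1 ∨ σ = -1) (N : PvhxNum a δc ℓ) {w q : ℂ} (hw : w ∈ pvhxC ζ Y σ a ℓ) (hq1 : 0 ≤ pvhxS ζ Y q) (hq2 : ℓ + 2 / 10 * δc ≤ pvhxT ζ Y σ q)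
    (hq3 : pvhxT ζ Y σ q ≤ ℓ + 7 / 10 * δc) : δc / 10 < ‖q - w‖ := by
  have ha := N.a0
  have hd := N.δ0
  have hf := N.fine
  have l1 := N.ℓ_lo
  have l2 := N.ℓ_hi
  have q1 := abs_le.1 (pvhx_S_sub hζ Y q w)
  have q2 := abs_le.1 (pvhx_T_sub hζ hσ Y q w)
  rcases hw with ((⟨h1, h2, h3, h4⟩ | ⟨h1, h2, h3, h4⟩) | ⟨h1, h2, h3, h4⟩) | ⟨h1, h2, h3, h4⟩
  · linarith [q2.1]
  · linarith [q1.2]
  · linarith [q2.2]
  · linarith [q2.2]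

/-- two points whose balls lie in one box -/
theorem pvhx_joined_B (hζ : ‖ζ‖ = 1) (hσ : σ = 1 ∨ σ = -1) {x₀ x₁ y₀ y₁ r : ℝ} {R : Set ℂ} (hR : pvhxB ζ Y σ x₀ x₁ y₀ y₁ ⊆ R) {p q : ℂ}
    (p1 : x₀ + r ≤ pvhxS ζ Y p) (p2 : pvhxS ζ Y p + r ≤ x₁) (p3 : y₀ + r ≤ pvhxT ζ Y σ p) (p4 : pvhxT ζ Y σ p + r ≤ y₁)
    (q1 : x₀ + r ≤ pvhxS ζ Y q) (q2 : pvhxS ζ Y q + r ≤ x₁) (q3 : y₀ + r ≤ pvhxT ζ Y σ q) (q4 : pvhxT ζ Y σ q + r ≤ y₁) : JoinedIn (pvljCore r R) p q :=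
  pvlj_joined_convex (pvhx_B_convex ζ Y σ x₀ x₁ y₀ y₁) hR (pvhx_ball_B hζ hσ p1 p2 p3 p4) (pvhx_ball_B hζ hσ q1 q2 q3 q4)

/-- **THE CORE OF THE HOOK IS JOINED** from the free end to any point `e` of the core of the strip `P4` -/
theorem pvhx_C_joined (hζ : ‖ζ‖ = 1) (hσ : σ = 1 ∨ σ = -1) (ha : 0 < a) (hl : -(a / 10) ≤ ℓ) {rc : ℝ} (hrc : rc ≤ a / 100) {R : Set ℂ} (hR : pvhxC ζ Y σ a ℓ ⊆ R) {e : ℂ}
    (he1 : 81 / 100 * a + rc ≤ pvhxS ζ Y e) (he2 : pvhxS ζ Y e + rc ≤ 83 / 100 * a) (he3 : -(55 / 100 * a) + rc ≤ pvhxT ζ Y σ e) (he4 : pvhxT ζ Y σ e + rc ≤ ℓ) :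
    JoinedIn (pvljCore rc R) (pvhxE ζ Y σ a) e := by
  have S0 : pvhxS ζ Y (pvhxE ζ Y σ a) = 40 / 100 * a := pvhx_P_S hζ Y σ _ _
  have T0 : pvhxT ζ Y σ (pvhxE ζ Y σ a) = 53 / 100 * a := pvhx_P_T hζ hσ Y _ _
  have S1 := pvhx_P_S hζ Y σ (-(53 / 100 * a)) (53 / 100 * a)
  have T1 := pvhx_P_T hζ hσ Y (-(53 / 100 * a)) (53 / 100 * a)
  have S2 := pvhx_P_S hζ Y σ (-(53 / 100 * a)) (-(53 / 100 * a))
  have T2 := pvhx_P_T hζ hσ Y (-(53 / 100 * a)) (-(53 / 100 * a))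
  have S3 := pvhx_P_S hζ Y σ (pvhxS ζ Y e) (-(53 / 100 * a))
  have T3 := pvhx_P_T hζ hσ Y (pvhxS ζ Y e) (-(53 / 100 * a))
  have j1 : JoinedIn (pvljCore rc R) (pvhxE ζ Y σ a) (pvhxP ζ Y σ (-(53 / 100 * a)) (53 / 100 * a)) :=
    pvhx_joined_B hζ hσ (Subset.trans (fun w hw => Or.inl (Or.inl (Or.inl hw))) hR) (by rw [S0]; linarith) (by rw [S0]; linarith) (by rw [T0]; linarith) (by rw [T0]; linarith)
      (by rw [S1]; linarith) (by rw [S1]; linarith) (by rw [T1]; linarith) (by rw [T1]; linarith)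
  have j2 : JoinedIn (pvljCore rc R) (pvhxP ζ Y σ (-(53 / 100 * a)) (53 / 100 * a)) (pvhxP ζ Y σ (-(53 / 100 * a)) (-(53 / 100 * a))) :=
    pvhx_joined_B hζ hσ (Subset.trans (fun w hw => Or.inl (Or.inl (Or.inr hw))) hR) (by rw [S1]; linarith) (by rw [S1]; linarith) (by rw [T1]; linarith) (by rw [T1]; linarith)
      (by rw [S2]; linarith) (by rw [S2]; linarith) (by rw [T2]; linarith) (by rw [T2]; linarith)
  have j3 : JoinedIn (pvljCore rc R) (pvhxP ζ Y σ (-(53 / 100 * a)) (-(53 / 100 * a))) (pvhxP ζ Y σ (pvhxS ζ Y e) (-(53 / 100 * a))) :=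
    pvhx_joined_B hζ hσ (Subset.trans (fun w hw => Or.inl (Or.inr hw)) hR) (by rw [S2]; linarith) (by rw [S2]; linarith) (by rw [T2]; linarith) (by rw [T2]; linarith)
      (by rw [S3]; linarith) (by rw [S3]; linarith) (by rw [T3]; linarith) (by rw [T3]; linarith)
  have j4 : JoinedIn (pvljCore rc R) (pvhxP ζ Y σ (pvhxS ζ Y e) (-(53 / 100 * a))) e :=
    pvhx_joined_B hζ hσ (Subset.trans (fun w hw => Or.inr hw) hR) (by rw [S3]; linarith) (by rw [S3]; linarith) (by rw [T3]; linarith) (by rw [T3]; linarith) he1 he2 he3 he4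
  exact ((j1.trans j2).trans j3).trans j4

end hook

/-! ## 3. the abstract hook; the hook of a tip cell off the corners -/

/-- **A HOOK AT ONE TIP**.   `C` = its region, `x` = its free end, `e` = the point where it joins the corridor;   `ε = -1` exit tip, `ε = 1` entrance tip (sign of 53);   box `pvwSq zc Rk`, centre of the tip cell `Y`, `a = ρ h`, `r₂ = .8 a`;
`In0` = the inner lanes of the straight link in front of the tip;   `rc` = radius of the core -/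
structure PvhxHook (zc : ℂ) (Rk : ℝ) (Y : ℂ) (ε a κ μ η rc δc : ℝ) (In0 C : Set ℂ) (x e : ℂ) : Prop where
  le : ∀ w ∈ C, ‖w - Y‖ ≤ a
  ge : ∀ w ∈ C, 51 / 100 * a ≤ ‖w - Y‖
  door : ∀ ζ ∈ pvtzdDir, Rk + (ζ * zc).re < (ζ * Y).re + κ → PvhwDoorRC ζ Y zc Rk κ μ (4 / 5 * a) ε C x η
  box : ∀ w ∈ C, w ∈ pvwSq zc Rk → ‖w - Y‖ ≤ 4 / 5 * a
  start : ∀ w, ‖w - x‖ < η → w ∉ pvwSq zc Rk ∧ ‖w - Y‖ ≤ 4 / 5 * a
  far_in : ∀ w ∈ C, ∀ q ∈ In0, δc / 10 < ‖q - w‖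
  joined : ∀ R, C ⊆ R → JoinedIn (pvljCore rc R) x e

theorem pvhx_not_sq {ζ zc w : ℂ} {Rk : ℝ} (hζ : ζ ∈ pvtzdDir) (h : Rk + (ζ * zc).re < (ζ * w).re) : w ∉ pvwSq zc Rk :=
  fun hw => absurd (pvtzd_sq_le (zc := zc) (r := Rk) hζ hw) (not_le.2 h)

/-- **THE HOOK OF A TIP CELL OFF THE CORNERS**: `ζ₀` is the only side of the box within `κ` of `Y` -/
theorem pvhx_hook_N {ζ₀ zc Y : ℂ} {Rk σ a δc ℓ κ μ η rc : ℝ} (hζ₀ : ζ₀ ∈ pvtzdDir) (hσ : σ = 1 ∨ σ = -1) (N : PvhxNum a δc ℓ)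
    (hside : ∀ ζ ∈ pvtzdDir, Rk + (ζ * zc).re < (ζ * Y).re + κ → ζ = ζ₀) (hB1 : -(51 / 100 * a) ≤ Rk + (ζ₀ * zc).re - (ζ₀ * Y).re) (hB2 : Rk + (ζ₀ * zc).re - (ζ₀ * Y).re + η ≤ 40 / 100 * a)
    (hκ : κ + μ < 51 / 100 * a) (hκη : κ + η ≤ 53 / 100 * a) (hμ0 : 0 ≤ μ) (hμ : μ < a / 100) (hη0 : 0 ≤ η) (hη : η ≤ 13 / 100 * a) (hrc : rc ≤ a / 100) {In0 : Set ℂ}
    (hIn : ∀ q ∈ In0, 0 ≤ pvhxS ζ₀ Y q ∧ ℓ + 2 / 10 * δc ≤ pvhxT ζ₀ Y σ q ∧ pvhxT ζ₀ Y σ q ≤ ℓ + 7 / 10 * δc) {e : ℂ}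
    (he1 : 81 / 100 * a + rc ≤ pvhxS ζ₀ Y e) (he2 : pvhxS ζ₀ Y e + rc ≤ 83 / 100 * a) (he3 : -(55 / 100 * a) + rc ≤ pvhxT ζ₀ Y σ e) (he4 : pvhxT ζ₀ Y σ e + rc ≤ ℓ) :
    PvhxHook zc Rk Y (-σ) a κ μ η rc δc In0 (pvhxC ζ₀ Y σ a ℓ) (pvhxE ζ₀ Y σ a) e := by
  have hn := pvtzd_dir_norm hζ₀
  have ha := N.a0
  refine ⟨fun w hw => pvhx_C_le hn hσ N hw, fun w hw => pvhx_C_ge hn hσ N hw, fun ζ hζ hadm => ?_, fun w hw hb => ?_, fun w hw => ?_, fun w hw q hq => ?_,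
    fun R hR => pvhx_C_joined hn hσ ha N.ℓ_lo hrc hR he1 he2 he3 he4⟩
  · obtain rfl := hside ζ hζ hadm
    have D := pvhx_C_door (Y := Y) hn hσ N (xB := Rk + (ζ * zc).re) hB1 (by linarith) hκ hμ0 hμ
    refine ⟨D.front, fun w hw h1 h2 => ⟨pvhx_not_sq hζ (D.collar w hw h1 h2).1, (D.collar w hw h1 h2).2⟩, fun w hw => ?_⟩
    have := (pvhx_start (Y := Y) hn hσ ha (xB := Rk + (ζ * zc).re) hB2 hκη hη hw).2.2
    linarith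
  · refine pvhx_C_box hn hσ N hw ?_
    have := pvtzd_sq_le (zc := zc) (r := Rk) hζ₀ hb
    rw [pvhx_S_eq]; linarith
  · have := pvhx_start (Y := Y) hn hσ ha (xB := Rk + (ζ₀ * zc).re) hB2 hκη hη hw
    exact ⟨pvhx_not_sq hζ₀ this.1, this.2.1⟩
  · obtain ⟨q1, q2, q3⟩ := hIn q hq
    exact pvhx_C_far_in hn hσ N hw q1 q2 q3

/-! ## 4. THE ASSEMBLY: two hooks and the far half of the outer lane -/

/-- **THE HOOKED CORRIDOR**: hook at `t`, the far half of the outer lane in the cells `j₀ .. j₁`, hook at `s` -/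
def pvhxR (Ct Cs : Set ℂ) (z d : ℂ) (l : List PvtTurn) (j₀ j₁ : ℕ) : Set ℂ := Ct ∪ pvljSeg (-(4 / 10)) (-(3 / 10)) z d l j₀ j₁ ∪ Cs

/-- **what is asked of the corridor between the two hooks** (`Int`, `Ins` = inner lanes of the two straight links, `H` = hull region) -/
structure PvhxCor (zt zs : ℂ) (Rt Rs : ℝ) (yt ys : ℂ) (a μ : ℝ) (z d : ℂ) (l : List PvtTurn) (j₀ j₁ : ℕ) (Int Ins H : Set ℂ) : Prop where
  a0 : 0 < a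
  μ0 : 0 ≤ μ
  μ1 : μ < a / 100
  d0 : d ≠ 0
  fine : 100 * ‖d‖ ≤ a
  simple : PvccSimple l l.length
  nr : PvfeNR l
  j0 : 0 < j₀
  j01 : j₀ ≤ j₁
  j1 : j₁ + 1 < l.length
  far_t : ∀ i, j₀ ≤ i → i ≤ j₁ → 4 / 5 * a + μ + ‖d‖ < ‖pvccC z d l i - yt‖
  far_s : ∀ i, j₀ ≤ i → i ≤ j₁ → 4 / 5 * a + μ + ‖d‖ < ‖pvccC z d l i - ys‖
  in_t : ∀ q ∈ pvfeLanes (-(1 / 10)) (4 / 10) z d l, q ∈ Int ∨ a + ‖d‖ / 10 < ‖q - yt‖
  in_s : ∀ q ∈ pvfeLanes (-(1 / 10)) (4 / 10) z d l, q ∈ Ins ∨ a + ‖d‖ / 10 < ‖q - ys‖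
  sep : 3 * a ≤ ‖yt - ys‖
  box_t : ∀ i, j₀ ≤ i → i ≤ j₁ → ∀ w ∈ closedBall (pvccC z d l i) ‖d‖, w ∈ H → w ∉ pvwSq zt Rt
  box_s : ∀ i, j₀ ≤ i → i ≤ j₁ → ∀ w ∈ closedBall (pvccC z d l i) ‖d‖, w ∈ H → w ∉ pvwSq zs Rs
  off_t : ∀ w, ‖w - ys‖ ≤ a → w ∉ pvwSq zt Rt
  off_s : ∀ w, ‖w - yt‖ ≤ a → w ∉ pvwSq zs Rs

theorem pvhx_tri (a b c : ℂ) : ‖a - c‖ ≤ ‖a - b‖ + ‖b - c‖ := by
  have e : a - c = (a - b) + (b - c) := by ring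
  rw [e]; exact norm_add_le _ _

section asm

variable {zt zs : ℂ} {Rt Rs : ℝ} {yt ys : ℂ} {a κ μ η rc : ℝ} {z d : ℂ} {l : List PvtTurn} {j₀ j₁ : ℕ} {Int Ins H Ct Cs : Set ℂ} {x y : ℂ}

/-- a point of a lane cell of the corridor -/
theorem PvhxCor.seg (K : PvhxCor zt zs Rt Rs yt ys a μ z d l j₀ j₁ Int Ins H) {w : ℂ} (hw : w ∈ pvljSeg (-(4 / 10)) (-(3 / 10)) z d l j₀ j₁) :
    ∃ i, j₀ ≤ i ∧ i ≤ j₁ ∧ w ∈ closedBall (pvccC z d l i) ‖d‖ ∧ 4 / 5 * a + μ < ‖w - yt‖ ∧ 4 / 5 * a + μ < ‖w - ys‖ := by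
  obtain ⟨i, hi, hwi⟩ := mem_iUnion₂.1 hw
  obtain ⟨i1, i2⟩ := Finset.mem_Icc.1 hi
  have hb := pvfe_K_sub_ball (by norm_num) (by norm_num) z d l i hwi
  have hn := mem_closedBall_iff_norm.1 hb
  rw [norm_sub_rev] at hn
  exact ⟨i, i1, i2, hb, by linarith [K.far_t i i1 i2, pvhx_tri (pvccC z d l i) w yt], by linarith [K.far_s i i1 i2, pvhx_tri (pvccC z d l i) w ys]⟩

/-- **(A) THE CORE IS JOINED** -/
theorem pvhx_R_core (K : PvhxCor zt zs Rt Rs yt ys a μ z d l j₀ j₁ Int Ins H)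
    (Ht : PvhxHook zt Rt yt (-1) a κ μ η rc ‖d‖ Int Ct x (pvljMid (-(35 / 100)) z d l j₀)) (Hs : PvhxHook zs Rs ys 1 a κ μ η rc ‖d‖ Ins Cs y (pvljMid (-(35 / 100)) z d l j₁))
    (hrc : rc ≤ 1 / 20 * ‖d‖) : JoinedIn (pvljCore rc (pvhxR Ct Cs z d l j₀ j₁)) x y := by
  have e1 := Ht.joined (pvhxR Ct Cs z d l j₀ j₁) fun w hw => Or.inl (Or.inl hw)
  have e3 := Hs.joined (pvhxR Ct Cs z d l j₀ j₁) fun w hw => Or.inr hw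
  have e2 : JoinedIn (pvljCore (1 / 20 * ‖d‖) (pvhxR Ct Cs z d l j₀ j₁)) (pvljMid (-(35 / 100)) z d l j₀) (pvljMid (-(35 / 100)) z d l j₁) :=
    pvlj_cells_core (a := -(4 / 10)) (b := -(3 / 10)) (by norm_num) (by norm_num) (by norm_num) (by norm_num) (by norm_num) (by norm_num) z K.d0 l K.j01 (by have := K.j1; omega)
      fun i q1 q2 => (pvlj_K_sub_seg _ _ z d l q1 q2).trans fun w hw => Or.inl (Or.inr hw)
  exact (e1.trans (pvlj_joined_anti hrc e2)).trans e3.symm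

/-- a hook lies in `Yout` -/
theorem pvhx_hook_out {zc : ℂ} {Rk ε : ℝ} {Y Y' : ℂ} {In0 C : Set ℂ} {x e : ℂ} (ha : 0 < a) (hd : d ≠ 0) (hf : 100 * ‖d‖ ≤ a) (Hk : PvhxHook zc Rk Y ε a κ μ η rc ‖d‖ In0 C x e)
    (hin : ∀ q ∈ pvfeLanes (-(1 / 10)) (4 / 10) z d l, q ∈ In0 ∨ a + ‖d‖ / 10 < ‖q - Y‖) (hsep : 3 * a ≤ ‖Y - Y'‖) {w : ℂ} (hw : w ∈ C) :
    (∀ q ∈ pvfeLanes (-(1 / 10)) (4 / 10) z d l, ‖d‖ / 10 < ‖q - w‖) ∧ (∀ q ∈ closedBall Y (a / 2), ‖d‖ / 10 < ‖q - w‖) ∧ ∀ q ∈ closedBall Y' (a / 2), ‖d‖ / 10 < ‖q - w‖ := by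
  have hd0 : 0 < ‖d‖ := norm_pos_iff.2 hd
  have h1 := Hk.le w hw
  have h2 := Hk.ge w hw
  refine ⟨fun q hq => ?_, fun q hq => ?_, fun q hq => ?_⟩
  · rcases hin q hq with h | h
    · exact Hk.far_in w hw q h
    · linarith [pvhx_tri q w Y]
  · have h3 := mem_closedBall_iff_norm.1 hq
    have h4 := pvhx_tri w q Y
    rw [norm_sub_rev w q] at h4
    linarith
  · have h3 := mem_closedBall_iff_norm.1 hq
    have h4 := pvhx_tri Y w Y'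
    have h5 := pvhx_tri w q Y'
    rw [norm_sub_rev Y w] at h4
    rw [norm_sub_rev w q] at h5
    linarith

/-- **(B) THE HOOKED CORRIDOR LIES IN `Yout`** -/
theorem pvhx_R_out (K : PvhxCor zt zs Rt Rs yt ys a μ z d l j₀ j₁ Int Ins H) {et es : ℂ}
    (Ht : PvhxHook zt Rt yt (-1) a κ μ η rc ‖d‖ Int Ct x et) (Hs : PvhxHook zs Rs ys 1 a κ μ η rc ‖d‖ Ins Cs y es) :
    pvhxR Ct Cs z d l j₀ j₁ ⊆ pvfeOut (a / 2) a ys yt z d l := by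
  have hd0 : 0 < ‖d‖ := norm_pos_iff.2 K.d0
  have ha := K.a0
  have hμ := K.μ0
  have hf := K.fine
  rintro w ((hw | hw) | hw)
  · obtain ⟨q1, q2, q3⟩ := pvhx_hook_out (z := z) (l := l) ha K.d0 K.fine Ht K.in_t K.sep hw
    refine ⟨Or.inl (Or.inr (mem_closedBall_iff_norm.2 (Ht.le w hw))), pvlj_not_mem_cthickening (pvlj_in_closed _ ys yt z K.d0 l) (by positivity) ?_⟩
    rintro q ((hq | hq) | hq)
    · exact q1 q hq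
    · exact q2 q hq
    · exact q3 q hq
  · exact pvlj_seg_out K.d0 K.simple K.nr K.j0 K.j1 (fun i i1 i2 => by linarith [K.far_t i i1 i2]) (fun i i1 i2 => by linarith [K.far_s i i1 i2]) hw
  · obtain ⟨q1, q2, q3⟩ := pvhx_hook_out (z := z) (l := l) (Y' := yt) ha K.d0 K.fine Hs K.in_s (by rw [norm_sub_rev]; exact K.sep) hw
    refine ⟨Or.inr (mem_closedBall_iff_norm.2 (Hs.le w hw)), pvlj_not_mem_cthickening (pvlj_in_closed _ ys yt z K.d0 l) (by positivity) ?_⟩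
    rintro q ((hq | hq) | hq)
    · exact q1 q hq
    · exact q3 q hq
    · exact q2 q hq

/-- the collar of the hooked corridor lies in `Yreg` -/
theorem pvhx_R_collar (K : PvhxCor zt zs Rt Rs yt ys a μ z d l j₀ j₁ Int Ins H) {et es : ℂ}
    (Ht : PvhxHook zt Rt yt (-1) a κ μ η rc ‖d‖ Int Ct x et) (Hs : PvhxHook zs Rs ys 1 a κ μ η rc ‖d‖ Ins Cs y es) {t : ℝ} (ht : t ≤ 2 * ‖d‖) {w : ℂ} (hw : w ∈ pvhxR Ct Cs z d l j₀ j₁) :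
    closedBall w t ⊆ pvfeBody a 3 ys yt z d l := by
  have hd0 : 0 < ‖d‖ := norm_pos_iff.2 K.d0
  intro p hp
  have hp' := mem_closedBall_iff_norm.1 hp
  rcases hw with (hw | hw) | hw
  · exact Or.inl (Or.inr (mem_closedBall_iff_norm.2 (by linarith [pvhx_tri p w yt, Ht.le w hw])))
  · obtain ⟨i, i1, i2, hb, -, -⟩ := K.seg hw
    have hb' := mem_closedBall_iff_norm.1 hb
    exact Or.inl (Or.inl (pvfe_mem_tube.2 ⟨i, by have := K.j1; omega, by linarith [pvhx_tri p w (pvccC z d l i)]⟩))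
  · exact Or.inr (mem_closedBall_iff_norm.2 (by linarith [pvhx_tri p w ys, Hs.le w hw]))

/-- the door of a hook is a door of the whole corridor: the rest of the corridor is beyond `r₂ + μ` -/
theorem pvhx_door_mono {ζ c zc : ℂ} {Rk ε r₂ : ℝ} {C R : Set ℂ} (D : PvhwDoorRC ζ c zc Rk κ μ r₂ ε C x η) (hμ : 0 ≤ μ) (hR : ∀ w ∈ R, w ∈ C ∨ r₂ + μ < ‖w - c‖) : PvhwDoorRC ζ c zc Rk κ μ r₂ ε R x η := by
  refine ⟨fun w hw h1 => ?_, fun w hw h1 h2 => ?_, D.ends⟩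
  · rcases hR w hw with h | h
    · exact D.front w h h1
    · exfalso; linarith
  · rcases hR w hw with h | h
    · exact D.collar w h h1 h2
    · exfalso; linarith

theorem pvhx_R_near_t (K : PvhxCor zt zs Rt Rs yt ys a μ z d l j₀ j₁ Int Ins H) {es : ℂ} (Hs : PvhxHook zs Rs ys 1 a κ μ η rc ‖d‖ Ins Cs y es) :
    ∀ w ∈ pvhxR Ct Cs z d l j₀ j₁, w ∈ Ct ∨ 4 / 5 * a + μ < ‖w - yt‖ := by
  have ha := K.a0
  have hμ := K.μ1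
  rintro w ((hw | hw) | hw)
  · exact Or.inl hw
  · obtain ⟨i, -, -, -, h, -⟩ := K.seg hw
    exact Or.inr h
  · right
    have h4 := pvhx_tri yt w ys
    rw [norm_sub_rev yt w] at h4
    linarith [K.sep, Hs.le w hw]

theorem pvhx_R_near_s (K : PvhxCor zt zs Rt Rs yt ys a μ z d l j₀ j₁ Int Ins H) {et : ℂ} (Ht : PvhxHook zt Rt yt (-1) a κ μ η rc ‖d‖ Int Ct x et) :
    ∀ w ∈ pvhxR Ct Cs z d l j₀ j₁, w ∈ Cs ∨ 4 / 5 * a + μ < ‖w - ys‖ := by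
  have ha := K.a0
  have hμ := K.μ1
  rintro w ((hw | hw) | hw)
  · right
    have h4 := pvhx_tri yt w ys
    rw [norm_sub_rev yt w] at h4
    linarith [K.sep, Ht.le w hw]
  · obtain ⟨i, -, -, -, -, h⟩ := K.seg hw
    exact Or.inr h
  · exact Or.inl hw

/-- **(C) `PvhwRegC` OF 53**, `r₂ = .8 a`, `κ' = κ₀ + 2 δ`, `μ = 2 δ` -/
theorem pvhx_regC {κ₀ δ r r₁ : ℝ} (K : PvhxCor zt zs Rt Rs yt ys a (2 * δ) z d l j₀ j₁ Int Ins H) {et es : ℂ}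
    (Ht : PvhxHook zt Rt yt (-1) a (κ₀ + 2 * δ) (2 * δ) η rc ‖d‖ Int Ct x et) (Hs : PvhxHook zs Rs ys 1 a (κ₀ + 2 * δ) (2 * δ) η rc ‖d‖ Ins Cs y es)
    (hδ : 0 < δ) (num1 : 3 * r₁ + 2 * δ ≤ r) (num2 : κ₀ + 2 * δ ≤ 4 / 5 * a) (num3 : κ₀ + 2 * δ + 4 / 5 * a + 5 * δ ≤ r₁) (big_t : κ₀ + 2 * δ + 4 / 5 * a ≤ 2 * Rt) (big_s : κ₀ + 2 * δ + 4 / 5 * a ≤ 2 * Rs) :
    PvhwRegC zt zs Rt Rs yt ys κ₀ δ r r₁ (4 / 5 * a) η (pvhxR Ct Cs z d l j₀ j₁) H x y where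
  mesh_pos := hδ
  num1 := num1
  num2 := num2
  num3 := num3
  big_t := big_t
  big_s := big_s
  sep := by linarith [K.sep, K.a0]
  door_t := fun ζ hζ hadm => pvhx_door_mono (Ht.door ζ hζ hadm) K.μ0 (pvhx_R_near_t K Hs)
  door_s := fun ζ hζ hadm => pvhx_door_mono (Hs.door ζ hζ hadm) K.μ0 (pvhx_R_near_s K Ht)
  box_t := by
    rintro w ((hw | hw) | hw) hH hb
    · exact Ht.box w hw hb
    · obtain ⟨i, i1, i2, h, -, -⟩ := K.seg hw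
      exact absurd hb (K.box_t i i1 i2 w h hH)
    · exact absurd hb (K.off_t w (Hs.le w hw))
  box_s := by
    rintro w ((hw | hw) | hw) hH hb
    · exact absurd hb (K.off_s w (Ht.le w hw))
    · obtain ⟨i, i1, i2, h, -, -⟩ := K.seg hw
      exact absurd hb (K.box_s i i1 i2 w h hH)
    · exact Hs.box w hw hb
  start := Ht.start
  stop := Hs.start

end asm

/-! ## 5. `PvhwRegOkC`, the bounding ball, the straight link seen from a hook -/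

theorem pvhx_sq_of_norm {w zc : ℂ} {Rk : ℝ} (h : ‖w - zc‖ ≤ Rk) : w ∈ pvwSq zc Rk := ⟨(abs_re_le_norm _).trans h, (abs_im_le_norm _).trans h⟩

section asm2

variable {zt zs : ℂ} {Rt Rs : ℝ} {yt ys : ℂ} {a κ μ η rc : ℝ} {z d : ℂ} {l : List PvtTurn} {j₀ j₁ : ℕ} {Int Ins H Ct Cs : Set ℂ} {x y et es : ℂ}

/-- the hooked corridor, inside the hull region, is off the gate disc of `t` -/
theorem pvhx_R_core_t (K : PvhxCor zt zs Rt Rs yt ys a μ z d l j₀ j₁ Int Ins H) (Ht : PvhxHook zt Rt yt (-1) a κ μ η rc ‖d‖ Int Ct x et) (Hs : PvhxHook zs Rs ys 1 a κ μ η rc ‖d‖ Ins Cs y es)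
    {bt : ℝ} (hb : bt ≤ Rt) (hg : a + bt ≤ ‖yt - zt‖) : ∀ w ∈ pvhxR Ct Cs z d l j₀ j₁, w ∈ H → bt ≤ ‖w - zt‖ := by
  rintro w ((hw | hw) | hw) hH
  · have h4 := pvhx_tri yt w zt
    rw [norm_sub_rev yt w] at h4
    linarith [Ht.le w hw]
  · obtain ⟨i, i1, i2, h, -, -⟩ := K.seg hw
    by_contra hc
    exact K.box_t i i1 i2 w h hH (pvhx_sq_of_norm ((not_le.1 hc).le.trans hb))
  · by_contra hc
    exact K.off_t w (Hs.le w hw) (pvhx_sq_of_norm ((not_le.1 hc).le.trans hb))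

theorem pvhx_R_core_s (K : PvhxCor zt zs Rt Rs yt ys a μ z d l j₀ j₁ Int Ins H) (Ht : PvhxHook zt Rt yt (-1) a κ μ η rc ‖d‖ Int Ct x et) (Hs : PvhxHook zs Rs ys 1 a κ μ η rc ‖d‖ Ins Cs y es)
    {bs : ℝ} (hb : bs ≤ Rs) (hg : a + bs ≤ ‖ys - zs‖) : ∀ w ∈ pvhxR Ct Cs z d l j₀ j₁, w ∈ H → bs ≤ ‖w - zs‖ := by
  rintro w ((hw | hw) | hw) hH
  · by_contra hc
    exact K.off_s w (Ht.le w hw) (pvhx_sq_of_norm ((not_le.1 hc).le.trans hb))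
  · obtain ⟨i, i1, i2, h, -, -⟩ := K.seg hw
    by_contra hc
    exact K.box_s i i1 i2 w h hH (pvhx_sq_of_norm ((not_le.1 hc).le.trans hb))
  · have h4 := pvhx_tri ys w zs
    rw [norm_sub_rev ys w] at h4
    linarith [Hs.le w hw]

/-- **(F) THE BOUNDING BALL** -/
theorem pvhx_R_ball (K : PvhxCor zt zs Rt Rs yt ys a μ z d l j₀ j₁ Int Ins H) (Ht : PvhxHook zt Rt yt (-1) a κ μ η rc ‖d‖ Int Ct x et) (Hs : PvhxHook zs Rs ys 1 a κ μ η rc ‖d‖ Ins Cs y es)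
    {B : ℝ} (h1 : ‖yt - z‖ + a ≤ B) (h2 : ‖ys - z‖ + a ≤ B) (h3 : (l.length + 1) * ‖d‖ ≤ B) : pvhxR Ct Cs z d l j₀ j₁ ⊆ closedBall z B := by
  rintro w ((hw | hw) | hw)
  · exact mem_closedBall_iff_norm.2 (by linarith [pvhx_tri w yt z, Ht.le w hw])
  · exact closedBall_subset_closedBall h3 (pvlj_lanes_ball (by norm_num) (by norm_num) z d l (pvlj_seg_sub_lanes _ _ z d l (by have := K.j1; omega) hw))
  · exact mem_closedBall_iff_norm.2 (by linarith [pvhx_tri w ys z, Hs.le w hw])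

end asm2

/-- **(E) `PvhwRegOkC` OF 53 AT THE REGIONS OF RECORD** `pvfeRegAt` -/
theorem pvhx_regOkC {τ : Type} (Γ : PvtsGeo τ) (ty : τ → PvwTy) (cp cm : τ → Set ℂ) (N : PvwNum) (h : ℝ) (p : PvtsPat τ) {Rt Rs κ μ η rc δ r : ℝ} {j₀ j₁ : ℕ} {Int Ins H Ct Cs : Set ℂ} {x y et es : ℂ}
    (K : PvhxCor p.zt p.zs Rt Rs ((ty p.tt).cp h p.zt) ((ty p.ts).cm h p.zs) (N.rho * h) μ (pvfeZ Γ p) (pvfeD Γ p) p.l j₀ j₁ Int Ins H)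
    (Ht : PvhxHook p.zt Rt ((ty p.tt).cp h p.zt) (-1) (N.rho * h) κ μ η rc ‖pvfeD Γ p‖ Int Ct x et) (Hs : PvhxHook p.zs Rs ((ty p.ts).cm h p.zs) 1 (N.rho * h) κ μ η rc ‖pvfeD Γ p‖ Ins Cs y es)
    (hδ : δ ≤ ‖pvfeD Γ p‖) (hδ0 : 0 ≤ δ) (hr : N.rho * h ≤ r) (bt : (ty p.tt).b * h ≤ Rt) (bs : (ty p.ts).b * h ≤ Rs)
    (gate_t : r + 4 * δ + (ty p.tt).b * h ≤ ‖(ty p.tt).cp h p.zt - p.zt‖) (gate_s : r + 4 * δ + (ty p.ts).b * h ≤ ‖(ty p.ts).cm h p.zs - p.zs‖) :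
    PvhwRegOkC N h (pvfeRegAt Γ ty cp cm N h p) δ r (pvhxR Ct Cs (pvfeZ Γ p) (pvfeD Γ p) p.l j₀ j₁) H where
  gate_t := gate_t
  gate_s := gate_s
  core_t := pvhx_R_core_t (bt := (ty p.tt).b * h) K Ht Hs bt (by linarith)
  core_s := pvhx_R_core_s (bs := (ty p.ts).b * h) K Ht Hs bs (by linarith)
  out := pvhx_R_out K Ht Hs
  collar := fun w hw => pvhx_R_collar K Ht Hs (by linarith) hw

/-- **THE STRAIGHT LINK IN FRONT OF A TIP, SEEN FROM THE HOOK** (frame `ζ₀`, `Y`, `σ`): `In0` = its inner lanes, `e` = the middle of the far half of the outer lane in the junction cell, `ℓ` = upper edge of that lane -/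
structure PvhxLink (ζ₀ Y : ℂ) (σ a δc ℓ rc : ℝ) (In0 : Set ℂ) (e : ℂ) : Prop where
  num : PvhxNum a δc ℓ
  inn : ∀ q ∈ In0, 0 ≤ pvhxS ζ₀ Y q ∧ ℓ + 2 / 10 * δc ≤ pvhxT ζ₀ Y σ q ∧ pvhxT ζ₀ Y σ q ≤ ℓ + 7 / 10 * δc
  e1 : 81 / 100 * a + rc ≤ pvhxS ζ₀ Y e
  e2 : pvhxS ζ₀ Y e + rc ≤ 83 / 100 * a
  e3 : -(55 / 100 * a) + rc ≤ pvhxT ζ₀ Y σ e
  e4 : pvhxT ζ₀ Y σ e + rc ≤ ℓ

/-- the hook of a tip cell off the corners, from the link -/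
theorem PvhxLink.hook_N {ζ₀ zc Y : ℂ} {Rk σ a δc ℓ κ μ η rc : ℝ} {In0 : Set ℂ} {e : ℂ} (L : PvhxLink ζ₀ Y σ a δc ℓ rc In0 e) (hζ₀ : ζ₀ ∈ pvtzdDir) (hσ : σ = 1 ∨ σ = -1)
    (hside : ∀ ζ ∈ pvtzdDir, Rk + (ζ * zc).re < (ζ * Y).re + κ → ζ = ζ₀) (hB1 : -(51 / 100 * a) ≤ Rk + (ζ₀ * zc).re - (ζ₀ * Y).re) (hB2 : Rk + (ζ₀ * zc).re - (ζ₀ * Y).re + η ≤ 40 / 100 * a)
    (hκ : κ + μ < 51 / 100 * a) (hκη : κ + η ≤ 53 / 100 * a) (hμ0 : 0 ≤ μ) (hμ : μ < a / 100) (hη0 : 0 ≤ η) (hη : η ≤ 13 / 100 * a) (hrc : rc ≤ a / 100) :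
    PvhxHook zc Rk Y (-σ) a κ μ η rc δc In0 (pvhxC ζ₀ Y σ a ℓ) (pvhxE ζ₀ Y σ a) e :=
  pvhx_hook_N hζ₀ hσ L.num hside hB1 hB2 hκ hκη hμ0 hμ hη0 hη hrc L.inn L.e1 L.e2 L.e3 L.e4

theorem pvhx_eqns_cite : True := by
  have := @pvhxS.eq_1; have := @pvhxL.eq_1; have := @pvhxT.eq_1; have := @pvhxB.eq_1; have := @pvhxP.eq_1; have := @pvhxC.eq_1; have := @pvhxE.eq_1; have := @pvhxR.eq_1
  trivial

end Claimed.Agent.R289
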