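-- KEEP
import Claimed.Agent.R289.Tr.HookWR

/-!
# Row 289 (S0537), THE WALL, E10, file Tr/HookWRC : THE HOOKS OF THE CORNER CELLS, AND THE HOOK OF ANY TIP CELL      (helper131, on the frame of helper221; prefix `pvhxk_`, defs `pvhxK*`)

INSTANCES of the record `PvhxHook` of `Tr/HookWR` (221) at the tip cells near a CORNER of the box `pvwSq zc Rk`: two sides of the box pass within `κ` of the centre `Y`, and `PvhxHook.door` asks a door (form C of 53, `PvhwDoorRC`) for both.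
FRAME of 221: `S = pvhxS ζ₀ Y`, `t = pvhxT ζ₀ Y σ` (white side `t < 0`).   LATERAL DIRECTIONS: `pvhxKw ζ₀ τ = τ i ζ₀`: `τ = σ` = outer normal `-t` (WHITE side), `τ = -σ` = outer normal `+t` (BLACK side).
* (W) second side on the white side: box `= {S ≤ x₀, -t ≤ x_w}`.   The collar must be crossed at `S < -κ`, `t < -κ`:
      `[-.55,.45]×[.51,.55]`, `[-.55,-.51]×[-.83,.55]`, `[-.55,.55]×[-.83,-.81]`, the diagonal piece `{1.33 ≤ S - t ≤ 1.37, |S + t| ≤ .31}`, `[.81,.83]×[-.55,ℓ]`      (unit `a`);   free end `(.40,.53)` = `pvhxE`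
* (B) second side on the black side: box `= {S ≤ x₀, t ≤ x_b}`.   The free end must have `S < -κ`, `t > κ`:
      `[-.55,-.51]×[-.55,.45]`, `[-.55,.83]×[-.55,-.51]`, `[.81,.83]×[-.55,ℓ]`;   free end `(-.53,.40)`
* **`pvhxk_hook_W`**, **`pvhxk_hook_B`**: the two instances;   **`pvhxk_hook_any`**: `∃ C x, PvhxHook …` at EVERY tip cell (cases inside; no clause on the sides is asked, only `Y` within `.51 a` of the box, the door side within `.4 a - η`, `κ + .55 a ≤ 2 Rk`).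
-/

set_option autoImplicit false
set_option linter.unusedVariables false

namespace Claimed.Agent.R289

open Set Metric Complex

/-! ## 1. the lateral directions -/

/-- the lateral direction `τ i ζ` -/
noncomputable def pvhxKw (ζ : ℂ) (τ : ℝ) : ℂ := (τ : ℂ) * I * ζ

theorem pvhxk_S (ζ Y w : ℂ) (τ : ℝ) : pvhxS (pvhxKw ζ τ) Y w = -(τ * pvhxL ζ Y w) := by
  unfold pvhxS pvhxL pvhxKw
  rw [mul_assoc, mul_assoc]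
  simp [Complex.mul_re, Complex.mul_im]
  ring

theorem pvhxk_L (ζ Y w : ℂ) (τ : ℝ) : pvhxL (pvhxKw ζ τ) Y w = τ * pvhxS ζ Y w := by
  unfold pvhxS pvhxL pvhxKw
  rw [mul_assoc, mul_assoc]
  simp [Complex.mul_re, Complex.mul_im]

theorem pvhxk_mem {ζ : ℂ} (h : ζ ∈ pvtzdDir) {τ : ℝ} (hτ : τ = 1 ∨ τ = -1) : pvhxKw ζ τ ∈ pvtzdDir := by
  rcases hτ with rfl | rfl
  · simpa [pvhxKw] using (pvhw_dir_rot h).2
  · simpa [pvhxKw] using (pvhw_dir_rot h).1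

theorem pvhxk_cases {ζ₀ ζ : ℂ} (h : ζ₀ ∈ pvtzdDir) (h' : ζ ∈ pvtzdDir) {σ : ℝ} (hσ : σ = 1 ∨ σ = -1) : ζ = ζ₀ ∨ ζ = -ζ₀ ∨ ζ = pvhxKw ζ₀ σ ∨ ζ = pvhxKw ζ₀ (-σ) := by
  rcases pvhw_dir_cases h h' with e | e | e | e
  · exact Or.inl e
  · exact Or.inr (Or.inl e)
  · rcases hσ with rfl | rfl
    · exact Or.inr (Or.inr (Or.inr (by rw [e]; simp [pvhxKw])))
    · exact Or.inr (Or.inr (Or.inl (by rw [e]; simp [pvhxKw])))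
  · rcases hσ with rfl | rfl
    · exact Or.inr (Or.inr (Or.inl (by rw [e]; simp [pvhxKw])))
    · exact Or.inr (Or.inr (Or.inr (by rw [e]; simp [pvhxKw])))

/-- position of the side `ζ` of the box in front of `Y` -/
theorem pvhxk_side (ζ zc Y : ℂ) (Rk : ℝ) : Rk + (ζ * zc).re - (ζ * Y).re = Rk + pvhxS ζ Y zc := by rw [pvhx_S_eq]; ring

theorem pvhxk_SW (ζ Y w : ℂ) (σ : ℝ) : pvhxS (pvhxKw ζ σ) Y w = -pvhxT ζ Y σ w := by rw [pvhxk_S]; rfl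
theorem pvhxk_SB (ζ Y w : ℂ) (σ : ℝ) : pvhxS (pvhxKw ζ (-σ)) Y w = pvhxT ζ Y σ w := by rw [pvhxk_S]; unfold pvhxT; ring
theorem pvhxk_SN (ζ Y w : ℂ) : pvhxS (-ζ) Y w = -pvhxS ζ Y w := by unfold pvhxS; rw [neg_mul, neg_re]

section sides

variable {ζ₀ zc Y w : ℂ} {Rk σ : ℝ}

theorem pvhxk_out (hζ : ζ₀ ∈ pvtzdDir) (h : Rk + pvhxS ζ₀ Y zc < pvhxS ζ₀ Y w) : w ∉ pvwSq zc Rk :=
  pvhx_not_sq hζ (by rw [pvhx_S_eq, pvhx_S_eq] at h; linarith)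

theorem pvhxk_outW (hζ : ζ₀ ∈ pvtzdDir) (hσ : σ = 1 ∨ σ = -1) (h : Rk - pvhxT ζ₀ Y σ zc < -pvhxT ζ₀ Y σ w) : w ∉ pvwSq zc Rk :=
  pvhxk_out (Y := Y) (pvhxk_mem hζ hσ) (by rw [pvhxk_SW, pvhxk_SW]; linarith)

theorem pvhxk_outB (hζ : ζ₀ ∈ pvtzdDir) (hσ : σ = 1 ∨ σ = -1) (h : Rk + pvhxT ζ₀ Y σ zc < pvhxT ζ₀ Y σ w) : w ∉ pvwSq zc Rk :=
  pvhxk_out (Y := Y) (pvhxk_mem hζ (τ := -σ) (by rcases hσ with rfl | rfl <;> simp)) (by rw [pvhxk_SB, pvhxk_SB]; linarith)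

theorem pvhxk_in (hζ : ζ₀ ∈ pvtzdDir) (h : w ∈ pvwSq zc Rk) : pvhxS ζ₀ Y w ≤ Rk + pvhxS ζ₀ Y zc := by
  by_contra hc
  exact pvhxk_out hζ (not_le.1 hc) h

theorem pvhxk_inW (hζ : ζ₀ ∈ pvtzdDir) (hσ : σ = 1 ∨ σ = -1) (h : w ∈ pvwSq zc Rk) : -pvhxT ζ₀ Y σ w ≤ Rk - pvhxT ζ₀ Y σ zc := by
  by_contra hc
  exact pvhxk_outW hζ hσ (not_le.1 hc) h

end sides

/-! ## 2. the doors in coordinates -/

section doors

variable {ζ₀ zc Y x : ℂ} {Rk σ κ μ r₂ η : ℝ} {C : Set ℂ}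

/-- the door of the side `ζ₀` -/
theorem pvhxk_door0 (hσ : σ = 1 ∨ σ = -1) (front : ∀ w ∈ C, ‖w - Y‖ ≤ r₂ + μ → pvhxS ζ₀ Y w ≤ Rk + pvhxS ζ₀ Y zc ∨ κ + μ < |pvhxT ζ₀ Y σ w|)
    (collar : ∀ w ∈ C, r₂ - μ < ‖w - Y‖ → ‖w - Y‖ ≤ r₂ → w ∉ pvwSq zc Rk ∧ pvhxT ζ₀ Y σ w < -κ) (ends : ∀ w, ‖w - x‖ < η → κ < pvhxT ζ₀ Y σ w) :
    PvhwDoorRC ζ₀ Y zc Rk κ μ r₂ (-σ) C x η := by
  refine ⟨fun w hw h => ?_, fun w hw h1 h2 => ⟨(collar w hw h1 h2).1, ?_⟩, fun w hw => ?_⟩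
  · rw [← pvhx_L_eq, ← pvhx_abs_T hσ]
    rcases front w hw h with h' | h'
    · left; rw [pvhx_S_eq, pvhx_S_eq] at h'; linarith
    · exact Or.inr h'
  · rw [← pvhx_L_eq]
    have := (collar w hw h1 h2).2
    unfold pvhxT at this
    linarith
  · rw [← pvhx_L_eq]
    have := ends w hw
    unfold pvhxT at this
    linarith

/-- the door of the lateral side on the WHITE side -/
theorem pvhxk_doorW (hσ : σ = 1 ∨ σ = -1) (front : ∀ w ∈ C, ‖w - Y‖ ≤ r₂ + μ → -pvhxT ζ₀ Y σ w ≤ Rk - pvhxT ζ₀ Y σ zc ∨ κ + μ < |pvhxS ζ₀ Y w|)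
    (collar : ∀ w ∈ C, r₂ - μ < ‖w - Y‖ → ‖w - Y‖ ≤ r₂ → w ∉ pvwSq zc Rk ∧ pvhxS ζ₀ Y w < -κ) (ends : ∀ w, ‖w - x‖ < η → κ < pvhxS ζ₀ Y w) :
    PvhwDoorRC (pvhxKw ζ₀ σ) Y zc Rk κ μ r₂ (-σ) C x η := by
  have hss : σ * σ = 1 := by rcases hσ with rfl | rfl <;> norm_num
  have eL : ∀ w, -σ * pvhxL (pvhxKw ζ₀ σ) Y w = -pvhxS ζ₀ Y w := fun w => by rw [pvhxk_L]; linear_combination (-pvhxS ζ₀ Y w) * hss
  have eA : ∀ w, |pvhxL (pvhxKw ζ₀ σ) Y w| = |pvhxS ζ₀ Y w| := fun w => by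
    rw [pvhxk_L]; rcases hσ with rfl | rfl <;> simp
  refine ⟨fun w hw h => ?_, fun w hw h1 h2 => ⟨(collar w hw h1 h2).1, ?_⟩, fun w hw => ?_⟩
  · rw [← pvhx_L_eq, eA]
    rcases front w hw h with h' | h'
    · left
      have e1 := pvhxk_SW ζ₀ Y w σ
      have e2 := pvhxk_SW ζ₀ Y zc σ
      rw [pvhx_S_eq] at e1 e2
      linarith
    · exact Or.inr h'
  · rw [← pvhx_L_eq, eL]
    linarith [(collar w hw h1 h2).2]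
  · rw [← pvhx_L_eq]
    have := eL w
    linarith [ends w hw]

/-- the door of the lateral side on the BLACK side -/
theorem pvhxk_doorB (hσ : σ = 1 ∨ σ = -1) (front : ∀ w ∈ C, ‖w - Y‖ ≤ r₂ + μ → pvhxT ζ₀ Y σ w ≤ Rk + pvhxT ζ₀ Y σ zc ∨ κ + μ < |pvhxS ζ₀ Y w|)
    (collar : ∀ w ∈ C, r₂ - μ < ‖w - Y‖ → ‖w - Y‖ ≤ r₂ → w ∉ pvwSq zc Rk ∧ κ < pvhxS ζ₀ Y w) (ends : ∀ w, ‖w - x‖ < η → pvhxS ζ₀ Y w < -κ) :
    PvhwDoorRC (pvhxKw ζ₀ (-σ)) Y zc Rk κ μ r₂ (-σ) C x η := by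
  have hss : σ * σ = 1 := by rcases hσ with rfl | rfl <;> norm_num
  have eL : ∀ w, -σ * pvhxL (pvhxKw ζ₀ (-σ)) Y w = pvhxS ζ₀ Y w := fun w => by rw [pvhxk_L]; linear_combination (pvhxS ζ₀ Y w) * hss
  have eA : ∀ w, |pvhxL (pvhxKw ζ₀ (-σ)) Y w| = |pvhxS ζ₀ Y w| := fun w => by
    rw [pvhxk_L]; rcases hσ with rfl | rfl <;> simp
  refine ⟨fun w hw h => ?_, fun w hw h1 h2 => ⟨(collar w hw h1 h2).1, ?_⟩, fun w hw => ?_⟩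
  · rw [← pvhx_L_eq, eA]
    rcases front w hw h with h' | h'
    · left
      have e1 := pvhxk_SB ζ₀ Y w σ
      have e2 := pvhxk_SB ζ₀ Y zc σ
      rw [pvhx_S_eq] at e1 e2
      linarith
    · exact Or.inr h'
  · rw [← pvhx_L_eq, eL]
    linarith [(collar w hw h1 h2).2]
  · rw [← pvhx_L_eq]
    have := eL w
    linarith [ends w hw]

end doors

/-! ## 3. the diagonal piece -/

/-- the diagonal piece `u₀ ≤ S - t ≤ u₁`, `|S + t| ≤ v₁` -/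
def pvhxKd (ζ Y : ℂ) (σ u₀ u₁ v₁ : ℝ) : Set ℂ :=
  {w | u₀ ≤ pvhxS ζ Y w - pvhxT ζ Y σ w ∧ pvhxS ζ Y w - pvhxT ζ Y σ w ≤ u₁ ∧ -v₁ ≤ pvhxS ζ Y w + pvhxT ζ Y σ w ∧ pvhxS ζ Y w + pvhxT ζ Y σ w ≤ v₁}

theorem pvhxk_d_convex (ζ Y : ℂ) (σ u₀ u₁ v₁ : ℝ) : Convex ℝ (pvhxKd ζ Y σ u₀ u₁ v₁) := by
  intro x hx y hy s t hs ht hst
  obtain ⟨a1, a2, a3, a4⟩ := hx
  obtain ⟨b1, b2, b3, b4⟩ := hy
  have e1 := pvhx_S_affine ζ Y x y hst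
  have e2 : pvhxT ζ Y σ (s • x + t • y) = s * pvhxT ζ Y σ x + t * pvhxT ζ Y σ y := by
    unfold pvhxT; rw [pvhx_L_affine ζ Y x y hst]; ring
  have e : t = 1 - s := by linarith
  subst e
  refine ⟨?_, ?_, ?_, ?_⟩
  · rw [e1, e2]; nlinarith [mul_nonneg hs (sub_nonneg.2 a1), mul_nonneg ht (sub_nonneg.2 b1)]
  · rw [e1, e2]; nlinarith [mul_nonneg hs (sub_nonneg.2 a2), mul_nonneg ht (sub_nonneg.2 b2)]
  · rw [e1, e2]; nlinarith [mul_nonneg hs (sub_nonneg.2 a3), mul_nonneg ht (sub_nonneg.2 b3)]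
  · rw [e1, e2]; nlinarith [mul_nonneg hs (sub_nonneg.2 a4), mul_nonneg ht (sub_nonneg.2 b4)]

theorem pvhxk_ball_d {ζ : ℂ} (hζ : ‖ζ‖ = 1) {σ : ℝ} (hσ : σ = 1 ∨ σ = -1) {Y w : ℂ} {u₀ u₁ v₁ r : ℝ} (h1 : u₀ + 2 * r ≤ pvhxS ζ Y w - pvhxT ζ Y σ w)
    (h2 : pvhxS ζ Y w - pvhxT ζ Y σ w + 2 * r ≤ u₁) (h3 : -v₁ + 2 * r ≤ pvhxS ζ Y w + pvhxT ζ Y σ w) (h4 : pvhxS ζ Y w + pvhxT ζ Y σ w + 2 * r ≤ v₁) :
    closedBall w r ⊆ pvhxKd ζ Y σ u₀ u₁ v₁ := by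
  intro p hp
  have hn := mem_closedBall_iff_norm.1 hp
  have q1 := abs_le.1 ((pvhx_S_sub hζ Y p w).trans hn)
  have q2 := abs_le.1 ((pvhx_T_sub hζ hσ Y p w).trans hn)
  exact ⟨by linarith [q1.1, q2.2], by linarith [q1.2, q2.1], by linarith [q1.1, q2.1], by linarith [q1.2, q2.2]⟩

theorem pvhxk_sq_le {s t p q r : ℝ} (h1 : -p ≤ s) (h2 : s ≤ p) (h3 : -q ≤ t) (h4 : t ≤ q) (h : p ^ 2 + q ^ 2 ≤ r ^ 2) : s ^ 2 + t ^ 2 ≤ r ^ 2 := by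
  have q1 := sq_le_sq' h1 h2
  have q2 := sq_le_sq' h3 h4
  linarith

/-! ## 4. (W) the second side is on the white side -/

/-- **THE HOOK (W)** -/
def pvhxKW (ζ Y : ℂ) (σ a ℓ : ℝ) : Set ℂ :=
  pvhxB ζ Y σ (-(55 / 100 * a)) (45 / 100 * a) (51 / 100 * a) (55 / 100 * a) ∪ pvhxB ζ Y σ (-(55 / 100 * a)) (-(51 / 100 * a)) (-(83 / 100 * a)) (55 / 100 * a) ∪
    pvhxB ζ Y σ (-(55 / 100 * a)) (55 / 100 * a) (-(83 / 100 * a)) (-(81 / 100 * a)) ∪ pvhxKd ζ Y σ (133 / 100 * a) (137 / 100 * a) (31 / 100 * a) ∪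
    pvhxB ζ Y σ (81 / 100 * a) (83 / 100 * a) (-(55 / 100 * a)) ℓ

section hookW

variable {ζ Y : ℂ} {σ a δc ℓ : ℝ}

/-- the three kinds of points of the hook (W) -/
theorem pvhxk_W_cl (hζ : ‖ζ‖ = 1) (hσ : σ = 1 ∨ σ = -1) (N : PvhxNum a δc ℓ) {w : ℂ} (hw : w ∈ pvhxKW ζ Y σ a ℓ) :
    (-(55 / 100 * a) ≤ pvhxS ζ Y w ∧ pvhxS ζ Y w ≤ 45 / 100 * a ∧ 51 / 100 * a ≤ pvhxT ζ Y σ w ∧ pvhxT ζ Y σ w ≤ 55 / 100 * a) ∨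
      (-(55 / 100 * a) ≤ pvhxS ζ Y w ∧ pvhxS ζ Y w ≤ -(51 / 100 * a) ∧ -(83 / 100 * a) ≤ pvhxT ζ Y σ w ∧ pvhxT ζ Y σ w ≤ 55 / 100 * a) ∨
      (81 / 100 * a ≤ ‖w - Y‖ ∧ ‖w - Y‖ ≤ a ∧ (pvhxT ζ Y σ w ≤ -(51 / 100 * a) ∨ (81 / 100 * a ≤ pvhxS ζ Y w ∧ pvhxT ζ Y σ w ≤ ℓ))) := by
  have ha := N.a0
  have hl := N.ℓ_hi
  have q1 := abs_le.1 (pvhx_S_le_norm hζ Y w)
  have q2 := abs_le.1 (pvhx_T_le_norm hζ hσ Y w)
  rcases hw with (((h | h) | ⟨h1, h2, h3, h4⟩) | ⟨h1, h2, h3, h4⟩) | ⟨h1, h2, h3, h4⟩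
  · exact Or.inl h
  · exact Or.inr (Or.inl h)
  · refine Or.inr (Or.inr ⟨by linarith [q2.1], pvhx_norm_le hζ hσ ha.le (pvhxk_sq_le (p := 55 / 100 * a) (q := 83 / 100 * a) h1 h2 h3 (by linarith) (by nlinarith [sq_nonneg a])), Or.inl (by linarith)⟩)
  · have hsq := pvhx_norm_sq' hζ hσ Y w
    have hu : (pvhxS ζ Y w - pvhxT ζ Y σ w) ^ 2 ≤ (137 / 100 * a) ^ 2 := sq_le_sq' (by linarith) h2
    have hv : (pvhxS ζ Y w + pvhxT ζ Y σ w) ^ 2 ≤ (31 / 100 * a) ^ 2 := sq_le_sq' h3 h4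
    have hu' : (133 / 100 * a) ^ 2 ≤ (pvhxS ζ Y w - pvhxT ζ Y σ w) ^ 2 := pow_le_pow_left₀ (by positivity) h1 2
    refine Or.inr (Or.inr ⟨?_, pvhx_norm_le hζ hσ ha.le (by nlinarith [sq_nonneg a]), Or.inl (by linarith)⟩)
    by_contra hc
    have := pow_lt_pow_left₀ (not_le.1 hc) (norm_nonneg _) (two_ne_zero)
    nlinarith [sq_nonneg a, sq_nonneg (pvhxS ζ Y w + pvhxT ζ Y σ w), mul_pos ha ha]
  · refine Or.inr (Or.inr ⟨by linarith [q1.2], pvhx_norm_le hζ hσ ha.le (pvhxk_sq_le (p := 83 / 100 * a) (q := 55 / 100 * a) (by linarith) h2 h3 (by linarith) (by nlinarith [sq_nonneg a])), Or.inr ⟨h1, h4⟩⟩)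

/-- inside the square of half side `.55 a` the radius is at most `.78 a` -/
theorem pvhxk_small (hζ : ‖ζ‖ = 1) (hσ : σ = 1 ∨ σ = -1) (ha : 0 < a) {w : ℂ} (h1 : -(55 / 100 * a) ≤ pvhxS ζ Y w) (h2 : pvhxS ζ Y w ≤ 55 / 100 * a) (h3 : -(55 / 100 * a) ≤ pvhxT ζ Y σ w)
    (h4 : pvhxT ζ Y σ w ≤ 55 / 100 * a) : ‖w - Y‖ ≤ 78 / 100 * a :=
  pvhx_norm_le hζ hσ (by positivity) (pvhxk_sq_le h1 h2 h3 h4 (by nlinarith [sq_nonneg a]))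

theorem pvhxk_W_joined (hζ : ‖ζ‖ = 1) (hσ : σ = 1 ∨ σ = -1) (ha : 0 < a) (hl : -(a / 10) ≤ ℓ) {rc : ℝ} (hrc : rc ≤ a / 100) {R : Set ℂ} (hR : pvhxKW ζ Y σ a ℓ ⊆ R) {e : ℂ}
    (he1 : 81 / 100 * a + rc ≤ pvhxS ζ Y e) (he2 : pvhxS ζ Y e + rc ≤ 83 / 100 * a) (he3 : -(55 / 100 * a) + rc ≤ pvhxT ζ Y σ e) (he4 : pvhxT ζ Y σ e + rc ≤ ℓ) :
    JoinedIn (pvljCore rc R) (pvhxE ζ Y σ a) e := by
  have S0 : pvhxS ζ Y (pvhxE ζ Y σ a) = 40 / 100 * a := pvhx_P_S hζ Y σ _ _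
  have T0 : pvhxT ζ Y σ (pvhxE ζ Y σ a) = 53 / 100 * a := pvhx_P_T hζ hσ Y _ _
  have S1 := pvhx_P_S hζ Y σ (-(53 / 100 * a)) (53 / 100 * a)
  have T1 := pvhx_P_T hζ hσ Y (-(53 / 100 * a)) (53 / 100 * a)
  have S2 := pvhx_P_S hζ Y σ (-(53 / 100 * a)) (-(82 / 100 * a))
  have T2 := pvhx_P_T hζ hσ Y (-(53 / 100 * a)) (-(82 / 100 * a))
  have S3 := pvhx_P_S hζ Y σ (53 / 100 * a) (-(82 / 100 * a))
  have T3 := pvhx_P_T hζ hσ Y (53 / 100 * a) (-(82 / 100 * a))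
  have S4 := pvhx_P_S hζ Y σ (82 / 100 * a) (-(53 / 100 * a))
  have T4 := pvhx_P_T hζ hσ Y (82 / 100 * a) (-(53 / 100 * a))
  have j1 : JoinedIn (pvljCore rc R) (pvhxE ζ Y σ a) (pvhxP ζ Y σ (-(53 / 100 * a)) (53 / 100 * a)) :=
    pvhx_joined_B hζ hσ (Subset.trans (fun w hw => Or.inl (Or.inl (Or.inl (Or.inl hw)))) hR) (by rw [S0]; linarith) (by rw [S0]; linarith) (by rw [T0]; linarith) (by rw [T0]; linarith)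
      (by rw [S1]; linarith) (by rw [S1]; linarith) (by rw [T1]; linarith) (by rw [T1]; linarith)
  have j2 : JoinedIn (pvljCore rc R) (pvhxP ζ Y σ (-(53 / 100 * a)) (53 / 100 * a)) (pvhxP ζ Y σ (-(53 / 100 * a)) (-(82 / 100 * a))) :=
    pvhx_joined_B hζ hσ (Subset.trans (fun w hw => Or.inl (Or.inl (Or.inl (Or.inr hw)))) hR) (by rw [S1]; linarith) (by rw [S1]; linarith) (by rw [T1]; linarith) (by rw [T1]; linarith)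
      (by rw [S2]; linarith) (by rw [S2]; linarith) (by rw [T2]; linarith) (by rw [T2]; linarith)
  have j3 : JoinedIn (pvljCore rc R) (pvhxP ζ Y σ (-(53 / 100 * a)) (-(82 / 100 * a))) (pvhxP ζ Y σ (53 / 100 * a) (-(82 / 100 * a))) :=
    pvhx_joined_B hζ hσ (Subset.trans (fun w hw => Or.inl (Or.inl (Or.inr hw))) hR) (by rw [S2]; linarith) (by rw [S2]; linarith) (by rw [T2]; linarith) (by rw [T2]; linarith)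
      (by rw [S3]; linarith) (by rw [S3]; linarith) (by rw [T3]; linarith) (by rw [T3]; linarith)
  have j4 : JoinedIn (pvljCore rc R) (pvhxP ζ Y σ (53 / 100 * a) (-(82 / 100 * a))) (pvhxP ζ Y σ (82 / 100 * a) (-(53 / 100 * a))) :=
    pvlj_joined_convex (pvhxk_d_convex ζ Y σ (133 / 100 * a) (137 / 100 * a) (31 / 100 * a)) (Subset.trans (fun w hw => Or.inl (Or.inr hw)) hR)
      (pvhxk_ball_d hζ hσ (by rw [S3, T3]; linarith) (by rw [S3, T3]; linarith) (by rw [S3, T3]; linarith) (by rw [S3, T3]; linarith))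
      (pvhxk_ball_d hζ hσ (by rw [S4, T4]; linarith) (by rw [S4, T4]; linarith) (by rw [S4, T4]; linarith) (by rw [S4, T4]; linarith))
  have j5 : JoinedIn (pvljCore rc R) (pvhxP ζ Y σ (82 / 100 * a) (-(53 / 100 * a))) e :=
    pvhx_joined_B hζ hσ (Subset.trans (fun w hw => Or.inr hw) hR) (by rw [S4]; linarith) (by rw [S4]; linarith) (by rw [T4]; linarith) (by rw [T4]; linarith) he1 he2 he3 he4
  exact (((j1.trans j2).trans j3).trans j4).trans j5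

end hookW

/-- **THE HOOK OF A TIP CELL NEAR A CORNER, SECOND SIDE ON THE WHITE SIDE** -/
theorem pvhxk_hook_W {ζ₀ zc Y : ℂ} {Rk σ a δc ℓ κ μ η rc : ℝ} (hζ₀ : ζ₀ ∈ pvtzdDir) (hσ : σ = 1 ∨ σ = -1) (N : PvhxNum a δc ℓ)
    (hB1 : -(51 / 100 * a) ≤ Rk + pvhxS ζ₀ Y zc) (hB2 : Rk + pvhxS ζ₀ Y zc + η ≤ 40 / 100 * a) (hW1 : -(51 / 100 * a) ≤ Rk - pvhxT ζ₀ Y σ zc) (hW2 : Rk - pvhxT ζ₀ Y σ zc < 51 / 100 * a)
    (hbig : κ + 51 / 100 * a ≤ 2 * Rk) (hκ : κ + μ < 51 / 100 * a) (hκη : κ + η ≤ 40 / 100 * a) (hμ0 : 0 ≤ μ) (hμ : μ < a / 100) (hη0 : 0 ≤ η) (hη : η ≤ 13 / 100 * a) (hrc : rc ≤ a / 100) {In0 : Set ℂ}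
    (hIn : ∀ q ∈ In0, 0 ≤ pvhxS ζ₀ Y q ∧ ℓ + 2 / 10 * δc ≤ pvhxT ζ₀ Y σ q ∧ pvhxT ζ₀ Y σ q ≤ ℓ + 7 / 10 * δc) {e : ℂ}
    (he1 : 81 / 100 * a + rc ≤ pvhxS ζ₀ Y e) (he2 : pvhxS ζ₀ Y e + rc ≤ 83 / 100 * a) (he3 : -(55 / 100 * a) + rc ≤ pvhxT ζ₀ Y σ e) (he4 : pvhxT ζ₀ Y σ e + rc ≤ ℓ) :
    PvhxHook zc Rk Y (-σ) a κ μ η rc δc In0 (pvhxKW ζ₀ Y σ a ℓ) (pvhxE ζ₀ Y σ a) e := by
  have hn := pvtzd_dir_norm hζ₀
  have ha := N.a0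
  have hst : ∀ w, ‖w - pvhxE ζ₀ Y σ a‖ < η → 40 / 100 * a - η < pvhxS ζ₀ Y w ∧ 53 / 100 * a - η < pvhxT ζ₀ Y σ w ∧ ‖w - Y‖ ≤ 4 / 5 * a := by
    intro w hw
    have e1 : pvhxS ζ₀ Y (pvhxE ζ₀ Y σ a) = 40 / 100 * a := pvhx_P_S hn Y σ _ _
    have e2 : pvhxT ζ₀ Y σ (pvhxE ζ₀ Y σ a) = 53 / 100 * a := pvhx_P_T hn hσ Y _ _
    have q1' := abs_lt.1 (lt_of_le_of_lt (pvhx_S_sub hn Y w (pvhxE ζ₀ Y σ a)) hw)
    have q2' := abs_lt.1 (lt_of_le_of_lt (pvhx_T_sub hn hσ Y w (pvhxE ζ₀ Y σ a)) hw)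
    rw [e1] at q1'
    rw [e2] at q2'
    have hE : ‖pvhxE ζ₀ Y σ a - Y‖ ≤ 67 / 100 * a := by
      refine pvhx_norm_le hn hσ (by positivity) ?_
      rw [e1, e2]; nlinarith [sq_nonneg a]
    refine ⟨by linarith [q1'.1], by linarith [q2'.1], ?_⟩
    have e : w - Y = (w - pvhxE ζ₀ Y σ a) + (pvhxE ζ₀ Y σ a - Y) := by ring
    rw [e]
    linarith [norm_add_le (w - pvhxE ζ₀ Y σ a) (pvhxE ζ₀ Y σ a - Y)]
  -- the crossing of the collar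
  have hcol : ∀ w ∈ pvhxKW ζ₀ Y σ a ℓ, 4 / 5 * a - μ < ‖w - Y‖ → ‖w - Y‖ ≤ 4 / 5 * a → w ∉ pvwSq zc Rk ∧ pvhxT ζ₀ Y σ w < -(55 / 100 * a) ∧ pvhxS ζ₀ Y w ≤ -(51 / 100 * a) := by
    intro w hw h1 h2
    rcases pvhxk_W_cl hn hσ N hw with ⟨c1, c2, c3, c4⟩ | ⟨c1, c2, c3, c4⟩ | ⟨c1, c2, c3⟩
    · exfalso; linarith [pvhxk_small (Y := Y) hn hσ ha c1 (by linarith) (by linarith) c4]
    · have ht : pvhxT ζ₀ Y σ w < -(55 / 100 * a) := by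
        by_contra hc
        linarith [pvhxk_small (Y := Y) hn hσ ha c1 (by linarith) (not_lt.1 hc) c4]
      exact ⟨pvhxk_outW hζ₀ hσ (by linarith), ht, c2⟩
    · exfalso; linarith
  refine ⟨fun w hw => ?_, fun w hw => ?_, fun ζ hζ hadm => ?_, fun w hw hb => ?_, fun w hw => ?_, fun w hw q hq => ?_,
    fun R hR => pvhxk_W_joined hn hσ ha N.ℓ_lo hrc hR he1 he2 he3 he4⟩
  · rcases pvhxk_W_cl hn hσ N hw with ⟨c1, c2, c3, c4⟩ | ⟨c1, c2, c3, c4⟩ | ⟨c1, c2, c3⟩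
    · linarith [pvhxk_small (Y := Y) hn hσ ha c1 (by linarith) (by linarith) c4]
    · exact pvhx_norm_le hn hσ ha.le (pvhxk_sq_le (p := 55 / 100 * a) (q := 83 / 100 * a) c1 (by linarith) c3 (by linarith) (by nlinarith [sq_nonneg a]))
    · exact c2
  · have q1 := abs_le.1 (pvhx_S_le_norm hn Y w)
    have q2 := abs_le.1 (pvhx_T_le_norm hn hσ Y w)
    rcases pvhxk_W_cl hn hσ N hw with ⟨c1, c2, c3, c4⟩ | ⟨c1, c2, c3, c4⟩ | ⟨c1, c2, c3⟩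
    · linarith [q2.2]
    · linarith [q1.1]
    · linarith
  · have hadm' : Rk + pvhxS ζ Y zc < κ := by rw [← pvhxk_side]; linarith
    rcases pvhxk_cases hζ₀ hζ hσ with rfl | rfl | rfl | rfl
    · refine pvhxk_door0 hσ (fun w hw h => ?_) (fun w hw h1 h2 => ⟨(hcol w hw h1 h2).1, by linarith [(hcol w hw h1 h2).2.1]⟩) (fun w hw => by linarith [(hst w hw).2.1])
      rcases pvhxk_W_cl hn hσ N hw with ⟨c1, c2, c3, c4⟩ | ⟨c1, c2, c3, c4⟩ | ⟨c1, c2, c3⟩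
      · exact Or.inr (lt_of_lt_of_le (by linarith) (le_abs_self _))
      · exact Or.inl (by linarith)
      · exfalso; linarith
    · exfalso; rw [pvhxk_SN] at hadm'; linarith
    · refine pvhxk_doorW hσ (fun w hw h => ?_) (fun w hw h1 h2 => ⟨(hcol w hw h1 h2).1, by linarith [(hcol w hw h1 h2).2.2]⟩) (fun w hw => by linarith [(hst w hw).1])
      rcases pvhxk_W_cl hn hσ N hw with ⟨c1, c2, c3, c4⟩ | ⟨c1, c2, c3, c4⟩ | ⟨c1, c2, c3⟩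
      · exact Or.inl (by linarith)
      · exact Or.inr (lt_of_lt_of_le (by linarith) (neg_le_abs _))
      · exfalso; linarith
    · exfalso; rw [pvhxk_SB] at hadm'; linarith
  · rcases pvhxk_W_cl hn hσ N hw with ⟨c1, c2, c3, c4⟩ | ⟨c1, c2, c3, c4⟩ | ⟨c1, c2, c3 | c3⟩
    · linarith [pvhxk_small (Y := Y) hn hσ ha c1 (by linarith) (by linarith) c4]
    · have := pvhxk_inW (Y := Y) hζ₀ hσ hb
      linarith [pvhxk_small (Y := Y) hn hσ ha c1 (by linarith) (by linarith) c4]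
    · exfalso
      have := pvhxk_inW (Y := Y) hζ₀ hσ hb
      linarith
    · exfalso
      have := pvhxk_in (Y := Y) hζ₀ hb
      linarith [c3.1]
  · exact ⟨pvhxk_out (Y := Y) hζ₀ (by linarith [(hst w hw).1]), (hst w hw).2.2⟩
  · obtain ⟨p1, p2, p3⟩ := hIn q hq
    have hd := N.δ0
    have hf := N.fine
    have l1 := N.ℓ_lo
    have l2 := N.ℓ_hi
    have q1 := abs_le.1 (pvhx_S_sub hn Y q w)
    have q2 := abs_le.1 (pvhx_T_sub hn hσ Y q w)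
    rcases pvhxk_W_cl hn hσ N hw with ⟨c1, c2, c3, c4⟩ | ⟨c1, c2, c3, c4⟩ | ⟨c1, c2, c3 | c3⟩
    · linarith [q2.1]
    · linarith [q1.2]
    · linarith [q2.2]
    · linarith [q2.2, c3.2]

/-! ## 5. (B) the second side is on the black side -/

/-- **THE HOOK (B)** -/
def pvhxKB (ζ Y : ℂ) (σ a ℓ : ℝ) : Set ℂ :=
  pvhxB ζ Y σ (-(55 / 100 * a)) (-(51 / 100 * a)) (-(55 / 100 * a)) (45 / 100 * a) ∪ pvhxB ζ Y σ (-(55 / 100 * a)) (83 / 100 * a) (-(55 / 100 * a)) (-(51 / 100 * a)) ∪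
    pvhxB ζ Y σ (81 / 100 * a) (83 / 100 * a) (-(55 / 100 * a)) ℓ

/-- the free end of the hook (B): outside the box, beyond the black lateral side, behind the tip -/
noncomputable def pvhxKe (ζ Y : ℂ) (σ a : ℝ) : ℂ := pvhxP ζ Y σ (-(53 / 100 * a)) (40 / 100 * a)

theorem pvhxk_B_sub (ζ Y : ℂ) (σ : ℝ) {a : ℝ} (ha : 0 < a) (ℓ : ℝ) : pvhxKB ζ Y σ a ℓ ⊆ pvhxC ζ Y σ a ℓ := by
  rintro w ((⟨h1, h2, h3, h4⟩ | h) | h)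
  · exact Or.inl (Or.inl (Or.inr ⟨h1, h2, h3, by linarith⟩))
  · exact Or.inl (Or.inr h)
  · exact Or.inr h

theorem pvhxk_B_joined {ζ Y : ℂ} {σ a ℓ : ℝ} (hζ : ‖ζ‖ = 1) (hσ : σ = 1 ∨ σ = -1) (ha : 0 < a) (hl : -(a / 10) ≤ ℓ) {rc : ℝ} (hrc : rc ≤ a / 100) {R : Set ℂ} (hR : pvhxKB ζ Y σ a ℓ ⊆ R) {e : ℂ}
    (he1 : 81 / 100 * a + rc ≤ pvhxS ζ Y e) (he2 : pvhxS ζ Y e + rc ≤ 83 / 100 * a) (he3 : -(55 / 100 * a) + rc ≤ pvhxT ζ Y σ e) (he4 : pvhxT ζ Y σ e + rc ≤ ℓ) :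
    JoinedIn (pvljCore rc R) (pvhxKe ζ Y σ a) e := by
  have S0 : pvhxS ζ Y (pvhxKe ζ Y σ a) = -(53 / 100 * a) := pvhx_P_S hζ Y σ _ _
  have T0 : pvhxT ζ Y σ (pvhxKe ζ Y σ a) = 40 / 100 * a := pvhx_P_T hζ hσ Y _ _
  have S2 := pvhx_P_S hζ Y σ (-(53 / 100 * a)) (-(53 / 100 * a))
  have T2 := pvhx_P_T hζ hσ Y (-(53 / 100 * a)) (-(53 / 100 * a))
  have S3 := pvhx_P_S hζ Y σ (pvhxS ζ Y e) (-(53 / 100 * a))
  have T3 := pvhx_P_T hζ hσ Y (pvhxS ζ Y e) (-(53 / 100 * a))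
  have j2 : JoinedIn (pvljCore rc R) (pvhxKe ζ Y σ a) (pvhxP ζ Y σ (-(53 / 100 * a)) (-(53 / 100 * a))) :=
    pvhx_joined_B hζ hσ (Subset.trans (fun w hw => Or.inl (Or.inl hw)) hR) (by rw [S0]; linarith) (by rw [S0]; linarith) (by rw [T0]; linarith) (by rw [T0]; linarith)
      (by rw [S2]; linarith) (by rw [S2]; linarith) (by rw [T2]; linarith) (by rw [T2]; linarith)
  have j3 : JoinedIn (pvljCore rc R) (pvhxP ζ Y σ (-(53 / 100 * a)) (-(53 / 100 * a))) (pvhxP ζ Y σ (pvhxS ζ Y e) (-(53 / 100 * a))) :=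
    pvhx_joined_B hζ hσ (Subset.trans (fun w hw => Or.inl (Or.inr hw)) hR) (by rw [S2]; linarith) (by rw [S2]; linarith) (by rw [T2]; linarith) (by rw [T2]; linarith)
      (by rw [S3]; linarith) (by rw [S3]; linarith) (by rw [T3]; linarith) (by rw [T3]; linarith)
  have j4 : JoinedIn (pvljCore rc R) (pvhxP ζ Y σ (pvhxS ζ Y e) (-(53 / 100 * a))) e :=
    pvhx_joined_B hζ hσ (Subset.trans (fun w hw => Or.inr hw) hR) (by rw [S3]; linarith) (by rw [S3]; linarith) (by rw [T3]; linarith) (by rw [T3]; linarith) he1 he2 he3 he4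
  exact (j2.trans j3).trans j4

/-- **THE HOOK OF A TIP CELL NEAR A CORNER, SECOND SIDE ON THE BLACK SIDE** -/
theorem pvhxk_hook_B {ζ₀ zc Y : ℂ} {Rk σ a δc ℓ κ μ η rc : ℝ} (hζ₀ : ζ₀ ∈ pvtzdDir) (hσ : σ = 1 ∨ σ = -1) (N : PvhxNum a δc ℓ)
    (hB1 : -(51 / 100 * a) ≤ Rk + pvhxS ζ₀ Y zc) (hB2 : Rk + pvhxS ζ₀ Y zc + η ≤ 40 / 100 * a) (hL1 : -(51 / 100 * a) ≤ Rk + pvhxT ζ₀ Y σ zc) (hL2 : Rk + pvhxT ζ₀ Y σ zc + η ≤ 40 / 100 * a)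
    (hbig : κ + 51 / 100 * a ≤ 2 * Rk) (hκ : κ + μ < 51 / 100 * a) (hκη : κ + η ≤ 40 / 100 * a) (hμ0 : 0 ≤ μ) (hμ : μ < a / 100) (hη0 : 0 ≤ η) (hη : η ≤ 13 / 100 * a) (hrc : rc ≤ a / 100) {In0 : Set ℂ}
    (hIn : ∀ q ∈ In0, 0 ≤ pvhxS ζ₀ Y q ∧ ℓ + 2 / 10 * δc ≤ pvhxT ζ₀ Y σ q ∧ pvhxT ζ₀ Y σ q ≤ ℓ + 7 / 10 * δc) {e : ℂ}
    (he1 : 81 / 100 * a + rc ≤ pvhxS ζ₀ Y e) (he2 : pvhxS ζ₀ Y e + rc ≤ 83 / 100 * a) (he3 : -(55 / 100 * a) + rc ≤ pvhxT ζ₀ Y σ e) (he4 : pvhxT ζ₀ Y σ e + rc ≤ ℓ) :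
    PvhxHook zc Rk Y (-σ) a κ μ η rc δc In0 (pvhxKB ζ₀ Y σ a ℓ) (pvhxKe ζ₀ Y σ a) e := by
  have hn := pvtzd_dir_norm hζ₀
  have ha := N.a0
  have hsub := pvhxk_B_sub ζ₀ Y σ ha ℓ
  have hst : ∀ w, ‖w - pvhxKe ζ₀ Y σ a‖ < η → pvhxS ζ₀ Y w < -(53 / 100 * a) + η ∧ 40 / 100 * a - η < pvhxT ζ₀ Y σ w ∧ ‖w - Y‖ ≤ 4 / 5 * a := by
    intro w hw
    have e1 : pvhxS ζ₀ Y (pvhxKe ζ₀ Y σ a) = -(53 / 100 * a) := pvhx_P_S hn Y σ _ _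
    have e2 : pvhxT ζ₀ Y σ (pvhxKe ζ₀ Y σ a) = 40 / 100 * a := pvhx_P_T hn hσ Y _ _
    have q1' := abs_lt.1 (lt_of_le_of_lt (pvhx_S_sub hn Y w (pvhxKe ζ₀ Y σ a)) hw)
    have q2' := abs_lt.1 (lt_of_le_of_lt (pvhx_T_sub hn hσ Y w (pvhxKe ζ₀ Y σ a)) hw)
    rw [e1] at q1'
    rw [e2] at q2'
    have hE : ‖pvhxKe ζ₀ Y σ a - Y‖ ≤ 67 / 100 * a := by
      refine pvhx_norm_le hn hσ (by positivity) ?_
      rw [e1, e2]; nlinarith [sq_nonneg a]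
    refine ⟨by linarith [q1'.2], by linarith [q2'.1], ?_⟩
    have e : w - Y = (w - pvhxKe ζ₀ Y σ a) + (pvhxKe ζ₀ Y σ a - Y) := by ring
    rw [e]
    linarith [norm_add_le (w - pvhxKe ζ₀ Y σ a) (pvhxKe ζ₀ Y σ a - Y)]
  -- the crossing of the collar
  have hcol : ∀ w ∈ pvhxKB ζ₀ Y σ a ℓ, 4 / 5 * a - μ < ‖w - Y‖ → ‖w - Y‖ ≤ 4 / 5 * a → w ∉ pvwSq zc Rk ∧ pvhxT ζ₀ Y σ w ≤ -(51 / 100 * a) ∧ 55 / 100 * a < pvhxS ζ₀ Y w := by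
    intro w hw h1 h2
    have q1 := abs_le.1 (pvhx_S_le_norm hn Y w)
    rcases hw with (⟨c1, c2, c3, c4⟩ | ⟨c1, c2, c3, c4⟩) | ⟨c1, c2, c3, c4⟩
    · exfalso; linarith [pvhxk_small (Y := Y) hn hσ ha c1 (by linarith) c3 (by linarith)]
    · have hs : 55 / 100 * a < pvhxS ζ₀ Y w := by
        by_contra hc
        linarith [pvhxk_small (Y := Y) hn hσ ha c1 (not_lt.1 hc) c3 (by linarith)]
      exact ⟨pvhxk_out (Y := Y) hζ₀ (by linarith), c4, hs⟩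
    · exfalso; linarith [q1.2]
  refine ⟨fun w hw => pvhx_C_le hn hσ N (hsub hw), fun w hw => pvhx_C_ge hn hσ N (hsub hw), fun ζ hζ hadm => ?_, fun w hw hb => ?_, fun w hw => ?_, fun w hw q hq => ?_,
    fun R hR => pvhxk_B_joined hn hσ ha N.ℓ_lo hrc hR he1 he2 he3 he4⟩
  · have hadm' : Rk + pvhxS ζ Y zc < κ := by rw [← pvhxk_side]; linarith
    rcases pvhxk_cases hζ₀ hζ hσ with rfl | rfl | rfl | rfl
    · refine pvhxk_door0 hσ (fun w hw h => ?_) (fun w hw h1 h2 => ⟨(hcol w hw h1 h2).1, by linarith [(hcol w hw h1 h2).2.1]⟩) (fun w hw => by linarith [(hst w hw).2.1])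
      have q1 := abs_le.1 (pvhx_S_le_norm hn Y w)
      rcases hw with (⟨c1, c2, c3, c4⟩ | ⟨c1, c2, c3, c4⟩) | ⟨c1, c2, c3, c4⟩
      · exact Or.inl (by linarith)
      · exact Or.inr (lt_of_lt_of_le (by linarith) (neg_le_abs _))
      · exfalso; linarith [q1.2]
    · exfalso; rw [pvhxk_SN] at hadm'; linarith
    · exfalso; rw [pvhxk_SW] at hadm'; linarith
    · refine pvhxk_doorB hσ (fun w hw h => ?_) (fun w hw h1 h2 => ⟨(hcol w hw h1 h2).1, by linarith [(hcol w hw h1 h2).2.2]⟩) (fun w hw => by linarith [(hst w hw).1])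
      rcases hw with (⟨c1, c2, c3, c4⟩ | ⟨c1, c2, c3, c4⟩) | ⟨c1, c2, c3, c4⟩
      · exact Or.inr (lt_of_lt_of_le (by linarith) (neg_le_abs _))
      · exact Or.inl (by linarith)
      · exact Or.inr (lt_of_lt_of_le (by linarith) (le_abs_self _))
  · refine pvhx_C_box hn hσ N (hsub hw) ?_
    have := pvhxk_in (Y := Y) hζ₀ hb
    linarith
  · exact ⟨pvhxk_outB (Y := Y) hζ₀ hσ (by linarith [(hst w hw).2.1]), (hst w hw).2.2⟩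
  · obtain ⟨q1, q2, q3⟩ := hIn q hq
    exact pvhx_C_far_in hn hσ N (hsub hw) q1 q2 q3

/-! ## 6. the hook of ANY tip cell -/

/-- **A HOOK AT EVERY TIP CELL**: `ζ₀` = the side of the door (the straight link leaves along its normal);   `Y` within `.51 a` of the box;   nothing is asked of the other sides -/
theorem pvhxk_hook_any {ζ₀ zc Y : ℂ} {Rk σ a δc ℓ κ μ η rc : ℝ} (hζ₀ : ζ₀ ∈ pvtzdDir) (hσ : σ = 1 ∨ σ = -1) (N : PvhxNum a δc ℓ)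
    (hin : ∀ ζ ∈ pvtzdDir, -(51 / 100 * a) ≤ Rk + (ζ * zc).re - (ζ * Y).re) (hB2 : Rk + (ζ₀ * zc).re - (ζ₀ * Y).re + η ≤ 40 / 100 * a)
    (hbig : κ + 51 / 100 * a ≤ 2 * Rk) (hκ : κ + μ < 51 / 100 * a) (hκη : κ + η ≤ 40 / 100 * a) (hμ0 : 0 ≤ μ) (hμ : μ < a / 100) (hη0 : 0 ≤ η) (hη : η ≤ 13 / 100 * a) (hrc : rc ≤ a / 100) {In0 : Set ℂ}
    (hIn : ∀ q ∈ In0, 0 ≤ pvhxS ζ₀ Y q ∧ ℓ + 2 / 10 * δc ≤ pvhxT ζ₀ Y σ q ∧ pvhxT ζ₀ Y σ q ≤ ℓ + 7 / 10 * δc) {e : ℂ}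
    (he1 : 81 / 100 * a + rc ≤ pvhxS ζ₀ Y e) (he2 : pvhxS ζ₀ Y e + rc ≤ 83 / 100 * a) (he3 : -(55 / 100 * a) + rc ≤ pvhxT ζ₀ Y σ e) (he4 : pvhxT ζ₀ Y σ e + rc ≤ ℓ) :
    ∃ C x, PvhxHook zc Rk Y (-σ) a κ μ η rc δc In0 C x e := by
  have hσ' : -σ = 1 ∨ -σ = -1 := by rcases hσ with rfl | rfl <;> simp
  have b0 := hin ζ₀ hζ₀
  have bW := hin _ (pvhxk_mem hζ₀ hσ)
  have bB := hin _ (pvhxk_mem hζ₀ hσ')
  rw [pvhxk_side] at b0 hB2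
  rw [pvhxk_side, pvhxk_SW] at bW
  rw [pvhxk_side, pvhxk_SB] at bB
  by_cases hW : Rk - pvhxT ζ₀ Y σ zc < κ
  · exact ⟨_, _, pvhxk_hook_W hζ₀ hσ N b0 hB2 (by linarith) (by linarith) hbig hκ hκη hμ0 hμ hη0 hη hrc hIn he1 he2 he3 he4⟩
  by_cases hB : Rk + pvhxT ζ₀ Y σ zc < κ
  · exact ⟨_, _, pvhxk_hook_B hζ₀ hσ N b0 hB2 bB (by linarith) hbig hκ hκη hμ0 hμ hη0 hη hrc hIn he1 he2 he3 he4⟩
  refine ⟨_, _, pvhx_hook_N hζ₀ hσ N (fun ζ hζ hadm => ?_) (by rw [pvhxk_side]; exact b0) (by rw [pvhxk_side]; exact hB2) hκ (by linarith) hμ0 hμ hη0 hη hrc hIn he1 he2 he3 he4⟩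
  have hadm' : Rk + pvhxS ζ Y zc < κ := by rw [← pvhxk_side]; linarith
  rcases pvhxk_cases hζ₀ hζ hσ with rfl | rfl | rfl | rfl
  · rfl
  · exfalso; rw [pvhxk_SN] at hadm'; linarith
  · exfalso; rw [pvhxk_SW] at hadm'; exact hW (by linarith)
  · exfalso; rw [pvhxk_SB] at hadm'; exact hB hadm'

end Claimed.Agent.R289
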