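-- KEEP
import Claimed.Agent.R289.Tr.HookWR

/-!
# Row 289 (S0537), THE WALL, E10, file Tr/HookWS : THE HOOKED OUTER WHITE CORRIDOR AT THE INDEX OF RECORD      (helper221; prefix `pvhx_`, defs `pvhx*`, `Pvhx*`, continued from `Tr/HookWR`)

PRODUCER of the records `PvhxCor`, `PvhxLink` of `Tr/HookWR` from the index predicates of 209 (`PvfeIx`, `PvfeDoors`, `PvtsGeo.Ok`).
* sec. 1  straight runs of a word: `pvhx_run_fwd`, `pvhx_run_bwd`
* sec. 2  **`PvhxRun`** = a straight link seen in the frame of its tip; `pvhx_runT`, `pvhx_runS`; coordinates of the lanes `PvhxRun.pt`, `PvhxRun.mid`; `PvhxRun.link` (`PvhxLink`)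
* sec. 3  **`PvhxGeo`** = what is asked of the index (frames, base cells, `PvfeLk`, boxes); **`PvhxGeo.cor`** : `∃ j₀ j₁ ..`, `PvhxCor` + the two `PvhxLink`
* sec. 4  `PvhxGeo` at the model: `pvhx_geo` from `PvfeIx`, `PvfeDoors`, `Γ.Ok p` and numbers
-/

set_option autoImplicit false
set_option linter.unusedVariables false

namespace Claimed.Agent.R289

open Set Metric Complex

/-! ## 1. straight runs -/

theorem pvhx_run_fwd (z d : ℂ) (l : List PvtTurn) {n : ℕ} (hn : n ≤ l.length) (hS : ∀ i, i < n → pvccT l i = PvtTurn.S) :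
    ∀ i, i ≤ n → pvccD d l i = d ∧ pvccZ z d l i = z + (i : ℂ) * d := by
  intro i
  induction i with
  | zero => intro _; simp
  | succ i ih =>
    intro hi
    obtain ⟨h1, h2⟩ := ih (by omega)
    have hl : i < l.length := by omega
    rw [pvccD_succ d l hl, pvccZ_succ z d l hl, h1, h2, hS i (by omega)]
    refine ⟨by simp [PvtTurn.rot], ?_⟩
    simp only [PvtTurn.mid]
    push_cast; ring

theorem pvhx_run_bwd (z d : ℂ) (l : List PvtTurn) {n : ℕ} (hn : n ≤ l.length) (hS : ∀ i, l.length ≤ i + n → i < l.length → pvccT l i = PvtTurn.S) :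
    ∀ k, k ≤ n → pvccD d l (l.length - k) = pvccD d l l.length ∧ pvccZ z d l (l.length - k) = pvccZ z d l l.length - (k : ℂ) * pvccD d l l.length := by
  intro k
  induction k with
  | zero => intro _; simp
  | succ k ih =>
    intro hk
    obtain ⟨h1, h2⟩ := ih (by omega)
    have hl : l.length - (k + 1) < l.length := by omega
    have e : l.length - k = (l.length - (k + 1)) + 1 := by omega
    have hT := hS (l.length - (k + 1)) (by omega) hl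
    rw [e, pvccD_succ d l hl, hT] at h1
    rw [e, pvccZ_succ z d l hl, hT] at h2
    simp only [PvtTurn.rot, PvtTurn.mid, mul_one] at h1 h2
    refine ⟨h1, ?_⟩
    rw [h1] at h2
    push_cast
    linear_combination h2

/-! ## 2. a straight link in the frame of its tip -/

theorem pvhx_S_add (ζ Y C v : ℂ) : pvhxS ζ Y (C + v) = pvhxS ζ Y C + (ζ * v).re := by
  unfold pvhxS
  rw [← add_re]; congr 1; ring

theorem pvhx_L_add (ζ Y C v : ℂ) : pvhxL ζ Y (C + v) = pvhxL ζ Y C + (ζ * v).im := by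
  unfold pvhxL
  rw [← add_im]; congr 1; ring

theorem pvhx_norm_le_add {ζ : ℂ} (hζ : ‖ζ‖ = 1) (Y w : ℂ) : ‖w - Y‖ ≤ |pvhxS ζ Y w| + |pvhxL ζ Y w| := by
  have h1 : ‖ζ * (w - Y)‖ = ‖w - Y‖ := by rw [norm_mul, hζ, one_mul]
  rw [← h1]
  exact Complex.norm_le_abs_re_add_abs_im _

/-- **A STRAIGHT LINK SEEN FROM ITS TIP**: the cells `idx k`, `k < n`, leave the tip along the normal; `S₀`, `T₀` = coordinates of the centre of the base cell `idx 0`; `σ = 1`: the corridor leaves the tip, `σ = -1`: it arrives -/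
structure PvhxRun (ζ Y : ℂ) (σ δc : ℝ) (z d : ℂ) (l : List PvtTurn) (n : ℕ) (idx : ℕ → ℕ) (S₀ T₀ : ℝ) : Prop where
  lt : ∀ k, k < n → idx k < l.length
  str : ∀ k, k < n → pvccT l (idx k) = PvtTurn.S
  dir : ∀ k, k < n → ζ * pvccD d l (idx k) = ((σ * δc : ℝ) : ℂ)
  S : ∀ k, k < n → pvhxS ζ Y (pvccC z d l (idx k)) = S₀ + k * δc
  T : ∀ k, k < n → pvhxT ζ Y σ (pvccC z d l (idx k)) = T₀

theorem pvhx_runT {ζ Y z d : ℂ} {δc : ℝ} {l : List PvtTurn} {n : ℕ} (hn : n ≤ l.length) (hS : ∀ i, i < n → pvccT l i = PvtTurn.S) (hζd : ζ * d = (δc : ℂ)) :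
    PvhxRun ζ Y 1 δc z d l n (fun k => k) (pvhxS ζ Y (z + d / 2)) (pvhxT ζ Y 1 (z + d / 2)) := by
  have H := pvhx_run_fwd z d l hn hS
  have eC : ∀ k, k < n → pvccC z d l k = (z + d / 2) + (k : ℂ) * d := by
    intro k hk
    obtain ⟨h1, h2⟩ := H k hk.le
    unfold pvccC; rw [h1, h2]; ring
  have ev : ∀ k : ℕ, ζ * ((k : ℂ) * d) = ((k * δc : ℝ) : ℂ) := by
    intro k
    rw [mul_left_comm, hζd]; push_cast; ring
  refine ⟨fun k hk => by omega, hS, fun k hk => ?_, fun k hk => ?_, fun k hk => ?_⟩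
  · rw [(H k hk.le).1, hζd, one_mul]
  · rw [eC k hk, pvhx_S_add, ev, ofReal_re]
  · unfold pvhxT
    rw [eC k hk, pvhx_L_add, ev, ofReal_im, add_zero]

theorem pvhx_runS {ζ Y z d : ℂ} {δc : ℝ} {l : List PvtTurn} {n : ℕ} (hn : n ≤ l.length) (hS : ∀ i, l.length ≤ i + n → i < l.length → pvccT l i = PvtTurn.S)
    (hζd : ζ * pvccD d l l.length = ((-δc : ℝ) : ℂ)) :
    PvhxRun ζ Y (-1) δc z d l n (fun k => l.length - 1 - k) (pvhxS ζ Y (pvccZ z d l l.length - pvccD d l l.length / 2)) (pvhxT ζ Y (-1) (pvccZ z d l l.length - pvccD d l l.length / 2)) := by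
  have H := pvhx_run_bwd z d l hn hS
  have ei : ∀ k, l.length - 1 - k = l.length - (k + 1) := fun k => by omega
  have eC : ∀ k, k < n → pvccC z d l (l.length - 1 - k) = (pvccZ z d l l.length - pvccD d l l.length / 2) + (-(k : ℂ)) * pvccD d l l.length := by
    intro k hk
    obtain ⟨h1, h2⟩ := H (k + 1) hk
    unfold pvccC; rw [ei, h1, h2]; push_cast; ring
  have ev : ∀ k : ℕ, ζ * ((-(k : ℂ)) * pvccD d l l.length) = ((k * δc : ℝ) : ℂ) := by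
    intro k
    rw [mul_left_comm, hζd]; push_cast; ring
  refine ⟨fun k hk => by omega, fun k hk => hS _ (by omega) (by omega), fun k hk => ?_, fun k hk => ?_, fun k hk => ?_⟩
  · show ζ * pvccD d l (l.length - 1 - k) = _
    rw [ei, (H (k + 1) hk).1, hζd]; congr 1; ring
  · show pvhxS ζ Y (pvccC z d l (l.length - 1 - k)) = _
    rw [eC k hk, pvhx_S_add, ev, ofReal_re]
  · show pvhxT ζ Y (-1) (pvccC z d l (l.length - 1 - k)) = _
    unfold pvhxT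
    rw [eC k hk, pvhx_L_add, ev, ofReal_im, add_zero]

section run

variable {ζ Y : ℂ} {σ δc : ℝ} {z d : ℂ} {l : List PvtTurn} {n : ℕ} {idx : ℕ → ℕ} {S₀ T₀ : ℝ}

/-- coordinates of the point `t + u i` of the cell `idx k` -/
theorem PvhxRun.coord (Rn : PvhxRun ζ Y σ δc z d l n idx S₀ T₀) (hσ : σ = 1 ∨ σ = -1) {k : ℕ} (hk : k < n) (u : ℂ) :
    pvhxS ζ Y (pvccZ z d l (idx k) + pvccD d l (idx k) * u) = S₀ + k * δc + σ * δc * (u.re - 1 / 2) ∧ pvhxT ζ Y σ (pvccZ z d l (idx k) + pvccD d l (idx k) * u) = T₀ + δc * u.im := by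
  have e : pvccZ z d l (idx k) + pvccD d l (idx k) * u = pvccC z d l (idx k) + pvccD d l (idx k) * (u - 1 / 2) := by unfold pvccC; ring
  have ev : ζ * (pvccD d l (idx k) * (u - 1 / 2)) = ((σ * δc : ℝ) : ℂ) * (u - 1 / 2) := by rw [← mul_assoc, Rn.dir k hk]
  have hT := Rn.T k hk
  unfold pvhxT at hT ⊢
  rw [e, pvhx_S_add, pvhx_L_add, ev, Rn.S k hk, re_ofReal_mul, im_ofReal_mul]
  refine ⟨by simp, ?_⟩
  have e2 : (u - 1 / 2).im = u.im := by simp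
  rw [e2, mul_add, hT]
  rcases hσ with rfl | rfl <;> ring

/-- a point of a lane of the link -/
theorem PvhxRun.pt (Rn : PvhxRun ζ Y σ δc z d l n idx S₀ T₀) (hσ : σ = 1 ∨ σ = -1) (hδ : 0 ≤ δc) {a b : ℝ} {k : ℕ} (hk : k < n) {w : ℂ} (hw : w ∈ pvccK (pvfeLane a b) z d l (idx k)) :
    S₀ + k * δc - δc / 2 ≤ pvhxS ζ Y w ∧ pvhxS ζ Y w ≤ S₀ + k * δc + δc / 2 ∧ T₀ + a * δc ≤ pvhxT ζ Y σ w ∧ pvhxT ζ Y σ w ≤ T₀ + b * δc := by
  obtain ⟨u, hu, rfl⟩ := hw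
  rw [Rn.str k hk] at hu
  obtain ⟨u1, u2, u3, u4⟩ := hu
  obtain ⟨e1, e2⟩ := Rn.coord hσ hk u
  simp only at e1 e2 ⊢
  rw [e1, e2]
  refine ⟨?_, ?_, by nlinarith, by nlinarith⟩
  · rcases hσ with rfl | rfl <;> nlinarith
  · rcases hσ with rfl | rfl <;> nlinarith

/-- the middle point of offset `u` -/
theorem PvhxRun.mid (Rn : PvhxRun ζ Y σ δc z d l n idx S₀ T₀) (hσ : σ = 1 ∨ σ = -1) {k : ℕ} (hk : k < n) (u : ℝ) :
    pvhxS ζ Y (pvljMid u z d l (idx k)) = S₀ + k * δc ∧ pvhxT ζ Y σ (pvljMid u z d l (idx k)) = T₀ + δc * u := by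
  obtain ⟨e1, e2⟩ := Rn.coord hσ hk (((1 / 2 : ℝ) : ℂ) + (u : ℂ) * I)
  unfold pvljMid pvljPt
  rw [Rn.str k hk]
  simp only [pvljX]
  rw [e1, e2]
  constructor
  · simp
  · simp

/-- the centre of a cell of the link -/
theorem PvhxRun.ctr_ge (Rn : PvhxRun ζ Y σ δc z d l n idx S₀ T₀) (hζ : ‖ζ‖ = 1) {k : ℕ} (hk : k < n) : S₀ + k * δc ≤ ‖pvccC z d l (idx k) - Y‖ := by
  have := (le_abs_self _).trans (pvhx_S_le_norm hζ Y (pvccC z d l (idx k)))
  rwa [Rn.S k hk] at this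

theorem PvhxRun.ctr_le (Rn : PvhxRun ζ Y σ δc z d l n idx S₀ T₀) (hζ : ‖ζ‖ = 1) (hσ : σ = 1 ∨ σ = -1) {k : ℕ} (hk : k < n) : ‖pvccC z d l (idx k) - Y‖ ≤ |S₀ + k * δc| + |T₀| := by
  have := pvhx_norm_le_add hζ Y (pvccC z d l (idx k))
  rwa [← pvhx_abs_T hσ, Rn.S k hk, Rn.T k hk] at this

/-- the inner lanes of the link -/
def pvhxIn (z d : ℂ) (l : List PvtTurn) (n : ℕ) (idx : ℕ → ℕ) : Set ℂ := {q | ∃ k, k < n ∧ q ∈ pvccK (pvfeLane (-(1 / 10)) (4 / 10)) z d l (idx k)}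

/-- **`PvhxLink` FROM A STRAIGHT LINK** -/
theorem PvhxRun.link (Rn : PvhxRun ζ Y σ δc z d l n idx S₀ T₀) (hσ : σ = 1 ∨ σ = -1) {a rc : ℝ} (ha : 0 < a) (hδ : 0 < δc) (hf : 400 * δc ≤ a) (hS : |S₀ - 3 / 8 * a| ≤ δc) (hT : |T₀| ≤ δc)
    (hrc : rc ≤ δc / 20) {k₀ : ℕ} (hk : k₀ < n) (h1 : 815 / 1000 * a ≤ S₀ + k₀ * δc) (h2 : S₀ + k₀ * δc ≤ 825 / 1000 * a) :
    PvhxLink ζ Y σ a δc (T₀ - 3 / 10 * δc) rc (pvhxIn z d l n idx) (pvljMid (-(35 / 100)) z d l (idx k₀)) := by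
  obtain ⟨s1, s2⟩ := abs_le.1 hS
  obtain ⟨t1, t2⟩ := abs_le.1 hT
  obtain ⟨e1, e2⟩ := Rn.mid hσ hk (-(35 / 100))
  refine ⟨⟨ha, hδ, by linarith, by linarith, by linarith⟩, ?_, by rw [e1]; linarith, by rw [e1]; linarith, by rw [e2]; linarith, by rw [e2]; linarith⟩
  rintro q ⟨k, hk', hq⟩
  obtain ⟨q1, -, q3, q4⟩ := Rn.pt hσ hδ.le hk' hq
  have hk0 : (0 : ℝ) ≤ k * δc := by positivity
  exact ⟨by linarith, by linarith, by linarith⟩

end run

theorem pvhx_pick {S₀ δc a : ℝ} (hδ : 0 < δc) (hf : 400 * δc ≤ a) (hS : S₀ ≤ 815 / 1000 * a) : ∃ k : ℕ, 815 / 1000 * a ≤ S₀ + k * δc ∧ S₀ + k * δc ≤ 825 / 1000 * a := by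
  refine ⟨⌈(815 / 1000 * a - S₀) / δc⌉₊, ?_, ?_⟩
  · have := Nat.le_ceil ((815 / 1000 * a - S₀) / δc)
    rw [div_le_iff₀ hδ] at this; linarith
  · have := Nat.ceil_lt_add_one (a := (815 / 1000 * a - S₀) / δc) (div_nonneg (by linarith) hδ.le)
    have h2 := mul_lt_mul_of_pos_right this hδ
    rw [add_mul, div_mul_cancel₀ _ hδ.ne', one_mul] at h2
    linarith

/-! ## 3. the corridor between the two hooks -/

/-- **WHAT IS ASKED OF THE INDEX**: frames `ζt ζs` of the two doors, base cells at `3a/8` in front of the centres of the tip cells, `PvfeLk`, the boxes -/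
structure PvhxGeo (zt zs : ℂ) (Rt Rs : ℝ) (yt ys ζt ζs : ℂ) (a δc : ℝ) (z d : ℂ) (l : List PvtTurn) (Z : Set (ℤ × ℤ)) : Prop where
  a0 : 0 < a
  δ0 : 0 < δc
  nd : ‖d‖ = δc
  fine : 400 * δc ≤ a
  simple : PvccSimple l l.length
  nr : PvfeNR l
  hζt : ζt ∈ pvtzdDir
  hζs : ζs ∈ pvtzdDir
  dir_t : ζt * d = (δc : ℂ)
  dir_s : ζs * pvccD d l l.length = ((-δc : ℝ) : ℂ)
  St : |pvhxS ζt yt (z + d / 2) - 3 / 8 * a| ≤ δc
  Lt : |pvhxL ζt yt (z + d / 2)| ≤ δc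
  Ss : |pvhxS ζs ys (pvccZ z d l l.length - pvccD d l l.length / 2) - 3 / 8 * a| ≤ δc
  Ls : |pvhxL ζs ys (pvccZ z d l l.length - pvccD d l l.length / 2)| ≤ δc
  lk : PvfeLk δc (a + 4 * δc) (3 * a) ys yt z d l Z
  side_t : Rt + (ζt * zt).re - (ζt * yt).re ≤ a / 4
  side_s : Rs + (ζs * zs).re - (ζs * ys).re ≤ a / 4
  low_t : ∀ ζ ∈ pvtzdDir, -(a / 4) ≤ Rt + (ζ * zt).re - (ζ * yt).re
  low_s : ∀ ζ ∈ pvtzdDir, -(a / 4) ≤ Rs + (ζ * zs).re - (ζ * ys).re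
  away_t : ∀ w, ‖w - ys‖ ≤ 4 * a → w ∉ pvwSq zt Rt
  away_s : ∀ w, ‖w - yt‖ ≤ 4 * a → w ∉ pvwSq zs Rs
  sep : 3 * a ≤ ‖yt - ys‖

/-- a point in front of the side `ζ` is off the box -/
theorem pvhx_not_sq_S {ζ zc Y w : ℂ} {Rk : ℝ} (hζ : ζ ∈ pvtzdDir) (h : Rk + (ζ * zc).re - (ζ * Y).re < pvhxS ζ Y w) : w ∉ pvwSq zc Rk :=
  pvhx_not_sq hζ (by rw [pvhx_S_eq] at h; linarith)

set_option maxHeartbeats 1000000 in
/-- **THE CORRIDOR AND THE TWO LINKS AT THE INDEX** -/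
theorem PvhxGeo.cor {zt zs : ℂ} {Rt Rs : ℝ} {yt ys ζt ζs : ℂ} {a δc : ℝ} {z d : ℂ} {l : List PvtTurn} {Z : Set (ℤ × ℤ)} (G : PvhxGeo zt zs Rt Rs yt ys ζt ζs a δc z d l Z)
    {μ rc : ℝ} (hμ0 : 0 ≤ μ) (hμ : μ < a / 100) (hrc : rc ≤ δc / 20) :
    ∃ (j₀ j₁ : ℕ) (Int Ins : Set ℂ) (ℓt ℓs : ℝ), PvhxCor zt zs Rt Rs yt ys a μ z d l j₀ j₁ Int Ins (pvtU δc Z) ∧
      PvhxLink ζt yt 1 a ‖d‖ ℓt rc Int (pvljMid (-(35 / 100)) z d l j₀) ∧ PvhxLink ζs ys (-1) a ‖d‖ ℓs rc Ins (pvljMid (-(35 / 100)) z d l j₁) := by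
  obtain rfl := G.nd
  have ha := G.a0
  have hδ := G.δ0
  have hf := G.fine
  have nζt := pvtzd_dir_norm G.hζt
  have nζs := pvtzd_dir_norm G.hζs
  have σt : (1 : ℝ) = 1 ∨ (1 : ℝ) = -1 := Or.inl rfl
  have σs : (-1 : ℝ) = 1 ∨ (-1 : ℝ) = -1 := Or.inr rfl
  obtain ⟨nt, ns, hsum, lt_len, ls_len, strT, strS, farT, farS, mid⟩ := G.lk
  have RT := pvhx_runT (Y := yt) (z := z) (by omega : nt ≤ l.length) strT G.dir_t
  have RS := pvhx_runS (Y := ys) (z := z) (by omega : ns ≤ l.length) strS G.dir_s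
  have gSt := G.St
  have gSs := G.Ss
  have hTt : |pvhxT ζt yt 1 (z + d / 2)| ≤ ‖d‖ := by rw [pvhx_abs_T σt]; exact G.Lt
  have hTs : |pvhxT ζs ys (-1) (pvccZ z d l l.length - pvccD d l l.length / 2)| ≤ ‖d‖ := by rw [pvhx_abs_T σs]; exact G.Ls
  have bt : ‖z + d / 2 - yt‖ ≤ 3 / 8 * a + 2 * ‖d‖ := by
    have := pvhx_norm_le_add nζt yt (z + d / 2)
    obtain ⟨st1, st2⟩ := abs_le.1 G.St
    have h2 : |pvhxS ζt yt (z + d / 2)| ≤ 3 / 8 * a + ‖d‖ := abs_le.2 ⟨by linarith, by linarith⟩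
    linarith [G.Lt]
  have bs : ‖pvccZ z d l l.length - pvccD d l l.length / 2 - ys‖ ≤ 3 / 8 * a + 2 * ‖d‖ := by
    have := pvhx_norm_le_add nζs ys (pvccZ z d l l.length - pvccD d l l.length / 2)
    obtain ⟨ss1, ss2⟩ := abs_le.1 G.Ss
    have h2 : |pvhxS ζs ys (pvccZ z d l l.length - pvccD d l l.length / 2)| ≤ 3 / 8 * a + ‖d‖ := abs_le.2 ⟨by linarith, by linarith⟩
    linarith [G.Ls]
  generalize pvhxS ζt yt (z + d / 2) = St₀ at RT gSt
  generalize pvhxT ζt yt 1 (z + d / 2) = Tt₀ at RT hTt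
  generalize pvhxS ζs ys (pvccZ z d l l.length - pvccD d l l.length / 2) = Ss₀ at RS gSs
  generalize pvhxT ζs ys (-1) (pvccZ z d l l.length - pvccD d l l.length / 2) = Ts₀ at RS hTs
  obtain ⟨st1, st2⟩ := abs_le.1 gSt
  obtain ⟨ss1, ss2⟩ := abs_le.1 gSs
  have mm : ∀ {x y : ℝ}, x ≤ y → x * ‖d‖ ≤ y * ‖d‖ := fun h => mul_le_mul_of_nonneg_right h hδ.le
  have m0 : ∀ {x : ℝ}, 0 ≤ x → 0 ≤ x * ‖d‖ := fun h => mul_nonneg h hδ.le
  -- the word is not empty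
  have hlen : 0 < l.length := by
    by_contra hc
    have hl : l.length = 0 := by omega
    rw [hl, pvccZ_zero, pvccD_zero] at bs
    have h1 := pvhx_tri yt (z + d / 2) ys
    have h2 := pvhx_tri (z + d / 2) (z - d / 2) ys
    have e : z + d / 2 - (z - d / 2) = d := by ring
    rw [e] at h2
    rw [norm_sub_rev yt (z + d / 2)] at h1
    linarith [G.sep]
  have eC0 : pvccC z d l 0 = z + d / 2 := by simp [pvccC]
  have eCl : pvccC z d l (l.length - 1) = pvccZ z d l l.length - pvccD d l l.length / 2 := by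
    have := pvccC_prev z d l (j := l.length - 1) (by omega)
    rw [show l.length - 1 + 1 = l.length by omega] at this
    exact this.symm
  have hnt : 0 < nt := by
    by_contra hc
    have := farT 0 (by omega) hlen
    rw [eC0] at this
    linarith
  have hns : 0 < ns := by
    by_contra hc
    have := farS (l.length - 1) (by omega)
    rw [eCl] at this
    linarith
  -- the junction cells
  obtain ⟨k₀, p1, p2⟩ := pvhx_pick (S₀ := St₀) hδ hf (by linarith)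
  obtain ⟨k₁, r1, r2⟩ := pvhx_pick (S₀ := Ss₀) hδ hf (by linarith)
  have hk₀ : k₀ < nt := by
    by_contra hc
    have h1 := farT nt le_rfl (by omega)
    have h2 := pvlj_C_succ z d l (j := nt - 1) (by omega)
    rw [show nt - 1 + 1 = nt by omega] at h2
    have h3 := RT.ctr_le nζt σt (k := nt - 1) (by omega)
    have h4 : ((nt - 1 : ℕ) : ℝ) ≤ k₀ := by exact_mod_cast (by omega : nt - 1 ≤ k₀)
    have h5 : (0 : ℝ) ≤ ((nt - 1 : ℕ) : ℝ) := Nat.cast_nonneg _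
    have h6 : |St₀ + ((nt - 1 : ℕ) : ℝ) * ‖d‖| ≤ 825 / 1000 * a := abs_le.2 ⟨by linarith [m0 h5], by linarith [mm h4]⟩
    have h7 : ‖pvccC z d l nt - yt‖ ≤ ‖pvccC z d l (nt - 1) - yt‖ + ‖d‖ := by
      rw [h2, add_sub_right_comm]
      exact (norm_add_le _ _).trans (by rw [pvfe_norm_frame])
    linarith
  have hk₁ : k₁ < ns := by
    by_contra hc
    have h1 := farS (l.length - 1 - ns) (by omega)
    have h2 := pvlj_C_succ z d l (j := l.length - 1 - ns) (by omega)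
    rw [show l.length - 1 - ns + 1 = l.length - 1 - (ns - 1) by omega] at h2
    have h3 := RS.ctr_le nζs σs (k := ns - 1) (by omega)
    have h4 : ((ns - 1 : ℕ) : ℝ) ≤ k₁ := by exact_mod_cast (by omega : ns - 1 ≤ k₁)
    have h5 : (0 : ℝ) ≤ ((ns - 1 : ℕ) : ℝ) := Nat.cast_nonneg _
    have h6 : |Ss₀ + ((ns - 1 : ℕ) : ℝ) * ‖d‖| ≤ 825 / 1000 * a := abs_le.2 ⟨by linarith [m0 h5], by linarith [mm h4]⟩
    have h7 : ‖pvccC z d l (l.length - 1 - ns) - ys‖ ≤ ‖pvccC z d l (l.length - 1 - (ns - 1)) - ys‖ + ‖d‖ := by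
      have e : pvccC z d l (l.length - 1 - ns) - ys = (pvccC z d l (l.length - 1 - (ns - 1)) - ys) - pvccD d l (l.length - 1 - (ns - 1)) := by rw [h2]; ring
      rw [e]
      exact (norm_sub_le _ _).trans (by rw [pvfe_norm_frame])
    linarith
  have hk₀0 : 0 < k₀ := by
    by_contra hc
    have : k₀ = 0 := by omega
    subst this
    simp only [Nat.cast_zero, zero_mul, add_zero] at p1
    linarith
  have hk₁0 : 0 < k₁ := by
    by_contra hc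
    have : k₁ = 0 := by omega
    subst this
    simp only [Nat.cast_zero, zero_mul, add_zero] at r1
    linarith
  -- cells of the two links
  have cT : ∀ i, k₀ ≤ i → i < nt → 815 / 1000 * a ≤ pvhxS ζt yt (pvccC z d l i) := by
    intro i h1 h2
    have h3 := RT.S i h2
    rw [h3]
    have h4 : (k₀ : ℝ) ≤ i := by exact_mod_cast h1
    linarith [mm h4]
  have cS : ∀ i, i ≤ l.length - 1 - k₁ → l.length ≤ i + ns → 815 / 1000 * a ≤ pvhxS ζs ys (pvccC z d l i) ∧ ‖pvccC z d l i - ys‖ ≤ 27 / 8 * a + 2 * ‖d‖ := by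
    intro i h1 h2
    have hk : l.length - 1 - i < ns := by omega
    have h3 := RS.S (l.length - 1 - i) hk
    have h5 := RS.ctr_le nζs σs hk
    rw [show l.length - 1 - (l.length - 1 - i) = i by omega] at h3 h5
    have h4 : (k₁ : ℝ) ≤ ((l.length - 1 - i : ℕ) : ℝ) := by exact_mod_cast (by omega : k₁ ≤ l.length - 1 - i)
    have h6 : ((l.length - 1 - i : ℕ) : ℝ) ≤ ns := by exact_mod_cast hk.le
    have h7 : (0 : ℝ) ≤ ((l.length - 1 - i : ℕ) : ℝ) := Nat.cast_nonneg _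
    refine ⟨by rw [h3]; linarith [mm h4], ?_⟩
    have h8 : |Ss₀ + ((l.length - 1 - i : ℕ) : ℝ) * ‖d‖| ≤ 27 / 8 * a + ‖d‖ := abs_le.2 ⟨by linarith [m0 h7], by linarith [mm h6]⟩
    linarith
  have cT' : ∀ i, i < nt → ‖pvccC z d l i - yt‖ ≤ 27 / 8 * a + 2 * ‖d‖ := by
    intro i hi
    have h5 := RT.ctr_le nζt σt hi
    have h6 : (i : ℝ) ≤ nt := by exact_mod_cast hi.le
    have h7 : (0 : ℝ) ≤ (i : ℝ) := Nat.cast_nonneg _
    have h8 : |St₀ + (i : ℝ) * ‖d‖| ≤ 27 / 8 * a + ‖d‖ := abs_le.2 ⟨by linarith [m0 h7], by linarith [mm h6]⟩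
    linarith
  have geS : ∀ (ζ Y w : ℂ), ‖ζ‖ = 1 → pvhxS ζ Y w ≤ ‖w - Y‖ := fun ζ Y w h => (le_abs_self _).trans (pvhx_S_le_norm h Y w)
  refine ⟨k₀, l.length - 1 - k₁, pvhxIn z d l nt (fun k => k), pvhxIn z d l ns (fun k => l.length - 1 - k), Tt₀ - 3 / 10 * ‖d‖, Ts₀ - 3 / 10 * ‖d‖, ?_,
    RT.link σt ha hδ hf gSt hTt hrc hk₀ p1 p2, RS.link σs ha hδ hf gSs hTs hrc hk₁ r1 r2⟩
  refine ⟨ha, hμ0, hμ, norm_pos_iff.1 hδ, by linarith, G.simple, G.nr, hk₀0, by omega, by omega, fun i i1 i2 => ?_, fun i i1 i2 => ?_, fun q hq => ?_, fun q hq => ?_, G.sep,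
    fun i i1 i2 w hw hH => ?_, fun i i1 i2 w hw hH => ?_, fun w hw => G.away_t w (by linarith), fun w hw => G.away_s w (by linarith)⟩
  · by_cases h : i < nt
    · linarith [cT i i1 h, geS ζt yt (pvccC z d l i) nζt]
    · linarith [farT i (by omega) (by omega)]
  · by_cases h : i + ns < l.length
    · linarith [farS i h]
    · linarith [(cS i i2 (by omega)).1, geS ζs ys (pvccC z d l i) nζs]
  · obtain ⟨i, hi, hq⟩ := mem_iUnion₂.1 hq
    have hi' := Finset.mem_range.1 hi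
    by_cases h : i < nt
    · exact Or.inl ⟨i, h, hq⟩
    · right
      have h1 := mem_closedBall_iff_norm.1 (pvfe_K_sub_ball (by norm_num) (by norm_num) z d l i hq)
      have h2 := pvhx_tri (pvccC z d l i) q yt
      rw [norm_sub_rev _ q] at h2
      linarith [farT i (by omega) hi']
  · obtain ⟨i, hi, hq⟩ := mem_iUnion₂.1 hq
    have hi' := Finset.mem_range.1 hi
    by_cases h : i + ns < l.length
    · right
      have h1 := mem_closedBall_iff_norm.1 (pvfe_K_sub_ball (by norm_num) (by norm_num) z d l i hq)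
      have h2 := pvhx_tri (pvccC z d l i) q ys
      rw [norm_sub_rev _ q] at h2
      linarith [farS i h]
    · refine Or.inl ⟨l.length - 1 - i, by omega, ?_⟩
      show q ∈ pvccK (pvfeLane (-(1 / 10)) (4 / 10)) z d l (l.length - 1 - (l.length - 1 - i))
      rw [show l.length - 1 - (l.length - 1 - i) = i by omega]
      exact hq
  · have hw' := mem_closedBall_iff_norm.1 hw
    by_cases h : i < nt
    · refine pvhx_not_sq_S (Y := yt) G.hζt ?_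
      have := abs_le.1 ((pvhx_S_sub nζt yt w (pvccC z d l i)).trans hw')
      linarith [cT i i1 h, G.side_t, this.1]
    · by_cases h' : i + ns < l.length
      · exact absurd hH (Set.disjoint_left.1 (mid i (by omega) h') (closedBall_subset_closedBall (by linarith) hw))
      · refine G.away_t w ?_
        linarith [(cS i i2 (by omega)).2, pvhx_tri w (pvccC z d l i) ys]
  · have hw' := mem_closedBall_iff_norm.1 hw
    by_cases h' : i + ns < l.length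
    · by_cases h : i < nt
      · refine G.away_s w ?_
        linarith [cT' i h, pvhx_tri w (pvccC z d l i) yt]
      · exact absurd hH (Set.disjoint_left.1 (mid i (by omega) h') (closedBall_subset_closedBall (by linarith) hw))
    · refine pvhx_not_sq_S (Y := ys) G.hζs ?_
      have := abs_le.1 ((pvhx_S_sub nζs ys w (pvccC z d l i)).trans hw')
      linarith [(cS i i2 (by omega)).1, G.side_s, this.1]

/-! ## 4. `PvhxGeo` at the model -/

theorem pvhx_dir {u : ℤ × ℤ} (hu : PvfeDir u) : (starRingEnd ℂ) (pvtZ u) ∈ pvtzdDir ∧ (starRingEnd ℂ) (pvtZ u) * pvtZ u = 1 := by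
  rcases hu with rfl | rfl | rfl | rfl
  · exact ⟨Or.inl (by simp [pvtZ]), by simp [pvtZ]⟩
  · exact ⟨Or.inr (Or.inl (by simp [pvtZ])), by simp [pvtZ]⟩
  · exact ⟨Or.inr (Or.inr (Or.inr (by simp [pvtZ]))), by simp [pvtZ]⟩
  · exact ⟨Or.inr (Or.inr (Or.inl (by simp [pvtZ]))), by simp [pvtZ]⟩

theorem pvhx_ctr_sub (δ : ℝ) (e u : ℤ × ℤ) : pvtCtr δ (e - u) = pvtCtr δ e - (δ : ℂ) * pvtZ u := by
  apply Complex.ext
  · simp [pvtCtr, pvtZ]; ring
  · simp [pvtCtr, pvtZ]; ring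

/-- the base cell in the frame of the tip -/
theorem pvhx_base {ζ u Y C : ℂ} (hζ : ‖ζ‖ = 1) (hζu : ζ * u = 1) {c δ : ℝ} (herr : ‖C - (Y + (c : ℂ) * u)‖ ≤ δ) : |pvhxS ζ Y C - c| ≤ δ ∧ |pvhxL ζ Y C| ≤ δ := by
  have e : ζ * (C - Y) = ζ * (C - (Y + (c : ℂ) * u)) + (c : ℂ) := by
    have : ζ * (C - Y) = ζ * (C - (Y + (c : ℂ) * u)) + (c : ℂ) * (ζ * u) := by ring
    rw [this, hζu, mul_one]
  have hn : ‖ζ * (C - (Y + (c : ℂ) * u))‖ ≤ δ := by rw [norm_mul, hζ, one_mul]; exact herr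
  unfold pvhxS pvhxL
  rw [e]
  constructor
  · rw [add_re, ofReal_re, add_sub_cancel_right]; exact (abs_re_le_norm _).trans hn
  · rw [add_im, ofReal_im, add_zero]; exact (abs_im_le_norm _).trans hn

theorem pvhx_sq_norm {w zc : ℂ} {Rk : ℝ} (hw : w ∈ pvwSq zc Rk) : ‖w - zc‖ ≤ 2 * Rk := by
  have := Complex.norm_le_abs_re_add_abs_im (w - zc)
  linarith [hw.1, hw.2]

theorem pvhx_N_norm (w : ℂ) : ‖w‖ ≤ 2 * pvccN w := by
  have := Complex.norm_le_abs_re_add_abs_im w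
  unfold pvccN
  linarith [le_max_left |w.re| |w.im|, le_max_right |w.re| |w.im|]

theorem pvhx_dir_re_le {ζ : ℂ} (hζ : ζ ∈ pvtzdDir) (w : ℂ) : (ζ * w).re ≤ pvccN w := by
  unfold pvccN
  rcases hζ with rfl | rfl | rfl | rfl
  · simp only [one_mul]; exact (le_abs_self _).trans (le_max_left _ _)
  · simp only [neg_mul, one_mul, neg_re]; exact (neg_le_abs _).trans (le_max_left _ _)
  · simp only [mul_re, I_re, I_im, zero_mul, one_mul, zero_sub]; exact (neg_le_abs _).trans (le_max_right _ _)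
  · simp only [neg_mul, neg_re, mul_re, I_re, I_im, zero_mul, one_mul, zero_sub, neg_neg]; exact (le_abs_self _).trans (le_max_right _ _)

/-- the position of a side of the box of the level seen from the centre of a tip cell -/
theorem pvhx_side_eq (ζ zc yy : ℂ) (h Rk : ℝ) : Rk + (ζ * zc).re - (ζ * (zc + (h : ℂ) * yy)).re = Rk - h * (ζ * yy).re := by
  have e : ζ * (zc + (h : ℂ) * yy) = ζ * zc + (h : ℂ) * (ζ * yy) := by ring
  rw [e, add_re, re_ofReal_mul]; ring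

/-- the box of the level seen from the centre of a tip cell -/
theorem pvhx_tip_box {N : PvwNum} {h : ℝ} (hh : 0 < h) (T : PvwTy) (yy zc : ℂ) (hnd : |pvccN yy - (2 * T.b2 + T.k * N.rho1)| ≤ N.rho / 4) :
    (∀ ζ ∈ pvtzdDir, -(N.rho * h / 4) ≤ pvwRad N h T T.k + (ζ * zc).re - (ζ * (zc + (h : ℂ) * yy)).re) ∧
      (∀ ζ : ℂ, (ζ * yy).re = pvccN yy → pvwRad N h T T.k + (ζ * zc).re - (ζ * (zc + (h : ℂ) * yy)).re ≤ N.rho * h / 4) ∧
      ‖zc + (h : ℂ) * yy - zc‖ ≤ 2 * pvwRad N h T T.k + N.rho * h / 2 := by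
  obtain ⟨n1, n2⟩ := abs_le.1 hnd
  have m1 := mul_le_mul_of_nonneg_left n1 hh.le
  have m2 := mul_le_mul_of_nonneg_left n2 hh.le
  refine ⟨fun ζ hζ => ?_, fun ζ hζ => ?_, ?_⟩
  · rw [pvhx_side_eq]
    have := mul_le_mul_of_nonneg_left (pvhx_dir_re_le hζ yy) hh.le
    unfold pvwRad
    linarith
  · rw [pvhx_side_eq, hζ]
    unfold pvwRad
    linarith
  · rw [add_sub_cancel_left, norm_mul, norm_real, Real.norm_eq_abs, abs_of_pos hh]
    have := mul_le_mul_of_nonneg_left (pvhx_N_norm yy) hh.le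
    unfold pvwRad
    linarith

theorem pvhx_away {zt zs ys : ℂ} {Rt Rs RtK RsK a h : ℝ} (h1 : Rt ≤ RtK) (h2 : Rs ≤ RsK) (hs : 2 * (RsK + RtK) + 8 * h ≤ ‖zs - zt‖) (hys : ‖ys - zs‖ ≤ 2 * Rs + a / 2) (ha : a ≤ h) (hh : 0 < h) :
    ∀ w, ‖w - ys‖ ≤ 4 * a → w ∉ pvwSq zt Rt := by
  intro w hw hb
  have q1 := pvhx_sq_norm hb
  have q2 := pvhx_tri zs ys zt
  have q3 := pvhx_tri ys w zt
  rw [norm_sub_rev zs ys] at q2
  rw [norm_sub_rev ys w] at q3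
  linarith

section model

variable {τ : Type}

/-- **`PvhxGeo` AT THE INDEX OF RECORD** -/
theorem pvhx_geo (Γ : PvtsGeo τ) (ty : τ → PvwTy) (N : PvwNum) (h : ℝ) (p : PvtsPat τ) (Z : Set (ℤ × ℤ)) (hδ : 0 < Γ.δ) (hh : 0 < h) (hρ : 0 < N.rho) (hρ' : N.rho ≤ 1) (hρ1 : 0 ≤ N.rho1)
    (hfine : 400 * Γ.δ ≤ N.rho * h) (hOk : Γ.Ok p) (D : PvfeDoors Γ ty N h) (I : PvfeIx Γ ty N h p Z) (kt : (ty p.tt).k ≤ N.K) (ks : (ty p.ts).k ≤ N.K) :
    ∃ ζt ζs, PvhxGeo p.zt p.zs (pvwRad N h (ty p.tt) (ty p.tt).k) (pvwRad N h (ty p.ts) (ty p.ts).k) ((ty p.tt).cp h p.zt) ((ty p.ts).cm h p.zs) ζt ζs (N.rho * h) Γ.δ (pvfeZ Γ p) (pvfeD Γ p) p.l Z := by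
  obtain ⟨e, u, hu, epo, edo, eerr, edom⟩ := D.out p.tt
  obtain ⟨e', u', hu', epi, edi, eerr', edom'⟩ := D.inn p.ts
  obtain ⟨ζt1, ζt2⟩ := pvhx_dir hu
  obtain ⟨ζs1, ζs2⟩ := pvhx_dir hu'
  have ha : 0 < N.rho * h := mul_pos hρ hh
  have hah : N.rho * h ≤ h := by nlinarith
  have eCt : pvfeZ Γ p + pvfeD Γ p / 2 = p.zt + pvtCtr Γ.δ e := by
    unfold pvfeZ pvfeD; rw [epo, edo, pvhx_ctr_sub]; ring
  have eDl : pvccD (pvfeD Γ p) p.l p.l.length = -((Γ.δ : ℂ) * pvtZ u') := by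
    rw [pvccD_length]; unfold pvfeD; rw [pvtDir_mul, hOk.2, edi]; ring
  have eCs : pvccZ (pvfeZ Γ p) (pvfeD Γ p) p.l p.l.length - pvccD (pvfeD Γ p) p.l p.l.length / 2 = p.zs + pvtCtr Γ.δ e' := by
    rw [pvfe_last_door Γ hOk, eDl, epi, pvhx_ctr_sub]; ring
  have Bt := pvhx_base (ζ := (starRingEnd ℂ) (pvtZ u)) (u := pvtZ u) (Y := (ty p.tt).cp h p.zt) (C := p.zt + pvtCtr Γ.δ e) (pvtzd_dir_norm ζt1) ζt2 (c := 3 / 8 * (N.rho * h)) (δ := Γ.δ) (by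
    have : p.zt + pvtCtr Γ.δ e - ((ty p.tt).cp h p.zt + ((3 / 8 * (N.rho * h) : ℝ) : ℂ) * pvtZ u) = pvtCtr Γ.δ e - (h : ℂ) * ((ty p.tt).yp + ((3 * N.rho / 8 : ℝ) : ℂ) * pvtZ u) := by
      unfold PvwTy.cp; push_cast; ring
    rw [this]; exact eerr)
  have Bs := pvhx_base (ζ := (starRingEnd ℂ) (pvtZ u')) (u := pvtZ u') (Y := (ty p.ts).cm h p.zs) (C := p.zs + pvtCtr Γ.δ e') (pvtzd_dir_norm ζs1) ζs2 (c := 3 / 8 * (N.rho * h)) (δ := Γ.δ) (by
    have : p.zs + pvtCtr Γ.δ e' - ((ty p.ts).cm h p.zs + ((3 / 8 * (N.rho * h) : ℝ) : ℂ) * pvtZ u') = pvtCtr Γ.δ e' - (h : ℂ) * ((ty p.ts).ym + ((3 * N.rho / 8 : ℝ) : ℂ) * pvtZ u') := by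
      unfold PvwTy.cm; push_cast; ring
    rw [this]; exact eerr')
  obtain ⟨lowT, sideT, nT⟩ := pvhx_tip_box (N := N) hh (ty p.tt) (ty p.tt).yp p.zt (D.nd_p p.tt)
  obtain ⟨lowS, sideS, nS⟩ := pvhx_tip_box (N := N) hh (ty p.ts) (ty p.ts).ym p.zs (D.nd_m p.ts)
  have rT : pvwRad N h (ty p.tt) (ty p.tt).k ≤ pvwRad N h (ty p.tt) N.K := by
    unfold pvwRad
    have : ((ty p.tt).k : ℝ) ≤ N.K := by exact_mod_cast kt
    exact mul_le_mul_of_nonneg_right (by nlinarith) hh.le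
  have rS : pvwRad N h (ty p.ts) (ty p.ts).k ≤ pvwRad N h (ty p.ts) N.K := by
    unfold pvwRad
    have : ((ty p.ts).k : ℝ) ≤ N.K := by exact_mod_cast ks
    exact mul_le_mul_of_nonneg_right (by nlinarith) hh.le
  have sep := I.sep
  have sep' : 2 * (pvwRad N h (ty p.tt) N.K + pvwRad N h (ty p.ts) N.K) + 8 * h ≤ ‖p.zt - p.zs‖ := by rw [norm_sub_rev]; linarith
  refine ⟨(starRingEnd ℂ) (pvtZ u), (starRingEnd ℂ) (pvtZ u'), ha, hδ, by rw [pvfe_norm_D, abs_of_pos hδ], hfine, I.simple, I.nr, ζt1, ζs1, ?_, ?_, by rw [eCt]; exact Bt.1, by rw [eCt]; exact Bt.2,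
    by rw [eCs]; exact Bs.1, by rw [eCs]; exact Bs.2, by have := I.lk; rwa [mul_assoc] at this, sideT _ (by rw [mul_comm]; exact edom), sideS _ (by rw [mul_comm]; exact edom'), lowT, lowS,
    pvhx_away rT rS sep nS hah hh, pvhx_away rS rT sep' nT hah hh, ?_⟩
  · unfold pvfeD; rw [edo, mul_left_comm, ζt2, mul_one]
  · rw [eDl, mul_neg, mul_left_comm, ζs2, mul_one]; push_cast; rfl
  · have q2 := pvhx_tri p.zs ((ty p.ts).cm h p.zs) p.zt
    have q3 := pvhx_tri ((ty p.ts).cm h p.zs) ((ty p.tt).cp h p.zt) p.zt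
    rw [norm_sub_rev p.zs ((ty p.ts).cm h p.zs)] at q2
    rw [norm_sub_rev ((ty p.ts).cm h p.zs) ((ty p.tt).cp h p.zt)] at q3
    have nT' : ‖(ty p.tt).cp h p.zt - p.zt‖ ≤ _ := nT
    have nS' : ‖(ty p.ts).cm h p.zs - p.zs‖ ≤ _ := nS
    linarith

end model

end Claimed.Agent.R289
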