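import Claimed.Agent.R289.Tr.Top
import Claimed.Agent.R289.Tr.DomY
import Claimed.Agent.R289.Tr.Hook
import Claimed.Agent.R289.Tr.LinkQ
import Claimed.Agent.R289.Arm.FrameLoc

/-!
# Row 289 (S0537), THE WALL, file Tr/HybQ : FROM QUENCHED PATTERN BOUNDS TO `Forced.frc` OF THE HYBRID LINKS      (owner helper77; prefix `pvqh_`, `pvqh`, `Pvqh`)

SEAM between E10 (21, `Tr/LinkQ`: fully QUENCHED bounds `p ≤ colLaw ℂ {κ | cfOf Y κ ∈ Pat}` off a bad set of geometries) and the field `frc` of `Pvl3Sys.Forced` (129, `Tr/Top`), which is POINTWISE in the base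
configuration `σ` and speaks of `pvl3P ε K F A σ` (PPP resampled in the region `K` + colours of the finite set `F σ` of fresh sites).   Also = clause (g4) of 37 (the geometry of a mouth is FROZEN in the state).
MODEL FREE.
* sec.0  `pvqhO K` (what the resampling of `K` keeps), `PvqhFn σ` (one colour per site), `PvqhSees N Bad` (`Bad` is a set of GEOMETRIES seen in the window `N`)
* sec.1  **`pvqhSoft ε K Bad t`** `= {σ | pvP ε {η | spl (σ, η) ∈ Bad} ≤ t}` (outer measure: `Bad` needs NO measurability):   `pvqh_soft_reads`, **`pvqh_soft_cost`** (`P(not soft) ≤ P(Bad) / t`),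
         `pvqh_soft_congr` (it sees the SITES of `N \ K` only), **`pvqh_soft_R`** (stable under every atom `(K', F')` with `K'` disjoint from `N \ K`: may be put in the set `B` of `Pvl3Sys.WF`)
* sec.2  the colours of the PPP inside `K` are fresh bits: `pvqh_rec_le`, `pvqh_spl_rec`, **`pvqh_core`**
* sec.3  **`pvqh_frc`** : `σ` soft, quenched bound for the frozen colouring off `Bad`  ⟹  `p (1 - t) ≤ pvl3P ε K F A σ`;   **`pvqh_frc_copy`** : the same from the COPY colouring (`cfOf Y κ ∈ Pat ⟹` success)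
* sec.4  **`pvqh_frc_fkg`** : product with the propensities of a door plug: `p (1 - t) ∏ pvtiP (pvP ε) (pvqhO K) H σ ≤ pvl3P ε K F A σ` (annealed mixed FKG of 5 / 159 at every fixed colouring of the frozen part)
* sec.5  THE COST: `pvqh_bad_P` (`pvP ε (pvqhBad Pat p) ≤ pvGeo ε {g | pvkqP Pat (pvgSites g) < p}`, `Pat` measurable read in a bounded window; hull of 196), **`pvqh_soft_P`**, **`pvqh_soft_up`** (over `pvhbUp ε`),
         **`pvqh_soft_region`** (the region patterns `pvkqEv` of 21: not soft at `t = 1/2` costs `≤ θ` as soon as `U ε ≤ δ`).    (`pvl3P = pvdyQ`: `pvhy_P` of 141, `Tr/BrHyb`.)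
-/

set_option autoImplicit false
set_option linter.unusedSectionVars false
set_option linter.unusedVariables false

namespace Claimed.Agent.R289

open MeasureTheory ProbabilityTheory Set Filter Topology
open scoped ENNReal NNReal

/-! ## 0. vocabulary -/

/-- what the resampling of the region `K` keeps -/
def pvqhO (K : Set ℂ) : Set PvPt := (Prod.fst ⁻¹' K)ᶜ

/-- one colour per site -/
def PvqhFn (σ : Conf PvPt) : Prop := ∀ z : ℂ, ¬ ((z, true) ∈ σ.pts ∧ (z, false) ∈ σ.pts)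

/-- `Bad` is a set of GEOMETRIES, seen in the window `N` -/
def PvqhSees (N : Set ℂ) (Bad : Set (Conf PvPt)) : Prop := ∀ ζ ζ' : Conf PvPt, cfSites ζ ∩ N = cfSites ζ' ∩ N → (ζ ∈ Bad ↔ ζ' ∈ Bad)

/-- **SOFT-GOOD base configurations**: given what is kept, the resampled geometry is bad with probability `≤ t` -/
def pvqhSoft (ε : ℝ) (K : Set ℂ) (Bad : Set (Conf PvPt)) (t : ℝ≥0∞) : Set (Conf PvPt) := {σ | pvP ε {η | Conf.spl (pvqhO K) (σ, η) ∈ Bad} ≤ t}

/-- the bad geometries of a pattern: the fully quenched probability is `< p` -/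
def pvqhBad (Pat : Set (Conf PvPt)) (p : ℝ≥0∞) : Set (Conf PvPt) := {ζ | colLaw ℂ {κ | cfOf (cfSites ζ) κ ∈ Pat} < p}

theorem pvqh_eqns_cite : True := by
  have := @pvqhO.eq_1; have := @PvqhFn.eq_1; have := @PvqhSees.eq_1; have := @pvqhSoft.eq_1; have := @pvqhBad.eq_1
  trivial

theorem pvqh_O_meas {K : Set ℂ} (hK : MeasurableSet K) : MeasurableSet (pvqhO K) := (measurable_fst hK).compl

theorem pvqh_mem_spl {K : Set ℂ} {σ η : Conf PvPt} {p : PvPt} : p ∈ (Conf.spl (pvqhO K) (σ, η)).pts ↔ (p ∈ σ.pts ∧ p.1 ∉ K) ∨ (p ∈ η.pts ∧ p.1 ∈ K) := by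
  show p ∈ σ.pts ∩ (Prod.fst ⁻¹' K)ᶜ ∪ η.pts ∩ (Prod.fst ⁻¹' K)ᶜᶜ ↔ _
  simp only [mem_union, mem_inter_iff, mem_compl_iff, mem_preimage, not_not]

theorem pvqh_sites_spl (K : Set ℂ) (σ η : Conf PvPt) : cfSites (Conf.spl (pvqhO K) (σ, η)) = cfSites σ \ K ∪ cfSites η ∩ K := by
  ext z
  simp only [cfSites, mem_image, mem_union, Set.mem_sdiff, mem_inter_iff]
  constructor
  · rintro ⟨p, hp, rfl⟩
    rcases pvqh_mem_spl.1 hp with h | h
    · exact Or.inl ⟨⟨p, h.1, rfl⟩, h.2⟩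
    · exact Or.inr ⟨⟨p, h.1, rfl⟩, h.2⟩
  · rintro (⟨⟨p, hp, rfl⟩, h⟩ | ⟨⟨p, hp, rfl⟩, h⟩)
    · exact ⟨p, pvqh_mem_spl.2 (Or.inl ⟨hp, h⟩), rfl⟩
    · exact ⟨p, pvqh_mem_spl.2 (Or.inr ⟨hp, h⟩), rfl⟩

theorem pvqh_sites_thRec (A : Set ℂ) (u : ℂ → Bool) (σ : Conf PvPt) : cfSites (pvthRec A u σ) = cfSites σ := by
  ext z
  simp only [cfSites, pvthRec, Conf.image, mem_image]
  constructor
  · rintro ⟨_, ⟨p, hp, rfl⟩, rfl⟩
    exact ⟨p, hp, rfl⟩
  · rintro ⟨p, hp, rfl⟩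
    exact ⟨_, ⟨p, hp, rfl⟩, rfl⟩

theorem pvqh_bad_sees (Pat : Set (Conf PvPt)) (p : ℝ≥0∞) : PvqhSees univ (pvqhBad Pat p) := by
  intro ζ ζ' h
  rw [inter_univ, inter_univ] at h
  unfold pvqhBad
  rw [mem_ofPred_eq, mem_ofPred_eq, h]

/-- a pattern read in the window `N`: its bad geometries are seen in `N` -/
theorem pvqh_bad_sees_of_reads {N : Set ℂ} {Pat : Set (Conf PvPt)} (h : Conf.ReadsSet (N ×ˢ (univ : Set Bool)) Pat) (p : ℝ≥0∞) : PvqhSees N (pvqhBad Pat p) := by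
  intro ζ ζ' hs
  have e : ∀ κ, cfOf (cfSites ζ) κ ∈ Pat ↔ cfOf (cfSites ζ') κ ∈ Pat := by
    intro κ
    rw [← h (cfOf (cfSites ζ) κ), ← h (cfOf (cfSites ζ') κ)]
    have : Conf.restr (N ×ˢ (univ : Set Bool)) (cfOf (cfSites ζ) κ) = Conf.restr (N ×ˢ (univ : Set Bool)) (cfOf (cfSites ζ') κ) := by
      ext q
      simp only [Conf.restr, cfOf, mem_inter_iff, mem_ofPred_eq, mem_prod, mem_univ, and_true]
      constructor
      · rintro ⟨⟨h1, h2⟩, h3⟩
        have h4 : q.1 ∈ cfSites ζ' ∩ N := by rw [← hs]; exact ⟨h1, h3⟩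
        exact ⟨⟨h4.1, h2⟩, h3⟩
      · rintro ⟨⟨h1, h2⟩, h3⟩
        have h4 : q.1 ∈ cfSites ζ ∩ N := by rw [hs]; exact ⟨h1, h3⟩
        exact ⟨⟨h4.1, h2⟩, h3⟩
    rw [this]
  unfold pvqhBad
  simp only [mem_ofPred_eq, e]

/-! ## 1. the soft-good base configurations -/

theorem pvqh_soft_reads (ε : ℝ) (K : Set ℂ) (Bad : Set (Conf PvPt)) (t : ℝ≥0∞) : Conf.ReadsSet (pvqhO K) (pvqhSoft ε K Bad t) := by
  intro σ
  unfold pvqhSoft
  simp only [mem_ofPred_eq, Conf.spl_restr]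

theorem pvqh_soft_mono {ε : ℝ} {K : Set ℂ} {Bad Bad' : Set (Conf PvPt)} {t t' : ℝ≥0∞} (hB : Bad' ⊆ Bad) (ht : t ≤ t') : pvqhSoft ε K Bad t ⊆ pvqhSoft ε K Bad' t' :=
  fun σ hσ => by
    have h1 : pvP ε {η | Conf.spl (pvqhO K) (σ, η) ∈ Bad} ≤ t := hσ
    have h2 : {η | Conf.spl (pvqhO K) (σ, η) ∈ Bad'} ⊆ {η | Conf.spl (pvqhO K) (σ, η) ∈ Bad} := fun η hη => hB hη
    exact (measure_mono h2).trans (h1.trans ht)

/-- **THE COST OF THE FLAG** (`Bad` arbitrary: outer measure) -/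
theorem pvqh_soft_cost (ε : ℝ) {K : Set ℂ} (hK : MeasurableSet K) (Bad : Set (Conf PvPt)) {t : ℝ≥0∞} (ht : t ≠ 0) : pvP ε (pvqhSoft ε K Bad t)ᶜ ≤ pvP ε Bad / t := by
  have := (pv_isPpp ε).prob
  have hO := pvqh_O_meas hK
  by_cases ht' : t = ∞
  · have : (pvqhSoft ε K Bad t)ᶜ = ∅ := by
      rw [compl_empty_iff, eq_univ_iff_forall]
      intro σ
      show _ ≤ t
      rw [ht']; exact le_top
    rw [this, measure_empty]; exact zero_le
  set H := toMeasurable (pvP ε) Bad with hH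
  have mH : MeasurableSet H := measurableSet_toMeasurable _ _
  have hsub : (pvqhSoft ε K Bad t)ᶜ ⊆ {σ | t ≤ pvtiP (pvP ε) (pvqhO K) H σ} := by
    intro σ hσ
    have h1 : t < pvP ε {η | Conf.spl (pvqhO K) (σ, η) ∈ Bad} := not_le.1 hσ
    rw [mem_ofPred_eq, pvhk_P_apply _ hO σ mH]
    exact h1.le.trans (measure_mono fun η hη => subset_toMeasurable _ _ hη)
  refine (measure_mono hsub).trans ?_
  refine (meas_ge_le_lintegral_div (pvti_P_measurable hO mH).aemeasurable ht ht').trans ?_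
  have e : ∫⁻ σ, pvtiP (pvP ε) (pvqhO K) H σ ∂(pvP ε) = pvP ε H := by
    have := (pv_isPpp ε).lintegral_spl hO (F := H.indicator 1) (measurable_one.indicator mH)
    rw [lintegral_indicator_one mH] at this
    exact this.symm
  rw [e, hH, measure_toMeasurable]

/-- soft-goodness sees the SITES of `N \ K` only -/
theorem pvqh_soft_congr {ε : ℝ} {K N : Set ℂ} {Bad : Set (Conf PvPt)} (h : PvqhSees N Bad) (t : ℝ≥0∞) {σ σ' : Conf PvPt} (hs : cfSites σ ∩ (N \ K) = cfSites σ' ∩ (N \ K)) :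
    σ ∈ pvqhSoft ε K Bad t ↔ σ' ∈ pvqhSoft ε K Bad t := by
  have e : ∀ η, Conf.spl (pvqhO K) (σ, η) ∈ Bad ↔ Conf.spl (pvqhO K) (σ', η) ∈ Bad := by
    intro η
    refine h _ _ ?_
    rw [pvqh_sites_spl, pvqh_sites_spl]
    ext z
    have hz : z ∈ cfSites σ ∩ (N \ K) ↔ z ∈ cfSites σ' ∩ (N \ K) := by rw [hs]
    simp only [mem_inter_iff, mem_union, Set.mem_sdiff] at hz ⊢
    tauto
  unfold pvqhSoft
  simp only [mem_ofPred_eq, e]

/-- **STABILITY**: soft-goodness ignores every atom `(K', F')` whose region misses `N \ K` -/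
theorem pvqh_soft_R {ε : ℝ} {K N : Set ℂ} {Bad : Set (Conf PvPt)} (h : PvqhSees N Bad) (t : ℝ≥0∞) {K' : Set ℂ} (hd : Disjoint K' (N \ K)) (F' : Conf PvPt → Finset ℂ) (σ : Conf PvPt) (x : PvthSd) :
    pvthR K' F' σ x ∈ pvqhSoft ε K Bad t ↔ σ ∈ pvqhSoft ε K Bad t := by
  refine pvqh_soft_congr h t ?_
  unfold pvthR
  rw [pvqh_sites_thRec]
  have := pvqh_sites_spl K' σ x.1
  unfold pvqhO at this
  rw [this]
  ext z
  have hz : z ∈ K' → z ∉ N \ K := fun h1 h2 => Set.disjoint_left.1 hd h1 h2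
  simp only [mem_inter_iff, mem_union, Set.mem_sdiff] at hz ⊢
  tauto

/-! ## 2. the colours of the PPP inside `K` are fresh bits -/

theorem pvqh_bit_eq : pvthBit = colLaw ℂ := rfl

/-- recolouring the sites of ANY set `K` by fresh bits does not change the law (lower integrals: no joint measurability is asked) -/
theorem pvqh_rec_le (ε : ℝ) (K : Set ℂ) {G : Conf PvPt → ℝ≥0∞} (mG : Measurable G) :
    ∫⁻ η, ∫⁻ κ, G (pvdyRec K η κ) ∂colLaw ℂ ∂pvP ε ≤ ∫⁻ η, G η ∂pvP ε := by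
  refine (pvdy_quenched_le ε _).trans (le_of_eq ?_)
  rw [pvdy_quenched ε mG]
  refine lintegral_congr fun b => ?_
  have hY := pvf_sites_countable b
  have m1 : Measurable fun κ => G (cfOf (pvfSites b) κ) := mG.comp (pvdy_measurable_cfOf hY)
  simp_rw [pvdy_rec_cfOf]
  conv_rhs => rw [← pvtf_split K, lintegral_map m1 (measurable_pvfqMix K)]
  exact (lintegral_prod_symm (fun z => G (cfOf (pvfSites b) (pvfqMix K z))) (m1.comp (measurable_pvfqMix K)).aemeasurable).symm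

theorem pvqh_col_spl_off {K : Set ℂ} (σ η : Conf PvPt) {z : ℂ} (hz : z ∉ K) : cfCol (Conf.spl (pvqhO K) (σ, η)) z = cfCol σ z := by
  classical
  unfold cfCol
  have : ((z, true) ∈ (Conf.spl (pvqhO K) (σ, η)).pts) ↔ ((z, true) ∈ σ.pts) := by
    rw [pvqh_mem_spl]
    exact ⟨fun h => h.elim (fun h => h.1) fun h => absurd h.2 hz, fun h => Or.inl ⟨h, hz⟩⟩
  simp only [this]

theorem pvqh_mem_rec {F : Set ℂ} {ω : Conf PvPt} {κ : ℂ → Bool} {q : PvPt} : q ∈ (pvdyRec F ω κ).pts ↔ q.1 ∈ cfSites ω ∧ q.2 = pvfqMix F (κ, cfCol ω) q.1 := Iff.rfl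

/-- two recolourings and a splice = one recolouring of the spliced configuration -/
theorem pvqh_spl_rec (K Fr : Set ℂ) (σ η : Conf PvPt) (κ κ2 : ℂ → Bool) :
    Conf.spl (pvqhO K) (pvdyRec Fr σ κ, pvdyRec K η κ2) = pvdyRec (Fr ∪ K) (Conf.spl (pvqhO K) (σ, η)) (pvfqMix K (κ2, κ)) := by
  ext q
  rw [pvqh_mem_spl, pvqh_mem_rec, pvqh_mem_rec, pvqh_mem_rec, pvqh_sites_spl]
  by_cases hK : q.1 ∈ K
  · have h1 : pvfqMix K (κ2, cfCol η) q.1 = κ2 q.1 := pvfqMix_of_mem hK _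
    have h2 : pvfqMix (Fr ∪ K) (pvfqMix K (κ2, κ), cfCol (Conf.spl (pvqhO K) (σ, η))) q.1 = κ2 q.1 :=
      (pvfqMix_of_mem (show q.1 ∈ Fr ∪ K from Or.inr hK) _).trans (pvfqMix_of_mem hK _)
    rw [h1, h2]
    simp only [mem_union, Set.mem_sdiff, mem_inter_iff, hK, not_true_eq_false, and_false, false_or, and_true]
  · by_cases hF : q.1 ∈ Fr
    · have h1 : pvfqMix Fr (κ, cfCol σ) q.1 = κ q.1 := pvfqMix_of_mem hF _
      have h2 : pvfqMix (Fr ∪ K) (pvfqMix K (κ2, κ), cfCol (Conf.spl (pvqhO K) (σ, η))) q.1 = κ q.1 :=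
        (pvfqMix_of_mem (show q.1 ∈ Fr ∪ K from Or.inl hF) _).trans (pvfqMix_of_notMem hK _)
      rw [h1, h2]
      simp only [mem_union, Set.mem_sdiff, mem_inter_iff, hK, not_false_eq_true, and_true, and_false, or_false]
    · have h1 : pvfqMix Fr (κ, cfCol σ) q.1 = cfCol σ q.1 := pvfqMix_of_notMem hF _
      have h2 : pvfqMix (Fr ∪ K) (pvfqMix K (κ2, κ), cfCol (Conf.spl (pvqhO K) (σ, η))) q.1 = cfCol σ q.1 :=
        (pvfqMix_of_notMem (show q.1 ∉ Fr ∪ K from fun h => h.elim hF hK) _).trans (pvqh_col_spl_off σ η hK)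
      rw [h1, h2]
      simp only [mem_union, Set.mem_sdiff, mem_inter_iff, hK, not_false_eq_true, and_true, and_false, or_false]

theorem pvqh_countable_spl {K : Set ℂ} {σ η : Conf PvPt} (hσ : (cfSites σ).Countable) (hη : PvLF η) : (cfSites (Conf.spl (pvqhO K) (σ, η))).Countable := by
  rw [pvqh_sites_spl]
  exact (hσ.mono sdiff_subset).union ((pvdy_countable_of_LF hη).mono inter_subset_left)

/-- **CORE**: recolour the sites of `Fr` in the base configuration and resample the region `K`  =  (at least) resample the GEOMETRY in `K`, then recolour all the sites of `Fr ∪ K` -/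
theorem pvqh_core (ε : ℝ) {K : Set ℂ} (hK : MeasurableSet K) (Fr : Set ℂ) {𝒜 : Set (Conf PvPt)} (mA : MeasurableSet 𝒜) {σ : Conf PvPt} (hσ : (cfSites σ).Countable) :
    ∫⁻ η, {η | PvLF η}.indicator (fun η => colLaw ℂ {κ | pvdyRec (Fr ∪ K) (Conf.spl (pvqhO K) (σ, η)) κ ∈ 𝒜}) η ∂pvP ε
      ≤ ∫⁻ κ, pvP ε {η | Conf.spl (pvqhO K) (pvdyRec Fr σ κ, η) ∈ 𝒜} ∂colLaw ℂ := by
  have := (pv_isPpp ε).prob
  have hO := pvqh_O_meas hK
  have mJ : Measurable fun x : (ℂ → Bool) × Conf PvPt => 𝒜.indicator (1 : Conf PvPt → ℝ≥0∞) (Conf.spl (pvqhO K) (pvdyRec Fr σ x.1, x.2)) :=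
    (measurable_one.indicator mA).comp ((Conf.measurable_spl hO).comp (((pvdy_measurable_rec Fr hσ).comp measurable_fst).prodMk measurable_snd))
  set G : Conf PvPt → ℝ≥0∞ := fun η => ∫⁻ κ, 𝒜.indicator (1 : Conf PvPt → ℝ≥0∞) (Conf.spl (pvqhO K) (pvdyRec Fr σ κ, η)) ∂colLaw ℂ with hG
  have mG : Measurable G := mJ.lintegral_prod_left'
  have e1 : ∫⁻ κ, pvP ε {η | Conf.spl (pvqhO K) (pvdyRec Fr σ κ, η) ∈ 𝒜} ∂colLaw ℂ = ∫⁻ η, G η ∂pvP ε := by
    rw [hG, lintegral_lintegral_swap (f := fun η κ => 𝒜.indicator (1 : Conf PvPt → ℝ≥0∞) (Conf.spl (pvqhO K) (pvdyRec Fr σ κ, η))) (mJ.comp measurable_swap).aemeasurable]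
    refine lintegral_congr fun κ => ?_
    have m2 : MeasurableSet {η | Conf.spl (pvqhO K) (pvdyRec Fr σ κ, η) ∈ 𝒜} := pvhk_sec_meas hO _ mA
    rw [← lintegral_indicator_one m2]
    rfl
  rw [e1]
  refine le_trans (lintegral_mono fun η => ?_) (pvqh_rec_le ε K mG)
  by_cases hη : PvLF η
  · rw [indicator_of_mem (show η ∈ {η | PvLF η} from hη)]
    have hc := pvqh_countable_spl (K := K) hσ hη
    have m3 : Measurable fun κ => 𝒜.indicator (1 : Conf PvPt → ℝ≥0∞) (pvdyRec (Fr ∪ K) (Conf.spl (pvqhO K) (σ, η)) κ) :=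
      (measurable_one.indicator mA).comp (pvdy_measurable_rec _ hc)
    have m4 : MeasurableSet {κ | pvdyRec (Fr ∪ K) (Conf.spl (pvqhO K) (σ, η)) κ ∈ 𝒜} := pvdy_measurable_rec _ hc mA
    refine le_of_eq ?_
    rw [hG]
    simp_rw [pvqh_spl_rec]
    rw [← lintegral_indicator_one m4]
    have e2 : ∫⁻ κ, {κ | pvdyRec (Fr ∪ K) (Conf.spl (pvqhO K) (σ, η)) κ ∈ 𝒜}.indicator 1 κ ∂colLaw ℂ
        = ∫⁻ κ, 𝒜.indicator (1 : Conf PvPt → ℝ≥0∞) (pvdyRec (Fr ∪ K) (Conf.spl (pvqhO K) (σ, η)) κ) ∂colLaw ℂ := rfl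
    rw [e2]
    conv_lhs => rw [← pvtf_split K, lintegral_map m3 (measurable_pvfqMix K)]
    exact lintegral_prod (fun z => 𝒜.indicator (1 : Conf PvPt → ℝ≥0∞) (pvdyRec (Fr ∪ K) (Conf.spl (pvqhO K) (σ, η)) (pvfqMix K z))) (m3.comp (measurable_pvfqMix K)).aemeasurable
  · rw [indicator_of_notMem (show η ∉ {η | PvLF η} from hη)]
    exact zero_le

/-- the lower bound given by soft-goodness -/
theorem pvqh_low (ε : ℝ) {K : Set ℂ} {Bad : Set (Conf PvPt)} {t p : ℝ≥0∞} {σ : Conf PvPt} (hs : σ ∈ pvqhSoft ε K Bad t) {φ : Conf PvPt → ℝ≥0∞}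
    (hφ : ∀ η, PvLF η → Conf.spl (pvqhO K) (σ, η) ∉ Bad → p ≤ φ η) : p * (1 - t) ≤ ∫⁻ η, {η | PvLF η}.indicator φ η ∂pvP ε := by
  have := (pv_isPpp ε).prob
  set S := toMeasurable (pvP ε) {η | Conf.spl (pvqhO K) (σ, η) ∈ Bad} with hS
  have mS : MeasurableSet S := measurableSet_toMeasurable _ _
  have hSt : pvP ε S ≤ t := by rw [hS, measure_toMeasurable]; exact hs
  set T := Sᶜ ∩ {η | PvLF η} with hT
  have mT : MeasurableSet T := mS.compl.inter pvcn_LF_meas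
  have hLF : pvP ε {η | PvLF η}ᶜ = 0 := pvcn_LF_ae ε
  have hTc : pvP ε Tᶜ ≤ t := by
    rw [hT, compl_inter, compl_compl]
    exact (measure_union_le _ _).trans (by rw [hLF, add_zero]; exact hSt)
  have hPT : 1 - t ≤ pvP ε T := by
    have h1 : pvP ε T = 1 - pvP ε Tᶜ := by
      have := prob_compl_eq_one_sub (μ := pvP ε) mT.compl
      rwa [compl_compl] at this
    rw [h1]
    exact tsub_le_tsub_left hTc 1
  calc p * (1 - t) ≤ p * pvP ε T := by gcongr
    _ = ∫⁻ η, T.indicator (fun _ => p) η ∂pvP ε := (lintegral_indicator_const mT p).symm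
    _ ≤ _ := by
        refine lintegral_mono fun η => ?_
        by_cases hη : η ∈ T
        · rw [indicator_of_mem hη, indicator_of_mem (show η ∈ {η | PvLF η} from hη.2)]
          exact hφ η hη.2 fun hb => hη.1 (subset_toMeasurable _ _ hb)
        · rw [indicator_of_notMem hη]; exact zero_le

/-! ## 3. the hybrid conditional probability of a link -/

theorem pvqh_col_of_mem {σ : Conf PvPt} (h : PvqhFn σ) {q : PvPt} (hq : q ∈ σ.pts) : q.2 = cfCol σ q.1 := by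
  classical
  obtain ⟨z, b⟩ := q
  unfold cfCol
  cases b
  · symm
    rw [decide_eq_false_iff_not]
    exact fun ht => h z ⟨ht, hq⟩
  · symm
    rw [decide_eq_true_iff]
    exact hq

/-- the two recolourings (252, 193) agree on the configurations with one colour per site -/
theorem pvqh_thRec_eq {σ : Conf PvPt} (h : PvqhFn σ) (A : Set ℂ) (u : ℂ → Bool) : pvthRec A u σ = pvdyRec A σ u := by
  classical
  ext q
  rw [pvqh_mem_rec]
  constructor
  · rintro ⟨r, hr, rfl⟩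
    refine ⟨⟨r, hr, rfl⟩, ?_⟩
    show (if r.1 ∈ A then u r.1 else r.2) = pvfqMix A (u, cfCol σ) r.1
    by_cases hA : r.1 ∈ A
    · rw [if_pos hA]; exact (pvfqMix_of_mem hA (u, cfCol σ)).symm
    · rw [if_neg hA, pvqh_col_of_mem h hr]; exact (pvfqMix_of_notMem hA (u, cfCol σ)).symm
  · rintro ⟨⟨r, hr, h1⟩, h2⟩
    refine ⟨r, hr, Prod.ext h1 ?_⟩
    show (if r.1 ∈ A then u r.1 else r.2) = q.2
    rw [h2, ← h1]
    by_cases hA : r.1 ∈ A
    · rw [if_pos hA]; exact (pvfqMix_of_mem hA (u, cfCol σ)).symm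
    · rw [if_neg hA, pvqh_col_of_mem h hr]; exact (pvfqMix_of_notMem hA (u, cfCol σ)).symm

/-- `pvl3P` in the names of 193: recolour the fresh sites of the base configuration, then resample `K` -/
theorem pvqh_P_eq (ε : ℝ) {K : Set ℂ} (hK : MeasurableSet K) (F : Conf PvPt → Finset ℂ) {A : Set (Conf PvPt)} (mA : MeasurableSet A) {σ : Conf PvPt} (hfn : PvqhFn σ)
    (hd : Disjoint (↑(F σ) : Set ℂ) K) :
    pvl3P ε K F A σ = ∫⁻ κ, pvP ε {η | Conf.spl (pvqhO K) (pvdyRec (↑(F σ)) σ κ, η) ∈ A} ∂colLaw ℂ := by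
  have := (pv_isPpp ε).prob
  have hO := pvqh_O_meas hK
  unfold pvl3P pvthSeed
  rw [lintegral_prod_symm (fun x => A.indicator (1 : Conf PvPt → ℝ≥0∞) (pvthR K F σ x)) ((measurable_one.indicator mA).comp (pvth_R_measurable hK F σ)).aemeasurable, pvqh_bit_eq]
  refine lintegral_congr fun κ => ?_
  have m2 : MeasurableSet {η | Conf.spl (pvqhO K) (pvdyRec (↑(F σ)) σ κ, η) ∈ A} := pvhk_sec_meas hO _ mA
  rw [← lintegral_indicator_one m2]
  refine lintegral_congr fun η => ?_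
  have e : pvthR K F σ (η, κ) = Conf.spl (pvqhO K) (pvdyRec (↑(F σ)) σ κ, η) := by
    unfold pvthR
    rw [pvth_rec_spl hd, pvqh_thRec_eq hfn]
    rfl
  rw [e]
  rfl

/-- **FRC, frozen form**: on a soft-good base configuration the hybrid conditional probability of `A` is bounded below by the quenched probability at the good geometries
(colours of `F σ` and of ALL the sites of `K` fresh, the other colours frozen) -/
theorem pvqh_frc (ε : ℝ) {K : Set ℂ} (hK : MeasurableSet K) (F : Conf PvPt → Finset ℂ) {A : Set (Conf PvPt)} (mA : MeasurableSet A) {Bad : Set (Conf PvPt)} {t p : ℝ≥0∞} {σ : Conf PvPt}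
    (hσ : (cfSites σ).Countable) (hfn : PvqhFn σ) (hd : Disjoint (↑(F σ) : Set ℂ) K) (hs : σ ∈ pvqhSoft ε K Bad t)
    (hq : ∀ η, PvLF η → Conf.spl (pvqhO K) (σ, η) ∉ Bad → p ≤ colLaw ℂ {κ | pvdyRec (↑(F σ) ∪ K) (Conf.spl (pvqhO K) (σ, η)) κ ∈ A}) :
    p * (1 - t) ≤ pvl3P ε K F A σ := by
  rw [pvqh_P_eq ε hK F mA hfn hd]
  exact (pvqh_low ε hs hq).trans (pvqh_core ε hK _ mA hσ)

theorem pvqh_rec_univ (ζ : Conf PvPt) (κ : ℂ → Bool) : pvdyRec univ ζ κ = cfOf (cfSites ζ) κ := by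
  unfold pvdyRec
  rw [pvfqMix_univ]

/-- **FRC, copy form** (E8 / E10 of W1_208): `Pat` = the patterns for the COPY colouring `κ` (all the sites recoloured);   `det` = the deterministic half -/
theorem pvqh_frc_copy (ε : ℝ) {K : Set ℂ} (hK : MeasurableSet K) (F : Conf PvPt → Finset ℂ) {A : Set (Conf PvPt)} (mA : MeasurableSet A) (Pat : Set (Conf PvPt)) {t p : ℝ≥0∞} {σ : Conf PvPt}
    (hσ : (cfSites σ).Countable) (hfn : PvqhFn σ) (hd : Disjoint (↑(F σ) : Set ℂ) K) (hs : σ ∈ pvqhSoft ε K (pvqhBad Pat p) t)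
    (det : ∀ η, PvLF η → ∀ κ, cfOf (cfSites (Conf.spl (pvqhO K) (σ, η))) κ ∈ Pat → pvdyRec (↑(F σ) ∪ K) (Conf.spl (pvqhO K) (σ, η)) κ ∈ A) :
    p * (1 - t) ≤ pvl3P ε K F A σ := by
  refine pvqh_frc ε hK F mA hσ hfn hd hs fun η hη hb => ?_
  have h1 : p ≤ colLaw ℂ {κ | cfOf (cfSites (Conf.spl (pvqhO K) (σ, η))) κ ∈ Pat} := not_lt.1 hb
  exact h1.trans (measure_mono fun κ hκ => det η hη κ hκ)

/-! ## 4. product with the propensities of a door plug -/

theorem pvqh_LF_cfOf {σ : Conf PvPt} (h : PvLF σ) (s : ℂ → Bool) : PvLF (cfOf (cfSites σ) s) := by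
  intro k
  refine ((h k).image fun q : PvPt => ((q.1, s q.1) : PvPt)).subset ?_
  rintro q ⟨⟨⟨r, hr, h1⟩, h2⟩, hk⟩
  refine ⟨r, ⟨hr, ?_⟩, Prod.ext h1 ?_⟩
  · show r.1.re ∈ _ ∧ r.1.im ∈ _
    rw [h1]; exact hk
  · show s r.1 = q.2
    rw [h1]; exact h2.symm

theorem pvqh_list_prod_le_one : ∀ l : List ℝ≥0∞, (∀ x ∈ l, x ≤ 1) → l.prod ≤ 1
  | [], _ => by simp
  | a :: l, h => by
      rw [List.prod_cons]
      exact mul_le_one' (h a List.mem_cons_self) (pvqh_list_prod_le_one l fun x hx => h x (List.mem_cons_of_mem _ hx))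

theorem pvqh_LF_rec {σ : Conf PvPt} (h : PvLF σ) (F : Set ℂ) (κ : ℂ → Bool) : PvLF (pvdyRec F σ κ) := pvqh_LF_cfOf h _

/-- **FRC WITH A DOOR PLUG** (S5 of CELLKIT_125, without quenched Harris and without `d_ε`).      `Pat` = the patterns at the marked mouth + lanes, for the COPY colouring (an up-set of the annealed mixed order `Kup`);
`l` = the half lanes of the door plug (their SECTIONS at the frozen base configuration are up-sets);   `det` = the deterministic half.      The propensities `pvtiP (pvP ε) (pvqhO K) H σ` are bounded below by the thresholds in `G` of the plug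
(`pvpk_sec_change` of 229 changes the kept region). -/
theorem pvqh_frc_fkg (ε : ℝ) {K : Set ℂ} (hK : MeasurableSet K) {Kup : Set PvPt} (hKup : MeasurableSet Kup) (F : Conf PvPt → Finset ℂ) {A Pat : Set (Conf PvPt)} (mA : MeasurableSet A) (mP : MeasurableSet Pat)
    (l : List (Set (Conf PvPt))) (ml : ∀ H ∈ l, MeasurableSet H) {t p : ℝ≥0∞} {σ : Conf PvPt} (hσ : PvLF σ) (hfn : PvqhFn σ) (hd : Disjoint (↑(F σ) : Set ℂ) K)
    (hs : σ ∈ pvqhSoft ε K (pvqhBad Pat p) t)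
    (uP : PvhkAUp Kup Pat) (uH : ∀ H ∈ l, PvhkAUp Kup (pvhkSec (pvqhO K) σ H))
    (det : ∀ κ η, PvLF η → Conf.spl (pvqhO K) (pvdyRec univ σ κ, η) ∈ Pat → (∀ H ∈ l, Conf.spl (pvqhO K) (σ, η) ∈ H) → Conf.spl (pvqhO K) (pvdyRec (↑(F σ)) σ κ, η) ∈ A) :
    p * (1 - t) * (l.map fun H => pvtiP (pvP ε) (pvqhO K) H σ).prod ≤ pvl3P ε K F A σ := by
  have := (pv_isPpp ε).prob
  have hO := pvqh_O_meas hK
  have hc : (cfSites σ).Countable := pvdy_countable_of_LF hσ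
  rw [pvqh_P_eq ε hK F mA hfn hd]
  set c : ℝ≥0∞ := (l.map fun H => pvtiP (pvP ε) (pvqhO K) H σ).prod with hcdef
  have hc1 : c ≤ 1 := by
    rw [hcdef]
    refine pvqh_list_prod_le_one _ fun x hx => ?_
    obtain ⟨H, hH, rfl⟩ := List.mem_map.1 hx
    rw [pvhk_P_apply _ hO σ (ml H hH)]
    exact prob_le_one
  have hcT : c ≠ ∞ := ne_top_of_le_ne_top ENNReal.one_ne_top hc1
  -- FKG at a fixed colouring
  have key : ∀ κ, pvP ε (pvhkSec (pvqhO K) (pvdyRec univ σ κ) Pat) * c ≤ pvP ε {η | Conf.spl (pvqhO K) (pvdyRec (↑(F σ)) σ κ, η) ∈ A} := by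
    intro κ
    have hl := (pvhk_ann_def ε hKup).up_list (pvhkSec (pvqhO K) (pvdyRec univ σ κ) Pat :: l.map (pvhkSec (pvqhO K) σ)) id
      (by
        intro S hS
        rcases List.mem_cons.1 hS with rfl | hS
        · exact PvfEv.of_meas (pvhk_sec_meas hO _ mP)
        · obtain ⟨H, hH, rfl⟩ := List.mem_map.1 hS
          exact PvfEv.of_meas (pvhk_sec_meas hO _ (ml H hH)))
      (by
        intro S hS
        rcases List.mem_cons.1 hS with rfl | hS
        · exact pvhk_sec_aup Kup _ (pvqh_LF_rec hσ _ _) uP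
        · obtain ⟨H, hH, rfl⟩ := List.mem_map.1 hS
          exact uH H hH)
    have e1 : ((pvhkSec (pvqhO K) (pvdyRec univ σ κ) Pat :: l.map (pvhkSec (pvqhO K) σ)).map fun S => pvP ε (id S)).prod = pvP ε (pvhkSec (pvqhO K) (pvdyRec univ σ κ) Pat) * c := by
      rw [List.map_cons, List.prod_cons, List.map_map, hcdef]
      congr 2
      refine List.map_congr_left fun H hH => ?_
      rw [pvhk_P_apply _ hO σ (ml H hH)]
      rfl
    rw [e1] at hl
    refine hl.trans ?_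
    have hLF : ∀ᵐ η ∂(pvP ε), PvLF η := pvcn_LF_ae ε
    refine measure_mono_ae ?_
    filter_upwards [hLF] with η hη hmem
    refine det κ η hη (hmem _ (List.mem_cons_self)) fun H hH => ?_
    exact hmem _ (List.mem_cons_of_mem _ (List.mem_map.2 ⟨H, hH, rfl⟩))
  calc p * (1 - t) * c ≤ (∫⁻ κ, pvP ε {η | Conf.spl (pvqhO K) (pvdyRec univ σ κ, η) ∈ Pat} ∂colLaw ℂ) * c := by
        gcongr
        refine le_trans (pvqh_low ε hs fun η hη hb => ?_) (pvqh_core ε hK univ mP hc)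
        rw [univ_union]
        simp_rw [pvqh_rec_univ]
        exact not_lt.1 hb
    _ = ∫⁻ κ, pvP ε (pvhkSec (pvqhO K) (pvdyRec univ σ κ) Pat) * c ∂colLaw ℂ := (lintegral_mul_const' _ _ hcT).symm
    _ ≤ _ := lintegral_mono key

/-! ## 5. the cost of the soft-good set -/

/-- the bad geometries of a pattern read in a bounded window, at the level of the configurations (outer measure) -/
theorem pvqh_bad_P {O : Set ℂ} (hOm : MeasurableSet O) (hO : Bornology.IsBounded O) {Pat : Set (Conf PvPt)} (mP : MeasurableSet Pat) (hr : Conf.ReadsSet (O ×ˢ (univ : Set Bool)) Pat) (p : ℝ≥0∞)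
    {ε : ℝ} (hε : 0 < ε) : pvP ε (pvqhBad Pat p) ≤ pvGeo ε {g | pvkqP Pat (pvgSites g) < p} := by
  obtain ⟨B, -, -, hB, hBn⟩ := pvay_bad hOm hO mP hr (measurableSet_Iio (a := p))
  have h1 : pvP ε (pvqhBad Pat p) ≤ pvP ε B := by
    refine measure_mono_ae ?_
    filter_upwards [dls_ae_conf hε] with η hη h
    by_contra hn
    exact hBn η hη hn h
  refine h1.trans ((hB ε hε).trans (measure_mono_ae ?_))
  filter_upwards [pvqu_ok_ae ε] with g hg h
  show pvkqP Pat (pvgSites g) < p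
  rw [pvkq_P_eq hg mP]
  exact h

/-- **THE COST** of the soft-good set of a pattern -/
theorem pvqh_soft_P {O : Set ℂ} (hOm : MeasurableSet O) (hO : Bornology.IsBounded O) {Pat : Set (Conf PvPt)} (mP : MeasurableSet Pat) (hr : Conf.ReadsSet (O ×ˢ (univ : Set Bool)) Pat) (p : ℝ≥0∞)
    {ε : ℝ} (hε : 0 < ε) {K : Set ℂ} (hK : MeasurableSet K) {t : ℝ≥0∞} (ht : t ≠ 0) :
    pvP ε (pvqhSoft ε K (pvqhBad Pat p) t)ᶜ ≤ pvGeo ε {g | pvkqP Pat (pvgSites g) < p} / t :=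
  (pvqh_soft_cost ε hK _ ht).trans (ENNReal.div_le_div_right (pvqh_bad_P hOm hO mP hr p hε) t)

/-- the same over the iterated upper expectation of record -/
theorem pvqh_soft_up {O : Set ℂ} (hOm : MeasurableSet O) (hO : Bornology.IsBounded O) {Pat : Set (Conf PvPt)} (mP : MeasurableSet Pat) (hr : Conf.ReadsSet (O ×ˢ (univ : Set Bool)) Pat) (p : ℝ≥0∞)
    {ε : ℝ} (hε : 0 < ε) {K : Set ℂ} (hK : MeasurableSet K) {t : ℝ≥0∞} (ht : t ≠ 0) :
    (pvhbUp ε).P {x | pvConf (pvMerge x) ∉ pvqhSoft ε K (pvqhBad Pat p) t} ≤ pvGeo ε {g | pvkqP Pat (pvgSites g) < p} / t :=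
  (pvhb_up_P_conf ε (pvqhSoft ε K (pvqhBad Pat p) t)ᶜ).trans (pvqh_soft_P hOm hO mP hr p hε hK ht)

/-- a pattern read in a bounded set is read in a bounded measurable window -/
theorem pvqh_reads_ball {R : Set ℂ} {z0 : ℂ} {r : ℝ} (hR : R ⊆ Metric.closedBall z0 r) {Pat : Set (Conf PvPt)} (h : Conf.ReadsSet (R ×ˢ (univ : Set Bool)) Pat) :
    Conf.ReadsSet (Metric.closedBall z0 r ×ˢ (univ : Set Bool)) Pat :=
  h.mono (prod_mono hR Subset.rfl)

/-- **THE REGION FORM** (patterns of record of 21): ONE `q`; for all `M θ` a ratio `U`; as soon as `U ε ≤ δ`, for EVERY resampled region `K`, the base configurations which are not soft-good at `t = 1/2` cost `≤ θ`. -/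
theorem pvqh_soft_region : ∃ q : ℝ, 0 < q ∧ q ≤ 1 ∧ ∀ (M : ℕ) (θ : ℝ), 0 < θ → ∃ U : ℝ, 1 ≤ U ∧ ∀ ε : ℝ, 0 < ε → ∀ δ : ℝ, U * ε ≤ δ → ∀ K : Set ℂ, MeasurableSet K →
    (∀ (c : Bool) (R : Set ℂ) (z0 x y : ℂ), R ⊆ Metric.closedBall z0 (M * δ) → PvkqCore δ R x y →
      (pvhbUp ε).P {w | pvConf (pvMerge w) ∉ pvqhSoft ε K (pvqhBad (pvkqEv δ c R x y) (ENNReal.ofReal (q ^ (15 * (2 * M + 1) ^ 2) / 2))) 2⁻¹} ≤ ENNReal.ofReal θ) ∧
    (∀ (c c' : Bool) (R R' : Set ℂ) (z0 x y x' y' : ℂ), R ⊆ Metric.closedBall z0 (M * δ) → R' ⊆ Metric.closedBall z0 (M * δ) → PvkqCore δ R x y → PvkqCore δ R' x' y' → Disjoint R R' →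
      (pvhbUp ε).P {w | pvConf (pvMerge w) ∉ pvqhSoft ε K (pvqhBad (pvkqEv δ c R x y ∩ pvkqEv δ c' R' x' y') (ENNReal.ofReal ((q ^ (15 * (2 * M + 1) ^ 2) / 2) ^ 2))) 2⁻¹} ≤ ENNReal.ofReal θ) := by
  obtain ⟨q, hq0, hq1, H⟩ := pvkq_region
  refine ⟨q, hq0, hq1, fun M θ hθ => ?_⟩
  obtain ⟨U, hU, H⟩ := H M (θ / 2) (by positivity)
  refine ⟨U, hU, fun ε hε δ hδ K hK => ?_⟩
  obtain ⟨H1, H2⟩ := H ε hε δ hδ
  have hfin : ∀ a : ℝ≥0∞, a ≤ ENNReal.ofReal (θ / 2) → a / 2⁻¹ ≤ ENNReal.ofReal θ := by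
    intro a ha
    rw [div_eq_mul_inv, inv_inv]
    calc a * 2 ≤ ENNReal.ofReal (θ / 2) * 2 := by gcongr
      _ = ENNReal.ofReal θ := by
        rw [show (2 : ℝ≥0∞) = ENNReal.ofReal 2 by simp, ← ENNReal.ofReal_mul (by positivity)]
        congr 1
        ring
  have h2 : (2⁻¹ : ℝ≥0∞) ≠ 0 := by simp
  refine ⟨fun c R z0 x y hR hc => ?_, fun c c' R R' z0 x y x' y' hR hR' hc hc' hd => ?_⟩
  · exact (pvqh_soft_up Metric.isClosed_closedBall.measurableSet Metric.isBounded_closedBall (pvkq_Ev_meas hc.1 c R x y) (pvqh_reads_ball hR (pvkq_Ev_reads hc c)) _ hε hK h2).trans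
      (hfin _ (H1 c R z0 x y hR hc))
  · exact (pvqh_soft_up Metric.isClosed_closedBall.measurableSet Metric.isBounded_closedBall ((pvkq_Ev_meas hc.1 c R x y).inter (pvkq_Ev_meas hc'.1 c' R' x' y'))
      ((pvqh_reads_ball hR (pvkq_Ev_reads hc c)).inter (pvqh_reads_ball hR' (pvkq_Ev_reads hc' c'))) _ hε hK h2).trans (hfin _ (H2 c c' R R' z0 z0 x y x' y' hR hR' hc hc' hd))

end Claimed.Agent.R289
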