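-- KEEP
import Claimed.Agent.R289.Tr.InstE
import Claimed.Agent.R289.Tr.BuThick

/-!
# Row 289 (S0537), THE WALL, ROAD E, file Tr/InstEK : THE CUT OF `PvieThick` AT THE DEFINITIONS OF RECORD      (helper7, second of helper161; job of 161 10:18Z; prefix `pvik`, `Pvik`)

`PvieThick 𝔓 𝔈 CA Ce` (`Tr/InstE.lean`, 161)  ⟸  `pvkt_model_a` (103, `Tr/BuThick.lean` v2: Jensen + insertion of the return link + hybrid invariance in upper form + I.BES, 0 sorry)  at the datum `pvikDat 𝔓 𝔈 𝔯`  +  ONE locality leaf `PvikEnl`.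

WHY A LOCALITY LEAF.   `pvieKe` resamples ITS OWN ATOM (tile `eK`, box `rO` of the reference plug, fresh colours of the ENTRANCE mouth).      The proof of `thick` closes the reference cycle `u → t → u` by the THICK RETURN `t → u`:
its randomness (tile `cK`, fresh colours of the EXIT mouth `cM`) must be resampled too.      `pvik_hat_congr` (model free): the two means agree as soon as weight and value take the same values at the two resampled configurations, for a.e. seed.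

* sec. 1  model free: `pvik_hat_congr`, `pvik_up_mono_ae` (a.e. monotonicity of `pvhbUp` for functions of the configuration)
* sec. 2  linearity of the value of a link in the weight: `pvik_X_lin`
* sec. 3  `PvikRet τ` = the data of the thick return + the mask (NOT in `PvieEng`), `pvikLc pvikYc`, **`pvikDat`**
* sec. 4  `PvikEnl`, **`pvik_thick`**
-/

set_option autoImplicit false

namespace Claimed.Agent.R289

open Set MeasureTheory Filter Topology Claims.C0465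
open scoped ENNReal

/-! ## 1. model free -/

/-- **ENLARGING THE EXPERIMENT**: two hybrid means agree when weight and value agree at the two resampled configurations for a.e. seed -/
theorem pvik_hat_congr (ε : ℝ) {C C' : Set ℂ} {yf yf' : Conf PvPt → Set ℂ} {w : Conf PvPt → ℝ≥0∞} {Y : Conf PvPt → ℂ} {ω : Conf PvPt}
    (h : ∀ᵐ p ∂pvdyNu ε, w (pvdyR C' yf' ω p) = w (pvdyR C yf ω p) ∧ Y (pvdyR C' yf' ω p) = Y (pvdyR C yf ω p)) :
    pvdyHat ε C' yf' w Y ω = pvdyHat ε C yf w Y ω := by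
  rw [pvdy_hat_eq, pvdy_hat_eq]
  have e : (pvdyNu ε).withDensity (fun p => w (pvdyR C' yf' ω p)) = (pvdyNu ε).withDensity (fun p => w (pvdyR C yf ω p)) :=
    withDensity_congr_ae (h.mono fun p hp => hp.1)
  rw [e]
  exact integral_congr_ae ((withDensity_absolutelyContinuous _ _).ae_le (h.mono fun p hp => hp.2))

/-- a.e. monotonicity of the two-level upper expectation for functions of the configuration (no measurability) -/
theorem pvik_up_mono_ae (ε : ℝ) {F F' : Conf PvPt → ℝ≥0∞} (h : ∀ᵐ η ∂pvP ε, F η ≤ F' η) :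
    (pvhbUp ε).E (fun q => F (pvConf (pvMerge q))) ≤ (pvhbUp ε).E (fun q => F' (pvConf (pvMerge q))) := by
  obtain ⟨N, hN, mN, h0⟩ := exists_measurable_superset_of_null h
  have h1 : ∀ η, F η ≤ F' η + N.indicator (fun _ => ∞) η := by
    intro η
    by_cases hη : η ∈ N
    · rw [indicator_of_mem hη, add_top]; exact le_top
    · rw [indicator_of_notMem hη, add_zero]
      by_contra hh
      exact hη (hN hh)
  have h2 : (pvhbUp ε).E (fun q => N.indicator (fun _ => (∞ : ℝ≥0∞)) (pvConf (pvMerge q))) ≤ 0 := by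
    refine (pvhb_up_E_conf ε (φ := N.indicator fun _ => ∞) (measurable_const.indicator mN).aemeasurable (ae_of_all _ fun _ => le_rfl)).trans ?_
    rw [lintegral_indicator mN, setLIntegral_measure_zero _ _ h0]
  calc (pvhbUp ε).E (fun q => F (pvConf (pvMerge q)))
      ≤ (pvhbUp ε).E (fun q => F' (pvConf (pvMerge q)) + N.indicator (fun _ => ∞) (pvConf (pvMerge q))) := (pvhbUp ε).mono fun q => h1 _
    _ ≤ (pvhbUp ε).E (fun q => F' (pvConf (pvMerge q))) + (pvhbUp ε).E (fun q => N.indicator (fun _ => (∞ : ℝ≥0∞)) (pvConf (pvMerge q))) := (pvhbUp ε).add_le _ _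
    _ ≤ (pvhbUp ε).E (fun q => F' (pvConf (pvMerge q))) + 0 := by gcongr
    _ = _ := add_zero _

/-! ## 2. the value of a link is linear in the weight -/

theorem pvik_mass_lin {V D : Type} (T : PvMap V D) (pos : V → ℂ) (f g : D → ℂ) (a : ℂ) (K : Set ℂ) (p : T.Pth) (i j : ℕ) :
    pvwMass T pos (fun d => f d - a * g d) K p i j = pvwMass T pos f K p i j - a * pvwMass T pos g K p i j := by
  unfold pvwMass
  rw [Finset.mul_sum, ← Finset.sum_sub_distrib]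
  refine Finset.sum_congr rfl fun k _ => ?_
  split_ifs <;> simp

theorem pvik_val_lin (L : PvieLk) (N : PvwNum) (η : Conf PvPt) (f g : (delbPl (pvieY η)).Dart → ℂ) (a : ℂ) (𝔖 𝔖' : PvwSt (pvieT η)) (y : (pvieT η).Pth) :
    L.val N η (fun d => f d - a * g d) 𝔖 𝔖' y = L.val N η f 𝔖 𝔖' y - a * L.val N η g 𝔖 𝔖' y := by
  unfold PvieLk.val
  simp only [pvik_mass_lin]
  ring

/-- **the field `y_a` on a link**: `X_a = X_0 - a (X_0 - X_1)` -/
theorem pvik_X_lin (L : PvieLk) (N : PvwNum) (b : Bool) (a : ℂ) (η : Conf PvPt) : L.X N b a η = L.X N b 0 η - a * (L.X N b 0 η - L.X N b 1 η) := by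
  unfold PvieLk.X
  by_cases h : ∃ (𝔖 𝔖' : PvwSt (pvieT η)) (y : (pvieT η).Pth), L.Arc N b η 𝔖 𝔖' y
  · simp only [dif_pos h]
    unfold pvieFld
    simp only [pvik_val_lin]
    ring
  · simp only [dif_neg h]
    ring

/-! ## 3. the thick return, the mask, the datum of 103 -/

/-- **THE DATA OF THE THICK RETURN** `t → reference plug` (used in the proof of `thick` only) and THE MASK.      Relative to the centre of the pin, absolute units. -/
structure PvikRet (τ : Type) where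
  /-- recoloured (exit) mouth -/
  cM : ℕ → τ → Set ℂ
  /-- resampled tile -/
  cK : ℕ → τ → Set ℂ
  /-- room of the strand -/
  cY : ℕ → τ → Set ℂ
  /-- the deterministic mask of the thick link `e : u → t`      (`M_e` of 140: cut-off disc of `u`, `M⁺(τ₀)`, lanes of `e`, entrance mouth, `M⁻(t)`, off the cut-off discs) -/
  Mk : ℕ → τ → Set ℂ

section dat

variable {τ : Type} {c : ℝ} (𝔓 : PvxPar τ c) (𝔈 : PvieEng τ) (𝔯 : PvikRet τ)

/-- the thick return -/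
noncomputable def pvikLc (m : ℕ) (z : ℂ) (t : τ) : PvieLk := ⟨𝔓.pl m z t, (𝔈.rp m).mv (pvieZu 𝔓 m z t) 1, pvieSh z (𝔯.cY m t)⟩

/-- the fresh sites of the exit mouth used by the thick return -/
noncomputable def pvikYc (m : ℕ) (z : ℂ) (t : τ) : Conf PvPt → Set ℂ := pvieFrO 𝔓.num (𝔓.col t) (𝔓.pl m z t) (pvieSh z (𝔯.cM m t))

/-- the region resampled by `pvieKe` -/
def pvikC1 (m : ℕ) (z : ℂ) (t : τ) : Set ℂ := pvieSh z (𝔈.eK m t) ∪ pvieSh (pvieZu 𝔓 m z t) (𝔈.rO m)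

/-- the weight of `pvieKe` -/
noncomputable def pvikW (m : ℕ) (ε : ℝ) (z : ℂ) (t : τ) (η : Conf PvPt) : ℝ≥0∞ := pvieGr 𝔈 m ε (pvieZu 𝔓 m z t) (pvieFl (𝔓.col t) η) * pvieWe 𝔓 𝔈 m ε z t η

/-- **THE DATUM OF `Tr/BuThick` (v2: one field, generic weight) AT THE DEFINITIONS OF RECORD**, field `y_a` -/
noncomputable def pvikDat (a : ℂ) : PvktDat τ where
  C := fun m _ z t => pvikC1 𝔓 𝔈 m z t ∪ pvieSh z (𝔯.cK m t)
  yf := fun m _ z t η => pvieYe 𝔓 𝔈 m z t η ∪ pvikYc 𝔓 𝔯 m z t η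
  w := pvikW 𝔓 𝔈
  Y := fun m _ z t => (pvieLe 𝔓 𝔈 m z t).X 𝔓.num (𝔓.col t) a
  A' := fun m _ z t => (pvikLc 𝔓 𝔈 𝔯 m z t).A 𝔓.num (𝔓.col t)
  M := fun m z t => pvieSh z (𝔯.Mk m t)

theorem pvik_eqns_cite : True := by
  have := @pvikLc.eq_1; have := @pvikYc.eq_1; have := @pvikC1.eq_1; have := @pvikW.eq_1; have := @pvikDat.eq_1
  trivial

/-- `pvieKe` in the names of this file -/
theorem pvik_ke_eq (m : ℕ) (ε : ℝ) (a : ℂ) (z : ℂ) (t : τ) (ω : PVSample) :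
    pvieKe 𝔓 𝔈 m ε a z t ω = pvdyHat ε (pvikC1 𝔓 𝔈 m z t) (pvieYe 𝔓 𝔈 m z t) (pvikW 𝔓 𝔈 m ε z t) ((pvieLe 𝔓 𝔈 m z t).X 𝔓.num (𝔓.col t) a) (pvConf ω) := rfl

/-- the mean of 103 in the names of this file -/
theorem pvik_dat_ke_eq (m : ℕ) (ε : ℝ) (a : ℂ) (z : ℂ) (t : τ) (ω : PVSample) :
    (pvikDat 𝔓 𝔈 𝔯 a).ke m ε z t ω = pvdyHat ε ((pvikDat 𝔓 𝔈 𝔯 a).C m ε z t) ((pvikDat 𝔓 𝔈 𝔯 a).yf m ε z t) (pvikW 𝔓 𝔈 m ε z t) ((pvieLe 𝔓 𝔈 m z t).X 𝔓.num (𝔓.col t) a) (pvConf ω) := rfl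

/-! ## 4. the locality leaf, the roof -/

/-- **(ENL) LOCALITY OF THE THICK LINK**: at a usable candidate, for a.e. seed, the weight and the value of the thick link take the same values whether or not the tile of the thick return and the fresh colours of the exit mouth are resampled too.
[deterministic locality of Delaunay (29 GeoLoc, 220 RetNat) + Mesh clause inside `PvieLk.Arc` (168) + design: `cK`, `cM` far from the window of `e`] -/
def PvikEnl : Prop :=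
  ∀ (m : ℕ) (p : ℤ × ℤ) (t : τ), ∀ᶠ ε in 𝓝[>] (0 : ℝ), ∀ a : ℂ, ∀ᵐ ω ∂pvP ε, ω ∈ pvieU 𝔓.num (𝔓.col t) (𝔓.pl m (l9Pt (pvlmH m) p) t) → ∀ᵐ x ∂pvdyNu ε,
    pvikW 𝔓 𝔈 m ε (l9Pt (pvlmH m) p) t (pvdyR (pvikC1 𝔓 𝔈 m (l9Pt (pvlmH m) p) t) (pvieYe 𝔓 𝔈 m (l9Pt (pvlmH m) p) t) ω x)
        = pvikW 𝔓 𝔈 m ε (l9Pt (pvlmH m) p) t ((pvikDat 𝔓 𝔈 𝔯 a).R m ε (l9Pt (pvlmH m) p) t ω x) ∧
      (pvieLe 𝔓 𝔈 m (l9Pt (pvlmH m) p) t).X 𝔓.num (𝔓.col t) a (pvdyR (pvikC1 𝔓 𝔈 m (l9Pt (pvlmH m) p) t) (pvieYe 𝔓 𝔈 m (l9Pt (pvlmH m) p) t) ω x)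
        = (pvieLe 𝔓 𝔈 m (l9Pt (pvlmH m) p) t).X 𝔓.num (𝔓.col t) a ((pvikDat 𝔓 𝔈 𝔯 a).R m ε (l9Pt (pvlmH m) p) t ω x)

/-- **THE ROOF `thick` AT THE DEFINITIONS OF RECORD** -/
theorem pvik_thick {q q' : ℝ≥0∞} {L : ℝ} (hOk : ∀ a, (pvikDat 𝔓 𝔈 𝔯 a).Ok 𝔓 (pvbeComb pvqWQ pvbeWV (-a)) q q' L) (hE : PvikEnl 𝔓 𝔈 𝔯) (CA : ℝ) :
    PvieThick 𝔓 𝔈 CA (pvktCe q q' (pvktCBa CA) L) := by
  intro a ha m p t
  filter_upwards [pvkt_model_a hOk CA a ha m p t, hE m p t] with ε h1 h2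
  refine le_trans ?_ h1
  set z := l9Pt (pvlmH m) p with hz
  set Uc := pvieU 𝔓.num (𝔓.col t) (𝔓.pl m z t) with hUc
  have hU : pvxU 𝔓 m z t = pvConf ⁻¹' Uc := pvie_U_conf 𝔓 m z t
  -- both integrands are functions of the configuration
  let F : Conf PvPt → ℝ≥0∞ := Uc.indicator fun ω => ‖pvdyHat ε (pvikC1 𝔓 𝔈 m z t) (pvieYe 𝔓 𝔈 m z t) (pvikW 𝔓 𝔈 m ε z t) ((pvieLe 𝔓 𝔈 m z t).X 𝔓.num (𝔓.col t) a) ω‖ₑ ^ 2
  let F' : Conf PvPt → ℝ≥0∞ := Uc.indicator fun ω => ‖pvdyHat ε ((pvikDat 𝔓 𝔈 𝔯 a).C m ε z t) ((pvikDat 𝔓 𝔈 𝔯 a).yf m ε z t) (pvikW 𝔓 𝔈 m ε z t) ((pvieLe 𝔓 𝔈 m z t).X 𝔓.num (𝔓.col t) a) ω‖ₑ ^ 2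
  have e1 : ((pvMerge ⁻¹' pvxU 𝔓 m z t).indicator fun q => ‖pvieKe 𝔓 𝔈 m ε a z t (pvMerge q)‖ₑ ^ 2) = fun q => F (pvConf (pvMerge q)) := by
    funext q
    by_cases hq : pvConf (pvMerge q) ∈ Uc
    · rw [indicator_of_mem (show q ∈ pvMerge ⁻¹' pvxU 𝔓 m z t by rw [hU]; exact hq)]
      show _ = Uc.indicator _ _
      rw [indicator_of_mem hq, pvik_ke_eq]
    · rw [indicator_of_notMem (show q ∉ pvMerge ⁻¹' pvxU 𝔓 m z t by rw [hU]; exact hq)]
      show _ = Uc.indicator _ _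
      rw [indicator_of_notMem hq]
  have e2 : ((pvMerge ⁻¹' pvxU 𝔓 m z t).indicator fun q => ‖(pvikDat 𝔓 𝔈 𝔯 a).ke m ε z t (pvMerge q)‖ₑ ^ 2) = fun q => F' (pvConf (pvMerge q)) := by
    funext q
    by_cases hq : pvConf (pvMerge q) ∈ Uc
    · rw [indicator_of_mem (show q ∈ pvMerge ⁻¹' pvxU 𝔓 m z t by rw [hU]; exact hq)]
      show _ = Uc.indicator _ _
      rw [indicator_of_mem hq, pvik_dat_ke_eq]
    · rw [indicator_of_notMem (show q ∉ pvMerge ⁻¹' pvxU 𝔓 m z t by rw [hU]; exact hq)]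
      show _ = Uc.indicator _ _
      rw [indicator_of_notMem hq]
  rw [e1, e2]
  refine pvik_up_mono_ae ε ?_
  filter_upwards [h2 a] with ω hω
  by_cases hq : ω ∈ Uc
  · show Uc.indicator _ _ ≤ Uc.indicator _ _
    rw [indicator_of_mem hq, indicator_of_mem hq, pvik_hat_congr ε (hω hq)]
  · show Uc.indicator _ _ ≤ Uc.indicator _ _
    rw [indicator_of_notMem hq]
    exact zero_le

end dat

end Claimed.Agent.R289
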