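import Claimed.Agent.R289.Tr.KitGeo
import Claimed.Agent.R289.Tr.PlugFrcT

/-!
# Row 289 (S0537), THE WALL, file Tr/KitGeoC : THE SEAM `cover` OF `PvjoLay.Ok` (52, `Tr/PlugFrcT`) AT THE INSTANCE OF RECORD      (helper258; prefix `pvkgc_`)

`pvkgc_Ep`, `pvkgc_Em` : the open windows `pvkgEp`, `pvkgEm` of `Tr/KitGeo` lie in the closed windows `(pvjoT (1/40)).Es true / false` of 52;
**`pvkgc_cover`** : field `cover` of `PvjoLay.Ok Λ pvkgG (pvjoT (1/40))` VERBATIM, for every `Λ` with `Λ.Et = pvkgEt`;   also `pvkgc_mEt bEt dEt` (fields `mEt bEt dEt`), `pvkgc_mO`, `pvkgc_EO`.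
-/

set_option autoImplicit false

namespace Claimed.Agent.R289

open Set Metric

theorem pvkgc_core_mono {ρ : ℝ} {S T : Set ℂ} (h : S ⊆ T) : pvtrCore ρ S ⊆ pvtrCore ρ T := fun _ hz => Subset.trans hz h

theorem pvkgc_Ep : pvkgEp ⊆ (pvjoT (1 / 40)).Es true := by
  rintro w (⟨a, b, c, d⟩ | ⟨a, b, c, d⟩)
  · left
    refine ⟨?_, ?_⟩
    · rw [sub_zero, abs_le]; constructor <;> linarith
    · rw [sub_zero, abs_le]; constructor <;> linarith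
  · right
    show w ∈ pvkdRect true _ _ _ _
    unfold pvkdRect
    rw [if_pos rfl]
    refine ⟨?_, ?_, ?_, ?_⟩ <;> linarith

theorem pvkgc_Em : pvkgEm ⊆ (pvjoT (1 / 40)).Es false := by
  rintro w (⟨a, b, c, d⟩ | ⟨a, b, c, d⟩)
  · left
    refine ⟨?_, ?_⟩
    · rw [sub_zero, abs_le]; constructor <;> linarith
    · rw [sub_zero, abs_le]; constructor <;> linarith
  · right
    show w ∈ pvkdRect false _ _ _ _
    unfold pvkdRect
    rw [if_neg (by simp)]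
    refine ⟨?_, ?_, ?_, ?_⟩ <;> linarith

/-- **THE SEAM**: field `cover` of `PvjoLay.Ok` at `pvkgG`, `pvjoT (1/40)`, `Et := pvkgEt` -/
theorem pvkgc_cover (τ : PvtTurn) : pvtrCore pvkgG.ρ (pvkgG.Ea τ) ⊆
    pvtrCore pvkgG.ρ ((pvjoT (1 / 40)).Es true) ∪ pvtrCore pvkgG.ρ (pvkgEt τ) ∪ pvtrCore pvkgG.ρ (pvkdAt (pvkgG.zo 0 1 τ) τ.rot ((pvjoT (1 / 40)).Es false)) := by
  rw [pvkgg_Ea, pvkgg_zo, pvkgg_ρ]
  intro z hz
  rcases pvkgg_cover τ le_rfl hz with (h | h) | h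
  · exact Or.inl (Or.inl (pvkgc_core_mono pvkgc_Ep h))
  · exact Or.inl (Or.inr h)
  · exact Or.inr (pvkgc_core_mono (image_mono pvkgc_Em) h)

theorem pvkgc_mO : MeasurableSet pvkgG.O₀ := pvkgg_ze.mO

theorem pvkgc_EO : pvkgG.Ew ⊆ pvkgG.O₀ := pvkgg_ze.EO

theorem pvkgc_mEt (τ : PvtTurn) : MeasurableSet (pvkgEt τ) := (pvkgg_Et_open τ).measurableSet

theorem pvkgc_bEt (τ : PvtTurn) : Bornology.IsBounded (pvkgEt τ) :=
  (pvkgg_Ea_bdd τ).subset fun _ hw => Or.inl (Or.inr (pvkgg_Et_sub τ hw).1)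

theorem pvkgc_dEt (τ : PvtTurn) : Disjoint (pvkgEt τ) (pvkgG.O₀ ∪ pvkdAt (pvkgG.zo 0 1 τ) τ.rot pvkgG.O₀) := by
  rw [pvkgg_zo]
  exact Set.disjoint_left.2 fun _ hw h => (pvkgg_Et_sub τ hw).2 h

end Claimed.Agent.R289
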