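import Claimed.Agent.R289.Del.Wind
import Claimed.Agent.R289.Tr.Ring

/-!
# Row 289 (S0537, Cardy for Poisson-Voronoi), unit TR, second rope of M11 (P11' ORIENTATION), file Tr/Ladder : CHAINS, THE LADDER OF A CONTOUR, THE ORIENTATION LEMMA      (owner helper171; prefix `pvwl_`, `pvwl`, `Pvwl`)

MODEL FREE, 0 sorry.   Tools: `delChi` of 253 (`Del/Wind`), the contour walk `pvtrStep` of 39 (`Tr/Ring`).   No Jordan curve theorem, no general position, no `Θ`, no period, no finiteness or connectedness of `H`, no inner interlacing.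
* sec. 1-3  `pvwlT` (crossing sum of a triangle), **`pvwl_T_ne`** (it vanishes off the convex hull, ALL triangles), **`pvwl_para`** (an edge which misses `[z, z + v]`: the two crossing numbers differ by a coboundary), `pvwl_move` (closed polygons)
* sec. 4    CHAINS = lists of directed edges: `pvwlC L z` (crossing number), `PvwlBd L a b` (boundary `b - a`, tested on all `φ : ℂ → ℤ`), `PvwlOff L S`, `pvwlRev`, `pvwlL p i n`;   calculus `append rev single`;   **`pvwl_C_move`** (local constancy for closed chains)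
* sec. 5-6  the triangular lattice of the centres `pvtCtr δ u`: **`pvwl_edge_disj`** (two lattice edges without a common end are disjoint), `pvwl_vert_edge`, `pvwl_edge_sq`;   base point `pvwlZ δ e = b/4 + w/2 + a/4` of the triangle on the left of a dart:
            `pvwl_Zw_sq`, `pvwl_Zb_sq`, `pvwl_Zw_disj`, `pvwl_Zb_disj`, **`pvwl_T_Z_self`**, **`pvwl_T_Z_ne`** (the base point lies in its own open triangle and in no other closed lattice triangle)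
* sec. 7    `PvwlLat δ S L`, `PvwlMix δ S O L` (every edge misses the squares of `O` or is a lattice edge inside `S`), `PvwlMix.const` (the winding number of a closed mixed chain is constant along the lattice paths inside `O \ S`)
* sec. 8    **`pvwl_ladder`** (ALGEBRA, every `z`): inner contour = outer contour + first rung - last rung - the triangles of the band;
            **`pvwl_orient`** = THE ORIENTATION LEMMA: a closed chain `X + P'`, `X` inside `H` from the cell `um` (joined in `H \ G` to the inner cell of the FIRST dart of a stretch of the contour) to the cell `up` (joined in `H \ G` to the inner cell of the LAST dart),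
            `P'` off the squares of `G' ⊇ G`:   winding number at the base point of ANY dart `e'` off the stretch (inner cell in `G`) = winding number at the base point of a dart of the stretch + 1.      So the positive stretch lies on the RIGHT of `X`.
            `pvwl_orient_left` (mirror), **`pvwl_one_lane`** (two stretches which satisfy the hypotheses for the same chain overlap: NO SECOND LANE, without inner interlacing).
USE with a rim: `X ++ P'` = the edges of the cycle (or of `bd A`, `A` a finite face set of the plane map: `PvwlBd` = the balance of 202), plus two whiskers `x± → pvtCtr δ u±` and back.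
-/

set_option autoImplicit false

namespace Claimed.Agent.R289

open Set Relation Claims.C0467 Claimed.Agent.R291

/-! ## 1. the triangle sum for ALL triangles -/

/-- the crossing sum of the triangle `a b c` -/
noncomputable def pvwlT (z a b c : ℂ) : ℤ := delChi z a b + delChi z b c + delChi z c a

theorem pvwl_sgn {a b u v : ℝ} (h : a * u + b * v = 0) (hu : 0 < u) (hv : 0 < v) : 0 < a ↔ b < 0 := by
  constructor
  · intro ha
    by_contra hb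
    rw [not_lt] at hb
    nlinarith [mul_pos ha hu, mul_nonneg hb hv.le]
  · intro hb
    by_contra ha
    rw [not_lt] at ha
    nlinarith [mul_pos (neg_pos.2 hb) hv, mul_nonneg (neg_nonneg.2 ha) hu.le]

theorem pvwl_ite_sub {P Q : Prop} [Decidable P] [Decidable Q] (h : P ↔ Q) : (if P then (1 : ℤ) else 0) + (if Q then -1 else 0) = 0 := by
  by_cases hP : P
  · rw [if_pos hP, if_pos (h.1 hP)]; norm_num
  · rw [if_neg hP, if_neg (fun hq => hP (h.2 hq))]; norm_num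

/-- degenerate triangles: abstract form -/
theorem pvwl_chiR_deg {p q r α β γ y : ℝ} (hS : p + q + r = 0) (hY : p * α + q * β + r * γ = 0) :
    delChiR α β y r + delChiR β γ y p + delChiR γ α y q = 0 := by
  rcases le_or_gt α y with ha | ha <;> rcases le_or_gt β y with hb | hb <;> rcases le_or_gt γ y with hc | hc
  · rw [delw_chiR_low ha hb, delw_chiR_low hb hc, delw_chiR_low hc ha]; norm_num
  · -- α β low, γ high
    rw [delw_chiR_low ha hb, delw_chiR_up hb hc, delw_chiR_down ha hc, zero_add]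
    refine pvwl_ite_sub (pvwl_sgn (u := γ - α) (v := γ - β) ?_ (by linarith) (by linarith))
    have : r = - p - q := by linarith
    subst this
    linarith
  · -- α γ low, β high
    rw [delw_chiR_up ha hb, delw_chiR_down hc hb, delw_chiR_low hc ha, add_zero]
    refine pvwl_ite_sub (pvwl_sgn (u := β - γ) (v := β - α) ?_ (by linarith) (by linarith))
    have : q = - p - r := by linarith
    subst this
    linarith
  · -- α low, β γ high
    rw [delw_chiR_up ha hb, delw_chiR_high hb hc, delw_chiR_down ha hc, add_zero]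
    refine pvwl_ite_sub (pvwl_sgn (u := γ - α) (v := β - α) ?_ (by linarith) (by linarith))
    have : p = - q - r := by linarith
    subst this
    linarith
  · -- α high, β γ low
    rw [delw_chiR_down hb ha, delw_chiR_low hb hc, delw_chiR_up hc ha, add_zero, add_comm]
    refine pvwl_ite_sub (pvwl_sgn (u := α - β) (v := α - γ) ?_ (by linarith) (by linarith))
    have : p = - q - r := by linarith
    subst this
    linarith
  · -- α γ high, β low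
    rw [delw_chiR_down hb ha, delw_chiR_up hb hc, delw_chiR_high hc ha, add_zero, add_comm]
    refine pvwl_ite_sub (pvwl_sgn (u := α - β) (v := γ - β) ?_ (by linarith) (by linarith))
    have : q = - p - r := by linarith
    subst this
    linarith
  · -- α β high, γ low
    rw [delw_chiR_high ha hb, delw_chiR_down hc hb, delw_chiR_up hc ha, zero_add, add_comm]
    refine pvwl_ite_sub (pvwl_sgn (u := β - γ) (v := α - γ) ?_ (by linarith) (by linarith))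
    have : r = - p - q := by linarith
    subst this
    linarith
  · rw [delw_chiR_high ha hb, delw_chiR_high hb hc, delw_chiR_high hc ha]; norm_num


theorem pvwl_T_deg {a b c : ℂ} (h : vorDet a b c = 0) (z : ℂ) : pvwlT z a b c = 0 := by
  unfold pvwlT delChi
  refine pvwl_chiR_deg (p := vorDet b c z) (q := vorDet c a z) (r := vorDet a b z) ?_ ?_
  · have := dela_det_sum a b c z
    linarith
  · have e : vorDet b c z * a.im + vorDet c a z * b.im + vorDet a b z * c.im = vorDet a b c * z.im := by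
      unfold vorDet; ring
    rw [e, h, zero_mul]

theorem pvwl_T_swap (z a b c : ℂ) : pvwlT z a c b = - pvwlT z a b c := by
  unfold pvwlT
  rw [delw_chi_anti z c a, delw_chi_anti z b c, delw_chi_anti z a b]
  ring

theorem pvwl_det_swap' (a b c : ℂ) : vorDet a c b = - vorDet a b c := by
  unfold vorDet; ring

/-- a point of the closed triangle is a convex combination of the vertices -/
theorem pvwl_conv {a b c z : ℂ} (h : 0 < vorDet a b c) (hz : z ∈ delT a b c) :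
    ∃ l₁ l₂ l₃ : ℝ, 0 ≤ l₁ ∧ 0 ≤ l₂ ∧ 0 ≤ l₃ ∧ l₁ + l₂ + l₃ = 1 ∧ z = (l₁ : ℂ) * a + (l₂ : ℂ) * b + (l₃ : ℂ) * c := by
  obtain ⟨h1, h2, h3⟩ := hz
  refine ⟨vorDet b c z / vorDet a b c, vorDet c a z / vorDet a b c, vorDet a b z / vorDet a b c, by positivity, by positivity, by positivity, ?_, ?_⟩
  · have := dela_det_sum a b c z
    field_simp
    linarith
  · have e := dela_expand a b c z
    have hD : (vorDet a b c : ℂ) ≠ 0 := by exact_mod_cast h.ne'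
    push_cast
    field_simp
    rw [mul_comm z, e]

/-- **the triangle lemma for ALL triangles**: the crossing sum vanishes off the convex hull -/
theorem pvwl_T_ne {a b c z : ℂ} (h : pvwlT z a b c ≠ 0) :
    ∃ l₁ l₂ l₃ : ℝ, 0 ≤ l₁ ∧ 0 ≤ l₂ ∧ 0 ≤ l₃ ∧ l₁ + l₂ + l₃ = 1 ∧ z = (l₁ : ℂ) * a + (l₂ : ℂ) * b + (l₃ : ℂ) * c := by
  rcases lt_trichotomy (vorDet a b c) 0 with hd | hd | hd
  · have hd' : 0 < vorDet a c b := by rw [pvwl_det_swap']; linarith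
    have h' : pvwlT z a c b ≠ 0 := by rw [pvwl_T_swap]; exact neg_ne_zero.2 h
    obtain ⟨l₁, l₂, l₃, h1, h2, h3, h4, h5⟩ := pvwl_conv hd' ((delw_tri hd' z).2 h').1
    exact ⟨l₁, l₃, l₂, h1, h3, h2, by linarith, by rw [h5]; ring⟩
  · exact absurd (pvwl_T_deg hd z) h
  · exact pvwl_conv hd ((delw_tri hd z).2 h).1

/-! ## 2. translation, the parallelogram -/

theorem pvwl_chi_shift (z v a b : ℂ) : delChi (z + v) a b = delChi z (a - v) (b - v) := by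
  unfold delChi
  have e : vorDet a b (z + v) = vorDet (a - v) (b - v) z := by
    unfold vorDet
    simp only [Complex.add_re, Complex.add_im, Complex.sub_re, Complex.sub_im]
    ring
  rw [e]
  unfold delChiR
  simp only [Complex.add_im, Complex.sub_im]
  have e1 : ∀ s : ℝ, (s ≤ z.im + v.im ↔ s - v.im ≤ z.im) := fun s => by constructor <;> intro h <;> linarith
  have e2 : ∀ s : ℝ, (z.im + v.im < s ↔ z.im < s - v.im) := fun s => by constructor <;> intro h <;> linarith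
  simp only [e1, e2]

/-- **the parallelogram**: if the edge `a b` misses the segment `[z, z + v]` the two crossing numbers differ by a coboundary -/
theorem pvwl_para {z v a b : ℂ} (h : Disjoint (segment ℝ a b) (segment ℝ z (z + v))) :
    delChi z a b - delChi (z + v) a b = delChi z a (a - v) - delChi z b (b - v) := by
  have key : ∀ (s t : ℝ), 0 ≤ s → s ≤ 1 → 0 ≤ t → t ≤ 1 → ((1 - s : ℝ) : ℂ) * a + (s : ℂ) * b ≠ z + (t : ℂ) * v := by
    intro s t s0 s1 t0 t1 he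
    have m1 : ((1 - s : ℝ) : ℂ) * a + (s : ℂ) * b ∈ segment ℝ a b := ⟨1 - s, s, by linarith, s0, by ring, by simp⟩
    have m2 : ((1 - s : ℝ) : ℂ) * a + (s : ℂ) * b ∈ segment ℝ z (z + v) := by
      refine ⟨1 - t, t, by linarith, t0, by ring, ?_⟩
      rw [he]
      simp only [Complex.real_smul]
      push_cast
      ring
    exact Set.disjoint_left.1 h m1 m2
  have h1 : pvwlT z a b (b - v) = 0 := by
    by_contra hne
    obtain ⟨l₁, l₂, l₃, p1, p2, p3, p4, p5⟩ := pvwl_T_ne hne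
    refine key (l₂ + l₃) l₃ (by linarith) (by linarith) p3 (by linarith) ?_
    have : l₁ = 1 - (l₂ + l₃) := by linarith
    rw [p5, this]
    push_cast
    ring
  have h2 : pvwlT z a (b - v) (a - v) = 0 := by
    by_contra hne
    obtain ⟨l₁, l₂, l₃, p1, p2, p3, p4, p5⟩ := pvwl_T_ne hne
    refine key l₂ (l₂ + l₃) p2 (by linarith) (by linarith) (by linarith) ?_
    have : l₁ = 1 - (l₂ + l₃) := by linarith
    rw [p5, this]
    push_cast
    ring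
  unfold pvwlT at h1 h2
  rw [pvwl_chi_shift]
  have e1 := delw_chi_anti z a (b - v)
  have e2 := delw_chi_anti z (a - v) (b - v)
  have e3 := delw_chi_anti z a (a - v)
  linarith

/-! ## 3. polygons -/

/-- the crossing number of the polygonal path `p 0, …, p n` -/
noncomputable def pvwlS (p : ℕ → ℂ) (n : ℕ) (z : ℂ) : ℤ := ∑ i ∈ Finset.range n, delChi z (p i) (p (i + 1))

/-- the polygonal path as a set -/
def pvwlP (p : ℕ → ℂ) (n : ℕ) : Set ℂ := ⋃ i ∈ Finset.range n, segment ℝ (p i) (p (i + 1))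

theorem pvwl_eqns_cite : True := by
  have := @pvwlT.eq_1; have := @pvwlS.eq_1; have := @pvwlP.eq_1
  trivial

theorem pvwl_seg_sub {p : ℕ → ℂ} {n i : ℕ} (hi : i < n) : segment ℝ (p i) (p (i + 1)) ⊆ pvwlP p n := by
  intro x hx
  unfold pvwlP
  simp only [Set.mem_iUnion]
  exact ⟨i, Finset.mem_range.2 hi, hx⟩

/-- **(A) LOCAL CONSTANCY**, open paths: the defect is carried by the two ends -/
theorem pvwl_move_open {p : ℕ → ℂ} {n : ℕ} {z z' : ℂ} (h : Disjoint (pvwlP p n) (segment ℝ z z')) :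
    pvwlS p n z - pvwlS p n z' = delChi z (p 0) (p 0 - (z' - z)) - delChi z (p n) (p n - (z' - z)) := by
  unfold pvwlS
  rw [← Finset.sum_sub_distrib]
  have e : ∀ i ∈ Finset.range n, delChi z (p i) (p (i + 1)) - delChi z' (p i) (p (i + 1)) =
      delChi z (p i) (p i - (z' - z)) - delChi z (p (i + 1)) (p (i + 1) - (z' - z)) := by
    intro i hi
    have h1 : Disjoint (segment ℝ (p i) (p (i + 1))) (segment ℝ z (z + (z' - z))) := by
      rw [add_sub_cancel]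
      exact h.mono_left (pvwl_seg_sub (Finset.mem_range.1 hi))
    have := pvwl_para h1
    rwa [add_sub_cancel] at this
  rw [Finset.sum_congr rfl e]
  exact Finset.sum_range_sub' (fun i => delChi z (p i) (p i - (z' - z))) n

/-- **(A) LOCAL CONSTANCY** of the winding number of a closed polygon -/
theorem pvwl_move {p : ℕ → ℂ} {n : ℕ} (hcl : p n = p 0) {z z' : ℂ} (h : Disjoint (pvwlP p n) (segment ℝ z z')) : pvwlS p n z = pvwlS p n z' := by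
  have := pvwl_move_open h
  rw [hcl, sub_self] at this
  linarith


/-! ## 4. chains = lists of directed edges -/

/-- the crossing number of a chain -/
noncomputable def pvwlC (L : List (ℂ × ℂ)) (z : ℂ) : ℤ := (L.map fun e => delChi z e.1 e.2).sum

/-- `L` is a chain from `a` to `b`: its boundary is `b - a` -/
def PvwlBd (L : List (ℂ × ℂ)) (a b : ℂ) : Prop := ∀ φ : ℂ → ℤ, (L.map fun e => φ e.2 - φ e.1).sum = φ b - φ a

/-- all the (non degenerate) edges of the chain miss `S` -/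
def PvwlOff (L : List (ℂ × ℂ)) (S : Set ℂ) : Prop := ∀ e ∈ L, e.1 = e.2 ∨ Disjoint (segment ℝ e.1 e.2) S

/-- the reversed chain -/
def pvwlRev (L : List (ℂ × ℂ)) : List (ℂ × ℂ) := L.map Prod.swap

/-- the chain of the polygonal path `p i, …, p (i + n)` -/
def pvwlL (p : ℕ → ℂ) (i n : ℕ) : List (ℂ × ℂ) := (List.range n).map fun k => (p (i + k), p (i + k + 1))

theorem pvwl_eqns_cite2 : True := by
  have := @pvwlC.eq_1; have := @PvwlBd.eq_1; have := @PvwlOff.eq_1; have := @pvwlRev.eq_1; have := @pvwlL.eq_1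
  trivial

theorem pvwl_C_nil (z : ℂ) : pvwlC [] z = 0 := rfl

theorem pvwl_C_cons (e : ℂ × ℂ) (L : List (ℂ × ℂ)) (z : ℂ) : pvwlC (e :: L) z = delChi z e.1 e.2 + pvwlC L z := by
  simp [pvwlC]

theorem pvwl_C_single (a b z : ℂ) : pvwlC [(a, b)] z = delChi z a b := by
  simp [pvwlC]

theorem pvwl_C_append (L L' : List (ℂ × ℂ)) (z : ℂ) : pvwlC (L ++ L') z = pvwlC L z + pvwlC L' z := by
  simp [pvwlC]

theorem pvwl_C_rev (L : List (ℂ × ℂ)) (z : ℂ) : pvwlC (pvwlRev L) z = - pvwlC L z := by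
  induction L with
  | nil => simp [pvwlC, pvwlRev]
  | cons e L ih =>
    have : pvwlRev (e :: L) = (e.2, e.1) :: pvwlRev L := rfl
    rw [this, pvwl_C_cons, pvwl_C_cons, ih, delw_chi_anti]
    ring

theorem pvwl_chi_self (z a : ℂ) : delChi z a a = 0 := by
  have := delw_chi_anti z a a
  omega

theorem PvwlBd.nil (a : ℂ) : PvwlBd [] a a := fun φ => by simp

theorem PvwlBd.single (a b : ℂ) : PvwlBd [(a, b)] a b := fun φ => by simp

theorem PvwlBd.append {L L' : List (ℂ × ℂ)} {a b c : ℂ} (h : PvwlBd L a b) (h' : PvwlBd L' b c) : PvwlBd (L ++ L') a c := fun φ => by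
  rw [List.map_append, List.sum_append, h φ, h' φ]
  ring

theorem PvwlBd.rev {L : List (ℂ × ℂ)} {a b : ℂ} (h : PvwlBd L a b) : PvwlBd (pvwlRev L) b a := fun φ => by
  have e : ∀ M : List (ℂ × ℂ), ((pvwlRev M).map fun e => φ e.2 - φ e.1).sum = - (M.map fun e => φ e.2 - φ e.1).sum := by
    intro M
    induction M with
    | nil => simp [pvwlRev]
    | cons x M ih =>
      have : pvwlRev (x :: M) = (x.2, x.1) :: pvwlRev M := rfl
      rw [this, List.map_cons, List.sum_cons, ih, List.map_cons, List.sum_cons]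
      ring
  rw [e, h φ]
  ring

theorem PvwlOff.nil (S : Set ℂ) : PvwlOff [] S := fun e he => by simp at he

theorem PvwlOff.single {a b : ℂ} {S : Set ℂ} (h : Disjoint (segment ℝ a b) S) : PvwlOff [(a, b)] S := fun e he => by
  rw [List.mem_singleton] at he
  subst he
  exact Or.inr h

theorem PvwlOff.append {L L' : List (ℂ × ℂ)} {S : Set ℂ} (h : PvwlOff L S) (h' : PvwlOff L' S) : PvwlOff (L ++ L') S := fun e he => by
  rcases List.mem_append.1 he with h1 | h1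
  · exact h e h1
  · exact h' e h1

theorem PvwlOff.rev {L : List (ℂ × ℂ)} {S : Set ℂ} (h : PvwlOff L S) : PvwlOff (pvwlRev L) S := fun e he => by
  obtain ⟨x, hx, rfl⟩ := List.mem_map.1 he
  rcases h x hx with h1 | h1
  · exact Or.inl h1.symm
  · rw [segment_symm] at h1
    exact Or.inr h1

theorem PvwlOff.mono {L : List (ℂ × ℂ)} {S S' : Set ℂ} (h : PvwlOff L S) (hS : S' ⊆ S) : PvwlOff L S' := fun e he => (h e he).imp id fun h1 => h1.mono_right hS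

/-- **(A) LOCAL CONSTANCY** for closed chains -/
theorem pvwl_C_move {L : List (ℂ × ℂ)} {a z z' : ℂ} (hcl : PvwlBd L a a) (h : PvwlOff L (segment ℝ z z')) : pvwlC L z = pvwlC L z' := by
  have key : ∀ M : List (ℂ × ℂ), PvwlOff M (segment ℝ z z') →
      pvwlC M z - pvwlC M z' = - (M.map fun e => (fun x => delChi z x (x - (z' - z))) e.2 - (fun x => delChi z x (x - (z' - z))) e.1).sum := by
    intro M
    induction M with
    | nil => intro _; simp [pvwlC]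
    | cons x M ih =>
      intro hM
      have h2 : delChi z x.1 x.2 - delChi z' x.1 x.2 = delChi z x.1 (x.1 - (z' - z)) - delChi z x.2 (x.2 - (z' - z)) := by
        rcases hM x (List.mem_cons_self ..) with h0 | h0
        · rw [← h0, pvwl_chi_self, pvwl_chi_self]; ring
        · have h1 : Disjoint (segment ℝ x.1 x.2) (segment ℝ z (z + (z' - z))) := by
            rw [add_sub_cancel]
            exact h0
          have h2 := pvwl_para h1
          rwa [add_sub_cancel] at h2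
      have h3 := ih fun e he => hM e (List.mem_cons_of_mem _ he)
      rw [pvwl_C_cons, pvwl_C_cons, List.map_cons, List.sum_cons]
      linarith
  have h1 := key L h
  have h2 := hcl fun x => delChi z x (x - (z' - z))
  rw [h2] at h1
  linarith

theorem pvwl_L_zero (p : ℕ → ℂ) (i : ℕ) : pvwlL p i 0 = [] := rfl

theorem pvwl_L_succ (p : ℕ → ℂ) (i n : ℕ) : pvwlL p i (n + 1) = pvwlL p i n ++ [(p (i + n), p (i + n + 1))] := by
  simp [pvwlL, List.range_succ]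

theorem pvwl_L_bd (p : ℕ → ℂ) (i n : ℕ) : PvwlBd (pvwlL p i n) (p i) (p (i + n)) := by
  induction n with
  | zero => exact PvwlBd.nil _
  | succ n ih =>
    rw [pvwl_L_succ]
    exact ih.append (PvwlBd.single _ _)

theorem pvwl_L_mem {p : ℕ → ℂ} {i n : ℕ} {e : ℂ × ℂ} (h : e ∈ pvwlL p i n) : ∃ k < n, e = (p (i + k), p (i + k + 1)) := by
  obtain ⟨k, hk, rfl⟩ := List.mem_map.1 h
  exact ⟨k, List.mem_range.1 hk, rfl⟩

theorem pvwl_L_add (p : ℕ → ℂ) (i n m : ℕ) : pvwlL p i (n + m) = pvwlL p i n ++ pvwlL p (i + n) m := by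
  induction m with
  | zero => simp [pvwl_L_zero]
  | succ m ih =>
    rw [← Nat.add_assoc, pvwl_L_succ, ih, pvwl_L_succ, List.append_assoc]
    simp only [Nat.add_assoc]

theorem pvwl_C_L (p : ℕ → ℂ) (i n : ℕ) (z : ℂ) : pvwlC (pvwlL p i n) z = ∑ k ∈ Finset.range n, delChi z (p (i + k)) (p (i + k + 1)) := by
  induction n with
  | zero => simp [pvwl_L_zero, pvwl_C_nil]
  | succ n ih => rw [pvwl_L_succ, pvwl_C_append, ih, pvwl_C_single, Finset.sum_range_succ]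

/-- a closed polygon may be read from any vertex -/
theorem pvwl_C_L_shift {p : ℕ → ℂ} {N : ℕ} (hp : ∀ k, p (k + N) = p k) (i : ℕ) (z : ℂ) : pvwlC (pvwlL p i N) z = pvwlC (pvwlL p 0 N) z := by
  induction i with
  | zero => rfl
  | succ i ih =>
    rw [← ih]
    have h1 : pvwlL p i (N + 1) = pvwlL p i N ++ [(p (i + N), p (i + N + 1))] := pvwl_L_succ p i N
    have h2 : pvwlL p i (1 + N) = pvwlL p i 1 ++ pvwlL p (i + 1) N := pvwl_L_add p i 1 N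
    have h3 : pvwlL p i 1 = [(p i, p (i + 1))] := by simp [pvwlL]
    have h4 := congrArg (fun L => pvwlC L z) h1
    have h5 := congrArg (fun L => pvwlC L z) h2
    simp only [pvwl_C_append, h3, pvwl_C_single] at h4 h5
    rw [Nat.add_comm 1 N] at h5
    have e1 : p (i + N) = p i := hp i
    have e2 : p (i + N + 1) = p (i + 1) := by rw [Nat.add_right_comm]; exact hp (i + 1)
    rw [e1, e2] at h4
    linarith


/-! ## 5. arithmetic of the triangular lattice -/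

/-- two lattice edges (positive directions) with a common point have a common end -/
theorem pvwl_ar_edge0 {u1 u2 v1 v2 x1 x2 y1 y2 : ℤ}
    (h : (v1 = u1 + 1 ∧ v2 = u2) ∨ (v1 = u1 ∧ v2 = u2 + 1) ∨ (v1 = u1 - 1 ∧ v2 = u2 + 1))
    (h' : (y1 = x1 + 1 ∧ y2 = x2) ∨ (y1 = x1 ∧ y2 = x2 + 1) ∨ (y1 = x1 - 1 ∧ y2 = x2 + 1))
    {s t : ℝ} (s0 : 0 ≤ s) (s1 : s ≤ 1) (t0 : 0 ≤ t) (t1 : t ≤ 1)
    (e1 : (u1 : ℝ) + s * ((v1 : ℝ) - u1) = x1 + t * ((y1 : ℝ) - x1)) (e2 : (u2 : ℝ) + s * ((v2 : ℝ) - u2) = x2 + t * ((y2 : ℝ) - x2)) :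
    (u1 = x1 ∧ u2 = x2) ∨ (u1 = y1 ∧ u2 = y2) ∨ (v1 = x1 ∧ v2 = x2) ∨ (v1 = y1 ∧ v2 = y2) := by
  obtain ⟨P, rfl⟩ : ∃ P : ℤ, u1 = x1 + P := ⟨u1 - x1, by ring⟩
  obtain ⟨Q, rfl⟩ : ∃ Q : ℤ, u2 = x2 + Q := ⟨u2 - x2, by ring⟩
  rcases h with ⟨rfl, rfl⟩ | ⟨rfl, rfl⟩ | ⟨rfl, rfl⟩ <;>
  rcases h' with ⟨rfl, rfl⟩ | ⟨rfl, rfl⟩ | ⟨rfl, rfl⟩ <;>
  (push_cast at e1 e2
   have b1 : (-3 : ℝ) < P := by linarith
   have b2 : (P : ℝ) < 3 := by linarith
   have b3 : (-3 : ℝ) < Q := by linarith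
   have b4 : (Q : ℝ) < 3 := by linarith
   have c1 : -3 < P := by exact_mod_cast b1
   have c2 : P < 3 := by exact_mod_cast b2
   have c3 : -3 < Q := by exact_mod_cast b3
   have c4 : Q < 3 := by exact_mod_cast b4
   clear b1 b2 b3 b4
   interval_cases P <;> interval_cases Q <;> first | omega | (exfalso; push_cast at e1 e2; linarith))


/-- an integer strictly between `-1` and `1` is `0` -/
theorem pvwl_int_open {N : ℤ} {r : ℝ} (h : (N : ℝ) = r) (h1 : -1 < r) (h2 : r < 1) (h0 : r ≠ 0) : False := by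
  rw [← h] at h1 h2 h0
  have c1 : -1 < N := by exact_mod_cast h1
  have c2 : N < 1 := by exact_mod_cast h2
  have : N = 0 := by omega
  subst this
  simp at h0

/-- a lattice point on a lattice edge is an end of the edge -/
theorem pvwl_ar_vert {u1 u2 v1 v2 x1 x2 : ℤ}
    (h : (v1 = u1 + 1 ∧ v2 = u2) ∨ (v1 = u1 ∧ v2 = u2 + 1) ∨ (v1 = u1 - 1 ∧ v2 = u2 + 1) ∨ (v1 = u1 - 1 ∧ v2 = u2) ∨ (v1 = u1 ∧ v2 = u2 - 1) ∨ (v1 = u1 + 1 ∧ v2 = u2 - 1))
    {s : ℝ} (s0 : 0 ≤ s) (s1 : s ≤ 1) (e1 : (x1 : ℝ) = u1 + s * ((v1 : ℝ) - u1)) (e2 : (x2 : ℝ) = u2 + s * ((v2 : ℝ) - u2)) :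
    (x1 = u1 ∧ x2 = u2) ∨ (x1 = v1 ∧ x2 = v2) := by
  obtain ⟨P, rfl⟩ : ∃ P : ℤ, x1 = u1 + P := ⟨x1 - u1, by ring⟩
  obtain ⟨Q, rfl⟩ : ∃ Q : ℤ, x2 = u2 + Q := ⟨x2 - u2, by ring⟩
  rcases h with ⟨rfl, rfl⟩ | ⟨rfl, rfl⟩ | ⟨rfl, rfl⟩ | ⟨rfl, rfl⟩ | ⟨rfl, rfl⟩ | ⟨rfl, rfl⟩ <;>
  (push_cast at e1 e2
   have b1 : (-2 : ℝ) < P := by linarith
   have b2 : (P : ℝ) < 2 := by linarith
   have b3 : (-2 : ℝ) < Q := by linarith
   have b4 : (Q : ℝ) < 2 := by linarith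
   have c1 : -2 < P := by exact_mod_cast b1
   have c2 : P < 2 := by exact_mod_cast b2
   have c3 : -2 < Q := by exact_mod_cast b3
   have c4 : Q < 2 := by exact_mod_cast b4
   clear b1 b2 b3 b4
   interval_cases P <;> interval_cases Q <;> first | omega | (exfalso; push_cast at e1 e2; linarith))

/-- a point of an open lattice triangle lies on no lattice edge -/
theorem pvwl_ar_open {b1 b2 d1 d2 x1 x2 y1 y2 : ℤ}
    (hd : (d1 = 1 ∧ d2 = 0) ∨ (d1 = 0 ∧ d2 = 1) ∨ (d1 = -1 ∧ d2 = 1) ∨ (d1 = -1 ∧ d2 = 0) ∨ (d1 = 0 ∧ d2 = -1) ∨ (d1 = 1 ∧ d2 = -1))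
    (h' : (y1 = x1 + 1 ∧ y2 = x2) ∨ (y1 = x1 ∧ y2 = x2 + 1) ∨ (y1 = x1 - 1 ∧ y2 = x2 + 1) ∨ (y1 = x1 - 1 ∧ y2 = x2) ∨ (y1 = x1 ∧ y2 = x2 - 1) ∨ (y1 = x1 + 1 ∧ y2 = x2 - 1))
    {l2 l3 t : ℝ} (h2 : 0 < l2) (h3 : 0 < l3) (h23 : l2 + l3 < 1)
    (e1 : (b1 : ℝ) + l2 * d1 + l3 * (-(d2 : ℝ)) = x1 + t * ((y1 : ℝ) - x1)) (e2 : (b2 : ℝ) + l2 * d2 + l3 * ((d1 : ℝ) + d2) = x2 + t * ((y2 : ℝ) - x2)) : False := by
  have F1 : -1 < l2 * (d1 : ℝ) + l3 * (-(d2 : ℝ)) ∧ l2 * (d1 : ℝ) + l3 * (-(d2 : ℝ)) < 1 ∧ l2 * (d1 : ℝ) + l3 * (-(d2 : ℝ)) ≠ 0 := by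
    rcases hd with ⟨rfl, rfl⟩ | ⟨rfl, rfl⟩ | ⟨rfl, rfl⟩ | ⟨rfl, rfl⟩ | ⟨rfl, rfl⟩ | ⟨rfl, rfl⟩ <;> push_cast <;>
      refine ⟨by linarith, by linarith, ?_⟩ <;> first | (apply ne_of_gt; linarith) | (apply ne_of_lt; linarith)
  have F2 : -1 < l2 * (d2 : ℝ) + l3 * ((d1 : ℝ) + d2) ∧ l2 * (d2 : ℝ) + l3 * ((d1 : ℝ) + d2) < 1 ∧ l2 * (d2 : ℝ) + l3 * ((d1 : ℝ) + d2) ≠ 0 := by
    rcases hd with ⟨rfl, rfl⟩ | ⟨rfl, rfl⟩ | ⟨rfl, rfl⟩ | ⟨rfl, rfl⟩ | ⟨rfl, rfl⟩ | ⟨rfl, rfl⟩ <;> push_cast <;>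
      refine ⟨by linarith, by linarith, ?_⟩ <;> first | (apply ne_of_gt; linarith) | (apply ne_of_lt; linarith)
  have F3 : -1 < l2 * ((d1 : ℝ) + d2) + l3 * (d1 : ℝ) ∧ l2 * ((d1 : ℝ) + d2) + l3 * (d1 : ℝ) < 1 ∧ l2 * ((d1 : ℝ) + d2) + l3 * (d1 : ℝ) ≠ 0 := by
    rcases hd with ⟨rfl, rfl⟩ | ⟨rfl, rfl⟩ | ⟨rfl, rfl⟩ | ⟨rfl, rfl⟩ | ⟨rfl, rfl⟩ | ⟨rfl, rfl⟩ <;> push_cast <;>
      refine ⟨by linarith, by linarith, ?_⟩ <;> first | (apply ne_of_gt; linarith) | (apply ne_of_lt; linarith)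
  rcases h' with ⟨k1, k2⟩ | ⟨k1, k2⟩ | ⟨k1, k2⟩ | ⟨k1, k2⟩ | ⟨k1, k2⟩ | ⟨k1, k2⟩ <;> rw [k1] at e1 <;> rw [k2] at e2
  · exact pvwl_int_open (N := x2 - b2) (by push_cast at e2 ⊢; linarith) F2.1 F2.2.1 F2.2.2
  · exact pvwl_int_open (N := x1 - b1) (by push_cast at e1 ⊢; linarith) F1.1 F1.2.1 F1.2.2
  · exact pvwl_int_open (N := x1 + x2 - b1 - b2) (by push_cast at e1 e2 ⊢; linarith) F3.1 F3.2.1 F3.2.2
  · exact pvwl_int_open (N := x2 - b2) (by push_cast at e2 ⊢; linarith) F2.1 F2.2.1 F2.2.2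
  · exact pvwl_int_open (N := x1 - b1) (by push_cast at e1 ⊢; linarith) F1.1 F1.2.1 F1.2.2
  · exact pvwl_int_open (N := x1 + x2 - b1 - b2) (by push_cast at e1 e2 ⊢; linarith) F3.1 F3.2.1 F3.2.2

/-! ## 6. geometry of the triangular lattice of the centres -/

section lat

variable {δ : ℝ}

theorem pvwl_seg_coord {a b p : ℂ} (hp : p ∈ segment ℝ a b) : ∃ s : ℝ, 0 ≤ s ∧ s ≤ 1 ∧ p.re = a.re + s * (b.re - a.re) ∧ p.im = a.im + s * (b.im - a.im) := by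
  obtain ⟨x, y, hx, hy, hxy, rfl⟩ := hp
  refine ⟨y, hy, by linarith, ?_, ?_⟩
  · have : x = 1 - y := by linarith
    subst this
    simp only [Complex.add_re, Complex.real_smul, Complex.mul_re, Complex.ofReal_re, Complex.ofReal_im, zero_mul, sub_zero]
    ring
  · have : x = 1 - y := by linarith
    subst this
    simp only [Complex.add_im, Complex.real_smul, Complex.mul_im, Complex.ofReal_re, Complex.ofReal_im, zero_mul, add_zero]
    ring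

theorem pvwl_ctr_re (u : ℤ × ℤ) : (pvtCtr δ u).re = ((u.1 : ℝ) + 1 / 2) * δ := rfl

theorem pvwl_ctr_im (u : ℤ × ℤ) : (pvtCtr δ u).im = ((u.2 : ℝ) + 1 / 2) * δ := rfl

/-- a point of the lattice edge, in lattice coordinates -/
theorem pvwl_edge_coord {u v : ℤ × ℤ} {p : ℂ} (hp : p ∈ segment ℝ (pvtCtr δ u) (pvtCtr δ v)) :
    ∃ s : ℝ, 0 ≤ s ∧ s ≤ 1 ∧ p.re = ((u.1 : ℝ) + s * ((v.1 : ℝ) - u.1) + 1 / 2) * δ ∧ p.im = ((u.2 : ℝ) + s * ((v.2 : ℝ) - u.2) + 1 / 2) * δ := by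
  obtain ⟨s, s0, s1, h1, h2⟩ := pvwl_seg_coord hp
  refine ⟨s, s0, s1, ?_, ?_⟩
  · rw [h1, pvwl_ctr_re, pvwl_ctr_re]; ring
  · rw [h2, pvwl_ctr_im, pvwl_ctr_im]; ring

theorem pvwl_mem_sq (hδ : 0 ≤ δ) {z : ℤ × ℤ} {p : ℂ} {X Y : ℝ} (h1 : p.re = (X + 1 / 2) * δ) (h2 : p.im = (Y + 1 / 2) * δ)
    (a1 : (z.1 : ℝ) - 1 / 2 ≤ X) (a2 : X ≤ z.1 + 1 / 2) (a3 : (z.2 : ℝ) - 1 / 2 ≤ Y) (a4 : Y ≤ z.2 + 1 / 2) : p ∈ pvtSq δ z := by
  refine ⟨?_, ?_, ?_, ?_⟩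
  · rw [h1]; exact mul_le_mul_of_nonneg_right (by linarith) hδ
  · rw [h1]; exact mul_le_mul_of_nonneg_right (by linarith) hδ
  · rw [h2]; exact mul_le_mul_of_nonneg_right (by linarith) hδ
  · rw [h2]; exact mul_le_mul_of_nonneg_right (by linarith) hδ

/-- positive directions -/
def PvwlPos (u v : ℤ × ℤ) : Prop := (v.1 = u.1 + 1 ∧ v.2 = u.2) ∨ (v.1 = u.1 ∧ v.2 = u.2 + 1) ∨ (v.1 = u.1 - 1 ∧ v.2 = u.2 + 1)

theorem pvwl_pos_or {u v : ℤ × ℤ} (h : triAdj u v) : PvwlPos u v ∨ PvwlPos v u := by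
  rw [tsc_adj_iff] at h
  unfold PvwlPos
  omega

theorem pvwl_edge_disj0 (hδ : 0 < δ) {u v x y : ℤ × ℤ} (h : PvwlPos u v) (h' : PvwlPos x y) (h1 : u ≠ x) (h2 : u ≠ y) (h3 : v ≠ x) (h4 : v ≠ y) :
    Disjoint (segment ℝ (pvtCtr δ u) (pvtCtr δ v)) (segment ℝ (pvtCtr δ x) (pvtCtr δ y)) := by
  rw [Set.disjoint_left]
  intro p hp hq
  obtain ⟨s, s0, s1, a1, a2⟩ := pvwl_edge_coord hp
  obtain ⟨t, t0, t1, b1, b2⟩ := pvwl_edge_coord hq
  have e1 : (u.1 : ℝ) + s * ((v.1 : ℝ) - u.1) = x.1 + t * ((y.1 : ℝ) - x.1) := by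
    have := mul_right_cancel₀ hδ.ne' (a1.symm.trans b1)
    linarith
  have e2 : (u.2 : ℝ) + s * ((v.2 : ℝ) - u.2) = x.2 + t * ((y.2 : ℝ) - x.2) := by
    have := mul_right_cancel₀ hδ.ne' (a2.symm.trans b2)
    linarith
  rcases pvwl_ar_edge0 h h' s0 s1 t0 t1 e1 e2 with ⟨k1, k2⟩ | ⟨k1, k2⟩ | ⟨k1, k2⟩ | ⟨k1, k2⟩
  · exact h1 (Prod.ext k1 k2)
  · exact h2 (Prod.ext k1 k2)
  · exact h3 (Prod.ext k1 k2)
  · exact h4 (Prod.ext k1 k2)

/-- **(L1)** two lattice edges without a common end are disjoint -/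
theorem pvwl_edge_disj (hδ : 0 < δ) {u v x y : ℤ × ℤ} (h : triAdj u v) (h' : triAdj x y) (h1 : u ≠ x) (h2 : u ≠ y) (h3 : v ≠ x) (h4 : v ≠ y) :
    Disjoint (segment ℝ (pvtCtr δ u) (pvtCtr δ v)) (segment ℝ (pvtCtr δ x) (pvtCtr δ y)) := by
  rcases pvwl_pos_or h with k | k <;> rcases pvwl_pos_or h' with k' | k'
  · exact pvwl_edge_disj0 hδ k k' h1 h2 h3 h4
  · rw [segment_symm ℝ (pvtCtr δ x)]; exact pvwl_edge_disj0 hδ k k' h2 h1 h4 h3
  · rw [segment_symm ℝ (pvtCtr δ u)]; exact pvwl_edge_disj0 hδ k k' h3 h4 h1 h2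
  · rw [segment_symm ℝ (pvtCtr δ u), segment_symm ℝ (pvtCtr δ x)]; exact pvwl_edge_disj0 hδ k k' h4 h3 h2 h1

/-- **(L0)** a centre on a lattice edge is an end of the edge -/
theorem pvwl_vert_edge (hδ : 0 < δ) {u v x : ℤ × ℤ} (h : triAdj u v) (hx : pvtCtr δ x ∈ segment ℝ (pvtCtr δ u) (pvtCtr δ v)) : x = u ∨ x = v := by
  obtain ⟨s, s0, s1, a1, a2⟩ := pvwl_edge_coord hx
  rw [pvwl_ctr_re] at a1
  rw [pvwl_ctr_im] at a2
  have e1 : (x.1 : ℝ) = u.1 + s * ((v.1 : ℝ) - u.1) := by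
    have := mul_right_cancel₀ hδ.ne' a1
    linarith
  have e2 : (x.2 : ℝ) = u.2 + s * ((v.2 : ℝ) - u.2) := by
    have := mul_right_cancel₀ hδ.ne' a2
    linarith
  rcases pvwl_ar_vert ((tsc_adj_iff u v).1 h) s0 s1 e1 e2 with ⟨k1, k2⟩ | ⟨k1, k2⟩
  · exact Or.inl (Prod.ext k1 k2)
  · exact Or.inr (Prod.ext k1 k2)

/-- a lattice edge lies in the squares of its two ends -/
theorem pvwl_edge_sq (hδ : 0 < δ) {u v : ℤ × ℤ} (h : triAdj u v) : segment ℝ (pvtCtr δ u) (pvtCtr δ v) ⊆ pvtSq δ u ∪ pvtSq δ v := by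
  intro p hp
  obtain ⟨s, s0, s1, a1, a2⟩ := pvwl_edge_coord hp
  rw [tsc_adj_iff] at h
  rcases le_total s (1 / 2) with hs | hs
  · left
    refine pvwl_mem_sq hδ.le a1 a2 ?_ ?_ ?_ ?_ <;>
      rcases h with ⟨k1, k2⟩ | ⟨k1, k2⟩ | ⟨k1, k2⟩ | ⟨k1, k2⟩ | ⟨k1, k2⟩ | ⟨k1, k2⟩ <;> simp only [k1, k2] <;> push_cast <;> linarith
  · right
    refine pvwl_mem_sq hδ.le a1 a2 ?_ ?_ ?_ ?_ <;>
      rcases h with ⟨k1, k2⟩ | ⟨k1, k2⟩ | ⟨k1, k2⟩ | ⟨k1, k2⟩ | ⟨k1, k2⟩ | ⟨k1, k2⟩ <;> simp only [k1, k2] <;> push_cast <;> linarith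

end lat

section lat2

variable {δ : ℝ}

/-- the base point of the dart `e = (b, w)`: the point `b/4 + w/2 + a/4` of the open triangle `b w a` on the left of `e` -/
noncomputable def pvwlZ (δ : ℝ) (e : (ℤ × ℤ) × (ℤ × ℤ)) : ℂ :=
  ⟨((e.1.1 : ℝ) + ((e.2.1 : ℝ) - e.1.1) / 2 - ((e.2.2 : ℝ) - e.1.2) / 4 + 1 / 2) * δ,
   ((e.1.2 : ℝ) + ((e.2.2 : ℝ) - e.1.2) / 2 + (((e.2.1 : ℝ) - e.1.1) + ((e.2.2 : ℝ) - e.1.2)) / 4 + 1 / 2) * δ⟩

theorem pvwl_Z_re (e : (ℤ × ℤ) × (ℤ × ℤ)) : (pvwlZ δ e).re = ((e.1.1 : ℝ) + ((e.2.1 : ℝ) - e.1.1) / 2 - ((e.2.2 : ℝ) - e.1.2) / 4 + 1 / 2) * δ := rfl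

theorem pvwl_Z_im (e : (ℤ × ℤ) × (ℤ × ℤ)) :
    (pvwlZ δ e).im = ((e.1.2 : ℝ) + ((e.2.2 : ℝ) - e.1.2) / 2 + (((e.2.1 : ℝ) - e.1.1) + ((e.2.2 : ℝ) - e.1.2)) / 4 + 1 / 2) * δ := rfl

theorem pvwl_apex_fst (e : (ℤ × ℤ) × (ℤ × ℤ)) : (pvtrApex e).1 = e.1.1 - (e.2.2 - e.1.2) := by
  simp only [pvtrApex, pvtrRot, Prod.fst_add, Prod.snd_sub]; ring

theorem pvwl_apex_snd (e : (ℤ × ℤ) × (ℤ × ℤ)) : (pvtrApex e).2 = e.1.2 + ((e.2.1 - e.1.1) + (e.2.2 - e.1.2)) := by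
  simp only [pvtrApex, pvtrRot, Prod.snd_add, Prod.fst_sub, Prod.snd_sub]

/-- the points of the segment from the base point to the outer centre -/
theorem pvwl_Zw_coord {e : (ℤ × ℤ) × (ℤ × ℤ)} {p : ℂ} (hp : p ∈ segment ℝ (pvwlZ δ e) (pvtCtr δ e.2)) :
    ∃ l : ℝ, 0 ≤ l ∧ l ≤ 1 ∧ p.re = ((e.1.1 : ℝ) + (1 + l) / 2 * ((e.2.1 : ℝ) - e.1.1) + (1 - l) / 4 * (-((e.2.2 : ℝ) - e.1.2)) + 1 / 2) * δ ∧
      p.im = ((e.1.2 : ℝ) + (1 + l) / 2 * ((e.2.2 : ℝ) - e.1.2) + (1 - l) / 4 * (((e.2.1 : ℝ) - e.1.1) + ((e.2.2 : ℝ) - e.1.2)) + 1 / 2) * δ := by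
  obtain ⟨l, l0, l1, h1, h2⟩ := pvwl_seg_coord hp
  refine ⟨l, l0, l1, ?_, ?_⟩
  · rw [h1, pvwl_ctr_re, pvwl_Z_re]; ring
  · rw [h2, pvwl_ctr_im, pvwl_Z_im]; ring

/-- the points of the segment from the base point to the inner centre -/
theorem pvwl_Zb_coord {e : (ℤ × ℤ) × (ℤ × ℤ)} {p : ℂ} (hp : p ∈ segment ℝ (pvwlZ δ e) (pvtCtr δ e.1)) :
    ∃ l : ℝ, 0 ≤ l ∧ l ≤ 1 ∧ p.re = ((e.1.1 : ℝ) + (1 - l) / 2 * ((e.2.1 : ℝ) - e.1.1) + (1 - l) / 4 * (-((e.2.2 : ℝ) - e.1.2)) + 1 / 2) * δ ∧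
      p.im = ((e.1.2 : ℝ) + (1 - l) / 2 * ((e.2.2 : ℝ) - e.1.2) + (1 - l) / 4 * (((e.2.1 : ℝ) - e.1.1) + ((e.2.2 : ℝ) - e.1.2)) + 1 / 2) * δ := by
  obtain ⟨l, l0, l1, h1, h2⟩ := pvwl_seg_coord hp
  refine ⟨l, l0, l1, ?_, ?_⟩
  · rw [h1, pvwl_ctr_re, pvwl_Z_re]; ring
  · rw [h2, pvwl_ctr_im, pvwl_Z_im]; ring

theorem pvwl_Zw_sq (hδ : 0 < δ) {e : (ℤ × ℤ) × (ℤ × ℤ)} (h : triAdj e.1 e.2) : segment ℝ (pvwlZ δ e) (pvtCtr δ e.2) ⊆ pvtSq δ e.2 := by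
  intro p hp
  obtain ⟨l, l0, l1, a1, a2⟩ := pvwl_Zw_coord hp
  rw [tsc_adj_iff] at h
  refine pvwl_mem_sq hδ.le a1 a2 ?_ ?_ ?_ ?_ <;>
    rcases h with ⟨k1, k2⟩ | ⟨k1, k2⟩ | ⟨k1, k2⟩ | ⟨k1, k2⟩ | ⟨k1, k2⟩ | ⟨k1, k2⟩ <;> simp only [k1, k2] <;> push_cast <;> linarith

theorem pvwl_Zb_sq (hδ : 0 < δ) {e : (ℤ × ℤ) × (ℤ × ℤ)} (h : triAdj e.1 e.2) :
    segment ℝ (pvwlZ δ e) (pvtCtr δ e.1) ⊆ pvtSq δ e.1 ∪ pvtSq δ e.2 ∪ pvtSq δ (pvtrApex e) := by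
  intro p hp
  obtain ⟨l, l0, l1, a1, a2⟩ := pvwl_Zb_coord hp
  rw [tsc_adj_iff] at h
  rcases le_total (1 / 3) l with hl | hl
  · left; left
    refine pvwl_mem_sq hδ.le a1 a2 ?_ ?_ ?_ ?_ <;>
      rcases h with ⟨k1, k2⟩ | ⟨k1, k2⟩ | ⟨k1, k2⟩ | ⟨k1, k2⟩ | ⟨k1, k2⟩ | ⟨k1, k2⟩ <;> simp only [k1, k2] <;> push_cast <;> linarith
  · rcases h with ⟨k1, k2⟩ | ⟨k1, k2⟩ | ⟨k1, k2⟩ | ⟨k1, k2⟩ | ⟨k1, k2⟩ | ⟨k1, k2⟩
    · left; left
      refine pvwl_mem_sq hδ.le a1 a2 ?_ ?_ ?_ ?_ <;> simp only [k1, k2] <;> push_cast <;> linarith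
    · left; right
      refine pvwl_mem_sq hδ.le a1 a2 ?_ ?_ ?_ ?_ <;> simp only [k1, k2] <;> push_cast <;> linarith
    · right
      refine pvwl_mem_sq hδ.le a1 a2 ?_ ?_ ?_ ?_ <;> simp only [pvwl_apex_fst, pvwl_apex_snd, k1, k2] <;> push_cast <;> linarith
    · left; left
      refine pvwl_mem_sq hδ.le a1 a2 ?_ ?_ ?_ ?_ <;> simp only [k1, k2] <;> push_cast <;> linarith
    · left; right
      refine pvwl_mem_sq hδ.le a1 a2 ?_ ?_ ?_ ?_ <;> simp only [k1, k2] <;> push_cast <;> linarith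
    · right
      refine pvwl_mem_sq hδ.le a1 a2 ?_ ?_ ?_ ?_ <;> simp only [pvwl_apex_fst, pvwl_apex_snd, k1, k2] <;> push_cast <;> linarith

theorem pvwl_dir {e : (ℤ × ℤ) × (ℤ × ℤ)} (h : triAdj e.1 e.2) :
    (e.2.1 - e.1.1 = 1 ∧ e.2.2 - e.1.2 = 0) ∨ (e.2.1 - e.1.1 = 0 ∧ e.2.2 - e.1.2 = 1) ∨ (e.2.1 - e.1.1 = -1 ∧ e.2.2 - e.1.2 = 1) ∨
      (e.2.1 - e.1.1 = -1 ∧ e.2.2 - e.1.2 = 0) ∨ (e.2.1 - e.1.1 = 0 ∧ e.2.2 - e.1.2 = -1) ∨ (e.2.1 - e.1.1 = 1 ∧ e.2.2 - e.1.2 = -1) := by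
  rw [tsc_adj_iff] at h
  omega

/-- **(L2)** the segment from the base point to the outer centre meets only the lattice edges which end at the outer cell -/
theorem pvwl_Zw_disj (hδ : 0 < δ) {e : (ℤ × ℤ) × (ℤ × ℤ)} (h : triAdj e.1 e.2) {u v : ℤ × ℤ} (huv : triAdj u v) (h1 : u ≠ e.2) (h2 : v ≠ e.2) :
    Disjoint (segment ℝ (pvtCtr δ u) (pvtCtr δ v)) (segment ℝ (pvwlZ δ e) (pvtCtr δ e.2)) := by
  rw [Set.disjoint_left]
  intro p hp hq
  obtain ⟨t, t0, t1, b1, b2⟩ := pvwl_edge_coord hp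
  obtain ⟨l, l0, l1, a1, a2⟩ := pvwl_Zw_coord hq
  rcases eq_or_lt_of_le l1 with hl | hl
  · subst hl
    have hpw : p = pvtCtr δ e.2 := by
      apply Complex.ext
      · rw [a1, pvwl_ctr_re]; ring
      · rw [a2, pvwl_ctr_im]; ring
    rw [hpw] at hp
    rcases pvwl_vert_edge hδ huv hp with k | k
    · exact h1 k.symm
    · exact h2 k.symm
  · refine pvwl_ar_open (b1 := e.1.1) (b2 := e.1.2) (d1 := e.2.1 - e.1.1) (d2 := e.2.2 - e.1.2) (pvwl_dir h) ((tsc_adj_iff u v).1 huv)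
      (l2 := (1 + l) / 2) (l3 := (1 - l) / 4) (t := t) (by linarith) (by linarith) (by linarith) ?_ ?_
    · have := mul_right_cancel₀ hδ.ne' (a1.symm.trans b1)
      push_cast
      linarith
    · have := mul_right_cancel₀ hδ.ne' (a2.symm.trans b2)
      push_cast
      linarith

/-- **(L2')** the segment from the base point to the inner centre meets only the lattice edges which end at the inner cell -/
theorem pvwl_Zb_disj (hδ : 0 < δ) {e : (ℤ × ℤ) × (ℤ × ℤ)} (h : triAdj e.1 e.2) {u v : ℤ × ℤ} (huv : triAdj u v) (h1 : u ≠ e.1) (h2 : v ≠ e.1) :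
    Disjoint (segment ℝ (pvtCtr δ u) (pvtCtr δ v)) (segment ℝ (pvwlZ δ e) (pvtCtr δ e.1)) := by
  rw [Set.disjoint_left]
  intro p hp hq
  obtain ⟨t, t0, t1, b1, b2⟩ := pvwl_edge_coord hp
  obtain ⟨l, l0, l1, a1, a2⟩ := pvwl_Zb_coord hq
  rcases eq_or_lt_of_le l1 with hl | hl
  · subst hl
    have hpw : p = pvtCtr δ e.1 := by
      apply Complex.ext
      · rw [a1, pvwl_ctr_re]; ring
      · rw [a2, pvwl_ctr_im]; ring
    rw [hpw] at hp
    rcases pvwl_vert_edge hδ huv hp with k | k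
    · exact h1 k.symm
    · exact h2 k.symm
  · refine pvwl_ar_open (b1 := e.1.1) (b2 := e.1.2) (d1 := e.2.1 - e.1.1) (d2 := e.2.2 - e.1.2) (pvwl_dir h) ((tsc_adj_iff u v).1 huv)
      (l2 := (1 - l) / 2) (l3 := (1 - l) / 4) (t := t) (by linarith) (by linarith) (by linarith) ?_ ?_
    · have := mul_right_cancel₀ hδ.ne' (a1.symm.trans b1)
      push_cast
      linarith
    · have := mul_right_cancel₀ hδ.ne' (a2.symm.trans b2)
      push_cast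
      linarith

end lat2

section lat3

variable {δ : ℝ}

/-- the determinant of a lattice edge and a base point is `δ² / 4` times an integer -/
theorem pvwl_det_Z (u v : ℤ × ℤ) (e : (ℤ × ℤ) × (ℤ × ℤ)) :
    vorDet (pvtCtr δ u) (pvtCtr δ v) (pvwlZ δ e) = δ ^ 2 / 4 *
      (((v.1 - u.1) * (4 * e.1.2 + 2 * (e.2.2 - e.1.2) + ((e.2.1 - e.1.1) + (e.2.2 - e.1.2)) - 4 * u.2) -
        (v.2 - u.2) * (4 * e.1.1 + 2 * (e.2.1 - e.1.1) - (e.2.2 - e.1.2) - 4 * u.1) : ℤ) : ℝ) := by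
  unfold vorDet
  rw [pvwl_ctr_re, pvwl_ctr_re, pvwl_ctr_im, pvwl_ctr_im, pvwl_Z_re, pvwl_Z_im]
  push_cast
  ring

theorem pvwl_det_ctr (u v w : ℤ × ℤ) :
    vorDet (pvtCtr δ u) (pvtCtr δ v) (pvtCtr δ w) = δ ^ 2 * (((v.1 - u.1) * (w.2 - u.2) - (v.2 - u.2) * (w.1 - u.1) : ℤ) : ℝ) := by
  unfold vorDet
  simp only [pvwl_ctr_re, pvwl_ctr_im]
  push_cast
  ring

theorem pvwl_tri_pos (hδ : 0 < δ) {e : (ℤ × ℤ) × (ℤ × ℤ)} (h : triAdj e.1 e.2) : 0 < vorDet (pvtCtr δ e.1) (pvtCtr δ e.2) (pvtCtr δ (pvtrApex e)) := by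
  rw [pvwl_det_ctr]
  refine mul_pos (by positivity) ?_
  have : 0 < (e.2.1 - e.1.1) * ((pvtrApex e).2 - e.1.2) - (e.2.2 - e.1.2) * ((pvtrApex e).1 - e.1.1) := by
    rw [pvwl_apex_fst, pvwl_apex_snd]
    rcases pvwl_dir h with ⟨k1, k2⟩ | ⟨k1, k2⟩ | ⟨k1, k2⟩ | ⟨k1, k2⟩ | ⟨k1, k2⟩ | ⟨k1, k2⟩ <;> rw [k1, k2] <;> omega
  exact_mod_cast this

theorem pvwl_sgn_pos (hδ : 0 < δ) {N : ℤ} : 0 < δ ^ 2 / 4 * (N : ℝ) ↔ 0 < N := by
  rw [mul_pos_iff_of_pos_left (by positivity)]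
  exact Int.cast_pos

theorem pvwl_sgn_nonneg (hδ : 0 < δ) {N : ℤ} : 0 ≤ δ ^ 2 / 4 * (N : ℝ) ↔ 0 ≤ N := by
  rw [mul_nonneg_iff_of_pos_left (by positivity)]
  exact Int.cast_nonneg_iff

/-- **(L3)** the base point lies in its own open triangle -/
theorem pvwl_T_Z_self (hδ : 0 < δ) {e : (ℤ × ℤ) × (ℤ × ℤ)} (h : triAdj e.1 e.2) : pvwlT (pvwlZ δ e) (pvtCtr δ e.1) (pvtCtr δ e.2) (pvtCtr δ (pvtrApex e)) = 1 := by
  refine (delw_tri (pvwl_tri_pos hδ h) _).1 ⟨?_, ?_, ?_⟩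
  · rw [pvwl_det_Z, pvwl_sgn_pos hδ]
    rcases pvwl_dir h with ⟨k1, k2⟩ | ⟨k1, k2⟩ | ⟨k1, k2⟩ | ⟨k1, k2⟩ | ⟨k1, k2⟩ | ⟨k1, k2⟩ <;> rw [k1, k2] <;> omega
  · rw [pvwl_det_Z, pvwl_sgn_pos hδ, pvwl_apex_fst, pvwl_apex_snd]
    obtain ⟨⟨b1, b2⟩, ⟨w1, w2⟩⟩ := e
    rcases (tsc_adj_iff _ _).1 h with ⟨k1, k2⟩ | ⟨k1, k2⟩ | ⟨k1, k2⟩ | ⟨k1, k2⟩ | ⟨k1, k2⟩ | ⟨k1, k2⟩ <;> dsimp only at k1 k2 ⊢ <;> subst k1 <;> subst k2 <;> ring_nf <;> omega
  · rw [pvwl_det_Z, pvwl_sgn_pos hδ, pvwl_apex_fst, pvwl_apex_snd]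
    obtain ⟨⟨b1, b2⟩, ⟨w1, w2⟩⟩ := e
    rcases (tsc_adj_iff _ _).1 h with ⟨k1, k2⟩ | ⟨k1, k2⟩ | ⟨k1, k2⟩ | ⟨k1, k2⟩ | ⟨k1, k2⟩ | ⟨k1, k2⟩ <;> dsimp only at k1 k2 ⊢ <;> subst k1 <;> subst k2 <;> ring_nf <;> omega

/-- **(L3')** the base point lies in no other closed lattice triangle -/
theorem pvwl_T_Z_ne (hδ : 0 < δ) {e e' : (ℤ × ℤ) × (ℤ × ℤ)} (h : triAdj e.1 e.2) (h' : triAdj e'.1 e'.2)
    (hne : pvwlT (pvwlZ δ e) (pvtCtr δ e'.1) (pvtCtr δ e'.2) (pvtCtr δ (pvtrApex e')) ≠ 0) :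
    e' = e ∨ e' = (e.2, pvtrApex e) ∨ e' = (pvtrApex e, e.1) := by
  obtain ⟨m1, m2, m3⟩ := ((delw_tri (pvwl_tri_pos hδ h') _).2 hne).1
  rw [pvwl_det_Z, pvwl_sgn_nonneg hδ] at m1 m2 m3
  rw [pvwl_apex_fst, pvwl_apex_snd] at m2 m3
  simp only [Prod.ext_iff, pvwl_apex_fst, pvwl_apex_snd]
  obtain ⟨⟨b1, b2⟩, ⟨w1, w2⟩⟩ := e
  obtain ⟨⟨x1, x2⟩, ⟨y1, y2⟩⟩ := e'
  dsimp only at m1 m2 m3 ⊢
  rcases (tsc_adj_iff _ _).1 h with ⟨k1, k2⟩ | ⟨k1, k2⟩ | ⟨k1, k2⟩ | ⟨k1, k2⟩ | ⟨k1, k2⟩ | ⟨k1, k2⟩ <;>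
  rcases (tsc_adj_iff _ _).1 h' with ⟨j1, j2⟩ | ⟨j1, j2⟩ | ⟨j1, j2⟩ | ⟨j1, j2⟩ | ⟨j1, j2⟩ | ⟨j1, j2⟩ <;>
  dsimp only at k1 k2 j1 j2 <;> subst k1 <;> subst k2 <;> subst j1 <;> subst j2 <;> ring_nf at m1 m2 m3 <;> omega

end lat3

/-! ## 7. mixed chains: every edge misses the squares of `O` or is a lattice edge inside `S` -/

section mix

variable {δ : ℝ}

/-- every edge of the chain is a lattice edge (possibly degenerate) between cells of `S` -/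
def PvwlLat (δ : ℝ) (S : Set (ℤ × ℤ)) (L : List (ℂ × ℂ)) : Prop :=
  ∀ e ∈ L, ∃ u v, u ∈ S ∧ v ∈ S ∧ (u = v ∨ triAdj u v) ∧ e = (pvtCtr δ u, pvtCtr δ v)

/-- every edge of the chain misses the squares of `O` or is a lattice edge inside `S` -/
def PvwlMix (δ : ℝ) (S O : Set (ℤ × ℤ)) (L : List (ℂ × ℂ)) : Prop :=
  ∀ e ∈ L, (e.1 = e.2 ∨ Disjoint (segment ℝ e.1 e.2) (pvtU δ O)) ∨ ∃ u v, u ∈ S ∧ v ∈ S ∧ (u = v ∨ triAdj u v) ∧ e = (pvtCtr δ u, pvtCtr δ v)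

theorem pvwl_eqns_cite3 : True := by
  have := @PvwlLat.eq_1; have := @PvwlMix.eq_1; have := @PvwlPos.eq_1; have := @pvwlZ.eq_1
  trivial

theorem PvwlLat.nil (S : Set (ℤ × ℤ)) : PvwlLat δ S [] := fun e he => by simp at he

theorem PvwlLat.single {S : Set (ℤ × ℤ)} {u v : ℤ × ℤ} (hu : u ∈ S) (hv : v ∈ S) (h : u = v ∨ triAdj u v) : PvwlLat δ S [(pvtCtr δ u, pvtCtr δ v)] := fun e he => by
  rw [List.mem_singleton] at he
  exact ⟨u, v, hu, hv, h, he⟩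

theorem PvwlLat.append {S : Set (ℤ × ℤ)} {L L' : List (ℂ × ℂ)} (h : PvwlLat δ S L) (h' : PvwlLat δ S L') : PvwlLat δ S (L ++ L') := fun e he => by
  rcases List.mem_append.1 he with h1 | h1
  · exact h e h1
  · exact h' e h1

theorem PvwlLat.rev {S : Set (ℤ × ℤ)} {L : List (ℂ × ℂ)} (h : PvwlLat δ S L) : PvwlLat δ S (pvwlRev L) := fun e he => by
  obtain ⟨x, hx, rfl⟩ := List.mem_map.1 he
  obtain ⟨u, v, hu, hv, huv, rfl⟩ := h x hx
  exact ⟨v, u, hv, hu, huv.imp Eq.symm (hx_tri_symm _ _), rfl⟩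

theorem PvwlLat.mono {S S' : Set (ℤ × ℤ)} {L : List (ℂ × ℂ)} (h : PvwlLat δ S L) (hS : S ⊆ S') : PvwlLat δ S' L := fun e he => by
  obtain ⟨u, v, hu, hv, huv, rfl⟩ := h e he
  exact ⟨u, v, hS hu, hS hv, huv, rfl⟩

theorem PvwlLat.mix {S : Set (ℤ × ℤ)} {L : List (ℂ × ℂ)} (h : PvwlLat δ S L) (O : Set (ℤ × ℤ)) : PvwlMix δ S O L := fun e he => Or.inr (h e he)

theorem PvwlOff.mix {O : Set (ℤ × ℤ)} {L : List (ℂ × ℂ)} (h : PvwlOff L (pvtU δ O)) (S : Set (ℤ × ℤ)) : PvwlMix δ S O L := fun e he => Or.inl (h e he)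

theorem PvwlMix.append {S O : Set (ℤ × ℤ)} {L L' : List (ℂ × ℂ)} (h : PvwlMix δ S O L) (h' : PvwlMix δ S O L') : PvwlMix δ S O (L ++ L') := fun e he => by
  rcases List.mem_append.1 he with h1 | h1
  · exact h e h1
  · exact h' e h1

/-- a mixed chain misses the lattice edges between cells of `O \ S` -/
theorem PvwlMix.off_edge (hδ : 0 < δ) {S O : Set (ℤ × ℤ)} {L : List (ℂ × ℂ)} (h : PvwlMix δ S O L) {a b : ℤ × ℤ} (hab : triAdj a b)
    (ha : a ∈ O) (hb : b ∈ O) (ha' : a ∉ S) (hb' : b ∉ S) : PvwlOff L (segment ℝ (pvtCtr δ a) (pvtCtr δ b)) := by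
  intro e he
  rcases h e he with (h1 | h1) | ⟨u, v, hu, hv, huv, rfl⟩
  · exact Or.inl h1
  · refine Or.inr (h1.mono_right ((pvwl_edge_sq hδ hab).trans ?_))
    rintro p (hp | hp)
    · exact Set.mem_biUnion ha hp
    · exact Set.mem_biUnion hb hp
  · rcases huv with rfl | huv
    · exact Or.inl rfl
    · exact Or.inr (pvwl_edge_disj hδ huv hab (fun k => ha' (k ▸ hu)) (fun k => hb' (k ▸ hu)) (fun k => ha' (k ▸ hv)) (fun k => hb' (k ▸ hv)))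

/-- a mixed chain misses the segment from a base point to its outer centre -/
theorem PvwlMix.off_Zw (hδ : 0 < δ) {S O : Set (ℤ × ℤ)} {L : List (ℂ × ℂ)} (h : PvwlMix δ S O L) {e : (ℤ × ℤ) × (ℤ × ℤ)} (he : triAdj e.1 e.2)
    (h2 : e.2 ∈ O) (h2' : e.2 ∉ S) : PvwlOff L (segment ℝ (pvwlZ δ e) (pvtCtr δ e.2)) := by
  intro x hx
  rcases h x hx with (h1 | h1) | ⟨u, v, hu, hv, huv, rfl⟩
  · exact Or.inl h1
  · exact Or.inr (h1.mono_right ((pvwl_Zw_sq hδ he).trans fun p hp => Set.mem_biUnion h2 hp))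
  · rcases huv with rfl | huv
    · exact Or.inl rfl
    · exact Or.inr (pvwl_Zw_disj hδ he huv (fun k => h2' (k ▸ hu)) (fun k => h2' (k ▸ hv)))

/-- a mixed chain misses the segment from a base point to its inner centre -/
theorem PvwlMix.off_Zb (hδ : 0 < δ) {S O : Set (ℤ × ℤ)} {L : List (ℂ × ℂ)} (h : PvwlMix δ S O L) {e : (ℤ × ℤ) × (ℤ × ℤ)} (he : triAdj e.1 e.2)
    (h1 : e.1 ∈ O) (h2 : e.2 ∈ O) (h3 : pvtrApex e ∈ O) (h1' : e.1 ∉ S) : PvwlOff L (segment ℝ (pvwlZ δ e) (pvtCtr δ e.1)) := by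
  intro x hx
  rcases h x hx with (k1 | k1) | ⟨u, v, hu, hv, huv, rfl⟩
  · exact Or.inl k1
  · refine Or.inr (k1.mono_right ((pvwl_Zb_sq hδ he).trans ?_))
    rintro p ((hp | hp) | hp)
    · exact Set.mem_biUnion h1 hp
    · exact Set.mem_biUnion h2 hp
    · exact Set.mem_biUnion h3 hp
  · rcases huv with rfl | huv
    · exact Or.inl rfl
    · exact Or.inr (pvwl_Zb_disj hδ he huv (fun k => h1' (k ▸ hu)) (fun k => h1' (k ▸ hv)))

/-- the winding number of a closed mixed chain is constant along the lattice paths inside `O \ S` -/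
theorem PvwlMix.const (hδ : 0 < δ) {S O : Set (ℤ × ℤ)} {L : List (ℂ × ℂ)} (h : PvwlMix δ S O L) {x : ℂ} (hcl : PvwlBd L x x) {R : Set (ℤ × ℤ)} (hRO : R ⊆ O) (hRS : Disjoint R S)
    {a b : ℤ × ℤ} (hab : TscR tscG R a b) : pvwlC L (pvtCtr δ a) = pvwlC L (pvtCtr δ b) := by
  refine tsc_R_const (fun u => pvwlC L (pvtCtr δ u)) (fun u v huv => ?_) hab
  exact pvwl_C_move hcl (h.off_edge hδ huv.1 (hRO huv.2.1) (hRO huv.2.2) (Set.disjoint_left.1 hRS huv.2.1) (Set.disjoint_left.1 hRS huv.2.2))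

/-- a lattice path as a chain -/
theorem pvwl_path_chain {S : Set (ℤ × ℤ)} {a b : ℤ × ℤ} (h : TscR tscG S a b) : ∃ L, PvwlBd L (pvtCtr δ a) (pvtCtr δ b) ∧ PvwlLat δ S L := by
  induction h with
  | refl => exact ⟨[], PvwlBd.nil _, PvwlLat.nil _⟩
  | tail _ hbc ih =>
    obtain ⟨L, h1, h2⟩ := ih
    exact ⟨L ++ [(pvtCtr δ _, pvtCtr δ _)], h1.append (PvwlBd.single _ _), h2.append (PvwlLat.single hbc.2.1 hbc.2.2 (Or.inr hbc.1))⟩

end mix

/-! ## 8. the ladder: inner contour, outer contour, rungs, triangles of the band -/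

section ladder

variable {δ : ℝ} {H : Set (ℤ × ℤ)}

/-- one step of the contour -/
theorem pvwl_ladder_step (δ : ℝ) (H : Set (ℤ × ℤ)) (e : (ℤ × ℤ) × (ℤ × ℤ)) (z : ℂ) :
    delChi z (pvtCtr δ e.1) (pvtCtr δ (pvtrStep H e).1) = delChi z (pvtCtr δ e.2) (pvtCtr δ (pvtrStep H e).2) + delChi z (pvtCtr δ e.1) (pvtCtr δ e.2)
      - delChi z (pvtCtr δ (pvtrStep H e).1) (pvtCtr δ (pvtrStep H e).2) - pvwlT z (pvtCtr δ e.1) (pvtCtr δ e.2) (pvtCtr δ (pvtrApex e)) := by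
  unfold pvwlT
  by_cases h : pvtrApex e ∈ H
  · rw [pvtr_step_in h]
    have e1 := delw_chi_anti z (pvtCtr δ e.2) (pvtCtr δ (pvtrApex e))
    have e2 := delw_chi_anti z (pvtCtr δ e.1) (pvtCtr δ (pvtrApex e))
    have e3 := pvwl_chi_self z (pvtCtr δ e.2)
    dsimp only
    linarith
  · rw [pvtr_step_out h]
    have e2 := delw_chi_anti z (pvtCtr δ e.1) (pvtCtr δ (pvtrApex e))
    have e3 := pvwl_chi_self z (pvtCtr δ e.1)
    dsimp only
    linarith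

/-- **THE LADDER**: inner contour = outer contour + first rung - last rung - the triangles of the band -/
theorem pvwl_ladder (δ : ℝ) (H : Set (ℤ × ℤ)) (e : (ℤ × ℤ) × (ℤ × ℤ)) (n : ℕ) (z : ℂ) :
    pvwlC (pvwlL (fun m => pvtCtr δ ((pvtrStep H)^[m] e).1) 0 n) z = pvwlC (pvwlL (fun m => pvtCtr δ ((pvtrStep H)^[m] e).2) 0 n) z + delChi z (pvtCtr δ e.1) (pvtCtr δ e.2)
      - delChi z (pvtCtr δ ((pvtrStep H)^[n] e).1) (pvtCtr δ ((pvtrStep H)^[n] e).2)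
      - ∑ m ∈ Finset.range n, pvwlT z (pvtCtr δ ((pvtrStep H)^[m] e).1) (pvtCtr δ ((pvtrStep H)^[m] e).2) (pvtCtr δ (pvtrApex ((pvtrStep H)^[m] e))) := by
  induction n with
  | zero => simp [pvwl_L_zero, pvwl_C_nil]
  | succ n ih =>
    rw [pvwl_L_succ, pvwl_L_succ, pvwl_C_append, pvwl_C_append, pvwl_C_single, pvwl_C_single, Finset.sum_range_succ, ih]
    have := pvwl_ladder_step δ H ((pvtrStep H)^[n] e) z
    simp only [Nat.zero_add, Function.iterate_succ_apply']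
    linarith

theorem pvwl_inner_lat {e : (ℤ × ℤ) × (ℤ × ℤ)} (he : e ∈ pvtrBd H) (n : ℕ) : PvwlLat δ H (pvwlL (fun m => pvtCtr δ ((pvtrStep H)^[m] e).1) 0 n) := by
  intro x hx
  obtain ⟨k, -, rfl⟩ := pvwl_L_mem hx
  refine ⟨((pvtrStep H)^[0 + k] e).1, ((pvtrStep H)^[0 + k + 1] e).1, (pvtr_iter_mem he _).1, (pvtr_iter_mem he _).1, ?_, rfl⟩
  rw [Function.iterate_succ_apply']
  exact (pvtr_step_fst_adj (pvtr_iter_mem he _)).imp Eq.symm id

theorem pvwl_outer_lat {e : (ℤ × ℤ) × (ℤ × ℤ)} (he : e ∈ pvtrBd H) (n : ℕ) : PvwlLat δ Hᶜ (pvwlL (fun m => pvtCtr δ ((pvtrStep H)^[m] e).2) 0 n) := by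
  intro x hx
  obtain ⟨k, -, rfl⟩ := pvwl_L_mem hx
  refine ⟨((pvtrStep H)^[0 + k] e).2, ((pvtrStep H)^[0 + k + 1] e).2, (pvtr_iter_mem he _).2.1, (pvtr_iter_mem he _).2.1, ?_, rfl⟩
  rw [Function.iterate_succ_apply']
  exact (pvtr_step_snd_adj (pvtr_iter_mem he _)).imp Eq.symm id

/-- the triangles of the band at the base point of a dart of the stretch -/
theorem pvwl_band_in (hδ : 0 < δ) {e : (ℤ × ℤ) × (ℤ × ℤ)} (he : e ∈ pvtrBd H) {n k : ℕ} (hk : k < n) (hinj : ∀ m < n, (pvtrStep H)^[m] e = (pvtrStep H)^[k] e → m = k) :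
    ∑ m ∈ Finset.range n, pvwlT (pvwlZ δ ((pvtrStep H)^[k] e)) (pvtCtr δ ((pvtrStep H)^[m] e).1) (pvtCtr δ ((pvtrStep H)^[m] e).2) (pvtCtr δ (pvtrApex ((pvtrStep H)^[m] e))) = 1 := by
  have hk' := pvtr_iter_mem he k
  rw [Finset.sum_eq_single k, pvwl_T_Z_self hδ hk'.2.2]
  · intro m hm hmk
    by_contra hne
    have hm' := pvtr_iter_mem he m
    rcases pvwl_T_Z_ne hδ hk'.2.2 hm'.2.2 hne with h | h | h
    · exact hmk (hinj m (Finset.mem_range.1 hm) h)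
    · exact hk'.2.1 (by have := hm'.1; rw [h] at this; exact this)
    · exact hm'.2.1 (by rw [h]; exact hk'.1)
  · intro h
    exact absurd (Finset.mem_range.2 hk) h

/-- the triangles of the band at the base point of a dart off the stretch -/
theorem pvwl_band_out (hδ : 0 < δ) {e e' : (ℤ × ℤ) × (ℤ × ℤ)} (he : e ∈ pvtrBd H) (he' : e' ∈ pvtrBd H) {n : ℕ} (hne : ∀ m < n, (pvtrStep H)^[m] e ≠ e') :
    ∑ m ∈ Finset.range n, pvwlT (pvwlZ δ e') (pvtCtr δ ((pvtrStep H)^[m] e).1) (pvtCtr δ ((pvtrStep H)^[m] e).2) (pvtCtr δ (pvtrApex ((pvtrStep H)^[m] e))) = 0 := by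
  refine Finset.sum_eq_zero fun m hm => ?_
  by_contra h0
  have hm' := pvtr_iter_mem he m
  rcases pvwl_T_Z_ne hδ he'.2.2 hm'.2.2 h0 with h | h | h
  · exact hne m (Finset.mem_range.1 hm) h
  · exact he'.2.1 (by have := hm'.1; rw [h] at this; exact this)
  · exact hm'.2.1 (by rw [h]; exact he'.1)

/-- **THE ORIENTATION LEMMA**.   `H` a set of cells, `e, …, E n` a stretch of its contour (counterclockwise), `E k` a dart of the stretch, `e'` a dart off the stretch.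
The closed chain `X + P'`:  `X` runs inside (off the squares of `Hᶜ`) from the cell `um` to the cell `up`;   `up` is joined to the inner cell of the LAST dart, `um` to the inner cell of the FIRST dart, inside `H \ G`;
`P'` misses the squares of `G'`;   the inner cells of `E k`, `e'` are joined inside `G`, their outer cells off `H`.
Then the winding number at the base point of `e'` is one more than at the base point of `E k`:  the stretch lies on the RIGHT of `X`. -/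
theorem pvwl_orient (hδ : 0 < δ) {G G' : Set (ℤ × ℤ)} {e e' : (ℤ × ℤ) × (ℤ × ℤ)} {n k : ℕ} (he : e ∈ pvtrBd H) (he' : e' ∈ pvtrBd H) (hk : k < n)
    (hinj : ∀ m < n, (pvtrStep H)^[m] e = (pvtrStep H)^[k] e → m = k) (hne : ∀ m < n, (pvtrStep H)^[m] e ≠ e')
    (hGH : G ⊆ H) (hGG : G ⊆ G') (h0 : e.1 ∉ G) (hn : ((pvtrStep H)^[n] e).1 ∉ G)
    (hk1 : ((pvtrStep H)^[k] e).1 ∈ G) (hk2 : ((pvtrStep H)^[k] e).2 ∈ G') (hk3 : pvtrApex ((pvtrStep H)^[k] e) ∈ G')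
    (h1' : e'.1 ∈ G) (h2' : e'.2 ∈ G') (h3' : pvtrApex e' ∈ G')
    (hin : TscR tscG G ((pvtrStep H)^[k] e).1 e'.1) (hout : TscR tscG Hᶜ ((pvtrStep H)^[k] e).2 e'.2)
    {X P' : List (ℂ × ℂ)} {um up : ℤ × ℤ} (hX : PvwlBd X (pvtCtr δ um) (pvtCtr δ up)) (hXo : PvwlOff X (pvtU δ Hᶜ))
    (hP : PvwlBd P' (pvtCtr δ up) (pvtCtr δ um)) (hPo : PvwlOff P' (pvtU δ G'))
    (hp : TscR tscG (H \ G) up ((pvtrStep H)^[n] e).1) (hm : TscR tscG (H \ G) e.1 um) :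
    pvwlC (X ++ P') (pvwlZ δ e') = pvwlC (X ++ P') (pvwlZ δ ((pvtrStep H)^[k] e)) + 1 := by
  obtain ⟨Ξp, bp, lp⟩ := pvwl_path_chain (δ := δ) hp
  obtain ⟨Ξm, bm, lm⟩ := pvwl_path_chain (δ := δ) hm
  set V := pvwlL (fun m => pvtCtr δ ((pvtrStep H)^[m] e).1) 0 n with hV
  set W := pvwlL (fun m => pvtCtr δ ((pvtrStep H)^[m] e).2) 0 n with hW
  have hEn := pvtr_iter_mem he n
  have hEk := pvtr_iter_mem he k
  have bV : PvwlBd V (pvtCtr δ e.1) (pvtCtr δ ((pvtrStep H)^[n] e).1) := by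
    have := pvwl_L_bd (fun m => pvtCtr δ ((pvtrStep H)^[m] e).1) 0 n
    simpa using this
  have bW : PvwlBd W (pvtCtr δ e.2) (pvtCtr δ ((pvtrStep H)^[n] e).2) := by
    have := pvwl_L_bd (fun m => pvtCtr δ ((pvtrStep H)^[m] e).2) 0 n
    simpa using this
  have lV : PvwlLat δ H V := pvwl_inner_lat he n
  have lW : PvwlLat δ Hᶜ W := pvwl_outer_lat he n
  have sHG : H \ G ⊆ H := Set.sdiff_subset
  have sHG' : H \ G ⊆ Gᶜ := fun x hx => hx.2
  have sHc : Hᶜ ⊆ Gᶜ := Set.compl_subset_compl.2 hGH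
  -- the two closed chains
  set A := X ++ Ξp ++ pvwlRev V ++ Ξm with hA
  set Q := [(pvtCtr δ e.1, pvtCtr δ e.2)] ++ W ++ [(pvtCtr δ ((pvtrStep H)^[n] e).2, pvtCtr δ ((pvtrStep H)^[n] e).1)] ++ pvwlRev Ξp ++ P' ++ pvwlRev Ξm with hQ
  have bA : PvwlBd A (pvtCtr δ um) (pvtCtr δ um) := ((hX.append bp).append bV.rev).append bm
  have bQ : PvwlBd Q (pvtCtr δ e.1) (pvtCtr δ e.1) :=
    (((((PvwlBd.single _ _).append bW).append (PvwlBd.single _ _)).append bp.rev).append hP).append bm.rev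
  have mA : PvwlMix δ H Hᶜ A := (((hXo.mix H).append ((lp.mono sHG).mix _)).append (lV.rev.mix _)).append ((lm.mono sHG).mix _)
  have mQ : PvwlMix δ Gᶜ G' Q :=
    ((((((PvwlLat.single (S := Gᶜ) h0 (fun h => he.2.1 (hGH h)) (Or.inr he.2.2)).mix _).append ((lW.mono sHc).mix _)).append
      ((PvwlLat.single (S := Gᶜ) (fun h => hEn.2.1 (hGH h)) hn (Or.inr (hx_tri_symm _ _ hEn.2.2))).mix _)).append ((lp.rev.mono sHG').mix _)).append (hPo.mix _)).append ((lm.rev.mono sHG').mix _)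
  -- the identity
  have key : ∀ z, pvwlC (X ++ P') z = pvwlC A z + pvwlC Q z -
      ∑ m ∈ Finset.range n, pvwlT z (pvtCtr δ ((pvtrStep H)^[m] e).1) (pvtCtr δ ((pvtrStep H)^[m] e).2) (pvtCtr δ (pvtrApex ((pvtrStep H)^[m] e))) := by
    intro z
    have l := pvwl_ladder δ H e n z
    rw [← hV, ← hW] at l
    have a := delw_chi_anti z (pvtCtr δ ((pvtrStep H)^[n] e).1) (pvtCtr δ ((pvtrStep H)^[n] e).2)
    simp only [hA, hQ, pvwl_C_append, pvwl_C_rev, pvwl_C_single]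
    linarith
  -- the chain `A` does not separate the two base points
  have cA : pvwlC A (pvwlZ δ ((pvtrStep H)^[k] e)) = pvwlC A (pvwlZ δ e') := by
    rw [pvwl_C_move bA (mA.off_Zw hδ hEk.2.2 hEk.2.1 hEk.2.1), pvwl_C_move bA (mA.off_Zw hδ he'.2.2 he'.2.1 he'.2.1)]
    exact mA.const hδ bA (R := Hᶜ) Set.Subset.rfl disjoint_compl_left hout
  -- neither does `Q`
  have cQ : pvwlC Q (pvwlZ δ ((pvtrStep H)^[k] e)) = pvwlC Q (pvwlZ δ e') := by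
    rw [pvwl_C_move bQ (mQ.off_Zb hδ hEk.2.2 (hGG hk1) hk2 hk3 (fun h => h hk1)), pvwl_C_move bQ (mQ.off_Zb hδ he'.2.2 (hGG h1') h2' h3' (fun h => h h1'))]
    exact mQ.const hδ bQ (R := G) hGG disjoint_compl_right hin
  rw [key, key, pvwl_band_in hδ he hk hinj, pvwl_band_out hδ he he' hne, cA, cQ]
  ring

/-- **MIRROR**: if `X` runs the other way (from the cell `up` next to the LAST dart to the cell `um` next to the FIRST dart) the stretch lies on the LEFT of `X` -/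
theorem pvwl_orient_left (hδ : 0 < δ) {G G' : Set (ℤ × ℤ)} {e e' : (ℤ × ℤ) × (ℤ × ℤ)} {n k : ℕ} (he : e ∈ pvtrBd H) (he' : e' ∈ pvtrBd H) (hk : k < n)
    (hinj : ∀ m < n, (pvtrStep H)^[m] e = (pvtrStep H)^[k] e → m = k) (hne : ∀ m < n, (pvtrStep H)^[m] e ≠ e')
    (hGH : G ⊆ H) (hGG : G ⊆ G') (h0 : e.1 ∉ G) (hn : ((pvtrStep H)^[n] e).1 ∉ G)
    (hk1 : ((pvtrStep H)^[k] e).1 ∈ G) (hk2 : ((pvtrStep H)^[k] e).2 ∈ G') (hk3 : pvtrApex ((pvtrStep H)^[k] e) ∈ G')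
    (h1' : e'.1 ∈ G) (h2' : e'.2 ∈ G') (h3' : pvtrApex e' ∈ G')
    (hin : TscR tscG G ((pvtrStep H)^[k] e).1 e'.1) (hout : TscR tscG Hᶜ ((pvtrStep H)^[k] e).2 e'.2)
    {X P' : List (ℂ × ℂ)} {um up : ℤ × ℤ} (hX : PvwlBd X (pvtCtr δ up) (pvtCtr δ um)) (hXo : PvwlOff X (pvtU δ Hᶜ))
    (hP : PvwlBd P' (pvtCtr δ um) (pvtCtr δ up)) (hPo : PvwlOff P' (pvtU δ G'))
    (hp : TscR tscG (H \ G) up ((pvtrStep H)^[n] e).1) (hm : TscR tscG (H \ G) e.1 um) :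
    pvwlC (X ++ P') (pvwlZ δ ((pvtrStep H)^[k] e)) = pvwlC (X ++ P') (pvwlZ δ e') + 1 := by
  have := pvwl_orient hδ he he' hk hinj hne hGH hGG h0 hn hk1 hk2 hk3 h1' h2' h3' hin hout hX.rev hXo.rev hP.rev hPo.rev hp hm
  simp only [pvwl_C_append, pvwl_C_rev] at this ⊢
  linarith

/-- **NO SECOND LANE**: two stretches of the contour which both satisfy the hypotheses of the orientation lemma for the same closed chain have a common dart:
the dart `E k` of the first stretch belongs to the second stretch or the dart `E' k'` of the second stretch belongs to the first -/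
theorem pvwl_one_lane (hδ : 0 < δ) {G G' : Set (ℤ × ℤ)} {e e' : (ℤ × ℤ) × (ℤ × ℤ)} {n k n' k' : ℕ} (he : e ∈ pvtrBd H) (he' : e' ∈ pvtrBd H) (hk : k < n) (hk' : k' < n')
    (hinj : ∀ m < n, (pvtrStep H)^[m] e = (pvtrStep H)^[k] e → m = k) (hinj' : ∀ m < n', (pvtrStep H)^[m] e' = (pvtrStep H)^[k'] e' → m = k')
    (hGH : G ⊆ H) (hGG : G ⊆ G') (h0 : e.1 ∉ G) (hn : ((pvtrStep H)^[n] e).1 ∉ G) (h0' : e'.1 ∉ G) (hn' : ((pvtrStep H)^[n'] e').1 ∉ G)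
    (hk1 : ((pvtrStep H)^[k] e).1 ∈ G) (hk2 : ((pvtrStep H)^[k] e).2 ∈ G') (hk3 : pvtrApex ((pvtrStep H)^[k] e) ∈ G')
    (h1' : ((pvtrStep H)^[k'] e').1 ∈ G) (h2' : ((pvtrStep H)^[k'] e').2 ∈ G') (h3' : pvtrApex ((pvtrStep H)^[k'] e') ∈ G')
    (hin : TscR tscG G ((pvtrStep H)^[k] e).1 ((pvtrStep H)^[k'] e').1) (hout : TscR tscG Hᶜ ((pvtrStep H)^[k] e).2 ((pvtrStep H)^[k'] e').2)
    {X P' : List (ℂ × ℂ)} {um up : ℤ × ℤ} (hX : PvwlBd X (pvtCtr δ um) (pvtCtr δ up)) (hXo : PvwlOff X (pvtU δ Hᶜ))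
    (hP : PvwlBd P' (pvtCtr δ up) (pvtCtr δ um)) (hPo : PvwlOff P' (pvtU δ G'))
    (hp : TscR tscG (H \ G) up ((pvtrStep H)^[n] e).1) (hm : TscR tscG (H \ G) e.1 um)
    (hp' : TscR tscG (H \ G) up ((pvtrStep H)^[n'] e').1) (hm' : TscR tscG (H \ G) e'.1 um) :
    (∃ m < n, (pvtrStep H)^[m] e = (pvtrStep H)^[k'] e') ∨ ∃ m < n', (pvtrStep H)^[m] e' = (pvtrStep H)^[k] e := by
  by_contra hcon
  rw [not_or] at hcon
  have a1 := pvwl_orient hδ he (pvtr_iter_mem he' k') hk hinj (fun m hm h => hcon.1 ⟨m, hm, h⟩) hGH hGG h0 hn hk1 hk2 hk3 h1' h2' h3' hin hout hX hXo hP hPo hp hm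
  have a2 := pvwl_orient hδ he' (pvtr_iter_mem he k) hk' hinj' (fun m hm h => hcon.2 ⟨m, hm, h⟩) hGH hGG h0' hn' h1' h2' h3' hk1 hk2 hk3 (tsc_R_symm hin) (tsc_R_symm hout) hX hXo hP hPo hp' hm'
  omega

end ladder


end Claimed.Agent.R289
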