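-- KEEP
import Claimed.Agent.R289.Tr.LinkGeoV
import Claimed.Agent.R289.Tr.LinkBig

/-!
# Row 289 (S0537, Cardy for Poisson-Voronoi), THE WALL, ROAD P, file Tr/LinkDjT : `dj2` = THE TWO THICK LINKS READ DISJOINT REGIONS      (helper15; prefix `pvli_d_`, `pvliD`, `PvliD`)

FOR THE WALKS OF 164 (`Tr/LinkGeoT.lean`: `pvlkt_e_exists`, `pvlkt_b_exists`, output `PvlktOut`) AT THE `u`-ENDS OF RECORD `pvliVE δ u σ c` (`Tr/LinkGeoV.lean`):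
* **`pvli_d_Ke`** : `K_e = pvnhKp (w.lk eu⁺ em) w.Et ⊆ (em.E \ em.O) ∪ pvtU δ (φ⁻¹ Me)`,   `Me = pvliDMe 𝔑 τ = N¹ AxE ∪ (C + [2,8] × [-3,2]) ∪ N⁷ cells 0..2`   (MENU cells)
* **`pvli_d_Kb`** : `K_b ⊆ (ep.E \ ep.O) ∪ pvtU δ (φ⁻¹ Mb)`,   `Mb = pvliDMb 𝔑 τ = N¹ (C₉ ∪ AxB) ∪ (C + [-9,-3] × [-3,2]) ∪ N⁷ cells 7..8`
* **`pvli_d_menu₁`** : `Disjoint (N¹ Me) (Mb ∪ N⁸ cells 5..8)`,   **`pvli_d_menu₂`** : `Disjoint (N¹ N⁸ cells 1..4) Mb`      (T2, ACC, the geometry of 114 / 89 / 277)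
* **`pvli_d_KbKe`** : `Disjoint K_b K_e` = hypothesis `h2` of `pvyd_dj2_of` (58, `Exit/DjP.lean`), from `PvliDBig em ep δ o τ` (`ep.O = em.O`, `Ep ∩ Em ⊆ O`, `Em \ O`, `Ep \ O` over the 8-tubes of the two halves)
* **`pvli_d_big`** : `PvliDBig` at the ends of record `pvfvEndM`, `pvfvEndP` of the model (`pvmh_G1`, `pvmhb_Em_off`, `pvmhb_Ep_off` of 8)
(hypothesis `h1` of `pvyd_dj2_of`, `O_t ∩ O_u = ∅`, is `Geo.dj` of either link.)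
-/

set_option autoImplicit false
set_option linter.unusedSectionVars false
set_option linter.unusedVariables false

namespace Claimed.Agent.R289

open Set Metric Claims.C0467 Claims.C0465 Claimed.Agent.R291

/-! ## 1. menu cells -/

section menu

variable {𝔑 : PvmnNum} {τ : PvmnType}

/-- (T2), any two collars -/
theorem pvli_d_T2 (hτ : PvmnIsType 𝔑 τ) {a b a' b' i j : ℕ} (h : b + 2 ≤ a') (hij : i + j ≤ 20) : Disjoint (pvtwN i (pvmnCells τ a b)) (pvtwN j (pvmnCells τ a' b')) := by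
  rw [Set.disjoint_left]
  rintro x ⟨c, ⟨k, k1, k2, hc⟩, c1, c2, c3, c4⟩ ⟨c', ⟨k', k1', k2', hc'⟩, d1, d2, d3, d4⟩
  have := pvlz_far_of_disj (hτ.far k k' (by omega)) hc hc'
  push_cast at this
  rcases this with h | h <;> rw [lt_abs] at h <;> omega

theorem pvli_d_cells_box (hτ : PvmnIsType 𝔑 τ) {a b i : ℕ} : pvtwN i (pvmnCells τ a b) ⊆ pvmnBox (𝔑.nBx + i) := fun _ h => pvmn_N_box (pvmn_cells_box hτ) h

/-- the collar of the complement of a box -/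
theorem pvli_d_off_box {E : Set (ℤ × ℤ)} {n i : ℕ} (hE : ∀ x ∈ E, x ∉ pvmnBox (n + i)) : ∀ x ∈ pvtwN i E, x ∉ pvmnBox n := by
  rintro x ⟨c, hc, c1, c2, c3, c4⟩ ⟨b1, b2, b3, b4⟩
  refine hE c hc ⟨?_, ?_, ?_, ?_⟩ <;> push_cast <;> omega

section geo

variable {q a x : ℤ × ℤ} {L : ℤ} {n : ℕ}

/-- **the large block of `u`**: off the box of the plug, near the entrance ray, in the box of `e` -/
theorem pvli_d_block (ha : PvfjDir a) (hq : q ∈ pvmnBox n) (hL : L = 2 * (n : ℤ) + 60)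
    (hx : x ∈ tscBox ((pvlzCu q a L).1 - 12) ((pvlzCu q a L).1 + 12) ((pvlzCu q a L).2 - 6) ((pvlzCu q a L).2 + 6)) : x ∉ pvmnBox (n + 30) ∧ x ∈ pvtwN 40 (pvlzRay q a) ∧ x ∈ pvmnBox (3 * n + 100) := by
  obtain ⟨h1, h2, h3, h4⟩ := hq
  obtain ⟨x1, x2, x3, x4⟩ := hx
  rcases ha with rfl | rfl | rfl | rfl
  · rw [pvlz_cu_E] at x1 x2 x3 x4
    simp only at x1 x2 x3 x4
    refine ⟨fun hb => ?_, pvlz_mem_N_ray (x.1 - q.1) (by omega) (by rw [abs_le]; constructor <;> push_cast <;> omega) (by rw [abs_le]; constructor <;> push_cast <;> omega), ?_⟩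
    · obtain ⟨b1, b2, b3, b4⟩ := hb
      push_cast at b1 b2 b3 b4; omega
    · unfold pvmnBox; push_cast; exact ⟨by omega, by omega, by omega, by omega⟩
  · rw [pvlz_cu_W] at x1 x2 x3 x4
    simp only at x1 x2 x3 x4
    refine ⟨fun hb => ?_, pvlz_mem_N_ray (q.1 - x.1) (by omega) (by rw [abs_le]; constructor <;> push_cast <;> omega) (by rw [abs_le]; constructor <;> push_cast <;> omega), ?_⟩
    · obtain ⟨b1, b2, b3, b4⟩ := hb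
      push_cast at b1 b2 b3 b4; omega
    · unfold pvmnBox; push_cast; exact ⟨by omega, by omega, by omega, by omega⟩
  · rw [pvlz_cu_N] at x1 x2 x3 x4
    simp only at x1 x2 x3 x4
    refine ⟨fun hb => ?_, pvlz_mem_N_ray (x.2 - q.2) (by omega) (by rw [abs_le]; constructor <;> push_cast <;> omega) (by rw [abs_le]; constructor <;> push_cast <;> omega), ?_⟩
    · obtain ⟨b1, b2, b3, b4⟩ := hb
      push_cast at b1 b2 b3 b4; omega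
    · unfold pvmnBox; push_cast; exact ⟨by omega, by omega, by omega, by omega⟩
  · rw [pvlz_cu_S] at x1 x2 x3 x4
    simp only at x1 x2 x3 x4
    refine ⟨fun hb => ?_, pvlz_mem_N_ray (q.2 - x.2) (by omega) (by rw [abs_le]; constructor <;> push_cast <;> omega) (by rw [abs_le]; constructor <;> push_cast <;> omega), ?_⟩
    · obtain ⟨b1, b2, b3, b4⟩ := hb
      push_cast at b1 b2 b3 b4; omega
    · unfold pvmnBox; push_cast; exact ⟨by omega, by omega, by omega, by omega⟩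

/-- the axis of `e` misses the large block of `u` West of the column `C.1 + 8` -/
theorem pvli_d_ax_strip (ha : PvfjDir a) (hL : 60 ≤ L) (hx : x ∈ pvlzAx q a L) :
    x ∉ tscBox ((pvlzCu q a L).1 - 12) ((pvlzCu q a L).1 + 7) ((pvlzCu q a L).2 - 6) ((pvlzCu q a L).2 + 6) := by
  rintro ⟨x1, x2, x3, x4⟩
  rcases ha with rfl | rfl | rfl | rfl
  · rw [pvlz_ax_E] at hx
    rw [pvlz_cu_E] at x1 x2 x3 x4
    simp only at x1 x2 x3 x4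
    rcases hx with (⟨k1, k2, k3, k4⟩ | ⟨k1, k2, k3, k4⟩) | ⟨k1, k2, k3, k4⟩ <;> omega
  · rw [pvlz_ax_W] at hx
    rw [pvlz_cu_W] at x1 x2 x3 x4
    simp only at x1 x2 x3 x4
    obtain ⟨k1, k2, k3, k4⟩ := hx
    omega
  · rw [pvlz_ax_N] at hx
    rw [pvlz_cu_N] at x1 x2 x3 x4
    simp only at x1 x2 x3 x4
    rcases hx with ⟨k1, k2, k3, k4⟩ | ⟨k1, k2, k3, k4⟩ <;> omega
  · rw [pvlz_ax_S] at hx
    rw [pvlz_cu_S] at x1 x2 x3 x4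
    simp only at x1 x2 x3 x4
    rcases hx with ⟨k1, k2, k3, k4⟩ | ⟨k1, k2, k3, k4⟩ <;> omega

end geo

/-- the menu cells East of `u` which the link `e` may read -/
noncomputable def pvliDUE (𝔑 : PvmnNum) (τ : PvmnType) : Set (ℤ × ℤ) := tscBox ((pvlzC 𝔑 τ).1 + 2) ((pvlzC 𝔑 τ).1 + 8) ((pvlzC 𝔑 τ).2 - 3) ((pvlzC 𝔑 τ).2 + 2)
/-- the menu cells West of `u` which the link `b` may read -/
noncomputable def pvliDUW (𝔑 : PvmnNum) (τ : PvmnType) : Set (ℤ × ℤ) := tscBox ((pvlzC 𝔑 τ).1 - 9) ((pvlzC 𝔑 τ).1 - 3) ((pvlzC 𝔑 τ).2 - 3) ((pvlzC 𝔑 τ).2 + 2)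

/-- **the menu cells of the tube of `e`** -/
noncomputable def pvliDMe (𝔑 : PvmnNum) (τ : PvmnType) : Set (ℤ × ℤ) := pvtwN 1 (pvlktAxE 𝔑 τ) ∪ pvliDUE 𝔑 τ ∪ pvtwN 7 (pvmnCells τ 0 2)
/-- **the menu cells of the tube of `b`** -/
noncomputable def pvliDMb (𝔑 : PvmnNum) (τ : PvmnType) : Set (ℤ × ℤ) := pvtwN 1 ((τ.C 9 : Set (ℤ × ℤ)) ∪ pvlktAxB 𝔑 τ) ∪ pvliDUW 𝔑 τ ∪ pvtwN 7 (pvmnCells τ 7 8)

theorem pvli_d_eqns_cite : True := by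
  have := @pvliDUE.eq_1; have := @pvliDUW.eq_1; have := @pvliDMe.eq_1; have := @pvliDMb.eq_1
  trivial

/-- a cell of the 1-collar of the axis of `b` : near `ρ⁺ ∪ C₉`, or off the box `3 n + 190`, or near the access ray -/
theorem pvli_d_Ab {x : ℤ × ℤ} (hx : x ∈ pvtwN 1 ((τ.C 9 : Set (ℤ × ℤ)) ∪ pvlktAxB 𝔑 τ)) :
    x ∈ pvtwN 1 (pvlzRay (τ.q 10) (pvlzAp 𝔑 τ) ∪ (τ.C 9 : Set (ℤ × ℤ))) ∨ x ∉ pvmnBox (3 * 𝔑.nBx + 190) ∨ x ∈ pvtwN 1 (pvlzRay (pvlzFr (τ.q 0) (pvlzAm 𝔑 τ) (pvlzL 𝔑)) (pvlzDw (pvlzAm 𝔑 τ))) := by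
  obtain ⟨c, hc, c1, c2, c3, c4⟩ := hx
  rcases hc with hc | (hc | hc) | hc
  · exact Or.inl ⟨c, Or.inr hc, c1, c2, c3, c4⟩
  · exact Or.inl ⟨c, Or.inl hc.1, c1, c2, c3, c4⟩
  · refine Or.inr (Or.inl fun hb => hc.1.2 ?_)
    obtain ⟨b1, b2, b3, b4⟩ := hb
    unfold pvlktM pvmnBox
    refine ⟨?_, ?_, ?_, ?_⟩ <;> push_cast at b1 b2 b3 b4 c1 c2 c3 c4 ⊢ <;> omega
  · exact Or.inr (Or.inr ⟨c, hc.1, c1, c2, c3, c4⟩)

theorem pvli_d_cells_mono {a b a' b' : ℕ} (h1 : a' ≤ a) (h2 : b ≤ b') : pvmnCells τ a b ⊆ pvmnCells τ a' b' := by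
  rintro c ⟨k, k1, k2, hc⟩
  exact ⟨k, by omega, by omega, hc⟩

theorem pvli_d_C9 : (τ.C 9 : Set (ℤ × ℤ)) ⊆ pvmnCells τ 9 9 := fun c hc => ⟨9, le_rfl, le_rfl, hc⟩

/-- **the plug side of `e`** is off the tube of `b` -/
theorem pvli_d_L1 (hτ : PvmnIsType 𝔑 τ) (hacc : PvlzHasAcc 𝔑 τ) : Disjoint (pvtwN 9 (pvmnCells τ 0 4)) (pvtwN 1 ((τ.C 9 : Set (ℤ × ℤ)) ∪ pvlktAxB 𝔑 τ) ∪ pvliDUW 𝔑 τ) := by
  have hA := pvlz_acc_spec hacc
  rw [Set.disjoint_left]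
  intro x hx hy
  have hb : x ∈ pvmnBox (𝔑.nBx + 9) := pvli_d_cells_box hτ hx
  rcases hy with hy | hy
  · rcases pvli_d_Ab hy with h | h | h
    · obtain ⟨c, hc, c1, c2, c3, c4⟩ := h
      rcases hc with hc | hc
      · refine Set.disjoint_left.1 hA.rp_cells hc ?_
        have : c ∈ pvtwN 1 (pvtwN 9 (pvmnCells τ 0 4)) := ⟨x, hx, by omega, by omega, by omega, by omega⟩
        rw [pvtw_N_add] at this
        exact pvtw_N_mono (by norm_num) (pvli_d_cells_mono le_rfl (by norm_num)) this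
      · exact Set.disjoint_left.1 (pvli_d_T2 hτ (a := 0) (b := 4) (a' := 9) (b' := 9) (i := 9) (j := 1) (by norm_num) (by norm_num)) hx ⟨c, pvli_d_C9 hc, c1, c2, c3, c4⟩
    · exact h (pvmn_box_mono (by omega) hb)
    · refine pvli_d_off_box (n := 𝔑.nBx + 9) (i := 1) (fun r hr hb' => ?_) x h hb
      exact Set.disjoint_left.1 (pvlz_wm_box hA.am_dir (pvlz_q0_box hτ) (le_of_eq rfl)) hr (pvmn_box_mono (by omega) hb')
  · obtain ⟨y1, y2, y3, y4⟩ := hy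
    refine (pvli_d_block (x := x) hA.am_dir (pvlz_q0_box hτ) (rfl : pvlzL 𝔑 = _) ?_).1 (pvmn_box_mono (by omega) hb)
    unfold pvlzC at y1 y2 y3 y4
    exact ⟨by omega, by omega, by omega, by omega⟩

/-- **the profile of the tube of `e` outside the plug** -/
theorem pvli_d_prof (hτ : PvmnIsType 𝔑 τ) (hacc : PvlzHasAcc 𝔑 τ) {x : ℤ × ℤ} (hx : x ∈ pvtwN 2 (pvlktAxE 𝔑 τ) ∪ pvtwN 1 (pvliDUE 𝔑 τ)) :
    x ∈ pvtwN 40 (pvlzRay (τ.q 0) (pvlzAm 𝔑 τ)) ∧ x ∈ pvmnBox (3 * 𝔑.nBx + 100) ∧ x ∉ pvtwN 1 (pvlzRay (pvlzFr (τ.q 0) (pvlzAm 𝔑 τ) (pvlzL 𝔑)) (pvlzDw (pvlzAm 𝔑 τ))) ∧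
      x ∉ pvliDUW 𝔑 τ ∧ x ∉ pvtwN 8 (pvmnCells τ 1 9) := by
  have hA := pvlz_acc_spec hacc
  have ha := hA.am_dir
  have hq := pvlz_q0_box hτ
  have hL8 := pvlz_L8 𝔑
  rcases hx with hx | hx
  · have hx' := hx
    obtain ⟨c, hc, c1, c2, c3, c4⟩ := hx
    push_cast at c1 c2 c3 c4
    refine ⟨?_, ?_, ?_, ?_, ?_⟩
    · have : x ∈ pvtwN 2 (pvtwN 24 (pvlzRay (τ.q 0) (pvlzAm 𝔑 τ))) := pvtw_N_mono le_rfl (pvlz_ax_ray ha hL8) hx'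
      rw [pvtw_N_add] at this
      exact pvtw_N_mono (by norm_num) le_rfl this
    · exact pvlz_ax_box ha hq rfl (pvtw_N_mono (by norm_num) le_rfl hx')
    · rintro ⟨r, hr, r1, r2, r3, r4⟩
      push_cast at r1 r2 r3 r4
      exact Set.disjoint_left.1 (pvlz_wm_ax ha) hr ⟨c, hc, by push_cast; omega, by push_cast; omega, by push_cast; omega, by push_cast; omega⟩
    · rintro ⟨y1, y2, y3, y4⟩
      refine pvli_d_ax_strip ha (by unfold pvlzL; omega) hc ?_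
      unfold pvlzC at y1 y2 y3 y4
      exact ⟨by omega, by omega, by omega, by omega⟩
    · intro h8
      have h10 : c ∈ pvtwN 2 (pvtwN 8 (pvmnCells τ 1 9)) := ⟨x, h8, by push_cast; omega, by push_cast; omega, by push_cast; omega, by push_cast; omega⟩
      rw [pvtw_N_add] at h10
      rcases pvby_ax_or ha hq rfl hc with h' | h'
      · exact Set.disjoint_left.1 hA.rm_cells h' (pvtw_N_mono (by norm_num) le_rfl h10)
      · exact h' (pvmn_box_mono (by omega) (pvli_d_cells_box hτ h10))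
  · obtain ⟨c, ⟨k1, k2, k3, k4⟩, c1, c2, c3, c4⟩ := hx
    push_cast at c1 c2 c3 c4
    obtain ⟨b1, b2, b3⟩ := pvli_d_block (x := x) ha hq (rfl : pvlzL 𝔑 = _) (by
      unfold pvlzC at k1 k2 k3 k4
      exact ⟨by omega, by omega, by omega, by omega⟩)
    refine ⟨b2, b3, ?_, ?_, ?_⟩
    · rintro ⟨r, hr, r1, r2, r3, r4⟩
      push_cast at r1 r2 r3 r4
      have := pvby_wm_west ha hr
      unfold pvlzC at k1
      omega
    · rintro ⟨y1, y2, y3, y4⟩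
      omega
    · intro h8
      exact b1 (pvmn_box_mono (by omega) (pvli_d_cells_box hτ h8))

/-- the tube of `e` outside the plug is off the tube of `b` -/
theorem pvli_d_L2 (hτ : PvmnIsType 𝔑 τ) (hacc : PvlzHasAcc 𝔑 τ) :
    Disjoint (pvtwN 2 (pvlktAxE 𝔑 τ) ∪ pvtwN 1 (pvliDUE 𝔑 τ)) (pvtwN 1 ((τ.C 9 : Set (ℤ × ℤ)) ∪ pvlktAxB 𝔑 τ) ∪ pvliDUW 𝔑 τ ∪ pvtwN 8 (pvmnCells τ 5 8)) := by
  rw [Set.disjoint_left]
  intro x hx hy
  obtain ⟨p1, p2, p3, p4, p5⟩ := pvli_d_prof hτ hacc hx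
  rcases hy with (hy | hy) | hy
  · rcases pvli_d_Ab hy with h | h | h
    · exact pvby_sep' (pvlz_acc_spec hacc) (by norm_num) h p1
    · exact h (pvmn_box_mono (by omega) p2)
    · exact p3 h
  · exact p4 hy
  · exact p5 (pvtw_N_mono le_rfl (pvli_d_cells_mono (by norm_num) (by norm_num)) hy)

/-- **MENU FACT 1**: the 1-collar of the tube of `e` is off the tube of `b` and off the exit half of the plug -/
theorem pvli_d_menu₁ (hτ : PvmnIsType 𝔑 τ) (hacc : PvlzHasAcc 𝔑 τ) : Disjoint (pvtwN 1 (pvliDMe 𝔑 τ)) (pvliDMb 𝔑 τ ∪ pvtwN 8 (pvmnCells τ 5 8)) := by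
  have e : pvtwN 1 (pvliDMe 𝔑 τ) = pvtwN 2 (pvlktAxE 𝔑 τ) ∪ pvtwN 1 (pvliDUE 𝔑 τ) ∪ pvtwN 8 (pvmnCells τ 0 2) := by
    unfold pvliDMe
    rw [pvtw_N_union, pvtw_N_union, pvtw_N_add, pvtw_N_add]
  have s : pvliDMb 𝔑 τ ∪ pvtwN 8 (pvmnCells τ 5 8) ⊆ pvtwN 1 ((τ.C 9 : Set (ℤ × ℤ)) ∪ pvlktAxB 𝔑 τ) ∪ pvliDUW 𝔑 τ ∪ pvtwN 8 (pvmnCells τ 5 8) := by
    rintro x ((h | h) | h)
    · exact Or.inl h
    · exact Or.inr (pvtw_N_mono (by norm_num) (pvli_d_cells_mono (by norm_num) le_rfl) h)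
    · exact Or.inr h
  rw [e]
  refine Disjoint.mono_right s ?_
  rw [Set.disjoint_union_left]
  refine ⟨pvli_d_L2 hτ hacc, ?_⟩
  rw [Set.disjoint_union_right]
  exact ⟨(pvli_d_L1 hτ hacc).mono_left (pvtw_N_mono (by norm_num) (pvli_d_cells_mono le_rfl (by norm_num))), pvli_d_T2 hτ (by norm_num) (by norm_num)⟩

/-- **MENU FACT 2**: the 1-collar of the entrance half of the plug is off the tube of `b` -/
theorem pvli_d_menu₂ (hτ : PvmnIsType 𝔑 τ) (hacc : PvlzHasAcc 𝔑 τ) : Disjoint (pvtwN 1 (pvtwN 8 (pvmnCells τ 1 4))) (pvliDMb 𝔑 τ) := by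
  rw [pvtw_N_add]
  unfold pvliDMb
  rw [Set.disjoint_union_right]
  exact ⟨(pvli_d_L1 hτ hacc).mono_left (pvtw_N_mono (by norm_num) (pvli_d_cells_mono (by norm_num) le_rfl)), pvli_d_T2 hτ (by norm_num) (by norm_num)⟩

end menu

/-! ## 2. fine cells -/

section fine

variable {𝔑 : PvmnNum} {τ : PvmnType} {ln : ((ℤ × ℤ) × (ℤ × ℤ)) × ℕ} {o : ℤ × ℤ} {S : Set (ℤ × ℤ)}

theorem pvli_d_tri {b w : ℤ × ℤ} (h : triAdj b w) : w.1 ≤ b.1 + 1 ∧ b.1 ≤ w.1 + 1 ∧ w.2 ≤ b.2 + 1 ∧ b.2 ≤ w.2 + 1 := by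
  rcases h with h | h | h | h | h | h <;>
    (have h1 := congrArg Prod.fst h
     have h2 := congrArg Prod.snd h
     simp only [Prod.fst_sub, Prod.snd_sub] at h1 h2
     omega)

theorem pvli_d_pre_N {k : ℕ} (hk : k ≤ 40) {E X : Set (ℤ × ℤ)} (hX : pvtwN 1 E ⊆ X) : pvtwN k ((pvlktPhi o).pre E) ⊆ (pvlktPhi o).pre X :=
  (pvwg_N_pre1 (by norm_num) o (by exact_mod_cast hk) E).trans fun _ h => hX h

theorem pvli_d_pre_mono {M : PvgwMap} {E X : Set (ℤ × ℤ)} (hX : E ⊆ X) : M.pre E ⊆ M.pre X := fun _ h => hX h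

/-- a collar of a box East of `u` -/
theorem pvli_d_bx_E {a b c d : ℤ} (k : ℕ) (h1 : 80 ≤ a - k) (h2 : b + k ≤ 359) (h3 : -120 ≤ c - k) (h4 : d + k ≤ 119) : pvtwN k (pvlktBx (pvlktU0 𝔑 τ o) a b c d) ⊆ (pvlktPhi o).pre (pvliDUE 𝔑 τ) := by
  rintro v ⟨w, ⟨w1, w2, w3, w4⟩, v1, v2, v3, v4⟩
  simp only [pvlktU0, pvlktOu] at w1 w2 w3 w4
  show ((v.1 - o.1) / 40, (v.2 - o.2) / 40) ∈ pvliDUE 𝔑 τ
  refine ⟨?_, ?_, ?_, ?_⟩ <;> simp only <;> omega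

/-- a collar of a box West of `u` -/
theorem pvli_d_bx_W {a b c d : ℤ} (k : ℕ) (h1 : -360 ≤ a - k) (h2 : b + k ≤ -81) (h3 : -120 ≤ c - k) (h4 : d + k ≤ 119) : pvtwN k (pvlktBx (pvlktU0 𝔑 τ o) a b c d) ⊆ (pvlktPhi o).pre (pvliDUW 𝔑 τ) := by
  rintro v ⟨w, ⟨w1, w2, w3, w4⟩, v1, v2, v3, v4⟩
  simp only [pvlktU0, pvlktOu] at w1 w2 w3 w4
  show ((v.1 - o.1) / 40, (v.2 - o.2) / 40) ∈ pvliDUW 𝔑 τ
  refine ⟨?_, ?_, ?_, ?_⟩ <;> simp only <;> omega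

theorem pvli_d_Ck {k : Fin 10} {a b : ℕ} (h1 : a ≤ k.1) (h2 : k.1 ≤ b) : (τ.C k : Set (ℤ × ℤ)) ⊆ pvmnCells τ a b := fun c hc => ⟨k, h1, h2, hc⟩

theorem pvli_d_UE_Me : pvliDUE 𝔑 τ ⊆ pvliDMe 𝔑 τ := fun _ h => Or.inl (Or.inr h)
theorem pvli_d_UW_Mb : pvliDUW 𝔑 τ ⊆ pvliDMb 𝔑 τ := fun _ h => Or.inl (Or.inr h)
theorem pvli_d_Ax_Me : pvtwN 1 (pvlktAxE 𝔑 τ) ⊆ pvliDMe 𝔑 τ := fun _ h => Or.inl (Or.inl h)
theorem pvli_d_Ab_Mb : pvtwN 1 ((τ.C 9 : Set (ℤ × ℤ)) ∪ pvlktAxB 𝔑 τ) ⊆ pvliDMb 𝔑 τ := fun _ h => Or.inl (Or.inl h)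
theorem pvli_d_P_Me {i a b : ℕ} (hi : i ≤ 7) (hb : b ≤ 2) : pvtwN i (pvmnCells τ a b) ⊆ pvliDMe 𝔑 τ := fun _ h => Or.inr (pvtw_N_mono hi (pvli_d_cells_mono (Nat.zero_le _) hb) h)
theorem pvli_d_P_Mb {i a b : ℕ} (hi : i ≤ 7) (ha : 7 ≤ a) (hb : b ≤ 8) : pvtwN i (pvmnCells τ a b) ⊆ pvliDMb 𝔑 τ := fun _ h => Or.inr (pvtw_N_mono hi (pvli_d_cells_mono ha hb) h)

/-- the window of the corridor of `e`, in menu cells -/
theorem pvli_d_Ece : pvlktEce 𝔑 τ o ⊆ (pvlktPhi o).pre (pvliDMe 𝔑 τ) := by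
  unfold pvlktEce pvlktFaE
  simp only [pvtw_N_union, pvtw_N_add]
  rintro v ((((h | h) | h) | h) | h)
  · refine pvli_d_pre_N (by norm_num) ?_ h
    rw [pvtw_N_union]
    exact union_subset ((pvtw_N_mono le_rfl (pvli_d_Ck (k := 0) (a := 0) (b := 2) (by norm_num) (by norm_num))).trans (pvli_d_P_Me (by norm_num) le_rfl)) pvli_d_Ax_Me
  · exact pvli_d_pre_mono pvli_d_UE_Me (pvli_d_bx_E 6 (by norm_num) (by norm_num) (by norm_num) (by norm_num) h)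
  · exact pvli_d_pre_mono pvli_d_UE_Me (pvli_d_bx_E 6 (by norm_num) (by norm_num) (by norm_num) (by norm_num) h)
  · refine pvli_d_pre_N (by norm_num) ?_ h
    rw [pvtw_N_add]
    exact pvli_d_P_Me (by norm_num) le_rfl
  · exact pvli_d_pre_mono pvli_d_UE_Me (pvli_d_bx_E 0 (by norm_num) (by norm_num) (by norm_num) (by norm_num) (pvtw_N_sub h))

/-- the black walk of `e` with its collar, in menu cells -/
theorem pvli_d_XBe : pvtwN 2 (pvlktXBe 𝔑 τ o) ⊆ (pvlktPhi o).pre (pvliDMe 𝔑 τ) := by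
  unfold pvlktXBe
  simp only [pvtw_N_union, pvtw_N_add]
  rintro v ((h | h) | h)
  · refine pvli_d_pre_N (by norm_num) ?_ h
    rw [pvtw_N_union, pvtw_N_union]
    exact union_subset (union_subset ((pvtw_N_mono le_rfl (pvli_d_Ck (k := 0) (a := 0) (b := 2) (by norm_num) (by norm_num))).trans (pvli_d_P_Me (by norm_num) le_rfl))
      ((pvtw_N_mono le_rfl (pvli_d_Ck (k := 1) (a := 0) (b := 2) (by norm_num) (by norm_num))).trans (pvli_d_P_Me (by norm_num) le_rfl))) pvli_d_Ax_Me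
  · refine pvli_d_pre_N (by norm_num) ?_ h
    rw [pvtw_N_add]
    exact (pvtw_N_mono le_rfl (pvli_d_Ck (k := 2) (a := 0) (b := 2) (by norm_num) (by norm_num))).trans (pvli_d_P_Me (by norm_num) le_rfl)
  · exact pvli_d_pre_mono pvli_d_UE_Me (pvli_d_bx_E 2 (by norm_num) (by norm_num) (by norm_num) (by norm_num) h)

/-- the white walk of `e` with its collar, in menu cells -/
theorem pvli_d_XWe (hτ : PvmnIsType 𝔑 τ) (hl : PvmnLaneR τ ln.1 ln.2) (hS : PvlktSe 𝔑 τ ln o S) : pvtwN 2 (pvlktXWe 𝔑 τ ln o S) ⊆ (pvlktPhi o).pre (pvliDMe 𝔑 τ) := by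
  unfold pvlktXWe
  simp only [pvtw_N_union]
  rintro v ((h | h) | h)
  · refine pvli_d_Ece ?_
    have hS1 : S ⊆ pvtwN 1 (pvlktFaE 𝔑 τ o ∪ (pvlktPhi o).pre (pvtwN 4 (pvmnCells τ 1 2))) := by
      intro w hw
      obtain ⟨b, hb, hb'⟩ := hS.adj w hw
      obtain ⟨q1, q2, q3, q4⟩ := pvli_d_tri hb
      exact ⟨b, hb', by push_cast; omega, by push_cast; omega, by push_cast; omega, by push_cast; omega⟩
    have h3 := pvtw_N_mono (le_refl 2) hS1 h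
    rw [pvtw_N_add] at h3
    refine Or.inl (pvtw_N_mono (by norm_num) ?_ h3)
    rintro w (hw | hw)
    · exact Or.inl (Or.inl hw)
    · exact Or.inr hw
  · refine pvli_d_pre_N (by norm_num) ?_ h
    rw [pvtw_N_add]
    exact (pvwg_N_single (pvwg_A0 hτ hl).2.1).trans ((pvtw_N_mono le_rfl (pvli_d_Ck (k := 1) (a := 0) (b := 2) (by norm_num) (by norm_num))).trans (pvli_d_P_Me (by norm_num) le_rfl))
  · exact pvli_d_pre_mono pvli_d_UE_Me (pvli_d_bx_E 2 (by norm_num) (by norm_num) (by norm_num) (by norm_num) h)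

/-- the window of the corridor of `b`, in menu cells -/
theorem pvli_d_Ecb : pvlktEcb 𝔑 τ o ⊆ (pvlktPhi o).pre (pvliDMb 𝔑 τ) := by
  unfold pvlktEcb pvlktFaB
  simp only [pvtw_N_union, pvtw_N_add]
  rintro v ((((h | h) | h) | h) | h)
  · exact pvli_d_pre_N (by norm_num) pvli_d_Ab_Mb h
  · exact pvli_d_pre_mono pvli_d_UW_Mb (pvli_d_bx_W 6 (by norm_num) (by norm_num) (by norm_num) (by norm_num) h)
  · exact pvli_d_pre_mono pvli_d_UW_Mb (pvli_d_bx_W 6 (by norm_num) (by norm_num) (by norm_num) (by norm_num) h)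
  · refine pvli_d_pre_N (by norm_num) ?_ h
    rw [pvtw_N_add]
    exact pvli_d_P_Mb (by norm_num) le_rfl le_rfl
  · exact pvli_d_pre_mono pvli_d_UW_Mb (pvli_d_bx_W 0 (by norm_num) (by norm_num) (by norm_num) (by norm_num) (pvtw_N_sub h))

/-- the black walk of `b` with its collar, in menu cells -/
theorem pvli_d_XBb : pvtwN 2 (pvlktXBb 𝔑 τ o) ⊆ (pvlktPhi o).pre (pvliDMb 𝔑 τ) := by
  unfold pvlktXBb
  simp only [pvtw_N_union, pvtw_N_add]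
  rintro v ((h | h) | h)
  · refine pvli_d_pre_N (by norm_num) ?_ h
    rw [union_assoc, pvtw_N_union]
    exact union_subset ((pvtw_N_mono le_rfl (pvli_d_Ck (k := 8) (a := 7) (b := 8) (by norm_num) (by norm_num))).trans (pvli_d_P_Mb (by norm_num) le_rfl le_rfl)) pvli_d_Ab_Mb
  · refine pvli_d_pre_N (by norm_num) ?_ h
    rw [pvtw_N_add]
    exact (pvtw_N_mono le_rfl (pvli_d_Ck (k := 7) (a := 7) (b := 8) (by norm_num) (by norm_num))).trans (pvli_d_P_Mb (by norm_num) le_rfl le_rfl)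
  · exact pvli_d_pre_mono pvli_d_UW_Mb (pvli_d_bx_W 2 (by norm_num) (by norm_num) (by norm_num) (by norm_num) h)

/-- the white walk of `b` with its collar, in menu cells -/
theorem pvli_d_XWb (hτ : PvmnIsType 𝔑 τ) (hl : PvmnLaneR τ ln.1 ln.2) (hS : PvlktSb 𝔑 τ ln o S) : pvtwN 2 (pvlktXWb 𝔑 τ ln o S) ⊆ (pvlktPhi o).pre (pvliDMb 𝔑 τ) := by
  unfold pvlktXWb
  simp only [pvtw_N_union]
  rintro v ((h | h) | h)
  · refine pvli_d_Ecb ?_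
    have hS1 : S ⊆ pvtwN 1 ((pvlktPhi o).pre (pvtwN 4 (pvmnCells τ 7 8)) ∪ pvlktFaB 𝔑 τ o) := by
      intro w hw
      obtain ⟨b, hb, hb'⟩ := hS.adj w hw
      obtain ⟨q1, q2, q3, q4⟩ := pvli_d_tri hb
      exact ⟨b, hb', by push_cast; omega, by push_cast; omega, by push_cast; omega, by push_cast; omega⟩
    have h3 := pvtw_N_mono (le_refl 2) hS1 h
    rw [pvtw_N_add] at h3
    refine Or.inl (pvtw_N_mono (by norm_num) ?_ h3)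
    rintro w (hw | hw)
    · exact Or.inr hw
    · exact Or.inl (Or.inl hw)
  · refine pvli_d_pre_N (by norm_num) ?_ h
    rw [pvtw_N_add]
    exact (pvwg_N_single (pvwg_A1 hτ hl).2.1).trans ((pvtw_N_mono le_rfl (pvli_d_Ck (k := 8) (a := 7) (b := 8) (by norm_num) (by norm_num))).trans (pvli_d_P_Mb (by norm_num) le_rfl le_rfl))
  · exact pvli_d_pre_mono pvli_d_UW_Mb (pvli_d_bx_W 2 (by norm_num) (by norm_num) (by norm_num) (by norm_num) h)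

end fine

/-! ## 3. the plane -/

/-- **what the two ends of the big plug owe** -/
structure PvliDBig (em ep : PvnkEnd) (δ : ℝ) (o : ℤ × ℤ) (τ : PvmnType) : Prop where
  O_eq : ep.O = em.O
  G1 : ep.E ∩ em.E ⊆ em.O
  Em_off : em.E \ em.O ⊆ pvtU δ ((pvlktPhi o).pre (pvtwN 8 (pvmnCells τ 1 4)))
  Ep_off : ep.E \ ep.O ⊆ pvtU δ ((pvlktPhi o).pre (pvtwN 8 (pvmnCells τ 5 8)))

section plane

variable {𝔑 : PvmnNum} {τ : PvmnType} {ln : ((ℤ × ℤ) × (ℤ × ℤ)) × ℕ} {o : ℤ × ℤ} {S S' : Set (ℤ × ℤ)} {δ ρ ρ' : ℝ} {nu nu' : ℕ} {em ep : PvnkEnd} {c c' : Bool} {Bk Wh Bk' Wh' : Set (ℤ × ℤ)} {w w' : PvydWalk}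

/-- refinements of menu sets which are not neighbours have disjoint unions -/
theorem pvli_d_U_disj (hδ : 0 < δ) {A B : Set (ℤ × ℤ)} (h : Disjoint (pvtwN 1 A) B) : Disjoint (pvtU δ ((pvlktPhi o).pre A)) (pvtU δ ((pvlktPhi o).pre B)) := by
  refine pvwg_U_disj hδ (Disjoint.mono_left (pvli_d_pre_N (k := 1) (by norm_num) Subset.rfl) ?_)
  rw [Set.disjoint_left]
  intro v h1 h2
  exact Set.disjoint_left.1 h h1 h2

/-- **THE REGION OF `e`** -/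
theorem pvli_d_Ke (hδ : 0 < δ) (hτ : PvmnIsType 𝔑 τ) (hl : PvmnLaneR τ ln.1 ln.2) (hS : PvlktSe 𝔑 τ ln o S)
    (Q : PvlktOut (pvliVE δ (pvlktU0 𝔑 τ o) true c) em δ ρ nu (pvtwN 1 (pvlktXBe 𝔑 τ o)) (pvtwN 1 (pvlktXWe 𝔑 τ ln o S)) Bk Wh (pvtU δ (pvlktEce 𝔑 τ o) \ ((pvliVE δ (pvlktU0 𝔑 τ o) true c).O ∪ em.O)) w) :
    pvnhKp (w.lk (pvliVE δ (pvlktU0 𝔑 τ o) true c) em) w.Et ⊆ em.E \ em.O ∪ pvtU δ ((pvlktPhi o).pre (pvliDMe 𝔑 τ)) := by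
  intro p hp
  have hO : p ∉ (pvliVE δ (pvlktU0 𝔑 τ o) true c).O ∪ em.O := hp.2
  rcases Q.Kp_sub hδ hp with (((h | h) | h) | h) | h
  · rcases pvli_v_E_sub hδ _ true c h with h' | h'
    · exact absurd (Or.inl h') hO
    · refine Or.inr (pvt_U_mono ?_ h')
      exact fun v hv => pvli_d_pre_mono pvli_d_UE_Me (pvli_d_bx_E 0 (by norm_num) (by norm_num) (by norm_num) (by norm_num) (pvtw_N_sub hv))
  · exact Or.inl ⟨h, fun h' => hO (Or.inr h')⟩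
  · rw [pvtw_N_add] at h
    exact Or.inr (pvt_U_mono pvli_d_XBe h)
  · rw [pvtw_N_add] at h
    exact Or.inr (pvt_U_mono (pvli_d_XWe hτ hl hS) h)
  · exact Or.inr (pvt_U_mono pvli_d_Ece h.1)

/-- **THE REGION OF `b`** -/
theorem pvli_d_Kb (hδ : 0 < δ) (hτ : PvmnIsType 𝔑 τ) (hl : PvmnLaneR τ ln.1 ln.2) (hS : PvlktSb 𝔑 τ ln o S)
    (Q : PvlktOut ep (pvliVE δ (pvlktU0 𝔑 τ o) false c) δ ρ nu (pvtwN 1 (pvlktXBb 𝔑 τ o)) (pvtwN 1 (pvlktXWb 𝔑 τ ln o S)) Bk Wh (pvtU δ (pvlktEcb 𝔑 τ o) \ (ep.O ∪ (pvliVE δ (pvlktU0 𝔑 τ o) false c).O)) w) :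
    pvnhKp (w.lk ep (pvliVE δ (pvlktU0 𝔑 τ o) false c)) w.Et ⊆ ep.E \ ep.O ∪ pvtU δ ((pvlktPhi o).pre (pvliDMb 𝔑 τ)) := by
  intro p hp
  have hO : p ∉ ep.O ∪ (pvliVE δ (pvlktU0 𝔑 τ o) false c).O := hp.2
  rcases Q.Kp_sub hδ hp with (((h | h) | h) | h) | h
  · exact Or.inl ⟨h, fun h' => hO (Or.inl h')⟩
  · rcases pvli_v_E_sub hδ _ false c h with h' | h'
    · exact absurd (Or.inr h') hO
    · refine Or.inr (pvt_U_mono ?_ h')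
      exact fun v hv => pvli_d_pre_mono pvli_d_UW_Mb (pvli_d_bx_W 0 (by norm_num) (by norm_num) (by norm_num) (by norm_num) (pvtw_N_sub hv))
  · rw [pvtw_N_add] at h
    exact Or.inr (pvt_U_mono pvli_d_XBb h)
  · rw [pvtw_N_add] at h
    exact Or.inr (pvt_U_mono (pvli_d_XWb hτ hl hS) h)
  · exact Or.inr (pvt_U_mono pvli_d_Ecb h.1)

/-- **`dj2`, THE PLANAR FACT `K_b ∩ K_e = ∅`** -/
theorem pvli_d_KbKe (hδ : 0 < δ) (hτ : PvmnIsType 𝔑 τ) (hacc : PvlzHasAcc 𝔑 τ) (hl : PvmnLaneR τ ln.1 ln.2) (D : PvliDBig em ep δ o τ) (hS : PvlktSe 𝔑 τ ln o S) (hS' : PvlktSb 𝔑 τ ln o S')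
    (Q : PvlktOut (pvliVE δ (pvlktU0 𝔑 τ o) true c) em δ ρ nu (pvtwN 1 (pvlktXBe 𝔑 τ o)) (pvtwN 1 (pvlktXWe 𝔑 τ ln o S)) Bk Wh (pvtU δ (pvlktEce 𝔑 τ o) \ ((pvliVE δ (pvlktU0 𝔑 τ o) true c).O ∪ em.O)) w)
    (Q' : PvlktOut ep (pvliVE δ (pvlktU0 𝔑 τ o) false c') δ ρ' nu' (pvtwN 1 (pvlktXBb 𝔑 τ o)) (pvtwN 1 (pvlktXWb 𝔑 τ ln o S')) Bk' Wh' (pvtU δ (pvlktEcb 𝔑 τ o) \ (ep.O ∪ (pvliVE δ (pvlktU0 𝔑 τ o) false c').O)) w') :
    Disjoint (pvnhKp (w'.lk ep (pvliVE δ (pvlktU0 𝔑 τ o) false c')) w'.Et) (pvnhKp (w.lk (pvliVE δ (pvlktU0 𝔑 τ o) true c) em) w.Et) := by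
  have m1 := pvli_d_menu₁ hτ hacc
  rw [Set.disjoint_union_right] at m1
  rw [Set.disjoint_left]
  intro p hb he
  rcases pvli_d_Kb hδ hτ hl hS' Q' hb with hb | hb <;> rcases pvli_d_Ke hδ hτ hl hS Q he with he | he
  · exact he.2 (D.G1 ⟨hb.1, he.1⟩)
  · exact Set.disjoint_left.1 (pvli_d_U_disj hδ m1.2) he (D.Ep_off hb)
  · exact Set.disjoint_left.1 (pvli_d_U_disj hδ (pvli_d_menu₂ hτ hacc)) (D.Em_off he) hb
  · exact Set.disjoint_left.1 (pvli_d_U_disj hδ m1.1) he hb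

end plane

/-! ## 4. at the model -/

section model

variable {𝔤 : PvmhNum} (H : 𝔤.OK) {h δ : ℝ} (o : ℤ × ℤ) (s : PvmhT 𝔤)

include H in
/-- **the two ends of the big plug of record** -/
theorem pvli_d_big (hh : 0 < h) (hδ : 0 < δ) (hD : 𝔤.dl * h = 40 * δ) :
    PvliDBig (pvfvEndM 𝔤.sp (𝔤.ty h (pvmgPt δ o) s) (pvmgPt δ o) h) (pvfvEndP 𝔤.sp (𝔤.ty h (pvmgPt δ o) s) (pvmgPt δ o) h) δ o s.typ where
  O_eq := rfl
  G1 := pvmh_G1 H _ s hh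
  Em_off := by
    have := pvmhb_Em_off H (pvmgPt δ o) s hh
    rw [hD] at this
    unfold pvlktPhi
    rw [pvwg_U_pre hδ]
    exact_mod_cast this
  Ep_off := by
    have := pvmhb_Ep_off H (pvmgPt δ o) s hh
    rw [hD] at this
    unfold pvlktPhi
    rw [pvwg_U_pre hδ]
    exact_mod_cast this

end model

end Claimed.Agent.R289
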