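import Claimed.Agent.R289.Tr.LinkRec
import Claimed.Agent.R289.Tr.InvE

/-!
# Row 289 (S0537, Cardy for Poisson-Voronoi), THE WALL, file Tr/LinkEnd : **END** = FROM THE SOFT END LINK AT `ζ = pvkyFl b η` TO THE PLAIN LINK AT `η`, BLACK, ON THE STATES OF THE DATUM      (owner helper70; node CHAIN; prefix `pvlc_`; continues `Tr/LinkRec`)

The `Y` side of (N1) is written in the black vocabulary: the datum `𝔇` lives on the plane map of `η`, its strands are black;   the ends of the chain are evaluated at `ζ = pvkyFl b η`, colour `b`, and they are SOFT (`pvilFin Z (pvilSA ..)`, `pvilLoc ..`).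
* sec.17  SWAP: a link of record with the pin state replaced by ANY record which carries the same half state (`pvlc_le_congr`, `pvlc_out_swap`, `pvlc_in_swap`, **`pvlc_arc_swap_p`**, **`pvlc_arc_swap_p'`**)
* sec.18  FLIP: `pvlc_mor_fl` (the colour `b` of `pvkyFl b η` is BLACK in `η`), `pvlc_lk_zero`, **`pvlc_flip_A`**, **`pvlc_flip_X`**      (on `Tr/InvE` of 246)
* sec.19  SOFT ⟹ PLAIN a.e.: `pvlc_soft`, `pvlc_ae_fl`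
* sec.20  **`pvlc_end_o`**, **`pvlc_end_i`** AT THE NAMES OF RECORD
-/

set_option autoImplicit false

namespace Claimed.Agent.R289

open MeasureTheory Set
open scoped ComplexConjugate

/-! ## 17. swap -/

section swap

/-- the loop erasure reads the walk up to its length -/
theorem pvlc_le_congr {V D : Type} {T : PvMap V D} {b b' : ℕ → V} {n : ℕ} (h : ∀ i, i ≤ n → b i = b' i) {y : T.Pth} (hy : PvwLE T b n y) : PvwLE T b' n y := by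
  obtain ⟨j, h0, hn, h1, h2⟩ := hy
  refine ⟨j, by rw [h0, h 0 (Nat.zero_le _)], hn, fun k hk => ?_, fun k hk => ?_⟩
  · obtain ⟨a1, a2, a3⟩ := h1 k hk
    refine ⟨a1, by rw [a2, h _ a1], fun i hi hin => ?_⟩
    rw [← h i hin, ← h _ a1]
    exact a3 i hi hin
  · have hlt := pvt_sd_idx_lt (b := b) hn h1 hk
    rw [h2 k hk, h _ hlt]

variable {η : Conf PvPt} {b : Bool} {N : PvwNum} {L : PvilLk} {𝔖 𝔖' 𝔗 : PvwSt (pvieT η)} {y : (pvieT η).Pth}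

/-- the exit half state on another record -/
theorem pvlc_out_swap {p : PvilPl} (h : PvilOut N b p η 𝔖) (G : PvuqG 𝔖 𝔗) (P : PvuqP 𝔖 𝔗) (hst : 𝔗.AtOut (p.pos η) N p.h p.zf p.ty (pvieCol η b)) : PvilOut N b p η 𝔗 where
  good := h.good
  st := hst
  tip := by rw [← P.last]; exact h.tip
  mask y hy := by
    refine h.mask y ?_
    rw [P.np]
    exact pvlc_le_congr (fun i hi => by rw [P.ep i (P.np ▸ hi)]) hy
  mask_i i h1 h2 h3 := by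
    rw [← G.inn_v i (G.inn_n ▸ h2)] at h3 ⊢
    exact h.mask_i i (G.ip ▸ h1) (G.inn_n ▸ h2) h3
  lev0 := h.lev0

/-- the entrance half state on another record -/
theorem pvlc_in_swap {p : PvilPl} (h : PvilIn N b p η 𝔖) (G : PvuqG 𝔖 𝔗) (P : PvuqM 𝔖 𝔗) (hst : 𝔗.AtIn (p.pos η) N p.h p.zf p.ty (pvieCol η b)) : PvilIn N b p η 𝔗 where
  good := h.good
  st := hst
  tip := by rw [← P.last]; exact h.tip
  mask y hy := by
    refine h.mask y ?_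
    rw [P.nm]
    exact pvlc_le_congr (fun i hi => by rw [P.em i (P.nm ▸ hi)]) hy
  mask_i i h1 h3 := by
    have hi : i ≤ 𝔖.inn.n := (G.ip ▸ h1 : i ≤ 𝔖.ip).trans h.st.gate.ip_le
    rw [← G.inn_v i hi] at h3 ⊢
    exact h.mask_i i (G.ip ▸ h1) h3
  lev0 := h.lev0

/-- **SWAP AT THE EXIT END** (a pin): any record which carries the exit half state of the pin -/
theorem pvlc_arc_swap_p (o1 : L.dr = false) (hf : L.p.fr ≠ 0) (A : L.Arc N b η 𝔖 𝔖' y) (hst : 𝔗.AtOut (L.p.pos η) N L.p.h L.p.zf L.p.ty (pvieCol η b)) : L.Arc N b η 𝔗 𝔖' y := by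
  have hp : PvilOut N b L.p η 𝔖 := (PvilLk.atP_pin o1 N b η 𝔖).1 A.at_p
  obtain ⟨G, P⟩ := pvuq_atOut (pvlc_T_sph hp.good) (pvlc_T_simple η) (pviq_fr_inj hf η) hp.st hst
  obtain ⟨n, ⟨r1, r2, r3, r4⟩, hl⟩ := A.run
  refine ⟨(PvilLk.atP_pin o1 N b η 𝔗).2 (pvlc_out_swap hp G P hst), A.at_p', n, ⟨?_, ?_, ?_, ?_⟩, ?_⟩
  · rw [← P.np]; exact r1
  · rw [← G.dp]; exact r2
  · rw [← G.dp]; exact r3
  · rw [← G.dp, ← P.np]; exact r4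
  · rw [← G.dp]; exact hl

/-- **SWAP AT THE ENTRANCE END** (a pin) -/
theorem pvlc_arc_swap_p' (i2 : L.dr' = false) (hf : L.p'.fr ≠ 0) (A : L.Arc N b η 𝔖 𝔖' y) (hst : 𝔗.AtIn (L.p'.pos η) N L.p'.h L.p'.zf L.p'.ty (pvieCol η b)) : L.Arc N b η 𝔖 𝔗 y := by
  have hp : PvilIn N b L.p' η 𝔖' := (PvilLk.atP'_pin i2 N b η 𝔖').1 A.at_p'
  obtain ⟨G, P⟩ := pvuq_atIn (pvlc_T_sph hp.good) (pvlc_T_simple η) (pviq_fr_inj hf η) hp.st hst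
  obtain ⟨n, ⟨r1, r2, r3, r4⟩, hl⟩ := A.run
  refine ⟨A.at_p, (PvilLk.atP'_pin i2 N b η 𝔗).2 (pvlc_in_swap hp G P hst), n, ⟨?_, ?_, ?_, ?_⟩, hl⟩
  · rw [← P.nm]; exact r1
  · rw [← G.dm]; exact r2
  · rw [← G.dm]; exact r3
  · rw [← P.nm]; exact r4

end swap

/-! ## 18. flip -/

section flip

variable {η : Conf PvPt} {N : PvwNum} {L : PvilLk}

/-- **the colour `b` of `pvkyFl b η` is BLACK in `η`** -/
theorem pvlc_mor_fl (b : Bool) (h : PviqOne η) : PviqMor (pvkyFl b η) η b true 1 0 := by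
  have M0 := pviq_mor_fl' b h
  refine ⟨M0.na, M0.Y, fun p hp => ?_⟩
  have := M0.col p hp
  revert this
  generalize cfCol η (vorSim 1 0 p) = x
  generalize cfCol (pvkyFl b η) p = y
  cases x <;> cases y <;> cases b <;> simp

/-- the identity move -/
theorem pvlc_lk_zero (L : PvilLk) : pviqLk L 0 1 = L := by
  have e : pvthSim 0 1 = id := funext pviq_sim_id
  unfold pviqLk
  rw [pviq_mv_zero, pviq_mv_zero, e, image_id, image_id]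

/-- **FLIP, EVENT** -/
theorem pvlc_flip_A (b : Bool) (h : PviqOne η) (L : PvilLk) (N : PvwNum) : η ∈ L.A N true ↔ pvkyFl b η ∈ L.A N b := by
  have := pviq_A_iff (L := L) (N := N) (pvlc_mor_fl b h) (by norm_num)
  rwa [pvlc_lk_zero] at this

/-- **FLIP, VALUE** (`Q`) -/
theorem pvlc_flip_X (b : Bool) (h : PviqOne η) (H : PviqLkOk L) (N : PvwNum) : L.X N true pvilQ η = L.X N b pvilQ (pvkyFl b η) := by
  have := pviq_lkX (N := N) (pvlc_mor_fl b h) (by norm_num) H (w := pvilQ) (pviq_wQ (pvlc_mor_fl b h))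
  rwa [pvlc_lk_zero, one_mul] at this

end flip

/-! ## 19. soft ⟹ plain, almost everywhere -/

/-- **on the soft success of an end of record, a.s.: the plain event holds and the soft value is the plain value** -/
theorem pvlc_soft {ε : ℝ} {Wn : Set ℂ} (hW : MeasurableSet Wn) {M : Set (Conf PvPt)} {F : Conf PvPt → ℂ} (nE : NullMeasurableSet (M ∩ {η | F η = pvilLoc ε Wn M F η}) (pvP ε)) (Z : Set (ℤ × ℤ)) :
    ∀ᵐ ζ ∂pvP ε, ζ ∈ pvilFin Z (pvilSA ε Wn M F) → ζ ∈ M ∧ pvilLoc ε Wn M F ζ = F ζ := by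
  filter_upwards [pvsu_sure_sub (pv_isPpp ε) (hW.prod MeasurableSet.univ) nE] with ζ h1 h2
  unfold pvilFin at h2
  split_ifs at h2 with c
  · have := h1 h2
    exact ⟨this.1, this.2.symm⟩
  · exact absurd h2 (notMem_empty _)

/-- an a.s. property holds a.s. at the flipped configuration -/
theorem pvlc_ae_fl (b : Bool) {ε : ℝ} {P : Conf PvPt → Prop} (h : ∀ᵐ ζ ∂pvP ε, P ζ) : ∀ᵐ η ∂pvP ε, P (pvkyFl b η) := by
  refine ae_of_ae_map (measurable_pvkyFl b).aemeasurable ?_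
  rw [pvky_fl_map]
  exact h

/-! ## 20. the two ends at the names of record -/

section model

variable {τ : Type} {c : ℝ} (𝔓 : PvxPar τ c) (𝔈 : PvieEng τ)

/-- a pin of record is read in the standard frame -/
theorem pvlc_pin_pos (m : ℕ) (z : ℂ) (t : τ) (η : Conf PvPt) : (pvilPin 𝔓 m z t).pos η = pviePos η := by
  funext v
  show conj (1 : ℂ) * pviePos η v = pviePos η v
  rw [map_one, one_mul]

theorem pvlc_pin_zf (m : ℕ) (z : ℂ) (t : τ) : (pvilPin 𝔓 m z t).zf = z := by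
  show conj (1 : ℂ) * z = z
  rw [map_one, one_mul]

/-- **END (o), DETERMINISTIC**: plain success of the first link at `ζ = pvkyFl b η` ⟹ the black first link at `η` on ANY record which carries the exit half state of the pin;   the plain value at `ζ` is its value -/
theorem pvlc_end_o_det {m : ℕ} {z : ℂ} {t : τ} (hd : (𝔓.Γ m).dout t ≠ 0) (h1 : 0 < pvlmDel c m) (b : Bool) {η : Conf PvPt} (h : PviqOne η) (hA : pvkyFl b η ∈ (pvilLo 𝔓 𝔈 m z t).A 𝔓.num b)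
    {𝔗 : PvwSt (pvieT η)} (hst : 𝔗.AtOut (pviePos η) 𝔓.num (pvlmH m) z (𝔓.ty t) (pvieCol η true)) :
    ∃ (𝔖' : PvwSt (pvieT η)) (y : (pvieT η).Pth), (pvilLo 𝔓 𝔈 m z t).Arc 𝔓.num true η 𝔗 𝔖' y ∧
      (pvilLo 𝔓 𝔈 m z t).X 𝔓.num b pvilQ (pvkyFl b η) = (pvilLo 𝔓 𝔈 m z t).val 𝔓.num η (pvilQ η) 𝔗 𝔖' y := by
  have H := pviq_Lo_ok 𝔓 𝔈 z hd h1
  obtain ⟨𝔖, 𝔖', y, A⟩ := (pvlc_flip_A b h (pvilLo 𝔓 𝔈 m z t) 𝔓.num).2 hA
  have A' : (pvilLo 𝔓 𝔈 m z t).Arc 𝔓.num true η 𝔗 𝔖' y := by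
    refine pvlc_arc_swap_p rfl H.fr A ?_
    show 𝔗.AtOut ((pvilPin 𝔓 m z t).pos η) 𝔓.num (pvlmH m) (pvilPin 𝔓 m z t).zf (𝔓.ty t) (pvieCol η true)
    rw [pvlc_pin_pos, pvlc_pin_zf]
    exact hst
  exact ⟨𝔖', y, A', by rw [← pvlc_flip_X b h H, pviq_X_eq H pvilQ A']⟩

/-- **END (i), DETERMINISTIC** -/
theorem pvlc_end_i_det {m : ℕ} {z : ℂ} {t : τ} (hd : (𝔓.Γ m).din t ≠ 0) (h1 : 0 < pvlmDel c m) (b : Bool) {η : Conf PvPt} (h : PviqOne η) (hA : pvkyFl b η ∈ (pvilLi 𝔓 𝔈 m z t).A 𝔓.num b)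
    {𝔗 : PvwSt (pvieT η)} (hst : 𝔗.AtIn (pviePos η) 𝔓.num (pvlmH m) z (𝔓.ty t) (pvieCol η true)) :
    ∃ (𝔖 : PvwSt (pvieT η)) (y : (pvieT η).Pth), (pvilLi 𝔓 𝔈 m z t).Arc 𝔓.num true η 𝔖 𝔗 y ∧
      (pvilLi 𝔓 𝔈 m z t).X 𝔓.num b pvilQ (pvkyFl b η) = (pvilLi 𝔓 𝔈 m z t).val 𝔓.num η (pvilQ η) 𝔖 𝔗 y := by
  have H := pviq_Li_ok 𝔓 𝔈 z hd h1
  obtain ⟨𝔖, 𝔖', y, A⟩ := (pvlc_flip_A b h (pvilLi 𝔓 𝔈 m z t) 𝔓.num).2 hA
  have A' : (pvilLi 𝔓 𝔈 m z t).Arc 𝔓.num true η 𝔖 𝔗 y := by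
    refine pvlc_arc_swap_p' rfl H.fr' A ?_
    show 𝔗.AtIn ((pvilPin 𝔓 m z t).pos η) 𝔓.num (pvlmH m) (pvilPin 𝔓 m z t).zf (𝔓.ty t) (pvieCol η true)
    rw [pvlc_pin_pos, pvlc_pin_zf]
    exact hst
  exact ⟨𝔖, y, A', by rw [← pvlc_flip_X b h H, pviq_X_eq H pvilQ A']⟩

/-- **END (o)**: a.s., on the SOFT success of the first link at `ζ = pvkyFl (col t) η` (any base data `(Z, F)`): the plain event of record holds at `ζ`, and on ANY record `𝔗` which carries the exit half state of the pin for the black colouring of `η`: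
the black first link at `η`, and the soft value is its value.      [MEAS] = `hW`, `nE` -/
theorem pvlc_end_o {m : ℕ} {ε : ℝ} {z : ℂ} {t : τ} (Z : Set (ℤ × ℤ)) (F : Set ℂ) (hd : (𝔓.Γ m).dout t ≠ 0) (h1 : 0 < pvlmDel c m) (hW : MeasurableSet (pvilWno 𝔓 𝔈 m ε z t Z))
    (nE : NullMeasurableSet (pvilMo 𝔓 𝔈 m ε z t Z ∩ {η | (pvilLo 𝔓 𝔈 m z t).X 𝔓.num (𝔓.col t) pvilQ η =
      pvilLoc ε (pvilWno 𝔓 𝔈 m ε z t Z) (pvilMo 𝔓 𝔈 m ε z t Z) ((pvilLo 𝔓 𝔈 m z t).X 𝔓.num (𝔓.col t) pvilQ) η}) (pvP ε)) :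
    ∀ᵐ η ∂pvP ε, pvkyFl (𝔓.col t) η ∈ (pvilEo 𝔓 𝔈 m ε pvilQ z t Z F).A → pvkyFl (𝔓.col t) η ∈ pvilMo 𝔓 𝔈 m ε z t Z ∧
      ∀ 𝔗 : PvwSt (pvieT η), 𝔗.AtOut (pviePos η) 𝔓.num (pvlmH m) z (𝔓.ty t) (pvieCol η true) →
        ∃ (𝔖' : PvwSt (pvieT η)) (y : (pvieT η).Pth), (pvilLo 𝔓 𝔈 m z t).Arc 𝔓.num true η 𝔗 𝔖' y ∧
          (pvilEo 𝔓 𝔈 m ε pvilQ z t Z F).X (pvkyFl (𝔓.col t) η) = (pvilLo 𝔓 𝔈 m z t).val 𝔓.num η (pvilQ η) 𝔗 𝔖' y := by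
  filter_upwards [pvlc_ae_fl (𝔓.col t) (pvlc_soft hW nE Z), pviq_ae_one ε] with η a1 a2 hA
  obtain ⟨hM, hX⟩ := a1 hA
  refine ⟨hM, fun 𝔗 hst => ?_⟩
  obtain ⟨𝔖', y, A, e⟩ := pvlc_end_o_det 𝔓 𝔈 hd h1 (𝔓.col t) a2 hM.1.1 hst
  exact ⟨𝔖', y, A, hX.trans e⟩

/-- **END (i)** -/
theorem pvlc_end_i {m : ℕ} {ε : ℝ} {z : ℂ} {t : τ} (Z : Set (ℤ × ℤ)) (F : Set ℂ) (hd : (𝔓.Γ m).din t ≠ 0) (h1 : 0 < pvlmDel c m) (hW : MeasurableSet (pvilWni 𝔓 𝔈 m ε z t Z))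
    (nE : NullMeasurableSet (pvilMi 𝔓 𝔈 m ε z t Z ∩ {η | (pvilLi 𝔓 𝔈 m z t).X 𝔓.num (𝔓.col t) pvilQ η =
      pvilLoc ε (pvilWni 𝔓 𝔈 m ε z t Z) (pvilMi 𝔓 𝔈 m ε z t Z) ((pvilLi 𝔓 𝔈 m z t).X 𝔓.num (𝔓.col t) pvilQ) η}) (pvP ε)) :
    ∀ᵐ η ∂pvP ε, pvkyFl (𝔓.col t) η ∈ (pvilEi 𝔓 𝔈 m ε pvilQ z t Z F).A → pvkyFl (𝔓.col t) η ∈ pvilMi 𝔓 𝔈 m ε z t Z ∧
      ∀ 𝔗 : PvwSt (pvieT η), 𝔗.AtIn (pviePos η) 𝔓.num (pvlmH m) z (𝔓.ty t) (pvieCol η true) →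
        ∃ (𝔖 : PvwSt (pvieT η)) (y : (pvieT η).Pth), (pvilLi 𝔓 𝔈 m z t).Arc 𝔓.num true η 𝔖 𝔗 y ∧
          (pvilEi 𝔓 𝔈 m ε pvilQ z t Z F).X (pvkyFl (𝔓.col t) η) = (pvilLi 𝔓 𝔈 m z t).val 𝔓.num η (pvilQ η) 𝔖 𝔗 y := by
  filter_upwards [pvlc_ae_fl (𝔓.col t) (pvlc_soft hW nE Z), pviq_ae_one ε] with η a1 a2 hA
  obtain ⟨hM, hX⟩ := a1 hA
  refine ⟨hM, fun 𝔗 hst => ?_⟩
  obtain ⟨𝔖, y, A, e⟩ := pvlc_end_i_det 𝔓 𝔈 hd h1 (𝔓.col t) a2 hM.1.1 hst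
  exact ⟨𝔖, y, A, hX.trans e⟩

end model

end Claimed.Agent.R289
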