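import Claimed.Agent.R289.Tr.FrcFun
import Claimed.Agent.R289.Tr.EndP
import Claimed.Agent.R289.Tr.ForceM
import Claimed.Agent.R289.Tr.ForceD
import Claimed.Agent.R289.Tr.KitEnd
import Claimed.Agent.R289.Tr.LinkGam
import Claimed.Agent.R289.Tr.FrcEnd
import Claimed.Agent.R289.Tr.RegT
import Claimed.Agent.R289.Tr.SideOpen
import Claimed.Agent.R289.Tr.DilK

/-!
# Row 289 (S0537, Cardy for Poisson-Voronoi), THE WALL, ROAD P, P16, file Tr/LinkFunR : THE FUNNEL `r` (door `(pin0, din0 = 1)` → West door of the reference plug `u`), REFERENCE FRAME      (helper114; prefix `pvlzq_`)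

THE PICTURE.  ONE grid `s := δ_m / 320`.   The door plug has the unit `8 s`, it stands at `(-(M s), Y s)` and looks East;   the reference plug has the unit `8 N s` and stands at `0`.
`r` IS NOT COAXIAL: `u` is centred at the CORNER of its menu cell (`pvlz_zu`), the door at the MIDDLE of a side: `Y ∈ {4 N, 4 N + 3360}`, `M = 64 N + 2880`, `N = 840 * pvlmN c m`.
* black net (`β = true`, upper lanes): a thin lane East into a bar at the column `-28 N`;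
* white net: a thin lane East to the column `-52 N`, South to the row `-8 N`, East to the bar at the column `-28 N`;
* `K₁ / K₂` = above / below the step function (`Y s` for `re < -50 N s`, else `0`);
* window `Et` = two rectangles off the two door squares, mesh `s / 2`;   room of the run `KE` = two rectangles (complement connected).
§1 parameters, §2 nets and walks, §3 real boxes, §4 zones, §5 the abstract ends `PvlzqEnds` ⟹ `Geo Rooms Win Off lim`, §6 `PvnlLay`, §7 the kit ends of record, §8 the level `m` of `Γ` of road P.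
-/

set_option autoImplicit false

namespace Claimed.Agent.R289

open Set Metric Filter Topology MeasureTheory Relation

/-! ## 1. parameters -/

/-- the frame of the funnel `r` in units of the mesh `s` -/
structure PvlzqPar (s : ℝ) (N M Y : ℤ) : Prop where
  s0 : 0 < s
  N1 : 10 ≤ N
  Y1 : 4 * N ≤ Y
  Y2 : Y ≤ 8 * N
  M1 : 64 * N + 100 ≤ M

section par

variable {s : ℝ} {N M Y : ℤ}

theorem PvlzqPar.rN (H : PvlzqPar s N M Y) : 10 * s ≤ (N : ℝ) * s := by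
  have h : (10 : ℝ) ≤ (N : ℝ) := by exact_mod_cast H.N1
  nlinarith [H.s0]

theorem PvlzqPar.rY1 (H : PvlzqPar s N M Y) : 4 * ((N : ℝ) * s) ≤ (Y : ℝ) * s := by
  have h : 4 * (N : ℝ) ≤ (Y : ℝ) := by exact_mod_cast H.Y1
  nlinarith [H.s0]

theorem PvlzqPar.rY2 (H : PvlzqPar s N M Y) : (Y : ℝ) * s ≤ 8 * ((N : ℝ) * s) := by
  have h : (Y : ℝ) ≤ 8 * (N : ℝ) := by exact_mod_cast H.Y2
  nlinarith [H.s0]

theorem PvlzqPar.rM (H : PvlzqPar s N M Y) : 64 * ((N : ℝ) * s) + 100 * s ≤ (M : ℝ) * s := by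
  have h : 64 * (N : ℝ) + 100 ≤ (M : ℝ) := by exact_mod_cast H.M1
  nlinarith [H.s0]

end par

/-! ## 2. nets and walks -/

/-- **the cells of the net of colour `β`** -/
def pvlzqW (N M Y : ℤ) : Bool → Set (ℤ × ℤ)
  | true => pvufR (27 - M) (-28 * N + 1) (Y + 1) (Y + 14) ∪ pvufR (-28 * N - 3) (-28 * N + 1) (3 * N - 2) (13 * N + 1)
  | false => pvufR (27 - M) (-52 * N) (Y - 15) (Y - 2) ∪ pvufR (-52 * N - 13) (-52 * N) (-8 * N) (Y - 2) ∪ pvufR (-52 * N - 13) (-28 * N + 1) (-8 * N) (-8 * N + 13) ∪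
      pvufR (-28 * N - 3) (-28 * N + 1) (-13 * N - 2) (-3 * N + 1)

/-- **THE FULL WALK** of the net of colour `β` -/
noncomputable def pvlzqL (N M Y : ℤ) (β : Bool) : List (ℤ × ℤ) :=
  Classical.epsilon fun L : List (ℤ × ℤ) => L ≠ [] ∧ L.IsChain PvlnAdj ∧ PvfpFull L ∧ {k | k ∈ L} = pvlzqW N M Y β

/-- **the zone in which the colour `β` is up**: above / below the step function -/
def pvlzqK (s : ℝ) (N Y : ℤ) : Bool → Set ℂ
  | true => {w | (if w.re < -50 * ((N : ℝ) * s) then (Y : ℝ) * s else 0) < w.im}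
  | false => {w | w.im < (if w.re < -50 * ((N : ℝ) * s) then (Y : ℝ) * s else 0)}

/-- **the window of the corridor** -/
def pvlzqEt (s : ℝ) (N M Y : ℤ) : Set ℂ :=
  rswRect (26 * s - (M : ℝ) * s) (-50 * ((N : ℝ) * s)) ((Y : ℝ) * s - 20 * s) ((Y : ℝ) * s + 20 * s) ∪ rswRect (-57 * ((N : ℝ) * s)) (-26 * ((N : ℝ) * s)) (-17 * ((N : ℝ) * s)) (17 * ((N : ℝ) * s))

/-- **the room of the run** -/
def pvlzqKE (s : ℝ) (N M Y : ℤ) : Set ℂ :=
  rswRect (s - (M : ℝ) * s) (-50 * ((N : ℝ) * s)) ((Y : ℝ) * s - 17 * s) ((Y : ℝ) * s + 17 * s) ∪ rswRect (-56 * ((N : ℝ) * s)) (-((N : ℝ) * s)) (-16 * ((N : ℝ) * s)) (16 * ((N : ℝ) * s))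

/-- **THE WALKS OF THE FUNNEL `r`** -/
noncomputable def pvlzqWk (s : ℝ) (N M Y : ℤ) : PvydWalk where
  δ := s
  L₁ := pvlzqL N M Y true
  L₂ := pvlzqL N M Y false
  K₁ := pvlzqK s N Y true
  K₂ := pvlzqK s N Y false
  Et := pvlzqEt s N M Y
  M := pvjoMesh (s / 2) (pvlzqEt s N M Y)

/-- the real boxes of the net, fattened by `t` -/
def pvlzqF (s t : ℝ) (N M Y : ℤ) : Bool → Set ℂ
  | true => rswRect (27 * s - (M : ℝ) * s - t) (-28 * ((N : ℝ) * s) + 2 * s + t) ((Y : ℝ) * s + s - t) ((Y : ℝ) * s + 15 * s + t) ∪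
      rswRect (-28 * ((N : ℝ) * s) - 3 * s - t) (-28 * ((N : ℝ) * s) + 2 * s + t) (3 * ((N : ℝ) * s) - 2 * s - t) (13 * ((N : ℝ) * s) + 2 * s + t)
  | false => rswRect (27 * s - (M : ℝ) * s - t) (-52 * ((N : ℝ) * s) + s + t) ((Y : ℝ) * s - 15 * s - t) ((Y : ℝ) * s - s + t) ∪
      rswRect (-52 * ((N : ℝ) * s) - 13 * s - t) (-52 * ((N : ℝ) * s) + s + t) (-8 * ((N : ℝ) * s) - t) ((Y : ℝ) * s - s + t) ∪
      rswRect (-52 * ((N : ℝ) * s) - 13 * s - t) (-28 * ((N : ℝ) * s) + 2 * s + t) (-8 * ((N : ℝ) * s) - t) (-8 * ((N : ℝ) * s) + 14 * s + t) ∪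
      rswRect (-28 * ((N : ℝ) * s) - 3 * s - t) (-28 * ((N : ℝ) * s) + 2 * s + t) (-13 * ((N : ℝ) * s) - 2 * s - t) (-3 * ((N : ℝ) * s) + 2 * s + t)

theorem pvlzq_eqns_cite : True := by
  have := @pvlzqW.eq_1; have := @pvlzqL.eq_1; have := @pvlzqK.eq_1; have := @pvlzqEt.eq_1; have := @pvlzqKE.eq_1; have := @pvlzqWk.eq_1; have := @pvlzqF.eq_1
  trivial

section net

variable {s : ℝ} {N M Y : ℤ}

theorem pvlzq_W_fin (N M Y : ℤ) (β : Bool) : (pvlzqW N M Y β).Finite := by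
  cases β
  · exact (((pvuf_R_finite _ _ _ _).union (pvuf_R_finite _ _ _ _)).union (pvuf_R_finite _ _ _ _)).union (pvuf_R_finite _ _ _ _)
  · exact (pvuf_R_finite _ _ _ _).union (pvuf_R_finite _ _ _ _)

theorem pvlzq_W_conn (H : PvlzqPar s N M Y) (β : Bool) : PvufConn (pvlzqW N M Y β) := by
  obtain ⟨-, h1, h2, h3, h4⟩ := H
  cases β
  · refine PvufConn.union (PvufConn.union (PvufConn.union (pvuf_R_conn _ _ _ _) (pvuf_R_conn _ _ _ _) ⟨(-52 * N, Y - 2), ?_, ?_⟩) (pvuf_R_conn _ _ _ _) ⟨(-52 * N, -8 * N), Or.inr ?_, ?_⟩)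
      (pvuf_R_conn _ _ _ _) ⟨(-28 * N, -8 * N), Or.inr ?_, ?_⟩ <;>
      exact ⟨by simp only; omega, by simp only; omega, by simp only; omega, by simp only; omega⟩
  · refine PvufConn.union (pvuf_R_conn _ _ _ _) (pvuf_R_conn _ _ _ _) ⟨(-28 * N, Y + 1), ?_, ?_⟩ <;>
      exact ⟨by simp only; omega, by simp only; omega, by simp only; omega, by simp only; omega⟩

theorem pvlzq_W_ne (H : PvlzqPar s N M Y) (β : Bool) : (pvlzqW N M Y β).Nonempty := by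
  obtain ⟨-, h1, h2, h3, h4⟩ := H
  cases β
  · exact ⟨(-28 * N, -8 * N), Or.inr ⟨by simp only; omega, by simp only; omega, by simp only; omega, by simp only; omega⟩⟩
  · exact ⟨(-28 * N, Y + 1), Or.inl ⟨by simp only; omega, by simp only; omega, by simp only; omega, by simp only; omega⟩⟩

theorem pvlzq_walk (H : PvlzqPar s N M Y) (β : Bool) : ∃ L : List (ℤ × ℤ), L ≠ [] ∧ L.IsChain PvlnAdj ∧ PvfpFull L ∧ {k | k ∈ L} = pvlzqW N M Y β :=
  pvfp_walk_exists (pvlzq_W_fin N M Y β) (pvlzq_W_ne H β) (pvlzq_W_conn H β)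

theorem pvlzq_L_ne (H : PvlzqPar s N M Y) (β : Bool) : pvlzqL N M Y β ≠ [] := (Classical.epsilon_spec (pvlzq_walk H β)).1
theorem pvlzq_L_ch (H : PvlzqPar s N M Y) (β : Bool) : (pvlzqL N M Y β).IsChain PvlnAdj := (Classical.epsilon_spec (pvlzq_walk H β)).2.1
theorem pvlzq_L_full (H : PvlzqPar s N M Y) (β : Bool) : PvfpFull (pvlzqL N M Y β) := (Classical.epsilon_spec (pvlzq_walk H β)).2.2.1
theorem pvlzq_L_set (H : PvlzqPar s N M Y) (β : Bool) : {k | k ∈ pvlzqL N M Y β} = pvlzqW N M Y β := (Classical.epsilon_spec (pvlzq_walk H β)).2.2.2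

/-! ## 3. real boxes -/

/-- a fattened cell of a rectangle of cells -/
theorem pvlzq_sq_box (hs : 0 < s) {t : ℝ} {a b c d : ℤ} {k : ℤ × ℤ} (hk : k ∈ pvufR a b c d) :
    pvmSq (pvlnCtr s k) (s / 2 + t) ⊆ rswRect ((a : ℝ) * s - t) (((b : ℝ) + 1) * s + t) ((c : ℝ) * s - t) (((d : ℝ) + 1) * s + t) := by
  obtain ⟨h1, h2, h3, h4⟩ := hk
  have g1 : (a : ℝ) * s ≤ (k.1 : ℝ) * s := mul_le_mul_of_nonneg_right (by exact_mod_cast h1) hs.le
  have g2 : (k.1 : ℝ) * s ≤ (b : ℝ) * s := mul_le_mul_of_nonneg_right (by exact_mod_cast h2) hs.le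
  have g3 : (c : ℝ) * s ≤ (k.2 : ℝ) * s := mul_le_mul_of_nonneg_right (by exact_mod_cast h3) hs.le
  have g4 : (k.2 : ℝ) * s ≤ (d : ℝ) * s := mul_le_mul_of_nonneg_right (by exact_mod_cast h4) hs.le
  rintro z ⟨z1, z2⟩
  simp only [pvlnCtr] at z1 z2
  rw [abs_le] at z1 z2
  exact ⟨by linarith [z1.1], by linarith [z1.2], by linarith [z2.1], by linarith [z2.2]⟩

theorem pvlzq_cell_sq (s : ℝ) (k : ℤ × ℤ) : pvlnC s k ⊆ pvmSq (pvlnCtr s k) (s / 2 + 0) := by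
  rintro z ⟨z1, z2, z3, z4⟩
  refine ⟨?_, ?_⟩ <;> simp only [pvlnCtr] <;> rw [abs_le] <;> constructor <;> linarith

/-- the fattened cells of the net lie in the fattened boxes -/
theorem pvlzq_sq_F (hs : 0 < s) (t : ℝ) (β : Bool) {k : ℤ × ℤ} (hk : k ∈ pvlzqW N M Y β) : pvmSq (pvlnCtr s k) (s / 2 + t) ⊆ pvlzqF s t N M Y β := by
  intro z hz
  cases β
  · rcases hk with ((hk | hk) | hk) | hk
    · have := pvlzq_sq_box hs hk hz
      push_cast at this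
      exact Or.inl (Or.inl (Or.inl ⟨by linarith [this.1], by linarith [this.2.1], by linarith [this.2.2.1], by linarith [this.2.2.2]⟩))
    · have := pvlzq_sq_box hs hk hz
      push_cast at this
      exact Or.inl (Or.inl (Or.inr ⟨by linarith [this.1], by linarith [this.2.1], by linarith [this.2.2.1], by linarith [this.2.2.2]⟩))
    · have := pvlzq_sq_box hs hk hz
      push_cast at this
      exact Or.inl (Or.inr ⟨by linarith [this.1], by linarith [this.2.1], by linarith [this.2.2.1], by linarith [this.2.2.2]⟩)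
    · have := pvlzq_sq_box hs hk hz
      push_cast at this
      exact Or.inr ⟨by linarith [this.1], by linarith [this.2.1], by linarith [this.2.2.1], by linarith [this.2.2.2]⟩
  · rcases hk with hk | hk
    · have := pvlzq_sq_box hs hk hz
      push_cast at this
      exact Or.inl ⟨by linarith [this.1], by linarith [this.2.1], by linarith [this.2.2.1], by linarith [this.2.2.2]⟩
    · have := pvlzq_sq_box hs hk hz
      push_cast at this
      exact Or.inr ⟨by linarith [this.1], by linarith [this.2.1], by linarith [this.2.2.1], by linarith [this.2.2.2]⟩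

/-- the windows of the walks -/
theorem pvlzq_win (H : PvlzqPar s N M Y) (β : Bool) : pvlnW s (pvlzqL N M Y β) ⊆ pvlzqF s (s / 8) N M Y β := by
  intro z hz
  simp only [pvlnW, mem_iUnion] at hz
  obtain ⟨k, hk, hz⟩ := hz
  rw [pvlzq_L_set H β] at hk
  have e : s / 2 + 2 * (s / 2 / 8) = s / 2 + s / 8 := by ring
  rw [e] at hz
  exact pvlzq_sq_F H.s0 _ β hk hz

/-- the carriers of the walks -/
theorem pvlzq_car (H : PvlzqPar s N M Y) (β : Bool) : pvlnU s (pvlzqL N M Y β) ⊆ pvlzqF s 0 N M Y β := by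
  intro z hz
  simp only [pvlnU, mem_iUnion] at hz
  obtain ⟨k, hk, hz⟩ := hz
  rw [pvlzq_L_set H β] at hk
  exact pvlzq_sq_F H.s0 _ β hk (pvlzq_cell_sq s k hz)

theorem pvlzq_K_disj (s : ℝ) (N Y : ℤ) : Disjoint (pvlzqK s N Y true) (pvlzqK s N Y false) := by
  rw [Set.disjoint_left]
  intro w (h1 : _ < w.im) (h2 : w.im < _)
  exact lt_irrefl _ (h1.trans h2)

/-- the fattened boxes lie in the zones of the mixed order -/
theorem pvlzq_F_K (H : PvlzqPar s N M Y) {t : ℝ} (ht : t ≤ s / 2) (β : Bool) : pvlzqF s t N M Y β ⊆ pvlzqK s N Y β := by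
  have h0 := H.s0; have h1 := H.rN; have h2 := H.rY1; have h3 := H.rY2; have h4 := H.rM
  intro w hw
  cases β
  · show w.im < _
    rcases hw with ((hw | hw) | hw) | hw
    · rw [if_pos (by linarith [hw.2.1])]; linarith [hw.2.2.2]
    · rw [if_pos (by linarith [hw.2.1])]; linarith [hw.2.2.2]
    · split_ifs <;> linarith [hw.2.2.2]
    · split_ifs <;> linarith [hw.2.2.2]
  · show _ < w.im
    rcases hw with hw | hw
    · split_ifs <;> linarith [hw.2.2.1]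
    · rw [if_neg (by linarith [hw.1])]; linarith [hw.2.2.1]

/-- the fattened boxes lie between the two door squares -/
theorem pvlzq_F_x (H : PvlzqPar s N M Y) {t : ℝ} (ht : t ≤ s / 2) (β : Bool) {w : ℂ} (hw : w ∈ pvlzqF s t N M Y β) : 26 * s - (M : ℝ) * s ≤ w.re ∧ w.re ≤ -26 * ((N : ℝ) * s) := by
  have h0 := H.s0; have h1 := H.rN; have h2 := H.rY1; have h3 := H.rY2; have h4 := H.rM
  cases β
  · rcases hw with ((hw | hw) | hw) | hw <;> exact ⟨by linarith [hw.1], by linarith [hw.2.1]⟩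
  · rcases hw with hw | hw <;> exact ⟨by linarith [hw.1], by linarith [hw.2.1]⟩

end net

/-! ## 4. zones -/

section zone

variable {s : ℝ}

/-- the blocks of the cells which meet a rectangle -/
theorem pvlzq_blk (hs : 0 < s) {a b c d : ℤ} {Z : Set ℂ} {W : Set (ℤ × ℤ)} (hZ : Z ⊆ rswRect ((a : ℝ) * s) ((b : ℝ) * s) ((c : ℝ) * s) ((d : ℝ) * s))
    (hW : pvufR (a - 2) (b + 1) (c - 2) (d + 1) ⊆ W) : ∀ k, (pvlnC s k ∩ Z).Nonempty → pvfpBlk k ⊆ W := by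
  rintro ⟨k1, k2⟩ ⟨p, ⟨p1, p2, p3, p4⟩, hp⟩ ⟨x, y⟩ ⟨u, v⟩
  obtain ⟨q1, q2, q3, q4⟩ := hZ hp
  simp only at p1 p2 p3 p4 u v
  rw [abs_le] at u v
  have e1 : (k1 : ℝ) ≤ (b : ℝ) := le_of_mul_le_mul_right (p1.trans q2) hs
  have e2 : (a : ℝ) ≤ (k1 : ℝ) + 1 := le_of_mul_le_mul_right (q1.trans p2) hs
  have e3 : (k2 : ℝ) ≤ (d : ℝ) := le_of_mul_le_mul_right (p3.trans q4) hs
  have e4 : (c : ℝ) ≤ (k2 : ℝ) + 1 := le_of_mul_le_mul_right (q3.trans p4) hs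
  have f1 : k1 ≤ b := by exact_mod_cast e1
  have f2 : a ≤ k1 + 1 := by exact_mod_cast e2
  have f3 : k2 ≤ d := by exact_mod_cast e3
  have f4 : c ≤ k2 + 1 := by exact_mod_cast e4
  exact hW ⟨by simp only; omega, by simp only; omega, by simp only; omega, by simp only; omega⟩

/-- **hook zone of a room which runs EAST**: slab `[a s, (a + 1) s]`, rows `[c s, d s]` -/
theorem pvlzq_zone_E (hs : 0 < s) (a c d : ℤ) {W : Set (ℤ × ℤ)} {A X Yd : Set ℂ} (hA : ∀ w ∈ A, w.re ≤ (a : ℝ) * s ∨ ((c : ℝ) * s ≤ w.im ∧ w.im ≤ (d : ℝ) * s))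
    (hX : ∀ w ∈ X, w.re ≤ (a : ℝ) * s) (hY : ∀ w ∈ Yd, ((a : ℝ) + 3) * s ≤ w.re) (hW : pvufR (a - 2) (a + 2) (c - 2) (d + 1) ⊆ W) : PvfpZone s W A X Yd := by
  refine pvnd_zone hs (F₁ := {w : ℂ | w.re ≤ (a : ℝ) * s}) (Z := rswRect ((a : ℝ) * s) (((a + 1 : ℤ) : ℝ) * s) ((c : ℝ) * s) ((d : ℝ) * s)) (F₂ := {w : ℂ | ((a : ℝ) + 1) * s ≤ w.re})
    ?_ (isClosed_le Complex.continuous_re continuous_const) (isClosed_le continuous_const Complex.continuous_re) ?_ hX (fun w hw => ?_) (pvlzq_blk hs Subset.rfl (by simpa [add_assoc] using hW)) ?_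
  · intro w hw
    by_cases h1 : w.re ≤ (a : ℝ) * s
    · exact Or.inl (Or.inl h1)
    by_cases h2 : ((a : ℝ) + 1) * s ≤ w.re
    · exact Or.inr h2
    rcases hA w hw with h | h
    · exact absurd h h1
    · push Not at h1 h2
      refine Or.inl (Or.inr ⟨h1.le, ?_, h.1, h.2⟩)
      push_cast
      exact h2.le
  · rw [Set.disjoint_left]
    intro w (h1 : w.re ≤ _) (h2 : _ ≤ w.re)
    nlinarith
  · have := hY w hw
    show ((a : ℝ) + 1) * s ≤ w.re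
    nlinarith
  · intro p hp y hy
    have h1 := hY y hy
    have h2 := hp.2.1
    push_cast at h2
    left
    rw [le_abs]
    left
    nlinarith

/-- **hook zone of a room which runs WEST**: slab `[(a - 1) s, a s]`, rows `[c s, d s]` -/
theorem pvlzq_zone_W (hs : 0 < s) (a c d : ℤ) {W : Set (ℤ × ℤ)} {A X Yd : Set ℂ} (hA : ∀ w ∈ A, (a : ℝ) * s ≤ w.re ∨ ((c : ℝ) * s ≤ w.im ∧ w.im ≤ (d : ℝ) * s))
    (hX : ∀ w ∈ X, (a : ℝ) * s ≤ w.re) (hY : ∀ w ∈ Yd, w.re ≤ ((a : ℝ) - 3) * s) (hW : pvufR (a - 3) (a + 1) (c - 2) (d + 1) ⊆ W) : PvfpZone s W A X Yd := by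
  refine pvnd_zone hs (F₁ := {w : ℂ | (a : ℝ) * s ≤ w.re}) (Z := rswRect (((a - 1 : ℤ) : ℝ) * s) ((a : ℝ) * s) ((c : ℝ) * s) ((d : ℝ) * s)) (F₂ := {w : ℂ | w.re ≤ ((a : ℝ) - 1) * s})
    ?_ (isClosed_le continuous_const Complex.continuous_re) (isClosed_le Complex.continuous_re continuous_const) ?_ hX (fun w hw => ?_)
    (pvlzq_blk hs Subset.rfl (by have e : a - 1 - 2 = a - 3 := by ring
                                 rw [e]; exact hW)) ?_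
  · intro w hw
    by_cases h1 : (a : ℝ) * s ≤ w.re
    · exact Or.inl (Or.inl h1)
    by_cases h2 : w.re ≤ ((a : ℝ) - 1) * s
    · exact Or.inr h2
    rcases hA w hw with h | h
    · exact absurd h h1
    · push Not at h1 h2
      refine Or.inl (Or.inr ⟨?_, h1.le, h.1, h.2⟩)
      push_cast
      exact h2.le
  · rw [Set.disjoint_left]
    intro w (h1 : _ ≤ w.re) (h2 : w.re ≤ _)
    nlinarith
  · have := hY w hw
    show w.re ≤ ((a : ℝ) - 1) * s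
    nlinarith
  · intro p hp y hy
    have h1 := hY y hy
    have h2 := hp.1
    push_cast at h2
    left
    rw [le_abs]
    right
    nlinarith

end zone

/-! ## 5. the abstract ends -/

/-- **WHAT THE FUNNEL `r` USES OF ITS TWO ENDS** (outer boxes of the thickened rooms: fattened by ONE unit `s`, resp. `N s`) -/
structure PvlzqEnds (s : ℝ) (N M Y : ℤ) (e e' : PvnkEnd) : Prop where
  col : e'.c = e.c
  O : e.O = {w : ℂ | |w.re + (M : ℝ) * s| < 26 * s ∧ |w.im - (Y : ℝ) * s| < 26 * s}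
  O' : e'.O = {w : ℂ | |w.re| < 26 * ((N : ℝ) * s) ∧ |w.im| < 26 * ((N : ℝ) * s)}
  E : ∀ w ∈ e.E, w.re ≤ 44 * s - (M : ℝ) * s
  E' : ∀ w ∈ e'.E, -44 * ((N : ℝ) * s) ≤ w.re
  A₁ : e.A₁ ⊆ rswRect (3 * s - (M : ℝ) * s) (25 * s - (M : ℝ) * s) ((Y : ℝ) * s - 5 * s) ((Y : ℝ) * s + 13 * s) ∪
    rswRect (15 * s - (M : ℝ) * s) (41 * s - (M : ℝ) * s) ((Y : ℝ) * s + 3 * s) ((Y : ℝ) * s + 13 * s)
  A₂ : e.A₂ ⊆ rswRect (3 * s - (M : ℝ) * s) (25 * s - (M : ℝ) * s) ((Y : ℝ) * s - 13 * s) ((Y : ℝ) * s + 5 * s) ∪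
    rswRect (15 * s - (M : ℝ) * s) (41 * s - (M : ℝ) * s) ((Y : ℝ) * s - 13 * s) ((Y : ℝ) * s - 3 * s)
  X₁ : ∀ w ∈ e.X₁, w.re ≤ 16 * s - (M : ℝ) * s
  X₂ : ∀ w ∈ e.X₂, w.re ≤ 16 * s - (M : ℝ) * s
  Y₁ : ∀ w ∈ e.Y₁, 32 * s - (M : ℝ) * s ≤ w.re
  Y₂ : ∀ w ∈ e.Y₂, 32 * s - (M : ℝ) * s ≤ w.re
  A₁' : e'.A₁ ⊆ rswRect (-25 * ((N : ℝ) * s)) (-3 * ((N : ℝ) * s)) (-5 * ((N : ℝ) * s)) (13 * ((N : ℝ) * s)) ∪
    rswRect (-41 * ((N : ℝ) * s)) (-15 * ((N : ℝ) * s)) (3 * ((N : ℝ) * s)) (13 * ((N : ℝ) * s))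
  A₂' : e'.A₂ ⊆ rswRect (-25 * ((N : ℝ) * s)) (-3 * ((N : ℝ) * s)) (-13 * ((N : ℝ) * s)) (5 * ((N : ℝ) * s)) ∪
    rswRect (-41 * ((N : ℝ) * s)) (-15 * ((N : ℝ) * s)) (-13 * ((N : ℝ) * s)) (-3 * ((N : ℝ) * s))
  X₁' : ∀ w ∈ e'.X₁, -16 * ((N : ℝ) * s) ≤ w.re
  X₂' : ∀ w ∈ e'.X₂, -16 * ((N : ℝ) * s) ≤ w.re
  Y₁' : ∀ w ∈ e'.Y₁, w.re ≤ -32 * ((N : ℝ) * s)
  Y₂' : ∀ w ∈ e'.Y₂, w.re ≤ -32 * ((N : ℝ) * s)

section ends

variable {s : ℝ} {N M Y : ℤ} {e e' : PvnkEnd}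

theorem pvlzq_off (E : PvlzqEnds s N M Y e e') {S : Set ℂ} (hS : ∀ w ∈ S, 26 * s - (M : ℝ) * s ≤ w.re ∧ w.re ≤ -26 * ((N : ℝ) * s)) : Disjoint S (e.O ∪ e'.O) := by
  rw [Set.disjoint_left]
  intro w hw hO
  obtain ⟨a1, a2⟩ := hS w hw
  rcases hO with hO | hO
  · rw [E.O] at hO
    have := (abs_lt.1 hO.1).2
    linarith
  · rw [E.O'] at hO
    have := (abs_lt.1 hO.1).1
    linarith

/-- **`Geo`** -/
theorem pvlzq_geo (H : PvlzqPar s N M Y) (E : PvlzqEnds s N M Y e e') : ((pvlzqWk s N M Y).lk e e').Geo where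
  col := E.col
  dj := by
    have h0 := H.s0; have h1 := H.rN; have h4 := H.rM
    rw [Set.disjoint_left]
    intro w hw hw'
    have a1 : w.re ≤ 44 * s - (M : ℝ) * s := by
      rcases hw with hw | hw
      · have hw : w ∈ e.O := hw
        rw [E.O] at hw
        have := (abs_lt.1 hw.1).2
        linarith
      · exact E.E w hw
    have a2 : -44 * ((N : ℝ) * s) ≤ w.re := by
      rcases hw' with hw' | hw'
      · have hw' : w ∈ e'.O := hw'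
        rw [E.O'] at hw'
        have := (abs_lt.1 hw'.1).1
        linarith
      · exact E.E' w hw'
    linarith
  δ_pos := H.s0
  ne₁ := pvlzq_L_ne H true
  ne₂ := pvlzq_L_ne H false
  ch₁ := pvlzq_L_ch H true
  ch₂ := pvlzq_L_ch H false
  full₁ := pvlzq_L_full H true
  full₂ := pvlzq_L_full H false
  djK := pvlzq_K_disj s N Y
  w₁ := (pvlzq_win H true).trans (pvlzq_F_K H (by linarith [H.s0]) true)
  w₂ := (pvlzq_win H false).trans (pvlzq_F_K H (by linarith [H.s0]) false)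
  off₁ := pvlzq_off E fun w hw => pvlzq_F_x H (by linarith [H.s0]) true (pvlzq_win H true hw)
  off₂ := pvlzq_off E fun w hw => pvlzq_F_x H (by linarith [H.s0]) false (pvlzq_win H false hw)
  z₁ := by
    have h0 := H.s0
    show PvfpZone s {k | k ∈ pvlzqL N M Y true} e.A₁ e.X₁ e.Y₁
    rw [pvlzq_L_set H true]
    refine pvlzq_zone_E h0 (29 - M) (Y + 3) (Y + 13) (fun w hw => ?_) (fun w hw => ?_) (fun w hw => ?_) ?_
    · push_cast
      rcases E.A₁ hw with h | h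
      · exact Or.inl (by linarith [h.2.1])
      · exact Or.inr ⟨by linarith [h.2.2.1], by linarith [h.2.2.2]⟩
    · push_cast; linarith [E.X₁ w hw]
    · push_cast; linarith [E.Y₁ w hw]
    · obtain ⟨-, h1, h2, h3, h4⟩ := H
      exact fun k hk => Or.inl ⟨by have := hk.1; omega, by have := hk.2.1; omega, by have := hk.2.2.1; omega, by have := hk.2.2.2; omega⟩
  z₂ := by
    have h0 := H.s0
    show PvfpZone s {k | k ∈ pvlzqL N M Y false} e.A₂ e.X₂ e.Y₂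
    rw [pvlzq_L_set H false]
    refine pvlzq_zone_E h0 (29 - M) (Y - 13) (Y - 3) (fun w hw => ?_) (fun w hw => ?_) (fun w hw => ?_) ?_
    · push_cast
      rcases E.A₂ hw with h | h
      · exact Or.inl (by linarith [h.2.1])
      · exact Or.inr ⟨by linarith [h.2.2.1], by linarith [h.2.2.2]⟩
    · push_cast; linarith [E.X₂ w hw]
    · push_cast; linarith [E.Y₂ w hw]
    · obtain ⟨-, h1, h2, h3, h4⟩ := H
      exact fun k hk => Or.inl (Or.inl (Or.inl ⟨by have := hk.1; omega, by have := hk.2.1; omega, by have := hk.2.2.1; omega, by have := hk.2.2.2; omega⟩))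
  z₁' := by
    have h0 := H.s0; have h1 := H.rN
    show PvfpZone s {k | k ∈ pvlzqL N M Y true} e'.A₁ e'.X₁ e'.Y₁
    rw [pvlzq_L_set H true]
    refine pvlzq_zone_W h0 (-28 * N) (3 * N) (13 * N) (fun w hw => ?_) (fun w hw => ?_) (fun w hw => ?_) ?_
    · push_cast
      rcases E.A₁' hw with h | h
      · exact Or.inl (by linarith [h.1])
      · exact Or.inr ⟨by linarith [h.2.2.1], by linarith [h.2.2.2]⟩
    · push_cast; linarith [E.X₁' w hw]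
    · push_cast; linarith [E.Y₁' w hw]
    · exact fun k hk => Or.inr ⟨by have := hk.1; omega, by have := hk.2.1; omega, by have := hk.2.2.1; omega, by have := hk.2.2.2; omega⟩
  z₂' := by
    have h0 := H.s0; have h1 := H.rN
    show PvfpZone s {k | k ∈ pvlzqL N M Y false} e'.A₂ e'.X₂ e'.Y₂
    rw [pvlzq_L_set H false]
    refine pvlzq_zone_W h0 (-28 * N) (-13 * N) (-3 * N) (fun w hw => ?_) (fun w hw => ?_) (fun w hw => ?_) ?_
    · push_cast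
      rcases E.A₂' hw with h | h
      · exact Or.inl (by linarith [h.1])
      · exact Or.inr ⟨by linarith [h.2.2.1], by linarith [h.2.2.2]⟩
    · push_cast; linarith [E.X₂' w hw]
    · push_cast; linarith [E.Y₂' w hw]
    · exact fun k hk => Or.inr ⟨by have := hk.1; omega, by have := hk.2.1; omega, by have := hk.2.2.1; omega, by have := hk.2.2.2; omega⟩

/-- **`Rooms`** -/
theorem pvlzq_rooms (H : PvlzqPar s N M Y) (E : PvlzqEnds s N M Y e e') : ((pvlzqWk s N M Y).lk e e').Rooms := by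
  have h0 := H.s0; have h1 := H.rN; have h2 := H.rY1; have h3 := H.rY2; have h4 := H.rM
  refine ⟨fun w hw => ?_, fun w hw => ?_, fun w hw => ?_, fun w hw => ?_⟩
  · rcases E.A₁ hw with h | h
    · left
      show w ∈ e.O
      rw [E.O]
      exact ⟨abs_lt.2 ⟨by linarith [h.1], by linarith [h.2.1]⟩, abs_lt.2 ⟨by linarith [h.2.2.1], by linarith [h.2.2.2]⟩⟩
    · right
      show _ < w.im
      split_ifs <;> linarith [h.2.2.1]
  · rcases E.A₂ hw with h | h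
    · left
      show w ∈ e.O
      rw [E.O]
      exact ⟨abs_lt.2 ⟨by linarith [h.1], by linarith [h.2.1]⟩, abs_lt.2 ⟨by linarith [h.2.2.1], by linarith [h.2.2.2]⟩⟩
    · right
      show w.im < _
      rw [if_pos (by linarith [h.2.1])]
      linarith [h.2.2.2]
  · rcases E.A₁' hw with h | h
    · left
      show w ∈ e'.O
      rw [E.O']
      exact ⟨abs_lt.2 ⟨by linarith [h.1], by linarith [h.2.1]⟩, abs_lt.2 ⟨by linarith [h.2.2.1], by linarith [h.2.2.2]⟩⟩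
    · right
      show _ < w.im
      rw [if_neg (by linarith [h.1])]
      linarith [h.2.2.1]
  · rcases E.A₂' hw with h | h
    · left
      show w ∈ e'.O
      rw [E.O']
      exact ⟨abs_lt.2 ⟨by linarith [h.1], by linarith [h.2.1]⟩, abs_lt.2 ⟨by linarith [h.2.2.1], by linarith [h.2.2.2]⟩⟩
    · right
      show w.im < _
      rw [if_neg (by linarith [h.1])]
      linarith [h.2.2.2]

theorem pvlzq_rect_meas (a b c d : ℝ) : MeasurableSet (rswRect a b c d) := by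
  have : IsClosed (rswRect a b c d) :=
    (isClosed_le continuous_const Complex.continuous_re).inter ((isClosed_le Complex.continuous_re continuous_const).inter
      ((isClosed_le continuous_const Complex.continuous_im).inter (isClosed_le Complex.continuous_im continuous_const)))
  exact this.measurableSet

theorem pvlzq_rect_bdd (a b c d : ℝ) : Bornology.IsBounded (rswRect a b c d) := by
  refine (Metric.isBounded_closedBall (x := (0 : ℂ)) (r := |a| + |b| + |c| + |d|)).subset fun w hw => ?_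
  rw [mem_closedBall_zero_iff]
  have h1 : |w.re| ≤ |a| + |b| := by
    rw [abs_le]
    exact ⟨by linarith [hw.1, neg_abs_le a, abs_nonneg b], by linarith [hw.2.1, le_abs_self b, abs_nonneg a]⟩
  have h2 : |w.im| ≤ |c| + |d| := by
    rw [abs_le]
    exact ⟨by linarith [hw.2.2.1, neg_abs_le c, abs_nonneg d], by linarith [hw.2.2.2, le_abs_self d, abs_nonneg c]⟩
  linarith [Complex.norm_le_abs_re_add_abs_im w]

/-- **`PvnhWin`** -/
theorem pvlzq_winM (s : ℝ) (N M Y : ℤ) : PvnhWin (pvlzqWk s N M Y).Et (pvlzqWk s N M Y).M :=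
  pvnh_mesh_win (s / 2) ((pvlzq_rect_meas _ _ _ _).union (pvlzq_rect_meas _ _ _ _))

theorem pvlzq_Et_x (H : PvlzqPar s N M Y) {w : ℂ} (hw : w ∈ pvlzqEt s N M Y) : 26 * s - (M : ℝ) * s ≤ w.re ∧ w.re ≤ -26 * ((N : ℝ) * s) := by
  have h0 := H.s0; have h1 := H.rN; have h4 := H.rM
  rcases hw with hw | hw <;> exact ⟨by linarith [hw.1], by linarith [hw.2.1]⟩

/-- **`PvnhOff`** -/
theorem pvlzq_offM (H : PvlzqPar s N M Y) (E : PvlzqEnds s N M Y e e') : PvnhOff ((pvlzqWk s N M Y).lk e e') (pvlzqWk s N M Y).Et (pvlzqWk s N M Y).M :=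
  pvnh_mesh_off (s / 2) (pvlzq_off E fun _ hw => pvlzq_Et_x H hw)

/-- **the guard fails with probability `o(1)`** -/
theorem pvlzq_lim (H : PvlzqPar s N M Y) : Tendsto (fun ε : ℝ => pvP ε ((pvlzqWk s N M Y).M)ᶜ) (𝓝[>] 0) (𝓝 0) :=
  pvnh_mesh_lim (by linarith [H.s0]) ((pvlzq_rect_bdd _ _ _ _).union (pvlzq_rect_bdd _ _ _ _))

end ends

/-! ## 6. regions, `PvnlLay` -/

/-- **THE FINE FORM OF THE WINDOWS OF THE TWO ENDS** (open windows `pvk2Es`): off the door square they lie in the box on the side of the funnel; they contain the open square and the open box -/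
structure PvlzqFine (s : ℝ) (N M Y : ℤ) (e e' : PvnkEnd) : Prop where
  Ef : ∀ w ∈ e.E, w ∉ e.O → 26 * s - (M : ℝ) * s ≤ w.re ∧ w.re ≤ 44 * s - (M : ℝ) * s ∧ |w.im - (Y : ℝ) * s| ≤ 20 * s
  Ef' : ∀ w ∈ e'.E, w ∉ e'.O → -44 * ((N : ℝ) * s) ≤ w.re ∧ w.re ≤ -26 * ((N : ℝ) * s) ∧ |w.im| ≤ 20 * ((N : ℝ) * s)
  Eq : ∀ w : ℂ, |w.re + (M : ℝ) * s| < 26 * s → |w.im - (Y : ℝ) * s| < 26 * s → w ∈ e.E
  Eb : ∀ w : ℂ, -((M : ℝ) * s) < w.re → w.re < 44 * s - (M : ℝ) * s → |w.im - (Y : ℝ) * s| < 20 * s → w ∈ e.E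
  Eq' : ∀ w : ℂ, |w.re| < 26 * ((N : ℝ) * s) → |w.im| < 26 * ((N : ℝ) * s) → w ∈ e'.E
  Eb' : ∀ w : ℂ, -44 * ((N : ℝ) * s) < w.re → w.re < 0 → |w.im| < 20 * ((N : ℝ) * s) → w ∈ e'.E

section lay

variable {s : ℝ} {N M Y : ℤ} {e e' : PvnkEnd}

theorem pvlzq_F_y (H : PvlzqPar s N M Y) {t : ℝ} (ht : t ≤ s / 2) (β : Bool) {w : ℂ} (hw : w ∈ pvlzqF s t N M Y β) : -14 * ((N : ℝ) * s) ≤ w.im ∧ w.im ≤ 14 * ((N : ℝ) * s) := by
  have h0 := H.s0; have h1 := H.rN; have h2 := H.rY1; have h3 := H.rY2; have h4 := H.rM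
  cases β
  · rcases hw with ((hw | hw) | hw) | hw <;> exact ⟨by linarith [hw.2.2.1], by linarith [hw.2.2.2]⟩
  · rcases hw with hw | hw <;> exact ⟨by linarith [hw.2.2.1], by linarith [hw.2.2.2]⟩

/-- **THE REGION OF THE FUNNEL `r`** : all that it reads off the two door squares lies in ONE rectangle, East of the door square, West of the square of `u` -/
theorem pvlzq_Kp (H : PvlzqPar s N M Y) (F : PvlzqFine s N M Y e e') :
    pvnhKp ((pvlzqWk s N M Y).lk e e') (pvlzqWk s N M Y).Et ⊆ rswRect (26 * s - (M : ℝ) * s) (-26 * ((N : ℝ) * s)) (-20 * ((N : ℝ) * s)) (20 * ((N : ℝ) * s)) := by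
  have h0 := H.s0; have h1 := H.rN; have h2 := H.rY1; have h3 := H.rY2; have h4 := H.rM
  rintro w ⟨hw, hO⟩
  have hO1 : w ∉ e.O := fun h => hO (Or.inl h)
  have hO2 : w ∉ e'.O := fun h => hO (Or.inr h)
  rcases hw with (((hw | hw) | hw) | hw) | hw
  · obtain ⟨a1, a2, a3⟩ := F.Ef w hw hO1
    rw [abs_le] at a3
    exact ⟨a1, by linarith, by linarith [a3.1], by linarith [a3.2]⟩
  · obtain ⟨a1, a2, a3⟩ := F.Ef' w hw hO2
    rw [abs_le] at a3
    exact ⟨by linarith, a2, by linarith [a3.1], by linarith [a3.2]⟩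
  · have k := pvlzq_win H true hw
    obtain ⟨a1, a2⟩ := pvlzq_F_x H (by linarith) true k
    obtain ⟨a3, a4⟩ := pvlzq_F_y H (by linarith) true k
    exact ⟨a1, a2, by linarith, by linarith⟩
  · have k := pvlzq_win H false hw
    obtain ⟨a1, a2⟩ := pvlzq_F_x H (by linarith) false k
    obtain ⟨a3, a4⟩ := pvlzq_F_y H (by linarith) false k
    exact ⟨a1, a2, by linarith, by linarith⟩
  · obtain ⟨a1, a2⟩ := pvlzq_Et_x H hw
    rcases hw with hw | hw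
    · exact ⟨a1, a2, by linarith [hw.2.2.1], by linarith [hw.2.2.2]⟩
    · exact ⟨a1, a2, by linarith [hw.2.2.1], by linarith [hw.2.2.2]⟩

theorem pvlzq_ball_rect {z : ℂ} {t a b c d : ℝ} (h1 : a + t ≤ z.re) (h2 : z.re + t ≤ b) (h3 : c + t ≤ z.im) (h4 : z.im + t ≤ d) : closedBall z t ⊆ rswRect a b c d := by
  intro v hv
  obtain ⟨p1, p2, p3, p4⟩ := pvkgg_ball_box hv
  exact ⟨by linarith, by linarith, by linarith, by linarith⟩

/-- deep in the window of the door end -/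
theorem pvlzq_in_d (H : PvlzqPar s N M Y) (F : PvlzqFine s N M Y e e') {z : ℂ}
    (hz : z ∈ rswRect (s - (M : ℝ) * s) (41 * s - (M : ℝ) * s) ((Y : ℝ) * s - 17 * s) ((Y : ℝ) * s + 17 * s)) : closedBall z (5 * (s / 2)) ⊆ e.E := by
  have h0 := H.s0
  obtain ⟨z1, z2, z3, z4⟩ := hz
  intro v hv
  obtain ⟨p1, p2, p3, p4⟩ := pvkgg_ball_box hv
  by_cases hc : z.re ≤ 23 * s - (M : ℝ) * s
  · exact F.Eq v (abs_lt.2 ⟨by linarith, by linarith⟩) (abs_lt.2 ⟨by linarith, by linarith⟩)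
  · push Not at hc
    exact F.Eb v (by linarith) (by linarith) (abs_lt.2 ⟨by linarith, by linarith⟩)

/-- deep in the window of the end of `u` -/
theorem pvlzq_in_u (H : PvlzqPar s N M Y) (F : PvlzqFine s N M Y e e') {z : ℂ}
    (hz : z ∈ rswRect (-41 * ((N : ℝ) * s)) (-((N : ℝ) * s)) (-16 * ((N : ℝ) * s)) (16 * ((N : ℝ) * s))) : closedBall z (5 * ((N : ℝ) * s / 2)) ⊆ e'.E := by
  have h0 := H.s0; have h1 := H.rN
  obtain ⟨z1, z2, z3, z4⟩ := hz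
  intro v hv
  obtain ⟨p1, p2, p3, p4⟩ := pvkgg_ball_box hv
  by_cases hc : -23 * ((N : ℝ) * s) ≤ z.re
  · exact F.Eq' v (abs_lt.2 ⟨by linarith, by linarith⟩) (abs_lt.2 ⟨by linarith, by linarith⟩)
  · push Not at hc
    exact F.Eb' v (by linarith) (by linarith) (abs_lt.2 ⟨by linarith, by linarith⟩)

/-- deep in the thin part of the window of the corridor -/
theorem pvlzq_in_t1 (H : PvlzqPar s N M Y) {z : ℂ}
    (hz : z ∈ rswRect (29 * s - (M : ℝ) * s) (-52 * ((N : ℝ) * s)) ((Y : ℝ) * s - 17 * s) ((Y : ℝ) * s + 17 * s)) : closedBall z (5 * (s / 2)) ⊆ pvlzqEt s N M Y := by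
  have h0 := H.s0; have h1 := H.rN
  obtain ⟨z1, z2, z3, z4⟩ := hz
  exact (pvlzq_ball_rect (by linarith) (by linarith) (by linarith) (by linarith)).trans subset_union_left

/-- deep in the big part of the window of the corridor -/
theorem pvlzq_in_t2 (H : PvlzqPar s N M Y) {z : ℂ}
    (hz : z ∈ rswRect (-56 * ((N : ℝ) * s)) (-27 * ((N : ℝ) * s)) (-16 * ((N : ℝ) * s)) (16 * ((N : ℝ) * s))) : closedBall z (5 * (s / 2)) ⊆ pvlzqEt s N M Y := by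
  have h0 := H.s0; have h1 := H.rN
  obtain ⟨z1, z2, z3, z4⟩ := hz
  exact (pvlzq_ball_rect (by linarith) (by linarith) (by linarith) (by linarith)).trans subset_union_right

theorem pvlzq_K_a (H : PvlzqPar s N M Y) {z : ℂ}
    (hz : z ∈ rswRect (3 * s - (M : ℝ) * s) (-52 * ((N : ℝ) * s)) ((Y : ℝ) * s - 15 * s) ((Y : ℝ) * s + 15 * s)) : closedBall z (3 * (s / 2)) ⊆ pvlzqKE s N M Y := by
  have h0 := H.s0; have h1 := H.rN
  obtain ⟨z1, z2, z3, z4⟩ := hz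
  exact (pvlzq_ball_rect (by linarith) (by linarith) (by linarith) (by linarith)).trans subset_union_left

theorem pvlzq_K_b (H : PvlzqPar s N M Y) {z : ℂ}
    (hz : z ∈ rswRect (-54 * ((N : ℝ) * s)) (-2 * ((N : ℝ) * s)) (-15 * ((N : ℝ) * s)) (15 * ((N : ℝ) * s))) : closedBall z (3 * (s / 2)) ⊆ pvlzqKE s N M Y := by
  have h0 := H.s0; have h1 := H.rN
  obtain ⟨z1, z2, z3, z4⟩ := hz
  exact (pvlzq_ball_rect (by linarith) (by linarith) (by linarith) (by linarith)).trans subset_union_right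

theorem pvlzq_K_u (H : PvlzqPar s N M Y) {z : ℂ}
    (hz : z ∈ rswRect (-54 * ((N : ℝ) * s)) (-3 * ((N : ℝ) * s)) (-14 * ((N : ℝ) * s)) (14 * ((N : ℝ) * s))) : closedBall z (3 * ((N : ℝ) * s / 2)) ⊆ pvlzqKE s N M Y := by
  have h0 := H.s0; have h1 := H.rN
  obtain ⟨z1, z2, z3, z4⟩ := hz
  exact (pvlzq_ball_rect (by linarith) (by linarith) (by linarith) (by linarith)).trans subset_union_right

/-- the complement of the room of the run is connected (the room is star shaped) -/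
theorem pvlzq_KE_co (H : PvlzqPar s N M Y) : IsPreconnected (pvlzqKE s N M Y)ᶜ := by
  have h0 := H.s0; have h1 := H.rN; have h2 := H.rY1; have h3 := H.rY2; have h4 := H.rM
  refine pvrt_star (p := (⟨-52 * ((N : ℝ) * s), (Y : ℝ) * s⟩ : ℂ)) (StarConvex.union ((rsw_rect_convex _ _ _ _).starConvex ?_) ((rsw_rect_convex _ _ _ _).starConvex ?_))
    ((pvlzq_rect_bdd _ _ _ _).union (pvlzq_rect_bdd _ _ _ _))
  · exact ⟨by show _ ≤ -52 * ((N : ℝ) * s); linarith, by show -52 * ((N : ℝ) * s) ≤ _; linarith, by show _ ≤ (Y : ℝ) * s; linarith, by show (Y : ℝ) * s ≤ _; linarith⟩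
  · exact ⟨by show _ ≤ -52 * ((N : ℝ) * s); linarith, by show -52 * ((N : ℝ) * s) ≤ _; linarith, by show _ ≤ (Y : ℝ) * s; linarith, by show (Y : ℝ) * s ≤ _; linarith⟩

/-- the three windows of the list -/
structure PvlzqMs (s : ℝ) (N M Y : ℤ) (e e' : PvnkEnd) (W : List (ℝ × Set ℂ)) : Prop where
  d : (s / 2, e.E) ∈ W
  u : ((N : ℝ) * s / 2, e'.E) ∈ W
  t : (s / 2, pvlzqEt s N M Y) ∈ W

variable {W : List (ℝ × Set ℂ)}

/-- the covering of the thin lanes -/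
theorem pvlzq_cov_thin (H : PvlzqPar s N M Y) (F : PvlzqFine s N M Y e e') (hW : PvlzqMs s N M Y e e' W) {z : ℂ}
    (hz : z ∈ rswRect (3 * s - (M : ℝ) * s) (-27 * ((N : ℝ) * s)) ((Y : ℝ) * s - 15 * s) ((Y : ℝ) * s + 15 * s)) :
    ∃ p ∈ W, closedBall z (5 * p.1) ⊆ p.2 ∧ closedBall z (3 * p.1) ⊆ pvlzqKE s N M Y := by
  have h0 := H.s0; have h1 := H.rN; have h2 := H.rY1; have h3 := H.rY2; have h4 := H.rM
  obtain ⟨z1, z2, z3, z4⟩ := hz
  by_cases c1 : z.re ≤ 41 * s - (M : ℝ) * s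
  · exact ⟨_, hW.d, pvlzq_in_d H F ⟨by linarith, c1, by linarith, by linarith⟩, pvlzq_K_a H ⟨z1, by linarith, z3, z4⟩⟩
  push Not at c1
  by_cases c2 : z.re ≤ -52 * ((N : ℝ) * s)
  · exact ⟨_, hW.t, pvlzq_in_t1 H ⟨by linarith, c2, by linarith, by linarith⟩, pvlzq_K_a H ⟨z1, c2, z3, z4⟩⟩
  push Not at c2
  exact ⟨_, hW.t, pvlzq_in_t2 H ⟨by linarith, z2, by linarith, by linarith⟩, pvlzq_K_b H ⟨by linarith, by linarith, by linarith, by linarith⟩⟩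

/-- the covering of the big part -/
theorem pvlzq_cov_big (H : PvlzqPar s N M Y) (hW : PvlzqMs s N M Y e e' W) {z : ℂ}
    (hz : z ∈ rswRect (-54 * ((N : ℝ) * s)) (-27 * ((N : ℝ) * s)) (-15 * ((N : ℝ) * s)) (15 * ((N : ℝ) * s))) :
    ∃ p ∈ W, closedBall z (5 * p.1) ⊆ p.2 ∧ closedBall z (3 * p.1) ⊆ pvlzqKE s N M Y := by
  have h0 := H.s0; have h1 := H.rN
  obtain ⟨z1, z2, z3, z4⟩ := hz
  exact ⟨_, hW.t, pvlzq_in_t2 H ⟨by linarith, z2, by linarith, by linarith⟩, pvlzq_K_b H ⟨z1, by linarith, z3, z4⟩⟩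

/-- the covering of the rooms of `u` -/
theorem pvlzq_cov_u (H : PvlzqPar s N M Y) (F : PvlzqFine s N M Y e e') (hW : PvlzqMs s N M Y e e' W) {z : ℂ}
    (hz : z ∈ rswRect (-41 * ((N : ℝ) * s)) (-3 * ((N : ℝ) * s)) (-13 * ((N : ℝ) * s)) (13 * ((N : ℝ) * s))) :
    ∃ p ∈ W, closedBall z (5 * p.1) ⊆ p.2 ∧ closedBall z (3 * p.1) ⊆ pvlzqKE s N M Y := by
  have h0 := H.s0; have h1 := H.rN
  obtain ⟨z1, z2, z3, z4⟩ := hz
  exact ⟨_, hW.u, pvlzq_in_u H F ⟨z1, by linarith, by linarith, by linarith⟩, pvlzq_K_u H ⟨by linarith, z2, by linarith, by linarith⟩⟩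

/-- the covering of the carriers of the walks -/
theorem pvlzq_cov_F (H : PvlzqPar s N M Y) (F : PvlzqFine s N M Y e e') (hW : PvlzqMs s N M Y e e' W) (β : Bool) {z : ℂ} (hz : z ∈ pvlzqF s 0 N M Y β) :
    ∃ p ∈ W, closedBall z (5 * p.1) ⊆ p.2 ∧ closedBall z (3 * p.1) ⊆ pvlzqKE s N M Y := by
  have h0 := H.s0; have h1 := H.rN; have h2 := H.rY1; have h3 := H.rY2; have h4 := H.rM
  cases β
  · rcases hz with ((hz | hz) | hz) | hz
    · exact pvlzq_cov_thin H F hW ⟨by linarith [hz.1], by linarith [hz.2.1], by linarith [hz.2.2.1], by linarith [hz.2.2.2]⟩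
    · exact pvlzq_cov_big H hW ⟨by linarith [hz.1], by linarith [hz.2.1], by linarith [hz.2.2.1], by linarith [hz.2.2.2]⟩
    · exact pvlzq_cov_big H hW ⟨by linarith [hz.1], by linarith [hz.2.1], by linarith [hz.2.2.1], by linarith [hz.2.2.2]⟩
    · exact pvlzq_cov_big H hW ⟨by linarith [hz.1], by linarith [hz.2.1], by linarith [hz.2.2.1], by linarith [hz.2.2.2]⟩
  · rcases hz with hz | hz
    · exact pvlzq_cov_thin H F hW ⟨by linarith [hz.1], by linarith [hz.2.1], by linarith [hz.2.2.1], by linarith [hz.2.2.2]⟩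
    · exact pvlzq_cov_big H hW ⟨by linarith [hz.1], by linarith [hz.2.1], by linarith [hz.2.2.1], by linarith [hz.2.2.2]⟩

/-- **`PvnlLay`** : the room of the run `pvlzqKE`, mask `univ`, ANY list which contains the three windows, ANY disjoint zones -/
theorem pvlzq_lay (H : PvlzqPar s N M Y) (E : PvlzqEnds s N M Y e e') (F : PvlzqFine s N M Y e e') (hW : PvlzqMs s N M Y e e' W) {Q Q' : Set ℂ} (far : Disjoint Q Q') :
    PvnlLay ((pvlzqWk s N M Y).lk e e') W (pvlzqKE s N M Y) univ Q Q' := by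
  have h0 := H.s0; have h1 := H.rN; have h2 := H.rY1; have h3 := H.rY2; have h4 := H.rM
  refine ⟨(pvlzq_rect_bdd _ _ _ _).union (pvlzq_rect_bdd _ _ _ _), pvlzq_KE_co H, far, ?_, ?_, ?_⟩
  · rintro z ((hz | hz) | hz)
    · rcases E.A₁ hz with h | h <;> exact pvlzq_cov_thin H F hW ⟨by linarith [h.1], by linarith [h.2.1], by linarith [h.2.2.1], by linarith [h.2.2.2]⟩
    · exact pvlzq_cov_F H F hW true (pvlzq_car H true hz)
    · rcases E.A₁' hz with h | h <;> exact pvlzq_cov_u H F hW ⟨by linarith [h.1], by linarith [h.2.1], by linarith [h.2.2.1], by linarith [h.2.2.2]⟩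
  · rintro z ((hz | hz) | hz)
    · rcases E.A₂ hz with h | h <;> exact pvlzq_cov_thin H F hW ⟨by linarith [h.1], by linarith [h.2.1], by linarith [h.2.2.1], by linarith [h.2.2.2]⟩
    · exact pvlzq_cov_F H F hW false (pvlzq_car H false hz)
    · rcases E.A₂' hz with h | h <;> exact pvlzq_cov_u H F hW ⟨by linarith [h.1], by linarith [h.2.1], by linarith [h.2.2.1], by linarith [h.2.2.2]⟩
  · rintro z (⟨z1, z2, z3, z4⟩ | ⟨z1, z2, z3, z4⟩)
    · by_cases c1 : z.re ≤ 41 * s - (M : ℝ) * s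
      · exact ⟨_, hW.d, pvlzq_in_d H F ⟨z1, c1, z3, z4⟩, subset_univ _⟩
      push Not at c1
      by_cases c2 : z.re ≤ -52 * ((N : ℝ) * s)
      · exact ⟨_, hW.t, pvlzq_in_t1 H ⟨by linarith, c2, z3, z4⟩, subset_univ _⟩
      push Not at c2
      exact ⟨_, hW.t, pvlzq_in_t2 H ⟨by linarith, by linarith, by linarith, by linarith⟩, subset_univ _⟩
    · by_cases c1 : z.re ≤ -41 * ((N : ℝ) * s)
      · exact ⟨_, hW.t, pvlzq_in_t2 H ⟨z1, by linarith, z3, z4⟩, subset_univ _⟩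
      push Not at c1
      exact ⟨_, hW.u, pvlzq_in_u H F ⟨c1.le, z2, z3, z4⟩, subset_univ _⟩

/-- the room of the run keeps off the rooms of the far vertices: it lies East of `pin0 + s`, West of `-(N s)` -/
theorem pvlzq_KE_x (H : PvlzqPar s N M Y) {w : ℂ} (hw : w ∈ pvlzqKE s N M Y) : s - (M : ℝ) * s ≤ w.re ∧ w.re ≤ -((N : ℝ) * s) := by
  have h0 := H.s0; have h1 := H.rN; have h4 := H.rM
  rcases hw with hw | hw <;> exact ⟨by linarith [hw.1], by linarith [hw.2.1]⟩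

end lay

/-! ## 7. the kit ends of record -/

section kit

theorem pvlzq_at_mem {z : ℂ} {α : ℝ} {S : Set ℂ} {w : ℂ} (h : w ∈ pvkdAt z (α : ℂ) S) : ∃ u ∈ S, w.re = z.re + α * u.re ∧ w.im = z.im + α * u.im := by
  obtain ⟨u, hu, rfl⟩ := h
  exact ⟨u, hu, by simp [pvthSim], by simp [pvthSim]⟩

theorem pvlzq_at_rect {z : ℂ} {α : ℝ} (hα : 0 ≤ α) (x0 x1 y0 y1 : ℝ) :
    pvkdAt z (α : ℂ) (rswRect x0 x1 y0 y1) ⊆ rswRect (z.re + α * x0) (z.re + α * x1) (z.im + α * y0) (z.im + α * y1) := by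
  intro w hw
  obtain ⟨u, ⟨u1, u2, u3, u4⟩, e1, e2⟩ := pvlzq_at_mem hw
  refine ⟨?_, ?_, ?_, ?_⟩
  · rw [e1]; linarith [mul_le_mul_of_nonneg_left u1 hα]
  · rw [e1]; linarith [mul_le_mul_of_nonneg_left u2 hα]
  · rw [e2]; linarith [mul_le_mul_of_nonneg_left u3 hα]
  · rw [e2]; linarith [mul_le_mul_of_nonneg_left u4 hα]

/-- the placed open door square -/
theorem pvlzq_at_O {z : ℂ} {α : ℝ} (hα : 0 < α) : pvkdAt z (α : ℂ) pvkgO = {w : ℂ | |w.re - z.re| < α * (13 / 160) ∧ |w.im - z.im| < α * (13 / 160)} := by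
  ext w
  constructor
  · intro hw
    obtain ⟨u, ⟨u1, u2, u3, u4⟩, e1, e2⟩ := pvlzq_at_mem hw
    refine ⟨abs_lt.2 ⟨?_, ?_⟩, abs_lt.2 ⟨?_, ?_⟩⟩
    · rw [e1]; linarith [mul_lt_mul_of_pos_left u1 hα]
    · rw [e1]; linarith [mul_lt_mul_of_pos_left u2 hα]
    · rw [e2]; linarith [mul_lt_mul_of_pos_left u3 hα]
    · rw [e2]; linarith [mul_lt_mul_of_pos_left u4 hα]
  · rintro ⟨h1, h2⟩
    rw [abs_lt] at h1 h2
    refine ⟨⟨(w.re - z.re) / α, (w.im - z.im) / α⟩, ⟨?_, ?_, ?_, ?_⟩, ?_⟩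
    · show -(13 / 160) < (w.re - z.re) / α
      rw [lt_div_iff₀ hα]; linarith [h1.1]
    · show (w.re - z.re) / α < 13 / 160
      rw [div_lt_iff₀ hα]; linarith [h1.2]
    · show -(13 / 160) < (w.im - z.im) / α
      rw [lt_div_iff₀ hα]; linarith [h2.1]
    · show (w.im - z.im) / α < 13 / 160
      rw [div_lt_iff₀ hα]; linarith [h2.2]
    · apply Complex.ext
      · simp only [pvthSim, Complex.add_re, Complex.mul_re, Complex.ofReal_re, Complex.ofReal_im, zero_mul, sub_zero]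
        field_simp
        ring
      · simp only [pvthSim, Complex.add_im, Complex.mul_im, Complex.ofReal_re, Complex.ofReal_im, zero_mul, add_zero]
        field_simp
        ring

variable {𝔱 : PvhfTr} {s : ℝ} {N M Y : ℤ}

/-- the placed thickened room: two boxes -/
theorem pvlzq_at_A (hLn : ∀ σ β, 𝔱.Ln σ β = (pvhfT (1 / 40)).Ln σ β) {z : ℂ} {α : ℝ} (σ β : Bool) {w : ℂ}
    (hw : w ∈ pvkdAt z (α : ℂ) (cthickening ((1 / 40 : ℝ) / 16) (𝔱.Ln σ β))) :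
    ∃ u : ℂ, w.re = z.re + α * u.re ∧ w.im = z.im + α * u.im ∧
      u ∈ (if β then pvkdRect σ (7 / 640) (49 / 640) (-(9 / 640)) (25 / 640) ∪ pvkdRect σ (31 / 640) (81 / 640) (7 / 640) (25 / 640)
        else pvkdRect σ (7 / 640) (49 / 640) (-(25 / 640)) (9 / 640) ∪ pvkdRect σ (31 / 640) (81 / 640) (-(25 / 640)) (-(7 / 640))) := by
  obtain ⟨u, hu, e1, e2⟩ := pvlzq_at_mem hw
  rw [hLn] at hu
  have h := pvhn_A_rect (r := 1 / 40) (t := (1 / 40 : ℝ) / 16) (by norm_num) σ β hu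
  refine ⟨u, e1, e2, ?_⟩
  norm_num at h ⊢
  exact h

/-- **THE KIT ENDS OF RECORD ARE ENDS OF THE FUNNEL `r`**      (any truncation with the rooms and targets of `pvhfT (1/40)` and windows in the closed windows of `pvjoT (1/40)`: `pvjoT (1/40)`, `pvk2T`) -/
theorem pvlzq_ends (hLn : ∀ σ β, 𝔱.Ln σ β = (pvhfT (1 / 40)).Ln σ β) (hDr : ∀ σ β, 𝔱.Dr σ β = (pvhfT (1 / 40)).Dr σ β)
    (hEs : ∀ σ, 𝔱.Es σ ⊆ pvwSq 0 (13 / 160) ∪ pvkdRect σ 0 (11 / 80) (-(1 / 16)) (1 / 16)) (H : PvlzqPar s N M Y) {z : ℂ} (hz1 : z.re = -((M : ℝ) * s)) (hz2 : z.im = (Y : ℝ) * s) (c : Bool) :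
    PvlzqEnds s N M Y (pvyeEnd (pvyeE0 (pvkdP (1 / 40)) 𝔱 pvkgO true) c z ((320 * s : ℝ) : ℂ)) (pvyeEnd (pvyeE0 (pvkdP (1 / 40)) 𝔱 pvkgO false) c 0 ((320 * ((N : ℝ) * s) : ℝ) : ℂ)) := by
  have h0 := H.s0
  have h1 := H.rN
  have hα : (0 : ℝ) < 320 * s := by linarith
  have hα' : (0 : ℝ) < 320 * ((N : ℝ) * s) := by linarith
  refine ⟨rfl, ?_, ?_, ?_, ?_, ?_, ?_, ?_, ?_, ?_, ?_, ?_, ?_, ?_, ?_, ?_, ?_⟩
  · rw [pvye_end_O]
    show pvkdAt z _ pvkgO = _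
    rw [pvlzq_at_O hα, hz1, hz2]
    ext w
    simp only [mem_ofPred_eq]
    have e1 : 320 * s * (13 / 160) = 26 * s := by ring
    have e2 : w.re - -((M : ℝ) * s) = w.re + (M : ℝ) * s := by ring
    rw [e1, e2]
  · rw [pvye_end_O]
    show pvkdAt 0 _ pvkgO = _
    rw [pvlzq_at_O hα']
    ext w
    simp only [mem_ofPred_eq, Complex.zero_re, Complex.zero_im, sub_zero]
    have e1 : 320 * ((N : ℝ) * s) * (13 / 160) = 26 * ((N : ℝ) * s) := by ring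
    rw [e1]
  · intro w hw
    rw [pvye_end_E] at hw
    obtain ⟨u, hu, e1, -⟩ := pvlzq_at_mem hw
    have hu' : u.re ≤ 11 / 80 := by
      rcases hEs true hu with h | h
      · have := (abs_le.1 h.1).2
        simp only [sub_zero] at this
        linarith
      · exact h.2.1
    rw [e1, hz1]
    nlinarith
  · intro w hw
    rw [pvye_end_E] at hw
    obtain ⟨u, hu, e1, -⟩ := pvlzq_at_mem hw
    have hu' : -(11 / 80) ≤ u.re := by
      rcases hEs false hu with h | h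
      · have := (abs_le.1 h.1).1
        simp only [sub_zero] at this
        linarith
      · exact h.1
    rw [e1, Complex.zero_re]
    nlinarith
  · intro w hw
    obtain ⟨u, e1, e2, hu⟩ := pvlzq_at_A hLn true true hw
    rw [if_pos rfl] at hu
    rcases hu with h | h
    · left
      obtain ⟨u1, u2, u3, u4⟩ := h
      exact ⟨by rw [e1, hz1]; nlinarith, by rw [e1, hz1]; nlinarith, by rw [e2, hz2]; nlinarith, by rw [e2, hz2]; nlinarith⟩
    · right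
      obtain ⟨u1, u2, u3, u4⟩ := h
      exact ⟨by rw [e1, hz1]; nlinarith, by rw [e1, hz1]; nlinarith, by rw [e2, hz2]; nlinarith, by rw [e2, hz2]; nlinarith⟩
  · intro w hw
    obtain ⟨u, e1, e2, hu⟩ := pvlzq_at_A hLn true false hw
    rw [if_neg Bool.false_ne_true] at hu
    rcases hu with h | h
    · left
      obtain ⟨u1, u2, u3, u4⟩ := h
      exact ⟨by rw [e1, hz1]; nlinarith, by rw [e1, hz1]; nlinarith, by rw [e2, hz2]; nlinarith, by rw [e2, hz2]; nlinarith⟩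
    · right
      obtain ⟨u1, u2, u3, u4⟩ := h
      exact ⟨by rw [e1, hz1]; nlinarith, by rw [e1, hz1]; nlinarith, by rw [e2, hz2]; nlinarith, by rw [e2, hz2]; nlinarith⟩
  · intro w hw
    obtain ⟨u, ⟨hu, -⟩, e1, -⟩ := pvlzq_at_mem hw
    have h2 : ‖u‖ < 2 * (1 / 40) := mem_ball_zero_iff.1 hu
    have h3 := (abs_le.1 ((Complex.abs_re_le_norm u).trans h2.le)).2
    rw [e1, hz1]; nlinarith
  · intro w hw
    obtain ⟨u, ⟨hu, -⟩, e1, -⟩ := pvlzq_at_mem hw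
    have h2 : ‖u‖ < 2 * (1 / 40) := mem_ball_zero_iff.1 hu
    have h3 := (abs_le.1 ((Complex.abs_re_le_norm u).trans h2.le)).2
    rw [e1, hz1]; nlinarith
  · intro w hw
    obtain ⟨u, hu, e1, -⟩ := pvlzq_at_mem hw
    have hu : u ∈ 𝔱.Dr true true := hu
    rw [hDr] at hu
    have h3 : 4 * (1 / 40) ≤ u.re := hu.1
    rw [e1, hz1]; nlinarith
  · intro w hw
    obtain ⟨u, hu, e1, -⟩ := pvlzq_at_mem hw
    have hu : u ∈ 𝔱.Dr true false := hu
    rw [hDr] at hu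
    have h3 : 4 * (1 / 40) ≤ u.re := hu.1
    rw [e1, hz1]; nlinarith
  · intro w hw
    obtain ⟨u, e1, e2, hu⟩ := pvlzq_at_A hLn false true hw
    rw [if_pos rfl] at hu
    simp only [Complex.zero_re, Complex.zero_im, zero_add] at e1 e2
    rcases hu with h | h
    · left
      obtain ⟨u1, u2, u3, u4⟩ := h
      exact ⟨by rw [e1]; nlinarith, by rw [e1]; nlinarith, by rw [e2]; nlinarith, by rw [e2]; nlinarith⟩
    · right
      obtain ⟨u1, u2, u3, u4⟩ := h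
      exact ⟨by rw [e1]; nlinarith, by rw [e1]; nlinarith, by rw [e2]; nlinarith, by rw [e2]; nlinarith⟩
  · intro w hw
    obtain ⟨u, e1, e2, hu⟩ := pvlzq_at_A hLn false false hw
    rw [if_neg Bool.false_ne_true] at hu
    simp only [Complex.zero_re, Complex.zero_im, zero_add] at e1 e2
    rcases hu with h | h
    · left
      obtain ⟨u1, u2, u3, u4⟩ := h
      exact ⟨by rw [e1]; nlinarith, by rw [e1]; nlinarith, by rw [e2]; nlinarith, by rw [e2]; nlinarith⟩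
    · right
      obtain ⟨u1, u2, u3, u4⟩ := h
      exact ⟨by rw [e1]; nlinarith, by rw [e1]; nlinarith, by rw [e2]; nlinarith, by rw [e2]; nlinarith⟩
  · intro w hw
    obtain ⟨u, ⟨hu, -⟩, e1, -⟩ := pvlzq_at_mem hw
    have h2 : ‖u‖ < 2 * (1 / 40) := mem_ball_zero_iff.1 hu
    have h3 := (abs_le.1 ((Complex.abs_re_le_norm u).trans h2.le)).1
    rw [e1, Complex.zero_re]; nlinarith
  · intro w hw
    obtain ⟨u, ⟨hu, -⟩, e1, -⟩ := pvlzq_at_mem hw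
    have h2 : ‖u‖ < 2 * (1 / 40) := mem_ball_zero_iff.1 hu
    have h3 := (abs_le.1 ((Complex.abs_re_le_norm u).trans h2.le)).1
    rw [e1, Complex.zero_re]; nlinarith
  · intro w hw
    obtain ⟨u, hu, e1, -⟩ := pvlzq_at_mem hw
    have hu : u ∈ 𝔱.Dr false true := hu
    rw [hDr] at hu
    have h3 : u.re ≤ -(4 * (1 / 40)) := hu.2.1
    rw [e1, Complex.zero_re]; nlinarith
  · intro w hw
    obtain ⟨u, hu, e1, -⟩ := pvlzq_at_mem hw
    have hu : u ∈ 𝔱.Dr false false := hu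
    rw [hDr] at hu
    have h3 : u.re ≤ -(4 * (1 / 40)) := hu.2.1
    rw [e1, Complex.zero_re]; nlinarith

/-- a point of a placed open box -/
theorem pvlzq_at_B {z : ℂ} {α : ℝ} (hα : 0 < α) {x0 x1 y0 y1 : ℝ} {w : ℂ} (h1 : z.re + α * x0 < w.re) (h2 : w.re < z.re + α * x1) (h3 : z.im + α * y0 < w.im) (h4 : w.im < z.im + α * y1) :
    w ∈ pvkdAt z (α : ℂ) (pvkgB x0 x1 y0 y1) := by
  refine ⟨⟨(w.re - z.re) / α, (w.im - z.im) / α⟩, ⟨?_, ?_, ?_, ?_⟩, ?_⟩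
  · show x0 < (w.re - z.re) / α
    rw [lt_div_iff₀ hα]; linarith
  · show (w.re - z.re) / α < x1
    rw [div_lt_iff₀ hα]; linarith
  · show y0 < (w.im - z.im) / α
    rw [lt_div_iff₀ hα]; linarith
  · show (w.im - z.im) / α < y1
    rw [div_lt_iff₀ hα]; linarith
  · apply Complex.ext
    · simp only [pvthSim, Complex.add_re, Complex.mul_re, Complex.ofReal_re, Complex.ofReal_im, zero_mul, sub_zero]
      field_simp
      ring
    · simp only [pvthSim, Complex.add_im, Complex.mul_im, Complex.ofReal_re, Complex.ofReal_im, zero_mul, add_zero]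
      field_simp
      ring

/-- **THE KIT ENDS AT THE OPEN WINDOWS `pvk2Es` HAVE FINE WINDOWS** -/
theorem pvlzq_fine (hEs : ∀ σ, 𝔱.Es σ = pvk2Es σ) (H : PvlzqPar s N M Y) {z : ℂ} (hz1 : z.re = -((M : ℝ) * s)) (hz2 : z.im = (Y : ℝ) * s) (c : Bool) :
    PvlzqFine s N M Y (pvyeEnd (pvyeE0 (pvkdP (1 / 40)) 𝔱 pvkgO true) c z ((320 * s : ℝ) : ℂ)) (pvyeEnd (pvyeE0 (pvkdP (1 / 40)) 𝔱 pvkgO false) c 0 ((320 * ((N : ℝ) * s) : ℝ) : ℂ)) := by
  have h0 := H.s0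
  have h1 := H.rN
  have hα : (0 : ℝ) < 320 * s := by linarith
  have hα' : (0 : ℝ) < 320 * ((N : ℝ) * s) := by linarith
  refine ⟨?_, ?_, ?_, ?_, ?_, ?_⟩
  · intro w hw hO
    have hw : w ∈ pvkdAt z ((320 * s : ℝ) : ℂ) (𝔱.Es true) := hw
    rw [hEs] at hw
    obtain ⟨u, hu, rfl⟩ := hw
    rcases pvk2_Es_sub true hu with h | ⟨⟨a1, a2⟩, a3, a4⟩
    · exact absurd (mem_image_of_mem _ h) hO
    · have e1 : (pvthSim z ((320 * s : ℝ) : ℂ) u).re = z.re + 320 * s * u.re := by simp [pvthSim]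
      have e2 : (pvthSim z ((320 * s : ℝ) : ℂ) u).im = z.im + 320 * s * u.im := by simp [pvthSim]
      rw [e1, e2, hz1, hz2]
      refine ⟨by nlinarith, by nlinarith, abs_le.2 ⟨by nlinarith, by nlinarith⟩⟩
  · intro w hw hO
    have hw : w ∈ pvkdAt 0 ((320 * ((N : ℝ) * s) : ℝ) : ℂ) (𝔱.Es false) := hw
    rw [hEs] at hw
    obtain ⟨u, hu, rfl⟩ := hw
    rcases pvk2_Es_sub false hu with h | ⟨⟨a1, a2⟩, a3, a4⟩
    · exact absurd (mem_image_of_mem _ h) hO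
    · have e1 : (pvthSim 0 ((320 * ((N : ℝ) * s) : ℝ) : ℂ) u).re = 320 * ((N : ℝ) * s) * u.re := by simp [pvthSim]
      have e2 : (pvthSim 0 ((320 * ((N : ℝ) * s) : ℝ) : ℂ) u).im = 320 * ((N : ℝ) * s) * u.im := by simp [pvthSim]
      rw [e1, e2]
      refine ⟨by nlinarith, by nlinarith, abs_le.2 ⟨by nlinarith, by nlinarith⟩⟩
  · intro w a1 a2
    show w ∈ pvkdAt z ((320 * s : ℝ) : ℂ) (𝔱.Es true)
    rw [hEs]
    rw [abs_lt] at a1 a2
    exact image_mono (show pvkgO ⊆ pvk2Es true from subset_union_left)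
      (pvlzq_at_B hα (by rw [hz1]; linarith [a1.1]) (by rw [hz1]; linarith [a1.2]) (by rw [hz2]; linarith [a2.1]) (by rw [hz2]; linarith [a2.2]))
  · intro w a1 a2 a3
    show w ∈ pvkdAt z ((320 * s : ℝ) : ℂ) (𝔱.Es true)
    rw [hEs]
    rw [abs_lt] at a3
    exact image_mono (show pvkgB 0 (11 / 80) (-(1 / 16)) (1 / 16) ⊆ pvk2Es true from subset_union_right)
      (pvlzq_at_B hα (by rw [hz1]; linarith) (by rw [hz1]; linarith) (by rw [hz2]; linarith [a3.1]) (by rw [hz2]; linarith [a3.2]))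
  · intro w a1 a2
    show w ∈ pvkdAt 0 ((320 * ((N : ℝ) * s) : ℝ) : ℂ) (𝔱.Es false)
    rw [hEs]
    rw [abs_lt] at a1 a2
    exact image_mono (show pvkgO ⊆ pvk2Es false from subset_union_left)
      (pvlzq_at_B hα' (by rw [Complex.zero_re]; linarith [a1.1]) (by rw [Complex.zero_re]; linarith [a1.2]) (by rw [Complex.zero_im]; linarith [a2.1]) (by rw [Complex.zero_im]; linarith [a2.2]))
  · intro w a1 a2 a3
    show w ∈ pvkdAt 0 ((320 * ((N : ℝ) * s) : ℝ) : ℂ) (𝔱.Es false)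
    rw [hEs]
    rw [abs_lt] at a3
    exact image_mono (show pvkgB (-(11 / 80)) 0 (-(1 / 16)) (1 / 16) ⊆ pvk2Es false from subset_union_right)
      (pvlzq_at_B hα' (by rw [Complex.zero_re]; linarith) (by rw [Complex.zero_re]; linarith) (by rw [Complex.zero_im]; linarith [a3.1]) (by rw [Complex.zero_im]; linarith [a3.2]))

end kit

/-! ## 8. the level `m` of `Γ` of road P -/

section level

open scoped ENNReal

theorem pvlzq_door (dc : ℝ) (n : ℤ) : (pvfjDoor 10 dc (pvrcDoor n ((-8 : ℤ), (0 : ℤ)) ((-1 : ℤ), (0 : ℤ))) ((-1 : ℤ), (0 : ℤ))).re = -(((53760 * n + 2880 : ℤ) : ℝ) * (dc / 21 / 320)) ∧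
    (pvfjDoor 10 dc (pvrcDoor n ((-8 : ℤ), (0 : ℤ)) ((-1 : ℤ), (0 : ℤ))) ((-1 : ℤ), (0 : ℤ))).im = ((6720 * (n / 2) + 3360 : ℤ) : ℝ) * (dc / 21 / 320) := by
  have e : pvrcDoor n ((-8 : ℤ), (0 : ℤ)) ((-1 : ℤ), (0 : ℤ)) = (n * (-8), n / 2) := by
    simp [pvrcDoor, pvrcOf]
  rw [e]
  constructor
  · simp only [pvfjDoor, pvfjA, pvtbPt, pvtZ, Complex.mul_re, Complex.ofReal_re, Complex.ofReal_im, Complex.add_re, Complex.sub_re, Complex.intCast_re, Complex.mul_im, Complex.I_re, Complex.I_im,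
      Complex.intCast_im, Complex.add_im, Complex.sub_im, Complex.one_re, Complex.one_im, Complex.div_ofNat_re, Complex.div_ofNat_im]
    push_cast
    ring
  · simp only [pvfjDoor, pvfjA, pvtbPt, pvtZ, Complex.mul_re, Complex.ofReal_re, Complex.ofReal_im, Complex.add_re, Complex.sub_re, Complex.intCast_re, Complex.mul_im, Complex.I_re, Complex.I_im,
      Complex.intCast_im, Complex.add_im, Complex.sub_im, Complex.one_re, Complex.one_im, Complex.div_ofNat_re, Complex.div_ofNat_im]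
    push_cast
    ring

theorem pvlzq_eD {τ : Type} {𝔶 : PvydGeo τ} {𝔤 : PvkdGeo} {𝔱 : PvhfTr} {b q : ℝ≥0∞} {δ su : ℕ → ℝ} (H : PvyeIs 𝔶 (pvyeV 𝔤 𝔱 b q) δ su) (c : Bool) (m : ℕ) (ε : ℝ) (σ : Bool) (z d : ℂ) :
    𝔶.eD c m ε σ z d = pvyeEnd (pvyeE0 𝔤.toPvkdPlug 𝔱 𝔤.O₀ σ) c z (d * δ m) := by
  have hO : pvthSim z d '' (𝔶.kit m ε).O₀ = (pvyeEnd ((pvyeV 𝔤 𝔱 b q).sd σ) c z (d * δ m)).O := by
    rw [H.kit, pvye_end_O, pvye_V_sd]
    show pvthSim z d '' (pvthSim 0 (δ m) '' 𝔤.O₀) = _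
    rw [pvbe_sc_reg]
    rfl
  unfold PvydGeo.eD pvydEnd
  rw [hO, H.en, pvye_V_sd]

theorem pvlzq_eU {τ : Type} {𝔶 : PvydGeo τ} {𝔤 : PvkdGeo} {𝔱 : PvhfTr} {b q : ℝ≥0∞} {δ su : ℕ → ℝ} (H : PvyeIs 𝔶 (pvyeV 𝔤 𝔱 b q) δ su) (c : Bool) (m : ℕ) (σ : Bool) (w : ℂ) :
    𝔶.eU c m σ w = pvyeEnd (pvyeE0 𝔤.toPvkdPlug 𝔱 𝔤.O₀ σ) c w (su m) := by
  have hO : pvthSim w 1 '' 𝔶.Ou m = (pvyeEnd ((pvyeV 𝔤 𝔱 b q).sd σ) c w (su m)).O := by
    rw [H.Ou, pvye_end_O, pvye_V_sd, pvbe_sc_reg, one_mul]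
    rfl
  unfold PvydGeo.eU pvydEnd
  rw [hO, H.eu, pvye_V_sd]


/-- **THE WALKS OF THE FUNNEL `r`** at the coarse cell `dc` (fine cell `dc / 21`), refinement `n` of the menu cell -/
noncomputable def pvlzqR (dc : ℝ) (n : ℕ) : PvydWalk := pvlzqWk (dc / 21 / 320) (840 * (n : ℤ)) (53760 * (n : ℤ) + 2880) (6720 * ((n : ℤ) / 2) + 3360)

theorem pvlzq_eqns_cite2 : True := by
  have := @pvlzqR.eq_1
  trivial

theorem pvlzq_par {dc : ℝ} (hdc : 0 < dc) {n : ℕ} (hn : 0 < n) : PvlzqPar (dc / 21 / 320) (840 * (n : ℤ)) (53760 * (n : ℤ) + 2880) (6720 * ((n : ℤ) / 2) + 3360) where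
  s0 := by positivity
  N1 := by omega
  Y1 := by omega
  Y2 := by omega
  M1 := by omega

/-- **WHAT THE FUNNEL `r` ASKS OF THE DATUM AT THE LEVEL `m`** (equations only) -/
structure PvlzqLv {τ : Type} {cc : ℝ} (𝔶 : PvydGeo τ) (𝔓 : PvrxPar τ cc) (𝔱 : PvhfTr) (b q : ℝ≥0∞) (δ su : ℕ → ℝ) (dc : ℝ) (n : ℕ) (m : ℕ) : Prop where
  is : PvyeIs 𝔶 (pvyeV pvkgG 𝔱 b q) δ su
  Ln : ∀ σ β, 𝔱.Ln σ β = (pvhfT (1 / 40)).Ln σ β
  Dr : ∀ σ β, 𝔱.Dr σ β = (pvhfT (1 / 40)).Dr σ β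
  Es : ∀ σ, 𝔱.Es σ ⊆ pvwSq 0 (13 / 160) ∪ pvkdRect σ 0 (11 / 80) (-(1 / 16)) (1 / 16)
  dc0 : 0 < dc
  n0 : 0 < n
  δ_eq : δ m = dc / 21
  su_eq : su m = 40 * ((n : ℝ) * dc)
  pin0 : (𝔓.Γ m).pin0 = pvfjDoor 10 dc (pvrcDoor (n : ℤ) ((-8 : ℤ), (0 : ℤ)) ((-1 : ℤ), (0 : ℤ))) ((-1 : ℤ), (0 : ℤ))
  din0 : (𝔓.Γ m).din0 = 1
  wr : 𝔶.wr m = pvlzqR dc n

variable {τ : Type} {cc : ℝ} {𝔶 : PvydGeo τ} {𝔓 : PvrxPar τ cc} {𝔱 : PvhfTr} {b q : ℝ≥0∞} {δ su : ℕ → ℝ} {dc : ℝ} {n m : ℕ}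

/-- the link of record is the abstract funnel -/
theorem PvlzqLv.link (L : PvlzqLv 𝔶 𝔓 𝔱 b q δ su dc n m) (ε : ℝ) : ∃ e e' : PvnkEnd, 𝔶.lr 𝔓 m ε = (pvlzqR dc n).lk e e' ∧
    e = 𝔶.eD true m ε true (𝔓.Γ m).pin0 (𝔓.Γ m).din0 ∧ e' = 𝔶.eU true m false 0 ∧
    PvlzqEnds (dc / 21 / 320) (840 * (n : ℤ)) (53760 * (n : ℤ) + 2880) (6720 * ((n : ℤ) / 2) + 3360) e e' := by
  refine ⟨_, _, ?_, rfl, rfl, ?_⟩
  · unfold PvydGeo.lr
    rw [L.wr]
  · rw [pvlzq_eD L.is, pvlzq_eU L.is, L.din0, L.δ_eq, L.su_eq]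
    have e1 : (1 : ℂ) * ((dc / 21 : ℝ) : ℂ) = ((320 * (dc / 21 / 320) : ℝ) : ℂ) := by
      rw [one_mul]
      congr 1
      ring
    have e2 : ((40 * ((n : ℝ) * dc) : ℝ) : ℂ) = ((320 * (((840 * (n : ℤ) : ℤ) : ℝ) * (dc / 21 / 320)) : ℝ) : ℂ) := by
      congr 1
      push_cast
      ring
    rw [e1, e2]
    obtain ⟨d1, d2⟩ := pvlzq_door dc (n : ℤ)
    exact pvlzq_ends L.Ln L.Dr L.Es (pvlzq_par L.dc0 L.n0) (by rw [L.pin0]; exact d1) (by rw [L.pin0]; exact d2) true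

/-- **`r_geo`** -/
theorem PvlzqLv.geo (L : PvlzqLv 𝔶 𝔓 𝔱 b q δ su dc n m) (ε : ℝ) : (𝔶.lr 𝔓 m ε).Geo := by
  obtain ⟨e, e', h, -, -, E⟩ := L.link ε
  rw [h]
  exact pvlzq_geo (pvlzq_par L.dc0 L.n0) E

/-- **`r_rooms`** -/
theorem PvlzqLv.rooms (L : PvlzqLv 𝔶 𝔓 𝔱 b q δ su dc n m) (ε : ℝ) : (𝔶.lr 𝔓 m ε).Rooms := by
  obtain ⟨e, e', h, -, -, E⟩ := L.link ε
  rw [h]
  exact pvlzq_rooms (pvlzq_par L.dc0 L.n0) E

/-- **`r_win`** -/
theorem PvlzqLv.win (L : PvlzqLv 𝔶 𝔓 𝔱 b q δ su dc n m) : PvnhWin (𝔶.wr m).Et (𝔶.wr m).M := by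
  rw [L.wr]
  exact pvlzq_winM _ _ _ _

/-- **`r_off`** -/
theorem PvlzqLv.off (L : PvlzqLv 𝔶 𝔓 𝔱 b q δ su dc n m) (ε : ℝ) : PvnhOff (𝔶.lr 𝔓 m ε) (𝔶.wr m).Et (𝔶.wr m).M := by
  obtain ⟨e, e', h, -, -, E⟩ := L.link ε
  rw [h, L.wr]
  exact pvlzq_offM (pvlzq_par L.dc0 L.n0) E

/-- **`r_lim`** -/
theorem PvlzqLv.lim (L : PvlzqLv 𝔶 𝔓 𝔱 b q δ su dc n m) : Tendsto (fun ε : ℝ => pvP ε ((𝔶.wr m).M)ᶜ) (𝓝[>] 0) (𝓝 0) := by
  rw [L.wr]
  exact pvlzq_lim (pvlzq_par L.dc0 L.n0)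

/-- **`d40`** -/
theorem PvlzqLv.d40 (L : PvlzqLv 𝔶 𝔓 𝔱 b q δ su dc n m) : (𝔓.Γ m).din0 ^ 4 = 1 := by
  rw [L.din0, one_pow]

/-- **THE ROOM OF THE RUN OF THE FUNNEL `r`** -/
def pvlzqKR (dc : ℝ) (n : ℕ) : Set ℂ := pvlzqKE (dc / 21 / 320) (840 * (n : ℤ)) (53760 * (n : ℤ) + 2880) (6720 * ((n : ℤ) / 2) + 3360)

theorem pvlzq_eqns_cite3 : True := by
  have := @pvlzqKR.eq_1
  trivial

/-- the link of record, fine windows -/
theorem PvlzqLv.fine (L : PvlzqLv 𝔶 𝔓 𝔱 b q δ su dc n m) (hEs : ∀ σ, 𝔱.Es σ = pvk2Es σ) (ε : ℝ) :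
    PvlzqFine (dc / 21 / 320) (840 * (n : ℤ)) (53760 * (n : ℤ) + 2880) (6720 * ((n : ℤ) / 2) + 3360) (𝔶.eD true m ε true (𝔓.Γ m).pin0 (𝔓.Γ m).din0) (𝔶.eU true m false 0) := by
  rw [pvlzq_eD L.is, pvlzq_eU L.is, L.din0, L.δ_eq, L.su_eq]
  have e1 : (1 : ℂ) * ((dc / 21 : ℝ) : ℂ) = ((320 * (dc / 21 / 320) : ℝ) : ℂ) := by
    rw [one_mul]
    congr 1
    ring
  have e2 : ((40 * ((n : ℝ) * dc) : ℝ) : ℂ) = ((320 * (((840 * (n : ℤ) : ℤ) : ℝ) * (dc / 21 / 320)) : ℝ) : ℂ) := by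
    congr 1
    push_cast
    ring
  rw [e1, e2]
  obtain ⟨d1, d2⟩ := pvlzq_door dc (n : ℤ)
  exact pvlzq_fine hEs (pvlzq_par L.dc0 L.n0) (by rw [L.pin0]; exact d1) (by rw [L.pin0]; exact d2) true

/-- **THE REGION `K_r`** (58: `r_sd`, and `hK` of `r_pl` from a rectangle;   `d = dl h = n dc`) : East of the door, West of `-(13/4) d`, `|im| ≤ (5/2) d` -/
theorem PvlzqLv.Kp (L : PvlzqLv 𝔶 𝔓 𝔱 b q δ su dc n m) (hEs : ∀ σ, 𝔱.Es σ = pvk2Es σ) (ε : ℝ) : ∀ x ∈ pvnhKp (𝔶.lr 𝔓 m ε) (𝔶.wr m).Et,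
    (𝔓.Γ m).pin0.re + δ m * (13 / 160) ≤ x.re ∧ x.re ≤ -(13 / 4 * ((n : ℝ) * dc)) ∧ |x.im| ≤ 5 / 2 * ((n : ℝ) * dc) := by
  intro x hx
  obtain ⟨e, e', h, rfl, rfl, -⟩ := L.link ε
  rw [h, L.wr] at hx
  obtain ⟨a1, a2, a3, a4⟩ := pvlzq_Kp (pvlzq_par L.dc0 L.n0) (L.fine hEs ε) hx
  obtain ⟨d1, -⟩ := pvlzq_door dc (n : ℤ)
  rw [L.pin0, d1, L.δ_eq]
  push_cast at a1 a2 a3 a4 ⊢
  exact ⟨by linarith, by linarith, abs_le.2 ⟨by linarith, by linarith⟩⟩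

/-- **`PvnlLay`** at the room `pvlzqKR dc n`, ANY list with the three windows (meshes `δ_m / 640 = δ_m ρ₀`, `su_m / 640`, `δ_m / 640`), ANY disjoint zones -/
theorem PvlzqLv.lay (L : PvlzqLv 𝔶 𝔓 𝔱 b q δ su dc n m) (hEs : ∀ σ, 𝔱.Es σ = pvk2Es σ) (ε : ℝ) {W : List (ℝ × Set ℂ)} {ρd ρu ρt : ℝ} (e1 : ρd = δ m / 640) (e2 : ρu = su m / 640) (e3 : ρt = δ m / 640)
    (hd : (ρd, (𝔶.eD true m ε true (𝔓.Γ m).pin0 (𝔓.Γ m).din0).E) ∈ W) (hu : (ρu, (𝔶.eU true m false 0).E) ∈ W) (ht : (ρt, (𝔶.wr m).Et) ∈ W) {Q Q' : Set ℂ} (far : Disjoint Q Q') :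
    PvnlLay (𝔶.lr 𝔓 m ε) W (pvlzqKR dc n) univ Q Q' := by
  obtain ⟨e, e', h, rfl, rfl, E⟩ := L.link ε
  rw [h]
  refine pvlzq_lay (pvlzq_par L.dc0 L.n0) E (L.fine hEs ε) ⟨?_, ?_, ?_⟩ far
  · have : dc / 21 / 320 / 2 = ρd := by rw [e1, L.δ_eq]; ring
    rw [this]; exact hd
  · have : ((840 * (n : ℤ) : ℤ) : ℝ) * (dc / 21 / 320) / 2 = ρu := by rw [e2, L.su_eq]; push_cast; ring
    rw [this]; exact hu
  · have : dc / 21 / 320 / 2 = ρt := by rw [e3, L.δ_eq]; ring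
    rw [this]
    rw [L.wr] at ht
    exact ht

/-- the room of the run keeps off the room of the far vertex of the door plug (`hK` of `pvyh_at_D0` of 291, `σ = true`) -/
theorem PvlzqLv.far_d (L : PvlzqLv 𝔶 𝔓 𝔱 b q δ su dc n m) : Disjoint (pvlzqKR dc n) (pvkdAt (𝔓.Γ m).pin0 (𝔓.Γ m).din0 (pvkgG.toPvkdPlug.sc (δ m)).Zm) := by
  rw [Set.disjoint_left]
  rintro w hw ⟨v, ⟨u, hu, rfl⟩, rfl⟩
  obtain ⟨a1, -⟩ := pvlzq_KE_x (pvlzq_par L.dc0 L.n0) hw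
  obtain ⟨d1, -⟩ := pvlzq_door dc (n : ℤ)
  have hu2 : u.re ≤ -(1 / 40 / 2) := hu.2.1
  have e : (pvthSim (𝔓.Γ m).pin0 (𝔓.Γ m).din0 (vorSim ((δ m : ℝ) : ℂ) 0 u)).re = (𝔓.Γ m).pin0.re + δ m * u.re := by
    rw [L.din0]
    simp [pvthSim, vorSim]
  rw [e, L.pin0, d1, L.δ_eq] at a1
  have := L.dc0
  nlinarith

/-- the room of the run keeps off the room of the far vertex of the reference plug (`hK` of `pvyh_at_U0` of 291, `σ = false`) -/
theorem PvlzqLv.far_u (L : PvlzqLv 𝔶 𝔓 𝔱 b q δ su dc n m) : Disjoint (pvlzqKR dc n) (pvkdAt 0 1 (pvkgG.toPvkdPlug.sc (su m)).Zp) := by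
  rw [Set.disjoint_left]
  rintro w hw ⟨v, ⟨u, hu, rfl⟩, rfl⟩
  obtain ⟨-, a2⟩ := pvlzq_KE_x (pvlzq_par L.dc0 L.n0) hw
  have hu2 : 1 / 40 / 2 ≤ u.re := hu.1
  have e : (pvthSim 0 1 (vorSim ((su m : ℝ) : ℂ) 0 u)).re = su m * u.re := by
    simp [pvthSim, vorSim]
  rw [e, L.su_eq] at a2
  have h1 := L.dc0
  have h2 : (0 : ℝ) < (n : ℝ) := by exact_mod_cast L.n0
  have h3 : 0 < (n : ℝ) * dc := mul_pos h2 h1
  push_cast at a2
  nlinarith

/-- **THE LEVEL `m` OF `Γ` OF ROAD P**      (`𝔑r.mm = 10`: `rfl` at `pvrsNum 𝔤`;   `hΓ`: `rfl` at `pveqP c H m0`;   `hδ`: `pveq_gam_del`;   `hsu`: `rfl` at `pveqSu`) -/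
theorem pvlzq_lv {𝔑r : PvrcNum} {𝔑 : PvmnNum} {ty : τ → PvmnType} (H : PvlzHyp 𝔑r 𝔑 ty) (hmm : 𝔑r.mm = 10) (c : ℝ) (hΓ : 𝔓.Γ m = pvlzGam H c m)
    (is : PvyeIs 𝔶 (pvyeV pvkgG 𝔱 b q) δ su) (hLn : ∀ σ β, 𝔱.Ln σ β = (pvhfT (1 / 40)).Ln σ β) (hDr : ∀ σ β, 𝔱.Dr σ β = (pvhfT (1 / 40)).Dr σ β)
    (hEs : ∀ σ, 𝔱.Es σ ⊆ pvwSq 0 (13 / 160) ∪ pvkdRect σ 0 (11 / 80) (-(1 / 16)) (1 / 16)) (hδ : δ m = (pvlzGam H c m).δ) (hsu : su m = 40 * 𝔑r.dl * pvlmH m)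
    (hwr : 𝔶.wr m = pvlzqR (𝔑r.dc c m) (pvlmN c m)) : PvlzqLv 𝔶 𝔓 𝔱 b q δ su (𝔑r.dc c m) (pvlmN c m) m where
  is := is
  Ln := hLn
  Dr := hDr
  Es := hEs
  dc0 := pvrc_dc_pos H.ok c m
  n0 := pvlm_N_pos c m
  δ_eq := by
    rw [hδ, pvlz_del, hmm]
    norm_num
  su_eq := by
    rw [hsu, pvrc_dc_mul H.ok c m]
    ring
  pin0 := by rw [hΓ, pvlz_pin0, hmm]
  din0 := by rw [hΓ, pvlz_din0]
  wr := hwr

end level

end Claimed.Agent.R289
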