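-- KEEP
import Claimed.Agent.R289.Tr.LaneS
import Claimed.Agent.R289.Tr.EndP
import Claimed.Agent.R289.Tr.RingIn

/-!
# Row 289 (S0537, Cardy for Poisson-Voronoi), THE WALL, ROAD P, LINKGEO (ruling P12 of 273), file Tr/LinkGeoW : THE WHITE HALF      (helper15, second of helper164; prefix `pvli_`, `Pvli`, `pvli`)

* sec. 1  **HOOK ZONES OF THE STRIP** (`PvfpZone` of 272 from the corridor API of `Tr/LaneP`): `pvli_zone_up` (paths from the low windows to the high windows), `pvli_zone_dn` (mirror), for ANY part `M` of the strip, placed at `z`,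
          thickened by `μ ≤ δ/20`, ANY mesh `δw ≤ δ/40` of the walk, ABSOLUTE cells (no alignment).      **`pvli_zone_p`** : zone = the windows `N-5..N-3` (the END of the corridor is the only safe place: the corridor may be Z-shaped, R3 of 225);
          **`pvli_zone_m`** : zone = the windows `3..5`.      `pvli_tail_sub`, `pvli_head_sub` : these windows (with a margin `δ/4`) lie in `U(N¹{A1})`, `U(N¹{A0})`.
          Consumers: `z₂`, `z₂'` of `PvnkLink.Geo` (272, thick links of 164), `PvqwDat.Hook.zs/zt` (147, GLUE-W of 205).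
-/

set_option autoImplicit false
set_option linter.unusedSectionVars false
set_option linter.unusedVariables false
set_option linter.unusedSimpArgs false

namespace Claimed.Agent.R289

open Relation Set Metric Claims.C0467 Claimed.Agent.R291

/-! ## 1. hook zones of the strip -/

section zone

variable {𝔑 : PvmnNum} {τ : PvmnType} {ln : ((ℤ × ℤ) × (ℤ × ℤ)) × ℕ} {δ μ δw : ℝ} {a b a' b' i j : ℕ} {p q z : ℂ}

/-- far parts of the strip are apart IN ONE COORDINATE -/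
theorem pvli_far_coord (hτ : PvmnIsType 𝔑 τ) (hl : PvmnLaneR τ ln.1 ln.2) (hδ : 0 < δ) (hab : b + 3 ≤ a') (hb' : b' ≤ pvlpN τ ln) (hp : p ∈ pvlpWin δ τ ln a b) (hq : q ∈ pvlpWin δ τ ln a' b') :
    δ / 10 < |q.re - p.re| ∨ δ / 10 < |q.im - p.im| := by
  obtain ⟨i, h1, h2, h3⟩ := pvlp_mem_win.1 hp
  obtain ⟨j, h4, h5, h6⟩ := pvlp_mem_win.1 hq
  by_contra hcon
  push Not at hcon
  obtain ⟨hre, him⟩ := hcon
  have hre' : |p.re - q.re| ≤ δ / 10 := by rw [abs_sub_comm]; exact hre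
  have him' : |p.im - q.im| ≤ δ / 10 := by rw [abs_sub_comm]; exact him
  obtain ⟨n1, n2⟩ := (pvlp_C_cor hτ hl).far i j (by omega) (by omega)
  exact n2 ⟨n1, pvlp_idx_coord hδ _ _ p.re q.re h3.1 h6.1 hre, pvlp_idx_coord hδ _ _ q.re p.re h6.1 h3.1 hre',
    pvlp_idx_coord hδ _ _ p.im q.im h3.2 h6.2 him, pvlp_idx_coord hδ _ _ q.im p.im h6.2 h3.2 him'⟩

/-- a point of the closed thickening of a placed part of the strip -/
theorem pvli_cth (hμ : 0 ≤ μ) {x : ℂ} (hx : x ∈ cthickening μ ((fun p => p + z) '' pvlpWin δ τ ln a b)) : ∃ p ∈ pvlpWin δ τ ln a b, ‖x - (p + z)‖ ≤ μ := by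
  have hc : IsCompact ((fun p => p + z) '' pvlpWin δ τ ln a b) := (pvlp_win_compact δ τ ln a b).image (continuous_id.add continuous_const)
  rw [hc.cthickening_eq_biUnion_closedBall hμ] at hx
  obtain ⟨y, ⟨p, hp, rfl⟩, hxy⟩ := mem_iUnion₂.1 hx
  exact ⟨p, hp, by rwa [mem_closedBall, dist_eq_norm] at hxy⟩

theorem pvli_cth_closed : IsClosed (cthickening μ ((fun p => p + z) '' pvlpWin δ τ ln a b)) := isClosed_cthickening

/-- the thickenings of two far parts of the strip are disjoint -/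
theorem pvli_cth_disj (hτ : PvmnIsType 𝔑 τ) (hl : PvmnLaneR τ ln.1 ln.2) (hδ : 0 < δ) (hμ : 0 ≤ μ) (hμ' : μ ≤ δ / 20) (hab : b + 3 ≤ a') (hb' : b' ≤ pvlpN τ ln) :
    Disjoint (cthickening μ ((fun p => p + z) '' pvlpWin δ τ ln a b)) (cthickening μ ((fun p => p + z) '' pvlpWin δ τ ln a' b')) := by
  rw [Set.disjoint_left]
  intro x h1 h2
  obtain ⟨p, hp, hxp⟩ := pvli_cth hμ h1
  obtain ⟨q, hq, hxq⟩ := pvli_cth hμ h2
  have h3 := pvlp_win_far hτ hl hδ hab hb' hp hq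
  have h4 : ‖q - p‖ ≤ ‖x - (p + z)‖ + ‖x - (q + z)‖ := by
    have e : q - p = (x - (p + z)) - (x - (q + z)) := by ring
    rw [e]
    exact norm_sub_le _ _
  linarith

/-- the thickening of a union of two stretches -/
theorem pvli_cth_cover (hμ : 0 ≤ μ) {M : Set ℂ} {c d : ℕ} (hM : M ⊆ pvlpWin δ τ ln 0 d) (hac : a ≤ c + 1) (hcb : c ≤ b) (hbd : b ≤ d) :
    cthickening μ ((fun p => p + z) '' M) ⊆ cthickening μ ((fun p => p + z) '' pvlpWin δ τ ln 0 c) ∪ cthickening μ ((fun p => p + z) '' pvlpWin δ τ ln a b) ∪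
      cthickening μ ((fun p => p + z) '' pvlpWin δ τ ln (b + 1) d) := by
  intro x hx
  obtain ⟨p, hp, hxp⟩ := pvli_cth hμ (cthickening_subset_of_subset μ (image_mono hM) hx)
  obtain ⟨i, -, hi, hpi⟩ := pvlp_mem_win.1 hp
  have key : ∀ u v : ℕ, u ≤ i → i ≤ v → x ∈ cthickening μ ((fun p => p + z) '' pvlpWin δ τ ln u v) := by
    intro u v hu hv
    refine mem_cthickening_of_dist_le x (p + z) μ _ ⟨p, pvlp_mem_win.2 ⟨i, hu, hv, hpi⟩, rfl⟩ ?_
    rwa [dist_eq_norm]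
  rcases Nat.lt_or_ge c i with h1 | h1
  · rcases Nat.lt_or_ge b i with h2 | h2
    · exact Or.inr (key _ _ h2 hi)
    · exact Or.inl (Or.inr (key _ _ (by omega) h2))
  · exact Or.inl (Or.inl (key _ _ (Nat.zero_le _) h1))

/-- **HOOK ZONE, upwards**: the paths of the thickened strip from the windows `≤ a - 1` to the windows `≥ b + 3` pass through the windows `a..b` (`a + 2 ≤ b`) -/
theorem pvli_zone_up (hτ : PvmnIsType 𝔑 τ) (hl : PvmnLaneR τ ln.1 ln.2) (hδ : 0 < δ) (hμ : 0 ≤ μ) (hμ' : μ ≤ δ / 20) (hw : 0 < δw) (hw' : δw ≤ δ / 40)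
    (ha : 1 ≤ a) (hab : a + 2 ≤ b) (hb : b + 3 ≤ pvlpN τ ln) {M X Y : Set ℂ} {W : Set (ℤ × ℤ)} (hM : M ⊆ pvlpS δ τ ln)
    (hX : X ⊆ (fun p => p + z) '' pvlpWin δ τ ln 0 (a - 1)) (hY : Y ⊆ (fun p => p + z) '' pvlpWin δ τ ln (b + 3) (pvlpN τ ln))
    (hW : ∀ k, (pvlnC δw k ∩ cthickening μ ((fun p => p + z) '' pvlpWin δ τ ln a b)).Nonempty → pvfpBlk k ⊆ W) :
    PvfpZone δw W (cthickening μ ((fun p => p + z) '' M)) X Y := by
  refine pvnd_zone hw (pvli_cth_cover (c := a - 1) (a := a) (b := b) hμ hM (by omega) (by omega) (by omega)) pvli_cth_closed pvli_cth_closed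
    (pvli_cth_disj hτ hl hδ hμ hμ' (by omega) le_rfl) (hX.trans (self_subset_cthickening _)) ?_ hW ?_
  · exact (hY.trans (image_mono (pvlp_win_mono (by omega) le_rfl))).trans (self_subset_cthickening _)
  · intro x hx y hy
    obtain ⟨p, hp, hxp⟩ := pvli_cth hμ hx
    obtain ⟨q, hq, rfl⟩ := hY hy
    have e1 : |x.re - (p + z).re| ≤ μ := by
      have := Complex.abs_re_le_norm (x - (p + z))
      rw [Complex.sub_re] at this
      exact this.trans hxp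
    have e2 : |x.im - (p + z).im| ≤ μ := by
      have := Complex.abs_im_le_norm (x - (p + z))
      rw [Complex.sub_im] at this
      exact this.trans hxp
    rw [Complex.add_re] at e1
    rw [Complex.add_im] at e2
    show 2 * δw ≤ |(q + z).re - x.re| ∨ 2 * δw ≤ |(q + z).im - x.im|
    rw [Complex.add_re, Complex.add_im]
    rcases pvli_far_coord hτ hl hδ (le_refl (b + 3)) le_rfl hp hq with h | h
    · left
      have t : |q.re - p.re| ≤ |q.re + z.re - x.re| + |x.re - (p.re + z.re)| := by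
        have e : q.re - p.re = (q.re + z.re - x.re) + (x.re - (p.re + z.re)) := by ring
        rw [e]
        exact abs_add_le _ _
      linarith
    · right
      have t : |q.im - p.im| ≤ |q.im + z.im - x.im| + |x.im - (p.im + z.im)| := by
        have e : q.im - p.im = (q.im + z.im - x.im) + (x.im - (p.im + z.im)) := by ring
        rw [e]
        exact abs_add_le _ _
      linarith

/-- **HOOK ZONE, downwards**: the paths of the thickened strip from the windows `≥ b + 1` to the windows `≤ a - 3` pass through the windows `a..b` -/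
theorem pvli_zone_dn (hτ : PvmnIsType 𝔑 τ) (hl : PvmnLaneR τ ln.1 ln.2) (hδ : 0 < δ) (hμ : 0 ≤ μ) (hμ' : μ ≤ δ / 20) (hw : 0 < δw) (hw' : δw ≤ δ / 40)
    (ha : 3 ≤ a) (hab : a + 2 ≤ b) (hb : b + 1 ≤ pvlpN τ ln) {M X Y : Set ℂ} {W : Set (ℤ × ℤ)} (hM : M ⊆ pvlpS δ τ ln)
    (hX : X ⊆ (fun p => p + z) '' pvlpWin δ τ ln (b + 1) (pvlpN τ ln)) (hY : Y ⊆ (fun p => p + z) '' pvlpWin δ τ ln 0 (a - 3))
    (hW : ∀ k, (pvlnC δw k ∩ cthickening μ ((fun p => p + z) '' pvlpWin δ τ ln a b)).Nonempty → pvfpBlk k ⊆ W) :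
    PvfpZone δw W (cthickening μ ((fun p => p + z) '' M)) X Y := by
  have hcov := pvli_cth_cover (z := z) (c := a - 1) (a := a) (b := b) hμ hM (by omega) (by omega) (by omega)
  refine pvnd_zone hw (F₁ := cthickening μ ((fun p => p + z) '' pvlpWin δ τ ln (b + 1) (pvlpN τ ln))) (Z := cthickening μ ((fun p => p + z) '' pvlpWin δ τ ln a b))
    (F₂ := cthickening μ ((fun p => p + z) '' pvlpWin δ τ ln 0 (a - 1))) ?_ pvli_cth_closed pvli_cth_closed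
    (pvli_cth_disj hτ hl hδ hμ hμ' (by omega) le_rfl).symm (hX.trans (self_subset_cthickening _)) ?_ hW ?_
  · intro x hx
    rcases hcov hx with (h | h) | h
    · exact Or.inr h
    · exact Or.inl (Or.inr h)
    · exact Or.inl (Or.inl h)
  · exact (hY.trans (image_mono (pvlp_win_mono le_rfl (by omega)))).trans (self_subset_cthickening _)
  · intro x hx y hy
    obtain ⟨p, hp, hxp⟩ := pvli_cth hμ hx
    obtain ⟨q, hq, rfl⟩ := hY hy
    have e1 : |x.re - (p + z).re| ≤ μ := by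
      have := Complex.abs_re_le_norm (x - (p + z))
      rw [Complex.sub_re] at this
      exact this.trans hxp
    have e2 : |x.im - (p + z).im| ≤ μ := by
      have := Complex.abs_im_le_norm (x - (p + z))
      rw [Complex.sub_im] at this
      exact this.trans hxp
    rw [Complex.add_re] at e1
    rw [Complex.add_im] at e2
    show 2 * δw ≤ |(q + z).re - x.re| ∨ 2 * δw ≤ |(q + z).im - x.im|
    rw [Complex.add_re, Complex.add_im]
    rcases pvli_far_coord hτ hl hδ (show (a - 3) + 3 ≤ a by omega) (by omega) hq hp with h | h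
    · left
      have t : |p.re - q.re| ≤ |q.re + z.re - x.re| + |x.re - (p.re + z.re)| := by
        have e : p.re - q.re = -(q.re + z.re - x.re) + -(x.re - (p.re + z.re)) := by ring
        rw [e]
        refine (abs_add_le _ _).trans ?_
        rw [abs_neg, abs_neg]
      linarith
    · right
      have t : |p.im - q.im| ≤ |q.im + z.im - x.im| + |x.im - (p.im + z.im)| := by
        have e : p.im - q.im = -(q.im + z.im - x.im) + -(x.im - (p.im + z.im)) := by ring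
        rw [e]
        refine (abs_add_le _ _).trans ?_
        rw [abs_neg, abs_neg]
      linarith

/-- the corridor moves by one fine cell at a time -/
theorem pvli_C_dist (hτ : PvmnIsType 𝔑 τ) (hl : PvmnLaneR τ ln.1 ln.2) (i : ℕ) : ∀ k, i + k ≤ pvlpN τ ln →
    |(pvlpC τ ln (i + k)).1 - (pvlpC τ ln i).1| ≤ k ∧ |(pvlpC τ ln (i + k)).2 - (pvlpC τ ln i).2| ≤ k := by
  intro k
  induction k with
  | zero => intro _; simp
  | succ k ih =>
    intro hk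
    obtain ⟨h1, h2⟩ := ih (by omega)
    have hs : pvtbG4.Adj (pvlpC τ ln (i + k)) (pvlpC τ ln (i + k + 1)) := (pvlp_C_cor hτ hl).step (i + k) (by omega)
    have hs' : ((pvlpC τ ln (i + k + 1)).1 = (pvlpC τ ln (i + k)).1 + 1 ∧ (pvlpC τ ln (i + k + 1)).2 = (pvlpC τ ln (i + k)).2) ∨
        ((pvlpC τ ln (i + k + 1)).1 = (pvlpC τ ln (i + k)).1 - 1 ∧ (pvlpC τ ln (i + k + 1)).2 = (pvlpC τ ln (i + k)).2) ∨
        ((pvlpC τ ln (i + k + 1)).1 = (pvlpC τ ln (i + k)).1 ∧ (pvlpC τ ln (i + k + 1)).2 = (pvlpC τ ln (i + k)).2 + 1) ∨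
        ((pvlpC τ ln (i + k + 1)).1 = (pvlpC τ ln (i + k)).1 ∧ (pvlpC τ ln (i + k + 1)).2 = (pvlpC τ ln (i + k)).2 - 1) := hs
    rw [abs_le] at h1 h2 ⊢
    rw [abs_le]
    rw [← Nat.add_assoc]
    push_cast
    constructor <;> constructor <;> omega

/-- the first and the last cell of the lane are apart -/
theorem pvli_A_apart (hτ : PvmnIsType 𝔑 τ) (hl : PvmnLaneR τ ln.1 ln.2) : pvlpA1 τ ln ∉ pvtwN 2 {pvlpA0 τ ln} := by
  intro h
  obtain ⟨-, x, hx, hxa⟩ := pvlp_A0 hτ hl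
  obtain ⟨-, y, hy, hya⟩ := pvlp_A1 hτ hl
  have h0 : pvlpA0 τ ln ∈ pvtwN 9 (τ.C 0 : Set (ℤ × ℤ)) := by
    have : pvlpA0 τ ln ∈ pvtN8 (pvtwN 8 (τ.C 0 : Set (ℤ × ℤ))) := ⟨x, hx, Or.inr (pvt_tri_g8 hxa)⟩
    rwa [← pvtw_N_succ] at this
  have h1 : pvlpA1 τ ln ∈ pvtwN 9 (τ.C 9 : Set (ℤ × ℤ)) := by
    have : pvlpA1 τ ln ∈ pvtN8 (pvtwN 8 (τ.C 9 : Set (ℤ × ℤ))) := ⟨y, hy, Or.inr (pvt_tri_g8 (hx_tri_symm _ _ hya))⟩
    rwa [← pvtw_N_succ] at this
  -- a middle cell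
  obtain ⟨w, rfl, w1, w2, w3, w4⟩ := h
  push_cast at w1 w2 w3 w4
  obtain ⟨c, hc, c1, c2, c3, c4⟩ := h0
  obtain ⟨d, hd, d1, d2, d3, d4⟩ := h1
  push_cast at c1 c2 c3 c4 d1 d2 d3 d4
  set A0 := pvlpA0 τ ln
  set A1 := pvlpA1 τ ln
  -- the cell `m` between `A0` and `A1`
  let m : ℤ × ℤ := (if A1.1 > A0.1 then A0.1 + 1 else if A1.1 < A0.1 then A0.1 - 1 else A0.1, if A1.2 > A0.2 then A0.2 + 1 else if A1.2 < A0.2 then A0.2 - 1 else A0.2)
  have m1 : m.1 = (if A1.1 > A0.1 then A0.1 + 1 else if A1.1 < A0.1 then A0.1 - 1 else A0.1) := rfl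
  have m2 : m.2 = (if A1.2 > A0.2 then A0.2 + 1 else if A1.2 < A0.2 then A0.2 - 1 else A0.2) := rfl
  have hm0 : m ∈ pvtwN 10 (τ.C 0 : Set (ℤ × ℤ)) := by
    refine ⟨c, hc, ?_, ?_, ?_, ?_⟩ <;> push_cast <;> first | (rw [m1]; split_ifs <;> omega) | (rw [m2]; split_ifs <;> omega)
  have hm9 : m ∈ pvtwN 10 (τ.C 9 : Set (ℤ × ℤ)) := by
    refine ⟨d, hd, ?_, ?_, ?_, ?_⟩ <;> push_cast <;> first | (rw [m1]; split_ifs <;> omega) | (rw [m2]; split_ifs <;> omega)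
  exact Set.disjoint_left.1 (hτ.far 0 9 (by decide)) hm0 hm9

/-- **the corridor is long** -/
theorem pvli_len (hτ : PvmnIsType 𝔑 τ) (hl : PvmnLaneR τ ln.1 ln.2) : 15 ≤ pvlpN τ ln := by
  by_contra hcon
  obtain ⟨h1, h2⟩ := pvli_C_dist hτ hl 0 (pvlpN τ ln) (by omega)
  rw [Nat.zero_add, pvlp_C_zero hτ hl, pvlp_C_last hτ hl] at h1 h2
  simp only at h1 h2
  rw [abs_le] at h1 h2
  have hN : ((pvlpN τ ln : ℕ) : ℤ) ≤ 14 := by omega
  exact pvli_A_apart hτ hl ⟨_, rfl, by push_cast; omega, by push_cast; omega, by push_cast; omega, by push_cast; omega⟩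

/-- one coordinate of `pvli_tail_sub` -/
theorem pvli_tail_coord (hδ : 0 < δ) (A C : ℤ) (x y : ℝ) (hC : |C - (5 * A + 2)| ≤ 5) (hx : |x - ((C : ℝ) + 1 / 2) * (δ / 5)| ≤ δ / 8) (hy : |y - x| ≤ δ / 4) :
    ((A : ℝ) - 1) * δ ≤ y ∧ y ≤ ((A : ℝ) + 2) * δ := by
  rw [abs_le] at hC hx hy
  have c1 : (5 * (A : ℝ) - 3) ≤ (C : ℝ) := by exact_mod_cast (show 5 * A - 3 ≤ C by omega)
  have c2 : (C : ℝ) ≤ 5 * (A : ℝ) + 7 := by exact_mod_cast (show C ≤ 5 * A + 7 by omega)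
  have k1 : (5 * (A : ℝ) - 3) * δ ≤ (C : ℝ) * δ := mul_le_mul_of_nonneg_right c1 hδ.le
  have k2 : (C : ℝ) * δ ≤ (5 * (A : ℝ) + 7) * δ := mul_le_mul_of_nonneg_right c2 hδ.le
  constructor <;> nlinarith [hx.1, hx.2, hy.1, hy.2]

/-- a point near the window of a fine cell within `5` steps of the centre of the coarse cell `A` lies in the `3 × 3` block of `A` -/
theorem pvli_near_block (hδ : 0 < δ) (A C : ℤ × ℤ) (h1 : |C.1 - (5 * A.1 + 2)| ≤ 5) (h2 : |C.2 - (5 * A.2 + 2)| ≤ 5) (hp : p ∈ pvlpSq (pvtCtr (δ / 5) C) (δ / 8)) (hq : ‖q - p‖ ≤ δ / 4) :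
    q ∈ pvtU δ (pvtwN 1 {A}) := by
  have hre : |q.re - p.re| ≤ δ / 4 := by
    have := Complex.abs_re_le_norm (q - p)
    rw [Complex.sub_re] at this
    exact this.trans hq
  have him : |q.im - p.im| ≤ δ / 4 := by
    have := Complex.abs_im_le_norm (q - p)
    rw [Complex.sub_im] at this
    exact this.trans hq
  obtain ⟨x1, x2⟩ := pvli_tail_coord hδ A.1 C.1 p.re q.re h1 hp.1 hre
  obtain ⟨y1, y2⟩ := pvli_tail_coord hδ A.2 C.2 p.im q.im h2 hp.2 him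
  obtain ⟨u, u1, u2, u3, u4⟩ := pvlp_three hδ A.1 q.re x1 x2
  obtain ⟨v, v1, v2, v3, v4⟩ := pvlp_three hδ A.2 q.im y1 y2
  exact mem_iUnion₂.2 ⟨(u, v), ⟨A, rfl, by push_cast; exact u1, by push_cast; exact u2, by push_cast; exact v1, by push_cast; exact v2⟩, u3, u4, v3, v4⟩

/-- **the last six windows, with a margin `δ/4`, lie in the block of the last cell `A1` of the lane** -/
theorem pvli_tail_sub (hτ : PvmnIsType 𝔑 τ) (hl : PvmnLaneR τ ln.1 ln.2) (hδ : 0 < δ) (hp : p ∈ pvlpWin δ τ ln (pvlpN τ ln - 5) (pvlpN τ ln)) (hq : ‖q - p‖ ≤ δ / 4) :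
    q ∈ pvtU δ (pvtwN 1 {pvlpA1 τ ln}) := by
  obtain ⟨i, h1, h2, h3⟩ := pvlp_mem_win.1 hp
  obtain ⟨d1, d2⟩ := pvli_C_dist hτ hl i (pvlpN τ ln - i) (by omega)
  rw [Nat.add_sub_cancel' h2, pvlp_C_last hτ hl] at d1 d2
  simp only at d1 d2
  have hk : ((pvlpN τ ln - i : ℕ) : ℤ) ≤ 5 := by omega
  refine pvli_near_block hδ _ _ ?_ ?_ h3 hq
  · rw [abs_sub_comm]; exact d1.trans hk
  · rw [abs_sub_comm]; exact d2.trans hk

/-- **the first six windows, with a margin `δ/4`, lie in the block of the first cell `A0` of the lane** -/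
theorem pvli_head_sub (hτ : PvmnIsType 𝔑 τ) (hl : PvmnLaneR τ ln.1 ln.2) (hδ : 0 < δ) (hp : p ∈ pvlpWin δ τ ln 0 5) (hq : ‖q - p‖ ≤ δ / 4) :
    q ∈ pvtU δ (pvtwN 1 {pvlpA0 τ ln}) := by
  obtain ⟨i, h1, h2, h3⟩ := pvlp_mem_win.1 hp
  have hN := pvli_len hτ hl
  obtain ⟨d1, d2⟩ := pvli_C_dist hτ hl 0 i (by omega)
  rw [Nat.zero_add, pvlp_C_zero hτ hl] at d1 d2
  simp only at d1 d2
  have hk : ((i : ℕ) : ℤ) ≤ 5 := by omega
  exact pvli_near_block hδ _ _ (d1.trans hk) (d2.trans hk) h3 hq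

/-- the ABSOLUTE cells of mesh `δw` which meet a set -/
def pvliAbs (δw : ℝ) (A : Set ℂ) : Set (ℤ × ℤ) := {k | (pvlnC δw k ∩ A).Nonempty}

theorem pvli_eqns_cite : True := by
  have := @pvliAbs.eq_1
  trivial

theorem pvli_abs_mono {A B : Set ℂ} (h : A ⊆ B) : pvliAbs δw A ⊆ pvliAbs δw B := fun _ ⟨x, h1, h2⟩ => ⟨x, h1, h h2⟩

/-- the centre of a cell of the block of a cell which contains `x` -/
theorem pvli_blk_near (hw : 0 < δw) {k k' : ℤ × ℤ} {x : ℂ} (hx : x ∈ pvlnC δw k) (hk : k' ∈ pvfpBlk k) : pvlnCtr δw k' ∈ pvlnC δw k' ∧ ‖pvlnCtr δw k' - x‖ ≤ 3 * δw := by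
  obtain ⟨x1, x2, x3, x4⟩ := hx
  obtain ⟨k1, k2⟩ := hk
  rw [abs_le] at k1 k2
  have a1 : (k.1 : ℝ) - 1 ≤ (k'.1 : ℝ) := by exact_mod_cast (show k.1 - 1 ≤ k'.1 by omega)
  have a2 : (k'.1 : ℝ) ≤ (k.1 : ℝ) + 1 := by exact_mod_cast (show k'.1 ≤ k.1 + 1 by omega)
  have b1 : (k.2 : ℝ) - 1 ≤ (k'.2 : ℝ) := by exact_mod_cast (show k.2 - 1 ≤ k'.2 by omega)
  have b2 : (k'.2 : ℝ) ≤ (k.2 : ℝ) + 1 := by exact_mod_cast (show k'.2 ≤ k.2 + 1 by omega)
  refine ⟨⟨?_, ?_, ?_, ?_⟩, ?_⟩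
  · show (k'.1 : ℝ) * δw ≤ ((k'.1 : ℝ) + 1 / 2) * δw
    nlinarith
  · show ((k'.1 : ℝ) + 1 / 2) * δw ≤ ((k'.1 : ℝ) + 1) * δw
    nlinarith
  · show (k'.2 : ℝ) * δw ≤ ((k'.2 : ℝ) + 1 / 2) * δw
    nlinarith
  · show ((k'.2 : ℝ) + 1 / 2) * δw ≤ ((k'.2 : ℝ) + 1) * δw
    nlinarith
  · have hre : |(pvlnCtr δw k' - x).re| ≤ 3 / 2 * δw := by
      rw [Complex.sub_re, abs_le]
      show -(3 / 2 * δw) ≤ ((k'.1 : ℝ) + 1 / 2) * δw - x.re ∧ ((k'.1 : ℝ) + 1 / 2) * δw - x.re ≤ 3 / 2 * δw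
      constructor <;> nlinarith
    have him : |(pvlnCtr δw k' - x).im| ≤ 3 / 2 * δw := by
      rw [Complex.sub_im, abs_le]
      show -(3 / 2 * δw) ≤ ((k'.2 : ℝ) + 1 / 2) * δw - x.im ∧ ((k'.2 : ℝ) + 1 / 2) * δw - x.im ≤ 3 / 2 * δw
      constructor <;> nlinarith
    have := Complex.norm_le_abs_re_add_abs_im (pvlnCtr δw k' - x)
    linarith

/-- the blocks of the absolute cells which meet the thickening of a stretch of windows whose `δ/4`-neighbourhood lies in `U(E)` -/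
theorem pvli_blk_sub (hδ : 0 < δ) (hμ : 0 ≤ μ) (hμ' : μ ≤ δ / 20) (hw : 0 < δw) (hw' : δw ≤ δ / 40) {E : Set (ℤ × ℤ)}
    (hE : ∀ p ∈ pvlpWin δ τ ln a b, ∀ q, ‖q - p‖ ≤ δ / 4 → q ∈ pvtU δ E) {k : ℤ × ℤ}
    (hk : (pvlnC δw k ∩ cthickening μ ((fun p => p + z) '' pvlpWin δ τ ln a b)).Nonempty) : pvfpBlk k ⊆ pvliAbs δw (pvmgPl z δ E) := by
  obtain ⟨x, hx1, hx2⟩ := hk
  obtain ⟨p, hp, hxp⟩ := pvli_cth hμ hx2
  intro k' hk'
  obtain ⟨c1, c2⟩ := pvli_blk_near hw hx1 hk'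
  refine ⟨_, c1, pvmg_mem.2 (hE p hp _ ?_)⟩
  have e : pvlnCtr δw k' - z - p = (pvlnCtr δw k' - x) + (x - (p + z)) := by ring
  rw [e]
  refine (norm_add_le _ _).trans ?_
  linarith

/-- **THE HOOK ZONE OF THE EXIT SIDE**: `M` = any part of the strip (`Mp`), `X` = any part of `M` off the block of `A1`, `Y` = any part of the door `DB`; the walk covers the absolute cells which meet the placed block of `A1` -/
theorem pvli_zone_p (hτ : PvmnIsType 𝔑 τ) (hl : PvmnLaneR τ ln.1 ln.2) (hδ : 0 < δ) (hμ : 0 ≤ μ) (hμ' : μ ≤ δ / 20) (hw : 0 < δw) (hw' : δw ≤ δ / 40)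
    {M X Y : Set ℂ} {W : Set (ℤ × ℤ)} (hM : M ⊆ pvlpS δ τ ln) (hX : X ⊆ (fun p => p + z) '' M) (hX' : Disjoint X (pvmgPl z δ (pvtwN 1 {pvlpA1 τ ln})))
    (hY : Y ⊆ (fun p => p + z) '' pvlpDB δ τ ln) (hW : pvliAbs δw (pvmgPl z δ (pvtwN 1 {pvlpA1 τ ln})) ⊆ W) :
    PvfpZone δw W (cthickening μ ((fun p => p + z) '' M)) X Y := by
  have hN := pvli_len hτ hl
  refine pvli_zone_up hτ hl hδ hμ hμ' hw hw' (a := pvlpN τ ln - 5) (b := pvlpN τ ln - 3) (by omega) (by omega) (by omega) hM ?_ ?_ ?_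
  · intro x hx
    obtain ⟨p, hp, rfl⟩ := hX hx
    obtain ⟨i, -, hi, hpi⟩ := pvlp_mem_win.1 (hM hp)
    refine ⟨p, pvlp_mem_win.2 ⟨i, Nat.zero_le _, ?_, hpi⟩, rfl⟩
    by_contra hcon
    refine Set.disjoint_left.1 hX' hx (pvmg_mem.2 ?_)
    have : p + z - z = p := by ring
    rw [this]
    exact pvli_tail_sub hτ hl hδ (pvlp_mem_win.2 ⟨i, by omega, hi, hpi⟩) (by rw [sub_self, norm_zero]; positivity)
  · have e : pvlpN τ ln - 3 + 3 = pvlpN τ ln := by omega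
    rw [e]
    exact hY
  · intro k hk
    refine (pvli_blk_sub hδ hμ hμ' hw hw' (fun p hp q hq => ?_) hk).trans hW
    exact pvli_tail_sub hτ hl hδ (pvlp_win_mono le_rfl (by omega) hp) hq

/-- **THE HOOK ZONE OF THE ENTRANCE SIDE** -/
theorem pvli_zone_m (hτ : PvmnIsType 𝔑 τ) (hl : PvmnLaneR τ ln.1 ln.2) (hδ : 0 < δ) (hμ : 0 ≤ μ) (hμ' : μ ≤ δ / 20) (hw : 0 < δw) (hw' : δw ≤ δ / 40)
    {M X Y : Set ℂ} {W : Set (ℤ × ℤ)} (hM : M ⊆ pvlpS δ τ ln) (hX : X ⊆ (fun p => p + z) '' M) (hX' : Disjoint X (pvmgPl z δ (pvtwN 1 {pvlpA0 τ ln})))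
    (hY : Y ⊆ (fun p => p + z) '' pvlpDA δ τ ln) (hW : pvliAbs δw (pvmgPl z δ (pvtwN 1 {pvlpA0 τ ln})) ⊆ W) :
    PvfpZone δw W (cthickening μ ((fun p => p + z) '' M)) X Y := by
  have hN := pvli_len hτ hl
  refine pvli_zone_dn hτ hl hδ hμ hμ' hw hw' (a := 3) (b := 5) (by omega) (by omega) (by omega) hM ?_ hY ?_
  · intro x hx
    obtain ⟨p, hp, rfl⟩ := hX hx
    obtain ⟨i, -, hi, hpi⟩ := pvlp_mem_win.1 (hM hp)
    refine ⟨p, pvlp_mem_win.2 ⟨i, ?_, hi, hpi⟩, rfl⟩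
    by_contra hcon
    refine Set.disjoint_left.1 hX' hx (pvmg_mem.2 ?_)
    have : p + z - z = p := by ring
    rw [this]
    exact pvli_head_sub hτ hl hδ (pvlp_mem_win.2 ⟨i, Nat.zero_le _, by omega, hpi⟩) (by rw [sub_self, norm_zero]; positivity)
  · intro k hk
    refine (pvli_blk_sub hδ hμ hμ' hw hw' (fun p hp q hq => ?_) hk).trans hW
    exact pvli_head_sub hτ hl hδ (pvlp_win_mono (by omega) le_rfl hp) hq

end zone

end Claimed.Agent.R289
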