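import Claimed.Agent.R289.Tr.DomY
import Claimed.Agent.R289.Tr.Hook

/-!
# Row 289 (S0537), box TR-LINKH, file Tr/LinkH : E10 LINK BOUND, THE HARRIS PRODUCT ON TOP OF `pvdy_Q_quenched` AND THE THRESHOLD AT THE SMALL PLUG      (helper250; order of 141, split of 193; prefix `pvlh_`, `pvlh`, `Pvlh`)

MODEL FREE, LABEL FREE.   The experiment of a hybrid link is `pvdyR C yf ω (κ, ω₂)` (193, `Tr/DomY`): colours of `yf ω` fresh, everything inside the tile `C` fresh.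
`pvdy_Q_quenched` : `pvdyQ ε C yf S (cfOf Y σ) = ∫⁻ g, pvdyPq (pvdyYc C Y (pvgSites g)) (pvdyFz C yf Y σ) σ S ∂pvGeo ε`.      THIS FILE = what is done at the fixed combined geometry and the integration.      0 sorry
* sec. 1  COLOURS, ANY INDEX TYPE `V`: the mixed order `pvlhLe s` (`s v = some true`: black is up at `v`, `some false`: white is up, `none`: `v` is not looked at), `PvlhUp s A`,
          **`pvlh_def`** (positive association of `colLaw V` as soon as COUNTABLY many `v` are looked at), **`pvlh_up_up`**, `pvlh_up_list`, `pvlh_up_pow`.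
* sec. 2  A FIXED SET OF SITES `Y'`, FROZEN COLOURS `σ` ON `Fz`: `pvlhSg Y' Kb Kw`, the section `pvlhSec Y' Fz σ 𝒜 = {τ | cfOf Y' (pvfqMix Fz (σ, τ)) ∈ 𝒜}` (`pvdyPq = colLaw ℂ` of it), the COPY section `pvlhCp Y' 𝒦 = {τ | cfOf Y' τ ∈ 𝒦}` (21: patterns are events of the copy colouring),
          `pvlh_up_black` / `pvlh_up_white` (+ `_cp`): `PvInc` / `PvDec` + "at `Y'` only the colours of `Fz ∪ Kb` / `Fz ∪ Kw` are read";   primed forms: `PvlhInc Y'` / `PvlhDec Y'` = monotone AT THE FIXED SITES (lane events with their mesh clause);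
          **`pvlh_Pq_net`** : `q ^ n * pvdyPq .. 𝒜 ≤ pvdyPq .. 𝒮`.
* sec. 3  INTEGRATION: `pvlh_int` (no measurability at all, ANY bad set), **`pvlh_bridge`** : `q ^ n * (β - δ) ≤ pvdyQ ε C yf 𝒮 (cfOf Y σ)`,   `pvlh_bridge0` (no threshold: `q ^ n * (1 - δ)`).
* sec. 4  THE THRESHOLD: **`pvlh_Q_eq_P`** : an event read over `O ∪ C` (`O` kept, not recoloured) has `pvdyQ ε C yf 𝒜 ω = pvtiP (pvP ε) (O ×ˢ univ) 𝒜 ω`, so `b ≤ pvtiP ..` of `pvsaG` (`Tr/SoftAdm`) IS the `β` of the bridge: **`pvlh_link`**, and the weight: `pvlh_W_le`.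
-/

set_option autoImplicit false
set_option linter.unusedSectionVars false
set_option linter.unusedVariables false

namespace Claimed.Agent.R289

open MeasureTheory ProbabilityTheory Set Claims.C0465
open scoped ENNReal

/-! ## 1. the mixed order on colourings of an arbitrary index type -/

section col

variable {V : Type}

/-- the mixed order -/
def pvlhLe (s : V → Option Bool) (c c' : V → Bool) : Prop := ∀ v, pvhkLe1 (s v) (c v) (c' v)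

/-- up-sets of the mixed order -/
def PvlhUp (s : V → Option Bool) (A : Set (V → Bool)) : Prop := ∀ c c', pvlhLe s c c' → c ∈ A → c' ∈ A

theorem pvlh_eqns_cite : True := by
  have := @pvlhLe.eq_1; have := @PvlhUp.eq_1
  trivial

theorem pvlh_le1_none (x y : Bool) : pvhkLe1 none x y := ⟨fun h => by simp at h, fun h => by simp at h⟩

theorem pvlh_le1_refl (s : Option Bool) (x : Bool) : pvhkLe1 s x x := ⟨fun _ => le_rfl, fun _ => le_rfl⟩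

theorem pvlh_le_refl (s : V → Option Bool) (c : V → Bool) : pvlhLe s c c := fun v => pvlh_le1_refl (s v) (c v)

/-- **positive association of the fair colours for a mixed order which looks at countably many indices** -/
theorem pvlh_def (s : V → Option Bool) (hs : {v | s v ≠ none}.Countable) : PvfDef (colLaw V) (pvlhLe s) univ 0 := by
  classical
  have : Countable ↥{v | s v ≠ none} := hs.to_subtype
  have hn : ∀ v, v ∉ {v | s v ≠ none} → s v = none := fun v hv => by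
    by_contra h
    exact hv h
  refine pvfq_pull (φ := fun (x : V → Bool) (i : ↥{v | s v ≠ none}) => x i.1)
    (ψ := fun (y : ↥{v | s v ≠ none} → Bool) (v : V) => if h : v ∈ {v | s v ≠ none} then y ⟨v, h⟩ else false)
    (lY := fun a b => ∀ i : ↥{v | s v ≠ none}, pvhkLe1 (s i.1) (a i) (b i))
    (measurable_pi_lambda _ fun i => measurable_pi_apply _) (measurable_pi_lambda _ fun v => ?_) ?_ ?_ ?_ ?_
  · by_cases h : v ∈ {v | s v ≠ none}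
    · simp only [dif_pos h]
      exact measurable_pi_apply _
    · simp only [dif_neg h]
      exact measurable_const
  · have e : (colLaw V).map (fun (x : V → Bool) (i : ↥{v | s v ≠ none}) => x i.1) = colLaw ↥{v | s v ≠ none} :=
      pvf_colLaw_comp (Subtype.val : ↥{v | s v ≠ none} → V) Subtype.val_injective
    rw [e, pvf_colLaw_eq]
    exact pvfq_pi_total (fun _ : ↥{v | s v ≠ none} => pvCoin) (le := fun i => pvhkLe1 (s i.1)) fun i x y => pvhk_le1_total (s i.1) x y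
  · intro a b hab v
    by_cases h : v ∈ {v | s v ≠ none}
    · simp only [dif_pos h]
      exact hab ⟨v, h⟩
    · rw [hn v h]
      exact pvlh_le1_none _ _
  · intro x v
    by_cases h : v ∈ {v | s v ≠ none}
    · simp only [dif_pos h]
      exact pvlh_le1_refl _ _
    · rw [hn v h]
      exact pvlh_le1_none _ _
  · intro x v
    by_cases h : v ∈ {v | s v ≠ none}
    · simp only [dif_pos h]
      exact pvlh_le1_refl _ _
    · rw [hn v h]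
      exact pvlh_le1_none _ _

theorem PvlhUp.inter {s : V → Option Bool} {A B : Set (V → Bool)} (hA : PvlhUp s A) (hB : PvlhUp s B) : PvlhUp s (A ∩ B) :=
  fun c c' h hc => ⟨hA c c' h hc.1, hB c c' h hc.2⟩

theorem PvlhUp.union {s : V → Option Bool} {A B : Set (V → Bool)} (hA : PvlhUp s A) (hB : PvlhUp s B) : PvlhUp s (A ∪ B) :=
  fun c c' h hc => hc.elim (fun x => Or.inl (hA c c' h x)) fun x => Or.inr (hB c c' h x)

theorem PvlhUp.univ (s : V → Option Bool) : PvlhUp s (Set.univ : Set (V → Bool)) := fun _ _ _ _ => mem_univ _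

/-- **HARRIS, mixed order, any index type** -/
theorem pvlh_up_up (s : V → Option Bool) (hs : {v | s v ≠ none}.Countable) {A B : Set (V → Bool)} (mA : MeasurableSet A) (mB : MeasurableSet B)
    (uA : PvlhUp s A) (uB : PvlhUp s B) : colLaw V A * colLaw V B ≤ colLaw V (A ∩ B) :=
  (pvlh_def s hs).up_up (PvfEv.of_meas mA) (PvfEv.of_meas mB) (fun c _ c' _ h hc => uA c c' h hc) fun c _ c' _ h hc => uB c c' h hc

theorem pvlh_up_list (s : V → Option Bool) (hs : {v | s v ≠ none}.Countable) {κ : Type*} (l : List κ) (A : κ → Set (V → Bool)) (mA : ∀ i ∈ l, MeasurableSet (A i))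
    (uA : ∀ i ∈ l, PvlhUp s (A i)) : (l.map fun i => colLaw V (A i)).prod ≤ colLaw V {c | ∀ i ∈ l, c ∈ A i} :=
  (pvlh_def s hs).up_list l A (fun i hi => PvfEv.of_meas (mA i hi)) fun i hi c _ c' _ h hc => uA i hi c c' h hc

theorem pvlh_up_pow (s : V → Option Bool) (hs : {v | s v ≠ none}.Countable) {κ : Type*} (l : List κ) (A : κ → Set (V → Bool)) (mA : ∀ i ∈ l, MeasurableSet (A i))
    (uA : ∀ i ∈ l, PvlhUp s (A i)) {q : ℝ≥0∞} (hq : ∀ i ∈ l, q ≤ colLaw V (A i)) : q ^ l.length ≤ colLaw V {c | ∀ i ∈ l, c ∈ A i} := by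
  refine le_trans ?_ (pvlh_up_list s hs l A mA uA)
  have := List.pow_card_le_prod (l.map fun i => colLaw V (A i)) q (by
    intro x hx
    obtain ⟨i, hi, rfl⟩ := List.mem_map.1 hx
    exact hq i hi)
  simpa using this

theorem pvlh_list_meas {κ : Type*} (l : List κ) (A : κ → Set (V → Bool)) (mA : ∀ i ∈ l, MeasurableSet (A i)) : MeasurableSet {c | ∀ i ∈ l, c ∈ A i} := by
  induction l with
  | nil => simp
  | cons i l ih =>
    have e : {c | ∀ j ∈ i :: l, c ∈ A j} = A i ∩ {c | ∀ j ∈ l, c ∈ A j} := by ext c; simp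
    rw [e]
    exact (mA i List.mem_cons_self).inter (ih fun j hj => mA j (List.mem_cons_of_mem _ hj))

theorem pvlh_list_up {s : V → Option Bool} {κ : Type*} (l : List κ) (A : κ → Set (V → Bool)) (uA : ∀ i ∈ l, PvlhUp s (A i)) : PvlhUp s {c | ∀ i ∈ l, c ∈ A i} :=
  fun c c' h hc i hi => uA i hi c c' h (hc i hi)

/-- **a test event and a network**: `q ^ n * P(A) ≤ P(A ∩ all K i)` -/
theorem pvlh_up_net (s : V → Option Bool) (hs : {v | s v ≠ none}.Countable) {A : Set (V → Bool)} (mA : MeasurableSet A) (uA : PvlhUp s A)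
    {κ : Type*} (l : List κ) (K : κ → Set (V → Bool)) (mK : ∀ i ∈ l, MeasurableSet (K i)) (uK : ∀ i ∈ l, PvlhUp s (K i))
    {q : ℝ≥0∞} (hq : ∀ i ∈ l, q ≤ colLaw V (K i)) : q ^ l.length * colLaw V A ≤ colLaw V (A ∩ {c | ∀ i ∈ l, c ∈ K i}) := by
  have h1 := pvlh_up_pow s hs l K mK uK hq
  have h2 := pvlh_up_up s hs mA (pvlh_list_meas l K mK) uA (pvlh_list_up l K uK)
  calc q ^ l.length * colLaw V A ≤ colLaw V {c | ∀ i ∈ l, c ∈ K i} * colLaw V A := by gcongr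
    _ = colLaw V A * colLaw V {c | ∀ i ∈ l, c ∈ K i} := mul_comm _ _
    _ ≤ _ := h2

end col

/-! ## 2. a fixed set of sites, frozen colours -/

section geo

open Classical in
/-- black is up on the sites of `Y' ∩ Kb`, white is up on the sites of `Y' ∩ Kw`, nothing else is looked at -/
noncomputable def pvlhSg (Y' Kb Kw : Set ℂ) (z : ℂ) : Option Bool :=
  if z ∈ Y' ∩ Kb then some true else if z ∈ Y' ∩ Kw then some false else none

/-- the section of `𝒜` at the sites `Y'`, the colours `σ` frozen on `Fz`: an event of the fresh colouring `τ` -/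
def pvlhSec (Y' Fz : Set ℂ) (σ : ℂ → Bool) (𝒜 : Set (Conf PvPt)) : Set (ℂ → Bool) := {τ | cfOf Y' (pvfqMix Fz (σ, τ)) ∈ 𝒜}

/-- the COPY section: ALL the sites of `Y'` carry the fresh colours -/
def pvlhCp (Y' : Set ℂ) (𝒦 : Set (Conf PvPt)) : Set (ℂ → Bool) := {τ | cfOf Y' τ ∈ 𝒦}

theorem pvlh_eqns_cite2 : True := by
  have := @pvlhSg.eq_1; have := @pvlhSec.eq_1; have := @pvlhCp.eq_1
  trivial

theorem pvlh_sg_black {Y' Kb : Set ℂ} (Kw : Set ℂ) {z : ℂ} (h : z ∈ Y' ∩ Kb) : pvlhSg Y' Kb Kw z = some true := by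
  unfold pvlhSg; rw [if_pos h]

theorem pvlh_sg_white {Y' Kb Kw : Set ℂ} (hd : Disjoint Kb Kw) {z : ℂ} (h : z ∈ Y' ∩ Kw) : pvlhSg Y' Kb Kw z = some false := by
  unfold pvlhSg; rw [if_neg (fun hb => Set.disjoint_left.1 hd hb.2 h.2), if_pos h]

theorem pvlh_sg_countable {Y' : Set ℂ} (hY' : Y'.Countable) (Kb Kw : Set ℂ) : {z | pvlhSg Y' Kb Kw z ≠ none}.Countable := by
  refine hY'.mono fun z hz => ?_
  by_contra h
  refine hz ?_
  unfold pvlhSg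
  rw [if_neg (fun hb => h hb.1), if_neg (fun hb => h hb.1)]

theorem pvlh_Pq_eq (Y' Fz : Set ℂ) (σ : ℂ → Bool) (𝒜 : Set (Conf PvPt)) : pvdyPq Y' Fz σ 𝒜 = colLaw ℂ (pvlhSec Y' Fz σ 𝒜) := rfl

theorem pvlh_mix_empty (σ τ : ℂ → Bool) : pvfqMix (∅ : Set ℂ) (σ, τ) = τ := funext fun z => pvfqMix_of_notMem (notMem_empty z) _

theorem pvlh_sec_empty (Y' : Set ℂ) (σ : ℂ → Bool) (𝒦 : Set (Conf PvPt)) : pvlhSec Y' ∅ σ 𝒦 = pvlhCp Y' 𝒦 := by
  unfold pvlhSec pvlhCp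
  simp_rw [pvlh_mix_empty]

theorem pvlh_sec_meas {Y' : Set ℂ} (hY' : Y'.Countable) (Fz : Set ℂ) (σ : ℂ → Bool) {𝒜 : Set (Conf PvPt)} (mA : MeasurableSet 𝒜) : MeasurableSet (pvlhSec Y' Fz σ 𝒜) :=
  ((pvdy_measurable_cfOf hY').comp ((measurable_pvfqMix _).comp (measurable_const.prodMk measurable_id))) mA

theorem pvlh_cp_meas {Y' : Set ℂ} (hY' : Y'.Countable) {𝒦 : Set (Conf PvPt)} (mK : MeasurableSet 𝒦) : MeasurableSet (pvlhCp Y' 𝒦) := pvdy_measurable_cfOf hY' mK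

theorem pvlh_sec_inter (Y' Fz : Set ℂ) (σ : ℂ → Bool) (𝒜 ℬ : Set (Conf PvPt)) : pvlhSec Y' Fz σ (𝒜 ∩ ℬ) = pvlhSec Y' Fz σ 𝒜 ∩ pvlhSec Y' Fz σ ℬ := rfl

theorem pvlh_sec_mono (Y' Fz : Set ℂ) (σ : ℂ → Bool) {𝒜 ℬ : Set (Conf PvPt)} (h : 𝒜 ⊆ ℬ) : pvlhSec Y' Fz σ 𝒜 ⊆ pvlhSec Y' Fz σ ℬ := fun _ hτ => h hτ

/-- locally finite sets of sites -/
theorem pvlh_lf_countable {Y' : Set ℂ} (h : VorLF Y') : Y'.Countable := by
  have e : Y' = ⋃ n : ℕ, Y' ∩ Metric.closedBall (0 : ℂ) n := by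
    ext z
    simp only [mem_iUnion, mem_inter_iff, Metric.mem_closedBall, dist_zero_right, exists_and_left]
    exact ⟨fun hz => ⟨hz, exists_nat_ge ‖z‖⟩, fun hz => hz.1⟩
  rw [e]
  exact countable_iUnion fun n => (h n).countable

theorem pvlh_lf_cfOf {Y' : Set ℂ} (h : VorLF Y') (c : ℂ → Bool) : PvLF (cfOf Y' c) := by
  intro k
  refine ((h (|(k.1 : ℝ)| + |(k.2 : ℝ)| + 2)).image fun z => (z, c z)).subset ?_
  rintro ⟨z, b⟩ ⟨⟨hz, hb⟩, h1, h2⟩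
  refine ⟨z, ⟨hz, ?_⟩, by rw [show b = c z from hb]⟩
  rw [Metric.mem_closedBall, dist_zero_right]
  have h3 : |z.re| ≤ |(k.1 : ℝ)| + 1 := by
    have a1 : (k.1 : ℝ) ≤ z.re := h1.1
    have a2 : z.re < (k.1 : ℝ) + 1 := h1.2
    rw [abs_le]
    constructor
    · linarith [neg_abs_le (k.1 : ℝ)]
    · linarith [le_abs_self (k.1 : ℝ)]
  have h4 : |z.im| ≤ |(k.2 : ℝ)| + 1 := by
    have a1 : (k.2 : ℝ) ≤ z.im := h2.1
    have a2 : z.im < (k.2 : ℝ) + 1 := h2.2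
    rw [abs_le]
    constructor
    · linarith [neg_abs_le (k.2 : ℝ)]
    · linarith [le_abs_self (k.2 : ℝ)]
  linarith [Complex.norm_le_abs_re_add_abs_im z]

theorem pvlh_lf_Yc (C : Set ℂ) {Y Y₂ : Set ℂ} (hY : VorLF Y) (hY₂ : VorLF Y₂) : VorLF (pvdyYc C Y Y₂) := fun R =>
  ((hY R).union (hY₂ R)).subset (by
    rintro z ⟨hz | hz, hR⟩
    · exact Or.inl ⟨hz.1, hR⟩
    · exact Or.inr ⟨hz.1, hR⟩)

/-- more black colours = a larger configuration -/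
theorem pvlh_PvLe (Y' : Set ℂ) {c c' : ℂ → Bool} (h : ∀ z ∈ Y', c z = true → c' z = true) : PvLe (cfOf Y' c) (cfOf Y' c') := by
  constructor
  · rintro v ⟨hv, e⟩
    exact ⟨hv, (h v hv (show true = c v from e).symm).symm⟩
  · rintro v ⟨hv, e⟩
    refine ⟨hv, ?_⟩
    show false = c v
    by_contra hc
    have h1 : c v = true := by
      cases hcv : c v
      · exact absurd hcv.symm hc
      · rfl
    have h2 : false = c' v := e
    rw [h v hv h1] at h2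
    exact Bool.false_ne_true h2

/-- "given the frozen colours, at `Y'` the event `𝒜` looks only at the colours of the sites of `N`" -/
def PvlhLoc (Y' Fz : Set ℂ) (σ : ℂ → Bool) (N : Set ℂ) (𝒜 : Set (Conf PvPt)) : Prop :=
  ∀ τ τ', (∀ z ∈ Y' ∩ N, τ z = τ' z) → τ ∈ pvlhSec Y' Fz σ 𝒜 → τ' ∈ pvlhSec Y' Fz σ 𝒜

theorem pvlh_eqns_cite3 : True := by
  have := @PvlhLoc.eq_1
  trivial

/-- an event read over the window `W`, whose sites are frozen or in `N` -/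
theorem pvlh_loc_of_reads {Y' Fz N W : Set ℂ} (σ : ℂ → Bool) {𝒜 : Set (Conf PvPt)} (hr : Conf.ReadsSet (W ×ˢ univ) 𝒜) (hW : Y' ∩ W ⊆ Fz ∪ N) : PvlhLoc Y' Fz σ N 𝒜 := by
  intro τ τ' h hτ
  have e : Conf.restr (W ×ˢ univ) (cfOf Y' (pvfqMix Fz (σ, τ))) = Conf.restr (W ×ˢ univ) (cfOf Y' (pvfqMix Fz (σ, τ'))) := by
    refine cfOf_restr_congr fun z hz => ?_
    by_cases hF : z ∈ Fz
    · rw [pvfqMix_of_mem hF, pvfqMix_of_mem hF]
    · rw [pvfqMix_of_notMem hF, pvfqMix_of_notMem hF]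
      exact h z ⟨hz.1, (hW hz).resolve_left hF⟩
  have h1 : Conf.restr (W ×ˢ univ) (cfOf Y' (pvfqMix Fz (σ, τ))) ∈ 𝒜 := (hr _).2 hτ
  rw [e] at h1
  exact (hr _).1 h1

/-- AT THE SITES `Y'` the event is increasing in the colours      (weaker than `PvInc`: a lane event contains its mesh clause, which is not monotone when points are added or removed, but does not see the colours) -/
def PvlhInc (Y' : Set ℂ) (𝒜 : Set (Conf PvPt)) : Prop := ∀ c c' : ℂ → Bool, (∀ z ∈ Y', c z = true → c' z = true) → cfOf Y' c ∈ 𝒜 → cfOf Y' c' ∈ 𝒜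

/-- AT THE SITES `Y'` the event is decreasing in the colours -/
def PvlhDec (Y' : Set ℂ) (𝒜 : Set (Conf PvPt)) : Prop := ∀ c c' : ℂ → Bool, (∀ z ∈ Y', c z = true → c' z = true) → cfOf Y' c' ∈ 𝒜 → cfOf Y' c ∈ 𝒜

theorem pvlh_eqns_cite4 : True := by
  have := @PvlhInc.eq_1; have := @PvlhDec.eq_1
  trivial

theorem pvlh_inc_of {Y' : Set ℂ} (hY' : VorLF Y') {𝒜 : Set (Conf PvPt)} (h : PvInc 𝒜) : PvlhInc Y' 𝒜 :=
  fun c c' hc hA => h _ _ (pvlh_lf_cfOf hY' c) (pvlh_lf_cfOf hY' c') (pvlh_PvLe Y' hc) hA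

theorem pvlh_dec_of {Y' : Set ℂ} (hY' : VorLF Y') {𝒜 : Set (Conf PvPt)} (h : PvDec 𝒜) : PvlhDec Y' 𝒜 :=
  fun c c' hc hA => h _ _ (pvlh_lf_cfOf hY' c) (pvlh_lf_cfOf hY' c') (pvlh_PvLe Y' hc) hA

theorem PvlhInc.inter {Y' : Set ℂ} {𝒜 ℬ : Set (Conf PvPt)} (hA : PvlhInc Y' 𝒜) (hB : PvlhInc Y' ℬ) : PvlhInc Y' (𝒜 ∩ ℬ) :=
  fun c c' h hc => ⟨hA c c' h hc.1, hB c c' h hc.2⟩

theorem PvlhDec.inter {Y' : Set ℂ} {𝒜 ℬ : Set (Conf PvPt)} (hA : PvlhDec Y' 𝒜) (hB : PvlhDec Y' ℬ) : PvlhDec Y' (𝒜 ∩ ℬ) :=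
  fun c c' h hc => ⟨hA c c' h hc.1, hB c c' h hc.2⟩

/-- an event which does not see the colours at the sites `Y'` is both -/
theorem pvlh_inc_dec_of_blind {Y' : Set ℂ} {𝒜 : Set (Conf PvPt)} (h : ∀ c c' : ℂ → Bool, cfOf Y' c ∈ 𝒜 → cfOf Y' c' ∈ 𝒜) : PvlhInc Y' 𝒜 ∧ PvlhDec Y' 𝒜 :=
  ⟨fun c c' _ hc => h c c' hc, fun c c' _ hc => h c' c hc⟩

/-- an event INCREASING AT `Y'` which looks only at the colours of the sites of `Kb` -/
theorem pvlh_up_black' {Y' : Set ℂ} (Fz : Set ℂ) (σ : ℂ → Bool) (Kb Kw : Set ℂ) {𝒜 : Set (Conf PvPt)} (hinc : PvlhInc Y' 𝒜)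
    (hloc : PvlhLoc Y' Fz σ Kb 𝒜) : PvlhUp (pvlhSg Y' Kb Kw) (pvlhSec Y' Fz σ 𝒜) := by
  classical
  intro c c' h hc
  let c'' : ℂ → Bool := fun z => if z ∈ Y' ∩ Kb then c' z else c z
  have hle : ∀ z, c z = true → c'' z = true := by
    intro z hz
    by_cases hK : z ∈ Y' ∩ Kb
    · have h1 := (h z).1 (pvlh_sg_black Kw hK)
      simp only [c'', if_pos hK]
      rw [hz] at h1
      exact top_le_iff.1 h1
    · simp only [c'', if_neg hK]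
      exact hz
  have h1 : c'' ∈ pvlhSec Y' Fz σ 𝒜 := by
    refine hinc _ _ (fun z _ hz => ?_) hc
    by_cases hF : z ∈ Fz
    · rw [pvfqMix_of_mem hF] at hz ⊢
      exact hz
    · rw [pvfqMix_of_notMem hF] at hz ⊢
      exact hle z hz
  exact hloc c'' c' (fun z hz => if_pos hz) h1

/-- an event DECREASING AT `Y'` which looks only at the colours of the sites of `Kw` -/
theorem pvlh_up_white' {Y' : Set ℂ} (Fz : Set ℂ) (σ : ℂ → Bool) {Kb Kw : Set ℂ} (hd : Disjoint Kb Kw) {𝒜 : Set (Conf PvPt)} (hdec : PvlhDec Y' 𝒜)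
    (hloc : PvlhLoc Y' Fz σ Kw 𝒜) : PvlhUp (pvlhSg Y' Kb Kw) (pvlhSec Y' Fz σ 𝒜) := by
  classical
  intro c c' h hc
  let c'' : ℂ → Bool := fun z => if z ∈ Y' ∩ Kw then c' z else c z
  have hle : ∀ z, c'' z = true → c z = true := by
    intro z hz
    by_cases hK : z ∈ Y' ∩ Kw
    · have h1 := (h z).2 (pvlh_sg_white hd hK)
      simp only [c'', if_pos hK] at hz
      rw [hz] at h1
      exact top_le_iff.1 h1
    · simp only [c'', if_neg hK] at hz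
      exact hz
  have h1 : c'' ∈ pvlhSec Y' Fz σ 𝒜 := by
    refine hdec _ _ (fun z _ hz => ?_) hc
    by_cases hF : z ∈ Fz
    · rw [pvfqMix_of_mem hF] at hz ⊢
      exact hz
    · rw [pvfqMix_of_notMem hF] at hz ⊢
      exact hle z hz
  exact hloc c'' c' (fun z hz => if_pos hz) h1

/-- an INCREASING event which looks only at the colours of the sites of `Kb` -/
theorem pvlh_up_black {Y' : Set ℂ} (hY' : VorLF Y') (Fz : Set ℂ) (σ : ℂ → Bool) (Kb Kw : Set ℂ) {𝒜 : Set (Conf PvPt)} (hinc : PvInc 𝒜)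
    (hloc : PvlhLoc Y' Fz σ Kb 𝒜) : PvlhUp (pvlhSg Y' Kb Kw) (pvlhSec Y' Fz σ 𝒜) := pvlh_up_black' Fz σ Kb Kw (pvlh_inc_of hY' hinc) hloc

/-- a DECREASING event which looks only at the colours of the sites of `Kw` -/
theorem pvlh_up_white {Y' : Set ℂ} (hY' : VorLF Y') (Fz : Set ℂ) (σ : ℂ → Bool) {Kb Kw : Set ℂ} (hd : Disjoint Kb Kw) {𝒜 : Set (Conf PvPt)} (hdec : PvDec 𝒜)
    (hloc : PvlhLoc Y' Fz σ Kw 𝒜) : PvlhUp (pvlhSg Y' Kb Kw) (pvlhSec Y' Fz σ 𝒜) := pvlh_up_white' Fz σ hd (pvlh_dec_of hY' hdec) hloc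

/-- COPY sections, monotone at `Y'` -/
theorem pvlh_up_black_cp' {Y' : Set ℂ} (Kb Kw : Set ℂ) {𝒦 : Set (Conf PvPt)} (hinc : PvlhInc Y' 𝒦) {W : Set ℂ} (hr : Conf.ReadsSet (W ×ˢ univ) 𝒦) (hW : Y' ∩ W ⊆ Kb) :
    PvlhUp (pvlhSg Y' Kb Kw) (pvlhCp Y' 𝒦) := by
  rw [← pvlh_sec_empty Y' (fun _ => false)]
  exact pvlh_up_black' ∅ _ Kb Kw hinc (pvlh_loc_of_reads _ hr (hW.trans subset_union_right))

theorem pvlh_up_white_cp' {Y' : Set ℂ} {Kb Kw : Set ℂ} (hd : Disjoint Kb Kw) {𝒦 : Set (Conf PvPt)} (hdec : PvlhDec Y' 𝒦) {W : Set ℂ} (hr : Conf.ReadsSet (W ×ˢ univ) 𝒦)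
    (hW : Y' ∩ W ⊆ Kw) : PvlhUp (pvlhSg Y' Kb Kw) (pvlhCp Y' 𝒦) := by
  rw [← pvlh_sec_empty Y' (fun _ => false)]
  exact pvlh_up_white' ∅ _ hd hdec (pvlh_loc_of_reads _ hr (hW.trans subset_union_right))

/-- the same for the COPY sections (patterns of 21) -/
theorem pvlh_up_black_cp {Y' : Set ℂ} (hY' : VorLF Y') (Kb Kw : Set ℂ) {𝒦 : Set (Conf PvPt)} (hinc : PvInc 𝒦) {W : Set ℂ} (hr : Conf.ReadsSet (W ×ˢ univ) 𝒦) (hW : Y' ∩ W ⊆ Kb) :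
    PvlhUp (pvlhSg Y' Kb Kw) (pvlhCp Y' 𝒦) := by
  rw [← pvlh_sec_empty Y' (fun _ => false)]
  exact pvlh_up_black hY' ∅ _ Kb Kw hinc (pvlh_loc_of_reads _ hr (hW.trans subset_union_right))

theorem pvlh_up_white_cp {Y' : Set ℂ} (hY' : VorLF Y') {Kb Kw : Set ℂ} (hd : Disjoint Kb Kw) {𝒦 : Set (Conf PvPt)} (hdec : PvDec 𝒦) {W : Set ℂ} (hr : Conf.ReadsSet (W ×ˢ univ) 𝒦)
    (hW : Y' ∩ W ⊆ Kw) : PvlhUp (pvlhSg Y' Kb Kw) (pvlhCp Y' 𝒦) := by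
  rw [← pvlh_sec_empty Y' (fun _ => false)]
  exact pvlh_up_white hY' ∅ _ hd hdec (pvlh_loc_of_reads _ hr (hW.trans subset_union_right))

/-- an event which does not look at the fresh colours at all -/
theorem pvlh_up_geo {Y' Fz : Set ℂ} {σ : ℂ → Bool} (s : ℂ → Option Bool) {𝒜 : Set (Conf PvPt)} (h : PvlhLoc Y' Fz σ ∅ 𝒜) : PvlhUp s (pvlhSec Y' Fz σ 𝒜) :=
  fun c c' _ hc => h c c' (fun z hz => absurd hz.2 (notMem_empty z)) hc

/-- **THE PRODUCT AT A FIXED COMBINED GEOMETRY**: test event `𝒜` (frozen colours `σ` on `Fz`), network `K i` of events of the fresh colouring, everything up in ONE mixed order, each piece of probability `≥ q`, DET inclusion `hS` -/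
theorem pvlh_Pq_net {Y' : Set ℂ} (hY' : Y'.Countable) (Fz : Set ℂ) (σ : ℂ → Bool) (s : ℂ → Option Bool) (hs : {z | s z ≠ none}.Countable) {𝒜 𝒮 : Set (Conf PvPt)}
    (mA : MeasurableSet 𝒜) (uA : PvlhUp s (pvlhSec Y' Fz σ 𝒜)) {κ : Type*} (l : List κ) (K : κ → Set (ℂ → Bool)) (mK : ∀ i ∈ l, MeasurableSet (K i))
    (uK : ∀ i ∈ l, PvlhUp s (K i)) {q : ℝ≥0∞} (hq : ∀ i ∈ l, q ≤ colLaw ℂ (K i))
    (hS : ∀ τ, τ ∈ pvlhSec Y' Fz σ 𝒜 → (∀ i ∈ l, τ ∈ K i) → τ ∈ pvlhSec Y' Fz σ 𝒮) : q ^ l.length * pvdyPq Y' Fz σ 𝒜 ≤ pvdyPq Y' Fz σ 𝒮 :=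
  (pvlh_up_net s hs (pvlh_sec_meas hY' Fz σ mA) uA l K mK uK hq).trans (measure_mono fun τ hτ => hS τ hτ.1 hτ.2)

/-- no test event -/
theorem pvlh_Pq_net0 (Y' Fz : Set ℂ) (σ : ℂ → Bool) (s : ℂ → Option Bool) (hs : {z | s z ≠ none}.Countable) {𝒮 : Set (Conf PvPt)}
    {κ : Type*} (l : List κ) (K : κ → Set (ℂ → Bool)) (mK : ∀ i ∈ l, MeasurableSet (K i))
    (uK : ∀ i ∈ l, PvlhUp s (K i)) {q : ℝ≥0∞} (hq : ∀ i ∈ l, q ≤ colLaw ℂ (K i))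
    (hS : ∀ τ, (∀ i ∈ l, τ ∈ K i) → τ ∈ pvlhSec Y' Fz σ 𝒮) : q ^ l.length ≤ pvdyPq Y' Fz σ 𝒮 :=
  (pvlh_up_pow s hs l K mK uK hq).trans (measure_mono fun τ hτ => hS τ hτ)

/-- what the combined geometry is in a window inside / off the tile -/
theorem pvlh_Yc_in {C W : Set ℂ} (hW : W ⊆ C) (Y Y₂ : Set ℂ) : pvdyYc C Y Y₂ ∩ W = Y₂ ∩ W := by
  ext z
  simp only [pvdyYc, mem_inter_iff, mem_union, mem_sdiff]
  constructor
  · rintro ⟨h | h, hz⟩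
    · exact absurd (hW hz) h.2
    · exact ⟨h.1, hz⟩
  · rintro ⟨h, hz⟩
    exact ⟨Or.inr ⟨h, hW hz⟩, hz⟩

theorem pvlh_Yc_off {C W : Set ℂ} (hW : Disjoint W C) (Y Y₂ : Set ℂ) : pvdyYc C Y Y₂ ∩ W = Y ∩ W := by
  ext z
  simp only [pvdyYc, mem_inter_iff, mem_union, mem_sdiff]
  constructor
  · rintro ⟨h | h, hz⟩
    · exact ⟨h.1, hz⟩
    · exact absurd h.2 (Set.disjoint_left.1 hW hz)
  · rintro ⟨h, hz⟩
    exact ⟨Or.inl ⟨h, Set.disjoint_left.1 hW hz⟩, hz⟩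

theorem pvlh_restr_sites {Y Y' W : Set ℂ} (h : Y ∩ W = Y' ∩ W) (τ : ℂ → Bool) : Conf.restr (W ×ˢ univ) (cfOf Y τ) = Conf.restr (W ×ˢ univ) (cfOf Y' τ) := by
  ext p
  simp only [Conf.restr, cfOf, mem_inter_iff, mem_ofPred_eq, mem_prod, mem_univ, and_true]
  have e : p.1 ∈ Y ∩ W ↔ p.1 ∈ Y' ∩ W := by rw [h]
  simp only [mem_inter_iff] at e
  tauto

/-- a pattern read in a window: only the sites of the window matter -/
theorem pvlh_cp_congr {Y Y' W : Set ℂ} (h : Y ∩ W = Y' ∩ W) {𝒦 : Set (Conf PvPt)} (hr : Conf.ReadsSet (W ×ˢ univ) 𝒦) : pvlhCp Y 𝒦 = pvlhCp Y' 𝒦 := by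
  ext τ
  show cfOf Y τ ∈ 𝒦 ↔ cfOf Y' τ ∈ 𝒦
  rw [← hr (cfOf Y τ), ← hr (cfOf Y' τ), pvlh_restr_sites h]

/-- a pattern read inside the tile sees the geometry of the SEED only -/
theorem pvlh_cp_in {C W : Set ℂ} (hW : W ⊆ C) (Y Y₂ : Set ℂ) {𝒦 : Set (Conf PvPt)} (hr : Conf.ReadsSet (W ×ˢ univ) 𝒦) : pvlhCp (pvdyYc C Y Y₂) 𝒦 = pvlhCp Y₂ 𝒦 :=
  pvlh_cp_congr (pvlh_Yc_in hW Y Y₂) hr

/-- a pattern read off the tile sees the OLD geometry only -/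
theorem pvlh_cp_off {C W : Set ℂ} (hW : Disjoint W C) (Y Y₂ : Set ℂ) {𝒦 : Set (Conf PvPt)} (hr : Conf.ReadsSet (W ×ˢ univ) 𝒦) : pvlhCp (pvdyYc C Y Y₂) 𝒦 = pvlhCp Y 𝒦 :=
  pvlh_cp_congr (pvlh_Yc_off hW Y Y₂) hr

end geo

/-! ## 3. integration over the geometry of the seed -/

section int

/-- **integration**: NO measurability, ANY bad set -/
theorem pvlh_int {Ω : Type*} [MeasurableSpace Ω] (m : Measure Ω) {f g : Ω → ℝ≥0∞} (hf1 : ∀ ω, f ω ≤ 1) (B : Set Ω) {q : ℝ≥0∞}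
    (h : ∀ ω, ω ∉ B → q * f ω ≤ g ω) : q * (∫⁻ ω, f ω ∂m - m B) ≤ ∫⁻ ω, g ω ∂m := by
  have mT : MeasurableSet (toMeasurable m B) := measurableSet_toMeasurable _ _
  have h1 : ∫⁻ ω, f ω ∂m ≤ ∫⁻ ω, (toMeasurable m B)ᶜ.indicator f ω ∂m + m B := by
    rw [← measure_toMeasurable B, ← lintegral_indicator_one mT, ← lintegral_add_right _ (measurable_one.indicator mT)]
    refine lintegral_mono fun ω => ?_
    by_cases hω : ω ∈ toMeasurable m B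
    · simp [hω, hf1 ω]
    · simp [hω]
  have h2 : q * ∫⁻ ω, (toMeasurable m B)ᶜ.indicator f ω ∂m ≤ ∫⁻ ω, g ω ∂m := by
    refine (lintegral_const_mul_le q _).trans (lintegral_mono fun ω => ?_)
    by_cases hω : ω ∈ toMeasurable m B
    · simp [hω]
    · have : ω ∈ (toMeasurable m B)ᶜ := hω
      rw [indicator_of_mem this]
      exact h ω fun hB => hω (subset_toMeasurable _ _ hB)
  refine le_trans ?_ h2
  gcongr
  exact tsub_le_iff_right.2 h1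

theorem pvlh_Pq_le_one (Y' Fz : Set ℂ) (σ : ℂ → Bool) (𝒜 : Set (Conf PvPt)) : pvdyPq Y' Fz σ 𝒜 ≤ 1 := prob_le_one

/-- **THE BRIDGE, raw form**: off the bad geometries `q' * Pq(𝒜) ≤ Pq(𝒮)` -/
theorem pvlh_bridge_raw (ε : ℝ) {C : Set ℂ} (hC : MeasurableSet C) (yf : Conf PvPt → Set ℂ) {Y : Set ℂ} (hY : Y.Countable) (σ : ℂ → Bool) {𝒜 𝒮 : Set (Conf PvPt)}
    (mA : MeasurableSet 𝒜) (mS : MeasurableSet 𝒮) (B : Set PvGeoT) {β δ q' : ℝ≥0∞} (hβ : β ≤ pvdyQ ε C yf 𝒜 (cfOf Y σ)) (hB : pvGeo ε B ≤ δ)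
    (h : ∀ g, g ∉ B → q' * pvdyPq (pvdyYc C Y (pvgSites g)) (pvdyFz C yf Y σ) σ 𝒜 ≤ pvdyPq (pvdyYc C Y (pvgSites g)) (pvdyFz C yf Y σ) σ 𝒮) :
    q' * (β - δ) ≤ pvdyQ ε C yf 𝒮 (cfOf Y σ) := by
  rw [pvdy_Q_quenched ε hC yf hY σ mS]
  rw [pvdy_Q_quenched ε hC yf hY σ mA] at hβ
  refine le_trans ?_ (pvlh_int (pvGeo ε) (fun g => pvlh_Pq_le_one _ _ σ 𝒜) B h)
  gcongr

/-- **THE BRIDGE OF A HYBRID LINK**: `β ≤ P(𝒜 | kept)` (threshold), bad geometries of the seed of mass `≤ δ`;   off them, at the combined geometry: `𝒜` and the `n` patterns `K g i` (events of the fresh colouring) are up in ONE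
mixed order, each pattern has probability `≥ q`, and `𝒜` + all patterns force `𝒮` (DET).      Then `q ^ n * (β - δ) ≤ P(𝒮 | kept)`. -/
theorem pvlh_bridge (ε : ℝ) {C : Set ℂ} (hC : MeasurableSet C) (yf : Conf PvPt → Set ℂ) {Y : Set ℂ} (hY : Y.Countable) (σ : ℂ → Bool) {𝒜 𝒮 : Set (Conf PvPt)}
    (mA : MeasurableSet 𝒜) (mS : MeasurableSet 𝒮) (B : Set PvGeoT) {β δ q : ℝ≥0∞} (hβ : β ≤ pvdyQ ε C yf 𝒜 (cfOf Y σ)) (hB : pvGeo ε B ≤ δ)
    {κ : Type*} (l : List κ) (K : PvGeoT → κ → Set (ℂ → Bool))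
    (hup : ∀ g, g ∉ B → ∃ s : ℂ → Option Bool, {z | s z ≠ none}.Countable ∧ PvlhUp s (pvlhSec (pvdyYc C Y (pvgSites g)) (pvdyFz C yf Y σ) σ 𝒜) ∧ ∀ i ∈ l, PvlhUp s (K g i))
    (hK : ∀ g, g ∉ B → ∀ i ∈ l, MeasurableSet (K g i) ∧ q ≤ colLaw ℂ (K g i))
    (hS : ∀ g, g ∉ B → ∀ τ, τ ∈ pvlhSec (pvdyYc C Y (pvgSites g)) (pvdyFz C yf Y σ) σ 𝒜 → (∀ i ∈ l, τ ∈ K g i) → τ ∈ pvlhSec (pvdyYc C Y (pvgSites g)) (pvdyFz C yf Y σ) σ 𝒮) :
    q ^ l.length * (β - δ) ≤ pvdyQ ε C yf 𝒮 (cfOf Y σ) := by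
  refine pvlh_bridge_raw ε hC yf hY σ mA mS B hβ hB fun g hg => ?_
  obtain ⟨s, hs, uA, uK⟩ := hup g hg
  exact pvlh_Pq_net (pvdy_Yc_countable hY (pvf_sites_countable g)) _ σ s hs mA uA l (K g) (fun i hi => (hK g hg i hi).1) uK (fun i hi => (hK g hg i hi).2) (hS g hg)

/-- **no threshold** (end links tip → tip, thick links): `q ^ n * (1 - δ) ≤ P(𝒮 | kept)` -/
theorem pvlh_bridge0 (ε : ℝ) {C : Set ℂ} (hC : MeasurableSet C) (yf : Conf PvPt → Set ℂ) {Y : Set ℂ} (hY : Y.Countable) (σ : ℂ → Bool) {𝒮 : Set (Conf PvPt)}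
    (mS : MeasurableSet 𝒮) (B : Set PvGeoT) {δ q : ℝ≥0∞} (hB : pvGeo ε B ≤ δ) {κ : Type*} (l : List κ) (K : PvGeoT → κ → Set (ℂ → Bool))
    (hup : ∀ g, g ∉ B → ∃ s : ℂ → Option Bool, {z | s z ≠ none}.Countable ∧ ∀ i ∈ l, PvlhUp s (K g i))
    (hK : ∀ g, g ∉ B → ∀ i ∈ l, MeasurableSet (K g i) ∧ q ≤ colLaw ℂ (K g i))
    (hS : ∀ g, g ∉ B → ∀ τ, (∀ i ∈ l, τ ∈ K g i) → τ ∈ pvlhSec (pvdyYc C Y (pvgSites g)) (pvdyFz C yf Y σ) σ 𝒮) :
    q ^ l.length * (1 - δ) ≤ pvdyQ ε C yf 𝒮 (cfOf Y σ) := by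
  refine le_trans ?_ (pvdy_Q_ge ε hC yf hY σ mS B (q0 := q ^ l.length) fun g hg => ?_)
  · gcongr
  · obtain ⟨s, hs, uK⟩ := hup g hg
    exact pvlh_Pq_net0 _ _ σ s hs l (K g) (fun i hi => (hK g hg i hi).1) uK (fun i hi => (hK g hg i hi).2) (hS g hg)

end int

/-! ## 4. the threshold at the small plug -/

section thr

/-- over `O ∪ C` (`O` kept and not recoloured) the experiment is the splice which keeps `O` -/
theorem pvlh_restr_R {C O : Set ℂ} (yf : Conf PvPt → Set ℂ) (Y : Set ℂ) (σ : ℂ → Bool) (hOC : Disjoint O C) (hOy : Disjoint (Y ∩ O) (yf (cfOf Y σ))) (p : (ℂ → Bool) × Conf PvPt) :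
    Conf.restr ((O ∪ C) ×ˢ univ) (pvdyR C yf (cfOf Y σ) p) = Conf.restr ((O ∪ C) ×ˢ univ) (Conf.spl (O ×ˢ univ) (cfOf Y σ, p.2)) := by
  ext x
  have e1 : x ∈ (Conf.restr ((O ∪ C) ×ˢ univ) (pvdyR C yf (cfOf Y σ) p)).pts ↔ x ∈ (pvdyR C yf (cfOf Y σ) p).pts ∧ (x.1 ∈ O ∨ x.1 ∈ C) := by
    simp only [Conf.restr, mem_inter_iff, mem_prod, mem_union, mem_univ, and_true]
  have e2 : x ∈ (Conf.restr ((O ∪ C) ×ˢ univ) (Conf.spl (O ×ˢ univ) (cfOf Y σ, p.2))).pts ↔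
      ((x.1 ∈ Y ∧ x.2 = σ x.1) ∧ x.1 ∈ O ∨ x ∈ p.2.pts ∧ x.1 ∉ O) ∧ (x.1 ∈ O ∨ x.1 ∈ C) := by
    simp only [Conf.restr, Conf.spl, Conf.union, cfOf, mem_inter_iff, mem_union, mem_prod, mem_univ, and_true, mem_compl_iff, mem_ofPred_eq]
  rw [e1, e2, pvdy_mem_R, cfOf_sites]
  by_cases hO : x.1 ∈ O
  · have hC : x.1 ∉ C := Set.disjoint_left.1 hOC hO
    by_cases hY : x.1 ∈ Y
    · have hy : x.1 ∉ yf (cfOf Y σ) := Set.disjoint_left.1 hOy ⟨hY, hO⟩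
      rw [pvfqMix_of_notMem hy]
      have e3 : (p.1, cfCol (cfOf Y σ)).2 x.1 = σ x.1 := pvdy_cfCol_cfOf σ hY
      rw [e3]
      tauto
    · tauto
  · tauto

/-- **THE THRESHOLD**: for an event read over `O ∪ C` the conditional probability of the hybrid experiment IS the conditional probability given the region state of `O` -/
theorem pvlh_Q_eq_P (ε : ℝ) {C O : Set ℂ} (hO : MeasurableSet O) (yf : Conf PvPt → Set ℂ) (Y : Set ℂ) (σ : ℂ → Bool) (hOC : Disjoint O C) (hOy : Disjoint (Y ∩ O) (yf (cfOf Y σ)))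
    {𝒜 : Set (Conf PvPt)} (mA : MeasurableSet 𝒜) (hr : Conf.ReadsSet ((O ∪ C) ×ˢ univ) 𝒜) : pvdyQ ε C yf 𝒜 (cfOf Y σ) = pvtiP (pvP ε) (O ×ˢ univ) 𝒜 (cfOf Y σ) := by
  have := (pv_isPpp ε).prob
  rw [pvhk_P_apply _ (hO.prod MeasurableSet.univ) _ mA]
  unfold pvdyQ pvdyNu
  have e : {p : (ℂ → Bool) × Conf PvPt | pvdyR C yf (cfOf Y σ) p ∈ 𝒜} = univ ×ˢ pvhkSec (O ×ˢ univ) (cfOf Y σ) 𝒜 := by
    ext p
    simp only [mem_ofPred_eq, mem_prod, mem_univ, true_and, pvhkSec]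
    rw [← hr (pvdyR C yf (cfOf Y σ) p), ← hr (Conf.spl (O ×ˢ univ) (cfOf Y σ, p.2)), pvlh_restr_R yf Y σ hOC hOy p]
  rw [e, Measure.prod_prod, measure_univ, one_mul]

/-- **E10, LINK BOUND AT A SMALL PLUG**: the state of the plug region `O` passes the soft threshold `b ≤ P(𝒜 | η on O)` (`pvsaG` of `Tr/SoftAdm`), `𝒜` is read over `O ∪ C`;   patterns as in `pvlh_bridge` -/
theorem pvlh_link (ε : ℝ) {C O : Set ℂ} (hC : MeasurableSet C) (hO : MeasurableSet O) (yf : Conf PvPt → Set ℂ) {Y : Set ℂ} (hY : Y.Countable) (σ : ℂ → Bool)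
    (hOC : Disjoint O C) (hOy : Disjoint (Y ∩ O) (yf (cfOf Y σ))) {𝒜 𝒮 : Set (Conf PvPt)} (mA : MeasurableSet 𝒜) (mS : MeasurableSet 𝒮) (hr : Conf.ReadsSet ((O ∪ C) ×ˢ univ) 𝒜)
    (B : Set PvGeoT) {b δ q : ℝ≥0∞} (hb : b ≤ pvtiP (pvP ε) (O ×ˢ univ) 𝒜 (cfOf Y σ)) (hB : pvGeo ε B ≤ δ)
    {κ : Type*} (l : List κ) (K : PvGeoT → κ → Set (ℂ → Bool))
    (hup : ∀ g, g ∉ B → ∃ s : ℂ → Option Bool, {z | s z ≠ none}.Countable ∧ PvlhUp s (pvlhSec (pvdyYc C Y (pvgSites g)) (pvdyFz C yf Y σ) σ 𝒜) ∧ ∀ i ∈ l, PvlhUp s (K g i))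
    (hK : ∀ g, g ∉ B → ∀ i ∈ l, MeasurableSet (K g i) ∧ q ≤ colLaw ℂ (K g i))
    (hS : ∀ g, g ∉ B → ∀ τ, τ ∈ pvlhSec (pvdyYc C Y (pvgSites g)) (pvdyFz C yf Y σ) σ 𝒜 → (∀ i ∈ l, τ ∈ K g i) → τ ∈ pvlhSec (pvdyYc C Y (pvgSites g)) (pvdyFz C yf Y σ) σ 𝒮) :
    q ^ l.length * (b - δ) ≤ pvdyQ ε C yf 𝒮 (cfOf Y σ) :=
  pvlh_bridge ε hC yf hY σ mA mS B (by rw [pvlh_Q_eq_P ε hO yf Y σ hOC hOy mA hr]; exact hb) hB l K hup hK hS

/-- the weight of the link is bounded: `1_𝒮 / P(𝒮 | kept) ≤ D 1_𝒮` -/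
theorem pvlh_W_le (ε : ℝ) (C : Set ℂ) (yf : Conf PvPt → Set ℂ) (𝒮 : Set (Conf PvPt)) {ω : Conf PvPt} {q : ℝ≥0∞} (hq : q ≤ pvdyQ ε C yf 𝒮 ω) : pvdyW ε C yf 𝒮 ω ≤ q⁻¹ :=
  (pvdy_W_le ε C yf 𝒮 hq).trans (by
    by_cases h : ω ∈ 𝒮
    · rw [indicator_of_mem h, Pi.one_apply, mul_one]
    · rw [indicator_of_notMem h, mul_zero]; exact zero_le)

end thr

end Claimed.Agent.R289
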