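-- KEEP
import Claimed.Agent.R289.Tr.LinkGeoT
import Claimed.Agent.R289.Tr.SideOpen
import Claimed.Agent.R289.Exit.RegRP
import Claimed.Agent.R289.Exit.DjQ
import Claimed.Agent.R289.Tr.KitEnd
import Claimed.Agent.R289.Exit.ParP

/-!
# Row 289 (S0537, Cardy for Poisson-Voronoi), THE WALL, ROAD P, file Tr/LinkLayX : THE TWO THICK LINKS DO NOT MEET      (helper76; prefix `pvvqx_`, `pvvqx`, `Pvvqx`)

`K_b ∩ K_e = ∅` (hypothesis `h2` of `pvyd_dj2_of` of 58, `Exit/DjP.lean`) AT THE LAYOUTS OF 164 (`Tr/LinkLay.lean`).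
* sec. 1-2 MENU LEVEL.   `pvvqxGE 𝔑 τ` = `N⁵ C₀ ∪ N⁷ cells 1..4 ∪ N¹ AxE ∪ (C + [2,8] × [-4,3])`,   `pvvqxGB 𝔑 τ` = `N⁵ C₉ ∪ N⁷ cells 5..8 ∪ N¹ AxB ∪ (C + [-9,-3] × [-4,3])`;
      **`pvvqx_menu`** : `N¹ GE ∩ GB ⊆ N^{nW} {q 5}` (T2, T4, ACC, the four cases of `a⁻`).
* sec. 3 FINE LEVEL.   everything which `e` reads lies over `GE`: `pvvqx_XBe`, `pvvqx_XWe` (the white walk `S` through the clause `adj` of the half glue), `pvvqx_Ece`;   mirror for `b`.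
* sec. 4 THE PLANE.   **`pvvqx_dj`** : `PvlktOut` (e) + `PvlktOut` (b) + `PvlktSe` + `PvlktSb` + the windows of the four ends ⟹ `Disjoint (pvnhKp (wb.lk eP eUm) wb.Et) (pvnhKp (we.lk eUp eM) we.Et)`.
-/

set_option autoImplicit false
set_option linter.unusedSectionVars false
set_option linter.unusedVariables false

namespace Claimed.Agent.R289

open Set Metric Relation Claims.C0467 Claimed.Agent.R291

/-! ## 0. tools -/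

section tools

variable {E E' X : Set (ℤ × ℤ)}

/-- disjoint collars: any split of the total width -/
theorem pvvqx_far {i j i' j' : ℕ} (h : Disjoint (pvtwN i E) (pvtwN j E')) (hij : i' + j' ≤ i + j) : Disjoint (pvtwN i' E) (pvtwN j' E') := by
  rw [Set.disjoint_left]
  rintro w ⟨x, hx, a1, a2, a3, a4⟩ ⟨y, hy, b1, b2, b3, b4⟩
  have hij' : (i' : ℤ) + j' ≤ (i : ℤ) + j := by exact_mod_cast hij
  rcases pvlz_far_of_disj h hx hy with k | k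
  · have : |x.1 - y.1| ≤ (i' : ℤ) + j' := abs_le.2 ⟨by omega, by omega⟩
    omega
  · have : |x.2 - y.2| ≤ (i' : ℤ) + j' := abs_le.2 ⟨by omega, by omega⟩
    omega

theorem pvvqx_far0 {j i' j' : ℕ} (h : Disjoint E (pvtwN j E')) (hij : i' + j' ≤ j) : Disjoint (pvtwN i' E) (pvtwN j' E') := by
  refine pvvqx_far (i := 0) (j := j) ?_ (by omega)
  rwa [pvtw_N_zero]

/-- a collar of a set off a box is off the smaller box -/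
theorem pvvqx_off_box {k j : ℕ} (h : Disjoint X (pvmnBox (k + j))) : Disjoint (pvtwN j X) (pvmnBox k) := by
  rw [Set.disjoint_left]
  rintro w ⟨x, hx, a1, a2, a3, a4⟩ ⟨b1, b2, b3, b4⟩
  refine Set.disjoint_left.1 h hx ⟨?_, ?_, ?_, ?_⟩ <;> push_cast <;> omega

theorem pvvqx_box_disj {k k' : ℕ} (h1 : Disjoint X (pvmnBox k)) (h2 : E ⊆ pvmnBox k') (hk : k' ≤ k) : Disjoint X E :=
  h1.mono_right (h2.trans (pvmn_box_mono hk))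

end tools

/-! ## 1. the geometry of `u`, of the axis of `e` and of the access ray: explicit cases -/

/-- the menu cells of the East side of `u` -/
def pvvqxUE (C : ℤ × ℤ) : Set (ℤ × ℤ) := tscBox (C.1 + 2) (C.1 + 8) (C.2 - 4) (C.2 + 3)

/-- the menu cells of the West side of `u` -/
def pvvqxUB (C : ℤ × ℤ) : Set (ℤ × ℤ) := tscBox (C.1 - 9) (C.1 - 3) (C.2 - 4) (C.2 + 3)

section geom

variable {q a : ℤ × ℤ} {L : ℤ}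

theorem pvvqx_UE_sub (C : ℤ × ℤ) : pvvqxUE C ⊆ pvfjSh C (pvmnBox 8) := by
  rintro x ⟨h1, h2, h3, h4⟩
  refine ⟨(x.1 - C.1, x.2 - C.2), ⟨?_, ?_, ?_, ?_⟩, ?_⟩
  · push_cast; omega
  · push_cast; omega
  · push_cast; omega
  · push_cast; omega
  · ext <;> simp

theorem pvvqx_UB_sub (C : ℤ × ℤ) : pvvqxUB C ⊆ pvtwN 1 (pvfjSh C (pvmnBox 8)) := by
  rintro x ⟨h1, h2, h3, h4⟩
  refine ⟨(max x.1 (C.1 - 8), x.2), ⟨(max x.1 (C.1 - 8) - C.1, x.2 - C.2), ⟨?_, ?_, ?_, ?_⟩, ?_⟩, ?_, ?_, ?_, ?_⟩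
  · push_cast; omega
  · push_cast; omega
  · push_cast; omega
  · push_cast; omega
  · ext <;> simp
  · push_cast; omega
  · push_cast; omega
  · push_cast; omega
  · push_cast; omega

theorem pvvqx_UE_UB (C : ℤ × ℤ) : Disjoint (pvtwN 1 (pvvqxUE C)) (pvvqxUB C) := by
  rw [Set.disjoint_left]
  rintro w ⟨x, ⟨h1, h2, h3, h4⟩, a1, a2, a3, a4⟩ ⟨b1, b2, b3, b4⟩
  push_cast at a1 a2 a3 a4
  omega

/-- the East side of `u` against the access ray -/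
theorem pvvqx_UE_acc (ha : PvfjDir a) : Disjoint (pvtwN 1 (pvvqxUE (pvlzCu q a L))) (pvtwN 1 (pvlzRay (pvlzFr q a L) (pvlzDw a))) := by
  rw [Set.disjoint_left]
  rintro w ⟨x, ⟨h1, h2, h3, h4⟩, a1, a2, a3, a4⟩ ⟨_, ⟨j, rfl⟩, g1, g2, g3, g4⟩
  rw [pvlz_fr_fst, pvlz_fr_snd] at g1 g2 g3 g4
  push_cast at a1 a2 a3 a4 g1 g2 g3 g4
  rcases ha with rfl | rfl | rfl | rfl
  · rw [pvlz_dw_E] at g1 g2 g3 g4; omega
  · rw [pvlz_dw_W] at g1 g2 g3 g4; omega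
  · rw [pvlz_dw_N] at g1 g2 g3 g4; omega
  · rw [pvlz_dw_S] at g1 g2 g3 g4; omega

/-- the axis of `e` against the West side of `u` -/
theorem pvvqx_ax_UB (ha : PvfjDir a) : Disjoint (pvtwN 2 (pvlzAx q a L)) (pvvqxUB (pvlzCu q a L)) := by
  rw [Set.disjoint_left]
  rintro w ⟨z, hz, g1, g2, g3, g4⟩ ⟨b1, b2, b3, b4⟩
  push_cast at g1 g2 g3 g4
  rcases ha with rfl | rfl | rfl | rfl
  · rw [pvlz_ax_E] at hz
    rw [pvlz_cu_E] at b1 b2 b3 b4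
    rcases hz with (⟨h1, h2, h3, h4⟩ | ⟨h1, h2, h3, h4⟩) | ⟨h1, h2, h3, h4⟩ <;> omega
  · rw [pvlz_ax_W] at hz
    rw [pvlz_cu_W] at b1 b2 b3 b4
    obtain ⟨h1, h2, h3, h4⟩ := hz
    omega
  · rw [pvlz_ax_N] at hz
    rw [pvlz_cu_N] at b1 b2 b3 b4
    rcases hz with ⟨h1, h2, h3, h4⟩ | ⟨h1, h2, h3, h4⟩ <;> omega
  · rw [pvlz_ax_S] at hz
    rw [pvlz_cu_S] at b1 b2 b3 b4
    rcases hz with ⟨h1, h2, h3, h4⟩ | ⟨h1, h2, h3, h4⟩ <;> omega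

/-- the axis of `e` = a part of the entrance ray + a part beyond the box of the plug -/
theorem pvvqx_ax_split (ha : PvfjDir a) {n : ℕ} (hq : q ∈ pvmnBox n) (hL : 2 * (n : ℤ) + 60 ≤ L) : pvlzAx q a L ⊆ pvlzRay q a ∪ (pvmnBox (n + 40))ᶜ := by
  intro z hz
  obtain ⟨q1, q2, q3, q4⟩ := hq
  have off : ∀ {z : ℤ × ℤ}, ((n : ℤ) + 40 < z.1 ∨ z.1 < -((n : ℤ) + 40) ∨ (n : ℤ) + 40 < z.2 ∨ z.2 < -((n : ℤ) + 40)) → z ∈ (pvmnBox (n + 40))ᶜ := by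
    rintro z hz ⟨k1, k2, k3, k4⟩
    push_cast at k1 k2 k3 k4
    omega
  rcases ha with rfl | rfl | rfl | rfl
  · rw [pvlz_ax_E] at hz
    rcases hz with (⟨h1, h2, h3, h4⟩ | ⟨h1, h2, h3, h4⟩) | ⟨h1, h2, h3, h4⟩
    · refine Or.inl ⟨(z.1 - q.1).toNat, ?_⟩
      ext
      · simp only; rw [Int.toNat_of_nonneg (by omega)]; ring
      · simp only; omega
    · exact Or.inr (off (by omega))
    · exact Or.inr (off (by omega))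
  · rw [pvlz_ax_W] at hz
    obtain ⟨h1, h2, h3, h4⟩ := hz
    refine Or.inl ⟨(q.1 - z.1).toNat, ?_⟩
    ext
    · simp only; rw [Int.toNat_of_nonneg (by omega)]; ring
    · simp only; omega
  · rw [pvlz_ax_N] at hz
    rcases hz with ⟨h1, h2, h3, h4⟩ | ⟨h1, h2, h3, h4⟩
    · refine Or.inl ⟨(z.2 - q.2).toNat, ?_⟩
      ext
      · simp only; omega
      · simp only; rw [Int.toNat_of_nonneg (by omega)]; ring
    · exact Or.inr (off (by omega))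
  · rw [pvlz_ax_S] at hz
    rcases hz with ⟨h1, h2, h3, h4⟩ | ⟨h1, h2, h3, h4⟩
    · refine Or.inl ⟨(q.2 - z.2).toNat, ?_⟩
      ext
      · simp only; omega
      · simp only; rw [Int.toNat_of_nonneg (by omega)]; ring
    · exact Or.inr (off (by omega))

end geom

/-! ## 2. the menu level -/

/-- **everything which `e` reads, in menu cells** -/
noncomputable def pvvqxGE (𝔑 : PvmnNum) (τ : PvmnType) : Set (ℤ × ℤ) :=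
  pvtwN 5 (τ.C 0 : Set (ℤ × ℤ)) ∪ pvtwN 7 (pvmnCells τ 1 4) ∪ pvtwN 1 (pvlktAxE 𝔑 τ) ∪ pvvqxUE (pvlzC 𝔑 τ)

/-- **everything which `b` reads, in menu cells** -/
noncomputable def pvvqxGB (𝔑 : PvmnNum) (τ : PvmnType) : Set (ℤ × ℤ) :=
  pvtwN 5 (τ.C 9 : Set (ℤ × ℤ)) ∪ pvtwN 7 (pvmnCells τ 5 8) ∪ pvtwN 1 (pvlktAxB 𝔑 τ) ∪ pvvqxUB (pvlzC 𝔑 τ)

theorem pvvqx_eqns_cite : True := by
  have := @pvvqxUE.eq_1; have := @pvvqxUB.eq_1; have := @pvvqxGE.eq_1; have := @pvvqxGB.eq_1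
  trivial

section menu

variable {𝔑 : PvmnNum} {τ : PvmnType}

theorem pvvqx_cells_box (hτ : PvmnIsType 𝔑 τ) (a b k : ℕ) : pvtwN k (pvmnCells τ a b) ⊆ pvmnBox (𝔑.nBx + k) := by
  refine pvmn_N_box ?_
  rintro c ⟨j, _, _, hc⟩
  exact hτ.box j hc

theorem pvvqx_C_box (hτ : PvmnIsType 𝔑 τ) (j : Fin 10) (k : ℕ) : pvtwN k (τ.C j : Set (ℤ × ℤ)) ⊆ pvmnBox (𝔑.nBx + k) := pvmn_N_box (hτ.box j)

/-- the axis of `b` = exit ray, ring road, access ray -/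
theorem pvvqx_AxB_sub (𝔑 : PvmnNum) (τ : PvmnType) : pvlktAxB 𝔑 τ ⊆ pvlzRay (τ.q 10) (pvlzAp 𝔑 τ) ∪ (pvmnBox (3 * 𝔑.nBx + 199))ᶜ ∪
    pvlzRay (pvlzFr (τ.q 0) (pvlzAm 𝔑 τ) (pvlzL 𝔑)) (pvlzDw (pvlzAm 𝔑 τ)) := by
  rintro x ((hx | hx) | hx)
  · exact Or.inl (Or.inl hx.1)
  · exact Or.inl (Or.inr hx.1.2)
  · exact Or.inr hx.1

/-- a set in the box `nBx + 38` which is off the collar of the exit ray is off the collar of the axis of `b` -/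
theorem pvvqx_AxB_off (hτ : PvmnIsType 𝔑 τ) (hacc : PvlzHasAcc 𝔑 τ) {X : Set (ℤ × ℤ)} (hX : X ⊆ pvmnBox (𝔑.nBx + 38)) (hr : Disjoint X (pvtwN 1 (pvlzRay (τ.q 10) (pvlzAp 𝔑 τ)))) :
    Disjoint X (pvtwN 1 (pvlktAxB 𝔑 τ)) := by
  have hA := pvlz_acc_spec hacc
  refine Disjoint.mono_right (pvtw_N_mono le_rfl (pvvqx_AxB_sub 𝔑 τ)) ?_
  rw [pvtw_N_union, pvtw_N_union, disjoint_union_right, disjoint_union_right]
  refine ⟨⟨hr, ?_⟩, ?_⟩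
  · refine (pvvqx_box_disj (pvvqx_off_box (k := 3 * 𝔑.nBx + 198) (j := 1) ?_) hX (by omega)).symm
    exact disjoint_compl_left
  · refine (pvvqx_box_disj (pvvqx_off_box (k := 𝔑.nBx + 39) (j := 1) ?_) hX (by omega)).symm
    exact pvlz_wm_box hA.am_dir (pvlz_q0_box hτ) (le_of_eq rfl)

/-- **THE TWO THICK LINKS DO NOT MEET, MENU LEVEL** -/
theorem pvvqx_menu (hτ : PvmnIsType 𝔑 τ) (hacc : PvlzHasAcc 𝔑 τ) : pvtwN 1 (pvvqxGE 𝔑 τ) ∩ pvvqxGB 𝔑 τ ⊆ pvtwN 𝔑.nW {τ.q 5} := by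
  have hA := pvlz_acc_spec hacc
  have hq0 := pvlz_q0_box hτ
  have hL : pvlzL 𝔑 = 2 * (𝔑.nBx : ℤ) + 60 := rfl
  set ap := pvlzAp 𝔑 τ with hap
  set am := pvlzAm 𝔑 τ with ham
  -- the four parts of `N¹ GE`
  have eGE : pvtwN 1 (pvvqxGE 𝔑 τ) = pvtwN 6 (τ.C 0 : Set (ℤ × ℤ)) ∪ pvtwN 8 (pvmnCells τ 1 4) ∪ pvtwN 2 (pvlktAxE 𝔑 τ) ∪ pvtwN 1 (pvvqxUE (pvlzC 𝔑 τ)) := by
    unfold pvvqxGE
    rw [pvtw_N_union, pvtw_N_union, pvtw_N_union, pvtw_N_add, pvtw_N_add, pvtw_N_add]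
  -- pieces against pieces
  have far : ∀ (k k' : Fin 10) (i j : ℕ), k.1 + 2 ≤ k'.1 → i + j ≤ 20 → Disjoint (pvtwN i (τ.C k : Set (ℤ × ℤ))) (pvtwN j (τ.C k' : Set (ℤ × ℤ))) :=
    fun k k' i j hk hij => pvvqx_far (hτ.far k k' hk) (by omega)
  -- the collar of `u`
  have hu2 : pvtwN 2 (pvfjSh (pvlzC 𝔑 τ) (pvmnBox 8)) ⊆ (pvmnBox (𝔑.nBx + 38))ᶜ := by
    have := pvvqx_off_box (k := 𝔑.nBx + 38) (j := 2) (pvlz_u_off hA.am_dir hq0 (le_of_eq hL.symm))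
    exact fun x hx hx' => Set.disjoint_left.1 this hx hx'
  have hUE : pvtwN 1 (pvvqxUE (pvlzC 𝔑 τ)) ⊆ pvtwN 2 (pvfjSh (pvlzC 𝔑 τ) (pvmnBox 8)) := pvtw_N_mono (by omega) (pvvqx_UE_sub _)
  have hUB : pvvqxUB (pvlzC 𝔑 τ) ⊆ pvtwN 2 (pvfjSh (pvlzC 𝔑 τ) (pvmnBox 8)) := (pvvqx_UB_sub _).trans (pvtw_N_mono (by omega) le_rfl)
  -- rays
  have sep : ∀ i j : ℕ, i + j ≤ 60 → Disjoint (pvtwN i (pvlzRay (τ.q 10) ap ∪ (τ.C 9 : Set (ℤ × ℤ)))) (pvtwN j (pvlzRay (τ.q 0) am ∪ (τ.C 0 : Set (ℤ × ℤ)))) :=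
    fun i j hij => pvvqx_far hA.sep (by omega)
  have hAxE : pvlktAxE 𝔑 τ = pvlzAx (τ.q 0) am (pvlzL 𝔑) := rfl
  have hC : pvlzC 𝔑 τ = pvlzCu (τ.q 0) am (pvlzL 𝔑) := rfl
  have axray : ∀ i : ℕ, pvtwN i (pvlktAxE 𝔑 τ) ⊆ pvtwN (i + 24) (pvlzRay (τ.q 0) am ∪ (τ.C 0 : Set (ℤ × ℤ))) := by
    intro i
    rw [← pvtw_N_add]
    exact pvtw_N_mono le_rfl ((pvlz_ax_ray hA.am_dir (pvlz_L8 𝔑)).trans (pvtw_N_mono le_rfl subset_union_left))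
  have dis : ∀ {A B : Set (ℤ × ℤ)} {x : ℤ × ℤ}, Disjoint A B → x ∈ A → x ∈ B → x ∈ pvtwN 𝔑.nW {τ.q 5} := fun h h1 h2 => (Set.disjoint_left.1 h h1 h2).elim
  have boxoff : ∀ {x : ℤ × ℤ} {k : ℕ}, k ≤ 38 → x ∈ pvmnBox (𝔑.nBx + k) → x ∈ pvtwN 2 (pvfjSh (pvlzC 𝔑 τ) (pvmnBox 8)) → x ∈ pvtwN 𝔑.nW {τ.q 5} :=
    fun hk h1 h2 => (hu2 h2 (pvmn_box_mono (by omega) h1)).elim
  have rpc : ∀ i j : ℕ, i + j ≤ 30 → Disjoint (pvtwN i (pvlzRay (τ.q 10) ap)) (pvtwN j (pvmnCells τ 0 8)) := fun i j hij => pvvqx_far0 hA.rp_cells hij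
  have rmc : ∀ i j : ℕ, i + j ≤ 30 → Disjoint (pvtwN i (pvlzRay (τ.q 0) am)) (pvtwN j (pvmnCells τ 1 9)) := fun i j hij => pvvqx_far0 hA.rm_cells hij
  rintro x ⟨hx, hy⟩
  rw [eGE] at hx
  rcases hx with ((h0 | h14) | hax) | hue
  · rcases hy with ((h9 | h58) | hab) | hub
    · exact dis (far 0 9 6 5 (by norm_num) (by norm_num)) h0 h9
    · obtain ⟨k, k1, k2, hk⟩ := pvmn_N_cells.1 h58
      exact dis (far 0 k 6 7 (by show 0 + 2 ≤ k.1; omega) (by norm_num)) h0 hk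
    · refine dis (pvvqx_AxB_off hτ hacc ((pvvqx_C_box hτ 0 6).trans (pvmn_box_mono (by omega))) ?_) h0 hab
      exact ((rpc 1 6 (by norm_num)).mono_right (pvtw_N_mono le_rfl (pvmn_C_sub 0 (by norm_num) (by norm_num)))).symm
    · exact boxoff (by norm_num) (pvvqx_C_box hτ 0 6 h0) (hUB hub)
  · rcases hy with ((h9 | h58) | hab) | hub
    · obtain ⟨k, k1, k2, hk⟩ := pvmn_N_cells.1 h14
      exact dis (far k 9 8 5 (by show k.1 + 2 ≤ 9; omega) (by norm_num)) hk h9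
    · obtain ⟨k, k1, k2, hk⟩ := pvmn_N_cells.1 h14
      obtain ⟨k', k1', k2', hk'⟩ := pvmn_N_cells.1 h58
      by_cases hkk : k.1 + 2 ≤ k'.1
      · exact dis (far k k' 8 7 hkk (by norm_num)) hk hk'
      · have e4 : k = 4 := Fin.ext (by show k.1 = 4; omega)
        have e5 : k' = 5 := Fin.ext (by show k'.1 = 5; omega)
        subst e4 e5
        exact hτ.adj 4 5 rfl ⟨pvtw_N_mono (by norm_num) le_rfl hk, pvtw_N_mono (by norm_num) le_rfl hk'⟩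
    · refine dis (pvvqx_AxB_off hτ hacc ((pvvqx_cells_box hτ 1 4 8).trans (pvmn_box_mono (by omega))) ?_) h14 hab
      exact ((rpc 1 8 (by norm_num)).mono_right (pvtw_N_mono le_rfl (pvmn_cells_mono (by norm_num) (by norm_num)))).symm
    · exact boxoff (by norm_num) (pvvqx_cells_box hτ 1 4 8 h14) (hUB hub)
  · rcases hy with ((h9 | h58) | hab) | hub
    · exact dis (sep 5 26 (by norm_num)) (pvtw_N_mono le_rfl subset_union_right h9) (axray 2 hax)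
    · have h1 := pvtw_N_mono (k := 2) le_rfl (pvvqx_ax_split hA.am_dir hq0 (le_of_eq hL.symm)) hax
      rw [pvtw_N_union] at h1
      rcases h1 with h1 | h1
      · exact dis (rmc 2 7 (by norm_num)) h1 (pvtw_N_mono le_rfl (pvmn_cells_mono (by norm_num) (by norm_num)) h58)
      · exact dis (pvvqx_off_box (k := 𝔑.nBx + 38) (j := 2) disjoint_compl_left) h1 (pvmn_box_mono (by omega) (pvvqx_cells_box hτ 5 8 7 h58))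
    · have h1 := pvtw_N_mono (k := 1) le_rfl (pvvqx_AxB_sub 𝔑 τ) hab
      rw [pvtw_N_union, pvtw_N_union] at h1
      rcases h1 with (h1 | h1) | h1
      · exact dis (sep 1 26 (by norm_num)) (pvtw_N_mono le_rfl subset_union_left h1) (axray 2 hax)
      · exact dis (pvvqx_off_box (k := 3 * 𝔑.nBx + 198) (j := 1) disjoint_compl_left) h1
          (pvmn_box_mono (by omega) (pvlz_ax_box hA.am_dir hq0 hL (pvtw_N_mono (by norm_num) le_rfl hax)))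
      · exact dis (pvvqx_far0 (pvlz_wm_ax hA.am_dir) (i' := 1) (j' := 2) (by norm_num)) h1 hax
    · exact dis (pvvqx_ax_UB hA.am_dir) hax hub
  · rcases hy with ((h9 | h58) | hab) | hub
    · exact boxoff (by norm_num) (pvvqx_C_box hτ 9 5 h9) (hUE hue)
    · exact boxoff (by norm_num) (pvvqx_cells_box hτ 5 8 7 h58) (hUE hue)
    · have h1 := pvtw_N_mono (k := 1) le_rfl (pvvqx_AxB_sub 𝔑 τ) hab
      rw [pvtw_N_union, pvtw_N_union] at h1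
      rcases h1 with (h1 | h1) | h1
      · refine dis (sep 1 33 (by norm_num)) (pvtw_N_mono le_rfl subset_union_left h1) ?_
        have h2 : pvtwN 1 (pvvqxUE (pvlzC 𝔑 τ)) ⊆ pvtwN 1 (pvtwN 32 (pvlzRay (τ.q 0) am ∪ (τ.C 0 : Set (ℤ × ℤ)))) :=
          pvtw_N_mono le_rfl ((pvvqx_UE_sub _).trans ((pvlz_u_ray hA.am_dir (pvlz_L8 𝔑)).trans (pvtw_N_mono le_rfl subset_union_left)))
        rw [pvtw_N_add] at h2
        exact h2 hue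
      · refine dis (pvvqx_off_box (k := 3 * 𝔑.nBx + 198) (j := 1) disjoint_compl_left) h1 ?_
        exact pvmn_box_mono (by omega) (pvmn_N_box ((pvvqx_UE_sub _).trans (pvlz_u_box hA.am_dir hq0 hL)) hue)
      · exact dis (pvvqx_UE_acc hA.am_dir) hue h1
    · exact dis (pvvqx_UE_UB _) hue hub

end menu

/-! ## 3. the fine level -/

section fine

variable {𝔑 : PvmnNum} {τ : PvmnType} {ln : ((ℤ × ℤ) × (ℤ × ℤ)) × ℕ} {o : ℤ × ℤ} {S : Set (ℤ × ℤ)}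

/-- at most 40 fine cells cost one menu cell -/
theorem pvvqx_N_pre (o : ℤ × ℤ) {k : ℕ} (hk : k ≤ 40) (E : Set (ℤ × ℤ)) : pvtwN k ((pvlktPhi o).pre E) ⊆ (pvlktPhi o).pre (pvtwN 1 E) :=
  pvwg_N_pre1 (by norm_num) o (by exact_mod_cast hk) E

/-- a collar of a box round `u` -/
theorem pvvqx_N_Bx (u : ℤ × ℤ) (k : ℕ) (a b c d : ℤ) : pvtwN k (pvlktBx u a b c d) ⊆ pvlktBx u (a - k) (b + k) (c - k) (d + k) := by
  rintro w ⟨z, ⟨h1, h2, h3, h4⟩, g1, g2, g3, g4⟩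
  exact ⟨by omega, by omega, by omega, by omega⟩

/-- a box of fine cells round `u` lies over a box of menu cells round `C` -/
theorem pvvqx_Bx_pre (o C : ℤ × ℤ) {a b c d a' b' c' d' : ℤ} (ha : 40 * a' ≤ a) (hb : b < 40 * (b' + 1)) (hc : 40 * c' ≤ c) (hd : d < 40 * (d' + 1)) :
    pvlktBx (pvlktOu o C) a b c d ⊆ (pvlktPhi o).pre (tscBox (C.1 + a') (C.1 + b') (C.2 + c') (C.2 + d')) := by
  rintro w ⟨h1, h2, h3, h4⟩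
  simp only [pvlktOu] at h1 h2 h3 h4
  show (pvgwDiv 40 (by norm_num) o).ap w ∈ tscBox (C.1 + a') (C.1 + b') (C.2 + c') (C.2 + d')
  rw [pvwg_ap]
  exact ⟨by simp only; omega, by simp only; omega, by simp only; omega, by simp only; omega⟩

theorem pvvqx_BxE (𝔑 : PvmnNum) (τ : PvmnType) (o : ℤ × ℤ) {a b c d : ℤ} (ha : 80 ≤ a) (hb : b < 360) (hc : -160 ≤ c) (hd : d < 160) :
    pvlktBx (pvlktU0 𝔑 τ o) a b c d ⊆ (pvlktPhi o).pre (pvvqxGE 𝔑 τ) := by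
  refine (pvvqx_Bx_pre o (pvlzC 𝔑 τ) (a' := 2) (b' := 8) (c' := -4) (d' := 3) (by omega) (by omega) (by omega) (by omega)).trans (pvgw_pre_mono _ ?_)
  exact fun x hx => Or.inr hx

theorem pvvqx_BxB (𝔑 : PvmnNum) (τ : PvmnType) (o : ℤ × ℤ) {a b c d : ℤ} (ha : -360 ≤ a) (hb : b < -80) (hc : -160 ≤ c) (hd : d < 160) :
    pvlktBx (pvlktU0 𝔑 τ o) a b c d ⊆ (pvlktPhi o).pre (pvvqxGB 𝔑 τ) := by
  refine (pvvqx_Bx_pre o (pvlzC 𝔑 τ) (a' := -9) (b' := -3) (c' := -4) (d' := 3) (by omega) (by omega) (by omega) (by omega)).trans (pvgw_pre_mono _ ?_)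
  exact fun x hx => Or.inr hx

/-- pieces of `GE` -/
theorem pvvqx_GE_C0 {k : ℕ} (hk : k ≤ 5) : pvtwN k (τ.C 0 : Set (ℤ × ℤ)) ⊆ pvvqxGE 𝔑 τ := fun x hx => Or.inl (Or.inl (Or.inl (pvtw_N_mono hk le_rfl hx)))
theorem pvvqx_GE_cells {k a b : ℕ} (hk : k ≤ 7) (ha : 1 ≤ a) (hb : b ≤ 4) : pvtwN k (pvmnCells τ a b) ⊆ pvvqxGE 𝔑 τ :=
  fun x hx => Or.inl (Or.inl (Or.inr (pvtw_N_mono hk (pvmn_cells_mono ha hb) hx)))
theorem pvvqx_GE_C {k : ℕ} (j : Fin 10) (hk : k ≤ 7) (ha : 1 ≤ j.1) (hb : j.1 ≤ 4) : pvtwN k (τ.C j : Set (ℤ × ℤ)) ⊆ pvvqxGE 𝔑 τ :=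
  fun x hx => Or.inl (Or.inl (Or.inr (pvtw_N_mono hk (pvmn_C_sub j ha hb) hx)))
theorem pvvqx_GE_ax : pvtwN 1 (pvlktAxE 𝔑 τ) ⊆ pvvqxGE 𝔑 τ := fun x hx => Or.inl (Or.inr hx)

/-- pieces of `GB` -/
theorem pvvqx_GB_C9 {k : ℕ} (hk : k ≤ 5) : pvtwN k (τ.C 9 : Set (ℤ × ℤ)) ⊆ pvvqxGB 𝔑 τ := fun x hx => Or.inl (Or.inl (Or.inl (pvtw_N_mono hk le_rfl hx)))
theorem pvvqx_GB_cells {k a b : ℕ} (hk : k ≤ 7) (ha : 5 ≤ a) (hb : b ≤ 8) : pvtwN k (pvmnCells τ a b) ⊆ pvvqxGB 𝔑 τ :=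
  fun x hx => Or.inl (Or.inl (Or.inr (pvtw_N_mono hk (pvmn_cells_mono ha hb) hx)))
theorem pvvqx_GB_C {k : ℕ} (j : Fin 10) (hk : k ≤ 7) (ha : 5 ≤ j.1) (hb : j.1 ≤ 8) : pvtwN k (τ.C j : Set (ℤ × ℤ)) ⊆ pvvqxGB 𝔑 τ :=
  fun x hx => Or.inl (Or.inl (Or.inr (pvtw_N_mono hk (pvmn_C_sub j ha hb) hx)))
theorem pvvqx_GB_ax : pvtwN 1 (pvlktAxB 𝔑 τ) ⊆ pvvqxGB 𝔑 τ := fun x hx => Or.inl (Or.inr hx)

/-- the tube of the arc of `e`, with a collar -/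
theorem pvvqx_FaE {k : ℕ} (hk : k ≤ 6) : pvtwN k (pvlktFaE 𝔑 τ o) ⊆ (pvlktPhi o).pre (pvvqxGE 𝔑 τ) := by
  unfold pvlktFaE
  rw [pvtw_N_union, pvtw_N_add]
  refine union_subset ((pvvqx_N_pre o (by omega) _).trans (pvgw_pre_mono _ ?_)) ((pvvqx_N_Bx _ _ _ _ _ _).trans (pvvqx_BxE 𝔑 τ o ?_ ?_ ?_ ?_))
  · rw [pvtw_N_union]
    exact union_subset (pvvqx_GE_C0 (by norm_num)) pvvqx_GE_ax
  all_goals omega

/-- the tube of the arc of `b`, with a collar -/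
theorem pvvqx_FaB {k : ℕ} (hk : k ≤ 6) : pvtwN k (pvlktFaB 𝔑 τ o) ⊆ (pvlktPhi o).pre (pvvqxGB 𝔑 τ) := by
  unfold pvlktFaB
  rw [pvtw_N_union, pvtw_N_add]
  refine union_subset ((pvvqx_N_pre o (by omega) _).trans (pvgw_pre_mono _ ?_)) ((pvvqx_N_Bx _ _ _ _ _ _).trans (pvvqx_BxB 𝔑 τ o ?_ ?_ ?_ ?_))
  · rw [pvtw_N_union]
    exact union_subset (pvvqx_GB_C9 (by norm_num)) pvvqx_GB_ax
  all_goals omega

/-- a refined collar of pieces, with a fine collar -/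
theorem pvvqx_preE {k j a b : ℕ} (hk : k ≤ 40) (hj : j ≤ 6) (ha : 1 ≤ a) (hb : b ≤ 4) : pvtwN k ((pvlktPhi o).pre (pvtwN j (pvmnCells τ a b))) ⊆ (pvlktPhi o).pre (pvvqxGE 𝔑 τ) := by
  refine (pvvqx_N_pre o hk _).trans (pvgw_pre_mono _ ?_)
  rw [pvtw_N_add]
  exact pvvqx_GE_cells (by omega) ha hb

theorem pvvqx_preB {k j a b : ℕ} (hk : k ≤ 40) (hj : j ≤ 6) (ha : 5 ≤ a) (hb : b ≤ 8) : pvtwN k ((pvlktPhi o).pre (pvtwN j (pvmnCells τ a b))) ⊆ (pvlktPhi o).pre (pvvqxGB 𝔑 τ) := by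
  refine (pvvqx_N_pre o hk _).trans (pvgw_pre_mono _ ?_)
  rw [pvtw_N_add]
  exact pvvqx_GB_cells (by omega) ha hb

/-- **the black walk of `e`** -/
theorem pvvqx_XBe : pvtwN 2 (pvlktXBe 𝔑 τ o) ⊆ (pvlktPhi o).pre (pvvqxGE 𝔑 τ) := by
  unfold pvlktXBe
  rw [pvtw_N_union, pvtw_N_union, pvtw_N_add]
  refine union_subset (union_subset ((pvvqx_N_pre o (by omega) _).trans (pvgw_pre_mono _ ?_)) ((pvvqx_N_pre o (by omega) _).trans (pvgw_pre_mono _ ?_)))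
    ((pvvqx_N_Bx _ _ _ _ _ _).trans (pvvqx_BxE 𝔑 τ o ?_ ?_ ?_ ?_))
  · rw [pvtw_N_union, pvtw_N_union]
    exact union_subset (union_subset (pvvqx_GE_C0 (by norm_num)) (pvvqx_GE_C 1 (by norm_num) (by norm_num) (by norm_num))) pvvqx_GE_ax
  · rw [pvtw_N_add]
    exact pvvqx_GE_C 2 (by norm_num) (by norm_num) (by norm_num)
  all_goals norm_num

/-- **the black walk of `b`** -/
theorem pvvqx_XBb : pvtwN 2 (pvlktXBb 𝔑 τ o) ⊆ (pvlktPhi o).pre (pvvqxGB 𝔑 τ) := by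
  unfold pvlktXBb
  rw [pvtw_N_union, pvtw_N_union, pvtw_N_add]
  refine union_subset (union_subset ((pvvqx_N_pre o (by omega) _).trans (pvgw_pre_mono _ ?_)) ((pvvqx_N_pre o (by omega) _).trans (pvgw_pre_mono _ ?_)))
    ((pvvqx_N_Bx _ _ _ _ _ _).trans (pvvqx_BxB 𝔑 τ o ?_ ?_ ?_ ?_))
  · rw [pvtw_N_union, pvtw_N_union]
    exact union_subset (union_subset (pvvqx_GB_C 8 (by norm_num) (by norm_num) (by norm_num)) (pvvqx_GB_C9 (by norm_num))) pvvqx_GB_ax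
  · rw [pvtw_N_add]
    exact pvvqx_GB_C 7 (by norm_num) (by norm_num) (by norm_num)
  all_goals norm_num

theorem pvvqx_tri {b w : ℤ × ℤ} (h : triAdj b w) : w ∈ pvtwN 1 {b} := by
  unfold triAdj at h
  have h' : (w.1 - b.1 = 1 ∧ w.2 - b.2 = 0) ∨ (w.1 - b.1 = 0 ∧ w.2 - b.2 = 1) ∨ (w.1 - b.1 = -1 ∧ w.2 - b.2 = 1) ∨ (w.1 - b.1 = -1 ∧ w.2 - b.2 = 0) ∨
      (w.1 - b.1 = 0 ∧ w.2 - b.2 = -1) ∨ (w.1 - b.1 = 1 ∧ w.2 - b.2 = -1) := by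
    simpa [Prod.ext_iff] using h
  refine ⟨b, rfl, ?_, ?_, ?_, ?_⟩ <;> push_cast <;> omega

/-- **the white walk of `e`** -/
theorem pvvqx_XWe (hτ : PvmnIsType 𝔑 τ) (hl : PvmnLaneR τ ln.1 ln.2) (hS : PvlktSe 𝔑 τ ln o S) : pvtwN 2 (pvlktXWe 𝔑 τ ln o S) ⊆ (pvlktPhi o).pre (pvvqxGE 𝔑 τ) := by
  unfold pvlktXWe
  rw [pvtw_N_union, pvtw_N_union]
  refine union_subset (union_subset ?_ ((pvvqx_N_pre o (by omega) _).trans (pvgw_pre_mono _ ?_))) ((pvvqx_N_Bx _ _ _ _ _ _).trans (pvvqx_BxE 𝔑 τ o ?_ ?_ ?_ ?_))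
  · have h1 : S ⊆ pvtwN 1 (pvlktFaE 𝔑 τ o ∪ (pvlktPhi o).pre (pvtwN 4 (pvmnCells τ 1 2))) := by
      intro w hw
      obtain ⟨b, hb, hb'⟩ := hS.adj w hw
      exact pvtw_N_mono le_rfl (singleton_subset_iff.2 hb') (pvvqx_tri hb)
    refine (pvtw_N_mono le_rfl h1).trans ?_
    rw [pvtw_N_add, pvtw_N_union]
    exact union_subset (pvvqx_FaE (by norm_num)) (pvvqx_preE (by norm_num) (by norm_num) (by norm_num) (by norm_num))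
  · rw [pvtw_N_add]
    refine (pvtw_N_mono le_rfl (singleton_subset_iff.2 (pvwg_A0 hτ hl).2.1)).trans ?_
    rw [pvtw_N_add]
    exact pvvqx_GE_C 1 (by norm_num) (by norm_num) (by norm_num)
  all_goals norm_num

/-- **the white walk of `b`** -/
theorem pvvqx_XWb (hτ : PvmnIsType 𝔑 τ) (hl : PvmnLaneR τ ln.1 ln.2) (hS : PvlktSb 𝔑 τ ln o S) : pvtwN 2 (pvlktXWb 𝔑 τ ln o S) ⊆ (pvlktPhi o).pre (pvvqxGB 𝔑 τ) := by
  unfold pvlktXWb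
  rw [pvtw_N_union, pvtw_N_union]
  refine union_subset (union_subset ?_ ((pvvqx_N_pre o (by omega) _).trans (pvgw_pre_mono _ ?_))) ((pvvqx_N_Bx _ _ _ _ _ _).trans (pvvqx_BxB 𝔑 τ o ?_ ?_ ?_ ?_))
  · have h1 : S ⊆ pvtwN 1 ((pvlktPhi o).pre (pvtwN 4 (pvmnCells τ 7 8)) ∪ pvlktFaB 𝔑 τ o) := by
      intro w hw
      obtain ⟨b, hb, hb'⟩ := hS.adj w hw
      exact pvtw_N_mono le_rfl (singleton_subset_iff.2 hb') (pvvqx_tri hb)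
    refine (pvtw_N_mono le_rfl h1).trans ?_
    rw [pvtw_N_add, pvtw_N_union]
    exact union_subset (pvvqx_preB (by norm_num) (by norm_num) (by norm_num) (by norm_num)) (pvvqx_FaB (by norm_num))
  · rw [pvtw_N_add]
    refine (pvtw_N_mono le_rfl (singleton_subset_iff.2 (pvwg_A1 hτ hl).2.1)).trans ?_
    rw [pvtw_N_add]
    exact pvvqx_GB_C 8 (by norm_num) (by norm_num) (by norm_num)
  all_goals norm_num

/-- **the window of the corridor of `e`** -/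
theorem pvvqx_Ece : pvlktEce 𝔑 τ o ⊆ (pvlktPhi o).pre (pvvqxGE 𝔑 τ) := by
  unfold pvlktEce
  rw [pvtw_N_union, pvtw_N_union]
  refine union_subset (union_subset (union_subset (pvvqx_FaE (by norm_num)) ((pvvqx_N_Bx _ _ _ _ _ _).trans (pvvqx_BxE 𝔑 τ o ?_ ?_ ?_ ?_)))
    (pvvqx_preE (by norm_num) (by norm_num) (by norm_num) (by norm_num))) (pvvqx_BxE 𝔑 τ o ?_ ?_ ?_ ?_)
  all_goals norm_num

/-- **the window of the corridor of `b`** -/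
theorem pvvqx_Ecb : pvlktEcb 𝔑 τ o ⊆ (pvlktPhi o).pre (pvvqxGB 𝔑 τ) := by
  unfold pvlktEcb
  rw [pvtw_N_union, pvtw_N_union]
  refine union_subset (union_subset (union_subset (pvvqx_FaB (by norm_num)) ((pvvqx_N_Bx _ _ _ _ _ _).trans (pvvqx_BxB 𝔑 τ o ?_ ?_ ?_ ?_)))
    (pvvqx_preB (by norm_num) (by norm_num) (by norm_num) (by norm_num))) (pvvqx_BxB 𝔑 τ o ?_ ?_ ?_ ?_)
  all_goals norm_num

end fine

/-! ## 4. the plane -/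

section plane

variable {δ : ℝ}

/-- two unions of closed cells meet only in cells which are neighbours -/
theorem pvvqx_U_inter (hδ : 0 < δ) (X Y : Set (ℤ × ℤ)) : pvtU δ X ∩ pvtU δ Y ⊆ pvtU δ (pvtwN 1 X ∩ Y) := by
  rintro p ⟨hX, hY⟩
  obtain ⟨w, hw, hpw⟩ := Set.mem_iUnion₂.1 hX
  obtain ⟨w', hw', hpw'⟩ := Set.mem_iUnion₂.1 hY
  refine Set.mem_iUnion₂.2 ⟨w', ⟨?_, hw'⟩, hpw'⟩
  rw [pvtw_N_one]
  rcases (pvt_sq_meet hδ).1 ⟨p, hpw, hpw'⟩ with e | e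
  · exact ⟨w, hw, Or.inl e.symm⟩
  · exact ⟨w, hw, Or.inr e⟩

/-- one coordinate: a point of `[a δ, (b+1) δ]` lies in a closed interval of the grid between `a` and `b` -/
theorem pvvqx_dim (hδ : 0 < δ) {t : ℝ} {a b : ℤ} (hab : a ≤ b) (h1 : (a : ℝ) * δ ≤ t) (h2 : t ≤ ((b : ℝ) + 1) * δ) : ∃ x : ℤ, a ≤ x ∧ x ≤ b ∧ (x : ℝ) * δ ≤ t ∧ t ≤ ((x : ℝ) + 1) * δ := by
  have g1 : (⌊t / δ⌋ : ℝ) * δ ≤ t := by rw [← le_div_iff₀ hδ]; exact Int.floor_le _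
  have g2 : t < ((⌊t / δ⌋ : ℝ) + 1) * δ := by rw [← div_lt_iff₀ hδ]; exact Int.lt_floor_add_one _
  have lo : a ≤ ⌊t / δ⌋ := by rw [Int.le_floor, le_div_iff₀ hδ]; exact h1
  by_cases hc : ⌊t / δ⌋ ≤ b
  · exact ⟨⌊t / δ⌋, lo, hc, g1, g2.le⟩
  · refine ⟨b, hab, le_rfl, ?_, h2⟩
    have : (b : ℝ) ≤ (⌊t / δ⌋ : ℝ) := by exact_mod_cast (by omega : b ≤ ⌊t / δ⌋)
    exact (mul_le_mul_of_nonneg_right this hδ.le).trans g1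

/-- a closed rectangle round `u` lies in the closed cells of the box -/
theorem pvvqx_mem_Bx (hδ : 0 < δ) (u : ℤ × ℤ) {a b c d : ℤ} (hab : a ≤ b) (hcd : c ≤ d) {p : ℂ} (h1 : (a : ℝ) * δ ≤ p.re - (u.1 : ℝ) * δ) (h2 : p.re - (u.1 : ℝ) * δ ≤ ((b : ℝ) + 1) * δ)
    (h3 : (c : ℝ) * δ ≤ p.im - (u.2 : ℝ) * δ) (h4 : p.im - (u.2 : ℝ) * δ ≤ ((d : ℝ) + 1) * δ) : p ∈ pvtU δ (pvlktBx u a b c d) := by
  obtain ⟨x, x1, x2, x3, x4⟩ := pvvqx_dim hδ (t := p.re) (a := u.1 + a) (b := u.1 + b) (by omega) (by push_cast; linarith) (by push_cast; linarith)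
  obtain ⟨y, y1, y2, y3, y4⟩ := pvvqx_dim hδ (t := p.im) (a := u.2 + c) (b := u.2 + d) (by omega) (by push_cast; linarith) (by push_cast; linarith)
  exact Set.mem_iUnion₂.2 ⟨(x, y), ⟨x1, x2, y1, y2⟩, x3, x4, y3, y4⟩

variable {𝔑 : PvmnNum} {τ : PvmnType} {ln : ((ℤ × ℤ) × (ℤ × ℤ)) × ℕ} {o : ℤ × ℤ} {Se Sb : Set (ℤ × ℤ)} {eUp eUm eM eP : PvnkEnd} {ρ ρ' : ℝ} {nu nu' : ℕ} {we wb : PvydWalk}

/-- **WHERE `e` IS READ**: off the two state regions, in the closed fine cells over `GE` -/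
theorem pvvqx_Ke (hδ : 0 < δ) (hτ : PvmnIsType 𝔑 τ) (hl : PvmnLaneR τ ln.1 ln.2) (hS : PvlktSe 𝔑 τ ln o Se)
    (Q : PvlktOut eUp eM δ ρ nu (pvtwN 1 (pvlktXBe 𝔑 τ o)) (pvtwN 1 (pvlktXWe 𝔑 τ ln o Se)) (pvlktBke 𝔑 τ o) (pvlktWhe 𝔑 τ ln o Se) (pvtU δ (pvlktEce 𝔑 τ o) \ (eUp.O ∪ eM.O)) we)
    (hU : ∀ p ∈ eUp.E, p ∈ eUp.O ∨ (130 * δ ≤ pvlktSx true δ (pvlktU0 𝔑 τ o) p ∧ pvlktSx true δ (pvlktU0 𝔑 τ o) p ≤ 220 * δ ∧ |p.im - ((pvlktU0 𝔑 τ o).2 : ℝ) * δ| ≤ 130 * δ))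
    (hM : eM.E ⊆ eM.O ∪ pvtU δ ((pvlktPhi o).pre (pvtwN 7 (pvmnCells τ 1 4)))) :
    pvnhKp (we.lk eUp eM) we.Et ⊆ pvtU δ ((pvlktPhi o).pre (pvvqxGE 𝔑 τ)) \ (eUp.O ∪ eM.O) := by
  rintro p ⟨hp, hO⟩
  refine ⟨?_, hO⟩
  have hO1 : p ∉ eUp.O := fun h => hO (Or.inl h)
  have hO2 : p ∉ eM.O := fun h => hO (Or.inr h)
  rcases hp with (((h | h) | h) | h) | h
  · rcases hU p h with h' | ⟨a1, a2, a3⟩
    · exact (hO1 h').elim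
    · rw [abs_le] at a3
      simp only [pvlktSx, if_true] at a1 a2
      refine pvt_U_mono (pvvqx_BxE 𝔑 τ o (a := 130) (b := 219) (c := -130) (d := 129) (by norm_num) (by norm_num) (by norm_num) (by norm_num)) ?_
      exact pvvqx_mem_Bx hδ _ (by norm_num) (by norm_num) (by push_cast; linarith) (by push_cast; linarith) (by push_cast; linarith) (by push_cast; linarith)
  · rcases hM h with h' | h'
    · exact (hO2 h').elim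
    · exact pvt_U_mono (pvgw_pre_mono _ (pvvqx_GE_cells le_rfl le_rfl le_rfl)) h'
  · have h1 : p ∈ pvlnW we.δ we.L₁ := h
    rw [Q.δ_eq] at h1
    have h2 := pvwg_W_U hδ _ h1
    rw [Q.L₁_eq, pvtw_N_add] at h2
    exact pvt_U_mono pvvqx_XBe h2
  · have h1 : p ∈ pvlnW we.δ we.L₂ := h
    rw [Q.δ_eq] at h1
    have h2 := pvwg_W_U hδ _ h1
    rw [Q.L₂_eq, pvtw_N_add] at h2
    exact pvt_U_mono (pvvqx_XWe hτ hl hS) h2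
  · rw [Q.Et_eq] at h
    exact pvt_U_mono pvvqx_Ece h.1

/-- **WHERE `b` IS READ** -/
theorem pvvqx_Kb (hδ : 0 < δ) (hτ : PvmnIsType 𝔑 τ) (hl : PvmnLaneR τ ln.1 ln.2) (hS : PvlktSb 𝔑 τ ln o Sb)
    (Q : PvlktOut eP eUm δ ρ nu (pvtwN 1 (pvlktXBb 𝔑 τ o)) (pvtwN 1 (pvlktXWb 𝔑 τ ln o Sb)) (pvlktBkb 𝔑 τ o) (pvlktWhb 𝔑 τ ln o Sb) (pvtU δ (pvlktEcb 𝔑 τ o) \ (eP.O ∪ eUm.O)) wb)
    (hU : ∀ p ∈ eUm.E, p ∈ eUm.O ∨ (130 * δ ≤ pvlktSx false δ (pvlktU0 𝔑 τ o) p ∧ pvlktSx false δ (pvlktU0 𝔑 τ o) p ≤ 220 * δ ∧ |p.im - ((pvlktU0 𝔑 τ o).2 : ℝ) * δ| ≤ 130 * δ))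
    (hP : eP.E ⊆ eP.O ∪ pvtU δ ((pvlktPhi o).pre (pvtwN 7 (pvmnCells τ 5 8)))) :
    pvnhKp (wb.lk eP eUm) wb.Et ⊆ pvtU δ ((pvlktPhi o).pre (pvvqxGB 𝔑 τ)) \ (eP.O ∪ eUm.O) := by
  rintro p ⟨hp, hO⟩
  refine ⟨?_, hO⟩
  have hO1 : p ∉ eP.O := fun h => hO (Or.inl h)
  have hO2 : p ∉ eUm.O := fun h => hO (Or.inr h)
  rcases hp with (((h | h) | h) | h) | h
  · rcases hP h with h' | h'
    · exact (hO1 h').elim
    · exact pvt_U_mono (pvgw_pre_mono _ (pvvqx_GB_cells le_rfl le_rfl le_rfl)) h'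
  · rcases hU p h with h' | ⟨a1, a2, a3⟩
    · exact (hO2 h').elim
    · rw [abs_le] at a3
      simp only [pvlktSx, Bool.false_eq_true, if_false] at a1 a2
      refine pvt_U_mono (pvvqx_BxB 𝔑 τ o (a := -220) (b := -131) (c := -130) (d := 129) (by norm_num) (by norm_num) (by norm_num) (by norm_num)) ?_
      exact pvvqx_mem_Bx hδ _ (by norm_num) (by norm_num) (by push_cast; linarith) (by push_cast; linarith) (by push_cast; linarith) (by push_cast; linarith)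
  · have h1 : p ∈ pvlnW wb.δ wb.L₁ := h
    rw [Q.δ_eq] at h1
    have h2 := pvwg_W_U hδ _ h1
    rw [Q.L₁_eq, pvtw_N_add] at h2
    exact pvt_U_mono pvvqx_XBb h2
  · have h1 : p ∈ pvlnW wb.δ wb.L₂ := h
    rw [Q.δ_eq] at h1
    have h2 := pvwg_W_U hδ _ h1
    rw [Q.L₂_eq, pvtw_N_add] at h2
    exact pvt_U_mono (pvvqx_XWb hτ hl hS) h2
  · rw [Q.Et_eq] at h
    exact pvt_U_mono pvvqx_Ecb h.1

/-- the two regions meet only over the bar of the pin vertex -/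
theorem pvvqx_reg_inter (hδ : 0 < δ) (hτ : PvmnIsType 𝔑 τ) (hacc : PvlzHasAcc 𝔑 τ) (o : ℤ × ℤ) :
    pvtU δ ((pvlktPhi o).pre (pvvqxGE 𝔑 τ)) ∩ pvtU δ ((pvlktPhi o).pre (pvvqxGB 𝔑 τ)) ⊆ pvtU δ ((pvlktPhi o).pre (pvmnBar 𝔑 τ 5)) := by
  refine (pvvqx_U_inter hδ _ _).trans (pvt_U_mono ?_)
  rintro k ⟨h1, h2⟩
  exact pvvqx_menu hτ hacc ⟨pvvqx_N_pre o (by norm_num) _ h1, h2⟩

/-- **`K_b ∩ K_e = ∅`** (`h2` of `pvyd_dj2_of` of 58) -/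
theorem pvvqx_dj (hδ : 0 < δ) (hτ : PvmnIsType 𝔑 τ) (hacc : PvlzHasAcc 𝔑 τ) (hl : PvmnLaneR τ ln.1 ln.2) (hSe : PvlktSe 𝔑 τ ln o Se) (hSb : PvlktSb 𝔑 τ ln o Sb)
    (Qe : PvlktOut eUp eM δ ρ nu (pvtwN 1 (pvlktXBe 𝔑 τ o)) (pvtwN 1 (pvlktXWe 𝔑 τ ln o Se)) (pvlktBke 𝔑 τ o) (pvlktWhe 𝔑 τ ln o Se) (pvtU δ (pvlktEce 𝔑 τ o) \ (eUp.O ∪ eM.O)) we)
    (Qb : PvlktOut eP eUm δ ρ' nu' (pvtwN 1 (pvlktXBb 𝔑 τ o)) (pvtwN 1 (pvlktXWb 𝔑 τ ln o Sb)) (pvlktBkb 𝔑 τ o) (pvlktWhb 𝔑 τ ln o Sb) (pvtU δ (pvlktEcb 𝔑 τ o) \ (eP.O ∪ eUm.O)) wb)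
    (hUp : ∀ p ∈ eUp.E, p ∈ eUp.O ∨ (130 * δ ≤ pvlktSx true δ (pvlktU0 𝔑 τ o) p ∧ pvlktSx true δ (pvlktU0 𝔑 τ o) p ≤ 220 * δ ∧ |p.im - ((pvlktU0 𝔑 τ o).2 : ℝ) * δ| ≤ 130 * δ))
    (hUm : ∀ p ∈ eUm.E, p ∈ eUm.O ∨ (130 * δ ≤ pvlktSx false δ (pvlktU0 𝔑 τ o) p ∧ pvlktSx false δ (pvlktU0 𝔑 τ o) p ≤ 220 * δ ∧ |p.im - ((pvlktU0 𝔑 τ o).2 : ℝ) * δ| ≤ 130 * δ))
    (hM : eM.E ⊆ eM.O ∪ pvtU δ ((pvlktPhi o).pre (pvtwN 7 (pvmnCells τ 1 4)))) (hP : eP.E ⊆ eP.O ∪ pvtU δ ((pvlktPhi o).pre (pvtwN 7 (pvmnCells τ 5 8))))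
    (hbar : pvtU δ ((pvlktPhi o).pre (pvmnBar 𝔑 τ 5)) ⊆ eM.O) :
    Disjoint (pvnhKp (wb.lk eP eUm) wb.Et) (pvnhKp (we.lk eUp eM) we.Et) := by
  rw [Set.disjoint_left]
  intro p hb he
  obtain ⟨e1, e2⟩ := pvvqx_Ke hδ hτ hl hSe Qe hUp hM he
  obtain ⟨b1, b2⟩ := pvvqx_Kb hδ hτ hl hSb Qb hUm hP hb
  exact e2 (Or.inr (hbar (pvvqx_reg_inter hδ hτ hacc o ⟨e1, b1⟩)))

end plane

/-! ## 5. the windows of the four ends, at the model -/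

section win

variable {δ : ℝ}

/-- **the window of the side `σ` of the reference plug** (open windows `pvk2Es` of 125, scale `su = 1600 δ`, centre on the fine grid) -/
theorem pvvqx_uwin (σ : Bool) {e : PvnkEnd} {w : ℂ} {su : ℝ} (hδ : 0 < δ) (hsu : su = 1600 * δ) (u : ℤ × ℤ) (hw : w = pvmgPt δ u)
    (hE : e.E = pvkdAt w su (pvk2Es σ)) (hO : e.O = pvthSim w 1 '' (pvthSim 0 su '' pvkgO)) :
    ∀ p ∈ e.E, p ∈ e.O ∨ (130 * δ ≤ pvlktSx σ δ u p ∧ pvlktSx σ δ u p ≤ 220 * δ ∧ |p.im - (u.2 : ℝ) * δ| ≤ 130 * δ) := by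
  intro p hp
  rw [hE] at hp
  obtain ⟨x, hx, rfl⟩ := hp
  rcases pvk2_Es_sub σ hx with h | ⟨h1, h2, h3⟩
  · left
    rw [hO]
    exact ⟨pvthSim 0 su x, ⟨x, h, rfl⟩, by simp [pvthSim]⟩
  · right
    have ere : (pvthSim w su x).re = (u.1 : ℝ) * δ + 1600 * δ * x.re := by
      rw [hw, hsu]
      simp [pvthSim, pvmgPt]
    have eim : (pvthSim w su x).im = (u.2 : ℝ) * δ + 1600 * δ * x.im := by
      rw [hw, hsu]
      simp [pvthSim, pvmgPt]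
    have him : |(pvthSim w su x).im - (u.2 : ℝ) * δ| ≤ 130 * δ := by
      rw [eim, abs_le]
      constructor <;> nlinarith
    cases σ
    · simp only [Bool.false_eq_true, if_false] at h1
      refine ⟨?_, ?_, him⟩
      · simp only [pvlktSx, Bool.false_eq_true, if_false]
        rw [ere]
        nlinarith [h1.1, h1.2]
      · simp only [pvlktSx, Bool.false_eq_true, if_false]
        rw [ere]
        nlinarith [h1.1, h1.2]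
    · simp only [if_true] at h1
      refine ⟨?_, ?_, him⟩
      · simp only [pvlktSx, if_true]
        rw [ere]
        nlinarith [h1.1, h1.2]
      · simp only [pvlktSx, if_true]
        rw [ere]
        nlinarith [h1.1, h1.2]

variable {𝔤 : PvmhNum} (H : 𝔤.OK) (s : PvmhT 𝔤) {h : ℝ}

/-- the refinement by 40 fills the placed set -/
theorem pvvqx_U_pl (hδ : 0 < δ) (e : 𝔤.dl * h = 40 * δ) (o : ℤ × ℤ) (E : Set (ℤ × ℤ)) : pvtU δ ((pvlktPhi o).pre E) = pvmgPl (pvmgPt δ o) (𝔤.dl * h) E := by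
  have := pvwg_U_pre hδ (by norm_num : (0 : ℤ) < 40) o E
  rw [e]
  unfold pvlktPhi
  simpa using this

include H in
/-- **the window of the entrance end of the big plug** -/
theorem pvvqx_Em (hh : 0 < h) (hδ : 0 < δ) (e : 𝔤.dl * h = 40 * δ) (o : ℤ × ℤ) :
    (𝔤.ty h (pvmgPt δ o) s).Em ⊆ closedBall (pvmgPt δ o) (𝔤.rO * h) ∪ pvtU δ ((pvlktPhi o).pre (pvtwN 7 (pvmnCells s.typ 1 4))) := by
  rw [pvvqx_U_pl hδ e]
  exact union_subset_union_right _ (pvmg_mono (pvrcn_Em_cells s.isType s.isLane (mul_pos H.dl0 hh)))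

include H in
/-- **the window of the exit end of the big plug** -/
theorem pvvqx_Ep (hh : 0 < h) (hδ : 0 < δ) (e : 𝔤.dl * h = 40 * δ) (o : ℤ × ℤ) :
    (𝔤.ty h (pvmgPt δ o) s).Ep ⊆ closedBall (pvmgPt δ o) (𝔤.rO * h) ∪ pvtU δ ((pvlktPhi o).pre (pvtwN 7 (pvmnCells s.typ 5 8))) := by
  rw [pvvqx_U_pl hδ e]
  exact union_subset_union_right _ (pvmg_mono (pvrcn_Ep_cells s.isType s.isLane (mul_pos H.dl0 hh)))

include H in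
/-- **the bar of the pin vertex lies in the state region** -/
theorem pvvqx_bar (hh : 0 < h) (hδ : 0 < δ) (e : 𝔤.dl * h = 40 * δ) (o : ℤ × ℤ) :
    pvtU δ ((pvlktPhi o).pre (pvmnBar 𝔤.NN s.typ 5)) ⊆ closedBall (pvmgPt δ o) (𝔤.rO * h) := by
  rw [pvvqx_U_pl hδ e]
  refine (pvmh_bar H _ s hh).trans (closedBall_subset_closedBall (mul_le_mul_of_nonneg_right ?_ hh.le))
  obtain ⟨_, _, h2, _⟩ := pvmh_basic H
  show 3 ≤ 2 * 𝔤.b 1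
  linarith

end win

/-! ## 6. at a candidate of the model -/

/-- `GE` lies in the menu cells of `e` of 58 (`Exit/DjQ.lean`) -/
theorem pvvqx_GE_Ae (𝔑 : PvmnNum) (τ : PvmnType) : pvvqxGE 𝔑 τ ⊆ pvydDqAe 𝔑 τ := by
  rintro x (((h | h) | h) | h)
  · exact Or.inl (Or.inr (pvtw_N_mono (by norm_num) subset_union_left h))
  · exact Or.inl (Or.inl (pvtw_N_mono (by norm_num) le_rfl h))
  · exact Or.inl (Or.inr (pvtw_N_mono (by norm_num) subset_union_right h))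
  · obtain ⟨h1, h2, h3, h4⟩ := h
    refine Or.inr ⟨(x.1 - (pvlzC 𝔑 τ).1, x.2 - (pvlzC 𝔑 τ).2), ⟨?_, ?_, ?_, ?_⟩, ?_⟩
    · show 1 ≤ x.1 - (pvlzC 𝔑 τ).1; omega
    · show x.1 - (pvlzC 𝔑 τ).1 ≤ 8; omega
    · show -8 ≤ x.2 - (pvlzC 𝔑 τ).2; omega
    · show x.2 - (pvlzC 𝔑 τ).2 ≤ 8; omega
    · ext <;> simp

section cand

variable {cc : ℝ} {𝔤 : PvmhNum}

/-- **THE LAYOUT OF 164 AT A CANDIDATE** = what `pvlkt_e_exists`, `pvlkt_b_exists` (`Tr/LinkGeoT.lean`) deliver;   `δ = dl h / 40`, `z = pvmgPt δ o` -/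
structure PvvqxLay (𝔓 : PvrxPar (PvmhT 𝔤) cc) (y : PvydGeo (PvmhT 𝔤)) (col : Bool) (m : ℕ) (z : ℂ) (t : PvmhT 𝔤) (δ : ℝ) (o : ℤ × ℤ) : Prop where
  δ0 : 0 < δ
  dl : 𝔤.dl * pvlmH m = 40 * δ
  hz : z = pvmgPt δ o
  e : ∃ (S : Set (ℤ × ℤ)) (ρ : ℝ) (nu : ℕ), PvlktSe 𝔤.NN t.typ t.ln o S ∧
    PvlktOut (y.eU col m true (pvydWu 𝔓 m z t)) (pvydEM 𝔓 m z t) δ ρ nu (pvtwN 1 (pvlktXBe 𝔤.NN t.typ o)) (pvtwN 1 (pvlktXWe 𝔤.NN t.typ t.ln o S)) (pvlktBke 𝔤.NN t.typ o) (pvlktWhe 𝔤.NN t.typ t.ln o S)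
      (pvtU δ (pvlktEce 𝔤.NN t.typ o) \ ((y.eU col m true (pvydWu 𝔓 m z t)).O ∪ (pvydEM 𝔓 m z t).O)) (y.we m z t)
  b : ∃ (S : Set (ℤ × ℤ)) (ρ : ℝ) (nu : ℕ), PvlktSb 𝔤.NN t.typ t.ln o S ∧
    PvlktOut (pvydEP 𝔓 m z t) (y.eU col m false (pvydWu 𝔓 m z t)) δ ρ nu (pvtwN 1 (pvlktXBb 𝔤.NN t.typ o)) (pvtwN 1 (pvlktXWb 𝔤.NN t.typ t.ln o S)) (pvlktBkb 𝔤.NN t.typ o) (pvlktWhb 𝔤.NN t.typ t.ln o S)
      (pvtU δ (pvlktEcb 𝔤.NN t.typ o) \ ((pvydEP 𝔓 m z t).O ∪ (y.eU col m false (pvydWu 𝔓 m z t)).O)) (y.wb m z t)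

variable {H : PvrzGood 𝔤} {Γ : ℕ → PvtsGeo (PvmhT 𝔤)} {m0 : ℕ} {y : PvydGeo (PvmhT 𝔤)} {col : Bool} {m : ℕ} {z : ℂ} {t : PvmhT 𝔤} {δ : ℝ} {o : ℤ × ℤ} {b q : ENNReal} {δk su : ℕ → ℝ}

/-- the centre of `u` on the fine grid -/
theorem pvvqx_wu (hdl : 𝔤.dl * pvlmH m = 40 * δ) (hz : z = pvmgPt δ o) (hzu : (Γ m).zu t = pvmgPt (𝔤.dl * pvlmH m) (pvlzC 𝔤.NN t.typ)) :
    pvydWu (pvrzPar cc 𝔤 H Γ m0) m z t = pvmgPt δ (pvlktU0 𝔤.NN t.typ o) := by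
  show z + (Γ m).zu t = _
  rw [hz, hzu, hdl]
  apply Complex.ext
  · simp only [pvmgPt, pvlktU0, pvlktOu, Complex.add_re]
    push_cast
    ring
  · simp only [pvmgPt, pvlktU0, pvlktOu, Complex.add_im]
    push_cast
    ring

/-- the window of the side `σ` of the reference plug, at the ends of record -/
theorem pvvqx_uwin_rec (hI : PvyeIs y (pvyeV pvkgG pvk2T b q) δk su) (hδ : 0 < δ) (hsu : su m = 1600 * δ) (σ : Bool) {w : ℂ} (u : ℤ × ℤ) (hw : w = pvmgPt δ u) :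
    ∀ p ∈ (y.eU col m σ w).E, p ∈ (y.eU col m σ w).O ∨ (130 * δ ≤ pvlktSx σ δ u p ∧ pvlktSx σ δ u p ≤ 220 * δ ∧ |p.im - (u.2 : ℝ) * δ| ≤ 130 * δ) := by
  refine pvvqx_uwin σ hδ hsu u hw ?_ ?_
  · show (y.eu m col σ w).E = _
    rw [hI.eu, pvye_V_sd]
    rfl
  · show pvthSim w 1 '' y.Ou m = _
    rw [hI.Ou]
    rfl

/-- **`e_sd`, sharp form**: the thick link `e` is read over `GE` -/
theorem PvvqxLay.Ke (L : PvvqxLay (pvrzPar cc 𝔤 H Γ m0) y col m z t δ o) (hI : PvyeIs y (pvyeV pvkgG pvk2T b q) δk su) (hsu : su m = 1600 * δ)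
    (hzu : (Γ m).zu t = pvmgPt (𝔤.dl * pvlmH m) (pvlzC 𝔤.NN t.typ)) :
    pvnhKp (y.le (pvrzPar cc 𝔤 H Γ m0) col m z t) (y.we m z t).Et ⊆ pvmgPl z (𝔤.dl * pvlmH m) (pvvqxGE 𝔤.NN t.typ) := by
  obtain ⟨S, ρ, nu, hS, Q⟩ := L.e
  have hz := L.hz
  have h1 := pvvqx_Ke L.δ0 t.isType t.isLane hS Q (pvvqx_uwin_rec hI L.δ0 hsu true _ (pvvqx_wu L.dl L.hz hzu)) (by
    subst hz
    exact pvvqx_Em H.ok t (pvlm_H_pos m) L.δ0 L.dl o)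
  rw [pvvqx_U_pl L.δ0 L.dl, ← hz] at h1
  exact h1.trans sdiff_subset

/-- **`e_sd` of `PvydDqIn`** (58) -/
theorem PvvqxLay.e_sd (L : PvvqxLay (pvrzPar cc 𝔤 H Γ m0) y col m z t δ o) (hI : PvyeIs y (pvyeV pvkgG pvk2T b q) δk su) (hsu : su m = 1600 * δ)
    (hzu : (Γ m).zu t = pvmgPt (𝔤.dl * pvlmH m) (pvlzC 𝔤.NN t.typ)) :
    pvnhKp (y.le (pvrzPar cc 𝔤 H Γ m0) col m z t) (y.we m z t).Et ⊆ pvmgPl z (𝔤.dl * pvlmH m) (pvydDqAe 𝔤.NN t.typ) :=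
  (L.Ke hI hsu hzu).trans (pvmg_mono (pvvqx_GE_Ae _ _))

/-- the thick link `b` is read over `GB` -/
theorem PvvqxLay.Kb (L : PvvqxLay (pvrzPar cc 𝔤 H Γ m0) y col m z t δ o) (hI : PvyeIs y (pvyeV pvkgG pvk2T b q) δk su) (hsu : su m = 1600 * δ)
    (hzu : (Γ m).zu t = pvmgPt (𝔤.dl * pvlmH m) (pvlzC 𝔤.NN t.typ)) :
    pvnhKp (y.lb (pvrzPar cc 𝔤 H Γ m0) col m z t) (y.wb m z t).Et ⊆ pvmgPl z (𝔤.dl * pvlmH m) (pvvqxGB 𝔤.NN t.typ) := by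
  obtain ⟨S, ρ, nu, hS, Q⟩ := L.b
  have hz := L.hz
  have h1 := pvvqx_Kb L.δ0 t.isType t.isLane hS Q (pvvqx_uwin_rec hI L.δ0 hsu false _ (pvvqx_wu L.dl L.hz hzu)) (by
    subst hz
    exact pvvqx_Ep H.ok t (pvlm_H_pos m) L.δ0 L.dl o)
  rw [pvvqx_U_pl L.δ0 L.dl, ← hz] at h1
  exact h1.trans sdiff_subset

/-- **`dKbKe` of `PvydDqIn`** (58) = `h2` of `pvyd_dj2_of` -/
theorem PvvqxLay.dKbKe (L : PvvqxLay (pvrzPar cc 𝔤 H Γ m0) y col m z t δ o) (hI : PvyeIs y (pvyeV pvkgG pvk2T b q) δk su) (hsu : su m = 1600 * δ)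
    (hzu : (Γ m).zu t = pvmgPt (𝔤.dl * pvlmH m) (pvlzC 𝔤.NN t.typ)) :
    Disjoint (pvnhKp (y.lb (pvrzPar cc 𝔤 H Γ m0) col m z t) (y.wb m z t).Et) (pvnhKp (y.le (pvrzPar cc 𝔤 H Γ m0) col m z t) (y.we m z t).Et) := by
  obtain ⟨Se, ρ, nu, hSe, Qe⟩ := L.e
  obtain ⟨Sb, ρ', nu', hSb, Qb⟩ := L.b
  have hz := L.hz
  have hacc : PvlzHasAcc 𝔤.NN t.typ := by
    obtain ⟨ap, am, h⟩ := t.acc
    exact ⟨ap, am, ⟨h.ap_dir, h.am_dir, h.rp_B, h.rm_B, h.rp_cells, h.rm_cells, h.sep⟩⟩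
  have hwu := pvvqx_wu (cc := cc) (H := H) (m0 := m0) L.dl L.hz hzu
  refine pvvqx_dj L.δ0 t.isType hacc t.isLane hSe hSb Qe Qb (pvvqx_uwin_rec hI L.δ0 hsu true _ hwu) (pvvqx_uwin_rec hI L.δ0 hsu false _ hwu) ?_ ?_ ?_
  · subst hz
    exact pvvqx_Em H.ok t (pvlm_H_pos m) L.δ0 L.dl o
  · subst hz
    exact pvvqx_Ep H.ok t (pvlm_H_pos m) L.δ0 L.dl o
  · subst hz
    exact pvvqx_bar H.ok t (pvlm_H_pos m) L.δ0 L.dl o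

end cand

end Claimed.Agent.R289
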