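import Claimed.Agent.R289.Tr.LinkLocA
import Claimed.Agent.R289.Tr.PlugLn
import Claimed.Agent.R289.Tr.StKit

/-!
# Row 289 (S0537), THE WALL, ROAD E, box TR-LINKPI, file Tr/LinkPI : (PI) THE PLAIN LINK DOES NOT READ THE COLOURS OF THE NON FROZEN SITES OFF ITS ROOM AND ITS DOORS      (helper282; prefix `pvip_`, `Pvip`, `pvip`)

CONSUMER: (Y-STAB) of 218 (`Tr/Irr`: Sure / Loc under a PLAIN relation), field `yh_stab` of `PvxnOk`, `PvjbIn.chain`.      The window of a special link contains `Fat (cells of F)`: almost none of its sites is frozen.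
HERE, deterministic: two colourings of ONE map which agree (a) on the sites FROZEN by the half state of a marked end, (b) on the sites placed in the room `L.Yin`, (c) on the stars of the sites placed in `K ⊇` the discs and tubes of the door ends
have THE SAME success of the link `L` of `Tr/InstL` v2.1, with the same half states, the same rim arc, THE SAME VALUE.
* sec. 1  model free, on `(T, pos)`: `pvip_rk_eq` (the identity twin), `PvipStar`, **`pvip_dr`** (door end: `PvllEq` twin for the other colouring), `pvip_out`, `pvip_in` (marked ends: cylinders, 25 / `Tr/StKit`), **`pvip_lk`** (the run and its loop erasure), `pvip_v_eq`,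
          the bundle **`PvipAg N L K T pos s s' 𝔖 𝔖'`**, **`pvip_arc`**.
* sec. 2  at the model, two configurations WITH THE SAME SITES: `PvipRel N b L K S η η'`, **`pvip_conf`** : `η ∈ L.A N b ⟹ η' ∈ L.A N b`, `L.X` equal (any weight which reads the sites only: `pvilQ`, `pvilV`), same base data `F`, `Z` at the marked ends;
          `pvip_X_Q`, `pvip_X_V`.
-/

set_option autoImplicit false
set_option linter.unusedSectionVars false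

namespace Claimed.Agent.R289

open Set Metric Claims.C0465
open scoped ComplexConjugate

variable {V D : Type}

/-! ## 1. one map, two colourings -/

/-- the two colourings agree on the STARS of the vertices placed in `K` -/
def PvipStar (T : PvMap V D) (pos : V → ℂ) (K : Set ℂ) (s s' : V → Bool) : Prop :=
  ∀ d, pos (T.src d) ∈ K → s (T.src d) = s' (T.src d) ∧ s (T.tgt d) = s' (T.tgt d) ∧ s (T.apex d) = s' (T.apex d)

theorem pvip_eqns_cite : True := by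
  have := @PvipStar.eq_1
  trivial

section one

variable {T : PvMap V D} {pos : V → ℂ} {s s' : V → Bool} {K Yin : Set ℂ} {N : PvwNum}

/-- darts which correspond under the identity twin are equal -/
theorem pvip_rk_eq (hS : T.Simple) {d d' : D} (h : pvplRK T pos T K (fun u u' => u = u' ∧ s u = s' u) d d') : d = d' := hS d d' h.1.1.1 h.1.2.1.1

theorem PvllEq.pvip_refl (𝔖 : PvwSt T) : PvllEq 𝔖 𝔖 := ⟨rfl, rfl, rfl, fun _ _ => rfl, rfl⟩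

/-- **THE DOOR END** reads the colours of the stars of the sites of its disc and tube only -/
theorem pvip_dr (o : PvymOk T pos K) {𝔭 : PvkdPlug} {z d : ℂ} (hp : (𝔭.pg z d).Sub K) (hb : closedBall z 𝔭.b ⊆ K) (hst : PvipStar T pos K s s') {𝔖 : PvwSt T} (hd : PvllDr 𝔭 T pos s z d 𝔖) :
    ∃ 𝔖₁ : PvwSt T, PvllDr 𝔭 T pos s' z d 𝔖₁ ∧ PvllEq 𝔖 𝔖₁ ∧ 𝔖₁.np = 𝔖.np ∧ 𝔖₁.nm = 𝔖.nm ∧ PvllP K T pos s 𝔖 ∧ PvllM K T pos s 𝔖 ∧ 𝔖.np = 0 ∧ 𝔖.nm = 0 ∧ 𝔖.ip ≤ 𝔖.inn.n := by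
  obtain ⟨𝔖₁, G, h1, h2, h3, h4⟩ := pvll_dr_tr (pvzv_iso_col hst) o o hp hb hd
  obtain ⟨g, -, rfl⟩ := hd
  exact ⟨𝔖₁, h1, ⟨pvip_rk_eq o.simple G.gt.dp, pvip_rk_eq o.simple G.gt.dm, G.gt.inn.n_eq.symm, fun k hk => pvip_rk_eq o.simple (G.gt.inn.e_rel k hk), G.gt.ip.symm⟩, G.np, G.nm, h2, h3, rfl, rfl, h4⟩

/-- **THE EXIT HALF STATE OF A PLACED PLUG IS A CYLINDER** -/
theorem pvip_out (hT : T.IsSph) {p : PvilPl} {𝔖 : PvwSt T} (h : PvllOut N p T pos s 𝔖) (hs : PvwAgree 𝔖.fzOut s s') : PvllOut N p T pos s' 𝔖 :=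
  ⟨pvwk_atOut_congr hT h.st hs, h.tip, h.mask, h.mask_i, h.lev0⟩

/-- **THE ENTRANCE HALF STATE OF A PLACED PLUG IS A CYLINDER** -/
theorem pvip_in (hT : T.IsSph) {p : PvilPl} {𝔖 : PvwSt T} (h : PvllIn N p T pos s 𝔖) (hs : PvwAgree 𝔖.fzIn s s') : PvllIn N p T pos s' 𝔖 :=
  ⟨pvwk_atIn_congr hT h.st hs, h.tip, h.mask, h.mask_i, h.lev0⟩

/-- **THE RUN OF A LINK** reads the colours of the two stubs and of the sites placed in the room -/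
theorem pvip_lk {𝔖 𝔖' : PvwSt T} {n : ℕ} {y : T.Pth} (hb : pvasBW T s 𝔖.dp) (h : PvllLk T pos s Yin 𝔖 𝔖' n y)
    (hP : ∀ i, i ≤ 𝔖.np → s' (T.src (pvasIt T s 𝔖.dp i)) = s (T.src (pvasIt T s 𝔖.dp i)) ∧ s' (T.tgt (pvasIt T s 𝔖.dp i)) = s (T.tgt (pvasIt T s 𝔖.dp i)))
    (hM : ∀ j, j ≤ 𝔖'.nm → s' (T.src ((pvasBack T s)^[j] 𝔖'.dm)) = s (T.src ((pvasBack T s)^[j] 𝔖'.dm)) ∧ s' (T.tgt ((pvasBack T s)^[j] 𝔖'.dm)) = s (T.tgt ((pvasBack T s)^[j] 𝔖'.dm)))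
    (hY : ∀ v, pos v ∈ Yin → s' v = s v) : PvllLk T pos s' Yin 𝔖 𝔖' n y := by
  obtain ⟨⟨h1, h2, h3, h4⟩, hle⟩ := h
  have key : ∀ i, i ≤ n → s' (T.src (pvasIt T s 𝔖.dp i)) = s (T.src (pvasIt T s 𝔖.dp i)) ∧ s' (T.tgt (pvasIt T s 𝔖.dp i)) = s (T.tgt (pvasIt T s 𝔖.dp i)) := by
    intro i hi
    by_cases c1 : i ≤ 𝔖.np
    · exact hP i c1
    by_cases c2 : i + 𝔖'.nm < n
    · exact ⟨hY _ (h4 i (by omega) c2).1, hY _ (h4 i (by omega) c2).2⟩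
    · have e : pvasIt T s 𝔖.dp i = (pvasBack T s)^[n - i] 𝔖'.dm := by
        have := pvll_tail hb h2 (n - i) (by omega)
        rwa [show n - (n - i) = i by omega] at this
      rw [e]
      exact hM _ (by omega)
  have it : ∀ i, i ≤ n → pvasIt T s' 𝔖.dp i = pvasIt T s 𝔖.dp i := pvas_it_congr fun v hv => by
    rcases hv with ⟨i, hi, rfl⟩ | ⟨i, hi, rfl⟩
    · exact (key i hi).1
    · exact (key i hi).2
  refine ⟨⟨h1, by rw [it n le_rfl]; exact h2, fun i hi => by rw [it i hi.le]; exact h3 i hi, fun i hi hin => by rw [it i (by omega)]; exact h4 i hi hin⟩, ?_⟩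
  exact pvwk_le_congr (fun i hi => congrArg T.src (it i hi)) hle

/-- a link reads of its ends the gate edges and the lengths of the stubs -/
theorem pvip_lk_eq {𝔖 𝔖' 𝔖₁ 𝔖₁' : PvwSt T} {n : ℕ} {y : T.Pth} (e : 𝔖.dp = 𝔖₁.dp) (e' : 𝔖'.dm = 𝔖₁'.dm) (en : 𝔖₁.np = 𝔖.np) (em : 𝔖₁'.nm = 𝔖'.nm) (h : PvllLk T pos s Yin 𝔖 𝔖' n y) :
    PvllLk T pos s Yin 𝔖₁ 𝔖₁' n y :=
  ⟨by rw [← e, ← e', en, em]; exact h.run, by rw [← e]; exact h.le⟩

/-- the value reads of its ends what `PvllEq` keeps -/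
theorem pvip_v_eq {𝔖 𝔖' 𝔖₁ 𝔖₁' : PvwSt T} (e : PvllEq 𝔖 𝔖₁) (e' : PvllEq 𝔖' 𝔖₁') (hip : 𝔖'.ip ≤ 𝔖'.inn.n) (y : T.Pth) (dr dr' : Bool) (Bl Mk : Set ℂ) (w : D → ℂ) :
    pvllV dr dr' Bl Mk T pos w 𝔖 𝔖' y = pvllV dr dr' Bl Mk T pos w 𝔖₁ 𝔖₁' y := by
  unfold pvllV
  have hj : (if dr' then 𝔖'.inn.n else 𝔖'.ip) ≤ 𝔖'.inn.n := by
    split_ifs
    · exact le_rfl
    · exact hip
  rw [pvll_mass_eq e.inn_e w Bl le_rfl, pvll_mass_eq e.inn_e w Mk le_rfl, pvll_mass_eq e'.inn_e w Mk hj, e.inn_n, e.ip, e'.ip, e'.inn_n]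

end one

/-- **THE TWO COLOURINGS AGREE ON WHAT THE LINK `L` WITH THE END STATES `𝔖`, `𝔖'` READS** -/
structure PvipAg (L : PvilLk) (K : Set ℂ) (T : PvMap V D) (pos : V → ℂ) (s s' : V → Bool) (𝔖 𝔖' : PvwSt T) : Prop where
  ok : PvymOk T pos K
  star : PvipStar T pos K s s'
  yin : ∀ v, pos v ∈ L.Yin → s v = s' v
  ftP : if L.dr then ((pvkdP L.p.h).pg L.p.z L.p.fr).Sub K ∧ closedBall L.p.z (pvkdP L.p.h).b ⊆ K else PvwAgree 𝔖.fzOut s s'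
  ftP' : if L.dr' then ((pvkdP L.p'.h).pg L.p'.z L.p'.fr).Sub K ∧ closedBall L.p'.z (pvkdP L.p'.h).b ⊆ K else PvwAgree 𝔖'.fzIn s s'

section arc

variable {T : PvMap V D} {pos : V → ℂ} {s s' : V → Bool} {K : Set ℂ} {N : PvwNum} {L : PvilLk} {𝔖 𝔖' : PvwSt T}

/-- the exit end -/
theorem PvipAg.atP (H : PvipAg L K T pos s s' 𝔖 𝔖') (ha : PvllAtP N L T pos s 𝔖) :
    ∃ 𝔖₁ : PvwSt T, PvllAtP N L T pos s' 𝔖₁ ∧ PvllEq 𝔖 𝔖₁ ∧ 𝔖₁.np = 𝔖.np ∧ (L.dr = false → 𝔖₁ = 𝔖) ∧ pvasBW T s 𝔖.dp ∧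
      ∀ i, i ≤ 𝔖.np → s' (T.src (pvasIt T s 𝔖.dp i)) = s (T.src (pvasIt T s 𝔖.dp i)) ∧ s' (T.tgt (pvasIt T s 𝔖.dp i)) = s (T.tgt (pvasIt T s 𝔖.dp i)) := by
  have hf := H.ftP
  unfold PvllAtP at ha ⊢
  cases hd : L.dr
  · simp only [hd, Bool.false_eq_true, if_false] at hf ha ⊢
    refine ⟨𝔖, pvip_out H.ok.sph ha hf, PvllEq.pvip_refl 𝔖, rfl, fun _ => rfl, ha.st.gate.bw_p, fun i hi => ?_⟩
    rw [← ha.st.stub.ep_it i hi]
    exact ⟨(hf _ (Or.inl (Or.inr ⟨i, hi, rfl⟩))).symm, (hf _ (Or.inr ⟨i, hi, rfl⟩)).symm⟩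
  · simp only [hd, if_true] at hf ha ⊢
    obtain ⟨𝔖₁, h1, h2, h3, -, hp, -, h0, -, -⟩ := pvip_dr H.ok hf.1 hf.2 H.star ha
    refine ⟨𝔖₁, h1, h2, h3, fun h => absurd h (by simp), hp.bw, fun i hi => ?_⟩
    have := H.star _ (hp.stub i hi)
    exact ⟨this.1.symm, this.2.1.symm⟩

/-- the entrance end -/
theorem PvipAg.atP' (H : PvipAg L K T pos s s' 𝔖 𝔖') (ha : PvllAtP' N L T pos s 𝔖') :
    ∃ 𝔖₁ : PvwSt T, PvllAtP' N L T pos s' 𝔖₁ ∧ PvllEq 𝔖' 𝔖₁ ∧ 𝔖₁.nm = 𝔖'.nm ∧ (L.dr' = false → 𝔖₁ = 𝔖') ∧ 𝔖'.ip ≤ 𝔖'.inn.n ∧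
      ∀ j, j ≤ 𝔖'.nm → s' (T.src ((pvasBack T s)^[j] 𝔖'.dm)) = s (T.src ((pvasBack T s)^[j] 𝔖'.dm)) ∧ s' (T.tgt ((pvasBack T s)^[j] 𝔖'.dm)) = s (T.tgt ((pvasBack T s)^[j] 𝔖'.dm)) := by
  have hf := H.ftP'
  unfold PvllAtP' at ha ⊢
  cases hd : L.dr'
  · simp only [hd, Bool.false_eq_true, if_false] at hf ha ⊢
    refine ⟨𝔖', pvip_in H.ok.sph ha hf, PvllEq.pvip_refl 𝔖', rfl, fun _ => rfl, ha.st.gate.ip_le, fun j hj => ?_⟩
    rw [← ha.st.stub.em_it j hj]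
    exact ⟨(hf _ (Or.inl (Or.inr ⟨j, hj, rfl⟩))).symm, (hf _ (Or.inr ⟨j, hj, rfl⟩)).symm⟩
  · simp only [hd, if_true] at hf ha ⊢
    obtain ⟨𝔖₁, h1, h2, -, h3, -, hm, -, h0, hip⟩ := pvip_dr H.ok hf.1 hf.2 H.star ha
    refine ⟨𝔖₁, h1, h2, h3, fun h => absurd h (by simp), hip, fun j hj => ?_⟩
    have := H.star _ (hm.stub j hj)
    exact ⟨this.1.symm, this.2.1.symm⟩

/-- **(PI), MODEL FREE**: the success of the link, its marked half states, its rim arc and its value are kept -/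
theorem pvip_arc (H : PvipAg L K T pos s s' 𝔖 𝔖') {y : T.Pth} (ha : PvllArc N L T pos s 𝔖 𝔖' y) :
    ∃ 𝔖₁ 𝔖₁' : PvwSt T, PvllArc N L T pos s' 𝔖₁ 𝔖₁' y ∧ (L.dr = false → 𝔖₁ = 𝔖) ∧ (L.dr' = false → 𝔖₁' = 𝔖') ∧ ∀ w : D → ℂ, pvllVal N L T pos w 𝔖₁ 𝔖₁' y = pvllVal N L T pos w 𝔖 𝔖' y := by
  obtain ⟨𝔖₁, a1, a2, a3, a4, a5, a6⟩ := H.atP ha.at_p
  obtain ⟨𝔖₁', b1, b2, b3, b4, b5, b6⟩ := H.atP' ha.at_p'
  obtain ⟨n, hn⟩ := ha.run
  exact ⟨𝔖₁, 𝔖₁', ⟨a1, b1, n, pvip_lk_eq a2.dp b2.dm a3 b3 (pvip_lk a5 hn a6 b6 fun v hv => (H.yin v hv).symm)⟩, a4, b4, fun w => (pvip_v_eq a2 b2 b5 y _ _ _ _ w).symm⟩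

end arc

/-! ## 2. at the model: two configurations with the same sites -/

/-- witnesses of the link over the plane map of the SITE SET `Y` for the colours `c`, with the value `v₀` for the weight `W Y` and the frozen positions `Fo`, `Fi` of the two ends -/
def PvipQ (N : PvwNum) (b : Bool) (L : PvilLk) (W : ∀ Y : Set ℂ, (delbPl Y).Dart → ℂ) (Y : Set ℂ) (c : ℂ → Bool) (v₀ : ℂ) (Fo Fi : Set ℂ) : Prop :=
  ∃ (𝔖 𝔖' : PvwSt (delbPl Y).toMap) (y : (delbPl Y).toMap.Pth), PvllArc N L (delbPl Y).toMap Subtype.val (fun v : ↥Y => c v.1 == b) 𝔖 𝔖' y ∧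
    pvllVal N L (delbPl Y).toMap Subtype.val (W Y) 𝔖 𝔖' y = v₀ ∧ Subtype.val '' 𝔖.fzOut = Fo ∧ Subtype.val '' 𝔖'.fzIn = Fi

theorem pvip_eqns_cite2 : True := by
  have := @PvipQ.eq_1
  trivial

theorem pvip_Q_subst {N : PvwNum} {b : Bool} {L : PvilLk} {W : ∀ Y : Set ℂ, (delbPl Y).Dart → ℂ} {Y Y' : Set ℂ} (h : Y' = Y) {c : ℂ → Bool} {v₀ : ℂ} {Fo Fi : Set ℂ}
    (Q : PvipQ N b L W Y c v₀ Fo Fi) : PvipQ N b L W Y' c v₀ Fo Fi := by
  subst h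
  exact Q

/-- **THE PLAIN RELATION**: `η'` has the sites of `η`;   the same colours at the sites placed in `S ⊇ L.Yin`, `S ⊇` the stars of the sites placed in `K ⊇` (discs, tubes of the door ends);   the same colours at the sites FROZEN in `η` by the half states of the marked ends -/
structure PvipRel (N : PvwNum) (b : Bool) (L : PvilLk) (K S : Set ℂ) (η η' : Conf PvPt) : Prop where
  sites : cfSites η' = cfSites η
  col : ∀ v ∈ cfSites η, v ∈ S → cfCol η v = cfCol η' v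
  yin : L.Yin ⊆ S
  star : ∀ d : (delbPl (pvieY η)).Dart, pviePos η ((pvieT η).src d) ∈ K → pviePos η ((pvieT η).src d) ∈ S ∧ pviePos η ((pvieT η).tgt d) ∈ S ∧ pviePos η ((pvieT η).apex d) ∈ S
  ftP : if L.dr then ((pvkdP L.p.h).pg L.p.z L.p.fr).Sub K ∧ closedBall L.p.z (pvkdP L.p.h).b ⊆ K else ∀ v ∈ pvilFzO N b L.p η, cfCol η v = cfCol η' v
  ftP' : if L.dr' then ((pvkdP L.p'.h).pg L.p'.z L.p'.fr).Sub K ∧ closedBall L.p'.z (pvkdP L.p'.h).b ⊆ K else ∀ v ∈ pvilFzI N b L.p' η, cfCol η v = cfCol η' v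

section model

variable {N : PvwNum} {b : Bool} {L : PvilLk} {K S : Set ℂ} {η η' : Conf PvPt}

/-- the guard of a link is colour blind -/
theorem pvip_gd (hs : cfSites η' = cfSites η) (h : η ∈ pvllGd L) : η' ∈ pvllGd L := by
  obtain ⟨h1, h2, h3⟩ := h
  refine ⟨?_, fun hd => ?_, fun hd => ?_⟩
  · show DelGood (cfSites η')
    rw [hs]; exact h1
  · have := h2 hd
    show PvatNice (cfSites η') ∧ PvtrMesh _ _ (cfSites η')
    rw [hs]; exact this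
  · have := h3 hd
    show PvatNice (cfSites η') ∧ PvtrMesh _ _ (cfSites η')
    rw [hs]; exact this

theorem PvipRel.ag (R : PvipRel N b L K S η η') {𝔖 𝔖' : PvwSt (pvieT η)} {y : (pvieT η).Pth} (hA : L.Arc N b η 𝔖 𝔖' y) :
    PvipAg L K (pvieT η) (pviePos η) (pvieCol η b) (fun v : ↥(pvieY η) => cfCol η' v.1 == b) 𝔖 𝔖' where
  ok := ⟨delb_plane_isSph (pvll_arc_iff.1 hA).1.1, pvgy_m_simple _, Subtype.val_injective.injOn⟩
  star := fun d hd => by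
    obtain ⟨h1, h2, h3⟩ := R.star d hd
    refine ⟨?_, ?_, ?_⟩
    · show (cfCol η _ == b) = (cfCol η' _ == b)
      rw [R.col _ ((pvieT η).src d).2 h1]
    · show (cfCol η _ == b) = (cfCol η' _ == b)
      rw [R.col _ ((pvieT η).tgt d).2 h2]
    · show (cfCol η _ == b) = (cfCol η' _ == b)
      rw [R.col _ ((pvieT η).apex d).2 h3]
  yin := fun v hv => by
    show (cfCol η _ == b) = (cfCol η' _ == b)
    rw [R.col _ v.2 (R.yin hv)]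
  ftP := by
    have h := R.ftP
    cases hd : L.dr
    · simp only [hd, Bool.false_eq_true, if_false] at h ⊢
      intro v hv
      show (cfCol η _ == b) = (cfCol η' _ == b)
      rw [h v.1 ⟨𝔖, (PvilLk.atP_pin hd N b η 𝔖).1 hA.at_p, v, hv, rfl⟩]
    · simp only [hd, if_true] at h ⊢
      exact h
  ftP' := by
    have h := R.ftP'
    cases hd : L.dr'
    · simp only [hd, Bool.false_eq_true, if_false] at h ⊢
      intro v hv
      show (cfCol η _ == b) = (cfCol η' _ == b)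
      rw [h v.1 ⟨𝔖', (PvilLk.atP'_pin hd N b η 𝔖').1 hA.at_p', v, hv, rfl⟩]
    · simp only [hd, if_true] at h ⊢
      exact h

/-- **(PI) AT THE MODEL**: the plain success, the plain value (any weight which reads the sites only) and the base data of the marked ends are kept -/
theorem pvip_conf (hu : PvllUq L) (R : PvipRel N b L K S η η') (hη : η ∈ L.A N b) (W : ∀ Y : Set ℂ, (delbPl Y).Dart → ℂ) :
    η' ∈ L.A N b ∧ L.X N b (fun ζ => W (pvieY ζ)) η' = L.X N b (fun ζ => W (pvieY ζ)) η ∧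
      (L.dr = false → pvilFzO N b L.p η' = pvilFzO N b L.p η ∧ ∀ δ r, pvilHuO δ r N b L.p η' = pvilHuO δ r N b L.p η) ∧
      (L.dr' = false → pvilFzI N b L.p' η' = pvilFzI N b L.p' η ∧ ∀ δ r, pvilHuI δ r N b L.p' η' = pvilHuI δ r N b L.p' η) := by
  obtain ⟨𝔖, 𝔖', y, hA⟩ := hη
  obtain ⟨hG, ha⟩ := pvll_arc_iff.1 hA
  obtain ⟨𝔖₁, 𝔖₁', a1, a2, a3, a4⟩ := pvip_arc (R.ag hA) ha
  have Q : PvipQ N b L W (cfSites η) (cfCol η') (pvllVal N L (pvieT η) (pviePos η) (W (pvieY η)) 𝔖 𝔖' y) (pviePos η '' 𝔖₁.fzOut) (pviePos η '' 𝔖₁'.fzIn) :=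
    ⟨𝔖₁, 𝔖₁', y, a1, a4 _, rfl, rfl⟩
  obtain ⟨𝔗, 𝔗', y', c1, c2, c3, c4⟩ : ∃ (𝔗 𝔗' : PvwSt (pvieT η')) (y' : (pvieT η').Pth), PvllArc N L (pvieT η') (pviePos η') (pvieCol η' b) 𝔗 𝔗' y' ∧
      pvllVal N L (pvieT η') (pviePos η') (W (pvieY η')) 𝔗 𝔗' y' = pvllVal N L (pvieT η) (pviePos η) (W (pvieY η)) 𝔖 𝔖' y ∧
      pviePos η' '' 𝔗.fzOut = pviePos η '' 𝔖₁.fzOut ∧ pviePos η' '' 𝔗'.fzIn = pviePos η '' 𝔖₁'.fzIn := pvip_Q_subst R.sites Q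
  have hA' : L.Arc N b η' 𝔗 𝔗' y' := pvll_arc_iff.2 ⟨pvip_gd R.sites hG, c1⟩
  refine ⟨⟨𝔗, 𝔗', y', hA'⟩, ?_, fun hd => ?_, fun hd => ?_⟩
  · rw [pvll_X_eq hu hA' _, pvll_X_eq hu hA _]
    exact c2
  · have hf : ‖L.p.fr‖ = 1 := by
      have := hu.1
      simpa only [hd, Bool.false_eq_true, if_false] using this
    have o := (PvilLk.atP_pin hd N b η 𝔖).1 hA.at_p
    have o' := (PvilLk.atP_pin hd N b η' 𝔗).1 hA'.at_p
    have e : pviePos η' '' 𝔗.fzOut = pviePos η '' 𝔖.fzOut := by rw [← a2 hd]; exact c3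
    refine ⟨by rw [pvll_fzO_eq hf o', pvll_fzO_eq hf o, e], fun δ r => by rw [pvll_huO_eq hf o' δ r, pvll_huO_eq hf o δ r, e]⟩
  · have hf : ‖L.p'.fr‖ = 1 := by
      have := hu.2
      simpa only [hd, Bool.false_eq_true, if_false] using this
    have o := (PvilLk.atP'_pin hd N b η 𝔖').1 hA.at_p'
    have o' := (PvilLk.atP'_pin hd N b η' 𝔗').1 hA'.at_p'
    have e : pviePos η' '' 𝔗'.fzIn = pviePos η '' 𝔖'.fzIn := by rw [← a3 hd]; exact c4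
    refine ⟨by rw [pvll_fzI_eq hf o', pvll_fzI_eq hf o, e], fun δ r => by rw [pvll_huI_eq hf o' δ r, pvll_huI_eq hf o δ r, e]⟩

/-- the plain value of `Q` -/
theorem pvip_X_Q (hu : PvllUq L) (R : PvipRel N b L K S η η') (hη : η ∈ L.A N b) : L.X N b pvilQ η' = L.X N b pvilQ η :=
  (pvip_conf hu R hη fun Y => (delbPl Y).toMap.qpart Subtype.val).2.1

/-- the plain value of `V` -/
theorem pvip_X_V (hu : PvllUq L) (R : PvipRel N b L K S η η') (hη : η ∈ L.A N b) : L.X N b pvilV η' = L.X N b pvilV η :=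
  (pvip_conf hu R hη fun Y => (delbPl Y).toMap.side Subtype.val).2.1

end model

end Claimed.Agent.R289
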