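import Claimed.Agent.R289.Tr.LinkRoad

/-!
# Row 289 (S0537, Cardy for Poisson-Voronoi), THE WALL, file Tr/LinkVal : WHERE THE TAGS OF A ROAD ARE;  `Yof` = SUM OF THE LINK VALUES      (owner helper70; node CHAIN, value half; prefix `pvlc_`; continues `Tr/LinkRoad`)

* sec.10  TAGS: **`pvlc_tag`**: a tag of the rim arc of a strand is the face crossed at a time `t` whose apex is BLACK: its three vertices are the sources of the positions `t`, `t + 1` and their common white end;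
          `pvlc_tag_mem` (CONVEX ROOM: black bank in `Z`, one of the two white ends in `Z` ⟹ the barycentre of the tag in `Z`)
* sec.11  **`pvlc_mass_rooms`** = `pvlc_mass_road` with its hypotheses on the tags paid by convex rooms `Zy r` (runs), `Zw j` (doors) and pointwise facts on the REGIONS (`off`, masks)
* sec.12  **`pvlc_Yof`**: the datum: `𝔇.Yof x` = first link + cells + last link, in the three shapes of `PvilLk.val` (125; `Tr/InstL`)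
-/

set_option autoImplicit false

namespace Claimed.Agent.R289

variable {V D : Type} {T : PvMap V D} {s : V → Bool}

/-! ## 10. tags -/

/-- **A TAG OF A RIM ARC** is the face crossed at a time `t` whose apex is black -/
theorem pvlc_tag (hS : T.Simple) {a b : D} {n : ℕ} {y : T.Pth} (h : PvlcArc T s a b n y) {k : ℕ} (hk : k < y.n) :
    ∃ t, t < n ∧ T.src (T.opp (y.e k)) = T.src (pvasIt T s a (t + 1)) ∧ T.tgt (T.opp (y.e k)) = T.src (pvasIt T s a t) ∧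
      T.apex (T.opp (y.e k)) = T.tgt (pvasIt T s a t) ∧ T.apex (T.opp (y.e k)) = T.tgt (pvasIt T s a (t + 1)) := by
  obtain ⟨t, ht, hb, he⟩ := pvt_sd_time hS h.le hk
  have hst : T.src (pvasIt T s a (t + 1)) = T.apex (pvasIt T s a t) ∧ T.tgt (pvasIt T s a (t + 1)) = T.tgt (pvasIt T s a t) := by
    rw [pvas_it_succ]
    rcases pvas_step_ends s (pvasIt T s a t) with ⟨-, e1, e2⟩ | ⟨e0, -, -⟩
    · exact ⟨e1, e2⟩
    · rw [hb] at e0; cases e0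
  refine ⟨t, ht, ?_, ?_, ?_, ?_⟩
  · rw [he, pvt_s_opp_rot, T.src_nxt2, hst.1]
  · rw [he, pvt_s_opp_rot, T.tgt_nxt2]
  · rw [he, pvt_s_opp_rot, T.apex_nxt2]
  · rw [he, pvt_s_opp_rot, T.apex_nxt2, hst.2]

/-- **CONVEX ROOM**: the black bank lies in the convex set `Z`, and at every time one of the two white ends: then the barycentres of the tags lie in `Z` -/
theorem pvlc_tag_mem (hS : T.Simple) {a b : D} {n : ℕ} {y : T.Pth} (h : PvlcArc T s a b n y) (pos : V → ℂ) {Z : Set ℂ} (hZ : Convex ℝ Z)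
    (hb : ∀ t, t ≤ n → pos (T.src (pvasIt T s a t)) ∈ Z) (hw : ∀ t, t < n → pos (T.tgt (pvasIt T s a t)) ∈ Z ∨ pos (T.tgt (pvasIt T s a (t + 1))) ∈ Z) {k : ℕ} (hk : k < y.n) :
    T.bary pos (T.opp (y.e k)) ∈ Z := by
  obtain ⟨t, ht, e1, e2, e3, e4⟩ := pvlc_tag hS h hk
  unfold PvMap.bary
  refine pvki_bary_convex hZ (by rw [e1]; exact hb _ ht) (by rw [e2]; exact hb _ ht.le) ?_
  rcases hw t ht with h' | h'
  · rw [e3]; exact h'
  · rw [e4]; exact h'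

/-- the same when all the vertices of the crossed faces lie in `Z` -/
theorem pvlc_tag_mem_fc (hS : T.Simple) {a b : D} {n : ℕ} {y : T.Pth} (h : PvlcArc T s a b n y) (pos : V → ℂ) {Z : Set ℂ} (hZ : Convex ℝ Z)
    (hf : ∀ v ∈ T.VOf (pvasFc T s a n), pos v ∈ Z) {k : ℕ} (hk : k < y.n) : T.bary pos (T.opp (y.e k)) ∈ Z := by
  have h1 : T.opp (y.e k) ∈ pvasFc T s a n := ((pvt_sd_faced hS h.bw h.le).2 k hk).1
  obtain ⟨i, hi, hsf⟩ := h1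
  unfold PvMap.bary
  exact pvki_bary_convex hZ (hf _ ⟨_, ⟨i, hi, hsf⟩, rfl⟩) (hf _ ⟨T.nxt _, ⟨i, hi, T.sf_trans hsf (T.sf_nxt _)⟩, rfl⟩) (hf _ ⟨T.nxt (T.nxt _), ⟨i, hi, T.sf_trans hsf (T.sf_nxt2 _)⟩, rfl⟩)

/-! ## 11. the mass of a road from rooms -/

/-- **THE MASS OF A ROAD, LINK BY LINK, FROM CONVEX ROOMS**: the tags of the run `r` lie in `Zy r`, those of the door `j` in `Zw j`;   on `Zy r`: `off = Mk r`;   on `Zw j`: `off = Mk j ⊔ Mk (j + 1)` (disjoint union) -/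
theorem pvlc_mass_rooms (pos : V → ℂ) (u : D → ℂ) {x : T.Pth} {m : ℕ} {y w : ℕ → T.Pth}
    (hx : ∀ f : D → ℂ, ∑ k ∈ Finset.range x.n, f (x.e k) =
      ∑ r ∈ Finset.range (m + 2), ∑ k ∈ Finset.range (y r).n, f ((y r).e k) + ∑ j ∈ Finset.range (m + 1), ∑ k ∈ Finset.range (w j).n, f ((w j).e k))
    (off : Set ℂ) (Mk Zy Zw : ℕ → Set ℂ)
    (ty : ∀ r, r ≤ m + 1 → ∀ k, k < (y r).n → T.bary pos (T.opp ((y r).e k)) ∈ Zy r) (tw : ∀ j, j ≤ m → ∀ k, k < (w j).n → T.bary pos (T.opp ((w j).e k)) ∈ Zw j)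
    (my : ∀ r, r ≤ m + 1 → ∀ p ∈ Zy r, (p ∈ off ↔ p ∈ Mk r)) (mw : ∀ j, j ≤ m → ∀ p ∈ Zw j, (p ∈ off ↔ p ∈ Mk j ∨ p ∈ Mk (j + 1)) ∧ ¬ (p ∈ Mk j ∧ p ∈ Mk (j + 1))) :
    pvwMass T pos u off x 0 x.n =
      (pvwMass T pos u (Mk 0) (y 0) 0 (y 0).n + pvwMass T pos u (Mk 0) (w 0) 0 (w 0).n) +
      ∑ j ∈ Finset.range m, (pvwMass T pos u (Mk (j + 1)) (w j) 0 (w j).n + pvwMass T pos u (Mk (j + 1)) (y (j + 1)) 0 (y (j + 1)).n + pvwMass T pos u (Mk (j + 1)) (w (j + 1)) 0 (w (j + 1)).n) +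
      (pvwMass T pos u (Mk (m + 1)) (w m) 0 (w m).n + pvwMass T pos u (Mk (m + 1)) (y (m + 1)) 0 (y (m + 1)).n) :=
  pvlc_mass_road pos u hx off Mk (fun r hr k hk => my r hr _ (ty r hr k hk)) fun j hj k hk => mw j hj _ (tw j hj k hk)

/-! ## 12. the datum -/

/-- **`Yof` = FIRST LINK + CELLS + LAST LINK**, in the three shapes of `PvilLk.val`:   marked end → door (`dr = false, dr' = true`), door → door, door → marked end -/
theorem pvlc_Yof (𝔇 : PvwDat T) (pos : V → ℂ) (u : D → ℂ) (N : PvwNum) (h : ℝ) (π : PvwPat) {x : T.Pth} {m : ℕ} {y w : ℕ → T.Pth}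
    (hx : ∀ f : D → ℂ, ∑ k ∈ Finset.range x.n, f (x.e k) =
      ∑ r ∈ Finset.range (m + 2), ∑ k ∈ Finset.range (y r).n, f ((y r).e k) + ∑ j ∈ Finset.range (m + 1), ∑ k ∈ Finset.range (w j).n, f ((w j).e k))
    (Mk : ℕ → Set ℂ)
    (hY : ∀ r, r ≤ m + 1 → ∀ k, k < (y r).n → (T.bary pos (T.opp ((y r).e k)) ∈ PvwDat.offCut N h π ↔ T.bary pos (T.opp ((y r).e k)) ∈ Mk r))
    (hW : ∀ j, j ≤ m → ∀ k, k < (w j).n → (T.bary pos (T.opp ((w j).e k)) ∈ PvwDat.offCut N h π ↔ T.bary pos (T.opp ((w j).e k)) ∈ Mk j ∨ T.bary pos (T.opp ((w j).e k)) ∈ Mk (j + 1)) ∧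
      ¬ (T.bary pos (T.opp ((w j).e k)) ∈ Mk j ∧ T.bary pos (T.opp ((w j).e k)) ∈ Mk (j + 1)))
    (ht : ∀ k, 𝔇.t.ip ≤ k → k < 𝔇.t.inn.n → (T.bary pos (T.opp (𝔇.t.inn.e k)) ∈ PvwDat.offCut N h π ↔ T.bary pos (T.opp (𝔇.t.inn.e k)) ∈ Mk 0))
    (hs : ∀ k, k < 𝔇.s.ip → (T.bary pos (T.opp (𝔇.s.inn.e k)) ∈ PvwDat.offCut N h π ↔ T.bary pos (T.opp (𝔇.s.inn.e k)) ∈ Mk (m + 1))) :
    𝔇.Yof pos u N h π x =
      (pvwMass T pos u (Metric.closedBall π.zt (N.m * h)) 𝔇.t.inn 0 𝔇.t.inn.n + pvwMass T pos u (Mk 0) 𝔇.t.inn 𝔇.t.ip 𝔇.t.inn.n + pvwMass T pos u (Mk 0) (y 0) 0 (y 0).n + pvwMass T pos u (Mk 0) (w 0) 0 (w 0).n) +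
      ∑ j ∈ Finset.range m, (pvwMass T pos u (Mk (j + 1)) (w j) 0 (w j).n + pvwMass T pos u (Mk (j + 1)) (y (j + 1)) 0 (y (j + 1)).n + pvwMass T pos u (Mk (j + 1)) (w (j + 1)) 0 (w (j + 1)).n) +
      (pvwMass T pos u (Mk (m + 1)) (w m) 0 (w m).n + pvwMass T pos u (Mk (m + 1)) (y (m + 1)) 0 (y (m + 1)).n + pvwMass T pos u (Mk (m + 1)) 𝔇.s.inn 0 𝔇.s.ip) := by
  unfold PvwDat.Yof
  rw [pvlc_mass_road pos u hx (PvwDat.offCut N h π) Mk hY hW, pvlc_mass_congr pos u 𝔇.t.inn ht, pvlc_mass_congr pos u 𝔇.s.inn fun k _ hk => hs k hk]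
  ring

end Claimed.Agent.R289
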