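import Mathlib

/-!
# Row 289 (S0537), box TR, post T5, file Tr/Lln : LLN AND POTENTIAL FOR CELL INCREMENTS ON `ℤ²`      (owner helper48; prefix `pvlln_` / `Pvlln`)

MODEL FREE (Mathlib only).  Source: (N2), (N3) of 208 (`s6a_208.md` v2).

A *state* is a pair `(z, d)`: the corridor sits in the cell `z : ℤ × ℤ` and leaves it in the direction `d : Fin 4`
(`0 = E, 1 = N, 2 = W, 3 = S`; left turn `d + 1`, right turn `d + 3`).  A *cell increment* `X z d d'` is attached to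
the passage through the cell `z`, entered with heading `d`, left with heading `d'` (`PvllnCo A`, values in any additive group `A`:
`ℂ` for one environment, `Ω → ℂ` for the random field, `ℂ` again for the mean field).

## What is proved here
* sec. 1-2 (ALGEBRA, no probability).  THE POTENTIAL IS EXPLICIT AND NEEDS VERY FEW LOOPS.  Fix the ring `∂[-M,M]²`.
  `pvllnPsi X M (z,d)` = sum of `X` along: the ring counterclockwise from its NW corner, a left turn, the straight ray to `z`.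
  Exact identities (`pvlln_psi_str*`, `pvlln_psi_left*`, `pvlln_psi_right*`): for each of the 12 moves `u → v` through a cell inside the ring
  `X(move) - (Psi v - Psi u)` = a signed sum of AT MOST 3 closed sums, each of them along a counterclockwise RECTANGLE having
  a corner at a corner of the ring, or along a counterclockwise L-SHAPED HEXAGON with its five convex corners on the ring.
  So `PvllnClosed X M ε` only speaks of `O(M ^ 2)` loops, all of them MACROSCOPIC (size `≥` distance to the ring); no Jordan curve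
  theorem, no deformation, no self avoidance: `pvlln_walk` : every walk (self avoiding or not) of `N` cells inside the ring has
  `‖sum - (Psi end - Psi start)‖ ≤ 3 N ε`.
* sec. 3 (L2).  `pvlln_l2_sum_le` : second moment of a sum under a dependency relation of degree `≤ D` : `≤ D σ² #s`.
* sec. 4 (LLN).  `PvllnField μ X m σ` : L2, centred second moment `≤ σ²`, PAIRWISE independence beyond sup distance `m`.
  `pvlln_lln_cells` (any family of distinct cells), `pvlln_lln_psi` : `Psi v` deviates from its mean by `O((2m+1) σ √M)` in L2.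
* sec. 5 (MAIN).  `pvlln_main` : on the event `PvllnClosed (X · ω) M ε`, for every walk, sum = mean potential difference + deviations.
  The mean potential is the potential of the mean field (`pvlln_psi_mean`), a deterministic translation invariant cochain: post T4.
-/

set_option autoImplicit false
set_option linter.unusedSectionVars false
set_option linter.unusedVariables false

namespace Claimed.Agent.R289

noncomputable section

open MeasureTheory ProbabilityTheory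
open scoped ComplexConjugate ENNReal

/-! ## 1. cochains, lines, rectangles, hexagons, the potential -/

/-- cell increments: `X z d d'` = passage through the cell `z`, entered with heading `d`, left with heading `d'` -/
abbrev PvllnCo (A : Type*) := ℤ × ℤ → Fin 4 → Fin 4 → A

/-- the unit step: `0 = E, 1 = N, 2 = W, 3 = S` -/
def pvllnE (d : Fin 4) : ℤ × ℤ := ![(1, 0), (0, 1), (-1, 0), (0, -1)] d

section alg

variable {A : Type*} [AddCommGroup A]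

/-- straight run with heading `d` through the cells `(x, y)`, `a < x < b` -/
def pvllnH (X : PvllnCo A) (d : Fin 4) (y a b : ℤ) : A := ∑ x ∈ Finset.Ioo a b, X (x, y) d d

/-- straight run with heading `d` through the cells `(x, y)`, `a < y < b` -/
def pvllnV (X : PvllnCo A) (d : Fin 4) (x a b : ℤ) : A := ∑ y ∈ Finset.Ioo a b, X (x, y) d d

/-- closed sum along the counterclockwise rectangle with corner cells `(x1,y1), (x2,y1), (x2,y2), (x1,y2)` -/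
def pvllnRect (X : PvllnCo A) (x1 x2 y1 y2 : ℤ) : A :=
  X (x1, y1) 3 0 + pvllnH X 0 y1 x1 x2 + X (x2, y1) 0 1 + pvllnV X 1 x2 y1 y2
    + X (x2, y2) 1 2 + pvllnH X 2 y2 x1 x2 + X (x1, y2) 2 3 + pvllnV X 3 x1 y1 y2

/-- counterclockwise L-hexagon, reflex corner (right turn `E → S`) at `(x, y)`, the other corners on the ring -/
def pvllnHex0 (X : PvllnCo A) (M x y : ℤ) : A :=
  X (-M, y) 3 0 + pvllnH X 0 y (-M) x + X (x, y) 0 3 + pvllnV X 3 x (-M) y + X (x, -M) 3 0 + pvllnH X 0 (-M) x M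
    + X (M, -M) 0 1 + pvllnV X 1 M (-M) M + X (M, M) 1 2 + pvllnH X 2 M (-M) M + X (-M, M) 2 3 + pvllnV X 3 (-M) y M

/-- counterclockwise L-hexagon, reflex corner (right turn `N → E`) at `(x, y)` -/
def pvllnHex1 (X : PvllnCo A) (M x y : ℤ) : A :=
  X (x, -M) 0 1 + pvllnV X 1 x (-M) y + X (x, y) 1 0 + pvllnH X 0 y x M + X (M, y) 0 1 + pvllnV X 1 M y M
    + X (M, M) 1 2 + pvllnH X 2 M (-M) M + X (-M, M) 2 3 + pvllnV X 3 (-M) (-M) M + X (-M, -M) 3 0 + pvllnH X 0 (-M) (-M) x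

/-- counterclockwise L-hexagon, reflex corner (right turn `W → N`) at `(x, y)` -/
def pvllnHex2 (X : PvllnCo A) (M x y : ℤ) : A :=
  X (M, y) 1 2 + pvllnH X 2 y x M + X (x, y) 2 1 + pvllnV X 1 x y M + X (x, M) 1 2 + pvllnH X 2 M (-M) x
    + X (-M, M) 2 3 + pvllnV X 3 (-M) (-M) M + X (-M, -M) 3 0 + pvllnH X 0 (-M) (-M) M + X (M, -M) 0 1 + pvllnV X 1 M (-M) y

/-- counterclockwise L-hexagon, reflex corner (right turn `S → W`) at `(x, y)` -/
def pvllnHex3 (X : PvllnCo A) (M x y : ℤ) : A :=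
  X (x, M) 2 3 + pvllnV X 3 x y M + X (x, y) 3 2 + pvllnH X 2 y (-M) x + X (-M, y) 2 3 + pvllnV X 3 (-M) (-M) y
    + X (-M, -M) 3 0 + pvllnH X 0 (-M) (-M) M + X (M, -M) 0 1 + pvllnV X 1 M (-M) M + X (M, M) 1 2 + pvllnH X 2 M x M

/-- the potential of the state `(x, y), d`: ring from the NW corner, left turn, straight ray -/
def pvllnPsi (X : PvllnCo A) (M : ℤ) (z : ℤ × ℤ) (d : Fin 4) : A :=
  ![X (-M, M) 2 3 + pvllnV X 3 (-M) z.2 M + X (-M, z.2) 3 0 + pvllnH X 0 z.2 (-M) (z.1 + 1),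
    X (-M, M) 2 3 + pvllnV X 3 (-M) (-M) M + X (-M, -M) 3 0 + pvllnH X 0 (-M) (-M) z.1 + X (z.1, -M) 0 1
      + pvllnV X 1 z.1 (-M) (z.2 + 1),
    X (-M, M) 2 3 + pvllnV X 3 (-M) (-M) M + X (-M, -M) 3 0 + pvllnH X 0 (-M) (-M) M + X (M, -M) 0 1
      + pvllnV X 1 M (-M) z.2 + X (M, z.2) 1 2 + pvllnH X 2 z.2 (z.1 - 1) M,
    X (-M, M) 2 3 + pvllnV X 3 (-M) (-M) M + X (-M, -M) 3 0 + pvllnH X 0 (-M) (-M) M + X (M, -M) 0 1
      + pvllnV X 1 M (-M) M + X (M, M) 1 2 + pvllnH X 2 M z.1 M + X (z.1, M) 2 3 + pvllnV X 3 z.1 (z.2 - 1) M] d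

/-- sum of the increments of the walk which starts in the state `(z, d)` and then takes the headings of the list -/
def pvllnSum (X : PvllnCo A) : ℤ × ℤ → Fin 4 → List (Fin 4) → A
  | _, _, [] => 0
  | z, d, d' :: l => X (z + pvllnE d) d d' + pvllnSum X (z + pvllnE d) d' l

/-- last cell of the walk -/
def pvllnEndZ : ℤ × ℤ → Fin 4 → List (Fin 4) → ℤ × ℤ
  | z, _, [] => z
  | z, d, d' :: l => pvllnEndZ (z + pvllnE d) d' l

/-- last heading of the walk -/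
def pvllnEndD : Fin 4 → List (Fin 4) → Fin 4
  | d, [] => d
  | _, d' :: l => pvllnEndD d' l

/-- the walk makes no U-turn and all the cells it passes through lie strictly inside the ring -/
def pvllnOk (M : ℤ) : ℤ × ℤ → Fin 4 → List (Fin 4) → Prop
  | _, _, [] => True
  | z, d, d' :: l => d' ≠ d + 2 ∧ |(z + pvllnE d).1| < M ∧ |(z + pvllnE d).2| < M ∧ pvllnOk M (z + pvllnE d) d' l

end alg

theorem pvlln_defs_eqns_cite : True := by
  have := @pvllnE.eq_1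
  have := @pvllnH.eq_1.{0}
  have := @pvllnV.eq_1.{0}
  have := @pvllnRect.eq_1.{0}
  have := @pvllnHex0.eq_1.{0}
  have := @pvllnHex1.eq_1.{0}
  have := @pvllnHex2.eq_1.{0}
  have := @pvllnHex3.eq_1.{0}
  have := @pvllnPsi.eq_1.{0}
  have := @pvllnSum.eq_1.{0}
  have := @pvllnEndZ.eq_1
  have := @pvllnEndD.eq_1
  have := @pvllnOk.eq_1
  trivial

/-! ## 2. the twelve identities and the walk theorem -/

section ident

theorem pvlln_sum_split {A : Type*} [AddCommMonoid A] (f : ℤ → A) {a c b : ℤ} (h1 : a ≤ c) (h2 : c < b) :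
    ∑ x ∈ Finset.Ioo a b, f x = ∑ x ∈ Finset.Ioo a (c + 1), f x + ∑ x ∈ Finset.Ioo c b, f x := by
  rw [← Finset.sum_union]
  · congr 1; ext x; simp only [Finset.mem_union, Finset.mem_Ioo]; omega
  · rw [Finset.disjoint_left]; intro x; simp only [Finset.mem_Ioo]; omega

theorem pvlln_sum_split' {A : Type*} [AddCommMonoid A] (f : ℤ → A) {a c b : ℤ} (h1 : a < c) (h2 : c ≤ b) :
    ∑ x ∈ Finset.Ioo a b, f x = ∑ x ∈ Finset.Ioo a c, f x + ∑ x ∈ Finset.Ioo (c - 1) b, f x := by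
  rw [← Finset.sum_union]
  · congr 1; ext x; simp only [Finset.mem_union, Finset.mem_Ioo]; omega
  · rw [Finset.disjoint_left]; intro x; simp only [Finset.mem_Ioo]; omega

theorem pvlln_sum_top {A : Type*} [AddCommMonoid A] (f : ℤ → A) {a c : ℤ} (h1 : a < c) :
    ∑ x ∈ Finset.Ioo a (c + 1), f x = ∑ x ∈ Finset.Ioo a c, f x + f c := by
  rw [← Finset.sum_singleton f c, ← Finset.sum_union]
  · congr 1; ext x; simp only [Finset.mem_union, Finset.mem_Ioo, Finset.mem_singleton]; omega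
  · rw [Finset.disjoint_left]; intro x; simp only [Finset.mem_Ioo, Finset.mem_singleton]; omega

theorem pvlln_sum_bot {A : Type*} [AddCommMonoid A] (f : ℤ → A) {c b : ℤ} (h1 : c < b) :
    ∑ x ∈ Finset.Ioo (c - 1) b, f x = ∑ x ∈ Finset.Ioo c b, f x + f c := by
  rw [← Finset.sum_singleton f c, ← Finset.sum_union]
  · congr 1; ext x; simp only [Finset.mem_union, Finset.mem_Ioo, Finset.mem_singleton]; omega
  · rw [Finset.disjoint_left]; intro x; simp only [Finset.mem_Ioo, Finset.mem_singleton]; omega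

variable {A : Type*} [AddCommGroup A] (X : PvllnCo A) (M x y : ℤ)

theorem pvllnPsi_zero (z : ℤ × ℤ) : pvllnPsi X M z 0 =
    X (-M, M) 2 3 + pvllnV X 3 (-M) z.2 M + X (-M, z.2) 3 0 + pvllnH X 0 z.2 (-M) (z.1 + 1) := rfl

theorem pvllnPsi_one (z : ℤ × ℤ) : pvllnPsi X M z 1 =
    X (-M, M) 2 3 + pvllnV X 3 (-M) (-M) M + X (-M, -M) 3 0 + pvllnH X 0 (-M) (-M) z.1 + X (z.1, -M) 0 1
      + pvllnV X 1 z.1 (-M) (z.2 + 1) := rfl

theorem pvllnPsi_two (z : ℤ × ℤ) : pvllnPsi X M z 2 =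
    X (-M, M) 2 3 + pvllnV X 3 (-M) (-M) M + X (-M, -M) 3 0 + pvllnH X 0 (-M) (-M) M + X (M, -M) 0 1
      + pvllnV X 1 M (-M) z.2 + X (M, z.2) 1 2 + pvllnH X 2 z.2 (z.1 - 1) M := rfl

theorem pvllnPsi_three (z : ℤ × ℤ) : pvllnPsi X M z 3 =
    X (-M, M) 2 3 + pvllnV X 3 (-M) (-M) M + X (-M, -M) 3 0 + pvllnH X 0 (-M) (-M) M + X (M, -M) 0 1
      + pvllnV X 1 M (-M) M + X (M, M) 1 2 + pvllnH X 2 M z.1 M + X (z.1, M) 2 3 + pvllnV X 3 z.1 (z.2 - 1) M := rfl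

theorem pvlln_psi_str0 (hx : -M < x) : X (x, y) 0 0 = pvllnPsi X M (x, y) 0 - pvllnPsi X M (x - 1, y) 0 := by
  simp only [pvllnPsi_zero, pvllnH, sub_add_cancel]
  rw [pvlln_sum_top _ hx]; abel

theorem pvlln_psi_str1 (hy : -M < y) : X (x, y) 1 1 = pvllnPsi X M (x, y) 1 - pvllnPsi X M (x, y - 1) 1 := by
  simp only [pvllnPsi_one, pvllnV, sub_add_cancel]
  rw [pvlln_sum_top _ hy]; abel

theorem pvlln_psi_str2 (hx : x < M) : X (x, y) 2 2 = pvllnPsi X M (x, y) 2 - pvllnPsi X M (x + 1, y) 2 := by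
  simp only [pvllnPsi_two, pvllnH, add_sub_cancel_right]
  rw [pvlln_sum_bot _ hx]; abel

theorem pvlln_psi_str3 (hy : y < M) : X (x, y) 3 3 = pvllnPsi X M (x, y) 3 - pvllnPsi X M (x, y + 1) 3 := by
  simp only [pvllnPsi_three, pvllnV, add_sub_cancel_right]
  rw [pvlln_sum_bot _ hy]; abel

theorem pvlln_psi_left0 (hy : -M < y) (hy' : y < M) :
    X (x, y) 0 1 - (pvllnPsi X M (x, y) 1 - pvllnPsi X M (x - 1, y) 0)
      = pvllnRect X (-M) x y M - pvllnRect X (-M) x (-M) M := by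
  simp only [pvllnPsi_zero, pvllnPsi_one, pvllnRect, pvllnH, pvllnV, sub_add_cancel]
  rw [pvlln_sum_split (fun t => X (x, t) 1 1) hy.le hy']; abel

theorem pvlln_psi_left1 (hx : -M < x) (hx' : x < M) :
    X (x, y) 1 2 - (pvllnPsi X M (x, y) 2 - pvllnPsi X M (x, y - 1) 1)
      = pvllnRect X (-M) x (-M) y - pvllnRect X (-M) M (-M) y := by
  simp only [pvllnPsi_two, pvllnPsi_one, pvllnRect, pvllnH, pvllnV, sub_add_cancel]
  rw [pvlln_sum_split' (fun t => X (t, y) 2 2) hx hx'.le]; abel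

theorem pvlln_psi_left2 (hy : -M < y) (hy' : y < M) :
    X (x, y) 2 3 - (pvllnPsi X M (x, y) 3 - pvllnPsi X M (x + 1, y) 2)
      = pvllnRect X x M (-M) y - pvllnRect X x M (-M) M := by
  simp only [pvllnPsi_two, pvllnPsi_three, pvllnRect, pvllnH, pvllnV, add_sub_cancel_right]
  rw [pvlln_sum_split' (fun t => X (x, t) 3 3) hy hy'.le, pvlln_sum_split' (fun t => X (M, t) 1 1) hy hy'.le]; abel

theorem pvlln_psi_left3 (hx : -M < x) (hx' : x < M) :
    X (x, y) 3 0 - (pvllnPsi X M (x, y) 0 - pvllnPsi X M (x, y + 1) 3)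
      = pvllnRect X x M y M - pvllnRect X (-M) M y M + pvllnRect X (-M) M (-M) M := by
  simp only [pvllnPsi_zero, pvllnPsi_three, pvllnRect, pvllnH, pvllnV, add_sub_cancel_right]
  rw [pvlln_sum_split (fun t => X (t, y) 0 0) hx.le hx', pvlln_sum_split (fun t => X (t, M) 2 2) hx.le hx']; abel

theorem pvlln_psi_right0 (hx : -M < x) (hx' : x < M) (hy : -M < y) (hy' : y < M) :
    X (x, y) 0 3 - (pvllnPsi X M (x, y) 3 - pvllnPsi X M (x - 1, y) 0)
      = pvllnHex0 X M x y - pvllnRect X x M (-M) M - pvllnRect X (-M) M (-M) M := by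
  simp only [pvllnPsi_zero, pvllnPsi_three, pvllnRect, pvllnHex0, pvllnH, pvllnV, sub_add_cancel]
  rw [pvlln_sum_split' (fun t => X (x, t) 3 3) hy hy'.le]; abel

theorem pvlln_psi_right1 (hx : -M < x) (hx' : x < M) :
    X (x, y) 1 0 - (pvllnPsi X M (x, y) 0 - pvllnPsi X M (x, y - 1) 1)
      = pvllnHex1 X M x y - pvllnRect X (-M) M y M := by
  simp only [pvllnPsi_zero, pvllnPsi_one, pvllnRect, pvllnHex1, pvllnH, pvllnV, sub_add_cancel]
  rw [pvlln_sum_split (fun t => X (t, y) 0 0) hx.le hx']; abel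

theorem pvlln_psi_right2 (hy : -M < y) (hy' : y < M) :
    X (x, y) 2 1 - (pvllnPsi X M (x, y) 1 - pvllnPsi X M (x + 1, y) 2)
      = pvllnHex2 X M x y - pvllnRect X (-M) x (-M) M := by
  simp only [pvllnPsi_two, pvllnPsi_one, pvllnRect, pvllnHex2, pvllnH, pvllnV, add_sub_cancel_right]
  rw [pvlln_sum_split (fun t => X (x, t) 1 1) hy.le hy']; abel

theorem pvlln_psi_right3 (hx : -M < x) (hx' : x < M) :
    X (x, y) 3 2 - (pvllnPsi X M (x, y) 2 - pvllnPsi X M (x, y + 1) 3)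
      = pvllnHex3 X M x y - pvllnRect X (-M) M (-M) y := by
  simp only [pvllnPsi_two, pvllnPsi_three, pvllnRect, pvllnHex3, pvllnH, pvllnV, add_sub_cancel_right]
  rw [pvlln_sum_split' (fun t => X (t, y) 2 2) hx hx'.le]; abel

end ident

section walk

variable {A : Type*} [SeminormedAddCommGroup A]

/-- closed up to `ε` : ONLY the counterclockwise rectangles with a corner at a corner of the ring and the four families of L-hexagons -/
structure PvllnClosed (X : PvllnCo A) (M : ℤ) (ε : ℝ) : Prop where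
  rect : ∀ x1 x2 y1 y2 : ℤ, -M ≤ x1 → x1 < x2 → x2 ≤ M → -M ≤ y1 → y1 < y2 → y2 ≤ M →
    (x1 = -M ∨ x2 = M) → (y1 = -M ∨ y2 = M) → ‖pvllnRect X x1 x2 y1 y2‖ ≤ ε
  hex0 : ∀ x y : ℤ, |x| < M → |y| < M → ‖pvllnHex0 X M x y‖ ≤ ε
  hex1 : ∀ x y : ℤ, |x| < M → |y| < M → ‖pvllnHex1 X M x y‖ ≤ ε
  hex2 : ∀ x y : ℤ, |x| < M → |y| < M → ‖pvllnHex2 X M x y‖ ≤ ε
  hex3 : ∀ x y : ℤ, |x| < M → |y| < M → ‖pvllnHex3 X M x y‖ ≤ ε

theorem PvllnClosed.eps_nonneg {X : PvllnCo A} {M : ℤ} {ε : ℝ} (h : PvllnClosed X M ε) (hM : 0 < M) : 0 ≤ ε :=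
  (norm_nonneg _).trans (h.rect (-M) M (-M) M le_rfl (by omega) le_rfl le_rfl (by omega) le_rfl (Or.inl rfl) (Or.inl rfl))

theorem PvllnClosed.mono {X : PvllnCo A} {M : ℤ} {ε ε' : ℝ} (h : PvllnClosed X M ε) (he : ε ≤ ε') : PvllnClosed X M ε' where
  rect := fun x1 x2 y1 y2 a b c d e f g i => (h.rect x1 x2 y1 y2 a b c d e f g i).trans he
  hex0 := fun x y a b => (h.hex0 x y a b).trans he
  hex1 := fun x y a b => (h.hex1 x y a b).trans he
  hex2 := fun x y a b => (h.hex2 x y a b).trans he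
  hex3 := fun x y a b => (h.hex3 x y a b).trans he

theorem pvlln_n2 {a b : A} {ε : ℝ} (ha : ‖a‖ ≤ ε) (hb : ‖b‖ ≤ ε) : ‖a - b‖ ≤ 3 * ε := by
  have := norm_sub_le a b
  have := norm_nonneg a
  linarith

theorem pvlln_n3 {a b c : A} {ε : ℝ} (ha : ‖a‖ ≤ ε) (hb : ‖b‖ ≤ ε) (hc : ‖c‖ ≤ ε) : ‖a - b + c‖ ≤ 3 * ε := by
  have := norm_add_le (a - b) c
  have := norm_sub_le a b
  linarith

theorem pvlln_n3' {a b c : A} {ε : ℝ} (ha : ‖a‖ ≤ ε) (hb : ‖b‖ ≤ ε) (hc : ‖c‖ ≤ ε) : ‖a - b - c‖ ≤ 3 * ε := by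
  have := norm_sub_le (a - b) c
  have := norm_sub_le a b
  linarith

/-- the four moves with heading `E` before the cell, etc.: all in the coordinates of the cell passed through -/
theorem pvlln_move_xy {X : PvllnCo A} {M : ℤ} {ε : ℝ} (h : PvllnClosed X M ε) (x y : ℤ) (hx : |x| < M) (hy : |y| < M) :
    (‖X (x, y) 0 0 - (pvllnPsi X M (x, y) 0 - pvllnPsi X M (x - 1, y) 0)‖ ≤ 3 * ε ∧
     ‖X (x, y) 0 1 - (pvllnPsi X M (x, y) 1 - pvllnPsi X M (x - 1, y) 0)‖ ≤ 3 * ε ∧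
     ‖X (x, y) 0 3 - (pvllnPsi X M (x, y) 3 - pvllnPsi X M (x - 1, y) 0)‖ ≤ 3 * ε) ∧
    (‖X (x, y) 1 1 - (pvllnPsi X M (x, y) 1 - pvllnPsi X M (x, y - 1) 1)‖ ≤ 3 * ε ∧
     ‖X (x, y) 1 2 - (pvllnPsi X M (x, y) 2 - pvllnPsi X M (x, y - 1) 1)‖ ≤ 3 * ε ∧
     ‖X (x, y) 1 0 - (pvllnPsi X M (x, y) 0 - pvllnPsi X M (x, y - 1) 1)‖ ≤ 3 * ε) ∧
    (‖X (x, y) 2 2 - (pvllnPsi X M (x, y) 2 - pvllnPsi X M (x + 1, y) 2)‖ ≤ 3 * ε ∧
     ‖X (x, y) 2 3 - (pvllnPsi X M (x, y) 3 - pvllnPsi X M (x + 1, y) 2)‖ ≤ 3 * ε ∧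
     ‖X (x, y) 2 1 - (pvllnPsi X M (x, y) 1 - pvllnPsi X M (x + 1, y) 2)‖ ≤ 3 * ε) ∧
    (‖X (x, y) 3 3 - (pvllnPsi X M (x, y) 3 - pvllnPsi X M (x, y + 1) 3)‖ ≤ 3 * ε ∧
     ‖X (x, y) 3 0 - (pvllnPsi X M (x, y) 0 - pvllnPsi X M (x, y + 1) 3)‖ ≤ 3 * ε ∧
     ‖X (x, y) 3 2 - (pvllnPsi X M (x, y) 2 - pvllnPsi X M (x, y + 1) 3)‖ ≤ 3 * ε) := by
  obtain ⟨hx1, hx2⟩ := abs_lt.1 hx
  obtain ⟨hy1, hy2⟩ := abs_lt.1 hy
  have hM : 0 < M := lt_of_le_of_lt (abs_nonneg x) hx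
  have h0 : 0 ≤ 3 * ε := by have := h.eps_nonneg hM; linarith
  have hG : ‖pvllnRect X (-M) M (-M) M‖ ≤ ε :=
    h.rect (-M) M (-M) M le_rfl (by omega) le_rfl le_rfl (by omega) le_rfl (Or.inl rfl) (Or.inl rfl)
  refine ⟨⟨?_, ?_, ?_⟩, ⟨?_, ?_, ?_⟩, ⟨?_, ?_, ?_⟩, ⟨?_, ?_, ?_⟩⟩
  · rw [← pvlln_psi_str0 X M x y hx1, sub_self, norm_zero]; exact h0
  · rw [pvlln_psi_left0 X M x y hy1 hy2]
    exact pvlln_n2 (h.rect _ _ _ _ le_rfl hx1 hx2.le hy1.le hy2 le_rfl (Or.inl rfl) (Or.inr rfl))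
      (h.rect _ _ _ _ le_rfl hx1 hx2.le le_rfl (by omega) le_rfl (Or.inl rfl) (Or.inr rfl))
  · rw [pvlln_psi_right0 X M x y hx1 hx2 hy1 hy2]
    exact pvlln_n3' (h.hex0 x y hx hy)
      (h.rect _ _ _ _ hx1.le hx2 le_rfl le_rfl (by omega) le_rfl (Or.inr rfl) (Or.inr rfl)) hG
  · rw [← pvlln_psi_str1 X M x y hy1, sub_self, norm_zero]; exact h0
  · rw [pvlln_psi_left1 X M x y hx1 hx2]
    exact pvlln_n2 (h.rect _ _ _ _ le_rfl hx1 hx2.le le_rfl hy1 hy2.le (Or.inl rfl) (Or.inl rfl))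
      (h.rect _ _ _ _ le_rfl (by omega) le_rfl le_rfl hy1 hy2.le (Or.inl rfl) (Or.inl rfl))
  · rw [pvlln_psi_right1 X M x y hx1 hx2]
    exact pvlln_n2 (h.hex1 x y hx hy)
      (h.rect _ _ _ _ le_rfl (by omega) le_rfl hy1.le hy2 le_rfl (Or.inl rfl) (Or.inr rfl))
  · rw [← pvlln_psi_str2 X M x y hx2, sub_self, norm_zero]; exact h0
  · rw [pvlln_psi_left2 X M x y hy1 hy2]
    exact pvlln_n2 (h.rect _ _ _ _ hx1.le hx2 le_rfl le_rfl hy1 hy2.le (Or.inr rfl) (Or.inl rfl))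
      (h.rect _ _ _ _ hx1.le hx2 le_rfl le_rfl (by omega) le_rfl (Or.inr rfl) (Or.inl rfl))
  · rw [pvlln_psi_right2 X M x y hy1 hy2]
    exact pvlln_n2 (h.hex2 x y hx hy)
      (h.rect _ _ _ _ le_rfl hx1 hx2.le le_rfl (by omega) le_rfl (Or.inl rfl) (Or.inl rfl))
  · rw [← pvlln_psi_str3 X M x y hy2, sub_self, norm_zero]; exact h0
  · rw [pvlln_psi_left3 X M x y hx1 hx2]
    exact pvlln_n3 (h.rect _ _ _ _ hx1.le hx2 le_rfl hy1.le hy2 le_rfl (Or.inr rfl) (Or.inr rfl))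
      (h.rect _ _ _ _ le_rfl (by omega) le_rfl hy1.le hy2 le_rfl (Or.inl rfl) (Or.inr rfl)) hG
  · rw [pvlln_psi_right3 X M x y hx1 hx2]
    exact pvlln_n2 (h.hex3 x y hx hy)
      (h.rect _ _ _ _ le_rfl (by omega) le_rfl le_rfl hy1 hy2.le (Or.inl rfl) (Or.inl rfl))

theorem pvllnE_zero : pvllnE 0 = (1, 0) := rfl
theorem pvllnE_one : pvllnE 1 = (0, 1) := rfl
theorem pvllnE_two : pvllnE 2 = (-1, 0) := rfl
theorem pvllnE_three : pvllnE 3 = (0, -1) := rfl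

/-- one move -/
theorem pvlln_move {X : PvllnCo A} {M : ℤ} {ε : ℝ} (h : PvllnClosed X M ε) (z : ℤ × ℤ) (d d' : Fin 4) (hd : d' ≠ d + 2)
    (h1 : |(z + pvllnE d).1| < M) (h2 : |(z + pvllnE d).2| < M) :
    ‖X (z + pvllnE d) d d' - (pvllnPsi X M (z + pvllnE d) d' - pvllnPsi X M z d)‖ ≤ 3 * ε := by
  obtain ⟨a, b⟩ := z
  have key := pvlln_move_xy h _ _ h1 h2
  obtain ⟨⟨k00, k01, k03⟩, ⟨k11, k12, k10⟩, ⟨k22, k23, k21⟩, ⟨k33, k30, k32⟩⟩ := key
  fin_cases d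
  · have e : ((a, b) + pvllnE 0 : ℤ × ℤ) = (a + 1, b) := by simp [pvllnE_zero]
    simp only [Fin.zero_eta, e, add_sub_cancel_right] at k00 k01 k03 hd ⊢
    fin_cases d'
    · exact k00
    · exact k01
    · exact absurd rfl hd
    · exact k03
  · have e : ((a, b) + pvllnE 1 : ℤ × ℤ) = (a, b + 1) := by simp [pvllnE_one]
    simp only [Fin.mk_one, e, add_sub_cancel_right] at k11 k12 k10 hd ⊢
    fin_cases d'
    · exact k10
    · exact k11
    · exact k12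
    · exact absurd rfl hd
  · have e : ((a, b) + pvllnE 2 : ℤ × ℤ) = (a - 1, b) := by simp [pvllnE_two, sub_eq_add_neg]
    simp only [Fin.reduceFinMk, e, sub_add_cancel] at k22 k23 k21 hd ⊢
    fin_cases d'
    · exact absurd rfl hd
    · exact k21
    · exact k22
    · exact k23
  · have e : ((a, b) + pvllnE 3 : ℤ × ℤ) = (a, b - 1) := by simp [pvllnE_three, sub_eq_add_neg]
    simp only [Fin.reduceFinMk, e, sub_add_cancel] at k33 k30 k32 hd ⊢
    fin_cases d'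
    · exact k30
    · exact absurd rfl hd
    · exact k32
    · exact k33

/-- THE POTENTIAL: every walk inside the ring, self avoiding or not -/
theorem pvlln_walk {X : PvllnCo A} {M : ℤ} {ε : ℝ} (h : PvllnClosed X M ε) (l : List (Fin 4)) (z : ℤ × ℤ) (d : Fin 4)
    (hl : pvllnOk M z d l) :
    ‖pvllnSum X z d l - (pvllnPsi X M (pvllnEndZ z d l) (pvllnEndD d l) - pvllnPsi X M z d)‖ ≤ 3 * ε * l.length := by
  induction l generalizing z d with
  | nil => simp [pvllnSum, pvllnEndZ, pvllnEndD]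
  | cons d' l ih =>
    obtain ⟨hd, h1, h2, hl'⟩ := hl
    have i1 := ih (z + pvllnE d) d' hl'
    have i2 := pvlln_move h z d d' hd h1 h2
    simp only [pvllnSum, pvllnEndZ, pvllnEndD, List.length_cons, Nat.cast_add, Nat.cast_one]
    have e : X (z + pvllnE d) d d' + pvllnSum X (z + pvllnE d) d' l
        - (pvllnPsi X M (pvllnEndZ (z + pvllnE d) d' l) (pvllnEndD d' l) - pvllnPsi X M z d)
        = (X (z + pvllnE d) d d' - (pvllnPsi X M (z + pvllnE d) d' - pvllnPsi X M z d))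
          + (pvllnSum X (z + pvllnE d) d' l
            - (pvllnPsi X M (pvllnEndZ (z + pvllnE d) d' l) (pvllnEndD d' l) - pvllnPsi X M (z + pvllnE d) d')) := by abel
    rw [e]
    have := norm_add_le (X (z + pvllnE d) d d' - (pvllnPsi X M (z + pvllnE d) d' - pvllnPsi X M z d))
      (pvllnSum X (z + pvllnE d) d' l
            - (pvllnPsi X M (pvllnEndZ (z + pvllnE d) d' l) (pvllnEndD d' l) - pvllnPsi X M (z + pvllnE d) d'))
    nlinarith

/-- path independence -/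
theorem pvlln_walk_indep {X : PvllnCo A} {M : ℤ} {ε : ℝ} (h : PvllnClosed X M ε) (l l' : List (Fin 4)) (z : ℤ × ℤ) (d : Fin 4)
    (hl : pvllnOk M z d l) (hl' : pvllnOk M z d l') (hz : pvllnEndZ z d l = pvllnEndZ z d l') (hd : pvllnEndD d l = pvllnEndD d l') :
    ‖pvllnSum X z d l - pvllnSum X z d l'‖ ≤ 3 * ε * (l.length + l'.length) := by
  have i1 := pvlln_walk h l z d hl
  have i2 := pvlln_walk h l' z d hl'
  rw [← hz, ← hd] at i2
  have := norm_sub_le (pvllnSum X z d l - (pvllnPsi X M (pvllnEndZ z d l) (pvllnEndD d l) - pvllnPsi X M z d))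
    (pvllnSum X z d l' - (pvllnPsi X M (pvllnEndZ z d l) (pvllnEndD d l) - pvllnPsi X M z d))
  rw [sub_sub_sub_cancel_right] at this
  nlinarith

end walk

/-! ## 3. second moments under a dependency relation -/

section l2

variable {Ω : Type*} [MeasurableSpace Ω] {μ : Measure Ω}

theorem pvlln_int_sq {f : Ω → ℂ} (hf : MemLp f 2 μ) : Integrable (fun ω => ‖f ω‖ ^ 2) μ := by
  have : MemLp f ((2 : ℕ) : ℝ≥0∞) μ := by exact_mod_cast hf
  exact this.integrable_norm_pow (by norm_num)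

theorem pvlln_int_mul_conj {f g : Ω → ℂ} (hf : MemLp f 2 μ) (hg : MemLp g 2 μ) :
    Integrable (fun ω => f ω * conj (g ω)) μ := by
  have := hf.integrable_mul hg.star
  exact this

theorem pvlln_cross_le {f g : Ω → ℂ} (hf : MemLp f 2 μ) (hg : MemLp g 2 μ) :
    ‖∫ ω, f ω * conj (g ω) ∂μ‖ ≤ (∫ ω, ‖f ω‖ ^ 2 ∂μ + ∫ ω, ‖g ω‖ ^ 2 ∂μ) / 2 := by
  refine (norm_integral_le_integral_norm _).trans ?_
  rw [← integral_add (pvlln_int_sq hf) (pvlln_int_sq hg), ← integral_div]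
  refine integral_mono (pvlln_int_mul_conj hf hg).norm (((pvlln_int_sq hf).add (pvlln_int_sq hg)).div_const 2) ?_
  intro ω
  simp only [norm_mul, RCLike.norm_conj]
  nlinarith [sq_nonneg (‖f ω‖ - ‖g ω‖)]

open Classical in
/-- second moment of a sum: orthogonality outside a relation of degree `≤ D` -/
theorem pvlln_l2_sum_le {ι : Type*} (s : Finset ι) (Y : ι → Ω → ℂ) (hY : ∀ i ∈ s, MemLp (Y i) 2 μ) (σ : ℝ)
    (hσ : ∀ i ∈ s, ∫ ω, ‖Y i ω‖ ^ 2 ∂μ ≤ σ ^ 2) (R : ι → ι → Prop) (D : ℕ)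
    (hD : ∀ i ∈ s, (s.filter (R i)).card ≤ D)
    (horth : ∀ i ∈ s, ∀ j ∈ s, ¬ R i j → ∫ ω, Y i ω * conj (Y j ω) ∂μ = 0) :
    ∫ ω, ‖∑ i ∈ s, Y i ω‖ ^ 2 ∂μ ≤ D * σ ^ 2 * s.card := by
  have e1 : ∀ ω, ((‖∑ i ∈ s, Y i ω‖ ^ 2 : ℝ) : ℂ) = ∑ i ∈ s, ∑ j ∈ s, Y i ω * conj (Y j ω) := by
    intro ω
    rw [← Finset.sum_mul_sum, ← map_sum, Complex.mul_conj, Complex.normSq_eq_norm_sq]
  have e2 : ((∫ ω, ‖∑ i ∈ s, Y i ω‖ ^ 2 ∂μ : ℝ) : ℂ) = ∑ i ∈ s, ∑ j ∈ s, ∫ ω, Y i ω * conj (Y j ω) ∂μ := by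
    rw [← integral_complex_ofReal]
    simp_rw [e1]
    rw [integral_finsetSum _ (fun i hi => integrable_finsetSum _ (fun j hj => pvlln_int_mul_conj (hY i hi) (hY j hj)))]
    refine Finset.sum_congr rfl (fun i hi => ?_)
    rw [integral_finsetSum _ (fun j hj => pvlln_int_mul_conj (hY i hi) (hY j hj))]
  have e3 : ∫ ω, ‖∑ i ∈ s, Y i ω‖ ^ 2 ∂μ ≤ ‖∑ i ∈ s, ∑ j ∈ s, ∫ ω, Y i ω * conj (Y j ω) ∂μ‖ := by
    rw [← e2, Complex.norm_real]
    exact le_abs_self _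
  refine e3.trans ?_
  refine (norm_sum_le _ _).trans ?_
  have hs0 : 0 ≤ σ ^ 2 := sq_nonneg σ
  have e4 : ∀ i ∈ s, ‖∑ j ∈ s, ∫ ω, Y i ω * conj (Y j ω) ∂μ‖ ≤ D * σ ^ 2 := by
    intro i hi
    rw [← Finset.sum_filter_add_sum_filter_not s (R i)]
    have z : ∑ j ∈ s.filter (fun j => ¬ R i j), ∫ ω, Y i ω * conj (Y j ω) ∂μ = 0 :=
      Finset.sum_eq_zero (fun j hj => horth i hi j (Finset.mem_filter.1 hj).1 (Finset.mem_filter.1 hj).2)
    rw [z, add_zero]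
    refine (norm_sum_le _ _).trans ?_
    have : ∑ j ∈ s.filter (R i), ‖∫ ω, Y i ω * conj (Y j ω) ∂μ‖ ≤ ∑ j ∈ s.filter (R i), σ ^ 2 := by
      refine Finset.sum_le_sum (fun j hj => ?_)
      have hj' := (Finset.mem_filter.1 hj).1
      have := pvlln_cross_le (hY i hi) (hY j hj')
      have a := hσ i hi
      have b := hσ j hj'
      linarith
    refine this.trans ?_
    rw [Finset.sum_const, nsmul_eq_mul]
    exact mul_le_mul_of_nonneg_right (by exact_mod_cast hD i hi) hs0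
  refine (Finset.sum_le_sum e4).trans ?_
  rw [Finset.sum_const, nsmul_eq_mul]
  exact le_of_eq (by ring)

/-- independent centred variables are orthogonal -/
theorem pvlln_orth_of_indep [IsProbabilityMeasure μ] {f g : Ω → ℂ} (hf : MemLp f 2 μ) (hg : MemLp g 2 μ)
    (hfg : IndepFun f g μ) :
    ∫ ω, (f ω - ∫ ω', f ω' ∂μ) * conj (g ω - ∫ ω', g ω' ∂μ) ∂μ = 0 := by
  have h1 : IndepFun (fun ω => f ω - ∫ ω', f ω' ∂μ) (fun ω => conj (g ω - ∫ ω', g ω' ∂μ)) μ :=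
    hfg.comp (φ := fun t => t - ∫ ω', f ω' ∂μ) (ψ := fun t => conj (t - ∫ ω', g ω' ∂μ))
      (by fun_prop) (Complex.continuous_conj.measurable.comp (by fun_prop))
  have hfi : Integrable f μ := hf.integrable (by norm_num)
  rw [h1.integral_fun_mul_eq_mul_integral (hf.1.sub aestronglyMeasurable_const)
    (Complex.continuous_conj.comp_aestronglyMeasurable (hg.1.sub aestronglyMeasurable_const))]
  rw [integral_sub hfi (integrable_const _)]
  simp


theorem pvlln_l2_iff {h : Ω → ℂ} (hh : MemLp h 2 μ) {K : ℝ} (hK : 0 ≤ K) :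
    ∫ ω, ‖h ω‖ ^ 2 ∂μ ≤ K ^ 2 ↔ eLpNorm h 2 μ ≤ ENNReal.ofReal K := by
  rw [hh.eLpNorm_eq_integral_rpow_norm (by norm_num) (by norm_num), ENNReal.ofReal_le_ofReal_iff hK]
  have e : (∫ a, ‖h a‖ ^ (2 : ℝ≥0∞).toReal ∂μ) = ∫ ω, ‖h ω‖ ^ 2 ∂μ := by
    refine integral_congr_ae (ae_of_all _ (fun ω => ?_))
    simp
  rw [e]
  have e2 : ((2 : ℝ≥0∞).toReal)⁻¹ = 1 / 2 := by simp
  rw [e2, ← Real.sqrt_eq_rpow, Real.sqrt_le_iff]
  exact ⟨fun h => ⟨hK, h⟩, fun h => h.2⟩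

/-- L2 deviation from the mean `≤ K` -/
def PvllnDev (μ : Measure Ω) (f : Ω → ℂ) (K : ℝ) : Prop :=
  MemLp f 2 μ ∧ ∫ ω, ‖f ω - ∫ ω', f ω' ∂μ‖ ^ 2 ∂μ ≤ K ^ 2

theorem pvlln_dev_eqns_cite : True := by
  have := @PvllnDev.eq_1.{0}
  trivial

theorem pvlln_memLp_center [IsFiniteMeasure μ] {f : Ω → ℂ} (hf : MemLp f 2 μ) :
    MemLp (fun ω => f ω - ∫ ω', f ω' ∂μ) 2 μ := hf.sub (memLp_const _)

theorem PvllnDev.add [IsProbabilityMeasure μ] {f g : Ω → ℂ} {K L : ℝ} (hK : 0 ≤ K) (hL : 0 ≤ L)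
    (hf : PvllnDev μ f K) (hg : PvllnDev μ g L) : PvllnDev μ (f + g) (K + L) := by
  refine ⟨hf.1.add hg.1, ?_⟩
  have hfi : Integrable f μ := hf.1.integrable (by norm_num)
  have hgi : Integrable g μ := hg.1.integrable (by norm_num)
  have e : (fun ω => (f + g) ω - ∫ ω', (f + g) ω' ∂μ)
      = (fun ω => f ω - ∫ ω', f ω' ∂μ) + (fun ω => g ω - ∫ ω', g ω' ∂μ) := by
    funext ω
    simp only [Pi.add_apply]
    rw [integral_add hfi hgi]; ring
  have m1 := pvlln_memLp_center hf.1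
  have m2 := pvlln_memLp_center hg.1
  have := (pvlln_l2_iff (m1.add m2) (add_nonneg hK hL)).2 (by
    refine (eLpNorm_add_le m1.1 m2.1 (by norm_num)).trans ?_
    rw [ENNReal.ofReal_add hK hL]
    exact add_le_add ((pvlln_l2_iff m1 hK).1 hf.2) ((pvlln_l2_iff m2 hL).1 hg.2))
  rw [← e] at this
  exact this

theorem PvllnDev.neg {f : Ω → ℂ} {K : ℝ} (hf : PvllnDev μ f K) : PvllnDev μ (-f) K := by
  refine ⟨hf.1.neg, ?_⟩
  have e : ∀ ω, ‖(-f) ω - ∫ ω', (-f) ω' ∂μ‖ = ‖f ω - ∫ ω', f ω' ∂μ‖ := by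
    intro ω
    simp only [Pi.neg_apply]
    rw [integral_neg, ← neg_sub_neg, neg_neg, neg_neg, norm_sub_rev]
  simp_rw [e]
  exact hf.2

theorem PvllnDev.sub [IsProbabilityMeasure μ] {f g : Ω → ℂ} {K L : ℝ} (hK : 0 ≤ K) (hL : 0 ≤ L)
    (hf : PvllnDev μ f K) (hg : PvllnDev μ g L) : PvllnDev μ (f - g) (K + L) := by
  rw [sub_eq_add_neg]
  exact hf.add hK hL hg.neg

theorem PvllnDev.mono {f : Ω → ℂ} {K L : ℝ} (hK : 0 ≤ K) (hKL : K ≤ L) (hf : PvllnDev μ f K) : PvllnDev μ f L :=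
  ⟨hf.1, hf.2.trans (by gcongr)⟩

/-- Chebyshev -/
theorem PvllnDev.prob [IsProbabilityMeasure μ] {f : Ω → ℂ} {K t : ℝ} (ht : 0 < t) (hf : PvllnDev μ f K) :
    μ.real {ω | t ≤ ‖f ω - ∫ ω', f ω' ∂μ‖} ≤ K ^ 2 / t ^ 2 := by
  have h1 := mul_meas_ge_le_integral_of_nonneg (μ := μ) (f := fun ω => ‖f ω - ∫ ω', f ω' ∂μ‖ ^ 2)
    (ae_of_all _ (fun ω => by positivity)) (pvlln_int_sq (pvlln_memLp_center hf.1)) (t ^ 2)
  have e : {ω | t ^ 2 ≤ ‖f ω - ∫ ω', f ω' ∂μ‖ ^ 2} = {ω | t ≤ ‖f ω - ∫ ω', f ω' ∂μ‖} := by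
    ext ω
    simp only [Set.mem_setOf_eq]
    exact pow_le_pow_iff_left₀ ht.le (norm_nonneg _) (by norm_num)
  rw [e] at h1
  rw [le_div_iff₀ (by positivity)]
  have := hf.2
  linarith

end l2

/-! ## 4. the law of large numbers -/

section nat

variable {A B : Type*} [AddCommGroup A] [AddCommGroup B] (φ : A →+ B) (X : PvllnCo A)

theorem pvlln_H_map (d : Fin 4) (y a b : ℤ) : φ (pvllnH X d y a b) = pvllnH (fun z d d' => φ (X z d d')) d y a b := by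
  simp only [pvllnH, map_sum]

theorem pvlln_V_map (d : Fin 4) (x a b : ℤ) : φ (pvllnV X d x a b) = pvllnV (fun z d d' => φ (X z d d')) d x a b := by
  simp only [pvllnV, map_sum]

theorem pvlln_rect_map (x1 x2 y1 y2 : ℤ) :
    φ (pvllnRect X x1 x2 y1 y2) = pvllnRect (fun z d d' => φ (X z d d')) x1 x2 y1 y2 := by
  simp only [pvllnRect, map_add, pvlln_H_map, pvlln_V_map]

theorem pvlln_hex0_map (M x y : ℤ) : φ (pvllnHex0 X M x y) = pvllnHex0 (fun z d d' => φ (X z d d')) M x y := by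
  simp only [pvllnHex0, map_add, pvlln_H_map, pvlln_V_map]

theorem pvlln_hex1_map (M x y : ℤ) : φ (pvllnHex1 X M x y) = pvllnHex1 (fun z d d' => φ (X z d d')) M x y := by
  simp only [pvllnHex1, map_add, pvlln_H_map, pvlln_V_map]

theorem pvlln_hex2_map (M x y : ℤ) : φ (pvllnHex2 X M x y) = pvllnHex2 (fun z d d' => φ (X z d d')) M x y := by
  simp only [pvllnHex2, map_add, pvlln_H_map, pvlln_V_map]

theorem pvlln_hex3_map (M x y : ℤ) : φ (pvllnHex3 X M x y) = pvllnHex3 (fun z d d' => φ (X z d d')) M x y := by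
  simp only [pvllnHex3, map_add, pvlln_H_map, pvlln_V_map]

theorem pvlln_psi_map (M : ℤ) (z : ℤ × ℤ) (d : Fin 4) :
    φ (pvllnPsi X M z d) = pvllnPsi (fun z d d' => φ (X z d d')) M z d := by
  fin_cases d
  · simp only [Fin.zero_eta, pvllnPsi_zero, map_add, pvlln_H_map, pvlln_V_map]
  · simp only [Fin.mk_one, pvllnPsi_one, map_add, pvlln_H_map, pvlln_V_map]
  · simp only [Fin.reduceFinMk, pvllnPsi_two, map_add, pvlln_H_map, pvlln_V_map]
  · simp only [Fin.reduceFinMk, pvllnPsi_three, map_add, pvlln_H_map, pvlln_V_map]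

theorem pvlln_sum_map (l : List (Fin 4)) (z : ℤ × ℤ) (d : Fin 4) :
    φ (pvllnSum X z d l) = pvllnSum (fun z d d' => φ (X z d d')) z d l := by
  induction l generalizing z d with
  | nil => simp [pvllnSum]
  | cons d' l ih => simp only [pvllnSum, map_add, ih]

end nat

section lln

variable {Ω : Type*} [MeasurableSpace Ω] {μ : Measure Ω}

/-- L2 cell increments, centred second moment `≤ σ²`, PAIRWISE independent beyond sup distance `m` -/
structure PvllnField (μ : Measure Ω) (X : PvllnCo (Ω → ℂ)) (m : ℕ) (σ : ℝ) : Prop where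
  memLp : ∀ z d d', MemLp (X z d d') 2 μ
  var : ∀ z d d', ∫ ω, ‖X z d d' ω - ∫ ω', X z d d' ω' ∂μ‖ ^ 2 ∂μ ≤ σ ^ 2
  indep : ∀ (z w : ℤ × ℤ) d d' e e', ((m : ℤ) < |z.1 - w.1| ∨ (m : ℤ) < |z.2 - w.2|) →
    IndepFun (X z d d') (X w e e') μ

/-- the mean field -/
def pvllnMean (μ : Measure Ω) (X : PvllnCo (Ω → ℂ)) : PvllnCo ℂ := fun z d d' => ∫ ω, X z d d' ω ∂μ

theorem pvlln_mean_eqns_cite : True := by
  have := @pvllnMean.eq_1.{0}
  trivial

open Classical in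
theorem pvlln_card_near {ι : Type*} (s : Finset ι) (c : ι → ℤ × ℤ) (hc : Set.InjOn c s) (m : ℕ) (i : ι) :
    (s.filter (fun j => |(c i).1 - (c j).1| ≤ (m : ℤ) ∧ |(c i).2 - (c j).2| ≤ (m : ℤ))).card ≤ (2 * m + 1) ^ 2 := by
  have h1 : (s.filter (fun j => |(c i).1 - (c j).1| ≤ (m : ℤ) ∧ |(c i).2 - (c j).2| ≤ (m : ℤ))).card
      ≤ (Finset.Icc ((c i).1 - m) ((c i).1 + m) ×ˢ Finset.Icc ((c i).2 - m) ((c i).2 + m)).card := by
    refine Finset.card_le_card_of_injOn c ?_ ?_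
    · intro j hj
      have hj' := (Finset.mem_filter.1 hj).2
      simp only [Finset.coe_product, Finset.coe_Icc, Set.mem_prod, Set.mem_Icc]
      have a := abs_le.1 hj'.1
      have b := abs_le.1 hj'.2
      omega
    · intro j hj k hk hjk
      exact hc (Finset.mem_filter.1 hj).1 (Finset.mem_filter.1 hk).1 hjk
  refine h1.trans (le_of_eq ?_)
  rw [Finset.card_product, Int.card_Icc, Int.card_Icc]
  have e1 : ((c i).1 + m + 1 - ((c i).1 - m)).toNat = 2 * m + 1 := by omega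
  have e2 : ((c i).2 + m + 1 - ((c i).2 - m)).toNat = 2 * m + 1 := by omega
  rw [e1, e2]; ring

/-- LLN for any family of DISTINCT cells (any self avoiding corridor) -/
theorem pvlln_lln_cells [IsProbabilityMeasure μ] {X : PvllnCo (Ω → ℂ)} {m : ℕ} {σ : ℝ} (hσ : 0 ≤ σ) (hX : PvllnField μ X m σ)
    {ι : Type*} (s : Finset ι) (c : ι → ℤ × ℤ) (hc : Set.InjOn c s) (a b : ι → Fin 4) :
    PvllnDev μ (∑ i ∈ s, X (c i) (a i) (b i)) ((2 * m + 1) * σ * √s.card) := by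
  classical
  refine ⟨memLp_finsetSum' s (fun i _ => hX.memLp _ _ _), ?_⟩
  have e : ∀ ω, (∑ i ∈ s, X (c i) (a i) (b i)) ω - ∫ ω', (∑ i ∈ s, X (c i) (a i) (b i)) ω' ∂μ
      = ∑ i ∈ s, (X (c i) (a i) (b i) ω - ∫ ω', X (c i) (a i) (b i) ω' ∂μ) := by
    intro ω
    simp only [Finset.sum_apply]
    rw [integral_finsetSum _ (fun i _ => (hX.memLp _ _ _).integrable (by norm_num)), Finset.sum_sub_distrib]
  simp_rw [e]
  have := pvlln_l2_sum_le (μ := μ) s (fun i ω => X (c i) (a i) (b i) ω - ∫ ω', X (c i) (a i) (b i) ω' ∂μ)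
    (fun i _ => pvlln_memLp_center (hX.memLp _ _ _)) σ (fun i _ => hX.var _ _ _)
    (fun i j => |(c i).1 - (c j).1| ≤ (m : ℤ) ∧ |(c i).2 - (c j).2| ≤ (m : ℤ)) ((2 * m + 1) ^ 2)
    (fun i _ => by convert pvlln_card_near s c hc m i)
    (fun i _ j _ hij => pvlln_orth_of_indep (hX.memLp _ _ _) (hX.memLp _ _ _)
      (hX.indep _ _ _ _ _ _ (by
        by_contra hcon
        push Not at hcon
        exact hij hcon)))
  refine this.trans (le_of_eq ?_)
  rw [mul_pow, mul_pow, Real.sq_sqrt (Nat.cast_nonneg _)]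
  push_cast; ring

theorem pvlln_B_nonneg (m : ℕ) {σ : ℝ} (hσ : 0 ≤ σ) (t : ℝ) : 0 ≤ (2 * m + 1) * σ * √t := by positivity

theorem pvlln_lln_H [IsProbabilityMeasure μ] {X : PvllnCo (Ω → ℂ)} {m : ℕ} {σ : ℝ} (hσ : 0 ≤ σ) (hX : PvllnField μ X m σ)
    (d : Fin 4) (y a b M : ℤ) (hM : 0 ≤ M) (ha : -M ≤ a) (hb : b ≤ M) :
    PvllnDev μ (pvllnH X d y a b) ((2 * m + 1) * σ * √(2 * M)) := by
  have := pvlln_lln_cells hσ hX (Finset.Ioo a b) (fun x => (x, y)) (fun x _ x' _ h => (Prod.mk.inj h).1)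
    (fun _ => d) (fun _ => d)
  refine PvllnDev.mono (pvlln_B_nonneg m hσ _) ?_ this
  refine mul_le_mul_of_nonneg_left (Real.sqrt_le_sqrt ?_) (by positivity)
  rw [Int.card_Ioo]
  have : ((b - a - 1).toNat : ℤ) ≤ 2 * M := by omega
  exact_mod_cast this

theorem pvlln_lln_V [IsProbabilityMeasure μ] {X : PvllnCo (Ω → ℂ)} {m : ℕ} {σ : ℝ} (hσ : 0 ≤ σ) (hX : PvllnField μ X m σ)
    (d : Fin 4) (x a b M : ℤ) (hM : 0 ≤ M) (ha : -M ≤ a) (hb : b ≤ M) :
    PvllnDev μ (pvllnV X d x a b) ((2 * m + 1) * σ * √(2 * M)) := by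
  have := pvlln_lln_cells hσ hX (Finset.Ioo a b) (fun y => (x, y)) (fun x _ x' _ h => (Prod.mk.inj h).2)
    (fun _ => d) (fun _ => d)
  refine PvllnDev.mono (pvlln_B_nonneg m hσ _) ?_ this
  refine mul_le_mul_of_nonneg_left (Real.sqrt_le_sqrt ?_) (by positivity)
  rw [Int.card_Ioo]
  have : ((b - a - 1).toNat : ℤ) ≤ 2 * M := by omega
  exact_mod_cast this

theorem pvlln_lln_one {X : PvllnCo (Ω → ℂ)} {m : ℕ} {σ : ℝ} (hσ : 0 ≤ σ) (hX : PvllnField μ X m σ)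
    (z : ℤ × ℤ) (d d' : Fin 4) (M : ℤ) (hM : 1 ≤ M) :
    PvllnDev μ (X z d d') ((2 * m + 1) * σ * √(2 * M)) := by
  refine PvllnDev.mono hσ ?_ ⟨hX.memLp z d d', hX.var z d d'⟩
  have h1 : (1 : ℝ) ≤ √(2 * M) := by
    rw [Real.one_le_sqrt]
    have : (1 : ℝ) ≤ M := by exact_mod_cast hM
    linarith
  have h2 : (1 : ℝ) ≤ 2 * m + 1 := by
    have : (0 : ℝ) ≤ m := Nat.cast_nonneg m
    linarith
  calc σ = 1 * σ * 1 := by ring
    _ ≤ (2 * m + 1) * σ * √(2 * M) := by gcongr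

theorem PvllnDev.add_one [IsProbabilityMeasure μ] {f g : Ω → ℂ} {k B : ℝ} (hk : 0 ≤ k) (hB : 0 ≤ B)
    (hf : PvllnDev μ f (k * B)) (hg : PvllnDev μ g B) : PvllnDev μ (f + g) ((k + 1) * B) := by
  have := hf.add (mul_nonneg hk hB) hB hg
  rwa [show k * B + B = (k + 1) * B by ring] at this

/-- the potential of a state inside the ring deviates from its mean by `O((2m+1) σ √M)` in L2 -/
theorem pvlln_lln_psi [IsProbabilityMeasure μ] {X : PvllnCo (Ω → ℂ)} {m : ℕ} {σ : ℝ} (hσ : 0 ≤ σ) (hX : PvllnField μ X m σ)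
    (M : ℤ) (hM : 1 ≤ M) (z : ℤ × ℤ) (d : Fin 4) (h1 : |z.1| < M) (h2 : |z.2| < M) :
    PvllnDev μ (pvllnPsi X M z d) (10 * ((2 * m + 1) * σ * √(2 * M))) := by
  obtain ⟨hx1, hx2⟩ := abs_lt.1 h1
  obtain ⟨hy1, hy2⟩ := abs_lt.1 h2
  have hB := pvlln_B_nonneg m hσ (2 * (M : ℝ))
  set B := (2 * m + 1) * σ * √(2 * (M : ℝ)) with hBdef
  have o : ∀ z d d', PvllnDev μ (X z d d') B := fun z d d' => pvlln_lln_one hσ hX z d d' M hM
  have o1 : ∀ z d d', PvllnDev μ (X z d d') (1 * B) := fun z d d' => by rw [one_mul]; exact o z d d'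
  have H : ∀ d y a b, -M ≤ a → b ≤ M → PvllnDev μ (pvllnH X d y a b) B :=
    fun d y a b ha hb => pvlln_lln_H hσ hX d y a b M (by omega) ha hb
  have V : ∀ d y a b, -M ≤ a → b ≤ M → PvllnDev μ (pvllnV X d y a b) B :=
    fun d y a b ha hb => pvlln_lln_V hσ hX d y a b M (by omega) ha hb
  fin_cases d
  · simp only [Fin.zero_eta, pvllnPsi_zero]
    have := (((o1 (-M, M) 2 3).add_one (by norm_num) hB (V 3 (-M) z.2 M hy1.le le_rfl)).add_one (by norm_num) hB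
      (o (-M, z.2) 3 0)).add_one (by norm_num) hB (H 0 z.2 (-M) (z.1 + 1) le_rfl (by omega))
    exact this.mono (by positivity) (by nlinarith)
  · simp only [Fin.mk_one, pvllnPsi_one]
    have := (((((o1 (-M, M) 2 3).add_one (by norm_num) hB (V 3 (-M) (-M) M le_rfl le_rfl)).add_one (by norm_num) hB
      (o (-M, -M) 3 0)).add_one (by norm_num) hB (H 0 (-M) (-M) z.1 le_rfl hx2.le)).add_one (by norm_num) hB
      (o (z.1, -M) 0 1)).add_one (by norm_num) hB (V 1 z.1 (-M) (z.2 + 1) le_rfl (by omega))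
    exact this.mono (by positivity) (by nlinarith)
  · simp only [Fin.reduceFinMk, pvllnPsi_two]
    have := (((((((o1 (-M, M) 2 3).add_one (by norm_num) hB (V 3 (-M) (-M) M le_rfl le_rfl)).add_one (by norm_num) hB
      (o (-M, -M) 3 0)).add_one (by norm_num) hB (H 0 (-M) (-M) M le_rfl le_rfl)).add_one (by norm_num) hB
      (o (M, -M) 0 1)).add_one (by norm_num) hB (V 1 M (-M) z.2 le_rfl hy2.le)).add_one (by norm_num) hB
      (o (M, z.2) 1 2)).add_one (by norm_num) hB (H 2 z.2 (z.1 - 1) M (by omega) le_rfl)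
    exact this.mono (by positivity) (by nlinarith)
  · simp only [Fin.reduceFinMk, pvllnPsi_three]
    have := (((((((((o1 (-M, M) 2 3).add_one (by norm_num) hB (V 3 (-M) (-M) M le_rfl le_rfl)).add_one (by norm_num) hB
      (o (-M, -M) 3 0)).add_one (by norm_num) hB (H 0 (-M) (-M) M le_rfl le_rfl)).add_one (by norm_num) hB
      (o (M, -M) 0 1)).add_one (by norm_num) hB (V 1 M (-M) M le_rfl le_rfl)).add_one (by norm_num) hB
      (o (M, M) 1 2)).add_one (by norm_num) hB (H 2 M z.1 M hx1.le le_rfl)).add_one (by norm_num) hB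
      (o (z.1, M) 2 3)).add_one (by norm_num) hB (V 3 z.1 (z.2 - 1) M (by omega) le_rfl)
    exact this.mono (by positivity) (by nlinarith)

/-- integrable with integral `c` -/
def PvllnInt (μ : Measure Ω) (f : Ω → ℂ) (c : ℂ) : Prop := Integrable f μ ∧ ∫ ω, f ω ∂μ = c

theorem pvlln_int_eqns_cite : True := by
  have := @PvllnInt.eq_1.{0}
  trivial

theorem PvllnInt.add {f g : Ω → ℂ} {c e : ℂ} (hf : PvllnInt μ f c) (hg : PvllnInt μ g e) : PvllnInt μ (f + g) (c + e) :=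
  ⟨hf.1.add hg.1, by rw [← hf.2, ← hg.2, ← integral_add hf.1 hg.1]; rfl⟩

theorem PvllnInt.sum {ι : Type*} (s : Finset ι) {f : ι → Ω → ℂ} {c : ι → ℂ} (h : ∀ i ∈ s, PvllnInt μ (f i) (c i)) :
    PvllnInt μ (∑ i ∈ s, f i) (∑ i ∈ s, c i) := by
  refine ⟨integrable_finsetSum' s (fun i hi => (h i hi).1), ?_⟩
  simp only [Finset.sum_apply]
  rw [integral_finsetSum s (fun i hi => (h i hi).1)]
  exact Finset.sum_congr rfl (fun i hi => (h i hi).2)

theorem pvlln_int_one [IsFiniteMeasure μ] {X : PvllnCo (Ω → ℂ)} (hX : ∀ z d d', MemLp (X z d d') 2 μ) (z : ℤ × ℤ) (d d' : Fin 4) :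
    PvllnInt μ (X z d d') (pvllnMean μ X z d d') := ⟨(hX z d d').integrable (by norm_num), rfl⟩

theorem pvlln_int_H [IsFiniteMeasure μ] {X : PvllnCo (Ω → ℂ)} (hX : ∀ z d d', MemLp (X z d d') 2 μ) (d : Fin 4) (y a b : ℤ) :
    PvllnInt μ (pvllnH X d y a b) (pvllnH (pvllnMean μ X) d y a b) := PvllnInt.sum _ (fun _ _ => pvlln_int_one hX _ _ _)

theorem pvlln_int_V [IsFiniteMeasure μ] {X : PvllnCo (Ω → ℂ)} (hX : ∀ z d d', MemLp (X z d d') 2 μ) (d : Fin 4) (x a b : ℤ) :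
    PvllnInt μ (pvllnV X d x a b) (pvllnV (pvllnMean μ X) d x a b) := PvllnInt.sum _ (fun _ _ => pvlln_int_one hX _ _ _)

theorem pvlln_int_rect [IsFiniteMeasure μ] {X : PvllnCo (Ω → ℂ)} (hX : ∀ z d d', MemLp (X z d d') 2 μ) (x1 x2 y1 y2 : ℤ) :
    PvllnInt μ (pvllnRect X x1 x2 y1 y2) (pvllnRect (pvllnMean μ X) x1 x2 y1 y2) :=
  (((((((pvlln_int_one hX _ _ _).add (pvlln_int_H hX _ _ _ _)).add (pvlln_int_one hX _ _ _)).add (pvlln_int_V hX _ _ _ _)).add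
    (pvlln_int_one hX _ _ _)).add (pvlln_int_H hX _ _ _ _)).add (pvlln_int_one hX _ _ _)).add (pvlln_int_V hX _ _ _ _)

theorem pvlln_int_hex0 [IsFiniteMeasure μ] {X : PvllnCo (Ω → ℂ)} (hX : ∀ z d d', MemLp (X z d d') 2 μ) (M x y : ℤ) :
    PvllnInt μ (pvllnHex0 X M x y) (pvllnHex0 (pvllnMean μ X) M x y) :=
  (((((((((((pvlln_int_one hX _ _ _).add (pvlln_int_H hX _ _ _ _)).add (pvlln_int_one hX _ _ _)).add (pvlln_int_V hX _ _ _ _)).add
    (pvlln_int_one hX _ _ _)).add (pvlln_int_H hX _ _ _ _)).add (pvlln_int_one hX _ _ _)).add (pvlln_int_V hX _ _ _ _)).add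
    (pvlln_int_one hX _ _ _)).add (pvlln_int_H hX _ _ _ _)).add (pvlln_int_one hX _ _ _)).add (pvlln_int_V hX _ _ _ _)

theorem pvlln_int_hex1 [IsFiniteMeasure μ] {X : PvllnCo (Ω → ℂ)} (hX : ∀ z d d', MemLp (X z d d') 2 μ) (M x y : ℤ) :
    PvllnInt μ (pvllnHex1 X M x y) (pvllnHex1 (pvllnMean μ X) M x y) :=
  (((((((((((pvlln_int_one hX _ _ _).add (pvlln_int_V hX _ _ _ _)).add (pvlln_int_one hX _ _ _)).add (pvlln_int_H hX _ _ _ _)).add
    (pvlln_int_one hX _ _ _)).add (pvlln_int_V hX _ _ _ _)).add (pvlln_int_one hX _ _ _)).add (pvlln_int_H hX _ _ _ _)).add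
    (pvlln_int_one hX _ _ _)).add (pvlln_int_V hX _ _ _ _)).add (pvlln_int_one hX _ _ _)).add (pvlln_int_H hX _ _ _ _)

theorem pvlln_int_hex2 [IsFiniteMeasure μ] {X : PvllnCo (Ω → ℂ)} (hX : ∀ z d d', MemLp (X z d d') 2 μ) (M x y : ℤ) :
    PvllnInt μ (pvllnHex2 X M x y) (pvllnHex2 (pvllnMean μ X) M x y) :=
  (((((((((((pvlln_int_one hX _ _ _).add (pvlln_int_H hX _ _ _ _)).add (pvlln_int_one hX _ _ _)).add (pvlln_int_V hX _ _ _ _)).add
    (pvlln_int_one hX _ _ _)).add (pvlln_int_H hX _ _ _ _)).add (pvlln_int_one hX _ _ _)).add (pvlln_int_V hX _ _ _ _)).add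
    (pvlln_int_one hX _ _ _)).add (pvlln_int_H hX _ _ _ _)).add (pvlln_int_one hX _ _ _)).add (pvlln_int_V hX _ _ _ _)

theorem pvlln_int_hex3 [IsFiniteMeasure μ] {X : PvllnCo (Ω → ℂ)} (hX : ∀ z d d', MemLp (X z d d') 2 μ) (M x y : ℤ) :
    PvllnInt μ (pvllnHex3 X M x y) (pvllnHex3 (pvllnMean μ X) M x y) :=
  (((((((((((pvlln_int_one hX _ _ _).add (pvlln_int_V hX _ _ _ _)).add (pvlln_int_one hX _ _ _)).add (pvlln_int_H hX _ _ _ _)).add
    (pvlln_int_one hX _ _ _)).add (pvlln_int_V hX _ _ _ _)).add (pvlln_int_one hX _ _ _)).add (pvlln_int_H hX _ _ _ _)).add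
    (pvlln_int_one hX _ _ _)).add (pvlln_int_V hX _ _ _ _)).add (pvlln_int_one hX _ _ _)).add (pvlln_int_H hX _ _ _ _)

theorem pvlln_int_psi [IsFiniteMeasure μ] {X : PvllnCo (Ω → ℂ)} (hX : ∀ z d d', MemLp (X z d d') 2 μ)
    (M : ℤ) (z : ℤ × ℤ) (d : Fin 4) : PvllnInt μ (pvllnPsi X M z d) (pvllnPsi (pvllnMean μ X) M z d) := by
  fin_cases d
  · exact (((pvlln_int_one hX _ _ _).add (pvlln_int_V hX _ _ _ _)).add (pvlln_int_one hX _ _ _)).add (pvlln_int_H hX _ _ _ _)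
  · exact (((((pvlln_int_one hX _ _ _).add (pvlln_int_V hX _ _ _ _)).add (pvlln_int_one hX _ _ _)).add (pvlln_int_H hX _ _ _ _)).add
      (pvlln_int_one hX _ _ _)).add (pvlln_int_V hX _ _ _ _)
  · exact (((((((pvlln_int_one hX _ _ _).add (pvlln_int_V hX _ _ _ _)).add (pvlln_int_one hX _ _ _)).add (pvlln_int_H hX _ _ _ _)).add
      (pvlln_int_one hX _ _ _)).add (pvlln_int_V hX _ _ _ _)).add (pvlln_int_one hX _ _ _)).add (pvlln_int_H hX _ _ _ _)
  · exact (((((((((pvlln_int_one hX _ _ _).add (pvlln_int_V hX _ _ _ _)).add (pvlln_int_one hX _ _ _)).add (pvlln_int_H hX _ _ _ _)).add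
      (pvlln_int_one hX _ _ _)).add (pvlln_int_V hX _ _ _ _)).add (pvlln_int_one hX _ _ _)).add (pvlln_int_H hX _ _ _ _)).add
      (pvlln_int_one hX _ _ _)).add (pvlln_int_V hX _ _ _ _)

/-- the mean of the potential is the potential of the mean field -/
theorem pvlln_psi_mean [IsProbabilityMeasure μ] {X : PvllnCo (Ω → ℂ)} {m : ℕ} {σ : ℝ} (hX : PvllnField μ X m σ)
    (M : ℤ) (z : ℤ × ℤ) (d : Fin 4) :
    ∫ ω, pvllnPsi X M z d ω ∂μ = pvllnPsi (pvllnMean μ X) M z d := (pvlln_int_psi hX.memLp M z d).2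

/-- evaluation at one environment -/
theorem pvlln_psi_apply (X : PvllnCo (Ω → ℂ)) (M : ℤ) (z : ℤ × ℤ) (d : Fin 4) (ω : Ω) :
    pvllnPsi X M z d ω = pvllnPsi (fun z d d' => X z d d' ω) M z d :=
  pvlln_psi_map (Pi.evalAddMonoidHom (fun _ : Ω => ℂ) ω) X M z d

theorem pvlln_sum_apply (X : PvllnCo (Ω → ℂ)) (l : List (Fin 4)) (z : ℤ × ℤ) (d : Fin 4) (ω : Ω) :
    pvllnSum X z d l ω = pvllnSum (fun z d d' => X z d d' ω) z d l :=
  pvlln_sum_map (Pi.evalAddMonoidHom (fun _ : Ω => ℂ) ω) X l z d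

theorem pvlln_rect_apply (X : PvllnCo (Ω → ℂ)) (x1 x2 y1 y2 : ℤ) (ω : Ω) :
    pvllnRect X x1 x2 y1 y2 ω = pvllnRect (fun z d d' => X z d d' ω) x1 x2 y1 y2 :=
  pvlln_rect_map (Pi.evalAddMonoidHom (fun _ : Ω => ℂ) ω) X x1 x2 y1 y2

theorem pvlln_hex0_apply (X : PvllnCo (Ω → ℂ)) (M x y : ℤ) (ω : Ω) :
    pvllnHex0 X M x y ω = pvllnHex0 (fun z d d' => X z d d' ω) M x y :=
  pvlln_hex0_map (Pi.evalAddMonoidHom (fun _ : Ω => ℂ) ω) X M x y

theorem pvlln_hex1_apply (X : PvllnCo (Ω → ℂ)) (M x y : ℤ) (ω : Ω) :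
    pvllnHex1 X M x y ω = pvllnHex1 (fun z d d' => X z d d' ω) M x y :=
  pvlln_hex1_map (Pi.evalAddMonoidHom (fun _ : Ω => ℂ) ω) X M x y

theorem pvlln_hex2_apply (X : PvllnCo (Ω → ℂ)) (M x y : ℤ) (ω : Ω) :
    pvllnHex2 X M x y ω = pvllnHex2 (fun z d d' => X z d d' ω) M x y :=
  pvlln_hex2_map (Pi.evalAddMonoidHom (fun _ : Ω => ℂ) ω) X M x y

theorem pvlln_hex3_apply (X : PvllnCo (Ω → ℂ)) (M x y : ℤ) (ω : Ω) :
    pvllnHex3 X M x y ω = pvllnHex3 (fun z d d' => X z d d' ω) M x y :=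
  pvlln_hex3_map (Pi.evalAddMonoidHom (fun _ : Ω => ℂ) ω) X M x y

end lln

/-! ## 5. main statement of the post -/

section main

variable {Ω : Type*} [MeasurableSpace Ω] {μ : Measure Ω}

/-- MAIN (T5).  There is a random error `Err u v` (one for each pair of states: NOT for each walk), small in L2 by the LLN, such that in every
environment `ω` whose increments are closed up to `ε` on the anchored rectangles and hexagons, EVERY walk from `u` to `v` inside the ring has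
`sum = (mean potential of v) - (mean potential of u) + Err u v ω + O(3 N ε)`. -/
theorem pvlln_main [IsProbabilityMeasure μ] {X : PvllnCo (Ω → ℂ)} {m : ℕ} {σ : ℝ} (hσ : 0 ≤ σ) (hX : PvllnField μ X m σ)
    (M : ℤ) (hM : 1 ≤ M) :
    ∃ Err : ℤ × ℤ → Fin 4 → ℤ × ℤ → Fin 4 → Ω → ℂ,
      (∀ z d w e, |z.1| < M → |z.2| < M → |w.1| < M → |w.2| < M →
        MemLp (Err z d w e) 2 μ ∧ ∫ ω, ‖Err z d w e ω‖ ^ 2 ∂μ ≤ (20 * ((2 * m + 1) * σ * √(2 * M))) ^ 2) ∧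
      ∀ (ω : Ω) (ε : ℝ), PvllnClosed (fun z d d' => X z d d' ω) M ε →
        ∀ (l : List (Fin 4)) (z : ℤ × ℤ) (d : Fin 4), pvllnOk M z d l →
          ‖pvllnSum X z d l ω - (pvllnPsi (pvllnMean μ X) M (pvllnEndZ z d l) (pvllnEndD d l) - pvllnPsi (pvllnMean μ X) M z d)
              - Err z d (pvllnEndZ z d l) (pvllnEndD d l) ω‖ ≤ 3 * ε * l.length := by
  refine ⟨fun z d w e ω => (pvllnPsi X M w e - pvllnPsi X M z d) ω - ∫ ω', (pvllnPsi X M w e - pvllnPsi X M z d) ω' ∂μ, ?_, ?_⟩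
  · intro z d w e h1 h2 h3 h4
    have hB := pvlln_B_nonneg m hσ (2 * (M : ℝ))
    have := (pvlln_lln_psi hσ hX M hM w e h3 h4).sub (by positivity) (by positivity) (pvlln_lln_psi hσ hX M hM z d h1 h2)
    refine ⟨pvlln_memLp_center this.1, this.2.trans (le_of_eq ?_)⟩
    ring
  · intro ω ε hc l z d hl
    have := pvlln_walk hc l z d hl
    have e1 : ∫ ω', (pvllnPsi X M (pvllnEndZ z d l) (pvllnEndD d l) - pvllnPsi X M z d) ω' ∂μ
        = pvllnPsi (pvllnMean μ X) M (pvllnEndZ z d l) (pvllnEndD d l) - pvllnPsi (pvllnMean μ X) M z d := by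
      simp only [Pi.sub_apply]
      rw [integral_sub (pvlln_int_psi hX.memLp M _ _).1 (pvlln_int_psi hX.memLp M _ _).1, pvlln_psi_mean hX, pvlln_psi_mean hX]
    beta_reduce
    rw [e1]
    simp only [Pi.sub_apply, pvlln_psi_apply, pvlln_sum_apply]
    refine le_trans (le_of_eq ?_) this
    congr 1; ring

end main

end

end Claimed.Agent.R289
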