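-- KEEP
import Claimed.Agent.R289.Tr.LocalW
import Claimed.Agent.R289.Tr.GoodLev

/-!
# Row 289 (S0537, Cardy for Poisson-Voronoi), THE WALL, item TR24 + LOCALITY, file Tr/LocalC : THE LEVELS OF E15 ARE CARRIED OVER      (owner helper22; prefix `pvlwc_`)

CONSUMER: `Tr/PinC` of 12 ("DI on the completion"): E15 (`pvzw_e15_net` of 112 / 42) wants a GENUINE rim with a finite wall, so it is applied on a completion `𝔅.T Y`; the flags (FLAG1 in counts form: `pvflm_state` of 276, `pvfam_flag1` of 235; mesh) are produced at the PLANE `pvxT ω`.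
Everything here is model free over a POSITIONED local isomorphism `L : PvLocP T T' R pos pos' Kr` (`Tr/LocalW`) and SYMMETRIC (`L.symm`, `G.symm`).

* sec. 1  face boxes: `pvlwc_box_iff`;  strands: `pvlwc_it` (a strand is shared up to AND INCLUDING its first exit from a face box placed in `Kr`), `pvlwc_hit` (same first exit time), `pvlwc_exit`
* sec. 2  **`pvlwc_family`** : the family `pvzcSt 𝔊 pos z s r` (gate data + the two stubs explored to the first exits of the box) of twin gates are TWIN STATES;  `pvlwc_level` (= the same for `pvzcLv`)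
* sec. 3  counts: `pvlwc_cnt_it`, **`pvlwc_cnt`** (the number `hcnt` of `pvzw_e15_net` is the same on both sides)
* sec. 4  `pvlwc_mesh` (`PvzcMesh`),  `pvlwc_not` (exchanged colourings)
-/

set_option autoImplicit false

namespace Claimed.Agent.R289

open Set

variable {V D V' D' : Type} {T : PvMap V D} {T' : PvMap V' D'} {R : D → D' → Prop} {pos : V → ℂ} {pos' : V' → ℂ} {Kr : Set ℂ} {s : V → Bool} {s' : V' → Bool}

/-! ## 1. Face boxes, first exits -/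

theorem pvlwc_not (hs : ∀ d d', R d d' → s (T.src d) = s' (T'.src d')) : ∀ d d', R d d' → pvasNot s (T.src d) = pvasNot s' (T'.src d') := fun d d' h => by
  unfold pvasNot
  rw [hs d d' h]

theorem pvlwc_box_iff (L : PvLocP T T' R pos pos' Kr) (z : ℂ) (r : ℝ) {d : D} {d' : D'} (h : R d d') : d ∈ pvlvBox T pos z r ↔ d' ∈ pvlvBox T' pos' z r := by
  rw [pvzc_box_iff, pvzc_box_iff, L.pos_eq _ _ h, show pos (T.tgt d) = pos' (T'.tgt d') from L.pos_eq _ _ (L.loc.iso.nxt h),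
    show pos (T.apex d) = pos' (T'.apex d') from L.pos_eq _ _ (L.loc.iso.nxt (L.loc.iso.nxt h))]

/-- the next position of a strand in a face box placed in `Kr` is shared -/
theorem pvlwc_step_mem (L : PvLocP T T' R pos pos' Kr) {z : ℂ} {r : ℝ} (hB : pvwSq z r ⊆ Kr) {a : D} (ha : a ∈ pvlvBox T pos z r) : pvasStep T s a ∈ plDom R := by
  obtain ⟨-, h2, h3⟩ := pvzc_box_iff.1 ha
  unfold pvasStep
  split_ifs
  · exact pvloc_opp_mem L.loc (Or.inl (L.full _ (hB h2)).1)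
  · exact pvloc_opp_mem L.loc (Or.inl (L.full _ (hB h3)).1)

/-- **a strand is shared up to and INCLUDING its first exit from a face box placed in `Kr`** -/
theorem pvlwc_it (L : PvLocP T T' R pos pos' Kr) (hs : ∀ d d', R d d' → s (T.src d) = s' (T'.src d')) {z : ℂ} {r : ℝ} (hB : pvwSq z r ⊆ Kr) {a : D} {a' : D'} (h : R a a') {n : ℕ}
    (hin : ∀ i, i < n → pvasIt T s a i ∈ pvlvBox T pos z r) : ∀ i, i ≤ n → R (pvasIt T s a i) (pvasIt T' s' a' i) := by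
  refine pvloc_it L.loc hs h fun j hj => ?_
  rcases Nat.eq_zero_or_pos j with rfl | hj0
  · exact ⟨a', h⟩
  · obtain ⟨i, rfl⟩ : ∃ i, j = i + 1 := ⟨j - 1, by omega⟩
    rw [pvas_it_succ]
    exact pvlwc_step_mem L hB (hin i (by omega))

/-- **the first exit time of a face box placed in `Kr` is the same on both sides** -/
theorem pvlwc_hit (L : PvLocP T T' R pos pos' Kr) (hs : ∀ d d', R d d' → s (T.src d) = s' (T'.src d')) {z : ℂ} {r : ℝ} (hB : pvwSq z r ⊆ Kr) {a : D} {a' : D'} (h : R a a')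
    (hex : ∃ t, pvasIt T s a t ∉ pvlvBox T pos z r) :
    pvasHit T' s' a' (pvlvBox T' pos' z r)ᶜ = pvasHit T s a (pvlvBox T pos z r)ᶜ ∧ ∀ i, i ≤ pvasHit T s a (pvlvBox T pos z r)ᶜ → R (pvasIt T s a i) (pvasIt T' s' a' i) := by
  have hex' : ∃ t, pvasIt T s a t ∈ (pvlvBox T pos z r)ᶜ := hex
  have hin : ∀ i, i < pvasHit T s a (pvlvBox T pos z r)ᶜ → pvasIt T s a i ∈ pvlvBox T pos z r := fun i hi => not_not.1 (pvas_hit_min hi)
  have hit := pvlwc_it L hs hB h hin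
  refine ⟨pvas_hit_eq (fun hc => pvas_hit_mem hex' ((pvlwc_box_iff L z r (hit _ le_rfl)).2 hc)) fun i hi => not_not.2 ((pvlwc_box_iff L z r (hit i hi.le)).1 (hin i hi)), hit⟩

theorem pvlwc_exit (L : PvLocP T T' R pos pos' Kr) (hs : ∀ d d', R d d' → s (T.src d) = s' (T'.src d')) {z : ℂ} {r : ℝ} (hB : pvwSq z r ⊆ Kr) {a : D} {a' : D'} (h : R a a')
    (hex : ∃ t, pvasIt T s a t ∉ pvlvBox T pos z r) : ∃ t, pvasIt T' s' a' t ∉ pvlvBox T' pos' z r := by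
  have hex' : ∃ t, pvasIt T s a t ∈ (pvlvBox T pos z r)ᶜ := hex
  exact ⟨_, fun hc => pvas_hit_mem hex' ((pvlwc_box_iff L z r ((pvlwc_hit L hs hB h hex).2 _ le_rfl)).2 hc)⟩

/-! ## 2. The family of the levels -/

/-- **THE FAMILY OF E15 IS CARRIED OVER**: twin gates, box in `Kr`, the ends of the entry gate edge in the box, the two strands leave the box -/
theorem pvlwc_family (L : PvLocP T T' R pos pos' Kr) (hs : ∀ d d', R d d' → s (T.src d) = s' (T'.src d')) {𝔊 : PvwSt T} {𝔊' : PvwSt T'} (G : PvLocGt R 𝔊 𝔊') {z : ℂ} {r : ℝ} (hB : pvwSq z r ⊆ Kr)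
    (h0 : pos (T.src 𝔊.dm) ∈ pvwSq z r ∧ pos (T.tgt 𝔊.dm) ∈ pvwSq z r) (hp : ∃ t, pvasIt T s 𝔊.dp t ∉ pvlvBox T pos z r) (hm : ∃ t, pvasIt T (pvasNot s) (T.opp 𝔊.dm) t ∉ pvlvBox T pos z r) :
    PvLocSt R (pvzcSt 𝔊 pos z s r) (pvzcSt 𝔊' pos' z s' r) := by
  obtain ⟨p1, p2⟩ := pvlwc_hit L hs hB G.dp hp
  have hopp : R (T.opp 𝔊.dm) (T'.opp 𝔊'.dm) := pvlw_opp L G.dm (Or.inl (hB h0.1))
  obtain ⟨m1, m2⟩ := pvlwc_hit L (pvlwc_not hs) hB hopp hm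
  have hst := pvzc_stubM (s := s) h0 hm
  refine ⟨⟨G.dsc, G.S, G.dp, G.dm, G.inn, G.ip⟩, p1, p2, m1, fun i hi => ?_⟩
  show R ((pvasBack T s)^[i] 𝔊.dm) ((pvasBack T' s')^[i] 𝔊'.dm)
  rw [pvwk_back_it, pvwk_back_it]
  refine pvlw_opp L (m2 i hi) (Or.inl ?_)
  have h1 : pos (T.tgt ((pvasBack T s)^[i] 𝔊.dm)) ∈ pvwSq z r := (hst.em_in i hi).2
  rw [pvwk_back_it, T.tgt_opp] at h1
  exact hB h1

/-- the member of level `k` -/
theorem pvlwc_level (L : PvLocP T T' R pos pos' Kr) (hs : ∀ d d', R d d' → s (T.src d) = s' (T'.src d')) {𝔊 : PvwSt T} {𝔊' : PvwSt T'} (G : PvLocGt R 𝔊 𝔊') {N : PvwNum} {h : ℝ} {z : ℂ} {τ : PvwTy} {k : ℕ}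
    (hB : pvwSq z (pvwRad N h τ k) ⊆ Kr) (h0 : pos (T.src 𝔊.dm) ∈ pvwSq z (pvwRad N h τ k) ∧ pos (T.tgt 𝔊.dm) ∈ pvwSq z (pvwRad N h τ k))
    (hp : ∃ t, pvasIt T s 𝔊.dp t ∉ pvlvBox T pos z (pvwRad N h τ k)) (hm : ∃ t, pvasIt T (pvasNot s) (T.opp 𝔊.dm) t ∉ pvlvBox T pos z (pvwRad N h τ k)) :
    PvLocSt R (pvzcLv 𝔊 pos N h z τ s k) (pvzcLv 𝔊' pos' N h z τ s' k) := pvlwc_family L hs G hB h0 hp hm

/-! ## 3. Counts -/

theorem pvlwc_cnt_it (L : PvLocP T T' R pos pos' Kr) {a : D} {a' : D'} {n : ℕ} (hit : ∀ i, i ≤ n → R (pvasIt T s a i) (pvasIt T' s' a' i)) (α : ℝ) :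
    pvlvCnt (pvlvZ T' pos' s' a') α n = pvlvCnt (pvlvZ T pos s a) α n :=
  pvfa_cnt_congr fun t ht => (L.pos_eq _ _ (hit t ht)).symm

/-- **THE COUNTS OF FLAG1 ARE CARRIED OVER**: the number `hcnt` of `pvzw_e15_net` / `pvzc_e15_net` -/
theorem pvlwc_cnt (L : PvLocP T T' R pos pos' Kr) (hs : ∀ d d', R d d' → s (T.src d) = s' (T'.src d')) {𝔊 : PvwSt T} {𝔊' : PvwSt T'} (G : PvLocGt R 𝔊 𝔊') {z : ℂ} {r : ℝ} (hB : pvwSq z r ⊆ Kr)
    (h0 : pos (T.src 𝔊.dm) ∈ pvwSq z r) (hp : ∃ t, pvasIt T s 𝔊.dp t ∉ pvlvBox T pos z r) (hm : ∃ t, pvasIt T (pvasNot s) (T.opp 𝔊.dm) t ∉ pvlvBox T pos z r) (α : ℝ) :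
    pvlvCnt (pvlvZ T' pos' s' 𝔊'.dp) α (pvzcSt 𝔊' pos' z s' r).np = pvlvCnt (pvlvZ T pos s 𝔊.dp) α (pvzcSt 𝔊 pos z s r).np ∧
      pvlvCnt (pvlvZ T' pos' (pvasNot s') (T'.opp 𝔊'.dm)) α (pvzcSt 𝔊' pos' z s' r).nm = pvlvCnt (pvlvZ T pos (pvasNot s) (T.opp 𝔊.dm)) α (pvzcSt 𝔊 pos z s r).nm := by
  obtain ⟨p1, p2⟩ := pvlwc_hit L hs hB G.dp hp
  have hopp : R (T.opp 𝔊.dm) (T'.opp 𝔊'.dm) := pvlw_opp L G.dm (Or.inl (hB h0))
  obtain ⟨m1, m2⟩ := pvlwc_hit L (pvlwc_not hs) hB hopp hm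
  constructor
  · show pvlvCnt _ α (pvasHit T' s' 𝔊'.dp (pvlvBox T' pos' z r)ᶜ) = pvlvCnt _ α (pvasHit T s 𝔊.dp (pvlvBox T pos z r)ᶜ)
    rw [p1]
    exact pvlwc_cnt_it L p2 α
  · show pvlvCnt _ α (pvasHit T' (pvasNot s') (T'.opp 𝔊'.dm) (pvlvBox T' pos' z r)ᶜ) = pvlvCnt _ α (pvasHit T (pvasNot s) (T.opp 𝔊.dm) (pvlvBox T pos z r)ᶜ)
    rw [m1]
    exact pvlwc_cnt_it L m2 α

/-! ## 4. Mesh -/

theorem pvlwc_mesh (L : PvLocP T T' R pos pos' Kr) {z : ℂ} {r δ : ℝ} (hB : pvwSq z r ⊆ Kr) (h : PvzcMesh T pos z r δ) : PvzcMesh T' pos' z r δ := by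
  intro d' hd'
  obtain ⟨d, hd⟩ := pvlw_dart_src L.symm (hB hd')
  have hd2 : R d d' := hd
  rw [← L.pos_eq _ _ hd2, ← show pos (T.tgt d) = pos' (T'.tgt d') from L.pos_eq _ _ (L.loc.iso.nxt hd2)]
  refine h d ?_
  rw [L.pos_eq _ _ hd2]
  exact hd'

end Claimed.Agent.R289
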