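-- KEEP
import Claimed.Agent.R289.Tr.LocalX
import Claimed.Agent.R289.Defs.Three

/-!
# Row 289 (S0537, Cardy for Poisson-Voronoi), THE WALL, item TR24 + LOCALITY, file Tr/LocalX3 : THREE PASSAGES ARE LOCAL      (owner helper22, request of helper211; prefix `pvlx_`)

`PvxvThree T pos σ y s S` (143, `Defs/Three.lean`) is carried along a positioned local isomorphism as soon as the OPEN ball `B(y,S)` lies in the patch and `s < S`:
every piece is cut at its LAST far position; that position is still shared (the apex of its face is the next black end, which lies in the ball).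
* `pvlx_last`, **`pvlx_three`** (model free, symmetric: `L.symm`)
* **`pvlx_three_bulk`**, `pvlx_three_bulk'`: ANY completion of the sample against the plane of record, both directions
-/

set_option autoImplicit false

namespace Claimed.Agent.R289

open Set Claims.C0465

section three

variable {V D V' D' : Type} {T : PvMap V D} {T' : PvMap V' D'} {R : D → D' → Prop} {pos : V → ℂ} {pos' : V' → ℂ} {Kr : Set ℂ}

/-- the last far time -/
theorem pvlx_last {f : ℕ → ℝ} {s S : ℝ} (hsS : s < S) {n : ℕ} (h0 : S ≤ f 0) (h1 : f n ≤ s) : ∃ k, k < n ∧ S ≤ f k ∧ ∀ l, k < l → l ≤ n → f l < S := by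
  classical
  refine ⟨Nat.findGreatest (fun k => S ≤ f k) n, ?_, Nat.findGreatest_spec (P := fun k => S ≤ f k) (Nat.zero_le n) h0, fun l h2 h3 => not_le.1 (Nat.findGreatest_is_greatest h2 h3)⟩
  refine lt_of_le_of_ne (Nat.findGreatest_le n) fun e => ?_
  have := Nat.findGreatest_spec (P := fun k => S ≤ f k) (Nat.zero_le n) h0
  rw [e] at this
  exact absurd (this.trans h1) (not_le.2 hsS)

/-- **THREE PASSAGES ARE LOCAL**: cut every piece at its last far position; what is left has its black ends in the ball `B(y,S)`, which lies in the patch -/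
theorem pvlx_three (L : PvLocP T T' R pos pos' Kr) {σ : V → Bool} {σ' : V' → Bool} (hs : ∀ d d', R d d' → σ (T.src d) = σ' (T'.src d')) {y : ℂ} {s S : ℝ} (hsS : s < S)
    (hK : Metric.ball y S ⊆ Kr) (h : PvxvThree T pos σ y s S) : PvxvThree T' pos' σ' y s S := by
  obtain ⟨d, n, h1, h2⟩ := h
  have hcut : ∀ i, ∃ k, k < n i ∧ S ≤ ‖pos (T.src (pvasIt T σ (d i) k)) - y‖ ∧ ∀ l, k < l → l ≤ n i → ‖pos (T.src (pvasIt T σ (d i) l)) - y‖ < S := fun i =>
    pvlx_last (f := fun k => ‖pos (T.src (pvasIt T σ (d i) k)) - y‖) hsS (h1 i).2.1 (h1 i).2.2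
  choose k hk1 hk2 hk3 using hcut
  have hin : ∀ i l, k i < l → l ≤ n i → pos (T.src (pvasIt T σ (d i) l)) ∈ Kr := fun i l a b => hK (mem_ball_iff_norm.2 (hk3 i l a b))
  -- the new starting positions are shared
  have hdom0 : ∀ i, pvasIt T σ (d i) (k i) ∈ plDom R := by
    intro i
    have hnext := hin i (k i + 1) (Nat.lt_succ_self _) (hk1 i)
    have hlt := hk3 i (k i + 1) (Nat.lt_succ_self _) (hk1 i)
    rw [pvas_it_succ] at hnext hlt
    rcases pvas_step_ends σ (pvasIt T σ (d i) (k i)) with ⟨-, e, -⟩ | ⟨-, e, -⟩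
    · rw [e] at hnext
      exact pvlw_dart_apex L hnext
    · rw [e] at hlt
      exact absurd (hk2 i) (not_le.2 hlt)
  choose e he using hdom0
  have hit : ∀ i j, j ≤ n i - k i → R (pvasIt T σ (d i) (k i + j)) (pvasIt T' σ' (e i) j) := by
    intro i
    have := pvloc_it L.loc hs (he i) (n := n i - k i) (fun j hj => by
      rw [← pvas_it_add]
      rcases Nat.eq_zero_or_pos j with rfl | hj0
      · exact ⟨_, he i⟩
      · exact pvlw_dart_src L (hin i (k i + j) (by omega) (by have := hk1 i; omega)))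
    intro j hj
    rw [pvas_it_add]
    exact this j hj
  refine ⟨e, fun i => n i - k i, fun i => ⟨?_, ?_, ?_⟩, fun i j hij a ha b hb heq => ?_⟩
  · exact (pvloc_bw L.loc hs (he i)).1 (pvas_it_bw (h1 i).1 _)
  · rw [← L.pos_eq _ _ (he i)]
    exact hk2 i
  · have := hit i (n i - k i) le_rfl
    rw [← L.pos_eq _ _ this, show k i + (n i - k i) = n i by have := hk1 i; omega]
    exact (h1 i).2.2
  · have ha : a ≤ n i - k i := ha
    have hb : b ≤ n j - k j := hb
    have e1 := hit i a ha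
    have e2 := hit j b hb
    rw [heq] at e1
    exact h2 i j hij (k i + a) (by have := hk1 i; omega) (k j + b) (by have := hk1 j; omega) (L.loc.iso.inj e1 e2)

end three

section inst3

variable {X : Type} {𝔅 : PvBulk X} {x : ℂ} {R : ℝ} {ω : PVSample}

/-- the colour dictionary of `PvlxB` for the colouring in which `b` is called `true` -/
theorem pvlx_col_fl {Rl : 𝔅.D (pvxY ω) → (delbPl (pvxY ω)).Dart → Prop} {K : Set ℂ} {zi : ℂ} (hB : PvlxB 𝔅 (pvxY ω) K zi (delbPl (pvxY ω)) Rl) (ξ : X → Bool) (b : Bool) :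
    ∀ d d', Rl d d' → pvlfFl b (𝔅.col (pvConf ω) ξ) ((𝔅.T (pvxY ω)).src d) = pvxCol ω b ((pvxT ω).src d') := fun d d' hd => by
  unfold pvlfFl pvxCol
  rw [hB.col _ _ (delb_col 𝔅 (pvConf ω) ξ) d d' hd]
  rfl

/-- **three passages in a completion, inside the ball of agreement, are three passages in the plane of record** -/
theorem pvlx_three_bulk (hR : 0 < R) (hG : DelGood (pvxY ω)) (hOk : 𝔅.Ok (pvxY ω) (Metric.closedBall x (6 * R))) (ξ : X → Bool) (b : Bool) {y : ℂ} {s S : ℝ} (hsS : s < S)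
    (hK : Metric.ball y S ⊆ Metric.closedBall x (6 * R)) (h : PvxvThree (𝔅.T (pvxY ω)) (𝔅.posF (pvxY ω) (x + 7 * R)) (pvlfFl b (𝔅.col (pvConf ω) ξ)) y s S) :
    PvxvThree (pvxT ω) (pvxPos ω) (pvxCol ω b) y s S := by
  obtain ⟨Rl, hB⟩ := pvlx_bulk (𝔅 := 𝔅) hG hOk (pvlx_zi hR)
  exact pvlx_three (T' := pvxT ω) (pos' := pvxPos ω) hB.loc (pvlx_col_fl hB ξ b) hsS hK h

/-- .. and conversely -/
theorem pvlx_three_bulk' (hR : 0 < R) (hG : DelGood (pvxY ω)) (hOk : 𝔅.Ok (pvxY ω) (Metric.closedBall x (6 * R))) (ξ : X → Bool) (b : Bool) {y : ℂ} {s S : ℝ} (hsS : s < S)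
    (hK : Metric.ball y S ⊆ Metric.closedBall x (6 * R)) (h : PvxvThree (pvxT ω) (pvxPos ω) (pvxCol ω b) y s S) :
    PvxvThree (𝔅.T (pvxY ω)) (𝔅.posF (pvxY ω) (x + 7 * R)) (pvlfFl b (𝔅.col (pvConf ω) ξ)) y s S := by
  obtain ⟨Rl, hB⟩ := pvlx_bulk (𝔅 := 𝔅) hG hOk (pvlx_zi hR)
  exact pvlx_three (T := pvxT ω) (pos := pvxPos ω) hB.loc.symm (fun d' d hd => (pvlx_col_fl hB ξ b d d' hd).symm) hsS hK h

end inst3

end Claimed.Agent.R289
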