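import Claimed.Agent.R289.Tr.PinLocB
import Claimed.Agent.R289.Tr.InstE
import Claimed.Agent.R289.Tr.RetNat
import Claimed.Agent.R289.S1P.Fin

/-!
# Row 289 (S0537), THE WALL, ROAD E, file Tr/MeasE : MEASURABILITY OF THE ANALYTIC DATA OF ROAD E (`mw mY mw0` of `PvdmSys.Hyp / HypY`)      (helper289 with helper247; post of 24; prefix `pvxs_`, `pvxs`, `Pvxs`)

WHY A NEW PRINCIPLE.   The states of `Tr/Defs` compare positions with the RANDOM tips (`‖pos v - xp‖ < ρ₂ h`, `xp` = midpoint of the tip edge; orientation bit; tips in cells): tests on 2 and 3 vertices.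
So neither the naturality principle of 220 (`Tr/RetNat`: labels of ONE point) nor `pvpl_main` of 238 (`Tr/PinLoc`: countably many marks of ONE vertex) applies to `pvieU`, `PvieLk.A`, `PvieLk.X` (231).
THE PRINCIPLE (sec. 1-4, definition independent).   `Φ` = a predicate on POSITIONED coloured maps `(T, pos, s)`.   Two hypotheses, both deterministic:
* (L) `PvxsLoc Φ K` = `Φ.Local K` for POSITION marks (`κ = ℂ`), asked for SIMPLE SPHERES only = invariance under the positioned local isomorphisms: what `Tr/Local`, `Tr/LocalW` (22) prove (`PvplIso.toLoc` of 238); one implication is enough (`pvxs_loc_of_imp`);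
* (C) CONGRUENCE: `Φ (T, pos, s) ↔ Φ (T, pos', s)` as soon as `τ (pos ∘ u) = τ (pos' ∘ u)` for all `k`-tuples `u` of vertices; `τ : (Fin k → ℂ) → κ` = ONE Borel test with countably many values = the bundle of all the position tests
  of the definition.      PURE REWRITING (`exists_congr`, `forall_congr'`): the SAME witnesses work for `pos` and `pos'`.
CONCLUSION: a MEASURABLE event, read from the window `E ×ˢ univ`, which is `Φ (plane model of η)` for every `η` in `PvxsGood ρ E` (`DelGood`, finitely many points in `E`, mesh `ρ` in `E`, one colour per site); ANY `ρ > 0` with `K ⊆ pvtrCore (3ρ) E`.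
The same for sums over MARKED DARTS: `η ↦ ∑_{d : Φ d} F (pos src d, pos tgt d, pos apex d)`, `F` Borel (`pvwMass`, `PvieLk.X`).
PROOF.   Extended type of the window = (type of 238 for the mark `· ∈ K`) + (truth table of `τ` on the tuples of points of the window and the junk point `zi ∉ E`): countably many types, Borel fibres.   Two good configurations of one type:
`(T, pos) ~ (T, tr ∘ pos)` [L; `tr` = truncation to `E`] `~ (T', pull)` [L; `pull` = the positions of `η` carried to `T'`] `~ (T', tr ∘ pos')` [C] `~ (T', pos')` [L].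
NO EXACT MEASURABILITY ON ALL OF `Conf`: the events of `Tr/InstE` carry no mesh clause.   THE USE: mesh is MONOTONE in the sites: if the sites of `ω` OFF the resampled region are `ρ`-dense in `E`, EVERY experiment `R ω p` is in the mesh event (sec. 5).

* sec. 0  `PvxsGood`, `pvxsTr`, `PvxsSame`, `PvxsEv` (events), `PvxsPred`, `PvxsMk` (marked darts)
* sec. 1  kit of `PvplIso`: colours, truncation, carried positions
* sec. 2  extended types: `pvxsTy`, Borel fibres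
* sec. 3  two good configurations of one type
* sec. 4  EXITS: **`pvxs_event`**, **`pvxs_sum`**
* sec. 5  **THE [MEAS] DOOR** (after R18 (3)): `pvxs_good_ae`, **`pvxs_null_event`**, **`pvxs_ae_sum`**: (L) + (C) at a bounded `K` ⟹ `NullMeasurableSet` / `AEMeasurable` of the GLOBAL objects under `pvP ε`
-/

set_option autoImplicit false
set_option linter.unusedSectionVars false

namespace Claimed.Agent.R289

open MeasureTheory Set Metric Claims.C0465

/-! ## 0. definitions -/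

/-- **the good configurations of the window `E`** -/
structure PvxsGood (ρ : ℝ) (E : Set ℂ) (η : Conf PvPt) : Prop where
  del : DelGood (cfSites η)
  fin : (η.pts ∩ E ×ˢ (univ : Set Bool)).Finite
  mesh : PvtrMesh ρ E (cfSites η)
  one : ∀ p ∈ η.pts, ∀ p' ∈ η.pts, p.1 = p'.1 → p = p'

open Classical in
/-- truncation of the positions to the window: everything outside goes to the junk point -/
noncomputable def pvxsTr (E : Set ℂ) (zi : ℂ) (p : ℂ) : ℂ := if p ∈ E then p else zi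

/-- the two position functions pass the same tests -/
def PvxsSame {κ : Type} {k : ℕ} (τ : (Fin k → ℂ) → κ) {V : Type} (pos pos' : V → ℂ) : Prop :=
  ∀ u : Fin k → V, τ (fun j => pos (u j)) = τ (fun j => pos' (u j))

/-- **(L) for an event**: invariance under the positioned local isomorphisms of SIMPLE SPHERES (`Φ.Local K` of 238 implies it: `pvxs_loc_of_local`) -/
def PvxsLoc (Φ : PvplPred ℂ) (K : Set ℂ) : Prop :=
  ∀ (V D V' D' : Type) (T : PvMap V D) (mk : V → ℂ) (s : V → Bool) (T' : PvMap V' D') (mk' : V' → ℂ) (s' : V' → Bool) (R : V → V' → Prop),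
    T.Simple → T'.Simple → T.IsSph → T'.IsSph → PvplIso T mk s T' mk' s' K R → (Φ V D T mk s ↔ Φ V' D' T' mk' s')

/-- **(C) for an event**: on ONE simple sphere, two position functions which pass the same tests give the same answer -/
def PvxsCong {κ : Type} {k : ℕ} (Φ : PvplPred ℂ) (τ : (Fin k → ℂ) → κ) : Prop :=
  ∀ (V D : Type) (T : PvMap V D) (s : V → Bool) (pos pos' : V → ℂ), T.Simple → T.IsSph → PvxsSame τ pos pos' → (Φ V D T pos s ↔ Φ V D T pos' s)

/-- **(L) + (C) for an event** -/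
structure PvxsEv {κ : Type} {k : ℕ} (Φ : PvplPred ℂ) (K : Set ℂ) (τ : (Fin k → ℂ) → κ) : Prop where
  loc : PvxsLoc Φ K
  cong : PvxsCong Φ τ

/-- predicates on positioned coloured maps with a MARKED DART -/
def PvxsPred : Type 1 := ∀ V D : Type, PvMap V D → (V → ℂ) → (V → Bool) → D → Prop

/-- **(L) for a predicate with a marked dart** -/
def PvxsLocD (Φ : PvxsPred) (K : Set ℂ) : Prop :=
  ∀ (V D V' D' : Type) (T : PvMap V D) (mk : V → ℂ) (s : V → Bool) (T' : PvMap V' D') (mk' : V' → ℂ) (s' : V' → Bool) (R : V → V' → Prop),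
    T.Simple → T'.Simple → T.IsSph → T'.IsSph → PvplIso T mk s T' mk' s' K R → ∀ d d', PvplRD T T' R d d' → (Φ V D T mk s d ↔ Φ V' D' T' mk' s' d')

/-- **(C) for a predicate with a marked dart** -/
def PvxsCongD {κ : Type} {k : ℕ} (Φ : PvxsPred) (τ : (Fin k → ℂ) → κ) : Prop :=
  ∀ (V D : Type) (T : PvMap V D) (s : V → Bool) (pos pos' : V → ℂ) (d : D), T.Simple → T.IsSph → PvxsSame τ pos pos' → (Φ V D T pos s d ↔ Φ V D T pos' s d)

/-- **(L) + (C) + support for a predicate with a marked dart** -/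
structure PvxsMk {κ : Type} {k : ℕ} (Φ : PvxsPred) (K : Set ℂ) (τ : (Fin k → ℂ) → κ) : Prop where
  loc : PvxsLocD Φ K
  cong : PvxsCongD Φ τ
  supp : ∀ (V D : Type) (T : PvMap V D) (s : V → Bool) (pos : V → ℂ) (d : D), Φ V D T pos s d → pos (T.src d) ∈ K

/-- **the bundle of finitely many Borel tests** `A j ⊆ (Fin k → ℂ)`: the test of record for (C) -/
def pvxsTau {k m : ℕ} (A : Fin m → Set (Fin k → ℂ)) (x : Fin k → ℂ) : Fin m → Prop := fun j => x ∈ A j

theorem pvxs_me_cite : True := by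
  have := @pvxsTr.eq_1; have := @PvxsSame.eq_1; have := @PvxsPred.eq_1; have := @PvxsLoc.eq_1; have := @PvxsCong.eq_1; have := @PvxsLocD.eq_1; have := @PvxsCongD.eq_1; have := @pvxsTau.eq_1
  trivial

theorem pvxs_loc_of_local {Φ : PvplPred ℂ} {K : Set ℂ} (h : Φ.Local K) : PvxsLoc Φ K := fun V D V' D' T mk s T' mk' s' R S S' _ _ i => h V D V' D' T mk s T' mk' s' R S S' i

theorem PvxsSame.symm {κ : Type} {k : ℕ} {τ : (Fin k → ℂ) → κ} {V : Type} {pos pos' : V → ℂ} (h : PvxsSame τ pos pos') : PvxsSame τ pos' pos := fun u => (h u).symm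

/-- the bundle is Borel -/
theorem pvxs_measurable_tau {k m : ℕ} {A : Fin m → Set (Fin k → ℂ)} (hA : ∀ j, MeasurableSet (A j)) : Measurable (pvxsTau A) :=
  measurable_pi_lambda _ fun j => measurable_mem.2 (hA j)

/-- what `PvxsSame` says for a bundle -/
theorem pvxs_same_tau {k m : ℕ} {A : Fin m → Set (Fin k → ℂ)} {V : Type} {pos pos' : V → ℂ} :
    PvxsSame (pvxsTau A) pos pos' ↔ ∀ (j : Fin m) (u : Fin k → V), ((fun i => pos (u i)) ∈ A j ↔ (fun i => pos' (u i)) ∈ A j) :=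
  ⟨fun h j u => iff_of_eq (congrFun (h u) j), fun h u => funext fun j => propext (h j u)⟩

/-- ONE IMPLICATION IS ENOUGH for (L): the inverse correspondence is a local isomorphism too -/
theorem pvxs_iso_symm {κ : Type} {V D V' D' : Type} {T : PvMap V D} {mk : V → κ} {s : V → Bool} {T' : PvMap V' D'} {mk' : V' → κ} {s' : V' → Bool} {K : Set κ} {R : V → V' → Prop}
    (h : PvplIso T mk s T' mk' s' K R) : PvplIso T' mk' s' T mk s K (fun u' u => R u u') where
  mark := fun u' u r => (h.mark u u' r).symm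
  col := fun u' u r => (h.col u u' r).symm
  fn := fun u' u v r r' => h.inj u v u' r r'
  inj := fun u' v' u r r' => h.fn u u' v' r r'
  ex := fun d' hd' => h.ex' d' hd'
  ex' := fun d hd => h.ex d hd

theorem pvxs_loc_of_imp {Φ : PvplPred ℂ} {K : Set ℂ}
    (h : ∀ (V D V' D' : Type) (T : PvMap V D) (mk : V → ℂ) (s : V → Bool) (T' : PvMap V' D') (mk' : V' → ℂ) (s' : V' → Bool) (R : V → V' → Prop),
      T.Simple → T'.Simple → T.IsSph → T'.IsSph → PvplIso T mk s T' mk' s' K R → Φ V D T mk s → Φ V' D' T' mk' s') : PvxsLoc Φ K :=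
  fun V D V' D' T mk s T' mk' s' R S S' H H' i => ⟨h V D V' D' T mk s T' mk' s' R S S' H H' i, h V' D' V D T' mk' s' T mk s _ S' S H' H (pvxs_iso_symm i)⟩

theorem pvxs_cong_of_imp {κ : Type} {k : ℕ} {Φ : PvplPred ℂ} {τ : (Fin k → ℂ) → κ}
    (h : ∀ (V D : Type) (T : PvMap V D) (s : V → Bool) (pos pos' : V → ℂ), T.Simple → T.IsSph → PvxsSame τ pos pos' → Φ V D T pos s → Φ V D T pos' s) : PvxsCong Φ τ :=
  fun V D T s pos pos' S H e => ⟨h V D T s pos pos' S H e, h V D T s pos' pos S H e.symm⟩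

theorem pvxs_locD_of_imp {Φ : PvxsPred} {K : Set ℂ}
    (h : ∀ (V D V' D' : Type) (T : PvMap V D) (mk : V → ℂ) (s : V → Bool) (T' : PvMap V' D') (mk' : V' → ℂ) (s' : V' → Bool) (R : V → V' → Prop),
      T.Simple → T'.Simple → T.IsSph → T'.IsSph → PvplIso T mk s T' mk' s' K R → ∀ d d', PvplRD T T' R d d' → Φ V D T mk s d → Φ V' D' T' mk' s' d') : PvxsLocD Φ K :=
  fun V D V' D' T mk s T' mk' s' R S S' H H' i d d' r => ⟨h V D V' D' T mk s T' mk' s' R S S' H H' i d d' r, h V' D' V D T' mk' s' T mk s _ S' S H' H (pvxs_iso_symm i) d' d r⟩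

theorem pvxs_congD_of_imp {κ : Type} {k : ℕ} {Φ : PvxsPred} {τ : (Fin k → ℂ) → κ}
    (h : ∀ (V D : Type) (T : PvMap V D) (s : V → Bool) (pos pos' : V → ℂ) (d : D), T.Simple → T.IsSph → PvxsSame τ pos pos' → Φ V D T pos s d → Φ V D T pos' s d) : PvxsCongD Φ τ :=
  fun V D T s pos pos' d S H e => ⟨h V D T s pos pos' d S H e, h V D T s pos' pos d S H e.symm⟩

/-! ## 1. kit of `PvplIso` -/

section kit

variable {κ : Type} {V D V' D' : Type} {T : PvMap V D} {mk : V → κ} {s : V → Bool} {T' : PvMap V' D'} {mk' : V' → κ} {s' : V' → Bool} {K : Set κ} {R : V → V' → Prop}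

/-- the colours may be renamed -/
theorem PvplIso.mapCol (h : PvplIso T mk s T' mk' s' K R) (g : Bool → Bool) : PvplIso T mk (fun v => g (s v)) T' mk' (fun v => g (s' v)) K R :=
  ⟨h.mark, fun u u' r => congrArg g (h.col u u' r), h.fn, h.inj, h.ex, h.ex'⟩

/-- the correspondence may be rewritten -/
theorem PvplIso.congrR (h : PvplIso T mk s T' mk' s' K R) {R' : V → V' → Prop} (e : ∀ u u', R' u u' ↔ R u u') : PvplIso T mk s T' mk' s' K R' := by
  have : R' = R := funext fun u => funext fun u' => propext (e u u')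
  rw [this]; exact h

/-- **TRUNCATION**: the positions outside the window do not matter, as soon as the stars of the vertices placed in `K` lie in the window -/
theorem pvxs_iso_tr (T : PvMap V D) (pos : V → ℂ) (s : V → Bool) {K E : Set ℂ} {zi : ℂ} (hKE : K ⊆ E) (hzi : zi ∉ K)
    (hst : ∀ d, pos (T.src d) ∈ K → pos (T.tgt d) ∈ E ∧ pos (T.apex d) ∈ E) :
    PvplIso T pos s T (fun v => pvxsTr E zi (pos v)) s K (fun u u' => u = u' ∧ pos u ∈ E) where
  mark := by
    rintro u u' ⟨rfl, hu⟩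
    exact if_pos hu
  col := by
    rintro u u' ⟨rfl, -⟩; rfl
  fn := by
    rintro u u' u'' ⟨rfl, -⟩ ⟨rfl, -⟩; rfl
  inj := by
    rintro u v u' ⟨rfl, -⟩ ⟨rfl, -⟩; rfl
  ex := fun d hd => ⟨d, ⟨rfl, hKE hd⟩, ⟨rfl, (hst d hd).1⟩, ⟨rfl, (hst d hd).2⟩⟩
  ex' := by
    intro d hd
    have hd' : pos (T.src d) ∈ K := by
      by_cases hE : pos (T.src d) ∈ E
      · have e : pvxsTr E zi (pos (T.src d)) = pos (T.src d) := if_pos hE
        rwa [e] at hd
      · have e : pvxsTr E zi (pos (T.src d)) = zi := if_neg hE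
        rw [e] at hd
        exact absurd hd hzi
    exact ⟨d, ⟨rfl, hKE hd'⟩, ⟨rfl, (hst d hd').1⟩, ⟨rfl, (hst d hd').2⟩⟩

open Classical in
/-- the marks `f` of the first map carried to the second one along `R` (junk `zi` at the vertices without a partner) -/
noncomputable def pvxsPull (R : V → V' → Prop) (f : V → ℂ) (zi : ℂ) (u' : V') : ℂ := if h : ∃ u, R u u' then f h.choose else zi

theorem pvxs_me_cite1 : True := by
  have := @pvxsPull.eq_1
  trivial

theorem pvxs_pull_eq {R : V → V' → Prop} (hinj : ∀ u v u', R u u' → R v u' → u = v) (f : V → ℂ) (zi : ℂ) {u : V} {u' : V'} (r : R u u') : pvxsPull R f zi u' = f u := by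
  have h : ∃ u, R u u' := ⟨u, r⟩
  unfold pvxsPull
  rw [dif_pos h, hinj _ _ _ h.choose_spec r]

theorem pvxs_pull_junk {R : V → V' → Prop} (f : V → ℂ) (zi : ℂ) {u' : V'} (h : ¬ ∃ u, R u u') : pvxsPull R f zi u' = zi := dif_neg h

/-- **CARRIED POSITIONS**: an isomorphism for the mark `· ∈ K` is an isomorphism for the marks (`f`, `f` carried along `R`) -/
theorem pvxs_iso_pull {pos : V → ℂ} {pos' : V' → ℂ} {K : Set ℂ} {R : V → V' → Prop}
    (h : PvplIso T (fun v => pos v ∈ K) s T' (fun v => pos' v ∈ K) s' {True} R) (f : V → ℂ) (hf : ∀ v, f v ∈ K ↔ pos v ∈ K) {zi : ℂ} (hzi : zi ∉ K) :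
    PvplIso T f s T' (pvxsPull R f zi) s' K R where
  mark := fun u u' r => pvxs_pull_eq h.inj f zi r
  col := h.col
  fn := h.fn
  inj := h.inj
  ex := fun d hd => h.ex d (eq_true ((hf _).1 hd))
  ex' := by
    intro d' hd'
    by_cases hex : ∃ u, R u (T'.src d')
    · obtain ⟨u, r⟩ := hex
      rw [pvxs_pull_eq h.inj f zi r] at hd'
      have h1 : (pos' (T'.src d') ∈ K) = (pos u ∈ K) := h.mark u _ r
      exact h.ex' d' (h1.trans (eq_true ((hf _).1 hd')))
    · rw [pvxs_pull_junk f zi hex] at hd'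
      exact absurd hd' hzi

end kit

/-! ## 2. extended types of the window -/

section types

variable {κ : Type} {k : ℕ}

/-- the site number `i` of the enumeration, the junk point for `none` -/
def pvxsVal (zi : ℂ) (n : ℕ) (y : ℕ → PvPt) (o : Option (Fin n)) : ℂ := o.elim zi fun i => (y i).1

/-- **the extended type** of the first `n` points of `y`: the type of 238 for the mark `· ∈ K`, and the table of the test `τ` on the tuples of sites (and the junk point) -/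
def pvxsTy (ρ : ℝ) (E K : Set ℂ) (τ : (Fin k → ℂ) → κ) (zi : ℂ) (n : ℕ) (y : ℕ → PvPt) :
    ((Fin n → Fin n → Fin n → Prop) × (Fin n → Prop) × (Fin n → Prop) × (Fin n → Fin n → Prop)) × ((Fin k → Option (Fin n)) → κ) :=
  (pvplTy ρ E (fun z => z ∈ K) n y, fun o => τ fun j => pvxsVal zi n y (o j))

theorem pvxs_me_cite2 : True := by
  have := @pvxsVal.eq_1; have := @pvxsTy.eq_1
  trivial

theorem pvxs_measurable_val (zi : ℂ) (n : ℕ) (o : Option (Fin n)) : Measurable fun y : ℕ → PvPt => pvxsVal zi n y o := by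
  cases o with
  | none => exact measurable_const
  | some i => exact (measurable_pi_apply (i : ℕ)).fst

/-- the fibres of the extended type map are Borel -/
theorem pvxs_meas_ty [Countable κ] [MeasurableSpace κ] [MeasurableSingletonClass κ] {ρ : ℝ} {E K : Set ℂ} (hE : PvplWin E) (hK : MeasurableSet K)
    {τ : (Fin k → ℂ) → κ} (hτ : Measurable τ) (zi : ℂ) (n : ℕ)
    (t : ((Fin n → Fin n → Fin n → Prop) × (Fin n → Prop) × (Fin n → Prop) × (Fin n → Fin n → Prop)) × ((Fin k → Option (Fin n)) → κ)) :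
    MeasurableSet {y : ℕ → PvPt | pvxsTy ρ E K τ zi n y = t} := by
  have e : {y : ℕ → PvPt | pvxsTy ρ E K τ zi n y = t}
      = {y : ℕ → PvPt | pvplTy ρ E (fun z => z ∈ K) n y = t.1} ∩ ⋂ o : Fin k → Option (Fin n), {y : ℕ → PvPt | τ (fun j => pvxsVal zi n y (o j)) = t.2 o} := by
    ext y
    obtain ⟨t1, t2⟩ := t
    simp only [pvxsTy, mem_ofPred_eq, Prod.mk.injEq, mem_inter_iff, mem_iInter, funext_iff]
  rw [e]
  refine (pvpl_meas_ty hE (measurable_mem.2 hK) n t.1).inter (MeasurableSet.iInter fun o => ?_)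
  exact (hτ.comp (measurable_pi_lambda _ fun j => pvxs_measurable_val zi n (o j))) (measurableSet_singleton _)

end types

/-! ## 3. two good configurations of one type -/

section two

variable {κ : Type} {k : ℕ} {τ : (Fin k → ℂ) → κ} {ρ : ℝ} {E K : Set ℂ} {zi : ℂ} {η η' : Conf PvPt} {n : ℕ} {y y' : ℕ → PvPt}

/-- the points of the enumeration are the points of the window -/
theorem pvxs_cell_mem (hy : Conf.restr (E ×ˢ univ) η = Conf.cell (n, y)) (i : Fin n) : y i ∈ η.pts ∧ (y i).1 ∈ E := by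
  have h1 : y i ∈ (Conf.cell (n, y)).pts := ⟨i, i.2, rfl⟩
  rw [← hy] at h1
  exact ⟨h1.1, h1.2.1⟩

theorem pvxs_cell_site (hy : Conf.restr (E ×ˢ univ) η = Conf.cell (n, y)) (i : Fin n) : (y i).1 ∈ cfSites η := ⟨y i, (pvxs_cell_mem hy i).1, rfl⟩

theorem pvxs_cell_idx (hy : Conf.restr (E ×ˢ univ) η = Conf.cell (n, y)) {a : ℂ} (ha : a ∈ cfSites η) (haE : a ∈ E) : ∃ i : Fin n, a = (y i).1 := by
  obtain ⟨p, hp, rfl⟩ := ha
  have h1 : p ∈ (Conf.restr (E ×ˢ univ) η).pts := ⟨hp, haE, mem_univ _⟩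
  rw [hy] at h1
  obtain ⟨j, hj, rfl⟩ := h1
  exact ⟨⟨j, hj⟩, rfl⟩

/-- the correspondence of the sites with the same number -/
def pvxsR (η η' : Conf PvPt) (n : ℕ) (y y' : ℕ → PvPt) (u : ↥(pvieY η)) (u' : ↥(pvieY η')) : Prop := ∃ i : Fin n, u.1 = (y i).1 ∧ u'.1 = (y' i).1

theorem pvxs_me_cite3 : True := by
  have := @pvxsR.eq_1
  trivial

/-- on the mesh event the star of a site of `K` lies in the window -/
theorem pvxs_star (hρ : 0 < ρ) (hη : PvxsGood ρ E η) (hK : K ⊆ pvtrCore (3 * ρ) E) (d : (delbPl (pvieY η)).Dart) (hd : pviePos η ((pvieT η).src d) ∈ K) :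
    pviePos η ((pvieT η).tgt d) ∈ E ∧ pviePos η ((pvieT η).apex d) ∈ E := by
  have h := pvtr_of_mesh_vertex hρ hη.mesh (hK hd) (delb_plane_face d)
  exact ⟨h.2.1.2, h.2.2.1.2⟩

theorem pvxs_core_sub (hρ : 0 < ρ) : pvtrCore (3 * ρ) E ⊆ E := fun z hz => hz (mem_closedBall_self (by positivity))

/-- the isomorphism of 238 for the mark `· ∈ K`, in the names of `Tr/InstE` -/
theorem pvxs_iso_K (hρ : 0 < ρ) (hη : PvxsGood ρ E η) (hη' : PvxsGood ρ E η') (hK : K ⊆ pvtrCore (3 * ρ) E) (hzi : zi ∉ E)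
    (hy : Conf.restr (E ×ˢ univ) η = Conf.cell (n, y)) (hy' : Conf.restr (E ×ˢ univ) η' = Conf.cell (n, y'))
    (hty : pvxsTy ρ E K τ zi n y = pvxsTy ρ E K τ zi n y') (b : Bool) :
    PvplIso (pvieT η) (fun v => pviePos η v ∈ K) (pvieCol η b) (pvieT η') (fun v => pviePos η' v ∈ K) (pvieCol η' b) {True} (pvxsR η η' n y y') := by
  have hpre : (fun z : ℂ => z ∈ K) ⁻¹' {True} = K := by
    ext z
    simp
  have hziK : zi ∉ K := fun h => hzi (pvxs_core_sub hρ (hK h))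
  have h0 := pvpl_iso_of_ty (𝔅 := delbPlane) (𝔅' := delbPlane) (E := E) (ρ := ρ) (fun z : ℂ => z ∈ K) (K := {True}) hρ (η := η) (η' := η') (ξ := fun e => e.elim) (ξ' := fun e => e.elim)
    (zi := zi) (zi' := zi) (delb_ok_mono (subset_univ _) (delb_plane_ok hη.del)) (delb_ok_mono (subset_univ _) (delb_plane_ok hη'.del)) hη.mesh hη'.mesh
    (by rw [hpre]; exact hK) (by simpa using hziK) (by simpa using hziK) hy hy' (congrArg Prod.fst hty)
  have h1 := h0.mapCol (fun c => c == b)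
  refine PvplIso.congrR h1 fun u u' => ?_
  constructor
  · rintro ⟨i, e1, e2⟩
    exact ⟨_, _, ⟨i, rfl, rfl⟩, congrArg Sum.inl e1, congrArg Sum.inl e2⟩
  · rintro ⟨a, a', ⟨i, rfl, rfl⟩, e1, e2⟩
    exact ⟨i, Sum.inl_injective e1, Sum.inl_injective e2⟩

theorem pvxs_tr_mem (hKE : K ⊆ E) (hzi : zi ∉ K) (p : ℂ) : pvxsTr E zi p ∈ K ↔ p ∈ K := by
  by_cases hp : p ∈ E
  · rw [show pvxsTr E zi p = p from if_pos hp]
  · rw [show pvxsTr E zi p = zi from if_neg hp]
    exact ⟨fun h => absurd h hzi, fun h => absurd (hKE h) hp⟩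

/-- the truncated positions of `η` carried to the map of `η'` -/
noncomputable def pvxsCar (E : Set ℂ) (zi : ℂ) (η η' : Conf PvPt) (n : ℕ) (y y' : ℕ → PvPt) : ↥(pvieY η') → ℂ :=
  pvxsPull (pvxsR η η' n y y') (fun v => pvxsTr E zi (pviePos η v)) zi

theorem pvxs_me_cite4 : True := by
  have := @pvxsCar.eq_1
  trivial

theorem pvxs_two_iso (hρ : 0 < ρ) (hη : PvxsGood ρ E η) (hη' : PvxsGood ρ E η') (hK : K ⊆ pvtrCore (3 * ρ) E) (hzi : zi ∉ E)
    (hy : Conf.restr (E ×ˢ univ) η = Conf.cell (n, y)) (hy' : Conf.restr (E ×ˢ univ) η' = Conf.cell (n, y'))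
    (hty : pvxsTy ρ E K τ zi n y = pvxsTy ρ E K τ zi n y') (b : Bool) :
    PvplIso (pvieT η) (fun v => pvxsTr E zi (pviePos η v)) (pvieCol η b) (pvieT η') (pvxsCar E zi η η' n y y') (pvieCol η' b) K (pvxsR η η' n y y') :=
  pvxs_iso_pull (pvxs_iso_K hρ hη hη' hK hzi hy hy' hty b) _ (fun _ => pvxs_tr_mem (hK.trans (pvxs_core_sub hρ)) (fun h => hzi (pvxs_core_sub hρ (hK h))) _)
    (fun h => hzi (pvxs_core_sub hρ (hK h)))

/-- the carried positions pass the same tests as the truncated positions of `η'` -/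
theorem pvxs_two_same (hρ : 0 < ρ) (hη : PvxsGood ρ E η) (hη' : PvxsGood ρ E η') (hK : K ⊆ pvtrCore (3 * ρ) E) (hzi : zi ∉ E)
    (hy : Conf.restr (E ×ˢ univ) η = Conf.cell (n, y)) (hy' : Conf.restr (E ×ˢ univ) η' = Conf.cell (n, y'))
    (hty : pvxsTy ρ E K τ zi n y = pvxsTy ρ E K τ zi n y') :
    PvxsSame τ (pvxsCar E zi η η' n y y') (fun v => pvxsTr E zi (pviePos η' v)) := by
  classical
  have hinj := (pvxs_iso_K hρ hη hη' hK hzi hy hy' hty true).inj
  have key : ∀ v : ↥(pvieY η'), ∃ o : Option (Fin n), pvxsCar E zi η η' n y y' v = pvxsVal zi n y o ∧ pvxsTr E zi (pviePos η' v) = pvxsVal zi n y' o := by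
    intro v
    by_cases hv : v.1 ∈ E
    · obtain ⟨i, hi⟩ := pvxs_cell_idx hy' v.2 hv
      refine ⟨some i, ?_, ?_⟩
      · have r : pvxsR η η' n y y' ⟨(y i).1, pvxs_cell_site hy i⟩ v := ⟨i, rfl, hi⟩
        unfold pvxsCar
        rw [pvxs_pull_eq hinj _ zi r]
        exact if_pos (pvxs_cell_mem hy i).2
      · rw [show pvxsTr E zi (pviePos η' v) = pviePos η' v from if_pos hv]
        exact hi
    · refine ⟨none, ?_, if_neg hv⟩
      refine pvxs_pull_junk _ zi ?_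
      rintro ⟨u, i, -, e⟩
      exact hv (e ▸ (pvxs_cell_mem hy' i).2)
  intro u
  choose o ho1 ho2 using key
  have e1 : (fun j => pvxsCar E zi η η' n y y' (u j)) = fun j => pvxsVal zi n y (o (u j)) := funext fun j => ho1 _
  have e2 : (fun j => pvxsTr E zi (pviePos η' (u j))) = fun j => pvxsVal zi n y' (o (u j)) := funext fun j => ho2 _
  rw [e1, e2]
  exact congrFun (congrArg Prod.snd hty) fun j => o (u j)

/-- **TWO GOOD CONFIGURATIONS OF ONE TYPE: events** -/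
theorem pvxs_two_ev {Φ : PvplPred ℂ} (hΦ : PvxsEv Φ K τ) (hρ : 0 < ρ) (hη : PvxsGood ρ E η) (hη' : PvxsGood ρ E η') (hK : K ⊆ pvtrCore (3 * ρ) E) (hzi : zi ∉ E)
    (hy : Conf.restr (E ×ˢ univ) η = Conf.cell (n, y)) (hy' : Conf.restr (E ×ˢ univ) η' = Conf.cell (n, y'))
    (hty : pvxsTy ρ E K τ zi n y = pvxsTy ρ E K τ zi n y') (b : Bool) :
    Φ _ _ (pvieT η) (pviePos η) (pvieCol η b) ↔ Φ _ _ (pvieT η') (pviePos η') (pvieCol η' b) := by
  have hKE : K ⊆ E := hK.trans (pvxs_core_sub hρ)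
  have hziK : zi ∉ K := fun h => hzi (hKE h)
  have S : (pvieT η).Simple := (delbPl _).toMap_simple
  have S' : (pvieT η').Simple := (delbPl _).toMap_simple
  have H : (pvieT η).IsSph := delb_plane_isSph hη.del
  have H' : (pvieT η').IsSph := delb_plane_isSph hη'.del
  have a1 := hΦ.loc _ _ _ _ _ _ _ _ _ _ _ S S H H (pvxs_iso_tr (pvieT η) (pviePos η) (pvieCol η b) hKE hziK (pvxs_star hρ hη hK))
  have a2 := hΦ.loc _ _ _ _ _ _ _ _ _ _ _ S S' H H' (pvxs_two_iso hρ hη hη' hK hzi hy hy' hty b)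
  have a3 := hΦ.cong _ _ (pvieT η') (pvieCol η' b) _ _ S' H' (pvxs_two_same hρ hη hη' hK hzi hy hy' hty)
  have a4 := hΦ.loc _ _ _ _ _ _ _ _ _ _ _ S' S' H' H' (pvxs_iso_tr (pvieT η') (pviePos η') (pvieCol η' b) hKE hziK (pvxs_star hρ hη' hK))
  exact a1.trans (a2.trans (a3.trans a4.symm))

/-- **TWO GOOD CONFIGURATIONS OF ONE TYPE: marked darts** -/
theorem pvxs_two_mk {Φ : PvxsPred} (hΦ : PvxsMk Φ K τ) (hρ : 0 < ρ) (hη : PvxsGood ρ E η) (hη' : PvxsGood ρ E η') (hK : K ⊆ pvtrCore (3 * ρ) E) (hzi : zi ∉ E)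
    (hy : Conf.restr (E ×ˢ univ) η = Conf.cell (n, y)) (hy' : Conf.restr (E ×ˢ univ) η' = Conf.cell (n, y'))
    (hty : pvxsTy ρ E K τ zi n y = pvxsTy ρ E K τ zi n y') (b : Bool) {d : (delbPl (pvieY η)).Dart} {d' : (delbPl (pvieY η')).Dart}
    (hdd : PvplRD (pvieT η) (pvieT η') (pvxsR η η' n y y') d d') :
    Φ _ _ (pvieT η) (pviePos η) (pvieCol η b) d ↔ Φ _ _ (pvieT η') (pviePos η') (pvieCol η' b) d' := by
  have hKE : K ⊆ E := hK.trans (pvxs_core_sub hρ)
  have hziK : zi ∉ K := fun h => hzi (hKE h)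
  have S : (pvieT η).Simple := (delbPl _).toMap_simple
  have S' : (pvieT η').Simple := (delbPl _).toMap_simple
  have H : (pvieT η).IsSph := delb_plane_isSph hη.del
  have H' : (pvieT η').IsSph := delb_plane_isSph hη'.del
  have m : ∀ {u : ↥(pvieY η)} {u' : ↥(pvieY η')}, pvxsR η η' n y y' u u' → pviePos η u ∈ E ∧ pviePos η' u' ∈ E := by
    rintro u u' ⟨i, e1, e2⟩
    refine ⟨?_, ?_⟩
    · show u.1 ∈ E
      rw [e1]; exact (pvxs_cell_mem hy i).2
    · show u'.1 ∈ E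
      rw [e2]; exact (pvxs_cell_mem hy' i).2
  have a1 := hΦ.loc _ _ _ _ _ _ _ _ _ _ _ S S H H (pvxs_iso_tr (pvieT η) (pviePos η) (pvieCol η b) hKE hziK (pvxs_star hρ hη hK)) d d
    ⟨⟨rfl, (m hdd.1).1⟩, ⟨rfl, (m hdd.2.1).1⟩, ⟨rfl, (m hdd.2.2).1⟩⟩
  have a2 := hΦ.loc _ _ _ _ _ _ _ _ _ _ _ S S' H H' (pvxs_two_iso hρ hη hη' hK hzi hy hy' hty b) d d' hdd
  have a3 := hΦ.cong _ _ (pvieT η') (pvieCol η' b) _ _ d' S' H' (pvxs_two_same hρ hη hη' hK hzi hy hy' hty)
  have a4 := hΦ.loc _ _ _ _ _ _ _ _ _ _ _ S' S' H' H' (pvxs_iso_tr (pvieT η') (pviePos η') (pvieCol η' b) hKE hziK (pvxs_star hρ hη' hK)) d' d'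
    ⟨⟨rfl, (m hdd.1).2⟩, ⟨rfl, (m hdd.2.1).2⟩, ⟨rfl, (m hdd.2.2).2⟩⟩
  exact a1.trans (a2.trans (a3.trans a4.symm))

end two

/-! ## 4. EXITS -/

section exits

variable {κ : Type} {k : ℕ} {τ : (Fin k → ℂ) → κ} {ρ : ℝ} {E K : Set ℂ} {zi : ℂ}

theorem pvxs_pts_restr (E : Set ℂ) (η : Conf PvPt) : (Conf.restr (E ×ˢ univ) η).pts ∩ E ×ˢ (univ : Set Bool) = η.pts ∩ E ×ˢ univ := by
  show (η.pts ∩ E ×ˢ univ) ∩ E ×ˢ univ = _
  rw [inter_assoc, inter_self]

/-- **EXIT 1 (EVENTS)**: (L) + (C) ⟹ ONE measurable event, read from the window, which is `Φ` at the plane model of every good configuration -/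
theorem pvxs_event [Countable κ] [MeasurableSpace κ] [MeasurableSingletonClass κ] (hτ : Measurable τ) {Φ : PvplPred ℂ} (hΦ : PvxsEv Φ K τ) (hKm : MeasurableSet K)
    (hE : PvplWin E) (hρ : 0 < ρ) (hK : K ⊆ pvtrCore (3 * ρ) E) (hzi : zi ∉ E) (b : Bool) :
    ∃ B : Set (Conf PvPt), MeasurableSet B ∧ Conf.ReadsSet (E ×ˢ univ) B ∧
      ∀ η, PvxsGood ρ E η → (η ∈ B ↔ Φ _ _ (pvieT η) (pviePos η) (pvieCol η b)) := by
  classical
  have hO : MeasurableSet (E ×ˢ (univ : Set Bool)) := hE.1.prod MeasurableSet.univ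
  obtain ⟨Y, hY, hYe⟩ := pvcn_enum hO
  let Good : ∀ n : ℕ, (((Fin n → Fin n → Fin n → Prop) × (Fin n → Prop) × (Fin n → Prop) × (Fin n → Fin n → Prop)) × ((Fin k → Option (Fin n)) → κ)) → Prop := fun n t =>
    ∃ (η : Conf PvPt) (y : ℕ → PvPt), PvxsGood ρ E η ∧ Conf.restr (E ×ˢ univ) η = Conf.cell (n, y) ∧ pvxsTy ρ E K τ zi n y = t ∧ Φ _ _ (pvieT η) (pviePos η) (pvieCol η b)
  let G2 : ℕ → (ℕ → PvPt) → Prop := fun n y => Good n (pvxsTy ρ E K τ zi n y)
  have hcell : ∀ η : Conf PvPt, (η.pts ∩ E ×ˢ univ).Finite →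
      Conf.restr (E ×ˢ univ) η = Conf.cell ((η.pts ∩ E ×ˢ univ).ncard, Y (Conf.restr (E ×ˢ univ) η)) := by
    intro η hfin
    have := hYe (Conf.restr (E ×ˢ univ) η) (by rw [pvxs_pts_restr]; exact hfin)
    rwa [pvi_restr_idem, pvxs_pts_restr] at this
  refine ⟨{η | (η.pts ∩ E ×ˢ univ).Finite ∧ G2 (η.pts ∩ E ×ˢ univ).ncard (Y (Conf.restr (E ×ˢ univ) η))}, ?_, ?_, ?_⟩
  · have e : {η : Conf PvPt | (η.pts ∩ E ×ˢ univ).Finite ∧ G2 (η.pts ∩ E ×ˢ univ).ncard (Y (Conf.restr (E ×ˢ univ) η))}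
        = ⋃ n : ℕ, ({η : Conf PvPt | (η.pts ∩ E ×ˢ univ).Finite} ∩ ({η : Conf PvPt | (η.pts ∩ E ×ˢ univ).ncard = n} ∩
            (fun η => Y (Conf.restr (E ×ˢ univ) η)) ⁻¹' (⋃ t ∈ {t | Good n t}, {y : ℕ → PvPt | pvxsTy ρ E K τ zi n y = t}))) := by
      ext η
      simp only [mem_ofPred_eq, mem_iUnion, mem_inter_iff, mem_preimage, exists_prop]
      constructor
      · rintro ⟨h1, h2⟩
        exact ⟨_, h1, rfl, _, h2, rfl⟩
      · rintro ⟨n, h1, rfl, t, h2, rfl⟩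
        exact ⟨h1, h2⟩
    rw [e]
    refine MeasurableSet.iUnion fun n => (pvcn_fin hO).inter (((pvcn_ncard hO) (measurableSet_singleton n)).inter ?_)
    refine (hY.comp (Conf.measurable_restr hO)) ?_
    exact MeasurableSet.biUnion (Set.to_countable _) fun t _ => pvxs_meas_ty hE hKm hτ zi n t
  · intro η
    simp only [mem_ofPred_eq, pvxs_pts_restr, pvi_restr_idem]
  · intro η hη
    constructor
    · rintro ⟨-, η', y', hη', hy', hty, hΦ'⟩
      exact (pvxs_two_ev hΦ hρ hη hη' hK hzi (hcell η hη.fin) hy' hty.symm b).2 hΦ'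
    · intro h
      exact ⟨hη.fin, η, _, hη, hcell η hη.fin, rfl, h⟩

/-- the three positions of a dart -/
noncomputable def pvxsG (η : Conf PvPt) (d : (delbPl (pvieY η)).Dart) : ℂ × ℂ × ℂ :=
  (pviePos η ((pvieT η).src d), pviePos η ((pvieT η).tgt d), pviePos η ((pvieT η).apex d))

/-- the three sites of an index triple -/
def pvxsYI (n : ℕ) (y : ℕ → PvPt) (I : Fin n × Fin n × Fin n) : ℂ × ℂ × ℂ := ((y I.1).1, (y I.2.1).1, (y I.2.2).1)

theorem pvxs_me_cite5 : True := by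
  have := @pvxsG.eq_1; have := @pvxsYI.eq_1
  trivial

theorem pvxs_G_inj (η : Conf PvPt) : Function.Injective (pvxsG η) := by
  intro d d' h
  have h1 : ((pvieT η).src d : ↥(pvieY η)).1 = ((pvieT η).src d' : ↥(pvieY η)).1 := congrArg Prod.fst h
  have h2 : ((pvieT η).tgt d : ↥(pvieY η)).1 = ((pvieT η).tgt d' : ↥(pvieY η)).1 := congrArg (fun t => t.2.1) h
  exact (delbPl _).toMap_simple d d' (Subtype.ext h1) (Subtype.ext h2)

/-- in a good configuration the sites of the enumeration are pairwise different -/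
theorem pvxs_site_inj {η : Conf PvPt} (hη : PvxsGood ρ E η) {y : ℕ → PvPt}
    (hy : Conf.restr (E ×ˢ univ) η = Conf.cell ((η.pts ∩ E ×ˢ univ).ncard, y)) : Function.Injective fun i : Fin (η.pts ∩ E ×ˢ univ).ncard => (y i).1 := by
  set n := (η.pts ∩ E ×ˢ (univ : Set Bool)).ncard with hn
  have himg : (fun i : Fin n => y i) '' univ = η.pts ∩ E ×ˢ univ := by
    have h1 : (Conf.restr (E ×ˢ univ) η).pts = (Conf.cell (n, y)).pts := by rw [hy]
    have h2 : (Conf.restr (E ×ˢ univ) η).pts = η.pts ∩ E ×ˢ univ := rfl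
    rw [← h2, h1]
    ext p
    constructor
    · rintro ⟨i, -, rfl⟩
      exact ⟨i, i.2, rfl⟩
    · rintro ⟨j, hj, rfl⟩
      exact ⟨⟨j, hj⟩, mem_univ _, rfl⟩
  have hinj : InjOn (fun i : Fin n => y i) univ := by
    rw [← ncard_image_iff (Set.toFinite _), himg, ← hn, ncard_univ, Nat.card_eq_fintype_card, Fintype.card_fin]
  intro i j hij
  exact hinj (mem_univ _) (mem_univ _) (hη.one _ (pvxs_cell_mem hy i).1 _ (pvxs_cell_mem hy j).1 hij)

/-- **EXIT 2 (SUMS OVER MARKED DARTS)**: (L) + (C) + support ⟹ ONE measurable function, read from the window, which is `∑_{d : Φ d} F (pos src d, pos tgt d, pos apex d)` at the plane model of every good configuration -/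
theorem pvxs_sum [Countable κ] [MeasurableSpace κ] [MeasurableSingletonClass κ] (hτ : Measurable τ) {Φ : PvxsPred} (hΦ : PvxsMk Φ K τ) (hKm : MeasurableSet K)
    (hE : PvplWin E) (hρ : 0 < ρ) (hK : K ⊆ pvtrCore (3 * ρ) E) (hzi : zi ∉ E) (b : Bool) {F : ℂ × ℂ × ℂ → ℂ} (hF : Measurable F) :
    ∃ f : Conf PvPt → ℂ, Measurable f ∧ Conf.Reads (E ×ˢ univ) f ∧
      ∀ η, PvxsGood ρ E η → f η = ∑ᶠ d ∈ {d | Φ _ _ (pvieT η) (pviePos η) (pvieCol η b) d}, F (pvxsG η d) := by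
  classical
  have hO : MeasurableSet (E ×ˢ (univ : Set Bool)) := hE.1.prod MeasurableSet.univ
  obtain ⟨Y, hY, hYe⟩ := pvcn_enum hO
  let Good : ∀ n : ℕ, Fin n × Fin n × Fin n → (((Fin n → Fin n → Fin n → Prop) × (Fin n → Prop) × (Fin n → Prop) × (Fin n → Fin n → Prop)) × ((Fin k → Option (Fin n)) → κ)) → Prop :=
    fun n I t => ∃ (η : Conf PvPt) (y : ℕ → PvPt) (d : (delbPl (pvieY η)).Dart), PvxsGood ρ E η ∧ Conf.restr (E ×ˢ univ) η = Conf.cell (n, y) ∧ pvxsTy ρ E K τ zi n y = t ∧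
      pvxsG η d = pvxsYI n y I ∧ Φ _ _ (pvieT η) (pviePos η) (pvieCol η b) d
  let GS : ∀ n : ℕ, Fin n × Fin n × Fin n → Set (ℕ → PvPt) := fun n I => ⋃ t ∈ {t | Good n I t}, {y : ℕ → PvPt | pvxsTy ρ E K τ zi n y = t}
  have mGS : ∀ n I, MeasurableSet (GS n I) := fun n I => MeasurableSet.biUnion (Set.to_countable _) fun t _ => pvxs_meas_ty hE hKm hτ zi n t
  let g : ℕ → (ℕ → PvPt) → ℂ := fun n y => ∑ I : Fin n × Fin n × Fin n, (GS n I).indicator (fun y => F (pvxsYI n y I)) y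
  have mYI : ∀ n (I : Fin n × Fin n × Fin n), Measurable fun y : ℕ → PvPt => pvxsYI n y I := fun n I =>
    (measurable_pi_apply (I.1 : ℕ)).fst.prodMk ((measurable_pi_apply (I.2.1 : ℕ)).fst.prodMk (measurable_pi_apply (I.2.2 : ℕ)).fst)
  have mg : ∀ n, Measurable (g n) := fun n => Finset.measurable_sum _ fun I _ => (hF.comp (mYI n I)).indicator (mGS n I)
  have mg2 : Measurable fun q : ℕ × (ℕ → PvPt) => g q.1 q.2 := measurable_from_prod_countable_right mg
  have hcell : ∀ η : Conf PvPt, (η.pts ∩ E ×ˢ univ).Finite →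
      Conf.restr (E ×ˢ univ) η = Conf.cell ((η.pts ∩ E ×ˢ univ).ncard, Y (Conf.restr (E ×ˢ univ) η)) := by
    intro η hfin
    have := hYe (Conf.restr (E ×ˢ univ) η) (by rw [pvxs_pts_restr]; exact hfin)
    rwa [pvi_restr_idem, pvxs_pts_restr] at this
  refine ⟨fun η => g (η.pts ∩ E ×ˢ univ).ncard (Y (Conf.restr (E ×ˢ univ) η)), ?_, ?_, ?_⟩
  · exact mg2.comp ((pvcn_ncard hO).prodMk (hY.comp (Conf.measurable_restr hO)))
  · intro η
    simp only [pvxs_pts_restr, pvi_restr_idem]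
  · intro η hη
    set n := (η.pts ∩ E ×ˢ (univ : Set Bool)).ncard with hn
    set y := Y (Conf.restr (E ×ˢ univ) η) with hyd
    have hy : Conf.restr (E ×ˢ univ) η = Conf.cell (n, y) := hcell η hη.fin
    have hKE : K ⊆ E := hK.trans (pvxs_core_sub hρ)
    -- membership in `GS`
    have hmem : ∀ I : Fin n × Fin n × Fin n, y ∈ GS n I ↔ ∃ d, pvxsG η d = pvxsYI n y I ∧ Φ _ _ (pvieT η) (pviePos η) (pvieCol η b) d := by
      intro I
      constructor
      · intro h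
        simp only [GS, mem_iUnion, mem_ofPred_eq, exists_prop] at h
        obtain ⟨t, ⟨η₀, y₀, d₀, hη₀, hy₀, hty₀, hG₀, hΦ₀⟩, hty⟩ := h
        have hty' : pvxsTy ρ E K τ zi n y₀ = pvxsTy ρ E K τ zi n y := hty₀.trans hty.symm
        have iso := pvxs_iso_K hρ hη₀ hη hK hzi hy₀ hy hty' b
        obtain ⟨d, r1, r2, r3⟩ := iso.ex d₀ (eq_true (hΦ.supp _ _ _ _ _ _ hΦ₀))
        have t4 : ∀ i j : Fin n, (y₀ i).1 = (y₀ j).1 → (y i).1 = (y j).1 := fun i j h =>
          (iff_of_eq (congrFun (congrFun (congrArg (fun t => t.1.2.2.2) hty') i) j)).1 h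
        refine ⟨d, ?_, (pvxs_two_mk hΦ hρ hη₀ hη hK hzi hy₀ hy hty' b ⟨r1, r2, r3⟩).1 hΦ₀⟩
        obtain ⟨i1, a1, b1⟩ := r1
        obtain ⟨i2, a2, b2⟩ := r2
        obtain ⟨i3, a3, b3⟩ := r3
        have c1 : ((pvieT η₀).src d₀ : ↥(pvieY η₀)).1 = (y₀ I.1).1 := congrArg Prod.fst hG₀
        have c2 : ((pvieT η₀).tgt d₀ : ↥(pvieY η₀)).1 = (y₀ I.2.1).1 := congrArg (fun t => t.2.1) hG₀
        have c3 : ((pvieT η₀).apex d₀ : ↥(pvieY η₀)).1 = (y₀ I.2.2).1 := congrArg (fun t => t.2.2) hG₀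
        exact Prod.ext (b1.trans (t4 _ _ (a1.symm.trans c1))) (Prod.ext (b2.trans (t4 _ _ (a2.symm.trans c2))) (b3.trans (t4 _ _ (a3.symm.trans c3))))
      · rintro ⟨d, hG, hd⟩
        simp only [GS, mem_iUnion, mem_ofPred_eq, exists_prop]
        exact ⟨_, ⟨η, y, d, hη, hy, rfl, hG, hd⟩, rfl⟩
    -- the two index sets have the same image
    have himg : pvxsG η '' {d | Φ _ _ (pvieT η) (pviePos η) (pvieCol η b) d} = pvxsYI n y '' {I | y ∈ GS n I} := by
      ext w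
      constructor
      · rintro ⟨d, hd, rfl⟩
        have h1 : pviePos η ((pvieT η).src d) ∈ K := hΦ.supp _ _ _ _ _ _ hd
        have h2 := pvxs_star hρ hη hK d h1
        obtain ⟨i1, e1⟩ := pvxs_cell_idx hy ((pvieT η).src d).2 (hKE h1)
        obtain ⟨i2, e2⟩ := pvxs_cell_idx hy ((pvieT η).tgt d).2 h2.1
        obtain ⟨i3, e3⟩ := pvxs_cell_idx hy ((pvieT η).apex d).2 h2.2
        have e : pvxsG η d = pvxsYI n y (i1, i2, i3) := Prod.ext e1 (Prod.ext e2 e3)
        exact ⟨(i1, i2, i3), (hmem _).2 ⟨d, e, hd⟩, e.symm⟩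
      · rintro ⟨I, hI, rfl⟩
        obtain ⟨d, e, hd⟩ := (hmem I).1 hI
        exact ⟨d, hd, e⟩
    have hsi := pvxs_site_inj hη hy
    have hYinj : Function.Injective (pvxsYI n y) := by
      intro I J h
      have h1 : (y I.1).1 = (y J.1).1 := congrArg (fun t : ℂ × ℂ × ℂ => t.1) h
      have h2 : (y I.2.1).1 = (y J.2.1).1 := congrArg (fun t : ℂ × ℂ × ℂ => t.2.1) h
      have h3 : (y I.2.2).1 = (y J.2.2).1 := congrArg (fun t : ℂ × ℂ × ℂ => t.2.2) h
      exact Prod.ext (hsi h1) (Prod.ext (hsi h2) (hsi h3))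
    show g n y = _
    rw [← finsum_mem_image (pvxs_G_inj η).injOn, himg, finsum_mem_image hYinj.injOn, finsum_mem_def, finsum_eq_sum_of_fintype]
    refine Finset.sum_congr rfl fun I _ => ?_
    by_cases hI : y ∈ GS n I
    · rw [indicator_of_mem hI, indicator_of_mem (show I ∈ {I | y ∈ GS n I} from hI)]
    · rw [indicator_of_notMem hI, indicator_of_notMem (show I ∉ {I | y ∈ GS n I} from hI)]

end exits

/-! ## 5. THE [MEAS] DOOR: null measurability under the model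

After R18 (3) of 234 every event / value of a special link is the SOFT LOCALISATION (`pvsuSure`, `pvsuLoc` of 251) of a GLOBAL object on the plane map: measurable and an exact reader by definition.
THE DEBT [MEAS] (`pvsu_sure_sub`, `pvsu_sure_iff`, `pvsu_loc_eq`, fields `nC nA nX` of `PvsuDat.Ok`) = `NullMeasurableSet M (pvP ε)`, `AEMeasurable F (pvP ε)` of the GLOBAL objects.
**`pvxs_null_event`, `pvxs_ae_sum`**: (L) + (C) (+ support) at a BOUNDED `K` pay it.      PROOF: a.s. ONE window of the exhaustion `ρ_j = j + 1`, `E_j = clB(0, r + 3 ρ_j)` is good (`pvxs_good_ae`: `P(mesh fails) ≤ C e^{-ρ_j² / 8 ε²}`). -/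

section door

variable {κ : Type} {k : ℕ} {τ : (Fin k → ℂ) → κ} {K : Set ℂ}

/-- the mesh event of MESH gives a good window -/
theorem pvxs_good_of_net {ρ r : ℝ} (hρ : 0 < ρ) {η : Conf PvPt} (h : PvqfGood η) (hm : η ∈ pvmGood univ ρ 0 (r + 3 * ρ)) : PvxsGood ρ (closedBall 0 (r + 3 * ρ)) η where
  del := h.del
  fin := pvtn_fin_of_lf h.lf isBounded_closedBall
  mesh := by
    intro z hz
    refine pvmt_good_dense hρ hm z ?_
    have h1 : z ∈ closedBall (0 : ℂ) (r + 3 * ρ) := hz (mem_closedBall_self hρ.le)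
    rw [mem_closedBall_zero_iff] at h1
    exact ⟨by simpa using (Complex.abs_re_le_norm z).trans h1, by simpa using (Complex.abs_im_le_norm z).trans h1⟩
  one := h.one

/-- a.s. the mesh event holds at some scale -/
theorem pvxs_net_ae {ε : ℝ} (hε : ε ≠ 0) {r : ℝ} (hr : 0 ≤ r) : ∀ᵐ η ∂(pvP ε), η ∈ ⋃ j : ℕ, pvmGood univ ((j : ℝ) + 1) 0 (r + 3 * ((j : ℝ) + 1)) := by
  rw [ae_iff]
  have hle : ∀ j : ℕ, pvP ε {η | ¬ η ∈ ⋃ j : ℕ, pvmGood univ ((j : ℝ) + 1) 0 (r + 3 * ((j : ℝ) + 1))} ≤ ENNReal.ofReal ((4 * r + 17) ^ 2 * Real.exp (-(((j : ℝ) + 1) ^ 2 / (8 * ε ^ 2)))) := by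
    intro j
    have hj : (0 : ℝ) < (j : ℝ) + 1 := by positivity
    have h1 := pvm_good_prob (ε := ε) (ρ := (j : ℝ) + 1) (L := r + 3 * ((j : ℝ) + 1)) hj (by positivity) (pv_isPpp ε) (c := univ) univ_nonempty 0
    refine (measure_mono ?_).trans (h1.trans (ENNReal.ofReal_le_ofReal ?_))
    · intro η hη hc
      exact hη (mem_iUnion.2 ⟨j, hc⟩)
    · have h2 : 4 * (r + 3 * ((j : ℝ) + 1)) / ((j : ℝ) + 1) + 5 ≤ 4 * r + 17 := by
        have h3 : r / ((j : ℝ) + 1) ≤ r := div_le_self hr (by linarith [(Nat.cast_nonneg j : (0 : ℝ) ≤ j)])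
        have e : 4 * (r + 3 * ((j : ℝ) + 1)) / ((j : ℝ) + 1) = 4 * (r / ((j : ℝ) + 1)) + 12 := by field_simp; ring
        rw [e]; linarith
      have h0 : 0 ≤ 4 * (r + 3 * ((j : ℝ) + 1)) / ((j : ℝ) + 1) + 5 := by positivity
      exact mul_le_mul_of_nonneg_right (pow_le_pow_left₀ h0 h2 2) (Real.exp_pos _).le
  have hlim : Filter.Tendsto (fun j : ℕ => ENNReal.ofReal ((4 * r + 17) ^ 2 * Real.exp (-(((j : ℝ) + 1) ^ 2 / (8 * ε ^ 2))))) Filter.atTop (nhds 0) := by
    have hc : (0 : ℝ) < 8 * ε ^ 2 := by positivity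
    have t1 : Filter.Tendsto (fun j : ℕ => ((j : ℝ) + 1) ^ 2 / (8 * ε ^ 2)) Filter.atTop Filter.atTop :=
      ((Filter.tendsto_pow_atTop (two_ne_zero)).comp (Filter.tendsto_atTop_add_const_right _ 1 tendsto_natCast_atTop_atTop)).atTop_div_const hc
    have t2 := (Real.tendsto_exp_neg_atTop_nhds_zero.comp t1).const_mul ((4 * r + 17) ^ 2)
    rw [mul_zero] at t2
    have t3 := (ENNReal.continuous_ofReal.tendsto 0).comp t2
    rw [ENNReal.ofReal_zero] at t3
    exact t3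
  exact le_antisymm (ge_of_tendsto' hlim hle) zero_le

/-- **a.s. one window of the exhaustion is good** -/
theorem pvxs_good_ae {ε : ℝ} (hε : ε ≠ 0) {r : ℝ} (hr : 0 ≤ r) : ∀ᵐ η ∂(pvP ε), ∃ j : ℕ, PvxsGood ((j : ℝ) + 1) (closedBall 0 (r + 3 * ((j : ℝ) + 1))) η := by
  filter_upwards [pvxs_net_ae hε hr, pvqf_good_ae ε hε] with η h1 h2
  obtain ⟨j, hj⟩ := mem_iUnion.1 h1
  exact ⟨j, pvxs_good_of_net (by positivity) h2 hj⟩

theorem pvxs_core_ball {r ρ : ℝ} (hK : K ⊆ closedBall 0 r) : K ⊆ pvtrCore (3 * ρ) (closedBall 0 (r + 3 * ρ)) := by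
  intro z hz w hw
  have h1 := hK hz
  rw [mem_closedBall_zero_iff] at h1 ⊢
  rw [mem_closedBall, dist_eq_norm] at hw
  calc ‖w‖ = ‖z + (w - z)‖ := by ring_nf
    _ ≤ ‖z‖ + ‖w - z‖ := norm_add_le _ _
    _ ≤ r + 3 * ρ := add_le_add h1 hw

theorem pvxs_junk_ball {t : ℝ} (ht : 0 ≤ t) : ((t + 1 : ℝ) : ℂ) ∉ closedBall (0 : ℂ) t := by
  rw [mem_closedBall_zero_iff, Complex.norm_real, Real.norm_of_nonneg (by linarith)]
  linarith

/-- **EXIT 3 = [MEAS] FOR EVENTS**: (L) + (C) at a bounded `K` ⟹ the GLOBAL event is null measurable under the model -/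
theorem pvxs_null_event [Countable κ] [MeasurableSpace κ] [MeasurableSingletonClass κ] (hτ : Measurable τ) {Φ : PvplPred ℂ} (hΦ : PvxsEv Φ K τ) (hKm : MeasurableSet K)
    (hKb : Bornology.IsBounded K) {ε : ℝ} (hε : ε ≠ 0) (b : Bool) : NullMeasurableSet {η | Φ _ _ (pvieT η) (pviePos η) (pvieCol η b)} (pvP ε) := by
  obtain ⟨r, hr0, hr⟩ : ∃ r : ℝ, 0 ≤ r ∧ K ⊆ closedBall 0 r := by
    obtain ⟨r, hr⟩ := hKb.subset_closedBall 0
    exact ⟨max r 0, le_max_right _ _, hr.trans (closedBall_subset_closedBall (le_max_left _ _))⟩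
  have hj : ∀ j : ℕ, (0 : ℝ) < (j : ℝ) + 1 := fun j => by positivity
  choose B hBm _ hB using fun j : ℕ => pvxs_event hτ hΦ hKm (pvpl_win_ball 0 (r + 3 * ((j : ℝ) + 1))) (hj j) (pvxs_core_ball hr)
    (pvxs_junk_ball (t := r + 3 * ((j : ℝ) + 1)) (by have := hj j; positivity)) b
  have hm : MeasurableSet (⋃ j : ℕ, pvmGood univ ((j : ℝ) + 1) 0 (r + 3 * ((j : ℝ) + 1)) ∩ B j) := MeasurableSet.iUnion fun j => (pvm_good_meas _ _ _ _).inter (hBm j)
  refine hm.nullMeasurableSet.congr ?_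
  filter_upwards [pvxs_net_ae hε hr0, pvqf_good_ae ε hε] with η h1 h2
  refine propext ⟨fun h => ?_, fun h => ?_⟩
  · obtain ⟨j, h3, h4⟩ := mem_iUnion.1 h
    exact (hB j η (pvxs_good_of_net (hj j) h2 h3)).1 h4
  · obtain ⟨j, h3⟩ := mem_iUnion.1 h1
    exact mem_iUnion.2 ⟨j, h3, (hB j η (pvxs_good_of_net (hj j) h2 h3)).2 h⟩

/-- **EXIT 4 = [MEAS] FOR SUMS OVER MARKED DARTS**: (L) + (C) + support at a bounded `K` ⟹ the GLOBAL sum is a.e. measurable under the model -/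
theorem pvxs_ae_sum [Countable κ] [MeasurableSpace κ] [MeasurableSingletonClass κ] (hτ : Measurable τ) {Φ : PvxsPred} (hΦ : PvxsMk Φ K τ) (hKm : MeasurableSet K)
    (hKb : Bornology.IsBounded K) {ε : ℝ} (hε : ε ≠ 0) (b : Bool) {F : ℂ × ℂ × ℂ → ℂ} (hF : Measurable F) :
    AEMeasurable (fun η => ∑ᶠ d ∈ {d | Φ _ _ (pvieT η) (pviePos η) (pvieCol η b) d}, F (pvxsG η d)) (pvP ε) := by
  obtain ⟨r, hr0, hr⟩ : ∃ r : ℝ, 0 ≤ r ∧ K ⊆ closedBall 0 r := by
    obtain ⟨r, hr⟩ := hKb.subset_closedBall 0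
    exact ⟨max r 0, le_max_right _ _, hr.trans (closedBall_subset_closedBall (le_max_left _ _))⟩
  have hj : ∀ j : ℕ, (0 : ℝ) < (j : ℝ) + 1 := fun j => by positivity
  choose f hfm _ hf using fun j : ℕ => pvxs_sum hτ hΦ hKm (pvpl_win_ball 0 (r + 3 * ((j : ℝ) + 1))) (hj j) (pvxs_core_ball hr)
    (pvxs_junk_ball (t := r + 3 * ((j : ℝ) + 1)) (by have := hj j; positivity)) b hF
  rw [← Measure.restrict_eq_self_of_ae_mem (pvxs_net_ae hε hr0), aemeasurable_iUnion_iff]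
  intro j
  refine (hfm j).aemeasurable.congr ?_
  rw [Filter.EventuallyEq, ae_restrict_iff' (pvm_good_meas _ _ _ _)]
  filter_upwards [pvqf_good_ae ε hε] with η h2 h3
  exact hf j η (pvxs_good_of_net (hj j) h2 h3)

end door

end Claimed.Agent.R289
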