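import Claimed.Agent.R289.Tr.Hub
import Claimed.Agent.R289.Tr.Prep
import Claimed.Agent.R289.Tr.Dom
import Claimed.Agent.R289.Tr.Sys

/-!
# Row 289 (S0537), THE WALL, ROAD P, file Tr/N1P : N1 FOR A PATTERN = P17 of `ROADP_273.md` (the P form of TR23)      (pen helper279, second helper286; prefix `pvnq_`, `pvnq`, `Pvnq`)

Sources: `origin/helper273:notes/R289/ROADP_273.md` P5 P6 P7 P12 P17, `origin/helper59:notes/R289/TR18_59.md` TR18.1-18.3, `origin/helper6:notes/R289/W2c_6.md` TR23, `origin/helper295:notes/R289/TR_295.md`.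
On main and USED here: 263 `Tr/Prep` (the preparation operator `pvpOp`, `pvpAv`, `pvpQ`, support, blindness, `pvp_dom`), 159 `Tr/Dom` (`PvdmSys`, `pvdm_main` = TR23 core, PROVED), 95 `Tr/Sys` (engine on `Conf`), 73 `Tr/Hub` (field `n1` of `PvhbLoc`).

## WHAT THE FILE DELIVERS
`pvnq_n1` : the field **`n1` of `PvhbLocU`** over `pvhbUp ε = PvUp.iter (pvGeo ε) pvCol` (RULING H1 of 73) VERBATIM (one level `m`, one scalar `a`, one pattern `π`), from the record `PvnqPat` (one per mesh `ε`):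
* two CANDIDATES `s t : PvnqCand` = (strip `J`, door-to-door walk `𝒜`, usable prepared states `G = Gq_τ`)      [P5 P6]
* the state functions `kin` (of `σ_s`), `kout` (of `σ_t`), the constant `cst = ∑ k_f`      [TR2 TR25]
* `D : PvdmSys ι` the cylinder-domination system of 159 for the pattern: `ι` = arc candidates `g`, `A g = Gq_s ∩ Gq_t ∩ B_g ∩ N_g ∩ {g fits π}`, `WO g = W`, `X g = X_g`, `yh = y_c`, `w = W_c`, `H = D_c Θ`, `q = q_W`.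
The potentials of the Hub are the PREPARED potentials `PvnqCand.pot` (`Ψ_τ = γ⁻¹ K[1_G ψ]` if `γ ≥ θ₀`, else `0`): functions of the ACTUAL sample, no seeds.      NO MEASURABILITY of the sum over the arcs is asked: everything is QUENCHED (fixed geometry).

## THE CHAIN
 (1) `pvnq_pointwise` TR18.2: `‖I + Ψ_s + Ψ_t‖² ≤ θ₀⁻² (K_s K_t Z)(ξ)` as soon as `‖I + ψ_s + ψ_t‖² ≤ Z` on the support of the two kernels inside `G_s ∩ G_t`.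
 (2) `pvnq_op_meas`, `pvnq_dom1`, `pvnq_dom2` TR18.1 AT A FIXED GEOMETRY, one / two strips: `∫ H · K_s K_t Z dcol ≤ p⁻² ∫ H · Z dcol`   (`H` blind, supported on `{Q_s ≥ p, Q_t ≥ p}`); only measurability IN THE COLOURS is asked (159 gives it: `pvdm_fixed`).
 (3) `pvnq_fixed` : Markov at a fixed geometry, majorant `PvdmSys.Psi` of 159.      (4) `pvnq_cheb` the upper probability;   `pvnq_n1` the limit `ε ↓ 0`.
 (5) sec. 5: THE INSTANCE `PvnqGeo.toDom` : regions + engine system of 95 ⟹ `PvdmSys`, the fields of `PvdmSys.Hyp` cut into named leaves.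
WHO OWES WHAT: `PvnqPat.Stab` = P7 + P12 STAB (212 113) ;  `PvnqPat.Ok.hyp` = sec. 5 (P16' white lane 193 103: `hq`; TR13 CLOSE 6 202: `dom`; engine 95 175: `jen`) ;  `tail` = I.TAIL (43 244) ;  `hw` = TR25/26 (69 125).
-/

set_option autoImplicit false
set_option linter.unusedSectionVars false
set_option linter.unusedVariables false

namespace Claimed.Agent.R289

open MeasureTheory ProbabilityTheory Set Filter Topology Claims.C0465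
open scoped ENNReal NNReal

/-! ## 0. candidates, prepared potentials (P6) -/

/-- a CANDIDATE `κ = (z, τ)` of road P, on configurations: the strip, the door-to-door walk through the strip, the usable (prepared) states `Gq_τ` -/
structure PvnqCand where
  J : Set ℂ
  𝒜 : Set (Conf PvPt)
  G : Set (Conf PvPt)

/-- `γ_τ = K_κ 1_{Gq_τ}` -/
noncomputable def PvnqCand.gam (κ : PvnqCand) (b : Bool) (ξ : Conf PvPt) : ℝ≥0∞ := pvpOp κ.J b κ.𝒜 (κ.G.indicator fun _ => 1) ξ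

open Classical in
/-- **THE PREPARED POTENTIAL** `Ψ_τ = γ⁻¹ K_κ[1_{Gq} ψ]` if `γ ≥ θ₀`, `0` otherwise -/
noncomputable def PvnqCand.pot (κ : PvnqCand) (b : Bool) (th : ℝ≥0∞) (ψ : Conf PvPt → ℂ) (ξ : Conf PvPt) : ℂ :=
  if th ≤ κ.gam b ξ then (((κ.gam b ξ).toReal : ℝ) : ℂ)⁻¹ * pvpAv κ.J b κ.𝒜 (κ.G.indicator ψ) ξ else 0

/-- what `Tr/Prep` asks of a candidate -/
structure PvnqCand.WF (κ : PvnqCand) (b : Bool) : Prop where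
  mJ : MeasurableSet κ.J
  bJ : Bornology.IsBounded κ.J
  inc : PvpInc κ.J b κ.𝒜
  mA : MeasurableSet (pvConf ⁻¹' κ.𝒜)

/-- the objects of `κ'` do not see the colours of the strip of `κ` -/
structure PvnqBlind (κ κ' : PvnqCand) : Prop where
  dj : Disjoint κ.J κ'.J
  bA : PvpBlind κ.J (fun ζ => ζ ∈ κ'.𝒜)
  bG : PvpBlind κ.J (fun ζ => ζ ∈ κ'.G)

theorem pvnq_eqns_cite : True := by
  have := @PvnqCand.gam.eq_1; have := @PvnqCand.pot.eq_1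
  trivial

/-! ## 1. TR18.2 : the pointwise transfer through two strips -/

theorem pvnq_jensen1_153 {α : Type*} (A : Finset α) (p : α → ℝ) (hp : ∀ i ∈ A, 0 ≤ p i) (h1 : ∑ i ∈ A, p i = 1) (f : α → ℂ) (c : ℂ) :
    ‖c + ∑ i ∈ A, (p i : ℂ) * f i‖ ^ 2 ≤ ∑ i ∈ A, p i * ‖c + f i‖ ^ 2 := by
  have hcv : ConvexOn ℝ Set.univ (fun x : ℂ => ‖x‖ ^ 2) := (convexOn_norm convex_univ).pow (fun _ _ => norm_nonneg _) 2
  have key := hcv.map_sum_le (t := A) (w := p) (p := fun i => c + f i) hp h1 (fun _ _ => Set.mem_univ _)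
  have e : ∑ i ∈ A, p i • (c + f i) = c + ∑ i ∈ A, (p i : ℂ) * f i := by
    simp only [smul_add, Finset.sum_add_distrib, Complex.real_smul]
    rw [← Finset.sum_mul, ← Complex.ofReal_sum, h1, Complex.ofReal_one, one_mul]
  rw [e] at key
  simpa only [smul_eq_mul] using key

/-- Jensen with unnormalised weights, `ℝ≥0∞` form -/
theorem pvnq_jensen2_153 {α : Type*} (A : Finset α) (u : α → ℝ) (hu : ∀ i ∈ A, 0 ≤ u i) (hU : 0 < ∑ i ∈ A, u i) (f : α → ℂ) (c : ℂ) :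
    ‖c + (((∑ i ∈ A, u i : ℝ)) : ℂ)⁻¹ * ∑ i ∈ A, (u i : ℂ) * f i‖ₑ ^ 2 ≤ (ENNReal.ofReal (∑ i ∈ A, u i))⁻¹ * ∑ i ∈ A, ENNReal.ofReal (u i) * ‖c + f i‖ₑ ^ 2 := by
  set U := ∑ i ∈ A, u i with hUd
  have h1 : ∑ i ∈ A, u i / U = 1 := by rw [← Finset.sum_div, ← hUd, div_self hU.ne']
  have key := pvnq_jensen1_153 A (fun i => u i / U) (fun i hi => div_nonneg (hu i hi) hU.le) h1 f c
  have e : ∑ i ∈ A, ((u i / U : ℝ) : ℂ) * f i = ((U : ℝ) : ℂ)⁻¹ * ∑ i ∈ A, (u i : ℂ) * f i := by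
    rw [Finset.mul_sum]
    refine Finset.sum_congr rfl fun i _ => ?_
    push_cast
    ring
  rw [e] at key
  have e2 : ∀ x : ℂ, ‖x‖ₑ ^ 2 = ENNReal.ofReal (‖x‖ ^ 2) := fun x => by
    rw [ENNReal.ofReal_pow (norm_nonneg _), ofReal_norm]
  rw [e2]
  refine (ENNReal.ofReal_le_ofReal key).trans (le_of_eq ?_)
  rw [ENNReal.ofReal_sum_of_nonneg (fun i hi => mul_nonneg (div_nonneg (hu i hi) hU.le) (sq_nonneg _)), Finset.mul_sum]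
  refine Finset.sum_congr rfl fun i hi => ?_
  rw [ENNReal.ofReal_mul (div_nonneg (hu i hi) hU.le), ENNReal.ofReal_div_of_pos hU, e2, ENNReal.div_eq_inv_mul, mul_assoc]

open Classical in
/-- the restricted weights of a candidate -/
theorem pvnq_pot_eq_153 (κ : PvnqCand) (b : Bool) {th : ℝ≥0∞} (hth : th ≠ 0) (ψ : Conf PvPt → ℂ) (ξ : Conf PvPt) (hg : th ≤ κ.gam b ξ) :
    κ.gam b ξ = ENNReal.ofReal (∑ B ∈ (cfStrip κ.J ξ).powerset, if cfPaint κ.J b B ξ ∈ κ.G then pvpWt κ.J b κ.𝒜 ξ B else 0) ∧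
    0 < (∑ B ∈ (cfStrip κ.J ξ).powerset, if cfPaint κ.J b B ξ ∈ κ.G then pvpWt κ.J b κ.𝒜 ξ B else 0) ∧
    κ.pot b th ψ ξ = (((∑ B ∈ (cfStrip κ.J ξ).powerset, if cfPaint κ.J b B ξ ∈ κ.G then pvpWt κ.J b κ.𝒜 ξ B else 0 : ℝ)) : ℂ)⁻¹ *
      ∑ B ∈ (cfStrip κ.J ξ).powerset, (((if cfPaint κ.J b B ξ ∈ κ.G then pvpWt κ.J b κ.𝒜 ξ B else 0 : ℝ)) : ℂ) * ψ (cfPaint κ.J b B ξ) := by
  have hn : ∀ B ∈ (cfStrip κ.J ξ).powerset, 0 ≤ (if cfPaint κ.J b B ξ ∈ κ.G then pvpWt κ.J b κ.𝒜 ξ B else 0 : ℝ) := fun B _ => by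
    split_ifs
    · exact pvpWt_nonneg _ _ _ _ _
    · exact le_rfl
  have e1 : κ.gam b ξ = ENNReal.ofReal (∑ B ∈ (cfStrip κ.J ξ).powerset, if cfPaint κ.J b B ξ ∈ κ.G then pvpWt κ.J b κ.𝒜 ξ B else 0) := by
    rw [ENNReal.ofReal_sum_of_nonneg hn]
    unfold PvnqCand.gam pvpOp
    refine Finset.sum_congr rfl fun B _ => ?_
    by_cases h : cfPaint κ.J b B ξ ∈ κ.G
    · rw [Set.indicator_of_mem h, if_pos h, mul_one]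
    · rw [Set.indicator_of_notMem h, if_neg h, mul_zero, ENNReal.ofReal_zero]
  have e2 : 0 < (∑ B ∈ (cfStrip κ.J ξ).powerset, if cfPaint κ.J b B ξ ∈ κ.G then pvpWt κ.J b κ.𝒜 ξ B else 0) := by
    rw [← ENNReal.ofReal_pos, ← e1]
    exact lt_of_lt_of_le (pos_iff_ne_zero.2 hth) hg
  refine ⟨e1, e2, ?_⟩
  unfold PvnqCand.pot
  rw [if_pos hg, e1, ENNReal.toReal_ofReal e2.le]
  congr 1
  unfold pvpAv
  refine Finset.sum_congr rfl fun B _ => ?_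
  by_cases h : cfPaint κ.J b B ξ ∈ κ.G
  · rw [Set.indicator_of_mem h, if_pos h]
  · rw [Set.indicator_of_notMem h, if_neg h, mul_zero, Complex.ofReal_zero, zero_mul]

/-- **TR18.2 (POINTWISE JENSEN, two strips)**.   `ξ` = the actual configuration, `I` = any number (`pvbArcI + cst`), `Z ≥ 0` any function.
If `‖I + ψ_s + ψ_t‖² ≤ Z` at every repainting `ξ'` of the two strips which only ADDS the colour `b`, satisfies both walks and lies in `G_s ∩ G_t`, then the PREPARED potentials satisfy the same bound with `θ₀⁻² K_s K_t Z`. -/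
theorem pvnq_pointwise {κs κt : PvnqCand} {b : Bool} (hs : κs.WF b) (ht : κt.WF b) (hst : PvnqBlind κs κt) (hts : PvnqBlind κt κs)
    {ψs ψt : Conf PvPt → ℂ} (hψs : PvpBlind κt.J ψs) (hψt : PvpBlind κs.J ψt) {th : ℝ≥0∞} (hth : th ≠ 0) {ξ : Conf PvPt}
    (hQs : 0 < pvpQ κs.J b κs.𝒜 ξ) (hQt : 0 < pvpQ κt.J b κt.𝒜 ξ) (hgs : th ≤ κs.gam b ξ) (hgt : th ≤ κt.gam b ξ) {I : ℂ} {Z : Conf PvPt → ℝ≥0∞}
    (hZ : ∀ Bs Bt : Finset ℂ, cfStripOn κs.J b ξ ⊆ Bs → Bs ⊆ cfStrip κs.J ξ → cfStripOn κt.J b ξ ⊆ Bt → Bt ⊆ cfStrip κt.J ξ →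
      cfPaint κt.J b Bt (cfPaint κs.J b Bs ξ) ∈ κs.𝒜 → cfPaint κt.J b Bt (cfPaint κs.J b Bs ξ) ∈ κt.𝒜 →
      cfPaint κt.J b Bt (cfPaint κs.J b Bs ξ) ∈ κs.G → cfPaint κt.J b Bt (cfPaint κs.J b Bs ξ) ∈ κt.G →
      ‖I + ψs (cfPaint κt.J b Bt (cfPaint κs.J b Bs ξ)) + ψt (cfPaint κt.J b Bt (cfPaint κs.J b Bs ξ))‖ₑ ^ 2 ≤ Z (cfPaint κt.J b Bt (cfPaint κs.J b Bs ξ))) :
    ‖I + κs.pot b th ψs ξ + κt.pot b th ψt ξ‖ₑ ^ 2 ≤ th⁻¹ ^ 2 * pvpOp κs.J b κs.𝒜 (pvpOp κt.J b κt.𝒜 Z) ξ := by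
  classical
  obtain ⟨gs1, gs2, gs3⟩ := pvnq_pot_eq_153 κs b hth ψs ξ hgs
  obtain ⟨gt1, gt2, gt3⟩ := pvnq_pot_eq_153 κt b hth ψt ξ hgt
  set us : Finset ℂ → ℝ := fun B => if cfPaint κs.J b B ξ ∈ κs.G then pvpWt κs.J b κs.𝒜 ξ B else 0 with hus
  set ut : Finset ℂ → ℝ := fun B => if cfPaint κt.J b B ξ ∈ κt.G then pvpWt κt.J b κt.𝒜 ξ B else 0 with hut
  have hns : ∀ B ∈ (cfStrip κs.J ξ).powerset, 0 ≤ us B := fun B _ => by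
    simp only [hus]
    split_ifs
    · exact pvpWt_nonneg _ _ _ _ _
    · exact le_rfl
  have hnt : ∀ B ∈ (cfStrip κt.J ξ).powerset, 0 ≤ ut B := fun B _ => by
    simp only [hut]
    split_ifs
    · exact pvpWt_nonneg _ _ _ _ _
    · exact le_rfl
  -- first Jensen
  have j1 := pvnq_jensen2_153 (cfStrip κs.J ξ).powerset us hns gs2 (fun B => ψs (cfPaint κs.J b B ξ)) (I + κt.pot b th ψt ξ)
  have j2 : ∀ Bs, ‖I + κt.pot b th ψt ξ + ψs (cfPaint κs.J b Bs ξ)‖ₑ ^ 2 ≤ (ENNReal.ofReal (∑ B ∈ (cfStrip κt.J ξ).powerset, ut B))⁻¹ *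
      ∑ Bt ∈ (cfStrip κt.J ξ).powerset, ENNReal.ofReal (ut Bt) * ‖I + ψs (cfPaint κs.J b Bs ξ) + ψt (cfPaint κt.J b Bt ξ)‖ₑ ^ 2 := by
    intro Bs
    have := pvnq_jensen2_153 (cfStrip κt.J ξ).powerset ut hnt gt2 (fun B => ψt (cfPaint κt.J b B ξ)) (I + ψs (cfPaint κs.J b Bs ξ))
    rw [← gt3] at this
    rw [show I + κt.pot b th ψt ξ + ψs (cfPaint κs.J b Bs ξ) = I + ψs (cfPaint κs.J b Bs ξ) + κt.pot b th ψt ξ by ring]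
    exact this
  rw [← gs3] at j1
  rw [show I + κs.pot b th ψs ξ + κt.pot b th ψt ξ = I + κt.pot b th ψt ξ + κs.pot b th ψs ξ by ring]
  refine j1.trans ?_
  rw [← gs1]
  have i1 : (κs.gam b ξ)⁻¹ ≤ th⁻¹ := ENNReal.inv_le_inv.2 hgs
  have i2 : (κt.gam b ξ)⁻¹ ≤ th⁻¹ := ENNReal.inv_le_inv.2 hgt
  rw [sq, mul_assoc]
  refine mul_le_mul' i1 ?_
  unfold pvpOp
  rw [Finset.mul_sum]
  refine Finset.sum_le_sum fun Bs hBs => ?_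
  have hBs' := Finset.mem_powerset.1 hBs
  rw [cfStrip_congr (S := κt.J) (ξ' := cfPaint κs.J b Bs ξ) (ξ := ξ) (by rw [cfPaint_sites]), pvpWt_paint_disj hts.dj hst.bA]
  refine (mul_le_mul' le_rfl (j2 Bs)).trans ?_
  rw [← gt1, mul_left_comm]
  refine mul_le_mul' i2 ?_
  by_cases hG : cfPaint κs.J b Bs ξ ∈ κs.G
  swap
  · simp only [hus, if_neg hG, ENNReal.ofReal_zero, zero_mul]
    exact zero_le
  have eus : us Bs = pvpWt κs.J b κs.𝒜 ξ Bs := by simp only [hus, if_pos hG]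
  rw [eus]
  by_cases hw : pvpWt κs.J b κs.𝒜 ξ Bs = 0
  · rw [hw, ENNReal.ofReal_zero, zero_mul, zero_mul]
  obtain ⟨s1, s2⟩ := pvpWt_supp hs.inc hQs hBs' hw
  refine mul_le_mul' le_rfl (Finset.sum_le_sum fun Bt hBt => ?_)
  have hBt' := Finset.mem_powerset.1 hBt
  by_cases hG' : cfPaint κt.J b Bt ξ ∈ κt.G
  swap
  · simp only [hut, if_neg hG', ENNReal.ofReal_zero, zero_mul]
    exact zero_le
  have eut : ut Bt = pvpWt κt.J b κt.𝒜 ξ Bt := by simp only [hut, if_pos hG']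
  rw [eut]
  by_cases hw' : pvpWt κt.J b κt.𝒜 ξ Bt = 0
  · rw [hw', ENNReal.ofReal_zero, zero_mul, zero_mul]
  obtain ⟨t1, t2⟩ := pvpWt_supp ht.inc hQt hBt' hw'
  refine mul_le_mul' le_rfl ?_
  have c1 : cfPaint κt.J b Bt (cfPaint κs.J b Bs ξ) = cfPaint κs.J b Bs (cfPaint κt.J b Bt ξ) := cfPaint_comm hts.dj b b Bt Bs ξ
  have a1 : ψs (cfPaint κt.J b Bt (cfPaint κs.J b Bs ξ)) = ψs (cfPaint κs.J b Bs ξ) := hψs b Bt _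
  have a2 : ψt (cfPaint κt.J b Bt (cfPaint κs.J b Bs ξ)) = ψt (cfPaint κt.J b Bt ξ) := by rw [c1]; exact hψt b Bs _
  have m1 : cfPaint κt.J b Bt (cfPaint κs.J b Bs ξ) ∈ κs.𝒜 := by
    have := hts.bA b Bt (cfPaint κs.J b Bs ξ)
    exact this.mpr s2
  have m2 : cfPaint κt.J b Bt (cfPaint κs.J b Bs ξ) ∈ κt.𝒜 := by
    rw [c1]
    have := hst.bA b Bs (cfPaint κt.J b Bt ξ)
    exact this.mpr t2
  have m3 : cfPaint κt.J b Bt (cfPaint κs.J b Bs ξ) ∈ κs.G := by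
    have := hts.bG b Bt (cfPaint κs.J b Bs ξ)
    exact this.mpr hG
  have m4 : cfPaint κt.J b Bt (cfPaint κs.J b Bs ξ) ∈ κt.G := by
    rw [c1]
    have := hst.bG b Bs (cfPaint κt.J b Bt ξ)
    exact this.mpr hG'
  have := hZ Bs Bt s1 hBs' t1 hBt' m1 m2 m3 m4
  rw [a1, a2] at this
  exact this

/-! ## 2. TR18.1 : domination at a fixed geometry -/

section dom

variable {S : Set ℂ} {b : Bool} {𝒜 : Set (Conf PvPt)}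

/-- the operator keeps the measurability IN THE COLOURS at a fixed good geometry   (`pvp_op_eq`: a finite sum over the subsets of the FIXED finite set `pvpIdx S g`, `measurable_pvpPaintI`, `pvp_wtI_meas`) -/
theorem pvnq_op_meas {g : PvGeoT} (hg : PvgOk g) (hSb : Bornology.IsBounded S) (b : Bool) (hA : MeasurableSet (pvConf ⁻¹' 𝒜)) {F : Conf PvPt → ℝ≥0∞}
    (hF : Measurable fun c : PvColT => F (pvConf (pvMerge (g, c)))) : Measurable fun c : PvColT => pvpOp S b 𝒜 F (pvConf (pvMerge (g, c))) := by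
  have hm : Measurable fun c : PvColT => pvMerge (g, c) := measurable_pvMerge.comp (measurable_const.prodMk measurable_id)
  have e : (fun c : PvColT => pvpOp S b 𝒜 F (pvConf (pvMerge (g, c)))) = fun c => ∑ C ∈ (pvpIdx S g).powerset,
      ENNReal.ofReal (pvpWtI (pvpIdx S g) b 𝒜 (pvMerge (g, c)) C) * F (pvConf (pvMerge (g, pvpPaintI (pvpIdx S g) b C c))) := by
    funext c
    exact pvp_op_eq (hg.ok c) hSb b 𝒜 F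
  rw [e]
  refine Finset.measurable_fun_sum _ fun C _ => ?_
  exact ((pvp_wtI_meas (pvpIdx S g) b hA C).comp hm).ennreal_ofReal.mul (hF.comp (measurable_pvpPaintI (pvpIdx S g) b C))

/-- the quenched probability of the walk is measurable in the colours -/
theorem pvnq_Q_meas {g : PvGeoT} (hg : PvgOk g) (hS : MeasurableSet S) (hSb : Bornology.IsBounded S) (b : Bool) (hA : MeasurableSet (pvConf ⁻¹' 𝒜)) :
    Measurable fun c : PvColT => pvpQ S b 𝒜 (pvConf (pvMerge (g, c))) := by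
  obtain ⟨Φ, hΦ, hE⟩ := pvp_Q_meas (𝒜 := 𝒜) hS hSb b hA
  have h1 : (fun c : PvColT => pvpQ S b 𝒜 (pvConf (pvMerge (g, c)))) = fun c => Φ (pvMerge (g, c)) := by
    funext c
    exact (hE _ (hg.ok c)).symm
  rw [h1]
  exact hΦ.comp (measurable_pvMerge.comp (measurable_const.prodMk measurable_id))

/-- **TR18.1 (DOM), ONE STRIP, FIXED GEOMETRY** = `pvp_quenched` + `pvp_dom` of 263 with measurability in the colours only -/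
theorem pvnq_dom1 {g : PvGeoT} (hg : PvgOk g) (hS : MeasurableSet S) (hSb : Bornology.IsBounded S) (hinc : PvpInc S b 𝒜) (hA : MeasurableSet (pvConf ⁻¹' 𝒜))
    {F H : Conf PvPt → ℝ≥0∞} (hF : Measurable fun c : PvColT => F (pvConf (pvMerge (g, c)))) (hH : Measurable fun c : PvColT => H (pvConf (pvMerge (g, c))))
    (hHb : PvpBlind S H) {p : ℝ} (hp : 0 < p) (hHp : ∀ ξ, pvpQ S b 𝒜 ξ < p → H ξ = 0) :
    ∫⁻ c, H (pvConf (pvMerge (g, c))) * pvpOp S b 𝒜 F (pvConf (pvMerge (g, c))) ∂pvCol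
      ≤ (ENNReal.ofReal p)⁻¹ * ∫⁻ c, H (pvConf (pvMerge (g, c))) * F (pvConf (pvMerge (g, c))) ∂pvCol := by
  classical
  have hH0 : ∀ ξ, pvpQ S b 𝒜 ξ = 0 → H ξ = 0 := fun ξ h => hHp ξ (by rw [h]; exact hp)
  have hm : Measurable fun c : PvColT => pvMerge (g, c) := measurable_pvMerge.comp (measurable_const.prodMk measurable_id)
  have mO := pvnq_op_meas (S := S) (𝒜 := 𝒜) hg hSb b hA hF
  have mQ := pvnq_Q_meas (S := S) (𝒜 := 𝒜) hg hS hSb b hA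
  have mI : Measurable fun c : PvColT => 𝒜.indicator F (pvConf (pvMerge (g, c))) := by
    have : (fun c : PvColT => 𝒜.indicator F (pvConf (pvMerge (g, c))))
        = ((fun c : PvColT => pvMerge (g, c)) ⁻¹' (pvConf ⁻¹' 𝒜)).indicator fun c => F (pvConf (pvMerge (g, c))) := by
      ext c
      by_cases h : pvConf (pvMerge (g, c)) ∈ 𝒜
      · rw [Set.indicator_of_mem h, Set.indicator_of_mem (show c ∈ (fun c : PvColT => pvMerge (g, c)) ⁻¹' (pvConf ⁻¹' 𝒜) from h)]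
      · rw [Set.indicator_of_notMem h, Set.indicator_of_notMem (show c ∉ (fun c : PvColT => pvMerge (g, c)) ⁻¹' (pvConf ⁻¹' 𝒜) from h)]
    rw [this]
    exact hF.indicator (hm hA)
  have m1 : Measurable fun c => H (pvConf (pvMerge (g, c))) * pvpOp S b 𝒜 F (pvConf (pvMerge (g, c))) := hH.mul mO
  have m2 : Measurable fun c => H (pvConf (pvMerge (g, c))) * (ENNReal.ofReal (pvpQ S b 𝒜 (pvConf (pvMerge (g, c)))))⁻¹ *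
          (𝒜.indicator F (pvConf (pvMerge (g, c)))) := (hH.mul mQ.ennreal_ofReal.inv).mul mI
  have key : ∫⁻ c, H (pvConf (pvMerge (g, c))) * pvpOp S b 𝒜 F (pvConf (pvMerge (g, c))) ∂pvCol
      = ∫⁻ c, H (pvConf (pvMerge (g, c))) * (ENNReal.ofReal (pvpQ S b 𝒜 (pvConf (pvMerge (g, c)))))⁻¹ *
          (𝒜.indicator F (pvConf (pvMerge (g, c)))) ∂pvCol := by
    rw [pvp_resample (pvpIdx S g) b m1, pvp_resample (pvpIdx S g) b m2]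
    refine lintegral_congr fun c => ?_
    congr 1
    rw [pvp_sum_idx hg hSb b c (fun ξ => H ξ * pvpOp S b 𝒜 F ξ),
      pvp_sum_idx hg hSb b c (fun ξ => H ξ * (ENNReal.ofReal (pvpQ S b 𝒜 ξ))⁻¹ * 𝒜.indicator F ξ)]
    set ξ := pvConf (pvMerge (g, c)) with hξ
    have e1 : ∀ B, H (cfPaint S b B ξ) = H ξ := fun B => hHb b B ξ
    have e2 : ∀ B, pvpQ S b 𝒜 (cfPaint S b B ξ) = pvpQ S b 𝒜 ξ := fun B => pvpQ_blind S b 𝒜 b B ξ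
    simp only [e1, e2]
    rcases (pvpQ_nonneg S b 𝒜 ξ).eq_or_lt with h0 | hpos
    · rw [hH0 ξ h0.symm]
      simp
    · simp only [mul_assoc]
      rw [← Finset.mul_sum, ← Finset.mul_sum, ← Finset.mul_sum, pvp_col_sum hinc hpos]
  rw [key]
  have hpt : (ENNReal.ofReal p)⁻¹ ≠ ∞ := by
    rw [Ne, ENNReal.inv_eq_top, ENNReal.ofReal_eq_zero, not_le]
    exact hp
  rw [← lintegral_const_mul' _ _ hpt]
  refine lintegral_mono fun c => ?_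
  by_cases hq : pvpQ S b 𝒜 (pvConf (pvMerge (g, c))) < p
  · rw [hHp _ hq]
    simp
  · have h1 : (ENNReal.ofReal (pvpQ S b 𝒜 (pvConf (pvMerge (g, c)))))⁻¹ ≤ (ENNReal.ofReal p)⁻¹ :=
      ENNReal.inv_le_inv.2 (ENNReal.ofReal_le_ofReal (not_lt.1 hq))
    have h2 : 𝒜.indicator F (pvConf (pvMerge (g, c))) ≤ F (pvConf (pvMerge (g, c))) := Set.indicator_le_self _ _ _
    calc H (pvConf (pvMerge (g, c))) * (ENNReal.ofReal (pvpQ S b 𝒜 (pvConf (pvMerge (g, c)))))⁻¹ * 𝒜.indicator F (pvConf (pvMerge (g, c)))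
        ≤ H (pvConf (pvMerge (g, c))) * (ENNReal.ofReal p)⁻¹ * F (pvConf (pvMerge (g, c))) := by gcongr
      _ = (ENNReal.ofReal p)⁻¹ * (H (pvConf (pvMerge (g, c))) * F (pvConf (pvMerge (g, c)))) := by ring

end dom

/-- **TR18.1, TWO STRIPS, FIXED GEOMETRY** -/
theorem pvnq_dom2 {κs κt : PvnqCand} {b : Bool} (hs : κs.WF b) (ht : κt.WF b) {g : PvGeoT} (hg : PvgOk g)
    {F H : Conf PvPt → ℝ≥0∞} (hF : Measurable fun c : PvColT => F (pvConf (pvMerge (g, c)))) (hH : Measurable fun c : PvColT => H (pvConf (pvMerge (g, c))))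
    (hHs : PvpBlind κs.J H) (hHt : PvpBlind κt.J H) {p : ℝ} (hp : 0 < p)
    (hps : ∀ ξ, pvpQ κs.J b κs.𝒜 ξ < p → H ξ = 0) (hpt : ∀ ξ, pvpQ κt.J b κt.𝒜 ξ < p → H ξ = 0) :
    ∫⁻ c, H (pvConf (pvMerge (g, c))) * pvpOp κs.J b κs.𝒜 (pvpOp κt.J b κt.𝒜 F) (pvConf (pvMerge (g, c))) ∂pvCol
      ≤ (ENNReal.ofReal p)⁻¹ ^ 2 * ∫⁻ c, H (pvConf (pvMerge (g, c))) * F (pvConf (pvMerge (g, c))) ∂pvCol := by
  have m1 := pvnq_op_meas (S := κt.J) (𝒜 := κt.𝒜) hg ht.bJ b ht.mA hF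
  calc ∫⁻ c, H (pvConf (pvMerge (g, c))) * pvpOp κs.J b κs.𝒜 (pvpOp κt.J b κt.𝒜 F) (pvConf (pvMerge (g, c))) ∂pvCol
      ≤ (ENNReal.ofReal p)⁻¹ * ∫⁻ c, H (pvConf (pvMerge (g, c))) * pvpOp κt.J b κt.𝒜 F (pvConf (pvMerge (g, c))) ∂pvCol :=
        pvnq_dom1 hg hs.mJ hs.bJ hs.inc hs.mA m1 hH hHs hp hps
    _ ≤ (ENNReal.ofReal p)⁻¹ * ((ENNReal.ofReal p)⁻¹ * ∫⁻ c, H (pvConf (pvMerge (g, c))) * F (pvConf (pvMerge (g, c))) ∂pvCol) := by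
        gcongr
        exact pvnq_dom1 hg ht.mJ ht.bJ ht.inc ht.mA hF hH hHt hp hpt
    _ = _ := by rw [sq, mul_assoc]

/-! ## 3. the record of one pattern -/

/-- **ROAD P, ONE PATTERN, ONE MESH** -/
structure PvnqPat (ι : Type*) where
  /-- the colour which the preparation forces in the strips (`false` = white, for black rims) -/
  b : Bool
  /-- the candidate of the START pin `s` (its ENTRANCE side is closed by the chain `c`) -/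
  s : PvnqCand
  /-- the candidate of the END pin `t` -/
  t : PvnqCand
  /-- `κ_in` of the last link of `c`, a function of the state `σ_s` -/
  kin : Conf PvPt → ℂ
  /-- `κ_out` of the first link of `c`, a function of the state `σ_t` -/
  kout : Conf PvPt → ℂ
  /-- `∑ k_f` over the inner links of `c` -/
  cst : ℂ
  /-- the cylinder domination system of 159 -/
  D : PvdmSys ι

variable {ι : Type*}

/-- the integrand `Z_π` of P17 -/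
noncomputable def PvnqPat.Z (𝔓 : PvnqPat ι) (ω : Conf PvPt) : ℝ≥0∞ := ∑' i, (𝔓.D.A i).indicator (fun ω => ‖𝔓.D.X i ω + 𝔓.D.yh i ω‖ₑ ^ 2) ω

/-- the `ν`-side of P17 -/
structure PvnqPat.Ok (𝔓 : PvnqPat ι) (ε : ℝ) : Prop where
  ws : 𝔓.s.WF 𝔓.b
  wt : 𝔓.t.WF 𝔓.b
  st : PvnqBlind 𝔓.s 𝔓.t
  ts : PvnqBlind 𝔓.t 𝔓.s
  bkin : PvpBlind 𝔓.t.J 𝔓.kin
  bkout : PvpBlind 𝔓.s.J 𝔓.kout
  /-- P17 (a) = TR23 for the pattern (sec. 5) -/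
  hyp : 𝔓.D.Hyp ε
  /-- TR2, EXACT -/
  yh : ∀ i ω, ω ∈ 𝔓.D.A i → 𝔓.D.yh i ω = 𝔓.kout ω + 𝔓.cst + 𝔓.kin ω

/-- **THE ACTUAL SIDE** = P7 (qualified pins) + P12 STAB.   `Act o I` : "`I = pvbArcI(P;s,t)` for a rim `P` of the sample `o` and two qualified pins which fit the pattern";   `Exc` = an exceptional event. -/
structure PvnqPat.Stab (𝔓 : PvnqPat ι) (th p : ℝ) (Act : PvGeoT × PvColT → ℂ → Prop) (Exc : Set (PvGeoT × PvColT)) : Prop where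
  gs : ∀ o I, o ∉ Exc → Act o I → ENNReal.ofReal th ≤ 𝔓.s.gam 𝔓.b (pvConf (pvMerge o))
  gt : ∀ o I, o ∉ Exc → Act o I → ENNReal.ofReal th ≤ 𝔓.t.gam 𝔓.b (pvConf (pvMerge o))
  qs : ∀ o I, o ∉ Exc → Act o I → p ≤ pvpQ 𝔓.s.J 𝔓.b 𝔓.s.𝒜 (pvConf (pvMerge o))
  qt : ∀ o I, o ∉ Exc → Act o I → p ≤ pvpQ 𝔓.t.J 𝔓.b 𝔓.t.𝒜 (pvConf (pvMerge o))
  /-- P12: in every admissible repainting of the two strips the SAME rim gives a present datum with the SAME `X` -/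
  stab : ∀ o I, o ∉ Exc → Act o I → ∀ Bs Bt : Finset ℂ,
    cfStripOn 𝔓.s.J 𝔓.b (pvConf (pvMerge o)) ⊆ Bs → Bs ⊆ cfStrip 𝔓.s.J (pvConf (pvMerge o)) →
    cfStripOn 𝔓.t.J 𝔓.b (pvConf (pvMerge o)) ⊆ Bt → Bt ⊆ cfStrip 𝔓.t.J (pvConf (pvMerge o)) →
    cfPaint 𝔓.t.J 𝔓.b Bt (cfPaint 𝔓.s.J 𝔓.b Bs (pvConf (pvMerge o))) ∈ 𝔓.s.𝒜 → cfPaint 𝔓.t.J 𝔓.b Bt (cfPaint 𝔓.s.J 𝔓.b Bs (pvConf (pvMerge o))) ∈ 𝔓.t.𝒜 →
    cfPaint 𝔓.t.J 𝔓.b Bt (cfPaint 𝔓.s.J 𝔓.b Bs (pvConf (pvMerge o))) ∈ 𝔓.s.G → cfPaint 𝔓.t.J 𝔓.b Bt (cfPaint 𝔓.s.J 𝔓.b Bs (pvConf (pvMerge o))) ∈ 𝔓.t.G →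
    ∃ i, cfPaint 𝔓.t.J 𝔓.b Bt (cfPaint 𝔓.s.J 𝔓.b Bs (pvConf (pvMerge o))) ∈ 𝔓.D.A i ∧ 𝔓.D.X i (cfPaint 𝔓.t.J 𝔓.b Bt (cfPaint 𝔓.s.J 𝔓.b Bs (pvConf (pvMerge o)))) = I

/-- the prepared mean `Ψ_out(t) + ∑ k + Ψ_in(s)` at the actual sample -/
noncomputable def PvnqPat.yP (𝔓 : PvnqPat ι) (th : ℝ) (ξ : Conf PvPt) : ℂ :=
  𝔓.t.pot 𝔓.b (ENNReal.ofReal th) 𝔓.kout ξ + 𝔓.cst + 𝔓.s.pot 𝔓.b (ENNReal.ofReal th) 𝔓.kin ξ

/-- the blind weight: both walks have quenched probability `≥ p` -/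
noncomputable def PvnqPat.Hq (𝔓 : PvnqPat ι) (p : ℝ) : Conf PvPt → ℝ≥0∞ :=
  {ξ | p ≤ pvpQ 𝔓.s.J 𝔓.b 𝔓.s.𝒜 ξ ∧ p ≤ pvpQ 𝔓.t.J 𝔓.b 𝔓.t.𝒜 ξ}.indicator fun _ => 1

theorem pvnq_eqns_cite2 : True := by
  have := @PvnqPat.Z.eq_1.{0}; have := @PvnqPat.yP.eq_1.{0}; have := @PvnqPat.Hq.eq_1.{0}
  trivial

/-! ## 4. Markov, the upper probability, the limit -/

variable {𝔓 : PvnqPat ι} {ε : ℝ}

/-- P17 (b), POINTWISE, simultaneously for all rims and pins -/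
theorem pvnq_transfer (h : 𝔓.Ok ε) {th p : ℝ} (hth : 0 < th) (hp : 0 < p) {Act : PvGeoT × PvColT → ℂ → Prop} {Exc : Set (PvGeoT × PvColT)}
    (hst : 𝔓.Stab th p Act Exc) {o : PvGeoT × PvColT} (ho : o ∉ Exc) {I : ℂ} (hI : Act o I) :
    ‖I + 𝔓.yP th (pvConf (pvMerge o))‖ₑ ^ 2 ≤ (ENNReal.ofReal th)⁻¹ ^ 2 *
      (𝔓.Hq p (pvConf (pvMerge o)) * pvpOp 𝔓.s.J 𝔓.b 𝔓.s.𝒜 (pvpOp 𝔓.t.J 𝔓.b 𝔓.t.𝒜 𝔓.Z) (pvConf (pvMerge o))) := by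
  obtain ⟨ξ, hξ⟩ : ∃ ξ, ξ = pvConf (pvMerge o) := ⟨_, rfl⟩
  have hqs := hst.qs o I ho hI
  have hqt := hst.qt o I ho hI
  have hgs := hst.gs o I ho hI
  have hgt := hst.gt o I ho hI
  have hstab := hst.stab o I ho hI
  rw [← hξ] at hqs hqt hgs hgt hstab ⊢
  have hH : 𝔓.Hq p ξ = 1 := by
    unfold PvnqPat.Hq
    exact Set.indicator_of_mem (show ξ ∈ {ξ | p ≤ pvpQ 𝔓.s.J 𝔓.b 𝔓.s.𝒜 ξ ∧ p ≤ pvpQ 𝔓.t.J 𝔓.b 𝔓.t.𝒜 ξ} from ⟨hqs, hqt⟩) _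
  rw [hH, one_mul]
  have e : I + 𝔓.yP th ξ = (I + 𝔓.cst) + 𝔓.s.pot 𝔓.b (ENNReal.ofReal th) 𝔓.kin ξ + 𝔓.t.pot 𝔓.b (ENNReal.ofReal th) 𝔓.kout ξ := by
    unfold PvnqPat.yP
    ring
  rw [e]
  refine pvnq_pointwise h.ws h.wt h.st h.ts h.bkin h.bkout (ENNReal.ofReal_pos.2 hth).ne' (lt_of_lt_of_le hp hqs) (lt_of_lt_of_le hp hqt) hgs hgt ?_
  intro Bs Bt h1 h2 h3 h4 h5 h6 h7 h8
  obtain ⟨i, hi, hX⟩ := hstab Bs Bt h1 h2 h3 h4 h5 h6 h7 h8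
  obtain ⟨ζ, hζ⟩ : ∃ ζ, ζ = cfPaint 𝔓.t.J 𝔓.b Bt (cfPaint 𝔓.s.J 𝔓.b Bs ξ) := ⟨_, rfl⟩
  rw [← hζ] at hi hX ⊢
  have h9 : ‖𝔓.D.X i ζ + 𝔓.D.yh i ζ‖ₑ ^ 2 ≤ 𝔓.Z ζ := by
    unfold PvnqPat.Z
    refine le_trans ?_ (ENNReal.le_tsum i)
    rw [Set.indicator_of_mem hi]
  rw [hX, h.yh i ζ hi] at h9
  have e2 : I + 𝔓.cst + 𝔓.kin ζ + 𝔓.kout ζ = I + (𝔓.kout ζ + 𝔓.cst + 𝔓.kin ζ) := by ring
  rw [e2]
  exact h9

/-- `Hq` is blind to both strips and measurable in the colours -/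
theorem pvnq_Hq_blind (h : 𝔓.Ok ε) (p : ℝ) : PvpBlind 𝔓.s.J (𝔓.Hq p) ∧ PvpBlind 𝔓.t.J (𝔓.Hq p) := by
  have aux : ∀ {S S' : Set ℂ} {𝒜 : Set (Conf PvPt)} (_ : Disjoint S S') (_ : PvpBlind S' (fun ζ => ζ ∈ 𝒜)) (b : Bool), PvpBlind S' (pvpQ S b 𝒜) := by
    intro S S' 𝒜 hd hA b b' B ξ
    unfold pvpQ
    rw [cfStrip_congr (S := S) (ξ' := cfPaint S' b' B ξ) (ξ := ξ) (by rw [cfPaint_sites]), pvpTab_paint_disj hd hA]
  constructor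
  · intro b' B ξ
    unfold PvnqPat.Hq
    simp only [Set.indicator_apply, Set.mem_ofPred_eq]
    simp only [pvpQ_blind 𝔓.s.J 𝔓.b 𝔓.s.𝒜 b' B ξ, aux h.st.dj.symm h.st.bA 𝔓.b b' B ξ]
  · intro b' B ξ
    unfold PvnqPat.Hq
    simp only [Set.indicator_apply, Set.mem_ofPred_eq]
    simp only [pvpQ_blind 𝔓.t.J 𝔓.b 𝔓.t.𝒜 b' B ξ, aux h.ts.dj.symm h.ts.bA 𝔓.b b' B ξ]

theorem pvnq_Hq_meas (h : 𝔓.Ok ε) (p : ℝ) {g : PvGeoT} (hg : PvgOk g) : Measurable fun c : PvColT => 𝔓.Hq p (pvConf (pvMerge (g, c))) := by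
  have m1 := pvnq_Q_meas (S := 𝔓.s.J) (𝒜 := 𝔓.s.𝒜) hg h.ws.mJ h.ws.bJ 𝔓.b h.ws.mA
  have m2 := pvnq_Q_meas (S := 𝔓.t.J) (𝒜 := 𝔓.t.𝒜) hg h.wt.mJ h.wt.bJ 𝔓.b h.wt.mA
  have hset : MeasurableSet {c : PvColT | p ≤ pvpQ 𝔓.s.J 𝔓.b 𝔓.s.𝒜 (pvConf (pvMerge (g, c))) ∧ p ≤ pvpQ 𝔓.t.J 𝔓.b 𝔓.t.𝒜 (pvConf (pvMerge (g, c)))} :=
    (measurableSet_le measurable_const m1).inter (measurableSet_le measurable_const m2)
  exact (measurable_const (a := (1 : ℝ≥0∞))).indicator hset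

/-- **MARKOV AT A FIXED GEOMETRY** (almost every geometry) -/
theorem pvnq_fixed (h : 𝔓.Ok ε) (hq0 : 𝔓.D.q ≠ 0) (hqt : 𝔓.D.q ≠ ⊤) {th p u : ℝ} (hth : 0 < th) (hp : 0 < p) (hu : 0 < u) :
    ∀ᵐ g ∂pvGeo ε, pvCol {c | ENNReal.ofReal u ^ 2 ≤ (ENNReal.ofReal th)⁻¹ ^ 2 *
      (𝔓.Hq p (pvConf (pvMerge (g, c))) * pvpOp 𝔓.s.J 𝔓.b 𝔓.s.𝒜 (pvpOp 𝔓.t.J 𝔓.b 𝔓.t.𝒜 𝔓.Z) (pvConf (pvMerge (g, c))))}
      ≤ ENNReal.ofReal ((u * th * p)⁻¹ ^ 2) * (𝔓.D.q)⁻¹ * 𝔓.D.Psi ε g := by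
  filter_upwards [pvqu_ok_ae ε, pvdm_fixed h.hyp] with g hg hgZ
  obtain ⟨mZ, hZ⟩ := hgZ
  have mZ' : Measurable fun c : PvColT => 𝔓.Z (pvConf (pvMerge (g, c))) := mZ
  have hZ' : 𝔓.D.q * ∫⁻ c, 𝔓.Z (pvConf (pvMerge (g, c))) ∂pvCol ≤ 𝔓.D.Psi ε g := hZ
  have mH := pvnq_Hq_meas h p hg
  obtain ⟨bs, bt⟩ := pvnq_Hq_blind h p
  have m1 := pvnq_op_meas (S := 𝔓.t.J) (𝒜 := 𝔓.t.𝒜) hg h.wt.bJ 𝔓.b h.wt.mA mZ'
  have m2 := pvnq_op_meas (S := 𝔓.s.J) (𝒜 := 𝔓.s.𝒜) hg h.ws.bJ 𝔓.b h.ws.mA m1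
  have hsup_s : ∀ ξ, pvpQ 𝔓.s.J 𝔓.b 𝔓.s.𝒜 ξ < p → 𝔓.Hq p ξ = 0 := fun ξ hξ =>
    Set.indicator_of_notMem (fun hm => absurd hm.1 (not_le.2 hξ)) _
  have hsup_t : ∀ ξ, pvpQ 𝔓.t.J 𝔓.b 𝔓.t.𝒜 ξ < p → 𝔓.Hq p ξ = 0 := fun ξ hξ =>
    Set.indicator_of_notMem (fun hm => absurd hm.2 (not_le.2 hξ)) _
  have d2 := pvnq_dom2 h.ws h.wt hg mZ' mH bs bt hp hsup_s hsup_t
  have mf : Measurable fun c : PvColT => (ENNReal.ofReal th)⁻¹ ^ 2 *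
      (𝔓.Hq p (pvConf (pvMerge (g, c))) * pvpOp 𝔓.s.J 𝔓.b 𝔓.s.𝒜 (pvpOp 𝔓.t.J 𝔓.b 𝔓.t.𝒜 𝔓.Z) (pvConf (pvMerge (g, c)))) := (mH.mul m2).const_mul _
  have hu0 : ENNReal.ofReal u ^ 2 ≠ 0 := pow_ne_zero _ (by rw [Ne, ENNReal.ofReal_eq_zero, not_le]; exact hu)
  have hut : ENNReal.ofReal u ^ 2 ≠ ⊤ := ENNReal.pow_ne_top ENNReal.ofReal_ne_top
  refine (meas_ge_le_lintegral_div mf.aemeasurable hu0 hut).trans ?_
  have mHm : Measurable fun c : PvColT => 𝔓.Hq p (pvConf (pvMerge (g, c))) * pvpOp 𝔓.s.J 𝔓.b 𝔓.s.𝒜 (pvpOp 𝔓.t.J 𝔓.b 𝔓.t.𝒜 𝔓.Z) (pvConf (pvMerge (g, c))) := mH.mul m2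
  rw [lintegral_const_mul _ mHm]
  have i1 : ∫⁻ c, 𝔓.Hq p (pvConf (pvMerge (g, c))) * 𝔓.Z (pvConf (pvMerge (g, c))) ∂pvCol ≤ ∫⁻ c, 𝔓.Z (pvConf (pvMerge (g, c))) ∂pvCol := by
    refine lintegral_mono fun c => ?_
    have : 𝔓.Hq p (pvConf (pvMerge (g, c))) ≤ 1 := Set.indicator_le_self' (fun _ _ => zero_le) _
    calc _ ≤ 1 * 𝔓.Z (pvConf (pvMerge (g, c))) := by gcongr
      _ = _ := one_mul _
  have i2 : ∫⁻ c, 𝔓.Z (pvConf (pvMerge (g, c))) ∂pvCol ≤ (𝔓.D.q)⁻¹ * 𝔓.D.Psi ε g := by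
    rw [← ENNReal.div_eq_inv_mul, ENNReal.le_div_iff_mul_le (Or.inl hq0) (Or.inl hqt), mul_comm]
    exact hZ'
  have ec : ENNReal.ofReal ((u * th * p)⁻¹ ^ 2) = (ENNReal.ofReal u ^ 2)⁻¹ * ((ENNReal.ofReal th)⁻¹ ^ 2 * (ENNReal.ofReal p)⁻¹ ^ 2) := by
    rw [mul_inv, mul_inv, mul_pow, mul_pow, ENNReal.ofReal_mul (by positivity), ENNReal.ofReal_mul (by positivity), ENNReal.ofReal_pow (by positivity),
      ENNReal.ofReal_pow (by positivity), ENNReal.ofReal_pow (by positivity), ENNReal.ofReal_inv_of_pos hu, ENNReal.ofReal_inv_of_pos hth,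
      ENNReal.ofReal_inv_of_pos hp, ENNReal.inv_pow, mul_assoc]
  rw [ENNReal.div_eq_inv_mul]
  calc (ENNReal.ofReal u ^ 2)⁻¹ * ((ENNReal.ofReal th)⁻¹ ^ 2 * ∫⁻ c, 𝔓.Hq p (pvConf (pvMerge (g, c))) *
        pvpOp 𝔓.s.J 𝔓.b 𝔓.s.𝒜 (pvpOp 𝔓.t.J 𝔓.b 𝔓.t.𝒜 𝔓.Z) (pvConf (pvMerge (g, c))) ∂pvCol)
      ≤ (ENNReal.ofReal u ^ 2)⁻¹ * ((ENNReal.ofReal th)⁻¹ ^ 2 * ((ENNReal.ofReal p)⁻¹ ^ 2 * ((𝔓.D.q)⁻¹ * 𝔓.D.Psi ε g))) := by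
        gcongr
        exact d2.trans (mul_le_mul' le_rfl (i1.trans i2))
    _ = _ := by rw [ec]; ring

/-- **P17, QUANTITATIVE**, over the two-level upper expectation -/
theorem pvnq_cheb (h : 𝔓.Ok ε) (hq0 : 𝔓.D.q ≠ 0) (hqt : 𝔓.D.q ≠ ⊤) {th p u : ℝ} (hth : 0 < th) (hp : 0 < p) (hu : 0 < u)
    {Act : PvGeoT × PvColT → ℂ → Prop} {Exc : Set (PvGeoT × PvColT)} (hst : 𝔓.Stab th p Act Exc) :
    (pvhbUp ε).P {o | ∃ I, Act o I ∧ u < ‖I + 𝔓.yP th (pvConf (pvMerge o))‖}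
      ≤ (pvhbUp ε).P Exc + ENNReal.ofReal ((u * th * p)⁻¹ ^ 2) * (𝔓.D.q)⁻¹ * ∫⁻ ω, 𝔓.D.H ω ∂pvP ε := by
  classical
  set B' : Set (PvGeoT × PvColT) := {o | ENNReal.ofReal u ^ 2 ≤ (ENNReal.ofReal th)⁻¹ ^ 2 *
    (𝔓.Hq p (pvConf (pvMerge o)) * pvpOp 𝔓.s.J 𝔓.b 𝔓.s.𝒜 (pvpOp 𝔓.t.J 𝔓.b 𝔓.t.𝒜 𝔓.Z) (pvConf (pvMerge o)))} with hB'
  have hsub : {o | ∃ I, Act o I ∧ u < ‖I + 𝔓.yP th (pvConf (pvMerge o))‖} ⊆ Exc ∪ B' := by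
    rintro o ⟨I, hI, hlt⟩
    by_cases ho : o ∈ Exc
    · exact Or.inl ho
    · refine Or.inr (le_trans ?_ (pvnq_transfer h hth hp hst ho hI))
      gcongr
      rw [← ofReal_norm]
      exact ENNReal.ofReal_le_ofReal hlt.le
  refine ((pvhbUp ε).P_mono hsub).trans (((pvhbUp ε).P_union_le _ _).trans (add_le_add le_rfl ?_))
  have hf := pvnq_fixed h hq0 hqt hth hp hu
  set N : Set PvGeoT := toMeasurable (pvGeo ε) {g | ¬ (pvCol {c | (g, c) ∈ B'} ≤ ENNReal.ofReal ((u * th * p)⁻¹ ^ 2) * (𝔓.D.q)⁻¹ * 𝔓.D.Psi ε g)} with hN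
  have mN : MeasurableSet N := measurableSet_toMeasurable _ _
  have zN : pvGeo ε N = 0 := by rw [hN, measure_toMeasurable]; exact hf
  show (PvUp.iter (pvGeo ε) pvCol).P B' ≤ _
  rw [pvup_iter_P]
  refine (pvup_int_le (pvGeo ε) (φ := N.piecewise (fun _ => ⊤) (fun g => ENNReal.ofReal ((u * th * p)⁻¹ ^ 2) * (𝔓.D.q)⁻¹ * 𝔓.D.Psi ε g))
    (Measurable.piecewise mN measurable_const (h.hyp.measurable_Psi.const_mul _)) ?_).trans ?_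
  · intro g
    by_cases hg : g ∈ N
    · rw [Set.piecewise_eq_of_mem _ _ _ hg]; exact le_top
    · rw [Set.piecewise_eq_of_notMem _ _ _ hg]
      by_contra hn
      exact hg (subset_toMeasurable _ _ hn)
  · rw [← h.hyp.lintegral_Psi, ← lintegral_const_mul _ h.hyp.measurable_Psi]
    refine le_of_eq (lintegral_congr_ae ?_)
    have : ∀ᵐ g ∂pvGeo ε, g ∉ N := measure_eq_zero_iff_ae_notMem.1 zN
    filter_upwards [this] with g hg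
    exact Set.piecewise_eq_of_notMem _ _ _ hg

/-- **THE FIELD `n1` OF `PvhbLocU` ON ROAD P** (one level, one scalar, one pattern).      `w ε = pvtSum (N.W m ε a) ((N.Γ m).dout π.tt) π.l`, `kout ε = L.kout m ε a`, `pins ε = L.pins m ε`, `Fit ε o P s t = L.Fit m ε o P s t π`. -/
theorem pvnq_n1 {τ : Type} (𝔐 : PvbMenu τ) (h : ℝ) (a : ℂ) (rims : PvGeoT × PvColT → Set PvbRim)
    (pins : ℝ → PvGeoT × PvColT → PvbRim → Set (PvbPin τ)) (Fit : ℝ → PvGeoT × PvColT → PvbRim → PvbPin τ → PvbPin τ → Prop)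
    (kout kin : ℝ → ℂ → τ → PvGeoT × PvColT → ℂ) (w : ℝ → ℂ) (π : PvtsPat τ)
    (𝔓 : ℝ → PvnqPat ι) (Exc : ℝ → Set (PvGeoT × PvColT)) {th p q0 : ℝ} (hth : 0 < th) (hp : 0 < p) (hq0 : 0 < q0)
    (hok : ∀ᶠ ε in 𝓝[>] (0 : ℝ), (𝔓 ε).Ok ε)
    (hq : ∀ᶠ ε in 𝓝[>] (0 : ℝ), ENNReal.ofReal q0 ≤ (𝔓 ε).D.q ∧ (𝔓 ε).D.q ≠ ⊤)
    (hfs : ∀ ε o P s t, Fit ε o P s t → s.ctr = π.zs ∧ s.typ = π.ts) (hft : ∀ ε o P s t, Fit ε o P s t → t.ctr = π.zt ∧ t.typ = π.tt)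
    (hko : ∀ᶠ ε in 𝓝[>] (0 : ℝ), ∀ o, kout ε π.zt π.tt o = (𝔓 ε).t.pot (𝔓 ε).b (ENNReal.ofReal th) (𝔓 ε).kout (pvConf (pvMerge o)))
    (hki : ∀ᶠ ε in 𝓝[>] (0 : ℝ), ∀ o, kin ε π.zs π.ts o = (𝔓 ε).s.pot (𝔓 ε).b (ENNReal.ofReal th) (𝔓 ε).kin (pvConf (pvMerge o)))
    (hw : ∀ᶠ ε in 𝓝[>] (0 : ℝ), (𝔓 ε).cst = w ε)
    (hst : ∀ᶠ ε in 𝓝[>] (0 : ℝ), (𝔓 ε).Stab th p (fun o I => ∃ P ∈ rims o, ∃ s ∈ pins ε o P, ∃ t ∈ pins ε o P, Fit ε o P s t ∧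
      I = pvbArcI 𝔐 h P (fun k => P.xQ k - a * P.xV k) s t) (Exc ε))
    (hexc : Tendsto (fun ε => (pvhbUp ε).P (Exc ε)) (𝓝[>] (0 : ℝ)) (𝓝 0))
    (tail : Tendsto (fun ε => ∫⁻ ω, (𝔓 ε).D.H ω ∂pvP ε) (𝓝[>] (0 : ℝ)) (𝓝 0)) {u : ℝ} (hu : 0 < u) :
    Tendsto (fun ε => ((pvhbUp ε).P {o | ∃ P ∈ rims o, ∃ s ∈ pins ε o P, ∃ t ∈ pins ε o P, Fit ε o P s t ∧
      u < ‖pvbArcI 𝔐 h P (fun k => P.xQ k - a * P.xV k) s t + (kout ε t.ctr t.typ o + w ε + kin ε s.ctr s.typ o)‖}).toReal) (𝓝[>] (0 : ℝ)) (𝓝 0) := by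
  have hC : ∀ᶠ ε in 𝓝[>] (0 : ℝ), (pvhbUp ε).P {o | ∃ P ∈ rims o, ∃ s ∈ pins ε o P, ∃ t ∈ pins ε o P, Fit ε o P s t ∧
      u < ‖pvbArcI 𝔐 h P (fun k => P.xQ k - a * P.xV k) s t + (kout ε t.ctr t.typ o + w ε + kin ε s.ctr s.typ o)‖}
      ≤ (pvhbUp ε).P (Exc ε) + ENNReal.ofReal ((u * th * p)⁻¹ ^ 2) * (ENNReal.ofReal q0)⁻¹ * ∫⁻ ω, (𝔓 ε).D.H ω ∂pvP ε := by
    filter_upwards [hok, hq, hko, hki, hw, hst] with ε h1 h2 h3 h4 h5 h6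
    have hq0' : (𝔓 ε).D.q ≠ 0 := fun e => by
      have h7 := h2.1
      rw [e, nonpos_iff_eq_zero, ENNReal.ofReal_eq_zero] at h7
      exact absurd hq0 (not_lt.2 h7)
    have k := pvnq_cheb h1 hq0' h2.2 hth hp hu h6
    refine le_trans ((pvhbUp ε).P_mono ?_) (k.trans ?_)
    · rintro o ⟨P, hP, s, hs, t, ht, hF, hlt⟩
      refine ⟨_, ⟨P, hP, s, hs, t, ht, hF, rfl⟩, ?_⟩
      obtain ⟨e1, e2⟩ := hfs ε o P s t hF
      obtain ⟨e3, e4⟩ := hft ε o P s t hF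
      rw [e1, e2, e3, e4, h3, h4, ← h5] at hlt
      exact hlt
    · have : ((𝔓 ε).D.q)⁻¹ ≤ (ENNReal.ofReal q0)⁻¹ := ENNReal.inv_le_inv.2 h2.1
      gcongr
  have hct : ENNReal.ofReal ((u * th * p)⁻¹ ^ 2) * (ENNReal.ofReal q0)⁻¹ ≠ ⊤ :=
    ENNReal.mul_ne_top ENNReal.ofReal_ne_top (by rw [Ne, ENNReal.inv_eq_top, ENNReal.ofReal_eq_zero, not_le]; exact hq0)
  have hlim : Tendsto (fun ε => (pvhbUp ε).P (Exc ε) + ENNReal.ofReal ((u * th * p)⁻¹ ^ 2) * (ENNReal.ofReal q0)⁻¹ * ∫⁻ ω, (𝔓 ε).D.H ω ∂pvP ε)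
      (𝓝[>] (0 : ℝ)) (𝓝 0) := by
    have := hexc.add (ENNReal.Tendsto.const_mul tail (Or.inr hct))
    simpa using this
  have h0 := tendsto_of_tendsto_of_tendsto_of_le_of_le' tendsto_const_nhds hlim (Eventually.of_forall fun _ => zero_le) hC
  have := (ENNReal.tendsto_toReal ENNReal.zero_ne_top).comp h0
  rw [ENNReal.toReal_zero] at this
  exact this

end Claimed.Agent.R289
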