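-- KEEP
import Claimed.Agent.R289.Tr.N1SysA
import Claimed.Agent.R289.Tr.Geo
import Claimed.Agent.R289.Tr.MenuGeo

/-!
# Row 289 (S0537, Cardy for Poisson-Voronoi), THE WALL, ROAD P, file Tr/N1RegP : THE REGIONS OF THE FREE SIDE OF A PATTERN      (pen helper225, second pen of 59's `Tr/N1SysP`, `Tr/N1SysA`; prefix `pvgr_`, `pvgr`, `Pvgr`)

WHAT.   `PvnjPat` of 59 (`Tr/N1SysA` sec. 7) asks, for one pattern, a record of regions `𝔯 : PvnjReg`, a boundary layer `Lam`, a reading zone `Kr` with `az : PvzzPar.WfA` (212), `rg : PvnjPar.Rg` (59), `UU`, `fit : .. → PvnjFit`,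
and CLOSE (260 `pvnc_main`) asks REGION: every vertex of the layer is joined to a vertex of the last link OFF a zone `Fz` which contains the arc, the lane and the two closed discs.
HERE all this is PRODUCED from FOUR NESTED planar sets and a short list of inclusions.   MODEL FREE (sec. 1-5), then the CELL FORM (sec. 6).

DESIGN.   `U ⊆ Z`,   `Z + ρ ⊆ Z2`,   `Z2 + 2ρ ⊆ UN`,   `UN + 3ρ ⊆ Ew`;   `Z` = THE ZONE `⊇ U ∪ Mp(s) ∪ Mm(t) ∪ S3 ∪ S₂(s) ∪ S₂(t)`.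
* `𝔯 := {U, UN, S3, K3, q3, T := Ew, Ew, B, a0, rho}`      (`T` has no other constraint than `⊇` everything and bounded: checked in `Tr/N1R`)
* **`Lam := UN \ Z2`**,   **`Kr := UN`**.
* REGION (29, `Tr/Geo` sec. 9: EXACT co-connectedness `pvge_K_co`): `S'` PRECONNECTED, `Z2ᶜ ⊆ S'`, `S'` misses the `ρ`-balls round `Z`;   **`Fz := pvgeK Y S'`** = the sites whose Voronoi cell misses `S'`.   Then
  (i) the sites of `Z` are in `Fz` (mesh `ρ` of the window `Ew`);   (ii) the sites off `Z2` (the layer, the corridor) are NOT in `Fz`;   (iii) two sites off `Fz` are Delaunay joined off `Fz`.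
* CELL FORM: `Z, Z2, UN := pvmgPl z0 δ (N^j E)`, `j = 0, 1, 2`;   `Ew := pvmgPl z0 δ (N^3 E) ∪ Ep(s) ∪ Em(t)`;   `S' := pvmgPl z0 δ (N^1 E)ᶜ`;   `3 ρ ≤ δ`;   `(N^1 E)ᶜ` 8-connected.
  AT THE MODEL `E` = fine cells `D_{mm+k}(Hull F0')` of a THIN `F0'` (defects R2, R4 of 225: the full bodies of the two plugs contain the closure side `Em(s) \ O_s ⊆ C0`).

* sec. 1  `PvgrSet`, `.reg`, `.Lam`, `.Kr`, `pvgrAz`      * sec. 2  the contracts `PvgrSet.Nest`, `PvgrSet.At`      * sec. 3  **`pvgr_wf`**, **`pvgr_wfA`** (`PvzzPar.Wf`, `.WfA`), at the term of 59: `pvgr_az`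
* sec. 4  **`pvgr_rg`** (`PvnjPar.Rg`), `pvgr_UU`, **`pvgr_fit`** (`PvnjFit`)      * sec. 5  **REGION**: `pvgr_zone_mem`, `pvgr_off_zone`, `pvgr_lam_off`, `pvgr_region`, `pvgr_region_map`
* sec. 6  the cell form `pvgrCell`, `pvgr_cell_nest`, `pvgr_cell_S`.
-/

set_option autoImplicit false
set_option linter.unusedSectionVars false
set_option linter.unusedVariables false

namespace Claimed.Agent.R289

open MeasureTheory Filter Topology Set Metric Relation Claims.C0465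
open scoped ENNReal

/-! ## 1. the nested sets, the regions -/

/-- **the nested planar sets of the free side of a pattern** -/
structure PvgrSet where
  /-- the mesh of the tube -/
  rho : ℝ
  /-- the tube of the VERTICES of the free arcs -/
  U : Set ℂ
  /-- THE ZONE: tube, three pieces of the lane, the two star zones, and all that they enclose -/
  Z : Set ℂ
  Z2 : Set ℂ
  /-- the region of `N_g` -/
  UN : Set ℂ
  /-- the window -/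
  Ew : Set ℂ
  /-- the ring part of the lane, its net event, its constant -/
  S3 : Set ℂ
  K3 : Set (Conf PvPt)
  q3 : ℝ
  /-- the closed rims live in `B`, their diameter is `≥ a0` -/
  B : Set ℂ
  a0 : ℝ

namespace PvgrSet

variable (𝔰 : PvgrSet)

/-- **the regions of record** -/
def reg : PvnjReg where
  U := 𝔰.U
  UN := 𝔰.UN
  S3 := 𝔰.S3
  K3 := 𝔰.K3
  q3 := 𝔰.q3
  T := 𝔰.Ew
  Ew := 𝔰.Ew
  B := 𝔰.B
  a0 := 𝔰.a0
  rho := 𝔰.rho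

/-- **the boundary layer** -/
def Lam : Set ℂ := 𝔰.UN \ 𝔰.Z2

/-- **the reading zone** -/
def Kr : Set ℂ := 𝔰.UN

end PvgrSet

/-- the parameters of the arcs of 212 at the regions of record -/
def pvgrAz (N : PvspNum) (s t : PvspTy) (zs zt : ℂ) (h mcs mct : ℝ) (𝔰 : PvgrSet) : PvzzPar where
  N := N
  s := s
  t := t
  zs := zs
  zt := zt
  h := h
  mcs := mcs
  mct := mct
  Ug := 𝔰.U
  U := 𝔰.UN
  Lam := 𝔰.Lam
  Kr := 𝔰.Kr
  Ew := 𝔰.Ew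
  rho := 𝔰.rho

theorem pvgr_eqns_cite : True := by
  have := @PvgrSet.reg.eq_1; have := @PvgrSet.Lam.eq_1; have := @PvgrSet.Kr.eq_1; have := @pvgrAz.eq_1
  trivial

/-! ## 2. the contracts -/

/-- **the nesting** -/
structure PvgrSet.Nest (𝔰 : PvgrSet) : Prop where
  rho0 : 0 < 𝔰.rho
  UZ : 𝔰.U ⊆ 𝔰.Z
  SZ : 𝔰.S3 ⊆ 𝔰.Z
  n1 : ∀ a ∈ 𝔰.Z, closedBall a 𝔰.rho ⊆ 𝔰.Z2
  n2 : ∀ a ∈ 𝔰.Z2, closedBall a (2 * 𝔰.rho) ⊆ 𝔰.UN
  n3 : ∀ a ∈ 𝔰.UN, closedBall a (3 * 𝔰.rho) ⊆ 𝔰.Ew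

/-- **what the two candidates owe to the nested sets**;   `ℓ` = a radius which contains the two windows -/
structure PvgrSet.At (𝔰 : PvgrSet) (N : PvspNum) (s t : PvspTy) (zs zt : ℂ) (h ℓ : ℝ) : Prop extends 𝔰.Nest where
  ws : s.Wf N zs h
  wt : t.Wf N zt h
  col : s.col = t.col
  rho_le : 𝔰.rho ≤ N.mu * h
  /-- the zone contains the two star zones and the two lanes of the candidates -/
  sZ : s.reg N zs h .S2 ⊆ 𝔰.Z
  tZ : t.reg N zt h .S2 ⊆ 𝔰.Z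
  pZ : s.Mp ⊆ 𝔰.Z
  mZ : t.Mm ⊆ 𝔰.Z
  /-- the window contains the windows of the two side events -/
  pE : s.Ep ⊆ 𝔰.Ew
  mE : t.Em ⊆ 𝔰.Ew
  /-- the tube misses the three pieces of the lane -/
  U_Mp : Disjoint 𝔰.U (s.Mp \ pvspO N s zs h)
  U_Mm : Disjoint 𝔰.U (t.Mm \ pvspO N t zt h)
  U_S3 : Disjoint 𝔰.U 𝔰.S3
  /-- the ring part of the lane misses the two states -/
  S3_Os : Disjoint 𝔰.S3 (pvspO N s zs h)
  S3_Ot : Disjoint 𝔰.S3 (pvspO N t zt h)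
  /-- the two candidates are far apart -/
  Lp : s.Ep ⊆ closedBall zs ℓ
  Lm : t.Em ⊆ closedBall zt ℓ
  far : 2 * ℓ < ‖zs - zt‖

section basic

variable {𝔰 : PvgrSet}

theorem PvgrSet.Nest.Z_Z2 (H : 𝔰.Nest) : 𝔰.Z ⊆ 𝔰.Z2 := fun a ha => H.n1 a ha (mem_closedBall_self H.rho0.le)

theorem PvgrSet.Nest.Z2_UN (H : 𝔰.Nest) : 𝔰.Z2 ⊆ 𝔰.UN := fun a ha => H.n2 a ha (mem_closedBall_self (by have := H.rho0; positivity))

theorem PvgrSet.Nest.UN_Ew (H : 𝔰.Nest) : 𝔰.UN ⊆ 𝔰.Ew := fun a ha => H.n3 a ha (mem_closedBall_self (by have := H.rho0; positivity))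

theorem PvgrSet.Nest.Z_UN (H : 𝔰.Nest) : 𝔰.Z ⊆ 𝔰.UN := H.Z_Z2.trans H.Z2_UN

theorem PvgrSet.Nest.Z_Ew (H : 𝔰.Nest) : 𝔰.Z ⊆ 𝔰.Ew := H.Z_UN.trans H.UN_Ew

theorem PvgrSet.Nest.U_UN (H : 𝔰.Nest) : 𝔰.U ⊆ 𝔰.UN := H.UZ.trans H.Z_UN

/-- the zone misses the layer -/
theorem PvgrSet.Nest.Z_Lam (H : 𝔰.Nest) : Disjoint 𝔰.Z 𝔰.Lam := disjoint_left.2 fun a ha hl => hl.2 (H.Z_Z2 ha)

/-- a triangle inequality for balls -/
theorem pvgr_ball_ball {a b : ℂ} {r r' : ℝ} (hb : b ∈ closedBall a r) : closedBall b r' ⊆ closedBall a (r + r') := by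
  intro c hc
  rw [mem_closedBall] at hb hc ⊢
  have := dist_triangle c b a
  linarith

/-- the zone lies `6ρ` deep in the window -/
theorem PvgrSet.Nest.Z_core (H : 𝔰.Nest) : 𝔰.Z ⊆ pvtrCore (6 * 𝔰.rho) 𝔰.Ew := by
  intro a ha c hc
  have hρ := H.rho0
  rw [mem_closedBall, dist_eq_norm] at hc
  -- two intermediate points on the segment from `a` to `c`
  have key : ∀ (θ : ℝ), 0 ≤ θ → θ ≤ 1 → ‖(a + (θ : ℂ) * (c - a)) - a‖ ≤ θ * (6 * 𝔰.rho) := by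
    intro θ h0 _
    rw [add_sub_cancel_left, norm_mul, Complex.norm_real, Real.norm_of_nonneg h0]
    exact mul_le_mul_of_nonneg_left hc h0
  have step : ∀ (θ θ' : ℝ), θ ≤ θ' → ‖(a + (θ' : ℂ) * (c - a)) - (a + (θ : ℂ) * (c - a))‖ ≤ (θ' - θ) * (6 * 𝔰.rho) := by
    intro θ θ' h0
    have e : (a + (θ' : ℂ) * (c - a)) - (a + (θ : ℂ) * (c - a)) = (((θ' - θ : ℝ)) : ℂ) * (c - a) := by push_cast; ring
    rw [e, norm_mul, Complex.norm_real, Real.norm_of_nonneg (by linarith)]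
    exact mul_le_mul_of_nonneg_left hc (by linarith)
  have h1 : a + ((1 / 6 : ℝ) : ℂ) * (c - a) ∈ 𝔰.Z2 := by
    refine H.n1 a ha ?_
    rw [mem_closedBall, dist_eq_norm]
    have := key (1 / 6) (by norm_num) (by norm_num)
    linarith
  have h2 : a + ((1 / 2 : ℝ) : ℂ) * (c - a) ∈ 𝔰.UN := by
    refine H.n2 _ h1 ?_
    rw [mem_closedBall, dist_eq_norm]
    have := step (1 / 6) (1 / 2) (by norm_num)
    linarith
  refine H.n3 _ h2 ?_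
  rw [mem_closedBall, dist_eq_norm]
  have := step (1 / 2) 1 (by norm_num)
  have e : a + ((1 : ℝ) : ℂ) * (c - a) = c := by push_cast; ring
  rw [e] at this
  linarith

end basic

/-! ## 3. the contracts of 212 -/

section arcs

variable {𝔰 : PvgrSet} {N : PvspNum} {s t : PvspTy} {zs zt x : ℂ} {h ℓ mcs mct R : ℝ}

/-- the state region lies in the window of the exit side -/
theorem PvgrSet.At.Os_Ew (H : 𝔰.At N s t zs zt h ℓ) : pvspO N s zs h ⊆ 𝔰.Ew := H.ws.O_p.trans H.pE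

theorem PvgrSet.At.Ot_Ew (H : 𝔰.At N s t zs zt h ℓ) : pvspO N t zt h ⊆ 𝔰.Ew := H.wt.O_m.trans H.mE

/-- the two balls of radius `ℓ` are disjoint -/
theorem PvgrSet.At.balls (H : 𝔰.At N s t zs zt h ℓ) : Disjoint (closedBall zs ℓ) (closedBall zt ℓ) := by
  refine disjoint_left.2 fun p h1 h2 => ?_
  rw [mem_closedBall, dist_eq_norm] at h1 h2
  have h3 : ‖zs - zt‖ ≤ ‖p - zs‖ + ‖p - zt‖ := by
    have e : zs - zt = (p - zt) - (p - zs) := by ring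
    rw [e]
    exact (norm_sub_le _ _).trans (le_of_eq (add_comm _ _))
  have := H.far
  linarith

/-- the star zone of `S₂` lies in the state region -/
theorem pvgr_S2_O {t : PvspTy} {z : ℂ} (W : t.Wf N z h) : t.reg N z h .S2 ⊆ pvspO N t z h := by
  refine closedBall_subset_closedBall ?_
  have h1 := W.rO; have h2 := W.mu0; have h3 := W.h0
  exact mul_le_mul_of_nonneg_right (by linarith) h3.le

/-- **`PvzzPar.Wf` AT THE REGIONS OF RECORD** -/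
theorem pvgr_wf (H : 𝔰.At N s t zs zt h ℓ) (mcs mct : ℝ) : (pvgrAz N s t zs zt h mcs mct 𝔰).Wf where
  ws := H.ws
  wt := H.wt
  col := H.col.symm
  sK := H.sZ.trans H.toNest.Z_UN
  tK := H.tZ.trans H.toNest.Z_UN
  UK := Subset.rfl
  gU := H.toNest.U_UN
  gL := H.toNest.Z_Lam.mono_left H.UZ
  core := fun a ha => H.n3 a ha
  sE := H.Os_Ew
  tE := H.Ot_Ew
  rho0 := H.rho0
  rho_le := H.rho_le

/-- **`PvzzPar.WfA` AT THE REGIONS OF RECORD** -/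
theorem pvgr_wfA (H : 𝔰.At N s t zs zt h ℓ) (hR : 0 < R) (win : 𝔰.Ew ⊆ closedBall x (6 * R))
    (zone : s.reg N zs h .S2 ∪ t.reg N zt h .S2 ⊆ ball x (4 * R))
    (lo_s : s.b N 0 + 2 * N.mu ≤ mcs) (hi_s : mcs + 2 * N.mu ≤ s.a N 1) (lo_t : t.b N 0 + 2 * N.mu ≤ mct) (hi_t : mct + 2 * N.mu ≤ t.a N 1) :
    (pvgrAz N s t zs zt h mcs mct 𝔰).WfA x R where
  toWf := pvgr_wf H mcs mct
  R0 := hR
  win := win
  zone := zone
  dis := H.balls.mono (((pvgr_S2_O H.ws).trans H.ws.O_p).trans H.Lp) (((pvgr_S2_O H.wt).trans H.wt.O_m).trans H.Lm)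
  lo_s := lo_s
  hi_s := hi_s
  lo_t := lo_t
  hi_t := hi_t
  lam := fun a ha hl => H.n2 a (by
    by_contra hc
    exact hl ⟨ha, hc⟩)

/-- the parameters of 59 at the regions of record are the parameters of this file -/
theorem pvgr_az_eq {τ : Type} {c : ℝ} (𝔓 : PvrxPar τ c) (m : ℕ) (π : PvtsPat τ) (𝔰 : PvgrSet) :
    pvnjAz 𝔓 m π 𝔰.reg 𝔰.Lam 𝔰.Kr = pvgrAz 𝔓.mod.N (𝔓.ty m π.zs π.ts) (𝔓.ty m π.zt π.tt) π.zs π.zt (pvlmH m) (𝔓.𝔐.mc π.ts) (𝔓.𝔐.mc π.tt) 𝔰 := rfl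

/-- **the field `az` of `PvnjPat`** -/
theorem pvgr_az {τ : Type} {c : ℝ} {𝔓 : PvrxPar τ c} {m : ℕ} {π : PvtsPat τ} (H : 𝔰.At 𝔓.mod.N (𝔓.ty m π.zs π.ts) (𝔓.ty m π.zt π.tt) π.zs π.zt (pvlmH m) ℓ)
    (hR : 0 < R) (win : 𝔰.Ew ⊆ closedBall x (6 * R))
    (zone : (𝔓.ty m π.zs π.ts).reg 𝔓.mod.N π.zs (pvlmH m) .S2 ∪ (𝔓.ty m π.zt π.tt).reg 𝔓.mod.N π.zt (pvlmH m) .S2 ⊆ ball x (4 * R))
    (lo_s : (𝔓.ty m π.zs π.ts).b 𝔓.mod.N 0 + 2 * 𝔓.mod.N.mu ≤ 𝔓.𝔐.mc π.ts) (hi_s : 𝔓.𝔐.mc π.ts + 2 * 𝔓.mod.N.mu ≤ (𝔓.ty m π.zs π.ts).a 𝔓.mod.N 1)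
    (lo_t : (𝔓.ty m π.zt π.tt).b 𝔓.mod.N 0 + 2 * 𝔓.mod.N.mu ≤ 𝔓.𝔐.mc π.tt) (hi_t : 𝔓.𝔐.mc π.tt + 2 * 𝔓.mod.N.mu ≤ (𝔓.ty m π.zt π.tt).a 𝔓.mod.N 1) :
    (pvnjAz 𝔓 m π 𝔰.reg 𝔰.Lam 𝔰.Kr).WfA x R := by
  rw [pvgr_az_eq]
  exact pvgr_wfA H hR win zone lo_s hi_s lo_t hi_t

end arcs

/-! ## 4. the contract of 59, the fit -/

section regions

variable {𝔰 : PvgrSet} {τ : Type}

/-- a lane lies in its window -/
theorem pvgr_Mp_Ep {N : PvspNum} {t : PvspTy} {z : ℂ} {h : ℝ} (W : t.Wf N z h) : t.Mp ⊆ t.Ep :=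
  (subset_union_right.trans W.core_p).trans (pvtr_core_subset (by have := W.mu0; have := W.h0; positivity))

theorem pvgr_Mm_Em {N : PvspNum} {t : PvspTy} {z : ℂ} {h : ℝ} (W : t.Wf N z h) : t.Mm ⊆ t.Em :=
  (subset_union_right.trans W.core_m).trans (pvtr_core_subset (by have := W.mu0; have := W.h0; positivity))

/-- **`PvnjPar.Rg` AT THE REGIONS OF RECORD**: the only clause which sees the chain is `cor` -/
theorem pvgr_rg {𝔭 : PvnjPar τ} {ℓ : ℝ} (h𝔯 : 𝔭.𝔯 = 𝔰.reg) (H : 𝔰.At 𝔭.N 𝔭.s 𝔭.t 𝔭.π.zs 𝔭.π.zt 𝔭.h ℓ) (β0 : 0 ≤ 𝔭.N.β) (q30 : 0 ≤ 𝔰.q3)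
    (bE : Bornology.IsBounded 𝔰.Ew) (cor : Disjoint (Prod.fst ⁻¹' 𝔰.Ew) 𝔭.cor) (bB : Bornology.IsBounded 𝔰.B) (mB : MeasurableSet 𝔰.B) (a00 : 0 < 𝔰.a0) : 𝔭.Rg where
  col := H.col
  ws := H.ws
  wt := H.wt
  β0 := β0
  q30 := by rw [h𝔯]; exact q30
  T_bdd := by rw [h𝔯]; exact bE
  Os_T := by rw [h𝔯]; exact H.Os_Ew
  Ot_T := by rw [h𝔯]; exact H.Ot_Ew
  U_T := by rw [h𝔯]; exact H.toNest.U_UN.trans H.toNest.UN_Ew
  UN_T := by rw [h𝔯]; exact H.toNest.UN_Ew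
  Mp_T := by rw [h𝔯]; exact (pvgr_Mp_Ep H.ws).trans H.pE
  Mm_T := by rw [h𝔯]; exact (pvgr_Mm_Em H.wt).trans H.mE
  S3_T := by rw [h𝔯]; exact H.SZ.trans H.toNest.Z_Ew
  U_Mp := by rw [h𝔯]; exact H.U_Mp
  U_Mm := by rw [h𝔯]; exact H.U_Mm
  U_S3 := by rw [h𝔯]; exact H.U_S3
  Mp_Ot := H.balls.mono ((pvgr_Mp_Ep H.ws).trans H.Lp) (H.wt.O_m.trans H.Lm)
  Mm_Os := H.balls.symm.mono ((pvgr_Mm_Em H.wt).trans H.Lm) (H.ws.O_p.trans H.Lp)
  S3_Os := by rw [h𝔯]; exact H.S3_Os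
  S3_Ot := by rw [h𝔯]; exact H.S3_Ot
  Ew_cor := by rw [h𝔯]; exact cor
  Ep_Ew := by rw [h𝔯]; exact H.pE
  Em_Ew := by rw [h𝔯]; exact H.mE
  S3_Ew := by rw [h𝔯]; exact H.SZ.trans H.toNest.Z_Ew
  B_bdd := by rw [h𝔯]; exact bB
  B_meas := by rw [h𝔯]; exact mB
  a00 := by rw [h𝔯]; exact a00

/-- the window misses the corridor, planar form -/
theorem pvgr_cor_of {𝔭 : PvnjPar τ} {C : Set ℂ} (hC : 𝔭.cor ⊆ Prod.fst ⁻¹' C) (h : Disjoint 𝔰.Ew C) : Disjoint (Prod.fst ⁻¹' 𝔰.Ew) 𝔭.cor :=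
  (h.preimage Prod.fst).mono_right hC

/-- **the field `UU` of `PvnjPat`** -/
theorem pvgr_UU (H : 𝔰.Nest) : 𝔰.reg.U ⊆ 𝔰.reg.UN := H.U_UN

/-- **the field `fit` of `PvnjPat`**: all that FIT owes is "the run lies in the tube" -/
theorem pvgr_fit {c : ℝ} {𝔓 : PvrxPar τ c} {x : ℂ} {R : ℝ} {m : ℕ} {P : PvbRim} {s t : PvbPin τ} (H : 𝔰.Nest) (hF : PvrvFit 𝔓 x R m P s t)
    (run : ∀ k, s.idx ≤ k → k ≤ t.idx → P.v k ∈ 𝔰.U) : PvnjFit 𝔓 x R m 𝔰.reg 𝔰.Lam P s t where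
  toPvrvFit := hF
  run := fun k h1 h2 => ⟨run k h1 h2, fun hl => disjoint_left.1 H.Z_Lam (H.UZ (run k h1 h2)) hl⟩

end regions

/-! ## 5. REGION -/

/-- **the outside of the zone**: a preconnected set which contains all that is off `Z2` and misses the `ρ`-balls round the zone -/
structure PvgrSet.Out (𝔰 : PvgrSet) (S : Set ℂ) : Prop where
  conn : IsPreconnected S
  off : 𝔰.Z2ᶜ ⊆ S
  far : ∀ a ∈ 𝔰.Z, Disjoint (closedBall a 𝔰.rho) S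

section region

variable {𝔰 : PvgrSet} {S Y : Set ℂ} {a b : ℂ}

/-- (i) **the sites of the zone belong to `Fz`** -/
theorem pvgr_zone_mem (H : 𝔰.Nest) (O : 𝔰.Out S) (hm : PvtrMesh 𝔰.rho 𝔰.Ew Y) (ha : a ∈ Y) (haZ : a ∈ 𝔰.Z) : a ∈ pvgeK Y S := by
  have hρ := H.rho0
  have h1 : a ∈ pvtrCore (5 * 𝔰.rho) (pvtrCore 𝔰.rho 𝔰.Ew) := by
    refine pvtr_core_core (r := 𝔰.rho) (s := 5 * 𝔰.rho) ?_
    have e : 𝔰.rho + 5 * 𝔰.rho = 6 * 𝔰.rho := by ring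
    rw [e]
    exact H.Z_core haZ
  exact ⟨ha, (O.far a haZ).mono_left (pvge_cell_core hρ.le (by linarith) hm h1)⟩

/-- (ii) **the sites off `Z2` do not belong to `Fz`** -/
theorem pvgr_off_zone (O : 𝔰.Out S) (ha : a ∉ 𝔰.Z2) : a ∉ pvgeK Y S := fun hK => (pvge_K_sub Y S hK).2 (O.off ha)

/-- (ii') the layer -/
theorem pvgr_lam_off (O : 𝔰.Out S) (ha : a ∈ 𝔰.Lam) : a ∉ pvgeK Y S := pvgr_off_zone O ha.2

/-- (ii'') all that the window does not contain, in particular the corridor -/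
theorem pvgr_cor_off (H : 𝔰.Nest) (O : 𝔰.Out S) (ha : a ∉ 𝔰.Ew) : a ∉ pvgeK Y S := pvgr_off_zone O fun h => ha (H.UN_Ew (H.Z2_UN h))

/-- (iii) **REGION, sites**: two sites off `Fz` are Delaunay joined off `Fz` -/
theorem pvgr_region (O : 𝔰.Out S) (lf : VorLF Y) (ha : a ∈ Y) (haK : a ∉ pvgeK Y S) (hb : b ∈ Y) (hbK : b ∉ pvgeK Y S) : PvgeCh Y (Y \ pvgeK Y S) a b :=
  pvge_K_co lf O.conn ha haK hb hbK

/-- **REGION on the plane Delaunay map** (form of `hLam` of `pvnc_main` of 260): `u` = a vertex of the last link marked off `Z2` (e.g. in the corridor), `v` = a vertex of the layer -/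
theorem pvgr_region_map (O : 𝔰.Out S) (h : DelGood Y) {u v : Y} (hu : (u : ℂ) ∉ 𝔰.Z2) (hv : (v : ℂ) ∈ 𝔰.Lam) :
    ReflTransGen (fun x y : Y => (delMap h).Adj x y ∧ y ∉ pvgeKV Y S) u v :=
  pvge_map_co h O.conn (fun hK => pvgr_off_zone O hu hK) (fun hK => pvgr_lam_off O hv hK)

/-- the zone of the map contains the vertices marked in `Z` -/
theorem pvgr_zone_map (H : 𝔰.Nest) (O : 𝔰.Out S) (hm : PvtrMesh 𝔰.rho 𝔰.Ew Y) {v : Y} (hv : (v : ℂ) ∈ 𝔰.Z) : v ∈ pvgeKV Y S := pvgr_zone_mem H O hm v.2 hv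

/-- the zone is finite -/
theorem pvgr_zone_finite (H : 𝔰.Nest) (O : 𝔰.Out S) (lf : VorLF Y) (bE : Bornology.IsBounded 𝔰.Ew) : (pvgeK Y S).Finite := by
  refine pvge_K_finite lf (bE.subset fun p hp => ?_)
  by_contra hc
  exact hp (O.off fun h => hc (H.UN_Ew (H.Z2_UN h)))

end region

/-! ## 6. the cell form -/

/-- **the nested sets of ONE set of cells** `E` (mesh `δ`, origin `z0`);   `Wp`, `Wm` = the windows `Ep(s)`, `Em(t)` -/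
def pvgrCell (z0 : ℂ) (δ ρ : ℝ) (E : Set (ℤ × ℤ)) (U Wp Wm S3 : Set ℂ) (K3 : Set (Conf PvPt)) (q3 : ℝ) (B : Set ℂ) (a0 : ℝ) : PvgrSet where
  rho := ρ
  U := U
  Z := pvmgPl z0 δ E
  Z2 := pvmgPl z0 δ (pvtwN 1 E)
  UN := pvmgPl z0 δ (pvtwN 2 E)
  Ew := pvmgPl z0 δ (pvtwN 3 E) ∪ Wp ∪ Wm
  S3 := S3
  K3 := K3
  q3 := q3
  B := B
  a0 := a0

theorem pvgr_eqns_cite2 : True := by
  have := @pvgrCell.eq_1
  trivial

section cell

variable {z0 : ℂ} {δ ρ : ℝ} {E : Set (ℤ × ℤ)} {U Wp Wm S3 : Set ℂ} {K3 : Set (Conf PvPt)} {q3 : ℝ} {B : Set ℂ} {a0 : ℝ}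

/-- one step of the nesting -/
theorem pvgr_cell_step (hδ : 0 < δ) {r : ℝ} (hr : r ≤ δ) (k : ℕ) {a : ℂ} (ha : a ∈ pvmgPl z0 δ (pvtwN k E)) : closedBall a r ⊆ pvmgPl z0 δ (pvtwN (k + 1) E) := by
  intro q hq
  rw [mem_closedBall, dist_eq_norm] at hq
  have h1 := pvmg_near (k := 1) hδ ha (q := q) (by push_cast; linarith)
  rwa [pvtw_N_add, add_comm] at h1

/-- **the nesting of the cell form** -/
theorem pvgr_cell_nest (hδ : 0 < δ) (hρ : 0 < ρ) (h3 : 3 * ρ ≤ δ) (hU : U ⊆ pvmgPl z0 δ E) (hS : S3 ⊆ pvmgPl z0 δ E) : (pvgrCell z0 δ ρ E U Wp Wm S3 K3 q3 B a0).Nest where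
  rho0 := hρ
  UZ := hU
  SZ := hS
  n1 := fun a ha => by
    have h0 : a ∈ pvmgPl z0 δ (pvtwN 0 E) := pvmg_mono pvtw_N_sub ha
    exact pvgr_cell_step hδ (show ρ ≤ δ by linarith) 0 h0
  n2 := fun a ha => pvgr_cell_step hδ (show 2 * ρ ≤ δ by linarith) 1 ha
  n3 := fun a ha => ((pvgr_cell_step hδ h3 2 ha).trans subset_union_left).trans subset_union_left

/-- **the outside of the cell form**: the closed polyomino of the cells off `N^1 E` -/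
theorem pvgr_cell_out (hδ : 0 < δ) (hρ : ρ < δ) (hE : Claimed.Agent.R291.TscConn pvtG8 (pvtwN 1 E)ᶜ) : (pvgrCell z0 δ ρ E U Wp Wm S3 K3 q3 B a0).Out (pvmgPl z0 δ (pvtwN 1 E)ᶜ) where
  conn := pvmg_preconnected8 hδ hE
  off := pvmg_compl hδ
  far := fun a ha => disjoint_left.2 fun q hq hqS => by
    rw [mem_closedBall, dist_eq_norm] at hq
    have h1 := pvmg_far_compl (k := 1) hδ ha hqS
    rw [norm_sub_rev] at h1
    push_cast at h1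
    have : ‖q - a‖ ≤ ρ := hq
    linarith

/-- the window of the cell form is bounded -/
theorem pvgr_cell_bdd (hE : E.Finite) (hp : Bornology.IsBounded Wp) (hm : Bornology.IsBounded Wm) : Bornology.IsBounded (pvgrCell z0 δ ρ E U Wp Wm S3 K3 q3 B a0).Ew :=
  ((pvmg_bounded (pvtw_N_finite hE)).union hp).union hm

/-- the window of the cell form misses a set `C`: three clauses -/
theorem pvgr_cell_cor {C : Set ℂ} (h1 : Disjoint (pvmgPl z0 δ (pvtwN 3 E)) C) (h2 : Disjoint Wp C) (h3 : Disjoint Wm C) : Disjoint (pvgrCell z0 δ ρ E U Wp Wm S3 K3 q3 B a0).Ew C :=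
  (h1.union_left h2).union_left h3

end cell

end Claimed.Agent.R289
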