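import Claimed.Agent.R289.Tr.CloseNQ
import Claimed.Agent.R289.Vor.Chain
import Claimed.Agent.R289.Del.Seam

/-!
# Row 289 (S0537, Cardy for Poisson-Voronoi), THE WALL, ROAD P, file Tr/RegO : REGION AT ONE CONFIGURATION      (helper279, post of 59; prefix `pvny_r`, `PvnyR`)

The hypothesis `hreg` of `pvcu_cl` (260 `Tr/CloseNQ`): every site of the boundary layer `Lam` of the region `UN` of `N_g` is joined, in the Delaunay graph, OFF THE ZONE `Zn = UN \ Lam`, to every site of the zone `Z'` of the last inner plug of the chain.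
HERE: `hreg` from the mesh of THE WINDOW OF THE FREE SIDE ALONE (`PvtrMesh ρ Ew`: it is part of `E g`; the window misses the corridor, so NO MESH IS ASKED ON THE ROAD) and A REGIONS-ONLY CLAUSE `PvnyRReg ρ r Ew UN Lam Zn Z' K`:
* `K`       THE ROAD: a preconnected set OFF `UN` which contains `Z'`      (`K := UNᶜ` if the complement of `UN` is connected: `pvny_rreg_compl`);
* `exit`    every point of the layer is within `r` of the road;      * `deep`  the zone is `r`-deep in `UN`      (both by definition of the layer of 212, `r = 2ρ`: `Lam = {a ∈ UN | ¬ closedBall a (2ρ) ⊆ UN}`, field `lam` of `PvzzPar.WfA`);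
* `collar`  a segment from the road to the zone passes at a point OFF `UN` IN THE `ρ`-CORE OF THE WINDOW      (`pvny_rcollar`: true as soon as a neighbourhood of `UN` lies in the core).
PROOF.   A site `v` of the zone owns no point `z` of the road (the cell is convex: it would own the point `z'` of the collar, so `‖z' - v‖ ≤ ρ`, `z' ∈ UN`), and no point `z` of the segment from a site `a` of the layer to its exit `w`
(`‖v - z‖ ≤ ‖a - z‖` because `a` is a site, so `‖v - w‖ ≤ ‖a - w‖ ≤ r`, `w ∈ UN`).      The cells which meet a preconnected set form a chain of Delaunay neighbours (`vorch_chain_of_preconnected`).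
-/

set_option autoImplicit false

namespace Claimed.Agent.R289

open Set Metric Relation

/-- **THE REGIONS-ONLY CLAUSE OF REGION** -/
structure PvnyRReg (ρ r : ℝ) (Ew UN Lam Zn Z' K : Set ℂ) : Prop where
  le : ρ ≤ r
  pre : IsPreconnected K
  off : Disjoint K UN
  ZK : Z' ⊆ K
  exit : ∀ a ∈ Lam, ∃ w ∈ K, ‖w - a‖ ≤ r
  deep : ∀ v ∈ Zn, closedBall v r ⊆ UN
  collar : ∀ z ∈ K, ∀ v ∈ Zn, ∃ z' ∈ segment ℝ z v, z' ∉ UN ∧ z' ∈ pvtrCore ρ Ew

/-- the chain of the cells which meet a preconnected set, as a walk of the Delaunay plane: all its sites own a point of the set -/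
theorem pvny_rwalk {Y : Set ℂ} (h : DelGood Y) {S : Set ℂ} (hS : IsPreconnected S) {x y : ↥Y} (hx : (x : ℂ) ∈ S) (hy : (y : ℂ) ∈ S) :
    ReflTransGen (fun u v : ↥Y => (delbPl Y).toMap.Adj u v ∧ ∃ z ∈ S, z ∈ vorCell Y v) x y := by
  obtain ⟨a, ha, b, hb, hxa, hyb, hch⟩ := vorch_chain_of_preconnected (A := Y) (K := S) h.lf Subset.rfl hS
    (fun z hz => ⟨vor_cover h.lf h.ne z, hz⟩) hx hy
  have hown : ∀ (s v : ℂ), s ∈ Y → s ∈ vorCell Y v → v = s := by
    intro s v hs hsv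
    have h0 := hsv s hs
    rw [sub_self, norm_zero] at h0
    exact (sub_eq_zero.1 (norm_le_zero_iff.1 h0)).symm
  have ea : a = x := hown x a x.2 hxa.1
  have eb : b = y := hown y b y.2 hyb.1
  have key : ∀ b' : ℂ, ReflTransGen (VorchR Y Y S) a b' → ∃ hb' : b' ∈ Y, ReflTransGen (fun u v : ↥Y => (delbPl Y).toMap.Adj u v ∧ ∃ z ∈ S, z ∈ vorCell Y v) x ⟨b', hb'⟩ := by
    intro b' hb'
    induction hb' with
    | refl => exact ⟨ha, by
        have : (⟨a, ha⟩ : ↥Y) = x := Subtype.ext ea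
        rw [this]⟩
    | @tail v w _ hvw ih =>
      obtain ⟨hv, hch'⟩ := ih
      obtain ⟨-, hw, z, ⟨hzv, hzw⟩, hzS⟩ := hvw
      refine ⟨hw, ?_⟩
      by_cases e : v = w
      · subst e; exact hch'
      · refine hch'.tail ⟨?_, z, hzS, hzw⟩
        rw [delb_pl_eq h]
        exact (dls_adj_iff h ⟨v, hv⟩ ⟨w, hw⟩).2 ⟨hv, hw, e, z, hzv, hzw⟩
  obtain ⟨hb', hw⟩ := key b hch
  have : (⟨b, hb'⟩ : ↥Y) = y := Subtype.ext eb
  rwa [this] at hw

/-- **REGION AT ONE CONFIGURATION** = the hypothesis `hreg` of `pvcu_cl` (260), VERBATIM -/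
theorem pvny_rreg {ρ r : ℝ} {Ew UN Lam Zn Z' K : Set ℂ} (R : PvnyRReg ρ r Ew UN Lam Zn Z' K) {η : Conf PvPt} (hη : DelGood (cfSites η)) (hm : PvtrMesh ρ Ew (cfSites η)) :
    ∀ c₀ a : ↥(cfSites η), (c₀ : ℂ) ∈ Z' → (a : ℂ) ∈ Lam → ReflTransGen (fun u v => (pvkiT η).Adj u v ∧ (v : ℂ) ∉ Zn) c₀ a := by
  intro c₀ a hc ha
  obtain ⟨w, hwK, hwa⟩ := R.exit a ha
  have hS : IsPreconnected (K ∪ segment ℝ (a : ℂ) w) :=
    IsPreconnected.union w hwK (right_mem_segment ℝ _ _) R.pre (convex_segment _ _).isPreconnected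
  have hwalk := pvny_rwalk hη hS (x := c₀) (y := a) (Or.inl (R.ZK hc)) (Or.inr (left_mem_segment ℝ _ _))
  refine ReflTransGen.mono ?_ _ _ hwalk
  rintro u v ⟨hadj, z, hzS, hzv⟩
  refine ⟨hadj, fun hvZ => ?_⟩
  have hdeep := R.deep _ hvZ
  rcases hzS with hzK | hzs
  · obtain ⟨z', hz's, hz'U, hz'c⟩ := R.collar z hzK _ hvZ
    have hz'v : z' ∈ vorCell (cfSites η) v := (vor_convex_cell _ _).segment_subset hzv (vor_self_mem _ _) hz's
    obtain ⟨s, hs, hsz⟩ := hm z' hz'c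
    have h1 : ‖z' - (v : ℂ)‖ ≤ ρ := (hz'v s hs).trans hsz
    exact hz'U (hdeep (by rw [mem_closedBall, dist_eq_norm]; exact h1.trans R.le))
  · have h1 : ‖z - (v : ℂ)‖ ≤ ‖z - (a : ℂ)‖ := hzv a a.2
    have h2 : dist (a : ℂ) z + dist z w = dist (a : ℂ) w := dist_add_dist_of_mem_segment hzs
    have h3 : dist w (v : ℂ) ≤ r := by
      calc dist w (v : ℂ) ≤ dist w z + dist z (v : ℂ) := dist_triangle _ _ _
        _ ≤ dist z w + dist (a : ℂ) z := by
            rw [dist_comm w z, dist_eq_norm z (v : ℂ), dist_comm (a : ℂ) z, dist_eq_norm z (a : ℂ)]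
            linarith
        _ = dist (a : ℂ) w := by rw [← h2]; ring
        _ ≤ r := by rw [dist_comm, dist_eq_norm]; exact hwa
    exact Set.disjoint_left.1 R.off hwK (hdeep (mem_closedBall.2 h3))

/-- **THE COLLAR**: if a `δ`-neighbourhood of `UN` lies in `C`, a segment from a point off `UN` to a point of `UN` passes at a point of `C` off `UN` -/
theorem pvny_rcollar {UN C : Set ℂ} {δ : ℝ} (hδ : 0 < δ) (hC : ∀ x ∈ UN, ball x δ ⊆ C) {z v : ℂ} (hz : z ∉ UN) (hv : v ∈ UN) : ∃ z' ∈ segment ℝ z v, z' ∉ UN ∧ z' ∈ C := by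
  have hpre : IsPreconnected (segment ℝ z v) := (convex_segment z v).isPreconnected
  have hδ2 : 0 < δ / 2 := by positivity
  obtain ⟨y, -, hy1, hy2⟩ := hpre (⋃ x ∈ UN ∩ segment ℝ z v, ball x (δ / 2)) (⋃ x ∈ segment ℝ z v \ UN, ball x (δ / 2))
    (isOpen_biUnion fun _ _ => isOpen_ball) (isOpen_biUnion fun _ _ => isOpen_ball)
    (fun x hx => by
      by_cases hU : x ∈ UN
      · exact Or.inl (mem_biUnion (⟨hU, hx⟩ : x ∈ UN ∩ segment ℝ z v) (mem_ball_self hδ2))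
      · exact Or.inr (mem_biUnion (⟨hx, hU⟩ : x ∈ segment ℝ z v \ UN) (mem_ball_self hδ2)))
    ⟨v, right_mem_segment ℝ z v, mem_biUnion (⟨hv, right_mem_segment ℝ z v⟩ : v ∈ UN ∩ segment ℝ z v) (mem_ball_self hδ2)⟩
    ⟨z, left_mem_segment ℝ z v, mem_biUnion (⟨left_mem_segment ℝ z v, hz⟩ : z ∈ segment ℝ z v \ UN) (mem_ball_self hδ2)⟩
  obtain ⟨x₁, ⟨hx₁U, -⟩, hy1⟩ := mem_iUnion₂.1 hy1
  obtain ⟨x₂, ⟨hx₂s, hx₂U⟩, hy2⟩ := mem_iUnion₂.1 hy2
  refine ⟨x₂, hx₂s, hx₂U, hC x₁ hx₁U ?_⟩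
  rw [mem_ball] at hy1 hy2 ⊢
  calc dist x₂ x₁ ≤ dist x₂ y + dist y x₁ := dist_triangle _ _ _
    _ < δ / 2 + δ / 2 := by rw [dist_comm x₂ y]; exact add_lt_add hy2 hy1
    _ = δ := by ring

/-- **THE CLAUSE WITH THE ROAD `K := UNᶜ`**: the complement of `UN` is connected, a neighbourhood of `UN` lies in the core of the window, `Lam` = the `r`-layer of `UN`, `Zn = UN \ Lam`, `Z'` off `UN` -/
theorem pvny_rreg_compl {ρ r δ : ℝ} {Ew UN Lam Z' : Set ℂ} (hle : ρ ≤ r) (hpre : IsPreconnected UNᶜ) (hZ : Disjoint Z' UN) (hδ : 0 < δ) (hC : ∀ x ∈ UN, ball x δ ⊆ pvtrCore ρ Ew)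
    (hex : ∀ a ∈ Lam, ¬ closedBall a r ⊆ UN) (hlam : ∀ a ∈ UN, a ∉ Lam → closedBall a r ⊆ UN) : PvnyRReg ρ r Ew UN Lam (UN \ Lam) Z' UNᶜ where
  le := hle
  pre := hpre
  off := disjoint_compl_left
  ZK := fun x hx hU => Set.disjoint_left.1 hZ hx hU
  exit := fun a ha => by
    obtain ⟨w, hw, hwU⟩ := Set.not_subset.1 (hex a ha)
    exact ⟨w, hwU, by rwa [mem_closedBall, dist_eq_norm] at hw⟩
  deep := fun v hv => hlam v hv.1 hv.2
  collar := fun z hz v hv => pvny_rcollar hδ hC hz hv.1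

end Claimed.Agent.R289
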