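import Claimed.Agent.R289.Exit.ArcRP
import Claimed.Agent.R289.Tr.RegO

/-!
# Row 289 (S0537), THE WALL, ROAD P, Tr/N1RegQ : THE REGIONS OF THE FREE SIDE OF A PATTERN, GENERIC CONSTRUCTION      (pen helper212; prefix `pvvr_`, `pvvr`, `Pvvr`)

`exit_pvus_reg` (286, `Exit/ArcRP.lean`) asks, per live black pattern, a record `G : PvusReg` with the contract `PvusReg.Ok`.      HERE: **L1 = THE MODEL FREE HALF**.
INPUT `I : PvvrIn` : the two placed candidates, the patch `(x,R)`, the mesh `rho` of the tube,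
* `Tb`  THE TUBE: a set which contains the vertices of the runs of all the fitting rims;      * `Zx`  the rest of THE CORE ZONE: what else must lie DEEP in the region of `N_g` (thickened lane, two discs);
* `Cl`  THE CLOSING SIDE: a set which contains the corridor;      * `δ L` the ring lane;   `B a0`.
THE TERMS.   `Zc := Tb ∪ Zx`,   `Zf` := the `2 rho`-fattening of `Zc`,   `Cl3` := the `3 rho`-fattening of `Cl`,   `Ext` := the exterior of the disc `5R`,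
`Rd` := THE ROADS = the union of the components of the complement of `Zf` WHICH MEET `Cl3 ∪ Ext`,   **`UN := Rdᶜ`** (= `Zf` with all its holes FILLED, except the holes which carry a piece of the closing side: MISFIT of 212 14:20Z, cure of 79 14:45Z),
`Lam` := the `2 rho`-layer of `UN`,   `U := Tb` minus the three pieces of the lane,   `Kr := UN ∪ S₂(s) ∪ S₂(t)`,   `Ew = T :=` the `3 rho`-fattening of `UN` `∪ Ep(s) ∪ Em(t) ∪ S3`.
THE SHORT LIST `PvvrIn.Ok` : METRIC FACTS ONLY (no topological hypothesis).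
PROVED FROM IT: `Ok.wfA` (`PvzzPar.WfA` of 212, all fields), `Ok.rg` (`PvnjPar.Rg` of 59, all fields, given `cor ⊆ Cl`), `U_sub`, `Zc_deep` (the core zone is off the layer), `Ok.Cl_off`, `ball_core`,
**`road`** (every point of the layer is within `2 rho` of a road `K`: preconnected, off `UN`, MAXIMAL off `Zf`, meets `Cl3 ∪ Ext`), **`Ok.rreg`** (= `PvnyRReg` of 279 per point of the layer, `Z'` := a STATION `v ∈ V`, as soon as every point of `Cl3 ∪ Ext` is joined to a station off `Zf`),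
`Ok.compl_pre` (`IsPreconnected UNᶜ` if every point of `Cl` is joined to `Ext` off `Zf`).
-/

set_option autoImplicit false
set_option linter.unusedSectionVars false
set_option linter.unusedVariables false

namespace Claimed.Agent.R289

open MeasureTheory Filter Topology Set Metric Claims.C0465
open scoped ENNReal

/-! ## 1. the terms -/

/-- **THE INPUT OF THE REGIONS** -/
structure PvvrIn where
  N : PvspNum
  s : PvspTy
  t : PvspTy
  zs : ℂ
  zt : ℂ
  h : ℝ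
  x : ℂ
  R : ℝ
  /-- the tube: the vertices of the runs of the fitting rims -/
  Tb : Set ℂ
  /-- the rest of the core zone -/
  Zx : Set ℂ
  /-- the closing side -/
  Cl : Set ℂ
  δ : ℝ
  L : List (ℤ × ℤ)
  rho : ℝ
  B : Set ℂ
  a0 : ℝ

namespace PvvrIn

variable (I : PvvrIn)

noncomputable def Os : Set ℂ := pvspO I.N I.s I.zs I.h
noncomputable def Ot : Set ℂ := pvspO I.N I.t I.zt I.h
def S3 : Set ℂ := pvlnW I.δ I.L
/-- the core zone -/
def Zc : Set ℂ := I.Tb ∪ I.Zx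
/-- the fattened core zone -/
def Zf : Set ℂ := ⋃ a ∈ I.Zc, closedBall a (2 * I.rho)
/-- the fattened closing side -/
def Cl3 : Set ℂ := ⋃ q ∈ I.Cl, closedBall q (3 * I.rho)
/-- the exterior -/
def Ext : Set ℂ := {w | 5 * I.R ≤ ‖w - I.x‖}
/-- THE ROADS: the components of the complement of the fattened core zone which meet the fattened closing side or the exterior -/
def Rd : Set ℂ := {a | a ∈ I.Zfᶜ ∧ (connectedComponentIn I.Zfᶜ a ∩ (I.Cl3 ∪ I.Ext)).Nonempty}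
/-- **THE REGION OF `N_g`**: the fattened core zone, its holes without closing side FILLED -/
def UN : Set ℂ := I.Rdᶜ
/-- its layer -/
noncomputable def Lam : Set ℂ := {a | a ∈ I.UN ∧ ¬ closedBall a (2 * I.rho) ⊆ I.UN}
/-- the tube of record -/
noncomputable def U : Set ℂ := I.Tb \ ((I.s.Mp \ I.Os) ∪ (I.t.Mm \ I.Ot) ∪ I.S3)
noncomputable def Kr : Set ℂ := I.UN ∪ I.s.reg I.N I.zs I.h .S2 ∪ I.t.reg I.N I.zt I.h .S2
/-- the window -/
noncomputable def Ew : Set ℂ := (⋃ a ∈ I.UN, closedBall a (3 * I.rho)) ∪ I.s.Ep ∪ I.t.Em ∪ I.S3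
/-- **THE RECORD OF 286** -/
noncomputable def toReg : PvusReg := ⟨I.U, I.UN, I.Ew, I.Ew, I.B, I.a0, I.δ, I.L, I.Lam, I.Kr, I.rho⟩

/-- **THE SHORT LIST** -/
structure Ok (mcs mct : ℝ) : Prop where
  ws : I.s.Wf I.N I.zs I.h
  wt : I.t.Wf I.N I.zt I.h
  col : I.t.col = I.s.col
  β0 : 0 ≤ I.N.β
  rho0 : 0 < I.rho
  rho_le : I.rho ≤ I.N.mu * I.h
  R0 : 0 < I.R
  rhoR : 3 * I.rho ≤ I.R
  /-- the core zone lies well inside the patch -/
  Zc_win : ∀ a ∈ I.Zc, ‖a - I.x‖ + 2 * I.rho < 5 * I.R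
  /-- the closing side is far from the core zone -/
  cl_far : ∀ q ∈ I.Cl, ∀ a ∈ I.Zc, 5 * I.rho < ‖q - a‖
  Ep_Cl : Disjoint I.s.Ep I.Cl
  Em_Cl : Disjoint I.t.Em I.Cl
  S3_Cl : Disjoint I.S3 I.Cl
  Ep_win : I.s.Ep ⊆ closedBall I.x (6 * I.R)
  Em_win : I.t.Em ⊆ closedBall I.x (6 * I.R)
  S3_win : I.S3 ⊆ closedBall I.x (6 * I.R)
  zone : I.s.reg I.N I.zs I.h .S2 ∪ I.t.reg I.N I.zt I.h .S2 ⊆ ball I.x (4 * I.R)
  dis : Disjoint (I.s.reg I.N I.zs I.h .S2) (I.t.reg I.N I.zt I.h .S2)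
  lo_s : I.s.b I.N 0 + 2 * I.N.mu ≤ mcs
  hi_s : mcs + 2 * I.N.mu ≤ I.s.a I.N 1
  lo_t : I.t.b I.N 0 + 2 * I.N.mu ≤ mct
  hi_t : mct + 2 * I.N.mu ≤ I.t.a I.N 1
  Mp_Ot : Disjoint I.s.Mp I.Ot
  Mm_Os : Disjoint I.t.Mm I.Os
  S3_Os : Disjoint I.S3 I.Os
  S3_Ot : Disjoint I.S3 I.Ot
  B_bdd : Bornology.IsBounded I.B
  B_meas : MeasurableSet I.B
  a00 : 0 < I.a0

end PvvrIn

theorem pvvr_eqns_cite : True := by
  have := @PvvrIn.Os.eq_1; have := @PvvrIn.Ot.eq_1; have := @PvvrIn.S3.eq_1; have := @PvvrIn.Zc.eq_1; have := @PvvrIn.Zf.eq_1; have := @PvvrIn.Cl3.eq_1; have := @PvvrIn.Ext.eq_1; have := @PvvrIn.Rd.eq_1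
  have := @PvvrIn.UN.eq_1; have := @PvvrIn.Lam.eq_1; have := @PvvrIn.U.eq_1; have := @PvvrIn.Kr.eq_1; have := @PvvrIn.Ew.eq_1; have := @PvvrIn.toReg.eq_1
  trivial

/-! ## 2. the region -/

/-- the exterior of a round disc is connected -/
theorem pvvr_ext_preconn (z : ℂ) {b : ℝ} (hb : 0 < b) : IsPreconnected {w : ℂ | b ≤ ‖w - z‖} := by
  have h1 : IsPreconnected (Set.Ici b ×ˢ Metric.sphere (0 : ℂ) 1) :=
    isPreconnected_Ici.prod (isPreconnected_sphere (by rw [Complex.rank_real_complex]; norm_num) 0 1)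
  have h2 := h1.image (fun p : ℝ × ℂ => z + (p.1 : ℂ) * p.2) (by fun_prop)
  convert h2 using 1
  ext w
  constructor
  · intro h3
    have h3' : b ≤ ‖w - z‖ := h3
    have hz : ‖w - z‖ ≠ 0 := by linarith
    have hz' : ((‖w - z‖ : ℝ) : ℂ) ≠ 0 := by exact_mod_cast hz
    refine ⟨(‖w - z‖, (w - z) / ‖w - z‖), ⟨h3', ?_⟩, ?_⟩
    · simp [hz]
    · show z + ((‖w - z‖ : ℝ) : ℂ) * ((w - z) / ‖w - z‖) = w
      field_simp
      ring
  · rintro ⟨⟨t, u⟩, ⟨h3, h5⟩, rfl⟩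
    have h3' : b ≤ t := h3
    have h6 : ‖u‖ = 1 := by simpa using h5
    show b ≤ ‖z + ((t : ℝ) : ℂ) * u - z‖
    rw [add_sub_cancel_left, norm_mul, h6, mul_one, Complex.norm_real, Real.norm_of_nonneg (by linarith)]
    exact h3'

namespace PvvrIn

variable {I : PvvrIn}

theorem Rd_sub : I.Rd ⊆ I.Zfᶜ := fun _ h => h.1

/-- the fattened core zone lies in the region -/
theorem Zf_sub : I.Zf ⊆ I.UN := fun a ha hK => Rd_sub hK ha

theorem compl_UN : I.UNᶜ = I.Rd := by unfold UN; rw [compl_compl]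

theorem Rd_of_mem {a : ℂ} (h1 : a ∈ I.Zfᶜ) (h2 : a ∈ I.Cl3 ∪ I.Ext) : a ∈ I.Rd := ⟨h1, a, mem_connectedComponentIn h1, h2⟩

/-- a road is a whole component -/
theorem Rd_comp {a : ℂ} (ha : a ∈ I.Rd) : connectedComponentIn I.Zfᶜ a ⊆ I.Rd := by
  intro b hb
  refine ⟨connectedComponentIn_subset _ _ hb, ?_⟩
  rw [← connectedComponentIn_eq hb]
  exact ha.2

/-- **THE CORE ZONE IS DEEP IN THE REGION** -/
theorem Zc_ball {a : ℂ} (ha : a ∈ I.Zc) : closedBall a (2 * I.rho) ⊆ I.UN :=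
  fun y hy => Zf_sub (mem_iUnion₂.2 ⟨a, ha, hy⟩)

theorem Zc_sub (h0 : 0 < I.rho) : I.Zc ⊆ I.UN := fun a ha => Zc_ball ha (mem_closedBall_self (by positivity))

theorem Zc_deep (h0 : 0 < I.rho) : I.Zc ⊆ I.UN \ I.Lam := fun a ha => ⟨Zc_sub h0 ha, fun h => h.2 (Zc_ball ha)⟩

theorem U_Tb : I.U ⊆ I.Tb := fun _ h => h.1

theorem U_Zc : I.U ⊆ I.Zc := fun _ h => Or.inl h.1

/-- field `UU` -/
theorem U_sub (h0 : 0 < I.rho) : I.U ⊆ I.UN := U_Zc.trans (Zc_sub h0)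

theorem U_Lam : Disjoint I.U I.Lam := Set.disjoint_left.2 fun a ha h => h.2 (Zc_ball (U_Zc ha))

/-- field `lam` -/
theorem lam_ball {a : ℂ} (ha : a ∈ I.UN) (hl : a ∉ I.Lam) : closedBall a (2 * I.rho) ⊆ I.UN := by
  by_contra hc
  exact hl ⟨ha, hc⟩

theorem UN_Ew (h0 : 0 < I.rho) : I.UN ⊆ I.Ew := fun a ha =>
  Or.inl (Or.inl (Or.inl (mem_iUnion₂.2 ⟨a, ha, mem_closedBall_self (by positivity)⟩)))

theorem UN_core : I.UN ⊆ pvtrCore (3 * I.rho) I.Ew := fun a ha y hy => Or.inl (Or.inl (Or.inl (mem_iUnion₂.2 ⟨a, ha, hy⟩)))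

/-- a neighbourhood of the region lies in the `rho`-core of the window (input `hC` of `pvny_rreg_compl` of 279) -/
theorem ball_core {a : ℂ} (ha : a ∈ I.UN) : ball a (2 * I.rho) ⊆ pvtrCore I.rho I.Ew := by
  intro y hy w hw
  refine UN_core ha ?_
  rw [mem_ball] at hy
  rw [mem_closedBall] at hw ⊢
  have := dist_triangle w y a
  linarith

variable {mcs mct : ℝ}

theorem Ok.ext_off (H : I.Ok mcs mct) : I.Ext ⊆ I.Zfᶜ := by
  intro w hw hf
  obtain ⟨a, ha, hwa⟩ := mem_iUnion₂.1 hf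
  have h1 := H.Zc_win a ha
  rw [mem_closedBall, dist_eq_norm] at hwa
  have hw' : 5 * I.R ≤ ‖w - I.x‖ := hw
  have h2 : ‖w - I.x‖ ≤ ‖w - a‖ + ‖a - I.x‖ := by
    calc ‖w - I.x‖ = ‖(w - a) + (a - I.x)‖ := by ring_nf
      _ ≤ _ := norm_add_le _ _
  linarith

/-- the exterior of the disc `5R` is a road -/
theorem Ok.ext_Rd (H : I.Ok mcs mct) : I.Ext ⊆ I.Rd := fun w hw => Rd_of_mem (H.ext_off hw) (Or.inr hw)

/-- **the region lies in the disc `5R`** -/
theorem Ok.UN_ball (H : I.Ok mcs mct) : I.UN ⊆ ball I.x (5 * I.R) := by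
  intro a ha
  rw [mem_ball, dist_eq_norm]
  by_contra hc
  rw [not_lt] at hc
  exact ha (H.ext_Rd hc)

theorem Ok.Cl3_off (H : I.Ok mcs mct) : I.Cl3 ⊆ I.Zfᶜ := by
  intro w hw hf
  obtain ⟨q, hq, hw⟩ := mem_iUnion₂.1 hw
  obtain ⟨a, ha, hwa⟩ := mem_iUnion₂.1 hf
  have h1 := H.cl_far q hq a ha
  rw [mem_closedBall, dist_eq_norm] at hwa hw
  have h2 : ‖q - a‖ ≤ ‖w - q‖ + ‖w - a‖ := by
    calc ‖q - a‖ = ‖(w - a) - (w - q)‖ := by ring_nf
      _ ≤ ‖w - a‖ + ‖w - q‖ := norm_sub_le _ _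
      _ = _ := add_comm _ _
  linarith

/-- the `3 rho`-ball of a point of the closing side lies in the roads -/
theorem Ok.Cl_ball (H : I.Ok mcs mct) {q : ℂ} (hq : q ∈ I.Cl) : closedBall q (3 * I.rho) ⊆ I.Rd := fun w hw =>
  have h3 : w ∈ I.Cl3 := mem_iUnion₂.2 ⟨q, hq, hw⟩
  Rd_of_mem (H.Cl3_off h3) (Or.inl h3)

/-- the closing side is off the region -/
theorem Ok.Cl_off (H : I.Ok mcs mct) : Disjoint I.Cl I.UN :=
  Set.disjoint_left.2 fun q hq hU => hU (H.Cl_ball hq (mem_closedBall_self (by have := H.rho0; positivity)))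

/-- **THE ROAD OF A POINT OF THE LAYER**: preconnected, off the region, within `2 rho` of the point, it meets the fattened closing side or the exterior, and it is MAXIMAL off the fattened core zone -/
theorem road {a : ℂ} (ha : a ∈ I.Lam) : ∃ K : Set ℂ, IsPreconnected K ∧ Disjoint K I.UN ∧ (∃ w ∈ K, ‖w - a‖ ≤ 2 * I.rho) ∧ (K ∩ (I.Cl3 ∪ I.Ext)).Nonempty ∧
    ∀ S : Set ℂ, IsPreconnected S → S ⊆ I.Zfᶜ → (S ∩ K).Nonempty → S ⊆ K := by
  obtain ⟨w, hw, hwU⟩ := Set.not_subset.1 ha.2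
  have hwR : w ∈ I.Rd := by
    by_contra hc
    exact hwU hc
  refine ⟨connectedComponentIn I.Zfᶜ w, isPreconnected_connectedComponentIn, Set.disjoint_left.2 fun y hy hU => hU (Rd_comp hwR hy),
    ⟨w, mem_connectedComponentIn hwR.1, by rwa [mem_closedBall, dist_eq_norm] at hw⟩, hwR.2, ?_⟩
  rintro S hS hoff ⟨y, hyS, hyK⟩
  rw [connectedComponentIn_eq hyK]
  exact hS.subset_connectedComponentIn hyS hoff

/-- **(F6), TRUE FORM: `PvnyRReg` OF 279 PER POINT OF THE LAYER.**   `V` = THE STATIONS (sets which the closing chain visits): every point of the fattened closing side and of the exterior is joined to a station off the fattened core zone -/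
theorem Ok.rreg (H : I.Ok mcs mct) {V : Set (Set ℂ)} (hV : ∀ q ∈ I.Cl3 ∪ I.Ext, ∃ S : Set ℂ, IsPreconnected S ∧ S ⊆ I.Zfᶜ ∧ q ∈ S ∧ ∃ v ∈ V, v ⊆ S) {a : ℂ} (ha : a ∈ I.Lam) :
    ∃ v ∈ V, ∃ K : Set ℂ, PvnyRReg I.rho (2 * I.rho) I.Ew I.UN {a} (I.UN \ I.Lam) v K := by
  obtain ⟨K, hpre, hoff, hex, ⟨q, hqK, hq⟩, hmax⟩ := road ha
  obtain ⟨S, hS, hSo, hqS, v, hv, hvS⟩ := hV q hq
  have h0 := H.rho0
  refine ⟨v, hv, K, ?_⟩
  exact
    { le := by linarith
      pre := hpre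
      off := hoff
      ZK := hvS.trans (hmax S hS hSo ⟨q, hqS, hqK⟩)
      exit := fun b hb => by rw [mem_singleton_iff.1 hb]; exact hex
      deep := fun v hv => lam_ball hv.1 hv.2
      collar := fun z hz v hv => pvny_rcollar (δ := 2 * I.rho) (by positivity) (fun x hx => ball_core hx) (fun hU => Set.disjoint_left.1 hoff hz hU) hv.1 }

/-- the complement of the region is connected as soon as every point of the closing side is joined to the exterior off the fattened core zone -/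
theorem Ok.compl_pre (H : I.Ok mcs mct) (hK : ∀ q ∈ I.Cl3, (connectedComponentIn I.Zfᶜ q ∩ I.Ext).Nonempty) : IsPreconnected I.UNᶜ := by
  rw [compl_UN]
  have hR : 0 < 5 * I.R := by have := H.R0; positivity
  have hE : IsPreconnected I.Ext := pvvr_ext_preconn I.x hR
  have hfar : I.x + ((5 * I.R : ℝ) : ℂ) ∈ I.Ext := by
    show 5 * I.R ≤ ‖I.x + ((5 * I.R : ℝ) : ℂ) - I.x‖
    rw [add_sub_cancel_left, Complex.norm_real, Real.norm_of_nonneg hR.le]
  have key : I.Rd = connectedComponentIn I.Zfᶜ (I.x + ((5 * I.R : ℝ) : ℂ)) := by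
    have hEc : I.Ext ⊆ connectedComponentIn I.Zfᶜ (I.x + ((5 * I.R : ℝ) : ℂ)) := hE.subset_connectedComponentIn hfar H.ext_off
    apply Subset.antisymm
    · rintro a ⟨ha, y, hy, hy2⟩
      have hy' : ∃ e ∈ I.Ext, e ∈ connectedComponentIn I.Zfᶜ a := by
        rcases hy2 with h3 | h3
        · obtain ⟨e, he, heE⟩ := hK y h3
          exact ⟨e, heE, by rw [connectedComponentIn_eq hy]; exact he⟩
        · exact ⟨y, h3, hy⟩
      obtain ⟨e, heE, hea⟩ := hy'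
      have h5 := hEc heE
      rw [connectedComponentIn_eq h5, ← connectedComponentIn_eq hea]
      exact mem_connectedComponentIn ha
    · exact Rd_comp (H.ext_Rd hfar)
  rw [key]
  exact isPreconnected_connectedComponentIn

/-- **(F6) FROM ONE ROAD**: a preconnected set `A` which contains the closing side, keeps `> 2 rho` from the core zone and reaches the exterior -/
theorem Ok.compl_pre_of (H : I.Ok mcs mct) {A : Set ℂ} (hA : IsPreconnected A) (hCl : I.Cl ⊆ A) (hfar : ∀ q ∈ A, ∀ a ∈ I.Zc, 2 * I.rho < ‖q - a‖) (hE : (A ∩ I.Ext).Nonempty) : IsPreconnected I.UNᶜ := by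
  refine H.compl_pre fun q' hq' => ?_
  obtain ⟨q, hq, hq'q⟩ := mem_iUnion₂.1 hq'
  obtain ⟨e, heA, heE⟩ := hE
  have h0 := H.rho0
  have hS : IsPreconnected (A ∪ closedBall q (3 * I.rho)) :=
    IsPreconnected.union q (hCl hq) (mem_closedBall_self (by positivity)) hA isPreconnected_closedBall
  have hoff : A ∪ closedBall q (3 * I.rho) ⊆ I.Zfᶜ := by
    rintro w (hw | hw)
    · intro hf
      obtain ⟨a, ha, hwa⟩ := mem_iUnion₂.1 hf
      have := hfar w hw a ha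
      rw [mem_closedBall, dist_eq_norm] at hwa
      linarith
    · exact H.Cl3_off (mem_iUnion₂.2 ⟨q, hq, hw⟩)
  exact ⟨e, hS.subset_connectedComponentIn (Or.inr hq'q) hoff (Or.inl heA), heE⟩

/-- **THE WINDOW MISSES THE CLOSING SIDE** -/
theorem Ok.Ew_Cl (H : I.Ok mcs mct) : Disjoint I.Ew I.Cl := by
  rw [Set.disjoint_left]
  rintro q (((hq | hq) | hq) | hq) hC
  · obtain ⟨a, ha, hqa⟩ := mem_iUnion₂.1 hq
    refine ha (H.Cl_ball hC ?_)
    rw [mem_closedBall] at hqa ⊢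
    rwa [dist_comm]
  · exact Set.disjoint_left.1 H.Ep_Cl hq hC
  · exact Set.disjoint_left.1 H.Em_Cl hq hC
  · exact Set.disjoint_left.1 H.S3_Cl hq hC

/-- field `win` -/
theorem Ok.Ew_win (H : I.Ok mcs mct) : I.Ew ⊆ closedBall I.x (6 * I.R) := by
  rintro q (((hq | hq) | hq) | hq)
  · obtain ⟨a, ha, hqa⟩ := mem_iUnion₂.1 hq
    have h1 := H.UN_ball ha
    have h2 := H.rhoR
    rw [mem_ball] at h1
    rw [mem_closedBall] at hqa ⊢
    have := dist_triangle q a I.x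
    linarith
  · exact H.Ep_win hq
  · exact H.Em_win hq
  · exact H.S3_win hq

/-- the star zone of a candidate, fattened by `3 rho`, lies in the region of its state -/
theorem _root_.Claimed.Agent.R289.pvvr_S2_core {N : PvspNum} {t : PvspTy} {z : ℂ} {h ρ : ℝ} (W : t.Wf N z h) (hρ : ρ ≤ N.mu * h) {a : ℂ} (ha : a ∈ t.reg N z h .S2) :
    closedBall a (3 * ρ) ⊆ pvspO N t z h := by
  intro y hy
  have ha' : a ∈ closedBall z ((t.b N 1 + 1) * h) := ha
  show y ∈ closedBall z (t.rO N * h)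
  rw [mem_closedBall] at hy ha' ⊢
  have h1 := dist_triangle y a z
  have h2 := mul_le_mul_of_nonneg_right W.rO W.h0.le
  nlinarith

theorem Ok.Os_Ew (H : I.Ok mcs mct) : I.Os ⊆ I.Ew := fun a ha => Or.inl (Or.inl (Or.inr (H.ws.O_p ha)))

theorem Ok.Ot_Ew (H : I.Ok mcs mct) : I.Ot ⊆ I.Ew := fun a ha => Or.inl (Or.inr (H.wt.O_m ha))

theorem Ok.Kr_core (H : I.Ok mcs mct) : I.Kr ⊆ pvtrCore (3 * I.rho) I.Ew := by
  rintro a ((ha | ha) | ha)
  · exact UN_core ha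
  · exact (pvvr_S2_core H.ws H.rho_le ha).trans H.Os_Ew
  · exact (pvvr_S2_core H.wt H.rho_le ha).trans H.Ot_Ew

/-- **THE CONTRACT `PvzzPar.WfA` OF 212**, all fields -/
theorem Ok.wfA (H : I.Ok mcs mct) : (⟨I.N, I.s, I.t, I.zs, I.zt, I.h, mcs, mct, I.U, I.UN, I.Lam, I.Kr, I.Ew, I.rho⟩ : PvzzPar).WfA I.x I.R where
  ws := H.ws
  wt := H.wt
  col := H.col
  sK := fun a ha => Or.inl (Or.inr ha)
  tK := fun a ha => Or.inr ha
  UK := fun a ha => Or.inl (Or.inl ha)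
  gU := U_sub H.rho0
  gL := U_Lam
  core := H.Kr_core
  sE := H.Os_Ew
  tE := H.Ot_Ew
  rho0 := H.rho0
  rho_le := H.rho_le
  R0 := H.R0
  win := H.Ew_win
  zone := H.zone
  dis := H.dis
  lo_s := H.lo_s
  hi_s := H.hi_s
  lo_t := H.lo_t
  hi_t := H.hi_t
  lam := fun a ha hl => lam_ball ha hl

theorem Ok.Mp_Ew (H : I.Ok mcs mct) : I.s.Mp ⊆ I.Ew := fun a ha =>
  Or.inl (Or.inl (Or.inr (H.ws.core_p (Or.inr ha) (mem_closedBall_self (by have := H.ws.mu0; have := H.ws.h0; positivity)))))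

theorem Ok.Mm_Ew (H : I.Ok mcs mct) : I.t.Mm ⊆ I.Ew := fun a ha =>
  Or.inl (Or.inr (H.wt.core_m (Or.inr ha) (mem_closedBall_self (by have := H.wt.mu0; have := H.wt.h0; positivity))))

/-- **THE CONTRACT `PvnjPar.Rg` OF 59**, all fields, as soon as the corridor lies over the closing side -/
theorem Ok.rg (H : I.Ok mcs mct) {τ : Type} {𝔭 : PvnjPar τ} {q3 : ℝ} (hq : 0 ≤ q3) (eN : 𝔭.N = I.N) (es : 𝔭.s = I.s) (et : 𝔭.t = I.t) (ezs : 𝔭.π.zs = I.zs) (ezt : 𝔭.π.zt = I.zt)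
    (eh : 𝔭.h = I.h) (er : 𝔭.𝔯 = I.toReg.reg q3) (hcor : 𝔭.cor ⊆ Prod.fst ⁻¹' I.Cl) : 𝔭.Rg := by
  have eOs : 𝔭.Os = I.Os := by unfold PvnjPar.Os PvvrIn.Os; rw [eN, es, ezs, eh]
  have eOt : 𝔭.Ot = I.Ot := by unfold PvnjPar.Ot PvvrIn.Ot; rw [eN, et, ezt, eh]
  have eU : 𝔭.𝔯.U = I.U := by rw [er]; rfl
  have eUN : 𝔭.𝔯.UN = I.UN := by rw [er]; rfl
  have eS3 : 𝔭.𝔯.S3 = I.S3 := by rw [er]; rfl
  have eT : 𝔭.𝔯.T = I.Ew := by rw [er]; rfl
  have eEw : 𝔭.𝔯.Ew = I.Ew := by rw [er]; rfl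
  have eB : 𝔭.𝔯.B = I.B := by rw [er]; rfl
  have ea : 𝔭.𝔯.a0 = I.a0 := by rw [er]; rfl
  have eq : 𝔭.𝔯.q3 = q3 := by rw [er]; rfl
  have hS3 : I.S3 ⊆ I.Ew := fun a ha => Or.inr ha
  refine
    { col := by rw [es, et]; exact H.col.symm
      ws := by rw [es, eN, ezs, eh]; exact H.ws
      wt := by rw [et, eN, ezt, eh]; exact H.wt
      β0 := by rw [eN]; exact H.β0
      q30 := by rw [eq]; exact hq
      T_bdd := by rw [eT]; exact isBounded_closedBall.subset H.Ew_win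
      Os_T := by rw [eT, eOs]; exact H.Os_Ew
      Ot_T := by rw [eT, eOt]; exact H.Ot_Ew
      U_T := by rw [eT, eU]; exact (U_sub H.rho0).trans (UN_Ew H.rho0)
      UN_T := by rw [eT, eUN]; exact UN_Ew H.rho0
      Mp_T := by rw [eT, es]; exact H.Mp_Ew
      Mm_T := by rw [eT, et]; exact H.Mm_Ew
      S3_T := by rw [eT, eS3]; exact hS3
      U_Mp := by
        rw [eU, es, eOs]
        exact Set.disjoint_left.2 fun a ha hm => ha.2 (Or.inl (Or.inl hm))
      U_Mm := by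
        rw [eU, et, eOt]
        exact Set.disjoint_left.2 fun a ha hm => ha.2 (Or.inl (Or.inr hm))
      U_S3 := by
        rw [eU, eS3]
        exact Set.disjoint_left.2 fun a ha hm => ha.2 (Or.inr hm)
      Mp_Ot := by rw [es, eOt]; exact H.Mp_Ot
      Mm_Os := by rw [et, eOs]; exact H.Mm_Os
      S3_Os := by rw [eS3, eOs]; exact H.S3_Os
      S3_Ot := by rw [eS3, eOt]; exact H.S3_Ot
      Ew_cor := by
        rw [eEw]
        exact Set.disjoint_left.2 fun p hp hc => Set.disjoint_left.1 H.Ew_Cl hp (hcor hc)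
      Ep_Ew := by rw [eEw, es]; exact fun a ha => Or.inl (Or.inl (Or.inr ha))
      Em_Ew := by rw [eEw, et]; exact fun a ha => Or.inl (Or.inr ha)
      S3_Ew := by rw [eEw, eS3]; exact hS3
      B_bdd := by rw [eB]; exact H.B_bdd
      B_meas := by rw [eB]; exact H.B_meas
      a00 := by rw [ea]; exact H.a00 }

end PvvrIn

end Claimed.Agent.R289
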