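import Claimed.Agent.R289.Tr.N1SysD
import Claimed.Agent.R289.Tr.CloseNF

/-!
# Row 289 (S0537, Cardy for Poisson-Voronoi), THE WALL, ROAD P, file Tr/N1SysE : **CLOSE WITH THE THIN ZONE, UNCONDITIONAL**      (pen helper59; prefix `pvnj_`)

The hypothesis `GF : PvnjGF T s` of `Tr/N1SysD` (the map lemma of the cure) is `pvncf_gfaced` of 186 (`Tr/CloseNF`) at `Fb := p.verts ∪ X`.
* `pvnj_GF`      : `T.IsSph → T.Simple → PvnjGF T s`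
* `pvnj_GF_at`   : `PvnjGF` at the Delaunay map of a good configuration
* **`pvnj_ClU`**, **`pvnj_ClU_ae`** = `pvnj_ClT`, `pvnj_ClT_ae` WITHOUT `GF`
All proved, no sorry.
-/

set_option autoImplicit false
set_option linter.unusedSectionVars false
set_option linter.unusedVariables false

namespace Claimed.Agent.R289

open MeasureTheory Filter Topology Set Relation Claims.C0465
open scoped ENNReal

/-- **THE MAP LEMMA OF THE CURE** (186) in the form asked by `Tr/N1SysD` -/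
theorem pvnj_GF {V D : Type} {T : PvMap V D} (hT : T.IsSph) (hS : T.Simple) (s : V → Bool) : PvnjGF T s := by
  intro gs gt Is It p ip im X U Λ hs ht hip0 hip him hB len pre suf off _ hdis hX hlane hΛ hN
  exact pvncf_gfaced hT hS gs gt hs ht hip0 hip him hB len pre suf off hdis hX hlane (Fb := p.verts ∪ X) Set.subset_union_left Set.subset_union_right hΛ hN

theorem pvnj_GF_at {η : Conf PvPt} (hη : DelGood (cfSites η)) (s : ↥(cfSites η) → Bool) : PvnjGF (pvkiT η) s :=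
  pvnj_GF (delb_plane_isSph hη) (delbPl (cfSites η)).toMap_simple s

section close

variable {τ : Type} {𝔭 : PvnjPar τ} {𝔞 : PvzzPar} {𝔢 : ℕ → PvkjEnd ℂ} {KE Mk U : ℕ → Set ℂ} {Zn : Set ℂ}

/-- **CLOSE AT ONE CONFIGURATION, THIN ZONE, UNCONDITIONAL** -/
theorem pvnj_ClU (h𝔞 : 𝔭.𝔞 = 𝔞.toArc) (W : 𝔞.Wf) (hne : ∃ zi, zi ∉ 𝔞.Kr) (Rg : PvnjRegT (𝔭.π.l.length + 2) 𝔢 KE Mk U 𝔞.rs 𝔞.rt 𝔞.Ug Zn 𝔭.𝔯.B 𝔭.𝔯.a0)
    {η : Conf PvPt} (hη : DelGood (cfSites η)) (h : 𝔭.Ct 𝔞 𝔢 KE Mk U Zn η) : 𝔭.Cl η :=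
  pvnj_ClT h𝔞 W hne Rg hη (pvnj_GF_at hη _) h

/-- **CLOSE, a.e., THIN ZONE, UNCONDITIONAL** -/
theorem pvnj_ClU_ae {x : ℂ} {R : ℝ} (hε : 𝔭.ε ≠ 0) (h𝔞 : 𝔭.𝔞 = 𝔞.toArc) (W : 𝔞.WfA x R)
    (Rg : PvnjRegT (𝔭.π.l.length + 2) 𝔢 KE Mk U 𝔞.rs 𝔞.rt 𝔞.Ug Zn 𝔭.𝔯.B 𝔭.𝔯.a0) (h : ∀ᵐ η ∂pvP 𝔭.ε, 𝔭.Ct 𝔞 𝔢 KE Mk U Zn η) : ∀ᵐ η ∂pvP 𝔭.ε, 𝔭.Cl η :=
  pvnj_ClT_ae (fun η hη => pvnj_GF_at hη _) hε h𝔞 W Rg h

end close

end Claimed.Agent.R289
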