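import Claimed.Agent.R289.Tr.N1Q
import Claimed.Agent.R289.Tr.N1R
import Claimed.Agent.R289.Tr.SysP
import Claimed.Agent.R289.Tr.ForceW
import Claimed.Agent.R289.Tr.ForceWI
import Claimed.Agent.R289.Tr.Stab
import Claimed.Agent.R289.S1.Closed

/-!
# Row 289 (S0537, Cardy for Poisson-Voronoi), THE WALL, ROAD P, file Tr/N1SysP : THE SYSTEM OF P17 FOR ONE PATTERN, AT THE MODEL      (pen helper59, second helper225; post of 273; prefix `pvnj_`, `pvnj`, `Pvnj`)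

Design + the fit defects D1-D6 found by typing the term: `origin/helper59:notes/R289/N1SYSP_59.md`.      Blueprint: `origin/helper273:notes/R289/ROADP_273.md` P16', P17.
THE TERM   `𝔭.geo : PvnwGeo (List ℂ) (Fin n) (Fin n)`, `n = π.l.length + 3`   (record of 279, `Tr/N1Q`), for the parameters `𝔭 : PvnjPar τ` of ONE pattern at ONE mesh:
* the closing chain `t -o-> cells of π.l -i-> s` = the cyclic list of sectors of 58 (`PvypDat`, `pvskList`, field `Q` alone: `a := 0`)      [58 183: `PvypPat`]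
* `ι = List ℂ` = the positions of the vertices of the free arc `g`;  `V g` = its entries;  arc event / mass `𝔞.E g`, `𝔞.X g` = record `PvnjArc`      [212: `Tr/ArcP.lean`]
* `E g = 𝔞.E g ∩ Hp(s) ∩ Hm(t) ∩ L3` : ONLY THE HALVES of the quenched event `Hq` which look at the free side (D3), and the colour blind event "the ring part of the lane is good" (D4)
* `W = L^{+,w}(s) ∩ L^{-,w}(t) ∩ K3`  (so the glue of P16' is trivial; the white path is extracted in `close`)      [147: `Tr/ForceW`, `Tr/ForceWI`]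
* regions `U T Ew S3 B` = record `PvnjReg`      [225: `Tr/N1GeoP.lean`]      * `Θ = pvclSum · B a₀` (I.TAIL: `pvcl_closed`).
COLOUR (D1): `c = 𝔭.s.col` is the colour of the rim; the admissible moves are `pvnjLe c (σ' z) (σ z)` (`c = true`: `σ' z ≤ σ z`).
* sec. 1  colour order, half quenched events, `pvnj_Q_congr`      * sec. 2  the records, THE TERM      * sec. 3  THE CONTRACTS of the producers (`PvnjReg.Wf`, `PvnjArc.Ok`, `PvnjPar.Ch`, `PvnjPar.Ln`)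
* sec. 4  the fields of `PvnwGeo.Hyp` at the term, one by one, from the contracts      * sec. 5  the two deep sub-exits `hq` (P16'), `close` (TR13 + TR12 + TR14)      * sec. 6  ACT, STAB, tail.
-/

set_option autoImplicit false
set_option linter.unusedSectionVars false
set_option linter.unusedVariables false

namespace Claimed.Agent.R289

open MeasureTheory Filter Topology Set Claims.C0465
open scoped ENNReal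

/-! ## 1. the colour order, the half quenched events -/

/-- **the admissible move of the colour of a site which is read** (`c` = the colour of the rim): a site which has not the colour of the rim keeps this property.      `c = true`: `a ≤ b`. -/
def pvnjLe (c a b : Bool) : Prop := b ≠ c → a ≠ c

/-- **the half of `Hq_τ` which looks at the exit side** (lane `Mp`, window `Ep`) -/
noncomputable def pvnjHp (N : PvspNum) (t : PvspTy) (z : ℂ) (h : ℝ) : Set (Conf PvPt) :=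
  {ξ | N.β ≤ pvpQ (t.Mp \ pvspO N t z h) (!t.col) (pvspEvt N t z h .pw) ξ}

/-- **the half of `Hq_τ` which looks at the entrance side** (lane `Mm`, window `Em`) -/
noncomputable def pvnjHm (N : PvspNum) (t : PvspTy) (z : ℂ) (h : ℝ) : Set (Conf PvPt) :=
  {ξ | N.β ≤ pvpQ (t.Mm \ pvspO N t z h) (!t.col) (pvspEvt N t z h .mw) ξ}

theorem pvnj_eqns_cite : True := by
  have := @pvnjLe.eq_1; have := @pvnjHp.eq_1; have := @pvnjHm.eq_1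
  trivial

theorem pvnj_le_true (a b : Bool) : pvnjLe true a b ↔ a ≤ b := by
  cases a <;> cases b <;> simp [pvnjLe]

theorem pvnj_le_false (a b : Bool) : pvnjLe false a b ↔ b ≤ a := by
  cases a <;> cases b <;> simp [pvnjLe]

theorem pvnj_le_refl (c a : Bool) : pvnjLe c a a := fun h => h

/-- in the words of 147: more sites of the colour `!c` -/
theorem pvnj_le_iff (c a b : Bool) : pvnjLe c a b ↔ (b = !c → a = !c) := by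
  cases a <;> cases b <;> cases c <;> simp [pvnjLe]

theorem pvnj_Hq_sub (N : PvspNum) (QB : Set (Conf PvPt)) (t : PvspTy) (z : ℂ) (h : ℝ) : pvspHq N QB t z h ⊆ pvnjHp N t z h ∩ pvnjHm N t z h :=
  fun _ hξ => ⟨hξ.1, hξ.2.1⟩

/-- the quenched probability of an event which reads `O ∪ S` is a function of the geometry and of the colours of `O` -/
theorem pvnj_Q_congr {Y O S : Set ℂ} (hfin : (Y ∩ S).Finite) (b : Bool) {𝒜 : Set (Conf PvPt)} (hr : PvfwRd Y (O ∪ S) 𝒜) {σ σ' : ℂ → Bool} (h : ∀ z ∈ Y, z ∈ O → σ' z = σ z) :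
    pvpQ S b 𝒜 (cfOf Y σ') = pvpQ S b 𝒜 (cfOf Y σ) := by
  have h1 := pvfw_Q_eq hfin b 𝒜 σ
  have h2 := pvfw_Q_eq hfin b 𝒜 σ'
  have key : ∀ κ : ℂ → Bool, ∀ z ∈ Y, z ∈ O ∪ S → pvdmOv S κ σ' z = pvdmOv S κ σ z := by
    intro κ z hz hOS
    by_cases hS : z ∈ S
    · rw [pvdm_ov_mem hS, pvdm_ov_mem hS]
    · rw [pvdm_ov_notMem hS, pvdm_ov_notMem hS]
      exact h z hz (hOS.resolve_right hS)
  have e : {κ : ℂ → Bool | cfOf Y (pvdmOv S κ σ') ∈ 𝒜} = {κ : ℂ → Bool | cfOf Y (pvdmOv S κ σ) ∈ 𝒜} := by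
    ext κ
    constructor
    · intro hk
      exact hr _ _ (key κ) hk
    · intro hk
      exact hr _ _ (fun z hz hOS => (key κ z hz hOS).symm) hk
  rw [e, ← h1] at h2
  have p1 : 0 ≤ pvpQ S b 𝒜 (cfOf Y σ) := by
    unfold pvpQ
    positivity
  have p2 : 0 ≤ pvpQ S b 𝒜 (cfOf Y σ') := by
    unfold pvpQ
    positivity
  exact (ENNReal.ofReal_eq_ofReal_iff p2 p1).1 h2

/-! ## 2. the records, THE TERM -/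

/-- **the placed geometry of the FREE side of a pattern**      [225, `Tr/N1GeoP.lean`, from `PvfjOut` of 138 + GLUE-W of 205] -/
structure PvnjReg where
  /-- the tube: the VERTICES of `g` live here -/
  U : Set ℂ
  /-- the region of `N_g` (D7 of 260: it contains the tube, the lane and the two star zones, off its boundary layer) -/
  UN : Set ℂ
  /-- the ring part of the lane (between the ends of `Mp(s)` and `Mm(t)`) -/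
  S3 : Set ℂ
  /-- its net event (147: `pvlnLaneEv`) -/
  K3 : Set (Conf PvPt)
  /-- the quenched lower bound of the net event on the good geometries -/
  q3 : ℝ
  /-- ALL the sites whose colour the `X` side reads -/
  T : Set ℂ
  /-- ONE window: ALL the marked points which the `X` side reads -/
  Ew : Set ℂ
  /-- the closed rims `g ∪ (chain)` live in `B`, their diameter is `≥ a0` -/
  B : Set ℂ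
  a0 : ℝ
  /-- the mesh of the tube (S2 of 236): at the PATTERN scale, a fraction of the fine cell `(Γ m).δ`; it does not depend on `ε` -/
  rho : ℝ

/-- **the arc candidates of a pattern**      [212, `Tr/ArcP.lean`]:   `E g` = mesh of the window + the two states + `g : v₁⁺(σ_s) → v₁⁻(σ_t)` is a path in the tube + `B_g` + `N_g`;
`X g` = (mass of the inner arc of `σ_s` in the cut-off ball of `s`) + (mass of `g` off the two cut-off balls), `0` off `E g`;   `Run η P i j` = the run `P[i,j]` of an encoded rim fits the tube (colour blind in `η`) -/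
structure PvnjArc where
  E : List ℂ → Set (Conf PvPt)
  X : List ℂ → Conf PvPt → ℂ
  Run : Conf PvPt → PvbRim → ℕ → ℕ → Prop

/-- **THE PARAMETERS OF ONE PATTERN AT ONE MESH** -/
structure PvnjPar (τ : Type) where
  /-- chapter E on road P (58) -/
  D : PvypDat τ
  Γ : ℕ → PvtsGeo τ
  /-- the three cell means of `Q` -/
  W : PvtW
  m : ℕ
  ε : ℝ
  π : PvtsPat τ
  /-- the forcing constants of the chain -/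
  q : ℕ → ℝ≥0∞
  /-- numbers and placed geometry of the two candidates (185) -/
  N : PvspNum
  s : PvspTy
  t : PvspTy
  h : ℝ
  𝔯 : PvnjReg
  𝔞 : PvnjArc

/-- the geometries of record: general position, countable, locally finite -/
def pvnjOk (Y : Set ℂ) : Prop := DelGood Y ∧ Y.Countable ∧ ∀ r : ℝ, (Y ∩ Metric.closedBall 0 r).Finite

namespace PvnjPar

variable {τ : Type} (𝔭 : PvnjPar τ)

/-- the number of sectors of the chain -/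
def n : ℕ := 𝔭.π.l.length + 3

/-- the sectors of the closing chain   `t -o-> cells of π.l -i-> s` -/
noncomputable def sec : ℕ → PvsySec PvPt :=
  pvskList (𝔭.D.sOut 𝔭.m 𝔭.ε 𝔭.π.zt 𝔭.π.tt) (𝔭.D.kit 𝔭.m 𝔭.ε) (𝔭.π.zt + (𝔭.Γ 𝔭.m).pout 𝔭.π.tt) ((𝔭.Γ 𝔭.m).dout 𝔭.π.tt) 𝔭.π.l
    (𝔭.D.Ki 𝔭.m 𝔭.ε 𝔭.π.zs 𝔭.π.ts) (𝔭.D.Ai 𝔭.m 𝔭.ε 𝔭.π.zs 𝔭.π.ts) (𝔭.D.sPl 𝔭.m 𝔭.ε 𝔭.π.zs 𝔭.π.ts)

/-- the fields of its connectors (`Q` alone: `a := 0`) -/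
noncomputable def fld : ℕ → Conf PvPt → ℂ :=
  pvskFld (𝔭.D.Xo 𝔭.m 𝔭.ε 0 𝔭.π.zt 𝔭.π.tt) (𝔭.D.kit 𝔭.m 𝔭.ε) (𝔭.D.X₀ 𝔭.m 𝔭.ε 0) (𝔭.π.zt + (𝔭.Γ 𝔭.m).pout 𝔭.π.tt) ((𝔭.Γ 𝔭.m).dout 𝔭.π.tt) 𝔭.π.l
    (𝔭.D.Xi 𝔭.m 𝔭.ε 0 𝔭.π.zs 𝔭.π.ts) 0

/-- the corridor, as a set of marked points -/
def cor : Set PvPt := pvsyC0 (𝔭.π.l.length + 2) 𝔭.sec

/-- the regions of the two states -/
noncomputable def Os : Set ℂ := pvspO 𝔭.N 𝔭.s 𝔭.π.zs 𝔭.h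
noncomputable def Ot : Set ℂ := pvspO 𝔭.N 𝔭.t 𝔭.π.zt 𝔭.h

/-- the two side events of the lane -/
noncomputable def E1 : Set (Conf PvPt) := pvspEvt 𝔭.N 𝔭.s 𝔭.π.zs 𝔭.h .pw
noncomputable def E2 : Set (Conf PvPt) := pvspEvt 𝔭.N 𝔭.t 𝔭.π.zt 𝔭.h .mw

/-- the ring part of the lane is good: a COLOUR BLIND event of the geometry (D4: it also sits in `Fit`) -/
noncomputable def L3 : Set (Conf PvPt) := {ξ | 𝔭.𝔯.q3 ≤ pvpQ 𝔭.𝔯.S3 (!𝔭.s.col) 𝔭.𝔯.K3 ξ}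

/-- **THE TERM** -/
noncomputable def geo : PvnwGeo (List ℂ) (Fin 𝔭.n) (Fin 𝔭.n) where
  Sy := pvsyCyc 𝔭.n 𝔭.sec
  Cu := pvsyFin 𝔭.n (Finset.Ioo 0 (𝔭.π.l.length + 2))
  Cf := pvsyFin 𝔭.n (Finset.range (𝔭.π.l.length + 2))
  X j := 𝔭.fld j
  qf j := 𝔭.q j
  C0 := Prod.fst '' 𝔭.cor
  O2 := 𝔭.Os ∪ 𝔭.Ot
  T := 𝔭.𝔯.T
  Ok := pvnjOk
  V g := {p | p ∈ g}
  E g := 𝔭.𝔞.E g ∩ pvnjHp 𝔭.N 𝔭.s 𝔭.π.zs 𝔭.h ∩ pvnjHm 𝔭.N 𝔭.t 𝔭.π.zt 𝔭.h ∩ 𝔭.L3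
  W := 𝔭.E1 ∩ 𝔭.E2 ∩ 𝔭.𝔯.K3
  Xg := 𝔭.𝔞.X
  Θ η := pvclSum η 𝔭.𝔯.B 𝔭.𝔯.a0
  qW := ENNReal.ofReal (𝔭.𝔯.q3 * 𝔭.N.β ^ 2)

/-- **the mean of the closing chain in normal form** (TR2): `κ_out(σ_t) + ∑ W + κ_in(σ_s)` -/
noncomputable def yN (ζ : Conf PvPt) : ℂ :=
  𝔭.D.kout0 𝔭.Γ 𝔭.m 𝔭.ε 0 𝔭.π.zt 𝔭.π.tt ζ + pvtSum 𝔭.W ((𝔭.Γ 𝔭.m).dout 𝔭.π.tt) 𝔭.π.l + 𝔭.D.kin0 𝔭.Γ 𝔭.m 𝔭.ε 0 𝔭.π.zs 𝔭.π.ts ζ

/-- the datum `g` is present: the two marked states are usable (ANNEALED `G_τ`: D5) and `E g` -/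
def A (g : List ℂ) : Set (Conf PvPt) := 𝔭.D.G 𝔭.m 𝔭.ε 𝔭.π.zt 𝔭.π.tt ∩ 𝔭.D.G 𝔭.m 𝔭.ε 𝔭.π.zs 𝔭.π.ts ∩ 𝔭.geo.E g

/-- **THE INTEGRAND `Z_π` OF RECORD** (field `Z` of `PvrxArc` of 79) -/
noncomputable def Z (ζ : Conf PvPt) : ℝ≥0∞ := ∑' g, (𝔭.A g).indicator (fun ζ => ‖𝔭.𝔞.X g ζ + 𝔭.yN ζ‖ₑ ^ 2) ζ

end PvnjPar

theorem pvnj_eqns_cite2 : True := by
  have := @pvnjOk.eq_1; have := @PvnjPar.n.eq_1; have := @PvnjPar.sec.eq_1; have := @PvnjPar.fld.eq_1; have := @PvnjPar.cor.eq_1; have := @PvnjPar.Os.eq_1; have := @PvnjPar.Ot.eq_1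
  have := @PvnjPar.E1.eq_1; have := @PvnjPar.E2.eq_1; have := @PvnjPar.L3.eq_1; have := @PvnjPar.geo.eq_1; have := @PvnjPar.yN.eq_1; have := @PvnjPar.A.eq_1; have := @PvnjPar.Z.eq_1
  trivial

/-! ## 3. THE CONTRACTS OF THE PRODUCERS -/

namespace PvnjPar

variable {τ : Type} (𝔭 : PvnjPar τ)

/-- **THE CHAIN**      [58 `pvrxDat`, 183 `Tr/PatP.lean`]      D5: the engine's `G` is the ANNEALED `G_τ` (an event of the state), NOT `Gq_τ` -/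
structure Ch : Prop where
  pat : PvypPat 𝔭.D 𝔭.Γ 𝔭.W 0 𝔭.m 𝔭.ε 𝔭.π 𝔭.q
  /-- the regions of the two big plugs are the regions of the states of 185 -/
  Os_eq : 𝔭.D.O 𝔭.m 𝔭.ε 𝔭.π.zs 𝔭.π.ts = Prod.fst ⁻¹' 𝔭.Os
  Ot_eq : 𝔭.D.O 𝔭.m 𝔭.ε 𝔭.π.zt 𝔭.π.tt = Prod.fst ⁻¹' 𝔭.Ot
  /-- the corridor is colour blind and Borel -/
  cor_cb : ∃ C : Set ℂ, MeasurableSet C ∧ 𝔭.cor = Prod.fst ⁻¹' C

/-- **THE REGIONS**      [225 `Tr/N1GeoP.lean`; 8 `pvmh_wf`] -/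
structure Rg : Prop where
  col : 𝔭.s.col = 𝔭.t.col
  ws : 𝔭.s.Wf 𝔭.N 𝔭.π.zs 𝔭.h
  wt : 𝔭.t.Wf 𝔭.N 𝔭.π.zt 𝔭.h
  β0 : 0 ≤ 𝔭.N.β
  q30 : 0 ≤ 𝔭.𝔯.q3
  T_bdd : Bornology.IsBounded 𝔭.𝔯.T
  Os_T : 𝔭.Os ⊆ 𝔭.𝔯.T
  Ot_T : 𝔭.Ot ⊆ 𝔭.𝔯.T
  U_T : 𝔭.𝔯.U ⊆ 𝔭.𝔯.T
  UN_T : 𝔭.𝔯.UN ⊆ 𝔭.𝔯.T
  Mp_T : 𝔭.s.Mp ⊆ 𝔭.𝔯.T
  Mm_T : 𝔭.t.Mm ⊆ 𝔭.𝔯.T
  S3_T : 𝔭.𝔯.S3 ⊆ 𝔭.𝔯.T
  /-- the three pieces of the lane are off the tube and off the two states -/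
  U_Mp : Disjoint 𝔭.𝔯.U (𝔭.s.Mp \ 𝔭.Os)
  U_Mm : Disjoint 𝔭.𝔯.U (𝔭.t.Mm \ 𝔭.Ot)
  U_S3 : Disjoint 𝔭.𝔯.U 𝔭.𝔯.S3
  Mp_Ot : Disjoint 𝔭.s.Mp 𝔭.Ot
  Mm_Os : Disjoint 𝔭.t.Mm 𝔭.Os
  S3_Os : Disjoint 𝔭.𝔯.S3 𝔭.Os
  S3_Ot : Disjoint 𝔭.𝔯.S3 𝔭.Ot
  /-- **THE WINDOW OF THE `X` SIDE MISSES THE CORRIDOR** -/
  Ew_cor : Disjoint (Prod.fst ⁻¹' 𝔭.𝔯.Ew) 𝔭.cor
  Ep_Ew : 𝔭.s.Ep ⊆ 𝔭.𝔯.Ew
  Em_Ew : 𝔭.t.Em ⊆ 𝔭.𝔯.Ew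
  S3_Ew : 𝔭.𝔯.S3 ⊆ 𝔭.𝔯.Ew
  B_bdd : Bornology.IsBounded 𝔭.𝔯.B
  B_meas : MeasurableSet 𝔭.𝔯.B
  a00 : 0 < 𝔭.𝔯.a0

/-- **THE LANE**      [147 `Tr/ForceWI.lean`, 185]:   at a fixed geometry each of the three events reads the colours of its piece (and of the state), and is increasing in the colour `!c` at a frozen state -/
structure Ln : Prop where
  rd1 : ∀ Y, pvnjOk Y → PvfwRd Y (𝔭.Os ∪ 𝔭.s.Mp) 𝔭.E1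
  rd2 : ∀ Y, pvnjOk Y → PvfwRd Y (𝔭.Ot ∪ 𝔭.t.Mm) 𝔭.E2
  rd3 : ∀ Y, pvnjOk Y → PvfwRd Y 𝔭.𝔯.S3 𝔭.𝔯.K3
  inc1 : ∀ Y, pvnjOk Y → ∀ σ, PvfwInc (!𝔭.s.col) Y 𝔭.Os σ 𝔭.E1
  inc2 : ∀ Y, pvnjOk Y → ∀ σ, PvfwInc (!𝔭.s.col) Y 𝔭.Ot σ 𝔭.E2
  inc3 : ∀ Y, pvnjOk Y → ∀ σ, PvfwInc (!𝔭.s.col) Y ∅ σ 𝔭.𝔯.K3
  reads3 : Conf.ReadsSet (Prod.fst ⁻¹' 𝔭.𝔯.Ew) 𝔭.𝔯.K3

/-- **THE ARCS**      [212 `Tr/ArcP.lean`: (A1) (A2) (A3) of the note] -/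
structure Ar : Prop where
  sites : ∀ g ζ, ζ ∈ 𝔭.𝔞.E g → ∀ p ∈ g, p ∈ cfSites ζ ∧ p ∈ 𝔭.𝔯.U
  readsE : ∀ g, Conf.ReadsSet (Prod.fst ⁻¹' 𝔭.𝔯.Ew) (𝔭.𝔞.E g)
  readsX : ∀ g, Conf.Reads (Prod.fst ⁻¹' 𝔭.𝔯.Ew) (𝔭.𝔞.X g)
  /-- `B_g` and the two states are frozen, `N_g` is increasing in `!c` and reads the tube, the mass is a function of the geometry and of the two states -/
  stab : ∀ Y, pvnjOk Y → ∀ g σ σ', cfOf Y σ ∈ 𝔭.𝔞.E g → (∀ z ∈ Y, z ∈ {p | p ∈ g} ∪ (𝔭.Os ∪ 𝔭.Ot) → σ' z = σ z) → (∀ z ∈ Y, z ∈ 𝔭.𝔯.UN → pvnjLe 𝔭.s.col (σ' z) (σ z)) →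
    cfOf Y σ' ∈ 𝔭.𝔞.E g ∧ 𝔭.𝔞.X g (cfOf Y σ') = 𝔭.𝔞.X g (cfOf Y σ)

end PvnjPar

/-! ## 4. the fields of `PvnwGeo.Hyp` (`Hyp0` of `Tr/N1R`) AT THE TERM, from the contracts -/

section fields

variable {τ : Type} {𝔭 : PvnjPar τ}

/-- field `ok_ae` -/
theorem pvnj_ok_ae (hε : 𝔭.ε ≠ 0) : ∀ᵐ ω ∂pvP 𝔭.ε, 𝔭.geo.Ok (cfSites ω) := by
  refine (pvqf_good_ae 𝔭.ε hε).mono fun η h => ?_
  show pvnjOk (cfSites η)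
  refine ⟨h.del, ?_, h.del.lf⟩
  have e : cfSites η = ⋃ k : ℕ, cfSites η ∩ Metric.closedBall (0 : ℂ) (k : ℝ) := by
    ext z
    constructor
    · intro hz
      obtain ⟨k, hk⟩ := exists_nat_ge ‖z‖
      exact Set.mem_iUnion.2 ⟨k, hz, by rw [mem_closedBall_zero_iff]; exact hk⟩
    · intro hz
      obtain ⟨k, hk⟩ := Set.mem_iUnion.1 hz
      exact hk.1
  rw [e]
  exact Set.countable_iUnion fun k => (h.del.lf k).countable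

/-- the corridor of the term -/
theorem pvnj_cor (h : 𝔭.Ch) : 𝔭.cor = Prod.fst ⁻¹' 𝔭.geo.C0 := by
  obtain ⟨C, hC, e⟩ := h.cor_cb
  show 𝔭.cor = Prod.fst ⁻¹' (Prod.fst '' 𝔭.cor)
  rw [e, Set.image_preimage_eq C Prod.fst_surjective]

/-- field `mC0` -/
theorem pvnj_mC0 (h : 𝔭.Ch) : MeasurableSet 𝔭.geo.C0 := by
  obtain ⟨C, hC, e⟩ := h.cor_cb
  show MeasurableSet (Prod.fst '' 𝔭.cor)
  rw [e, Set.image_preimage_eq C Prod.fst_surjective]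
  exact hC

/-- the list of the chain is well formed   (`pvsk_wf`) -/
theorem pvnj_cyc_wf (h : 𝔭.Ch) : PvsyCycWF (pvP 𝔭.ε) 𝔭.n 𝔭.sec :=
  pvsk_wf h.pat.wf h.pat.d4 h.pat.for_

/-- (`pvsk_fld`) -/
theorem pvnj_cyc_fld (h : 𝔭.Ch) : PvsyCycFld (pvP 𝔭.ε) 𝔭.n 𝔭.sec 𝔭.fld :=
  pvsk_fld h.pat.fld h.pat.d4 h.pat.forX

/-- field `wf` (null measurable form) -/
theorem pvnj_wf (h : 𝔭.Ch) : 𝔭.geo.Sy.WF₀ (pvP 𝔭.ε) := pvsy_cyc_wf (pvnj_cyc_wf h)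

/-- field `fld` (a.e. measurable form) -/
theorem pvnj_fld (h : 𝔭.Ch) : 𝔭.geo.Sy.Fld₀ (pvP 𝔭.ε) 𝔭.geo.X := pvsy_cyc_fld (pvnj_cyc_fld h)

/-- field `frc` (a.e. form) -/
theorem pvnj_frc (h : 𝔭.Ch) : 𝔭.geo.Sy.Forced₀ (pvP 𝔭.ε) 𝔭.geo.Cu 𝔭.geo.Cf 𝔭.geo.qf := pvsy_cyc_forced h.pat.frc

/-- field `mΘ` (a.e. measurable form) -/
theorem pvnj_mTh (h : 𝔭.Rg) : AEMeasurable 𝔭.geo.Θ (pvP 𝔭.ε) := pvcl_sum_aem 𝔭.ε h.B_meas 𝔭.𝔯.a0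

/-- field `hR` -/
theorem pvnj_hR (h : 𝔭.Ch) : 𝔭.geo.Sy.R 𝔭.geo.Cu 𝔭.geo.Cf = Prod.fst ⁻¹' 𝔭.geo.C0 := by
  rw [← pvnj_cor h]
  show (pvsyCyc (𝔭.π.l.length + 3) 𝔭.sec).R (pvsyFin (𝔭.π.l.length + 3) (Finset.Ioo 0 (𝔭.π.l.length + 2))) (pvsyFin (𝔭.π.l.length + 3) (Finset.range (𝔭.π.l.length + 2)))
    = pvsyC0 (𝔭.π.l.length + 2) 𝔭.sec
  ext z
  simp only [PvsySys.R, pvsyC0, mem_union, mem_iUnion, pvsy_mem_fin, exists_prop]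
  constructor
  · rintro (⟨u, hu, hz⟩ | ⟨e, he, hz⟩)
    · exact Or.inl ⟨u.1, hu, hz⟩
    · exact Or.inr ⟨e.1, he, hz⟩
  · rintro (⟨u, hu, hz⟩ | ⟨e, he, hz⟩)
    · exact Or.inl ⟨⟨u, by have := Finset.mem_Ioo.1 hu; omega⟩, hu, hz⟩
    · exact Or.inr ⟨⟨e, by have := Finset.mem_range.1 he; omega⟩, he, hz⟩

/-- field `hMk` -/
theorem pvnj_hMk (h : 𝔭.Ch) : 𝔭.geo.Sy.Mk 𝔭.geo.Cu 𝔭.geo.Cf ⊆ Prod.fst ⁻¹' 𝔭.geo.O2 := by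
  have h0 : (𝔭.sec 0).O = Prod.fst ⁻¹' 𝔭.Ot := by
    have e : 𝔭.sec 0 = 𝔭.D.sOut 𝔭.m 𝔭.ε 𝔭.π.zt 𝔭.π.tt := pvsk_list_zero
    rw [e]
    exact h.Ot_eq
  have hN : (𝔭.sec (𝔭.π.l.length + 2)).O = Prod.fst ⁻¹' 𝔭.Os := by
    have e : 𝔭.sec (𝔭.π.l.length + 2) = 𝔭.D.sPl 𝔭.m 𝔭.ε 𝔭.π.zs 𝔭.π.ts := pvsk_list_last
    rw [e]
    exact h.Os_eq
  have main : (pvsyCyc (𝔭.π.l.length + 3) 𝔭.sec).Mk (pvsyFin (𝔭.π.l.length + 3) (Finset.Ioo 0 (𝔭.π.l.length + 2))) (pvsyFin (𝔭.π.l.length + 3) (Finset.range (𝔭.π.l.length + 2)))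
      ⊆ (𝔭.sec 0).O ∪ (𝔭.sec (𝔭.π.l.length + 2)).O := by
    rintro z ⟨hz, hn⟩
    obtain ⟨e, he, hze⟩ := mem_iUnion₂.1 hz
    have heN : e.1 < 𝔭.π.l.length + 2 := Finset.mem_range.1 (pvsy_mem_fin.1 he)
    have key : ∀ j : ℕ, j ≤ 𝔭.π.l.length + 2 → z ∈ (𝔭.sec j).O → z ∈ (𝔭.sec 0).O ∪ (𝔭.sec (𝔭.π.l.length + 2)).O := by
      intro j hj hzj
      rcases Nat.eq_zero_or_pos j with h0 | h0
      · left; rwa [h0] at hzj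
      · rcases Nat.lt_or_ge j (𝔭.π.l.length + 2) with h1 | h1
        · exact absurd (Or.inl (mem_iUnion₂.2 ⟨⟨j, by omega⟩, pvsy_mem_fin.2 (Finset.mem_Ioo.2 ⟨h0, h1⟩), hzj⟩)) hn
        · right; rwa [show j = 𝔭.π.l.length + 2 by omega] at hzj
    rcases hze with hze | hze
    · exact key e.1 (by omega) hze
    · have hze' : z ∈ (𝔭.sec ((e.1 + 1) % (𝔭.π.l.length + 3))).O := hze
      rw [Nat.mod_eq_of_lt (by omega)] at hze'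
      exact key (e.1 + 1) (by omega) hze'
  intro z hz
  rcases main hz with hz | hz
  · rw [h0] at hz
    exact Or.inr hz
  · rw [hN] at hz
    exact Or.inl hz

/-- the marked plugs -/
theorem pvnj_ends (𝔭 : PvnjPar τ) : 𝔭.geo.Sy.Ends 𝔭.geo.Cu 𝔭.geo.Cf = 𝔭.D.G 𝔭.m 𝔭.ε 𝔭.π.zt 𝔭.π.tt ∩ 𝔭.D.G 𝔭.m 𝔭.ε 𝔭.π.zs 𝔭.π.ts := by
  have e0 : (𝔭.sec 0).G = 𝔭.D.G 𝔭.m 𝔭.ε 𝔭.π.zt 𝔭.π.tt := by
    unfold PvnjPar.sec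
    rw [pvsk_list_zero]
    rfl
  have e1 : (𝔭.sec (𝔭.π.l.length + 2)).G = 𝔭.D.G 𝔭.m 𝔭.ε 𝔭.π.zs 𝔭.π.ts := by
    unfold PvnjPar.sec
    rw [pvsk_list_last]
    rfl
  have hn : 𝔭.n = 𝔭.π.l.length + 3 := rfl
  ext η
  constructor
  · intro H
    constructor
    · have := (H ⟨0, by rw [hn]; omega⟩ (pvsy_mem_fin.2 (Finset.mem_range.2 (by show 0 < _; omega)))).1
        (fun hc => by have := Finset.mem_Ioo.1 (pvsy_mem_fin.1 hc); exact absurd this.1 (lt_irrefl 0))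
      rw [← e0]
      exact this
    · have := (H ⟨𝔭.π.l.length + 1, by rw [hn]; omega⟩ (pvsy_mem_fin.2 (Finset.mem_range.2 (by show 𝔭.π.l.length + 1 < _; omega)))).2
        (fun hc => by
          have h3 := (Finset.mem_Ioo.1 (pvsy_mem_fin.1 hc)).2
          have h4 : (𝔭.π.l.length + 1 + 1) % 𝔭.n < 𝔭.π.l.length + 2 := h3
          rw [hn, Nat.mod_eq_of_lt (by omega)] at h4
          omega)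
      have h5 : η ∈ (𝔭.sec ((𝔭.π.l.length + 1 + 1) % 𝔭.n)).G := this
      rw [hn, Nat.mod_eq_of_lt (by omega)] at h5
      rw [← e1]
      exact h5
  · rintro ⟨H1, H2⟩ e he
    have he' : e.1 < 𝔭.π.l.length + 2 := Finset.mem_range.1 (pvsy_mem_fin.1 he)
    constructor
    · intro hc
      have h0 : e.1 = 0 := by
        by_contra hne
        exact hc (pvsy_mem_fin.2 (Finset.mem_Ioo.2 ⟨Nat.pos_of_ne_zero hne, he'⟩))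
      show η ∈ (𝔭.sec e.1).G
      rw [h0, e0]
      exact H1
    · intro hc
      have hm : (e.1 + 1) % 𝔭.n = e.1 + 1 := Nat.mod_eq_of_lt (by omega)
      have h0 : e.1 + 1 = 𝔭.π.l.length + 2 := by
        by_contra hne
        refine hc (pvsy_mem_fin.2 (Finset.mem_Ioo.2 ?_))
        show 0 < (e.1 + 1) % 𝔭.n ∧ (e.1 + 1) % 𝔭.n < 𝔭.π.l.length + 2
        rw [hm]
        omega
      show η ∈ (𝔭.sec ((e.1 + 1) % 𝔭.n)).G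
      rw [hm, h0, e1]
      exact H2

/-- field `O2T` -/
theorem pvnj_O2T (h : 𝔭.Rg) : 𝔭.geo.O2 ⊆ 𝔭.geo.T := Set.union_subset h.Os_T h.Ot_T

/-- field `cntY` -/
theorem pvnj_cntY (𝔭 : PvnjPar τ) (Y : Set ℂ) (hY : 𝔭.geo.Ok Y) : Y.Countable := hY.2.1

/-- field `cnt` -/
theorem pvnj_cnt (h : 𝔭.Ar) (Y : Set ℂ) (hY : 𝔭.geo.Ok Y) : {g | ∃ σ, cfOf Y σ ∈ 𝔭.geo.E g}.Countable := by
  have hY' : pvnjOk Y := hY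
  have hc : Countable ↥Y := hY'.2.1.to_subtype
  have hsub : {g : List ℂ | ∀ p ∈ g, p ∈ Y} ⊆ Set.range (List.map (Subtype.val : ↥Y → ℂ)) := by
    intro g hg
    refine ⟨g.pmap (fun p hp => ⟨p, hp⟩) hg, ?_⟩
    rw [List.map_pmap]
    simp
  refine ((Set.countable_range _).mono hsub).mono ?_
  rintro g ⟨σ, hσ⟩ p hp
  have := (h.sites g _ hσ.1.1.1 p hp).1
  rwa [cfOf_sites] at this

/-- field `finT` -/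
theorem pvnj_finT (h : 𝔭.Rg) (Y : Set ℂ) (hY : 𝔭.geo.Ok Y) : (Y ∩ 𝔭.geo.T).Finite := by
  have hY' : pvnjOk Y := hY
  obtain ⟨r, hr⟩ := h.T_bdd.subset_closedBall 0
  exact (hY'.2.2 r).subset (Set.inter_subset_inter_right _ hr)

/-- field `VT` -/
theorem pvnj_VT (h : 𝔭.Rg) (ha : 𝔭.Ar) (Y : Set ℂ) (hY : 𝔭.geo.Ok Y) (g : List ℂ) (σ : ℂ → Bool) (hg : cfOf Y σ ∈ 𝔭.geo.E g) : 𝔭.geo.V g ⊆ 𝔭.geo.T :=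
  fun p hp => h.U_T (ha.sites g _ hg.1.1.1 p hp).2

/-- **field `stabE`, COLOUR FORM** (D1) -/
theorem pvnj_stabE (h : 𝔭.Rg) (hl : 𝔭.Ln) (ha : 𝔭.Ar) (Y : Set ℂ) (hY : 𝔭.geo.Ok Y) (g : List ℂ) (σ σ' : ℂ → Bool) (hg : cfOf Y σ ∈ 𝔭.geo.E g)
    (h1 : ∀ z ∈ Y, z ∈ 𝔭.geo.V g ∪ 𝔭.geo.O2 → σ' z = σ z) (h2 : ∀ z ∈ Y, z ∈ 𝔭.geo.T → pvnjLe 𝔭.s.col (σ' z) (σ z)) :
    cfOf Y σ' ∈ 𝔭.geo.E g ∧ 𝔭.geo.Xg g (cfOf Y σ') = 𝔭.geo.Xg g (cfOf Y σ) := by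
  have hY' : pvnjOk Y := hY
  obtain ⟨⟨⟨g1, g2⟩, g3⟩, g4⟩ := hg
  obtain ⟨a1, a2⟩ := ha.stab Y hY' g σ σ' g1 h1 (fun z hz hU => h2 z hz (h.UN_T hU))
  have hfin : ∀ S : Set ℂ, S ⊆ 𝔭.𝔯.T → (Y ∩ S).Finite := fun S hS => (pvnj_finT h Y hY).subset (Set.inter_subset_inter_right _ hS)
  refine ⟨⟨⟨⟨a1, ?_⟩, ?_⟩, ?_⟩, a2⟩
  · show 𝔭.N.β ≤ pvpQ (𝔭.s.Mp \ 𝔭.Os) (!𝔭.s.col) 𝔭.E1 (cfOf Y σ')
    rw [pvnj_Q_congr (O := 𝔭.Os) (hfin _ (Set.sdiff_subset.trans h.Mp_T)) (!𝔭.s.col) (by rw [Set.union_sdiff_self]; exact hl.rd1 Y hY')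
      (fun z hz hO => h1 z hz (Or.inr (Or.inl hO)))]
    exact g2
  · show 𝔭.N.β ≤ pvpQ (𝔭.t.Mm \ 𝔭.Ot) (!𝔭.t.col) 𝔭.E2 (cfOf Y σ')
    rw [pvnj_Q_congr (O := 𝔭.Ot) (hfin _ (Set.sdiff_subset.trans h.Mm_T)) (!𝔭.t.col) (by rw [Set.union_sdiff_self]; exact hl.rd2 Y hY')
      (fun z hz hO => h1 z hz (Or.inr (Or.inr hO)))]
    exact g3
  · show 𝔭.𝔯.q3 ≤ pvpQ 𝔭.𝔯.S3 (!𝔭.s.col) 𝔭.𝔯.K3 (cfOf Y σ')
    rw [pvnj_Q_congr (O := ∅) (hfin _ h.S3_T) (!𝔭.s.col) (by rw [Set.empty_union]; exact hl.rd3 Y hY')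
      (fun z _ hO => absurd hO (Set.notMem_empty z))]
    exact g4

/-- **field `stabW`, COLOUR + CYLINDER FORM** (D1, D2) -/
theorem pvnj_stabW (h : 𝔭.Rg) (hl : 𝔭.Ln) (Y : Set ℂ) (hY : 𝔭.geo.Ok Y) (σ₀ σ σ' : ℂ → Bool)
    (h0 : ∀ z ∈ Y, z ∈ 𝔭.geo.O2 → σ z = σ₀ z) (h0' : ∀ z ∈ Y, z ∈ 𝔭.geo.O2 → σ' z = σ₀ z) (h2 : ∀ z ∈ Y, z ∈ 𝔭.geo.T → pvnjLe 𝔭.s.col (σ' z) (σ z))
    (hW : cfOf Y σ ∈ 𝔭.geo.W) : cfOf Y σ' ∈ 𝔭.geo.W := by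
  classical
  have hY' : pvnjOk Y := hY
  set σ'' : ℂ → Bool := fun z => if z ∈ 𝔭.𝔯.T then σ' z else σ z with hσ''
  have hin : ∀ z, z ∈ 𝔭.𝔯.T → σ'' z = σ' z := fun z hz => if_pos hz
  have hmono : ∀ z ∈ Y, σ z = !𝔭.s.col → σ'' z = !𝔭.s.col := by
    intro z hz hc
    by_cases hT : z ∈ 𝔭.𝔯.T
    · rw [hin z hT]
      exact (pvnj_le_iff _ _ _).1 (h2 z hz hT) hc
    · rw [hσ'']
      simp only [if_neg hT]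
      exact hc
  obtain ⟨⟨w1, w2⟩, w3⟩ := hW
  refine ⟨⟨?_, ?_⟩, ?_⟩
  · have a1 : cfOf Y σ'' ∈ 𝔭.E1 := hl.inc1 Y hY' σ₀ σ σ'' (fun z hz hO => h0 z hz (Or.inl hO))
      (fun z hz hO => (hin z (h.Os_T hO)).trans (h0' z hz (Or.inl hO))) hmono w1
    refine hl.rd1 Y hY' σ'' σ' (fun z _ hz => hin z ?_) a1
    rcases hz with hz | hz
    · exact h.Os_T hz
    · exact h.Mp_T hz
  · have a1 : cfOf Y σ'' ∈ 𝔭.E2 := hl.inc2 Y hY' σ₀ σ σ'' (fun z hz hO => h0 z hz (Or.inr hO))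
      (fun z hz hO => (hin z (h.Ot_T hO)).trans (h0' z hz (Or.inr hO))) hmono w2
    refine hl.rd2 Y hY' σ'' σ' (fun z _ hz => hin z ?_) a1
    rcases hz with hz | hz
    · exact h.Ot_T hz
    · exact h.Mm_T hz
  · have a1 : cfOf Y σ'' ∈ 𝔭.𝔯.K3 := hl.inc3 Y hY' σ₀ σ σ'' (fun z _ hO => absurd hO (Set.notMem_empty z))
      (fun z _ hO => absurd hO (Set.notMem_empty z)) hmono w3
    exact hl.rd3 Y hY' σ'' σ' (fun z _ hz => hin z (h.S3_T hz)) a1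

/-- the window of the `X` side lies off the corridor -/
theorem pvnj_Ew_sub (h : 𝔭.Rg) (hc : 𝔭.Ch) : Prod.fst ⁻¹' 𝔭.𝔯.Ew ⊆ pvdmU 𝔭.geo.C0 := by
  rintro p hp ⟨q, hq, hqp⟩
  have hq' : q ∈ Prod.fst ⁻¹' 𝔭.𝔯.Ew := by
    show q.1 ∈ 𝔭.𝔯.Ew
    rw [hqp]
    exact hp
  exact Set.disjoint_left.1 h.Ew_cor hq' hq

/-- field `rE` -/
theorem pvnj_rE (h : 𝔭.Rg) (hc : 𝔭.Ch) (hl : 𝔭.Ln) (ha : 𝔭.Ar) (g : List ℂ) : Conf.ReadsSet (pvdmU 𝔭.geo.C0) (𝔭.geo.E g) := by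
  refine Conf.ReadsSet.mono ?_ (pvnj_Ew_sub h hc)
  have hμs : 0 ≤ 3 * (𝔭.N.mu * 𝔭.h) := by
    have := h.ws.mu0; have := h.ws.h0; positivity
  have r1 : Conf.ReadsSet (Prod.fst ⁻¹' 𝔭.𝔯.Ew) (pvspEvt 𝔭.N 𝔭.s 𝔭.π.zs 𝔭.h .pw) :=
    (pvsp_evt_reads h.ws .pw).mono fun p hp => h.Ep_Ew hp.1
  have r2 : Conf.ReadsSet (Prod.fst ⁻¹' 𝔭.𝔯.Ew) (pvspEvt 𝔭.N 𝔭.t 𝔭.π.zt 𝔭.h .mw) :=
    (pvsp_evt_reads h.wt .mw).mono fun p hp => h.Em_Ew hp.1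
  have q1 := pvpQ_reads (S := 𝔭.s.Mp \ pvspO 𝔭.N 𝔭.s 𝔭.π.zs 𝔭.h) (W := Prod.fst ⁻¹' 𝔭.𝔯.Ew)
    (fun p hp => h.Ep_Ew (pvtr_core_subset hμs (h.ws.core_p (Or.inr hp.1)))) r1 (!𝔭.s.col)
  have q2 := pvpQ_reads (S := 𝔭.t.Mm \ pvspO 𝔭.N 𝔭.t 𝔭.π.zt 𝔭.h) (W := Prod.fst ⁻¹' 𝔭.𝔯.Ew)
    (fun p hp => h.Em_Ew (pvtr_core_subset hμs (h.wt.core_m (Or.inr hp.1)))) r2 (!𝔭.t.col)
  have q3 := pvpQ_reads (S := 𝔭.𝔯.S3) (W := Prod.fst ⁻¹' 𝔭.𝔯.Ew) (fun p hp => h.S3_Ew hp) hl.reads3 (!𝔭.s.col)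
  refine (((ha.readsE g).inter ?_).inter ?_).inter ?_
  · intro η
    show 𝔭.N.β ≤ _ ↔ 𝔭.N.β ≤ _
    rw [q1 η]
  · intro η
    show 𝔭.N.β ≤ _ ↔ 𝔭.N.β ≤ _
    rw [q2 η]
  · intro η
    show 𝔭.𝔯.q3 ≤ _ ↔ 𝔭.𝔯.q3 ≤ _
    rw [q3 η]

/-- field `rW` -/
theorem pvnj_rW (h : 𝔭.Rg) (hc : 𝔭.Ch) (hl : 𝔭.Ln) : Conf.ReadsSet (pvdmU 𝔭.geo.C0) 𝔭.geo.W := by
  refine Conf.ReadsSet.mono ?_ (pvnj_Ew_sub h hc)
  have r1 : Conf.ReadsSet (Prod.fst ⁻¹' 𝔭.𝔯.Ew) (pvspEvt 𝔭.N 𝔭.s 𝔭.π.zs 𝔭.h .pw) :=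
    (pvsp_evt_reads h.ws .pw).mono fun p hp => h.Ep_Ew hp.1
  have r2 : Conf.ReadsSet (Prod.fst ⁻¹' 𝔭.𝔯.Ew) (pvspEvt 𝔭.N 𝔭.t 𝔭.π.zt 𝔭.h .mw) :=
    (pvsp_evt_reads h.wt .mw).mono fun p hp => h.Em_Ew hp.1
  exact (r1.inter r2).inter hl.reads3

/-- field `rX` -/
theorem pvnj_rX (h : 𝔭.Rg) (hc : 𝔭.Ch) (ha : 𝔭.Ar) (g : List ℂ) : Conf.Reads (pvdmU 𝔭.geo.C0) (𝔭.geo.Xg g) :=
  (ha.readsX g).mono (pvnj_Ew_sub h hc)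

/-- **field `hq` = P16'** (`pvfw_lane` of 147 on the HALF quenched events) -/
theorem pvnj_hq (h : 𝔭.Rg) (hl : 𝔭.Ln) (ha : 𝔭.Ar) (Y : Set ℂ) (hY : 𝔭.geo.Ok Y) (g : List ℂ) (σ : ℂ → Bool) (hg : cfOf Y σ ∈ 𝔭.geo.E g) :
    𝔭.geo.qW ≤ colLaw ℂ {κ | cfOf Y (pvdmOv (𝔭.geo.V g ∪ 𝔭.geo.O2)ᶜ κ σ) ∈ 𝔭.geo.W} := by
  have hY' : pvnjOk Y := hY
  obtain ⟨⟨⟨gE, gp⟩, gm⟩, g3⟩ := hg
  have hfT : (Y ∩ 𝔭.𝔯.T).Finite := by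
    obtain ⟨r, hr⟩ := h.T_bdd.subset_closedBall 0
    exact (hY'.2.2 r).subset fun z hz => ⟨hz.1, hr hz.2⟩
  have hVU : ∀ p, p ∈ 𝔭.geo.V g → p ∈ 𝔭.𝔯.U := fun p hp => (ha.sites g _ gE p hp).2
  have hinc : ∀ {O : Set ℂ} {𝒜 : Set (Conf PvPt)}, O ⊆ 𝔭.geo.V g ∪ 𝔭.geo.O2 → PvfwInc (!𝔭.s.col) Y O σ 𝒜 → PvfwInc (!𝔭.s.col) Y (𝔭.geo.V g ∪ 𝔭.geo.O2) σ 𝒜 :=
    fun hO hi s s' a1 a2 a3 a4 => hi s s' (fun z hz hzO => a1 z hz (hO hzO)) (fun z hz hzO => a2 z hz (hO hzO)) a3 a4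
  refine pvfw_lane (!𝔭.s.col) (Y := Y) (F := 𝔭.geo.V g ∪ 𝔭.geo.O2) (O₁ := 𝔭.Os) (O₂ := 𝔭.Ot) (S₁ := 𝔭.s.Mp \ 𝔭.Os) (S₂ := 𝔭.t.Mm \ 𝔭.Ot) (S₃ := 𝔭.𝔯.S3)
    (σ := σ) (E₁ := 𝔭.E1) (E₂ := 𝔭.E2) (K := 𝔭.𝔯.K3) (W := 𝔭.geo.W)
    (hfT.subset fun z hz => ⟨hz.1, h.Mp_T hz.2.1⟩) (hfT.subset fun z hz => ⟨hz.1, h.Mm_T hz.2.1⟩) (hfT.subset fun z hz => ⟨hz.1, h.S3_T hz.2⟩)
    (fun z hz => Or.inr (Or.inl hz.2)) (fun z hz => Or.inr (Or.inr hz.2)) Set.disjoint_sdiff_left Set.disjoint_sdiff_left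
    ?_ ?_ ?_ ?_ ?_ (hl.rd3 Y hY')
    (hinc (fun z hz => Or.inr (Or.inl hz)) (hl.inc1 Y hY' σ)) (hinc (fun z hz => Or.inr (Or.inr hz)) (hl.inc2 Y hY' σ)) (hinc (Set.empty_subset _) (hl.inc3 Y hY' σ))
    (fun s _ a1 a2 a3 => ⟨⟨a1, a2⟩, a3⟩) h.β0 h.q30 gp ?_ g3
  · rw [Set.disjoint_left]
    rintro z ⟨-, hz⟩ (hF | hF | hF)
    · exact Set.disjoint_left.1 h.U_Mp (hVU z hF) hz
    · exact hz.2 hF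
    · exact Set.disjoint_left.1 h.Mp_Ot hz.1 hF
  · rw [Set.disjoint_left]
    rintro z ⟨-, hz⟩ (hF | hF | hF)
    · exact Set.disjoint_left.1 h.U_Mm (hVU z hF) hz
    · exact Set.disjoint_left.1 h.Mm_Os hz.1 hF
    · exact hz.2 hF
  · rw [Set.disjoint_left]
    rintro z ⟨-, hz⟩ (hF | hF | hF)
    · exact Set.disjoint_left.1 h.U_S3 (hVU z hF) hz
    · exact Set.disjoint_left.1 h.S3_Os hz hF
    · exact Set.disjoint_left.1 h.S3_Ot hz hF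
  · rw [Set.union_diff_self]
    exact hl.rd1 Y hY'
  · rw [Set.union_diff_self]
    exact hl.rd2 Y hY'
  · rw [h.col]
    exact gm

/-- **TR2, a.e.**: the mean of the chain is its normal form   (`pvsy_y_eq₀`, `pvsy_cyc_chain`, `pvsk_chainY`, `pvyp_door_pat`) -/
theorem pvnj_y_eq (h : 𝔭.Ch) : ∀ᵐ σ ∂pvP 𝔭.ε, σ ∈ 𝔭.geo.Sy.Ends 𝔭.geo.Cu 𝔭.geo.Cf → 𝔭.geo.Sy.y (pvP 𝔭.ε) 𝔭.geo.X 𝔭.geo.Cu 𝔭.geo.Cf σ = 𝔭.yN σ := by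
  have key := pvny_cyc_yN (N := 𝔭.π.l.length + 2) (by omega) (pv_isPpp 𝔭.ε) (pvnj_cyc_wf h) (pvnj_cyc_fld h) h.pat.frc
    (by
      unfold PvnjPar.sec
      rw [pvsk_list_zero, pvsk_list_last]
      exact h.pat.fin)
  filter_upwards [key] with σ hσ hE
  refine (hσ hE).trans ?_
  obtain ⟨d1, d2⟩ := pvyp_door_pat (𝔭.Γ 𝔭.m) h.pat.del h.pat.ok
  have c := pvsk_chainY (ε := 𝔭.ε) (a := 𝔭.D.sOut 𝔭.m 𝔭.ε 𝔭.π.zt 𝔭.π.tt) (Kf := 𝔭.D.Ki 𝔭.m 𝔭.ε 𝔭.π.zs 𝔭.π.ts) (Af := 𝔭.D.Ai 𝔭.m 𝔭.ε 𝔭.π.zs 𝔭.π.ts)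
    (c := 𝔭.D.sPl 𝔭.m 𝔭.ε 𝔭.π.zs 𝔭.π.ts) (l := 𝔭.π.l) (z := 𝔭.π.zt + (𝔭.Γ 𝔭.m).pout 𝔭.π.tt)
    (Xa := 𝔭.D.Xo 𝔭.m 𝔭.ε 0 𝔭.π.zt 𝔭.π.tt) (Xf := 𝔭.D.Xi 𝔭.m 𝔭.ε 0 𝔭.π.zs 𝔭.π.ts) (Xc := 0) h.pat.wf h.pat.fld h.pat.d4 σ
  rw [d1, d2, ← h.pat.W_eq] at c
  exact c

/-- the tail (I.TAIL) -/
theorem pvnj_tail (𝔭 : ℝ → PvnjPar τ) {B : Set ℂ} (hB : Bornology.IsBounded B) {a0 : ℝ} (ha : 0 < a0) (h1 : ∀ ε, (𝔭 ε).ε = ε) (h2 : ∀ ε, (𝔭 ε).𝔯.B = B) (h3 : ∀ ε, (𝔭 ε).𝔯.a0 = a0) :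
    Tendsto (fun ε => ∫⁻ ω, (𝔭 ε).geo.Θ ω ∂pvP ε) (𝓝[>] (0 : ℝ)) (𝓝 0) := by
  have e : (fun ε => ∫⁻ ω, (𝔭 ε).geo.Θ ω ∂pvP ε) = fun ε => ∫⁻ η, pvclSum η B a0 ∂pvP ε := by
    funext ε
    show ∫⁻ ω, pvclSum ω (𝔭 ε).𝔯.B (𝔭 ε).𝔯.a0 ∂pvP ε = _
    rw [h2, h3]
  rw [e]
  exact pvcl_closed hB ha

end fields

/-! ## 7. the contract `Ln`, PRODUCED (147) -/

/-- **THE CONTRACT `Ln` OF 147, PRODUCED** (`Tr/ForceWI.lean`): the ring part of the lane is the window of a walk `L` of cells of side `δ`, its net event is the lane event of 229 -/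
theorem pvnj_Ln {τ : Type} {𝔭 : PvnjPar τ} (h : 𝔭.Rg) {δ : ℝ} {L : List (ℤ × ℤ)} (hS : 𝔭.𝔯.S3 = pvlnW δ L) (hK : 𝔭.𝔯.K3 = pvlnLaneEv δ (!𝔭.s.col) L) : 𝔭.Ln where
  rd1 := fun Y hY => pvqw_rd_p h.ws hY.1
  rd2 := fun Y hY => pvqw_rd_m h.wt hY.1
  rd3 := fun Y _ => by rw [hS, hK]; exact pvqw_net_rd _ _ _ _
  inc1 := fun Y hY σ => pvqw_inc h.ws .pw hY.1 inter_subset_right σ
  inc2 := fun Y hY σ => by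
    have := pvqw_inc h.wt .mw hY.1 (F := 𝔭.Ot) inter_subset_right σ
    have e : pvqwCl 𝔭.t.col .mw = !𝔭.s.col := by
      show (!𝔭.t.col) = !𝔭.s.col
      rw [h.col]
    rwa [e] at this
  inc3 := fun Y _ σ => by rw [hK]; exact pvqw_net_inc _ _ _ _ _ _
  reads3 := by
    rw [hK]
    refine (pvqw_net_reads δ (!𝔭.s.col) L).mono ?_
    rw [prod_univ, ← hS]
    exact preimage_mono h.S3_Ew

end Claimed.Agent.R289
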