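-- KEEP
import Claimed.Agent.R289.Tr.Nb
import Claimed.Agent.R289.Tr.Tight
import Claimed.Agent.R289.Tr.Sweep
import Claimed.Agent.R289.Tr.Arc

/-!
# Row 289 (S0537, Cardy for Poisson-Voronoi), THE WALL, file Tr/NbBr : THE BRIDGE OF THE NO-BYPASS FAMILY      (owner helper113; order (b) of helper24; prefix `pvjn_`)

ONE object, typed six times on main.   SECTOR FORMS; the form of `Tr/Defs` v2 is `PvwDat.NBsec` / `PvwDat.RSec` (the FACED form `PvwDat.NB = pvtaN ..` is of record since v2: sec. 6).   Everything here is an `iff` or an implication BETWEEN THE FORMS; no new notion.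

| form | file | sector | walk |
| `PvwDat.NBsec pos π σ` | Tr/Defs v2 (216, 25) | `𝔇.RSec i d` | simple path `q : T.Pth`, inner vertices tested |
| `g.NB s b U a0 a1` = `¬ g.Byp a0 a1 X`       | Tr/Nb (105), Tr/Local (22), Tr/Loc (278) | `g.RS a0 a1 k = T.OSec ..` | `ReflTransGen (Adj ∧ source ∈ X)` |
| `pvttNB T s U g a₀ a₁`, `pvttNBC T s U c`    | Tr/Tight (194) | `pvttBtw`, `pvttRt`, `pvttRtC` | `ReflTransGen (pvttStep T s U X)` |
| `PvswNB s Z n`, `PvswNBU s Z n U`            | Tr/Sweep (225) | `PvswSp s Z k d` (both faces in `Z.Right`) | `pvswBJ s Z` (target tested) + one more edge |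
| `Z.NoXc s b m`                               | Tr/Nb (105) | both faces in `Z.Right` | `ReflTransGen (Adj ∧ source ∈ Int Z.Right, colour b)` |
| `c.NoByp s`, `c.NoExc s`                     | Pl/RimC (113) | `c.RStep s` (both faces off `c.Left`) | `ReflTransGen (c.RStep s)` |

* sec. 1  SECTORS: `pvjn_btw_iff`, `pvjn_rsec_iff`, `pvjn_rs_dat`, `pvjn_rt_iff`, `pvjn_rtC_iff`, `pvjn_sp_iff`
* sec. 2  WALKS: `pvjn_step_iff`, `pvjn_walk_split`, `pvjn_walk_pth`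
* sec. 3  ARCS: `pvjn_nb_tight`, **`pvjn_nb_dat`**, `pvjn_dat_tight`, `pvjn_nb_ok`
* sec. 4  CELLS: `pvjn_trap_fcell`, `pvjn_sweep_noxc`, `pvjn_nb_of_noxc`, `pvjn_noxc_iff`, `pvjn_sweep_glue`
* sec. 5  CYCLES: `pvjn_nbc_noexc`, `pvjn_nbc_nobyp`, `pvjn_nbc_rim`
-/

set_option autoImplicit false

namespace Claimed.Agent.R289

open Relation

variable {V D : Type} {T : PvMap V D}

/-! ## 1. Sectors -/

/-- `Tr/Tight` against `Tr/Nb`: `pvttBtw` = open sector + the two bounding darts are different -/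
theorem pvjn_btw_iff {a b x : D} : pvttBtw T a b x ↔ a ≠ b ∧ x ∈ T.OSec a b := by
  constructor
  · rintro ⟨j, hj, e, h⟩
    exact ⟨h 0 (Nat.zero_le _), j, hj, e, fun i _ hi => h i hi⟩
  · rintro ⟨hne, j, hj, e, h⟩
    refine ⟨j, hj, e, fun i hi => ?_⟩
    rcases Nat.eq_zero_or_pos i with rfl | h0
    · exact hne
    · exact h i h0 hi

/-- `Tr/Defs` against `Tr/Nb` -/
theorem pvjn_rsec_iff (𝔇 : PvwDat T) (i : ℕ) (d : D) : 𝔇.RSec i d ↔ d ∈ T.OSec (T.opp (𝔇.prv i)) (𝔇.nx i) := by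
  constructor
  · rintro ⟨k, hk, e, h⟩
    exact ⟨k, hk, e.symm, h⟩
  · rintro ⟨k, hk, e, h⟩
    exact ⟨k, hk, e.symm, h⟩

/-- the right darts of `g₀` in the sense of `Tr/Defs` are the right darts of `Tr/Nb` for the GATE DARTS `a0 = opp (last dart of inner(s))`, `a1 = first dart of inner(t)` -/
theorem pvjn_rs_dat (𝔇 : PvwDat T) (i : ℕ) : 𝔇.g.RS (T.opp (𝔇.s.inn.e (𝔇.s.inn.n - 1))) (𝔇.t.inn.e 0) i = {d | 𝔇.RSec i d} := by
  ext d
  show _ ↔ 𝔇.RSec i d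
  rw [pvjn_rsec_iff]
  unfold PvMap.Pth.RS PvwDat.prv PvwDat.nx
  rw [apply_ite T.opp]

/-- back and forward darts of `Tr/Tight` = the two bounds of `RS` -/
theorem pvjn_rs_eq (g : T.Pth) (a₀ a₁ : D) {k : ℕ} (hk : k ≤ g.n) : g.RS a₀ a₁ k = T.OSec (pvttBk T g a₀ k) (pvttFw T g a₁ k) := by
  unfold PvMap.Pth.RS pvttBk pvttFw
  by_cases h : k = g.n
  · rw [if_pos h, if_neg (show ¬ k < g.n by omega)]
  · rw [if_neg h, if_pos (show k < g.n by omega)]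

/-- at an inner vertex of a path the back dart is not the forward dart -/
theorem pvjn_bk_ne_fw (g : T.Pth) (a₀ a₁ : D) {k : ℕ} (h0 : 0 < k) (hk : k < g.n) : pvttBk T g a₀ k ≠ pvttFw T g a₁ k := by
  unfold pvttBk pvttFw
  rw [if_neg (by omega), if_pos hk]
  intro e
  have h1 : T.tgt (T.opp (g.e (k - 1))) = T.tgt (g.e k) := by rw [e]
  rw [T.tgt_opp, g.src_e _ (by omega), g.tgt_e _ hk] at h1
  have := g.inj _ _ (by omega) (by omega) h1
  omega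

/-- NON DEGENERATE spokes: the first spoke is not the first dart, the last spoke is not the last dart reversed -/
def PvjnSpk (g : T.Pth) (a₀ a₁ : D) : Prop := pvttBk T g a₀ 0 ≠ pvttFw T g a₁ 0 ∧ pvttBk T g a₀ g.n ≠ pvttFw T g a₁ g.n

theorem pvjn_eqns_cite : True := by
  have := @PvjnSpk.eq_1
  trivial

/-- how to get `PvjnSpk`: white heads (as in all the applications: the spokes are gate edges `black → white`) -/
theorem pvjn_spk_of_col {s : V → Bool} {g : T.Pth} {a₀ a₁ : D} (hn : 0 < g.n) (hB : ∀ k, k ≤ g.n → s (g.v k) = true) (h0 : s (T.tgt a₀) = false) (h1 : s (T.tgt a₁) = false) :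
    PvjnSpk g a₀ a₁ := by
  constructor
  · unfold pvttBk pvttFw
    rw [if_pos rfl, if_pos hn]
    intro e
    rw [e, g.tgt_e 0 hn, hB _ (by omega)] at h0
    exact Bool.noConfusion h0
  · unfold pvttBk pvttFw
    rw [if_neg (by omega), if_neg (lt_irrefl _)]
    intro e
    rw [← e, T.tgt_opp, g.src_e _ (by omega), hB _ (by omega)] at h1
    exact Bool.noConfusion h1

theorem pvjn_spk_all {g : T.Pth} {a₀ a₁ : D} (h : PvjnSpk g a₀ a₁) {k : ℕ} (hk : k ≤ g.n) : pvttBk T g a₀ k ≠ pvttFw T g a₁ k := by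
  rcases Nat.eq_zero_or_pos k with rfl | h0
  · exact h.1
  · rcases Nat.lt_or_ge k g.n with h1 | h1
    · exact pvjn_bk_ne_fw g a₀ a₁ h0 h1
    · obtain rfl : k = g.n := le_antisymm hk h1
      exact h.2

/-- the right darts of an arc: `Tr/Tight` against `Tr/Nb` -/
theorem pvjn_rt_iff {g : T.Pth} {a₀ a₁ : D} (h : PvjnSpk g a₀ a₁) (d : D) : d ∈ pvttRt T g a₀ a₁ ↔ ∃ k, k ≤ g.n ∧ d ∈ g.RS a₀ a₁ k := by
  constructor
  · rintro ⟨k, hk, hb⟩
    exact ⟨k, hk, by rw [pvjn_rs_eq g a₀ a₁ hk]; exact (pvjn_btw_iff.1 hb).2⟩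
  · rintro ⟨k, hk, hd⟩
    rw [pvjn_rs_eq g a₀ a₁ hk] at hd
    exact ⟨k, hk, pvjn_btw_iff.2 ⟨pvjn_spk_all h hk, hd⟩⟩

/-- without any hypothesis on the spokes: `Tr/Tight` ⊆ `Tr/Nb` -/
theorem pvjn_rt_sub {g : T.Pth} {a₀ a₁ d : D} (hd : d ∈ pvttRt T g a₀ a₁) : ∃ k, k ≤ g.n ∧ d ∈ g.RS a₀ a₁ k := by
  obtain ⟨k, hk, hb⟩ := hd
  exact ⟨k, hk, by rw [pvjn_rs_eq g a₀ a₁ hk]; exact (pvjn_btw_iff.1 hb).2⟩

/-- the source of a right dart -/
theorem pvjn_rs_src {g : T.Pth} {a₀ a₁ d : D} (h0 : T.src a₀ = g.v 0) {k : ℕ} (hk : k ≤ g.n) (hd : d ∈ g.RS a₀ a₁ k) : T.src d = g.v k := by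
  rw [pvnb_sec_src hd]
  by_cases h : k = 0
  · subst h
    rw [if_pos rfl, h0]
  · rw [if_neg h, T.src_opp', g.tgt_e _ (by omega)]
    congr 1
    omega

/-- the right darts of a cycle: `Tr/Tight` against the face form (`Pl/RimC`, `Tr/Nb`) -/
theorem pvjn_rtC_iff (hT : T.IsSph) (c : T.Cyc) (d : D) : d ∈ pvttRtC T c ↔ T.src d ∈ c.verts ∧ d ∉ c.Left ∧ T.opp d ∉ c.Left := by
  constructor
  · rintro ⟨i, hb⟩
    have h := (pvnb_sec_cyc hT c i d).1 (pvjn_btw_iff.1 hb).2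
    exact ⟨⟨i + 1, h.1.symm⟩, h.2⟩
  · rintro ⟨hv, h1, h2⟩
    exact pvtt_rc_sector hT c hv h1 h2

/-- the same with `Right` (`Tr/Sweep`) -/
theorem pvjn_rtC_right (hT : T.IsSph) (c : T.Cyc) (d : D) : d ∈ pvttRtC T c ↔ T.src d ∈ c.verts ∧ d ∈ c.Right ∧ T.opp d ∈ c.Right := by
  obtain ⟨hR, -, -, -⟩ := pl_jordan hT c
  rw [pvjn_rtC_iff hT, hR]
  rfl

/-- a spoke of a cell (`Tr/Sweep`) = a dart of the open sector of the cycle with a black head -/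
theorem pvjn_sp_iff (hT : T.IsSph) (s : V → Bool) (Z : T.Cyc) (i : ℕ) (d : D) :
    PvswSp s Z (i + 1) d ↔ d ∈ T.OSec (T.opp (Z.e i)) (Z.e (i + 1)) ∧ s (T.tgt d) = true := by
  obtain ⟨hR, -, -, -⟩ := pl_jordan hT Z
  rw [pvnb_sec_cyc hT Z i d]
  unfold PvswSp
  rw [hR]
  constructor
  · rintro ⟨h1, h2, h3, h4⟩
    exact ⟨⟨h1, h2, h3⟩, h4⟩
  · rintro ⟨⟨h1, h2, h3⟩, h4⟩
    exact ⟨h1, h2, h3, h4⟩

/-! ## 2. Walks -/

/-- the walk of `Tr/Tight` is the walk of `Tr/Nb` -/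
theorem pvjn_step_iff (s : V → Bool) (U X : Set V) (a z : V) :
    ReflTransGen (pvttStep T s U X) a z ↔ ReflTransGen (fun x y => T.Adj x y ∧ x ∈ {v | v ∈ U ∧ v ∉ X ∧ s v = true}) a z := by
  constructor
  · exact fun h => ReflTransGen.mono (fun _ _ h => ⟨h.2, h.1⟩) _ _ h
  · exact fun h => ReflTransGen.mono (fun _ _ h => ⟨h.2, h.1⟩) _ _ h

/-- SOURCE-tested walks against TARGET-tested walks (`pvswBJ`, `Join`): all the vertices but the last are in `X` -/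
theorem pvjn_walk_split (X : Set V) (a z : V) :
    ReflTransGen (fun x y => T.Adj x y ∧ x ∈ X) a z ↔ a = z ∨ (a ∈ X ∧ ∃ v, ReflTransGen (fun x y => T.Adj x y ∧ y ∈ X) a v ∧ T.Adj v z) := by
  constructor
  · intro h
    induction h with
    | refl => exact Or.inl rfl
    | @tail b c _ hbc ih =>
      right
      rcases ih with rfl | ⟨ha, v, hv, hvb⟩
      · exact ⟨hbc.2, a, ReflTransGen.refl, hbc.1⟩
      · exact ⟨ha, b, hv.tail ⟨hvb, hbc.2⟩, hbc.1⟩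
  · rintro (rfl | ⟨ha, v, hv, hvz⟩)
    · exact ReflTransGen.refl
    · have key : ReflTransGen (fun x y => T.Adj x y ∧ x ∈ X) a v ∧ v ∈ X := by
        clear hvz
        induction hv with
        | refl => exact ⟨ReflTransGen.refl, ha⟩
        | tail _ hbc ih => exact ⟨ih.1.tail ⟨hbc.1, ih.2⟩, hbc.2⟩
      exact key.1.tail ⟨hvz, key.2⟩

/-- a simple path is a source-tested walk from the head of its first dart -/
theorem pvjn_pth_walk {X : Set V} (q : T.Pth) (hn : 0 < q.n) (hq : q.inner ⊆ X) : ReflTransGen (fun x y => T.Adj x y ∧ x ∈ X) (T.tgt (q.e 0)) (q.v q.n) := by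
  have key : ∀ m, m + 1 ≤ q.n → ReflTransGen (fun x y => T.Adj x y ∧ x ∈ X) (T.tgt (q.e 0)) (q.v (m + 1)) := by
    intro m
    induction m with
    | zero =>
      intro _
      rw [q.tgt_e 0 hn]
    | succ m ih =>
      intro hm
      exact (ih (by omega)).tail ⟨⟨q.e (m + 1), q.src_e _ (by omega), q.tgt_e _ (by omega)⟩, hq ⟨m + 1, by omega, by omega, rfl⟩⟩
  have := key (q.n - 1) (by omega)
  rwa [Nat.sub_add_cancel hn] at this

/-- **WALKS AGAINST SIMPLE PATHS**: a walk from the head of `d` to `z` through `X` (`src d ∉ X`, `z ∉ X`, `z ≠ src d`) = a simple path with first dart `d`, last vertex `z`, inner vertices in `X` -/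
theorem pvjn_walk_pth {X : Set V} {d : D} {z : V} (hs : T.src d ∉ X) (hz : z ∉ X) (hne : z ≠ T.src d) :
    ReflTransGen (fun x y => T.Adj x y ∧ x ∈ X) (T.tgt d) z ↔ ∃ q : T.Pth, 0 < q.n ∧ q.e 0 = d ∧ q.v q.n = z ∧ q.inner ⊆ X := by
  constructor
  · intro h
    rcases (pvjn_walk_split X _ _).1 h with e | ⟨ha, v, hv, f, hfs, hft⟩
    · have hnil : T.tgt d ∉ (PvMap.Pth.nil T (T.src d) d).verts := by
        rintro ⟨i, -, hi⟩
        exact T.tgt_ne_src d hi.symm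
      refine ⟨(PvMap.Pth.nil T (T.src d) d).snoc d rfl hnil, Nat.succ_pos _, rfl, e, ?_⟩
      rintro x ⟨i, hi0, hi1, -⟩
      have hi2 : i < 0 + 1 := hi1
      omega
    · obtain ⟨p, pn, p0, pe, p1, pX⟩ := pvsw_pth_from d ha hs hv
      have hnew : T.tgt f ∉ p.verts := by
        rintro ⟨i, hi, hiv⟩
        rcases Nat.eq_zero_or_pos i with rfl | hi0
        · rw [p0, hft] at hiv
          exact hne hiv.symm
        · exact hz (by rw [← hft, ← hiv]; exact pX i hi0 hi)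
      refine ⟨p.snoc f (by rw [hfs, p1]) hnew, Nat.succ_pos _, ?_, ?_, ?_⟩
      · show (if 0 < p.n then p.e 0 else f) = _
        rw [if_pos pn, pe]
      · show (if p.n + 1 ≤ p.n then p.v (p.n + 1) else T.tgt f) = _
        rw [if_neg (by omega), hft]
      · rintro x ⟨i, hi0, hi1, rfl⟩
        have hi2 : i < p.n + 1 := hi1
        show (if i ≤ p.n then p.v i else T.tgt f) ∈ X
        rw [if_pos (by omega)]
        exact pX i hi0 (by omega)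
  · rintro ⟨q, hn, rfl, rfl, hq⟩
    exact pvjn_pth_walk q hn hq

/-! ## 3. Arcs -/

/-- bypasses: `Tr/Nb` against `Tr/Tight` -/
theorem pvjn_byp_bp {s : V → Bool} {U : Set V} {g : T.Pth} {a₀ a₁ : D} (h0 : T.src a₀ = g.v 0) (hsp : PvjnSpk g a₀ a₁) :
    g.Byp a₀ a₁ {v | v ∈ U ∧ v ∉ g.verts ∧ s v = true} ↔ pvttBP T s U g.verts (pvttRt T g a₀ a₁) := by
  constructor
  · rintro ⟨k, l, hk, hl, hkl, d, hd, hw⟩
    refine ⟨d, (pvjn_rt_iff hsp d).2 ⟨k, hk, hd⟩, g.v l, ⟨l, hl, rfl⟩, ?_, (pvjn_step_iff s U g.verts _ _).2 hw⟩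
    rw [pvjn_rs_src h0 hk hd]
    exact fun e => hkl (g.inj _ _ hl hk e).symm
  · rintro ⟨d, hd, z, ⟨l, hl, rfl⟩, hne, hw⟩
    obtain ⟨k, hk, hdk⟩ := pvjn_rt_sub hd
    refine ⟨k, l, hk, hl, ?_, d, hdk, (pvjn_step_iff s U g.verts _ _).1 hw⟩
    rintro rfl
    exact hne (pvjn_rs_src h0 hk hdk).symm

/-- **`NB_g^U`: `Tr/Nb` = `Tr/Tight`** -/
theorem pvjn_nb_tight {s : V → Bool} {U : Set V} {g : T.Pth} {a₀ a₁ : D} (h0 : T.src a₀ = g.v 0) (hsp : PvjnSpk g a₀ a₁) :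
    g.NB s true U a₀ a₁ ↔ pvttNB T s U g a₀ a₁ :=
  not_congr (pvjn_byp_bp h0 hsp)

/-- without any hypothesis on the spokes: `Tr/Nb` ⟹ `Tr/Tight` -/
theorem pvjn_tight_of_nb {s : V → Bool} {U : Set V} {g : T.Pth} {a₀ a₁ : D} (h0 : T.src a₀ = g.v 0) (h : g.NB s true U a₀ a₁) : pvttNB T s U g a₀ a₁ := by
  rintro ⟨d, hd, z, ⟨l, hl, rfl⟩, hne, hw⟩
  obtain ⟨k, hk, hdk⟩ := pvjn_rt_sub hd
  refine h ⟨k, l, hk, hl, ?_, d, hdk, (pvjn_step_iff s U g.verts _ _).1 hw⟩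
  rintro rfl
  exact hne (pvjn_rs_src h0 hk hdk).symm

/-- `B_g`: the three names -/
theorem pvjn_col_iff (g : T.Pth) (s : V → Bool) : (g.Col s true ↔ pvttB s g) ∧ (g.Col s true ↔ pvtaB g s) := ⟨Iff.rfl, Iff.rfl⟩

/-- bypasses: `Tr/Nb` (walk) against `Tr/Defs` (simple path) -/
theorem pvjn_byp_dat (𝔇 : PvwDat T) (h0 : T.tgt (𝔇.s.inn.e (𝔇.s.inn.n - 1)) = 𝔇.g.v 0) {X : Set V} (hX : ∀ v ∈ X, v ∉ 𝔇.g.verts) :
    𝔇.g.Byp (T.opp (𝔇.s.inn.e (𝔇.s.inn.n - 1))) (𝔇.t.inn.e 0) X ↔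
      ∃ (i j : ℕ) (q : T.Pth), i ≤ 𝔇.g.n ∧ j ≤ 𝔇.g.n ∧ i ≠ j ∧ 0 < q.n ∧ q.v 0 = 𝔇.g.v i ∧ q.v q.n = 𝔇.g.v j ∧ 𝔇.RSec i (q.e 0) ∧ q.inner ⊆ X := by
  have h0' : T.src (T.opp (𝔇.s.inn.e (𝔇.s.inn.n - 1))) = 𝔇.g.v 0 := by rw [T.src_opp', h0]
  constructor
  · rintro ⟨k, l, hk, hl, hkl, d, hd, hw⟩
    have hsrc := pvjn_rs_src h0' hk hd
    obtain ⟨q, hn, rfl, e2, hq⟩ := (pvjn_walk_pth (X := X) (d := d) (z := 𝔇.g.v l) (fun hc => hX _ hc (by rw [hsrc]; exact ⟨k, hk, rfl⟩)) (fun hc => hX _ hc ⟨l, hl, rfl⟩)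
      (by rw [hsrc]; exact fun e => hkl (𝔇.g.inj _ _ hl hk e).symm)).1 hw
    refine ⟨k, l, q, hk, hl, hkl, hn, by rw [← q.src_e 0 hn, hsrc], e2, ?_, hq⟩
    rw [pvjn_rs_dat] at hd
    exact hd
  · rintro ⟨i, j, q, hi, hj, hij, hn, -, e2, hsec, hq⟩
    refine ⟨i, j, hi, hj, hij, q.e 0, by rw [pvjn_rs_dat]; exact hsec, ?_⟩
    rw [← e2]
    exact pvjn_pth_walk q hn hq

/-- **`NBsec(D)` OF `Tr/Defs` = `NB_g^{YCLᶜ}` OF `Tr/Nb`** for the gate darts `opp (last dart of inner(s))`, `first dart of inner(t)` -/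
theorem pvjn_nb_dat (𝔇 : PvwDat T) (pos : V → ℂ) (π : PvwPat) (σ : V → Bool) (h0 : T.tgt (𝔇.s.inn.e (𝔇.s.inn.n - 1)) = 𝔇.g.v 0) :
    𝔇.NBsec pos π σ ↔ 𝔇.g.NB σ true (𝔇.YCL pos π)ᶜ (T.opp (𝔇.s.inn.e (𝔇.s.inn.n - 1))) (𝔇.t.inn.e 0) := by
  unfold PvwDat.NBsec PvMap.Pth.NB
  rw [pvjn_byp_dat 𝔇 h0 (fun v hv => hv.2.1)]
  refine not_congr ⟨?_, ?_⟩
  · rintro ⟨i, j, q, h1, h2, h3, h4, h5, h6, h7, h8⟩
    exact ⟨i, j, q, h1, h2, h3, h4, h5, h6, h7, fun x hx => ⟨(h8 x hx).2.2, (h8 x hx).2.1, (h8 x hx).1⟩⟩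
  · rintro ⟨i, j, q, h1, h2, h3, h4, h5, h6, h7, h8⟩
    exact ⟨i, j, q, h1, h2, h3, h4, h5, h6, h7, fun x hx => ⟨(h8 hx).2.2, (h8 hx).2.1, (h8 hx).1⟩⟩

/-- **`NBsec(D)` OF `Tr/Defs` = `NB_g^{YCLᶜ}` OF `Tr/Tight`** -/
theorem pvjn_dat_tight (𝔇 : PvwDat T) (pos : V → ℂ) (π : PvwPat) (σ : V → Bool) (h0 : T.tgt (𝔇.s.inn.e (𝔇.s.inn.n - 1)) = 𝔇.g.v 0)
    (hsp : PvjnSpk 𝔇.g (T.opp (𝔇.s.inn.e (𝔇.s.inn.n - 1))) (𝔇.t.inn.e 0)) :
    𝔇.NBsec pos π σ ↔ pvttNB T σ (𝔇.YCL pos π)ᶜ 𝔇.g (T.opp (𝔇.s.inn.e (𝔇.s.inn.n - 1))) (𝔇.t.inn.e 0) := by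
  rw [pvjn_nb_dat 𝔇 pos π σ h0]
  exact pvjn_nb_tight (by rw [T.src_opp', h0]) hsp

/-- the hypothesis `h0` of the bridges, from a well formed datum -/
theorem pvjn_h0_of_ok {𝔇 : PvwDat T} {pos : V → ℂ} {N : PvwNum} {h : ℝ} {π : PvwPat} (hok : 𝔇.Ok pos N h π) :
    0 < 𝔇.s.inn.n ∧ 0 < 𝔇.t.inn.n ∧ T.tgt (𝔇.s.inn.e (𝔇.s.inn.n - 1)) = 𝔇.g.v 0 ∧ T.src (𝔇.t.inn.e 0) = 𝔇.g.v 𝔇.g.n := by
  have key : ∀ (𝔖 : PvwSt T) (z : ℂ) (τ : PvwTy), 𝔖.Gate pos h z τ 𝔇.col → 0 < 𝔖.inn.n ∧ 𝔖.inn.v 0 = 𝔖.gm ∧ 𝔖.inn.v 𝔖.inn.n = 𝔖.gp := by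
    intro 𝔖 z τ hg
    obtain ⟨n, h1, -, j, a0, an, a1, -⟩ := hg.strand
    have e2 : 𝔖.inn.v 𝔖.inn.n = 𝔖.gp := by
      have e1 := (a1 𝔖.inn.n le_rfl).2.1
      rw [an] at e1
      rw [e1]; show T.src (pvasIt T 𝔇.col 𝔖.dm n) = _; rw [h1]; rfl
    have e3 : 𝔖.inn.v 0 = 𝔖.gm := a0
    refine ⟨?_, e3, e2⟩
    rcases Nat.eq_zero_or_pos 𝔖.inn.n with h0 | h0
    · exfalso
      rw [h0, e3] at e2
      exact hg.ne e2.symm
    · exact h0
  obtain ⟨s1, -, s3⟩ := key _ _ _ hok.st_s.gate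
  obtain ⟨t1, t2, -⟩ := key _ _ _ hok.st_t.gate
  refine ⟨s1, t1, ?_, ?_⟩
  · rw [𝔇.s.inn.tgt_e _ (by omega), hok.g0, ← s3]
    congr 1; omega
  · rw [𝔇.t.inn.src_e _ t1, hok.g1, t2]

/-- **`NBsec(D)` for a well formed datum**, no side hypothesis -/
theorem pvjn_nb_ok {𝔇 : PvwDat T} {pos : V → ℂ} {N : PvwNum} {h : ℝ} {π : PvwPat} (hok : 𝔇.Ok pos N h π) (σ : V → Bool) :
    𝔇.NBsec pos π σ ↔ 𝔇.g.NB σ true (𝔇.YCL pos π)ᶜ (T.opp (𝔇.s.inn.e (𝔇.s.inn.n - 1))) (𝔇.t.inn.e 0) :=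
  pvjn_nb_dat 𝔇 pos π σ (pvjn_h0_of_ok hok).2.2.1

/-! ## 4. Cells -/

/-- the cells of `Tr/Sweep` are the free cells of `Tr/Nb` -/
theorem pvjn_trap_fcell {s : V → Bool} {Z : T.Cyc} {n : ℕ} (h : PvswTrap s Z n) (hn : 0 < n) : Z.FCell s true n :=
  ⟨hn, h.lt, h.bl, fun k h1 h2 => by rw [h.wh k h1 h2]; exact Bool.false_ne_true⟩

theorem pvjn_fcell_trap {s : V → Bool} {Z : T.Cyc} {n : ℕ} (h : Z.FCell s true n) (hfin : (Z.Right ∩ {d | T.Wall s (pvswIn Z) d}).Finite) : PvswTrap s Z n :=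
  ⟨h.lt, h.blk, fun k h1 h2 => by simpa using h.wht k h1 h2, hfin⟩

/-- **no bypass inside a cell: `Tr/Sweep` = `Tr/Nb`** -/
theorem pvjn_sweep_noxc (hT : T.IsSph) {s : V → Bool} {Z : T.Cyc} {n : ℕ} (h : PvswTrap s Z n) : PvswNB s Z n ↔ Z.NoXc s true n := by
  have hdisj := (pl_jordan_vert_disj hT Z).2.1
  constructor
  · intro hnb k l hk hl d hsrc hd hd' hw
    rcases (pvjn_walk_split _ _ _).1 hw with e | ⟨ha, v, hv, hvz⟩
    · exfalso
      exact (hnb k hk d ⟨hsrc, hd, hd', by rw [e]; exact h.bl l hl⟩).1 ⟨l, e.symm⟩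
    · refine ((hnb k hk d ⟨hsrc, hd, hd', ha.2⟩).2 v ?_ l hl hvz).symm
      exact ReflTransGen.mono (fun _ y hxy => ⟨hxy.1, hxy.2.2, fun hc => Set.disjoint_left.1 hdisj hc hxy.2.1⟩) _ _ hv
  · intro hx k hk d hd
    have hoff : T.tgt d ∉ Z.verts := by
      intro hv
      obtain ⟨l, hl, e⟩ := pvsw_black_idx h hv hd.2.2.2
      have := hx k l hk hl d hd.1 hd.2.1 hd.2.2.1 (by rw [e])
      subst this
      exact T.tgt_ne_src d (e.trans hd.1.symm)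
    refine ⟨hoff, fun v hv l hl hadj => ?_⟩
    have hint := (pvsw_sp_head hT hd).resolve_left hoff
    refine (hx k l hk hl d hd.1 hd.2.1 hd.2.2.1 ((pvjn_walk_split _ _ _).2 (Or.inr ⟨⟨hint, hd.2.2.2⟩, v, ?_, hadj⟩))).symm
    exact ReflTransGen.mono (fun _ _ hxy => ⟨hxy.1, hxy.2.2.2, hxy.2.1⟩) _ _ (pvsw_bj_chain hT hint hv)

/-- the right sector of a free cell at the vertex number `k ≤ m` of its path, in the form `RS` -/
theorem pvjn_fcell_rs (hT : T.IsSph) {Z : T.Cyc} {m : ℕ} (hm : 0 < m) (hlt : m + 1 < Z.n) {g : T.Pth} (hn : g.n = m) (hg : ∀ k, k < m → g.e k = Z.e k) {k : ℕ} (hk : k ≤ m) (d : D) :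
    d ∈ g.RS (T.opp (Z.e (Z.n - 1))) (Z.e m) k ↔ T.src d = T.src (Z.e k) ∧ d ∈ Z.Right ∧ T.opp d ∈ Z.Right := by
  obtain ⟨hR, -, -, -⟩ := pl_jordan hT Z
  have hmem : (T.src d = T.src (Z.e k) ∧ d ∈ Z.Right ∧ T.opp d ∈ Z.Right) ↔ (T.src d = T.src (Z.e k) ∧ d ∉ Z.Left ∧ T.opp d ∉ Z.Left) := by
    rw [hR]; rfl
  rw [hmem]
  unfold PvMap.Pth.RS
  rw [hn]
  have e2 : (if k = m then Z.e m else g.e k) = Z.e k := by
    split_ifs with h1
    · rw [h1]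
    · exact hg k (by omega)
  rw [e2]
  by_cases h0 : k = 0
  · subst h0
    rw [if_pos rfl]
    have := pvnb_sec_cyc hT Z (Z.n - 1) d
    rw [show Z.n - 1 + 1 = 0 + Z.n by omega, Z.per] at this
    exact this
  · rw [if_neg h0, hg (k - 1) (by omega)]
    have := pvnb_sec_cyc hT Z (k - 1) d
    rw [show k - 1 + 1 = k by omega] at this
    exact this

/-- the converse of `pvnb_noexc_of_nb`: no excursion through the open cell gives `NB_g^U` for EVERY `U` (the white part of the cell is a shield) -/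
theorem pvjn_nb_of_noxc (hT : T.IsSph) {Z : T.Cyc} {s : V → Bool} {b : Bool} {m : ℕ} (hZ : Z.FCell s b m) {g : T.Pth} (hn : g.n = m) (hg : ∀ k, k < m → g.e k = Z.e k)
    (U : Set V) (h : Z.NoXc s b m) : g.NB s b U (T.opp (Z.e (Z.n - 1))) (Z.e m) := by
  rintro ⟨k, l, hk, hl, hkl, d, hd, hw⟩
  rw [hn] at hk hl
  have hm := hZ.pos
  have hv : ∀ j, j ≤ m → g.v j = T.src (Z.e j) := by
    intro j hj
    rcases Nat.lt_or_ge j m with h1 | h1
    · rw [← g.src_e j (by omega), hg j h1]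
    · obtain rfl : j = m := le_antisymm hj h1
      obtain ⟨i, rfl⟩ : ∃ i, j = i + 1 := ⟨j - 1, by omega⟩
      rw [← g.tgt_e i (by omega), hg i (by omega), Z.chain]
  obtain ⟨h1, h2, h3⟩ := (pvjn_fcell_rs hT hm hZ.lt hn hg hk d).1 hd
  refine hkl (h k l hk hl d h1 h2 h3 ?_)
  rw [← hv l hl]
  have hstart : T.tgt d ∈ T.VOf Z.Right := ⟨T.opp d, h3, T.src_opp' d⟩
  have key : ∀ y, ReflTransGen (fun x y => T.Adj x y ∧ x ∈ {v | v ∈ U ∧ v ∉ g.verts ∧ s v = b}) (T.tgt d) y →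
      y ∈ T.VOf Z.Right ∧ ReflTransGen (fun x y => T.Adj x y ∧ x ∈ T.Int Z.Right ∧ s x = b) (T.tgt d) y := by
    intro y hy
    induction hy with
    | refl => exact ⟨hstart, ReflTransGen.refl⟩
    | @tail x y _ hxy ih =>
      obtain ⟨⟨e, he1, he2⟩, -, hxg, hxb⟩ := hxy
      have hxI : x ∈ T.Int Z.Right := by
        rcases pvnb_fcell_vert hT hZ ih.1 hxb with ⟨j, hj, rfl⟩ | hI
        · exact absurd ⟨j, by omega, hv j hj⟩ hxg
        · exact hI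
      refine ⟨?_, ih.2.tail ⟨⟨e, he1, he2⟩, hxI, hxb⟩⟩
      rw [← he2]
      exact (pvnb_int_edge_right hT Z (by rw [he1]; exact hxI)).2.2
  exact (key _ hw).2

/-- **no excursion through the open cell = `NB_g^U`**, for every `U` which contains the closed cell -/
theorem pvjn_noxc_iff (hT : T.IsSph) {Z : T.Cyc} {s : V → Bool} {b : Bool} {m : ℕ} (hZ : Z.FCell s b m) {g : T.Pth} (hn : g.n = m) (hg : ∀ k, k < m → g.e k = Z.e k)
    {U : Set V} (hU : T.VOf Z.Right ⊆ U) : Z.NoXc s b m ↔ g.NB s b U (T.opp (Z.e (Z.n - 1))) (Z.e m) :=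
  ⟨pvjn_nb_of_noxc hT hZ hn hg U, pvnb_noexc_of_nb hT hZ hn hg hU⟩

/-- **`Tr/Sweep` = `Tr/Nb` for a glued cell** `Z = g . q`: gate darts = the last dart of `q` reversed, the first dart of `q` -/
theorem pvjn_sweep_glue (hT : T.IsSph) {s : V → Bool} (g q : T.Pth) (hg : g.Glue q) (h : PvswTrap s (g.glue q hg) g.n) {U : Set V} (hU : T.VOf (g.glue q hg).Right ⊆ U) :
    PvswNB s (g.glue q hg) g.n ↔ g.NB s true U (T.opp (q.e (q.n - 1))) (q.e 0) := by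
  have hn := (pl_pth_glue_pos hg).1
  rw [pvjn_sweep_noxc hT h, pvjn_noxc_iff hT (pvjn_trap_fcell h hn) rfl (fun k hk => (pl_pth_glue_e1 g q hg hk).symm) hU]
  have e1 : T.opp ((g.glue q hg).e ((g.glue q hg).n - 1)) = T.opp (q.e (q.n - 1)) := pvsw_in_glue g q hg
  rw [e1, pvsw_out_glue]

/-! ## 5. Cycles -/

/-- **no right bypass of a black cycle: `Tr/Tight` = `Pl/RimC`** -/
theorem pvjn_nbc_noexc (hT : T.IsSph) {s : V → Bool} (c : T.Cyc) (hB : ∀ i, s (T.src (c.e i)) = true) : pvttNBC T s Set.univ c ↔ c.NoExc s := by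
  obtain ⟨hR, -, -, -⟩ := pl_jordan hT c
  constructor
  · intro hN a ha b hb x hax hxb
    by_contra hab
    obtain ⟨e, he1, he2, he3, he4, he5⟩ := hax
    have hsa : s a = true := by obtain ⟨i, rfl⟩ := ha; exact hB i
    have hsx : s x = true := by
      by_contra hx
      apply he3
      unfold PvMap.Occ
      rw [he1, he2, hsa]
      exact fun h => hx h.symm
    apply hN
    refine ⟨e, pvtt_rc_sector hT c (by rw [he1]; exact ha) he4 he5, b, hb, by rw [he1]; exact fun h => hab h.symm, ?_⟩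
    rw [he2]
    have key : ∀ y, ReflTransGen (fun u v => u ∉ c.verts ∧ c.RStep s u v) x y → s y = true ∧ ReflTransGen (pvttStep T s Set.univ c.verts) x y := by
      intro y hy
      induction hy with
      | refl => exact ⟨hsx, ReflTransGen.refl⟩
      | @tail y z _ hyz ih =>
        obtain ⟨hy1, e', h1, h2, h3, -, -⟩ := hyz
        refine ⟨?_, ih.2.tail ⟨⟨Set.mem_univ _, hy1, ih.1⟩, e', h1, h2⟩⟩
        by_contra hz
        apply h3
        unfold PvMap.Occ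
        rw [h1, h2, ih.1]
        exact fun h => hz h.symm
    exact (key b hxb).2
  · rintro hE ⟨d, hd, z, hz, hne, hw⟩
    obtain ⟨hd1, hd2, hd3⟩ := (pvjn_rtC_iff hT c d).1 hd
    have hsz : s z = true := by obtain ⟨i, rfl⟩ := hz; exact hB i
    have hsd : s (T.src d) = true := by obtain ⟨i, hi⟩ := hd1; rw [← hi]; exact hB i
    have hstart : T.tgt d ∈ T.VOf c.Right := ⟨T.opp d, by rw [hR]; exact hd3, T.src_opp' d⟩
    -- the colour of the head of `d`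
    have hst : s (T.tgt d) = true := by
      rcases ReflTransGen.cases_head hw with e | ⟨y, hy, -⟩
      · rw [e]; exact hsz
      · exact hy.1.2.2
    have key : ∀ y, ReflTransGen (pvttStep T s Set.univ c.verts) (T.tgt d) y → s y = true →
        y ∈ T.VOf c.Right ∧ ReflTransGen (fun u v => u ∉ c.verts ∧ c.RStep s u v) (T.tgt d) y := by
      intro y hy
      induction hy with
      | refl => exact fun _ => ⟨hstart, ReflTransGen.refl⟩
      | @tail x y _ hxy ih =>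
        intro hsy
        obtain ⟨⟨-, hxc, hxb⟩, e, he1, he2⟩ := hxy
        obtain ⟨ih1, ih2⟩ := ih hxb
        have hxI : x ∈ T.Int c.Right := by
          rw [pvnb_VOf_right hT] at ih1
          exact ih1.resolve_left hxc
        obtain ⟨k1, k2, k3⟩ := pvnb_int_edge_right hT c (d := e) (by rw [he1]; exact hxI)
        rw [hR] at k1 k2
        refine ⟨by rw [← he2]; exact k3, ih2.tail ⟨hxc, e, he1, he2, fun ho => ho ?_, k1, k2⟩⟩
        rw [he1, he2, hxb, hsy]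
    exact hne (hE (T.src d) hd1 z hz (T.tgt d) ⟨d, rfl, rfl, fun ho => ho (by rw [hsd, hst]), hd2, hd3⟩ (key z hw hsz).2).symm

theorem pvjn_nbc_nobyp (hT : T.IsSph) {s : V → Bool} (c : T.Cyc) (hB : ∀ i, s (T.src (c.e i)) = true) : pvttNBC T s Set.univ c ↔ c.NoByp s :=
  (pvjn_nbc_noexc hT c hB).trans (pl_rc_exc_iff c s)

/-- **rim ⟺ no right bypass**, in the vocabulary of `Tr/Tight` -/
theorem pvjn_nbc_rim (hT : T.IsSph) (hS : T.Simple) {s : V → Bool} (c : T.Cyc) (hB : ∀ i, s (T.src (c.e i)) = true) (hw : ∃ v ∈ T.VOf c.Right, s v = false)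
    (hfin : {d' | T.Wall s (T.opp (c.e 0)) d'}.Finite) : c.IsRim s ↔ pvttNBC T s Set.univ c := by
  rw [pvjn_nbc_nobyp hT c hB]
  refine pl_rc_iff hT hS (fun i => by rw [hB i, hB 0]) ?_ hfin
  obtain ⟨v, hv, hs⟩ := hw
  exact ⟨v, hv, by rw [hs, hB 0]; exact Bool.false_ne_true⟩

end Claimed.Agent.R289
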