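-- KEEP
import Claimed.Agent.R289.Pl.Bond
import Claimed.Agent.R289.Pl.Rim
import Claimed.Agent.R289.Tr.Close

/-!
# Row 289 (S0537, Cardy for Poisson-Voronoi), wall chapter B, file Tr/NbEx : EXIST = A CELL CONTAINS A FACED PATH      (owner helper264; prefix `pvnx_`)

TR_295.md chapter B (TR11-TR14), `W2c_6.md` v2 (FACED form): "existence of faced paths between two lanes (cells, funnels)".      Vocabulary: `Pl/Defs Jordan Bond Path`, `Pth.Faced` of `Tr/Close` (helper202).   NO strand, NO loop erasure.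

A CELL is a simple primal cycle `Z` whose vertices number `0..m` have the colour `b` and whose vertices number `m+1..n-1` (at least one) have the other colour:
black lane `x_0 .. x_m`, the bichromatic dart `x_m → x_(m+1)`, a white lane `x_(m+1) .. x_(n-1)`, the bichromatic dart `x_(n-1) → x_0`.      The region of the cell is `Z.Right`.

* **`pvnx_exist`**        a cell with finite region contains a simple path `p : x_0 → x_m` which is `Faced` in `Z.Right` with anchor `x_(m+1)`      (unique by `pvt_c_unique`)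
* **`pvnx_exist_glue`**   the same for `Z = g.glue q` (`g` black, inner vertices of `q` white); moreover `p.Glue q`
* `pvnx_pth_of_walk`      a walk along darts of a set `G` contains a simple path all of whose DARTS lie in `G`

PROOF.  `R` := faces joined to `opp (Z.e m)` without crossing an edge of `Z` or an edge with two ends of colour `b`.  Every face of `R` has a white vertex, and all the white vertices of the faces of `R` are joined to `x_(m+1)` inside `R`.
`c` := hull of `R` seen from `Z.e 0` (`pl_hull_at`): its darts are boundary darts of `R`: darts `opp (Z.e k)`, `m ≤ k < n`, or darts with two ends of colour `b`.  It contains `opp (Z.e m)`.  Follow `c` from `x_m` to its first dart which is not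
`b`-`b`: that dart starts at a vertex of colour `b`, so it is `opp (Z.e (n-1))` and starts at `x_0`.  The opposites of the darts met form a walk `x_0 → x_m` along GOOD darts (right face in `R`, right apex white and joined to the anchor).
-/

set_option autoImplicit false

namespace Claimed.Agent.R289

open Relation

variable {V D : Type} {T : PvMap V D}

/-- the walls of the white-side region: edges of `c`, edges with both ends of colour `β` -/
def PvMap.Cyc.cellZ (c : T.Cyc) (s : V → Bool) (β : Bool) : Set D :=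
  {d | T.Edg c.darts d ∨ (s (T.src d) = β ∧ s (T.tgt d) = β)}

theorem pvnx_eqns_cite : True := by
  have := @PvMap.Cyc.cellZ.eq_1
  trivial

theorem pvnx_cellZ_opp (c : T.Cyc) (s : V → Bool) (β : Bool) (d : D) : T.opp d ∈ c.cellZ s β ↔ d ∈ c.cellZ s β := by
  unfold PvMap.Cyc.cellZ
  simp only [Set.mem_ofPred_eq, T.edg_opp, T.src_opp', T.tgt_opp]
  tauto

theorem pvnx_cellZ_edg (c : T.Cyc) (s : V → Bool) (β : Bool) (d : D) : T.Edg (c.cellZ s β) d ↔ d ∈ c.cellZ s β := by
  unfold PvMap.Edg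
  rw [pvnx_cellZ_opp, or_self]

/-- monotonicity of dual joins in the EDGE sets -/
theorem pvnx_djoin_mono {Z Z' : Set D} (h : ∀ d, T.Edg Z' d → T.Edg Z d) {a b : D} (hab : T.DJoin Z a b) : T.DJoin Z' a b := by
  refine ReflTransGen.mono (fun x y hxy => ?_) a b hab
  rcases hxy with h1 | ⟨h1, h2⟩
  · exact Or.inl h1
  · exact Or.inr ⟨h1, fun h3 => h2 (h _ h3)⟩

/-- the boundary of a dual class lies in the walls -/
theorem pvnx_class_bd {Z : Set D} {a d : D} (h : T.Bd {x | T.DJoin Z a x} d) : T.Edg Z d := by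
  by_contra hn
  apply h
  constructor
  · intro h1
    exact ReflTransGen.tail h1 (Or.inr ⟨rfl, hn⟩)
  · intro h1
    have : T.DJoin Z a (T.opp (T.opp d)) := ReflTransGen.tail h1 (Or.inr ⟨rfl, fun h2 => hn (T.edg_opp.1 h2)⟩)
    rwa [T.opp_opp] at this

/-- a dual class is dual connected off its own boundary -/
theorem pvnx_class_conn {Z : Set D} {a : D} : ∀ x ∈ {x | T.DJoin Z a x}, ∀ y ∈ {x | T.DJoin Z a x},
    T.DJoin {d | T.Bd {x | T.DJoin Z a x} d} x y := by
  intro x hx y hy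
  have h1 : T.DJoin Z x y := ReflTransGen.trans (T.djoin_symm hx) hy
  exact pvnx_djoin_mono (fun d hd => pvnx_class_bd ((pl_bnd_edg _ d).1 hd)) h1

/-- the boundary of a finite face set is finite -/
theorem pvnx_bd_finite {A : Set D} (hA : A.Finite) : {d | T.Bd A d}.Finite := by
  refine (hA.union (hA.image T.opp)).subset ?_
  intro d hd
  by_cases h : d ∈ A
  · exact Or.inl h
  · refine Or.inr ⟨T.opp d, ?_, T.opp_opp d⟩
    by_contra h'
    exact hd ⟨fun h1 => absurd h1 h, fun h1 => absurd h1 h'⟩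

/-- the left side of a cycle is joined to `c.e 0` without crossing any edge which has a face off `c.Left` -/
theorem pvnx_left_in (hT : T.IsSph) (c : T.Cyc) {x : D} (hx : x ∈ c.Left) : T.DJoin c.Leftᶜ (c.e 0) x := by
  obtain ⟨-, hL, -, hb⟩ := pl_jordan hT c
  have e : {d | T.DJoin c.darts (c.e 0) d} = {d | T.DJoin {e | T.Bd c.Left e} (c.e 0) d} :=
    pl_djoin_congr (fun d => by rw [pl_bnd_edg, hb]) (c.e 0)
  have h1 : x ∈ {d | T.DJoin {e | T.Bd c.Left e} (c.e 0) d} := by rw [← e]; exact hx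
  exact (pl_djoin_in (pl_djoin_face c.darts (c.e 0)) h1 (hL 0)).2

/-- **a walk along darts of `G` contains a simple path all of whose darts lie in `G`** -/
theorem pvnx_pth_of_walk [Nonempty D] {G : Set D} {a b : V} (h : ReflTransGen (fun x y => ∃ d ∈ G, T.src d = x ∧ T.tgt d = y) a b) :
    ∃ p : T.Pth, p.v 0 = a ∧ p.v p.n = b ∧ ∀ i, i < p.n → p.e i ∈ G := by
  induction h with
  | refl =>
    obtain ⟨d₀⟩ := ‹Nonempty D›
    exact ⟨PvMap.Pth.nil T a d₀, rfl, rfl, fun i hi => absurd hi (Nat.not_lt_zero i)⟩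
  | tail _ hstep ih =>
    obtain ⟨p, p0, p1, pG⟩ := ih
    obtain ⟨d, hdG, hds, hdt⟩ := hstep
    by_cases hw : T.tgt d ∈ p.verts
    · obtain ⟨i, hi, hiw⟩ := hw
      refine ⟨p.seg 0 i, ?_, ?_, ?_⟩
      · show p.v (0 + 0) = a
        exact p0
      · show p.v (0 + (min i p.n - 0)) = _
        rw [Nat.min_eq_left hi, Nat.sub_zero, Nat.zero_add, hiw, hdt]
      · intro k hk
        have hk' : k < min i p.n - 0 := hk
        show p.e (0 + k) ∈ G
        rw [Nat.zero_add]
        exact pG k (by omega)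
    · refine ⟨p.snoc d (by rw [hds, p1]) hw, ?_, ?_, ?_⟩
      · show (if 0 ≤ p.n then p.v 0 else T.tgt d) = a
        rw [if_pos (Nat.zero_le _), p0]
      · show (if p.n + 1 ≤ p.n then p.v (p.n + 1) else T.tgt d) = _
        rw [if_neg (by omega), hdt]
      · intro k hk
        show (if k < p.n then p.e k else d) ∈ G
        by_cases h : k < p.n
        · rw [if_pos h]; exact pG k h
        · rw [if_neg h]; exact hdG

/-- two vertices of one face of `R` with the same colour are joined inside `R` -/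
theorem pvnx_face_join {R : Set D} (hR : T.FaceSet R) {s : V → Bool} {w : Bool} {d d' : D} (hd : d ∈ R) (h : T.SF d d') (h1 : s (T.src d) = w) (h2 : s (T.src d') = w) :
    T.Join R {v | s v = w} (T.src d) (T.src d') := by
  refine ⟨h1, ?_⟩
  rcases h with rfl | rfl | rfl
  · exact ReflTransGen.refl
  · exact ReflTransGen.single ⟨⟨d, Or.inl hd, rfl, rfl⟩, h2⟩
  · refine ReflTransGen.single ⟨⟨T.opp (T.nxt (T.nxt d)), Or.inr ?_, ?_, ?_⟩, h2⟩
    · rw [T.opp_opp]; exact (hR.nxt2 T d).2 hd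
    · rw [T.src_opp', T.tgt_nxt2]
    · rw [T.tgt_opp]

/-- **the white side region**: every face of the class of `f₀` off the edges with two ends of colour `b` (and off any other set of edges) has a vertex of the other colour, and all such vertices are joined, inside the class, to the source of `f₀` -/
theorem pvnx_white_side {s : V → Bool} {b : Bool} {W : Set D} (hW : ∀ d, s (T.src d) = b → s (T.tgt d) = b → d ∈ W) {f₀ : D} (h0 : s (T.src f₀) ≠ b) {f : D} (hf : T.DJoin W f₀ f) :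
    (∃ d, T.SF f d ∧ s (T.src d) ≠ b) ∧ ∀ d, T.SF f d → s (T.src d) ≠ b → T.Join {x | T.DJoin W f₀ x} {v | s v = s (T.src f₀)} (T.src d) (T.src f₀) := by
  have hR : T.FaceSet {x | T.DJoin W f₀ x} := pl_djoin_face W f₀
  induction hf with
  | refl =>
    refine ⟨⟨f₀, T.sf_refl _, h0⟩, fun d hd hs => ?_⟩
    exact pvnx_face_join hR ((hR.sf T hd).2 ReflTransGen.refl) (T.sf_symm hd) (pvt_c_bool hs h0) rfl
  | @tail a c hab hstep ih =>
    obtain ⟨⟨d₁, hd₁, hs₁⟩, ih2⟩ := ih
    rcases hstep with rfl | ⟨rfl, hE⟩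
    · exact ⟨⟨d₁, T.sf_trans (T.sf_symm (T.sf_nxt a)) hd₁, hs₁⟩, fun d hd hs => ih2 d (T.sf_trans (T.sf_nxt a) hd) hs⟩
    · -- the edge crossed has a white end
      have hc : T.opp a ∈ {x | T.DJoin W f₀ x} := ReflTransGen.tail hab (Or.inr ⟨rfl, hE⟩)
      have hex : ∃ d₀ d₀', T.SF a d₀ ∧ T.SF (T.opp a) d₀' ∧ T.src d₀ = T.src d₀' ∧ s (T.src d₀) ≠ b := by
        by_cases h1 : s (T.src a) = b
        · have h2 : s (T.tgt a) ≠ b := fun h2 => hE (Or.inl (hW a h1 h2))
          exact ⟨T.nxt a, T.opp a, T.sf_nxt a, T.sf_refl _, by rw [T.src_nxt, T.src_opp'], h2⟩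
        · exact ⟨a, T.nxt (T.opp a), T.sf_refl _, T.sf_nxt _, by rw [T.src_nxt, T.tgt_opp], h1⟩
      obtain ⟨d₀, d₀', g1, g2, g3, g4⟩ := hex
      refine ⟨⟨d₀', g2, by rw [← g3]; exact g4⟩, fun d hd hs => ?_⟩
      have j1 : T.Join {x | T.DJoin W f₀ x} {v | s v = s (T.src f₀)} (T.src d) (T.src d₀') :=
        pvnx_face_join hR ((hR.sf T hd).2 hc) (T.sf_trans (T.sf_symm hd) g2) (pvt_c_bool hs h0) (by rw [← g3]; exact pvt_c_bool g4 h0)
      rw [← g3] at j1
      exact pvt_c_join_trans j1 (ih2 d₀ g1 g4)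

/-- **EXIST**: a cell with finite region contains a faced path.   `Z` = lane `x_0 .. x_m` of colour `b`, then `x_(m+1) .. x_(n-1)` of the other colour; region `Z.Right`; anchor `x_(m+1)`. -/
theorem pvnx_exist (hT : T.IsSph) (hS : T.Simple) {s : V → Bool} {b : Bool} (Z : T.Cyc) {m : ℕ} (hlt : m + 1 < Z.n) (hblk : ∀ k, k ≤ m → s (T.src (Z.e k)) = b)
    (hwht : ∀ k, m < k → k < Z.n → s (T.src (Z.e k)) ≠ b) (hfin : Z.Right.Finite) :
    ∃ p : T.Pth, p.v 0 = T.src (Z.e 0) ∧ p.v p.n = T.src (Z.e m) ∧ p.Faced s Z.Right (T.tgt (Z.e m)) := by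
  obtain ⟨hRL, hL, hO, -⟩ := pl_jordan hT Z
  set W : Set D := Z.cellZ s b with hWdef
  set f₀ : D := T.opp (Z.e m) with hf₀
  set R : Set D := {d | T.DJoin W f₀ d} with hRdef
  have hsrc0 : T.src f₀ = T.tgt (Z.e m) := T.src_opp' _
  have hρ : s (T.src f₀) ≠ b := by
    rw [hsrc0, Z.chain]
    exact hwht (m + 1) (by omega) hlt
  have hRf : T.FaceSet R := pl_djoin_face W f₀
  have hRsub : R ⊆ Z.Right := by
    intro d hd
    have h1 : T.DJoin Z.darts f₀ d := pvnx_djoin_mono (fun d hd => (pvnx_cellZ_edg Z s b d).2 (Or.inl hd)) hd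
    exact ReflTransGen.trans (hO m) h1
  have hf₀R : f₀ ∈ R := ReflTransGen.refl
  have ho : Z.e 0 ∉ R := by
    intro h
    have := hRsub h
    rw [hRL] at this
    exact this (hL 0)
  obtain ⟨c, hRc, hcR, hce⟩ := pl_hull_at hT hS hRf (pvnx_bd_finite (hfin.subset hRsub)) ⟨f₀, hf₀R⟩ pvnx_class_conn ho
  obtain ⟨hcRL, -, -, -⟩ := pl_jordan hT c
  -- the left side of `Z` is on the right of the hull
  have hF1 : ∀ x ∈ Z.Left, x ∈ c.Right := by
    intro x hx
    rw [hcR]
    refine pvnx_djoin_mono (fun d hd => ?_) (pvnx_left_in hT Z hx)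
    have hd' : T.Bd R d := (pl_bnd_edg _ d).1 hd
    rw [← hRL]
    by_cases h : d ∈ R
    · exact Or.inl (hRsub h)
    · refine Or.inr (hRsub ?_)
      by_contra h'
      exact hd' ⟨fun h1 => absurd h1 h, fun h1 => absurd h1 h'⟩
  -- `f₀` is a dart of the hull
  have hf₀c : f₀ ∈ c.darts := by
    rw [pl_cyc_darts_iff hT c]
    refine ⟨hRc hf₀R, ?_⟩
    have h1 : T.opp f₀ ∈ c.Right := by
      rw [hf₀, T.opp_opp]
      exact hF1 _ (hL m)
    rw [hcRL] at h1
    exact h1
  obtain ⟨i1, hi1⟩ := hf₀c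
  -- the darts of the hull
  have hF4 : ∀ i, (s (T.src (c.e i)) = b ∧ s (T.tgt (c.e i)) = b) ∨ ∃ k, m ≤ k ∧ k < Z.n ∧ c.e i = T.opp (Z.e k) := by
    intro i
    obtain ⟨h1, h2⟩ := hce i
    have h3 : c.e i ∈ W := by
      by_contra h3
      exact h2 (ReflTransGen.tail h1 (Or.inr ⟨rfl, fun h4 => h3 ((pvnx_cellZ_edg Z s b _).1 h4)⟩))
    rcases h3 with (⟨k, hk⟩ | ⟨k, hk⟩) | h3
    · exfalso
      have h4 := hRsub h1
      rw [hRL, ← hk] at h4
      exact h4 (hL k)
    · have hk' : c.e i = T.opp (Z.e (k % Z.n)) := by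
        rw [pl_cyc_mod]
        show c.e i = T.opp (Z.e k)
        rw [hk, T.opp_opp]
      have hkn : k % Z.n < Z.n := Nat.mod_lt _ (pl_cyc_pos Z)
      rcases Nat.lt_or_ge (k % Z.n) m with h5 | h5
      · left
        rw [hk', T.src_opp', T.tgt_opp, Z.chain]
        exact ⟨hblk _ (by omega), hblk _ (by omega)⟩
      · exact Or.inr ⟨_, h5, hkn, hk'⟩
    · exact Or.inl h3
  -- good darts
  set ρ : V := T.tgt (Z.e m) with hρdef
  set G : Set D := {e | s (T.src e) = b ∧ s (T.tgt e) = b ∧ T.opp e ∈ Z.Right ∧ T.Join Z.Right {v | s v = s ρ} (T.apex (T.opp e)) ρ} with hG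
  have hgood : ∀ i, s (T.src (c.e i)) = b → s (T.tgt (c.e i)) = b → T.opp (c.e i) ∈ G := by
    intro i h1 h2
    obtain ⟨⟨d, hd, hs⟩, hj⟩ := pvnx_white_side (W := W) (fun d g1 g2 => Or.inr ⟨g1, g2⟩) hρ (hce i).1
    have hap : s (T.apex (c.e i)) ≠ b := by
      rcases hd with rfl | rfl | rfl
      · exact absurd h1 hs
      · exact absurd h2 hs
      · exact hs
    refine ⟨by rw [T.src_opp']; exact h2, by rw [T.tgt_opp]; exact h1, by rw [T.opp_opp]; exact hRsub (hce i).1, ?_⟩
    rw [T.opp_opp]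
    have := hj _ (T.sf_nxt2 (c.e i)) hap
    rw [hsrc0] at this
    exact pvt_c_join_mono_set hRsub subset_rfl this
  -- the first dart after `f₀` which is not `b`-`b`
  have hex : ∃ j, ¬ (s (T.src (c.e (i1 + 1 + j))) = b ∧ s (T.tgt (c.e (i1 + 1 + j))) = b) := by
    refine ⟨c.n - 1, fun h => hρ ?_⟩
    have hn := pl_cyc_pos c
    rw [show i1 + 1 + (c.n - 1) = i1 + c.n by omega, c.per, hi1] at h
    exact h.1
  classical
  have hj := Nat.find_spec hex
  have hmin : ∀ j, j < Nat.find hex → s (T.src (c.e (i1 + 1 + j))) = b ∧ s (T.tgt (c.e (i1 + 1 + j))) = b := fun j hj => not_not.1 (Nat.find_min hex hj)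
  set J := Nat.find hex with hJ
  have hwalk : ∀ j, j ≤ J → s (T.src (c.e (i1 + 1 + j))) = b ∧ ReflTransGen (fun x y => ∃ d ∈ G, T.src d = x ∧ T.tgt d = y) (T.src (c.e (i1 + 1 + j))) (T.src (Z.e m)) := by
    intro j
    induction j with
    | zero =>
      intro _
      have e : T.src (c.e (i1 + 1 + 0)) = T.src (Z.e m) := by
        rw [Nat.add_zero, ← c.chain, hi1, hf₀, T.tgt_opp]
      rw [e]
      exact ⟨hblk m le_rfl, ReflTransGen.refl⟩
    | succ j ih =>
      intro hjJ
      obtain ⟨-, h2⟩ := ih (by omega)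
      obtain ⟨g1, g2⟩ := hmin j (by omega)
      have e : T.src (c.e (i1 + 1 + (j + 1))) = T.tgt (c.e (i1 + 1 + j)) := by
        rw [c.chain]; rfl
      refine ⟨by rw [e]; exact g2, ReflTransGen.head ⟨T.opp (c.e (i1 + 1 + j)), hgood _ g1 g2, ?_, ?_⟩ h2⟩
      · rw [T.src_opp', e]
      · rw [T.tgt_opp]
  obtain ⟨hb, hw⟩ := hwalk J le_rfl
  have hend : T.src (c.e (i1 + 1 + J)) = T.src (Z.e 0) := by
    rcases hF4 (i1 + 1 + J) with h | ⟨k, hk1, hk2, hk3⟩
    · exact absurd h hj
    · rw [hk3, T.src_opp', Z.chain] at hb ⊢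
      rcases Nat.lt_or_ge (k + 1) Z.n with h | h
      · exact absurd hb (hwht _ (by omega) h)
      · have : k + 1 = 0 + Z.n := by omega
        rw [this, Z.per]
  rw [hend] at hw
  have : Nonempty D := ⟨f₀⟩
  obtain ⟨p, p0, p1, pG⟩ := pvnx_pth_of_walk hw
  have hρ' : s ρ ≠ b := by rw [← hsrc0]; exact hρ
  refine ⟨p, p0, p1, fun i hi => ?_, fun i hi => ⟨(pG i hi).2.2.1, (pG i hi).2.2.2⟩⟩
  have : s (p.v i) = b := by
    rcases Nat.lt_or_ge i p.n with h | h
    · rw [← p.src_e i h]; exact (pG i h).1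
    · have : i = p.n := le_antisymm hi h
      rw [this, p1]; exact hblk m le_rfl
  rw [this]
  exact hρ'.symm

/-- the vertices of a faced path are vertices of faces of the region -/
theorem pvnx_faced_verts {s : V → Bool} {R : Set D} {ρ : V} (hR : T.FaceSet R) {p : T.Pth} (hp : p.Faced s R ρ) (hn : 0 < p.n) : p.verts ⊆ T.VOf R := by
  rintro x ⟨i, hi, rfl⟩
  rcases Nat.lt_or_ge i p.n with h | h
  · exact ⟨T.nxt (T.opp (p.e i)), (hR _).2 (hp.2 i h).1, by rw [T.src_nxt, T.tgt_opp, p.src_e i h]⟩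
  · obtain rfl : i = p.n := le_antisymm hi h
    refine ⟨T.opp (p.e (p.n - 1)), (hp.2 _ (by omega)).1, ?_⟩
    rw [T.src_opp', p.tgt_e _ (by omega)]
    congr 1
    omega

/-- **EXIST, glued form**: `g` a path of colour `b`, `q` a return path whose inner vertices (at least one) have the other colour, the right side of `g.glue q` finite: there is a path `p` with the ends of `g`, faced in that region with anchor `q.v 1`; it can be glued to `q` -/
theorem pvnx_exist_glue (hT : T.IsSph) (hS : T.Simple) {s : V → Bool} {b : Bool} (g q : T.Pth) (h : g.Glue q) (hg : ∀ i, i ≤ g.n → s (g.v i) = b)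
    (hq : ∀ i, 0 < i → i < q.n → s (q.v i) ≠ b) (hq2 : 2 ≤ q.n) (hfin : (g.glue q h).Right.Finite) :
    ∃ p : T.Pth, p.v 0 = g.v 0 ∧ p.v p.n = g.v g.n ∧ p.Faced s (g.glue q h).Right (q.v 1) ∧ p.Glue q ∧ p.verts ⊆ T.VOf (g.glue q h).Right := by
  obtain ⟨hgn, -⟩ := pl_pth_glue_pos h
  have hn : (g.glue q h).n = g.n + q.n := pl_pth_glue_n g q h
  obtain ⟨p, p0, p1, pF⟩ := pvnx_exist hT hS (s := s) (b := b) (g.glue q h) (m := g.n) (by omega)
    (fun k hk => by rw [pl_pth_glue_src1 g q h hk]; exact hg k hk)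
    (fun k hk1 hk2 => by
      obtain ⟨j, rfl⟩ := Nat.exists_eq_add_of_le hk1.le
      rw [pl_pth_glue_src2 g q h (by omega)]
      exact hq j (by omega) (by omega)) hfin
  have e1 : T.tgt ((g.glue q h).e g.n) = q.v 1 := by
    rw [(g.glue q h).chain, pl_pth_glue_src2 g q h (by omega)]
  rw [e1] at pF
  rw [pl_pth_glue_src1 g q h (Nat.zero_le _)] at p0
  rw [pl_pth_glue_src1 g q h le_rfl] at p1
  have hpn : 0 < p.n := by
    rcases Nat.eq_zero_or_pos p.n with h0 | h0
    · exfalso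
      rw [h0, p0] at p1
      have := g.inj _ _ (Nat.zero_le _) le_rfl p1
      omega
    · exact h0
  have hρ : s (q.v 1) ≠ b := hq 1 (by omega) (by omega)
  refine ⟨p, p0, p1, pF, ⟨by rw [p1, h.h1], by rw [p0, h.h2], by omega, ?_⟩, pvnx_faced_verts (pl_djoin_face _ _) pF hpn⟩
  intro i j hi hj hij
  rcases Nat.eq_zero_or_pos j with rfl | hj0
  · left
    refine ⟨p.inj _ _ hi le_rfl ?_, rfl⟩
    rw [hij, p1, h.h1]
  · rcases Nat.lt_or_ge j q.n with hj1 | hj1
    · exfalso
      have h1 := pF.1 i hi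
      rw [hij] at h1
      exact h1 (pvt_c_bool (hq j hj0 hj1) hρ)
    · right
      obtain rfl : j = q.n := le_antisymm hj hj1
      refine ⟨p.inj _ _ hi (Nat.zero_le _) ?_, rfl⟩
      rw [hij, p0, h.h2]

end Claimed.Agent.R289
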