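-- KEEP
import Claimed.Agent.R289.Del.Bulk
import Claimed.Agent.R289.Pl.Geo
import Claimed.Agent.R289.Tr.GateN

/-!
# Row 289 (S0537), unit TR, ROAD P, P11' = M11 ORIENTATION, the T-LINK completion ↔ plane : Tr/OrientX      (owner helper31; prefix `pvox_`, defs `pvox*`)

A rim `P` is a cycle of a COMPLETION `𝔅.T Y` (`𝔅.Ok Y K`): a finite sphere which is geometric only at the faces with a vertex in `K`.   The analytic half of M11 (`Tr/OrientW` of 202) lives in the Delaunay PLANE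
`(delPl h).toMap` with `plg_del h`.      This file is the dictionary of SIDES.
* sec.1  `pvoxA 𝔅 h L` := plane twins (`DelbRel`) of the EMBEDDED darts of a face set `L` of the completion;   `pvox_face`, `pvox_fin` (finite face set of the plane), `pvox_compl` (on the star of `K` the twins of `Lᶜ` are the complement)
* sec.2  the boundary: `pvox_bd` (a boundary dart is the twin of a boundary dart of `L` or has both ends off `K`), `pvox_bd_cyc` (`L = P.Left`: twin of a dart `P.e i`)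
         `pvox_rim` (a dart of `P` with an end in `K` has a twin, which is a positive boundary dart of `A`), `pvox_rim_chain`, `pvox_rim_inj` (the twins form a chain of DISTINCT darts)
* sec.3  sides: `pvox_right`, `pvox_left` (sites), `pvox_face_right`, `pvox_face_left` (faces)
* sec.4  MESH form: `pvox_bdReal` (inside a window `W` all of whose faces have their vertices in `K`, the boundary of `|A|` is the polygon of `P`), `pvox_stay`, **`pvox_lane`** (a connected set in the window, off the polygon, with ONE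
         point off `|A|`: all its sites are strictly on the right of `P`), `pvox_lane_left`, `pvox_gate` (shape of `PvsqOrient`)
-/

set_option autoImplicit false

namespace Claimed.Agent.R289

open Set Relation

variable {X : Type} (𝔅 : PvBulk X) {Y K : Set ℂ} (h : DelGood Y)

/-! ## 1. the plane twin of a face set of the completion -/

/-- the plane twins of the embedded darts of `L` -/
def pvoxA (L : Set (𝔅.D Y)) : Set (delPl h).Dart := {e | ∃ d ∈ L, 𝔅.Emb Y d ∧ DelbRel 𝔅 h d e}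

theorem pvox_eqns_cite : True := by
  have := @pvoxA.eq_1
  trivial

variable {𝔅 h}

theorem pvox_face (hOk : 𝔅.Ok Y K) {L : Set (𝔅.D Y)} (hL : (𝔅.T Y).FaceSet L) : (delPl h).toMap.FaceSet (pvoxA 𝔅 h L) := by
  intro e
  constructor
  · rintro ⟨d, hd, hE, hr⟩
    refine ⟨(𝔅.T Y).nxt ((𝔅.T Y).nxt d), (hL.nxt2 _ d).2 hd, (delb_emb_nxt2 𝔅 d).2 hE, ?_⟩
    have := delb_rel_nxt2 hOk hr hE
    rwa [PvMap.nxt3] at this
  · rintro ⟨d, hd, hE, hr⟩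
    exact ⟨_, (hL d).2 hd, (delb_emb_nxt 𝔅 d).2 hE, delb_rel_nxt hOk hr hE⟩

theorem pvox_fin {L : Set (𝔅.D Y)} (hL : L.Finite) : (pvoxA 𝔅 h L).Finite := by
  have h1 : pvoxA 𝔅 h L ⊆ ⋃ d ∈ L, {e | DelbRel 𝔅 h d e} := by
    rintro e ⟨d, hd, -, hr⟩
    exact Set.mem_biUnion hd hr
  refine (hL.biUnion fun d _ => Set.Subsingleton.finite ?_).subset h1
  intro e he e' he'
  exact delb_rel_fun he he'

theorem pvox_mono {L L' : Set (𝔅.D Y)} (hLL : L ⊆ L') : pvoxA 𝔅 h L ⊆ pvoxA 𝔅 h L' := by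
  rintro e ⟨d, hd, hE, hr⟩
  exact ⟨d, hLL hd, hE, hr⟩

/-- the twins of `L` and of `Lᶜ` are disjoint -/
theorem pvox_disj (hOk : 𝔅.Ok Y K) (L : Set (𝔅.D Y)) : Disjoint (pvoxA 𝔅 h L) (pvoxA 𝔅 h Lᶜ) := by
  rw [Set.disjoint_left]
  rintro e ⟨d, hd, -, hr⟩ ⟨d', hd', -, hr'⟩
  exact hd' (delb_rel_inj hOk hr hr' ▸ hd)

/-- on the star of `K` the twins of `Lᶜ` are the complement of the twins of `L` -/
theorem pvox_compl (hOk : 𝔅.Ok Y K) (L : Set (𝔅.D Y)) {e : (delPl h).Dart} (he : e ∈ delbStar h K) : e ∈ pvoxA 𝔅 h Lᶜ ↔ e ∉ pvoxA 𝔅 h L := by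
  constructor
  · exact fun h1 h2 => Set.disjoint_left.1 (pvox_disj hOk L) h2 h1
  · intro h1
    obtain ⟨d, hr, hE⟩ := delb_rel_of_star hOk he
    exact ⟨d, fun hd => h1 ⟨d, hd, hE, hr⟩, hE, hr⟩

/-! ## 2. the boundary -/

/-- a positive boundary dart of the twin set is the twin of a positive boundary dart, or has both ends off `K` -/
theorem pvox_bd (hOk : 𝔅.Ok Y K) {L : Set (𝔅.D Y)} {e : (delPl h).Dart} (he : e ∈ pvoxA 𝔅 h L) (ho : (delPl h).toMap.opp e ∉ pvoxA 𝔅 h L) :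
    (∃ d, d ∈ L ∧ (𝔅.T Y).opp d ∉ L ∧ DelbRel 𝔅 h d e) ∨ (((delPl h).toMap.src e : ℂ) ∉ K ∧ ((delPl h).toMap.tgt e : ℂ) ∉ K) := by
  obtain ⟨d, hd, hE, hr⟩ := he
  by_cases hE' : 𝔅.Emb Y ((𝔅.T Y).opp d)
  · exact Or.inl ⟨d, hd, fun hd' => ho ⟨_, hd', hE', delb_rel_opp hr⟩, hr⟩
  · exact Or.inr ⟨fun hK => hE' (delb_emb_opp_of_src hOk hr.1 hK), fun hK => hE' (delb_emb_opp_of_tgt hOk hr.2 hK)⟩

/-- the same for the left side of a cycle -/
theorem pvox_bd_cyc (hOk : 𝔅.Ok Y K) (P : (𝔅.T Y).Cyc) {e : (delPl h).Dart} (he : e ∈ pvoxA 𝔅 h P.Left) (ho : (delPl h).toMap.opp e ∉ pvoxA 𝔅 h P.Left) :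
    (∃ i, i < P.n ∧ DelbRel 𝔅 h (P.e i) e) ∨ (((delPl h).toMap.src e : ℂ) ∉ K ∧ ((delPl h).toMap.tgt e : ℂ) ∉ K) := by
  rcases pvox_bd hOk he ho with ⟨d, hd, hd', hr⟩ | h2
  · left
    obtain ⟨-, hL, -, hB⟩ := pl_jordan hOk.sph P
    have hb : (𝔅.T Y).Bd P.Left d := fun hh => hd' (hh.1 hd)
    obtain ⟨k, -, hk, hk'⟩ := (pl_cyc_edg_window P 0 d).1 ((hB d).1 hb)
    rcases hk' with rfl | rfl
    · exact ⟨k, by omega, hr⟩
    · rw [PvMap.opp_opp] at hd'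
      exact absurd (hL k) hd'
  · exact Or.inr h2

/-- a dart of the cycle with an end in `K` has a twin, which is a positive boundary dart of the twin set of the left side -/
theorem pvox_rim (hOk : 𝔅.Ok Y K) (P : (𝔅.T Y).Cyc) {i : ℕ} {a : ℂ} (haK : a ∈ K)
    (ha : 𝔅.lab Y ((𝔅.T Y).src (P.e i)) = Sum.inl a ∨ 𝔅.lab Y ((𝔅.T Y).tgt (P.e i)) = Sum.inl a) :
    ∃ e : (delPl h).Dart, DelbRel 𝔅 h (P.e i) e ∧ e ∈ pvoxA 𝔅 h P.Left ∧ (delPl h).toMap.opp e ∉ pvoxA 𝔅 h P.Left := by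
  obtain ⟨hR, hL, hO, -⟩ := pl_jordan hOk.sph P
  have hE : 𝔅.Emb Y (P.e i) := by
    rcases ha with ha | ha
    · exact delb_emb_of_src hOk ha haK
    · exact delb_emb_of_tgt hOk ha haK
  obtain ⟨e, hr⟩ := delb_rel_of_emb h hOk hE
  refine ⟨e, hr, ⟨_, hL i, hE, hr⟩, ?_⟩
  rintro ⟨d', hd', -, hr'⟩
  have : d' = (𝔅.T Y).opp (P.e i) := delb_rel_inj hOk hr' (delb_rel_opp hr)
  have h2 := hO i
  rw [hR, ← this] at h2
  exact h2 hd'

/-- the twins of consecutive darts are consecutive -/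
theorem pvox_rim_chain (P : (𝔅.T Y).Cyc) {i : ℕ} {e e' : (delPl h).Dart} (hr : DelbRel 𝔅 h (P.e i) e) (hr' : DelbRel 𝔅 h (P.e (i + 1)) e') :
    (delPl h).toMap.tgt e = (delPl h).toMap.src e' := by
  have h1 := hr.2
  rw [P.chain, hr'.1] at h1
  exact (Subtype.ext (Sum.inl_injective h1)).symm

/-- the twins of distinct darts are distinct -/
theorem pvox_rim_inj (hOk : 𝔅.Ok Y K) (P : (𝔅.T Y).Cyc) {i j : ℕ} (hi : i < P.n) (hj : j < P.n) {e : (delPl h).Dart} (hr : DelbRel 𝔅 h (P.e i) e) (hr' : DelbRel 𝔅 h (P.e j) e) :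
    i = j := P.inj i j hi hj (by rw [delb_rel_inj hOk hr hr'])

/-- positions through the dictionary -/
theorem pvox_rel_pos {d : 𝔅.D Y} {e : (delPl h).Dart} (hr : DelbRel 𝔅 h d e) :
    𝔅.pos Y ((𝔅.T Y).src d) = ((delPl h).toMap.src e : ℂ) ∧ 𝔅.pos Y ((𝔅.T Y).tgt d) = ((delPl h).toMap.tgt e : ℂ) :=
  ⟨delb_pos_inl 𝔅 hr.1, delb_pos_inl 𝔅 hr.2⟩

theorem pvox_rel_seg {d : 𝔅.D Y} {e : (delPl h).Dart} (hr : DelbRel 𝔅 h d e) : (𝔅.T Y).seg (𝔅.pos Y) d = (delPl h).toMap.seg Subtype.val e := by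
  unfold PvMap.seg
  rw [(pvox_rel_pos hr).1, (pvox_rel_pos hr).2]

/-! ## 3. sides -/

/-- a face of the star of `K` which contains a point off `|A|` is the twin of a face on the right of `P` -/
theorem pvox_face_right (hOk : 𝔅.Ok Y K) (P : (𝔅.T Y).Cyc) {e : (delPl h).Dart} (he : e ∈ delbStar h K) {w : ℂ} (hw : w ∈ (delPl h).toMap.tri Subtype.val e)
    (hwA : w ∉ (delPl h).toMap.real Subtype.val (pvoxA 𝔅 h P.Left)) : ∃ d, d ∈ P.Right ∧ 𝔅.Emb Y d ∧ DelbRel 𝔅 h d e := by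
  obtain ⟨d, hr, hE⟩ := delb_rel_of_star hOk he
  refine ⟨d, ?_, hE, hr⟩
  rw [(pl_jordan hOk.sph P).1]
  exact fun hd => hwA ⟨e, ⟨d, hd, hE, hr⟩, hw⟩

/-- a face which contains a point off `|Aᶜ|` is the twin of a face on the left of `P` -/
theorem pvox_face_left (P : (𝔅.T Y).Cyc) {e : (delPl h).Dart} {w : ℂ} (hw : w ∈ (delPl h).toMap.tri Subtype.val e)
    (hwA : w ∉ (delPl h).toMap.real Subtype.val (pvoxA 𝔅 h P.Left)ᶜ) : ∃ d, d ∈ P.Left ∧ 𝔅.Emb Y d ∧ DelbRel 𝔅 h d e := by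
  by_contra hc
  exact hwA ⟨e, hc, hw⟩

/-- **a site of `K` off `|A|` is strictly on the right of `P`** -/
theorem pvox_right (hOk : 𝔅.Ok Y K) (P : (𝔅.T Y).Cyc) {p : ℂ} (hpK : p ∈ K) {v : 𝔅.V Y} (hv : 𝔅.lab Y v = Sum.inl p)
    (hp : p ∉ (delPl h).toMap.real Subtype.val (pvoxA 𝔅 h P.Left)) : v ∈ (𝔅.T Y).Int P.Right := by
  intro d hd
  rw [(pl_jordan hOk.sph P).1]
  intro hdL
  have hl : 𝔅.lab Y ((𝔅.T Y).src d) = Sum.inl p := by rw [hd]; exact hv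
  have hE := delb_emb_of_src hOk hl hpK
  obtain ⟨e, hr⟩ := delb_rel_of_emb h hOk hE
  refine hp ⟨e, ⟨d, hdL, hE, hr⟩, ?_⟩
  have : p = ((delPl h).toMap.src e : ℂ) := Sum.inl_injective (hl.symm.trans hr.1)
  rw [this]
  exact plg_src_mem_tri (plg_del h) e

/-- **a site of `K` off `|Aᶜ|` is strictly on the left of `P`** -/
theorem pvox_left (hOk : 𝔅.Ok Y K) (P : (𝔅.T Y).Cyc) {p : ℂ} (hpK : p ∈ K) {v : 𝔅.V Y} (hv : 𝔅.lab Y v = Sum.inl p)
    (hp : p ∉ (delPl h).toMap.real Subtype.val (pvoxA 𝔅 h P.Left)ᶜ) : v ∈ (𝔅.T Y).Int P.Left := by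
  intro d hd
  have hl : 𝔅.lab Y ((𝔅.T Y).src d) = Sum.inl p := by rw [hd]; exact hv
  have hE := delb_emb_of_src hOk hl hpK
  obtain ⟨e, hr⟩ := delb_rel_of_emb h hOk hE
  have hpe : p ∈ (delPl h).toMap.tri Subtype.val e := by
    have : p = ((delPl h).toMap.src e : ℂ) := Sum.inl_injective (hl.symm.trans hr.1)
    rw [this]
    exact plg_src_mem_tri (plg_del h) e
  obtain ⟨d', hd', -, hr'⟩ := pvox_face_left P hpe hp
  rw [delb_rel_inj hOk hr hr']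
  exact hd'

/-! ## 4. the window -/

/-- **MESH**: every plane face which meets `W` has its vertices in `K` -/
def PvoxMesh (h : DelGood Y) (W K : Set ℂ) : Prop := ∀ e : (delPl h).Dart, ((delPl h).toMap.tri Subtype.val e ∩ W).Nonempty → ((delPl h).toMap.src e : ℂ) ∈ K

theorem pvox_eqns_cite2 : True := by
  have := @PvoxMesh.eq_1
  trivial

theorem PvoxMesh.tgt {W : Set ℂ} (hW : PvoxMesh h W K) {e : (delPl h).Dart} (he : ((delPl h).toMap.tri Subtype.val e ∩ W).Nonempty) : ((delPl h).toMap.tgt e : ℂ) ∈ K :=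
  hW ((delPl h).toMap.nxt e) (by rw [plg_tri_nxt]; exact he)

theorem PvoxMesh.mono {W W' : Set ℂ} (hW : PvoxMesh h W K) (hWW : W' ⊆ W) : PvoxMesh h W' K := fun e he => hW e (he.mono (Set.inter_subset_inter_right _ hWW))

/-- inside the window the boundary of `|A|` is the polygon of `P` -/
theorem pvox_bdReal (hOk : 𝔅.Ok Y K) (P : (𝔅.T Y).Cyc) {W : Set ℂ} (hW : PvoxMesh h W K) {w : ℂ} (hw : w ∈ W)
    (hb : w ∈ (delPl h).toMap.bdReal Subtype.val (pvoxA 𝔅 h P.Left)) :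
    ∃ i a b, i < P.n ∧ 𝔅.lab Y ((𝔅.T Y).src (P.e i)) = Sum.inl a ∧ 𝔅.lab Y ((𝔅.T Y).tgt (P.e i)) = Sum.inl b ∧ a ∈ K ∧ b ∈ K ∧ w ∈ segment ℝ a b := by
  obtain ⟨e, hbe, hwe⟩ := hb
  have key : ∀ e : (delPl h).Dart, e ∈ pvoxA 𝔅 h P.Left → (delPl h).toMap.opp e ∉ pvoxA 𝔅 h P.Left → w ∈ (delPl h).toMap.seg Subtype.val e →
      ∃ i a b, i < P.n ∧ 𝔅.lab Y ((𝔅.T Y).src (P.e i)) = Sum.inl a ∧ 𝔅.lab Y ((𝔅.T Y).tgt (P.e i)) = Sum.inl b ∧ a ∈ K ∧ b ∈ K ∧ w ∈ segment ℝ a b := by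
    intro e he ho hwe
    have hne : ((delPl h).toMap.tri Subtype.val e ∩ W).Nonempty := ⟨w, plg_seg_sub_tri (plg_del h) e hwe, hw⟩
    rcases pvox_bd_cyc hOk P he ho with ⟨i, hi, hr⟩ | ⟨h1, -⟩
    · exact ⟨i, _, _, hi, hr.1, hr.2, hW e hne, hW.tgt hne, hwe⟩
    · exact absurd (hW e hne) h1
  by_cases he : e ∈ pvoxA 𝔅 h P.Left
  · exact key e he (fun ho => hbe ⟨fun _ => ho, fun _ => he⟩) hwe
  · have ho : (delPl h).toMap.opp e ∈ pvoxA 𝔅 h P.Left := by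
      by_contra ho
      exact hbe ⟨fun h1 => absurd h1 he, fun h1 => absurd h1 ho⟩
    exact key _ ho (by rw [PvMap.opp_opp]; exact he) (by rw [plg_seg_opp]; exact hwe)

/-- a connected set in the window, off the polygon of `P`, is off the boundary of `|A|` -/
theorem pvox_off (hOk : 𝔅.Ok Y K) (P : (𝔅.T Y).Cyc) {W S : Set ℂ} (hW : PvoxMesh h W K) (hSW : S ⊆ W)
    (hSP : ∀ i a b, i < P.n → 𝔅.lab Y ((𝔅.T Y).src (P.e i)) = Sum.inl a → 𝔅.lab Y ((𝔅.T Y).tgt (P.e i)) = Sum.inl b → a ∈ K → b ∈ K → Disjoint S (segment ℝ a b)) :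
    Disjoint S ((delPl h).toMap.bdReal Subtype.val (pvoxA 𝔅 h P.Left)) := by
  rw [Set.disjoint_left]
  intro w hwS hb
  obtain ⟨i, a, b, hi, h1, h2, h3, h4, h5⟩ := pvox_bdReal hOk P hW (hSW hwS) hb
  exact Set.disjoint_left.1 (hSP i a b hi h1 h2 h3 h4) hwS h5

/-- a connected set off the boundary with one point off `|A|` is off `|A|` -/
theorem pvox_stay (hOk : 𝔅.Ok Y K) (P : (𝔅.T Y).Cyc) {S : Set ℂ} (hS : IsPreconnected S)
    (h0 : Disjoint S ((delPl h).toMap.bdReal Subtype.val (pvoxA 𝔅 h P.Left))) {w : ℂ} (hw : w ∈ S) (hwA : w ∉ (delPl h).toMap.real Subtype.val (pvoxA 𝔅 h P.Left)) :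
    Disjoint S ((delPl h).toMap.real Subtype.val (pvoxA 𝔅 h P.Left)) := by
  have hA := pvox_face (h := h) hOk (pl_left_face P)
  have hw' : w ∈ (delPl h).toMap.real Subtype.val (pvoxA 𝔅 h P.Left)ᶜ := by
    have := plg_union (plg_del h) (pvoxA 𝔅 h P.Left)
    have h2 : w ∈ (delPl h).toMap.real Subtype.val (pvoxA 𝔅 h P.Left) ∪ (delPl h).toMap.real Subtype.val (pvoxA 𝔅 h P.Left)ᶜ := by rw [this]; exact Set.mem_univ _
    exact h2.resolve_left hwA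
  have := plg_stay (delp_isSph h) (plg_del h) hA.compl hS (by rw [plg_bdReal_compl]; exact h0) ⟨w, hw, hw'⟩
  rw [compl_compl] at this
  exact Set.disjoint_left.2 fun z hz hz' => this hz hz'

/-- the mirror statement -/
theorem pvox_stay_left (hOk : 𝔅.Ok Y K) (P : (𝔅.T Y).Cyc) {S : Set ℂ} (hS : IsPreconnected S)
    (h0 : Disjoint S ((delPl h).toMap.bdReal Subtype.val (pvoxA 𝔅 h P.Left))) {w : ℂ} (hw : w ∈ S) (hwA : w ∈ (delPl h).toMap.real Subtype.val (pvoxA 𝔅 h P.Left)) :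
    Disjoint S ((delPl h).toMap.real Subtype.val (pvoxA 𝔅 h P.Left)ᶜ) := by
  have hA := pvox_face (h := h) hOk (pl_left_face P)
  have := plg_stay (delp_isSph h) (plg_del h) hA hS h0 ⟨w, hw, hwA⟩
  exact Set.disjoint_left.2 fun z hz hz' => this hz hz'

/-- **T-LINK, RIGHT**: `S` a connected set in the window, off the polygon of `P`, with ONE point off `|A|`.   Then all the sites of `S` are strictly on the right of `P` -/
theorem pvox_lane (hOk : 𝔅.Ok Y K) (P : (𝔅.T Y).Cyc) {W S : Set ℂ} (hW : PvoxMesh h W K) (hSW : S ⊆ W) (hS : IsPreconnected S)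
    (hSP : ∀ i a b, i < P.n → 𝔅.lab Y ((𝔅.T Y).src (P.e i)) = Sum.inl a → 𝔅.lab Y ((𝔅.T Y).tgt (P.e i)) = Sum.inl b → a ∈ K → b ∈ K → Disjoint S (segment ℝ a b))
    {w : ℂ} (hw : w ∈ S) (hwA : w ∉ (delPl h).toMap.real Subtype.val (pvoxA 𝔅 h P.Left)) {v : 𝔅.V Y} {p : ℂ} (hv : 𝔅.lab Y v = Sum.inl p) (hp : p ∈ S) :
    v ∈ (𝔅.T Y).Int P.Right := by
  have h1 := pvox_stay hOk P hS (pvox_off hOk P hW hSW hSP) hw hwA
  have hpY : p ∈ Y := hOk.site v p hv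
  have hpK : p ∈ K := by
    obtain ⟨b, hab⟩ := del_exists_adj h.lf hpY (h.bdd p)
    exact hW (delbP h hab) ⟨p, plg_src_mem_tri (plg_del h) (delbP h hab), hSW hp⟩
  exact pvox_right hOk P hpK hv (Set.disjoint_left.1 h1 hp)

/-- **T-LINK, LEFT** -/
theorem pvox_lane_left (hOk : 𝔅.Ok Y K) (P : (𝔅.T Y).Cyc) {W S : Set ℂ} (hW : PvoxMesh h W K) (hSW : S ⊆ W) (hS : IsPreconnected S)
    (hSP : ∀ i a b, i < P.n → 𝔅.lab Y ((𝔅.T Y).src (P.e i)) = Sum.inl a → 𝔅.lab Y ((𝔅.T Y).tgt (P.e i)) = Sum.inl b → a ∈ K → b ∈ K → Disjoint S (segment ℝ a b))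
    {w : ℂ} (hw : w ∈ S) (hwA : w ∈ (delPl h).toMap.real Subtype.val (pvoxA 𝔅 h P.Left)) {v : 𝔅.V Y} {p : ℂ} (hv : 𝔅.lab Y v = Sum.inl p) (hp : p ∈ S) :
    v ∈ (𝔅.T Y).Int P.Left := by
  have h1 := pvox_stay_left hOk P hS (pvox_off hOk P hW hSW hSP) hw hwA
  have hpY : p ∈ Y := hOk.site v p hv
  have hpK : p ∈ K := by
    obtain ⟨b, hab⟩ := del_exists_adj h.lf hpY (h.bdd p)
    exact hW (delbP h hab) ⟨p, plg_src_mem_tri (plg_del h) (delbP h hab), hSW hp⟩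
  exact pvox_left hOk P hpK hv (Set.disjoint_left.1 h1 hp)

/-- **shape of `PvsqOrient`**: a vertex of the lane on the circuit of a gate passed by `P` lies on the right arc -/
theorem pvox_gate (hOk : 𝔅.Ok Y K) {s : 𝔅.V Y → Bool} (P : (𝔅.T Y).Cyc) (hP : ∀ k, s ((𝔅.T Y).src (P.e k)) = true) {W S : Set ℂ} (hW : PvoxMesh h W K) (hSW : S ⊆ W) (hS : IsPreconnected S)
    (hSP : ∀ i a b, i < P.n → 𝔅.lab Y ((𝔅.T Y).src (P.e i)) = Sum.inl a → 𝔅.lab Y ((𝔅.T Y).tgt (P.e i)) = Sum.inl b → a ∈ K → b ∈ K → Disjoint S (segment ℝ a b))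
    {w : ℂ} (hw : w ∈ S) (hwA : w ∉ (delPl h).toMap.real Subtype.val (pvoxA 𝔅 h P.Left)) (g : (𝔅.T Y).Gate s) {lo hi : ℕ} (hg : g.Pass P lo hi)
    {v : 𝔅.V Y} {p : ℂ} (hv : 𝔅.lab Y v = Sum.inl p) (hp : p ∈ S) (hvg : v ∈ g.c.verts) : v ∈ g.R :=
  pvgz_pass_right hOk.sph g hP hg hvg (pvox_lane hOk P hW hSW hS hSP hw hwA hv hp)

end Claimed.Agent.R289
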