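import Claimed.Agent.R289.Tr.SysP
import Claimed.Agent.R289.Tr.CellChainM
import Claimed.Agent.R289.Ppp.Counts

/-!
# Row 289 (S0537, Cardy for Poisson-Voronoi), THE WALL, ROAD P, file Tr/PatP : THE PRODUCER OF `PvypPat` (58, `Tr/SysP` sec. 6)      (pen helper183, post of 273 11:02Z; prefix `pvyt_`, `pvyt`, `Pvyt`)

The closing chain of a PATTERN `π`:      `t -o-> cells of π.l -i-> s`      (exit funnel of `t`, `δ`-cells of the corridor of 138, entrance funnel of `s`).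
`PvypPat D Γ W a m ε π q` is produced from records PER CANDIDATE + the kit + ONE geometric record per pattern:

* sec. 1  integrability kit:   `pvyt_w2_ge` (`1_{G ∩ G' ∩ A} ≤ w2`), **`pvyt_fin_of_sq`** (second moment under the two-plug weight ⟹ `L¹` on the plain event), **`pvyt_fin_of_count`** (crude bound by the number of points of a window + Campbell)
* sec. 2  `PvytKit` (kit: `WF Fld Forced`, `L¹` of the three reference cells), `PvytOut` (EXIT SIDE of a candidate `(z,t)`), `PvytIn` (ENTRANCE SIDE of a candidate)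
* sec. 3  geometry:   `pvytZone` = the plane minus the corridor;   **`pvyt_zone_disj`** (all the plugs and tiles of the corridor miss the zone);   `PvytGeo` (path of cells + foreign regions in the zone + six disjointness facts)  ⟹  **`pvyt_for`** = `PvccmFor` of 166
* sec. 4  `pvytLst pvytFld pvytEv` (names for the list, the fields, the event of the chain), **`pvyt_frc`**, **`pvyt_fin`** = fields `frc fin` verbatim
* sec. 5  `pvyt_for_`, `pvyt_forX`, **`pvyt_pat`** : the record of 58, `W := kit.W`, `q := pvskQ qa qk qf 1 |π.l|`;   **`pvyt_Dc_le`** (bound of `D_c`, uniform in the mesh)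
-/

set_option autoImplicit false

namespace Claimed.Agent.R289

open MeasureTheory Filter Topology Set Claims.C0465
open scoped ENNReal

/-! ## 1. integrability -/

section integ

variable {E : Type*} [MeasurableSpace E] {μ : Measure (Conf E)}

/-- the two-plug weight dominates the indicator of the plain event -/
theorem pvyt_w2_ge [IsProbabilityMeasure μ] (a b : PvsySec E) {η : Conf E} (h1 : η ∈ a.G) (h2 : η ∈ b.G) (h3 : η ∈ a.A) : 1 ≤ a.w2 b μ η := by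
  have hg : ∀ {G : Set (Conf E)}, η ∈ G → 1 ≤ G.indicator (1 : Conf E → ℝ≥0∞) η / μ G := by
    intro G hG
    rw [Set.indicator_of_mem hG, Pi.one_apply, one_div]
    exact ENNReal.one_le_inv.2 prob_le_one
  have hw : 1 ≤ a.w b μ η := by
    unfold PvsySec.w pvtiW
    rw [Set.indicator_of_mem h3, Pi.one_apply, one_div]
    exact ENNReal.one_le_inv.2 (pvti_P_le_one _ _ _)
  unfold PvsySec.w2 PvsySec.g
  calc (1 : ℝ≥0∞) = 1 * 1 * 1 := by simp
    _ ≤ _ := mul_le_mul' (mul_le_mul' (hg h1) (hg h2)) hw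

/-- **second moment under the two-plug weight ⟹ `L¹` on the plain event** -/
theorem pvyt_fin_of_sq [IsProbabilityMeasure μ] (a b : PvsySec E) (hS : NullMeasurableSet (a.G ∩ b.G ∩ a.A) μ) {X : Conf E → ℂ}
    (h : ∫⁻ η, ‖X η‖ₑ ^ 2 * a.w2 b μ η ∂μ ≠ ∞) : ∫⁻ η in a.G ∩ b.G ∩ a.A, ‖X η‖ₑ ∂μ ≠ ∞ := by
  have h1 : ∫⁻ η in a.G ∩ b.G ∩ a.A, ‖X η‖ₑ ∂μ ≤ ∫⁻ η in a.G ∩ b.G ∩ a.A, (1 + ‖X η‖ₑ ^ 2 * a.w2 b μ η) ∂μ := by
    refine lintegral_mono_ae ((ae_restrict_iff'₀ hS).2 (ae_of_all _ fun η hη => ?_))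
    have hw := pvyt_w2_ge (μ := μ) a b hη.1.1 hη.1.2 hη.2
    calc ‖X η‖ₑ ≤ 1 + ‖X η‖ₑ ^ 2 := pvthx_le_one_add_sq153 _
      _ ≤ 1 + ‖X η‖ₑ ^ 2 * a.w2 b μ η := by gcongr; exact le_mul_of_one_le_right' hw
  have h2 : ∫⁻ η in a.G ∩ b.G ∩ a.A, (1 + ‖X η‖ₑ ^ 2 * a.w2 b μ η) ∂μ ≤ 1 + ∫⁻ η, ‖X η‖ₑ ^ 2 * a.w2 b μ η ∂μ := by
    refine (lintegral_mono' Measure.restrict_le_self le_rfl).trans ?_
    rw [lintegral_add_left measurable_const, lintegral_one, measure_univ]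
  exact ne_top_of_le_ne_top (ENNReal.add_ne_top.2 ⟨ENNReal.one_ne_top, h⟩) (h1.trans h2)

/-- **crude bound**: on the event the field is bounded by the number of points of a window of finite intensity (Campbell) -/
theorem pvyt_fin_of_count (ε : ℝ) {Ev : Set (Conf PvPt)} (hEv : NullMeasurableSet Ev (pvP ε)) {X : Conf PvPt → ℂ} {B : Set PvPt} (hB : MeasurableSet B)
    (hb : pvInt ε B ≠ ∞) {C : ℝ≥0∞} (hC : C ≠ ∞) (h : ∀ᵐ η ∂(pvP ε), η ∈ Ev → ‖X η‖ₑ ≤ C * (η.pts ∩ B).encard) :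
    ∫⁻ η in Ev, ‖X η‖ₑ ∂(pvP ε) ≠ ∞ := by
  have hc := pvc_campbell (pv_isPpp ε) hB hb (g := fun _ => 1) measurable_const
  rw [lintegral_one, Measure.restrict_apply_univ] at hc
  have h1 : ∫⁻ η in Ev, ‖X η‖ₑ ∂(pvP ε) ≤ ∫⁻ η in Ev, C * ∑' _p : ↥(η.pts ∩ B), (1 : ℝ≥0∞) ∂(pvP ε) := by
    refine lintegral_mono_ae ((ae_restrict_iff'₀ hEv).2 ?_)
    filter_upwards [h] with η hη hE
    rw [ENNReal.tsum_set_one]
    exact hη hE
  have h2 : ∫⁻ η in Ev, C * ∑' _p : ↥(η.pts ∩ B), (1 : ℝ≥0∞) ∂(pvP ε) ≤ C * pvInt ε B := by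
    refine (lintegral_mono' Measure.restrict_le_self le_rfl).trans ?_
    rw [lintegral_const_mul' _ _ hC, hc]
  exact ne_top_of_le_ne_top (ENNReal.mul_ne_top hC hb) (h1.trans h2)

end integ

/-! ## 2. the records: kit, exit side, entrance side -/

section recs

variable {τ : Type}

/-- **WHAT THE KIT OWES** at the level `m`, mesh `ε`, field `y_a`.      Producers: `wf fld` 251 294 34;   `frc` TR21 (a) + TR22 (34 229 244);   `sq` = TR28 (ii) (`pvth_bound`: hexagon + I.BES). -/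
structure PvytKit (D : PvypDat τ) (a : ℂ) (m : ℕ) (ε : ℝ) (β' qk : ℝ≥0∞) : Prop where
  wf : (D.kit m ε).WF
  fld : (D.kit m ε).Fld (D.X₀ m ε a)
  frc : (D.kit m ε).Forced (pvP ε) β' qk
  q1 : qk ≤ 1
  sq : ∀ σ : PvtTurn, ∫⁻ η, ‖D.X₀ m ε a σ η‖ₑ ^ 2 * (D.kit m ε).w2 (pvP ε) 0 1 σ η ∂(pvP ε) ≠ ∞

/-- **THE EXIT SIDE OF A CANDIDATE** `(z,t)`: the big plug, its exit funnel, the door `(z + pout t, dout t)`.      (Also what `PvypCyc.for_ forX frc` ask of `a = D.sOut`.)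
Producers: `mO mG rG` 185;   `mK mA rA mX rX` 113 (`Tr/ConnP`) + 1 114 (`Tr/LinkGeo`);   `frc` P16 (272 `Tr/ForceI`);   `fin`: `pvyt_fin_of_sq` or `pvyt_fin_of_count`. -/
structure PvytOut (D : PvypDat τ) (Γ : ℕ → PvtsGeo τ) (a : ℂ) (m : ℕ) (ε : ℝ) (z : ℂ) (t : τ) (qa : ℝ≥0∞) : Prop where
  mO : MeasurableSet (D.O m ε z t)
  mG : NullMeasurableSet (D.G m ε z t) (pvP ε)
  rG : Conf.ReadsSet (D.O m ε z t) (D.G m ε z t)
  mK : MeasurableSet (D.Ko m ε z t)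
  mA : NullMeasurableSet (D.Ao m ε z t) (pvP ε)
  rA : Conf.ReadsSet (D.O m ε z t ∪ (D.kit m ε).O (z + (Γ m).pout t) ((Γ m).dout t) ∪ D.Ko m ε z t) (D.Ao m ε z t)
  mX : AEMeasurable (D.Xo m ε a z t) (pvP ε)
  rX : Conf.Reads (D.O m ε z t ∪ (D.kit m ε).O (z + (Γ m).pout t) ((Γ m).dout t) ∪ D.Ko m ε z t) (D.Xo m ε a z t)
  q0 : qa ≠ 0
  q1 : qa ≤ 1
  frc : ∀ᵐ σ ∂(pvP ε), σ ∈ D.G m ε z t → σ ∈ (D.kit m ε).G (z + (Γ m).pout t) ((Γ m).dout t) →
    qa ≤ pvtiP (pvP ε) (D.O m ε z t ∪ (D.kit m ε).O (z + (Γ m).pout t) ((Γ m).dout t)) (D.Ao m ε z t) σ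
  fin : ∫⁻ η in D.G m ε z t ∩ (D.kit m ε).G (z + (Γ m).pout t) ((Γ m).dout t) ∩ D.Ao m ε z t, ‖D.Xo m ε a z t η‖ₑ ∂(pvP ε) ≠ ∞

/-- **THE ENTRANCE SIDE OF A CANDIDATE** `(z,t)`: the door `(z + pin t, din t)`, the entrance funnel, the big plug -/
structure PvytIn (D : PvypDat τ) (Γ : ℕ → PvtsGeo τ) (a : ℂ) (m : ℕ) (ε : ℝ) (z : ℂ) (t : τ) (qf : ℝ≥0∞) : Prop where
  mO : MeasurableSet (D.O m ε z t)
  mG : NullMeasurableSet (D.G m ε z t) (pvP ε)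
  rG : Conf.ReadsSet (D.O m ε z t) (D.G m ε z t)
  mK : MeasurableSet (D.Ki m ε z t)
  mA : NullMeasurableSet (D.Ai m ε z t) (pvP ε)
  rA : Conf.ReadsSet ((D.kit m ε).O (z + (Γ m).pin t) ((Γ m).din t) ∪ D.O m ε z t ∪ D.Ki m ε z t) (D.Ai m ε z t)
  mX : AEMeasurable (D.Xi m ε a z t) (pvP ε)
  rX : Conf.Reads ((D.kit m ε).O (z + (Γ m).pin t) ((Γ m).din t) ∪ D.O m ε z t ∪ D.Ki m ε z t) (D.Xi m ε a z t)
  q0 : qf ≠ 0
  q1 : qf ≤ 1
  frc : ∀ᵐ σ ∂(pvP ε), σ ∈ (D.kit m ε).G (z + (Γ m).pin t) ((Γ m).din t) → σ ∈ D.G m ε z t →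
    qf ≤ pvtiP (pvP ε) ((D.kit m ε).O (z + (Γ m).pin t) ((Γ m).din t) ∪ D.O m ε z t) (D.Ai m ε z t) σ
  fin : ∫⁻ η in (D.kit m ε).G (z + (Γ m).pin t) ((Γ m).din t) ∩ D.G m ε z t ∩ D.Ai m ε z t, ‖D.Xi m ε a z t η‖ₑ ∂(pvP ε) ≠ ∞

end recs


/-! ## 3. geometry: the corridor against the foreign regions -/

/-- **THE ZONE OF THE FOREIGN REGIONS**: the closed squares of a set `E` of cells off the path, the cell `c0` before the first door minus the door square, the cell `v` behind the last door minus the door square -/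
def pvytZone (δ r : ℝ) (E : Set (ℤ × ℤ)) (c0 : ℤ × ℤ) (z0 : ℂ) (v : ℤ × ℤ) (z1 : ℂ) : Set ℂ :=
  pvtU δ E ∪ (pvtSq δ c0 \ pvccSq z0 r) ∪ (pvtSq δ v \ pvccSq z1 r)

theorem pvyt_eqns_cite0 : True := by
  have := @pvytZone.eq_1
  trivial

section zone

variable {c0 c1 v : ℤ × ℤ} {t : List (ℤ × ℤ)} {l : List PvtTurn} {kit : PvthKit} {r : ℝ}

/-- **ALL THE PLUGS AND TILES OF THE CORRIDOR MISS THE ZONE** -/
theorem pvyt_zone_disj (R : PvccKitRef kit r) (hc : List.IsChain PvtAdj4 (c0 :: c1 :: t)) (hn : (c0 :: c1 :: t).Nodup)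
    (h3 : pvtCentres (pvtZ c1) (pvtZ c1 - pvtZ c0) l = (c1 :: t).map pvtZ) (hv : (c0 :: c1 :: t)[t.length + 1]'(by simp) = v)
    (E : Set (ℤ × ℤ)) (hE : ∀ q ∈ c0 :: c1 :: t, q ∉ E) :
    (∀ j ≤ l.length, Disjoint (kit.O (pvthZ kit.δ ((pvtCtr kit.δ c0 + pvtCtr kit.δ c1) / 2) (pvtZ c1 - pvtZ c0) l j) (pvthD (pvtZ c1 - pvtZ c0) l j))
      (pvytZone kit.δ r E c0 ((pvtCtr kit.δ c0 + pvtCtr kit.δ c1) / 2) v (pvthZ kit.δ ((pvtCtr kit.δ c0 + pvtCtr kit.δ c1) / 2) (pvtZ c1 - pvtZ c0) l l.length) ×ˢ univ)) ∧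
    (∀ j < l.length, Disjoint (kit.K (pvthZ kit.δ ((pvtCtr kit.δ c0 + pvtCtr kit.δ c1) / 2) (pvtZ c1 - pvtZ c0) l j) (pvthD (pvtZ c1 - pvtZ c0) l j) (pvthL l j))
      (pvytZone kit.δ r E c0 ((pvtCtr kit.δ c0 + pvtCtr kit.δ c1) / 2) v (pvthZ kit.δ ((pvtCtr kit.δ c0 + pvtCtr kit.δ c1) / 2) (pvtZ c1 - pvtZ c0) l l.length) ×ˢ univ)) := by
  have hlen := pvccm_len_eq h3
  have hd : (pvtZ c1 - pvtZ c0) ^ 4 = 1 := pvt_step_pow_four (by simp only [List.isChain_cons_cons] at hc; exact hc.1)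
  obtain ⟨hO, hK⟩ := pvccm_cor_disj R hc h3 E hE
  have hr : r ≤ kit.δ / 2 := by have := R.r_le; have := R.δ0; linarith
  have hne : ∀ (i j : ℕ) (hi : i < (c0 :: c1 :: t).length) (hj : j < (c0 :: c1 :: t).length), i ≠ j → (c0 :: c1 :: t)[i] ≠ (c0 :: c1 :: t)[j] :=
    fun i j hi hj hij e => hij ((hn.getElem_inj_iff).1 e)
  have h0 : (c0 :: c1 :: t)[0]'(by simp) = c0 := rfl
  constructor
  · intro j hj
    have hj' : j + 1 < (c0 :: c1 :: t).length := by simp only [List.length_cons]; omega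
    have hsub := pvccm_kit_O_sq R ((pvtCtr kit.δ c0 + pvtCtr kit.δ c1) / 2) hd l j
    unfold pvytZone
    rw [Set.union_prod, Set.union_prod, Set.disjoint_union_right, Set.disjoint_union_right]
    refine ⟨⟨hO j hj, ?_⟩, ?_⟩
    · refine Disjoint.mono_left hsub (Set.Disjoint.set_prod_left ?_ _ _)
      rcases Nat.eq_zero_or_pos j with rfl | hp
      · rw [pvthx_Z_zero]
        exact Set.disjoint_sdiff_right
      · rw [pvccm_door kit.δ h3 j hj']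
        refine (pvccm_door_disj R.δ0 (List.isChain_iff_getElem.1 hc j hj') ?_ ?_ hr).mono_right Set.sdiff_subset
        · rw [← h0]; exact hne 0 j _ _ (by omega)
        · rw [← h0]; exact hne 0 (j + 1) _ _ (by omega)
    · refine Disjoint.mono_left hsub (Set.Disjoint.set_prod_left ?_ _ _)
      rcases Nat.eq_or_lt_of_le hj with rfl | hp
      · exact Set.disjoint_sdiff_right
      · rw [pvccm_door kit.δ h3 j hj']
        refine (pvccm_door_disj R.δ0 (List.isChain_iff_getElem.1 hc j hj') ?_ ?_ hr).mono_right Set.sdiff_subset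
        · rw [← hv]; exact hne _ j _ _ (by omega)
        · rw [← hv]; exact hne _ (j + 1) _ _ (by omega)
  · intro j hj
    have hj' : j < (c1 :: t).length := by simp only [List.length_cons]; omega
    have hj'' : j + 1 < (c0 :: c1 :: t).length := by simp only [List.length_cons]; omega
    have hsub := pvccm_kit_K_sq R ((pvtCtr kit.δ c0 + pvtCtr kit.δ c1) / 2) hd l j
    have e1 : (c1 :: t)[j] = (c0 :: c1 :: t)[j + 1] := rfl
    unfold pvytZone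
    rw [Set.union_prod, Set.union_prod, Set.disjoint_union_right, Set.disjoint_union_right]
    refine ⟨⟨hK j hj.le, ?_⟩, ?_⟩
    · refine Disjoint.mono_left hsub (Set.Disjoint.set_prod_left ?_ _ _)
      rw [pvccm_centre kit.δ h3 j hj']
      refine (pvccm_sq_disj R.δ0 ?_).mono_right Set.sdiff_subset
      rw [e1, ← h0]; exact hne 0 (j + 1) _ _ (by omega)
    · refine Disjoint.mono_left hsub (Set.Disjoint.set_prod_left ?_ _ _)
      rw [pvccm_centre kit.δ h3 j hj']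
      refine (pvccm_sq_disj R.δ0 ?_).mono_right Set.sdiff_subset
      rw [e1, ← hv]; exact hne _ (j + 1) _ _ (by omega)

end zone

section geo

variable {τ : Type}

/-- **THE GEOMETRY OF THE CHAIN OF A PATTERN.**      `c0 :: c1 :: t` = the path of `δ`-cells: `c0` = the last cell of the nozzle of `t` (before the first door), `c1 :: …` = the cells of the corridor, last cell `v` = the last cell of the nozzle of `s` (behind the last door);
`E` = any set of cells off the path.      The four foreign regions live in the zone; six disjointness facts between them (two per candidate, four by FAR APART). -/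
structure PvytGeo (D : PvypDat τ) (Γ : ℕ → PvtsGeo τ) (m : ℕ) (ε : ℝ) (π : PvtsPat τ) (r : ℝ) (c0 c1 v : ℤ × ℤ) (t : List (ℤ × ℤ)) (E : Set (ℤ × ℤ)) : Prop where
  ref : PvccKitRef (D.kit m ε) r
  chain : List.IsChain PvtAdj4 (c0 :: c1 :: t)
  nodup : (c0 :: c1 :: t).Nodup
  cen : pvtCentres (pvtZ c1) (pvtZ c1 - pvtZ c0) π.l = (c1 :: t).map pvtZ
  last : (c0 :: c1 :: t)[t.length + 1]'(by simp) = v
  door : π.zt + (Γ m).pout π.tt = (pvtCtr (D.kit m ε).δ c0 + pvtCtr (D.kit m ε).δ c1) / 2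
  dir : (Γ m).dout π.tt = pvtZ c1 - pvtZ c0
  off : ∀ q ∈ c0 :: c1 :: t, q ∉ E
  Ot : D.O m ε π.zt π.tt ⊆ pvytZone (D.kit m ε).δ r E c0 (π.zt + (Γ m).pout π.tt) v (π.zs + (Γ m).pin π.ts) ×ˢ univ
  Os : D.O m ε π.zs π.ts ⊆ pvytZone (D.kit m ε).δ r E c0 (π.zt + (Γ m).pout π.tt) v (π.zs + (Γ m).pin π.ts) ×ˢ univ
  Ko : D.Ko m ε π.zt π.tt ⊆ pvytZone (D.kit m ε).δ r E c0 (π.zt + (Γ m).pout π.tt) v (π.zs + (Γ m).pin π.ts) ×ˢ univ
  Ki : D.Ki m ε π.zs π.ts ⊆ pvytZone (D.kit m ε).δ r E c0 (π.zt + (Γ m).pout π.tt) v (π.zs + (Γ m).pin π.ts) ×ˢ univ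
  dOO : Disjoint (D.O m ε π.zt π.tt) (D.O m ε π.zs π.ts)
  dKK : Disjoint (D.Ko m ε π.zt π.tt) (D.Ki m ε π.zs π.ts)
  dOtKo : Disjoint (D.O m ε π.zt π.tt) (D.Ko m ε π.zt π.tt)
  dOtKi : Disjoint (D.O m ε π.zt π.tt) (D.Ki m ε π.zs π.ts)
  dOsKo : Disjoint (D.O m ε π.zs π.ts) (D.Ko m ε π.zt π.tt)
  dOsKi : Disjoint (D.O m ε π.zs π.ts) (D.Ki m ε π.zs π.ts)

variable {D : PvypDat τ} {Γ : ℕ → PvtsGeo τ} {m : ℕ} {ε : ℝ} {π : PvtsPat τ} {r : ℝ} {c0 c1 v : ℤ × ℤ} {t : List (ℤ × ℤ)} {E : Set (ℤ × ℤ)}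

theorem PvytGeo.d4 (h : PvytGeo D Γ m ε π r c0 c1 v t E) : ((Γ m).dout π.tt) ^ 4 = 1 := by
  rw [h.dir]
  exact pvt_step_pow_four (by have := h.chain; simp only [List.isChain_cons_cons] at this; exact this.1)

theorem PvytGeo.simple (h : PvytGeo D Γ m ε π r c0 c1 v t E) : PvccSimple π.l π.l.length := by
  refine pvcc_simple_of_nodup (z := pvtZ c1) (d := pvtZ c1 - pvtZ c0) ?_
  rw [h.cen]
  exact (List.nodup_cons.1 h.nodup).2.map pvtZ_injective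

/-- **`PvccmFor` OF 166 FOR THE CHAIN OF A PATTERN** -/
theorem pvyt_for (h : PvytGeo D Γ m ε π r c0 c1 v t E) (ok : (Γ m).Ok π) (del : (D.kit m ε).δ = (Γ m).δ) :
    PvccmFor (D.sOut m ε π.zt π.tt) (D.kit m ε) (π.zt + (Γ m).pout π.tt) ((Γ m).dout π.tt) π.l (D.Ki m ε π.zs π.ts) (D.sPl m ε π.zs π.ts) := by
  obtain ⟨d1, -⟩ := pvyp_door_pat (Γ m) del ok
  obtain ⟨hO, hK⟩ := pvyt_zone_disj h.ref h.chain h.nodup h.cen h.last E h.off
  rw [← h.door, ← h.dir, d1] at hO hK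
  exact
    { aO_O := fun j hj => ((hO j hj).mono_right h.Ot).symm
      cO_O := fun j hj => ((hO j hj).mono_right h.Os).symm
      aO_cO := h.dOO
      aK_K := fun j hj => ((hK j hj).mono_right h.Ko).symm
      cK_K := fun j _ => Set.empty_disjoint _
      fK_K := fun j hj => ((hK j hj).mono_right h.Ki).symm
      aK_cK := Set.disjoint_empty _
      aK_fK := h.dKK
      cK_fK := Set.empty_disjoint _
      aO_K := fun j hj => ((hK j hj).mono_right h.Ot).symm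
      cO_K := fun j hj => ((hK j hj).mono_right h.Os).symm
      O_aK := fun j hj => (hO j hj).mono_right h.Ko
      O_cK := fun j _ => Set.disjoint_empty _
      O_fK := fun j hj => (hO j hj).mono_right h.Ki
      aO_aK := h.dOtKo
      aO_cK := Set.disjoint_empty _
      aO_fK := h.dOtKi
      cO_aK := h.dOsKo
      cO_cK := Set.disjoint_empty _
      cO_fK := h.dOsKi }

end geo

/-! ## 4. the record of 58 -/

section pat

variable {τ : Type} {D : PvypDat τ} {Γ : ℕ → PvtsGeo τ} {a : ℂ} {m : ℕ} {ε : ℝ} {π : PvtsPat τ} {β' qa qk qf : ℝ≥0∞}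

/-- the list of the chain of a pattern -/
noncomputable def pvytLst (D : PvypDat τ) (Γ : ℕ → PvtsGeo τ) (m : ℕ) (ε : ℝ) (π : PvtsPat τ) : ℕ → PvsySec PvPt :=
  pvskList (D.sOut m ε π.zt π.tt) (D.kit m ε) (π.zt + (Γ m).pout π.tt) ((Γ m).dout π.tt) π.l (D.Ki m ε π.zs π.ts) (D.Ai m ε π.zs π.ts) (D.sPl m ε π.zs π.ts)

/-- its fields -/
noncomputable def pvytFld (D : PvypDat τ) (Γ : ℕ → PvtsGeo τ) (a : ℂ) (m : ℕ) (ε : ℝ) (π : PvtsPat τ) : ℕ → Conf PvPt → ℂ :=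
  pvskFld (D.Xo m ε a π.zt π.tt) (D.kit m ε) (D.X₀ m ε a) (π.zt + (Γ m).pout π.tt) ((Γ m).dout π.tt) π.l (D.Xi m ε a π.zs π.ts) 0

/-- its event: the inner plugs (doors) usable, all the connectors successful -/
def pvytEv (D : PvypDat τ) (Γ : ℕ → PvtsGeo τ) (m : ℕ) (ε : ℝ) (π : PvtsPat τ) : Set (Conf PvPt) :=
  pvsyEv (π.l.length + 2 + 1) (pvytLst D Γ m ε π) (Finset.Ioo 0 (π.l.length + 2)) (Finset.range (π.l.length + 2))

theorem pvyt_eqns_cite : True := by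
  have := @pvytLst.eq_1; have := @pvytFld.eq_1; have := @pvytEv.eq_1
  trivial

/-- **FIELD `frc` OF `PvypPat`, verbatim**, `q := pvskQ qa qk qf 1 |π.l|` -/
theorem pvyt_frc (hK : PvytKit D a m ε β' qk) (hO : PvytOut D Γ a m ε π.zt π.tt qa) (hI : PvytIn D Γ a m ε π.zs π.ts qf)
    (ok : (Γ m).Ok π) (d4 : ((Γ m).dout π.tt) ^ 4 = 1) (del : (D.kit m ε).δ = (Γ m).δ) :
    PvsyCycForced (pvP ε) (π.l.length + 2 + 1)
      (pvskList (D.sOut m ε π.zt π.tt) (D.kit m ε) (π.zt + (Γ m).pout π.tt) ((Γ m).dout π.tt) π.l (D.Ki m ε π.zs π.ts) (D.Ai m ε π.zs π.ts) (D.sPl m ε π.zs π.ts))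
      (Finset.Ioo 0 (π.l.length + 2)) (Finset.range (π.l.length + 2)) (pvskQ qa qk qf 1 π.l.length) := by
  obtain ⟨d1, d2⟩ := pvyp_door_pat (Γ m) del ok
  refine pvsk_forced hK.frc hK.q1 d4 (by simp) (fun h => absurd h (by simp)) hO.q0 hO.q1 hO.frc hI.q0 hI.q1 ?_ (fun h => absurd h (by simp))
  rw [d1, d2]
  exact hI.frc

/-- **FIELD `fin` OF `PvypPat`, verbatim** -/
theorem pvyt_fin (hK : PvytKit D a m ε β' qk) (hO : PvytOut D Γ a m ε π.zt π.tt qa) (hI : PvytIn D Γ a m ε π.zs π.ts qf)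
    (ok : (Γ m).Ok π) (d4 : ((Γ m).dout π.tt) ^ 4 = 1) (del : (D.kit m ε).δ = (Γ m).δ) :
    ∀ j < π.l.length + 2, ∫⁻ η in D.G m ε π.zt π.tt ∩ D.G m ε π.zs π.ts ∩ pvsyEv (π.l.length + 2 + 1)
      (pvskList (D.sOut m ε π.zt π.tt) (D.kit m ε) (π.zt + (Γ m).pout π.tt) ((Γ m).dout π.tt) π.l (D.Ki m ε π.zs π.ts) (D.Ai m ε π.zs π.ts) (D.sPl m ε π.zs π.ts))
      (Finset.Ioo 0 (π.l.length + 2)) (Finset.range (π.l.length + 2)),
    ‖pvskFld (D.Xo m ε a π.zt π.tt) (D.kit m ε) (D.X₀ m ε a) (π.zt + (Γ m).pout π.tt) ((Γ m).dout π.tt) π.l (D.Xi m ε a π.zs π.ts) 0 j η‖ₑ ∂(pvP ε) ≠ ∞ := by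
  have := (pv_isPpp ε).prob
  obtain ⟨d1, d2⟩ := pvyp_door_pat (Γ m) del ok
  set L := pvskList (D.sOut m ε π.zt π.tt) (D.kit m ε) (π.zt + (Γ m).pout π.tt) ((Γ m).dout π.tt) π.l (D.Ki m ε π.zs π.ts) (D.Ai m ε π.zs π.ts) (D.sPl m ε π.zs π.ts) with hL
  have hG : ∀ {η : Conf PvPt}, η ∈ pvsyEv (π.l.length + 2 + 1) L (Finset.Ioo 0 (π.l.length + 2)) (Finset.range (π.l.length + 2)) →
      ∀ i ≤ π.l.length, η ∈ (D.kit m ε).G (pvthZ (D.kit m ε).δ (π.zt + (Γ m).pout π.tt) ((Γ m).dout π.tt) π.l i) (pvthD ((Γ m).dout π.tt) π.l i) := by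
    intro η hη i hi
    have := hη.1 (1 + i) (Finset.mem_Ioo.2 ⟨by omega, by omega⟩) (by omega)
    rwa [hL, pvsk_list_G hi] at this
  have hA : ∀ {η : Conf PvPt}, η ∈ pvsyEv (π.l.length + 2 + 1) L (Finset.Ioo 0 (π.l.length + 2)) (Finset.range (π.l.length + 2)) →
      ∀ j < π.l.length + 2, η ∈ (L j).A := fun hη j hj => hη.2 j (Finset.mem_range.2 hj) (by omega)
  intro j hj
  have hj3 : j < π.l.length + 3 := by omega
  revert hj
  refine pvsk_cases (P := fun j => j < π.l.length + 2 → ∫⁻ η in D.G m ε π.zt π.tt ∩ D.G m ε π.zs π.ts ∩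
      pvsyEv (π.l.length + 2 + 1) L (Finset.Ioo 0 (π.l.length + 2)) (Finset.range (π.l.length + 2)),
    ‖pvskFld (D.Xo m ε a π.zt π.tt) (D.kit m ε) (D.X₀ m ε a) (π.zt + (Γ m).pout π.tt) ((Γ m).dout π.tt) π.l (D.Xi m ε a π.zs π.ts) 0 j η‖ₑ ∂(pvP ε) ≠ ∞)
    π.l.length ?_ ?_ ?_ ?_ j hj3
  · intro _
    rw [pvsk_fld_zero]
    refine ne_top_of_le_ne_top hO.fin (lintegral_mono_set fun η hη => ⟨⟨hη.1.1, ?_⟩, ?_⟩)
    · have := hG hη.2 0 (Nat.zero_le _)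
      rwa [pvthx_Z_zero, pvthx_D_zero] at this
    · have := hA hη.2 0 (by omega)
      rwa [hL, pvsk_list_zero] at this
  · intro i hi _
    rw [pvsk_fld_cell hi]
    have hbO : (L (1 + (i + 1))).O = (D.kit m ε).O (pvthZ (D.kit m ε).δ (π.zt + (Γ m).pout π.tt) ((Γ m).dout π.tt) π.l (i + 1)) (pvthD ((Γ m).dout π.tt) π.l (i + 1)) := by
      rw [hL, pvsk_list_O (by omega)]
    have hbG : (L (1 + (i + 1))).G = (D.kit m ε).G (pvthZ (D.kit m ε).δ (π.zt + (Γ m).pout π.tt) ((Γ m).dout π.tt) π.l (i + 1)) (pvthD ((Γ m).dout π.tt) π.l (i + 1)) := by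
      rw [hL, pvsk_list_G (by omega)]
    have hS : NullMeasurableSet ((pvskSec (D.kit m ε) (π.zt + (Γ m).pout π.tt) ((Γ m).dout π.tt) π.l i).G ∩ (L (1 + (i + 1))).G ∩
        (pvskSec (D.kit m ε) (π.zt + (Γ m).pout π.tt) ((Γ m).dout π.tt) π.l i).A) (pvP ε) := by
      rw [hbG]
      exact (((pvth_mG hK.wf _ _).inter (pvth_mG hK.wf _ _)).inter (pvth_mA hK.wf _ _ _)).nullMeasurableSet
    have key := pvyt_fin_of_sq (μ := pvP ε) (pvskSec (D.kit m ε) (π.zt + (Γ m).pout π.tt) ((Γ m).dout π.tt) π.l i) (L (1 + (i + 1))) hS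
      (X := (D.kit m ε).Xj (D.X₀ m ε a) (π.zt + (Γ m).pout π.tt) ((Γ m).dout π.tt) π.l i) (by
        rw [pvsk_w2 (D.kit m ε) ε _ d4 π.l hi hbO hbG]
        have := pvth_place_sq (ε := ε) hK.wf hK.fld (pvthZ (D.kit m ε).δ (π.zt + (Γ m).pout π.tt) ((Γ m).dout π.tt) π.l i) (pvthD ((Γ m).dout π.tt) π.l i)
          (pvthx_D_norm d4 π.l i) (pvthL π.l i)
        unfold PvthKit.Xj
        rw [this]
        exact hK.sq _)
    refine ne_top_of_le_ne_top key (lintegral_mono_set fun η hη => ⟨⟨hG hη.2 i hi.le, ?_⟩, ?_⟩)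
    · rw [hbG]; exact hG hη.2 (i + 1) (by omega)
    · have := hA hη.2 (1 + i) (by omega)
      rwa [hL, pvsk_list_cell hi] at this
  · intro _
    rw [pvsk_fld_door]
    refine ne_top_of_le_ne_top hI.fin (lintegral_mono_set fun η hη => ⟨⟨?_, hη.1.2⟩, ?_⟩)
    · have := hG hη.2 π.l.length le_rfl
      rwa [d1, d2] at this
    · have := hA hη.2 (π.l.length + 1) (by omega)
      rwa [hL, pvsk_list_door] at this
  · intro h
    omega

end pat

/-! ## 5. the record -/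

section final

variable {τ : Type} {D : PvypDat τ} {Γ : ℕ → PvtsGeo τ} {a : ℂ} {m : ℕ} {ε : ℝ} {π : PvtsPat τ} {β' qa qk qf : ℝ≥0∞}
variable {r : ℝ} {c0 c1 v : ℤ × ℤ} {t : List (ℤ × ℤ)} {E : Set (ℤ × ℤ)}

/-- **FIELD `for_` OF `PvypPat`, verbatim** -/
theorem pvyt_for_ (hO : PvytOut D Γ a m ε π.zt π.tt qa) (hI : PvytIn D Γ a m ε π.zs π.ts qf) (hG : PvytGeo D Γ m ε π r c0 c1 v t E)
    (ok : (Γ m).Ok π) (del : (D.kit m ε).δ = (Γ m).δ) :
    PvskFor (pvP ε) (D.sOut m ε π.zt π.tt) (D.kit m ε) (π.zt + (Γ m).pout π.tt) ((Γ m).dout π.tt) π.l (D.Ki m ε π.zs π.ts) (D.Ai m ε π.zs π.ts) (D.sPl m ε π.zs π.ts) := by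
  obtain ⟨d1, d2⟩ := pvyp_door_pat (Γ m) del ok
  have hd0 : (Γ m).dout π.tt ≠ 0 := by
    intro h0
    have := hG.d4
    rw [h0] at this
    norm_num at this
  have F := pvyt_for hG ok del
  exact
    { mOa := hO.mO
      mKa := hO.mK
      mGa := hO.mG
      mAa := hO.mA
      rGa := hO.rG
      rAa := hO.rA
      mKf := hI.mK
      mAf := hI.mA
      rAf := by rw [d1, d2]; exact hI.rA
      mOc := hI.mO
      mKc := MeasurableSet.empty
      mGc := hI.mG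
      mAc := nullMeasurableSet_univ
      rGc := hI.rG
      rAc := pvsy_readsSet_univ _
      dOO := pvccm_dOO hG.ref hd0 hG.simple F
      dKK := pvccm_dKK hG.ref hd0 hG.simple F
      dOK := pvccm_dOK hG.ref hd0 hG.simple F }

/-- **FIELD `forX` OF `PvypPat`, verbatim** -/
theorem pvyt_forX (hO : PvytOut D Γ a m ε π.zt π.tt qa) (hI : PvytIn D Γ a m ε π.zs π.ts qf) (ok : (Γ m).Ok π) (del : (D.kit m ε).δ = (Γ m).δ) :
    PvskForFld (pvP ε) (D.sOut m ε π.zt π.tt) (D.kit m ε) (π.zt + (Γ m).pout π.tt) ((Γ m).dout π.tt) π.l (D.Ki m ε π.zs π.ts) (D.sPl m ε π.zs π.ts)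
      (D.Xo m ε a π.zt π.tt) (D.Xi m ε a π.zs π.ts) 0 := by
  obtain ⟨d1, d2⟩ := pvyp_door_pat (Γ m) del ok
  exact
    { mXa := hO.mX
      rXa := hO.rX
      mXf := hI.mX
      rXf := by rw [d1, d2]; exact hI.rX
      mXc := aemeasurable_const
      rXc := Conf.reads_const _ _ }

/-- **THE RECORD `PvypPat` OF 58**      from: the kit, the exit side of `t`, the entrance side of `s`, the geometry of the chain -/
theorem pvyt_pat (hK : PvytKit D a m ε β' qk) (hO : PvytOut D Γ a m ε π.zt π.tt qa) (hI : PvytIn D Γ a m ε π.zs π.ts qf) (hG : PvytGeo D Γ m ε π r c0 c1 v t E)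
    (ok : (Γ m).Ok π) (del : (D.kit m ε).δ = (Γ m).δ) :
    PvypPat D Γ ((D.kit m ε).W (pvP ε) (D.X₀ m ε a)) a m ε π (pvskQ qa qk qf 1 π.l.length) where
  ok := ok
  d4 := hG.d4
  del := del
  W_eq := rfl
  wf := hK.wf
  fld := hK.fld
  for_ := pvyt_for_ hO hI hG ok del
  forX := pvyt_forX hO hI ok del
  frc := pvyt_frc hK hO hI ok hG.d4 del
  fin := pvyt_fin hK hO hI ok hG.d4 del

/-- **THE CONSTANT `D_c` OF A PATTERN** is bounded by numbers (uniform in the mesh at a fixed word) -/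
theorem pvyt_Dc_le (hK : PvytKit D a m ε β' qk) (d4 : ((Γ m).dout π.tt) ^ 4 = 1) :
    pvsyDc (pvP ε) (π.l.length + 2 + 1)
        (pvskList (D.sOut m ε π.zt π.tt) (D.kit m ε) (π.zt + (Γ m).pout π.tt) ((Γ m).dout π.tt) π.l (D.Ki m ε π.zs π.ts) (D.Ai m ε π.zs π.ts) (D.sPl m ε π.zs π.ts))
        (Finset.Ioo 0 (π.l.length + 2)) (Finset.range (π.l.length + 2)) (pvskQ qa qk qf 1 π.l.length)
      ≤ (β'⁻¹) ^ (π.l.length + 1) * (qa⁻¹ * qk⁻¹ ^ π.l.length * qf⁻¹) :=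
  pvsk_Dc_pattern_le d4 hK.frc.adm

end final

end Claimed.Agent.R289
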