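import Claimed.Agent.R289.Defs.TrModel
import Claimed.Agent.R289.Tr.Local
import Claimed.Agent.R289.Tr.Dict
import Claimed.Agent.R289.Tr.LocalF
import Claimed.Agent.R289.Arm.BxpPv

/-!
# Row 289 (S0537, Cardy for Poisson-Voronoi), THE WALL, road E, file Tr/PatchE : E6 = PATCH + (C1) AT THE MODEL, FOR THE FACED `NB` OF `Tr/Defs` v3      (helper130, node of helper24 10:08Z, second of helper22; prefix `pve6_`, defs `Pve6…`, `PvwDat.NBP`)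

TEXT OF RECORD: `W1_208_v3.md` E1 (C1), E6 PATCH.      WHY.   The actual rims `P ∈ pvhbAll x R ω` live in ANY completion, which agrees with the Delaunay plane `pvxT ω` on `closedBall x (6R)` only.   `PvwDat.NB` (faced form of 6: every right apex of `g₀` is joined
by a white path in `NU`, off `g₀`, to the anchor or to `Lam`) is GLOBAL: in the completion the white path may leave the patch.   N1' (`PvdmSys.Hyp.fin`) wants an event which reads FINITELY many sites.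
* `pve6Bd T K`            the rim of the patch `K`: sites of `K` with a neighbour outside `K`
* `PvwDat.NBP pos π K σ`  **`E_patch(D)`**: every right apex of `g₀` is joined, by a white path INSIDE `K ∩ NU`, off `g₀`, to `{anc} ∪ Lam`, OR it is so joined to the rim of the patch AND the rim of the patch is so joined to `{anc} ∪ Lam`.
                          INCREASING in white (`pve6_nbp_mono`), reads `(K ∩ NU) \ g₀` only (`pve6_nbp_local`).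
* `pve6_cut`              the cut of a monochromatic path at `Lam` and at the rim of the patch (model free)
* **`pve6_c1`**           (C1) + PATCH AT THE MODEL: `P ∈ pvhbAll x R ω`, `𝔇.Ok`, `PvxActual 𝔇 .. P j`, the arc in `closedBall x (5R)`, `Yin ∪ Ycol ⊆ closedBall x (5R)`, mesh `< R` on the patch  ⟹  `𝔇.NBP (pvxPos ω) π (sites of closedBall x (6R)) (pvxCol ω b)`
* **`pve6_nb_of_circ`**, **`pve6_plane`**      `E_patch` + a white circuit between the radii `5R + μ` and `6R - μ`  ⟹  `𝔇.NB` in the plane (model free / at the model)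
* `Pve6Frame`, **`pve6_frame`**   the geometry event: two nested cycles in `A(x; 21R/4, 23R/4)` with BLOCKING probability `≥ q` (thin annulus: `K` small square annuli of QBX + quenched Harris); probability `→ 1`
WARNING FOR THE ROOFS (170 60 187 143): PATCH needs `(𝔓.reg m π).Yin ∪ (𝔓.reg m π).Ycol ⊆ closedBall x (5R)` (the white circuit must lie in `NU`): NOT in `pvxPatSet` today.
-/

set_option autoImplicit false

namespace Claimed.Agent.R289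

open Relation Set Claims.C0465

variable {V D : Type}

/-! ## 1. the patch form of the faced `NB` -/

/-- the rim of the patch `K`: the sites of `K` with a neighbour outside `K` -/
def pve6Bd (T : PvMap V D) (K : Set V) : Set V := {u | u ∈ K ∧ ∃ w, w ∉ K ∧ T.Adj u w}

/-- the white sites of `K`, off `Yc`, off the path `g` -/
def pve6W {T : PvMap V D} (g : T.Pth) (σ : V → Bool) (K Yc : Set V) : Set V := {v | v ∈ K ∩ Ycᶜ ∧ v ∉ g.verts ∧ σ v = false}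

/-- **`E_patch`**, model free: `𝔄` = the anchors -/
def Pve6N {T : PvMap V D} (g : T.Pth) (σ : V → Bool) (K Yc 𝔄 : Set V) : Prop :=
  ∀ k, k < g.n → (∃ a ∈ 𝔄, T.Join Set.univ (pve6W g σ K Yc) (g.rap k) a) ∨
    ((∃ b ∈ pve6Bd T K, T.Join Set.univ (pve6W g σ K Yc) (g.rap k) b) ∧ ∃ a ∈ 𝔄, ∃ b ∈ pve6Bd T K, T.Join Set.univ (pve6W g σ K Yc) b a)

/-- **`E_patch(D)`** for the patch `K` -/
def PvwDat.NBP {T : PvMap V D} (𝔇 : PvwDat T) (pos : V → ℂ) (π : PvwPat) (K : Set V) (σ : V → Bool) : Prop :=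
  Pve6N 𝔇.g σ K (𝔇.NU pos π)ᶜ ({𝔇.anc} ∪ 𝔇.Lam pos π)

theorem pve6_eqns_cite : True := by
  have := @pve6Bd.eq_1; have := @pve6W.eq_1; have := @Pve6N.eq_1; have := @PvwDat.NBP.eq_1
  trivial

section abs

variable {T : PvMap V D}

/-- `E_patch` is increasing in white -/
theorem pve6_N_mono (g : T.Pth) {σ σ' : V → Bool} (K Yc 𝔄 : Set V) (h : ∀ v, σ v = false → σ' v = false) (hN : Pve6N g σ K Yc 𝔄) : Pve6N g σ' K Yc 𝔄 := by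
  have hW : pve6W g σ K Yc ⊆ pve6W g σ' K Yc := fun v hv => ⟨hv.1, hv.2.1, h v hv.2.2⟩
  intro k hk
  rcases hN k hk with ⟨a, ha, hj⟩ | ⟨⟨b, hb, hj⟩, a, ha, b', hb', hj'⟩
  · exact Or.inl ⟨a, ha, pvta_join_mono hW hj⟩
  · exact Or.inr ⟨⟨b, hb, pvta_join_mono hW hj⟩, a, ha, b', hb', pvta_join_mono hW hj'⟩

/-- `E_patch` reads the colours of `K \ (Yc ∪ g)` only -/
theorem pve6_N_local (g : T.Pth) {σ σ' : V → Bool} (K Yc 𝔄 : Set V) (h : ∀ v, v ∈ K → v ∉ Yc → v ∉ g.verts → σ v = σ' v) : Pve6N g σ K Yc 𝔄 ↔ Pve6N g σ' K Yc 𝔄 := by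
  have e : pve6W g σ K Yc = pve6W g σ' K Yc := by
    ext v
    constructor
    · rintro ⟨h1, h2, h3⟩
      exact ⟨h1, h2, by rw [← h v h1.1 h1.2 h2]; exact h3⟩
    · rintro ⟨h1, h2, h3⟩
      exact ⟨h1, h2, by rw [h v h1.1 h1.2 h2]; exact h3⟩
  unfold Pve6N
  rw [e]

/-- **CUT AT `Lam` AND AT THE RIM OF THE PATCH**: a monochromatic path from `x ∈ K \ Yc` to `a₀ ∈ K` -/
theorem pve6_cut {s : V → Bool} {x a₀ : V} (h : T.Mono s x a₀) (K Yc : Set V) (hx : x ∈ K ∩ Ycᶜ) (ha : a₀ ∈ K) (hBY : ∀ u ∈ pve6Bd T K, u ∉ Yc) :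
    (∃ a, (a = a₀ ∨ (a ∉ Yc ∧ ∃ w ∈ Yc, T.Adj a w)) ∧ T.Join Set.univ {v | v ∈ K ∩ Ycᶜ ∧ s v = s x} x a) ∨
    ((∃ b ∈ pve6Bd T K, T.Join Set.univ {v | v ∈ K ∩ Ycᶜ ∧ s v = s x} x b) ∧
      ∃ a, (a = a₀ ∨ (a ∉ Yc ∧ ∃ w ∈ Yc, T.Adj a w)) ∧ ∃ b ∈ pve6Bd T K, T.Join Set.univ {v | v ∈ K ∩ Ycᶜ ∧ s v = s x} b a) := by
  have key : s a₀ = s x ∧ ((∃ a, (a ∉ Yc ∧ ∃ w ∈ Yc, T.Adj a w) ∧ T.Join Set.univ {v | v ∈ K ∩ Ycᶜ ∧ s v = s x} x a) ∨ T.Join Set.univ {v | v ∈ K ∩ Ycᶜ ∧ s v = s x} x a₀ ∨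
      ((∃ b ∈ pve6Bd T K, T.Join Set.univ {v | v ∈ K ∩ Ycᶜ ∧ s v = s x} x b) ∧
        ((∃ a, (a ∉ Yc ∧ ∃ w ∈ Yc, T.Adj a w) ∧ ∃ b ∈ pve6Bd T K, T.Join Set.univ {v | v ∈ K ∩ Ycᶜ ∧ s v = s x} b a) ∨ a₀ ∉ K ∨
          ∃ b ∈ pve6Bd T K, T.Join Set.univ {v | v ∈ K ∩ Ycᶜ ∧ s v = s x} b a₀))) := by
    clear ha
    induction h with
    | refl => exact ⟨rfl, Or.inr (Or.inl ⟨⟨hx, rfl⟩, ReflTransGen.refl⟩)⟩
    | @tail b c _ hbc ih =>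
      obtain ⟨hsb, ih⟩ := ih
      have hsc : s c = s x := by rw [← hbc.2, hsb]
      refine ⟨hsc, ?_⟩
      obtain ⟨d, hd1, hd2⟩ := hbc.1
      rcases ih with ih | ih | ⟨hB, ih | ih | ⟨b', hb', ih⟩⟩
      · exact Or.inl ih
      · have hbW := pl_hx_join_mem ih
        by_cases hcY : c ∈ Yc
        · exact Or.inl ⟨b, ⟨hbW.1.2, c, hcY, hbc.1⟩, ih⟩
        · by_cases hcK : c ∈ K
          · exact Or.inr (Or.inl ⟨ih.1, ih.2.tail ⟨⟨d, Or.inl (Set.mem_univ _), hd1, hd2⟩, ⟨hcK, hcY⟩, hsc⟩⟩)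
          · exact Or.inr (Or.inr ⟨⟨b, ⟨hbW.1.1, c, hcK, hbc.1⟩, ih⟩, Or.inr (Or.inl hcK)⟩)
      · exact Or.inr (Or.inr ⟨hB, Or.inl ih⟩)
      · by_cases hcK : c ∈ K
        · have hcB : c ∈ pve6Bd T K := ⟨hcK, b, ih, T.opp d, by rw [T.src_opp', hd2], by rw [T.tgt_opp, hd1]⟩
          exact Or.inr (Or.inr ⟨hB, Or.inr (Or.inr ⟨c, hcB, ⟨⟨hcK, hBY c hcB⟩, hsc⟩, ReflTransGen.refl⟩)⟩)
        · exact Or.inr (Or.inr ⟨hB, Or.inr (Or.inl hcK)⟩)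
      · have hbW := pl_hx_join_mem ih
        by_cases hcY : c ∈ Yc
        · exact Or.inr (Or.inr ⟨hB, Or.inl ⟨b, ⟨hbW.1.2, c, hcY, hbc.1⟩, b', hb', ih⟩⟩)
        · by_cases hcK : c ∈ K
          · exact Or.inr (Or.inr ⟨hB, Or.inr (Or.inr ⟨b', hb', ih.1, ih.2.tail ⟨⟨d, Or.inl (Set.mem_univ _), hd1, hd2⟩, ⟨hcK, hcY⟩, hsc⟩⟩)⟩)
          · exact Or.inr (Or.inr ⟨hB, Or.inr (Or.inl hcK)⟩)
  rcases key.2 with ⟨a, h1, h2⟩ | h1 | ⟨hB, ⟨a, h1, h2⟩ | h1 | h1⟩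
  · exact Or.inl ⟨a, Or.inr h1, h2⟩
  · exact Or.inl ⟨a₀, Or.inl rfl, h1⟩
  · exact Or.inr ⟨hB, a, Or.inr h1, h2⟩
  · exact absurd ha h1
  · exact Or.inr ⟨hB, a₀, Or.inl rfl, h1⟩

/-- **TR11 (ACT) IN THE PATCH FORM**, one map: `c` a black rim, `g` = its arc `x_i … x_(i+m)`, `j` any index -/
theorem pve6_act (hT : T.IsSph) {c : T.Cyc} {s : V → Bool} (h : c.IsRim s) (hb : s (T.src (c.e 0)) = true) (i m j : ℕ) (hm : m < c.n) (K Yc : Set V)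
    (hU : ∀ k, k < m → T.apex (T.opp (c.e (i + k))) ∈ K ∩ Ycᶜ) (ha : T.apex (T.opp (c.e j)) ∈ K) (hBY : ∀ u ∈ pve6Bd T K, u ∉ Yc) :
    Pve6N (c.pth i m) s K Yc ({T.apex (T.opp (c.e j))} ∪ {a | a ∉ Yc ∧ ∃ w ∈ Yc, T.Adj a w}) := by
  have hB : ∀ k, s (T.src (c.e k)) = true := fun k => (pl_rim_col h k 0).trans hb
  intro k hk
  have hk' : k < m := lt_of_lt_of_le hk (min_le_left _ _)
  have hsx : s (T.apex (T.opp (c.e (i + k)))) = false := by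
    have h1 := pl_rim_facing_col h (i + k)
    rw [hB] at h1
    simpa using h1
  have hW : {v | v ∈ K ∩ Ycᶜ ∧ s v = s (T.apex (T.opp (c.e (i + k))))} ⊆ pve6W (c.pth i m) s K Yc := by
    rintro v ⟨hv1, hv2⟩
    refine ⟨hv1, ?_, hv2.trans hsx⟩
    rintro ⟨l, -, rfl⟩
    have h1 : s (T.src (c.e (i + l))) = false := hv2.trans hsx
    rw [hB] at h1
    exact Bool.noConfusion h1
  rcases pve6_cut (pl_rim_facing hT h (i + k) j) K Yc (hU k hk') ha hBY with ⟨a, h1, h2⟩ | ⟨⟨b, hb1, hb2⟩, a, h1, b', hb1', hb2'⟩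
  · exact Or.inl ⟨a, h1.imp (fun e => e) id, pvta_join_mono hW h2⟩
  · exact Or.inr ⟨⟨b, hb1, pvta_join_mono hW hb2⟩, a, h1.imp (fun e => e) id, b', hb1', pvta_join_mono hW hb2'⟩

/-- the vertices of a circuit inside `X` are joined in `X` -/
theorem pve6_cyc_join (w : T.Cyc) {X : Set V} (hX : ∀ v ∈ w.verts, v ∈ X) {u v : V} (hu : u ∈ w.verts) (hv : v ∈ w.verts) : T.Join Set.univ X u v := by
  have key : ∀ i n, T.Join Set.univ X (T.src (w.e i)) (T.src (w.e (i + n))) := by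
    intro i n
    induction n with
    | zero => exact ⟨hX _ ⟨i, rfl⟩, ReflTransGen.refl⟩
    | succ n ih =>
      exact ⟨ih.1, ih.2.tail ⟨⟨w.e (i + n), Or.inl (Set.mem_univ _), rfl, w.chain (i + n)⟩, hX _ ⟨i + n + 1, rfl⟩⟩⟩
  obtain ⟨i, rfl⟩ := hu
  obtain ⟨j, rfl⟩ := hv
  rcases le_total i j with h | h
  · obtain ⟨n, rfl⟩ := Nat.exists_eq_add_of_le h
    exact key i n
  · obtain ⟨n, rfl⟩ := Nat.exists_eq_add_of_le h
    exact pl_hx_join_symm (key j n)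

/-- a path which starts strictly inside a circuit and does not end strictly inside meets the circuit -/
theorem pve6_hit (hT : T.IsSph) (w : T.Cyc) {X : Set V} {a b : V} (ha : a ∈ T.Int w.Left) (hb : b ∉ T.Int w.Left) (h : T.Join Set.univ X a b) :
    ∃ v ∈ w.verts, T.Join Set.univ X a v := by
  obtain ⟨haX, hr⟩ := h
  have key : b ∈ T.Int w.Left ∨ ∃ v ∈ w.verts, T.Join Set.univ X a v := by
    clear hb
    induction hr with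
    | refl => exact Or.inl ha
    | @tail b c hab hbc ih =>
      rcases ih with ih | ih
      · obtain ⟨⟨d, -, hd1, hd2⟩, hcX⟩ := hbc
        have h1 := (pl_int_edge hT w (d := d) (by rw [hd1]; exact ih)).2.2
        rw [pl_VOf_left hT w, hd2] at h1
        rcases h1 with h1 | h1
        · exact Or.inr ⟨c, h1, haX, hab.tail ⟨⟨d, Or.inl (Set.mem_univ _), hd1, hd2⟩, hcX⟩⟩
        · exact Or.inl h1
      · exact Or.inr ih
  exact key.resolve_left hb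

/-- **`E_patch` + WHITE CIRCUIT ⟹ `N_g`**, model free: the circuit `w` is white, off `Yc`; the right apexes of `g` and the anchors are strictly inside, the rim of the patch is not -/
theorem pve6_N_of_circ (hT : T.IsSph) (g : T.Pth) {σ : V → Bool} {K Yc 𝔄 : Set V} (hg : pvtaB g σ) (w : T.Cyc) (hw : ∀ v ∈ w.verts, σ v = false) (hwY : ∀ v ∈ w.verts, v ∉ Yc)
    (hin : ∀ k, k < g.n → g.rap k ∈ T.Int w.Left) (hA : ∀ a ∈ 𝔄, a ∈ T.Int w.Left) (hB : ∀ b ∈ pve6Bd T K, b ∉ T.Int w.Left) (hN : Pve6N g σ K Yc 𝔄) :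
    pvtaN g σ Ycᶜ 𝔄 := by
  have hW : pve6W g σ K Yc ⊆ {v | v ∈ Ycᶜ ∧ v ∉ g.verts ∧ σ v = false} := fun v hv => ⟨hv.1.2, hv.2.1, hv.2.2⟩
  have hwX : ∀ v ∈ w.verts, v ∈ {v | v ∈ Ycᶜ ∧ v ∉ g.verts ∧ σ v = false} := by
    intro v hv
    refine ⟨hwY v hv, ?_, hw v hv⟩
    rintro ⟨l, hl, rfl⟩
    have h1 := hw _ hv
    rw [hg l hl] at h1
    exact Bool.noConfusion h1
  intro k hk
  rcases hN k hk with ⟨a, ha, hj⟩ | ⟨⟨b, hb, hj⟩, a, ha, b', hb', hj'⟩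
  · exact ⟨a, ha, pvta_join_mono hW hj⟩
  · obtain ⟨v1, hv1, j1⟩ := pve6_hit hT w (hin k hk) (hB b hb) (pvta_join_mono hW hj)
    obtain ⟨v2, hv2, j2⟩ := pve6_hit hT w (hA a ha) (hB b' hb') (pl_hx_join_symm (pvta_join_mono hW hj'))
    exact ⟨a, ha, pl_hx_join_trans j1 (pl_hx_join_trans (pve6_cyc_join w hwX hv1 hv2) (pl_hx_join_symm j2))⟩

/-- **`E_patch(D)` + WHITE CIRCUIT ⟹ `NB(D)`** -/
theorem pve6_nb_of_circ (hT : T.IsSph) {𝔇 : PvwDat T} {pos : V → ℂ} {π : PvwPat} {K : Set V} {σ : V → Bool} (hg : ∀ v ∈ 𝔇.g.verts, σ v = true) (w : T.Cyc)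
    (hw : ∀ v ∈ w.verts, σ v = false) (hwY : ∀ v ∈ w.verts, v ∈ 𝔇.NU pos π) (hin : ∀ k, k < 𝔇.g.n → 𝔇.g.rap k ∈ T.Int w.Left)
    (hA : ∀ a ∈ ({𝔇.anc} ∪ 𝔇.Lam pos π : Set V), a ∈ T.Int w.Left) (hB : ∀ b ∈ pve6Bd T K, b ∉ T.Int w.Left) (hN : 𝔇.NBP pos π K σ) : 𝔇.NB pos π σ := by
  have h1 := pve6_N_of_circ (Yc := (𝔇.NU pos π)ᶜ) hT 𝔇.g (fun i hi => hg _ ⟨i, hi, rfl⟩) w hw (fun v hv h => h (hwY v hv)) hin hA hB hN
  rwa [compl_compl] at h1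

/-- the boundary layer of `NU` in the form of `pve6_act` -/
theorem pve6_lam_eq (𝔇 : PvwDat T) (pos : V → ℂ) (π : PvwPat) : {a | a ∉ (𝔇.NU pos π)ᶜ ∧ ∃ w ∈ (𝔇.NU pos π)ᶜ, T.Adj a w} = 𝔇.Lam pos π := by
  ext a
  constructor
  · rintro ⟨h1, w, h2, h3⟩
    exact ⟨not_not.1 h1, w, h2, h3⟩
  · rintro ⟨h1, w, h2, h3⟩
    exact ⟨not_not.2 h1, w, h2, h3⟩

/-- the sites which `NB` does not read lie over `Yin ∪ Ycol` -/
theorem pve6_nu_in {𝔇 : PvwDat T} {pos : V → ℂ} {π : PvwPat} {v : V} (hv : v ∉ 𝔇.NU pos π) : pos v ∈ π.Yin ∪ π.Ycol := by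
  by_contra hc
  refine hv ⟨?_, fun h => hc (Or.inr h)⟩
  rintro ⟨a, -, q, -, rfl, hq⟩
  exact hc (Or.inl (hq _ ⟨q.n, le_rfl, rfl⟩).1.2)

/-- transfer of a join through full vertices -/
theorem pve6_join_loc {V' D' : Type} {T' : PvMap V' D'} {R : D → D' → Prop} (L : PvLoc T T' R) {W : Set V} {W' : Set V'} (hW : W ⊆ T.Int (plDom R))
    (hWW : ∀ v v', pvlocV T T' R v v' → v ∈ W → v' ∈ W') {a b : V} (h : T.Join Set.univ W a b) {a' : V'} (ha : pvlocV T T' R a a') :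
    ∃ b', pvlocV T T' R b b' ∧ T'.Join Set.univ W' a' b' := by
  obtain ⟨haW, hr⟩ := h
  induction hr with
  | refl => exact ⟨a', ha, hWW _ _ ha haW, ReflTransGen.refl⟩
  | @tail b c hab hbc ih =>
    obtain ⟨b', hb, hj⟩ := ih
    have hbW : b ∈ W := pl_hx_join_mem (⟨haW, hab⟩ : T.Join Set.univ W a b)
    obtain ⟨⟨d, -, hd1, hd2⟩, hcW⟩ := hbc
    obtain ⟨c', hc, d', hd1', hd2'⟩ := pvloc_adj L hb (hW hbW) ⟨d, hd1, hd2⟩
    exact ⟨c', hc, hj.1, hj.2.tail ⟨⟨d', Or.inl (Set.mem_univ _), hd1', hd2'⟩, hWW _ _ hc hcW⟩⟩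

/-- **TRANSFER OF `E_patch` ALONG A LOCAL ISOMORPHISM**: all the sites of `K` and all the vertices of `g` are full -/
theorem pve6_N_loc {V' D' : Type} {T' : PvMap V' D'} {R : D → D' → Prop} (L : PvLoc T T' R) {g : T.Pth} {g' : T'.Pth} (P : PvLocPth R g g')
    {σ : V → Bool} {σ' : V' → Bool} (hσ : ∀ d d', R d d' → σ (T.src d) = σ' (T'.src d')) {K Yc 𝔄 : Set V} {K' Yc' 𝔄' : Set V'}
    (hfull : K ⊆ T.Int (plDom R)) (hgf : ∀ k, k ≤ g.n → g.v k ∈ T.Int (plDom R))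
    (hK : ∀ v v', pvlocV T T' R v v' → (v ∈ K ↔ v' ∈ K')) (hYc : ∀ v v', pvlocV T T' R v v' → (v ∈ Yc ↔ v' ∈ Yc'))
    (h𝔄 : ∀ a a', pvlocV T T' R a a' → a ∈ K → a ∈ 𝔄 → a' ∈ 𝔄') (hN : Pve6N g σ K Yc 𝔄) : Pve6N g' σ' K' Yc' 𝔄' := by
  have hW : pve6W g σ K Yc ⊆ T.Int (plDom R) := fun v hv => hfull hv.1.1
  have hWW : ∀ v v', pvlocV T T' R v v' → v ∈ pve6W g σ K Yc → v' ∈ pve6W g' σ' K' Yc' := by
    rintro v v' hv ⟨⟨h1, h2⟩, h3, h4⟩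
    exact ⟨⟨(hK v v' hv).1 h1, fun h => h2 ((hYc v v' hv).2 h)⟩, fun h => h3 ((pvloc_pth_verts L P hv).2 h), by rw [← pvloc_v_col hσ hv]; exact h4⟩
  have hBd : ∀ b b', pvlocV T T' R b b' → b ∈ pve6Bd T K → b' ∈ pve6Bd T' K' := by
    rintro b b' hb ⟨h1, w, hw, hadj⟩
    obtain ⟨w', hw', hadj'⟩ := pvloc_adj L hb (hfull h1) hadj
    exact ⟨(hK b b' hb).1 h1, w', fun h => hw ((hK w w' hw').2 h), hadj'⟩
  intro k hk
  rw [P.n_eq] at hk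
  have hrap : pvlocV T T' R (g.rap k) (g'.rap k) := pvloc_v_apex L (pvloc_pth_opp L P hk (Or.inl (hgf k hk.le)))
  rcases hN k hk with ⟨a, ha, hj⟩ | ⟨⟨b, hb, hj⟩, a, ha, b₂, hb₂, hj₂⟩
  · obtain ⟨a', ha', hj'⟩ := pve6_join_loc L hW hWW hj hrap
    exact Or.inl ⟨a', h𝔄 a a' ha' (pl_hx_join_mem hj).1.1 ha, hj'⟩
  · obtain ⟨b', hb', hj'⟩ := pve6_join_loc L hW hWW hj hrap
    have hb₂0 := hb₂
    obtain ⟨-, w, -, d, hd, -⟩ := hb₂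
    obtain ⟨d', hd'⟩ := hfull hj₂.1.1.1 d hd
    have hb₂' : pvlocV T T' R b₂ (T'.src d') := ⟨d, d', hd', hd, rfl⟩
    obtain ⟨a', ha', hj₂'⟩ := pve6_join_loc L hW hWW hj₂ hb₂'
    exact Or.inr ⟨⟨b', hBd b b' hb' hb, hj'⟩, a', h𝔄 a a' ha' (pl_hx_join_mem hj₂).1.1 ha, T'.src d', hBd _ _ hb₂' hb₂0, hj₂'⟩

end abs

/-! ## 2. at the model -/

section model

/-- the sites of the sample in `closedBall x r` -/
def pve6K (ω : PVSample) (x : ℂ) (r : ℝ) : Set ↥(pvxY ω) := {v | ‖pvxPos ω v - x‖ ≤ r}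

/-- a circuit of the plane map of the sample, white for `σ`, round `closedBall x r`, inside `ball x r'` -/
def Pve6Circ (ω : PVSample) (x : ℂ) (r r' : ℝ) (σ : ↥(pvxY ω) → Bool) : Prop :=
  ∃ w : (pvxT ω).Cyc, PvaxAt (pvxT ω) (pvxPos ω) x r r' w ∧ ∀ v ∈ w.verts, σ v = false

theorem pve6_eqns_cite2 : True := by
  have := @pve6K.eq_1; have := @Pve6Circ.eq_1
  trivial

variable {ω : PVSample} {x : ℂ} {R μ : ℝ}

/-- the faces of the plane map of a sample are Delaunay triangles -/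
theorem pve6_tri (d : (delbPl (pvxY ω)).Dart) : DelTri (pvxY ω) (pvxPos ω ((pvxT ω).src d)) (pvxPos ω ((pvxT ω).tgt d)) (pvxPos ω ((pvxT ω).apex d)) :=
  delp_apex_spec d.2.1 d.2.2

/-- the mesh on the faces which touch `K` -/
theorem pve6_mesh {K : Set ℂ} (hF : L9Fine (pvxY ω) K μ) (d : (delbPl (pvxY ω)).Dart)
    (h : pvxPos ω ((pvxT ω).src d) ∈ K ∨ pvxPos ω ((pvxT ω).tgt d) ∈ K ∨ pvxPos ω ((pvxT ω).apex d) ∈ K) :
    ‖pvxPos ω ((pvxT ω).tgt d) - pvxPos ω ((pvxT ω).src d)‖ ≤ μ ∧ ‖pvxPos ω ((pvxT ω).apex d) - pvxPos ω ((pvxT ω).src d)‖ ≤ μ ∧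
      ‖pvxPos ω ((pvxT ω).apex d) - pvxPos ω ((pvxT ω).tgt d)‖ ≤ μ :=
  hF _ _ _ (pve6_tri d) (by rcases h with h | h | h; exacts [Or.inl h, Or.inr (Or.inl h), Or.inr (Or.inr (Or.inl h))])

theorem pve6_mesh_adj {K : Set ℂ} (hF : L9Fine (pvxY ω) K μ) {u w : ↥(pvxY ω)} (h : (pvxT ω).Adj u w) (hu : pvxPos ω u ∈ K ∨ pvxPos ω w ∈ K) :
    ‖pvxPos ω w - pvxPos ω u‖ ≤ μ := by
  obtain ⟨d, rfl, rfl⟩ := h
  exact (pve6_mesh hF d (by rcases hu with h | h; exacts [Or.inl h, Or.inr (Or.inl h)])).1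

theorem pve6_ycl_in {𝔇 : PvwDat (pvxT ω)} {π : PvwPat} {v : ↥(pvxY ω)} (hv : v ∈ 𝔇.YCL (pvxPos ω) π) : pvxPos ω v ∈ π.Yin := by
  rcases hv with ⟨q, -, rfl, hq⟩ | ⟨q, -, rfl, hq⟩
  · exact (hq _ ⟨q.n, le_rfl, rfl⟩).2
  · exact (hq _ ⟨q.n, le_rfl, rfl⟩).2

/-- **(C1) + PATCH, ONE BULK FAMILY AGAINST THE DELAUNAY PLANE**: `g` = the plane twin of the arc `x_i … x_(i + g.n)` of the black rim `c` of the completion, `e0` = the plane twin of the dart `c.e j`; `Yc` = any set of sites of `closedBall x (5R)`.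
PLAN: `pve6_act` in `𝔅.T Y` with `K_c` = the vertices named by sites of `closedBall x (6R)`, `Yc_c` = the vertices named by sites of `Yc`; then `pve6_N_loc` along `pvloc_bulk hOk`. -/
theorem pve6_c1_bulk {X : Type} {𝔅 : PvBulk X} {Y : Set ℂ} (h : DelGood Y) (hR : 0 < R) (hμ : μ < R) (hF : L9Fine Y (Metric.closedBall x (6 * R)) μ) (hOk : 𝔅.Ok Y (Metric.closedBall x (6 * R)))
    {s : 𝔅.V Y → Bool} {σ : ℂ → Bool} (hs : DelbCol 𝔅 s σ) {c : (𝔅.T Y).Cyc} (hc : c.IsRim s) (hb : s ((𝔅.T Y).src (c.e 0)) = true)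
    (g : (delPl h).toMap.Pth) (hn : 0 < g.n) {i : ℕ} (hi : g.n < c.n) (hgv : ∀ k, k ≤ g.n → 𝔅.lab Y ((𝔅.T Y).src (c.e (i + k))) = Sum.inl (g.v k : ℂ)) (hg5 : ∀ k, k ≤ g.n → ‖(g.v k : ℂ) - x‖ ≤ 5 * R)
    (e0 : (delPl h).Dart) {j : ℕ} (he0 : 𝔅.lab Y ((𝔅.T Y).src (c.e j)) = Sum.inl ((delPl h).toMap.src e0 : ℂ)) (he1 : 𝔅.lab Y ((𝔅.T Y).src (c.e (j + 1))) = Sum.inl ((delPl h).toMap.tgt e0 : ℂ))
    (he5 : ‖((delPl h).toMap.src e0 : ℂ) - x‖ ≤ 5 * R) (Yc : Set ↥Y) (hYc : ∀ v ∈ Yc, ‖(v : ℂ) - x‖ ≤ 5 * R) (hrap : ∀ k, k < g.n → g.rap k ∉ Yc) :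
    Pve6N g (fun v : ↥Y => σ v) {v : ↥Y | ‖(v : ℂ) - x‖ ≤ 6 * R} Yc ({(delPl h).toMap.apex ((delPl h).toMap.opp e0)} ∪ {a | a ∉ Yc ∧ ∃ w ∈ Yc, (delPl h).toMap.Adj a w}) := by
  have L : PvLoc (𝔅.T Y) (delPl h).toMap (pvlocR 𝔅 h (Metric.closedBall x (6 * R))) := pvloc_bulk hOk
  have hcol := pvloc_bulk_col (h := h) (K := Metric.closedBall x (6 * R)) hs
  have hmem : ∀ a : ℂ, a ∈ Metric.closedBall x (6 * R) ↔ ‖a - x‖ ≤ 6 * R := fun a => by rw [Metric.mem_closedBall, dist_eq_norm]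
  have h56 : ∀ a : ℂ, ‖a - x‖ ≤ 5 * R → a ∈ Metric.closedBall x (6 * R) := fun a ha => (hmem a).2 (by linarith)
  -- the mesh: a plane neighbour / apex of a site within `5R` lies within `6R`
  have hmesh : ∀ e : (delPl h).Dart, ‖((delPl h).toMap.src e : ℂ) - x‖ ≤ 5 * R →
      ‖((delPl h).toMap.tgt e : ℂ) - x‖ ≤ 6 * R ∧ ‖((delPl h).toMap.apex e : ℂ) - x‖ ≤ 6 * R := by
    intro e he
    obtain ⟨m1, m2, -⟩ := hF _ _ _ (delb_plane_tri e) (Or.inl (h56 _ he))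
    constructor
    · calc ‖((delPl h).toMap.tgt e : ℂ) - x‖ = ‖(((delPl h).toMap.tgt e : ℂ) - (delPl h).toMap.src e) + (((delPl h).toMap.src e : ℂ) - x)‖ := by congr 1; ring
        _ ≤ ‖((delPl h).toMap.tgt e : ℂ) - (delPl h).toMap.src e‖ + ‖((delPl h).toMap.src e : ℂ) - x‖ := norm_add_le _ _
        _ ≤ 6 * R := by linarith
    · calc ‖((delPl h).toMap.apex e : ℂ) - x‖ = ‖(((delPl h).toMap.apex e : ℂ) - (delPl h).toMap.src e) + (((delPl h).toMap.src e : ℂ) - x)‖ := by congr 1; ring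
        _ ≤ ‖((delPl h).toMap.apex e : ℂ) - (delPl h).toMap.src e‖ + ‖((delPl h).toMap.src e : ℂ) - x‖ := norm_add_le _ _
        _ ≤ 6 * R := by linarith
  -- the two sets in the completion
  set Kc : Set (𝔅.V Y) := {v | ∃ a : ℂ, 𝔅.lab Y v = Sum.inl a ∧ ‖a - x‖ ≤ 6 * R} with hKc
  set Ycc : Set (𝔅.V Y) := {v | ∃ w ∈ Yc, 𝔅.lab Y v = Sum.inl (w : ℂ)} with hYcc
  have hfull : Kc ⊆ (𝔅.T Y).Int (plDom (pvlocR 𝔅 h (Metric.closedBall x (6 * R)))) := by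
    rintro v ⟨a, hl, ha⟩
    exact pvloc_bulk_int hOk hl ((hmem a).2 ha)
  have hK : ∀ v v', pvlocV (𝔅.T Y) (delPl h).toMap (pvlocR 𝔅 h (Metric.closedBall x (6 * R))) v v' → (v ∈ Kc ↔ v' ∈ {v : ↥Y | ‖(v : ℂ) - x‖ ≤ 6 * R}) := by
    intro v v' hv
    have hl := pvloc_bulk_v hv
    constructor
    · rintro ⟨a, hl', ha⟩
      have : a = (v' : ℂ) := Sum.inl_injective (hl'.symm.trans hl)
      show ‖(v' : ℂ) - x‖ ≤ 6 * R
      rw [← this]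
      exact ha
    · intro hv'
      exact ⟨_, hl, hv'⟩
  have hY : ∀ v v', pvlocV (𝔅.T Y) (delPl h).toMap (pvlocR 𝔅 h (Metric.closedBall x (6 * R))) v v' → (v ∈ Ycc ↔ v' ∈ Yc) := by
    intro v v' hv
    have hl := pvloc_bulk_v hv
    constructor
    · rintro ⟨w, hw, hl'⟩
      have : w = v' := Subtype.ext (Sum.inl_injective (hl'.symm.trans hl))
      exact this ▸ hw
    · intro hv'
      exact ⟨v', hv', hl⟩
  -- the darts of the arc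
  have hrel : ∀ k, k < g.n → pvlocR 𝔅 h (Metric.closedBall x (6 * R)) (c.e (i + k)) (g.e k) := by
    intro k hk
    refine pvloc_bulk_rel ⟨?_, ?_⟩ (Or.inl ?_)
    · rw [g.src_e k hk]; exact hgv k hk.le
    · rw [g.tgt_e k hk, c.chain]; exact hgv (k + 1) hk
    · rw [g.src_e k hk]; exact h56 _ (hg5 k hk.le)
  have hvfull : ∀ k, k ≤ g.n → (𝔅.T Y).src (c.e (i + k)) ∈ (𝔅.T Y).Int (plDom (pvlocR 𝔅 h (Metric.closedBall x (6 * R)))) :=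
    fun k hk => pvloc_bulk_int hOk (hgv k hk) (h56 _ (hg5 k hk))
  have hgn : (c.pth i g.n).n = g.n := by
    show min g.n (c.n - 1) = g.n
    omega
  have hvrel : ∀ k, k ≤ g.n → pvlocV (𝔅.T Y) (delPl h).toMap (pvlocR 𝔅 h (Metric.closedBall x (6 * R))) ((𝔅.T Y).src (c.e (i + k))) (g.v k) := by
    intro k hk
    rcases Nat.lt_or_ge k g.n with hk' | hk'
    · have := pvloc_v_src (T := 𝔅.T Y) (T' := (delPl h).toMap) (hrel k hk')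
      rwa [g.src_e k hk'] at this
    · obtain ⟨m, rfl⟩ : ∃ m, k = m + 1 := ⟨k - 1, by omega⟩
      have := pvloc_v_tgt L (hrel m (by omega))
      rwa [g.tgt_e m (by omega), c.chain] at this
  have P : PvLocPth (pvlocR 𝔅 h (Metric.closedBall x (6 * R))) (c.pth i g.n) g :=
    ⟨hgn.symm, fun k hk => hrel k (hgn ▸ hk), fun k hk => hvrel k (hgn ▸ hk)⟩
  have hopp : ∀ k, k < g.n → pvlocR 𝔅 h (Metric.closedBall x (6 * R)) ((𝔅.T Y).opp (c.e (i + k))) ((delPl h).toMap.opp (g.e k)) :=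
    fun k hk => pvloc_opp L (hrel k hk) (Or.inl (hvfull k hk.le))
  have hrapv : ∀ k, k < g.n → pvlocV (𝔅.T Y) (delPl h).toMap (pvlocR 𝔅 h (Metric.closedBall x (6 * R))) ((𝔅.T Y).apex ((𝔅.T Y).opp (c.e (i + k)))) (g.rap k) :=
    fun k hk => pvloc_v_apex L (hopp k hk)
  -- the anchor
  have hrel0 : pvlocR 𝔅 h (Metric.closedBall x (6 * R)) (c.e j) e0 :=
    pvloc_bulk_rel ⟨he0, by rw [c.chain]; exact he1⟩ (Or.inl (h56 _ he5))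
  have hopp0 : pvlocR 𝔅 h (Metric.closedBall x (6 * R)) ((𝔅.T Y).opp (c.e j)) ((delPl h).toMap.opp e0) :=
    pvloc_opp L hrel0 (Or.inl (pvloc_bulk_int hOk he0 (h56 _ he5)))
  have hanc : pvlocV (𝔅.T Y) (delPl h).toMap (pvlocR 𝔅 h (Metric.closedBall x (6 * R))) ((𝔅.T Y).apex ((𝔅.T Y).opp (c.e j))) ((delPl h).toMap.apex ((delPl h).toMap.opp e0)) :=
    pvloc_v_apex L hopp0
  -- apex of the opposite dart: within `μ` of the target of the opposite = the source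
  have hmesh' : ∀ e : (delPl h).Dart, ‖((delPl h).toMap.src e : ℂ) - x‖ ≤ 5 * R → ‖((delPl h).toMap.apex ((delPl h).toMap.opp e) : ℂ) - x‖ ≤ 6 * R := by
    intro e he
    have ht := delb_plane_tri ((delPl h).toMap.opp e)
    rw [PvMap.tgt_opp] at ht
    obtain ⟨-, -, m3⟩ := hF _ _ _ ht (Or.inr (Or.inl (h56 _ he)))
    calc ‖((delPl h).toMap.apex ((delPl h).toMap.opp e) : ℂ) - x‖
        = ‖(((delPl h).toMap.apex ((delPl h).toMap.opp e) : ℂ) - (delPl h).toMap.src e) + (((delPl h).toMap.src e : ℂ) - x)‖ := by congr 1; ring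
      _ ≤ ‖((delPl h).toMap.apex ((delPl h).toMap.opp e) : ℂ) - (delPl h).toMap.src e‖ + ‖((delPl h).toMap.src e : ℂ) - x‖ := norm_add_le _ _
      _ ≤ 6 * R := by linarith
  have hU : ∀ k, k < g.n → (𝔅.T Y).apex ((𝔅.T Y).opp (c.e (i + k))) ∈ Kc ∩ Yccᶜ := by
    intro k hk
    refine ⟨(hK _ _ (hrapv k hk)).2 ?_, fun hh => hrap k hk ((hY _ _ (hrapv k hk)).1 hh)⟩
    exact hmesh' (g.e k) (by rw [g.src_e k hk]; exact hg5 k hk.le)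
  have ha : (𝔅.T Y).apex ((𝔅.T Y).opp (c.e j)) ∈ Kc := (hK _ _ hanc).2 (hmesh' e0 he5)
  have hBY : ∀ u ∈ pve6Bd (𝔅.T Y) Kc, u ∉ Ycc := by
    rintro u ⟨huK, w, hw, hadj⟩ ⟨u', hu', hl⟩
    obtain ⟨d, hd1, hd2⟩ := hadj
    obtain ⟨e, he⟩ := hfull huK d hd1
    have e1 : ((delPl h).toMap.src e : ℂ) = u' := by
      have := he.1.1
      rw [hd1, hl] at this
      exact (Sum.inl_injective this).symm
    have h6 := (hmesh e (by rw [e1]; exact hYc u' hu')).1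
    exact hw ⟨_, by rw [← hd2]; exact he.1.2, h6⟩
  have hN := pve6_act hOk.sph hc hb i g.n j hi Kc Ycc hU ha hBY
  refine pve6_N_loc L P hcol hfull (fun k hk => hvfull k (hgn ▸ hk)) hK hY ?_ hN
  rintro a a' haa' haK (rfl | ⟨h1, w, hw, hadj⟩)
  · exact Or.inl (pvloc_v_fn L haa' hanc)
  · obtain ⟨w', hw', hadj'⟩ := pvloc_adj L haa' (hfull haK) hadj
    exact Or.inr ⟨fun hh => h1 ((hY _ _ haa').2 hh), w', (hY _ _ hw').1 hw, hadj'⟩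

/-- transport along `delb_pl_eq` -/
theorem pve6_c1_pl {X : Type} {𝔅 : PvBulk X} {Y : Set ℂ} (h : DelGood Y) (Pl : PlTri ↥Y) (hPl : Pl = delPl h) (hR : 0 < R) (hμ : μ < R) (hF : L9Fine Y (Metric.closedBall x (6 * R)) μ)
    (hOk : 𝔅.Ok Y (Metric.closedBall x (6 * R))) {s : 𝔅.V Y → Bool} {σ : ℂ → Bool} (hs : DelbCol 𝔅 s σ) {c : (𝔅.T Y).Cyc} (hc : c.IsRim s) (hb : s ((𝔅.T Y).src (c.e 0)) = true)
    (g : Pl.toMap.Pth) (hn : 0 < g.n) {i : ℕ} (hi : g.n < c.n) (hgv : ∀ k, k ≤ g.n → 𝔅.lab Y ((𝔅.T Y).src (c.e (i + k))) = Sum.inl (g.v k : ℂ)) (hg5 : ∀ k, k ≤ g.n → ‖(g.v k : ℂ) - x‖ ≤ 5 * R)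
    (e0 : Pl.Dart) {j : ℕ} (he0 : 𝔅.lab Y ((𝔅.T Y).src (c.e j)) = Sum.inl (Pl.toMap.src e0 : ℂ)) (he1 : 𝔅.lab Y ((𝔅.T Y).src (c.e (j + 1))) = Sum.inl (Pl.toMap.tgt e0 : ℂ))
    (he5 : ‖(Pl.toMap.src e0 : ℂ) - x‖ ≤ 5 * R) (Yc : Set ↥Y) (hYc : ∀ v ∈ Yc, ‖(v : ℂ) - x‖ ≤ 5 * R) (hrap : ∀ k, k < g.n → g.rap k ∉ Yc) :
    Pve6N g (fun v : ↥Y => σ v) {v : ↥Y | ‖(v : ℂ) - x‖ ≤ 6 * R} Yc ({Pl.toMap.apex (Pl.toMap.opp e0)} ∪ {a | a ∉ Yc ∧ ∃ w ∈ Yc, Pl.toMap.Adj a w}) := by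
  subst hPl
  exact pve6_c1_bulk h hR hμ hF hOk hs hc hb g hn hi hgv hg5 e0 he0 he1 he5 Yc hYc hrap

/-- **(C1) + PATCH AT THE MODEL, GENERAL FORM** (ANY excluded set `Yc` of sites of `closedBall x (5R)`: `YCL`, or `YCL` with a collar): `g` = a path of the plane map which is the arc `P.v i … P.v (i + g.n)` of an encoded rim of ANY completion,
`e0` = a dart of the plane map which is the edge `P.v j → P.v (j + 1)` of the rim (its right apex = the anchor) -/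
theorem pve6_c1_gen (hR : 0 < R) (hY : DelGood (pvxY ω)) (hμ : μ < R) (hF : L9Fine (pvxY ω) (Metric.closedBall x (6 * R)) μ) {P : PvbRim} (hP : P ∈ pvhbAll x R ω) {b : Bool}
    (g : (pvxT ω).Pth) (hn : 0 < g.n) {i : ℕ} (hi : g.n < P.len) (hgv : ∀ k, k ≤ g.n → P.v (i + k) = pvxPos ω (g.v k)) (hg5 : ∀ k, k ≤ g.n → ‖pvxPos ω (g.v k) - x‖ ≤ 5 * R)
    (hb : pvxCol ω b (g.v 0) = true) (e0 : (delbPl (pvxY ω)).Dart) {j : ℕ} (he0 : P.v j = pvxPos ω ((pvxT ω).src e0)) (he1 : P.v (j + 1) = pvxPos ω ((pvxT ω).tgt e0))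
    (he5 : ‖pvxPos ω ((pvxT ω).src e0) - x‖ ≤ 5 * R) (he6 : ‖pvxPos ω ((pvxT ω).tgt e0) - x‖ ≤ 5 * R) (Yc : Set ↥(pvxY ω)) (hYc : ∀ v ∈ Yc, ‖pvxPos ω v - x‖ ≤ 5 * R) (hrap : ∀ k, k < g.n → g.rap k ∉ Yc) :
    Pve6N g (pvxCol ω b) (pve6K ω x (6 * R)) Yc ({(pvxT ω).apex ((pvxT ω).opp e0)} ∪ {a | a ∉ Yc ∧ ∃ w ∈ Yc, (pvxT ω).Adj a w}) := by
  obtain ⟨X, _, 𝔅, ξ, -, hOk, c, hc, -, rfl⟩ := l9a_mem hP
  have hnear : ∀ k : ℕ, ∀ v : ↥(pvxY ω), (𝔅.enc (cfSites (pvConf ω)) (x + 7 * R) c).v k = pvxPos ω v → ‖pvxPos ω v - x‖ ≤ 5 * R →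
      𝔅.lab (cfSites (pvConf ω)) ((𝔅.T (cfSites (pvConf ω))).src (c.e k)) = Sum.inl (v : ℂ) := by
    intro k v hk hv
    have h1 : ‖𝔅.posF (cfSites (pvConf ω)) (x + 7 * R) ((𝔅.T (cfSites (pvConf ω))).src (c.e k)) - x‖ ≤ 6 * R := by
      have h2 : 𝔅.posF (cfSites (pvConf ω)) (x + 7 * R) ((𝔅.T (cfSites (pvConf ω))).src (c.e k)) = pvxPos ω v := hk
      rw [h2]; linarith
    rw [pvlo_lab_of_near 𝔅 hR h1]
    exact congrArg Sum.inl hk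
  have hs : DelbCol 𝔅 (pvlfFl b (𝔅.col (pvConf ω) ξ)) (fun z => cfCol (pvConf ω) z == b) := by
    intro v a hv
    unfold pvlfFl PvBulk.col
    rw [hv]
    rfl
  have hl0 := hnear (i + 0) (g.v 0) (hgv 0 (Nat.zero_le _)) (hg5 0 (Nat.zero_le _))
  have hb0 : pvlfFl b (𝔅.col (pvConf ω) ξ) ((𝔅.T (cfSites (pvConf ω))).src (c.e 0)) = true := by
    rw [pl_rim_col ((pvlf_rim_fl b).2 hc) 0 (i + 0), hs _ _ hl0]
    exact hb
  exact pve6_c1_pl (𝔅 := 𝔅) hY (delbPl (pvxY ω)) (delb_pl_eq hY) hR hμ hF hOk hs ((pvlf_rim_fl b).2 hc) hb0 g hn hi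
    (fun k hk => hnear (i + k) (g.v k) (hgv k hk) (hg5 k hk)) hg5 e0 (hnear j _ he0 he5) (hnear (j + 1) _ he1 he6) he5 Yc hYc hrap

/-- **(C1) + PATCH AT THE MODEL**: an actual arc, inside `closedBall x (5R)`, of a rim of ANY completion -/
theorem pve6_c1 (hR : 0 < R) (hY : DelGood (pvxY ω)) (hμ : μ < R) (hF : L9Fine (pvxY ω) (Metric.closedBall x (6 * R)) μ) {P : PvbRim} (hP : P ∈ pvhbAll x R ω)
    {𝔇 : PvwDat (pvxT ω)} {N : PvwNum} {h : ℝ} {π : PvwPat} {b : Bool} {j : ℕ} (hok : 𝔇.Ok (pvxPos ω) N h π) (hact : PvxActual 𝔇 N h π b P j)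
    (harc : ∀ k, j ≤ k → k ≤ j + 𝔇.s.inn.n + 𝔇.g.n + 𝔇.t.inn.n → ‖P.v k - x‖ ≤ 5 * R) (hYin : π.Yin ∪ π.Ycol ⊆ Metric.closedBall x (5 * R)) :
    𝔇.NBP (pvxPos ω) π (pve6K ω x (6 * R)) (pvxCol ω b) := by
  have hT : (pvxT ω).IsSph := delb_plane_isSph hY
  obtain ⟨i0, i1, -⟩ := pvdc_inn_facts hT 𝔇.s hok.st_s.gate
  have hn : 0 < 𝔇.s.inn.n := by
    rcases Nat.eq_zero_or_pos 𝔇.s.inn.n with h0 | h0
    · exfalso
      rw [h0, i0] at i1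
      exact hok.st_s.gate.ne i1.symm
    · exact h0
  have hrun := hact.pin_s.run
  have hle := hact.pin_t.le
  have e1 : 𝔇.s.inn.n - 1 + 1 = 𝔇.s.inn.n := by omega
  have p0 : P.v (j + (𝔇.s.inn.n - 1)) = pvxPos ω ((pvxT ω).src (𝔇.s.inn.e (𝔇.s.inn.n - 1))) := by
    rw [hrun _ (by omega), 𝔇.s.inn.src_e _ (by omega)]
  have p1 : P.v (j + (𝔇.s.inn.n - 1) + 1) = pvxPos ω ((pvxT ω).tgt (𝔇.s.inn.e (𝔇.s.inn.n - 1))) := by
    rw [𝔇.s.inn.tgt_e _ (by omega), e1, ← hrun _ le_rfl]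
    congr 1
    omega
  unfold PvwDat.NBP
  rw [← pve6_lam_eq]
  refine pve6_c1_gen hR hY hμ hF hP 𝔇.g hok.pos_n (i := j + 𝔇.s.inn.n) (by omega) hact.arc (fun k hk => ?_) (hact.cyl.2.1 _ ⟨0, Nat.zero_le _, rfl⟩)
    (𝔇.s.inn.e (𝔇.s.inn.n - 1)) (j := j + (𝔇.s.inn.n - 1)) p0 p1 ?_ ?_ (𝔇.NU (pvxPos ω) π)ᶜ ?_ (fun k hk h => h (hok.off_y _ (Or.inr ⟨k, hk, rfl⟩)))
  · rw [← hact.arc k hk]
    exact harc _ (by omega) (by omega)
  · rw [← p0]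
    exact harc _ (by omega) (by omega)
  · rw [← p1]
    exact harc _ (by omega) (by omega)
  · intro v hv
    exact mem_closedBall_iff_norm.1 (hYin (pve6_nu_in hv))

/-- **`E_patch` + WHITE CIRCUIT ⟹ `E_plane`, AT THE MODEL** -/
theorem pve6_plane (hR : 0 < R) (hY : DelGood (pvxY ω)) (hμ0 : 0 ≤ μ) (hF : L9Fine (pvxY ω) (Metric.closedBall x (6 * R)) μ)
    {𝔇 : PvwDat (pvxT ω)} {π : PvwPat} {σ : ↥(pvxY ω) → Bool} (hg : ∀ v ∈ 𝔇.g.verts, σ v = true)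
    (hgin : ∀ v ∈ 𝔇.g.verts, ‖pvxPos ω v - x‖ ≤ 5 * R) (hsin : ∀ v ∈ 𝔇.s.inn.verts, ‖pvxPos ω v - x‖ ≤ 5 * R) (hn : 0 < 𝔇.s.inn.n) (hYin : π.Yin ∪ π.Ycol ⊆ Metric.closedBall x (5 * R))
    (hc : Pve6Circ ω x (5 * R + μ) (6 * R - μ) σ) (hN : 𝔇.NBP (pvxPos ω) π (pve6K ω x (6 * R)) σ) : 𝔇.NB (pvxPos ω) π σ := by
  have hT : (pvxT ω).IsSph := delb_plane_isSph hY
  obtain ⟨w, hw, hwc⟩ := hc
  have mem6 : ∀ v : ↥(pvxY ω), ‖pvxPos ω v - x‖ ≤ 5 * R → pvxPos ω v ∈ Metric.closedBall x (6 * R) := by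
    intro v hv
    rw [mem_closedBall_iff_norm]
    linarith
  -- one step from the ball of radius `5R`
  have step : ∀ u v : ↥(pvxY ω), ‖pvxPos ω u - x‖ ≤ 5 * R → ‖pvxPos ω v - pvxPos ω u‖ ≤ μ → v ∈ (pvxT ω).Int w.Left := by
    intro u v hu huv
    refine hw.inn v ?_
    calc ‖pvxPos ω v - x‖ = ‖(pvxPos ω v - pvxPos ω u) + (pvxPos ω u - x)‖ := by ring_nf
      _ ≤ ‖pvxPos ω v - pvxPos ω u‖ + ‖pvxPos ω u - x‖ := norm_add_le _ _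
      _ ≤ 5 * R + μ := by linarith
  have rapx : ∀ (p : (pvxT ω).Pth) (k : ℕ), k < p.n → (∀ v ∈ p.verts, ‖pvxPos ω v - x‖ ≤ 5 * R) → p.rap k ∈ (pvxT ω).Int w.Left := by
    intro p k hk hp
    have h1 : (pvxT ω).src ((pvxT ω).opp (p.e k)) = p.v (k + 1) := by rw [(pvxT ω).src_opp', p.tgt_e k hk]
    have h2 : ‖pvxPos ω (p.v (k + 1)) - x‖ ≤ 5 * R := hp _ ⟨k + 1, hk, rfl⟩
    have h3 := (pve6_mesh hF ((pvxT ω).opp (p.e k)) (Or.inl (by rw [h1]; exact mem6 _ h2))).2.1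
    rw [h1] at h3
    exact step _ _ h2 h3
  refine pve6_nb_of_circ hT hg w hwc ?_ (fun k hk => rapx 𝔇.g k hk hgin) ?_ ?_ hN
  · intro v hv
    by_contra hvY
    have h1 : ‖pvxPos ω v - x‖ ≤ 5 * R := mem_closedBall_iff_norm.1 (hYin (pve6_nu_in hvY))
    exact Set.disjoint_left.1 (pl_jordan_vert_disj hT w).1 hv (hw.inn v (by linarith))
  · rintro a (ha | ⟨-, y, hy, hay⟩)
    · rw [mem_singleton_iff] at ha
      rw [ha]
      exact rapx 𝔇.s.inn (𝔇.s.inn.n - 1) (by omega) hsin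
    · have h1 : ‖pvxPos ω y - x‖ ≤ 5 * R := mem_closedBall_iff_norm.1 (hYin (pve6_nu_in hy))
      refine step y a h1 ?_
      have := pve6_mesh_adj hF hay (Or.inr (mem6 _ h1))
      rwa [norm_sub_rev] at this
  · rintro b ⟨hbK, y, hyK, hby⟩ hbI
    have h1 : ‖pvxPos ω b - x‖ < 6 * R - μ := hw.out b (by rw [pl_VOf_left hT w]; exact Or.inr hbI)
    have h2 : ‖pvxPos ω y - pvxPos ω b‖ ≤ μ := pve6_mesh_adj hF hby (Or.inl (mem_closedBall_iff_norm.2 hbK))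
    refine hyK ?_
    show ‖pvxPos ω y - x‖ ≤ 6 * R
    calc ‖pvxPos ω y - x‖ = ‖(pvxPos ω y - pvxPos ω b) + (pvxPos ω b - x)‖ := by ring_nf
      _ ≤ ‖pvxPos ω y - pvxPos ω b‖ + ‖pvxPos ω b - x‖ := norm_add_le _ _
      _ ≤ 6 * R := by linarith

end model

end Claimed.Agent.R289
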