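import Claimed.Agent.R289.Tr.PatchE
import Claimed.Agent.R289.Tr.LocalW

/-!
# Row 289 (S0537, Cardy for Poisson-Voronoi), THE WALL, road E, file Tr/PatchR : E6 = PATCH UNDER A POSITIONED LOCAL ISOMORPHISM (FOR THE FIELD `rd`)      (helper130, node of helper24; prefix `pve6r_`, defs `Pve6Sep`, `Pve6SepW`)

WHY.   `rd` (29): the events `A i`, `WO i` are the same for `Y` and for `Y' = Y` resampled inside `C`.      The two Delaunay planes are related by `PvLocP .. Kr`, `Kr = pvgeFar C ρ` (`Tr/GeoLoc`): the sites placed in `Kr` are full.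
A white CIRCUIT `PvaxAt T pos x r r' w` talks about `w.Left`, which CONTAINS the resampled region: it is not carried over by the tools of `Tr/Local`.      The form which is carried over by pure path surgery:
* `Pve6Sep T pos x r r' S`    `S` lies in the open annulus, is connected, and every path from radius `≤ r` to radius `≥ r'` meets `S`
* `Pve6SepW T pos x r r' σ`   a WHITE separating set.      DECREASING in black, reads the open annulus only (`pve6r_sepW_mono`)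
* `pve6r_sep_of_circ`         a circuit at radius `(r, r')` is a separating set
* **`pve6r_plane`**, **`pve6r_nb`**      `E_patch` + white separating set ⟹ `N_g`, `NB(D)` OF RECORD.      NO MESH
* **`pve6r_sep_loc`**, **`pve6r_sepW_loc`**      carried over by `PvLocP`, as soon as the positions outside `closedBall x r` lie in `Kr`
* **`pve6r_N_loc`** (only the sites of `K \ Yc` are full), **`pve6r_nbp_loc`**      `E_patch(D)` is carried over to the twin datum, as soon as `Ycolᶜ ⊆ Kr`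
-/

set_option autoImplicit false

namespace Claimed.Agent.R289

open Relation Set Claims.C0465

variable {V D V' D' : Type}

/-- `S` SEPARATES `closedBall x r` from the complement of `ball x r'` -/
structure Pve6Sep (T : PvMap V D) (pos : V → ℂ) (x : ℂ) (r r' : ℝ) (S : Set V) : Prop where
  ann : ∀ v ∈ S, r < ‖pos v - x‖ ∧ ‖pos v - x‖ < r'
  conn : ∀ u ∈ S, ∀ v ∈ S, T.Join Set.univ S u v
  sep : ∀ a b, ‖pos a - x‖ ≤ r → r' ≤ ‖pos b - x‖ → ¬ T.Join Set.univ Sᶜ a b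

/-- a WHITE separating set -/
def Pve6SepW (T : PvMap V D) (pos : V → ℂ) (x : ℂ) (r r' : ℝ) (σ : V → Bool) : Prop := ∃ S, Pve6Sep T pos x r r' S ∧ ∀ v ∈ S, σ v = false

theorem pve6r_eqns_cite : True := by
  have := @Pve6SepW.eq_1
  trivial

section one

variable {T : PvMap V D} {pos : V → ℂ} {x : ℂ} {r r' ρ : ℝ}

theorem pve6r_adj_symm {u v : V} (h : T.Adj u v) : T.Adj v u := by
  obtain ⟨d, rfl, rfl⟩ := h
  exact ⟨T.opp d, T.src_opp' d, T.tgt_opp d⟩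

theorem pve6r_join_step {X : Set V} {a b c : V} (h : T.Join Set.univ X a b) (hbc : T.Adj b c) (hc : c ∈ X) : T.Join Set.univ X a c := by
  obtain ⟨d, hd1, hd2⟩ := hbc
  exact ⟨h.1, h.2.tail ⟨⟨d, Or.inl (Set.mem_univ _), hd1, hd2⟩, hc⟩⟩

/-- decreasing in black, reads the open annulus only -/
theorem pve6r_sepW_mono {σ σ' : V → Bool} (h : ∀ v, r < ‖pos v - x‖ → ‖pos v - x‖ < r' → σ v = false → σ' v = false) (hS : Pve6SepW T pos x r r' σ) : Pve6SepW T pos x r r' σ' := by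
  obtain ⟨S, hS, hw⟩ := hS
  exact ⟨S, hS, fun v hv => h v (hS.ann v hv).1 (hS.ann v hv).2 (hw v hv)⟩

/-- a circuit at radius `(r, r')` is a separating set -/
theorem pve6r_sep_of_circ (hT : T.IsSph) {w : T.Cyc} (hw : PvaxAt T pos x r r' w) : Pve6Sep T pos x r r' w.verts where
  ann v hv := by
    refine ⟨?_, hw.out v (by rw [pl_VOf_left hT w]; exact Or.inl hv)⟩
    by_contra h2
    exact Set.disjoint_left.1 (pl_jordan_vert_disj hT w).1 hv (hw.inn v (not_lt.1 h2))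
  conn u hu v hv := pve6_cyc_join w (fun _ h => h) hu hv
  sep a b ha hb hj := by
    have hbI : b ∉ T.Int w.Left := by
      intro hbI
      have := hw.out b (by rw [pl_VOf_left hT w]; exact Or.inr hbI)
      linarith
    obtain ⟨v, hv, hjv⟩ := pve6_hit hT w (hw.inn a ha) hbI hj
    exact (pl_hx_join_mem hjv) hv

theorem pve6r_sepW_of_circ (hT : T.IsSph) {σ : V → Bool} {w : T.Cyc} (hw : PvaxAt T pos x r r' w) (hwc : ∀ v ∈ w.verts, σ v = false) : Pve6SepW T pos x r r' σ :=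
  ⟨w.verts, pve6r_sep_of_circ hT hw, hwc⟩

/-- a path from a neighbour of `closedBall x r` to a neighbour of the complement of `ball x r'` meets `S` -/
theorem pve6r_hit {S : Set V} (hS : Pve6Sep T pos x r r' S) {X : Set V} {u a b y : V} (hu : ‖pos u - x‖ ≤ r) (hua : T.Adj u a) (h : T.Join Set.univ X a b) (hby : T.Adj b y)
    (hy : r' ≤ ‖pos y - x‖) : ∃ v ∈ S, T.Join Set.univ X a v := by
  have huS : u ∈ Sᶜ := fun hc => absurd hu (not_le.2 (hS.ann u hc).1)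
  have hyS : y ∈ Sᶜ := fun hc => absurd hy (not_le.2 (hS.ann y hc).2)
  obtain ⟨haX, hr⟩ := h
  have key : (∃ v ∈ S, T.Join Set.univ X a v) ∨ T.Join Set.univ Sᶜ u b := by
    clear hby
    induction hr with
    | refl =>
      by_cases haS : a ∈ S
      · exact Or.inl ⟨a, haS, haX, ReflTransGen.refl⟩
      · exact Or.inr (pve6r_join_step ⟨huS, ReflTransGen.refl⟩ hua haS)
    | @tail b c hab hbc ih =>
      rcases ih with ih | ih
      · exact Or.inl ih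
      · by_cases hcS : c ∈ S
        · exact Or.inl ⟨c, hcS, haX, hab.tail hbc⟩
        · obtain ⟨⟨d, -, hd1, hd2⟩, -⟩ := hbc
          exact Or.inr (pve6r_join_step ih ⟨d, hd1, hd2⟩ hcS)
  rcases key with key | key
  · exact key
  · exact absurd (pve6r_join_step key hby hyS) (hS.sep u y hu hy)

/-- **`E_patch` + WHITE SEPARATING SET ⟹ `N_g`, NO MESH**: patch of radius `ρ ≥ r'`; `g`, `Yc` in `closedBall x r`; the anchors are neighbours of sites of `closedBall x r` -/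
theorem pve6r_plane (hρ : r' ≤ ρ) (g : T.Pth) {σ : V → Bool} (hgin : ∀ v ∈ g.verts, ‖pos v - x‖ ≤ r)
    {Yc 𝔄 : Set V} (hYc : ∀ v ∈ Yc, ‖pos v - x‖ ≤ r) (h𝔄 : ∀ a ∈ 𝔄, ∃ u, ‖pos u - x‖ ≤ r ∧ T.Adj u a) (hS : Pve6SepW T pos x r r' σ)
    (hN : Pve6N g σ {v | ‖pos v - x‖ ≤ ρ} Yc 𝔄) : pvtaN g σ Ycᶜ 𝔄 := by
  obtain ⟨S, hS, hwc⟩ := hS
  have hW : pve6W g σ {v | ‖pos v - x‖ ≤ ρ} Yc ⊆ {v | v ∈ Ycᶜ ∧ v ∉ g.verts ∧ σ v = false} := fun v hv => ⟨hv.1.2, hv.2.1, hv.2.2⟩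
  have hSX : S ⊆ {v | v ∈ Ycᶜ ∧ v ∉ g.verts ∧ σ v = false} := fun v hv =>
    ⟨fun h => absurd (hYc v h) (not_le.2 (hS.ann v hv).1), fun h => absurd (hgin v h) (not_le.2 (hS.ann v hv).1), hwc v hv⟩
  have hBd : ∀ b ∈ pve6Bd T {v | ‖pos v - x‖ ≤ ρ}, ∃ y, T.Adj b y ∧ r' ≤ ‖pos y - x‖ := by
    rintro b ⟨-, y, hy, hby⟩
    exact ⟨y, hby, hρ.trans (not_le.1 hy).le⟩
  intro k hk
  rcases hN k hk with ⟨a, ha, hj⟩ | ⟨⟨b, hb, hj⟩, a, ha, b', hb', hj'⟩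
  · exact ⟨a, ha, pvta_join_mono hW hj⟩
  · have h1 : T.src (T.opp (g.e k)) = g.v (k + 1) := by rw [T.src_opp', g.tgt_e k hk]
    have h2 : T.Adj (g.v (k + 1)) (g.rap k) := by
      rw [← h1]
      exact pve6r_adj_symm (pl_adj_apex_src _)
    obtain ⟨y, hby, hy⟩ := hBd b hb
    obtain ⟨y', hby', hy'⟩ := hBd b' hb'
    obtain ⟨u, hu, hua⟩ := h𝔄 a ha
    obtain ⟨v1, hv1, j1⟩ := pve6r_hit hS (hgin _ ⟨k + 1, hk, rfl⟩) h2 (pvta_join_mono hW hj) hby hy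
    obtain ⟨v2, hv2, j2⟩ := pve6r_hit hS hu hua (pl_hx_join_symm (pvta_join_mono hW hj')) hby' hy'
    exact ⟨a, ha, pl_hx_join_trans j1 (pl_hx_join_trans (pvta_join_mono hSX (hS.conn v1 hv1 v2 hv2)) (pl_hx_join_symm j2))⟩

/-- **`E_patch(D)` + WHITE SEPARATING SET ⟹ `NB(D)` OF RECORD, NO MESH** -/
theorem pve6r_nb (hρ : r' ≤ ρ) {𝔇 : PvwDat T} {π : PvwPat} {σ : V → Bool}
    (hgin : ∀ v ∈ 𝔇.g.verts, ‖pos v - x‖ ≤ r) (hsin : ‖pos (𝔇.s.inn.v 𝔇.s.inn.n) - x‖ ≤ r) (hn : 0 < 𝔇.s.inn.n) (hYin : π.Yin ∪ π.Ycol ⊆ Metric.closedBall x r)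
    (hS : Pve6SepW T pos x r r' σ) (hN : 𝔇.NBP pos π {v | ‖pos v - x‖ ≤ ρ} σ) : 𝔇.NB pos π σ := by
  have h1 := pve6r_plane (Yc := (𝔇.NU pos π)ᶜ) hρ 𝔇.g hgin (fun v hv => mem_closedBall_iff_norm.1 (hYin (pve6_nu_in hv))) ?_ hS hN
  · rwa [compl_compl] at h1
  · rintro a (ha | ⟨-, y, hy, hay⟩)
    · rw [mem_singleton_iff] at ha
      have e0 : 𝔇.s.inn.n - 1 + 1 = 𝔇.s.inn.n := by omega
      have e1 : T.src (T.opp (𝔇.s.inn.e (𝔇.s.inn.n - 1))) = 𝔇.s.inn.v 𝔇.s.inn.n := by rw [T.src_opp', 𝔇.s.inn.tgt_e _ (by omega), e0]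
      refine ⟨𝔇.s.inn.v 𝔇.s.inn.n, hsin, ?_⟩
      rw [ha, ← e1]
      exact pve6r_adj_symm (pl_adj_apex_src _)
    · exact ⟨y, mem_closedBall_iff_norm.1 (hYin (pve6_nu_in hy)), pve6r_adj_symm hay⟩

end one

/-! ## 2. under a positioned local isomorphism -/

section two

variable {T : PvMap V D} {T' : PvMap V' D'} {R : D → D' → Prop} {pos : V → ℂ} {pos' : V' → ℂ} {Kr : Set ℂ} {x : ℂ} {r r' ρ : ℝ}

/-- **A SEPARATING SET IS CARRIED OVER**: the positions outside `closedBall x r` lie in `Kr` -/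
theorem pve6r_sep_loc (L : PvLocP T T' R pos pos' Kr) (hrr : r < r') (hK : ∀ z : ℂ, r < ‖z - x‖ → z ∈ Kr) {S : Set V} (hS : Pve6Sep T pos x r r' S) :
    Pve6Sep T' pos' x r r' {v' | ∃ v ∈ S, pvlocV T T' R v v'} where
  ann := by
    rintro v' ⟨v, hv, hvv⟩
    rw [← pvlw_pos L hvv]
    exact hS.ann v hv
  conn := by
    rintro u' ⟨u, hu, huu⟩ v' ⟨v, hv, hvv⟩
    obtain ⟨b', hb', hj⟩ := pve6_join_loc L.loc (W := S) (W' := {v' | ∃ v ∈ S, pvlocV T T' R v v'}) (fun w hw => (L.full w (hK _ (hS.ann w hw).1)).1)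
      (fun w w' hww hw => ⟨w, hw, hww⟩) (hS.conn u hu v hv) huu
    rwa [pvloc_v_fn L.loc hvv hb']
  sep := by
    rintro a' b' ha' hb' ⟨-, hr⟩
    have key : ‖pos' b' - x‖ ≤ r ∨ ∃ u b, ‖pos u - x‖ ≤ r ∧ pvlocV T T' R b b' ∧ T.Join Set.univ Sᶜ u b := by
      clear hb'
      induction hr with
      | refl => exact Or.inl ha'
      | @tail c' e' _ hce ih =>
        obtain ⟨⟨d', -, hd1, hd2⟩, heS⟩ := hce
        by_cases he : ‖pos' e' - x‖ ≤ r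
        · exact Or.inl he
        · right
          have heK : pos' e' ∈ Kr := hK _ (not_le.1 he)
          obtain ⟨e, hee⟩ := pvlw_vertex L.symm heK
          have hee' : pvlocV T T' R e e' := pvloc_v_symm hee
          have heS' : e ∈ Sᶜ := fun h => heS ⟨e, h, hee'⟩
          obtain ⟨c, hcc, hec⟩ := pvloc_adj L.loc.symm hee (L.full' e' heK).1 (pve6r_adj_symm ⟨d', hd1, hd2⟩ : T'.Adj e' c')
          have hcc' : pvlocV T T' R c c' := pvloc_v_symm hcc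
          rcases ih with ih | ⟨u, c₂, hu, hc₂, hj⟩
          · have hcr : ‖pos c - x‖ ≤ r := by rw [pvlw_pos L hcc']; exact ih
            have hcS : c ∈ Sᶜ := fun h => absurd hcr (not_le.2 (hS.ann c h).1)
            exact ⟨c, e, hcr, hee', pve6r_join_step ⟨hcS, ReflTransGen.refl⟩ (pve6r_adj_symm hec) heS'⟩
          · have : c₂ = c := pvloc_v_inj L.loc hc₂ hcc'
            subst this
            exact ⟨u, e, hu, hee', pve6r_join_step hj (pve6r_adj_symm hec) heS'⟩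
    rcases key with key | ⟨u, b, hu, hbb, hj⟩
    · linarith
    · exact hS.sep u b hu (by rw [pvlw_pos L hbb]; exact hb') hj

/-- **A WHITE SEPARATING SET IS CARRIED OVER** -/
theorem pve6r_sepW_loc (L : PvLocP T T' R pos pos' Kr) (hrr : r < r') (hK : ∀ z : ℂ, r < ‖z - x‖ → z ∈ Kr) {σ : V → Bool} {σ' : V' → Bool}
    (hσ : ∀ d d', R d d' → σ (T.src d) = σ' (T'.src d')) (hS : Pve6SepW T pos x r r' σ) : Pve6SepW T' pos' x r r' σ' := by
  obtain ⟨S, hS, hw⟩ := hS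
  refine ⟨_, pve6r_sep_loc L hrr hK hS, ?_⟩
  rintro v' ⟨v, hv, hvv⟩
  rw [← pvloc_v_col hσ hvv]
  exact hw v hv

/-- **TRANSFER OF `E_patch`**: only the sites of `K \ Yc` and the vertices of `g` are full -/
theorem pve6r_N_loc (L : PvLoc T T' R) {g : T.Pth} {g' : T'.Pth} (P : PvLocPth R g g')
    {σ : V → Bool} {σ' : V' → Bool} (hσ : ∀ d d', R d d' → σ (T.src d) = σ' (T'.src d')) {K Yc 𝔄 : Set V} {K' Yc' 𝔄' : Set V'}
    (hfull : K ∩ Ycᶜ ⊆ T.Int (plDom R)) (hgf : ∀ k, k ≤ g.n → g.v k ∈ T.Int (plDom R))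
    (hK : ∀ v v', pvlocV T T' R v v' → (v ∈ K ↔ v' ∈ K')) (hYc : ∀ v v', pvlocV T T' R v v' → (v ∈ Yc ↔ v' ∈ Yc'))
    (h𝔄 : ∀ a a', pvlocV T T' R a a' → a ∈ K ∩ Ycᶜ → a ∈ 𝔄 → a' ∈ 𝔄') (hN : Pve6N g σ K Yc 𝔄) : Pve6N g' σ' K' Yc' 𝔄' := by
  have hW : pve6W g σ K Yc ⊆ T.Int (plDom R) := fun v hv => hfull hv.1
  have hWW : ∀ v v', pvlocV T T' R v v' → v ∈ pve6W g σ K Yc → v' ∈ pve6W g' σ' K' Yc' := by
    rintro v v' hv ⟨⟨h1, h2⟩, h3, h4⟩
    exact ⟨⟨(hK v v' hv).1 h1, fun h => h2 ((hYc v v' hv).2 h)⟩, fun h => h3 ((pvloc_pth_verts L P hv).2 h), by rw [← pvloc_v_col hσ hv]; exact h4⟩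
  have hBd : ∀ b b', pvlocV T T' R b b' → b ∈ pve6W g σ K Yc → b ∈ pve6Bd T K → b' ∈ pve6Bd T' K' := by
    rintro b b' hb hbW ⟨h1, w, hw, hadj⟩
    obtain ⟨w', hw', hadj'⟩ := pvloc_adj L hb (hW hbW) hadj
    exact ⟨(hK b b' hb).1 h1, w', fun h => hw ((hK w w' hw').2 h), hadj'⟩
  intro k hk
  rw [P.n_eq] at hk
  have hrap : pvlocV T T' R (g.rap k) (g'.rap k) := pvloc_v_apex L (pvloc_pth_opp L P hk (Or.inl (hgf k hk.le)))
  rcases hN k hk with ⟨a, ha, hj⟩ | ⟨⟨b, hb, hj⟩, a, ha, b₂, hb₂, hj₂⟩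
  · obtain ⟨a', ha', hj'⟩ := pve6_join_loc L hW hWW hj hrap
    exact Or.inl ⟨a', h𝔄 a a' ha' (pl_hx_join_mem hj).1 ha, hj'⟩
  · obtain ⟨b', hb', hj'⟩ := pve6_join_loc L hW hWW hj hrap
    have hb₂0 := hb₂
    obtain ⟨-, w, -, d, hd, -⟩ := hb₂
    obtain ⟨d', hd'⟩ := hW hj₂.1 d hd
    have hb₂' : pvlocV T T' R b₂ (T'.src d') := ⟨d, d', hd', hd, rfl⟩
    obtain ⟨a', ha', hj₂'⟩ := pve6_join_loc L hW hWW hj₂ hb₂'
    exact Or.inr ⟨⟨b', hBd b b' hb' (pl_hx_join_mem hj) hb, hj'⟩, a', h𝔄 a a' ha' (pl_hx_join_mem hj₂).1 ha, T'.src d', hBd _ _ hb₂' hj₂.1 hb₂0, hj₂'⟩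

/-- **`E_patch(D)` IS CARRIED OVER TO THE TWIN DATUM**: `Ycolᶜ ⊆ Kr` (so all the sites of `NU` are full), `g₀`, the end of `inner(s)` and the black ends of the entrance stub are placed in `Kr` -/
theorem pve6r_nbp_loc (L : PvLocP T T' R pos pos' Kr) {𝔇 : PvwDat T} {𝔇' : PvwDat T'} (G : PvLocDat R 𝔇 𝔇') {π : PvwPat} (hcol : π.Ycolᶜ ⊆ Kr)
    (hKm : ∀ i, i ≤ 𝔇.s.nm → pos (T.src (𝔇.s.em i)) ∈ Kr) (hg : ∀ k, k ≤ 𝔇.g.n → pos (𝔇.g.v k) ∈ Kr) (hn : 0 < 𝔇.s.inn.n) (hs : pos (𝔇.s.inn.v 𝔇.s.inn.n) ∈ Kr)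
    {σ : V → Bool} {σ' : V' → Bool} (hσ : ∀ d d', R d d' → σ (T.src d) = σ' (T'.src d')) (hN : 𝔇.NBP pos π {v | ‖pos v - x‖ ≤ ρ} σ) :
    𝔇'.NBP pos' π {v' | ‖pos' v' - x‖ ≤ ρ} σ' := by
  have hY : π.Yin \ π.Ycol ⊆ Kr := fun z hz => hcol hz.2
  have hNU : ∀ v v', pvlocV T T' R v v' → (v ∈ 𝔇.NU pos π ↔ v' ∈ 𝔇'.NU pos' π) := fun v v' hv => pvlw_nu L G hKm hY hv
  have hfull : ∀ v, v ∈ 𝔇.NU pos π → v ∈ T.Int (plDom R) := fun v hv => (L.full v (hcol hv.2)).1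
  have e0 : 𝔇.s.inn.n - 1 + 1 = 𝔇.s.inn.n := by omega
  have hanc : pvlocV T T' R 𝔇.anc 𝔇'.anc := by
    have h1 := pvloc_pth_opp L.loc G.s.gt.inn (k := 𝔇.s.inn.n - 1) (by omega) (Or.inr (by rw [e0]; exact (L.full _ hs).1))
    have h2 := pvloc_v_apex L.loc h1
    have h3 : 𝔇'.s.inn.n = 𝔇.s.inn.n := G.s.gt.inn.n_eq
    unfold PvwDat.anc
    rw [h3]
    exact h2
  refine pve6r_N_loc L.loc G.g hσ (fun v hv => hfull v (not_not.1 hv.2)) (fun k hk => (L.full _ (hg k hk)).1) (fun v v' hv => ?_) (fun v v' hv => not_congr (hNU v v' hv)) ?_ hN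
  · show ‖pos v - x‖ ≤ ρ ↔ ‖pos' v' - x‖ ≤ ρ
    rw [pvlw_pos L hv]
  · rintro a a' haa haK (ha | ⟨h1, w, hw, hadj⟩)
    · rw [mem_singleton_iff] at ha
      subst ha
      exact Or.inl (pvloc_v_fn L.loc haa hanc)
    · obtain ⟨w', hww, hadj'⟩ := pvloc_adj L.loc haa (hfull a h1) hadj
      exact Or.inr ⟨(hNU a a' haa).1 h1, w', fun h => hw ((hNU w w' hww).2 h), hadj'⟩

end two

end Claimed.Agent.R289
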