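import Claimed.Agent.R289.Tr.PatchQ
import Claimed.Agent.R289.Tr.PatchR

/-!
# Row 289 (S0537, Cardy for Poisson-Voronoi), THE WALL, road E, file Tr/PatchK : E6 = PATCH, MESH FREE, IN THE SHAPES OF THE KIT      (helper130, node of helper24; prefix `pve6k_`)

WHY.   The field `dom` of `PvxnOk` (170) is `∀ᵐ ω` with NO mesh on `closedBall x (6R)`, and the mesh cannot be put into `E` (it reads the resampled region `C`: it would kill `rd`).      So `E_patch + white circuit ⟹ NB` must be MESH FREE.      It is: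
a neighbour of a site strictly inside a circuit is inside or on the circuit (`pl_int_edge`).
* sec. 1  model free: `pve6k_hit`, `pve6k_N_of_circ` (apexes and anchors inside OR ON the circuit), **`pve6k_plane`** (positions; circuit at radius `(r, r')`, patch of radius `ρ ≥ r'`; anchors = neighbours of sites of `closedBall x r`)
* sec. 2  data: **`pve6k_nb`** : `NBP` (patch `ρ`) + white circuit at radius `(r, r')`, `r' ≤ ρ` ⟹ `𝔇.NB` OF RECORD, any map, NO MESH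
* sec. 3  at a fixed site set `Y`, THE SHAPES OF `PvxnKit` / `PvxnOk` / `Pvn1bKit`:   `E := pve6kE x R reg`, circuit part of `W := pve6kW x R`, read sites `pve6kN x R reg`:   `pve6k_E_mono`, `pve6k_W_mono`, `pve6k_N_fin`, `pve6k_c1`, `pve6k_nb_Y`, `pve6k_W_col`
          v2 (11:35Z): `pve6kW` = a white SEPARATING SET (`Pve6SepW` of `Tr/PatchR`; a white circuit is one: `pve6k_W_of_circ`), because a circuit `PvaxAt` is NOT carried over by the resampling of `C` (its `Left` contains `C`).      Names and signatures unchanged.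
* sec. 4  FOR `rd` (29): **`pve6k_E_loc`**, **`pve6k_W_loc`**: `E`, `W` are carried over by `PvLocP (delbPl Y).toMap (delbPl Y').toMap Rl Subtype.val Subtype.val Kr` (`Kr = pvgeFar C ρ`) to the twin datum
-/

set_option autoImplicit false

namespace Claimed.Agent.R289

open MeasureTheory Filter Topology Set Relation Claims.C0465
open scoped ENNReal

/-! ## 1. model free -/

section abs

variable {V D : Type} {T : PvMap V D}

/-- a path which starts inside or on a circuit and does not end strictly inside meets the circuit -/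
theorem pve6k_hit (hT : T.IsSph) (w : T.Cyc) {X : Set V} {a b : V} (ha : a ∈ T.VOf w.Left) (hb : b ∉ T.Int w.Left) (h : T.Join Set.univ X a b) :
    ∃ v ∈ w.verts, T.Join Set.univ X a v := by
  rw [pl_VOf_left hT w] at ha
  rcases ha with ha | ha
  · exact ⟨a, ha, h.1, ReflTransGen.refl⟩
  · exact pve6_hit hT w ha hb h

/-- a neighbour of a site strictly inside a circuit is inside or on the circuit -/
theorem pve6k_nbr (hT : T.IsSph) (w : T.Cyc) {u v : V} (hu : u ∈ T.Int w.Left) (h : T.Adj u v) : v ∈ T.VOf w.Left := by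
  obtain ⟨d, rfl, rfl⟩ := h
  exact (pl_int_edge hT w hu).2.2

theorem pve6k_adj_symm {u v : V} (h : T.Adj u v) : T.Adj v u := by
  obtain ⟨d, rfl, rfl⟩ := h
  exact ⟨T.opp d, T.src_opp' d, T.tgt_opp d⟩

/-- **`E_patch` + WHITE CIRCUIT ⟹ `N_g`**: the right apexes of `g` and the anchors are inside OR ON the circuit -/
theorem pve6k_N_of_circ (hT : T.IsSph) (g : T.Pth) {σ : V → Bool} {K Yc 𝔄 : Set V} (hg : pvtaB g σ) (w : T.Cyc) (hw : ∀ v ∈ w.verts, σ v = false) (hwY : ∀ v ∈ w.verts, v ∉ Yc)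
    (hin : ∀ k, k < g.n → g.rap k ∈ T.VOf w.Left) (hA : ∀ a ∈ 𝔄, a ∈ T.VOf w.Left) (hB : ∀ b ∈ pve6Bd T K, b ∉ T.Int w.Left) (hN : Pve6N g σ K Yc 𝔄) :
    pvtaN g σ Ycᶜ 𝔄 := by
  have hW : pve6W g σ K Yc ⊆ {v | v ∈ Ycᶜ ∧ v ∉ g.verts ∧ σ v = false} := fun v hv => ⟨hv.1.2, hv.2.1, hv.2.2⟩
  have hwX : ∀ v ∈ w.verts, v ∈ {v | v ∈ Ycᶜ ∧ v ∉ g.verts ∧ σ v = false} := by
    intro v hv
    refine ⟨hwY v hv, ?_, hw v hv⟩
    rintro ⟨l, hl, rfl⟩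
    have h1 := hw _ hv
    rw [hg l hl] at h1
    exact Bool.noConfusion h1
  intro k hk
  rcases hN k hk with ⟨a, ha, hj⟩ | ⟨⟨b, hb, hj⟩, a, ha, b', hb', hj'⟩
  · exact ⟨a, ha, pvta_join_mono hW hj⟩
  · obtain ⟨v1, hv1, j1⟩ := pve6k_hit hT w (hin k hk) (hB b hb) (pvta_join_mono hW hj)
    obtain ⟨v2, hv2, j2⟩ := pve6k_hit hT w (hA a ha) (hB b' hb') (pl_hx_join_symm (pvta_join_mono hW hj'))
    exact ⟨a, ha, pl_hx_join_trans j1 (pl_hx_join_trans (pve6_cyc_join w hwX hv1 hv2) (pl_hx_join_symm j2))⟩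

/-- **`E_patch` + WHITE CIRCUIT ⟹ `N_g`, WITH POSITIONS, NO MESH** -/
theorem pve6k_plane (hT : T.IsSph) {pos : V → ℂ} {x : ℂ} {r r' ρ : ℝ} (hρ : r' ≤ ρ) (g : T.Pth) {σ : V → Bool} (hg : pvtaB g σ) (hgin : ∀ v ∈ g.verts, ‖pos v - x‖ ≤ r)
    {Yc 𝔄 : Set V} (hYc : ∀ v ∈ Yc, ‖pos v - x‖ ≤ r) (h𝔄 : ∀ a ∈ 𝔄, ∃ u, ‖pos u - x‖ ≤ r ∧ T.Adj u a) (w : T.Cyc) (hw : PvaxAt T pos x r r' w) (hwc : ∀ v ∈ w.verts, σ v = false)
    (hN : Pve6N g σ {v | ‖pos v - x‖ ≤ ρ} Yc 𝔄) : pvtaN g σ Ycᶜ 𝔄 := by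
  refine pve6k_N_of_circ hT g hg w hwc ?_ ?_ ?_ ?_ hN
  · intro v hv hvY
    exact Set.disjoint_left.1 (pl_jordan_vert_disj hT w).1 hv (hw.inn v (hYc v hvY))
  · intro k hk
    have h1 : T.src (T.opp (g.e k)) = g.v (k + 1) := by rw [T.src_opp', g.tgt_e k hk]
    have h2 : T.Adj (g.v (k + 1)) (g.rap k) := by
      rw [← h1]
      exact pve6k_adj_symm (pl_adj_apex_src _)
    exact pve6k_nbr hT w (hw.inn _ (hgin _ ⟨k + 1, hk, rfl⟩)) h2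
  · intro a ha
    obtain ⟨u, hu, hua⟩ := h𝔄 a ha
    exact pve6k_nbr hT w (hw.inn u hu) hua
  · rintro b ⟨-, y, hyK, hby⟩ hbI
    exact hyK ((hw.out y (pve6k_nbr hT w hbI hby)).le.trans hρ)

/-! ## 2. data -/

/-- **`E_patch(D)` + WHITE CIRCUIT ⟹ `NB(D)` OF RECORD, NO MESH** -/
theorem pve6k_nb (hT : T.IsSph) {pos : V → ℂ} {x : ℂ} {r r' ρ : ℝ} (hρ : r' ≤ ρ) {𝔇 : PvwDat T} {π : PvwPat} {σ : V → Bool} (hg : ∀ v ∈ 𝔇.g.verts, σ v = true)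
    (hgin : ∀ v ∈ 𝔇.g.verts, ‖pos v - x‖ ≤ r) (hsin : ∀ v ∈ 𝔇.s.inn.verts, ‖pos v - x‖ ≤ r) (hn : 0 < 𝔇.s.inn.n) (hYin : π.Yin ∪ π.Ycol ⊆ Metric.closedBall x r)
    (w : T.Cyc) (hw : PvaxAt T pos x r r' w) (hwc : ∀ v ∈ w.verts, σ v = false) (hN : 𝔇.NBP pos π {v | ‖pos v - x‖ ≤ ρ} σ) : 𝔇.NB pos π σ := by
  have h1 := pve6k_plane (Yc := (𝔇.NU pos π)ᶜ) hT hρ 𝔇.g (fun i hi => hg _ ⟨i, hi, rfl⟩) hgin (fun v hv => mem_closedBall_iff_norm.1 (hYin (pve6_nu_in hv))) ?_ w hw hwc hN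
  · rwa [compl_compl] at h1
  · rintro a (ha | ⟨-, y, hy, hay⟩)
    · rw [mem_singleton_iff] at ha
      have e1 : T.src (T.opp (𝔇.s.inn.e (𝔇.s.inn.n - 1))) = 𝔇.s.inn.v (𝔇.s.inn.n - 1 + 1) := by rw [T.src_opp', 𝔇.s.inn.tgt_e _ (by omega)]
      refine ⟨𝔇.s.inn.v (𝔇.s.inn.n - 1 + 1), hsin _ ⟨𝔇.s.inn.n - 1 + 1, by omega, rfl⟩, ?_⟩
      rw [ha, ← e1]
      exact pve6k_adj_symm (pl_adj_apex_src _)
    · exact ⟨y, mem_closedBall_iff_norm.1 (hYin (pve6_nu_in hy)), pve6k_adj_symm hay⟩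

end abs

/-! ## 3. the shapes of the kit -/

section kit

variable {Y : Set ℂ} (x : ℂ) (R : ℝ) (π : PvwPat)

/-- **`E`** of the kit: `E_patch(D)` for the patch `closedBall x (6R)` -/
def pve6kE (Y : Set ℂ) (𝔇 : PvwDat (delbPl Y).toMap) (σ : ↥Y → Bool) : Prop := 𝔇.NBP Subtype.val π (pve6qK Y x (6 * R)) σ

/-- the circuit part of **`W`** of the kit -/
def pve6kW (Y : Set ℂ) (σ : ↥Y → Bool) : Prop := Pve6SepW (delbPl Y).toMap Subtype.val x (5 * R) (6 * R) σ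

/-- the sites which `E` and the circuit part of `W` read -/
def pve6kN (Y : Set ℂ) (𝔇 : PvwDat (delbPl Y).toMap) : Set ↥Y := pve6qK Y x (6 * R) ∩ 𝔇.NU Subtype.val π

theorem pve6k_eqns_cite : True := by
  have := @pve6kE.eq_1; have := @pve6kW.eq_1; have := @pve6kN.eq_1
  trivial

variable {x R π}

/-- the field `E_mono` -/
theorem pve6k_E_mono (𝔇 : PvwDat (delbPl Y).toMap) {σ σ' : ↥Y → Bool} {N : Set ↥Y} (hN : pve6kN x R π Y 𝔇 ⊆ N) (h : ∀ v ∈ N, σ' v ≤ σ v) (hE : pve6kE x R π Y 𝔇 σ) : pve6kE x R π Y 𝔇 σ' := by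
  refine pve6q_N_mono 𝔇.g _ _ _ (fun v hK hY _ hv => ?_) hE
  have h1 := h v (hN ⟨hK, not_not.1 hY⟩)
  rw [hv] at h1
  revert h1
  cases σ' v <;> simp

/-- the circuit part of the field `W_mono` -/
theorem pve6k_W_mono (hd : DelGood Y) (𝔇 : PvwDat (delbPl Y).toMap) (hYin : π.Yin ∪ π.Ycol ⊆ Metric.closedBall x (5 * R)) {σ σ' : ↥Y → Bool} {N : Set ↥Y} (hN : pve6kN x R π Y 𝔇 ⊆ N)
    (h : ∀ v ∈ N, σ' v ≤ σ v) (hW : pve6kW x R Y σ) : pve6kW x R Y σ' := by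
  refine pve6r_sepW_mono (fun v h1 h2 hv => ?_) hW
  have hNU : v ∈ 𝔇.NU Subtype.val π := by
    by_contra hc
    have := mem_closedBall_iff_norm.1 (hYin (pve6_nu_in hc))
    linarith
  have h3 := h v (hN ⟨h2.le, hNU⟩)
  rw [hv] at h3
  revert h3
  cases σ' v <;> simp

/-- finitely many read sites -/
theorem pve6k_N_fin (hd : DelGood Y) (𝔇 : PvwDat (delbPl Y).toMap) : (pve6kN x R π Y 𝔇).Finite := (pve6q_K_fin hd x (6 * R)).subset inter_subset_left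

/-- the field `c1` of `Pvn1bKit` -/
theorem pve6k_c1 {ω : PVSample} {μ : ℝ} (hR : 0 < R) (hY : DelGood (pvxY ω)) (hμ : μ < R) (hF : L9Fine (pvxY ω) (Metric.closedBall x (6 * R)) μ) {P : PvbRim} (hP : P ∈ pvhbAll x R ω)
    {𝔇 : PvwDat (pvxT ω)} {N : PvwNum} {h : ℝ} {b : Bool} {j : ℕ} (hok : 𝔇.Ok (pvxPos ω) N h π) (hact : PvxActual 𝔇 N h π b P j)
    (harc : ∀ k, j ≤ k → k ≤ j + 𝔇.s.inn.n + 𝔇.g.n + 𝔇.t.inn.n → ‖P.v k - x‖ ≤ 5 * R) (hYin : π.Yin ∪ π.Ycol ⊆ Metric.closedBall x (5 * R)) :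
    pve6kE x R π (pvxY ω) 𝔇 (pvxCol ω b) :=
  pve6_c1 hR hY hμ hF hP hok hact harc hYin

/-- **`E ∧ W ⟹ NB` OF RECORD AT THE SITE SET `Y`, NO MESH** (for (C2) in the field `dom`) -/
theorem pve6k_nb_Y (hd : DelGood Y) {𝔇 : PvwDat (delbPl Y).toMap} {σ : ↥Y → Bool} (hg : ∀ v ∈ 𝔇.g.verts, σ v = true)
    (hgin : ∀ v ∈ 𝔇.g.verts, ‖(v : ℂ) - x‖ ≤ 5 * R) (hsin : ∀ v ∈ 𝔇.s.inn.verts, ‖(v : ℂ) - x‖ ≤ 5 * R) (hn : 0 < 𝔇.s.inn.n) (hYin : π.Yin ∪ π.Ycol ⊆ Metric.closedBall x (5 * R))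
    (hE : pve6kE x R π Y 𝔇 σ) (hW : pve6kW x R Y σ) : 𝔇.NB Subtype.val π σ := by
  exact pve6r_nb le_rfl hgin (hsin _ ⟨𝔇.s.inn.n, le_rfl, rfl⟩) hn hYin hW hE

/-- a white circuit is a white separating set -/
theorem pve6k_W_of_circ (hd : DelGood Y) {σ : ↥Y → Bool} (h : Pve6qCirc Y x (5 * R) (6 * R) σ) : pve6kW x R Y σ := by
  obtain ⟨w, hw, hwc⟩ := h
  exact pve6r_sepW_of_circ (delb_plane_isSph hd) hw hwc

/-- **THE CONDITIONAL PROBABILITY OF THE CIRCUIT PART OF `W`** -/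
theorem pve6k_W_col {q : ℝ} (hR : 0 < R) (hF : Pve6qFrame q x R Y) (F : Set ℂ) (hFin : ∀ z ∈ F, ‖z - x‖ ≤ 21 / 4 * R) (σ : ℂ → Bool) :
    ENNReal.ofReal q ≤ colLaw ℂ {κ | pve6kW x R Y (fun v : ↥Y => pvdmOv Fᶜ κ σ v)} := by
  have h1 := pve6q_circ_col (μ := 0) hR (by positivity) hF F hFin σ
  refine h1.trans (measure_mono fun κ hκ => pve6k_W_of_circ hF.1 ?_)
  simpa using hκ

end kit

/-! ## 4. for `rd` -/

section rd

variable {Y Y' : Set ℂ} {Rl : (delbPl Y).Dart → (delbPl Y').Dart → Prop} {Kr : Set ℂ} {x : ℂ} {R : ℝ} {π : PvwPat}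

/-- **`E` IS CARRIED OVER TO THE TWIN DATUM** -/
theorem pve6k_E_loc (L : PvLocP (delbPl Y).toMap (delbPl Y').toMap Rl Subtype.val Subtype.val Kr) {𝔇 : PvwDat (delbPl Y).toMap} {𝔇' : PvwDat (delbPl Y').toMap} (G : PvLocDat Rl 𝔇 𝔇')
    (hcol : π.Ycolᶜ ⊆ Kr) (hKm : ∀ i, i ≤ 𝔇.s.nm → (((delbPl Y).toMap.src (𝔇.s.em i) : ↥Y) : ℂ) ∈ Kr) (hg : ∀ k, k ≤ 𝔇.g.n → ((𝔇.g.v k : ↥Y) : ℂ) ∈ Kr) (hn : 0 < 𝔇.s.inn.n)
    (hs : ((𝔇.s.inn.v 𝔇.s.inn.n : ↥Y) : ℂ) ∈ Kr) {σ : ↥Y → Bool} {σ' : ↥Y' → Bool} (hσ : ∀ d d', Rl d d' → σ ((delbPl Y).toMap.src d) = σ' ((delbPl Y').toMap.src d'))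
    (hE : pve6kE x R π Y 𝔇 σ) : pve6kE x R π Y' 𝔇' σ' :=
  pve6r_nbp_loc L G hcol hKm hg hn hs hσ hE

/-- **THE CIRCUIT PART OF `W` IS CARRIED OVER** -/
theorem pve6k_W_loc (L : PvLocP (delbPl Y).toMap (delbPl Y').toMap Rl Subtype.val Subtype.val Kr) (hR : 0 < R) (hK : ∀ z : ℂ, 5 * R < ‖z - x‖ → z ∈ Kr) {σ : ↥Y → Bool} {σ' : ↥Y' → Bool}
    (hσ : ∀ d d', Rl d d' → σ ((delbPl Y).toMap.src d) = σ' ((delbPl Y').toMap.src d')) (hW : pve6kW x R Y σ) : pve6kW x R Y' σ' :=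
  pve6r_sepW_loc L (by linarith) hK hσ hW

end rd

end Claimed.Agent.R289
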