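-- KEEP
import Claimed.Agent.R289.Tr.ShieldLoc
import Claimed.Agent.R289.Tr.PinEnc
import Claimed.Agent.R289.Tr.GoodAll

/-!
# Row 289 (S0537, Cardy for Poisson-Voronoi), THE WALL, road E, file Tr/PinSh : SHIELDS ON THE PLANE ⟹ STATE + ENCODED PIN      (owner helper165; prefix `pvps_`, `Pvps`)

(M) of 199 = leaf `pvpe_shield` of 126 (`Tr/PinE` v3.1).      The two half states, the two W-6 shields and the run of the encoded rim live ON THE PLANE MAP of the sample; the rim is a circuit of a COMPLETION.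
ROUTE: twin state in the completion (`pvlw_st_exists`, `pvlw_gate`, `pvlw_stubP/M` of 22, along `L.symm`), twin shields (`pvzy_circ` of 112), `PvzcRim` of the twin state (positions are injective in the ball of agreement + `Simple`),
`pvsh_mouth` (`Tr/Shield`), back by `pvpn_pinOf` (66) and the twin frozen sets.
* `pvps_abs`       abstract, over `PvLocP`: twin state + `PvzcMouth` in the surface of the rim
* **`pvps_at_pin0`**   the model, geometric hypotheses (core far from the centres, balls of the shields in the ball of agreement)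
* **`pvps_at_pin`**    the model, shape (M) of 199 (mesh + numbers against the own box `pvwRad N h τ τ.k`);  `pvps_at_pinM` : the numbers of 199 verbatim
STATUS: 0 sorry.
-/

set_option autoImplicit false
set_option linter.unusedSectionVars false
set_option linter.unusedVariables false

namespace Claimed.Agent.R289

open Set Claims.C0465

/-! ## 1. abstract -/

section abs

variable {V D V' D' : Type} {T : PvMap V D} {T' : PvMap V' D'} {Rl : D → D' → Prop} {pos : V → ℂ} {pos' : V' → ℂ} {Kr : Set ℂ} {s : V → Bool} {s' : V' → Bool}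

theorem pvps_circ_lt (hT : T.IsSph) {X : Set V} {y : ℂ} {r Rr : ℝ} {b : Bool} (h : PvbpCirc T pos X y r Rr b s) : r < Rr := by
  classical
  obtain ⟨c, h1, -⟩ := h
  have := pvax_at_verts hT h1 (v := T.src (c.e 0)) ⟨0, rfl⟩
  exact this.1.trans this.2

/-- **the twin state in the surface of the rim, and its mouths** -/
theorem pvps_abs (L : PvLocP T T' Rl pos pos' Kr) (hT : T.IsSph) (hS : T.Simple) (hT' : T'.IsSph) (hs : ∀ d d', Rl d d' → s (T.src d) = s' (T'.src d')) (hinj : Function.Injective pos')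
    {𝔖 : PvwSt T'} {N : PvwNum} {h : ℝ} {z : ℂ} {τ : PvwTy} {BK : Set ℂ} (hK : Metric.closedBall z (τ.b * h) ⊆ BK) (hB : pvwSq z (pvwRad N h τ τ.k) ⊆ BK) (hBK : BK ⊆ Kr)
    (hO : 𝔖.AtOut pos' N h z τ s') (hI : 𝔖.AtIn pos' N h z τ s') {c : T.Cyc} {j : ℕ} (hrim : c.IsRim s) (hfin : {d | T.Wall s (T.opp (c.e 0)) d}.Finite)
    (hrun : ∀ i, i ≤ 𝔖.inn.n → pos (T.src (c.e (j + i))) = pos' (𝔖.inn.v i)) (h0 : pos (T.src (c.e 0)) ∉ BK)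
    {rp Rp rm Rm Rr : ℝ} (hp : PvbpCirc T' pos' (𝔖.fzOut)ᶜ (τ.cp h z) rp Rp false s') (hm : PvbpCirc T' pos' (𝔖.fzIn)ᶜ (τ.cm h z) rm Rm false s')
    (hrp : 2 * N.rho * h ≤ rp) (hrm : 2 * N.rho * h ≤ rm) (hRp : Rp ≤ Rr) (hRm : Rm ≤ Rr) (hBp : Metric.ball (τ.cp h z) Rp ⊆ Kr) (hBm : Metric.ball (τ.cm h z) Rm ⊆ Kr)
    (hcp : ∀ w : ℂ, ‖w - z‖ < τ.b * h → Rr ≤ ‖w - τ.cp h z‖) (hcm : ∀ w : ℂ, ‖w - z‖ < τ.b * h → Rr ≤ ‖w - τ.cm h z‖) :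
    ∃ 𝔗 : PvwSt T, PvLocSt Rl 𝔗 𝔖 ∧ PvzcMouth 𝔗 pos N h (τ.cp h z) (τ.cm h z) BK c j := by
  classical
  have hs' : ∀ d' d, Rl d d' → s' (T'.src d') = s (T.src d) := fun d' d hd => (hs d d' hd).symm
  obtain ⟨𝔗, G0⟩ := pvlw_st_exists L.symm (hK.trans hBK) (hB.trans hBK) hO.gate ⟨hO.stub, hI.stub⟩
  have G : PvLocSt Rl 𝔗 𝔖 := G0.symm
  have hg : 𝔗.Gate pos h z τ s := pvlw_gate L.symm hT' hs' G0.gt (hK.trans hBK) hO.gate
  have hsp : 𝔗.StubP pos (pvwSq z (pvwRad N h τ τ.k)) s := pvlw_stubP L.symm hs' G0.toP hO.stub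
  have hsm : 𝔗.StubM pos (pvwSq z (pvwRad N h τ τ.k)) s := pvlw_stubM L.symm hs' G0.toM (hB.trans hBK) hI.stub
  have hP : PvslPos T' T (fun d' d => Rl d d') pos' pos Kr := ⟨L.symm.pos_eq, fun v hv => (L.symm.full v hv).1, fun v hv => (L.symm.full' v hv).1⟩
  have hp' : PvbpCirc T pos (𝔗.fzOut)ᶜ (τ.cp h z) rp Rp false s := by
    refine pvzy_circ L.symm.loc hP hT' hs' (pvps_circ_lt hT' hp) hBp ?_ hp
    intro v' v hv _ hn hmem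
    exact hn (((pvlw_fzOut L.symm.loc G0.toP).iff L.symm.loc hv).1 hmem)
  have hm' : PvbpCirc T pos (𝔗.fzIn)ᶜ (τ.cm h z) rm Rm false s := by
    refine pvzy_circ L.symm.loc hP hT' hs' (pvps_circ_lt hT' hm) hBm ?_ hm
    intro v' v hv _ hn hmem
    exact hn (((pvlw_fzIn L.symm.loc G0.toM).iff L.symm.loc hv).1 hmem)
  obtain ⟨i1, i2, i3, i4⟩ := pvpn_inner hg
  have hn : 𝔖.inn.n = 𝔗.inn.n := G.gt.inn.n_eq
  -- the vertices of the run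
  have hv : ∀ i, i ≤ 𝔗.inn.n → T.src (c.e (j + i)) = 𝔗.inn.v i := by
    intro i hi
    have h1 := G.gt.inn.v_rel i hi
    have h2 : pos (𝔗.inn.v i) = pos' (𝔖.inn.v i) := pvlw_pos L h1
    have h3 : pos (T.src (c.e (j + i))) = pos' (𝔖.inn.v i) := hrun i (hn ▸ hi)
    have h4 : pos (T.src (c.e (j + i))) ∈ Kr := by
      rw [h3, ← h2]
      exact hBK (hK (i4 i hi))
    obtain ⟨v', hv'⟩ := pvlw_vertex L h4
    have h5 : v' = 𝔖.inn.v i := hinj (by rw [← pvlw_pos L hv', h3])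
    rw [h5] at hv'
    exact pvloc_v_inj L.loc hv' h1
  have hcRim : PvzcRim 𝔗 pos s BK c j := by
    refine ⟨hrim, ?_, hfin, fun i hi => ?_, ⟨0, h0⟩⟩
    · rw [pl_rim_col hrim 0 (j + 0), hv 0 (Nat.zero_le _), i2]
      exact hg.bw_m.1
    · apply hS
      · rw [hv i hi.le, 𝔗.inn.src_e i hi]
      · rw [c.chain, 𝔗.inn.tgt_e i hi, ← hv (i + 1) hi]
        rfl
  have hcore : ∀ v ∈ 𝔗.core, ‖pos v - z‖ < τ.b * h := fun v hv => pvwk_core_lt hg hv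
  refine ⟨𝔗, G, pvsh_mouth hT hS hg hsp hsm hB (pvwk_ins_sub_core hg) (fun v hv => hK (mem_closedBall_iff_norm.2 (hcore v hv).le)) hcRim hfin
    (pvzw_circ_mono (min_le_left rp rm) hRp hp') (pvzw_circ_mono (min_le_right rp rm) hRm hm') (le_min hrp hrm) (fun v hv => hcp _ (hcore v hv)) (fun v hv => hcm _ (hcore v hv))⟩

end abs

/-! ## 2. the model -/

section model

variable {x z : ℂ} {R μ h rK : ℝ} {ω : PVSample} {P : PvbRim} {b : Bool} {τ : PvwTy} {N : PvwNum} {𝔖 : PvwSt (pvxT ω)} {j : ℕ}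

/-- **SHIELDS ON THE PLANE ⟹ STATE + ENCODED PIN**, geometric hypotheses -/
theorem pvps_at_pin0 (hR : 0 < R) (hG : DelGood (pvxY ω)) (hP : P ∈ pvhbAll x R ω) {BK : Set ℂ}
    (hK : Metric.closedBall z (τ.b * h) ⊆ BK) (hB : pvwSq z (pvwRad N h τ τ.k) ⊆ BK) (hBK : BK ⊆ Metric.ball x (4 * R))
    (hO : 𝔖.AtOut (pvxPos ω) N h z τ (pvxCol ω b)) (hI : 𝔖.AtIn (pvxPos ω) N h z τ (pvxCol ω b))
    (hjl : j + 𝔖.inn.n < P.len) (hrun : ∀ i, i ≤ 𝔖.inn.n → P.v (j + i) = pvxPos ω (𝔖.inn.v i))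
    {rp Rp rm Rm Rr : ℝ} (hp : PvbpCirc (pvxT ω) (pvxPos ω) (𝔖.fzOut)ᶜ (τ.cp h z) rp Rp false (pvxCol ω b)) (hm : PvbpCirc (pvxT ω) (pvxPos ω) (𝔖.fzIn)ᶜ (τ.cm h z) rm Rm false (pvxCol ω b))
    (hrp : 2 * N.rho * h ≤ rp) (hrm : 2 * N.rho * h ≤ rm) (hRp : Rp ≤ Rr) (hRm : Rm ≤ Rr)
    (hBp : Metric.ball (τ.cp h z) Rp ⊆ Metric.closedBall x (6 * R)) (hBm : Metric.ball (τ.cm h z) Rm ⊆ Metric.closedBall x (6 * R))
    (hcp : ∀ w : ℂ, ‖w - z‖ < τ.b * h → Rr ≤ ‖w - τ.cp h z‖) (hcm : ∀ w : ℂ, ‖w - z‖ < τ.b * h → Rr ≤ ‖w - τ.cm h z‖) :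
    𝔖.At (pvxPos ω) N h z τ (pvxCol ω b) ∧ PvxPinOf 𝔖 N h (τ.cp h z) (τ.cm h z) BK P j := by
  obtain ⟨X, iX, 𝔅, ξ, c, hA, hOk, hc, h4, rfl⟩ := pvpn_allA hP
  obtain ⟨Rl, L, hcol⟩ := pvpn_bulk (𝔅 := 𝔅) hR hG hOk ξ
  have hfD : Finite (𝔅.D (pvxY ω)) := hA.2
  have h0 : 𝔅.posF (pvxY ω) (x + 7 * R) ((𝔅.T (pvxY ω)).src (c.e 0)) ∉ BK := fun hm => by
    have := mem_ball_iff_norm.1 (hBK hm)
    linarith
  have hBK' : BK ⊆ Metric.closedBall x (6 * R) := hBK.trans (Metric.ball_subset_closedBall.trans (Metric.closedBall_subset_closedBall (by linarith)))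
  have hinj : Function.Injective (pvxPos ω) := Subtype.val_injective
  obtain ⟨𝔗, G, M⟩ := pvps_abs L hOk.sph hOk.simple (delb_plane_isSph hG) (hcol b) hinj hK hB hBK' hO hI (c := c) (j := j) ((pvlf_rim_fl b).2 hc) (Set.toFinite _) hrun h0
    hp hm hrp hrm hRp hRm hBp hBm hcp hcm
  obtain ⟨i1, -, -, i4⟩ := pvpn_inner hO.gate
  have hn : 𝔖.inn.n = 𝔗.inn.n := G.gt.inn.n_eq
  have hjc : j < c.n := lt_of_le_of_lt (Nat.le_add_right _ _) hjl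
  refine ⟨⟨hO, hI, fun v hv => ?_, fun v hv => ?_⟩, ?_⟩
  · obtain ⟨v0, h1, h2⟩ := (pvlw_fzIn L.loc G.toM).2 v hv
    rw [← pvlw_pos L h1]
    exact M.far_p v0 h2
  · obtain ⟨v0, h1, h2⟩ := (pvlw_fzOut L.loc G.toP).2 v hv
    rw [← pvlw_pos L h1]
    exact M.far_m v0 h2
  · have h5 := pvpn_pinOf L (P := 𝔅.enc (pvxY ω) (x + 7 * R) c) rfl (fun _ => rfl) G (hn ▸ i1) (fun i hi => by
      rw [pvlw_pos L (G.gt.inn.v_rel i hi)]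
      exact hK (i4 i (hn ▸ hi))) h0 M.pin
    rwa [Nat.mod_eq_of_lt hjc] at h5

/-- **(M) of 199**: `pvej_at_pin` of 152 with the two seals replaced by the two W-6 shields -/
theorem pvps_at_pin (hR : 0 < R) (hG : DelGood (pvxY ω)) (hF : L9Fine (pvxY ω) (Metric.closedBall x (6 * R)) μ) (hP : P ∈ pvhbAll x R ω) (hzx : ‖z - x‖ ≤ 3 * R)
    (hO : 𝔖.AtOut (pvxPos ω) N h z τ (pvxCol ω b)) (hI : 𝔖.AtIn (pvxPos ω) N h z τ (pvxCol ω b))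
    (hjl : j + 𝔖.inn.n < P.len) (hrun : ∀ i, i ≤ 𝔖.inn.n → P.v (j + i) = pvxPos ω (𝔖.inn.v i)) {Rm : ℝ}
    (hSp : ∃ r R', 2 * N.rho * h ≤ r ∧ R' ≤ Rm ∧ PvbpCirc (pvxT ω) (pvxPos ω) (𝔖.fzOut)ᶜ (τ.cp h z) r R' false (pvxCol ω b))
    (hSm : ∃ r R', 2 * N.rho * h ≤ r ∧ R' ≤ Rm ∧ PvbpCirc (pvxT ω) (pvxPos ω) (𝔖.fzIn)ᶜ (τ.cm h z) r R' false (pvxCol ω b))
    (hμ0 : 0 ≤ μ) (hρ0 : 0 ≤ N.rho * h) (hn1 : Rm + τ.b * h + μ + N.rho * h / 4 ≤ pvwRad N h τ τ.k) (hrr : pvwRad N h τ τ.k ≤ rK) (hrK : 2 * rK < R) :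
    𝔖.At (pvxPos ω) N h z τ (pvxCol ω b) ∧ PvxPinOf 𝔖 N h (τ.cp h z) (τ.cm h z) (pvwSq z rK) P j := by
  have hT : (pvxT ω).IsSph := delb_plane_isSph hG
  obtain ⟨rp, Rp, p1, p2, p3⟩ := hSp
  obtain ⟨rm, Rm', m1, m2, m3⟩ := hSm
  have hRm0 : 0 ≤ Rm := by
    have := pvps_circ_lt hT p3
    linarith
  set r := pvwRad N h τ τ.k with hr
  have hsub : pvwSq z rK ⊆ Metric.ball x (4 * R) := pvpn_sq_sub_ball hzx hrK
  have h6 : ∀ w ∈ pvwSq z r, w ∈ Metric.closedBall x (6 * R) := fun w hw =>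
    Metric.ball_subset_closedBall (Metric.ball_subset_ball (by linarith) (hsub (pvzm_sq_mono hrr hw)))
  have hμp : ‖pvxPos ω 𝔖.ap - pvxPos ω ((pvxT ω).src (𝔖.ep 𝔖.np))‖ ≤ μ :=
    (hF _ _ _ (delb_plane_face (Y := pvxY ω) (𝔖.ep 𝔖.np)) (Or.inl (h6 _ (hO.stub.ep_in _ le_rfl).1))).2.1
  have hμm : ‖pvxPos ω 𝔖.am - pvxPos ω ((pvxT ω).src (𝔖.em 𝔖.nm))‖ ≤ μ := by
    have h1 := delb_plane_face (Y := pvxY ω) ((pvxT ω).opp (𝔖.em 𝔖.nm))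
    have e : (delbPl (pvxY ω)).toMap.tgt ((pvxT ω).opp (𝔖.em 𝔖.nm)) = (pvxT ω).src (𝔖.em 𝔖.nm) := (pvxT ω).tgt_opp _
    rw [e] at h1
    exact (hF _ _ _ h1 (Or.inr (Or.inl (h6 _ (hI.stub.em_in _ le_rfl).1)))).2.2
  have hball : ∀ (p y : ℂ) (R' : ℝ), p ∈ pvwSq z r → ‖p - y‖ ≤ N.rho * h / 4 → R' ≤ Rm → Metric.ball y R' ⊆ Metric.closedBall x (6 * R) := by
    intro p y R' hp hy hR' w hw
    rw [mem_ball_iff_norm] at hw
    rw [mem_closedBall_iff_norm]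
    have h1 : ‖p - z‖ ≤ 2 * r := pvpn_sq_norm hp
    have e : w - x = (w - y) - (p - y) + (p - z) + (z - x) := by ring
    have a1 := norm_add_le ((w - y) - (p - y) + (p - z)) (z - x)
    have a2 := norm_add_le ((w - y) - (p - y)) (p - z)
    have a3 := norm_sub_le (w - y) (p - y)
    have hb0 : 0 ≤ τ.b * h := by
      have := (hO.gate.ann _ ⟨0, rfl⟩).2
      exact (norm_nonneg _).trans this.le
    rw [e]
    linarith
  have hb0 : 0 ≤ τ.b * h := (norm_nonneg _).trans (hO.gate.ann _ ⟨0, rfl⟩).2.le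
  exact pvps_at_pin0 hR hG hP (pvpn_ball_sub_sq z (by linarith)) (pvzm_sq_mono hrr) hsub hO hI hjl hrun p3 m3 p1 m1 p2 m2
    (hball _ _ _ (hO.stub.ep_in _ le_rfl).1 hO.good.tip_p.1 p2) (hball _ _ _ (hI.stub.em_in _ le_rfl).1 hI.good.tip_m.1 m2)
    (fun w hw => pvzm_disc_far hO.stub.ep_out hμp hO.good.tip_p.1 (by linarith) hw) (fun w hw => pvzm_disc_far hI.stub.em_out hμm hI.good.tip_m.1 (by linarith) hw)

/-- (M), the numbers in the form of 199 (`Rm + b h + μ + ρ h / 4 ≤ 2 b₂ h`) -/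
theorem pvps_at_pinM (hR : 0 < R) (hμ0 : 0 ≤ μ) (hG : DelGood (pvxY ω)) (hF : L9Fine (pvxY ω) (Metric.closedBall x (6 * R)) μ) (hP : P ∈ pvhbAll x R ω) (hzx : ‖z - x‖ ≤ 3 * R)
    (hO : 𝔖.AtOut (pvxPos ω) N h z τ (pvxCol ω b)) (hI : 𝔖.AtIn (pvxPos ω) N h z τ (pvxCol ω b))
    (hjl : j + 𝔖.inn.n < P.len) (hrun : ∀ i, i ≤ 𝔖.inn.n → P.v (j + i) = pvxPos ω (𝔖.inn.v i)) {Rm : ℝ}
    (hSp : ∃ r R', 2 * N.rho * h ≤ r ∧ R' ≤ Rm ∧ PvbpCirc (pvxT ω) (pvxPos ω) (𝔖.fzOut)ᶜ (τ.cp h z) r R' false (pvxCol ω b))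
    (hSm : ∃ r R', 2 * N.rho * h ≤ r ∧ R' ≤ Rm ∧ PvbpCirc (pvxT ω) (pvxPos ω) (𝔖.fzIn)ᶜ (τ.cm h z) r R' false (pvxCol ω b))
    (hh : 0 ≤ h) (hρ0 : 0 ≤ N.rho * h) (hρ1 : 0 ≤ N.rho1) (hn1 : Rm + τ.b * h + μ + N.rho * h / 4 ≤ 2 * τ.b2 * h) (hrr : pvwRad N h τ τ.k ≤ rK) (hrK : 2 * rK < R) :
    𝔖.At (pvxPos ω) N h z τ (pvxCol ω b) ∧ PvxPinOf 𝔖 N h (τ.cp h z) (τ.cm h z) (pvwSq z rK) P j := by
  refine pvps_at_pin hR hG hF hP hzx hO hI hjl hrun hSp hSm hμ0 hρ0 ?_ hrr hrK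
  have e : pvwRad N h τ τ.k = 2 * τ.b2 * h + (τ.k : ℝ) * N.rho1 * h := by unfold pvwRad; ring
  have : 0 ≤ (τ.k : ℝ) * N.rho1 * h := mul_nonneg (mul_nonneg (Nat.cast_nonneg _) hρ1) hh
  rw [e]
  linarith

end model

end Claimed.Agent.R289
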