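-- KEEP
import Claimed.Agent.R289.Tr.PlugFrc
import Claimed.Agent.R289.Tr.SoftAdm

/-!
# Row 289 (S0537), THE WALL, chapter E (cells), file Tr/PlugFrcS : **[FRC] WITH AUXILIARY REGION LANES**      (helper125, author of chapter E; prefix `pvkw_`, `Pvkw`; text `origin/helper125:notes/R289/FRC_125.md`)

WHY.   `PvcfOk` (52, `Tr/PlugFrc`) asks that the half lanes `𝔊.H i` OF THE DATUM be exact readers of (plug `∪` tile), jointly measurable, with up sections.      The half lanes of `Tr/PlugK` (34) are GRAPH events of the plane map of the whole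
configuration: measurable (engine of 173 / 107), but neither exact readers nor monotone.      A region form which is an exact reader needs a foot read from the plug region alone; a restricted configuration is never nice, so the foot can only be SOFT, and
joint measurability is out of reach.
CURE.   The datum keeps the graph form (`𝔊.H i`: only their propensities `pvpgThr` enter the kit: exact readers by definition).      The region lanes `Hr i` are an AUXILIARY object of the proof of `frc`: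
* `rHp rHm`   exact readers,   `uHp uHm`   up sections at a frozen locally finite state,   **`sHp sHm`   only the SECTIONS are measurable, on the locally finite configurations** (`PvfEv`);
* **`subp subm`**, a.e.:   plug `∩` graph lane `∩` mesh of the tile `⊆` region lane;
* **`det`**, a.e.:   plug `∩` exit plug `∩` 4 REGION lanes `∩` bars `∩` mesh `⊆ 𝔊.A τ`.
EXIT: **`pvkw_frc`** : `∀ᵐ σ, σ ∈ 𝔊.G2 (pvP ε) b τ → (b - err) ^ 4 * qb - err ≤ pvtiP (pvP ε) (𝔊.pre.OO 0 1 τ) (𝔊.A τ) σ`   = the field `frc` of `PvpgGlob.Ok`.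
-/

set_option autoImplicit false
set_option linter.unusedSectionVars false

namespace Claimed.Agent.R289

open MeasureTheory ProbabilityTheory Set Filter Topology
open scoped ENNReal NNReal

/-! ## 0. tools -/

/-- a conditional probability is at most the (outer) measure of the section -/
theorem pvkw_P_le (μ : Measure (Conf PvPt)) (O : Set PvPt) (σ : Conf PvPt) (𝒜 : Set (Conf PvPt)) : pvtiP μ O 𝒜 σ ≤ μ (pvhkSec O σ 𝒜) := by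
  unfold pvtiP
  have e : (fun η => 𝒜.indicator (1 : Conf PvPt → ℝ≥0∞) (Conf.spl O (σ, η))) = (pvhkSec O σ 𝒜).indicator 1 := by
    funext η
    by_cases hη : Conf.spl O (σ, η) ∈ 𝒜
    · rw [Set.indicator_of_mem hη, Set.indicator_of_mem (show η ∈ pvhkSec O σ 𝒜 from hη)]
      rfl
    · rw [Set.indicator_of_notMem hη, Set.indicator_of_notMem (show η ∉ pvhkSec O σ 𝒜 from hη)]
  rw [e]
  exact lintegral_indicator_one_le _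

/-- an event of conditional probability one holds for almost every completion -/
theorem pvkw_ae_of_sure {μ : Measure (Conf PvPt)} [IsProbabilityMeasure μ] {O : Set PvPt} (hO : MeasurableSet O) {𝒜 : Set (Conf PvPt)} (mA : MeasurableSet 𝒜) {σ : Conf PvPt}
    (h : pvtiP μ O 𝒜 σ = 1) : ∀ᵐ ξ ∂μ, Conf.spl O (σ, ξ) ∈ 𝒜 := by
  have h1 := pvsa_P_add_compl (μ := μ) hO mA σ
  rw [h] at h1
  have h2 : pvtiP μ O 𝒜ᶜ σ = 0 := by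
    have : (1 : ℝ≥0∞) + pvtiP μ O 𝒜ᶜ σ = 1 + 0 := by rw [h1, add_zero]
    exact (ENNReal.add_right_inj ENNReal.one_ne_top).1 this
  rw [pvhk_P_apply μ hO σ mA.compl] at h2
  have h3 : ∀ᵐ ξ ∂μ, ξ ∉ pvhkSec O σ 𝒜ᶜ := measure_eq_zero_iff_ae_notMem.1 h2
  filter_upwards [h3] with ξ hξ
  by_contra hc
  exact hξ hc

/-- covariance of a conditional probability given the plug region of the exit door -/
theorem pvkw_P_x (𝔊 : PvpgGlob) (ε : ℝ) (τ : PvtTurn) (S : Set (Conf PvPt)) (σ : Conf PvPt) :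
    pvtiP (pvP ε) (𝔊.Ox τ) (cfMap (pvthInv (𝔊.pre.zo 0 1 τ) τ.rot) ⁻¹' S) σ = pvtiP (pvP ε) (𝔊.pre.O 0 1) S (cfMap (pvthInv (𝔊.pre.zo 0 1 τ) τ.rot) σ) := by
  unfold PvpgGlob.Ox
  rw [pvth_O_place 𝔊.pre (𝔊.pre.zo 0 1 τ) τ.rot (pvt_rot_ne_zero τ)]
  exact congrFun (pvci_P_T (pvciAff τ.rot (𝔊.pre.zo 0 1 τ) (pvt_rot_ne_zero τ)) (pvci_law_frame (𝔊.pre.zo 0 1 τ) τ.rot (pvpk_rot_norm τ) ε) (𝔊.pre.O 0 1) S) σ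

/-! ## 1. the contract -/

/-- the region lane `i` placed at the exit door -/
noncomputable def pvkwHx (𝔊 : PvpgGlob) (Hr : Fin 4 → Set (Conf PvPt)) (τ : PvtTurn) (i : Fin 4) : Set (Conf PvPt) := cfMap (pvthInv (𝔊.pre.zo 0 1 τ) τ.rot) ⁻¹' Hr i

/-- **WHAT THE MODEL OWES FOR [FRC]**, region lanes `Hr` auxiliary.      Half lanes `0 1` = EXIT (`Hb⁺ Hw⁺`), `2 3` = ENTRANCE (`Hb⁻ Hw⁻`). -/
structure PvkwOk (𝔊 : PvpgGlob) (Br : PvcfBr) (Hr : Fin 4 → Set (Conf PvPt)) (ε r : ℝ) (qb err : ℝ≥0∞) : Prop where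
  ref : PvccKitRef 𝔊.pre r
  mO : MeasurableSet 𝔊.O₀
  /-- global measurability of the objects OF THE DATUM -/
  mC : MeasurableSet 𝔊.C
  mH : ∀ i, MeasurableSet (𝔊.H i)
  mA : ∀ τ, MeasurableSet (𝔊.A τ)
  /-- the region lanes: windows -/
  rHp : ∀ τ (i : Fin 4), (i : ℕ) < 2 → Conf.ReadsSet (𝔊.pre.O 0 1 ∪ 𝔊.pre.K 0 1 τ) (Hr i)
  rHm : ∀ τ (i : Fin 4), 2 ≤ (i : ℕ) → Conf.ReadsSet (𝔊.Ox τ ∪ 𝔊.pre.K 0 1 τ) (pvkwHx 𝔊 Hr τ i)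
  /-- the region lanes: ONLY THE SECTIONS at a frozen state are measurable, on the locally finite configurations -/
  sHp : ∀ (i : Fin 4), (i : ℕ) < 2 → ∀ σ, PvLF σ → PvfEv {η | PvLF η} (pvhkSec (𝔊.pre.O 0 1) σ (Hr i))
  sHm : ∀ τ (i : Fin 4), 2 ≤ (i : ℕ) → ∀ σ, PvLF σ → PvfEv {η | PvLF η} (pvhkSec (𝔊.Ox τ) σ (pvkwHx 𝔊 Hr τ i))
  /-- ONE mixed order per shape; only the SECTIONS at a frozen state have to be up -/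
  mKup : ∀ τ, MeasurableSet (Br.Kup τ)
  uHp : ∀ τ (i : Fin 4), (i : ℕ) < 2 → ∀ σ, PvLF σ → PvhkAUp (Br.Kup τ) (pvhkSec (𝔊.pre.O 0 1) σ (Hr i))
  uHm : ∀ τ (i : Fin 4), 2 ≤ (i : ℕ) → ∀ σ, PvLF σ → PvhkAUp (Br.Kup τ) (pvhkSec (𝔊.Ox τ) σ (pvkwHx 𝔊 Hr τ i))
  /-- the bars -/
  mBar : ∀ τ, ∀ A ∈ Br.Bar τ, MeasurableSet A
  rBar : ∀ τ, ∀ A ∈ Br.Bar τ, Conf.ReadsSet (𝔊.pre.K 0 1 τ) A
  uBar : ∀ τ, ∀ A ∈ Br.Bar τ, PvhkAUp (Br.Kup τ) A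
  /-- the mesh of the tile -/
  mM : ∀ τ, MeasurableSet (Br.M τ)
  rM : ∀ τ, Conf.ReadsSet (𝔊.pre.K 0 1 τ) (Br.M τ)
  /-- numbers -/
  bar : ∀ τ, qb ≤ ((Br.Bar τ).map fun A => pvP ε A).prod
  mesh : ∀ τ, pvP ε (Br.M τ)ᶜ ≤ err
  /-- **(SUB)**, almost everywhere: graph lane ⟹ region lane -/
  subp : ∀ τ (i : Fin 4), (i : ℕ) < 2 → ∀ᵐ η ∂(pvP ε), η ∈ 𝔊.C → η ∈ 𝔊.H i → η ∈ Br.M τ → η ∈ Hr i
  subm : ∀ τ (i : Fin 4), 2 ≤ (i : ℕ) → ∀ᵐ η ∂(pvP ε), η ∈ 𝔊.Cp (𝔊.pre.zo 0 1 τ) τ.rot → η ∈ 𝔊.Hx τ i → η ∈ Br.M τ → η ∈ pvkwHx 𝔊 Hr τ i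
  /-- **(DET)**, almost everywhere, with the REGION lanes -/
  det : ∀ τ, ∀ᵐ η ∂(pvP ε), η ∈ 𝔊.C → η ∈ 𝔊.Cp (𝔊.pre.zo 0 1 τ) τ.rot → η ∈ Hr 0 → η ∈ Hr 1 → η ∈ pvkwHx 𝔊 Hr τ 2 → η ∈ pvkwHx 𝔊 Hr τ 3 →
    (∀ A ∈ Br.Bar τ, η ∈ A) → η ∈ Br.M τ → η ∈ 𝔊.A τ

/-- the net of the bridge -/
noncomputable def pvkwNet (𝔊 : PvpgGlob) (Br : PvcfBr) (Hr : Fin 4 → Set (Conf PvPt)) (τ : PvtTurn) : List (Set (Conf PvPt)) :=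
  Hr 0 :: Hr 1 :: pvkwHx 𝔊 Hr τ 2 :: pvkwHx 𝔊 Hr τ 3 :: Br.Bar τ

theorem pvkw_eqns_cite : True := by
  have := @pvkwHx.eq_1; have := @pvkwNet.eq_1
  trivial

/-! ## 2. the propensities pass from the graph lanes to the region lanes -/

section thr

variable {𝔊 : PvpgGlob} {Br : PvcfBr} {Hr : Fin 4 → Set (Conf PvPt)} {ε r : ℝ} {qb err : ℝ≥0∞}

/-- the generic step: `C` sure, `b ≤ P(H | σ)`, `M` independent of the state, `C ∩ H ∩ M ⊆ H'` for almost every completion -/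
theorem pvkw_thr {O W : Set PvPt} (hO : MeasurableSet O) (hW : Disjoint W O) {C H M H' : Set (Conf PvPt)} (mC : MeasurableSet C) (mH : MeasurableSet H) (mM : MeasurableSet M)
    (rM : Conf.ReadsSet W M) (hM : pvP ε Mᶜ ≤ err) {b : ℝ≥0∞} {σ : Conf PvPt} (hC : pvtiP (pvP ε) O C σ = 1) (hb : b ≤ pvtiP (pvP ε) O H σ)
    (hs : ∀ᵐ ξ ∂(pvP ε), Conf.spl O (σ, ξ) ∈ C → Conf.spl O (σ, ξ) ∈ H → Conf.spl O (σ, ξ) ∈ M → Conf.spl O (σ, ξ) ∈ H') :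
    b - err ≤ pvtiP (pvP ε) O H' σ := by
  have := (pv_isPpp ε).prob
  have h1 := pvhk_P_split (pvP ε) hO σ mH mM
  have h2 : pvtiP (pvP ε) O Mᶜ σ ≤ err := by
    rw [pvhk_P_of_disjoint _ hW σ mM.compl rM.compl]
    exact hM
  have h3 : pvtiP (pvP ε) O (H ∩ M) σ ≤ pvtiP (pvP ε) O H' σ := by
    refine pvcf_P_mono_ae _ _ σ ?_
    filter_upwards [hs, pvkw_ae_of_sure hO mC hC] with ξ h4 h5 h6
    exact h4 h5 h6.1 h6.2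
  rw [tsub_le_iff_right]
  calc b ≤ _ := hb
    _ ≤ _ := h1
    _ ≤ _ := add_le_add h3 h2

end thr

/-! ## 3. the bridge -/

section bridge

variable {𝔊 : PvpgGlob} {Br : PvcfBr} {Hr : Fin 4 → Set (Conf PvPt)} {ε r : ℝ} {qb err : ℝ≥0∞}

/-- **the monotone part**, at a locally finite pair of states where the four REGION lanes have propensity `≥ b'` -/
theorem pvkw_net (H : PvkwOk 𝔊 Br Hr ε r qb err) (b' : ℝ≥0∞) (τ : PvtTurn) {σ : Conf PvPt} (hLF : PvLF σ)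
    (vp : ∀ i : Fin 4, (i : ℕ) < 2 → b' ≤ pvtiP (pvP ε) (𝔊.pre.O 0 1) (Hr i) σ)
    (vm : ∀ i : Fin 4, 2 ≤ (i : ℕ) → b' ≤ pvtiP (pvP ε) (𝔊.Ox τ) (pvkwHx 𝔊 Hr τ i) σ) :
    b' ^ 4 * qb - err ≤ pvP ε ({ξ | ∀ A ∈ pvkwNet 𝔊 Br Hr τ, ξ ∈ pvhkSec (𝔊.pre.OO 0 1 τ) σ A} ∩ pvhkSec (𝔊.pre.OO 0 1 τ) σ (Br.M τ)) := by
  have := (pv_isPpp ε).prob
  have hKd : Disjoint (𝔊.pre.K 0 1 τ) (𝔊.pre.OO 0 1 τ) := (pvcc_kit_cell H.ref τ).2.symm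
  have mO0 : MeasurableSet (𝔊.pre.O 0 1) := pvcf_mO H.mO 0 1 one_ne_zero
  have mOx : MeasurableSet (𝔊.Ox τ) := pvcf_mO H.mO _ _ (pvt_rot_ne_zero τ)
  have hOO : MeasurableSet (𝔊.pre.OO 0 1 τ) := by rw [pvcf_OO_eq]; exact mO0.union mOx
  have sub0 : 𝔊.pre.O 0 1 ⊆ 𝔊.pre.OO 0 1 τ := by rw [pvcf_OO_eq]; exact subset_union_left
  have subx : 𝔊.Ox τ ⊆ 𝔊.pre.OO 0 1 τ := by rw [pvcf_OO_eq]; exact subset_union_right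
  have lf0 : PvLF (Conf.restr (𝔊.pre.O 0 1) σ) := pvhk_restr_lf _ hLF
  have lfx : PvLF (Conf.restr (𝔊.Ox τ) σ) := pvhk_restr_lf _ hLF
  have ep : ∀ i : Fin 4, (i : ℕ) < 2 → pvhkSec (𝔊.pre.OO 0 1 τ) σ (Hr i) = pvhkSec (𝔊.pre.O 0 1) σ (Hr i) := fun i hi => pvpk_sec_change sub0 hKd σ (H.rHp τ i hi)
  have em : ∀ i : Fin 4, 2 ≤ (i : ℕ) → pvhkSec (𝔊.pre.OO 0 1 τ) σ (pvkwHx 𝔊 Hr τ i) = pvhkSec (𝔊.Ox τ) σ (pvkwHx 𝔊 Hr τ i) := fun i hi => pvpk_sec_change subx hKd σ (H.rHm τ i hi)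
  have evl : ∀ A ∈ pvkwNet 𝔊 Br Hr τ, PvfEv {η | PvLF η} (pvhkSec (𝔊.pre.OO 0 1 τ) σ A) := by
    intro A hA
    rcases List.mem_cons.1 hA with rfl | hA
    · rw [ep 0 (by norm_num)]; exact H.sHp 0 (by norm_num) σ hLF
    rcases List.mem_cons.1 hA with rfl | hA
    · rw [ep 1 (by norm_num)]; exact H.sHp 1 (by norm_num) σ hLF
    rcases List.mem_cons.1 hA with rfl | hA
    · rw [em 2 (by norm_num)]; exact H.sHm τ 2 (by norm_num) σ hLF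
    rcases List.mem_cons.1 hA with rfl | hA
    · rw [em 3 (by norm_num)]; exact H.sHm τ 3 (by norm_num) σ hLF
    · exact PvfEv.of_meas (pvhk_sec_meas hOO σ (H.mBar τ A hA))
  have ul : ∀ A ∈ pvkwNet 𝔊 Br Hr τ, PvhkAUp (Br.Kup τ) (pvhkSec (𝔊.pre.OO 0 1 τ) σ A) := by
    intro A hA
    rcases List.mem_cons.1 hA with rfl | hA
    · rw [ep 0 (by norm_num)]; exact H.uHp τ 0 (by norm_num) σ hLF
    rcases List.mem_cons.1 hA with rfl | hA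
    · rw [ep 1 (by norm_num)]; exact H.uHp τ 1 (by norm_num) σ hLF
    rcases List.mem_cons.1 hA with rfl | hA
    · rw [em 2 (by norm_num)]; exact H.uHm τ 2 (by norm_num) σ hLF
    rcases List.mem_cons.1 hA with rfl | hA
    · rw [em 3 (by norm_num)]; exact H.uHm τ 3 (by norm_num) σ hLF
    · exact pvhk_sec_aup _ _ hLF (H.uBar τ A hA)
  have s1 := (pvhk_ann_def ε (H.mKup τ)).up_list (pvkwNet 𝔊 Br Hr τ) (fun A => pvhkSec (𝔊.pre.OO 0 1 τ) σ A) evl ul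
  have wp : ∀ i : Fin 4, (i : ℕ) < 2 → b' ≤ pvP ε (pvhkSec (𝔊.pre.OO 0 1 τ) σ (Hr i)) := fun i hi => by
    rw [ep i hi]; exact (vp i hi).trans (pvkw_P_le _ _ _ _)
  have wm : ∀ i : Fin 4, 2 ≤ (i : ℕ) → b' ≤ pvP ε (pvhkSec (𝔊.pre.OO 0 1 τ) σ (pvkwHx 𝔊 Hr τ i)) := fun i hi => by
    rw [em i hi]; exact (vm i hi).trans (pvkw_P_le _ _ _ _)
  have v2 : ((Br.Bar τ).map fun A => pvP ε (pvhkSec (𝔊.pre.OO 0 1 τ) σ A)) = (Br.Bar τ).map fun A => pvP ε A :=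
    List.map_congr_left fun A hA => by
      rw [← pvhk_P_apply _ hOO σ (H.mBar τ A hA)]
      exact pvhk_P_of_disjoint _ hKd σ (H.mBar τ A hA) (H.rBar τ A hA)
  have s2 : b' ^ 4 * qb ≤ ((pvkwNet 𝔊 Br Hr τ).map fun A => pvP ε (pvhkSec (𝔊.pre.OO 0 1 τ) σ A)).prod := by
    unfold pvkwNet
    rw [List.map_cons, List.map_cons, List.map_cons, List.map_cons, List.prod_cons, List.prod_cons, List.prod_cons, List.prod_cons, v2]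
    have e : b' ^ 4 * qb = b' * (b' * (b' * (b' * qb))) := by ring
    rw [e]
    exact mul_le_mul' (wp 0 (by norm_num)) (mul_le_mul' (wp 1 (by norm_num)) (mul_le_mul' (wm 2 (by norm_num)) (mul_le_mul' (wm 3 (by norm_num)) (H.bar τ))))
  have s4 : pvP ε (pvhkSec (𝔊.pre.OO 0 1 τ) σ (Br.M τ))ᶜ ≤ err := by
    rw [← pvhk_sec_compl, ← pvhk_P_apply _ hOO σ (H.mM τ).compl, pvhk_P_of_disjoint _ hKd σ (H.mM τ).compl (H.rM τ).compl]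
    exact H.mesh τ
  have s3 : pvP ε {ξ | ∀ A ∈ pvkwNet 𝔊 Br Hr τ, ξ ∈ pvhkSec (𝔊.pre.OO 0 1 τ) σ A} ≤
      pvP ε ({ξ | ∀ A ∈ pvkwNet 𝔊 Br Hr τ, ξ ∈ pvhkSec (𝔊.pre.OO 0 1 τ) σ A} ∩ pvhkSec (𝔊.pre.OO 0 1 τ) σ (Br.M τ)) + pvP ε (pvhkSec (𝔊.pre.OO 0 1 τ) σ (Br.M τ))ᶜ := by
    refine le_trans (measure_mono ?_) (measure_union_le _ _)
    intro ξ hξ
    by_cases hE : ξ ∈ pvhkSec (𝔊.pre.OO 0 1 τ) σ (Br.M τ)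
    · exact Or.inl ⟨hξ, hE⟩
    · exact Or.inr hE
  rw [tsub_le_iff_right]
  calc b' ^ 4 * qb ≤ _ := s2
    _ ≤ _ := s1
    _ ≤ _ := s3
    _ ≤ _ := by gcongr

/-- **[FRC]** = the field `frc` of `PvpgGlob.Ok` with `q := (b - err) ^ 4 * qb - err` -/
theorem pvkw_frc (H : PvkwOk 𝔊 Br Hr ε r qb err) (b : ℝ≥0∞) (τ : PvtTurn) :
    ∀ᵐ σ ∂(pvP ε), σ ∈ 𝔊.G2 (pvP ε) b τ → (b - err) ^ 4 * qb - err ≤ pvtiP (pvP ε) (𝔊.pre.OO 0 1 τ) (𝔊.A τ) σ := by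
  have hp := pv_isPpp ε
  have := hp.prob
  have hKd : Disjoint (𝔊.pre.K 0 1 τ) (𝔊.pre.OO 0 1 τ) := (pvcc_kit_cell H.ref τ).2.symm
  have mO0 : MeasurableSet (𝔊.pre.O 0 1) := pvcf_mO H.mO 0 1 one_ne_zero
  have mOx : MeasurableSet (𝔊.Ox τ) := pvcf_mO H.mO _ _ (pvt_rot_ne_zero τ)
  have hOO : MeasurableSet (𝔊.pre.OO 0 1 τ) := by rw [pvcf_OO_eq]; exact mO0.union mOx
  have sub0 : 𝔊.pre.O 0 1 ⊆ 𝔊.pre.OO 0 1 τ := by rw [pvcf_OO_eq]; exact subset_union_left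
  have subx : 𝔊.Ox τ ⊆ 𝔊.pre.OO 0 1 τ := by rw [pvcf_OO_eq]; exact subset_union_right
  have hK0 : Disjoint (𝔊.pre.K 0 1 τ) (𝔊.pre.O 0 1) := hKd.mono_right sub0
  have hKx : Disjoint (𝔊.pre.K 0 1 τ) (𝔊.Ox τ) := hKd.mono_right subx
  have mCp : MeasurableSet (𝔊.Cp (𝔊.pre.zo 0 1 τ) τ.rot) := measurable_cfMap (pvth_measurable_inv _ _) H.mC
  have mHx : ∀ i, MeasurableSet (𝔊.Hx τ i) := fun i => measurable_cfMap (pvth_measurable_inv _ _) (H.mH i)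
  have a1 : ∀ᵐ η ∂(pvP ε), η ∈ pvpgSure (pvP ε) (𝔊.pre.O 0 1) 𝔊.C → η ∈ 𝔊.C := pvpg_sure_ae hp mO0 H.mC
  have a2 := pvcf_ae_frame (𝔊.pre.zo 0 1 τ) τ.rot (pvpk_rot_norm τ) a1
  have all : ∀ᵐ η ∂(pvP ε), (η ∈ pvpgSure (pvP ε) (𝔊.pre.O 0 1) 𝔊.C → η ∈ 𝔊.C) ∧
      (cfMap (pvthInv (𝔊.pre.zo 0 1 τ) τ.rot) η ∈ pvpgSure (pvP ε) (𝔊.pre.O 0 1) 𝔊.C → cfMap (pvthInv (𝔊.pre.zo 0 1 τ) τ.rot) η ∈ 𝔊.C) ∧
      (η ∈ 𝔊.C → η ∈ 𝔊.Cp (𝔊.pre.zo 0 1 τ) τ.rot → η ∈ Hr 0 → η ∈ Hr 1 → η ∈ pvkwHx 𝔊 Hr τ 2 → η ∈ pvkwHx 𝔊 Hr τ 3 → (∀ A ∈ Br.Bar τ, η ∈ A) → η ∈ Br.M τ → η ∈ 𝔊.A τ) := by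
    filter_upwards [a1, a2, H.det τ] with η b1 b2 b3
    exact ⟨b1, b2, b3⟩
  have sp : ∀ i : Fin 4, (i : ℕ) < 2 → ∀ᵐ σ ∂(pvP ε), ∀ᵐ ξ ∂(pvP ε), Conf.spl (𝔊.pre.O 0 1) (σ, ξ) ∈ 𝔊.C → Conf.spl (𝔊.pre.O 0 1) (σ, ξ) ∈ 𝔊.H i →
      Conf.spl (𝔊.pre.O 0 1) (σ, ξ) ∈ Br.M τ → Conf.spl (𝔊.pre.O 0 1) (σ, ξ) ∈ Hr i := fun i hi => hp.ae_ae_splice mO0 (H.subp τ i hi)
  have sm : ∀ i : Fin 4, 2 ≤ (i : ℕ) → ∀ᵐ σ ∂(pvP ε), ∀ᵐ ξ ∂(pvP ε), Conf.spl (𝔊.Ox τ) (σ, ξ) ∈ 𝔊.Cp (𝔊.pre.zo 0 1 τ) τ.rot → Conf.spl (𝔊.Ox τ) (σ, ξ) ∈ 𝔊.Hx τ i →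
      Conf.spl (𝔊.Ox τ) (σ, ξ) ∈ Br.M τ → Conf.spl (𝔊.Ox τ) (σ, ξ) ∈ pvkwHx 𝔊 Hr τ i := fun i hi => hp.ae_ae_splice mOx (H.subm τ i hi)
  filter_upwards [hp.ae_ae_splice hOO all, pvcn_LF_ae ε, sp 0 (by norm_num), sp 1 (by norm_num), sm 2 (by norm_num), sm 3 (by norm_num)] with σ hσ hLF p0 p1 p2 p3 hG2
  have vp : ∀ i : Fin 4, (i : ℕ) < 2 → b - err ≤ pvtiP (pvP ε) (𝔊.pre.O 0 1) (Hr i) σ := by
    intro i hi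
    have hs : ∀ᵐ ξ ∂(pvP ε), Conf.spl (𝔊.pre.O 0 1) (σ, ξ) ∈ 𝔊.C → Conf.spl (𝔊.pre.O 0 1) (σ, ξ) ∈ 𝔊.H i →
        Conf.spl (𝔊.pre.O 0 1) (σ, ξ) ∈ Br.M τ → Conf.spl (𝔊.pre.O 0 1) (σ, ξ) ∈ Hr i := by
      have h01 : i = 0 ∨ i = 1 := by
        rcases i with ⟨i, hi4⟩
        have : i = 0 ∨ i = 1 := by simp only at hi; omega
        rcases this with rfl | rfl
        · exact Or.inl rfl
        · exact Or.inr rfl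
      rcases h01 with rfl | rfl
      · exact p0
      · exact p1
    exact pvkw_thr mO0 hK0 H.mC (H.mH i) (H.mM τ) (H.rM τ) (H.mesh τ) hG2.1.1 (Set.mem_iInter.1 hG2.1.2 i) hs
  have vm : ∀ i : Fin 4, 2 ≤ (i : ℕ) → b - err ≤ pvtiP (pvP ε) (𝔊.Ox τ) (pvkwHx 𝔊 Hr τ i) σ := by
    intro i hi
    have hs : ∀ᵐ ξ ∂(pvP ε), Conf.spl (𝔊.Ox τ) (σ, ξ) ∈ 𝔊.Cp (𝔊.pre.zo 0 1 τ) τ.rot → Conf.spl (𝔊.Ox τ) (σ, ξ) ∈ 𝔊.Hx τ i →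
        Conf.spl (𝔊.Ox τ) (σ, ξ) ∈ Br.M τ → Conf.spl (𝔊.Ox τ) (σ, ξ) ∈ pvkwHx 𝔊 Hr τ i := by
      have h23 : i = 2 ∨ i = 3 := by
        rcases i with ⟨i, hi4⟩
        have : i = 2 ∨ i = 3 := by simp only at hi; omega
        rcases this with rfl | rfl
        · exact Or.inl rfl
        · exact Or.inr rfl
      rcases h23 with rfl | rfl
      · exact p2
      · exact p3
    have hC : pvtiP (pvP ε) (𝔊.Ox τ) (𝔊.Cp (𝔊.pre.zo 0 1 τ) τ.rot) σ = 1 := by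
      unfold PvpgGlob.Cp
      rw [pvkw_P_x]
      exact hG2.2.1
    have hb : b ≤ pvtiP (pvP ε) (𝔊.Ox τ) (𝔊.Hx τ i) σ := by
      rw [pvcf_P_Hx]
      exact Set.mem_iInter.1 hG2.2.2 i
    exact pvkw_thr mOx hKx mCp (mHx i) (H.mM τ) (H.rM τ) (H.mesh τ) hC hb hs
  refine (pvkw_net H (b - err) τ hLF vp vm).trans ?_
  rw [pvhk_P_apply _ hOO σ (H.mA τ)]
  refine measure_mono_ae ?_
  filter_upwards [hσ] with ξ hξ hnet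
  have hξ' : (Conf.spl (𝔊.pre.OO 0 1 τ) (σ, ξ) ∈ pvpgSure (pvP ε) (𝔊.pre.O 0 1) 𝔊.C → Conf.spl (𝔊.pre.OO 0 1 τ) (σ, ξ) ∈ 𝔊.C) ∧
      (cfMap (pvthInv (𝔊.pre.zo 0 1 τ) τ.rot) (Conf.spl (𝔊.pre.OO 0 1 τ) (σ, ξ)) ∈ pvpgSure (pvP ε) (𝔊.pre.O 0 1) 𝔊.C →
        cfMap (pvthInv (𝔊.pre.zo 0 1 τ) τ.rot) (Conf.spl (𝔊.pre.OO 0 1 τ) (σ, ξ)) ∈ 𝔊.C) ∧
      (Conf.spl (𝔊.pre.OO 0 1 τ) (σ, ξ) ∈ 𝔊.C → Conf.spl (𝔊.pre.OO 0 1 τ) (σ, ξ) ∈ 𝔊.Cp (𝔊.pre.zo 0 1 τ) τ.rot → Conf.spl (𝔊.pre.OO 0 1 τ) (σ, ξ) ∈ Hr 0 →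
        Conf.spl (𝔊.pre.OO 0 1 τ) (σ, ξ) ∈ Hr 1 → Conf.spl (𝔊.pre.OO 0 1 τ) (σ, ξ) ∈ pvkwHx 𝔊 Hr τ 2 → Conf.spl (𝔊.pre.OO 0 1 τ) (σ, ξ) ∈ pvkwHx 𝔊 Hr τ 3 →
        (∀ A ∈ Br.Bar τ, Conf.spl (𝔊.pre.OO 0 1 τ) (σ, ξ) ∈ A) → Conf.spl (𝔊.pre.OO 0 1 τ) (σ, ξ) ∈ Br.M τ → Conf.spl (𝔊.pre.OO 0 1 τ) (σ, ξ) ∈ 𝔊.A τ) := hξ
  obtain ⟨b1, b2, b3⟩ := hξ'
  have hg : Conf.spl (𝔊.pre.OO 0 1 τ) (σ, ξ) ∈ 𝔊.G2 (pvP ε) b τ := ((pvpg_rG2 (𝔊 := 𝔊) (b := b) (pvP ε) τ).spl_left (Set.Subset.refl _) σ ξ).mpr hG2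
  obtain ⟨hl, hM⟩ := hnet
  have m0 : Hr 0 ∈ pvkwNet 𝔊 Br Hr τ := List.mem_cons_self
  have m1 : Hr 1 ∈ pvkwNet 𝔊 Br Hr τ := List.mem_cons_of_mem _ List.mem_cons_self
  have m2 : pvkwHx 𝔊 Hr τ 2 ∈ pvkwNet 𝔊 Br Hr τ := List.mem_cons_of_mem _ (List.mem_cons_of_mem _ List.mem_cons_self)
  have m3 : pvkwHx 𝔊 Hr τ 3 ∈ pvkwNet 𝔊 Br Hr τ := List.mem_cons_of_mem _ (List.mem_cons_of_mem _ (List.mem_cons_of_mem _ List.mem_cons_self))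
  exact b3 (b1 hg.1.1) (b2 hg.2.1) (hl _ m0) (hl _ m1) (hl _ m2) (hl _ m3)
    (fun A hA => hl A (List.mem_cons_of_mem _ (List.mem_cons_of_mem _ (List.mem_cons_of_mem _ (List.mem_cons_of_mem _ hA))))) hM

end bridge

end Claimed.Agent.R289
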