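-- KEEP
import Claimed.Agent.R289.Arm.Bk

/-!
# Row 289 (S0537, Cardy for Poisson-Voronoi), THE WALL, TR22 (admission of the reference plug), file Tr/PlugP : THE PINCH INEQUALITY (P*)      (helper47, second of helper18; prefix `pvpq_`, `Pvpq`)

MODEL FREE, QUENCHED: fair bits `pvaP A ξ` (`Arm/Stop`, 128), BK in witness form `pvbk_bk_two` (`Arm/Bk`, 221), Harris `pva_fkg_P_neg`.      NO exploration, NO stopping set, NO fresh copy.

WHY.   The gate of the reference plug = two CUTS of the black lane (a top-bottom path of a column `Q'`, white but for ONE site) + two white WALLS.   A cut ends on the deterministic sides of its column at an unknown vertex,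
so a wall can only be attached to it by CROSSING it: the walls are long crossings of the top and bottom strips INSIDE the columns.   Then `Wall` is not independent of the event "no two disjoint black long crossings".
(P*) is the substitute:   `Wall` reads `Rw` and is monotone against the colour `c`;   the witnesses of `H` (the lane event of colour `c`) avoid `Rw`;   `C i` = a crossing of colour `c` of the column number `i`, FULL height (it may use `Rw`).   Then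
      `P(Wall ∧ H ∧ ∀ i, ¬ (H ∘ C i)) ≥ P(Wall) · P(H) · (1 - ∑ i, P(C i))`.
PROOF.   `P(Wall ∧ H) = P(Wall) P(H)` (disjoint supports).      `P(Wall ∧ H ∘ C i) = E[1_Wall P_{A \ Rw, ω}(H ∘ C i)] ≤ E[1_Wall P(H) P_{A \ Rw, ω}(C i)]` (BK for the fresh set `A \ Rw`, background `ω`)
`= P(H) P(Wall ∧ C i) ≤ P(H) P(Wall) P(C i)` (Harris, opposite monotonicity).

* sec. 1  `PvpqH c W ω` (some witness of the family `W` has the colour `c`), `PvpqHC c W W' ω` (two DISJOINT witnesses), monotonicity, dependence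
* sec. 2  `pvpq_cond` (BK under the conditioning on `Rw`), `pvpq_wall_box` (`P(Wall ∧ H ∘ C) ≤ P(H) P(Wall ∧ C)`)
* sec. 3  **`pvpq_main_abs`** (the negative correlation as a hypothesis), **`pvpq_main`** (black lanes, white walls), **`pvpq_main_white`**, `pvpq_main_le` (`P(C i) ≤ p`), **`pvpq_main_arm`** (`P(C i) ≤ (1-q)^m` from `m` independent blocking events per column: `pvbk_one_arm`)
-/

set_option autoImplicit false
set_option linter.unusedSectionVars false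

namespace Claimed.Agent.R289

open Finset

variable {V : Type} [DecidableEq V]

/-! ## 1. witness events -/

/-- some witness of the family `W` has the colour `c` -/
def PvpqH (c : Bool) (W : Finset V → Prop) (ω : V → Bool) : Prop := ∃ a, W a ∧ PvbkCol c ω a

/-- two DISJOINT witnesses of colour `c`, one of each family -/
def PvpqHC (c : Bool) (W W' : Finset V → Prop) (ω : V → Bool) : Prop := ∃ a b, W a ∧ W' b ∧ Disjoint a b ∧ PvbkCol c ω a ∧ PvbkCol c ω b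

theorem pvpq_eqns_cite : True := by
  have := @PvpqH.eq_1; have := @PvpqHC.eq_1
  trivial

theorem pvpq_HC_left {c : Bool} {W W' : Finset V → Prop} {ω : V → Bool} (h : PvpqHC c W W' ω) : PvpqH c W ω := by
  obtain ⟨a, _, ha, _, _, ca, _⟩ := h
  exact ⟨a, ha, ca⟩

theorem pvpq_HC_right {c : Bool} {W W' : Finset V → Prop} {ω : V → Bool} (h : PvpqHC c W W' ω) : PvpqH c W' ω := by
  obtain ⟨_, b, _, hb, _, _, cb⟩ := h
  exact ⟨b, hb, cb⟩

/-- a black witness event is increasing -/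
theorem pvpq_H_inc (A : Finset V) (ξ : V → Bool) (W : Finset V → Prop) : PvaIncP A ξ (PvpqH true W) := by
  rintro ω ω' _ _ h ⟨a, ha, ca⟩
  exact ⟨a, ha, fun v hv => h v (ca v hv)⟩

/-- a white witness event is decreasing -/
theorem pvpq_H_dec (A : Finset V) (ξ : V → Bool) (W : Finset V → Prop) : PvaDecP A ξ (PvpqH false W) := by
  rintro ω ω' _ _ h ⟨a, ha, ca⟩
  refine ⟨a, ha, fun v hv => ?_⟩
  by_contra hne
  have h1 : ω v = true := by simpa using hne
  have h2 := h v h1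
  rw [ca v hv] at h2
  exact Bool.false_ne_true h2

/-- a witness event whose witnesses avoid `Rw` does not read `Rw` -/
theorem pvpq_H_dep (c : Bool) (A Rw : Finset V) (ξ : V → Bool) {W : Finset V → Prop} (hW : ∀ a, W a → Disjoint a Rw) : PvaDep A (A \ Rw) ξ (PvpqH c W) := by
  have key : ∀ ω₁ ω₂ : V → Bool, PvaCfg A ξ ω₁ → PvaCfg A ξ ω₂ → (∀ v ∈ A \ Rw, ω₁ v = ω₂ v) → PvpqH c W ω₁ → PvpqH c W ω₂ := by
    rintro ω₁ ω₂ h1 h2 h ⟨a, ha, ca⟩
    refine ⟨a, ha, fun v hv => ?_⟩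
    rw [← ca v hv]
    by_cases hA : v ∈ A
    · exact (h v (mem_sdiff.2 ⟨hA, fun hr => disjoint_left.1 (hW a ha) hv hr⟩)).symm
    · rw [h1 v hA, h2 v hA]
  intro ω₁ ω₂ h1 h2 h
  exact propext ⟨key ω₁ ω₂ h1 h2 h, key ω₂ ω₁ h2 h1 fun v hv => (h v hv).symm⟩

/-! ## 2. BK under the conditioning on `Rw` -/

/-- `E[1_Wall 1_K] = E[1_Wall P_{A \ Rw, ω}(K)]` -/
theorem pvpq_cond {A Rw : Finset V} (ξ : V → Bool) {Wall : (V → Bool) → Prop} (hdep : PvaDep A Rw ξ Wall) (K : (V → Bool) → Prop) :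
    pvaP A ξ (fun ω => Wall ω ∧ K ω) = pvaE A ξ (fun ω => (open Classical in if Wall ω then (1 : ℝ) else 0) * pvaP (A \ Rw) ω K) := by
  classical
  rw [pva_P_and_eq]
  have hg : PvaDep A (A \ (A \ Rw)) ξ (fun ω => if Wall ω then (1 : ℝ) else 0) := by
    intro ω₁ ω₂ a1 a2 h
    refine pva_dep_ind hdep ω₁ ω₂ a1 a2 fun v hv => ?_
    by_cases hA : v ∈ A
    · exact h v (mem_sdiff.2 ⟨hA, fun h2 => (mem_sdiff.1 h2).2 hv⟩)
    · rw [a1 v hA, a2 v hA]
  exact pva_markov sdiff_subset ξ hg _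

/-- **`P(Wall ∧ H ∘ C) ≤ P(H) · P(Wall ∧ C)`** -/
theorem pvpq_wall_box (c : Bool) {A Rw : Finset V} (ξ : V → Bool) {Wall : (V → Bool) → Prop} (hdep : PvaDep A Rw ξ Wall)
    {WH : Finset V → Prop} (hWH : ∀ a, WH a → Disjoint a Rw) (WC : Finset V → Prop) :
    pvaP A ξ (fun ω => Wall ω ∧ PvpqHC c WH WC ω) ≤ pvaP A ξ (PvpqH c WH) * pvaP A ξ (fun ω => Wall ω ∧ PvpqH c WC ω) := by
  classical
  rw [pvpq_cond ξ hdep, pvpq_cond ξ hdep, ← pva_E_mul_left]
  refine pva_E_mono fun ω hω => ?_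
  have h1 : pvaP (A \ Rw) ω (PvpqHC c WH WC) ≤ pvaP (A \ Rw) ω (PvpqH c WH) * pvaP (A \ Rw) ω (PvpqH c WC) := pvbk_bk_two c (A \ Rw) ω WH WC
  have h2 : pvaP (A \ Rw) ω (PvpqH c WH) = pvaP A ξ (PvpqH c WH) := by
    unfold pvaP
    exact pva_E_dep sdiff_subset (pva_dep_ind (pvpq_H_dep c A Rw ξ hWH)) hω
  rw [h2] at h1
  by_cases hw : Wall ω
  · simp only [if_pos hw, one_mul]
    exact h1
  · simp only [if_neg hw, zero_mul, mul_zero, le_refl]

/-! ## 3. the pinch inequality -/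

/-- **(P\*)**, abstract form: the negative correlation of the wall and of the crossings is a hypothesis -/
theorem pvpq_main_abs (c : Bool) {A Rw : Finset V} (ξ : V → Bool) {Wall : (V → Bool) → Prop} (hdep : PvaDep A Rw ξ Wall)
    {WH : Finset V → Prop} (hWH : ∀ a, WH a → Disjoint a Rw) {ι : Type} (I : Finset ι) (WC : ι → Finset V → Prop)
    (hneg : ∀ i ∈ I, pvaP A ξ (fun ω => Wall ω ∧ PvpqH c (WC i) ω) ≤ pvaP A ξ Wall * pvaP A ξ (PvpqH c (WC i))) :
    pvaP A ξ Wall * pvaP A ξ (PvpqH c WH) * (1 - ∑ i ∈ I, pvaP A ξ (PvpqH c (WC i))) ≤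
      pvaP A ξ (fun ω => Wall ω ∧ PvpqH c WH ω ∧ ∀ i ∈ I, ¬ PvpqHC c WH (WC i) ω) := by
  classical
  -- independence
  have hind : pvaP A ξ (fun ω => Wall ω ∧ PvpqH c WH ω) = pvaP A ξ Wall * pvaP A ξ (PvpqH c WH) := by
    rw [pva_P_and_eq]
    exact pva_E_mul sdiff_subset disjoint_sdiff (pva_dep_ind hdep) (pva_dep_ind (pvpq_H_dep c A Rw ξ hWH))
  -- union bound
  have hun : pvaP A ξ (fun ω => Wall ω ∧ PvpqH c WH ω) ≤
      pvaP A ξ (fun ω => Wall ω ∧ PvpqH c WH ω ∧ ∀ i ∈ I, ¬ PvpqHC c WH (WC i) ω) + ∑ i ∈ I, pvaP A ξ (fun ω => Wall ω ∧ PvpqHC c WH (WC i) ω) := by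
    have h1 : pvaP A ξ (fun ω => Wall ω ∧ PvpqH c WH ω) ≤
        pvaP A ξ (fun ω => (Wall ω ∧ PvpqH c WH ω ∧ ∀ i ∈ I, ¬ PvpqHC c WH (WC i) ω) ∨ ∃ i ∈ I, Wall ω ∧ PvpqHC c WH (WC i) ω) := by
      refine pva_P_mono fun ω _ h => ?_
      by_cases hx : ∃ i ∈ I, PvpqHC c WH (WC i) ω
      · obtain ⟨i, hi, hc⟩ := hx
        exact Or.inr ⟨i, hi, h.1, hc⟩
      · push Not at hx
        exact Or.inl ⟨h.1, h.2, hx⟩
    refine h1.trans ((pva_P_or_le A ξ _ _).trans ?_)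
    gcongr
    exact pva_P_exists_le A ξ I _
  have hsum : ∑ i ∈ I, pvaP A ξ (fun ω => Wall ω ∧ PvpqHC c WH (WC i) ω) ≤ ∑ i ∈ I, pvaP A ξ Wall * pvaP A ξ (PvpqH c WH) * pvaP A ξ (PvpqH c (WC i)) := by
    refine sum_le_sum fun i hi => ?_
    calc pvaP A ξ (fun ω => Wall ω ∧ PvpqHC c WH (WC i) ω) ≤ pvaP A ξ (PvpqH c WH) * pvaP A ξ (fun ω => Wall ω ∧ PvpqH c (WC i) ω) :=
          pvpq_wall_box c ξ hdep hWH (WC i)
      _ ≤ pvaP A ξ (PvpqH c WH) * (pvaP A ξ Wall * pvaP A ξ (PvpqH c (WC i))) := mul_le_mul_of_nonneg_left (hneg i hi) (pva_P_nonneg _ _ _)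
      _ = pvaP A ξ Wall * pvaP A ξ (PvpqH c WH) * pvaP A ξ (PvpqH c (WC i)) := by ring
  rw [← mul_sum] at hsum
  rw [hind] at hun
  linarith

/-- **(P\*)**: BLACK lanes, walls decreasing in black -/
theorem pvpq_main {A Rw : Finset V} (ξ : V → Bool) {Wall : (V → Bool) → Prop} (hdep : PvaDep A Rw ξ Wall) (hdec : PvaDecP A ξ Wall)
    {WH : Finset V → Prop} (hWH : ∀ a, WH a → Disjoint a Rw) {ι : Type} (I : Finset ι) (WC : ι → Finset V → Prop) :
    pvaP A ξ Wall * pvaP A ξ (PvpqH true WH) * (1 - ∑ i ∈ I, pvaP A ξ (PvpqH true (WC i))) ≤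
      pvaP A ξ (fun ω => Wall ω ∧ PvpqH true WH ω ∧ ∀ i ∈ I, ¬ PvpqHC true WH (WC i) ω) := by
  refine pvpq_main_abs true ξ hdep hWH I WC fun i _ => ?_
  have h := pva_fkg_P_neg (pvpq_H_inc A ξ (WC i)) hdec
  rw [mul_comm] at h
  refine le_trans (le_of_eq ?_) h
  exact pva_P_congr fun ω _ => and_comm

/-- **(P\*)**: WHITE lanes, walls increasing in black -/
theorem pvpq_main_white {A Rw : Finset V} (ξ : V → Bool) {Wall : (V → Bool) → Prop} (hdep : PvaDep A Rw ξ Wall) (hinc : PvaIncP A ξ Wall)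
    {WH : Finset V → Prop} (hWH : ∀ a, WH a → Disjoint a Rw) {ι : Type} (I : Finset ι) (WC : ι → Finset V → Prop) :
    pvaP A ξ Wall * pvaP A ξ (PvpqH false WH) * (1 - ∑ i ∈ I, pvaP A ξ (PvpqH false (WC i))) ≤
      pvaP A ξ (fun ω => Wall ω ∧ PvpqH false WH ω ∧ ∀ i ∈ I, ¬ PvpqHC false WH (WC i) ω) :=
  pvpq_main_abs false ξ hdep hWH I WC fun i _ => pva_fkg_P_neg hinc (pvpq_H_dec A ξ (WC i))

/-- (P\*) with a uniform bound `p` on the crossing probabilities of the columns -/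
theorem pvpq_main_le {A Rw : Finset V} (ξ : V → Bool) {Wall : (V → Bool) → Prop} (hdep : PvaDep A Rw ξ Wall) (hdec : PvaDecP A ξ Wall)
    {WH : Finset V → Prop} (hWH : ∀ a, WH a → Disjoint a Rw) {ι : Type} (I : Finset ι) (WC : ι → Finset V → Prop) {p : ℝ}
    (hp : ∀ i ∈ I, pvaP A ξ (PvpqH true (WC i)) ≤ p) :
    pvaP A ξ Wall * pvaP A ξ (PvpqH true WH) * (1 - I.card * p) ≤
      pvaP A ξ (fun ω => Wall ω ∧ PvpqH true WH ω ∧ ∀ i ∈ I, ¬ PvpqHC true WH (WC i) ω) := by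
  refine le_trans ?_ (pvpq_main ξ hdep hdec hWH I WC)
  refine mul_le_mul_of_nonneg_left ?_ (mul_nonneg (pva_P_nonneg _ _ _) (pva_P_nonneg _ _ _))
  have h := sum_le_sum hp
  rw [sum_const, nsmul_eq_mul] at h
  linarith

/-- **(P\*) WITH BLOCKING EVENTS**: every column `i` carries `m` blocking events `B i j` (they read pairwise disjoint `R i j ⊆ A`, have probability `≥ q`, and each of them excludes every black crossing of the column) -/
theorem pvpq_main_arm {A Rw : Finset V} (ξ : V → Bool) {Wall : (V → Bool) → Prop} (hdep : PvaDep A Rw ξ Wall) (hdec : PvaDecP A ξ Wall)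
    {WH : Finset V → Prop} (hWH : ∀ a, WH a → Disjoint a Rw) {ι : Type} (I : Finset ι) (WC : ι → Finset V → Prop)
    (m : ℕ) (q : ℝ) (R : ι → ℕ → Finset V) (B : ι → ℕ → (V → Bool) → Prop)
    (hR : ∀ i ∈ I, ∀ j < m, R i j ⊆ A) (hd : ∀ i ∈ I, ∀ j < m, ∀ j' < m, j ≠ j' → Disjoint (R i j) (R i j'))
    (hB : ∀ i ∈ I, ∀ j < m, PvaDep A (R i j) ξ (B i j)) (hq : ∀ i ∈ I, ∀ j < m, q ≤ pvaP A ξ (B i j))
    (hex : ∀ i ∈ I, ∀ ω, PvaCfg A ξ ω → PvpqH true (WC i) ω → ∀ j < m, ¬ B i j ω) :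
    pvaP A ξ Wall * pvaP A ξ (PvpqH true WH) * (1 - I.card * (1 - q) ^ m) ≤
      pvaP A ξ (fun ω => Wall ω ∧ PvpqH true WH ω ∧ ∀ i ∈ I, ¬ PvpqHC true WH (WC i) ω) :=
  pvpq_main_le ξ hdep hdec hWH I WC fun i hi => pvbk_one_arm A ξ m (R i) (B i) q (hR i hi) (hd i hi) (hB i hi) (hq i hi) (hex i hi)

end Claimed.Agent.R289
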