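import Claimed.Agent.R289.Tr.BlindP
import Claimed.Agent.R289.Tr.PlainR
import Claimed.Agent.R289.Tr.JenE
import Claimed.Agent.R289.Exit.N1
import Claimed.Agent.R289.Exit.N1YD
import Claimed.Agent.R289.Exit.N1K

/-!
# Row 289 (S0537), THE WALL, ROAD E, file Tr/Pocket : (POCKET) OF RULING N1-A (4) OF 170, THE DETERMINISTIC DEBT      (helper158; prefix `pvpx_`, `pvpx`, `Pvpx`)

WHY.   The big experiment of N1' recolours `i.Nᶜ`; `i.N` contains fresh sites over the mouths (POCKETS: fresh sites over `Yin` which are not joined to a tip apex / to the lanes).   The clause `enl` (218 `Tr/Irr` sec. 8: `pvkyr_end_pk`, `PvkyChain.pvkyr_jb`)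
asks `PvbqPlain C Wn p M F Y Fz y₀ σ` at `y₀ := (mouth \ Fz) \ i.N`: THE PLAIN LINK DOES NOT READ THE POCKETS.      `Tr/BlindL`, `Tr/BlindP` (197) give it at `y₀ = mouth \ Fz` (set read: the WHOLE room).
* sec. 1  THE FINER SET READ, FOR FREE: `L.pvpxRm R` (the link with another room), `pvpxRun L N b ζ` = the ends of the NEW positions of the run of `L` in `ζ`;   `ζ ∈ L.A` ⟹ `ζ ∈ (L.pvpxRm (pvpxRun ..)).A`, so `pvbw_plain` of 197 AT THE SMALLER ROOM gives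
          **`pvpx_plain`** : `ζ'` = `ζ` recoloured off (what the two ends read) `∪ pvpxRun L N b ζ` ⟹ same success, same value, same base data.
* sec. 2  at the data of record: `pvpxSo`, `pvpxSi`, **`pvpx_Mo`**, **`pvpx_Mi`**;   **`pvpx_pl_o`**, **`pvpx_pl_i`** : `PvbqPlain` at ANY `y₁` from (FZ) [197, proved] + (POCKET-DET): a kept end of a new position of the run lies in `Fz ∪ y₁`.
* sec. 3  THE TWO CONTRACTS **`PvpxDetO`** (END o: 120, `Tr/PocketD`), **`PvpxDetI`** (END i: 49, `Tr/PocketI`): at a present datum of index `i`, a kept end of a new position of the run of a plain success of the completion is a frozen position of the own half state of the base or it is NOT in `i.N`.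
* sec. 5  THE GATE DISC IS DEEP IN THE WINDOW (binder `hdisc` of `pvpd_pl_o_top _i_top` of 120; NOT a region line: the hull is made of the cells of the FROZEN SITES): `pvpx_disc` (generic), **`pvpx_disc_o`**, **`pvpx_disc_i`** from the mesh off `C` of layer 1 (`Pvn1kMesh` of 170).
* sec. 4  THE ROOF, generic engine: **`pvpx_top`** : `PvpxDetO → PvpxDetI →` the body of `PvkynPl 𝔓 𝔈 m π 𝔎 ε` of 218 (`Exit/N1YBs`);   inside: (FZ) of 255 (`pvkfp_FZ_o _i`), door disc `⊆ C`, room `\ C ⊆` mouth (`oY_sub iY_sub` of `PvieEng.Wf`).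
-/

set_option autoImplicit false
set_option linter.unusedSectionVars false

namespace Claimed.Agent.R289

open Set Claims.C0465

/-! ## 1. the finer set read -/

/-- the link `L` with the room `R` -/
def PvilLk.pvpxRm (L : PvilLk) (R : Set ℂ) : PvilLk := { L with Yin := R }

/-- **the ends of the NEW positions of the run of `L` in `ζ`** (between the two stubs) -/
def pvpxRun (L : PvilLk) (N : PvwNum) (b : Bool) (ζ : Conf PvPt) : Set ℂ :=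
  {v | ∃ (𝔖 𝔖' : PvwSt (pvieT ζ)) (y : (pvieT ζ).Pth) (n i : ℕ), L.Arc N b ζ 𝔖 𝔖' y ∧ L.Run b ζ 𝔖 𝔖' n ∧ 𝔖.np < i ∧ i + 𝔖'.nm < n ∧
    (v = pviePos ζ ((pvieT ζ).src (pvasIt (pvieT ζ) (pvieCol ζ b) 𝔖.dp i)) ∨ v = pviePos ζ ((pvieT ζ).tgt (pvasIt (pvieT ζ) (pvieCol ζ b) 𝔖.dp i)))}

theorem pvpx_eqns_cite : True := by
  have := @PvilLk.pvpxRm.eq_1; have := @pvpxRun.eq_1
  trivial

section room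

variable {L : PvilLk} {N : PvwNum} {b : Bool} {η ζ ζ' : Conf PvPt} {R : Set ℂ}

theorem pvpx_run_sub : pvpxRun L N b ζ ⊆ L.Yin := by
  rintro v ⟨𝔖, 𝔖', y, n, i, -, hr, h1, h2, rfl | rfl⟩
  · exact (hr.2.2.2 i h1 h2).1
  · exact (hr.2.2.2 i h1 h2).2

theorem pvpx_run_sites : pvpxRun L N b ζ ⊆ cfSites ζ := by
  rintro v ⟨𝔖, 𝔖', y, n, i, -, -, -, -, rfl | rfl⟩
  · exact Subtype.coe_prop _
  · exact Subtype.coe_prop _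

/-- a smaller room: the success is stronger -/
theorem pvpx_arc_mono (hR : R ⊆ L.Yin) {𝔖 𝔖' : PvwSt (pvieT η)} {y : (pvieT η).Pth} (h : (L.pvpxRm R).Arc N b η 𝔖 𝔖' y) : L.Arc N b η 𝔖 𝔖' y := by
  obtain ⟨n, hr, hle⟩ := h.run
  exact ⟨h.at_p, h.at_p', n, ⟨hr.1, hr.2.1, hr.2.2.1, fun i h1 h2 => ⟨hR (hr.2.2.2 i h1 h2).1, hR (hr.2.2.2 i h1 h2).2⟩⟩, hle⟩

/-- the link succeeds in the room of its own run -/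
theorem pvpx_arc_rm {𝔖 𝔖' : PvwSt (pvieT ζ)} {y : (pvieT ζ).Pth} (h : L.Arc N b ζ 𝔖 𝔖' y) : (L.pvpxRm (pvpxRun L N b ζ)).Arc N b ζ 𝔖 𝔖' y := by
  obtain ⟨n, hr, hle⟩ := h.run
  exact ⟨h.at_p, h.at_p', n, ⟨hr.1, hr.2.1, hr.2.2.1, fun i h1 h2 => ⟨⟨𝔖, 𝔖', y, n, i, h, hr, h1, h2, Or.inl rfl⟩, ⟨𝔖, 𝔖', y, n, i, h, hr, h1, h2, Or.inr rfl⟩⟩⟩, hle⟩

/-- the value does not see the room -/
theorem pvpx_X_rm (hfr : L.dr = false → L.p.fr ≠ 0) (hfr' : L.dr' = false → L.p'.fr ≠ 0) (hR : R ⊆ L.Yin) (h : η ∈ (L.pvpxRm R).A N b) (w : ∀ η : Conf PvPt, (delbPl (pvieY η)).Dart → ℂ) :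
    (L.pvpxRm R).X N b w η = L.X N b w η := by
  obtain ⟨𝔖, 𝔖', y, h⟩ := h
  rw [pvbw_X (L := L.pvpxRm R) hfr hfr' h w, pvbw_X hfr hfr' (pvpx_arc_mono hR h) w]
  rfl

/-- **PLAIN COLOUR BLINDNESS OF A LINK, FINER SET READ**: `ζ'` has the sites of `ζ` and the colours of `ζ` at what the two ends read and at the ends of the new positions of the run -/
theorem pvpx_plain (hfr : L.dr = false → L.p.fr ≠ 0) (hfr' : L.dr' = false → L.p'.fr ≠ 0) (W : ∀ Y : Set ℂ, (delbPl Y).Dart → ℂ) (hS : cfSites ζ' = cfSites ζ)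
    (hc : ∀ v ∈ cfSites ζ, v ∈ pvbwRo L N b ζ ∪ pvbwRi L N b ζ ∪ pvpxRun L N b ζ → cfCol ζ' v = cfCol ζ v) (hζ : ζ ∈ L.A N b) :
    ζ' ∈ L.A N b ∧ L.X N b (fun η => W (cfSites η)) ζ' = L.X N b (fun η => W (cfSites η)) ζ ∧
      (L.dr = false → pvilFzO N b L.p ζ' = pvilFzO N b L.p ζ ∧ ∀ δ r, pvilHuO δ r N b L.p ζ' = pvilHuO δ r N b L.p ζ) ∧
      (L.dr' = false → pvilFzI N b L.p' ζ' = pvilFzI N b L.p' ζ ∧ ∀ δ r, pvilHuI δ r N b L.p' ζ' = pvilHuI δ r N b L.p' ζ) := by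
  obtain ⟨𝔖, 𝔖', y, h⟩ := hζ
  have h0 : ζ ∈ (L.pvpxRm (pvpxRun L N b ζ)).A N b := ⟨𝔖, 𝔖', y, pvpx_arc_rm h⟩
  obtain ⟨a1, a2, a3, a4, -⟩ := pvbw_plain (L := L.pvpxRm (pvpxRun L N b ζ)) hfr hfr' W hS hc h0
  obtain ⟨𝔗, 𝔗', y', h'⟩ := a1
  refine ⟨⟨𝔗, 𝔗', y', pvpx_arc_mono pvpx_run_sub h'⟩, ?_, a3, a4⟩
  exact ((pvpx_X_rm hfr hfr' pvpx_run_sub ⟨𝔗, 𝔗', y', h'⟩ _).symm.trans a2).trans (pvpx_X_rm hfr hfr' pvpx_run_sub h0 _)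

end room

/-! ## 2. at the data of record -/

section record

variable {τ : Type} {c : ℝ} (𝔓 : PvxPar τ c) (𝔈 : PvieEng τ)

/-- **what the first link `t → door` reads, finer**: frozen positions of `Σ_out(z,t)`, the door, the ends of the new positions of its run -/
noncomputable def pvpxSo (m : ℕ) (z : ℂ) (t : τ) (ζ : Conf PvPt) : Set ℂ :=
  pvilFo 𝔓 m z t ζ ∪ pvbwDk (pvilPlug (pvilRd 𝔓 m) (pvieZo 𝔓 m z t) ((𝔓.Γ m).dout t)) ∪ pvpxRun (pvilLo 𝔓 𝔈 m z t) 𝔓.num (𝔓.col t) ζ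
/-- **what the last link `door → t` reads, finer** -/
noncomputable def pvpxSi (m : ℕ) (z : ℂ) (t : τ) (ζ : Conf PvPt) : Set ℂ :=
  pvbwDk (pvilPlug (pvilRd 𝔓 m) (pvieZi 𝔓 m z t) ((𝔓.Γ m).din t)) ∪ pvilFi 𝔓 m z t ζ ∪ pvpxRun (pvilLi 𝔓 𝔈 m z t) 𝔓.num (𝔓.col t) ζ

theorem pvpx_eqns_cite2 : True := by
  have := @pvpxSo.eq_1; have := @pvpxSi.eq_1
  trivial

variable {𝔓 𝔈} {ζ ζ' : Conf PvPt} {m : ℕ} {ε : ℝ} {z : ℂ} {t : τ} {Z : Set (ℤ × ℤ)}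

/-- **the first link, finer set read** -/
theorem pvpx_Mo (W : ∀ Y : Set ℂ, (delbPl Y).Dart → ℂ) (hS : cfSites ζ' = cfSites ζ) (hc : ∀ v ∈ cfSites ζ, v ∈ pvpxSo 𝔓 𝔈 m z t ζ → cfCol ζ' v = cfCol ζ v) (hζ : ζ ∈ pvilMo 𝔓 𝔈 m ε z t Z) :
    ζ' ∈ pvilMo 𝔓 𝔈 m ε z t Z ∧ (pvilLo 𝔓 𝔈 m z t).X 𝔓.num (𝔓.col t) (fun η => W (cfSites η)) ζ' = (pvilLo 𝔓 𝔈 m z t).X 𝔓.num (𝔓.col t) (fun η => W (cfSites η)) ζ := by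
  obtain ⟨⟨h1, h2⟩, h3⟩ := hζ
  obtain ⟨a1, a2, a3, -⟩ := pvpx_plain (L := pvilLo 𝔓 𝔈 m z t) (fun _ => one_ne_zero) (fun h => absurd (show true = false from h) (by decide)) W hS hc h1
  exact ⟨⟨⟨a1, ((a3 rfl).2 _ _).trans h2⟩, pvbw_Ms hS h3⟩, a2⟩

/-- **the last link, finer set read** -/
theorem pvpx_Mi (W : ∀ Y : Set ℂ, (delbPl Y).Dart → ℂ) (hS : cfSites ζ' = cfSites ζ) (hc : ∀ v ∈ cfSites ζ, v ∈ pvpxSi 𝔓 𝔈 m z t ζ → cfCol ζ' v = cfCol ζ v) (hζ : ζ ∈ pvilMi 𝔓 𝔈 m ε z t Z) :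
    ζ' ∈ pvilMi 𝔓 𝔈 m ε z t Z ∧ (pvilLi 𝔓 𝔈 m z t).X 𝔓.num (𝔓.col t) (fun η => W (cfSites η)) ζ' = (pvilLi 𝔓 𝔈 m z t).X 𝔓.num (𝔓.col t) (fun η => W (cfSites η)) ζ := by
  obtain ⟨⟨h1, h2⟩, h3⟩ := hζ
  obtain ⟨a1, a2, -, a4⟩ := pvpx_plain (L := pvilLi 𝔓 𝔈 m z t) (fun h => absurd (show true = false from h) (by decide)) (fun _ => one_ne_zero) W hS hc h1
  exact ⟨⟨⟨a1, ((a4 rfl).2 _ _).trans h2⟩, pvbw_Ms hS h3⟩, a2⟩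

variable {C Wn Y Fz y₁ : Set ℂ} {p : Conf PvPt → Prop} {σ : ℂ → Bool}

/-- **`PvbqPlain` OF THE FIRST LINK AT ANY FRESH SET `y₁`** from (door ⊆ `C`), (FZ) and (POCKET-DET) -/
theorem pvpx_pl_o (W : ∀ Y : Set ℂ, (delbPl Y).Dart → ℂ) (hD : pvbwDk (pvilPlug (pvilRd 𝔓 m) (pvieZo 𝔓 m z t) ((𝔓.Γ m).dout t)) ⊆ C)
    (hF : ∀ τ' : ℂ → Bool, (∀ v ∈ Y, v ∈ Fz → τ' v = σ v) → ∀ ω₂ ξ : Conf PvPt, p (pvbqZ C Wn Y τ' ω₂ ξ) → pvbqZ C Wn Y τ' ω₂ ξ ∈ pvilMo 𝔓 𝔈 m ε z t Z →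
      ∀ v ∈ pvilFo 𝔓 m z t (pvbqZ C Wn Y τ' ω₂ ξ), v ∈ Y → v ∈ Wn → v ∉ C → v ∈ Fz ∪ y₁)
    (hR : ∀ τ' : ℂ → Bool, (∀ v ∈ Y, v ∈ Fz → τ' v = σ v) → ∀ ω₂ ξ : Conf PvPt, p (pvbqZ C Wn Y τ' ω₂ ξ) → pvbqZ C Wn Y τ' ω₂ ξ ∈ pvilMo 𝔓 𝔈 m ε z t Z →
      ∀ v ∈ pvpxRun (pvilLo 𝔓 𝔈 m z t) 𝔓.num (𝔓.col t) (pvbqZ C Wn Y τ' ω₂ ξ), v ∈ Y → v ∈ Wn → v ∉ C → v ∈ Fz ∪ y₁) :
    PvbqPlain C Wn p (pvilMo 𝔓 𝔈 m ε z t Z) ((pvilLo 𝔓 𝔈 m z t).X 𝔓.num (𝔓.col t) fun η => W (cfSites η)) Y Fz y₁ σ := by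
  refine pvbw_pl_of (pvpxSo 𝔓 𝔈 m z t) (fun ζ ζ' hS hc hζ => pvpx_Mo W hS hc hζ) ?_
  rintro τ' a ω₂ ξ c hM v ((hv | hv) | hv) h1 h2 h3
  · exact hF τ' a ω₂ ξ c hM v hv h1 h2 h3
  · exact absurd (hD hv) h3
  · exact hR τ' a ω₂ ξ c hM v hv h1 h2 h3

/-- **`PvbqPlain` OF THE LAST LINK AT ANY FRESH SET `y₁`** -/
theorem pvpx_pl_i (W : ∀ Y : Set ℂ, (delbPl Y).Dart → ℂ) (hD : pvbwDk (pvilPlug (pvilRd 𝔓 m) (pvieZi 𝔓 m z t) ((𝔓.Γ m).din t)) ⊆ C)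
    (hF : ∀ τ' : ℂ → Bool, (∀ v ∈ Y, v ∈ Fz → τ' v = σ v) → ∀ ω₂ ξ : Conf PvPt, p (pvbqZ C Wn Y τ' ω₂ ξ) → pvbqZ C Wn Y τ' ω₂ ξ ∈ pvilMi 𝔓 𝔈 m ε z t Z →
      ∀ v ∈ pvilFi 𝔓 m z t (pvbqZ C Wn Y τ' ω₂ ξ), v ∈ Y → v ∈ Wn → v ∉ C → v ∈ Fz ∪ y₁)
    (hR : ∀ τ' : ℂ → Bool, (∀ v ∈ Y, v ∈ Fz → τ' v = σ v) → ∀ ω₂ ξ : Conf PvPt, p (pvbqZ C Wn Y τ' ω₂ ξ) → pvbqZ C Wn Y τ' ω₂ ξ ∈ pvilMi 𝔓 𝔈 m ε z t Z →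
      ∀ v ∈ pvpxRun (pvilLi 𝔓 𝔈 m z t) 𝔓.num (𝔓.col t) (pvbqZ C Wn Y τ' ω₂ ξ), v ∈ Y → v ∈ Wn → v ∉ C → v ∈ Fz ∪ y₁) :
    PvbqPlain C Wn p (pvilMi 𝔓 𝔈 m ε z t Z) ((pvilLi 𝔓 𝔈 m z t).X 𝔓.num (𝔓.col t) fun η => W (cfSites η)) Y Fz y₁ σ := by
  refine pvbw_pl_of (pvpxSi 𝔓 𝔈 m z t) (fun ζ ζ' hS hc hζ => pvpx_Mi W hS hc hζ) ?_
  rintro τ' a ω₂ ξ c hM v ((hv | hv) | hv) h1 h2 h3
  · exact absurd (hD hv) h3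
  · exact hF τ' a ω₂ ξ c hM v hv h1 h2 h3
  · exact hR τ' a ω₂ ξ c hM v hv h1 h2 h3

end record

/-! ## 3. (POCKET-DET): the two contracts -/

section det

variable {τ : Type} {c : ℝ} (𝔓 : PvxPar τ c) (𝔈 : PvieEng τ) (m : ℕ) (π : PvxIx τ) (𝔎 : PvxnKit) (ε : ℝ)

/-- **(POCKET-DET), FIRST LINK** (READ IT AT THE GUARDED KIT) -/
def PvpxDetO : Prop :=
  ∀ (Y : Set ℂ) (i : PvxnIx) (σ : ℂ → Bool), DelGood Y → PvxnPA 𝔓 m π 0 𝔎 i Y σ →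
    ∀ τ' : ℂ → Bool, (∀ v ∈ Y, v ∈ pvilFo 𝔓 m π.p.zt π.p.tt (cfOf Y (pvjbC (𝔓.col π.p.ts) σ)) → τ' v = pvjbC (𝔓.col π.p.ts) σ v) → ∀ ω₂ ξ : Conf PvPt,
      pvyk1Po 𝔓 𝔈 m ε π.p.zt π.p.tt ↑π.Zt (pvbqZ (pvieCc 𝔓 𝔈 m ε π.p) (pvilWno 𝔓 𝔈 m ε π.p.zt π.p.tt ↑π.Zt) Y τ' ω₂ ξ) →
      pvbqZ (pvieCc 𝔓 𝔈 m ε π.p) (pvilWno 𝔓 𝔈 m ε π.p.zt π.p.tt ↑π.Zt) Y τ' ω₂ ξ ∈ pvilMo 𝔓 𝔈 m ε π.p.zt π.p.tt ↑π.Zt →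
      ∀ v ∈ pvpxRun (pvilLo 𝔓 𝔈 m π.p.zt π.p.tt) 𝔓.num (𝔓.col π.p.tt) (pvbqZ (pvieCc 𝔓 𝔈 m ε π.p) (pvilWno 𝔓 𝔈 m ε π.p.zt π.p.tt ↑π.Zt) Y τ' ω₂ ξ),
        v ∈ Y → v ∈ pvilWno 𝔓 𝔈 m ε π.p.zt π.p.tt ↑π.Zt → v ∉ pvieCc 𝔓 𝔈 m ε π.p → v ∈ pvilFo 𝔓 m π.p.zt π.p.tt (cfOf Y (pvjbC (𝔓.col π.p.ts) σ)) ∨ v ∉ i.N

/-- **(POCKET-DET), LAST LINK** (READ IT AT THE GUARDED KIT) -/
def PvpxDetI : Prop :=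
  ∀ (Y : Set ℂ) (i : PvxnIx) (σ : ℂ → Bool), DelGood Y → PvxnPA 𝔓 m π 0 𝔎 i Y σ →
    ∀ τ' : ℂ → Bool, (∀ v ∈ Y, v ∈ pvilFi 𝔓 m π.p.zs π.p.ts (cfOf Y (pvjbC (𝔓.col π.p.ts) σ)) → τ' v = pvjbC (𝔓.col π.p.ts) σ v) → ∀ ω₂ ξ : Conf PvPt,
      pvyk1Pi 𝔓 𝔈 m ε π.p.zs π.p.ts ↑π.Zs (pvbqZ (pvieCc 𝔓 𝔈 m ε π.p) (pvilWni 𝔓 𝔈 m ε π.p.zs π.p.ts ↑π.Zs) Y τ' ω₂ ξ) →
      pvbqZ (pvieCc 𝔓 𝔈 m ε π.p) (pvilWni 𝔓 𝔈 m ε π.p.zs π.p.ts ↑π.Zs) Y τ' ω₂ ξ ∈ pvilMi 𝔓 𝔈 m ε π.p.zs π.p.ts ↑π.Zs →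
      ∀ v ∈ pvpxRun (pvilLi 𝔓 𝔈 m π.p.zs π.p.ts) 𝔓.num (𝔓.col π.p.ts) (pvbqZ (pvieCc 𝔓 𝔈 m ε π.p) (pvilWni 𝔓 𝔈 m ε π.p.zs π.p.ts ↑π.Zs) Y τ' ω₂ ξ),
        v ∈ Y → v ∈ pvilWni 𝔓 𝔈 m ε π.p.zs π.p.ts ↑π.Zs → v ∉ pvieCc 𝔓 𝔈 m ε π.p → v ∈ pvilFi 𝔓 m π.p.zs π.p.ts (cfOf Y (pvjbC (𝔓.col π.p.ts) σ)) ∨ v ∉ i.N

end det

theorem pvpx_eqns_cite3 : True := by
  have := @PvpxDetO.eq_1; have := @PvpxDetI.eq_1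
  trivial

/-! ## 4. the roof -/

section roof

variable {τ : Type} {c : ℝ} {𝔓 : PvxPar τ c} {𝔈 : PvieEng τ} {m m0 : ℕ} {π : PvxIx τ} {𝔎 : PvxnKit} {ε Cth : ℝ} {r κs : ℕ → ℝ}

/-- the room of the first link off `C` lies over the mouth -/
theorem pvpx_room_o (hE : PvieEng.Wf 𝔓 𝔈 m0 Cth r κs) (hm : m0 ≤ m) {z : ℂ} {t : τ} (ht : pviwTyOk 𝔓 t) {C : Set ℂ}
    (hC : pvieSh z (𝔈.oK m t) ∪ pvieDoor 𝔈 m ε (pvieZo 𝔓 m z t) ((𝔓.Γ m).dout t) ⊆ C) {v : ℂ} (hv : v ∈ pvieSh z (𝔈.oY m t)) (h3 : v ∉ C) : v ∈ pvieSh z (𝔈.oM m t) := by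
  have := pvbw_pl_sh_mono z (hE.oY_sub m hm ε t ht)
  rw [pvbw_pl_sh_union, pvbw_pl_sh_union] at this
  unfold pviwDo pvieDoor at this
  rw [pvbw_pl_sh_sim] at this
  rcases this hv with (h | h) | h
  · exact h
  · exact absurd (hC (Or.inl h)) h3
  · exact absurd (hC (Or.inr h)) h3

/-- the room of the last link off `C` lies over the mouth -/
theorem pvpx_room_i (hE : PvieEng.Wf 𝔓 𝔈 m0 Cth r κs) (hm : m0 ≤ m) {z : ℂ} {t : τ} (ht : pviwTyOk 𝔓 t) {C : Set ℂ}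
    (hC : pvieSh z (𝔈.iK m t) ∪ pvieDoor 𝔈 m ε (pvieZi 𝔓 m z t) ((𝔓.Γ m).din t) ⊆ C) {v : ℂ} (hv : v ∈ pvieSh z (𝔈.iY m t)) (h3 : v ∉ C) : v ∈ pvieSh z (𝔈.iM m t) := by
  have := pvbw_pl_sh_mono z (hE.iY_sub m hm ε t ht)
  rw [pvbw_pl_sh_union, pvbw_pl_sh_union] at this
  unfold pviwDi pvieDoor at this
  rw [pvbw_pl_sh_sim] at this
  rcases this hv with (h | h) | h
  · exact h
  · exact absurd (hC (Or.inl h)) h3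
  · exact absurd (hC (Or.inr h)) h3

/-- **THE ROOF OF (POCKET), generic engine**: the conclusion is the body of `PvkynPl 𝔓 𝔈 m π 𝔎 ε` of 218 -/
theorem pvpx_top (hE : PvieEng.Wf 𝔓 𝔈 m0 Cth r κs) (hm : m0 ≤ m) (htt : pviwTyOk 𝔓 π.p.tt) (hts : pviwTyOk 𝔓 π.p.ts) (hdo : ‖(𝔓.Γ m).dout π.p.tt‖ = 1) (hdi : ‖(𝔓.Γ m).din π.p.ts‖ = 1)
    (hρ : 0 < 𝔓.num.rho3) (hbt : (𝔓.ty π.p.tt).b * pvlmH m ≤ pviwRad 𝔓 m π.p.tt) (hbs : (𝔓.ty π.p.ts).b * pvlmH m ≤ pviwRad 𝔓 m π.p.ts)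
    (hCo : pvieSh π.p.zt (𝔈.oK m π.p.tt) ∪ pvieDoor 𝔈 m ε (pvieZo 𝔓 m π.p.zt π.p.tt) ((𝔓.Γ m).dout π.p.tt) ⊆ pvieCc 𝔓 𝔈 m ε π.p)
    (hCi : pvieSh π.p.zs (𝔈.iK m π.p.ts) ∪ pvieDoor 𝔈 m ε (pvieZi 𝔓 m π.p.zs π.p.ts) ((𝔓.Γ m).din π.p.ts) ⊆ pvieCc 𝔓 𝔈 m ε π.p)
    (hWo : Disjoint (pvieCc 𝔓 𝔈 m ε π.p) (pvilWz 𝔓 m π.p.zt π.p.tt ↑π.Zt)) (hWi : Disjoint (pvieCc 𝔓 𝔈 m ε π.p) (pvilWz 𝔓 m π.p.zs π.p.ts ↑π.Zs))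
    (hZ : ∀ (Y : Set ℂ) (i : PvxnIx) (σ : ℂ → Bool), PvxnPA 𝔓 m π 0 𝔎 i Y σ →
      pvilZo 𝔓 m π.p.zt π.p.tt (cfOf Y (pvjbC (𝔓.col π.p.ts) σ)) = (π.Zt : Set (ℤ × ℤ)) ∧ pvilZi 𝔓 m π.p.zs π.p.ts (cfOf Y (pvjbC (𝔓.col π.p.ts) σ)) = (π.Zs : Set (ℤ × ℤ)))
    (Do : PvpxDetO 𝔓 𝔈 m π 𝔎 ε) (Di : PvpxDetI 𝔓 𝔈 m π 𝔎 ε) :
    ∀ (Y : Set ℂ) (i : PvxnIx) (σ : ℂ → Bool), DelGood Y → PvxnPA 𝔓 m π 0 𝔎 i Y σ →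
      PvbqPlain (pvieCc 𝔓 𝔈 m ε π.p) (pvilWno 𝔓 𝔈 m ε π.p.zt π.p.tt ↑π.Zt) (pvyk1Po 𝔓 𝔈 m ε π.p.zt π.p.tt ↑π.Zt) (pvilMo 𝔓 𝔈 m ε π.p.zt π.p.tt ↑π.Zt) (pvyk1Fo 𝔓 𝔈 m π.p.zt π.p.tt) Y
        (pvilFo 𝔓 m π.p.zt π.p.tt (cfOf Y (pvjbC (𝔓.col π.p.ts) σ))) ((pvieSh π.p.zt (𝔈.oM m π.p.tt) \ pvilFo 𝔓 m π.p.zt π.p.tt (cfOf Y (pvjbC (𝔓.col π.p.ts) σ))) \ i.N) (pvjbC (𝔓.col π.p.ts) σ) ∧
      PvbqPlain (pvieCc 𝔓 𝔈 m ε π.p) (pvilWni 𝔓 𝔈 m ε π.p.zs π.p.ts ↑π.Zs) (pvyk1Pi 𝔓 𝔈 m ε π.p.zs π.p.ts ↑π.Zs) (pvilMi 𝔓 𝔈 m ε π.p.zs π.p.ts ↑π.Zs) (pvyk1Fi 𝔓 𝔈 m π.p.zs π.p.ts) Y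
        (pvilFi 𝔓 m π.p.zs π.p.ts (cfOf Y (pvjbC (𝔓.col π.p.ts) σ))) ((pvieSh π.p.zs (𝔈.iM m π.p.ts) \ pvilFi 𝔓 m π.p.zs π.p.ts (cfOf Y (pvjbC (𝔓.col π.p.ts) σ))) \ i.N) (pvjbC (𝔓.col π.p.ts) σ) := by
  intro Y i σ hY hA
  obtain ⟨eo, ei⟩ := hZ Y i σ hA
  constructor
  · refine pvpx_pl_o (fun Y : Set ℂ => (pvbwT Y).qpart Subtype.val) ((pvbw_pl_door hE hm ε _ hdo).trans (subset_union_right.trans hCo)) ?_ ?_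
    · intro τ' a ω₂ ξ _ hM v hv _ _ _
      refine Or.inl ?_
      rwa [pvkfp_FZ_o (𝔈 := 𝔈) (ε := ε) hρ hbt (by rw [eo]; exact pvkfp_Wz_o 𝔓 𝔈 m ε _ _ _) (by rw [eo]; exact hWo) a ω₂ ξ (by rw [eo]; exact hM)] at hv
    · intro τ' a ω₂ ξ c hM v hv h1 h2 h3
      have hMo := pvpx_room_o hE hm htt hCo (pvpx_run_sub hv) h3
      rcases Do Y i σ hY hA τ' a ω₂ ξ c hM v hv h1 h2 h3 with h | h
      · exact Or.inl h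
      · by_cases hz : v ∈ pvilFo 𝔓 m π.p.zt π.p.tt (cfOf Y (pvjbC (𝔓.col π.p.ts) σ))
        · exact Or.inl hz
        · exact Or.inr ⟨⟨hMo, hz⟩, h⟩
  · refine pvpx_pl_i (fun Y : Set ℂ => (pvbwT Y).qpart Subtype.val) ((pvbw_pl_door hE hm ε _ hdi).trans (subset_union_right.trans hCi)) ?_ ?_
    · intro τ' a ω₂ ξ _ hM v hv _ _ _
      refine Or.inl ?_
      rwa [pvkfp_FZ_i (𝔈 := 𝔈) (ε := ε) hρ hbs (by rw [ei]; exact pvkfp_Wz_i 𝔓 𝔈 m ε _ _ _) (by rw [ei]; exact hWi) a ω₂ ξ (by rw [ei]; exact hM)] at hv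
    · intro τ' a ω₂ ξ c hM v hv h1 h2 h3
      have hMi := pvpx_room_i hE hm hts hCi (pvpx_run_sub hv) h3
      rcases Di Y i σ hY hA τ' a ω₂ ξ c hM v hv h1 h2 h3 with h | h
      · exact Or.inl h
      · by_cases hz : v ∈ pvilFi 𝔓 m π.p.zs π.p.ts (cfOf Y (pvjbC (𝔓.col π.p.ts) σ))
        · exact Or.inl hz
        · exact Or.inr ⟨⟨hMi, hz⟩, h⟩

end roof

/-! ## 5. the gate disc is deep in the window -/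

section disc

open Metric

/-- a disc in which `Y` is `r`-dense, all of whose sites belong to `F`, is `3 μ`-deep in every set which contains the `δ`-balls of the points of `F` -/
theorem pvpx_disc {δ r μ ϱ : ℝ} {z : ℂ} {Y F W : Set ℂ} (hr : 0 < r) (hn : 3 * r + 3 * μ ≤ δ) (h2 : 2 * r ≤ ϱ) (hd : VorDense Y (closedBall z ϱ) r)
    (hF : ∀ u ∈ Y, ‖u - z‖ < ϱ → u ∈ F) (hW : ∀ u ∈ F, closedBall u δ ⊆ W) : closedBall z ϱ ⊆ pvtrCore (3 * μ) W := by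
  intro w hw q hq
  rw [mem_closedBall_iff_norm] at hw hq
  have hϱ : 0 < ϱ := by linarith
  set lam : ℝ := 1 - 2 * r / ϱ with hlam
  have hl0 : 0 ≤ lam := by
    rw [hlam, sub_nonneg, div_le_one hϱ]
    exact h2
  have hl1 : 0 ≤ 2 * r / ϱ := by positivity
  set w' : ℂ := z + (lam : ℂ) * (w - z) with hw'
  have e1 : ‖w' - z‖ ≤ ϱ - 2 * r := by
    have : w' - z = (lam : ℂ) * (w - z) := by rw [hw']; ring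
    rw [this, norm_mul, Complex.norm_real, Real.norm_eq_abs, abs_of_nonneg hl0]
    calc lam * ‖w - z‖ ≤ lam * ϱ := mul_le_mul_of_nonneg_left hw hl0
      _ = ϱ - 2 * r := by rw [hlam]; field_simp
  have e2 : ‖w - w'‖ ≤ 2 * r := by
    have : w - w' = ((2 * r / ϱ : ℝ) : ℂ) * (w - z) := by
      rw [hw', hlam]
      push_cast
      ring
    rw [this, norm_mul, Complex.norm_real, Real.norm_eq_abs, abs_of_nonneg hl1]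
    calc 2 * r / ϱ * ‖w - z‖ ≤ 2 * r / ϱ * ϱ := mul_le_mul_of_nonneg_left hw hl1
      _ = 2 * r := by field_simp
  obtain ⟨u, hu, hwu⟩ := hd w' (mem_closedBall_iff_norm.2 (by linarith))
  have e3 : ‖u - z‖ < ϱ := by
    have : ‖u - z‖ ≤ ‖w' - u‖ + ‖w' - z‖ := by
      have := norm_sub_le (w' - z) (w' - u)
      have e : w' - z - (w' - u) = u - z := by ring
      rw [e] at this
      linarith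
    linarith
  refine hW u (hF u hu e3) (mem_closedBall_iff_norm.2 ?_)
  have : ‖q - u‖ ≤ ‖q - w‖ + ‖w - w'‖ + ‖w' - u‖ := by
    have h1 := norm_add_le (q - w + (w - w')) (w' - u)
    have h3 := norm_add_le (q - w) (w - w')
    have e : q - w + (w - w') + (w' - u) = q - u := by ring
    rw [e] at h1
    linarith
  linarith

variable {τ : Type} {c : ℝ} {𝔓 : PvxPar τ c} {𝔈 : PvieEng τ} {m : ℕ} {ε : ℝ} {z : ℂ} {t : τ} {Y C : Set ℂ} {𝔇 : PvwDat (delbPl Y).toMap} {π' : PvwPat} {η₀ : Conf PvPt} {x : ℂ} {R r : ℝ}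

/-- the mesh off `C` on a set which is far from `C`, inside the patch -/
theorem pvpx_dense_far {A : Set ℂ} (hr : 0 < r) (hms : VorDense Y (pvn1kOff x R C r) r) (hA : A ⊆ pvgeFar C r) (h7 : A ⊆ closedBall x (7 * R)) : VorDense Y A r := by
  intro w hw
  refine hms w ⟨mem_closedBall_iff_norm.1 (h7 hw), ?_⟩
  have : 3 * r ≤ infDist w C := hA hw
  linarith

/-- **`hdisc`, EXIT END** -/
theorem pvpx_disc_o (hok : 𝔇.Ok Subtype.val 𝔓.num (pvlmH m) π') (hzt : π'.zt = z) (htt : π'.tt = 𝔓.ty t) (hFz : Subtype.val '' 𝔇.t.fzOut = pvilFo 𝔓 m z t η₀)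
    (hr : 0 < r) (hms : VorDense Y (pvn1kOff x R C r) r) (hkt : closedBall z ((𝔓.ty t).b * pvlmH m) ⊆ pvgeFar C r) (h7 : closedBall z ((𝔓.ty t).b * pvlmH m) ⊆ closedBall x (7 * R))
    (hn : 3 * r + 3 * pvilMu 𝔓 m ≤ pvlmDel c m) (h2 : 2 * r ≤ (𝔓.ty t).b * pvlmH m) (hb : (𝔓.ty t).b * pvlmH m ≤ pviwRad 𝔓 m t) :
    closedBall z ((𝔓.ty t).b * pvlmH m) ⊆ pvtrCore (3 * pvilMu 𝔓 m) (pvilWno 𝔓 𝔈 m ε z t (pvilZo 𝔓 m z t η₀)) := by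
  have h := pvpx_disc (F := pvilFo 𝔓 m z t η₀) (W := pvilWz 𝔓 m z t (pvilZo 𝔓 m z t η₀)) hr hn h2 (pvpx_dense_far hr hms hkt h7) ?_ (fun u hu => pvza_ballO_Wz hb (pvlm_Del_pos c m) hu)
  · exact h.trans (pvtr_core_mono fun _ hv => Or.inl (Or.inl (Or.inl hv)))
  · intro u hu hlt
    rw [← hFz]
    refine ⟨⟨u, hu⟩, Or.inl (Or.inl ((pvwk_mem_core hok.st_t.gate).2 ?_)), rfl⟩
    rw [hzt, htt]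
    exact hlt

/-- **`hdisc`, ENTRANCE END** -/
theorem pvpx_disc_i (hok : 𝔇.Ok Subtype.val 𝔓.num (pvlmH m) π') (hzs : π'.zs = z) (hts : π'.ts = 𝔓.ty t) (hFz : Subtype.val '' 𝔇.s.fzIn = pvilFi 𝔓 m z t η₀)
    (hr : 0 < r) (hms : VorDense Y (pvn1kOff x R C r) r) (hks : closedBall z ((𝔓.ty t).b * pvlmH m) ⊆ pvgeFar C r) (h7 : closedBall z ((𝔓.ty t).b * pvlmH m) ⊆ closedBall x (7 * R))
    (hn : 3 * r + 3 * pvilMu 𝔓 m ≤ pvlmDel c m) (h2 : 2 * r ≤ (𝔓.ty t).b * pvlmH m) (hb : (𝔓.ty t).b * pvlmH m ≤ pviwRad 𝔓 m t) :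
    closedBall z ((𝔓.ty t).b * pvlmH m) ⊆ pvtrCore (3 * pvilMu 𝔓 m) (pvilWni 𝔓 𝔈 m ε z t (pvilZi 𝔓 m z t η₀)) := by
  have h := pvpx_disc (F := pvilFi 𝔓 m z t η₀) (W := pvilWz 𝔓 m z t (pvilZi 𝔓 m z t η₀)) hr hn h2 (pvpx_dense_far hr hms hks h7) ?_ (fun u hu => pvza_ballI_Wz hb (pvlm_Del_pos c m) hu)
  · exact h.trans (pvtr_core_mono fun _ hv => Or.inl (Or.inl (Or.inl hv)))
  · intro u hu hlt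
    rw [← hFz]
    refine ⟨⟨u, hu⟩, Or.inl (Or.inl ((pvwk_mem_core hok.st_s.gate).2 ?_)), rfl⟩
    rw [hzs, hts]
    exact hlt

end disc

end Claimed.Agent.R289
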