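import Claimed.Agent.R289.Tr.PortM
import Claimed.Agent.R289.Tr.MenuFit
import Claimed.Agent.R289.Tr.Di

/-!
# Row 289 (S0537, Cardy for Poisson-Voronoi), unit TR, ROAD P, P10 = Tr/PortIn : PORT ON THE INPUT RECORD OF FIT, AND THE INPUTS AT THE MODEL      (owner helper164; prefix `pvqj_`)

* §1 `pvqj_port`, `pvqj_collar`, `pvqj_rest_fwd`, `pvqj_rest_bwd`, `pvqj_lane_miss`: M7 (ii)-(vi) and P11 `U(N^2 M)` misses `P`, with hypotheses `I : PvmfIn …`, `N : PvmfNum …`, `R : PvmfRel …`, `F : PvmnFits …` of 8 (`Tr/MenuFit.lean`); no other number.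
* §2 the inputs of `pvmf_exists` from the records which the model provides:   `pvqj_trap_of_gs` (gate number `k` of `PvdiGs`, 212 ⟹ `PvtpTrap`),   `pvqj_end0`, `pvqj_endn`, `pvqj_mesh` (fields `far`, `closed`, `mesh_v` of `PvbRimGood`),   `pvtp_nr_of_not` (`Tr/Port`).
-/

set_option autoImplicit false
set_option linter.unusedSectionVars false
set_option linter.unusedVariables false
set_option linter.unusedSimpArgs false

namespace Claimed.Agent.R289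

open Claims.C0467 Claimed.Agent.R291

/-! ## §1 PORT on `PvmfIn` -/

section onIn

variable {P : PvbRim} {z : ℂ} {t : ℕ → ℕ} {δ μ hh a b ρ d0 e0 d1 e1 : ℝ} {τ : PvmnType} {𝔑 : PvmnNum}

/-- the window is larger than `9 b` -/
theorem pvqj_rho (N : PvmfNum δ μ hh a b ρ d0 e0 d1 e1 (δ * 𝔑.rB)) (R : PvmfRel 𝔑 δ μ hh b ρ e0 d1) : 9 * b + 9 * δ < ρ := by
  have := R.ρ_gt; have := R.nBx_ge; have := N.μ_nn
  linarith

/-- the chain of cuts in its own window `6 b + μ` -/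
theorem pvqj_cuts (I : PvmfIn P z t μ hh a b ρ d0 e0 d1 e1) (N : PvmfNum δ μ hh a b ρ d0 e0 d1 e1 (δ * 𝔑.rB)) : PvtpCuts P z (6 * b + μ) e1 10 t := by
  have C := I.cuts N
  refine ⟨C.mono, C.le_len, C.big, fun k h1 h2 => ?_⟩
  have := I.rad N 5 (by omega) le_rfl (l := k) h1 h2
  push_cast at this
  linarith

theorem pvqj_marks1 (I : PvmfIn P z t μ hh a b ρ d0 e0 d1 e1) : PvtpMarks P z (t 5) (2 * b) (t 4) (t 6) := by
  have := I.marks 1 le_rfl (by norm_num)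
  norm_num at this
  exact this

/-- **M7 (iii), (v), (vii) on the input record of FIT** -/
theorem pvqj_port (I : PvmfIn P z t μ hh a b ρ d0 e0 d1 e1) (N : PvmfNum δ μ hh a b ρ d0 e0 d1 e1 (δ * 𝔑.rB)) (R : PvmfRel 𝔑 δ μ hh b ρ e0 d1)
    (F : PvmnFits τ δ (fun i => P.v i - z) (fun k => t k.1)) :
    ∃ xm xp, PvtpPort P z (t 5) {p | p - z ∈ pvtU δ (pvmnHp 𝔑 τ)} (2 * b) μ e0 d1 ρ xm (t 4) (t 6) xp ∧ t 3 < xm ∧ xp < t 7 := by
  obtain ⟨lo, hi, T⟩ := I.trap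
  have hb := N.b_pos
  have h1 := N.δ_pos; have h2 := N.d0_ge; have h3 := N.d0_le; have h4 := N.e0_le; have h5 := N.d1_le; have h6 := N.hh_nn; have h7 := N.e1_lt
  have h8 := N.μ_nn; have h9 := N.μ_le; have h10 := N.RB_nn; have h11 := N.RB_lt; have h12 := N.a_le; have h13 := pvqj_rho N R
  obtain ⟨xm, xp, H⟩ := pvqp_port (𝔑 := 𝔑) F (pvqj_marks1 I) T I.near I.end0 I.endn I.mesh I.nr0 I.nr1 h8 (by linarith) (by linarith) (by linarith) h1 h9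
    (by nlinarith) (by linarith) (by linarith) (by linarith)
  exact ⟨xm, xp, H, pvqp_stub_bwd (a := 3) H (I.cuts N) (by omega) (by linarith), pvqp_stub_fwd (a := 6) H (I.cuts N) (by omega) (by linarith)⟩

/-- **M7 (vi) REST, forward**, on the input record: pieces `i..j`, `4 ≤ j ≤ 8`, collars `m + n ≤ …`, `n ≤ 13` -/
theorem pvqj_rest_fwd (I : PvmfIn P z t μ hh a b ρ d0 e0 d1 e1) (N : PvmfNum δ μ hh a b ρ d0 e0 d1 e1 (δ * 𝔑.rB)) (R : PvmfRel 𝔑 δ μ hh b ρ e0 d1)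
    (F : PvmnFits τ δ (fun i => P.v i - z) (fun k => t k.1)) {i j : ℕ} (hij : i ≤ j) (hj4 : 4 ≤ j) (hj : j + 1 < 10) (m n : ℕ) (hn : n ≤ 13)
    (hd : 2 * ((n + 1 + m : ℕ) + 1) * δ + μ ≤ d1) :
    ∀ k, t (j + 2) ≤ k → k ≤ P.len → P.v k - z ∉ pvtU δ (pvtwN n (pvtHull (pvmnBl 𝔑.rB ∪ pvtwN m (pvmnCells τ i j)))) := by
  have hb := N.b_pos
  have h1 := N.δ_pos; have h5 := N.d1_le; have h6 := N.hh_nn; have h7 := N.e1_lt
  have h8 := N.μ_nn; have h9 := N.μ_le; have h10 := N.RB_nn; have h11 := N.RB_lt; have h12 := N.a_le; have h13 := pvqj_rho N R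
  have C := pvqj_cuts I N
  have hn' : (n : ℝ) ≤ 13 := by exact_mod_cast hn
  refine pvqp_rest_fwd (ρ := 6 * b + μ) (ρ' := ρ) (ra := a) F C (I.nr1.mono (by linarith) le_rfl le_rfl) h1 h8 h9 I.endn I.mesh hij hj m n hd
    (fun k k1 k2 => (I.far_a N).1 k ((C.le (by omega : 6 ≤ j + 2) (by omega)).trans k1) k2) ?_ (by linarith) (by linarith)
  push_cast
  nlinarith

/-- **M7 (vi) REST, backward**, on the input record: pieces `i+1..j`, `i ≤ 4` -/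
theorem pvqj_rest_bwd (I : PvmfIn P z t μ hh a b ρ d0 e0 d1 e1) (N : PvmfNum δ μ hh a b ρ d0 e0 d1 e1 (δ * 𝔑.rB)) (R : PvmfRel 𝔑 δ μ hh b ρ e0 d1)
    (F : PvmnFits τ δ (fun i => P.v i - z) (fun k => t k.1)) {i j : ℕ} (hij : i + 1 ≤ j) (hi4 : i ≤ 4) (hj : j < 10) (m n : ℕ) (hn : n ≤ 13)
    (hd : 2 * ((n + 1 + m : ℕ) + 1) * δ + μ ≤ d1) :
    ∀ k, k ≤ t i → P.v k - z ∉ pvtU δ (pvtwN n (pvtHull (pvmnBl 𝔑.rB ∪ pvtwN m (pvmnCells τ (i + 1) j)))) := by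
  have hb := N.b_pos
  have h1 := N.δ_pos; have h5 := N.d1_le; have h6 := N.hh_nn; have h7 := N.e1_lt
  have h8 := N.μ_nn; have h9 := N.μ_le; have h10 := N.RB_nn; have h11 := N.RB_lt; have h12 := N.a_le; have h13 := pvqj_rho N R
  have C := pvqj_cuts I N
  have hn' : (n : ℝ) ≤ 13 := by exact_mod_cast hn
  refine pvqp_rest_bwd (ρ := 6 * b + μ) (ρ' := ρ) (ra := a) F C (I.nr1.mono (by linarith) le_rfl le_rfl) h1 h8 h9 I.end0 I.mesh hij hj m n hd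
    (fun k k1 => (I.far_a N).2 k (k1.trans (C.le hi4 (by omega)))) ?_ (by linarith) (by linarith)
  push_cast
  nlinarith

/-- **P11**: no vertex of the rim lies in the `m`-th collar of a lane -/
theorem pvqj_lane_miss (I : PvmfIn P z t μ hh a b ρ d0 e0 d1 e1) (N : PvmfNum δ μ hh a b ρ d0 e0 d1 e1 (δ * 𝔑.rB))
    (F : PvmnFits τ δ (fun i => P.v i - z) (fun k => t k.1)) {E : Set (ℤ × ℤ)} {k m j : ℕ}
    (hE1 : E ⊆ pvtwN k (pvmnCells τ 1 8)) (hE2 : Disjoint E (pvtwN m (pvmnCells τ 0 9))) (hd : 2 * ((m + k : ℕ) + 1) * δ + μ ≤ d1) (hj : j ≤ P.len) :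
    P.v j - z ∉ pvtU δ (pvtwN m E) :=
  pvqp_lane_miss F (I.cuts N) I.nr1 N.δ_pos N.μ_nn I.mesh hE1 hE2 hd hj

end onIn

/-! ## §2 the inputs at the model -/

section model

variable {P : PvbRim} {x z : ℂ} {R ρ μ : ℝ}

/-- the cut vertex is outside the window (field `far` of `PvbRimGood`) -/
theorem pvqj_end0 (far : 4 * R ≤ ‖P.v 0 - x‖) (hz : ‖z - x‖ ≤ 3 * R) (hρ : ρ ≤ R) : ρ ≤ ‖P.v 0 - z‖ := by
  have := pvtp_tri (P.v 0) z x
  linarith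

theorem pvqj_endn (closed : P.v P.len = P.v 0) (far : 4 * R ≤ ‖P.v 0 - x‖) (hz : ‖z - x‖ ≤ 3 * R) (hρ : ρ ≤ R) : ρ ≤ ‖P.v P.len - z‖ := by
  rw [closed]
  exact pvqj_end0 far hz hρ

/-- the windowed mesh (field `mesh_v` of `PvbRimGood`) -/
theorem pvqj_mesh (mesh_v : ∀ k < P.len, (‖P.v k - x‖ ≤ 5 * R ∨ ‖P.v (k + 1) - x‖ ≤ 5 * R) → ‖P.v (k + 1) - P.v k‖ ≤ μ) (hz : ‖z - x‖ ≤ 3 * R) (hρ : ρ ≤ 2 * R) :
    ∀ k < P.len, (‖P.v k - z‖ ≤ ρ ∨ ‖P.v (k + 1) - z‖ ≤ ρ) → ‖P.v (k + 1) - P.v k‖ ≤ μ := by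
  intro k hk h
  refine mesh_v k hk (h.imp (fun h1 => ?_) (fun h1 => ?_))
  · have := pvtp_tri (P.v k) z x
    linarith
  · have := pvtp_tri (P.v (k + 1)) z x
    linarith

variable {V D : Type} {T : PvMap V D} {pos : V → ℂ} {s : V → Bool} {c : Bool} {γ : T.Cyc} {i₀ g : ℕ} {a b : Fin g → ℝ} {G : Fin g → Set D} {X : Fin g → Finset V} {lo hi : Fin g → ℕ}

/-- **TRAP from the gate number `k`** of the gates of 212 -/
theorem pvqj_trap_of_gs (H : PvdiGs T pos s c z μ γ i₀ a b G X lo hi) (k : Fin g) (hlen : P.len = γ.n) (hv : ∀ j, P.v j = pos (T.src (γ.e j)))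
    {rb : ℝ} (hb : b k + μ < rb) : PvtpTrap P z i₀ (a k) rb (lo k) (hi k) := by
  have hp := H.pass k
  refine ⟨hp.lo_lt.le, hp.lt_hi.le, by rw [hlen]; exact hp.hi_lt.le, ?_, ?_⟩
  · intro i hi' hlt
    have := H.visit k i (by rw [← hlen]; exact hi') (by rw [← hv]; exact hlt.le)
    exact ⟨this.1.le, this.2.le⟩
  · intro i h1 h2
    have := H.diam k i h1 h2
    rw [← hv] at this
    linarith

end model

end Claimed.Agent.R289
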