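import Claimed.Agent.R289.Tr.RegT

/-!
# Row 289 (S0537), THE WALL, ROAD E, file Tr/RegB : NO HOLE, SECOND KIT      (helper39; prefix `pvrj`)

Continuation of `Tr/RegT` (0 sorry) for regions which are not `pvfeIn`: rooms of the special links (`Exit/ParEng*`), any union [closed set `E`] ∪ [lanes of a word] ∪ [star shaped blob].
* `pvrj_step_data` : the neighbourhood `U` and the chain `W` of the cell `j + 1` (the content of `pvrt_snake_step`, exposed)
* **`pvrj_snake`**  : `E` closed, far from the cells `k ≥ 1`, `(E ∪ first lane)ᶜ` preconnected ⟹ `(E ∪ lanes of the first n + 1 cells)ᶜ` preconnected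
* **`pvrj_blob`**   (T5) : ATTACH A STAR SHAPED BLOB `B ⊆ closedBall y r` AT THE END OF A STRIP: `(A ∪ B) ∩ ball y (r + ε)` star shaped about `q ∈ B`, `A` = the strip in the ring `r < |x - y| < r + ε`
* **`pvrj_funnel`** (T6) : attach [ball ∪ funnel] at the end of a straight run
* `pvrj_union_star` : two convex sets with a common point;   `pvrj_K` : ONE STOP for `hK hco` of `pvhj_run_st` is in `Tr/RegY` (needs `Tr/Geo`)
-/

set_option autoImplicit false

namespace Claimed.Agent.R289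

open Set Metric

/-- **the local data of the step** -/
theorem pvrj_step_data {l : List PvtTurn} (hnr : PvfeNR l) {j : ℕ} (hj : j + 1 < l.length) :
    ∃ U W : Set ℂ, IsOpen U ∧ pvrtL l (j + 1) ⊆ U ∧ IsPreconnected W ∧ U \ (pvrtA l (j + 1) ∪ pvrtL l (j + 1)) ⊆ W ∧ W ⊆ (pvrtA l (j + 1) ∪ pvrtL l (j + 1))ᶜ ∧ W ⊆ U ∧
      ∀ x ∈ U, pvccN (x - pvccC 0 1 l (j + 1)) < 1 / 2 + 1 / 20 := by
  have hjl : j < l.length := by omega
  set Z := pvccZ 0 1 l (j + 1) with hZ
  set D := pvccD 1 l (j + 1) with hD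
  set τ := pvccT l (j + 1) with hτ
  have hD0 : D ≠ 0 := pvrt_D_ne l _
  have hD4 : D ^ 4 = 1 := pvrt_D4 l _
  have hinj := pvcc_pl_injective Z hD0
  -- the frame of the previous cell
  have eprev : ∀ w : ℂ, Z + D * w = pvccZ 0 1 l j + pvccD 1 l j * ((pvccT l j).mid + (pvccT l j).rot * w) := by
    intro w
    rw [hZ, hD, pvccZ_succ 0 1 l hjl, pvccD_succ 1 l hjl]
    ring
  refine ⟨pvccPl Z D (pvrtU τ), pvccPl Z D (pvrtW τ), ?_, ?_, ?_, ?_, ?_, pvccPl_mono _ _ (pvrt_W_sub τ), ?_⟩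
  · rw [pvccPl_eq_preimage _ hD0]
    exact (pvrt_U_open τ).preimage (by fun_prop)
  · exact pvccPl_mono _ _ (pvrt_ln_sub_U τ)
  · exact (pvrt_W_conn τ).image _ (by fun_prop)
  · rintro _ ⟨⟨w, hw, rfl⟩, hx⟩
    refine ⟨w, pvrt_W_cover τ ⟨hw, ?_⟩, rfl⟩
    rintro (hS | hL)
    · refine hx (Or.inl ?_)
      have h1 := (pvrt_U_left τ hw hS.1).1
      refine mem_iUnion₂.2 ⟨j, Finset.mem_range.2 (by omega), ?_⟩
      exact ⟨_, pvrt_exit' (pvccT l j) hS h1, (eprev w).symm⟩
    · exact hx (Or.inr ⟨w, hL, rfl⟩)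
  · rintro _ ⟨w, hw, rfl⟩ hx
    have hwU := pvrt_W_sub τ hw
    have hoff := Set.disjoint_left.1 (pvrt_W_off τ) hw
    rcases hx with hx | hx
    · obtain ⟨k, hk, hxk⟩ := mem_iUnion₂.1 hx
      rw [Finset.mem_range] at hk
      have hcell := pvrt_L_cell l k hxk
      have hUc : pvccN (Z + D * w - pvccC 0 1 l (j + 1)) < 1 / 2 + 1 / 20 := by
        have e : Z + D * w - pvccC 0 1 l (j + 1) = D * (w - 1 / 2) := by
          unfold pvccC
          ring
        rw [e, pvccN_unit_mul hD4]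
        exact pvrt_U_cell τ hwU
      have hclose : pvccN (pvccC 0 1 l k - pvccC 0 1 l (j + 1)) < 2 := by
        have e : pvccC 0 1 l k - pvccC 0 1 l (j + 1) = -(Z + D * w - pvccC 0 1 l k) + (Z + D * w - pvccC 0 1 l (j + 1)) := by ring
        rw [e]
        have := pvccN_add_le (-(Z + D * w - pvccC 0 1 l k)) (Z + D * w - pvccC 0 1 l (j + 1))
        rw [pvccN_neg] at this
        linarith
      have hk3 : j ≤ k + 1 := by
        by_contra hc
        have := hnr k (j + 1) (by omega) (by omega)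
        linarith
      rcases (show k = j ∨ k + 1 = j by omega) with rfl | hk1
      · -- the previous cell
        obtain ⟨v, hv, hvx⟩ := hxk
        have hvx' : pvccZ 0 1 l k + pvccD 1 l k * v = Z + D * w := hvx
        rw [eprev w] at hvx'
        have := pvcc_pl_injective (pvccZ 0 1 l k) (pvrt_D_ne l k) hvx'
        rw [this] at hv
        have h1 : -(1 / 20) < w.re := by
          by_cases h0 : w.re ≤ 0
          · exact (pvrt_U_left τ hwU h0).1
          · linarith
        exact hoff (Or.inl (pvrt_exit _ hv h1))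
      · -- the cell before
        subst hk1
        have e2 : pvccC 0 1 l k = pvccZ 0 1 l (k + 1) - pvccD 1 l (k + 1) / 2 := (pvccC_prev 0 1 l (by omega)).symm
        have e4 : D = pvccD 1 l (k + 1) * (pvccT l (k + 1)).rot := pvccD_succ 1 l hjl
        have e5 : Z = pvccZ 0 1 l (k + 1) + pvccD 1 l (k + 1) * (pvccT l (k + 1)).mid := pvccZ_succ 0 1 l hjl
        have e6 : Z + D * w - pvccC 0 1 l k = pvccD 1 l (k + 1) * ((pvccT l (k + 1)).mid + (pvccT l (k + 1)).rot * w + 1 / 2) := by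
          rw [e2, e4, e5]
          ring
        rw [e6, pvccN_unit_mul (pvrt_D4 l _)] at hcell
        have hre := (le_max_left _ _).trans hcell
        have him := (le_max_right _ _).trans hcell
        rw [abs_le] at hre him
        generalize pvccT l (k + 1) = σ at hre him
        have hle : w.re ≤ 0 := by
          cases σ <;> simp [PvtTurn.mid, PvtTurn.rot] at hre him <;> linarith [hre.1, hre.2, him.1, him.2]
        have hU := pvrt_U_left τ hwU hle
        cases σ <;> simp [PvtTurn.mid, PvtTurn.rot] at hre him <;> linarith [hre.1, hre.2, him.1, him.2, hU.1, hU.2.1, hU.2.2]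
    · obtain ⟨v, hv, hvx⟩ := hx
      have := hinj hvx
      rw [this] at hv
      exact hoff (Or.inr hv)
  · rintro _ ⟨w, hw, rfl⟩
    have e : Z + D * w - pvccC 0 1 l (j + 1) = D * (w - 1 / 2) := by
      unfold pvccC
      ring
    show pvccN (Z + D * w - pvccC 0 1 l (j + 1)) < 1 / 2 + 1 / 20
    rw [e, pvccN_unit_mul hD4]
    exact pvrt_U_cell τ hw

/-- **the step with a spectator `E`** -/
theorem pvrj_step {l : List PvtTurn} (hnr : PvfeNR l) {E : Set ℂ} (hE : IsClosed E) (hEf : ∀ x ∈ E, ∀ k, 1 ≤ k → k < l.length → 1 / 2 + 1 / 20 ≤ pvccN (x - pvccC 0 1 l k))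
    {j : ℕ} (hj : j + 1 < l.length) (h : IsPreconnected (E ∪ pvrtA l (j + 1))ᶜ) : IsPreconnected (E ∪ pvrtA l (j + 2))ᶜ := by
  obtain ⟨U, W, hU, hLU, hW, hW1, hW2, hWU, hUc⟩ := pvrj_step_data hnr hj
  rw [pvrt_A_succ, ← union_assoc]
  refine pvrt_attach (hE.union (pvrt_A_closed l _)) (pvrt_L_closed l _) h hU hLU hW ?_ ?_
  · rintro x ⟨hx1, hx2⟩
    exact hW1 ⟨hx1, fun h => hx2 (h.imp Or.inr id)⟩
  · intro x hx hx2
    rcases hx2 with (hx2 | hx2) | hx2
    · have := hEf x hx2 (j + 1) (by omega) hj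
      have := hUc x (hWU hx)
      linarith
    · exact hW2 hx (Or.inl hx2)
    · exact hW2 hx (Or.inr hx2)

/-- **THE SNAKE WITH A SPECTATOR** -/
theorem pvrj_snake {l : List PvtTurn} (hnr : PvfeNR l) {E : Set ℂ} (hE : IsClosed E) (hEf : ∀ x ∈ E, ∀ k, 1 ≤ k → k < l.length → 1 / 2 + 1 / 20 ≤ pvccN (x - pvccC 0 1 l k))
    (h0 : IsPreconnected (E ∪ pvrtA l 1)ᶜ) : ∀ n, n < l.length → IsPreconnected (E ∪ pvrtA l (n + 1))ᶜ := by
  intro n
  induction n with
  | zero => exact fun _ => h0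
  | succ n ih => exact fun hn => pvrj_step hnr hE hEf hn (ih (by omega))

/-- **(T5) ATTACH A STAR SHAPED BLOB AT THE END OF A STRIP**      [`pvrt_attach` with `U := ball y (r + ε)`, `W := U \ (A ∪ B)`: every point of `W` is pushed radially from `q` into the ring minus the strip (`pvrt_ring`)] -/
theorem pvrj_blob {A B : Set ℂ} (hA : IsClosed A) (hB : IsClosed B) (hAc : IsPreconnected Aᶜ) {y u q : ℂ} (hu : ‖u‖ = 1) {r ε y1 y2 : ℝ} (hr : 0 < r) (hε : 0 < ε) (h1 : -r < y1) (h2 : y2 < r)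
    (hBr : B ⊆ closedBall y r) (hq : q ∈ B) (hstar : ∀ x ∈ A ∪ B, ‖x - y‖ < r + ε → segment ℝ q x ⊆ A ∪ B)
    (hst : ∀ w : ℂ, r < ‖w‖ → ‖w‖ < r + ε → (y + u * w ∈ A ↔ 0 ≤ w.re ∧ y1 ≤ w.im ∧ w.im ≤ y2)) : IsPreconnected (A ∪ B)ᶜ := by
  have hu0 : u ≠ 0 := by
    intro h
    rw [h, norm_zero] at hu
    exact zero_ne_one hu
  have hn : ∀ w : ℂ, ‖y + u * w - y‖ = ‖w‖ := fun w => by
    rw [add_sub_cancel_left, norm_mul, hu, one_mul]
  have hsurj : ∀ x : ℂ, ∃ w : ℂ, x = y + u * w := fun x => ⟨(x - y) / u, by field_simp; ring⟩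
  set Rg : Set ℂ := (fun w : ℂ => y + u * w) '' {w : ℂ | r < ‖w‖ ∧ ‖w‖ < r + ε ∧ ¬ (0 ≤ w.re ∧ y1 ≤ w.im ∧ w.im ≤ y2)} with hRg
  have hRgc : IsPreconnected Rg := (pvrt_ring hr h1 h2).image _ (by fun_prop)
  set W : Set ℂ := ball y (r + ε) \ (A ∪ B) with hW
  have hRgW : Rg ⊆ W := by
    rintro _ ⟨w, ⟨hw1, hw2, hw3⟩, rfl⟩
    refine ⟨by rw [mem_ball, dist_eq_norm, hn]; exact hw2, ?_⟩
    rintro (hx | hx)
    · exact hw3 ((hst w hw1 hw2).1 hx)
    · have := hBr hx
      rw [mem_closedBall, dist_eq_norm, hn] at this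
      linarith
  have hqy : ‖q - y‖ ≤ r := by
    have := hBr hq
    rwa [mem_closedBall, dist_eq_norm] at this
  -- the rays
  have ray : ∀ x ∈ W, ∀ t : ℝ, 1 ≤ t → ‖q + t • (x - q) - y‖ < r + ε → q + t • (x - q) ∈ W := by
    intro x hx t ht hz
    refine ⟨by rw [mem_ball, dist_eq_norm]; exact hz, fun hmem => hx.2 ?_⟩
    have ht0 : 0 < t := by linarith
    refine hstar _ hmem hz ⟨1 - 1 / t, 1 / t, by rw [sub_nonneg, div_le_one ht0]; exact ht, by positivity, by ring, ?_⟩
    rw [smul_add, smul_smul, one_div, inv_mul_cancel₀ ht0.ne', one_smul, sub_smul, one_smul]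
    ring
  have key : ∀ x ∈ W, ∃ T : Set ℂ, T ⊆ W ∧ IsPreconnected T ∧ x ∈ T ∧ ∃ x' ∈ T, x' ∈ Rg := by
    intro x hx
    have hxU : ‖x - y‖ < r + ε := by
      have := hx.1
      rwa [mem_ball, dist_eq_norm] at this
    have hxq : 0 < ‖x - q‖ := by
      rw [norm_pos_iff, sub_ne_zero]
      rintro rfl
      exact hx.2 (Or.inr hq)
    -- the parameter
    obtain ⟨t, ht1, ht2, ht3⟩ : ∃ t : ℝ, 1 ≤ t ∧ r < ‖q + t • (x - q) - y‖ ∧ ‖q + t • (x - q) - y‖ < r + ε := by
      by_cases hc : r < ‖x - y‖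
      · refine ⟨1, le_rfl, ?_, ?_⟩
        · rw [one_smul, add_sub_cancel]; exact hc
        · rw [one_smul, add_sub_cancel]; exact hxU
      · push_neg at hc
        set f : ℝ → ℝ := fun t => ‖q + t • (x - q) - y‖ with hf
        have hfc : Continuous f := by
          rw [hf]
          fun_prop
        set T : ℝ := (2 * r + ε) / ‖x - q‖ + 1 with hT
        have hT1 : 1 ≤ T := by
          rw [hT]
          have : 0 ≤ (2 * r + ε) / ‖x - q‖ := by positivity
          linarith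
        have hfT : r + ε / 2 ≤ f T := by
          have e1 : T * ‖x - q‖ = 2 * r + ε + ‖x - q‖ := by
            rw [hT]
            field_simp
          have e2 : ‖T • (x - q)‖ = T * ‖x - q‖ := by
            rw [norm_smul, Real.norm_eq_abs, abs_of_nonneg (by linarith)]
          have e3 : ‖T • (x - q)‖ ≤ ‖q + T • (x - q) - y‖ + ‖q - y‖ := by
            have e4 : T • (x - q) = (q + T • (x - q) - y) - (q - y) := by ring
            calc ‖T • (x - q)‖ = ‖(q + T • (x - q) - y) - (q - y)‖ := by rw [← e4]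
              _ ≤ _ := norm_sub_le _ _
          show r + ε / 2 ≤ ‖q + T • (x - q) - y‖
          rw [e2, e1] at e3
          linarith
        have hf1 : f 1 ≤ r + ε / 2 := by
          show ‖q + (1 : ℝ) • (x - q) - y‖ ≤ r + ε / 2
          rw [one_smul, add_sub_cancel]
          linarith
        obtain ⟨t, ht, hft⟩ := intermediate_value_Icc hT1 hfc.continuousOn ⟨hf1, hfT⟩
        have hft' : ‖q + t • (x - q) - y‖ = r + ε / 2 := hft
        exact ⟨t, ht.1, by rw [hft']; linarith, by rw [hft']; linarith⟩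
    refine ⟨segment ℝ x (q + t • (x - q)), ?_, (convex_segment _ _).isPreconnected, left_mem_segment _ _ _, _, right_mem_segment _ _ _, ?_⟩
    · rintro w ⟨a, b, ha, hb, hab, rfl⟩
      have e : a • x + b • (q + t • (x - q)) = q + (a + b * t) • (x - q) := by
        have ea : a = 1 - b := by linarith
        rw [ea, smul_add, smul_smul, add_smul, sub_smul, sub_smul, one_smul, one_smul]
        simp only [smul_sub]
        ring
      have hin : a • x + b • (q + t • (x - q)) ∈ ball y (r + ε) :=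
        (convex_ball y (r + ε)) hx.1 (by rw [mem_ball, dist_eq_norm]; exact ht3) ha hb hab
      rw [e] at hin ⊢
      refine ray x hx _ (by nlinarith) ?_
      rwa [mem_ball, dist_eq_norm] at hin
    · have hmem := ray x hx t ht1 ht3
      obtain ⟨w, hw⟩ := hsurj (q + t • (x - q))
      rw [hw] at ht2 ht3 hmem ⊢
      rw [hn] at ht2 ht3
      exact ⟨w, ⟨ht2, ht3, fun h => hmem.2 (Or.inl ((hst w ht2 ht3).2 h))⟩, rfl⟩
  have hWc : IsPreconnected W := by
    refine isPreconnected_of_forall_pair fun x hx x₂ hx₂ => ?_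
    obtain ⟨T1, a1, a2, a3, x', a4, a5⟩ := key x hx
    obtain ⟨T2, b1, b2, b3, y', b4, b5⟩ := key x₂ hx₂
    refine ⟨T1 ∪ Rg ∪ T2, union_subset (union_subset a1 hRgW) b1, Or.inl (Or.inl a3), Or.inr b3, ?_⟩
    exact IsPreconnected.union y' (Or.inr b5) b4 (IsPreconnected.union x' a4 a5 a2 hRgc) b2
  refine pvrt_attach (U := ball y (r + ε)) (W := W) hA hB hAc isOpen_ball ?_ hWc (Subset.refl _) ?_
  · exact hBr.trans (closedBall_subset_ball (by linarith))
  · exact fun x hx => hx.2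

/-- **(T6) ATTACH [BALL ∪ FUNNEL] AT THE END OF A STRAIGHT RUN** (unit cells; frame `(Z,u)` = last door of the run, turned back: the run is `pvrtR a b n`, the funnel `{s1 ≤ re ≤ s2, |im - c| ≤ w}` overlaps it on `0 ≤ re ≤ s2`,
`q0` = a point of the lane which lies in the funnel and in the ball)      [`pvrj_blob` at `q := Z + u q0`;   `hst` = `pvrt_end` through `hloc`, as in `pvrt_ball_end`;   `hstar`: a segment from `q0` stays in the funnel up to `re = s2`, then in the run] -/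
theorem pvrj_funnel {A : Set ℂ} (hA : IsClosed A) (hAc : IsPreconnected Aᶜ) {Z u y : ℂ} (hu : ‖u‖ = 1) {a b r ε rM s1 s2 c w : ℝ} {n : ℕ} (hε : 0 < ε) (ha : -(1 / 2) ≤ a) (hb : b ≤ 1 / 2)
    (hy1 : ((y - Z) / u).re ≤ 0) (hy2 : ‖y - Z‖ + 1 / 2 < r) (hfar : r + ε + 1 ≤ ‖Z + u * ((n : ℂ) + 1 / 2) - y‖)
    (hloc : ∀ x : ℂ, ‖x - y‖ < r + ε → (x ∈ A ↔ x ∈ pvccPl Z u (pvrtR a b n)))
    (hBr : closedBall y rM ∪ pvccPl Z u {v | s1 ≤ v.re ∧ v.re ≤ s2 ∧ |v.im - c| ≤ w} ⊆ closedBall y r)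
    {q0 : ℂ} (hq1 : ‖Z + u * q0 - y‖ ≤ rM) (hq2 : s1 ≤ q0.re) (hq3 : q0.re ≤ s2) (hq4 : a ≤ q0.im) (hq5 : q0.im ≤ b) (hw1 : c - w ≤ a) (hw2 : b ≤ c + w) (hs1 : s1 ≤ 0) (hs2 : 0 ≤ s2) :
    IsPreconnected (A ∪ (closedBall y rM ∪ pvccPl Z u {v | s1 ≤ v.re ∧ v.re ≤ s2 ∧ |v.im - c| ≤ w}))ᶜ := by
  have hu0 : u ≠ 0 := by
    intro h
    rw [h, norm_zero] at hu
    exact zero_ne_one hu
  set y0 : ℂ := (y - Z) / u with hy0
  have ey : y = Z + u * y0 := by
    rw [hy0]
    field_simp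
    ring
  have ny0 : ‖y0‖ = ‖y - Z‖ := by rw [hy0, norm_div, hu, div_one]
  have hr : 0 < r := by linarith [norm_nonneg (y - Z)]
  have him : |y0.im| ≤ ‖y0‖ := Complex.abs_im_le_norm y0
  rw [abs_le] at him
  set F : Set ℂ := {v | s1 ≤ v.re ∧ v.re ≤ s2 ∧ |v.im - c| ≤ w} with hF
  have hFc : IsClosed F := by
    have e : F = {v : ℂ | s1 ≤ v.re} ∩ ({v : ℂ | v.re ≤ s2} ∩ {v : ℂ | |v.im - c| ≤ w}) := rfl
    rw [e]
    exact (isClosed_le continuous_const Complex.continuous_re).inter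
      ((isClosed_le Complex.continuous_re continuous_const).inter (isClosed_le (by fun_prop) continuous_const))
  have hFp : IsClosed (pvccPl Z u F) := by
    rw [pvccPl_eq_preimage _ hu0]
    exact hFc.preimage (by fun_prop)
  have hq0F : q0 ∈ F := ⟨hq2, hq3, by rw [abs_le]; constructor <;> linarith⟩
  have hqB : Z + u * q0 ∈ closedBall y rM := by rw [mem_closedBall, dist_eq_norm]; exact hq1
  have hqU : Z + u * q0 ∈ ball y (r + ε) := closedBall_subset_ball (by linarith) (hBr (Or.inl hqB))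
  -- a segment from `q`, read in the frame
  have hseg : ∀ v : ℂ, ∀ x ∈ segment ℝ (Z + u * q0) (Z + u * v), ∃ α β : ℝ, 0 ≤ α ∧ 0 ≤ β ∧ α + β = 1 ∧ x = Z + u * (α • q0 + β • v) := by
    rintro v x ⟨α, β, h1, h2, h3, rfl⟩
    refine ⟨α, β, h1, h2, h3, ?_⟩
    have eα : (α : ℂ) = 1 - β := by
      have : α = 1 - β := by linarith
      rw [this]
      push_cast
      ring
    simp only [Complex.real_smul]
    rw [eα]
    ring
  refine pvrj_blob hA (isClosed_closedBall.union hFp) hAc hu (q := Z + u * q0) (y1 := a - y0.im) (y2 := b - y0.im) hr hε (by linarith [him.2]) (by linarith [him.1]) hBr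
    (Or.inl hqB) ?_ ?_
  · intro x hx hxU
    rcases hx with hx | hx | hx
    · -- a point of the run
      obtain ⟨v, ⟨v1, v2, v3, v4⟩, rfl⟩ := (hloc x hxU).1 hx
      intro z hz
      have hzU : z ∈ ball y (r + ε) := (convex_ball y (r + ε)).segment_subset hqU (by rw [mem_ball, dist_eq_norm]; exact hxU) hz
      obtain ⟨α, β, h1, h2, h3, rfl⟩ := hseg v z hz
      have ere : (α • q0 + β • v).re = α * q0.re + β * v.re := by simp
      have eim : (α • q0 + β • v).im = α * q0.im + β * v.im := by simp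
      obtain ⟨i1, i2⟩ := pvrt_cvx_aux h1 h2 h3 hq4 hq5 v3 v4
      by_cases hc : α * q0.re + β * v.re ≤ s2
      · refine Or.inr (Or.inr ⟨_, ⟨?_, ?_, ?_⟩, rfl⟩)
        · rw [ere]; exact (pvrt_cvx_aux h1 h2 h3 hq2 (le_max_left _ _) (hs1.trans v1) (le_max_right _ _)).1
        · rw [ere]; exact hc
        · rw [eim, abs_le]; constructor <;> linarith
      · push_neg at hc
        refine Or.inl ((hloc _ (by rwa [mem_ball, dist_eq_norm] at hzU)).2 ⟨_, ⟨?_, ?_, ?_, ?_⟩, rfl⟩)
        · rw [ere]; linarith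
        · rw [ere]
          have hsv : s2 < v.re := by
            by_contra hcc
            push_neg at hcc
            have := (pvrt_cvx_aux h1 h2 h3 hq2 hq3 (hs1.trans v1) hcc).2
            linarith
          exact ((pvrt_cvx_aux h1 h2 h3 hq2 (hq3.trans hsv.le) (hs1.trans v1) le_rfl).2).trans v2
        · rw [eim]; exact i1
        · rw [eim]; exact i2
    · exact ((convex_closedBall y rM).segment_subset hqB hx).trans (fun z hz => Or.inr (Or.inl hz))
    · obtain ⟨v, ⟨v1, v2, v3⟩, rfl⟩ := hx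
      intro z hz
      obtain ⟨α, β, h1, h2, h3, rfl⟩ := hseg v z hz
      have ere : (α • q0 + β • v).re = α * q0.re + β * v.re := by simp
      have eim : (α • q0 + β • v).im = α * q0.im + β * v.im := by simp
      rw [abs_le] at v3
      refine Or.inr (Or.inr ⟨_, ⟨?_, ?_, ?_⟩, rfl⟩)
      · rw [ere]; exact (pvrt_cvx_aux h1 h2 h3 hq2 hq3 v1 v2).1
      · rw [ere]; exact (pvrt_cvx_aux h1 h2 h3 hq2 hq3 v1 v2).2
      · have := pvrt_cvx_aux h1 h2 h3 (show c - w ≤ q0.im by linarith) (show q0.im ≤ c + w by linarith) (show c - w ≤ v.im by linarith [v3.1]) (show v.im ≤ c + w by linarith [v3.2])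
        rw [eim, abs_le]; constructor <;> linarith [this.1, this.2]
  · intro w' h1 h2
    have hx : ‖y + u * w' - y‖ < r + ε := by rwa [add_sub_cancel_left, norm_mul, hu, one_mul]
    rw [hloc _ hx]
    have hfar' : r + ε + 1 ≤ ‖((n : ℂ) + 1 / 2) - y0‖ := by
      have e : Z + u * ((n : ℂ) + 1 / 2) - y = u * (((n : ℂ) + 1 / 2) - y0) := by
        rw [ey]
        ring
      rwa [e, norm_mul, hu, one_mul] at hfar
    rw [← pvrt_end ha hb hy1 (by rw [ny0]; exact hy2) hfar' h1 h2]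
    constructor
    · rintro ⟨v, hv, hvx⟩
      have e : Z + u * v = Z + u * (y0 + w') := by
        have : Z + u * v = y + u * w' := hvx
        rw [this, ey]
        ring
      rw [← pvcc_pl_injective Z hu0 e]
      exact hv
    · intro hv
      refine ⟨y0 + w', hv, ?_⟩
      show Z + u * (y0 + w') = y + u * w'
      rw [ey]
      ring

/-- two convex sets with a common point -/
theorem pvrj_union_star {S T : Set ℂ} {q : ℂ} (hS : Convex ℝ S) (hT : Convex ℝ T) (hqS : q ∈ S) (hqT : q ∈ T) : StarConvex ℝ q (S ∪ T) :=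
  (hS.starConvex hqS).union (hT.starConvex hqT)

theorem pvrj_eqns_cite : True := by
  trivial

end Claimed.Agent.R289
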