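import Claimed.Agent.R289.Tr.RegT
import Claimed.Agent.R289.Tr.RegK

/-!
# Row 289 (S0537), THE WALL, ROAD E, file Tr/RegY : THE LINES ON THE REGIONS, PROVED AT THE REGIONS OF RECORD      (helper39; prefix `pvry`)

`π := pvfeRegAt Γ ty cp cm N h p` (209, `Defs/FitReg`; `= pvxrReg 𝔓 m ⟨p, Zs, Zt⟩` of helper1, `Exit/TrPar`).      No site, no colour in sec. 1.
* sec. 1  colour-free, site-free lines: `pvry_hole` (`Yinᶜ` preconnected = `pvrt_regAt`), `pvry_bdd`, `pvry_ball_t`, `pvry_ball_s`, `pvry_collar`;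
          the lines of 227 (`pvc2_Col_model`): `pvry_col_conn` (`Ycol` preconnected), `pvry_col_reg` (`vorNbd Ycol r ⊆ Yreg`), `pvry_col_out` (`vorNbd Ycol r` misses `Yout`), `pvry_in_cov` (`Yin ⊆ Ycol ∪ two balls`)
          `pvry_ix` : `PvfeIx` (209, FitReg v5: `PvfeLk`, `sep`) + `PvfeDoors` + `Γ.Ok` ⟹ `PvryIx` (what excludes holes)
* sec. 2  **`pvry_reg`** : ONE STOP `𝔇.Reg (pvrkK Y π)` on the Delaunay map from `Ok` + index predicates + mesh `μ` on `Yreg`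
-/

set_option autoImplicit false

namespace Claimed.Agent.R289

open Set Metric

section lines

variable {τ : Type} {Γ : PvtsGeo τ} {ty : τ → PvwTy} {cp cm : τ → Set ℂ} {N : PvwNum} {h : ℝ} {p : PvtsPat τ}

/-- **the index predicates which exclude holes** -/
structure PvryIx (Γ : PvtsGeo τ) (ty : τ → PvwTy) (N : PvwNum) (h : ℝ) (p : PvtsPat τ) : Prop where
  ok : Γ.Ok p
  nr : PvfeNR p.l
  noz : PvrtNoz (N.rho * h / 2 + 2 * Γ.δ) ((ty p.ts).cm h p.zs) ((ty p.tt).cp h p.zt) (pvfeZ Γ p) (pvfeD Γ p) p.l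
  sep : N.rho * h + Γ.δ ≤ ‖(ty p.ts).cm h p.zs - (ty p.tt).cp h p.zt‖

theorem pvry_norm_le_N (w : ℂ) : ‖w‖ ≤ 2 * pvccN w := by
  have h0 := Complex.norm_le_abs_re_add_abs_im w
  have h1 : |w.re| ≤ pvccN w := le_max_left _ _
  have h2 : |w.im| ≤ pvccN w := le_max_right _ _
  linarith

/-- the two mouths are far apart (from `PvfeIx.sep`: the largest boxes are `8 h` apart; `nd_p nd_m`: the grid centres of the tip cells sit on the boundary of the own-level boxes) -/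
theorem pvry_sep {Z : Set (ℤ × ℤ)} (hD : PvfeDoors Γ ty N h) (hI : PvfeIx Γ ty N h p Z) (hh : 0 < h) (hρ0 : 0 ≤ N.rho) (hρ1 : N.rho ≤ 1) (hρ' : 0 ≤ N.rho1)
    (hks : (ty p.ts).k ≤ N.K) (hkt : (ty p.tt).k ≤ N.K) : 7 * h ≤ ‖(ty p.ts).cm h p.zs - (ty p.tt).cp h p.zt‖ := by
  have hs := hI.sep
  have a1 := (abs_le.1 (hD.nd_m p.ts)).2
  have a2 := (abs_le.1 (hD.nd_p p.tt)).2
  have k1 : ((ty p.ts).k : ℝ) ≤ N.K := by exact_mod_cast hks
  have k2 : ((ty p.tt).k : ℝ) ≤ N.K := by exact_mod_cast hkt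
  have b1 : ‖(h : ℂ) * (ty p.ts).ym‖ ≤ 2 * pvwRad N h (ty p.ts) N.K + h / 2 := by
    rw [norm_mul, Complex.norm_real, Real.norm_eq_abs, abs_of_pos hh]
    have := pvry_norm_le_N (ty p.ts).ym
    unfold pvwRad
    have e1 : ((ty p.ts).k : ℝ) * N.rho1 ≤ N.K * N.rho1 := mul_le_mul_of_nonneg_right k1 hρ'
    have e2 : ‖(ty p.ts).ym‖ ≤ 2 * (2 * (ty p.ts).b2 + N.K * N.rho1) + 1 / 2 := by linarith
    nlinarith
  have b2 : ‖(h : ℂ) * (ty p.tt).yp‖ ≤ 2 * pvwRad N h (ty p.tt) N.K + h / 2 := by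
    rw [norm_mul, Complex.norm_real, Real.norm_eq_abs, abs_of_pos hh]
    have := pvry_norm_le_N (ty p.tt).yp
    unfold pvwRad
    have e1 : ((ty p.tt).k : ℝ) * N.rho1 ≤ N.K * N.rho1 := mul_le_mul_of_nonneg_right k2 hρ'
    have e2 : ‖(ty p.tt).yp‖ ≤ 2 * (2 * (ty p.tt).b2 + N.K * N.rho1) + 1 / 2 := by linarith
    nlinarith
  have e : p.zs - p.zt = ((ty p.ts).cm h p.zs - (ty p.tt).cp h p.zt) - (h : ℂ) * (ty p.ts).ym + (h : ℂ) * (ty p.tt).yp := by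
    unfold PvwTy.cm PvwTy.cp
    ring
  have t1 : ‖p.zs - p.zt‖ ≤ ‖(ty p.ts).cm h p.zs - (ty p.tt).cp h p.zt‖ + ‖(h : ℂ) * (ty p.ts).ym‖ + ‖(h : ℂ) * (ty p.tt).yp‖ := by
    rw [e]
    exact (norm_add_le _ _).trans (add_le_add (norm_sub_le _ _) le_rfl)
  linarith

/-- the exit door of a cell is at distance `‖d‖ / 2` of its centre -/
theorem pvry_door_ctr (z d : ℂ) (l : List PvtTurn) {j : ℕ} (hj : j < l.length) : ‖pvccZ z d l (j + 1) - pvccC z d l j‖ = ‖d‖ / 2 := by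
  have e : pvccZ z d l (j + 1) - pvccC z d l j = pvccD d l j * ((pvccT l j).mid - 1 / 2) := by
    rw [pvccZ_succ z d l hj]
    unfold pvccC
    ring
  have hm : ∀ t : PvtTurn, ‖t.mid - 1 / 2‖ = 1 / 2 := by
    intro t
    cases t with
    | S =>
      have : (PvtTurn.S.mid - 1 / 2 : ℂ) = ((1 / 2 : ℝ) : ℂ) := by simp [PvtTurn.mid]; norm_num
      rw [this, Complex.norm_real]; norm_num
    | L =>
      have : (PvtTurn.L.mid - 1 / 2 : ℂ) = ((1 / 2 : ℝ) : ℂ) * Complex.I := by simp [PvtTurn.mid]; ring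
      rw [this, norm_mul, Complex.norm_real, Complex.norm_I]; norm_num
    | R =>
      have : (PvtTurn.R.mid - 1 / 2 : ℂ) = ((-(1 / 2) : ℝ) : ℂ) * Complex.I := by simp [PvtTurn.mid]; ring
      rw [this, norm_mul, Complex.norm_real, Complex.norm_I]; norm_num
  rw [e, norm_mul, pvfe_norm_frame, hm]
  ring

/-- **`PvfeLk` (strong MB of 209, FitReg v5) + the doors ⟹ the form which excludes holes**: both links are non empty because the doors lie inside the inner mouths -/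
theorem pvry_noz {Z : Set (ℤ × ℤ)} (hD : PvfeDoors Γ ty N h) (hδ : 0 < Γ.δ) (h16 : 16 * Γ.δ < N.rho * h) (hok : Γ.Ok p) (hI : PvfeIx Γ ty N h p Z)
    (hsep : N.rho * h ≤ ‖(ty p.ts).cm h p.zs - (ty p.tt).cp h p.zt‖) :
    PvrtNoz (N.rho * h / 2 + 2 * Γ.δ) ((ty p.ts).cm h p.zs) ((ty p.tt).cp h p.zt) (pvfeZ Γ p) (pvfeD Γ p) p.l := by
  obtain ⟨nt, ns, h1, -, -, St, Ss, ft, fs, -⟩ := hI.lk
  obtain ⟨-, t2⟩ := pvrt_door_t hD hδ h16 p
  obtain ⟨-, s2⟩ := pvrt_door_s hD hδ h16 hok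
  have hn : ‖pvfeD Γ p‖ = Γ.δ := by rw [pvfe_norm_D, abs_of_pos hδ]
  rw [hn] at t2 s2
  set ys := (ty p.ts).cm h p.zs with hys
  set yt := (ty p.tt).cp h p.zt with hyt
  set z := pvfeZ Γ p with hz
  set d := pvfeD Γ p with hd
  -- the word is not empty
  have hlen : 0 < p.l.length := by
    by_contra hc
    have h0 : p.l.length = 0 := by omega
    rw [h0, pvccZ_zero] at s2
    have : ‖ys - yt‖ ≤ ‖ys - z‖ + ‖yt - z‖ := by
      have e : ys - yt = (ys - z) - (yt - z) := by ring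
      rw [e]; exact norm_sub_le _ _
    linarith
  have hnt : 1 ≤ nt := by
    by_contra hc
    have h0 : nt = 0 := by omega
    have h2 := ft 0 (by omega) hlen
    have e : pvccC z d p.l 0 - yt = d / 2 - (yt - z) := by
      unfold pvccC
      rw [pvccZ_zero, pvccD_zero]; ring
    have h3 : ‖pvccC z d p.l 0 - yt‖ ≤ Γ.δ / 2 + ‖yt - z‖ := by
      rw [e]
      refine (norm_sub_le _ _).trans ?_
      rw [norm_div, hn]
      norm_num
    linarith
  have hns : 1 ≤ ns := by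
    by_contra hc
    have h0 : ns = 0 := by omega
    obtain ⟨n, hn'⟩ : ∃ n, p.l.length = n + 1 := ⟨p.l.length - 1, by omega⟩
    have h2 := fs n (by omega)
    have h4 := pvry_door_ctr z d p.l (j := n) (by omega)
    rw [hn] at h4
    rw [hn'] at s2
    have e : pvccC z d p.l n - ys = -(pvccZ z d p.l (n + 1) - pvccC z d p.l n) - (ys - pvccZ z d p.l (n + 1)) := by ring
    have h3 : ‖pvccC z d p.l n - ys‖ ≤ Γ.δ / 2 + ‖ys - pvccZ z d p.l (n + 1)‖ := by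
      rw [e]
      refine (norm_sub_le _ _).trans ?_
      rw [norm_neg, h4]
    linarith
  exact ⟨nt, ns, hnt, hns, h1, St, Ss, fun i a b => by have := ft i a b; linarith, fun i a => by have := fs i a; linarith⟩

/-- **the index predicates of record give `PvryIx`** -/
theorem pvry_ix {Z : Set (ℤ × ℤ)} (hD : PvfeDoors Γ ty N h) (hδ : 0 < Γ.δ) (h16 : 16 * Γ.δ < N.rho * h) (hok : Γ.Ok p) (hI : PvfeIx Γ ty N h p Z) (hh : 0 < h) (hρ0 : 0 ≤ N.rho) (hρ1 : N.rho ≤ 1)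
    (hρ' : 0 ≤ N.rho1) (hks : (ty p.ts).k ≤ N.K) (hkt : (ty p.tt).k ≤ N.K) : PvryIx Γ ty N h p := by
  have h7 := pvry_sep hD hI hh hρ0 hρ1 hρ' hks hkt
  have h1 : N.rho * h ≤ h := by nlinarith
  exact ⟨hok, hI.nr, pvry_noz hD hδ h16 hok hI (by linarith), by linarith⟩

theorem pvry_hole (hD : PvfeDoors Γ ty N h) (hδ : 0 < Γ.δ) (h16 : 16 * Γ.δ < N.rho * h) (hp : PvryIx Γ ty N h p) : IsPreconnected ((pvfeRegAt Γ ty cp cm N h p).Yin)ᶜ :=
  pvrt_regAt cp cm hD hδ h16 hp.ok hp.nr hp.noz hp.sep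

theorem pvry_bdd : Bornology.IsBounded (pvfeRegAt Γ ty cp cm N h p).Yin := pvrt_in_bdd _ _ _ _ _ _

theorem pvry_ball_t : closedBall ((pvfeRegAt Γ ty cp cm N h p).tt.cp h (pvfeRegAt Γ ty cp cm N h p).zt) (N.rho * h / 2) ⊆ (pvfeRegAt Γ ty cp cm N h p).Yin :=
  fun _ hx => Or.inl (Or.inr hx)

theorem pvry_ball_s : closedBall ((pvfeRegAt Γ ty cp cm N h p).ts.cm h (pvfeRegAt Γ ty cp cm N h p).zs) (N.rho * h / 2) ⊆ (pvfeRegAt Γ ty cp cm N h p).Yin :=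
  fun _ hx => Or.inr hx

theorem pvry_collar (hρ : 0 ≤ N.rho * h) {c : ℝ} (hc : c ≤ 2 * |Γ.δ|) : ∀ z ∈ (pvfeRegAt Γ ty cp cm N h p).Yin, closedBall z c ⊆ (pvfeRegAt Γ ty cp cm N h p).Yreg := by
  intro z hz
  refine pvrt_in_collar (κ := 3) ?_ ?_ hz
  · rw [pvfe_norm_D]
    linarith
  · rw [pvfe_norm_D]
    linarith [abs_nonneg Γ.δ]

/-- the closed thickening of a preconnected set of the plane is preconnected -/
theorem pvry_109_cthick {S : Set ℂ} (hS : IsPreconnected S) (δ : ℝ) : IsPreconnected (cthickening δ S) := by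
  rcases lt_or_ge 0 δ with hδ | hδ
  · rw [← closure_thickening hδ, ← add_ball_zero, ← Set.add_image_prod]
    exact ((hS.prod (convex_ball (0 : ℂ) δ).isPreconnected).image _ (by fun_prop)).closure
  · rw [cthickening_of_nonpos hδ]
    exact hS.closure

/-- the lanes of the first `n` cells form a preconnected set -/
theorem pvry_109_lanes (z d : ℂ) (l : List PvtTurn) : ∀ n, n ≤ l.length → IsPreconnected (⋃ j ∈ Finset.range n, pvccK (pvfeLane (-(1 / 10)) (4 / 10)) z d l j) := by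
  have hK : ∀ j, IsPreconnected (pvccK (pvfeLane (-(1 / 10)) (4 / 10)) z d l j) := by
    intro j
    refine IsPreconnected.image ?_ _ (by fun_prop)
    have h := pvrt_ln_star (pvccT l j)
    have hne : (1 / 2 : ℂ) + (1 / 5 : ℂ) * Complex.I ∈ pvrtLn (pvccT l j) := by
      generalize pvccT l j = τ
      cases τ <;> simp [pvrtLn, pvfeLane] <;> norm_num
    exact (h.isPathConnected hne).isConnected.isPreconnected
  have h0 : ∀ τ : PvtTurn, (0 : ℂ) ∈ pvfeLane (-(1 / 10)) (4 / 10) τ := by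
    intro τ
    cases τ <;> simp [pvfeLane] <;> norm_num
  have hm : ∀ τ : PvtTurn, τ.mid ∈ pvfeLane (-(1 / 10)) (4 / 10) τ := by
    intro τ
    cases τ <;> simp [pvfeLane, PvtTurn.mid] <;> norm_num
  intro n
  induction n with
  | zero => intro _; simpa using isPreconnected_empty
  | succ n ih =>
    intro hn
    rw [Finset.range_add_one, Finset.set_biUnion_insert, union_comm]
    rcases Nat.eq_zero_or_pos n with rfl | hpos
    · simpa using hK 0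
    · obtain ⟨k, rfl⟩ : ∃ k, n = k + 1 := ⟨n - 1, by omega⟩
      refine (ih (by omega)).union (pvccZ z d l (k + 1)) ?_ ?_ (hK _)
      · refine mem_iUnion₂.2 ⟨k, Finset.mem_range.2 (by omega), (pvccT l k).mid, hm _, ?_⟩
        exact (pvccZ_succ z d l (by omega)).symm
      · exact ⟨0, h0 _, by simp⟩

/-- `Ycol` is preconnected -/
theorem pvry_col_conn : IsPreconnected (pvfeRegAt Γ ty cp cm N h p).Ycol := by
  exact pvry_109_cthick (pvry_109_lanes _ _ _ _ le_rfl) _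

/-- `Ycol` and `Yout` are `‖d‖/20` apart (FitReg v5) -/
theorem pvry_col_out {r : ℝ} (hr : r < |Γ.δ| / 20) : Disjoint (vorNbd (pvfeRegAt Γ ty cp cm N h p).Ycol r) (pvfeRegAt Γ ty cp cm N h p).Yout := by
  rw [Set.disjoint_left]
  rintro x ⟨w, hw, hxw⟩ hx
  have hw' : w ∈ cthickening (‖pvfeD Γ p‖ / 20) (pvfeLanes (-(1 / 10)) (4 / 10) (pvfeZ Γ p) (pvfeD Γ p) p.l) := hw
  have hx' : x ∈ pvfeOut (N.rho * h / 2) (N.rho * h) ((ty p.ts).cm h p.zs) ((ty p.tt).cp h p.zt) (pvfeZ Γ p) (pvfeD Γ p) p.l := hx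
  have hr0 : 0 ≤ r := (norm_nonneg _).trans hxw
  refine hx'.2 ?_
  have hn := pvfe_norm_D Γ p
  have h1 : x ∈ cthickening r (cthickening (‖pvfeD Γ p‖ / 20) (pvfeLanes (-(1 / 10)) (4 / 10) (pvfeZ Γ p) (pvfeD Γ p) p.l)) :=
    mem_cthickening_of_dist_le x w _ _ hw' (by rw [dist_eq_norm]; exact hxw)
  have h2 := cthickening_cthickening_subset hr0 (by positivity : 0 ≤ ‖pvfeD Γ p‖ / 20) _ h1
  have h3 := cthickening_mono (show r + ‖pvfeD Γ p‖ / 20 ≤ ‖pvfeD Γ p‖ / 10 by rw [hn]; linarith) _ h2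
  refine cthickening_subset_of_subset _ ?_ h3
  unfold pvfeIn
  exact subset_union_left.trans subset_union_left

/-- the `r`-neighbourhood of `Ycol` lies in `Yreg` -/
theorem pvry_col_reg {r : ℝ} (hr : r ≤ |Γ.δ|) : vorNbd (pvfeRegAt Γ ty cp cm N h p).Ycol r ⊆ (pvfeRegAt Γ ty cp cm N h p).Yreg := by
  rintro w ⟨x, hx, hwx⟩
  have hd : ‖pvfeD Γ p‖ = |Γ.δ| := pvfe_norm_D Γ p
  have hpos : 0 < |Γ.δ| := abs_pos.2 Γ.δ0
  have hx' : x ∈ cthickening (‖pvfeD Γ p‖ / 20) (pvfeLanes (-(1 / 10)) (4 / 10) (pvfeZ Γ p) (pvfeD Γ p) p.l) := hx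
  have h1 := cthickening_subset_thickening' (δ₂ := ‖pvfeD Γ p‖ / 10) (by rw [hd]; positivity) (by rw [hd]; linarith) _ hx'
  obtain ⟨y, hy, hxy⟩ := mem_thickening_iff.1 h1
  unfold pvfeLanes at hy
  simp only [mem_iUnion, Finset.mem_range, exists_prop] at hy
  obtain ⟨j, hj, hyj⟩ := hy
  have h2 := pvfe_K_sub_ball (by norm_num) (by norm_num) _ _ _ j hyj
  rw [mem_closedBall_iff_norm] at h2
  rw [dist_eq_norm] at hxy
  refine Or.inl (Or.inl (pvfe_mem_tube.2 ⟨j, hj, ?_⟩))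
  have e : w - pvccC (pvfeZ Γ p) (pvfeD Γ p) p.l j = (w - x) + (x - y) + (y - pvccC (pvfeZ Γ p) (pvfeD Γ p) p.l j) := by ring
  have h3 : ‖w - pvccC (pvfeZ Γ p) (pvfeD Γ p) p.l j‖ ≤ ‖w - x‖ + ‖x - y‖ + ‖y - pvccC (pvfeZ Γ p) (pvfeD Γ p) p.l j‖ := by
    rw [e]
    exact (norm_add_le _ _).trans (add_le_add (norm_add_le _ _) le_rfl)
  rw [hd] at h2 hxy ⊢
  linarith

/-- `Yin` = collared lanes + the two inner mouths -/
theorem pvry_in_cov : (pvfeRegAt Γ ty cp cm N h p).Yin ⊆ (pvfeRegAt Γ ty cp cm N h p).Ycol ∪ closedBall ((pvfeRegAt Γ ty cp cm N h p).tt.cp h (pvfeRegAt Γ ty cp cm N h p).zt) (N.rho * h / 2) ∪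
    closedBall ((pvfeRegAt Γ ty cp cm N h p).ts.cm h (pvfeRegAt Γ ty cp cm N h p).zs) (N.rho * h / 2) := by
  rintro x ((hx | hx) | hx)
  · exact Or.inl (Or.inl (self_subset_cthickening _ hx))
  · exact Or.inl (Or.inr hx)
  · exact Or.inr hx

end lines

/-! ## 2. ONE STOP -/

/-- **`Reg K` AT THE REGIONS OF RECORD** -/
theorem pvry_reg {Y : Set ℂ} (hY : DelGood Y) {τ : Type} {Γ : PvtsGeo τ} {ty : τ → PvwTy} {cp cm : τ → Set ℂ} {N : PvwNum} {h : ℝ} {p : PvtsPat τ}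
    (𝔇 : PvwDat (delMap hY)) (hOk : 𝔇.Ok (dlsPos Y) N h (pvfeRegAt Γ ty cp cm N h p)) (hD : PvfeDoors Γ ty N h) (hδ : 0 < Γ.δ) (h16 : 16 * Γ.δ < N.rho * h) (hp : PvryIx Γ ty N h p)
    {μ : ℝ} (hμ : 0 < μ) (hμδ : 3 * μ ≤ 2 * Γ.δ) (hd : VorDense Y (pvfeRegAt Γ ty cp cm N h p).Yreg μ) : 𝔇.Reg (pvrkK Y (pvfeRegAt Γ ty cp cm N h p)) := by
  have hρ : 0 ≤ N.rho * h := by linarith
  exact pvrk_reg_mesh hY 𝔇 hOk (pvfe_regAt_wf Γ ty cp cm hρ p) (pvry_hole hD hδ h16 hp) pvry_bdd hμ (by linarith) pvry_ball_t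
    (pvry_collar hρ (by rw [abs_of_pos hδ]; exact hμδ)) hd

theorem pvry_eqns_cite : True := by
  trivial

end Claimed.Agent.R289
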