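-- KEEP
import Claimed.Agent.R289.Tr.RetMk
import Claimed.Agent.R289.Tr.LinkLoc
import Claimed.Agent.R289.Tr.PinLocB

/-!
# Row 289 (S0537), THE WALL, road E, MEAS, file Tr/RetMkL : **(L) LOCALITY AMONG SIMPLE SPHERES, AT WITNESS LEVEL**      (helper231; post of 289 id 88394 (3); prefix `pvzj_`, `Pvzj`)

The generic layer (247, `Tr/MeasG`, `Tr/MeasGA`) asks (L) `PvymFn.Local K`: invariance under `PvplIso T pos s T' pos' s' K R` (position marks) of simple spheres.      This file: EVERY WITNESS HAS A TWIN, and what the twins share.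
No name of the model occurs in sec. 1-4: the states are `PvwSt.AtOut / AtIn / At` of `Tr/Defs` v3; the twin relations `PvLocSP / SM / St R 𝔖 𝔖'` (22) do not mention positions, so they serve ANY frame (`pvll_locP_map` of 74).

* sec. 1  THE ADAPTER `pvzj_locP`, `pvzj_locP_of` : `PvplIso` of simple spheres ⟹ `PvLocP T T' (pvplRK ..) pos pos' K` of 22
* sec. 2  WHAT TWINS SHARE: `pvzj_set_image` (corresponding sets have THE SAME SET OF POSITIONS), `pvzj_fzOut_image`, `pvzj_fzIn_image`, `pvzj_fz_image`, tips `pvzj_tip_p/m` (black ends; mid points: `pvlw_xp/xm` of 22), inner arcs `pvzj_inn_pos`,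
          the bundles **`PvzjShP pos pos' 𝔖 𝔖'`**, **`PvzjShM ..`** (positions only) and `pvzj_shP`, `pvzj_shM`; hull cells: `PvzjShP.hull`
* sec. 3  TWINS EXIST: **`pvzj_out_twin`**, **`pvzj_in_twin`**, **`pvzj_at_twin`**;   what a link reads of a half state: `pvzj_llP`, `pvzj_llM` (`PvllP`, `PvllM` of 74)
* sec. 4  masks and clauses on the inner arc along twins: `pvzj_mask_p/m`, `pvzj_innc_p/m`
* sec. 5  the forms of `Tr/RetMk`: `pvzj_outM/inM/atM` (along a twin), **`pvzj_outM_iso`, `pvzj_inM_iso`, `pvzj_atM_iso`** (from `PvplIso`: twin + shared data), `pvzj_arcH_iso`, `pvzj_arc_iso` (links: twin ends, twin rim arc, same time)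
* sec. 6  (L): **`pvzj_U_local`, `pvzj_Uo_local`, `pvzj_Ui_local`, `pvzj_A_local`, `pvzj_Ah_local`**
-/

set_option autoImplicit false

namespace Claimed.Agent.R289

open Set Claims.C0465

variable {V D V' D' : Type}

/-! ## 1. the adapter -/

section adapter

variable {T : PvMap V D} {T' : PvMap V' D'} {pos : V → ℂ} {pos' : V' → ℂ} {s : V → Bool} {s' : V' → Bool} {K : Set ℂ} {R : V → V' → Prop}

theorem pvzj_dart_at (hT : T.IsSph) (d0 : D) (v : V) : ∃ d, T.src d = v := by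
  rcases Relation.ReflTransGen.cases_head (hT.conn v (T.src d0)) with h | ⟨w, ⟨d, hd, -⟩, -⟩
  · exact ⟨d0, h.symm⟩
  · exact ⟨d, hd⟩

/-- **THE ADAPTER** -/
theorem pvzj_locP (hT : T.IsSph) (hS : T.Simple) (hT' : T'.IsSph) (hS' : T'.Simple) (hi : PvplIso T pos s T' pos' s' K R) (d0 : D) (d0' : D') :
    PvLocP T T' (pvplRK T pos T' K R) pos pos' K :=
  ⟨hi.toLoc hS hS', hi.loc_mark, fun v hv => ⟨hi.full hv, pvzj_dart_at hT d0 v⟩, fun v' hv' => ⟨hi.full' hv', pvzj_dart_at hT' d0' v'⟩⟩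

/-- the adapter, from ONE dart which starts in `K` -/
theorem pvzj_locP_of (hT : T.IsSph) (hS : T.Simple) (hT' : T'.IsSph) (hS' : T'.Simple) (hi : PvplIso T pos s T' pos' s' K R) {d0 : D} (h0 : pos (T.src d0) ∈ K) :
    PvLocP T T' (pvplRK T pos T' K R) pos pos' K := by
  obtain ⟨d0', -⟩ := hi.ex d0 h0
  exact pvzj_locP hT hS hT' hS' hi d0 d0'

end adapter

/-! ## 2. what twins share -/

/-- **what the twins of an EXIT half state share** (positions only) -/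
structure PvzjShP {T : PvMap V D} {T' : PvMap V' D'} (pos : V → ℂ) (pos' : V' → ℂ) (𝔖 : PvwSt T) (𝔖' : PvwSt T') : Prop where
  /-- the frozen sites sit at the same places -/
  fz : pos '' 𝔖.fzOut = pos' '' 𝔖'.fzOut
  /-- the tip (mid point of the last position) -/
  xp : 𝔖'.xp pos' = 𝔖.xp pos
  /-- the black end and the white end of the last position -/
  tip : pos' (T'.src (𝔖'.ep 𝔖'.np)) = pos (T.src (𝔖.ep 𝔖.np))
  tipw : pos' (T'.tgt (𝔖'.ep 𝔖'.np)) = pos (T.tgt (𝔖.ep 𝔖.np))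
  np : 𝔖'.np = 𝔖.np
  ip : 𝔖'.ip = 𝔖.ip
  inn_n : 𝔖'.inn.n = 𝔖.inn.n
  inn : ∀ k, k ≤ 𝔖.inn.n → pos' (𝔖'.inn.v k) = pos (𝔖.inn.v k)
  ep : ∀ i, i ≤ 𝔖.np → pos' (T'.src (𝔖'.ep i)) = pos (T.src (𝔖.ep i)) ∧ pos' (T'.tgt (𝔖'.ep i)) = pos (T.tgt (𝔖.ep i))

/-- **what the twins of an ENTRANCE half state share** -/
structure PvzjShM {T : PvMap V D} {T' : PvMap V' D'} (pos : V → ℂ) (pos' : V' → ℂ) (𝔖 : PvwSt T) (𝔖' : PvwSt T') : Prop where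
  fz : pos '' 𝔖.fzIn = pos' '' 𝔖'.fzIn
  xm : 𝔖'.xm pos' = 𝔖.xm pos
  tip : pos' (T'.src (𝔖'.em 𝔖'.nm)) = pos (T.src (𝔖.em 𝔖.nm))
  tipw : pos' (T'.tgt (𝔖'.em 𝔖'.nm)) = pos (T.tgt (𝔖.em 𝔖.nm))
  nm : 𝔖'.nm = 𝔖.nm
  ip : 𝔖'.ip = 𝔖.ip
  inn_n : 𝔖'.inn.n = 𝔖.inn.n
  inn : ∀ k, k ≤ 𝔖.inn.n → pos' (𝔖'.inn.v k) = pos (𝔖.inn.v k)
  em : ∀ i, i ≤ 𝔖.nm → pos' (T'.src (𝔖'.em i)) = pos (T.src (𝔖.em i)) ∧ pos' (T'.tgt (𝔖'.em i)) = pos (T.tgt (𝔖.em i))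

section share

variable {T : PvMap V D} {T' : PvMap V' D'} {R : D → D' → Prop} {pos : V → ℂ} {pos' : V' → ℂ} {Kr : Set ℂ}

theorem pvzj_src_rel {d : D} {d' : D'} (h : R d d') : pvlocV T T' R (T.src d) (T'.src d') := ⟨d, d', h, rfl, rfl⟩

/-- **corresponding sets of vertices have the same set of positions** -/
theorem pvzj_set_image (L : PvLocP T T' R pos pos' Kr) {A : Set V} {A' : Set V'} (h : PvLocSet T T' R A A') : pos '' A = pos' '' A' := by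
  ext w
  constructor
  · rintro ⟨v, hv, rfl⟩
    obtain ⟨v', h1, h2⟩ := h.1 v hv
    exact ⟨v', h2, (pvlw_pos L h1).symm⟩
  · rintro ⟨v', hv', rfl⟩
    obtain ⟨v, h1, h2⟩ := h.2 v' hv'
    exact ⟨v, h2, pvlw_pos L h1⟩

theorem pvzj_fzOut_image (L : PvLocP T T' R pos pos' Kr) {𝔖 : PvwSt T} {𝔖' : PvwSt T'} (G : PvLocSP R 𝔖 𝔖') : pos '' 𝔖.fzOut = pos' '' 𝔖'.fzOut := pvzj_set_image L (pvlw_fzOut L.loc G)

theorem pvzj_fzIn_image (L : PvLocP T T' R pos pos' Kr) {𝔖 : PvwSt T} {𝔖' : PvwSt T'} (G : PvLocSM R 𝔖 𝔖') : pos '' 𝔖.fzIn = pos' '' 𝔖'.fzIn := pvzj_set_image L (pvlw_fzIn L.loc G)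

theorem pvzj_fz_image (L : PvLocP T T' R pos pos' Kr) {𝔖 : PvwSt T} {𝔖' : PvwSt T'} (G : PvLocSt R 𝔖 𝔖') : pos '' 𝔖.fz = pos' '' 𝔖'.fz := pvzj_set_image L (pvlw_fz L.loc G)

theorem pvzj_dart_pos (L : PvLocP T T' R pos pos' Kr) {d : D} {d' : D'} (h : R d d') : pos' (T'.src d') = pos (T.src d) ∧ pos' (T'.tgt d') = pos (T.tgt d) :=
  ⟨(L.pos_eq _ _ h).symm, (L.pos_eq _ _ (L.loc.iso.nxt h)).symm⟩

theorem pvzj_tip_p (L : PvLocP T T' R pos pos' Kr) {𝔖 : PvwSt T} {𝔖' : PvwSt T'} (G : PvLocSP R 𝔖 𝔖') : pos' (T'.src (𝔖'.ep 𝔖'.np)) = pos (T.src (𝔖.ep 𝔖.np)) := by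
  rw [G.np]
  exact (pvzj_dart_pos L (G.ep _ le_rfl)).1

theorem pvzj_tip_m (L : PvLocP T T' R pos pos' Kr) {𝔖 : PvwSt T} {𝔖' : PvwSt T'} (G : PvLocSM R 𝔖 𝔖') : pos' (T'.src (𝔖'.em 𝔖'.nm)) = pos (T.src (𝔖.em 𝔖.nm)) := by
  rw [G.nm]
  exact (pvzj_dart_pos L (G.em _ le_rfl)).1

theorem pvzj_inn_pos (L : PvLocP T T' R pos pos' Kr) {𝔖 : PvwSt T} {𝔖' : PvwSt T'} (G : PvLocGt R 𝔖 𝔖') {k : ℕ} (hk : k ≤ 𝔖.inn.n) : pos' (𝔖'.inn.v k) = pos (𝔖.inn.v k) :=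
  (pvlw_pos L (G.inn.v_rel k hk)).symm

/-- the bundle, exit half -/
theorem pvzj_shP (L : PvLocP T T' R pos pos' Kr) {𝔖 : PvwSt T} {𝔖' : PvwSt T'} (G : PvLocSP R 𝔖 𝔖') : PvzjShP pos pos' 𝔖 𝔖' where
  fz := pvzj_fzOut_image L G
  xp := pvlw_xp L G
  tip := pvzj_tip_p L G
  tipw := by rw [G.np]; exact (pvzj_dart_pos L (G.ep _ le_rfl)).2
  np := G.np
  ip := G.gt.ip
  inn_n := G.gt.inn.n_eq
  inn := fun _ hk => pvzj_inn_pos L G.gt hk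
  ep := fun i hi => pvzj_dart_pos L (G.ep i hi)

/-- the bundle, entrance half -/
theorem pvzj_shM (L : PvLocP T T' R pos pos' Kr) {𝔖 : PvwSt T} {𝔖' : PvwSt T'} (G : PvLocSM R 𝔖 𝔖') : PvzjShM pos pos' 𝔖 𝔖' where
  fz := pvzj_fzIn_image L G
  xm := pvlw_xm L G
  tip := pvzj_tip_m L G
  tipw := by rw [G.nm]; exact (pvzj_dart_pos L (G.em _ le_rfl)).2
  nm := G.nm
  ip := G.gt.ip
  inn_n := G.gt.inn.n_eq
  inn := fun _ hk => pvzj_inn_pos L G.gt hk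
  em := fun i hi => pvzj_dart_pos L (G.em i hi)

/-- the set of which the hull of `Σ_out` is the set of cells is shared -/
theorem PvzjShP.hull {𝔖 : PvwSt T} {𝔖' : PvwSt T'} (H : PvzjShP pos pos' 𝔖 𝔖') (r : ℝ) :
    pos' '' 𝔖'.fzOut ∪ Metric.closedBall (𝔖'.xp pos') r = pos '' 𝔖.fzOut ∪ Metric.closedBall (𝔖.xp pos) r := by rw [H.fz, H.xp]

theorem PvzjShM.hull {𝔖 : PvwSt T} {𝔖' : PvwSt T'} (H : PvzjShM pos pos' 𝔖 𝔖') (r : ℝ) :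
    pos' '' 𝔖'.fzIn ∪ Metric.closedBall (𝔖'.xm pos') r = pos '' 𝔖.fzIn ∪ Metric.closedBall (𝔖.xm pos) r := by rw [H.fz, H.xm]

end share

/-! ## 3. twins exist -/

section exist

variable {T : PvMap V D} {T' : PvMap V' D'} {R : D → D' → Prop} {pos : V → ℂ} {pos' : V' → ℂ} {Kr : Set ℂ} {s : V → Bool} {s' : V' → Bool} {N : PvwNum} {h : ℝ} {z : ℂ} {τ : PvwTy}

/-- **EVERY EXIT HALF STATE HAS A TWIN** -/
theorem pvzj_out_twin (L : PvLocP T T' R pos pos' Kr) (hT : T.IsSph) (hs : ∀ d d', R d d' → s (T.src d) = s' (T'.src d'))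
    (hK : Metric.closedBall z (τ.b * h) ⊆ Kr) (hB : pvwSq z (pvwRad N h τ τ.k) ⊆ Kr) {𝔖 : PvwSt T} (st : 𝔖.AtOut pos N h z τ s) :
    ∃ 𝔖' : PvwSt T', PvLocSP R 𝔖 𝔖' ∧ 𝔖'.AtOut pos' N h z τ s' := by
  obtain ⟨𝔖', G⟩ := pvlw_sp_exists L hK hB st.gate st.stub
  exact ⟨𝔖', G, pvlw_atOut L hT hs G hK st⟩

/-- **EVERY ENTRANCE HALF STATE HAS A TWIN** -/
theorem pvzj_in_twin (L : PvLocP T T' R pos pos' Kr) (hT : T.IsSph) (hs : ∀ d d', R d d' → s (T.src d) = s' (T'.src d'))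
    (hK : Metric.closedBall z (τ.b * h) ⊆ Kr) (hB : pvwSq z (pvwRad N h τ τ.k) ⊆ Kr) {𝔖 : PvwSt T} (st : 𝔖.AtIn pos N h z τ s) :
    ∃ 𝔖' : PvwSt T', PvLocSM R 𝔖 𝔖' ∧ 𝔖'.AtIn pos' N h z τ s' := by
  obtain ⟨𝔖', G⟩ := pvlw_sm_exists L hK hB st.gate st.stub
  exact ⟨𝔖', G, pvlw_atIn L hT hs G hK hB st⟩

/-- **EVERY FULL STATE HAS A TWIN** -/
theorem pvzj_at_twin (L : PvLocP T T' R pos pos' Kr) (hT : T.IsSph) (hT' : T'.IsSph) (hs : ∀ d d', R d d' → s (T.src d) = s' (T'.src d'))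
    (hK : Metric.closedBall z (τ.b * h) ⊆ Kr) (hB : pvwSq z (pvwRad N h τ τ.k) ⊆ Kr) {𝔖 : PvwSt T} (st : 𝔖.At pos N h z τ s) :
    ∃ 𝔖' : PvwSt T', PvLocSt R 𝔖 𝔖' ∧ 𝔖'.At pos' N h z τ s' := by
  obtain ⟨𝔖', G⟩ := pvlw_st_exists L hK hB st.out.gate ⟨st.out.stub, st.inn.stub⟩
  exact ⟨𝔖', G, pvlw_at L hT hT' hs G hK hB st⟩

/-- the source of the entry gate edge lies in the disc -/
theorem pvzj_gate_dart {𝔖 : PvwSt T} (G : 𝔖.Gate pos h z τ s) : pos (T.src 𝔖.dm) ∈ Metric.closedBall z (τ.b * h) := by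
  obtain ⟨i, hi⟩ := G.dm_on
  rw [mem_closedBall_iff_norm]
  exact (G.ann _ ⟨i, by rw [hi]⟩).2.le

/-- the inner arc of a gate stays in the closed disc -/
theorem pvzj_inn_in {𝔖 : PvwSt T} (hg : 𝔖.Gate pos h z τ s) {k : ℕ} (hk : k ≤ 𝔖.inn.n) : pos (𝔖.inn.v k) ∈ Metric.closedBall z (τ.b * h) := by
  obtain ⟨n, h1, h2, j, -, -, a1, -⟩ := hg.strand
  obtain ⟨b1, b2, -⟩ := a1 k hk
  rw [b2]
  rcases Nat.lt_or_ge (j k) n with h3 | h3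
  · exact mem_closedBall_iff_norm.2 (hg.inside _ ⟨_, h2 _ h3, rfl⟩).le
  · have e : j k = n := le_antisymm b1 h3
    show pos (T.src (pvasIt T s 𝔖.dm (j k))) ∈ _
    rw [e, h1]
    obtain ⟨q, hq⟩ := hg.dp_on
    refine mem_closedBall_iff_norm.2 (hg.ann _ ⟨q + 1, ?_⟩).2.le
    rw [← 𝔖.S.chain q, hq, T.tgt_opp]

/-- what a link reads of an exit half state (74) -/
theorem pvzj_llP (hK : Metric.closedBall z (τ.b * h) ⊆ Kr) (hB : pvwSq z (pvwRad N h τ τ.k) ⊆ Kr) {𝔖 : PvwSt T} (st : 𝔖.AtOut pos N h z τ s) : PvllP Kr T pos s 𝔖 where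
  bw := st.gate.bw_p
  stub := fun i hi => by
    rw [← st.stub.ep_it i hi]
    exact hB (st.stub.ep_in i hi).1
  inn := fun _ hk => hK (pvzj_inn_in st.gate hk)

/-- what a link reads of an entrance half state (74) -/
theorem pvzj_llM (hK : Metric.closedBall z (τ.b * h) ⊆ Kr) (hB : pvwSq z (pvwRad N h τ τ.k) ⊆ Kr) {𝔖 : PvwSt T} (st : 𝔖.AtIn pos N h z τ s) : PvllM Kr T pos s 𝔖 where
  stub := fun i hi => by
    rw [← st.stub.em_it i hi]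
    exact hB (st.stub.em_in i hi).1
  inn := fun _ hk => hK (pvzj_inn_in st.gate hk)

end exist

/-! ## 4. masks and clauses on the inner arc, along twins -/

section masks

variable {T : PvMap V D} {T' : PvMap V' D'} {R : D → D' → Prop} {pos : V → ℂ} {pos' : V' → ℂ} {Kr : Set ℂ}

/-- the mask of the exit stub -/
theorem pvzj_mask_p (L : PvLocP T T' R pos pos' Kr) {𝔖 : PvwSt T} {𝔖' : PvwSt T'} (G : PvLocSP R 𝔖 𝔖') (hK : ∀ i, i ≤ 𝔖.np → pos (T.src (𝔖.ep i)) ∈ Kr) {M : Set ℂ}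
    (h : ∀ y : T.Pth, PvwLE T (fun i => T.src (𝔖.ep i)) 𝔖.np y → ∀ v ∈ y.verts, pos v ∈ M) :
    ∀ y' : T'.Pth, PvwLE T' (fun i => T'.src (𝔖'.ep i)) 𝔖'.np y' → ∀ v' ∈ y'.verts, pos' v' ∈ M := by
  rw [G.np]
  exact pvll_le_all L (fun i hi => pvzj_src_rel (G.ep i hi)) hK h

/-- the mask of the entrance stub -/
theorem pvzj_mask_m (L : PvLocP T T' R pos pos' Kr) {𝔖 : PvwSt T} {𝔖' : PvwSt T'} (G : PvLocSM R 𝔖 𝔖') (hK : ∀ i, i ≤ 𝔖.nm → pos (T.src (𝔖.em i)) ∈ Kr) {M : Set ℂ}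
    (h : ∀ y : T.Pth, PvwLE T (fun i => T.src (𝔖.em i)) 𝔖.nm y → ∀ v ∈ y.verts, pos v ∈ M) :
    ∀ y' : T'.Pth, PvwLE T' (fun i => T'.src (𝔖'.em i)) 𝔖'.nm y' → ∀ v' ∈ y'.verts, pos' v' ∈ M := by
  rw [G.nm]
  exact pvll_le_all L (fun i hi => pvzj_src_rel (G.em i hi)) hK h

/-- a clause on the half `mark → g⁺` of the inner arc -/
theorem pvzj_innc_p (L : PvLocP T T' R pos pos' Kr) {𝔖 : PvwSt T} {𝔖' : PvwSt T'} (G : PvLocGt R 𝔖 𝔖') {Q : ℂ → Prop}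
    (h : ∀ i, 𝔖.ip ≤ i → i ≤ 𝔖.inn.n → Q (pos (𝔖.inn.v i))) : ∀ i, 𝔖'.ip ≤ i → i ≤ 𝔖'.inn.n → Q (pos' (𝔖'.inn.v i)) := by
  intro i h1 h2
  rw [G.ip] at h1
  rw [G.inn.n_eq] at h2
  rw [pvzj_inn_pos L G h2]
  exact h i h1 h2

/-- a clause on the half `g⁻ → mark` of the inner arc -/
theorem pvzj_innc_m (L : PvLocP T T' R pos pos' Kr) {𝔖 : PvwSt T} {𝔖' : PvwSt T'} (G : PvLocGt R 𝔖 𝔖') (hip : 𝔖.ip ≤ 𝔖.inn.n) {Q : ℂ → Prop}
    (h : ∀ i, i ≤ 𝔖.ip → Q (pos (𝔖.inn.v i))) : ∀ i, i ≤ 𝔖'.ip → Q (pos' (𝔖'.inn.v i)) := by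
  intro i h1
  rw [G.ip] at h1
  rw [pvzj_inn_pos L G (h1.trans hip)]
  exact h i h1

end masks

/-! ## 5. the forms of `Tr/RetMk` -/

section states

variable {T : PvMap V D} {T' : PvMap V' D'} {R : D → D' → Prop} {pos : V → ℂ} {pos' : V' → ℂ} {Kr : Set ℂ} {s : V → Bool} {s' : V' → Bool} {N : PvwNum} {p : PviePl}

/-- the exit half state with its tip cell and its masks is carried to a twin -/
theorem pvzj_outM (L : PvLocP T T' R pos pos' Kr) (hT : T.IsSph) (hs : ∀ d d', R d d' → s (T.src d) = s' (T'.src d')) {𝔖 : PvwSt T} {𝔖' : PvwSt T'} (G : PvLocSP R 𝔖 𝔖')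
    (hK : Metric.closedBall p.z (p.ty.b * p.h) ⊆ Kr) (hB : pvwSq p.z (pvwRad N p.h p.ty p.ty.k) ⊆ Kr) (h : PvzkOutM T pos s N p 𝔖) : PvzkOutM T' pos' s' N p 𝔖' where
  st := pvlw_atOut L hT hs G hK h.st
  tip_p := by rw [pvzj_tip_p L G]; exact h.tip_p
  mask_p := pvzj_mask_p L G (fun i hi => hB (h.st.stub.ep_in i hi).1) h.mask_p
  inn_p := pvzj_innc_p L G.gt (Q := fun w => (N.m - 1) * p.h < ‖w - p.z‖ → w ∈ p.Mp) h.inn_p
  lev0 := h.lev0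

/-- the entrance half state with its tip cell and its masks is carried to a twin -/
theorem pvzj_inM (L : PvLocP T T' R pos pos' Kr) (hT : T.IsSph) (hs : ∀ d d', R d d' → s (T.src d) = s' (T'.src d')) {𝔖 : PvwSt T} {𝔖' : PvwSt T'} (G : PvLocSM R 𝔖 𝔖')
    (hK : Metric.closedBall p.z (p.ty.b * p.h) ⊆ Kr) (hB : pvwSq p.z (pvwRad N p.h p.ty p.ty.k) ⊆ Kr) (h : PvzkInM T pos s N p 𝔖) : PvzkInM T' pos' s' N p 𝔖' where
  st := pvlw_atIn L hT hs G hK hB h.st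
  tip_m := by rw [pvzj_tip_m L G]; exact h.tip_m
  mask_m := pvzj_mask_m L G (fun i hi => hB (h.st.stub.em_in i hi).1) h.mask_m
  inn_m := pvzj_innc_m L G.gt h.st.gate.ip_le (Q := fun w => (N.m - 1) * p.h < ‖w - p.z‖ → w ∈ p.Mm) h.inn_m
  lev0 := h.lev0

/-- the full state with its tip cells and its masks is carried to a twin -/
theorem pvzj_atM (L : PvLocP T T' R pos pos' Kr) (hT : T.IsSph) (hT' : T'.IsSph) (hs : ∀ d d', R d d' → s (T.src d) = s' (T'.src d')) {𝔖 : PvwSt T} {𝔖' : PvwSt T'} (G : PvLocSt R 𝔖 𝔖')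
    (hK : Metric.closedBall p.z (p.ty.b * p.h) ⊆ Kr) (hB : pvwSq p.z (pvwRad N p.h p.ty p.ty.k) ⊆ Kr) (h : PvzkAtM T pos s N p 𝔖) : PvzkAtM T' pos' s' N p 𝔖' where
  st := pvlw_at L hT hT' hs G hK hB h.st
  tip_p := by rw [pvzj_tip_p L G.toP]; exact h.tip_p
  tip_m := by rw [pvzj_tip_m L G.toM]; exact h.tip_m
  mask_p := pvzj_mask_p L G.toP (fun i hi => hB (h.st.out.stub.ep_in i hi).1) h.mask_p
  mask_m := pvzj_mask_m L G.toM (fun i hi => hB (h.st.inn.stub.em_in i hi).1) h.mask_m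
  inn_p := pvzj_innc_p L G.gt (Q := fun w => (N.m - 1) * p.h < ‖w - p.z‖ → w ∈ p.Mp) h.inn_p
  inn_m := pvzj_innc_m L G.gt h.st.out.gate.ip_le (Q := fun w => (N.m - 1) * p.h < ‖w - p.z‖ → w ∈ p.Mm) h.inn_m
  lev0 := h.lev0

end states

/-- the window of a placed plug: the closed disc of the core and the box of the level lie in `K` -/
structure PvzjWin (N : PvwNum) (p : PviePl) (K : Set ℂ) : Prop where
  disc : Metric.closedBall p.z (p.ty.b * p.h) ⊆ K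
  box : pvwSq p.z (pvwRad N p.h p.ty p.ty.k) ⊆ K

section iso

variable {T : PvMap V D} {T' : PvMap V' D'} {pos : V → ℂ} {pos' : V' → ℂ} {s : V → Bool} {s' : V' → Bool} {K : Set ℂ} {R : V → V' → Prop} {N : PvwNum} {p : PviePl}

/-- **WITNESS LEVEL (L), exit half**: the twin, the twin relation, the shared positions -/
theorem pvzj_outM_iso (W : PvzjWin N p K) (hT : T.IsSph) (hS : T.Simple) (hT' : T'.IsSph) (hS' : T'.Simple) (hi : PvplIso T pos s T' pos' s' K R) {𝔖 : PvwSt T} (h : PvzkOutM T pos s N p 𝔖) :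
    ∃ 𝔖' : PvwSt T', PvzkOutM T' pos' s' N p 𝔖' ∧ PvLocSP (pvplRK T pos T' K R) 𝔖 𝔖' ∧ PvzjShP pos pos' 𝔖 𝔖' := by
  have L := pvzj_locP_of hT hS hT' hS' hi (W.disc (pvzj_gate_dart h.st.gate))
  obtain ⟨𝔖', G, -⟩ := pvzj_out_twin L hT hi.loc_col W.disc W.box h.st
  exact ⟨𝔖', pvzj_outM L hT hi.loc_col G W.disc W.box h, G, pvzj_shP L G⟩

/-- **WITNESS LEVEL (L), entrance half** -/
theorem pvzj_inM_iso (W : PvzjWin N p K) (hT : T.IsSph) (hS : T.Simple) (hT' : T'.IsSph) (hS' : T'.Simple) (hi : PvplIso T pos s T' pos' s' K R) {𝔖 : PvwSt T} (h : PvzkInM T pos s N p 𝔖) :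
    ∃ 𝔖' : PvwSt T', PvzkInM T' pos' s' N p 𝔖' ∧ PvLocSM (pvplRK T pos T' K R) 𝔖 𝔖' ∧ PvzjShM pos pos' 𝔖 𝔖' := by
  have L := pvzj_locP_of hT hS hT' hS' hi (W.disc (pvzj_gate_dart h.st.gate))
  obtain ⟨𝔖', G, -⟩ := pvzj_in_twin L hT hi.loc_col W.disc W.box h.st
  exact ⟨𝔖', pvzj_inM L hT hi.loc_col G W.disc W.box h, G, pvzj_shM L G⟩

/-- **WITNESS LEVEL (L), full state** -/
theorem pvzj_atM_iso (W : PvzjWin N p K) (hT : T.IsSph) (hS : T.Simple) (hT' : T'.IsSph) (hS' : T'.Simple) (hi : PvplIso T pos s T' pos' s' K R) {𝔖 : PvwSt T} (h : PvzkAtM T pos s N p 𝔖) :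
    ∃ 𝔖' : PvwSt T', PvzkAtM T' pos' s' N p 𝔖' ∧ PvLocSt (pvplRK T pos T' K R) 𝔖 𝔖' ∧ PvzjShP pos pos' 𝔖 𝔖' ∧ PvzjShM pos pos' 𝔖 𝔖' := by
  have L := pvzj_locP_of hT hS hT' hS' hi (W.disc (pvzj_gate_dart h.st.out.gate))
  obtain ⟨𝔖', G, -⟩ := pvzj_at_twin L hT hT' hi.loc_col W.disc W.box h.st
  exact ⟨𝔖', pvzj_atM L hT hT' hi.loc_col G W.disc W.box h, G, pvzj_shP L G.toP, pvzj_shM L G.toM⟩

end iso

/-! ### links -/

section links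

variable {T : PvMap V D} {T' : PvMap V' D'} {R : D → D' → Prop} {pos : V → ℂ} {pos' : V' → ℂ} {Kr Yin : Set ℂ} {s : V → Bool} {s' : V' → Bool}

/-- **THE LINK BETWEEN TWO ENDS HAS A TWIN between any twin ends**: twin rim arc (through `Kr`), same time      (`pvll_link` of 74 in the words `∃ n, Run ∧ LE` of `Tr/InstE`, `Tr/InstL`) -/
theorem pvzj_link_twin (L : PvLocP T T' R pos pos' Kr) (hs : ∀ d d', R d d' → s (T.src d) = s' (T'.src d')) (hY : Yin ⊆ Kr) {𝔖 𝔖₂ : PvwSt T} {𝔖' 𝔖₂' : PvwSt T'}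
    (G : PvLocSP R 𝔖 𝔖') (G₂ : PvLocSM R 𝔖₂ 𝔖₂') (hp : PvllP Kr T pos s 𝔖) (hm : PvllM Kr T pos s 𝔖₂) {y : T.Pth}
    (h : ∃ n, PvzkRun T pos s Yin 𝔖 𝔖₂ n ∧ PvwLE T (fun i => T.src (pvasIt T s 𝔖.dp i)) n y) :
    ∃ y' : T'.Pth, PvLocPth R y y' ∧ (∀ k, k ≤ y.n → pos (y.v k) ∈ Kr) ∧ ∃ n, PvzkRun T' pos' s' Yin 𝔖' 𝔖₂' n ∧ PvwLE T' (fun i => T'.src (pvasIt T' s' 𝔖'.dp i)) n y' := by
  obtain ⟨n, h1, h2⟩ := h
  have lk : PvllLk T pos s Yin 𝔖 𝔖₂ n y := ⟨h1, h2⟩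
  obtain ⟨y', P, lk'⟩ := pvll_link L hs hY G G₂ hp hm lk
  exact ⟨y', P, lk.arc_pos hY hp hm, n, lk'.run, lk'.le⟩

end links

/-- the window of a link: the windows of its two ends and the room of the new part of the strand -/
structure PvzjWinL (N : PvwNum) (L : PvieLk) (K : Set ℂ) : Prop where
  p : PvzjWin N L.p K
  p' : PvzjWin N L.p' K
  yin : L.Yin ⊆ K

section isoL

variable {T : PvMap V D} {T' : PvMap V' D'} {pos : V → ℂ} {pos' : V' → ℂ} {s : V → Bool} {s' : V' → Bool} {K : Set ℂ} {R : V → V' → Prop} {N : PvwNum} {L : PvieLk}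

/-- **WITNESS LEVEL (L), link between half states** -/
theorem pvzj_arcH_iso (W : PvzjWinL N L K) (hT : T.IsSph) (hS : T.Simple) (hT' : T'.IsSph) (hS' : T'.Simple) (hi : PvplIso T pos s T' pos' s' K R) {𝔖 𝔖₂ : PvwSt T} {y : T.Pth}
    (h : PvzkArcH T pos s N L 𝔖 𝔖₂ y) : ∃ (𝔖' 𝔖₂' : PvwSt T') (y' : T'.Pth), PvzkArcH T' pos' s' N L 𝔖' 𝔖₂' y' ∧
      PvLocSP (pvplRK T pos T' K R) 𝔖 𝔖' ∧ PvLocSM (pvplRK T pos T' K R) 𝔖₂ 𝔖₂' ∧ PvLocPth (pvplRK T pos T' K R) y y' ∧ ∀ k, k ≤ y.n → pos (y.v k) ∈ K := by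
  have Lc := pvzj_locP_of hT hS hT' hS' hi (W.p.disc (pvzj_gate_dart h.at_p.st.gate))
  obtain ⟨𝔖', G, -⟩ := pvzj_out_twin Lc hT hi.loc_col W.p.disc W.p.box h.at_p.st
  obtain ⟨𝔖₂', G₂, -⟩ := pvzj_in_twin Lc hT hi.loc_col W.p'.disc W.p'.box h.at_p'.st
  obtain ⟨y', P, hy, hr⟩ := pvzj_link_twin Lc hi.loc_col W.yin G G₂ (pvzj_llP W.p.disc W.p.box h.at_p.st) (pvzj_llM W.p'.disc W.p'.box h.at_p'.st) h.run
  exact ⟨𝔖', 𝔖₂', y', ⟨pvzj_outM Lc hT hi.loc_col G W.p.disc W.p.box h.at_p, pvzj_inM Lc hT hi.loc_col G₂ W.p'.disc W.p'.box h.at_p', hr⟩, G, G₂, P, hy⟩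

/-- **WITNESS LEVEL (L), link between full states** -/
theorem pvzj_arc_iso (W : PvzjWinL N L K) (hT : T.IsSph) (hS : T.Simple) (hT' : T'.IsSph) (hS' : T'.Simple) (hi : PvplIso T pos s T' pos' s' K R) {𝔖 𝔖₂ : PvwSt T} {y : T.Pth}
    (h : PvzkArc T pos s N L 𝔖 𝔖₂ y) : ∃ (𝔖' 𝔖₂' : PvwSt T') (y' : T'.Pth), PvzkArc T' pos' s' N L 𝔖' 𝔖₂' y' ∧
      PvLocSt (pvplRK T pos T' K R) 𝔖 𝔖' ∧ PvLocSt (pvplRK T pos T' K R) 𝔖₂ 𝔖₂' ∧ PvLocPth (pvplRK T pos T' K R) y y' ∧ ∀ k, k ≤ y.n → pos (y.v k) ∈ K := by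
  have Lc := pvzj_locP_of hT hS hT' hS' hi (W.p.disc (pvzj_gate_dart h.at_p.st.out.gate))
  obtain ⟨𝔖', G, -⟩ := pvzj_at_twin Lc hT hT' hi.loc_col W.p.disc W.p.box h.at_p.st
  obtain ⟨𝔖₂', G₂, -⟩ := pvzj_at_twin Lc hT hT' hi.loc_col W.p'.disc W.p'.box h.at_p'.st
  obtain ⟨y', P, hy, hr⟩ := pvzj_link_twin Lc hi.loc_col W.yin G.toP G₂.toM (pvzj_llP W.p.disc W.p.box h.at_p.st.out) (pvzj_llM W.p'.disc W.p'.box h.at_p'.st.inn) h.run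
  exact ⟨𝔖', 𝔖₂', y', ⟨pvzj_atM Lc hT hT' hi.loc_col G W.p.disc W.p.box h.at_p, pvzj_atM Lc hT hT' hi.loc_col G₂ W.p'.disc W.p'.box h.at_p', hr⟩, G, G₂, P, hy⟩

end isoL

/-! ## 6. (L) -/

section locality

variable {N : PvwNum} {p : PviePl} {L : PvieLk} {K : Set ℂ}

/-- **(L) for `Φ_U`** -/
theorem pvzj_U_local (W : PvzjWin N p K) : PvymFn.Local (M := Prop) (pvzkU N p) K :=
  pvym_local_of_locS fun _ _ _ _ _ _ _ _ _ _ _ hT hS hT' hS' hi ⟨_, h⟩ => (pvzj_atM_iso W hT hS hT' hS' hi h).imp fun _ h' => h'.1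

/-- **(L) for the exit half state** -/
theorem pvzj_Uo_local (W : PvzjWin N p K) : PvymFn.Local (M := Prop) (pvzkUo N p) K :=
  pvym_local_of_locS fun _ _ _ _ _ _ _ _ _ _ _ hT hS hT' hS' hi ⟨_, h⟩ => (pvzj_outM_iso W hT hS hT' hS' hi h).imp fun _ h' => h'.1

/-- **(L) for the entrance half state** -/
theorem pvzj_Ui_local (W : PvzjWin N p K) : PvymFn.Local (M := Prop) (pvzkUi N p) K :=
  pvym_local_of_locS fun _ _ _ _ _ _ _ _ _ _ _ hT hS hT' hS' hi ⟨_, h⟩ => (pvzj_inM_iso W hT hS hT' hS' hi h).imp fun _ h' => h'.1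

/-- **(L) for the success of a link** -/
theorem pvzj_A_local (W : PvzjWinL N L K) : PvymFn.Local (M := Prop) (pvzkA N L) K :=
  pvym_local_of_locS fun _ _ _ _ _ _ _ _ _ _ _ hT hS hT' hS' hi ⟨_, _, _, h⟩ => by
    obtain ⟨a, b, c, h', -⟩ := pvzj_arc_iso W hT hS hT' hS' hi h
    exact ⟨a, b, c, h'⟩

/-- **(L) for the success of a link, half states** -/
theorem pvzj_Ah_local (W : PvzjWinL N L K) : PvymFn.Local (M := Prop) (pvzkAh N L) K :=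
  pvym_local_of_locS fun _ _ _ _ _ _ _ _ _ _ _ hT hS hT' hS' hi ⟨_, _, _, h⟩ => by
    obtain ⟨a, b, c, h', -⟩ := pvzj_arcH_iso W hT hS hT' hS' hi h
    exact ⟨a, b, c, h'⟩

end locality

end Claimed.Agent.R289
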