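-- KEEP
/- R289/Tr/RimClock.lean (helper287, prefix pvrq_), 0 sorry, MODEL FREE (any sphere map, black rim, finite wall).
   THE CLOCK OF A RIM WITH THE VISITS (= W0 of 199), for Tr/WallE (199), Tr/PinWall (210), Tr/WallRim (276), Tr/PinOff (106):
   pvrq_sat    a closed piece of the black bank containing one rim time contains all of them
   pvrq_clock  period P, rim times tau; the vertex number j+k of the rim is visited only in (tau (k-1), tau k]
   pvrq_gate   the gate (dm, dp, inn, run) on that clock: dp in (tau (q-1), tau q], dm in the last interval, q = inn.n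
   pvrq_fwd    from dp forwards: t i = rim time of the dart j+q+i, strictly increasing; before t i only indices in [q, q+i] are visited
   pvrq_bwd    from dm backwards: mirror, dart j+(c.n-i); before t i only k = 0 or k >= c.n-i  -/
import Claimed.Agent.R289.Tr.GoodMouth

set_option autoImplicit false
set_option linter.unusedSectionVars false
set_option linter.unusedVariables false

namespace Claimed.Agent.R289

open Relation Set Claims.C0465

/-! ## 1. the rim clock with the visits (model free) -/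

section clock

variable {V D : Type} {T : PvMap V D} {s : V → Bool}

theorem pvrq_apex_rotInv (d : D) : T.apex (T.rotInv d) = T.tgt d := by
  unfold PvMap.rotInv
  rw [T.apex_nxt, T.src_opp']

/-- **SATURATION ALONG A STRAND**: a closed piece `[w, w']` of the black bank which contains one rim time of `c` contains all of them -/
theorem pvrq_sat (hT : T.IsSph) (hS : T.Simple) {c : T.Cyc} (hc : c.IsRim s) (hb : s (T.src (c.e 0)) = true) {a : D} (ha : pvasBW T s a) {w t w' k : ℕ}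
    (hwt : w ≤ t) (htw : t < w') (hcl : T.src (pvasIt T s a w') = T.src (pvasIt T s a w)) (hk : pvasIt T s a t = T.rotInv (c.e k)) (k' : ℕ) :
    ∃ t', w ≤ t' ∧ t' < w' ∧ pvasIt T s a t' = T.rotInv (c.e k') := by
  obtain ⟨m, rfl⟩ := Nat.exists_eq_add_of_le (hwt.trans htw.le)
  obtain ⟨r, rfl⟩ := Nat.exists_eq_add_of_le hwt
  have hbw := pvas_it_bw ha w
  rw [pvas_it_add] at hcl hk
  have hcol : ∀ i, s (T.src (c.e i)) = true := (pvzm_rim_kit hc hb).2.2.1
  have hf : c.e k ∈ pvtBank T s (pvasIt T s a w) m := by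
    refine pvt_s_bank_mem.2 ⟨r, by omega, ?_, ?_⟩
    · rw [hk, pvrq_apex_rotInv, c.chain]; exact hcol _
    · rw [hk, T.rot_rotInv]
  have h1 := pvt_s_sat hT hS hbw hcl hf (pl_rim_lab' hc k k')
  rw [T.opp_opp] at h1
  obtain ⟨r', hr', -, e⟩ := pvt_s_bank_mem.1 h1
  refine ⟨w + r', by omega, by omega, ?_⟩
  rw [pvas_it_add, e, T.rotInv_rot]

/-- **RIM CLOCK WITH THE VISITS**: the vertex number `j + k` of the rim is visited by the black bank only in the interval `(τ (k-1), τ k]` of the period -/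
theorem pvrq_clock (hT : T.IsSph) (hS : T.Simple) {c : T.Cyc} (hc : c.IsRim s) (hb : s (T.src (c.e 0)) = true) (hfin : {d | T.Wall s (T.opp (c.e 0)) d}.Finite) (j : ℕ) :
    ∃ (P : ℕ) (τ : ℕ → ℕ), PvzmPer T s (T.rotInv (c.e j)) P ∧ τ 0 = 0 ∧ (∀ k k', k < k' → k' < c.n → τ k < τ k') ∧
      (∀ k, k < c.n → τ k < P ∧ pvasIt T s (T.rotInv (c.e j)) (τ k) = T.rotInv (c.e (j + k))) ∧
      ∀ w k, w < P → k < c.n → T.src (pvasIt T s (T.rotInv (c.e j)) w) = T.src (c.e (j + k)) →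
        (k = 0 ∧ (w = 0 ∨ τ (c.n - 1) < w)) ∨ (0 < k ∧ τ (k - 1) < w ∧ w ≤ τ k) := by
  obtain ⟨P, τ, hP, h0, hs, hτ⟩ := pvzm_clock hT hS hc hb hfin j
  have hn : 3 ≤ c.n := c.three
  have hmono : ∀ k k', k < k' → k' < c.n → τ k < τ k' := by
    intro k k' hk
    induction k', hk using Nat.le_induction with
    | base => intro h; exact hs k h
    | succ k' hk' ih => intro h; exact (ih (by omega)).trans (hs k' h)
  refine ⟨P, τ, hP, h0, hmono, hτ, ?_⟩
  intro w k hw hk hsrc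
  have hA : T.src (pvasIt T s (T.rotInv (c.e j)) (τ k)) = T.src (c.e (j + k)) := by rw [(hτ k hk).2, T.src_rotInv]
  rcases Nat.lt_or_ge (τ k) w with h | h
  · left
    obtain ⟨t1, a1, a2, a3⟩ := pvrq_sat hT hS hc hb hP.bw le_rfl h (hsrc.trans hA.symm) (hτ k hk).2 (j + 0)
    have e1 : t1 = τ 0 := pvzm_per_inj hP (by omega) (hτ 0 (by omega)).1 (a3.trans (hτ 0 (by omega)).2.symm)
    have hk0 : k = 0 := by
      by_contra hne
      have := hmono 0 k (Nat.pos_of_ne_zero hne) hk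
      omega
    obtain ⟨t2, b1, b2, b3⟩ := pvrq_sat hT hS hc hb hP.bw le_rfl h (hsrc.trans hA.symm) (hτ k hk).2 (j + (c.n - 1))
    have e2 : t2 = τ (c.n - 1) := pvzm_per_inj hP (by omega) (hτ _ (by omega)).1 (b3.trans (hτ _ (by omega)).2.symm)
    exact ⟨hk0, Or.inr (by omega)⟩
  · rcases Nat.eq_zero_or_pos k with hk0 | hk0
    · left
      subst hk0
      exact ⟨rfl, Or.inl (by omega)⟩
    · right
      refine ⟨hk0, ?_, h⟩
      by_contra hcon
      have h1 : w ≤ τ (k - 1) := by omega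
      have h2 : τ (k - 1) < τ k := hmono _ _ (by omega) hk
      obtain ⟨t1, a1, a2, a3⟩ := pvrq_sat hT hS hc hb hP.bw h1 h2 (hA.trans hsrc.symm) (hτ (k - 1) (by omega)).2 (j + k)
      have e1 : t1 = τ k := pvzm_per_inj hP (by have := (hτ k hk).1; omega) (hτ k hk).1 (a3.trans (hτ k hk).2.symm)
      omega

end clock

/-! ## 2. the gate on the clock (model free) -/

section gate

variable {V D : Type} {T : PvMap V D} {s : V → Bool} {c : T.Cyc} {j n₀ : ℕ} {dm dp : D} {inn : T.Pth}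

/-- **THE GATE ON THE CLOCK, WITH ITS PLACE**: `dp` sits in the interval `(τ (q-1), τ q]` of `g⁺`, `dm` in the last interval of the period (the one of `g⁻`) -/
theorem pvrq_gate (hT : T.IsSph) (hS : T.Simple) (hc : c.IsRim s) (hb : s (T.src (c.e 0)) = true) (hfin : {d | T.Wall s (T.opp (c.e 0)) d}.Finite)
    (hm : pvasBW T s dm) (hn₀ : pvasIt T s dm n₀ = dp) (hle : PvwLE T (fun i => T.src (pvasIt T s dm i)) n₀ inn) (hpos : 0 < inn.n)
    (run : ∀ i, i < inn.n → c.e (j + i) = inn.e i) (hnr : ∀ t, 0 < t → t ≤ n₀ → pvasIt T s dm t ≠ dm) :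
    ∃ (P : ℕ) (τ : ℕ → ℕ) (δ' δ : ℕ), PvzmPer T s (T.rotInv (c.e j)) P ∧ τ 0 = 0 ∧ (∀ k k', k < k' → k' < c.n → τ k < τ k') ∧
      (∀ k, k < c.n → τ k < P ∧ pvasIt T s (T.rotInv (c.e j)) (τ k) = T.rotInv (c.e (j + k))) ∧
      (∀ w k, w < P → k < c.n → T.src (pvasIt T s (T.rotInv (c.e j)) w) = T.src (c.e (j + k)) →
        (k = 0 ∧ (w = 0 ∨ τ (c.n - 1) < w)) ∨ (0 < k ∧ τ (k - 1) < w ∧ w ≤ τ k)) ∧
      inn.n < c.n ∧ T.src dp = T.src (c.e (j + inn.n)) ∧ T.src dm = T.src (c.e j) ∧ (pvasBack T s)^[δ'] (T.rotInv (c.e j)) = dm ∧ pvasIt T s (T.rotInv (c.e j)) δ = dp ∧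
      δ' + δ < P ∧ τ (inn.n - 1) < δ ∧ δ ≤ τ inn.n ∧ τ (c.n - 1) + δ' < P := by
  obtain ⟨P, τ, hP, h0, hmono, hτ, hvis⟩ := pvrq_clock hT hS hc hb hfin j
  obtain ⟨hq, hsrc, δ', δ, hsum, hδ0, e1, e2, e3⟩ := pvzm_gate hS hm hn₀ hle hpos run
  have hn : 3 ≤ c.n := c.three
  have hn₀P : n₀ < P := by
    by_contra hcon
    have h1 : pvasIt T s dm δ' = pvasIt T s dm (δ' + P) := by rw [pvas_it_add, e1, hP.ret]
    have h2 := pvas_it_return hm (Nat.le_add_right δ' P) h1
    rw [Nat.add_sub_cancel_left] at h2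
    exact hnr P hP.pos (by omega) h2
  have hsm : T.src dm = T.src (c.e j) := by
    have h1 := run 0 hpos
    rw [Nat.add_zero] at h1
    rw [h1, inn.src_e 0 hpos, pvt_sd_v0 hle]
  have hd : τ (inn.n - 1) < δ ∧ δ ≤ τ inn.n := by
    rcases hvis δ inn.n (by omega) hq (by rw [e3, hsrc]) with ⟨h1, -⟩ | ⟨-, h1, h2⟩
    · omega
    · exact ⟨h1, h2⟩
  have hlast : τ (c.n - 1) + δ' < P := by
    rcases Nat.eq_zero_or_pos δ' with h | h
    · have := (hτ (c.n - 1) (by omega)).1
      omega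
    · have h1 : pvasIt T s (T.rotInv (c.e j)) (P - δ') = dm := by rw [← pvzm_per_back hP (by omega), e2]
      rcases hvis (P - δ') 0 (by omega) (by omega) (by rw [h1, hsm, Nat.add_zero]) with ⟨-, h2 | h2⟩ | ⟨h2, -⟩
      · omega
      · omega
      · omega
  exact ⟨P, τ, δ', δ, hP, h0, hmono, hτ, hvis, hq, hsrc, hsm, e2, e3, by omega, hd.1, hd.2, hlast⟩

/-- **THE WALL FOLLOWS THE RIM, forwards** (one map): `t i` = the rim time of the dart number `j + q + i`, counted from the exit gate edge -/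
theorem pvrq_fwd (hT : T.IsSph) (hS : T.Simple) (hc : c.IsRim s) (hb : s (T.src (c.e 0)) = true) (hfin : {d | T.Wall s (T.opp (c.e 0)) d}.Finite)
    (hm : pvasBW T s dm) (hn₀ : pvasIt T s dm n₀ = dp) (hle : PvwLE T (fun i => T.src (pvasIt T s dm i)) n₀ inn) (hpos : 0 < inn.n)
    (run : ∀ i, i < inn.n → c.e (j + i) = inn.e i) (hnr : ∀ t, 0 < t → t ≤ n₀ → pvasIt T s dm t ≠ dm) :
    inn.n < c.n ∧ T.src dp = T.src (c.e (j + inn.n)) ∧ ∃ t : ℕ → ℕ, (∀ i i', i < i' → inn.n + i' < c.n → t i < t i') ∧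
      (∀ i, inn.n + i < c.n → pvasIt T s dp (t i) = T.rotInv (c.e (j + inn.n + i))) ∧
      ∀ i, inn.n + i < c.n → ∀ u, u ≤ t i → ∀ k, k < c.n → T.src (pvasIt T s dp u) = T.src (c.e (j + k)) → inn.n ≤ k ∧ k ≤ inn.n + i := by
  obtain ⟨P, τ, δ', δ, hP, h0, hmono, hτ, hvis, hq, hsrc, hsm, e2, e3, hlt, hd1, hd2, hlast⟩ := pvrq_gate hT hS hc hb hfin hm hn₀ hle hpos run hnr
  have hle' : ∀ k k', k ≤ k' → k' < c.n → τ k ≤ τ k' := by
    intro k k' h1 h2
    rcases Nat.eq_or_lt_of_le h1 with h | h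
    · rw [h]
    · exact (hmono k k' h h2).le
  refine ⟨hq, hsrc, fun i => τ (inn.n + i) - δ, ?_, ?_, ?_⟩
  · intro i i' hi hi'
    have h1 := hmono (inn.n + i) (inn.n + i') (by omega) hi'
    have h2 := hle' inn.n (inn.n + i) (by omega) (by omega)
    show τ (inn.n + i) - δ < τ (inn.n + i') - δ
    omega
  · intro i hi
    have h2 := hle' inn.n (inn.n + i) (by omega) hi
    show pvasIt T s dp (τ (inn.n + i) - δ) = _
    rw [← e3, ← pvas_it_add, show δ + (τ (inn.n + i) - δ) = τ (inn.n + i) by omega, (hτ _ hi).2, Nat.add_assoc]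
  · intro i hi u hu k hk hsk
    have hu' : u ≤ τ (inn.n + i) - δ := hu
    have h2 := hle' inn.n (inn.n + i) (by omega) hi
    have h3 := (hτ _ hi).1
    rw [← e3, ← pvas_it_add] at hsk
    rcases hvis (δ + u) k (by omega) hk hsk with ⟨-, h4 | h4⟩ | ⟨h4, h5, h6⟩
    · omega
    · have := hle' (inn.n + i) (c.n - 1) (by omega) (by omega)
      omega
    · constructor
      · by_contra hcon
        have := hle' k (inn.n - 1) (by omega) (by omega)
        omega
      · by_contra hcon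
        have := hle' (inn.n + i) (k - 1) (by omega) (by omega)
        omega

/-- **THE WALL FOLLOWS THE RIM, backwards** (one map): `t i` = the rim time of the dart number `j - i`, counted backwards from the entry gate edge -/
theorem pvrq_bwd (hT : T.IsSph) (hS : T.Simple) (hc : c.IsRim s) (hb : s (T.src (c.e 0)) = true) (hfin : {d | T.Wall s (T.opp (c.e 0)) d}.Finite)
    (hm : pvasBW T s dm) (hn₀ : pvasIt T s dm n₀ = dp) (hle : PvwLE T (fun i => T.src (pvasIt T s dm i)) n₀ inn) (hpos : 0 < inn.n)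
    (run : ∀ i, i < inn.n → c.e (j + i) = inn.e i) (hnr : ∀ t, 0 < t → t ≤ n₀ → pvasIt T s dm t ≠ dm) :
    T.src dm = T.src (c.e j) ∧ ∃ t : ℕ → ℕ, (∀ i i', 0 < i → i < i' → i' < c.n → t i < t i') ∧
      (∀ i, 0 < i → i < c.n → (pvasBack T s)^[t i] dm = T.rotInv (c.e (j + (c.n - i)))) ∧
      ∀ i, 0 < i → i < c.n → ∀ u, u ≤ t i → ∀ k, k < c.n → T.src ((pvasBack T s)^[u] dm) = T.src (c.e (j + k)) → k = 0 ∨ c.n - i ≤ k := by
  obtain ⟨P, τ, δ', δ, hP, h0, hmono, hτ, hvis, hq, hsrc, hsm, e2, e3, hlt, hd1, hd2, hlast⟩ := pvrq_gate hT hS hc hb hfin hm hn₀ hle hpos run hnr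
  have hle' : ∀ k k', k ≤ k' → k' < c.n → τ k ≤ τ k' := by
    intro k k' h1 h2
    rcases Nat.eq_or_lt_of_le h1 with h | h
    · rw [h]
    · exact (hmono k k' h h2).le
  have hback : ∀ u, u + δ' ≤ P → (pvasBack T s)^[u] dm = pvasIt T s (T.rotInv (c.e j)) (P - (u + δ')) := by
    intro u hu
    rw [← e2, ← Function.iterate_add_apply, pvzm_per_back hP hu]
  refine ⟨hsm, fun i => P - τ (c.n - i) - δ', ?_, ?_, ?_⟩
  · intro i i' h1 h2 h3
    have a1 := hmono (c.n - i') (c.n - i) (by omega) (by omega)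
    have a2 := hle' (c.n - i) (c.n - 1) (by omega) (by omega)
    show P - τ (c.n - i) - δ' < P - τ (c.n - i') - δ'
    omega
  · intro i h1 h2
    have a2 := hle' (c.n - i) (c.n - 1) (by omega) (by omega)
    show (pvasBack T s)^[P - τ (c.n - i) - δ'] dm = _
    rw [hback _ (by omega), show P - (P - τ (c.n - i) - δ' + δ') = τ (c.n - i) by omega, (hτ _ (by omega)).2]
  · intro i h1 h2 u hu k hk hsk
    have hu' : u ≤ P - τ (c.n - i) - δ' := hu
    have a2 := hle' (c.n - i) (c.n - 1) (by omega) (by omega)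
    rw [hback u (by omega)] at hsk
    rcases Nat.eq_zero_or_pos (u + δ') with hz | hz
    · rw [hz, Nat.sub_zero, hP.ret] at hsk
      rcases hvis 0 k hP.pos hk hsk with ⟨h4, -⟩ | ⟨-, h5, -⟩
      · exact Or.inl h4
      · omega
    · rcases hvis (P - (u + δ')) k (by omega) hk hsk with ⟨h4, -⟩ | ⟨h4, h5, h6⟩
      · exact Or.inl h4
      · right
        by_contra hcon
        have := hmono k (c.n - i) (by omega) (by omega)
        omega

end gate

end Claimed.Agent.R289
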