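import Claimed.Agent.R289.Tr.Local
import Claimed.Agent.R289.Tr.GateMin
import Claimed.Agent.R289.Tr.Defs

/-!
# Row 289 (S0537, Cardy for Poisson-Voronoi), THE WALL, file Tr/RuleLoc : THE RULE OF THE GATE IS LOCAL      (owner helper150; prefix `pvrl_`, record `PvrlFr`)

`PvwSt.Inmost` of `Tr/Defs` v3 is `S.Left = pvgnRule T s I O` (`Tr/GateMin` sec. 6): the intersection of ALL the face-set gates between `I` and `O`, filled = the faces joined to NO face outside `O` off its boundary.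
Both operations are written with GLOBAL objects of the map `T` (all face sets, dual connectivity of the whole surface).      HERE: they only see the faces of `O` and their neighbours:
a local isomorphism `PvLoc T T' R` (`Tr/Local` of 22) which covers `O` with its collar carries the rule of `T` to the rule of `T'`      (plane <-> completion;   two samples which agree near the disc).
* sec. 1  `PvrlFr L-data`: the two frames correspond;   push forward `pvrlIm R G` of a face set, `pvrl_im_*`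
* sec. 2  **`pvrl_G`** (face-set gates are carried over), **`pvrl_min`** (the minimal gate)
* sec. 3  **`pvrl_rule`** (the rule), `pvrl_cyc` (circuit form = `pvlw_inmost` of `Tr/LocalW` at `Tr/Defs` v3)
* sec. 4  `pvrl_frame` : the frames `T.Star {v | ‖pos v - z‖ < ra}`, `(T.Star {v | rb ≤ ‖pos v - z‖})ᶜ` of record correspond under a POSITIONED local isomorphism whose patch contains the ball `B(z, rb)`
* sec. 5  `pvrl_le_cyc` : the rule lies inside every circuit whose inside is a face-set gate (only a far face is needed: no frame)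
* sec. 6  STATES OF RECORD: `pvrl_gate_G` (`PvwSt.Gate` => `PvgnG` of the frame of record), **`pvrl_le`** (`Inmost` => inside EVERY gate of record of the same annulus: `hall` / `PvssLeast` of 233 is free), **`pvrl_inmost`**
-/

set_option autoImplicit false
set_option linter.unusedSectionVars false

namespace Claimed.Agent.R289

open Relation Set

variable {V D V' D' : Type} {T : PvMap V D} {T' : PvMap V' D'} {R : D → D' → Prop}

/-! ## 1. corresponding frames, push forward of a face set -/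

/-- **the frames `(I, O)` of `T` and `(I', O')` of `T'` correspond** under the dart correspondence `R`, which covers them and the collar of `O` -/
structure PvrlFr (T : PvMap V D) (T' : PvMap V' D') (R : D → D' → Prop) (I O : Set D) (I' O' : Set D') : Prop where
  faceO : T.FaceSet O
  faceO' : T'.FaceSet O'
  domI : I ⊆ plDom R
  ranI : I' ⊆ plRan R
  domO : O ⊆ plDom R
  ranO : O' ⊆ plRan R
  col : ∀ d ∈ O, T.opp d ∈ plDom R
  relI : ∀ d d', R d d' → (d ∈ I ↔ d' ∈ I')
  relO : ∀ d d', R d d' → (d ∈ O ↔ d' ∈ O')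

/-- push forward of a set of darts -/
def pvrlIm (R : D → D' → Prop) (G : Set D) : Set D' := {d' | ∃ d ∈ G, R d d'}

theorem pvrl_eqns_cite : True := by
  have := @pvrlIm.eq_1
  trivial

section fr

variable {I O : Set D} {I' O' : Set D'}

theorem PvrlFr.col' (F : PvrlFr T T' R I O I' O') (L : PvLoc T T' R) : ∀ d' ∈ O', T'.opp d' ∈ plRan R := by
  intro d' hd'
  obtain ⟨d, hd⟩ := F.ranO hd'
  exact (L.iso.opp_mem_iff hd).1 (F.col d ((F.relO d d' hd).2 hd'))

theorem PvrlFr.symm (F : PvrlFr T T' R I O I' O') (L : PvLoc T T' R) : PvrlFr T' T (fun d' d => R d d') I' O' I O :=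
  ⟨F.faceO', F.faceO, F.ranI, F.domI, F.ranO, F.domO, F.col' L, fun d' d h => (F.relI d d' h).symm, fun d' d h => (F.relO d d' h).symm⟩

theorem pvrl_im_mem (L : PvLoc T T' R) {G : Set D} {d : D} {d' : D'} (h : R d d') : d' ∈ pvrlIm R G ↔ d ∈ G := by
  constructor
  · rintro ⟨e, he, h'⟩
    rwa [L.iso.inj h h']
  · exact fun hd => ⟨d, hd, h⟩

theorem pvrl_im_face (L : PvLoc T T' R) {G : Set D} (hG : T.FaceSet G) : T'.FaceSet (pvrlIm R G) := by
  intro d'
  constructor
  · rintro ⟨e, he, h⟩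
    have h1 := L.iso.nxt (L.iso.nxt h)
    rw [T'.nxt3] at h1
    exact ⟨_, (hG _).2 ((hG _).2 he), h1⟩
  · rintro ⟨e, he, h⟩
    exact ⟨_, (hG _).2 he, L.iso.nxt h⟩

/-- pulling back the push forward -/
theorem pvrl_im_im (L : PvLoc T T' R) {G : Set D} (hG : G ⊆ plDom R) : pvrlIm (fun d' d => R d d') (pvrlIm R G) = G := by
  ext d
  constructor
  · rintro ⟨d', hd', h⟩
    exact (pvrl_im_mem L h).1 hd'
  · intro hd
    obtain ⟨d', h⟩ := hG hd
    exact ⟨d', ⟨d, hd, h⟩, h⟩

/-- a boundary edge of `G ⊆ O` is covered, with its opposite -/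
theorem pvrl_bd_dom (F : PvrlFr T T' R I O I' O') {G : Set D} (hG : G ⊆ O) {d : D} (hd : T.Bd G d) : d ∈ plDom R ∧ T.opp d ∈ plDom R := by
  by_cases h1 : d ∈ G
  · exact ⟨F.domO (hG h1), F.col d (hG h1)⟩
  · have h2 : T.opp d ∈ G := by
      by_contra h2
      exact hd ⟨fun h => absurd h h1, fun h => absurd h h2⟩
    refine ⟨?_, F.domO (hG h2)⟩
    have := F.col _ (hG h2)
    rwa [T.opp_opp] at this

/-- boundary edges correspond -/
theorem pvrl_bd (L : PvLoc T T' R) {G : Set D} {d : D} {d' : D'} (h : R d d') (ho : T.opp d ∈ plDom R) : T'.Bd (pvrlIm R G) d' ↔ T.Bd G d := by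
  unfold PvMap.Bd
  rw [pvrl_im_mem L h, pvrl_im_mem L (L.iso.opp_rel h ho)]

end fr

/-! ## 2. face-set gates and the minimal gate -/

section gates

variable {I O : Set D} {I' O' : Set D'} {s : V → Bool} {s' : V' → Bool}

theorem pvrl_im_sub (F : PvrlFr T T' R I O I' O') {G : Set D} (hG : G ⊆ O) : pvrlIm R G ⊆ O' := by
  rintro d' ⟨d, hd, h⟩
  exact (F.relO d d' h).1 (hG hd)

/-- the black boundary vertices of the push forward come from black boundary vertices -/
theorem pvrl_X (L : PvLoc T T' R) (hs : ∀ d d', R d d' → s (T.src d) = s' (T'.src d')) (F : PvrlFr T T' R I O I' O') {G : Set D} (hG : G ⊆ O) {v' : V'}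
    (hv : v' ∈ pvgnX T' s' (pvrlIm R G)) : ∃ v ∈ pvgnX T s G, pvlocV T T' R v v' := by
  obtain ⟨⟨d', rfl, hd'⟩, hb⟩ := hv
  obtain ⟨⟨d, h⟩, ho'⟩ := pvrl_bd_dom (F.symm L) (pvrl_im_sub F hG) hd'
  have ho : T.opp d ∈ plDom R := (L.iso.opp_mem_iff h).2 ho'
  exact ⟨T.src d, ⟨⟨d, rfl, (pvrl_bd L h ho).1 hd'⟩, (hs d d' h).trans hb⟩, d, d', h, rfl, rfl⟩

/-- **face-set gates are carried over** -/
theorem pvrl_G (L : PvLoc T T' R) (hs : ∀ d d', R d d' → s (T.src d) = s' (T'.src d')) (F : PvrlFr T T' R I O I' O') {G : Set D} (hG : PvgnG T s I O G) :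
    PvgnG T' s' I' O' (pvrlIm R G) := by
  refine ⟨pvrl_im_face L hG.face, ?_, pvrl_im_sub F hG.outer, ?_, ?_⟩
  · intro d' hd'
    obtain ⟨d, h⟩ := F.ranI hd'
    exact ⟨d, hG.inner ((F.relI d d' h).2 hd'), h⟩
  · refine le_trans ?_ hG.two
    choose f hf using fun (x : pvgnX T' s' (pvrlIm R G)) => pvrl_X L hs F hG.outer x.2
    refine Function.Embedding.encard_le ⟨fun x => ⟨f x, (hf x).1⟩, fun x y hxy => ?_⟩
    have e : f x = f y := congrArg Subtype.val hxy
    have h1 := (hf x).2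
    rw [e] at h1
    exact Subtype.ext (pvloc_v_fn L h1 (hf y).2)
  · intro d' hd'
    obtain ⟨⟨d, h⟩, ho'⟩ := pvrl_bd_dom (F.symm L) (pvrl_im_sub F hG.outer) hd'
    have ho : T.opp d ∈ plDom R := (L.iso.opp_mem_iff h).2 ho'
    have h1 : s (T.tgt d) = s' (T'.tgt d') := hs _ _ (L.iso.nxt h)
    rw [← hs d d' h, ← h1]
    exact hG.nobb d ((pvrl_bd L h ho).1 hd')

/-- there is a gate on one side iff there is one on the other -/
theorem pvrl_ne (L : PvLoc T T' R) (hs : ∀ d d', R d d' → s (T.src d) = s' (T'.src d')) (F : PvrlFr T T' R I O I' O') : (∃ G, PvgnG T s I O G) ↔ ∃ G', PvgnG T' s' I' O' G' :=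
  ⟨fun ⟨_, hG⟩ => ⟨_, pvrl_G L hs F hG⟩, fun ⟨_, hG⟩ => ⟨_, pvrl_G L.symm (fun d' d h => (hs d d' h).symm) (F.symm L) hG⟩⟩

/-- **the minimal gate is carried over** -/
theorem pvrl_min (L : PvLoc T T' R) (hs : ∀ d d', R d d' → s (T.src d) = s' (T'.src d')) (F : PvrlFr T T' R I O I' O') {d : D} {d' : D'} (h : R d d') :
    d ∈ pvgnMin T s I O ↔ d' ∈ pvgnMin T' s' I' O' := by
  constructor
  · intro hd G' hG'
    have := hd _ (pvrl_G L.symm (fun d' d h => (hs d d' h).symm) (F.symm L) hG')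
    exact (pvrl_im_mem L.symm (G := G') (d := d') (d' := d) h).1 this
  · intro hd G hG
    exact (pvrl_im_mem L h).1 (hd _ (pvrl_G L hs F hG))

/-- the boundary of the minimal gate is carried over -/
theorem pvrl_min_bd (L : PvLoc T T' R) (hs : ∀ d d', R d d' → s (T.src d) = s' (T'.src d')) (F : PvrlFr T T' R I O I' O') {d : D} {d' : D'} (h : R d d') (ho : T.opp d ∈ plDom R) :
    T.Bd (pvgnMin T s I O) d ↔ T'.Bd (pvgnMin T' s' I' O') d' := by
  unfold PvMap.Bd
  rw [pvrl_min L hs F h, pvrl_min L hs F (L.iso.opp_rel h ho)]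

end gates

/-! ## 3. the rule -/

section rule

variable {I O : Set D} {I' O' : Set D'} {s : V → Bool} {s' : V' → Bool}

/-- a dual path which starts in `O`, followed in the other map up to its first exit from `O` -/
theorem pvrl_follow (L : PvLoc T T' R) (hs : ∀ d d', R d d' → s (T.src d) = s' (T'.src d')) (F : PvrlFr T T' R I O I' O') {d x : D} {d' : D'} (h : R d d') (hd : d ∈ O)
    (hj : T.DJoin {e | T.Bd (pvgnMin T s I O) e} d x) :
    (x ∈ O ∧ ∃ x', R x x' ∧ T'.DJoin {e | T'.Bd (pvgnMin T' s' I' O') e} d' x') ∨ ∃ o', o' ∉ O' ∧ T'.DJoin {e | T'.Bd (pvgnMin T' s' I' O') e} d' o' := by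
  induction hj with
  | refl => exact Or.inl ⟨hd, d', h, ReflTransGen.refl⟩
  | @tail x y _ hxy ih =>
    rcases ih with ⟨hx, x', hx', hj'⟩ | h2
    · rcases hxy with rfl | ⟨rfl, hE⟩
      · exact Or.inl ⟨(F.faceO x).2 hx, _, L.iso.nxt hx', hj'.tail (Or.inl rfl)⟩
      · have ho := F.col x hx
        have hr := L.iso.opp_rel hx' ho
        have hstep : T'.DStep {e | T'.Bd (pvgnMin T' s' I' O') e} x' (T'.opp x') := by
          refine Or.inr ⟨rfl, ?_⟩
          rintro (h3 | h3)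
          · exact hE (Or.inl ((pvrl_min_bd L hs F hx' ho).2 h3))
          · exact hE (Or.inl ((pvrl_min_bd L hs F hx' ho).2 (T'.bd_opp.1 h3)))
        by_cases hO : T.opp x ∈ O
        · exact Or.inl ⟨hO, _, hr, hj'.tail hstep⟩
        · exact Or.inr ⟨_, fun h4 => hO ((F.relO _ _ hr).2 h4), hj'.tail hstep⟩
    · exact Or.inr h2

/-- one direction -/
theorem pvrl_rule_fwd (L : PvLoc T T' R) (hs : ∀ d d', R d d' → s (T.src d) = s' (T'.src d')) (F : PvrlFr T T' R I O I' O') {d : D} {d' : D'} (h : R d d')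
    (hd : d' ∈ pvgnRule T' s' I' O') : d ∈ pvgnRule T s I O := by
  intro o ho hj
  have hdO : d ∈ O := (F.relO d d' h).2 (pvgn_rule_sub hd)
  rcases pvrl_follow L hs F h hdO (T.djoin_symm hj) with ⟨h1, -⟩ | ⟨o', ho', hj'⟩
  · exact ho h1
  · exact hd o' ho' (T'.djoin_symm hj')

/-- **THE RULE IS CARRIED OVER** -/
theorem pvrl_rule (L : PvLoc T T' R) (hs : ∀ d d', R d d' → s (T.src d) = s' (T'.src d')) (F : PvrlFr T T' R I O I' O') {d : D} {d' : D'} (h : R d d') :
    d ∈ pvgnRule T s I O ↔ d' ∈ pvgnRule T' s' I' O' :=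
  ⟨fun hd => pvrl_rule_fwd L.symm (fun d' d h => (hs d d' h).symm) (F.symm L) (d := d') (d' := d) h hd, pvrl_rule_fwd L hs F h⟩

/-- the rule of `T'` is the push forward of the rule of `T` -/
theorem pvrl_rule_im (L : PvLoc T T' R) (hs : ∀ d d', R d d' → s (T.src d) = s' (T'.src d')) (F : PvrlFr T T' R I O I' O') : pvgnRule T' s' I' O' = pvrlIm R (pvgnRule T s I O) := by
  ext d'
  constructor
  · intro hd'
    obtain ⟨d, h⟩ := F.ranO (pvgn_rule_sub hd')
    exact ⟨d, (pvrl_rule L hs F h).2 hd', h⟩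
  · rintro ⟨d, hd, h⟩
    exact (pvrl_rule L hs F h).1 hd

/-- **circuit form**: twin circuits; the inside of the first is the rule of `T` => the inside of the second is the rule of `T'`      (= `pvlw_inmost` of `Tr/LocalW` at `Tr/Defs` v3) -/
theorem pvrl_cyc (L : PvLoc T T' R) (hs : ∀ d d', R d d' → s (T.src d) = s' (T'.src d')) (F : PvrlFr T T' R I O I' O') {c : T.Cyc} {c' : T'.Cyc} (P : PvLocCyc R c c')
    (hc : c.Left = pvgnRule T s I O) : c'.Left = pvgnRule T' s' I' O' := by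
  have hL : c.Left ⊆ plDom R := by rw [hc]; exact pvgn_rule_sub.trans F.domO
  ext d'
  constructor
  · intro hd'
    obtain ⟨d, h⟩ := pvloc_left_ran L P hL hd'
    have := (pvloc_left L P hL h).2 hd'
    rw [hc] at this
    exact (pvrl_rule L hs F h).1 this
  · intro hd'
    obtain ⟨d, h⟩ := F.ranO (pvgn_rule_sub hd')
    have := (pvrl_rule L hs F h).2 hd'
    rw [← hc] at this
    exact (pvloc_left L P hL h).1 this

end rule

/-! ## 4. the frames of record correspond under a positioned local isomorphism -/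

section frame

variable {pos : V → ℂ} {pos' : V' → ℂ} {Kr : Set ℂ} {z : ℂ} {ra rb : ℝ}

/-- a face with a full vertex is covered -/
theorem pvrl_dom_of_full (L : PvLoc T T' R) {d : D} (h : T.src d ∈ T.Int (plDom R) ∨ T.tgt d ∈ T.Int (plDom R) ∨ T.apex d ∈ T.Int (plDom R)) : d ∈ plDom R := by
  rcases h with h | h | h
  · exact h d rfl
  · exact (L.iso.dom_face d).1 (h (T.nxt d) rfl)
  · exact (L.iso.dom_face d).1 ((L.iso.dom_face _).1 (h (T.nxt (T.nxt d)) rfl))

/-- stars of sets of vertices defined by the positions correspond -/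
theorem pvrl_star (L : PvLoc T T' R) (hpos : ∀ d d', R d d' → pos (T.src d) = pos' (T'.src d')) (A : Set ℂ) {d : D} {d' : D'} (h : R d d') :
    d ∈ T.Star {v | pos v ∈ A} ↔ d' ∈ T'.Star {v | pos' v ∈ A} := by
  have h1 := hpos d d' h
  have h2 : pos (T.tgt d) = pos' (T'.tgt d') := hpos _ _ (L.iso.nxt h)
  have h3 : pos (T.apex d) = pos' (T'.apex d') := hpos _ _ (L.iso.nxt (L.iso.nxt h))
  unfold PvMap.Star
  simp only [mem_ofPred_eq, h1, h2, h3]

/-- **the frames of record correspond**      (`hpos full full'` = the fields of `PvLocP` of `Tr/LocalW`) -/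
theorem pvrl_frame (L : PvLoc T T' R) (hpos : ∀ d d', R d d' → pos (T.src d) = pos' (T'.src d')) (full : ∀ v, pos v ∈ Kr → v ∈ T.Int (plDom R))
    (full' : ∀ v', pos' v' ∈ Kr → v' ∈ T'.Int (plRan R)) (hab : ra ≤ rb) (hK : Metric.ball z rb ⊆ Kr) :
    PvrlFr T T' R (pvwI T pos z ra) (pvwO T pos z rb) (pvwI T' pos' z ra) (pvwO T' pos' z rb) := by
  have hin : ∀ w : ℂ, ‖w - z‖ < rb → w ∈ Kr := fun w hw => hK (by rw [Metric.mem_ball, dist_eq_norm]; exact hw)
  refine ⟨(pl_star_face _).compl, (pl_star_face _).compl, ?_, ?_, ?_, ?_, ?_, ?_, ?_⟩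
  · rintro d (hd | hd | hd)
    · exact pvrl_dom_of_full L (Or.inl (full _ (hin _ (lt_of_lt_of_le hd hab))))
    · exact pvrl_dom_of_full L (Or.inr (Or.inl (full _ (hin _ (lt_of_lt_of_le hd hab)))))
    · exact pvrl_dom_of_full L (Or.inr (Or.inr (full _ (hin _ (lt_of_lt_of_le hd hab)))))
  · rintro d (hd | hd | hd)
    · exact pvrl_dom_of_full L.symm (Or.inl (full' _ (hin _ (lt_of_lt_of_le hd hab))))
    · exact pvrl_dom_of_full L.symm (Or.inr (Or.inl (full' _ (hin _ (lt_of_lt_of_le hd hab)))))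
    · exact pvrl_dom_of_full L.symm (Or.inr (Or.inr (full' _ (hin _ (lt_of_lt_of_le hd hab)))))
  · intro d hd
    refine pvrl_dom_of_full L (Or.inl (full _ (hin _ ?_)))
    by_contra hn
    exact hd (Or.inl (not_lt.1 hn))
  · intro d hd
    refine pvrl_dom_of_full L.symm (Or.inl (full' _ (hin _ ?_)))
    by_contra hn
    exact hd (Or.inl (not_lt.1 hn))
  · intro d hd
    refine full (T.tgt d) (hin _ ?_) (T.opp d) (T.src_opp' d)
    by_contra hn
    exact hd (Or.inr (Or.inl (not_lt.1 hn)))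
  · exact fun d d' h => pvrl_star L hpos {w | ‖w - z‖ < ra} h
  · exact fun d d' h => not_congr (pvrl_star L hpos {w | rb ≤ ‖w - z‖} h)

end frame

/-! ## 5. the rule lies inside every gate -/

section inside

variable {I O : Set D} {s : V → Bool}

/-- **the rule lies inside every circuit whose inside is a face-set gate** (a far face is enough: no frame) -/
theorem pvrl_le_cyc (hT : T.IsSph) (c : T.Cyc) (hG : PvgnG T s I O c.Left) (hfar : ∃ o, o ∉ O) : pvgnRule T s I O ⊆ c.Left := by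
  obtain ⟨o, ho⟩ := hfar
  intro d hd
  by_contra hdL
  have hJ := (pl_jordan hT c).1
  have ho' : o ∈ c.Right := by rw [hJ]; exact fun h => ho (hG.outer h)
  have hd' : d ∈ c.Right := by rw [hJ]; exact hdL
  exact hd o ho (pvtl_right_join hT c (pvgn_min_sub hG) ho' hd')

end inside

/-! ## 6. states of record -/

section st

variable {pos : V → ℂ} {h : ℝ} {z : ℂ} {τ τ' : PvwTy} {s : V → Bool} {𝔖 𝔖' : PvwSt T}

/-- **the inside of a gate of record is a face-set gate of the frame of record** -/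
theorem pvrl_gate_G (hT : T.IsSph) (hg : 𝔖.Gate pos h z τ s) : PvgnG T s (pvwI T pos z (τ.a * h)) (pvwO T pos z (τ.b * h)) 𝔖.S.Left := by
  have hdart : ∀ d ∈ 𝔖.S.darts, ¬ (s (T.src d) = true ∧ s (T.tgt d) = true) := by
    rintro d hd ⟨h1, h2⟩
    have hv : T.src d ∈ 𝔖.S.verts := by obtain ⟨i, rfl⟩ := hd; exact ⟨i, rfl⟩
    rcases hg.two _ hv h1 with e | e
    · rw [hg.left d hd e] at h2
      exact Bool.false_ne_true h2
    · have : d = 𝔖.dm := by
        obtain ⟨i, rfl⟩ := hd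
        obtain ⟨j, hj⟩ := hg.dm_on
        have e' : T.src (𝔖.S.e i) = T.src (𝔖.S.e j) := by rw [hj]; exact e
        rw [← hj, ← pl_cyc_mod 𝔖.S i, ← pl_cyc_mod 𝔖.S j, pl_cyc_src_inj 𝔖.S e']
      rw [this, hg.bw_m.2] at h2
      exact Bool.false_ne_true h2
  refine ⟨pl_left_face _, ?_, ?_, ?_, ?_⟩
  · have hA : ∀ v, ‖pos v - z‖ < τ.a * h → v ∈ T.Int 𝔖.S.Left := by
      intro v hv
      have h1 : v ∈ T.VOf 𝔖.S.Left := hg.round v hv
      rw [pl_VOf_left hT] at h1
      rcases h1 with h1 | h1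
      · exact absurd hv (not_lt.2 (hg.ann v h1).1)
      · exact h1
    rintro d (hd | hd | hd)
    · exact hA _ hd d rfl
    · exact (pl_left_face 𝔖.S d).1 (hA _ hd (T.nxt d) rfl)
    · exact (pl_left_face 𝔖.S d).1 ((pl_left_face 𝔖.S _).1 (hA _ hd (T.nxt (T.nxt d)) rfl))
  · rintro d hd (h1 | h1 | h1)
    · exact absurd (hg.inside _ ⟨d, hd, rfl⟩) (not_lt.2 h1)
    · exact absurd (hg.inside _ ⟨T.nxt d, (pl_left_face 𝔖.S d).2 hd, rfl⟩) (not_lt.2 h1)
    · exact absurd (hg.inside _ ⟨T.nxt (T.nxt d), (pl_left_face 𝔖.S _).2 ((pl_left_face 𝔖.S d).2 hd), rfl⟩) (not_lt.2 h1)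
  · refine (Set.encard_le_encard (t := {𝔖.gp, 𝔖.gm}) fun v hv => ?_).trans (Set.encard_pair hg.ne).le
    have : v ∈ 𝔖.S.verts := by rw [← pvgn_bdV_left hT 𝔖.S]; exact hv.1
    exact hg.two v this hv.2
  · intro d hd
    rcases ((pl_jordan hT 𝔖.S).2.2.2 d).1 hd with h1 | ⟨i, hi⟩
    · exact hdart d h1
    · have := hdart _ ⟨i, rfl⟩
      rw [hi, T.src_opp', T.tgt_opp] at this
      exact fun h => this h.symm

/-- **THE GATE OF A STATE OF RECORD LIES INSIDE EVERY GATE OF RECORD** of the same annulus (any orientation bit, level, tip centres) -/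
theorem pvrl_le (hT : T.IsSph) (hfar : ∃ o, o ∉ pvwO T pos z (τ.b * h)) (hm : 𝔖.Inmost pos h z τ s) (hg' : 𝔖'.Gate pos h z τ' s) (ha : τ'.a = τ.a) (hb : τ'.b = τ.b) :
    𝔖.S.Left ⊆ 𝔖'.S.Left := by
  have hG := pvrl_gate_G hT hg'
  rw [ha, hb] at hG
  rw [hm]
  exact pvrl_le_cyc hT _ hG hfar

/-- a far face from a far site -/
theorem pvrl_far {r : ℝ} {d : D} (hd : r ≤ ‖pos (T.src d) - z‖) : ∃ o, o ∉ pvwO T pos z r := ⟨d, fun h => h (Or.inl hd)⟩

/-- **INNERMOST is carried over** by a positioned local isomorphism whose patch contains the disc      (`pvlw_inmost` of `Tr/LocalW`, with the fields of `PvLocP` as hypotheses) -/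
theorem pvrl_inmost {pos' : V' → ℂ} {Kr : Set ℂ} {s' : V' → Bool} {𝔖₂ : PvwSt T'} (L : PvLoc T T' R) (hs : ∀ d d', R d d' → s (T.src d) = s' (T'.src d'))
    (hpos : ∀ d d', R d d' → pos (T.src d) = pos' (T'.src d')) (full : ∀ v, pos v ∈ Kr → v ∈ T.Int (plDom R)) (full' : ∀ v', pos' v' ∈ Kr → v' ∈ T'.Int (plRan R))
    (hab : τ.a * h ≤ τ.b * h) (hK : Metric.ball z (τ.b * h) ⊆ Kr) (P : PvLocCyc R 𝔖.S 𝔖₂.S) (hm : 𝔖.Inmost pos h z τ s) : 𝔖₂.Inmost pos' h z τ s' :=
  pvrl_cyc L hs (pvrl_frame L hpos full full' hab hK) P hm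

end st

end Claimed.Agent.R289
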