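-- KEEP
import Claimed.Agent.R289.Tr.KitDict
import Claimed.Agent.R289.Tr.AtUniq
import Claimed.Agent.R289.Tr.InstL
import Claimed.Agent.R289.Defs.GdThick

/-!
# Row 289 (S0537), THE WALL, file Tr/RunAny : **PLAIN SUCCESS OF A LINK `⟹` THE RUN AT ARBITRARY WITNESSES**      (helper297; prefix `pvjv_run_`)

WHY.   Four skeletons of E10 carry a leaf "(b3) THE RUN" quantified over ARBITRARY end states `𝔖 𝔖'`:
`exit_pvii_run` / `Pvim9Run` (`Exit/FrcI`, `Exit/FrcIEvM`), `pvij_ev_run` (`Exit/FrcIM`), `pvj6_run` (`Exit/FrcOE`), `pvif_l_run` (`Exit/FrcF`), (old) `pvet_ev_run` (`Exit/FrcT`).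
The assemblies of the hook team (`pvhu_A_dp`, `pvhu_ev_e` of 66 `Tr/HookTA`; `pvj8_A` of 284 `Tr/HookFA`; `pvha_A_dp`, `pvha_A_pd` of 112 `Tr/HookLA`) end at the PLAIN SUCCESS `η ∈ L.A N b` = SOME witnesses.
HERE: the end states are unique in all that `PvilLk.Run` and the bank read (`np dp` of the first, `nm dm` of the second), so the run holds at ALL witnesses.      DETERMINISTIC, 0 probability, no engine, no region.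

* `pvjv_run_endP`  : two states at the end `p`  have the same `np`, `dp`
* `pvjv_run_endP'` : two states at the end `p'` have the same `nm`, `dm`
* **`pvjv_run_any`** : `η ∈ L.A N b`, `L.AtP N b η 𝔖`, `L.AtP' N b η 𝔖'` `⟹ ∃ y n, L.Run b η 𝔖 𝔖' n ∧ PvwLE ..`
* **`pvjv_run_dp`**  (door `→` pin: `pvilLi`, `pvilLe`),   **`pvjv_run_pd`** (pin `→` door: `pvilLo`, `pvjtLf`),   `pvjv_run_dd` (door `→` door)
* at the links of record: **`pvjv_run_i`**, **`pvjv_run_e`**, **`pvjv_run_o`**, **`pvjv_run_f`** (the conclusions of the leaves, verbatim, over `η ∈ L.A`)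
-/

set_option autoImplicit false

namespace Claimed.Agent.R289

open Set

section gen

variable {L : PvilLk} {N : PvwNum} {b : Bool} {η : Conf PvPt}

/-- two door states of one placed plug of record are equal -/
theorem pvjv_run_door (hG : DelGood (cfSites η)) {r : ℝ} (hr : 0 < r) {z d : ℂ} {𝔖 𝔗 : PvwSt (pvieT η)} (h : PvilDoor (pvkdP r) b η z d 𝔖) (h' : PvilDoor (pvkdP r) b η z d 𝔗) : 𝔖 = 𝔗 := by
  have hZ : Disjoint (pvkdP r).Zm (pvkdP r).Zp := by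
    rw [Set.disjoint_left]
    rintro w ⟨-, h1, -, -⟩ ⟨h2, -, -, -⟩
    linarith
  obtain ⟨-, g, hg, rfl⟩ := h
  obtain ⟨-, g', hg', rfl⟩ := h'
  rw [pvuk_uniq hG hZ (show PvukGate (pvkdP r) b η z d g from hg) (show PvukGate (pvkdP r) b η z d g' from hg')]

/-- the positions in the frame of a plug are injective -/
theorem pvjv_run_inj {p : PvilPl} (hfr : p.fr ≠ 0) : Function.Injective (p.pos η) :=
  fun _ _ e => Subtype.ext (mul_left_cancel₀ (by simpa using hfr : (starRingEnd ℂ) p.fr ≠ 0) e)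

/-- **two states at the end `p` have the same `np`, `dp`** -/
theorem pvjv_run_endP (hG : DelGood (cfSites η)) (hh : L.dr = true → 0 < L.p.h) (hfr : L.dr = false → L.p.fr ≠ 0) {𝔖 𝔗 : PvwSt (pvieT η)} (h : L.AtP N b η 𝔖) (h' : L.AtP N b η 𝔗) :
    𝔖.np = 𝔗.np ∧ 𝔖.dp = 𝔗.dp := by
  cases hd : L.dr with
  | true =>
    rw [PvilLk.atP_door hd] at h h'
    rw [pvjv_run_door hG (hh hd) h h']
    exact ⟨rfl, rfl⟩
  | false =>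
    rw [PvilLk.atP_pin hd] at h h'
    obtain ⟨a, a'⟩ := pvuq_atOut (delb_plane_isSph hG) (pvgy_m_simple (pvieY η)) (pvjv_run_inj (hfr hd)) h.st h'.st
    exact ⟨a'.np, a.dp⟩

/-- **two states at the end `p'` have the same `nm`, `dm`** -/
theorem pvjv_run_endP' (hG : DelGood (cfSites η)) (hh : L.dr' = true → 0 < L.p'.h) (hfr : L.dr' = false → L.p'.fr ≠ 0) {𝔖 𝔗 : PvwSt (pvieT η)} (h : L.AtP' N b η 𝔖) (h' : L.AtP' N b η 𝔗) :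
    𝔖.nm = 𝔗.nm ∧ 𝔖.dm = 𝔗.dm := by
  cases hd : L.dr' with
  | true =>
    rw [PvilLk.atP'_door hd] at h h'
    rw [pvjv_run_door hG (hh hd) h h']
    exact ⟨rfl, rfl⟩
  | false =>
    rw [PvilLk.atP'_pin hd] at h h'
    obtain ⟨a, a'⟩ := pvuq_atIn (delb_plane_isSph hG) (pvgy_m_simple (pvieY η)) (pvjv_run_inj (hfr hd)) h.st h'.st
    exact ⟨a'.nm, a.dm⟩

/-- the run reads only `np dp` of the first state, `nm dm` of the second -/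
theorem pvjv_run_congr {𝔖 𝔗 𝔖' 𝔗' : PvwSt (pvieT η)} (e1 : 𝔖.np = 𝔗.np) (e2 : 𝔖.dp = 𝔗.dp) (e3 : 𝔖'.nm = 𝔗'.nm) (e4 : 𝔖'.dm = 𝔗'.dm) {n : ℕ} (h : L.Run b η 𝔖 𝔖' n) : L.Run b η 𝔗 𝔗' n := by
  unfold PvilLk.Run at h ⊢
  rw [← e1, ← e2, ← e3, ← e4]
  exact h

/-- **PLAIN SUCCESS `⟹` THE RUN AND ITS BANK AT ARBITRARY WITNESSES** -/
theorem pvjv_run_any (hG : DelGood (cfSites η)) (h1 : L.dr = true → 0 < L.p.h) (h2 : L.dr = false → L.p.fr ≠ 0) (h3 : L.dr' = true → 0 < L.p'.h) (h4 : L.dr' = false → L.p'.fr ≠ 0)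
    (hA : η ∈ L.A N b) {𝔖 𝔖' : PvwSt (pvieT η)} (hp : L.AtP N b η 𝔖) (hp' : L.AtP' N b η 𝔖') :
    ∃ (y : (pvieT η).Pth) (n : ℕ), L.Run b η 𝔖 𝔖' n ∧ PvwLE (pvieT η) (fun i => (pvieT η).src (pvasIt (pvieT η) (pvieCol η b) 𝔖.dp i)) n y := by
  obtain ⟨𝔗, 𝔗', y, a, a', n, r, le⟩ := hA
  obtain ⟨e1, e2⟩ := pvjv_run_endP hG h1 h2 a hp
  obtain ⟨e3, e4⟩ := pvjv_run_endP' hG h3 h4 a' hp'
  refine ⟨y, n, pvjv_run_congr e1 e2 e3 e4 r, ?_⟩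
  rw [← e2]
  exact le

/-- **door `→` pin** -/
theorem pvjv_run_dp (h0 : L.dr = true) (h1 : L.dr' = false) (hh : 0 < L.p.h) (hfr : L.p'.fr ≠ 0) (hA : η ∈ L.A N b) {𝔖 𝔖' : PvwSt (pvieT η)}
    (hd : PvilDoor (pvkdP L.p.h) b η L.p.z L.p.fr 𝔖) (hp : PvilIn N b L.p' η 𝔖') :
    ∃ (y : (pvieT η).Pth) (n : ℕ), L.Run b η 𝔖 𝔖' n ∧ PvwLE (pvieT η) (fun i => (pvieT η).src (pvasIt (pvieT η) (pvieCol η b) 𝔖.dp i)) n y :=
  pvjv_run_any hp.good (fun _ => hh) (fun e => absurd (h0.symm.trans e) (by simp)) (fun e => absurd (h1.symm.trans e) (by simp)) (fun _ => hfr) hA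
    ((PvilLk.atP_door h0 N b η 𝔖).2 hd) ((PvilLk.atP'_pin h1 N b η 𝔖').2 hp)

/-- **pin `→` door** -/
theorem pvjv_run_pd (h0 : L.dr = false) (h1 : L.dr' = true) (hfr : L.p.fr ≠ 0) (hh : 0 < L.p'.h) (hA : η ∈ L.A N b) {𝔖 𝔖' : PvwSt (pvieT η)}
    (hp : PvilOut N b L.p η 𝔖) (hd : PvilDoor (pvkdP L.p'.h) b η L.p'.z L.p'.fr 𝔖') :
    ∃ (y : (pvieT η).Pth) (n : ℕ), L.Run b η 𝔖 𝔖' n ∧ PvwLE (pvieT η) (fun i => (pvieT η).src (pvasIt (pvieT η) (pvieCol η b) 𝔖.dp i)) n y :=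
  pvjv_run_any hp.good (fun e => absurd (h0.symm.trans e) (by simp)) (fun _ => hfr) (fun _ => hh) (fun e => absurd (h1.symm.trans e) (by simp)) hA
    ((PvilLk.atP_pin h0 N b η 𝔖).2 hp) ((PvilLk.atP'_door h1 N b η 𝔖').2 hd)

/-- door `→` door -/
theorem pvjv_run_dd (hG : DelGood (cfSites η)) (h0 : L.dr = true) (h1 : L.dr' = true) (hh : 0 < L.p.h) (hh' : 0 < L.p'.h) (hA : η ∈ L.A N b) {𝔖 𝔖' : PvwSt (pvieT η)}
    (hd : PvilDoor (pvkdP L.p.h) b η L.p.z L.p.fr 𝔖) (hd' : PvilDoor (pvkdP L.p'.h) b η L.p'.z L.p'.fr 𝔖') :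
    ∃ (y : (pvieT η).Pth) (n : ℕ), L.Run b η 𝔖 𝔖' n ∧ PvwLE (pvieT η) (fun i => (pvieT η).src (pvasIt (pvieT η) (pvieCol η b) 𝔖.dp i)) n y :=
  pvjv_run_any hG (fun _ => hh) (fun e => absurd (h0.symm.trans e) (by simp)) (fun _ => hh') (fun e => absurd (h1.symm.trans e) (by simp)) hA
    ((PvilLk.atP_door h0 N b η 𝔖).2 hd) ((PvilLk.atP'_door h1 N b η 𝔖').2 hd')

end gen

/-! ## at the links of record -/

section record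

variable {τ : Type} {c : ℝ} (𝔓 : PvxPar τ c) (𝔈 : PvieEng τ) {N : PvwNum} {b : Bool} {η : Conf PvPt} {m : ℕ} {z : ℂ} {t : τ}

/-- **(b3) of the last link `door plug → t`** over the plain success -/
theorem pvjv_run_i (hr : 0 < pvilRd 𝔓 m) (hA : η ∈ (pvilLi 𝔓 𝔈 m z t).A N b) {𝔖 𝔖' : PvwSt (pvieT η)}
    (h1 : PvilDoor (pvkdP (pvilRd 𝔓 m)) b η (pvieZi 𝔓 m z t) ((𝔓.Γ m).din t) 𝔖) (h2 : PvilIn N b (pvilPin 𝔓 m z t) η 𝔖') :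
    ∃ (y : (pvieT η).Pth) (n : ℕ), (pvilLi 𝔓 𝔈 m z t).Run b η 𝔖 𝔖' n ∧ PvwLE (pvieT η) (fun i => (pvieT η).src (pvasIt (pvieT η) (pvieCol η b) 𝔖.dp i)) n y :=
  pvjv_run_dp (L := pvilLi 𝔓 𝔈 m z t) rfl rfl hr one_ne_zero hA h1 h2

/-- **(b3) of the thick short link `reference plug → t`** over the plain success -/
theorem pvjv_run_e (hr : 0 < pvilRu 𝔈 m) (hA : η ∈ (pvilLe 𝔓 𝔈 m z t).A N b) {𝔖 𝔖' : PvwSt (pvieT η)}
    (h1 : PvilDoor (pvkdP (pvilRu 𝔈 m)) b η (pvieZu 𝔓 m z t) 1 𝔖) (h2 : PvilIn N b (pvilPin 𝔓 m z t) η 𝔖') :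
    ∃ (y : (pvieT η).Pth) (n : ℕ), (pvilLe 𝔓 𝔈 m z t).Run b η 𝔖 𝔖' n ∧ PvwLE (pvieT η) (fun i => (pvieT η).src (pvasIt (pvieT η) (pvieCol η b) 𝔖.dp i)) n y :=
  pvjv_run_dp (L := pvilLe 𝔓 𝔈 m z t) rfl rfl hr one_ne_zero hA h1 h2

/-- **(b3) of the first link `t → door plug`** over the plain success -/
theorem pvjv_run_o (hr : 0 < pvilRd 𝔓 m) (hA : η ∈ (pvilLo 𝔓 𝔈 m z t).A N b) {𝔖 𝔖' : PvwSt (pvieT η)}
    (h1 : PvilOut N b (pvilPin 𝔓 m z t) η 𝔖) (h2 : PvilDoor (pvkdP (pvilRd 𝔓 m)) b η (pvieZo 𝔓 m z t) ((𝔓.Γ m).dout t) 𝔖') :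
    ∃ (y : (pvieT η).Pth) (n : ℕ), (pvilLo 𝔓 𝔈 m z t).Run b η 𝔖 𝔖' n ∧ PvwLE (pvieT η) (fun i => (pvieT η).src (pvasIt (pvieT η) (pvieCol η b) 𝔖.dp i)) n y :=
  pvjv_run_pd (L := pvilLo 𝔓 𝔈 m z t) rfl rfl one_ne_zero hr hA h1 h2

/-- **(b3) of the thick return `t → reference plug`** over the plain success -/
theorem pvjv_run_f (𝔯 : PvjtRet τ) (hr : 0 < pvilRu 𝔈 m) (hA : η ∈ (pvjtLf 𝔓 𝔈 𝔯 m z t).A N b) {𝔖 𝔖' : PvwSt (pvieT η)}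
    (h1 : PvilOut N b (pvilPin 𝔓 m z t) η 𝔖) (h2 : PvilDoor (pvkdP (pvilRu 𝔈 m)) b η (pvieZu 𝔓 m z t) 1 𝔖') :
    ∃ (y : (pvieT η).Pth) (n : ℕ), (pvjtLf 𝔓 𝔈 𝔯 m z t).Run b η 𝔖 𝔖' n ∧ PvwLE (pvieT η) (fun i => (pvieT η).src (pvasIt (pvieT η) (pvieCol η b) 𝔖.dp i)) n y :=
  pvjv_run_pd (L := pvjtLf 𝔓 𝔈 𝔯 m z t) rfl rfl one_ne_zero hr hA h1 h2

end record

end Claimed.Agent.R289
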