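import Claimed.Agent.R289.Tr.Cls
import Claimed.Agent.R289.Tr.Tip

/-!
# Row 289 (S0537), THE WALL, ROAD E, file Tr/Short : THE SHORT HOOK = E8' (SEAL) IN JOIN FORM      (helper39, architect of the Tr/Tip block; prefix `pvys`)

PROBLEM (HOLE 1 of 78).  The hooks of `Tr/Tip` (`pvtz_hook_black/white`) join the landing path to the tip ALONG THE WHOLE BANK of the last piece `F`, which may leave the small ball (fjords up to radius `ρ₂ h`): the two lanes of
`pvld_exist` then do not lie in the sites `K` of the deterministic region `Yin`.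
CURE (E8' of `W1_208_v3.1`), WITHOUT any new object: ONE closed curve `c` = `P` . door.
  `P` = vertices number `0..p` of `c` (counterclockwise, from ABOVE the ray, round the tip through the box, to BELOW the ray), off the slit;      door = vertices number `p+1 .. c.n-1` (NO condition on colours, on the slit, on classes).
  BLACK: the vertices of `P` in the class `β` of the black bank are black (fresh sites of the left part: arcs across ALL the black-bordered sectors = landing arc + seals at once)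
      ⟹ vertex number `0` is joined to the black tip vertex by black sites of class `β` INSIDE THE CLOSED DISC OF `c`, off the door.
  WHITE: the vertices of `P` in the class `β'` of the white bank are white ⟹ vertex number `p` is joined to the white tip vertex by white sites of class `β'` inside the closed disc of `c`, off the door.
So the two joins of `pvld_exist` stay in `K ⊇ VOf c.Left ∪ lanes`: the run stays in `Yin`.   `P` may come from a C-shaped lane of cells (229) round the tip: no circuit, no "crosses the ray once" hypothesis.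

PROOF (black; no Hex, no Jordan: the exit map of a finite face set is injective, `pvas_exit_bij`).   `τ` = last entrance of the strand in `c.Left`.   `X` = black sites of class `β` off the door, `C` = the component of the black tip vertex in `X`
(edges of `c.Left`), `s°` = indicator of `C`.   The black bank of the positions `τ..n` lies in `C`, their white bank is off `C`: the `s°`-strand from `e τ` follows `e τ .. e n`.   It leaves `c.Left` through `f = opp (c.e k)`, vertex `k+1 ∈ C`, vertex `k ∉ C`.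
`k + 1 ≤ p`, `k+1 ≠ 0`: if `c.e k` is not crossed by the strand, vertex `k` has class `β`, is black, adjacent to `C`: in `C`, absurd.   If it is crossed, `f = e j`, `j < τ`, an exit of an earlier passage `j'..j` through `c.Left`; the black bank of this passage is
connected to vertex `k+1`, so it lies in `C`, so the `s°`-strand from the entrance `e j'` also leaves through `f`: two entrances with the same exit, `e j' = e τ`, absurd (positions are distinct).   Hence `k + 1 ≡ 0`: vertex `0` is in `C`.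
-/

set_option autoImplicit false

namespace Claimed.Agent.R289

open Relation Set

variable {V D : Type} {T : PvMap V D}

/-- the door of the closed curve: the vertices number `p+1 .. c.n-1` -/
def pvysDoor (c : T.Cyc) (p : ℕ) : Set V := {v | ∃ k, p < k ∧ k < c.n ∧ T.src (c.e k) = v}

theorem pvys_eqns_cite : True := by
  have := @pvysDoor.eq_1
  trivial

/-- two consecutive positions which are both black-white for a second colouring: the step of the second colouring is the same -/
theorem pvys_step_eq {s s' : V → Bool} {x : D} (h' : pvasBW T s' (pvasStep T s x)) : pvasStep T s' x = pvasStep T s x := by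
  rcases pvas_step_ends s x with ⟨a, e1, e2⟩ | ⟨a, e1, e2⟩
  · rw [pvas_step_black a, pvas_step_black (by rw [← e1]; exact h'.1)]
  · rw [pvas_step_white a, pvas_step_white (by rw [← e2]; exact h'.2)]

/-- the last entrance before the time `b` -/
theorem pvys_entr {s : V → Bool} {d : D} {A : Set D} (hA : T.FaceSet A) (hstart : T.opp d ∉ A) (b : ℕ) :
    ∃ a, a ≤ b ∧ T.opp (pvasIt T s d a) ∉ A ∧ ∀ i, a ≤ i → i < b → pvasIt T s d i ∈ A := by
  induction b with
  | zero => exact ⟨0, le_rfl, hstart, fun i _ h => absurd h (Nat.not_lt_zero i)⟩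
  | succ b ih =>
    by_cases h : T.opp (pvasIt T s d (b + 1)) ∈ A
    · obtain ⟨a, h1, h2, h3⟩ := ih
      refine ⟨a, by omega, h2, fun i hi hib => ?_⟩
      rcases Nat.lt_succ_iff_lt_or_eq.1 hib with hlt | rfl
      · exact h3 i hi hlt
      · rw [pvas_it_succ, pvas_step_opp_mem hA] at h
        exact h
    · exact ⟨b + 1, le_rfl, h, fun i hi hib => by omega⟩

/-- a passage through `A` whose last position is black-white for the second colouring is a passage of the second colouring -/
theorem pvys_pass {s s' : V → Bool} {d : D} {n : ℕ} {A : Set D}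
    (hprop : ∀ i, i < n → pvasIt T s d i ∈ A → (pvasBW T s' (pvasIt T s d i) ↔ pvasBW T s' (pvasIt T s d (i + 1))))
    {a : ℕ} (m : ℕ) (hb : a + m ≤ n) (hin : ∀ i, a ≤ i → i < a + m → pvasIt T s d i ∈ A) (hbw : pvasBW T s' (pvasIt T s d (a + m))) :
    pvasBW T s' (pvasIt T s d a) ∧ ∀ l, l ≤ m → pvasIt T s' (pvasIt T s d a) l = pvasIt T s d (a + l) := by
  have hall : ∀ l, l ≤ m → pvasBW T s' (pvasIt T s d (a + (m - l))) := by
    intro l
    induction l with
    | zero => intro _; exact hbw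
    | succ l ih =>
      intro hl
      have h1 := ih (by omega)
      have e : a + (m - l) = a + (m - (l + 1)) + 1 := by omega
      rw [e] at h1
      exact (hprop _ (by omega) (hin _ (by omega) (by omega))).2 h1
  have hall' : ∀ l, l ≤ m → pvasBW T s' (pvasIt T s d (a + l)) := by
    intro l hl
    have := hall (m - l) (by omega)
    rwa [show a + (m - (m - l)) = a + l by omega] at this
  refine ⟨hall' 0 (Nat.zero_le m), fun l => ?_⟩
  induction l with
  | zero => intro _; rfl
  | succ l ih =>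
    intro hl
    rw [pvas_it_succ, ih (by omega)]
    have h1 := hall' (l + 1) hl
    rw [show a + (l + 1) = a + l + 1 by omega, pvas_it_succ] at h1
    rw [pvys_step_eq h1, show a + (l + 1) = a + l + 1 by omega, pvas_it_succ]

/-- **CORE OF THE SHORT HOOKS**: `s'` a second colouring for which the tip position is black-white, and such that "black-white for `s'`" propagates along the passages of the strand through the disc.
Then the `s'`-strand through the tip leaves the disc through an edge of `c` which is not crossed by the strand. -/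
theorem pvys_core (hT : T.IsSph) {s : V → Bool} {d : D} {n : ℕ} (hinj : ∀ i j, i ≤ n → j ≤ n → pvasIt T s d i = pvasIt T s d j → i = j)
    (c : T.Cyc) (hfin : c.Left.Finite) (hstart : T.opp d ∉ c.Left) (htip : pvasIt T s d n ∈ c.Left)
    (s' : V → Bool) (h0 : pvasBW T s' (pvasIt T s d n))
    (hprop : ∀ i, i < n → pvasIt T s d i ∈ c.Left → (pvasBW T s' (pvasIt T s d i) ↔ pvasBW T s' (pvasIt T s d (i + 1)))) :
    ∃ k, k < c.n ∧ s' (T.tgt (c.e k)) = true ∧ s' (T.src (c.e k)) = false ∧ ∀ j, j ≤ n → pvasIt T s d j ≠ T.opp (c.e k) := by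
  have hA := pl_left_face c
  obtain ⟨τ, hτn, hτ1, hτ2⟩ := pvys_entr (s := s) hA hstart n
  have hτ3 : ∀ i, τ ≤ i → i ≤ n → pvasIt T s d i ∈ c.Left := by
    intro i h1 h2
    rcases Nat.lt_or_ge i n with h | h
    · exact hτ2 i h1 h
    · have : i = n := by omega
      rw [this]; exact htip
  obtain ⟨m, rfl⟩ := Nat.exists_eq_add_of_le hτn
  obtain ⟨b1, b2⟩ := pvys_pass hprop m le_rfl hτ2 h0
  have hin : pvasIn T c.Left s' (pvasIt T s d τ) := ⟨hτ3 τ le_rfl hτn, hτ1, b1⟩
  obtain ⟨-, -, o1, o2, o3⟩ := pvas_exit_spec hA hfin hin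
  set f := pvasExit T c.Left s' (pvasIt T s d τ) with hf
  have hfd : T.opp f ∈ c.darts := (pl_cyc_darts_iff hT c _).2 ⟨o2, by rw [T.opp_opp]; exact o1⟩
  obtain ⟨k0, hk0⟩ := hfd
  have hk : c.e (k0 % c.n) = T.opp f := by rw [pl_cyc_mod]; exact hk0
  refine ⟨k0 % c.n, Nat.mod_lt _ (pl_cyc_pos c), by rw [hk, T.tgt_opp]; exact o3.1, by rw [hk, T.src_opp']; exact o3.2, fun j hj e => ?_⟩
  rw [hk, T.opp_opp] at e
  have hjτ : j < τ := by
    by_contra hc
    exact o1 (e ▸ hτ3 j (by omega) hj)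
  obtain ⟨a, ha1, ha2, ha3⟩ := pvys_entr (s := s) hA hstart j
  have haj : a ≠ j := by
    rintro rfl
    exact ha2 (e ▸ o2)
  obtain ⟨l, rfl⟩ := Nat.exists_eq_add_of_le ha1
  obtain ⟨q1, q2⟩ := pvys_pass hprop l hj ha3 (e ▸ o3)
  have hin' : pvasIn T c.Left s' (pvasIt T s d a) := ⟨ha3 a le_rfl (by omega), ha2, q1⟩
  have hex := (pvas_exit_eq (T := T) (A := c.Left) (s := s') (d := pvasIt T s d a) (n := l) (fun i hi => by rw [q2 i hi.le]; exact ha3 _ (by omega) (by omega))
    (by rw [q2 l le_rfl, e]; exact o1)).2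
  rw [q2 l le_rfl, e] at hex
  have := (pvas_exit_bij hA hfin s').injOn hin' hin (hex.trans hf)
  have := hinj _ _ (by omega) hτn this
  omega

/-- the end of a join lies in the set -/
theorem pvys_join_mem {A : Set D} {X : Set V} {a b : V} (h : T.Join A X a b) : b ∈ X := by
  obtain ⟨h1, h2⟩ := h
  cases h2 with
  | refl => exact h1
  | tail _ h3 => exact h3.2

/-- **SHORT HOOK, BLACK, exit tip** (abstract form: `u` any function with the two properties `hB`, `hedge`) -/
theorem pvys_black (hT : T.IsSph) {s : V → Bool} {d : D} {n : ℕ} (hd : pvasBW T s d) (hinj : ∀ i j, i ≤ n → j ≤ n → pvasIt T s d i = pvasIt T s d j → i = j)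
    (c : T.Cyc) (hfin : c.Left.Finite) (hstart : T.opp d ∉ c.Left) (htip : pvasIt T s d n ∈ c.Left) (u : V → ZMod 2) (β : ZMod 2)
    (hB : ∀ k, k ≤ n → (pvasIt T s d k ∈ c.Left ∨ T.opp (pvasIt T s d k) ∈ c.Left) → u (T.src (pvasIt T s d k)) = β)
    {p : ℕ} (hp : p < c.n) (hcol : ∀ k, k ≤ p → u (T.src (c.e k)) = β → s (T.src (c.e k)) = true)
    (hedge : ∀ k, k < p → u (T.src (c.e k)) = u (T.tgt (c.e k)) ∨ ∃ j, j ≤ n ∧ (c.e k = pvasIt T s d j ∨ c.e k = T.opp (pvasIt T s d j)))
    (hdoor : ∀ v ∈ pvysDoor c p, v ∉ pvasLayB T s d n) :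
    T.Join c.Left ({v | s v = true ∧ u v = β} \ pvysDoor c p) (T.src (pvasIt T s d n)) (T.src (c.e 0)) := by
  classical
  have hA := pl_left_face c
  set X : Set V := {v | s v = true ∧ u v = β} \ pvysDoor c p with hX
  set C : Set V := {v | T.Join c.Left X (T.src (pvasIt T s d n)) v} with hC
  have hCX : ∀ v ∈ C, v ∈ X := fun v hv => pvys_join_mem hv
  have hstep : ∀ v w, v ∈ C → T.EdgeIn c.Left v w → w ∈ X → w ∈ C := fun v w hv hE hw => ⟨hv.1, hv.2.tail ⟨hE, hw⟩⟩
  have hsX : ∀ k, k ≤ n → (pvasIt T s d k ∈ c.Left ∨ T.opp (pvasIt T s d k) ∈ c.Left) → T.src (pvasIt T s d k) ∈ X := fun k hk ht =>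
    ⟨⟨(pvas_it_bw hd k).1, hB k hk ht⟩, fun hdr => hdoor _ hdr ⟨k, hk, rfl⟩⟩
  have htC : ∀ k, T.tgt (pvasIt T s d k) ∉ C := fun k hk => by
    have := (hCX _ hk).1.1
    rw [(pvas_it_bw hd k).2] at this
    exact Bool.false_ne_true this
  set s' : V → Bool := fun v => decide (v ∈ C) with hs'
  have hbw : ∀ k, pvasBW T s' (pvasIt T s d k) ↔ T.src (pvasIt T s d k) ∈ C := fun k => by
    unfold pvasBW
    simp only [hs', decide_eq_true_eq, decide_eq_false_iff_not]
    exact ⟨fun h => h.1, fun h => ⟨h, htC k⟩⟩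
  have h0 : pvasBW T s' (pvasIt T s d n) := (hbw n).2 ⟨hsX n le_rfl (Or.inl htip), ReflTransGen.refl⟩
  have hprop : ∀ i, i < n → pvasIt T s d i ∈ c.Left → (pvasBW T s' (pvasIt T s d i) ↔ pvasBW T s' (pvasIt T s d (i + 1))) := by
    intro i hi hiA
    rw [hbw, hbw]
    have x1 := hsX i hi.le (Or.inl hiA)
    have x2 := hsX (i + 1) hi (Or.inr (by rw [pvas_it_succ, pvas_step_opp_mem hA]; exact hiA))
    rcases pvas_layB_step s d i with e | ⟨f, hf, e1, e2⟩
    · rw [e]
    · have hfA : f ∈ c.Left ∨ T.opp f ∈ c.Left := hf.imp (fun h => (hA.sf T h).2 hiA) fun h => (hA.sf T h).2 hiA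
      refine ⟨fun h => hstep _ _ h ⟨f, hfA, e1, e2⟩ x2, fun h => hstep _ _ h ⟨T.opp f, ?_, ?_, ?_⟩ x1⟩
      · rw [T.opp_opp]; exact hfA.symm
      · rw [T.src_opp', e2]
      · rw [T.tgt_opp, e1]
  obtain ⟨k, hk, k1, k2, k3⟩ := pvys_core hT hinj c hfin hstart htip s' h0 hprop
  simp only [hs', decide_eq_true_eq, decide_eq_false_iff_not] at k1 k2
  have hkA : c.e k ∈ c.Left := ((pl_cyc_darts_iff hT c _).1 ⟨k, rfl⟩).1
  rcases Nat.lt_or_ge (k + 1) c.n with hlt | hge
  · exfalso
    have hkp : k + 1 ≤ p := by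
      by_contra hc
      exact (hCX _ k1).2 ⟨k + 1, by omega, hlt, (c.chain k).symm⟩
    rcases hedge k (by omega) with e | ⟨j, hj, e | e⟩
    · refine k2 (hstep _ _ k1 ⟨T.opp (c.e k), Or.inr (by rw [T.opp_opp]; exact hkA), T.src_opp' _, T.tgt_opp _⟩ ⟨⟨hcol k (by omega) ?_, ?_⟩, ?_⟩)
      · rw [e]; exact (hCX _ k1).1.2
      · rw [e]; exact (hCX _ k1).1.2
      · rintro ⟨k', h1, h2, h3⟩
        have := c.inj k' k h2 hk h3
        omega
    · have := (hCX _ k1).1.1
      rw [e, (pvas_it_bw hd j).2] at this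
      exact Bool.false_ne_true this
    · exact k3 j hj (by rw [e, T.opp_opp])
  · have e : k + 1 = 0 + c.n := by omega
    have : T.tgt (c.e k) = T.src (c.e 0) := by rw [c.chain k, e, c.per]
    rw [this] at k1
    exact k1

/-- **SHORT HOOK, WHITE, exit tip** -/
theorem pvys_white (hT : T.IsSph) {s : V → Bool} {d : D} {n : ℕ} (hd : pvasBW T s d) (hinj : ∀ i j, i ≤ n → j ≤ n → pvasIt T s d i = pvasIt T s d j → i = j)
    (c : T.Cyc) (hfin : c.Left.Finite) (hstart : T.opp d ∉ c.Left) (htip : pvasIt T s d n ∈ c.Left) (u : V → ZMod 2) (β' : ZMod 2)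
    (hW : ∀ k, k ≤ n → (pvasIt T s d k ∈ c.Left ∨ T.opp (pvasIt T s d k) ∈ c.Left) → u (T.tgt (pvasIt T s d k)) = β')
    {p : ℕ} (hp : p < c.n) (hcol : ∀ k, k ≤ p → u (T.src (c.e k)) = β' → s (T.src (c.e k)) = false)
    (hedge : ∀ k, k < p → u (T.src (c.e k)) = u (T.tgt (c.e k)) ∨ ∃ j, j ≤ n ∧ (c.e k = pvasIt T s d j ∨ c.e k = T.opp (pvasIt T s d j)))
    (hdoor : ∀ v ∈ pvysDoor c p, v ∉ pvasLayW T s d n) :
    T.Join c.Left ({v | s v = false ∧ u v = β'} \ pvysDoor c p) (T.tgt (pvasIt T s d n)) (T.src (c.e p)) := by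
  classical
  have hA := pl_left_face c
  set X : Set V := {v | s v = false ∧ u v = β'} \ pvysDoor c p with hX
  set C : Set V := {v | T.Join c.Left X (T.tgt (pvasIt T s d n)) v} with hC
  have hCX : ∀ v ∈ C, v ∈ X := fun v hv => pvys_join_mem hv
  have hstep : ∀ v w, v ∈ C → T.EdgeIn c.Left v w → w ∈ X → w ∈ C := fun v w hv hE hw => ⟨hv.1, hv.2.tail ⟨hE, hw⟩⟩
  have hsX : ∀ k, k ≤ n → (pvasIt T s d k ∈ c.Left ∨ T.opp (pvasIt T s d k) ∈ c.Left) → T.tgt (pvasIt T s d k) ∈ X := fun k hk ht =>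
    ⟨⟨(pvas_it_bw hd k).2, hW k hk ht⟩, fun hdr => hdoor _ hdr ⟨k, hk, rfl⟩⟩
  have htC : ∀ k, T.src (pvasIt T s d k) ∉ C := fun k hk => by
    have := (hCX _ hk).1.1
    rw [(pvas_it_bw hd k).1] at this
    exact Bool.false_ne_true this.symm
  set s' : V → Bool := fun v => !decide (v ∈ C) with hs'
  have hbw : ∀ k, pvasBW T s' (pvasIt T s d k) ↔ T.tgt (pvasIt T s d k) ∈ C := fun k => by
    unfold pvasBW
    simp only [hs', Bool.not_eq_true', Bool.not_eq_false', decide_eq_true_eq, decide_eq_false_iff_not]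
    exact ⟨fun h => h.2, fun h => ⟨htC k, h⟩⟩
  have h0 : pvasBW T s' (pvasIt T s d n) := (hbw n).2 ⟨hsX n le_rfl (Or.inl htip), ReflTransGen.refl⟩
  have hprop : ∀ i, i < n → pvasIt T s d i ∈ c.Left → (pvasBW T s' (pvasIt T s d i) ↔ pvasBW T s' (pvasIt T s d (i + 1))) := by
    intro i hi hiA
    rw [hbw, hbw]
    have x1 := hsX i hi.le (Or.inl hiA)
    have x2 := hsX (i + 1) hi (Or.inr (by rw [pvas_it_succ, pvas_step_opp_mem hA]; exact hiA))
    rcases pvas_layW_step s d i with e | ⟨f, hf, e1, e2⟩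
    · rw [e]
    · have hfA : f ∈ c.Left ∨ T.opp f ∈ c.Left := hf.imp (fun h => (hA.sf T h).2 hiA) fun h => (hA.sf T h).2 hiA
      refine ⟨fun h => hstep _ _ h ⟨f, hfA, e1, e2⟩ x2, fun h => hstep _ _ h ⟨T.opp f, ?_, ?_, ?_⟩ x1⟩
      · rw [T.opp_opp]; exact hfA.symm
      · rw [T.src_opp', e2]
      · rw [T.tgt_opp, e1]
  obtain ⟨k, hk, k1, k2, k3⟩ := pvys_core hT hinj c hfin hstart htip s' h0 hprop
  simp only [hs', Bool.not_eq_true', Bool.not_eq_false', decide_eq_true_eq, decide_eq_false_iff_not] at k1 k2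
  have hkA : c.e k ∈ c.Left := ((pl_cyc_darts_iff hT c _).1 ⟨k, rfl⟩).1
  have hkp : k ≤ p := by
    by_contra hc
    exact (hCX _ k2).2 ⟨k, by omega, hk, rfl⟩
  rcases Nat.lt_or_ge k p with hlt | hge
  · exfalso
    rcases hedge k hlt with e | ⟨j, hj, e | e⟩
    · refine k1 (hstep _ _ k2 ⟨c.e k, Or.inl hkA, rfl, rfl⟩ ⟨⟨?_, ?_⟩, ?_⟩)
      · rw [c.chain k]
        refine hcol (k + 1) (by omega) ?_
        rw [← c.chain k, ← e]; exact (hCX _ k2).1.2
      · show u (T.tgt (c.e k)) = β'
        rw [← e]; exact (hCX _ k2).1.2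
      · rintro ⟨k', h1, h2, h3⟩
        rw [c.chain k] at h3
        have := c.inj k' (k + 1) h2 (by omega) h3
        omega
    · have := (hCX _ k2).1.1
      rw [e, (pvas_it_bw hd j).1] at this
      exact Bool.false_ne_true this.symm
    · exact k3 j hj (by rw [e, T.opp_opp])
  · have e : k = p := by omega
    rw [e] at k2
    exact k2

/-- **SHORT HOOK, BLACK, entrance tip**: the tip face is the face BEHIND `d`; the strand is followed until it is out of the disc.   (Time reversal + exchange of the colours: `pvys_white` for `pvasNot s`.)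
Seen from the entrance tip the black bank is on the other side: the black vertex of the door side is vertex number `p`. -/
theorem pvys_black_ent (hT : T.IsSph) {s : V → Bool} {d : D} {n : ℕ} (hd : pvasBW T s d) (hinj : ∀ i j, i ≤ n → j ≤ n → pvasIt T s d i = pvasIt T s d j → i = j)
    (c : T.Cyc) (hfin : c.Left.Finite) (hstop : pvasIt T s d n ∉ c.Left) (htip : T.opp d ∈ c.Left) (u : V → ZMod 2) (β : ZMod 2)
    (hB : ∀ k, k ≤ n → (pvasIt T s d k ∈ c.Left ∨ T.opp (pvasIt T s d k) ∈ c.Left) → u (T.src (pvasIt T s d k)) = β)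
    {p : ℕ} (hp : p < c.n) (hcol : ∀ k, k ≤ p → u (T.src (c.e k)) = β → s (T.src (c.e k)) = true)
    (hedge : ∀ k, k < p → u (T.src (c.e k)) = u (T.tgt (c.e k)) ∨ ∃ j, j ≤ n ∧ (c.e k = pvasIt T s d j ∨ c.e k = T.opp (pvasIt T s d j)))
    (hdoor : ∀ v ∈ pvysDoor c p, v ∉ pvasLayB T s d n) :
    T.Join c.Left ({v | s v = true ∧ u v = β} \ pvysDoor c p) (T.src d) (T.src (c.e p)) := by
  have hr : ∀ i, i ≤ n → pvasIt T (pvasNot s) (T.opp (pvasIt T s d n)) i = T.opp (pvasIt T s d (n - i)) := fun i hi => pvas_it_rev hd hi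
  have key := pvys_white hT (s := pvasNot s) (d := T.opp (pvasIt T s d n)) (n := n) (pvas_bw_not.2 (pvas_it_bw hd n))
    (fun i j hi hj e => by
      rw [hr i hi, hr j hj] at e
      have := hinj _ _ (by omega) (by omega) (T.opp_injective e)
      omega)
    c hfin (by rw [T.opp_opp]; exact hstop) (by rw [hr n le_rfl, Nat.sub_self]; exact htip) u β
    (fun k hk ht => by
      rw [hr k hk, T.opp_opp] at ht
      rw [hr k hk, T.tgt_opp]
      exact hB _ (by omega) ht.symm)
    hp (fun k hk e => by simp [pvasNot, hcol k hk e])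
    (fun k hk => (hedge k hk).imp id fun ⟨j, hj, e⟩ => ⟨n - j, by omega, by
      rw [hr _ (by omega), T.opp_opp, show n - (n - j) = j by omega]
      exact e.symm⟩)
    (fun v hv ⟨i, hi, e⟩ => hdoor v hv ⟨n - i, by omega, by rw [← e, hr i hi, T.tgt_opp]⟩)
  rw [hr n le_rfl, Nat.sub_self, T.tgt_opp] at key
  have hset : {v | pvasNot s v = false ∧ u v = β} = {v | s v = true ∧ u v = β} := by
    ext v; simp [pvasNot]
  rw [hset] at key
  exact key

/-- **SHORT HOOK, WHITE, entrance tip** (`pvys_black` for `pvasNot s`, reversed strand) -/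
theorem pvys_white_ent (hT : T.IsSph) {s : V → Bool} {d : D} {n : ℕ} (hd : pvasBW T s d) (hinj : ∀ i j, i ≤ n → j ≤ n → pvasIt T s d i = pvasIt T s d j → i = j)
    (c : T.Cyc) (hfin : c.Left.Finite) (hstop : pvasIt T s d n ∉ c.Left) (htip : T.opp d ∈ c.Left) (u : V → ZMod 2) (β' : ZMod 2)
    (hW : ∀ k, k ≤ n → (pvasIt T s d k ∈ c.Left ∨ T.opp (pvasIt T s d k) ∈ c.Left) → u (T.tgt (pvasIt T s d k)) = β')
    {p : ℕ} (hp : p < c.n) (hcol : ∀ k, k ≤ p → u (T.src (c.e k)) = β' → s (T.src (c.e k)) = false)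
    (hedge : ∀ k, k < p → u (T.src (c.e k)) = u (T.tgt (c.e k)) ∨ ∃ j, j ≤ n ∧ (c.e k = pvasIt T s d j ∨ c.e k = T.opp (pvasIt T s d j)))
    (hdoor : ∀ v ∈ pvysDoor c p, v ∉ pvasLayW T s d n) :
    T.Join c.Left ({v | s v = false ∧ u v = β'} \ pvysDoor c p) (T.tgt d) (T.src (c.e 0)) := by
  have hr : ∀ i, i ≤ n → pvasIt T (pvasNot s) (T.opp (pvasIt T s d n)) i = T.opp (pvasIt T s d (n - i)) := fun i hi => pvas_it_rev hd hi
  have key := pvys_black hT (s := pvasNot s) (d := T.opp (pvasIt T s d n)) (n := n) (pvas_bw_not.2 (pvas_it_bw hd n))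
    (fun i j hi hj e => by
      rw [hr i hi, hr j hj] at e
      have := hinj _ _ (by omega) (by omega) (T.opp_injective e)
      omega)
    c hfin (by rw [T.opp_opp]; exact hstop) (by rw [hr n le_rfl, Nat.sub_self]; exact htip) u β'
    (fun k hk ht => by
      rw [hr k hk, T.opp_opp] at ht
      rw [hr k hk, T.src_opp']
      exact hW _ (by omega) ht.symm)
    hp (fun k hk e => by simp [pvasNot, hcol k hk e])
    (fun k hk => (hedge k hk).imp id fun ⟨j, hj, e⟩ => ⟨n - j, by omega, by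
      rw [hr _ (by omega), T.opp_opp, show n - (n - j) = j by omega]
      exact e.symm⟩)
    (fun v hv ⟨i, hi, e⟩ => hdoor v hv ⟨n - i, by omega, by rw [← e, hr i hi, T.src_opp']⟩)
  rw [hr n le_rfl, Nat.sub_self, T.src_opp'] at key
  have hset : {v | pvasNot s v = true ∧ u v = β'} = {v | s v = false ∧ u v = β'} := by
    ext v; simp [pvasNot]
  rw [hset] at key
  exact key

/-- **the two hypotheses `hB`, `hedge` from the tip potential of 23**: `M` = mouth, `c.Left ⊆ M`, every position which touches the disc of `c` belongs to the last piece `m..n`, `P` off the slit -/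
theorem pvys_of_pot (hT : T.IsSph) {s : V → Bool} {d : D} {n : ℕ} {M : Set D} {χ : D → ZMod 2} {u : V → ZMod 2} (hM : T.FaceSet M) (hd : pvasBW T s d) (h : PvtzPot T s d n M χ u)
    {m : ℕ} (hpc : PvtzPiece T s d M χ m n) (c : T.Cyc) (hcM : c.Left ⊆ M)
    (hlast : ∀ k, k ≤ n → (pvasIt T s d k ∈ c.Left ∨ T.opp (pvasIt T s d k) ∈ c.Left) → m ≤ k) {p : ℕ} (hoff : ∀ k, k < p → χ (c.e k) = 0) :
    (∀ k, k ≤ n → (pvasIt T s d k ∈ c.Left ∨ T.opp (pvasIt T s d k) ∈ c.Left) → u (T.src (pvasIt T s d k)) = u (T.src (pvasIt T s d m))) ∧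
    (∀ k, k ≤ n → (pvasIt T s d k ∈ c.Left ∨ T.opp (pvasIt T s d k) ∈ c.Left) → u (T.tgt (pvasIt T s d k)) = u (T.tgt (pvasIt T s d m))) ∧
    (∀ k, k < p → u (T.src (c.e k)) = u (T.tgt (c.e k)) ∨ ∃ j, j ≤ n ∧ (c.e k = pvasIt T s d j ∨ c.e k = T.opp (pvasIt T s d j))) := by
  refine ⟨fun k hk ht => (pvtz_piece_const hM hd h hpc (hlast k hk ht) hk).1, fun k hk ht => (pvtz_piece_const hM hd h hpc (hlast k hk ht) hk).2, fun k hk => ?_⟩
  by_cases hX : pvtzX T s d n (c.e k) = 0
  · exact Or.inl (h.eq (Or.inl (hcM ((pl_jordan hT c).2.1 k))) hX (hoff k hk))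
  · exact Or.inr (pvtz_X_ne hX)

end Claimed.Agent.R289
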