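-- KEEP
import Claimed.Agent.R289.Tr.Cls
import Claimed.Agent.R289.Tr.Block

/-!
# Row 289 (S0537), THE WALL, ROAD E, file Tr/Sides : E23 = THE SIDES ARE AUTOMATIC      (helper33; post of 24; prefix `pvsd2_`)

E23 of `origin/helper208:notes/R289/W1_208_v3.md`: "any corridor between the two fronts has its black lane / white lanes on the correct sides.  No winding, no homotopy class."

TYPED FORM.   No plane topology.   The only place where a SIDE enters the typed wall is the hypothesis OUT of `pvld_exist` / `pvblo_exist` / `pvyc_exist` (70, 39):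
   `∃ f, src f ∉ K ∧ DJoin (pvldBar T σ K a₀ a₁) (opp a₀) f`      ("from the face BEHIND the tip one reaches a face with a vertex off the region without crossing a monochromatic edge of the region").
On a datum `𝔇` which is `Ok` and a region `K` of record (`PvwDat.Reg`) it is a THEOREM: the exit stub `Σ⁺(t)` itself is such a dual path, it starts on the gate of `t` and the core is off `K`.
What has to be checked: the stub does not pass through the tip dart before its end (first exit of the box), nor through the tip dart of `Σ⁻(s)` (the tip apex of `s` is fresh: `Ok.tip_f`).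

* sec. 1  half stubs: strands of every colouring of the cylinder (`pvsd2_stubP`, `pvsd2_stubM`); the tip dart is visited once (`pvsd2_ep_ne_tip`, `pvsd2_em_ne_tip`);
          the face BEHIND a position of `Σ⁺` has its three vertices in `fzOut`, the face IN FRONT of a position of `Σ⁻` has its three vertices in `fzIn` (`pvsd2_behind`, `pvsd2_front`)
* sec. 2  the two tips of a datum: `pvsd2_ep_ne_a1`, `pvsd2_em_ne_a0`, `pvsd2_a0_ne_a1`, `pvsd2_bw0`, `pvsd2_bw1`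
* sec. 3  **`pvsd2_out`** (OUT on the datum), `pvsd2_out1` (the mirror: from the face in front of the tip of `s`), **`pvsd2_exist`** (two lanes inside `K` give `SY2`: NO side hypothesis, NO `src a₀ ≠ src a₁`)
* sec. 4  **`pvsd2_sides`**: every circuit of `K` through the tip dart `a₀` all of whose other edges are barred has the region on its left and everything which is off `K` (cores, `g₀`) strictly on its right
-/

set_option autoImplicit false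

namespace Claimed.Agent.R289

open Relation Set

variable {V D : Type} {T : PvMap V D}

/-! ## 1. half stubs -/

/-- the exit stub is a strand of every colouring which agrees with the prescription on its banks -/
theorem pvsd2_stubP {𝔖 : PvwSt T} {pos : V → ℂ} {B : Set ℂ} {col σ : V → Bool} (hst : 𝔖.StubP pos B col) (hσ : PvwAgree (𝔖.bkP ∪ 𝔖.whP) σ col) :
    ∀ i, i ≤ 𝔖.np → pvasIt T σ 𝔖.dp i = 𝔖.ep i := by
  intro i hi
  rw [hst.ep_it i hi]
  refine pvas_it_congr (T := T) (s := col) (s' := σ) (n := 𝔖.np) (fun v hv => ?_) i hi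
  rcases hv with ⟨k, hk, rfl⟩ | ⟨k, hk, rfl⟩
  · exact hσ _ (Or.inl ⟨k, hk, by rw [hst.ep_it k hk]⟩)
  · exact hσ _ (Or.inr ⟨k, hk, by rw [hst.ep_it k hk]⟩)

/-- the entrance stub is a backward strand of every colouring which agrees with the prescription on its banks -/
theorem pvsd2_stubM {𝔖 : PvwSt T} {pos : V → ℂ} {B : Set ℂ} {col σ : V → Bool} (hst : 𝔖.StubM pos B col) (hσ : PvwAgree (𝔖.bkM ∪ 𝔖.whM) σ col) :
    ∀ i, i ≤ 𝔖.nm → (pvasBack T σ)^[i] 𝔖.dm = 𝔖.em i := by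
  intro i
  induction i with
  | zero => intro _; rw [hst.em_it 0 (Nat.zero_le _)]; rfl
  | succ i ih =>
    intro hi
    have e1 : 𝔖.em (i + 1) = pvasBack T col (𝔖.em i) := by
      rw [hst.em_it (i + 1) hi, hst.em_it i (Nat.le_of_succ_le hi), Function.iterate_succ_apply']
    rw [Function.iterate_succ_apply', ih (Nat.le_of_succ_le hi), e1]
    refine pvyc_back_congr ?_ ?_
    · exact hσ _ (Or.inl ⟨i + 1, hi, by rw [e1]⟩)
    · exact hσ _ (Or.inr ⟨i + 1, hi, by rw [e1]⟩)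

/-- the tip dart of the exit stub is not an earlier position -/
theorem pvsd2_ep_ne_tip {𝔖 : PvwSt T} {pos : V → ℂ} {B : Set ℂ} {col : V → Bool} (hst : 𝔖.StubP pos B col) : ∀ i, i < 𝔖.np → 𝔖.ep i ≠ 𝔖.ep 𝔖.np := by
  intro i hi e
  have h1 := hst.ep_ax i hi
  rw [e] at h1
  exact hst.ep_out h1

/-- the tip dart of the entrance stub is not an earlier position -/
theorem pvsd2_em_ne_tip {𝔖 : PvwSt T} {pos : V → ℂ} {B : Set ℂ} {col : V → Bool} (hst : 𝔖.StubM pos B col) : ∀ i, i < 𝔖.nm → 𝔖.em i ≠ 𝔖.em 𝔖.nm := by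
  intro i hi e
  have h1 := hst.em_ax i hi
  rw [e] at h1
  exact hst.em_out h1

/-- the closed inside of the gate lies in the core (`Tr/Defs` v3: the core is the whole disc) -/
theorem pvsd2_ins_core {𝔖 : PvwSt T} {pos : V → ℂ} {h : ℝ} {z : ℂ} {τ : PvwTy} {s : V → Bool} (hG : 𝔖.Gate pos h z τ s) : 𝔖.ins ⊆ 𝔖.core := by
  intro v hv
  show v ∈ 𝔖.dsc
  rw [hG.dsc_eq]
  exact hG.inside v hv

/-- the third vertex of the face BEHIND a position of the exit stub is frozen by `Σ_out` -/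
theorem pvsd2_behind (hT : T.IsSph) {𝔖 : PvwSt T} {pos : V → ℂ} {B : Set ℂ} {col : V → Bool} (hst : 𝔖.StubP pos B col) (hdp : T.opp 𝔖.dp ∈ 𝔖.S.darts) (hic : 𝔖.ins ⊆ 𝔖.core) :
    ∀ i, i ≤ 𝔖.np → T.apex (T.opp (𝔖.ep i)) ∈ 𝔖.fzOut := by
  intro i
  cases i with
  | zero =>
    intro _
    rw [hst.ep_it 0 (Nat.zero_le _), pvas_it_zero]
    obtain ⟨k, hk⟩ := hdp
    have h1 : T.opp 𝔖.dp ∈ 𝔖.S.Left := hk ▸ (pl_jordan hT 𝔖.S).2.1 k
    have hF := pl_left_face 𝔖.S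
    exact Or.inl (Or.inl (hic ⟨T.nxt (T.nxt (T.opp 𝔖.dp)), (hF _).2 ((hF _).2 h1), rfl⟩))
  | succ i =>
    intro hi
    have e1 : 𝔖.ep (i + 1) = pvasStep T col (𝔖.ep i) := by rw [hst.ep_it (i + 1) hi, hst.ep_it i (Nat.le_of_succ_le hi), pvas_it_succ]
    rw [e1]
    rcases pvas_step_cases col (𝔖.ep i) with ⟨_, e⟩ | ⟨_, e⟩
    · rw [e, T.opp_opp, T.apex_nxt]; exact Or.inl (Or.inr ⟨i, Nat.le_of_succ_le hi, rfl⟩)
    · rw [e, T.opp_opp, T.apex_nxt2]; exact Or.inr ⟨i, Nat.le_of_succ_le hi, rfl⟩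

/-- the third vertex of the face IN FRONT of a position of the entrance stub is frozen by `Σ_in` -/
theorem pvsd2_front (hT : T.IsSph) {𝔖 : PvwSt T} {pos : V → ℂ} {B : Set ℂ} {col : V → Bool} (hst : 𝔖.StubM pos B col) (hdm : 𝔖.dm ∈ 𝔖.S.darts) (hic : 𝔖.ins ⊆ 𝔖.core) :
    ∀ i, i ≤ 𝔖.nm → T.apex (𝔖.em i) ∈ 𝔖.fzIn := by
  intro i
  cases i with
  | zero =>
    intro _
    rw [hst.em_it 0 (Nat.zero_le _), Function.iterate_zero, id]
    obtain ⟨k, hk⟩ := hdm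
    have h1 : 𝔖.dm ∈ 𝔖.S.Left := hk ▸ (pl_jordan hT 𝔖.S).2.1 k
    have hF := pl_left_face 𝔖.S
    exact Or.inl (Or.inl (hic ⟨T.nxt (T.nxt 𝔖.dm), (hF _).2 ((hF _).2 h1), rfl⟩))
  | succ i =>
    intro hi
    have e1 : 𝔖.em (i + 1) = pvasBack T col (𝔖.em i) := by
      rw [hst.em_it (i + 1) hi, hst.em_it i (Nat.le_of_succ_le hi), Function.iterate_succ_apply']
    rw [e1]
    rcases pvas_back_cases col (𝔖.em i) with ⟨_, e⟩ | ⟨_, e⟩
    · rw [e, T.apex_nxt2, T.tgt_opp]; exact Or.inl (Or.inr ⟨i, Nat.le_of_succ_le hi, rfl⟩)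
    · rw [e, T.apex_nxt, T.src_opp']; exact Or.inr ⟨i, Nat.le_of_succ_le hi, rfl⟩

/-! ## 2. the two tips of a datum -/

variable {𝔇 : PvwDat T} {pos : V → ℂ} {N : PvwNum} {h : ℝ} {π : PvwPat} {K : Set V}

/-- no position of `Σ⁺(t)` is the tip dart of `Σ⁻(s)` -/
theorem pvsd2_ep_ne_a1 (hT : T.IsSph) (hOk : 𝔇.Ok pos N h π) : ∀ i, i ≤ 𝔇.t.np → 𝔇.t.ep i ≠ 𝔇.a1 := by
  intro i hi e
  have h1 := pvsd2_behind hT hOk.st_t.stub hOk.st_t.gate.dp_on (pvsd2_ins_core hOk.st_t.gate) i hi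
  rw [e] at h1
  exact hOk.tip_f.2 (Or.inl h1)

/-- no position of `Σ⁻(s)` is the tip dart of `Σ⁺(t)` -/
theorem pvsd2_em_ne_a0 (hT : T.IsSph) (hOk : 𝔇.Ok pos N h π) : ∀ i, i ≤ 𝔇.s.nm → 𝔇.s.em i ≠ 𝔇.a0 := by
  intro i hi e
  have h1 := pvsd2_front hT hOk.st_s.stub hOk.st_s.gate.dm_on (pvsd2_ins_core hOk.st_s.gate) i hi
  rw [e] at h1
  exact hOk.tip_f.1 (Or.inr h1)

theorem pvsd2_a0_ne_a1 (hT : T.IsSph) (hOk : 𝔇.Ok pos N h π) : 𝔇.a0 ≠ 𝔇.a1 := pvsd2_ep_ne_a1 hT hOk _ le_rfl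

/-- the tip dart of `Σ⁺(t)` is a position of every colouring of the cylinder of `D_Y` -/
theorem pvsd2_bw0 (hOk : 𝔇.Ok pos N h π) {σ : V → Bool} (hσ : PvwAgree 𝔇.fzY σ 𝔇.col) : pvasBW T σ 𝔇.a0 := by
  have h1 := pvas_it_bw hOk.st_t.gate.bw_p 𝔇.t.np
  rw [← hOk.st_t.stub.ep_it _ le_rfl] at h1
  unfold PvwDat.a0
  exact ⟨by rw [hσ _ (Or.inl (Or.inl (Or.inr ⟨𝔇.t.np, le_rfl, rfl⟩)))]; exact h1.1, by rw [hσ _ (Or.inl (Or.inr ⟨𝔇.t.np, le_rfl, rfl⟩))]; exact h1.2⟩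

/-- the tip dart of `Σ⁻(s)` is a position of every colouring of the cylinder of `D_Y` -/
theorem pvsd2_bw1 (hOk : 𝔇.Ok pos N h π) {σ : V → Bool} (hσ : PvwAgree 𝔇.fzY σ 𝔇.col) : pvasBW T σ 𝔇.a1 := by
  have h0 : ∀ i, pvasBW T 𝔇.col ((pvasBack T 𝔇.col)^[i] 𝔇.s.dm) := by
    intro i
    induction i with
    | zero => exact hOk.st_s.gate.bw_m
    | succ i ih => rw [Function.iterate_succ_apply']; exact pvas_back_bw ih
  have h1 := h0 𝔇.s.nm
  rw [← hOk.st_s.stub.em_it _ le_rfl] at h1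
  unfold PvwDat.a1
  exact ⟨by rw [hσ _ (Or.inr (Or.inl (Or.inr ⟨𝔇.s.nm, le_rfl, rfl⟩)))]; exact h1.1, by rw [hσ _ (Or.inr (Or.inr ⟨𝔇.s.nm, le_rfl, rfl⟩))]; exact h1.2⟩

/-! ## 3. OUT and EXIST on the datum -/

/-- **OUT is automatic**: the hypothesis `hout` of `pvld_exist`, `pvblo_exist`, `pvyc_exist` on a datum -/
theorem pvsd2_out (hT : T.IsSph) (hOk : 𝔇.Ok pos N h π) (hK : 𝔇.Reg K) {σ : V → Bool} (hσ : PvwAgree 𝔇.fzY σ 𝔇.col) :
    ∃ f, T.src f ∉ K ∧ T.DJoin (pvldBar T σ K 𝔇.a0 𝔇.a1) (T.opp 𝔇.a0) f := by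
  have hP := pvsd2_stubP hOk.st_t.stub (σ := σ) (fun v hv => hσ v (Or.inl (hv.elim (fun h => Or.inl (Or.inr h)) Or.inr)))
  have e0 : 𝔇.t.ep 0 = 𝔇.t.dp := hOk.st_t.stub.ep_it 0 (Nat.zero_le _)
  have hbp : pvasBW T σ 𝔇.t.dp :=
    ⟨by rw [hσ _ (Or.inl (Or.inl (Or.inr ⟨0, Nat.zero_le _, by rw [e0]⟩)))]; exact hOk.st_t.gate.bw_p.1,
      by rw [hσ _ (Or.inl (Or.inr ⟨0, Nat.zero_le _, by rw [e0]⟩))]; exact hOk.st_t.gate.bw_p.2⟩
  have hcore : T.src 𝔇.t.dp ∈ 𝔇.t.core := by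
    obtain ⟨k, hk⟩ := hOk.st_t.gate.dp_on
    have h1 : T.opp 𝔇.t.dp ∈ 𝔇.t.S.Left := hk ▸ (pl_jordan hT 𝔇.t.S).2.1 k
    exact pvsd2_ins_core hOk.st_t.gate ⟨T.nxt (T.opp 𝔇.t.dp), (pl_left_face 𝔇.t.S _).2 h1, by rw [T.src_nxt, T.tgt_opp]⟩
  have hnp : 1 ≤ 𝔇.t.np := by
    by_contra hc
    have h0 : 𝔇.t.np = 0 := by omega
    have h1 := hK.tip0.1
    unfold PvwDat.a0 at h1
    rw [h0, e0] at h1
    exact hK.core _ (Or.inr hcore) h1
  refine pvld_out_strand (pvsd2_bw1 hOk hσ) hbp (j := 𝔇.t.np) (hP _ le_rfl) (fun i hi => ⟨?_, ?_⟩) ?_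
  · rw [hP i hi.le]; exact pvsd2_ep_ne_tip hOk.st_t.stub i hi
  · rw [hP i hi.le]; exact pvsd2_ep_ne_a1 hT hOk i hi.le
  · intro hsub
    exact hK.core _ (Or.inr hcore) (hsub ⟨𝔇.t.dp, ⟨0, hnp, Or.inl rfl⟩, rfl⟩)

/-- the mirror: from the face IN FRONT of the tip dart of `Σ⁻(s)` one reaches the gate of `s` -/
theorem pvsd2_out1 (hT : T.IsSph) (hOk : 𝔇.Ok pos N h π) (hK : 𝔇.Reg K) {σ : V → Bool} (hσ : PvwAgree 𝔇.fzY σ 𝔇.col) :
    ∃ f, T.src f ∉ K ∧ T.DJoin (pvldBar T σ K 𝔇.a0 𝔇.a1) 𝔇.a1 f := by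
  have hM := pvsd2_stubM hOk.st_s.stub (σ := σ) (fun v hv => hσ v (Or.inr (hv.elim (fun h => Or.inl (Or.inr h)) Or.inr)))
  have h0 := pvsd2_bw0 hOk hσ
  have h1 := pvsd2_bw1 hOk hσ
  have e0 : 𝔇.s.em 0 = 𝔇.s.dm := hOk.st_s.stub.em_it 0 (Nat.zero_le _)
  have hbm : pvasBW T σ 𝔇.s.dm :=
    ⟨by rw [hσ _ (Or.inr (Or.inl (Or.inr ⟨0, Nat.zero_le _, by rw [e0]⟩)))]; exact hOk.st_s.gate.bw_m.1,
      by rw [hσ _ (Or.inr (Or.inr ⟨0, Nat.zero_le _, by rw [e0]⟩))]; exact hOk.st_s.gate.bw_m.2⟩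
  have hbk : ∀ k, k ≤ 𝔇.s.nm → pvasBW T σ (𝔇.s.em k) := by
    intro k
    induction k with
    | zero => intro _; rw [e0]; exact hbm
    | succ k ih =>
      intro hk
      rw [← hM (k + 1) hk, Function.iterate_succ_apply', hM k (Nat.le_of_succ_le hk)]
      exact pvas_back_bw (ih (Nat.le_of_succ_le hk))
  have hcore : T.src 𝔇.s.dm ∈ 𝔇.s.core := by
    obtain ⟨k, hk⟩ := hOk.st_s.gate.dm_on
    exact pvsd2_ins_core hOk.st_s.gate ⟨𝔇.s.dm, hk ▸ (pl_jordan hT 𝔇.s.S).2.1 k, rfl⟩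
  refine ⟨𝔇.s.dm, hK.core _ (Or.inl hcore), ?_⟩
  have key : ∀ i, i ≤ 𝔇.s.nm → T.DJoin (pvldBar T σ K 𝔇.a0 𝔇.a1) 𝔇.a1 (𝔇.s.em (𝔇.s.nm - i)) := by
    intro i
    induction i with
    | zero => intro _; exact ReflTransGen.refl
    | succ i ih =>
      intro hi
      have h2 := ih (Nat.le_of_succ_le hi)
      have e1 : 𝔇.s.nm - i = (𝔇.s.nm - (i + 1)) + 1 := by omega
      have e2 : pvasStep T σ (𝔇.s.em (𝔇.s.nm - i)) = 𝔇.s.em (𝔇.s.nm - (i + 1)) := by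
        rw [e1, ← hM _ (by omega), Function.iterate_succ_apply', hM _ (by omega)]
        exact pvas_step_back (hbk _ (by omega))
      have h3 := pvas_step_sf (T := T) σ (𝔇.s.em (𝔇.s.nm - i))
      rw [e2] at h3
      have hbw := hbk (𝔇.s.nm - (i + 1)) (by omega)
      have hnot : 𝔇.s.em (𝔇.s.nm - (i + 1)) ∉ pvldBar T σ K 𝔇.a0 𝔇.a1 := by
        rintro ⟨_, _, h4 | h4 | h4 | h4 | h4⟩
        · apply h4
          show σ _ ≠ σ _
          rw [hbw.1, hbw.2]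
          simp
        · exact pvsd2_em_ne_a0 hT hOk _ (by omega) h4
        · have h5 := hbw.1
          rw [h4, T.src_opp', h0.2] at h5
          simp at h5
        · exact pvsd2_em_ne_tip hOk.st_s.stub _ (by omega) h4
        · have h5 := hbw.1
          rw [h4, T.src_opp', h1.2] at h5
          simp at h5
      have hstep : T.DStep (pvldBar T σ K 𝔇.a0 𝔇.a1) (T.opp (𝔇.s.em (𝔇.s.nm - (i + 1)))) (𝔇.s.em (𝔇.s.nm - (i + 1))) := by
        refine Or.inr ⟨(T.opp_opp _).symm, ?_⟩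
        rintro (h4 | h4)
        · exact hnot (pvld_bar_opp.1 h4)
        · rw [T.opp_opp] at h4
          exact hnot h4
      exact (h2.trans (T.djoin_sf h3)).tail hstep
  have h5 := key 𝔇.s.nm le_rfl
  rwa [Nat.sub_self, e0] at h5

/-- **E23, EXIST**: a black and a white connection inside the region between the ends of the two tip darts give `SY2`.      No side, no winding, no homotopy class. -/
theorem pvsd2_exist (hT : T.IsSph) (hOk : 𝔇.Ok pos N h π) (hK : 𝔇.Reg K) {σ : V → Bool} (hσ : PvwAgree 𝔇.fzY σ 𝔇.col)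
    (hB : T.Join Set.univ (pvldCol σ K true) (T.src 𝔇.a0) (T.src 𝔇.a1)) (hW : T.Join Set.univ (pvldCol σ K false) (T.tgt 𝔇.a0) (T.tgt 𝔇.a1)) : 𝔇.SY2 K σ :=
  pvblo_exist hT hK.fin (pvsd2_bw0 hOk hσ) (pvsd2_bw1 hOk hσ) (pvsd2_a0_ne_a1 hT hOk) hB hW hK.co (pvsd2_out hT hOk hK hσ)

/-! ## 4. the two sides of a circuit of lanes -/

/-- **E23, SIDES**: a circuit of `K` which runs through the tip dart `a₀`, all of whose edges are barred (monochromatic, or the edges of the two tip darts):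
the region it bounds on its LEFT consists of faces of `K`, it is finite, and every site off `K` (the two cores, `g₀`, its right apexes off `K`) lies strictly on its RIGHT. -/
theorem pvsd2_sides (hT : T.IsSph) (hOk : 𝔇.Ok pos N h π) (hK : 𝔇.Reg K) {σ : V → Bool} (hσ : PvwAgree 𝔇.fzY σ 𝔇.col)
    (c : T.Cyc) (h0 : c.e 0 = 𝔇.a0) (hcK : c.verts ⊆ K) (hcB : c.darts ⊆ pvldBar T σ K 𝔇.a0 𝔇.a1) :
    T.VOf c.Left ⊆ K ∧ c.Left.Finite ∧ ∀ v, v ∉ K → v ∈ T.Int c.Right := by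
  obtain ⟨f, hfK, hf⟩ := pvsd2_out hT hOk hK hσ
  have hfR : f ∈ c.Right := by
    show T.DJoin c.darts (T.opp (c.e 0)) f
    rw [h0]
    exact T.djoin_mono hcB hf
  have hreg := pvld_region hT c hcK hK.co hfR hfK
  refine ⟨hreg, pvld_finite hT hK.fin hreg, fun v hv d hd => ?_⟩
  rw [(pl_jordan hT c).1]
  exact fun hL => hv (hreg ⟨d, hL, hd⟩)

end Claimed.Agent.R289
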