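import Claimed.Agent.R289.Tr.Cyc

/-!
# Row 289 (S0537, Cardy for Poisson-Voronoi), THE WALL, file Tr/Sig1 : `Σ₁` = fields `cyc1` + `thick` of `PvhbLoc` / `PvtsIn`, ON THE PRODUCT ENGINE OF 175      (helper58; prefix `pvs1_`, `pvs1`)

Blueprint: TR2 TR3' TR5 TR31 of `origin/helper295:notes/R289/TR_295.md`, `origin/helper125:notes/R289/TRE_125.md` (TR31, TR32.4), order of 129 (`Tr/Spine.lean`):
ONE pure cycle per type:   `t` -thin chain-> `u` (reference type, INNER plug, integrated) -THICK SHORT link `e`-> `t`.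
Model free: Mathlib + `Tr/Cyc.lean` (`PvtcSys`, `Ok`, `IsChain`, `Kout`, `Kin`, `K`, `y_chain`, `n1_cycle`).      Road P (region states `σ_u = ω|O_u`): the instance is `IsPpp.map_restr_pi`.

* §1 `pvs1_D_ne_top`, `pvs1_W_mul_le`, **`pvs1_ae_integrable`** : the integrability hypothesis of TR2 holds a.e. ON an event `B ⊆ ends` as soon as `E[‖X_e‖ ; B, good] < ∞` (NOTHING is asked off `G_t × G_s`)
* §2 **`pvs1_mean_Ln`** = TR5 in the CHAIN form of 125: `∫_B ‖mean_e‖^k ≤ D_c E[‖X_e‖^k ; B, good]` for every connector `e` of the system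
* §3 chains: `pvs1B` (the two outer plugs are usable), **`pvs1_chain_Ln`** = TR3 (`X = 0`) + TR2: `∫_B ‖Kout(σ_t) + ∑ K + Kin(σ_s)‖^k ≤ D_c E[‖Y_c‖^k ; B, good]`, `pvs1_last_Ln` (the last connector: `Kin`), `pvs1_first_Ln` (the first: `Kout`)
* §4 `pvs1_meas_I`, **`pvs1_meas_Kout`**, **`pvs1_meas_Kin`** (=> `kout_meas`, `ke_meas`)
* §5 `pvs1_I_congr`, **`pvs1_Kout_congr`**, `pvs1_Kin_congr`, `pvs1_K_congr` : the SAME functions in all systems which share the connector and the integrated plug (R4 fixed adapters: `kout` of `n1` = `kout` of `cyc1`; `ke` of `cyc1` = `ke` of `thick`)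
* §6 PURE CYCLE `u (n+2) = u 0`, ONE-COORDINATE forms (integrals over the law `ν_t` of the state): **`pvs1_cycle`**, **`pvs1_link`**
* §7 on a sample space: the state `S : Ω → T` has a law DOMINATED by `C ν_t` (`C = 1`: bare states; `C = C_prep`: prepared states): `pvs1_dom`, **`pvs1_cycle_dom`**, **`pvs1_link_dom`**
* §8 LIMIT FORMS along any filter: **`pvs1_cyc1`** (shape of the field `cyc1`), **`pvs1_thick`** (shape of the field `thick`)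
-/

set_option autoImplicit false
set_option linter.unusedSectionVars false

namespace Claimed.Agent.R289

open MeasureTheory ProbabilityTheory Set Filter Topology
open scoped ENNReal NNReal

/-! ## 1. the weight on `ends` -/

section eng

variable {ι : Type*} [Fintype ι] [DecidableEq ι] {T : Type*} {E : Type*} [MeasurableSpace T] {𝔖 : PvtcSys ι T E}
variable [NormedAddCommGroup E] [NormedSpace ℝ E] {Cu Cf : Finset ι} {q : ι → ℝ≥0∞}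

/-- the bound of the cycle weight is finite -/
theorem pvs1_D_ne_top (h : 𝔖.Ok Cu Cf q) : 𝔖.D Cu Cf q ≠ ∞ := by
  unfold PvtcSys.D
  exact ENNReal.mul_ne_top (ENNReal.prod_ne_top fun u hu => ENNReal.inv_ne_top.2 (h.G_pos u hu))
    (ENNReal.prod_ne_top fun e he => ENNReal.inv_ne_top.2 (h.q_pos e he))

/-- the weighted integral on an event `B ⊆ ends` -/
theorem pvs1_W_mul_le (h : 𝔖.Ok Cu Cf q) {B : Set (ι → T)} (hB : MeasurableSet B) (hBe : B ⊆ 𝔖.ends Cu Cf)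
    {F : (ι → T) → ℝ≥0∞} (hF : Measurable F) :
    ∫⁻ x in B, 𝔖.W Cu Cf x * F x ∂𝔖.law ≤ 𝔖.D Cu Cf q * ∫⁻ x in B ∩ 𝔖.good Cu Cf, F x ∂𝔖.law := by
  have hS := h.measurableSet_good Cu Cf
  rw [← lintegral_const_mul _ hF, inter_comm, ← Measure.restrict_restrict hS, ← lintegral_indicator hS]
  refine setLIntegral_mono' hB fun x hx => ?_
  have h1 := h.W_le (hBe hx)
  by_cases hs : x ∈ 𝔖.good Cu Cf
  · rw [indicator_of_mem hs] at h1 ⊢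
    exact mul_le_mul_left h1 _
  · rw [indicator_of_notMem hs] at h1
    rw [indicator_of_notMem hs, nonpos_iff_eq_zero.1 h1, zero_mul]

/-- **the integrability hypothesis of TR2 holds for a.e. `x` of an event `B ⊆ ends` which does not read the inner variables**, as soon as `E[‖X_e‖ ; B, good] < ∞` -/
theorem pvs1_ae_integrable (h : 𝔖.Ok Cu Cf q) {B : Set (ι → T)} (hB : MeasurableSet B) (hBe : B ⊆ 𝔖.ends Cu Cf)
    (hBr : ∀ x y, pvtMix (Cu ∪ Cf) x y ∈ B ↔ x ∈ B) (e : ι)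
    (hfin : ∫⁻ x in B ∩ 𝔖.good Cu Cf, ‖𝔖.X e (𝔖.tri e x)‖ₑ ∂𝔖.law ≠ ∞) :
    ∀ᵐ x ∂𝔖.law, x ∈ B → Integrable (fun y => 𝔖.X e (𝔖.tri e (pvtMix (Cu ∪ Cf) x y)))
      (𝔖.law.withDensity fun y => 𝔖.W Cu Cf (pvtMix (Cu ∪ Cf) x y)) := by
  have := h.prob
  have hXm : StronglyMeasurable fun x => 𝔖.X e (𝔖.tri e x) := (h.X_meas e).comp_measurable (𝔖.measurable_tri e)
  have hH0 : Measurable fun x => 𝔖.W Cu Cf x * ‖𝔖.X e (𝔖.tri e x)‖ₑ := (h.measurable_W Cu Cf).mul hXm.enorm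
  have hH : Measurable (B.indicator fun x => 𝔖.W Cu Cf x * ‖𝔖.X e (𝔖.tri e x)‖ₑ) := hH0.indicator hB
  have hrs := pvtc_mix_rs 𝔖.ν (Cu ∪ Cf)
  have h1 := hrs.lintegral hH
  have hm2 : Measurable fun x : ι → T => ∫⁻ y, (B.indicator fun x => 𝔖.W Cu Cf x * ‖𝔖.X e (𝔖.tri e x)‖ₑ) (pvtMix (Cu ∪ Cf) x y) ∂(Measure.pi 𝔖.ν) :=
    (hH.comp hrs.meas).lintegral_prod_right'
  have hlt : ∫⁻ x, (B.indicator fun x => 𝔖.W Cu Cf x * ‖𝔖.X e (𝔖.tri e x)‖ₑ) x ∂(Measure.pi 𝔖.ν) ≠ ∞ := by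
    rw [lintegral_indicator hB]
    exact ne_top_of_le_ne_top (ENNReal.mul_ne_top (pvs1_D_ne_top h) hfin) (pvs1_W_mul_le h hB hBe hXm.enorm)
  have h2 : ∀ᵐ x ∂(Measure.pi 𝔖.ν), ∫⁻ y, (B.indicator fun x => 𝔖.W Cu Cf x * ‖𝔖.X e (𝔖.tri e x)‖ₑ) (pvtMix (Cu ∪ Cf) x y) ∂(Measure.pi 𝔖.ν) < ∞ := by
    refine ae_lt_top hm2 ?_
    rw [h1]
    exact hlt
  rw [PvtcSys.law]
  filter_upwards [h2] with x hx hxB
  have hmx := pvtc_measurable_mix_right (T := T) (Cu ∪ Cf) x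
  refine ⟨(hXm.comp_measurable hmx).aestronglyMeasurable, ?_⟩
  have hW' : Measurable fun y => 𝔖.W Cu Cf (pvtMix (Cu ∪ Cf) x y) := (h.measurable_W Cu Cf).comp hmx
  have hX' : Measurable fun y => ‖𝔖.X e (𝔖.tri e (pvtMix (Cu ∪ Cf) x y))‖ₑ := (hXm.comp_measurable hmx).enorm
  rw [hasFiniteIntegral_iff_enorm, lintegral_withDensity_eq_lintegral_mul _ hW' hX']
  refine lt_of_le_of_lt (le_of_eq (lintegral_congr fun y => ?_)) hx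
  rw [indicator_of_mem ((hBr x y).2 hxB)]
  rfl

/-- a finite second moment gives the finite first moment asked above (probability space) -/
theorem pvs1_fin_of_sq {Ω : Type*} [MeasurableSpace Ω] (P : Measure Ω) [IsFiniteMeasure P] (S : Set Ω) (F : Ω → ℝ≥0∞)
    (h2 : ∫⁻ x in S, F x ^ 2 ∂P ≠ ∞) : ∫⁻ x in S, F x ∂P ≠ ∞ := by
  have h1 : ∀ x, F x ≤ 1 + F x ^ 2 := by
    intro x
    rcases le_total (F x) 1 with hx | hx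
    · exact hx.trans le_self_add
    · calc F x = F x * 1 := (mul_one _).symm
        _ ≤ F x * F x := by gcongr
        _ = F x ^ 2 := (sq _).symm
        _ ≤ 1 + F x ^ 2 := le_add_self
  refine ne_top_of_le_ne_top ?_ (lintegral_mono fun x => h1 x)
  rw [lintegral_add_left measurable_const, lintegral_const]
  exact ENNReal.add_ne_top.2 ⟨ENNReal.mul_ne_top ENNReal.one_ne_top (measure_ne_top _ _), h2⟩

/-! ## 2. TR5, chain form -/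

variable [CompleteSpace E]

/-- **TR5, chain form** (`L^k` norm of the mean of ONE connector of a system): `∫_B ‖mean_e‖^k ≤ D_c E[‖X_e‖^k ; B, all A_f, all inner G]` -/
theorem pvs1_mean_Ln (h : 𝔖.Ok Cu Cf q) (k : ℕ) {B : Set (ι → T)} (hB : MeasurableSet B) (hBe : B ⊆ 𝔖.ends Cu Cf)
    (hBr : ∀ x y, pvtMix (Cu ∪ Cf) x y ∈ B ↔ x ∈ B) {e : ι} (he : e ∈ Cf)
    (hne : 𝔖.src e ∈ Cu → 𝔖.tgt e ∈ Cu → 𝔖.src e ≠ 𝔖.tgt e)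
    (hfin : ∫⁻ x in B ∩ 𝔖.good Cu Cf, ‖𝔖.X e (𝔖.tri e x)‖ₑ ∂𝔖.law ≠ ∞) :
    ∫⁻ x in B, ‖𝔖.mean Cu e x‖ₑ ^ k ∂𝔖.law ≤ 𝔖.D Cu Cf q * ∫⁻ x in B ∩ 𝔖.good Cu Cf, ‖𝔖.X e (𝔖.tri e x)‖ₑ ^ k ∂𝔖.law := by
  have := h.prob
  have hXm : StronglyMeasurable fun x => 𝔖.X e (𝔖.tri e x) := (h.X_meas e).comp_measurable (𝔖.measurable_tri e)
  have key := pvtc_n1_D (pvtc_mix_rs 𝔖.ν (Cu ∪ Cf)) k hB hBr (X := fun _ => (0 : E)) stronglyMeasurable_const (fun _ _ => rfl) hXm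
    (h.measurable_W Cu Cf) (fun x hx => h.lintegral_W (hBe hx)) (h.measurableSet_good Cu Cf) _ fun x hx => h.W_le (hBe hx)
  simp only [zero_add] at key
  refine le_trans (le_of_eq ?_) key
  refine lintegral_congr_ae ((ae_restrict_iff' hB).2 ?_)
  filter_upwards [pvs1_ae_integrable h hB hBe hBr e hfin] with x hx hxB
  rw [← h.integral_X (hBe hxB) he hne (hx hxB)]
  rfl

/-! ## 3. chains -/

omit [CompleteSpace E] in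
theorem pvs1_u_mem_iff {n : ℕ} {u f : ℕ → ι} (hc : 𝔖.IsChain n u f) {j : ℕ} (hj : j ≤ n) :
    u j ∈ (Finset.Ioo 0 n).image u ↔ 0 < j ∧ j < n := by
  constructor
  · intro hu
    obtain ⟨k, hk, hku⟩ := Finset.mem_image.1 hu
    rw [Finset.mem_Ioo] at hk
    have := hc.u_inj k hk.1 hk.2 j hj hku
    rw [← this]; exact hk
  · intro hj'
    exact Finset.mem_image.2 ⟨j, Finset.mem_Ioo.2 hj', rfl⟩

omit [CompleteSpace E] in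
theorem pvs1_u_notMem_f {n : ℕ} {u f : ℕ → ι} (hc : 𝔖.IsChain n u f) {j : ℕ} (hj : j ≤ n) :
    u j ∉ (Finset.range n).image f := by
  intro hu
  obtain ⟨k, hk, hku⟩ := Finset.mem_image.1 hu
  exact hc.u_ne_f j hj k (Finset.mem_range.1 hk) hku.symm

omit [CompleteSpace E] in
/-- the two outer plugs are not resampled -/
theorem pvs1_mix_end {n : ℕ} {u f : ℕ → ι} (hc : 𝔖.IsChain n u f) {j : ℕ} (hj : j ≤ n) (hj' : j = 0 ∨ j = n) (x y : ι → T) :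
    pvtMix ((Finset.Ioo 0 n).image u ∪ (Finset.range n).image f) x y (u j) = x (u j) := by
  have h1 : u j ∉ (Finset.Ioo 0 n).image u := by
    rw [pvs1_u_mem_iff hc hj]; omega
  have h2 := pvs1_u_notMem_f hc hj
  simp [pvtMix, h1, h2]

/-- the event "the two outer plugs of the chain are usable" -/
def pvs1B (𝔖 : PvtcSys ι T E) (n : ℕ) (u : ℕ → ι) : Set (ι → T) := {x | x (u 0) ∈ 𝔖.G (u 0) ∧ x (u n) ∈ 𝔖.G (u n)}

omit [CompleteSpace E] in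
theorem pvs1_B_subset {n : ℕ} {u f : ℕ → ι} (hc : 𝔖.IsChain n u f) :
    pvs1B 𝔖 n u ⊆ 𝔖.ends ((Finset.Ioo 0 n).image u) ((Finset.range n).image f) := by
  intro x hx e he
  obtain ⟨j, hj, rfl⟩ := Finset.mem_image.1 he
  rw [Finset.mem_range] at hj
  rw [hc.src_eq j hj, hc.tgt_eq j hj]
  refine ⟨fun hn => ?_, fun hn => ?_⟩
  · rw [pvs1_u_mem_iff hc hj.le] at hn
    have : j = 0 := by omega
    rw [this]; exact hx.1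
  · rw [pvs1_u_mem_iff hc hj] at hn
    have : j + 1 = n := by omega
    rw [this]; exact hx.2

omit [CompleteSpace E] in
theorem pvs1_B_mix {n : ℕ} {u f : ℕ → ι} (hc : 𝔖.IsChain n u f) (x y : ι → T) :
    pvtMix ((Finset.Ioo 0 n).image u ∪ (Finset.range n).image f) x y ∈ pvs1B 𝔖 n u ↔ x ∈ pvs1B 𝔖 n u := by
  simp only [pvs1B, mem_ofPred_eq]
  rw [pvs1_mix_end hc (Nat.zero_le n) (Or.inl rfl), pvs1_mix_end hc le_rfl (Or.inr rfl)]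

omit [CompleteSpace E] in
theorem pvs1_B_meas (h : 𝔖.Ok Cu Cf q) (n : ℕ) (u : ℕ → ι) : MeasurableSet (pvs1B 𝔖 n u) :=
  (measurable_pi_apply (u 0) (h.G_meas (u 0))).inter (measurable_pi_apply (u n) (h.G_meas (u n)))

/-- **TR3 (`X = 0`) + TR2 for a chain** (for `u (n+2) = u 0`: TR3' + TR2 for a PURE CYCLE): the explicit mean is small in `L^k` as soon as the sum `Y_c` is small on the cycle event -/
theorem pvs1_chain_Ln {n : ℕ} {u f : ℕ → ι} (hc : 𝔖.IsChain (n + 2) u f) (hCu : Cu = (Finset.Ioo 0 (n + 2)).image u) (hCf : Cf = (Finset.range (n + 2)).image f)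
    (h : 𝔖.Ok Cu Cf q) (k : ℕ) (hfin : ∀ j < n + 2, ∫⁻ x in pvs1B 𝔖 (n + 2) u ∩ 𝔖.good Cu Cf, ‖𝔖.X (f j) (𝔖.tri (f j) x)‖ₑ ∂𝔖.law ≠ ∞) :
    ∫⁻ x in pvs1B 𝔖 (n + 2) u, ‖𝔖.Kout (f 0) (x (u 0)) + ∑ j ∈ Finset.Ioo 0 (n + 1), 𝔖.K (f j) + 𝔖.Kin (f (n + 1)) (x (u (n + 2)))‖ₑ ^ k ∂𝔖.law
      ≤ 𝔖.D Cu Cf q * ∫⁻ x in pvs1B 𝔖 (n + 2) u ∩ 𝔖.good Cu Cf, ‖𝔖.Y Cf x‖ₑ ^ k ∂𝔖.law := by
  subst hCu hCf
  have hB := pvs1_B_meas h (n + 2) u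
  refine le_trans (le_of_eq ?_) (h.n1_cycle k hB (pvs1_B_subset hc) (pvs1_B_mix hc))
  refine lintegral_congr_ae ((ae_restrict_iff' hB).2 ?_)
  have hall : ∀ᵐ x ∂𝔖.law, ∀ j ∈ Finset.range (n + 2), x ∈ pvs1B 𝔖 (n + 2) u →
      Integrable (fun y => 𝔖.X (f j) (𝔖.tri (f j) (pvtMix ((Finset.Ioo 0 (n + 2)).image u ∪ (Finset.range (n + 2)).image f) x y)))
        (𝔖.law.withDensity fun y => 𝔖.W ((Finset.Ioo 0 (n + 2)).image u) ((Finset.range (n + 2)).image f)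
          (pvtMix ((Finset.Ioo 0 (n + 2)).image u ∪ (Finset.range (n + 2)).image f) x y)) := by
    rw [Finset.eventually_all]
    intro j hj
    exact pvs1_ae_integrable h hB (pvs1_B_subset hc) (pvs1_B_mix hc) (f j) (hfin j (Finset.mem_range.1 hj))
  filter_upwards [hall] with x hx hxB
  rw [h.y_chain hc hxB.1 hxB.2 fun j hj => hx j (Finset.mem_range.2 hj) hxB]

omit [CompleteSpace E] in
theorem pvs1_chain_ne {n : ℕ} {u f : ℕ → ι} (hc : 𝔖.IsChain n u f) {j : ℕ} (hj : j < n) :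
    𝔖.src (f j) ∈ (Finset.Ioo 0 n).image u → 𝔖.tgt (f j) ∈ (Finset.Ioo 0 n).image u → 𝔖.src (f j) ≠ 𝔖.tgt (f j) := by
  rw [hc.src_eq j hj, hc.tgt_eq j hj]
  intro h1 _ h3
  rw [pvs1_u_mem_iff hc hj.le] at h1
  have := hc.u_inj j h1.1 h1.2 (j + 1) hj h3
  omega

/-- **TR5 for the LAST connector of a chain**: `∫_B ‖Kin(σ_s)‖^k ≤ D_c E[‖X_last‖^k ; B, good]` -/
theorem pvs1_last_Ln {n : ℕ} {u f : ℕ → ι} (hc : 𝔖.IsChain (n + 2) u f) (hCu : Cu = (Finset.Ioo 0 (n + 2)).image u) (hCf : Cf = (Finset.range (n + 2)).image f)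
    (h : 𝔖.Ok Cu Cf q) (k : ℕ) (hfin : ∫⁻ x in pvs1B 𝔖 (n + 2) u ∩ 𝔖.good Cu Cf, ‖𝔖.X (f (n + 1)) (𝔖.tri (f (n + 1)) x)‖ₑ ∂𝔖.law ≠ ∞) :
    ∫⁻ x in pvs1B 𝔖 (n + 2) u, ‖𝔖.Kin (f (n + 1)) (x (u (n + 2)))‖ₑ ^ k ∂𝔖.law
      ≤ 𝔖.D Cu Cf q * ∫⁻ x in pvs1B 𝔖 (n + 2) u ∩ 𝔖.good Cu Cf, ‖𝔖.X (f (n + 1)) (𝔖.tri (f (n + 1)) x)‖ₑ ^ k ∂𝔖.law := by
  subst hCu hCf
  have hB := pvs1_B_meas h (n + 2) u
  have key := pvs1_mean_Ln h k hB (pvs1_B_subset hc) (pvs1_B_mix hc) (e := f (n + 1))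
    (Finset.mem_image.2 ⟨n + 1, Finset.mem_range.2 (by omega), rfl⟩) (pvs1_chain_ne hc (by omega)) hfin
  have tn : ∀ x, 𝔖.mean ((Finset.Ioo 0 (n + 2)).image u) (f (n + 1)) x = 𝔖.Kin (f (n + 1)) (x (u (n + 2))) := by
    intro x
    unfold PvtcSys.mean
    rw [hc.src_eq (n + 1) (by omega), hc.tgt_eq (n + 1) (by omega)]
    rw [if_pos (by rw [pvs1_u_mem_iff hc (by omega)]; omega), if_neg (by rw [pvs1_u_mem_iff hc (by omega)]; omega)]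
  simpa only [tn] using key

/-- **TR5 for the FIRST connector of a chain** -/
theorem pvs1_first_Ln {n : ℕ} {u f : ℕ → ι} (hc : 𝔖.IsChain (n + 2) u f) (hCu : Cu = (Finset.Ioo 0 (n + 2)).image u) (hCf : Cf = (Finset.range (n + 2)).image f)
    (h : 𝔖.Ok Cu Cf q) (k : ℕ) (hfin : ∫⁻ x in pvs1B 𝔖 (n + 2) u ∩ 𝔖.good Cu Cf, ‖𝔖.X (f 0) (𝔖.tri (f 0) x)‖ₑ ∂𝔖.law ≠ ∞) :
    ∫⁻ x in pvs1B 𝔖 (n + 2) u, ‖𝔖.Kout (f 0) (x (u 0))‖ₑ ^ k ∂𝔖.law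
      ≤ 𝔖.D Cu Cf q * ∫⁻ x in pvs1B 𝔖 (n + 2) u ∩ 𝔖.good Cu Cf, ‖𝔖.X (f 0) (𝔖.tri (f 0) x)‖ₑ ^ k ∂𝔖.law := by
  subst hCu hCf
  have hB := pvs1_B_meas h (n + 2) u
  have key := pvs1_mean_Ln h k hB (pvs1_B_subset hc) (pvs1_B_mix hc) (e := f 0)
    (Finset.mem_image.2 ⟨0, Finset.mem_range.2 (by omega), rfl⟩) (pvs1_chain_ne hc (by omega)) hfin
  have t0 : ∀ x, 𝔖.mean ((Finset.Ioo 0 (n + 2)).image u) (f 0) x = 𝔖.Kout (f 0) (x (u 0)) := by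
    intro x
    unfold PvtcSys.mean
    rw [hc.src_eq 0 (by omega), hc.tgt_eq 0 (by omega)]
    rw [if_neg (by rw [pvs1_u_mem_iff hc (by omega)]; omega), if_pos (by rw [pvs1_u_mem_iff hc (by omega)]; omega)]
  simpa only [t0] using key

end eng

theorem pvs1_eqns_cite : True := by
  have := @pvs1B.eq_1.{0, 0, 0}
  trivial

/-! ## 4. measurability of the means -/

section meas

variable {ι : Type*} {T : Type*} {E : Type*} [MeasurableSpace T] {𝔖 : PvtcSys ι T E}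
variable [NormedAddCommGroup E] [NormedSpace ℝ E] {Cu Cf : Finset ι} {q : ι → ℝ≥0∞}

/-- `i_e` as a normalised integral of an indicator -/
theorem pvs1_I_eq (h : 𝔖.Ok Cu Cf q) (e : ι) (σ σ' : T) :
    𝔖.I e σ σ' = ((𝔖.p e σ σ').toReal)⁻¹ • ∫ ξ, (𝔖.A e).indicator (𝔖.X e) (σ, ξ, σ') ∂(𝔖.ν e) := by
  have hm : Measurable fun ξ : T => ((σ, ξ, σ') : T × T × T) := by fun_prop
  have hms : MeasurableSet {ξ | (σ, ξ, σ') ∈ 𝔖.A e} := hm (h.A_meas e)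
  rw [PvtcSys.I, setAverage_eq, ← integral_indicator hms]
  rfl

/-- **`i_e` is jointly measurable** -/
theorem pvs1_meas_I (h : 𝔖.Ok Cu Cf q) (e : ι) : StronglyMeasurable fun z : T × T => 𝔖.I e z.1 z.2 := by
  have := h.prob e
  have hm : Measurable fun a : (T × T) × T => ((a.1.1, a.2, a.1.2) : T × T × T) := by fun_prop
  have h1 : StronglyMeasurable fun a : (T × T) × T => (𝔖.A e).indicator (𝔖.X e) (a.1.1, a.2, a.1.2) :=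
    ((h.X_meas e).indicator (h.A_meas e)).comp_measurable hm
  have h2 : StronglyMeasurable fun z : T × T => ∫ ξ, (𝔖.A e).indicator (𝔖.X e) (z.1, ξ, z.2) ∂(𝔖.ν e) :=
    h1.integral_prod_right'
  have h3 : Measurable fun z : T × T => ((𝔖.p e z.1 z.2).toReal)⁻¹ := (h.measurable_p e).ennreal_toReal.inv
  have e1 : (fun z : T × T => 𝔖.I e z.1 z.2) = fun z : T × T => ((𝔖.p e z.1 z.2).toReal)⁻¹ • ∫ ξ, (𝔖.A e).indicator (𝔖.X e) (z.1, ξ, z.2) ∂(𝔖.ν e) :=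
    funext fun z => pvs1_I_eq h e z.1 z.2
  rw [e1]
  exact h3.stronglyMeasurable.smul h2

/-- **`κ_out` is measurable** -/
theorem pvs1_meas_Kout (h : 𝔖.Ok Cu Cf q) (e : ι) : StronglyMeasurable (𝔖.Kout e) := by
  have := h.prob (𝔖.tgt e)
  have e1 : 𝔖.Kout e = fun σ => ((𝔖.ν (𝔖.tgt e)).real (𝔖.G (𝔖.tgt e)))⁻¹ • ∫ σ', 𝔖.I e σ σ' ∂((𝔖.ν (𝔖.tgt e)).restrict (𝔖.G (𝔖.tgt e))) :=
    funext fun σ => by rw [PvtcSys.Kout, setAverage_eq]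
  rw [e1]
  have h2 : StronglyMeasurable fun σ => ∫ σ', 𝔖.I e σ σ' ∂((𝔖.ν (𝔖.tgt e)).restrict (𝔖.G (𝔖.tgt e))) :=
    StronglyMeasurable.integral_prod_right' (f := fun z : T × T => 𝔖.I e z.1 z.2) (pvs1_meas_I h e)
  exact h2.const_smul _

theorem pvs1_meas_swap {F : T → T → E} (h : StronglyMeasurable fun z : T × T => F z.1 z.2) : StronglyMeasurable fun z : T × T => F z.2 z.1 :=
  h.comp_measurable measurable_swap

/-- **`κ_in` is measurable** -/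
theorem pvs1_meas_Kin (h : 𝔖.Ok Cu Cf q) (e : ι) : StronglyMeasurable (𝔖.Kin e) := by
  have := h.prob (𝔖.src e)
  have e1 : 𝔖.Kin e = fun σ' => ((𝔖.ν (𝔖.src e)).real (𝔖.G (𝔖.src e)))⁻¹ • ∫ σ, 𝔖.I e σ σ' ∂((𝔖.ν (𝔖.src e)).restrict (𝔖.G (𝔖.src e))) :=
    funext fun σ' => by rw [PvtcSys.Kin, setAverage_eq]
  rw [e1]
  have h1 : StronglyMeasurable fun z : T × T => 𝔖.I e z.2 z.1 := pvs1_meas_swap (F := 𝔖.I e) (pvs1_meas_I h e)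
  have h2 : StronglyMeasurable fun σ' => ∫ σ, 𝔖.I e σ σ' ∂((𝔖.ν (𝔖.src e)).restrict (𝔖.G (𝔖.src e))) :=
    StronglyMeasurable.integral_prod_right' (f := fun z : T × T => 𝔖.I e z.2 z.1) h1
  exact h2.const_smul _

end meas

/-! ## 5. the same functions in all systems -/

section congr

variable {ι ι' : Type*} {T : Type*} {E : Type*} [MeasurableSpace T] [NormedAddCommGroup E] [NormedSpace ℝ E]

/-- `i_e` depends only on the law of the seed, the event and the field of the connector -/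
theorem pvs1_I_congr (𝔖 : PvtcSys ι T E) (𝔖' : PvtcSys ι' T E) {e : ι} {e' : ι'} (hν : 𝔖.ν e = 𝔖'.ν e') (hA : 𝔖.A e = 𝔖'.A e') (hX : 𝔖.X e = 𝔖'.X e') :
    𝔖.I e = 𝔖'.I e' := by
  funext σ σ'
  rw [PvtcSys.I, PvtcSys.I, hν, hA, hX]

/-- **`κ_out` is the same function in all systems which contain the same first connector and the same first inner plug** (R4: fixed adapters) -/
theorem pvs1_Kout_congr (𝔖 : PvtcSys ι T E) (𝔖' : PvtcSys ι' T E) {e : ι} {e' : ι'} (hν : 𝔖.ν e = 𝔖'.ν e') (hA : 𝔖.A e = 𝔖'.A e') (hX : 𝔖.X e = 𝔖'.X e')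
    (ht : 𝔖.ν (𝔖.tgt e) = 𝔖'.ν (𝔖'.tgt e')) (hG : 𝔖.G (𝔖.tgt e) = 𝔖'.G (𝔖'.tgt e')) : 𝔖.Kout e = 𝔖'.Kout e' := by
  funext σ
  rw [PvtcSys.Kout, PvtcSys.Kout, pvs1_I_congr 𝔖 𝔖' hν hA hX, ht, hG]

theorem pvs1_Kin_congr (𝔖 : PvtcSys ι T E) (𝔖' : PvtcSys ι' T E) {e : ι} {e' : ι'} (hν : 𝔖.ν e = 𝔖'.ν e') (hA : 𝔖.A e = 𝔖'.A e') (hX : 𝔖.X e = 𝔖'.X e')
    (hs : 𝔖.ν (𝔖.src e) = 𝔖'.ν (𝔖'.src e')) (hG : 𝔖.G (𝔖.src e) = 𝔖'.G (𝔖'.src e')) : 𝔖.Kin e = 𝔖'.Kin e' := by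
  funext σ
  rw [PvtcSys.Kin, PvtcSys.Kin, pvs1_I_congr 𝔖 𝔖' hν hA hX, hs, hG]

theorem pvs1_K_congr (𝔖 : PvtcSys ι T E) (𝔖' : PvtcSys ι' T E) {e : ι} {e' : ι'} (hν : 𝔖.ν e = 𝔖'.ν e') (hA : 𝔖.A e = 𝔖'.A e') (hX : 𝔖.X e = 𝔖'.X e')
    (hs : 𝔖.ν (𝔖.src e) = 𝔖'.ν (𝔖'.src e')) (hGs : 𝔖.G (𝔖.src e) = 𝔖'.G (𝔖'.src e'))
    (ht : 𝔖.ν (𝔖.tgt e) = 𝔖'.ν (𝔖'.tgt e')) (hGt : 𝔖.G (𝔖.tgt e) = 𝔖'.G (𝔖'.tgt e')) : 𝔖.K e = 𝔖'.K e' := by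
  rw [PvtcSys.K, PvtcSys.K, pvs1_Kout_congr 𝔖 𝔖' hν hA hX ht hGt, hs, hGs]

end congr

/-! ## 6. the pure cycle: one-coordinate forms -/

section cyc

variable {ι : Type*} [Fintype ι] [DecidableEq ι] {T : Type*} {E : Type*} [MeasurableSpace T] {𝔖 : PvtcSys ι T E}
variable [NormedAddCommGroup E] [NormedSpace ℝ E] {Cu Cf : Finset ι} {q : ι → ℝ≥0∞}

/-- an integral which reads one coordinate -/
theorem pvs1_coord (h : 𝔖.Ok Cu Cf q) (i : ι) {F : T → ℝ≥0∞} (hF : Measurable F) :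
    ∫⁻ x in {x : ι → T | x i ∈ 𝔖.G i}, F (x i) ∂𝔖.law = ∫⁻ σ in 𝔖.G i, F σ ∂(𝔖.ν i) := by
  have := h.prob
  exact (measurePreserving_eval 𝔖.ν i).setLIntegral_comp_preimage (h.G_meas i) hF

theorem pvs1_B_cycle (𝔖 : PvtcSys ι T E) {n : ℕ} {u : ℕ → ι} (hcyc : u n = u 0) : pvs1B 𝔖 n u = {x : ι → T | x (u 0) ∈ 𝔖.G (u 0)} := by
  ext x
  simp only [pvs1B, mem_ofPred_eq, hcyc, and_self]

variable [CompleteSpace E]

/-- **`Σ₁`, THE PURE CYCLE** (TR3' + TR2), as an integral over the law of the state of the marked plug `t = u 0 = u (n+2)` -/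
theorem pvs1_cycle {n : ℕ} {u f : ℕ → ι} (hc : 𝔖.IsChain (n + 2) u f) (hcyc : u (n + 2) = u 0)
    (hCu : Cu = (Finset.Ioo 0 (n + 2)).image u) (hCf : Cf = (Finset.range (n + 2)).image f)
    (h : 𝔖.Ok Cu Cf q) (k : ℕ) (hfin : ∀ j < n + 2, ∫⁻ x in pvs1B 𝔖 (n + 2) u ∩ 𝔖.good Cu Cf, ‖𝔖.X (f j) (𝔖.tri (f j) x)‖ₑ ∂𝔖.law ≠ ∞) :
    ∫⁻ σ in 𝔖.G (u 0), ‖𝔖.Kout (f 0) σ + ∑ j ∈ Finset.Ioo 0 (n + 1), 𝔖.K (f j) + 𝔖.Kin (f (n + 1)) σ‖ₑ ^ k ∂(𝔖.ν (u 0))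
      ≤ 𝔖.D Cu Cf q * ∫⁻ x in pvs1B 𝔖 (n + 2) u ∩ 𝔖.good Cu Cf, ‖𝔖.Y Cf x‖ₑ ^ k ∂𝔖.law := by
  have key := pvs1_chain_Ln hc hCu hCf h k hfin
  have hF : Measurable fun σ => ‖𝔖.Kout (f 0) σ + ∑ j ∈ Finset.Ioo 0 (n + 1), 𝔖.K (f j) + 𝔖.Kin (f (n + 1)) σ‖ₑ ^ k :=
    (((pvs1_meas_Kout h (f 0)).add stronglyMeasurable_const).add (pvs1_meas_Kin h (f (n + 1)))).enorm.pow_const k
  rw [← pvs1_coord h (u 0) hF]
  refine le_trans (le_of_eq ?_) key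
  rw [pvs1_B_cycle 𝔖 hcyc, hcyc]

/-- **the last link of a pure cycle** (TR5, chain form), as an integral over the law of the state of the marked plug -/
theorem pvs1_link {n : ℕ} {u f : ℕ → ι} (hc : 𝔖.IsChain (n + 2) u f) (hcyc : u (n + 2) = u 0)
    (hCu : Cu = (Finset.Ioo 0 (n + 2)).image u) (hCf : Cf = (Finset.range (n + 2)).image f)
    (h : 𝔖.Ok Cu Cf q) (k : ℕ) (hfin : ∫⁻ x in pvs1B 𝔖 (n + 2) u ∩ 𝔖.good Cu Cf, ‖𝔖.X (f (n + 1)) (𝔖.tri (f (n + 1)) x)‖ₑ ∂𝔖.law ≠ ∞) :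
    ∫⁻ σ in 𝔖.G (u 0), ‖𝔖.Kin (f (n + 1)) σ‖ₑ ^ k ∂(𝔖.ν (u 0))
      ≤ 𝔖.D Cu Cf q * ∫⁻ x in pvs1B 𝔖 (n + 2) u ∩ 𝔖.good Cu Cf, ‖𝔖.X (f (n + 1)) (𝔖.tri (f (n + 1)) x)‖ₑ ^ k ∂𝔖.law := by
  have key := pvs1_last_Ln hc hCu hCf h k hfin
  have hF : Measurable fun σ => ‖𝔖.Kin (f (n + 1)) σ‖ₑ ^ k := (pvs1_meas_Kin h (f (n + 1))).enorm.pow_const k
  rw [← pvs1_coord h (u 0) hF]
  refine le_trans (le_of_eq ?_) key
  rw [pvs1_B_cycle 𝔖 hcyc, hcyc]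

/-! ## 7. on a sample space -/

omit [Fintype ι] [DecidableEq ι] [CompleteSpace E] [NormedAddCommGroup E] [NormedSpace ℝ E] in
/-- the law of the state on the usable event is dominated -/
theorem pvs1_dom {Ω : Type*} [MeasurableSpace Ω] (P : Measure Ω) {U : Set Ω} {S : Ω → T} (hS : Measurable S) {ν : Measure T} {G : Set T} {C : ℝ≥0∞}
    (hdom : (P.restrict U).map S ≤ C • ν.restrict G) {F : T → ℝ≥0∞} (hF : Measurable F) :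
    ∫⁻ o in U, F (S o) ∂P ≤ C * ∫⁻ σ in G, F σ ∂ν := by
  rw [← lintegral_map hF hS]
  refine (lintegral_mono' hdom le_rfl).trans (le_of_eq ?_)
  rw [lintegral_smul_measure, smul_eq_mul]

omit [Fintype ι] [DecidableEq ι] [CompleteSpace E] [NormedAddCommGroup E] [NormedSpace ℝ E] in
/-- bare states: `C = 1` -/
theorem pvs1_dom_bare {Ω : Type*} [MeasurableSpace Ω] (P : Measure Ω) {S : Ω → T} (hS : Measurable S) {ν : Measure T} (hlaw : P.map S = ν) {G : Set T} (hG : MeasurableSet G)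
    {U : Set Ω} (hU : U ⊆ S ⁻¹' G) : (P.restrict U).map S ≤ (1 : ℝ≥0∞) • ν.restrict G := by
  rw [one_smul, ← hlaw, Measure.restrict_map hS hG]
  exact Measure.map_mono (Measure.restrict_mono hU le_rfl) hS

/-- the cycle event and the sum `Y_c`, read on a sample space whose coordinates have the product law; `Θ` = the closed-sum functional (TR13 + TR14: on the cycle event `Y_c` is the closed sum of ONE rim) -/
theorem pvs1_tail_map (h : 𝔖.Ok Cu Cf q) {Ω : Type*} [MeasurableSpace Ω] (P : Measure Ω) {c : Ω → ι → T} (hc : Measurable c) (hlaw : P.map c = 𝔖.law)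
    {B : Set (ι → T)} (hB : MeasurableSet B) {Z : (ι → T) → ℝ≥0∞} (hZ : Measurable Z) {Θ : Ω → ℝ≥0∞}
    (hΘ : ∀ᵐ o ∂P, c o ∈ B ∩ 𝔖.good Cu Cf → Z (c o) ≤ Θ o) :
    ∫⁻ x in B ∩ 𝔖.good Cu Cf, Z x ∂𝔖.law ≤ ∫⁻ o, Θ o ∂P := by
  have hm := hB.inter (h.measurableSet_good Cu Cf)
  rw [← hlaw, setLIntegral_map hm hZ hc]
  exact (setLIntegral_mono_ae' (hc hm) hΘ).trans (setLIntegral_le_lintegral _ _)

/-- **`Σ₁` on a sample space** -/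
theorem pvs1_cycle_dom {n : ℕ} {u f : ℕ → ι} (hc : 𝔖.IsChain (n + 2) u f) (hcyc : u (n + 2) = u 0)
    (hCu : Cu = (Finset.Ioo 0 (n + 2)).image u) (hCf : Cf = (Finset.range (n + 2)).image f)
    (h : 𝔖.Ok Cu Cf q) (k : ℕ) (hfin : ∀ j < n + 2, ∫⁻ x in pvs1B 𝔖 (n + 2) u ∩ 𝔖.good Cu Cf, ‖𝔖.X (f j) (𝔖.tri (f j) x)‖ₑ ∂𝔖.law ≠ ∞)
    {Ω : Type*} [MeasurableSpace Ω] (P : Measure Ω) {U : Set Ω} {S : Ω → T} (hS : Measurable S) {C : ℝ≥0∞}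
    (hdom : (P.restrict U).map S ≤ C • (𝔖.ν (u 0)).restrict (𝔖.G (u 0))) :
    ∫⁻ o in U, ‖𝔖.Kout (f 0) (S o) + ∑ j ∈ Finset.Ioo 0 (n + 1), 𝔖.K (f j) + 𝔖.Kin (f (n + 1)) (S o)‖ₑ ^ k ∂P
      ≤ C * (𝔖.D Cu Cf q * ∫⁻ x in pvs1B 𝔖 (n + 2) u ∩ 𝔖.good Cu Cf, ‖𝔖.Y Cf x‖ₑ ^ k ∂𝔖.law) := by
  have hF : Measurable fun σ => ‖𝔖.Kout (f 0) σ + ∑ j ∈ Finset.Ioo 0 (n + 1), 𝔖.K (f j) + 𝔖.Kin (f (n + 1)) σ‖ₑ ^ k :=
    (((pvs1_meas_Kout h (f 0)).add stronglyMeasurable_const).add (pvs1_meas_Kin h (f (n + 1)))).enorm.pow_const k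
  refine (pvs1_dom P hS hdom hF).trans ?_
  gcongr
  exact pvs1_cycle hc hcyc hCu hCf h k hfin

/-- **the thick link on a sample space** -/
theorem pvs1_link_dom {n : ℕ} {u f : ℕ → ι} (hc : 𝔖.IsChain (n + 2) u f) (hcyc : u (n + 2) = u 0)
    (hCu : Cu = (Finset.Ioo 0 (n + 2)).image u) (hCf : Cf = (Finset.range (n + 2)).image f)
    (h : 𝔖.Ok Cu Cf q) (k : ℕ) (hfin : ∫⁻ x in pvs1B 𝔖 (n + 2) u ∩ 𝔖.good Cu Cf, ‖𝔖.X (f (n + 1)) (𝔖.tri (f (n + 1)) x)‖ₑ ∂𝔖.law ≠ ∞)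
    {Ω : Type*} [MeasurableSpace Ω] (P : Measure Ω) {U : Set Ω} {S : Ω → T} (hS : Measurable S) {C : ℝ≥0∞}
    (hdom : (P.restrict U).map S ≤ C • (𝔖.ν (u 0)).restrict (𝔖.G (u 0))) :
    ∫⁻ o in U, ‖𝔖.Kin (f (n + 1)) (S o)‖ₑ ^ k ∂P
      ≤ C * (𝔖.D Cu Cf q * ∫⁻ x in pvs1B 𝔖 (n + 2) u ∩ 𝔖.good Cu Cf, ‖𝔖.X (f (n + 1)) (𝔖.tri (f (n + 1)) x)‖ₑ ^ k ∂𝔖.law) := by
  have hF : Measurable fun σ => ‖𝔖.Kin (f (n + 1)) σ‖ₑ ^ k := (pvs1_meas_Kin h (f (n + 1))).enorm.pow_const k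
  refine (pvs1_dom P hS hdom hF).trans ?_
  gcongr
  exact pvs1_link hc hcyc hCu hCf h k hfin

end cyc

/-! ## 8. limit forms: the shapes of the fields `cyc1`, `thick` of `PvhbLoc` (73) / `PvtsIn` (129) -/

section lim

variable {ι : Type*} [Fintype ι] [DecidableEq ι] {T : Type*} [MeasurableSpace T] {Cu Cf : Finset ι}

/-- **FIELD `cyc1`.**   `κ` = index of the mesh (`ε : ℝ` along `𝓝[>] 0`, or `n : ℕ` along `atTop`).   At fixed level the index set `ι`, the chain `(u, f)` do not depend on `ε`; laws, events, fields do.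
INPUTS: (D) `D_c ≤ D0` eventually [TR21, TR22];  (TAIL) `E[‖Y_c‖² ; cycle event] → 0` [TR13 TR14 I.TAIL through `pvs1_tail_map`];  (DOM) the law of the state on `U` is `≤ C0 ν_t`;
(ID) `kout`, `ke` are `Kout`, `Kin` of the first / last connector at the state, `cells + kin0` is the sum of the constants [TR25]. -/
theorem pvs1_cyc1 {κ : Type*} (l : Filter κ) {Ω : Type*} [MeasurableSpace Ω] (Pr : κ → Measure Ω) (𝔖 : κ → PvtcSys ι T ℂ) (q : κ → ι → ℝ≥0∞)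
    {n : ℕ} {u f : ℕ → ι} (hcyc : u (n + 2) = u 0) (hCu : Cu = (Finset.Ioo 0 (n + 2)).image u) (hCf : Cf = (Finset.range (n + 2)).image f)
    (hc : ∀ᶠ ε in l, (𝔖 ε).IsChain (n + 2) u f) (hok : ∀ᶠ ε in l, (𝔖 ε).Ok Cu Cf (q ε))
    (hfin : ∀ᶠ ε in l, ∀ j < n + 2, ∫⁻ x in pvs1B (𝔖 ε) (n + 2) u ∩ (𝔖 ε).good Cu Cf, ‖(𝔖 ε).X (f j) ((𝔖 ε).tri (f j) x)‖ₑ ∂(𝔖 ε).law ≠ ∞)
    {D0 : ℝ≥0∞} (hD0 : D0 ≠ ∞) (hD : ∀ᶠ ε in l, (𝔖 ε).D Cu Cf (q ε) ≤ D0)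
    (htail : Tendsto (fun ε => ∫⁻ x in pvs1B (𝔖 ε) (n + 2) u ∩ (𝔖 ε).good Cu Cf, ‖(𝔖 ε).Y Cf x‖ₑ ^ 2 ∂(𝔖 ε).law) l (𝓝 0))
    (U : κ → Set Ω) (hU : ∀ᶠ ε in l, MeasurableSet (U ε)) (S : κ → Ω → T) (hS : ∀ᶠ ε in l, Measurable (S ε)) {C0 : ℝ≥0∞} (hC0 : C0 ≠ ∞)
    (hdom : ∀ᶠ ε in l, ((Pr ε).restrict (U ε)).map (S ε) ≤ C0 • ((𝔖 ε).ν (u 0)).restrict ((𝔖 ε).G (u 0)))
    (kout ke : κ → Ω → ℂ) (cells kin0 : κ → ℂ)
    (hkout : ∀ᶠ ε in l, ∀ o ∈ U ε, kout ε o = (𝔖 ε).Kout (f 0) (S ε o))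
    (hke : ∀ᶠ ε in l, ∀ o ∈ U ε, ke ε o = (𝔖 ε).Kin (f (n + 1)) (S ε o))
    (hcells : ∀ᶠ ε in l, cells ε + kin0 ε = ∑ j ∈ Finset.Ioo 0 (n + 1), (𝔖 ε).K (f j)) :
    Tendsto (fun ε => ∫⁻ o in U ε, ‖kout ε o + cells ε + kin0 ε + ke ε o‖ₑ ^ 2 ∂(Pr ε)) l (𝓝 0) := by
  have hlim : Tendsto (fun ε => C0 * (D0 * ∫⁻ x in pvs1B (𝔖 ε) (n + 2) u ∩ (𝔖 ε).good Cu Cf, ‖(𝔖 ε).Y Cf x‖ₑ ^ 2 ∂(𝔖 ε).law)) l (𝓝 0) := by
    have h1 := ENNReal.Tendsto.const_mul (a := D0) htail (Or.inr hD0)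
    have h2 := ENNReal.Tendsto.const_mul (a := C0) h1 (Or.inr hC0)
    simpa using h2
  refine tendsto_of_tendsto_of_tendsto_of_le_of_le' tendsto_const_nhds hlim (Eventually.of_forall fun _ => zero_le) ?_
  filter_upwards [hc, hok, hfin, hD, hU, hS, hdom, hkout, hke, hcells] with ε h1 h2 h3 h4 h5 h6 h7 h8 h9 h10
  have key := pvs1_cycle_dom h1 hcyc hCu hCf h2 2 h3 (Pr ε) h6 h7
  refine le_trans (le_of_eq ?_) (key.trans ?_)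
  · refine setLIntegral_congr_fun h5 fun o ho => ?_
    rw [h8 o ho, h9 o ho, ← h10, add_assoc ((𝔖 ε).Kout (f 0) (S ε o))]
  · gcongr

/-- **FIELD `thick`.**   The reference cycle `t -e''-> u -e-> t` (or any pure cycle which ends with the thick link `e = f (n+1)`), constants UNIFORM.
INPUTS: (D) `D_c ≤ D0` [TR21 (d), admission of the reference type];  (BES) `E[‖X_e‖² ; cycle event] ≤ Bd` [TR14 + masks + I.BES: `Bd = C_B C h²`]. -/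
theorem pvs1_thick {κ : Type*} (l : Filter κ) {Ω : Type*} [MeasurableSpace Ω] (Pr : κ → Measure Ω) (𝔖 : κ → PvtcSys ι T ℂ) (q : κ → ι → ℝ≥0∞)
    {n : ℕ} {u f : ℕ → ι} (hcyc : u (n + 2) = u 0) (hCu : Cu = (Finset.Ioo 0 (n + 2)).image u) (hCf : Cf = (Finset.range (n + 2)).image f)
    (hc : ∀ᶠ ε in l, (𝔖 ε).IsChain (n + 2) u f) (hok : ∀ᶠ ε in l, (𝔖 ε).Ok Cu Cf (q ε))
    {D0 : ℝ≥0∞} (hD : ∀ᶠ ε in l, (𝔖 ε).D Cu Cf (q ε) ≤ D0) {Bd : ℝ≥0∞} (hBd : Bd ≠ ∞)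
    (hbes : ∀ᶠ ε in l, ∫⁻ x in pvs1B (𝔖 ε) (n + 2) u ∩ (𝔖 ε).good Cu Cf, ‖(𝔖 ε).X (f (n + 1)) ((𝔖 ε).tri (f (n + 1)) x)‖ₑ ^ 2 ∂(𝔖 ε).law ≤ Bd)
    (U : κ → Set Ω) (hU : ∀ᶠ ε in l, MeasurableSet (U ε)) (S : κ → Ω → T) (hS : ∀ᶠ ε in l, Measurable (S ε)) {C0 : ℝ≥0∞}
    (hdom : ∀ᶠ ε in l, ((Pr ε).restrict (U ε)).map (S ε) ≤ C0 • ((𝔖 ε).ν (u 0)).restrict ((𝔖 ε).G (u 0)))
    (ke : κ → Ω → ℂ) (hke : ∀ᶠ ε in l, ∀ o ∈ U ε, ke ε o = (𝔖 ε).Kin (f (n + 1)) (S ε o)) :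
    ∀ᶠ ε in l, ∫⁻ o in U ε, ‖ke ε o‖ₑ ^ 2 ∂(Pr ε) ≤ C0 * (D0 * Bd) := by
  filter_upwards [hc, hok, hD, hbes, hU, hS, hdom, hke] with ε h1 h2 h4 h3 h5 h6 h7 h9
  have := h2.prob
  have hp : IsProbabilityMeasure (𝔖 ε).law := by unfold PvtcSys.law; infer_instance
  have hfin := pvs1_fin_of_sq (𝔖 ε).law (pvs1B (𝔖 ε) (n + 2) u ∩ (𝔖 ε).good Cu Cf) (fun x => ‖(𝔖 ε).X (f (n + 1)) ((𝔖 ε).tri (f (n + 1)) x)‖ₑ)
    (ne_top_of_le_ne_top hBd h3)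
  have key := pvs1_link_dom h1 hcyc hCu hCf h2 2 hfin (Pr ε) h6 h7
  refine le_trans (le_of_eq ?_) (key.trans ?_)
  · refine setLIntegral_congr_fun h5 fun o ho => ?_
    rw [h9 o ho]
  · gcongr

end lim

end Claimed.Agent.R289
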