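-- KEEP
import Claimed.Agent.R289.Tr.SimpleE
import Claimed.Agent.R289.Tr.InstL

/-!
# Row 289 (S0537), THE WALL, ROAD E, file Tr/SimpleL : THE CHAIN OF A PATTERN AGAINST THE WINDOWS OF RECORD OF ITS TWO END LINKS      (helper148; prefix `pvzu_`, names `pvzu_l*`)

The GEOMETRIC fields `sub win yC` of `PvueWin` (141, `Tr/SoftE`) at the names of `Tr/InstL` v2.2 (168 163): `C := pvieCc 𝔓 𝔈 m ε π`, end links `pvilEo .. zt tt Z F`, `pvilEi .. zs ts Z F`, doors `pvieDoor ..`, windows `pvilWno`, `pvilWni`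
(state part `pvilWz = pvilFat δ Z ∩ pvilBx`: `Z⁺` cut by the own-level box with collar).
* `pvzu_lbx`            `pvilBx 𝔓 m z t = pvieSh z (pviwBox 𝔓 m t)`
* `pvzu_ldoor_o _i`, `pvzu_ltile_o _i`      first / last door, first / last tile belong to `pvieTiles`
* **`pvzu_lsub_o _i`**, **`pvzu_lwin_o _i`**, **`pvzu_lyC_o _i`**      from `PvieSimple` + the clear lemma (`Tr/SimpleE` sec. 6)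
* **`pvzu_lpat_o`**, **`pvzu_lpat_i`**      all three on `pvxPatSet`, `Z ⊆ Zs ∪ Zt`
-/

set_option autoImplicit false

namespace Claimed.Agent.R289

open Set Metric Complex

section win

variable {τ : Type} {c : ℝ} {𝔓 : PvxPar τ c} {𝔈 : PvieEng τ}

theorem pvzu_lsq (z : ℂ) (r : ℝ) : pvwSq z r = pvieSh z (pvwSq 0 r) := by
  ext w
  constructor
  · intro hw
    exact ⟨w - z, by simpa [pvwSq] using hw, by simp⟩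
  · rintro ⟨a, ha, rfl⟩
    simpa [pvwSq] using ha

theorem pvzu_lbx (m : ℕ) (z : ℂ) (t : τ) : pvilBx 𝔓 m z t = pvieSh z (pviwBox 𝔓 m t) := pvzu_lsq _ _

theorem pvzu_ltile_o (m : ℕ) (ε : ℝ) (π : PvtsPat τ) : pvieSh π.zt (𝔈.oK m π.tt) ∈ pvieTiles 𝔓 𝔈 m ε π := by simp [pvieTiles]

theorem pvzu_ltile_i (m : ℕ) (ε : ℝ) (π : PvtsPat τ) : pvieSh π.zs (𝔈.iK m π.ts) ∈ pvieTiles 𝔓 𝔈 m ε π := by simp [pvieTiles]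

theorem pvzu_ldoor_i (m : ℕ) (ε : ℝ) (π : PvtsPat τ) : pvieDoor 𝔈 m ε (pvieZi 𝔓 m π.zs π.ts) ((𝔓.Γ m).din π.ts) ∈ pvieTiles 𝔓 𝔈 m ε π := by simp [pvieTiles]

theorem pvzu_ldoor_o {m : ℕ} (ε : ℝ) {π : PvtsPat τ} (hOk : (𝔓.Γ m).Ok π) : pvieDoor 𝔈 m ε (pvieZo 𝔓 m π.zt π.tt) ((𝔓.Γ m).dout π.tt) ∈ pvieTiles 𝔓 𝔈 m ε π := by
  rcases Nat.eq_zero_or_pos π.l.length with h0 | h0
  · have hl : π.l = [] := List.length_eq_zero_iff.1 h0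
    obtain ⟨h1, h2⟩ := hOk
    rw [hl] at h1 h2
    simp only [pvtDisp, pvtAcc, pvtDir, mul_zero] at h1 h2
    have e1 : pvieZo 𝔓 m π.zt π.tt = pvieZi 𝔓 m π.zs π.ts := by
      unfold pvieZo pvieZi
      linear_combination h1
    rw [e1, h2]
    exact pvzu_ldoor_i m ε π
  · unfold pvieTiles
    refine List.mem_append_left _ (List.mem_append_right _ (List.mem_map.2 ⟨0, List.mem_range.2 h0, ?_⟩))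
    simp [pvthZ, pvthD, pvtDisp]

variable {m : ℕ} {ε : ℝ} {π : PvtsPat τ} {Z Z' : Set (ℤ × ℤ)}

/-- `sub`, first link -/
theorem pvzu_lsub_o (hOk : (𝔓.Γ m).Ok π) : pvieSh π.zt (𝔈.oK m π.tt) ∪ pvieDoor 𝔈 m ε (pvieZo 𝔓 m π.zt π.tt) ((𝔓.Γ m).dout π.tt) ⊆ pvieCc 𝔓 𝔈 m ε π :=
  union_subset (fun _ hw => ⟨_, pvzu_ltile_o m ε π, hw⟩) (fun _ hw => ⟨_, pvzu_ldoor_o ε hOk, hw⟩)

/-- `sub`, last link -/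
theorem pvzu_lsub_i : pvieSh π.zs (𝔈.iK m π.ts) ∪ pvieDoor 𝔈 m ε (pvieZi 𝔓 m π.zs π.ts) ((𝔓.Γ m).din π.ts) ⊆ pvieCc 𝔓 𝔈 m ε π :=
  union_subset (fun _ hw => ⟨_, pvzu_ltile_i m ε π, hw⟩) (fun _ hw => ⟨_, pvzu_ldoor_i m ε π, hw⟩)

/-- **`win`, first link**: the resampled region of the chain meets the window of record in the tile and the door only -/
theorem pvzu_lwin_o (hs : PvieSimple 𝔓 𝔈 m ε π) (hc : ∀ S ∈ pvieTiles 𝔓 𝔈 m ε π, Disjoint S (pvieSh π.zt (pviwBox 𝔓 m π.tt) ∩ pvtU (pvlmDel c m) (pvtN8 Z'))) (hZ : Z ⊆ Z') :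
    pvieCc 𝔓 𝔈 m ε π ∩ pvilWno 𝔓 𝔈 m ε π.zt π.tt Z ⊆ pvieSh π.zt (𝔈.oK m π.tt) ∪ pvieDoor 𝔈 m ε (pvieZo 𝔓 m π.zt π.tt) ((𝔓.Γ m).dout π.tt) := by
  rintro w ⟨⟨S, hS, hw⟩, ((h | h) | h) | h⟩
  · refine absurd ?_ (Set.disjoint_left.1 (hc S hS) hw)
    exact ⟨by rw [← pvzu_lbx]; exact h.2, pvt_U_mono (pvt_N8_mono hZ) h.1⟩
  · exact absurd hw (Set.disjoint_left.1 (hs.pvzu_mouths S hS).1 h)
  · exact Or.inl h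
  · exact Or.inr h

/-- **`win`, last link** -/
theorem pvzu_lwin_i (hs : PvieSimple 𝔓 𝔈 m ε π) (hc : ∀ S ∈ pvieTiles 𝔓 𝔈 m ε π, Disjoint S (pvieSh π.zs (pviwBox 𝔓 m π.ts) ∩ pvtU (pvlmDel c m) (pvtN8 Z'))) (hZ : Z ⊆ Z') :
    pvieCc 𝔓 𝔈 m ε π ∩ pvilWni 𝔓 𝔈 m ε π.zs π.ts Z ⊆ pvieSh π.zs (𝔈.iK m π.ts) ∪ pvieDoor 𝔈 m ε (pvieZi 𝔓 m π.zs π.ts) ((𝔓.Γ m).din π.ts) := by
  rintro w ⟨⟨S, hS, hw⟩, ((h | h) | h) | h⟩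
  · refine absurd ?_ (Set.disjoint_left.1 (hc S hS) hw)
    exact ⟨by rw [← pvzu_lbx]; exact h.2, pvt_U_mono (pvt_N8_mono hZ) h.1⟩
  · exact absurd hw (Set.disjoint_left.1 (hs.pvzu_mouths S hS).2 h)
  · exact Or.inl h
  · exact Or.inr h

/-- `yC`, first link: the recoloured mouth misses the resampled region -/
theorem pvzu_lyC_o (hs : PvieSimple 𝔓 𝔈 m ε π) (F : Set ℂ) : Disjoint (pvieSh π.zt (𝔈.oM m π.tt) \ F) (pvieCc 𝔓 𝔈 m ε π) := by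
  rw [Set.disjoint_left]
  rintro w hw ⟨S, hS, hw'⟩
  exact Set.disjoint_left.1 (hs.pvzu_mouths S hS).1 hw.1 hw'

/-- `yC`, last link -/
theorem pvzu_lyC_i (hs : PvieSimple 𝔓 𝔈 m ε π) (F : Set ℂ) : Disjoint (pvieSh π.zs (𝔈.iM m π.ts) \ F) (pvieCc 𝔓 𝔈 m ε π) := by
  rw [Set.disjoint_left]
  rintro w hw ⟨S, hS, hw'⟩
  exact Set.disjoint_left.1 (hs.pvzu_mouths S hS).2 hw.1 hw'

end win

section pat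

variable {τ : Type} {c : ℝ} {𝔓 : PvxPar τ c} {𝔈 : PvieEng τ}

/-- **THE FIELDS `sub win yC` OF `PvueWin` FOR THE FIRST LINK OF THE CHAIN OF A PATTERN**, names of record -/
theorem pvzu_lpat_o {m : ℕ} {ε r : ℝ} {x : ℂ} {R₀ : ℝ} {π : PvxIx τ} (hB : 𝔓.WfB) (hL : PvegLev 𝔓 m) (R : PvccKitRef (𝔈.kit m ε) r) (hδ : (𝔈.kit m ε).δ = pvlmDel c m)
    (Et : ∀ t, PvzuEo 𝔓 𝔈 m ε t) (Es : ∀ t, PvzuEi 𝔓 𝔈 m ε t) (hπ : π ∈ pvxPatSet 𝔓 x R₀ m) (w : ∀ η : Conf PvPt, (delbPl (pvieY η)).Dart → ℂ) {Z : Set (ℤ × ℤ)} (hZ : Z ⊆ ↑π.Zs ∪ ↑π.Zt) (F : Set ℂ)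
    (ω : Conf PvPt) :
    (pvilEo 𝔓 𝔈 m ε w π.p.zt π.p.tt Z F).K ∪ pvieDoor 𝔈 m ε (pvieZo 𝔓 m π.p.zt π.p.tt) ((𝔓.Γ m).dout π.p.tt) ⊆ pvieCc 𝔓 𝔈 m ε π.p ∧
    pvieCc 𝔓 𝔈 m ε π.p ∩ pvilWno 𝔓 𝔈 m ε π.p.zt π.p.tt Z ⊆ (pvilEo 𝔓 𝔈 m ε w π.p.zt π.p.tt Z F).K ∪ pvieDoor 𝔈 m ε (pvieZo 𝔓 m π.p.zt π.p.tt) ((𝔓.Γ m).dout π.p.tt) ∧
    Disjoint ((pvilEo 𝔓 𝔈 m ε w π.p.zt π.p.tt Z F).y ω) (pvieCc 𝔓 𝔈 m ε π.p) := by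
  have hs := pvzu_simple_pat_end hB hL.del hL.doors R hδ Et Es hπ
  have hc := pvzu_clear_pat_end hB hL R hδ Et Es hπ
  exact ⟨pvzu_lsub_o hπ.1.1, pvzu_lwin_o hs (fun S hS => (hc S hS).1) hZ, pvzu_lyC_o hs F⟩

/-- **THE FIELDS `sub win yC` OF `PvueWin` FOR THE LAST LINK OF THE CHAIN OF A PATTERN**, names of record -/
theorem pvzu_lpat_i {m : ℕ} {ε r : ℝ} {x : ℂ} {R₀ : ℝ} {π : PvxIx τ} (hB : 𝔓.WfB) (hL : PvegLev 𝔓 m) (R : PvccKitRef (𝔈.kit m ε) r) (hδ : (𝔈.kit m ε).δ = pvlmDel c m)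
    (Et : ∀ t, PvzuEo 𝔓 𝔈 m ε t) (Es : ∀ t, PvzuEi 𝔓 𝔈 m ε t) (hπ : π ∈ pvxPatSet 𝔓 x R₀ m) (w : ∀ η : Conf PvPt, (delbPl (pvieY η)).Dart → ℂ) {Z : Set (ℤ × ℤ)} (hZ : Z ⊆ ↑π.Zs ∪ ↑π.Zt) (F : Set ℂ)
    (ω : Conf PvPt) :
    (pvilEi 𝔓 𝔈 m ε w π.p.zs π.p.ts Z F).K ∪ pvieDoor 𝔈 m ε (pvieZi 𝔓 m π.p.zs π.p.ts) ((𝔓.Γ m).din π.p.ts) ⊆ pvieCc 𝔓 𝔈 m ε π.p ∧
    pvieCc 𝔓 𝔈 m ε π.p ∩ pvilWni 𝔓 𝔈 m ε π.p.zs π.p.ts Z ⊆ (pvilEi 𝔓 𝔈 m ε w π.p.zs π.p.ts Z F).K ∪ pvieDoor 𝔈 m ε (pvieZi 𝔓 m π.p.zs π.p.ts) ((𝔓.Γ m).din π.p.ts) ∧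
    Disjoint ((pvilEi 𝔓 𝔈 m ε w π.p.zs π.p.ts Z F).y ω) (pvieCc 𝔓 𝔈 m ε π.p) := by
  have hs := pvzu_simple_pat_end hB hL.del hL.doors R hδ Et Es hπ
  have hc := pvzu_clear_pat_end hB hL R hδ Et Es hπ
  exact ⟨pvzu_lsub_i, pvzu_lwin_i hs (fun S hS => (hc S hS).2) hZ, pvzu_lyC_i hs F⟩

end pat

end Claimed.Agent.R289
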