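import Claimed.Agent.R289.Tr.Ind
import Claimed.Agent.R289.Tr.N1
import Claimed.Agent.R289.Tr.CellAlg

/-!
# Row 289 (S0537), box TR-SOFT, file Tr/Soft : THE MULTI-BLOCK SOFT CHAIN (Lemmas A, B, C of `affine_214.md`)      (owner helper171; prefix `pvsf_`, `pvsf`, `Pvsf`)

TEX[Cardy:plugs] (cycle experiments, state cochain) in the discrete form N1 + N2 of 208 / 140 / 214.   MODEL FREE: any `IsPpp m μ` on `Conf E`; vocabulary of `Tr/Ind` (141): `Conf.Reads W f`, `Conf.spl`.
"`f` does not read the block `C`" is always written `Conf.Reads Cᶜ f`.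
* §1 `pvsfRs C σ η` : resample the block `C` (keep `σ` off `C`, take `η` in `C`); `pvsf_rs_off`, `pvsf_rs_in`, `pvsf_rs_congr`, `pvsf_rs_comm`.
* §2 `pvsfP μ C S σ` = conditional probability of the event `S` given `σ` off `C`;   `pvsfK μ C S σ` = conditional law of the resampled block (fallback `μ` where `S` is impossible: ALWAYS a probability measure);
  **`pvsfM μ C S F σ`** = conditional mean of `F` given `S` and `σ` off `C`.   On bounded measurable `F` (`PvsfBd`): measurable, bounded by the same constant, additive (`pvsf_M_add`, `pvsf_M_sum`),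
  identity on functions which do not read `C` (`pvsf_M_off'`), `pvsf_M_reads` : reads `(W ∪ W') \ C`, `pvsf_M_reads_compl`, `pvsf_M_reads_self`.
  **`pvsf_step`** = Lemma A (one line of Jensen, ANY exponent `n`; `n = 2` = TR3):   `∫ |X + M F|^n a ≤ q⁻¹ ∫ |X + F|^n a 1_S`   (`X`, `a` do not read `C`; `P(S | σ) ≥ q` where `a ≠ 0`).   NO integrability or bound is asked of `X` (the free link).
* §3 `PvsfBlk` (window, event, lower bound), `pvsfFold μ L F` (integrate out the blocks of `L`, head first), `pvsfW L` (product of indicators), `pvsfCost L = ∏ q⁻¹`, `PvsfAdm μ a L` (admissible order),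
  **`pvsf_elim`** : `∫ |X + Fold L F|^n a ≤ Cost L * ∫ |X + F|^n a W_L`.   Algebra of the fold: `append`, `add`, `list_sum`, `off`, `reads_compl`, **`pvsf_fold_sublist`** (blocks which are not read may be dropped).
* §4 pins (the event reads its own window): `pvsf_P_pin`, `pvsfKp`, `pvsf_M_pin`, **`pvsf_M_comm`** (means over disjoint pins commute);   **`pvsf_M_cov`** (covariance under a law preserving measurable bijection of `E`).
* §5 `PvsfLink` (block + mass `X`), `PvsfLink.x μ l` = THE STATE COCHAIN (a definition), `PvsfLink.Ind`, `pvsf_fold_links`,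
  **`pvsf_pattern`** = Lemmas B + C = TR1 + TR2 + TR3 (TR3' with `X = 0`):  `∫ |X + Σ_l Fold Us (x_l)|^n a ≤ Cost * ∫ |X + Σ_l X_l|^n a ∏ 1_{S_l} ∏ 1_{G_u}`;   `pvsf_adm_pins`, `pvsf_adm_links` produce the admissibility.
CONTRACT for the geometry: the mass of a POSITIVE link must be bounded and measurable (`PvsfBd`): put `#sites(window) ≤ K_n` into the link / pin events and define the mass as `0` off the events.
-/

set_option autoImplicit false
set_option linter.unusedSectionVars false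

namespace Claimed.Agent.R289

open MeasureTheory ProbabilityTheory Set Filter Topology
open scoped ENNReal NNReal

section rs

variable {E : Type*} [MeasurableSpace E] {β : Type*} {C D W : Set E}

/-- resample the block `C`: keep `σ` off `C`, take `η` in `C` -/
def pvsfRs (C : Set E) (σ η : Conf E) : Conf E := Conf.spl Cᶜ (σ, η)

theorem pvsf_rs_pts (C : Set E) (σ η : Conf E) : (pvsfRs C σ η).pts = (σ.pts \ C) ∪ (η.pts ∩ C) := by
  simp [pvsfRs, Conf.spl, Conf.union, Conf.restr, Set.sdiff_eq]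

theorem pvsf_rs_measurable (hC : MeasurableSet C) : Measurable (fun x : Conf E × Conf E => pvsfRs C x.1 x.2) :=
  Conf.measurable_spl hC.compl

theorem pvsf_rs_measurable_right (hC : MeasurableSet C) (σ : Conf E) : Measurable (fun η : Conf E => pvsfRs C σ η) :=
  (pvsf_rs_measurable hC).comp (measurable_const.prodMk measurable_id)

theorem pvsf_rs_off {f : Conf E → β} (h : Conf.Reads W f) (hd : Disjoint W C) (σ η : Conf E) : f (pvsfRs C σ η) = f σ :=
  h.spl_left (subset_compl_iff_disjoint_right.2 hd) σ η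

theorem pvsf_rs_in {f : Conf E → β} (h : Conf.Reads W f) (hW : W ⊆ C) (σ η : Conf E) : f (pvsfRs C σ η) = f η :=
  h.spl_right (disjoint_compl_right.mono_left hW) σ η

theorem pvsf_rs_congr {f : Conf E → β} (h : Conf.Reads W f) {σ σ' : Conf E} (e : Conf.restr (W \ C) σ = Conf.restr (W \ C) σ') (η : Conf E) :
    f (pvsfRs C σ η) = f (pvsfRs C σ' η) := by
  refine h.congr ?_
  have e' : ∀ p, p ∈ W → p ∉ C → (p ∈ σ.pts ↔ p ∈ σ'.pts) := by
    intro p hW hC
    have := congrArg (fun ζ : Conf E => p ∈ ζ.pts) e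
    simp only [Conf.restr, mem_inter_iff, Set.mem_sdiff, hW, hC, not_false_eq_true, and_self, and_true, eq_iff_iff] at this
    exact this
  ext p
  simp only [Conf.restr, pvsf_rs_pts, mem_inter_iff, mem_union, Set.mem_sdiff]
  constructor
  · rintro ⟨⟨h1, h2⟩ | h1, hp⟩
    · exact ⟨Or.inl ⟨(e' p hp h2).1 h1, h2⟩, hp⟩
    · exact ⟨Or.inr h1, hp⟩
  · rintro ⟨⟨h1, h2⟩ | h1, hp⟩
    · exact ⟨Or.inl ⟨(e' p hp h2).2 h1, h2⟩, hp⟩
    · exact ⟨Or.inr h1, hp⟩

theorem pvsf_rs_reads {f : Conf E → β} (h : Conf.Reads W f) (η : Conf E) : Conf.Reads (W \ C) (fun σ => f (pvsfRs C σ η)) :=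
  Conf.reads_iff.2 fun _ _ e => pvsf_rs_congr h e η

theorem pvsf_rs_comm (hd : Disjoint C D) (σ η η' : Conf E) : pvsfRs C (pvsfRs D σ η') η = pvsfRs D (pvsfRs C σ η) η' := by
  ext p
  have := fun h1 : p ∈ C => Set.disjoint_left.1 hd h1
  simp only [pvsf_rs_pts, mem_union, Set.mem_sdiff, mem_inter_iff]
  tauto

end rs

section op

variable {E : Type*} [MeasurableSpace E] {m : Measure E} {μ : Measure (Conf E)} {C D W W' : Set E} {S : Set (Conf E)}

/-- the section of the event `S` at `σ` (the block `C` is resampled) -/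
def pvsfSec (C : Set E) (S : Set (Conf E)) (σ : Conf E) : Set (Conf E) := {η | pvsfRs C σ η ∈ S}

theorem pvsf_sec_measurable (hC : MeasurableSet C) (hS : MeasurableSet S) (σ : Conf E) : MeasurableSet (pvsfSec C S σ) :=
  (pvsf_rs_measurable_right hC σ) hS

/-- conditional probability of `S` given the configuration off `C` -/
noncomputable def pvsfP (μ : Measure (Conf E)) (C : Set E) (S : Set (Conf E)) (σ : Conf E) : ℝ≥0∞ := μ (pvsfSec C S σ)

/-- the conditional law of the resampled block given `S` and the configuration off `C`; fallback `μ` where `S` is impossible: ALWAYS a probability measure -/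
noncomputable def pvsfK (μ : Measure (Conf E)) (C : Set E) (S : Set (Conf E)) (σ : Conf E) : Measure (Conf E) :=
  if pvsfP μ C S σ = 0 then μ else μ[|pvsfSec C S σ]

/-- **the conditional mean operator** -/
noncomputable def pvsfM (μ : Measure (Conf E)) (C : Set E) (S : Set (Conf E)) (F : Conf E → ℂ) (σ : Conf E) : ℂ :=
  ∫ η, F (pvsfRs C σ η) ∂(pvsfK μ C S σ)

/-- bounded measurable test functions -/
def PvsfBd (F : Conf E → ℂ) : Prop := Measurable F ∧ ∃ B : ℝ, ∀ η, ‖F η‖ ≤ B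

theorem pvsf_eqns_cite : True := by
  have := @pvsfRs.eq_1.{0}
  have := @pvsfSec.eq_1.{0}
  have := @pvsfP.eq_1.{0}
  have := @pvsfK.eq_1.{0}
  have := @pvsfM.eq_1.{0}
  have := @PvsfBd.eq_1.{0}
  trivial

theorem pvsf_K_prob [IsProbabilityMeasure μ] (C : Set E) (S : Set (Conf E)) (σ : Conf E) : IsProbabilityMeasure (pvsfK μ C S σ) := by
  unfold pvsfK
  split_ifs with h
  · infer_instance
  · exact cond_isProbabilityMeasure h

theorem PvsfBd.add {F G : Conf E → ℂ} (hF : PvsfBd F) (hG : PvsfBd G) : PvsfBd (fun η => F η + G η) := by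
  obtain ⟨hF, B, hB⟩ := hF
  obtain ⟨hG, B', hB'⟩ := hG
  exact ⟨hF.add hG, B + B', fun η => (norm_add_le _ _).trans (add_le_add (hB η) (hB' η))⟩

theorem pvsf_bd_const (c : ℂ) : PvsfBd (fun _ : Conf E => c) := ⟨measurable_const, ‖c‖, fun _ => le_rfl⟩

theorem pvsf_bd_sum {ι : Type*} (T : Finset ι) {F : ι → Conf E → ℂ} (h : ∀ i ∈ T, PvsfBd (F i)) : PvsfBd (fun η => ∑ i ∈ T, F i η) := by
  classical
  induction T using Finset.induction_on with
  | empty => simpa using pvsf_bd_const (E := E) 0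
  | insert i T hi ih =>
    have := (h i (Finset.mem_insert_self i T)).add (ih fun j hj => h j (Finset.mem_insert_of_mem hj))
    simpa [Finset.sum_insert hi] using this

theorem PvsfBd.integrable {F : Conf E → ℂ} (hF : PvsfBd F) (hC : MeasurableSet C) (σ : Conf E) (P : Measure (Conf E)) [IsFiniteMeasure P] :
    Integrable (fun η => F (pvsfRs C σ η)) P := by
  obtain ⟨hF, B, hB⟩ := hF
  exact Integrable.of_bound (hF.comp (pvsf_rs_measurable_right hC σ)).aestronglyMeasurable B (ae_of_all _ fun η => hB _)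

theorem pvsf_P_measurable [SFinite μ] (hC : MeasurableSet C) (hS : MeasurableSet S) : Measurable (pvsfP μ C S) :=
  measurable_measure_prodMk_left ((pvsf_rs_measurable hC) hS)

theorem pvsf_M_eq (μ : Measure (Conf E)) (hC : MeasurableSet C) (hS : MeasurableSet S) (F : Conf E → ℂ) (σ : Conf E) :
    pvsfM μ C S F σ = if pvsfP μ C S σ = 0 then ∫ η, F (pvsfRs C σ η) ∂μ
      else ((pvsfP μ C S σ)⁻¹).toReal • ∫ η, S.indicator F (pvsfRs C σ η) ∂μ := by
  unfold pvsfM pvsfK
  split_ifs with h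
  · rfl
  · rw [ProbabilityTheory.cond, integral_smul_measure, ← integral_indicator (pvsf_sec_measurable hC hS σ)]
    congr 2

theorem pvsf_M_measurable [SFinite μ] (hC : MeasurableSet C) (hS : MeasurableSet S) {F : Conf E → ℂ} (hF : Measurable F) :
    Measurable (pvsfM μ C S F) := by
  have e : pvsfM μ C S F = fun σ => if pvsfP μ C S σ = 0 then ∫ η, F (pvsfRs C σ η) ∂μ
      else ((pvsfP μ C S σ)⁻¹).toReal • ∫ η, S.indicator F (pvsfRs C σ η) ∂μ := funext fun σ => pvsf_M_eq μ hC hS F σ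
  rw [e]
  have hP := pvsf_P_measurable (μ := μ) hC hS
  refine Measurable.ite (hP (measurableSet_singleton 0)) ?_ ?_
  · exact ((hF.comp (pvsf_rs_measurable hC)).stronglyMeasurable.integral_prod_right').measurable
  · exact hP.inv.ennreal_toReal.smul
      (((hF.indicator hS).comp (pvsf_rs_measurable hC)).stronglyMeasurable.integral_prod_right').measurable

theorem pvsf_M_norm_le [IsProbabilityMeasure μ] {F : Conf E → ℂ} {B : ℝ} (hB : ∀ η, ‖F η‖ ≤ B) (σ : Conf E) : ‖pvsfM μ C S F σ‖ ≤ B := by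
  have := pvsf_K_prob (μ := μ) C S σ
  have h := norm_integral_le_of_norm_le_const (μ := pvsfK μ C S σ) (f := fun η => F (pvsfRs C σ η)) (C := B) (ae_of_all _ fun η => hB _)
  simpa [pvsfM] using h

theorem PvsfBd.M [IsProbabilityMeasure μ] (hC : MeasurableSet C) (hS : MeasurableSet S) {F : Conf E → ℂ} (hF : PvsfBd F) : PvsfBd (pvsfM μ C S F) := by
  obtain ⟨hF, B, hB⟩ := hF
  exact ⟨pvsf_M_measurable hC hS hF, B, pvsf_M_norm_le hB⟩

theorem pvsf_M_add [IsProbabilityMeasure μ] (hC : MeasurableSet C) {F G : Conf E → ℂ} (hF : PvsfBd F) (hG : PvsfBd G) (σ : Conf E) :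
    pvsfM μ C S (fun η => F η + G η) σ = pvsfM μ C S F σ + pvsfM μ C S G σ := by
  have := pvsf_K_prob (μ := μ) C S σ
  exact integral_add (hF.integrable hC σ _) (hG.integrable hC σ _)

theorem pvsf_M_sum [IsProbabilityMeasure μ] (hC : MeasurableSet C) {ι : Type*} (T : Finset ι) {F : ι → Conf E → ℂ} (h : ∀ i ∈ T, PvsfBd (F i)) (σ : Conf E) :
    pvsfM μ C S (fun η => ∑ i ∈ T, F i η) σ = ∑ i ∈ T, pvsfM μ C S (F i) σ := by
  have := pvsf_K_prob (μ := μ) C S σ
  exact integral_finsetSum T fun i hi => (h i hi).integrable hC σ _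

/-- the operator does nothing on a function which does not read the block -/
theorem pvsf_M_off [IsProbabilityMeasure μ] {F : Conf E → ℂ} (h : Conf.Reads W F) (hd : Disjoint W C) (σ : Conf E) : pvsfM μ C S F σ = F σ := by
  have := pvsf_K_prob (μ := μ) C S σ
  unfold pvsfM
  simp_rw [pvsf_rs_off h hd σ]
  simp

theorem pvsf_sec_congr (h : Conf.Reads W' (fun η => η ∈ S)) {σ σ' : Conf E} (e : Conf.restr (W' \ C) σ = Conf.restr (W' \ C) σ') :
    pvsfSec C S σ = pvsfSec C S σ' := by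
  ext η
  exact iff_of_eq (pvsf_rs_congr h e η)

theorem pvsf_P_reads (μ : Measure (Conf E)) (h : Conf.Reads W' (fun η => η ∈ S)) : Conf.Reads (W' \ C) (pvsfP μ C S) :=
  Conf.reads_iff.2 fun _ _ e => by unfold pvsfP; rw [pvsf_sec_congr h e]

theorem pvsf_M_reads (μ : Measure (Conf E)) {F : Conf E → ℂ} (hF : Conf.Reads W F) (h : Conf.Reads W' (fun η => η ∈ S)) :
    Conf.Reads ((W ∪ W') \ C) (pvsfM μ C S F) := by
  refine Conf.reads_iff.2 fun σ σ' e => ?_
  have e1 : Conf.restr (W \ C) σ = Conf.restr (W \ C) σ' := by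
    have := congrArg (Conf.restr (W \ C)) e
    rwa [Conf.restr_restr, Conf.restr_restr, inter_eq_left.2 (sdiff_le_sdiff_right subset_union_left)] at this
  have e2 : Conf.restr (W' \ C) σ = Conf.restr (W' \ C) σ' := by
    have := congrArg (Conf.restr (W' \ C)) e
    rwa [Conf.restr_restr, Conf.restr_restr, inter_eq_left.2 (sdiff_le_sdiff_right subset_union_right)] at this
  unfold pvsfM pvsfK pvsfP
  rw [pvsf_sec_congr h e2]
  simp_rw [pvsf_rs_congr hF e1]

/-- **Lemma A** (one line of Jensen, exponent `n`; `n = 1` : `affine_214`, `n = 2` : TR3 of `TR_295`): the block `C` is integrated out; `X`, `a` do not read it; cost `1/q`. -/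
theorem pvsf_step (h : IsPpp m μ) (n : ℕ) (hC : MeasurableSet C) (hS : MeasurableSet S) {X F : Conf E → ℂ} {a : Conf E → ℝ≥0∞}
    (hX : Measurable X) (ha : Measurable a) (hF : PvsfBd F) (hXr : Conf.Reads Cᶜ X) (har : Conf.Reads Cᶜ a)
    {q : ℝ≥0∞} (hq : ∀ σ, a σ ≠ 0 → q ≤ pvsfP μ C S σ) (hq0 : q ≠ 0) :
    ∫⁻ σ, ‖X σ + pvsfM μ C S F σ‖ₑ ^ n * a σ ∂μ ≤ q⁻¹ * ∫⁻ η, ‖X η + F η‖ₑ ^ n * a η * S.indicator 1 η ∂μ := by
  have := h.prob
  have hG : Measurable fun η => ‖X η + F η‖ₑ ^ n * a η * S.indicator (1 : Conf E → ℝ≥0∞) η :=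
    ((((hX.add hF.1).enorm).pow_const n).mul ha).mul (measurable_one.indicator hS)
  rw [h.lintegral_spl hC.compl hG, ← lintegral_const_mul' _ _ (ENNReal.inv_ne_top.2 hq0)]
  refine lintegral_mono fun σ => ?_
  have hdis : Disjoint Cᶜ C := disjoint_compl_left
  have e : ∀ η, ‖X (Conf.spl Cᶜ (σ, η)) + F (Conf.spl Cᶜ (σ, η))‖ₑ ^ n * a (Conf.spl Cᶜ (σ, η)) * S.indicator (1 : Conf E → ℝ≥0∞) (Conf.spl Cᶜ (σ, η))
      = a σ * (pvsfSec C S σ).indicator (fun η => ‖X σ + F (pvsfRs C σ η)‖ₑ ^ n) η := by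
    intro η
    have h1 : X (Conf.spl Cᶜ (σ, η)) = X σ := pvsf_rs_off hXr hdis σ η
    have h2 : a (Conf.spl Cᶜ (σ, η)) = a σ := pvsf_rs_off har hdis σ η
    rw [h1, h2]
    by_cases hm : η ∈ pvsfSec C S σ
    · have hm' : Conf.spl Cᶜ (σ, η) ∈ S := hm
      rw [indicator_of_mem hm, indicator_of_mem hm']
      simp only [Pi.one_apply, mul_one, pvsfRs]
      rw [mul_comm]
    · have hm' : Conf.spl Cᶜ (σ, η) ∉ S := hm
      rw [indicator_of_notMem hm, indicator_of_notMem hm']
      simp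
  simp_rw [e]
  by_cases h0 : a σ = 0
  · simp [h0]
  have hp := hq σ h0
  have hp0 : pvsfP μ C S σ ≠ 0 := fun h' => hq0 (le_zero_iff.1 (h' ▸ hp))
  have hsec := pvsf_sec_measurable hC hS σ
  have hm2 : Measurable fun η => ‖X σ + F (pvsfRs C σ η)‖ₑ ^ n := (measurable_const.add (hF.1.comp (pvsf_rs_measurable_right hC σ))).enorm.pow_const n
  rw [lintegral_const_mul _ (hm2.indicator hsec), lintegral_indicator hsec]
  have hK := pvsf_K_prob (μ := μ) C S σ
  have e1 : ‖X σ + pvsfM μ C S F σ‖ₑ ^ n ≤ ∫⁻ η, ‖X σ + F (pvsfRs C σ η)‖ₑ ^ n ∂(pvsfK μ C S σ) := by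
    have j := pvt_n1_shift (pvsfK μ C S σ) n (Y := fun η => F (pvsfRs C σ η)) (hF.1.comp (pvsf_rs_measurable_right hC σ)).aestronglyMeasurable (X σ)
    rwa [measure_univ, one_mul, average_eq_integral] at j
  have e2 : ∫⁻ η, ‖X σ + F (pvsfRs C σ η)‖ₑ ^ n ∂(pvsfK μ C S σ) = (pvsfP μ C S σ)⁻¹ * ∫⁻ η in pvsfSec C S σ, ‖X σ + F (pvsfRs C σ η)‖ₑ ^ n ∂μ := by
    unfold pvsfK
    rw [if_neg hp0, ProbabilityTheory.cond, lintegral_smul_measure]
    rfl
  calc ‖X σ + pvsfM μ C S F σ‖ₑ ^ n * a σ ≤ (∫⁻ η, ‖X σ + F (pvsfRs C σ η)‖ₑ ^ n ∂(pvsfK μ C S σ)) * a σ := mul_le_mul_left e1 _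
    _ = (pvsfP μ C S σ)⁻¹ * (∫⁻ η in pvsfSec C S σ, ‖X σ + F (pvsfRs C σ η)‖ₑ ^ n ∂μ) * a σ := by rw [e2]
    _ ≤ q⁻¹ * (∫⁻ η in pvsfSec C S σ, ‖X σ + F (pvsfRs C σ η)‖ₑ ^ n ∂μ) * a σ :=
        mul_le_mul_left (mul_le_mul_left (ENNReal.inv_le_inv.2 hp) _) _
    _ = q⁻¹ * (a σ * ∫⁻ η in pvsfSec C S σ, ‖X σ + F (pvsfRs C σ η)‖ₑ ^ n ∂μ) := by ring

theorem pvsf_M_reads_compl (μ : Measure (Conf E)) {F : Conf E → ℂ} (hF : Conf.Reads Dᶜ F) (h : Conf.Reads Dᶜ (fun η => η ∈ S)) :
    Conf.Reads Dᶜ (pvsfM μ C S F) :=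
  (pvsf_M_reads μ hF h).mono (by rw [union_self]; exact sdiff_le)

theorem pvsf_M_reads_self (μ : Measure (Conf E)) (C : Set E) (S : Set (Conf E)) (F : Conf E → ℂ) : Conf.Reads Cᶜ (pvsfM μ C S F) :=
  (pvsf_M_reads μ (Conf.reads_univ F) (Conf.reads_univ fun η => η ∈ S)).mono (by rw [union_self, compl_eq_univ_sdiff])

theorem pvsf_M_off' [IsProbabilityMeasure μ] {F : Conf E → ℂ} (h : Conf.Reads Cᶜ F) : pvsfM μ C S F = F :=
  funext fun σ => pvsf_M_off h disjoint_compl_left σ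

end op

/-! ## elimination of a list of blocks -/

section elim

variable {E : Type*} [MeasurableSpace E] {m : Measure E} {μ : Measure (Conf E)}

/-- a block to be integrated out: window `C`, event `S`, lower bound `q` for the conditional probability of `S` -/
structure PvsfBlk (E : Type*) [MeasurableSpace E] where
  C : Set E
  S : Set (Conf E)
  q : ℝ≥0∞

/-- integrate out the blocks of the list, the head first -/
noncomputable def pvsfFold (μ : Measure (Conf E)) : List (PvsfBlk E) → (Conf E → ℂ) → Conf E → ℂ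
  | [], F => F
  | b :: L, F => pvsfFold μ L (pvsfM μ b.C b.S F)

/-- the product of the indicators of the events of the list -/
noncomputable def pvsfW : List (PvsfBlk E) → Conf E → ℝ≥0∞
  | [], _ => 1
  | b :: L, η => b.S.indicator 1 η * pvsfW L η

/-- the price -/
noncomputable def pvsfCost : List (PvsfBlk E) → ℝ≥0∞
  | [] => 1
  | b :: L => b.q⁻¹ * pvsfCost L

/-- measurable blocks -/
def PvsfMeas (L : List (PvsfBlk E)) : Prop := ∀ b ∈ L, MeasurableSet b.C ∧ MeasurableSet b.S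

/-- the list can be eliminated in this order under the guard `a`: later events do not read earlier blocks, and each event has conditional probability `≥ q`
where the guard and the later events hold -/
def PvsfAdm (μ : Measure (Conf E)) (a : Conf E → ℝ≥0∞) : List (PvsfBlk E) → Prop
  | [] => True
  | b :: L => b.q ≠ 0 ∧ (∀ b' ∈ L, Conf.Reads b.Cᶜ (fun η => η ∈ b'.S)) ∧
      (∀ σ, a σ ≠ 0 → (∀ b' ∈ L, σ ∈ b'.S) → b.q ≤ pvsfP μ b.C b.S σ) ∧ PvsfAdm μ a L

theorem pvsf_eqns_cite2 : True := by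
  have := @pvsfFold.eq_1.{0}
  have := @pvsfW.eq_1.{0}
  have := @pvsfCost.eq_1.{0}
  have := @PvsfMeas.eq_1.{0}
  have := @PvsfAdm.eq_1.{0}
  trivial

theorem PvsfMeas.tail {b : PvsfBlk E} {L : List (PvsfBlk E)} (h : PvsfMeas (b :: L)) : PvsfMeas L := fun b' hb' => h b' (List.mem_cons_of_mem _ hb')

theorem pvsf_W_measurable {L : List (PvsfBlk E)} (hL : PvsfMeas L) : Measurable (pvsfW L) := by
  induction L with
  | nil => exact measurable_const
  | cons b L ih => exact (measurable_one.indicator (hL b List.mem_cons_self).2).mul (ih hL.tail)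

theorem pvsf_W_ne_zero {L : List (PvsfBlk E)} {η : Conf E} : pvsfW L η ≠ 0 ↔ ∀ b ∈ L, η ∈ b.S := by
  induction L with
  | nil => simp [pvsfW]
  | cons b L ih =>
    simp only [pvsfW, ne_eq, mul_eq_zero, not_or, List.mem_cons, forall_eq_or_imp]
    refine and_congr ?_ ih
    by_cases h : η ∈ b.S <;> simp [h]

theorem pvsf_ind_reads {W : Set E} {S : Set (Conf E)} (h : Conf.Reads W (fun η => η ∈ S)) : Conf.Reads W (S.indicator (1 : Conf E → ℝ≥0∞)) := fun η => by
  have e : (Conf.restr W η ∈ S) = (η ∈ S) := h η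
  by_cases hm : η ∈ S
  · rw [indicator_of_mem hm, indicator_of_mem (e ▸ hm)]; rfl
  · rw [indicator_of_notMem hm, indicator_of_notMem (e ▸ hm)]

theorem pvsf_W_reads {W : Set E} {L : List (PvsfBlk E)} (h : ∀ b ∈ L, Conf.Reads W (fun η => η ∈ b.S)) : Conf.Reads W (pvsfW L) := by
  induction L with
  | nil => exact Conf.reads_const W 1
  | cons b L ih =>
    exact (pvsf_ind_reads (h b List.mem_cons_self)).map₂ (ih fun b' hb' => h b' (List.mem_cons_of_mem _ hb')) (· * ·)

theorem pvsf_fold_bd [IsProbabilityMeasure μ] {L : List (PvsfBlk E)} (hL : PvsfMeas L) {F : Conf E → ℂ} (hF : PvsfBd F) : PvsfBd (pvsfFold μ L F) := by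
  induction L generalizing F with
  | nil => exact hF
  | cons b L ih => exact ih hL.tail (hF.M (hL b List.mem_cons_self).1 (hL b List.mem_cons_self).2)

/-- **ELIMINATION** (Lemmas B + C of `affine_214`; TR1 + TR3 of `TR_295` for `n = 2`): all blocks of the list are integrated out, at the price `∏ 1/q`. -/
theorem pvsf_elim (h : IsPpp m μ) (n : ℕ) {L : List (PvsfBlk E)} (hL : PvsfMeas L) {X : Conf E → ℂ} {a : Conf E → ℝ≥0∞}
    (hX : Measurable X) (ha : Measurable a) (hXr : ∀ b ∈ L, Conf.Reads b.Cᶜ X) (har : ∀ b ∈ L, Conf.Reads b.Cᶜ a)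
    (hA : PvsfAdm μ a L) {F : Conf E → ℂ} (hF : PvsfBd F) :
    ∫⁻ σ, ‖X σ + pvsfFold μ L F σ‖ₑ ^ n * a σ ∂μ ≤ pvsfCost L * ∫⁻ η, ‖X η + F η‖ₑ ^ n * a η * pvsfW L η ∂μ := by
  have := h.prob
  induction L generalizing F with
  | nil => simp [pvsfFold, pvsfCost, pvsfW]
  | cons b L ih =>
    obtain ⟨hq0, hrd, hq, hA'⟩ := hA
    obtain ⟨hbC, hbS⟩ := hL b List.mem_cons_self
    have h1 := ih hL.tail (fun b' hb' => hXr b' (List.mem_cons_of_mem _ hb')) (fun b' hb' => har b' (List.mem_cons_of_mem _ hb')) hA'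
      (hF.M (μ := μ) hbC hbS)
    have h2 := pvsf_step h n hbC hbS (X := X) (F := F) (a := fun η => a η * pvsfW L η) hX (ha.mul (pvsf_W_measurable hL.tail)) hF
      (hXr b List.mem_cons_self) ((har b List.mem_cons_self).map₂ (pvsf_W_reads hrd) (· * ·)) (q := b.q)
      (fun σ hσ => hq σ (left_ne_zero_of_mul hσ) (pvsf_W_ne_zero.1 (right_ne_zero_of_mul hσ))) hq0
    calc ∫⁻ σ, ‖X σ + pvsfFold μ (b :: L) F σ‖ₑ ^ n * a σ ∂μ
        ≤ pvsfCost L * ∫⁻ η, ‖X η + pvsfM μ b.C b.S F η‖ₑ ^ n * a η * pvsfW L η ∂μ := h1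
      _ = pvsfCost L * ∫⁻ η, ‖X η + pvsfM μ b.C b.S F η‖ₑ ^ n * (a η * pvsfW L η) ∂μ := by simp_rw [mul_assoc]
      _ ≤ pvsfCost L * (b.q⁻¹ * ∫⁻ η, ‖X η + F η‖ₑ ^ n * (a η * pvsfW L η) * b.S.indicator 1 η ∂μ) := mul_le_mul_right h2 _
      _ = pvsfCost (b :: L) * ∫⁻ η, ‖X η + F η‖ₑ ^ n * a η * pvsfW (b :: L) η ∂μ := by
          rw [pvsfCost, ← mul_assoc, mul_comm (pvsfCost L)]
          congr 2
          funext η
          rw [pvsfW]
          ring

/-! ### algebra of the fold -/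

theorem pvsf_fold_append (μ : Measure (Conf E)) (L L' : List (PvsfBlk E)) (F : Conf E → ℂ) :
    pvsfFold μ (L ++ L') F = pvsfFold μ L' (pvsfFold μ L F) := by
  induction L generalizing F with
  | nil => rfl
  | cons b L ih => exact ih _

theorem pvsf_W_append (L L' : List (PvsfBlk E)) (η : Conf E) : pvsfW (L ++ L') η = pvsfW L η * pvsfW L' η := by
  induction L with
  | nil => simp [pvsfW]
  | cons b L ih => simp only [List.cons_append, pvsfW, ih, mul_assoc]

theorem pvsf_cost_append (L L' : List (PvsfBlk E)) : pvsfCost (L ++ L') = pvsfCost L * pvsfCost L' := by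
  induction L with
  | nil => simp [pvsfCost]
  | cons b L ih => simp only [List.cons_append, pvsfCost, ih, mul_assoc]

theorem PvsfMeas.append {L L' : List (PvsfBlk E)} (h : PvsfMeas L) (h' : PvsfMeas L') : PvsfMeas (L ++ L') := fun b hb =>
  (List.mem_append.1 hb).elim (h b) (h' b)

theorem pvsf_fold_add [IsProbabilityMeasure μ] {L : List (PvsfBlk E)} (hL : PvsfMeas L) {F G : Conf E → ℂ} (hF : PvsfBd F) (hG : PvsfBd G) :
    pvsfFold μ L (fun η => F η + G η) = fun η => pvsfFold μ L F η + pvsfFold μ L G η := by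
  induction L generalizing F G with
  | nil => rfl
  | cons b L ih =>
    obtain ⟨hbC, hbS⟩ := hL b List.mem_cons_self
    have e : pvsfM μ b.C b.S (fun η => F η + G η) = fun η => pvsfM μ b.C b.S F η + pvsfM μ b.C b.S G η :=
      funext fun σ => pvsf_M_add hbC hF hG σ
    show pvsfFold μ L (pvsfM μ b.C b.S fun η => F η + G η) = _
    rw [e]
    exact ih hL.tail (hF.M hbC hbS) (hG.M hbC hbS)

theorem pvsf_bd_list_sum {Fs : List (Conf E → ℂ)} (h : ∀ F ∈ Fs, PvsfBd F) : PvsfBd (fun η => (Fs.map fun F => F η).sum) := by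
  induction Fs with
  | nil => simpa using pvsf_bd_const (E := E) 0
  | cons F Fs ih =>
    simpa using (h F List.mem_cons_self).add (ih fun G hG => h G (List.mem_cons_of_mem _ hG))

theorem pvsf_fold_const [IsProbabilityMeasure μ] (L : List (PvsfBlk E)) (c : ℂ) : pvsfFold μ L (fun _ => c) = fun _ => c := by
  induction L with
  | nil => rfl
  | cons b L ih =>
    show pvsfFold μ L (pvsfM μ b.C b.S fun _ => c) = _
    rw [pvsf_M_off' (Conf.reads_const _ c)]
    exact ih

theorem pvsf_fold_list_sum [IsProbabilityMeasure μ] {L : List (PvsfBlk E)} (hL : PvsfMeas L) {Fs : List (Conf E → ℂ)} (h : ∀ F ∈ Fs, PvsfBd F) :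
    pvsfFold μ L (fun η => (Fs.map fun F => F η).sum) = fun η => (Fs.map fun F => pvsfFold μ L F η).sum := by
  induction Fs with
  | nil => simpa using pvsf_fold_const (μ := μ) L 0
  | cons F Fs ih =>
    have h1 := pvsf_fold_add (μ := μ) hL (h F List.mem_cons_self) (pvsf_bd_list_sum fun G hG => h G (List.mem_cons_of_mem _ hG))
    simp only [List.map_cons, List.sum_cons]
    rw [h1, ih fun G hG => h G (List.mem_cons_of_mem _ hG)]

theorem pvsf_fold_off [IsProbabilityMeasure μ] {L : List (PvsfBlk E)} {F : Conf E → ℂ} (h : ∀ b ∈ L, Conf.Reads b.Cᶜ F) : pvsfFold μ L F = F := by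
  induction L with
  | nil => rfl
  | cons b L ih =>
    show pvsfFold μ L (pvsfM μ b.C b.S F) = _
    rw [pvsf_M_off' (h b List.mem_cons_self)]
    exact ih fun b' hb' => h b' (List.mem_cons_of_mem _ hb')

theorem pvsf_fold_reads_compl (μ : Measure (Conf E)) {D : Set E} {L : List (PvsfBlk E)} {F : Conf E → ℂ} (hF : Conf.Reads Dᶜ F)
    (h : ∀ b ∈ L, Conf.Reads Dᶜ (fun η => η ∈ b.S)) : Conf.Reads Dᶜ (pvsfFold μ L F) := by
  induction L generalizing F with
  | nil => exact hF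
  | cons b L ih => exact ih (pvsf_M_reads_compl μ hF (h b List.mem_cons_self)) fun b' hb' => h b' (List.mem_cons_of_mem _ hb')

/-- blocks which are not read may be dropped from the list -/
theorem pvsf_fold_sublist [IsProbabilityMeasure μ] {L L' : List (PvsfBlk E)} (hs : L'.Sublist L) (hnd : L.Nodup)
    (hpw : ∀ b ∈ L, ∀ b' ∈ L, b ≠ b' → Conf.Reads b'.Cᶜ (fun η => η ∈ b.S))
    {F : Conf E → ℂ} (h : ∀ b ∈ L, b ∉ L' → Conf.Reads b.Cᶜ F) : pvsfFold μ L F = pvsfFold μ L' F := by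
  induction hs generalizing F with
  | slnil => rfl
  | @cons L' L b hs ih =>
    have hb : b ∉ L' := fun hb => (List.nodup_cons.1 hnd).1 (hs.subset hb)
    show pvsfFold μ L (pvsfM μ b.C b.S F) = _
    rw [pvsf_M_off' (h b List.mem_cons_self hb)]
    exact ih (List.nodup_cons.1 hnd).2 (fun b1 h1 b2 h2 => hpw b1 (List.mem_cons_of_mem _ h1) b2 (List.mem_cons_of_mem _ h2))
      fun b' hb' hn => h b' (List.mem_cons_of_mem _ hb') hn
  | @cons_cons L' L b hs ih =>
    show pvsfFold μ L (pvsfM μ b.C b.S F) = pvsfFold μ L' (pvsfM μ b.C b.S F)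
    refine ih (List.nodup_cons.1 hnd).2 (fun b1 h1 b2 h2 => hpw b1 (List.mem_cons_of_mem _ h1) b2 (List.mem_cons_of_mem _ h2)) fun b' hb' hn => ?_
    have hne : b ≠ b' := fun e => (List.nodup_cons.1 hnd).1 (e ▸ hb')
    refine pvsf_M_reads_compl μ (h b' (List.mem_cons_of_mem _ hb') fun hm => ?_) (hpw b List.mem_cons_self b' (List.mem_cons_of_mem _ hb') hne)
    rcases List.mem_cons.1 hm with e | hm
    · exact hne e.symm
    · exact hn hm

/-! ### pins: the event reads its own window -/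

theorem pvsf_sec_pin {C : Set E} {S : Set (Conf E)} (h : Conf.Reads C (fun η => η ∈ S)) (σ : Conf E) : pvsfSec C S σ = S := by
  ext η
  exact iff_of_eq (pvsf_rs_in h subset_rfl σ η)

theorem pvsf_P_pin (μ : Measure (Conf E)) {C : Set E} {S : Set (Conf E)} (h : Conf.Reads C (fun η => η ∈ S)) (σ : Conf E) : pvsfP μ C S σ = μ S := by
  unfold pvsfP; rw [pvsf_sec_pin h]

/-- the state law of a pin (fallback `μ`) -/
noncomputable def pvsfKp (μ : Measure (Conf E)) (S : Set (Conf E)) : Measure (Conf E) := if μ S = 0 then μ else μ[|S]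

theorem pvsf_Kp_prob [IsProbabilityMeasure μ] (S : Set (Conf E)) : IsProbabilityMeasure (pvsfKp μ S) := by
  unfold pvsfKp
  split_ifs with h
  · infer_instance
  · exact cond_isProbabilityMeasure h

theorem pvsf_K_pin (μ : Measure (Conf E)) {C : Set E} {S : Set (Conf E)} (h : Conf.Reads C (fun η => η ∈ S)) (σ : Conf E) : pvsfK μ C S σ = pvsfKp μ S := by
  unfold pvsfK pvsfKp; rw [pvsf_P_pin μ h, pvsf_sec_pin h]

theorem pvsf_M_pin (μ : Measure (Conf E)) {C : Set E} {S : Set (Conf E)} (h : Conf.Reads C (fun η => η ∈ S)) (F : Conf E → ℂ) (σ : Conf E) :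
    pvsfM μ C S F σ = ∫ η, F (pvsfRs C σ η) ∂(pvsfKp μ S) := by
  unfold pvsfM; rw [pvsf_K_pin μ h]

/-- the means over two disjoint pins commute (Fubini) -/
theorem pvsf_M_comm [IsProbabilityMeasure μ] {C D : Set E} {S T : Set (Conf E)} (hC : MeasurableSet C) (hD : MeasurableSet D) (hd : Disjoint C D)
    (hS : Conf.Reads C (fun η => η ∈ S)) (hT : Conf.Reads D (fun η => η ∈ T)) {F : Conf E → ℂ} (hF : PvsfBd F) :
    pvsfM μ C S (pvsfM μ D T F) = pvsfM μ D T (pvsfM μ C S F) := by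
  funext σ
  have := pvsf_Kp_prob (μ := μ) S
  have := pvsf_Kp_prob (μ := μ) T
  rw [pvsf_M_pin μ hS, pvsf_M_pin μ hT]
  simp_rw [pvsf_M_pin μ hS, pvsf_M_pin μ hT]
  obtain ⟨hFm, B, hB⟩ := hF
  have hm : Measurable fun x : Conf E × Conf E => F (pvsfRs D (pvsfRs C σ x.1) x.2) := by
    refine hFm.comp ((pvsf_rs_measurable hD).comp (Measurable.prodMk ?_ measurable_snd))
    exact (pvsf_rs_measurable_right hC σ).comp measurable_fst
  have hi : Integrable (Function.uncurry fun η η' => F (pvsfRs D (pvsfRs C σ η) η')) ((pvsfKp μ S).prod (pvsfKp μ T)) :=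
    Integrable.of_bound hm.aestronglyMeasurable B (ae_of_all _ fun x => hB _)
  rw [integral_integral_swap hi]
  simp_rw [pvsf_rs_comm hd]

theorem pvsf_eqns_cite3 : True := by
  have := @pvsfKp.eq_1.{0}
  trivial

/-! ### covariance -/

theorem pvsf_image_rs (φ : E ≃ᵐ E) (C : Set E) (σ η : Conf E) :
    Conf.image φ (pvsfRs C σ η) = pvsfRs (φ '' C) (Conf.image φ σ) (Conf.image φ η) := by
  ext p
  simp only [Conf.image, pvsf_rs_pts, mem_image, mem_union, Set.mem_sdiff, mem_inter_iff]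
  constructor
  · rintro ⟨x, ⟨h1, h2⟩ | ⟨h1, h2⟩, rfl⟩
    · exact Or.inl ⟨⟨x, h1, rfl⟩, fun ⟨y, hy, e⟩ => h2 (φ.injective e ▸ hy)⟩
    · exact Or.inr ⟨⟨x, h1, rfl⟩, ⟨x, h2, rfl⟩⟩
  · rintro (⟨⟨x, h1, rfl⟩, h2⟩ | ⟨⟨x, h1, rfl⟩, ⟨y, hy, e⟩⟩)
    · exact ⟨x, Or.inl ⟨h1, fun hx => h2 ⟨x, hx, rfl⟩⟩, rfl⟩
    · exact ⟨x, Or.inr ⟨h1, φ.injective e ▸ hy⟩, rfl⟩

/-- **covariance of the conditional mean** under a measurable bijection of the space which preserves the law -/
theorem pvsf_M_cov (φ : E ≃ᵐ E) (hμ : μ.map (Conf.image φ) = μ) {C : Set E} {S' : Set (Conf E)} (hC : MeasurableSet C) (hS' : MeasurableSet S')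
    {F F' : Conf E → ℂ} (hF' : Measurable F') (c : ℂ) (hFF : ∀ η, F' (Conf.image φ η) = c * F η) (σ : Conf E) :
    pvsfM μ (φ '' C) S' F' (Conf.image φ σ) = c * pvsfM μ C (Conf.image φ ⁻¹' S') F σ := by
  have hT : Measurable (Conf.image φ : Conf E → Conf E) := Conf.measurable_image φ.measurable
  have hC' : MeasurableSet (φ '' C) := (φ.measurableSet_image).2 hC
  have hS : MeasurableSet (Conf.image φ ⁻¹' S') := hT hS'
  have eP : pvsfP μ (φ '' C) S' (Conf.image φ σ) = pvsfP μ C (Conf.image φ ⁻¹' S') σ := by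
    unfold pvsfP
    conv_lhs => rw [← hμ]
    rw [Measure.map_apply hT (pvsf_sec_measurable hC' hS' _)]
    congr 1
    ext η
    simp only [pvsfSec, mem_preimage, mem_ofPred_eq, pvsf_image_rs]
  rw [pvsf_M_eq μ hC' hS', pvsf_M_eq μ hC hS, eP]
  have e1 : ∫ η, F' (pvsfRs (φ '' C) (Conf.image φ σ) η) ∂μ = c * ∫ η, F (pvsfRs C σ η) ∂μ := by
    conv_lhs => rw [← hμ]
    rw [integral_map (f := fun η => F' (pvsfRs (φ '' C) (Conf.image φ σ) η)) hT.aemeasurable
      (hF'.comp (pvsf_rs_measurable_right hC' _)).aestronglyMeasurable, ← integral_const_mul]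
    simp_rw [← pvsf_image_rs, hFF]
  have e2 : ∫ η, S'.indicator F' (pvsfRs (φ '' C) (Conf.image φ σ) η) ∂μ = c * ∫ η, (Conf.image φ ⁻¹' S').indicator F (pvsfRs C σ η) ∂μ := by
    conv_lhs => rw [← hμ]
    rw [integral_map (f := fun η => S'.indicator F' (pvsfRs (φ '' C) (Conf.image φ σ) η)) hT.aemeasurable
      ((hF'.indicator hS').comp (pvsf_rs_measurable_right hC' _)).aestronglyMeasurable, ← integral_const_mul]
    refine integral_congr_ae (ae_of_all _ fun η => ?_)
    simp only [← pvsf_image_rs]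
    by_cases hm : Conf.image φ (pvsfRs C σ η) ∈ S'
    · rw [indicator_of_mem hm, indicator_of_mem (show pvsfRs C σ η ∈ Conf.image φ ⁻¹' S' from hm), hFF]
    · rw [indicator_of_notMem hm, indicator_of_notMem (show pvsfRs C σ η ∉ Conf.image φ ⁻¹' S' from hm), mul_zero]
  rw [e1, e2]
  split_ifs
  · rfl
  · simp only [Complex.real_smul]; ring

/-! ### links, pins, patterns -/

/-- a link: own block `C`, link event `S`, lower bound `q`, mass `X` -/
structure PvsfLink (E : Type*) [MeasurableSpace E] extends PvsfBlk E where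
  X : Conf E → ℂ

/-- **the state cochain of a link** (`P3.8` becomes a definition): the conditional mean of the mass given the link event and everything off the own block -/
noncomputable def PvsfLink.x (μ : Measure (Conf E)) (l : PvsfLink E) : Conf E → ℂ := pvsfM μ l.C l.S l.X

/-- two links do not read the own block of each other -/
def PvsfLink.Ind (l l' : PvsfLink E) : Prop :=
  Conf.Reads l'.Cᶜ l.X ∧ Conf.Reads l'.Cᶜ (fun η => η ∈ l.S) ∧ Conf.Reads l.Cᶜ l'.X ∧ Conf.Reads l.Cᶜ (fun η => η ∈ l'.S)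

theorem pvsf_eqns_cite4 : True := by
  have := @PvsfLink.x.eq_1.{0}
  have := @PvsfLink.Ind.eq_1.{0}
  trivial

theorem pvsf_reads_list_sum {W : Set E} {Fs : List (Conf E → ℂ)} (h : ∀ F ∈ Fs, Conf.Reads W F) : Conf.Reads W (fun η => (Fs.map fun F => F η).sum) := by
  induction Fs with
  | nil => exact Conf.reads_const W _
  | cons F Fs ih =>
    simp only [List.map_cons, List.sum_cons]
    exact (h F List.mem_cons_self).map₂ (ih fun G hG => h G (List.mem_cons_of_mem _ hG)) (· + ·)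

theorem pvsf_fold_links [IsProbabilityMeasure μ] {Ls : List (PvsfLink E)} (hm : PvsfMeas (Ls.map PvsfLink.toPvsfBlk)) (hbd : ∀ l ∈ Ls, PvsfBd l.X)
    (hpw : Ls.Pairwise PvsfLink.Ind) {F₀ : Conf E → ℂ} (hF₀ : PvsfBd F₀) (hr : ∀ l ∈ Ls, Conf.Reads l.Cᶜ F₀) :
    pvsfFold μ (Ls.map PvsfLink.toPvsfBlk) (fun η => F₀ η + (Ls.map fun l => l.X η).sum) = fun η => F₀ η + (Ls.map fun l => l.x μ η).sum := by
  induction Ls generalizing F₀ with
  | nil => rfl
  | cons l Ls ih =>
    obtain ⟨hlC, hlS⟩ := hm l.toPvsfBlk (by simp)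
    have hm' : PvsfMeas (Ls.map PvsfLink.toPvsfBlk) := fun b hb => hm b (by simp only [List.map_cons]; exact List.mem_cons_of_mem _ hb)
    have hbd' : ∀ l' ∈ Ls, PvsfBd l'.X := fun l' h' => hbd l' (List.mem_cons_of_mem _ h')
    obtain ⟨hl, hpw'⟩ := List.pairwise_cons.1 hpw
    have hsumbd : PvsfBd (fun η => (Ls.map fun l' => l'.X η).sum) := by
      have := pvsf_bd_list_sum (Fs := Ls.map PvsfLink.X) (by simpa using hbd')
      simpa [List.map_map, Function.comp_def] using this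
    have hsumr : Conf.Reads l.Cᶜ (fun η => (Ls.map fun l' => l'.X η).sum) := by
      have := pvsf_reads_list_sum (W := l.Cᶜ) (Fs := Ls.map PvsfLink.X) (by simpa using fun l' h' => (hl l' h').2.2.1)
      simpa [List.map_map, Function.comp_def] using this
    have e : pvsfM μ l.C l.S (fun η => F₀ η + ((l :: Ls).map fun l' => l'.X η).sum)
        = fun η => (F₀ η + l.x μ η) + (Ls.map fun l' => l'.X η).sum := by
      funext σ
      simp only [List.map_cons, List.sum_cons]
      rw [pvsf_M_add hlC hF₀ ((hbd l List.mem_cons_self).add hsumbd), pvsf_M_add hlC (hbd l List.mem_cons_self) hsumbd,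
        pvsf_M_off' (hr l List.mem_cons_self), pvsf_M_off' hsumr, PvsfLink.x, add_assoc]
    show pvsfFold μ (Ls.map PvsfLink.toPvsfBlk) (pvsfM μ l.C l.S fun η => F₀ η + ((l :: Ls).map fun l' => l'.X η).sum) = _
    rw [e, ih hm' hbd' hpw' (F₀ := fun η => F₀ η + l.x μ η) (hF₀.add ((hbd l List.mem_cons_self).M hlC hlS))
      (fun l' h' => (hr l' (List.mem_cons_of_mem _ h')).map₂ (pvsf_M_reads_compl μ (hl l' h').1 (hl l' h').2.1) (· + ·))]
    funext η
    simp only [List.map_cons, List.sum_cons, add_assoc]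

/-- **PATTERN THEOREM** (Lemmas B + C of `affine_214`).   `Ls` = the positive links, `Us` = the artificial pins, `X`, `a` = mass and guard of everything which is kept (free links, real pins).
Each positive link is replaced by the iterated mean of its mass: own block first, then the artificial pins. -/
theorem pvsf_pattern (h : IsPpp m μ) (n : ℕ) {Ls : List (PvsfLink E)} {Us : List (PvsfBlk E)} (hmL : PvsfMeas (Ls.map PvsfLink.toPvsfBlk)) (hmU : PvsfMeas Us)
    (hbd : ∀ l ∈ Ls, PvsfBd l.X) (hpw : Ls.Pairwise PvsfLink.Ind) {X : Conf E → ℂ} {a : Conf E → ℝ≥0∞} (hX : Measurable X) (ha : Measurable a)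
    (hXr : ∀ b ∈ Ls.map PvsfLink.toPvsfBlk ++ Us, Conf.Reads b.Cᶜ X) (har : ∀ b ∈ Ls.map PvsfLink.toPvsfBlk ++ Us, Conf.Reads b.Cᶜ a)
    (hA : PvsfAdm μ a (Ls.map PvsfLink.toPvsfBlk ++ Us)) :
    ∫⁻ σ, ‖X σ + (Ls.map fun l => pvsfFold μ Us (l.x μ) σ).sum‖ₑ ^ n * a σ ∂μ
      ≤ pvsfCost (Ls.map PvsfLink.toPvsfBlk) * pvsfCost Us *
        ∫⁻ η, ‖X η + (Ls.map fun l => l.X η).sum‖ₑ ^ n * a η * (pvsfW (Ls.map PvsfLink.toPvsfBlk) η * pvsfW Us η) ∂μ := by
  have := h.prob
  have hsumbd : PvsfBd (fun η => (Ls.map fun l' => l'.X η).sum) := by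
    have := pvsf_bd_list_sum (Fs := Ls.map PvsfLink.X) (by simpa using hbd)
    simpa [List.map_map, Function.comp_def] using this
  have h1 := pvsf_elim h n (hmL.append hmU) hX ha hXr har hA hsumbd
  have e0 := pvsf_fold_links (μ := μ) hmL hbd hpw (pvsf_bd_const 0) (fun l _ => Conf.reads_const _ _)
  simp only [zero_add] at e0
  have hxbd : ∀ F ∈ Ls.map (PvsfLink.x μ), PvsfBd F := by
    intro F hF
    obtain ⟨l, hl, rfl⟩ := List.mem_map.1 hF
    obtain ⟨hlC, hlS⟩ := hmL l.toPvsfBlk (List.mem_map.2 ⟨l, hl, rfl⟩)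
    exact (hbd l hl).M hlC hlS
  have e1 := pvsf_fold_list_sum (μ := μ) hmU hxbd
  simp only [List.map_map, Function.comp_def] at e1
  rw [pvsf_fold_append, e0, e1, pvsf_cost_append] at h1
  simp_rw [pvsf_W_append] at h1
  exact h1

theorem pvsf_adm_pins (μ : Measure (Conf E)) (a : Conf E → ℝ≥0∞) {Us : List (PvsfBlk E)} (hq : ∀ u ∈ Us, u.q ≠ 0 ∧ u.q ≤ μ u.S)
    (hr : ∀ u ∈ Us, Conf.Reads u.C (fun η => η ∈ u.S)) (hd : Us.Pairwise fun u u' => Disjoint u.C u'.C) : PvsfAdm μ a Us := by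
  induction Us with
  | nil => trivial
  | cons u Us ih =>
    obtain ⟨hu, hd'⟩ := List.pairwise_cons.1 hd
    refine ⟨(hq u List.mem_cons_self).1, fun u' h' => ?_, fun σ _ _ => ?_, ih (fun u' h' => hq u' (List.mem_cons_of_mem _ h'))
      (fun u' h' => hr u' (List.mem_cons_of_mem _ h')) hd'⟩
    · exact (hr u' (List.mem_cons_of_mem _ h')).mono (subset_compl_iff_disjoint_left.2 (hu u' h'))
    · rw [pvsf_P_pin μ (hr u List.mem_cons_self)]
      exact (hq u List.mem_cons_self).2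

theorem pvsf_adm_links {a : Conf E → ℝ≥0∞} {Ls : List (PvsfLink E)} {Us : List (PvsfBlk E)} (hq : ∀ l ∈ Ls, l.q ≠ 0) (hpw : Ls.Pairwise PvsfLink.Ind)
    (hLU : ∀ l ∈ Ls, ∀ u ∈ Us, Conf.Reads l.Cᶜ (fun η => η ∈ u.S))
    (hpos : ∀ l ∈ Ls, ∀ σ, a σ ≠ 0 → (∀ u ∈ Us, σ ∈ u.S) → l.q ≤ pvsfP μ l.C l.S σ) (hU : PvsfAdm μ a Us) :
    PvsfAdm μ a (Ls.map PvsfLink.toPvsfBlk ++ Us) := by
  induction Ls with
  | nil => exact hU
  | cons l Ls ih =>
    obtain ⟨hl, hpw'⟩ := List.pairwise_cons.1 hpw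
    refine ⟨hq l List.mem_cons_self, fun b hb => ?_, fun σ hσ hall => ?_, ih (fun l' h' => hq l' (List.mem_cons_of_mem _ h')) hpw'
      (fun l' h' => hLU l' (List.mem_cons_of_mem _ h')) (fun l' h' => hpos l' (List.mem_cons_of_mem _ h'))⟩
    · rcases List.mem_append.1 hb with hb | hb
      · obtain ⟨l', h', rfl⟩ := List.mem_map.1 hb
        exact (hl l' h').2.2.2
      · exact hLU l List.mem_cons_self b hb
    · exact hpos l List.mem_cons_self σ hσ fun u hu => hall u (List.mem_append_right _ hu)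

theorem pvsf_const_of_reads_empty {β : Type*} {f : Conf E → β} (h : Conf.Reads ∅ f) (σ σ' : Conf E) : f σ = f σ' :=
  h.congr (by ext p; simp [Conf.restr])

end elim

end Claimed.Agent.R289
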