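import Claimed.Agent.R289.Tr.BlockF
import Claimed.Agent.R289.Tr.LocalW
import Claimed.Agent.R289.Tr.StKit
import Claimed.Agent.R289.Tr.GateLat
import Claimed.Agent.R289.Tr.FlagA
import Claimed.Agent.R289.Defs.TrModel

/-!
# Row 289 (S0537, Cardy for Poisson-Voronoi), THE WALL, file Tr/StSch : (F2) = THE CONCRETE STATE SCHEME OF `FLAG2` ON `Tr/Defs` v2      (helper233; box TR-F2SCH; prefix `pvss_`, defs `Pvss…`, `pvss…`)

Text of record: E13, E14, E18 of `origin/helper208:notes/R289/W1_208_v3.md`.      Abstract layers: `Tr/BlockP` (233: quenched cost of exclusive cylinders), `Tr/BlockF` (248: marks form of the circuits, `PvbfLocS`, saturation), `Tr/FlagA` (235: `pvfa_anneal`, copies at all scales),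
`Tr/PinLoc(B)` (238: `pvplb_main`, `PvplRep.sim`).      THIS FILE = the producer of the state scheme: what "the half state `(core, Σ±)` at level `k`" is for a STATIC LOCAL MEASURABLE flag.

TWO TRUTH POINTS.
(1) `Inmost` of `Tr/Defs` = MINIMAL gate.   A colouring may have SEVERAL minimal gates (two dead-end arcs through the centre: 118 `Tr/GateL`, 3 `Tr/GateLat`), so the cylinders `{Σ_out = σ}` are NOT exclusive and `∑ P(Cyl σ) ≤ 1` fails.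
    HERE: the gate of the scheme is a gate INSIDE EVERY GATE of the colouring (`PvssLeast`): unique;   it is read from ALL the colours of the deterministic disc `clB(z, b h)`, so the frozen set of the scheme is `disc ∪ banks of the stub`.
    The disc is far from the tip: the fresh sites of the blocks are the same.      A minimal gate passed by a rim IS inside every gate (`pvlt_min_le`, `pvtl_min_le`): hypothesis `hall` of the consumer forms.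
(2) the orientation clause `ori` of `PvwSt.Gate` is a test on TWO positions: not a function of countably many vertex marks.      HERE: both orientations (`PvssGate`), MULTIPLICITY TWO, split at the quenched level by a linear order of the vertices: cost `2 (1 - q²)^J`.
CALM is not needed for the cost: the flag is raised for every level, calm or not.

MARKS BY FAKE POSITIONS.   `A : ι → Set ℂ` = finitely many Borel tests, `θ p = (p ∈ A i)_i`, `rep k` = a point with the marks `k`.      Every clause of `Gate` (but `ori`), `StubP`, `StubM` is a test of ONE position,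
so `PvssAt` at `pos` ⟺ `PvssAt` at `rep ∘ θ ∘ pos` (`pvss_at_same`), and a `PvplIso` (equal marks) is a POSITIONED local isomorphism for the fake positions: (cyl) = `Tr/StKit` of 25, (loc) = `Tr/LocalW` of 22.

* sec. 1  `PvssGate`, `PvssLeast`, `PvssAt` (positions);   `pvss_at_congr` (cyl), `pvss_at_two`, `pvss_at_unique` (uniq up to the orientation), `PvssSame`, `pvss_at_same`;   consumer forms `pvss_of_atOut`, `pvss_of_atIn`
* sec. 2  test marks `pvssTh`, fake positions `pvssRep`;   parameters `PvssPar`, tests `pvssA`, `pvssK`, `PvssIn`, `PvssOut`;   the scheme `pvssSch`, the flag `pvssFlag`;   `pvss_sch_loc`, **`pvss_flag_locS`**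
* sec. 3  **`pvss_quenched`** : `pvaP A ξ (flag) ≤ 2 (1 - q²)^J`
* sec. 4  **`pvss_unit`** : ONE measurable event of unit scale, read from a ball, which represents the flag, of probability `≤ 4 (1 - q²)^J + o(1)` (both colours)
* sec. 5  **`pvss_model`** : CONSUMER FORM at `Defs/TrModel`: off the copy of the event at `(z,h)`, on the mesh event, the half state of the sample has a block round the centre of its tip cell
-/

set_option autoImplicit false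
set_option linter.unusedSectionVars false
set_option linter.unusedVariables false

namespace Claimed.Agent.R289

open MeasureTheory Set Filter Topology Metric Claims.C0465
open scoped ENNReal

/-! ## 1. the half states of the scheme, with positions -/

section det

variable {V D : Type} {T : PvMap V D}

/-- a gate of either orientation -/
def PvssGate (𝔖 : PvwSt T) (pos : V → ℂ) (h : ℝ) (z : ℂ) (τ : PvwTy) (s : V → Bool) : Prop := ∃ o : Bool, 𝔖.Gate pos h z { τ with o := o } s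

/-- **THE RULE**: a gate inside every gate of the colouring -/
def PvssLeast (𝔖 : PvwSt T) (pos : V → ℂ) (h : ℝ) (z : ℂ) (τ : PvwTy) (s : V → Bool) : Prop :=
  PvssGate 𝔖 pos h z τ s ∧ ∀ 𝔖' : PvwSt T, PvssGate 𝔖' pos h z τ s → 𝔖.S.Left ⊆ 𝔖'.S.Left

/-- the sites of the deterministic disc -/
def pvssDisc (pos : V → ℂ) (z : ℂ) (r : ℝ) : Set V := {v | ‖pos v - z‖ ≤ r}

/-- the two banks of the stub of sign `e` (`true` = exit stub `Σ⁺`, `false` = entrance stub `Σ⁻`) -/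
def pvssBanks (𝔖 : PvwSt T) (e : Bool) : Set V := if e = true then 𝔖.bkP ∪ 𝔖.whP else 𝔖.bkM ∪ 𝔖.whM

/-- the stub of sign `e` -/
def PvssStub (𝔖 : PvwSt T) (pos : V → ℂ) (B : Set ℂ) (s : V → Bool) (e : Bool) : Prop := if e = true then 𝔖.StubP pos B s else 𝔖.StubM pos B s

/-- the black end of the tip dart of the stub of sign `e` -/
def pvssTip (𝔖 : PvwSt T) (e : Bool) : V := if e = true then T.src (𝔖.ep 𝔖.np) else T.src (𝔖.em 𝔖.nm)

/-- **`𝔖` IS THE HALF STATE OF SIGN `e` OF THE SCHEME** for the colouring `s`: frozen set `F = disc ∪ banks`, tip cell number `y` (the cell of the black end of the tip dart) -/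
structure PvssAt {ζ : Type} (𝔖 : PvwSt T) (pos : V → ℂ) (h : ℝ) (z : ℂ) (τ : PvwTy) (B : Set ℂ) (cell : ζ → Set ℂ) (e : Bool) (s : V → Bool) (F : Finset V) (y : ζ) : Prop where
  least : PvssLeast 𝔖 pos h z τ s
  stub : PvssStub 𝔖 pos B s e
  tip : pos (pvssTip 𝔖 e) ∈ cell y
  fz : (↑F : Set V) = pvssDisc pos z (τ.b * h) ∪ pvssBanks 𝔖 e

theorem pvss_eqns_cite : True := by
  have := @PvssGate.eq_1; have := @PvssLeast.eq_1; have := @pvssDisc.eq_1; have := @pvssBanks.eq_1; have := @PvssStub.eq_1; have := @pvssTip.eq_1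
  trivial

variable {ζ : Type} {𝔖 𝔖' : PvwSt T} {pos pos' : V → ℂ} {h h' : ℝ} {z z' : ℂ} {τ : PvwTy} {B B' : Set ℂ} {cell cell' : ζ → Set ℂ} {e : Bool} {s s' : V → Bool} {F F' : Finset V} {y y' : ζ}

/-- a gate of either orientation is read from the disc -/
theorem pvss_gate_congr (hT : T.IsSph) (hg : PvssGate 𝔖 pos h z τ s) (hs : ∀ v ∈ pvssDisc pos z (τ.b * h), s' v = s v) : PvssGate 𝔖 pos h z τ s' := by
  obtain ⟨o, hg⟩ := hg
  exact ⟨o, pvwk_gate_congr hT hg fun v hv => (hs v (le_of_lt (hg.inside v hv))).symm⟩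

/-- the rule is read from the disc -/
theorem pvss_least_congr (hT : T.IsSph) (hg : PvssLeast 𝔖 pos h z τ s) (hs : ∀ v ∈ pvssDisc pos z (τ.b * h), s' v = s v) : PvssLeast 𝔖 pos h z τ s' := by
  exact ⟨pvss_gate_congr hT hg.1 hs, fun 𝔖' h' => hg.2 𝔖' (pvss_gate_congr hT h' fun v hv => (hs v hv).symm)⟩

/-- **(cyl)**: the half state is read on its frozen set -/
theorem pvss_at_congr (hT : T.IsSph) (ha : PvssAt 𝔖 pos h z τ B cell e s F y) (hs : ∀ v ∈ F, s' v = s v) : PvssAt 𝔖 pos h z τ B cell e s' F y := by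
  have hF : ∀ v, v ∈ pvssDisc pos z (τ.b * h) ∪ pvssBanks 𝔖 e → s' v = s v := fun v hv => hs v (by
    have h1 : v ∈ (↑F : Set V) := by rw [ha.fz]; exact hv
    exact h1)
  refine ⟨pvss_least_congr hT ha.least fun v hv => hF v (Or.inl hv), ?_, ha.tip, ha.fz⟩
  have hst := ha.stub
  unfold PvssStub at hst ⊢
  unfold pvssBanks at hF
  by_cases he : e = true
  · rw [if_pos he] at hst hF ⊢
    exact pvwk_stubP_congr hst fun v hv => (hF v (Or.inr hv)).symm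
  · rw [if_neg he] at hst hF ⊢
    exact pvwk_stubM_congr hst fun v hv => (hF v (Or.inr hv)).symm

/-- two half states of one colouring have the same gate circuit, with the same or the exchanged black sites -/
theorem pvss_at_two (hT : T.IsSph) (ha : PvssLeast 𝔖 pos h z τ s) (ha' : PvssLeast 𝔖' pos h z τ s) :
    𝔖'.S.darts = 𝔖.S.darts ∧ ((𝔖'.gp = 𝔖.gp ∧ 𝔖'.gm = 𝔖.gm) ∨ (𝔖'.gp = 𝔖.gm ∧ 𝔖'.gm = 𝔖.gp)) := by
  have hL : 𝔖.S.Left = 𝔖'.S.Left := Subset.antisymm (ha.2 𝔖' ha'.1) (ha'.2 𝔖 ha.1)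
  obtain ⟨hd, hv, -⟩ := pvlt_left_ext hT hL
  obtain ⟨o, hg⟩ := ha.1
  obtain ⟨o', hg'⟩ := ha'.1
  have hp' : 𝔖'.gp ∈ 𝔖.S.verts := by
    rw [hv]
    have := (pvlt_tgt_mem _ hg'.dp_on).2
    rwa [T.tgt_opp] at this
  have hm' : 𝔖'.gm ∈ 𝔖.S.verts := by
    rw [hv]
    exact (pvlt_tgt_mem _ hg'.dm_on).1
  refine ⟨hd.symm, ?_⟩
  rcases hg.two _ hp' hg'.bw_p.1 with h1 | h1 <;> rcases hg.two _ hm' hg'.bw_m.1 with h2 | h2
  · exact absurd (h1.trans h2.symm) hg'.ne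
  · exact Or.inl ⟨h1, h2⟩
  · exact Or.inr ⟨h1, h2⟩
  · exact absurd (h1.trans h2.symm) hg'.ne

/-- **(uniq)** up to the orientation -/
theorem pvss_at_unique (hT : T.IsSph) (hc : ∀ y y' p, p ∈ cell y → p ∈ cell y' → y = y') (ha : PvssAt 𝔖 pos h z τ B cell e s F y) (ha' : PvssAt 𝔖' pos h z τ B cell e s F' y')
    (hg : 𝔖'.gp = 𝔖.gp) : F' = F ∧ y' = y := by
  have pvss_dart_src : ∀ (c : T.Cyc) {a b : D}, a ∈ c.darts → b ∈ c.darts → T.src a = T.src b → a = b := by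
    rintro c _ _ ⟨i, rfl⟩ ⟨j, rfl⟩ h
    exact pl_cyc_eq_of_src c h
  have pvss_dart_tgt : ∀ (c : T.Cyc) {a b : D}, a ∈ c.darts → b ∈ c.darts → T.tgt a = T.tgt b → a = b := by
    rintro c _ _ ⟨i, rfl⟩ ⟨j, rfl⟩ h
    rw [c.chain, c.chain] at h
    exact pl_cyc_eq_of_mod c (Nat.ModEq.add_right_cancel' 1 (pl_cyc_src_inj c h))
  obtain ⟨hd, h2⟩ := pvss_at_two hT ha.least ha'.least
  obtain ⟨o, hG⟩ := ha.least.1
  obtain ⟨o', hG'⟩ := ha'.least.1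
  have hm : 𝔖'.gm = 𝔖.gm := by
    rcases h2 with h2 | h2
    · exact h2.2
    · exact absurd (hg.symm.trans h2.1) hG.ne
  have hst := ha.stub
  have hst' := ha'.stub
  have htip := ha.tip
  have htip' := ha'.tip
  have hfz := ha.fz
  have hfz' := ha'.fz
  unfold PvssStub at hst hst'
  unfold pvssTip at htip htip'
  unfold pvssBanks at hfz hfz'
  by_cases he : e = true
  · rw [if_pos he] at hst hst' htip htip' hfz hfz'
    have hdp : 𝔖.dp = 𝔖'.dp := by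
      have h1 := hG.dp_on
      have h1' := hG'.dp_on
      rw [hd] at h1'
      have := pvss_dart_tgt 𝔖.S h1 h1' (by rw [T.tgt_opp, T.tgt_opp]; exact hg.symm)
      exact T.opp_injective this
    obtain ⟨hn, hep⟩ := pvwk_stub_unique_p hst hst' hdp
    obtain ⟨hb, hw, -, -⟩ := pvwk_stub_unique_sets_p hst hst' hdp
    refine ⟨Finset.coe_injective (by rw [hfz, hfz', hb, hw]), hc _ _ _ htip' ?_⟩
    rw [← hn, ← hep _ le_rfl]
    exact htip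
  · rw [if_neg he] at hst hst' htip htip' hfz hfz'
    have hdm : 𝔖.dm = 𝔖'.dm := by
      have h1 := hG.dm_on
      have h1' := hG'.dm_on
      rw [hd] at h1'
      exact pvss_dart_src 𝔖.S h1 h1' hm.symm
    obtain ⟨hn, hep⟩ := pvwk_stub_unique_m hst hst' hdm
    obtain ⟨hb, hw, -, -⟩ := pvwk_stub_unique_sets_m hst hst' hdm
    refine ⟨Finset.coe_injective (by rw [hfz, hfz', hb, hw]), hc _ _ _ htip' ?_⟩
    rw [← hn, ← hep _ le_rfl]
    exact htip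

/-- the two systems of positions (scales, centres, types) pass the same tests -/
structure PvssSame (pos : V → ℂ) (h : ℝ) (z : ℂ) (τ : PvwTy) (B : Set ℂ) (cell : ζ → Set ℂ) (pos' : V → ℂ) (h' : ℝ) (z' : ℂ) (τ' : PvwTy) (B' : Set ℂ) (cell' : ζ → Set ℂ) : Prop where
  lt_a : ∀ v, ‖pos v - z‖ < τ.a * h ↔ ‖pos' v - z'‖ < τ'.a * h'
  le_b : ∀ v, ‖pos v - z‖ ≤ τ.b * h ↔ ‖pos' v - z'‖ ≤ τ'.b * h'
  le_1 : ∀ v, ‖pos v - z‖ ≤ h ↔ ‖pos' v - z'‖ ≤ h'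
  box : ∀ v, pos v ∈ B ↔ pos' v ∈ B'
  cell : ∀ v y, pos v ∈ cell y ↔ pos' v ∈ cell' y
  /-- (117, `Tr/Defs` v3) `Gate.dsc_eq`, `Gate.ann`, `Gate.inside` test the OPEN disc -/
  lt_b : ∀ v, ‖pos v - z‖ < τ.b * h ↔ ‖pos' v - z'‖ < τ'.b * h'

variable {τ' : PvwTy}

theorem PvssSame.symm (hs : PvssSame pos h z τ B cell pos' h' z' τ' B' cell') : PvssSame pos' h' z' τ' B' cell' pos h z τ B cell :=
  ⟨fun v => (hs.lt_a v).symm, fun v => (hs.le_b v).symm, fun v => (hs.le_1 v).symm, fun v => (hs.box v).symm, fun v y => (hs.cell v y).symm, fun v => (hs.lt_b v).symm⟩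

theorem pvss_gate_same (hs : PvssSame pos h z τ B cell pos' h' z' τ' B' cell') (hg : PvssGate 𝔖 pos h z τ s) : PvssGate 𝔖 pos' h' z' τ' s := by
  classical
  obtain ⟨o, hg⟩ := hg
  refine ⟨decide ((pos' 𝔖.gm).re < (pos' 𝔖.gp).re ∨ ((pos' 𝔖.gm).re = (pos' 𝔖.gp).re ∧ (pos' 𝔖.gm).im < (pos' 𝔖.gp).im)), ?_⟩
  exact {
    fin := hg.fin
    dsc_eq := by rw [hg.dsc_eq]; ext v; exact hs.lt_b v
    core_fin := hg.core_fin
    ann := fun v hv => ⟨not_lt.1 fun hlt => absurd ((hs.lt_a v).2 hlt) (not_lt.2 (hg.ann v hv).1), (hs.lt_b v).1 (hg.ann v hv).2⟩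
    round := fun v hv => hg.round v ((hs.lt_a v).2 hv)
    inside := fun v hv => (hs.lt_b v).1 (hg.inside v hv)
    dp_on := hg.dp_on
    dm_on := hg.dm_on
    bw_p := hg.bw_p
    bw_m := hg.bw_m
    ne := hg.ne
    ori := decide_eq_true_iff
    two := hg.two
    left := hg.left
    strand := hg.strand
    ip_le := hg.ip_le
    ip_near := (hs.le_1 _).1 hg.ip_near
    ip_first := fun i hi => not_le.1 fun hle => absurd ((hs.le_1 _).2 hle) (not_le.2 (hg.ip_first i hi)) }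

/-- **CHANGE OF POSITIONS**: the half state depends on the positions through the tests only (scaling, fake positions, the other fields of the type) -/
theorem pvss_at_same (hs : PvssSame pos h z τ B cell pos' h' z' τ' B' cell') (ha : PvssAt 𝔖 pos h z τ B cell e s F y) : PvssAt 𝔖 pos' h' z' τ' B' cell' e s F y := by
  refine ⟨⟨pvss_gate_same hs ha.least.1, fun 𝔖' hg' => ha.least.2 𝔖' (pvss_gate_same hs.symm hg')⟩, ?_, (hs.cell _ _).1 ha.tip, ?_⟩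
  · have hst := ha.stub
    unfold PvssStub at hst ⊢
    split_ifs at hst ⊢ with he
    · exact ⟨hst.ep_it, fun i hi => ⟨(hs.box _).1 (hst.ep_in i hi).1, (hs.box _).1 (hst.ep_in i hi).2⟩, fun i hi => (hs.box _).1 (hst.ep_ax i hi), fun hc => hst.ep_out ((hs.box _).2 hc)⟩
    · exact ⟨hst.em_it, fun i hi => ⟨(hs.box _).1 (hst.em_in i hi).1, (hs.box _).1 (hst.em_in i hi).2⟩, fun i hi => (hs.box _).1 (hst.em_ax i hi), fun hc => hst.em_out ((hs.box _).2 hc)⟩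
  · rw [ha.fz]
    congr 1
    ext v
    exact hs.le_b v

/-- **CONSUMER FORM, exit half**: the exit half state of `Tr/Defs` whose gate lies inside every gate is a half state of the scheme -/
theorem pvss_of_atOut {N : PvwNum} (ha : 𝔖.AtOut pos N h z τ s) (hall : ∀ (𝔖' : PvwSt T) (o : Bool), 𝔖'.Gate pos h z { τ with o := o } s → 𝔖.S.Left ⊆ 𝔖'.S.Left)
    (hfin : (pvssDisc pos z (τ.b * h)).Finite) (hy : pos (T.src (𝔖.ep 𝔖.np)) ∈ cell y) :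
    ∃ F : Finset V, PvssAt 𝔖 pos h z τ (pvwSq z (pvwRad N h τ τ.k)) cell true s F y ∧ ∀ v, v ∈ F ↔ v ∈ 𝔖.fzOut ∨ ‖pos v - z‖ ≤ τ.b * h := by
  classical
  have hb1 : 𝔖.bkP.Finite := by
    refine ((Finset.range (𝔖.np + 1)).finite_toSet.image fun i => T.src (𝔖.ep i)).subset ?_
    rintro v ⟨i, hi, rfl⟩
    exact ⟨i, by simpa using Nat.lt_succ_of_le hi, rfl⟩
  have hb2 : 𝔖.whP.Finite := by
    refine ((Finset.range (𝔖.np + 1)).finite_toSet.image fun i => T.tgt (𝔖.ep i)).subset ?_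
    rintro v ⟨i, hi, rfl⟩
    exact ⟨i, by simpa using Nat.lt_succ_of_le hi, rfl⟩
  have hF : (pvssDisc pos z (τ.b * h) ∪ pvssBanks 𝔖 true).Finite := by
    refine hfin.union ?_
    simp only [pvssBanks, if_true]
    exact hb1.union hb2
  refine ⟨hF.toFinset, ⟨⟨⟨τ.o, ha.gate⟩, fun 𝔖' ⟨o, ho⟩ => hall 𝔖' o ho⟩, ?_, ?_, hF.coe_toFinset⟩, fun v => ?_⟩
  · simp only [PvssStub, if_true]
    exact ha.stub
  · simp only [pvssTip, if_true]
    exact hy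
  · rw [Set.Finite.mem_toFinset]
    simp only [pvssBanks, if_true, pvssDisc, PvwSt.fzOut, PvwSt.core, ha.gate.dsc_eq, mem_union, mem_ofPred_eq]
    constructor
    · rintro (h1 | h1 | h1)
      · exact Or.inr h1
      · exact Or.inl (Or.inl (Or.inr h1))
      · exact Or.inl (Or.inr h1)
    · rintro (((h1 | h1) | h1) | h1)
      · exact Or.inl h1.le
      · exact Or.inr (Or.inl h1)
      · exact Or.inr (Or.inr h1)
      · exact Or.inl h1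

/-- **CONSUMER FORM, entrance half** -/
theorem pvss_of_atIn {N : PvwNum} (ha : 𝔖.AtIn pos N h z τ s) (hall : ∀ (𝔖' : PvwSt T) (o : Bool), 𝔖'.Gate pos h z { τ with o := o } s → 𝔖.S.Left ⊆ 𝔖'.S.Left)
    (hfin : (pvssDisc pos z (τ.b * h)).Finite) (hy : pos (T.src (𝔖.em 𝔖.nm)) ∈ cell y) :
    ∃ F : Finset V, PvssAt 𝔖 pos h z τ (pvwSq z (pvwRad N h τ τ.k)) cell false s F y ∧ ∀ v, v ∈ F ↔ v ∈ 𝔖.fzIn ∨ ‖pos v - z‖ ≤ τ.b * h := by
  classical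
  have hb1 : 𝔖.bkM.Finite := by
    refine ((Finset.range (𝔖.nm + 1)).finite_toSet.image fun i => T.src (𝔖.em i)).subset ?_
    rintro v ⟨i, hi, rfl⟩
    exact ⟨i, by simpa using Nat.lt_succ_of_le hi, rfl⟩
  have hb2 : 𝔖.whM.Finite := by
    refine ((Finset.range (𝔖.nm + 1)).finite_toSet.image fun i => T.tgt (𝔖.em i)).subset ?_
    rintro v ⟨i, hi, rfl⟩
    exact ⟨i, by simpa using Nat.lt_succ_of_le hi, rfl⟩
  have hF : (pvssDisc pos z (τ.b * h) ∪ pvssBanks 𝔖 false).Finite := by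
    refine hfin.union ?_
    simp only [pvssBanks, Bool.false_eq_true, if_false]
    exact hb1.union hb2
  refine ⟨hF.toFinset, ⟨⟨⟨τ.o, ha.gate⟩, fun 𝔖' ⟨o, ho⟩ => hall 𝔖' o ho⟩, ?_, ?_, hF.coe_toFinset⟩, fun v => ?_⟩
  · simp only [PvssStub, Bool.false_eq_true, if_false]
    exact ha.stub
  · simp only [pvssTip, Bool.false_eq_true, if_false]
    exact hy
  · rw [Set.Finite.mem_toFinset]
    simp only [pvssBanks, Bool.false_eq_true, if_false, pvssDisc, PvwSt.fzIn, PvwSt.core, ha.gate.dsc_eq, mem_union, mem_ofPred_eq]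
    constructor
    · rintro (h1 | h1 | h1)
      · exact Or.inr h1
      · exact Or.inl (Or.inl (Or.inr h1))
      · exact Or.inl (Or.inr h1)
    · rintro (((h1 | h1) | h1) | h1)
      · exact Or.inl h1.le
      · exact Or.inr (Or.inl h1)
      · exact Or.inr (Or.inr h1)
      · exact Or.inl h1

/-- the inside of a gate of `Tr/Defs` is a face-set gate of 150 for the frame of the annulus -/
theorem pvss_gate_G (hT : T.IsSph) (hg : PvssGate 𝔖 pos h z τ s) : PvgnG T s (pvwI T pos z (τ.a * h)) (pvwO T pos z (τ.b * h)) 𝔖.S.Left := by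
  obtain ⟨o, hg⟩ := hg
  have hdart : ∀ d ∈ 𝔖.S.darts, ¬ (s (T.src d) = true ∧ s (T.tgt d) = true) := by
    rintro d hd ⟨h1, h2⟩
    have hv : T.src d ∈ 𝔖.S.verts := by obtain ⟨i, rfl⟩ := hd; exact ⟨i, rfl⟩
    rcases hg.two _ hv h1 with e | e
    · rw [hg.left d hd e] at h2
      exact Bool.false_ne_true h2
    · have : d = 𝔖.dm := by
        obtain ⟨i, rfl⟩ := hd
        obtain ⟨j, hj⟩ := hg.dm_on
        have e' : T.src (𝔖.S.e i) = T.src (𝔖.S.e j) := by rw [hj]; exact e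
        rw [← hj, ← pl_cyc_mod 𝔖.S i, ← pl_cyc_mod 𝔖.S j, pl_cyc_src_inj 𝔖.S e']
      rw [this, hg.bw_m.2] at h2
      exact Bool.false_ne_true h2
  refine ⟨pl_left_face _, ?_, ?_, ?_, ?_⟩
  · have hA : ∀ v, ‖pos v - z‖ < τ.a * h → v ∈ T.Int 𝔖.S.Left := by
      intro v hv
      have h1 : v ∈ T.VOf 𝔖.S.Left := hg.round v hv
      rw [pl_VOf_left hT] at h1
      rcases h1 with h1 | h1
      · exact absurd hv (not_lt.2 (hg.ann v h1).1)
      · exact h1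
    rintro d (hd | hd | hd)
    · exact hA _ hd d rfl
    · exact (pl_left_face 𝔖.S d).1 (hA _ hd (T.nxt d) rfl)
    · exact (pl_left_face 𝔖.S d).1 ((pl_left_face 𝔖.S _).1 (hA _ hd (T.nxt (T.nxt d)) rfl))
  · rintro d hd (h1 | h1 | h1)
    · exact absurd (hg.inside _ ⟨d, hd, rfl⟩) (not_lt.2 h1)
    · exact absurd (hg.inside _ ⟨T.nxt d, (pl_left_face 𝔖.S d).2 hd, rfl⟩) (not_lt.2 h1)
    · exact absurd (hg.inside _ ⟨T.nxt (T.nxt d), (pl_left_face 𝔖.S _).2 ((pl_left_face 𝔖.S d).2 hd), rfl⟩) (not_lt.2 h1)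
  · refine (Set.encard_le_encard (t := {𝔖.gp, 𝔖.gm}) fun v hv => ?_).trans (Set.encard_pair hg.ne).le
    have : v ∈ 𝔖.S.verts := by rw [← pvgn_bdV_left hT 𝔖.S]; exact hv.1
    exact hg.two v this hv.2
  · intro d hd
    rcases ((pl_jordan hT 𝔖.S).2.2.2 d).1 hd with h1 | ⟨i, hi⟩
    · exact hdart d h1
    · have := hdart _ ⟨i, rfl⟩
      rw [hi, T.src_opp', T.tgt_opp] at this
      exact fun h => this h.symm

/-- **THE RULE OF `Tr/Defs` v3 LIES INSIDE EVERY GATE** (on a frame: `pvgy_frame`, `pvgy_m_frame` of 150): discharges the hypothesis `hall` of the consumer forms -/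
theorem pvss_hall (hT : T.IsSph) {o : D} (hF : PvgnFr T (pvwI T pos z (τ.a * h)) (pvwO T pos z (τ.b * h)) o) (hi : 𝔖.Inmost pos h z τ s) (𝔖' : PvwSt T) (o' : Bool)
    (hg' : 𝔖'.Gate pos h z { τ with o := o' } s) : 𝔖.S.Left ⊆ 𝔖'.S.Left := by
  have hG : PvgnG T s (pvwI T pos z (τ.a * h)) (pvwO T pos z (τ.b * h)) 𝔖'.S.Left := pvss_gate_G hT ⟨o', hg'⟩
  have hi' : 𝔖.S.Left = pvgnRule T s (pvwI T pos z (τ.a * h)) (pvwO T pos z (τ.b * h)) := hi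
  rw [hi', pvgn_rule_eq hF]
  intro d hd
  by_contra hdL
  have hJ := (pl_jordan hT 𝔖'.S).1
  have ho : o ∈ 𝔖'.S.Right := by rw [hJ]; exact fun h1 => hF.far (hG.outer h1)
  have hd' : d ∈ 𝔖'.S.Right := by rw [hJ]; exact hdL
  exact hd (pvtl_right_join hT 𝔖'.S (pvgn_min_sub hG) ho hd')

end det

/-! ## 2. test marks, fake positions, the scheme -/

section marks

variable {ι : Type}

open Classical in
/-- the marks of a point: the values of the tests `A i` -/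
noncomputable def pvssTh (A : ι → Set ℂ) (p : ℂ) : ι → Bool := fun i => decide (p ∈ A i)

open Classical in
/-- a point with the marks `k` (`zi` if there is none) -/
noncomputable def pvssRep (A : ι → Set ℂ) (zi : ℂ) (k : ι → Bool) : ℂ := if hk : ∃ p, pvssTh A p = k then hk.choose else zi

theorem pvss_eqns_cite2 : True := by
  have := @pvssTh.eq_1; have := @pvssRep.eq_1
  trivial

theorem pvss_th_iff (A : ι → Set ℂ) (p : ℂ) (i : ι) : pvssTh A p i = true ↔ p ∈ A i := by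
  classical
  unfold pvssTh
  exact decide_eq_true_iff

theorem pvss_th_measurable [Countable ι] {A : ι → Set ℂ} (hA : ∀ i, MeasurableSet (A i)) : Measurable (pvssTh A) := by
  classical
  rw [measurable_pi_iff]
  intro i
  unfold pvssTh
  exact measurable_to_bool (by
    have e : (fun p : ℂ => decide (p ∈ A i)) ⁻¹' {true} = A i := by
      ext p; simp
    rw [e]; exact hA i)

theorem pvss_th_rep (A : ι → Set ℂ) (zi p : ℂ) : pvssTh A (pvssRep A zi (pvssTh A p)) = pvssTh A p := by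
  classical
  have hk : ∃ q, pvssTh A q = pvssTh A p := ⟨p, rfl⟩
  unfold pvssRep
  rw [dif_pos hk]
  exact hk.choose_spec

/-- the fake position of a real position passes the same tests -/
theorem pvss_rep_mem (A : ι → Set ℂ) (zi p : ℂ) (i : ι) : pvssRep A zi (pvssTh A p) ∈ A i ↔ p ∈ A i := by
  rw [← pvss_th_iff, pvss_th_rep, pvss_th_iff]

/-- a fake position which passes a test that `zi` fails has the corresponding mark -/
theorem pvss_rep_mark (A : ι → Set ℂ) {zi : ℂ} {i : ι} (hzi : zi ∉ A i) {k : ι → Bool} (hk : pvssRep A zi k ∈ A i) : k i = true ∧ pvssTh A (pvssRep A zi k) = k := by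
  classical
  by_cases hex : ∃ p, pvssTh A p = k
  · have e : pvssTh A (pvssRep A zi k) = k := by
      unfold pvssRep
      rw [dif_pos hex]
      exact hex.choose_spec
    refine ⟨?_, e⟩
    rw [← e, pvss_th_iff]
    exact hk
  · exfalso
    apply hzi
    unfold pvssRep at hk
    rwa [dif_neg hex] at hk

end marks

/-- **THE PARAMETERS** of one scheme, UNIT SCALE, centre `0`: gate annulus `[a, b]` (only `τ.a`, `τ.b` matter), half side `r` of the box, the tip cells and their centres, innermost radius `ρ` of the blocks, radius `W` of the region which is read -/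
structure PvssPar (ζ : Type) where
  τ : PvwTy
  r : ℝ
  cell : ζ → Set ℂ
  ctr : ζ → ℂ
  ρ : ℝ
  W : ℝ

/-- the constraints -/
structure PvssPar.Wf {ζ : Type} (𝔭 : PvssPar ζ) (J : ℕ) : Prop where
  a0 : 0 < 𝔭.τ.a
  ab : 𝔭.τ.a ≤ 𝔭.τ.b
  bW : 𝔭.τ.b ≤ 𝔭.W
  box : pvwSq 0 𝔭.r ⊆ closedBall 0 𝔭.W
  rho : 0 < 𝔭.ρ
  blk : ∀ y, closedBall (𝔭.ctr y) (5 / 4 * ((16 : ℝ) ^ (4 * J) * 𝔭.ρ)) ⊆ closedBall 0 𝔭.W
  /-- the blocks stay away from the deterministic disc -/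
  far : ∀ y, Disjoint (closedBall (𝔭.ctr y) (5 / 4 * ((16 : ℝ) ^ (4 * J) * 𝔭.ρ))) (closedBall 0 𝔭.τ.b)
  meas : ∀ y, MeasurableSet (𝔭.cell y)
  disj : ∀ y y' p, p ∈ 𝔭.cell y → p ∈ 𝔭.cell y' → y = y'

/-- the index set of the tests -/
abbrev PvssIx (ζ : Type) (J : ℕ) : Type := Fin 6 ⊕ ζ ⊕ (ζ × Fin (4 * J)) ⊕ (ζ × Fin (4 * J))

section scheme

variable {ζ : Type}

/-- **THE TESTS**: `‖p‖ < a`, `‖p‖ ≤ b`, `‖p‖ ≤ 1`, `p ∈` box, `‖p‖ ≤ W`, `‖p‖ < b`;   `p ∈ cell y`;   `‖p - ctr y‖ ≤ 16^n ρ`;   `‖p - ctr y‖ < 5/4 · 16^n ρ` -/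
def pvssA (𝔭 : PvssPar ζ) (J : ℕ) : PvssIx ζ J → Set ℂ :=
  Sum.elim (fun i : Fin 6 => if i = 0 then ball 0 𝔭.τ.a else if i = 1 then closedBall 0 𝔭.τ.b else if i = 2 then closedBall 0 1 else if i = 3 then pvwSq 0 𝔭.r else if i = 4 then closedBall 0 𝔭.W else ball 0 𝔭.τ.b)
    (Sum.elim 𝔭.cell (Sum.elim (fun x => closedBall (𝔭.ctr x.1) ((16 : ℝ) ^ (x.2 : ℕ) * 𝔭.ρ)) (fun x => ball (𝔭.ctr x.1) (5 / 4 * ((16 : ℝ) ^ (x.2 : ℕ) * 𝔭.ρ)))))

/-- the marks which are read: `‖p‖ ≤ W` -/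
def pvssK (ζ : Type) (J : ℕ) : Set (PvssIx ζ J → Bool) := {k | k (Sum.inl 4) = true}

/-- the mark `‖p - ctr y‖ ≤ 16^n ρ` -/
def PvssIn (J : ℕ) (y : ζ) (n : ℕ) (k : PvssIx ζ J → Bool) : Prop := k (Sum.inl 4) = true ∧ ∃ hn : n < 4 * J, k (Sum.inr (Sum.inr (Sum.inl (y, ⟨n, hn⟩)))) = true

/-- the mark `‖p - ctr y‖ < 5/4 · 16^n ρ` -/
def PvssOut (J : ℕ) (y : ζ) (n : ℕ) (k : PvssIx ζ J → Bool) : Prop := k (Sum.inl 4) = true ∧ ∃ hn : n < 4 * J, k (Sum.inr (Sum.inr (Sum.inr (y, ⟨n, hn⟩)))) = true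

/-- **THE STATE SCHEME** of sign `e` -/
def pvssSch (𝔭 : PvssPar ζ) (J : ℕ) (zi : ℂ) (e : Bool) : PvbfSch (PvssIx ζ J → Bool) ζ := fun V D T mk s F y =>
  ∃ 𝔖 : PvwSt T, PvssAt 𝔖 (fun v => pvssRep (pvssA 𝔭 J) zi (mk v)) 1 0 𝔭.τ (pvwSq 0 𝔭.r) 𝔭.cell e s F y

/-- **THE FLAG PREDICATE** of sign `e`: some half state of the scheme has none of its `J` blocks -/
def pvssFlag (𝔭 : PvssPar ζ) (J : ℕ) (zi : ℂ) (e : Bool) : PvplPred (PvssIx ζ J → Bool) := pvbfFlag (pvssSch 𝔭 J zi e) (PvssIn J) (PvssOut J) J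

/-- both signs, both colours -/
def pvssFlag4 (𝔭 : PvssPar ζ) (J : ℕ) (zi : ℂ) : PvplPred (PvssIx ζ J → Bool) := fun V D T mk s =>
  ∃ e c : Bool, pvssFlag 𝔭 J zi e V D T mk (fun v => s v == c)

theorem pvss_eqns_cite3 : True := by
  have := @pvssA.eq_1; have := @pvssK.eq_1; have := @PvssIn.eq_1; have := @PvssOut.eq_1; have := @pvssSch.eq_1; have := @pvssFlag.eq_1; have := @pvssFlag4.eq_1
  trivial

variable {𝔭 : PvssPar ζ} {J : ℕ} {zi : ℂ} {e : Bool}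

theorem pvss_sq_closed (z : ℂ) (r : ℝ) : IsClosed (pvwSq z r) := by
  have e : pvwSq z r = {w : ℂ | |(w - z).re| ≤ r} ∩ {w : ℂ | |(w - z).im| ≤ r} := rfl
  rw [e]
  exact (isClosed_le (by fun_prop) continuous_const).inter (isClosed_le (by fun_prop) continuous_const)

theorem pvss_A_meas (h𝔭 : 𝔭.Wf J) (i : PvssIx ζ J) : MeasurableSet (pvssA 𝔭 J i) := by
  have hsq : MeasurableSet (pvwSq 0 𝔭.r) := by
    have h1 : IsClosed {w : ℂ | |(w - 0).re| ≤ 𝔭.r} := isClosed_le (by fun_prop) continuous_const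
    have h2 : IsClosed {w : ℂ | |(w - 0).im| ≤ 𝔭.r} := isClosed_le (by fun_prop) continuous_const
    exact (h1.inter h2).measurableSet
  rcases i with i | y | x | x
  · show MeasurableSet (if i = 0 then ball 0 𝔭.τ.a else if i = 1 then closedBall 0 𝔭.τ.b else if i = 2 then closedBall 0 1 else if i = 3 then pvwSq 0 𝔭.r else if i = 4 then closedBall 0 𝔭.W else ball 0 𝔭.τ.b)
    split_ifs
    · exact measurableSet_ball
    · exact measurableSet_closedBall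
    · exact measurableSet_closedBall
    · exact hsq
    · exact measurableSet_closedBall
    · exact measurableSet_ball
  · exact h𝔭.meas y
  · exact measurableSet_closedBall
  · exact measurableSet_ball

/-- the discs of the blocks lie in the region which is read: the mark `4` -/
theorem pvss_blk_four_153 (h𝔭 : 𝔭.Wf J) (y : ζ) {n : ℕ} (hn : n < 4 * J) {p : ℂ} (hp : ‖p - 𝔭.ctr y‖ ≤ 5 / 4 * ((16 : ℝ) ^ n * 𝔭.ρ)) : pvssTh (pvssA 𝔭 J) p (Sum.inl 4) = true := by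
  rw [pvss_th_iff]
  have h1 : (16 : ℝ) ^ n ≤ (16 : ℝ) ^ (4 * J) := pow_le_pow_right₀ (by norm_num) hn.le
  have h2 : (16 : ℝ) ^ n * 𝔭.ρ ≤ (16 : ℝ) ^ (4 * J) * 𝔭.ρ := mul_le_mul_of_nonneg_right h1 h𝔭.rho.le
  have h3 : p ∈ closedBall (0 : ℂ) 𝔭.W := h𝔭.blk y (mem_closedBall_iff_norm.2 (hp.trans (by linarith)))
  have h4 : pvssA 𝔭 J (Sum.inl 4) = closedBall 0 𝔭.W := by
    simp only [pvssA, Sum.elim_inl]
    rw [if_neg (by decide), if_neg (by decide), if_neg (by decide), if_neg (by decide), if_pos trivial]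
  rw [h4]
  exact h3

theorem pvss_in_iff (h𝔭 : 𝔭.Wf J) (y : ζ) {n : ℕ} (hn : n < 4 * J) (p : ℂ) : PvssIn J y n (pvssTh (pvssA 𝔭 J) p) ↔ ‖p - 𝔭.ctr y‖ ≤ (16 : ℝ) ^ n * 𝔭.ρ := by
  constructor
  · rintro ⟨_, _, h⟩
    have h1 := (pvss_th_iff _ _ _).1 h
    exact mem_closedBall_iff_norm.1 h1
  · intro h
    have h0 : 0 ≤ (16 : ℝ) ^ n * 𝔭.ρ := mul_nonneg (by positivity) h𝔭.rho.le
    exact ⟨pvss_blk_four_153 h𝔭 y hn (h.trans (by linarith)), hn, (pvss_th_iff _ _ _).2 (mem_closedBall_iff_norm.2 h)⟩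

theorem pvss_out_iff (h𝔭 : 𝔭.Wf J) (y : ζ) {n : ℕ} (hn : n < 4 * J) (p : ℂ) : PvssOut J y n (pvssTh (pvssA 𝔭 J) p) ↔ ‖p - 𝔭.ctr y‖ < 5 / 4 * ((16 : ℝ) ^ n * 𝔭.ρ) := by
  constructor
  · rintro ⟨_, _, h⟩
    have h1 := (pvss_th_iff _ _ _).1 h
    exact mem_ball_iff_norm.1 h1
  · intro h
    exact ⟨pvss_blk_four_153 h𝔭 y hn h.le, hn, (pvss_th_iff _ _ _).2 (mem_ball_iff_norm.2 h)⟩

theorem pvss_A_zero (𝔭 : PvssPar ζ) (J : ℕ) : pvssA 𝔭 J (Sum.inl 0) = ball 0 𝔭.τ.a := by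
  simp only [pvssA, Sum.elim_inl, if_true]

theorem pvss_A_one (𝔭 : PvssPar ζ) (J : ℕ) : pvssA 𝔭 J (Sum.inl 1) = closedBall 0 𝔭.τ.b := by
  simp only [pvssA, Sum.elim_inl]
  rw [if_neg (by decide), if_pos trivial]

theorem pvss_A_two (𝔭 : PvssPar ζ) (J : ℕ) : pvssA 𝔭 J (Sum.inl 2) = closedBall 0 1 := by
  simp only [pvssA, Sum.elim_inl]
  rw [if_neg (by decide), if_neg (by decide), if_pos trivial]

theorem pvss_A_three (𝔭 : PvssPar ζ) (J : ℕ) : pvssA 𝔭 J (Sum.inl 3) = pvwSq 0 𝔭.r := by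
  simp only [pvssA, Sum.elim_inl]
  rw [if_neg (by decide), if_neg (by decide), if_neg (by decide), if_pos trivial]

theorem pvss_A_four (𝔭 : PvssPar ζ) (J : ℕ) : pvssA 𝔭 J (Sum.inl 4) = closedBall 0 𝔭.W := by
  simp only [pvssA, Sum.elim_inl]
  rw [if_neg (by decide), if_neg (by decide), if_neg (by decide), if_neg (by decide), if_pos trivial]

theorem pvss_A_cell (𝔭 : PvssPar ζ) (J : ℕ) (y : ζ) : pvssA 𝔭 J (Sum.inr (Sum.inl y)) = 𝔭.cell y := by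
  simp only [pvssA, Sum.elim_inl, Sum.elim_inr]

theorem pvss_K_pre (𝔭 : PvssPar ζ) (J : ℕ) : pvssTh (pvssA 𝔭 J) ⁻¹' pvssK ζ J = closedBall 0 𝔭.W := by
  ext p
  show pvssTh (pvssA 𝔭 J) p (Sum.inl 4) = true ↔ _
  rw [pvss_th_iff]
  rfl

/-- real positions against fake positions, with a change of scale -/
theorem pvss_same_rep (𝔭 : PvssPar ζ) (J : ℕ) (zi : ℂ) {V : Type} (pos : V → ℂ) {h : ℝ} (hh : 0 < h) (z : ℂ) :
    PvssSame pos h z 𝔭.τ (pvwSq z (𝔭.r * h)) (fun y => (fun w : ℂ => z + (h : ℂ) * w) '' 𝔭.cell y)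
      (fun v => pvssRep (pvssA 𝔭 J) zi (pvssTh (pvssA 𝔭 J) (((h : ℂ)⁻¹) * (pos v - z)))) 1 0 𝔭.τ (pvwSq 0 𝔭.r) 𝔭.cell := by
  have hc : (h : ℂ) ≠ 0 := by exact_mod_cast hh.ne'
  have hn : ∀ v, ‖((h : ℂ)⁻¹) * (pos v - z)‖ = ‖pos v - z‖ / h := by
    intro v
    rw [norm_mul, norm_inv, Complex.norm_real, Real.norm_of_nonneg hh.le]
    field_simp
  refine ⟨fun v => ?_, fun v => ?_, fun v => ?_, fun v => ?_, fun v y => ?_, fun v => ?_⟩
  rotate_left 5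
  · have e := pvss_rep_mem (pvssA 𝔭 J) zi (((h : ℂ)⁻¹) * (pos v - z)) (Sum.inl 5)
    have e1 : ∀ p : ℂ, p ∈ pvssA 𝔭 J (Sum.inl 5) ↔ ‖p - 0‖ < 𝔭.τ.b * 1 := fun p => by
      rw [mul_one]; exact mem_ball_iff_norm
    rw [e1, e1, sub_zero (_ * _), hn, mul_one, div_lt_iff₀ hh] at e
    rw [mul_one]
    exact e.symm
  · have e := pvss_rep_mem (pvssA 𝔭 J) zi (((h : ℂ)⁻¹) * (pos v - z)) (Sum.inl 0)
    have e1 : ∀ p : ℂ, p ∈ pvssA 𝔭 J (Sum.inl 0) ↔ ‖p - 0‖ < 𝔭.τ.a * 1 := fun p => by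
      rw [mul_one]; exact mem_ball_iff_norm
    rw [e1, e1, sub_zero (_ * _), hn, mul_one, div_lt_iff₀ hh] at e
    rw [mul_one]
    exact e.symm
  · have e := pvss_rep_mem (pvssA 𝔭 J) zi (((h : ℂ)⁻¹) * (pos v - z)) (Sum.inl 1)
    have e1 : ∀ p : ℂ, p ∈ pvssA 𝔭 J (Sum.inl 1) ↔ ‖p - 0‖ ≤ 𝔭.τ.b * 1 := fun p => by
      rw [mul_one]; exact mem_closedBall_iff_norm
    rw [e1, e1, sub_zero (_ * _), hn, mul_one, div_le_iff₀ hh] at e
    rw [mul_one]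
    exact e.symm
  · have e := pvss_rep_mem (pvssA 𝔭 J) zi (((h : ℂ)⁻¹) * (pos v - z)) (Sum.inl 2)
    have e1 : ∀ p : ℂ, p ∈ pvssA 𝔭 J (Sum.inl 2) ↔ ‖p - 0‖ ≤ 1 := fun p => mem_closedBall_iff_norm
    rw [e1, e1, sub_zero (_ * _), hn, div_le_iff₀ hh, one_mul] at e
    exact e.symm
  · have e := pvss_rep_mem (pvssA 𝔭 J) zi (((h : ℂ)⁻¹) * (pos v - z)) (Sum.inl 3)
    have e1 : ∀ p : ℂ, p ∈ pvssA 𝔭 J (Sum.inl 3) ↔ p ∈ pvwSq 0 𝔭.r := fun p => Iff.rfl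
    rw [e1, e1] at e
    rw [e]
    have hre : (((h : ℂ)⁻¹) * (pos v - z) - 0).re = (pos v - z).re / h := by
      rw [sub_zero, ← Complex.ofReal_inv, Complex.re_ofReal_mul]; field_simp
    have him : (((h : ℂ)⁻¹) * (pos v - z) - 0).im = (pos v - z).im / h := by
      rw [sub_zero, ← Complex.ofReal_inv, Complex.im_ofReal_mul]; field_simp
    show (|(pos v - z).re| ≤ 𝔭.r * h ∧ |(pos v - z).im| ≤ 𝔭.r * h) ↔ (|(((h : ℂ)⁻¹) * (pos v - z) - 0).re| ≤ 𝔭.r ∧ |(((h : ℂ)⁻¹) * (pos v - z) - 0).im| ≤ 𝔭.r)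
    rw [hre, him, abs_div, abs_div, abs_of_pos hh, div_le_iff₀ hh, div_le_iff₀ hh]
  · have e := pvss_rep_mem (pvssA 𝔭 J) zi (((h : ℂ)⁻¹) * (pos v - z)) (Sum.inr (Sum.inl y))
    have e1 : ∀ p : ℂ, p ∈ pvssA 𝔭 J (Sum.inr (Sum.inl y)) ↔ p ∈ 𝔭.cell y := fun p => Iff.rfl
    rw [e1, e1] at e
    rw [e]
    constructor
    · rintro ⟨w, hw, hwv⟩
      have : ((h : ℂ)⁻¹) * (pos v - z) = w := by
        rw [← hwv]
        field_simp
        ring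
      rw [this]; exact hw
    · intro hw
      refine ⟨_, hw, ?_⟩
      show z + (h : ℂ) * (((h : ℂ)⁻¹) * (pos v - z)) = pos v
      field_simp
      ring

theorem pvss_dart_at_153 {V D : Type} {T : PvMap V D} (hT : T.IsSph) (d0 : D) (v : V) : ∃ d, T.src d = v := by
  rcases Relation.ReflTransGen.cases_head (hT.conn v (T.src d0)) with h | ⟨w, ⟨d, hd, -⟩, -⟩
  · exact ⟨d0, h.symm⟩
  · exact ⟨d, hd⟩

/-- a local isomorphism of marked simple spheres is a POSITIONED local isomorphism for the fake positions -/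
theorem pvss_locP_153 (hzi : zi ∉ closedBall (0 : ℂ) 𝔭.W) {V D V' D' : Type} {T : PvMap V D} {mk : V → PvssIx ζ J → Bool} {s : V → Bool} {T' : PvMap V' D'} {mk' : V' → PvssIx ζ J → Bool} {s' : V' → Bool}
    {R : V → V' → Prop} (hT : T.IsSph) (hS : T.Simple) (hT' : T'.IsSph) (hS' : T'.Simple) (hi : PvplIso T mk s T' mk' s' (pvssK ζ J) R) (d0 : D) (hd0 : mk (T.src d0) ∈ pvssK ζ J) :
    PvLocP T T' (PvplRD T T' R) (fun v => pvssRep (pvssA 𝔭 J) zi (mk v)) (fun v => pvssRep (pvssA 𝔭 J) zi (mk' v)) (closedBall 0 𝔭.W) := by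
  obtain ⟨d0', hd0'⟩ := hi.ex d0 hd0
  have hz4 : zi ∉ pvssA 𝔭 J (Sum.inl 4) := by rw [pvss_A_four]; exact hzi
  refine ⟨pvbf_toLoc hi hS hS', fun d d' h => ?_, fun v hv => ⟨fun d hd => ?_, pvss_dart_at_153 hT d0 v⟩, fun v' hv' => ⟨fun d' hd' => ?_, pvss_dart_at_153 hT' d0' v'⟩⟩
  · show pvssRep _ zi (mk (T.src d)) = pvssRep _ zi (mk' (T'.src d'))
    rw [hi.mark _ _ h.1]
  · subst hd
    exact hi.ex d (pvss_rep_mark (pvssA 𝔭 J) hz4 (by rw [pvss_A_four]; exact hv)).1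
  · subst hd'
    exact hi.ex' d' (pvss_rep_mark (pvssA 𝔭 J) hz4 (by rw [pvss_A_four]; exact hv')).1

/-- **(loc)**: the half states of the scheme are carried over by the local isomorphisms of simple spheres -/
theorem pvss_sch_loc (h𝔭 : 𝔭.Wf J) (hzi : zi ∉ closedBall (0 : ℂ) 𝔭.W) (V D V' D' : Type) (T : PvMap V D) (mk : V → PvssIx ζ J → Bool) (s : V → Bool) (T' : PvMap V' D') (mk' : V' → PvssIx ζ J → Bool) (s' : V' → Bool)
    (R : V → V' → Prop) (hT : T.IsSph) (hS : T.Simple) (hT' : T'.IsSph) (hS' : T'.Simple) (hi : PvplIso T mk s T' mk' s' (pvssK ζ J) R) (F : Finset V) (y : ζ) (hst : pvssSch 𝔭 J zi e V D T mk s F y) :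
    ∃ F' : Finset V', pvssSch 𝔭 J zi e V' D' T' mk' s' F' y ∧ ∀ u u', R u u' → (u ∈ F ↔ u' ∈ F') := by
  classical
  obtain ⟨𝔖, ha⟩ := hst
  obtain ⟨o, hg⟩ := ha.least.1
  have hz4 : zi ∉ pvssA 𝔭 J (Sum.inl 4) := by rw [pvss_A_four]; exact hzi
  have hK : closedBall (0 : ℂ) (𝔭.τ.b * 1) ⊆ closedBall 0 𝔭.W := by rw [mul_one]; exact closedBall_subset_closedBall h𝔭.bW
  have hd0 : mk (T.src (𝔖.S.e 0)) ∈ pvssK ζ J := by
    have h1 := (hg.ann _ ⟨0, rfl⟩).2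
    exact (pvss_rep_mark (pvssA 𝔭 J) hz4 (by rw [pvss_A_four]; exact hK (mem_closedBall_iff_norm.2 h1.le))).1
  have L := pvss_locP_153 (𝔭 := 𝔭) hzi hT hS hT' hS' hi (𝔖.S.e 0) hd0
  have hs : ∀ d d', PvplRD T T' R d d' → s (T.src d) = s' (T'.src d') := fun d d' h => (hi.col _ _ h.1).symm
  have hpos : ∀ u u', R u u' → pvssRep (pvssA 𝔭 J) zi (mk u) = pvssRep (pvssA 𝔭 J) zi (mk' u') := fun u u' hu => by rw [hi.mark _ _ hu]
  have hleast : ∀ 𝔖' : PvwSt T', PvLocGt (PvplRD T T' R) 𝔖 𝔖' → PvssLeast 𝔖' (fun v => pvssRep (pvssA 𝔭 J) zi (mk' v)) 1 0 𝔭.τ s' := by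
    intro 𝔖' G
    refine ⟨⟨o, pvlw_gate L hT hs G (τ := { 𝔭.τ with o := o }) hK hg⟩, ?_⟩
    rintro 𝔖₂' ⟨o₂, hg₂'⟩
    obtain ⟨𝔖₂, G₂⟩ := pvlw_gt_exists L.symm (τ := { 𝔭.τ with o := o₂ }) hK hg₂'
    have hg₂ := pvlw_gate L.symm hT' (fun d' d hd => (hs d d' hd).symm) G₂ (τ := { 𝔭.τ with o := o₂ }) hK hg₂'
    have hsub := ha.least.2 𝔖₂ ⟨o₂, hg₂⟩
    have hL := pvlw_left_sub L hg.inside hK
    have hL₂ := pvlw_left_sub L.symm hg₂'.inside hK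
    intro d' hd'
    obtain ⟨d, e1, e2⟩ := pvloc_left_bwd L.loc G.S hL hd'
    exact (pvloc_left L.symm.loc G₂.S hL₂ (d := d') (d' := d) e1).2 (hsub e2)
  have hdisc : ∀ u u', R u u' → (u ∈ pvssDisc (fun v => pvssRep (pvssA 𝔭 J) zi (mk v)) 0 (𝔭.τ.b * 1) ↔ u' ∈ pvssDisc (fun v => pvssRep (pvssA 𝔭 J) zi (mk' v)) 0 (𝔭.τ.b * 1)) := by
    intro u u' hu
    show ‖pvssRep (pvssA 𝔭 J) zi (mk u) - 0‖ ≤ _ ↔ ‖pvssRep (pvssA 𝔭 J) zi (mk' u') - 0‖ ≤ _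
    rw [hpos u u' hu]
  have hdiscfin : (pvssDisc (fun v => pvssRep (pvssA 𝔭 J) zi (mk' v)) 0 (𝔭.τ.b * 1)).Finite := by
    have h1 : (pvssDisc (fun v => pvssRep (pvssA 𝔭 J) zi (mk v)) 0 (𝔭.τ.b * 1)).Finite := F.finite_toSet.subset (by rw [ha.fz]; exact subset_union_left)
    refine (h1.biUnion fun v _ => (show ({v' | R v v'} : Set V').Subsingleton from fun x hx y hy => hi.fn _ _ _ hx hy).finite).subset ?_
    intro v' hv'
    obtain ⟨v, hv⟩ := pvlw_vertex L.symm (v := v') (hK (mem_closedBall_iff_norm.2 hv'))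
    have hv1 : pvlocV T T' (PvplRD T T' R) v v' := pvloc_v_symm hv
    have hv2 : R v v' := pvbf_locV hv1
    exact mem_iUnion₂.2 ⟨v, (hdisc v v' hv2).2 hv', hv2⟩
  have hset : ∀ {A : Set V} {A' : Set V'}, PvLocSet T T' (PvplRD T T' R) A A' → ∀ u u', R u u' → (u ∈ A ↔ u' ∈ A') := by
    intro A A' h u u' hu
    constructor
    · intro hA
      obtain ⟨w', h1, h2⟩ := h.1 u hA
      rwa [hi.fn _ _ _ hu (pvbf_locV h1)]
    · intro hA
      obtain ⟨w, h1, h2⟩ := h.2 u' hA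
      rwa [hi.inj _ _ _ hu (pvbf_locV h1)]
  have hfinimg : ∀ (n : ℕ) (f : ℕ → V'), {v | ∃ i, i ≤ n ∧ f i = v}.Finite := fun n f =>
    ((Set.finite_Iic n).image f).subset (by rintro v ⟨i, hi, rfl⟩; exact ⟨i, hi, rfl⟩)
  cases e with
  | true =>
    have hstub : 𝔖.StubP (fun v => pvssRep (pvssA 𝔭 J) zi (mk v)) (pvwSq 0 𝔭.r) s := ha.stub
    obtain ⟨𝔖', G⟩ := pvlw_sp_exists L (τ := { 𝔭.τ with o := o }) hK h𝔭.box hg hstub
    have hbfin : (pvssBanks 𝔖' true).Finite := (hfinimg _ _).union (hfinimg _ _)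
    refine ⟨(hdiscfin.union hbfin).toFinset, ⟨𝔖', hleast 𝔖' G.gt, pvlw_stubP L hs G hstub, ?_, ?_⟩, fun u u' hu => ?_⟩
    · show pvssRep (pvssA 𝔭 J) zi (mk' (T'.src (𝔖'.ep 𝔖'.np))) ∈ 𝔭.cell y
      rw [G.np, ← hpos _ _ (G.ep _ le_rfl).1]
      exact ha.tip
    · exact Set.Finite.coe_toFinset _
    · rw [Set.Finite.mem_toFinset, ← Finset.mem_coe, ha.fz]
      exact or_congr (hdisc u u' hu) (hset ((pvlw_bkP G).union (pvlw_whP L.loc G)) u u' hu)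
  | false =>
    have hstub : 𝔖.StubM (fun v => pvssRep (pvssA 𝔭 J) zi (mk v)) (pvwSq 0 𝔭.r) s := ha.stub
    obtain ⟨𝔖', G⟩ := pvlw_sm_exists L (τ := { 𝔭.τ with o := o }) hK h𝔭.box hg hstub
    have hbfin : (pvssBanks 𝔖' false).Finite := (hfinimg _ _).union (hfinimg _ _)
    refine ⟨(hdiscfin.union hbfin).toFinset, ⟨𝔖', hleast 𝔖' G.gt, pvlw_stubM L hs G h𝔭.box hstub, ?_, ?_⟩, fun u u' hu => ?_⟩
    · show pvssRep (pvssA 𝔭 J) zi (mk' (T'.src (𝔖'.em 𝔖'.nm))) ∈ 𝔭.cell y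
      rw [G.nm, ← hpos _ _ (G.em _ le_rfl).1]
      exact ha.tip
    · exact Set.Finite.coe_toFinset _
    · rw [Set.Finite.mem_toFinset, ← Finset.mem_coe, ha.fz]
      exact or_congr (hdisc u u' hu) (hset ((pvlw_bkM G).union (pvlw_whM L.loc G)) u u' hu)

/-- **the flag predicate is local among simple spheres** -/
theorem pvss_flag_locS (h𝔭 : 𝔭.Wf J) (hzi : zi ∉ closedBall (0 : ℂ) 𝔭.W) : PvbfLocS (pvssFlag 𝔭 J zi e) (pvssK ζ J) := by
  intro V D V' D' T mk s T' mk' s' R hT hS hT' hS' hi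
  rintro ⟨F, y, h1, h2⟩
  obtain ⟨F', h3, h4⟩ := pvss_sch_loc h𝔭 hzi V D V' D' T mk s T' mk' s' R hT hS hT' hS' hi F y h1
  refine ⟨F', y, h3, fun j hj hb => h2 j hj ?_⟩
  refine (pvbf_gblock_iso hi hS hS' (fun n _ k hk => hk.1) (fun n _ k hk => hk.1) fun u u' hu => ?_).2 hb
  simp only [mem_compl_iff, Finset.mem_coe]
  exact not_congr (h4 u u' hu)

theorem pvss_flag4_locS (h𝔭 : 𝔭.Wf J) (hzi : zi ∉ closedBall (0 : ℂ) 𝔭.W) : PvbfLocS (pvssFlag4 𝔭 J zi) (pvssK ζ J) := by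
  intro V D V' D' T mk s T' mk' s' R hT hS hT' hS' hi
  rintro ⟨e, c, h1⟩
  refine ⟨e, c, pvss_flag_locS h𝔭 hzi V D V' D' T mk (fun v => s v == c) T' mk' (fun v => s' v == c) R hT hS hT' hS' ?_ h1⟩
  exact ⟨hi.mark, fun u u' hu => by simp only [hi.col u u' hu], hi.fn, hi.inj, hi.ex, hi.ex'⟩

end scheme

/-! ## 3. the quenched cost -/

section quenched

variable {ζ : Type} {𝔭 : PvssPar ζ} {J : ℕ} {zi : ℂ}

/-- **QUENCHED COST** of one sign: `2 (1 - q²)^J` (the factor `2` = the two orientations of the gate) -/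
theorem pvss_quenched {V D : Type} [DecidableEq V] {T : PvMap V D} (hT : T.IsSph) (hS : T.Simple) (h𝔭 : 𝔭.Wf J) (e : Bool) {pos : V → ℂ} {q : ℝ} (hq : 0 ≤ q) (hq1 : q ≤ 1)
    (htw : ∀ y, ∃ a o : ℕ → T.Cyc, PvbpTw T pos q (𝔭.ctr y) 𝔭.ρ J a o) (A : Finset V) (ξ : V → Bool) (hA : ∀ v, ‖pos v‖ ≤ 𝔭.W → v ∈ A) :
    pvaP A ξ (fun ω => pvssFlag 𝔭 J zi e V D T (fun v => pvssTh (pvssA 𝔭 J) (pos v)) ω) ≤ 2 * (1 - q ^ 2) ^ J := by
  classical
  let _ : LinearOrder V := linearOrderOfSTO (WellOrderingRel (α := V))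
  have hInn : ∀ (y : ζ) (n : ℕ), n < 4 * J → ∀ p : ℂ, PvssIn J y n (pvssTh (pvssA 𝔭 J) p) ↔ ‖p - 𝔭.ctr y‖ ≤ (16 : ℝ) ^ n * 𝔭.ρ := by
    intro y n hn p
    first
      | exact pvss_in_iff h𝔭 y hn p
      | exact pvss_in_iff y hn p
  have hOut : ∀ (y : ζ) (n : ℕ), n < 4 * J → ∀ p : ℂ, PvssOut J y n (pvssTh (pvssA 𝔭 J) p) ↔ ‖p - 𝔭.ctr y‖ < 5 / 4 * ((16 : ℝ) ^ n * 𝔭.ρ) := by
    intro y n hn p
    first
      | exact pvss_out_iff h𝔭 y hn p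
      | exact pvss_out_iff y hn p
  have h0 : 0 ≤ (1 - q ^ 2) ^ J := pow_nonneg (by nlinarith) J
  have key : ∀ P : PvwSt T → Prop, (∀ 𝔖 𝔖' : PvwSt T, P 𝔖 → P 𝔖' → 𝔖'.gp = 𝔖.gm → 𝔖'.gm = 𝔖.gp → False) →
      pvaP A ξ (fun ω => ∃ i : Finset V × ζ, (∃ 𝔖 : PvwSt T, PvssAt 𝔖 (fun v => pvssRep (pvssA 𝔭 J) zi (pvssTh (pvssA 𝔭 J) (pos v))) 1 0 𝔭.τ (pvwSq 0 𝔭.r) 𝔭.cell e ω i.1 i.2 ∧ P 𝔖) ∧
        ∀ j < J, ¬ PvbpGBlock T pos (↑i.1)ᶜ (𝔭.ctr i.2) 𝔭.ρ j ω) ≤ (1 - q ^ 2) ^ J := by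
    intro P hP
    have h1 := pvbp_cyl_gblocks hT hS (pos := pos) hq h𝔭.rho (J := J) (ι := Finset V × ζ) (fun i => i.1)
      (fun i ω => ∃ 𝔖 : PvwSt T, PvssAt 𝔖 (fun v => pvssRep (pvssA 𝔭 J) zi (pvssTh (pvssA 𝔭 J) (pos v))) 1 0 𝔭.τ (pvwSq 0 𝔭.r) 𝔭.cell e ω i.1 i.2 ∧ P 𝔖)
      (fun i ω ω' h hk => by
        obtain ⟨𝔖, hk, hp⟩ := hk
        exact ⟨𝔖, pvss_at_congr hT hk h, hp⟩)
      (fun i i' ω hk hk' => by
        obtain ⟨𝔖, hk, hp⟩ := hk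
        obtain ⟨𝔖', hk', hp'⟩ := hk'
        rcases (pvss_at_two hT hk.least hk'.least).2 with ⟨e1, _⟩ | ⟨e1, e2⟩
        · obtain ⟨f1, f2⟩ := pvss_at_unique hT h𝔭.disj hk hk' e1
          exact Prod.ext f1.symm f2.symm
        · exact (hP 𝔖 𝔖' hp hp' e1 e2).elim)
      (fun i => 𝔭.ctr i.2) (fun i ω _ => htw i.2) A ξ
      (fun i ω _ v hv => hA v (by
        have h2 := h𝔭.blk i.2 (mem_closedBall_iff_norm.2 hv.le)
        simpa using h2))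
    exact h1.trans (mul_le_of_le_one_right h0 (pva_P_le_one _ _ _))
  have k1 := key (fun 𝔖 => 𝔖.gp < 𝔖.gm) (fun 𝔖 𝔖' h1 h2 e1 e2 => by
    rw [e1, e2] at h2
    exact lt_asymm h1 h2)
  have k2 := key (fun 𝔖 => 𝔖.gm < 𝔖.gp) (fun 𝔖 𝔖' h1 h2 e1 e2 => by
    rw [e1, e2] at h2
    exact lt_asymm h1 h2)
  have k3 := pva_P_or_le A ξ _ _ |>.trans (add_le_add k1 k2)
  refine le_trans (pva_P_mono fun ω _ hω => ?_) (k3.trans (by linarith))
  obtain ⟨F, y, ⟨𝔖, hs⟩, hb⟩ := hω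
  have hb' : ∀ j < J, ¬ PvbpGBlock T pos (↑F)ᶜ (𝔭.ctr y) 𝔭.ρ j ω := by
    intro j hj hg
    refine hb j hj ?_
    exact (and_congr (pvbf_circ_iff hT (hInn y (4 * j) (by omega)) (hOut y (4 * j + 1) (by omega)) _ true ω)
      (pvbf_circ_iff hT (hInn y (4 * j + 2) (by omega)) (hOut y (4 * j + 3) (by omega)) _ false ω)).2 hg
  obtain ⟨o, hg⟩ := hs.least.1
  rcases lt_or_gt_of_ne hg.ne with hlt | hlt
  · exact Or.inl ⟨(F, y), ⟨𝔖, hs, hlt⟩, hb'⟩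
  · exact Or.inr ⟨(F, y), ⟨𝔖, hs, hlt⟩, hb'⟩

/-- both signs, both colours: `8 (1 - q²)^J` -/
theorem pvss_quenched4 {V D : Type} [DecidableEq V] {T : PvMap V D} (hT : T.IsSph) (hS : T.Simple) (h𝔭 : 𝔭.Wf J) {pos : V → ℂ} {q : ℝ} (hq : 0 ≤ q) (hq1 : q ≤ 1)
    (htw : ∀ y, ∃ a o : ℕ → T.Cyc, PvbpTw T pos q (𝔭.ctr y) 𝔭.ρ J a o) (A : Finset V) (ξ : V → Bool) (hA : ∀ v, ‖pos v‖ ≤ 𝔭.W → v ∈ A) :
    pvaP A ξ (fun ω => pvssFlag4 𝔭 J zi V D T (fun v => pvssTh (pvssA 𝔭 J) (pos v)) ω) ≤ 8 * (1 - q ^ 2) ^ J := by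
  set Φ : Bool → (V → Bool) → Prop := fun e ω => pvssFlag 𝔭 J zi e V D T (fun v => pvssTh (pvssA 𝔭 J) (pos v)) ω with hΦ
  have hb : ∀ e ξ', pvaP A ξ' (Φ e) ≤ 2 * (1 - q ^ 2) ^ J := fun e ξ' => pvss_quenched hT hS h𝔭 e hq hq1 htw A ξ' hA
  have hf : ∀ e, pvaP A ξ (fun ω => Φ e (fun v => !ω v)) ≤ 2 * (1 - q ^ 2) ^ J := fun e => by
    rw [pva_P_flip]; exact hb e _
  have h1 : pvaP A ξ (fun ω => pvssFlag4 𝔭 J zi V D T (fun v => pvssTh (pvssA 𝔭 J) (pos v)) ω) ≤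
      pvaP A ξ (fun ω => (Φ true ω ∨ Φ false ω) ∨ (Φ true (fun v => !ω v) ∨ Φ false (fun v => !ω v))) := by
    refine pva_P_mono fun ω _ h => ?_
    obtain ⟨e, c, h⟩ := h
    have e1 : (fun v => ω v == true) = ω := by funext v; simp
    have e2 : (fun v => ω v == false) = fun v => !ω v := by funext v; simp
    cases c
    · rw [e2] at h
      cases e
      · exact Or.inr (Or.inr h)
      · exact Or.inr (Or.inl h)
    · rw [e1] at h
      cases e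
      · exact Or.inl (Or.inr h)
      · exact Or.inl (Or.inl h)
  have h2 := pva_P_or_le A ξ (fun ω => Φ true ω ∨ Φ false ω) (fun ω => Φ true (fun v => !ω v) ∨ Φ false (fun v => !ω v))
  have h3 := pva_P_or_le A ξ (Φ true) (Φ false)
  have h4 := pva_P_or_le A ξ (fun ω => Φ true (fun v => !ω v)) (fun ω => Φ false (fun v => !ω v))
  have := hb true ξ
  have := hb false ξ
  have := hf true
  have := hf false
  linarith

end quenched

/-! ## 4. the event of unit scale -/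

section unit

variable {ζ : Type} [Finite ζ] {𝔭 : PvssPar ζ} {J : ℕ} {zi : ℂ}

/-- **FLAG2 AT UNIT SCALE** (one level): ONE measurable event, read from a ball, which represents the flag on the mesh event for EVERY completion, of probability `≤ 8 (1 - q²)^J + o(1)` -/
theorem pvss_unit {q : ℝ} (hq : 0 < q) (hq1 : q ≤ 1) (hQ : PvaxQbx q) (h𝔭 : 𝔭.Wf J) (hJ : 0 < J) (hzi : zi ∉ closedBall (0 : ℂ) 𝔭.W) {μ rE : ℝ} (hμ : 0 < μ) (hrE : 𝔭.W + 3 * μ ≤ rE) :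
    ∃ 𝔹 : Set (Conf PvPt), MeasurableSet 𝔹 ∧ Conf.ReadsSet (closedBall 0 rE ×ˢ univ) 𝔹 ∧
      PvplRep (pvssTh (pvssA 𝔭 J)) (pvbfSat (pvssFlag4 𝔭 J zi) (pvssK ζ J)) (pvssK ζ J) (closedBall 0 rE) μ 𝔹 ∧
      ∃ er : ℝ → ℝ≥0∞, Tendsto er (𝓝[>] 0) (𝓝 0) ∧ ∀ ε, 0 < ε → pvP ε 𝔹 ≤ ENNReal.ofReal (8 * (1 - q ^ 2) ^ J) + er ε := by
  classical
  have : Fintype ζ := Fintype.ofFinite ζ
  have hθ : Measurable (pvssTh (pvssA 𝔭 J)) := pvss_th_measurable (pvss_A_meas h𝔭)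
  have hΦ := pvbf_sat_local (pvssFlag4 𝔭 J zi) (pvssK ζ J)
  have hK : pvssTh (pvssA 𝔭 J) ⁻¹' pvssK ζ J ⊆ pvtrCore (3 * μ) (closedBall 0 rE) := by
    rw [pvss_K_pre]
    intro x hx
    refine closedBall_subset_closedBall' ?_
    rw [mem_closedBall] at hx
    linarith
  obtain ⟨𝔹, hm, hr, hrep⟩ := pvplb_main hθ hΦ (pvpl_win_ball 0 rE) hμ hK
  have hzi' : pvssTh (pvssA 𝔭 J) zi ∉ pvssK ζ J := by
    intro hc
    have : zi ∈ pvssTh (pvssA 𝔭 J) ⁻¹' pvssK ζ J := hc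
    rw [pvss_K_pre] at this
    exact hzi this
  refine ⟨𝔹, hm, hr, hrep, _, pvfa_geo_tendsto hQ (Finset.univ.image 𝔭.ctr) (pvbpRs 𝔭.ρ J) (pvbp_Rs_pos h𝔭.rho) (rE := rE) hμ, ?_⟩
  intro ε hε
  refine pvfa_anneal hΦ isBounded_closedBall hm hrep hzi' (fun Y => PvaxFrame q (Finset.univ.image 𝔭.ctr) (pvbpRs 𝔭.ρ J) Y) ?_ hε
  intro Y h hlf hF hmesh
  have hfin : {v : ↥Y | (v : ℂ) ∈ Y ∩ closedBall (0 : ℂ) rE}.Finite := (hlf rE).preimage Subtype.val_injective.injOn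
  have hmemA : ∀ v : ↥Y, v ∈ hfin.toFinset ↔ (v : ℂ) ∈ closedBall (0 : ℂ) rE := by
    intro v
    rw [Set.Finite.mem_toFinset]
    exact ⟨fun hv => hv.2, fun hv => ⟨v.2, hv⟩⟩
  refine ⟨hfin.toFinset, ?_, fun ξ => ?_⟩
  · intro d hd
    have hret := pvtr_of_mesh_vertex hμ hmesh (hK hd) (dls_face d)
    exact ⟨(hmemA _).2 hret.1.2, (hmemA _).2 hret.2.1.2, (hmemA _).2 hret.2.2.1.2⟩
  · have e : (fun s => pvbfSat (pvssFlag4 𝔭 J zi) (pvssK ζ J) _ _ (delMap h) (fun v => pvssTh (pvssA 𝔭 J) (dlsPos Y v)) s) =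
        fun s => pvssFlag4 𝔭 J zi _ _ (delMap h) (fun v => pvssTh (pvssA 𝔭 J) (dlsPos Y v)) s := by
      funext s
      exact propext (pvbf_sat_iff (pvss_flag4_locS h𝔭 hzi) (dls_isSph h) (dls_simple h) _ s)
    rw [e]
    refine pvss_quenched4 (dls_isSph h) (dls_simple h) h𝔭 hq.le hq1 (fun y => pvbp_frame_tower h𝔭.rho hJ hF h (Finset.mem_image.2 ⟨y, Finset.mem_univ _, rfl⟩)) _ ξ ?_
    intro v hv
    rw [hmemA, mem_closedBall, dist_zero_right]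
    have : ‖(v : ℂ)‖ ≤ 𝔭.W := hv
    linarith

end unit

/-! ## 5. AT THE MODEL (`Defs/TrModel` of 187) -/

section model

variable {ζ : Type} {𝔭 : PvssPar ζ} {J : ℕ} {zi : ℂ}

/-- the copy at the centre `z`, scale `h`, of an event of unit scale -/
def pvssCopy (𝔹 : Set (Conf PvPt)) (z : ℂ) (h : ℝ) : Set (Conf PvPt) := cfMap (vorSim ((h : ℂ)⁻¹) (-((h : ℂ)⁻¹ * z))) ⁻¹' 𝔹

theorem pvss_eqns_cite4 : True := by
  have := @pvssCopy.eq_1
  trivial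

/-- the copy is read from the ball `clB(z, rE h)` -/
theorem pvss_copy_reads {𝔹 : Set (Conf PvPt)} {rE : ℝ} (hr : Conf.ReadsSet (closedBall 0 rE ×ˢ univ) 𝔹) {h : ℝ} (hh : 0 < h) (z : ℂ) :
    Conf.ReadsSet (closedBall z (rE * h) ×ˢ univ) (pvssCopy 𝔹 z h) := by
  intro η
  set g := vorSim ((h : ℂ)⁻¹) (-((h : ℂ)⁻¹ * z)) with hg
  show cfMap g (Conf.restr (closedBall z (rE * h) ×ˢ univ) η) ∈ 𝔹 ↔ cfMap g η ∈ 𝔹
  have e : (closedBall z (rE * h) ×ˢ univ : Set PvPt) = Prod.map g id ⁻¹' (closedBall 0 rE ×ˢ univ) := by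
    rw [← pvplb_sim_ball hh z rE]
    ext p
    simp [hg]
  have e2 : cfMap g (Conf.restr (Prod.map g id ⁻¹' (closedBall 0 rE ×ˢ univ)) η) = Conf.restr (closedBall 0 rE ×ˢ univ) (cfMap g η) := by
    unfold cfMap Conf.image Conf.restr
    simp only [Conf.mk.injEq]
    exact Set.image_inter_preimage _ _ _
  rw [e, e2]
  exact hr _

/-- the law of the copy: the bound of unit scale at the intensity `h⁻¹ ε`, UNIFORM in `z` -/
theorem pvss_copy_law {𝔹 : Set (Conf PvPt)} (hm : MeasurableSet 𝔹) {p : ℝ≥0∞} {er : ℝ → ℝ≥0∞} (he : ∀ ε, 0 < ε → pvP ε 𝔹 ≤ p + er ε) {h : ℝ} (hh : 0 < h) (z : ℂ) {ε : ℝ} (hε : 0 < ε) :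
    pvP ε (pvssCopy 𝔹 z h) ≤ p + er (h⁻¹ * ε) := pvfa_law_at hm he hh z hε

theorem pvss_sim_norm {h : ℝ} (hh : 0 < h) (z p w : ℂ) : ‖vorSim ((h : ℂ)⁻¹) (-((h : ℂ)⁻¹ * z)) p - w‖ = ‖p - (z + (h : ℂ) * w)‖ / h := by
  have hc : (h : ℂ) ≠ 0 := by exact_mod_cast hh.ne'
  have e : vorSim ((h : ℂ)⁻¹) (-((h : ℂ)⁻¹ * z)) p - w = ((h : ℂ)⁻¹) * (p - (z + (h : ℂ) * w)) := by
    unfold vorSim
    field_simp
    ring
  rw [e, norm_mul, norm_inv, Complex.norm_real, Real.norm_of_nonneg hh.le]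
  field_simp

open Classical in
/-- **CONSUMER FORM AT THE MODEL**: off the copy of the flag at `(z,h)`, on the mesh event, EVERY half state of the scheme of the sample (either sign `e`, rims of either colour `c`) has a block round the centre of its tip cell;
the fresh sites of the block are the sites off `F = disc ∪ banks` -/
theorem pvss_model (h𝔭 : 𝔭.Wf J) (hzi : zi ∉ closedBall (0 : ℂ) 𝔭.W) {μ rE : ℝ} (hμ : 0 < μ) (hrE : 𝔭.W + 3 * μ ≤ rE) {𝔹 : Set (Conf PvPt)}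
    (hrep : PvplRep (pvssTh (pvssA 𝔭 J)) (pvbfSat (pvssFlag4 𝔭 J zi) (pvssK ζ J)) (pvssK ζ J) (closedBall 0 rE) μ 𝔹) {h : ℝ} (hh : 0 < h) (z : ℂ) {ω : PVSample}
    (hg : DelGood (pvxY ω)) (hfin : ((pvConf ω).pts ∩ closedBall z (rE * h) ×ˢ univ).Finite) (hm : PvtrMesh (μ * h) (closedBall z (rE * h)) (pvxY ω)) (hno : pvConf ω ∉ pvssCopy 𝔹 z h)
    (c e : Bool) {𝔖 : PvwSt (pvxT ω)} {F : Finset ↥(pvxY ω)} {y : ζ}
    (ha : PvssAt 𝔖 (pvxPos ω) h z 𝔭.τ (pvwSq z (𝔭.r * h)) (fun y => (fun w : ℂ => z + (h : ℂ) * w) '' 𝔭.cell y) e (pvxCol ω c) F y) :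
    ∃ j < J, PvbpGBlock (pvxT ω) (pvxPos ω) (↑F)ᶜ (z + (h : ℂ) * 𝔭.ctr y) (𝔭.ρ * h) j (pvxCol ω c) := by
  have hc : (h : ℂ) ≠ 0 := by exact_mod_cast hh.ne'
  have hα : ((h : ℂ)⁻¹) ≠ 0 := inv_ne_zero hc
  have hn : μ / ‖((h : ℂ)⁻¹)‖ = μ * h := by
    rw [norm_inv, Complex.norm_real, Real.norm_of_nonneg hh.le, div_inv_eq_mul]
  set g := vorSim ((h : ℂ)⁻¹) (-((h : ℂ)⁻¹ * z)) with hgdef
  have hT : (pvxT ω).IsSph := delb_plane_isSph hg
  have hS : (pvxT ω).Simple := (delbPl (pvxY ω)).toMap_simple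
  have key := hrep.sim hα (-((h : ℂ)⁻¹ * z)) Empty delbPlane (pvConf ω) (fun x => x.elim) (z + (h : ℂ) * zi)
  rw [pvplb_sim_ball hh, hn] at key
  have hgz : g (z + (h : ℂ) * zi) = zi := by
    rw [hgdef]; unfold vorSim; field_simp; ring
  have key2 := key hfin (delb_ok_mono (subset_univ _) (delb_plane_ok hg)) hm (by
    show pvssTh (pvssA 𝔭 J) (g (z + (h : ℂ) * zi)) ∉ pvssK ζ J
    rw [hgz]
    intro hc'
    have : zi ∈ pvssTh (pvssA 𝔭 J) ⁻¹' pvssK ζ J := hc'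
    rw [pvss_K_pre] at this
    exact hzi this)
  have h1 : ¬ pvbfSat (pvssFlag4 𝔭 J zi) (pvssK ζ J) _ _ (pvxT ω) (fun v => pvssTh (pvssA 𝔭 J) (g (pvxPos ω v))) (fun v => cfCol (pvConf ω) v.1) := fun hc' => hno (key2.2 hc')
  rw [pvbf_sat_iff (pvss_flag4_locS h𝔭 hzi) hT hS] at h1
  have h2 : ¬ pvssFlag 𝔭 J zi e _ _ (pvxT ω) (fun v => pvssTh (pvssA 𝔭 J) (g (pvxPos ω v))) (pvxCol ω c) := fun hc' => h1 ⟨e, c, hc'⟩
  have h3 : pvssSch 𝔭 J zi e _ _ (pvxT ω) (fun v => pvssTh (pvssA 𝔭 J) (g (pvxPos ω v))) (pvxCol ω c) F y := by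
    refine ⟨𝔖, ?_⟩
    have := pvss_at_same (pvss_same_rep 𝔭 J zi (pvxPos ω) hh z) ha
    have e1 : ∀ v, ((h : ℂ)⁻¹) * (pvxPos ω v - z) = g (pvxPos ω v) := by
      intro v; rw [hgdef]; unfold vorSim; ring
    simp only [e1] at this
    exact this
  obtain ⟨j, hj, hb⟩ := pvbf_block_of_not_flag h2 h3
  refine ⟨j, hj, ?_⟩
  have hIn : ∀ n, n < 4 * J → ∀ p, PvssIn J y n ((pvssTh (pvssA 𝔭 J) ∘ g) p) ↔ ‖p - (z + (h : ℂ) * 𝔭.ctr y)‖ ≤ (16 : ℝ) ^ n * (𝔭.ρ * h) := by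
    intro n hn' p
    show PvssIn J y n (pvssTh (pvssA 𝔭 J) (g p)) ↔ _
    rw [pvss_in_iff h𝔭 y hn', hgdef, pvss_sim_norm hh, div_le_iff₀ hh, mul_assoc]
  have hOut : ∀ n, n < 4 * J → ∀ p, PvssOut J y n ((pvssTh (pvssA 𝔭 J) ∘ g) p) ↔ ‖p - (z + (h : ℂ) * 𝔭.ctr y)‖ < 5 / 4 * ((16 : ℝ) ^ n * (𝔭.ρ * h)) := by
    intro n hn' p
    show PvssOut J y n (pvssTh (pvssA 𝔭 J) (g p)) ↔ _
    rw [pvss_out_iff h𝔭 y hn', hgdef, pvss_sim_norm hh, div_lt_iff₀ hh, mul_assoc, mul_assoc]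
  exact ⟨(pvbf_circ_iff (θ := pvssTh (pvssA 𝔭 J) ∘ g) hT (hIn _ (by omega)) (hOut _ (by omega)) _ true _).1 hb.1,
    (pvbf_circ_iff (θ := pvssTh (pvssA 𝔭 J) ∘ g) hT (hIn _ (by omega)) (hOut _ (by omega)) _ false _).1 hb.2⟩

/-- the sites of the sample in a disc inside the window are finitely many -/
theorem pvss_disc_fin {ω : PVSample} {z : ℂ} {r r' : ℝ} (hfin : ((pvConf ω).pts ∩ closedBall z r' ×ˢ univ).Finite) (hr : r ≤ r') : (pvssDisc (pvxPos ω) z r).Finite := by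
  have h1 : (Prod.fst '' ((pvConf ω).pts ∩ closedBall z r' ×ˢ univ)).Finite := hfin.image _
  refine (h1.preimage (Subtype.val_injective.injOn (s := Subtype.val ⁻¹' _))).subset ?_
  intro v hv
  obtain ⟨p, hp, hpv⟩ := v.2
  refine ⟨p, ⟨hp, ?_, mem_univ _⟩, hpv⟩
  rw [hpv, mem_closedBall, dist_eq_norm]
  exact le_trans hv hr

/-- a circuit of a block of the scheme stays off the deterministic disc: the fresh sites may be counted off the banks only -/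
theorem pvss_circ_off {V D : Type} [DecidableEq V] {T : PvMap V D} (hT : T.IsSph) {pos : V → ℂ} {X X' : Set V} {z' : ℂ} {r R : ℝ} {b : Bool} {s : V → Bool}
    (hX : ∀ v, ‖pos v - z'‖ < R → v ∈ X' → v ∈ X) (hc : PvbpCirc T pos X z' r R b s) : PvbpCirc T pos X' z' r R b s := by
  obtain ⟨c, h1, h2⟩ := hc
  refine ⟨c, h1, fun v hv hv' => h2 v hv (hX v (h1.out v ?_) hv')⟩
  rw [pl_VOf_left hT]
  exact Or.inl hv

/-- the points of the scaled blocks are off the scaled disc -/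
theorem pvss_far_scaled (h𝔭 : 𝔭.Wf J) {h : ℝ} (hh : 0 < h) (z : ℂ) (y : ζ) {n : ℕ} (hn : n ≤ 4 * J) {p : ℂ} (hp : ‖p - (z + (h : ℂ) * 𝔭.ctr y)‖ < 5 / 4 * ((16 : ℝ) ^ n * (𝔭.ρ * h))) :
    ¬ ‖p - z‖ ≤ 𝔭.τ.b * h := by
  intro hc
  have hc0 : (h : ℂ) ≠ 0 := by exact_mod_cast hh.ne'
  have hnorm : ∀ w : ℂ, ‖((h : ℂ)⁻¹) * w‖ = ‖w‖ / h := by
    intro w
    rw [norm_mul, norm_inv, Complex.norm_real, Real.norm_of_nonneg hh.le]
    field_simp
  have hpow : (16 : ℝ) ^ n ≤ (16 : ℝ) ^ (4 * J) := pow_le_pow_right₀ (by norm_num) hn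
  have hρ := h𝔭.rho
  refine (Set.disjoint_left.1 (h𝔭.far y) (show ((h : ℂ)⁻¹) * (p - z) ∈ _ from ?_)) ?_
  · rw [mem_closedBall, dist_eq_norm]
    have e : ((h : ℂ)⁻¹) * (p - z) - 𝔭.ctr y = ((h : ℂ)⁻¹) * (p - (z + (h : ℂ) * 𝔭.ctr y)) := by
      field_simp
      ring
    rw [e, hnorm, div_le_iff₀ hh]
    have : (16 : ℝ) ^ n * (𝔭.ρ * h) ≤ (16 : ℝ) ^ (4 * J) * (𝔭.ρ * h) := mul_le_mul_of_nonneg_right hpow (by positivity)
    nlinarith
  · rw [mem_closedBall, dist_eq_norm, sub_zero, hnorm, div_le_iff₀ hh]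
    exact hc

open Classical in
/-- **CONSUMER FORM for the exit half state of `Tr/Defs`** (E13 / E15: circuits whose sites off `fzOut` have the prescribed colours) -/
theorem pvss_model_out (h𝔭 : 𝔭.Wf J) (hzi : zi ∉ closedBall (0 : ℂ) 𝔭.W) {μ rE : ℝ} (hμ : 0 < μ) (hrE : 𝔭.W + 3 * μ ≤ rE) {𝔹 : Set (Conf PvPt)}
    (hrep : PvplRep (pvssTh (pvssA 𝔭 J)) (pvbfSat (pvssFlag4 𝔭 J zi) (pvssK ζ J)) (pvssK ζ J) (closedBall 0 rE) μ 𝔹) {h : ℝ} (hh : 0 < h) (z : ℂ) {ω : PVSample}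
    (hg : DelGood (pvxY ω)) (hfin : ((pvConf ω).pts ∩ closedBall z (rE * h) ×ˢ univ).Finite) (hm : PvtrMesh (μ * h) (closedBall z (rE * h)) (pvxY ω)) (hno : pvConf ω ∉ pvssCopy 𝔹 z h)
    (c : Bool) {N : PvwNum} {τ : PvwTy} (hτa : τ.a = 𝔭.τ.a) (hτb : τ.b = 𝔭.τ.b) (hr : pvwRad N h τ τ.k = 𝔭.r * h) {𝔖 : PvwSt (pvxT ω)} (ha : 𝔖.AtOut (pvxPos ω) N h z τ (pvxCol ω c))
    (hall : ∀ (𝔖' : PvwSt (pvxT ω)) (o : Bool), 𝔖'.Gate (pvxPos ω) h z { τ with o := o } (pvxCol ω c) → 𝔖.S.Left ⊆ 𝔖'.S.Left)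
    {y : ζ} (hy : pvxPos ω ((pvxT ω).src (𝔖.ep 𝔖.np)) ∈ (fun w : ℂ => z + (h : ℂ) * w) '' 𝔭.cell y) :
    ∃ j < J, PvbpGBlock (pvxT ω) (pvxPos ω) 𝔖.fzOutᶜ (z + (h : ℂ) * 𝔭.ctr y) (𝔭.ρ * h) j (pvxCol ω c) := by
  have hT : (pvxT ω).IsSph := delb_plane_isSph hg
  have hbr : τ.b * h ≤ rE * h := by
    have := h𝔭.bW
    rw [hτb]
    exact mul_le_mul_of_nonneg_right (by linarith) hh.le
  obtain ⟨F, hF, hFm⟩ := pvss_of_atOut (cell := fun y => (fun w : ℂ => z + (h : ℂ) * w) '' 𝔭.cell y) (y := y) ha hall (pvss_disc_fin hfin hbr) hy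
  have hsame : PvssSame (pvxPos ω) h z τ (pvwSq z (pvwRad N h τ τ.k)) (fun y => (fun w : ℂ => z + (h : ℂ) * w) '' 𝔭.cell y)
      (pvxPos ω) h z 𝔭.τ (pvwSq z (𝔭.r * h)) (fun y => (fun w : ℂ => z + (h : ℂ) * w) '' 𝔭.cell y) :=
    ⟨fun v => by rw [hτa], fun v => by rw [hτb], fun v => Iff.rfl, fun v => by rw [hr], fun v y => Iff.rfl, fun v => by rw [hτb]⟩
  obtain ⟨j, hj, hb⟩ := pvss_model h𝔭 hzi hμ hrE hrep hh z hg hfin hm hno c true (pvss_at_same hsame hF)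
  refine ⟨j, hj, ?_⟩
  have hX : ∀ n, n ≤ 4 * J → ∀ v, ‖pvxPos ω v - (z + (h : ℂ) * 𝔭.ctr y)‖ < 5 / 4 * ((16 : ℝ) ^ n * (𝔭.ρ * h)) → v ∈ 𝔖.fzOutᶜ → v ∈ ((↑F : Set _)ᶜ : Set _) := by
    intro n hn v hv hv' hvF
    rcases (hFm v).1 (Finset.mem_coe.1 hvF) with h1 | h1
    · exact hv' h1
    · rw [hτb] at h1
      exact pvss_far_scaled h𝔭 hh z y hn hv h1
  exact ⟨pvss_circ_off hT (hX _ (by omega)) hb.1, pvss_circ_off hT (hX _ (by omega)) hb.2⟩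

open Classical in
/-- **CONSUMER FORM for the entrance half state of `Tr/Defs`** -/
theorem pvss_model_in (h𝔭 : 𝔭.Wf J) (hzi : zi ∉ closedBall (0 : ℂ) 𝔭.W) {μ rE : ℝ} (hμ : 0 < μ) (hrE : 𝔭.W + 3 * μ ≤ rE) {𝔹 : Set (Conf PvPt)}
    (hrep : PvplRep (pvssTh (pvssA 𝔭 J)) (pvbfSat (pvssFlag4 𝔭 J zi) (pvssK ζ J)) (pvssK ζ J) (closedBall 0 rE) μ 𝔹) {h : ℝ} (hh : 0 < h) (z : ℂ) {ω : PVSample}
    (hg : DelGood (pvxY ω)) (hfin : ((pvConf ω).pts ∩ closedBall z (rE * h) ×ˢ univ).Finite) (hm : PvtrMesh (μ * h) (closedBall z (rE * h)) (pvxY ω)) (hno : pvConf ω ∉ pvssCopy 𝔹 z h)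
    (c : Bool) {N : PvwNum} {τ : PvwTy} (hτa : τ.a = 𝔭.τ.a) (hτb : τ.b = 𝔭.τ.b) (hr : pvwRad N h τ τ.k = 𝔭.r * h) {𝔖 : PvwSt (pvxT ω)} (ha : 𝔖.AtIn (pvxPos ω) N h z τ (pvxCol ω c))
    (hall : ∀ (𝔖' : PvwSt (pvxT ω)) (o : Bool), 𝔖'.Gate (pvxPos ω) h z { τ with o := o } (pvxCol ω c) → 𝔖.S.Left ⊆ 𝔖'.S.Left)
    {y : ζ} (hy : pvxPos ω ((pvxT ω).src (𝔖.em 𝔖.nm)) ∈ (fun w : ℂ => z + (h : ℂ) * w) '' 𝔭.cell y) :
    ∃ j < J, PvbpGBlock (pvxT ω) (pvxPos ω) 𝔖.fzInᶜ (z + (h : ℂ) * 𝔭.ctr y) (𝔭.ρ * h) j (pvxCol ω c) := by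
  have hT : (pvxT ω).IsSph := delb_plane_isSph hg
  have hbr : τ.b * h ≤ rE * h := by
    have := h𝔭.bW
    rw [hτb]
    exact mul_le_mul_of_nonneg_right (by linarith) hh.le
  obtain ⟨F, hF, hFm⟩ := pvss_of_atIn (cell := fun y => (fun w : ℂ => z + (h : ℂ) * w) '' 𝔭.cell y) (y := y) ha hall (pvss_disc_fin hfin hbr) hy
  have hsame : PvssSame (pvxPos ω) h z τ (pvwSq z (pvwRad N h τ τ.k)) (fun y => (fun w : ℂ => z + (h : ℂ) * w) '' 𝔭.cell y)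
      (pvxPos ω) h z 𝔭.τ (pvwSq z (𝔭.r * h)) (fun y => (fun w : ℂ => z + (h : ℂ) * w) '' 𝔭.cell y) :=
    ⟨fun v => by rw [hτa], fun v => by rw [hτb], fun v => Iff.rfl, fun v => by rw [hr], fun v y => Iff.rfl, fun v => by rw [hτb]⟩
  obtain ⟨j, hj, hb⟩ := pvss_model h𝔭 hzi hμ hrE hrep hh z hg hfin hm hno c false (pvss_at_same hsame hF)
  refine ⟨j, hj, ?_⟩
  have hX : ∀ n, n ≤ 4 * J → ∀ v, ‖pvxPos ω v - (z + (h : ℂ) * 𝔭.ctr y)‖ < 5 / 4 * ((16 : ℝ) ^ n * (𝔭.ρ * h)) → v ∈ 𝔖.fzInᶜ → v ∈ ((↑F : Set _)ᶜ : Set _) := by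
    intro n hn v hv hv' hvF
    rcases (hFm v).1 (Finset.mem_coe.1 hvF) with h1 | h1
    · exact hv' h1
    · rw [hτb] at h1
      exact pvss_far_scaled h𝔭 hh z y hn hv h1
  exact ⟨pvss_circ_off hT (hX _ (by omega)) hb.1, pvss_circ_off hT (hX _ (by omega)) hb.2⟩

end model

end Claimed.Agent.R289
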