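import Claimed.Agent.R289.Tr.StSch

/-!
# Row 289 (S0537), THE WALL, Tr/StSchI : THE CONCRETE PARAMETERS OF THE STATE SCHEME OF FLAG2      (helper233; prefix `pvssi_`, `PvssCell`, `pvssParOf`)

Producer of the records `PvssPar`, `PvssPar.Wf` of `Tr/StSch.lean` (design of 248, `F2_248.md` sec.1): THE CELLS DO NOT DEPEND ON THE LEVEL.
* `PvssCell l lo hi`     the cells `g` of the grid of mesh `l` (`pvplGrid l` of 238) whose place `pvfaPl l g` (235) lies in the shell `lo ≤ ‖·‖ ≤ hi`;   finite for `l > 0`: `pvssi_finite`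
* `pvssParOf a b r l ρ W lo hi`     only `r` (half side of the box) depends on the level
* `pvssi_wf`     the constraints, from `b + 5/4·16^(4J) ρ < lo`, `hi + 5/4·16^(4J) ρ ≤ W`, `2 r ≤ W`
* `pvssi_cover`, `pvssi_cover_at`     every point of the shell `lo + 2 l ≤ ‖·‖ ≤ hi - 2 l` lies in a cell, within `2 l` of its centre (unit scale;  centre `z`, scale `h`: the hypothesis `hy` of `pvss_model_out/in`)
* `pvssi_zi`     a point at infinity for the marks
-/

set_option autoImplicit false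

namespace Claimed.Agent.R289

open MeasureTheory Filter Topology Set Metric Claims.C0465
open scoped ENNReal

/-- the tip cells: cells of the grid of mesh `l` whose place lies in the shell -/
def PvssCell (l lo hi : ℝ) : Type := {g : ℤ × ℤ // lo ≤ ‖pvfaPl l g‖ ∧ ‖pvfaPl l g‖ ≤ hi}

/-- **THE PARAMETERS**: gate annulus `[a, b]`, box of half side `r`, grid cells of mesh `l` in the shell `[lo, hi]`, blocks from `ρ`, region `W` -/
noncomputable def pvssParOf (a b r l ρ W lo hi : ℝ) : PvssPar (PvssCell l lo hi) where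
  τ := { a := a, b := b, a2 := 0, b2 := 0, k := 0, o := false, yp := 0, ym := 0 }
  r := r
  cell := fun g => pvplGrid l ⁻¹' {g.1}
  ctr := fun g => pvfaPl l g.1
  ρ := ρ
  W := W

theorem pvssi_eqns_cite : True := by
  have := @PvssCell.eq_1; have := @pvssParOf.eq_1
  trivial

theorem pvssi_finite {l : ℝ} (hl : 0 < l) (lo hi : ℝ) : Finite (PvssCell l lo hi) := by
  obtain ⟨M, hM⟩ := exists_nat_ge (hi / l)
  have key : ∀ g : ℤ × ℤ, ‖pvfaPl l g‖ ≤ hi → g ∈ (Set.Icc (-(M : ℤ)) M ×ˢ Set.Icc (-(M : ℤ)) M : Set (ℤ × ℤ)) := by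
    intro g hg
    have h1 : |l * (g.1 : ℝ)| ≤ hi := (Complex.abs_re_le_norm (pvfaPl l g)).trans hg
    have h2 : |l * (g.2 : ℝ)| ≤ hi := (Complex.abs_im_le_norm (pvfaPl l g)).trans hg
    rw [abs_mul, abs_of_pos hl] at h1 h2
    have a1 : |(g.1 : ℝ)| ≤ M := by
      refine le_trans ?_ hM
      rw [le_div_iff₀ hl]; linarith
    have a2 : |(g.2 : ℝ)| ≤ M := by
      refine le_trans ?_ hM
      rw [le_div_iff₀ hl]; linarith
    rw [abs_le] at a1 a2
    refine ⟨⟨?_, ?_⟩, ⟨?_, ?_⟩⟩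
    · have := a1.1; exact_mod_cast this
    · have := a1.2; exact_mod_cast this
    · have := a2.1; exact_mod_cast this
    · have := a2.2; exact_mod_cast this
  have hfin : {g : ℤ × ℤ | lo ≤ ‖pvfaPl l g‖ ∧ ‖pvfaPl l g‖ ≤ hi}.Finite :=
    ((Set.finite_Icc _ _).prod (Set.finite_Icc _ _)).subset fun g hg => key g hg.2
  exact hfin.to_subtype

theorem pvssi_sq_ball {r W : ℝ} (h : 2 * r ≤ W) : pvwSq 0 r ⊆ closedBall (0 : ℂ) W := by
  intro w hw
  rw [mem_closedBall_zero_iff]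
  have h1 := hw.1
  have h2 := hw.2
  rw [sub_zero] at h1 h2
  exact (Complex.norm_le_abs_re_add_abs_im w).trans (by linarith)

theorem pvssi_wf {a b r l ρ W lo hi : ℝ} {J : ℕ} (ha : 0 < a) (hab : a ≤ b) (hbW : b ≤ W) (hr : 2 * r ≤ W) (hρ : 0 < ρ)
    (hlo : b + 5 / 4 * ((16 : ℝ) ^ (4 * J) * ρ) < lo) (hhi : hi + 5 / 4 * ((16 : ℝ) ^ (4 * J) * ρ) ≤ W) : (pvssParOf a b r l ρ W lo hi).Wf J := by
  refine ⟨ha, hab, hbW, pvssi_sq_ball hr, hρ, ?_, ?_, ?_, ?_⟩
  · intro y w hw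
    rw [mem_closedBall_zero_iff]
    rw [mem_closedBall, Complex.dist_eq] at hw
    have h1 : ‖pvfaPl l y.1‖ ≤ hi := y.2.2
    have h2 : ‖w‖ ≤ ‖w - pvfaPl l y.1‖ + ‖pvfaPl l y.1‖ := by
      have := norm_add_le (w - pvfaPl l y.1) (pvfaPl l y.1)
      rwa [sub_add_cancel] at this
    have h3 : ‖w - pvfaPl l y.1‖ ≤ 5 / 4 * ((16 : ℝ) ^ (4 * J) * ρ) := hw
    show ‖w‖ ≤ W
    linarith
  · intro y
    rw [Set.disjoint_left]
    intro w hw hw2
    rw [mem_closedBall_zero_iff] at hw2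
    rw [mem_closedBall, Complex.dist_eq] at hw
    have h1 : lo ≤ ‖pvfaPl l y.1‖ := y.2.1
    have h2 : ‖pvfaPl l y.1‖ ≤ ‖w - pvfaPl l y.1‖ + ‖w‖ := by
      have := norm_sub_le w (w - pvfaPl l y.1)
      rw [sub_sub_cancel] at this
      linarith
    have h3 : ‖w - pvfaPl l y.1‖ ≤ 5 / 4 * ((16 : ℝ) ^ (4 * J) * ρ) := hw
    have h4 : ‖w‖ ≤ b := hw2
    linarith
  · intro y
    have hm : Measurable (pvplGrid l) := by
      unfold pvplGrid
      exact ((Complex.measurable_re.div_const l).floor).prodMk ((Complex.measurable_im.div_const l).floor)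
    exact hm (measurableSet_singleton _)
  · intro y y' p hp hp'
    have e1 : pvplGrid l p = y.1 := hp
    have e2 : pvplGrid l p = y'.1 := hp'
    exact Subtype.ext (e1.symm.trans e2)

/-- every point of the thinner shell lies in a cell, within `2 l` of its centre -/
theorem pvssi_cover {l : ℝ} (hl : 0 < l) {lo hi : ℝ} {p : ℂ} (h1 : lo + 2 * l ≤ ‖p‖) (h2 : ‖p‖ + 2 * l ≤ hi) (a b r ρ W : ℝ) :
    ∃ y : PvssCell l lo hi, p ∈ (pvssParOf a b r l ρ W lo hi).cell y ∧ ‖p - (pvssParOf a b r l ρ W lo hi).ctr y‖ ≤ 2 * l := by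
  have hd : ‖p - pvfaPl l (pvplGrid l p)‖ ≤ 2 * l := by
    refine (Complex.norm_le_abs_re_add_abs_im _).trans ?_
    have key : ∀ t : ℝ, |t - l * (⌊t / l⌋ : ℝ)| ≤ l := by
      intro t
      have c1 : (⌊t / l⌋ : ℝ) ≤ t / l := Int.floor_le _
      have c2 : t / l < (⌊t / l⌋ : ℝ) + 1 := Int.lt_floor_add_one _
      rw [le_div_iff₀ hl] at c1
      rw [div_lt_iff₀ hl] at c2
      rw [abs_le]
      constructor <;> nlinarith
    have h3 : |(p - pvfaPl l (pvplGrid l p)).re| ≤ l := key p.re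
    have h4 : |(p - pvfaPl l (pvplGrid l p)).im| ≤ l := key p.im
    linarith
  have a1 : ‖p‖ ≤ ‖p - pvfaPl l (pvplGrid l p)‖ + ‖pvfaPl l (pvplGrid l p)‖ := by
    have := norm_add_le (p - pvfaPl l (pvplGrid l p)) (pvfaPl l (pvplGrid l p))
    rwa [sub_add_cancel] at this
  have a2 : ‖pvfaPl l (pvplGrid l p)‖ ≤ ‖p - pvfaPl l (pvplGrid l p)‖ + ‖p‖ := by
    have := norm_sub_le p (p - pvfaPl l (pvplGrid l p))
    rw [sub_sub_cancel] at this
    linarith
  exact ⟨⟨pvplGrid l p, by linarith, by linarith⟩, rfl, hd⟩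

/-- the same at the centre `z`, scale `h`: the hypothesis `hy` of `pvss_model_out`, `pvss_model_in` -/
theorem pvssi_cover_at {l : ℝ} (hl : 0 < l) {lo hi h : ℝ} (hh : 0 < h) (z : ℂ) {p : ℂ} (h1 : (lo + 2 * l) * h ≤ ‖p - z‖) (h2 : ‖p - z‖ ≤ (hi - 2 * l) * h) (a b r ρ W : ℝ) :
    ∃ y : PvssCell l lo hi, p ∈ (fun w : ℂ => z + (h : ℂ) * w) '' (pvssParOf a b r l ρ W lo hi).cell y ∧ ‖p - (z + (h : ℂ) * (pvssParOf a b r l ρ W lo hi).ctr y)‖ ≤ 2 * l * h := by
  have hhc : (h : ℂ) ≠ 0 := Complex.ofReal_ne_zero.2 hh.ne'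
  have en : ‖(p - z) / (h : ℂ)‖ = ‖p - z‖ / h := by
    rw [norm_div, Complex.norm_real, Real.norm_of_nonneg hh.le]
  obtain ⟨y, hy1, hy2⟩ := pvssi_cover hl (lo := lo) (hi := hi) (p := (p - z) / (h : ℂ))
    (by rw [en, le_div_iff₀ hh]; exact h1) (by
      have : ‖p - z‖ / h ≤ hi - 2 * l := by rw [div_le_iff₀ hh]; exact h2
      rw [en]; linarith) a b r ρ W
  refine ⟨y, ⟨(p - z) / (h : ℂ), hy1, ?_⟩, ?_⟩
  · show z + (h : ℂ) * ((p - z) / (h : ℂ)) = p
    field_simp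
    ring
  · have e : p - (z + (h : ℂ) * (pvssParOf a b r l ρ W lo hi).ctr y) = (h : ℂ) * ((p - z) / (h : ℂ) - (pvssParOf a b r l ρ W lo hi).ctr y) := by
      field_simp
      ring
    rw [e, norm_mul, Complex.norm_real, Real.norm_of_nonneg hh.le]
    nlinarith

/-- a point at infinity for the marks -/
theorem pvssi_zi (W : ℝ) : (((|W| + 1 : ℝ) : ℂ)) ∉ closedBall (0 : ℂ) W := by
  rw [mem_closedBall_zero_iff, Complex.norm_real, Real.norm_of_nonneg (by positivity)]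
  have := le_abs_self W
  linarith

end Claimed.Agent.R289
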