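-- KEEP
import Claimed.Agent.R289.Tr.StabE
import Claimed.Agent.R289.Tr.LocalW
import Claimed.Agent.R289.Tr.HookG

/-!
# Row 289 (S0537), THE WALL, ROAD E, file Tr/StabF : THE SPLICE INVARIANT CLASS `NF` OF THE KIT v2 OF 29 (msg 92265, 12:28Z)      (helper27; prefix `pvhqf_`, defs `pvhqYF pvhqNF pvhqMF pvhqNV`)      0 sorry

WHY (63, 29).   `Ycolᶜ ⊆ pvgeFar C r` has NO producer (the end tiles and the door squares of the engine are not under the collared lanes).      CURE OF 29: read only the sites over `K := pvgeFar C r`, and cut the class `YC0` at `K`: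
`YF(D) := {v | ∃ a, (a = t.ap ∨ a = s.am ∨ ∃ w, (pos w ∈ Ycol ∨ pos w ∉ K) ∧ Adj a w) ∧ v ∈ pvwComp T {u ∈ Yr0 | pos u ∈ K} a}`,   `NF(D) := {v | v ∉ YF, pos v ∉ Ycol, pos v ∈ K}`,   `MF := NF ∩ closedBall x r₂`,
`N := fzY ∪ g.verts ∪ {v ∈ apx | pos v ∉ Yin} ∪ MF`.      MODEL FREE, `K` ANY SET.
* sec. 1  the defs (TEXT OF 29, verbatim);   `pvhqf_yc0_yf` (`YC0 ∩ over K ⊆ YF`), **`pvhqf_nf_nu`** (`NF ⊆ NU`), `pvhqf_mf_mu` (`MF ⊆ MU`), `pvhqf_E_of_nu` ((C1): `NBon (NU ∩ ball) ⟹ NBon MF`), (C3) `pvhqf_E_anti`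
* sec. 2  the data of one colouring: `PvhqSame.YF .NF .MF` (`uni`, `hN` of 104)
* sec. 3  TRANSFER along `L : PvLocP T T' R pos pos' K`, `G : PvLocDat R 𝔇 𝔇'`: `pvhqf_yf_fwd`, `pvhqf_yf`, `pvhqf_nf`, `pvhqf_mf`, `pvhqf_mf_set`, **`pvhqf_N_set`** (field `N` of `PvrdKit`), **`pvhqf_E`** (field `E`)
-/

set_option autoImplicit false

namespace Claimed.Agent.R289

open Set Relation

/-! ## 1. the class -/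

section defs

variable {V D : Type} {T : PvMap V D}

/-- **`YF(D)`**: the class `YC0` CUT AT `K`: joined inside `{u ∈ Yr0 | pos u ∈ K}` to a tip apex or to a site which touches a site over `Ycol` or off `K` -/
def pvhqYF (𝔇 : PvwDat T) (pos : V → ℂ) (π : PvwPat) (K : Set ℂ) : Set V :=
  {v | ∃ a, (a = 𝔇.t.ap ∨ a = 𝔇.s.am ∨ ∃ w, (pos w ∈ π.Ycol ∨ pos w ∉ K) ∧ T.Adj a w) ∧ v ∈ pvwComp T {u | u ∈ 𝔇.Yr0 pos π ∧ pos u ∈ K} a}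

/-- **`NF(D)`**: the sites over `K`, off the collared lanes, off `YF` -/
def pvhqNF (𝔇 : PvwDat T) (pos : V → ℂ) (π : PvwPat) (K : Set ℂ) : Set V := {v | v ∉ pvhqYF 𝔇 pos π K ∧ pos v ∉ π.Ycol ∧ pos v ∈ K}

/-- **`MF = NF ∩ patch`** -/
def pvhqMF (𝔇 : PvwDat T) (pos : V → ℂ) (π : PvwPat) (K : Set ℂ) (x : ℂ) (r₂ : ℝ) : Set V := {v | v ∈ pvhqNF 𝔇 pos π K ∧ ‖pos v - x‖ ≤ r₂}

/-- **the read sites of the kit v2** -/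
def pvhqNV (𝔇 : PvwDat T) (pos : V → ℂ) (π : PvwPat) (K : Set ℂ) (x : ℂ) (r₂ : ℝ) : Set V :=
  𝔇.fzY ∪ 𝔇.g.verts ∪ {v | v ∈ 𝔇.apx ∧ pos v ∉ π.Yin} ∪ pvhqMF 𝔇 pos π K x r₂

theorem pvhqf_eqns_cite : True := by
  have := @pvhqYF.eq_1; have := @pvhqNF.eq_1; have := @pvhqMF.eq_1; have := @pvhqNV.eq_1
  trivial

variable {𝔇 : PvwDat T} {pos : V → ℂ} {π : PvwPat} {K : Set ℂ} {x : ℂ} {r₂ : ℝ} {σ σ' : V → Bool}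

/-- **`YC0 ∩ over K ⊆ YF`**: cut the path at its last vertex off `K` -/
theorem pvhqf_yc0_yf {v : V} (hv : v ∈ 𝔇.YC0 pos π) (hK : pos v ∈ K) : v ∈ pvhqYF 𝔇 pos π K := by
  obtain ⟨a, ha, q, q0, q1, qX⟩ := hv
  have key : ∀ k, k ≤ q.n → pos (q.v k) ∈ K → q.v k ∈ pvhqYF 𝔇 pos π K := by
    intro k
    induction k with
    | zero =>
      intro _ h0
      refine ⟨a, ha.imp id (Or.imp id fun ⟨w, hw, hadj⟩ => ⟨w, Or.inl hw, hadj⟩), ?_⟩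
      rw [q0] at h0 ⊢
      exact pvhg_comp_self (q.e 0) ⟨q0 ▸ qX _ ⟨0, Nat.zero_le _, rfl⟩, h0⟩
    | succ k ih =>
      intro hk h1
      have hX : q.v (k + 1) ∈ {u | u ∈ 𝔇.Yr0 pos π ∧ pos u ∈ K} := ⟨qX _ ⟨k + 1, hk, rfl⟩, h1⟩
      by_cases h0 : pos (q.v k) ∈ K
      · obtain ⟨a', ha', hc⟩ := ih (by omega) h0
        exact ⟨a', ha', pvhg_comp_adj hc (q.e k) (q.src_e k (by omega)) (q.tgt_e k (by omega)) hX⟩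
      · refine ⟨q.v (k + 1), Or.inr (Or.inr ⟨q.v k, Or.inr h0, T.opp (q.e k), ?_, ?_⟩), pvhg_comp_self (q.e 0) hX⟩
        · rw [T.src_opp', q.tgt_e k (by omega)]
        · rw [T.tgt_opp, q.src_e k (by omega)]
  rw [← q1] at hK ⊢
  exact key q.n le_rfl hK

/-- **`NF ⊆ NU`** -/
theorem pvhqf_nf_nu {v : V} (hv : v ∈ pvhqNF 𝔇 pos π K) : v ∈ 𝔇.NU pos π := ⟨fun hc => hv.1 (pvhqf_yc0_yf hc hv.2.2), hv.2.1⟩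

/-- `MF ⊆ MU` (`{v | v ∈ NU ∧ ‖pos v - x‖ ≤ r₂}` IS `𝔇.MU pos π x r₂` of `Tr/KitN1`, by `rfl`; this file does not import `Tr/KitN1`, so that `Tr/KitN1` v2 may import it) -/
theorem pvhqf_mf_mu {v : V} (hv : v ∈ pvhqMF 𝔇 pos π K x r₂) : v ∈ {v | v ∈ 𝔇.NU pos π ∧ ‖pos v - x‖ ≤ r₂} := ⟨pvhqf_nf_nu hv.1, hv.2⟩

theorem pvhqf_mf_far {v : V} (hv : v ∈ pvhqMF 𝔇 pos π K x r₂) : pos v ∈ K := hv.1.2.2

/-- `NBon` is decreasing in the set of sites -/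
theorem pvhqf_nbon_sub {M M' : Set V} (h : M' ⊆ M) (hE : 𝔇.NBon M σ) : 𝔇.NBon M' σ := by
  rintro ⟨i, j, q, h1, h2, h3, h4, h5, h6, h7, h8⟩
  exact hE ⟨i, j, q, h1, h2, h3, h4, h5, h6, h7, fun y hy => ⟨(h8 y hy).1, (h8 y hy).2.1, h (h8 y hy).2.2⟩⟩

/-- (C1) is free: `NBon (NU ∩ ball) ⟹ NBon MF` -/
theorem pvhqf_E_of_nu (hE : 𝔇.NBon {v | v ∈ 𝔇.NU pos π ∧ ‖pos v - x‖ ≤ r₂} σ) : 𝔇.NBon (pvhqMF 𝔇 pos π K x r₂) σ := pvhqf_nbon_sub (fun _ hv => pvhqf_mf_mu hv) hE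

/-- (C3a) -/
theorem pvhqf_E_anti (h : ∀ v ∈ pvhqMF 𝔇 pos π K x r₂, σ' v ≤ σ v) (hE : 𝔇.NBon (pvhqMF 𝔇 pos π K x r₂) σ) : 𝔇.NBon (pvhqMF 𝔇 pos π K x r₂) σ' :=
  pvc4_nbon_anti 𝔇 (fun v hv _ hb => pvhq_le_true (h v hv) hb) hE

theorem pvhqf_mf_sub_N : pvhqMF 𝔇 pos π K x r₂ ⊆ pvhqNV 𝔇 pos π K x r₂ := fun _ hv => Or.inr hv

end defs

/-! ## 2. the data of one colouring -/

section same

variable {V D : Type} {T : PvMap V D} {𝔇 𝔇' : PvwDat T}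

theorem PvhqSame.YF (h : PvhqSame 𝔇 𝔇') (pos : V → ℂ) (π : PvwPat) (K : Set ℂ) : pvhqYF 𝔇 pos π K = pvhqYF 𝔇' pos π K := by
  unfold pvhqYF
  rw [h.Yr0, h.tp.ap, h.sm.am]

theorem PvhqSame.NF (h : PvhqSame 𝔇 𝔇') (pos : V → ℂ) (π : PvwPat) (K : Set ℂ) : pvhqNF 𝔇 pos π K = pvhqNF 𝔇' pos π K := by
  unfold pvhqNF
  rw [h.YF]

theorem PvhqSame.MF (h : PvhqSame 𝔇 𝔇') (pos : V → ℂ) (π : PvwPat) (K : Set ℂ) (x : ℂ) (r₂ : ℝ) : pvhqMF 𝔇 pos π K x r₂ = pvhqMF 𝔇' pos π K x r₂ := by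
  unfold pvhqMF
  rw [h.NF]

/-- the read sites: same half states, same `g₀` (vertices and right apexes) -/
theorem PvhqSame.NV (h : PvhqSame 𝔇 𝔇') (hg : 𝔇.g.verts = 𝔇'.g.verts) (ha : 𝔇.apx = 𝔇'.apx) (pos : V → ℂ) (π : PvwPat) (K : Set ℂ) (x : ℂ) (r₂ : ℝ) :
    pvhqNV 𝔇 pos π K x r₂ = pvhqNV 𝔇' pos π K x r₂ := by
  unfold pvhqNV
  rw [h.fzY, hg, ha, h.MF]

end same

/-! ## 3. transfer -/

section loc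

variable {V D V' D' : Type} {T : PvMap V D} {T' : PvMap V' D'} {R : D → D' → Prop} {pos : V → ℂ} {pos' : V' → ℂ} {K : Set ℂ} {𝔇 : PvwDat T} {𝔇' : PvwDat T'} {π : PvwPat} {x : ℂ} {r₂ : ℝ}

theorem pvhqf_yf_fwd (L : PvLocP T T' R pos pos' K) (G : PvLocDat R 𝔇 𝔇') (hKm : ∀ i, i ≤ 𝔇.s.nm → pos (T.src (𝔇.s.em i)) ∈ K) {v : V} (hv : v ∈ pvhqYF 𝔇 pos π K) :
    ∃ v', pvlocV T T' R v v' ∧ v' ∈ pvhqYF 𝔇' pos' π K := by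
  obtain ⟨a, ha, hc⟩ := hv
  have F := pvlw_fzY L.loc G
  have h1 : {u | u ∈ 𝔇.Yr0 pos π ∧ pos u ∈ K} ⊆ T.Int (plDom R) := fun v hv => (L.full v hv.2).1
  have h2 : ∀ v v', pvlocV T T' R v v' → v ∈ {u | u ∈ 𝔇.Yr0 pos π ∧ pos u ∈ K} → v' ∈ {u | u ∈ 𝔇'.Yr0 pos' π ∧ pos' u ∈ K} := fun v v' hv hm =>
    ⟨⟨⟨fun hf => hm.1.1.1 ((F.iff L.loc hv).2 hf), by rw [← pvlw_pos L hv]; exact hm.1.1.2⟩, by rw [← pvlw_pos L hv]; exact hm.1.2⟩, by rw [← pvlw_pos L hv]; exact hm.2⟩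
  have haY : a ∈ {u | u ∈ 𝔇.Yr0 pos π ∧ pos u ∈ K} := by
    obtain ⟨q, q0, -, q2⟩ := hc
    exact q0 ▸ q2 _ ⟨0, Nat.zero_le _, rfl⟩
  obtain ⟨a', haa⟩ := pvlw_vertex L haY.2
  obtain ⟨v', k1, k2⟩ := pvlw_comp L.loc h1 h2 haa hc
  refine ⟨v', k1, a', ?_, k2⟩
  rcases ha with rfl | rfl | ⟨w, hw, hadj⟩
  · exact Or.inl (pvloc_v_fn L.loc haa (pvlw_ap L.loc G.t))
  · exact Or.inr (Or.inl (pvloc_v_fn L.loc haa (pvlw_am L G.s hKm)))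
  · obtain ⟨w', hww, hadj'⟩ := pvloc_adj L.loc haa (h1 haY) hadj
    exact Or.inr (Or.inr ⟨w', by rw [← pvlw_pos L hww]; exact hw, hadj'⟩)

/-- **`YF` is carried over**, NO hypothesis on the regions -/
theorem pvhqf_yf (L : PvLocP T T' R pos pos' K) (G : PvLocDat R 𝔇 𝔇') (hKm : ∀ i, i ≤ 𝔇.s.nm → pos (T.src (𝔇.s.em i)) ∈ K) : PvLocSet T T' R (pvhqYF 𝔇 pos π K) (pvhqYF 𝔇' pos' π K) := by
  refine ⟨fun v hv => pvhqf_yf_fwd L G hKm hv, fun v' hv' => ?_⟩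
  obtain ⟨v, k1, k2⟩ := pvhqf_yf_fwd L.symm G.symm (pvlw_hull_m L G.s hKm) hv'
  exact ⟨v, pvloc_v_symm k1, k2⟩

theorem pvhqf_nf (L : PvLocP T T' R pos pos' K) (G : PvLocDat R 𝔇 𝔇') (hKm : ∀ i, i ≤ 𝔇.s.nm → pos (T.src (𝔇.s.em i)) ∈ K) {v : V} {v' : V'} (hv : pvlocV T T' R v v') :
    v ∈ pvhqNF 𝔇 pos π K ↔ v' ∈ pvhqNF 𝔇' pos' π K := by
  show (v ∉ pvhqYF 𝔇 pos π K ∧ pos v ∉ π.Ycol ∧ pos v ∈ K) ↔ (v' ∉ pvhqYF 𝔇' pos' π K ∧ pos' v' ∉ π.Ycol ∧ pos' v' ∈ K)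
  rw [(pvhqf_yf L G hKm).iff L.loc hv, pvlw_pos L hv]

theorem pvhqf_mf (L : PvLocP T T' R pos pos' K) (G : PvLocDat R 𝔇 𝔇') (hKm : ∀ i, i ≤ 𝔇.s.nm → pos (T.src (𝔇.s.em i)) ∈ K) {v : V} {v' : V'} (hv : pvlocV T T' R v v') :
    v ∈ pvhqMF 𝔇 pos π K x r₂ ↔ v' ∈ pvhqMF 𝔇' pos' π K x r₂ := by
  show (v ∈ pvhqNF 𝔇 pos π K ∧ ‖pos v - x‖ ≤ r₂) ↔ (v' ∈ pvhqNF 𝔇' pos' π K ∧ ‖pos' v' - x‖ ≤ r₂)
  rw [pvhqf_nf L G hKm hv, pvlw_pos L hv]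

theorem pvhqf_mf_set (L : PvLocP T T' R pos pos' K) (G : PvLocDat R 𝔇 𝔇') (hKm : ∀ i, i ≤ 𝔇.s.nm → pos (T.src (𝔇.s.em i)) ∈ K) :
    PvLocSet T T' R (pvhqMF 𝔇 pos π K x r₂) (pvhqMF 𝔇' pos' π K x r₂) := by
  constructor
  · intro v hv
    obtain ⟨v', k⟩ := pvlw_vertex L (pvhqf_mf_far hv)
    exact ⟨v', k, (pvhqf_mf L G hKm k).1 hv⟩
  · intro v' hv'
    obtain ⟨v, k⟩ := pvlw_vertex L.symm (pvhqf_mf_far hv')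
    have k' : pvlocV T T' R v v' := pvloc_v_symm k
    exact ⟨v, k', (pvhqf_mf L G hKm k').2 hv'⟩

/-- the right apexes off `Yin` correspond -/
theorem pvhqf_apx_set (L : PvLocP T T' R pos pos' K) (G : PvLocDat R 𝔇 𝔇') (h2 : ∀ k, k ≤ 𝔇.g.n → pos (𝔇.g.v k) ∈ K) :
    PvLocSet T T' R {v | v ∈ 𝔇.apx ∧ pos v ∉ π.Yin} {v' | v' ∈ 𝔇'.apx ∧ pos' v' ∉ π.Yin} := by
  have F := pvlw_apx L G h2
  constructor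
  · rintro v ⟨hv, hp⟩
    obtain ⟨v', k1, k2⟩ := F.1 v hv
    exact ⟨v', k1, k2, by rw [← pvlw_pos L k1]; exact hp⟩
  · rintro v' ⟨hv, hp⟩
    obtain ⟨v, k1, k2⟩ := F.2 v' hv
    exact ⟨v, k1, k2, by rw [pvlw_pos L k1]; exact hp⟩

/-- **THE READ SITES OF THE KIT v2 CORRESPOND** (field `N` of `PvrdKit`): only `g₀` and the black bank of `Σ⁻(s)` are asked over `K` -/
theorem pvhqf_N_set (L : PvLocP T T' R pos pos' K) (G : PvLocDat R 𝔇 𝔇') (hKm : ∀ i, i ≤ 𝔇.s.nm → pos (T.src (𝔇.s.em i)) ∈ K) (h2 : ∀ k, k ≤ 𝔇.g.n → pos (𝔇.g.v k) ∈ K) :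
    PvLocSet T T' R (pvhqNV 𝔇 pos π K x r₂) (pvhqNV 𝔇' pos' π K x r₂) :=
  (((pvlw_fzY L.loc G).union (pvlw_pth_verts G.g)).union (pvhqf_apx_set L G h2)).union (pvhqf_mf_set L G hKm)

/-- the inner arc of a gate: at least one dart, it ends at `g⁺` -/
theorem pvhqf_inn {𝔖 : PvwSt T} {h : ℝ} {z : ℂ} {τ : PvwTy} {s : V → Bool} (hg : 𝔖.Gate pos h z τ s) : 0 < 𝔖.inn.n ∧ 𝔖.inn.v 𝔖.inn.n = 𝔖.gp := by
  obtain ⟨n, h1, -, j, a0, an, a1, -⟩ := hg.strand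
  have e2 : 𝔖.inn.v 𝔖.inn.n = 𝔖.gp := by
    have e1 := (a1 𝔖.inn.n le_rfl).2.1
    rw [an] at e1
    rw [e1]; show T.src (pvasIt T s 𝔖.dm n) = _; rw [h1]; rfl
  have e3 : 𝔖.inn.v 0 = 𝔖.gm := a0
  refine ⟨Nat.pos_of_ne_zero fun h0 => hg.ne ?_, e2⟩
  rw [← e2, h0, e3]

/-- **`E = NBon MF` IS CARRIED OVER** (field `E` of `PvrdKit`) -/
theorem pvhqf_E (L : PvLocP T T' R pos pos' K) (G : PvLocDat R 𝔇 𝔇') (hKm : ∀ i, i ≤ 𝔇.s.nm → pos (T.src (𝔇.s.em i)) ∈ K) (h2 : ∀ k, k ≤ 𝔇.g.n → pos (𝔇.g.v k) ∈ K)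
    {N : PvwNum} {h : ℝ} (hok : 𝔇.Ok pos N h π) {σ : V → Bool} {σ' : V' → Bool} (hσ : ∀ d d', R d d' → σ (T.src d) = σ' (T'.src d'))
    (hE : 𝔇.NBon (pvhqMF 𝔇 pos π K x r₂) σ) : 𝔇'.NBon (pvhqMF 𝔇' pos' π K x r₂) σ' := by
  obtain ⟨s1, s3⟩ := pvhqf_inn hok.st_s.gate
  obtain ⟨t1, -⟩ := pvhqf_inn hok.st_t.gate
  refine pvlw_nbU L G.s.gt.inn G.g G.t.gt.inn h2 s1 t1 ?_ hσ (fun v' hv' => pvhqf_mf_far hv') (fun v v' hv hv' => (pvhqf_mf L G hKm hv).2 hv') hE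
  rw [𝔇.s.inn.tgt_e _ (by omega), hok.g0, ← s3]
  congr 1; omega

end loc

end Claimed.Agent.R289
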