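import Claimed.Agent.R289.Tr.Force
import Claimed.Agent.R289.Tr.Chain

/-!
# Row 289 (S0537), THE WALL, engine, file Tr/Stop : THE STOPPING-SET COLOUR RESAMPLER ON ONE LABELLED SAMPLE      (owner helper175; cut of 141, msg 72483 / (G2) of msg 74182; prefix `pvtq_`, `pvtq`, `Pvtq`)      0 sorry

SPACE `B × (V → Bool)`, law `β ⊗ colLaw V`: `b : B` = the geometry (ANY measurable space, a PARAMETER), `c : V → Bool` = fair colours of the labelled sites.
* §0 `pvtq_glue_measurable`, **`pvtq_glue_map`** (model free): countably many measure preserving maps `Φ l`, glued along a label which is read before and after the map (`T (Φ l ω) = l ↔ T' ω = l`), give a measure preserving map.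
* §1 `pvtqOv cl c s` : the colouring `c`, the colours of the class `j` (`cl v = some j`) replaced by those of the seed `s j`; `cl v = none` = KEPT.      `pvtq_ov_map` (fixed classes), `pvtq_ov_map_geo` (classes read from `b`).
* §2 `PvtqReg T cl` : `T : B × (V → Bool) → L` the label / state (`L` countable, measurable fibres), `cl : B → L → V → Option J` the classes of the fresh sites given the geometry and the label, STOP = the label reads the kept colours only.
  `pvtqR T cl (x, s)` THE RESAMPLER (independent seeds `s : J → V → Bool`, one per class = mouth):  `H.T_R` (state unchanged), `H.cl_R`, `H.R_congr` (the overwritten colours are never read), `H.R_R`, `H.measurable_R`,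
  **`H.map_R : ((β ⊗ κ) ⊗ κ^J).map (pvtqR T cl) = β ⊗ κ`**, `H.lintegral_R`, **`H.smarkov`**, `H.smarkov_meas` (strong Markov property), `H.bind` (classes may be merged / renamed / dropped).
* §3 one class at a time: `pvtqR1 T cl j x a`; `H.T_R1`, `H.R1_R` (to resample the class `j` of the glued sample = to resample the seed `j`), `H.R_R1`, `H.R1_R1`, **`H.R1_comm`**, `H.measurable_R1`, **`H.map_R1`**.
* §4 the shape of 141: `pvtqKeep K0 Fz x = K0 x.1 ∪ Fz x`, `pvtqRk K0 Fz ((b, c), c') = (b, pvfqMix (Keep (b, c)) (c, c'))`, `PvtqKeepReg K0 Fz`;  `H.Fz_Rk`, `H.keep_Rk`, `H.measurable_Rk`, **`H.map_Rk`**;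
  `H.reg` : ANY measurable choice `cls b F v` of classes of the fresh sites gives `PvtqReg Fz (pvtqCl K0 cls)`, so §2, §3, §5 apply.
* §5 ATOMS in the vocabulary of 218 (`Tr/Chain.lean`), to be plugged into `pvtu_rs_pi` of 141 (`Tr/Multi.lean`): `pvtqAt T cl j (x, y) = pvtqR1 T cl j x y.2` (the seed = the colours of the independent copy);
  **`H.rs_at : PvtkRs (β ⊗ κ) (pvtqAt T cl j)`**, **`H.comm_at`** (`j ≠ k`), `H.ig_T`, `H.ig_fst`, `H.ig_cl`, `H.ig_at` (a function which does not read the class `j`), `H.ig_col`.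
-/

set_option autoImplicit false
set_option linter.unusedSectionVars false

namespace Claimed.Agent.R289

open MeasureTheory ProbabilityTheory Set
open scoped ENNReal

/-! ## 0. the gluing lemma (model free) -/

section glue

variable {Ω X L : Type*} [MeasurableSpace Ω] [MeasurableSpace X] [Countable L]

theorem pvtq_glue_measurable {T' : Ω → L} (mT' : ∀ l, MeasurableSet {ω | T' ω = l}) {Φ : L → Ω → X} (mΦ : ∀ l, Measurable (Φ l)) :
    Measurable fun ω => Φ (T' ω) ω := by
  intro A hA
  have e : (fun ω => Φ (T' ω) ω) ⁻¹' A = ⋃ l, ({ω | T' ω = l} ∩ Φ l ⁻¹' A) := by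
    ext ω
    simp only [mem_preimage, mem_iUnion, mem_inter_iff, mem_ofPred_eq]
    constructor
    · intro h; exact ⟨T' ω, rfl, h⟩
    · rintro ⟨l, rfl, h⟩; exact h
  rw [e]
  exact MeasurableSet.iUnion fun l => (mT' l).inter (mΦ l hA)

/-- **gluing**: countably many measure preserving maps `Φ l`, glued along a label which is read BEFORE and AFTER the map -/
theorem pvtq_glue_map (P : Measure Ω) (μ : Measure X) {T' : Ω → L} (mT' : ∀ l, MeasurableSet {ω | T' ω = l}) {T : X → L}
    (mT : ∀ l, MeasurableSet {x | T x = l}) {Φ : L → Ω → X} (mΦ : ∀ l, Measurable (Φ l)) (hΦ : ∀ l, P.map (Φ l) = μ)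
    (hT : ∀ l ω, T (Φ l ω) = l ↔ T' ω = l) : P.map (fun ω => Φ (T' ω) ω) = μ := by
  ext A hA
  rw [Measure.map_apply (pvtq_glue_measurable mT' mΦ) hA]
  have e1 : (fun ω => Φ (T' ω) ω) ⁻¹' A = ⋃ l, Φ l ⁻¹' (A ∩ {x | T x = l}) := by
    ext ω
    simp only [mem_preimage, mem_iUnion, mem_inter_iff, mem_ofPred_eq]
    constructor
    · intro h; exact ⟨T' ω, h, (hT _ ω).2 rfl⟩
    · rintro ⟨l, h, h'⟩
      rw [(hT l ω).1 h']; exact h
  have e2 : A = ⋃ l, (A ∩ {x | T x = l}) := by
    ext x
    simp only [mem_iUnion, mem_inter_iff, mem_ofPred_eq, exists_and_left, exists_eq', and_true]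
  have d2 : Pairwise (Function.onFun Disjoint fun l => A ∩ {x | T x = l}) := by
    intro l l' hll
    refine Set.disjoint_left.2 ?_
    rintro x ⟨_, h⟩ ⟨_, h'⟩
    exact hll (h.symm.trans h')
  have d1 : Pairwise (Function.onFun Disjoint fun l => Φ l ⁻¹' (A ∩ {x | T x = l})) := by
    intro l l' hll
    refine Set.disjoint_left.2 ?_
    rintro ω ⟨_, h⟩ ⟨_, h'⟩
    exact hll (((hT l ω).1 h).symm.trans ((hT l' ω).1 h'))
  rw [e1, measure_iUnion d1 fun l => mΦ l (hA.inter (mT l))]
  conv_rhs => rw [e2, measure_iUnion d2 fun l => hA.inter (mT l)]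
  refine tsum_congr fun l => ?_
  rw [← Measure.map_apply (mΦ l) (hA.inter (mT l)), hΦ l]

end glue

/-! ## 1. overwriting the colours of the classes by the seeds; fixed geometry -/

section ov

variable {V : Type} {J : Type*}

/-- the colouring `c`, the colours of the class `j` replaced by those of the seed `s j`      (`cl v = none` : the site `v` is KEPT) -/
def pvtqOv (cl : V → Option J) (c : V → Bool) (s : J → V → Bool) : V → Bool := fun v => (cl v).elim (c v) fun j => s j v

theorem pvtq_eqns_cite : True := by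
  have := @pvtqOv.eq_1.{0}
  trivial

theorem pvtqOv_none {cl : V → Option J} {v : V} (h : cl v = none) (c : V → Bool) (s : J → V → Bool) : pvtqOv cl c s v = c v := by
  simp only [pvtqOv, h, Option.elim_none]

theorem pvtqOv_some {cl : V → Option J} {v : V} {j : J} (h : cl v = some j) (c : V → Bool) (s : J → V → Bool) : pvtqOv cl c s v = s j v := by
  simp only [pvtqOv, h, Option.elim_some]

theorem pvtq_measurable_ov {Ω : Type*} [MeasurableSpace Ω] [Countable J] {cl : Ω → V → Option J} (mcl : ∀ v o, MeasurableSet {ω | cl ω v = o})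
    {c : Ω → V → Bool} (mc : Measurable c) {s : Ω → J → V → Bool} (ms : Measurable s) : Measurable fun ω => pvtqOv (cl ω) (c ω) (s ω) := by
  refine measurable_pi_lambda _ fun v => ?_
  have h := pvtq_glue_measurable (T' := fun ω => cl ω v) (mcl v) (Φ := fun o ω => o.elim (c ω v) fun j => s ω j v) ?_
  · exact h
  · intro o
    cases o with
    | none => exact (measurable_pi_apply v).comp mc
    | some j => exact (measurable_pi_apply v).comp ((measurable_pi_apply j).comp ms)

/-- **fixed classes**: the overwritten colouring is fair -/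
theorem pvtq_ov_map [Fintype J] (cl : V → Option J) :
    ((colLaw V).prod (Measure.pi fun _ : J => colLaw V)).map (fun p => pvtqOv cl p.1 p.2) = colLaw V := by
  classical
  have hm : Measurable fun p : (V → Bool) × (J → V → Bool) => pvtqOv cl p.1 p.2 :=
    pvtq_measurable_ov (cl := fun _ : (V → Bool) × (J → V → Bool) => cl) (fun v o => MeasurableSet.const _) measurable_fst measurable_snd
  conv_rhs => rw [pvf_colLaw_eq]
  refine Measure.eq_infinitePi _ fun t B hB => ?_
  have hpre : (fun p : (V → Bool) × (J → V → Bool) => pvtqOv cl p.1 p.2) ⁻¹' (Set.pi (t : Set V) B)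
      = (Set.pi ((t.filter fun v => cl v = none : Finset V) : Set V) B)
        ×ˢ (Set.pi univ fun j => Set.pi ((t.filter fun v => cl v = some j : Finset V) : Set V) B) := by
    ext p
    simp only [mem_preimage, Set.mem_pi, mem_prod, Finset.coe_filter, Set.mem_ofPred_eq, Finset.mem_coe, mem_univ, true_imp_iff]
    constructor
    · intro h
      refine ⟨fun v hv => ?_, fun j v hv => ?_⟩
      · have := h v hv.1; rwa [pvtqOv_none hv.2] at this
      · have := h v hv.1; rwa [pvtqOv_some hv.2] at this
    · rintro ⟨h1, h2⟩ v hv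
      cases hc : cl v with
      | none => rw [pvtqOv_none hc]; exact h1 v ⟨hv, hc⟩
      | some j => rw [pvtqOv_some hc]; exact h2 j v ⟨hv, hc⟩
  rw [Measure.map_apply hm (MeasurableSet.pi t.countable_toSet fun i _ => hB i), hpre, Measure.prod_prod, Measure.pi_pi]
  simp only [pvf_colLaw_eq]
  rw [Measure.infinitePi_pi _ fun i _ => hB i]
  have h2 : ∀ j : J, (Measure.infinitePi fun _ : V => pvCoin) (Set.pi ((t.filter fun v => cl v = some j : Finset V) : Set V) B)
      = ∏ v ∈ t.filter fun v => cl v = some j, pvCoin (B v) := fun j => Measure.infinitePi_pi _ fun i _ => hB i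
  simp only [h2]
  rw [← Finset.prod_fiberwise t cl fun v => pvCoin (B v), Fintype.prod_option]

variable {B : Type*} [MeasurableSpace B]

/-- the same with a geometry `b` as a PARAMETER of the classes -/
theorem pvtq_ov_map_geo [Fintype J] (β : Measure B) [SFinite β] {cl : B → V → Option J} (mcl : ∀ v o, MeasurableSet {b | cl b v = o}) :
    ((β.prod (colLaw V)).prod (Measure.pi fun _ : J => colLaw V)).map (fun p => (p.1.1, pvtqOv (cl p.1.1) p.1.2 p.2)) = β.prod (colLaw V) := by
  have h1 := measurePreserving_prodAssoc β (colLaw V) (Measure.pi fun _ : J => colLaw V)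
  have hg : Measurable (Function.uncurry fun (b : B) (q : (V → Bool) × (J → V → Bool)) => pvtqOv (cl b) q.1 q.2) :=
    pvtq_measurable_ov (cl := fun p : B × ((V → Bool) × (J → V → Bool)) => cl p.1) (fun v o => measurable_fst (mcl v o))
      (measurable_fst.comp measurable_snd) (measurable_snd.comp measurable_snd)
  have h2 := (MeasurePreserving.id β).skew_product (μc := (colLaw V).prod (Measure.pi fun _ : J => colLaw V)) (μd := colLaw V) hg
    (Filter.Eventually.of_forall fun b => pvtq_ov_map (cl b))
  exact (h2.comp h1).map_eq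

end ov

/-! ## 2. the stopping label; THE RESAMPLER -/

section stop

variable {B : Type*} [MeasurableSpace B] {V : Type} {L J : Type*}

/-- **regular exploration**: `T x` = the label (state) of the sample `x = (b, c)`, COUNTABLY many values; `cl b l v = none` : the site `v` is KEPT when the geometry is `b` and the label `l`;
`cl b l v = some j` : `v` is FRESH, of the class `j`.   `stop` : the label reads the kept colours only. -/
structure PvtqReg (T : B × (V → Bool) → L) (cl : B → L → V → Option J) : Prop where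
  mT : ∀ l, MeasurableSet {x | T x = l}
  mcl : ∀ l v o, MeasurableSet {b | cl b l v = o}
  stop : ∀ b c c', (∀ v, cl b (T (b, c)) v = none → c' v = c v) → T (b, c') = T (b, c)

/-- **the resampler**: the fresh colours of the class `j` are replaced by those of the seed `s j` -/
def pvtqR (T : B × (V → Bool) → L) (cl : B → L → V → Option J) (p : (B × (V → Bool)) × (J → V → Bool)) : B × (V → Bool) :=
  (p.1.1, pvtqOv (cl p.1.1 (T p.1)) p.1.2 p.2)

theorem pvtq_eqns_cite2 : True := by
  have := @pvtqR.eq_1.{0, 0, 0}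
  trivial

variable {T : B × (V → Bool) → L} {cl : B → L → V → Option J}

theorem pvtqR_fst (x : B × (V → Bool)) (s : J → V → Bool) : (pvtqR T cl (x, s)).1 = x.1 := rfl

theorem pvtqR_none {x : B × (V → Bool)} {v : V} (h : cl x.1 (T x) v = none) (s : J → V → Bool) : (pvtqR T cl (x, s)).2 v = x.2 v :=
  pvtqOv_none h _ _

theorem pvtqR_some {x : B × (V → Bool)} {v : V} {j : J} (h : cl x.1 (T x) v = some j) (s : J → V → Bool) : (pvtqR T cl (x, s)).2 v = s j v :=
  pvtqOv_some h _ _

namespace PvtqReg

/-- the label is not changed by the resampler -/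
theorem T_R (H : PvtqReg T cl) (x : B × (V → Bool)) (s : J → V → Bool) : T (pvtqR T cl (x, s)) = T x :=
  H.stop x.1 x.2 _ fun _ hv => pvtqOv_none hv _ _

theorem cl_R (H : PvtqReg T cl) (x : B × (V → Bool)) (s : J → V → Bool) :
    cl (pvtqR T cl (x, s)).1 (T (pvtqR T cl (x, s))) = cl x.1 (T x) := by rw [H.T_R, pvtqR_fst]

/-- the overwritten colours are never read -/
theorem R_congr (H : PvtqReg T cl) {b : B} {c c' : V → Bool} (h : ∀ v, cl b (T (b, c)) v = none → c' v = c v) (s : J → V → Bool) :
    pvtqR T cl ((b, c'), s) = pvtqR T cl ((b, c), s) := by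
  have hT := H.stop b c c' h
  refine Prod.ext rfl ?_
  funext v
  cases hc : cl b (T (b, c)) v with
  | none => rw [pvtqR_none (x := (b, c)) hc, pvtqR_none (x := (b, c')) (by rw [hT]; exact hc)]; exact h v hc
  | some j => rw [pvtqR_some (x := (b, c)) hc, pvtqR_some (x := (b, c')) (by rw [hT]; exact hc)]

/-- the last seeds win -/
theorem R_R (H : PvtqReg T cl) (x : B × (V → Bool)) (s s' : J → V → Bool) : pvtqR T cl (pvtqR T cl (x, s), s') = pvtqR T cl (x, s') :=
  H.R_congr (b := x.1) (c := x.2) (fun _ hv => pvtqOv_none hv _ _) s'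

theorem measurable_R [Countable L] [Countable J] (H : PvtqReg T cl) : Measurable (pvtqR T cl) :=
  pvtq_glue_measurable (T' := fun p : (B × (V → Bool)) × (J → V → Bool) => T p.1) (fun l => measurable_fst (H.mT l))
    (Φ := fun l p => (p.1.1, pvtqOv (cl p.1.1 l) p.1.2 p.2)) fun l =>
      (measurable_fst.comp measurable_fst).prodMk
        (pvtq_measurable_ov (cl := fun p : (B × (V → Bool)) × (J → V → Bool) => cl p.1.1 l)
          (fun v o => (measurable_fst.comp measurable_fst) (H.mcl l v o)) (measurable_snd.comp measurable_fst) measurable_snd)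

/-- **THE RESAMPLER PRESERVES THE LAW** -/
theorem map_R [Countable L] [Fintype J] (H : PvtqReg T cl) (β : Measure B) [SFinite β] :
    ((β.prod (colLaw V)).prod (Measure.pi fun _ : J => colLaw V)).map (pvtqR T cl) = β.prod (colLaw V) := by
  refine pvtq_glue_map _ _ (T' := fun p : (B × (V → Bool)) × (J → V → Bool) => T p.1) (fun l => measurable_fst (H.mT l)) H.mT
    (Φ := fun l p => (p.1.1, pvtqOv (cl p.1.1 l) p.1.2 p.2)) (fun l => ?_) (fun l => pvtq_ov_map_geo β (H.mcl l)) ?_
  · exact (measurable_fst.comp measurable_fst).prodMk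
        (pvtq_measurable_ov (cl := fun p : (B × (V → Bool)) × (J → V → Bool) => cl p.1.1 l)
          (fun v o => (measurable_fst.comp measurable_fst) (H.mcl l v o)) (measurable_snd.comp measurable_fst) measurable_snd)
  · rintro l ⟨⟨b, c⟩, s⟩
    constructor
    · intro h
      have h1 := H.stop b (pvtqOv (cl b l) c s) c fun v hv => by
        rw [h] at hv
        exact (pvtqOv_none hv c s).symm
      exact h1.trans h
    · intro h
      have h0 : T (b, c) = l := h
      have h1 := H.stop b c (pvtqOv (cl b l) c s) fun v hv => by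
        rw [h0] at hv
        exact pvtqOv_none hv c s
      exact h1.trans h0

theorem measurePreserving_R [Countable L] [Fintype J] (H : PvtqReg T cl) (β : Measure B) [SFinite β] :
    MeasurePreserving (pvtqR T cl) ((β.prod (colLaw V)).prod (Measure.pi fun _ : J => colLaw V)) (β.prod (colLaw V)) :=
  ⟨H.measurable_R, H.map_R β⟩

/-- fresh copy, `lintegral` form -/
theorem lintegral_R [Countable L] [Fintype J] (H : PvtqReg T cl) (β : Measure B) [SFinite β] {F : B × (V → Bool) → ℝ≥0∞} (mF : Measurable F) :
    ∫⁻ x, ∫⁻ s, F (pvtqR T cl (x, s)) ∂(Measure.pi fun _ : J => colLaw V) ∂(β.prod (colLaw V)) = ∫⁻ x, F x ∂(β.prod (colLaw V)) := by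
  conv_rhs => rw [← H.map_R β, lintegral_map mF H.measurable_R]
  have hm : Measurable fun a : (B × (V → Bool)) × (J → V → Bool) => F (pvtqR T cl a) := mF.comp H.measurable_R
  rw [lintegral_prod _ hm.aemeasurable]

/-- **strong Markov property**: `G` is not changed by the resampler (it reads the geometry, the label, the kept colours) -/
theorem smarkov [Countable L] [Fintype J] (H : PvtqReg T cl) (β : Measure B) [SFinite β] {F G : B × (V → Bool) → ℝ≥0∞} (mF : Measurable F)
    (mG : Measurable G) (hG : ∀ x s, G (pvtqR T cl (x, s)) = G x) :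
    ∫⁻ x, G x * F x ∂(β.prod (colLaw V)) = ∫⁻ x, G x * ∫⁻ s, F (pvtqR T cl (x, s)) ∂(Measure.pi fun _ : J => colLaw V) ∂(β.prod (colLaw V)) := by
  have hGF : Measurable fun x => G x * F x := mG.mul mF
  rw [← H.lintegral_R β hGF]
  refine lintegral_congr fun x => ?_
  have hm : Measurable fun s : J → V → Bool => F (pvtqR T cl (x, s)) := mF.comp (H.measurable_R.comp measurable_prodMk_left)
  rw [← lintegral_const_mul _ hm]
  refine lintegral_congr fun s => ?_
  rw [hG]

/-- strong Markov property for events -/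
theorem smarkov_meas [Countable L] [Fintype J] (H : PvtqReg T cl) (β : Measure B) [SFinite β] {A E : Set (B × (V → Bool))} (mA : MeasurableSet A)
    (mE : MeasurableSet E) (hE : ∀ x s, pvtqR T cl (x, s) ∈ E ↔ x ∈ E) :
    (β.prod (colLaw V)) (E ∩ A) = ∫⁻ x in E, (Measure.pi fun _ : J => colLaw V) {s | pvtqR T cl (x, s) ∈ A} ∂(β.prod (colLaw V)) := by
  have h := H.smarkov β (F := A.indicator 1) (G := E.indicator 1) (measurable_one.indicator mA) (measurable_one.indicator mE) ?_
  · have e1 : (fun x => E.indicator (1 : B × (V → Bool) → ℝ≥0∞) x * A.indicator 1 x) = (E ∩ A).indicator 1 := by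
      funext x
      rw [Set.inter_indicator_one]; rfl
    rw [e1, lintegral_indicator_one (mE.inter mA)] at h
    rw [h, ← lintegral_indicator mE]
    refine lintegral_congr fun x => ?_
    have e2 : ∫⁻ s, A.indicator (1 : B × (V → Bool) → ℝ≥0∞) (pvtqR T cl (x, s)) ∂(Measure.pi fun _ : J => colLaw V)
        = (Measure.pi fun _ : J => colLaw V) {s | pvtqR T cl (x, s) ∈ A} := by
      have mS : MeasurableSet {s : J → V → Bool | pvtqR T cl (x, s) ∈ A} := (H.measurable_R.comp measurable_prodMk_left) mA
      rw [← lintegral_indicator_one mS]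
      rfl
    rw [e2]
    by_cases hx : x ∈ E
    · rw [indicator_of_mem hx, indicator_of_mem hx, Pi.one_apply, one_mul]
    · rw [indicator_of_notMem hx, indicator_of_notMem hx, zero_mul]
  · intro x s
    by_cases hx : x ∈ E
    · rw [indicator_of_mem hx, indicator_of_mem ((hE x s).2 hx)]; rfl
    · rw [indicator_of_notMem hx, indicator_of_notMem fun h' => hx ((hE x s).1 h')]

/-- classes may be merged, renamed, dropped (= kept) -/
theorem bind [Countable J] {J' : Type*} (H : PvtqReg T cl) (φ : J → Option J') : PvtqReg T fun b l v => (cl b l v).bind φ where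
  mT := H.mT
  mcl := by
    intro l v o
    have e : {b | (cl b l v).bind φ = o} = ⋃ o' : Option J, ⋃ _ : o'.bind φ = o, {b | cl b l v = o'} := by
      ext b
      simp only [mem_ofPred_eq, mem_iUnion, exists_prop]
      constructor
      · intro h; exact ⟨_, h, rfl⟩
      · rintro ⟨o', h, h'⟩; rw [h']; exact h
    rw [e]
    exact MeasurableSet.iUnion fun o' => MeasurableSet.iUnion fun _ => H.mcl l v o'
  stop := by
    intro b c c' h
    refine H.stop b c c' fun v hv => h v ?_
    rw [hv]; rfl

end PvtqReg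

/-! ## 3. one class at a time; commutation; seeds of the product model -/

open Classical in
/-- resample the class `j` only, with the seed `a` -/
noncomputable def pvtqR1 (T : B × (V → Bool) → L) (cl : B → L → V → Option J) (j : J) (x : B × (V → Bool)) (a : V → Bool) : B × (V → Bool) :=
  (x.1, fun v => if cl x.1 (T x) v = some j then a v else x.2 v)

theorem pvtqR1_fst (j : J) (x : B × (V → Bool)) (a : V → Bool) : (pvtqR1 T cl j x a).1 = x.1 := rfl

theorem pvtqR1_of_eq {j : J} {x : B × (V → Bool)} {v : V} (h : cl x.1 (T x) v = some j) (a : V → Bool) : (pvtqR1 T cl j x a).2 v = a v := if_pos h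

theorem pvtqR1_of_ne {j : J} {x : B × (V → Bool)} {v : V} (h : cl x.1 (T x) v ≠ some j) (a : V → Bool) : (pvtqR1 T cl j x a).2 v = x.2 v := if_neg h

open Classical in
/-- the class `j` alone -/
noncomputable def pvtqOnly (j : J) (k : J) : Option Unit := if k = j then some () else none

theorem pvtq_eqns_cite3 : True := by
  have := @pvtqR1.eq_1.{0, 0, 0}; have := @pvtqOnly.eq_1.{0}
  trivial

theorem pvtqR1_eq (j : J) (x : B × (V → Bool)) (a : V → Bool) :
    pvtqR1 T cl j x a = pvtqR T (fun b l v => (cl b l v).bind (pvtqOnly j)) (x, fun _ => a) := by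
  refine Prod.ext rfl ?_
  funext v
  by_cases h : cl x.1 (T x) v = some j
  · rw [pvtqR1_of_eq h]
    refine (pvtqR_some (T := T) (cl := fun b l v => (cl b l v).bind (pvtqOnly j)) (x := x) (v := v) (j := ()) ?_ fun _ => a).symm
    simp only [h, Option.bind_some, pvtqOnly, if_true]
  · rw [pvtqR1_of_ne h]
    refine (pvtqR_none (T := T) (cl := fun b l v => (cl b l v).bind (pvtqOnly j)) (x := x) ?_ _).symm
    cases hc : cl x.1 (T x) v with
    | none => rfl
    | some k =>
      have hk : k ≠ j := fun e => h (by rw [hc, e])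
      simp only [Option.bind_some, pvtqOnly, if_neg hk]

namespace PvtqReg

theorem T_R1 (H : PvtqReg T cl) (j : J) (x : B × (V → Bool)) (a : V → Bool) : T (pvtqR1 T cl j x a) = T x :=
  H.stop x.1 x.2 _ fun _ hv => pvtqR1_of_ne (by rw [hv]; exact (Option.some_ne_none _).symm) a

theorem cl_R1 (H : PvtqReg T cl) (j : J) (x : B × (V → Bool)) (a : V → Bool) :
    cl (pvtqR1 T cl j x a).1 (T (pvtqR1 T cl j x a)) = cl x.1 (T x) := by rw [H.T_R1, pvtqR1_fst]

/-- **seeds of the product model**: to resample the class `j` of the glued sample = to resample the seed `j` -/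
theorem R1_R [DecidableEq J] (H : PvtqReg T cl) (j : J) (x : B × (V → Bool)) (s : J → V → Bool) (a : V → Bool) :
    pvtqR1 T cl j (pvtqR T cl (x, s)) a = pvtqR T cl (x, Function.update s j a) := by
  refine Prod.ext rfl ?_
  funext v
  have hcl := congrFun (H.cl_R x s) v
  cases hc : cl x.1 (T x) v with
  | none =>
    rw [pvtqR1_of_ne (by rw [hcl, hc]; exact (Option.some_ne_none _).symm), pvtqR_none hc, pvtqR_none hc]
  | some k =>
    rw [pvtqR_some hc]
    by_cases hk : k = j
    · subst hk
      rw [pvtqR1_of_eq (by rw [hcl, hc]), Function.update_self]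
    · rw [pvtqR1_of_ne (by rw [hcl, hc]; exact fun h => hk (Option.some.inj h)), pvtqR_some hc, Function.update_of_ne hk]

/-- the seeds win -/
theorem R_R1 (H : PvtqReg T cl) (j : J) (x : B × (V → Bool)) (a : V → Bool) (s : J → V → Bool) :
    pvtqR T cl (pvtqR1 T cl j x a, s) = pvtqR T cl (x, s) :=
  H.R_congr (b := x.1) (c := x.2) (fun _ hv => pvtqR1_of_ne (by rw [hv]; exact (Option.some_ne_none _).symm) a) s

theorem R1_R1 (H : PvtqReg T cl) (j : J) (x : B × (V → Bool)) (a a' : V → Bool) : pvtqR1 T cl j (pvtqR1 T cl j x a) a' = pvtqR1 T cl j x a' := by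
  refine Prod.ext rfl ?_
  funext v
  have hcl := congrFun (H.cl_R1 j x a) v
  by_cases h : cl x.1 (T x) v = some j
  · rw [pvtqR1_of_eq (by rw [hcl, h]), pvtqR1_of_eq h]
  · rw [pvtqR1_of_ne (by rw [hcl]; exact h), pvtqR1_of_ne h, pvtqR1_of_ne h]

/-- **commutation** of the resamplers of two classes -/
theorem R1_comm (H : PvtqReg T cl) {j k : J} (hjk : j ≠ k) (x : B × (V → Bool)) (a a' : V → Bool) :
    pvtqR1 T cl j (pvtqR1 T cl k x a) a' = pvtqR1 T cl k (pvtqR1 T cl j x a') a := by
  refine Prod.ext rfl ?_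
  funext v
  have hk := congrFun (H.cl_R1 k x a) v
  have hj := congrFun (H.cl_R1 j x a') v
  by_cases h : cl x.1 (T x) v = some j
  · have h' : cl x.1 (T x) v ≠ some k := by rw [h]; exact fun e => hjk (Option.some.inj e)
    rw [pvtqR1_of_eq (by rw [hk, h]), pvtqR1_of_ne (by rw [hj]; exact h'), pvtqR1_of_eq h]
  · rw [pvtqR1_of_ne (by rw [hk]; exact h)]
    by_cases h' : cl x.1 (T x) v = some k
    · rw [pvtqR1_of_eq h', pvtqR1_of_eq (by rw [hj, h'])]
    · rw [pvtqR1_of_ne h', pvtqR1_of_ne (by rw [hj]; exact h'), pvtqR1_of_ne h]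

theorem measurable_R1 [Countable L] [Countable J] (H : PvtqReg T cl) (j : J) :
    Measurable fun p : (B × (V → Bool)) × (V → Bool) => pvtqR1 T cl j p.1 p.2 := by
  simp only [pvtqR1_eq]
  exact (H.bind (pvtqOnly j)).measurable_R.comp (measurable_fst.prodMk (measurable_pi_lambda _ fun _ => measurable_snd))

/-- the resampler of one class preserves the law -/
theorem map_R1 [Countable L] [Countable J] (H : PvtqReg T cl) (j : J) (β : Measure B) [SFinite β] :
    ((β.prod (colLaw V)).prod (colLaw V)).map (fun p => pvtqR1 T cl j p.1 p.2) = β.prod (colLaw V) := by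
  have h1 := (MeasurePreserving.id (β.prod (colLaw V))).prod ((measurePreserving_funUnique (colLaw V) Unit).symm _)
  have h2 := ((H.bind (pvtqOnly j)).measurePreserving_R β).comp h1
  have e : (fun p : (B × (V → Bool)) × (V → Bool) => pvtqR1 T cl j p.1 p.2)
      = pvtqR T (fun b l v => (cl b l v).bind (pvtqOnly j)) ∘ Prod.map id ⇑(MeasurableEquiv.funUnique Unit (V → Bool)).symm := by
    funext p
    rw [pvtqR1_eq]
    rfl
  rw [e]
  exact h2.map_eq

end PvtqReg

end stop

/-! ## 4. the shape of 141 : `Keep (b, c) = K0 b ∪ Fz (b, c)`, `Fz` a finite set of sites -/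

section keep

variable {B : Type*} [MeasurableSpace B] {V : Type} {J : Type*}

/-- the kept sites: `K0 b` (read from the geometry) and the frozen sites `Fz (b, c)` (explored) -/
def pvtqKeep (K0 : B → Set V) (Fz : B × (V → Bool) → Finset V) (x : B × (V → Bool)) : Set V := K0 x.1 ∪ ↑(Fz x)

/-- keep the colours of `Keep x`, take the seed elsewhere -/
noncomputable def pvtqRk (K0 : B → Set V) (Fz : B × (V → Bool) → Finset V) (p : (B × (V → Bool)) × (V → Bool)) : B × (V → Bool) :=
  (p.1.1, pvfqMix (pvtqKeep K0 Fz p.1) (p.1.2, p.2))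

/-- regular exploration, shape of 141 -/
structure PvtqKeepReg (K0 : B → Set V) (Fz : B × (V → Bool) → Finset V) : Prop where
  mF : ∀ F, MeasurableSet {x | Fz x = F}
  mK : ∀ v, MeasurableSet {b | v ∈ K0 b}
  stop : ∀ b c c', (∀ v ∈ pvtqKeep K0 Fz (b, c), c' v = c v) → Fz (b, c') = Fz (b, c)

open Classical in
/-- the classes of the fresh sites: `cls b F v` off `K0 b ∪ F` -/
noncomputable def pvtqCl (K0 : B → Set V) (cls : B → Finset V → V → Option J) (b : B) (F : Finset V) (v : V) : Option J :=
  if v ∈ K0 b ∪ ↑F then none else cls b F v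

theorem pvtq_eqns_cite4 : True := by
  have := @pvtqKeep.eq_1.{0}; have := @pvtqRk.eq_1.{0}; have := @pvtqCl.eq_1.{0, 0}
  trivial

variable {K0 : B → Set V} {Fz : B × (V → Bool) → Finset V}

theorem pvtqCl_of_mem {cls : B → Finset V → V → Option J} {b : B} {F : Finset V} {v : V} (h : v ∈ K0 b ∪ ↑F) : pvtqCl K0 cls b F v = none := if_pos h

theorem pvtqCl_of_notMem {cls : B → Finset V → V → Option J} {b : B} {F : Finset V} {v : V} (h : v ∉ K0 b ∪ ↑F) : pvtqCl K0 cls b F v = cls b F v :=
  if_neg h

namespace PvtqKeepReg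

/-- **the bridge to sec. 2, 3**: any measurable choice of classes of the fresh sites (mouth `+`, mouth `-`, ...; `none` = kept as well) -/
theorem reg (H : PvtqKeepReg K0 Fz) {cls : B → Finset V → V → Option J} (mcls : ∀ F v o, MeasurableSet {b | cls b F v = o}) :
    PvtqReg Fz (pvtqCl K0 cls) where
  mT := H.mF
  mcl := by
    intro F v o
    have mk : MeasurableSet {b | v ∈ K0 b ∪ ↑F} := by
      by_cases hv : v ∈ F
      · have e : {b | v ∈ K0 b ∪ ↑F} = univ := by
          ext b; simp only [mem_ofPred_eq, mem_union, Finset.mem_coe, hv, or_true, mem_univ]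
        rw [e]; exact MeasurableSet.univ
      · have e : {b | v ∈ K0 b ∪ ↑F} = {b | v ∈ K0 b} := by
          ext b; simp only [mem_ofPred_eq, mem_union, Finset.mem_coe, hv, or_false]
        rw [e]; exact H.mK v
    have e : {b | pvtqCl K0 cls b F v = o} = ({b | v ∈ K0 b ∪ ↑F} ∩ {_b | (none : Option J) = o}) ∪ ({b | v ∈ K0 b ∪ ↑F}ᶜ ∩ {b | cls b F v = o}) := by
      ext b
      simp only [mem_ofPred_eq, mem_union, mem_inter_iff, mem_compl_iff]
      by_cases hb : v ∈ K0 b ∨ v ∈ (F : Set V)
      · rw [pvtqCl_of_mem hb]; simp only [hb, true_and, not_true_eq_false, false_and, or_false]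
      · rw [pvtqCl_of_notMem hb]; simp only [hb, false_and, not_false_eq_true, true_and, false_or]
    rw [e]
    exact (mk.inter (MeasurableSet.const _)).union (mk.compl.inter (mcls F v o))
  stop := by
    intro b c c' h
    exact H.stop b c c' fun v hv => h v (pvtqCl_of_mem hv)

theorem Rk_eq (p : (B × (V → Bool)) × (V → Bool)) :
    pvtqRk K0 Fz p = pvtqR Fz (pvtqCl K0 fun _ _ _ => some ()) (p.1, fun _ : Unit => p.2) := by
  refine Prod.ext rfl ?_
  funext v
  by_cases hv : v ∈ pvtqKeep K0 Fz p.1
  · refine (pvfqMix_of_mem hv _).trans (pvtqR_none (T := Fz) (cl := pvtqCl K0 fun _ _ _ => some ()) (x := p.1) (v := v) ?_ _).symm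
    exact pvtqCl_of_mem hv
  · refine (pvfqMix_of_notMem hv _).trans (pvtqR_some (T := Fz) (cl := pvtqCl K0 fun _ _ _ => some ()) (x := p.1) (v := v) (j := ()) ?_ fun _ => p.2).symm
    exact pvtqCl_of_notMem hv

theorem Fz_Rk (H : PvtqKeepReg K0 Fz) (x : B × (V → Bool)) (c' : V → Bool) : Fz (pvtqRk K0 Fz (x, c')) = Fz x :=
  H.stop x.1 x.2 _ fun _ hv => pvfqMix_of_mem hv _

theorem keep_Rk (H : PvtqKeepReg K0 Fz) (x : B × (V → Bool)) (c' : V → Bool) : pvtqKeep K0 Fz (pvtqRk K0 Fz (x, c')) = pvtqKeep K0 Fz x := by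
  unfold pvtqKeep
  rw [H.Fz_Rk]; rfl

theorem measurable_Rk [Countable V] (H : PvtqKeepReg K0 Fz) : Measurable (pvtqRk K0 Fz) := by
  have e : pvtqRk K0 Fz = fun p => pvtqR Fz (pvtqCl K0 fun _ _ _ => some ()) (p.1, fun _ : Unit => p.2) := funext Rk_eq
  rw [e]
  exact (H.reg fun _ _ _ => MeasurableSet.const _).measurable_R.comp (measurable_fst.prodMk (measurable_pi_lambda _ fun _ => measurable_snd))

/-- **the stopping set resampler preserves the law** (shape of 141) -/
theorem map_Rk [Countable V] (H : PvtqKeepReg K0 Fz) (β : Measure B) [SFinite β] :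
    ((β.prod (colLaw V)).prod (colLaw V)).map (pvtqRk K0 Fz) = β.prod (colLaw V) := by
  have h1 := (MeasurePreserving.id (β.prod (colLaw V))).prod ((measurePreserving_funUnique (colLaw V) Unit).symm _)
  have h2 := ((H.reg (cls := fun _ _ _ => some ()) fun _ _ _ => MeasurableSet.const _).measurePreserving_R β).comp h1
  have e : pvtqRk K0 Fz = pvtqR Fz (pvtqCl K0 fun _ _ _ => some ()) ∘ Prod.map id ⇑(MeasurableEquiv.funUnique Unit (V → Bool)).symm := by
    funext p
    rw [Rk_eq]
    rfl
  rw [e]
  exact h2.map_eq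

end PvtqKeepReg

end keep

/-! ## 5. atoms (vocabulary of `Tr/Chain.lean`) -/

section atom

variable {B : Type*} [MeasurableSpace B] {V : Type} {L J : Type*}

/-- **the colour atom of the class `j`**: keep `x`, except for the colours of the fresh sites of the class `j`, which are taken from the independent copy `y` -/
noncomputable def pvtqAt (T : B × (V → Bool) → L) (cl : B → L → V → Option J) (j : J) (p : (B × (V → Bool)) × (B × (V → Bool))) : B × (V → Bool) :=
  pvtqR1 T cl j p.1 p.2.2

theorem pvtq_eqns_cite5 : True := by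
  have := @pvtqAt.eq_1.{0, 0, 0}
  trivial

variable {T : B × (V → Bool) → L} {cl : B → L → V → Option J}

namespace PvtqReg

/-- **the colour atom is a resampler** -/
theorem rs_at [Countable L] [Countable J] (H : PvtqReg T cl) (j : J) (β : Measure B) [IsProbabilityMeasure β] :
    PvtkRs (β.prod (colLaw V)) (pvtqAt T cl j) where
  meas := (H.measurable_R1 j).comp (measurable_fst.prodMk (measurable_snd.comp measurable_snd))
  law := by
    have h0 : MeasurePreserving (Prod.snd : B × (V → Bool) → V → Bool) (β.prod (colLaw V)) (colLaw V) := measurePreserving_snd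
    have h1 := (MeasurePreserving.id (β.prod (colLaw V))).prod h0
    have h2 : MeasurePreserving (fun p : (B × (V → Bool)) × (V → Bool) => pvtqR1 T cl j p.1 p.2) ((β.prod (colLaw V)).prod (colLaw V))
      (β.prod (colLaw V)) := ⟨H.measurable_R1 j, H.map_R1 j β⟩
    exact (h2.comp h1).map_eq
  abs := fun x y z => H.R1_R1 j x y.2 z.2

/-- the atoms of two classes commute -/
theorem comm_at (H : PvtqReg T cl) {j k : J} (hjk : j ≠ k) : PvtkComm (pvtqAt T cl j) (pvtqAt T cl k) :=
  fun x y z => H.R1_comm hjk x y.2 z.2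

theorem ig_T (H : PvtqReg T cl) (j : J) : PvtkIg (pvtqAt T cl j) T := fun x y => H.T_R1 j x y.2

theorem ig_fst (j : J) : PvtkIg (pvtqAt T cl j) (Prod.fst : B × (V → Bool) → B) := fun _ _ => rfl

theorem ig_cl (H : PvtqReg T cl) (j : J) : PvtkIg (pvtqAt T cl j) fun x => cl x.1 (T x) := fun x y => H.cl_R1 j x y.2

/-- a function which does not read the colours of the class `j` ignores the atom -/
theorem ig_at {γ : Sort*} (j : J) {f : B × (V → Bool) → γ}
    (hf : ∀ (x : B × (V → Bool)) (c' : V → Bool), (∀ v, cl x.1 (T x) v ≠ some j → c' v = x.2 v) → f (x.1, c') = f x) : PvtkIg (pvtqAt T cl j) f :=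
  fun x y => hf x _ fun _ hv => pvtqR1_of_ne hv y.2

/-- the colours off the class `j` ignore the atom -/
theorem ig_col (j : J) {x y : B × (V → Bool)} {v : V} (hv : cl x.1 (T x) v ≠ some j) : (pvtqAt T cl j (x, y)).2 v = x.2 v := pvtqR1_of_ne hv y.2

theorem at_col (j : J) {x y : B × (V → Bool)} {v : V} (hv : cl x.1 (T x) v = some j) : (pvtqAt T cl j (x, y)).2 v = y.2 v := pvtqR1_of_eq hv y.2

end PvtqReg

end atom

end Claimed.Agent.R289
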