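import Claimed.Agent.R289.Tr.AtUniq
import Claimed.Agent.R289.Tr.ModelApi
import Claimed.Agent.R289.Tr.InstE

/-!
# Row 289 (S0537), THE WALL, ROAD E, file Tr/StopE : I.STOP AT THE MODEL = THE FRESH SITES OF A STATE ARE A STOPPING CHOICE      (helper296, architect + prover; prefix `pvyz_`, `pvyz`, `Pvyz`)

CONSUMERS.   `PvdyStop yf` (193 96, `Tr/DomY`) is a hypothesis of `pvdy_inv pvdy_core pvdy_core'` (invariance of the law under the hybrid resampling), of `pvux_dy_*` (252), through `PvdyStop.kt` of `pvkt_inv_gen pvkt_hat_up pvkt_bes`, field `stop` of `PvktDat.At` (103, `thick`), `Pvl3Stop` (129, `cyc1`).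
NOBODY PRODUCED IT AT THE MODEL (orphan scan of 162).      HERE: 0 sorry.
* sec. 1  **`PvyzSch`** = a SCHEME: witnesses `W Y` (states, pairs of states, ..), `P Y s w` (`w` is THE witness of the colouring `s`), frozen sites `F Y w`, chosen positions `Ch Y w`;   `PvyzSch.Ok` = `fin congr uniqF uniqC dis`;
          `PvyzSch.yf η` = the chosen positions of the witness of `η` (empty if there is none);   **`PvyzSch.Ok.stop : PvdyStop 𝔰.yf`**.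
* sec. 2  PRODUCT of two schemes (`PvyzSch.prod`: BOTH witnesses exist): `PvyzSch.Ok.prod`.      WARNING (W1): the plain UNION `yf₁ η ∪ yf₂ η` of two stopping choices is NOT a stopping choice (if the second state does not exist at `σ`, no finite set of colours
          prevents it from existing at `σ'`): the fresh set of a chain / of a cycle must be `∅` unless ALL its states exist.      `pvieYfc` of `Tr/InstE` v1 is a plain union.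
* sec. 3  THE THREE SCHEMES ON `Tr/Defs` v3, any colour blind clause `Ex Y 𝔖` (tips, masks, ..): `pvyzOut` (`AtOut`, frozen `fzOut`), `pvyzIn` (`AtIn`, `fzIn`), `pvyzFull` (`At`, `fz`), chosen = the points of a FIXED set `M` which are not frozen;   `pvyz_out_ok pvyz_in_ok pvyz_full_ok`.
* sec. 4  `Tr/InstE` v1 VERBATIM: **`pvyz_frO`, `pvyz_frI`** : `PvdyStop (pvieFrO N b p M)` as soon as `M ⊆ closedBall y⁺ (2 ρ h)` (clause `far_p` of the full state: the other half state is not recoloured);   **`pvyz_frOI`** (the two mouths of ONE plug: the `Σ₁` cycle).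
-/

set_option autoImplicit false

namespace Claimed.Agent.R289

open Set Claims.C0465

/-! ## 1. schemes -/

/-- **A SCHEME OF FRESH SITES**, in the `(Y,s)`-form of 184: `W Y` = the possible witnesses at the site set `Y` (NO colours), `P Y s w` = `w` is the witness of the colouring `s`, `F Y w` = the sites frozen by `w`, `Ch Y w` = the positions chosen by `w` -/
structure PvyzSch where
  W : Set ℂ → Type
  P : (Y : Set ℂ) → (↥Y → Bool) → W Y → Prop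
  F : (Y : Set ℂ) → W Y → Set ↥Y
  Ch : (Y : Set ℂ) → W Y → Set ℂ

namespace PvyzSch

variable (𝔰 : PvyzSch)

/-- what a scheme owes -/
structure Ok : Prop where
  /-- finitely many frozen sites -/
  fin : ∀ (Y : Set ℂ) (s : ↥Y → Bool) (w : 𝔰.W Y), 𝔰.P Y s w → (𝔰.F Y w).Finite
  /-- the witness is read from the frozen colours -/
  congr : ∀ (Y : Set ℂ) (s s' : ↥Y → Bool) (w : 𝔰.W Y), 𝔰.P Y s w → (∀ v ∈ 𝔰.F Y w, s' v = s v) → 𝔰.P Y s' w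
  /-- two witnesses of one colouring freeze the same sites -/
  uniqF : ∀ (Y : Set ℂ) (s : ↥Y → Bool) (w w' : 𝔰.W Y), 𝔰.P Y s w → 𝔰.P Y s w' → 𝔰.F Y w = 𝔰.F Y w'
  /-- and choose the same positions -/
  uniqC : ∀ (Y : Set ℂ) (s : ↥Y → Bool) (w w' : 𝔰.W Y), 𝔰.P Y s w → 𝔰.P Y s w' → 𝔰.Ch Y w = 𝔰.Ch Y w'
  /-- a frozen site is not chosen -/
  dis : ∀ (Y : Set ℂ) (s : ↥Y → Bool) (w : 𝔰.W Y), 𝔰.P Y s w → ∀ v ∈ 𝔰.F Y w, v.1 ∉ 𝔰.Ch Y w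

/-- the chosen positions, `(Y,s)`-form -/
def ys (Y : Set ℂ) (s : ↥Y → Bool) : Set ℂ := {v | ∃ w, 𝔰.P Y s w ∧ v ∈ 𝔰.Ch Y w}

/-- **the chosen positions of a configuration** (empty if there is no witness) -/
noncomputable def yf (η : Conf PvPt) : Set ℂ := 𝔰.ys (cfSites η) (pvmoSc η)

theorem yf_cfOf (Y : Set ℂ) (σ : ℂ → Bool) : 𝔰.yf (cfOf Y σ) = 𝔰.ys Y (pvmoS Y σ) := pvmo_cfOf 𝔰.ys Y σ

variable {𝔰}

theorem Ok.ys_eq (h : 𝔰.Ok) {Y : Set ℂ} {s : ↥Y → Bool} {w : 𝔰.W Y} (hw : 𝔰.P Y s w) : 𝔰.ys Y s = 𝔰.Ch Y w := by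
  ext v
  constructor
  · rintro ⟨w', hw', hv⟩
    rwa [h.uniqC Y s w w' hw hw']
  · exact fun hv => ⟨w, hw, hv⟩

/-- the choice is read from the frozen colours -/
theorem Ok.ys_congr (h : 𝔰.Ok) {Y : Set ℂ} {s s' : ↥Y → Bool} {w : 𝔰.W Y} (hw : 𝔰.P Y s w) (hs : ∀ v ∈ 𝔰.F Y w, s' v = s v) : 𝔰.ys Y s' = 𝔰.ys Y s := by
  rw [h.ys_eq hw, h.ys_eq (h.congr Y s s' w hw hs)]

/-- **I.STOP**: the chosen positions of a scheme are a stopping choice -/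
theorem Ok.stop (h : 𝔰.Ok) : PvdyStop 𝔰.yf := by
  classical
  refine ⟨fun Y σ hne => ?_⟩
  obtain ⟨v, -, hv⟩ := hne
  rw [yf_cfOf] at hv
  obtain ⟨w, hw, -⟩ := hv
  refine ⟨((h.fin Y _ w hw).image Subtype.val).toFinset, ?_, fun σ' hσ' => ?_⟩
  · rw [Set.Finite.coe_toFinset]
    rintro _ ⟨u, hu, rfl⟩
    refine ⟨u.2, fun hy => ?_⟩
    rw [yf_cfOf, h.ys_eq hw] at hy
    exact h.dis Y _ w hw u hu hy
  · rw [yf_cfOf, yf_cfOf]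
    rw [h.ys_congr hw (s' := pvmoS Y σ') fun u hu => hσ' u.1 ((Set.Finite.mem_toFinset _).2 ⟨u, hu, rfl⟩)]

end PvyzSch

theorem pvyz_eqns_cite1 : True := by
  have := @PvyzSch.ys.eq_1; have := @PvyzSch.yf.eq_1
  trivial

/-! ## 2. the product of two schemes -/

/-- **BOTH witnesses exist**: frozen = the union, chosen = the union of the two choices minus the frozen sites -/
def PvyzSch.prod (𝔰 𝔱 : PvyzSch) : PvyzSch where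
  W Y := 𝔰.W Y × 𝔱.W Y
  P Y s w := 𝔰.P Y s w.1 ∧ 𝔱.P Y s w.2
  F Y w := 𝔰.F Y w.1 ∪ 𝔱.F Y w.2
  Ch Y w := {v | (v ∈ 𝔰.Ch Y w.1 ∨ v ∈ 𝔱.Ch Y w.2) ∧ ∀ u ∈ 𝔰.F Y w.1 ∪ 𝔱.F Y w.2, u.1 ≠ v}

theorem pvyz_eqns_cite2 : True := by
  have := @PvyzSch.prod.eq_1
  trivial

theorem PvyzSch.Ok.prod {𝔰 𝔱 : PvyzSch} (h : 𝔰.Ok) (h' : 𝔱.Ok) : (𝔰.prod 𝔱).Ok where
  fin := fun Y s w hw => (h.fin Y s w.1 hw.1).union (h'.fin Y s w.2 hw.2)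
  congr := fun Y s s' w hw hs => ⟨h.congr Y s s' w.1 hw.1 fun v hv => hs v (Or.inl hv), h'.congr Y s s' w.2 hw.2 fun v hv => hs v (Or.inr hv)⟩
  uniqF := fun Y s w w' hw hw' => by
    show 𝔰.F Y w.1 ∪ 𝔱.F Y w.2 = 𝔰.F Y w'.1 ∪ 𝔱.F Y w'.2
    rw [h.uniqF Y s w.1 w'.1 hw.1 hw'.1, h'.uniqF Y s w.2 w'.2 hw.2 hw'.2]
  uniqC := fun Y s w w' hw hw' => by
    show {v | (v ∈ 𝔰.Ch Y w.1 ∨ v ∈ 𝔱.Ch Y w.2) ∧ ∀ u ∈ 𝔰.F Y w.1 ∪ 𝔱.F Y w.2, u.1 ≠ v} = {v | (v ∈ 𝔰.Ch Y w'.1 ∨ v ∈ 𝔱.Ch Y w'.2) ∧ ∀ u ∈ 𝔰.F Y w'.1 ∪ 𝔱.F Y w'.2, u.1 ≠ v}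
    rw [h.uniqF Y s w.1 w'.1 hw.1 hw'.1, h'.uniqF Y s w.2 w'.2 hw.2 hw'.2, h.uniqC Y s w.1 w'.1 hw.1 hw'.1, h'.uniqC Y s w.2 w'.2 hw.2 hw'.2]
  dis := fun Y s w _ v hv hc => hc.2 v hv rfl

/-- the choice of the product where both witnesses exist and neither freezes a site chosen by the other: the union of the two choices -/
theorem PvyzSch.Ok.prod_ys {𝔰 𝔱 : PvyzSch} (h : 𝔰.Ok) (h' : 𝔱.Ok) {Y : Set ℂ} {s : ↥Y → Bool} {w : 𝔰.W Y} {w' : 𝔱.W Y} (hw : 𝔰.P Y s w) (hw' : 𝔱.P Y s w')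
    (h1 : ∀ u ∈ 𝔱.F Y w', u.1 ∉ 𝔰.Ch Y w) (h2 : ∀ u ∈ 𝔰.F Y w, u.1 ∉ 𝔱.Ch Y w') : (𝔰.prod 𝔱).ys Y s = 𝔰.ys Y s ∪ 𝔱.ys Y s := by
  rw [(h.prod h').ys_eq (w := (w, w')) ⟨hw, hw'⟩, h.ys_eq hw, h'.ys_eq hw']
  ext v
  constructor
  · exact fun hv => hv.1
  · intro hv
    refine ⟨hv, ?_⟩
    rintro u (hu | hu) rfl
    · rcases hv with hv | hv
      · exact h.dis Y s w hw u hu hv
      · exact h2 u hu hv
    · rcases hv with hv | hv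
      · exact h1 u hu hv
      · exact h'.dis Y s w' hw' u hu hv

/-- no choice unless both witnesses exist -/
theorem PvyzSch.prod_ys_empty {𝔰 𝔱 : PvyzSch} {Y : Set ℂ} {s : ↥Y → Bool} (h : ¬ ((∃ w, 𝔰.P Y s w) ∧ ∃ w, 𝔱.P Y s w)) : (𝔰.prod 𝔱).ys Y s = ∅ := by
  ext v
  simp only [mem_empty_iff_false, iff_false]
  rintro ⟨w, hw, -⟩
  exact h ⟨⟨w.1, hw.1⟩, ⟨w.2, hw.2⟩⟩

/-! ## 3. the three schemes on `Tr/Defs` v3 -/

section defs3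

variable (N : PvwNum) (h : ℝ) (z : ℂ) (τ : PvwTy) (b : Bool) (Ex : (Y : Set ℂ) → PvwSt (pvmoT Y) → Prop) (M : Set ℂ)

/-- the points of `M` which are not positions of sites of `F` -/
def pvyzFr {Y : Set ℂ} (M : Set ℂ) (F : Set ↥Y) : Set ℂ := {v | v ∈ M ∧ ∀ u ∈ F, u.1 ≠ v}

/-- **the scheme of the EXIT half state** `Σ_out`, with a colour blind clause `Ex`;   chosen = the points of `M` which are not frozen by `Σ_out` -/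
def pvyzOut : PvyzSch where
  W Y := PvwSt (pvmoT Y)
  P Y s 𝔖 := DelGood Y ∧ 𝔖.AtOut (pvmoPos Y) N h z τ (pvmoCol s b) ∧ Ex Y 𝔖
  F _ 𝔖 := 𝔖.fzOut
  Ch _ 𝔖 := pvyzFr M 𝔖.fzOut

/-- **the scheme of the ENTRANCE half state** `Σ_in` -/
def pvyzIn : PvyzSch where
  W Y := PvwSt (pvmoT Y)
  P Y s 𝔖 := DelGood Y ∧ 𝔖.AtIn (pvmoPos Y) N h z τ (pvmoCol s b) ∧ Ex Y 𝔖
  F _ 𝔖 := 𝔖.fzIn
  Ch _ 𝔖 := pvyzFr M 𝔖.fzIn

/-- **the scheme of the FULL state** -/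
def pvyzFull : PvyzSch where
  W Y := PvwSt (pvmoT Y)
  P Y s 𝔖 := DelGood Y ∧ 𝔖.At (pvmoPos Y) N h z τ (pvmoCol s b) ∧ Ex Y 𝔖
  F _ 𝔖 := 𝔖.fz
  Ch _ 𝔖 := pvyzFr M 𝔖.fz

theorem pvyz_eqns_cite3 : True := by
  have := @pvyzFr.eq_1; have := @pvyzOut.eq_1; have := @pvyzIn.eq_1; have := @pvyzFull.eq_1
  trivial

variable {N h z τ b}

theorem pvyz_col_agree {Y : Set ℂ} {s s' : ↥Y → Bool} {F : Set ↥Y} (hs : ∀ v ∈ F, s' v = s v) (b : Bool) : PvwAgree F (pvmoCol s b) (pvmoCol s' b) := fun v hv => by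
  show (s v == b) = (s' v == b)
  rw [hs v hv]

theorem pvyz_fzOut_eq {Y : Set ℂ} (hY : DelGood Y) {s : ↥Y → Bool} {𝔖 𝔖' : PvwSt (pvmoT Y)} (ha : 𝔖.AtOut (pvmoPos Y) N h z τ s) (ha' : 𝔖'.AtOut (pvmoPos Y) N h z τ s) : 𝔖.fzOut = 𝔖'.fzOut := by
  obtain ⟨-, hP⟩ := pvuq_atOut (pvmo_sph hY) (pvmo_simple Y) (pvmo_pos_inj Y) ha ha'
  unfold PvwSt.fzOut PvwSt.core
  rw [hP.bkP, hP.whP, ha.gate.dsc_eq, ha'.gate.dsc_eq]

theorem pvyz_fzIn_eq {Y : Set ℂ} (hY : DelGood Y) {s : ↥Y → Bool} {𝔖 𝔖' : PvwSt (pvmoT Y)} (ha : 𝔖.AtIn (pvmoPos Y) N h z τ s) (ha' : 𝔖'.AtIn (pvmoPos Y) N h z τ s) : 𝔖.fzIn = 𝔖'.fzIn := by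
  obtain ⟨-, hM⟩ := pvuq_atIn (pvmo_sph hY) (pvmo_simple Y) (pvmo_pos_inj Y) ha ha'
  unfold PvwSt.fzIn PvwSt.core
  rw [hM.bkM, hM.whM, ha.gate.dsc_eq, ha'.gate.dsc_eq]

variable (N h z τ b)

theorem pvyz_out_ok : (pvyzOut N h z τ b Ex M).Ok where
  fin := fun _ _ 𝔖 hw => pvwk_fzOut_finite 𝔖 hw.2.1.gate.core_fin
  congr := fun _ _ _ _ hw hs => ⟨hw.1, pvwk_atOut_congr (pvmo_sph hw.1) hw.2.1 (pvyz_col_agree hs b), hw.2.2⟩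
  uniqF := fun _ _ _ _ hw hw' => pvyz_fzOut_eq hw.1 hw.2.1 hw'.2.1
  uniqC := fun Y _ 𝔖 𝔖' hw hw' => by
    show pvyzFr M 𝔖.fzOut = pvyzFr M 𝔖'.fzOut
    rw [pvyz_fzOut_eq hw.1 hw.2.1 hw'.2.1]
  dis := fun _ _ _ _ v hv hc => hc.2 v hv rfl

theorem pvyz_in_ok : (pvyzIn N h z τ b Ex M).Ok where
  fin := fun _ _ 𝔖 hw => pvwk_fzIn_finite 𝔖 hw.2.1.gate.core_fin
  congr := fun _ _ _ _ hw hs => ⟨hw.1, pvwk_atIn_congr (pvmo_sph hw.1) hw.2.1 (pvyz_col_agree hs b), hw.2.2⟩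
  uniqF := fun _ _ _ _ hw hw' => pvyz_fzIn_eq hw.1 hw.2.1 hw'.2.1
  uniqC := fun Y _ 𝔖 𝔖' hw hw' => by
    show pvyzFr M 𝔖.fzIn = pvyzFr M 𝔖'.fzIn
    rw [pvyz_fzIn_eq hw.1 hw.2.1 hw'.2.1]
  dis := fun _ _ _ _ v hv hc => hc.2 v hv rfl

theorem pvyz_full_ok : (pvyzFull N h z τ b Ex M).Ok where
  fin := fun _ _ 𝔖 hw => pvwk_fz_finite 𝔖 hw.2.1.out.gate.core_fin
  congr := fun _ _ _ _ hw hs => ⟨hw.1, pvwk_at_congr (pvmo_sph hw.1) hw.2.1 (pvyz_col_agree hs b), hw.2.2⟩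
  uniqF := fun Y _ 𝔖 𝔖' hw hw' => by
    show 𝔖.fzOut ∪ 𝔖.fzIn = 𝔖'.fzOut ∪ 𝔖'.fzIn
    rw [pvyz_fzOut_eq hw.1 hw.2.1.out hw'.2.1.out, pvyz_fzIn_eq hw.1 hw.2.1.inn hw'.2.1.inn]
  uniqC := fun Y _ 𝔖 𝔖' hw hw' => by
    show pvyzFr M (𝔖.fzOut ∪ 𝔖.fzIn) = pvyzFr M (𝔖'.fzOut ∪ 𝔖'.fzIn)
    rw [pvyz_fzOut_eq hw.1 hw.2.1.out hw'.2.1.out, pvyz_fzIn_eq hw.1 hw.2.1.inn hw'.2.1.inn]
  dis := fun _ _ _ _ v hv hc => hc.2 v hv rfl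

/-- **I.STOP for the fresh sites of an exit mouth, HALF state** -/
theorem pvyz_out_stop : PvdyStop (pvyzOut N h z τ b Ex M).yf := (pvyz_out_ok N h z τ b Ex M).stop
/-- **I.STOP for the fresh sites of an entrance mouth, HALF state** -/
theorem pvyz_in_stop : PvdyStop (pvyzIn N h z τ b Ex M).yf := (pvyz_in_ok N h z τ b Ex M).stop
/-- **I.STOP for the fresh sites of the mouths of a FULL state** -/
theorem pvyz_full_stop : PvdyStop (pvyzFull N h z τ b Ex M).yf := (pvyz_full_ok N h z τ b Ex M).stop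

end defs3

/-! ## 4. the full state, the fresh sites of ONE half state are chosen: `Tr/InstE` v1 verbatim -/

section inste

variable (N : PvwNum) (h : ℝ) (z : ℂ) (τ : PvwTy) (b : Bool) (Ex : (Y : Set ℂ) → PvwSt (pvmoT Y) → Prop) (M M' : Set ℂ)

/-- the FULL state exists;   chosen = the points of `M` not frozen by `Σ_out` and the points of `M'` not frozen by `Σ_in` -/
def pvyzFullOI : PvyzSch where
  W Y := PvwSt (pvmoT Y)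
  P Y s 𝔖 := DelGood Y ∧ 𝔖.At (pvmoPos Y) N h z τ (pvmoCol s b) ∧ Ex Y 𝔖
  F _ 𝔖 := 𝔖.fz
  Ch _ 𝔖 := pvyzFr M 𝔖.fzOut ∪ pvyzFr M' 𝔖.fzIn

theorem pvyz_eqns_cite4 : True := by
  have := @pvyzFullOI.eq_1
  trivial

/-- (g3) of the full state: the exit mouth is not frozen by `Σ_in`, the entrance mouth is not frozen by `Σ_out` -/
theorem pvyz_fullOI_ok (hM : M ⊆ Metric.closedBall (τ.cp h z) (2 * N.rho * h)) (hM' : M' ⊆ Metric.closedBall (τ.cm h z) (2 * N.rho * h)) : (pvyzFullOI N h z τ b Ex M M').Ok where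
  fin := fun _ _ 𝔖 hw => pvwk_fz_finite 𝔖 hw.2.1.out.gate.core_fin
  congr := fun _ _ _ _ hw hs => ⟨hw.1, pvwk_at_congr (pvmo_sph hw.1) hw.2.1 (pvyz_col_agree hs b), hw.2.2⟩
  uniqF := fun Y _ 𝔖 𝔖' hw hw' => by
    show 𝔖.fzOut ∪ 𝔖.fzIn = 𝔖'.fzOut ∪ 𝔖'.fzIn
    rw [pvyz_fzOut_eq hw.1 hw.2.1.out hw'.2.1.out, pvyz_fzIn_eq hw.1 hw.2.1.inn hw'.2.1.inn]
  uniqC := fun Y _ 𝔖 𝔖' hw hw' => by
    show pvyzFr M 𝔖.fzOut ∪ pvyzFr M' 𝔖.fzIn = pvyzFr M 𝔖'.fzOut ∪ pvyzFr M' 𝔖'.fzIn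
    rw [pvyz_fzOut_eq hw.1 hw.2.1.out hw'.2.1.out, pvyz_fzIn_eq hw.1 hw.2.1.inn hw'.2.1.inn]
  dis := fun Y _ 𝔖 hw v hv hc => by
    rcases hc with hc | hc
    · rcases hv with hv | hv
      · exact hc.2 v hv rfl
      · have h1 := hw.2.1.far_p v hv
        have h2 := hM hc.1
        rw [Metric.mem_closedBall, dist_eq_norm] at h2
        exact absurd h2 (not_le.2 h1)
    · rcases hv with hv | hv
      · have h1 := hw.2.1.far_m v hv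
        have h2 := hM' hc.1
        rw [Metric.mem_closedBall, dist_eq_norm] at h2
        exact absurd h2 (not_le.2 h1)
      · exact hc.2 v hv rfl

/-- the colour blind clauses of `PvieAt` (161): tips in the tip cells, loop erased banks of the stubs in the masks -/
def pvyzExAt (N : PvwNum) (p : PviePl) (Y : Set ℂ) (𝔖 : PvwSt (pvmoT Y)) : Prop :=
  pvmoPos Y ((pvmoT Y).src (𝔖.ep 𝔖.np)) ∈ p.cp ∧ pvmoPos Y ((pvmoT Y).src (𝔖.em 𝔖.nm)) ∈ p.cm ∧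
    (∀ y : (pvmoT Y).Pth, PvwLE (pvmoT Y) (fun i => (pvmoT Y).src (𝔖.ep i)) 𝔖.np y → ∀ v ∈ y.verts, pvmoPos Y v ∈ p.Mp) ∧
    (∀ y : (pvmoT Y).Pth, PvwLE (pvmoT Y) (fun i => (pvmoT Y).src (𝔖.em i)) 𝔖.nm y → ∀ v ∈ y.verts, pvmoPos Y v ∈ p.Mm) ∧
    (∀ i, 𝔖.ip ≤ i → i ≤ 𝔖.inn.n → (N.m - 1) * p.h < ‖pvmoPos Y (𝔖.inn.v i) - p.z‖ → pvmoPos Y (𝔖.inn.v i) ∈ p.Mp) ∧
    (∀ i, i ≤ 𝔖.ip → (N.m - 1) * p.h < ‖pvmoPos Y (𝔖.inn.v i) - p.z‖ → pvmoPos Y (𝔖.inn.v i) ∈ p.Mm) ∧ p.lev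

theorem pvyz_eqns_cite5 : True := by
  have := @pvyzExAt.eq_1
  trivial

theorem pvyz_at_iff (p : PviePl) (η : Conf PvPt) (𝔖 : PvwSt (pvieT η)) :
    PvieAt N b p η 𝔖 ↔ (pvyzFullOI N p.h p.z p.ty b (pvyzExAt N p) M M').P (cfSites η) (pvmoSc η) 𝔖 :=
  ⟨fun hA => ⟨hA.good, hA.st, hA.tip_p, hA.tip_m, hA.mask_p, hA.mask_m, hA.inn_p, hA.inn_m, hA.lev0⟩, fun ⟨h1, h2, h3, h4, h5, h6, h7, h8, h9⟩ => ⟨h1, h2, h3, h4, h5, h6, h7, h8, h9⟩⟩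

/-- the two fresh sets of 161 are the choice of the scheme -/
theorem pvyz_frOI_eq (p : PviePl) : (fun η => pvieFrO N b p M η ∪ pvieFrI N b p M' η) = (pvyzFullOI N p.h p.z p.ty b (pvyzExAt N p) M M').yf := by
  funext η
  ext v
  constructor
  · rintro (⟨hv, 𝔖, hA, hf⟩ | ⟨hv, 𝔖, hA, hf⟩)
    · exact ⟨𝔖, (pvyz_at_iff N b M M' p η 𝔖).1 hA, Or.inl ⟨hv, hf⟩⟩
    · exact ⟨𝔖, (pvyz_at_iff N b M M' p η 𝔖).1 hA, Or.inr ⟨hv, hf⟩⟩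
  · rintro ⟨𝔖, hA, ⟨hv, hf⟩ | ⟨hv, hf⟩⟩
    · exact Or.inl ⟨hv, 𝔖, (pvyz_at_iff N b M M' p η 𝔖).2 hA, hf⟩
    · exact Or.inr ⟨hv, 𝔖, (pvyz_at_iff N b M M' p η 𝔖).2 hA, hf⟩

/-- **I.STOP FOR THE TWO MOUTHS OF ONE PLUG** (the `Σ₁` cycle: `pvieYo ∪ pvieYe`) -/
theorem pvyz_frOI (p : PviePl) (hM : M ⊆ Metric.closedBall (p.ty.cp p.h p.z) (2 * N.rho * p.h)) (hM' : M' ⊆ Metric.closedBall (p.ty.cm p.h p.z) (2 * N.rho * p.h)) :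
    PvdyStop fun η => pvieFrO N b p M η ∪ pvieFrI N b p M' η := by
  rw [pvyz_frOI_eq]
  exact (pvyz_fullOI_ok N p.h p.z p.ty b (pvyzExAt N p) M M' hM hM').stop

theorem pvyz_frI_empty (p : PviePl) (η : Conf PvPt) : pvieFrI N b p ∅ η = ∅ := by
  ext v
  simp only [pvieFrI, mem_ofPred_eq, mem_empty_iff_false, false_and]

theorem pvyz_frO_empty (p : PviePl) (η : Conf PvPt) : pvieFrO N b p ∅ η = ∅ := by
  ext v
  simp only [pvieFrO, mem_ofPred_eq, mem_empty_iff_false, false_and]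

/-- **I.STOP FOR `pvieFrO`** (fresh sites of the exit mouth: `kout`) -/
theorem pvyz_frO (p : PviePl) (hM : M ⊆ Metric.closedBall (p.ty.cp p.h p.z) (2 * N.rho * p.h)) : PvdyStop (pvieFrO N b p M) := by
  have k := pvyz_frOI N b M ∅ p hM (empty_subset _)
  simp only [pvyz_frI_empty, union_empty] at k
  exact k

/-- **I.STOP FOR `pvieFrI`** (fresh sites of the entrance mouth: `kin`, `ke`) -/
theorem pvyz_frI (p : PviePl) (hM' : M' ⊆ Metric.closedBall (p.ty.cm p.h p.z) (2 * N.rho * p.h)) : PvdyStop (pvieFrI N b p M') := by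
  have k := pvyz_frOI N b ∅ M' p (empty_subset _) hM'
  simp only [pvyz_frO_empty, empty_union] at k
  exact k

end inste

end Claimed.Agent.R289
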