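import Claimed.Agent.R289.Tr.StripP
import Claimed.Agent.R289.Tr.LanePB
import Claimed.Agent.R289.Tr.StabInst
import Claimed.Agent.R289.Tr.ModP

/-!
# Row 289 (S0537, Cardy for Poisson-Voronoi), THE WALL, ROAD P, file Tr/StripU : THE STRIP AT THE MODEL OF RECORD `pvmhMod` (8, `Tr/ModP`): COST OF F3 + USE OF `A_κ`      (helper277; prefix `pvsz_at_`, `pvsz_mod_`, `PvszReg`, `pvszFM`; 0 sorry)

`Tr/StripP.lean` (277) has the window `clB(z,r)`;   the model of record has `EJ = U(N¹(cells of the strip))` and doors which also serve the black tubes.      HERE everything is stated AT `𝔤.ty h z s`, `𝔤.sp`: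
* §1 `pvsz_at_chain`: a configuration of a walk event `pvmwEv ρ E c S A B` carries a SIMPLE chain of sites (colour, strip, window, Delaunay edges of length `≤ 2ρ`, doors).
* §2 `pvsz_at_pth`: the chain is a simple path `Pth` of the map of EVERY completion `𝔅` which is Delaunay near the chain.
* §3 `PvszReg 𝔯 δ n₀ z τ ln`, **`pvsz_at_lane`**: the records `PvsqLane` / `PvsjLane` of 97 (white door-to-door path, split at the centre), any colouring `sc` with `DelbCol 𝔅 sc (cfCol ξ)`.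
* §4 THE MODEL: `pvsz_mod_off` (black tubes off the strip), `pvsz_mod_E0`, `pvsz_mod_J`, `pvsz_mod_Dm/_Dp` (doors ∩ strip = door windows; needs the doors repair of ModP, commit 61e6878ba2), **`pvsz_mod_lane`** (`pvspLane = pvmwEv ..`),
  `pvsz_mod_lane_ms`, `pvsz_mod_Hg_ms`, `pvsz_mod_Hg_reads`, `pvsz_mod_good`, `pvsz_mod_ctr`, **`pvsz_mod_cost`** (uniform in centre, candidate, scale;  hypothesis `𝔤.pst ≤ pvszP 𝔤.NN`), `pvsz_mod_cost_P`,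
  the flag `pvszFM 𝔤 h z = ⋃ s, (pvspHg 𝔤.sp (𝔤.ty h z s) h)ᶜ`, `pvsz_mod_not_FM` (= field `hg`), `pvsz_mod_FM_reads` (ball `Lr h`), **`pvsz_mod_flag`** (`PvxpFlag h w ζ`, ANY `ζ > 0`, `w ≥ Lr + 1`).
* §5 USE: `pvsz_mod_nK`, `pvsz_mod_reg` (`PvszReg` at `(𝔤.ty h z s).reg 𝔤.sp z h`), `pvsz_mod_cut` (a FIT ⟹ the cut exists), **`pvsz_mod_use`** (lane event + fit + completion ⟹ `PvsqLane` ∧ `PvsjLane`: the hypothesis of `pvsj_main` of 97).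
-/

set_option autoImplicit false
set_option linter.unusedSectionVars false
set_option linter.unusedVariables false

namespace Claimed.Agent.R289

open MeasureTheory ProbabilityTheory Set Filter Topology Metric Claims.C0465
open scoped ENNReal NNReal

/-! ## 1. the walk as a SIMPLE chain of sites -/

section chain

variable {ρ : ℝ} {E S A B : Set ℂ} {c : Bool} {ξ : Conf PvPt}

theorem pvsz_at_vert {p : PvPt} (h : p ∈ pvtmV (pvtrSet ρ E ξ)) : p ∈ ξ.pts ∧ p.1 ∈ E ∧ ∃ b w, DelTri (cfSites ξ) p.1 b w := by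
  obtain ⟨q, r, h | h | h⟩ := h
  · exact ⟨h.1, h.2.2.2.mem_a.2, _, _, h.2.2.2.tri⟩
  · exact ⟨h.2.1, h.2.2.2.mem_b.2, _, _, h.2.2.2.cyc.tri⟩
  · exact ⟨h.2.2.1, h.2.2.2.mem_c.2, _, _, h.2.2.2.cyc.cyc.tri⟩

theorem pvsz_at_edge {p q : PvPt} (h : PvtmAdj (pvtrSet ρ E ξ) p q) :
    ‖q.1 - p.1‖ ≤ 2 * ρ ∧ ∃ w, DelTri (cfSites ξ) p.1 q.1 w ∨ DelTri (cfSites ξ) q.1 p.1 w := by
  obtain ⟨r, h | h⟩ := h
  · exact ⟨by rw [norm_sub_rev]; exact h.2.2.2.side_le, r.1, Or.inl h.2.2.2.tri⟩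
  · exact ⟨h.2.2.2.side_le, r.1, Or.inr h.2.2.2.tri⟩

/-- **THE WALK AS A SIMPLE CHAIN OF SITES** (general strip, window, doors) -/
theorem pvsz_at_chain (h : ξ ∈ pvmwEv ρ E c S A B) :
    ∃ (n : ℕ) (x : ℕ → ℂ), (∀ i j, i ≤ n → j ≤ n → x i = x j → i = j) ∧
      (∀ j, j ≤ n → (x j, c) ∈ ξ.pts ∧ x j ∈ S ∧ x j ∈ E ∧ ∃ b w, DelTri (cfSites ξ) (x j) b w) ∧
      (∀ j, j < n → ‖x (j + 1) - x j‖ ≤ 2 * ρ ∧ ∃ w, DelTri (cfSites ξ) (x j) (x (j + 1)) w ∨ DelTri (cfSites ξ) (x (j + 1)) (x j) w) ∧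
      x 0 ∈ A ∧ x n ∈ B := by
  obtain ⟨l, hnd, ⟨hch, hl⟩, ⟨a, ha, haA⟩, b, hb, hbB⟩ := (pvtm_crossS_iff _ _ _ _ _).2 h
  have hne : l ≠ [] := by
    rintro rfl
    simp at ha
  have hlen : 0 < l.length := List.length_pos_iff.2 hne
  have hget : ∀ j, (hj : j < l.length) → l.getD j (0, c) = l[j] := fun j hj => by
    rw [List.getD_eq_getElem _ _ hj]
  refine ⟨l.length - 1, fun j => (l.getD j (0, c)).1, ?_, ?_, ?_, ?_, ?_⟩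
  · intro i j hi hj hij
    have hi' : i < l.length := by omega
    have hj' : j < l.length := by omega
    simp only [hget i hi', hget j hj'] at hij
    have e : l[i] = l[j] := Prod.ext hij ((hl _ (List.getElem_mem hi')).2.1.trans (hl _ (List.getElem_mem hj')).2.1.symm)
    exact (hnd.getElem_inj_iff).1 e
  · intro j hj
    have hj' : j < l.length := by omega
    simp only [hget j hj']
    obtain ⟨h1, h2, h3⟩ := hl _ (List.getElem_mem hj')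
    obtain ⟨h4, h5, h6⟩ := pvsz_at_vert h1
    refine ⟨?_, h3, h5, h6⟩
    have e : (l[j].1, c) = l[j] := Prod.ext rfl h2.symm
    rw [e]
    exact h4
  · intro j hj
    have hj' : j + 1 < l.length := by omega
    simp only [hget j (by omega), hget (j + 1) hj']
    exact pvsz_at_edge (List.isChain_iff_getElem.1 hch j hj')
  · simp only [hget 0 hlen]
    have : l[0] = a := by
      rw [List.head?_eq_getElem?, List.getElem?_eq_getElem hlen] at ha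
      simpa using ha
    rw [this]
    exact haA
  · simp only [hget (l.length - 1) (by omega)]
    have : l[l.length - 1]'(by omega) = b := by
      rw [List.getLast?_eq_getElem?, List.getElem?_eq_getElem (by omega)] at hb
      simpa using hb
    rw [this]
    exact hbB

end chain

/-! ## 2. the chain in the map of a completion -/

section lift

variable {ξ : Conf PvPt} {X : Type}

/-- **the simple chain of sites is a simple path of the map of EVERY completion which is the Delaunay triangulation near the chain** -/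
theorem pvsz_at_pth (𝔅 : PvBulk X) {Kc : Set ℂ} (hOk : 𝔅.Ok (cfSites ξ) Kc) {n : ℕ} {x : ℕ → ℂ} (hinj : ∀ i j, i ≤ n → j ≤ n → x i = x j → i = j)
    (hx : ∀ j, j ≤ n → x j ∈ Kc ∧ ∃ b w, DelTri (cfSites ξ) (x j) b w)
    (hs : ∀ j, j < n → ∃ w, DelTri (cfSites ξ) (x j) (x (j + 1)) w ∨ DelTri (cfSites ξ) (x (j + 1)) (x j) w) :
    ∃ ω : (𝔅.T (cfSites ξ)).Pth, ω.n = n ∧ ∀ j, j ≤ n → 𝔅.lab _ (ω.v j) = Sum.inl (x j) := by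
  obtain ⟨-, b0, w0, ht0⟩ := hx 0 (Nat.zero_le _)
  obtain ⟨d0, -, -, -⟩ := hOk.face _ _ _ ht0 (hx 0 (Nat.zero_le _)).1
  have hv : ∀ j, ∃ v, j ≤ n → 𝔅.lab (cfSites ξ) v = Sum.inl (x j) := by
    intro j
    by_cases hj : j ≤ n
    · obtain ⟨hK, b, w, ht⟩ := hx j hj
      obtain ⟨d, hd, -, -⟩ := hOk.face _ _ _ ht hK
      exact ⟨_, fun _ => hd⟩
    · exact ⟨(𝔅.T (cfSites ξ)).src d0, fun h => absurd h hj⟩
  choose v hv using hv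
  have he : ∀ j, ∃ d, j < n → (𝔅.T (cfSites ξ)).src d = v j ∧ (𝔅.T (cfSites ξ)).tgt d = v (j + 1) := by
    intro j
    by_cases hj : j < n
    · obtain ⟨w, ht | ht⟩ := hs j hj
      · obtain ⟨d, h1, h2, -⟩ := hOk.face _ _ _ ht (hx j hj.le).1
        exact ⟨d, fun _ => ⟨hOk.inj (h1.trans (hv j hj.le).symm), hOk.inj (h2.trans (hv (j + 1) hj).symm)⟩⟩
      · obtain ⟨d, h1, h2, -⟩ := hOk.face _ _ _ ht (hx (j + 1) hj).1
        refine ⟨(𝔅.T (cfSites ξ)).opp d, fun _ => ⟨?_, ?_⟩⟩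
        · rw [PvMap.src_opp']
          exact hOk.inj (h2.trans (hv j hj.le).symm)
        · rw [PvMap.tgt_opp]
          exact hOk.inj (h1.trans (hv (j + 1) hj).symm)
    · exact ⟨d0, fun h => absurd h hj⟩
  choose e he using he
  refine ⟨⟨n, v, e, fun i hi => (he i hi).1, fun i hi => (he i hi).2, fun i j hi hj hij => ?_⟩, rfl, hv⟩
  have h1 : (Sum.inl (x i) : ℂ ⊕ X) = Sum.inl (x j) := by rw [← hv i hi, ← hv j hj, hij]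
  exact hinj i j hi hj (Sum.inl_injective h1)

/-- the colour of a site which carries ONE colour -/
theorem pvsz_at_col {p : ℂ} (h1c : (p, true) ∈ ξ.pts → (p, false) ∈ ξ.pts → False) {c : Bool} (h : (p, c) ∈ ξ.pts) : cfCol ξ p = c := by
  classical
  unfold cfCol
  cases c
  · exact decide_eq_false fun h2 => h1c h2 h
  · exact decide_eq_true h

/-- inside the strip every site of a PAINTED configuration carries one colour -/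
theorem pvsz_at_paint_1c (S : Set ℂ) (b : Bool) (B : Finset ℂ) (η : Conf PvPt) : ∀ p ∈ S, (p, true) ∈ (cfPaint S b B η).pts → (p, false) ∈ (cfPaint S b B η).pts → False := by
  intro p hp h1 h2
  rcases pvp_mem_paint.1 h1 with ⟨-, h⟩ | ⟨-, -, e1⟩
  · exact h hp
  rcases pvp_mem_paint.1 h2 with ⟨-, h⟩ | ⟨-, -, e2⟩
  · exact h hp
  simp only at e1 e2
  rw [← e1] at e2
  exact absurd e2 (by decide)

end lift

/-! ## 3. THE PRODUCER OF `PvsqLane` (97, `Tr/StabFit`) -/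

section lane

variable {𝔑 : PvmnNum} {τ : PvmnType} {ln : ((ℤ × ℤ) × (ℤ × ℤ)) × ℕ} {δ ρ : ℝ} {z : ℂ} {n₀ : ℕ} {E : Set ℂ} {ξ : Conf PvPt} {X : Type}

/-- **the lane part of the twelve regions of a candidate** (`𝔯 = t.reg N z h` of 185): the halves of the strip, the door windows, the ball round the cut inside `I₂`, the doors off this ball -/
structure PvszReg (𝔯 : PvspReg ℂ) (δ : ℝ) (n₀ : ℕ) (z : ℂ) (τ : PvmnType) (ln : ((ℤ × ℤ) × (ℤ × ℤ)) × ℕ) : Prop where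
  Mm : pvszMm δ n₀ z τ ln ⊆ 𝔯 .Mm
  Mp : pvszMp δ n₀ z τ ln ⊆ 𝔯 .Mp
  Dm : pvszDA δ z τ ln ⊆ 𝔯 .Dm
  Dp : pvszDB δ z τ ln ⊆ 𝔯 .Dp
  I2 : closedBall z (2 * ((n₀ : ℝ) + 4) * (δ / 5)) ⊆ 𝔯 .I2
  far : Disjoint (pvszDA δ z τ ln) (closedBall z (2 * ((n₀ : ℝ) + 4) * (δ / 5)))

/-- **USE (P12, white half)**: a configuration of `A_κ` (doors `DA`, `DB`; radius `ρ ≤ δ/20`; ANY window `E`), a completion which is Delaunay near the strip, the bar at the pin lies in the ball round the centre (SPATIAL cut of 225, `Tr/LaneS`)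
⟹  a white door-to-door path of the map, split at the centre: the records `PvsqLane` (path form) and `PvsjLane` (chain form) of 97 -/
theorem pvsz_at_lane (hτ : PvmnIsType 𝔑 τ) (hl : PvmnLaneR τ ln.1 ln.2) (hδ : 0 < δ) (hρ : ρ ≤ δ / 20) (hbar : ∀ p ∈ pvtU δ (pvmnBar 𝔑 τ 5), ‖p‖ ≤ 2 * ((n₀ : ℝ) + 4) * (δ / 5))
    {𝔯 : PvspReg ℂ} (H : PvszReg 𝔯 δ n₀ z τ ln) (𝔅 : PvBulk X) {sc : 𝔅.V (cfSites ξ) → Bool} (hsc : DelbCol 𝔅 sc (cfCol ξ)) (zi : ℂ) {Kc : Set ℂ} (hOk : 𝔅.Ok (cfSites ξ) Kc) (hK : pvszS δ z τ ln ⊆ Kc)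
    (h1c : ∀ p ∈ pvszS δ z τ ln, (p, true) ∈ ξ.pts → (p, false) ∈ ξ.pts → False)
    (hξ : ξ ∈ pvmwEv ρ E (!τ.col) (pvszS δ z τ ln) (pvszDA δ z τ ln) (pvszDB δ z τ ln)) :
    ∃ (ω : (𝔅.T (cfSites ξ)).Pth) (Jm Jp : ℕ), PvsqLane (𝔅.T (cfSites ξ)) (𝔅.posF _ zi) 𝔯 (pvspS τ.col sc) ω Jm Jp ∧
      PvsjLane (𝔅.T (cfSites ξ)) (𝔅.posF _ zi) 𝔯 (pvspS τ.col sc) ω.n ω.v Jm Jp ∧
      ∀ j, j ≤ ω.n → 𝔅.posF _ zi (ω.v j) ∈ pvszS δ z τ ln ∧ 𝔅.lab _ (ω.v j) = Sum.inl (𝔅.posF _ zi (ω.v j)) ∧ (𝔅.posF _ zi (ω.v j), !τ.col) ∈ ξ.pts := by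
  obtain ⟨n, x, hinj, hx, hs, h0, hn⟩ := pvsz_at_chain hξ
  obtain ⟨ω, hωn, hω⟩ := pvsz_at_pth 𝔅 hOk hinj (fun j hj => ⟨hK (hx j hj).2.1, (hx j hj).2.2.2⟩) (fun j hj => (hs j hj).2)
  have hpos : ∀ j, j ≤ n → 𝔅.posF _ zi (ω.v j) = x j := fun j hj => by
    unfold PvBulk.posF
    rw [hω j hj]
    rfl
  have hs' : ∀ j, j < n → ‖(x (j + 1) - z) - (x j - z)‖ ≤ δ / 2 := fun j hj => by
    rw [sub_sub_sub_cancel_right]
    exact (hs j hj).1.trans (by linarith)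
  obtain ⟨Jp, -, a1, a2', a3⟩ := pvls_split_p hτ hl hδ (fun j => x j - z) n (fun j hj => pvsz_mem.1 (hx j hj).2.1) hs' (pvsz_mem.1 h0) (pvsz_mem.1 hn)
  obtain ⟨Jm, b1', b2', b3⟩ := pvls_split_m hτ hl hδ (fun j => x j - z) n (fun j hj => pvsz_mem.1 (hx j hj).2.1) hs' (pvsz_mem.1 h0) (pvsz_mem.1 hn)
  have a2 := hbar _ a2'
  have b2 := hbar _ b2'
  have b1 := b1'.le
  have hball : ∀ j, ‖x j - z‖ ≤ 2 * ((n₀ : ℝ) + 4) * (δ / 5) → x j ∈ closedBall z (2 * ((n₀ : ℝ) + 4) * (δ / 5)) := fun j hj => by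
    rwa [mem_closedBall, dist_eq_norm]
  have hmid : ∀ j, j ≤ n → ‖x j - z‖ ≤ 2 * ((n₀ : ℝ) + 4) * (δ / 5) → 𝔅.posF _ zi (ω.v j) ∈ 𝔯 .I2 := by
    intro j hj hjn
    rw [hpos j hj]
    exact H.I2 (hball j hjn)
  have hint : ∀ j, j ≤ n → ‖x j - z‖ ≤ 2 * ((n₀ : ℝ) + 4) * (δ / 5) → ω.v j ∈ (𝔅.T (cfSites ξ)).Int (pvsqI (𝔅.T (cfSites ξ)) (𝔅.posF _ zi) 𝔯 .I2) := by
    intro j hj hjn d hd
    refine Or.inl ?_
    show 𝔅.posF _ zi ((𝔅.T (cfSites ξ)).src d) ∈ 𝔯 .I2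
    rw [hd]
    exact hmid j hj hjn
  have hpos0 : 0 < ω.n := by
    rw [hωn]
    by_contra hc
    have hn0 : n = 0 := by omega
    subst hn0
    have hJ : Jm = 0 := by omega
    subst hJ
    exact Set.disjoint_left.1 H.far h0 (hball 0 b2)
  have hwh : ∀ j, j ≤ ω.n → pvspS τ.col sc (ω.v j) = false := by
    intro j hj
    rw [hωn] at hj
    have e : sc (ω.v j) = !τ.col := by
      rw [hsc _ _ (hω j hj)]
      exact pvsz_at_col (h1c _ (hx j hj).2.1) (hx j hj).1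
    unfold pvspS
    rw [e]
    cases τ.col <;> rfl
  have hdm : 𝔅.posF _ zi (ω.v 0) ∈ 𝔯 .Dm := by
    rw [hpos 0 (Nat.zero_le _)]
    exact H.Dm h0
  have hdp : 𝔅.posF _ zi (ω.v ω.n) ∈ 𝔯 .Dp := by
    rw [hωn, hpos n le_rfl]
    exact H.Dp hn
  have hhead : ∀ j, j ≤ Jm → 𝔅.posF _ zi (ω.v j) ∈ 𝔯 .Mm := by
    intro j hj
    rw [hpos j (hj.trans b1)]
    exact H.Mm (pvsz_mem.2 (b3 j hj))
  have htail : ∀ j, Jp ≤ j → j ≤ ω.n → 𝔅.posF _ zi (ω.v j) ∈ 𝔯 .Mp := by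
    intro j h1 h2
    rw [hωn] at h2
    rw [hpos j h2]
    exact H.Mp (pvsz_mem.2 (a3 j h1 h2))
  refine ⟨ω, Jm, Jp, ⟨hpos0, hwh, hdm, hdp, hωn ▸ b1, hωn ▸ a1, hhead, htail, hint Jm b1 b2, hint Jp a1 a2⟩,
    ⟨fun j hj => pvsq_pth_adj ω hj, hwh, hdm, hdp, hωn ▸ b1, hωn ▸ a1, hhead, htail, hmid Jm b1 b2, hmid Jp a1 a2⟩, ?_⟩
  intro j hj
  rw [hωn] at hj
  rw [hpos j hj]
  exact ⟨(hx j hj).2.1, hω j hj, (hx j hj).1⟩

end lane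

/-! ## 4. THE MODEL OF 8 (`Tr/ModP`): the lane part of `𝔤.ty h z s` -/

section geo

variable {𝔑 : PvmnNum} {τ : PvmnType} {ln : ((ℤ × ℤ) × (ℤ × ℤ)) × ℕ} {δ : ℝ}

/-- **the black tubes are off the strip** -/
theorem pvsz_mod_off (hτ : PvmnIsType 𝔑 τ) (hl : PvmnLaneR τ ln.1 ln.2) (hδ : 0 < δ) (z : ℂ) (a b : ℕ) : Disjoint (pvmgPl z δ (pvtwN 2 (pvmnCells τ a b))) (pvszS δ z τ ln) := by
  have h1 : pvszS δ z τ ln ⊆ pvmgPl z δ (pvtwN 1 (pvlbZone τ)) := pvsz_tr_mono (pvlb_win_zone hτ hl hδ le_rfl)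
  refine (pvmg_disj hδ ?_).mono_right h1
  rw [← pvtw_N_succ]
  have h2 : pvtwN (2 + 1) (pvmnCells τ a b) ⊆ pvtwN 3 (pvmnCells τ 0 9) := by
    refine pvtw_N_mono le_rfl ?_
    rintro c ⟨k, -, -, hc⟩
    exact ⟨k, Nat.zero_le _, by have := k.2; omega, hc⟩
  exact ((pvlb_zone_offN (τ := τ) (i := 1) (j := 3) le_rfl).mono_right h2).symm

/-- the window of the retained triangles of the cost lies in the window `U(N¹(cells of the strip))` of the model -/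
theorem pvsz_mod_E0 (hδ : 0 < δ) (z : ℂ) (τ : PvmnType) (ln : ((ℤ × ℤ) × (ℤ × ℤ)) × ℕ) : pvszTr z (pvszE0 δ τ ln) ⊆ pvmgPl z δ (pvtwN 1 (pvtCells δ (pvlpS δ τ ln))) := by
  intro p hp
  have hp' := pvsz_mem.1 hp
  unfold pvszE0 at hp'
  obtain ⟨i, hi, h1, h2⟩ := mem_iUnion₂.1 hp'
  have hq : pvtCtr (δ / 5) (pvlpC τ ln i) + z ∈ pvmgPl z δ (pvtCells δ (pvlpS δ τ ln)) :=
    Set.image_mono (pvt_cells_cover hδ) ⟨_, pvlb_ctr_win hδ hi.1 hi.2, rfl⟩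
  refine pvmg_near (k := 1) hδ hq ?_
  have e : p - (pvtCtr (δ / 5) (pvlpC τ ln i) + z) = (p - z) - pvtCtr (δ / 5) (pvlpC τ ln i) := by ring
  rw [e]
  have h3 := Complex.norm_le_abs_re_add_abs_im ((p - z) - pvtCtr (δ / 5) (pvlpC τ ln i))
  rw [Complex.sub_re, Complex.sub_im] at h3
  push_cast
  linarith

end geo

section model

variable {𝔤 : PvmhNum} (H : 𝔤.OK) {h : ℝ} (z : ℂ) (s : PvmhT 𝔤)

theorem pvsz_mod_J (h : ℝ) : pvspJ (𝔤.ty h z s) = pvszS (𝔤.dl * h) z s.typ s.ln := (pvsz_S_union (𝔤.dl * h) 𝔤.nK z s.typ s.ln).symm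

include H

/-- **the doors of the model meet the strip exactly in the door windows of the corridor** -/
theorem pvsz_mod_Dm (hh : 0 < h) : (𝔤.ty h z s).Dm ∩ pvszS (𝔤.dl * h) z s.typ s.ln = pvszDA (𝔤.dl * h) z s.typ s.ln := by
  have hδ : 0 < 𝔤.dl * h := mul_pos H.dl0 hh
  have e : (𝔤.ty h z s).Dm = (pvmgPl z (𝔤.dl * h) (pvmnDrm s.typ) ∩ pvmgPl z (𝔤.dl * h) (pvmhNm s.typ)) ∪ pvszDA (𝔤.dl * h) z s.typ s.ln := rfl
  rw [e, union_inter_distrib_right, inter_eq_left.2 (pvsz_DA_sub _ z s.typ s.ln)]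
  have h0 : pvmgPl z (𝔤.dl * h) (pvmnDrm s.typ) ∩ pvmgPl z (𝔤.dl * h) (pvmhNm s.typ) ∩ pvszS (𝔤.dl * h) z s.typ s.ln = ∅ := by
    have h1 : pvmgPl z (𝔤.dl * h) (pvmhNm s.typ) ∩ pvszS (𝔤.dl * h) z s.typ s.ln = ∅ := (pvsz_mod_off s.isType s.isLane hδ z 1 4).inter_eq
    rw [inter_assoc, h1, inter_empty]
  rw [h0, empty_union]

theorem pvsz_mod_Dp (hh : 0 < h) : (𝔤.ty h z s).Dp ∩ pvszS (𝔤.dl * h) z s.typ s.ln = pvszDB (𝔤.dl * h) z s.typ s.ln := by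
  have hδ : 0 < 𝔤.dl * h := mul_pos H.dl0 hh
  have e : (𝔤.ty h z s).Dp = (pvmgPl z (𝔤.dl * h) (pvmnDrp s.typ) ∩ pvmgPl z (𝔤.dl * h) (pvmhNp s.typ)) ∪ pvszDB (𝔤.dl * h) z s.typ s.ln := rfl
  rw [e, union_inter_distrib_right, inter_eq_left.2 (pvsz_DB_sub _ z s.typ s.ln)]
  have h0 : pvmgPl z (𝔤.dl * h) (pvmnDrp s.typ) ∩ pvmgPl z (𝔤.dl * h) (pvmhNp s.typ) ∩ pvszS (𝔤.dl * h) z s.typ s.ln = ∅ := by
    have h1 : pvmgPl z (𝔤.dl * h) (pvmhNp s.typ) ∩ pvszS (𝔤.dl * h) z s.typ s.ln = ∅ := (pvsz_mod_off s.isType s.isLane hδ z 5 8).inter_eq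
    rw [inter_assoc, h1, inter_empty]
  rw [h0, empty_union]

/-- **`A_κ` OF THE MODEL IS THE WALK EVENT OF `Tr/LaneW`** at the strip, the door windows of the corridor, radius `dl h / 20`, window `EJ` -/
theorem pvsz_mod_lane (hh : 0 < h) : pvspLane 𝔤.sp (𝔤.ty h z s) h =
    pvmwEv (𝔤.dl * h / 20) (𝔤.ty h z s).EJ (!s.typ.col) (pvszS (𝔤.dl * h) z s.typ s.ln) (pvszDA (𝔤.dl * h) z s.typ s.ln) (pvszDB (𝔤.dl * h) z s.typ s.ln) := by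
  have e : pvspLane 𝔤.sp (𝔤.ty h z s) h = pvmwEv (𝔤.mu * h) (𝔤.ty h z s).EJ (!s.typ.col) (pvspJ (𝔤.ty h z s)) (𝔤.ty h z s).Dm (𝔤.ty h z s).Dp := rfl
  rw [e, pvsz_mod_J, H.mu_eq, show 𝔤.dl / 20 * h = 𝔤.dl * h / 20 by ring]
  refine pvsz_doors ?_ ?_
  · rw [pvsz_mod_Dm H z s hh, inter_eq_left.2 (pvsz_DA_sub _ z s.typ s.ln)]
  · rw [pvsz_mod_Dp H z s hh, inter_eq_left.2 (pvsz_DB_sub _ z s.typ s.ln)]

theorem pvsz_mod_EJ_closed (h : ℝ) (hh : 0 < h) : IsClosed (𝔤.ty h z s).EJ :=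
  pvmg_closed (pvtw_N_finite (pvt_cells_finite (mul_pos H.dl0 hh) (pvlp_win_compact _ _ _ _ _).isBounded))

theorem pvsz_mod_S_EJ (hh : 0 < h) : pvszS (𝔤.dl * h) z s.typ s.ln ⊆ (𝔤.ty h z s).EJ :=
  (pvsz_tr_mono (pvsz_S_sub_E0 (mul_pos H.dl0 hh).le s.typ s.ln)).trans (pvsz_mod_E0 (mul_pos H.dl0 hh) z s.typ s.ln)

theorem pvsz_mod_lane_ms (hh : 0 < h) : PvpMs fun ξ => ξ ∈ pvspLane 𝔤.sp (𝔤.ty h z s) h := by
  rw [pvsz_mod_lane H z s hh]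
  exact PvpMs.of_set (pvmw_meas (pvtm_meas_in_closed (pvsz_mod_EJ_closed H z s h hh)) _ _ (pvsz_S_meas _ z s.typ s.ln) (pvsz_DA_meas _ z s.typ s.ln) (pvsz_DB_meas _ z s.typ s.ln))

theorem pvsz_mod_Hg_ms (hh : 0 < h) : PvpMs fun ξ => ξ ∈ pvspHg 𝔤.sp (𝔤.ty h z s) h := by
  have e : pvspHg 𝔤.sp (𝔤.ty h z s) h = pvprHg (pvspJ (𝔤.ty h z s)) (!s.typ.col) (pvspLane 𝔤.sp (𝔤.ty h z s) h) 𝔤.pst := rfl
  rw [e, pvsz_mod_J]
  exact pvpr_Hg_ms (pvsz_S_meas _ z s.typ s.ln) (pvsz_S_bdd _ z s.typ s.ln) _ (pvsz_mod_lane_ms H z s hh) _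

theorem pvsz_mod_Hg_reads (hh : 0 < h) : Conf.ReadsSet ((𝔤.ty h z s).EJ ×ˢ (univ : Set Bool)) (pvspHg 𝔤.sp (𝔤.ty h z s) h) := by
  intro η
  have h1 := pvpQ_reads (S := pvspJ (𝔤.ty h z s)) (W := (𝔤.ty h z s).EJ ×ˢ (univ : Set Bool)) (fun q hq => ⟨by rw [pvsz_mod_J] at hq; exact pvsz_mod_S_EJ H z s hh hq, mem_univ _⟩)
    (pvmw_reads (𝔤.mu * h) (𝔤.ty h z s).EJ (!s.typ.col) (pvspJ (𝔤.ty h z s)) (𝔤.ty h z s).Dm (𝔤.ty h z s).Dp) (!s.typ.col) η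
  show 𝔤.pst ≤ pvpQ _ _ _ (Conf.restr _ η) ↔ 𝔤.pst ≤ pvpQ _ _ _ η
  exact iff_of_eq (congrArg _ h1)

/-- **at a good geometry the candidate of the model is not flagged, whatever the colours** -/
theorem pvsz_mod_good (hh : 0 < h) (o : ℤ × ℤ) {p : ℝ} (hp : 𝔤.pst ≤ p) {g : PvGeoT} (hg : PvmwGood p (𝔤.dl * h / 5) (!s.typ.col) (pvszL s.typ s.ln o) g) (x : PvColT) :
    pvConf (pvMerge (g, x)) ∈ pvspHg 𝔤.sp (𝔤.ty h (pvmgPt (𝔤.dl * h / 5) o) s) h := by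
  have hδ : 0 < 𝔤.dl * h := mul_pos H.dl0 hh
  show 𝔤.pst ≤ pvpQ (pvspJ (𝔤.ty h (pvmgPt (𝔤.dl * h / 5) o) s)) (!s.typ.col) (pvspLane 𝔤.sp (𝔤.ty h (pvmgPt (𝔤.dl * h / 5) o) s) h) _
  rw [pvsz_mod_lane H _ s hh, pvsz_mod_J]
  refine hp.trans (hg.Q_ge (by positivity) (pvsz_L_ne _ _ o) (pvsz_L_chain s.isType s.isLane o) (by linarith) ?_ (pvsz_S_bdd _ _ _ _) ?_
    (k := pvlpC s.typ s.ln 0 + o) (k' := pvlpC s.typ s.ln (pvlpN s.typ s.ln) + o) ?_ ?_ ?_ ?_ x)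
  · rw [pvsz_E]
    exact pvsz_mod_E0 hδ _ _ _
  · rw [pvsz_W]
    exact Subset.rfl
  · exact pvsz_mem_L.2 ⟨0, Nat.zero_le _, rfl⟩
  · exact pvsz_mem_L.2 ⟨_, le_rfl, rfl⟩
  · rw [pvsz_W_one]
    exact Subset.rfl
  · rw [pvsz_W_one]
    exact Subset.rfl

/-- the centres of the grid of the scale `h` are vectors of the fine grid `(dl h / 5) ℤ²` -/
theorem pvsz_mod_ctr (h : ℝ) (p : ℤ × ℤ) : l9Pt h p = pvmgPt (𝔤.dl * h / 5) (pvszO (5 * 𝔤.nd) p) := by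
  refine pvsz_l9 ?_ p
  have hn : (0 : ℝ) < 𝔤.nd := by exact_mod_cast H.nd0
  rw [H.dl_eq]
  push_cast
  field_simp

/-- **COST OF F3 AT THE MODEL**: uniform in the centre of the grid, in the type of the menu, in the scale `dl h ≥ 5 U ε` -/
theorem pvsz_mod_cost (hp : 𝔤.pst ≤ pvszP 𝔤.NN) {θ : ℝ} (hθ : 0 < θ) : ∃ U : ℝ, 1 ≤ U ∧ ∀ ε : ℝ, 0 < ε → ∀ h : ℝ, U * ε ≤ 𝔤.dl * h / 5 → ∀ (p : ℤ × ℤ) (s : PvmhT 𝔤),
    pvLaw ε (pvConf ⁻¹' (pvspHg 𝔤.sp (𝔤.ty h (l9Pt h p) s) h)ᶜ) ≤ ENNReal.ofReal θ := by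
  obtain ⟨U, hU1, HU⟩ := pvsz_Q_spec (pvszLen 𝔤.NN) hθ
  refine ⟨U, hU1, fun ε hε h hδU p s => ?_⟩
  have hδ : 0 < 𝔤.dl * h / 5 := lt_of_lt_of_le (by positivity) hδU
  have hh : 0 < h := by
    have h1 : 0 < 𝔤.dl * h := by linarith
    exact (pos_iff_pos_of_mul_pos h1).1 H.dl0
  rw [pvsz_mod_ctr H h p]
  have hsub : pvConf ⁻¹' (pvspHg 𝔤.sp (𝔤.ty h (pvmgPt (𝔤.dl * h / 5) (pvszO (5 * 𝔤.nd) p)) s) h)ᶜ ⊆
      {ω | pvGeoOf ω ∈ {g | ¬ PvmwGood (pvszP 𝔤.NN) (𝔤.dl * h / 5) (!s.typ.col) (pvszL s.typ s.ln (pvszO (5 * 𝔤.nd) p)) g}} := by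
    intro ω hω hg
    have h1 := pvsz_mod_good H s hh _ hp hg (pvColOf ω)
    rw [pvqu_merge_of] at h1
    exact hω h1
  exact ((measure_mono hsub).trans (pvax_geo_le ε _)).trans (HU ε hε _ hδU _ _ (pvsz_L_ne _ _ _) (pvsz_L_chain s.isType s.isLane _) (pvsz_L_len s.isType s.isLane _))

theorem pvsz_mod_cost_P (hh : 0 < h) (ε : ℝ) : pvP ε (pvspHg 𝔤.sp (𝔤.ty h z s) h)ᶜ = pvLaw ε (pvConf ⁻¹' (pvspHg 𝔤.sp (𝔤.ty h z s) h)ᶜ) :=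
  pvmz_apply ((pvsz_mod_Hg_ms H z s hh).comp (φ := fun q : Prop => ¬ q) measurable_from_top) ε

end model

/-- **THE FLAG F3 OF THE MODEL AT A CENTRE**: some candidate of the menu has `P^η(A_κ) < p_*` -/
noncomputable def pvszFM (𝔤 : PvmhNum) (h : ℝ) (z : ℂ) : Set (Conf PvPt) := ⋃ s : PvmhT 𝔤, (pvspHg 𝔤.sp (𝔤.ty h z s) h)ᶜ

theorem pvsz_eqns_cite3 : True := by
  have := @pvszFM.eq_1
  trivial

section flag

variable {𝔤 : PvmhNum} (H : 𝔤.OK)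

/-- USE of the flag = the field `hg` of `PvspQual` -/
theorem pvsz_mod_not_FM {h : ℝ} {z : ℂ} {ξ : Conf PvPt} (hξ : ξ ∉ pvszFM 𝔤 h z) (s : PvmhT 𝔤) : ξ ∈ pvspHg 𝔤.sp (𝔤.ty h z s) h := by
  by_contra hc
  exact hξ (mem_iUnion.2 ⟨s, hc⟩)

include H

theorem pvsz_mod_FM_reads {h : ℝ} (hh : 0 < h) (z : ℂ) : Conf.ReadsSet (closedBall z (𝔤.Lr * h) ×ˢ (univ : Set Bool)) (pvszFM 𝔤 h z) :=
  Conf.ReadsSet.iUnion fun s => ((pvsz_mod_Hg_reads H z s hh).mono (Set.prod_mono (pvmh_EJ_sub H z s hh) Subset.rfl)).compl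

/-- **F3 OF THE MODEL IN THE FORM `PvxpFlag` OF 12**: range `w ≥ Lr + 1` blocks, ANY budget `ζ > 0`, as soon as `p_* = 𝔤.pst ≤ pvszP 𝔤.NN` -/
theorem pvsz_mod_flag (hp : 𝔤.pst ≤ pvszP 𝔤.NN) (h : ℕ → ℝ) (hh : ∀ m, 0 < h m) {w : ℕ} (hw : 𝔤.Lr + 1 ≤ w) {ζ : ℝ≥0∞} (hζ : 0 < ζ) :
    PvxpFlag h w ζ fun m p => pvszFM 𝔤 (h m) (l9Pt (h m) p) := by
  classical
  refine ⟨fun m p => (pvsz_mod_FM_reads H (hh m) _).mono (pvsz_win_blk (hh m) hw p), fun x R => Eventually.of_forall fun m => ?_⟩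
  obtain ⟨θ, hθ, hθζ⟩ := ENNReal.exists_nnreal_pos_mul_lt (a := ((Finset.univ : Finset (PvmhT 𝔤)).card : ℝ≥0∞)) (ENNReal.natCast_ne_top _) hζ.ne'
  obtain ⟨U, hU1, HU⟩ := pvsz_mod_cost H hp (θ := (θ : ℝ)) (by exact_mod_cast hθ)
  have hdl := H.dl0
  have hev : ∀ᶠ ε in 𝓝[>] (0 : ℝ), ε < 𝔤.dl * h m / 5 / U := by
    have : (0 : ℝ) < 𝔤.dl * h m / 5 / U := by have := hh m; positivity
    exact mem_nhdsWithin_of_mem_nhds (Iio_mem_nhds this)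
  filter_upwards [hev, self_mem_nhdsWithin] with ε hε hε0 p _
  have hUε : U * ε ≤ 𝔤.dl * h m / 5 := by
    have hU0 : 0 < U := by linarith
    rw [lt_div_iff₀ hU0] at hε
    linarith
  have hsub : pvszFM 𝔤 (h m) (l9Pt (h m) p) = ⋃ s ∈ (Finset.univ : Finset (PvmhT 𝔤)), (pvspHg 𝔤.sp (𝔤.ty (h m) (l9Pt (h m) p) s) (h m))ᶜ := by
    unfold pvszFM
    simp
  rw [hsub]
  refine (measure_biUnion_finset_le _ _).trans ?_
  refine (Finset.sum_le_card_nsmul _ _ (θ : ℝ≥0∞) fun s _ => ?_).trans ?_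
  · rw [pvsz_mod_cost_P H _ s (hh m)]
    have := HU ε hε0 _ hUε p s
    rwa [ENNReal.ofReal_coe_nnreal] at this
  · rw [nsmul_eq_mul, mul_comm]
    exact hθζ.le

end flag

/-! ## 5. USE AT THE MODEL -/

section use

variable {𝔤 : PvmhNum} (H : 𝔤.OK) {h : ℝ} {z : ℂ} {s : PvmhT 𝔤}

include H

/-- the radius of the ball round the cut -/
theorem pvsz_mod_nK (hh : 0 < h) : 2 * h ≤ (𝔤.nK : ℝ) * (𝔤.dl * h / 5) ∧ 2 * ((𝔤.nK : ℝ) + 4) * (𝔤.dl * h / 5) ≤ 5 * h := by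
  obtain ⟨h0, h1, -⟩ := pvmh_basic H
  have e : 𝔤.nK = ⌈10 / 𝔤.dl⌉₊ := rfl
  have u1 := Nat.le_ceil (10 / 𝔤.dl)
  have u2 := Nat.ceil_lt_add_one (div_nonneg (by norm_num : (0 : ℝ) ≤ 10) h0.le)
  rw [← e] at u1 u2
  rw [div_le_iff₀ h0] at u1
  have u3 : (𝔤.nK : ℝ) * 𝔤.dl < 10 + 𝔤.dl := by
    have : (𝔤.nK : ℝ) * 𝔤.dl < (10 / 𝔤.dl + 1) * 𝔤.dl := mul_lt_mul_of_pos_right u2 h0
    rwa [add_mul, div_mul_cancel₀ _ h0.ne', one_mul] at this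
  constructor
  · nlinarith
  · nlinarith

/-- **the lane part of the twelve regions of the model** -/
theorem pvsz_mod_reg (hh : 0 < h) (z : ℂ) (s : PvmhT 𝔤) : PvszReg ((𝔤.ty h z s).reg 𝔤.sp z h) (𝔤.dl * h) 𝔤.nK z s.typ s.ln := by
  have hδ : 0 < 𝔤.dl * h := mul_pos H.dl0 hh
  obtain ⟨h0, h1, h2, h3, h4, h5⟩ := pvmh_basic H
  have hK := (pvsz_mod_nK H hh).2
  have a0 := H.a_pos; have b0 := H.ab 0; have n1 := H.nest01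
  refine ⟨subset_union_left, subset_union_left, subset_union_right, subset_union_right, ?_, ?_⟩
  · show closedBall z _ ⊆ closedBall z (𝔤.a 1 * h)
    refine closedBall_subset_closedBall (hK.trans ?_)
    exact mul_le_mul_of_nonneg_right (by linarith) hh.le
  · -- the door window lies in `U(N⁹(C 0))`, which is off the ball `rB`
    rw [Set.disjoint_left]
    intro p hp hb
    have hp1 : p ∈ pvmgPl z (𝔤.dl * h) (pvtwN 9 (s.typ.C 0 : Set (ℤ × ℤ))) := pvsz_tr_mono (pvlb_DA s.isType s.isLane hδ) hp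
    have hb1 : p ∈ pvmgPl z (𝔤.dl * h) (pvmnBl 𝔤.NN.rB) := by
      refine pvmg_ball_sub hδ (closedBall_subset_closedBall ?_ hb)
      have e2 : 𝔤.NN.rB = 𝔤.rB / 𝔤.dl := rfl
      have e3 : 𝔤.dl * h * 𝔤.NN.rB = 𝔤.rB * h := by rw [e2]; field_simp
      have r1 : 𝔤.rO = 2 * 𝔤.b 1 := rfl
      have r2 : 𝔤.rB = 𝔤.rO + 2 := rfl
      rw [e3, r2, r1]
      refine hK.trans (mul_le_mul_of_nonneg_right (by linarith) hh.le)
    have hd : Disjoint (pvtN8 (pvtwN 9 (s.typ.C 0 : Set (ℤ × ℤ)))) (pvmnBl 𝔤.NN.rB) := by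
      rw [← pvtw_N_succ]
      exact s.isType.ball 0 (by decide) (by decide)
    exact Set.disjoint_left.1 (pvmg_disj hδ hd) hp1 hb1

/-- **the cut exists** at every fitting candidate: the corridor has a cell in the fine box `nK` -/
theorem pvsz_mod_cut (hh : 0 < h) {P : PvbRim} {i0 : ℕ} (F : 𝔤.Fit h P i0 z s) : ∃ k, k ≤ pvlpN s.typ s.ln ∧ pvlpC s.typ s.ln k ∈ pvmnBox 𝔤.nK := by
  obtain ⟨-, tt, h5, I, hfit⟩ := F
  have N := pvmh_num H hh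
  have hδ := N.δ_pos
  have C := I.cuts N
  have hm := pvlb_t_mono hfit
  obtain ⟨k, hk, hkl⟩ := pvlb_cor_track (μ := 𝔤.mu * h) (d := 𝔤.d0 * h) (e₀ := 𝔤.e0 * h) s.isType s.isLane hfit hδ N.μ_nn N.e0_pos.le (fun i h1 h2 => I.mesh' N i h1 h2)
    (fun a b ha hab hb hd i hi1 hi2 => by
      have hd' : ‖P.v a - P.v b‖ ≤ 𝔤.d0 * h := by rwa [pvmf_sub] at hd
      have hwin : ‖P.v a - z‖ ≤ 10 * 𝔤.b3 * h ∨ ‖P.v b - z‖ ≤ 10 * 𝔤.b3 * h := Or.inl (C.win a ha (hab.trans hb))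
      show ‖(P.v i - z) - (P.v a - z)‖ ≤ 𝔤.e0 * h
      rw [pvmf_sub]
      exact I.nr0 a b hab (hb.trans C.le_len) hwin hd' i a hi1 hi2 le_rfl hab)
    (by have := N.d0_ge; have := N.μ_le; linarith) (tt 5) (hm (show (1 : Fin 11) ≤ 5 by decide)) (hm (show (5 : Fin 11) ≤ 9 by decide))
  refine ⟨k, hk, pvlb_ctr_box (δ := 𝔤.dl * h / 5) (by positivity) ?_⟩
  have hn := I.near
  have h3 : ‖pvtCtr (𝔤.dl * h / 5) (pvlpC s.typ s.ln k)‖ ≤ ‖P.v (tt 5) - z‖ + ‖(P.v (tt 5) - z) - pvtCtr (𝔤.dl * h / 5) (pvlpC s.typ s.ln k)‖ := by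
    have := norm_sub_le (P.v (tt 5) - z) ((P.v (tt 5) - z) - pvtCtr (𝔤.dl * h / 5) (pvlpC s.typ s.ln k))
    simpa using this
  have hK := (pvsz_mod_nK H hh).1
  have a1 := N.d0_ge; have a2 := N.d0_le; have a3 := N.e0_le; have a4 := N.d1_le; have a5 := N.μ_le
  have a6 : 𝔤.e1 * h ≤ 1 / 2 * h := mul_le_mul_of_nonneg_right H.e1_le hh.le
  linarith

/-- the bar at the pin lies in the ball round the centre -/
theorem pvsz_mod_bar (hh : 0 < h) (s : PvmhT 𝔤) : ∀ p ∈ pvtU (𝔤.dl * h) (pvmnBar 𝔤.NN s.typ 5), ‖p‖ ≤ 2 * ((𝔤.nK : ℝ) + 4) * (𝔤.dl * h / 5) := by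
  intro p hp
  have h1 : p ∈ closedBall (0 : ℂ) (3 * h) := pvmh_bar H 0 s hh (pvmg_mem.2 (by rw [sub_zero]; exact hp))
  rw [mem_closedBall_zero_iff] at h1
  have h2 := (pvsz_mod_nK H hh).1
  have h3 : 0 < 𝔤.dl * h := mul_pos H.dl0 hh
  nlinarith

variable {X : Type} {ξ : Conf PvPt}

/-- **USE OF `A_κ` AT THE MODEL** (P12, white half): a configuration of the lane event of a FITTING candidate, a completion which is Delaunay near the strip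
⟹  the white door-to-door chain, split at the centre, in the two forms of 97 (`PvsqLane`, `PvsjLane`: hypothesis of `pvsj_main`), at the regions of record `(𝔤.ty h z s).reg 𝔤.sp z h` -/
theorem pvsz_mod_use (hh : 0 < h) {P : PvbRim} {i0 : ℕ} (F : 𝔤.Fit h P i0 z s) (𝔅 : PvBulk X) {sc : 𝔅.V (cfSites ξ) → Bool} (hsc : DelbCol 𝔅 sc (cfCol ξ)) (zi : ℂ) {Kc : Set ℂ}
    (hOk : 𝔅.Ok (cfSites ξ) Kc) (hK : pvspJ (𝔤.ty h z s) ⊆ Kc) (h1c : ∀ p ∈ pvspJ (𝔤.ty h z s), (p, true) ∈ ξ.pts → (p, false) ∈ ξ.pts → False) (hξ : ξ ∈ pvspLane 𝔤.sp (𝔤.ty h z s) h) :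
    ∃ (ω : (𝔅.T (cfSites ξ)).Pth) (Jm Jp : ℕ), PvsqLane (𝔅.T (cfSites ξ)) (𝔅.posF _ zi) ((𝔤.ty h z s).reg 𝔤.sp z h) (pvspS (𝔤.ty h z s).col sc) ω Jm Jp ∧
      PvsjLane (𝔅.T (cfSites ξ)) (𝔅.posF _ zi) ((𝔤.ty h z s).reg 𝔤.sp z h) (pvspS (𝔤.ty h z s).col sc) ω.n ω.v Jm Jp ∧
      ∀ j, j ≤ ω.n → 𝔅.posF _ zi (ω.v j) ∈ pvspJ (𝔤.ty h z s) ∧ 𝔅.lab _ (ω.v j) = Sum.inl (𝔅.posF _ zi (ω.v j)) ∧ (𝔅.posF _ zi (ω.v j), !(𝔤.ty h z s).col) ∈ ξ.pts := by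
  rw [pvsz_mod_lane H z s hh] at hξ
  rw [pvsz_mod_J] at hK h1c ⊢
  exact pvsz_at_lane s.isType s.isLane (mul_pos H.dl0 hh) le_rfl (pvsz_mod_bar H hh s) (pvsz_mod_reg H hh z s) 𝔅 hsc zi hOk hK h1c hξ

/-- the same at a WHITENING of the strip (`exit_pinsP_five` of 8): no hypothesis on the colours -/
theorem pvsz_mod_use_paint (hh : 0 < h) {P : PvbRim} {i0 : ℕ} (F : 𝔤.Fit h P i0 z s) {η : Conf PvPt} {B : Finset ℂ} (𝔅 : PvBulk X)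
    {sc : 𝔅.V (cfSites (cfPaint (pvspJ (𝔤.ty h z s)) (!s.typ.col) B η)) → Bool} (hsc : DelbCol 𝔅 sc (cfCol (cfPaint (pvspJ (𝔤.ty h z s)) (!s.typ.col) B η))) (zi : ℂ) {Kc : Set ℂ}
    (hOk : 𝔅.Ok (cfSites (cfPaint (pvspJ (𝔤.ty h z s)) (!s.typ.col) B η)) Kc) (hK : pvspJ (𝔤.ty h z s) ⊆ Kc) (hA : cfPaint (pvspJ (𝔤.ty h z s)) (!s.typ.col) B η ∈ pvspLane 𝔤.sp (𝔤.ty h z s) h) :
    ∃ (ω : (𝔅.T (cfSites (cfPaint (pvspJ (𝔤.ty h z s)) (!s.typ.col) B η))).Pth) (Jm Jp : ℕ),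
      PvsjLane (𝔅.T _) (𝔅.posF _ zi) ((𝔤.ty h z s).reg 𝔤.sp z h) (pvspS (𝔤.ty h z s).col sc) ω.n ω.v Jm Jp ∧
      ∀ j, j ≤ ω.n → 𝔅.posF _ zi (ω.v j) ∈ pvspJ (𝔤.ty h z s) ∧ 𝔅.lab _ (ω.v j) = Sum.inl (𝔅.posF _ zi (ω.v j)) := by
  obtain ⟨ω, Jm, Jp, -, h2, h3⟩ := pvsz_mod_use H hh F 𝔅 hsc zi hOk hK (pvsz_at_paint_1c _ _ _ _) hA
  exact ⟨ω, Jm, Jp, h2, fun j hj => ⟨(h3 j hj).1, (h3 j hj).2.1⟩⟩

end use

end Claimed.Agent.R289
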