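import Claimed.Agent.R289.Tr.Ind
import Claimed.Agent.R289.Tr.CellAlg

/-!
# Row 289 (S0537), wall block WB4, file Tr/Sym : (SYM) AT THE LEVEL OF THE POISSON PROCESS      (owner helper218; prefix `pvts_`, `pvts`)

Blueprint: W1_125.md sec. 3 (SYM), TR_295.md TR25, wall_140.md sec. 3.   Vocabulary: `Conf`, `Conf.restr`, `Conf.spl`, `Conf.Reads` (256, 159, 141), `pvtiP`, `pvtiW`, `pvtiMean` (141, `Tr/Ind.lean`), `cfMap`, `pvP_isometry` (267).
* §1 generic: a measurable bijection `φ : E ≃ᵐ E` acts on configurations (`pvtsT φ : Conf E ≃ᵐ Conf E`); it commutes with `restr`, `union`, `spl`; transport of `Reads`.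
* §2 generic: if the law is invariant, then integrals, `pvtiP`, `pvtiW`, `pvtiMean` are covariant.
* §3 the model: rigid motions `w ↦ z + d w` (`pvtsMot`), regions `pvtsReg U`, placed events / functions / weights.
* §4 cell means: the mean of a placed tile is `d` times the mean of the reference tile (TR25), hence `Tr/CellAlg` applies.
-/

set_option autoImplicit false
set_option linter.unusedSectionVars false

namespace Claimed.Agent.R289

open MeasureTheory ProbabilityTheory Set Filter Topology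
open scoped ENNReal NNReal

/-! ## 1. action of a measurable bijection on configurations -/

section act

variable {E : Type*} [MeasurableSpace E]

theorem pvts_image_image {F G : Type*} (f : E → F) (g : F → G) (η : Conf E) :
    Conf.image g (Conf.image f η) = Conf.image (g ∘ f) η := by
  ext p; simp [Conf.image]

theorem pvts_image_id (η : Conf E) : Conf.image id η = η := by
  ext p; simp [Conf.image]

/-- the action of `φ` on configurations, as a measurable equivalence -/
def pvtsT (φ : E ≃ᵐ E) : Conf E ≃ᵐ Conf E where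
  toFun := Conf.image φ
  invFun := Conf.image φ.symm
  left_inv η := by
    rw [pvts_image_image]
    have : (φ.symm ∘ φ : E → E) = id := by funext x; simp
    rw [this, pvts_image_id]
  right_inv η := by
    rw [pvts_image_image]
    have : (φ ∘ φ.symm : E → E) = id := by funext x; simp
    rw [this, pvts_image_id]
  measurable_toFun := Conf.measurable_image φ.measurable
  measurable_invFun := Conf.measurable_image φ.symm.measurable

theorem pvtsT_apply (φ : E ≃ᵐ E) (η : Conf E) : pvtsT φ η = Conf.image φ η := rfl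

theorem pvtsT_symm (φ : E ≃ᵐ E) : (pvtsT φ).symm = pvtsT φ.symm := rfl

theorem pvtsT_pts (φ : E ≃ᵐ E) (η : Conf E) : (pvtsT φ η).pts = φ '' η.pts := rfl

theorem pvts_restr (φ : E ≃ᵐ E) (O : Set E) (η : Conf E) :
    pvtsT φ (Conf.restr O η) = Conf.restr (φ '' O) (pvtsT φ η) := by
  ext p
  simp only [pvtsT_pts, Conf.restr]
  rw [Set.image_inter φ.injective]

theorem pvts_union (φ : E ≃ᵐ E) (η η' : Conf E) :
    pvtsT φ (Conf.union η η') = Conf.union (pvtsT φ η) (pvtsT φ η') := by
  ext p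
  simp only [pvtsT_pts, Conf.union]
  rw [Set.image_union]

theorem pvts_spl (φ : E ≃ᵐ E) (O : Set E) (σ η : Conf E) :
    pvtsT φ (Conf.spl O (σ, η)) = Conf.spl (φ '' O) (pvtsT φ σ, pvtsT φ η) := by
  unfold Conf.spl
  rw [pvts_union, pvts_restr, pvts_restr, Set.image_compl_eq φ.bijective]

/-- transport of a reader -/
theorem pvts_reads {β : Type*} (φ : E ≃ᵐ E) {W : Set E} {f : Conf E → β} (h : Conf.Reads W f) :
    Conf.Reads (φ '' W) (fun η => f ((pvtsT φ).symm η)) := fun η => by
  have e : (pvtsT φ).symm (Conf.restr (φ '' W) η) = Conf.restr W ((pvtsT φ).symm η) := by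
    apply (pvtsT φ).injective
    rw [pvts_restr]; simp
  show f ((pvtsT φ).symm (Conf.restr (φ '' W) η)) = f ((pvtsT φ).symm η)
  rw [e, h]

theorem pvts_reads' {β : Type*} (φ : E ≃ᵐ E) {W : Set E} {f : Conf E → β}
    (h : Conf.Reads (φ '' W) f) : Conf.Reads W (fun η => f (pvtsT φ η)) := fun η => by
  show f (pvtsT φ (Conf.restr W η)) = f (pvtsT φ η)
  rw [pvts_restr, h]

end act

/-! ## 2. invariant laws -/

section inv

variable {E : Type*} [MeasurableSpace E] {μ : Measure (Conf E)}

/-- the law is invariant under `φ` -/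
def PvtsInv (μ : Measure (Conf E)) (φ : E ≃ᵐ E) : Prop := μ.map (pvtsT φ) = μ

theorem PvtsInv.mp {φ : E ≃ᵐ E} (h : PvtsInv μ φ) : MeasurePreserving (pvtsT φ) μ μ :=
  ⟨(pvtsT φ).measurable, h⟩

theorem PvtsInv.symm {φ : E ≃ᵐ E} (h : PvtsInv μ φ) : PvtsInv μ φ.symm := by
  have := h.mp.symm (pvtsT φ)
  exact this.map_eq

theorem pvts_lintegral {φ : E ≃ᵐ E} (h : PvtsInv μ φ) (F : Conf E → ℝ≥0∞) :
    ∫⁻ η, F (pvtsT φ η) ∂μ = ∫⁻ η, F η ∂μ :=
  h.mp.lintegral_comp_emb (pvtsT φ).measurableEmbedding F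

theorem pvts_integral {G : Type*} [NormedAddCommGroup G] [NormedSpace ℝ G] {φ : E ≃ᵐ E}
    (h : PvtsInv μ φ) (F : Conf E → G) : ∫ η, F (pvtsT φ η) ∂μ = ∫ η, F η ∂μ :=
  h.mp.integral_comp (pvtsT φ).measurableEmbedding F

theorem pvts_measure {φ : E ≃ᵐ E} (h : PvtsInv μ φ) (S : Set (Conf E)) :
    μ (pvtsT φ ⁻¹' S) = μ S :=
  h.mp.measure_preimage_emb (pvtsT φ).measurableEmbedding S

/-- a density is transported -/
theorem pvts_withDensity {φ : E ≃ᵐ E} (h : PvtsInv μ φ) (f : Conf E → ℝ≥0∞) :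
    (μ.withDensity fun η => f (pvtsT φ η)).map (pvtsT φ) = μ.withDensity f := by
  ext s hs
  rw [Measure.map_apply (pvtsT φ).measurable hs, withDensity_apply _ hs,
    withDensity_apply _ ((pvtsT φ).measurable hs)]
  exact h.mp.setLIntegral_comp_preimage_emb (pvtsT φ).measurableEmbedding f s

theorem pvts_integral_withDensity {G : Type*} [NormedAddCommGroup G] [NormedSpace ℝ G]
    {φ : E ≃ᵐ E} (h : PvtsInv μ φ) (f : Conf E → ℝ≥0∞) (F : Conf E → G) :
    ∫ η, F (pvtsT φ η) ∂(μ.withDensity fun η => f (pvtsT φ η)) = ∫ η, F η ∂(μ.withDensity f) := by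
  rw [← pvts_withDensity h f, integral_map_equiv]

/-- **covariance of the conditional probability** -/
theorem pvts_P {φ : E ≃ᵐ E} (h : PvtsInv μ φ) (O : Set E) (S : Set (Conf E)) (σ : Conf E) :
    pvtiP μ (φ '' O) S (pvtsT φ σ) = pvtiP μ O (pvtsT φ ⁻¹' S) σ := by
  unfold pvtiP
  rw [← pvts_lintegral h]
  refine lintegral_congr fun η => ?_
  rw [← pvts_spl]
  rfl

/-- **covariance of the weight `1_S / P(S | σ)`** -/
theorem pvts_W {φ : E ≃ᵐ E} (h : PvtsInv μ φ) (O : Set E) (S : Set (Conf E)) (η : Conf E) :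
    pvtiW μ (φ '' O) S (pvtsT φ η) = pvtiW μ O (pvtsT φ ⁻¹' S) η := by
  unfold pvtiW
  rw [pvts_P h]
  rfl

/-- **covariance of the conditional mean** -/
theorem pvts_mean {φ : E ≃ᵐ E} (h : PvtsInv μ φ) (O : Set E) (w : Conf E → ℝ≥0∞) (Y : Conf E → ℂ)
    (σ : Conf E) :
    pvtiMean μ (φ '' O) w Y (pvtsT φ σ)
      = pvtiMean μ O (fun η => w (pvtsT φ η)) (fun η => Y (pvtsT φ η)) σ := by
  unfold pvtiMean
  rw [← pvts_integral_withDensity h]
  simp_rw [← pvts_spl]

end inv

/-! ## 3. frames, rigid motions, placed objects -/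

/-- a frame: a position and a unit direction; it stands for the rigid motion `w ↦ z + d w` -/
structure PvtsFr where
  z : ℂ
  d : ℂ
  hd : ‖d‖ = 1

namespace PvtsFr

theorem d_ne (f : PvtsFr) : f.d ≠ 0 := by
  intro h
  have := f.hd
  rw [h] at this
  simp at this

/-- the standard frame -/
def one : PvtsFr := ⟨0, 1, by simp⟩

/-- composition: `f.mul g` is `g` read in the frame `f` -/
def mul (f g : PvtsFr) : PvtsFr := ⟨f.z + f.d * g.z, f.d * g.d, by rw [norm_mul, f.hd, g.hd, one_mul]⟩

/-- the rigid motion of the plane -/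
noncomputable def iso (f : PvtsFr) : ℂ ≃ᵢ ℂ :=
  IsometryEquiv.mk' (fun w => f.z + f.d * w) (fun w => f.d⁻¹ * (w - f.z))
    (fun w => by
      show f.z + f.d * (f.d⁻¹ * (w - f.z)) = w
      rw [← mul_assoc, mul_inv_cancel₀ f.d_ne]; ring)
    (Isometry.of_dist_eq fun w w' => by
      rw [dist_eq_norm, dist_eq_norm]
      have : f.z + f.d * w - (f.z + f.d * w') = f.d * (w - w') := by ring
      rw [this, norm_mul, f.hd, one_mul])

theorem iso_apply (f : PvtsFr) (w : ℂ) : f.iso w = f.z + f.d * w := rfl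

theorem iso_mul (f g : PvtsFr) (w : ℂ) : (f.mul g).iso w = f.iso (g.iso w) := by
  simp only [iso_apply, mul]; ring

/-- the rigid motion on coloured points -/
noncomputable def phi (f : PvtsFr) : PvPt ≃ᵐ PvPt :=
  MeasurableEquiv.prodCongr f.iso.toHomeomorph.toMeasurableEquiv (MeasurableEquiv.refl Bool)

theorem phi_apply (f : PvtsFr) (p : PvPt) : f.phi p = (f.iso p.1, p.2) := rfl

theorem phi_mul (f g : PvtsFr) (p : PvPt) : (f.mul g).phi p = f.phi (g.phi p) := by
  simp only [phi_apply, iso_mul]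

/-- the action on configurations -/
noncomputable def T (f : PvtsFr) : Conf PvPt ≃ᵐ Conf PvPt := pvtsT f.phi

theorem T_eq_cfMap (f : PvtsFr) (η : Conf PvPt) : f.T η = cfMap f.iso η := rfl

theorem T_mul (f g : PvtsFr) (η : Conf PvPt) : (f.mul g).T η = f.T (g.T η) := by
  show Conf.image (f.mul g).phi η = Conf.image f.phi (Conf.image g.phi η)
  rw [pvts_image_image]
  congr 1
  funext p
  exact phi_mul f g p

theorem T_symm_mul (f g : PvtsFr) (η : Conf PvPt) :
    (f.mul g).T.symm η = g.T.symm (f.T.symm η) := by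
  apply (f.mul g).T.injective
  rw [MeasurableEquiv.apply_symm_apply, T_mul, MeasurableEquiv.apply_symm_apply,
    MeasurableEquiv.apply_symm_apply]

/-- **(SYM)**: the law of the model is invariant under all rigid motions -/
theorem inv (f : PvtsFr) (ε : ℝ) : PvtsInv (pvP ε) f.phi := pvP_isometry f.iso ε

/-- a placed region -/
noncomputable def reg (f : PvtsFr) (O : Set PvPt) : Set PvPt := f.phi '' O

/-- a placed event -/
noncomputable def ev (f : PvtsFr) (S : Set (Conf PvPt)) : Set (Conf PvPt) := f.T.symm ⁻¹' S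

/-- a placed function with invariant values (weights, probabilities, indicators) -/
noncomputable def fn {β : Type*} (f : PvtsFr) (w : Conf PvPt → β) : Conf PvPt → β := fun η => w (f.T.symm η)

/-- a placed function whose values rotate as vectors -/
noncomputable def vec (f : PvtsFr) (M : Conf PvPt → ℂ) : Conf PvPt → ℂ := fun η => f.d * M (f.T.symm η)

theorem reg_union (f : PvtsFr) (O O' : Set PvPt) : f.reg (O ∪ O') = f.reg O ∪ f.reg O' :=
  Set.image_union _ _ _

theorem reg_mul (f g : PvtsFr) (O : Set PvPt) : (f.mul g).reg O = f.reg (g.reg O) := by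
  unfold reg
  rw [← Set.image_comp]
  congr 1
  funext p
  exact phi_mul f g p

theorem reg_disjoint (f : PvtsFr) {O O' : Set PvPt} (h : Disjoint O O') :
    Disjoint (f.reg O) (f.reg O') :=
  (Set.disjoint_image_iff f.phi.injective).2 h

theorem reg_mono (f : PvtsFr) {O O' : Set PvPt} (h : O ⊆ O') : f.reg O ⊆ f.reg O' :=
  Set.image_mono h

theorem measurableSet_reg (f : PvtsFr) {O : Set PvPt} (h : MeasurableSet O) :
    MeasurableSet (f.reg O) :=
  (f.phi.measurableSet_image).2 h

theorem measurableSet_ev (f : PvtsFr) {S : Set (Conf PvPt)} (h : MeasurableSet S) :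
    MeasurableSet (f.ev S) :=
  f.T.symm.measurable h

theorem measurable_fn {β : Type*} [MeasurableSpace β] (f : PvtsFr) {w : Conf PvPt → β}
    (h : Measurable w) : Measurable (f.fn w) :=
  h.comp f.T.symm.measurable

theorem measurable_vec (f : PvtsFr) {M : Conf PvPt → ℂ} (h : Measurable M) :
    Measurable (f.vec M) :=
  (h.comp f.T.symm.measurable).const_mul _

theorem ev_mul (f g : PvtsFr) (S : Set (Conf PvPt)) : (f.mul g).ev S = f.ev (g.ev S) := by
  ext η
  simp only [ev, mem_preimage, T_symm_mul]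

theorem fn_mul {β : Type*} (f g : PvtsFr) (w : Conf PvPt → β) :
    (f.mul g).fn w = f.fn (g.fn w) := by
  funext η
  simp only [fn, T_symm_mul]

theorem vec_mul (f g : PvtsFr) (M : Conf PvPt → ℂ) : (f.mul g).vec M = f.vec (g.vec M) := by
  funext η
  show (f.d * g.d) * M ((f.mul g).T.symm η) = f.d * (g.d * M (g.T.symm (f.T.symm η)))
  rw [T_symm_mul, mul_assoc]

theorem vec_add (f : PvtsFr) (M M' : Conf PvPt → ℂ) :
    f.vec (fun η => M η + M' η) = fun η => f.vec M η + f.vec M' η := by
  funext η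
  simp only [vec, mul_add]

theorem fn_indicator (f : PvtsFr) (S : Set (Conf PvPt)) :
    f.fn (S.indicator (1 : Conf PvPt → ℝ≥0∞)) = (f.ev S).indicator 1 := by
  funext η
  by_cases hη : f.T.symm η ∈ S
  · have h2 : η ∈ f.ev S := hη
    rw [Set.indicator_of_mem h2]
    show S.indicator 1 (f.T.symm η) = _
    rw [Set.indicator_of_mem hη]; rfl
  · have h2 : η ∉ f.ev S := hη
    rw [Set.indicator_of_notMem h2]
    show S.indicator 1 (f.T.symm η) = _
    rw [Set.indicator_of_notMem hη]

theorem reads_fn {β : Type*} (f : PvtsFr) {W : Set PvPt} {w : Conf PvPt → β}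
    (h : Conf.Reads W w) : Conf.Reads (f.reg W) (f.fn w) :=
  pvts_reads f.phi h

theorem reads_ev (f : PvtsFr) {W : Set PvPt} {S : Set (Conf PvPt)}
    (h : Conf.Reads W (fun η => η ∈ S)) : Conf.Reads (f.reg W) (fun η => η ∈ f.ev S) :=
  pvts_reads f.phi h

theorem reads_vec (f : PvtsFr) {W : Set PvPt} {M : Conf PvPt → ℂ}
    (h : Conf.Reads W M) : Conf.Reads (f.reg W) (f.vec M) :=
  (pvts_reads f.phi h).comp (fun x => f.d * x)

variable {μ : Measure (Conf PvPt)}

theorem measure_ev (f : PvtsFr) (h : PvtsInv μ f.phi) (S : Set (Conf PvPt)) : μ (f.ev S) = μ S :=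
  pvts_measure h.symm S

theorem lintegral_fn (f : PvtsFr) (h : PvtsInv μ f.phi) (F : Conf PvPt → ℝ≥0∞) :
    ∫⁻ η, f.fn F η ∂μ = ∫⁻ η, F η ∂μ :=
  pvts_lintegral h.symm F

theorem integral_vec (f : PvtsFr) (h : PvtsInv μ f.phi) (w : Conf PvPt → ℝ≥0∞)
    (Y : Conf PvPt → ℂ) :
    ∫ η, f.vec Y η ∂(μ.withDensity (f.fn w)) = f.d * ∫ η, Y η ∂(μ.withDensity w) := by
  have := pvts_integral_withDensity h.symm w Y
  unfold vec fn
  rw [integral_const_mul]
  congr 1

/-- the conditional probability of a placed event is the placed conditional probability -/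
theorem P_placed (f : PvtsFr) (h : PvtsInv μ f.phi) (O : Set PvPt) (S : Set (Conf PvPt)) :
    pvtiP μ (f.reg O) (f.ev S) = f.fn (pvtiP μ O S) := by
  funext η
  have e := pvts_P h O (f.ev S) (f.T.symm η)
  have e1 : pvtsT f.phi (f.T.symm η) = η := f.T.apply_symm_apply η
  have e2 : pvtsT f.phi ⁻¹' f.ev S = S := by
    ext ζ
    show f.T.symm (f.T ζ) ∈ S ↔ ζ ∈ S
    rw [f.T.symm_apply_apply]
  rw [e1, e2] at e
  exact e

theorem W_placed (f : PvtsFr) (h : PvtsInv μ f.phi) (O : Set PvPt) (S : Set (Conf PvPt)) :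
    pvtiW μ (f.reg O) (f.ev S) = f.fn (pvtiW μ O S) := by
  funext η
  unfold pvtiW
  rw [P_placed f h, ← fn_indicator]
  rfl

/-- the conditional mean of a placed vector under a placed weight is the placed conditional mean -/
theorem mean_placed (f : PvtsFr) (h : PvtsInv μ f.phi) (O : Set PvPt) (w : Conf PvPt → ℝ≥0∞)
    (Y : Conf PvPt → ℂ) :
    pvtiMean μ (f.reg O) (f.fn w) (f.vec Y) = f.vec (pvtiMean μ O w Y) := by
  funext η
  have e := pvts_mean h O (f.fn w) (f.vec Y) (f.T.symm η)
  have e1 : pvtsT f.phi (f.T.symm η) = η := f.T.apply_symm_apply η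
  rw [e1] at e
  rw [show f.reg O = f.phi '' O from rfl, e]
  have e2 : (fun ζ => f.fn w (pvtsT f.phi ζ)) = w := by
    funext ζ
    show w (f.T.symm (f.T ζ)) = w ζ
    rw [f.T.symm_apply_apply]
  have e3 : (fun ζ => f.vec Y (pvtsT f.phi ζ)) = fun ζ => f.d * Y ζ := by
    funext ζ
    show f.d * Y (f.T.symm (f.T ζ)) = f.d * Y ζ
    rw [f.T.symm_apply_apply]
  rw [e2, e3]
  unfold pvtiMean vec
  rw [integral_const_mul]

end PvtsFr

/-- the region of the coloured points over a planar set -/
def pvtsReg (U : Set ℂ) : Set PvPt := Prod.fst ⁻¹' U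

theorem pvts_reg_placed (f : PvtsFr) (U : Set ℂ) : f.reg (pvtsReg U) = pvtsReg (f.iso '' U) := by
  ext p
  constructor
  · rintro ⟨q, hq, rfl⟩
    exact ⟨q.1, hq, rfl⟩
  · rintro ⟨w, hw, e⟩
    exact ⟨(w, p.2), hw, Prod.ext e rfl⟩

theorem pvts_measurableSet_reg {U : Set ℂ} (h : MeasurableSet U) : MeasurableSet (pvtsReg U) :=
  measurable_fst h

theorem pvts_reg_disjoint {U V : Set ℂ} (h : Disjoint U V) : Disjoint (pvtsReg U) (pvtsReg V) :=
  h.preimage _

/-! ## 4. frames along a word -/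

/-- the exit door of a tile of type `τ` in the grid of mesh `δ`, read in the frame of its entrance door -/
noncomputable def pvtsExit (δ : ℝ) (τ : PvtTurn) : PvtsFr := ⟨δ * τ.mid, τ.rot, pvt_norm_rot τ⟩

/-- the frame of the last door of a word which starts in the frame `f` -/
noncomputable def pvtsFrame (δ : ℝ) (f : PvtsFr) : List PvtTurn → PvtsFr
  | [] => f
  | τ :: l => pvtsFrame δ (f.mul (pvtsExit δ τ)) l

theorem pvtsFrame_d (δ : ℝ) (f : PvtsFr) (l : List PvtTurn) :
    (pvtsFrame δ f l).d = pvtDir f.d l := by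
  induction l generalizing f with
  | nil => rfl
  | cons τ l ih => exact ih _

theorem pvtsFrame_z (δ : ℝ) (f : PvtsFr) (l : List PvtTurn) :
    (pvtsFrame δ f l).z = f.z + δ * pvtDisp f.d l := by
  induction l generalizing f with
  | nil => simp [pvtsFrame, pvtDisp]
  | cons τ l ih =>
    have := ih (f.mul (pvtsExit δ τ))
    simp only [pvtsFrame, pvtDisp, pvtAcc_cons] at this ⊢
    rw [this]
    simp only [PvtsFr.mul, pvtsExit]
    ring

/-- the lemmas which Lean writes on demand are written HERE, once -/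
theorem pvts_eqns_cite : True := by
  have := @PvtsFr.reg.eq_1; have := @PvtsFr.phi.eq_1; have := @pvtsT.eq_1.{0}; have := @PvtsFr.iso.eq_1; have := @PvtsInv.eq_1.{0}
  have := @pvtsReg.eq_1; have := @PvtsFr.one.eq_1; have := @PvtsFr.T.eq_1; have := @pvtsFrame.induct
  trivial

end Claimed.Agent.R289
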