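import Claimed.Agent.R289.Exit.DatP
import Claimed.Agent.R289.Tr.CellInv

/-!
# Row 289 (S0537, Cardy for Poisson-Voronoi), THE WALL, ROAD P, file Tr/SysInv : THE ENGINE IS COVARIANT      (helper95; prefix `pvyi_`, `pvyi`, `Pvyi`)

* sec. 1  any measurable equivalence `g` of the points with `μ.map (Conf.image g) = μ'`:   the objects `g w w2 k kin kout ii` of the carried sectors `pvyiT g a`, `pvyiT g b` are the transports of those of `a`, `b`.
* sec. 2  the model is invariant under the frames `pvydE c w` of 58 (translation by `w`, the colour `c` is called black).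
* sec. 3  `Exit/DatP` of 58:   **`pvyi_kref`** : `(pvydDat 𝔓 𝔤 c).kref` is the constant `𝔤.kin00` (field `kin0_eq` of `PvypCyc`);   **`pvyi_W`** : the cell means do not depend on the colour (field `W_eq`).
-/

set_option autoImplicit false

namespace Claimed.Agent.R289

open MeasureTheory Filter Topology Set Claims.C0465
open scoped ENNReal

/-! ## 1. the engine -/

section abs

variable {E F : Type*} [MeasurableSpace E] [MeasurableSpace F]

/-- a sector carried by a measurable equivalence of the points -/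
def pvyiT (g : E ≃ᵐ F) (a : PvsySec E) : PvsySec F :=
  ⟨g '' a.O, Conf.image g.toEquiv.symm ⁻¹' a.G, g '' a.K, Conf.image g.toEquiv.symm ⁻¹' a.A⟩

theorem pvyi_eqns_cite : True := by
  have := @pvyiT.eq_1.{0, 0}
  trivial

variable (g : E ≃ᵐ F) {μ : Measure (Conf E)} {μ' : Measure (Conf F)} (hμ : μ.map (Conf.image g) = μ') (a b : PvsySec E)

include hμ

theorem pvyi_g : (pvyiT g a).g μ' = pvciT g.toEquiv (a.g μ) := by
  funext η
  show (Conf.image g.toEquiv.symm ⁻¹' a.G).indicator 1 η / μ' (Conf.image g.toEquiv.symm ⁻¹' a.G) = a.G.indicator 1 (Conf.image g.toEquiv.symm η) / μ a.G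
  rw [pvci_measure_T g hμ]
  rfl

theorem pvyi_w : (pvyiT g a).w (pvyiT g b) μ' = pvciT g.toEquiv (a.w b μ) := by
  show pvtiW μ' (g '' a.O ∪ g '' b.O) (Conf.image g.toEquiv.symm ⁻¹' a.A) = _
  rw [← Set.image_union, pvci_W_T g hμ]
  rfl

theorem pvyi_w2 : (pvyiT g a).w2 (pvyiT g b) μ' = pvciT g.toEquiv (a.w2 b μ) := by
  funext η
  show (pvyiT g a).g μ' η * (pvyiT g b).g μ' η * (pvyiT g a).w (pvyiT g b) μ' η = _
  rw [pvyi_g g hμ, pvyi_g g hμ, pvyi_w g hμ]
  rfl

/-- **`k_e` is invariant** -/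
theorem pvyi_k (X : Conf E → ℂ) : (pvyiT g a).k (pvyiT g b) μ' (pvciT g.toEquiv X) = a.k b μ X := by
  unfold PvsySec.k
  rw [pvyi_w2 g hμ]
  exact pvci_integral_withDensity_T g hμ _ X

/-- **`kout_e` is covariant** -/
theorem pvyi_kout (X : Conf E → ℂ) : (pvyiT g a).kout (pvyiT g b) μ' (pvciT g.toEquiv X) = pvciT g.toEquiv (a.kout b μ X) := by
  have key := pvci_mean_T g hμ a.O (fun η => b.g μ η * a.w b μ η) X 1
  simp only [one_mul] at key
  unfold PvsySec.kout
  refine Eq.trans ?_ key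
  congr 1
  funext η
  rw [pvyi_g g hμ, pvyi_w g hμ]
  rfl

/-- **`kin_e` is covariant** -/
theorem pvyi_kin (X : Conf E → ℂ) : (pvyiT g a).kin (pvyiT g b) μ' (pvciT g.toEquiv X) = pvciT g.toEquiv (a.kin b μ X) := by
  have key := pvci_mean_T g hμ b.O (fun η => a.g μ η * a.w b μ η) X 1
  simp only [one_mul] at key
  unfold PvsySec.kin
  refine Eq.trans ?_ key
  congr 1
  funext η
  rw [pvyi_g g hμ, pvyi_w g hμ]
  rfl

/-- **`i_e` is covariant** -/
theorem pvyi_ii (X : Conf E → ℂ) : (pvyiT g a).ii (pvyiT g b) μ' (pvciT g.toEquiv X) = pvciT g.toEquiv (a.ii b μ X) := by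
  have key := pvci_mean_T g hμ (a.O ∪ b.O) (a.w b μ) X 1
  simp only [one_mul] at key
  unfold PvsySec.ii
  refine Eq.trans ?_ key
  rw [← pvyi_w g hμ, Set.image_union]
  rfl

end abs

/-! ## 2. the model is invariant under the frames of 58 -/

theorem pvyi_E_apply (c : Bool) (w : ℂ) (p : PvPt) : pvydE c w p = (p.1 + w, p.2 == c) := rfl

theorem pvyi_E_symm_apply (c : Bool) (w : ℂ) (p : PvPt) : (pvydE c w).symm p = (p.1 - w, p.2 == c) := rfl

/-- **I.INV for the frames** -/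
theorem pvyi_law (c : Bool) (w : ℂ) (ε : ℝ) : (pvP ε).map (Conf.image (pvydE c w)) = pvP ε := by
  have h1 : (pvP ε).map (Conf.image (pvciAff 1 w one_ne_zero)) = pvP ε := by
    have := pvci_law_aff 1 w one_ne_zero ε
    rwa [norm_one, one_mul] at this
  cases c
  · have e : Conf.image (pvydE false w) = cfFlip ∘ Conf.image (pvciAff 1 w one_ne_zero) := by
      funext η
      show _ = Conf.image (Prod.map id not) (Conf.image (pvciAff 1 w one_ne_zero) η)
      rw [pvci_image_image]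
      congr 1
      funext p
      refine Prod.ext ?_ ?_
      · show p.1 + w = 1 * p.1 + w
        ring
      · show (p.2 == false) = !p.2
        cases p.2 <;> rfl
    have hm : Measurable (cfFlip : Conf PvPt → Conf PvPt) := Conf.measurable_image (measurable_id.prodMap (measurable_of_countable _))
    rw [e, ← Measure.map_map hm (Conf.measurable_image (pvciAff 1 w one_ne_zero).measurable), h1, pvP_flip]
  · have e : Conf.image (pvydE true w) = Conf.image (pvciAff 1 w one_ne_zero) := by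
      congr 1
      funext p
      refine Prod.ext ?_ ?_
      · show p.1 + w = 1 * p.1 + w
        ring
      · show (p.2 == true) = p.2
        cases p.2 <;> rfl
    rw [e, h1]

/-- a frame carries a colour blind region to its translate -/
theorem pvyi_E_image (c : Bool) (w : ℂ) (U : Set ℂ) : pvydE c w '' (U ×ˢ univ) = (pvthSim w 1 '' U) ×ˢ univ := by
  ext p
  constructor
  · rintro ⟨q, ⟨hq, -⟩, rfl⟩
    exact ⟨⟨q.1, hq, by show w + 1 * q.1 = q.1 + w; ring⟩, mem_univ _⟩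
  · rintro ⟨⟨x, hx, hxp⟩, -⟩
    refine ⟨(x, p.2 == c), ⟨hx, mem_univ _⟩, Prod.ext ?_ ?_⟩
    · show x + w = p.1
      rw [← hxp]
      show x + w = w + 1 * x
      ring
    · show ((p.2 == c) == c) = p.2
      cases p.2 <;> cases c <;> rfl

theorem pvyi_sim_sim (w z d : ℂ) (U : Set ℂ) : pvthSim w 1 '' (pvthSim z d '' U) = pvthSim (w + z) d '' U := by
  rw [Set.image_image]
  refine Set.image_congr fun x _ => ?_
  show w + 1 * (z + d * x) = w + z + d * x
  ring

/-- the placed events of the kit of colour `c` are the carried placed events of the kit -/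
theorem pvyi_kit_pre (c : Bool) (w z d : ℂ) (S : Set (Conf PvPt)) :
    cfMap (pvthInv (w + z) d) ⁻¹' (pvydFl c ⁻¹' S) = Conf.image (pvydE c w).toEquiv.symm ⁻¹' (cfMap (pvthInv z d) ⁻¹' S) := by
  ext η
  show pvydFl c (cfMap (pvthInv (w + z) d) η) ∈ S ↔ cfMap (pvthInv z d) (Conf.image (pvydE c w).toEquiv.symm η) ∈ S
  have e : pvydFl c (cfMap (pvthInv (w + z) d) η) = cfMap (pvthInv z d) (Conf.image (pvydE c w).toEquiv.symm η) := by
    unfold pvydFl cfMap
    rw [pvci_image_image, pvci_image_image]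
    congr 1
    funext p
    refine Prod.ext ?_ rfl
    show (p.1 - (w + z)) / d = (p.1 - w - z) / d
    ring
  rw [e]

/-- **a door plug of colour `c` with a carried connector is the carried door plug** -/
theorem pvyi_door (kit : PvthKit) (c : Bool) (w z d : ℂ) (K : Set ℂ) (A : Set (Conf PvPt)) :
    pvskDoor (pvydKit kit c) (w + z) d ((pvthSim w 1 '' K) ×ˢ univ) (Conf.image (pvydE c w).toEquiv.symm ⁻¹' A) = pvyiT (pvydE c w) (pvskDoor kit z d (K ×ˢ univ) A) := by
  unfold pvyiT pvskDoor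
  congr 1
  · show (pvthSim (w + z) d '' kit.O₀) ×ˢ univ = pvydE c w '' ((pvthSim z d '' kit.O₀) ×ˢ univ)
    rw [pvyi_E_image, pvyi_sim_sim]
  · exact pvyi_kit_pre c w z d kit.G₀
  · exact (pvyi_E_image c w K).symm

/-- the colour frame at the origin -/
theorem pvyi_fl (c : Bool) : pvydFl c = Conf.image (pvydE c 0).toEquiv.symm := by
  funext η
  unfold pvydFl
  congr 1
  funext p
  refine Prod.ext ?_ rfl
  show p.1 = p.1 - 0
  ring

theorem pvyi_E0_image (c : Bool) (U : Set ℂ) : pvydE c 0 '' (U ×ˢ univ) = U ×ˢ univ := by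
  rw [pvyi_E_image]
  congr 1
  have : pvthSim 0 1 = id := by
    funext x
    show 0 + 1 * x = x
    ring
  rw [this, Set.image_id]

section kitc

variable (kit : PvthKit) (c : Bool) (ε : ℝ)

theorem pvyi_kit_G (z d : ℂ) : (pvydKit kit c).G z d = Conf.image (pvydE c 0).toEquiv.symm ⁻¹' kit.G z d := by
  have := pvyi_kit_pre c 0 z d kit.G₀
  rwa [zero_add] at this

theorem pvyi_kit_A (z d : ℂ) (τ : PvtTurn) : (pvydKit kit c).A z d τ = Conf.image (pvydE c 0).toEquiv.symm ⁻¹' kit.A z d τ := by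
  have := pvyi_kit_pre c 0 z d (kit.A₀ τ)
  rwa [zero_add] at this

theorem pvyi_kit_G0 : pvP ε (pvydKit kit c).G₀ = pvP ε kit.G₀ := by
  show pvP ε (pvydFl c ⁻¹' kit.G₀) = _
  rw [pvyi_fl]
  exact pvci_measure_T (pvydE c 0) (pvyi_law c 0 ε) kit.G₀

theorem pvyi_kit_OO (z d : ℂ) (τ : PvtTurn) : (pvydKit kit c).OO z d τ = pvydE c 0 '' kit.OO z d τ := by
  show kit.OO z d τ = _
  unfold PvthKit.OO PvthKit.O
  rw [Set.image_union, pvyi_E0_image, pvyi_E0_image]

theorem pvyi_kit_g (z d : ℂ) : (pvydKit kit c).g (pvP ε) z d = pvciT (pvydE c 0).toEquiv (kit.g (pvP ε) z d) := by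
  funext η
  unfold PvthKit.g
  rw [pvyi_kit_G, pvyi_kit_G0]
  rfl

theorem pvyi_kit_w (z d : ℂ) (τ : PvtTurn) : (pvydKit kit c).w (pvP ε) z d τ = pvciT (pvydE c 0).toEquiv (kit.w (pvP ε) z d τ) := by
  unfold PvthKit.w
  rw [pvyi_kit_OO, pvyi_kit_A, pvci_W_T (pvydE c 0) (pvyi_law c 0 ε)]

theorem pvyi_kit_w2 (z d : ℂ) (τ : PvtTurn) : (pvydKit kit c).w2 (pvP ε) z d τ = pvciT (pvydE c 0).toEquiv (kit.w2 (pvP ε) z d τ) := by
  funext η
  unfold PvthKit.w2
  rw [pvyi_kit_g, pvyi_kit_g, pvyi_kit_w]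
  rfl

/-- the cell constant does not depend on the colour -/
theorem pvyi_kit_k (X₀ : PvtTurn → Conf PvPt → ℂ) (τ : PvtTurn) : (pvydKit kit c).k (pvP ε) (pvydX X₀ c) τ = kit.k (pvP ε) X₀ τ := by
  unfold PvthKit.k
  rw [pvyi_kit_w2]
  have e : pvydX X₀ c τ = pvciT (pvydE c 0).toEquiv (X₀ τ) := by
    funext η
    unfold pvydX
    rw [pvyi_fl]
    rfl
  rw [e]
  exact pvci_integral_withDensity_T (pvydE c 0) (pvyi_law c 0 ε) _ (X₀ τ)

/-- **FIELD `W_eq` OF `PvypCyc` AT THE TERM OF 58**: the cell means do not depend on the colour -/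
theorem pvyi_W (X₀ : PvtTurn → Conf PvPt → ℂ) : (pvydKit kit c).W (pvP ε) (pvydX X₀ c) = kit.W (pvP ε) X₀ := by
  unfold PvthKit.W
  rw [pvyi_kit_k, pvyi_kit_k, pvyi_kit_k]

theorem pvyi_kit_O (z d : ℂ) : (pvydKit kit c).O z d = pvydE c 0 '' kit.O z d := by
  show kit.O z d = _
  unfold PvthKit.O
  rw [pvyi_E0_image]

theorem pvyi_kit_K (z d : ℂ) (τ : PvtTurn) : (pvydKit kit c).K z d τ = pvydE c 0 '' kit.K z d τ := by
  show kit.K z d τ = _
  unfold PvthKit.K
  rw [pvyi_E0_image]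

variable {kit}

/-- the kit of colour `c` is well formed -/
theorem pvyi_kit_wf (h : kit.WF) : (pvydKit kit c).WF where
  δ0 := h.δ0
  mO := h.mO
  mK := h.mK
  mG := by
    show MeasurableSet (pvydFl c ⁻¹' kit.G₀)
    rw [pvyi_fl]
    exact pvci_T_measurableSet (pvydE c 0) h.mG
  mA := fun τ => by
    show MeasurableSet (pvydFl c ⁻¹' kit.A₀ τ)
    rw [pvyi_fl]
    exact pvci_T_measurableSet (pvydE c 0) (h.mA τ)
  rG := by
    rw [pvyi_kit_O]
    show Conf.Reads _ (fun η => η ∈ pvydFl c ⁻¹' kit.G₀)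
    rw [pvyi_fl]
    exact pvci_T_reads (pvydE c 0).toEquiv h.rG
  rA := fun τ => by
    rw [pvyi_kit_OO, pvyi_kit_K, ← Set.image_union]
    show Conf.Reads _ (fun η => η ∈ pvydFl c ⁻¹' kit.A₀ τ)
    rw [pvyi_fl]
    exact pvci_T_reads (pvydE c 0).toEquiv (h.rA τ)

/-- the field of colour `c` -/
theorem pvyi_kit_fld {X₀ : PvtTurn → Conf PvPt → ℂ} (h : kit.Fld X₀) : (pvydKit kit c).Fld (pvydX X₀ c) where
  meas := fun τ => by
    have e : pvydX X₀ c τ = pvciT (pvydE c 0).toEquiv (X₀ τ) := by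
      funext η
      unfold pvydX
      rw [pvyi_fl]
      rfl
    rw [e]
    exact pvci_T_measurable (pvydE c 0) (h.meas τ)
  reads := fun τ => by
    have e : pvydX X₀ c τ = pvciT (pvydE c 0).toEquiv (X₀ τ) := by
      funext η
      unfold pvydX
      rw [pvyi_fl]
      rfl
    rw [e, pvyi_kit_OO, pvyi_kit_K, ← Set.image_union]
    exact pvci_T_reads (pvydE c 0).toEquiv (h.reads τ)

/-- admission and forcing of the kit of colour `c` -/
theorem pvyi_kit_forced {ε} {β' q : ℝ≥0∞} (h : kit.Forced (pvP ε) β' q) : (pvydKit kit c).Forced (pvP ε) β' q where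
  β0 := h.β0
  q0 := h.q0
  adm := by rw [pvyi_kit_G0]; exact h.adm
  frc := fun τ σ h1 h2 => by
    have e1 : (pvydKit kit c).A₀ τ = Conf.image (pvydE c 0).toEquiv.symm ⁻¹' kit.A₀ τ := by
      show pvydFl c ⁻¹' kit.A₀ τ = _
      rw [pvyi_fl]
    rw [pvyi_kit_OO, e1, pvci_P_T (pvydE c 0) (pvyi_law c 0 ε)]
    refine h.frc τ _ ?_ ?_
    · have : σ ∈ pvydFl c ⁻¹' kit.G₀ := h1
      rwa [pvyi_fl] at this
    · rw [pvyi_kit_G] at h2
      exact h2

end kitc

/-! ## 3. `Exit/DatP` -/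

section dat

variable {τ : Type} {cc : ℝ} (𝔓 : PvrxPar τ cc) (𝔤 : PvydGeo τ) (c : Bool)

/-- **FIELD `kin0_eq` OF `PvypCyc` AT THE TERM OF 58**: the constant of the reference plug does not depend on the candidate, nor on the colour -/
theorem pvyi_kref (m : ℕ) (ε : ℝ) (a z : ℂ) (t : τ) : (pvydDat 𝔓 𝔤 c).kref 𝔓.Γ m ε a z t = 𝔤.kin00 𝔓 m ε := by
  have hμ := pvyi_law c (pvydWu 𝔓 m z t) ε
  unfold PvydGeo.kin00
  rw [← pvyi_k (pvydE c (pvydWu 𝔓 m z t)) hμ, ← pvyi_door]
  unfold PvypDat.kref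
  have e : z + (𝔓.Γ m).zu t + (𝔓.Γ m).pin0 = pvydWu 𝔓 m z t + (𝔓.Γ m).pin0 := rfl
  rw [e]
  exact pvsk_k_congr (E := PvPt) _ (b := (pvydDat 𝔓 𝔤 c).sRef m ε z t) (b' := pvyiT (pvydE c (pvydWu 𝔓 m z t)) ⟨𝔤.Ou m ×ˢ univ, 𝔤.Gu m ε, ∅, univ⟩)
    (pvyi_E_image c (pvydWu 𝔓 m z t) (𝔤.Ou m)).symm rfl _ _

end dat

end Claimed.Agent.R289
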