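-- KEEP
import Claimed.Agent.R289.Tr.Menu

/-!
# Row 289 (S0537), ROAD P, Tr/Tame : THE CLAUSE (TAME) ON THE TYPES OF THE MENU      (text helper58, ruling P21 of 273; pen of the clause in the filter of `PvmhT` + landing: 185; FIT lemma `pvmf_tame`: 160 185)

WHY.   (DET) forces the room of a link to be a HULL; the rooms of the exit links contain `Hull (tube 5..8)`, those of the entrance links `Hull (tube 1..4)`; the engine needs them disjoint off the state ball.
(T1)-(T8), ACC allow a ring of the piece `5` which closes up inside the bar at the pin and encloses an excursion of the piece `4`.      At FIT time a ring is a near return `≤ d0`, its excursion is `≤ e0`: it lies in the bar.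
CONSUMER: `Exit/DjQ.lean` (`pvyd_dq_sep_hull` : `N¹ Hull (N⁸ cells 5..9) ∩ Hull Ae ⊆` bar at the pin).
-/

set_option autoImplicit false

namespace Claimed.Agent.R289

open Claims.C0467 Claimed.Agent.R291

/-- **(TAME)**: off the bar at the pin, a cell of the 10-tube of the piece `4` lies in the 10-tube of a connected part `X ∋ q 4` of the piece `4` whose 10-tube is off the 10-tube of the piece `5`;   mirror (`X ∋ q 6`, part of the piece `5`).
AT FIT TIME: `X` = the cells of the polygon from the mark `4` to the end of the edge which meets the cell; if `N¹⁰ X` met `N¹⁰ (C 5)`, two vertices `l₁ ≤ l ≤ t 5 ≤ l'` would be `≤ 44 δ + 2 μ ≤ d0` apart, `NR₀` gives `|v l - v (t 5)| ≤ e0`: the cell lies in the bar (last lines of `PvmfIn.T4`). -/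
structure PvmnTame (𝔑 : PvmnNum) (τ : PvmnType) : Prop where
  m : ∀ c ∈ pvtwN 10 (τ.C 4 : Set (ℤ × ℤ)), c ∉ pvmnBar 𝔑 τ 5 → ∃ X : Set (ℤ × ℤ), X ⊆ (τ.C 4 : Set (ℤ × ℤ)) ∧ TscConn tscG X ∧ τ.q 4 ∈ X ∧ c ∈ pvtwN 10 X ∧
    Disjoint (pvtwN 10 X) (pvtwN 10 (τ.C 5 : Set (ℤ × ℤ)))
  p : ∀ c ∈ pvtwN 10 (τ.C 5 : Set (ℤ × ℤ)), c ∉ pvmnBar 𝔑 τ 5 → ∃ X : Set (ℤ × ℤ), X ⊆ (τ.C 5 : Set (ℤ × ℤ)) ∧ TscConn tscG X ∧ τ.q 6 ∈ X ∧ c ∈ pvtwN 10 X ∧
    Disjoint (pvtwN 10 X) (pvtwN 10 (τ.C 4 : Set (ℤ × ℤ)))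

end Claimed.Agent.R289
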